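import Vale.Agent.Lib.P154.PChain.BA.R5_0

set_option linter.all false

namespace Vale.Agent.Lib.P154.PChain.BA.S6

open Vale.Agent.Lib.P154.Chain

noncomputable def pc0 : PT := (PT.nd (nat_lit 1399944) (PT.nd (nat_lit 1028352) (PT.nd (nat_lit 816114) (PT.nd (nat_lit 709956) (PT.nd (nat_lit 709878) (PT.nd (nat_lit 656838) PT.nil (PT.lf (nat_lit 152) (nat_lit 3) (nat_lit 2) (nat_lit 1) (nat_lit 249) (nat_lit 12) (nat_lit 249))) (PT.lf (nat_lit 228) (nat_lit 6) (nat_lit 3) (nat_lit 3) (nat_lit 248) (nat_lit 13) (nat_lit 249))) (PT.nd (nat_lit 53040) (PT.lf (nat_lit 228) (nat_lit 6) (nat_lit 3) (nat_lit 1) (nat_lit 249) (nat_lit 13) (nat_lit 248)) (PT.nd (nat_lit 53040) (PT.lf (nat_lit 380) (nat_lit 3) (nat_lit 5) (nat_lit 1) (nat_lit 248) (nat_lit 14) (nat_lit 248)) (PT.lf (nat_lit 456) (nat_lit 6) (nat_lit 6) (nat_lit 3) (nat_lit 247) (nat_lit 15) (nat_lit 248))))) (PT.nd (nat_lit 106080) (PT.nd (nat_lit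 53040) (PT.lf (nat_lit 456) (nat_lit 6) (nat_lit 6) (nat_lit 1) (nat_lit 248) (nat_lit 15) (nat_lit 247)) (PT.lf (nat_lit 608) (nat_lit 3) (nat_lit 8) (nat_lit 1) (nat_lit 247) (nat_lit 16) (nat_lit 247))) (PT.nd (nat_lit 78) (PT.lf (nat_lit 684) (nat_lit 6) (nat_lit 9) (nat_lit 3) (nat_lit 246) (nat_lit 17) (nat_lit 247)) (PT.nd (nat_lit 53040) (PT.lf (nat_lit 684) (nat_lit 6) (nat_lit 9) (nat_lit 1) (nat_lit 247) (nat_lit 17) (nat_lit 246)) (PT.lf (nat_lit 836) (nat_lit 3) (nat_lit 11) (nat_lit 1) (nat_lit 246) (nat_lit 18) (nat_lit 246)))))) (PT.nd (nat_lit 159276) (PT.nd (nat_lit 53118) (PT.nd (nat_lit 78) (PT.lf (nat_lit 912) (nat_lit 6) (nat_lit 12) (nat_lit 3) (nat_lit 245) (nat_lit 19) (nat_lit 246)) (PT.lf (nat_lit 912) (nat_lit 6) (nat_lit 12) (nat_lit 1) (nat_lit 246) (nat_lit 19) (nat_lit 245))) (PT.nd (nat_lit 53040) (PT.lf (nat_lit 1064) (nat_lit 3) (nat_lit 14) (nat_lit 1) (nat_lit 245)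 (nat_lit 20) (nat_lit 245)) (PT.nd (nat_lit 78) (PT.lf (nat_lit 1140) (nat_lit 6) (nat_lit 15) (nat_lit 3) (nat_lit 244) (nat_lit 21) (nat_lit 245)) (PT.lf (nat_lit 1140) (nat_lit 6) (nat_lit 15) (nat_lit 1) (nat_lit 245) (nat_lit 21) (nat_lit 244))))) (PT.nd (nat_lit 106158) (PT.nd (nat_lit 53040) (PT.lf (nat_lit 1292) (nat_lit 3) (nat_lit 17) (nat_lit 1) (nat_lit 244) (nat_lit 22) (nat_lit 244)) (PT.nd (nat_lit 78) (PT.lf (nat_lit 1368) (nat_lit 6) (nat_lit 18) (nat_lit 3) (nat_lit 243) (nat_lit 23) (nat_lit 244)) (PT.lf (nat_lit 1368) (nat_lit 6) (nat_lit 18) (nat_lit 1) (nat_lit 244) (nat_lit 23) (nat_lit 243)))) (PT.nd (nat_lit 53040) (PT.lf (nat_lit 1520) (nat_lit 3) (nat_lit 20) (nat_lit 1) (nat_lit 243) (nat_lit 24) (nat_lit 243)) (PT.nd (nat_lit 78) (PT.lf (nat_lit 1596) (nat_lit 6) (nat_lit 21) (nat_lit 3) (nat_lit 242) (nat_lit 25) (nat_lit 243)) (PT.lf (nat_lit 1596) (nat_lit 6) (nat_lit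 21) (nat_lit 1) (nat_lit 243) (nat_lit 25) (nat_lit 242))))))) (PT.nd (nat_lit 265356) (PT.nd (nat_lit 106236) (PT.nd (nat_lit 53118) (PT.nd (nat_lit 53040) (PT.lf (nat_lit 1748) (nat_lit 3) (nat_lit 23) (nat_lit 1) (nat_lit 242) (nat_lit 26) (nat_lit 242)) (PT.lf (nat_lit 1824) (nat_lit 6) (nat_lit 24) (nat_lit 3) (nat_lit 241) (nat_lit 27) (nat_lit 242))) (PT.nd (nat_lit 52962) (PT.lf (nat_lit 1824) (nat_lit 6) (nat_lit 24) (nat_lit 1) (nat_lit 242) (nat_lit 27) (nat_lit 241)) (PT.nd (nat_lit 78) (PT.lf (nat_lit 1900) (nat_lit 6) (nat_lit 25) (nat_lit 3) (nat_lit 240) (nat_lit 28) (nat_lit 242)) (PT.lf (nat_lit 1976) (nat_lit 3) (nat_lit 26) (nat_lit 1) (nat_lit 241) (nat_lit 28) (nat_lit 241))))) (PT.nd (nat_lit 106002) (PT.nd (nat_lit 52962) (PT.lf (nat_lit 1900) (nat_lit 6) (nat_lit 25) (nat_lit 1) (nat_lit 242) (nat_lit 28) (nat_lit 240)) (PT.nd (nat_lit 78) (PT.lf (nat_lit 2052) (nat_lit 6) (nat_lit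 27) (nat_lit 3) (nat_lit 240) (nat_lit 29) (nat_lit 241)) (PT.lf (nat_lit 2052) (nat_lit 6) (nat_lit 27) (nat_lit 1) (nat_lit 241) (nat_lit 29) (nat_lit 240)))) (PT.nd (nat_lit 78) (PT.lf (nat_lit 2128) (nat_lit 6) (nat_lit 28) (nat_lit 3) (nat_lit 239) (nat_lit 30) (nat_lit 241)) (PT.nd (nat_lit 78) (PT.lf (nat_lit 2204) (nat_lit 3) (nat_lit 29) (nat_lit 1) (nat_lit 240) (nat_lit 30) (nat_lit 240)) (PT.lf (nat_lit 2128) (nat_lit 6) (nat_lit 28) (nat_lit 1) (nat_lit 241) (nat_lit 30) (nat_lit 239)))))) (PT.nd (nat_lit 106158) (PT.nd (nat_lit 53040) (PT.nd (nat_lit 78) (PT.lf (nat_lit 2280) (nat_lit 6) (nat_lit 30) (nat_lit 3) (nat_lit 239) (nat_lit 31) (nat_lit 240)) (PT.lf (nat_lit 2280) (nat_lit 6) (nat_lit 30) (nat_lit 1) (nat_lit 240) (nat_lit 31) (nat_lit 239))) (PT.nd (nat_lit 78) (PT.lf (nat_lit 2356) (nat_lit 6) (nat_lit 31) (nat_lit 3) (nat_lit 238) (nat_lit 32) (nat_lit 240)) (PT.nd (nat_lit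 78) (PT.lf (nat_lit 2432) (nat_lit 3) (nat_lit 32) (nat_lit 1) (nat_lit 239) (nat_lit 32) (nat_lit 239)) (PT.lf (nat_lit 2356) (nat_lit 6) (nat_lit 31) (nat_lit 1) (nat_lit 240) (nat_lit 32) (nat_lit 238))))) (PT.nd (nat_lit 53118) (PT.nd (nat_lit 78) (PT.lf (nat_lit 2508) (nat_lit 6) (nat_lit 33) (nat_lit 3) (nat_lit 238) (nat_lit 33) (nat_lit 239)) (PT.nd (nat_lit 52962) (PT.lf (nat_lit 2508) (nat_lit 6) (nat_lit 33) (nat_lit 1) (nat_lit 239) (nat_lit 33) (nat_lit 238)) (PT.lf (nat_lit 2584) (nat_lit 6) (nat_lit 34) (nat_lit 3) (nat_lit 237) (nat_lit 34) (nat_lit 239)))) (PT.nd (nat_lit 78) (PT.lf (nat_lit 2660) (nat_lit 3) (nat_lit 35) (nat_lit 1) (nat_lit 238) (nat_lit 34) (nat_lit 238)) (PT.nd (nat_lit 52962) (PT.lf (nat_lit 2584) (nat_lit 6) (nat_lit 34) (nat_lit 1) (nat_lit 239) (nat_lit 34) (nat_lit 237)) (PT.lf (nat_lit 2736) (nat_lit 6) (nat_lit 36) (nat_lit 3) (nat_lit 237) (nat_lit 35) (nat_lit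 238))))))))
noncomputable def pc1 : PT := (PT.nd (nat_lit 477672) (PT.nd (nat_lit 265278) (PT.nd (nat_lit 106158) (PT.nd (nat_lit 53040) (PT.nd (nat_lit 52962) (PT.lf (nat_lit 2736) (nat_lit 6) (nat_lit 36) (nat_lit 1) (nat_lit 238) (nat_lit 35) (nat_lit 237)) (PT.lf (nat_lit 2812) (nat_lit 6) (nat_lit 37) (nat_lit 3) (nat_lit 236) (nat_lit 36) (nat_lit 238))) (PT.nd (nat_lit 78) (PT.lf (nat_lit 2888) (nat_lit 3) (nat_lit 38) (nat_lit 1) (nat_lit 237) (nat_lit 36) (nat_lit 237)) (PT.nd (nat_lit 52962) (PT.lf (nat_lit 2812) (nat_lit 6) (nat_lit 37) (nat_lit 1) (nat_lit 238) (nat_lit 36) (nat_lit 236)) (PT.lf (nat_lit 2964) (nat_lit 6) (nat_lit 39) (nat_lit 3) (nat_lit 236) (nat_lit 37) (nat_lit 237))))) (PT.nd (nat_lit 53118) (PT.nd (nat_lit 52962) (PT.lf (nat_lit 2964) (nat_lit 6) (nat_lit 39) (nat_lit 1) (nat_lit 237) (nat_lit 37) (nat_lit 236)) (PT.nd (nat_lit 78) (PT.lf (nat_lit 3040) (nat_lit 6)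 (nat_lit 40) (nat_lit 3) (nat_lit 235) (nat_lit 38) (nat_lit 237)) (PT.lf (nat_lit 3116) (nat_lit 3) (nat_lit 41) (nat_lit 1) (nat_lit 236) (nat_lit 38) (nat_lit 236)))) (PT.nd (nat_lit 52962) (PT.lf (nat_lit 3040) (nat_lit 6) (nat_lit 40) (nat_lit 1) (nat_lit 237) (nat_lit 38) (nat_lit 235)) (PT.nd (nat_lit 78) (PT.lf (nat_lit 3192) (nat_lit 6) (nat_lit 42) (nat_lit 3) (nat_lit 235) (nat_lit 39) (nat_lit 236)) (PT.lf (nat_lit 3192) (nat_lit 6) (nat_lit 42) (nat_lit 1) (nat_lit 236) (nat_lit 39) (nat_lit 235)))))) (PT.nd (nat_lit 106158) (PT.nd (nat_lit 156) (PT.nd (nat_lit 78) (PT.lf (nat_lit 3268) (nat_lit 6) (nat_lit 43) (nat_lit 3) (nat_lit 234) (nat_lit 40) (nat_lit 236)) (PT.lf (nat_lit 3344) (nat_lit 3) (nat_lit 44) (nat_lit 1) (nat_lit 235) (nat_lit 40) (nat_lit 235))) (PT.nd (nat_lit 52962) (PT.lf (nat_lit 3268) (nat_lit 6) (nat_lit 43) (nat_lit 1) (nat_lit 236) (nat_lit 40) (nat_lit 234))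 (PT.nd (nat_lit 78) (PT.lf (nat_lit 3420) (nat_lit 6) (nat_lit 45) (nat_lit 3) (nat_lit 234) (nat_lit 41) (nat_lit 235)) (PT.lf (nat_lit 3420) (nat_lit 6) (nat_lit 45) (nat_lit 1) (nat_lit 235) (nat_lit 41) (nat_lit 234))))) (PT.nd (nat_lit 53118) (PT.nd (nat_lit 78) (PT.lf (nat_lit 3496) (nat_lit 6) (nat_lit 46) (nat_lit 3) (nat_lit 233) (nat_lit 42) (nat_lit 235)) (PT.nd (nat_lit 78) (PT.lf (nat_lit 3572) (nat_lit 3) (nat_lit 47) (nat_lit 1) (nat_lit 234) (nat_lit 42) (nat_lit 234)) (PT.lf (nat_lit 3496) (nat_lit 6) (nat_lit 46) (nat_lit 1) (nat_lit 235) (nat_lit 42) (nat_lit 233)))) (PT.nd (nat_lit 78) (PT.lf (nat_lit 3648) (nat_lit 6) (nat_lit 48) (nat_lit 3) (nat_lit 233) (nat_lit 43) (nat_lit 234)) (PT.nd (nat_lit 52962) (PT.lf (nat_lit 3648) (nat_lit 6) (nat_lit 48) (nat_lit 1) (nat_lit 234) (nat_lit 43) (nat_lit 233)) (PT.lf (nat_lit 3724) (nat_lit 6) (nat_lit 49) (nat_lit 3) (nat_lit 232) (nat_lit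 44) (nat_lit 234))))))) (PT.nd (nat_lit 212394) (PT.nd (nat_lit 106158) (PT.nd (nat_lit 53040) (PT.nd (nat_lit 78) (PT.lf (nat_lit 3800) (nat_lit 3) (nat_lit 50) (nat_lit 1) (nat_lit 233) (nat_lit 44) (nat_lit 233)) (PT.lf (nat_lit 3724) (nat_lit 6) (nat_lit 49) (nat_lit 1) (nat_lit 234) (nat_lit 44) (nat_lit 232))) (PT.nd (nat_lit 78) (PT.lf (nat_lit 3876) (nat_lit 6) (nat_lit 51) (nat_lit 3) (nat_lit 232) (nat_lit 45) (nat_lit 233)) (PT.nd (nat_lit 52962) (PT.lf (nat_lit 3876) (nat_lit 6) (nat_lit 51) (nat_lit 1) (nat_lit 233) (nat_lit 45) (nat_lit 232)) (PT.lf (nat_lit 3952) (nat_lit 6) (nat_lit 52) (nat_lit 3) (nat_lit 231) (nat_lit 46) (nat_lit 233))))) (PT.nd (nat_lit 53118) (PT.nd (nat_lit 78) (PT.lf (nat_lit 4028) (nat_lit 3) (nat_lit 53) (nat_lit 1) (nat_lit 232) (nat_lit 46) (nat_lit 232)) (PT.nd (nat_lit 52962) (PT.lf (nat_lit 3952) (nat_lit 6) (nat_lit 52) (nat_lit 1) (nat_lit 233) (nat_lit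 46) (nat_lit 231)) (PT.lf (nat_lit 4104) (nat_lit 6) (nat_lit 54) (nat_lit 3) (nat_lit 231) (nat_lit 47) (nat_lit 232)))) (PT.nd (nat_lit 52962) (PT.lf (nat_lit 4104) (nat_lit 6) (nat_lit 54) (nat_lit 1) (nat_lit 232) (nat_lit 47) (nat_lit 231)) (PT.nd (nat_lit 78) (PT.lf (nat_lit 4180) (nat_lit 6) (nat_lit 55) (nat_lit 3) (nat_lit 230) (nat_lit 48) (nat_lit 232)) (PT.lf (nat_lit 4256) (nat_lit 3) (nat_lit 56) (nat_lit 1) (nat_lit 231) (nat_lit 48) (nat_lit 231)))))) (PT.nd (nat_lit 106158) (PT.nd (nat_lit 53040) (PT.nd (nat_lit 52962) (PT.lf (nat_lit 4180) (nat_lit 6) (nat_lit 55) (nat_lit 1) (nat_lit 232) (nat_lit 48) (nat_lit 230)) (PT.lf (nat_lit 4332) (nat_lit 6) (nat_lit 57) (nat_lit 3) (nat_lit 230) (nat_lit 49) (nat_lit 231))) (PT.nd (nat_lit 52962) (PT.lf (nat_lit 4332) (nat_lit 6) (nat_lit 57) (nat_lit 1) (nat_lit 231) (nat_lit 49) (nat_lit 230)) (PT.nd (nat_lit 78) (PT.lf (nat_lit 4408) (nat_lit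 6) (nat_lit 58) (nat_lit 3) (nat_lit 229) (nat_lit 50) (nat_lit 231)) (PT.lf (nat_lit 4484) (nat_lit 3) (nat_lit 59) (nat_lit 1) (nat_lit 230) (nat_lit 50) (nat_lit 230))))) (PT.nd (nat_lit 106002) (PT.nd (nat_lit 52962) (PT.lf (nat_lit 4408) (nat_lit 6) (nat_lit 58) (nat_lit 1) (nat_lit 231) (nat_lit 50) (nat_lit 229)) (PT.nd (nat_lit 78) (PT.lf (nat_lit 4560) (nat_lit 6) (nat_lit 60) (nat_lit 3) (nat_lit 229) (nat_lit 51) (nat_lit 230)) (PT.lf (nat_lit 4560) (nat_lit 6) (nat_lit 60) (nat_lit 1) (nat_lit 230) (nat_lit 51) (nat_lit 229)))) (PT.nd (nat_lit 78) (PT.lf (nat_lit 4636) (nat_lit 6) (nat_lit 61) (nat_lit 3) (nat_lit 228) (nat_lit 52) (nat_lit 230)) (PT.nd (nat_lit 78) (PT.lf (nat_lit 4712) (nat_lit 3) (nat_lit 62) (nat_lit 1) (nat_lit 229) (nat_lit 52) (nat_lit 229)) (PT.lf (nat_lit 4636) (nat_lit 6) (nat_lit 61) (nat_lit 1) (nat_lit 230) (nat_lit 52) (nat_lit 228))))))))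
noncomputable def pc2 : PT := (PT.nd (nat_lit 424710) (PT.nd (nat_lit 212316) (PT.nd (nat_lit 106158) (PT.nd (nat_lit 53040) (PT.nd (nat_lit 78) (PT.lf (nat_lit 4788) (nat_lit 6) (nat_lit 63) (nat_lit 3) (nat_lit 228) (nat_lit 53) (nat_lit 229)) (PT.lf (nat_lit 4788) (nat_lit 6) (nat_lit 63) (nat_lit 1) (nat_lit 229) (nat_lit 53) (nat_lit 228))) (PT.nd (nat_lit 78) (PT.lf (nat_lit 4864) (nat_lit 6) (nat_lit 64) (nat_lit 3) (nat_lit 227) (nat_lit 54) (nat_lit 229)) (PT.nd (nat_lit 78) (PT.lf (nat_lit 4940) (nat_lit 3) (nat_lit 65) (nat_lit 1) (nat_lit 228) (nat_lit 54) (nat_lit 228)) (PT.lf (nat_lit 4864) (nat_lit 6) (nat_lit 64) (nat_lit 1) (nat_lit 229) (nat_lit 54) (nat_lit 227))))) (PT.nd (nat_lit 53040) (PT.nd (nat_lit 78) (PT.lf (nat_lit 5016) (nat_lit 6) (nat_lit 66) (nat_lit 3) (nat_lit 227) (nat_lit 55) (nat_lit 228)) (PT.lf (nat_lit 5016) (nat_lit 6) (nat_lit 66) (nat_lit 1) (nat_lit 228) (nat_lit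 55) (nat_lit 227))) (PT.nd (nat_lit 78) (PT.lf (nat_lit 5092) (nat_lit 6) (nat_lit 67) (nat_lit 3) (nat_lit 226) (nat_lit 56) (nat_lit 228)) (PT.nd (nat_lit 78) (PT.lf (nat_lit 5168) (nat_lit 3) (nat_lit 68) (nat_lit 1) (nat_lit 227) (nat_lit 56) (nat_lit 227)) (PT.lf (nat_lit 5092) (nat_lit 6) (nat_lit 67) (nat_lit 1) (nat_lit 228) (nat_lit 56) (nat_lit 226)))))) (PT.nd (nat_lit 106158) (PT.nd (nat_lit 53040) (PT.nd (nat_lit 78) (PT.lf (nat_lit 5244) (nat_lit 6) (nat_lit 69) (nat_lit 3) (nat_lit 226) (nat_lit 57) (nat_lit 227)) (PT.lf (nat_lit 5244) (nat_lit 6) (nat_lit 69) (nat_lit 1) (nat_lit 227) (nat_lit 57) (nat_lit 226))) (PT.nd (nat_lit 78) (PT.lf (nat_lit 5320) (nat_lit 6) (nat_lit 70) (nat_lit 3) (nat_lit 225) (nat_lit 58) (nat_lit 227)) (PT.nd (nat_lit 78) (PT.lf (nat_lit 5396) (nat_lit 3) (nat_lit 71) (nat_lit 1) (nat_lit 226) (nat_lit 58) (nat_lit 226)) (PT.lf (nat_lit 5320) (nat_lit 6)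 (nat_lit 70) (nat_lit 1) (nat_lit 227) (nat_lit 58) (nat_lit 225))))) (PT.nd (nat_lit 53118) (PT.nd (nat_lit 78) (PT.lf (nat_lit 5472) (nat_lit 6) (nat_lit 72) (nat_lit 3) (nat_lit 225) (nat_lit 59) (nat_lit 226)) (PT.nd (nat_lit 52962) (PT.lf (nat_lit 5472) (nat_lit 6) (nat_lit 72) (nat_lit 1) (nat_lit 226) (nat_lit 59) (nat_lit 225)) (PT.lf (nat_lit 5548) (nat_lit 6) (nat_lit 73) (nat_lit 3) (nat_lit 224) (nat_lit 60) (nat_lit 226)))) (PT.nd (nat_lit 78) (PT.lf (nat_lit 5624) (nat_lit 3) (nat_lit 74) (nat_lit 1) (nat_lit 225) (nat_lit 60) (nat_lit 225)) (PT.nd (nat_lit 52962) (PT.lf (nat_lit 5548) (nat_lit 6) (nat_lit 73) (nat_lit 1) (nat_lit 226) (nat_lit 60) (nat_lit 224)) (PT.lf (nat_lit 5700) (nat_lit 6) (nat_lit 75) (nat_lit 3) (nat_lit 224) (nat_lit 61) (nat_lit 225))))))) (PT.nd (nat_lit 265278) (PT.nd (nat_lit 106158) (PT.nd (nat_lit 53040) (PT.nd (nat_lit 52962) (PT.lf (nat_lit 5700) (nat_lit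 6) (nat_lit 75) (nat_lit 1) (nat_lit 225) (nat_lit 61) (nat_lit 224)) (PT.lf (nat_lit 5776) (nat_lit 6) (nat_lit 76) (nat_lit 3) (nat_lit 223) (nat_lit 62) (nat_lit 225))) (PT.nd (nat_lit 78) (PT.lf (nat_lit 5852) (nat_lit 3) (nat_lit 77) (nat_lit 1) (nat_lit 224) (nat_lit 62) (nat_lit 224)) (PT.nd (nat_lit 52962) (PT.lf (nat_lit 5776) (nat_lit 6) (nat_lit 76) (nat_lit 1) (nat_lit 225) (nat_lit 62) (nat_lit 223)) (PT.lf (nat_lit 5928) (nat_lit 6) (nat_lit 78) (nat_lit 3) (nat_lit 223) (nat_lit 63) (nat_lit 224))))) (PT.nd (nat_lit 53118) (PT.nd (nat_lit 52962) (PT.lf (nat_lit 5928) (nat_lit 6) (nat_lit 78) (nat_lit 1) (nat_lit 224) (nat_lit 63) (nat_lit 223)) (PT.nd (nat_lit 78) (PT.lf (nat_lit 6004) (nat_lit 6) (nat_lit 79) (nat_lit 3) (nat_lit 222) (nat_lit 64) (nat_lit 224)) (PT.lf (nat_lit 6080) (nat_lit 3) (nat_lit 80) (nat_lit 1) (nat_lit 223) (nat_lit 64) (nat_lit 223)))) (PT.nd (nat_lit 52962)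 (PT.lf (nat_lit 6004) (nat_lit 6) (nat_lit 79) (nat_lit 1) (nat_lit 224) (nat_lit 64) (nat_lit 222)) (PT.nd (nat_lit 78) (PT.lf (nat_lit 6156) (nat_lit 6) (nat_lit 81) (nat_lit 3) (nat_lit 222) (nat_lit 65) (nat_lit 223)) (PT.lf (nat_lit 6156) (nat_lit 6) (nat_lit 81) (nat_lit 1) (nat_lit 223) (nat_lit 65) (nat_lit 222)))))) (PT.nd (nat_lit 106158) (PT.nd (nat_lit 156) (PT.nd (nat_lit 78) (PT.lf (nat_lit 6232) (nat_lit 6) (nat_lit 82) (nat_lit 3) (nat_lit 221) (nat_lit 66) (nat_lit 223)) (PT.lf (nat_lit 6308) (nat_lit 3) (nat_lit 83) (nat_lit 1) (nat_lit 222) (nat_lit 66) (nat_lit 222))) (PT.nd (nat_lit 52962) (PT.lf (nat_lit 6232) (nat_lit 6) (nat_lit 82) (nat_lit 1) (nat_lit 223) (nat_lit 66) (nat_lit 221)) (PT.nd (nat_lit 78) (PT.lf (nat_lit 6384) (nat_lit 6) (nat_lit 84) (nat_lit 3) (nat_lit 221) (nat_lit 67) (nat_lit 222)) (PT.lf (nat_lit 6384) (nat_lit 6) (nat_lit 84) (nat_lit 1) (nat_lit 222)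 (nat_lit 67) (nat_lit 221))))) (PT.nd (nat_lit 53118) (PT.nd (nat_lit 78) (PT.lf (nat_lit 6460) (nat_lit 6) (nat_lit 85) (nat_lit 3) (nat_lit 220) (nat_lit 68) (nat_lit 222)) (PT.nd (nat_lit 78) (PT.lf (nat_lit 6536) (nat_lit 3) (nat_lit 86) (nat_lit 1) (nat_lit 221) (nat_lit 68) (nat_lit 221)) (PT.lf (nat_lit 6460) (nat_lit 6) (nat_lit 85) (nat_lit 1) (nat_lit 222) (nat_lit 68) (nat_lit 220)))) (PT.nd (nat_lit 78) (PT.lf (nat_lit 6612) (nat_lit 6) (nat_lit 87) (nat_lit 3) (nat_lit 220) (nat_lit 69) (nat_lit 221)) (PT.nd (nat_lit 52962) (PT.lf (nat_lit 6612) (nat_lit 6) (nat_lit 87) (nat_lit 1) (nat_lit 221) (nat_lit 69) (nat_lit 220)) (PT.lf (nat_lit 6688) (nat_lit 6) (nat_lit 88) (nat_lit 3) (nat_lit 219) (nat_lit 70) (nat_lit 221))))))))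
noncomputable def pc3 : PT := (PT.nd (nat_lit 477672) (PT.nd (nat_lit 212394) (PT.nd (nat_lit 106158) (PT.nd (nat_lit 53040) (PT.nd (nat_lit 78) (PT.lf (nat_lit 6764) (nat_lit 3) (nat_lit 89) (nat_lit 1) (nat_lit 220) (nat_lit 70) (nat_lit 220)) (PT.lf (nat_lit 6688) (nat_lit 6) (nat_lit 88) (nat_lit 1) (nat_lit 221) (nat_lit 70) (nat_lit 219))) (PT.nd (nat_lit 78) (PT.lf (nat_lit 6840) (nat_lit 6) (nat_lit 90) (nat_lit 3) (nat_lit 219) (nat_lit 71) (nat_lit 220)) (PT.nd (nat_lit 52962) (PT.lf (nat_lit 6840) (nat_lit 6) (nat_lit 90) (nat_lit 1) (nat_lit 220) (nat_lit 71) (nat_lit 219)) (PT.lf (nat_lit 6916) (nat_lit 6) (nat_lit 91) (nat_lit 3) (nat_lit 218) (nat_lit 72) (nat_lit 220))))) (PT.nd (nat_lit 53118) (PT.nd (nat_lit 78) (PT.lf (nat_lit 6992) (nat_lit 3) (nat_lit 92) (nat_lit 1) (nat_lit 219) (nat_lit 72) (nat_lit 219)) (PT.nd (nat_lit 52962) (PT.lf (nat_lit 6916) (nat_lit 6) (nat_lit 91) (nat_lit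 1) (nat_lit 220) (nat_lit 72) (nat_lit 218)) (PT.lf (nat_lit 7068) (nat_lit 6) (nat_lit 93) (nat_lit 3) (nat_lit 218) (nat_lit 73) (nat_lit 219)))) (PT.nd (nat_lit 52962) (PT.lf (nat_lit 7068) (nat_lit 6) (nat_lit 93) (nat_lit 1) (nat_lit 219) (nat_lit 73) (nat_lit 218)) (PT.nd (nat_lit 78) (PT.lf (nat_lit 7144) (nat_lit 6) (nat_lit 94) (nat_lit 3) (nat_lit 217) (nat_lit 74) (nat_lit 219)) (PT.lf (nat_lit 7220) (nat_lit 3) (nat_lit 95) (nat_lit 1) (nat_lit 218) (nat_lit 74) (nat_lit 218)))))) (PT.nd (nat_lit 106158) (PT.nd (nat_lit 53040) (PT.nd (nat_lit 52962) (PT.lf (nat_lit 7144) (nat_lit 6) (nat_lit 94) (nat_lit 1) (nat_lit 219) (nat_lit 74) (nat_lit 217)) (PT.lf (nat_lit 7296) (nat_lit 6) (nat_lit 96) (nat_lit 3) (nat_lit 217) (nat_lit 75) (nat_lit 218))) (PT.nd (nat_lit 52962) (PT.lf (nat_lit 7296) (nat_lit 6) (nat_lit 96) (nat_lit 1) (nat_lit 218) (nat_lit 75) (nat_lit 217)) (PT.nd (nat_lit 78)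 (PT.lf (nat_lit 7372) (nat_lit 6) (nat_lit 97) (nat_lit 3) (nat_lit 216) (nat_lit 76) (nat_lit 218)) (PT.lf (nat_lit 7448) (nat_lit 3) (nat_lit 98) (nat_lit 1) (nat_lit 217) (nat_lit 76) (nat_lit 217))))) (PT.nd (nat_lit 106002) (PT.nd (nat_lit 52962) (PT.lf (nat_lit 7372) (nat_lit 6) (nat_lit 97) (nat_lit 1) (nat_lit 218) (nat_lit 76) (nat_lit 216)) (PT.nd (nat_lit 78) (PT.lf (nat_lit 7524) (nat_lit 6) (nat_lit 99) (nat_lit 3) (nat_lit 216) (nat_lit 77) (nat_lit 217)) (PT.lf (nat_lit 7524) (nat_lit 6) (nat_lit 99) (nat_lit 1) (nat_lit 217) (nat_lit 77) (nat_lit 216)))) (PT.nd (nat_lit 78) (PT.lf (nat_lit 7600) (nat_lit 6) (nat_lit 100) (nat_lit 3) (nat_lit 215) (nat_lit 78) (nat_lit 217)) (PT.nd (nat_lit 78) (PT.lf (nat_lit 7676) (nat_lit 3) (nat_lit 101) (nat_lit 1) (nat_lit 216) (nat_lit 78) (nat_lit 216)) (PT.lf (nat_lit 7600) (nat_lit 6) (nat_lit 100) (nat_lit 1) (nat_lit 217) (nat_lit 78) (nat_lit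 215))))))) (PT.nd (nat_lit 212394) (PT.nd (nat_lit 106158) (PT.nd (nat_lit 53040) (PT.nd (nat_lit 78) (PT.lf (nat_lit 7752) (nat_lit 6) (nat_lit 102) (nat_lit 3) (nat_lit 215) (nat_lit 79) (nat_lit 216)) (PT.lf (nat_lit 7752) (nat_lit 6) (nat_lit 102) (nat_lit 1) (nat_lit 216) (nat_lit 79) (nat_lit 215))) (PT.nd (nat_lit 78) (PT.lf (nat_lit 7828) (nat_lit 6) (nat_lit 103) (nat_lit 3) (nat_lit 214) (nat_lit 80) (nat_lit 216)) (PT.nd (nat_lit 78) (PT.lf (nat_lit 7904) (nat_lit 3) (nat_lit 104) (nat_lit 1) (nat_lit 215) (nat_lit 80) (nat_lit 215)) (PT.lf (nat_lit 7828) (nat_lit 6) (nat_lit 103) (nat_lit 1) (nat_lit 216) (nat_lit 80) (nat_lit 214))))) (PT.nd (nat_lit 53118) (PT.nd (nat_lit 78) (PT.lf (nat_lit 7980) (nat_lit 6) (nat_lit 105) (nat_lit 3) (nat_lit 214) (nat_lit 81) (nat_lit 215)) (PT.nd (nat_lit 52962) (PT.lf (nat_lit 7980) (nat_lit 6) (nat_lit 105) (nat_lit 1) (nat_lit 215) (nat_lit 81) (nat_lit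 214)) (PT.lf (nat_lit 8056) (nat_lit 6) (nat_lit 106) (nat_lit 3) (nat_lit 213) (nat_lit 82) (nat_lit 215)))) (PT.nd (nat_lit 78) (PT.lf (nat_lit 8132) (nat_lit 3) (nat_lit 107) (nat_lit 1) (nat_lit 214) (nat_lit 82) (nat_lit 214)) (PT.nd (nat_lit 52962) (PT.lf (nat_lit 8056) (nat_lit 6) (nat_lit 106) (nat_lit 1) (nat_lit 215) (nat_lit 82) (nat_lit 213)) (PT.lf (nat_lit 8208) (nat_lit 6) (nat_lit 108) (nat_lit 3) (nat_lit 213) (nat_lit 83) (nat_lit 214)))))) (PT.nd (nat_lit 106158) (PT.nd (nat_lit 53040) (PT.nd (nat_lit 52962) (PT.lf (nat_lit 8208) (nat_lit 6) (nat_lit 108) (nat_lit 1) (nat_lit 214) (nat_lit 83) (nat_lit 213)) (PT.lf (nat_lit 8284) (nat_lit 6) (nat_lit 109) (nat_lit 3) (nat_lit 212) (nat_lit 84) (nat_lit 214))) (PT.nd (nat_lit 78) (PT.lf (nat_lit 8360) (nat_lit 3) (nat_lit 110) (nat_lit 1) (nat_lit 213) (nat_lit 84) (nat_lit 213)) (PT.nd (nat_lit 52962) (PT.lf (nat_lit 8284) (nat_lit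 6) (nat_lit 109) (nat_lit 1) (nat_lit 214) (nat_lit 84) (nat_lit 212)) (PT.lf (nat_lit 8436) (nat_lit 6) (nat_lit 111) (nat_lit 3) (nat_lit 212) (nat_lit 85) (nat_lit 213))))) (PT.nd (nat_lit 53118) (PT.nd (nat_lit 52962) (PT.lf (nat_lit 8436) (nat_lit 6) (nat_lit 111) (nat_lit 1) (nat_lit 213) (nat_lit 85) (nat_lit 212)) (PT.nd (nat_lit 78) (PT.lf (nat_lit 8512) (nat_lit 6) (nat_lit 112) (nat_lit 3) (nat_lit 211) (nat_lit 86) (nat_lit 213)) (PT.lf (nat_lit 8588) (nat_lit 3) (nat_lit 113) (nat_lit 1) (nat_lit 212) (nat_lit 86) (nat_lit 212)))) (PT.nd (nat_lit 52962) (PT.lf (nat_lit 8512) (nat_lit 6) (nat_lit 112) (nat_lit 1) (nat_lit 213) (nat_lit 86) (nat_lit 211)) (PT.nd (nat_lit 78) (PT.lf (nat_lit 8664) (nat_lit 6) (nat_lit 114) (nat_lit 3) (nat_lit 211) (nat_lit 87) (nat_lit 212)) (PT.lf (nat_lit 8664) (nat_lit 6) (nat_lit 114) (nat_lit 1) (nat_lit 212) (nat_lit 87) (nat_lit 211))))))))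
noncomputable def pc4 : PT := (PT.nd (nat_lit 318630) (PT.nd (nat_lit 159354) (PT.nd (nat_lit 106158) (PT.nd (nat_lit 156) (PT.nd (nat_lit 78) (PT.lf (nat_lit 8740) (nat_lit 6) (nat_lit 115) (nat_lit 3) (nat_lit 210) (nat_lit 88) (nat_lit 212)) (PT.lf (nat_lit 8816) (nat_lit 3) (nat_lit 116) (nat_lit 1) (nat_lit 211) (nat_lit 88) (nat_lit 211))) (PT.nd (nat_lit 52962) (PT.lf (nat_lit 8740) (nat_lit 6) (nat_lit 115) (nat_lit 1) (nat_lit 212) (nat_lit 88) (nat_lit 210)) (PT.nd (nat_lit 78) (PT.lf (nat_lit 8892) (nat_lit 6) (nat_lit 117) (nat_lit 3) (nat_lit 210) (nat_lit 89) (nat_lit 211)) (PT.lf (nat_lit 8892) (nat_lit 6) (nat_lit 117) (nat_lit 1) (nat_lit 211) (nat_lit 89) (nat_lit 210))))) (PT.nd (nat_lit 156) (PT.nd (nat_lit 78) (PT.lf (nat_lit 8968) (nat_lit 6) (nat_lit 118) (nat_lit 3) (nat_lit 209) (nat_lit 90) (nat_lit 211)) (PT.lf (nat_lit 9044) (nat_lit 3) (nat_lit 119) (nat_lit 1) (nat_lit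 210) (nat_lit 90) (nat_lit 210))) (PT.nd (nat_lit 52884) (PT.lf (nat_lit 8968) (nat_lit 6) (nat_lit 118) (nat_lit 1) (nat_lit 211) (nat_lit 90) (nat_lit 209)) (PT.nd (nat_lit 78) (PT.lf (nat_lit 9120) (nat_lit 6) (nat_lit 120) (nat_lit 3) (nat_lit 208) (nat_lit 91) (nat_lit 211)) (PT.lf (nat_lit 9196) (nat_lit 6) (nat_lit 121) (nat_lit 3) (nat_lit 209) (nat_lit 91) (nat_lit 210)))))) (PT.nd (nat_lit 106002) (PT.nd (nat_lit 52962) (PT.nd (nat_lit 78) (PT.lf (nat_lit 9196) (nat_lit 6) (nat_lit 121) (nat_lit 1) (nat_lit 210) (nat_lit 91) (nat_lit 209)) (PT.lf (nat_lit 9120) (nat_lit 6) (nat_lit 120) (nat_lit 1) (nat_lit 211) (nat_lit 91) (nat_lit 208))) (PT.nd (nat_lit 78) (PT.lf (nat_lit 9272) (nat_lit 6) (nat_lit 122) (nat_lit 3) (nat_lit 208) (nat_lit 92) (nat_lit 210)) (PT.nd (nat_lit 78) (PT.lf (nat_lit 9348) (nat_lit 3) (nat_lit 123) (nat_lit 1) (nat_lit 209) (nat_lit 92) (nat_lit 209)) (PT.lf (nat_lit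 9272) (nat_lit 6) (nat_lit 122) (nat_lit 1) (nat_lit 210) (nat_lit 92) (nat_lit 208))))) (PT.nd (nat_lit 234) (PT.nd (nat_lit 78) (PT.lf (nat_lit 9424) (nat_lit 6) (nat_lit 124) (nat_lit 3) (nat_lit 207) (nat_lit 93) (nat_lit 210)) (PT.nd (nat_lit 78) (PT.lf (nat_lit 9500) (nat_lit 6) (nat_lit 125) (nat_lit 3) (nat_lit 208) (nat_lit 93) (nat_lit 209)) (PT.lf (nat_lit 9500) (nat_lit 6) (nat_lit 125) (nat_lit 1) (nat_lit 209) (nat_lit 93) (nat_lit 208)))) (PT.nd (nat_lit 52884) (PT.lf (nat_lit 9424) (nat_lit 6) (nat_lit 124) (nat_lit 1) (nat_lit 210) (nat_lit 93) (nat_lit 207)) (PT.nd (nat_lit 78) (PT.lf (nat_lit 9576) (nat_lit 6) (nat_lit 126) (nat_lit 3) (nat_lit 207) (nat_lit 94) (nat_lit 209)) (PT.lf (nat_lit 9652) (nat_lit 3) (nat_lit 127) (nat_lit 1) (nat_lit 208) (nat_lit 94) (nat_lit 208))))))) (PT.nd (nat_lit 159276) (PT.nd (nat_lit 106002) (PT.nd (nat_lit 52962) (PT.nd (nat_lit 52884) (PT.lf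 (nat_lit 9576) (nat_lit 6) (nat_lit 126) (nat_lit 1) (nat_lit 209) (nat_lit 94) (nat_lit 207)) (PT.lf (nat_lit 9728) (nat_lit 6) (nat_lit 128) (nat_lit 3) (nat_lit 206) (nat_lit 95) (nat_lit 209))) (PT.nd (nat_lit 78) (PT.lf (nat_lit 9804) (nat_lit 6) (nat_lit 129) (nat_lit 3) (nat_lit 207) (nat_lit 95) (nat_lit 208)) (PT.nd (nat_lit 78) (PT.lf (nat_lit 9804) (nat_lit 6) (nat_lit 129) (nat_lit 1) (nat_lit 208) (nat_lit 95) (nat_lit 207)) (PT.lf (nat_lit 9728) (nat_lit 6) (nat_lit 128) (nat_lit 1) (nat_lit 209) (nat_lit 95) (nat_lit 206))))) (PT.nd (nat_lit 53040) (PT.nd (nat_lit 78) (PT.lf (nat_lit 9880) (nat_lit 6) (nat_lit 130) (nat_lit 3) (nat_lit 206) (nat_lit 96) (nat_lit 208)) (PT.nd (nat_lit 78) (PT.lf (nat_lit 9956) (nat_lit 3) (nat_lit 131) (nat_lit 1) (nat_lit 207) (nat_lit 96) (nat_lit 207)) (PT.lf (nat_lit 9880) (nat_lit 6) (nat_lit 130) (nat_lit 1) (nat_lit 208) (nat_lit 96) (nat_lit 206))))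 (PT.nd (nat_lit 78) (PT.lf (nat_lit 10032) (nat_lit 6) (nat_lit 132) (nat_lit 3) (nat_lit 205) (nat_lit 97) (nat_lit 208)) (PT.nd (nat_lit 78) (PT.lf (nat_lit 10108) (nat_lit 6) (nat_lit 133) (nat_lit 3) (nat_lit 206) (nat_lit 97) (nat_lit 207)) (PT.lf (nat_lit 10108) (nat_lit 6) (nat_lit 133) (nat_lit 1) (nat_lit 207) (nat_lit 97) (nat_lit 206)))))) (PT.nd (nat_lit 106002) (PT.nd (nat_lit 52962) (PT.nd (nat_lit 52884) (PT.lf (nat_lit 10032) (nat_lit 6) (nat_lit 132) (nat_lit 1) (nat_lit 208) (nat_lit 97) (nat_lit 205)) (PT.lf (nat_lit 10184) (nat_lit 6) (nat_lit 134) (nat_lit 3) (nat_lit 205) (nat_lit 98) (nat_lit 207))) (PT.nd (nat_lit 78) (PT.lf (nat_lit 10260) (nat_lit 3) (nat_lit 135) (nat_lit 1) (nat_lit 206) (nat_lit 98) (nat_lit 206)) (PT.nd (nat_lit 52884) (PT.lf (nat_lit 10184) (nat_lit 6) (nat_lit 134) (nat_lit 1) (nat_lit 207) (nat_lit 98) (nat_lit 205)) (PT.lf (nat_lit 10336) (nat_lit 6)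 (nat_lit 136) (nat_lit 3) (nat_lit 204) (nat_lit 99) (nat_lit 207))))) (PT.nd (nat_lit 53040) (PT.nd (nat_lit 78) (PT.lf (nat_lit 10412) (nat_lit 6) (nat_lit 137) (nat_lit 3) (nat_lit 205) (nat_lit 99) (nat_lit 206)) (PT.nd (nat_lit 78) (PT.lf (nat_lit 10412) (nat_lit 6) (nat_lit 137) (nat_lit 1) (nat_lit 206) (nat_lit 99) (nat_lit 205)) (PT.lf (nat_lit 10336) (nat_lit 6) (nat_lit 136) (nat_lit 1) (nat_lit 207) (nat_lit 99) (nat_lit 204)))) (PT.nd (nat_lit 78) (PT.lf (nat_lit 10488) (nat_lit 6) (nat_lit 138) (nat_lit 3) (nat_lit 204) (nat_lit 100) (nat_lit 206)) (PT.nd (nat_lit 78) (PT.lf (nat_lit 10564) (nat_lit 3) (nat_lit 139) (nat_lit 1) (nat_lit 205) (nat_lit 100) (nat_lit 205)) (PT.lf (nat_lit 10488) (nat_lit 6) (nat_lit 138) (nat_lit 1) (nat_lit 206) (nat_lit 100) (nat_lit 204))))))))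
noncomputable def pc5 : PT := (PT.nd (nat_lit 318552) (PT.nd (nat_lit 159276) (PT.nd (nat_lit 53196) (PT.nd (nat_lit 156) (PT.nd (nat_lit 78) (PT.lf (nat_lit 10640) (nat_lit 6) (nat_lit 140) (nat_lit 3) (nat_lit 203) (nat_lit 101) (nat_lit 206)) (PT.lf (nat_lit 10716) (nat_lit 6) (nat_lit 141) (nat_lit 3) (nat_lit 204) (nat_lit 101) (nat_lit 205))) (PT.nd (nat_lit 78) (PT.lf (nat_lit 10716) (nat_lit 6) (nat_lit 141) (nat_lit 1) (nat_lit 205) (nat_lit 101) (nat_lit 204)) (PT.nd (nat_lit 52884) (PT.lf (nat_lit 10640) (nat_lit 6) (nat_lit 140) (nat_lit 1) (nat_lit 206) (nat_lit 101) (nat_lit 203)) (PT.lf (nat_lit 10792) (nat_lit 6) (nat_lit 142) (nat_lit 3) (nat_lit 203) (nat_lit 102) (nat_lit 205))))) (PT.nd (nat_lit 53040) (PT.nd (nat_lit 78) (PT.lf (nat_lit 10868) (nat_lit 3) (nat_lit 143) (nat_lit 1) (nat_lit 204) (nat_lit 102) (nat_lit 204)) (PT.nd (nat_lit 52884) (PT.lf (nat_lit 10792) (nat_lit 6)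 (nat_lit 142) (nat_lit 1) (nat_lit 205) (nat_lit 102) (nat_lit 203)) (PT.lf (nat_lit 10944) (nat_lit 6) (nat_lit 144) (nat_lit 3) (nat_lit 202) (nat_lit 103) (nat_lit 205)))) (PT.nd (nat_lit 78) (PT.lf (nat_lit 11020) (nat_lit 6) (nat_lit 145) (nat_lit 3) (nat_lit 203) (nat_lit 103) (nat_lit 204)) (PT.nd (nat_lit 78) (PT.lf (nat_lit 11020) (nat_lit 6) (nat_lit 145) (nat_lit 1) (nat_lit 204) (nat_lit 103) (nat_lit 203)) (PT.lf (nat_lit 10944) (nat_lit 6) (nat_lit 144) (nat_lit 1) (nat_lit 205) (nat_lit 103) (nat_lit 202)))))) (PT.nd (nat_lit 53196) (PT.nd (nat_lit 156) (PT.nd (nat_lit 78) (PT.lf (nat_lit 11096) (nat_lit 6) (nat_lit 146) (nat_lit 3) (nat_lit 202) (nat_lit 104) (nat_lit 204)) (PT.lf (nat_lit 11172) (nat_lit 3) (nat_lit 147) (nat_lit 1) (nat_lit 203) (nat_lit 104) (nat_lit 203))) (PT.nd (nat_lit 52884) (PT.lf (nat_lit 11096) (nat_lit 6) (nat_lit 146) (nat_lit 1) (nat_lit 204) (nat_lit 104)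 (nat_lit 202)) (PT.nd (nat_lit 78) (PT.lf (nat_lit 11248) (nat_lit 6) (nat_lit 148) (nat_lit 3) (nat_lit 201) (nat_lit 105) (nat_lit 204)) (PT.lf (nat_lit 11324) (nat_lit 6) (nat_lit 149) (nat_lit 3) (nat_lit 202) (nat_lit 105) (nat_lit 203))))) (PT.nd (nat_lit 53040) (PT.nd (nat_lit 78) (PT.lf (nat_lit 11324) (nat_lit 6) (nat_lit 149) (nat_lit 1) (nat_lit 203) (nat_lit 105) (nat_lit 202)) (PT.nd (nat_lit 52884) (PT.lf (nat_lit 11248) (nat_lit 6) (nat_lit 148) (nat_lit 1) (nat_lit 204) (nat_lit 105) (nat_lit 201)) (PT.lf (nat_lit 11400) (nat_lit 6) (nat_lit 150) (nat_lit 3) (nat_lit 201) (nat_lit 106) (nat_lit 203)))) (PT.nd (nat_lit 78) (PT.lf (nat_lit 11476) (nat_lit 3) (nat_lit 151) (nat_lit 1) (nat_lit 202) (nat_lit 106) (nat_lit 202)) (PT.nd (nat_lit 52884) (PT.lf (nat_lit 11400) (nat_lit 6) (nat_lit 150) (nat_lit 1) (nat_lit 203) (nat_lit 106) (nat_lit 201)) (PT.lf (nat_lit 11552) (nat_lit 6)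 (nat_lit 152) (nat_lit 3) (nat_lit 200) (nat_lit 107) (nat_lit 203))))))) (PT.nd (nat_lit 106314) (PT.nd (nat_lit 53118) (PT.nd (nat_lit 156) (PT.nd (nat_lit 78) (PT.lf (nat_lit 11628) (nat_lit 6) (nat_lit 153) (nat_lit 3) (nat_lit 201) (nat_lit 107) (nat_lit 202)) (PT.lf (nat_lit 11628) (nat_lit 6) (nat_lit 153) (nat_lit 1) (nat_lit 202) (nat_lit 107) (nat_lit 201))) (PT.nd (nat_lit 52806) (PT.lf (nat_lit 11552) (nat_lit 6) (nat_lit 152) (nat_lit 1) (nat_lit 203) (nat_lit 107) (nat_lit 200)) (PT.nd (nat_lit 78) (PT.lf (nat_lit 11704) (nat_lit 6) (nat_lit 154) (nat_lit 3) (nat_lit 199) (nat_lit 108) (nat_lit 203)) (PT.lf (nat_lit 11780) (nat_lit 6) (nat_lit 155) (nat_lit 3) (nat_lit 200) (nat_lit 108) (nat_lit 202))))) (PT.nd (nat_lit 52962) (PT.nd (nat_lit 78) (PT.lf (nat_lit 11856) (nat_lit 3) (nat_lit 156) (nat_lit 1) (nat_lit 201) (nat_lit 108) (nat_lit 201)) (PT.nd (nat_lit 78) (PT.lf (nat_lit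 11780) (nat_lit 6) (nat_lit 155) (nat_lit 1) (nat_lit 202) (nat_lit 108) (nat_lit 200)) (PT.lf (nat_lit 11704) (nat_lit 6) (nat_lit 154) (nat_lit 1) (nat_lit 203) (nat_lit 108) (nat_lit 199)))) (PT.nd (nat_lit 78) (PT.lf (nat_lit 11932) (nat_lit 6) (nat_lit 157) (nat_lit 3) (nat_lit 199) (nat_lit 109) (nat_lit 202)) (PT.nd (nat_lit 78) (PT.lf (nat_lit 12008) (nat_lit 6) (nat_lit 158) (nat_lit 3) (nat_lit 200) (nat_lit 109) (nat_lit 201)) (PT.lf (nat_lit 12008) (nat_lit 6) (nat_lit 158) (nat_lit 1) (nat_lit 201) (nat_lit 109) (nat_lit 200)))))) (PT.nd (nat_lit 53118) (PT.nd (nat_lit 52884) (PT.nd (nat_lit 52806) (PT.lf (nat_lit 11932) (nat_lit 6) (nat_lit 157) (nat_lit 1) (nat_lit 202) (nat_lit 109) (nat_lit 199)) (PT.lf (nat_lit 12084) (nat_lit 6) (nat_lit 159) (nat_lit 3) (nat_lit 198) (nat_lit 110) (nat_lit 202))) (PT.nd (nat_lit 78) (PT.lf (nat_lit 12160) (nat_lit 6) (nat_lit 160) (nat_lit 3) (nat_lit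 199) (nat_lit 110) (nat_lit 201)) (PT.nd (nat_lit 78) (PT.lf (nat_lit 12236) (nat_lit 3) (nat_lit 161) (nat_lit 1) (nat_lit 200) (nat_lit 110) (nat_lit 200)) (PT.lf (nat_lit 12160) (nat_lit 6) (nat_lit 160) (nat_lit 1) (nat_lit 201) (nat_lit 110) (nat_lit 199))))) (PT.nd (nat_lit 52962) (PT.nd (nat_lit 52806) (PT.lf (nat_lit 12084) (nat_lit 6) (nat_lit 159) (nat_lit 1) (nat_lit 202) (nat_lit 110) (nat_lit 198)) (PT.nd (nat_lit 78) (PT.lf (nat_lit 12312) (nat_lit 6) (nat_lit 162) (nat_lit 3) (nat_lit 198) (nat_lit 111) (nat_lit 201)) (PT.lf (nat_lit 12388) (nat_lit 6) (nat_lit 163) (nat_lit 3) (nat_lit 199) (nat_lit 111) (nat_lit 200)))) (PT.nd (nat_lit 78) (PT.lf (nat_lit 12388) (nat_lit 6) (nat_lit 163) (nat_lit 1) (nat_lit 200) (nat_lit 111) (nat_lit 199)) (PT.nd (nat_lit 52806) (PT.lf (nat_lit 12312) (nat_lit 6) (nat_lit 162) (nat_lit 1) (nat_lit 201) (nat_lit 111) (nat_lit 198)) (PT.lf (nat_lit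 12464) (nat_lit 6) (nat_lit 164) (nat_lit 3) (nat_lit 197) (nat_lit 112) (nat_lit 201))))))))
noncomputable def pc6 : PT := (PT.nd (nat_lit 265278) (PT.nd (nat_lit 106314) (PT.nd (nat_lit 53118) (PT.nd (nat_lit 156) (PT.nd (nat_lit 78) (PT.lf (nat_lit 12540) (nat_lit 6) (nat_lit 165) (nat_lit 3) (nat_lit 198) (nat_lit 112) (nat_lit 200)) (PT.lf (nat_lit 12616) (nat_lit 3) (nat_lit 166) (nat_lit 1) (nat_lit 199) (nat_lit 112) (nat_lit 199))) (PT.nd (nat_lit 78) (PT.lf (nat_lit 12540) (nat_lit 6) (nat_lit 165) (nat_lit 1) (nat_lit 200) (nat_lit 112) (nat_lit 198)) (PT.nd (nat_lit 52806) (PT.lf (nat_lit 12464) (nat_lit 6) (nat_lit 164) (nat_lit 1) (nat_lit 201) (nat_lit 112) (nat_lit 197)) (PT.lf (nat_lit 12692) (nat_lit 6) (nat_lit 167) (nat_lit 3) (nat_lit 197) (nat_lit 113) (nat_lit 200))))) (PT.nd (nat_lit 52962) (PT.nd (nat_lit 78) (PT.lf (nat_lit 12768) (nat_lit 6) (nat_lit 168) (nat_lit 3) (nat_lit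 198) (nat_lit 113) (nat_lit 199)) (PT.nd (nat_lit 78) (PT.lf (nat_lit 12768) (nat_lit 6) (nat_lit 168) (nat_lit 1) (nat_lit 199) (nat_lit 113) (nat_lit 198)) (PT.lf (nat_lit 12692) (nat_lit 6) (nat_lit 167) (nat_lit 1) (nat_lit 200) (nat_lit 113) (nat_lit 197)))) (PT.nd (nat_lit 78) (PT.lf (nat_lit 12844) (nat_lit 6) (nat_lit 169) (nat_lit 3) (nat_lit 196) (nat_lit 114) (nat_lit 200)) (PT.nd (nat_lit 78) (PT.lf (nat_lit 12920) (nat_lit 6) (nat_lit 170) (nat_lit 3) (nat_lit 197) (nat_lit 114) (nat_lit 199)) (PT.lf (nat_lit 12996) (nat_lit 3) (nat_lit 171) (nat_lit 1) (nat_lit 198) (nat_lit 114) (nat_lit 198)))))) (PT.nd (nat_lit 53118) (PT.nd (nat_lit 52884) (PT.nd (nat_lit 78) (PT.lf (nat_lit 12920) (nat_lit 6) (nat_lit 170) (nat_lit 1) (nat_lit 199) (nat_lit 114) (nat_lit 197)) (PT.lf (nat_lit 12844) (nat_lit 6) (nat_lit 169) (nat_lit 1) (nat_lit 200) (nat_lit 114) (nat_lit 196))) (PT.nd (nat_lit 78)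 (PT.lf (nat_lit 13072) (nat_lit 6) (nat_lit 172) (nat_lit 3) (nat_lit 196) (nat_lit 115) (nat_lit 199)) (PT.nd (nat_lit 78) (PT.lf (nat_lit 13148) (nat_lit 6) (nat_lit 173) (nat_lit 3) (nat_lit 197) (nat_lit 115) (nat_lit 198)) (PT.lf (nat_lit 13148) (nat_lit 6) (nat_lit 173) (nat_lit 1) (nat_lit 198) (nat_lit 115) (nat_lit 197))))) (PT.nd (nat_lit 52962) (PT.nd (nat_lit 52806) (PT.lf (nat_lit 13072) (nat_lit 6) (nat_lit 172) (nat_lit 1) (nat_lit 199) (nat_lit 115) (nat_lit 196)) (PT.nd (nat_lit 78) (PT.lf (nat_lit 13224) (nat_lit 6) (nat_lit 174) (nat_lit 3) (nat_lit 195) (nat_lit 116) (nat_lit 199)) (PT.lf (nat_lit 13300) (nat_lit 6) (nat_lit 175) (nat_lit 3) (nat_lit 196) (nat_lit 116) (nat_lit 198)))) (PT.nd (nat_lit 78) (PT.lf (nat_lit 13376) (nat_lit 3) (nat_lit 176) (nat_lit 1) (nat_lit 197) (nat_lit 116) (nat_lit 197)) (PT.nd (nat_lit 78) (PT.lf (nat_lit 13300) (nat_lit 6) (nat_lit 175) (nat_lit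 1) (nat_lit 198) (nat_lit 116) (nat_lit 196)) (PT.lf (nat_lit 13224) (nat_lit 6) (nat_lit 174) (nat_lit 1) (nat_lit 199) (nat_lit 116) (nat_lit 195))))))) (PT.nd (nat_lit 106158) (PT.nd (nat_lit 390) (PT.nd (nat_lit 156) (PT.nd (nat_lit 78) (PT.lf (nat_lit 13452) (nat_lit 6) (nat_lit 177) (nat_lit 3) (nat_lit 194) (nat_lit 117) (nat_lit 199)) (PT.lf (nat_lit 13528) (nat_lit 6) (nat_lit 178) (nat_lit 3) (nat_lit 195) (nat_lit 117) (nat_lit 198))) (PT.nd (nat_lit 78) (PT.lf (nat_lit 13604) (nat_lit 6) (nat_lit 179) (nat_lit 3) (nat_lit 196) (nat_lit 117) (nat_lit 197)) (PT.nd (nat_lit 78) (PT.lf (nat_lit 13604) (nat_lit 6) (nat_lit 179) (nat_lit 1) (nat_lit 197) (nat_lit 117) (nat_lit 196)) (PT.lf (nat_lit 13528) (nat_lit 6) (nat_lit 178) (nat_lit 1) (nat_lit 198) (nat_lit 117) (nat_lit 195))))) (PT.nd (nat_lit 52884) (PT.nd (nat_lit 52728) (PT.lf (nat_lit 13452) (nat_lit 6) (nat_lit 177) (nat_lit 1)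 (nat_lit 199) (nat_lit 117) (nat_lit 194)) (PT.nd (nat_lit 78) (PT.lf (nat_lit 13680) (nat_lit 6) (nat_lit 180) (nat_lit 3) (nat_lit 194) (nat_lit 118) (nat_lit 198)) (PT.lf (nat_lit 13756) (nat_lit 6) (nat_lit 181) (nat_lit 3) (nat_lit 195) (nat_lit 118) (nat_lit 197)))) (PT.nd (nat_lit 78) (PT.lf (nat_lit 13832) (nat_lit 3) (nat_lit 182) (nat_lit 1) (nat_lit 196) (nat_lit 118) (nat_lit 196)) (PT.nd (nat_lit 78) (PT.lf (nat_lit 13756) (nat_lit 6) (nat_lit 181) (nat_lit 1) (nat_lit 197) (nat_lit 118) (nat_lit 195)) (PT.lf (nat_lit 13680) (nat_lit 6) (nat_lit 180) (nat_lit 1) (nat_lit 198) (nat_lit 118) (nat_lit 194)))))) (PT.nd (nat_lit 390) (PT.nd (nat_lit 156) (PT.nd (nat_lit 78) (PT.lf (nat_lit 13908) (nat_lit 6) (nat_lit 183) (nat_lit 3) (nat_lit 193) (nat_lit 119) (nat_lit 198)) (PT.lf (nat_lit 13984) (nat_lit 6) (nat_lit 184) (nat_lit 3) (nat_lit 194) (nat_lit 119) (nat_lit 197))) (PT.nd (nat_lit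 78) (PT.lf (nat_lit 14060) (nat_lit 6) (nat_lit 185) (nat_lit 3) (nat_lit 195) (nat_lit 119) (nat_lit 196)) (PT.nd (nat_lit 78) (PT.lf (nat_lit 14060) (nat_lit 6) (nat_lit 185) (nat_lit 1) (nat_lit 196) (nat_lit 119) (nat_lit 195)) (PT.lf (nat_lit 13984) (nat_lit 6) (nat_lit 184) (nat_lit 1) (nat_lit 197) (nat_lit 119) (nat_lit 194))))) (PT.nd (nat_lit 52884) (PT.nd (nat_lit 52728) (PT.lf (nat_lit 13908) (nat_lit 6) (nat_lit 183) (nat_lit 1) (nat_lit 198) (nat_lit 119) (nat_lit 193)) (PT.nd (nat_lit 78) (PT.lf (nat_lit 14136) (nat_lit 6) (nat_lit 186) (nat_lit 3) (nat_lit 193) (nat_lit 120) (nat_lit 197)) (PT.lf (nat_lit 14212) (nat_lit 6) (nat_lit 187) (nat_lit 3) (nat_lit 194) (nat_lit 120) (nat_lit 196)))) (PT.nd (nat_lit 78) (PT.lf (nat_lit 14288) (nat_lit 3) (nat_lit 188) (nat_lit 1) (nat_lit 195) (nat_lit 120) (nat_lit 195)) (PT.nd (nat_lit 78) (PT.lf (nat_lit 14212) (nat_lit 6) (nat_lit 187)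 (nat_lit 1) (nat_lit 196) (nat_lit 120) (nat_lit 194)) (PT.lf (nat_lit 14136) (nat_lit 6) (nat_lit 186) (nat_lit 1) (nat_lit 197) (nat_lit 120) (nat_lit 193))))))))
noncomputable def pc7 : PT := (PT.nd (nat_lit 159432) (PT.nd (nat_lit 53430) (PT.nd (nat_lit 390) (PT.nd (nat_lit 156) (PT.nd (nat_lit 78) (PT.lf (nat_lit 14364) (nat_lit 6) (nat_lit 189) (nat_lit 3) (nat_lit 192) (nat_lit 121) (nat_lit 197)) (PT.lf (nat_lit 14440) (nat_lit 6) (nat_lit 190) (nat_lit 3) (nat_lit 193) (nat_lit 121) (nat_lit 196))) (PT.nd (nat_lit 78) (PT.lf (nat_lit 14516) (nat_lit 6) (nat_lit 191) (nat_lit 3) (nat_lit 194) (nat_lit 121) (nat_lit 195)) (PT.nd (nat_lit 78) (PT.lf (nat_lit 14516) (nat_lit 6) (nat_lit 191) (nat_lit 1) (nat_lit 195) (nat_lit 121) (nat_lit 194)) (PT.lf (nat_lit 14440) (nat_lit 6) (nat_lit 190) (nat_lit 1) (nat_lit 196) (nat_lit 121) (nat_lit 193))))) (PT.nd (nat_lit 52806) (PT.nd (nat_lit 52650)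 (PT.lf (nat_lit 14364) (nat_lit 6) (nat_lit 189) (nat_lit 1) (nat_lit 197) (nat_lit 121) (nat_lit 192)) (PT.nd (nat_lit 78) (PT.lf (nat_lit 14592) (nat_lit 6) (nat_lit 192) (nat_lit 3) (nat_lit 191) (nat_lit 122) (nat_lit 197)) (PT.lf (nat_lit 14668) (nat_lit 6) (nat_lit 193) (nat_lit 3) (nat_lit 192) (nat_lit 122) (nat_lit 196)))) (PT.nd (nat_lit 78) (PT.lf (nat_lit 14744) (nat_lit 6) (nat_lit 194) (nat_lit 3) (nat_lit 193) (nat_lit 122) (nat_lit 195)) (PT.nd (nat_lit 78) (PT.lf (nat_lit 14820) (nat_lit 3) (nat_lit 195) (nat_lit 1) (nat_lit 194) (nat_lit 122) (nat_lit 194)) (PT.lf (nat_lit 14744) (nat_lit 6) (nat_lit 194) (nat_lit 1) (nat_lit 195) (nat_lit 122) (nat_lit 193)))))) (PT.nd (nat_lit 52962) (PT.nd (nat_lit 52728) (PT.nd (nat_lit 78) (PT.lf (nat_lit 14668) (nat_lit 6) (nat_lit 193) (nat_lit 1) (nat_lit 196) (nat_lit 122) (nat_lit 192)) (PT.lf (nat_lit 14592) (nat_lit 6) (nat_lit 192) (nat_lit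 1) (nat_lit 197) (nat_lit 122) (nat_lit 191))) (PT.nd (nat_lit 78) (PT.lf (nat_lit 14896) (nat_lit 6) (nat_lit 196) (nat_lit 3) (nat_lit 191) (nat_lit 123) (nat_lit 196)) (PT.nd (nat_lit 78) (PT.lf (nat_lit 14972) (nat_lit 6) (nat_lit 197) (nat_lit 3) (nat_lit 192) (nat_lit 123) (nat_lit 195)) (PT.lf (nat_lit 15048) (nat_lit 6) (nat_lit 198) (nat_lit 3) (nat_lit 193) (nat_lit 123) (nat_lit 194))))) (PT.nd (nat_lit 52806) (PT.nd (nat_lit 78) (PT.lf (nat_lit 15048) (nat_lit 6) (nat_lit 198) (nat_lit 1) (nat_lit 194) (nat_lit 123) (nat_lit 193)) (PT.nd (nat_lit 78) (PT.lf (nat_lit 14972) (nat_lit 6) (nat_lit 197) (nat_lit 1) (nat_lit 195) (nat_lit 123) (nat_lit 192)) (PT.lf (nat_lit 14896) (nat_lit 6) (nat_lit 196) (nat_lit 1) (nat_lit 196) (nat_lit 123) (nat_lit 191)))) (PT.nd (nat_lit 78) (PT.lf (nat_lit 15124) (nat_lit 6) (nat_lit 199) (nat_lit 3) (nat_lit 190) (nat_lit 124) (nat_lit 196)) (PT.nd (nat_lit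 78) (PT.lf (nat_lit 15200) (nat_lit 6) (nat_lit 200) (nat_lit 3) (nat_lit 191) (nat_lit 124) (nat_lit 195)) (PT.lf (nat_lit 15276) (nat_lit 6) (nat_lit 201) (nat_lit 3) (nat_lit 192) (nat_lit 124) (nat_lit 194))))))) (PT.nd (nat_lit 106002) (PT.nd (nat_lit 52962) (PT.nd (nat_lit 156) (PT.nd (nat_lit 78) (PT.lf (nat_lit 15352) (nat_lit 3) (nat_lit 202) (nat_lit 1) (nat_lit 193) (nat_lit 124) (nat_lit 193)) (PT.lf (nat_lit 15276) (nat_lit 6) (nat_lit 201) (nat_lit 1) (nat_lit 194) (nat_lit 124) (nat_lit 192))) (PT.nd (nat_lit 78) (PT.lf (nat_lit 15200) (nat_lit 6) (nat_lit 200) (nat_lit 1) (nat_lit 195) (nat_lit 124) (nat_lit 191)) (PT.nd (nat_lit 52650) (PT.lf (nat_lit 15124) (nat_lit 6) (nat_lit 199) (nat_lit 1) (nat_lit 196) (nat_lit 124) (nat_lit 190)) (PT.lf (nat_lit 15428) (nat_lit 6) (nat_lit 203) (nat_lit 3) (nat_lit 190) (nat_lit 125) (nat_lit 195))))) (PT.nd (nat_lit 234) (PT.nd (nat_lit 78)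 (PT.lf (nat_lit 15504) (nat_lit 6) (nat_lit 204) (nat_lit 3) (nat_lit 191) (nat_lit 125) (nat_lit 194)) (PT.nd (nat_lit 78) (PT.lf (nat_lit 15580) (nat_lit 6) (nat_lit 205) (nat_lit 3) (nat_lit 192) (nat_lit 125) (nat_lit 193)) (PT.lf (nat_lit 15580) (nat_lit 6) (nat_lit 205) (nat_lit 1) (nat_lit 193) (nat_lit 125) (nat_lit 192)))) (PT.nd (nat_lit 78) (PT.lf (nat_lit 15504) (nat_lit 6) (nat_lit 204) (nat_lit 1) (nat_lit 194) (nat_lit 125) (nat_lit 191)) (PT.nd (nat_lit 52650) (PT.lf (nat_lit 15428) (nat_lit 6) (nat_lit 203) (nat_lit 1) (nat_lit 195) (nat_lit 125) (nat_lit 190)) (PT.lf (nat_lit 15656) (nat_lit 6) (nat_lit 206) (nat_lit 3) (nat_lit 189) (nat_lit 126) (nat_lit 195)))))) (PT.nd (nat_lit 390) (PT.nd (nat_lit 156) (PT.nd (nat_lit 78) (PT.lf (nat_lit 15732) (nat_lit 6) (nat_lit 207) (nat_lit 3) (nat_lit 190) (nat_lit 126) (nat_lit 194)) (PT.lf (nat_lit 15808) (nat_lit 6) (nat_lit 208) (nat_lit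 3) (nat_lit 191) (nat_lit 126) (nat_lit 193))) (PT.nd (nat_lit 78) (PT.lf (nat_lit 15884) (nat_lit 3) (nat_lit 209) (nat_lit 1) (nat_lit 192) (nat_lit 126) (nat_lit 192)) (PT.nd (nat_lit 78) (PT.lf (nat_lit 15808) (nat_lit 6) (nat_lit 208) (nat_lit 1) (nat_lit 193) (nat_lit 126) (nat_lit 191)) (PT.lf (nat_lit 15732) (nat_lit 6) (nat_lit 207) (nat_lit 1) (nat_lit 194) (nat_lit 126) (nat_lit 190))))) (PT.nd (nat_lit 52728) (PT.nd (nat_lit 52572) (PT.lf (nat_lit 15656) (nat_lit 6) (nat_lit 206) (nat_lit 1) (nat_lit 195) (nat_lit 126) (nat_lit 189)) (PT.nd (nat_lit 78) (PT.lf (nat_lit 15960) (nat_lit 6) (nat_lit 210) (nat_lit 3) (nat_lit 188) (nat_lit 127) (nat_lit 195)) (PT.lf (nat_lit 16036) (nat_lit 6) (nat_lit 211) (nat_lit 3) (nat_lit 189) (nat_lit 127) (nat_lit 194)))) (PT.nd (nat_lit 78) (PT.lf (nat_lit 16112) (nat_lit 6) (nat_lit 212) (nat_lit 3) (nat_lit 190) (nat_lit 127) (nat_lit 193)) (PT.nd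 (nat_lit 78) (PT.lf (nat_lit 16188) (nat_lit 6) (nat_lit 213) (nat_lit 3) (nat_lit 191) (nat_lit 127) (nat_lit 192)) (PT.lf (nat_lit 16188) (nat_lit 6) (nat_lit 213) (nat_lit 1) (nat_lit 192) (nat_lit 127) (nat_lit 191))))))))
noncomputable def pc8 : PT := (PT.nd (nat_lit 159120) (PT.nd (nat_lit 105768) (PT.nd (nat_lit 52884) (PT.nd (nat_lit 156) (PT.nd (nat_lit 78) (PT.lf (nat_lit 16112) (nat_lit 6) (nat_lit 212) (nat_lit 1) (nat_lit 193) (nat_lit 127) (nat_lit 190)) (PT.lf (nat_lit 16036) (nat_lit 6) (nat_lit 211) (nat_lit 1) (nat_lit 194) (nat_lit 127) (nat_lit 189))) (PT.nd (nat_lit 52572) (PT.lf (nat_lit 15960) (nat_lit 6) (nat_lit 210) (nat_lit 1) (nat_lit 195) (nat_lit 127) (nat_lit 188)) (PT.nd (nat_lit 78) (PT.lf (nat_lit 16264) (nat_lit 6) (nat_lit 214) (nat_lit 3) (nat_lit 188) (nat_lit 128) (nat_lit 194)) (PT.lf (nat_lit 16340) (nat_lit 6) (nat_lit 215) (nat_lit 3) (nat_lit 189) (nat_lit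 128) (nat_lit 193))))) (PT.nd (nat_lit 156) (PT.nd (nat_lit 78) (PT.lf (nat_lit 16416) (nat_lit 6) (nat_lit 216) (nat_lit 3) (nat_lit 190) (nat_lit 128) (nat_lit 192)) (PT.lf (nat_lit 16492) (nat_lit 3) (nat_lit 217) (nat_lit 1) (nat_lit 191) (nat_lit 128) (nat_lit 191))) (PT.nd (nat_lit 78) (PT.lf (nat_lit 16416) (nat_lit 6) (nat_lit 216) (nat_lit 1) (nat_lit 192) (nat_lit 128) (nat_lit 190)) (PT.nd (nat_lit 78) (PT.lf (nat_lit 16340) (nat_lit 6) (nat_lit 215) (nat_lit 1) (nat_lit 193) (nat_lit 128) (nat_lit 189)) (PT.lf (nat_lit 16264) (nat_lit 6) (nat_lit 214) (nat_lit 1) (nat_lit 194) (nat_lit 128) (nat_lit 188)))))) (PT.nd (nat_lit 390) (PT.nd (nat_lit 156) (PT.nd (nat_lit 78) (PT.lf (nat_lit 16568) (nat_lit 6) (nat_lit 218) (nat_lit 3) (nat_lit 187) (nat_lit 129) (nat_lit 194)) (PT.lf (nat_lit 16644) (nat_lit 6) (nat_lit 219) (nat_lit 3) (nat_lit 188) (nat_lit 129) (nat_lit 193))) (PT.nd (nat_lit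 78) (PT.lf (nat_lit 16720) (nat_lit 6) (nat_lit 220) (nat_lit 3) (nat_lit 189) (nat_lit 129) (nat_lit 192)) (PT.nd (nat_lit 78) (PT.lf (nat_lit 16796) (nat_lit 6) (nat_lit 221) (nat_lit 3) (nat_lit 190) (nat_lit 129) (nat_lit 191)) (PT.lf (nat_lit 16796) (nat_lit 6) (nat_lit 221) (nat_lit 1) (nat_lit 191) (nat_lit 129) (nat_lit 190))))) (PT.nd (nat_lit 52728) (PT.nd (nat_lit 78) (PT.lf (nat_lit 16720) (nat_lit 6) (nat_lit 220) (nat_lit 1) (nat_lit 192) (nat_lit 129) (nat_lit 189)) (PT.nd (nat_lit 78) (PT.lf (nat_lit 16644) (nat_lit 6) (nat_lit 219) (nat_lit 1) (nat_lit 193) (nat_lit 129) (nat_lit 188)) (PT.lf (nat_lit 16568) (nat_lit 6) (nat_lit 218) (nat_lit 1) (nat_lit 194) (nat_lit 129) (nat_lit 187)))) (PT.nd (nat_lit 78) (PT.lf (nat_lit 16872) (nat_lit 6) (nat_lit 222) (nat_lit 3) (nat_lit 187) (nat_lit 130) (nat_lit 193)) (PT.nd (nat_lit 78) (PT.lf (nat_lit 16948) (nat_lit 6) (nat_lit 223) (nat_lit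 3) (nat_lit 188) (nat_lit 130) (nat_lit 192)) (PT.lf (nat_lit 17024) (nat_lit 6) (nat_lit 224) (nat_lit 3) (nat_lit 189) (nat_lit 130) (nat_lit 191))))))) (PT.nd (nat_lit 53352) (PT.nd (nat_lit 52884) (PT.nd (nat_lit 156) (PT.nd (nat_lit 78) (PT.lf (nat_lit 17100) (nat_lit 3) (nat_lit 225) (nat_lit 1) (nat_lit 190) (nat_lit 130) (nat_lit 190)) (PT.lf (nat_lit 17024) (nat_lit 6) (nat_lit 224) (nat_lit 1) (nat_lit 191) (nat_lit 130) (nat_lit 189))) (PT.nd (nat_lit 78) (PT.lf (nat_lit 16948) (nat_lit 6) (nat_lit 223) (nat_lit 1) (nat_lit 192) (nat_lit 130) (nat_lit 188)) (PT.nd (nat_lit 52572) (PT.lf (nat_lit 16872) (nat_lit 6) (nat_lit 222) (nat_lit 1) (nat_lit 193) (nat_lit 130) (nat_lit 187)) (PT.lf (nat_lit 17176) (nat_lit 6) (nat_lit 226) (nat_lit 3) (nat_lit 186) (nat_lit 131) (nat_lit 193))))) (PT.nd (nat_lit 234) (PT.nd (nat_lit 78) (PT.lf (nat_lit 17252) (nat_lit 6) (nat_lit 227) (nat_lit 3) (nat_lit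 187) (nat_lit 131) (nat_lit 192)) (PT.nd (nat_lit 78) (PT.lf (nat_lit 17328) (nat_lit 6) (nat_lit 228) (nat_lit 3) (nat_lit 188) (nat_lit 131) (nat_lit 191)) (PT.lf (nat_lit 17404) (nat_lit 6) (nat_lit 229) (nat_lit 3) (nat_lit 189) (nat_lit 131) (nat_lit 190)))) (PT.nd (nat_lit 78) (PT.lf (nat_lit 17404) (nat_lit 6) (nat_lit 229) (nat_lit 1) (nat_lit 190) (nat_lit 131) (nat_lit 189)) (PT.nd (nat_lit 78) (PT.lf (nat_lit 17328) (nat_lit 6) (nat_lit 228) (nat_lit 1) (nat_lit 191) (nat_lit 131) (nat_lit 188)) (PT.lf (nat_lit 17252) (nat_lit 6) (nat_lit 227) (nat_lit 1) (nat_lit 192) (nat_lit 131) (nat_lit 187)))))) (PT.nd (nat_lit 52806) (PT.nd (nat_lit 52572) (PT.nd (nat_lit 52494) (PT.lf (nat_lit 17176) (nat_lit 6) (nat_lit 226) (nat_lit 1) (nat_lit 193) (nat_lit 131) (nat_lit 186)) (PT.lf (nat_lit 17480) (nat_lit 6) (nat_lit 230) (nat_lit 3) (nat_lit 185) (nat_lit 132) (nat_lit 193))) (PT.nd (nat_lit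 78) (PT.lf (nat_lit 17556) (nat_lit 6) (nat_lit 231) (nat_lit 3) (nat_lit 186) (nat_lit 132) (nat_lit 192)) (PT.nd (nat_lit 78) (PT.lf (nat_lit 17632) (nat_lit 6) (nat_lit 232) (nat_lit 3) (nat_lit 187) (nat_lit 132) (nat_lit 191)) (PT.lf (nat_lit 17708) (nat_lit 6) (nat_lit 233) (nat_lit 3) (nat_lit 188) (nat_lit 132) (nat_lit 190))))) (PT.nd (nat_lit 234) (PT.nd (nat_lit 78) (PT.lf (nat_lit 17784) (nat_lit 3) (nat_lit 234) (nat_lit 1) (nat_lit 189) (nat_lit 132) (nat_lit 189)) (PT.nd (nat_lit 78) (PT.lf (nat_lit 17708) (nat_lit 6) (nat_lit 233) (nat_lit 1) (nat_lit 190) (nat_lit 132) (nat_lit 188)) (PT.lf (nat_lit 17632) (nat_lit 6) (nat_lit 232) (nat_lit 1) (nat_lit 191) (nat_lit 132) (nat_lit 187)))) (PT.nd (nat_lit 78) (PT.lf (nat_lit 17556) (nat_lit 6) (nat_lit 231) (nat_lit 1) (nat_lit 192) (nat_lit 132) (nat_lit 186)) (PT.nd (nat_lit 52494) (PT.lf (nat_lit 17480) (nat_lit 6) (nat_lit 230) (nat_lit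 1) (nat_lit 193) (nat_lit 132) (nat_lit 185)) (PT.lf (nat_lit 17860) (nat_lit 6) (nat_lit 235) (nat_lit 3) (nat_lit 185) (nat_lit 133) (nat_lit 192))))))))
noncomputable def pc9 : PT := (PT.nd (nat_lit 106470) (PT.nd (nat_lit 53274) (PT.nd (nat_lit 390) (PT.nd (nat_lit 156) (PT.nd (nat_lit 78) (PT.lf (nat_lit 17936) (nat_lit 6) (nat_lit 236) (nat_lit 3) (nat_lit 186) (nat_lit 133) (nat_lit 191)) (PT.lf (nat_lit 18012) (nat_lit 6) (nat_lit 237) (nat_lit 3) (nat_lit 187) (nat_lit 133) (nat_lit 190))) (PT.nd (nat_lit 78) (PT.lf (nat_lit 18088) (nat_lit 6) (nat_lit 238) (nat_lit 3) (nat_lit 188) (nat_lit 133) (nat_lit 189)) (PT.nd (nat_lit 78) (PT.lf (nat_lit 18088) (nat_lit 6) (nat_lit 238) (nat_lit 1) (nat_lit 189) (nat_lit 133) (nat_lit 188)) (PT.lf (nat_lit 18012) (nat_lit 6) (nat_lit 237) (nat_lit 1) (nat_lit 190) (nat_lit 133) (nat_lit 187))))) (PT.nd (nat_lit 52650) (PT.nd (nat_lit 78) (PT.lf (nat_lit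 17936) (nat_lit 6) (nat_lit 236) (nat_lit 1) (nat_lit 191) (nat_lit 133) (nat_lit 186)) (PT.nd (nat_lit 52494) (PT.lf (nat_lit 17860) (nat_lit 6) (nat_lit 235) (nat_lit 1) (nat_lit 192) (nat_lit 133) (nat_lit 185)) (PT.lf (nat_lit 18164) (nat_lit 6) (nat_lit 239) (nat_lit 3) (nat_lit 184) (nat_lit 134) (nat_lit 192)))) (PT.nd (nat_lit 78) (PT.lf (nat_lit 18240) (nat_lit 6) (nat_lit 240) (nat_lit 3) (nat_lit 185) (nat_lit 134) (nat_lit 191)) (PT.nd (nat_lit 78) (PT.lf (nat_lit 18316) (nat_lit 6) (nat_lit 241) (nat_lit 3) (nat_lit 186) (nat_lit 134) (nat_lit 190)) (PT.lf (nat_lit 18392) (nat_lit 6) (nat_lit 242) (nat_lit 3) (nat_lit 187) (nat_lit 134) (nat_lit 189)))))) (PT.nd (nat_lit 52728) (PT.nd (nat_lit 156) (PT.nd (nat_lit 78) (PT.lf (nat_lit 18468) (nat_lit 3) (nat_lit 243) (nat_lit 1) (nat_lit 188) (nat_lit 134) (nat_lit 188)) (PT.lf (nat_lit 18392) (nat_lit 6) (nat_lit 242) (nat_lit 1) (nat_lit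 189) (nat_lit 134) (nat_lit 187))) (PT.nd (nat_lit 78) (PT.lf (nat_lit 18316) (nat_lit 6) (nat_lit 241) (nat_lit 1) (nat_lit 190) (nat_lit 134) (nat_lit 186)) (PT.nd (nat_lit 78) (PT.lf (nat_lit 18240) (nat_lit 6) (nat_lit 240) (nat_lit 1) (nat_lit 191) (nat_lit 134) (nat_lit 185)) (PT.lf (nat_lit 18164) (nat_lit 6) (nat_lit 239) (nat_lit 1) (nat_lit 192) (nat_lit 134) (nat_lit 184))))) (PT.nd (nat_lit 234) (PT.nd (nat_lit 78) (PT.lf (nat_lit 18544) (nat_lit 6) (nat_lit 244) (nat_lit 3) (nat_lit 183) (nat_lit 135) (nat_lit 192)) (PT.nd (nat_lit 78) (PT.lf (nat_lit 18620) (nat_lit 6) (nat_lit 245) (nat_lit 3) (nat_lit 184) (nat_lit 135) (nat_lit 191)) (PT.lf (nat_lit 18696) (nat_lit 6) (nat_lit 246) (nat_lit 3) (nat_lit 185) (nat_lit 135) (nat_lit 190)))) (PT.nd (nat_lit 78) (PT.lf (nat_lit 18772) (nat_lit 6) (nat_lit 247) (nat_lit 3) (nat_lit 186) (nat_lit 135) (nat_lit 189)) (PT.nd (nat_lit 78) (PT.lf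 (nat_lit 18848) (nat_lit 6) (nat_lit 248) (nat_lit 3) (nat_lit 187) (nat_lit 135) (nat_lit 188)) (PT.lf (nat_lit 18848) (nat_lit 6) (nat_lit 248) (nat_lit 1) (nat_lit 188) (nat_lit 135) (nat_lit 187))))))) (PT.nd (nat_lit 53196) (PT.nd (nat_lit 52728) (PT.nd (nat_lit 156) (PT.nd (nat_lit 78) (PT.lf (nat_lit 18772) (nat_lit 6) (nat_lit 247) (nat_lit 1) (nat_lit 189) (nat_lit 135) (nat_lit 186)) (PT.lf (nat_lit 18696) (nat_lit 6) (nat_lit 246) (nat_lit 1) (nat_lit 190) (nat_lit 135) (nat_lit 185))) (PT.nd (nat_lit 78) (PT.lf (nat_lit 18620) (nat_lit 6) (nat_lit 245) (nat_lit 1) (nat_lit 191) (nat_lit 135) (nat_lit 184)) (PT.nd (nat_lit 52416) (PT.lf (nat_lit 18544) (nat_lit 6) (nat_lit 244) (nat_lit 1) (nat_lit 192) (nat_lit 135) (nat_lit 183)) (PT.lf (nat_lit 18924) (nat_lit 6) (nat_lit 249) (nat_lit 3) (nat_lit 183) (nat_lit 136) (nat_lit 191))))) (PT.nd (nat_lit 234) (PT.nd (nat_lit 78) (PT.lf (nat_lit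 19000) (nat_lit 6) (nat_lit 250) (nat_lit 3) (nat_lit 184) (nat_lit 136) (nat_lit 190)) (PT.nd (nat_lit 78) (PT.lf (nat_lit 19076) (nat_lit 6) (nat_lit 251) (nat_lit 3) (nat_lit 185) (nat_lit 136) (nat_lit 189)) (PT.lf (nat_lit 19152) (nat_lit 6) (nat_lit 252) (nat_lit 3) (nat_lit 186) (nat_lit 136) (nat_lit 188)))) (PT.nd (nat_lit 78) (PT.lf (nat_lit 19228) (nat_lit 3) (nat_lit 253) (nat_lit 1) (nat_lit 187) (nat_lit 136) (nat_lit 187)) (PT.nd (nat_lit 78) (PT.lf (nat_lit 19152) (nat_lit 6) (nat_lit 252) (nat_lit 1) (nat_lit 188) (nat_lit 136) (nat_lit 186)) (PT.lf (nat_lit 19076) (nat_lit 6) (nat_lit 251) (nat_lit 1) (nat_lit 189) (nat_lit 136) (nat_lit 185)))))) (PT.nd (nat_lit 52728) (PT.nd (nat_lit 52494) (PT.nd (nat_lit 78) (PT.lf (nat_lit 19000) (nat_lit 6) (nat_lit 250) (nat_lit 1) (nat_lit 190) (nat_lit 136) (nat_lit 184)) (PT.lf (nat_lit 18924) (nat_lit 6) (nat_lit 249) (nat_lit 1) (nat_lit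 191) (nat_lit 136) (nat_lit 183))) (PT.nd (nat_lit 78) (PT.lf (nat_lit 19304) (nat_lit 6) (nat_lit 254) (nat_lit 3) (nat_lit 182) (nat_lit 137) (nat_lit 191)) (PT.nd (nat_lit 78) (PT.lf (nat_lit 19380) (nat_lit 6) (nat_lit 255) (nat_lit 3) (nat_lit 183) (nat_lit 137) (nat_lit 190)) (PT.lf (nat_lit 19456) (nat_lit 6) (nat_lit 256) (nat_lit 3) (nat_lit 184) (nat_lit 137) (nat_lit 189))))) (PT.nd (nat_lit 234) (PT.nd (nat_lit 78) (PT.lf (nat_lit 19532) (nat_lit 6) (nat_lit 257) (nat_lit 3) (nat_lit 185) (nat_lit 137) (nat_lit 188)) (PT.nd (nat_lit 78) (PT.lf (nat_lit 19608) (nat_lit 6) (nat_lit 258) (nat_lit 3) (nat_lit 186) (nat_lit 137) (nat_lit 187)) (PT.lf (nat_lit 19608) (nat_lit 6) (nat_lit 258) (nat_lit 1) (nat_lit 187) (nat_lit 137) (nat_lit 186)))) (PT.nd (nat_lit 78) (PT.lf (nat_lit 19532) (nat_lit 6) (nat_lit 257) (nat_lit 1) (nat_lit 188) (nat_lit 137) (nat_lit 185)) (PT.nd (nat_lit 78) (PT.lf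 (nat_lit 19456) (nat_lit 6) (nat_lit 256) (nat_lit 1) (nat_lit 189) (nat_lit 137) (nat_lit 184)) (PT.lf (nat_lit 19380) (nat_lit 6) (nat_lit 255) (nat_lit 1) (nat_lit 190) (nat_lit 137) (nat_lit 183))))))))
noncomputable def pc10 : PT := (PT.nd (nat_lit 106158) (PT.nd (nat_lit 53040) (PT.nd (nat_lit 52650) (PT.nd (nat_lit 52416) (PT.nd (nat_lit 52338) (PT.lf (nat_lit 19304) (nat_lit 6) (nat_lit 254) (nat_lit 1) (nat_lit 191) (nat_lit 137) (nat_lit 182)) (PT.lf (nat_lit 19684) (nat_lit 6) (nat_lit 259) (nat_lit 3) (nat_lit 181) (nat_lit 138) (nat_lit 191))) (PT.nd (nat_lit 78) (PT.lf (nat_lit 19760) (nat_lit 6) (nat_lit 260) (nat_lit 3) (nat_lit 182) (nat_lit 138) (nat_lit 190)) (PT.nd (nat_lit 78) (PT.lf (nat_lit 19836) (nat_lit 6) (nat_lit 261) (nat_lit 3) (nat_lit 183) (nat_lit 138) (nat_lit 189)) (PT.lf (nat_lit 19912) (nat_lit 6) (nat_lit 262) (nat_lit 3) (nat_lit 184) (nat_lit 138) (nat_lit 188)))))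 (PT.nd (nat_lit 156) (PT.nd (nat_lit 78) (PT.lf (nat_lit 19988) (nat_lit 6) (nat_lit 263) (nat_lit 3) (nat_lit 185) (nat_lit 138) (nat_lit 187)) (PT.lf (nat_lit 20064) (nat_lit 3) (nat_lit 264) (nat_lit 1) (nat_lit 186) (nat_lit 138) (nat_lit 186))) (PT.nd (nat_lit 78) (PT.lf (nat_lit 19988) (nat_lit 6) (nat_lit 263) (nat_lit 1) (nat_lit 187) (nat_lit 138) (nat_lit 185)) (PT.nd (nat_lit 78) (PT.lf (nat_lit 19912) (nat_lit 6) (nat_lit 262) (nat_lit 1) (nat_lit 188) (nat_lit 138) (nat_lit 184)) (PT.lf (nat_lit 19836) (nat_lit 6) (nat_lit 261) (nat_lit 1) (nat_lit 189) (nat_lit 138) (nat_lit 183)))))) (PT.nd (nat_lit 52650) (PT.nd (nat_lit 52416) (PT.nd (nat_lit 78) (PT.lf (nat_lit 19760) (nat_lit 6) (nat_lit 260) (nat_lit 1) (nat_lit 190) (nat_lit 138) (nat_lit 182)) (PT.lf (nat_lit 19684) (nat_lit 6) (nat_lit 259) (nat_lit 1) (nat_lit 191) (nat_lit 138) (nat_lit 181))) (PT.nd (nat_lit 78) (PT.lf (nat_lit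 20140) (nat_lit 6) (nat_lit 265) (nat_lit 3) (nat_lit 181) (nat_lit 139) (nat_lit 190)) (PT.nd (nat_lit 78) (PT.lf (nat_lit 20216) (nat_lit 6) (nat_lit 266) (nat_lit 3) (nat_lit 182) (nat_lit 139) (nat_lit 189)) (PT.lf (nat_lit 20292) (nat_lit 6) (nat_lit 267) (nat_lit 3) (nat_lit 183) (nat_lit 139) (nat_lit 188))))) (PT.nd (nat_lit 234) (PT.nd (nat_lit 78) (PT.lf (nat_lit 20368) (nat_lit 6) (nat_lit 268) (nat_lit 3) (nat_lit 184) (nat_lit 139) (nat_lit 187)) (PT.nd (nat_lit 78) (PT.lf (nat_lit 20444) (nat_lit 6) (nat_lit 269) (nat_lit 3) (nat_lit 185) (nat_lit 139) (nat_lit 186)) (PT.lf (nat_lit 20444) (nat_lit 6) (nat_lit 269) (nat_lit 1) (nat_lit 186) (nat_lit 139) (nat_lit 185)))) (PT.nd (nat_lit 78) (PT.lf (nat_lit 20368) (nat_lit 6) (nat_lit 268) (nat_lit 1) (nat_lit 187) (nat_lit 139) (nat_lit 184)) (PT.nd (nat_lit 78) (PT.lf (nat_lit 20292) (nat_lit 6) (nat_lit 267) (nat_lit 1) (nat_lit 188)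 (nat_lit 139) (nat_lit 183)) (PT.lf (nat_lit 20216) (nat_lit 6) (nat_lit 266) (nat_lit 1) (nat_lit 189) (nat_lit 139) (nat_lit 182))))))) (PT.nd (nat_lit 53118) (PT.nd (nat_lit 52650) (PT.nd (nat_lit 52416) (PT.nd (nat_lit 52338) (PT.lf (nat_lit 20140) (nat_lit 6) (nat_lit 265) (nat_lit 1) (nat_lit 190) (nat_lit 139) (nat_lit 181)) (PT.lf (nat_lit 20520) (nat_lit 6) (nat_lit 270) (nat_lit 3) (nat_lit 180) (nat_lit 140) (nat_lit 190))) (PT.nd (nat_lit 78) (PT.lf (nat_lit 20596) (nat_lit 6) (nat_lit 271) (nat_lit 3) (nat_lit 181) (nat_lit 140) (nat_lit 189)) (PT.nd (nat_lit 78) (PT.lf (nat_lit 20672) (nat_lit 6) (nat_lit 272) (nat_lit 3) (nat_lit 182) (nat_lit 140) (nat_lit 188)) (PT.lf (nat_lit 20748) (nat_lit 6) (nat_lit 273) (nat_lit 3) (nat_lit 183) (nat_lit 140) (nat_lit 187))))) (PT.nd (nat_lit 234) (PT.nd (nat_lit 78) (PT.lf (nat_lit 20824) (nat_lit 6) (nat_lit 274) (nat_lit 3) (nat_lit 184) (nat_lit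 140) (nat_lit 186)) (PT.nd (nat_lit 78) (PT.lf (nat_lit 20900) (nat_lit 3) (nat_lit 275) (nat_lit 1) (nat_lit 185) (nat_lit 140) (nat_lit 185)) (PT.lf (nat_lit 20824) (nat_lit 6) (nat_lit 274) (nat_lit 1) (nat_lit 186) (nat_lit 140) (nat_lit 184)))) (PT.nd (nat_lit 78) (PT.lf (nat_lit 20748) (nat_lit 6) (nat_lit 273) (nat_lit 1) (nat_lit 187) (nat_lit 140) (nat_lit 183)) (PT.nd (nat_lit 78) (PT.lf (nat_lit 20672) (nat_lit 6) (nat_lit 272) (nat_lit 1) (nat_lit 188) (nat_lit 140) (nat_lit 182)) (PT.lf (nat_lit 20596) (nat_lit 6) (nat_lit 271) (nat_lit 1) (nat_lit 189) (nat_lit 140) (nat_lit 181)))))) (PT.nd (nat_lit 52572) (PT.nd (nat_lit 52338) (PT.nd (nat_lit 52260) (PT.lf (nat_lit 20520) (nat_lit 6) (nat_lit 270) (nat_lit 1) (nat_lit 190) (nat_lit 140) (nat_lit 180)) (PT.lf (nat_lit 20976) (nat_lit 6) (nat_lit 276) (nat_lit 3) (nat_lit 179) (nat_lit 141) (nat_lit 190))) (PT.nd (nat_lit 78) (PT.lf (nat_lit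 21052) (nat_lit 6) (nat_lit 277) (nat_lit 3) (nat_lit 180) (nat_lit 141) (nat_lit 189)) (PT.nd (nat_lit 78) (PT.lf (nat_lit 21128) (nat_lit 6) (nat_lit 278) (nat_lit 3) (nat_lit 181) (nat_lit 141) (nat_lit 188)) (PT.lf (nat_lit 21204) (nat_lit 6) (nat_lit 279) (nat_lit 3) (nat_lit 182) (nat_lit 141) (nat_lit 187))))) (PT.nd (nat_lit 234) (PT.nd (nat_lit 78) (PT.lf (nat_lit 21280) (nat_lit 6) (nat_lit 280) (nat_lit 3) (nat_lit 183) (nat_lit 141) (nat_lit 186)) (PT.nd (nat_lit 78) (PT.lf (nat_lit 21356) (nat_lit 6) (nat_lit 281) (nat_lit 3) (nat_lit 184) (nat_lit 141) (nat_lit 185)) (PT.lf (nat_lit 21356) (nat_lit 6) (nat_lit 281) (nat_lit 1) (nat_lit 185) (nat_lit 141) (nat_lit 184)))) (PT.nd (nat_lit 78) (PT.lf (nat_lit 21280) (nat_lit 6) (nat_lit 280) (nat_lit 1) (nat_lit 186) (nat_lit 141) (nat_lit 183)) (PT.nd (nat_lit 78) (PT.lf (nat_lit 21204) (nat_lit 6) (nat_lit 279) (nat_lit 1) (nat_lit 187)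 (nat_lit 141) (nat_lit 182)) (PT.lf (nat_lit 21128) (nat_lit 6) (nat_lit 278) (nat_lit 1) (nat_lit 188) (nat_lit 141) (nat_lit 181))))))))
noncomputable def pc11 : PT := (PT.nd (nat_lit 106080) (PT.nd (nat_lit 53040) (PT.nd (nat_lit 52572) (PT.nd (nat_lit 52338) (PT.nd (nat_lit 78) (PT.lf (nat_lit 21052) (nat_lit 6) (nat_lit 277) (nat_lit 1) (nat_lit 189) (nat_lit 141) (nat_lit 180)) (PT.lf (nat_lit 20976) (nat_lit 6) (nat_lit 276) (nat_lit 1) (nat_lit 190) (nat_lit 141) (nat_lit 179))) (PT.nd (nat_lit 78) (PT.lf (nat_lit 21432) (nat_lit 6) (nat_lit 282) (nat_lit 3) (nat_lit 179) (nat_lit 142) (nat_lit 189)) (PT.nd (nat_lit 78) (PT.lf (nat_lit 21508) (nat_lit 6) (nat_lit 283) (nat_lit 3) (nat_lit 180) (nat_lit 142) (nat_lit 188)) (PT.lf (nat_lit 21584) (nat_lit 6) (nat_lit 284) (nat_lit 3) (nat_lit 181) (nat_lit 142) (nat_lit 187))))) (PT.nd (nat_lit 234) (PT.nd (nat_lit 78) (PT.lf (nat_lit 21660) (nat_lit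 6) (nat_lit 285) (nat_lit 3) (nat_lit 182) (nat_lit 142) (nat_lit 186)) (PT.nd (nat_lit 78) (PT.lf (nat_lit 21736) (nat_lit 6) (nat_lit 286) (nat_lit 3) (nat_lit 183) (nat_lit 142) (nat_lit 185)) (PT.lf (nat_lit 21812) (nat_lit 3) (nat_lit 287) (nat_lit 1) (nat_lit 184) (nat_lit 142) (nat_lit 184)))) (PT.nd (nat_lit 78) (PT.lf (nat_lit 21736) (nat_lit 6) (nat_lit 286) (nat_lit 1) (nat_lit 185) (nat_lit 142) (nat_lit 183)) (PT.nd (nat_lit 78) (PT.lf (nat_lit 21660) (nat_lit 6) (nat_lit 285) (nat_lit 1) (nat_lit 186) (nat_lit 142) (nat_lit 182)) (PT.lf (nat_lit 21584) (nat_lit 6) (nat_lit 284) (nat_lit 1) (nat_lit 187) (nat_lit 142) (nat_lit 181)))))) (PT.nd (nat_lit 52572) (PT.nd (nat_lit 52338) (PT.nd (nat_lit 78) (PT.lf (nat_lit 21508) (nat_lit 6) (nat_lit 283) (nat_lit 1) (nat_lit 188) (nat_lit 142) (nat_lit 180)) (PT.lf (nat_lit 21432) (nat_lit 6) (nat_lit 282) (nat_lit 1) (nat_lit 189) (nat_lit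 142) (nat_lit 179))) (PT.nd (nat_lit 78) (PT.lf (nat_lit 21888) (nat_lit 6) (nat_lit 288) (nat_lit 3) (nat_lit 178) (nat_lit 143) (nat_lit 189)) (PT.nd (nat_lit 78) (PT.lf (nat_lit 21964) (nat_lit 6) (nat_lit 289) (nat_lit 3) (nat_lit 179) (nat_lit 143) (nat_lit 188)) (PT.lf (nat_lit 22040) (nat_lit 6) (nat_lit 290) (nat_lit 3) (nat_lit 180) (nat_lit 143) (nat_lit 187))))) (PT.nd (nat_lit 234) (PT.nd (nat_lit 78) (PT.lf (nat_lit 22116) (nat_lit 6) (nat_lit 291) (nat_lit 3) (nat_lit 181) (nat_lit 143) (nat_lit 186)) (PT.nd (nat_lit 78) (PT.lf (nat_lit 22192) (nat_lit 6) (nat_lit 292) (nat_lit 3) (nat_lit 182) (nat_lit 143) (nat_lit 185)) (PT.lf (nat_lit 22268) (nat_lit 6) (nat_lit 293) (nat_lit 3) (nat_lit 183) (nat_lit 143) (nat_lit 184)))) (PT.nd (nat_lit 78) (PT.lf (nat_lit 22268) (nat_lit 6) (nat_lit 293) (nat_lit 1) (nat_lit 184) (nat_lit 143) (nat_lit 183)) (PT.nd (nat_lit 78) (PT.lf (nat_lit 22192)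 (nat_lit 6) (nat_lit 292) (nat_lit 1) (nat_lit 185) (nat_lit 143) (nat_lit 182)) (PT.lf (nat_lit 22116) (nat_lit 6) (nat_lit 291) (nat_lit 1) (nat_lit 186) (nat_lit 143) (nat_lit 181))))))) (PT.nd (nat_lit 52962) (PT.nd (nat_lit 52494) (PT.nd (nat_lit 156) (PT.nd (nat_lit 78) (PT.lf (nat_lit 22040) (nat_lit 6) (nat_lit 290) (nat_lit 1) (nat_lit 187) (nat_lit 143) (nat_lit 180)) (PT.lf (nat_lit 21964) (nat_lit 6) (nat_lit 289) (nat_lit 1) (nat_lit 188) (nat_lit 143) (nat_lit 179))) (PT.nd (nat_lit 52182) (PT.lf (nat_lit 21888) (nat_lit 6) (nat_lit 288) (nat_lit 1) (nat_lit 189) (nat_lit 143) (nat_lit 178)) (PT.nd (nat_lit 78) (PT.lf (nat_lit 22344) (nat_lit 6) (nat_lit 294) (nat_lit 3) (nat_lit 177) (nat_lit 144) (nat_lit 189)) (PT.lf (nat_lit 22420) (nat_lit 6) (nat_lit 295) (nat_lit 3) (nat_lit 178) (nat_lit 144) (nat_lit 188))))) (PT.nd (nat_lit 234) (PT.nd (nat_lit 78) (PT.lf (nat_lit 22496) (nat_lit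 6) (nat_lit 296) (nat_lit 3) (nat_lit 179) (nat_lit 144) (nat_lit 187)) (PT.nd (nat_lit 78) (PT.lf (nat_lit 22572) (nat_lit 6) (nat_lit 297) (nat_lit 3) (nat_lit 180) (nat_lit 144) (nat_lit 186)) (PT.lf (nat_lit 22648) (nat_lit 6) (nat_lit 298) (nat_lit 3) (nat_lit 181) (nat_lit 144) (nat_lit 185)))) (PT.nd (nat_lit 78) (PT.lf (nat_lit 22724) (nat_lit 6) (nat_lit 299) (nat_lit 3) (nat_lit 182) (nat_lit 144) (nat_lit 184)) (PT.nd (nat_lit 78) (PT.lf (nat_lit 22800) (nat_lit 3) (nat_lit 300) (nat_lit 1) (nat_lit 183) (nat_lit 144) (nat_lit 183)) (PT.lf (nat_lit 22724) (nat_lit 6) (nat_lit 299) (nat_lit 1) (nat_lit 184) (nat_lit 144) (nat_lit 182)))))) (PT.nd (nat_lit 52416) (PT.nd (nat_lit 156) (PT.nd (nat_lit 78) (PT.lf (nat_lit 22648) (nat_lit 6) (nat_lit 298) (nat_lit 1) (nat_lit 185) (nat_lit 144) (nat_lit 181)) (PT.lf (nat_lit 22572) (nat_lit 6) (nat_lit 297) (nat_lit 1) (nat_lit 186) (nat_lit 144)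 (nat_lit 180))) (PT.nd (nat_lit 78) (PT.lf (nat_lit 22496) (nat_lit 6) (nat_lit 296) (nat_lit 1) (nat_lit 187) (nat_lit 144) (nat_lit 179)) (PT.nd (nat_lit 78) (PT.lf (nat_lit 22420) (nat_lit 6) (nat_lit 295) (nat_lit 1) (nat_lit 188) (nat_lit 144) (nat_lit 178)) (PT.lf (nat_lit 22344) (nat_lit 6) (nat_lit 294) (nat_lit 1) (nat_lit 189) (nat_lit 144) (nat_lit 177))))) (PT.nd (nat_lit 234) (PT.nd (nat_lit 78) (PT.lf (nat_lit 22876) (nat_lit 6) (nat_lit 301) (nat_lit 3) (nat_lit 176) (nat_lit 145) (nat_lit 189)) (PT.nd (nat_lit 78) (PT.lf (nat_lit 22952) (nat_lit 6) (nat_lit 302) (nat_lit 3) (nat_lit 177) (nat_lit 145) (nat_lit 188)) (PT.lf (nat_lit 23028) (nat_lit 6) (nat_lit 303) (nat_lit 3) (nat_lit 178) (nat_lit 145) (nat_lit 187)))) (PT.nd (nat_lit 78) (PT.lf (nat_lit 23104) (nat_lit 6) (nat_lit 304) (nat_lit 3) (nat_lit 179) (nat_lit 145) (nat_lit 186)) (PT.nd (nat_lit 78) (PT.lf (nat_lit 23180)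 (nat_lit 6) (nat_lit 305) (nat_lit 3) (nat_lit 180) (nat_lit 145) (nat_lit 185)) (PT.lf (nat_lit 23256) (nat_lit 6) (nat_lit 306) (nat_lit 3) (nat_lit 181) (nat_lit 145) (nat_lit 184))))))))
noncomputable def pc12 : PT := (PT.nd (nat_lit 105690) (PT.nd (nat_lit 52806) (PT.nd (nat_lit 390) (PT.nd (nat_lit 156) (PT.nd (nat_lit 78) (PT.lf (nat_lit 23332) (nat_lit 6) (nat_lit 307) (nat_lit 3) (nat_lit 182) (nat_lit 145) (nat_lit 183)) (PT.lf (nat_lit 23332) (nat_lit 6) (nat_lit 307) (nat_lit 1) (nat_lit 183) (nat_lit 145) (nat_lit 182))) (PT.nd (nat_lit 78) (PT.lf (nat_lit 23256) (nat_lit 6) (nat_lit 306) (nat_lit 1) (nat_lit 184) (nat_lit 145) (nat_lit 181)) (PT.nd (nat_lit 78) (PT.lf (nat_lit 23180) (nat_lit 6) (nat_lit 305) (nat_lit 1) (nat_lit 185) (nat_lit 145) (nat_lit 180)) (PT.lf (nat_lit 23104) (nat_lit 6) (nat_lit 304) (nat_lit 1) (nat_lit 186) (nat_lit 145) (nat_lit 179))))) (PT.nd (nat_lit 156)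 (PT.nd (nat_lit 78) (PT.lf (nat_lit 23028) (nat_lit 6) (nat_lit 303) (nat_lit 1) (nat_lit 187) (nat_lit 145) (nat_lit 178)) (PT.lf (nat_lit 22952) (nat_lit 6) (nat_lit 302) (nat_lit 1) (nat_lit 188) (nat_lit 145) (nat_lit 177))) (PT.nd (nat_lit 52104) (PT.lf (nat_lit 22876) (nat_lit 6) (nat_lit 301) (nat_lit 1) (nat_lit 189) (nat_lit 145) (nat_lit 176)) (PT.nd (nat_lit 78) (PT.lf (nat_lit 23408) (nat_lit 6) (nat_lit 308) (nat_lit 3) (nat_lit 176) (nat_lit 146) (nat_lit 188)) (PT.lf (nat_lit 23484) (nat_lit 6) (nat_lit 309) (nat_lit 3) (nat_lit 177) (nat_lit 146) (nat_lit 187)))))) (PT.nd (nat_lit 390) (PT.nd (nat_lit 156) (PT.nd (nat_lit 78) (PT.lf (nat_lit 23560) (nat_lit 6) (nat_lit 310) (nat_lit 3) (nat_lit 178) (nat_lit 146) (nat_lit 186)) (PT.lf (nat_lit 23636) (nat_lit 6) (nat_lit 311) (nat_lit 3) (nat_lit 179) (nat_lit 146) (nat_lit 185))) (PT.nd (nat_lit 78) (PT.lf (nat_lit 23712) (nat_lit 6)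 (nat_lit 312) (nat_lit 3) (nat_lit 180) (nat_lit 146) (nat_lit 184)) (PT.nd (nat_lit 78) (PT.lf (nat_lit 23788) (nat_lit 6) (nat_lit 313) (nat_lit 3) (nat_lit 181) (nat_lit 146) (nat_lit 183)) (PT.lf (nat_lit 23864) (nat_lit 3) (nat_lit 314) (nat_lit 1) (nat_lit 182) (nat_lit 146) (nat_lit 182))))) (PT.nd (nat_lit 234) (PT.nd (nat_lit 78) (PT.lf (nat_lit 23788) (nat_lit 6) (nat_lit 313) (nat_lit 1) (nat_lit 183) (nat_lit 146) (nat_lit 181)) (PT.nd (nat_lit 78) (PT.lf (nat_lit 23712) (nat_lit 6) (nat_lit 312) (nat_lit 1) (nat_lit 184) (nat_lit 146) (nat_lit 180)) (PT.lf (nat_lit 23636) (nat_lit 6) (nat_lit 311) (nat_lit 1) (nat_lit 185) (nat_lit 146) (nat_lit 179)))) (PT.nd (nat_lit 78) (PT.lf (nat_lit 23560) (nat_lit 6) (nat_lit 310) (nat_lit 1) (nat_lit 186) (nat_lit 146) (nat_lit 178)) (PT.nd (nat_lit 78) (PT.lf (nat_lit 23484) (nat_lit 6) (nat_lit 309) (nat_lit 1) (nat_lit 187) (nat_lit 146) (nat_lit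 177)) (PT.lf (nat_lit 23408) (nat_lit 6) (nat_lit 308) (nat_lit 1) (nat_lit 188) (nat_lit 146) (nat_lit 176))))))) (PT.nd (nat_lit 858) (PT.nd (nat_lit 390) (PT.nd (nat_lit 156) (PT.nd (nat_lit 78) (PT.lf (nat_lit 23940) (nat_lit 6) (nat_lit 315) (nat_lit 3) (nat_lit 175) (nat_lit 147) (nat_lit 188)) (PT.lf (nat_lit 24016) (nat_lit 6) (nat_lit 316) (nat_lit 3) (nat_lit 176) (nat_lit 147) (nat_lit 187))) (PT.nd (nat_lit 78) (PT.lf (nat_lit 24092) (nat_lit 6) (nat_lit 317) (nat_lit 3) (nat_lit 177) (nat_lit 147) (nat_lit 186)) (PT.nd (nat_lit 78) (PT.lf (nat_lit 24168) (nat_lit 6) (nat_lit 318) (nat_lit 3) (nat_lit 178) (nat_lit 147) (nat_lit 185)) (PT.lf (nat_lit 24244) (nat_lit 6) (nat_lit 319) (nat_lit 3) (nat_lit 179) (nat_lit 147) (nat_lit 184))))) (PT.nd (nat_lit 234) (PT.nd (nat_lit 78) (PT.lf (nat_lit 24320) (nat_lit 6) (nat_lit 320) (nat_lit 3) (nat_lit 180) (nat_lit 147) (nat_lit 183)) (PT.nd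 (nat_lit 78) (PT.lf (nat_lit 24396) (nat_lit 6) (nat_lit 321) (nat_lit 3) (nat_lit 181) (nat_lit 147) (nat_lit 182)) (PT.lf (nat_lit 24396) (nat_lit 6) (nat_lit 321) (nat_lit 1) (nat_lit 182) (nat_lit 147) (nat_lit 181)))) (PT.nd (nat_lit 78) (PT.lf (nat_lit 24320) (nat_lit 6) (nat_lit 320) (nat_lit 1) (nat_lit 183) (nat_lit 147) (nat_lit 180)) (PT.nd (nat_lit 78) (PT.lf (nat_lit 24244) (nat_lit 6) (nat_lit 319) (nat_lit 1) (nat_lit 184) (nat_lit 147) (nat_lit 179)) (PT.lf (nat_lit 24168) (nat_lit 6) (nat_lit 318) (nat_lit 1) (nat_lit 185) (nat_lit 147) (nat_lit 178)))))) (PT.nd (nat_lit 52338) (PT.nd (nat_lit 156) (PT.nd (nat_lit 78) (PT.lf (nat_lit 24092) (nat_lit 6) (nat_lit 317) (nat_lit 1) (nat_lit 186) (nat_lit 147) (nat_lit 177)) (PT.lf (nat_lit 24016) (nat_lit 6) (nat_lit 316) (nat_lit 1) (nat_lit 187) (nat_lit 147) (nat_lit 176))) (PT.nd (nat_lit 52026) (PT.lf (nat_lit 23940) (nat_lit 6) (nat_lit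 315) (nat_lit 1) (nat_lit 188) (nat_lit 147) (nat_lit 175)) (PT.nd (nat_lit 78) (PT.lf (nat_lit 24472) (nat_lit 6) (nat_lit 322) (nat_lit 3) (nat_lit 174) (nat_lit 148) (nat_lit 188)) (PT.lf (nat_lit 24548) (nat_lit 6) (nat_lit 323) (nat_lit 3) (nat_lit 175) (nat_lit 148) (nat_lit 187))))) (PT.nd (nat_lit 234) (PT.nd (nat_lit 78) (PT.lf (nat_lit 24624) (nat_lit 6) (nat_lit 324) (nat_lit 3) (nat_lit 176) (nat_lit 148) (nat_lit 186)) (PT.nd (nat_lit 78) (PT.lf (nat_lit 24700) (nat_lit 6) (nat_lit 325) (nat_lit 3) (nat_lit 177) (nat_lit 148) (nat_lit 185)) (PT.lf (nat_lit 24776) (nat_lit 6) (nat_lit 326) (nat_lit 3) (nat_lit 178) (nat_lit 148) (nat_lit 184)))) (PT.nd (nat_lit 78) (PT.lf (nat_lit 24852) (nat_lit 6) (nat_lit 327) (nat_lit 3) (nat_lit 179) (nat_lit 148) (nat_lit 183)) (PT.nd (nat_lit 78) (PT.lf (nat_lit 24928) (nat_lit 6) (nat_lit 328) (nat_lit 3) (nat_lit 180) (nat_lit 148) (nat_lit 182))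 (PT.lf (nat_lit 25004) (nat_lit 3) (nat_lit 329) (nat_lit 1) (nat_lit 181) (nat_lit 148) (nat_lit 181))))))))
noncomputable def pc13 : PT := (PT.nd (nat_lit 53586) (PT.nd (nat_lit 52728) (PT.nd (nat_lit 390) (PT.nd (nat_lit 156) (PT.nd (nat_lit 78) (PT.lf (nat_lit 24928) (nat_lit 6) (nat_lit 328) (nat_lit 1) (nat_lit 182) (nat_lit 148) (nat_lit 180)) (PT.lf (nat_lit 24852) (nat_lit 6) (nat_lit 327) (nat_lit 1) (nat_lit 183) (nat_lit 148) (nat_lit 179))) (PT.nd (nat_lit 78) (PT.lf (nat_lit 24776) (nat_lit 6) (nat_lit 326) (nat_lit 1) (nat_lit 184) (nat_lit 148) (nat_lit 178)) (PT.nd (nat_lit 78) (PT.lf (nat_lit 24700) (nat_lit 6) (nat_lit 325) (nat_lit 1) (nat_lit 185) (nat_lit 148) (nat_lit 177)) (PT.lf (nat_lit 24624) (nat_lit 6) (nat_lit 324) (nat_lit 1) (nat_lit 186) (nat_lit 148) (nat_lit 176))))) (PT.nd (nat_lit 52104) (PT.nd (nat_lit 78) (PT.lf (nat_lit 24548) (nat_lit 6) (nat_lit 323) (nat_lit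 1) (nat_lit 187) (nat_lit 148) (nat_lit 175)) (PT.nd (nat_lit 51948) (PT.lf (nat_lit 24472) (nat_lit 6) (nat_lit 322) (nat_lit 1) (nat_lit 188) (nat_lit 148) (nat_lit 174)) (PT.lf (nat_lit 25080) (nat_lit 6) (nat_lit 330) (nat_lit 3) (nat_lit 173) (nat_lit 149) (nat_lit 188)))) (PT.nd (nat_lit 78) (PT.lf (nat_lit 25156) (nat_lit 6) (nat_lit 331) (nat_lit 3) (nat_lit 174) (nat_lit 149) (nat_lit 187)) (PT.nd (nat_lit 78) (PT.lf (nat_lit 25232) (nat_lit 6) (nat_lit 332) (nat_lit 3) (nat_lit 175) (nat_lit 149) (nat_lit 186)) (PT.lf (nat_lit 25308) (nat_lit 6) (nat_lit 333) (nat_lit 3) (nat_lit 176) (nat_lit 149) (nat_lit 185)))))) (PT.nd (nat_lit 390) (PT.nd (nat_lit 156) (PT.nd (nat_lit 78) (PT.lf (nat_lit 25384) (nat_lit 6) (nat_lit 334) (nat_lit 3) (nat_lit 177) (nat_lit 149) (nat_lit 184)) (PT.lf (nat_lit 25460) (nat_lit 6) (nat_lit 335) (nat_lit 3) (nat_lit 178) (nat_lit 149) (nat_lit 183))) (PT.nd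 (nat_lit 78) (PT.lf (nat_lit 25536) (nat_lit 6) (nat_lit 336) (nat_lit 3) (nat_lit 179) (nat_lit 149) (nat_lit 182)) (PT.nd (nat_lit 78) (PT.lf (nat_lit 25612) (nat_lit 6) (nat_lit 337) (nat_lit 3) (nat_lit 180) (nat_lit 149) (nat_lit 181)) (PT.lf (nat_lit 25612) (nat_lit 6) (nat_lit 337) (nat_lit 1) (nat_lit 181) (nat_lit 149) (nat_lit 180))))) (PT.nd (nat_lit 234) (PT.nd (nat_lit 78) (PT.lf (nat_lit 25536) (nat_lit 6) (nat_lit 336) (nat_lit 1) (nat_lit 182) (nat_lit 149) (nat_lit 179)) (PT.nd (nat_lit 78) (PT.lf (nat_lit 25460) (nat_lit 6) (nat_lit 335) (nat_lit 1) (nat_lit 183) (nat_lit 149) (nat_lit 178)) (PT.lf (nat_lit 25384) (nat_lit 6) (nat_lit 334) (nat_lit 1) (nat_lit 184) (nat_lit 149) (nat_lit 177)))) (PT.nd (nat_lit 78) (PT.lf (nat_lit 25308) (nat_lit 6) (nat_lit 333) (nat_lit 1) (nat_lit 185) (nat_lit 149) (nat_lit 176)) (PT.nd (nat_lit 78) (PT.lf (nat_lit 25232) (nat_lit 6) (nat_lit 332)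 (nat_lit 1) (nat_lit 186) (nat_lit 149) (nat_lit 175)) (PT.lf (nat_lit 25156) (nat_lit 6) (nat_lit 331) (nat_lit 1) (nat_lit 187) (nat_lit 149) (nat_lit 174))))))) (PT.nd (nat_lit 52728) (PT.nd (nat_lit 52260) (PT.nd (nat_lit 52026) (PT.nd (nat_lit 51948) (PT.lf (nat_lit 25080) (nat_lit 6) (nat_lit 330) (nat_lit 1) (nat_lit 188) (nat_lit 149) (nat_lit 173)) (PT.lf (nat_lit 25688) (nat_lit 6) (nat_lit 338) (nat_lit 3) (nat_lit 173) (nat_lit 150) (nat_lit 187))) (PT.nd (nat_lit 78) (PT.lf (nat_lit 25764) (nat_lit 6) (nat_lit 339) (nat_lit 3) (nat_lit 174) (nat_lit 150) (nat_lit 186)) (PT.nd (nat_lit 78) (PT.lf (nat_lit 25840) (nat_lit 6) (nat_lit 340) (nat_lit 3) (nat_lit 175) (nat_lit 150) (nat_lit 185)) (PT.lf (nat_lit 25916) (nat_lit 6) (nat_lit 341) (nat_lit 3) (nat_lit 176) (nat_lit 150) (nat_lit 184))))) (PT.nd (nat_lit 234) (PT.nd (nat_lit 78) (PT.lf (nat_lit 25992) (nat_lit 6) (nat_lit 342) (nat_lit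 3) (nat_lit 177) (nat_lit 150) (nat_lit 183)) (PT.nd (nat_lit 78) (PT.lf (nat_lit 26068) (nat_lit 6) (nat_lit 343) (nat_lit 3) (nat_lit 178) (nat_lit 150) (nat_lit 182)) (PT.lf (nat_lit 26144) (nat_lit 6) (nat_lit 344) (nat_lit 3) (nat_lit 179) (nat_lit 150) (nat_lit 181)))) (PT.nd (nat_lit 78) (PT.lf (nat_lit 26220) (nat_lit 3) (nat_lit 345) (nat_lit 1) (nat_lit 180) (nat_lit 150) (nat_lit 180)) (PT.nd (nat_lit 78) (PT.lf (nat_lit 26144) (nat_lit 6) (nat_lit 344) (nat_lit 1) (nat_lit 181) (nat_lit 150) (nat_lit 179)) (PT.lf (nat_lit 26068) (nat_lit 6) (nat_lit 343) (nat_lit 1) (nat_lit 182) (nat_lit 150) (nat_lit 178)))))) (PT.nd (nat_lit 52260) (PT.nd (nat_lit 156) (PT.nd (nat_lit 78) (PT.lf (nat_lit 25992) (nat_lit 6) (nat_lit 342) (nat_lit 1) (nat_lit 183) (nat_lit 150) (nat_lit 177)) (PT.lf (nat_lit 25916) (nat_lit 6) (nat_lit 341) (nat_lit 1) (nat_lit 184) (nat_lit 150) (nat_lit 176))) (PT.nd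 (nat_lit 78) (PT.lf (nat_lit 25840) (nat_lit 6) (nat_lit 340) (nat_lit 1) (nat_lit 185) (nat_lit 150) (nat_lit 175)) (PT.nd (nat_lit 78) (PT.lf (nat_lit 25764) (nat_lit 6) (nat_lit 339) (nat_lit 1) (nat_lit 186) (nat_lit 150) (nat_lit 174)) (PT.lf (nat_lit 25688) (nat_lit 6) (nat_lit 338) (nat_lit 1) (nat_lit 187) (nat_lit 150) (nat_lit 173))))) (PT.nd (nat_lit 234) (PT.nd (nat_lit 78) (PT.lf (nat_lit 26296) (nat_lit 6) (nat_lit 346) (nat_lit 3) (nat_lit 172) (nat_lit 151) (nat_lit 187)) (PT.nd (nat_lit 78) (PT.lf (nat_lit 26372) (nat_lit 6) (nat_lit 347) (nat_lit 3) (nat_lit 173) (nat_lit 151) (nat_lit 186)) (PT.lf (nat_lit 26448) (nat_lit 6) (nat_lit 348) (nat_lit 3) (nat_lit 174) (nat_lit 151) (nat_lit 185)))) (PT.nd (nat_lit 78) (PT.lf (nat_lit 26524) (nat_lit 6) (nat_lit 349) (nat_lit 3) (nat_lit 175) (nat_lit 151) (nat_lit 184)) (PT.nd (nat_lit 78) (PT.lf (nat_lit 26600) (nat_lit 6) (nat_lit 350)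 (nat_lit 3) (nat_lit 176) (nat_lit 151) (nat_lit 183)) (PT.lf (nat_lit 26676) (nat_lit 6) (nat_lit 351) (nat_lit 3) (nat_lit 177) (nat_lit 151) (nat_lit 182))))))))
noncomputable def pc14 : PT := (PT.nd (nat_lit 53508) (PT.nd (nat_lit 52650) (PT.nd (nat_lit 390) (PT.nd (nat_lit 156) (PT.nd (nat_lit 78) (PT.lf (nat_lit 26752) (nat_lit 6) (nat_lit 352) (nat_lit 3) (nat_lit 178) (nat_lit 151) (nat_lit 181)) (PT.lf (nat_lit 26828) (nat_lit 6) (nat_lit 353) (nat_lit 3) (nat_lit 179) (nat_lit 151) (nat_lit 180))) (PT.nd (nat_lit 78) (PT.lf (nat_lit 26828) (nat_lit 6) (nat_lit 353) (nat_lit 1) (nat_lit 180) (nat_lit 151) (nat_lit 179)) (PT.nd (nat_lit 78) (PT.lf (nat_lit 26752) (nat_lit 6) (nat_lit 352) (nat_lit 1) (nat_lit 181) (nat_lit 151) (nat_lit 178)) (PT.lf (nat_lit 26676) (nat_lit 6) (nat_lit 351) (nat_lit 1) (nat_lit 182) (nat_lit 151) (nat_lit 177))))) (PT.nd (nat_lit 234) (PT.nd (nat_lit 78) (PT.lf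 (nat_lit 26600) (nat_lit 6) (nat_lit 350) (nat_lit 1) (nat_lit 183) (nat_lit 151) (nat_lit 176)) (PT.nd (nat_lit 78) (PT.lf (nat_lit 26524) (nat_lit 6) (nat_lit 349) (nat_lit 1) (nat_lit 184) (nat_lit 151) (nat_lit 175)) (PT.lf (nat_lit 26448) (nat_lit 6) (nat_lit 348) (nat_lit 1) (nat_lit 185) (nat_lit 151) (nat_lit 174)))) (PT.nd (nat_lit 78) (PT.lf (nat_lit 26372) (nat_lit 6) (nat_lit 347) (nat_lit 1) (nat_lit 186) (nat_lit 151) (nat_lit 173)) (PT.nd (nat_lit 51870) (PT.lf (nat_lit 26296) (nat_lit 6) (nat_lit 346) (nat_lit 1) (nat_lit 187) (nat_lit 151) (nat_lit 172)) (PT.lf (nat_lit 26904) (nat_lit 6) (nat_lit 354) (nat_lit 3) (nat_lit 171) (nat_lit 152) (nat_lit 187)))))) (PT.nd (nat_lit 390) (PT.nd (nat_lit 156) (PT.nd (nat_lit 78) (PT.lf (nat_lit 26980) (nat_lit 6) (nat_lit 355) (nat_lit 3) (nat_lit 172) (nat_lit 152) (nat_lit 186)) (PT.lf (nat_lit 27056) (nat_lit 6) (nat_lit 356) (nat_lit 3)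 (nat_lit 173) (nat_lit 152) (nat_lit 185))) (PT.nd (nat_lit 78) (PT.lf (nat_lit 27132) (nat_lit 6) (nat_lit 357) (nat_lit 3) (nat_lit 174) (nat_lit 152) (nat_lit 184)) (PT.nd (nat_lit 78) (PT.lf (nat_lit 27208) (nat_lit 6) (nat_lit 358) (nat_lit 3) (nat_lit 175) (nat_lit 152) (nat_lit 183)) (PT.lf (nat_lit 27284) (nat_lit 6) (nat_lit 359) (nat_lit 3) (nat_lit 176) (nat_lit 152) (nat_lit 182))))) (PT.nd (nat_lit 234) (PT.nd (nat_lit 78) (PT.lf (nat_lit 27360) (nat_lit 6) (nat_lit 360) (nat_lit 3) (nat_lit 177) (nat_lit 152) (nat_lit 181)) (PT.nd (nat_lit 78) (PT.lf (nat_lit 27436) (nat_lit 6) (nat_lit 361) (nat_lit 3) (nat_lit 178) (nat_lit 152) (nat_lit 180)) (PT.lf (nat_lit 27512) (nat_lit 3) (nat_lit 362) (nat_lit 1) (nat_lit 179) (nat_lit 152) (nat_lit 179)))) (PT.nd (nat_lit 78) (PT.lf (nat_lit 27436) (nat_lit 6) (nat_lit 361) (nat_lit 1) (nat_lit 180) (nat_lit 152) (nat_lit 178)) (PT.nd (nat_lit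 78) (PT.lf (nat_lit 27360) (nat_lit 6) (nat_lit 360) (nat_lit 1) (nat_lit 181) (nat_lit 152) (nat_lit 177)) (PT.lf (nat_lit 27284) (nat_lit 6) (nat_lit 359) (nat_lit 1) (nat_lit 182) (nat_lit 152) (nat_lit 176))))))) (PT.nd (nat_lit 52572) (PT.nd (nat_lit 52104) (PT.nd (nat_lit 156) (PT.nd (nat_lit 78) (PT.lf (nat_lit 27208) (nat_lit 6) (nat_lit 358) (nat_lit 1) (nat_lit 183) (nat_lit 152) (nat_lit 175)) (PT.lf (nat_lit 27132) (nat_lit 6) (nat_lit 357) (nat_lit 1) (nat_lit 184) (nat_lit 152) (nat_lit 174))) (PT.nd (nat_lit 78) (PT.lf (nat_lit 27056) (nat_lit 6) (nat_lit 356) (nat_lit 1) (nat_lit 185) (nat_lit 152) (nat_lit 173)) (PT.nd (nat_lit 78) (PT.lf (nat_lit 26980) (nat_lit 6) (nat_lit 355) (nat_lit 1) (nat_lit 186) (nat_lit 152) (nat_lit 172)) (PT.lf (nat_lit 26904) (nat_lit 6) (nat_lit 354) (nat_lit 1) (nat_lit 187) (nat_lit 152) (nat_lit 171))))) (PT.nd (nat_lit 234) (PT.nd (nat_lit 78) (PT.lf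 (nat_lit 27740) (nat_lit 6) (nat_lit 365) (nat_lit 3) (nat_lit 170) (nat_lit 153) (nat_lit 187)) (PT.nd (nat_lit 78) (PT.lf (nat_lit 27816) (nat_lit 6) (nat_lit 366) (nat_lit 3) (nat_lit 171) (nat_lit 153) (nat_lit 186)) (PT.lf (nat_lit 27892) (nat_lit 6) (nat_lit 367) (nat_lit 3) (nat_lit 172) (nat_lit 153) (nat_lit 185)))) (PT.nd (nat_lit 78) (PT.lf (nat_lit 27968) (nat_lit 6) (nat_lit 368) (nat_lit 3) (nat_lit 173) (nat_lit 153) (nat_lit 184)) (PT.nd (nat_lit 78) (PT.lf (nat_lit 28044) (nat_lit 6) (nat_lit 369) (nat_lit 3) (nat_lit 174) (nat_lit 153) (nat_lit 183)) (PT.lf (nat_lit 28120) (nat_lit 6) (nat_lit 370) (nat_lit 3) (nat_lit 175) (nat_lit 153) (nat_lit 182)))))) (PT.nd (nat_lit 390) (PT.nd (nat_lit 156) (PT.nd (nat_lit 78) (PT.lf (nat_lit 28196) (nat_lit 6) (nat_lit 371) (nat_lit 3) (nat_lit 176) (nat_lit 153) (nat_lit 181)) (PT.lf (nat_lit 28272) (nat_lit 6) (nat_lit 372) (nat_lit 3) (nat_lit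 177) (nat_lit 153) (nat_lit 180))) (PT.nd (nat_lit 78) (PT.lf (nat_lit 28348) (nat_lit 6) (nat_lit 373) (nat_lit 3) (nat_lit 178) (nat_lit 153) (nat_lit 179)) (PT.nd (nat_lit 78) (PT.lf (nat_lit 28348) (nat_lit 6) (nat_lit 373) (nat_lit 1) (nat_lit 179) (nat_lit 153) (nat_lit 178)) (PT.lf (nat_lit 28272) (nat_lit 6) (nat_lit 372) (nat_lit 1) (nat_lit 180) (nat_lit 153) (nat_lit 177))))) (PT.nd (nat_lit 234) (PT.nd (nat_lit 78) (PT.lf (nat_lit 28196) (nat_lit 6) (nat_lit 371) (nat_lit 1) (nat_lit 181) (nat_lit 153) (nat_lit 176)) (PT.nd (nat_lit 78) (PT.lf (nat_lit 28120) (nat_lit 6) (nat_lit 370) (nat_lit 1) (nat_lit 182) (nat_lit 153) (nat_lit 175)) (PT.lf (nat_lit 28044) (nat_lit 6) (nat_lit 369) (nat_lit 1) (nat_lit 183) (nat_lit 153) (nat_lit 174)))) (PT.nd (nat_lit 78) (PT.lf (nat_lit 27968) (nat_lit 6) (nat_lit 368) (nat_lit 1) (nat_lit 184) (nat_lit 153) (nat_lit 173)) (PT.nd (nat_lit 78) (PT.lf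 (nat_lit 27892) (nat_lit 6) (nat_lit 367) (nat_lit 1) (nat_lit 185) (nat_lit 153) (nat_lit 172)) (PT.lf (nat_lit 27816) (nat_lit 6) (nat_lit 366) (nat_lit 1) (nat_lit 186) (nat_lit 153) (nat_lit 171))))))))
noncomputable def pc15 : PT := (PT.nd (nat_lit 104910) (PT.nd (nat_lit 52494) (PT.nd (nat_lit 52026) (PT.nd (nat_lit 51792) (PT.nd (nat_lit 51714) (PT.lf (nat_lit 27740) (nat_lit 6) (nat_lit 365) (nat_lit 1) (nat_lit 187) (nat_lit 153) (nat_lit 170)) (PT.lf (nat_lit 27664) (nat_lit 6) (nat_lit 364) (nat_lit 3) (nat_lit 169) (nat_lit 154) (nat_lit 187))) (PT.nd (nat_lit 78) (PT.lf (nat_lit 29032) (nat_lit 6) (nat_lit 382) (nat_lit 3) (nat_lit 170) (nat_lit 154) (nat_lit 186)) (PT.nd (nat_lit 78) (PT.lf (nat_lit 29108) (nat_lit 6) (nat_lit 383) (nat_lit 3) (nat_lit 171) (nat_lit 154) (nat_lit 185)) (PT.lf (nat_lit 29184) (nat_lit 6) (nat_lit 384) (nat_lit 3) (nat_lit 172) (nat_lit 154) (nat_lit 184)))))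 (PT.nd (nat_lit 234) (PT.nd (nat_lit 78) (PT.lf (nat_lit 29260) (nat_lit 6) (nat_lit 385) (nat_lit 3) (nat_lit 173) (nat_lit 154) (nat_lit 183)) (PT.nd (nat_lit 78) (PT.lf (nat_lit 29336) (nat_lit 6) (nat_lit 386) (nat_lit 3) (nat_lit 174) (nat_lit 154) (nat_lit 182)) (PT.lf (nat_lit 29412) (nat_lit 6) (nat_lit 387) (nat_lit 3) (nat_lit 175) (nat_lit 154) (nat_lit 181)))) (PT.nd (nat_lit 78) (PT.lf (nat_lit 29488) (nat_lit 6) (nat_lit 388) (nat_lit 3) (nat_lit 176) (nat_lit 154) (nat_lit 180)) (PT.nd (nat_lit 78) (PT.lf (nat_lit 29564) (nat_lit 6) (nat_lit 389) (nat_lit 3) (nat_lit 177) (nat_lit 154) (nat_lit 179)) (PT.lf (nat_lit 29640) (nat_lit 3) (nat_lit 390) (nat_lit 1) (nat_lit 178) (nat_lit 154) (nat_lit 178)))))) (PT.nd (nat_lit 390) (PT.nd (nat_lit 156) (PT.nd (nat_lit 78) (PT.lf (nat_lit 29564) (nat_lit 6) (nat_lit 389) (nat_lit 1) (nat_lit 179) (nat_lit 154) (nat_lit 177)) (PT.lf (nat_lit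 29488) (nat_lit 6) (nat_lit 388) (nat_lit 1) (nat_lit 180) (nat_lit 154) (nat_lit 176))) (PT.nd (nat_lit 78) (PT.lf (nat_lit 29412) (nat_lit 6) (nat_lit 387) (nat_lit 1) (nat_lit 181) (nat_lit 154) (nat_lit 175)) (PT.nd (nat_lit 78) (PT.lf (nat_lit 29336) (nat_lit 6) (nat_lit 386) (nat_lit 1) (nat_lit 182) (nat_lit 154) (nat_lit 174)) (PT.lf (nat_lit 29260) (nat_lit 6) (nat_lit 385) (nat_lit 1) (nat_lit 183) (nat_lit 154) (nat_lit 173))))) (PT.nd (nat_lit 234) (PT.nd (nat_lit 78) (PT.lf (nat_lit 29184) (nat_lit 6) (nat_lit 384) (nat_lit 1) (nat_lit 184) (nat_lit 154) (nat_lit 172)) (PT.nd (nat_lit 78) (PT.lf (nat_lit 29108) (nat_lit 6) (nat_lit 383) (nat_lit 1) (nat_lit 185) (nat_lit 154) (nat_lit 171)) (PT.lf (nat_lit 29032) (nat_lit 6) (nat_lit 382) (nat_lit 1) (nat_lit 186) (nat_lit 154) (nat_lit 170)))) (PT.nd (nat_lit 51636) (PT.lf (nat_lit 27664) (nat_lit 6) (nat_lit 364) (nat_lit 1) (nat_lit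 187) (nat_lit 154) (nat_lit 169)) (PT.nd (nat_lit 78) (PT.lf (nat_lit 27588) (nat_lit 6) (nat_lit 363) (nat_lit 3) (nat_lit 168) (nat_lit 155) (nat_lit 187)) (PT.lf (nat_lit 28956) (nat_lit 6) (nat_lit 381) (nat_lit 3) (nat_lit 169) (nat_lit 155) (nat_lit 186))))))) (PT.nd (nat_lit 858) (PT.nd (nat_lit 390) (PT.nd (nat_lit 156) (PT.nd (nat_lit 78) (PT.lf (nat_lit 30248) (nat_lit 6) (nat_lit 398) (nat_lit 3) (nat_lit 170) (nat_lit 155) (nat_lit 185)) (PT.lf (nat_lit 30324) (nat_lit 6) (nat_lit 399) (nat_lit 3) (nat_lit 171) (nat_lit 155) (nat_lit 184))) (PT.nd (nat_lit 78) (PT.lf (nat_lit 30400) (nat_lit 6) (nat_lit 400) (nat_lit 3) (nat_lit 172) (nat_lit 155) (nat_lit 183)) (PT.nd (nat_lit 78) (PT.lf (nat_lit 30476) (nat_lit 6) (nat_lit 401) (nat_lit 3) (nat_lit 173) (nat_lit 155) (nat_lit 182)) (PT.lf (nat_lit 30552) (nat_lit 6) (nat_lit 402) (nat_lit 3) (nat_lit 174) (nat_lit 155) (nat_lit 181)))))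 (PT.nd (nat_lit 234) (PT.nd (nat_lit 78) (PT.lf (nat_lit 30628) (nat_lit 6) (nat_lit 403) (nat_lit 3) (nat_lit 175) (nat_lit 155) (nat_lit 180)) (PT.nd (nat_lit 78) (PT.lf (nat_lit 30704) (nat_lit 6) (nat_lit 404) (nat_lit 3) (nat_lit 176) (nat_lit 155) (nat_lit 179)) (PT.lf (nat_lit 30780) (nat_lit 6) (nat_lit 405) (nat_lit 3) (nat_lit 177) (nat_lit 155) (nat_lit 178)))) (PT.nd (nat_lit 78) (PT.lf (nat_lit 30780) (nat_lit 6) (nat_lit 405) (nat_lit 1) (nat_lit 178) (nat_lit 155) (nat_lit 177)) (PT.nd (nat_lit 78) (PT.lf (nat_lit 30704) (nat_lit 6) (nat_lit 404) (nat_lit 1) (nat_lit 179) (nat_lit 155) (nat_lit 176)) (PT.lf (nat_lit 30628) (nat_lit 6) (nat_lit 403) (nat_lit 1) (nat_lit 180) (nat_lit 155) (nat_lit 175)))))) (PT.nd (nat_lit 390) (PT.nd (nat_lit 156) (PT.nd (nat_lit 78) (PT.lf (nat_lit 30552) (nat_lit 6) (nat_lit 402) (nat_lit 1) (nat_lit 181) (nat_lit 155) (nat_lit 174)) (PT.lf (nat_lit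 30476) (nat_lit 6) (nat_lit 401) (nat_lit 1) (nat_lit 182) (nat_lit 155) (nat_lit 173))) (PT.nd (nat_lit 78) (PT.lf (nat_lit 30400) (nat_lit 6) (nat_lit 400) (nat_lit 1) (nat_lit 183) (nat_lit 155) (nat_lit 172)) (PT.nd (nat_lit 78) (PT.lf (nat_lit 30324) (nat_lit 6) (nat_lit 399) (nat_lit 1) (nat_lit 184) (nat_lit 155) (nat_lit 171)) (PT.lf (nat_lit 30248) (nat_lit 6) (nat_lit 398) (nat_lit 1) (nat_lit 185) (nat_lit 155) (nat_lit 170))))) (PT.nd (nat_lit 51792) (PT.nd (nat_lit 78) (PT.lf (nat_lit 28956) (nat_lit 6) (nat_lit 381) (nat_lit 1) (nat_lit 186) (nat_lit 155) (nat_lit 169)) (PT.nd (nat_lit 51636) (PT.lf (nat_lit 27588) (nat_lit 6) (nat_lit 363) (nat_lit 1) (nat_lit 187) (nat_lit 155) (nat_lit 168)) (PT.lf (nat_lit 28880) (nat_lit 6) (nat_lit 380) (nat_lit 3) (nat_lit 168) (nat_lit 156) (nat_lit 186)))) (PT.nd (nat_lit 78) (PT.lf (nat_lit 30172) (nat_lit 6) (nat_lit 397) (nat_lit 3) (nat_lit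 169) (nat_lit 156) (nat_lit 185)) (PT.nd (nat_lit 78) (PT.lf (nat_lit 31388) (nat_lit 6) (nat_lit 413) (nat_lit 3) (nat_lit 170) (nat_lit 156) (nat_lit 184)) (PT.lf (nat_lit 31464) (nat_lit 6) (nat_lit 414) (nat_lit 3) (nat_lit 171) (nat_lit 156) (nat_lit 183))))))))
noncomputable def pc16 : PT := (PT.nd (nat_lit 53196) (PT.nd (nat_lit 780) (PT.nd (nat_lit 390) (PT.nd (nat_lit 156) (PT.nd (nat_lit 78) (PT.lf (nat_lit 31540) (nat_lit 6) (nat_lit 415) (nat_lit 3) (nat_lit 172) (nat_lit 156) (nat_lit 182)) (PT.lf (nat_lit 31616) (nat_lit 6) (nat_lit 416) (nat_lit 3) (nat_lit 173) (nat_lit 156) (nat_lit 181))) (PT.nd (nat_lit 78) (PT.lf (nat_lit 31692) (nat_lit 6) (nat_lit 417) (nat_lit 3) (nat_lit 174) (nat_lit 156) (nat_lit 180)) (PT.nd (nat_lit 78) (PT.lf (nat_lit 31768) (nat_lit 6) (nat_lit 418) (nat_lit 3) (nat_lit 175) (nat_lit 156) (nat_lit 179)) (PT.lf (nat_lit 31844) (nat_lit 6) (nat_lit 419) (nat_lit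 3) (nat_lit 176) (nat_lit 156) (nat_lit 178))))) (PT.nd (nat_lit 156) (PT.nd (nat_lit 78) (PT.lf (nat_lit 31920) (nat_lit 3) (nat_lit 420) (nat_lit 1) (nat_lit 177) (nat_lit 156) (nat_lit 177)) (PT.lf (nat_lit 31844) (nat_lit 6) (nat_lit 419) (nat_lit 1) (nat_lit 178) (nat_lit 156) (nat_lit 176))) (PT.nd (nat_lit 78) (PT.lf (nat_lit 31768) (nat_lit 6) (nat_lit 418) (nat_lit 1) (nat_lit 179) (nat_lit 156) (nat_lit 175)) (PT.nd (nat_lit 78) (PT.lf (nat_lit 31692) (nat_lit 6) (nat_lit 417) (nat_lit 1) (nat_lit 180) (nat_lit 156) (nat_lit 174)) (PT.lf (nat_lit 31616) (nat_lit 6) (nat_lit 416) (nat_lit 1) (nat_lit 181) (nat_lit 156) (nat_lit 173)))))) (PT.nd (nat_lit 51948) (PT.nd (nat_lit 156) (PT.nd (nat_lit 78) (PT.lf (nat_lit 31540) (nat_lit 6) (nat_lit 415) (nat_lit 1) (nat_lit 182) (nat_lit 156) (nat_lit 172)) (PT.lf (nat_lit 31464) (nat_lit 6) (nat_lit 414) (nat_lit 1) (nat_lit 183) (nat_lit 156)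 (nat_lit 171))) (PT.nd (nat_lit 78) (PT.lf (nat_lit 31388) (nat_lit 6) (nat_lit 413) (nat_lit 1) (nat_lit 184) (nat_lit 156) (nat_lit 170)) (PT.nd (nat_lit 78) (PT.lf (nat_lit 30172) (nat_lit 6) (nat_lit 397) (nat_lit 1) (nat_lit 185) (nat_lit 156) (nat_lit 169)) (PT.lf (nat_lit 28880) (nat_lit 6) (nat_lit 380) (nat_lit 1) (nat_lit 186) (nat_lit 156) (nat_lit 168))))) (PT.nd (nat_lit 234) (PT.nd (nat_lit 78) (PT.lf (nat_lit 28804) (nat_lit 6) (nat_lit 379) (nat_lit 3) (nat_lit 167) (nat_lit 157) (nat_lit 186)) (PT.nd (nat_lit 78) (PT.lf (nat_lit 30096) (nat_lit 6) (nat_lit 396) (nat_lit 3) (nat_lit 168) (nat_lit 157) (nat_lit 185)) (PT.lf (nat_lit 31312) (nat_lit 6) (nat_lit 412) (nat_lit 3) (nat_lit 169) (nat_lit 157) (nat_lit 184)))) (PT.nd (nat_lit 78) (PT.lf (nat_lit 32452) (nat_lit 6) (nat_lit 427) (nat_lit 3) (nat_lit 170) (nat_lit 157) (nat_lit 183)) (PT.nd (nat_lit 78) (PT.lf (nat_lit 32528)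 (nat_lit 6) (nat_lit 428) (nat_lit 3) (nat_lit 171) (nat_lit 157) (nat_lit 182)) (PT.lf (nat_lit 32604) (nat_lit 6) (nat_lit 429) (nat_lit 3) (nat_lit 172) (nat_lit 157) (nat_lit 181))))))) (PT.nd (nat_lit 858) (PT.nd (nat_lit 390) (PT.nd (nat_lit 156) (PT.nd (nat_lit 78) (PT.lf (nat_lit 32680) (nat_lit 6) (nat_lit 430) (nat_lit 3) (nat_lit 173) (nat_lit 157) (nat_lit 180)) (PT.lf (nat_lit 32756) (nat_lit 6) (nat_lit 431) (nat_lit 3) (nat_lit 174) (nat_lit 157) (nat_lit 179))) (PT.nd (nat_lit 78) (PT.lf (nat_lit 32832) (nat_lit 6) (nat_lit 432) (nat_lit 3) (nat_lit 175) (nat_lit 157) (nat_lit 178)) (PT.nd (nat_lit 78) (PT.lf (nat_lit 32908) (nat_lit 6) (nat_lit 433) (nat_lit 3) (nat_lit 176) (nat_lit 157) (nat_lit 177)) (PT.lf (nat_lit 32908) (nat_lit 6) (nat_lit 433) (nat_lit 1) (nat_lit 177) (nat_lit 157) (nat_lit 176))))) (PT.nd (nat_lit 234) (PT.nd (nat_lit 78) (PT.lf (nat_lit 32832) (nat_lit 6)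 (nat_lit 432) (nat_lit 1) (nat_lit 178) (nat_lit 157) (nat_lit 175)) (PT.nd (nat_lit 78) (PT.lf (nat_lit 32756) (nat_lit 6) (nat_lit 431) (nat_lit 1) (nat_lit 179) (nat_lit 157) (nat_lit 174)) (PT.lf (nat_lit 32680) (nat_lit 6) (nat_lit 430) (nat_lit 1) (nat_lit 180) (nat_lit 157) (nat_lit 173)))) (PT.nd (nat_lit 78) (PT.lf (nat_lit 32604) (nat_lit 6) (nat_lit 429) (nat_lit 1) (nat_lit 181) (nat_lit 157) (nat_lit 172)) (PT.nd (nat_lit 78) (PT.lf (nat_lit 32528) (nat_lit 6) (nat_lit 428) (nat_lit 1) (nat_lit 182) (nat_lit 157) (nat_lit 171)) (PT.lf (nat_lit 32452) (nat_lit 6) (nat_lit 427) (nat_lit 1) (nat_lit 183) (nat_lit 157) (nat_lit 170)))))) (PT.nd (nat_lit 51870) (PT.nd (nat_lit 156) (PT.nd (nat_lit 78) (PT.lf (nat_lit 31312) (nat_lit 6) (nat_lit 412) (nat_lit 1) (nat_lit 184) (nat_lit 157) (nat_lit 169)) (PT.lf (nat_lit 30096) (nat_lit 6) (nat_lit 396) (nat_lit 1) (nat_lit 185) (nat_lit 157)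 (nat_lit 168))) (PT.nd (nat_lit 51558) (PT.lf (nat_lit 28804) (nat_lit 6) (nat_lit 379) (nat_lit 1) (nat_lit 186) (nat_lit 157) (nat_lit 167)) (PT.nd (nat_lit 78) (PT.lf (nat_lit 28728) (nat_lit 6) (nat_lit 378) (nat_lit 3) (nat_lit 166) (nat_lit 158) (nat_lit 186)) (PT.lf (nat_lit 30020) (nat_lit 6) (nat_lit 395) (nat_lit 3) (nat_lit 167) (nat_lit 158) (nat_lit 185))))) (PT.nd (nat_lit 234) (PT.nd (nat_lit 78) (PT.lf (nat_lit 31236) (nat_lit 6) (nat_lit 411) (nat_lit 3) (nat_lit 168) (nat_lit 158) (nat_lit 184)) (PT.nd (nat_lit 78) (PT.lf (nat_lit 32376) (nat_lit 6) (nat_lit 426) (nat_lit 3) (nat_lit 169) (nat_lit 158) (nat_lit 183)) (PT.lf (nat_lit 33440) (nat_lit 6) (nat_lit 440) (nat_lit 3) (nat_lit 170) (nat_lit 158) (nat_lit 182)))) (PT.nd (nat_lit 78) (PT.lf (nat_lit 33516) (nat_lit 6) (nat_lit 441) (nat_lit 3) (nat_lit 171) (nat_lit 158) (nat_lit 181)) (PT.nd (nat_lit 78) (PT.lf (nat_lit 33592)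 (nat_lit 6) (nat_lit 442) (nat_lit 3) (nat_lit 172) (nat_lit 158) (nat_lit 180)) (PT.lf (nat_lit 33668) (nat_lit 6) (nat_lit 443) (nat_lit 3) (nat_lit 173) (nat_lit 158) (nat_lit 179))))))))
noncomputable def pc17 : PT := (PT.nd (nat_lit 53118) (PT.nd (nat_lit 858) (PT.nd (nat_lit 390) (PT.nd (nat_lit 156) (PT.nd (nat_lit 78) (PT.lf (nat_lit 33744) (nat_lit 6) (nat_lit 444) (nat_lit 3) (nat_lit 174) (nat_lit 158) (nat_lit 178)) (PT.lf (nat_lit 33820) (nat_lit 6) (nat_lit 445) (nat_lit 3) (nat_lit 175) (nat_lit 158) (nat_lit 177))) (PT.nd (nat_lit 78) (PT.lf (nat_lit 33896) (nat_lit 3) (nat_lit 446) (nat_lit 1) (nat_lit 176) (nat_lit 158) (nat_lit 176)) (PT.nd (nat_lit 78) (PT.lf (nat_lit 33820) (nat_lit 6) (nat_lit 445) (nat_lit 1) (nat_lit 177) (nat_lit 158) (nat_lit 175)) (PT.lf (nat_lit 33744) (nat_lit 6) (nat_lit 444) (nat_lit 1) (nat_lit 178) (nat_lit 158) (nat_lit 174))))) (PT.nd (nat_lit 234)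 (PT.nd (nat_lit 78) (PT.lf (nat_lit 33668) (nat_lit 6) (nat_lit 443) (nat_lit 1) (nat_lit 179) (nat_lit 158) (nat_lit 173)) (PT.nd (nat_lit 78) (PT.lf (nat_lit 33592) (nat_lit 6) (nat_lit 442) (nat_lit 1) (nat_lit 180) (nat_lit 158) (nat_lit 172)) (PT.lf (nat_lit 33516) (nat_lit 6) (nat_lit 441) (nat_lit 1) (nat_lit 181) (nat_lit 158) (nat_lit 171)))) (PT.nd (nat_lit 78) (PT.lf (nat_lit 33440) (nat_lit 6) (nat_lit 440) (nat_lit 1) (nat_lit 182) (nat_lit 158) (nat_lit 170)) (PT.nd (nat_lit 78) (PT.lf (nat_lit 32376) (nat_lit 6) (nat_lit 426) (nat_lit 1) (nat_lit 183) (nat_lit 158) (nat_lit 169)) (PT.lf (nat_lit 31236) (nat_lit 6) (nat_lit 411) (nat_lit 1) (nat_lit 184) (nat_lit 158) (nat_lit 168)))))) (PT.nd (nat_lit 51792) (PT.nd (nat_lit 51558) (PT.nd (nat_lit 78) (PT.lf (nat_lit 30020) (nat_lit 6) (nat_lit 395) (nat_lit 1) (nat_lit 185) (nat_lit 158) (nat_lit 167)) (PT.lf (nat_lit 28728) (nat_lit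 6) (nat_lit 378) (nat_lit 1) (nat_lit 186) (nat_lit 158) (nat_lit 166))) (PT.nd (nat_lit 78) (PT.lf (nat_lit 28652) (nat_lit 6) (nat_lit 377) (nat_lit 3) (nat_lit 165) (nat_lit 159) (nat_lit 186)) (PT.nd (nat_lit 78) (PT.lf (nat_lit 29944) (nat_lit 6) (nat_lit 394) (nat_lit 3) (nat_lit 166) (nat_lit 159) (nat_lit 185)) (PT.lf (nat_lit 31160) (nat_lit 6) (nat_lit 410) (nat_lit 3) (nat_lit 167) (nat_lit 159) (nat_lit 184))))) (PT.nd (nat_lit 234) (PT.nd (nat_lit 78) (PT.lf (nat_lit 32300) (nat_lit 6) (nat_lit 425) (nat_lit 3) (nat_lit 168) (nat_lit 159) (nat_lit 183)) (PT.nd (nat_lit 78) (PT.lf (nat_lit 33364) (nat_lit 6) (nat_lit 439) (nat_lit 3) (nat_lit 169) (nat_lit 159) (nat_lit 182)) (PT.lf (nat_lit 34352) (nat_lit 6) (nat_lit 452) (nat_lit 3) (nat_lit 170) (nat_lit 159) (nat_lit 181)))) (PT.nd (nat_lit 78) (PT.lf (nat_lit 34428) (nat_lit 6) (nat_lit 453) (nat_lit 3) (nat_lit 171) (nat_lit 159)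 (nat_lit 180)) (PT.nd (nat_lit 78) (PT.lf (nat_lit 34504) (nat_lit 6) (nat_lit 454) (nat_lit 3) (nat_lit 172) (nat_lit 159) (nat_lit 179)) (PT.lf (nat_lit 34580) (nat_lit 6) (nat_lit 455) (nat_lit 3) (nat_lit 173) (nat_lit 159) (nat_lit 178))))))) (PT.nd (nat_lit 858) (PT.nd (nat_lit 390) (PT.nd (nat_lit 156) (PT.nd (nat_lit 78) (PT.lf (nat_lit 34656) (nat_lit 6) (nat_lit 456) (nat_lit 3) (nat_lit 174) (nat_lit 159) (nat_lit 177)) (PT.lf (nat_lit 34732) (nat_lit 6) (nat_lit 457) (nat_lit 3) (nat_lit 175) (nat_lit 159) (nat_lit 176))) (PT.nd (nat_lit 78) (PT.lf (nat_lit 34732) (nat_lit 6) (nat_lit 457) (nat_lit 1) (nat_lit 176) (nat_lit 159) (nat_lit 175)) (PT.nd (nat_lit 78) (PT.lf (nat_lit 34656) (nat_lit 6) (nat_lit 456) (nat_lit 1) (nat_lit 177) (nat_lit 159) (nat_lit 174)) (PT.lf (nat_lit 34580) (nat_lit 6) (nat_lit 455) (nat_lit 1) (nat_lit 178) (nat_lit 159) (nat_lit 173))))) (PT.nd (nat_lit 234)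 (PT.nd (nat_lit 78) (PT.lf (nat_lit 34504) (nat_lit 6) (nat_lit 454) (nat_lit 1) (nat_lit 179) (nat_lit 159) (nat_lit 172)) (PT.nd (nat_lit 78) (PT.lf (nat_lit 34428) (nat_lit 6) (nat_lit 453) (nat_lit 1) (nat_lit 180) (nat_lit 159) (nat_lit 171)) (PT.lf (nat_lit 34352) (nat_lit 6) (nat_lit 452) (nat_lit 1) (nat_lit 181) (nat_lit 159) (nat_lit 170)))) (PT.nd (nat_lit 78) (PT.lf (nat_lit 33364) (nat_lit 6) (nat_lit 439) (nat_lit 1) (nat_lit 182) (nat_lit 159) (nat_lit 169)) (PT.nd (nat_lit 78) (PT.lf (nat_lit 32300) (nat_lit 6) (nat_lit 425) (nat_lit 1) (nat_lit 183) (nat_lit 159) (nat_lit 168)) (PT.lf (nat_lit 31160) (nat_lit 6) (nat_lit 410) (nat_lit 1) (nat_lit 184) (nat_lit 159) (nat_lit 167)))))) (PT.nd (nat_lit 51714) (PT.nd (nat_lit 51480) (PT.nd (nat_lit 78) (PT.lf (nat_lit 29944) (nat_lit 6) (nat_lit 394) (nat_lit 1) (nat_lit 185) (nat_lit 159) (nat_lit 166)) (PT.lf (nat_lit 28652) (nat_lit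 6) (nat_lit 377) (nat_lit 1) (nat_lit 186) (nat_lit 159) (nat_lit 165))) (PT.nd (nat_lit 78) (PT.lf (nat_lit 28576) (nat_lit 6) (nat_lit 376) (nat_lit 3) (nat_lit 164) (nat_lit 160) (nat_lit 186)) (PT.nd (nat_lit 78) (PT.lf (nat_lit 29868) (nat_lit 6) (nat_lit 393) (nat_lit 3) (nat_lit 165) (nat_lit 160) (nat_lit 185)) (PT.lf (nat_lit 31084) (nat_lit 6) (nat_lit 409) (nat_lit 3) (nat_lit 166) (nat_lit 160) (nat_lit 184))))) (PT.nd (nat_lit 234) (PT.nd (nat_lit 78) (PT.lf (nat_lit 32224) (nat_lit 6) (nat_lit 424) (nat_lit 3) (nat_lit 167) (nat_lit 160) (nat_lit 183)) (PT.nd (nat_lit 78) (PT.lf (nat_lit 33288) (nat_lit 6) (nat_lit 438) (nat_lit 3) (nat_lit 168) (nat_lit 160) (nat_lit 182)) (PT.lf (nat_lit 34276) (nat_lit 6) (nat_lit 451) (nat_lit 3) (nat_lit 169) (nat_lit 160) (nat_lit 181)))) (PT.nd (nat_lit 78) (PT.lf (nat_lit 35188) (nat_lit 6) (nat_lit 463) (nat_lit 3) (nat_lit 170) (nat_lit 160)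 (nat_lit 180)) (PT.nd (nat_lit 78) (PT.lf (nat_lit 35264) (nat_lit 6) (nat_lit 464) (nat_lit 3) (nat_lit 171) (nat_lit 160) (nat_lit 179)) (PT.lf (nat_lit 35340) (nat_lit 6) (nat_lit 465) (nat_lit 3) (nat_lit 172) (nat_lit 160) (nat_lit 178))))))))
noncomputable def pc18 : PT := (PT.nd (nat_lit 52884) (PT.nd (nat_lit 780) (PT.nd (nat_lit 390) (PT.nd (nat_lit 156) (PT.nd (nat_lit 78) (PT.lf (nat_lit 35416) (nat_lit 6) (nat_lit 466) (nat_lit 3) (nat_lit 173) (nat_lit 160) (nat_lit 177)) (PT.lf (nat_lit 35492) (nat_lit 6) (nat_lit 467) (nat_lit 3) (nat_lit 174) (nat_lit 160) (nat_lit 176))) (PT.nd (nat_lit 78) (PT.lf (nat_lit 35568) (nat_lit 3) (nat_lit 468) (nat_lit 1) (nat_lit 175) (nat_lit 160) (nat_lit 175)) (PT.nd (nat_lit 78) (PT.lf (nat_lit 35492) (nat_lit 6) (nat_lit 467) (nat_lit 1) (nat_lit 176) (nat_lit 160) (nat_lit 174)) (PT.lf (nat_lit 35416) (nat_lit 6) (nat_lit 466) (nat_lit 1) (nat_lit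 177) (nat_lit 160) (nat_lit 173))))) (PT.nd (nat_lit 156) (PT.nd (nat_lit 78) (PT.lf (nat_lit 35340) (nat_lit 6) (nat_lit 465) (nat_lit 1) (nat_lit 178) (nat_lit 160) (nat_lit 172)) (PT.lf (nat_lit 35264) (nat_lit 6) (nat_lit 464) (nat_lit 1) (nat_lit 179) (nat_lit 160) (nat_lit 171))) (PT.nd (nat_lit 78) (PT.lf (nat_lit 35188) (nat_lit 6) (nat_lit 463) (nat_lit 1) (nat_lit 180) (nat_lit 160) (nat_lit 170)) (PT.nd (nat_lit 78) (PT.lf (nat_lit 34276) (nat_lit 6) (nat_lit 451) (nat_lit 1) (nat_lit 181) (nat_lit 160) (nat_lit 169)) (PT.lf (nat_lit 33288) (nat_lit 6) (nat_lit 438) (nat_lit 1) (nat_lit 182) (nat_lit 160) (nat_lit 168)))))) (PT.nd (nat_lit 51636) (PT.nd (nat_lit 156) (PT.nd (nat_lit 78) (PT.lf (nat_lit 32224) (nat_lit 6) (nat_lit 424) (nat_lit 1) (nat_lit 183) (nat_lit 160) (nat_lit 167)) (PT.lf (nat_lit 31084) (nat_lit 6) (nat_lit 409) (nat_lit 1) (nat_lit 184) (nat_lit 160) (nat_lit 166)))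 (PT.nd (nat_lit 78) (PT.lf (nat_lit 29868) (nat_lit 6) (nat_lit 393) (nat_lit 1) (nat_lit 185) (nat_lit 160) (nat_lit 165)) (PT.nd (nat_lit 51324) (PT.lf (nat_lit 28576) (nat_lit 6) (nat_lit 376) (nat_lit 1) (nat_lit 186) (nat_lit 160) (nat_lit 164)) (PT.lf (nat_lit 28500) (nat_lit 6) (nat_lit 375) (nat_lit 3) (nat_lit 163) (nat_lit 161) (nat_lit 186))))) (PT.nd (nat_lit 234) (PT.nd (nat_lit 78) (PT.lf (nat_lit 29792) (nat_lit 6) (nat_lit 392) (nat_lit 3) (nat_lit 164) (nat_lit 161) (nat_lit 185)) (PT.nd (nat_lit 78) (PT.lf (nat_lit 31008) (nat_lit 6) (nat_lit 408) (nat_lit 3) (nat_lit 165) (nat_lit 161) (nat_lit 184)) (PT.lf (nat_lit 32148) (nat_lit 6) (nat_lit 423) (nat_lit 3) (nat_lit 166) (nat_lit 161) (nat_lit 183)))) (PT.nd (nat_lit 78) (PT.lf (nat_lit 33212) (nat_lit 6) (nat_lit 437) (nat_lit 3) (nat_lit 167) (nat_lit 161) (nat_lit 182)) (PT.nd (nat_lit 78) (PT.lf (nat_lit 34200) (nat_lit 6)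 (nat_lit 450) (nat_lit 3) (nat_lit 168) (nat_lit 161) (nat_lit 181)) (PT.lf (nat_lit 35112) (nat_lit 6) (nat_lit 462) (nat_lit 3) (nat_lit 169) (nat_lit 161) (nat_lit 180))))))) (PT.nd (nat_lit 858) (PT.nd (nat_lit 390) (PT.nd (nat_lit 156) (PT.nd (nat_lit 78) (PT.lf (nat_lit 35948) (nat_lit 6) (nat_lit 473) (nat_lit 3) (nat_lit 170) (nat_lit 161) (nat_lit 179)) (PT.lf (nat_lit 36024) (nat_lit 6) (nat_lit 474) (nat_lit 3) (nat_lit 171) (nat_lit 161) (nat_lit 178))) (PT.nd (nat_lit 78) (PT.lf (nat_lit 36100) (nat_lit 6) (nat_lit 475) (nat_lit 3) (nat_lit 172) (nat_lit 161) (nat_lit 177)) (PT.nd (nat_lit 78) (PT.lf (nat_lit 36176) (nat_lit 6) (nat_lit 476) (nat_lit 3) (nat_lit 173) (nat_lit 161) (nat_lit 176)) (PT.lf (nat_lit 36252) (nat_lit 6) (nat_lit 477) (nat_lit 3) (nat_lit 174) (nat_lit 161) (nat_lit 175))))) (PT.nd (nat_lit 234) (PT.nd (nat_lit 78) (PT.lf (nat_lit 36252) (nat_lit 6) (nat_lit 477)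 (nat_lit 1) (nat_lit 175) (nat_lit 161) (nat_lit 174)) (PT.nd (nat_lit 78) (PT.lf (nat_lit 36176) (nat_lit 6) (nat_lit 476) (nat_lit 1) (nat_lit 176) (nat_lit 161) (nat_lit 173)) (PT.lf (nat_lit 36100) (nat_lit 6) (nat_lit 475) (nat_lit 1) (nat_lit 177) (nat_lit 161) (nat_lit 172)))) (PT.nd (nat_lit 78) (PT.lf (nat_lit 36024) (nat_lit 6) (nat_lit 474) (nat_lit 1) (nat_lit 178) (nat_lit 161) (nat_lit 171)) (PT.nd (nat_lit 78) (PT.lf (nat_lit 35948) (nat_lit 6) (nat_lit 473) (nat_lit 1) (nat_lit 179) (nat_lit 161) (nat_lit 170)) (PT.lf (nat_lit 35112) (nat_lit 6) (nat_lit 462) (nat_lit 1) (nat_lit 180) (nat_lit 161) (nat_lit 169)))))) (PT.nd (nat_lit 390) (PT.nd (nat_lit 156) (PT.nd (nat_lit 78) (PT.lf (nat_lit 34200) (nat_lit 6) (nat_lit 450) (nat_lit 1) (nat_lit 181) (nat_lit 161) (nat_lit 168)) (PT.lf (nat_lit 33212) (nat_lit 6) (nat_lit 437) (nat_lit 1) (nat_lit 182) (nat_lit 161) (nat_lit 167)))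 (PT.nd (nat_lit 78) (PT.lf (nat_lit 32148) (nat_lit 6) (nat_lit 423) (nat_lit 1) (nat_lit 183) (nat_lit 161) (nat_lit 166)) (PT.nd (nat_lit 78) (PT.lf (nat_lit 31008) (nat_lit 6) (nat_lit 408) (nat_lit 1) (nat_lit 184) (nat_lit 161) (nat_lit 165)) (PT.lf (nat_lit 29792) (nat_lit 6) (nat_lit 392) (nat_lit 1) (nat_lit 185) (nat_lit 161) (nat_lit 164))))) (PT.nd (nat_lit 51402) (PT.nd (nat_lit 51246) (PT.lf (nat_lit 28500) (nat_lit 6) (nat_lit 375) (nat_lit 1) (nat_lit 186) (nat_lit 161) (nat_lit 163)) (PT.nd (nat_lit 78) (PT.lf (nat_lit 28424) (nat_lit 3) (nat_lit 374) (nat_lit 3) (nat_lit 162) (nat_lit 162) (nat_lit 186)) (PT.lf (nat_lit 29716) (nat_lit 6) (nat_lit 391) (nat_lit 3) (nat_lit 163) (nat_lit 162) (nat_lit 185)))) (PT.nd (nat_lit 78) (PT.lf (nat_lit 30932) (nat_lit 6) (nat_lit 407) (nat_lit 3) (nat_lit 164) (nat_lit 162) (nat_lit 184)) (PT.nd (nat_lit 78) (PT.lf (nat_lit 32072) (nat_lit 6)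 (nat_lit 422) (nat_lit 3) (nat_lit 165) (nat_lit 162) (nat_lit 183)) (PT.lf (nat_lit 33136) (nat_lit 6) (nat_lit 436) (nat_lit 3) (nat_lit 166) (nat_lit 162) (nat_lit 182))))))))
noncomputable def pc19 : PT := (PT.nd (nat_lit 52806) (PT.nd (nat_lit 858) (PT.nd (nat_lit 390) (PT.nd (nat_lit 156) (PT.nd (nat_lit 78) (PT.lf (nat_lit 34124) (nat_lit 6) (nat_lit 449) (nat_lit 3) (nat_lit 167) (nat_lit 162) (nat_lit 181)) (PT.lf (nat_lit 35036) (nat_lit 6) (nat_lit 461) (nat_lit 3) (nat_lit 168) (nat_lit 162) (nat_lit 180))) (PT.nd (nat_lit 78) (PT.lf (nat_lit 35872) (nat_lit 6) (nat_lit 472) (nat_lit 3) (nat_lit 169) (nat_lit 162) (nat_lit 179)) (PT.nd (nat_lit 78) (PT.lf (nat_lit 36632) (nat_lit 6) (nat_lit 482) (nat_lit 3) (nat_lit 170) (nat_lit 162) (nat_lit 178)) (PT.lf (nat_lit 36708) (nat_lit 6) (nat_lit 483) (nat_lit 3) (nat_lit 171) (nat_lit 162) (nat_lit 177))))) (PT.nd (nat_lit 234) (PT.nd (nat_lit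 78) (PT.lf (nat_lit 36784) (nat_lit 6) (nat_lit 484) (nat_lit 3) (nat_lit 172) (nat_lit 162) (nat_lit 176)) (PT.nd (nat_lit 78) (PT.lf (nat_lit 36860) (nat_lit 6) (nat_lit 485) (nat_lit 3) (nat_lit 173) (nat_lit 162) (nat_lit 175)) (PT.lf (nat_lit 36936) (nat_lit 3) (nat_lit 486) (nat_lit 1) (nat_lit 174) (nat_lit 162) (nat_lit 174)))) (PT.nd (nat_lit 78) (PT.lf (nat_lit 36860) (nat_lit 6) (nat_lit 485) (nat_lit 1) (nat_lit 175) (nat_lit 162) (nat_lit 173)) (PT.nd (nat_lit 78) (PT.lf (nat_lit 36784) (nat_lit 6) (nat_lit 484) (nat_lit 1) (nat_lit 176) (nat_lit 162) (nat_lit 172)) (PT.lf (nat_lit 36708) (nat_lit 6) (nat_lit 483) (nat_lit 1) (nat_lit 177) (nat_lit 162) (nat_lit 171)))))) (PT.nd (nat_lit 390) (PT.nd (nat_lit 156) (PT.nd (nat_lit 78) (PT.lf (nat_lit 36632) (nat_lit 6) (nat_lit 482) (nat_lit 1) (nat_lit 178) (nat_lit 162) (nat_lit 170)) (PT.lf (nat_lit 35872) (nat_lit 6) (nat_lit 472) (nat_lit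 1) (nat_lit 179) (nat_lit 162) (nat_lit 169))) (PT.nd (nat_lit 78) (PT.lf (nat_lit 35036) (nat_lit 6) (nat_lit 461) (nat_lit 1) (nat_lit 180) (nat_lit 162) (nat_lit 168)) (PT.nd (nat_lit 78) (PT.lf (nat_lit 34124) (nat_lit 6) (nat_lit 449) (nat_lit 1) (nat_lit 181) (nat_lit 162) (nat_lit 167)) (PT.lf (nat_lit 33136) (nat_lit 6) (nat_lit 436) (nat_lit 1) (nat_lit 182) (nat_lit 162) (nat_lit 166))))) (PT.nd (nat_lit 234) (PT.nd (nat_lit 78) (PT.lf (nat_lit 32072) (nat_lit 6) (nat_lit 422) (nat_lit 1) (nat_lit 183) (nat_lit 162) (nat_lit 165)) (PT.nd (nat_lit 78) (PT.lf (nat_lit 30932) (nat_lit 6) (nat_lit 407) (nat_lit 1) (nat_lit 184) (nat_lit 162) (nat_lit 164)) (PT.lf (nat_lit 29716) (nat_lit 6) (nat_lit 391) (nat_lit 1) (nat_lit 185) (nat_lit 162) (nat_lit 163)))) (PT.nd (nat_lit 51168) (PT.lf (nat_lit 28424) (nat_lit 3) (nat_lit 374) (nat_lit 0) (nat_lit 186) (nat_lit 162) (nat_lit 162)) (PT.nd (nat_lit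 78) (PT.lf (nat_lit 28500) (nat_lit 6) (nat_lit 375) (nat_lit 5) (nat_lit 161) (nat_lit 163) (nat_lit 186)) (PT.lf (nat_lit 29716) (nat_lit 6) (nat_lit 391) (nat_lit 5) (nat_lit 162) (nat_lit 163) (nat_lit 185))))))) (PT.nd (nat_lit 858) (PT.nd (nat_lit 390) (PT.nd (nat_lit 156) (PT.nd (nat_lit 78) (PT.lf (nat_lit 30856) (nat_lit 3) (nat_lit 406) (nat_lit 3) (nat_lit 163) (nat_lit 163) (nat_lit 184)) (PT.lf (nat_lit 31996) (nat_lit 6) (nat_lit 421) (nat_lit 3) (nat_lit 164) (nat_lit 163) (nat_lit 183))) (PT.nd (nat_lit 78) (PT.lf (nat_lit 33060) (nat_lit 6) (nat_lit 435) (nat_lit 3) (nat_lit 165) (nat_lit 163) (nat_lit 182)) (PT.nd (nat_lit 78) (PT.lf (nat_lit 34048) (nat_lit 6) (nat_lit 448) (nat_lit 3) (nat_lit 166) (nat_lit 163) (nat_lit 181)) (PT.lf (nat_lit 34960) (nat_lit 6) (nat_lit 460) (nat_lit 3) (nat_lit 167) (nat_lit 163) (nat_lit 180))))) (PT.nd (nat_lit 234) (PT.nd (nat_lit 78) (PT.lf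 (nat_lit 35796) (nat_lit 6) (nat_lit 471) (nat_lit 3) (nat_lit 168) (nat_lit 163) (nat_lit 179)) (PT.nd (nat_lit 78) (PT.lf (nat_lit 36556) (nat_lit 6) (nat_lit 481) (nat_lit 3) (nat_lit 169) (nat_lit 163) (nat_lit 178)) (PT.lf (nat_lit 37240) (nat_lit 6) (nat_lit 490) (nat_lit 3) (nat_lit 170) (nat_lit 163) (nat_lit 177)))) (PT.nd (nat_lit 78) (PT.lf (nat_lit 37316) (nat_lit 6) (nat_lit 491) (nat_lit 3) (nat_lit 171) (nat_lit 163) (nat_lit 176)) (PT.nd (nat_lit 78) (PT.lf (nat_lit 37392) (nat_lit 6) (nat_lit 492) (nat_lit 3) (nat_lit 172) (nat_lit 163) (nat_lit 175)) (PT.lf (nat_lit 37468) (nat_lit 6) (nat_lit 493) (nat_lit 3) (nat_lit 173) (nat_lit 163) (nat_lit 174)))))) (PT.nd (nat_lit 390) (PT.nd (nat_lit 156) (PT.nd (nat_lit 78) (PT.lf (nat_lit 37468) (nat_lit 6) (nat_lit 493) (nat_lit 1) (nat_lit 174) (nat_lit 163) (nat_lit 173)) (PT.lf (nat_lit 37392) (nat_lit 6) (nat_lit 492) (nat_lit 1) (nat_lit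 175) (nat_lit 163) (nat_lit 172))) (PT.nd (nat_lit 78) (PT.lf (nat_lit 37316) (nat_lit 6) (nat_lit 491) (nat_lit 1) (nat_lit 176) (nat_lit 163) (nat_lit 171)) (PT.nd (nat_lit 78) (PT.lf (nat_lit 37240) (nat_lit 6) (nat_lit 490) (nat_lit 1) (nat_lit 177) (nat_lit 163) (nat_lit 170)) (PT.lf (nat_lit 36556) (nat_lit 6) (nat_lit 481) (nat_lit 1) (nat_lit 178) (nat_lit 163) (nat_lit 169))))) (PT.nd (nat_lit 234) (PT.nd (nat_lit 78) (PT.lf (nat_lit 35796) (nat_lit 6) (nat_lit 471) (nat_lit 1) (nat_lit 179) (nat_lit 163) (nat_lit 168)) (PT.nd (nat_lit 78) (PT.lf (nat_lit 34960) (nat_lit 6) (nat_lit 460) (nat_lit 1) (nat_lit 180) (nat_lit 163) (nat_lit 167)) (PT.lf (nat_lit 34048) (nat_lit 6) (nat_lit 448) (nat_lit 1) (nat_lit 181) (nat_lit 163) (nat_lit 166)))) (PT.nd (nat_lit 78) (PT.lf (nat_lit 33060) (nat_lit 6) (nat_lit 435) (nat_lit 1) (nat_lit 182) (nat_lit 163) (nat_lit 165)) (PT.nd (nat_lit 78) (PT.lf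 (nat_lit 31996) (nat_lit 6) (nat_lit 421) (nat_lit 1) (nat_lit 183) (nat_lit 163) (nat_lit 164)) (PT.lf (nat_lit 30856) (nat_lit 3) (nat_lit 406) (nat_lit 0) (nat_lit 184) (nat_lit 163) (nat_lit 163))))))))
noncomputable def pc20 : PT := (PT.nd (nat_lit 52650) (PT.nd (nat_lit 51792) (PT.nd (nat_lit 51402) (PT.nd (nat_lit 51168) (PT.nd (nat_lit 78) (PT.lf (nat_lit 29716) (nat_lit 6) (nat_lit 391) (nat_lit 0) (nat_lit 185) (nat_lit 163) (nat_lit 162)) (PT.lf (nat_lit 28500) (nat_lit 6) (nat_lit 375) (nat_lit 0) (nat_lit 186) (nat_lit 163) (nat_lit 161))) (PT.nd (nat_lit 78) (PT.lf (nat_lit 28576) (nat_lit 6) (nat_lit 376) (nat_lit 5) (nat_lit 160) (nat_lit 164) (nat_lit 186)) (PT.nd (nat_lit 78) (PT.lf (nat_lit 29792) (nat_lit 6) (nat_lit 392) (nat_lit 5) (nat_lit 161) (nat_lit 164) (nat_lit 185)) (PT.lf (nat_lit 30932) (nat_lit 6) (nat_lit 407) (nat_lit 5) (nat_lit 162) (nat_lit 164) (nat_lit 184)))))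 (PT.nd (nat_lit 156) (PT.nd (nat_lit 78) (PT.lf (nat_lit 31996) (nat_lit 6) (nat_lit 421) (nat_lit 5) (nat_lit 163) (nat_lit 164) (nat_lit 183)) (PT.lf (nat_lit 32984) (nat_lit 3) (nat_lit 434) (nat_lit 3) (nat_lit 164) (nat_lit 164) (nat_lit 182))) (PT.nd (nat_lit 78) (PT.lf (nat_lit 33972) (nat_lit 6) (nat_lit 447) (nat_lit 3) (nat_lit 165) (nat_lit 164) (nat_lit 181)) (PT.nd (nat_lit 78) (PT.lf (nat_lit 34884) (nat_lit 6) (nat_lit 459) (nat_lit 3) (nat_lit 166) (nat_lit 164) (nat_lit 180)) (PT.lf (nat_lit 35720) (nat_lit 6) (nat_lit 470) (nat_lit 3) (nat_lit 167) (nat_lit 164) (nat_lit 179)))))) (PT.nd (nat_lit 390) (PT.nd (nat_lit 156) (PT.nd (nat_lit 78) (PT.lf (nat_lit 36480) (nat_lit 6) (nat_lit 480) (nat_lit 3) (nat_lit 168) (nat_lit 164) (nat_lit 178)) (PT.lf (nat_lit 37164) (nat_lit 6) (nat_lit 489) (nat_lit 3) (nat_lit 169) (nat_lit 164) (nat_lit 177))) (PT.nd (nat_lit 78) (PT.lf (nat_lit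 37772) (nat_lit 6) (nat_lit 497) (nat_lit 3) (nat_lit 170) (nat_lit 164) (nat_lit 176)) (PT.nd (nat_lit 78) (PT.lf (nat_lit 37848) (nat_lit 6) (nat_lit 498) (nat_lit 3) (nat_lit 171) (nat_lit 164) (nat_lit 175)) (PT.lf (nat_lit 37924) (nat_lit 6) (nat_lit 499) (nat_lit 3) (nat_lit 172) (nat_lit 164) (nat_lit 174))))) (PT.nd (nat_lit 234) (PT.nd (nat_lit 78) (PT.lf (nat_lit 38000) (nat_lit 3) (nat_lit 500) (nat_lit 1) (nat_lit 173) (nat_lit 164) (nat_lit 173)) (PT.nd (nat_lit 78) (PT.lf (nat_lit 37924) (nat_lit 6) (nat_lit 499) (nat_lit 1) (nat_lit 174) (nat_lit 164) (nat_lit 172)) (PT.lf (nat_lit 37848) (nat_lit 6) (nat_lit 498) (nat_lit 1) (nat_lit 175) (nat_lit 164) (nat_lit 171)))) (PT.nd (nat_lit 78) (PT.lf (nat_lit 37772) (nat_lit 6) (nat_lit 497) (nat_lit 1) (nat_lit 176) (nat_lit 164) (nat_lit 170)) (PT.nd (nat_lit 78) (PT.lf (nat_lit 37164) (nat_lit 6) (nat_lit 489) (nat_lit 1) (nat_lit 177)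 (nat_lit 164) (nat_lit 169)) (PT.lf (nat_lit 36480) (nat_lit 6) (nat_lit 480) (nat_lit 1) (nat_lit 178) (nat_lit 164) (nat_lit 168))))))) (PT.nd (nat_lit 51792) (PT.nd (nat_lit 390) (PT.nd (nat_lit 156) (PT.nd (nat_lit 78) (PT.lf (nat_lit 35720) (nat_lit 6) (nat_lit 470) (nat_lit 1) (nat_lit 179) (nat_lit 164) (nat_lit 167)) (PT.lf (nat_lit 34884) (nat_lit 6) (nat_lit 459) (nat_lit 1) (nat_lit 180) (nat_lit 164) (nat_lit 166))) (PT.nd (nat_lit 78) (PT.lf (nat_lit 33972) (nat_lit 6) (nat_lit 447) (nat_lit 1) (nat_lit 181) (nat_lit 164) (nat_lit 165)) (PT.nd (nat_lit 78) (PT.lf (nat_lit 32984) (nat_lit 3) (nat_lit 434) (nat_lit 0) (nat_lit 182) (nat_lit 164) (nat_lit 164)) (PT.lf (nat_lit 31996) (nat_lit 6) (nat_lit 421) (nat_lit 0) (nat_lit 183) (nat_lit 164) (nat_lit 163))))) (PT.nd (nat_lit 51168) (PT.nd (nat_lit 78) (PT.lf (nat_lit 30932) (nat_lit 6) (nat_lit 407) (nat_lit 0) (nat_lit 184) (nat_lit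 164) (nat_lit 162)) (PT.nd (nat_lit 78) (PT.lf (nat_lit 29792) (nat_lit 6) (nat_lit 392) (nat_lit 0) (nat_lit 185) (nat_lit 164) (nat_lit 161)) (PT.lf (nat_lit 28576) (nat_lit 6) (nat_lit 376) (nat_lit 0) (nat_lit 186) (nat_lit 164) (nat_lit 160)))) (PT.nd (nat_lit 78) (PT.lf (nat_lit 28652) (nat_lit 6) (nat_lit 377) (nat_lit 5) (nat_lit 159) (nat_lit 165) (nat_lit 186)) (PT.nd (nat_lit 78) (PT.lf (nat_lit 29868) (nat_lit 6) (nat_lit 393) (nat_lit 5) (nat_lit 160) (nat_lit 165) (nat_lit 185)) (PT.lf (nat_lit 31008) (nat_lit 6) (nat_lit 408) (nat_lit 5) (nat_lit 161) (nat_lit 165) (nat_lit 184)))))) (PT.nd (nat_lit 390) (PT.nd (nat_lit 156) (PT.nd (nat_lit 78) (PT.lf (nat_lit 32072) (nat_lit 6) (nat_lit 422) (nat_lit 5) (nat_lit 162) (nat_lit 165) (nat_lit 183)) (PT.lf (nat_lit 33060) (nat_lit 6) (nat_lit 435) (nat_lit 5) (nat_lit 163) (nat_lit 165) (nat_lit 182))) (PT.nd (nat_lit 78) (PT.lf (nat_lit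 33972) (nat_lit 6) (nat_lit 447) (nat_lit 5) (nat_lit 164) (nat_lit 165) (nat_lit 181)) (PT.nd (nat_lit 78) (PT.lf (nat_lit 34808) (nat_lit 3) (nat_lit 458) (nat_lit 3) (nat_lit 165) (nat_lit 165) (nat_lit 180)) (PT.lf (nat_lit 35644) (nat_lit 6) (nat_lit 469) (nat_lit 3) (nat_lit 166) (nat_lit 165) (nat_lit 179))))) (PT.nd (nat_lit 234) (PT.nd (nat_lit 78) (PT.lf (nat_lit 36404) (nat_lit 6) (nat_lit 479) (nat_lit 3) (nat_lit 167) (nat_lit 165) (nat_lit 178)) (PT.nd (nat_lit 78) (PT.lf (nat_lit 37088) (nat_lit 6) (nat_lit 488) (nat_lit 3) (nat_lit 168) (nat_lit 165) (nat_lit 177)) (PT.lf (nat_lit 37696) (nat_lit 6) (nat_lit 496) (nat_lit 3) (nat_lit 169) (nat_lit 165) (nat_lit 176)))) (PT.nd (nat_lit 78) (PT.lf (nat_lit 38228) (nat_lit 6) (nat_lit 503) (nat_lit 3) (nat_lit 170) (nat_lit 165) (nat_lit 175)) (PT.nd (nat_lit 78) (PT.lf (nat_lit 38304) (nat_lit 6) (nat_lit 504) (nat_lit 3) (nat_lit 171)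 (nat_lit 165) (nat_lit 174)) (PT.lf (nat_lit 38380) (nat_lit 6) (nat_lit 505) (nat_lit 3) (nat_lit 172) (nat_lit 165) (nat_lit 173))))))))
noncomputable def pc21 : PT := (PT.nd (nat_lit 52572) (PT.nd (nat_lit 858) (PT.nd (nat_lit 390) (PT.nd (nat_lit 156) (PT.nd (nat_lit 78) (PT.lf (nat_lit 38380) (nat_lit 6) (nat_lit 505) (nat_lit 1) (nat_lit 173) (nat_lit 165) (nat_lit 172)) (PT.lf (nat_lit 38304) (nat_lit 6) (nat_lit 504) (nat_lit 1) (nat_lit 174) (nat_lit 165) (nat_lit 171))) (PT.nd (nat_lit 78) (PT.lf (nat_lit 38228) (nat_lit 6) (nat_lit 503) (nat_lit 1) (nat_lit 175) (nat_lit 165) (nat_lit 170)) (PT.nd (nat_lit 78) (PT.lf (nat_lit 37696) (nat_lit 6) (nat_lit 496) (nat_lit 1) (nat_lit 176) (nat_lit 165) (nat_lit 169)) (PT.lf (nat_lit 37088) (nat_lit 6) (nat_lit 488) (nat_lit 1) (nat_lit 177) (nat_lit 165) (nat_lit 168))))) (PT.nd (nat_lit 234) (PT.nd (nat_lit 78) (PT.lf (nat_lit 36404) (nat_lit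 6) (nat_lit 479) (nat_lit 1) (nat_lit 178) (nat_lit 165) (nat_lit 167)) (PT.nd (nat_lit 78) (PT.lf (nat_lit 35644) (nat_lit 6) (nat_lit 469) (nat_lit 1) (nat_lit 179) (nat_lit 165) (nat_lit 166)) (PT.lf (nat_lit 34808) (nat_lit 3) (nat_lit 458) (nat_lit 0) (nat_lit 180) (nat_lit 165) (nat_lit 165)))) (PT.nd (nat_lit 78) (PT.lf (nat_lit 33972) (nat_lit 6) (nat_lit 447) (nat_lit 0) (nat_lit 181) (nat_lit 165) (nat_lit 164)) (PT.nd (nat_lit 78) (PT.lf (nat_lit 33060) (nat_lit 6) (nat_lit 435) (nat_lit 0) (nat_lit 182) (nat_lit 165) (nat_lit 163)) (PT.lf (nat_lit 32072) (nat_lit 6) (nat_lit 422) (nat_lit 0) (nat_lit 183) (nat_lit 165) (nat_lit 162)))))) (PT.nd (nat_lit 51246) (PT.nd (nat_lit 156) (PT.nd (nat_lit 78) (PT.lf (nat_lit 31008) (nat_lit 6) (nat_lit 408) (nat_lit 0) (nat_lit 184) (nat_lit 165) (nat_lit 161)) (PT.lf (nat_lit 29868) (nat_lit 6) (nat_lit 393) (nat_lit 0) (nat_lit 185) (nat_lit 165)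 (nat_lit 160))) (PT.nd (nat_lit 50934) (PT.lf (nat_lit 28652) (nat_lit 6) (nat_lit 377) (nat_lit 0) (nat_lit 186) (nat_lit 165) (nat_lit 159)) (PT.nd (nat_lit 78) (PT.lf (nat_lit 28728) (nat_lit 6) (nat_lit 378) (nat_lit 5) (nat_lit 158) (nat_lit 166) (nat_lit 186)) (PT.lf (nat_lit 29944) (nat_lit 6) (nat_lit 394) (nat_lit 5) (nat_lit 159) (nat_lit 166) (nat_lit 185))))) (PT.nd (nat_lit 234) (PT.nd (nat_lit 78) (PT.lf (nat_lit 31084) (nat_lit 6) (nat_lit 409) (nat_lit 5) (nat_lit 160) (nat_lit 166) (nat_lit 184)) (PT.nd (nat_lit 78) (PT.lf (nat_lit 32148) (nat_lit 6) (nat_lit 423) (nat_lit 5) (nat_lit 161) (nat_lit 166) (nat_lit 183)) (PT.lf (nat_lit 33136) (nat_lit 6) (nat_lit 436) (nat_lit 5) (nat_lit 162) (nat_lit 166) (nat_lit 182)))) (PT.nd (nat_lit 78) (PT.lf (nat_lit 34048) (nat_lit 6) (nat_lit 448) (nat_lit 5) (nat_lit 163) (nat_lit 166) (nat_lit 181)) (PT.nd (nat_lit 78) (PT.lf (nat_lit 34884)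 (nat_lit 6) (nat_lit 459) (nat_lit 5) (nat_lit 164) (nat_lit 166) (nat_lit 180)) (PT.lf (nat_lit 35644) (nat_lit 6) (nat_lit 469) (nat_lit 5) (nat_lit 165) (nat_lit 166) (nat_lit 179))))))) (PT.nd (nat_lit 858) (PT.nd (nat_lit 390) (PT.nd (nat_lit 156) (PT.nd (nat_lit 78) (PT.lf (nat_lit 36328) (nat_lit 3) (nat_lit 478) (nat_lit 3) (nat_lit 166) (nat_lit 166) (nat_lit 178)) (PT.lf (nat_lit 37012) (nat_lit 6) (nat_lit 487) (nat_lit 3) (nat_lit 167) (nat_lit 166) (nat_lit 177))) (PT.nd (nat_lit 78) (PT.lf (nat_lit 37620) (nat_lit 6) (nat_lit 495) (nat_lit 3) (nat_lit 168) (nat_lit 166) (nat_lit 176)) (PT.nd (nat_lit 78) (PT.lf (nat_lit 38152) (nat_lit 6) (nat_lit 502) (nat_lit 3) (nat_lit 169) (nat_lit 166) (nat_lit 175)) (PT.lf (nat_lit 38608) (nat_lit 6) (nat_lit 508) (nat_lit 3) (nat_lit 170) (nat_lit 166) (nat_lit 174))))) (PT.nd (nat_lit 234) (PT.nd (nat_lit 78) (PT.lf (nat_lit 38684) (nat_lit 6)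 (nat_lit 509) (nat_lit 3) (nat_lit 171) (nat_lit 166) (nat_lit 173)) (PT.nd (nat_lit 78) (PT.lf (nat_lit 38760) (nat_lit 3) (nat_lit 510) (nat_lit 1) (nat_lit 172) (nat_lit 166) (nat_lit 172)) (PT.lf (nat_lit 38684) (nat_lit 6) (nat_lit 509) (nat_lit 1) (nat_lit 173) (nat_lit 166) (nat_lit 171)))) (PT.nd (nat_lit 78) (PT.lf (nat_lit 38608) (nat_lit 6) (nat_lit 508) (nat_lit 1) (nat_lit 174) (nat_lit 166) (nat_lit 170)) (PT.nd (nat_lit 78) (PT.lf (nat_lit 38152) (nat_lit 6) (nat_lit 502) (nat_lit 1) (nat_lit 175) (nat_lit 166) (nat_lit 169)) (PT.lf (nat_lit 37620) (nat_lit 6) (nat_lit 495) (nat_lit 1) (nat_lit 176) (nat_lit 166) (nat_lit 168)))))) (PT.nd (nat_lit 390) (PT.nd (nat_lit 156) (PT.nd (nat_lit 78) (PT.lf (nat_lit 37012) (nat_lit 6) (nat_lit 487) (nat_lit 1) (nat_lit 177) (nat_lit 166) (nat_lit 167)) (PT.lf (nat_lit 36328) (nat_lit 3) (nat_lit 478) (nat_lit 0) (nat_lit 178) (nat_lit 166) (nat_lit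 166))) (PT.nd (nat_lit 78) (PT.lf (nat_lit 35644) (nat_lit 6) (nat_lit 469) (nat_lit 0) (nat_lit 179) (nat_lit 166) (nat_lit 165)) (PT.nd (nat_lit 78) (PT.lf (nat_lit 34884) (nat_lit 6) (nat_lit 459) (nat_lit 0) (nat_lit 180) (nat_lit 166) (nat_lit 164)) (PT.lf (nat_lit 34048) (nat_lit 6) (nat_lit 448) (nat_lit 0) (nat_lit 181) (nat_lit 166) (nat_lit 163))))) (PT.nd (nat_lit 234) (PT.nd (nat_lit 78) (PT.lf (nat_lit 33136) (nat_lit 6) (nat_lit 436) (nat_lit 0) (nat_lit 182) (nat_lit 166) (nat_lit 162)) (PT.nd (nat_lit 78) (PT.lf (nat_lit 32148) (nat_lit 6) (nat_lit 423) (nat_lit 0) (nat_lit 183) (nat_lit 166) (nat_lit 161)) (PT.lf (nat_lit 31084) (nat_lit 6) (nat_lit 409) (nat_lit 0) (nat_lit 184) (nat_lit 166) (nat_lit 160)))) (PT.nd (nat_lit 78) (PT.lf (nat_lit 29944) (nat_lit 6) (nat_lit 394) (nat_lit 0) (nat_lit 185) (nat_lit 166) (nat_lit 159)) (PT.nd (nat_lit 50856) (PT.lf (nat_lit 28728) (nat_lit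 6) (nat_lit 378) (nat_lit 0) (nat_lit 186) (nat_lit 166) (nat_lit 158)) (PT.lf (nat_lit 28804) (nat_lit 6) (nat_lit 379) (nat_lit 5) (nat_lit 157) (nat_lit 167) (nat_lit 186))))))))
noncomputable def pc22 : PT := (PT.nd (nat_lit 1716) (PT.nd (nat_lit 858) (PT.nd (nat_lit 390) (PT.nd (nat_lit 156) (PT.nd (nat_lit 78) (PT.lf (nat_lit 30020) (nat_lit 6) (nat_lit 395) (nat_lit 5) (nat_lit 158) (nat_lit 167) (nat_lit 185)) (PT.lf (nat_lit 31160) (nat_lit 6) (nat_lit 410) (nat_lit 5) (nat_lit 159) (nat_lit 167) (nat_lit 184))) (PT.nd (nat_lit 78) (PT.lf (nat_lit 32224) (nat_lit 6) (nat_lit 424) (nat_lit 5) (nat_lit 160) (nat_lit 167) (nat_lit 183)) (PT.nd (nat_lit 78) (PT.lf (nat_lit 33212) (nat_lit 6) (nat_lit 437) (nat_lit 5) (nat_lit 161) (nat_lit 167) (nat_lit 182)) (PT.lf (nat_lit 34124) (nat_lit 6) (nat_lit 449) (nat_lit 5) (nat_lit 162) (nat_lit 167) (nat_lit 181))))) (PT.nd (nat_lit 234) (PT.nd (nat_lit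 78) (PT.lf (nat_lit 34960) (nat_lit 6) (nat_lit 460) (nat_lit 5) (nat_lit 163) (nat_lit 167) (nat_lit 180)) (PT.nd (nat_lit 78) (PT.lf (nat_lit 35720) (nat_lit 6) (nat_lit 470) (nat_lit 5) (nat_lit 164) (nat_lit 167) (nat_lit 179)) (PT.lf (nat_lit 36404) (nat_lit 6) (nat_lit 479) (nat_lit 5) (nat_lit 165) (nat_lit 167) (nat_lit 178)))) (PT.nd (nat_lit 78) (PT.lf (nat_lit 37012) (nat_lit 6) (nat_lit 487) (nat_lit 5) (nat_lit 166) (nat_lit 167) (nat_lit 177)) (PT.nd (nat_lit 78) (PT.lf (nat_lit 37544) (nat_lit 3) (nat_lit 494) (nat_lit 3) (nat_lit 167) (nat_lit 167) (nat_lit 176)) (PT.lf (nat_lit 38076) (nat_lit 6) (nat_lit 501) (nat_lit 3) (nat_lit 168) (nat_lit 167) (nat_lit 175)))))) (PT.nd (nat_lit 390) (PT.nd (nat_lit 156) (PT.nd (nat_lit 78) (PT.lf (nat_lit 38532) (nat_lit 6) (nat_lit 507) (nat_lit 3) (nat_lit 169) (nat_lit 167) (nat_lit 174)) (PT.lf (nat_lit 38912) (nat_lit 6) (nat_lit 512) (nat_lit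 3) (nat_lit 170) (nat_lit 167) (nat_lit 173))) (PT.nd (nat_lit 78) (PT.lf (nat_lit 38988) (nat_lit 6) (nat_lit 513) (nat_lit 3) (nat_lit 171) (nat_lit 167) (nat_lit 172)) (PT.nd (nat_lit 78) (PT.lf (nat_lit 38988) (nat_lit 6) (nat_lit 513) (nat_lit 1) (nat_lit 172) (nat_lit 167) (nat_lit 171)) (PT.lf (nat_lit 38912) (nat_lit 6) (nat_lit 512) (nat_lit 1) (nat_lit 173) (nat_lit 167) (nat_lit 170))))) (PT.nd (nat_lit 234) (PT.nd (nat_lit 78) (PT.lf (nat_lit 38532) (nat_lit 6) (nat_lit 507) (nat_lit 1) (nat_lit 174) (nat_lit 167) (nat_lit 169)) (PT.nd (nat_lit 78) (PT.lf (nat_lit 38076) (nat_lit 6) (nat_lit 501) (nat_lit 1) (nat_lit 175) (nat_lit 167) (nat_lit 168)) (PT.lf (nat_lit 37544) (nat_lit 3) (nat_lit 494) (nat_lit 0) (nat_lit 176) (nat_lit 167) (nat_lit 167)))) (PT.nd (nat_lit 78) (PT.lf (nat_lit 37012) (nat_lit 6) (nat_lit 487) (nat_lit 0) (nat_lit 177) (nat_lit 167) (nat_lit 166)) (PT.nd (nat_lit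 78) (PT.lf (nat_lit 36404) (nat_lit 6) (nat_lit 479) (nat_lit 0) (nat_lit 178) (nat_lit 167) (nat_lit 165)) (PT.lf (nat_lit 35720) (nat_lit 6) (nat_lit 470) (nat_lit 0) (nat_lit 179) (nat_lit 167) (nat_lit 164))))))) (PT.nd (nat_lit 51480) (PT.nd (nat_lit 390) (PT.nd (nat_lit 156) (PT.nd (nat_lit 78) (PT.lf (nat_lit 34960) (nat_lit 6) (nat_lit 460) (nat_lit 0) (nat_lit 180) (nat_lit 167) (nat_lit 163)) (PT.lf (nat_lit 34124) (nat_lit 6) (nat_lit 449) (nat_lit 0) (nat_lit 181) (nat_lit 167) (nat_lit 162))) (PT.nd (nat_lit 78) (PT.lf (nat_lit 33212) (nat_lit 6) (nat_lit 437) (nat_lit 0) (nat_lit 182) (nat_lit 167) (nat_lit 161)) (PT.nd (nat_lit 78) (PT.lf (nat_lit 32224) (nat_lit 6) (nat_lit 424) (nat_lit 0) (nat_lit 183) (nat_lit 167) (nat_lit 160)) (PT.lf (nat_lit 31160) (nat_lit 6) (nat_lit 410) (nat_lit 0) (nat_lit 184) (nat_lit 167) (nat_lit 159))))) (PT.nd (nat_lit 50856) (PT.nd (nat_lit 78) (PT.lf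 (nat_lit 30020) (nat_lit 6) (nat_lit 395) (nat_lit 0) (nat_lit 185) (nat_lit 167) (nat_lit 158)) (PT.nd (nat_lit 50700) (PT.lf (nat_lit 28804) (nat_lit 6) (nat_lit 379) (nat_lit 0) (nat_lit 186) (nat_lit 167) (nat_lit 157)) (PT.lf (nat_lit 27588) (nat_lit 6) (nat_lit 363) (nat_lit 5) (nat_lit 155) (nat_lit 168) (nat_lit 187)))) (PT.nd (nat_lit 78) (PT.lf (nat_lit 28880) (nat_lit 6) (nat_lit 380) (nat_lit 5) (nat_lit 156) (nat_lit 168) (nat_lit 186)) (PT.nd (nat_lit 78) (PT.lf (nat_lit 30096) (nat_lit 6) (nat_lit 396) (nat_lit 5) (nat_lit 157) (nat_lit 168) (nat_lit 185)) (PT.lf (nat_lit 31236) (nat_lit 6) (nat_lit 411) (nat_lit 5) (nat_lit 158) (nat_lit 168) (nat_lit 184)))))) (PT.nd (nat_lit 390) (PT.nd (nat_lit 156) (PT.nd (nat_lit 78) (PT.lf (nat_lit 32300) (nat_lit 6) (nat_lit 425) (nat_lit 5) (nat_lit 159) (nat_lit 168) (nat_lit 183)) (PT.lf (nat_lit 33288) (nat_lit 6) (nat_lit 438) (nat_lit 5)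 (nat_lit 160) (nat_lit 168) (nat_lit 182))) (PT.nd (nat_lit 78) (PT.lf (nat_lit 34200) (nat_lit 6) (nat_lit 450) (nat_lit 5) (nat_lit 161) (nat_lit 168) (nat_lit 181)) (PT.nd (nat_lit 78) (PT.lf (nat_lit 35036) (nat_lit 6) (nat_lit 461) (nat_lit 5) (nat_lit 162) (nat_lit 168) (nat_lit 180)) (PT.lf (nat_lit 35796) (nat_lit 6) (nat_lit 471) (nat_lit 5) (nat_lit 163) (nat_lit 168) (nat_lit 179))))) (PT.nd (nat_lit 234) (PT.nd (nat_lit 78) (PT.lf (nat_lit 36480) (nat_lit 6) (nat_lit 480) (nat_lit 5) (nat_lit 164) (nat_lit 168) (nat_lit 178)) (PT.nd (nat_lit 78) (PT.lf (nat_lit 37088) (nat_lit 6) (nat_lit 488) (nat_lit 5) (nat_lit 165) (nat_lit 168) (nat_lit 177)) (PT.lf (nat_lit 37620) (nat_lit 6) (nat_lit 495) (nat_lit 5) (nat_lit 166) (nat_lit 168) (nat_lit 176)))) (PT.nd (nat_lit 78) (PT.lf (nat_lit 38076) (nat_lit 6) (nat_lit 501) (nat_lit 5) (nat_lit 167) (nat_lit 168) (nat_lit 175)) (PT.nd (nat_lit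 78) (PT.lf (nat_lit 38456) (nat_lit 3) (nat_lit 506) (nat_lit 3) (nat_lit 168) (nat_lit 168) (nat_lit 174)) (PT.lf (nat_lit 38836) (nat_lit 6) (nat_lit 511) (nat_lit 3) (nat_lit 169) (nat_lit 168) (nat_lit 173))))))))
noncomputable def pc23 : PT := (PT.nd (nat_lit 52182) (PT.nd (nat_lit 858) (PT.nd (nat_lit 390) (PT.nd (nat_lit 156) (PT.nd (nat_lit 78) (PT.lf (nat_lit 39140) (nat_lit 6) (nat_lit 515) (nat_lit 3) (nat_lit 170) (nat_lit 168) (nat_lit 172)) (PT.lf (nat_lit 39216) (nat_lit 3) (nat_lit 516) (nat_lit 1) (nat_lit 171) (nat_lit 168) (nat_lit 171))) (PT.nd (nat_lit 78) (PT.lf (nat_lit 39140) (nat_lit 6) (nat_lit 515) (nat_lit 1) (nat_lit 172) (nat_lit 168) (nat_lit 170)) (PT.nd (nat_lit 78) (PT.lf (nat_lit 38836) (nat_lit 6) (nat_lit 511) (nat_lit 1) (nat_lit 173) (nat_lit 168) (nat_lit 169)) (PT.lf (nat_lit 38456) (nat_lit 3) (nat_lit 506) (nat_lit 0) (nat_lit 174) (nat_lit 168) (nat_lit 168)))))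 (PT.nd (nat_lit 234) (PT.nd (nat_lit 78) (PT.lf (nat_lit 38076) (nat_lit 6) (nat_lit 501) (nat_lit 0) (nat_lit 175) (nat_lit 168) (nat_lit 167)) (PT.nd (nat_lit 78) (PT.lf (nat_lit 37620) (nat_lit 6) (nat_lit 495) (nat_lit 0) (nat_lit 176) (nat_lit 168) (nat_lit 166)) (PT.lf (nat_lit 37088) (nat_lit 6) (nat_lit 488) (nat_lit 0) (nat_lit 177) (nat_lit 168) (nat_lit 165)))) (PT.nd (nat_lit 78) (PT.lf (nat_lit 36480) (nat_lit 6) (nat_lit 480) (nat_lit 0) (nat_lit 178) (nat_lit 168) (nat_lit 164)) (PT.nd (nat_lit 78) (PT.lf (nat_lit 35796) (nat_lit 6) (nat_lit 471) (nat_lit 0) (nat_lit 179) (nat_lit 168) (nat_lit 163)) (PT.lf (nat_lit 35036) (nat_lit 6) (nat_lit 461) (nat_lit 0) (nat_lit 180) (nat_lit 168) (nat_lit 162)))))) (PT.nd (nat_lit 390) (PT.nd (nat_lit 156) (PT.nd (nat_lit 78) (PT.lf (nat_lit 34200) (nat_lit 6) (nat_lit 450) (nat_lit 0) (nat_lit 181) (nat_lit 168) (nat_lit 161)) (PT.lf (nat_lit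 33288) (nat_lit 6) (nat_lit 438) (nat_lit 0) (nat_lit 182) (nat_lit 168) (nat_lit 160))) (PT.nd (nat_lit 78) (PT.lf (nat_lit 32300) (nat_lit 6) (nat_lit 425) (nat_lit 0) (nat_lit 183) (nat_lit 168) (nat_lit 159)) (PT.nd (nat_lit 78) (PT.lf (nat_lit 31236) (nat_lit 6) (nat_lit 411) (nat_lit 0) (nat_lit 184) (nat_lit 168) (nat_lit 158)) (PT.lf (nat_lit 30096) (nat_lit 6) (nat_lit 396) (nat_lit 0) (nat_lit 185) (nat_lit 168) (nat_lit 157))))) (PT.nd (nat_lit 50700) (PT.nd (nat_lit 78) (PT.lf (nat_lit 28880) (nat_lit 6) (nat_lit 380) (nat_lit 0) (nat_lit 186) (nat_lit 168) (nat_lit 156)) (PT.nd (nat_lit 50544) (PT.lf (nat_lit 27588) (nat_lit 6) (nat_lit 363) (nat_lit 0) (nat_lit 187) (nat_lit 168) (nat_lit 155)) (PT.lf (nat_lit 27664) (nat_lit 6) (nat_lit 364) (nat_lit 5) (nat_lit 154) (nat_lit 169) (nat_lit 187)))) (PT.nd (nat_lit 78) (PT.lf (nat_lit 28956) (nat_lit 6) (nat_lit 381) (nat_lit 5) (nat_lit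 155) (nat_lit 169) (nat_lit 186)) (PT.nd (nat_lit 78) (PT.lf (nat_lit 30172) (nat_lit 6) (nat_lit 397) (nat_lit 5) (nat_lit 156) (nat_lit 169) (nat_lit 185)) (PT.lf (nat_lit 31312) (nat_lit 6) (nat_lit 412) (nat_lit 5) (nat_lit 157) (nat_lit 169) (nat_lit 184))))))) (PT.nd (nat_lit 858) (PT.nd (nat_lit 390) (PT.nd (nat_lit 156) (PT.nd (nat_lit 78) (PT.lf (nat_lit 32376) (nat_lit 6) (nat_lit 426) (nat_lit 5) (nat_lit 158) (nat_lit 169) (nat_lit 183)) (PT.lf (nat_lit 33364) (nat_lit 6) (nat_lit 439) (nat_lit 5) (nat_lit 159) (nat_lit 169) (nat_lit 182))) (PT.nd (nat_lit 78) (PT.lf (nat_lit 34276) (nat_lit 6) (nat_lit 451) (nat_lit 5) (nat_lit 160) (nat_lit 169) (nat_lit 181)) (PT.nd (nat_lit 78) (PT.lf (nat_lit 35112) (nat_lit 6) (nat_lit 462) (nat_lit 5) (nat_lit 161) (nat_lit 169) (nat_lit 180)) (PT.lf (nat_lit 35872) (nat_lit 6) (nat_lit 472) (nat_lit 5) (nat_lit 162) (nat_lit 169) (nat_lit 179)))))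 (PT.nd (nat_lit 234) (PT.nd (nat_lit 78) (PT.lf (nat_lit 36556) (nat_lit 6) (nat_lit 481) (nat_lit 5) (nat_lit 163) (nat_lit 169) (nat_lit 178)) (PT.nd (nat_lit 78) (PT.lf (nat_lit 37164) (nat_lit 6) (nat_lit 489) (nat_lit 5) (nat_lit 164) (nat_lit 169) (nat_lit 177)) (PT.lf (nat_lit 37696) (nat_lit 6) (nat_lit 496) (nat_lit 5) (nat_lit 165) (nat_lit 169) (nat_lit 176)))) (PT.nd (nat_lit 78) (PT.lf (nat_lit 38152) (nat_lit 6) (nat_lit 502) (nat_lit 5) (nat_lit 166) (nat_lit 169) (nat_lit 175)) (PT.nd (nat_lit 78) (PT.lf (nat_lit 38532) (nat_lit 6) (nat_lit 507) (nat_lit 5) (nat_lit 167) (nat_lit 169) (nat_lit 174)) (PT.lf (nat_lit 38836) (nat_lit 6) (nat_lit 511) (nat_lit 5) (nat_lit 168) (nat_lit 169) (nat_lit 173)))))) (PT.nd (nat_lit 390) (PT.nd (nat_lit 156) (PT.nd (nat_lit 78) (PT.lf (nat_lit 39064) (nat_lit 3) (nat_lit 514) (nat_lit 3) (nat_lit 169) (nat_lit 169) (nat_lit 172)) (PT.lf (nat_lit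 39292) (nat_lit 6) (nat_lit 517) (nat_lit 3) (nat_lit 170) (nat_lit 169) (nat_lit 171))) (PT.nd (nat_lit 78) (PT.lf (nat_lit 39292) (nat_lit 6) (nat_lit 517) (nat_lit 1) (nat_lit 171) (nat_lit 169) (nat_lit 170)) (PT.nd (nat_lit 78) (PT.lf (nat_lit 39064) (nat_lit 3) (nat_lit 514) (nat_lit 0) (nat_lit 172) (nat_lit 169) (nat_lit 169)) (PT.lf (nat_lit 38836) (nat_lit 6) (nat_lit 511) (nat_lit 0) (nat_lit 173) (nat_lit 169) (nat_lit 168))))) (PT.nd (nat_lit 234) (PT.nd (nat_lit 78) (PT.lf (nat_lit 38532) (nat_lit 6) (nat_lit 507) (nat_lit 0) (nat_lit 174) (nat_lit 169) (nat_lit 167)) (PT.nd (nat_lit 78) (PT.lf (nat_lit 38152) (nat_lit 6) (nat_lit 502) (nat_lit 0) (nat_lit 175) (nat_lit 169) (nat_lit 166)) (PT.lf (nat_lit 37696) (nat_lit 6) (nat_lit 496) (nat_lit 0) (nat_lit 176) (nat_lit 169) (nat_lit 165)))) (PT.nd (nat_lit 78) (PT.lf (nat_lit 37164) (nat_lit 6) (nat_lit 489) (nat_lit 0) (nat_lit 177)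 (nat_lit 169) (nat_lit 164)) (PT.nd (nat_lit 78) (PT.lf (nat_lit 36556) (nat_lit 6) (nat_lit 481) (nat_lit 0) (nat_lit 178) (nat_lit 169) (nat_lit 163)) (PT.lf (nat_lit 35872) (nat_lit 6) (nat_lit 472) (nat_lit 0) (nat_lit 179) (nat_lit 169) (nat_lit 162))))))))
noncomputable def pc24 : PT := (PT.nd (nat_lit 52026) (PT.nd (nat_lit 51168) (PT.nd (nat_lit 390) (PT.nd (nat_lit 156) (PT.nd (nat_lit 78) (PT.lf (nat_lit 35112) (nat_lit 6) (nat_lit 462) (nat_lit 0) (nat_lit 180) (nat_lit 169) (nat_lit 161)) (PT.lf (nat_lit 34276) (nat_lit 6) (nat_lit 451) (nat_lit 0) (nat_lit 181) (nat_lit 169) (nat_lit 160))) (PT.nd (nat_lit 78) (PT.lf (nat_lit 33364) (nat_lit 6) (nat_lit 439) (nat_lit 0) (nat_lit 182) (nat_lit 169) (nat_lit 159)) (PT.nd (nat_lit 78) (PT.lf (nat_lit 32376) (nat_lit 6) (nat_lit 426) (nat_lit 0) (nat_lit 183) (nat_lit 169) (nat_lit 158)) (PT.lf (nat_lit 31312) (nat_lit 6) (nat_lit 412) (nat_lit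 0) (nat_lit 184) (nat_lit 169) (nat_lit 157))))) (PT.nd (nat_lit 156) (PT.nd (nat_lit 78) (PT.lf (nat_lit 30172) (nat_lit 6) (nat_lit 397) (nat_lit 0) (nat_lit 185) (nat_lit 169) (nat_lit 156)) (PT.lf (nat_lit 28956) (nat_lit 6) (nat_lit 381) (nat_lit 0) (nat_lit 186) (nat_lit 169) (nat_lit 155))) (PT.nd (nat_lit 50466) (PT.lf (nat_lit 27664) (nat_lit 6) (nat_lit 364) (nat_lit 0) (nat_lit 187) (nat_lit 169) (nat_lit 154)) (PT.nd (nat_lit 78) (PT.lf (nat_lit 27740) (nat_lit 6) (nat_lit 365) (nat_lit 5) (nat_lit 153) (nat_lit 170) (nat_lit 187)) (PT.lf (nat_lit 29032) (nat_lit 6) (nat_lit 382) (nat_lit 5) (nat_lit 154) (nat_lit 170) (nat_lit 186)))))) (PT.nd (nat_lit 390) (PT.nd (nat_lit 156) (PT.nd (nat_lit 78) (PT.lf (nat_lit 30248) (nat_lit 6) (nat_lit 398) (nat_lit 5) (nat_lit 155) (nat_lit 170) (nat_lit 185)) (PT.lf (nat_lit 31388) (nat_lit 6) (nat_lit 413) (nat_lit 5) (nat_lit 156) (nat_lit 170)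 (nat_lit 184))) (PT.nd (nat_lit 78) (PT.lf (nat_lit 32452) (nat_lit 6) (nat_lit 427) (nat_lit 5) (nat_lit 157) (nat_lit 170) (nat_lit 183)) (PT.nd (nat_lit 78) (PT.lf (nat_lit 33440) (nat_lit 6) (nat_lit 440) (nat_lit 5) (nat_lit 158) (nat_lit 170) (nat_lit 182)) (PT.lf (nat_lit 34352) (nat_lit 6) (nat_lit 452) (nat_lit 5) (nat_lit 159) (nat_lit 170) (nat_lit 181))))) (PT.nd (nat_lit 234) (PT.nd (nat_lit 78) (PT.lf (nat_lit 35188) (nat_lit 6) (nat_lit 463) (nat_lit 5) (nat_lit 160) (nat_lit 170) (nat_lit 180)) (PT.nd (nat_lit 78) (PT.lf (nat_lit 35948) (nat_lit 6) (nat_lit 473) (nat_lit 5) (nat_lit 161) (nat_lit 170) (nat_lit 179)) (PT.lf (nat_lit 36632) (nat_lit 6) (nat_lit 482) (nat_lit 5) (nat_lit 162) (nat_lit 170) (nat_lit 178)))) (PT.nd (nat_lit 78) (PT.lf (nat_lit 37240) (nat_lit 6) (nat_lit 490) (nat_lit 5) (nat_lit 163) (nat_lit 170) (nat_lit 177)) (PT.nd (nat_lit 78) (PT.lf (nat_lit 37772)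 (nat_lit 6) (nat_lit 497) (nat_lit 5) (nat_lit 164) (nat_lit 170) (nat_lit 176)) (PT.lf (nat_lit 38228) (nat_lit 6) (nat_lit 503) (nat_lit 5) (nat_lit 165) (nat_lit 170) (nat_lit 175))))))) (PT.nd (nat_lit 858) (PT.nd (nat_lit 390) (PT.nd (nat_lit 156) (PT.nd (nat_lit 78) (PT.lf (nat_lit 38608) (nat_lit 6) (nat_lit 508) (nat_lit 5) (nat_lit 166) (nat_lit 170) (nat_lit 174)) (PT.lf (nat_lit 38912) (nat_lit 6) (nat_lit 512) (nat_lit 5) (nat_lit 167) (nat_lit 170) (nat_lit 173))) (PT.nd (nat_lit 78) (PT.lf (nat_lit 39140) (nat_lit 6) (nat_lit 515) (nat_lit 5) (nat_lit 168) (nat_lit 170) (nat_lit 172)) (PT.nd (nat_lit 78) (PT.lf (nat_lit 39292) (nat_lit 6) (nat_lit 517) (nat_lit 5) (nat_lit 169) (nat_lit 170) (nat_lit 171)) (PT.lf (nat_lit 39368) (nat_lit 1) (nat_lit 518) (nat_lit 0) (nat_lit 170) (nat_lit 170) (nat_lit 170))))) (PT.nd (nat_lit 234) (PT.nd (nat_lit 78) (PT.lf (nat_lit 39292) (nat_lit 6)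 (nat_lit 517) (nat_lit 0) (nat_lit 171) (nat_lit 170) (nat_lit 169)) (PT.nd (nat_lit 78) (PT.lf (nat_lit 39140) (nat_lit 6) (nat_lit 515) (nat_lit 0) (nat_lit 172) (nat_lit 170) (nat_lit 168)) (PT.lf (nat_lit 38912) (nat_lit 6) (nat_lit 512) (nat_lit 0) (nat_lit 173) (nat_lit 170) (nat_lit 167)))) (PT.nd (nat_lit 78) (PT.lf (nat_lit 38608) (nat_lit 6) (nat_lit 508) (nat_lit 0) (nat_lit 174) (nat_lit 170) (nat_lit 166)) (PT.nd (nat_lit 78) (PT.lf (nat_lit 38228) (nat_lit 6) (nat_lit 503) (nat_lit 0) (nat_lit 175) (nat_lit 170) (nat_lit 165)) (PT.lf (nat_lit 37772) (nat_lit 6) (nat_lit 497) (nat_lit 0) (nat_lit 176) (nat_lit 170) (nat_lit 164)))))) (PT.nd (nat_lit 390) (PT.nd (nat_lit 156) (PT.nd (nat_lit 78) (PT.lf (nat_lit 37240) (nat_lit 6) (nat_lit 490) (nat_lit 0) (nat_lit 177) (nat_lit 170) (nat_lit 163)) (PT.lf (nat_lit 36632) (nat_lit 6) (nat_lit 482) (nat_lit 0) (nat_lit 178) (nat_lit 170) (nat_lit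 162))) (PT.nd (nat_lit 78) (PT.lf (nat_lit 35948) (nat_lit 6) (nat_lit 473) (nat_lit 0) (nat_lit 179) (nat_lit 170) (nat_lit 161)) (PT.nd (nat_lit 78) (PT.lf (nat_lit 35188) (nat_lit 6) (nat_lit 463) (nat_lit 0) (nat_lit 180) (nat_lit 170) (nat_lit 160)) (PT.lf (nat_lit 34352) (nat_lit 6) (nat_lit 452) (nat_lit 0) (nat_lit 181) (nat_lit 170) (nat_lit 159))))) (PT.nd (nat_lit 234) (PT.nd (nat_lit 78) (PT.lf (nat_lit 33440) (nat_lit 6) (nat_lit 440) (nat_lit 0) (nat_lit 182) (nat_lit 170) (nat_lit 158)) (PT.nd (nat_lit 78) (PT.lf (nat_lit 32452) (nat_lit 6) (nat_lit 427) (nat_lit 0) (nat_lit 183) (nat_lit 170) (nat_lit 157)) (PT.lf (nat_lit 31388) (nat_lit 6) (nat_lit 413) (nat_lit 0) (nat_lit 184) (nat_lit 170) (nat_lit 156)))) (PT.nd (nat_lit 78) (PT.lf (nat_lit 30248) (nat_lit 6) (nat_lit 398) (nat_lit 0) (nat_lit 185) (nat_lit 170) (nat_lit 155)) (PT.nd (nat_lit 78) (PT.lf (nat_lit 29032) (nat_lit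 6) (nat_lit 382) (nat_lit 0) (nat_lit 186) (nat_lit 170) (nat_lit 154)) (PT.lf (nat_lit 27740) (nat_lit 6) (nat_lit 365) (nat_lit 0) (nat_lit 187) (nat_lit 170) (nat_lit 153))))))))
noncomputable def pc25 : PT := (PT.nd (nat_lit 1716) (PT.nd (nat_lit 858) (PT.nd (nat_lit 390) (PT.nd (nat_lit 156) (PT.nd (nat_lit 78) (PT.lf (nat_lit 26904) (nat_lit 6) (nat_lit 354) (nat_lit 5) (nat_lit 152) (nat_lit 171) (nat_lit 187)) (PT.lf (nat_lit 27816) (nat_lit 6) (nat_lit 366) (nat_lit 5) (nat_lit 153) (nat_lit 171) (nat_lit 186))) (PT.nd (nat_lit 78) (PT.lf (nat_lit 29108) (nat_lit 6) (nat_lit 383) (nat_lit 5) (nat_lit 154) (nat_lit 171) (nat_lit 185)) (PT.nd (nat_lit 78) (PT.lf (nat_lit 30324) (nat_lit 6) (nat_lit 399) (nat_lit 5) (nat_lit 155) (nat_lit 171) (nat_lit 184)) (PT.lf (nat_lit 31464) (nat_lit 6) (nat_lit 414) (nat_lit 5) (nat_lit 156) (nat_lit 171) (nat_lit 183))))) (PT.nd (nat_lit 234) (PT.nd (nat_lit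 78) (PT.lf (nat_lit 32528) (nat_lit 6) (nat_lit 428) (nat_lit 5) (nat_lit 157) (nat_lit 171) (nat_lit 182)) (PT.nd (nat_lit 78) (PT.lf (nat_lit 33516) (nat_lit 6) (nat_lit 441) (nat_lit 5) (nat_lit 158) (nat_lit 171) (nat_lit 181)) (PT.lf (nat_lit 34428) (nat_lit 6) (nat_lit 453) (nat_lit 5) (nat_lit 159) (nat_lit 171) (nat_lit 180)))) (PT.nd (nat_lit 78) (PT.lf (nat_lit 35264) (nat_lit 6) (nat_lit 464) (nat_lit 5) (nat_lit 160) (nat_lit 171) (nat_lit 179)) (PT.nd (nat_lit 78) (PT.lf (nat_lit 36024) (nat_lit 6) (nat_lit 474) (nat_lit 5) (nat_lit 161) (nat_lit 171) (nat_lit 178)) (PT.lf (nat_lit 36708) (nat_lit 6) (nat_lit 483) (nat_lit 5) (nat_lit 162) (nat_lit 171) (nat_lit 177)))))) (PT.nd (nat_lit 390) (PT.nd (nat_lit 156) (PT.nd (nat_lit 78) (PT.lf (nat_lit 37316) (nat_lit 6) (nat_lit 491) (nat_lit 5) (nat_lit 163) (nat_lit 171) (nat_lit 176)) (PT.lf (nat_lit 37848) (nat_lit 6) (nat_lit 498) (nat_lit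 5) (nat_lit 164) (nat_lit 171) (nat_lit 175))) (PT.nd (nat_lit 78) (PT.lf (nat_lit 38304) (nat_lit 6) (nat_lit 504) (nat_lit 5) (nat_lit 165) (nat_lit 171) (nat_lit 174)) (PT.nd (nat_lit 78) (PT.lf (nat_lit 38684) (nat_lit 6) (nat_lit 509) (nat_lit 5) (nat_lit 166) (nat_lit 171) (nat_lit 173)) (PT.lf (nat_lit 38988) (nat_lit 6) (nat_lit 513) (nat_lit 5) (nat_lit 167) (nat_lit 171) (nat_lit 172))))) (PT.nd (nat_lit 234) (PT.nd (nat_lit 78) (PT.lf (nat_lit 39216) (nat_lit 3) (nat_lit 516) (nat_lit 4) (nat_lit 168) (nat_lit 171) (nat_lit 171)) (PT.nd (nat_lit 78) (PT.lf (nat_lit 39292) (nat_lit 6) (nat_lit 517) (nat_lit 4) (nat_lit 169) (nat_lit 171) (nat_lit 170)) (PT.lf (nat_lit 39292) (nat_lit 6) (nat_lit 517) (nat_lit 2) (nat_lit 170) (nat_lit 171) (nat_lit 169)))) (PT.nd (nat_lit 78) (PT.lf (nat_lit 39216) (nat_lit 3) (nat_lit 516) (nat_lit 0) (nat_lit 171) (nat_lit 171) (nat_lit 168)) (PT.nd (nat_lit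 78) (PT.lf (nat_lit 38988) (nat_lit 6) (nat_lit 513) (nat_lit 0) (nat_lit 172) (nat_lit 171) (nat_lit 167)) (PT.lf (nat_lit 38684) (nat_lit 6) (nat_lit 509) (nat_lit 0) (nat_lit 173) (nat_lit 171) (nat_lit 166))))))) (PT.nd (nat_lit 858) (PT.nd (nat_lit 390) (PT.nd (nat_lit 156) (PT.nd (nat_lit 78) (PT.lf (nat_lit 38304) (nat_lit 6) (nat_lit 504) (nat_lit 0) (nat_lit 174) (nat_lit 171) (nat_lit 165)) (PT.lf (nat_lit 37848) (nat_lit 6) (nat_lit 498) (nat_lit 0) (nat_lit 175) (nat_lit 171) (nat_lit 164))) (PT.nd (nat_lit 78) (PT.lf (nat_lit 37316) (nat_lit 6) (nat_lit 491) (nat_lit 0) (nat_lit 176) (nat_lit 171) (nat_lit 163)) (PT.nd (nat_lit 78) (PT.lf (nat_lit 36708) (nat_lit 6) (nat_lit 483) (nat_lit 0) (nat_lit 177) (nat_lit 171) (nat_lit 162)) (PT.lf (nat_lit 36024) (nat_lit 6) (nat_lit 474) (nat_lit 0) (nat_lit 178) (nat_lit 171) (nat_lit 161))))) (PT.nd (nat_lit 234) (PT.nd (nat_lit 78) (PT.lf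 (nat_lit 35264) (nat_lit 6) (nat_lit 464) (nat_lit 0) (nat_lit 179) (nat_lit 171) (nat_lit 160)) (PT.nd (nat_lit 78) (PT.lf (nat_lit 34428) (nat_lit 6) (nat_lit 453) (nat_lit 0) (nat_lit 180) (nat_lit 171) (nat_lit 159)) (PT.lf (nat_lit 33516) (nat_lit 6) (nat_lit 441) (nat_lit 0) (nat_lit 181) (nat_lit 171) (nat_lit 158)))) (PT.nd (nat_lit 78) (PT.lf (nat_lit 32528) (nat_lit 6) (nat_lit 428) (nat_lit 0) (nat_lit 182) (nat_lit 171) (nat_lit 157)) (PT.nd (nat_lit 78) (PT.lf (nat_lit 31464) (nat_lit 6) (nat_lit 414) (nat_lit 0) (nat_lit 183) (nat_lit 171) (nat_lit 156)) (PT.lf (nat_lit 30324) (nat_lit 6) (nat_lit 399) (nat_lit 0) (nat_lit 184) (nat_lit 171) (nat_lit 155)))))) (PT.nd (nat_lit 50622) (PT.nd (nat_lit 156) (PT.nd (nat_lit 78) (PT.lf (nat_lit 29108) (nat_lit 6) (nat_lit 383) (nat_lit 0) (nat_lit 185) (nat_lit 171) (nat_lit 154)) (PT.lf (nat_lit 27816) (nat_lit 6) (nat_lit 366) (nat_lit 0)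 (nat_lit 186) (nat_lit 171) (nat_lit 153))) (PT.nd (nat_lit 50310) (PT.lf (nat_lit 26904) (nat_lit 6) (nat_lit 354) (nat_lit 0) (nat_lit 187) (nat_lit 171) (nat_lit 152)) (PT.nd (nat_lit 78) (PT.lf (nat_lit 26296) (nat_lit 6) (nat_lit 346) (nat_lit 5) (nat_lit 151) (nat_lit 172) (nat_lit 187)) (PT.lf (nat_lit 26980) (nat_lit 6) (nat_lit 355) (nat_lit 5) (nat_lit 152) (nat_lit 172) (nat_lit 186))))) (PT.nd (nat_lit 234) (PT.nd (nat_lit 78) (PT.lf (nat_lit 27892) (nat_lit 6) (nat_lit 367) (nat_lit 5) (nat_lit 153) (nat_lit 172) (nat_lit 185)) (PT.nd (nat_lit 78) (PT.lf (nat_lit 29184) (nat_lit 6) (nat_lit 384) (nat_lit 5) (nat_lit 154) (nat_lit 172) (nat_lit 184)) (PT.lf (nat_lit 30400) (nat_lit 6) (nat_lit 400) (nat_lit 5) (nat_lit 155) (nat_lit 172) (nat_lit 183)))) (PT.nd (nat_lit 78) (PT.lf (nat_lit 31540) (nat_lit 6) (nat_lit 415) (nat_lit 5) (nat_lit 156) (nat_lit 172) (nat_lit 182)) (PT.nd (nat_lit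 78) (PT.lf (nat_lit 32604) (nat_lit 6) (nat_lit 429) (nat_lit 5) (nat_lit 157) (nat_lit 172) (nat_lit 181)) (PT.lf (nat_lit 33592) (nat_lit 6) (nat_lit 442) (nat_lit 5) (nat_lit 158) (nat_lit 172) (nat_lit 180))))))))
noncomputable def pc26 : PT := (PT.nd (nat_lit 1716) (PT.nd (nat_lit 858) (PT.nd (nat_lit 390) (PT.nd (nat_lit 156) (PT.nd (nat_lit 78) (PT.lf (nat_lit 34504) (nat_lit 6) (nat_lit 454) (nat_lit 5) (nat_lit 159) (nat_lit 172) (nat_lit 179)) (PT.lf (nat_lit 35340) (nat_lit 6) (nat_lit 465) (nat_lit 5) (nat_lit 160) (nat_lit 172) (nat_lit 178))) (PT.nd (nat_lit 78) (PT.lf (nat_lit 36100) (nat_lit 6) (nat_lit 475) (nat_lit 5) (nat_lit 161) (nat_lit 172) (nat_lit 177)) (PT.nd (nat_lit 78) (PT.lf (nat_lit 36784) (nat_lit 6) (nat_lit 484) (nat_lit 5) (nat_lit 162) (nat_lit 172) (nat_lit 176)) (PT.lf (nat_lit 37392) (nat_lit 6) (nat_lit 492) (nat_lit 5) (nat_lit 163) (nat_lit 172) (nat_lit 175)))))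 (PT.nd (nat_lit 234) (PT.nd (nat_lit 78) (PT.lf (nat_lit 37924) (nat_lit 6) (nat_lit 499) (nat_lit 5) (nat_lit 164) (nat_lit 172) (nat_lit 174)) (PT.nd (nat_lit 78) (PT.lf (nat_lit 38380) (nat_lit 6) (nat_lit 505) (nat_lit 5) (nat_lit 165) (nat_lit 172) (nat_lit 173)) (PT.lf (nat_lit 38760) (nat_lit 3) (nat_lit 510) (nat_lit 4) (nat_lit 166) (nat_lit 172) (nat_lit 172)))) (PT.nd (nat_lit 78) (PT.lf (nat_lit 38988) (nat_lit 6) (nat_lit 513) (nat_lit 4) (nat_lit 167) (nat_lit 172) (nat_lit 171)) (PT.nd (nat_lit 78) (PT.lf (nat_lit 39140) (nat_lit 6) (nat_lit 515) (nat_lit 4) (nat_lit 168) (nat_lit 172) (nat_lit 170)) (PT.lf (nat_lit 39064) (nat_lit 3) (nat_lit 514) (nat_lit 2) (nat_lit 169) (nat_lit 172) (nat_lit 169)))))) (PT.nd (nat_lit 390) (PT.nd (nat_lit 156) (PT.nd (nat_lit 78) (PT.lf (nat_lit 39140) (nat_lit 6) (nat_lit 515) (nat_lit 2) (nat_lit 170) (nat_lit 172) (nat_lit 168)) (PT.lf (nat_lit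 38988) (nat_lit 6) (nat_lit 513) (nat_lit 2) (nat_lit 171) (nat_lit 172) (nat_lit 167))) (PT.nd (nat_lit 78) (PT.lf (nat_lit 38760) (nat_lit 3) (nat_lit 510) (nat_lit 0) (nat_lit 172) (nat_lit 172) (nat_lit 166)) (PT.nd (nat_lit 78) (PT.lf (nat_lit 38380) (nat_lit 6) (nat_lit 505) (nat_lit 0) (nat_lit 173) (nat_lit 172) (nat_lit 165)) (PT.lf (nat_lit 37924) (nat_lit 6) (nat_lit 499) (nat_lit 0) (nat_lit 174) (nat_lit 172) (nat_lit 164))))) (PT.nd (nat_lit 234) (PT.nd (nat_lit 78) (PT.lf (nat_lit 37392) (nat_lit 6) (nat_lit 492) (nat_lit 0) (nat_lit 175) (nat_lit 172) (nat_lit 163)) (PT.nd (nat_lit 78) (PT.lf (nat_lit 36784) (nat_lit 6) (nat_lit 484) (nat_lit 0) (nat_lit 176) (nat_lit 172) (nat_lit 162)) (PT.lf (nat_lit 36100) (nat_lit 6) (nat_lit 475) (nat_lit 0) (nat_lit 177) (nat_lit 172) (nat_lit 161)))) (PT.nd (nat_lit 78) (PT.lf (nat_lit 35340) (nat_lit 6) (nat_lit 465) (nat_lit 0) (nat_lit 178)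 (nat_lit 172) (nat_lit 160)) (PT.nd (nat_lit 78) (PT.lf (nat_lit 34504) (nat_lit 6) (nat_lit 454) (nat_lit 0) (nat_lit 179) (nat_lit 172) (nat_lit 159)) (PT.lf (nat_lit 33592) (nat_lit 6) (nat_lit 442) (nat_lit 0) (nat_lit 180) (nat_lit 172) (nat_lit 158))))))) (PT.nd (nat_lit 50934) (PT.nd (nat_lit 390) (PT.nd (nat_lit 156) (PT.nd (nat_lit 78) (PT.lf (nat_lit 32604) (nat_lit 6) (nat_lit 429) (nat_lit 0) (nat_lit 181) (nat_lit 172) (nat_lit 157)) (PT.lf (nat_lit 31540) (nat_lit 6) (nat_lit 415) (nat_lit 0) (nat_lit 182) (nat_lit 172) (nat_lit 156))) (PT.nd (nat_lit 78) (PT.lf (nat_lit 30400) (nat_lit 6) (nat_lit 400) (nat_lit 0) (nat_lit 183) (nat_lit 172) (nat_lit 155)) (PT.nd (nat_lit 78) (PT.lf (nat_lit 29184) (nat_lit 6) (nat_lit 384) (nat_lit 0) (nat_lit 184) (nat_lit 172) (nat_lit 154)) (PT.lf (nat_lit 27892) (nat_lit 6) (nat_lit 367) (nat_lit 0) (nat_lit 185) (nat_lit 172) (nat_lit 153))))) (PT.nd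 (nat_lit 50310) (PT.nd (nat_lit 78) (PT.lf (nat_lit 26980) (nat_lit 6) (nat_lit 355) (nat_lit 0) (nat_lit 186) (nat_lit 172) (nat_lit 152)) (PT.nd (nat_lit 50154) (PT.lf (nat_lit 26296) (nat_lit 6) (nat_lit 346) (nat_lit 0) (nat_lit 187) (nat_lit 172) (nat_lit 151)) (PT.lf (nat_lit 25080) (nat_lit 6) (nat_lit 330) (nat_lit 5) (nat_lit 149) (nat_lit 173) (nat_lit 188)))) (PT.nd (nat_lit 78) (PT.lf (nat_lit 25688) (nat_lit 6) (nat_lit 338) (nat_lit 5) (nat_lit 150) (nat_lit 173) (nat_lit 187)) (PT.nd (nat_lit 78) (PT.lf (nat_lit 26372) (nat_lit 6) (nat_lit 347) (nat_lit 5) (nat_lit 151) (nat_lit 173) (nat_lit 186)) (PT.lf (nat_lit 27056) (nat_lit 6) (nat_lit 356) (nat_lit 5) (nat_lit 152) (nat_lit 173) (nat_lit 185)))))) (PT.nd (nat_lit 390) (PT.nd (nat_lit 156) (PT.nd (nat_lit 78) (PT.lf (nat_lit 27968) (nat_lit 6) (nat_lit 368) (nat_lit 5) (nat_lit 153) (nat_lit 173) (nat_lit 184)) (PT.lf (nat_lit 29260)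 (nat_lit 6) (nat_lit 385) (nat_lit 5) (nat_lit 154) (nat_lit 173) (nat_lit 183))) (PT.nd (nat_lit 78) (PT.lf (nat_lit 30476) (nat_lit 6) (nat_lit 401) (nat_lit 5) (nat_lit 155) (nat_lit 173) (nat_lit 182)) (PT.nd (nat_lit 78) (PT.lf (nat_lit 31616) (nat_lit 6) (nat_lit 416) (nat_lit 5) (nat_lit 156) (nat_lit 173) (nat_lit 181)) (PT.lf (nat_lit 32680) (nat_lit 6) (nat_lit 430) (nat_lit 5) (nat_lit 157) (nat_lit 173) (nat_lit 180))))) (PT.nd (nat_lit 234) (PT.nd (nat_lit 78) (PT.lf (nat_lit 33668) (nat_lit 6) (nat_lit 443) (nat_lit 5) (nat_lit 158) (nat_lit 173) (nat_lit 179)) (PT.nd (nat_lit 78) (PT.lf (nat_lit 34580) (nat_lit 6) (nat_lit 455) (nat_lit 5) (nat_lit 159) (nat_lit 173) (nat_lit 178)) (PT.lf (nat_lit 35416) (nat_lit 6) (nat_lit 466) (nat_lit 5) (nat_lit 160) (nat_lit 173) (nat_lit 177)))) (PT.nd (nat_lit 78) (PT.lf (nat_lit 36176) (nat_lit 6) (nat_lit 476) (nat_lit 5) (nat_lit 161) (nat_lit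 173) (nat_lit 176)) (PT.nd (nat_lit 78) (PT.lf (nat_lit 36860) (nat_lit 6) (nat_lit 485) (nat_lit 5) (nat_lit 162) (nat_lit 173) (nat_lit 175)) (PT.lf (nat_lit 37468) (nat_lit 6) (nat_lit 493) (nat_lit 5) (nat_lit 163) (nat_lit 173) (nat_lit 174))))))))
noncomputable def pc27 : PT := (PT.nd (nat_lit 1716) (PT.nd (nat_lit 858) (PT.nd (nat_lit 390) (PT.nd (nat_lit 156) (PT.nd (nat_lit 78) (PT.lf (nat_lit 38000) (nat_lit 3) (nat_lit 500) (nat_lit 4) (nat_lit 164) (nat_lit 173) (nat_lit 173)) (PT.lf (nat_lit 38380) (nat_lit 6) (nat_lit 505) (nat_lit 4) (nat_lit 165) (nat_lit 173) (nat_lit 172))) (PT.nd (nat_lit 78) (PT.lf (nat_lit 38684) (nat_lit 6) (nat_lit 509) (nat_lit 4) (nat_lit 166) (nat_lit 173) (nat_lit 171)) (PT.nd (nat_lit 78) (PT.lf (nat_lit 38912) (nat_lit 6) (nat_lit 512) (nat_lit 4) (nat_lit 167) (nat_lit 173) (nat_lit 170)) (PT.lf (nat_lit 38836) (nat_lit 6) (nat_lit 511) (nat_lit 4) (nat_lit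 168) (nat_lit 173) (nat_lit 169))))) (PT.nd (nat_lit 234) (PT.nd (nat_lit 78) (PT.lf (nat_lit 38836) (nat_lit 6) (nat_lit 511) (nat_lit 2) (nat_lit 169) (nat_lit 173) (nat_lit 168)) (PT.nd (nat_lit 78) (PT.lf (nat_lit 38912) (nat_lit 6) (nat_lit 512) (nat_lit 2) (nat_lit 170) (nat_lit 173) (nat_lit 167)) (PT.lf (nat_lit 38684) (nat_lit 6) (nat_lit 509) (nat_lit 2) (nat_lit 171) (nat_lit 173) (nat_lit 166)))) (PT.nd (nat_lit 78) (PT.lf (nat_lit 38380) (nat_lit 6) (nat_lit 505) (nat_lit 2) (nat_lit 172) (nat_lit 173) (nat_lit 165)) (PT.nd (nat_lit 78) (PT.lf (nat_lit 38000) (nat_lit 3) (nat_lit 500) (nat_lit 0) (nat_lit 173) (nat_lit 173) (nat_lit 164)) (PT.lf (nat_lit 37468) (nat_lit 6) (nat_lit 493) (nat_lit 0) (nat_lit 174) (nat_lit 173) (nat_lit 163)))))) (PT.nd (nat_lit 390) (PT.nd (nat_lit 156) (PT.nd (nat_lit 78) (PT.lf (nat_lit 36860) (nat_lit 6) (nat_lit 485) (nat_lit 0) (nat_lit 175) (nat_lit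 173) (nat_lit 162)) (PT.lf (nat_lit 36176) (nat_lit 6) (nat_lit 476) (nat_lit 0) (nat_lit 176) (nat_lit 173) (nat_lit 161))) (PT.nd (nat_lit 78) (PT.lf (nat_lit 35416) (nat_lit 6) (nat_lit 466) (nat_lit 0) (nat_lit 177) (nat_lit 173) (nat_lit 160)) (PT.nd (nat_lit 78) (PT.lf (nat_lit 34580) (nat_lit 6) (nat_lit 455) (nat_lit 0) (nat_lit 178) (nat_lit 173) (nat_lit 159)) (PT.lf (nat_lit 33668) (nat_lit 6) (nat_lit 443) (nat_lit 0) (nat_lit 179) (nat_lit 173) (nat_lit 158))))) (PT.nd (nat_lit 234) (PT.nd (nat_lit 78) (PT.lf (nat_lit 32680) (nat_lit 6) (nat_lit 430) (nat_lit 0) (nat_lit 180) (nat_lit 173) (nat_lit 157)) (PT.nd (nat_lit 78) (PT.lf (nat_lit 31616) (nat_lit 6) (nat_lit 416) (nat_lit 0) (nat_lit 181) (nat_lit 173) (nat_lit 156)) (PT.lf (nat_lit 30476) (nat_lit 6) (nat_lit 401) (nat_lit 0) (nat_lit 182) (nat_lit 173) (nat_lit 155)))) (PT.nd (nat_lit 78) (PT.lf (nat_lit 29260) (nat_lit 6) (nat_lit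 385) (nat_lit 0) (nat_lit 183) (nat_lit 173) (nat_lit 154)) (PT.nd (nat_lit 78) (PT.lf (nat_lit 27968) (nat_lit 6) (nat_lit 368) (nat_lit 0) (nat_lit 184) (nat_lit 173) (nat_lit 153)) (PT.lf (nat_lit 27056) (nat_lit 6) (nat_lit 356) (nat_lit 0) (nat_lit 185) (nat_lit 173) (nat_lit 152))))))) (PT.nd (nat_lit 50778) (PT.nd (nat_lit 50310) (PT.nd (nat_lit 156) (PT.nd (nat_lit 78) (PT.lf (nat_lit 26372) (nat_lit 6) (nat_lit 347) (nat_lit 0) (nat_lit 186) (nat_lit 173) (nat_lit 151)) (PT.lf (nat_lit 25688) (nat_lit 6) (nat_lit 338) (nat_lit 0) (nat_lit 187) (nat_lit 173) (nat_lit 150))) (PT.nd (nat_lit 49998) (PT.lf (nat_lit 25080) (nat_lit 6) (nat_lit 330) (nat_lit 0) (nat_lit 188) (nat_lit 173) (nat_lit 149)) (PT.nd (nat_lit 78) (PT.lf (nat_lit 24472) (nat_lit 6) (nat_lit 322) (nat_lit 5) (nat_lit 148) (nat_lit 174) (nat_lit 188)) (PT.lf (nat_lit 25156) (nat_lit 6) (nat_lit 331) (nat_lit 5) (nat_lit 149)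 (nat_lit 174) (nat_lit 187))))) (PT.nd (nat_lit 234) (PT.nd (nat_lit 78) (PT.lf (nat_lit 25764) (nat_lit 6) (nat_lit 339) (nat_lit 5) (nat_lit 150) (nat_lit 174) (nat_lit 186)) (PT.nd (nat_lit 78) (PT.lf (nat_lit 26448) (nat_lit 6) (nat_lit 348) (nat_lit 5) (nat_lit 151) (nat_lit 174) (nat_lit 185)) (PT.lf (nat_lit 27132) (nat_lit 6) (nat_lit 357) (nat_lit 5) (nat_lit 152) (nat_lit 174) (nat_lit 184)))) (PT.nd (nat_lit 78) (PT.lf (nat_lit 28044) (nat_lit 6) (nat_lit 369) (nat_lit 5) (nat_lit 153) (nat_lit 174) (nat_lit 183)) (PT.nd (nat_lit 78) (PT.lf (nat_lit 29336) (nat_lit 6) (nat_lit 386) (nat_lit 5) (nat_lit 154) (nat_lit 174) (nat_lit 182)) (PT.lf (nat_lit 30552) (nat_lit 6) (nat_lit 402) (nat_lit 5) (nat_lit 155) (nat_lit 174) (nat_lit 181)))))) (PT.nd (nat_lit 390) (PT.nd (nat_lit 156) (PT.nd (nat_lit 78) (PT.lf (nat_lit 31692) (nat_lit 6) (nat_lit 417) (nat_lit 5) (nat_lit 156) (nat_lit 174)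 (nat_lit 180)) (PT.lf (nat_lit 32756) (nat_lit 6) (nat_lit 431) (nat_lit 5) (nat_lit 157) (nat_lit 174) (nat_lit 179))) (PT.nd (nat_lit 78) (PT.lf (nat_lit 33744) (nat_lit 6) (nat_lit 444) (nat_lit 5) (nat_lit 158) (nat_lit 174) (nat_lit 178)) (PT.nd (nat_lit 78) (PT.lf (nat_lit 34656) (nat_lit 6) (nat_lit 456) (nat_lit 5) (nat_lit 159) (nat_lit 174) (nat_lit 177)) (PT.lf (nat_lit 35492) (nat_lit 6) (nat_lit 467) (nat_lit 5) (nat_lit 160) (nat_lit 174) (nat_lit 176))))) (PT.nd (nat_lit 234) (PT.nd (nat_lit 78) (PT.lf (nat_lit 36252) (nat_lit 6) (nat_lit 477) (nat_lit 5) (nat_lit 161) (nat_lit 174) (nat_lit 175)) (PT.nd (nat_lit 78) (PT.lf (nat_lit 36936) (nat_lit 3) (nat_lit 486) (nat_lit 4) (nat_lit 162) (nat_lit 174) (nat_lit 174)) (PT.lf (nat_lit 37468) (nat_lit 6) (nat_lit 493) (nat_lit 4) (nat_lit 163) (nat_lit 174) (nat_lit 173)))) (PT.nd (nat_lit 78) (PT.lf (nat_lit 37924) (nat_lit 6) (nat_lit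 499) (nat_lit 4) (nat_lit 164) (nat_lit 174) (nat_lit 172)) (PT.nd (nat_lit 78) (PT.lf (nat_lit 38304) (nat_lit 6) (nat_lit 504) (nat_lit 4) (nat_lit 165) (nat_lit 174) (nat_lit 171)) (PT.lf (nat_lit 38608) (nat_lit 6) (nat_lit 508) (nat_lit 4) (nat_lit 166) (nat_lit 174) (nat_lit 170))))))))
noncomputable def pc28 : PT := (PT.nd (nat_lit 1638) (PT.nd (nat_lit 780) (PT.nd (nat_lit 390) (PT.nd (nat_lit 156) (PT.nd (nat_lit 78) (PT.lf (nat_lit 38532) (nat_lit 6) (nat_lit 507) (nat_lit 4) (nat_lit 167) (nat_lit 174) (nat_lit 169)) (PT.lf (nat_lit 38456) (nat_lit 3) (nat_lit 506) (nat_lit 2) (nat_lit 168) (nat_lit 174) (nat_lit 168))) (PT.nd (nat_lit 78) (PT.lf (nat_lit 38532) (nat_lit 6) (nat_lit 507) (nat_lit 2) (nat_lit 169) (nat_lit 174) (nat_lit 167)) (PT.nd (nat_lit 78) (PT.lf (nat_lit 38608) (nat_lit 6) (nat_lit 508) (nat_lit 2) (nat_lit 170) (nat_lit 174) (nat_lit 166)) (PT.lf (nat_lit 38304) (nat_lit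 6) (nat_lit 504) (nat_lit 2) (nat_lit 171) (nat_lit 174) (nat_lit 165))))) (PT.nd (nat_lit 156) (PT.nd (nat_lit 78) (PT.lf (nat_lit 37924) (nat_lit 6) (nat_lit 499) (nat_lit 2) (nat_lit 172) (nat_lit 174) (nat_lit 164)) (PT.lf (nat_lit 37468) (nat_lit 6) (nat_lit 493) (nat_lit 2) (nat_lit 173) (nat_lit 174) (nat_lit 163))) (PT.nd (nat_lit 78) (PT.lf (nat_lit 36936) (nat_lit 3) (nat_lit 486) (nat_lit 0) (nat_lit 174) (nat_lit 174) (nat_lit 162)) (PT.nd (nat_lit 78) (PT.lf (nat_lit 36252) (nat_lit 6) (nat_lit 477) (nat_lit 0) (nat_lit 175) (nat_lit 174) (nat_lit 161)) (PT.lf (nat_lit 35492) (nat_lit 6) (nat_lit 467) (nat_lit 0) (nat_lit 176) (nat_lit 174) (nat_lit 160)))))) (PT.nd (nat_lit 390) (PT.nd (nat_lit 156) (PT.nd (nat_lit 78) (PT.lf (nat_lit 34656) (nat_lit 6) (nat_lit 456) (nat_lit 0) (nat_lit 177) (nat_lit 174) (nat_lit 159)) (PT.lf (nat_lit 33744) (nat_lit 6) (nat_lit 444) (nat_lit 0) (nat_lit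 178) (nat_lit 174) (nat_lit 158))) (PT.nd (nat_lit 78) (PT.lf (nat_lit 32756) (nat_lit 6) (nat_lit 431) (nat_lit 0) (nat_lit 179) (nat_lit 174) (nat_lit 157)) (PT.nd (nat_lit 78) (PT.lf (nat_lit 31692) (nat_lit 6) (nat_lit 417) (nat_lit 0) (nat_lit 180) (nat_lit 174) (nat_lit 156)) (PT.lf (nat_lit 30552) (nat_lit 6) (nat_lit 402) (nat_lit 0) (nat_lit 181) (nat_lit 174) (nat_lit 155))))) (PT.nd (nat_lit 234) (PT.nd (nat_lit 78) (PT.lf (nat_lit 29336) (nat_lit 6) (nat_lit 386) (nat_lit 0) (nat_lit 182) (nat_lit 174) (nat_lit 154)) (PT.nd (nat_lit 78) (PT.lf (nat_lit 28044) (nat_lit 6) (nat_lit 369) (nat_lit 0) (nat_lit 183) (nat_lit 174) (nat_lit 153)) (PT.lf (nat_lit 27132) (nat_lit 6) (nat_lit 357) (nat_lit 0) (nat_lit 184) (nat_lit 174) (nat_lit 152)))) (PT.nd (nat_lit 78) (PT.lf (nat_lit 26448) (nat_lit 6) (nat_lit 348) (nat_lit 0) (nat_lit 185) (nat_lit 174) (nat_lit 151)) (PT.nd (nat_lit 78) (PT.lf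 (nat_lit 25764) (nat_lit 6) (nat_lit 339) (nat_lit 0) (nat_lit 186) (nat_lit 174) (nat_lit 150)) (PT.lf (nat_lit 25156) (nat_lit 6) (nat_lit 331) (nat_lit 0) (nat_lit 187) (nat_lit 174) (nat_lit 149))))))) (PT.nd (nat_lit 50700) (PT.nd (nat_lit 50232) (PT.nd (nat_lit 49998) (PT.nd (nat_lit 49920) (PT.lf (nat_lit 24472) (nat_lit 6) (nat_lit 322) (nat_lit 0) (nat_lit 188) (nat_lit 174) (nat_lit 148)) (PT.lf (nat_lit 23940) (nat_lit 6) (nat_lit 315) (nat_lit 5) (nat_lit 147) (nat_lit 175) (nat_lit 188))) (PT.nd (nat_lit 78) (PT.lf (nat_lit 24548) (nat_lit 6) (nat_lit 323) (nat_lit 5) (nat_lit 148) (nat_lit 175) (nat_lit 187)) (PT.nd (nat_lit 78) (PT.lf (nat_lit 25232) (nat_lit 6) (nat_lit 332) (nat_lit 5) (nat_lit 149) (nat_lit 175) (nat_lit 186)) (PT.lf (nat_lit 25840) (nat_lit 6) (nat_lit 340) (nat_lit 5) (nat_lit 150) (nat_lit 175) (nat_lit 185))))) (PT.nd (nat_lit 234) (PT.nd (nat_lit 78) (PT.lf (nat_lit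 26524) (nat_lit 6) (nat_lit 349) (nat_lit 5) (nat_lit 151) (nat_lit 175) (nat_lit 184)) (PT.nd (nat_lit 78) (PT.lf (nat_lit 27208) (nat_lit 6) (nat_lit 358) (nat_lit 5) (nat_lit 152) (nat_lit 175) (nat_lit 183)) (PT.lf (nat_lit 28120) (nat_lit 6) (nat_lit 370) (nat_lit 5) (nat_lit 153) (nat_lit 175) (nat_lit 182)))) (PT.nd (nat_lit 78) (PT.lf (nat_lit 29412) (nat_lit 6) (nat_lit 387) (nat_lit 5) (nat_lit 154) (nat_lit 175) (nat_lit 181)) (PT.nd (nat_lit 78) (PT.lf (nat_lit 30628) (nat_lit 6) (nat_lit 403) (nat_lit 5) (nat_lit 155) (nat_lit 175) (nat_lit 180)) (PT.lf (nat_lit 31768) (nat_lit 6) (nat_lit 418) (nat_lit 5) (nat_lit 156) (nat_lit 175) (nat_lit 179)))))) (PT.nd (nat_lit 390) (PT.nd (nat_lit 156) (PT.nd (nat_lit 78) (PT.lf (nat_lit 32832) (nat_lit 6) (nat_lit 432) (nat_lit 5) (nat_lit 157) (nat_lit 175) (nat_lit 178)) (PT.lf (nat_lit 33820) (nat_lit 6) (nat_lit 445) (nat_lit 5) (nat_lit 158)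 (nat_lit 175) (nat_lit 177))) (PT.nd (nat_lit 78) (PT.lf (nat_lit 34732) (nat_lit 6) (nat_lit 457) (nat_lit 5) (nat_lit 159) (nat_lit 175) (nat_lit 176)) (PT.nd (nat_lit 78) (PT.lf (nat_lit 35568) (nat_lit 3) (nat_lit 468) (nat_lit 4) (nat_lit 160) (nat_lit 175) (nat_lit 175)) (PT.lf (nat_lit 36252) (nat_lit 6) (nat_lit 477) (nat_lit 4) (nat_lit 161) (nat_lit 175) (nat_lit 174))))) (PT.nd (nat_lit 234) (PT.nd (nat_lit 78) (PT.lf (nat_lit 36860) (nat_lit 6) (nat_lit 485) (nat_lit 4) (nat_lit 162) (nat_lit 175) (nat_lit 173)) (PT.nd (nat_lit 78) (PT.lf (nat_lit 37392) (nat_lit 6) (nat_lit 492) (nat_lit 4) (nat_lit 163) (nat_lit 175) (nat_lit 172)) (PT.lf (nat_lit 37848) (nat_lit 6) (nat_lit 498) (nat_lit 4) (nat_lit 164) (nat_lit 175) (nat_lit 171)))) (PT.nd (nat_lit 78) (PT.lf (nat_lit 38228) (nat_lit 6) (nat_lit 503) (nat_lit 4) (nat_lit 165) (nat_lit 175) (nat_lit 170)) (PT.nd (nat_lit 78) (PT.lf (nat_lit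 38152) (nat_lit 6) (nat_lit 502) (nat_lit 4) (nat_lit 166) (nat_lit 175) (nat_lit 169)) (PT.lf (nat_lit 38076) (nat_lit 6) (nat_lit 501) (nat_lit 4) (nat_lit 167) (nat_lit 175) (nat_lit 168))))))))
noncomputable def pc29 : PT := (PT.nd (nat_lit 51402) (PT.nd (nat_lit 858) (PT.nd (nat_lit 390) (PT.nd (nat_lit 156) (PT.nd (nat_lit 78) (PT.lf (nat_lit 38076) (nat_lit 6) (nat_lit 501) (nat_lit 2) (nat_lit 168) (nat_lit 175) (nat_lit 167)) (PT.lf (nat_lit 38152) (nat_lit 6) (nat_lit 502) (nat_lit 2) (nat_lit 169) (nat_lit 175) (nat_lit 166))) (PT.nd (nat_lit 78) (PT.lf (nat_lit 38228) (nat_lit 6) (nat_lit 503) (nat_lit 2) (nat_lit 170) (nat_lit 175) (nat_lit 165)) (PT.nd (nat_lit 78) (PT.lf (nat_lit 37848) (nat_lit 6) (nat_lit 498) (nat_lit 2) (nat_lit 171) (nat_lit 175) (nat_lit 164)) (PT.lf (nat_lit 37392) (nat_lit 6) (nat_lit 492) (nat_lit 2) (nat_lit 172) (nat_lit 175) (nat_lit 163))))) (PT.nd (nat_lit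 234) (PT.nd (nat_lit 78) (PT.lf (nat_lit 36860) (nat_lit 6) (nat_lit 485) (nat_lit 2) (nat_lit 173) (nat_lit 175) (nat_lit 162)) (PT.nd (nat_lit 78) (PT.lf (nat_lit 36252) (nat_lit 6) (nat_lit 477) (nat_lit 2) (nat_lit 174) (nat_lit 175) (nat_lit 161)) (PT.lf (nat_lit 35568) (nat_lit 3) (nat_lit 468) (nat_lit 0) (nat_lit 175) (nat_lit 175) (nat_lit 160)))) (PT.nd (nat_lit 78) (PT.lf (nat_lit 34732) (nat_lit 6) (nat_lit 457) (nat_lit 0) (nat_lit 176) (nat_lit 175) (nat_lit 159)) (PT.nd (nat_lit 78) (PT.lf (nat_lit 33820) (nat_lit 6) (nat_lit 445) (nat_lit 0) (nat_lit 177) (nat_lit 175) (nat_lit 158)) (PT.lf (nat_lit 32832) (nat_lit 6) (nat_lit 432) (nat_lit 0) (nat_lit 178) (nat_lit 175) (nat_lit 157)))))) (PT.nd (nat_lit 390) (PT.nd (nat_lit 156) (PT.nd (nat_lit 78) (PT.lf (nat_lit 31768) (nat_lit 6) (nat_lit 418) (nat_lit 0) (nat_lit 179) (nat_lit 175) (nat_lit 156)) (PT.lf (nat_lit 30628) (nat_lit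 6) (nat_lit 403) (nat_lit 0) (nat_lit 180) (nat_lit 175) (nat_lit 155))) (PT.nd (nat_lit 78) (PT.lf (nat_lit 29412) (nat_lit 6) (nat_lit 387) (nat_lit 0) (nat_lit 181) (nat_lit 175) (nat_lit 154)) (PT.nd (nat_lit 78) (PT.lf (nat_lit 28120) (nat_lit 6) (nat_lit 370) (nat_lit 0) (nat_lit 182) (nat_lit 175) (nat_lit 153)) (PT.lf (nat_lit 27208) (nat_lit 6) (nat_lit 358) (nat_lit 0) (nat_lit 183) (nat_lit 175) (nat_lit 152))))) (PT.nd (nat_lit 234) (PT.nd (nat_lit 78) (PT.lf (nat_lit 26524) (nat_lit 6) (nat_lit 349) (nat_lit 0) (nat_lit 184) (nat_lit 175) (nat_lit 151)) (PT.nd (nat_lit 78) (PT.lf (nat_lit 25840) (nat_lit 6) (nat_lit 340) (nat_lit 0) (nat_lit 185) (nat_lit 175) (nat_lit 150)) (PT.lf (nat_lit 25232) (nat_lit 6) (nat_lit 332) (nat_lit 0) (nat_lit 186) (nat_lit 175) (nat_lit 149)))) (PT.nd (nat_lit 78) (PT.lf (nat_lit 24548) (nat_lit 6) (nat_lit 323) (nat_lit 0) (nat_lit 187) (nat_lit 175)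 (nat_lit 148)) (PT.nd (nat_lit 49764) (PT.lf (nat_lit 23940) (nat_lit 6) (nat_lit 315) (nat_lit 0) (nat_lit 188) (nat_lit 175) (nat_lit 147)) (PT.lf (nat_lit 22876) (nat_lit 6) (nat_lit 301) (nat_lit 5) (nat_lit 145) (nat_lit 176) (nat_lit 189))))))) (PT.nd (nat_lit 858) (PT.nd (nat_lit 390) (PT.nd (nat_lit 156) (PT.nd (nat_lit 78) (PT.lf (nat_lit 23408) (nat_lit 6) (nat_lit 308) (nat_lit 5) (nat_lit 146) (nat_lit 176) (nat_lit 188)) (PT.lf (nat_lit 24016) (nat_lit 6) (nat_lit 316) (nat_lit 5) (nat_lit 147) (nat_lit 176) (nat_lit 187))) (PT.nd (nat_lit 78) (PT.lf (nat_lit 24624) (nat_lit 6) (nat_lit 324) (nat_lit 5) (nat_lit 148) (nat_lit 176) (nat_lit 186)) (PT.nd (nat_lit 78) (PT.lf (nat_lit 25308) (nat_lit 6) (nat_lit 333) (nat_lit 5) (nat_lit 149) (nat_lit 176) (nat_lit 185)) (PT.lf (nat_lit 25916) (nat_lit 6) (nat_lit 341) (nat_lit 5) (nat_lit 150) (nat_lit 176) (nat_lit 184))))) (PT.nd (nat_lit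 234) (PT.nd (nat_lit 78) (PT.lf (nat_lit 26600) (nat_lit 6) (nat_lit 350) (nat_lit 5) (nat_lit 151) (nat_lit 176) (nat_lit 183)) (PT.nd (nat_lit 78) (PT.lf (nat_lit 27284) (nat_lit 6) (nat_lit 359) (nat_lit 5) (nat_lit 152) (nat_lit 176) (nat_lit 182)) (PT.lf (nat_lit 28196) (nat_lit 6) (nat_lit 371) (nat_lit 5) (nat_lit 153) (nat_lit 176) (nat_lit 181)))) (PT.nd (nat_lit 78) (PT.lf (nat_lit 29488) (nat_lit 6) (nat_lit 388) (nat_lit 5) (nat_lit 154) (nat_lit 176) (nat_lit 180)) (PT.nd (nat_lit 78) (PT.lf (nat_lit 30704) (nat_lit 6) (nat_lit 404) (nat_lit 5) (nat_lit 155) (nat_lit 176) (nat_lit 179)) (PT.lf (nat_lit 31844) (nat_lit 6) (nat_lit 419) (nat_lit 5) (nat_lit 156) (nat_lit 176) (nat_lit 178)))))) (PT.nd (nat_lit 390) (PT.nd (nat_lit 156) (PT.nd (nat_lit 78) (PT.lf (nat_lit 32908) (nat_lit 6) (nat_lit 433) (nat_lit 5) (nat_lit 157) (nat_lit 176) (nat_lit 177)) (PT.lf (nat_lit 33896) (nat_lit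 3) (nat_lit 446) (nat_lit 4) (nat_lit 158) (nat_lit 176) (nat_lit 176))) (PT.nd (nat_lit 78) (PT.lf (nat_lit 34732) (nat_lit 6) (nat_lit 457) (nat_lit 4) (nat_lit 159) (nat_lit 176) (nat_lit 175)) (PT.nd (nat_lit 78) (PT.lf (nat_lit 35492) (nat_lit 6) (nat_lit 467) (nat_lit 4) (nat_lit 160) (nat_lit 176) (nat_lit 174)) (PT.lf (nat_lit 36176) (nat_lit 6) (nat_lit 476) (nat_lit 4) (nat_lit 161) (nat_lit 176) (nat_lit 173))))) (PT.nd (nat_lit 234) (PT.nd (nat_lit 78) (PT.lf (nat_lit 36784) (nat_lit 6) (nat_lit 484) (nat_lit 4) (nat_lit 162) (nat_lit 176) (nat_lit 172)) (PT.nd (nat_lit 78) (PT.lf (nat_lit 37316) (nat_lit 6) (nat_lit 491) (nat_lit 4) (nat_lit 163) (nat_lit 176) (nat_lit 171)) (PT.lf (nat_lit 37772) (nat_lit 6) (nat_lit 497) (nat_lit 4) (nat_lit 164) (nat_lit 176) (nat_lit 170)))) (PT.nd (nat_lit 78) (PT.lf (nat_lit 37696) (nat_lit 6) (nat_lit 496) (nat_lit 4) (nat_lit 165) (nat_lit 176)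 (nat_lit 169)) (PT.nd (nat_lit 78) (PT.lf (nat_lit 37620) (nat_lit 6) (nat_lit 495) (nat_lit 4) (nat_lit 166) (nat_lit 176) (nat_lit 168)) (PT.lf (nat_lit 37544) (nat_lit 3) (nat_lit 494) (nat_lit 2) (nat_lit 167) (nat_lit 176) (nat_lit 167))))))))
noncomputable def pc30 : PT := (PT.nd (nat_lit 51246) (PT.nd (nat_lit 858) (PT.nd (nat_lit 390) (PT.nd (nat_lit 156) (PT.nd (nat_lit 78) (PT.lf (nat_lit 37620) (nat_lit 6) (nat_lit 495) (nat_lit 2) (nat_lit 168) (nat_lit 176) (nat_lit 166)) (PT.lf (nat_lit 37696) (nat_lit 6) (nat_lit 496) (nat_lit 2) (nat_lit 169) (nat_lit 176) (nat_lit 165))) (PT.nd (nat_lit 78) (PT.lf (nat_lit 37772) (nat_lit 6) (nat_lit 497) (nat_lit 2) (nat_lit 170) (nat_lit 176) (nat_lit 164)) (PT.nd (nat_lit 78) (PT.lf (nat_lit 37316) (nat_lit 6) (nat_lit 491) (nat_lit 2) (nat_lit 171) (nat_lit 176) (nat_lit 163)) (PT.lf (nat_lit 36784) (nat_lit 6) (nat_lit 484) (nat_lit 2) (nat_lit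 172) (nat_lit 176) (nat_lit 162))))) (PT.nd (nat_lit 234) (PT.nd (nat_lit 78) (PT.lf (nat_lit 36176) (nat_lit 6) (nat_lit 476) (nat_lit 2) (nat_lit 173) (nat_lit 176) (nat_lit 161)) (PT.nd (nat_lit 78) (PT.lf (nat_lit 35492) (nat_lit 6) (nat_lit 467) (nat_lit 2) (nat_lit 174) (nat_lit 176) (nat_lit 160)) (PT.lf (nat_lit 34732) (nat_lit 6) (nat_lit 457) (nat_lit 2) (nat_lit 175) (nat_lit 176) (nat_lit 159)))) (PT.nd (nat_lit 78) (PT.lf (nat_lit 33896) (nat_lit 3) (nat_lit 446) (nat_lit 0) (nat_lit 176) (nat_lit 176) (nat_lit 158)) (PT.nd (nat_lit 78) (PT.lf (nat_lit 32908) (nat_lit 6) (nat_lit 433) (nat_lit 0) (nat_lit 177) (nat_lit 176) (nat_lit 157)) (PT.lf (nat_lit 31844) (nat_lit 6) (nat_lit 419) (nat_lit 0) (nat_lit 178) (nat_lit 176) (nat_lit 156)))))) (PT.nd (nat_lit 390) (PT.nd (nat_lit 156) (PT.nd (nat_lit 78) (PT.lf (nat_lit 30704) (nat_lit 6) (nat_lit 404) (nat_lit 0) (nat_lit 179) (nat_lit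 176) (nat_lit 155)) (PT.lf (nat_lit 29488) (nat_lit 6) (nat_lit 388) (nat_lit 0) (nat_lit 180) (nat_lit 176) (nat_lit 154))) (PT.nd (nat_lit 78) (PT.lf (nat_lit 28196) (nat_lit 6) (nat_lit 371) (nat_lit 0) (nat_lit 181) (nat_lit 176) (nat_lit 153)) (PT.nd (nat_lit 78) (PT.lf (nat_lit 27284) (nat_lit 6) (nat_lit 359) (nat_lit 0) (nat_lit 182) (nat_lit 176) (nat_lit 152)) (PT.lf (nat_lit 26600) (nat_lit 6) (nat_lit 350) (nat_lit 0) (nat_lit 183) (nat_lit 176) (nat_lit 151))))) (PT.nd (nat_lit 234) (PT.nd (nat_lit 78) (PT.lf (nat_lit 25916) (nat_lit 6) (nat_lit 341) (nat_lit 0) (nat_lit 184) (nat_lit 176) (nat_lit 150)) (PT.nd (nat_lit 78) (PT.lf (nat_lit 25308) (nat_lit 6) (nat_lit 333) (nat_lit 0) (nat_lit 185) (nat_lit 176) (nat_lit 149)) (PT.lf (nat_lit 24624) (nat_lit 6) (nat_lit 324) (nat_lit 0) (nat_lit 186) (nat_lit 176) (nat_lit 148)))) (PT.nd (nat_lit 78) (PT.lf (nat_lit 24016) (nat_lit 6) (nat_lit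 316) (nat_lit 0) (nat_lit 187) (nat_lit 176) (nat_lit 147)) (PT.nd (nat_lit 78) (PT.lf (nat_lit 23408) (nat_lit 6) (nat_lit 308) (nat_lit 0) (nat_lit 188) (nat_lit 176) (nat_lit 146)) (PT.lf (nat_lit 22876) (nat_lit 6) (nat_lit 301) (nat_lit 0) (nat_lit 189) (nat_lit 176) (nat_lit 145))))))) (PT.nd (nat_lit 858) (PT.nd (nat_lit 390) (PT.nd (nat_lit 156) (PT.nd (nat_lit 78) (PT.lf (nat_lit 22344) (nat_lit 6) (nat_lit 294) (nat_lit 5) (nat_lit 144) (nat_lit 177) (nat_lit 189)) (PT.lf (nat_lit 22952) (nat_lit 6) (nat_lit 302) (nat_lit 5) (nat_lit 145) (nat_lit 177) (nat_lit 188))) (PT.nd (nat_lit 78) (PT.lf (nat_lit 23484) (nat_lit 6) (nat_lit 309) (nat_lit 5) (nat_lit 146) (nat_lit 177) (nat_lit 187)) (PT.nd (nat_lit 78) (PT.lf (nat_lit 24092) (nat_lit 6) (nat_lit 317) (nat_lit 5) (nat_lit 147) (nat_lit 177) (nat_lit 186)) (PT.lf (nat_lit 24700) (nat_lit 6) (nat_lit 325) (nat_lit 5) (nat_lit 148) (nat_lit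 177) (nat_lit 185))))) (PT.nd (nat_lit 234) (PT.nd (nat_lit 78) (PT.lf (nat_lit 25384) (nat_lit 6) (nat_lit 334) (nat_lit 5) (nat_lit 149) (nat_lit 177) (nat_lit 184)) (PT.nd (nat_lit 78) (PT.lf (nat_lit 25992) (nat_lit 6) (nat_lit 342) (nat_lit 5) (nat_lit 150) (nat_lit 177) (nat_lit 183)) (PT.lf (nat_lit 26676) (nat_lit 6) (nat_lit 351) (nat_lit 5) (nat_lit 151) (nat_lit 177) (nat_lit 182)))) (PT.nd (nat_lit 78) (PT.lf (nat_lit 27360) (nat_lit 6) (nat_lit 360) (nat_lit 5) (nat_lit 152) (nat_lit 177) (nat_lit 181)) (PT.nd (nat_lit 78) (PT.lf (nat_lit 28272) (nat_lit 6) (nat_lit 372) (nat_lit 5) (nat_lit 153) (nat_lit 177) (nat_lit 180)) (PT.lf (nat_lit 29564) (nat_lit 6) (nat_lit 389) (nat_lit 5) (nat_lit 154) (nat_lit 177) (nat_lit 179)))))) (PT.nd (nat_lit 390) (PT.nd (nat_lit 156) (PT.nd (nat_lit 78) (PT.lf (nat_lit 30780) (nat_lit 6) (nat_lit 405) (nat_lit 5) (nat_lit 155) (nat_lit 177) (nat_lit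 178)) (PT.lf (nat_lit 31920) (nat_lit 3) (nat_lit 420) (nat_lit 4) (nat_lit 156) (nat_lit 177) (nat_lit 177))) (PT.nd (nat_lit 78) (PT.lf (nat_lit 32908) (nat_lit 6) (nat_lit 433) (nat_lit 4) (nat_lit 157) (nat_lit 177) (nat_lit 176)) (PT.nd (nat_lit 78) (PT.lf (nat_lit 33820) (nat_lit 6) (nat_lit 445) (nat_lit 4) (nat_lit 158) (nat_lit 177) (nat_lit 175)) (PT.lf (nat_lit 34656) (nat_lit 6) (nat_lit 456) (nat_lit 4) (nat_lit 159) (nat_lit 177) (nat_lit 174))))) (PT.nd (nat_lit 234) (PT.nd (nat_lit 78) (PT.lf (nat_lit 35416) (nat_lit 6) (nat_lit 466) (nat_lit 4) (nat_lit 160) (nat_lit 177) (nat_lit 173)) (PT.nd (nat_lit 78) (PT.lf (nat_lit 36100) (nat_lit 6) (nat_lit 475) (nat_lit 4) (nat_lit 161) (nat_lit 177) (nat_lit 172)) (PT.lf (nat_lit 36708) (nat_lit 6) (nat_lit 483) (nat_lit 4) (nat_lit 162) (nat_lit 177) (nat_lit 171)))) (PT.nd (nat_lit 78) (PT.lf (nat_lit 37240) (nat_lit 6) (nat_lit 490) (nat_lit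 4) (nat_lit 163) (nat_lit 177) (nat_lit 170)) (PT.nd (nat_lit 78) (PT.lf (nat_lit 37164) (nat_lit 6) (nat_lit 489) (nat_lit 4) (nat_lit 164) (nat_lit 177) (nat_lit 169)) (PT.lf (nat_lit 37088) (nat_lit 6) (nat_lit 488) (nat_lit 4) (nat_lit 165) (nat_lit 177) (nat_lit 168))))))))
noncomputable def pc31 : PT := (PT.nd (nat_lit 1716) (PT.nd (nat_lit 858) (PT.nd (nat_lit 390) (PT.nd (nat_lit 156) (PT.nd (nat_lit 78) (PT.lf (nat_lit 37012) (nat_lit 6) (nat_lit 487) (nat_lit 4) (nat_lit 166) (nat_lit 177) (nat_lit 167)) (PT.lf (nat_lit 37012) (nat_lit 6) (nat_lit 487) (nat_lit 2) (nat_lit 167) (nat_lit 177) (nat_lit 166))) (PT.nd (nat_lit 78) (PT.lf (nat_lit 37088) (nat_lit 6) (nat_lit 488) (nat_lit 2) (nat_lit 168) (nat_lit 177) (nat_lit 165)) (PT.nd (nat_lit 78) (PT.lf (nat_lit 37164) (nat_lit 6) (nat_lit 489) (nat_lit 2) (nat_lit 169) (nat_lit 177) (nat_lit 164)) (PT.lf (nat_lit 37240) (nat_lit 6) (nat_lit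 490) (nat_lit 2) (nat_lit 170) (nat_lit 177) (nat_lit 163))))) (PT.nd (nat_lit 234) (PT.nd (nat_lit 78) (PT.lf (nat_lit 36708) (nat_lit 6) (nat_lit 483) (nat_lit 2) (nat_lit 171) (nat_lit 177) (nat_lit 162)) (PT.nd (nat_lit 78) (PT.lf (nat_lit 36100) (nat_lit 6) (nat_lit 475) (nat_lit 2) (nat_lit 172) (nat_lit 177) (nat_lit 161)) (PT.lf (nat_lit 35416) (nat_lit 6) (nat_lit 466) (nat_lit 2) (nat_lit 173) (nat_lit 177) (nat_lit 160)))) (PT.nd (nat_lit 78) (PT.lf (nat_lit 34656) (nat_lit 6) (nat_lit 456) (nat_lit 2) (nat_lit 174) (nat_lit 177) (nat_lit 159)) (PT.nd (nat_lit 78) (PT.lf (nat_lit 33820) (nat_lit 6) (nat_lit 445) (nat_lit 2) (nat_lit 175) (nat_lit 177) (nat_lit 158)) (PT.lf (nat_lit 32908) (nat_lit 6) (nat_lit 433) (nat_lit 2) (nat_lit 176) (nat_lit 177) (nat_lit 157)))))) (PT.nd (nat_lit 390) (PT.nd (nat_lit 156) (PT.nd (nat_lit 78) (PT.lf (nat_lit 31920) (nat_lit 3) (nat_lit 420) (nat_lit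 0) (nat_lit 177) (nat_lit 177) (nat_lit 156)) (PT.lf (nat_lit 30780) (nat_lit 6) (nat_lit 405) (nat_lit 0) (nat_lit 178) (nat_lit 177) (nat_lit 155))) (PT.nd (nat_lit 78) (PT.lf (nat_lit 29564) (nat_lit 6) (nat_lit 389) (nat_lit 0) (nat_lit 179) (nat_lit 177) (nat_lit 154)) (PT.nd (nat_lit 78) (PT.lf (nat_lit 28272) (nat_lit 6) (nat_lit 372) (nat_lit 0) (nat_lit 180) (nat_lit 177) (nat_lit 153)) (PT.lf (nat_lit 27360) (nat_lit 6) (nat_lit 360) (nat_lit 0) (nat_lit 181) (nat_lit 177) (nat_lit 152))))) (PT.nd (nat_lit 234) (PT.nd (nat_lit 78) (PT.lf (nat_lit 26676) (nat_lit 6) (nat_lit 351) (nat_lit 0) (nat_lit 182) (nat_lit 177) (nat_lit 151)) (PT.nd (nat_lit 78) (PT.lf (nat_lit 25992) (nat_lit 6) (nat_lit 342) (nat_lit 0) (nat_lit 183) (nat_lit 177) (nat_lit 150)) (PT.lf (nat_lit 25384) (nat_lit 6) (nat_lit 334) (nat_lit 0) (nat_lit 184) (nat_lit 177) (nat_lit 149)))) (PT.nd (nat_lit 78) (PT.lf (nat_lit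 24700) (nat_lit 6) (nat_lit 325) (nat_lit 0) (nat_lit 185) (nat_lit 177) (nat_lit 148)) (PT.nd (nat_lit 78) (PT.lf (nat_lit 24092) (nat_lit 6) (nat_lit 317) (nat_lit 0) (nat_lit 186) (nat_lit 177) (nat_lit 147)) (PT.lf (nat_lit 23484) (nat_lit 6) (nat_lit 309) (nat_lit 0) (nat_lit 187) (nat_lit 177) (nat_lit 146))))))) (PT.nd (nat_lit 50310) (PT.nd (nat_lit 49842) (PT.nd (nat_lit 49608) (PT.nd (nat_lit 78) (PT.lf (nat_lit 22952) (nat_lit 6) (nat_lit 302) (nat_lit 0) (nat_lit 188) (nat_lit 177) (nat_lit 145)) (PT.lf (nat_lit 22344) (nat_lit 6) (nat_lit 294) (nat_lit 0) (nat_lit 189) (nat_lit 177) (nat_lit 144))) (PT.nd (nat_lit 78) (PT.lf (nat_lit 21888) (nat_lit 6) (nat_lit 288) (nat_lit 5) (nat_lit 143) (nat_lit 178) (nat_lit 189)) (PT.nd (nat_lit 78) (PT.lf (nat_lit 22420) (nat_lit 6) (nat_lit 295) (nat_lit 5) (nat_lit 144) (nat_lit 178) (nat_lit 188)) (PT.lf (nat_lit 23028) (nat_lit 6) (nat_lit 303)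 (nat_lit 5) (nat_lit 145) (nat_lit 178) (nat_lit 187))))) (PT.nd (nat_lit 234) (PT.nd (nat_lit 78) (PT.lf (nat_lit 23560) (nat_lit 6) (nat_lit 310) (nat_lit 5) (nat_lit 146) (nat_lit 178) (nat_lit 186)) (PT.nd (nat_lit 78) (PT.lf (nat_lit 24168) (nat_lit 6) (nat_lit 318) (nat_lit 5) (nat_lit 147) (nat_lit 178) (nat_lit 185)) (PT.lf (nat_lit 24776) (nat_lit 6) (nat_lit 326) (nat_lit 5) (nat_lit 148) (nat_lit 178) (nat_lit 184)))) (PT.nd (nat_lit 78) (PT.lf (nat_lit 25460) (nat_lit 6) (nat_lit 335) (nat_lit 5) (nat_lit 149) (nat_lit 178) (nat_lit 183)) (PT.nd (nat_lit 78) (PT.lf (nat_lit 26068) (nat_lit 6) (nat_lit 343) (nat_lit 5) (nat_lit 150) (nat_lit 178) (nat_lit 182)) (PT.lf (nat_lit 26752) (nat_lit 6) (nat_lit 352) (nat_lit 5) (nat_lit 151) (nat_lit 178) (nat_lit 181)))))) (PT.nd (nat_lit 390) (PT.nd (nat_lit 156) (PT.nd (nat_lit 78) (PT.lf (nat_lit 27436) (nat_lit 6) (nat_lit 361) (nat_lit 5)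 (nat_lit 152) (nat_lit 178) (nat_lit 180)) (PT.lf (nat_lit 28348) (nat_lit 6) (nat_lit 373) (nat_lit 5) (nat_lit 153) (nat_lit 178) (nat_lit 179))) (PT.nd (nat_lit 78) (PT.lf (nat_lit 29640) (nat_lit 3) (nat_lit 390) (nat_lit 4) (nat_lit 154) (nat_lit 178) (nat_lit 178)) (PT.nd (nat_lit 78) (PT.lf (nat_lit 30780) (nat_lit 6) (nat_lit 405) (nat_lit 4) (nat_lit 155) (nat_lit 178) (nat_lit 177)) (PT.lf (nat_lit 31844) (nat_lit 6) (nat_lit 419) (nat_lit 4) (nat_lit 156) (nat_lit 178) (nat_lit 176))))) (PT.nd (nat_lit 234) (PT.nd (nat_lit 78) (PT.lf (nat_lit 32832) (nat_lit 6) (nat_lit 432) (nat_lit 4) (nat_lit 157) (nat_lit 178) (nat_lit 175)) (PT.nd (nat_lit 78) (PT.lf (nat_lit 33744) (nat_lit 6) (nat_lit 444) (nat_lit 4) (nat_lit 158) (nat_lit 178) (nat_lit 174)) (PT.lf (nat_lit 34580) (nat_lit 6) (nat_lit 455) (nat_lit 4) (nat_lit 159) (nat_lit 178) (nat_lit 173)))) (PT.nd (nat_lit 78) (PT.lf (nat_lit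 35340) (nat_lit 6) (nat_lit 465) (nat_lit 4) (nat_lit 160) (nat_lit 178) (nat_lit 172)) (PT.nd (nat_lit 78) (PT.lf (nat_lit 36024) (nat_lit 6) (nat_lit 474) (nat_lit 4) (nat_lit 161) (nat_lit 178) (nat_lit 171)) (PT.lf (nat_lit 36632) (nat_lit 6) (nat_lit 482) (nat_lit 4) (nat_lit 162) (nat_lit 178) (nat_lit 170))))))))
noncomputable def pc32 : PT := (PT.nd (nat_lit 1638) (PT.nd (nat_lit 780) (PT.nd (nat_lit 390) (PT.nd (nat_lit 156) (PT.nd (nat_lit 78) (PT.lf (nat_lit 36556) (nat_lit 6) (nat_lit 481) (nat_lit 4) (nat_lit 163) (nat_lit 178) (nat_lit 169)) (PT.lf (nat_lit 36480) (nat_lit 6) (nat_lit 480) (nat_lit 4) (nat_lit 164) (nat_lit 178) (nat_lit 168))) (PT.nd (nat_lit 78) (PT.lf (nat_lit 36404) (nat_lit 6) (nat_lit 479) (nat_lit 4) (nat_lit 165) (nat_lit 178) (nat_lit 167)) (PT.nd (nat_lit 78) (PT.lf (nat_lit 36328) (nat_lit 3) (nat_lit 478) (nat_lit 2) (nat_lit 166) (nat_lit 178) (nat_lit 166))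 (PT.lf (nat_lit 36404) (nat_lit 6) (nat_lit 479) (nat_lit 2) (nat_lit 167) (nat_lit 178) (nat_lit 165))))) (PT.nd (nat_lit 156) (PT.nd (nat_lit 78) (PT.lf (nat_lit 36480) (nat_lit 6) (nat_lit 480) (nat_lit 2) (nat_lit 168) (nat_lit 178) (nat_lit 164)) (PT.lf (nat_lit 36556) (nat_lit 6) (nat_lit 481) (nat_lit 2) (nat_lit 169) (nat_lit 178) (nat_lit 163))) (PT.nd (nat_lit 78) (PT.lf (nat_lit 36632) (nat_lit 6) (nat_lit 482) (nat_lit 2) (nat_lit 170) (nat_lit 178) (nat_lit 162)) (PT.nd (nat_lit 78) (PT.lf (nat_lit 36024) (nat_lit 6) (nat_lit 474) (nat_lit 2) (nat_lit 171) (nat_lit 178) (nat_lit 161)) (PT.lf (nat_lit 35340) (nat_lit 6) (nat_lit 465) (nat_lit 2) (nat_lit 172) (nat_lit 178) (nat_lit 160)))))) (PT.nd (nat_lit 390) (PT.nd (nat_lit 156) (PT.nd (nat_lit 78) (PT.lf (nat_lit 34580) (nat_lit 6) (nat_lit 455) (nat_lit 2) (nat_lit 173) (nat_lit 178) (nat_lit 159)) (PT.lf (nat_lit 33744) (nat_lit 6)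 (nat_lit 444) (nat_lit 2) (nat_lit 174) (nat_lit 178) (nat_lit 158))) (PT.nd (nat_lit 78) (PT.lf (nat_lit 32832) (nat_lit 6) (nat_lit 432) (nat_lit 2) (nat_lit 175) (nat_lit 178) (nat_lit 157)) (PT.nd (nat_lit 78) (PT.lf (nat_lit 31844) (nat_lit 6) (nat_lit 419) (nat_lit 2) (nat_lit 176) (nat_lit 178) (nat_lit 156)) (PT.lf (nat_lit 30780) (nat_lit 6) (nat_lit 405) (nat_lit 2) (nat_lit 177) (nat_lit 178) (nat_lit 155))))) (PT.nd (nat_lit 234) (PT.nd (nat_lit 78) (PT.lf (nat_lit 29640) (nat_lit 3) (nat_lit 390) (nat_lit 0) (nat_lit 178) (nat_lit 178) (nat_lit 154)) (PT.nd (nat_lit 78) (PT.lf (nat_lit 28348) (nat_lit 6) (nat_lit 373) (nat_lit 0) (nat_lit 179) (nat_lit 178) (nat_lit 153)) (PT.lf (nat_lit 27436) (nat_lit 6) (nat_lit 361) (nat_lit 0) (nat_lit 180) (nat_lit 178) (nat_lit 152)))) (PT.nd (nat_lit 78) (PT.lf (nat_lit 26752) (nat_lit 6) (nat_lit 352) (nat_lit 0) (nat_lit 181) (nat_lit 178) (nat_lit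 151)) (PT.nd (nat_lit 78) (PT.lf (nat_lit 26068) (nat_lit 6) (nat_lit 343) (nat_lit 0) (nat_lit 182) (nat_lit 178) (nat_lit 150)) (PT.lf (nat_lit 25460) (nat_lit 6) (nat_lit 335) (nat_lit 0) (nat_lit 183) (nat_lit 178) (nat_lit 149))))))) (PT.nd (nat_lit 50154) (PT.nd (nat_lit 390) (PT.nd (nat_lit 156) (PT.nd (nat_lit 78) (PT.lf (nat_lit 24776) (nat_lit 6) (nat_lit 326) (nat_lit 0) (nat_lit 184) (nat_lit 178) (nat_lit 148)) (PT.lf (nat_lit 24168) (nat_lit 6) (nat_lit 318) (nat_lit 0) (nat_lit 185) (nat_lit 178) (nat_lit 147))) (PT.nd (nat_lit 78) (PT.lf (nat_lit 23560) (nat_lit 6) (nat_lit 310) (nat_lit 0) (nat_lit 186) (nat_lit 178) (nat_lit 146)) (PT.nd (nat_lit 78) (PT.lf (nat_lit 23028) (nat_lit 6) (nat_lit 303) (nat_lit 0) (nat_lit 187) (nat_lit 178) (nat_lit 145)) (PT.lf (nat_lit 22420) (nat_lit 6) (nat_lit 295) (nat_lit 0) (nat_lit 188) (nat_lit 178) (nat_lit 144))))) (PT.nd (nat_lit 49530) (PT.nd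 (nat_lit 49374) (PT.lf (nat_lit 21888) (nat_lit 6) (nat_lit 288) (nat_lit 0) (nat_lit 189) (nat_lit 178) (nat_lit 143)) (PT.nd (nat_lit 78) (PT.lf (nat_lit 20976) (nat_lit 6) (nat_lit 276) (nat_lit 5) (nat_lit 141) (nat_lit 179) (nat_lit 190)) (PT.lf (nat_lit 21432) (nat_lit 6) (nat_lit 282) (nat_lit 5) (nat_lit 142) (nat_lit 179) (nat_lit 189)))) (PT.nd (nat_lit 78) (PT.lf (nat_lit 21964) (nat_lit 6) (nat_lit 289) (nat_lit 5) (nat_lit 143) (nat_lit 179) (nat_lit 188)) (PT.nd (nat_lit 78) (PT.lf (nat_lit 22496) (nat_lit 6) (nat_lit 296) (nat_lit 5) (nat_lit 144) (nat_lit 179) (nat_lit 187)) (PT.lf (nat_lit 23104) (nat_lit 6) (nat_lit 304) (nat_lit 5) (nat_lit 145) (nat_lit 179) (nat_lit 186)))))) (PT.nd (nat_lit 390) (PT.nd (nat_lit 156) (PT.nd (nat_lit 78) (PT.lf (nat_lit 23636) (nat_lit 6) (nat_lit 311) (nat_lit 5) (nat_lit 146) (nat_lit 179) (nat_lit 185)) (PT.lf (nat_lit 24244) (nat_lit 6) (nat_lit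 319) (nat_lit 5) (nat_lit 147) (nat_lit 179) (nat_lit 184))) (PT.nd (nat_lit 78) (PT.lf (nat_lit 24852) (nat_lit 6) (nat_lit 327) (nat_lit 5) (nat_lit 148) (nat_lit 179) (nat_lit 183)) (PT.nd (nat_lit 78) (PT.lf (nat_lit 25536) (nat_lit 6) (nat_lit 336) (nat_lit 5) (nat_lit 149) (nat_lit 179) (nat_lit 182)) (PT.lf (nat_lit 26144) (nat_lit 6) (nat_lit 344) (nat_lit 5) (nat_lit 150) (nat_lit 179) (nat_lit 181))))) (PT.nd (nat_lit 234) (PT.nd (nat_lit 78) (PT.lf (nat_lit 26828) (nat_lit 6) (nat_lit 353) (nat_lit 5) (nat_lit 151) (nat_lit 179) (nat_lit 180)) (PT.nd (nat_lit 78) (PT.lf (nat_lit 27512) (nat_lit 3) (nat_lit 362) (nat_lit 4) (nat_lit 152) (nat_lit 179) (nat_lit 179)) (PT.lf (nat_lit 28348) (nat_lit 6) (nat_lit 373) (nat_lit 4) (nat_lit 153) (nat_lit 179) (nat_lit 178)))) (PT.nd (nat_lit 78) (PT.lf (nat_lit 29564) (nat_lit 6) (nat_lit 389) (nat_lit 4) (nat_lit 154) (nat_lit 179) (nat_lit 177))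 (PT.nd (nat_lit 78) (PT.lf (nat_lit 30704) (nat_lit 6) (nat_lit 404) (nat_lit 4) (nat_lit 155) (nat_lit 179) (nat_lit 176)) (PT.lf (nat_lit 31768) (nat_lit 6) (nat_lit 418) (nat_lit 4) (nat_lit 156) (nat_lit 179) (nat_lit 175))))))))
noncomputable def pc33 : PT := (PT.nd (nat_lit 1716) (PT.nd (nat_lit 858) (PT.nd (nat_lit 390) (PT.nd (nat_lit 156) (PT.nd (nat_lit 78) (PT.lf (nat_lit 32756) (nat_lit 6) (nat_lit 431) (nat_lit 4) (nat_lit 157) (nat_lit 179) (nat_lit 174)) (PT.lf (nat_lit 33668) (nat_lit 6) (nat_lit 443) (nat_lit 4) (nat_lit 158) (nat_lit 179) (nat_lit 173))) (PT.nd (nat_lit 78) (PT.lf (nat_lit 34504) (nat_lit 6) (nat_lit 454) (nat_lit 4) (nat_lit 159) (nat_lit 179) (nat_lit 172)) (PT.nd (nat_lit 78) (PT.lf (nat_lit 35264) (nat_lit 6) (nat_lit 464) (nat_lit 4) (nat_lit 160) (nat_lit 179) (nat_lit 171)) (PT.lf (nat_lit 35948) (nat_lit 6) (nat_lit 473) (nat_lit 4) (nat_lit 161) (nat_lit 179)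 (nat_lit 170))))) (PT.nd (nat_lit 234) (PT.nd (nat_lit 78) (PT.lf (nat_lit 35872) (nat_lit 6) (nat_lit 472) (nat_lit 4) (nat_lit 162) (nat_lit 179) (nat_lit 169)) (PT.nd (nat_lit 78) (PT.lf (nat_lit 35796) (nat_lit 6) (nat_lit 471) (nat_lit 4) (nat_lit 163) (nat_lit 179) (nat_lit 168)) (PT.lf (nat_lit 35720) (nat_lit 6) (nat_lit 470) (nat_lit 4) (nat_lit 164) (nat_lit 179) (nat_lit 167)))) (PT.nd (nat_lit 78) (PT.lf (nat_lit 35644) (nat_lit 6) (nat_lit 469) (nat_lit 4) (nat_lit 165) (nat_lit 179) (nat_lit 166)) (PT.nd (nat_lit 78) (PT.lf (nat_lit 35644) (nat_lit 6) (nat_lit 469) (nat_lit 2) (nat_lit 166) (nat_lit 179) (nat_lit 165)) (PT.lf (nat_lit 35720) (nat_lit 6) (nat_lit 470) (nat_lit 2) (nat_lit 167) (nat_lit 179) (nat_lit 164)))))) (PT.nd (nat_lit 390) (PT.nd (nat_lit 156) (PT.nd (nat_lit 78) (PT.lf (nat_lit 35796) (nat_lit 6) (nat_lit 471) (nat_lit 2) (nat_lit 168) (nat_lit 179) (nat_lit 163))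 (PT.lf (nat_lit 35872) (nat_lit 6) (nat_lit 472) (nat_lit 2) (nat_lit 169) (nat_lit 179) (nat_lit 162))) (PT.nd (nat_lit 78) (PT.lf (nat_lit 35948) (nat_lit 6) (nat_lit 473) (nat_lit 2) (nat_lit 170) (nat_lit 179) (nat_lit 161)) (PT.nd (nat_lit 78) (PT.lf (nat_lit 35264) (nat_lit 6) (nat_lit 464) (nat_lit 2) (nat_lit 171) (nat_lit 179) (nat_lit 160)) (PT.lf (nat_lit 34504) (nat_lit 6) (nat_lit 454) (nat_lit 2) (nat_lit 172) (nat_lit 179) (nat_lit 159))))) (PT.nd (nat_lit 234) (PT.nd (nat_lit 78) (PT.lf (nat_lit 33668) (nat_lit 6) (nat_lit 443) (nat_lit 2) (nat_lit 173) (nat_lit 179) (nat_lit 158)) (PT.nd (nat_lit 78) (PT.lf (nat_lit 32756) (nat_lit 6) (nat_lit 431) (nat_lit 2) (nat_lit 174) (nat_lit 179) (nat_lit 157)) (PT.lf (nat_lit 31768) (nat_lit 6) (nat_lit 418) (nat_lit 2) (nat_lit 175) (nat_lit 179) (nat_lit 156)))) (PT.nd (nat_lit 78) (PT.lf (nat_lit 30704) (nat_lit 6) (nat_lit 404) (nat_lit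 2) (nat_lit 176) (nat_lit 179) (nat_lit 155)) (PT.nd (nat_lit 78) (PT.lf (nat_lit 29564) (nat_lit 6) (nat_lit 389) (nat_lit 2) (nat_lit 177) (nat_lit 179) (nat_lit 154)) (PT.lf (nat_lit 28348) (nat_lit 6) (nat_lit 373) (nat_lit 2) (nat_lit 178) (nat_lit 179) (nat_lit 153))))))) (PT.nd (nat_lit 858) (PT.nd (nat_lit 390) (PT.nd (nat_lit 156) (PT.nd (nat_lit 78) (PT.lf (nat_lit 27512) (nat_lit 3) (nat_lit 362) (nat_lit 0) (nat_lit 179) (nat_lit 179) (nat_lit 152)) (PT.lf (nat_lit 26828) (nat_lit 6) (nat_lit 353) (nat_lit 0) (nat_lit 180) (nat_lit 179) (nat_lit 151))) (PT.nd (nat_lit 78) (PT.lf (nat_lit 26144) (nat_lit 6) (nat_lit 344) (nat_lit 0) (nat_lit 181) (nat_lit 179) (nat_lit 150)) (PT.nd (nat_lit 78) (PT.lf (nat_lit 25536) (nat_lit 6) (nat_lit 336) (nat_lit 0) (nat_lit 182) (nat_lit 179) (nat_lit 149)) (PT.lf (nat_lit 24852) (nat_lit 6) (nat_lit 327) (nat_lit 0) (nat_lit 183) (nat_lit 179) (nat_lit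 148))))) (PT.nd (nat_lit 234) (PT.nd (nat_lit 78) (PT.lf (nat_lit 24244) (nat_lit 6) (nat_lit 319) (nat_lit 0) (nat_lit 184) (nat_lit 179) (nat_lit 147)) (PT.nd (nat_lit 78) (PT.lf (nat_lit 23636) (nat_lit 6) (nat_lit 311) (nat_lit 0) (nat_lit 185) (nat_lit 179) (nat_lit 146)) (PT.lf (nat_lit 23104) (nat_lit 6) (nat_lit 304) (nat_lit 0) (nat_lit 186) (nat_lit 179) (nat_lit 145)))) (PT.nd (nat_lit 78) (PT.lf (nat_lit 22496) (nat_lit 6) (nat_lit 296) (nat_lit 0) (nat_lit 187) (nat_lit 179) (nat_lit 144)) (PT.nd (nat_lit 78) (PT.lf (nat_lit 21964) (nat_lit 6) (nat_lit 289) (nat_lit 0) (nat_lit 188) (nat_lit 179) (nat_lit 143)) (PT.lf (nat_lit 21432) (nat_lit 6) (nat_lit 282) (nat_lit 0) (nat_lit 189) (nat_lit 179) (nat_lit 142)))))) (PT.nd (nat_lit 49530) (PT.nd (nat_lit 49296) (PT.nd (nat_lit 49218) (PT.lf (nat_lit 20976) (nat_lit 6) (nat_lit 276) (nat_lit 0) (nat_lit 190) (nat_lit 179) (nat_lit 141))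 (PT.lf (nat_lit 20520) (nat_lit 6) (nat_lit 270) (nat_lit 5) (nat_lit 140) (nat_lit 180) (nat_lit 190))) (PT.nd (nat_lit 78) (PT.lf (nat_lit 21052) (nat_lit 6) (nat_lit 277) (nat_lit 5) (nat_lit 141) (nat_lit 180) (nat_lit 189)) (PT.nd (nat_lit 78) (PT.lf (nat_lit 21508) (nat_lit 6) (nat_lit 283) (nat_lit 5) (nat_lit 142) (nat_lit 180) (nat_lit 188)) (PT.lf (nat_lit 22040) (nat_lit 6) (nat_lit 290) (nat_lit 5) (nat_lit 143) (nat_lit 180) (nat_lit 187))))) (PT.nd (nat_lit 234) (PT.nd (nat_lit 78) (PT.lf (nat_lit 22572) (nat_lit 6) (nat_lit 297) (nat_lit 5) (nat_lit 144) (nat_lit 180) (nat_lit 186)) (PT.nd (nat_lit 78) (PT.lf (nat_lit 23180) (nat_lit 6) (nat_lit 305) (nat_lit 5) (nat_lit 145) (nat_lit 180) (nat_lit 185)) (PT.lf (nat_lit 23712) (nat_lit 6) (nat_lit 312) (nat_lit 5) (nat_lit 146) (nat_lit 180) (nat_lit 184)))) (PT.nd (nat_lit 78) (PT.lf (nat_lit 24320) (nat_lit 6) (nat_lit 320) (nat_lit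 5) (nat_lit 147) (nat_lit 180) (nat_lit 183)) (PT.nd (nat_lit 78) (PT.lf (nat_lit 24928) (nat_lit 6) (nat_lit 328) (nat_lit 5) (nat_lit 148) (nat_lit 180) (nat_lit 182)) (PT.lf (nat_lit 25612) (nat_lit 6) (nat_lit 337) (nat_lit 5) (nat_lit 149) (nat_lit 180) (nat_lit 181))))))))
noncomputable def pc34 : PT := (PT.nd (nat_lit 1638) (PT.nd (nat_lit 780) (PT.nd (nat_lit 390) (PT.nd (nat_lit 156) (PT.nd (nat_lit 78) (PT.lf (nat_lit 26220) (nat_lit 3) (nat_lit 345) (nat_lit 4) (nat_lit 150) (nat_lit 180) (nat_lit 180)) (PT.lf (nat_lit 26828) (nat_lit 6) (nat_lit 353) (nat_lit 4) (nat_lit 151) (nat_lit 180) (nat_lit 179))) (PT.nd (nat_lit 78) (PT.lf (nat_lit 27436) (nat_lit 6) (nat_lit 361) (nat_lit 4) (nat_lit 152) (nat_lit 180) (nat_lit 178)) (PT.nd (nat_lit 78) (PT.lf (nat_lit 28272) (nat_lit 6) (nat_lit 372) (nat_lit 4) (nat_lit 153) (nat_lit 180) (nat_lit 177)) (PT.lf (nat_lit 29488) (nat_lit 6) (nat_lit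 388) (nat_lit 4) (nat_lit 154) (nat_lit 180) (nat_lit 176))))) (PT.nd (nat_lit 156) (PT.nd (nat_lit 78) (PT.lf (nat_lit 30628) (nat_lit 6) (nat_lit 403) (nat_lit 4) (nat_lit 155) (nat_lit 180) (nat_lit 175)) (PT.lf (nat_lit 31692) (nat_lit 6) (nat_lit 417) (nat_lit 4) (nat_lit 156) (nat_lit 180) (nat_lit 174))) (PT.nd (nat_lit 78) (PT.lf (nat_lit 32680) (nat_lit 6) (nat_lit 430) (nat_lit 4) (nat_lit 157) (nat_lit 180) (nat_lit 173)) (PT.nd (nat_lit 78) (PT.lf (nat_lit 33592) (nat_lit 6) (nat_lit 442) (nat_lit 4) (nat_lit 158) (nat_lit 180) (nat_lit 172)) (PT.lf (nat_lit 34428) (nat_lit 6) (nat_lit 453) (nat_lit 4) (nat_lit 159) (nat_lit 180) (nat_lit 171)))))) (PT.nd (nat_lit 390) (PT.nd (nat_lit 156) (PT.nd (nat_lit 78) (PT.lf (nat_lit 35188) (nat_lit 6) (nat_lit 463) (nat_lit 4) (nat_lit 160) (nat_lit 180) (nat_lit 170)) (PT.lf (nat_lit 35112) (nat_lit 6) (nat_lit 462) (nat_lit 4) (nat_lit 161) (nat_lit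 180) (nat_lit 169))) (PT.nd (nat_lit 78) (PT.lf (nat_lit 35036) (nat_lit 6) (nat_lit 461) (nat_lit 4) (nat_lit 162) (nat_lit 180) (nat_lit 168)) (PT.nd (nat_lit 78) (PT.lf (nat_lit 34960) (nat_lit 6) (nat_lit 460) (nat_lit 4) (nat_lit 163) (nat_lit 180) (nat_lit 167)) (PT.lf (nat_lit 34884) (nat_lit 6) (nat_lit 459) (nat_lit 4) (nat_lit 164) (nat_lit 180) (nat_lit 166))))) (PT.nd (nat_lit 234) (PT.nd (nat_lit 78) (PT.lf (nat_lit 34808) (nat_lit 3) (nat_lit 458) (nat_lit 2) (nat_lit 165) (nat_lit 180) (nat_lit 165)) (PT.nd (nat_lit 78) (PT.lf (nat_lit 34884) (nat_lit 6) (nat_lit 459) (nat_lit 2) (nat_lit 166) (nat_lit 180) (nat_lit 164)) (PT.lf (nat_lit 34960) (nat_lit 6) (nat_lit 460) (nat_lit 2) (nat_lit 167) (nat_lit 180) (nat_lit 163)))) (PT.nd (nat_lit 78) (PT.lf (nat_lit 35036) (nat_lit 6) (nat_lit 461) (nat_lit 2) (nat_lit 168) (nat_lit 180) (nat_lit 162)) (PT.nd (nat_lit 78) (PT.lf (nat_lit 35112)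 (nat_lit 6) (nat_lit 462) (nat_lit 2) (nat_lit 169) (nat_lit 180) (nat_lit 161)) (PT.lf (nat_lit 35188) (nat_lit 6) (nat_lit 463) (nat_lit 2) (nat_lit 170) (nat_lit 180) (nat_lit 160))))))) (PT.nd (nat_lit 858) (PT.nd (nat_lit 390) (PT.nd (nat_lit 156) (PT.nd (nat_lit 78) (PT.lf (nat_lit 34428) (nat_lit 6) (nat_lit 453) (nat_lit 2) (nat_lit 171) (nat_lit 180) (nat_lit 159)) (PT.lf (nat_lit 33592) (nat_lit 6) (nat_lit 442) (nat_lit 2) (nat_lit 172) (nat_lit 180) (nat_lit 158))) (PT.nd (nat_lit 78) (PT.lf (nat_lit 32680) (nat_lit 6) (nat_lit 430) (nat_lit 2) (nat_lit 173) (nat_lit 180) (nat_lit 157)) (PT.nd (nat_lit 78) (PT.lf (nat_lit 31692) (nat_lit 6) (nat_lit 417) (nat_lit 2) (nat_lit 174) (nat_lit 180) (nat_lit 156)) (PT.lf (nat_lit 30628) (nat_lit 6) (nat_lit 403) (nat_lit 2) (nat_lit 175) (nat_lit 180) (nat_lit 155))))) (PT.nd (nat_lit 234) (PT.nd (nat_lit 78) (PT.lf (nat_lit 29488) (nat_lit 6)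 (nat_lit 388) (nat_lit 2) (nat_lit 176) (nat_lit 180) (nat_lit 154)) (PT.nd (nat_lit 78) (PT.lf (nat_lit 28272) (nat_lit 6) (nat_lit 372) (nat_lit 2) (nat_lit 177) (nat_lit 180) (nat_lit 153)) (PT.lf (nat_lit 27436) (nat_lit 6) (nat_lit 361) (nat_lit 2) (nat_lit 178) (nat_lit 180) (nat_lit 152)))) (PT.nd (nat_lit 78) (PT.lf (nat_lit 26828) (nat_lit 6) (nat_lit 353) (nat_lit 2) (nat_lit 179) (nat_lit 180) (nat_lit 151)) (PT.nd (nat_lit 78) (PT.lf (nat_lit 26220) (nat_lit 3) (nat_lit 345) (nat_lit 0) (nat_lit 180) (nat_lit 180) (nat_lit 150)) (PT.lf (nat_lit 25612) (nat_lit 6) (nat_lit 337) (nat_lit 0) (nat_lit 181) (nat_lit 180) (nat_lit 149)))))) (PT.nd (nat_lit 390) (PT.nd (nat_lit 156) (PT.nd (nat_lit 78) (PT.lf (nat_lit 24928) (nat_lit 6) (nat_lit 328) (nat_lit 0) (nat_lit 182) (nat_lit 180) (nat_lit 148)) (PT.lf (nat_lit 24320) (nat_lit 6) (nat_lit 320) (nat_lit 0) (nat_lit 183) (nat_lit 180) (nat_lit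 147))) (PT.nd (nat_lit 78) (PT.lf (nat_lit 23712) (nat_lit 6) (nat_lit 312) (nat_lit 0) (nat_lit 184) (nat_lit 180) (nat_lit 146)) (PT.nd (nat_lit 78) (PT.lf (nat_lit 23180) (nat_lit 6) (nat_lit 305) (nat_lit 0) (nat_lit 185) (nat_lit 180) (nat_lit 145)) (PT.lf (nat_lit 22572) (nat_lit 6) (nat_lit 297) (nat_lit 0) (nat_lit 186) (nat_lit 180) (nat_lit 144))))) (PT.nd (nat_lit 234) (PT.nd (nat_lit 78) (PT.lf (nat_lit 22040) (nat_lit 6) (nat_lit 290) (nat_lit 0) (nat_lit 187) (nat_lit 180) (nat_lit 143)) (PT.nd (nat_lit 78) (PT.lf (nat_lit 21508) (nat_lit 6) (nat_lit 283) (nat_lit 0) (nat_lit 188) (nat_lit 180) (nat_lit 142)) (PT.lf (nat_lit 21052) (nat_lit 6) (nat_lit 277) (nat_lit 0) (nat_lit 189) (nat_lit 180) (nat_lit 141)))) (PT.nd (nat_lit 49062) (PT.lf (nat_lit 20520) (nat_lit 6) (nat_lit 270) (nat_lit 0) (nat_lit 190) (nat_lit 180) (nat_lit 140)) (PT.nd (nat_lit 78) (PT.lf (nat_lit 19684) (nat_lit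 6) (nat_lit 259) (nat_lit 5) (nat_lit 138) (nat_lit 181) (nat_lit 191)) (PT.lf (nat_lit 20140) (nat_lit 6) (nat_lit 265) (nat_lit 5) (nat_lit 139) (nat_lit 181) (nat_lit 190))))))))
noncomputable def pc35 : PT := (PT.nd (nat_lit 1716) (PT.nd (nat_lit 858) (PT.nd (nat_lit 390) (PT.nd (nat_lit 156) (PT.nd (nat_lit 78) (PT.lf (nat_lit 20596) (nat_lit 6) (nat_lit 271) (nat_lit 5) (nat_lit 140) (nat_lit 181) (nat_lit 189)) (PT.lf (nat_lit 21128) (nat_lit 6) (nat_lit 278) (nat_lit 5) (nat_lit 141) (nat_lit 181) (nat_lit 188))) (PT.nd (nat_lit 78) (PT.lf (nat_lit 21584) (nat_lit 6) (nat_lit 284) (nat_lit 5) (nat_lit 142) (nat_lit 181) (nat_lit 187)) (PT.nd (nat_lit 78) (PT.lf (nat_lit 22116) (nat_lit 6) (nat_lit 291) (nat_lit 5) (nat_lit 143) (nat_lit 181) (nat_lit 186)) (PT.lf (nat_lit 22648) (nat_lit 6) (nat_lit 298) (nat_lit 5) (nat_lit 144) (nat_lit 181) (nat_lit 185))))) (PT.nd (nat_lit 234) (PT.nd (nat_lit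 78) (PT.lf (nat_lit 23256) (nat_lit 6) (nat_lit 306) (nat_lit 5) (nat_lit 145) (nat_lit 181) (nat_lit 184)) (PT.nd (nat_lit 78) (PT.lf (nat_lit 23788) (nat_lit 6) (nat_lit 313) (nat_lit 5) (nat_lit 146) (nat_lit 181) (nat_lit 183)) (PT.lf (nat_lit 24396) (nat_lit 6) (nat_lit 321) (nat_lit 5) (nat_lit 147) (nat_lit 181) (nat_lit 182)))) (PT.nd (nat_lit 78) (PT.lf (nat_lit 25004) (nat_lit 3) (nat_lit 329) (nat_lit 4) (nat_lit 148) (nat_lit 181) (nat_lit 181)) (PT.nd (nat_lit 78) (PT.lf (nat_lit 25612) (nat_lit 6) (nat_lit 337) (nat_lit 4) (nat_lit 149) (nat_lit 181) (nat_lit 180)) (PT.lf (nat_lit 26144) (nat_lit 6) (nat_lit 344) (nat_lit 4) (nat_lit 150) (nat_lit 181) (nat_lit 179)))))) (PT.nd (nat_lit 390) (PT.nd (nat_lit 156) (PT.nd (nat_lit 78) (PT.lf (nat_lit 26752) (nat_lit 6) (nat_lit 352) (nat_lit 4) (nat_lit 151) (nat_lit 181) (nat_lit 178)) (PT.lf (nat_lit 27360) (nat_lit 6) (nat_lit 360) (nat_lit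 4) (nat_lit 152) (nat_lit 181) (nat_lit 177))) (PT.nd (nat_lit 78) (PT.lf (nat_lit 28196) (nat_lit 6) (nat_lit 371) (nat_lit 4) (nat_lit 153) (nat_lit 181) (nat_lit 176)) (PT.nd (nat_lit 78) (PT.lf (nat_lit 29412) (nat_lit 6) (nat_lit 387) (nat_lit 4) (nat_lit 154) (nat_lit 181) (nat_lit 175)) (PT.lf (nat_lit 30552) (nat_lit 6) (nat_lit 402) (nat_lit 4) (nat_lit 155) (nat_lit 181) (nat_lit 174))))) (PT.nd (nat_lit 234) (PT.nd (nat_lit 78) (PT.lf (nat_lit 31616) (nat_lit 6) (nat_lit 416) (nat_lit 4) (nat_lit 156) (nat_lit 181) (nat_lit 173)) (PT.nd (nat_lit 78) (PT.lf (nat_lit 32604) (nat_lit 6) (nat_lit 429) (nat_lit 4) (nat_lit 157) (nat_lit 181) (nat_lit 172)) (PT.lf (nat_lit 33516) (nat_lit 6) (nat_lit 441) (nat_lit 4) (nat_lit 158) (nat_lit 181) (nat_lit 171)))) (PT.nd (nat_lit 78) (PT.lf (nat_lit 34352) (nat_lit 6) (nat_lit 452) (nat_lit 4) (nat_lit 159) (nat_lit 181) (nat_lit 170)) (PT.nd (nat_lit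 78) (PT.lf (nat_lit 34276) (nat_lit 6) (nat_lit 451) (nat_lit 4) (nat_lit 160) (nat_lit 181) (nat_lit 169)) (PT.lf (nat_lit 34200) (nat_lit 6) (nat_lit 450) (nat_lit 4) (nat_lit 161) (nat_lit 181) (nat_lit 168))))))) (PT.nd (nat_lit 858) (PT.nd (nat_lit 390) (PT.nd (nat_lit 156) (PT.nd (nat_lit 78) (PT.lf (nat_lit 34124) (nat_lit 6) (nat_lit 449) (nat_lit 4) (nat_lit 162) (nat_lit 181) (nat_lit 167)) (PT.lf (nat_lit 34048) (nat_lit 6) (nat_lit 448) (nat_lit 4) (nat_lit 163) (nat_lit 181) (nat_lit 166))) (PT.nd (nat_lit 78) (PT.lf (nat_lit 33972) (nat_lit 6) (nat_lit 447) (nat_lit 4) (nat_lit 164) (nat_lit 181) (nat_lit 165)) (PT.nd (nat_lit 78) (PT.lf (nat_lit 33972) (nat_lit 6) (nat_lit 447) (nat_lit 2) (nat_lit 165) (nat_lit 181) (nat_lit 164)) (PT.lf (nat_lit 34048) (nat_lit 6) (nat_lit 448) (nat_lit 2) (nat_lit 166) (nat_lit 181) (nat_lit 163))))) (PT.nd (nat_lit 234) (PT.nd (nat_lit 78) (PT.lf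 (nat_lit 34124) (nat_lit 6) (nat_lit 449) (nat_lit 2) (nat_lit 167) (nat_lit 181) (nat_lit 162)) (PT.nd (nat_lit 78) (PT.lf (nat_lit 34200) (nat_lit 6) (nat_lit 450) (nat_lit 2) (nat_lit 168) (nat_lit 181) (nat_lit 161)) (PT.lf (nat_lit 34276) (nat_lit 6) (nat_lit 451) (nat_lit 2) (nat_lit 169) (nat_lit 181) (nat_lit 160)))) (PT.nd (nat_lit 78) (PT.lf (nat_lit 34352) (nat_lit 6) (nat_lit 452) (nat_lit 2) (nat_lit 170) (nat_lit 181) (nat_lit 159)) (PT.nd (nat_lit 78) (PT.lf (nat_lit 33516) (nat_lit 6) (nat_lit 441) (nat_lit 2) (nat_lit 171) (nat_lit 181) (nat_lit 158)) (PT.lf (nat_lit 32604) (nat_lit 6) (nat_lit 429) (nat_lit 2) (nat_lit 172) (nat_lit 181) (nat_lit 157)))))) (PT.nd (nat_lit 390) (PT.nd (nat_lit 156) (PT.nd (nat_lit 78) (PT.lf (nat_lit 31616) (nat_lit 6) (nat_lit 416) (nat_lit 2) (nat_lit 173) (nat_lit 181) (nat_lit 156)) (PT.lf (nat_lit 30552) (nat_lit 6) (nat_lit 402) (nat_lit 2) (nat_lit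 174) (nat_lit 181) (nat_lit 155))) (PT.nd (nat_lit 78) (PT.lf (nat_lit 29412) (nat_lit 6) (nat_lit 387) (nat_lit 2) (nat_lit 175) (nat_lit 181) (nat_lit 154)) (PT.nd (nat_lit 78) (PT.lf (nat_lit 28196) (nat_lit 6) (nat_lit 371) (nat_lit 2) (nat_lit 176) (nat_lit 181) (nat_lit 153)) (PT.lf (nat_lit 27360) (nat_lit 6) (nat_lit 360) (nat_lit 2) (nat_lit 177) (nat_lit 181) (nat_lit 152))))) (PT.nd (nat_lit 234) (PT.nd (nat_lit 78) (PT.lf (nat_lit 26752) (nat_lit 6) (nat_lit 352) (nat_lit 2) (nat_lit 178) (nat_lit 181) (nat_lit 151)) (PT.nd (nat_lit 78) (PT.lf (nat_lit 26144) (nat_lit 6) (nat_lit 344) (nat_lit 2) (nat_lit 179) (nat_lit 181) (nat_lit 150)) (PT.lf (nat_lit 25612) (nat_lit 6) (nat_lit 337) (nat_lit 2) (nat_lit 180) (nat_lit 181) (nat_lit 149)))) (PT.nd (nat_lit 78) (PT.lf (nat_lit 25004) (nat_lit 3) (nat_lit 329) (nat_lit 0) (nat_lit 181) (nat_lit 181) (nat_lit 148)) (PT.nd (nat_lit 78) (PT.lf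 (nat_lit 24396) (nat_lit 6) (nat_lit 321) (nat_lit 0) (nat_lit 182) (nat_lit 181) (nat_lit 147)) (PT.lf (nat_lit 23788) (nat_lit 6) (nat_lit 313) (nat_lit 0) (nat_lit 183) (nat_lit 181) (nat_lit 146))))))))
noncomputable def pc36 : PT := (PT.nd (nat_lit 50466) (PT.nd (nat_lit 49608) (PT.nd (nat_lit 390) (PT.nd (nat_lit 156) (PT.nd (nat_lit 78) (PT.lf (nat_lit 23256) (nat_lit 6) (nat_lit 306) (nat_lit 0) (nat_lit 184) (nat_lit 181) (nat_lit 145)) (PT.lf (nat_lit 22648) (nat_lit 6) (nat_lit 298) (nat_lit 0) (nat_lit 185) (nat_lit 181) (nat_lit 144))) (PT.nd (nat_lit 78) (PT.lf (nat_lit 22116) (nat_lit 6) (nat_lit 291) (nat_lit 0) (nat_lit 186) (nat_lit 181) (nat_lit 143)) (PT.nd (nat_lit 78) (PT.lf (nat_lit 21584) (nat_lit 6) (nat_lit 284) (nat_lit 0) (nat_lit 187) (nat_lit 181) (nat_lit 142)) (PT.lf (nat_lit 21128) (nat_lit 6) (nat_lit 278) (nat_lit 0) (nat_lit 188) (nat_lit 181) (nat_lit 141))))) (PT.nd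 (nat_lit 156) (PT.nd (nat_lit 78) (PT.lf (nat_lit 20596) (nat_lit 6) (nat_lit 271) (nat_lit 0) (nat_lit 189) (nat_lit 181) (nat_lit 140)) (PT.lf (nat_lit 20140) (nat_lit 6) (nat_lit 265) (nat_lit 0) (nat_lit 190) (nat_lit 181) (nat_lit 139))) (PT.nd (nat_lit 48906) (PT.lf (nat_lit 19684) (nat_lit 6) (nat_lit 259) (nat_lit 0) (nat_lit 191) (nat_lit 181) (nat_lit 138)) (PT.nd (nat_lit 78) (PT.lf (nat_lit 19304) (nat_lit 6) (nat_lit 254) (nat_lit 5) (nat_lit 137) (nat_lit 182) (nat_lit 191)) (PT.lf (nat_lit 19760) (nat_lit 6) (nat_lit 260) (nat_lit 5) (nat_lit 138) (nat_lit 182) (nat_lit 190)))))) (PT.nd (nat_lit 390) (PT.nd (nat_lit 156) (PT.nd (nat_lit 78) (PT.lf (nat_lit 20216) (nat_lit 6) (nat_lit 266) (nat_lit 5) (nat_lit 139) (nat_lit 182) (nat_lit 189)) (PT.lf (nat_lit 20672) (nat_lit 6) (nat_lit 272) (nat_lit 5) (nat_lit 140) (nat_lit 182) (nat_lit 188))) (PT.nd (nat_lit 78) (PT.lf (nat_lit 21204)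 (nat_lit 6) (nat_lit 279) (nat_lit 5) (nat_lit 141) (nat_lit 182) (nat_lit 187)) (PT.nd (nat_lit 78) (PT.lf (nat_lit 21660) (nat_lit 6) (nat_lit 285) (nat_lit 5) (nat_lit 142) (nat_lit 182) (nat_lit 186)) (PT.lf (nat_lit 22192) (nat_lit 6) (nat_lit 292) (nat_lit 5) (nat_lit 143) (nat_lit 182) (nat_lit 185))))) (PT.nd (nat_lit 234) (PT.nd (nat_lit 78) (PT.lf (nat_lit 22724) (nat_lit 6) (nat_lit 299) (nat_lit 5) (nat_lit 144) (nat_lit 182) (nat_lit 184)) (PT.nd (nat_lit 78) (PT.lf (nat_lit 23332) (nat_lit 6) (nat_lit 307) (nat_lit 5) (nat_lit 145) (nat_lit 182) (nat_lit 183)) (PT.lf (nat_lit 23864) (nat_lit 3) (nat_lit 314) (nat_lit 4) (nat_lit 146) (nat_lit 182) (nat_lit 182)))) (PT.nd (nat_lit 78) (PT.lf (nat_lit 24396) (nat_lit 6) (nat_lit 321) (nat_lit 4) (nat_lit 147) (nat_lit 182) (nat_lit 181)) (PT.nd (nat_lit 78) (PT.lf (nat_lit 24928) (nat_lit 6) (nat_lit 328) (nat_lit 4) (nat_lit 148) (nat_lit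 182) (nat_lit 180)) (PT.lf (nat_lit 25536) (nat_lit 6) (nat_lit 336) (nat_lit 4) (nat_lit 149) (nat_lit 182) (nat_lit 179))))))) (PT.nd (nat_lit 858) (PT.nd (nat_lit 390) (PT.nd (nat_lit 156) (PT.nd (nat_lit 78) (PT.lf (nat_lit 26068) (nat_lit 6) (nat_lit 343) (nat_lit 4) (nat_lit 150) (nat_lit 182) (nat_lit 178)) (PT.lf (nat_lit 26676) (nat_lit 6) (nat_lit 351) (nat_lit 4) (nat_lit 151) (nat_lit 182) (nat_lit 177))) (PT.nd (nat_lit 78) (PT.lf (nat_lit 27284) (nat_lit 6) (nat_lit 359) (nat_lit 4) (nat_lit 152) (nat_lit 182) (nat_lit 176)) (PT.nd (nat_lit 78) (PT.lf (nat_lit 28120) (nat_lit 6) (nat_lit 370) (nat_lit 4) (nat_lit 153) (nat_lit 182) (nat_lit 175)) (PT.lf (nat_lit 29336) (nat_lit 6) (nat_lit 386) (nat_lit 4) (nat_lit 154) (nat_lit 182) (nat_lit 174))))) (PT.nd (nat_lit 234) (PT.nd (nat_lit 78) (PT.lf (nat_lit 30476) (nat_lit 6) (nat_lit 401) (nat_lit 4) (nat_lit 155) (nat_lit 182) (nat_lit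 173)) (PT.nd (nat_lit 78) (PT.lf (nat_lit 31540) (nat_lit 6) (nat_lit 415) (nat_lit 4) (nat_lit 156) (nat_lit 182) (nat_lit 172)) (PT.lf (nat_lit 32528) (nat_lit 6) (nat_lit 428) (nat_lit 4) (nat_lit 157) (nat_lit 182) (nat_lit 171)))) (PT.nd (nat_lit 78) (PT.lf (nat_lit 33440) (nat_lit 6) (nat_lit 440) (nat_lit 4) (nat_lit 158) (nat_lit 182) (nat_lit 170)) (PT.nd (nat_lit 78) (PT.lf (nat_lit 33364) (nat_lit 6) (nat_lit 439) (nat_lit 4) (nat_lit 159) (nat_lit 182) (nat_lit 169)) (PT.lf (nat_lit 33288) (nat_lit 6) (nat_lit 438) (nat_lit 4) (nat_lit 160) (nat_lit 182) (nat_lit 168)))))) (PT.nd (nat_lit 390) (PT.nd (nat_lit 156) (PT.nd (nat_lit 78) (PT.lf (nat_lit 33212) (nat_lit 6) (nat_lit 437) (nat_lit 4) (nat_lit 161) (nat_lit 182) (nat_lit 167)) (PT.lf (nat_lit 33136) (nat_lit 6) (nat_lit 436) (nat_lit 4) (nat_lit 162) (nat_lit 182) (nat_lit 166))) (PT.nd (nat_lit 78) (PT.lf (nat_lit 33060) (nat_lit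 6) (nat_lit 435) (nat_lit 4) (nat_lit 163) (nat_lit 182) (nat_lit 165)) (PT.nd (nat_lit 78) (PT.lf (nat_lit 32984) (nat_lit 3) (nat_lit 434) (nat_lit 2) (nat_lit 164) (nat_lit 182) (nat_lit 164)) (PT.lf (nat_lit 33060) (nat_lit 6) (nat_lit 435) (nat_lit 2) (nat_lit 165) (nat_lit 182) (nat_lit 163))))) (PT.nd (nat_lit 234) (PT.nd (nat_lit 78) (PT.lf (nat_lit 33136) (nat_lit 6) (nat_lit 436) (nat_lit 2) (nat_lit 166) (nat_lit 182) (nat_lit 162)) (PT.nd (nat_lit 78) (PT.lf (nat_lit 33212) (nat_lit 6) (nat_lit 437) (nat_lit 2) (nat_lit 167) (nat_lit 182) (nat_lit 161)) (PT.lf (nat_lit 33288) (nat_lit 6) (nat_lit 438) (nat_lit 2) (nat_lit 168) (nat_lit 182) (nat_lit 160)))) (PT.nd (nat_lit 78) (PT.lf (nat_lit 33364) (nat_lit 6) (nat_lit 439) (nat_lit 2) (nat_lit 169) (nat_lit 182) (nat_lit 159)) (PT.nd (nat_lit 78) (PT.lf (nat_lit 33440) (nat_lit 6) (nat_lit 440) (nat_lit 2) (nat_lit 170) (nat_lit 182) (nat_lit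 158)) (PT.lf (nat_lit 32528) (nat_lit 6) (nat_lit 428) (nat_lit 2) (nat_lit 171) (nat_lit 182) (nat_lit 157))))))))
noncomputable def pc37 : PT := (PT.nd (nat_lit 50388) (PT.nd (nat_lit 858) (PT.nd (nat_lit 390) (PT.nd (nat_lit 156) (PT.nd (nat_lit 78) (PT.lf (nat_lit 31540) (nat_lit 6) (nat_lit 415) (nat_lit 2) (nat_lit 172) (nat_lit 182) (nat_lit 156)) (PT.lf (nat_lit 30476) (nat_lit 6) (nat_lit 401) (nat_lit 2) (nat_lit 173) (nat_lit 182) (nat_lit 155))) (PT.nd (nat_lit 78) (PT.lf (nat_lit 29336) (nat_lit 6) (nat_lit 386) (nat_lit 2) (nat_lit 174) (nat_lit 182) (nat_lit 154)) (PT.nd (nat_lit 78) (PT.lf (nat_lit 28120) (nat_lit 6) (nat_lit 370) (nat_lit 2) (nat_lit 175) (nat_lit 182) (nat_lit 153)) (PT.lf (nat_lit 27284) (nat_lit 6) (nat_lit 359) (nat_lit 2) (nat_lit 176) (nat_lit 182) (nat_lit 152))))) (PT.nd (nat_lit 234) (PT.nd (nat_lit 78) (PT.lf (nat_lit 26676) (nat_lit 6) (nat_lit 351) (nat_lit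 2) (nat_lit 177) (nat_lit 182) (nat_lit 151)) (PT.nd (nat_lit 78) (PT.lf (nat_lit 26068) (nat_lit 6) (nat_lit 343) (nat_lit 2) (nat_lit 178) (nat_lit 182) (nat_lit 150)) (PT.lf (nat_lit 25536) (nat_lit 6) (nat_lit 336) (nat_lit 2) (nat_lit 179) (nat_lit 182) (nat_lit 149)))) (PT.nd (nat_lit 78) (PT.lf (nat_lit 24928) (nat_lit 6) (nat_lit 328) (nat_lit 2) (nat_lit 180) (nat_lit 182) (nat_lit 148)) (PT.nd (nat_lit 78) (PT.lf (nat_lit 24396) (nat_lit 6) (nat_lit 321) (nat_lit 2) (nat_lit 181) (nat_lit 182) (nat_lit 147)) (PT.lf (nat_lit 23864) (nat_lit 3) (nat_lit 314) (nat_lit 0) (nat_lit 182) (nat_lit 182) (nat_lit 146)))))) (PT.nd (nat_lit 390) (PT.nd (nat_lit 156) (PT.nd (nat_lit 78) (PT.lf (nat_lit 23332) (nat_lit 6) (nat_lit 307) (nat_lit 0) (nat_lit 183) (nat_lit 182) (nat_lit 145)) (PT.lf (nat_lit 22724) (nat_lit 6) (nat_lit 299) (nat_lit 0) (nat_lit 184) (nat_lit 182) (nat_lit 144))) (PT.nd (nat_lit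 78) (PT.lf (nat_lit 22192) (nat_lit 6) (nat_lit 292) (nat_lit 0) (nat_lit 185) (nat_lit 182) (nat_lit 143)) (PT.nd (nat_lit 78) (PT.lf (nat_lit 21660) (nat_lit 6) (nat_lit 285) (nat_lit 0) (nat_lit 186) (nat_lit 182) (nat_lit 142)) (PT.lf (nat_lit 21204) (nat_lit 6) (nat_lit 279) (nat_lit 0) (nat_lit 187) (nat_lit 182) (nat_lit 141))))) (PT.nd (nat_lit 234) (PT.nd (nat_lit 78) (PT.lf (nat_lit 20672) (nat_lit 6) (nat_lit 272) (nat_lit 0) (nat_lit 188) (nat_lit 182) (nat_lit 140)) (PT.nd (nat_lit 78) (PT.lf (nat_lit 20216) (nat_lit 6) (nat_lit 266) (nat_lit 0) (nat_lit 189) (nat_lit 182) (nat_lit 139)) (PT.lf (nat_lit 19760) (nat_lit 6) (nat_lit 260) (nat_lit 0) (nat_lit 190) (nat_lit 182) (nat_lit 138)))) (PT.nd (nat_lit 48750) (PT.lf (nat_lit 19304) (nat_lit 6) (nat_lit 254) (nat_lit 0) (nat_lit 191) (nat_lit 182) (nat_lit 137)) (PT.nd (nat_lit 78) (PT.lf (nat_lit 18544) (nat_lit 6) (nat_lit 244) (nat_lit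 5) (nat_lit 135) (nat_lit 183) (nat_lit 192)) (PT.lf (nat_lit 18924) (nat_lit 6) (nat_lit 249) (nat_lit 5) (nat_lit 136) (nat_lit 183) (nat_lit 191))))))) (PT.nd (nat_lit 858) (PT.nd (nat_lit 390) (PT.nd (nat_lit 156) (PT.nd (nat_lit 78) (PT.lf (nat_lit 19380) (nat_lit 6) (nat_lit 255) (nat_lit 5) (nat_lit 137) (nat_lit 183) (nat_lit 190)) (PT.lf (nat_lit 19836) (nat_lit 6) (nat_lit 261) (nat_lit 5) (nat_lit 138) (nat_lit 183) (nat_lit 189))) (PT.nd (nat_lit 78) (PT.lf (nat_lit 20292) (nat_lit 6) (nat_lit 267) (nat_lit 5) (nat_lit 139) (nat_lit 183) (nat_lit 188)) (PT.nd (nat_lit 78) (PT.lf (nat_lit 20748) (nat_lit 6) (nat_lit 273) (nat_lit 5) (nat_lit 140) (nat_lit 183) (nat_lit 187)) (PT.lf (nat_lit 21280) (nat_lit 6) (nat_lit 280) (nat_lit 5) (nat_lit 141) (nat_lit 183) (nat_lit 186))))) (PT.nd (nat_lit 234) (PT.nd (nat_lit 78) (PT.lf (nat_lit 21736) (nat_lit 6) (nat_lit 286) (nat_lit 5) (nat_lit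 142) (nat_lit 183) (nat_lit 185)) (PT.nd (nat_lit 78) (PT.lf (nat_lit 22268) (nat_lit 6) (nat_lit 293) (nat_lit 5) (nat_lit 143) (nat_lit 183) (nat_lit 184)) (PT.lf (nat_lit 22800) (nat_lit 3) (nat_lit 300) (nat_lit 4) (nat_lit 144) (nat_lit 183) (nat_lit 183)))) (PT.nd (nat_lit 78) (PT.lf (nat_lit 23332) (nat_lit 6) (nat_lit 307) (nat_lit 4) (nat_lit 145) (nat_lit 183) (nat_lit 182)) (PT.nd (nat_lit 78) (PT.lf (nat_lit 23788) (nat_lit 6) (nat_lit 313) (nat_lit 4) (nat_lit 146) (nat_lit 183) (nat_lit 181)) (PT.lf (nat_lit 24320) (nat_lit 6) (nat_lit 320) (nat_lit 4) (nat_lit 147) (nat_lit 183) (nat_lit 180)))))) (PT.nd (nat_lit 390) (PT.nd (nat_lit 156) (PT.nd (nat_lit 78) (PT.lf (nat_lit 24852) (nat_lit 6) (nat_lit 327) (nat_lit 4) (nat_lit 148) (nat_lit 183) (nat_lit 179)) (PT.lf (nat_lit 25460) (nat_lit 6) (nat_lit 335) (nat_lit 4) (nat_lit 149) (nat_lit 183) (nat_lit 178))) (PT.nd (nat_lit 78) (PT.lf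 (nat_lit 25992) (nat_lit 6) (nat_lit 342) (nat_lit 4) (nat_lit 150) (nat_lit 183) (nat_lit 177)) (PT.nd (nat_lit 78) (PT.lf (nat_lit 26600) (nat_lit 6) (nat_lit 350) (nat_lit 4) (nat_lit 151) (nat_lit 183) (nat_lit 176)) (PT.lf (nat_lit 27208) (nat_lit 6) (nat_lit 358) (nat_lit 4) (nat_lit 152) (nat_lit 183) (nat_lit 175))))) (PT.nd (nat_lit 234) (PT.nd (nat_lit 78) (PT.lf (nat_lit 28044) (nat_lit 6) (nat_lit 369) (nat_lit 4) (nat_lit 153) (nat_lit 183) (nat_lit 174)) (PT.nd (nat_lit 78) (PT.lf (nat_lit 29260) (nat_lit 6) (nat_lit 385) (nat_lit 4) (nat_lit 154) (nat_lit 183) (nat_lit 173)) (PT.lf (nat_lit 30400) (nat_lit 6) (nat_lit 400) (nat_lit 4) (nat_lit 155) (nat_lit 183) (nat_lit 172)))) (PT.nd (nat_lit 78) (PT.lf (nat_lit 31464) (nat_lit 6) (nat_lit 414) (nat_lit 4) (nat_lit 156) (nat_lit 183) (nat_lit 171)) (PT.nd (nat_lit 78) (PT.lf (nat_lit 32452) (nat_lit 6) (nat_lit 427) (nat_lit 4) (nat_lit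 157) (nat_lit 183) (nat_lit 170)) (PT.lf (nat_lit 32376) (nat_lit 6) (nat_lit 426) (nat_lit 4) (nat_lit 158) (nat_lit 183) (nat_lit 169))))))))
noncomputable def pc38 : PT := (PT.nd (nat_lit 1716) (PT.nd (nat_lit 858) (PT.nd (nat_lit 390) (PT.nd (nat_lit 156) (PT.nd (nat_lit 78) (PT.lf (nat_lit 32300) (nat_lit 6) (nat_lit 425) (nat_lit 4) (nat_lit 159) (nat_lit 183) (nat_lit 168)) (PT.lf (nat_lit 32224) (nat_lit 6) (nat_lit 424) (nat_lit 4) (nat_lit 160) (nat_lit 183) (nat_lit 167))) (PT.nd (nat_lit 78) (PT.lf (nat_lit 32148) (nat_lit 6) (nat_lit 423) (nat_lit 4) (nat_lit 161) (nat_lit 183) (nat_lit 166)) (PT.nd (nat_lit 78) (PT.lf (nat_lit 32072) (nat_lit 6) (nat_lit 422) (nat_lit 4) (nat_lit 162) (nat_lit 183) (nat_lit 165)) (PT.lf (nat_lit 31996) (nat_lit 6) (nat_lit 421) (nat_lit 4) (nat_lit 163) (nat_lit 183) (nat_lit 164))))) (PT.nd (nat_lit 234) (PT.nd (nat_lit 78) (PT.lf (nat_lit 31996) (nat_lit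 6) (nat_lit 421) (nat_lit 2) (nat_lit 164) (nat_lit 183) (nat_lit 163)) (PT.nd (nat_lit 78) (PT.lf (nat_lit 32072) (nat_lit 6) (nat_lit 422) (nat_lit 2) (nat_lit 165) (nat_lit 183) (nat_lit 162)) (PT.lf (nat_lit 32148) (nat_lit 6) (nat_lit 423) (nat_lit 2) (nat_lit 166) (nat_lit 183) (nat_lit 161)))) (PT.nd (nat_lit 78) (PT.lf (nat_lit 32224) (nat_lit 6) (nat_lit 424) (nat_lit 2) (nat_lit 167) (nat_lit 183) (nat_lit 160)) (PT.nd (nat_lit 78) (PT.lf (nat_lit 32300) (nat_lit 6) (nat_lit 425) (nat_lit 2) (nat_lit 168) (nat_lit 183) (nat_lit 159)) (PT.lf (nat_lit 32376) (nat_lit 6) (nat_lit 426) (nat_lit 2) (nat_lit 169) (nat_lit 183) (nat_lit 158)))))) (PT.nd (nat_lit 390) (PT.nd (nat_lit 156) (PT.nd (nat_lit 78) (PT.lf (nat_lit 32452) (nat_lit 6) (nat_lit 427) (nat_lit 2) (nat_lit 170) (nat_lit 183) (nat_lit 157)) (PT.lf (nat_lit 31464) (nat_lit 6) (nat_lit 414) (nat_lit 2) (nat_lit 171) (nat_lit 183)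 (nat_lit 156))) (PT.nd (nat_lit 78) (PT.lf (nat_lit 30400) (nat_lit 6) (nat_lit 400) (nat_lit 2) (nat_lit 172) (nat_lit 183) (nat_lit 155)) (PT.nd (nat_lit 78) (PT.lf (nat_lit 29260) (nat_lit 6) (nat_lit 385) (nat_lit 2) (nat_lit 173) (nat_lit 183) (nat_lit 154)) (PT.lf (nat_lit 28044) (nat_lit 6) (nat_lit 369) (nat_lit 2) (nat_lit 174) (nat_lit 183) (nat_lit 153))))) (PT.nd (nat_lit 234) (PT.nd (nat_lit 78) (PT.lf (nat_lit 27208) (nat_lit 6) (nat_lit 358) (nat_lit 2) (nat_lit 175) (nat_lit 183) (nat_lit 152)) (PT.nd (nat_lit 78) (PT.lf (nat_lit 26600) (nat_lit 6) (nat_lit 350) (nat_lit 2) (nat_lit 176) (nat_lit 183) (nat_lit 151)) (PT.lf (nat_lit 25992) (nat_lit 6) (nat_lit 342) (nat_lit 2) (nat_lit 177) (nat_lit 183) (nat_lit 150)))) (PT.nd (nat_lit 78) (PT.lf (nat_lit 25460) (nat_lit 6) (nat_lit 335) (nat_lit 2) (nat_lit 178) (nat_lit 183) (nat_lit 149)) (PT.nd (nat_lit 78) (PT.lf (nat_lit 24852)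 (nat_lit 6) (nat_lit 327) (nat_lit 2) (nat_lit 179) (nat_lit 183) (nat_lit 148)) (PT.lf (nat_lit 24320) (nat_lit 6) (nat_lit 320) (nat_lit 2) (nat_lit 180) (nat_lit 183) (nat_lit 147))))))) (PT.nd (nat_lit 858) (PT.nd (nat_lit 390) (PT.nd (nat_lit 156) (PT.nd (nat_lit 78) (PT.lf (nat_lit 23788) (nat_lit 6) (nat_lit 313) (nat_lit 2) (nat_lit 181) (nat_lit 183) (nat_lit 146)) (PT.lf (nat_lit 23332) (nat_lit 6) (nat_lit 307) (nat_lit 2) (nat_lit 182) (nat_lit 183) (nat_lit 145))) (PT.nd (nat_lit 78) (PT.lf (nat_lit 22800) (nat_lit 3) (nat_lit 300) (nat_lit 0) (nat_lit 183) (nat_lit 183) (nat_lit 144)) (PT.nd (nat_lit 78) (PT.lf (nat_lit 22268) (nat_lit 6) (nat_lit 293) (nat_lit 0) (nat_lit 184) (nat_lit 183) (nat_lit 143)) (PT.lf (nat_lit 21736) (nat_lit 6) (nat_lit 286) (nat_lit 0) (nat_lit 185) (nat_lit 183) (nat_lit 142))))) (PT.nd (nat_lit 234) (PT.nd (nat_lit 78) (PT.lf (nat_lit 21280) (nat_lit 6)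 (nat_lit 280) (nat_lit 0) (nat_lit 186) (nat_lit 183) (nat_lit 141)) (PT.nd (nat_lit 78) (PT.lf (nat_lit 20748) (nat_lit 6) (nat_lit 273) (nat_lit 0) (nat_lit 187) (nat_lit 183) (nat_lit 140)) (PT.lf (nat_lit 20292) (nat_lit 6) (nat_lit 267) (nat_lit 0) (nat_lit 188) (nat_lit 183) (nat_lit 139)))) (PT.nd (nat_lit 78) (PT.lf (nat_lit 19836) (nat_lit 6) (nat_lit 261) (nat_lit 0) (nat_lit 189) (nat_lit 183) (nat_lit 138)) (PT.nd (nat_lit 78) (PT.lf (nat_lit 19380) (nat_lit 6) (nat_lit 255) (nat_lit 0) (nat_lit 190) (nat_lit 183) (nat_lit 137)) (PT.lf (nat_lit 18924) (nat_lit 6) (nat_lit 249) (nat_lit 0) (nat_lit 191) (nat_lit 183) (nat_lit 136)))))) (PT.nd (nat_lit 48906) (PT.nd (nat_lit 48672) (PT.nd (nat_lit 48594) (PT.lf (nat_lit 18544) (nat_lit 6) (nat_lit 244) (nat_lit 0) (nat_lit 192) (nat_lit 183) (nat_lit 135)) (PT.lf (nat_lit 18164) (nat_lit 6) (nat_lit 239) (nat_lit 5) (nat_lit 134) (nat_lit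 184) (nat_lit 192))) (PT.nd (nat_lit 78) (PT.lf (nat_lit 18620) (nat_lit 6) (nat_lit 245) (nat_lit 5) (nat_lit 135) (nat_lit 184) (nat_lit 191)) (PT.nd (nat_lit 78) (PT.lf (nat_lit 19000) (nat_lit 6) (nat_lit 250) (nat_lit 5) (nat_lit 136) (nat_lit 184) (nat_lit 190)) (PT.lf (nat_lit 19456) (nat_lit 6) (nat_lit 256) (nat_lit 5) (nat_lit 137) (nat_lit 184) (nat_lit 189))))) (PT.nd (nat_lit 234) (PT.nd (nat_lit 78) (PT.lf (nat_lit 19912) (nat_lit 6) (nat_lit 262) (nat_lit 5) (nat_lit 138) (nat_lit 184) (nat_lit 188)) (PT.nd (nat_lit 78) (PT.lf (nat_lit 20368) (nat_lit 6) (nat_lit 268) (nat_lit 5) (nat_lit 139) (nat_lit 184) (nat_lit 187)) (PT.lf (nat_lit 20824) (nat_lit 6) (nat_lit 274) (nat_lit 5) (nat_lit 140) (nat_lit 184) (nat_lit 186)))) (PT.nd (nat_lit 78) (PT.lf (nat_lit 21356) (nat_lit 6) (nat_lit 281) (nat_lit 5) (nat_lit 141) (nat_lit 184) (nat_lit 185)) (PT.nd (nat_lit 78) (PT.lf (nat_lit 21812)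 (nat_lit 3) (nat_lit 287) (nat_lit 4) (nat_lit 142) (nat_lit 184) (nat_lit 184)) (PT.lf (nat_lit 22268) (nat_lit 6) (nat_lit 293) (nat_lit 4) (nat_lit 143) (nat_lit 184) (nat_lit 183))))))))
noncomputable def pc39 : PT := (PT.nd (nat_lit 1716) (PT.nd (nat_lit 858) (PT.nd (nat_lit 390) (PT.nd (nat_lit 156) (PT.nd (nat_lit 78) (PT.lf (nat_lit 22724) (nat_lit 6) (nat_lit 299) (nat_lit 4) (nat_lit 144) (nat_lit 184) (nat_lit 182)) (PT.lf (nat_lit 23256) (nat_lit 6) (nat_lit 306) (nat_lit 4) (nat_lit 145) (nat_lit 184) (nat_lit 181))) (PT.nd (nat_lit 78) (PT.lf (nat_lit 23712) (nat_lit 6) (nat_lit 312) (nat_lit 4) (nat_lit 146) (nat_lit 184) (nat_lit 180)) (PT.nd (nat_lit 78) (PT.lf (nat_lit 24244) (nat_lit 6) (nat_lit 319) (nat_lit 4) (nat_lit 147) (nat_lit 184) (nat_lit 179)) (PT.lf (nat_lit 24776) (nat_lit 6) (nat_lit 326) (nat_lit 4) (nat_lit 148) (nat_lit 184) (nat_lit 178))))) (PT.nd (nat_lit 234)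 (PT.nd (nat_lit 78) (PT.lf (nat_lit 25384) (nat_lit 6) (nat_lit 334) (nat_lit 4) (nat_lit 149) (nat_lit 184) (nat_lit 177)) (PT.nd (nat_lit 78) (PT.lf (nat_lit 25916) (nat_lit 6) (nat_lit 341) (nat_lit 4) (nat_lit 150) (nat_lit 184) (nat_lit 176)) (PT.lf (nat_lit 26524) (nat_lit 6) (nat_lit 349) (nat_lit 4) (nat_lit 151) (nat_lit 184) (nat_lit 175)))) (PT.nd (nat_lit 78) (PT.lf (nat_lit 27132) (nat_lit 6) (nat_lit 357) (nat_lit 4) (nat_lit 152) (nat_lit 184) (nat_lit 174)) (PT.nd (nat_lit 78) (PT.lf (nat_lit 27968) (nat_lit 6) (nat_lit 368) (nat_lit 4) (nat_lit 153) (nat_lit 184) (nat_lit 173)) (PT.lf (nat_lit 29184) (nat_lit 6) (nat_lit 384) (nat_lit 4) (nat_lit 154) (nat_lit 184) (nat_lit 172)))))) (PT.nd (nat_lit 390) (PT.nd (nat_lit 156) (PT.nd (nat_lit 78) (PT.lf (nat_lit 30324) (nat_lit 6) (nat_lit 399) (nat_lit 4) (nat_lit 155) (nat_lit 184) (nat_lit 171)) (PT.lf (nat_lit 31388) (nat_lit 6) (nat_lit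 413) (nat_lit 4) (nat_lit 156) (nat_lit 184) (nat_lit 170))) (PT.nd (nat_lit 78) (PT.lf (nat_lit 31312) (nat_lit 6) (nat_lit 412) (nat_lit 4) (nat_lit 157) (nat_lit 184) (nat_lit 169)) (PT.nd (nat_lit 78) (PT.lf (nat_lit 31236) (nat_lit 6) (nat_lit 411) (nat_lit 4) (nat_lit 158) (nat_lit 184) (nat_lit 168)) (PT.lf (nat_lit 31160) (nat_lit 6) (nat_lit 410) (nat_lit 4) (nat_lit 159) (nat_lit 184) (nat_lit 167))))) (PT.nd (nat_lit 234) (PT.nd (nat_lit 78) (PT.lf (nat_lit 31084) (nat_lit 6) (nat_lit 409) (nat_lit 4) (nat_lit 160) (nat_lit 184) (nat_lit 166)) (PT.nd (nat_lit 78) (PT.lf (nat_lit 31008) (nat_lit 6) (nat_lit 408) (nat_lit 4) (nat_lit 161) (nat_lit 184) (nat_lit 165)) (PT.lf (nat_lit 30932) (nat_lit 6) (nat_lit 407) (nat_lit 4) (nat_lit 162) (nat_lit 184) (nat_lit 164)))) (PT.nd (nat_lit 78) (PT.lf (nat_lit 30856) (nat_lit 3) (nat_lit 406) (nat_lit 2) (nat_lit 163) (nat_lit 184) (nat_lit 163))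 (PT.nd (nat_lit 78) (PT.lf (nat_lit 30932) (nat_lit 6) (nat_lit 407) (nat_lit 2) (nat_lit 164) (nat_lit 184) (nat_lit 162)) (PT.lf (nat_lit 31008) (nat_lit 6) (nat_lit 408) (nat_lit 2) (nat_lit 165) (nat_lit 184) (nat_lit 161))))))) (PT.nd (nat_lit 858) (PT.nd (nat_lit 390) (PT.nd (nat_lit 156) (PT.nd (nat_lit 78) (PT.lf (nat_lit 31084) (nat_lit 6) (nat_lit 409) (nat_lit 2) (nat_lit 166) (nat_lit 184) (nat_lit 160)) (PT.lf (nat_lit 31160) (nat_lit 6) (nat_lit 410) (nat_lit 2) (nat_lit 167) (nat_lit 184) (nat_lit 159))) (PT.nd (nat_lit 78) (PT.lf (nat_lit 31236) (nat_lit 6) (nat_lit 411) (nat_lit 2) (nat_lit 168) (nat_lit 184) (nat_lit 158)) (PT.nd (nat_lit 78) (PT.lf (nat_lit 31312) (nat_lit 6) (nat_lit 412) (nat_lit 2) (nat_lit 169) (nat_lit 184) (nat_lit 157)) (PT.lf (nat_lit 31388) (nat_lit 6) (nat_lit 413) (nat_lit 2) (nat_lit 170) (nat_lit 184) (nat_lit 156))))) (PT.nd (nat_lit 234) (PT.nd (nat_lit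 78) (PT.lf (nat_lit 30324) (nat_lit 6) (nat_lit 399) (nat_lit 2) (nat_lit 171) (nat_lit 184) (nat_lit 155)) (PT.nd (nat_lit 78) (PT.lf (nat_lit 29184) (nat_lit 6) (nat_lit 384) (nat_lit 2) (nat_lit 172) (nat_lit 184) (nat_lit 154)) (PT.lf (nat_lit 27968) (nat_lit 6) (nat_lit 368) (nat_lit 2) (nat_lit 173) (nat_lit 184) (nat_lit 153)))) (PT.nd (nat_lit 78) (PT.lf (nat_lit 27132) (nat_lit 6) (nat_lit 357) (nat_lit 2) (nat_lit 174) (nat_lit 184) (nat_lit 152)) (PT.nd (nat_lit 78) (PT.lf (nat_lit 26524) (nat_lit 6) (nat_lit 349) (nat_lit 2) (nat_lit 175) (nat_lit 184) (nat_lit 151)) (PT.lf (nat_lit 25916) (nat_lit 6) (nat_lit 341) (nat_lit 2) (nat_lit 176) (nat_lit 184) (nat_lit 150)))))) (PT.nd (nat_lit 390) (PT.nd (nat_lit 156) (PT.nd (nat_lit 78) (PT.lf (nat_lit 25384) (nat_lit 6) (nat_lit 334) (nat_lit 2) (nat_lit 177) (nat_lit 184) (nat_lit 149)) (PT.lf (nat_lit 24776) (nat_lit 6) (nat_lit 326) (nat_lit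 2) (nat_lit 178) (nat_lit 184) (nat_lit 148))) (PT.nd (nat_lit 78) (PT.lf (nat_lit 24244) (nat_lit 6) (nat_lit 319) (nat_lit 2) (nat_lit 179) (nat_lit 184) (nat_lit 147)) (PT.nd (nat_lit 78) (PT.lf (nat_lit 23712) (nat_lit 6) (nat_lit 312) (nat_lit 2) (nat_lit 180) (nat_lit 184) (nat_lit 146)) (PT.lf (nat_lit 23256) (nat_lit 6) (nat_lit 306) (nat_lit 2) (nat_lit 181) (nat_lit 184) (nat_lit 145))))) (PT.nd (nat_lit 234) (PT.nd (nat_lit 78) (PT.lf (nat_lit 22724) (nat_lit 6) (nat_lit 299) (nat_lit 2) (nat_lit 182) (nat_lit 184) (nat_lit 144)) (PT.nd (nat_lit 78) (PT.lf (nat_lit 22268) (nat_lit 6) (nat_lit 293) (nat_lit 2) (nat_lit 183) (nat_lit 184) (nat_lit 143)) (PT.lf (nat_lit 21812) (nat_lit 3) (nat_lit 287) (nat_lit 0) (nat_lit 184) (nat_lit 184) (nat_lit 142)))) (PT.nd (nat_lit 78) (PT.lf (nat_lit 21356) (nat_lit 6) (nat_lit 281) (nat_lit 0) (nat_lit 185) (nat_lit 184) (nat_lit 141)) (PT.nd (nat_lit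 78) (PT.lf (nat_lit 20824) (nat_lit 6) (nat_lit 274) (nat_lit 0) (nat_lit 186) (nat_lit 184) (nat_lit 140)) (PT.lf (nat_lit 20368) (nat_lit 6) (nat_lit 268) (nat_lit 0) (nat_lit 187) (nat_lit 184) (nat_lit 139))))))))
noncomputable def pc40 : PT := (PT.nd (nat_lit 49998) (PT.nd (nat_lit 49140) (PT.nd (nat_lit 48750) (PT.nd (nat_lit 156) (PT.nd (nat_lit 78) (PT.lf (nat_lit 19912) (nat_lit 6) (nat_lit 262) (nat_lit 0) (nat_lit 188) (nat_lit 184) (nat_lit 138)) (PT.lf (nat_lit 19456) (nat_lit 6) (nat_lit 256) (nat_lit 0) (nat_lit 189) (nat_lit 184) (nat_lit 137))) (PT.nd (nat_lit 78) (PT.lf (nat_lit 19000) (nat_lit 6) (nat_lit 250) (nat_lit 0) (nat_lit 190) (nat_lit 184) (nat_lit 136)) (PT.nd (nat_lit 78) (PT.lf (nat_lit 18620) (nat_lit 6) (nat_lit 245) (nat_lit 0) (nat_lit 191) (nat_lit 184) (nat_lit 135)) (PT.lf (nat_lit 18164) (nat_lit 6) (nat_lit 239) (nat_lit 0) (nat_lit 192) (nat_lit 184) (nat_lit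 134))))) (PT.nd (nat_lit 156) (PT.nd (nat_lit 78) (PT.lf (nat_lit 17480) (nat_lit 6) (nat_lit 230) (nat_lit 5) (nat_lit 132) (nat_lit 185) (nat_lit 193)) (PT.lf (nat_lit 17860) (nat_lit 6) (nat_lit 235) (nat_lit 5) (nat_lit 133) (nat_lit 185) (nat_lit 192))) (PT.nd (nat_lit 78) (PT.lf (nat_lit 18240) (nat_lit 6) (nat_lit 240) (nat_lit 5) (nat_lit 134) (nat_lit 185) (nat_lit 191)) (PT.nd (nat_lit 78) (PT.lf (nat_lit 18696) (nat_lit 6) (nat_lit 246) (nat_lit 5) (nat_lit 135) (nat_lit 185) (nat_lit 190)) (PT.lf (nat_lit 19076) (nat_lit 6) (nat_lit 251) (nat_lit 5) (nat_lit 136) (nat_lit 185) (nat_lit 189)))))) (PT.nd (nat_lit 390) (PT.nd (nat_lit 156) (PT.nd (nat_lit 78) (PT.lf (nat_lit 19532) (nat_lit 6) (nat_lit 257) (nat_lit 5) (nat_lit 137) (nat_lit 185) (nat_lit 188)) (PT.lf (nat_lit 19988) (nat_lit 6) (nat_lit 263) (nat_lit 5) (nat_lit 138) (nat_lit 185) (nat_lit 187))) (PT.nd (nat_lit 78) (PT.lf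 (nat_lit 20444) (nat_lit 6) (nat_lit 269) (nat_lit 5) (nat_lit 139) (nat_lit 185) (nat_lit 186)) (PT.nd (nat_lit 78) (PT.lf (nat_lit 20900) (nat_lit 3) (nat_lit 275) (nat_lit 4) (nat_lit 140) (nat_lit 185) (nat_lit 185)) (PT.lf (nat_lit 21356) (nat_lit 6) (nat_lit 281) (nat_lit 4) (nat_lit 141) (nat_lit 185) (nat_lit 184))))) (PT.nd (nat_lit 234) (PT.nd (nat_lit 78) (PT.lf (nat_lit 21736) (nat_lit 6) (nat_lit 286) (nat_lit 4) (nat_lit 142) (nat_lit 185) (nat_lit 183)) (PT.nd (nat_lit 78) (PT.lf (nat_lit 22192) (nat_lit 6) (nat_lit 292) (nat_lit 4) (nat_lit 143) (nat_lit 185) (nat_lit 182)) (PT.lf (nat_lit 22648) (nat_lit 6) (nat_lit 298) (nat_lit 4) (nat_lit 144) (nat_lit 185) (nat_lit 181)))) (PT.nd (nat_lit 78) (PT.lf (nat_lit 23180) (nat_lit 6) (nat_lit 305) (nat_lit 4) (nat_lit 145) (nat_lit 185) (nat_lit 180)) (PT.nd (nat_lit 78) (PT.lf (nat_lit 23636) (nat_lit 6) (nat_lit 311) (nat_lit 4) (nat_lit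 146) (nat_lit 185) (nat_lit 179)) (PT.lf (nat_lit 24168) (nat_lit 6) (nat_lit 318) (nat_lit 4) (nat_lit 147) (nat_lit 185) (nat_lit 178))))))) (PT.nd (nat_lit 858) (PT.nd (nat_lit 390) (PT.nd (nat_lit 156) (PT.nd (nat_lit 78) (PT.lf (nat_lit 24700) (nat_lit 6) (nat_lit 325) (nat_lit 4) (nat_lit 148) (nat_lit 185) (nat_lit 177)) (PT.lf (nat_lit 25308) (nat_lit 6) (nat_lit 333) (nat_lit 4) (nat_lit 149) (nat_lit 185) (nat_lit 176))) (PT.nd (nat_lit 78) (PT.lf (nat_lit 25840) (nat_lit 6) (nat_lit 340) (nat_lit 4) (nat_lit 150) (nat_lit 185) (nat_lit 175)) (PT.nd (nat_lit 78) (PT.lf (nat_lit 26448) (nat_lit 6) (nat_lit 348) (nat_lit 4) (nat_lit 151) (nat_lit 185) (nat_lit 174)) (PT.lf (nat_lit 27056) (nat_lit 6) (nat_lit 356) (nat_lit 4) (nat_lit 152) (nat_lit 185) (nat_lit 173))))) (PT.nd (nat_lit 234) (PT.nd (nat_lit 78) (PT.lf (nat_lit 27892) (nat_lit 6) (nat_lit 367) (nat_lit 4) (nat_lit 153) (nat_lit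 185) (nat_lit 172)) (PT.nd (nat_lit 78) (PT.lf (nat_lit 29108) (nat_lit 6) (nat_lit 383) (nat_lit 4) (nat_lit 154) (nat_lit 185) (nat_lit 171)) (PT.lf (nat_lit 30248) (nat_lit 6) (nat_lit 398) (nat_lit 4) (nat_lit 155) (nat_lit 185) (nat_lit 170)))) (PT.nd (nat_lit 78) (PT.lf (nat_lit 30172) (nat_lit 6) (nat_lit 397) (nat_lit 4) (nat_lit 156) (nat_lit 185) (nat_lit 169)) (PT.nd (nat_lit 78) (PT.lf (nat_lit 30096) (nat_lit 6) (nat_lit 396) (nat_lit 4) (nat_lit 157) (nat_lit 185) (nat_lit 168)) (PT.lf (nat_lit 30020) (nat_lit 6) (nat_lit 395) (nat_lit 4) (nat_lit 158) (nat_lit 185) (nat_lit 167)))))) (PT.nd (nat_lit 390) (PT.nd (nat_lit 156) (PT.nd (nat_lit 78) (PT.lf (nat_lit 29944) (nat_lit 6) (nat_lit 394) (nat_lit 4) (nat_lit 159) (nat_lit 185) (nat_lit 166)) (PT.lf (nat_lit 29868) (nat_lit 6) (nat_lit 393) (nat_lit 4) (nat_lit 160) (nat_lit 185) (nat_lit 165))) (PT.nd (nat_lit 78) (PT.lf (nat_lit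 29792) (nat_lit 6) (nat_lit 392) (nat_lit 4) (nat_lit 161) (nat_lit 185) (nat_lit 164)) (PT.nd (nat_lit 78) (PT.lf (nat_lit 29716) (nat_lit 6) (nat_lit 391) (nat_lit 4) (nat_lit 162) (nat_lit 185) (nat_lit 163)) (PT.lf (nat_lit 29716) (nat_lit 6) (nat_lit 391) (nat_lit 2) (nat_lit 163) (nat_lit 185) (nat_lit 162))))) (PT.nd (nat_lit 234) (PT.nd (nat_lit 78) (PT.lf (nat_lit 29792) (nat_lit 6) (nat_lit 392) (nat_lit 2) (nat_lit 164) (nat_lit 185) (nat_lit 161)) (PT.nd (nat_lit 78) (PT.lf (nat_lit 29868) (nat_lit 6) (nat_lit 393) (nat_lit 2) (nat_lit 165) (nat_lit 185) (nat_lit 160)) (PT.lf (nat_lit 29944) (nat_lit 6) (nat_lit 394) (nat_lit 2) (nat_lit 166) (nat_lit 185) (nat_lit 159)))) (PT.nd (nat_lit 78) (PT.lf (nat_lit 30020) (nat_lit 6) (nat_lit 395) (nat_lit 2) (nat_lit 167) (nat_lit 185) (nat_lit 158)) (PT.nd (nat_lit 78) (PT.lf (nat_lit 30096) (nat_lit 6) (nat_lit 396) (nat_lit 2) (nat_lit 168)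 (nat_lit 185) (nat_lit 157)) (PT.lf (nat_lit 30172) (nat_lit 6) (nat_lit 397) (nat_lit 2) (nat_lit 169) (nat_lit 185) (nat_lit 156))))))))
noncomputable def pc41 : PT := (PT.nd (nat_lit 1716) (PT.nd (nat_lit 858) (PT.nd (nat_lit 390) (PT.nd (nat_lit 156) (PT.nd (nat_lit 78) (PT.lf (nat_lit 30248) (nat_lit 6) (nat_lit 398) (nat_lit 2) (nat_lit 170) (nat_lit 185) (nat_lit 155)) (PT.lf (nat_lit 29108) (nat_lit 6) (nat_lit 383) (nat_lit 2) (nat_lit 171) (nat_lit 185) (nat_lit 154))) (PT.nd (nat_lit 78) (PT.lf (nat_lit 27892) (nat_lit 6) (nat_lit 367) (nat_lit 2) (nat_lit 172) (nat_lit 185) (nat_lit 153)) (PT.nd (nat_lit 78) (PT.lf (nat_lit 27056) (nat_lit 6) (nat_lit 356) (nat_lit 2) (nat_lit 173) (nat_lit 185) (nat_lit 152)) (PT.lf (nat_lit 26448) (nat_lit 6) (nat_lit 348) (nat_lit 2) (nat_lit 174) (nat_lit 185) (nat_lit 151))))) (PT.nd (nat_lit 234) (PT.nd (nat_lit 78) (PT.lf (nat_lit 25840) (nat_lit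 6) (nat_lit 340) (nat_lit 2) (nat_lit 175) (nat_lit 185) (nat_lit 150)) (PT.nd (nat_lit 78) (PT.lf (nat_lit 25308) (nat_lit 6) (nat_lit 333) (nat_lit 2) (nat_lit 176) (nat_lit 185) (nat_lit 149)) (PT.lf (nat_lit 24700) (nat_lit 6) (nat_lit 325) (nat_lit 2) (nat_lit 177) (nat_lit 185) (nat_lit 148)))) (PT.nd (nat_lit 78) (PT.lf (nat_lit 24168) (nat_lit 6) (nat_lit 318) (nat_lit 2) (nat_lit 178) (nat_lit 185) (nat_lit 147)) (PT.nd (nat_lit 78) (PT.lf (nat_lit 23636) (nat_lit 6) (nat_lit 311) (nat_lit 2) (nat_lit 179) (nat_lit 185) (nat_lit 146)) (PT.lf (nat_lit 23180) (nat_lit 6) (nat_lit 305) (nat_lit 2) (nat_lit 180) (nat_lit 185) (nat_lit 145)))))) (PT.nd (nat_lit 390) (PT.nd (nat_lit 156) (PT.nd (nat_lit 78) (PT.lf (nat_lit 22648) (nat_lit 6) (nat_lit 298) (nat_lit 2) (nat_lit 181) (nat_lit 185) (nat_lit 144)) (PT.lf (nat_lit 22192) (nat_lit 6) (nat_lit 292) (nat_lit 2) (nat_lit 182) (nat_lit 185)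 (nat_lit 143))) (PT.nd (nat_lit 78) (PT.lf (nat_lit 21736) (nat_lit 6) (nat_lit 286) (nat_lit 2) (nat_lit 183) (nat_lit 185) (nat_lit 142)) (PT.nd (nat_lit 78) (PT.lf (nat_lit 21356) (nat_lit 6) (nat_lit 281) (nat_lit 2) (nat_lit 184) (nat_lit 185) (nat_lit 141)) (PT.lf (nat_lit 20900) (nat_lit 3) (nat_lit 275) (nat_lit 0) (nat_lit 185) (nat_lit 185) (nat_lit 140))))) (PT.nd (nat_lit 234) (PT.nd (nat_lit 78) (PT.lf (nat_lit 20444) (nat_lit 6) (nat_lit 269) (nat_lit 0) (nat_lit 186) (nat_lit 185) (nat_lit 139)) (PT.nd (nat_lit 78) (PT.lf (nat_lit 19988) (nat_lit 6) (nat_lit 263) (nat_lit 0) (nat_lit 187) (nat_lit 185) (nat_lit 138)) (PT.lf (nat_lit 19532) (nat_lit 6) (nat_lit 257) (nat_lit 0) (nat_lit 188) (nat_lit 185) (nat_lit 137)))) (PT.nd (nat_lit 78) (PT.lf (nat_lit 19076) (nat_lit 6) (nat_lit 251) (nat_lit 0) (nat_lit 189) (nat_lit 185) (nat_lit 136)) (PT.nd (nat_lit 78) (PT.lf (nat_lit 18696)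 (nat_lit 6) (nat_lit 246) (nat_lit 0) (nat_lit 190) (nat_lit 185) (nat_lit 135)) (PT.lf (nat_lit 18240) (nat_lit 6) (nat_lit 240) (nat_lit 0) (nat_lit 191) (nat_lit 185) (nat_lit 134))))))) (PT.nd (nat_lit 49062) (PT.nd (nat_lit 48594) (PT.nd (nat_lit 48360) (PT.nd (nat_lit 78) (PT.lf (nat_lit 17860) (nat_lit 6) (nat_lit 235) (nat_lit 0) (nat_lit 192) (nat_lit 185) (nat_lit 133)) (PT.lf (nat_lit 17480) (nat_lit 6) (nat_lit 230) (nat_lit 0) (nat_lit 193) (nat_lit 185) (nat_lit 132))) (PT.nd (nat_lit 78) (PT.lf (nat_lit 17176) (nat_lit 6) (nat_lit 226) (nat_lit 5) (nat_lit 131) (nat_lit 186) (nat_lit 193)) (PT.nd (nat_lit 78) (PT.lf (nat_lit 17556) (nat_lit 6) (nat_lit 231) (nat_lit 5) (nat_lit 132) (nat_lit 186) (nat_lit 192)) (PT.lf (nat_lit 17936) (nat_lit 6) (nat_lit 236) (nat_lit 5) (nat_lit 133) (nat_lit 186) (nat_lit 191))))) (PT.nd (nat_lit 234) (PT.nd (nat_lit 78) (PT.lf (nat_lit 18316) (nat_lit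 6) (nat_lit 241) (nat_lit 5) (nat_lit 134) (nat_lit 186) (nat_lit 190)) (PT.nd (nat_lit 78) (PT.lf (nat_lit 18772) (nat_lit 6) (nat_lit 247) (nat_lit 5) (nat_lit 135) (nat_lit 186) (nat_lit 189)) (PT.lf (nat_lit 19152) (nat_lit 6) (nat_lit 252) (nat_lit 5) (nat_lit 136) (nat_lit 186) (nat_lit 188)))) (PT.nd (nat_lit 78) (PT.lf (nat_lit 19608) (nat_lit 6) (nat_lit 258) (nat_lit 5) (nat_lit 137) (nat_lit 186) (nat_lit 187)) (PT.nd (nat_lit 78) (PT.lf (nat_lit 20064) (nat_lit 3) (nat_lit 264) (nat_lit 4) (nat_lit 138) (nat_lit 186) (nat_lit 186)) (PT.lf (nat_lit 20444) (nat_lit 6) (nat_lit 269) (nat_lit 4) (nat_lit 139) (nat_lit 186) (nat_lit 185)))))) (PT.nd (nat_lit 390) (PT.nd (nat_lit 156) (PT.nd (nat_lit 78) (PT.lf (nat_lit 20824) (nat_lit 6) (nat_lit 274) (nat_lit 4) (nat_lit 140) (nat_lit 186) (nat_lit 184)) (PT.lf (nat_lit 21280) (nat_lit 6) (nat_lit 280) (nat_lit 4) (nat_lit 141) (nat_lit 186)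 (nat_lit 183))) (PT.nd (nat_lit 78) (PT.lf (nat_lit 21660) (nat_lit 6) (nat_lit 285) (nat_lit 4) (nat_lit 142) (nat_lit 186) (nat_lit 182)) (PT.nd (nat_lit 78) (PT.lf (nat_lit 22116) (nat_lit 6) (nat_lit 291) (nat_lit 4) (nat_lit 143) (nat_lit 186) (nat_lit 181)) (PT.lf (nat_lit 22572) (nat_lit 6) (nat_lit 297) (nat_lit 4) (nat_lit 144) (nat_lit 186) (nat_lit 180))))) (PT.nd (nat_lit 234) (PT.nd (nat_lit 78) (PT.lf (nat_lit 23104) (nat_lit 6) (nat_lit 304) (nat_lit 4) (nat_lit 145) (nat_lit 186) (nat_lit 179)) (PT.nd (nat_lit 78) (PT.lf (nat_lit 23560) (nat_lit 6) (nat_lit 310) (nat_lit 4) (nat_lit 146) (nat_lit 186) (nat_lit 178)) (PT.lf (nat_lit 24092) (nat_lit 6) (nat_lit 317) (nat_lit 4) (nat_lit 147) (nat_lit 186) (nat_lit 177)))) (PT.nd (nat_lit 78) (PT.lf (nat_lit 24624) (nat_lit 6) (nat_lit 324) (nat_lit 4) (nat_lit 148) (nat_lit 186) (nat_lit 176)) (PT.nd (nat_lit 78) (PT.lf (nat_lit 25232)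 (nat_lit 6) (nat_lit 332) (nat_lit 4) (nat_lit 149) (nat_lit 186) (nat_lit 175)) (PT.lf (nat_lit 25764) (nat_lit 6) (nat_lit 339) (nat_lit 4) (nat_lit 150) (nat_lit 186) (nat_lit 174))))))))
noncomputable def pc42 : PT := (PT.nd (nat_lit 1638) (PT.nd (nat_lit 780) (PT.nd (nat_lit 390) (PT.nd (nat_lit 156) (PT.nd (nat_lit 78) (PT.lf (nat_lit 26372) (nat_lit 6) (nat_lit 347) (nat_lit 4) (nat_lit 151) (nat_lit 186) (nat_lit 173)) (PT.lf (nat_lit 26980) (nat_lit 6) (nat_lit 355) (nat_lit 4) (nat_lit 152) (nat_lit 186) (nat_lit 172))) (PT.nd (nat_lit 78) (PT.lf (nat_lit 27816) (nat_lit 6) (nat_lit 366) (nat_lit 4) (nat_lit 153) (nat_lit 186) (nat_lit 171)) (PT.nd (nat_lit 78) (PT.lf (nat_lit 29032) (nat_lit 6) (nat_lit 382) (nat_lit 4) (nat_lit 154) (nat_lit 186) (nat_lit 170)) (PT.lf (nat_lit 28956) (nat_lit 6) (nat_lit 381) (nat_lit 4) (nat_lit 155) (nat_lit 186) (nat_lit 169))))) (PT.nd (nat_lit 156)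 (PT.nd (nat_lit 78) (PT.lf (nat_lit 28880) (nat_lit 6) (nat_lit 380) (nat_lit 4) (nat_lit 156) (nat_lit 186) (nat_lit 168)) (PT.lf (nat_lit 28804) (nat_lit 6) (nat_lit 379) (nat_lit 4) (nat_lit 157) (nat_lit 186) (nat_lit 167))) (PT.nd (nat_lit 78) (PT.lf (nat_lit 28728) (nat_lit 6) (nat_lit 378) (nat_lit 4) (nat_lit 158) (nat_lit 186) (nat_lit 166)) (PT.nd (nat_lit 78) (PT.lf (nat_lit 28652) (nat_lit 6) (nat_lit 377) (nat_lit 4) (nat_lit 159) (nat_lit 186) (nat_lit 165)) (PT.lf (nat_lit 28576) (nat_lit 6) (nat_lit 376) (nat_lit 4) (nat_lit 160) (nat_lit 186) (nat_lit 164)))))) (PT.nd (nat_lit 390) (PT.nd (nat_lit 156) (PT.nd (nat_lit 78) (PT.lf (nat_lit 28500) (nat_lit 6) (nat_lit 375) (nat_lit 4) (nat_lit 161) (nat_lit 186) (nat_lit 163)) (PT.lf (nat_lit 28424) (nat_lit 3) (nat_lit 374) (nat_lit 2) (nat_lit 162) (nat_lit 186) (nat_lit 162))) (PT.nd (nat_lit 78) (PT.lf (nat_lit 28500) (nat_lit 6) (nat_lit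 375) (nat_lit 2) (nat_lit 163) (nat_lit 186) (nat_lit 161)) (PT.nd (nat_lit 78) (PT.lf (nat_lit 28576) (nat_lit 6) (nat_lit 376) (nat_lit 2) (nat_lit 164) (nat_lit 186) (nat_lit 160)) (PT.lf (nat_lit 28652) (nat_lit 6) (nat_lit 377) (nat_lit 2) (nat_lit 165) (nat_lit 186) (nat_lit 159))))) (PT.nd (nat_lit 234) (PT.nd (nat_lit 78) (PT.lf (nat_lit 28728) (nat_lit 6) (nat_lit 378) (nat_lit 2) (nat_lit 166) (nat_lit 186) (nat_lit 158)) (PT.nd (nat_lit 78) (PT.lf (nat_lit 28804) (nat_lit 6) (nat_lit 379) (nat_lit 2) (nat_lit 167) (nat_lit 186) (nat_lit 157)) (PT.lf (nat_lit 28880) (nat_lit 6) (nat_lit 380) (nat_lit 2) (nat_lit 168) (nat_lit 186) (nat_lit 156)))) (PT.nd (nat_lit 78) (PT.lf (nat_lit 28956) (nat_lit 6) (nat_lit 381) (nat_lit 2) (nat_lit 169) (nat_lit 186) (nat_lit 155)) (PT.nd (nat_lit 78) (PT.lf (nat_lit 29032) (nat_lit 6) (nat_lit 382) (nat_lit 2) (nat_lit 170) (nat_lit 186) (nat_lit 154))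 (PT.lf (nat_lit 27816) (nat_lit 6) (nat_lit 366) (nat_lit 2) (nat_lit 171) (nat_lit 186) (nat_lit 153))))))) (PT.nd (nat_lit 858) (PT.nd (nat_lit 390) (PT.nd (nat_lit 156) (PT.nd (nat_lit 78) (PT.lf (nat_lit 26980) (nat_lit 6) (nat_lit 355) (nat_lit 2) (nat_lit 172) (nat_lit 186) (nat_lit 152)) (PT.lf (nat_lit 26372) (nat_lit 6) (nat_lit 347) (nat_lit 2) (nat_lit 173) (nat_lit 186) (nat_lit 151))) (PT.nd (nat_lit 78) (PT.lf (nat_lit 25764) (nat_lit 6) (nat_lit 339) (nat_lit 2) (nat_lit 174) (nat_lit 186) (nat_lit 150)) (PT.nd (nat_lit 78) (PT.lf (nat_lit 25232) (nat_lit 6) (nat_lit 332) (nat_lit 2) (nat_lit 175) (nat_lit 186) (nat_lit 149)) (PT.lf (nat_lit 24624) (nat_lit 6) (nat_lit 324) (nat_lit 2) (nat_lit 176) (nat_lit 186) (nat_lit 148))))) (PT.nd (nat_lit 234) (PT.nd (nat_lit 78) (PT.lf (nat_lit 24092) (nat_lit 6) (nat_lit 317) (nat_lit 2) (nat_lit 177) (nat_lit 186) (nat_lit 147)) (PT.nd (nat_lit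 78) (PT.lf (nat_lit 23560) (nat_lit 6) (nat_lit 310) (nat_lit 2) (nat_lit 178) (nat_lit 186) (nat_lit 146)) (PT.lf (nat_lit 23104) (nat_lit 6) (nat_lit 304) (nat_lit 2) (nat_lit 179) (nat_lit 186) (nat_lit 145)))) (PT.nd (nat_lit 78) (PT.lf (nat_lit 22572) (nat_lit 6) (nat_lit 297) (nat_lit 2) (nat_lit 180) (nat_lit 186) (nat_lit 144)) (PT.nd (nat_lit 78) (PT.lf (nat_lit 22116) (nat_lit 6) (nat_lit 291) (nat_lit 2) (nat_lit 181) (nat_lit 186) (nat_lit 143)) (PT.lf (nat_lit 21660) (nat_lit 6) (nat_lit 285) (nat_lit 2) (nat_lit 182) (nat_lit 186) (nat_lit 142)))))) (PT.nd (nat_lit 390) (PT.nd (nat_lit 156) (PT.nd (nat_lit 78) (PT.lf (nat_lit 21280) (nat_lit 6) (nat_lit 280) (nat_lit 2) (nat_lit 183) (nat_lit 186) (nat_lit 141)) (PT.lf (nat_lit 20824) (nat_lit 6) (nat_lit 274) (nat_lit 2) (nat_lit 184) (nat_lit 186) (nat_lit 140))) (PT.nd (nat_lit 78) (PT.lf (nat_lit 20444) (nat_lit 6) (nat_lit 269) (nat_lit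 2) (nat_lit 185) (nat_lit 186) (nat_lit 139)) (PT.nd (nat_lit 78) (PT.lf (nat_lit 20064) (nat_lit 3) (nat_lit 264) (nat_lit 0) (nat_lit 186) (nat_lit 186) (nat_lit 138)) (PT.lf (nat_lit 19608) (nat_lit 6) (nat_lit 258) (nat_lit 0) (nat_lit 187) (nat_lit 186) (nat_lit 137))))) (PT.nd (nat_lit 234) (PT.nd (nat_lit 78) (PT.lf (nat_lit 19152) (nat_lit 6) (nat_lit 252) (nat_lit 0) (nat_lit 188) (nat_lit 186) (nat_lit 136)) (PT.nd (nat_lit 78) (PT.lf (nat_lit 18772) (nat_lit 6) (nat_lit 247) (nat_lit 0) (nat_lit 189) (nat_lit 186) (nat_lit 135)) (PT.lf (nat_lit 18316) (nat_lit 6) (nat_lit 241) (nat_lit 0) (nat_lit 190) (nat_lit 186) (nat_lit 134)))) (PT.nd (nat_lit 78) (PT.lf (nat_lit 17936) (nat_lit 6) (nat_lit 236) (nat_lit 0) (nat_lit 191) (nat_lit 186) (nat_lit 133)) (PT.nd (nat_lit 78) (PT.lf (nat_lit 17556) (nat_lit 6) (nat_lit 231) (nat_lit 0) (nat_lit 192) (nat_lit 186) (nat_lit 132)) (PT.lf (nat_lit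 17176) (nat_lit 6) (nat_lit 226) (nat_lit 0) (nat_lit 193) (nat_lit 186) (nat_lit 131))))))))
noncomputable def pc43 : PT := (PT.nd (nat_lit 1716) (PT.nd (nat_lit 858) (PT.nd (nat_lit 390) (PT.nd (nat_lit 156) (PT.nd (nat_lit 78) (PT.lf (nat_lit 16568) (nat_lit 6) (nat_lit 218) (nat_lit 5) (nat_lit 129) (nat_lit 187) (nat_lit 194)) (PT.lf (nat_lit 16872) (nat_lit 6) (nat_lit 222) (nat_lit 5) (nat_lit 130) (nat_lit 187) (nat_lit 193))) (PT.nd (nat_lit 78) (PT.lf (nat_lit 17252) (nat_lit 6) (nat_lit 227) (nat_lit 5) (nat_lit 131) (nat_lit 187) (nat_lit 192)) (PT.nd (nat_lit 78) (PT.lf (nat_lit 17632) (nat_lit 6) (nat_lit 232) (nat_lit 5) (nat_lit 132) (nat_lit 187) (nat_lit 191)) (PT.lf (nat_lit 18012) (nat_lit 6) (nat_lit 237) (nat_lit 5) (nat_lit 133) (nat_lit 187) (nat_lit 190))))) (PT.nd (nat_lit 234) (PT.nd (nat_lit 78) (PT.lf (nat_lit 18392) (nat_lit 6) (nat_lit 242) (nat_lit 5) (nat_lit 134) (nat_lit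 187) (nat_lit 189)) (PT.nd (nat_lit 78) (PT.lf (nat_lit 18848) (nat_lit 6) (nat_lit 248) (nat_lit 5) (nat_lit 135) (nat_lit 187) (nat_lit 188)) (PT.lf (nat_lit 19228) (nat_lit 3) (nat_lit 253) (nat_lit 4) (nat_lit 136) (nat_lit 187) (nat_lit 187)))) (PT.nd (nat_lit 78) (PT.lf (nat_lit 19608) (nat_lit 6) (nat_lit 258) (nat_lit 4) (nat_lit 137) (nat_lit 187) (nat_lit 186)) (PT.nd (nat_lit 78) (PT.lf (nat_lit 19988) (nat_lit 6) (nat_lit 263) (nat_lit 4) (nat_lit 138) (nat_lit 187) (nat_lit 185)) (PT.lf (nat_lit 20368) (nat_lit 6) (nat_lit 268) (nat_lit 4) (nat_lit 139) (nat_lit 187) (nat_lit 184)))))) (PT.nd (nat_lit 390) (PT.nd (nat_lit 156) (PT.nd (nat_lit 78) (PT.lf (nat_lit 20748) (nat_lit 6) (nat_lit 273) (nat_lit 4) (nat_lit 140) (nat_lit 187) (nat_lit 183)) (PT.lf (nat_lit 21204) (nat_lit 6) (nat_lit 279) (nat_lit 4) (nat_lit 141) (nat_lit 187) (nat_lit 182))) (PT.nd (nat_lit 78) (PT.lf (nat_lit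 21584) (nat_lit 6) (nat_lit 284) (nat_lit 4) (nat_lit 142) (nat_lit 187) (nat_lit 181)) (PT.nd (nat_lit 78) (PT.lf (nat_lit 22040) (nat_lit 6) (nat_lit 290) (nat_lit 4) (nat_lit 143) (nat_lit 187) (nat_lit 180)) (PT.lf (nat_lit 22496) (nat_lit 6) (nat_lit 296) (nat_lit 4) (nat_lit 144) (nat_lit 187) (nat_lit 179))))) (PT.nd (nat_lit 234) (PT.nd (nat_lit 78) (PT.lf (nat_lit 23028) (nat_lit 6) (nat_lit 303) (nat_lit 4) (nat_lit 145) (nat_lit 187) (nat_lit 178)) (PT.nd (nat_lit 78) (PT.lf (nat_lit 23484) (nat_lit 6) (nat_lit 309) (nat_lit 4) (nat_lit 146) (nat_lit 187) (nat_lit 177)) (PT.lf (nat_lit 24016) (nat_lit 6) (nat_lit 316) (nat_lit 4) (nat_lit 147) (nat_lit 187) (nat_lit 176)))) (PT.nd (nat_lit 78) (PT.lf (nat_lit 24548) (nat_lit 6) (nat_lit 323) (nat_lit 4) (nat_lit 148) (nat_lit 187) (nat_lit 175)) (PT.nd (nat_lit 78) (PT.lf (nat_lit 25156) (nat_lit 6) (nat_lit 331) (nat_lit 4) (nat_lit 149)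 (nat_lit 187) (nat_lit 174)) (PT.lf (nat_lit 25688) (nat_lit 6) (nat_lit 338) (nat_lit 4) (nat_lit 150) (nat_lit 187) (nat_lit 173))))))) (PT.nd (nat_lit 1794) (PT.nd (nat_lit 1326) (PT.nd (nat_lit 156) (PT.nd (nat_lit 78) (PT.lf (nat_lit 26296) (nat_lit 6) (nat_lit 346) (nat_lit 4) (nat_lit 151) (nat_lit 187) (nat_lit 172)) (PT.lf (nat_lit 26904) (nat_lit 6) (nat_lit 354) (nat_lit 4) (nat_lit 152) (nat_lit 187) (nat_lit 171))) (PT.nd (nat_lit 78) (PT.lf (nat_lit 27740) (nat_lit 6) (nat_lit 365) (nat_lit 4) (nat_lit 153) (nat_lit 187) (nat_lit 170)) (PT.nd (nat_lit 78) (PT.lf (nat_lit 27664) (nat_lit 6) (nat_lit 364) (nat_lit 4) (nat_lit 154) (nat_lit 187) (nat_lit 169)) (PT.lf (nat_lit 27588) (nat_lit 6) (nat_lit 363) (nat_lit 4) (nat_lit 155) (nat_lit 187) (nat_lit 168))))) (PT.nd (nat_lit 234) (PT.nd (nat_lit 78) (PT.lf (nat_lit 27588) (nat_lit 6) (nat_lit 363) (nat_lit 2) (nat_lit 168) (nat_lit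 187) (nat_lit 155)) (PT.nd (nat_lit 78) (PT.lf (nat_lit 27664) (nat_lit 6) (nat_lit 364) (nat_lit 2) (nat_lit 169) (nat_lit 187) (nat_lit 154)) (PT.lf (nat_lit 27740) (nat_lit 6) (nat_lit 365) (nat_lit 2) (nat_lit 170) (nat_lit 187) (nat_lit 153)))) (PT.nd (nat_lit 78) (PT.lf (nat_lit 26904) (nat_lit 6) (nat_lit 354) (nat_lit 2) (nat_lit 171) (nat_lit 187) (nat_lit 152)) (PT.nd (nat_lit 78) (PT.lf (nat_lit 26296) (nat_lit 6) (nat_lit 346) (nat_lit 2) (nat_lit 172) (nat_lit 187) (nat_lit 151)) (PT.lf (nat_lit 25688) (nat_lit 6) (nat_lit 338) (nat_lit 2) (nat_lit 173) (nat_lit 187) (nat_lit 150)))))) (PT.nd (nat_lit 390) (PT.nd (nat_lit 156) (PT.nd (nat_lit 78) (PT.lf (nat_lit 25156) (nat_lit 6) (nat_lit 331) (nat_lit 2) (nat_lit 174) (nat_lit 187) (nat_lit 149)) (PT.lf (nat_lit 24548) (nat_lit 6) (nat_lit 323) (nat_lit 2) (nat_lit 175) (nat_lit 187) (nat_lit 148))) (PT.nd (nat_lit 78) (PT.lf (nat_lit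 24016) (nat_lit 6) (nat_lit 316) (nat_lit 2) (nat_lit 176) (nat_lit 187) (nat_lit 147)) (PT.nd (nat_lit 78) (PT.lf (nat_lit 23484) (nat_lit 6) (nat_lit 309) (nat_lit 2) (nat_lit 177) (nat_lit 187) (nat_lit 146)) (PT.lf (nat_lit 23028) (nat_lit 6) (nat_lit 303) (nat_lit 2) (nat_lit 178) (nat_lit 187) (nat_lit 145))))) (PT.nd (nat_lit 234) (PT.nd (nat_lit 78) (PT.lf (nat_lit 22496) (nat_lit 6) (nat_lit 296) (nat_lit 2) (nat_lit 179) (nat_lit 187) (nat_lit 144)) (PT.nd (nat_lit 78) (PT.lf (nat_lit 22040) (nat_lit 6) (nat_lit 290) (nat_lit 2) (nat_lit 180) (nat_lit 187) (nat_lit 143)) (PT.lf (nat_lit 21584) (nat_lit 6) (nat_lit 284) (nat_lit 2) (nat_lit 181) (nat_lit 187) (nat_lit 142)))) (PT.nd (nat_lit 78) (PT.lf (nat_lit 21204) (nat_lit 6) (nat_lit 279) (nat_lit 2) (nat_lit 182) (nat_lit 187) (nat_lit 141)) (PT.nd (nat_lit 78) (PT.lf (nat_lit 20748) (nat_lit 6) (nat_lit 273) (nat_lit 2) (nat_lit 183)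 (nat_lit 187) (nat_lit 140)) (PT.lf (nat_lit 20368) (nat_lit 6) (nat_lit 268) (nat_lit 2) (nat_lit 184) (nat_lit 187) (nat_lit 139))))))))
noncomputable def pc44 : PT := (PT.nd (nat_lit 49452) (PT.nd (nat_lit 48594) (PT.nd (nat_lit 390) (PT.nd (nat_lit 156) (PT.nd (nat_lit 78) (PT.lf (nat_lit 19988) (nat_lit 6) (nat_lit 263) (nat_lit 2) (nat_lit 185) (nat_lit 187) (nat_lit 138)) (PT.lf (nat_lit 19608) (nat_lit 6) (nat_lit 258) (nat_lit 2) (nat_lit 186) (nat_lit 187) (nat_lit 137))) (PT.nd (nat_lit 78) (PT.lf (nat_lit 19228) (nat_lit 3) (nat_lit 253) (nat_lit 0) (nat_lit 187) (nat_lit 187) (nat_lit 136)) (PT.nd (nat_lit 78) (PT.lf (nat_lit 18848) (nat_lit 6) (nat_lit 248) (nat_lit 0) (nat_lit 188) (nat_lit 187) (nat_lit 135)) (PT.lf (nat_lit 18392) (nat_lit 6) (nat_lit 242) (nat_lit 0) (nat_lit 189) (nat_lit 187) (nat_lit 134))))) (PT.nd (nat_lit 156) (PT.nd (nat_lit 78) (PT.lf (nat_lit 18012) (nat_lit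 6) (nat_lit 237) (nat_lit 0) (nat_lit 190) (nat_lit 187) (nat_lit 133)) (PT.lf (nat_lit 17632) (nat_lit 6) (nat_lit 232) (nat_lit 0) (nat_lit 191) (nat_lit 187) (nat_lit 132))) (PT.nd (nat_lit 78) (PT.lf (nat_lit 17252) (nat_lit 6) (nat_lit 227) (nat_lit 0) (nat_lit 192) (nat_lit 187) (nat_lit 131)) (PT.nd (nat_lit 78) (PT.lf (nat_lit 16872) (nat_lit 6) (nat_lit 222) (nat_lit 0) (nat_lit 193) (nat_lit 187) (nat_lit 130)) (PT.lf (nat_lit 16568) (nat_lit 6) (nat_lit 218) (nat_lit 0) (nat_lit 194) (nat_lit 187) (nat_lit 129)))))) (PT.nd (nat_lit 390) (PT.nd (nat_lit 156) (PT.nd (nat_lit 78) (PT.lf (nat_lit 15960) (nat_lit 6) (nat_lit 210) (nat_lit 5) (nat_lit 127) (nat_lit 188) (nat_lit 195)) (PT.lf (nat_lit 16264) (nat_lit 6) (nat_lit 214) (nat_lit 5) (nat_lit 128) (nat_lit 188) (nat_lit 194))) (PT.nd (nat_lit 78) (PT.lf (nat_lit 16644) (nat_lit 6) (nat_lit 219) (nat_lit 5) (nat_lit 129) (nat_lit 188)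 (nat_lit 193)) (PT.nd (nat_lit 78) (PT.lf (nat_lit 16948) (nat_lit 6) (nat_lit 223) (nat_lit 5) (nat_lit 130) (nat_lit 188) (nat_lit 192)) (PT.lf (nat_lit 17328) (nat_lit 6) (nat_lit 228) (nat_lit 5) (nat_lit 131) (nat_lit 188) (nat_lit 191))))) (PT.nd (nat_lit 234) (PT.nd (nat_lit 78) (PT.lf (nat_lit 17708) (nat_lit 6) (nat_lit 233) (nat_lit 5) (nat_lit 132) (nat_lit 188) (nat_lit 190)) (PT.nd (nat_lit 78) (PT.lf (nat_lit 18088) (nat_lit 6) (nat_lit 238) (nat_lit 5) (nat_lit 133) (nat_lit 188) (nat_lit 189)) (PT.lf (nat_lit 18468) (nat_lit 3) (nat_lit 243) (nat_lit 4) (nat_lit 134) (nat_lit 188) (nat_lit 188)))) (PT.nd (nat_lit 78) (PT.lf (nat_lit 18848) (nat_lit 6) (nat_lit 248) (nat_lit 4) (nat_lit 135) (nat_lit 188) (nat_lit 187)) (PT.nd (nat_lit 78) (PT.lf (nat_lit 19152) (nat_lit 6) (nat_lit 252) (nat_lit 4) (nat_lit 136) (nat_lit 188) (nat_lit 186)) (PT.lf (nat_lit 19532) (nat_lit 6) (nat_lit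 257) (nat_lit 4) (nat_lit 137) (nat_lit 188) (nat_lit 185))))))) (PT.nd (nat_lit 858) (PT.nd (nat_lit 390) (PT.nd (nat_lit 156) (PT.nd (nat_lit 78) (PT.lf (nat_lit 19912) (nat_lit 6) (nat_lit 262) (nat_lit 4) (nat_lit 138) (nat_lit 188) (nat_lit 184)) (PT.lf (nat_lit 20292) (nat_lit 6) (nat_lit 267) (nat_lit 4) (nat_lit 139) (nat_lit 188) (nat_lit 183))) (PT.nd (nat_lit 78) (PT.lf (nat_lit 20672) (nat_lit 6) (nat_lit 272) (nat_lit 4) (nat_lit 140) (nat_lit 188) (nat_lit 182)) (PT.nd (nat_lit 78) (PT.lf (nat_lit 21128) (nat_lit 6) (nat_lit 278) (nat_lit 4) (nat_lit 141) (nat_lit 188) (nat_lit 181)) (PT.lf (nat_lit 21508) (nat_lit 6) (nat_lit 283) (nat_lit 4) (nat_lit 142) (nat_lit 188) (nat_lit 180))))) (PT.nd (nat_lit 234) (PT.nd (nat_lit 78) (PT.lf (nat_lit 21964) (nat_lit 6) (nat_lit 289) (nat_lit 4) (nat_lit 143) (nat_lit 188) (nat_lit 179)) (PT.nd (nat_lit 78) (PT.lf (nat_lit 22420) (nat_lit 6)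 (nat_lit 295) (nat_lit 4) (nat_lit 144) (nat_lit 188) (nat_lit 178)) (PT.lf (nat_lit 22952) (nat_lit 6) (nat_lit 302) (nat_lit 4) (nat_lit 145) (nat_lit 188) (nat_lit 177)))) (PT.nd (nat_lit 78) (PT.lf (nat_lit 23408) (nat_lit 6) (nat_lit 308) (nat_lit 4) (nat_lit 146) (nat_lit 188) (nat_lit 176)) (PT.nd (nat_lit 78) (PT.lf (nat_lit 23940) (nat_lit 6) (nat_lit 315) (nat_lit 4) (nat_lit 147) (nat_lit 188) (nat_lit 175)) (PT.lf (nat_lit 24472) (nat_lit 6) (nat_lit 322) (nat_lit 4) (nat_lit 148) (nat_lit 188) (nat_lit 174)))))) (PT.nd (nat_lit 2184) (PT.nd (nat_lit 1950) (PT.nd (nat_lit 1872) (PT.lf (nat_lit 25080) (nat_lit 6) (nat_lit 330) (nat_lit 4) (nat_lit 149) (nat_lit 188) (nat_lit 173)) (PT.lf (nat_lit 25080) (nat_lit 6) (nat_lit 330) (nat_lit 2) (nat_lit 173) (nat_lit 188) (nat_lit 149))) (PT.nd (nat_lit 78) (PT.lf (nat_lit 24472) (nat_lit 6) (nat_lit 322) (nat_lit 2) (nat_lit 174) (nat_lit 188)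 (nat_lit 148)) (PT.nd (nat_lit 78) (PT.lf (nat_lit 23940) (nat_lit 6) (nat_lit 315) (nat_lit 2) (nat_lit 175) (nat_lit 188) (nat_lit 147)) (PT.lf (nat_lit 23408) (nat_lit 6) (nat_lit 308) (nat_lit 2) (nat_lit 176) (nat_lit 188) (nat_lit 146))))) (PT.nd (nat_lit 234) (PT.nd (nat_lit 78) (PT.lf (nat_lit 22952) (nat_lit 6) (nat_lit 302) (nat_lit 2) (nat_lit 177) (nat_lit 188) (nat_lit 145)) (PT.nd (nat_lit 78) (PT.lf (nat_lit 22420) (nat_lit 6) (nat_lit 295) (nat_lit 2) (nat_lit 178) (nat_lit 188) (nat_lit 144)) (PT.lf (nat_lit 21964) (nat_lit 6) (nat_lit 289) (nat_lit 2) (nat_lit 179) (nat_lit 188) (nat_lit 143)))) (PT.nd (nat_lit 78) (PT.lf (nat_lit 21508) (nat_lit 6) (nat_lit 283) (nat_lit 2) (nat_lit 180) (nat_lit 188) (nat_lit 142)) (PT.nd (nat_lit 78) (PT.lf (nat_lit 21128) (nat_lit 6) (nat_lit 278) (nat_lit 2) (nat_lit 181) (nat_lit 188) (nat_lit 141)) (PT.lf (nat_lit 20672) (nat_lit 6) (nat_lit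 272) (nat_lit 2) (nat_lit 182) (nat_lit 188) (nat_lit 140))))))))
noncomputable def pc45 : PT := (PT.nd (nat_lit 49374) (PT.nd (nat_lit 858) (PT.nd (nat_lit 390) (PT.nd (nat_lit 156) (PT.nd (nat_lit 78) (PT.lf (nat_lit 20292) (nat_lit 6) (nat_lit 267) (nat_lit 2) (nat_lit 183) (nat_lit 188) (nat_lit 139)) (PT.lf (nat_lit 19912) (nat_lit 6) (nat_lit 262) (nat_lit 2) (nat_lit 184) (nat_lit 188) (nat_lit 138))) (PT.nd (nat_lit 78) (PT.lf (nat_lit 19532) (nat_lit 6) (nat_lit 257) (nat_lit 2) (nat_lit 185) (nat_lit 188) (nat_lit 137)) (PT.nd (nat_lit 78) (PT.lf (nat_lit 19152) (nat_lit 6) (nat_lit 252) (nat_lit 2) (nat_lit 186) (nat_lit 188) (nat_lit 136)) (PT.lf (nat_lit 18848) (nat_lit 6) (nat_lit 248) (nat_lit 2) (nat_lit 187) (nat_lit 188) (nat_lit 135))))) (PT.nd (nat_lit 234) (PT.nd (nat_lit 78) (PT.lf (nat_lit 18468) (nat_lit 3) (nat_lit 243) (nat_lit 0) (nat_lit 188) (nat_lit 188) (nat_lit 134))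 (PT.nd (nat_lit 78) (PT.lf (nat_lit 18088) (nat_lit 6) (nat_lit 238) (nat_lit 0) (nat_lit 189) (nat_lit 188) (nat_lit 133)) (PT.lf (nat_lit 17708) (nat_lit 6) (nat_lit 233) (nat_lit 0) (nat_lit 190) (nat_lit 188) (nat_lit 132)))) (PT.nd (nat_lit 78) (PT.lf (nat_lit 17328) (nat_lit 6) (nat_lit 228) (nat_lit 0) (nat_lit 191) (nat_lit 188) (nat_lit 131)) (PT.nd (nat_lit 78) (PT.lf (nat_lit 16948) (nat_lit 6) (nat_lit 223) (nat_lit 0) (nat_lit 192) (nat_lit 188) (nat_lit 130)) (PT.lf (nat_lit 16644) (nat_lit 6) (nat_lit 219) (nat_lit 0) (nat_lit 193) (nat_lit 188) (nat_lit 129)))))) (PT.nd (nat_lit 48048) (PT.nd (nat_lit 47814) (PT.nd (nat_lit 78) (PT.lf (nat_lit 16264) (nat_lit 6) (nat_lit 214) (nat_lit 0) (nat_lit 194) (nat_lit 188) (nat_lit 128)) (PT.lf (nat_lit 15960) (nat_lit 6) (nat_lit 210) (nat_lit 0) (nat_lit 195) (nat_lit 188) (nat_lit 127))) (PT.nd (nat_lit 78) (PT.lf (nat_lit 15656) (nat_lit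 6) (nat_lit 206) (nat_lit 5) (nat_lit 126) (nat_lit 189) (nat_lit 195)) (PT.nd (nat_lit 78) (PT.lf (nat_lit 16036) (nat_lit 6) (nat_lit 211) (nat_lit 5) (nat_lit 127) (nat_lit 189) (nat_lit 194)) (PT.lf (nat_lit 16340) (nat_lit 6) (nat_lit 215) (nat_lit 5) (nat_lit 128) (nat_lit 189) (nat_lit 193))))) (PT.nd (nat_lit 234) (PT.nd (nat_lit 78) (PT.lf (nat_lit 16720) (nat_lit 6) (nat_lit 220) (nat_lit 5) (nat_lit 129) (nat_lit 189) (nat_lit 192)) (PT.nd (nat_lit 78) (PT.lf (nat_lit 17024) (nat_lit 6) (nat_lit 224) (nat_lit 5) (nat_lit 130) (nat_lit 189) (nat_lit 191)) (PT.lf (nat_lit 17404) (nat_lit 6) (nat_lit 229) (nat_lit 5) (nat_lit 131) (nat_lit 189) (nat_lit 190)))) (PT.nd (nat_lit 78) (PT.lf (nat_lit 17784) (nat_lit 3) (nat_lit 234) (nat_lit 4) (nat_lit 132) (nat_lit 189) (nat_lit 189)) (PT.nd (nat_lit 78) (PT.lf (nat_lit 18088) (nat_lit 6) (nat_lit 238) (nat_lit 4) (nat_lit 133) (nat_lit 189) (nat_lit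 188)) (PT.lf (nat_lit 18392) (nat_lit 6) (nat_lit 242) (nat_lit 4) (nat_lit 134) (nat_lit 189) (nat_lit 187))))))) (PT.nd (nat_lit 3198) (PT.nd (nat_lit 390) (PT.nd (nat_lit 156) (PT.nd (nat_lit 78) (PT.lf (nat_lit 18772) (nat_lit 6) (nat_lit 247) (nat_lit 4) (nat_lit 135) (nat_lit 189) (nat_lit 186)) (PT.lf (nat_lit 19076) (nat_lit 6) (nat_lit 251) (nat_lit 4) (nat_lit 136) (nat_lit 189) (nat_lit 185))) (PT.nd (nat_lit 78) (PT.lf (nat_lit 19456) (nat_lit 6) (nat_lit 256) (nat_lit 4) (nat_lit 137) (nat_lit 189) (nat_lit 184)) (PT.nd (nat_lit 78) (PT.lf (nat_lit 19836) (nat_lit 6) (nat_lit 261) (nat_lit 4) (nat_lit 138) (nat_lit 189) (nat_lit 183)) (PT.lf (nat_lit 20216) (nat_lit 6) (nat_lit 266) (nat_lit 4) (nat_lit 139) (nat_lit 189) (nat_lit 182))))) (PT.nd (nat_lit 234) (PT.nd (nat_lit 78) (PT.lf (nat_lit 20596) (nat_lit 6) (nat_lit 271) (nat_lit 4) (nat_lit 140) (nat_lit 189) (nat_lit 181)) (PT.nd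 (nat_lit 78) (PT.lf (nat_lit 21052) (nat_lit 6) (nat_lit 277) (nat_lit 4) (nat_lit 141) (nat_lit 189) (nat_lit 180)) (PT.lf (nat_lit 21432) (nat_lit 6) (nat_lit 282) (nat_lit 4) (nat_lit 142) (nat_lit 189) (nat_lit 179)))) (PT.nd (nat_lit 78) (PT.lf (nat_lit 21888) (nat_lit 6) (nat_lit 288) (nat_lit 4) (nat_lit 143) (nat_lit 189) (nat_lit 178)) (PT.nd (nat_lit 78) (PT.lf (nat_lit 22344) (nat_lit 6) (nat_lit 294) (nat_lit 4) (nat_lit 144) (nat_lit 189) (nat_lit 177)) (PT.lf (nat_lit 22876) (nat_lit 6) (nat_lit 301) (nat_lit 4) (nat_lit 145) (nat_lit 189) (nat_lit 176)))))) (PT.nd (nat_lit 390) (PT.nd (nat_lit 156) (PT.nd (nat_lit 78) (PT.lf (nat_lit 22876) (nat_lit 6) (nat_lit 301) (nat_lit 2) (nat_lit 176) (nat_lit 189) (nat_lit 145)) (PT.lf (nat_lit 22344) (nat_lit 6) (nat_lit 294) (nat_lit 2) (nat_lit 177) (nat_lit 189) (nat_lit 144))) (PT.nd (nat_lit 78) (PT.lf (nat_lit 21888) (nat_lit 6) (nat_lit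 288) (nat_lit 2) (nat_lit 178) (nat_lit 189) (nat_lit 143)) (PT.nd (nat_lit 78) (PT.lf (nat_lit 21432) (nat_lit 6) (nat_lit 282) (nat_lit 2) (nat_lit 179) (nat_lit 189) (nat_lit 142)) (PT.lf (nat_lit 21052) (nat_lit 6) (nat_lit 277) (nat_lit 2) (nat_lit 180) (nat_lit 189) (nat_lit 141))))) (PT.nd (nat_lit 234) (PT.nd (nat_lit 78) (PT.lf (nat_lit 20596) (nat_lit 6) (nat_lit 271) (nat_lit 2) (nat_lit 181) (nat_lit 189) (nat_lit 140)) (PT.nd (nat_lit 78) (PT.lf (nat_lit 20216) (nat_lit 6) (nat_lit 266) (nat_lit 2) (nat_lit 182) (nat_lit 189) (nat_lit 139)) (PT.lf (nat_lit 19836) (nat_lit 6) (nat_lit 261) (nat_lit 2) (nat_lit 183) (nat_lit 189) (nat_lit 138)))) (PT.nd (nat_lit 78) (PT.lf (nat_lit 19456) (nat_lit 6) (nat_lit 256) (nat_lit 2) (nat_lit 184) (nat_lit 189) (nat_lit 137)) (PT.nd (nat_lit 78) (PT.lf (nat_lit 19076) (nat_lit 6) (nat_lit 251) (nat_lit 2) (nat_lit 185) (nat_lit 189) (nat_lit 136))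 (PT.lf (nat_lit 18772) (nat_lit 6) (nat_lit 247) (nat_lit 2) (nat_lit 186) (nat_lit 189) (nat_lit 135))))))))
noncomputable def pc46 : PT := (PT.nd (nat_lit 49218) (PT.nd (nat_lit 48360) (PT.nd (nat_lit 390) (PT.nd (nat_lit 156) (PT.nd (nat_lit 78) (PT.lf (nat_lit 18392) (nat_lit 6) (nat_lit 242) (nat_lit 2) (nat_lit 187) (nat_lit 189) (nat_lit 134)) (PT.lf (nat_lit 18088) (nat_lit 6) (nat_lit 238) (nat_lit 2) (nat_lit 188) (nat_lit 189) (nat_lit 133))) (PT.nd (nat_lit 78) (PT.lf (nat_lit 17784) (nat_lit 3) (nat_lit 234) (nat_lit 0) (nat_lit 189) (nat_lit 189) (nat_lit 132)) (PT.nd (nat_lit 78) (PT.lf (nat_lit 17404) (nat_lit 6) (nat_lit 229) (nat_lit 0) (nat_lit 190) (nat_lit 189) (nat_lit 131)) (PT.lf (nat_lit 17024) (nat_lit 6) (nat_lit 224) (nat_lit 0) (nat_lit 191) (nat_lit 189) (nat_lit 130))))) (PT.nd (nat_lit 234) (PT.nd (nat_lit 78) (PT.lf (nat_lit 16720) (nat_lit 6) (nat_lit 220) (nat_lit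 0) (nat_lit 192) (nat_lit 189) (nat_lit 129)) (PT.nd (nat_lit 78) (PT.lf (nat_lit 16340) (nat_lit 6) (nat_lit 215) (nat_lit 0) (nat_lit 193) (nat_lit 189) (nat_lit 128)) (PT.lf (nat_lit 16036) (nat_lit 6) (nat_lit 211) (nat_lit 0) (nat_lit 194) (nat_lit 189) (nat_lit 127)))) (PT.nd (nat_lit 47580) (PT.lf (nat_lit 15656) (nat_lit 6) (nat_lit 206) (nat_lit 0) (nat_lit 195) (nat_lit 189) (nat_lit 126)) (PT.nd (nat_lit 78) (PT.lf (nat_lit 15124) (nat_lit 6) (nat_lit 199) (nat_lit 5) (nat_lit 124) (nat_lit 190) (nat_lit 196)) (PT.lf (nat_lit 15428) (nat_lit 6) (nat_lit 203) (nat_lit 5) (nat_lit 125) (nat_lit 190) (nat_lit 195)))))) (PT.nd (nat_lit 390) (PT.nd (nat_lit 156) (PT.nd (nat_lit 78) (PT.lf (nat_lit 15732) (nat_lit 6) (nat_lit 207) (nat_lit 5) (nat_lit 126) (nat_lit 190) (nat_lit 194)) (PT.lf (nat_lit 16112) (nat_lit 6) (nat_lit 212) (nat_lit 5) (nat_lit 127) (nat_lit 190) (nat_lit 193))) (PT.nd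 (nat_lit 78) (PT.lf (nat_lit 16416) (nat_lit 6) (nat_lit 216) (nat_lit 5) (nat_lit 128) (nat_lit 190) (nat_lit 192)) (PT.nd (nat_lit 78) (PT.lf (nat_lit 16796) (nat_lit 6) (nat_lit 221) (nat_lit 5) (nat_lit 129) (nat_lit 190) (nat_lit 191)) (PT.lf (nat_lit 17100) (nat_lit 3) (nat_lit 225) (nat_lit 4) (nat_lit 130) (nat_lit 190) (nat_lit 190))))) (PT.nd (nat_lit 234) (PT.nd (nat_lit 78) (PT.lf (nat_lit 17404) (nat_lit 6) (nat_lit 229) (nat_lit 4) (nat_lit 131) (nat_lit 190) (nat_lit 189)) (PT.nd (nat_lit 78) (PT.lf (nat_lit 17708) (nat_lit 6) (nat_lit 233) (nat_lit 4) (nat_lit 132) (nat_lit 190) (nat_lit 188)) (PT.lf (nat_lit 18012) (nat_lit 6) (nat_lit 237) (nat_lit 4) (nat_lit 133) (nat_lit 190) (nat_lit 187)))) (PT.nd (nat_lit 78) (PT.lf (nat_lit 18316) (nat_lit 6) (nat_lit 241) (nat_lit 4) (nat_lit 134) (nat_lit 190) (nat_lit 186)) (PT.nd (nat_lit 78) (PT.lf (nat_lit 18696) (nat_lit 6) (nat_lit 246)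 (nat_lit 4) (nat_lit 135) (nat_lit 190) (nat_lit 185)) (PT.lf (nat_lit 19000) (nat_lit 6) (nat_lit 250) (nat_lit 4) (nat_lit 136) (nat_lit 190) (nat_lit 184))))))) (PT.nd (nat_lit 3744) (PT.nd (nat_lit 3276) (PT.nd (nat_lit 156) (PT.nd (nat_lit 78) (PT.lf (nat_lit 19380) (nat_lit 6) (nat_lit 255) (nat_lit 4) (nat_lit 137) (nat_lit 190) (nat_lit 183)) (PT.lf (nat_lit 19760) (nat_lit 6) (nat_lit 260) (nat_lit 4) (nat_lit 138) (nat_lit 190) (nat_lit 182))) (PT.nd (nat_lit 78) (PT.lf (nat_lit 20140) (nat_lit 6) (nat_lit 265) (nat_lit 4) (nat_lit 139) (nat_lit 190) (nat_lit 181)) (PT.nd (nat_lit 78) (PT.lf (nat_lit 20520) (nat_lit 6) (nat_lit 270) (nat_lit 4) (nat_lit 140) (nat_lit 190) (nat_lit 180)) (PT.lf (nat_lit 20976) (nat_lit 6) (nat_lit 276) (nat_lit 4) (nat_lit 141) (nat_lit 190) (nat_lit 179))))) (PT.nd (nat_lit 234) (PT.nd (nat_lit 78) (PT.lf (nat_lit 20976) (nat_lit 6) (nat_lit 276) (nat_lit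 2) (nat_lit 179) (nat_lit 190) (nat_lit 141)) (PT.nd (nat_lit 78) (PT.lf (nat_lit 20520) (nat_lit 6) (nat_lit 270) (nat_lit 2) (nat_lit 180) (nat_lit 190) (nat_lit 140)) (PT.lf (nat_lit 20140) (nat_lit 6) (nat_lit 265) (nat_lit 2) (nat_lit 181) (nat_lit 190) (nat_lit 139)))) (PT.nd (nat_lit 78) (PT.lf (nat_lit 19760) (nat_lit 6) (nat_lit 260) (nat_lit 2) (nat_lit 182) (nat_lit 190) (nat_lit 138)) (PT.nd (nat_lit 78) (PT.lf (nat_lit 19380) (nat_lit 6) (nat_lit 255) (nat_lit 2) (nat_lit 183) (nat_lit 190) (nat_lit 137)) (PT.lf (nat_lit 19000) (nat_lit 6) (nat_lit 250) (nat_lit 2) (nat_lit 184) (nat_lit 190) (nat_lit 136)))))) (PT.nd (nat_lit 390) (PT.nd (nat_lit 156) (PT.nd (nat_lit 78) (PT.lf (nat_lit 18696) (nat_lit 6) (nat_lit 246) (nat_lit 2) (nat_lit 185) (nat_lit 190) (nat_lit 135)) (PT.lf (nat_lit 18316) (nat_lit 6) (nat_lit 241) (nat_lit 2) (nat_lit 186) (nat_lit 190) (nat_lit 134))) (PT.nd (nat_lit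 78) (PT.lf (nat_lit 18012) (nat_lit 6) (nat_lit 237) (nat_lit 2) (nat_lit 187) (nat_lit 190) (nat_lit 133)) (PT.nd (nat_lit 78) (PT.lf (nat_lit 17708) (nat_lit 6) (nat_lit 233) (nat_lit 2) (nat_lit 188) (nat_lit 190) (nat_lit 132)) (PT.lf (nat_lit 17404) (nat_lit 6) (nat_lit 229) (nat_lit 2) (nat_lit 189) (nat_lit 190) (nat_lit 131))))) (PT.nd (nat_lit 234) (PT.nd (nat_lit 78) (PT.lf (nat_lit 17100) (nat_lit 3) (nat_lit 225) (nat_lit 0) (nat_lit 190) (nat_lit 190) (nat_lit 130)) (PT.nd (nat_lit 78) (PT.lf (nat_lit 16796) (nat_lit 6) (nat_lit 221) (nat_lit 0) (nat_lit 191) (nat_lit 190) (nat_lit 129)) (PT.lf (nat_lit 16416) (nat_lit 6) (nat_lit 216) (nat_lit 0) (nat_lit 192) (nat_lit 190) (nat_lit 128)))) (PT.nd (nat_lit 78) (PT.lf (nat_lit 16112) (nat_lit 6) (nat_lit 212) (nat_lit 0) (nat_lit 193) (nat_lit 190) (nat_lit 127)) (PT.nd (nat_lit 78) (PT.lf (nat_lit 15732) (nat_lit 6) (nat_lit 207) (nat_lit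 0) (nat_lit 194) (nat_lit 190) (nat_lit 126)) (PT.lf (nat_lit 15428) (nat_lit 6) (nat_lit 203) (nat_lit 0) (nat_lit 195) (nat_lit 190) (nat_lit 125))))))))
noncomputable def pc47 : PT := (PT.nd (nat_lit 52260) (PT.nd (nat_lit 48126) (PT.nd (nat_lit 47658) (PT.nd (nat_lit 47424) (PT.nd (nat_lit 47346) (PT.lf (nat_lit 15124) (nat_lit 6) (nat_lit 199) (nat_lit 0) (nat_lit 196) (nat_lit 190) (nat_lit 124)) (PT.lf (nat_lit 14592) (nat_lit 6) (nat_lit 192) (nat_lit 5) (nat_lit 122) (nat_lit 191) (nat_lit 197))) (PT.nd (nat_lit 78) (PT.lf (nat_lit 14896) (nat_lit 6) (nat_lit 196) (nat_lit 5) (nat_lit 123) (nat_lit 191) (nat_lit 196)) (PT.nd (nat_lit 78) (PT.lf (nat_lit 15200) (nat_lit 6) (nat_lit 200) (nat_lit 5) (nat_lit 124) (nat_lit 191) (nat_lit 195)) (PT.lf (nat_lit 15504) (nat_lit 6) (nat_lit 204) (nat_lit 5) (nat_lit 125) (nat_lit 191) (nat_lit 194))))) (PT.nd (nat_lit 234) (PT.nd (nat_lit 78) (PT.lf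 (nat_lit 15808) (nat_lit 6) (nat_lit 208) (nat_lit 5) (nat_lit 126) (nat_lit 191) (nat_lit 193)) (PT.nd (nat_lit 78) (PT.lf (nat_lit 16188) (nat_lit 6) (nat_lit 213) (nat_lit 5) (nat_lit 127) (nat_lit 191) (nat_lit 192)) (PT.lf (nat_lit 16492) (nat_lit 3) (nat_lit 217) (nat_lit 4) (nat_lit 128) (nat_lit 191) (nat_lit 191)))) (PT.nd (nat_lit 78) (PT.lf (nat_lit 16796) (nat_lit 6) (nat_lit 221) (nat_lit 4) (nat_lit 129) (nat_lit 191) (nat_lit 190)) (PT.nd (nat_lit 78) (PT.lf (nat_lit 17024) (nat_lit 6) (nat_lit 224) (nat_lit 4) (nat_lit 130) (nat_lit 191) (nat_lit 189)) (PT.lf (nat_lit 17328) (nat_lit 6) (nat_lit 228) (nat_lit 4) (nat_lit 131) (nat_lit 191) (nat_lit 188)))))) (PT.nd (nat_lit 390) (PT.nd (nat_lit 156) (PT.nd (nat_lit 78) (PT.lf (nat_lit 17632) (nat_lit 6) (nat_lit 232) (nat_lit 4) (nat_lit 132) (nat_lit 191) (nat_lit 187)) (PT.lf (nat_lit 17936) (nat_lit 6) (nat_lit 236) (nat_lit 4) (nat_lit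 133) (nat_lit 191) (nat_lit 186))) (PT.nd (nat_lit 78) (PT.lf (nat_lit 18240) (nat_lit 6) (nat_lit 240) (nat_lit 4) (nat_lit 134) (nat_lit 191) (nat_lit 185)) (PT.nd (nat_lit 78) (PT.lf (nat_lit 18620) (nat_lit 6) (nat_lit 245) (nat_lit 4) (nat_lit 135) (nat_lit 191) (nat_lit 184)) (PT.lf (nat_lit 18924) (nat_lit 6) (nat_lit 249) (nat_lit 4) (nat_lit 136) (nat_lit 191) (nat_lit 183))))) (PT.nd (nat_lit 3510) (PT.nd (nat_lit 78) (PT.lf (nat_lit 19304) (nat_lit 6) (nat_lit 254) (nat_lit 4) (nat_lit 137) (nat_lit 191) (nat_lit 182)) (PT.nd (nat_lit 3354) (PT.lf (nat_lit 19684) (nat_lit 6) (nat_lit 259) (nat_lit 4) (nat_lit 138) (nat_lit 191) (nat_lit 181)) (PT.lf (nat_lit 19684) (nat_lit 6) (nat_lit 259) (nat_lit 2) (nat_lit 181) (nat_lit 191) (nat_lit 138)))) (PT.nd (nat_lit 78) (PT.lf (nat_lit 19304) (nat_lit 6) (nat_lit 254) (nat_lit 2) (nat_lit 182) (nat_lit 191) (nat_lit 137)) (PT.nd (nat_lit 78)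 (PT.lf (nat_lit 18924) (nat_lit 6) (nat_lit 249) (nat_lit 2) (nat_lit 183) (nat_lit 191) (nat_lit 136)) (PT.lf (nat_lit 18620) (nat_lit 6) (nat_lit 245) (nat_lit 2) (nat_lit 184) (nat_lit 191) (nat_lit 135))))))) (PT.nd (nat_lit 858) (PT.nd (nat_lit 390) (PT.nd (nat_lit 156) (PT.nd (nat_lit 78) (PT.lf (nat_lit 18240) (nat_lit 6) (nat_lit 240) (nat_lit 2) (nat_lit 185) (nat_lit 191) (nat_lit 134)) (PT.lf (nat_lit 17936) (nat_lit 6) (nat_lit 236) (nat_lit 2) (nat_lit 186) (nat_lit 191) (nat_lit 133))) (PT.nd (nat_lit 78) (PT.lf (nat_lit 17632) (nat_lit 6) (nat_lit 232) (nat_lit 2) (nat_lit 187) (nat_lit 191) (nat_lit 132)) (PT.nd (nat_lit 78) (PT.lf (nat_lit 17328) (nat_lit 6) (nat_lit 228) (nat_lit 2) (nat_lit 188) (nat_lit 191) (nat_lit 131)) (PT.lf (nat_lit 17024) (nat_lit 6) (nat_lit 224) (nat_lit 2) (nat_lit 189) (nat_lit 191) (nat_lit 130))))) (PT.nd (nat_lit 234) (PT.nd (nat_lit 78) (PT.lf (nat_lit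 16796) (nat_lit 6) (nat_lit 221) (nat_lit 2) (nat_lit 190) (nat_lit 191) (nat_lit 129)) (PT.nd (nat_lit 78) (PT.lf (nat_lit 16492) (nat_lit 3) (nat_lit 217) (nat_lit 0) (nat_lit 191) (nat_lit 191) (nat_lit 128)) (PT.lf (nat_lit 16188) (nat_lit 6) (nat_lit 213) (nat_lit 0) (nat_lit 192) (nat_lit 191) (nat_lit 127)))) (PT.nd (nat_lit 78) (PT.lf (nat_lit 15808) (nat_lit 6) (nat_lit 208) (nat_lit 0) (nat_lit 193) (nat_lit 191) (nat_lit 126)) (PT.nd (nat_lit 78) (PT.lf (nat_lit 15504) (nat_lit 6) (nat_lit 204) (nat_lit 0) (nat_lit 194) (nat_lit 191) (nat_lit 125)) (PT.lf (nat_lit 15200) (nat_lit 6) (nat_lit 200) (nat_lit 0) (nat_lit 195) (nat_lit 191) (nat_lit 124)))))) (PT.nd (nat_lit 47502) (PT.nd (nat_lit 47268) (PT.nd (nat_lit 78) (PT.lf (nat_lit 14896) (nat_lit 6) (nat_lit 196) (nat_lit 0) (nat_lit 196) (nat_lit 191) (nat_lit 123)) (PT.lf (nat_lit 14592) (nat_lit 6) (nat_lit 192) (nat_lit 0) (nat_lit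 197) (nat_lit 191) (nat_lit 122))) (PT.nd (nat_lit 78) (PT.lf (nat_lit 14364) (nat_lit 6) (nat_lit 189) (nat_lit 5) (nat_lit 121) (nat_lit 192) (nat_lit 197)) (PT.nd (nat_lit 78) (PT.lf (nat_lit 14668) (nat_lit 6) (nat_lit 193) (nat_lit 5) (nat_lit 122) (nat_lit 192) (nat_lit 196)) (PT.lf (nat_lit 14972) (nat_lit 6) (nat_lit 197) (nat_lit 5) (nat_lit 123) (nat_lit 192) (nat_lit 195))))) (PT.nd (nat_lit 234) (PT.nd (nat_lit 78) (PT.lf (nat_lit 15276) (nat_lit 6) (nat_lit 201) (nat_lit 5) (nat_lit 124) (nat_lit 192) (nat_lit 194)) (PT.nd (nat_lit 78) (PT.lf (nat_lit 15580) (nat_lit 6) (nat_lit 205) (nat_lit 5) (nat_lit 125) (nat_lit 192) (nat_lit 193)) (PT.lf (nat_lit 15884) (nat_lit 3) (nat_lit 209) (nat_lit 4) (nat_lit 126) (nat_lit 192) (nat_lit 192)))) (PT.nd (nat_lit 78) (PT.lf (nat_lit 16188) (nat_lit 6) (nat_lit 213) (nat_lit 4) (nat_lit 127) (nat_lit 192) (nat_lit 191)) (PT.nd (nat_lit 78) (PT.lf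 (nat_lit 16416) (nat_lit 6) (nat_lit 216) (nat_lit 4) (nat_lit 128) (nat_lit 192) (nat_lit 190)) (PT.lf (nat_lit 16720) (nat_lit 6) (nat_lit 220) (nat_lit 4) (nat_lit 129) (nat_lit 192) (nat_lit 189))))))))
noncomputable def pc48 : PT := (PT.nd (nat_lit 52260) (PT.nd (nat_lit 4446) (PT.nd (nat_lit 390) (PT.nd (nat_lit 156) (PT.nd (nat_lit 78) (PT.lf (nat_lit 16948) (nat_lit 6) (nat_lit 223) (nat_lit 4) (nat_lit 130) (nat_lit 192) (nat_lit 188)) (PT.lf (nat_lit 17252) (nat_lit 6) (nat_lit 227) (nat_lit 4) (nat_lit 131) (nat_lit 192) (nat_lit 187))) (PT.nd (nat_lit 78) (PT.lf (nat_lit 17556) (nat_lit 6) (nat_lit 231) (nat_lit 4) (nat_lit 132) (nat_lit 192) (nat_lit 186)) (PT.nd (nat_lit 78) (PT.lf (nat_lit 17860) (nat_lit 6) (nat_lit 235) (nat_lit 4) (nat_lit 133) (nat_lit 192) (nat_lit 185)) (PT.lf (nat_lit 18164) (nat_lit 6) (nat_lit 239) (nat_lit 4) (nat_lit 134) (nat_lit 192) (nat_lit 184))))) (PT.nd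 (nat_lit 3822) (PT.nd (nat_lit 3744) (PT.lf (nat_lit 18544) (nat_lit 6) (nat_lit 244) (nat_lit 4) (nat_lit 135) (nat_lit 192) (nat_lit 183)) (PT.lf (nat_lit 18544) (nat_lit 6) (nat_lit 244) (nat_lit 2) (nat_lit 183) (nat_lit 192) (nat_lit 135))) (PT.nd (nat_lit 78) (PT.lf (nat_lit 18164) (nat_lit 6) (nat_lit 239) (nat_lit 2) (nat_lit 184) (nat_lit 192) (nat_lit 134)) (PT.nd (nat_lit 78) (PT.lf (nat_lit 17860) (nat_lit 6) (nat_lit 235) (nat_lit 2) (nat_lit 185) (nat_lit 192) (nat_lit 133)) (PT.lf (nat_lit 17556) (nat_lit 6) (nat_lit 231) (nat_lit 2) (nat_lit 186) (nat_lit 192) (nat_lit 132)))))) (PT.nd (nat_lit 390) (PT.nd (nat_lit 156) (PT.nd (nat_lit 78) (PT.lf (nat_lit 17252) (nat_lit 6) (nat_lit 227) (nat_lit 2) (nat_lit 187) (nat_lit 192) (nat_lit 131)) (PT.lf (nat_lit 16948) (nat_lit 6) (nat_lit 223) (nat_lit 2) (nat_lit 188) (nat_lit 192) (nat_lit 130))) (PT.nd (nat_lit 78) (PT.lf (nat_lit 16720)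 (nat_lit 6) (nat_lit 220) (nat_lit 2) (nat_lit 189) (nat_lit 192) (nat_lit 129)) (PT.nd (nat_lit 78) (PT.lf (nat_lit 16416) (nat_lit 6) (nat_lit 216) (nat_lit 2) (nat_lit 190) (nat_lit 192) (nat_lit 128)) (PT.lf (nat_lit 16188) (nat_lit 6) (nat_lit 213) (nat_lit 2) (nat_lit 191) (nat_lit 192) (nat_lit 127))))) (PT.nd (nat_lit 234) (PT.nd (nat_lit 78) (PT.lf (nat_lit 15884) (nat_lit 3) (nat_lit 209) (nat_lit 0) (nat_lit 192) (nat_lit 192) (nat_lit 126)) (PT.nd (nat_lit 78) (PT.lf (nat_lit 15580) (nat_lit 6) (nat_lit 205) (nat_lit 0) (nat_lit 193) (nat_lit 192) (nat_lit 125)) (PT.lf (nat_lit 15276) (nat_lit 6) (nat_lit 201) (nat_lit 0) (nat_lit 194) (nat_lit 192) (nat_lit 124)))) (PT.nd (nat_lit 78) (PT.lf (nat_lit 14972) (nat_lit 6) (nat_lit 197) (nat_lit 0) (nat_lit 195) (nat_lit 192) (nat_lit 123)) (PT.nd (nat_lit 78) (PT.lf (nat_lit 14668) (nat_lit 6) (nat_lit 193) (nat_lit 0) (nat_lit 196) (nat_lit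 192) (nat_lit 122)) (PT.lf (nat_lit 14364) (nat_lit 6) (nat_lit 189) (nat_lit 0) (nat_lit 197) (nat_lit 192) (nat_lit 121))))))) (PT.nd (nat_lit 858) (PT.nd (nat_lit 390) (PT.nd (nat_lit 156) (PT.nd (nat_lit 78) (PT.lf (nat_lit 13908) (nat_lit 6) (nat_lit 183) (nat_lit 5) (nat_lit 119) (nat_lit 193) (nat_lit 198)) (PT.lf (nat_lit 14136) (nat_lit 6) (nat_lit 186) (nat_lit 5) (nat_lit 120) (nat_lit 193) (nat_lit 197))) (PT.nd (nat_lit 78) (PT.lf (nat_lit 14440) (nat_lit 6) (nat_lit 190) (nat_lit 5) (nat_lit 121) (nat_lit 193) (nat_lit 196)) (PT.nd (nat_lit 78) (PT.lf (nat_lit 14744) (nat_lit 6) (nat_lit 194) (nat_lit 5) (nat_lit 122) (nat_lit 193) (nat_lit 195)) (PT.lf (nat_lit 15048) (nat_lit 6) (nat_lit 198) (nat_lit 5) (nat_lit 123) (nat_lit 193) (nat_lit 194))))) (PT.nd (nat_lit 234) (PT.nd (nat_lit 78) (PT.lf (nat_lit 15352) (nat_lit 3) (nat_lit 202) (nat_lit 4) (nat_lit 124) (nat_lit 193) (nat_lit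 193)) (PT.nd (nat_lit 78) (PT.lf (nat_lit 15580) (nat_lit 6) (nat_lit 205) (nat_lit 4) (nat_lit 125) (nat_lit 193) (nat_lit 192)) (PT.lf (nat_lit 15808) (nat_lit 6) (nat_lit 208) (nat_lit 4) (nat_lit 126) (nat_lit 193) (nat_lit 191)))) (PT.nd (nat_lit 78) (PT.lf (nat_lit 16112) (nat_lit 6) (nat_lit 212) (nat_lit 4) (nat_lit 127) (nat_lit 193) (nat_lit 190)) (PT.nd (nat_lit 78) (PT.lf (nat_lit 16340) (nat_lit 6) (nat_lit 215) (nat_lit 4) (nat_lit 128) (nat_lit 193) (nat_lit 189)) (PT.lf (nat_lit 16644) (nat_lit 6) (nat_lit 219) (nat_lit 4) (nat_lit 129) (nat_lit 193) (nat_lit 188)))))) (PT.nd (nat_lit 4446) (PT.nd (nat_lit 156) (PT.nd (nat_lit 78) (PT.lf (nat_lit 16872) (nat_lit 6) (nat_lit 222) (nat_lit 4) (nat_lit 130) (nat_lit 193) (nat_lit 187)) (PT.lf (nat_lit 17176) (nat_lit 6) (nat_lit 226) (nat_lit 4) (nat_lit 131) (nat_lit 193) (nat_lit 186))) (PT.nd (nat_lit 4134) (PT.lf (nat_lit 17480) (nat_lit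 6) (nat_lit 230) (nat_lit 4) (nat_lit 132) (nat_lit 193) (nat_lit 185)) (PT.nd (nat_lit 78) (PT.lf (nat_lit 17480) (nat_lit 6) (nat_lit 230) (nat_lit 2) (nat_lit 185) (nat_lit 193) (nat_lit 132)) (PT.lf (nat_lit 17176) (nat_lit 6) (nat_lit 226) (nat_lit 2) (nat_lit 186) (nat_lit 193) (nat_lit 131))))) (PT.nd (nat_lit 234) (PT.nd (nat_lit 78) (PT.lf (nat_lit 16872) (nat_lit 6) (nat_lit 222) (nat_lit 2) (nat_lit 187) (nat_lit 193) (nat_lit 130)) (PT.nd (nat_lit 78) (PT.lf (nat_lit 16644) (nat_lit 6) (nat_lit 219) (nat_lit 2) (nat_lit 188) (nat_lit 193) (nat_lit 129)) (PT.lf (nat_lit 16340) (nat_lit 6) (nat_lit 215) (nat_lit 2) (nat_lit 189) (nat_lit 193) (nat_lit 128)))) (PT.nd (nat_lit 78) (PT.lf (nat_lit 16112) (nat_lit 6) (nat_lit 212) (nat_lit 2) (nat_lit 190) (nat_lit 193) (nat_lit 127)) (PT.nd (nat_lit 78) (PT.lf (nat_lit 15808) (nat_lit 6) (nat_lit 208) (nat_lit 2) (nat_lit 191) (nat_lit 193) (nat_lit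 126)) (PT.lf (nat_lit 15580) (nat_lit 6) (nat_lit 205) (nat_lit 2) (nat_lit 192) (nat_lit 193) (nat_lit 125))))))))
noncomputable def pc49 : PT := (PT.nd (nat_lit 52884) (PT.nd (nat_lit 47580) (PT.nd (nat_lit 390) (PT.nd (nat_lit 156) (PT.nd (nat_lit 78) (PT.lf (nat_lit 15352) (nat_lit 3) (nat_lit 202) (nat_lit 0) (nat_lit 193) (nat_lit 193) (nat_lit 124)) (PT.lf (nat_lit 15048) (nat_lit 6) (nat_lit 198) (nat_lit 0) (nat_lit 194) (nat_lit 193) (nat_lit 123))) (PT.nd (nat_lit 78) (PT.lf (nat_lit 14744) (nat_lit 6) (nat_lit 194) (nat_lit 0) (nat_lit 195) (nat_lit 193) (nat_lit 122)) (PT.nd (nat_lit 78) (PT.lf (nat_lit 14440) (nat_lit 6) (nat_lit 190) (nat_lit 0) (nat_lit 196) (nat_lit 193) (nat_lit 121)) (PT.lf (nat_lit 14136) (nat_lit 6) (nat_lit 186) (nat_lit 0) (nat_lit 197) (nat_lit 193) (nat_lit 120))))) (PT.nd (nat_lit 46956) (PT.nd (nat_lit 46800) (PT.lf (nat_lit 13908) (nat_lit 6) (nat_lit 183)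 (nat_lit 0) (nat_lit 198) (nat_lit 193) (nat_lit 119)) (PT.nd (nat_lit 78) (PT.lf (nat_lit 13452) (nat_lit 6) (nat_lit 177) (nat_lit 5) (nat_lit 117) (nat_lit 194) (nat_lit 199)) (PT.lf (nat_lit 13680) (nat_lit 6) (nat_lit 180) (nat_lit 5) (nat_lit 118) (nat_lit 194) (nat_lit 198)))) (PT.nd (nat_lit 78) (PT.lf (nat_lit 13984) (nat_lit 6) (nat_lit 184) (nat_lit 5) (nat_lit 119) (nat_lit 194) (nat_lit 197)) (PT.nd (nat_lit 78) (PT.lf (nat_lit 14212) (nat_lit 6) (nat_lit 187) (nat_lit 5) (nat_lit 120) (nat_lit 194) (nat_lit 196)) (PT.lf (nat_lit 14516) (nat_lit 6) (nat_lit 191) (nat_lit 5) (nat_lit 121) (nat_lit 194) (nat_lit 195)))))) (PT.nd (nat_lit 390) (PT.nd (nat_lit 156) (PT.nd (nat_lit 78) (PT.lf (nat_lit 14820) (nat_lit 3) (nat_lit 195) (nat_lit 4) (nat_lit 122) (nat_lit 194) (nat_lit 194)) (PT.lf (nat_lit 15048) (nat_lit 6) (nat_lit 198) (nat_lit 4) (nat_lit 123) (nat_lit 194) (nat_lit 193)))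 (PT.nd (nat_lit 78) (PT.lf (nat_lit 15276) (nat_lit 6) (nat_lit 201) (nat_lit 4) (nat_lit 124) (nat_lit 194) (nat_lit 192)) (PT.nd (nat_lit 78) (PT.lf (nat_lit 15504) (nat_lit 6) (nat_lit 204) (nat_lit 4) (nat_lit 125) (nat_lit 194) (nat_lit 191)) (PT.lf (nat_lit 15732) (nat_lit 6) (nat_lit 207) (nat_lit 4) (nat_lit 126) (nat_lit 194) (nat_lit 190))))) (PT.nd (nat_lit 4680) (PT.nd (nat_lit 78) (PT.lf (nat_lit 16036) (nat_lit 6) (nat_lit 211) (nat_lit 4) (nat_lit 127) (nat_lit 194) (nat_lit 189)) (PT.nd (nat_lit 78) (PT.lf (nat_lit 16264) (nat_lit 6) (nat_lit 214) (nat_lit 4) (nat_lit 128) (nat_lit 194) (nat_lit 188)) (PT.lf (nat_lit 16568) (nat_lit 6) (nat_lit 218) (nat_lit 4) (nat_lit 129) (nat_lit 194) (nat_lit 187)))) (PT.nd (nat_lit 78) (PT.lf (nat_lit 16568) (nat_lit 6) (nat_lit 218) (nat_lit 2) (nat_lit 187) (nat_lit 194) (nat_lit 129)) (PT.nd (nat_lit 78) (PT.lf (nat_lit 16264) (nat_lit 6) (nat_lit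 214) (nat_lit 2) (nat_lit 188) (nat_lit 194) (nat_lit 128)) (PT.lf (nat_lit 16036) (nat_lit 6) (nat_lit 211) (nat_lit 2) (nat_lit 189) (nat_lit 194) (nat_lit 127))))))) (PT.nd (nat_lit 47424) (PT.nd (nat_lit 390) (PT.nd (nat_lit 156) (PT.nd (nat_lit 78) (PT.lf (nat_lit 15732) (nat_lit 6) (nat_lit 207) (nat_lit 2) (nat_lit 190) (nat_lit 194) (nat_lit 126)) (PT.lf (nat_lit 15504) (nat_lit 6) (nat_lit 204) (nat_lit 2) (nat_lit 191) (nat_lit 194) (nat_lit 125))) (PT.nd (nat_lit 78) (PT.lf (nat_lit 15276) (nat_lit 6) (nat_lit 201) (nat_lit 2) (nat_lit 192) (nat_lit 194) (nat_lit 124)) (PT.nd (nat_lit 78) (PT.lf (nat_lit 15048) (nat_lit 6) (nat_lit 198) (nat_lit 2) (nat_lit 193) (nat_lit 194) (nat_lit 123)) (PT.lf (nat_lit 14820) (nat_lit 3) (nat_lit 195) (nat_lit 0) (nat_lit 194) (nat_lit 194) (nat_lit 122))))) (PT.nd (nat_lit 234) (PT.nd (nat_lit 78) (PT.lf (nat_lit 14516) (nat_lit 6) (nat_lit 191) (nat_lit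 0) (nat_lit 195) (nat_lit 194) (nat_lit 121)) (PT.nd (nat_lit 78) (PT.lf (nat_lit 14212) (nat_lit 6) (nat_lit 187) (nat_lit 0) (nat_lit 196) (nat_lit 194) (nat_lit 120)) (PT.lf (nat_lit 13984) (nat_lit 6) (nat_lit 184) (nat_lit 0) (nat_lit 197) (nat_lit 194) (nat_lit 119)))) (PT.nd (nat_lit 78) (PT.lf (nat_lit 13680) (nat_lit 6) (nat_lit 180) (nat_lit 0) (nat_lit 198) (nat_lit 194) (nat_lit 118)) (PT.nd (nat_lit 46644) (PT.lf (nat_lit 13452) (nat_lit 6) (nat_lit 177) (nat_lit 0) (nat_lit 199) (nat_lit 194) (nat_lit 117)) (PT.lf (nat_lit 13224) (nat_lit 6) (nat_lit 174) (nat_lit 5) (nat_lit 116) (nat_lit 195) (nat_lit 199)))))) (PT.nd (nat_lit 390) (PT.nd (nat_lit 156) (PT.nd (nat_lit 78) (PT.lf (nat_lit 13528) (nat_lit 6) (nat_lit 178) (nat_lit 5) (nat_lit 117) (nat_lit 195) (nat_lit 198)) (PT.lf (nat_lit 13756) (nat_lit 6) (nat_lit 181) (nat_lit 5) (nat_lit 118) (nat_lit 195) (nat_lit 197))) (PT.nd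 (nat_lit 78) (PT.lf (nat_lit 14060) (nat_lit 6) (nat_lit 185) (nat_lit 5) (nat_lit 119) (nat_lit 195) (nat_lit 196)) (PT.nd (nat_lit 78) (PT.lf (nat_lit 14288) (nat_lit 3) (nat_lit 188) (nat_lit 4) (nat_lit 120) (nat_lit 195) (nat_lit 195)) (PT.lf (nat_lit 14516) (nat_lit 6) (nat_lit 191) (nat_lit 4) (nat_lit 121) (nat_lit 195) (nat_lit 194))))) (PT.nd (nat_lit 234) (PT.nd (nat_lit 78) (PT.lf (nat_lit 14744) (nat_lit 6) (nat_lit 194) (nat_lit 4) (nat_lit 122) (nat_lit 195) (nat_lit 193)) (PT.nd (nat_lit 78) (PT.lf (nat_lit 14972) (nat_lit 6) (nat_lit 197) (nat_lit 4) (nat_lit 123) (nat_lit 195) (nat_lit 192)) (PT.lf (nat_lit 15200) (nat_lit 6) (nat_lit 200) (nat_lit 4) (nat_lit 124) (nat_lit 195) (nat_lit 191)))) (PT.nd (nat_lit 78) (PT.lf (nat_lit 15428) (nat_lit 6) (nat_lit 203) (nat_lit 4) (nat_lit 125) (nat_lit 195) (nat_lit 190)) (PT.nd (nat_lit 78) (PT.lf (nat_lit 15656) (nat_lit 6) (nat_lit 206)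 (nat_lit 4) (nat_lit 126) (nat_lit 195) (nat_lit 189)) (PT.lf (nat_lit 15960) (nat_lit 6) (nat_lit 210) (nat_lit 4) (nat_lit 127) (nat_lit 195) (nat_lit 188))))))))
noncomputable def pc50 : PT := (PT.nd (nat_lit 48048) (PT.nd (nat_lit 780) (PT.nd (nat_lit 390) (PT.nd (nat_lit 156) (PT.nd (nat_lit 78) (PT.lf (nat_lit 15960) (nat_lit 6) (nat_lit 210) (nat_lit 2) (nat_lit 188) (nat_lit 195) (nat_lit 127)) (PT.lf (nat_lit 15656) (nat_lit 6) (nat_lit 206) (nat_lit 2) (nat_lit 189) (nat_lit 195) (nat_lit 126))) (PT.nd (nat_lit 78) (PT.lf (nat_lit 15428) (nat_lit 6) (nat_lit 203) (nat_lit 2) (nat_lit 190) (nat_lit 195) (nat_lit 125)) (PT.nd (nat_lit 78) (PT.lf (nat_lit 15200) (nat_lit 6) (nat_lit 200) (nat_lit 2) (nat_lit 191) (nat_lit 195) (nat_lit 124)) (PT.lf (nat_lit 14972) (nat_lit 6) (nat_lit 197) (nat_lit 2) (nat_lit 192) (nat_lit 195) (nat_lit 123))))) (PT.nd (nat_lit 156) (PT.nd (nat_lit 78) (PT.lf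 (nat_lit 14744) (nat_lit 6) (nat_lit 194) (nat_lit 2) (nat_lit 193) (nat_lit 195) (nat_lit 122)) (PT.lf (nat_lit 14516) (nat_lit 6) (nat_lit 191) (nat_lit 2) (nat_lit 194) (nat_lit 195) (nat_lit 121))) (PT.nd (nat_lit 78) (PT.lf (nat_lit 14288) (nat_lit 3) (nat_lit 188) (nat_lit 0) (nat_lit 195) (nat_lit 195) (nat_lit 120)) (PT.nd (nat_lit 78) (PT.lf (nat_lit 14060) (nat_lit 6) (nat_lit 185) (nat_lit 0) (nat_lit 196) (nat_lit 195) (nat_lit 119)) (PT.lf (nat_lit 13756) (nat_lit 6) (nat_lit 181) (nat_lit 0) (nat_lit 197) (nat_lit 195) (nat_lit 118)))))) (PT.nd (nat_lit 46800) (PT.nd (nat_lit 46566) (PT.nd (nat_lit 78) (PT.lf (nat_lit 13528) (nat_lit 6) (nat_lit 178) (nat_lit 0) (nat_lit 198) (nat_lit 195) (nat_lit 117)) (PT.lf (nat_lit 13224) (nat_lit 6) (nat_lit 174) (nat_lit 0) (nat_lit 199) (nat_lit 195) (nat_lit 116))) (PT.nd (nat_lit 78) (PT.lf (nat_lit 12844) (nat_lit 6) (nat_lit 169) (nat_lit 5)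 (nat_lit 114) (nat_lit 196) (nat_lit 200)) (PT.nd (nat_lit 78) (PT.lf (nat_lit 13072) (nat_lit 6) (nat_lit 172) (nat_lit 5) (nat_lit 115) (nat_lit 196) (nat_lit 199)) (PT.lf (nat_lit 13300) (nat_lit 6) (nat_lit 175) (nat_lit 5) (nat_lit 116) (nat_lit 196) (nat_lit 198))))) (PT.nd (nat_lit 234) (PT.nd (nat_lit 78) (PT.lf (nat_lit 13604) (nat_lit 6) (nat_lit 179) (nat_lit 5) (nat_lit 117) (nat_lit 196) (nat_lit 197)) (PT.nd (nat_lit 78) (PT.lf (nat_lit 13832) (nat_lit 3) (nat_lit 182) (nat_lit 4) (nat_lit 118) (nat_lit 196) (nat_lit 196)) (PT.lf (nat_lit 14060) (nat_lit 6) (nat_lit 185) (nat_lit 4) (nat_lit 119) (nat_lit 196) (nat_lit 195)))) (PT.nd (nat_lit 78) (PT.lf (nat_lit 14212) (nat_lit 6) (nat_lit 187) (nat_lit 4) (nat_lit 120) (nat_lit 196) (nat_lit 194)) (PT.nd (nat_lit 78) (PT.lf (nat_lit 14440) (nat_lit 6) (nat_lit 190) (nat_lit 4) (nat_lit 121) (nat_lit 196) (nat_lit 193)) (PT.lf (nat_lit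 14668) (nat_lit 6) (nat_lit 193) (nat_lit 4) (nat_lit 122) (nat_lit 196) (nat_lit 192))))))) (PT.nd (nat_lit 5928) (PT.nd (nat_lit 5460) (PT.nd (nat_lit 5226) (PT.nd (nat_lit 78) (PT.lf (nat_lit 14896) (nat_lit 6) (nat_lit 196) (nat_lit 4) (nat_lit 123) (nat_lit 196) (nat_lit 191)) (PT.lf (nat_lit 15124) (nat_lit 6) (nat_lit 199) (nat_lit 4) (nat_lit 124) (nat_lit 196) (nat_lit 190))) (PT.nd (nat_lit 78) (PT.lf (nat_lit 15124) (nat_lit 6) (nat_lit 199) (nat_lit 2) (nat_lit 190) (nat_lit 196) (nat_lit 124)) (PT.nd (nat_lit 78) (PT.lf (nat_lit 14896) (nat_lit 6) (nat_lit 196) (nat_lit 2) (nat_lit 191) (nat_lit 196) (nat_lit 123)) (PT.lf (nat_lit 14668) (nat_lit 6) (nat_lit 193) (nat_lit 2) (nat_lit 192) (nat_lit 196) (nat_lit 122))))) (PT.nd (nat_lit 234) (PT.nd (nat_lit 78) (PT.lf (nat_lit 14440) (nat_lit 6) (nat_lit 190) (nat_lit 2) (nat_lit 193) (nat_lit 196) (nat_lit 121)) (PT.nd (nat_lit 78) (PT.lf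 (nat_lit 14212) (nat_lit 6) (nat_lit 187) (nat_lit 2) (nat_lit 194) (nat_lit 196) (nat_lit 120)) (PT.lf (nat_lit 14060) (nat_lit 6) (nat_lit 185) (nat_lit 2) (nat_lit 195) (nat_lit 196) (nat_lit 119)))) (PT.nd (nat_lit 78) (PT.lf (nat_lit 13832) (nat_lit 3) (nat_lit 182) (nat_lit 0) (nat_lit 196) (nat_lit 196) (nat_lit 118)) (PT.nd (nat_lit 78) (PT.lf (nat_lit 13604) (nat_lit 6) (nat_lit 179) (nat_lit 0) (nat_lit 197) (nat_lit 196) (nat_lit 117)) (PT.lf (nat_lit 13300) (nat_lit 6) (nat_lit 175) (nat_lit 0) (nat_lit 198) (nat_lit 196) (nat_lit 116)))))) (PT.nd (nat_lit 46566) (PT.nd (nat_lit 46332) (PT.nd (nat_lit 78) (PT.lf (nat_lit 13072) (nat_lit 6) (nat_lit 172) (nat_lit 0) (nat_lit 199) (nat_lit 196) (nat_lit 115)) (PT.lf (nat_lit 12844) (nat_lit 6) (nat_lit 169) (nat_lit 0) (nat_lit 200) (nat_lit 196) (nat_lit 114))) (PT.nd (nat_lit 78) (PT.lf (nat_lit 12464) (nat_lit 6) (nat_lit 164) (nat_lit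 5) (nat_lit 112) (nat_lit 197) (nat_lit 201)) (PT.nd (nat_lit 78) (PT.lf (nat_lit 12692) (nat_lit 6) (nat_lit 167) (nat_lit 5) (nat_lit 113) (nat_lit 197) (nat_lit 200)) (PT.lf (nat_lit 12920) (nat_lit 6) (nat_lit 170) (nat_lit 5) (nat_lit 114) (nat_lit 197) (nat_lit 199))))) (PT.nd (nat_lit 234) (PT.nd (nat_lit 78) (PT.lf (nat_lit 13148) (nat_lit 6) (nat_lit 173) (nat_lit 5) (nat_lit 115) (nat_lit 197) (nat_lit 198)) (PT.nd (nat_lit 78) (PT.lf (nat_lit 13376) (nat_lit 3) (nat_lit 176) (nat_lit 4) (nat_lit 116) (nat_lit 197) (nat_lit 197)) (PT.lf (nat_lit 13604) (nat_lit 6) (nat_lit 179) (nat_lit 4) (nat_lit 117) (nat_lit 197) (nat_lit 196)))) (PT.nd (nat_lit 78) (PT.lf (nat_lit 13756) (nat_lit 6) (nat_lit 181) (nat_lit 4) (nat_lit 118) (nat_lit 197) (nat_lit 195)) (PT.nd (nat_lit 78) (PT.lf (nat_lit 13984) (nat_lit 6) (nat_lit 184) (nat_lit 4) (nat_lit 119) (nat_lit 197) (nat_lit 194)) (PT.lf (nat_lit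 14136) (nat_lit 6) (nat_lit 186) (nat_lit 4) (nat_lit 120) (nat_lit 197) (nat_lit 193))))))))
noncomputable def pc51 : PT := (PT.nd (nat_lit 52962) (PT.nd (nat_lit 6162) (PT.nd (nat_lit 5694) (PT.nd (nat_lit 5460) (PT.nd (nat_lit 78) (PT.lf (nat_lit 14364) (nat_lit 6) (nat_lit 189) (nat_lit 4) (nat_lit 121) (nat_lit 197) (nat_lit 192)) (PT.lf (nat_lit 14592) (nat_lit 6) (nat_lit 192) (nat_lit 4) (nat_lit 122) (nat_lit 197) (nat_lit 191))) (PT.nd (nat_lit 78) (PT.lf (nat_lit 14592) (nat_lit 6) (nat_lit 192) (nat_lit 2) (nat_lit 191) (nat_lit 197) (nat_lit 122)) (PT.nd (nat_lit 78) (PT.lf (nat_lit 14364) (nat_lit 6) (nat_lit 189) (nat_lit 2) (nat_lit 192) (nat_lit 197) (nat_lit 121)) (PT.lf (nat_lit 14136) (nat_lit 6) (nat_lit 186) (nat_lit 2) (nat_lit 193) (nat_lit 197) (nat_lit 120))))) (PT.nd (nat_lit 234) (PT.nd (nat_lit 78) (PT.lf (nat_lit 13984) (nat_lit 6) (nat_lit 184) (nat_lit 2) (nat_lit 194)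 (nat_lit 197) (nat_lit 119)) (PT.nd (nat_lit 78) (PT.lf (nat_lit 13756) (nat_lit 6) (nat_lit 181) (nat_lit 2) (nat_lit 195) (nat_lit 197) (nat_lit 118)) (PT.lf (nat_lit 13604) (nat_lit 6) (nat_lit 179) (nat_lit 2) (nat_lit 196) (nat_lit 197) (nat_lit 117)))) (PT.nd (nat_lit 78) (PT.lf (nat_lit 13376) (nat_lit 3) (nat_lit 176) (nat_lit 0) (nat_lit 197) (nat_lit 197) (nat_lit 116)) (PT.nd (nat_lit 78) (PT.lf (nat_lit 13148) (nat_lit 6) (nat_lit 173) (nat_lit 0) (nat_lit 198) (nat_lit 197) (nat_lit 115)) (PT.lf (nat_lit 12920) (nat_lit 6) (nat_lit 170) (nat_lit 0) (nat_lit 199) (nat_lit 197) (nat_lit 114)))))) (PT.nd (nat_lit 46332) (PT.nd (nat_lit 46098) (PT.nd (nat_lit 78) (PT.lf (nat_lit 12692) (nat_lit 6) (nat_lit 167) (nat_lit 0) (nat_lit 200) (nat_lit 197) (nat_lit 113)) (PT.lf (nat_lit 12464) (nat_lit 6) (nat_lit 164) (nat_lit 0) (nat_lit 201) (nat_lit 197) (nat_lit 112))) (PT.nd (nat_lit 78) (PT.lf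 (nat_lit 12084) (nat_lit 6) (nat_lit 159) (nat_lit 5) (nat_lit 110) (nat_lit 198) (nat_lit 202)) (PT.nd (nat_lit 78) (PT.lf (nat_lit 12312) (nat_lit 6) (nat_lit 162) (nat_lit 5) (nat_lit 111) (nat_lit 198) (nat_lit 201)) (PT.lf (nat_lit 12540) (nat_lit 6) (nat_lit 165) (nat_lit 5) (nat_lit 112) (nat_lit 198) (nat_lit 200))))) (PT.nd (nat_lit 234) (PT.nd (nat_lit 78) (PT.lf (nat_lit 12768) (nat_lit 6) (nat_lit 168) (nat_lit 5) (nat_lit 113) (nat_lit 198) (nat_lit 199)) (PT.nd (nat_lit 78) (PT.lf (nat_lit 12996) (nat_lit 3) (nat_lit 171) (nat_lit 4) (nat_lit 114) (nat_lit 198) (nat_lit 198)) (PT.lf (nat_lit 13148) (nat_lit 6) (nat_lit 173) (nat_lit 4) (nat_lit 115) (nat_lit 198) (nat_lit 197)))) (PT.nd (nat_lit 78) (PT.lf (nat_lit 13300) (nat_lit 6) (nat_lit 175) (nat_lit 4) (nat_lit 116) (nat_lit 198) (nat_lit 196)) (PT.nd (nat_lit 78) (PT.lf (nat_lit 13528) (nat_lit 6) (nat_lit 178) (nat_lit 4) (nat_lit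 117) (nat_lit 198) (nat_lit 195)) (PT.lf (nat_lit 13680) (nat_lit 6) (nat_lit 180) (nat_lit 4) (nat_lit 118) (nat_lit 198) (nat_lit 194))))))) (PT.nd (nat_lit 52260) (PT.nd (nat_lit 6084) (PT.nd (nat_lit 5850) (PT.nd (nat_lit 5772) (PT.lf (nat_lit 13908) (nat_lit 6) (nat_lit 183) (nat_lit 4) (nat_lit 119) (nat_lit 198) (nat_lit 193)) (PT.lf (nat_lit 13908) (nat_lit 6) (nat_lit 183) (nat_lit 2) (nat_lit 193) (nat_lit 198) (nat_lit 119))) (PT.nd (nat_lit 78) (PT.lf (nat_lit 13680) (nat_lit 6) (nat_lit 180) (nat_lit 2) (nat_lit 194) (nat_lit 198) (nat_lit 118)) (PT.nd (nat_lit 78) (PT.lf (nat_lit 13528) (nat_lit 6) (nat_lit 178) (nat_lit 2) (nat_lit 195) (nat_lit 198) (nat_lit 117)) (PT.lf (nat_lit 13300) (nat_lit 6) (nat_lit 175) (nat_lit 2) (nat_lit 196) (nat_lit 198) (nat_lit 116))))) (PT.nd (nat_lit 234) (PT.nd (nat_lit 78) (PT.lf (nat_lit 13148) (nat_lit 6) (nat_lit 173) (nat_lit 2) (nat_lit 197)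 (nat_lit 198) (nat_lit 115)) (PT.nd (nat_lit 78) (PT.lf (nat_lit 12996) (nat_lit 3) (nat_lit 171) (nat_lit 0) (nat_lit 198) (nat_lit 198) (nat_lit 114)) (PT.lf (nat_lit 12768) (nat_lit 6) (nat_lit 168) (nat_lit 0) (nat_lit 199) (nat_lit 198) (nat_lit 113)))) (PT.nd (nat_lit 78) (PT.lf (nat_lit 12540) (nat_lit 6) (nat_lit 165) (nat_lit 0) (nat_lit 200) (nat_lit 198) (nat_lit 112)) (PT.nd (nat_lit 78) (PT.lf (nat_lit 12312) (nat_lit 6) (nat_lit 162) (nat_lit 0) (nat_lit 201) (nat_lit 198) (nat_lit 111)) (PT.lf (nat_lit 12084) (nat_lit 6) (nat_lit 159) (nat_lit 0) (nat_lit 202) (nat_lit 198) (nat_lit 110)))))) (PT.nd (nat_lit 390) (PT.nd (nat_lit 156) (PT.nd (nat_lit 78) (PT.lf (nat_lit 11704) (nat_lit 6) (nat_lit 154) (nat_lit 5) (nat_lit 108) (nat_lit 199) (nat_lit 203)) (PT.lf (nat_lit 11932) (nat_lit 6) (nat_lit 157) (nat_lit 5) (nat_lit 109) (nat_lit 199) (nat_lit 202))) (PT.nd (nat_lit 78) (PT.lf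 (nat_lit 12160) (nat_lit 6) (nat_lit 160) (nat_lit 5) (nat_lit 110) (nat_lit 199) (nat_lit 201)) (PT.nd (nat_lit 78) (PT.lf (nat_lit 12388) (nat_lit 6) (nat_lit 163) (nat_lit 5) (nat_lit 111) (nat_lit 199) (nat_lit 200)) (PT.lf (nat_lit 12616) (nat_lit 3) (nat_lit 166) (nat_lit 4) (nat_lit 112) (nat_lit 199) (nat_lit 199))))) (PT.nd (nat_lit 234) (PT.nd (nat_lit 78) (PT.lf (nat_lit 12768) (nat_lit 6) (nat_lit 168) (nat_lit 4) (nat_lit 113) (nat_lit 199) (nat_lit 198)) (PT.nd (nat_lit 78) (PT.lf (nat_lit 12920) (nat_lit 6) (nat_lit 170) (nat_lit 4) (nat_lit 114) (nat_lit 199) (nat_lit 197)) (PT.lf (nat_lit 13072) (nat_lit 6) (nat_lit 172) (nat_lit 4) (nat_lit 115) (nat_lit 199) (nat_lit 196)))) (PT.nd (nat_lit 78) (PT.lf (nat_lit 13224) (nat_lit 6) (nat_lit 174) (nat_lit 4) (nat_lit 116) (nat_lit 199) (nat_lit 195)) (PT.nd (nat_lit 6006) (PT.lf (nat_lit 13452) (nat_lit 6) (nat_lit 177) (nat_lit 4) (nat_lit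 117) (nat_lit 199) (nat_lit 194)) (PT.lf (nat_lit 13452) (nat_lit 6) (nat_lit 177) (nat_lit 2) (nat_lit 194) (nat_lit 199) (nat_lit 117))))))))
noncomputable def pc52 : PT := (PT.nd (nat_lit 53508) (PT.nd (nat_lit 46332) (PT.nd (nat_lit 390) (PT.nd (nat_lit 156) (PT.nd (nat_lit 78) (PT.lf (nat_lit 13224) (nat_lit 6) (nat_lit 174) (nat_lit 2) (nat_lit 195) (nat_lit 199) (nat_lit 116)) (PT.lf (nat_lit 13072) (nat_lit 6) (nat_lit 172) (nat_lit 2) (nat_lit 196) (nat_lit 199) (nat_lit 115))) (PT.nd (nat_lit 78) (PT.lf (nat_lit 12920) (nat_lit 6) (nat_lit 170) (nat_lit 2) (nat_lit 197) (nat_lit 199) (nat_lit 114)) (PT.nd (nat_lit 78) (PT.lf (nat_lit 12768) (nat_lit 6) (nat_lit 168) (nat_lit 2) (nat_lit 198) (nat_lit 199) (nat_lit 113)) (PT.lf (nat_lit 12616) (nat_lit 3) (nat_lit 166) (nat_lit 0) (nat_lit 199) (nat_lit 199) (nat_lit 112))))) (PT.nd (nat_lit 156) (PT.nd (nat_lit 78) (PT.lf (nat_lit 12388) (nat_lit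 6) (nat_lit 163) (nat_lit 0) (nat_lit 200) (nat_lit 199) (nat_lit 111)) (PT.lf (nat_lit 12160) (nat_lit 6) (nat_lit 160) (nat_lit 0) (nat_lit 201) (nat_lit 199) (nat_lit 110))) (PT.nd (nat_lit 78) (PT.lf (nat_lit 11932) (nat_lit 6) (nat_lit 157) (nat_lit 0) (nat_lit 202) (nat_lit 199) (nat_lit 109)) (PT.nd (nat_lit 45630) (PT.lf (nat_lit 11704) (nat_lit 6) (nat_lit 154) (nat_lit 0) (nat_lit 203) (nat_lit 199) (nat_lit 108)) (PT.lf (nat_lit 11552) (nat_lit 6) (nat_lit 152) (nat_lit 5) (nat_lit 107) (nat_lit 200) (nat_lit 203)))))) (PT.nd (nat_lit 390) (PT.nd (nat_lit 156) (PT.nd (nat_lit 78) (PT.lf (nat_lit 11780) (nat_lit 6) (nat_lit 155) (nat_lit 5) (nat_lit 108) (nat_lit 200) (nat_lit 202)) (PT.lf (nat_lit 12008) (nat_lit 6) (nat_lit 158) (nat_lit 5) (nat_lit 109) (nat_lit 200) (nat_lit 201))) (PT.nd (nat_lit 78) (PT.lf (nat_lit 12236) (nat_lit 3) (nat_lit 161) (nat_lit 4) (nat_lit 110) (nat_lit 200)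 (nat_lit 200)) (PT.nd (nat_lit 78) (PT.lf (nat_lit 12388) (nat_lit 6) (nat_lit 163) (nat_lit 4) (nat_lit 111) (nat_lit 200) (nat_lit 199)) (PT.lf (nat_lit 12540) (nat_lit 6) (nat_lit 165) (nat_lit 4) (nat_lit 112) (nat_lit 200) (nat_lit 198))))) (PT.nd (nat_lit 6552) (PT.nd (nat_lit 78) (PT.lf (nat_lit 12692) (nat_lit 6) (nat_lit 167) (nat_lit 4) (nat_lit 113) (nat_lit 200) (nat_lit 197)) (PT.nd (nat_lit 6396) (PT.lf (nat_lit 12844) (nat_lit 6) (nat_lit 169) (nat_lit 4) (nat_lit 114) (nat_lit 200) (nat_lit 196)) (PT.lf (nat_lit 12844) (nat_lit 6) (nat_lit 169) (nat_lit 2) (nat_lit 196) (nat_lit 200) (nat_lit 114)))) (PT.nd (nat_lit 78) (PT.lf (nat_lit 12692) (nat_lit 6) (nat_lit 167) (nat_lit 2) (nat_lit 197) (nat_lit 200) (nat_lit 113)) (PT.nd (nat_lit 78) (PT.lf (nat_lit 12540) (nat_lit 6) (nat_lit 165) (nat_lit 2) (nat_lit 198) (nat_lit 200) (nat_lit 112)) (PT.lf (nat_lit 12388) (nat_lit 6) (nat_lit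 163) (nat_lit 2) (nat_lit 199) (nat_lit 200) (nat_lit 111))))))) (PT.nd (nat_lit 46254) (PT.nd (nat_lit 45786) (PT.nd (nat_lit 156) (PT.nd (nat_lit 78) (PT.lf (nat_lit 12236) (nat_lit 3) (nat_lit 161) (nat_lit 0) (nat_lit 200) (nat_lit 200) (nat_lit 110)) (PT.lf (nat_lit 12008) (nat_lit 6) (nat_lit 158) (nat_lit 0) (nat_lit 201) (nat_lit 200) (nat_lit 109))) (PT.nd (nat_lit 78) (PT.lf (nat_lit 11780) (nat_lit 6) (nat_lit 155) (nat_lit 0) (nat_lit 202) (nat_lit 200) (nat_lit 108)) (PT.nd (nat_lit 45474) (PT.lf (nat_lit 11552) (nat_lit 6) (nat_lit 152) (nat_lit 0) (nat_lit 203) (nat_lit 200) (nat_lit 107)) (PT.lf (nat_lit 11248) (nat_lit 6) (nat_lit 148) (nat_lit 5) (nat_lit 105) (nat_lit 201) (nat_lit 204))))) (PT.nd (nat_lit 234) (PT.nd (nat_lit 78) (PT.lf (nat_lit 11400) (nat_lit 6) (nat_lit 150) (nat_lit 5) (nat_lit 106) (nat_lit 201) (nat_lit 203)) (PT.nd (nat_lit 78) (PT.lf (nat_lit 11628) (nat_lit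 6) (nat_lit 153) (nat_lit 5) (nat_lit 107) (nat_lit 201) (nat_lit 202)) (PT.lf (nat_lit 11856) (nat_lit 3) (nat_lit 156) (nat_lit 4) (nat_lit 108) (nat_lit 201) (nat_lit 201)))) (PT.nd (nat_lit 78) (PT.lf (nat_lit 12008) (nat_lit 6) (nat_lit 158) (nat_lit 4) (nat_lit 109) (nat_lit 201) (nat_lit 200)) (PT.nd (nat_lit 78) (PT.lf (nat_lit 12160) (nat_lit 6) (nat_lit 160) (nat_lit 4) (nat_lit 110) (nat_lit 201) (nat_lit 199)) (PT.lf (nat_lit 12312) (nat_lit 6) (nat_lit 162) (nat_lit 4) (nat_lit 111) (nat_lit 201) (nat_lit 198)))))) (PT.nd (nat_lit 6942) (PT.nd (nat_lit 6708) (PT.nd (nat_lit 6630) (PT.lf (nat_lit 12464) (nat_lit 6) (nat_lit 164) (nat_lit 4) (nat_lit 112) (nat_lit 201) (nat_lit 197)) (PT.lf (nat_lit 12464) (nat_lit 6) (nat_lit 164) (nat_lit 2) (nat_lit 197) (nat_lit 201) (nat_lit 112))) (PT.nd (nat_lit 78) (PT.lf (nat_lit 12312) (nat_lit 6) (nat_lit 162) (nat_lit 2) (nat_lit 198) (nat_lit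 201) (nat_lit 111)) (PT.nd (nat_lit 78) (PT.lf (nat_lit 12160) (nat_lit 6) (nat_lit 160) (nat_lit 2) (nat_lit 199) (nat_lit 201) (nat_lit 110)) (PT.lf (nat_lit 12008) (nat_lit 6) (nat_lit 158) (nat_lit 2) (nat_lit 200) (nat_lit 201) (nat_lit 109))))) (PT.nd (nat_lit 234) (PT.nd (nat_lit 78) (PT.lf (nat_lit 11856) (nat_lit 3) (nat_lit 156) (nat_lit 0) (nat_lit 201) (nat_lit 201) (nat_lit 108)) (PT.nd (nat_lit 78) (PT.lf (nat_lit 11628) (nat_lit 6) (nat_lit 153) (nat_lit 0) (nat_lit 202) (nat_lit 201) (nat_lit 107)) (PT.lf (nat_lit 11400) (nat_lit 6) (nat_lit 150) (nat_lit 0) (nat_lit 203) (nat_lit 201) (nat_lit 106)))) (PT.nd (nat_lit 45240) (PT.lf (nat_lit 11248) (nat_lit 6) (nat_lit 148) (nat_lit 0) (nat_lit 204) (nat_lit 201) (nat_lit 105)) (PT.nd (nat_lit 78) (PT.lf (nat_lit 10944) (nat_lit 6) (nat_lit 144) (nat_lit 5) (nat_lit 103) (nat_lit 202) (nat_lit 205)) (PT.lf (nat_lit 11096) (nat_lit 6)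 (nat_lit 146) (nat_lit 5) (nat_lit 104) (nat_lit 202) (nat_lit 204))))))))
noncomputable def pc53 : PT := (PT.nd (nat_lit 60450) (PT.nd (nat_lit 7644) (PT.nd (nat_lit 390) (PT.nd (nat_lit 156) (PT.nd (nat_lit 78) (PT.lf (nat_lit 11324) (nat_lit 6) (nat_lit 149) (nat_lit 5) (nat_lit 105) (nat_lit 202) (nat_lit 203)) (PT.lf (nat_lit 11476) (nat_lit 3) (nat_lit 151) (nat_lit 4) (nat_lit 106) (nat_lit 202) (nat_lit 202))) (PT.nd (nat_lit 78) (PT.lf (nat_lit 11628) (nat_lit 6) (nat_lit 153) (nat_lit 4) (nat_lit 107) (nat_lit 202) (nat_lit 201)) (PT.nd (nat_lit 78) (PT.lf (nat_lit 11780) (nat_lit 6) (nat_lit 155) (nat_lit 4) (nat_lit 108) (nat_lit 202) (nat_lit 200)) (PT.lf (nat_lit 11932) (nat_lit 6) (nat_lit 157) (nat_lit 4) (nat_lit 109) (nat_lit 202) (nat_lit 199))))) (PT.nd (nat_lit 7020) (PT.nd (nat_lit 6864) (PT.lf (nat_lit 12084) (nat_lit 6) (nat_lit 159) (nat_lit 4) (nat_lit 110) (nat_lit 202) (nat_lit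 198)) (PT.nd (nat_lit 78) (PT.lf (nat_lit 12084) (nat_lit 6) (nat_lit 159) (nat_lit 2) (nat_lit 198) (nat_lit 202) (nat_lit 110)) (PT.lf (nat_lit 11932) (nat_lit 6) (nat_lit 157) (nat_lit 2) (nat_lit 199) (nat_lit 202) (nat_lit 109)))) (PT.nd (nat_lit 78) (PT.lf (nat_lit 11780) (nat_lit 6) (nat_lit 155) (nat_lit 2) (nat_lit 200) (nat_lit 202) (nat_lit 108)) (PT.nd (nat_lit 78) (PT.lf (nat_lit 11628) (nat_lit 6) (nat_lit 153) (nat_lit 2) (nat_lit 201) (nat_lit 202) (nat_lit 107)) (PT.lf (nat_lit 11476) (nat_lit 3) (nat_lit 151) (nat_lit 0) (nat_lit 202) (nat_lit 202) (nat_lit 106)))))) (PT.nd (nat_lit 45318) (PT.nd (nat_lit 156) (PT.nd (nat_lit 78) (PT.lf (nat_lit 11324) (nat_lit 6) (nat_lit 149) (nat_lit 0) (nat_lit 203) (nat_lit 202) (nat_lit 105)) (PT.lf (nat_lit 11096) (nat_lit 6) (nat_lit 146) (nat_lit 0) (nat_lit 204) (nat_lit 202) (nat_lit 104))) (PT.nd (nat_lit 45006) (PT.lf (nat_lit 10944) (nat_lit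 6) (nat_lit 144) (nat_lit 0) (nat_lit 205) (nat_lit 202) (nat_lit 103)) (PT.nd (nat_lit 78) (PT.lf (nat_lit 10640) (nat_lit 6) (nat_lit 140) (nat_lit 5) (nat_lit 101) (nat_lit 203) (nat_lit 206)) (PT.lf (nat_lit 10792) (nat_lit 6) (nat_lit 142) (nat_lit 5) (nat_lit 102) (nat_lit 203) (nat_lit 205))))) (PT.nd (nat_lit 234) (PT.nd (nat_lit 78) (PT.lf (nat_lit 11020) (nat_lit 6) (nat_lit 145) (nat_lit 5) (nat_lit 103) (nat_lit 203) (nat_lit 204)) (PT.nd (nat_lit 78) (PT.lf (nat_lit 11172) (nat_lit 3) (nat_lit 147) (nat_lit 4) (nat_lit 104) (nat_lit 203) (nat_lit 203)) (PT.lf (nat_lit 11324) (nat_lit 6) (nat_lit 149) (nat_lit 4) (nat_lit 105) (nat_lit 203) (nat_lit 202)))) (PT.nd (nat_lit 78) (PT.lf (nat_lit 11400) (nat_lit 6) (nat_lit 150) (nat_lit 4) (nat_lit 106) (nat_lit 203) (nat_lit 201)) (PT.nd (nat_lit 78) (PT.lf (nat_lit 11552) (nat_lit 6) (nat_lit 152) (nat_lit 4) (nat_lit 107) (nat_lit 203) (nat_lit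 200)) (PT.lf (nat_lit 11704) (nat_lit 6) (nat_lit 154) (nat_lit 4) (nat_lit 108) (nat_lit 203) (nat_lit 199))))))) (PT.nd (nat_lit 45552) (PT.nd (nat_lit 390) (PT.nd (nat_lit 156) (PT.nd (nat_lit 78) (PT.lf (nat_lit 11704) (nat_lit 6) (nat_lit 154) (nat_lit 2) (nat_lit 199) (nat_lit 203) (nat_lit 108)) (PT.lf (nat_lit 11552) (nat_lit 6) (nat_lit 152) (nat_lit 2) (nat_lit 200) (nat_lit 203) (nat_lit 107))) (PT.nd (nat_lit 78) (PT.lf (nat_lit 11400) (nat_lit 6) (nat_lit 150) (nat_lit 2) (nat_lit 201) (nat_lit 203) (nat_lit 106)) (PT.nd (nat_lit 78) (PT.lf (nat_lit 11324) (nat_lit 6) (nat_lit 149) (nat_lit 2) (nat_lit 202) (nat_lit 203) (nat_lit 105)) (PT.lf (nat_lit 11172) (nat_lit 3) (nat_lit 147) (nat_lit 0) (nat_lit 203) (nat_lit 203) (nat_lit 104))))) (PT.nd (nat_lit 44928) (PT.nd (nat_lit 78) (PT.lf (nat_lit 11020) (nat_lit 6) (nat_lit 145) (nat_lit 0) (nat_lit 204) (nat_lit 203) (nat_lit 103)) (PT.nd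 (nat_lit 78) (PT.lf (nat_lit 10792) (nat_lit 6) (nat_lit 142) (nat_lit 0) (nat_lit 205) (nat_lit 203) (nat_lit 102)) (PT.lf (nat_lit 10640) (nat_lit 6) (nat_lit 140) (nat_lit 0) (nat_lit 206) (nat_lit 203) (nat_lit 101)))) (PT.nd (nat_lit 78) (PT.lf (nat_lit 10336) (nat_lit 6) (nat_lit 136) (nat_lit 5) (nat_lit 99) (nat_lit 204) (nat_lit 207)) (PT.nd (nat_lit 78) (PT.lf (nat_lit 10488) (nat_lit 6) (nat_lit 138) (nat_lit 5) (nat_lit 100) (nat_lit 204) (nat_lit 206)) (PT.lf (nat_lit 10716) (nat_lit 6) (nat_lit 141) (nat_lit 5) (nat_lit 101) (nat_lit 204) (nat_lit 205)))))) (PT.nd (nat_lit 7800) (PT.nd (nat_lit 156) (PT.nd (nat_lit 78) (PT.lf (nat_lit 10868) (nat_lit 3) (nat_lit 143) (nat_lit 4) (nat_lit 102) (nat_lit 204) (nat_lit 204)) (PT.lf (nat_lit 11020) (nat_lit 6) (nat_lit 145) (nat_lit 4) (nat_lit 103) (nat_lit 204) (nat_lit 203))) (PT.nd (nat_lit 78) (PT.lf (nat_lit 11096) (nat_lit 6) (nat_lit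 146) (nat_lit 4) (nat_lit 104) (nat_lit 204) (nat_lit 202)) (PT.nd (nat_lit 7488) (PT.lf (nat_lit 11248) (nat_lit 6) (nat_lit 148) (nat_lit 4) (nat_lit 105) (nat_lit 204) (nat_lit 201)) (PT.lf (nat_lit 11248) (nat_lit 6) (nat_lit 148) (nat_lit 2) (nat_lit 201) (nat_lit 204) (nat_lit 105))))) (PT.nd (nat_lit 234) (PT.nd (nat_lit 78) (PT.lf (nat_lit 11096) (nat_lit 6) (nat_lit 146) (nat_lit 2) (nat_lit 202) (nat_lit 204) (nat_lit 104)) (PT.nd (nat_lit 78) (PT.lf (nat_lit 11020) (nat_lit 6) (nat_lit 145) (nat_lit 2) (nat_lit 203) (nat_lit 204) (nat_lit 103)) (PT.lf (nat_lit 10868) (nat_lit 3) (nat_lit 143) (nat_lit 0) (nat_lit 204) (nat_lit 204) (nat_lit 102)))) (PT.nd (nat_lit 78) (PT.lf (nat_lit 10716) (nat_lit 6) (nat_lit 141) (nat_lit 0) (nat_lit 205) (nat_lit 204) (nat_lit 101)) (PT.nd (nat_lit 78) (PT.lf (nat_lit 10488) (nat_lit 6) (nat_lit 138) (nat_lit 0) (nat_lit 206) (nat_lit 204) (nat_lit 100))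 (PT.lf (nat_lit 10336) (nat_lit 6) (nat_lit 136) (nat_lit 0) (nat_lit 207) (nat_lit 204) (nat_lit 99))))))))
noncomputable def pc54 : PT := (PT.nd (nat_lit 61464) (PT.nd (nat_lit 8502) (PT.nd (nat_lit 390) (PT.nd (nat_lit 156) (PT.nd (nat_lit 78) (PT.lf (nat_lit 10032) (nat_lit 6) (nat_lit 132) (nat_lit 5) (nat_lit 97) (nat_lit 205) (nat_lit 208)) (PT.lf (nat_lit 10184) (nat_lit 6) (nat_lit 134) (nat_lit 5) (nat_lit 98) (nat_lit 205) (nat_lit 207))) (PT.nd (nat_lit 78) (PT.lf (nat_lit 10412) (nat_lit 6) (nat_lit 137) (nat_lit 5) (nat_lit 99) (nat_lit 205) (nat_lit 206)) (PT.nd (nat_lit 78) (PT.lf (nat_lit 10564) (nat_lit 3) (nat_lit 139) (nat_lit 4) (nat_lit 100) (nat_lit 205) (nat_lit 205)) (PT.lf (nat_lit 10716) (nat_lit 6) (nat_lit 141) (nat_lit 4) (nat_lit 101) (nat_lit 205) (nat_lit 204))))) (PT.nd (nat_lit 7878) (PT.nd (nat_lit 78) (PT.lf (nat_lit 10792) (nat_lit 6) (nat_lit 142) (nat_lit 4) (nat_lit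 102) (nat_lit 205) (nat_lit 203)) (PT.nd (nat_lit 7722) (PT.lf (nat_lit 10944) (nat_lit 6) (nat_lit 144) (nat_lit 4) (nat_lit 103) (nat_lit 205) (nat_lit 202)) (PT.lf (nat_lit 10944) (nat_lit 6) (nat_lit 144) (nat_lit 2) (nat_lit 202) (nat_lit 205) (nat_lit 103)))) (PT.nd (nat_lit 78) (PT.lf (nat_lit 10792) (nat_lit 6) (nat_lit 142) (nat_lit 2) (nat_lit 203) (nat_lit 205) (nat_lit 102)) (PT.nd (nat_lit 78) (PT.lf (nat_lit 10716) (nat_lit 6) (nat_lit 141) (nat_lit 2) (nat_lit 204) (nat_lit 205) (nat_lit 101)) (PT.lf (nat_lit 10564) (nat_lit 3) (nat_lit 139) (nat_lit 0) (nat_lit 205) (nat_lit 205) (nat_lit 100)))))) (PT.nd (nat_lit 44616) (PT.nd (nat_lit 156) (PT.nd (nat_lit 78) (PT.lf (nat_lit 10412) (nat_lit 6) (nat_lit 137) (nat_lit 0) (nat_lit 206) (nat_lit 205) (nat_lit 99)) (PT.lf (nat_lit 10184) (nat_lit 6) (nat_lit 134) (nat_lit 0) (nat_lit 207) (nat_lit 205) (nat_lit 98))) (PT.nd (nat_lit 44304)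 (PT.lf (nat_lit 10032) (nat_lit 6) (nat_lit 132) (nat_lit 0) (nat_lit 208) (nat_lit 205) (nat_lit 97)) (PT.nd (nat_lit 78) (PT.lf (nat_lit 9728) (nat_lit 6) (nat_lit 128) (nat_lit 5) (nat_lit 95) (nat_lit 206) (nat_lit 209)) (PT.lf (nat_lit 9880) (nat_lit 6) (nat_lit 130) (nat_lit 5) (nat_lit 96) (nat_lit 206) (nat_lit 208))))) (PT.nd (nat_lit 234) (PT.nd (nat_lit 78) (PT.lf (nat_lit 10108) (nat_lit 6) (nat_lit 133) (nat_lit 5) (nat_lit 97) (nat_lit 206) (nat_lit 207)) (PT.nd (nat_lit 78) (PT.lf (nat_lit 10260) (nat_lit 3) (nat_lit 135) (nat_lit 4) (nat_lit 98) (nat_lit 206) (nat_lit 206)) (PT.lf (nat_lit 10412) (nat_lit 6) (nat_lit 137) (nat_lit 4) (nat_lit 99) (nat_lit 206) (nat_lit 205)))) (PT.nd (nat_lit 78) (PT.lf (nat_lit 10488) (nat_lit 6) (nat_lit 138) (nat_lit 4) (nat_lit 100) (nat_lit 206) (nat_lit 204)) (PT.nd (nat_lit 7956) (PT.lf (nat_lit 10640) (nat_lit 6) (nat_lit 140) (nat_lit 4) (nat_lit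 101) (nat_lit 206) (nat_lit 203)) (PT.lf (nat_lit 10640) (nat_lit 6) (nat_lit 140) (nat_lit 2) (nat_lit 203) (nat_lit 206) (nat_lit 101))))))) (PT.nd (nat_lit 44850) (PT.nd (nat_lit 390) (PT.nd (nat_lit 156) (PT.nd (nat_lit 78) (PT.lf (nat_lit 10488) (nat_lit 6) (nat_lit 138) (nat_lit 2) (nat_lit 204) (nat_lit 206) (nat_lit 100)) (PT.lf (nat_lit 10412) (nat_lit 6) (nat_lit 137) (nat_lit 2) (nat_lit 205) (nat_lit 206) (nat_lit 99))) (PT.nd (nat_lit 78) (PT.lf (nat_lit 10260) (nat_lit 3) (nat_lit 135) (nat_lit 0) (nat_lit 206) (nat_lit 206) (nat_lit 98)) (PT.nd (nat_lit 78) (PT.lf (nat_lit 10108) (nat_lit 6) (nat_lit 133) (nat_lit 0) (nat_lit 207) (nat_lit 206) (nat_lit 97)) (PT.lf (nat_lit 9880) (nat_lit 6) (nat_lit 130) (nat_lit 0) (nat_lit 208) (nat_lit 206) (nat_lit 96))))) (PT.nd (nat_lit 44226) (PT.nd (nat_lit 44070) (PT.lf (nat_lit 9728) (nat_lit 6) (nat_lit 128) (nat_lit 0) (nat_lit 209) (nat_lit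 206) (nat_lit 95)) (PT.nd (nat_lit 78) (PT.lf (nat_lit 9424) (nat_lit 6) (nat_lit 124) (nat_lit 5) (nat_lit 93) (nat_lit 207) (nat_lit 210)) (PT.lf (nat_lit 9576) (nat_lit 6) (nat_lit 126) (nat_lit 5) (nat_lit 94) (nat_lit 207) (nat_lit 209)))) (PT.nd (nat_lit 78) (PT.lf (nat_lit 9804) (nat_lit 6) (nat_lit 129) (nat_lit 5) (nat_lit 95) (nat_lit 207) (nat_lit 208)) (PT.nd (nat_lit 78) (PT.lf (nat_lit 9956) (nat_lit 3) (nat_lit 131) (nat_lit 4) (nat_lit 96) (nat_lit 207) (nat_lit 207)) (PT.lf (nat_lit 10108) (nat_lit 6) (nat_lit 133) (nat_lit 4) (nat_lit 97) (nat_lit 207) (nat_lit 206)))))) (PT.nd (nat_lit 8502) (PT.nd (nat_lit 8268) (PT.nd (nat_lit 78) (PT.lf (nat_lit 10184) (nat_lit 6) (nat_lit 134) (nat_lit 4) (nat_lit 98) (nat_lit 207) (nat_lit 205)) (PT.lf (nat_lit 10336) (nat_lit 6) (nat_lit 136) (nat_lit 4) (nat_lit 99) (nat_lit 207) (nat_lit 204))) (PT.nd (nat_lit 78) (PT.lf (nat_lit 10336) (nat_lit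 6) (nat_lit 136) (nat_lit 2) (nat_lit 204) (nat_lit 207) (nat_lit 99)) (PT.nd (nat_lit 78) (PT.lf (nat_lit 10184) (nat_lit 6) (nat_lit 134) (nat_lit 2) (nat_lit 205) (nat_lit 207) (nat_lit 98)) (PT.lf (nat_lit 10108) (nat_lit 6) (nat_lit 133) (nat_lit 2) (nat_lit 206) (nat_lit 207) (nat_lit 97))))) (PT.nd (nat_lit 234) (PT.nd (nat_lit 78) (PT.lf (nat_lit 9956) (nat_lit 3) (nat_lit 131) (nat_lit 0) (nat_lit 207) (nat_lit 207) (nat_lit 96)) (PT.nd (nat_lit 78) (PT.lf (nat_lit 9804) (nat_lit 6) (nat_lit 129) (nat_lit 0) (nat_lit 208) (nat_lit 207) (nat_lit 95)) (PT.lf (nat_lit 9576) (nat_lit 6) (nat_lit 126) (nat_lit 0) (nat_lit 209) (nat_lit 207) (nat_lit 94)))) (PT.nd (nat_lit 43836) (PT.lf (nat_lit 9424) (nat_lit 6) (nat_lit 124) (nat_lit 0) (nat_lit 210) (nat_lit 207) (nat_lit 93)) (PT.nd (nat_lit 78) (PT.lf (nat_lit 9120) (nat_lit 6) (nat_lit 120) (nat_lit 5) (nat_lit 91) (nat_lit 208) (nat_lit 211))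 (PT.lf (nat_lit 9272) (nat_lit 6) (nat_lit 122) (nat_lit 5) (nat_lit 92) (nat_lit 208) (nat_lit 210))))))))
noncomputable def pc55 : PT := (PT.nd (nat_lit 62244) (PT.nd (nat_lit 9204) (PT.nd (nat_lit 8736) (PT.nd (nat_lit 156) (PT.nd (nat_lit 78) (PT.lf (nat_lit 9500) (nat_lit 6) (nat_lit 125) (nat_lit 5) (nat_lit 93) (nat_lit 208) (nat_lit 209)) (PT.lf (nat_lit 9652) (nat_lit 3) (nat_lit 127) (nat_lit 4) (nat_lit 94) (nat_lit 208) (nat_lit 208))) (PT.nd (nat_lit 78) (PT.lf (nat_lit 9804) (nat_lit 6) (nat_lit 129) (nat_lit 4) (nat_lit 95) (nat_lit 208) (nat_lit 207)) (PT.nd (nat_lit 78) (PT.lf (nat_lit 9880) (nat_lit 6) (nat_lit 130) (nat_lit 4) (nat_lit 96) (nat_lit 208) (nat_lit 206)) (PT.lf (nat_lit 10032) (nat_lit 6) (nat_lit 132) (nat_lit 4) (nat_lit 97) (nat_lit 208) (nat_lit 205))))) (PT.nd (nat_lit 234) (PT.nd (nat_lit 78) (PT.lf (nat_lit 10032) (nat_lit 6) (nat_lit 132) (nat_lit 2) (nat_lit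 205) (nat_lit 208) (nat_lit 97)) (PT.nd (nat_lit 78) (PT.lf (nat_lit 9880) (nat_lit 6) (nat_lit 130) (nat_lit 2) (nat_lit 206) (nat_lit 208) (nat_lit 96)) (PT.lf (nat_lit 9804) (nat_lit 6) (nat_lit 129) (nat_lit 2) (nat_lit 207) (nat_lit 208) (nat_lit 95)))) (PT.nd (nat_lit 78) (PT.lf (nat_lit 9652) (nat_lit 3) (nat_lit 127) (nat_lit 0) (nat_lit 208) (nat_lit 208) (nat_lit 94)) (PT.nd (nat_lit 78) (PT.lf (nat_lit 9500) (nat_lit 6) (nat_lit 125) (nat_lit 0) (nat_lit 209) (nat_lit 208) (nat_lit 93)) (PT.lf (nat_lit 9272) (nat_lit 6) (nat_lit 122) (nat_lit 0) (nat_lit 210) (nat_lit 208) (nat_lit 92)))))) (PT.nd (nat_lit 43992) (PT.nd (nat_lit 43758) (PT.nd (nat_lit 43680) (PT.lf (nat_lit 9120) (nat_lit 6) (nat_lit 120) (nat_lit 0) (nat_lit 211) (nat_lit 208) (nat_lit 91)) (PT.lf (nat_lit 8968) (nat_lit 6) (nat_lit 118) (nat_lit 5) (nat_lit 90) (nat_lit 209) (nat_lit 211))) (PT.nd (nat_lit 78) (PT.lf (nat_lit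 9196) (nat_lit 6) (nat_lit 121) (nat_lit 5) (nat_lit 91) (nat_lit 209) (nat_lit 210)) (PT.nd (nat_lit 78) (PT.lf (nat_lit 9348) (nat_lit 3) (nat_lit 123) (nat_lit 4) (nat_lit 92) (nat_lit 209) (nat_lit 209)) (PT.lf (nat_lit 9500) (nat_lit 6) (nat_lit 125) (nat_lit 4) (nat_lit 93) (nat_lit 209) (nat_lit 208))))) (PT.nd (nat_lit 8814) (PT.nd (nat_lit 78) (PT.lf (nat_lit 9576) (nat_lit 6) (nat_lit 126) (nat_lit 4) (nat_lit 94) (nat_lit 209) (nat_lit 207)) (PT.nd (nat_lit 8658) (PT.lf (nat_lit 9728) (nat_lit 6) (nat_lit 128) (nat_lit 4) (nat_lit 95) (nat_lit 209) (nat_lit 206)) (PT.lf (nat_lit 9728) (nat_lit 6) (nat_lit 128) (nat_lit 2) (nat_lit 206) (nat_lit 209) (nat_lit 95)))) (PT.nd (nat_lit 78) (PT.lf (nat_lit 9576) (nat_lit 6) (nat_lit 126) (nat_lit 2) (nat_lit 207) (nat_lit 209) (nat_lit 94)) (PT.nd (nat_lit 78) (PT.lf (nat_lit 9500) (nat_lit 6) (nat_lit 125) (nat_lit 2) (nat_lit 208) (nat_lit 209)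 (nat_lit 93)) (PT.lf (nat_lit 9348) (nat_lit 3) (nat_lit 123) (nat_lit 0) (nat_lit 209) (nat_lit 209) (nat_lit 92))))))) (PT.nd (nat_lit 53118) (PT.nd (nat_lit 43836) (PT.nd (nat_lit 43602) (PT.nd (nat_lit 78) (PT.lf (nat_lit 9196) (nat_lit 6) (nat_lit 121) (nat_lit 0) (nat_lit 210) (nat_lit 209) (nat_lit 91)) (PT.lf (nat_lit 8968) (nat_lit 6) (nat_lit 118) (nat_lit 0) (nat_lit 211) (nat_lit 209) (nat_lit 90))) (PT.nd (nat_lit 78) (PT.lf (nat_lit 8740) (nat_lit 6) (nat_lit 115) (nat_lit 5) (nat_lit 88) (nat_lit 210) (nat_lit 212)) (PT.nd (nat_lit 78) (PT.lf (nat_lit 8892) (nat_lit 6) (nat_lit 117) (nat_lit 5) (nat_lit 89) (nat_lit 210) (nat_lit 211)) (PT.lf (nat_lit 9044) (nat_lit 3) (nat_lit 119) (nat_lit 4) (nat_lit 90) (nat_lit 210) (nat_lit 210))))) (PT.nd (nat_lit 9048) (PT.nd (nat_lit 78) (PT.lf (nat_lit 9196) (nat_lit 6) (nat_lit 121) (nat_lit 4) (nat_lit 91) (nat_lit 210) (nat_lit 209)) (PT.nd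 (nat_lit 78) (PT.lf (nat_lit 9272) (nat_lit 6) (nat_lit 122) (nat_lit 4) (nat_lit 92) (nat_lit 210) (nat_lit 208)) (PT.lf (nat_lit 9424) (nat_lit 6) (nat_lit 124) (nat_lit 4) (nat_lit 93) (nat_lit 210) (nat_lit 207)))) (PT.nd (nat_lit 78) (PT.lf (nat_lit 9424) (nat_lit 6) (nat_lit 124) (nat_lit 2) (nat_lit 207) (nat_lit 210) (nat_lit 93)) (PT.nd (nat_lit 78) (PT.lf (nat_lit 9272) (nat_lit 6) (nat_lit 122) (nat_lit 2) (nat_lit 208) (nat_lit 210) (nat_lit 92)) (PT.lf (nat_lit 9196) (nat_lit 6) (nat_lit 121) (nat_lit 2) (nat_lit 209) (nat_lit 210) (nat_lit 91)))))) (PT.nd (nat_lit 43602) (PT.nd (nat_lit 156) (PT.nd (nat_lit 78) (PT.lf (nat_lit 9044) (nat_lit 3) (nat_lit 119) (nat_lit 0) (nat_lit 210) (nat_lit 210) (nat_lit 90)) (PT.lf (nat_lit 8892) (nat_lit 6) (nat_lit 117) (nat_lit 0) (nat_lit 211) (nat_lit 210) (nat_lit 89))) (PT.nd (nat_lit 43290) (PT.lf (nat_lit 8740) (nat_lit 6) (nat_lit 115) (nat_lit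 0) (nat_lit 212) (nat_lit 210) (nat_lit 88)) (PT.nd (nat_lit 78) (PT.lf (nat_lit 8512) (nat_lit 6) (nat_lit 112) (nat_lit 5) (nat_lit 86) (nat_lit 211) (nat_lit 213)) (PT.lf (nat_lit 8664) (nat_lit 6) (nat_lit 114) (nat_lit 5) (nat_lit 87) (nat_lit 211) (nat_lit 212))))) (PT.nd (nat_lit 234) (PT.nd (nat_lit 78) (PT.lf (nat_lit 8816) (nat_lit 3) (nat_lit 116) (nat_lit 4) (nat_lit 88) (nat_lit 211) (nat_lit 211)) (PT.nd (nat_lit 78) (PT.lf (nat_lit 8892) (nat_lit 6) (nat_lit 117) (nat_lit 4) (nat_lit 89) (nat_lit 211) (nat_lit 210)) (PT.lf (nat_lit 8968) (nat_lit 6) (nat_lit 118) (nat_lit 4) (nat_lit 90) (nat_lit 211) (nat_lit 209)))) (PT.nd (nat_lit 9126) (PT.lf (nat_lit 9120) (nat_lit 6) (nat_lit 120) (nat_lit 4) (nat_lit 91) (nat_lit 211) (nat_lit 208)) (PT.nd (nat_lit 78) (PT.lf (nat_lit 9120) (nat_lit 6) (nat_lit 120) (nat_lit 2) (nat_lit 208) (nat_lit 211) (nat_lit 91)) (PT.lf (nat_lit 8968) (nat_lit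 6) (nat_lit 118) (nat_lit 2) (nat_lit 209) (nat_lit 211) (nat_lit 90))))))))
noncomputable def pc56 : PT := (PT.nd (nat_lit 106470) (PT.nd (nat_lit 53196) (PT.nd (nat_lit 43368) (PT.nd (nat_lit 156) (PT.nd (nat_lit 78) (PT.lf (nat_lit 8892) (nat_lit 6) (nat_lit 117) (nat_lit 2) (nat_lit 210) (nat_lit 211) (nat_lit 89)) (PT.lf (nat_lit 8816) (nat_lit 3) (nat_lit 116) (nat_lit 0) (nat_lit 211) (nat_lit 211) (nat_lit 88))) (PT.nd (nat_lit 78) (PT.lf (nat_lit 8664) (nat_lit 6) (nat_lit 114) (nat_lit 0) (nat_lit 212) (nat_lit 211) (nat_lit 87)) (PT.nd (nat_lit 43056) (PT.lf (nat_lit 8512) (nat_lit 6) (nat_lit 112) (nat_lit 0) (nat_lit 213) (nat_lit 211) (nat_lit 86)) (PT.lf (nat_lit 8284) (nat_lit 6) (nat_lit 109) (nat_lit 5) (nat_lit 84) (nat_lit 212) (nat_lit 214))))) (PT.nd (nat_lit 156) (PT.nd (nat_lit 78) (PT.lf (nat_lit 8436) (nat_lit 6) (nat_lit 111) (nat_lit 5) (nat_lit 85) (nat_lit 212) (nat_lit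 213)) (PT.lf (nat_lit 8588) (nat_lit 3) (nat_lit 113) (nat_lit 4) (nat_lit 86) (nat_lit 212) (nat_lit 212))) (PT.nd (nat_lit 78) (PT.lf (nat_lit 8664) (nat_lit 6) (nat_lit 114) (nat_lit 4) (nat_lit 87) (nat_lit 212) (nat_lit 211)) (PT.nd (nat_lit 9516) (PT.lf (nat_lit 8740) (nat_lit 6) (nat_lit 115) (nat_lit 4) (nat_lit 88) (nat_lit 212) (nat_lit 210)) (PT.lf (nat_lit 8740) (nat_lit 6) (nat_lit 115) (nat_lit 2) (nat_lit 210) (nat_lit 212) (nat_lit 88)))))) (PT.nd (nat_lit 43134) (PT.nd (nat_lit 156) (PT.nd (nat_lit 78) (PT.lf (nat_lit 8664) (nat_lit 6) (nat_lit 114) (nat_lit 2) (nat_lit 211) (nat_lit 212) (nat_lit 87)) (PT.lf (nat_lit 8588) (nat_lit 3) (nat_lit 113) (nat_lit 0) (nat_lit 212) (nat_lit 212) (nat_lit 86))) (PT.nd (nat_lit 78) (PT.lf (nat_lit 8436) (nat_lit 6) (nat_lit 111) (nat_lit 0) (nat_lit 213) (nat_lit 212) (nat_lit 85)) (PT.nd (nat_lit 42822) (PT.lf (nat_lit 8284) (nat_lit 6) (nat_lit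 109) (nat_lit 0) (nat_lit 214) (nat_lit 212) (nat_lit 84)) (PT.lf (nat_lit 8056) (nat_lit 6) (nat_lit 106) (nat_lit 5) (nat_lit 82) (nat_lit 213) (nat_lit 215))))) (PT.nd (nat_lit 234) (PT.nd (nat_lit 78) (PT.lf (nat_lit 8208) (nat_lit 6) (nat_lit 108) (nat_lit 5) (nat_lit 83) (nat_lit 213) (nat_lit 214)) (PT.nd (nat_lit 78) (PT.lf (nat_lit 8360) (nat_lit 3) (nat_lit 110) (nat_lit 4) (nat_lit 84) (nat_lit 213) (nat_lit 213)) (PT.lf (nat_lit 8436) (nat_lit 6) (nat_lit 111) (nat_lit 4) (nat_lit 85) (nat_lit 213) (nat_lit 212)))) (PT.nd (nat_lit 9750) (PT.lf (nat_lit 8512) (nat_lit 6) (nat_lit 112) (nat_lit 4) (nat_lit 86) (nat_lit 213) (nat_lit 211)) (PT.nd (nat_lit 78) (PT.lf (nat_lit 8512) (nat_lit 6) (nat_lit 112) (nat_lit 2) (nat_lit 211) (nat_lit 213) (nat_lit 86)) (PT.lf (nat_lit 8436) (nat_lit 6) (nat_lit 111) (nat_lit 2) (nat_lit 212) (nat_lit 213) (nat_lit 85))))))) (PT.nd (nat_lit 53274) (PT.nd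 (nat_lit 42900) (PT.nd (nat_lit 156) (PT.nd (nat_lit 78) (PT.lf (nat_lit 8360) (nat_lit 3) (nat_lit 110) (nat_lit 0) (nat_lit 213) (nat_lit 213) (nat_lit 84)) (PT.lf (nat_lit 8208) (nat_lit 6) (nat_lit 108) (nat_lit 0) (nat_lit 214) (nat_lit 213) (nat_lit 83))) (PT.nd (nat_lit 42588) (PT.lf (nat_lit 8056) (nat_lit 6) (nat_lit 106) (nat_lit 0) (nat_lit 215) (nat_lit 213) (nat_lit 82)) (PT.nd (nat_lit 78) (PT.lf (nat_lit 7828) (nat_lit 6) (nat_lit 103) (nat_lit 5) (nat_lit 80) (nat_lit 214) (nat_lit 216)) (PT.lf (nat_lit 7980) (nat_lit 6) (nat_lit 105) (nat_lit 5) (nat_lit 81) (nat_lit 214) (nat_lit 215))))) (PT.nd (nat_lit 10140) (PT.nd (nat_lit 78) (PT.lf (nat_lit 8132) (nat_lit 3) (nat_lit 107) (nat_lit 4) (nat_lit 82) (nat_lit 214) (nat_lit 214)) (PT.nd (nat_lit 78) (PT.lf (nat_lit 8208) (nat_lit 6) (nat_lit 108) (nat_lit 4) (nat_lit 83) (nat_lit 214) (nat_lit 213)) (PT.lf (nat_lit 8284) (nat_lit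 6) (nat_lit 109) (nat_lit 4) (nat_lit 84) (nat_lit 214) (nat_lit 212)))) (PT.nd (nat_lit 78) (PT.lf (nat_lit 8284) (nat_lit 6) (nat_lit 109) (nat_lit 2) (nat_lit 212) (nat_lit 214) (nat_lit 84)) (PT.nd (nat_lit 78) (PT.lf (nat_lit 8208) (nat_lit 6) (nat_lit 108) (nat_lit 2) (nat_lit 213) (nat_lit 214) (nat_lit 83)) (PT.lf (nat_lit 8132) (nat_lit 3) (nat_lit 107) (nat_lit 0) (nat_lit 214) (nat_lit 214) (nat_lit 82)))))) (PT.nd (nat_lit 42666) (PT.nd (nat_lit 42432) (PT.nd (nat_lit 78) (PT.lf (nat_lit 7980) (nat_lit 6) (nat_lit 105) (nat_lit 0) (nat_lit 215) (nat_lit 214) (nat_lit 81)) (PT.lf (nat_lit 7828) (nat_lit 6) (nat_lit 103) (nat_lit 0) (nat_lit 216) (nat_lit 214) (nat_lit 80))) (PT.nd (nat_lit 78) (PT.lf (nat_lit 7600) (nat_lit 6) (nat_lit 100) (nat_lit 5) (nat_lit 78) (nat_lit 215) (nat_lit 217)) (PT.nd (nat_lit 78) (PT.lf (nat_lit 7752) (nat_lit 6) (nat_lit 102) (nat_lit 5) (nat_lit 79) (nat_lit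 215) (nat_lit 216)) (PT.lf (nat_lit 7904) (nat_lit 3) (nat_lit 104) (nat_lit 4) (nat_lit 80) (nat_lit 215) (nat_lit 215))))) (PT.nd (nat_lit 10374) (PT.nd (nat_lit 78) (PT.lf (nat_lit 7980) (nat_lit 6) (nat_lit 105) (nat_lit 4) (nat_lit 81) (nat_lit 215) (nat_lit 214)) (PT.nd (nat_lit 10218) (PT.lf (nat_lit 8056) (nat_lit 6) (nat_lit 106) (nat_lit 4) (nat_lit 82) (nat_lit 215) (nat_lit 213)) (PT.lf (nat_lit 8056) (nat_lit 6) (nat_lit 106) (nat_lit 2) (nat_lit 213) (nat_lit 215) (nat_lit 82)))) (PT.nd (nat_lit 78) (PT.lf (nat_lit 7980) (nat_lit 6) (nat_lit 105) (nat_lit 2) (nat_lit 214) (nat_lit 215) (nat_lit 81)) (PT.nd (nat_lit 78) (PT.lf (nat_lit 7904) (nat_lit 3) (nat_lit 104) (nat_lit 0) (nat_lit 215) (nat_lit 215) (nat_lit 80)) (PT.lf (nat_lit 7752) (nat_lit 6) (nat_lit 102) (nat_lit 0) (nat_lit 216) (nat_lit 215) (nat_lit 79))))))))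
noncomputable def pc57 : PT := (PT.nd (nat_lit 148122) (PT.nd (nat_lit 95082) (PT.nd (nat_lit 42432) (PT.nd (nat_lit 42198) (PT.nd (nat_lit 42120) (PT.lf (nat_lit 7600) (nat_lit 6) (nat_lit 100) (nat_lit 0) (nat_lit 217) (nat_lit 215) (nat_lit 78)) (PT.lf (nat_lit 7372) (nat_lit 6) (nat_lit 97) (nat_lit 5) (nat_lit 76) (nat_lit 216) (nat_lit 218))) (PT.nd (nat_lit 78) (PT.lf (nat_lit 7524) (nat_lit 6) (nat_lit 99) (nat_lit 5) (nat_lit 77) (nat_lit 216) (nat_lit 217)) (PT.nd (nat_lit 78) (PT.lf (nat_lit 7676) (nat_lit 3) (nat_lit 101) (nat_lit 4) (nat_lit 78) (nat_lit 216) (nat_lit 216)) (PT.lf (nat_lit 7752) (nat_lit 6) (nat_lit 102) (nat_lit 4) (nat_lit 79) (nat_lit 216) (nat_lit 215))))) (PT.nd (nat_lit 10608) (PT.nd (nat_lit 10452) (PT.lf (nat_lit 7828) (nat_lit 6) (nat_lit 103) (nat_lit 4) (nat_lit 80) (nat_lit 216) (nat_lit 214)) (PT.nd (nat_lit 78) (PT.lf (nat_lit 7828) (nat_lit 6) (nat_lit 103)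 (nat_lit 2) (nat_lit 214) (nat_lit 216) (nat_lit 80)) (PT.lf (nat_lit 7752) (nat_lit 6) (nat_lit 102) (nat_lit 2) (nat_lit 215) (nat_lit 216) (nat_lit 79)))) (PT.nd (nat_lit 78) (PT.lf (nat_lit 7676) (nat_lit 3) (nat_lit 101) (nat_lit 0) (nat_lit 216) (nat_lit 216) (nat_lit 78)) (PT.nd (nat_lit 78) (PT.lf (nat_lit 7524) (nat_lit 6) (nat_lit 99) (nat_lit 0) (nat_lit 217) (nat_lit 216) (nat_lit 77)) (PT.lf (nat_lit 7372) (nat_lit 6) (nat_lit 97) (nat_lit 0) (nat_lit 218) (nat_lit 216) (nat_lit 76)))))) (PT.nd (nat_lit 10998) (PT.nd (nat_lit 156) (PT.nd (nat_lit 78) (PT.lf (nat_lit 7144) (nat_lit 6) (nat_lit 94) (nat_lit 5) (nat_lit 74) (nat_lit 217) (nat_lit 219)) (PT.lf (nat_lit 7296) (nat_lit 6) (nat_lit 96) (nat_lit 5) (nat_lit 75) (nat_lit 217) (nat_lit 218))) (PT.nd (nat_lit 78) (PT.lf (nat_lit 7448) (nat_lit 3) (nat_lit 98) (nat_lit 4) (nat_lit 76) (nat_lit 217) (nat_lit 217)) (PT.nd (nat_lit 78)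 (PT.lf (nat_lit 7524) (nat_lit 6) (nat_lit 99) (nat_lit 4) (nat_lit 77) (nat_lit 217) (nat_lit 216)) (PT.lf (nat_lit 7600) (nat_lit 6) (nat_lit 100) (nat_lit 4) (nat_lit 78) (nat_lit 217) (nat_lit 215))))) (PT.nd (nat_lit 234) (PT.nd (nat_lit 78) (PT.lf (nat_lit 7600) (nat_lit 6) (nat_lit 100) (nat_lit 2) (nat_lit 215) (nat_lit 217) (nat_lit 78)) (PT.nd (nat_lit 78) (PT.lf (nat_lit 7524) (nat_lit 6) (nat_lit 99) (nat_lit 2) (nat_lit 216) (nat_lit 217) (nat_lit 77)) (PT.lf (nat_lit 7448) (nat_lit 3) (nat_lit 98) (nat_lit 0) (nat_lit 217) (nat_lit 217) (nat_lit 76)))) (PT.nd (nat_lit 78) (PT.lf (nat_lit 7296) (nat_lit 6) (nat_lit 96) (nat_lit 0) (nat_lit 218) (nat_lit 217) (nat_lit 75)) (PT.nd (nat_lit 41652) (PT.lf (nat_lit 7144) (nat_lit 6) (nat_lit 94) (nat_lit 0) (nat_lit 219) (nat_lit 217) (nat_lit 74)) (PT.lf (nat_lit 6916) (nat_lit 6) (nat_lit 91) (nat_lit 5) (nat_lit 72) (nat_lit 218) (nat_lit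 220))))))) (PT.nd (nat_lit 53040) (PT.nd (nat_lit 11232) (PT.nd (nat_lit 156) (PT.nd (nat_lit 78) (PT.lf (nat_lit 7068) (nat_lit 6) (nat_lit 93) (nat_lit 5) (nat_lit 73) (nat_lit 218) (nat_lit 219)) (PT.lf (nat_lit 7220) (nat_lit 3) (nat_lit 95) (nat_lit 4) (nat_lit 74) (nat_lit 218) (nat_lit 218))) (PT.nd (nat_lit 78) (PT.lf (nat_lit 7296) (nat_lit 6) (nat_lit 96) (nat_lit 4) (nat_lit 75) (nat_lit 218) (nat_lit 217)) (PT.nd (nat_lit 10920) (PT.lf (nat_lit 7372) (nat_lit 6) (nat_lit 97) (nat_lit 4) (nat_lit 76) (nat_lit 218) (nat_lit 216)) (PT.lf (nat_lit 7372) (nat_lit 6) (nat_lit 97) (nat_lit 2) (nat_lit 216) (nat_lit 218) (nat_lit 76))))) (PT.nd (nat_lit 234) (PT.nd (nat_lit 78) (PT.lf (nat_lit 7296) (nat_lit 6) (nat_lit 96) (nat_lit 2) (nat_lit 217) (nat_lit 218) (nat_lit 75)) (PT.nd (nat_lit 78) (PT.lf (nat_lit 7220) (nat_lit 3) (nat_lit 95) (nat_lit 0) (nat_lit 218) (nat_lit 218) (nat_lit 74))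 (PT.lf (nat_lit 7068) (nat_lit 6) (nat_lit 93) (nat_lit 0) (nat_lit 219) (nat_lit 218) (nat_lit 73)))) (PT.nd (nat_lit 41418) (PT.lf (nat_lit 6916) (nat_lit 6) (nat_lit 91) (nat_lit 0) (nat_lit 220) (nat_lit 218) (nat_lit 72)) (PT.nd (nat_lit 78) (PT.lf (nat_lit 6688) (nat_lit 6) (nat_lit 88) (nat_lit 5) (nat_lit 70) (nat_lit 219) (nat_lit 221)) (PT.lf (nat_lit 6840) (nat_lit 6) (nat_lit 90) (nat_lit 5) (nat_lit 71) (nat_lit 219) (nat_lit 220)))))) (PT.nd (nat_lit 11466) (PT.nd (nat_lit 156) (PT.nd (nat_lit 78) (PT.lf (nat_lit 6992) (nat_lit 3) (nat_lit 92) (nat_lit 4) (nat_lit 72) (nat_lit 219) (nat_lit 219)) (PT.lf (nat_lit 7068) (nat_lit 6) (nat_lit 93) (nat_lit 4) (nat_lit 73) (nat_lit 219) (nat_lit 218))) (PT.nd (nat_lit 11154) (PT.lf (nat_lit 7144) (nat_lit 6) (nat_lit 94) (nat_lit 4) (nat_lit 74) (nat_lit 219) (nat_lit 217)) (PT.nd (nat_lit 78) (PT.lf (nat_lit 7144) (nat_lit 6) (nat_lit 94) (nat_lit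 2) (nat_lit 217) (nat_lit 219) (nat_lit 74)) (PT.lf (nat_lit 7068) (nat_lit 6) (nat_lit 93) (nat_lit 2) (nat_lit 218) (nat_lit 219) (nat_lit 73))))) (PT.nd (nat_lit 41340) (PT.nd (nat_lit 78) (PT.lf (nat_lit 6992) (nat_lit 3) (nat_lit 92) (nat_lit 0) (nat_lit 219) (nat_lit 219) (nat_lit 72)) (PT.nd (nat_lit 78) (PT.lf (nat_lit 6840) (nat_lit 6) (nat_lit 90) (nat_lit 0) (nat_lit 220) (nat_lit 219) (nat_lit 71)) (PT.lf (nat_lit 6688) (nat_lit 6) (nat_lit 88) (nat_lit 0) (nat_lit 221) (nat_lit 219) (nat_lit 70)))) (PT.nd (nat_lit 78) (PT.lf (nat_lit 6460) (nat_lit 6) (nat_lit 85) (nat_lit 5) (nat_lit 68) (nat_lit 220) (nat_lit 222)) (PT.nd (nat_lit 78) (PT.lf (nat_lit 6612) (nat_lit 6) (nat_lit 87) (nat_lit 5) (nat_lit 69) (nat_lit 220) (nat_lit 221)) (PT.lf (nat_lit 6764) (nat_lit 3) (nat_lit 89) (nat_lit 4) (nat_lit 70) (nat_lit 220) (nat_lit 220))))))))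
noncomputable def pc58 : PT := (PT.nd (nat_lit 117858) (PT.nd (nat_lit 53040) (PT.nd (nat_lit 11700) (PT.nd (nat_lit 11466) (PT.nd (nat_lit 78) (PT.lf (nat_lit 6840) (nat_lit 6) (nat_lit 90) (nat_lit 4) (nat_lit 71) (nat_lit 220) (nat_lit 219)) (PT.lf (nat_lit 6916) (nat_lit 6) (nat_lit 91) (nat_lit 4) (nat_lit 72) (nat_lit 220) (nat_lit 218))) (PT.nd (nat_lit 78) (PT.lf (nat_lit 6916) (nat_lit 6) (nat_lit 91) (nat_lit 2) (nat_lit 218) (nat_lit 220) (nat_lit 72)) (PT.nd (nat_lit 78) (PT.lf (nat_lit 6840) (nat_lit 6) (nat_lit 90) (nat_lit 2) (nat_lit 219) (nat_lit 220) (nat_lit 71)) (PT.lf (nat_lit 6764) (nat_lit 3) (nat_lit 89) (nat_lit 0) (nat_lit 220) (nat_lit 220) (nat_lit 70))))) (PT.nd (nat_lit 41106) (PT.nd (nat_lit 78) (PT.lf (nat_lit 6612) (nat_lit 6) (nat_lit 87) (nat_lit 0) (nat_lit 221) (nat_lit 220) (nat_lit 69)) (PT.nd (nat_lit 40950) (PT.lf (nat_lit 6460) (nat_lit 6) (nat_lit 85) (nat_lit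 0) (nat_lit 222) (nat_lit 220) (nat_lit 68)) (PT.lf (nat_lit 6232) (nat_lit 6) (nat_lit 82) (nat_lit 5) (nat_lit 66) (nat_lit 221) (nat_lit 223)))) (PT.nd (nat_lit 78) (PT.lf (nat_lit 6384) (nat_lit 6) (nat_lit 84) (nat_lit 5) (nat_lit 67) (nat_lit 221) (nat_lit 222)) (PT.nd (nat_lit 78) (PT.lf (nat_lit 6536) (nat_lit 3) (nat_lit 86) (nat_lit 4) (nat_lit 68) (nat_lit 221) (nat_lit 221)) (PT.lf (nat_lit 6612) (nat_lit 6) (nat_lit 87) (nat_lit 4) (nat_lit 69) (nat_lit 221) (nat_lit 220)))))) (PT.nd (nat_lit 11934) (PT.nd (nat_lit 11700) (PT.nd (nat_lit 11622) (PT.lf (nat_lit 6688) (nat_lit 6) (nat_lit 88) (nat_lit 4) (nat_lit 70) (nat_lit 221) (nat_lit 219)) (PT.lf (nat_lit 6688) (nat_lit 6) (nat_lit 88) (nat_lit 2) (nat_lit 219) (nat_lit 221) (nat_lit 70))) (PT.nd (nat_lit 78) (PT.lf (nat_lit 6612) (nat_lit 6) (nat_lit 87) (nat_lit 2) (nat_lit 220) (nat_lit 221) (nat_lit 69)) (PT.nd (nat_lit 78) (PT.lf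 (nat_lit 6536) (nat_lit 3) (nat_lit 86) (nat_lit 0) (nat_lit 221) (nat_lit 221) (nat_lit 68)) (PT.lf (nat_lit 6384) (nat_lit 6) (nat_lit 84) (nat_lit 0) (nat_lit 222) (nat_lit 221) (nat_lit 67))))) (PT.nd (nat_lit 40872) (PT.nd (nat_lit 40716) (PT.lf (nat_lit 6232) (nat_lit 6) (nat_lit 82) (nat_lit 0) (nat_lit 223) (nat_lit 221) (nat_lit 66)) (PT.nd (nat_lit 78) (PT.lf (nat_lit 6004) (nat_lit 6) (nat_lit 79) (nat_lit 5) (nat_lit 64) (nat_lit 222) (nat_lit 224)) (PT.lf (nat_lit 6156) (nat_lit 6) (nat_lit 81) (nat_lit 5) (nat_lit 65) (nat_lit 222) (nat_lit 223)))) (PT.nd (nat_lit 78) (PT.lf (nat_lit 6308) (nat_lit 3) (nat_lit 83) (nat_lit 4) (nat_lit 66) (nat_lit 222) (nat_lit 222)) (PT.nd (nat_lit 78) (PT.lf (nat_lit 6384) (nat_lit 6) (nat_lit 84) (nat_lit 4) (nat_lit 67) (nat_lit 222) (nat_lit 221)) (PT.lf (nat_lit 6460) (nat_lit 6) (nat_lit 85) (nat_lit 4) (nat_lit 68) (nat_lit 222) (nat_lit 220)))))))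 (PT.nd (nat_lit 53274) (PT.nd (nat_lit 40794) (PT.nd (nat_lit 156) (PT.nd (nat_lit 78) (PT.lf (nat_lit 6460) (nat_lit 6) (nat_lit 85) (nat_lit 2) (nat_lit 220) (nat_lit 222) (nat_lit 68)) (PT.lf (nat_lit 6384) (nat_lit 6) (nat_lit 84) (nat_lit 2) (nat_lit 221) (nat_lit 222) (nat_lit 67))) (PT.nd (nat_lit 78) (PT.lf (nat_lit 6308) (nat_lit 3) (nat_lit 83) (nat_lit 0) (nat_lit 222) (nat_lit 222) (nat_lit 66)) (PT.nd (nat_lit 78) (PT.lf (nat_lit 6156) (nat_lit 6) (nat_lit 81) (nat_lit 0) (nat_lit 223) (nat_lit 222) (nat_lit 65)) (PT.lf (nat_lit 6004) (nat_lit 6) (nat_lit 79) (nat_lit 0) (nat_lit 224) (nat_lit 222) (nat_lit 64))))) (PT.nd (nat_lit 234) (PT.nd (nat_lit 78) (PT.lf (nat_lit 5776) (nat_lit 6) (nat_lit 76) (nat_lit 5) (nat_lit 62) (nat_lit 223) (nat_lit 225)) (PT.nd (nat_lit 78) (PT.lf (nat_lit 5928) (nat_lit 6) (nat_lit 78) (nat_lit 5) (nat_lit 63) (nat_lit 223) (nat_lit 224)) (PT.lf (nat_lit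 6080) (nat_lit 3) (nat_lit 80) (nat_lit 4) (nat_lit 64) (nat_lit 223) (nat_lit 223)))) (PT.nd (nat_lit 78) (PT.lf (nat_lit 6156) (nat_lit 6) (nat_lit 81) (nat_lit 4) (nat_lit 65) (nat_lit 223) (nat_lit 222)) (PT.nd (nat_lit 12090) (PT.lf (nat_lit 6232) (nat_lit 6) (nat_lit 82) (nat_lit 4) (nat_lit 66) (nat_lit 223) (nat_lit 221)) (PT.lf (nat_lit 6232) (nat_lit 6) (nat_lit 82) (nat_lit 2) (nat_lit 221) (nat_lit 223) (nat_lit 66)))))) (PT.nd (nat_lit 40560) (PT.nd (nat_lit 156) (PT.nd (nat_lit 78) (PT.lf (nat_lit 6156) (nat_lit 6) (nat_lit 81) (nat_lit 2) (nat_lit 222) (nat_lit 223) (nat_lit 65)) (PT.lf (nat_lit 6080) (nat_lit 3) (nat_lit 80) (nat_lit 0) (nat_lit 223) (nat_lit 223) (nat_lit 64))) (PT.nd (nat_lit 78) (PT.lf (nat_lit 5928) (nat_lit 6) (nat_lit 78) (nat_lit 0) (nat_lit 224) (nat_lit 223) (nat_lit 63)) (PT.nd (nat_lit 40248) (PT.lf (nat_lit 5776) (nat_lit 6) (nat_lit 76) (nat_lit 0) (nat_lit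 225) (nat_lit 223) (nat_lit 62)) (PT.lf (nat_lit 5548) (nat_lit 6) (nat_lit 73) (nat_lit 5) (nat_lit 60) (nat_lit 224) (nat_lit 226))))) (PT.nd (nat_lit 234) (PT.nd (nat_lit 78) (PT.lf (nat_lit 5700) (nat_lit 6) (nat_lit 75) (nat_lit 5) (nat_lit 61) (nat_lit 224) (nat_lit 225)) (PT.nd (nat_lit 78) (PT.lf (nat_lit 5852) (nat_lit 3) (nat_lit 77) (nat_lit 4) (nat_lit 62) (nat_lit 224) (nat_lit 224)) (PT.lf (nat_lit 5928) (nat_lit 6) (nat_lit 78) (nat_lit 4) (nat_lit 63) (nat_lit 224) (nat_lit 223)))) (PT.nd (nat_lit 12324) (PT.lf (nat_lit 6004) (nat_lit 6) (nat_lit 79) (nat_lit 4) (nat_lit 64) (nat_lit 224) (nat_lit 222)) (PT.nd (nat_lit 78) (PT.lf (nat_lit 6004) (nat_lit 6) (nat_lit 79) (nat_lit 2) (nat_lit 222) (nat_lit 224) (nat_lit 64)) (PT.lf (nat_lit 5928) (nat_lit 6) (nat_lit 78) (nat_lit 2) (nat_lit 223) (nat_lit 224) (nat_lit 63))))))))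
noncomputable def pc59 : PT := (PT.nd (nat_lit 106548) (PT.nd (nat_lit 53274) (PT.nd (nat_lit 40326) (PT.nd (nat_lit 156) (PT.nd (nat_lit 78) (PT.lf (nat_lit 5852) (nat_lit 3) (nat_lit 77) (nat_lit 0) (nat_lit 224) (nat_lit 224) (nat_lit 62)) (PT.lf (nat_lit 5700) (nat_lit 6) (nat_lit 75) (nat_lit 0) (nat_lit 225) (nat_lit 224) (nat_lit 61))) (PT.nd (nat_lit 40014) (PT.lf (nat_lit 5548) (nat_lit 6) (nat_lit 73) (nat_lit 0) (nat_lit 226) (nat_lit 224) (nat_lit 60)) (PT.nd (nat_lit 78) (PT.lf (nat_lit 5320) (nat_lit 6) (nat_lit 70) (nat_lit 5) (nat_lit 58) (nat_lit 225) (nat_lit 227)) (PT.lf (nat_lit 5472) (nat_lit 6) (nat_lit 72) (nat_lit 5) (nat_lit 59) (nat_lit 225) (nat_lit 226))))) (PT.nd (nat_lit 12714) (PT.nd (nat_lit 78) (PT.lf (nat_lit 5624) (nat_lit 3) (nat_lit 74) (nat_lit 4) (nat_lit 60) (nat_lit 225) (nat_lit 225)) (PT.nd (nat_lit 78) (PT.lf (nat_lit 5700) (nat_lit 6) (nat_lit 75) (nat_lit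 4) (nat_lit 61) (nat_lit 225) (nat_lit 224)) (PT.lf (nat_lit 5776) (nat_lit 6) (nat_lit 76) (nat_lit 4) (nat_lit 62) (nat_lit 225) (nat_lit 223)))) (PT.nd (nat_lit 78) (PT.lf (nat_lit 5776) (nat_lit 6) (nat_lit 76) (nat_lit 2) (nat_lit 223) (nat_lit 225) (nat_lit 62)) (PT.nd (nat_lit 78) (PT.lf (nat_lit 5700) (nat_lit 6) (nat_lit 75) (nat_lit 2) (nat_lit 224) (nat_lit 225) (nat_lit 61)) (PT.lf (nat_lit 5624) (nat_lit 3) (nat_lit 74) (nat_lit 0) (nat_lit 225) (nat_lit 225) (nat_lit 60)))))) (PT.nd (nat_lit 40092) (PT.nd (nat_lit 39858) (PT.nd (nat_lit 78) (PT.lf (nat_lit 5472) (nat_lit 6) (nat_lit 72) (nat_lit 0) (nat_lit 226) (nat_lit 225) (nat_lit 59)) (PT.lf (nat_lit 5320) (nat_lit 6) (nat_lit 70) (nat_lit 0) (nat_lit 227) (nat_lit 225) (nat_lit 58))) (PT.nd (nat_lit 78) (PT.lf (nat_lit 5092) (nat_lit 6) (nat_lit 67) (nat_lit 5) (nat_lit 56) (nat_lit 226) (nat_lit 228)) (PT.nd (nat_lit 78) (PT.lf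 (nat_lit 5244) (nat_lit 6) (nat_lit 69) (nat_lit 5) (nat_lit 57) (nat_lit 226) (nat_lit 227)) (PT.lf (nat_lit 5396) (nat_lit 3) (nat_lit 71) (nat_lit 4) (nat_lit 58) (nat_lit 226) (nat_lit 226))))) (PT.nd (nat_lit 12948) (PT.nd (nat_lit 78) (PT.lf (nat_lit 5472) (nat_lit 6) (nat_lit 72) (nat_lit 4) (nat_lit 59) (nat_lit 226) (nat_lit 225)) (PT.nd (nat_lit 12792) (PT.lf (nat_lit 5548) (nat_lit 6) (nat_lit 73) (nat_lit 4) (nat_lit 60) (nat_lit 226) (nat_lit 224)) (PT.lf (nat_lit 5548) (nat_lit 6) (nat_lit 73) (nat_lit 2) (nat_lit 224) (nat_lit 226) (nat_lit 60)))) (PT.nd (nat_lit 78) (PT.lf (nat_lit 5472) (nat_lit 6) (nat_lit 72) (nat_lit 2) (nat_lit 225) (nat_lit 226) (nat_lit 59)) (PT.nd (nat_lit 78) (PT.lf (nat_lit 5396) (nat_lit 3) (nat_lit 71) (nat_lit 0) (nat_lit 226) (nat_lit 226) (nat_lit 58)) (PT.lf (nat_lit 5244) (nat_lit 6) (nat_lit 69) (nat_lit 0) (nat_lit 227) (nat_lit 226) (nat_lit 57)))))))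 (PT.nd (nat_lit 92508) (PT.nd (nat_lit 39858) (PT.nd (nat_lit 39624) (PT.nd (nat_lit 39546) (PT.lf (nat_lit 5092) (nat_lit 6) (nat_lit 67) (nat_lit 0) (nat_lit 228) (nat_lit 226) (nat_lit 56)) (PT.lf (nat_lit 4864) (nat_lit 6) (nat_lit 64) (nat_lit 5) (nat_lit 54) (nat_lit 227) (nat_lit 229))) (PT.nd (nat_lit 78) (PT.lf (nat_lit 5016) (nat_lit 6) (nat_lit 66) (nat_lit 5) (nat_lit 55) (nat_lit 227) (nat_lit 228)) (PT.nd (nat_lit 78) (PT.lf (nat_lit 5168) (nat_lit 3) (nat_lit 68) (nat_lit 4) (nat_lit 56) (nat_lit 227) (nat_lit 227)) (PT.lf (nat_lit 5244) (nat_lit 6) (nat_lit 69) (nat_lit 4) (nat_lit 57) (nat_lit 227) (nat_lit 226))))) (PT.nd (nat_lit 13182) (PT.nd (nat_lit 13026) (PT.lf (nat_lit 5320) (nat_lit 6) (nat_lit 70) (nat_lit 4) (nat_lit 58) (nat_lit 227) (nat_lit 225)) (PT.nd (nat_lit 78) (PT.lf (nat_lit 5320) (nat_lit 6) (nat_lit 70) (nat_lit 2) (nat_lit 225) (nat_lit 227) (nat_lit 58)) (PT.lf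 (nat_lit 5244) (nat_lit 6) (nat_lit 69) (nat_lit 2) (nat_lit 226) (nat_lit 227) (nat_lit 57)))) (PT.nd (nat_lit 78) (PT.lf (nat_lit 5168) (nat_lit 3) (nat_lit 68) (nat_lit 0) (nat_lit 227) (nat_lit 227) (nat_lit 56)) (PT.nd (nat_lit 78) (PT.lf (nat_lit 5016) (nat_lit 6) (nat_lit 66) (nat_lit 0) (nat_lit 228) (nat_lit 227) (nat_lit 55)) (PT.lf (nat_lit 4864) (nat_lit 6) (nat_lit 64) (nat_lit 0) (nat_lit 229) (nat_lit 227) (nat_lit 54)))))) (PT.nd (nat_lit 13572) (PT.nd (nat_lit 156) (PT.nd (nat_lit 78) (PT.lf (nat_lit 4636) (nat_lit 6) (nat_lit 61) (nat_lit 5) (nat_lit 52) (nat_lit 228) (nat_lit 230)) (PT.lf (nat_lit 4788) (nat_lit 6) (nat_lit 63) (nat_lit 5) (nat_lit 53) (nat_lit 228) (nat_lit 229))) (PT.nd (nat_lit 78) (PT.lf (nat_lit 4940) (nat_lit 3) (nat_lit 65) (nat_lit 4) (nat_lit 54) (nat_lit 228) (nat_lit 228)) (PT.nd (nat_lit 78) (PT.lf (nat_lit 5016) (nat_lit 6) (nat_lit 66) (nat_lit 4) (nat_lit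 55) (nat_lit 228) (nat_lit 227)) (PT.lf (nat_lit 5092) (nat_lit 6) (nat_lit 67) (nat_lit 4) (nat_lit 56) (nat_lit 228) (nat_lit 226))))) (PT.nd (nat_lit 234) (PT.nd (nat_lit 78) (PT.lf (nat_lit 5092) (nat_lit 6) (nat_lit 67) (nat_lit 2) (nat_lit 226) (nat_lit 228) (nat_lit 56)) (PT.nd (nat_lit 78) (PT.lf (nat_lit 5016) (nat_lit 6) (nat_lit 66) (nat_lit 2) (nat_lit 227) (nat_lit 228) (nat_lit 55)) (PT.lf (nat_lit 4940) (nat_lit 3) (nat_lit 65) (nat_lit 0) (nat_lit 228) (nat_lit 228) (nat_lit 54)))) (PT.nd (nat_lit 78) (PT.lf (nat_lit 4788) (nat_lit 6) (nat_lit 63) (nat_lit 0) (nat_lit 229) (nat_lit 228) (nat_lit 53)) (PT.nd (nat_lit 39078) (PT.lf (nat_lit 4636) (nat_lit 6) (nat_lit 61) (nat_lit 0) (nat_lit 230) (nat_lit 228) (nat_lit 52)) (PT.lf (nat_lit 4408) (nat_lit 6) (nat_lit 58) (nat_lit 5) (nat_lit 50) (nat_lit 229) (nat_lit 231))))))))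
noncomputable def pc60 : PT := (PT.nd (nat_lit 106002) (PT.nd (nat_lit 52962) (PT.nd (nat_lit 13806) (PT.nd (nat_lit 156) (PT.nd (nat_lit 78) (PT.lf (nat_lit 4560) (nat_lit 6) (nat_lit 60) (nat_lit 5) (nat_lit 51) (nat_lit 229) (nat_lit 230)) (PT.lf (nat_lit 4712) (nat_lit 3) (nat_lit 62) (nat_lit 4) (nat_lit 52) (nat_lit 229) (nat_lit 229))) (PT.nd (nat_lit 78) (PT.lf (nat_lit 4788) (nat_lit 6) (nat_lit 63) (nat_lit 4) (nat_lit 53) (nat_lit 229) (nat_lit 228)) (PT.nd (nat_lit 13494) (PT.lf (nat_lit 4864) (nat_lit 6) (nat_lit 64) (nat_lit 4) (nat_lit 54) (nat_lit 229) (nat_lit 227)) (PT.lf (nat_lit 4864) (nat_lit 6) (nat_lit 64) (nat_lit 2) (nat_lit 227) (nat_lit 229) (nat_lit 54))))) (PT.nd (nat_lit 156) (PT.nd (nat_lit 78) (PT.lf (nat_lit 4788) (nat_lit 6) (nat_lit 63) (nat_lit 2) (nat_lit 228) (nat_lit 229) (nat_lit 53)) (PT.lf (nat_lit 4712) (nat_lit 3) (nat_lit 62) (nat_lit 0) (nat_lit 229) (nat_lit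 229) (nat_lit 52))) (PT.nd (nat_lit 78) (PT.lf (nat_lit 4560) (nat_lit 6) (nat_lit 60) (nat_lit 0) (nat_lit 230) (nat_lit 229) (nat_lit 51)) (PT.nd (nat_lit 38844) (PT.lf (nat_lit 4408) (nat_lit 6) (nat_lit 58) (nat_lit 0) (nat_lit 231) (nat_lit 229) (nat_lit 50)) (PT.lf (nat_lit 4180) (nat_lit 6) (nat_lit 55) (nat_lit 5) (nat_lit 48) (nat_lit 230) (nat_lit 232)))))) (PT.nd (nat_lit 14040) (PT.nd (nat_lit 156) (PT.nd (nat_lit 78) (PT.lf (nat_lit 4332) (nat_lit 6) (nat_lit 57) (nat_lit 5) (nat_lit 49) (nat_lit 230) (nat_lit 231)) (PT.lf (nat_lit 4484) (nat_lit 3) (nat_lit 59) (nat_lit 4) (nat_lit 50) (nat_lit 230) (nat_lit 230))) (PT.nd (nat_lit 78) (PT.lf (nat_lit 4560) (nat_lit 6) (nat_lit 60) (nat_lit 4) (nat_lit 51) (nat_lit 230) (nat_lit 229)) (PT.nd (nat_lit 13728) (PT.lf (nat_lit 4636) (nat_lit 6) (nat_lit 61) (nat_lit 4) (nat_lit 52) (nat_lit 230) (nat_lit 228)) (PT.lf (nat_lit 4636) (nat_lit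 6) (nat_lit 61) (nat_lit 2) (nat_lit 228) (nat_lit 230) (nat_lit 52))))) (PT.nd (nat_lit 234) (PT.nd (nat_lit 78) (PT.lf (nat_lit 4560) (nat_lit 6) (nat_lit 60) (nat_lit 2) (nat_lit 229) (nat_lit 230) (nat_lit 51)) (PT.nd (nat_lit 78) (PT.lf (nat_lit 4484) (nat_lit 3) (nat_lit 59) (nat_lit 0) (nat_lit 230) (nat_lit 230) (nat_lit 50)) (PT.lf (nat_lit 4332) (nat_lit 6) (nat_lit 57) (nat_lit 0) (nat_lit 231) (nat_lit 230) (nat_lit 49)))) (PT.nd (nat_lit 38610) (PT.lf (nat_lit 4180) (nat_lit 6) (nat_lit 55) (nat_lit 0) (nat_lit 232) (nat_lit 230) (nat_lit 48)) (PT.nd (nat_lit 78) (PT.lf (nat_lit 3952) (nat_lit 6) (nat_lit 52) (nat_lit 5) (nat_lit 46) (nat_lit 231) (nat_lit 233)) (PT.lf (nat_lit 4104) (nat_lit 6) (nat_lit 54) (nat_lit 5) (nat_lit 47) (nat_lit 231) (nat_lit 232))))))) (PT.nd (nat_lit 53040) (PT.nd (nat_lit 14274) (PT.nd (nat_lit 156) (PT.nd (nat_lit 78) (PT.lf (nat_lit 4256) (nat_lit 3) (nat_lit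 56) (nat_lit 4) (nat_lit 48) (nat_lit 231) (nat_lit 231)) (PT.lf (nat_lit 4332) (nat_lit 6) (nat_lit 57) (nat_lit 4) (nat_lit 49) (nat_lit 231) (nat_lit 230))) (PT.nd (nat_lit 13962) (PT.lf (nat_lit 4408) (nat_lit 6) (nat_lit 58) (nat_lit 4) (nat_lit 50) (nat_lit 231) (nat_lit 229)) (PT.nd (nat_lit 78) (PT.lf (nat_lit 4408) (nat_lit 6) (nat_lit 58) (nat_lit 2) (nat_lit 229) (nat_lit 231) (nat_lit 50)) (PT.lf (nat_lit 4332) (nat_lit 6) (nat_lit 57) (nat_lit 2) (nat_lit 230) (nat_lit 231) (nat_lit 49))))) (PT.nd (nat_lit 38532) (PT.nd (nat_lit 78) (PT.lf (nat_lit 4256) (nat_lit 3) (nat_lit 56) (nat_lit 0) (nat_lit 231) (nat_lit 231) (nat_lit 48)) (PT.nd (nat_lit 78) (PT.lf (nat_lit 4104) (nat_lit 6) (nat_lit 54) (nat_lit 0) (nat_lit 232) (nat_lit 231) (nat_lit 47)) (PT.lf (nat_lit 3952) (nat_lit 6) (nat_lit 52) (nat_lit 0) (nat_lit 233) (nat_lit 231) (nat_lit 46)))) (PT.nd (nat_lit 78) (PT.lf (nat_lit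 3724) (nat_lit 6) (nat_lit 49) (nat_lit 5) (nat_lit 44) (nat_lit 232) (nat_lit 234)) (PT.nd (nat_lit 78) (PT.lf (nat_lit 3876) (nat_lit 6) (nat_lit 51) (nat_lit 5) (nat_lit 45) (nat_lit 232) (nat_lit 233)) (PT.lf (nat_lit 4028) (nat_lit 3) (nat_lit 53) (nat_lit 4) (nat_lit 46) (nat_lit 232) (nat_lit 232)))))) (PT.nd (nat_lit 14508) (PT.nd (nat_lit 14274) (PT.nd (nat_lit 78) (PT.lf (nat_lit 4104) (nat_lit 6) (nat_lit 54) (nat_lit 4) (nat_lit 47) (nat_lit 232) (nat_lit 231)) (PT.lf (nat_lit 4180) (nat_lit 6) (nat_lit 55) (nat_lit 4) (nat_lit 48) (nat_lit 232) (nat_lit 230))) (PT.nd (nat_lit 78) (PT.lf (nat_lit 4180) (nat_lit 6) (nat_lit 55) (nat_lit 2) (nat_lit 230) (nat_lit 232) (nat_lit 48)) (PT.nd (nat_lit 78) (PT.lf (nat_lit 4104) (nat_lit 6) (nat_lit 54) (nat_lit 2) (nat_lit 231) (nat_lit 232) (nat_lit 47)) (PT.lf (nat_lit 4028) (nat_lit 3) (nat_lit 53) (nat_lit 0) (nat_lit 232) (nat_lit 232) (nat_lit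 46))))) (PT.nd (nat_lit 38298) (PT.nd (nat_lit 78) (PT.lf (nat_lit 3876) (nat_lit 6) (nat_lit 51) (nat_lit 0) (nat_lit 233) (nat_lit 232) (nat_lit 45)) (PT.nd (nat_lit 38142) (PT.lf (nat_lit 3724) (nat_lit 6) (nat_lit 49) (nat_lit 0) (nat_lit 234) (nat_lit 232) (nat_lit 44)) (PT.lf (nat_lit 3496) (nat_lit 6) (nat_lit 46) (nat_lit 5) (nat_lit 42) (nat_lit 233) (nat_lit 235)))) (PT.nd (nat_lit 78) (PT.lf (nat_lit 3648) (nat_lit 6) (nat_lit 48) (nat_lit 5) (nat_lit 43) (nat_lit 233) (nat_lit 234)) (PT.nd (nat_lit 78) (PT.lf (nat_lit 3800) (nat_lit 3) (nat_lit 50) (nat_lit 4) (nat_lit 44) (nat_lit 233) (nat_lit 233)) (PT.lf (nat_lit 3876) (nat_lit 6) (nat_lit 51) (nat_lit 4) (nat_lit 45) (nat_lit 233) (nat_lit 232))))))))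
noncomputable def pc61 : PT := (PT.nd (nat_lit 120900) (PT.nd (nat_lit 67626) (PT.nd (nat_lit 14742) (PT.nd (nat_lit 14508) (PT.nd (nat_lit 14430) (PT.lf (nat_lit 3952) (nat_lit 6) (nat_lit 52) (nat_lit 4) (nat_lit 46) (nat_lit 233) (nat_lit 231)) (PT.lf (nat_lit 3952) (nat_lit 6) (nat_lit 52) (nat_lit 2) (nat_lit 231) (nat_lit 233) (nat_lit 46))) (PT.nd (nat_lit 78) (PT.lf (nat_lit 3876) (nat_lit 6) (nat_lit 51) (nat_lit 2) (nat_lit 232) (nat_lit 233) (nat_lit 45)) (PT.nd (nat_lit 78) (PT.lf (nat_lit 3800) (nat_lit 3) (nat_lit 50) (nat_lit 0) (nat_lit 233) (nat_lit 233) (nat_lit 44)) (PT.lf (nat_lit 3648) (nat_lit 6) (nat_lit 48) (nat_lit 0) (nat_lit 234) (nat_lit 233) (nat_lit 43))))) (PT.nd (nat_lit 38064) (PT.nd (nat_lit 37908) (PT.lf (nat_lit 3496) (nat_lit 6) (nat_lit 46) (nat_lit 0) (nat_lit 235) (nat_lit 233) (nat_lit 42)) (PT.nd (nat_lit 78) (PT.lf (nat_lit 3268) (nat_lit 6) (nat_lit 43) (nat_lit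 5) (nat_lit 40) (nat_lit 234) (nat_lit 236)) (PT.lf (nat_lit 3420) (nat_lit 6) (nat_lit 45) (nat_lit 5) (nat_lit 41) (nat_lit 234) (nat_lit 235)))) (PT.nd (nat_lit 78) (PT.lf (nat_lit 3572) (nat_lit 3) (nat_lit 47) (nat_lit 4) (nat_lit 42) (nat_lit 234) (nat_lit 234)) (PT.nd (nat_lit 78) (PT.lf (nat_lit 3648) (nat_lit 6) (nat_lit 48) (nat_lit 4) (nat_lit 43) (nat_lit 234) (nat_lit 233)) (PT.lf (nat_lit 3724) (nat_lit 6) (nat_lit 49) (nat_lit 4) (nat_lit 44) (nat_lit 234) (nat_lit 232)))))) (PT.nd (nat_lit 37986) (PT.nd (nat_lit 156) (PT.nd (nat_lit 78) (PT.lf (nat_lit 3724) (nat_lit 6) (nat_lit 49) (nat_lit 2) (nat_lit 232) (nat_lit 234) (nat_lit 44)) (PT.lf (nat_lit 3648) (nat_lit 6) (nat_lit 48) (nat_lit 2) (nat_lit 233) (nat_lit 234) (nat_lit 43))) (PT.nd (nat_lit 78) (PT.lf (nat_lit 3572) (nat_lit 3) (nat_lit 47) (nat_lit 0) (nat_lit 234) (nat_lit 234) (nat_lit 42)) (PT.nd (nat_lit 78) (PT.lf (nat_lit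 3420) (nat_lit 6) (nat_lit 45) (nat_lit 0) (nat_lit 235) (nat_lit 234) (nat_lit 41)) (PT.lf (nat_lit 3268) (nat_lit 6) (nat_lit 43) (nat_lit 0) (nat_lit 236) (nat_lit 234) (nat_lit 40))))) (PT.nd (nat_lit 234) (PT.nd (nat_lit 78) (PT.lf (nat_lit 3040) (nat_lit 6) (nat_lit 40) (nat_lit 5) (nat_lit 38) (nat_lit 235) (nat_lit 237)) (PT.nd (nat_lit 78) (PT.lf (nat_lit 3192) (nat_lit 6) (nat_lit 42) (nat_lit 5) (nat_lit 39) (nat_lit 235) (nat_lit 236)) (PT.lf (nat_lit 3344) (nat_lit 3) (nat_lit 44) (nat_lit 4) (nat_lit 40) (nat_lit 235) (nat_lit 235)))) (PT.nd (nat_lit 78) (PT.lf (nat_lit 3420) (nat_lit 6) (nat_lit 45) (nat_lit 4) (nat_lit 41) (nat_lit 235) (nat_lit 234)) (PT.nd (nat_lit 14898) (PT.lf (nat_lit 3496) (nat_lit 6) (nat_lit 46) (nat_lit 4) (nat_lit 42) (nat_lit 235) (nat_lit 233)) (PT.lf (nat_lit 3496) (nat_lit 6) (nat_lit 46) (nat_lit 2) (nat_lit 233) (nat_lit 235) (nat_lit 42))))))) (PT.nd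 (nat_lit 53274) (PT.nd (nat_lit 37752) (PT.nd (nat_lit 156) (PT.nd (nat_lit 78) (PT.lf (nat_lit 3420) (nat_lit 6) (nat_lit 45) (nat_lit 2) (nat_lit 234) (nat_lit 235) (nat_lit 41)) (PT.lf (nat_lit 3344) (nat_lit 3) (nat_lit 44) (nat_lit 0) (nat_lit 235) (nat_lit 235) (nat_lit 40))) (PT.nd (nat_lit 78) (PT.lf (nat_lit 3192) (nat_lit 6) (nat_lit 42) (nat_lit 0) (nat_lit 236) (nat_lit 235) (nat_lit 39)) (PT.nd (nat_lit 37440) (PT.lf (nat_lit 3040) (nat_lit 6) (nat_lit 40) (nat_lit 0) (nat_lit 237) (nat_lit 235) (nat_lit 38)) (PT.lf (nat_lit 2812) (nat_lit 6) (nat_lit 37) (nat_lit 5) (nat_lit 36) (nat_lit 236) (nat_lit 238))))) (PT.nd (nat_lit 234) (PT.nd (nat_lit 78) (PT.lf (nat_lit 2964) (nat_lit 6) (nat_lit 39) (nat_lit 5) (nat_lit 37) (nat_lit 236) (nat_lit 237)) (PT.nd (nat_lit 78) (PT.lf (nat_lit 3116) (nat_lit 3) (nat_lit 41) (nat_lit 4) (nat_lit 38) (nat_lit 236) (nat_lit 236)) (PT.lf (nat_lit 3192)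 (nat_lit 6) (nat_lit 42) (nat_lit 4) (nat_lit 39) (nat_lit 236) (nat_lit 235)))) (PT.nd (nat_lit 15132) (PT.lf (nat_lit 3268) (nat_lit 6) (nat_lit 43) (nat_lit 4) (nat_lit 40) (nat_lit 236) (nat_lit 234)) (PT.nd (nat_lit 78) (PT.lf (nat_lit 3268) (nat_lit 6) (nat_lit 43) (nat_lit 2) (nat_lit 234) (nat_lit 236) (nat_lit 40)) (PT.lf (nat_lit 3192) (nat_lit 6) (nat_lit 42) (nat_lit 2) (nat_lit 235) (nat_lit 236) (nat_lit 39)))))) (PT.nd (nat_lit 37518) (PT.nd (nat_lit 156) (PT.nd (nat_lit 78) (PT.lf (nat_lit 3116) (nat_lit 3) (nat_lit 41) (nat_lit 0) (nat_lit 236) (nat_lit 236) (nat_lit 38)) (PT.lf (nat_lit 2964) (nat_lit 6) (nat_lit 39) (nat_lit 0) (nat_lit 237) (nat_lit 236) (nat_lit 37))) (PT.nd (nat_lit 37206) (PT.lf (nat_lit 2812) (nat_lit 6) (nat_lit 37) (nat_lit 0) (nat_lit 238) (nat_lit 236) (nat_lit 36)) (PT.nd (nat_lit 78) (PT.lf (nat_lit 2584) (nat_lit 6) (nat_lit 34) (nat_lit 5) (nat_lit 34)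 (nat_lit 237) (nat_lit 239)) (PT.lf (nat_lit 2736) (nat_lit 6) (nat_lit 36) (nat_lit 5) (nat_lit 35) (nat_lit 237) (nat_lit 238))))) (PT.nd (nat_lit 15522) (PT.nd (nat_lit 78) (PT.lf (nat_lit 2888) (nat_lit 3) (nat_lit 38) (nat_lit 4) (nat_lit 36) (nat_lit 237) (nat_lit 237)) (PT.nd (nat_lit 78) (PT.lf (nat_lit 2964) (nat_lit 6) (nat_lit 39) (nat_lit 4) (nat_lit 37) (nat_lit 237) (nat_lit 236)) (PT.lf (nat_lit 3040) (nat_lit 6) (nat_lit 40) (nat_lit 4) (nat_lit 38) (nat_lit 237) (nat_lit 235)))) (PT.nd (nat_lit 78) (PT.lf (nat_lit 3040) (nat_lit 6) (nat_lit 40) (nat_lit 2) (nat_lit 235) (nat_lit 237) (nat_lit 38)) (PT.nd (nat_lit 78) (PT.lf (nat_lit 2964) (nat_lit 6) (nat_lit 39) (nat_lit 2) (nat_lit 236) (nat_lit 237) (nat_lit 37)) (PT.lf (nat_lit 2888) (nat_lit 3) (nat_lit 38) (nat_lit 0) (nat_lit 237) (nat_lit 237) (nat_lit 36))))))))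
noncomputable def pc62 : PT := (PT.nd (nat_lit 142974) (PT.nd (nat_lit 53274) (PT.nd (nat_lit 37284) (PT.nd (nat_lit 37050) (PT.nd (nat_lit 78) (PT.lf (nat_lit 2736) (nat_lit 6) (nat_lit 36) (nat_lit 0) (nat_lit 238) (nat_lit 237) (nat_lit 35)) (PT.lf (nat_lit 2584) (nat_lit 6) (nat_lit 34) (nat_lit 0) (nat_lit 239) (nat_lit 237) (nat_lit 34))) (PT.nd (nat_lit 78) (PT.lf (nat_lit 2356) (nat_lit 6) (nat_lit 31) (nat_lit 5) (nat_lit 32) (nat_lit 238) (nat_lit 240)) (PT.nd (nat_lit 78) (PT.lf (nat_lit 2508) (nat_lit 6) (nat_lit 33) (nat_lit 5) (nat_lit 33) (nat_lit 238) (nat_lit 239)) (PT.lf (nat_lit 2660) (nat_lit 3) (nat_lit 35) (nat_lit 4) (nat_lit 34) (nat_lit 238) (nat_lit 238))))) (PT.nd (nat_lit 15756) (PT.nd (nat_lit 78) (PT.lf (nat_lit 2736) (nat_lit 6) (nat_lit 36) (nat_lit 4) (nat_lit 35) (nat_lit 238) (nat_lit 237)) (PT.nd (nat_lit 15600) (PT.lf (nat_lit 2812) (nat_lit 6) (nat_lit 37) (nat_lit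 4) (nat_lit 36) (nat_lit 238) (nat_lit 236)) (PT.lf (nat_lit 2812) (nat_lit 6) (nat_lit 37) (nat_lit 2) (nat_lit 236) (nat_lit 238) (nat_lit 36)))) (PT.nd (nat_lit 78) (PT.lf (nat_lit 2736) (nat_lit 6) (nat_lit 36) (nat_lit 2) (nat_lit 237) (nat_lit 238) (nat_lit 35)) (PT.nd (nat_lit 78) (PT.lf (nat_lit 2660) (nat_lit 3) (nat_lit 35) (nat_lit 0) (nat_lit 238) (nat_lit 238) (nat_lit 34)) (PT.lf (nat_lit 2508) (nat_lit 6) (nat_lit 33) (nat_lit 0) (nat_lit 239) (nat_lit 238) (nat_lit 33)))))) (PT.nd (nat_lit 37050) (PT.nd (nat_lit 36816) (PT.nd (nat_lit 36738) (PT.lf (nat_lit 2356) (nat_lit 6) (nat_lit 31) (nat_lit 0) (nat_lit 240) (nat_lit 238) (nat_lit 32)) (PT.lf (nat_lit 2128) (nat_lit 6) (nat_lit 28) (nat_lit 5) (nat_lit 30) (nat_lit 239) (nat_lit 241))) (PT.nd (nat_lit 78) (PT.lf (nat_lit 2280) (nat_lit 6) (nat_lit 30) (nat_lit 5) (nat_lit 31) (nat_lit 239) (nat_lit 240)) (PT.nd (nat_lit 78) (PT.lf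 (nat_lit 2432) (nat_lit 3) (nat_lit 32) (nat_lit 4) (nat_lit 32) (nat_lit 239) (nat_lit 239)) (PT.lf (nat_lit 2508) (nat_lit 6) (nat_lit 33) (nat_lit 4) (nat_lit 33) (nat_lit 239) (nat_lit 238))))) (PT.nd (nat_lit 15990) (PT.nd (nat_lit 15834) (PT.lf (nat_lit 2584) (nat_lit 6) (nat_lit 34) (nat_lit 4) (nat_lit 34) (nat_lit 239) (nat_lit 237)) (PT.nd (nat_lit 78) (PT.lf (nat_lit 2584) (nat_lit 6) (nat_lit 34) (nat_lit 2) (nat_lit 237) (nat_lit 239) (nat_lit 34)) (PT.lf (nat_lit 2508) (nat_lit 6) (nat_lit 33) (nat_lit 2) (nat_lit 238) (nat_lit 239) (nat_lit 33)))) (PT.nd (nat_lit 78) (PT.lf (nat_lit 2432) (nat_lit 3) (nat_lit 32) (nat_lit 0) (nat_lit 239) (nat_lit 239) (nat_lit 32)) (PT.nd (nat_lit 78) (PT.lf (nat_lit 2280) (nat_lit 6) (nat_lit 30) (nat_lit 0) (nat_lit 240) (nat_lit 239) (nat_lit 31)) (PT.lf (nat_lit 2128) (nat_lit 6) (nat_lit 28) (nat_lit 0) (nat_lit 241) (nat_lit 239) (nat_lit 30)))))))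 (PT.nd (nat_lit 53118) (PT.nd (nat_lit 16380) (PT.nd (nat_lit 156) (PT.nd (nat_lit 78) (PT.lf (nat_lit 1900) (nat_lit 6) (nat_lit 25) (nat_lit 5) (nat_lit 28) (nat_lit 240) (nat_lit 242)) (PT.lf (nat_lit 2052) (nat_lit 6) (nat_lit 27) (nat_lit 5) (nat_lit 29) (nat_lit 240) (nat_lit 241))) (PT.nd (nat_lit 78) (PT.lf (nat_lit 2204) (nat_lit 3) (nat_lit 29) (nat_lit 4) (nat_lit 30) (nat_lit 240) (nat_lit 240)) (PT.nd (nat_lit 78) (PT.lf (nat_lit 2280) (nat_lit 6) (nat_lit 30) (nat_lit 4) (nat_lit 31) (nat_lit 240) (nat_lit 239)) (PT.lf (nat_lit 2356) (nat_lit 6) (nat_lit 31) (nat_lit 4) (nat_lit 32) (nat_lit 240) (nat_lit 238))))) (PT.nd (nat_lit 234) (PT.nd (nat_lit 78) (PT.lf (nat_lit 2356) (nat_lit 6) (nat_lit 31) (nat_lit 2) (nat_lit 238) (nat_lit 240) (nat_lit 32)) (PT.nd (nat_lit 78) (PT.lf (nat_lit 2280) (nat_lit 6) (nat_lit 30) (nat_lit 2) (nat_lit 239) (nat_lit 240) (nat_lit 31)) (PT.lf (nat_lit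 2204) (nat_lit 3) (nat_lit 29) (nat_lit 0) (nat_lit 240) (nat_lit 240) (nat_lit 30)))) (PT.nd (nat_lit 78) (PT.lf (nat_lit 2052) (nat_lit 6) (nat_lit 27) (nat_lit 0) (nat_lit 241) (nat_lit 240) (nat_lit 29)) (PT.nd (nat_lit 36348) (PT.lf (nat_lit 1900) (nat_lit 6) (nat_lit 25) (nat_lit 0) (nat_lit 242) (nat_lit 240) (nat_lit 28)) (PT.lf (nat_lit 1824) (nat_lit 6) (nat_lit 24) (nat_lit 5) (nat_lit 27) (nat_lit 241) (nat_lit 242)))))) (PT.nd (nat_lit 16614) (PT.nd (nat_lit 156) (PT.nd (nat_lit 78) (PT.lf (nat_lit 1976) (nat_lit 3) (nat_lit 26) (nat_lit 4) (nat_lit 28) (nat_lit 241) (nat_lit 241)) (PT.lf (nat_lit 2052) (nat_lit 6) (nat_lit 27) (nat_lit 4) (nat_lit 29) (nat_lit 241) (nat_lit 240))) (PT.nd (nat_lit 16302) (PT.lf (nat_lit 2128) (nat_lit 6) (nat_lit 28) (nat_lit 4) (nat_lit 30) (nat_lit 241) (nat_lit 239)) (PT.nd (nat_lit 78) (PT.lf (nat_lit 2128) (nat_lit 6) (nat_lit 28) (nat_lit 2) (nat_lit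 239) (nat_lit 241) (nat_lit 30)) (PT.lf (nat_lit 2052) (nat_lit 6) (nat_lit 27) (nat_lit 2) (nat_lit 240) (nat_lit 241) (nat_lit 29))))) (PT.nd (nat_lit 36348) (PT.nd (nat_lit 78) (PT.lf (nat_lit 1976) (nat_lit 3) (nat_lit 26) (nat_lit 0) (nat_lit 241) (nat_lit 241) (nat_lit 28)) (PT.nd (nat_lit 36192) (PT.lf (nat_lit 1824) (nat_lit 6) (nat_lit 24) (nat_lit 0) (nat_lit 242) (nat_lit 241) (nat_lit 27)) (PT.lf (nat_lit 1596) (nat_lit 6) (nat_lit 21) (nat_lit 5) (nat_lit 25) (nat_lit 242) (nat_lit 243)))) (PT.nd (nat_lit 78) (PT.lf (nat_lit 1748) (nat_lit 3) (nat_lit 23) (nat_lit 4) (nat_lit 26) (nat_lit 242) (nat_lit 242)) (PT.nd (nat_lit 78) (PT.lf (nat_lit 1824) (nat_lit 6) (nat_lit 24) (nat_lit 4) (nat_lit 27) (nat_lit 242) (nat_lit 241)) (PT.lf (nat_lit 1900) (nat_lit 6) (nat_lit 25) (nat_lit 4) (nat_lit 28) (nat_lit 242) (nat_lit 240))))))))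
noncomputable def pc63 : PT := (PT.nd (nat_lit 195078) (PT.nd (nat_lit 89232) (PT.nd (nat_lit 36270) (PT.nd (nat_lit 156) (PT.nd (nat_lit 78) (PT.lf (nat_lit 1900) (nat_lit 6) (nat_lit 25) (nat_lit 2) (nat_lit 240) (nat_lit 242) (nat_lit 28)) (PT.lf (nat_lit 1824) (nat_lit 6) (nat_lit 24) (nat_lit 2) (nat_lit 241) (nat_lit 242) (nat_lit 27))) (PT.nd (nat_lit 78) (PT.lf (nat_lit 1748) (nat_lit 3) (nat_lit 23) (nat_lit 0) (nat_lit 242) (nat_lit 242) (nat_lit 26)) (PT.nd (nat_lit 35958) (PT.lf (nat_lit 1596) (nat_lit 6) (nat_lit 21) (nat_lit 0) (nat_lit 243) (nat_lit 242) (nat_lit 25)) (PT.lf (nat_lit 1368) (nat_lit 6) (nat_lit 18) (nat_lit 5) (nat_lit 23) (nat_lit 243) (nat_lit 244))))) (PT.nd (nat_lit 17082) (PT.nd (nat_lit 78) (PT.lf (nat_lit 1520) (nat_lit 3) (nat_lit 20) (nat_lit 4) (nat_lit 24) (nat_lit 243) (nat_lit 243)) (PT.nd (nat_lit 16926) (PT.lf (nat_lit 1596) (nat_lit 6) (nat_lit 21) (nat_lit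 4) (nat_lit 25) (nat_lit 243) (nat_lit 242)) (PT.lf (nat_lit 1596) (nat_lit 6) (nat_lit 21) (nat_lit 2) (nat_lit 242) (nat_lit 243) (nat_lit 25)))) (PT.nd (nat_lit 78) (PT.lf (nat_lit 1520) (nat_lit 3) (nat_lit 20) (nat_lit 0) (nat_lit 243) (nat_lit 243) (nat_lit 24)) (PT.nd (nat_lit 35724) (PT.lf (nat_lit 1368) (nat_lit 6) (nat_lit 18) (nat_lit 0) (nat_lit 244) (nat_lit 243) (nat_lit 23)) (PT.lf (nat_lit 1140) (nat_lit 6) (nat_lit 15) (nat_lit 5) (nat_lit 21) (nat_lit 244) (nat_lit 245)))))) (PT.nd (nat_lit 52884) (PT.nd (nat_lit 17238) (PT.nd (nat_lit 78) (PT.lf (nat_lit 1292) (nat_lit 3) (nat_lit 17) (nat_lit 4) (nat_lit 22) (nat_lit 244) (nat_lit 244)) (PT.lf (nat_lit 1368) (nat_lit 6) (nat_lit 18) (nat_lit 4) (nat_lit 23) (nat_lit 244) (nat_lit 243))) (PT.nd (nat_lit 78) (PT.lf (nat_lit 1368) (nat_lit 6) (nat_lit 18) (nat_lit 2) (nat_lit 243) (nat_lit 244) (nat_lit 23)) (PT.nd (nat_lit 78) (PT.lf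 (nat_lit 1292) (nat_lit 3) (nat_lit 17) (nat_lit 0) (nat_lit 244) (nat_lit 244) (nat_lit 22)) (PT.lf (nat_lit 1140) (nat_lit 6) (nat_lit 15) (nat_lit 0) (nat_lit 245) (nat_lit 244) (nat_lit 21))))) (PT.nd (nat_lit 17550) (PT.nd (nat_lit 78) (PT.lf (nat_lit 912) (nat_lit 6) (nat_lit 12) (nat_lit 5) (nat_lit 19) (nat_lit 245) (nat_lit 246)) (PT.nd (nat_lit 78) (PT.lf (nat_lit 1064) (nat_lit 3) (nat_lit 14) (nat_lit 4) (nat_lit 20) (nat_lit 245) (nat_lit 245)) (PT.lf (nat_lit 1140) (nat_lit 6) (nat_lit 15) (nat_lit 4) (nat_lit 21) (nat_lit 245) (nat_lit 244)))) (PT.nd (nat_lit 78) (PT.lf (nat_lit 1140) (nat_lit 6) (nat_lit 15) (nat_lit 2) (nat_lit 244) (nat_lit 245) (nat_lit 21)) (PT.nd (nat_lit 78) (PT.lf (nat_lit 1064) (nat_lit 3) (nat_lit 14) (nat_lit 0) (nat_lit 245) (nat_lit 245) (nat_lit 20)) (PT.lf (nat_lit 912) (nat_lit 6) (nat_lit 12) (nat_lit 0) (nat_lit 246) (nat_lit 245) (nat_lit 19)))))))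 (PT.nd (nat_lit 71136) (PT.nd (nat_lit 17940) (PT.nd (nat_lit 156) (PT.nd (nat_lit 78) (PT.lf (nat_lit 684) (nat_lit 6) (nat_lit 9) (nat_lit 5) (nat_lit 17) (nat_lit 246) (nat_lit 247)) (PT.lf (nat_lit 836) (nat_lit 3) (nat_lit 11) (nat_lit 4) (nat_lit 18) (nat_lit 246) (nat_lit 246))) (PT.nd (nat_lit 17628) (PT.lf (nat_lit 912) (nat_lit 6) (nat_lit 12) (nat_lit 4) (nat_lit 19) (nat_lit 246) (nat_lit 245)) (PT.nd (nat_lit 78) (PT.lf (nat_lit 912) (nat_lit 6) (nat_lit 12) (nat_lit 2) (nat_lit 245) (nat_lit 246) (nat_lit 19)) (PT.lf (nat_lit 836) (nat_lit 3) (nat_lit 11) (nat_lit 0) (nat_lit 246) (nat_lit 246) (nat_lit 18))))) (PT.nd (nat_lit 35178) (PT.nd (nat_lit 35022) (PT.lf (nat_lit 684) (nat_lit 6) (nat_lit 9) (nat_lit 0) (nat_lit 247) (nat_lit 246) (nat_lit 17)) (PT.nd (nat_lit 78) (PT.lf (nat_lit 456) (nat_lit 6) (nat_lit 6) (nat_lit 5) (nat_lit 15) (nat_lit 247) (nat_lit 248)) (PT.lf (nat_lit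 608) (nat_lit 3) (nat_lit 8) (nat_lit 4) (nat_lit 16) (nat_lit 247) (nat_lit 247)))) (PT.nd (nat_lit 17862) (PT.lf (nat_lit 684) (nat_lit 6) (nat_lit 9) (nat_lit 4) (nat_lit 17) (nat_lit 247) (nat_lit 246)) (PT.nd (nat_lit 78) (PT.lf (nat_lit 684) (nat_lit 6) (nat_lit 9) (nat_lit 2) (nat_lit 246) (nat_lit 247) (nat_lit 17)) (PT.lf (nat_lit 608) (nat_lit 3) (nat_lit 8) (nat_lit 0) (nat_lit 247) (nat_lit 247) (nat_lit 16)))))) (PT.nd (nat_lit 53118) (PT.nd (nat_lit 34866) (PT.nd (nat_lit 34788) (PT.lf (nat_lit 456) (nat_lit 6) (nat_lit 6) (nat_lit 0) (nat_lit 248) (nat_lit 247) (nat_lit 15)) (PT.lf (nat_lit 228) (nat_lit 6) (nat_lit 3) (nat_lit 5) (nat_lit 13) (nat_lit 248) (nat_lit 249))) (PT.nd (nat_lit 78) (PT.lf (nat_lit 380) (nat_lit 3) (nat_lit 5) (nat_lit 4) (nat_lit 14) (nat_lit 248) (nat_lit 248)) (PT.nd (nat_lit 18096) (PT.lf (nat_lit 456) (nat_lit 6) (nat_lit 6) (nat_lit 4) (nat_lit 15) (nat_lit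 248) (nat_lit 247)) (PT.lf (nat_lit 456) (nat_lit 6) (nat_lit 6) (nat_lit 2) (nat_lit 247) (nat_lit 248) (nat_lit 15))))) (PT.nd (nat_lit 34788) (PT.nd (nat_lit 78) (PT.lf (nat_lit 380) (nat_lit 3) (nat_lit 5) (nat_lit 0) (nat_lit 248) (nat_lit 248) (nat_lit 14)) (PT.nd (nat_lit 34632) (PT.lf (nat_lit 228) (nat_lit 6) (nat_lit 3) (nat_lit 0) (nat_lit 249) (nat_lit 248) (nat_lit 13)) (PT.lf (nat_lit 152) (nat_lit 3) (nat_lit 2) (nat_lit 4) (nat_lit 12) (nat_lit 249) (nat_lit 249)))) (PT.nd (nat_lit 18330) (PT.lf (nat_lit 228) (nat_lit 6) (nat_lit 3) (nat_lit 4) (nat_lit 13) (nat_lit 249) (nat_lit 248)) (PT.nd (nat_lit 78) (PT.lf (nat_lit 228) (nat_lit 6) (nat_lit 3) (nat_lit 2) (nat_lit 248) (nat_lit 249) (nat_lit 13)) (PT.lf (nat_lit 152) (nat_lit 3) (nat_lit 2) (nat_lit 0) (nat_lit 249) (nat_lit 249) (nat_lit 12))))))))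
noncomputable def xc0 : XT := (XT.nd (nat_lit 212316) (nat_lit 0) (nat_lit 0) (XT.nd (nat_lit 158886) (nat_lit 0) (nat_lit 0) (XT.nd (nat_lit 105846) (nat_lit 0) (nat_lit 0) (XT.nd (nat_lit 52962) (nat_lit 0) (nat_lit 0) (XT.nd (nat_lit 78) (nat_lit 152) (nat_lit 0) (XT.lf (nat_lit 0) (nat_lit 15570804662) (nat_lit 76) (nat_lit 12302986390) (nat_lit 76) (nat_lit 12261208251) (nat_lit 29) (nat_lit 4) (nat_lit 30) (nat_lit 5) (nat_lit 30) (nat_lit 4) (nat_lit 495) (nat_lit 263) (nat_lit 262)) (XT.nd (nat_lit 52806) (nat_lit 0) (nat_lit 456) (XT.lf (nat_lit 0) (nat_lit 7782094817) (nat_lit 152) (nat_lit 25252248416) (nat_lit 0) (nat_lit 7702153613) (nat_lit 27) (nat_lit 5) (nat_lit 29) (nat_lit 4) (nat_lit 27) (nat_lit 4) (nat_lit 496) (nat_lit 263) (nat_lit 261)) (XT.lf (nat_lit 0) (nat_lit 3784737953) (nat_lit 152) (nat_lit 11629176254) (nat_lit 0) (nat_lit 3784737953) (nat_lit 33) (nat_lit 5) (nat_lit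 35) (nat_lit 4) (nat_lit 33) (nat_lit 4) (nat_lit 492) (nat_lit 264) (nat_lit 264)))) (XT.nd (nat_lit 156) (nat_lit 228) (nat_lit 0) (XT.nd (nat_lit 78) (nat_lit 152) (nat_lit 0) (XT.lf (nat_lit 0) (nat_lit 15202952113) (nat_lit 76) (nat_lit 11904942091) (nat_lit 76) (nat_lit 11860619663) (nat_lit 32) (nat_lit 4) (nat_lit 33) (nat_lit 5) (nat_lit 33) (nat_lit 4) (nat_lit 493) (nat_lit 264) (nat_lit 263)) (XT.lf (nat_lit 0) (nat_lit 7600424882) (nat_lit 152) (nat_lit 24436368133) (nat_lit 0) (nat_lit 7515615259) (nat_lit 30) (nat_lit 5) (nat_lit 32) (nat_lit 4) (nat_lit 30) (nat_lit 4) (nat_lit 494) (nat_lit 264) (nat_lit 262))) (XT.nd (nat_lit 78) (nat_lit 152) (nat_lit 0) (XT.lf (nat_lit 0) (nat_lit 14781896855) (nat_lit 76) (nat_lit 12745084306) (nat_lit 76) (nat_lit 12619713383) (nat_lit 29) (nat_lit 4) (nat_lit 30) (nat_lit 5) (nat_lit 30) (nat_lit 4) (nat_lit 495) (nat_lit 264) (nat_lit 261)) (XT.lf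 (nat_lit 0) (nat_lit 7224490513) (nat_lit 152) (nat_lit 26465449551) (nat_lit 0) (nat_lit 7064538255) (nat_lit 27) (nat_lit 5) (nat_lit 29) (nat_lit 4) (nat_lit 27) (nat_lit 4) (nat_lit 496) (nat_lit 264) (nat_lit 260))))) (XT.nd (nat_lit 312) (nat_lit 380) (nat_lit 0) (XT.nd (nat_lit 156) (nat_lit 228) (nat_lit 0) (XT.nd (nat_lit 78) (nat_lit 76) (nat_lit 0) (XT.lf (nat_lit 0) (nat_lit 3697787699) (nat_lit 152) (nat_lit 11245249117) (nat_lit 0) (nat_lit 3697787699) (nat_lit 36) (nat_lit 5) (nat_lit 38) (nat_lit 4) (nat_lit 36) (nat_lit 4) (nat_lit 490) (nat_lit 265) (nat_lit 265)) (XT.lf (nat_lit 0) (nat_lit 14851030777) (nat_lit 76) (nat_lit 11516073288) (nat_lit 76) (nat_lit 11469051624) (nat_lit 35) (nat_lit 4) (nat_lit 36) (nat_lit 5) (nat_lit 36) (nat_lit 4) (nat_lit 491) (nat_lit 265) (nat_lit 264))) (XT.nd (nat_lit 78) (nat_lit 76) (nat_lit 0) (XT.lf (nat_lit 0) (nat_lit 7426786380) (nat_lit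 152) (nat_lit 23639356340) (nat_lit 0) (nat_lit 7336811851) (nat_lit 33) (nat_lit 5) (nat_lit 35) (nat_lit 4) (nat_lit 33) (nat_lit 4) (nat_lit 492) (nat_lit 265) (nat_lit 263)) (XT.lf (nat_lit 0) (nat_lit 14437097058) (nat_lit 76) (nat_lit 12337889803) (nat_lit 76) (nat_lit 12204883791) (nat_lit 32) (nat_lit 4) (nat_lit 33) (nat_lit 5) (nat_lit 33) (nat_lit 4) (nat_lit 493) (nat_lit 265) (nat_lit 262)))) (XT.nd (nat_lit 156) (nat_lit 152) (nat_lit 0) (XT.nd (nat_lit 78) (nat_lit 76) (nat_lit 0) (XT.lf (nat_lit 0) (nat_lit 7062717274) (nat_lit 152) (nat_lit 25614127978) (nat_lit 0) (nat_lit 6893023923) (nat_lit 30) (nat_lit 5) (nat_lit 32) (nat_lit 4) (nat_lit 30) (nat_lit 4) (nat_lit 494) (nat_lit 265) (nat_lit 261)) (XT.lf (nat_lit 0) (nat_lit 13203391906) (nat_lit 76) (nat_lit 13587888297) (nat_lit 76) (nat_lit 13378815043) (nat_lit 29) (nat_lit 4) (nat_lit 30) (nat_lit 5) (nat_lit 30) (nat_lit 4)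 (nat_lit 495) (nat_lit 265) (nat_lit 260))) (XT.nd (nat_lit 52494) (nat_lit 0) (nat_lit 912) (XT.lf (nat_lit 0) (nat_lit 6267969351) (nat_lit 152) (nat_lit 28488629274) (nat_lit 0) (nat_lit 6027866274) (nat_lit 27) (nat_lit 5) (nat_lit 29) (nat_lit 4) (nat_lit 27) (nat_lit 4) (nat_lit 496) (nat_lit 265) (nat_lit 259)) (XT.lf (nat_lit 0) (nat_lit 3614788022) (nat_lit 152) (nat_lit 10869750837) (nat_lit 0) (nat_lit 3614788022) (nat_lit 39) (nat_lit 5) (nat_lit 41) (nat_lit 4) (nat_lit 39) (nat_lit 4) (nat_lit 488) (nat_lit 266) (nat_lit 266)))))) (XT.nd (nat_lit 546) (nat_lit 152) (nat_lit 0) (XT.nd (nat_lit 234) (nat_lit 456) (nat_lit 0) (XT.nd (nat_lit 78) (nat_lit 228) (nat_lit 0) (XT.lf (nat_lit 0) (nat_lit 14514894358) (nat_lit 76) (nat_lit 11135965475) (nat_lit 76) (nat_lit 11086080192) (nat_lit 38) (nat_lit 4) (nat_lit 39) (nat_lit 5) (nat_lit 39) (nat_lit 4) (nat_lit 489) (nat_lit 266) (nat_lit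 265)) (XT.nd (nat_lit 78) (nat_lit 76) (nat_lit 0) (XT.lf (nat_lit 0) (nat_lit 7261112255) (nat_lit 152) (nat_lit 22860365361) (nat_lit 0) (nat_lit 7165658278) (nat_lit 36) (nat_lit 5) (nat_lit 38) (nat_lit 4) (nat_lit 36) (nat_lit 4) (nat_lit 490) (nat_lit 266) (nat_lit 264)) (XT.lf (nat_lit 0) (nat_lit 14107561593) (nat_lit 76) (nat_lit 11940364246) (nat_lit 76) (nat_lit 11799258168) (nat_lit 35) (nat_lit 4) (nat_lit 36) (nat_lit 5) (nat_lit 36) (nat_lit 4) (nat_lit 491) (nat_lit 266) (nat_lit 263)))) (XT.nd (nat_lit 156) (nat_lit 228) (nat_lit 0) (XT.nd (nat_lit 78) (nat_lit 76) (nat_lit 0) (XT.lf (nat_lit 0) (nat_lit 6908618590) (nat_lit 152) (nat_lit 24782700751) (nat_lit 0) (nat_lit 6728590914) (nat_lit 33) (nat_lit 5) (nat_lit 35) (nat_lit 4) (nat_lit 33) (nat_lit 4) (nat_lit 492) (nat_lit 266) (nat_lit 262)) (XT.lf (nat_lit 0) (nat_lit 12904717754) (nat_lit 76) (nat_lit 13159841101) (nat_lit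 76) (nat_lit 12938035286) (nat_lit 32) (nat_lit 4) (nat_lit 33) (nat_lit 5) (nat_lit 33) (nat_lit 4) (nat_lit 493) (nat_lit 266) (nat_lit 261))) (XT.nd (nat_lit 78) (nat_lit 76) (nat_lit 0) (XT.lf (nat_lit 0) (nat_lit 6137754253) (nat_lit 152) (nat_lit 27578204477) (nat_lit 0) (nat_lit 5883028899) (nat_lit 30) (nat_lit 5) (nat_lit 32) (nat_lit 4) (nat_lit 30) (nat_lit 4) (nat_lit 494) (nat_lit 266) (nat_lit 260)) (XT.lf (nat_lit 0) (nat_lit 10833910537) (nat_lit 76) (nat_lit 14832134794) (nat_lit 76) (nat_lit 14539176524) (nat_lit 29) (nat_lit 4) (nat_lit 30) (nat_lit 5) (nat_lit 30) (nat_lit 4) (nat_lit 495) (nat_lit 266) (nat_lit 259))))) (XT.nd (nat_lit 52572) (nat_lit 0) (nat_lit 456) (XT.nd (nat_lit 52416) (nat_lit 0) (nat_lit 912) (XT.nd (nat_lit 52338) (nat_lit 0) (nat_lit 1140) (XT.lf (nat_lit 0) (nat_lit 4911695535) (nat_lit 152) (nat_lit 31323555411) (nat_lit 0) (nat_lit 4591231840) (nat_lit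 27) (nat_lit 5) (nat_lit 29) (nat_lit 4) (nat_lit 27) (nat_lit 4) (nat_lit 496) (nat_lit 266) (nat_lit 258)) (XT.lf (nat_lit 0) (nat_lit 3535710217) (nat_lit 152) (nat_lit 10502268224) (nat_lit 0) (nat_lit 3535710217) (nat_lit 42) (nat_lit 5) (nat_lit 44) (nat_lit 4) (nat_lit 42) (nat_lit 4) (nat_lit 486) (nat_lit 267) (nat_lit 267))) (XT.nd (nat_lit 78) (nat_lit 152) (nat_lit 0) (XT.lf (nat_lit 0) (nat_lit 14194420169) (nat_lit 76) (nat_lit 10764207252) (nat_lit 76) (nat_lit 10711283955) (nat_lit 41) (nat_lit 4) (nat_lit 42) (nat_lit 5) (nat_lit 42) (nat_lit 4) (nat_lit 487) (nat_lit 267) (nat_lit 266)) (XT.lf (nat_lit 0) (nat_lit 7103347569) (nat_lit 152) (nat_lit 22098554059) (nat_lit 0) (nat_lit 7002080444) (nat_lit 39) (nat_lit 5) (nat_lit 41) (nat_lit 4) (nat_lit 39) (nat_lit 4) (nat_lit 488) (nat_lit 267) (nat_lit 265)))) (XT.nd (nat_lit 156) (nat_lit 228) (nat_lit 0) (XT.nd (nat_lit 78) (nat_lit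 152) (nat_lit 0) (XT.lf (nat_lit 0) (nat_lit 13793163864) (nat_lit 76) (nat_lit 11552092578) (nat_lit 76) (nat_lit 11402393140) (nat_lit 38) (nat_lit 4) (nat_lit 39) (nat_lit 5) (nat_lit 39) (nat_lit 4) (nat_lit 489) (nat_lit 267) (nat_lit 264)) (XT.lf (nat_lit 0) (nat_lit 6762151358) (nat_lit 152) (nat_lit 23970289924) (nat_lit 0) (nat_lit 6571159997) (nat_lit 36) (nat_lit 5) (nat_lit 38) (nat_lit 4) (nat_lit 36) (nat_lit 4) (nat_lit 490) (nat_lit 267) (nat_lit 263))) (XT.nd (nat_lit 78) (nat_lit 152) (nat_lit 0) (XT.lf (nat_lit 0) (nat_lit 12619973590) (nat_lit 76) (nat_lit 12742295237) (nat_lit 76) (nat_lit 12506981448) (nat_lit 35) (nat_lit 4) (nat_lit 36) (nat_lit 5) (nat_lit 36) (nat_lit 4) (nat_lit 491) (nat_lit 267) (nat_lit 262)) (XT.lf (nat_lit 0) (nat_lit 6014519768) (nat_lit 152) (nat_lit 26689384781) (nat_lit 0) (nat_lit 5744281639) (nat_lit 33) (nat_lit 5) (nat_lit 35) (nat_lit 4) (nat_lit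 33) (nat_lit 4) (nat_lit 492) (nat_lit 267) (nat_lit 261))))))) (XT.nd (nat_lit 53274) (nat_lit 0) (nat_lit 0) (XT.nd (nat_lit 52650) (nat_lit 0) (nat_lit 228) (XT.nd (nat_lit 234) (nat_lit 152) (nat_lit 0) (XT.nd (nat_lit 78) (nat_lit 228) (nat_lit 0) (XT.lf (nat_lit 0) (nat_lit 10604475228) (nat_lit 76) (nat_lit 14371514197) (nat_lit 76) (nat_lit 14060714768) (nat_lit 32) (nat_lit 4) (nat_lit 33) (nat_lit 5) (nat_lit 33) (nat_lit 4) (nat_lit 493) (nat_lit 267) (nat_lit 260)) (XT.nd (nat_lit 78) (nat_lit 76) (nat_lit 0) (XT.lf (nat_lit 0) (nat_lit 4824727601) (nat_lit 152) (nat_lit 30330313812) (nat_lit 0) (nat_lit 4484747666) (nat_lit 30) (nat_lit 5) (nat_lit 32) (nat_lit 4) (nat_lit 30) (nat_lit 4) (nat_lit 494) (nat_lit 267) (nat_lit 259)) (XT.lf (nat_lit 0) (nat_lit 7671382328) (nat_lit 76) (nat_lit 16478911003) (nat_lit 76) (nat_lit 16101811733) (nat_lit 29) (nat_lit 4) (nat_lit 30) (nat_lit 5)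 (nat_lit 30) (nat_lit 4) (nat_lit 495) (nat_lit 267) (nat_lit 258)))) (XT.nd (nat_lit 52260) (nat_lit 0) (nat_lit 1140) (XT.nd (nat_lit 52182) (nat_lit 0) (nat_lit 1368) (XT.lf (nat_lit 0) (nat_lit 3154483971) (nat_lit 152) (nat_lit 34972705083) (nat_lit 0) (nat_lit 2753379642) (nat_lit 27) (nat_lit 5) (nat_lit 29) (nat_lit 4) (nat_lit 27) (nat_lit 4) (nat_lit 496) (nat_lit 267) (nat_lit 257)) (XT.lf (nat_lit 0) (nat_lit 3460531672) (nat_lit 152) (nat_lit 10142389914) (nat_lit 0) (nat_lit 3460531672) (nat_lit 45) (nat_lit 5) (nat_lit 47) (nat_lit 4) (nat_lit 45) (nat_lit 4) (nat_lit 484) (nat_lit 268) (nat_lit 268))) (XT.nd (nat_lit 78) (nat_lit 152) (nat_lit 0) (XT.lf (nat_lit 0) (nat_lit 13889509624) (nat_lit 76) (nat_lit 10400389686) (nat_lit 76) (nat_lit 10344243361) (nat_lit 44) (nat_lit 4) (nat_lit 45) (nat_lit 5) (nat_lit 45) (nat_lit 4) (nat_lit 485) (nat_lit 268) (nat_lit 267)) (XT.lf (nat_lit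 0) (nat_lit 6953449764) (nat_lit 152) (nat_lit 21353086532) (nat_lit 0) (nat_lit 6846015471) (nat_lit 42) (nat_lit 5) (nat_lit 44) (nat_lit 4) (nat_lit 42) (nat_lit 4) (nat_lit 486) (nat_lit 268) (nat_lit 266))))) (XT.nd (nat_lit 312) (nat_lit 456) (nat_lit 0) (XT.nd (nat_lit 156) (nat_lit 228) (nat_lit 0) (XT.nd (nat_lit 78) (nat_lit 152) (nat_lit 0) (XT.lf (nat_lit 0) (nat_lit 13493800331) (nat_lit 76) (nat_lit 11172663705) (nat_lit 76) (nat_lit 11013847571) (nat_lit 41) (nat_lit 4) (nat_lit 42) (nat_lit 5) (nat_lit 42) (nat_lit 4) (nat_lit 487) (nat_lit 268) (nat_lit 265)) (XT.lf (nat_lit 0) (nat_lit 6623284722) (nat_lit 152) (nat_lit 23176024947) (nat_lit 0) (nat_lit 6420661987) (nat_lit 39) (nat_lit 5) (nat_lit 41) (nat_lit 4) (nat_lit 39) (nat_lit 4) (nat_lit 488) (nat_lit 268) (nat_lit 264))) (XT.nd (nat_lit 78) (nat_lit 152) (nat_lit 0) (XT.lf (nat_lit 0) (nat_lit 12349072238) (nat_lit 76) (nat_lit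 12334825107) (nat_lit 76) (nat_lit 12085180708) (nat_lit 38) (nat_lit 4) (nat_lit 39) (nat_lit 5) (nat_lit 39) (nat_lit 4) (nat_lit 489) (nat_lit 268) (nat_lit 263)) (XT.lf (nat_lit 0) (nat_lit 5898256722) (nat_lit 152) (nat_lit 25821241761) (nat_lit 0) (nat_lit 5611561091) (nat_lit 36) (nat_lit 5) (nat_lit 38) (nat_lit 4) (nat_lit 36) (nat_lit 4) (nat_lit 490) (nat_lit 268) (nat_lit 262)))) (XT.nd (nat_lit 156) (nat_lit 228) (nat_lit 0) (XT.nd (nat_lit 78) (nat_lit 152) (nat_lit 0) (XT.lf (nat_lit 0) (nat_lit 10386966934) (nat_lit 76) (nat_lit 13922566979) (nat_lit 76) (nat_lit 13592839865) (nat_lit 35) (nat_lit 4) (nat_lit 36) (nat_lit 5) (nat_lit 36) (nat_lit 4) (nat_lit 491) (nat_lit 268) (nat_lit 261)) (XT.lf (nat_lit 0) (nat_lit 4743708664) (nat_lit 152) (nat_lit 29361074463) (nat_lit 0) (nat_lit 4383023952) (nat_lit 33) (nat_lit 5) (nat_lit 35) (nat_lit 4) (nat_lit 33) (nat_lit 4) (nat_lit 492)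 (nat_lit 268) (nat_lit 260))) (XT.nd (nat_lit 78) (nat_lit 152) (nat_lit 0) (XT.lf (nat_lit 0) (nat_lit 7534359561) (nat_lit 76) (nat_lit 15973967833) (nat_lit 76) (nat_lit 15573903218) (nat_lit 32) (nat_lit 4) (nat_lit 33) (nat_lit 5) (nat_lit 33) (nat_lit 4) (nat_lit 493) (nat_lit 268) (nat_lit 259)) (XT.lf (nat_lit 0) (nat_lit 3122490010) (nat_lit 152) (nat_lit 33872860739) (nat_lit 0) (nat_lit 2696958427) (nat_lit 30) (nat_lit 5) (nat_lit 32) (nat_lit 4) (nat_lit 30) (nat_lit 4) (nat_lit 494) (nat_lit 268) (nat_lit 258)))))) (XT.nd (nat_lit 52572) (nat_lit 0) (nat_lit 228) (XT.nd (nat_lit 52260) (nat_lit 0) (nat_lit 1064) (XT.nd (nat_lit 52104) (nat_lit 0) (nat_lit 1520) (XT.nd (nat_lit 78) (nat_lit 152) (nat_lit 0) (XT.lf (nat_lit 0) (nat_lit 3713043905) (nat_lit 76) (nat_lit 18529655855) (nat_lit 76) (nat_lit 18068086081) (nat_lit 29) (nat_lit 4) (nat_lit 30) (nat_lit 5) (nat_lit 30) (nat_lit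 4) (nat_lit 495) (nat_lit 268) (nat_lit 257)) (XT.lf (nat_lit 0) (nat_lit 994799233) (nat_lit 152) (nat_lit 39439266866) (nat_lit 0) (nat_lit 512703789) (nat_lit 27) (nat_lit 5) (nat_lit 29) (nat_lit 4) (nat_lit 27) (nat_lit 4) (nat_lit 496) (nat_lit 268) (nat_lit 256))) (XT.nd (nat_lit 78) (nat_lit 76) (nat_lit 0) (XT.lf (nat_lit 0) (nat_lit 3389236015) (nat_lit 152) (nat_lit 9789705688) (nat_lit 0) (nat_lit 3389236015) (nat_lit 48) (nat_lit 5) (nat_lit 50) (nat_lit 4) (nat_lit 48) (nat_lit 4) (nat_lit 482) (nat_lit 269) (nat_lit 269)) (XT.lf (nat_lit 0) (nat_lit 13600088785) (nat_lit 76) (nat_lit 10044105664) (nat_lit 76) (nat_lit 9984540027) (nat_lit 47) (nat_lit 4) (nat_lit 48) (nat_lit 5) (nat_lit 48) (nat_lit 4) (nat_lit 483) (nat_lit 269) (nat_lit 268)))) (XT.nd (nat_lit 156) (nat_lit 228) (nat_lit 0) (XT.nd (nat_lit 78) (nat_lit 76) (nat_lit 0) (XT.lf (nat_lit 0) (nat_lit 6811388959) (nat_lit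 152) (nat_lit 20623130795) (nat_lit 0) (nat_lit 6697411918) (nat_lit 45) (nat_lit 5) (nat_lit 47) (nat_lit 4) (nat_lit 45) (nat_lit 4) (nat_lit 484) (nat_lit 269) (nat_lit 267)) (XT.lf (nat_lit 0) (nat_lit 13209391011) (nat_lit 76) (nat_lit 10801669885) (nat_lit 76) (nat_lit 10633181848) (nat_lit 44) (nat_lit 4) (nat_lit 45) (nat_lit 5) (nat_lit 45) (nat_lit 4) (nat_lit 485) (nat_lit 269) (nat_lit 266))) (XT.nd (nat_lit 78) (nat_lit 76) (nat_lit 0) (XT.lf (nat_lit 0) (nat_lit 6492000380) (nat_lit 152) (nat_lit 22399041339) (nat_lit 0) (nat_lit 6277037920) (nat_lit 42) (nat_lit 5) (nat_lit 44) (nat_lit 4) (nat_lit 42) (nat_lit 4) (nat_lit 486) (nat_lit 269) (nat_lit 265)) (XT.lf (nat_lit 0) (nat_lit 12091948463) (nat_lit 76) (nat_lit 11937010219) (nat_lit 76) (nat_lit 11672162476) (nat_lit 41) (nat_lit 4) (nat_lit 42) (nat_lit 5) (nat_lit 42) (nat_lit 4) (nat_lit 487) (nat_lit 269) (nat_lit 264)))))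 (XT.nd (nat_lit 312) (nat_lit 380) (nat_lit 0) (XT.nd (nat_lit 156) (nat_lit 228) (nat_lit 0) (XT.nd (nat_lit 78) (nat_lit 76) (nat_lit 0) (XT.lf (nat_lit 0) (nat_lit 5788968031) (nat_lit 152) (nat_lit 24972855819) (nat_lit 0) (nat_lit 5484812637) (nat_lit 39) (nat_lit 5) (nat_lit 41) (nat_lit 4) (nat_lit 39) (nat_lit 4) (nat_lit 488) (nat_lit 269) (nat_lit 263)) (XT.lf (nat_lit 0) (nat_lit 10181357652) (nat_lit 76) (nat_lit 13484847004) (nat_lit 76) (nat_lit 13135039509) (nat_lit 38) (nat_lit 4) (nat_lit 39) (nat_lit 5) (nat_lit 39) (nat_lit 4) (nat_lit 489) (nat_lit 269) (nat_lit 262))) (XT.nd (nat_lit 78) (nat_lit 76) (nat_lit 0) (XT.lf (nat_lit 0) (nat_lit 4668673486) (nat_lit 152) (nat_lit 28414838209) (nat_lit 0) (nat_lit 4286023075) (nat_lit 36) (nat_lit 5) (nat_lit 38) (nat_lit 4) (nat_lit 36) (nat_lit 4) (nat_lit 490) (nat_lit 269) (nat_lit 261)) (XT.lf (nat_lit 0) (nat_lit 7406590456) (nat_lit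 76) (nat_lit 15482210776) (nat_lit 76) (nat_lit 15057782225) (nat_lit 35) (nat_lit 4) (nat_lit 36) (nat_lit 5) (nat_lit 36) (nat_lit 4) (nat_lit 491) (nat_lit 269) (nat_lit 260)))) (XT.nd (nat_lit 156) (nat_lit 152) (nat_lit 0) (XT.nd (nat_lit 78) (nat_lit 76) (nat_lit 0) (XT.lf (nat_lit 0) (nat_lit 3095074860) (nat_lit 152) (nat_lit 32800104285) (nat_lit 0) (nat_lit 2643628404) (nat_lit 33) (nat_lit 5) (nat_lit 35) (nat_lit 4) (nat_lit 33) (nat_lit 4) (nat_lit 492) (nat_lit 269) (nat_lit 259)) (XT.lf (nat_lit 0) (nat_lit 3691688127) (nat_lit 76) (nat_lit 17968602213) (nat_lit 76) (nat_lit 17478922840) (nat_lit 32) (nat_lit 4) (nat_lit 33) (nat_lit 5) (nat_lit 33) (nat_lit 4) (nat_lit 493) (nat_lit 269) (nat_lit 258))) (XT.nd (nat_lit 78) (nat_lit 0) (nat_lit 0) (XT.lf (nat_lit 0) (nat_lit 1029554090) (nat_lit 152) (nat_lit 38208940688) (nat_lit 0) (nat_lit 518099034) (nat_lit 30) (nat_lit 5) (nat_lit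 32) (nat_lit 4) (nat_lit 30) (nat_lit 4) (nat_lit 494) (nat_lit 269) (nat_lit 257)) (XT.lf (nat_lit 0) (nat_lit 19951638771) (nat_lit 152) (nat_lit 1024180278) (nat_lit 0) (nat_lit 19405195181) (nat_lit 30) (nat_lit 5) (nat_lit 32) (nat_lit 4) (nat_lit 30) (nat_lit 4) (nat_lit 495) (nat_lit 269) (nat_lit 256))))))))
noncomputable def xc1 : XT := (XT.nd (nat_lit 105768) (nat_lit 0) (nat_lit 0) (XT.nd (nat_lit 52962) (nat_lit 0) (nat_lit 0) (XT.nd (nat_lit 52338) (nat_lit 0) (nat_lit 304) (XT.nd (nat_lit 52026) (nat_lit 0) (nat_lit 1140) (XT.nd (nat_lit 51870) (nat_lit 0) (nat_lit 1596) (XT.lf (nat_lit 0) (nat_lit 37357293013) (nat_lit 76) (nat_lit 2123059151) (nat_lit 76) (nat_lit 1542646110) (nat_lit 29) (nat_lit 4) (nat_lit 30) (nat_lit 5) (nat_lit 30) (nat_lit 4) (nat_lit 496) (nat_lit 269) (nat_lit 255)) (XT.nd (nat_lit 78) (nat_lit 76) (nat_lit 0) (XT.lf (nat_lit 0) (nat_lit 3321813269) (nat_lit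 152) (nat_lit 9443805782) (nat_lit 0) (nat_lit 3321813269) (nat_lit 51) (nat_lit 5) (nat_lit 53) (nat_lit 4) (nat_lit 51) (nat_lit 4) (nat_lit 480) (nat_lit 270) (nat_lit 270)) (XT.lf (nat_lit 0) (nat_lit 13326108974) (nat_lit 76) (nat_lit 9694949218) (nat_lit 76) (nat_lit 9631756034) (nat_lit 50) (nat_lit 4) (nat_lit 51) (nat_lit 5) (nat_lit 51) (nat_lit 4) (nat_lit 481) (nat_lit 270) (nat_lit 269)))) (XT.nd (nat_lit 156) (nat_lit 228) (nat_lit 0) (XT.nd (nat_lit 78) (nat_lit 76) (nat_lit 0) (XT.lf (nat_lit 0) (nat_lit 6677148279) (nat_lit 152) (nat_lit 19907857414) (nat_lit 0) (nat_lit 6556230036) (nat_lit 48) (nat_lit 5) (nat_lit 50) (nat_lit 4) (nat_lit 48) (nat_lit 4) (nat_lit 482) (nat_lit 270) (nat_lit 268)) (XT.lf (nat_lit 0) (nat_lit 12939880050) (nat_lit 76) (nat_lit 10438706105) (nat_lit 76) (nat_lit 10259957147) (nat_lit 47) (nat_lit 4) (nat_lit 48) (nat_lit 5) (nat_lit 48) (nat_lit 4) (nat_lit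 483) (nat_lit 270) (nat_lit 267))) (XT.nd (nat_lit 78) (nat_lit 76) (nat_lit 0) (XT.lf (nat_lit 0) (nat_lit 6368292929) (nat_lit 152) (nat_lit 21638479338) (nat_lit 0) (nat_lit 6140239255) (nat_lit 45) (nat_lit 5) (nat_lit 47) (nat_lit 4) (nat_lit 45) (nat_lit 4) (nat_lit 484) (nat_lit 270) (nat_lit 266)) (XT.lf (nat_lit 0) (nat_lit 11848559508) (nat_lit 76) (nat_lit 11548434590) (nat_lit 76) (nat_lit 11267457620) (nat_lit 44) (nat_lit 4) (nat_lit 45) (nat_lit 5) (nat_lit 45) (nat_lit 4) (nat_lit 485) (nat_lit 270) (nat_lit 265))))) (XT.nd (nat_lit 312) (nat_lit 380) (nat_lit 0) (XT.nd (nat_lit 156) (nat_lit 228) (nat_lit 0) (XT.nd (nat_lit 78) (nat_lit 76) (nat_lit 0) (XT.lf (nat_lit 0) (nat_lit 5686669073) (nat_lit 152) (nat_lit 24143314811) (nat_lit 0) (nat_lit 5363990615) (nat_lit 42) (nat_lit 5) (nat_lit 44) (nat_lit 4) (nat_lit 42) (nat_lit 4) (nat_lit 486) (nat_lit 270) (nat_lit 264)) (XT.lf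 (nat_lit 0) (nat_lit 9987639645) (nat_lit 76) (nat_lit 13057914668) (nat_lit 76) (nat_lit 12686803896) (nat_lit 41) (nat_lit 4) (nat_lit 42) (nat_lit 5) (nat_lit 42) (nat_lit 4) (nat_lit 487) (nat_lit 270) (nat_lit 263))) (XT.nd (nat_lit 78) (nat_lit 76) (nat_lit 0) (XT.lf (nat_lit 0) (nat_lit 4599668482) (nat_lit 152) (nat_lit 27490616721) (nat_lit 0) (nat_lit 4193714661) (nat_lit 39) (nat_lit 5) (nat_lit 41) (nat_lit 4) (nat_lit 39) (nat_lit 4) (nat_lit 488) (nat_lit 270) (nat_lit 262)) (XT.lf (nat_lit 0) (nat_lit 7288125986) (nat_lit 76) (nat_lit 15003163141) (nat_lit 76) (nat_lit 14552886892) (nat_lit 38) (nat_lit 4) (nat_lit 39) (nat_lit 5) (nat_lit 39) (nat_lit 4) (nat_lit 489) (nat_lit 270) (nat_lit 261)))) (XT.nd (nat_lit 156) (nat_lit 152) (nat_lit 0) (XT.nd (nat_lit 78) (nat_lit 76) (nat_lit 0) (XT.lf (nat_lit 0) (nat_lit 3072327258) (nat_lit 152) (nat_lit 31753345517) (nat_lit 0) (nat_lit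 2593387712) (nat_lit 36) (nat_lit 5) (nat_lit 38) (nat_lit 4) (nat_lit 36) (nat_lit 4) (nat_lit 490) (nat_lit 270) (nat_lit 260)) (XT.lf (nat_lit 0) (nat_lit 3676239941) (nat_lit 76) (nat_lit 17422589424) (nat_lit 76) (nat_lit 16903088577) (nat_lit 35) (nat_lit 4) (nat_lit 36) (nat_lit 5) (nat_lit 36) (nat_lit 4) (nat_lit 491) (nat_lit 270) (nat_lit 259))) (XT.nd (nat_lit 78) (nat_lit 0) (nat_lit 0) (XT.lf (nat_lit 0) (nat_lit 1067177803) (nat_lit 152) (nat_lit 37009479223) (nat_lit 0) (nat_lit 524575134) (nat_lit 33) (nat_lit 5) (nat_lit 35) (nat_lit 4) (nat_lit 33) (nat_lit 4) (nat_lit 492) (nat_lit 270) (nat_lit 258)) (XT.lf (nat_lit 0) (nat_lit 19439173370) (nat_lit 152) (nat_lit 908809654) (nat_lit 0) (nat_lit 18859451365) (nat_lit 33) (nat_lit 5) (nat_lit 35) (nat_lit 4) (nat_lit 33) (nat_lit 4) (nat_lit 493) (nat_lit 270) (nat_lit 257)))))) (XT.nd (nat_lit 52182) (nat_lit 0) (nat_lit 684) (XT.nd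 (nat_lit 51870) (nat_lit 0) (nat_lit 1596) (XT.nd (nat_lit 78) (nat_lit 228) (nat_lit 0) (XT.lf (nat_lit 0) (nat_lit 36355429690) (nat_lit 76) (nat_lit 2045497616) (nat_lit 76) (nat_lit 1429737421) (nat_lit 32) (nat_lit 4) (nat_lit 33) (nat_lit 5) (nat_lit 33) (nat_lit 4) (nat_lit 494) (nat_lit 270) (nat_lit 256)) (XT.nd (nat_lit 78) (nat_lit 76) (nat_lit 0) (XT.lf (nat_lit 0) (nat_lit 17308473782) (nat_lit 152) (nat_lit 6476697953) (nat_lit 0) (nat_lit 16676678899) (nat_lit 30) (nat_lit 5) (nat_lit 32) (nat_lit 4) (nat_lit 30) (nat_lit 4) (nat_lit 495) (nat_lit 270) (nat_lit 255)) (XT.lf (nat_lit 0) (nat_lit 31480272233) (nat_lit 76) (nat_lit 5147312722) (nat_lit 76) (nat_lit 4482537791) (nat_lit 29) (nat_lit 4) (nat_lit 30) (nat_lit 5) (nat_lit 30) (nat_lit 4) (nat_lit 496) (nat_lit 270) (nat_lit 254)))) (XT.nd (nat_lit 156) (nat_lit 228) (nat_lit 0) (XT.nd (nat_lit 78) (nat_lit 76) (nat_lit 0) (XT.lf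 (nat_lit 0) (nat_lit 3258260028) (nat_lit 152) (nat_lit 9104280173) (nat_lit 0) (nat_lit 3258260028) (nat_lit 54) (nat_lit 5) (nat_lit 56) (nat_lit 4) (nat_lit 54) (nat_lit 4) (nat_lit 478) (nat_lit 271) (nat_lit 271)) (XT.lf (nat_lit 0) (nat_lit 13067547440) (nat_lit 76) (nat_lit 9352514849) (nat_lit 76) (nat_lit 9285473200) (nat_lit 53) (nat_lit 4) (nat_lit 54) (nat_lit 5) (nat_lit 54) (nat_lit 4) (nat_lit 479) (nat_lit 271) (nat_lit 270))) (XT.nd (nat_lit 78) (nat_lit 76) (nat_lit 0) (XT.lf (nat_lit 0) (nat_lit 6550724214) (nat_lit 152) (nat_lit 19206438118) (nat_lit 0) (nat_lit 6422442050) (nat_lit 51) (nat_lit 5) (nat_lit 53) (nat_lit 4) (nat_lit 51) (nat_lit 4) (nat_lit 480) (nat_lit 271) (nat_lit 269)) (XT.lf (nat_lit 0) (nat_lit 12685236344) (nat_lit 76) (nat_lit 10083369447) (nat_lit 76) (nat_lit 9893734678) (nat_lit 50) (nat_lit 4) (nat_lit 51) (nat_lit 5) (nat_lit 51) (nat_lit 4) (nat_lit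 481) (nat_lit 271) (nat_lit 268))))) (XT.nd (nat_lit 312) (nat_lit 456) (nat_lit 0) (XT.nd (nat_lit 156) (nat_lit 228) (nat_lit 0) (XT.nd (nat_lit 78) (nat_lit 76) (nat_lit 0) (XT.lf (nat_lit 0) (nat_lit 6252170246) (nat_lit 152) (nat_lit 20893482517) (nat_lit 0) (nat_lit 6010228103) (nat_lit 48) (nat_lit 5) (nat_lit 50) (nat_lit 4) (nat_lit 48) (nat_lit 4) (nat_lit 482) (nat_lit 271) (nat_lit 267)) (XT.lf (nat_lit 0) (nat_lit 11618885698) (nat_lit 76) (nat_lit 11168686149) (nat_lit 76) (nat_lit 10870597681) (nat_lit 47) (nat_lit 4) (nat_lit 48) (nat_lit 5) (nat_lit 48) (nat_lit 4) (nat_lit 483) (nat_lit 271) (nat_lit 266))) (XT.nd (nat_lit 78) (nat_lit 76) (nat_lit 0) (XT.lf (nat_lit 0) (nat_lit 5591388083) (nat_lit 152) (nat_lit 23331712656) (nat_lit 0) (nat_lit 5249058506) (nat_lit 45) (nat_lit 5) (nat_lit 47) (nat_lit 4) (nat_lit 45) (nat_lit 4) (nat_lit 484) (nat_lit 271) (nat_lit 265)) (XT.lf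 (nat_lit 0) (nat_lit 9805826038) (nat_lit 76) (nat_lit 12641336314) (nat_lit 76) (nat_lit 12247624896) (nat_lit 44) (nat_lit 4) (nat_lit 45) (nat_lit 5) (nat_lit 45) (nat_lit 4) (nat_lit 485) (nat_lit 271) (nat_lit 264)))) (XT.nd (nat_lit 156) (nat_lit 228) (nat_lit 0) (XT.nd (nat_lit 78) (nat_lit 76) (nat_lit 0) (XT.lf (nat_lit 0) (nat_lit 4536752157) (nat_lit 152) (nat_lit 26587431071) (nat_lit 0) (nat_lit 4106075748) (nat_lit 42) (nat_lit 5) (nat_lit 44) (nat_lit 4) (nat_lit 42) (nat_lit 4) (nat_lit 486) (nat_lit 271) (nat_lit 263)) (XT.lf (nat_lit 0) (nat_lit 7179035162) (nat_lit 76) (nat_lit 14536356485) (nat_lit 76) (nat_lit 14058658412) (nat_lit 41) (nat_lit 4) (nat_lit 42) (nat_lit 5) (nat_lit 42) (nat_lit 4) (nat_lit 487) (nat_lit 271) (nat_lit 262))) (XT.nd (nat_lit 78) (nat_lit 76) (nat_lit 0) (XT.lf (nat_lit 0) (nat_lit 3054346880) (nat_lit 152) (nat_lit 30731507638) (nat_lit 0) (nat_lit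 2546239915) (nat_lit 39) (nat_lit 5) (nat_lit 41) (nat_lit 4) (nat_lit 39) (nat_lit 4) (nat_lit 488) (nat_lit 271) (nat_lit 261)) (XT.lf (nat_lit 0) (nat_lit 3666849175) (nat_lit 76) (nat_lit 16891100204) (nat_lit 76) (nat_lit 16339961756) (nat_lit 38) (nat_lit 4) (nat_lit 39) (nat_lit 5) (nat_lit 39) (nat_lit 4) (nat_lit 489) (nat_lit 271) (nat_lit 260))))))) (XT.nd (nat_lit 52650) (nat_lit 0) (nat_lit 0) (XT.nd (nat_lit 52026) (nat_lit 0) (nat_lit 1368) (XT.nd (nat_lit 234) (nat_lit 456) (nat_lit 0) (XT.nd (nat_lit 78) (nat_lit 76) (nat_lit 0) (XT.lf (nat_lit 0) (nat_lit 1107823172) (nat_lit 152) (nat_lit 35839680826) (nat_lit 0) (nat_lit 532176000) (nat_lit 36) (nat_lit 5) (nat_lit 38) (nat_lit 4) (nat_lit 36) (nat_lit 4) (nat_lit 490) (nat_lit 271) (nat_lit 259)) (XT.nd (nat_lit 78) (nat_lit 76) (nat_lit 0) (XT.lf (nat_lit 0) (nat_lit 18945814948) (nat_lit 152) (nat_lit 791589945) (nat_lit 0) (nat_lit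 18330787872) (nat_lit 36) (nat_lit 5) (nat_lit 38) (nat_lit 4) (nat_lit 36) (nat_lit 4) (nat_lit 491) (nat_lit 271) (nat_lit 258)) (XT.lf (nat_lit 0) (nat_lit 35387997234) (nat_lit 76) (nat_lit 1969237511) (nat_lit 76) (nat_lit 1315977521) (nat_lit 35) (nat_lit 4) (nat_lit 36) (nat_lit 5) (nat_lit 36) (nat_lit 4) (nat_lit 492) (nat_lit 271) (nat_lit 257)))) (XT.nd (nat_lit 156) (nat_lit 228) (nat_lit 0) (XT.nd (nat_lit 78) (nat_lit 76) (nat_lit 0) (XT.lf (nat_lit 0) (nat_lit 16877102130) (nat_lit 152) (nat_lit 6201998785) (nat_lit 0) (nat_lit 16206830940) (nat_lit 33) (nat_lit 5) (nat_lit 35) (nat_lit 4) (nat_lit 33) (nat_lit 4) (nat_lit 493) (nat_lit 271) (nat_lit 256)) (XT.lf (nat_lit 0) (nat_lit 30650141901) (nat_lit 76) (nat_lit 4985192829) (nat_lit 76) (nat_lit 4279933104) (nat_lit 32) (nat_lit 4) (nat_lit 33) (nat_lit 5) (nat_lit 33) (nat_lit 4) (nat_lit 494) (nat_lit 271) (nat_lit 255))) (XT.nd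 (nat_lit 78) (nat_lit 76) (nat_lit 0) (XT.lf (nat_lit 0) (nat_lit 14275203181) (nat_lit 152) (nat_lit 12721728317) (nat_lit 0) (nat_lit 13557504953) (nat_lit 30) (nat_lit 5) (nat_lit 32) (nat_lit 4) (nat_lit 30) (nat_lit 4) (nat_lit 495) (nat_lit 271) (nat_lit 254)) (XT.lf (nat_lit 0) (nat_lit 24804169723) (nat_lit 76) (nat_lit 8577320626) (nat_lit 76) (nat_lit 7827602933) (nat_lit 29) (nat_lit 4) (nat_lit 30) (nat_lit 5) (nat_lit 30) (nat_lit 4) (nat_lit 496) (nat_lit 271) (nat_lit 253))))) (XT.nd (nat_lit 312) (nat_lit 456) (nat_lit 0) (XT.nd (nat_lit 156) (nat_lit 228) (nat_lit 0) (XT.nd (nat_lit 78) (nat_lit 76) (nat_lit 0) (XT.lf (nat_lit 0) (nat_lit 3198579648) (nat_lit 152) (nat_lit 8770717844) (nat_lit 0) (nat_lit 3198579648) (nat_lit 57) (nat_lit 5) (nat_lit 59) (nat_lit 4) (nat_lit 57) (nat_lit 4) (nat_lit 476) (nat_lit 272) (nat_lit 272)) (XT.lf (nat_lit 0) (nat_lit 12824408098) (nat_lit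 76) (nat_lit 9016396812) (nat_lit 76) (nat_lit 8945272327) (nat_lit 56) (nat_lit 4) (nat_lit 57) (nat_lit 5) (nat_lit 57) (nat_lit 4) (nat_lit 477) (nat_lit 272) (nat_lit 271))) (XT.nd (nat_lit 78) (nat_lit 76) (nat_lit 0) (XT.lf (nat_lit 0) (nat_lit 6432127012) (nat_lit 152) (nat_lit 18518044363) (nat_lit 0) (nat_lit 6296032465) (nat_lit 54) (nat_lit 5) (nat_lit 56) (nat_lit 4) (nat_lit 54) (nat_lit 4) (nat_lit 478) (nat_lit 272) (nat_lit 270)) (XT.lf (nat_lit 0) (nat_lit 12445454226) (nat_lit 76) (nat_lit 9735258433) (nat_lit 76) (nat_lit 9534074906) (nat_lit 53) (nat_lit 4) (nat_lit 54) (nat_lit 5) (nat_lit 54) (nat_lit 4) (nat_lit 479) (nat_lit 272) (nat_lit 269)))) (XT.nd (nat_lit 156) (nat_lit 228) (nat_lit 0) (XT.nd (nat_lit 78) (nat_lit 76) (nat_lit 0) (XT.lf (nat_lit 0) (nat_lit 6143653897) (nat_lit 152) (nat_lit 20163196367) (nat_lit 0) (nat_lit 5886977478) (nat_lit 51) (nat_lit 5) (nat_lit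 53) (nat_lit 4) (nat_lit 51) (nat_lit 4) (nat_lit 480) (nat_lit 272) (nat_lit 268)) (XT.lf (nat_lit 0) (nat_lit 11402931096) (nat_lit 76) (nat_lit 10797356118) (nat_lit 76) (nat_lit 10481114062) (nat_lit 50) (nat_lit 4) (nat_lit 51) (nat_lit 5) (nat_lit 51) (nat_lit 4) (nat_lit 481) (nat_lit 272) (nat_lit 267))) (XT.nd (nat_lit 78) (nat_lit 76) (nat_lit 0) (XT.lf (nat_lit 0) (nat_lit 5503166590) (nat_lit 152) (nat_lit 22537147912) (nat_lit 0) (nat_lit 5139989143) (nat_lit 48) (nat_lit 5) (nat_lit 50) (nat_lit 4) (nat_lit 48) (nat_lit 4) (nat_lit 482) (nat_lit 272) (nat_lit 266)) (XT.lf (nat_lit 0) (nat_lit 9635951463) (nat_lit 76) (nat_lit 12234683640) (nat_lit 76) (nat_lit 11816995196) (nat_lit 47) (nat_lit 4) (nat_lit 48) (nat_lit 5) (nat_lit 48) (nat_lit 4) (nat_lit 483) (nat_lit 272) (nat_lit 265)))))) (XT.nd (nat_lit 624) (nat_lit 532) (nat_lit 0) (XT.nd (nat_lit 312) (nat_lit 380) (nat_lit 0)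 (XT.nd (nat_lit 156) (nat_lit 228) (nat_lit 0) (XT.nd (nat_lit 78) (nat_lit 76) (nat_lit 0) (XT.lf (nat_lit 0) (nat_lit 4479995572) (nat_lit 152) (nat_lit 25704310274) (nat_lit 0) (nat_lit 4023090970) (nat_lit 45) (nat_lit 5) (nat_lit 47) (nat_lit 4) (nat_lit 45) (nat_lit 4) (nat_lit 484) (nat_lit 272) (nat_lit 264)) (XT.lf (nat_lit 0) (nat_lit 7079405688) (nat_lit 76) (nat_lit 14081330020) (nat_lit 76) (nat_lit 13574540135) (nat_lit 44) (nat_lit 4) (nat_lit 45) (nat_lit 5) (nat_lit 45) (nat_lit 4) (nat_lit 485) (nat_lit 272) (nat_lit 263))) (XT.nd (nat_lit 78) (nat_lit 76) (nat_lit 0) (XT.lf (nat_lit 0) (nat_lit 3041244849) (nat_lit 152) (nat_lit 29733525753) (nat_lit 0) (nat_lit 2502194171) (nat_lit 42) (nat_lit 5) (nat_lit 44) (nat_lit 4) (nat_lit 42) (nat_lit 4) (nat_lit 486) (nat_lit 272) (nat_lit 262)) (XT.lf (nat_lit 0) (nat_lit 3663680893) (nat_lit 76) (nat_lit 16373627511) (nat_lit 76) (nat_lit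 15788924731) (nat_lit 41) (nat_lit 4) (nat_lit 42) (nat_lit 5) (nat_lit 42) (nat_lit 4) (nat_lit 487) (nat_lit 272) (nat_lit 261)))) (XT.nd (nat_lit 156) (nat_lit 228) (nat_lit 0) (XT.nd (nat_lit 78) (nat_lit 0) (nat_lit 0) (XT.lf (nat_lit 0) (nat_lit 1151652944) (nat_lit 152) (nat_lit 34698360416) (nat_lit 0) (nat_lit 540948860) (nat_lit 39) (nat_lit 5) (nat_lit 41) (nat_lit 4) (nat_lit 39) (nat_lit 4) (nat_lit 488) (nat_lit 272) (nat_lit 260)) (XT.lf (nat_lit 0) (nat_lit 18471261602) (nat_lit 152) (nat_lit 672257757) (nat_lit 0) (nat_lit 17818779378) (nat_lit 39) (nat_lit 5) (nat_lit 41) (nat_lit 4) (nat_lit 39) (nat_lit 4) (nat_lit 489) (nat_lit 272) (nat_lit 259))) (XT.nd (nat_lit 78) (nat_lit 152) (nat_lit 0) (XT.lf (nat_lit 0) (nat_lit 34454312553) (nat_lit 76) (nat_lit 1894182610) (nat_lit 76) (nat_lit 1201139086) (nat_lit 38) (nat_lit 4) (nat_lit 39) (nat_lit 5) (nat_lit 39) (nat_lit 4) (nat_lit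 490) (nat_lit 272) (nat_lit 258)) (XT.lf (nat_lit 0) (nat_lit 16462725704) (nat_lit 152) (nat_lit 5930059662) (nat_lit 0) (nat_lit 15751634998) (nat_lit 36) (nat_lit 5) (nat_lit 38) (nat_lit 4) (nat_lit 36) (nat_lit 4) (nat_lit 491) (nat_lit 272) (nat_lit 257))))) (XT.nd (nat_lit 312) (nat_lit 76) (nat_lit 0) (XT.nd (nat_lit 156) (nat_lit 228) (nat_lit 0) (XT.nd (nat_lit 78) (nat_lit 152) (nat_lit 0) (XT.lf (nat_lit 0) (nat_lit 29849474465) (nat_lit 76) (nat_lit 4827052006) (nat_lit 76) (nat_lit 4078841965) (nat_lit 35) (nat_lit 4) (nat_lit 36) (nat_lit 5) (nat_lit 36) (nat_lit 4) (nat_lit 492) (nat_lit 272) (nat_lit 256)) (XT.lf (nat_lit 0) (nat_lit 13936351155) (nat_lit 152) (nat_lit 12264542514) (nat_lit 0) (nat_lit 13174945105) (nat_lit 33) (nat_lit 5) (nat_lit 35) (nat_lit 4) (nat_lit 33) (nat_lit 4) (nat_lit 493) (nat_lit 272) (nat_lit 255))) (XT.nd (nat_lit 78) (nat_lit 152) (nat_lit 0) (XT.lf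 (nat_lit 0) (nat_lit 24169122427) (nat_lit 76) (nat_lit 8318813629) (nat_lit 76) (nat_lit 7523438129) (nat_lit 32) (nat_lit 4) (nat_lit 33) (nat_lit 5) (nat_lit 33) (nat_lit 4) (nat_lit 494) (nat_lit 272) (nat_lit 254)) (XT.lf (nat_lit 0) (nat_lit 10849176539) (nat_lit 152) (nat_lit 19764728192) (nat_lit 0) (nat_lit 10044947850) (nat_lit 30) (nat_lit 5) (nat_lit 32) (nat_lit 4) (nat_lit 30) (nat_lit 4) (nat_lit 495) (nat_lit 272) (nat_lit 253)))) (XT.nd (nat_lit 51480) (nat_lit 0) (nat_lit 2128) (XT.nd (nat_lit 51402) (nat_lit 0) (nat_lit 2356) (XT.lf (nat_lit 0) (nat_lit 17323151995) (nat_lit 76) (nat_lit 12416079959) (nat_lit 76) (nat_lit 11580764411) (nat_lit 29) (nat_lit 4) (nat_lit 30) (nat_lit 5) (nat_lit 30) (nat_lit 4) (nat_lit 496) (nat_lit 272) (nat_lit 252)) (XT.lf (nat_lit 0) (nat_lit 3142782452) (nat_lit 152) (nat_lit 8442706026) (nat_lit 0) (nat_lit 3142782452) (nat_lit 60) (nat_lit 5)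 (nat_lit 62) (nat_lit 4) (nat_lit 60) (nat_lit 4) (nat_lit 474) (nat_lit 273) (nat_lit 273))) (XT.nd (nat_lit 78) (nat_lit 152) (nat_lit 0) (XT.lf (nat_lit 0) (nat_lit 12596722336) (nat_lit 76) (nat_lit 8686188397) (nat_lit 76) (nat_lit 8610732430) (nat_lit 59) (nat_lit 4) (nat_lit 60) (nat_lit 5) (nat_lit 60) (nat_lit 4) (nat_lit 475) (nat_lit 273) (nat_lit 272)) (XT.lf (nat_lit 0) (nat_lit 6321381114) (nat_lit 152) (nat_lit 17841845851) (nat_lit 0) (nat_lit 6176998408) (nat_lit 57) (nat_lit 5) (nat_lit 59) (nat_lit 4) (nat_lit 57) (nat_lit 4) (nat_lit 476) (nat_lit 273) (nat_lit 271))))))))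
noncomputable def xc2 : XT := (XT.nd (nat_lit 53508) (nat_lit 0) (nat_lit 76) (XT.nd (nat_lit 1170) (nat_lit 532) (nat_lit 0) (XT.nd (nat_lit 546) (nat_lit 836) (nat_lit 0) (XT.nd (nat_lit 234) (nat_lit 456) (nat_lit 0) (XT.nd (nat_lit 78) (nat_lit 228) (nat_lit 0) (XT.lf (nat_lit 0) (nat_lit 12220554222) (nat_lit 76) (nat_lit 9393972358) (nat_lit 76) (nat_lit 9180536754) (nat_lit 56) (nat_lit 4) (nat_lit 57) (nat_lit 5) (nat_lit 57) (nat_lit 4) (nat_lit 477) (nat_lit 273) (nat_lit 270)) (XT.nd (nat_lit 78) (nat_lit 76) (nat_lit 0) (XT.lf (nat_lit 0) (nat_lit 6042779587) (nat_lit 152) (nat_lit 19446766836) (nat_lit 0) (nat_lit 5770471574) (nat_lit 54) (nat_lit 5) (nat_lit 56) (nat_lit 4) (nat_lit 54) (nat_lit 4) (nat_lit 478) (nat_lit 273) (nat_lit 269)) (XT.lf (nat_lit 0) (nat_lit 11200724220) (nat_lit 76) (nat_lit 10434038389) (nat_lit 76) (nat_lit 10098537192) (nat_lit 53) (nat_lit 4) (nat_lit 54)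 (nat_lit 5) (nat_lit 54) (nat_lit 4) (nat_lit 479) (nat_lit 273) (nat_lit 268)))) (XT.nd (nat_lit 156) (nat_lit 228) (nat_lit 0) (XT.nd (nat_lit 78) (nat_lit 76) (nat_lit 0) (XT.lf (nat_lit 0) (nat_lit 5422059896) (nat_lit 152) (nat_lit 21758722311) (nat_lit 0) (nat_lit 5036764941) (nat_lit 51) (nat_lit 5) (nat_lit 53) (nat_lit 4) (nat_lit 51) (nat_lit 4) (nat_lit 480) (nat_lit 273) (nat_lit 267)) (XT.lf (nat_lit 0) (nat_lit 9478072771) (nat_lit 76) (nat_lit 11837533101) (nat_lit 76) (nat_lit 11394407431) (nat_lit 50) (nat_lit 4) (nat_lit 51) (nat_lit 5) (nat_lit 51) (nat_lit 4) (nat_lit 481) (nat_lit 273) (nat_lit 266))) (XT.nd (nat_lit 78) (nat_lit 76) (nat_lit 0) (XT.lf (nat_lit 0) (nat_lit 4429482844) (nat_lit 152) (nat_lit 24840289811) (nat_lit 0) (nat_lit 3944752752) (nat_lit 48) (nat_lit 5) (nat_lit 50) (nat_lit 4) (nat_lit 48) (nat_lit 4) (nat_lit 482) (nat_lit 273) (nat_lit 265)) (XT.lf (nat_lit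 0) (nat_lit 6989344683) (nat_lit 76) (nat_lit 13637630033) (nat_lit 76) (nat_lit 13099976644) (nat_lit 47) (nat_lit 4) (nat_lit 48) (nat_lit 5) (nat_lit 48) (nat_lit 4) (nat_lit 483) (nat_lit 273) (nat_lit 264))))) (XT.nd (nat_lit 312) (nat_lit 456) (nat_lit 0) (XT.nd (nat_lit 156) (nat_lit 152) (nat_lit 0) (XT.nd (nat_lit 78) (nat_lit 76) (nat_lit 0) (XT.lf (nat_lit 0) (nat_lit 3033144277) (nat_lit 152) (nat_lit 28758345336) (nat_lit 0) (nat_lit 2461265412) (nat_lit 45) (nat_lit 5) (nat_lit 47) (nat_lit 4) (nat_lit 45) (nat_lit 4) (nat_lit 484) (nat_lit 273) (nat_lit 263)) (XT.lf (nat_lit 0) (nat_lit 3666916149) (nat_lit 76) (nat_lit 15869673955) (nat_lit 76) (nat_lit 15249362776) (nat_lit 44) (nat_lit 4) (nat_lit 45) (nat_lit 5) (nat_lit 45) (nat_lit 4) (nat_lit 485) (nat_lit 273) (nat_lit 262))) (XT.nd (nat_lit 78) (nat_lit 0) (nat_lit 0) (XT.lf (nat_lit 0) (nat_lit 1198840396) (nat_lit 152) (nat_lit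 33584347874) (nat_lit 0) (nat_lit 550944433) (nat_lit 42) (nat_lit 5) (nat_lit 44) (nat_lit 4) (nat_lit 42) (nat_lit 4) (nat_lit 486) (nat_lit 273) (nat_lit 261)) (XT.lf (nat_lit 0) (nat_lit 18015235729) (nat_lit 152) (nat_lit 550538044) (nat_lit 0) (nat_lit 17323017337) (nat_lit 42) (nat_lit 5) (nat_lit 44) (nat_lit 4) (nat_lit 42) (nat_lit 4) (nat_lit 487) (nat_lit 273) (nat_lit 260)))) (XT.nd (nat_lit 156) (nat_lit 228) (nat_lit 0) (XT.nd (nat_lit 78) (nat_lit 152) (nat_lit 0) (XT.lf (nat_lit 0) (nat_lit 33553731924) (nat_lit 76) (nat_lit 1820235937) (nat_lit 76) (nat_lit 1084986062) (nat_lit 41) (nat_lit 4) (nat_lit 42) (nat_lit 5) (nat_lit 42) (nat_lit 4) (nat_lit 488) (nat_lit 273) (nat_lit 259)) (XT.lf (nat_lit 0) (nat_lit 16065119344) (nat_lit 152) (nat_lit 5660481024) (nat_lit 0) (nat_lit 15310723214) (nat_lit 39) (nat_lit 5) (nat_lit 41) (nat_lit 4) (nat_lit 39) (nat_lit 4) (nat_lit 489) (nat_lit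 273) (nat_lit 258))) (XT.nd (nat_lit 78) (nat_lit 152) (nat_lit 0) (XT.lf (nat_lit 0) (nat_lit 29077733597) (nat_lit 76) (nat_lit 4672729119) (nat_lit 76) (nat_lit 3878953085) (nat_lit 38) (nat_lit 4) (nat_lit 39) (nat_lit 5) (nat_lit 39) (nat_lit 4) (nat_lit 490) (nat_lit 273) (nat_lit 257)) (XT.lf (nat_lit 0) (nat_lit 13612053679) (nat_lit 152) (nat_lit 11815395815) (nat_lit 0) (nat_lit 12804278000) (nat_lit 36) (nat_lit 5) (nat_lit 38) (nat_lit 4) (nat_lit 36) (nat_lit 4) (nat_lit 491) (nat_lit 273) (nat_lit 256)))))) (XT.nd (nat_lit 51714) (nat_lit 0) (nat_lit 1596) (XT.nd (nat_lit 234) (nat_lit 228) (nat_lit 0) (XT.nd (nat_lit 78) (nat_lit 228) (nat_lit 0) (XT.lf (nat_lit 0) (nat_lit 23557894572) (nat_lit 76) (nat_lit 8067307221) (nat_lit 76) (nat_lit 7223493352) (nat_lit 35) (nat_lit 4) (nat_lit 36) (nat_lit 5) (nat_lit 36) (nat_lit 4) (nat_lit 492) (nat_lit 273) (nat_lit 255)) (XT.nd (nat_lit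 78) (nat_lit 76) (nat_lit 0) (XT.lf (nat_lit 0) (nat_lit 10614350855) (nat_lit 152) (nat_lit 19101738210) (nat_lit 0) (nat_lit 9761144639) (nat_lit 33) (nat_lit 5) (nat_lit 35) (nat_lit 4) (nat_lit 33) (nat_lit 4) (nat_lit 493) (nat_lit 273) (nat_lit 254)) (XT.lf (nat_lit 0) (nat_lit 16906708239) (nat_lit 76) (nat_lit 12049272890) (nat_lit 76) (nat_lit 11163086625) (nat_lit 32) (nat_lit 4) (nat_lit 33) (nat_lit 5) (nat_lit 33) (nat_lit 4) (nat_lit 494) (nat_lit 273) (nat_lit 253)))) (XT.nd (nat_lit 51324) (nat_lit 0) (nat_lit 2508) (XT.nd (nat_lit 78) (nat_lit 76) (nat_lit 0) (XT.lf (nat_lit 0) (nat_lit 7027400239) (nat_lit 152) (nat_lit 27611851655) (nat_lit 0) (nat_lit 6135938365) (nat_lit 30) (nat_lit 5) (nat_lit 32) (nat_lit 4) (nat_lit 30) (nat_lit 4) (nat_lit 495) (nat_lit 273) (nat_lit 252)) (XT.lf (nat_lit 0) (nat_lit 9030682237) (nat_lit 76) (nat_lit 16666944975) (nat_lit 76) (nat_lit 15745301685)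 (nat_lit 29) (nat_lit 4) (nat_lit 30) (nat_lit 5) (nat_lit 30) (nat_lit 4) (nat_lit 496) (nat_lit 273) (nat_lit 251))) (XT.nd (nat_lit 78) (nat_lit 76) (nat_lit 0) (XT.lf (nat_lit 0) (nat_lit 3090885966) (nat_lit 152) (nat_lit 8119829410) (nat_lit 0) (nat_lit 3090885966) (nat_lit 63) (nat_lit 5) (nat_lit 65) (nat_lit 4) (nat_lit 63) (nat_lit 4) (nat_lit 472) (nat_lit 274) (nat_lit 274)) (XT.lf (nat_lit 0) (nat_lit 12384549897) (nat_lit 76) (nat_lit 8361481171) (nat_lit 76) (nat_lit 8281429936) (nat_lit 62) (nat_lit 4) (nat_lit 63) (nat_lit 5) (nat_lit 63) (nat_lit 4) (nat_lit 473) (nat_lit 274) (nat_lit 273))))) (XT.nd (nat_lit 312) (nat_lit 456) (nat_lit 0) (XT.nd (nat_lit 156) (nat_lit 228) (nat_lit 0) (XT.nd (nat_lit 78) (nat_lit 76) (nat_lit 0) (XT.lf (nat_lit 0) (nat_lit 6218525618) (nat_lit 152) (nat_lit 17177009006) (nat_lit 0) (nat_lit 6065350006) (nat_lit 60) (nat_lit 5) (nat_lit 62) (nat_lit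 4) (nat_lit 60) (nat_lit 4) (nat_lit 474) (nat_lit 274) (nat_lit 272)) (XT.lf (nat_lit 0) (nat_lit 12010583870) (nat_lit 76) (nat_lit 9059110601) (nat_lit 76) (nat_lit 8832676769) (nat_lit 59) (nat_lit 4) (nat_lit 60) (nat_lit 5) (nat_lit 60) (nat_lit 4) (nat_lit 475) (nat_lit 274) (nat_lit 271))) (XT.nd (nat_lit 78) (nat_lit 76) (nat_lit 0) (XT.lf (nat_lit 0) (nat_lit 5949597649) (nat_lit 152) (nat_lit 18743338829) (nat_lit 0) (nat_lit 5660706078) (nat_lit 57) (nat_lit 5) (nat_lit 59) (nat_lit 4) (nat_lit 57) (nat_lit 4) (nat_lit 476) (nat_lit 274) (nat_lit 270)) (XT.lf (nat_lit 0) (nat_lit 11012318829) (nat_lit 76) (nat_lit 10078328885) (nat_lit 76) (nat_lit 9722395665) (nat_lit 56) (nat_lit 4) (nat_lit 57) (nat_lit 5) (nat_lit 57) (nat_lit 4) (nat_lit 477) (nat_lit 274) (nat_lit 269)))) (XT.nd (nat_lit 156) (nat_lit 228) (nat_lit 0) (XT.nd (nat_lit 78) (nat_lit 76) (nat_lit 0) (XT.lf (nat_lit 0)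 (nat_lit 5348137576) (nat_lit 152) (nat_lit 20995539269) (nat_lit 0) (nat_lit 4939378159) (nat_lit 54) (nat_lit 5) (nat_lit 56) (nat_lit 4) (nat_lit 54) (nat_lit 4) (nat_lit 478) (nat_lit 274) (nat_lit 268)) (XT.lf (nat_lit 0) (nat_lit 9332269794) (nat_lit 76) (nat_lit 11449465301) (nat_lit 76) (nat_lit 10979353278) (nat_lit 53) (nat_lit 4) (nat_lit 54) (nat_lit 5) (nat_lit 54) (nat_lit 4) (nat_lit 479) (nat_lit 274) (nat_lit 267))) (XT.nd (nat_lit 78) (nat_lit 76) (nat_lit 0) (XT.lf (nat_lit 0) (nat_lit 4385311691) (nat_lit 152) (nat_lit 23994410101) (nat_lit 0) (nat_lit 3871061536) (nat_lit 51) (nat_lit 5) (nat_lit 53) (nat_lit 4) (nat_lit 51) (nat_lit 4) (nat_lit 480) (nat_lit 274) (nat_lit 266)) (XT.lf (nat_lit 0) (nat_lit 6908979453) (nat_lit 76) (nat_lit 13204809290) (nat_lit 76) (nat_lit 12634412809) (nat_lit 50) (nat_lit 4) (nat_lit 51) (nat_lit 5) (nat_lit 51) (nat_lit 4) (nat_lit 481) (nat_lit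 274) (nat_lit 265))))))) (XT.nd (nat_lit 52182) (nat_lit 0) (nat_lit 1140) (XT.nd (nat_lit 546) (nat_lit 836) (nat_lit 0) (XT.nd (nat_lit 234) (nat_lit 304) (nat_lit 0) (XT.nd (nat_lit 78) (nat_lit 228) (nat_lit 0) (XT.lf (nat_lit 0) (nat_lit 3030180837) (nat_lit 152) (nat_lit 27804920668) (nat_lit 0) (nat_lit 2423474549) (nat_lit 48) (nat_lit 5) (nat_lit 50) (nat_lit 4) (nat_lit 48) (nat_lit 4) (nat_lit 482) (nat_lit 274) (nat_lit 264)) (XT.nd (nat_lit 78) (nat_lit 152) (nat_lit 0) (XT.lf (nat_lit 0) (nat_lit 3676752790) (nat_lit 76) (nat_lit 15378751204) (nat_lit 76) (nat_lit 14720663075) (nat_lit 47) (nat_lit 4) (nat_lit 48) (nat_lit 5) (nat_lit 48) (nat_lit 4) (nat_lit 483) (nat_lit 274) (nat_lit 263)) (XT.lf (nat_lit 0) (nat_lit 1249569958) (nat_lit 152) (nat_lit 32496486415) (nat_lit 0) (nat_lit 562217130) (nat_lit 45) (nat_lit 5) (nat_lit 47) (nat_lit 4) (nat_lit 45) (nat_lit 4) (nat_lit 484)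 (nat_lit 274) (nat_lit 262)))) (XT.nd (nat_lit 156) (nat_lit 228) (nat_lit 0) (XT.nd (nat_lit 78) (nat_lit 76) (nat_lit 0) (XT.lf (nat_lit 0) (nat_lit 17577484260) (nat_lit 152) (nat_lit 426143277) (nat_lit 0) (nat_lit 16843109768) (nat_lit 45) (nat_lit 5) (nat_lit 47) (nat_lit 4) (nat_lit 45) (nat_lit 4) (nat_lit 485) (nat_lit 274) (nat_lit 261)) (XT.lf (nat_lit 0) (nat_lit 32685651029) (nat_lit 76) (nat_lit 1747299573) (nat_lit 76) (nat_lit 967272981) (nat_lit 44) (nat_lit 4) (nat_lit 45) (nat_lit 5) (nat_lit 45) (nat_lit 4) (nat_lit 486) (nat_lit 274) (nat_lit 260))) (XT.nd (nat_lit 78) (nat_lit 76) (nat_lit 0) (XT.lf (nat_lit 0) (nat_lit 15684080884) (nat_lit 152) (nat_lit 5392855512) (nat_lit 0) (nat_lit 14883742029) (nat_lit 42) (nat_lit 5) (nat_lit 44) (nat_lit 4) (nat_lit 42) (nat_lit 4) (nat_lit 487) (nat_lit 274) (nat_lit 259)) (XT.lf (nat_lit 0) (nat_lit 28334418192) (nat_lit 76) (nat_lit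 4522064967) (nat_lit 76) (nat_lit 3679947974) (nat_lit 41) (nat_lit 4) (nat_lit 42) (nat_lit 5) (nat_lit 42) (nat_lit 4) (nat_lit 488) (nat_lit 274) (nat_lit 258))))) (XT.nd (nat_lit 312) (nat_lit 380) (nat_lit 0) (XT.nd (nat_lit 156) (nat_lit 228) (nat_lit 0) (XT.nd (nat_lit 78) (nat_lit 76) (nat_lit 0) (XT.lf (nat_lit 0) (nat_lit 13302172154) (nat_lit 152) (nat_lit 11373732704) (nat_lit 0) (nat_lit 12445202936) (nat_lit 39) (nat_lit 5) (nat_lit 41) (nat_lit 4) (nat_lit 39) (nat_lit 4) (nat_lit 489) (nat_lit 274) (nat_lit 257)) (XT.lf (nat_lit 0) (nat_lit 22970116555) (nat_lit 76) (nat_lit 7822565300) (nat_lit 76) (nat_lit 6927363167) (nat_lit 38) (nat_lit 4) (nat_lit 39) (nat_lit 5) (nat_lit 39) (nat_lit 4) (nat_lit 490) (nat_lit 274) (nat_lit 256))) (XT.nd (nat_lit 78) (nat_lit 76) (nat_lit 0) (XT.lf (nat_lit 0) (nat_lit 10391307992) (nat_lit 152) (nat_lit 18452740932) (nat_lit 0) (nat_lit 9486141518)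 (nat_lit 36) (nat_lit 5) (nat_lit 38) (nat_lit 4) (nat_lit 36) (nat_lit 4) (nat_lit 491) (nat_lit 274) (nat_lit 255)) (XT.lf (nat_lit 0) (nat_lit 16507760059) (nat_lit 76) (nat_lit 11692834446) (nat_lit 76) (nat_lit 10752679437) (nat_lit 35) (nat_lit 4) (nat_lit 36) (nat_lit 5) (nat_lit 36) (nat_lit 4) (nat_lit 492) (nat_lit 274) (nat_lit 254)))) (XT.nd (nat_lit 156) (nat_lit 152) (nat_lit 0) (XT.nd (nat_lit 78) (nat_lit 76) (nat_lit 0) (XT.lf (nat_lit 0) (nat_lit 6908198512) (nat_lit 152) (nat_lit 26719560122) (nat_lit 0) (nat_lit 5962446610) (nat_lit 33) (nat_lit 5) (nat_lit 35) (nat_lit 4) (nat_lit 33) (nat_lit 4) (nat_lit 493) (nat_lit 274) (nat_lit 253)) (XT.lf (nat_lit 0) (nat_lit 8856553539) (nat_lit 76) (nat_lit 16179830236) (nat_lit 76) (nat_lit 15202058869) (nat_lit 32) (nat_lit 4) (nat_lit 33) (nat_lit 5) (nat_lit 33) (nat_lit 4) (nat_lit 494) (nat_lit 274) (nat_lit 252))) (XT.nd (nat_lit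 78) (nat_lit 0) (nat_lit 0) (XT.lf (nat_lit 0) (nat_lit 2806534866) (nat_lit 152) (nat_lit 36269955416) (nat_lit 0) (nat_lit 1827060860) (nat_lit 30) (nat_lit 5) (nat_lit 32) (nat_lit 4) (nat_lit 30) (nat_lit 4) (nat_lit 495) (nat_lit 274) (nat_lit 251)) (XT.lf (nat_lit 0) (nat_lit 21253918300) (nat_lit 152) (nat_lit 78914838) (nat_lit 0) (nat_lit 20245141948) (nat_lit 30) (nat_lit 5) (nat_lit 32) (nat_lit 4) (nat_lit 30) (nat_lit 4) (nat_lit 496) (nat_lit 274) (nat_lit 250)))))) (XT.nd (nat_lit 624) (nat_lit 836) (nat_lit 0) (XT.nd (nat_lit 312) (nat_lit 456) (nat_lit 0) (XT.nd (nat_lit 156) (nat_lit 228) (nat_lit 0) (XT.nd (nat_lit 78) (nat_lit 76) (nat_lit 0) (XT.lf (nat_lit 0) (nat_lit 3042915157) (nat_lit 152) (nat_lit 7801669339) (nat_lit 0) (nat_lit 3042915157) (nat_lit 66) (nat_lit 5) (nat_lit 68) (nat_lit 4) (nat_lit 66) (nat_lit 4) (nat_lit 470) (nat_lit 275) (nat_lit 275)) (XT.lf (nat_lit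 0) (nat_lit 12187979830) (nat_lit 76) (nat_lit 8041864211) (nat_lit 76) (nat_lit 7956937856) (nat_lit 65) (nat_lit 4) (nat_lit 66) (nat_lit 5) (nat_lit 66) (nat_lit 4) (nat_lit 471) (nat_lit 275) (nat_lit 274))) (XT.nd (nat_lit 78) (nat_lit 76) (nat_lit 0) (XT.lf (nat_lit 0) (nat_lit 6123614794) (nat_lit 152) (nat_lit 16522695402) (nat_lit 0) (nat_lit 5961110787) (nat_lit 63) (nat_lit 5) (nat_lit 65) (nat_lit 4) (nat_lit 63) (nat_lit 4) (nat_lit 472) (nat_lit 275) (nat_lit 273)) (XT.lf (nat_lit 0) (nat_lit 11815618619) (nat_lit 76) (nat_lit 8730271919) (nat_lit 76) (nat_lit 8490048266) (nat_lit 62) (nat_lit 4) (nat_lit 63) (nat_lit 5) (nat_lit 63) (nat_lit 4) (nat_lit 473) (nat_lit 275) (nat_lit 272)))) (XT.nd (nat_lit 156) (nat_lit 228) (nat_lit 0) (XT.nd (nat_lit 78) (nat_lit 76) (nat_lit 0) (XT.lf (nat_lit 0) (nat_lit 5864173567) (nat_lit 152) (nat_lit 18052054662) (nat_lit 0) (nat_lit 5557688500)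 (nat_lit 60) (nat_lit 5) (nat_lit 62) (nat_lit 4) (nat_lit 60) (nat_lit 4) (nat_lit 474) (nat_lit 275) (nat_lit 271)) (XT.lf (nat_lit 0) (nat_lit 10837794779) (nat_lit 76) (nat_lit 9729824898) (nat_lit 76) (nat_lit 9352215345) (nat_lit 59) (nat_lit 4) (nat_lit 60) (nat_lit 5) (nat_lit 60) (nat_lit 4) (nat_lit 475) (nat_lit 275) (nat_lit 270))) (XT.nd (nat_lit 78) (nat_lit 76) (nat_lit 0) (XT.lf (nat_lit 0) (nat_lit 5281484041) (nat_lit 152) (nat_lit 20246702337) (nat_lit 0) (nat_lit 4847831175) (nat_lit 57) (nat_lit 5) (nat_lit 59) (nat_lit 4) (nat_lit 57) (nat_lit 4) (nat_lit 476) (nat_lit 275) (nat_lit 269)) (XT.lf (nat_lit 0) (nat_lit 9198646182) (nat_lit 76) (nat_lit 11070064373) (nat_lit 76) (nat_lit 10571322528) (nat_lit 56) (nat_lit 4) (nat_lit 57) (nat_lit 5) (nat_lit 57) (nat_lit 4) (nat_lit 477) (nat_lit 275) (nat_lit 268))))) (XT.nd (nat_lit 312) (nat_lit 380) (nat_lit 0) (XT.nd (nat_lit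 156) (nat_lit 228) (nat_lit 0) (XT.nd (nat_lit 78) (nat_lit 76) (nat_lit 0) (XT.lf (nat_lit 0) (nat_lit 4347594010) (nat_lit 152) (nat_lit 23165714959) (nat_lit 0) (nat_lit 3802026021) (nat_lit 54) (nat_lit 5) (nat_lit 56) (nat_lit 4) (nat_lit 54) (nat_lit 4) (nat_lit 478) (nat_lit 275) (nat_lit 267)) (XT.lf (nat_lit 0) (nat_lit 6838458319) (nat_lit 76) (nat_lit 12782426435) (nat_lit 76) (nat_lit 12177292809) (nat_lit 53) (nat_lit 4) (nat_lit 54) (nat_lit 5) (nat_lit 54) (nat_lit 4) (nat_lit 479) (nat_lit 275) (nat_lit 266))) (XT.nd (nat_lit 78) (nat_lit 76) (nat_lit 0) (XT.lf (nat_lit 0) (nat_lit 3032503387) (nat_lit 152) (nat_lit 26872213251) (nat_lit 0) (nat_lit 2388848687) (nat_lit 51) (nat_lit 5) (nat_lit 53) (nat_lit 4) (nat_lit 51) (nat_lit 4) (nat_lit 480) (nat_lit 275) (nat_lit 265)) (XT.lf (nat_lit 0) (nat_lit 3693406303) (nat_lit 76) (nat_lit 14900379391) (nat_lit 76) (nat_lit 14202213695)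 (nat_lit 50) (nat_lit 4) (nat_lit 51) (nat_lit 5) (nat_lit 51) (nat_lit 4) (nat_lit 481) (nat_lit 275) (nat_lit 264)))) (XT.nd (nat_lit 156) (nat_lit 228) (nat_lit 0) (XT.nd (nat_lit 78) (nat_lit 0) (nat_lit 0) (XT.lf (nat_lit 0) (nat_lit 1304037877) (nat_lit 152) (nat_lit 31433630938) (nat_lit 0) (nat_lit 574825262) (nat_lit 48) (nat_lit 5) (nat_lit 50) (nat_lit 4) (nat_lit 48) (nat_lit 4) (nat_lit 482) (nat_lit 275) (nat_lit 263)) (XT.lf (nat_lit 0) (nat_lit 17157778949) (nat_lit 152) (nat_lit 298772555) (nat_lit 0) (nat_lit 16378681051) (nat_lit 48) (nat_lit 5) (nat_lit 50) (nat_lit 4) (nat_lit 48) (nat_lit 4) (nat_lit 483) (nat_lit 275) (nat_lit 262))) (XT.nd (nat_lit 78) (nat_lit 152) (nat_lit 0) (XT.lf (nat_lit 0) (nat_lit 31849505070) (nat_lit 76) (nat_lit 1675274455) (nat_lit 76) (nat_lit 847744243) (nat_lit 47) (nat_lit 4) (nat_lit 48) (nat_lit 5) (nat_lit 48) (nat_lit 4) (nat_lit 484) (nat_lit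 275) (nat_lit 261)) (XT.lf (nat_lit 0) (nat_lit 15319431479) (nat_lit 152) (nat_lit 5126767008) (nat_lit 0) (nat_lit 14470351988) (nat_lit 45) (nat_lit 5) (nat_lit 47) (nat_lit 4) (nat_lit 45) (nat_lit 4) (nat_lit 485) (nat_lit 275) (nat_lit 260))))))))
noncomputable def xc3 : XT := (XT.nd (nat_lit 53196) (nat_lit 0) (nat_lit 0) (XT.nd (nat_lit 52026) (nat_lit 0) (nat_lit 1064) (XT.nd (nat_lit 546) (nat_lit 380) (nat_lit 0) (XT.nd (nat_lit 234) (nat_lit 456) (nat_lit 0) (XT.nd (nat_lit 78) (nat_lit 228) (nat_lit 0) (XT.lf (nat_lit 0) (nat_lit 27619062530) (nat_lit 76) (nat_lit 4374902069) (nat_lit 76) (nat_lit 3481500151) (nat_lit 44) (nat_lit 4) (nat_lit 45) (nat_lit 5) (nat_lit 45) (nat_lit 4) (nat_lit 486) (nat_lit 275) (nat_lit 259)) (XT.nd (nat_lit 78) (nat_lit 76) (nat_lit 0) (XT.lf (nat_lit 0) (nat_lit 13006589395) (nat_lit 152) (nat_lit 10938994272) (nat_lit 0) (nat_lit 12097430752) (nat_lit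 42) (nat_lit 5) (nat_lit 44) (nat_lit 4) (nat_lit 42) (nat_lit 4) (nat_lit 487) (nat_lit 275) (nat_lit 258)) (XT.lf (nat_lit 0) (nat_lit 22405449278) (nat_lit 76) (nat_lit 7584356682) (nat_lit 76) (nat_lit 6634636739) (nat_lit 41) (nat_lit 4) (nat_lit 42) (nat_lit 5) (nat_lit 42) (nat_lit 4) (nat_lit 488) (nat_lit 275) (nat_lit 257)))) (XT.nd (nat_lit 156) (nat_lit 228) (nat_lit 0) (XT.nd (nat_lit 78) (nat_lit 76) (nat_lit 0) (XT.lf (nat_lit 0) (nat_lit 10180005805) (nat_lit 152) (nat_lit 17817004957) (nat_lit 0) (nat_lit 9219714692) (nat_lit 39) (nat_lit 5) (nat_lit 41) (nat_lit 4) (nat_lit 39) (nat_lit 4) (nat_lit 489) (nat_lit 275) (nat_lit 256)) (XT.lf (nat_lit 0) (nat_lit 16126124675) (nat_lit 76) (nat_lit 11346443439) (nat_lit 76) (nat_lit 10349032990) (nat_lit 38) (nat_lit 4) (nat_lit 39) (nat_lit 5) (nat_lit 39) (nat_lit 4) (nat_lit 490) (nat_lit 275) (nat_lit 255))) (XT.nd (nat_lit 78) (nat_lit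 76) (nat_lit 0) (XT.lf (nat_lit 0) (nat_lit 6797674402) (nat_lit 152) (nat_lit 25847894635) (nat_lit 0) (nat_lit 5794326209) (nat_lit 36) (nat_lit 5) (nat_lit 38) (nat_lit 4) (nat_lit 36) (nat_lit 4) (nat_lit 491) (nat_lit 275) (nat_lit 254)) (XT.lf (nat_lit 0) (nat_lit 8692910615) (nat_lit 76) (nat_lit 15706801617) (nat_lit 76) (nat_lit 14669483974) (nat_lit 35) (nat_lit 4) (nat_lit 36) (nat_lit 5) (nat_lit 36) (nat_lit 4) (nat_lit 492) (nat_lit 275) (nat_lit 253))))) (XT.nd (nat_lit 51168) (nat_lit 0) (nat_lit 2660) (XT.nd (nat_lit 156) (nat_lit 152) (nat_lit 0) (XT.nd (nat_lit 78) (nat_lit 76) (nat_lit 0) (XT.lf (nat_lit 0) (nat_lit 2814655740) (nat_lit 152) (nat_lit 35124664598) (nat_lit 0) (nat_lit 1775531767) (nat_lit 33) (nat_lit 5) (nat_lit 35) (nat_lit 4) (nat_lit 33) (nat_lit 4) (nat_lit 493) (nat_lit 275) (nat_lit 252)) (XT.lf (nat_lit 0) (nat_lit 11624212) (nat_lit 76) (nat_lit 20714094891)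 (nat_lit 76) (nat_lit 19643884059) (nat_lit 32) (nat_lit 4) (nat_lit 33) (nat_lit 5) (nat_lit 33) (nat_lit 4) (nat_lit 494) (nat_lit 275) (nat_lit 251))) (XT.nd (nat_lit 78) (nat_lit 152) (nat_lit 0) (XT.lf (nat_lit 0) (nat_lit 36384867548) (nat_lit 76) (nat_lit 2878423082) (nat_lit 76) (nat_lit 1778030833) (nat_lit 32) (nat_lit 4) (nat_lit 33) (nat_lit 5) (nat_lit 33) (nat_lit 4) (nat_lit 495) (nat_lit 275) (nat_lit 250)) (XT.lf (nat_lit 0) (nat_lit 16498202808) (nat_lit 152) (nat_lit 9822818771) (nat_lit 0) (nat_lit 15401411940) (nat_lit 30) (nat_lit 5) (nat_lit 32) (nat_lit 4) (nat_lit 30) (nat_lit 4) (nat_lit 496) (nat_lit 275) (nat_lit 249)))) (XT.nd (nat_lit 156) (nat_lit 228) (nat_lit 0) (XT.nd (nat_lit 78) (nat_lit 76) (nat_lit 0) (XT.lf (nat_lit 0) (nat_lit 2998902705) (nat_lit 152) (nat_lit 7487802960) (nat_lit 0) (nat_lit 2998902705) (nat_lit 69) (nat_lit 5) (nat_lit 71) (nat_lit 4) (nat_lit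 69) (nat_lit 4) (nat_lit 468) (nat_lit 276) (nat_lit 276)) (XT.lf (nat_lit 0) (nat_lit 12007131534) (nat_lit 76) (nat_lit 7726923291) (nat_lit 76) (nat_lit 7636824921) (nat_lit 68) (nat_lit 4) (nat_lit 69) (nat_lit 5) (nat_lit 69) (nat_lit 4) (nat_lit 469) (nat_lit 276) (nat_lit 275))) (XT.nd (nat_lit 78) (nat_lit 76) (nat_lit 0) (XT.lf (nat_lit 0) (nat_lit 6036718630) (nat_lit 152) (nat_lit 15878060122) (nat_lit 0) (nat_lit 5864318129) (nat_lit 66) (nat_lit 5) (nat_lit 68) (nat_lit 4) (nat_lit 66) (nat_lit 4) (nat_lit 470) (nat_lit 276) (nat_lit 274)) (XT.lf (nat_lit 0) (nat_lit 11635762794) (nat_lit 76) (nat_lit 8407053713) (nat_lit 76) (nat_lit 8152200440) (nat_lit 65) (nat_lit 4) (nat_lit 66) (nat_lit 5) (nat_lit 66) (nat_lit 4) (nat_lit 471) (nat_lit 276) (nat_lit 273)))))) (XT.nd (nat_lit 546) (nat_lit 760) (nat_lit 0) (XT.nd (nat_lit 234) (nat_lit 456) (nat_lit 0) (XT.nd (nat_lit 78) (nat_lit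 228) (nat_lit 0) (XT.lf (nat_lit 0) (nat_lit 5786588555) (nat_lit 152) (nat_lit 17372052460) (nat_lit 0) (nat_lit 5461438547) (nat_lit 63) (nat_lit 5) (nat_lit 65) (nat_lit 4) (nat_lit 63) (nat_lit 4) (nat_lit 472) (nat_lit 276) (nat_lit 272)) (XT.nd (nat_lit 78) (nat_lit 152) (nat_lit 0) (XT.lf (nat_lit 0) (nat_lit 10677258940) (nat_lit 76) (nat_lit 9388124422) (nat_lit 76) (nat_lit 8987518447) (nat_lit 62) (nat_lit 4) (nat_lit 63) (nat_lit 5) (nat_lit 63) (nat_lit 4) (nat_lit 473) (nat_lit 276) (nat_lit 271)) (XT.lf (nat_lit 0) (nat_lit 5222199124) (nat_lit 152) (nat_lit 19511313623) (nat_lit 0) (nat_lit 4762136799) (nat_lit 60) (nat_lit 5) (nat_lit 62) (nat_lit 4) (nat_lit 60) (nat_lit 4) (nat_lit 474) (nat_lit 276) (nat_lit 270)))) (XT.nd (nat_lit 156) (nat_lit 228) (nat_lit 0) (XT.nd (nat_lit 78) (nat_lit 152) (nat_lit 0) (XT.lf (nat_lit 0) (nat_lit 9077330295) (nat_lit 76) (nat_lit 10698917347)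 (nat_lit 76) (nat_lit 10169802124) (nat_lit 59) (nat_lit 4) (nat_lit 60) (nat_lit 5) (nat_lit 60) (nat_lit 4) (nat_lit 475) (nat_lit 276) (nat_lit 269)) (XT.lf (nat_lit 0) (nat_lit 4316456502) (nat_lit 152) (nat_lit 22353249993) (nat_lit 0) (nat_lit 3737663421) (nat_lit 57) (nat_lit 5) (nat_lit 59) (nat_lit 4) (nat_lit 57) (nat_lit 4) (nat_lit 476) (nat_lit 276) (nat_lit 268))) (XT.nd (nat_lit 78) (nat_lit 152) (nat_lit 0) (XT.lf (nat_lit 0) (nat_lit 6777951516) (nat_lit 76) (nat_lit 12370045389) (nat_lit 76) (nat_lit 11728059125) (nat_lit 56) (nat_lit 4) (nat_lit 57) (nat_lit 5) (nat_lit 57) (nat_lit 4) (nat_lit 477) (nat_lit 276) (nat_lit 267)) (XT.lf (nat_lit 0) (nat_lit 3040274628) (nat_lit 152) (nat_lit 25959190177) (nat_lit 0) (nat_lit 2357421356) (nat_lit 54) (nat_lit 5) (nat_lit 56) (nat_lit 4) (nat_lit 54) (nat_lit 4) (nat_lit 478) (nat_lit 276) (nat_lit 266))))) (XT.nd (nat_lit 312) (nat_lit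 456) (nat_lit 0) (XT.nd (nat_lit 156) (nat_lit 76) (nat_lit 0) (XT.nd (nat_lit 78) (nat_lit 152) (nat_lit 0) (XT.lf (nat_lit 0) (nat_lit 3717110736) (nat_lit 76) (nat_lit 14434086514) (nat_lit 76) (nat_lit 13693402527) (nat_lit 53) (nat_lit 4) (nat_lit 54) (nat_lit 5) (nat_lit 54) (nat_lit 4) (nat_lit 479) (nat_lit 276) (nat_lit 265)) (XT.lf (nat_lit 0) (nat_lit 1362452918) (nat_lit 152) (nat_lit 30394646344) (nat_lit 0) (nat_lit 588831255) (nat_lit 51) (nat_lit 5) (nat_lit 53) (nat_lit 4) (nat_lit 51) (nat_lit 4) (nat_lit 480) (nat_lit 276) (nat_lit 264))) (XT.nd (nat_lit 78) (nat_lit 76) (nat_lit 0) (XT.lf (nat_lit 0) (nat_lit 16755916714) (nat_lit 152) (nat_lit 168110669) (nat_lit 0) (nat_lit 15929371754) (nat_lit 51) (nat_lit 5) (nat_lit 53) (nat_lit 4) (nat_lit 51) (nat_lit 4) (nat_lit 481) (nat_lit 276) (nat_lit 263)) (XT.lf (nat_lit 0) (nat_lit 31044768952) (nat_lit 76) (nat_lit 1604060162) (nat_lit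 76) (nat_lit 726133361) (nat_lit 50) (nat_lit 4) (nat_lit 51) (nat_lit 5) (nat_lit 51) (nat_lit 4) (nat_lit 482) (nat_lit 276) (nat_lit 262)))) (XT.nd (nat_lit 156) (nat_lit 228) (nat_lit 0) (XT.nd (nat_lit 78) (nat_lit 76) (nat_lit 0) (XT.lf (nat_lit 0) (nat_lit 14971015991) (nat_lit 152) (nat_lit 4861789639) (nat_lit 0) (nat_lit 14070227560) (nat_lit 48) (nat_lit 5) (nat_lit 50) (nat_lit 4) (nat_lit 48) (nat_lit 4) (nat_lit 483) (nat_lit 276) (nat_lit 261)) (XT.lf (nat_lit 0) (nat_lit 26931236516) (nat_lit 76) (nat_lit 4231084426) (nat_lit 76) (nat_lit 3283274330) (nat_lit 47) (nat_lit 4) (nat_lit 48) (nat_lit 5) (nat_lit 48) (nat_lit 4) (nat_lit 484) (nat_lit 276) (nat_lit 260))) (XT.nd (nat_lit 78) (nat_lit 76) (nat_lit 0) (XT.lf (nat_lit 0) (nat_lit 12725210065) (nat_lit 152) (nat_lit 10510617126) (nat_lit 0) (nat_lit 11760683661) (nat_lit 45) (nat_lit 5) (nat_lit 47) (nat_lit 4) (nat_lit 45) (nat_lit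 4) (nat_lit 485) (nat_lit 276) (nat_lit 259)) (XT.lf (nat_lit 0) (nat_lit 21863584464) (nat_lit 76) (nat_lit 7352454834) (nat_lit 76) (nat_lit 6344896946) (nat_lit 44) (nat_lit 4) (nat_lit 45) (nat_lit 5) (nat_lit 45) (nat_lit 4) (nat_lit 486) (nat_lit 276) (nat_lit 258))))))) (XT.nd (nat_lit 51870) (nat_lit 0) (nat_lit 1064) (XT.nd (nat_lit 546) (nat_lit 380) (nat_lit 0) (XT.nd (nat_lit 234) (nat_lit 304) (nat_lit 0) (XT.nd (nat_lit 78) (nat_lit 228) (nat_lit 0) (XT.lf (nat_lit 0) (nat_lit 9980421707) (nat_lit 152) (nat_lit 17193800464) (nat_lit 0) (nat_lit 8961648866) (nat_lit 42) (nat_lit 5) (nat_lit 44) (nat_lit 4) (nat_lit 42) (nat_lit 4) (nat_lit 487) (nat_lit 276) (nat_lit 257)) (XT.nd (nat_lit 78) (nat_lit 152) (nat_lit 0) (XT.lf (nat_lit 0) (nat_lit 15761644529) (nat_lit 76) (nat_lit 11009786869) (nat_lit 76) (nat_lit 9951634124) (nat_lit 41) (nat_lit 4) (nat_lit 42) (nat_lit 5) (nat_lit 42)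 (nat_lit 4) (nat_lit 488) (nat_lit 276) (nat_lit 256)) (XT.lf (nat_lit 0) (nat_lit 6695892191) (nat_lit 152) (nat_lit 24995927827) (nat_lit 0) (nat_lit 5631440093) (nat_lit 39) (nat_lit 5) (nat_lit 41) (nat_lit 4) (nat_lit 39) (nat_lit 4) (nat_lit 489) (nat_lit 276) (nat_lit 255)))) (XT.nd (nat_lit 156) (nat_lit 76) (nat_lit 0) (XT.nd (nat_lit 78) (nat_lit 152) (nat_lit 0) (XT.lf (nat_lit 0) (nat_lit 8539777769) (nat_lit 76) (nat_lit 15247442651) (nat_lit 76) (nat_lit 14146952364) (nat_lit 38) (nat_lit 4) (nat_lit 39) (nat_lit 5) (nat_lit 39) (nat_lit 4) (nat_lit 490) (nat_lit 276) (nat_lit 254)) (XT.lf (nat_lit 0) (nat_lit 2828012838) (nat_lit 152) (nat_lit 34007318708) (nat_lit 0) (nat_lit 1725606216) (nat_lit 36) (nat_lit 5) (nat_lit 38) (nat_lit 4) (nat_lit 36) (nat_lit 4) (nat_lit 491) (nat_lit 276) (nat_lit 253))) (XT.nd (nat_lit 78) (nat_lit 0) (nat_lit 0) (XT.lf (nat_lit 0) (nat_lit 106517729)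 (nat_lit 76) (nat_lit 20112716085) (nat_lit 76) (nat_lit 18977329414) (nat_lit 35) (nat_lit 4) (nat_lit 36) (nat_lit 5) (nat_lit 36) (nat_lit 4) (nat_lit 492) (nat_lit 276) (nat_lit 252)) (XT.lf (nat_lit 0) (nat_lit 35419431625) (nat_lit 76) (nat_lit 2798332395) (nat_lit 76) (nat_lit 1630926259) (nat_lit 35) (nat_lit 4) (nat_lit 36) (nat_lit 5) (nat_lit 36) (nat_lit 4) (nat_lit 493) (nat_lit 276) (nat_lit 251))))) (XT.nd (nat_lit 51012) (nat_lit 0) (nat_lit 2736) (XT.nd (nat_lit 156) (nat_lit 152) (nat_lit 0) (XT.nd (nat_lit 78) (nat_lit 76) (nat_lit 0) (XT.lf (nat_lit 0) (nat_lit 16112845797) (nat_lit 152) (nat_lit 9447778994) (nat_lit 0) (nat_lit 14949260365) (nat_lit 33) (nat_lit 5) (nat_lit 35) (nat_lit 4) (nat_lit 33) (nat_lit 4) (nat_lit 494) (nat_lit 276) (nat_lit 250)) (XT.lf (nat_lit 0) (nat_lit 26480533523) (nat_lit 76) (nat_lit 7950273018) (nat_lit 76) (nat_lit 6757385239) (nat_lit 32) (nat_lit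 4) (nat_lit 33) (nat_lit 5) (nat_lit 33) (nat_lit 4) (nat_lit 495) (nat_lit 276) (nat_lit 249))) (XT.nd (nat_lit 50778) (nat_lit 0) (nat_lit 3192) (XT.lf (nat_lit 0) (nat_lit 11339516816) (nat_lit 152) (nat_lit 20385764791) (nat_lit 0) (nat_lit 10153753070) (nat_lit 30) (nat_lit 5) (nat_lit 32) (nat_lit 4) (nat_lit 30) (nat_lit 4) (nat_lit 496) (nat_lit 276) (nat_lit 248)) (XT.lf (nat_lit 0) (nat_lit 2958889292) (nat_lit 152) (nat_lit 7177802354) (nat_lit 0) (nat_lit 2958889292) (nat_lit 72) (nat_lit 5) (nat_lit 74) (nat_lit 4) (nat_lit 72) (nat_lit 4) (nat_lit 466) (nat_lit 277) (nat_lit 277)))) (XT.nd (nat_lit 156) (nat_lit 228) (nat_lit 0) (XT.nd (nat_lit 78) (nat_lit 152) (nat_lit 0) (XT.lf (nat_lit 0) (nat_lit 11842155876) (nat_lit 76) (nat_lit 7416240056) (nat_lit 76) (nat_lit 7320654695) (nat_lit 71) (nat_lit 4) (nat_lit 72) (nat_lit 5) (nat_lit 72) (nat_lit 4) (nat_lit 467) (nat_lit 277) (nat_lit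 276)) (XT.lf (nat_lit 0) (nat_lit 5957923431) (nat_lit 152) (nat_lit 15242250070) (nat_lit 0) (nat_lit 5775023739) (nat_lit 69) (nat_lit 5) (nat_lit 71) (nat_lit 4) (nat_lit 69) (nat_lit 4) (nat_lit 468) (nat_lit 277) (nat_lit 275))) (XT.nd (nat_lit 78) (nat_lit 152) (nat_lit 0) (XT.lf (nat_lit 0) (nat_lit 11471150652) (nat_lit 76) (nat_lit 8089051279) (nat_lit 76) (nat_lit 7818677442) (nat_lit 68) (nat_lit 4) (nat_lit 69) (nat_lit 5) (nat_lit 69) (nat_lit 4) (nat_lit 469) (nat_lit 277) (nat_lit 274)) (XT.lf (nat_lit 0) (nat_lit 5716940164) (nat_lit 152) (nat_lit 16702464501) (nat_lit 0) (nat_lit 5371988521) (nat_lit 66) (nat_lit 5) (nat_lit 68) (nat_lit 4) (nat_lit 66) (nat_lit 4) (nat_lit 470) (nat_lit 277) (nat_lit 273)))))) (XT.nd (nat_lit 624) (nat_lit 760) (nat_lit 0) (XT.nd (nat_lit 312) (nat_lit 456) (nat_lit 0) (XT.nd (nat_lit 156) (nat_lit 228) (nat_lit 0) (XT.nd (nat_lit 78) (nat_lit 152)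 (nat_lit 0) (XT.lf (nat_lit 0) (nat_lit 10530846203) (nat_lit 76) (nat_lit 9052825460) (nat_lit 76) (nat_lit 8627822581) (nat_lit 65) (nat_lit 4) (nat_lit 66) (nat_lit 5) (nat_lit 66) (nat_lit 4) (nat_lit 471) (nat_lit 277) (nat_lit 272)) (XT.lf (nat_lit 0) (nat_lit 5170398725) (nat_lit 152) (nat_lit 18788472151) (nat_lit 0) (nat_lit 4682318605) (nat_lit 63) (nat_lit 5) (nat_lit 65) (nat_lit 4) (nat_lit 63) (nat_lit 4) (nat_lit 472) (nat_lit 277) (nat_lit 271))) (XT.nd (nat_lit 78) (nat_lit 152) (nat_lit 0) (XT.lf (nat_lit 0) (nat_lit 8968476176) (nat_lit 76) (nat_lit 10335613504) (nat_lit 76) (nat_lit 9774275164) (nat_lit 62) (nat_lit 4) (nat_lit 63) (nat_lit 5) (nat_lit 63) (nat_lit 4) (nat_lit 473) (nat_lit 277) (nat_lit 270)) (XT.lf (nat_lit 0) (nat_lit 4292041340) (nat_lit 152) (nat_lit 21556060969) (nat_lit 0) (nat_lit 3677999761) (nat_lit 60) (nat_lit 5) (nat_lit 62) (nat_lit 4) (nat_lit 60)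 (nat_lit 4) (nat_lit 474) (nat_lit 277) (nat_lit 269)))) (XT.nd (nat_lit 156) (nat_lit 228) (nat_lit 0) (XT.nd (nat_lit 78) (nat_lit 152) (nat_lit 0) (XT.lf (nat_lit 0) (nat_lit 6727652147) (nat_lit 76) (nat_lit 11967234730) (nat_lit 76) (nat_lit 11286151502) (nat_lit 59) (nat_lit 4) (nat_lit 60) (nat_lit 5) (nat_lit 60) (nat_lit 4) (nat_lit 475) (nat_lit 277) (nat_lit 268)) (XT.lf (nat_lit 0) (nat_lit 3053671803) (nat_lit 152) (nat_lit 25064822470) (nat_lit 0) (nat_lit 2329232767) (nat_lit 57) (nat_lit 5) (nat_lit 59) (nat_lit 4) (nat_lit 57) (nat_lit 4) (nat_lit 476) (nat_lit 277) (nat_lit 267))) (XT.nd (nat_lit 78) (nat_lit 152) (nat_lit 0) (XT.lf (nat_lit 0) (nat_lit 3748119663) (nat_lit 76) (nat_lit 13979407837) (nat_lit 76) (nat_lit 13193616195) (nat_lit 56) (nat_lit 4) (nat_lit 57) (nat_lit 5) (nat_lit 57) (nat_lit 4) (nat_lit 477) (nat_lit 277) (nat_lit 266)) (XT.lf (nat_lit 0) (nat_lit 1425037111)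 (nat_lit 152) (nat_lit 29378405823) (nat_lit 0) (nat_lit 604301889) (nat_lit 54) (nat_lit 5) (nat_lit 56) (nat_lit 4) (nat_lit 54) (nat_lit 4) (nat_lit 478) (nat_lit 277) (nat_lit 265))))) (XT.nd (nat_lit 312) (nat_lit 456) (nat_lit 0) (XT.nd (nat_lit 156) (nat_lit 228) (nat_lit 0) (XT.nd (nat_lit 78) (nat_lit 76) (nat_lit 0) (XT.lf (nat_lit 0) (nat_lit 16371720030) (nat_lit 152) (nat_lit 33827119) (nat_lit 0) (nat_lit 15494838482) (nat_lit 54) (nat_lit 5) (nat_lit 56) (nat_lit 4) (nat_lit 54) (nat_lit 4) (nat_lit 479) (nat_lit 277) (nat_lit 264)) (XT.lf (nat_lit 0) (nat_lit 30270957540) (nat_lit 76) (nat_lit 1533554701) (nat_lit 76) (nat_lit 602162157) (nat_lit 53) (nat_lit 4) (nat_lit 54) (nat_lit 5) (nat_lit 54) (nat_lit 4) (nat_lit 480) (nat_lit 277) (nat_lit 263))) (XT.nd (nat_lit 78) (nat_lit 76) (nat_lit 0) (XT.lf (nat_lit 0) (nat_lit 14638703424) (nat_lit 152) (nat_lit 4597486725) (nat_lit 0)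 (nat_lit 13683056977) (nat_lit 51) (nat_lit 5) (nat_lit 53) (nat_lit 4) (nat_lit 51) (nat_lit 4) (nat_lit 481) (nat_lit 277) (nat_lit 262)) (XT.lf (nat_lit 0) (nat_lit 26270545984) (nat_lit 76) (nat_lit 4090457293) (nat_lit 76) (nat_lit 3084925563) (nat_lit 50) (nat_lit 4) (nat_lit 51) (nat_lit 5) (nat_lit 51) (nat_lit 4) (nat_lit 482) (nat_lit 277) (nat_lit 261)))) (XT.nd (nat_lit 156) (nat_lit 228) (nat_lit 0) (XT.nd (nat_lit 78) (nat_lit 76) (nat_lit 0) (XT.lf (nat_lit 0) (nat_lit 12457961160) (nat_lit 152) (nat_lit 10088032256) (nat_lit 0) (nat_lit 11434695098) (nat_lit 48) (nat_lit 5) (nat_lit 50) (nat_lit 4) (nat_lit 48) (nat_lit 4) (nat_lit 483) (nat_lit 277) (nat_lit 260)) (XT.lf (nat_lit 0) (nat_lit 21344245034) (nat_lit 76) (nat_lit 7126637615) (nat_lit 76) (nat_lit 6057719452) (nat_lit 47) (nat_lit 4) (nat_lit 48) (nat_lit 5) (nat_lit 48) (nat_lit 4) (nat_lit 484) (nat_lit 277) (nat_lit 259)))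 (XT.nd (nat_lit 78) (nat_lit 76) (nat_lit 0) (XT.lf (nat_lit 0) (nat_lit 9792553223) (nat_lit 152) (nat_lit 16582397966) (nat_lit 0) (nat_lit 8711737116) (nat_lit 45) (nat_lit 5) (nat_lit 47) (nat_lit 4) (nat_lit 45) (nat_lit 4) (nat_lit 485) (nat_lit 277) (nat_lit 258)) (XT.lf (nat_lit 0) (nat_lit 15414187770) (nat_lit 76) (nat_lit 10682559612) (nat_lit 76) (nat_lit 9559965365) (nat_lit 44) (nat_lit 4) (nat_lit 45) (nat_lit 5) (nat_lit 45) (nat_lit 4) (nat_lit 486) (nat_lit 277) (nat_lit 257))))))))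
noncomputable def xc4 : XT := (XT.nd (nat_lit 52884) (nat_lit 0) (nat_lit 152) (XT.nd (nat_lit 51714) (nat_lit 0) (nat_lit 1368) (XT.nd (nat_lit 546) (nat_lit 380) (nat_lit 0) (XT.nd (nat_lit 234) (nat_lit 304) (nat_lit 0) (XT.nd (nat_lit 78) (nat_lit 228) (nat_lit 0) (XT.lf (nat_lit 0) (nat_lit 6602933596) (nat_lit 152) (nat_lit 24162739453) (nat_lit 0) (nat_lit 5473656366) (nat_lit 42) (nat_lit 5) (nat_lit 44) (nat_lit 4) (nat_lit 42) (nat_lit 4) (nat_lit 487) (nat_lit 277) (nat_lit 256)) (XT.nd (nat_lit 78) (nat_lit 152) (nat_lit 0) (XT.lf (nat_lit 0) (nat_lit 8397198680) (nat_lit 76) (nat_lit 14801348622) (nat_lit 76) (nat_lit 13633838477) (nat_lit 41) (nat_lit 4) (nat_lit 42) (nat_lit 5) (nat_lit 42) (nat_lit 4) (nat_lit 488) (nat_lit 277) (nat_lit 255)) (XT.lf (nat_lit 0) (nat_lit 2846786941) (nat_lit 152) (nat_lit 32916774160) (nat_lit 0) (nat_lit 1677243755) (nat_lit 39) (nat_lit 5) (nat_lit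 41) (nat_lit 4) (nat_lit 39) (nat_lit 4) (nat_lit 489) (nat_lit 277) (nat_lit 254)))) (XT.nd (nat_lit 156) (nat_lit 228) (nat_lit 0) (XT.nd (nat_lit 78) (nat_lit 0) (nat_lit 0) (XT.lf (nat_lit 0) (nat_lit 204446992) (nat_lit 76) (nat_lit 19528971577) (nat_lit 76) (nat_lit 18324439857) (nat_lit 38) (nat_lit 4) (nat_lit 39) (nat_lit 5) (nat_lit 39) (nat_lit 4) (nat_lit 490) (nat_lit 277) (nat_lit 253)) (XT.lf (nat_lit 0) (nat_lit 34487859132) (nat_lit 76) (nat_lit 2720802632) (nat_lit 76) (nat_lit 1482301462) (nat_lit 38) (nat_lit 4) (nat_lit 39) (nat_lit 5) (nat_lit 39) (nat_lit 4) (nat_lit 491) (nat_lit 277) (nat_lit 252))) (XT.nd (nat_lit 78) (nat_lit 76) (nat_lit 0) (XT.lf (nat_lit 0) (nat_lit 15744508823) (nat_lit 152) (nat_lit 9078246366) (nat_lit 0) (nat_lit 14510061038) (nat_lit 36) (nat_lit 5) (nat_lit 38) (nat_lit 4) (nat_lit 36) (nat_lit 4) (nat_lit 492) (nat_lit 277) (nat_lit 251)) (XT.lf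 (nat_lit 0) (nat_lit 25804600341) (nat_lit 76) (nat_lit 7726123519) (nat_lit 76) (nat_lit 6460588874) (nat_lit 35) (nat_lit 4) (nat_lit 36) (nat_lit 5) (nat_lit 36) (nat_lit 4) (nat_lit 493) (nat_lit 277) (nat_lit 250))))) (XT.nd (nat_lit 50856) (nat_lit 0) (nat_lit 2964) (XT.nd (nat_lit 156) (nat_lit 152) (nat_lit 0) (XT.nd (nat_lit 78) (nat_lit 76) (nat_lit 0) (XT.lf (nat_lit 0) (nat_lit 11108933896) (nat_lit 152) (nat_lit 19702064150) (nat_lit 0) (nat_lit 9850957137) (nat_lit 33) (nat_lit 5) (nat_lit 35) (nat_lit 4) (nat_lit 33) (nat_lit 4) (nat_lit 494) (nat_lit 277) (nat_lit 249)) (XT.lf (nat_lit 0) (nat_lit 15772749064) (nat_lit 76) (nat_lit 13430326477) (nat_lit 76) (nat_lit 12143900839) (nat_lit 32) (nat_lit 4) (nat_lit 33) (nat_lit 5) (nat_lit 33) (nat_lit 4) (nat_lit 495) (nat_lit 277) (nat_lit 248))) (XT.nd (nat_lit 50622) (nat_lit 0) (nat_lit 3420) (XT.lf (nat_lit 0) (nat_lit 5773352734)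 (nat_lit 152) (nat_lit 31776982655) (nat_lit 0) (nat_lit 4497580006) (nat_lit 30) (nat_lit 5) (nat_lit 32) (nat_lit 4) (nat_lit 30) (nat_lit 4) (nat_lit 496) (nat_lit 277) (nat_lit 247)) (XT.lf (nat_lit 0) (nat_lit 2922923915) (nat_lit 152) (nat_lit 6871233617) (nat_lit 0) (nat_lit 2922923915) (nat_lit 75) (nat_lit 5) (nat_lit 77) (nat_lit 4) (nat_lit 75) (nat_lit 4) (nat_lit 464) (nat_lit 278) (nat_lit 278)))) (XT.nd (nat_lit 156) (nat_lit 228) (nat_lit 0) (XT.nd (nat_lit 78) (nat_lit 152) (nat_lit 0) (XT.lf (nat_lit 0) (nat_lit 11693236404) (nat_lit 76) (nat_lit 7109391148) (nat_lit 76) (nat_lit 7007984639) (nat_lit 74) (nat_lit 4) (nat_lit 75) (nat_lit 5) (nat_lit 75) (nat_lit 4) (nat_lit 465) (nat_lit 278) (nat_lit 277)) (XT.lf (nat_lit 0) (nat_lit 5887332459) (nat_lit 152) (nat_lit 14614402214) (nat_lit 0) (nat_lit 5693294176) (nat_lit 72) (nat_lit 5) (nat_lit 74) (nat_lit 4) (nat_lit 72) (nat_lit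 4) (nat_lit 466) (nat_lit 278) (nat_lit 276))) (XT.nd (nat_lit 78) (nat_lit 152) (nat_lit 0) (XT.lf (nat_lit 0) (nat_lit 11321947517) (nat_lit 76) (nat_lit 7775857022) (nat_lit 76) (nat_lit 7489017417) (nat_lit 71) (nat_lit 4) (nat_lit 72) (nat_lit 5) (nat_lit 72) (nat_lit 4) (nat_lit 467) (nat_lit 278) (nat_lit 275)) (XT.lf (nat_lit 0) (nat_lit 5655342953) (nat_lit 152) (nat_lit 16042415509) (nat_lit 0) (nat_lit 5289383754) (nat_lit 69) (nat_lit 5) (nat_lit 71) (nat_lit 4) (nat_lit 69) (nat_lit 4) (nat_lit 468) (nat_lit 278) (nat_lit 274)))))) (XT.nd (nat_lit 546) (nat_lit 836) (nat_lit 0) (XT.nd (nat_lit 234) (nat_lit 456) (nat_lit 0) (XT.nd (nat_lit 78) (nat_lit 228) (nat_lit 0) (XT.lf (nat_lit 0) (nat_lit 10398720555) (nat_lit 76) (nat_lit 8723525307) (nat_lit 76) (nat_lit 8272639754) (nat_lit 68) (nat_lit 4) (nat_lit 69) (nat_lit 5) (nat_lit 69) (nat_lit 4) (nat_lit 469) (nat_lit 278) (nat_lit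 273)) (XT.nd (nat_lit 78) (nat_lit 76) (nat_lit 0) (XT.lf (nat_lit 0) (nat_lit 5126215498) (nat_lit 152) (nat_lit 18077272170) (nat_lit 0) (nat_lit 4608411298) (nat_lit 66) (nat_lit 5) (nat_lit 68) (nat_lit 4) (nat_lit 66) (nat_lit 4) (nat_lit 470) (nat_lit 278) (nat_lit 272)) (XT.lf (nat_lit 0) (nat_lit 8872264595) (nat_lit 76) (nat_lit 9979743717) (nat_lit 76) (nat_lit 9384219872) (nat_lit 65) (nat_lit 4) (nat_lit 66) (nat_lit 5) (nat_lit 66) (nat_lit 4) (nat_lit 471) (nat_lit 278) (nat_lit 271)))) (XT.nd (nat_lit 156) (nat_lit 228) (nat_lit 0) (XT.nd (nat_lit 78) (nat_lit 76) (nat_lit 0) (XT.lf (nat_lit 0) (nat_lit 4274506887) (nat_lit 152) (nat_lit 20773192123) (nat_lit 0) (nat_lit 3623070177) (nat_lit 63) (nat_lit 5) (nat_lit 65) (nat_lit 4) (nat_lit 63) (nat_lit 4) (nat_lit 472) (nat_lit 278) (nat_lit 270)) (XT.lf (nat_lit 0) (nat_lit 6687777215) (nat_lit 76) (nat_lit 11573567069) (nat_lit 76)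 (nat_lit 10851005873) (nat_lit 62) (nat_lit 4) (nat_lit 63) (nat_lit 5) (nat_lit 63) (nat_lit 4) (nat_lit 473) (nat_lit 278) (nat_lit 269))) (XT.nd (nat_lit 78) (nat_lit 76) (nat_lit 0) (XT.lf (nat_lit 0) (nat_lit 3072887455) (nat_lit 152) (nat_lit 24188083374) (nat_lit 0) (nat_lit 2304330082) (nat_lit 60) (nat_lit 5) (nat_lit 62) (nat_lit 4) (nat_lit 60) (nat_lit 4) (nat_lit 474) (nat_lit 278) (nat_lit 268)) (XT.lf (nat_lit 0) (nat_lit 3786707221) (nat_lit 76) (nat_lit 13535885284) (nat_lit 76) (nat_lit 12702238930) (nat_lit 59) (nat_lit 4) (nat_lit 60) (nat_lit 5) (nat_lit 60) (nat_lit 4) (nat_lit 475) (nat_lit 278) (nat_lit 267))))) (XT.nd (nat_lit 312) (nat_lit 456) (nat_lit 0) (XT.nd (nat_lit 156) (nat_lit 152) (nat_lit 0) (XT.nd (nat_lit 78) (nat_lit 76) (nat_lit 0) (XT.lf (nat_lit 0) (nat_lit 1492026542) (nat_lit 152) (nat_lit 28383789103) (nat_lit 0) (nat_lit 621308544) (nat_lit 57) (nat_lit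 5) (nat_lit 59) (nat_lit 4) (nat_lit 57) (nat_lit 4) (nat_lit 476) (nat_lit 278) (nat_lit 266)) (XT.lf (nat_lit 0) (nat_lit 106503195) (nat_lit 76) (nat_lit 15899557957) (nat_lit 76) (nat_lit 14969274323) (nat_lit 56) (nat_lit 4) (nat_lit 57) (nat_lit 5) (nat_lit 57) (nat_lit 4) (nat_lit 477) (nat_lit 278) (nat_lit 265))) (XT.nd (nat_lit 78) (nat_lit 152) (nat_lit 0) (XT.lf (nat_lit 0) (nat_lit 29527625998) (nat_lit 76) (nat_lit 1463654274) (nat_lit 76) (nat_lit 475539925) (nat_lit 56) (nat_lit 4) (nat_lit 57) (nat_lit 5) (nat_lit 57) (nat_lit 4) (nat_lit 478) (nat_lit 278) (nat_lit 264)) (XT.lf (nat_lit 0) (nat_lit 14322387412) (nat_lit 152) (nat_lit 4333409684) (nat_lit 0) (nat_lit 13308542097) (nat_lit 54) (nat_lit 5) (nat_lit 56) (nat_lit 4) (nat_lit 54) (nat_lit 4) (nat_lit 479) (nat_lit 278) (nat_lit 263)))) (XT.nd (nat_lit 156) (nat_lit 228) (nat_lit 0) (XT.nd (nat_lit 78) (nat_lit 152) (nat_lit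 0) (XT.lf (nat_lit 0) (nat_lit 25636633072) (nat_lit 76) (nat_lit 3952866944) (nat_lit 76) (nat_lit 2886098332) (nat_lit 53) (nat_lit 4) (nat_lit 54) (nat_lit 5) (nat_lit 54) (nat_lit 4) (nat_lit 480) (nat_lit 278) (nat_lit 262)) (XT.lf (nat_lit 0) (nat_lit 12204792550) (nat_lit 152) (nat_lit 9670663854) (nat_lit 0) (nat_lit 11119209585) (nat_lit 51) (nat_lit 5) (nat_lit 53) (nat_lit 4) (nat_lit 51) (nat_lit 4) (nat_lit 481) (nat_lit 278) (nat_lit 261))) (XT.nd (nat_lit 78) (nat_lit 152) (nat_lit 0) (XT.lf (nat_lit 0) (nat_lit 20847185553) (nat_lit 76) (nat_lit 6906687012) (nat_lit 76) (nat_lit 5772671733) (nat_lit 50) (nat_lit 4) (nat_lit 51) (nat_lit 5) (nat_lit 51) (nat_lit 4) (nat_lit 482) (nat_lit 278) (nat_lit 260)) (XT.lf (nat_lit 0) (nat_lit 9616418583) (nat_lit 152) (nat_lit 15982067024) (nat_lit 0) (nat_lit 8469780774) (nat_lit 48) (nat_lit 5) (nat_lit 50) (nat_lit 4) (nat_lit 48) (nat_lit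 4) (nat_lit 483) (nat_lit 278) (nat_lit 259))))))) (XT.nd (nat_lit 51558) (nat_lit 0) (nat_lit 1672) (XT.nd (nat_lit 546) (nat_lit 532) (nat_lit 0) (XT.nd (nat_lit 234) (nat_lit 380) (nat_lit 0) (XT.nd (nat_lit 78) (nat_lit 228) (nat_lit 0) (XT.lf (nat_lit 0) (nat_lit 15083648786) (nat_lit 76) (nat_lit 10364464117) (nat_lit 76) (nat_lit 9173503880) (nat_lit 47) (nat_lit 4) (nat_lit 48) (nat_lit 5) (nat_lit 48) (nat_lit 4) (nat_lit 484) (nat_lit 278) (nat_lit 258)) (XT.nd (nat_lit 78) (nat_lit 76) (nat_lit 0) (XT.lf (nat_lit 0) (nat_lit 6518898437) (nat_lit 152) (nat_lit 23347414966) (nat_lit 0) (nat_lit 5320848224) (nat_lit 45) (nat_lit 5) (nat_lit 47) (nat_lit 4) (nat_lit 45) (nat_lit 4) (nat_lit 485) (nat_lit 278) (nat_lit 257)) (XT.lf (nat_lit 0) (nat_lit 8265237056) (nat_lit 76) (nat_lit 14368126204) (nat_lit 76) (nat_lit 13129514691) (nat_lit 44) (nat_lit 4) (nat_lit 45) (nat_lit 5) (nat_lit 45)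 (nat_lit 4) (nat_lit 486) (nat_lit 278) (nat_lit 256)))) (XT.nd (nat_lit 156) (nat_lit 152) (nat_lit 0) (XT.nd (nat_lit 78) (nat_lit 76) (nat_lit 0) (XT.lf (nat_lit 0) (nat_lit 2871173858) (nat_lit 152) (nat_lit 31851900603) (nat_lit 0) (nat_lit 1630405492) (nat_lit 42) (nat_lit 5) (nat_lit 44) (nat_lit 4) (nat_lit 42) (nat_lit 4) (nat_lit 487) (nat_lit 278) (nat_lit 255)) (XT.lf (nat_lit 0) (nat_lit 305676778) (nat_lit 76) (nat_lit 18962354958) (nat_lit 76) (nat_lit 17684467257) (nat_lit 41) (nat_lit 4) (nat_lit 42) (nat_lit 5) (nat_lit 42) (nat_lit 4) (nat_lit 488) (nat_lit 278) (nat_lit 254))) (XT.nd (nat_lit 78) (nat_lit 152) (nat_lit 0) (XT.lf (nat_lit 0) (nat_lit 33589513559) (nat_lit 76) (nat_lit 2645773099) (nat_lit 76) (nat_lit 1331847207) (nat_lit 41) (nat_lit 4) (nat_lit 42) (nat_lit 5) (nat_lit 42) (nat_lit 4) (nat_lit 489) (nat_lit 278) (nat_lit 253)) (XT.lf (nat_lit 0) (nat_lit 15393049135)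 (nat_lit 152) (nat_lit 8713730630) (nat_lit 0) (nat_lit 14083423479) (nat_lit 39) (nat_lit 5) (nat_lit 41) (nat_lit 4) (nat_lit 39) (nat_lit 4) (nat_lit 490) (nat_lit 278) (nat_lit 252))))) (XT.nd (nat_lit 312) (nat_lit 76) (nat_lit 0) (XT.nd (nat_lit 156) (nat_lit 228) (nat_lit 0) (XT.nd (nat_lit 78) (nat_lit 152) (nat_lit 0) (XT.lf (nat_lit 0) (nat_lit 25154161013) (nat_lit 76) (nat_lit 7508954027) (nat_lit 76) (nat_lit 6166348322) (nat_lit 38) (nat_lit 4) (nat_lit 39) (nat_lit 5) (nat_lit 39) (nat_lit 4) (nat_lit 491) (nat_lit 278) (nat_lit 251)) (XT.lf (nat_lit 0) (nat_lit 10891138364) (nat_lit 152) (nat_lit 19032799743) (nat_lit 0) (nat_lit 9556550821) (nat_lit 36) (nat_lit 5) (nat_lit 38) (nat_lit 4) (nat_lit 36) (nat_lit 4) (nat_lit 492) (nat_lit 278) (nat_lit 250))) (XT.nd (nat_lit 78) (nat_lit 152) (nat_lit 0) (XT.lf (nat_lit 0) (nat_lit 15409803402) (nat_lit 76) (nat_lit 13050235218) (nat_lit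 76) (nat_lit 11685466258) (nat_lit 35) (nat_lit 4) (nat_lit 36) (nat_lit 5) (nat_lit 36) (nat_lit 4) (nat_lit 493) (nat_lit 278) (nat_lit 249)) (XT.lf (nat_lit 0) (nat_lit 5709499310) (nat_lit 152) (nat_lit 30760418138) (nat_lit 0) (nat_lit 4356032022) (nat_lit 33) (nat_lit 5) (nat_lit 35) (nat_lit 4) (nat_lit 33) (nat_lit 4) (nat_lit 494) (nat_lit 278) (nat_lit 248)))) (XT.nd (nat_lit 50544) (nat_lit 0) (nat_lit 3420) (XT.nd (nat_lit 78) (nat_lit 0) (nat_lit 0) (XT.lf (nat_lit 0) (nat_lit 4252157854) (nat_lit 76) (nat_lit 19323371855) (nat_lit 76) (nat_lit 17942284296) (nat_lit 32) (nat_lit 4) (nat_lit 33) (nat_lit 5) (nat_lit 33) (nat_lit 4) (nat_lit 495) (nat_lit 278) (nat_lit 247)) (XT.lf (nat_lit 0) (nat_lit 40468413990) (nat_lit 76) (nat_lit 1583841208) (nat_lit 76) (nat_lit 175937851) (nat_lit 32) (nat_lit 4) (nat_lit 33) (nat_lit 5) (nat_lit 33) (nat_lit 4) (nat_lit 496) (nat_lit 278) (nat_lit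 246))) (XT.nd (nat_lit 78) (nat_lit 76) (nat_lit 0) (XT.lf (nat_lit 0) (nat_lit 2891064219) (nat_lit 152) (nat_lit 6567655919) (nat_lit 0) (nat_lit 2891064219) (nat_lit 78) (nat_lit 5) (nat_lit 80) (nat_lit 4) (nat_lit 78) (nat_lit 4) (nat_lit 462) (nat_lit 279) (nat_lit 279)) (XT.lf (nat_lit 0) (nat_lit 11560590651) (nat_lit 76) (nat_lit 6805947315) (nat_lit 76) (nat_lit 6698365150) (nat_lit 77) (nat_lit 4) (nat_lit 78) (nat_lit 5) (nat_lit 78) (nat_lit 4) (nat_lit 463) (nat_lit 279) (nat_lit 278)))))) (XT.nd (nat_lit 624) (nat_lit 836) (nat_lit 0) (XT.nd (nat_lit 312) (nat_lit 456) (nat_lit 0) (XT.nd (nat_lit 156) (nat_lit 228) (nat_lit 0) (XT.nd (nat_lit 78) (nat_lit 76) (nat_lit 0) (XT.lf (nat_lit 0) (nat_lit 5825066628) (nat_lit 152) (nat_lit 13993641749) (nat_lit 0) (nat_lit 5619211414) (nat_lit 75) (nat_lit 5) (nat_lit 77) (nat_lit 4) (nat_lit 75) (nat_lit 4) (nat_lit 464) (nat_lit 279) (nat_lit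 277)) (XT.lf (nat_lit 0) (nat_lit 11188351004) (nat_lit 76) (nat_lit 7467059646) (nat_lit 76) (nat_lit 7162751509) (nat_lit 74) (nat_lit 4) (nat_lit 75) (nat_lit 5) (nat_lit 75) (nat_lit 4) (nat_lit 465) (nat_lit 279) (nat_lit 276))) (XT.nd (nat_lit 78) (nat_lit 76) (nat_lit 0) (XT.lf (nat_lit 0) (nat_lit 5601929195) (nat_lit 152) (nat_lit 15391020865) (nat_lit 0) (nat_lit 5213683082) (nat_lit 72) (nat_lit 5) (nat_lit 74) (nat_lit 4) (nat_lit 72) (nat_lit 4) (nat_lit 466) (nat_lit 279) (nat_lit 275)) (XT.lf (nat_lit 0) (nat_lit 10281076247) (nat_lit 76) (nat_lit 8399819821) (nat_lit 76) (nat_lit 7921475337) (nat_lit 71) (nat_lit 4) (nat_lit 72) (nat_lit 5) (nat_lit 72) (nat_lit 4) (nat_lit 467) (nat_lit 279) (nat_lit 274)))) (XT.nd (nat_lit 156) (nat_lit 228) (nat_lit 0) (XT.nd (nat_lit 78) (nat_lit 76) (nat_lit 0) (XT.lf (nat_lit 0) (nat_lit 5089799585) (nat_lit 152) (nat_lit 17376801410) (nat_lit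 0) (nat_lit 4540461109) (nat_lit 69) (nat_lit 5) (nat_lit 71) (nat_lit 4) (nat_lit 69) (nat_lit 4) (nat_lit 468) (nat_lit 279) (nat_lit 273)) (XT.lf (nat_lit 0) (nat_lit 8788904168) (nat_lit 76) (nat_lit 9630899770) (nat_lit 76) (nat_lit 8999108523) (nat_lit 68) (nat_lit 4) (nat_lit 69) (nat_lit 5) (nat_lit 69) (nat_lit 4) (nat_lit 469) (nat_lit 279) (nat_lit 272))) (XT.nd (nat_lit 78) (nat_lit 76) (nat_lit 0) (XT.lf (nat_lit 0) (nat_lit 4264028464) (nat_lit 152) (nat_lit 20003684416) (nat_lit 0) (nat_lit 3572919258) (nat_lit 66) (nat_lit 5) (nat_lit 68) (nat_lit 4) (nat_lit 66) (nat_lit 4) (nat_lit 470) (nat_lit 279) (nat_lit 271)) (XT.lf (nat_lit 0) (nat_lit 6658568724) (nat_lit 76) (nat_lit 11188618415) (nat_lit 76) (nat_lit 10422053241) (nat_lit 65) (nat_lit 4) (nat_lit 66) (nat_lit 5) (nat_lit 66) (nat_lit 4) (nat_lit 471) (nat_lit 279) (nat_lit 270))))) (XT.nd (nat_lit 312) (nat_lit 380) (nat_lit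 0) (XT.nd (nat_lit 156) (nat_lit 228) (nat_lit 0) (XT.nd (nat_lit 78) (nat_lit 76) (nat_lit 0) (XT.lf (nat_lit 0) (nat_lit 3098130223) (nat_lit 152) (nat_lit 23327946598) (nat_lit 0) (nat_lit 2282767706) (nat_lit 63) (nat_lit 5) (nat_lit 65) (nat_lit 4) (nat_lit 63) (nat_lit 4) (nat_lit 472) (nat_lit 279) (nat_lit 269)) (XT.lf (nat_lit 0) (nat_lit 3833169215) (nat_lit 76) (nat_lit 13103066823) (nat_lit 76) (nat_lit 12218651406) (nat_lit 62) (nat_lit 4) (nat_lit 63) (nat_lit 5) (nat_lit 63) (nat_lit 4) (nat_lit 473) (nat_lit 279) (nat_lit 268))) (XT.nd (nat_lit 78) (nat_lit 76) (nat_lit 0) (XT.lf (nat_lit 0) (nat_lit 1563672191) (nat_lit 152) (nat_lit 27409680661) (nat_lit 0) (nat_lit 639927468) (nat_lit 60) (nat_lit 5) (nat_lit 62) (nat_lit 4) (nat_lit 60) (nat_lit 4) (nat_lit 474) (nat_lit 279) (nat_lit 267)) (XT.lf (nat_lit 0) (nat_lit 251925757) (nat_lit 76) (nat_lit 15406239674) (nat_lit 76) (nat_lit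 14419301767) (nat_lit 59) (nat_lit 4) (nat_lit 60) (nat_lit 5) (nat_lit 60) (nat_lit 4) (nat_lit 475) (nat_lit 279) (nat_lit 266)))) (XT.nd (nat_lit 156) (nat_lit 228) (nat_lit 0) (XT.nd (nat_lit 78) (nat_lit 152) (nat_lit 0) (XT.lf (nat_lit 0) (nat_lit 28814370212) (nat_lit 76) (nat_lit 1394253045) (nat_lit 76) (nat_lit 345962531) (nat_lit 59) (nat_lit 4) (nat_lit 60) (nat_lit 5) (nat_lit 60) (nat_lit 4) (nat_lit 476) (nat_lit 279) (nat_lit 265)) (XT.lf (nat_lit 0) (nat_lit 14021986777) (nat_lit 152) (nat_lit 4069096874) (nat_lit 0) (nat_lit 12946398281) (nat_lit 57) (nat_lit 5) (nat_lit 59) (nat_lit 4) (nat_lit 57) (nat_lit 4) (nat_lit 477) (nat_lit 279) (nat_lit 264))) (XT.nd (nat_lit 78) (nat_lit 152) (nat_lit 0) (XT.lf (nat_lit 0) (nat_lit 25029176685) (nat_lit 76) (nat_lit 3818160426) (nat_lit 76) (nat_lit 2686425605) (nat_lit 56) (nat_lit 4) (nat_lit 57) (nat_lit 5) (nat_lit 57) (nat_lit 4) (nat_lit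 478) (nat_lit 279) (nat_lit 263)) (XT.lf (nat_lit 0) (nat_lit 11965677577) (nat_lit 152) (nat_lit 9257928092) (nat_lit 0) (nat_lit 10813982609) (nat_lit 54) (nat_lit 5) (nat_lit 56) (nat_lit 4) (nat_lit 54) (nat_lit 4) (nat_lit 479) (nat_lit 279) (nat_lit 262))))))))
noncomputable def xc5 : XT := (XT.nd (nat_lit 52572) (nat_lit 0) (nat_lit 0) (XT.nd (nat_lit 1170) (nat_lit 228) (nat_lit 0) (XT.nd (nat_lit 546) (nat_lit 684) (nat_lit 0) (XT.nd (nat_lit 234) (nat_lit 456) (nat_lit 0) (XT.nd (nat_lit 78) (nat_lit 228) (nat_lit 0) (XT.lf (nat_lit 0) (nat_lit 20372192743) (nat_lit 76) (nat_lit 6692388879) (nat_lit 76) (nat_lit 5489312069) (nat_lit 53) (nat_lit 4) (nat_lit 54) (nat_lit 5) (nat_lit 54) (nat_lit 4) (nat_lit 480) (nat_lit 279) (nat_lit 261)) (XT.nd (nat_lit 78) (nat_lit 76) (nat_lit 0) (XT.lf (nat_lit 0) (nat_lit 9452057375) (nat_lit 152) (nat_lit 15392074928) (nat_lit 0) (nat_lit 8235589324)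 (nat_lit 51) (nat_lit 5) (nat_lit 53) (nat_lit 4) (nat_lit 51) (nat_lit 4) (nat_lit 481) (nat_lit 279) (nat_lit 260)) (XT.lf (nat_lit 0) (nat_lit 14769948802) (nat_lit 76) (nat_lit 10055210102) (nat_lit 76) (nat_lit 8791720387) (nat_lit 50) (nat_lit 4) (nat_lit 51) (nat_lit 5) (nat_lit 51) (nat_lit 4) (nat_lit 482) (nat_lit 279) (nat_lit 259)))) (XT.nd (nat_lit 156) (nat_lit 228) (nat_lit 0) (XT.nd (nat_lit 78) (nat_lit 76) (nat_lit 0) (XT.lf (nat_lit 0) (nat_lit 6443905357) (nat_lit 152) (nat_lit 22549044072) (nat_lit 0) (nat_lit 5172893886) (nat_lit 48) (nat_lit 5) (nat_lit 50) (nat_lit 4) (nat_lit 48) (nat_lit 4) (nat_lit 483) (nat_lit 279) (nat_lit 258)) (XT.lf (nat_lit 0) (nat_lit 8143977347) (nat_lit 76) (nat_lit 13947393100) (nat_lit 76) (nat_lit 12633350146) (nat_lit 47) (nat_lit 4) (nat_lit 48) (nat_lit 5) (nat_lit 48) (nat_lit 4) (nat_lit 484) (nat_lit 279) (nat_lit 257))) (XT.nd (nat_lit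 78) (nat_lit 76) (nat_lit 0) (XT.lf (nat_lit 0) (nat_lit 2901385232) (nat_lit 152) (nat_lit 30811579308) (nat_lit 0) (nat_lit 1585054073) (nat_lit 45) (nat_lit 5) (nat_lit 47) (nat_lit 4) (nat_lit 45) (nat_lit 4) (nat_lit 485) (nat_lit 279) (nat_lit 256)) (XT.lf (nat_lit 0) (nat_lit 410485663) (nat_lit 76) (nat_lit 18412375008) (nat_lit 76) (nat_lit 17056663946) (nat_lit 44) (nat_lit 4) (nat_lit 45) (nat_lit 5) (nat_lit 45) (nat_lit 4) (nat_lit 486) (nat_lit 279) (nat_lit 255))))) (XT.nd (nat_lit 312) (nat_lit 304) (nat_lit 0) (XT.nd (nat_lit 156) (nat_lit 228) (nat_lit 0) (XT.nd (nat_lit 78) (nat_lit 152) (nat_lit 0) (XT.lf (nat_lit 0) (nat_lit 32723798241) (nat_lit 76) (nat_lit 2573185716) (nat_lit 76) (nat_lit 1179241738) (nat_lit 44) (nat_lit 4) (nat_lit 45) (nat_lit 5) (nat_lit 45) (nat_lit 4) (nat_lit 487) (nat_lit 279) (nat_lit 254)) (XT.lf (nat_lit 0) (nat_lit 15058349638) (nat_lit 152) (nat_lit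 8353735718) (nat_lit 0) (nat_lit 13668967780) (nat_lit 42) (nat_lit 5) (nat_lit 44) (nat_lit 4) (nat_lit 42) (nat_lit 4) (nat_lit 488) (nat_lit 279) (nat_lit 253))) (XT.nd (nat_lit 78) (nat_lit 152) (nat_lit 0) (XT.lf (nat_lit 0) (nat_lit 24528826613) (nat_lit 76) (nat_lit 7298588731) (nat_lit 76) (nat_lit 5874218339) (nat_lit 41) (nat_lit 4) (nat_lit 42) (nat_lit 5) (nat_lit 42) (nat_lit 4) (nat_lit 489) (nat_lit 279) (nat_lit 252)) (XT.lf (nat_lit 0) (nat_lit 10686127519) (nat_lit 152) (nat_lit 18377217526) (nat_lit 0) (nat_lit 9270263594) (nat_lit 39) (nat_lit 5) (nat_lit 41) (nat_lit 4) (nat_lit 39) (nat_lit 4) (nat_lit 490) (nat_lit 279) (nat_lit 251)))) (XT.nd (nat_lit 156) (nat_lit 76) (nat_lit 0) (XT.nd (nat_lit 78) (nat_lit 152) (nat_lit 0) (XT.lf (nat_lit 0) (nat_lit 15063303070) (nat_lit 76) (nat_lit 12681889550) (nat_lit 76) (nat_lit 11234006161) (nat_lit 38) (nat_lit 4) (nat_lit 39) (nat_lit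 5) (nat_lit 39) (nat_lit 4) (nat_lit 491) (nat_lit 279) (nat_lit 250)) (XT.lf (nat_lit 0) (nat_lit 5653857715) (nat_lit 152) (nat_lit 29767919098) (nat_lit 0) (nat_lit 4217964269) (nat_lit 36) (nat_lit 5) (nat_lit 38) (nat_lit 4) (nat_lit 36) (nat_lit 4) (nat_lit 492) (nat_lit 279) (nat_lit 249))) (XT.nd (nat_lit 78) (nat_lit 0) (nat_lit 0) (XT.lf (nat_lit 0) (nat_lit 4225957976) (nat_lit 76) (nat_lit 18775319629) (nat_lit 76) (nat_lit 17310123838) (nat_lit 35) (nat_lit 4) (nat_lit 36) (nat_lit 5) (nat_lit 36) (nat_lit 4) (nat_lit 493) (nat_lit 279) (nat_lit 248)) (XT.lf (nat_lit 0) (nat_lit 39386559103) (nat_lit 76) (nat_lit 1554075868) (nat_lit 76) (nat_lit 60431197) (nat_lit 35) (nat_lit 4) (nat_lit 36) (nat_lit 5) (nat_lit 36) (nat_lit 4) (nat_lit 494) (nat_lit 279) (nat_lit 247)))))) (XT.nd (nat_lit 50778) (nat_lit 0) (nat_lit 2356) (XT.nd (nat_lit 50466) (nat_lit 0) (nat_lit 3268) (XT.nd (nat_lit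 78) (nat_lit 76) (nat_lit 0) (XT.lf (nat_lit 0) (nat_lit 17621030361) (nat_lit 152) (nat_lit 7933416106) (nat_lit 0) (nat_lit 16144074105) (nat_lit 33) (nat_lit 5) (nat_lit 35) (nat_lit 4) (nat_lit 33) (nat_lit 4) (nat_lit 495) (nat_lit 279) (nat_lit 246)) (XT.nd (nat_lit 50310) (nat_lit 0) (nat_lit 3724) (XT.lf (nat_lit 0) (nat_lit 27896695846) (nat_lit 76) (nat_lit 8010456444) (nat_lit 76) (nat_lit 6507465434) (nat_lit 32) (nat_lit 4) (nat_lit 33) (nat_lit 5) (nat_lit 33) (nat_lit 4) (nat_lit 496) (nat_lit 279) (nat_lit 245)) (XT.lf (nat_lit 0) (nat_lit 2863376862) (nat_lit 152) (nat_lit 6266620509) (nat_lit 0) (nat_lit 2863376862) (nat_lit 81) (nat_lit 5) (nat_lit 83) (nat_lit 4) (nat_lit 81) (nat_lit 4) (nat_lit 460) (nat_lit 280) (nat_lit 280)))) (XT.nd (nat_lit 156) (nat_lit 228) (nat_lit 0) (XT.nd (nat_lit 78) (nat_lit 152) (nat_lit 0) (XT.lf (nat_lit 0) (nat_lit 11444471544) (nat_lit 76) (nat_lit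 6505472464) (nat_lit 76) (nat_lit 6391338545) (nat_lit 80) (nat_lit 4) (nat_lit 81) (nat_lit 5) (nat_lit 81) (nat_lit 4) (nat_lit 461) (nat_lit 280) (nat_lit 279)) (XT.lf (nat_lit 0) (nat_lit 5771265247) (nat_lit 152) (nat_lit 13379080202) (nat_lit 0) (nat_lit 5552873450) (nat_lit 78) (nat_lit 5) (nat_lit 80) (nat_lit 4) (nat_lit 78) (nat_lit 4) (nat_lit 462) (nat_lit 280) (nat_lit 278))) (XT.nd (nat_lit 78) (nat_lit 152) (nat_lit 0) (XT.lf (nat_lit 0) (nat_lit 11070592342) (nat_lit 76) (nat_lit 7162243317) (nat_lit 76) (nat_lit 6839402816) (nat_lit 77) (nat_lit 4) (nat_lit 78) (nat_lit 5) (nat_lit 78) (nat_lit 4) (nat_lit 463) (nat_lit 280) (nat_lit 277)) (XT.lf (nat_lit 0) (nat_lit 5556849651) (nat_lit 152) (nat_lit 14747384766) (nat_lit 0) (nat_lit 5144959349) (nat_lit 75) (nat_lit 5) (nat_lit 77) (nat_lit 4) (nat_lit 75) (nat_lit 4) (nat_lit 464) (nat_lit 280) (nat_lit 276))))) (XT.nd (nat_lit 312)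 (nat_lit 456) (nat_lit 0) (XT.nd (nat_lit 156) (nat_lit 228) (nat_lit 0) (XT.nd (nat_lit 78) (nat_lit 152) (nat_lit 0) (XT.lf (nat_lit 0) (nat_lit 10178139044) (nat_lit 76) (nat_lit 8081302656) (nat_lit 76) (nat_lit 7573826993) (nat_lit 74) (nat_lit 4) (nat_lit 75) (nat_lit 5) (nat_lit 75) (nat_lit 4) (nat_lit 465) (nat_lit 280) (nat_lit 275)) (XT.lf (nat_lit 0) (nat_lit 5061319412) (nat_lit 152) (nat_lit 16686139262) (nat_lit 0) (nat_lit 4478526223) (nat_lit 72) (nat_lit 5) (nat_lit 74) (nat_lit 4) (nat_lit 72) (nat_lit 4) (nat_lit 466) (nat_lit 280) (nat_lit 274))) (XT.nd (nat_lit 78) (nat_lit 152) (nat_lit 0) (XT.lf (nat_lit 0) (nat_lit 8718632568) (nat_lit 76) (nat_lit 9288673664) (nat_lit 76) (nat_lit 8618406329) (nat_lit 71) (nat_lit 4) (nat_lit 72) (nat_lit 5) (nat_lit 72) (nat_lit 4) (nat_lit 467) (nat_lit 280) (nat_lit 273)) (XT.lf (nat_lit 0) (nat_lit 4260799163) (nat_lit 152) (nat_lit 19246573743)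 (nat_lit 0) (nat_lit 3527601406) (nat_lit 69) (nat_lit 5) (nat_lit 71) (nat_lit 4) (nat_lit 69) (nat_lit 4) (nat_lit 468) (nat_lit 280) (nat_lit 272)))) (XT.nd (nat_lit 156) (nat_lit 228) (nat_lit 0) (XT.nd (nat_lit 78) (nat_lit 152) (nat_lit 0) (XT.lf (nat_lit 0) (nat_lit 6640294856) (nat_lit 76) (nat_lit 10811967520) (nat_lit 76) (nat_lit 9998718528) (nat_lit 68) (nat_lit 4) (nat_lit 69) (nat_lit 5) (nat_lit 69) (nat_lit 4) (nat_lit 469) (nat_lit 280) (nat_lit 271)) (XT.lf (nat_lit 0) (nat_lit 3129625695) (nat_lit 152) (nat_lit 22483384513) (nat_lit 0) (nat_lit 2264607600) (nat_lit 66) (nat_lit 5) (nat_lit 68) (nat_lit 4) (nat_lit 66) (nat_lit 4) (nat_lit 470) (nat_lit 280) (nat_lit 270))) (XT.nd (nat_lit 78) (nat_lit 152) (nat_lit 0) (XT.lf (nat_lit 0) (nat_lit 3887824293) (nat_lit 76) (nat_lit 12680505850) (nat_lit 76) (nat_lit 11742229535) (nat_lit 65) (nat_lit 4) (nat_lit 66) (nat_lit 5) (nat_lit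 66) (nat_lit 4) (nat_lit 471) (nat_lit 280) (nat_lit 269)) (XT.lf (nat_lit 0) (nat_lit 1640240831) (nat_lit 152) (nat_lit 26454967885) (nat_lit 0) (nat_lit 660240054) (nat_lit 63) (nat_lit 5) (nat_lit 65) (nat_lit 4) (nat_lit 63) (nat_lit 4) (nat_lit 472) (nat_lit 280) (nat_lit 268))))))) (XT.nd (nat_lit 1170) (nat_lit 912) (nat_lit 0) (XT.nd (nat_lit 546) (nat_lit 760) (nat_lit 0) (XT.nd (nat_lit 234) (nat_lit 456) (nat_lit 0) (XT.nd (nat_lit 78) (nat_lit 152) (nat_lit 0) (XT.lf (nat_lit 0) (nat_lit 402157857) (nat_lit 76) (nat_lit 14925449221) (nat_lit 76) (nat_lit 13878406795) (nat_lit 62) (nat_lit 4) (nat_lit 63) (nat_lit 5) (nat_lit 63) (nat_lit 4) (nat_lit 473) (nat_lit 280) (nat_lit 267)) (XT.nd (nat_lit 78) (nat_lit 152) (nat_lit 0) (XT.lf (nat_lit 0) (nat_lit 28130827290) (nat_lit 76) (nat_lit 1325242886) (nat_lit 76) (nat_lit 213111480) (nat_lit 62) (nat_lit 4) (nat_lit 63) (nat_lit 5) (nat_lit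 63) (nat_lit 4) (nat_lit 474) (nat_lit 280) (nat_lit 266)) (XT.lf (nat_lit 0) (nat_lit 13737446132) (nat_lit 152) (nat_lit 3804072388) (nat_lit 0) (nat_lit 12596354297) (nat_lit 60) (nat_lit 5) (nat_lit 62) (nat_lit 4) (nat_lit 60) (nat_lit 4) (nat_lit 475) (nat_lit 280) (nat_lit 265)))) (XT.nd (nat_lit 156) (nat_lit 228) (nat_lit 0) (XT.nd (nat_lit 78) (nat_lit 152) (nat_lit 0) (XT.lf (nat_lit 0) (nat_lit 24447893019) (nat_lit 76) (nat_lit 3686185314) (nat_lit 76) (nat_lit 2485527842) (nat_lit 59) (nat_lit 4) (nat_lit 60) (nat_lit 5) (nat_lit 60) (nat_lit 4) (nat_lit 476) (nat_lit 280) (nat_lit 264)) (XT.lf (nat_lit 0) (nat_lit 11740613711) (nat_lit 152) (nat_lit 8849231845) (nat_lit 0) (nat_lit 10518780519) (nat_lit 57) (nat_lit 5) (nat_lit 59) (nat_lit 4) (nat_lit 57) (nat_lit 4) (nat_lit 477) (nat_lit 280) (nat_lit 263))) (XT.nd (nat_lit 78) (nat_lit 152) (nat_lit 0) (XT.lf (nat_lit 0) (nat_lit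 19919086066) (nat_lit 76) (nat_lit 6483532670) (nat_lit 76) (nat_lit 5207188483) (nat_lit 56) (nat_lit 4) (nat_lit 57) (nat_lit 5) (nat_lit 57) (nat_lit 4) (nat_lit 478) (nat_lit 280) (nat_lit 262)) (XT.lf (nat_lit 0) (nat_lit 9299531263) (nat_lit 152) (nat_lit 14811685322) (nat_lit 0) (nat_lit 8008980307) (nat_lit 54) (nat_lit 5) (nat_lit 56) (nat_lit 4) (nat_lit 54) (nat_lit 4) (nat_lit 479) (nat_lit 280) (nat_lit 261))))) (XT.nd (nat_lit 312) (nat_lit 304) (nat_lit 0) (XT.nd (nat_lit 156) (nat_lit 228) (nat_lit 0) (XT.nd (nat_lit 78) (nat_lit 152) (nat_lit 0) (XT.lf (nat_lit 0) (nat_lit 14473036554) (nat_lit 76) (nat_lit 9754514262) (nat_lit 76) (nat_lit 8414078023) (nat_lit 53) (nat_lit 4) (nat_lit 54) (nat_lit 5) (nat_lit 54) (nat_lit 4) (nat_lit 480) (nat_lit 280) (nat_lit 260)) (XT.lf (nat_lit 0) (nat_lit 6378092596) (nat_lit 152) (nat_lit 21766719239) (nat_lit 0) (nat_lit 5029676526) (nat_lit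 51) (nat_lit 5) (nat_lit 53) (nat_lit 4) (nat_lit 51) (nat_lit 4) (nat_lit 481) (nat_lit 280) (nat_lit 259))) (XT.nd (nat_lit 78) (nat_lit 152) (nat_lit 0) (XT.lf (nat_lit 0) (nat_lit 8033525524) (nat_lit 76) (nat_lit 13538777700) (nat_lit 76) (nat_lit 12144709529) (nat_lit 50) (nat_lit 4) (nat_lit 51) (nat_lit 5) (nat_lit 51) (nat_lit 4) (nat_lit 482) (nat_lit 280) (nat_lit 258)) (XT.lf (nat_lit 0) (nat_lit 2937649385) (nat_lit 152) (nat_lit 29794701534) (nat_lit 0) (nat_lit 1541153658) (nat_lit 48) (nat_lit 5) (nat_lit 50) (nat_lit 4) (nat_lit 48) (nat_lit 4) (nat_lit 483) (nat_lit 280) (nat_lit 257)))) (XT.nd (nat_lit 156) (nat_lit 228) (nat_lit 0) (XT.nd (nat_lit 78) (nat_lit 0) (nat_lit 0) (XT.lf (nat_lit 0) (nat_lit 519166928) (nat_lit 76) (nat_lit 17878555281) (nat_lit 76) (nat_lit 16440281414) (nat_lit 47) (nat_lit 4) (nat_lit 48) (nat_lit 5) (nat_lit 48) (nat_lit 4) (nat_lit 484) (nat_lit 280)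 (nat_lit 256)) (XT.lf (nat_lit 0) (nat_lit 31890156493) (nat_lit 76) (nat_lit 2502984993) (nat_lit 76) (nat_lit 1024149827) (nat_lit 47) (nat_lit 4) (nat_lit 48) (nat_lit 5) (nat_lit 48) (nat_lit 4) (nat_lit 485) (nat_lit 280) (nat_lit 255))) (XT.nd (nat_lit 78) (nat_lit 76) (nat_lit 0) (XT.lf (nat_lit 0) (nat_lit 14740319451) (nat_lit 152) (nat_lit 7997758701) (nat_lit 0) (nat_lit 13266324238) (nat_lit 45) (nat_lit 5) (nat_lit 47) (nat_lit 4) (nat_lit 45) (nat_lit 4) (nat_lit 486) (nat_lit 280) (nat_lit 254)) (XT.lf (nat_lit 0) (nat_lit 23928241081) (nat_lit 76) (nat_lit 7094858614) (nat_lit 76) (nat_lit 5583744065) (nat_lit 44) (nat_lit 4) (nat_lit 45) (nat_lit 5) (nat_lit 45) (nat_lit 4) (nat_lit 487) (nat_lit 280) (nat_lit 253)))))) (XT.nd (nat_lit 624) (nat_lit 76) (nat_lit 0) (XT.nd (nat_lit 312) (nat_lit 380) (nat_lit 0) (XT.nd (nat_lit 156) (nat_lit 228) (nat_lit 0) (XT.nd (nat_lit 78) (nat_lit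 76) (nat_lit 0) (XT.lf (nat_lit 0) (nat_lit 10493921256) (nat_lit 152) (nat_lit 17734565101) (nat_lit 0) (nat_lit 8991831219) (nat_lit 42) (nat_lit 5) (nat_lit 44) (nat_lit 4) (nat_lit 42) (nat_lit 4) (nat_lit 488) (nat_lit 280) (nat_lit 252)) (XT.lf (nat_lit 0) (nat_lit 14733126810) (nat_lit 76) (nat_lit 12324988476) (nat_lit 76) (nat_lit 10788928988) (nat_lit 41) (nat_lit 4) (nat_lit 42) (nat_lit 5) (nat_lit 42) (nat_lit 4) (nat_lit 489) (nat_lit 280) (nat_lit 251))) (XT.nd (nat_lit 78) (nat_lit 76) (nat_lit 0) (XT.lf (nat_lit 0) (nat_lit 5606575608) (nat_lit 152) (nat_lit 28798447016) (nat_lit 0) (nat_lit 4083236252) (nat_lit 39) (nat_lit 5) (nat_lit 41) (nat_lit 4) (nat_lit 39) (nat_lit 4) (nat_lit 490) (nat_lit 280) (nat_lit 250)) (XT.lf (nat_lit 0) (nat_lit 4206468048) (nat_lit 76) (nat_lit 18244129244) (nat_lit 76) (nat_lit 16689703028) (nat_lit 38) (nat_lit 4) (nat_lit 39) (nat_lit 5) (nat_lit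 39) (nat_lit 4) (nat_lit 491) (nat_lit 280) (nat_lit 249)))) (XT.nd (nat_lit 156) (nat_lit 228) (nat_lit 0) (XT.nd (nat_lit 78) (nat_lit 76) (nat_lit 0) (XT.lf (nat_lit 0) (nat_lit 57293217) (nat_lit 152) (nat_lit 1468302401) (nat_lit 76) (nat_lit 38284240146) (nat_lit 37) (nat_lit 5) (nat_lit 39) (nat_lit 5) (nat_lit 38) (nat_lit 4) (nat_lit 492) (nat_lit 280) (nat_lit 248)) (XT.lf (nat_lit 0) (nat_lit 17224233249) (nat_lit 152) (nat_lit 7605346913) (nat_lit 0) (nat_lit 15657330358) (nat_lit 36) (nat_lit 5) (nat_lit 38) (nat_lit 4) (nat_lit 36) (nat_lit 4) (nat_lit 493) (nat_lit 280) (nat_lit 247))) (XT.nd (nat_lit 78) (nat_lit 152) (nat_lit 0) (XT.lf (nat_lit 0) (nat_lit 27182311083) (nat_lit 76) (nat_lit 7797155523) (nat_lit 76) (nat_lit 6202632360) (nat_lit 35) (nat_lit 4) (nat_lit 36) (nat_lit 5) (nat_lit 36) (nat_lit 4) (nat_lit 494) (nat_lit 280) (nat_lit 246)) (XT.lf (nat_lit 0) (nat_lit 11305415966)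 (nat_lit 152) (nat_lit 20853406303) (nat_lit 0) (nat_lit 9731300469) (nat_lit 33) (nat_lit 5) (nat_lit 35) (nat_lit 4) (nat_lit 33) (nat_lit 4) (nat_lit 495) (nat_lit 280) (nat_lit 245))))) (XT.nd (nat_lit 50388) (nat_lit 0) (nat_lit 3268) (XT.nd (nat_lit 50232) (nat_lit 0) (nat_lit 3724) (XT.nd (nat_lit 50154) (nat_lit 0) (nat_lit 3952) (XT.lf (nat_lit 0) (nat_lit 14497967028) (nat_lit 76) (nat_lit 14857365491) (nat_lit 76) (nat_lit 13257973533) (nat_lit 32) (nat_lit 4) (nat_lit 33) (nat_lit 5) (nat_lit 33) (nat_lit 4) (nat_lit 496) (nat_lit 280) (nat_lit 244)) (XT.lf (nat_lit 0) (nat_lit 2839937904) (nat_lit 152) (nat_lit 5967669683) (nat_lit 0) (nat_lit 2839937904) (nat_lit 84) (nat_lit 5) (nat_lit 86) (nat_lit 4) (nat_lit 84) (nat_lit 4) (nat_lit 458) (nat_lit 281) (nat_lit 281))) (XT.nd (nat_lit 78) (nat_lit 152) (nat_lit 0) (XT.lf (nat_lit 0) (nat_lit 11345168912) (nat_lit 76) (nat_lit 6207522686)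 (nat_lit 76) (nat_lit 6086438011) (nat_lit 83) (nat_lit 4) (nat_lit 84) (nat_lit 5) (nat_lit 84) (nat_lit 4) (nat_lit 459) (nat_lit 281) (nat_lit 280)) (XT.lf (nat_lit 0) (nat_lit 5726086815) (nat_lit 152) (nat_lit 12769813439) (nat_lit 0) (nat_lit 5494394958) (nat_lit 81) (nat_lit 5) (nat_lit 83) (nat_lit 4) (nat_lit 81) (nat_lit 4) (nat_lit 460) (nat_lit 281) (nat_lit 279)))) (XT.nd (nat_lit 156) (nat_lit 228) (nat_lit 0) (XT.nd (nat_lit 78) (nat_lit 152) (nat_lit 0) (XT.lf (nat_lit 0) (nat_lit 10968937785) (nat_lit 76) (nat_lit 6860986789) (nat_lit 76) (nat_lit 6518485301) (nat_lit 80) (nat_lit 4) (nat_lit 81) (nat_lit 5) (nat_lit 81) (nat_lit 4) (nat_lit 461) (nat_lit 281) (nat_lit 278)) (XT.lf (nat_lit 0) (nat_lit 5520274385) (nat_lit 152) (nat_lit 14110598294) (nat_lit 0) (nat_lit 5083299963) (nat_lit 78) (nat_lit 5) (nat_lit 80) (nat_lit 4) (nat_lit 78) (nat_lit 4) (nat_lit 462) (nat_lit 281)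 (nat_lit 277))) (XT.nd (nat_lit 78) (nat_lit 152) (nat_lit 0) (XT.lf (nat_lit 0) (nat_lit 10090167568) (nat_lit 76) (nat_lit 7767564481) (nat_lit 76) (nat_lit 7229183550) (nat_lit 77) (nat_lit 4) (nat_lit 78) (nat_lit 5) (nat_lit 78) (nat_lit 4) (nat_lit 463) (nat_lit 281) (nat_lit 276)) (XT.lf (nat_lit 0) (nat_lit 5040962533) (nat_lit 152) (nat_lit 16004354895) (nat_lit 0) (nat_lit 4422677239) (nat_lit 75) (nat_lit 5) (nat_lit 77) (nat_lit 4) (nat_lit 75) (nat_lit 4) (nat_lit 464) (nat_lit 281) (nat_lit 275))))))))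
noncomputable def xc6 : XT := (XT.nd (nat_lit 2340) (nat_lit 228) (nat_lit 0) (XT.nd (nat_lit 1170) (nat_lit 1444) (nat_lit 0) (XT.nd (nat_lit 546) (nat_lit 836) (nat_lit 0) (XT.nd (nat_lit 234) (nat_lit 456) (nat_lit 0) (XT.nd (nat_lit 78) (nat_lit 228) (nat_lit 0) (XT.lf (nat_lit 0) (nat_lit 8661717812) (nat_lit 76) (nat_lit 8952656898) (nat_lit 76) (nat_lit 8241570282) (nat_lit 74) (nat_lit 4) (nat_lit 75) (nat_lit 5) (nat_lit 75) (nat_lit 4) (nat_lit 465) (nat_lit 281) (nat_lit 274)) (XT.nd (nat_lit 78) (nat_lit 76) (nat_lit 0) (XT.lf (nat_lit 0) (nat_lit 4265030732) (nat_lit 152) (nat_lit 18500889059) (nat_lit 0) (nat_lit 3487181231) (nat_lit 72) (nat_lit 5) (nat_lit 74) (nat_lit 4) (nat_lit 72) (nat_lit 4) (nat_lit 466) (nat_lit 281) (nat_lit 273)) (XT.lf (nat_lit 0) (nat_lit 6633251237) (nat_lit 76) (nat_lit 10443195219) (nat_lit 76) (nat_lit 9580419363) (nat_lit 71) (nat_lit 4) (nat_lit 72)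 (nat_lit 5) (nat_lit 72) (nat_lit 4) (nat_lit 467) (nat_lit 281) (nat_lit 272)))) (XT.nd (nat_lit 156) (nat_lit 228) (nat_lit 0) (XT.nd (nat_lit 78) (nat_lit 76) (nat_lit 0) (XT.lf (nat_lit 0) (nat_lit 3167617319) (nat_lit 152) (nat_lit 21653366287) (nat_lit 0) (nat_lit 2249919622) (nat_lit 69) (nat_lit 5) (nat_lit 71) (nat_lit 4) (nat_lit 69) (nat_lit 4) (nat_lit 468) (nat_lit 281) (nat_lit 271)) (XT.lf (nat_lit 0) (nat_lit 3951015193) (nat_lit 76) (nat_lit 12267760556) (nat_lit 76) (nat_lit 11272343214) (nat_lit 68) (nat_lit 4) (nat_lit 69) (nat_lit 5) (nat_lit 69) (nat_lit 4) (nat_lit 469) (nat_lit 281) (nat_lit 270))) (XT.nd (nat_lit 78) (nat_lit 76) (nat_lit 0) (XT.lf (nat_lit 0) (nat_lit 1722015966) (nat_lit 152) (nat_lit 25518539188) (nat_lit 0) (nat_lit 682333142) (nat_lit 66) (nat_lit 5) (nat_lit 68) (nat_lit 4) (nat_lit 66) (nat_lit 4) (nat_lit 470) (nat_lit 281) (nat_lit 269)) (XT.lf (nat_lit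 0) (nat_lit 557610263) (nat_lit 76) (nat_lit 14456709614) (nat_lit 76) (nat_lit 13345902304) (nat_lit 65) (nat_lit 4) (nat_lit 66) (nat_lit 5) (nat_lit 66) (nat_lit 4) (nat_lit 471) (nat_lit 281) (nat_lit 268))))) (XT.nd (nat_lit 312) (nat_lit 456) (nat_lit 0) (XT.nd (nat_lit 156) (nat_lit 228) (nat_lit 0) (XT.nd (nat_lit 78) (nat_lit 152) (nat_lit 0) (XT.lf (nat_lit 0) (nat_lit 27476676160) (nat_lit 76) (nat_lit 1256513120) (nat_lit 76) (nat_lit 76652911) (nat_lit 65) (nat_lit 4) (nat_lit 66) (nat_lit 5) (nat_lit 66) (nat_lit 4) (nat_lit 472) (nat_lit 281) (nat_lit 267)) (XT.lf (nat_lit 0) (nat_lit 13468736562) (nat_lit 152) (nat_lit 3537844780) (nat_lit 0) (nat_lit 12258152235) (nat_lit 63) (nat_lit 5) (nat_lit 65) (nat_lit 4) (nat_lit 63) (nat_lit 4) (nat_lit 473) (nat_lit 281) (nat_lit 266))) (XT.nd (nat_lit 78) (nat_lit 152) (nat_lit 0) (XT.lf (nat_lit 0) (nat_lit 23892536184) (nat_lit 76) (nat_lit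 3556789454) (nat_lit 76) (nat_lit 2283011942) (nat_lit 62) (nat_lit 4) (nat_lit 63) (nat_lit 5) (nat_lit 63) (nat_lit 4) (nat_lit 474) (nat_lit 281) (nat_lit 265)) (XT.lf (nat_lit 0) (nat_lit 11529623270) (nat_lit 152) (nat_lit 8443971357) (nat_lit 0) (nat_lit 10233380437) (nat_lit 60) (nat_lit 5) (nat_lit 62) (nat_lit 4) (nat_lit 60) (nat_lit 4) (nat_lit 475) (nat_lit 281) (nat_lit 264)))) (XT.nd (nat_lit 156) (nat_lit 228) (nat_lit 0) (XT.nd (nat_lit 78) (nat_lit 152) (nat_lit 0) (XT.lf (nat_lit 0) (nat_lit 19487718393) (nat_lit 76) (nat_lit 6279911177) (nat_lit 76) (nat_lit 4925837629) (nat_lit 59) (nat_lit 4) (nat_lit 60) (nat_lit 5) (nat_lit 60) (nat_lit 4) (nat_lit 476) (nat_lit 281) (nat_lit 263)) (XT.lf (nat_lit 0) (nat_lit 9158924749) (nat_lit 152) (nat_lit 14240156794) (nat_lit 0) (nat_lit 7789779240) (nat_lit 57) (nat_lit 5) (nat_lit 59) (nat_lit 4) (nat_lit 57) (nat_lit 4) (nat_lit 477)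 (nat_lit 281) (nat_lit 262))) (XT.nd (nat_lit 78) (nat_lit 152) (nat_lit 0) (XT.lf (nat_lit 0) (nat_lit 14192889014) (nat_lit 76) (nat_lit 9462099971) (nat_lit 76) (nat_lit 8040031166) (nat_lit 56) (nat_lit 4) (nat_lit 57) (nat_lit 5) (nat_lit 57) (nat_lit 4) (nat_lit 478) (nat_lit 281) (nat_lit 261)) (XT.lf (nat_lit 0) (nat_lit 6321618827) (nat_lit 152) (nat_lit 20999534171) (nat_lit 0) (nat_lit 4891084218) (nat_lit 54) (nat_lit 5) (nat_lit 56) (nat_lit 4) (nat_lit 54) (nat_lit 4) (nat_lit 479) (nat_lit 281) (nat_lit 260)))))) (XT.nd (nat_lit 546) (nat_lit 760) (nat_lit 0) (XT.nd (nat_lit 234) (nat_lit 380) (nat_lit 0) (XT.nd (nat_lit 78) (nat_lit 228) (nat_lit 0) (XT.lf (nat_lit 0) (nat_lit 7934009904) (nat_lit 76) (nat_lit 13141918737) (nat_lit 76) (nat_lit 11662951814) (nat_lit 53) (nat_lit 4) (nat_lit 54) (nat_lit 5) (nat_lit 54) (nat_lit 4) (nat_lit 480) (nat_lit 281) (nat_lit 259)) (XT.nd (nat_lit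 78) (nat_lit 76) (nat_lit 0) (XT.lf (nat_lit 0) (nat_lit 2980212225) (nat_lit 152) (nat_lit 28800166863) (nat_lit 0) (nat_lit 1498669908) (nat_lit 51) (nat_lit 5) (nat_lit 53) (nat_lit 4) (nat_lit 51) (nat_lit 4) (nat_lit 481) (nat_lit 281) (nat_lit 258)) (XT.lf (nat_lit 0) (nat_lit 632029523) (nat_lit 76) (nat_lit 17360433699) (nat_lit 76) (nat_lit 15834568955) (nat_lit 50) (nat_lit 4) (nat_lit 51) (nat_lit 5) (nat_lit 51) (nat_lit 4) (nat_lit 482) (nat_lit 281) (nat_lit 257)))) (XT.nd (nat_lit 156) (nat_lit 228) (nat_lit 0) (XT.nd (nat_lit 78) (nat_lit 152) (nat_lit 0) (XT.lf (nat_lit 0) (nat_lit 31088071818) (nat_lit 76) (nat_lit 2435118010) (nat_lit 76) (nat_lit 866221782) (nat_lit 50) (nat_lit 4) (nat_lit 51) (nat_lit 5) (nat_lit 51) (nat_lit 4) (nat_lit 483) (nat_lit 281) (nat_lit 256)) (XT.lf (nat_lit 0) (nat_lit 14438894538) (nat_lit 152) (nat_lit 7645288690) (nat_lit 0) (nat_lit 12875133016)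 (nat_lit 48) (nat_lit 5) (nat_lit 50) (nat_lit 4) (nat_lit 48) (nat_lit 4) (nat_lit 484) (nat_lit 281) (nat_lit 255))) (XT.nd (nat_lit 78) (nat_lit 152) (nat_lit 0) (XT.lf (nat_lit 0) (nat_lit 23352081572) (nat_lit 76) (nat_lit 6897601356) (nat_lit 76) (nat_lit 5294459932) (nat_lit 47) (nat_lit 4) (nat_lit 48) (nat_lit 5) (nat_lit 48) (nat_lit 4) (nat_lit 485) (nat_lit 281) (nat_lit 254)) (XT.lf (nat_lit 0) (nat_lit 10314562781) (nat_lit 152) (nat_lit 17104090433) (nat_lit 0) (nat_lit 8720995460) (nat_lit 45) (nat_lit 5) (nat_lit 47) (nat_lit 4) (nat_lit 45) (nat_lit 4) (nat_lit 486) (nat_lit 281) (nat_lit 253))))) (XT.nd (nat_lit 312) (nat_lit 380) (nat_lit 0) (XT.nd (nat_lit 156) (nat_lit 152) (nat_lit 0) (XT.nd (nat_lit 78) (nat_lit 152) (nat_lit 0) (XT.lf (nat_lit 0) (nat_lit 14419178682) (nat_lit 76) (nat_lit 11979242267) (nat_lit 76) (nat_lit 10349636756) (nat_lit 44) (nat_lit 4) (nat_lit 45)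 (nat_lit 5) (nat_lit 45) (nat_lit 4) (nat_lit 487) (nat_lit 281) (nat_lit 252)) (XT.lf (nat_lit 0) (nat_lit 5567819905) (nat_lit 152) (nat_lit 27850973066) (nat_lit 0) (nat_lit 3951709182) (nat_lit 42) (nat_lit 5) (nat_lit 44) (nat_lit 4) (nat_lit 42) (nat_lit 4) (nat_lit 488) (nat_lit 281) (nat_lit 251))) (XT.nd (nat_lit 78) (nat_lit 76) (nat_lit 0) (XT.lf (nat_lit 0) (nat_lit 4193854798) (nat_lit 76) (nat_lit 17729364335) (nat_lit 76) (nat_lit 16080273563) (nat_lit 41) (nat_lit 4) (nat_lit 42) (nat_lit 5) (nat_lit 42) (nat_lit 4) (nat_lit 489) (nat_lit 281) (nat_lit 250)) (XT.lf (nat_lit 0) (nat_lit 177436382) (nat_lit 152) (nat_lit 1320914379) (nat_lit 76) (nat_lit 37155113880) (nat_lit 40) (nat_lit 5) (nat_lit 42) (nat_lit 5) (nat_lit 41) (nat_lit 4) (nat_lit 490) (nat_lit 281) (nat_lit 249)))) (XT.nd (nat_lit 156) (nat_lit 228) (nat_lit 0) (XT.nd (nat_lit 78) (nat_lit 76) (nat_lit 0) (XT.lf (nat_lit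 0) (nat_lit 16846084336) (nat_lit 152) (nat_lit 7280925904) (nat_lit 0) (nat_lit 15183757058) (nat_lit 39) (nat_lit 5) (nat_lit 41) (nat_lit 4) (nat_lit 39) (nat_lit 4) (nat_lit 491) (nat_lit 281) (nat_lit 248)) (XT.lf (nat_lit 0) (nat_lit 26494710391) (nat_lit 76) (nat_lit 7591286063) (nat_lit 76) (nat_lit 5899656439) (nat_lit 38) (nat_lit 4) (nat_lit 39) (nat_lit 5) (nat_lit 39) (nat_lit 4) (nat_lit 492) (nat_lit 281) (nat_lit 247))) (XT.nd (nat_lit 78) (nat_lit 76) (nat_lit 0) (XT.lf (nat_lit 0) (nat_lit 11097632167) (nat_lit 152) (nat_lit 20147687027) (nat_lit 0) (nat_lit 9427653037) (nat_lit 36) (nat_lit 5) (nat_lit 38) (nat_lit 4) (nat_lit 36) (nat_lit 4) (nat_lit 493) (nat_lit 281) (nat_lit 246)) (XT.lf (nat_lit 0) (nat_lit 14175225832) (nat_lit 76) (nat_lit 14448304908) (nat_lit 76) (nat_lit 12751509980) (nat_lit 35) (nat_lit 4) (nat_lit 36) (nat_lit 5) (nat_lit 36) (nat_lit 4) (nat_lit 494)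 (nat_lit 281) (nat_lit 245))))))) (XT.nd (nat_lit 51090) (nat_lit 0) (nat_lit 1216) (XT.nd (nat_lit 50466) (nat_lit 0) (nat_lit 2812) (XT.nd (nat_lit 50154) (nat_lit 0) (nat_lit 3724) (XT.nd (nat_lit 78) (nat_lit 76) (nat_lit 0) (XT.lf (nat_lit 0) (nat_lit 4582293683) (nat_lit 152) (nat_lit 34602076964) (nat_lit 0) (nat_lit 2909643506) (nat_lit 33) (nat_lit 5) (nat_lit 35) (nat_lit 4) (nat_lit 33) (nat_lit 4) (nat_lit 495) (nat_lit 281) (nat_lit 244)) (XT.nd (nat_lit 49998) (nat_lit 0) (nat_lit 4180) (XT.lf (nat_lit 0) (nat_lit 260519909) (nat_lit 76) (nat_lit 22130551083) (nat_lit 76) (nat_lit 20433360652) (nat_lit 32) (nat_lit 4) (nat_lit 33) (nat_lit 5) (nat_lit 33) (nat_lit 4) (nat_lit 496) (nat_lit 281) (nat_lit 243)) (XT.lf (nat_lit 0) (nat_lit 2820833220) (nat_lit 152) (nat_lit 5670335703) (nat_lit 0) (nat_lit 2820833220) (nat_lit 87) (nat_lit 5) (nat_lit 89) (nat_lit 4) (nat_lit 87) (nat_lit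 4) (nat_lit 456) (nat_lit 282) (nat_lit 282)))) (XT.nd (nat_lit 156) (nat_lit 228) (nat_lit 0) (XT.nd (nat_lit 78) (nat_lit 152) (nat_lit 0) (XT.lf (nat_lit 0) (nat_lit 11263011108) (nat_lit 76) (nat_lit 5911645235) (nat_lit 76) (nat_lit 5783186502) (nat_lit 86) (nat_lit 4) (nat_lit 87) (nat_lit 5) (nat_lit 87) (nat_lit 4) (nat_lit 457) (nat_lit 282) (nat_lit 281)) (XT.lf (nat_lit 0) (nat_lit 5689709886) (nat_lit 152) (nat_lit 12164919595) (nat_lit 0) (nat_lit 5443907995) (nat_lit 84) (nat_lit 5) (nat_lit 86) (nat_lit 4) (nat_lit 84) (nat_lit 4) (nat_lit 458) (nat_lit 282) (nat_lit 280))) (XT.nd (nat_lit 78) (nat_lit 152) (nat_lit 0) (XT.lf (nat_lit 0) (nat_lit 10883690144) (nat_lit 76) (nat_lit 6562862490) (nat_lit 76) (nat_lit 6199502661) (nat_lit 83) (nat_lit 4) (nat_lit 84) (nat_lit 5) (nat_lit 84) (nat_lit 4) (nat_lit 459) (nat_lit 282) (nat_lit 279)) (XT.lf (nat_lit 0) (nat_lit 5492393648) (nat_lit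 152) (nat_lit 13479737416) (nat_lit 0) (nat_lit 5028807484) (nat_lit 81) (nat_lit 5) (nat_lit 83) (nat_lit 4) (nat_lit 81) (nat_lit 4) (nat_lit 460) (nat_lit 282) (nat_lit 278))))) (XT.nd (nat_lit 312) (nat_lit 456) (nat_lit 0) (XT.nd (nat_lit 156) (nat_lit 228) (nat_lit 0) (XT.nd (nat_lit 78) (nat_lit 152) (nat_lit 0) (XT.lf (nat_lit 0) (nat_lit 10017454751) (nat_lit 76) (nat_lit 7458192162) (nat_lit 76) (nat_lit 6887023832) (nat_lit 80) (nat_lit 4) (nat_lit 81) (nat_lit 5) (nat_lit 81) (nat_lit 4) (nat_lit 461) (nat_lit 282) (nat_lit 277)) (XT.lf (nat_lit 0) (nat_lit 5028936539) (nat_lit 152) (nat_lit 15330505306) (nat_lit 0) (nat_lit 4372997671) (nat_lit 78) (nat_lit 5) (nat_lit 80) (nat_lit 4) (nat_lit 78) (nat_lit 4) (nat_lit 462) (nat_lit 282) (nat_lit 276))) (XT.nd (nat_lit 78) (nat_lit 152) (nat_lit 0) (XT.lf (nat_lit 0) (nat_lit 8618459650) (nat_lit 76) (nat_lit 8622439729) (nat_lit 76) (nat_lit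 7868047939) (nat_lit 77) (nat_lit 4) (nat_lit 78) (nat_lit 5) (nat_lit 78) (nat_lit 4) (nat_lit 463) (nat_lit 282) (nat_lit 275)) (XT.lf (nat_lit 0) (nat_lit 4276954500) (nat_lit 152) (nat_lit 17765650461) (nat_lit 0) (nat_lit 3451733965) (nat_lit 75) (nat_lit 5) (nat_lit 77) (nat_lit 4) (nat_lit 75) (nat_lit 4) (nat_lit 464) (nat_lit 282) (nat_lit 274)))) (XT.nd (nat_lit 156) (nat_lit 228) (nat_lit 0) (XT.nd (nat_lit 78) (nat_lit 152) (nat_lit 0) (XT.lf (nat_lit 0) (nat_lit 6637762281) (nat_lit 76) (nat_lit 10081883747) (nat_lit 76) (nat_lit 9166564842) (nat_lit 74) (nat_lit 4) (nat_lit 75) (nat_lit 5) (nat_lit 75) (nat_lit 4) (nat_lit 465) (nat_lit 282) (nat_lit 273)) (XT.lf (nat_lit 0) (nat_lit 3212367368) (nat_lit 152) (nat_lit 20836855962) (nat_lit 0) (nat_lit 2238781882) (nat_lit 72) (nat_lit 5) (nat_lit 74) (nat_lit 4) (nat_lit 72) (nat_lit 4) (nat_lit 466) (nat_lit 282) (nat_lit 272))) (XT.nd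 (nat_lit 78) (nat_lit 152) (nat_lit 0) (XT.lf (nat_lit 0) (nat_lit 4023110077) (nat_lit 76) (nat_lit 11864393291) (nat_lit 76) (nat_lit 10808355033) (nat_lit 71) (nat_lit 4) (nat_lit 72) (nat_lit 5) (nat_lit 72) (nat_lit 4) (nat_lit 467) (nat_lit 282) (nat_lit 271)) (XT.lf (nat_lit 0) (nat_lit 1809298844) (nat_lit 152) (nat_lit 24599282068) (nat_lit 0) (nat_lit 706299336) (nat_lit 69) (nat_lit 5) (nat_lit 71) (nat_lit 4) (nat_lit 69) (nat_lit 4) (nat_lit 468) (nat_lit 282) (nat_lit 270)))))) (XT.nd (nat_lit 624) (nat_lit 836) (nat_lit 0) (XT.nd (nat_lit 312) (nat_lit 456) (nat_lit 0) (XT.nd (nat_lit 156) (nat_lit 152) (nat_lit 0) (XT.nd (nat_lit 78) (nat_lit 76) (nat_lit 0) (XT.lf (nat_lit 0) (nat_lit 718715323) (nat_lit 76) (nat_lit 13999550933) (nat_lit 76) (nat_lit 12821095458) (nat_lit 68) (nat_lit 4) (nat_lit 69) (nat_lit 5) (nat_lit 69) (nat_lit 4) (nat_lit 469) (nat_lit 282) (nat_lit 269)) (XT.lf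 (nat_lit 0) (nat_lit 62519193) (nat_lit 152) (nat_lit 1124799731) (nat_lit 76) (nat_lit 26788487736) (nat_lit 67) (nat_lit 5) (nat_lit 69) (nat_lit 5) (nat_lit 68) (nat_lit 4) (nat_lit 470) (nat_lit 282) (nat_lit 268))) (XT.nd (nat_lit 78) (nat_lit 76) (nat_lit 0) (XT.lf (nat_lit 0) (nat_lit 13215856368) (nat_lit 152) (nat_lit 3269905725) (nat_lit 0) (nat_lit 11931547455) (nat_lit 66) (nat_lit 5) (nat_lit 68) (nat_lit 4) (nat_lit 66) (nat_lit 4) (nat_lit 471) (nat_lit 282) (nat_lit 267)) (XT.lf (nat_lit 0) (nat_lit 23362898900) (nat_lit 76) (nat_lit 3429820702) (nat_lit 76) (nat_lit 2078470140) (nat_lit 65) (nat_lit 4) (nat_lit 66) (nat_lit 5) (nat_lit 66) (nat_lit 4) (nat_lit 472) (nat_lit 282) (nat_lit 266)))) (XT.nd (nat_lit 156) (nat_lit 228) (nat_lit 0) (XT.nd (nat_lit 78) (nat_lit 76) (nat_lit 0) (XT.lf (nat_lit 0) (nat_lit 11332754204) (nat_lit 152) (nat_lit 8041530856) (nat_lit 0) (nat_lit 9957570183)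 (nat_lit 63) (nat_lit 5) (nat_lit 65) (nat_lit 4) (nat_lit 63) (nat_lit 4) (nat_lit 473) (nat_lit 282) (nat_lit 265)) (XT.lf (nat_lit 0) (nat_lit 19077976740) (nat_lit 76) (nat_lit 6081320260) (nat_lit 76) (nat_lit 4644783633) (nat_lit 62) (nat_lit 4) (nat_lit 63) (nat_lit 5) (nat_lit 63) (nat_lit 4) (nat_lit 474) (nat_lit 282) (nat_lit 264))) (XT.nd (nat_lit 78) (nat_lit 76) (nat_lit 0) (XT.lf (nat_lit 0) (nat_lit 9030346016) (nat_lit 152) (nat_lit 13676741407) (nat_lit 0) (nat_lit 7577819546) (nat_lit 60) (nat_lit 5) (nat_lit 62) (nat_lit 4) (nat_lit 60) (nat_lit 4) (nat_lit 475) (nat_lit 282) (nat_lit 263)) (XT.lf (nat_lit 0) (nat_lit 13929512201) (nat_lit 76) (nat_lit 9177696996) (nat_lit 76) (nat_lit 7669024201) (nat_lit 59) (nat_lit 4) (nat_lit 60) (nat_lit 5) (nat_lit 60) (nat_lit 4) (nat_lit 476) (nat_lit 282) (nat_lit 262))))) (XT.nd (nat_lit 312) (nat_lit 380) (nat_lit 0) (XT.nd (nat_lit 156)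 (nat_lit 228) (nat_lit 0) (XT.nd (nat_lit 78) (nat_lit 76) (nat_lit 0) (XT.lf (nat_lit 0) (nat_lit 6274664046) (nat_lit 152) (nat_lit 20246582240) (nat_lit 0) (nat_lit 4757009879) (nat_lit 57) (nat_lit 5) (nat_lit 59) (nat_lit 4) (nat_lit 57) (nat_lit 4) (nat_lit 477) (nat_lit 282) (nat_lit 261)) (XT.lf (nat_lit 0) (nat_lit 7845582055) (nat_lit 76) (nat_lit 12756464962) (nat_lit 76) (nat_lit 11187428954) (nat_lit 56) (nat_lit 4) (nat_lit 57) (nat_lit 5) (nat_lit 57) (nat_lit 4) (nat_lit 478) (nat_lit 282) (nat_lit 260))) (XT.nd (nat_lit 78) (nat_lit 76) (nat_lit 0) (XT.lf (nat_lit 0) (nat_lit 3029338210) (nat_lit 152) (nat_lit 27826881497) (nat_lit 0) (nat_lit 1457569967) (nat_lit 54) (nat_lit 5) (nat_lit 56) (nat_lit 4) (nat_lit 54) (nat_lit 4) (nat_lit 479) (nat_lit 282) (nat_lit 259)) (XT.lf (nat_lit 0) (nat_lit 749399081) (nat_lit 76) (nat_lit 16857562172) (nat_lit 76) (nat_lit 15238772264) (nat_lit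 53) (nat_lit 4) (nat_lit 54) (nat_lit 5) (nat_lit 54) (nat_lit 4) (nat_lit 480) (nat_lit 282) (nat_lit 258)))) (XT.nd (nat_lit 156) (nat_lit 228) (nat_lit 0) (XT.nd (nat_lit 78) (nat_lit 152) (nat_lit 0) (XT.lf (nat_lit 0) (nat_lit 30317068202) (nat_lit 76) (nat_lit 2369534396) (nat_lit 76) (nat_lit 705092388) (nat_lit 53) (nat_lit 4) (nat_lit 54) (nat_lit 5) (nat_lit 54) (nat_lit 4) (nat_lit 481) (nat_lit 282) (nat_lit 257)) (XT.lf (nat_lit 0) (nat_lit 14154038392) (nat_lit 152) (nat_lit 7295805687) (nat_lit 0) (nat_lit 12495043794) (nat_lit 51) (nat_lit 5) (nat_lit 53) (nat_lit 4) (nat_lit 51) (nat_lit 4) (nat_lit 482) (nat_lit 282) (nat_lit 256))) (XT.nd (nat_lit 78) (nat_lit 152) (nat_lit 0) (XT.lf (nat_lit 0) (nat_lit 22800058883) (nat_lit 76) (nat_lit 6706661253) (nat_lit 76) (nat_lit 5005888516) (nat_lit 50) (nat_lit 4) (nat_lit 51) (nat_lit 5) (nat_lit 51) (nat_lit 4) (nat_lit 483) (nat_lit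 282) (nat_lit 255)) (XT.lf (nat_lit 0) (nat_lit 10148119382) (nat_lit 152) (nat_lit 16485040529) (nat_lit 0) (nat_lit 8457503812) (nat_lit 48) (nat_lit 5) (nat_lit 50) (nat_lit 4) (nat_lit 48) (nat_lit 4) (nat_lit 484) (nat_lit 282) (nat_lit 254))))))))
noncomputable def xc7 : XT := (XT.nd (nat_lit 52182) (nat_lit 0) (nat_lit 0) (XT.nd (nat_lit 50934) (nat_lit 0) (nat_lit 2432) (XT.nd (nat_lit 546) (nat_lit 456) (nat_lit 0) (XT.nd (nat_lit 234) (nat_lit 380) (nat_lit 0) (XT.nd (nat_lit 78) (nat_lit 228) (nat_lit 0) (XT.lf (nat_lit 0) (nat_lit 14121388654) (nat_lit 76) (nat_lit 11644372288) (nat_lit 76) (nat_lit 9915523802) (nat_lit 47) (nat_lit 4) (nat_lit 48) (nat_lit 5) (nat_lit 48) (nat_lit 4) (nat_lit 485) (nat_lit 282) (nat_lit 253)) (XT.nd (nat_lit 78) (nat_lit 76) (nat_lit 0) (XT.lf (nat_lit 0) (nat_lit 5537777655) (nat_lit 152) (nat_lit 26924476575) (nat_lit 0) (nat_lit 3823245789) (nat_lit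 45) (nat_lit 5) (nat_lit 47) (nat_lit 4) (nat_lit 45) (nat_lit 4) (nat_lit 486) (nat_lit 282) (nat_lit 252)) (XT.lf (nat_lit 0) (nat_lit 4188302154) (nat_lit 76) (nat_lit 17230604584) (nat_lit 76) (nat_lit 15481084184) (nat_lit 44) (nat_lit 4) (nat_lit 45) (nat_lit 5) (nat_lit 45) (nat_lit 4) (nat_lit 487) (nat_lit 282) (nat_lit 251)))) (XT.nd (nat_lit 156) (nat_lit 228) (nat_lit 0) (XT.nd (nat_lit 78) (nat_lit 76) (nat_lit 0) (XT.lf (nat_lit 0) (nat_lit 301498577) (nat_lit 152) (nat_lit 1171447737) (nat_lit 76) (nat_lit 36058019062) (nat_lit 43) (nat_lit 5) (nat_lit 45) (nat_lit 5) (nat_lit 44) (nat_lit 4) (nat_lit 488) (nat_lit 282) (nat_lit 250)) (XT.lf (nat_lit 0) (nat_lit 16486472310) (nat_lit 152) (nat_lit 6959687073) (nat_lit 0) (nat_lit 14722909301) (nat_lit 42) (nat_lit 5) (nat_lit 44) (nat_lit 4) (nat_lit 42) (nat_lit 4) (nat_lit 489) (nat_lit 282) (nat_lit 249))) (XT.nd (nat_lit 78) (nat_lit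 152) (nat_lit 0) (XT.lf (nat_lit 0) (nat_lit 25833477635) (nat_lit 76) (nat_lit 7392705839) (nat_lit 76) (nat_lit 5598055971) (nat_lit 41) (nat_lit 4) (nat_lit 42) (nat_lit 5) (nat_lit 42) (nat_lit 4) (nat_lit 490) (nat_lit 282) (nat_lit 248)) (XT.lf (nat_lit 0) (nat_lit 10903299684) (nat_lit 152) (nat_lit 19456533866) (nat_lit 0) (nat_lit 9131618825) (nat_lit 39) (nat_lit 5) (nat_lit 41) (nat_lit 4) (nat_lit 39) (nat_lit 4) (nat_lit 491) (nat_lit 282) (nat_lit 247))))) (XT.nd (nat_lit 312) (nat_lit 152) (nat_lit 0) (XT.nd (nat_lit 156) (nat_lit 76) (nat_lit 0) (XT.nd (nat_lit 78) (nat_lit 152) (nat_lit 0) (XT.lf (nat_lit 0) (nat_lit 13867946223) (nat_lit 76) (nat_lit 14052600715) (nat_lit 76) (nat_lit 12252470976) (nat_lit 38) (nat_lit 4) (nat_lit 39) (nat_lit 5) (nat_lit 39) (nat_lit 4) (nat_lit 492) (nat_lit 282) (nat_lit 246)) (XT.lf (nat_lit 0) (nat_lit 4575498525) (nat_lit 152) (nat_lit 33494485354)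 (nat_lit 0) (nat_lit 2800983952) (nat_lit 36) (nat_lit 5) (nat_lit 38) (nat_lit 4) (nat_lit 36) (nat_lit 4) (nat_lit 493) (nat_lit 282) (nat_lit 245))) (XT.nd (nat_lit 78) (nat_lit 0) (nat_lit 0) (XT.lf (nat_lit 0) (nat_lit 353937936) (nat_lit 76) (nat_lit 21513335708) (nat_lit 76) (nat_lit 19712786379) (nat_lit 35) (nat_lit 4) (nat_lit 36) (nat_lit 5) (nat_lit 36) (nat_lit 4) (nat_lit 494) (nat_lit 282) (nat_lit 244)) (XT.lf (nat_lit 0) (nat_lit 35492777177) (nat_lit 76) (nat_lit 4319716424) (nat_lit 76) (nat_lit 2493890634) (nat_lit 35) (nat_lit 4) (nat_lit 36) (nat_lit 5) (nat_lit 36) (nat_lit 4) (nat_lit 495) (nat_lit 282) (nat_lit 243)))) (XT.nd (nat_lit 49920) (nat_lit 0) (nat_lit 4104) (XT.nd (nat_lit 49842) (nat_lit 0) (nat_lit 4332) (XT.lf (nat_lit 0) (nat_lit 15150819068) (nat_lit 152) (nat_lit 14538736632) (nat_lit 0) (nat_lit 13354347181) (nat_lit 33) (nat_lit 5) (nat_lit 35) (nat_lit 4)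 (nat_lit 33) (nat_lit 4) (nat_lit 496) (nat_lit 282) (nat_lit 242)) (XT.lf (nat_lit 0) (nat_lit 2806158951) (nat_lit 152) (nat_lit 5374139669) (nat_lit 0) (nat_lit 2806158951) (nat_lit 90) (nat_lit 5) (nat_lit 92) (nat_lit 4) (nat_lit 90) (nat_lit 4) (nat_lit 454) (nat_lit 283) (nat_lit 283))) (XT.nd (nat_lit 78) (nat_lit 152) (nat_lit 0) (XT.lf (nat_lit 0) (nat_lit 11198366745) (nat_lit 76) (nat_lit 5617377455) (nat_lit 76) (nat_lit 5481095586) (nat_lit 89) (nat_lit 4) (nat_lit 90) (nat_lit 5) (nat_lit 90) (nat_lit 4) (nat_lit 455) (nat_lit 283) (nat_lit 282)) (XT.lf (nat_lit 0) (nat_lit 5662333979) (nat_lit 152) (nat_lit 11563456905) (nat_lit 0) (nat_lit 5401562753) (nat_lit 87) (nat_lit 5) (nat_lit 89) (nat_lit 4) (nat_lit 87) (nat_lit 4) (nat_lit 456) (nat_lit 283) (nat_lit 281)))))) (XT.nd (nat_lit 624) (nat_lit 760) (nat_lit 0) (XT.nd (nat_lit 312) (nat_lit 456) (nat_lit 0) (XT.nd (nat_lit 156)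 (nat_lit 228) (nat_lit 0) (XT.nd (nat_lit 78) (nat_lit 152) (nat_lit 0) (XT.lf (nat_lit 0) (nat_lit 10815190416) (nat_lit 76) (nat_lit 6267435578) (nat_lit 76) (nat_lit 5881947136) (nat_lit 86) (nat_lit 4) (nat_lit 87) (nat_lit 5) (nat_lit 87) (nat_lit 4) (nat_lit 457) (nat_lit 283) (nat_lit 280)) (XT.lf (nat_lit 0) (nat_lit 5473418823) (nat_lit 152) (nat_lit 12853860886) (nat_lit 0) (nat_lit 4981600262) (nat_lit 84) (nat_lit 5) (nat_lit 86) (nat_lit 4) (nat_lit 84) (nat_lit 4) (nat_lit 458) (nat_lit 283) (nat_lit 279))) (XT.nd (nat_lit 78) (nat_lit 152) (nat_lit 0) (XT.lf (nat_lit 0) (nat_lit 9960329374) (nat_lit 76) (nat_lit 7152767912) (nat_lit 76) (nat_lit 6546815431) (nat_lit 83) (nat_lit 4) (nat_lit 84) (nat_lit 5) (nat_lit 84) (nat_lit 4) (nat_lit 459) (nat_lit 283) (nat_lit 278)) (XT.lf (nat_lit 0) (nat_lit 5025470024) (nat_lit 152) (nat_lit 14663633270) (nat_lit 0) (nat_lit 4329584479) (nat_lit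 81) (nat_lit 5) (nat_lit 83) (nat_lit 4) (nat_lit 81) (nat_lit 4) (nat_lit 460) (nat_lit 283) (nat_lit 277)))) (XT.nd (nat_lit 156) (nat_lit 228) (nat_lit 0) (XT.nd (nat_lit 78) (nat_lit 152) (nat_lit 0) (XT.lf (nat_lit 0) (nat_lit 8589191050) (nat_lit 76) (nat_lit 8297610412) (nat_lit 76) (nat_lit 7497276162) (nat_lit 80) (nat_lit 4) (nat_lit 81) (nat_lit 5) (nat_lit 81) (nat_lit 4) (nat_lit 461) (nat_lit 283) (nat_lit 276)) (XT.lf (nat_lit 0) (nat_lit 4296822386) (nat_lit 152) (nat_lit 17039867174) (nat_lit 0) (nat_lit 3421345920) (nat_lit 78) (nat_lit 5) (nat_lit 80) (nat_lit 4) (nat_lit 78) (nat_lit 4) (nat_lit 462) (nat_lit 283) (nat_lit 275))) (XT.nd (nat_lit 78) (nat_lit 152) (nat_lit 0) (XT.lf (nat_lit 0) (nat_lit 6654182628) (nat_lit 76) (nat_lit 9727616039) (nat_lit 76) (nat_lit 8756554213) (nat_lit 77) (nat_lit 4) (nat_lit 78) (nat_lit 5) (nat_lit 78) (nat_lit 4) (nat_lit 463) (nat_lit 283)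 (nat_lit 274)) (XT.lf (nat_lit 0) (nat_lit 3264157972) (nat_lit 152) (nat_lit 20032810459) (nat_lit 0) (nat_lit 2231281130) (nat_lit 75) (nat_lit 5) (nat_lit 77) (nat_lit 4) (nat_lit 75) (nat_lit 4) (nat_lit 464) (nat_lit 283) (nat_lit 273))))) (XT.nd (nat_lit 312) (nat_lit 380) (nat_lit 0) (XT.nd (nat_lit 156) (nat_lit 152) (nat_lit 0) (XT.nd (nat_lit 78) (nat_lit 152) (nat_lit 0) (XT.lf (nat_lit 0) (nat_lit 4104503946) (nat_lit 76) (nat_lit 11469969908) (nat_lit 76) (nat_lit 10349618919) (nat_lit 74) (nat_lit 4) (nat_lit 75) (nat_lit 5) (nat_lit 75) (nat_lit 4) (nat_lit 465) (nat_lit 283) (nat_lit 272)) (XT.lf (nat_lit 0) (nat_lit 1902409519) (nat_lit 152) (nat_lit 23696081106) (nat_lit 0) (nat_lit 732237340) (nat_lit 72) (nat_lit 5) (nat_lit 74) (nat_lit 4) (nat_lit 72) (nat_lit 4) (nat_lit 466) (nat_lit 283) (nat_lit 271))) (XT.nd (nat_lit 78) (nat_lit 76) (nat_lit 0) (XT.lf (nat_lit 0) (nat_lit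 885928382) (nat_lit 76) (nat_lit 13553509705) (nat_lit 76) (nat_lit 12303286291) (nat_lit 71) (nat_lit 4) (nat_lit 72) (nat_lit 5) (nat_lit 72) (nat_lit 4) (nat_lit 467) (nat_lit 283) (nat_lit 270)) (XT.lf (nat_lit 0) (nat_lit 204436710) (nat_lit 152) (nat_lit 912936536) (nat_lit 76) (nat_lit 26048977155) (nat_lit 70) (nat_lit 5) (nat_lit 72) (nat_lit 5) (nat_lit 71) (nat_lit 4) (nat_lit 468) (nat_lit 283) (nat_lit 269)))) (XT.nd (nat_lit 156) (nat_lit 228) (nat_lit 0) (XT.nd (nat_lit 78) (nat_lit 76) (nat_lit 0) (XT.lf (nat_lit 0) (nat_lit 12978831874) (nat_lit 152) (nat_lit 2999728612) (nat_lit 0) (nat_lit 11616308548) (nat_lit 69) (nat_lit 5) (nat_lit 71) (nat_lit 4) (nat_lit 69) (nat_lit 4) (nat_lit 469) (nat_lit 283) (nat_lit 268)) (XT.lf (nat_lit 0) (nat_lit 22858813289) (nat_lit 76) (nat_lit 3305126658) (nat_lit 76) (nat_lit 1871478846) (nat_lit 68) (nat_lit 4) (nat_lit 69) (nat_lit 5) (nat_lit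 69) (nat_lit 4) (nat_lit 470) (nat_lit 283) (nat_lit 267))) (XT.nd (nat_lit 78) (nat_lit 76) (nat_lit 0) (XT.lf (nat_lit 0) (nat_lit 11150080952) (nat_lit 152) (nat_lit 7641281098) (nat_lit 0) (nat_lit 9691148224) (nat_lit 66) (nat_lit 5) (nat_lit 68) (nat_lit 4) (nat_lit 66) (nat_lit 4) (nat_lit 471) (nat_lit 283) (nat_lit 266)) (XT.lf (nat_lit 0) (nat_lit 18689783094) (nat_lit 76) (nat_lit 5887558580) (nat_lit 76) (nat_lit 4363536872) (nat_lit 65) (nat_lit 4) (nat_lit 66) (nat_lit 5) (nat_lit 66) (nat_lit 4) (nat_lit 472) (nat_lit 283) (nat_lit 265))))))) (XT.nd (nat_lit 1170) (nat_lit 912) (nat_lit 0) (XT.nd (nat_lit 546) (nat_lit 836) (nat_lit 0) (XT.nd (nat_lit 234) (nat_lit 304) (nat_lit 0) (XT.nd (nat_lit 78) (nat_lit 228) (nat_lit 0) (XT.lf (nat_lit 0) (nat_lit 8913927826) (nat_lit 152) (nat_lit 13120683176) (nat_lit 0) (nat_lit 7372942494) (nat_lit 63) (nat_lit 5) (nat_lit 65) (nat_lit 4) (nat_lit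 63) (nat_lit 4) (nat_lit 473) (nat_lit 283) (nat_lit 264)) (XT.nd (nat_lit 78) (nat_lit 152) (nat_lit 0) (XT.lf (nat_lit 0) (nat_lit 13682942063) (nat_lit 76) (nat_lit 8901041206) (nat_lit 76) (nat_lit 7300490238) (nat_lit 62) (nat_lit 4) (nat_lit 63) (nat_lit 5) (nat_lit 63) (nat_lit 4) (nat_lit 474) (nat_lit 283) (nat_lit 263)) (XT.lf (nat_lit 0) (nat_lit 6237430535) (nat_lit 152) (nat_lit 19506954863) (nat_lit 0) (nat_lit 4627351230) (nat_lit 60) (nat_lit 5) (nat_lit 62) (nat_lit 4) (nat_lit 60) (nat_lit 4) (nat_lit 475) (nat_lit 283) (nat_lit 262)))) (XT.nd (nat_lit 156) (nat_lit 76) (nat_lit 0) (XT.nd (nat_lit 78) (nat_lit 152) (nat_lit 0) (XT.lf (nat_lit 0) (nat_lit 7768417757) (nat_lit 76) (nat_lit 12382074818) (nat_lit 76) (nat_lit 10717484517) (nat_lit 59) (nat_lit 4) (nat_lit 60) (nat_lit 5) (nat_lit 60) (nat_lit 4) (nat_lit 476) (nat_lit 283) (nat_lit 261)) (XT.lf (nat_lit 0) (nat_lit 3085311374)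 (nat_lit 152) (nat_lit 26873756515) (nat_lit 0) (nat_lit 1417822444) (nat_lit 57) (nat_lit 5) (nat_lit 59) (nat_lit 4) (nat_lit 57) (nat_lit 4) (nat_lit 477) (nat_lit 283) (nat_lit 260))) (XT.nd (nat_lit 78) (nat_lit 0) (nat_lit 0) (XT.lf (nat_lit 0) (nat_lit 871618999) (nat_lit 76) (nat_lit 16369506213) (nat_lit 76) (nat_lit 14652132000) (nat_lit 56) (nat_lit 4) (nat_lit 57) (nat_lit 5) (nat_lit 57) (nat_lit 4) (nat_lit 478) (nat_lit 283) (nat_lit 259)) (XT.lf (nat_lit 0) (nat_lit 29576710481) (nat_lit 76) (nat_lit 2306186322) (nat_lit 76) (nat_lit 540379795) (nat_lit 56) (nat_lit 4) (nat_lit 57) (nat_lit 5) (nat_lit 57) (nat_lit 4) (nat_lit 479) (nat_lit 283) (nat_lit 258))))) (XT.nd (nat_lit 312) (nat_lit 380) (nat_lit 0) (XT.nd (nat_lit 156) (nat_lit 228) (nat_lit 0) (XT.nd (nat_lit 78) (nat_lit 76) (nat_lit 0) (XT.lf (nat_lit 0) (nat_lit 13885742802) (nat_lit 152) (nat_lit 6948779396) (nat_lit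 0) (nat_lit 12125715433) (nat_lit 54) (nat_lit 5) (nat_lit 56) (nat_lit 4) (nat_lit 54) (nat_lit 4) (nat_lit 480) (nat_lit 283) (nat_lit 257)) (XT.lf (nat_lit 0) (nat_lit 22271917947) (nat_lit 76) (nat_lit 6521889131) (nat_lit 76) (nat_lit 4717539334) (nat_lit 53) (nat_lit 4) (nat_lit 54) (nat_lit 5) (nat_lit 54) (nat_lit 4) (nat_lit 481) (nat_lit 283) (nat_lit 256))) (XT.nd (nat_lit 78) (nat_lit 76) (nat_lit 0) (XT.lf (nat_lit 0) (nat_lit 9994683278) (nat_lit 152) (nat_lit 15876660068) (nat_lit 0) (nat_lit 8201109219) (nat_lit 51) (nat_lit 5) (nat_lit 53) (nat_lit 4) (nat_lit 51) (nat_lit 4) (nat_lit 482) (nat_lit 283) (nat_lit 255)) (XT.lf (nat_lit 0) (nat_lit 13839713252) (nat_lit 76) (nat_lit 11320110840) (nat_lit 76) (nat_lit 9485975481) (nat_lit 50) (nat_lit 4) (nat_lit 51) (nat_lit 5) (nat_lit 51) (nat_lit 4) (nat_lit 483) (nat_lit 283) (nat_lit 254)))) (XT.nd (nat_lit 156) (nat_lit 152) (nat_lit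 0) (XT.nd (nat_lit 78) (nat_lit 76) (nat_lit 0) (XT.lf (nat_lit 0) (nat_lit 5516656972) (nat_lit 152) (nat_lit 26017943460) (nat_lit 0) (nat_lit 3697710115) (nat_lit 48) (nat_lit 5) (nat_lit 50) (nat_lit 4) (nat_lit 48) (nat_lit 4) (nat_lit 484) (nat_lit 283) (nat_lit 253)) (XT.lf (nat_lit 0) (nat_lit 4190012083) (nat_lit 76) (nat_lit 16747445453) (nat_lit 76) (nat_lit 14891379261) (nat_lit 47) (nat_lit 4) (nat_lit 48) (nat_lit 5) (nat_lit 48) (nat_lit 4) (nat_lit 485) (nat_lit 283) (nat_lit 252))) (XT.nd (nat_lit 78) (nat_lit 76) (nat_lit 0) (XT.lf (nat_lit 0) (nat_lit 429817432) (nat_lit 152) (nat_lit 1019574994) (nat_lit 76) (nat_lit 34991970624) (nat_lit 46) (nat_lit 5) (nat_lit 48) (nat_lit 5) (nat_lit 47) (nat_lit 4) (nat_lit 486) (nat_lit 283) (nat_lit 251)) (XT.lf (nat_lit 0) (nat_lit 16145315404) (nat_lit 152) (nat_lit 6641156076) (nat_lit 0) (nat_lit 14274351408) (nat_lit 45) (nat_lit 5) (nat_lit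 47) (nat_lit 4) (nat_lit 45) (nat_lit 4) (nat_lit 487) (nat_lit 283) (nat_lit 250)))))) (XT.nd (nat_lit 624) (nat_lit 152) (nat_lit 0) (XT.nd (nat_lit 312) (nat_lit 304) (nat_lit 0) (XT.nd (nat_lit 156) (nat_lit 228) (nat_lit 0) (XT.nd (nat_lit 78) (nat_lit 152) (nat_lit 0) (XT.lf (nat_lit 0) (nat_lit 25198230968) (nat_lit 76) (nat_lit 7201281289) (nat_lit 76) (nat_lit 5297337244) (nat_lit 44) (nat_lit 4) (nat_lit 45) (nat_lit 5) (nat_lit 45) (nat_lit 4) (nat_lit 488) (nat_lit 283) (nat_lit 249)) (XT.lf (nat_lit 0) (nat_lit 10722477351) (nat_lit 152) (nat_lit 18779157845) (nat_lit 0) (nat_lit 8842901128) (nat_lit 42) (nat_lit 5) (nat_lit 44) (nat_lit 4) (nat_lit 42) (nat_lit 4) (nat_lit 489) (nat_lit 283) (nat_lit 248))) (XT.nd (nat_lit 78) (nat_lit 152) (nat_lit 0) (XT.lf (nat_lit 0) (nat_lit 13576047001) (nat_lit 76) (nat_lit 13669951708) (nat_lit 76) (nat_lit 11760194068) (nat_lit 41) (nat_lit 4)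 (nat_lit 42) (nat_lit 5) (nat_lit 42) (nat_lit 4) (nat_lit 490) (nat_lit 283) (nat_lit 247)) (XT.lf (nat_lit 0) (nat_lit 4576615469) (nat_lit 152) (nat_lit 32413078058) (nat_lit 0) (nat_lit 2694032958) (nat_lit 39) (nat_lit 5) (nat_lit 41) (nat_lit 4) (nat_lit 39) (nat_lit 4) (nat_lit 491) (nat_lit 283) (nat_lit 246)))) (XT.nd (nat_lit 156) (nat_lit 228) (nat_lit 0) (XT.nd (nat_lit 78) (nat_lit 0) (nat_lit 0) (XT.lf (nat_lit 0) (nat_lit 450786315) (nat_lit 76) (nat_lit 20915763933) (nat_lit 76) (nat_lit 19005561150) (nat_lit 38) (nat_lit 4) (nat_lit 39) (nat_lit 5) (nat_lit 39) (nat_lit 4) (nat_lit 492) (nat_lit 283) (nat_lit 245)) (XT.lf (nat_lit 0) (nat_lit 34565398267) (nat_lit 76) (nat_lit 4224439270) (nat_lit 76) (nat_lit 2287420689) (nat_lit 38) (nat_lit 4) (nat_lit 39) (nat_lit 5) (nat_lit 39) (nat_lit 4) (nat_lit 493) (nat_lit 283) (nat_lit 244))) (XT.nd (nat_lit 78) (nat_lit 76) (nat_lit 0)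 (XT.lf (nat_lit 0) (nat_lit 14842190902) (nat_lit 152) (nat_lit 14014709263) (nat_lit 0) (nat_lit 12936313877) (nat_lit 36) (nat_lit 5) (nat_lit 38) (nat_lit 4) (nat_lit 36) (nat_lit 4) (nat_lit 494) (nat_lit 283) (nat_lit 243)) (XT.lf (nat_lit 0) (nat_lit 20648337210) (nat_lit 76) (nat_lit 11904330311) (nat_lit 76) (nat_lit 9973913033) (nat_lit 35) (nat_lit 4) (nat_lit 36) (nat_lit 5) (nat_lit 36) (nat_lit 4) (nat_lit 495) (nat_lit 283) (nat_lit 242))))) (XT.nd (nat_lit 49920) (nat_lit 0) (nat_lit 3876) (XT.nd (nat_lit 49764) (nat_lit 0) (nat_lit 4332) (XT.nd (nat_lit 49686) (nat_lit 0) (nat_lit 4560) (XT.lf (nat_lit 0) (nat_lit 7496402002) (nat_lit 152) (nat_lit 30180386054) (nat_lit 0) (nat_lit 5599078926) (nat_lit 33) (nat_lit 5) (nat_lit 35) (nat_lit 4) (nat_lit 33) (nat_lit 4) (nat_lit 496) (nat_lit 283) (nat_lit 241)) (XT.lf (nat_lit 0) (nat_lit 2796021981) (nat_lit 152) (nat_lit 5078590329)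 (nat_lit 0) (nat_lit 2796021981) (nat_lit 93) (nat_lit 5) (nat_lit 95) (nat_lit 4) (nat_lit 93) (nat_lit 4) (nat_lit 452) (nat_lit 284) (nat_lit 284))) (XT.nd (nat_lit 78) (nat_lit 152) (nat_lit 0) (XT.lf (nat_lit 0) (nat_lit 11151646562) (nat_lit 76) (nat_lit 5324245670) (nat_lit 76) (nat_lit 5179664235) (nat_lit 92) (nat_lit 4) (nat_lit 93) (nat_lit 5) (nat_lit 93) (nat_lit 4) (nat_lit 453) (nat_lit 284) (nat_lit 283)) (XT.lf (nat_lit 0) (nat_lit 5644180566) (nat_lit 152) (nat_lit 10964461436) (nat_lit 0) (nat_lit 5367528372) (nat_lit 90) (nat_lit 5) (nat_lit 92) (nat_lit 4) (nat_lit 90) (nat_lit 4) (nat_lit 454) (nat_lit 284) (nat_lit 282)))) (XT.nd (nat_lit 156) (nat_lit 228) (nat_lit 0) (XT.nd (nat_lit 78) (nat_lit 152) (nat_lit 0) (XT.lf (nat_lit 0) (nat_lit 10763819534) (nat_lit 76) (nat_lit 5974262951) (nat_lit 76) (nat_lit 5565298262) (nat_lit 89) (nat_lit 4) (nat_lit 90) (nat_lit 5) (nat_lit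 90) (nat_lit 4) (nat_lit 455) (nat_lit 284) (nat_lit 281)) (XT.lf (nat_lit 0) (nat_lit 5463583428) (nat_lit 152) (nat_lit 12232008064) (nat_lit 0) (nat_lit 4941813117) (nat_lit 87) (nat_lit 5) (nat_lit 89) (nat_lit 4) (nat_lit 87) (nat_lit 4) (nat_lit 456) (nat_lit 284) (nat_lit 280))) (XT.nd (nat_lit 78) (nat_lit 152) (nat_lit 0) (XT.lf (nat_lit 0) (nat_lit 9919157733) (nat_lit 76) (nat_lit 6850868417) (nat_lit 76) (nat_lit 6208013431) (nat_lit 86) (nat_lit 4) (nat_lit 87) (nat_lit 5) (nat_lit 87) (nat_lit 4) (nat_lit 457) (nat_lit 284) (nat_lit 279)) (XT.lf (nat_lit 0) (nat_lit 5030813625) (nat_lit 152) (nat_lit 14002765227) (nat_lit 0) (nat_lit 4292548650) (nat_lit 84) (nat_lit 5) (nat_lit 86) (nat_lit 4) (nat_lit 84) (nat_lit 4) (nat_lit 458) (nat_lit 284) (nat_lit 278))))))))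
noncomputable def xc8 : XT := (XT.nd (nat_lit 2340) (nat_lit 684) (nat_lit 0) (XT.nd (nat_lit 1170) (nat_lit 1444) (nat_lit 0) (XT.nd (nat_lit 546) (nat_lit 836) (nat_lit 0) (XT.nd (nat_lit 234) (nat_lit 456) (nat_lit 0) (XT.nd (nat_lit 78) (nat_lit 228) (nat_lit 0) (XT.lf (nat_lit 0) (nat_lit 8574279782) (nat_lit 76) (nat_lit 7977754404) (nat_lit 76) (nat_lit 7128679798) (nat_lit 83) (nat_lit 4) (nat_lit 84) (nat_lit 5) (nat_lit 84) (nat_lit 4) (nat_lit 459) (nat_lit 284) (nat_lit 277)) (XT.nd (nat_lit 78) (nat_lit 76) (nat_lit 0) (XT.lf (nat_lit 0) (nat_lit 4324907953) (nat_lit 152) (nat_lit 16322535474) (nat_lit 0) (nat_lit 3396114971) (nat_lit 81) (nat_lit 5) (nat_lit 83) (nat_lit 4) (nat_lit 81) (nat_lit 4) (nat_lit 460) (nat_lit 284) (nat_lit 276)) (XT.lf (nat_lit 0) (nat_lit 6682898684) (nat_lit 76) (nat_lit 9379975014) (nat_lit 76) (nat_lit 8349775522) (nat_lit 80) (nat_lit 4) (nat_lit 81) (nat_lit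 5) (nat_lit 81) (nat_lit 4) (nat_lit 461) (nat_lit 284) (nat_lit 275)))) (XT.nd (nat_lit 156) (nat_lit 228) (nat_lit 0) (XT.nd (nat_lit 78) (nat_lit 76) (nat_lit 0) (XT.lf (nat_lit 0) (nat_lit 3323292214) (nat_lit 152) (nat_lit 19240177517) (nat_lit 0) (nat_lit 2227513171) (nat_lit 78) (nat_lit 5) (nat_lit 80) (nat_lit 4) (nat_lit 78) (nat_lit 4) (nat_lit 462) (nat_lit 284) (nat_lit 274)) (XT.lf (nat_lit 0) (nat_lit 4195620144) (nat_lit 76) (nat_lit 11084059100) (nat_lit 76) (nat_lit 9895478736) (nat_lit 77) (nat_lit 4) (nat_lit 78) (nat_lit 5) (nat_lit 78) (nat_lit 4) (nat_lit 463) (nat_lit 284) (nat_lit 273))) (XT.nd (nat_lit 78) (nat_lit 76) (nat_lit 0) (XT.lf (nat_lit 0) (nat_lit 2001687981) (nat_lit 152) (nat_lit 22807815902) (nat_lit 0) (nat_lit 760252317) (nat_lit 75) (nat_lit 5) (nat_lit 77) (nat_lit 4) (nat_lit 75) (nat_lit 4) (nat_lit 464) (nat_lit 284) (nat_lit 272)) (XT.lf (nat_lit 0) (nat_lit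 1059729280) (nat_lit 76) (nat_lit 13118128271) (nat_lit 76) (nat_lit 11791766252) (nat_lit 74) (nat_lit 4) (nat_lit 75) (nat_lit 5) (nat_lit 75) (nat_lit 4) (nat_lit 465) (nat_lit 284) (nat_lit 271))))) (XT.nd (nat_lit 312) (nat_lit 456) (nat_lit 0) (XT.nd (nat_lit 156) (nat_lit 228) (nat_lit 0) (XT.nd (nat_lit 78) (nat_lit 76) (nat_lit 0) (XT.lf (nat_lit 0) (nat_lit 350974379) (nat_lit 152) (nat_lit 696336800) (nat_lit 76) (nat_lit 25333486578) (nat_lit 73) (nat_lit 5) (nat_lit 75) (nat_lit 5) (nat_lit 74) (nat_lit 4) (nat_lit 466) (nat_lit 284) (nat_lit 270)) (XT.lf (nat_lit 0) (nat_lit 12757718321) (nat_lit 152) (nat_lit 2726767064) (nat_lit 0) (nat_lit 11312217324) (nat_lit 72) (nat_lit 5) (nat_lit 74) (nat_lit 4) (nat_lit 72) (nat_lit 4) (nat_lit 467) (nat_lit 284) (nat_lit 269))) (XT.nd (nat_lit 78) (nat_lit 152) (nat_lit 0) (XT.lf (nat_lit 0) (nat_lit 22380151763) (nat_lit 76) (nat_lit 3182554381)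 (nat_lit 76) (nat_lit 1661597418) (nat_lit 71) (nat_lit 4) (nat_lit 72) (nat_lit 5) (nat_lit 72) (nat_lit 4) (nat_lit 468) (nat_lit 284) (nat_lit 268)) (XT.lf (nat_lit 0) (nat_lit 10981705365) (nat_lit 152) (nat_lit 7242577848) (nat_lit 0) (nat_lit 9433923634) (nat_lit 69) (nat_lit 5) (nat_lit 71) (nat_lit 4) (nat_lit 69) (nat_lit 4) (nat_lit 469) (nat_lit 284) (nat_lit 267)))) (XT.nd (nat_lit 156) (nat_lit 228) (nat_lit 0) (XT.nd (nat_lit 78) (nat_lit 152) (nat_lit 0) (XT.lf (nat_lit 0) (nat_lit 18323095321) (nat_lit 76) (nat_lit 5698427320) (nat_lit 76) (nat_lit 4081592690) (nat_lit 68) (nat_lit 4) (nat_lit 69) (nat_lit 5) (nat_lit 69) (nat_lit 4) (nat_lit 470) (nat_lit 284) (nat_lit 266)) (XT.lf (nat_lit 0) (nat_lit 8809828494) (nat_lit 152) (nat_lit 12571216488) (nat_lit 0) (nat_lit 7174997155) (nat_lit 66) (nat_lit 5) (nat_lit 68) (nat_lit 4) (nat_lit 66) (nat_lit 4) (nat_lit 471) (nat_lit 284)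 (nat_lit 265))) (XT.nd (nat_lit 78) (nat_lit 152) (nat_lit 0) (XT.lf (nat_lit 0) (nat_lit 13453245438) (nat_lit 76) (nat_lit 8631874289) (nat_lit 76) (nat_lit 6933849766) (nat_lit 65) (nat_lit 4) (nat_lit 66) (nat_lit 5) (nat_lit 66) (nat_lit 4) (nat_lit 472) (nat_lit 284) (nat_lit 264)) (XT.lf (nat_lit 0) (nat_lit 6210143888) (nat_lit 152) (nat_lit 18779739837) (nat_lit 0) (nat_lit 4502010754) (nat_lit 63) (nat_lit 5) (nat_lit 65) (nat_lit 4) (nat_lit 63) (nat_lit 4) (nat_lit 473) (nat_lit 284) (nat_lit 263)))))) (XT.nd (nat_lit 546) (nat_lit 760) (nat_lit 0) (XT.nd (nat_lit 234) (nat_lit 380) (nat_lit 0) (XT.nd (nat_lit 78) (nat_lit 228) (nat_lit 0) (XT.lf (nat_lit 0) (nat_lit 7702718044) (nat_lit 76) (nat_lit 12018416126) (nat_lit 76) (nat_lit 10252452276) (nat_lit 62) (nat_lit 4) (nat_lit 63) (nat_lit 5) (nat_lit 63) (nat_lit 4) (nat_lit 474) (nat_lit 284) (nat_lit 262)) (XT.nd (nat_lit 78) (nat_lit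 76) (nat_lit 0) (XT.lf (nat_lit 0) (nat_lit 3148436416) (nat_lit 152) (nat_lit 25939706086) (nat_lit 0) (nat_lit 1379397410) (nat_lit 60) (nat_lit 5) (nat_lit 62) (nat_lit 4) (nat_lit 60) (nat_lit 4) (nat_lit 475) (nat_lit 284) (nat_lit 261)) (XT.lf (nat_lit 0) (nat_lit 999051581) (nat_lit 76) (nat_lit 15895844584) (nat_lit 76) (nat_lit 14073882281) (nat_lit 59) (nat_lit 4) (nat_lit 60) (nat_lit 5) (nat_lit 60) (nat_lit 4) (nat_lit 476) (nat_lit 284) (nat_lit 260)))) (XT.nd (nat_lit 156) (nat_lit 228) (nat_lit 0) (XT.nd (nat_lit 78) (nat_lit 152) (nat_lit 0) (XT.lf (nat_lit 0) (nat_lit 28866604796) (nat_lit 76) (nat_lit 2245028488) (nat_lit 76) (nat_lit 371684343) (nat_lit 59) (nat_lit 4) (nat_lit 60) (nat_lit 5) (nat_lit 60) (nat_lit 4) (nat_lit 477) (nat_lit 284) (nat_lit 259)) (XT.lf (nat_lit 0) (nat_lit 13634028687) (nat_lit 152) (nat_lit 6603667966) (nat_lit 0) (nat_lit 11766815651) (nat_lit 57)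 (nat_lit 5) (nat_lit 59) (nat_lit 4) (nat_lit 57) (nat_lit 4) (nat_lit 478) (nat_lit 284) (nat_lit 258))) (XT.nd (nat_lit 78) (nat_lit 152) (nat_lit 0) (XT.lf (nat_lit 0) (nat_lit 21767438409) (nat_lit 76) (nat_lit 6343142284) (nat_lit 76) (nat_lit 4428907584) (nat_lit 56) (nat_lit 4) (nat_lit 57) (nat_lit 5) (nat_lit 57) (nat_lit 4) (nat_lit 479) (nat_lit 284) (nat_lit 257)) (XT.lf (nat_lit 0) (nat_lit 9854372524) (nat_lit 152) (nat_lit 15278189998) (nat_lit 0) (nat_lit 7951569805) (nat_lit 54) (nat_lit 5) (nat_lit 56) (nat_lit 4) (nat_lit 54) (nat_lit 4) (nat_lit 480) (nat_lit 284) (nat_lit 256))))) (XT.nd (nat_lit 312) (nat_lit 380) (nat_lit 0) (XT.nd (nat_lit 156) (nat_lit 152) (nat_lit 0) (XT.nd (nat_lit 78) (nat_lit 152) (nat_lit 0) (XT.lf (nat_lit 0) (nat_lit 13574136283) (nat_lit 76) (nat_lit 11006201007) (nat_lit 76) (nat_lit 9060366804) (nat_lit 53) (nat_lit 4) (nat_lit 54) (nat_lit 5) (nat_lit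 54) (nat_lit 4) (nat_lit 481) (nat_lit 284) (nat_lit 255)) (XT.lf (nat_lit 0) (nat_lit 5504688039) (nat_lit 152) (nat_lit 25130364625) (nat_lit 0) (nat_lit 3574967319) (nat_lit 51) (nat_lit 5) (nat_lit 53) (nat_lit 4) (nat_lit 51) (nat_lit 4) (nat_lit 482) (nat_lit 284) (nat_lit 254))) (XT.nd (nat_lit 78) (nat_lit 76) (nat_lit 0) (XT.lf (nat_lit 0) (nat_lit 4199205497) (nat_lit 76) (nat_lit 16279497940) (nat_lit 76) (nat_lit 14310397316) (nat_lit 50) (nat_lit 4) (nat_lit 51) (nat_lit 5) (nat_lit 51) (nat_lit 4) (nat_lit 483) (nat_lit 284) (nat_lit 253)) (XT.lf (nat_lit 0) (nat_lit 562748257) (nat_lit 152) (nat_lit 864954576) (nat_lit 76) (nat_lit 33956009015) (nat_lit 49) (nat_lit 5) (nat_lit 51) (nat_lit 5) (nat_lit 50) (nat_lit 4) (nat_lit 484) (nat_lit 284) (nat_lit 252)))) (XT.nd (nat_lit 156) (nat_lit 228) (nat_lit 0) (XT.nd (nat_lit 78) (nat_lit 76) (nat_lit 0) (XT.lf (nat_lit 0) (nat_lit 15822562131)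 (nat_lit 152) (nat_lit 6324849141) (nat_lit 0) (nat_lit 13837656428) (nat_lit 48) (nat_lit 5) (nat_lit 50) (nat_lit 4) (nat_lit 48) (nat_lit 4) (nat_lit 485) (nat_lit 284) (nat_lit 251)) (XT.lf (nat_lit 0) (nat_lit 24588623180) (nat_lit 76) (nat_lit 7016887538) (nat_lit 76) (nat_lit 4996993300) (nat_lit 47) (nat_lit 4) (nat_lit 48) (nat_lit 5) (nat_lit 48) (nat_lit 4) (nat_lit 486) (nat_lit 284) (nat_lit 250))) (XT.nd (nat_lit 78) (nat_lit 76) (nat_lit 0) (XT.lf (nat_lit 0) (nat_lit 10555249733) (nat_lit 152) (nat_lit 18114770758) (nat_lit 0) (nat_lit 8561207317) (nat_lit 45) (nat_lit 5) (nat_lit 47) (nat_lit 4) (nat_lit 45) (nat_lit 4) (nat_lit 487) (nat_lit 284) (nat_lit 249)) (XT.lf (nat_lit 0) (nat_lit 13299471809) (nat_lit 76) (nat_lit 13300070806) (nat_lit 76) (nat_lit 11274008926) (nat_lit 44) (nat_lit 4) (nat_lit 45) (nat_lit 5) (nat_lit 45) (nat_lit 4) (nat_lit 488) (nat_lit 284) (nat_lit 248)))))))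 (XT.nd (nat_lit 50622) (nat_lit 0) (nat_lit 2280) (XT.nd (nat_lit 546) (nat_lit 0) (nat_lit 0) (XT.nd (nat_lit 234) (nat_lit 456) (nat_lit 0) (XT.nd (nat_lit 78) (nat_lit 76) (nat_lit 0) (XT.lf (nat_lit 0) (nat_lit 4585883859) (nat_lit 152) (nat_lit 31356722420) (nat_lit 0) (nat_lit 2588652073) (nat_lit 42) (nat_lit 5) (nat_lit 44) (nat_lit 4) (nat_lit 42) (nat_lit 4) (nat_lit 489) (nat_lit 284) (nat_lit 247)) (XT.nd (nat_lit 78) (nat_lit 0) (nat_lit 0) (XT.lf (nat_lit 0) (nat_lit 551339744) (nat_lit 76) (nat_lit 20337365103) (nat_lit 76) (nat_lit 18310830971) (nat_lit 41) (nat_lit 4) (nat_lit 42) (nat_lit 5) (nat_lit 42) (nat_lit 4) (nat_lit 490) (nat_lit 284) (nat_lit 246)) (XT.lf (nat_lit 0) (nat_lit 33671509624) (nat_lit 76) (nat_lit 4133797054) (nat_lit 76) (nat_lit 2078814042) (nat_lit 41) (nat_lit 4) (nat_lit 42) (nat_lit 5) (nat_lit 42) (nat_lit 4) (nat_lit 491) (nat_lit 284) (nat_lit 245))))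 (XT.nd (nat_lit 156) (nat_lit 228) (nat_lit 0) (XT.nd (nat_lit 78) (nat_lit 76) (nat_lit 0) (XT.lf (nat_lit 0) (nat_lit 14550630768) (nat_lit 152) (nat_lit 13499820173) (nat_lit 0) (nat_lit 12528685832) (nat_lit 39) (nat_lit 5) (nat_lit 41) (nat_lit 4) (nat_lit 39) (nat_lit 4) (nat_lit 492) (nat_lit 284) (nat_lit 244)) (XT.lf (nat_lit 0) (nat_lit 20155002776) (nat_lit 76) (nat_lit 11592033485) (nat_lit 76) (nat_lit 9544053795) (nat_lit 38) (nat_lit 4) (nat_lit 39) (nat_lit 5) (nat_lit 39) (nat_lit 4) (nat_lit 493) (nat_lit 284) (nat_lit 243))) (XT.nd (nat_lit 78) (nat_lit 76) (nat_lit 0) (XT.lf (nat_lit 0) (nat_lit 7416092927) (nat_lit 152) (nat_lit 29199154762) (nat_lit 0) (nat_lit 5403222876) (nat_lit 36) (nat_lit 5) (nat_lit 38) (nat_lit 4) (nat_lit 36) (nat_lit 4) (nat_lit 494) (nat_lit 284) (nat_lit 242)) (XT.lf (nat_lit 0) (nat_lit 4970553052) (nat_lit 76) (nat_lit 19912640423) (nat_lit 76) (nat_lit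 17875944883) (nat_lit 35) (nat_lit 4) (nat_lit 36) (nat_lit 5) (nat_lit 36) (nat_lit 4) (nat_lit 495) (nat_lit 284) (nat_lit 241))))) (XT.nd (nat_lit 49764) (nat_lit 0) (nat_lit 3952) (XT.nd (nat_lit 49608) (nat_lit 0) (nat_lit 4408) (XT.nd (nat_lit 49530) (nat_lit 0) (nat_lit 4636) (XT.lf (nat_lit 0) (nat_lit 40387196446) (nat_lit 76) (nat_lit 2595699576) (nat_lit 76) (nat_lit 535872494) (nat_lit 35) (nat_lit 4) (nat_lit 36) (nat_lit 5) (nat_lit 36) (nat_lit 4) (nat_lit 496) (nat_lit 284) (nat_lit 240)) (XT.lf (nat_lit 0) (nat_lit 2790540448) (nat_lit 152) (nat_lit 4783182844) (nat_lit 0) (nat_lit 2790540448) (nat_lit 96) (nat_lit 5) (nat_lit 98) (nat_lit 4) (nat_lit 96) (nat_lit 4) (nat_lit 450) (nat_lit 285) (nat_lit 285))) (XT.nd (nat_lit 78) (nat_lit 152) (nat_lit 0) (XT.lf (nat_lit 0) (nat_lit 11123305413) (nat_lit 76) (nat_lit 5031764006) (nat_lit 76) (nat_lit 4878377561) (nat_lit 95) (nat_lit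 4) (nat_lit 96) (nat_lit 5) (nat_lit 96) (nat_lit 4) (nat_lit 451) (nat_lit 285) (nat_lit 284)) (XT.lf (nat_lit 0) (nat_lit 5635494121) (nat_lit 152) (nat_lit 10366944717) (nat_lit 0) (nat_lit 5341993808) (nat_lit 93) (nat_lit 5) (nat_lit 95) (nat_lit 4) (nat_lit 93) (nat_lit 4) (nat_lit 452) (nat_lit 285) (nat_lit 283)))) (XT.nd (nat_lit 156) (nat_lit 228) (nat_lit 0) (XT.nd (nat_lit 78) (nat_lit 152) (nat_lit 0) (XT.lf (nat_lit 0) (nat_lit 10730000242) (nat_lit 76) (nat_lit 5682892211) (nat_lit 76) (nat_lit 5249021573) (nat_lit 92) (nat_lit 4) (nat_lit 93) (nat_lit 5) (nat_lit 93) (nat_lit 4) (nat_lit 453) (nat_lit 285) (nat_lit 282)) (XT.lf (nat_lit 0) (nat_lit 5463144202) (nat_lit 152) (nat_lit 11613196627) (nat_lit 0) (nat_lit 4909598079) (nat_lit 90) (nat_lit 5) (nat_lit 92) (nat_lit 4) (nat_lit 90) (nat_lit 4) (nat_lit 454) (nat_lit 285) (nat_lit 281))) (XT.nd (nat_lit 78) (nat_lit 152) (nat_lit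 0) (XT.lf (nat_lit 0) (nat_lit 9894345410) (nat_lit 76) (nat_lit 6552063915) (nat_lit 76) (nat_lit 5870059060) (nat_lit 89) (nat_lit 4) (nat_lit 90) (nat_lit 5) (nat_lit 90) (nat_lit 4) (nat_lit 455) (nat_lit 285) (nat_lit 280)) (XT.lf (nat_lit 0) (nat_lit 5045241122) (nat_lit 152) (nat_lit 13346909057) (nat_lit 0) (nat_lit 4262015810) (nat_lit 87) (nat_lit 5) (nat_lit 89) (nat_lit 4) (nat_lit 87) (nat_lit 4) (nat_lit 456) (nat_lit 285) (nat_lit 279)))))) (XT.nd (nat_lit 624) (nat_lit 836) (nat_lit 0) (XT.nd (nat_lit 312) (nat_lit 380) (nat_lit 0) (XT.nd (nat_lit 156) (nat_lit 228) (nat_lit 0) (XT.nd (nat_lit 78) (nat_lit 152) (nat_lit 0) (XT.lf (nat_lit 0) (nat_lit 8574130118) (nat_lit 76) (nat_lit 7662453549) (nat_lit 76) (nat_lit 6761670299) (nat_lit 86) (nat_lit 4) (nat_lit 87) (nat_lit 5) (nat_lit 87) (nat_lit 4) (nat_lit 457) (nat_lit 285) (nat_lit 278)) (XT.lf (nat_lit 0) (nat_lit 4361507550)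 (nat_lit 152) (nat_lit 15612636513) (nat_lit 0) (nat_lit 3376151075) (nat_lit 84) (nat_lit 5) (nat_lit 86) (nat_lit 4) (nat_lit 84) (nat_lit 4) (nat_lit 458) (nat_lit 285) (nat_lit 277))) (XT.nd (nat_lit 78) (nat_lit 152) (nat_lit 0) (XT.lf (nat_lit 0) (nat_lit 6724330257) (nat_lit 76) (nat_lit 9038542829) (nat_lit 76) (nat_lit 7945604188) (nat_lit 83) (nat_lit 4) (nat_lit 84) (nat_lit 5) (nat_lit 84) (nat_lit 4) (nat_lit 459) (nat_lit 285) (nat_lit 276)) (XT.lf (nat_lit 0) (nat_lit 3390095293) (nat_lit 152) (nat_lit 18457893553) (nat_lit 0) (nat_lit 2227583307) (nat_lit 81) (nat_lit 5) (nat_lit 83) (nat_lit 4) (nat_lit 81) (nat_lit 4) (nat_lit 460) (nat_lit 285) (nat_lit 275)))) (XT.nd (nat_lit 156) (nat_lit 152) (nat_lit 0) (XT.nd (nat_lit 78) (nat_lit 152) (nat_lit 0) (XT.lf (nat_lit 0) (nat_lit 4296911962) (nat_lit 76) (nat_lit 10706231721) (nat_lit 76) (nat_lit 9445266813) (nat_lit 80) (nat_lit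 4) (nat_lit 81) (nat_lit 5) (nat_lit 81) (nat_lit 4) (nat_lit 461) (nat_lit 285) (nat_lit 274)) (XT.lf (nat_lit 0) (nat_lit 2107495365) (nat_lit 152) (nat_lit 21933358936) (nat_lit 0) (nat_lit 790456269) (nat_lit 78) (nat_lit 5) (nat_lit 80) (nat_lit 4) (nat_lit 78) (nat_lit 4) (nat_lit 462) (nat_lit 285) (nat_lit 273))) (XT.nd (nat_lit 78) (nat_lit 76) (nat_lit 0) (XT.lf (nat_lit 0) (nat_lit 1240623939) (nat_lit 76) (nat_lit 12692954152) (nat_lit 76) (nat_lit 11285816685) (nat_lit 77) (nat_lit 4) (nat_lit 78) (nat_lit 5) (nat_lit 78) (nat_lit 4) (nat_lit 463) (nat_lit 285) (nat_lit 272)) (XT.lf (nat_lit 0) (nat_lit 502530732) (nat_lit 152) (nat_lit 474474225) (nat_lit 76) (nat_lit 24641467478) (nat_lit 76) (nat_lit 5) (nat_lit 78) (nat_lit 5) (nat_lit 77) (nat_lit 4) (nat_lit 464) (nat_lit 285) (nat_lit 271))))) (XT.nd (nat_lit 312) (nat_lit 456) (nat_lit 0) (XT.nd (nat_lit 156) (nat_lit 228) (nat_lit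 0) (XT.nd (nat_lit 78) (nat_lit 76) (nat_lit 0) (XT.lf (nat_lit 0) (nat_lit 12552600828) (nat_lit 152) (nat_lit 2450453371) (nat_lit 0) (nat_lit 11019068821) (nat_lit 75) (nat_lit 5) (nat_lit 77) (nat_lit 4) (nat_lit 75) (nat_lit 4) (nat_lit 465) (nat_lit 285) (nat_lit 270)) (XT.lf (nat_lit 0) (nat_lit 21926828000) (nat_lit 76) (nat_lit 3061950107) (nat_lit 76) (nat_lit 1448366865) (nat_lit 74) (nat_lit 4) (nat_lit 75) (nat_lit 5) (nat_lit 75) (nat_lit 4) (nat_lit 466) (nat_lit 285) (nat_lit 269))) (XT.nd (nat_lit 78) (nat_lit 76) (nat_lit 0) (XT.lf (nat_lit 0) (nat_lit 10827757710) (nat_lit 152) (nat_lit 6844760286) (nat_lit 0) (nat_lit 9185716071) (nat_lit 72) (nat_lit 5) (nat_lit 74) (nat_lit 4) (nat_lit 72) (nat_lit 4) (nat_lit 467) (nat_lit 285) (nat_lit 268)) (XT.lf (nat_lit 0) (nat_lit 17977908173) (nat_lit 76) (nat_lit 5513729915) (nat_lit 76) (nat_lit 3798430056) (nat_lit 71) (nat_lit 4) (nat_lit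 72) (nat_lit 5) (nat_lit 72) (nat_lit 4) (nat_lit 468) (nat_lit 285) (nat_lit 267)))) (XT.nd (nat_lit 156) (nat_lit 228) (nat_lit 0) (XT.nd (nat_lit 78) (nat_lit 76) (nat_lit 0) (XT.lf (nat_lit 0) (nat_lit 8718232936) (nat_lit 152) (nat_lit 12027564452) (nat_lit 0) (nat_lit 6983840369) (nat_lit 69) (nat_lit 5) (nat_lit 71) (nat_lit 4) (nat_lit 69) (nat_lit 4) (nat_lit 469) (nat_lit 285) (nat_lit 266)) (XT.lf (nat_lit 0) (nat_lit 13240521098) (nat_lit 76) (nat_lit 8369943465) (nat_lit 76) (nat_lit 6568509248) (nat_lit 68) (nat_lit 4) (nat_lit 69) (nat_lit 5) (nat_lit 69) (nat_lit 4) (nat_lit 470) (nat_lit 285) (nat_lit 265))) (XT.nd (nat_lit 78) (nat_lit 76) (nat_lit 0) (XT.lf (nat_lit 0) (nat_lit 6193054111) (nat_lit 152) (nat_lit 18064019607) (nat_lit 0) (nat_lit 4380895669) (nat_lit 66) (nat_lit 5) (nat_lit 68) (nat_lit 4) (nat_lit 66) (nat_lit 4) (nat_lit 471) (nat_lit 285) (nat_lit 264)) (XT.lf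 (nat_lit 0) (nat_lit 7648710316) (nat_lit 76) (nat_lit 11665165776) (nat_lit 76) (nat_lit 9791654727) (nat_lit 65) (nat_lit 4) (nat_lit 66) (nat_lit 5) (nat_lit 66) (nat_lit 4) (nat_lit 472) (nat_lit 285) (nat_lit 263))))))))
noncomputable def xc9 : XT := (XT.nd (nat_lit 51636) (nat_lit 0) (nat_lit 1140) (XT.nd (nat_lit 1170) (nat_lit 760) (nat_lit 0) (XT.nd (nat_lit 546) (nat_lit 836) (nat_lit 0) (XT.nd (nat_lit 234) (nat_lit 456) (nat_lit 0) (XT.nd (nat_lit 78) (nat_lit 76) (nat_lit 0) (XT.lf (nat_lit 0) (nat_lit 3219039863) (nat_lit 152) (nat_lit 25023645643) (nat_lit 0) (nat_lit 1342266382) (nat_lit 63) (nat_lit 5) (nat_lit 65) (nat_lit 4) (nat_lit 63) (nat_lit 4) (nat_lit 473) (nat_lit 285) (nat_lit 262)) (XT.nd (nat_lit 78) (nat_lit 0) (nat_lit 0) (XT.lf (nat_lit 0) (nat_lit 1132079244) (nat_lit 76) (nat_lit 15436168938) (nat_lit 76) (nat_lit 13503249131) (nat_lit 62) (nat_lit 4) (nat_lit 63)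 (nat_lit 5) (nat_lit 63) (nat_lit 4) (nat_lit 474) (nat_lit 285) (nat_lit 261)) (XT.lf (nat_lit 0) (nat_lit 28186399131) (nat_lit 76) (nat_lit 2186018119) (nat_lit 76) (nat_lit 198587317) (nat_lit 62) (nat_lit 4) (nat_lit 63) (nat_lit 5) (nat_lit 63) (nat_lit 4) (nat_lit 475) (nat_lit 285) (nat_lit 260)))) (XT.nd (nat_lit 156) (nat_lit 228) (nat_lit 0) (XT.nd (nat_lit 78) (nat_lit 76) (nat_lit 0) (XT.lf (nat_lit 0) (nat_lit 13398947003) (nat_lit 152) (nat_lit 6259916690) (nat_lit 0) (nat_lit 11418020693) (nat_lit 60) (nat_lit 5) (nat_lit 62) (nat_lit 4) (nat_lit 60) (nat_lit 4) (nat_lit 476) (nat_lit 285) (nat_lit 259)) (XT.lf (nat_lit 0) (nat_lit 21286435270) (nat_lit 76) (nat_lit 6170284411) (nat_lit 76) (nat_lit 4139472818) (nat_lit 59) (nat_lit 4) (nat_lit 60) (nat_lit 5) (nat_lit 60) (nat_lit 4) (nat_lit 477) (nat_lit 285) (nat_lit 258))) (XT.nd (nat_lit 78) (nat_lit 76) (nat_lit 0) (XT.lf (nat_lit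 0) (nat_lit 9727332000) (nat_lit 152) (nat_lit 14688866071) (nat_lit 0) (nat_lit 7708648595) (nat_lit 57) (nat_lit 5) (nat_lit 59) (nat_lit 4) (nat_lit 57) (nat_lit 4) (nat_lit 478) (nat_lit 285) (nat_lit 257)) (XT.lf (nat_lit 0) (nat_lit 13324669624) (nat_lit 76) (nat_lit 10702396528) (nat_lit 76) (nat_lit 8638061023) (nat_lit 56) (nat_lit 4) (nat_lit 57) (nat_lit 5) (nat_lit 57) (nat_lit 4) (nat_lit 479) (nat_lit 285) (nat_lit 256))))) (XT.nd (nat_lit 312) (nat_lit 456) (nat_lit 0) (XT.nd (nat_lit 156) (nat_lit 152) (nat_lit 0) (XT.nd (nat_lit 78) (nat_lit 76) (nat_lit 0) (XT.lf (nat_lit 0) (nat_lit 5502124180) (nat_lit 152) (nat_lit 24260734325) (nat_lit 0) (nat_lit 3454883468) (nat_lit 54) (nat_lit 5) (nat_lit 56) (nat_lit 4) (nat_lit 54) (nat_lit 4) (nat_lit 480) (nat_lit 285) (nat_lit 255)) (XT.lf (nat_lit 0) (nat_lit 4216123207) (nat_lit 76) (nat_lit 15826388353) (nat_lit 76) (nat_lit 13737369501)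 (nat_lit 53) (nat_lit 4) (nat_lit 54) (nat_lit 5) (nat_lit 54) (nat_lit 4) (nat_lit 481) (nat_lit 285) (nat_lit 254))) (XT.nd (nat_lit 78) (nat_lit 76) (nat_lit 0) (XT.lf (nat_lit 0) (nat_lit 700665201) (nat_lit 152) (nat_lit 707229791) (nat_lit 76) (nat_lit 32949199264) (nat_lit 52) (nat_lit 5) (nat_lit 54) (nat_lit 5) (nat_lit 53) (nat_lit 4) (nat_lit 482) (nat_lit 285) (nat_lit 253)) (XT.lf (nat_lit 0) (nat_lit 15518192106) (nat_lit 152) (nat_lit 6010271929) (nat_lit 0) (nat_lit 13412405646) (nat_lit 51) (nat_lit 5) (nat_lit 53) (nat_lit 4) (nat_lit 51) (nat_lit 4) (nat_lit 483) (nat_lit 285) (nat_lit 252)))) (XT.nd (nat_lit 156) (nat_lit 228) (nat_lit 0) (XT.nd (nat_lit 78) (nat_lit 152) (nat_lit 0) (XT.lf (nat_lit 0) (nat_lit 24004342125) (nat_lit 76) (nat_lit 6839408433) (nat_lit 76) (nat_lit 4696502637) (nat_lit 50) (nat_lit 4) (nat_lit 51) (nat_lit 5) (nat_lit 51) (nat_lit 4) (nat_lit 484) (nat_lit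 285) (nat_lit 251)) (XT.lf (nat_lit 0) (nat_lit 10401728044) (nat_lit 152) (nat_lit 17462583793) (nat_lit 0) (nat_lit 8286248446) (nat_lit 48) (nat_lit 5) (nat_lit 50) (nat_lit 4) (nat_lit 48) (nat_lit 4) (nat_lit 485) (nat_lit 285) (nat_lit 250))) (XT.nd (nat_lit 78) (nat_lit 152) (nat_lit 0) (XT.lf (nat_lit 0) (nat_lit 13038189784) (nat_lit 76) (nat_lit 12942684961) (nat_lit 76) (nat_lit 10793235913) (nat_lit 47) (nat_lit 4) (nat_lit 48) (nat_lit 5) (nat_lit 48) (nat_lit 4) (nat_lit 486) (nat_lit 285) (nat_lit 249)) (XT.lf (nat_lit 0) (nat_lit 4603564680) (nat_lit 152) (nat_lit 30324296241) (nat_lit 0) (nat_lit 2484701478) (nat_lit 45) (nat_lit 5) (nat_lit 47) (nat_lit 4) (nat_lit 45) (nat_lit 4) (nat_lit 487) (nat_lit 285) (nat_lit 248)))))) (XT.nd (nat_lit 546) (nat_lit 228) (nat_lit 0) (XT.nd (nat_lit 234) (nat_lit 304) (nat_lit 0) (XT.nd (nat_lit 78) (nat_lit 152) (nat_lit 0) (XT.lf (nat_lit 0)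 (nat_lit 655887734) (nat_lit 76) (nat_lit 19777688450) (nat_lit 76) (nat_lit 17627738389) (nat_lit 44) (nat_lit 4) (nat_lit 45) (nat_lit 5) (nat_lit 45) (nat_lit 4) (nat_lit 488) (nat_lit 285) (nat_lit 247)) (XT.nd (nat_lit 78) (nat_lit 152) (nat_lit 0) (XT.lf (nat_lit 0) (nat_lit 32810530388) (nat_lit 76) (nat_lit 4047768045) (nat_lit 76) (nat_lit 1867636568) (nat_lit 44) (nat_lit 4) (nat_lit 45) (nat_lit 5) (nat_lit 45) (nat_lit 4) (nat_lit 489) (nat_lit 285) (nat_lit 246)) (XT.lf (nat_lit 0) (nat_lit 14276133541) (nat_lit 152) (nat_lit 12993430208) (nat_lit 0) (nat_lit 12131052159) (nat_lit 42) (nat_lit 5) (nat_lit 44) (nat_lit 4) (nat_lit 42) (nat_lit 4) (nat_lit 490) (nat_lit 285) (nat_lit 245)))) (XT.nd (nat_lit 156) (nat_lit 76) (nat_lit 0) (XT.nd (nat_lit 78) (nat_lit 152) (nat_lit 0) (XT.lf (nat_lit 0) (nat_lit 19682618978) (nat_lit 76) (nat_lit 11290929546) (nat_lit 76) (nat_lit 9118227892)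 (nat_lit 41) (nat_lit 4) (nat_lit 42) (nat_lit 5) (nat_lit 42) (nat_lit 4) (nat_lit 491) (nat_lit 285) (nat_lit 244)) (XT.lf (nat_lit 0) (nat_lit 7346529144) (nat_lit 152) (nat_lit 28240279595) (nat_lit 0) (nat_lit 5211075308) (nat_lit 39) (nat_lit 5) (nat_lit 41) (nat_lit 4) (nat_lit 39) (nat_lit 4) (nat_lit 492) (nat_lit 285) (nat_lit 243))) (XT.nd (nat_lit 78) (nat_lit 0) (nat_lit 0) (XT.lf (nat_lit 0) (nat_lit 4935629687) (nat_lit 76) (nat_lit 19371013344) (nat_lit 76) (nat_lit 17210283046) (nat_lit 38) (nat_lit 4) (nat_lit 39) (nat_lit 5) (nat_lit 39) (nat_lit 4) (nat_lit 493) (nat_lit 285) (nat_lit 242)) (XT.lf (nat_lit 0) (nat_lit 39320019407) (nat_lit 76) (nat_lit 2559830906) (nat_lit 76) (nat_lit 374560355) (nat_lit 38) (nat_lit 4) (nat_lit 39) (nat_lit 5) (nat_lit 39) (nat_lit 4) (nat_lit 494) (nat_lit 285) (nat_lit 241))))) (XT.nd (nat_lit 49608) (nat_lit 0) (nat_lit 4332) (XT.nd (nat_lit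 49452) (nat_lit 0) (nat_lit 4788) (XT.nd (nat_lit 78) (nat_lit 76) (nat_lit 0) (XT.lf (nat_lit 0) (nat_lit 16908436734) (nat_lit 152) (nat_lit 11328808822) (nat_lit 0) (nat_lit 14763683296) (nat_lit 36) (nat_lit 5) (nat_lit 38) (nat_lit 4) (nat_lit 36) (nat_lit 4) (nat_lit 495) (nat_lit 285) (nat_lit 240)) (XT.lf (nat_lit 0) (nat_lit 23682202770) (nat_lit 76) (nat_lit 11125786000) (nat_lit 76) (nat_lit 8958574754) (nat_lit 35) (nat_lit 4) (nat_lit 36) (nat_lit 5) (nat_lit 36) (nat_lit 4) (nat_lit 496) (nat_lit 285) (nat_lit 239))) (XT.nd (nat_lit 78) (nat_lit 76) (nat_lit 0) (XT.lf (nat_lit 0) (nat_lit 2789844291) (nat_lit 152) (nat_lit 4487397479) (nat_lit 0) (nat_lit 2789844291) (nat_lit 99) (nat_lit 5) (nat_lit 101) (nat_lit 4) (nat_lit 99) (nat_lit 4) (nat_lit 448) (nat_lit 286) (nat_lit 286)) (XT.lf (nat_lit 0) (nat_lit 11113844398) (nat_lit 76) (nat_lit 4739433166) (nat_lit 76) (nat_lit 4576705488)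 (nat_lit 98) (nat_lit 4) (nat_lit 99) (nat_lit 5) (nat_lit 99) (nat_lit 4) (nat_lit 449) (nat_lit 286) (nat_lit 285)))) (XT.nd (nat_lit 156) (nat_lit 228) (nat_lit 0) (XT.nd (nat_lit 78) (nat_lit 76) (nat_lit 0) (XT.lf (nat_lit 0) (nat_lit 5636543246) (nat_lit 152) (nat_lit 9769891241) (nat_lit 0) (nat_lit 5325168764) (nat_lit 96) (nat_lit 5) (nat_lit 98) (nat_lit 4) (nat_lit 96) (nat_lit 4) (nat_lit 450) (nat_lit 286) (nat_lit 284)) (XT.lf (nat_lit 0) (nat_lit 10714199100) (nat_lit 76) (nat_lit 5392860587) (nat_lit 76) (nat_lit 4932567227) (nat_lit 95) (nat_lit 4) (nat_lit 96) (nat_lit 5) (nat_lit 96) (nat_lit 4) (nat_lit 451) (nat_lit 286) (nat_lit 283))) (XT.nd (nat_lit 78) (nat_lit 76) (nat_lit 0) (XT.lf (nat_lit 0) (nat_lit 5472382250) (nat_lit 152) (nat_lit 10996420178) (nat_lit 0) (nat_lit 4885125168) (nat_lit 93) (nat_lit 5) (nat_lit 95) (nat_lit 4) (nat_lit 93) (nat_lit 4) (nat_lit 452) (nat_lit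 286) (nat_lit 282)) (XT.lf (nat_lit 0) (nat_lit 9886339172) (nat_lit 76) (nat_lit 6255917240) (nat_lit 76) (nat_lit 5532378289) (nat_lit 92) (nat_lit 4) (nat_lit 93) (nat_lit 5) (nat_lit 93) (nat_lit 4) (nat_lit 453) (nat_lit 286) (nat_lit 281))))))) (XT.nd (nat_lit 1170) (nat_lit 1596) (nat_lit 0) (XT.nd (nat_lit 546) (nat_lit 760) (nat_lit 0) (XT.nd (nat_lit 234) (nat_lit 456) (nat_lit 0) (XT.nd (nat_lit 78) (nat_lit 228) (nat_lit 0) (XT.lf (nat_lit 0) (nat_lit 5069050624) (nat_lit 152) (nat_lit 12695051767) (nat_lit 0) (nat_lit 4238126890) (nat_lit 90) (nat_lit 5) (nat_lit 92) (nat_lit 4) (nat_lit 90) (nat_lit 4) (nat_lit 454) (nat_lit 286) (nat_lit 280)) (XT.nd (nat_lit 78) (nat_lit 152) (nat_lit 0) (XT.lf (nat_lit 0) (nat_lit 8589184638) (nat_lit 76) (nat_lit 7351285223) (nat_lit 76) (nat_lit 6395644274) (nat_lit 89) (nat_lit 4) (nat_lit 90) (nat_lit 5) (nat_lit 90) (nat_lit 4) (nat_lit 455) (nat_lit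 286) (nat_lit 279)) (XT.lf (nat_lit 0) (nat_lit 4406941518) (nat_lit 152) (nat_lit 14909134067) (nat_lit 0) (nat_lit 3361576834) (nat_lit 87) (nat_lit 5) (nat_lit 89) (nat_lit 4) (nat_lit 87) (nat_lit 4) (nat_lit 456) (nat_lit 286) (nat_lit 278)))) (XT.nd (nat_lit 156) (nat_lit 228) (nat_lit 0) (XT.nd (nat_lit 78) (nat_lit 152) (nat_lit 0) (XT.lf (nat_lit 0) (nat_lit 6778932303) (nat_lit 76) (nat_lit 8702900124) (nat_lit 76) (nat_lit 7543401519) (nat_lit 86) (nat_lit 4) (nat_lit 87) (nat_lit 5) (nat_lit 87) (nat_lit 4) (nat_lit 457) (nat_lit 286) (nat_lit 277)) (XT.lf (nat_lit 0) (nat_lit 3464915769) (nat_lit 152) (nat_lit 17684881430) (nat_lit 0) (nat_lit 2231606803) (nat_lit 84) (nat_lit 5) (nat_lit 86) (nat_lit 4) (nat_lit 84) (nat_lit 4) (nat_lit 458) (nat_lit 286) (nat_lit 276))) (XT.nd (nat_lit 78) (nat_lit 152) (nat_lit 0) (XT.lf (nat_lit 0) (nat_lit 4408864338) (nat_lit 76) (nat_lit 10336060088)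 (nat_lit 76) (nat_lit 8998302418) (nat_lit 83) (nat_lit 4) (nat_lit 84) (nat_lit 5) (nat_lit 84) (nat_lit 4) (nat_lit 459) (nat_lit 286) (nat_lit 275)) (XT.lf (nat_lit 0) (nat_lit 2220215216) (nat_lit 152) (nat_lit 21071573355) (nat_lit 0) (nat_lit 822968439) (nat_lit 81) (nat_lit 5) (nat_lit 83) (nat_lit 4) (nat_lit 81) (nat_lit 4) (nat_lit 460) (nat_lit 286) (nat_lit 274))))) (XT.nd (nat_lit 312) (nat_lit 456) (nat_lit 0) (XT.nd (nat_lit 156) (nat_lit 152) (nat_lit 0) (XT.nd (nat_lit 78) (nat_lit 76) (nat_lit 0) (XT.lf (nat_lit 0) (nat_lit 1429146039) (nat_lit 76) (nat_lit 12277539399) (nat_lit 76) (nat_lit 10784707261) (nat_lit 80) (nat_lit 4) (nat_lit 81) (nat_lit 5) (nat_lit 81) (nat_lit 4) (nat_lit 461) (nat_lit 286) (nat_lit 273)) (XT.lf (nat_lit 0) (nat_lit 659525158) (nat_lit 152) (nat_lit 246797388) (nat_lit 76) (nat_lit 23972396505) (nat_lit 79) (nat_lit 5) (nat_lit 81) (nat_lit 5) (nat_lit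 80) (nat_lit 4) (nat_lit 462) (nat_lit 286) (nat_lit 272))) (XT.nd (nat_lit 78) (nat_lit 76) (nat_lit 0) (XT.lf (nat_lit 0) (nat_lit 12363595444) (nat_lit 152) (nat_lit 2170196849) (nat_lit 0) (nat_lit 10736671337) (nat_lit 78) (nat_lit 5) (nat_lit 80) (nat_lit 4) (nat_lit 78) (nat_lit 4) (nat_lit 463) (nat_lit 286) (nat_lit 271)) (XT.lf (nat_lit 0) (nat_lit 21498798033) (nat_lit 76) (nat_lit 2943158951) (nat_lit 76) (nat_lit 1231308489) (nat_lit 77) (nat_lit 4) (nat_lit 78) (nat_lit 5) (nat_lit 78) (nat_lit 4) (nat_lit 464) (nat_lit 286) (nat_lit 270)))) (XT.nd (nat_lit 156) (nat_lit 228) (nat_lit 0) (XT.nd (nat_lit 78) (nat_lit 76) (nat_lit 0) (XT.lf (nat_lit 0) (nat_lit 10688397754) (nat_lit 152) (nat_lit 6447149341) (nat_lit 0) (nat_lit 8946355780) (nat_lit 75) (nat_lit 5) (nat_lit 77) (nat_lit 4) (nat_lit 75) (nat_lit 4) (nat_lit 465) (nat_lit 286) (nat_lit 269)) (XT.lf (nat_lit 0) (nat_lit 17654254379)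 (nat_lit 76) (nat_lit 5333271767) (nat_lit 76) (nat_lit 3513510147) (nat_lit 74) (nat_lit 4) (nat_lit 75) (nat_lit 5) (nat_lit 75) (nat_lit 4) (nat_lit 466) (nat_lit 286) (nat_lit 268))) (XT.nd (nat_lit 78) (nat_lit 76) (nat_lit 0) (XT.lf (nat_lit 0) (nat_lit 8639353795) (nat_lit 152) (nat_lit 11488937186) (nat_lit 0) (nat_lit 6799336720) (nat_lit 72) (nat_lit 5) (nat_lit 74) (nat_lit 4) (nat_lit 72) (nat_lit 4) (nat_lit 467) (nat_lit 286) (nat_lit 267)) (XT.lf (nat_lit 0) (nat_lit 13044900884) (nat_lit 76) (nat_lit 8115001208) (nat_lit 76) (nat_lit 6203859648) (nat_lit 71) (nat_lit 4) (nat_lit 72) (nat_lit 5) (nat_lit 72) (nat_lit 4) (nat_lit 468) (nat_lit 286) (nat_lit 266)))))) (XT.nd (nat_lit 624) (nat_lit 760) (nat_lit 0) (XT.nd (nat_lit 312) (nat_lit 380) (nat_lit 0) (XT.nd (nat_lit 156) (nat_lit 228) (nat_lit 0) (XT.nd (nat_lit 78) (nat_lit 76) (nat_lit 0) (XT.lf (nat_lit 0) (nat_lit 6186436796)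 (nat_lit 152) (nat_lit 17358869482) (nat_lit 0) (nat_lit 4263917904) (nat_lit 69) (nat_lit 5) (nat_lit 71) (nat_lit 4) (nat_lit 69) (nat_lit 4) (nat_lit 469) (nat_lit 286) (nat_lit 265)) (XT.lf (nat_lit 0) (nat_lit 7606649535) (nat_lit 76) (nat_lit 11322009428) (nat_lit 76) (nat_lit 9334401556) (nat_lit 68) (nat_lit 4) (nat_lit 69) (nat_lit 5) (nat_lit 69) (nat_lit 4) (nat_lit 470) (nat_lit 286) (nat_lit 264))) (XT.nd (nat_lit 78) (nat_lit 76) (nat_lit 0) (XT.lf (nat_lit 0) (nat_lit 3297471303) (nat_lit 152) (nat_lit 24124489989) (nat_lit 0) (nat_lit 1306402317) (nat_lit 66) (nat_lit 5) (nat_lit 68) (nat_lit 4) (nat_lit 66) (nat_lit 4) (nat_lit 471) (nat_lit 286) (nat_lit 263)) (XT.lf (nat_lit 0) (nat_lit 1271105805) (nat_lit 76) (nat_lit 14990083490) (nat_lit 76) (nat_lit 12939448867) (nat_lit 65) (nat_lit 4) (nat_lit 66) (nat_lit 5) (nat_lit 66) (nat_lit 4) (nat_lit 472) (nat_lit 286) (nat_lit 262))))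 (XT.nd (nat_lit 156) (nat_lit 228) (nat_lit 0) (XT.nd (nat_lit 78) (nat_lit 152) (nat_lit 0) (XT.lf (nat_lit 0) (nat_lit 27535783948) (nat_lit 76) (nat_lit 2129114969) (nat_lit 76) (nat_lit 20649630) (nat_lit 65) (nat_lit 4) (nat_lit 66) (nat_lit 5) (nat_lit 66) (nat_lit 4) (nat_lit 473) (nat_lit 286) (nat_lit 261)) (XT.lf (nat_lit 0) (nat_lit 13180579738) (nat_lit 152) (nat_lit 5916956630) (nat_lit 0) (nat_lit 11079015016) (nat_lit 63) (nat_lit 5) (nat_lit 65) (nat_lit 4) (nat_lit 63) (nat_lit 4) (nat_lit 474) (nat_lit 286) (nat_lit 260))) (XT.nd (nat_lit 78) (nat_lit 152) (nat_lit 0) (XT.lf (nat_lit 0) (nat_lit 20828759628) (nat_lit 76) (nat_lit 6003185569) (nat_lit 76) (nat_lit 3848697550) (nat_lit 62) (nat_lit 4) (nat_lit 63) (nat_lit 5) (nat_lit 63) (nat_lit 4) (nat_lit 475) (nat_lit 286) (nat_lit 259)) (XT.lf (nat_lit 0) (nat_lit 9613734469) (nat_lit 152) (nat_lit 14107917337) (nat_lit 0) (nat_lit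 7472113245) (nat_lit 60) (nat_lit 5) (nat_lit 62) (nat_lit 4) (nat_lit 60) (nat_lit 4) (nat_lit 476) (nat_lit 286) (nat_lit 258))))) (XT.nd (nat_lit 312) (nat_lit 380) (nat_lit 0) (XT.nd (nat_lit 156) (nat_lit 152) (nat_lit 0) (XT.nd (nat_lit 78) (nat_lit 152) (nat_lit 0) (XT.lf (nat_lit 0) (nat_lit 13091354083) (nat_lit 76) (nat_lit 10408461681) (nat_lit 76) (nat_lit 8218408143) (nat_lit 59) (nat_lit 4) (nat_lit 60) (nat_lit 5) (nat_lit 60) (nat_lit 4) (nat_lit 477) (nat_lit 286) (nat_lit 257)) (XT.lf (nat_lit 0) (nat_lit 5509242997) (nat_lit 152) (nat_lit 23408048477) (nat_lit 0) (nat_lit 3337325326) (nat_lit 57) (nat_lit 5) (nat_lit 59) (nat_lit 4) (nat_lit 57) (nat_lit 4) (nat_lit 478) (nat_lit 286) (nat_lit 256))) (XT.nd (nat_lit 78) (nat_lit 76) (nat_lit 0) (XT.lf (nat_lit 0) (nat_lit 4241026951) (nat_lit 76) (nat_lit 15387758111) (nat_lit 76) (nat_lit 13171518011) (nat_lit 56) (nat_lit 4) (nat_lit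 57) (nat_lit 5) (nat_lit 57) (nat_lit 4) (nat_lit 479) (nat_lit 286) (nat_lit 255)) (XT.lf (nat_lit 0) (nat_lit 843962485) (nat_lit 152) (nat_lit 546027737) (nat_lit 76) (nat_lit 31970630063) (nat_lit 55) (nat_lit 5) (nat_lit 57) (nat_lit 5) (nat_lit 56) (nat_lit 4) (nat_lit 480) (nat_lit 286) (nat_lit 254)))) (XT.nd (nat_lit 156) (nat_lit 228) (nat_lit 0) (XT.nd (nat_lit 78) (nat_lit 76) (nat_lit 0) (XT.lf (nat_lit 0) (nat_lit 15232216939) (nat_lit 152) (nat_lit 5696918339) (nat_lit 0) (nat_lit 12998188083) (nat_lit 54) (nat_lit 5) (nat_lit 56) (nat_lit 4) (nat_lit 54) (nat_lit 4) (nat_lit 481) (nat_lit 286) (nat_lit 253)) (XT.lf (nat_lit 0) (nat_lit 23445111213) (nat_lit 76) (nat_lit 6668736606) (nat_lit 76) (nat_lit 4395327846) (nat_lit 53) (nat_lit 4) (nat_lit 54) (nat_lit 5) (nat_lit 54) (nat_lit 4) (nat_lit 482) (nat_lit 286) (nat_lit 252))) (XT.nd (nat_lit 78) (nat_lit 76) (nat_lit 0) (XT.lf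 (nat_lit 0) (nat_lit 10262051149) (nat_lit 152) (nat_lit 16821806113) (nat_lit 0) (nat_lit 8017738843) (nat_lit 51) (nat_lit 5) (nat_lit 53) (nat_lit 4) (nat_lit 51) (nat_lit 4) (nat_lit 483) (nat_lit 286) (nat_lit 251)) (XT.lf (nat_lit 0) (nat_lit 12792196262) (nat_lit 76) (nat_lit 12597535100) (nat_lit 76) (nat_lit 10317184604) (nat_lit 50) (nat_lit 4) (nat_lit 51) (nat_lit 5) (nat_lit 51) (nat_lit 4) (nat_lit 484) (nat_lit 286) (nat_lit 250))))))))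
noncomputable def xc10 : XT := (XT.nd (nat_lit 51480) (nat_lit 0) (nat_lit 228) (XT.nd (nat_lit 50310) (nat_lit 0) (nat_lit 3268) (XT.nd (nat_lit 546) (nat_lit 456) (nat_lit 0) (XT.nd (nat_lit 234) (nat_lit 456) (nat_lit 0) (XT.nd (nat_lit 78) (nat_lit 76) (nat_lit 0) (XT.lf (nat_lit 0) (nat_lit 4629941666) (nat_lit 152) (nat_lit 29314686101) (nat_lit 0) (nat_lit 2382039695) (nat_lit 48) (nat_lit 5) (nat_lit 50) (nat_lit 4) (nat_lit 48) (nat_lit 4) (nat_lit 485) (nat_lit 286) (nat_lit 249)) (XT.nd (nat_lit 78) (nat_lit 0) (nat_lit 0) (XT.lf (nat_lit 0) (nat_lit 764735569) (nat_lit 76) (nat_lit 19236302892) (nat_lit 76) (nat_lit 16955420873) (nat_lit 47) (nat_lit 4) (nat_lit 48) (nat_lit 5) (nat_lit 48) (nat_lit 4) (nat_lit 486) (nat_lit 286) (nat_lit 248)) (XT.lf (nat_lit 0) (nat_lit 31981920647) (nat_lit 76) (nat_lit 3966338042) (nat_lit 76) (nat_lit 1653436558) (nat_lit 47) (nat_lit 4) (nat_lit 48)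 (nat_lit 5) (nat_lit 48) (nat_lit 4) (nat_lit 487) (nat_lit 286) (nat_lit 247)))) (XT.nd (nat_lit 156) (nat_lit 228) (nat_lit 0) (XT.nd (nat_lit 78) (nat_lit 76) (nat_lit 0) (XT.lf (nat_lit 0) (nat_lit 14018724209) (nat_lit 152) (nat_lit 12494896115) (nat_lit 0) (nat_lit 11743007370) (nat_lit 45) (nat_lit 5) (nat_lit 47) (nat_lit 4) (nat_lit 45) (nat_lit 4) (nat_lit 488) (nat_lit 286) (nat_lit 246)) (XT.lf (nat_lit 0) (nat_lit 19230976429) (nat_lit 76) (nat_lit 11000820186) (nat_lit 76) (nat_lit 8695801001) (nat_lit 44) (nat_lit 4) (nat_lit 45) (nat_lit 5) (nat_lit 45) (nat_lit 4) (nat_lit 489) (nat_lit 286) (nat_lit 245))) (XT.nd (nat_lit 78) (nat_lit 76) (nat_lit 0) (XT.lf (nat_lit 0) (nat_lit 7287909622) (nat_lit 152) (nat_lit 27302730397) (nat_lit 0) (nat_lit 5022406647) (nat_lit 42) (nat_lit 5) (nat_lit 44) (nat_lit 4) (nat_lit 42) (nat_lit 4) (nat_lit 490) (nat_lit 286) (nat_lit 244)) (XT.lf (nat_lit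 0) (nat_lit 4908413374) (nat_lit 76) (nat_lit 18847497493) (nat_lit 76) (nat_lit 16555178720) (nat_lit 41) (nat_lit 4) (nat_lit 42) (nat_lit 5) (nat_lit 42) (nat_lit 4) (nat_lit 491) (nat_lit 286) (nat_lit 243))))) (XT.nd (nat_lit 312) (nat_lit 76) (nat_lit 0) (XT.nd (nat_lit 156) (nat_lit 228) (nat_lit 0) (XT.nd (nat_lit 78) (nat_lit 152) (nat_lit 0) (XT.lf (nat_lit 0) (nat_lit 38290572373) (nat_lit 76) (nat_lit 2527426770) (nat_lit 76) (nat_lit 209073242) (nat_lit 41) (nat_lit 4) (nat_lit 42) (nat_lit 5) (nat_lit 42) (nat_lit 4) (nat_lit 492) (nat_lit 286) (nat_lit 242)) (XT.lf (nat_lit 0) (nat_lit 16568914386) (nat_lit 152) (nat_lit 10889301037) (nat_lit 0) (nat_lit 14293545464) (nat_lit 39) (nat_lit 5) (nat_lit 41) (nat_lit 4) (nat_lit 39) (nat_lit 4) (nat_lit 493) (nat_lit 286) (nat_lit 241))) (XT.nd (nat_lit 78) (nat_lit 152) (nat_lit 0) (XT.lf (nat_lit 0) (nat_lit 23103471925) (nat_lit 76) (nat_lit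 10845382984) (nat_lit 76) (nat_lit 8546188573) (nat_lit 38) (nat_lit 4) (nat_lit 39) (nat_lit 5) (nat_lit 39) (nat_lit 4) (nat_lit 494) (nat_lit 286) (nat_lit 240)) (XT.lf (nat_lit 0) (nat_lit 8566326352) (nat_lit 152) (nat_lit 28375849075) (nat_lit 0) (nat_lit 6311640960) (nat_lit 36) (nat_lit 5) (nat_lit 38) (nat_lit 4) (nat_lit 36) (nat_lit 4) (nat_lit 495) (nat_lit 286) (nat_lit 239)))) (XT.nd (nat_lit 49296) (nat_lit 0) (nat_lit 4864) (XT.nd (nat_lit 49218) (nat_lit 0) (nat_lit 5092) (XT.lf (nat_lit 0) (nat_lit 6120974260) (nat_lit 76) (nat_lit 20091287199) (nat_lit 76) (nat_lit 17814798109) (nat_lit 35) (nat_lit 4) (nat_lit 36) (nat_lit 5) (nat_lit 36) (nat_lit 4) (nat_lit 496) (nat_lit 286) (nat_lit 238)) (XT.lf (nat_lit 0) (nat_lit 2794075837) (nat_lit 152) (nat_lit 4190698238) (nat_lit 0) (nat_lit 2794075837) (nat_lit 102) (nat_lit 5) (nat_lit 104) (nat_lit 4) (nat_lit 102) (nat_lit 4) (nat_lit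 446) (nat_lit 287) (nat_lit 287))) (XT.nd (nat_lit 78) (nat_lit 152) (nat_lit 0) (XT.lf (nat_lit 0) (nat_lit 11123813137) (nat_lit 76) (nat_lit 4446739144) (nat_lit 76) (nat_lit 4274101350) (nat_lit 101) (nat_lit 4) (nat_lit 102) (nat_lit 5) (nat_lit 102) (nat_lit 4) (nat_lit 447) (nat_lit 287) (nat_lit 286)) (XT.lf (nat_lit 0) (nat_lit 5647621868) (nat_lit 152) (nat_lit 9172255861) (nat_lit 0) (nat_lit 5317284680) (nat_lit 99) (nat_lit 5) (nat_lit 101) (nat_lit 4) (nat_lit 99) (nat_lit 4) (nat_lit 448) (nat_lit 287) (nat_lit 285)))))) (XT.nd (nat_lit 546) (nat_lit 836) (nat_lit 0) (XT.nd (nat_lit 234) (nat_lit 456) (nat_lit 0) (XT.nd (nat_lit 78) (nat_lit 228) (nat_lit 0) (XT.lf (nat_lit 0) (nat_lit 10716928624) (nat_lit 76) (nat_lit 5103693796) (nat_lit 76) (nat_lit 4615368571) (nat_lit 98) (nat_lit 4) (nat_lit 99) (nat_lit 5) (nat_lit 99) (nat_lit 4) (nat_lit 449) (nat_lit 287) (nat_lit 284)) (XT.nd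 (nat_lit 78) (nat_lit 76) (nat_lit 0) (XT.lf (nat_lit 0) (nat_lit 5491604277) (nat_lit 152) (nat_lit 10380645735) (nat_lit 0) (nat_lit 4868583238) (nat_lit 96) (nat_lit 5) (nat_lit 98) (nat_lit 4) (nat_lit 96) (nat_lit 4) (nat_lit 450) (nat_lit 287) (nat_lit 283)) (XT.lf (nat_lit 0) (nat_lit 9895629002) (nat_lit 76) (nat_lit 5961982826) (nat_lit 76) (nat_lit 5194380352) (nat_lit 95) (nat_lit 4) (nat_lit 96) (nat_lit 5) (nat_lit 96) (nat_lit 4) (nat_lit 451) (nat_lit 287) (nat_lit 282)))) (XT.nd (nat_lit 156) (nat_lit 228) (nat_lit 0) (XT.nd (nat_lit 78) (nat_lit 76) (nat_lit 0) (XT.lf (nat_lit 0) (nat_lit 5102565824) (nat_lit 152) (nat_lit 12046157070) (nat_lit 0) (nat_lit 4221038835) (nat_lit 93) (nat_lit 5) (nat_lit 95) (nat_lit 4) (nat_lit 93) (nat_lit 4) (nat_lit 452) (nat_lit 287) (nat_lit 281)) (XT.lf (nat_lit 0) (nat_lit 8619926174) (nat_lit 76) (nat_lit 7043821458) (nat_lit 76) (nat_lit 6029981974)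 (nat_lit 92) (nat_lit 4) (nat_lit 93) (nat_lit 5) (nat_lit 93) (nat_lit 4) (nat_lit 453) (nat_lit 287) (nat_lit 280))) (XT.nd (nat_lit 78) (nat_lit 76) (nat_lit 0) (XT.lf (nat_lit 0) (nat_lit 4461555478) (nat_lit 152) (nat_lit 14210972166) (nat_lit 0) (nat_lit 3352528085) (nat_lit 90) (nat_lit 5) (nat_lit 92) (nat_lit 4) (nat_lit 90) (nat_lit 4) (nat_lit 454) (nat_lit 287) (nat_lit 279)) (XT.lf (nat_lit 0) (nat_lit 6847196788) (nat_lit 76) (nat_lit 8372625223) (nat_lit 76) (nat_lit 7142513154) (nat_lit 89) (nat_lit 4) (nat_lit 90) (nat_lit 5) (nat_lit 90) (nat_lit 4) (nat_lit 455) (nat_lit 287) (nat_lit 278))))) (XT.nd (nat_lit 312) (nat_lit 380) (nat_lit 0) (XT.nd (nat_lit 156) (nat_lit 228) (nat_lit 0) (XT.nd (nat_lit 78) (nat_lit 76) (nat_lit 0) (XT.lf (nat_lit 0) (nat_lit 3548126880) (nat_lit 152) (nat_lit 16920048146) (nat_lit 0) (nat_lit 2239709398) (nat_lit 87) (nat_lit 5) (nat_lit 89) (nat_lit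 4) (nat_lit 87) (nat_lit 4) (nat_lit 456) (nat_lit 287) (nat_lit 277)) (XT.lf (nat_lit 0) (nat_lit 4531995669) (nat_lit 76) (nat_lit 9973117270) (nat_lit 76) (nat_lit 8553890157) (nat_lit 86) (nat_lit 4) (nat_lit 87) (nat_lit 5) (nat_lit 87) (nat_lit 4) (nat_lit 457) (nat_lit 287) (nat_lit 276))) (XT.nd (nat_lit 78) (nat_lit 76) (nat_lit 0) (XT.lf (nat_lit 0) (nat_lit 2340254851) (nat_lit 152) (nat_lit 20221310677) (nat_lit 0) (nat_lit 857915745) (nat_lit 84) (nat_lit 5) (nat_lit 86) (nat_lit 4) (nat_lit 84) (nat_lit 4) (nat_lit 458) (nat_lit 287) (nat_lit 275)) (XT.lf (nat_lit 0) (nat_lit 1625858802) (nat_lit 76) (nat_lit 11871439935) (nat_lit 76) (nat_lit 10287694320) (nat_lit 83) (nat_lit 4) (nat_lit 84) (nat_lit 5) (nat_lit 84) (nat_lit 4) (nat_lit 459) (nat_lit 287) (nat_lit 274)))) (XT.nd (nat_lit 156) (nat_lit 228) (nat_lit 0) (XT.nd (nat_lit 78) (nat_lit 76) (nat_lit 0) (XT.lf (nat_lit 0) (nat_lit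 822399273) (nat_lit 152) (nat_lit 12728012) (nat_lit 76) (nat_lit 23325775314) (nat_lit 82) (nat_lit 5) (nat_lit 84) (nat_lit 5) (nat_lit 83) (nat_lit 4) (nat_lit 460) (nat_lit 287) (nat_lit 273)) (XT.lf (nat_lit 0) (nat_lit 12190850275) (nat_lit 152) (nat_lit 1885382097) (nat_lit 0) (nat_lit 10464846491) (nat_lit 81) (nat_lit 5) (nat_lit 83) (nat_lit 4) (nat_lit 81) (nat_lit 4) (nat_lit 461) (nat_lit 287) (nat_lit 272))) (XT.nd (nat_lit 78) (nat_lit 152) (nat_lit 0) (XT.lf (nat_lit 0) (nat_lit 21096061443) (nat_lit 76) (nat_lit 2826024595) (nat_lit 76) (nat_lit 1009922440) (nat_lit 80) (nat_lit 4) (nat_lit 81) (nat_lit 5) (nat_lit 81) (nat_lit 4) (nat_lit 462) (nat_lit 287) (nat_lit 271)) (XT.lf (nat_lit 0) (nat_lit 10563815935) (nat_lit 152) (nat_lit 6049045933) (nat_lit 0) (nat_lit 8715683604) (nat_lit 78) (nat_lit 5) (nat_lit 80) (nat_lit 4) (nat_lit 78) (nat_lit 4) (nat_lit 463) (nat_lit 287) (nat_lit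 270))))))) (XT.nd (nat_lit 1170) (nat_lit 1520) (nat_lit 0) (XT.nd (nat_lit 546) (nat_lit 760) (nat_lit 0) (XT.nd (nat_lit 234) (nat_lit 456) (nat_lit 0) (XT.nd (nat_lit 78) (nat_lit 228) (nat_lit 0) (XT.lf (nat_lit 0) (nat_lit 17352205848) (nat_lit 76) (nat_lit 5156859960) (nat_lit 76) (nat_lit 3226274857) (nat_lit 77) (nat_lit 4) (nat_lit 78) (nat_lit 5) (nat_lit 78) (nat_lit 4) (nat_lit 464) (nat_lit 287) (nat_lit 269)) (XT.nd (nat_lit 78) (nat_lit 76) (nat_lit 0) (XT.lf (nat_lit 0) (nat_lit 8573432648) (nat_lit 152) (nat_lit 10954530022) (nat_lit 0) (nat_lit 6621358533) (nat_lit 75) (nat_lit 5) (nat_lit 77) (nat_lit 4) (nat_lit 75) (nat_lit 4) (nat_lit 465) (nat_lit 287) (nat_lit 268)) (XT.lf (nat_lit 0) (nat_lit 12866550931) (nat_lit 76) (nat_lit 7866804962) (nat_lit 76) (nat_lit 5839274881) (nat_lit 74) (nat_lit 4) (nat_lit 75) (nat_lit 5) (nat_lit 75) (nat_lit 4) (nat_lit 466) (nat_lit 287) (nat_lit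 267)))) (XT.nd (nat_lit 156) (nat_lit 228) (nat_lit 0) (XT.nd (nat_lit 78) (nat_lit 76) (nat_lit 0) (XT.lf (nat_lit 0) (nat_lit 6190594379) (nat_lit 152) (nat_lit 16663355780) (nat_lit 0) (nat_lit 4150994086) (nat_lit 72) (nat_lit 5) (nat_lit 74) (nat_lit 4) (nat_lit 72) (nat_lit 4) (nat_lit 467) (nat_lit 287) (nat_lit 266)) (XT.lf (nat_lit 0) (nat_lit 7576819501) (nat_lit 76) (nat_lit 10988641216) (nat_lit 76) (nat_lit 8879988025) (nat_lit 71) (nat_lit 4) (nat_lit 72) (nat_lit 5) (nat_lit 72) (nat_lit 4) (nat_lit 468) (nat_lit 287) (nat_lit 265))) (XT.nd (nat_lit 78) (nat_lit 76) (nat_lit 0) (XT.lf (nat_lit 0) (nat_lit 3384104695) (nat_lit 152) (nat_lit 23241151358) (nat_lit 0) (nat_lit 1271779608) (nat_lit 69) (nat_lit 5) (nat_lit 71) (nat_lit 4) (nat_lit 69) (nat_lit 4) (nat_lit 469) (nat_lit 287) (nat_lit 264)) (XT.lf (nat_lit 0) (nat_lit 1416557832) (nat_lit 76) (nat_lit 14557204684) (nat_lit 76)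 (nat_lit 12381686413) (nat_lit 68) (nat_lit 4) (nat_lit 69) (nat_lit 5) (nat_lit 69) (nat_lit 4) (nat_lit 470) (nat_lit 287) (nat_lit 263))))) (XT.nd (nat_lit 312) (nat_lit 380) (nat_lit 0) (XT.nd (nat_lit 156) (nat_lit 228) (nat_lit 0) (XT.nd (nat_lit 78) (nat_lit 76) (nat_lit 0) (XT.lf (nat_lit 0) (nat_lit 159416849) (nat_lit 152) (nat_lit 1913254671) (nat_lit 76) (nat_lit 26753466262) (nat_lit 67) (nat_lit 5) (nat_lit 69) (nat_lit 5) (nat_lit 68) (nat_lit 4) (nat_lit 471) (nat_lit 287) (nat_lit 262)) (XT.lf (nat_lit 0) (nat_lit 12979040989) (nat_lit 152) (nat_lit 5574203186) (nat_lit 0) (nat_lit 10749490975) (nat_lit 66) (nat_lit 5) (nat_lit 68) (nat_lit 4) (nat_lit 66) (nat_lit 4) (nat_lit 472) (nat_lit 287) (nat_lit 261))) (XT.nd (nat_lit 78) (nat_lit 152) (nat_lit 0) (XT.lf (nat_lit 0) (nat_lit 20394299486) (nat_lit 76) (nat_lit 5841722130) (nat_lit 76) (nat_lit 3556025790) (nat_lit 65) (nat_lit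 4) (nat_lit 66) (nat_lit 5) (nat_lit 66) (nat_lit 4) (nat_lit 473) (nat_lit 287) (nat_lit 260)) (XT.lf (nat_lit 0) (nat_lit 9513781723) (nat_lit 152) (nat_lit 13534564574) (nat_lit 0) (nat_lit 7241735767) (nat_lit 63) (nat_lit 5) (nat_lit 65) (nat_lit 4) (nat_lit 63) (nat_lit 4) (nat_lit 474) (nat_lit 287) (nat_lit 259)))) (XT.nd (nat_lit 156) (nat_lit 152) (nat_lit 0) (XT.nd (nat_lit 78) (nat_lit 152) (nat_lit 0) (XT.lf (nat_lit 0) (nat_lit 12874260341) (nat_lit 76) (nat_lit 10124171176) (nat_lit 76) (nat_lit 7800743378) (nat_lit 62) (nat_lit 4) (nat_lit 63) (nat_lit 5) (nat_lit 63) (nat_lit 4) (nat_lit 475) (nat_lit 287) (nat_lit 258)) (XT.lf (nat_lit 0) (nat_lit 5526347600) (nat_lit 152) (nat_lit 22571302932) (nat_lit 0) (nat_lit 3222160142) (nat_lit 60) (nat_lit 5) (nat_lit 62) (nat_lit 4) (nat_lit 60) (nat_lit 4) (nat_lit 476) (nat_lit 287) (nat_lit 257))) (XT.nd (nat_lit 78) (nat_lit 76) (nat_lit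 0) (XT.lf (nat_lit 0) (nat_lit 4274200482) (nat_lit 76) (nat_lit 14963263557) (nat_lit 76) (nat_lit 12612054436) (nat_lit 59) (nat_lit 4) (nat_lit 60) (nat_lit 5) (nat_lit 60) (nat_lit 4) (nat_lit 477) (nat_lit 287) (nat_lit 256)) (XT.lf (nat_lit 0) (nat_lit 993055696) (nat_lit 152) (nat_lit 380958157) (nat_lit 76) (nat_lit 31019412855) (nat_lit 58) (nat_lit 5) (nat_lit 60) (nat_lit 5) (nat_lit 59) (nat_lit 4) (nat_lit 478) (nat_lit 287) (nat_lit 255)))))) (XT.nd (nat_lit 624) (nat_lit 760) (nat_lit 0) (XT.nd (nat_lit 312) (nat_lit 380) (nat_lit 0) (XT.nd (nat_lit 156) (nat_lit 228) (nat_lit 0) (XT.nd (nat_lit 78) (nat_lit 76) (nat_lit 0) (XT.lf (nat_lit 0) (nat_lit 14964681216) (nat_lit 152) (nat_lit 5384269258) (nat_lit 0) (nat_lit 12594600003) (nat_lit 57) (nat_lit 5) (nat_lit 59) (nat_lit 4) (nat_lit 57) (nat_lit 4) (nat_lit 479) (nat_lit 287) (nat_lit 254)) (XT.lf (nat_lit 0) (nat_lit 22910689994)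 (nat_lit 76) (nat_lit 6504773538) (nat_lit 76) (nat_lit 4092914185) (nat_lit 56) (nat_lit 4) (nat_lit 57) (nat_lit 5) (nat_lit 57) (nat_lit 4) (nat_lit 480) (nat_lit 287) (nat_lit 253))) (XT.nd (nat_lit 78) (nat_lit 76) (nat_lit 0) (XT.lf (nat_lit 0) (nat_lit 10136386634) (nat_lit 152) (nat_lit 16191643393) (nat_lit 0) (nat_lit 7755395708) (nat_lit 54) (nat_lit 5) (nat_lit 56) (nat_lit 4) (nat_lit 54) (nat_lit 4) (nat_lit 481) (nat_lit 287) (nat_lit 252)) (XT.lf (nat_lit 0) (nat_lit 12561513558) (nat_lit 76) (nat_lit 12264376079) (nat_lit 76) (nat_lit 9845152239) (nat_lit 53) (nat_lit 4) (nat_lit 54) (nat_lit 5) (nat_lit 54) (nat_lit 4) (nat_lit 482) (nat_lit 287) (nat_lit 251)))) (XT.nd (nat_lit 156) (nat_lit 152) (nat_lit 0) (XT.nd (nat_lit 78) (nat_lit 76) (nat_lit 0) (XT.lf (nat_lit 0) (nat_lit 4665322488) (nat_lit 152) (nat_lit 28326785649) (nat_lit 0) (nat_lit 2280523288) (nat_lit 51) (nat_lit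 5) (nat_lit 53) (nat_lit 4) (nat_lit 51) (nat_lit 4) (nat_lit 483) (nat_lit 287) (nat_lit 250)) (XT.lf (nat_lit 0) (nat_lit 878205317) (nat_lit 76) (nat_lit 18712796860) (nat_lit 76) (nat_lit 16293009126) (nat_lit 50) (nat_lit 4) (nat_lit 51) (nat_lit 5) (nat_lit 51) (nat_lit 4) (nat_lit 484) (nat_lit 287) (nat_lit 249))) (XT.nd (nat_lit 78) (nat_lit 152) (nat_lit 0) (XT.lf (nat_lit 0) (nat_lit 31185181710) (nat_lit 76) (nat_lit 3889500575) (nat_lit 76) (nat_lit 1435743390) (nat_lit 50) (nat_lit 4) (nat_lit 51) (nat_lit 5) (nat_lit 51) (nat_lit 4) (nat_lit 485) (nat_lit 287) (nat_lit 248)) (XT.lf (nat_lit 0) (nat_lit 13778458819) (nat_lit 152) (nat_lit 12003569275) (nat_lit 0) (nat_lit 11364150825) (nat_lit 48) (nat_lit 5) (nat_lit 50) (nat_lit 4) (nat_lit 48) (nat_lit 4) (nat_lit 486) (nat_lit 287) (nat_lit 247))))) (XT.nd (nat_lit 312) (nat_lit 456) (nat_lit 0) (XT.nd (nat_lit 156) (nat_lit 76) (nat_lit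 0) (XT.nd (nat_lit 78) (nat_lit 152) (nat_lit 0) (XT.lf (nat_lit 0) (nat_lit 18799896248) (nat_lit 76) (nat_lit 10721520651) (nat_lit 76) (nat_lit 8276125798) (nat_lit 47) (nat_lit 4) (nat_lit 48) (nat_lit 5) (nat_lit 48) (nat_lit 4) (nat_lit 487) (nat_lit 287) (nat_lit 246)) (XT.lf (nat_lit 0) (nat_lit 7240458709) (nat_lit 152) (nat_lit 26385483934) (nat_lit 0) (nat_lit 4836986603) (nat_lit 45) (nat_lit 5) (nat_lit 47) (nat_lit 4) (nat_lit 45) (nat_lit 4) (nat_lit 488) (nat_lit 287) (nat_lit 245))) (XT.nd (nat_lit 78) (nat_lit 0) (nat_lit 0) (XT.lf (nat_lit 0) (nat_lit 4889087048) (nat_lit 76) (nat_lit 18341707601) (nat_lit 76) (nat_lit 15909786614) (nat_lit 44) (nat_lit 4) (nat_lit 45) (nat_lit 5) (nat_lit 45) (nat_lit 4) (nat_lit 489) (nat_lit 287) (nat_lit 244)) (XT.lf (nat_lit 0) (nat_lit 37298161224) (nat_lit 76) (nat_lit 2498533624) (nat_lit 76) (nat_lit 38992366) (nat_lit 44) (nat_lit 4) (nat_lit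 45) (nat_lit 5) (nat_lit 45) (nat_lit 4) (nat_lit 490) (nat_lit 287) (nat_lit 243)))) (XT.nd (nat_lit 156) (nat_lit 228) (nat_lit 0) (XT.nd (nat_lit 78) (nat_lit 76) (nat_lit 0) (XT.lf (nat_lit 0) (nat_lit 16248596083) (nat_lit 152) (nat_lit 10455923313) (nat_lit 0) (nat_lit 13834657194) (nat_lit 42) (nat_lit 5) (nat_lit 44) (nat_lit 4) (nat_lit 42) (nat_lit 4) (nat_lit 491) (nat_lit 287) (nat_lit 242)) (XT.lf (nat_lit 0) (nat_lit 22548359780) (nat_lit 76) (nat_lit 10575805269) (nat_lit 76) (nat_lit 8136589919) (nat_lit 41) (nat_lit 4) (nat_lit 42) (nat_lit 5) (nat_lit 42) (nat_lit 4) (nat_lit 492) (nat_lit 287) (nat_lit 241))) (XT.nd (nat_lit 78) (nat_lit 76) (nat_lit 0) (XT.lf (nat_lit 0) (nat_lit 8475721319) (nat_lit 152) (nat_lit 27437893814) (nat_lit 0) (nat_lit 6083725586) (nat_lit 39) (nat_lit 5) (nat_lit 41) (nat_lit 4) (nat_lit 39) (nat_lit 4) (nat_lit 493) (nat_lit 287) (nat_lit 240)) (XT.lf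 (nat_lit 0) (nat_lit 6055725516) (nat_lit 76) (nat_lit 19553705991) (nat_lit 76) (nat_lit 17138578716) (nat_lit 38) (nat_lit 4) (nat_lit 39) (nat_lit 5) (nat_lit 39) (nat_lit 4) (nat_lit 494) (nat_lit 287) (nat_lit 239))))))))
noncomputable def xc11 : XT := (XT.nd (nat_lit 51324) (nat_lit 0) (nat_lit 0) (XT.nd (nat_lit 50154) (nat_lit 0) (nat_lit 2432) (XT.nd (nat_lit 49530) (nat_lit 0) (nat_lit 3876) (XT.nd (nat_lit 49218) (nat_lit 0) (nat_lit 4788) (XT.nd (nat_lit 78) (nat_lit 152) (nat_lit 0) (XT.lf (nat_lit 0) (nat_lit 40781940724) (nat_lit 76) (nat_lit 2586749035) (nat_lit 76) (nat_lit 149163951) (nat_lit 38) (nat_lit 4) (nat_lit 39) (nat_lit 5) (nat_lit 39) (nat_lit 4) (nat_lit 495) (nat_lit 287) (nat_lit 238)) (XT.nd (nat_lit 49062) (nat_lit 0) (nat_lit 5244) (XT.lf (nat_lit 0) (nat_lit 17306552138) (nat_lit 152) (nat_lit 12071585622) (nat_lit 0) (nat_lit 14918796039) (nat_lit 36) (nat_lit 5)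 (nat_lit 38) (nat_lit 4) (nat_lit 36) (nat_lit 4) (nat_lit 496) (nat_lit 287) (nat_lit 237)) (XT.lf (nat_lit 0) (nat_lit 2803390424) (nat_lit 152) (nat_lit 3892531422) (nat_lit 0) (nat_lit 2803390424) (nat_lit 105) (nat_lit 5) (nat_lit 107) (nat_lit 4) (nat_lit 105) (nat_lit 4) (nat_lit 444) (nat_lit 288) (nat_lit 288)))) (XT.nd (nat_lit 156) (nat_lit 228) (nat_lit 0) (XT.nd (nat_lit 78) (nat_lit 152) (nat_lit 0) (XT.lf (nat_lit 0) (nat_lit 11153812208) (nat_lit 76) (nat_lit 4153151866) (nat_lit 76) (nat_lit 3970000430) (nat_lit 104) (nat_lit 4) (nat_lit 105) (nat_lit 5) (nat_lit 105) (nat_lit 4) (nat_lit 445) (nat_lit 288) (nat_lit 287)) (XT.lf (nat_lit 0) (nat_lit 5669050524) (nat_lit 152) (nat_lit 8572961043) (nat_lit 0) (nat_lit 5318595801) (nat_lit 102) (nat_lit 5) (nat_lit 104) (nat_lit 4) (nat_lit 102) (nat_lit 4) (nat_lit 446) (nat_lit 288) (nat_lit 286))) (XT.nd (nat_lit 78) (nat_lit 152) (nat_lit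 0) (XT.lf (nat_lit 0) (nat_lit 10738749577) (nat_lit 76) (nat_lit 4814904864) (nat_lit 76) (nat_lit 4296840633) (nat_lit 101) (nat_lit 4) (nat_lit 102) (nat_lit 5) (nat_lit 102) (nat_lit 4) (nat_lit 447) (nat_lit 288) (nat_lit 285)) (XT.lf (nat_lit 0) (nat_lit 5521143897) (nat_lit 152) (nat_lit 9764811108) (nat_lit 0) (nat_lit 4860180877) (nat_lit 99) (nat_lit 5) (nat_lit 101) (nat_lit 4) (nat_lit 99) (nat_lit 4) (nat_lit 448) (nat_lit 288) (nat_lit 284))))) (XT.nd (nat_lit 312) (nat_lit 456) (nat_lit 0) (XT.nd (nat_lit 156) (nat_lit 228) (nat_lit 0) (XT.nd (nat_lit 78) (nat_lit 152) (nat_lit 0) (XT.lf (nat_lit 0) (nat_lit 9922750258) (nat_lit 76) (nat_lit 5669805663) (nat_lit 76) (nat_lit 4855456199) (nat_lit 98) (nat_lit 4) (nat_lit 99) (nat_lit 5) (nat_lit 99) (nat_lit 4) (nat_lit 449) (nat_lit 288) (nat_lit 283)) (XT.lf (nat_lit 0) (nat_lit 5146137343) (nat_lit 152) (nat_lit 11399162841) (nat_lit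 0) (nat_lit 4210925360) (nat_lit 96) (nat_lit 5) (nat_lit 98) (nat_lit 4) (nat_lit 96) (nat_lit 4) (nat_lit 450) (nat_lit 288) (nat_lit 282))) (XT.nd (nat_lit 78) (nat_lit 152) (nat_lit 0) (XT.lf (nat_lit 0) (nat_lit 8666879863) (nat_lit 76) (nat_lit 6739628014) (nat_lit 76) (nat_lit 5664045706) (nat_lit 95) (nat_lit 4) (nat_lit 96) (nat_lit 5) (nat_lit 96) (nat_lit 4) (nat_lit 451) (nat_lit 288) (nat_lit 281)) (XT.lf (nat_lit 0) (nat_lit 4525721704) (nat_lit 152) (nat_lit 13517072638) (nat_lit 0) (nat_lit 3349154542) (nat_lit 93) (nat_lit 5) (nat_lit 95) (nat_lit 4) (nat_lit 93) (nat_lit 4) (nat_lit 452) (nat_lit 288) (nat_lit 280)))) (XT.nd (nat_lit 156) (nat_lit 228) (nat_lit 0) (XT.nd (nat_lit 78) (nat_lit 152) (nat_lit 0) (XT.lf (nat_lit 0) (nat_lit 6929654672) (nat_lit 76) (nat_lit 8047293324) (nat_lit 76) (nat_lit 6742267430) (nat_lit 92) (nat_lit 4) (nat_lit 93) (nat_lit 5) (nat_lit 93) (nat_lit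 4) (nat_lit 453) (nat_lit 288) (nat_lit 279)) (XT.lf (nat_lit 0) (nat_lit 3640127944) (nat_lit 152) (nat_lit 16162282415) (nat_lit 0) (nat_lit 2252027837) (nat_lit 90) (nat_lit 5) (nat_lit 92) (nat_lit 4) (nat_lit 90) (nat_lit 4) (nat_lit 454) (nat_lit 288) (nat_lit 278))) (XT.nd (nat_lit 78) (nat_lit 152) (nat_lit 0) (XT.lf (nat_lit 0) (nat_lit 4666859733) (nat_lit 76) (nat_lit 9616976347) (nat_lit 76) (nat_lit 8111318303) (nat_lit 89) (nat_lit 4) (nat_lit 90) (nat_lit 5) (nat_lit 90) (nat_lit 4) (nat_lit 455) (nat_lit 288) (nat_lit 277)) (XT.lf (nat_lit 0) (nat_lit 2468046787) (nat_lit 152) (nat_lit 19381408405) (nat_lit 0) (nat_lit 895433230) (nat_lit 87) (nat_lit 5) (nat_lit 89) (nat_lit 4) (nat_lit 87) (nat_lit 4) (nat_lit 456) (nat_lit 288) (nat_lit 276)))))) (XT.nd (nat_lit 546) (nat_lit 760) (nat_lit 0) (XT.nd (nat_lit 234) (nat_lit 456) (nat_lit 0) (XT.nd (nat_lit 78) (nat_lit 152) (nat_lit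 0) (XT.lf (nat_lit 0) (nat_lit 1831356874) (nat_lit 76) (nat_lit 11474214887) (nat_lit 76) (nat_lit 9794019164) (nat_lit 86) (nat_lit 4) (nat_lit 87) (nat_lit 5) (nat_lit 87) (nat_lit 4) (nat_lit 457) (nat_lit 288) (nat_lit 275)) (XT.nd (nat_lit 78) (nat_lit 0) (nat_lit 0) (XT.lf (nat_lit 0) (nat_lit 232885299) (nat_lit 76) (nat_lit 760971709) (nat_lit 152) (nat_lit 22470483767) (nat_lit 84) (nat_lit 5) (nat_lit 85) (nat_lit 5) (nat_lit 86) (nat_lit 4) (nat_lit 458) (nat_lit 288) (nat_lit 274)) (XT.lf (nat_lit 0) (nat_lit 12034546716) (nat_lit 152) (nat_lit 1595367167) (nat_lit 0) (nat_lit 10203429301) (nat_lit 84) (nat_lit 5) (nat_lit 86) (nat_lit 4) (nat_lit 84) (nat_lit 4) (nat_lit 459) (nat_lit 288) (nat_lit 273)))) (XT.nd (nat_lit 156) (nat_lit 228) (nat_lit 0) (XT.nd (nat_lit 78) (nat_lit 152) (nat_lit 0) (XT.lf (nat_lit 0) (nat_lit 20718662663) (nat_lit 76) (nat_lit 2710388972) (nat_lit 76) (nat_lit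 783686196) (nat_lit 83) (nat_lit 4) (nat_lit 84) (nat_lit 5) (nat_lit 84) (nat_lit 4) (nat_lit 460) (nat_lit 288) (nat_lit 272)) (XT.lf (nat_lit 0) (nat_lit 10454234614) (nat_lit 152) (nat_lit 5649729138) (nat_lit 0) (nat_lit 8493551024) (nat_lit 81) (nat_lit 5) (nat_lit 83) (nat_lit 4) (nat_lit 81) (nat_lit 4) (nat_lit 461) (nat_lit 288) (nat_lit 271))) (XT.nd (nat_lit 78) (nat_lit 152) (nat_lit 0) (XT.lf (nat_lit 0) (nat_lit 17071874967) (nat_lit 76) (nat_lit 4984302966) (nat_lit 76) (nat_lit 2936145231) (nat_lit 80) (nat_lit 4) (nat_lit 81) (nat_lit 5) (nat_lit 81) (nat_lit 4) (nat_lit 462) (nat_lit 288) (nat_lit 270)) (XT.lf (nat_lit 0) (nat_lit 8520741304) (nat_lit 152) (nat_lit 10423521639) (nat_lit 0) (nat_lit 6449785876) (nat_lit 78) (nat_lit 5) (nat_lit 80) (nat_lit 4) (nat_lit 78) (nat_lit 4) (nat_lit 463) (nat_lit 288) (nat_lit 269))))) (XT.nd (nat_lit 312) (nat_lit 304) (nat_lit 0) (XT.nd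 (nat_lit 156) (nat_lit 228) (nat_lit 0) (XT.nd (nat_lit 78) (nat_lit 152) (nat_lit 0) (XT.lf (nat_lit 0) (nat_lit 12705672993) (nat_lit 76) (nat_lit 7625116861) (nat_lit 76) (nat_lit 5474110198) (nat_lit 77) (nat_lit 4) (nat_lit 78) (nat_lit 5) (nat_lit 78) (nat_lit 4) (nat_lit 464) (nat_lit 288) (nat_lit 268)) (XT.lf (nat_lit 0) (nat_lit 6205857481) (nat_lit 152) (nat_lit 15976533902) (nat_lit 0) (nat_lit 4042045531) (nat_lit 75) (nat_lit 5) (nat_lit 77) (nat_lit 4) (nat_lit 75) (nat_lit 4) (nat_lit 465) (nat_lit 288) (nat_lit 267))) (XT.nd (nat_lit 78) (nat_lit 152) (nat_lit 0) (XT.lf (nat_lit 0) (nat_lit 7559534227) (nat_lit 76) (nat_lit 10664763460) (nat_lit 76) (nat_lit 8427693290) (nat_lit 74) (nat_lit 4) (nat_lit 75) (nat_lit 5) (nat_lit 75) (nat_lit 4) (nat_lit 466) (nat_lit 288) (nat_lit 266)) (XT.lf (nat_lit 0) (nat_lit 3479339768) (nat_lit 152) (nat_lit 22372537407) (nat_lit 0) (nat_lit 1238374083)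 (nat_lit 72) (nat_lit 5) (nat_lit 74) (nat_lit 4) (nat_lit 72) (nat_lit 4) (nat_lit 467) (nat_lit 288) (nat_lit 265)))) (XT.nd (nat_lit 156) (nat_lit 152) (nat_lit 0) (XT.nd (nat_lit 78) (nat_lit 76) (nat_lit 0) (XT.lf (nat_lit 0) (nat_lit 1568886091) (nat_lit 76) (nat_lit 14137160887) (nat_lit 76) (nat_lit 11829153552) (nat_lit 71) (nat_lit 4) (nat_lit 72) (nat_lit 5) (nat_lit 72) (nat_lit 4) (nat_lit 468) (nat_lit 288) (nat_lit 264)) (XT.lf (nat_lit 0) (nat_lit 344753059) (nat_lit 152) (nat_lit 1673247602) (nat_lit 76) (nat_lit 25974069311) (nat_lit 70) (nat_lit 5) (nat_lit 72) (nat_lit 5) (nat_lit 71) (nat_lit 4) (nat_lit 469) (nat_lit 288) (nat_lit 263))) (XT.nd (nat_lit 78) (nat_lit 76) (nat_lit 0) (XT.lf (nat_lit 0) (nat_lit 12794478124) (nat_lit 152) (nat_lit 5231054585) (nat_lit 0) (nat_lit 10429148514) (nat_lit 69) (nat_lit 5) (nat_lit 71) (nat_lit 4) (nat_lit 69) (nat_lit 4) (nat_lit 470)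 (nat_lit 288) (nat_lit 262)) (XT.lf (nat_lit 0) (nat_lit 19982980672) (nat_lit 76) (nat_lit 5685776755) (nat_lit 76) (nat_lit 3260881509) (nat_lit 68) (nat_lit 4) (nat_lit 69) (nat_lit 5) (nat_lit 69) (nat_lit 4) (nat_lit 471) (nat_lit 288) (nat_lit 261))))))) (XT.nd (nat_lit 1170) (nat_lit 912) (nat_lit 0) (XT.nd (nat_lit 546) (nat_lit 836) (nat_lit 0) (XT.nd (nat_lit 234) (nat_lit 304) (nat_lit 0) (XT.nd (nat_lit 78) (nat_lit 228) (nat_lit 0) (XT.lf (nat_lit 0) (nat_lit 9427705812) (nat_lit 152) (nat_lit 12968018654) (nat_lit 0) (nat_lit 7017292257) (nat_lit 66) (nat_lit 5) (nat_lit 68) (nat_lit 4) (nat_lit 66) (nat_lit 4) (nat_lit 472) (nat_lit 288) (nat_lit 260)) (XT.nd (nat_lit 78) (nat_lit 152) (nat_lit 0) (XT.lf (nat_lit 0) (nat_lit 12673489975) (nat_lit 76) (nat_lit 9849310073) (nat_lit 76) (nat_lit 7384385522) (nat_lit 65) (nat_lit 4) (nat_lit 66) (nat_lit 5) (nat_lit 66) (nat_lit 4) (nat_lit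 473) (nat_lit 288) (nat_lit 259)) (XT.lf (nat_lit 0) (nat_lit 5553767901) (nat_lit 152) (nat_lit 21749491690) (nat_lit 0) (nat_lit 3109255427) (nat_lit 63) (nat_lit 5) (nat_lit 65) (nat_lit 4) (nat_lit 63) (nat_lit 4) (nat_lit 474) (nat_lit 288) (nat_lit 258)))) (XT.nd (nat_lit 156) (nat_lit 152) (nat_lit 0) (XT.nd (nat_lit 78) (nat_lit 76) (nat_lit 0) (XT.lf (nat_lit 0) (nat_lit 4315950738) (nat_lit 76) (nat_lit 14552575801) (nat_lit 76) (nat_lit 12058178045) (nat_lit 62) (nat_lit 4) (nat_lit 63) (nat_lit 5) (nat_lit 63) (nat_lit 4) (nat_lit 475) (nat_lit 288) (nat_lit 257)) (XT.lf (nat_lit 0) (nat_lit 1148383172) (nat_lit 152) (nat_lit 211612229) (nat_lit 76) (nat_lit 30094680944) (nat_lit 61) (nat_lit 5) (nat_lit 63) (nat_lit 5) (nat_lit 62) (nat_lit 4) (nat_lit 476) (nat_lit 288) (nat_lit 256))) (XT.nd (nat_lit 78) (nat_lit 76) (nat_lit 0) (XT.lf (nat_lit 0) (nat_lit 14715663569) (nat_lit 152) (nat_lit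 5071791249) (nat_lit 0) (nat_lit 12201244410) (nat_lit 60) (nat_lit 5) (nat_lit 62) (nat_lit 4) (nat_lit 60) (nat_lit 4) (nat_lit 477) (nat_lit 288) (nat_lit 255)) (XT.lf (nat_lit 0) (nat_lit 22400874809) (nat_lit 76) (nat_lit 6347429657) (nat_lit 76) (nat_lit 3788688069) (nat_lit 59) (nat_lit 4) (nat_lit 60) (nat_lit 5) (nat_lit 60) (nat_lit 4) (nat_lit 478) (nat_lit 288) (nat_lit 254))))) (XT.nd (nat_lit 312) (nat_lit 380) (nat_lit 0) (XT.nd (nat_lit 156) (nat_lit 228) (nat_lit 0) (XT.nd (nat_lit 78) (nat_lit 76) (nat_lit 0) (XT.lf (nat_lit 0) (nat_lit 10024931968) (nat_lit 152) (nat_lit 15571296309) (nat_lit 0) (nat_lit 7498938695) (nat_lit 57) (nat_lit 5) (nat_lit 59) (nat_lit 4) (nat_lit 57) (nat_lit 4) (nat_lit 479) (nat_lit 288) (nat_lit 253)) (XT.lf (nat_lit 0) (nat_lit 12346191815) (nat_lit 76) (nat_lit 11942976672) (nat_lit 76) (nat_lit 9376422099) (nat_lit 56) (nat_lit 4) (nat_lit 57) (nat_lit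 5) (nat_lit 57) (nat_lit 4) (nat_lit 480) (nat_lit 288) (nat_lit 252))) (XT.nd (nat_lit 78) (nat_lit 76) (nat_lit 0) (XT.lf (nat_lit 0) (nat_lit 4710040022) (nat_lit 152) (nat_lit 27359493851) (nat_lit 0) (nat_lit 2180006550) (nat_lit 54) (nat_lit 5) (nat_lit 56) (nat_lit 4) (nat_lit 54) (nat_lit 4) (nat_lit 481) (nat_lit 288) (nat_lit 251)) (XT.lf (nat_lit 0) (nat_lit 996636906) (nat_lit 76) (nat_lit 18206778152) (nat_lit 76) (nat_lit 15639625345) (nat_lit 53) (nat_lit 4) (nat_lit 54) (nat_lit 5) (nat_lit 54) (nat_lit 4) (nat_lit 482) (nat_lit 288) (nat_lit 250)))) (XT.nd (nat_lit 156) (nat_lit 228) (nat_lit 0) (XT.nd (nat_lit 78) (nat_lit 152) (nat_lit 0) (XT.lf (nat_lit 0) (nat_lit 30419856457) (nat_lit 76) (nat_lit 3817257128) (nat_lit 76) (nat_lit 1214066130) (nat_lit 53) (nat_lit 4) (nat_lit 54) (nat_lit 5) (nat_lit 54) (nat_lit 4) (nat_lit 483) (nat_lit 288) (nat_lit 249)) (XT.lf (nat_lit 0)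 (nat_lit 13555425510) (nat_lit 152) (nat_lit 11518794398) (nat_lit 0) (nat_lit 10994086160) (nat_lit 51) (nat_lit 5) (nat_lit 53) (nat_lit 4) (nat_lit 51) (nat_lit 4) (nat_lit 484) (nat_lit 288) (nat_lit 248))) (XT.nd (nat_lit 78) (nat_lit 152) (nat_lit 0) (XT.lf (nat_lit 0) (nat_lit 18389230661) (nat_lit 76) (nat_lit 10452859817) (nat_lit 76) (nat_lit 7858540417) (nat_lit 50) (nat_lit 4) (nat_lit 51) (nat_lit 5) (nat_lit 51) (nat_lit 4) (nat_lit 485) (nat_lit 288) (nat_lit 247)) (XT.lf (nat_lit 0) (nat_lit 7204427296) (nat_lit 152) (nat_lit 25487522291) (nat_lit 0) (nat_lit 4654583738) (nat_lit 48) (nat_lit 5) (nat_lit 50) (nat_lit 4) (nat_lit 48) (nat_lit 4) (nat_lit 486) (nat_lit 288) (nat_lit 246)))))) (XT.nd (nat_lit 624) (nat_lit 228) (nat_lit 0) (XT.nd (nat_lit 312) (nat_lit 380) (nat_lit 0) (XT.nd (nat_lit 156) (nat_lit 152) (nat_lit 0) (XT.nd (nat_lit 78) (nat_lit 76) (nat_lit 0) (XT.lf (nat_lit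 0) (nat_lit 4877853128) (nat_lit 76) (nat_lit 17853278284) (nat_lit 76) (nat_lit 15273253309) (nat_lit 47) (nat_lit 4) (nat_lit 48) (nat_lit 5) (nat_lit 48) (nat_lit 4) (nat_lit 487) (nat_lit 288) (nat_lit 245)) (XT.lf (nat_lit 0) (nat_lit 133465544) (nat_lit 152) (nat_lit 2338392265) (nat_lit 76) (nat_lit 36207323428) (nat_lit 46) (nat_lit 5) (nat_lit 48) (nat_lit 5) (nat_lit 47) (nat_lit 4) (nat_lit 488) (nat_lit 288) (nat_lit 244))) (XT.nd (nat_lit 78) (nat_lit 76) (nat_lit 0) (XT.lf (nat_lit 0) (nat_lit 15947489770) (nat_lit 152) (nat_lit 10028090832) (nat_lit 0) (nat_lit 13386542002) (nat_lit 45) (nat_lit 5) (nat_lit 47) (nat_lit 4) (nat_lit 45) (nat_lit 4) (nat_lit 489) (nat_lit 288) (nat_lit 243)) (XT.lf (nat_lit 0) (nat_lit 22016590244) (nat_lit 76) (nat_lit 10316899443) (nat_lit 76) (nat_lit 7729135878) (nat_lit 44) (nat_lit 4) (nat_lit 45) (nat_lit 5) (nat_lit 45) (nat_lit 4) (nat_lit 490)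 (nat_lit 288) (nat_lit 242)))) (XT.nd (nat_lit 156) (nat_lit 152) (nat_lit 0) (XT.nd (nat_lit 78) (nat_lit 76) (nat_lit 0) (XT.lf (nat_lit 0) (nat_lit 8397432254) (nat_lit 152) (nat_lit 26520468858) (nat_lit 0) (nat_lit 5859763981) (nat_lit 42) (nat_lit 5) (nat_lit 44) (nat_lit 4) (nat_lit 42) (nat_lit 4) (nat_lit 491) (nat_lit 288) (nat_lit 241)) (XT.lf (nat_lit 0) (nat_lit 5999260872) (nat_lit 76) (nat_lit 19034681446) (nat_lit 76) (nat_lit 16472472919) (nat_lit 41) (nat_lit 4) (nat_lit 42) (nat_lit 5) (nat_lit 42) (nat_lit 4) (nat_lit 492) (nat_lit 288) (nat_lit 240))) (XT.nd (nat_lit 78) (nat_lit 76) (nat_lit 0) (XT.lf (nat_lit 0) (nat_lit 22340441) (nat_lit 152) (nat_lit 2540682919) (nat_lit 76) (nat_lit 39690786346) (nat_lit 40) (nat_lit 5) (nat_lit 42) (nat_lit 5) (nat_lit 41) (nat_lit 4) (nat_lit 493) (nat_lit 288) (nat_lit 239)) (XT.lf (nat_lit 0) (nat_lit 16968088445) (nat_lit 152) (nat_lit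 11607111630) (nat_lit 0) (nat_lit 14434918001) (nat_lit 39) (nat_lit 5) (nat_lit 41) (nat_lit 4) (nat_lit 39) (nat_lit 4) (nat_lit 494) (nat_lit 288) (nat_lit 238))))) (XT.nd (nat_lit 49140) (nat_lit 0) (nat_lit 4940) (XT.nd (nat_lit 48984) (nat_lit 0) (nat_lit 5396) (XT.nd (nat_lit 78) (nat_lit 152) (nat_lit 0) (XT.lf (nat_lit 0) (nat_lit 22728042564) (nat_lit 76) (nat_lit 11806341017) (nat_lit 76) (nat_lit 9251366875) (nat_lit 38) (nat_lit 4) (nat_lit 39) (nat_lit 5) (nat_lit 39) (nat_lit 4) (nat_lit 495) (nat_lit 288) (nat_lit 237)) (XT.lf (nat_lit 0) (nat_lit 8031998357) (nat_lit 152) (nat_lit 31015067233) (nat_lit 0) (nat_lit 5530888861) (nat_lit 36) (nat_lit 5) (nat_lit 38) (nat_lit 4) (nat_lit 36) (nat_lit 4) (nat_lit 496) (nat_lit 288) (nat_lit 236))) (XT.nd (nat_lit 78) (nat_lit 76) (nat_lit 0) (XT.lf (nat_lit 0) (nat_lit 2817957064) (nat_lit 152) (nat_lit 3592324122) (nat_lit 0) (nat_lit 2817957064)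 (nat_lit 108) (nat_lit 5) (nat_lit 110) (nat_lit 4) (nat_lit 108) (nat_lit 4) (nat_lit 442) (nat_lit 289) (nat_lit 289)) (XT.lf (nat_lit 0) (nat_lit 11204495731) (nat_lit 76) (nat_lit 3858123775) (nat_lit 76) (nat_lit 3663818416) (nat_lit 107) (nat_lit 4) (nat_lit 108) (nat_lit 5) (nat_lit 108) (nat_lit 4) (nat_lit 443) (nat_lit 289) (nat_lit 288)))) (XT.nd (nat_lit 156) (nat_lit 228) (nat_lit 0) (XT.nd (nat_lit 78) (nat_lit 76) (nat_lit 0) (XT.lf (nat_lit 0) (nat_lit 5701177724) (nat_lit 152) (nat_lit 7970893982) (nat_lit 0) (nat_lit 5329380309) (nat_lit 105) (nat_lit 5) (nat_lit 107) (nat_lit 4) (nat_lit 105) (nat_lit 4) (nat_lit 444) (nat_lit 289) (nat_lit 287)) (XT.lf (nat_lit 0) (nat_lit 10780273406) (nat_lit 76) (nat_lit 4525992878) (nat_lit 76) (nat_lit 3976378534) (nat_lit 104) (nat_lit 4) (nat_lit 105) (nat_lit 5) (nat_lit 105) (nat_lit 4) (nat_lit 445) (nat_lit 289) (nat_lit 286))) (XT.nd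 (nat_lit 78) (nat_lit 76) (nat_lit 0) (XT.lf (nat_lit 0) (nat_lit 5561363036) (nat_lit 152) (nat_lit 9147822131) (nat_lit 0) (nat_lit 4860147369) (nat_lit 102) (nat_lit 5) (nat_lit 104) (nat_lit 4) (nat_lit 102) (nat_lit 4) (nat_lit 446) (nat_lit 289) (nat_lit 285)) (XT.lf (nat_lit 0) (nat_lit 9968285992) (nat_lit 76) (nat_lit 5378920209) (nat_lit 76) (nat_lit 4514976863) (nat_lit 101) (nat_lit 4) (nat_lit 102) (nat_lit 5) (nat_lit 102) (nat_lit 4) (nat_lit 447) (nat_lit 289) (nat_lit 284))))))))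
noncomputable def xc12 : XT := (XT.nd (nat_lit 2340) (nat_lit 1672) (nat_lit 0) (XT.nd (nat_lit 1170) (nat_lit 1520) (nat_lit 0) (XT.nd (nat_lit 546) (nat_lit 760) (nat_lit 0) (XT.nd (nat_lit 234) (nat_lit 456) (nat_lit 0) (XT.nd (nat_lit 78) (nat_lit 228) (nat_lit 0) (XT.lf (nat_lit 0) (nat_lit 5200144155) (nat_lit 152) (nat_lit 10752978465) (nat_lit 0) (nat_lit 4207977763) (nat_lit 99) (nat_lit 5) (nat_lit 101) (nat_lit 4) (nat_lit 99) (nat_lit 4) (nat_lit 448) (nat_lit 289) (nat_lit 283)) (XT.nd (nat_lit 78) (nat_lit 152) (nat_lit 0) (XT.lf (nat_lit 0) (nat_lit 8730615357) (nat_lit 76) (nat_lit 6438263428) (nat_lit 76) (nat_lit 5297178157) (nat_lit 98) (nat_lit 4) (nat_lit 99) (nat_lit 5) (nat_lit 99) (nat_lit 4) (nat_lit 449) (nat_lit 289) (nat_lit 282)) (XT.lf (nat_lit 0) (nat_lit 4599840579) (nat_lit 152) (nat_lit 12826332524) (nat_lit 0) (nat_lit 3351620477) (nat_lit 96) (nat_lit 5) (nat_lit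 98) (nat_lit 4) (nat_lit 96) (nat_lit 4) (nat_lit 450) (nat_lit 289) (nat_lit 281)))) (XT.nd (nat_lit 156) (nat_lit 228) (nat_lit 0) (XT.nd (nat_lit 78) (nat_lit 152) (nat_lit 0) (XT.lf (nat_lit 0) (nat_lit 7026878020) (nat_lit 76) (nat_lit 7726475647) (nat_lit 76) (nat_lit 6341973676) (nat_lit 95) (nat_lit 4) (nat_lit 96) (nat_lit 5) (nat_lit 96) (nat_lit 4) (nat_lit 451) (nat_lit 289) (nat_lit 280)) (XT.lf (nat_lit 0) (nat_lit 3741345849) (nat_lit 152) (nat_lit 15410452149) (nat_lit 0) (nat_lit 2268710446) (nat_lit 93) (nat_lit 5) (nat_lit 95) (nat_lit 4) (nat_lit 93) (nat_lit 4) (nat_lit 452) (nat_lit 289) (nat_lit 279))) (XT.nd (nat_lit 78) (nat_lit 152) (nat_lit 0) (XT.lf (nat_lit 0) (nat_lit 4814047731) (nat_lit 76) (nat_lit 9267209659) (nat_lit 76) (nat_lit 7669857039) (nat_lit 92) (nat_lit 4) (nat_lit 93) (nat_lit 5) (nat_lit 93) (nat_lit 4) (nat_lit 453) (nat_lit 289) (nat_lit 278)) (XT.lf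 (nat_lit 0) (nat_lit 2604050269) (nat_lit 152) (nat_lit 18550687543) (nat_lit 0) (nat_lit 935664546) (nat_lit 90) (nat_lit 5) (nat_lit 92) (nat_lit 4) (nat_lit 90) (nat_lit 4) (nat_lit 454) (nat_lit 289) (nat_lit 277))))) (XT.nd (nat_lit 312) (nat_lit 456) (nat_lit 0) (XT.nd (nat_lit 156) (nat_lit 76) (nat_lit 0) (XT.nd (nat_lit 78) (nat_lit 152) (nat_lit 0) (XT.lf (nat_lit 0) (nat_lit 2046268325) (nat_lit 76) (nat_lit 11085425894) (nat_lit 76) (nat_lit 9302906251) (nat_lit 89) (nat_lit 4) (nat_lit 90) (nat_lit 5) (nat_lit 90) (nat_lit 4) (nat_lit 455) (nat_lit 289) (nat_lit 276)) (XT.lf (nat_lit 0) (nat_lit 486541010) (nat_lit 76) (nat_lit 685808882) (nat_lit 152) (nat_lit 21616149076) (nat_lit 87) (nat_lit 5) (nat_lit 88) (nat_lit 5) (nat_lit 89) (nat_lit 4) (nat_lit 456) (nat_lit 289) (nat_lit 275))) (XT.nd (nat_lit 78) (nat_lit 76) (nat_lit 0) (XT.lf (nat_lit 0) (nat_lit 11894900766) (nat_lit 152)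 (nat_lit 1299481630) (nat_lit 0) (nat_lit 9952268300) (nat_lit 87) (nat_lit 5) (nat_lit 89) (nat_lit 4) (nat_lit 87) (nat_lit 4) (nat_lit 457) (nat_lit 289) (nat_lit 274)) (XT.lf (nat_lit 0) (nat_lit 20366692401) (nat_lit 76) (nat_lit 2596091932) (nat_lit 76) (nat_lit 552052957) (nat_lit 86) (nat_lit 4) (nat_lit 87) (nat_lit 5) (nat_lit 87) (nat_lit 4) (nat_lit 458) (nat_lit 289) (nat_lit 273)))) (XT.nd (nat_lit 156) (nat_lit 228) (nat_lit 0) (XT.nd (nat_lit 78) (nat_lit 76) (nat_lit 0) (XT.lf (nat_lit 0) (nat_lit 10359909432) (nat_lit 152) (nat_lit 5248454252) (nat_lit 0) (nat_lit 8279820212) (nat_lit 84) (nat_lit 5) (nat_lit 86) (nat_lit 4) (nat_lit 84) (nat_lit 4) (nat_lit 459) (nat_lit 289) (nat_lit 272)) (XT.lf (nat_lit 0) (nat_lit 16813416020) (nat_lit 76) (nat_lit 4815410352) (nat_lit 76) (nat_lit 2642519810) (nat_lit 83) (nat_lit 4) (nat_lit 84) (nat_lit 5) (nat_lit 84) (nat_lit 4) (nat_lit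 460) (nat_lit 289) (nat_lit 271))) (XT.nd (nat_lit 78) (nat_lit 76) (nat_lit 0) (XT.lf (nat_lit 0) (nat_lit 8481583196) (nat_lit 152) (nat_lit 9895072106) (nat_lit 0) (nat_lit 6284506582) (nat_lit 81) (nat_lit 5) (nat_lit 83) (nat_lit 4) (nat_lit 81) (nat_lit 4) (nat_lit 461) (nat_lit 289) (nat_lit 270)) (XT.lf (nat_lit 0) (nat_lit 12562505867) (nat_lit 76) (nat_lit 7389703445) (nat_lit 76) (nat_lit 5107700477) (nat_lit 80) (nat_lit 4) (nat_lit 81) (nat_lit 5) (nat_lit 81) (nat_lit 4) (nat_lit 462) (nat_lit 289) (nat_lit 269)))))) (XT.nd (nat_lit 546) (nat_lit 836) (nat_lit 0) (XT.nd (nat_lit 234) (nat_lit 304) (nat_lit 0) (XT.nd (nat_lit 78) (nat_lit 228) (nat_lit 0) (XT.lf (nat_lit 0) (nat_lit 6232586342) (nat_lit 152) (nat_lit 15297446325) (nat_lit 0) (nat_lit 3936998244) (nat_lit 78) (nat_lit 5) (nat_lit 80) (nat_lit 4) (nat_lit 78) (nat_lit 4) (nat_lit 463) (nat_lit 289) (nat_lit 268)) (XT.nd (nat_lit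 78) (nat_lit 152) (nat_lit 0) (XT.lf (nat_lit 0) (nat_lit 7555139393) (nat_lit 76) (nat_lit 10350086384) (nat_lit 76) (nat_lit 7976778641) (nat_lit 77) (nat_lit 4) (nat_lit 78) (nat_lit 5) (nat_lit 78) (nat_lit 4) (nat_lit 464) (nat_lit 289) (nat_lit 267)) (XT.lf (nat_lit 0) (nat_lit 3583603499) (nat_lit 152) (nat_lit 21517549140) (nat_lit 0) (nat_lit 1206163004) (nat_lit 75) (nat_lit 5) (nat_lit 77) (nat_lit 4) (nat_lit 75) (nat_lit 4) (nat_lit 465) (nat_lit 289) (nat_lit 266)))) (XT.nd (nat_lit 156) (nat_lit 152) (nat_lit 0) (XT.nd (nat_lit 78) (nat_lit 76) (nat_lit 0) (XT.lf (nat_lit 0) (nat_lit 1728567066) (nat_lit 76) (nat_lit 13729592079) (nat_lit 76) (nat_lit 11281027098) (nat_lit 74) (nat_lit 4) (nat_lit 75) (nat_lit 5) (nat_lit 75) (nat_lit 4) (nat_lit 466) (nat_lit 289) (nat_lit 265)) (XT.lf (nat_lit 0) (nat_lit 536260873) (nat_lit 152) (nat_lit 1429008305) (nat_lit 76) (nat_lit 25217362903)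 (nat_lit 73) (nat_lit 5) (nat_lit 75) (nat_lit 5) (nat_lit 74) (nat_lit 4) (nat_lit 467) (nat_lit 289) (nat_lit 264))) (XT.nd (nat_lit 78) (nat_lit 76) (nat_lit 0) (XT.lf (nat_lit 0) (nat_lit 12627073044) (nat_lit 152) (nat_lit 4886890299) (nat_lit 0) (nat_lit 10117694861) (nat_lit 72) (nat_lit 5) (nat_lit 74) (nat_lit 4) (nat_lit 72) (nat_lit 4) (nat_lit 468) (nat_lit 289) (nat_lit 263)) (XT.lf (nat_lit 0) (nat_lit 19594767833) (nat_lit 76) (nat_lit 5535238373) (nat_lit 76) (nat_lit 2962667006) (nat_lit 71) (nat_lit 4) (nat_lit 72) (nat_lit 5) (nat_lit 72) (nat_lit 4) (nat_lit 469) (nat_lit 289) (nat_lit 262))))) (XT.nd (nat_lit 312) (nat_lit 380) (nat_lit 0) (XT.nd (nat_lit 156) (nat_lit 228) (nat_lit 0) (XT.nd (nat_lit 78) (nat_lit 76) (nat_lit 0) (XT.lf (nat_lit 0) (nat_lit 9355770360) (nat_lit 152) (nat_lit 12407478851) (nat_lit 0) (nat_lit 6798562619) (nat_lit 69) (nat_lit 5) (nat_lit 71) (nat_lit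 4) (nat_lit 69) (nat_lit 4) (nat_lit 470) (nat_lit 289) (nat_lit 261)) (XT.lf (nat_lit 0) (nat_lit 12489176563) (nat_lit 76) (nat_lit 9583673709) (nat_lit 76) (nat_lit 6968635253) (nat_lit 68) (nat_lit 4) (nat_lit 69) (nat_lit 5) (nat_lit 69) (nat_lit 4) (nat_lit 471) (nat_lit 289) (nat_lit 260))) (XT.nd (nat_lit 78) (nat_lit 76) (nat_lit 0) (XT.lf (nat_lit 0) (nat_lit 5591862009) (nat_lit 152) (nat_lit 20941605064) (nat_lit 0) (nat_lit 2998478726) (nat_lit 66) (nat_lit 5) (nat_lit 68) (nat_lit 4) (nat_lit 66) (nat_lit 4) (nat_lit 472) (nat_lit 289) (nat_lit 259)) (XT.lf (nat_lit 0) (nat_lit 4366609077) (nat_lit 76) (nat_lit 14155380574) (nat_lit 76) (nat_lit 11509073993) (nat_lit 65) (nat_lit 4) (nat_lit 66) (nat_lit 5) (nat_lit 66) (nat_lit 4) (nat_lit 473) (nat_lit 289) (nat_lit 258)))) (XT.nd (nat_lit 156) (nat_lit 228) (nat_lit 0) (XT.nd (nat_lit 78) (nat_lit 76) (nat_lit 0) (XT.lf (nat_lit 0)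 (nat_lit 1310407459) (nat_lit 152) (nat_lit 37561278) (nat_lit 76) (nat_lit 29195588611) (nat_lit 64) (nat_lit 5) (nat_lit 66) (nat_lit 5) (nat_lit 65) (nat_lit 4) (nat_lit 474) (nat_lit 289) (nat_lit 257)) (XT.lf (nat_lit 0) (nat_lit 14485277838) (nat_lit 152) (nat_lit 4758935173) (nat_lit 0) (nat_lit 11817730551) (nat_lit 63) (nat_lit 5) (nat_lit 65) (nat_lit 4) (nat_lit 63) (nat_lit 4) (nat_lit 475) (nat_lit 289) (nat_lit 256))) (XT.nd (nat_lit 78) (nat_lit 152) (nat_lit 0) (XT.lf (nat_lit 0) (nat_lit 21915499536) (nat_lit 76) (nat_lit 6196624443) (nat_lit 76) (nat_lit 3482055493) (nat_lit 62) (nat_lit 4) (nat_lit 63) (nat_lit 5) (nat_lit 63) (nat_lit 4) (nat_lit 476) (nat_lit 289) (nat_lit 255)) (XT.lf (nat_lit 0) (nat_lit 9927915750) (nat_lit 152) (nat_lit 14959958966) (nat_lit 0) (nat_lit 7248089487) (nat_lit 60) (nat_lit 5) (nat_lit 62) (nat_lit 4) (nat_lit 60) (nat_lit 4) (nat_lit 477) (nat_lit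 289) (nat_lit 254))))))) (XT.nd (nat_lit 1170) (nat_lit 304) (nat_lit 0) (XT.nd (nat_lit 546) (nat_lit 684) (nat_lit 0) (XT.nd (nat_lit 234) (nat_lit 380) (nat_lit 0) (XT.nd (nat_lit 78) (nat_lit 228) (nat_lit 0) (XT.lf (nat_lit 0) (nat_lit 12146309927) (nat_lit 76) (nat_lit 11633119572) (nat_lit 76) (nat_lit 8910261825) (nat_lit 59) (nat_lit 4) (nat_lit 60) (nat_lit 5) (nat_lit 60) (nat_lit 4) (nat_lit 478) (nat_lit 289) (nat_lit 253)) (XT.nd (nat_lit 78) (nat_lit 76) (nat_lit 0) (XT.lf (nat_lit 0) (nat_lit 4764453686) (nat_lit 152) (nat_lit 26411713197) (nat_lit 0) (nat_lit 2080341176) (nat_lit 57) (nat_lit 5) (nat_lit 59) (nat_lit 4) (nat_lit 57) (nat_lit 4) (nat_lit 479) (nat_lit 289) (nat_lit 252)) (XT.lf (nat_lit 0) (nat_lit 1120389263) (nat_lit 76) (nat_lit 17717873818) (nat_lit 76) (nat_lit 14994381405) (nat_lit 56) (nat_lit 4) (nat_lit 57) (nat_lit 5) (nat_lit 57) (nat_lit 4) (nat_lit 480)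 (nat_lit 289) (nat_lit 251)))) (XT.nd (nat_lit 156) (nat_lit 228) (nat_lit 0) (XT.nd (nat_lit 78) (nat_lit 152) (nat_lit 0) (XT.lf (nat_lit 0) (nat_lit 29685529774) (nat_lit 76) (nat_lit 3749617375) (nat_lit 76) (nat_lit 987892046) (nat_lit 56) (nat_lit 4) (nat_lit 57) (nat_lit 5) (nat_lit 57) (nat_lit 4) (nat_lit 481) (nat_lit 289) (nat_lit 250)) (XT.lf (nat_lit 0) (nat_lit 13349745632) (nat_lit 152) (nat_lit 11039908156) (nat_lit 0) (nat_lit 10632420715) (nat_lit 54) (nat_lit 5) (nat_lit 56) (nat_lit 4) (nat_lit 54) (nat_lit 4) (nat_lit 482) (nat_lit 289) (nat_lit 249))) (XT.nd (nat_lit 78) (nat_lit 152) (nat_lit 0) (XT.lf (nat_lit 0) (nat_lit 17998863675) (nat_lit 76) (nat_lit 10194680298) (nat_lit 76) (nat_lit 7442366847) (nat_lit 53) (nat_lit 4) (nat_lit 54) (nat_lit 5) (nat_lit 54) (nat_lit 4) (nat_lit 483) (nat_lit 289) (nat_lit 248)) (XT.lf (nat_lit 0) (nat_lit 7180094056) (nat_lit 152) (nat_lit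 24607831220) (nat_lit 0) (nat_lit 4474965025) (nat_lit 51) (nat_lit 5) (nat_lit 53) (nat_lit 4) (nat_lit 51) (nat_lit 4) (nat_lit 484) (nat_lit 289) (nat_lit 247))))) (XT.nd (nat_lit 312) (nat_lit 380) (nat_lit 0) (XT.nd (nat_lit 156) (nat_lit 152) (nat_lit 0) (XT.nd (nat_lit 78) (nat_lit 76) (nat_lit 0) (XT.lf (nat_lit 0) (nat_lit 4874934461) (nat_lit 76) (nat_lit 17381863990) (nat_lit 76) (nat_lit 14644715494) (nat_lit 50) (nat_lit 4) (nat_lit 51) (nat_lit 5) (nat_lit 51) (nat_lit 4) (nat_lit 485) (nat_lit 289) (nat_lit 246)) (XT.lf (nat_lit 0) (nat_lit 310550224) (nat_lit 152) (nat_lit 2137818398) (nat_lit 76) (nat_lit 35108208481) (nat_lit 49) (nat_lit 5) (nat_lit 51) (nat_lit 5) (nat_lit 50) (nat_lit 4) (nat_lit 486) (nat_lit 289) (nat_lit 245))) (XT.nd (nat_lit 78) (nat_lit 76) (nat_lit 0) (XT.lf (nat_lit 0) (nat_lit 15665637708) (nat_lit 152) (nat_lit 9605211068) (nat_lit 0) (nat_lit 12948728221)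 (nat_lit 48) (nat_lit 5) (nat_lit 50) (nat_lit 4) (nat_lit 48) (nat_lit 4) (nat_lit 487) (nat_lit 289) (nat_lit 244)) (XT.lf (nat_lit 0) (nat_lit 21507920351) (nat_lit 76) (nat_lit 10068526418) (nat_lit 76) (nat_lit 7323168052) (nat_lit 47) (nat_lit 4) (nat_lit 48) (nat_lit 5) (nat_lit 48) (nat_lit 4) (nat_lit 488) (nat_lit 289) (nat_lit 243)))) (XT.nd (nat_lit 156) (nat_lit 152) (nat_lit 0) (XT.nd (nat_lit 78) (nat_lit 76) (nat_lit 0) (XT.lf (nat_lit 0) (nat_lit 8331689768) (nat_lit 152) (nat_lit 25622562801) (nat_lit 0) (nat_lit 5639477497) (nat_lit 45) (nat_lit 5) (nat_lit 47) (nat_lit 4) (nat_lit 45) (nat_lit 4) (nat_lit 489) (nat_lit 289) (nat_lit 242)) (XT.lf (nat_lit 0) (nat_lit 5951743697) (nat_lit 76) (nat_lit 18533849623) (nat_lit 76) (nat_lit 15815602597) (nat_lit 44) (nat_lit 4) (nat_lit 45) (nat_lit 5) (nat_lit 45) (nat_lit 4) (nat_lit 490) (nat_lit 289) (nat_lit 241))) (XT.nd (nat_lit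 78) (nat_lit 76) (nat_lit 0) (XT.lf (nat_lit 0) (nat_lit 196031545) (nat_lit 152) (nat_lit 2345579450) (nat_lit 76) (nat_lit 38485138315) (nat_lit 43) (nat_lit 5) (nat_lit 45) (nat_lit 5) (nat_lit 44) (nat_lit 4) (nat_lit 491) (nat_lit 289) (nat_lit 240)) (XT.lf (nat_lit 0) (nat_lit 16649568607) (nat_lit 152) (nat_lit 11149291955) (nat_lit 0) (nat_lit 13962128082) (nat_lit 42) (nat_lit 5) (nat_lit 44) (nat_lit 4) (nat_lit 42) (nat_lit 4) (nat_lit 492) (nat_lit 289) (nat_lit 239)))))) (XT.nd (nat_lit 49296) (nat_lit 0) (nat_lit 4332) (XT.nd (nat_lit 48984) (nat_lit 0) (nat_lit 5244) (XT.nd (nat_lit 156) (nat_lit 76) (nat_lit 0) (XT.nd (nat_lit 78) (nat_lit 152) (nat_lit 0) (XT.lf (nat_lit 0) (nat_lit 22187531717) (nat_lit 76) (nat_lit 11518507838) (nat_lit 76) (nat_lit 8807935771) (nat_lit 41) (nat_lit 4) (nat_lit 42) (nat_lit 5) (nat_lit 42) (nat_lit 4) (nat_lit 493) (nat_lit 289) (nat_lit 238)) (XT.lf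 (nat_lit 0) (nat_lit 7969875208) (nat_lit 152) (nat_lit 29996694708) (nat_lit 0) (nat_lit 5316448145) (nat_lit 39) (nat_lit 5) (nat_lit 41) (nat_lit 4) (nat_lit 39) (nat_lit 4) (nat_lit 494) (nat_lit 289) (nat_lit 237))) (XT.nd (nat_lit 78) (nat_lit 0) (nat_lit 0) (XT.lf (nat_lit 0) (nat_lit 3817075837) (nat_lit 76) (nat_lit 21461942434) (nat_lit 76) (nat_lit 18787346732) (nat_lit 38) (nat_lit 4) (nat_lit 39) (nat_lit 5) (nat_lit 39) (nat_lit 4) (nat_lit 495) (nat_lit 289) (nat_lit 236)) (XT.lf (nat_lit 0) (nat_lit 38953898623) (nat_lit 76) (nat_lit 4304959418) (nat_lit 76) (nat_lit 1609811640) (nat_lit 38) (nat_lit 4) (nat_lit 39) (nat_lit 5) (nat_lit 39) (nat_lit 4) (nat_lit 496) (nat_lit 289) (nat_lit 235)))) (XT.nd (nat_lit 156) (nat_lit 228) (nat_lit 0) (XT.nd (nat_lit 78) (nat_lit 76) (nat_lit 0) (XT.lf (nat_lit 0) (nat_lit 2837959157) (nat_lit 152) (nat_lit 3289482619) (nat_lit 0) (nat_lit 2837959157)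 (nat_lit 111) (nat_lit 5) (nat_lit 113) (nat_lit 4) (nat_lit 111) (nat_lit 4) (nat_lit 440) (nat_lit 290) (nat_lit 290)) (XT.lf (nat_lit 0) (nat_lit 11276574143) (nat_lit 76) (nat_lit 3561088328) (nat_lit 76) (nat_lit 3354949773) (nat_lit 110) (nat_lit 4) (nat_lit 111) (nat_lit 5) (nat_lit 111) (nat_lit 4) (nat_lit 441) (nat_lit 290) (nat_lit 289))) (XT.nd (nat_lit 78) (nat_lit 76) (nat_lit 0) (XT.lf (nat_lit 0) (nat_lit 5744381412) (nat_lit 152) (nat_lit 7364903572) (nat_lit 0) (nat_lit 5349941534) (nat_lit 108) (nat_lit 5) (nat_lit 110) (nat_lit 4) (nat_lit 108) (nat_lit 4) (nat_lit 442) (nat_lit 290) (nat_lit 288)) (XT.lf (nat_lit 0) (nat_lit 10842164852) (nat_lit 76) (nat_lit 4236441676) (nat_lit 76) (nat_lit 3653355819) (nat_lit 107) (nat_lit 4) (nat_lit 108) (nat_lit 5) (nat_lit 108) (nat_lit 4) (nat_lit 443) (nat_lit 290) (nat_lit 287))))) (XT.nd (nat_lit 312) (nat_lit 456) (nat_lit 0) (XT.nd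 (nat_lit 156) (nat_lit 228) (nat_lit 0) (XT.nd (nat_lit 78) (nat_lit 76) (nat_lit 0) (XT.lf (nat_lit 0) (nat_lit 5612653420) (nat_lit 152) (nat_lit 8528549767) (nat_lit 0) (nat_lit 4868733718) (nat_lit 105) (nat_lit 5) (nat_lit 107) (nat_lit 4) (nat_lit 105) (nat_lit 4) (nat_lit 444) (nat_lit 290) (nat_lit 286)) (XT.lf (nat_lit 0) (nat_lit 10032869408) (nat_lit 76) (nat_lit 5088849248) (nat_lit 76) (nat_lit 4172291752) (nat_lit 104) (nat_lit 4) (nat_lit 105) (nat_lit 5) (nat_lit 105) (nat_lit 4) (nat_lit 445) (nat_lit 290) (nat_lit 285))) (XT.nd (nat_lit 78) (nat_lit 76) (nat_lit 0) (XT.lf (nat_lit 0) (nat_lit 5264995117) (nat_lit 152) (nat_lit 10106482045) (nat_lit 0) (nat_lit 4212405791) (nat_lit 102) (nat_lit 5) (nat_lit 104) (nat_lit 4) (nat_lit 102) (nat_lit 4) (nat_lit 446) (nat_lit 290) (nat_lit 284)) (XT.lf (nat_lit 0) (nat_lit 8811749162) (nat_lit 76) (nat_lit 6139278008) (nat_lit 76) (nat_lit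 4928700645) (nat_lit 101) (nat_lit 4) (nat_lit 102) (nat_lit 5) (nat_lit 102) (nat_lit 4) (nat_lit 447) (nat_lit 290) (nat_lit 283)))) (XT.nd (nat_lit 156) (nat_lit 228) (nat_lit 0) (XT.nd (nat_lit 78) (nat_lit 76) (nat_lit 0) (XT.lf (nat_lit 0) (nat_lit 4684342156) (nat_lit 152) (nat_lit 12137621380) (nat_lit 0) (nat_lit 3360105450) (nat_lit 99) (nat_lit 5) (nat_lit 101) (nat_lit 4) (nat_lit 99) (nat_lit 4) (nat_lit 448) (nat_lit 290) (nat_lit 282)) (XT.lf (nat_lit 0) (nat_lit 7139482249) (nat_lit 76) (nat_lit 7409738558) (nat_lit 76) (nat_lit 5940920417) (nat_lit 98) (nat_lit 4) (nat_lit 99) (nat_lit 5) (nat_lit 99) (nat_lit 4) (nat_lit 449) (nat_lit 290) (nat_lit 281))) (XT.nd (nat_lit 78) (nat_lit 76) (nat_lit 0) (XT.lf (nat_lit 0) (nat_lit 3852236640) (nat_lit 152) (nat_lit 14663401826) (nat_lit 0) (nat_lit 2289917740) (nat_lit 96) (nat_lit 5) (nat_lit 98) (nat_lit 4) (nat_lit 96) (nat_lit 4) (nat_lit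 450) (nat_lit 290) (nat_lit 280)) (XT.lf (nat_lit 0) (nat_lit 4974190461) (nat_lit 76) (nat_lit 8923388020) (nat_lit 76) (nat_lit 7228756626) (nat_lit 95) (nat_lit 4) (nat_lit 96) (nat_lit 5) (nat_lit 96) (nat_lit 4) (nat_lit 451) (nat_lit 290) (nat_lit 279))))))))
noncomputable def xc13 : XT := (XT.nd (nat_lit 2340) (nat_lit 1368) (nat_lit 0) (XT.nd (nat_lit 1170) (nat_lit 1444) (nat_lit 0) (XT.nd (nat_lit 546) (nat_lit 836) (nat_lit 0) (XT.nd (nat_lit 234) (nat_lit 304) (nat_lit 0) (XT.nd (nat_lit 78) (nat_lit 228) (nat_lit 0) (XT.lf (nat_lit 0) (nat_lit 2748752884) (nat_lit 152) (nat_lit 17727950013) (nat_lit 0) (nat_lit 978762471) (nat_lit 93) (nat_lit 5) (nat_lit 95) (nat_lit 4) (nat_lit 93) (nat_lit 4) (nat_lit 452) (nat_lit 290) (nat_lit 278)) (XT.nd (nat_lit 78) (nat_lit 152) (nat_lit 0) (XT.lf (nat_lit 0) (nat_lit 2271256761) (nat_lit 76) (nat_lit 10704636408) (nat_lit 76) (nat_lit 8813561319)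 (nat_lit 92) (nat_lit 4) (nat_lit 93) (nat_lit 5) (nat_lit 93) (nat_lit 4) (nat_lit 453) (nat_lit 290) (nat_lit 277)) (XT.lf (nat_lit 0) (nat_lit 748669413) (nat_lit 76) (nat_lit 609607650) (nat_lit 152) (nat_lit 20774526776) (nat_lit 90) (nat_lit 5) (nat_lit 91) (nat_lit 5) (nat_lit 92) (nat_lit 4) (nat_lit 454) (nat_lit 290) (nat_lit 276)))) (XT.nd (nat_lit 156) (nat_lit 228) (nat_lit 0) (XT.nd (nat_lit 78) (nat_lit 76) (nat_lit 0) (XT.lf (nat_lit 0) (nat_lit 11772164450) (nat_lit 152) (nat_lit 997024530) (nat_lit 0) (nat_lit 9711225667) (nat_lit 90) (nat_lit 5) (nat_lit 92) (nat_lit 4) (nat_lit 90) (nat_lit 4) (nat_lit 455) (nat_lit 290) (nat_lit 275)) (XT.lf (nat_lit 0) (nat_lit 20040289193) (nat_lit 76) (nat_lit 2482970894) (nat_lit 76) (nat_lit 314449945) (nat_lit 89) (nat_lit 4) (nat_lit 90) (nat_lit 5) (nat_lit 90) (nat_lit 4) (nat_lit 456) (nat_lit 290) (nat_lit 274))) (XT.nd (nat_lit 78) (nat_lit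 76) (nat_lit 0) (XT.lf (nat_lit 0) (nat_lit 10281130762) (nat_lit 152) (nat_lit 4844450757) (nat_lit 0) (nat_lit 8074364108) (nat_lit 87) (nat_lit 5) (nat_lit 89) (nat_lit 4) (nat_lit 87) (nat_lit 4) (nat_lit 457) (nat_lit 290) (nat_lit 273)) (XT.lf (nat_lit 0) (nat_lit 16577026714) (nat_lit 76) (nat_lit 4649992469) (nat_lit 76) (nat_lit 2344772893) (nat_lit 86) (nat_lit 4) (nat_lit 87) (nat_lit 5) (nat_lit 87) (nat_lit 4) (nat_lit 458) (nat_lit 290) (nat_lit 272))))) (XT.nd (nat_lit 312) (nat_lit 380) (nat_lit 0) (XT.nd (nat_lit 156) (nat_lit 228) (nat_lit 0) (XT.nd (nat_lit 78) (nat_lit 76) (nat_lit 0) (XT.lf (nat_lit 0) (nat_lit 8456294861) (nat_lit 152) (nat_lit 9368320832) (nat_lit 0) (nat_lit 6125416282) (nat_lit 84) (nat_lit 5) (nat_lit 86) (nat_lit 4) (nat_lit 84) (nat_lit 4) (nat_lit 459) (nat_lit 290) (nat_lit 271)) (XT.lf (nat_lit 0) (nat_lit 12437326930) (nat_lit 76) (nat_lit 7160335383)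 (nat_lit 76) (nat_lit 4739358433) (nat_lit 83) (nat_lit 4) (nat_lit 84) (nat_lit 5) (nat_lit 84) (nat_lit 4) (nat_lit 460) (nat_lit 290) (nat_lit 270))) (XT.nd (nat_lit 78) (nat_lit 76) (nat_lit 0) (XT.lf (nat_lit 0) (nat_lit 6271172346) (nat_lit 152) (nat_lit 14625120524) (nat_lit 0) (nat_lit 3835782933) (nat_lit 81) (nat_lit 5) (nat_lit 83) (nat_lit 4) (nat_lit 81) (nat_lit 4) (nat_lit 461) (nat_lit 290) (nat_lit 269)) (XT.lf (nat_lit 0) (nat_lit 7564013917) (nat_lit 76) (nat_lit 10044327839) (nat_lit 76) (nat_lit 7526485653) (nat_lit 80) (nat_lit 4) (nat_lit 81) (nat_lit 5) (nat_lit 81) (nat_lit 4) (nat_lit 462) (nat_lit 290) (nat_lit 268)))) (XT.nd (nat_lit 156) (nat_lit 152) (nat_lit 0) (XT.nd (nat_lit 78) (nat_lit 76) (nat_lit 0) (XT.lf (nat_lit 0) (nat_lit 3697351689) (nat_lit 152) (nat_lit 20675078760) (nat_lit 0) (nat_lit 1175125068) (nat_lit 78) (nat_lit 5) (nat_lit 80) (nat_lit 4) (nat_lit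 78) (nat_lit 4) (nat_lit 463) (nat_lit 290) (nat_lit 267)) (XT.lf (nat_lit 0) (nat_lit 1896104580) (nat_lit 76) (nat_lit 13334149571) (nat_lit 76) (nat_lit 10736466982) (nat_lit 77) (nat_lit 4) (nat_lit 78) (nat_lit 5) (nat_lit 78) (nat_lit 4) (nat_lit 464) (nat_lit 290) (nat_lit 266))) (XT.nd (nat_lit 78) (nat_lit 76) (nat_lit 0) (XT.lf (nat_lit 0) (nat_lit 734465134) (nat_lit 152) (nat_lit 1179976584) (nat_lit 76) (nat_lit 24482685518) (nat_lit 76) (nat_lit 5) (nat_lit 78) (nat_lit 5) (nat_lit 77) (nat_lit 4) (nat_lit 465) (nat_lit 290) (nat_lit 265)) (XT.lf (nat_lit 0) (nat_lit 12477043542) (nat_lit 152) (nat_lit 4541069384) (nat_lit 0) (nat_lit 9814844228) (nat_lit 75) (nat_lit 5) (nat_lit 77) (nat_lit 4) (nat_lit 75) (nat_lit 4) (nat_lit 466) (nat_lit 290) (nat_lit 264)))))) (XT.nd (nat_lit 546) (nat_lit 760) (nat_lit 0) (XT.nd (nat_lit 234) (nat_lit 380) (nat_lit 0) (XT.nd (nat_lit 78) (nat_lit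 228) (nat_lit 0) (XT.lf (nat_lit 0) (nat_lit 19229665541) (nat_lit 76) (nat_lit 5390002169) (nat_lit 76) (nat_lit 2660761206) (nat_lit 74) (nat_lit 4) (nat_lit 75) (nat_lit 5) (nat_lit 75) (nat_lit 4) (nat_lit 467) (nat_lit 290) (nat_lit 263)) (XT.nd (nat_lit 78) (nat_lit 76) (nat_lit 0) (XT.lf (nat_lit 0) (nat_lit 9298271983) (nat_lit 152) (nat_lit 11852131072) (nat_lit 0) (nat_lit 6585330291) (nat_lit 72) (nat_lit 5) (nat_lit 74) (nat_lit 4) (nat_lit 72) (nat_lit 4) (nat_lit 468) (nat_lit 290) (nat_lit 262)) (XT.lf (nat_lit 0) (nat_lit 12321486880) (nat_lit 76) (nat_lit 9327067645) (nat_lit 76) (nat_lit 6552773347) (nat_lit 71) (nat_lit 4) (nat_lit 72) (nat_lit 5) (nat_lit 72) (nat_lit 4) (nat_lit 469) (nat_lit 290) (nat_lit 261)))) (XT.nd (nat_lit 156) (nat_lit 152) (nat_lit 0) (XT.nd (nat_lit 78) (nat_lit 76) (nat_lit 0) (XT.lf (nat_lit 0) (nat_lit 5641017709) (nat_lit 152) (nat_lit 20146627774)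 (nat_lit 0) (nat_lit 2889697384) (nat_lit 69) (nat_lit 5) (nat_lit 71) (nat_lit 4) (nat_lit 69) (nat_lit 4) (nat_lit 470) (nat_lit 290) (nat_lit 260)) (XT.lf (nat_lit 0) (nat_lit 4426532598) (nat_lit 76) (nat_lit 13771378111) (nat_lit 76) (nat_lit 10963911460) (nat_lit 68) (nat_lit 4) (nat_lit 69) (nat_lit 5) (nat_lit 69) (nat_lit 4) (nat_lit 471) (nat_lit 290) (nat_lit 259))) (XT.nd (nat_lit 78) (nat_lit 0) (nat_lit 0) (XT.lf (nat_lit 0) (nat_lit 144463580) (nat_lit 76) (nat_lit 1336541950) (nat_lit 152) (nat_lit 28178235338) (nat_lit 66) (nat_lit 5) (nat_lit 67) (nat_lit 5) (nat_lit 68) (nat_lit 4) (nat_lit 472) (nat_lit 290) (nat_lit 258)) (XT.lf (nat_lit 0) (nat_lit 14273674323) (nat_lit 152) (nat_lit 4445134750) (nat_lit 0) (nat_lit 11443673407) (nat_lit 66) (nat_lit 5) (nat_lit 68) (nat_lit 4) (nat_lit 66) (nat_lit 4) (nat_lit 473) (nat_lit 290) (nat_lit 257))))) (XT.nd (nat_lit 312) (nat_lit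 304) (nat_lit 0) (XT.nd (nat_lit 156) (nat_lit 228) (nat_lit 0) (XT.nd (nat_lit 78) (nat_lit 152) (nat_lit 0) (XT.lf (nat_lit 0) (nat_lit 21454436419) (nat_lit 76) (nat_lit 6052286562) (nat_lit 76) (nat_lit 3172400363) (nat_lit 65) (nat_lit 4) (nat_lit 66) (nat_lit 5) (nat_lit 66) (nat_lit 4) (nat_lit 474) (nat_lit 290) (nat_lit 256)) (XT.lf (nat_lit 0) (nat_lit 9845599048) (nat_lit 152) (nat_lit 14356817274) (nat_lit 0) (nat_lit 7002571365) (nat_lit 63) (nat_lit 5) (nat_lit 65) (nat_lit 4) (nat_lit 63) (nat_lit 4) (nat_lit 475) (nat_lit 290) (nat_lit 255))) (XT.nd (nat_lit 78) (nat_lit 152) (nat_lit 0) (XT.lf (nat_lit 0) (nat_lit 11961976542) (nat_lit 76) (nat_lit 11334601428) (nat_lit 76) (nat_lit 8445921645) (nat_lit 62) (nat_lit 4) (nat_lit 63) (nat_lit 5) (nat_lit 63) (nat_lit 4) (nat_lit 476) (nat_lit 290) (nat_lit 254)) (XT.lf (nat_lit 0) (nat_lit 4828950883) (nat_lit 152) (nat_lit 25482347861)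 (nat_lit 0) (nat_lit 1981375921) (nat_lit 60) (nat_lit 5) (nat_lit 62) (nat_lit 4) (nat_lit 60) (nat_lit 4) (nat_lit 477) (nat_lit 290) (nat_lit 253)))) (XT.nd (nat_lit 156) (nat_lit 228) (nat_lit 0) (XT.nd (nat_lit 78) (nat_lit 0) (nat_lit 0) (XT.lf (nat_lit 0) (nat_lit 1249841522) (nat_lit 76) (nat_lit 17245730078) (nat_lit 76) (nat_lit 14356376977) (nat_lit 59) (nat_lit 4) (nat_lit 60) (nat_lit 5) (nat_lit 60) (nat_lit 4) (nat_lit 478) (nat_lit 290) (nat_lit 252)) (XT.lf (nat_lit 0) (nat_lit 28981829080) (nat_lit 76) (nat_lit 3686599451) (nat_lit 76) (nat_lit 756685049) (nat_lit 59) (nat_lit 4) (nat_lit 60) (nat_lit 5) (nat_lit 60) (nat_lit 4) (nat_lit 479) (nat_lit 290) (nat_lit 251))) (XT.nd (nat_lit 78) (nat_lit 76) (nat_lit 0) (XT.lf (nat_lit 0) (nat_lit 13161574955) (nat_lit 152) (nat_lit 10566237766) (nat_lit 0) (nat_lit 10278764950) (nat_lit 57) (nat_lit 5) (nat_lit 59) (nat_lit 4) (nat_lit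 57) (nat_lit 4) (nat_lit 480) (nat_lit 290) (nat_lit 250)) (XT.lf (nat_lit 0) (nat_lit 17628711819) (nat_lit 76) (nat_lit 9946838580) (nat_lit 76) (nat_lit 7026909240) (nat_lit 56) (nat_lit 4) (nat_lit 57) (nat_lit 5) (nat_lit 57) (nat_lit 4) (nat_lit 481) (nat_lit 290) (nat_lit 249))))))) (XT.nd (nat_lit 49686) (nat_lit 0) (nat_lit 4180) (XT.nd (nat_lit 546) (nat_lit 684) (nat_lit 0) (XT.nd (nat_lit 234) (nat_lit 380) (nat_lit 0) (XT.nd (nat_lit 78) (nat_lit 152) (nat_lit 0) (XT.lf (nat_lit 0) (nat_lit 7167766772) (nat_lit 152) (nat_lit 23745398452) (nat_lit 0) (nat_lit 4297895383) (nat_lit 54) (nat_lit 5) (nat_lit 56) (nat_lit 4) (nat_lit 54) (nat_lit 4) (nat_lit 482) (nat_lit 290) (nat_lit 248)) (XT.nd (nat_lit 78) (nat_lit 76) (nat_lit 0) (XT.lf (nat_lit 0) (nat_lit 4880575326) (nat_lit 76) (nat_lit 16927138981) (nat_lit 76) (nat_lit 14023298142) (nat_lit 53) (nat_lit 4) (nat_lit 54) (nat_lit 5)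 (nat_lit 54) (nat_lit 4) (nat_lit 483) (nat_lit 290) (nat_lit 247)) (XT.lf (nat_lit 0) (nat_lit 493498294) (nat_lit 152) (nat_lit 1935019349) (nat_lit 76) (nat_lit 34038394548) (nat_lit 52) (nat_lit 5) (nat_lit 54) (nat_lit 5) (nat_lit 53) (nat_lit 4) (nat_lit 484) (nat_lit 290) (nat_lit 246)))) (XT.nd (nat_lit 156) (nat_lit 228) (nat_lit 0) (XT.nd (nat_lit 78) (nat_lit 76) (nat_lit 0) (XT.lf (nat_lit 0) (nat_lit 15403117580) (nat_lit 152) (nat_lit 9186682504) (nat_lit 0) (nat_lit 12520748305) (nat_lit 51) (nat_lit 5) (nat_lit 53) (nat_lit 4) (nat_lit 51) (nat_lit 4) (nat_lit 485) (nat_lit 290) (nat_lit 245)) (XT.lf (nat_lit 0) (nat_lit 21022140817) (nat_lit 76) (nat_lit 9830561618) (nat_lit 76) (nat_lit 6918010927) (nat_lit 50) (nat_lit 4) (nat_lit 51) (nat_lit 5) (nat_lit 51) (nat_lit 4) (nat_lit 486) (nat_lit 290) (nat_lit 244))) (XT.nd (nat_lit 78) (nat_lit 76) (nat_lit 0) (XT.lf (nat_lit 0) (nat_lit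 8278753645) (nat_lit 152) (nat_lit 24743168516) (nat_lit 0) (nat_lit 5422585648) (nat_lit 48) (nat_lit 5) (nat_lit 50) (nat_lit 4) (nat_lit 48) (nat_lit 4) (nat_lit 487) (nat_lit 290) (nat_lit 243)) (XT.lf (nat_lit 0) (nat_lit 5913358129) (nat_lit 76) (nat_lit 18050867935) (nat_lit 76) (nat_lit 15167079666) (nat_lit 47) (nat_lit 4) (nat_lit 48) (nat_lit 5) (nat_lit 48) (nat_lit 4) (nat_lit 488) (nat_lit 290) (nat_lit 242))))) (XT.nd (nat_lit 312) (nat_lit 304) (nat_lit 0) (XT.nd (nat_lit 156) (nat_lit 228) (nat_lit 0) (XT.nd (nat_lit 78) (nat_lit 76) (nat_lit 0) (XT.lf (nat_lit 0) (nat_lit 375281100) (nat_lit 152) (nat_lit 2148783433) (nat_lit 76) (nat_lit 37311585258) (nat_lit 46) (nat_lit 5) (nat_lit 48) (nat_lit 5) (nat_lit 47) (nat_lit 4) (nat_lit 489) (nat_lit 290) (nat_lit 241)) (XT.lf (nat_lit 0) (nat_lit 16351025952) (nat_lit 152) (nat_lit 10697514152) (nat_lit 0) (nat_lit 13499920299) (nat_lit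 45) (nat_lit 5) (nat_lit 47) (nat_lit 4) (nat_lit 45) (nat_lit 4) (nat_lit 490) (nat_lit 290) (nat_lit 240))) (XT.nd (nat_lit 78) (nat_lit 152) (nat_lit 0) (XT.lf (nat_lit 0) (nat_lit 21670161487) (nat_lit 76) (nat_lit 11242471036) (nat_lit 76) (nat_lit 8366825130) (nat_lit 44) (nat_lit 4) (nat_lit 45) (nat_lit 5) (nat_lit 45) (nat_lit 4) (nat_lit 491) (nat_lit 290) (nat_lit 239)) (XT.lf (nat_lit 0) (nat_lit 7920025222) (nat_lit 152) (nat_lit 29000978735) (nat_lit 0) (nat_lit 5105004450) (nat_lit 42) (nat_lit 5) (nat_lit 44) (nat_lit 4) (nat_lit 42) (nat_lit 4) (nat_lit 492) (nat_lit 290) (nat_lit 238)))) (XT.nd (nat_lit 156) (nat_lit 228) (nat_lit 0) (XT.nd (nat_lit 78) (nat_lit 0) (nat_lit 0) (XT.lf (nat_lit 0) (nat_lit 3829711788) (nat_lit 76) (nat_lit 20897125819) (nat_lit 76) (nat_lit 18059647238) (nat_lit 41) (nat_lit 4) (nat_lit 42) (nat_lit 5) (nat_lit 42) (nat_lit 4) (nat_lit 493) (nat_lit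 290) (nat_lit 237)) (XT.lf (nat_lit 0) (nat_lit 37942509180) (nat_lit 76) (nat_lit 4241088192) (nat_lit 76) (nat_lit 1381805914) (nat_lit 41) (nat_lit 4) (nat_lit 42) (nat_lit 5) (nat_lit 42) (nat_lit 4) (nat_lit 494) (nat_lit 290) (nat_lit 236))) (XT.nd (nat_lit 78) (nat_lit 76) (nat_lit 0) (XT.lf (nat_lit 0) (nat_lit 15747995839) (nat_lit 152) (nat_lit 15655900482) (nat_lit 0) (nat_lit 12951441551) (nat_lit 39) (nat_lit 5) (nat_lit 41) (nat_lit 4) (nat_lit 39) (nat_lit 4) (nat_lit 495) (nat_lit 290) (nat_lit 235)) (XT.lf (nat_lit 0) (nat_lit 19022864600) (nat_lit 76) (nat_lit 14479031941) (nat_lit 76) (nat_lit 11662524181) (nat_lit 38) (nat_lit 4) (nat_lit 39) (nat_lit 5) (nat_lit 39) (nat_lit 4) (nat_lit 496) (nat_lit 290) (nat_lit 234)))))) (XT.nd (nat_lit 624) (nat_lit 836) (nat_lit 0) (XT.nd (nat_lit 312) (nat_lit 456) (nat_lit 0) (XT.nd (nat_lit 156) (nat_lit 228) (nat_lit 0) (XT.nd (nat_lit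 78) (nat_lit 76) (nat_lit 0) (XT.lf (nat_lit 0) (nat_lit 2863595246) (nat_lit 152) (nat_lit 2983390710) (nat_lit 0) (nat_lit 2863595246) (nat_lit 114) (nat_lit 5) (nat_lit 116) (nat_lit 4) (nat_lit 114) (nat_lit 4) (nat_lit 438) (nat_lit 291) (nat_lit 291)) (XT.lf (nat_lit 0) (nat_lit 11370817140) (nat_lit 76) (nat_lit 3261458427) (nat_lit 76) (nat_lit 3042766035) (nat_lit 113) (nat_lit 4) (nat_lit 114) (nat_lit 5) (nat_lit 114) (nat_lit 4) (nat_lit 439) (nat_lit 291) (nat_lit 290))) (XT.nd (nat_lit 78) (nat_lit 76) (nat_lit 0) (XT.lf (nat_lit 0) (nat_lit 5799070516) (nat_lit 152) (nat_lit 6753797216) (nat_lit 0) (nat_lit 5380609250) (nat_lit 111) (nat_lit 5) (nat_lit 113) (nat_lit 4) (nat_lit 111) (nat_lit 4) (nat_lit 440) (nat_lit 291) (nat_lit 289)) (XT.lf (nat_lit 0) (nat_lit 10925144726) (nat_lit 76) (nat_lit 3945718481) (nat_lit 76) (nat_lit 3327122695) (nat_lit 110) (nat_lit 4) (nat_lit 111)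 (nat_lit 5) (nat_lit 111) (nat_lit 4) (nat_lit 441) (nat_lit 291) (nat_lit 288)))) (XT.nd (nat_lit 156) (nat_lit 228) (nat_lit 0) (XT.nd (nat_lit 78) (nat_lit 76) (nat_lit 0) (XT.lf (nat_lit 0) (nat_lit 5675438163) (nat_lit 152) (nat_lit 7905827058) (nat_lit 0) (nat_lit 4886213751) (nat_lit 108) (nat_lit 5) (nat_lit 110) (nat_lit 4) (nat_lit 108) (nat_lit 4) (nat_lit 442) (nat_lit 291) (nat_lit 287)) (XT.lf (nat_lit 0) (nat_lit 10117186493) (nat_lit 76) (nat_lit 4799102689) (nat_lit 76) (nat_lit 3826726841) (nat_lit 107) (nat_lit 4) (nat_lit 108) (nat_lit 5) (nat_lit 108) (nat_lit 4) (nat_lit 443) (nat_lit 291) (nat_lit 286))) (XT.nd (nat_lit 78) (nat_lit 76) (nat_lit 0) (XT.lf (nat_lit 0) (nat_lit 5341130584) (nat_lit 152) (nat_lit 9458517473) (nat_lit 0) (nat_lit 4224438568) (nat_lit 105) (nat_lit 5) (nat_lit 107) (nat_lit 4) (nat_lit 105) (nat_lit 4) (nat_lit 444) (nat_lit 291) (nat_lit 285)) (XT.lf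 (nat_lit 0) (nat_lit 8910947143) (nat_lit 76) (nat_lit 5842212793) (nat_lit 76) (nat_lit 4557911269) (nat_lit 104) (nat_lit 4) (nat_lit 105) (nat_lit 5) (nat_lit 105) (nat_lit 4) (nat_lit 445) (nat_lit 291) (nat_lit 284))))) (XT.nd (nat_lit 312) (nat_lit 380) (nat_lit 0) (XT.nd (nat_lit 156) (nat_lit 228) (nat_lit 0) (XT.nd (nat_lit 78) (nat_lit 76) (nat_lit 0) (XT.lf (nat_lit 0) (nat_lit 4779687802) (nat_lit 152) (nat_lit 11449778450) (nat_lit 0) (nat_lit 3374805080) (nat_lit 102) (nat_lit 5) (nat_lit 104) (nat_lit 4) (nat_lit 102) (nat_lit 4) (nat_lit 446) (nat_lit 291) (nat_lit 283)) (XT.lf (nat_lit 0) (nat_lit 7268128522) (nat_lit 76) (nat_lit 7096642650) (nat_lit 76) (nat_lit 5538373484) (nat_lit 101) (nat_lit 4) (nat_lit 102) (nat_lit 5) (nat_lit 102) (nat_lit 4) (nat_lit 447) (nat_lit 291) (nat_lit 282))) (XT.nd (nat_lit 78) (nat_lit 76) (nat_lit 0) (XT.lf (nat_lit 0) (nat_lit 3973287199) (nat_lit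 152) (nat_lit 13919949735) (nat_lit 0) (nat_lit 2315823079) (nat_lit 99) (nat_lit 5) (nat_lit 101) (nat_lit 4) (nat_lit 99) (nat_lit 4) (nat_lit 448) (nat_lit 291) (nat_lit 281)) (XT.lf (nat_lit 0) (nat_lit 5147960625) (nat_lit 76) (nat_lit 8585079916) (nat_lit 76) (nat_lit 6787245471) (nat_lit 98) (nat_lit 4) (nat_lit 99) (nat_lit 5) (nat_lit 99) (nat_lit 4) (nat_lit 449) (nat_lit 291) (nat_lit 280)))) (XT.nd (nat_lit 156) (nat_lit 152) (nat_lit 0) (XT.nd (nat_lit 78) (nat_lit 76) (nat_lit 0) (XT.lf (nat_lit 0) (nat_lit 2902672278) (nat_lit 152) (nat_lit 16911975953) (nat_lit 0) (nat_lit 1024889449) (nat_lit 96) (nat_lit 5) (nat_lit 98) (nat_lit 4) (nat_lit 96) (nat_lit 4) (nat_lit 450) (nat_lit 291) (nat_lit 279)) (XT.lf (nat_lit 0) (nat_lit 2507023576) (nat_lit 76) (nat_lit 10331410977) (nat_lit 76) (nat_lit 8325169415) (nat_lit 95) (nat_lit 4) (nat_lit 96) (nat_lit 5) (nat_lit 96) (nat_lit 4) (nat_lit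 451) (nat_lit 291) (nat_lit 278))) (XT.nd (nat_lit 78) (nat_lit 0) (nat_lit 0) (XT.lf (nat_lit 0) (nat_lit 1019989648) (nat_lit 76) (nat_lit 532201694) (nat_lit 152) (nat_lit 19944505379) (nat_lit 93) (nat_lit 5) (nat_lit 94) (nat_lit 5) (nat_lit 95) (nat_lit 4) (nat_lit 452) (nat_lit 291) (nat_lit 277)) (XT.lf (nat_lit 0) (nat_lit 11666627351) (nat_lit 152) (nat_lit 687262225) (nat_lit 0) (nat_lit 9480177396) (nat_lit 93) (nat_lit 5) (nat_lit 95) (nat_lit 4) (nat_lit 93) (nat_lit 4) (nat_lit 453) (nat_lit 291) (nat_lit 276))))))))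
noncomputable def xc14 : XT := (XT.nd (nat_lit 2340) (nat_lit 1140) (nat_lit 0) (XT.nd (nat_lit 1170) (nat_lit 1368) (nat_lit 0) (XT.nd (nat_lit 546) (nat_lit 836) (nat_lit 0) (XT.nd (nat_lit 234) (nat_lit 456) (nat_lit 0) (XT.nd (nat_lit 78) (nat_lit 228) (nat_lit 0) (XT.lf (nat_lit 0) (nat_lit 19739641082) (nat_lit 76) (nat_lit 2370860484) (nat_lit 76) (nat_lit 70276610) (nat_lit 92) (nat_lit 4) (nat_lit 93) (nat_lit 5) (nat_lit 93) (nat_lit 4) (nat_lit 454) (nat_lit 291) (nat_lit 275)) (XT.nd (nat_lit 78) (nat_lit 76) (nat_lit 0) (XT.lf (nat_lit 0) (nat_lit 10218225262) (nat_lit 152) (nat_lit 4436920177) (nat_lit 0) (nat_lit 7877066518) (nat_lit 90) (nat_lit 5) (nat_lit 92) (nat_lit 4) (nat_lit 90) (nat_lit 4) (nat_lit 455) (nat_lit 291) (nat_lit 274)) (XT.lf (nat_lit 0) (nat_lit 16362949833) (nat_lit 76) (nat_lit 4487860142) (nat_lit 76) (nat_lit 2042252694) (nat_lit 89) (nat_lit 4) (nat_lit 90)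 (nat_lit 5) (nat_lit 90) (nat_lit 4) (nat_lit 456) (nat_lit 291) (nat_lit 273)))) (XT.nd (nat_lit 156) (nat_lit 228) (nat_lit 0) (XT.nd (nat_lit 78) (nat_lit 76) (nat_lit 0) (XT.lf (nat_lit 0) (nat_lit 8445247537) (nat_lit 152) (nat_lit 8842384419) (nat_lit 0) (nat_lit 5972418452) (nat_lit 87) (nat_lit 5) (nat_lit 89) (nat_lit 4) (nat_lit 87) (nat_lit 4) (nat_lit 457) (nat_lit 291) (nat_lit 272)) (XT.lf (nat_lit 0) (nat_lit 12330453785) (nat_lit 76) (nat_lit 6936787184) (nat_lit 76) (nat_lit 4368372738) (nat_lit 86) (nat_lit 4) (nat_lit 87) (nat_lit 5) (nat_lit 87) (nat_lit 4) (nat_lit 458) (nat_lit 291) (nat_lit 271))) (XT.nd (nat_lit 78) (nat_lit 76) (nat_lit 0) (XT.lf (nat_lit 0) (nat_lit 6322039650) (nat_lit 152) (nat_lit 13958566789) (nat_lit 0) (nat_lit 3738335022) (nat_lit 84) (nat_lit 5) (nat_lit 86) (nat_lit 4) (nat_lit 84) (nat_lit 4) (nat_lit 459) (nat_lit 291) (nat_lit 270)) (XT.lf (nat_lit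 0) (nat_lit 7586571623) (nat_lit 76) (nat_lit 9747213029) (nat_lit 76) (nat_lit 7076034254) (nat_lit 83) (nat_lit 4) (nat_lit 84) (nat_lit 5) (nat_lit 84) (nat_lit 4) (nat_lit 460) (nat_lit 291) (nat_lit 269))))) (XT.nd (nat_lit 312) (nat_lit 456) (nat_lit 0) (XT.nd (nat_lit 156) (nat_lit 152) (nat_lit 0) (XT.nd (nat_lit 78) (nat_lit 76) (nat_lit 0) (XT.lf (nat_lit 0) (nat_lit 3821070637) (nat_lit 152) (nat_lit 19844007444) (nat_lit 0) (nat_lit 1145240415) (nat_lit 81) (nat_lit 5) (nat_lit 83) (nat_lit 4) (nat_lit 81) (nat_lit 4) (nat_lit 461) (nat_lit 291) (nat_lit 268)) (XT.lf (nat_lit 0) (nat_lit 2072031503) (nat_lit 76) (nat_lit 12950495720) (nat_lit 76) (nat_lit 10194614263) (nat_lit 80) (nat_lit 4) (nat_lit 81) (nat_lit 5) (nat_lit 81) (nat_lit 4) (nat_lit 462) (nat_lit 291) (nat_lit 267))) (XT.nd (nat_lit 78) (nat_lit 76) (nat_lit 0) (XT.lf (nat_lit 0) (nat_lit 939918307) (nat_lit 152) (nat_lit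 925566939) (nat_lit 76) (nat_lit 23769394867) (nat_lit 79) (nat_lit 5) (nat_lit 81) (nat_lit 5) (nat_lit 80) (nat_lit 4) (nat_lit 463) (nat_lit 291) (nat_lit 266)) (XT.lf (nat_lit 0) (nat_lit 12344644766) (nat_lit 152) (nat_lit 4192928729) (nat_lit 0) (nat_lit 9520317513) (nat_lit 78) (nat_lit 5) (nat_lit 80) (nat_lit 4) (nat_lit 78) (nat_lit 4) (nat_lit 464) (nat_lit 291) (nat_lit 265)))) (XT.nd (nat_lit 156) (nat_lit 228) (nat_lit 0) (XT.nd (nat_lit 78) (nat_lit 152) (nat_lit 0) (XT.lf (nat_lit 0) (nat_lit 18887719500) (nat_lit 76) (nat_lit 5249969593) (nat_lit 76) (nat_lit 2354517855) (nat_lit 77) (nat_lit 4) (nat_lit 78) (nat_lit 5) (nat_lit 78) (nat_lit 4) (nat_lit 465) (nat_lit 291) (nat_lit 264)) (XT.lf (nat_lit 0) (nat_lit 9255541803) (nat_lit 152) (nat_lit 11301146009) (nat_lit 0) (nat_lit 6377381961) (nat_lit 75) (nat_lit 5) (nat_lit 77) (nat_lit 4) (nat_lit 75) (nat_lit 4) (nat_lit 466) (nat_lit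 291) (nat_lit 263))) (XT.nd (nat_lit 78) (nat_lit 152) (nat_lit 0) (XT.lf (nat_lit 0) (nat_lit 12170622192) (nat_lit 76) (nat_lit 9079307624) (nat_lit 76) (nat_lit 6136058804) (nat_lit 74) (nat_lit 4) (nat_lit 75) (nat_lit 5) (nat_lit 75) (nat_lit 4) (nat_lit 467) (nat_lit 291) (nat_lit 262)) (XT.lf (nat_lit 0) (nat_lit 5701654040) (nat_lit 152) (nat_lit 19363536979) (nat_lit 0) (nat_lit 2782778307) (nat_lit 72) (nat_lit 5) (nat_lit 74) (nat_lit 4) (nat_lit 72) (nat_lit 4) (nat_lit 468) (nat_lit 291) (nat_lit 261)))))) (XT.nd (nat_lit 546) (nat_lit 684) (nat_lit 0) (XT.nd (nat_lit 234) (nat_lit 456) (nat_lit 0) (XT.nd (nat_lit 78) (nat_lit 152) (nat_lit 0) (XT.lf (nat_lit 0) (nat_lit 4496105548) (nat_lit 76) (nat_lit 13400283057) (nat_lit 76) (nat_lit 10421841687) (nat_lit 71) (nat_lit 4) (nat_lit 72) (nat_lit 5) (nat_lit 72) (nat_lit 4) (nat_lit 469) (nat_lit 291) (nat_lit 260)) (XT.nd (nat_lit 78)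 (nat_lit 0) (nat_lit 0) (XT.lf (nat_lit 0) (nat_lit 332975402) (nat_lit 76) (nat_lit 1326752424) (nat_lit 152) (nat_lit 27141264847) (nat_lit 69) (nat_lit 5) (nat_lit 70) (nat_lit 5) (nat_lit 71) (nat_lit 4) (nat_lit 470) (nat_lit 291) (nat_lit 259)) (XT.lf (nat_lit 0) (nat_lit 14081041152) (nat_lit 152) (nat_lit 4129805033) (nat_lit 0) (nat_lit 11078693180) (nat_lit 69) (nat_lit 5) (nat_lit 71) (nat_lit 4) (nat_lit 69) (nat_lit 4) (nat_lit 471) (nat_lit 291) (nat_lit 258)))) (XT.nd (nat_lit 156) (nat_lit 228) (nat_lit 0) (XT.nd (nat_lit 78) (nat_lit 152) (nat_lit 0) (XT.lf (nat_lit 0) (nat_lit 21017596997) (nat_lit 76) (nat_lit 5914354008) (nat_lit 76) (nat_lit 2859082739) (nat_lit 68) (nat_lit 4) (nat_lit 69) (nat_lit 5) (nat_lit 69) (nat_lit 4) (nat_lit 472) (nat_lit 291) (nat_lit 257)) (XT.lf (nat_lit 0) (nat_lit 9778276834) (nat_lit 152) (nat_lit 13761047259) (nat_lit 0) (nat_lit 6762108766) (nat_lit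 66) (nat_lit 5) (nat_lit 68) (nat_lit 4) (nat_lit 66) (nat_lit 4) (nat_lit 473) (nat_lit 291) (nat_lit 256))) (XT.nd (nat_lit 78) (nat_lit 152) (nat_lit 0) (XT.lf (nat_lit 0) (nat_lit 11793331147) (nat_lit 76) (nat_lit 11047232902) (nat_lit 76) (nat_lit 7982632520) (nat_lit 65) (nat_lit 4) (nat_lit 66) (nat_lit 5) (nat_lit 66) (nat_lit 4) (nat_lit 474) (nat_lit 291) (nat_lit 255)) (XT.lf (nat_lit 0) (nat_lit 4903948524) (nat_lit 152) (nat_lit 24570301808) (nat_lit 0) (nat_lit 1882956246) (nat_lit 63) (nat_lit 5) (nat_lit 65) (nat_lit 4) (nat_lit 63) (nat_lit 4) (nat_lit 475) (nat_lit 291) (nat_lit 254))))) (XT.nd (nat_lit 312) (nat_lit 380) (nat_lit 0) (XT.nd (nat_lit 156) (nat_lit 228) (nat_lit 0) (XT.nd (nat_lit 78) (nat_lit 0) (nat_lit 0) (XT.lf (nat_lit 0) (nat_lit 1385394301) (nat_lit 76) (nat_lit 16790012268) (nat_lit 76) (nat_lit 13724697563) (nat_lit 62) (nat_lit 4) (nat_lit 63) (nat_lit 5)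 (nat_lit 63) (nat_lit 4) (nat_lit 476) (nat_lit 291) (nat_lit 253)) (XT.lf (nat_lit 0) (nat_lit 28308424939) (nat_lit 76) (nat_lit 3628230229) (nat_lit 76) (nat_lit 519884040) (nat_lit 62) (nat_lit 4) (nat_lit 63) (nat_lit 5) (nat_lit 63) (nat_lit 4) (nat_lit 477) (nat_lit 291) (nat_lit 252))) (XT.nd (nat_lit 78) (nat_lit 76) (nat_lit 0) (XT.lf (nat_lit 0) (nat_lit 12991104980) (nat_lit 152) (nat_lit 10097099513) (nat_lit 0) (nat_lit 9932731846) (nat_lit 60) (nat_lit 5) (nat_lit 62) (nat_lit 4) (nat_lit 60) (nat_lit 4) (nat_lit 478) (nat_lit 291) (nat_lit 251)) (XT.lf (nat_lit 0) (nat_lit 17278724976) (nat_lit 76) (nat_lit 9709205177) (nat_lit 76) (nat_lit 6611452140) (nat_lit 59) (nat_lit 4) (nat_lit 60) (nat_lit 5) (nat_lit 60) (nat_lit 4) (nat_lit 479) (nat_lit 291) (nat_lit 250)))) (XT.nd (nat_lit 156) (nat_lit 152) (nat_lit 0) (XT.nd (nat_lit 78) (nat_lit 76) (nat_lit 0) (XT.lf (nat_lit 0) (nat_lit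 7167783756) (nat_lit 152) (nat_lit 22899211967) (nat_lit 0) (nat_lit 4123137200) (nat_lit 57) (nat_lit 5) (nat_lit 59) (nat_lit 4) (nat_lit 57) (nat_lit 4) (nat_lit 480) (nat_lit 291) (nat_lit 249)) (XT.lf (nat_lit 0) (nat_lit 4895042515) (nat_lit 76) (nat_lit 16488797351) (nat_lit 76) (nat_lit 13408112605) (nat_lit 56) (nat_lit 4) (nat_lit 57) (nat_lit 5) (nat_lit 57) (nat_lit 4) (nat_lit 481) (nat_lit 291) (nat_lit 248))) (XT.nd (nat_lit 78) (nat_lit 76) (nat_lit 0) (XT.lf (nat_lit 0) (nat_lit 682810167) (nat_lit 152) (nat_lit 1729568639) (nat_lit 76) (nat_lit 32996863039) (nat_lit 55) (nat_lit 5) (nat_lit 57) (nat_lit 5) (nat_lit 56) (nat_lit 4) (nat_lit 482) (nat_lit 291) (nat_lit 247)) (XT.lf (nat_lit 0) (nat_lit 15160043688) (nat_lit 152) (nat_lit 8771893295) (nat_lit 0) (nat_lit 12102138125) (nat_lit 54) (nat_lit 5) (nat_lit 56) (nat_lit 4) (nat_lit 54) (nat_lit 4) (nat_lit 483) (nat_lit 291)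 (nat_lit 246))))))) (XT.nd (nat_lit 49530) (nat_lit 0) (nat_lit 4104) (XT.nd (nat_lit 546) (nat_lit 456) (nat_lit 0) (XT.nd (nat_lit 234) (nat_lit 380) (nat_lit 0) (XT.nd (nat_lit 78) (nat_lit 228) (nat_lit 0) (XT.lf (nat_lit 0) (nat_lit 20559076685) (nat_lit 76) (nat_lit 9602895190) (nat_lit 76) (nat_lit 6512970162) (nat_lit 53) (nat_lit 4) (nat_lit 54) (nat_lit 5) (nat_lit 54) (nat_lit 4) (nat_lit 484) (nat_lit 291) (nat_lit 245)) (XT.nd (nat_lit 78) (nat_lit 76) (nat_lit 0) (XT.lf (nat_lit 0) (nat_lit 8238914180) (nat_lit 152) (nat_lit 23881281498) (nat_lit 0) (nat_lit 5208805551) (nat_lit 51) (nat_lit 5) (nat_lit 53) (nat_lit 4) (nat_lit 51) (nat_lit 4) (nat_lit 485) (nat_lit 291) (nat_lit 244)) (XT.lf (nat_lit 0) (nat_lit 5884310028) (nat_lit 76) (nat_lit 17585415182) (nat_lit 76) (nat_lit 14526004207) (nat_lit 50) (nat_lit 4) (nat_lit 51) (nat_lit 5) (nat_lit 51) (nat_lit 4) (nat_lit 486) (nat_lit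 291) (nat_lit 243)))) (XT.nd (nat_lit 156) (nat_lit 228) (nat_lit 0) (XT.nd (nat_lit 78) (nat_lit 76) (nat_lit 0) (XT.lf (nat_lit 0) (nat_lit 560573810) (nat_lit 152) (nat_lit 1949895019) (nat_lit 76) (nat_lit 36169008392) (nat_lit 49) (nat_lit 5) (nat_lit 51) (nat_lit 5) (nat_lit 50) (nat_lit 4) (nat_lit 487) (nat_lit 291) (nat_lit 242)) (XT.lf (nat_lit 0) (nat_lit 16072530245) (nat_lit 152) (nat_lit 10251158121) (nat_lit 0) (nat_lit 13047792258) (nat_lit 48) (nat_lit 5) (nat_lit 50) (nat_lit 4) (nat_lit 48) (nat_lit 4) (nat_lit 488) (nat_lit 291) (nat_lit 241))) (XT.nd (nat_lit 78) (nat_lit 152) (nat_lit 0) (XT.lf (nat_lit 0) (nat_lit 21175708388) (nat_lit 76) (nat_lit 10978094872) (nat_lit 76) (nat_lit 7927322130) (nat_lit 47) (nat_lit 4) (nat_lit 48) (nat_lit 5) (nat_lit 48) (nat_lit 4) (nat_lit 489) (nat_lit 291) (nat_lit 240)) (XT.lf (nat_lit 0) (nat_lit 7882728169) (nat_lit 152) (nat_lit 28026832826)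 (nat_lit 0) (nat_lit 4896272631) (nat_lit 45) (nat_lit 5) (nat_lit 47) (nat_lit 4) (nat_lit 45) (nat_lit 4) (nat_lit 490) (nat_lit 291) (nat_lit 239))))) (XT.nd (nat_lit 312) (nat_lit 152) (nat_lit 0) (XT.nd (nat_lit 156) (nat_lit 228) (nat_lit 0) (XT.nd (nat_lit 78) (nat_lit 0) (nat_lit 0) (XT.lf (nat_lit 0) (nat_lit 3849519907) (nat_lit 76) (nat_lit 20352431743) (nat_lit 76) (nat_lit 17342150717) (nat_lit 44) (nat_lit 4) (nat_lit 45) (nat_lit 5) (nat_lit 45) (nat_lit 4) (nat_lit 491) (nat_lit 291) (nat_lit 238)) (XT.lf (nat_lit 0) (nat_lit 36968079960) (nat_lit 76) (nat_lit 4182823614) (nat_lit 76) (nat_lit 1149411045) (nat_lit 44) (nat_lit 4) (nat_lit 45) (nat_lit 5) (nat_lit 45) (nat_lit 4) (nat_lit 492) (nat_lit 291) (nat_lit 237))) (XT.nd (nat_lit 78) (nat_lit 76) (nat_lit 0) (XT.lf (nat_lit 0) (nat_lit 15478954531) (nat_lit 152) (nat_lit 15076104184) (nat_lit 0) (nat_lit 12512090087) (nat_lit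 42) (nat_lit 5) (nat_lit 44) (nat_lit 4) (nat_lit 42) (nat_lit 4) (nat_lit 493) (nat_lit 291) (nat_lit 236)) (XT.lf (nat_lit 0) (nat_lit 18594458978) (nat_lit 76) (nat_lit 14123093107) (nat_lit 76) (nat_lit 11135060025) (nat_lit 41) (nat_lit 4) (nat_lit 42) (nat_lit 5) (nat_lit 42) (nat_lit 4) (nat_lit 494) (nat_lit 291) (nat_lit 235)))) (XT.nd (nat_lit 48516) (nat_lit 0) (nat_lit 5852) (XT.nd (nat_lit 78) (nat_lit 0) (nat_lit 0) (XT.lf (nat_lit 0) (nat_lit 5824620620) (nat_lit 152) (nat_lit 35927887813) (nat_lit 0) (nat_lit 2903664155) (nat_lit 39) (nat_lit 5) (nat_lit 41) (nat_lit 4) (nat_lit 39) (nat_lit 4) (nat_lit 495) (nat_lit 291) (nat_lit 234)) (XT.lf (nat_lit 0) (nat_lit 23326689248) (nat_lit 152) (nat_lit 1759760674) (nat_lit 0) (nat_lit 20386360480) (nat_lit 39) (nat_lit 5) (nat_lit 41) (nat_lit 4) (nat_lit 39) (nat_lit 4) (nat_lit 496) (nat_lit 291) (nat_lit 233))) (XT.nd (nat_lit 78) (nat_lit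 76) (nat_lit 0) (XT.lf (nat_lit 0) (nat_lit 2895079825) (nat_lit 152) (nat_lit 2673407941) (nat_lit 0) (nat_lit 2895079825) (nat_lit 117) (nat_lit 5) (nat_lit 119) (nat_lit 4) (nat_lit 117) (nat_lit 4) (nat_lit 436) (nat_lit 292) (nat_lit 292)) (XT.lf (nat_lit 0) (nat_lit 11488056829) (nat_lit 76) (nat_lit 2958624761) (nat_lit 76) (nat_lit 2726614001) (nat_lit 116) (nat_lit 4) (nat_lit 117) (nat_lit 5) (nat_lit 117) (nat_lit 4) (nat_lit 437) (nat_lit 292) (nat_lit 291)))))) (XT.nd (nat_lit 624) (nat_lit 836) (nat_lit 0) (XT.nd (nat_lit 312) (nat_lit 456) (nat_lit 0) (XT.nd (nat_lit 156) (nat_lit 228) (nat_lit 0) (XT.nd (nat_lit 78) (nat_lit 76) (nat_lit 0) (XT.lf (nat_lit 0) (nat_lit 5865686606) (nat_lit 152) (nat_lit 6136337463) (nat_lit 0) (nat_lit 5421741048) (nat_lit 114) (nat_lit 5) (nat_lit 116) (nat_lit 4) (nat_lit 114) (nat_lit 4) (nat_lit 438) (nat_lit 292) (nat_lit 290)) (XT.lf (nat_lit 0)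 (nat_lit 11029992870) (nat_lit 76) (nat_lit 3653272452) (nat_lit 76) (nat_lit 2997004183) (nat_lit 113) (nat_lit 4) (nat_lit 114) (nat_lit 5) (nat_lit 114) (nat_lit 4) (nat_lit 439) (nat_lit 292) (nat_lit 289))) (XT.nd (nat_lit 78) (nat_lit 76) (nat_lit 0) (XT.lf (nat_lit 0) (nat_lit 5750173464) (nat_lit 152) (nat_lit 7278445916) (nat_lit 0) (nat_lit 4912885285) (nat_lit 111) (nat_lit 5) (nat_lit 113) (nat_lit 4) (nat_lit 111) (nat_lit 4) (nat_lit 440) (nat_lit 292) (nat_lit 288)) (XT.lf (nat_lit 0) (nat_lit 10221978820) (nat_lit 76) (nat_lit 4509176317) (nat_lit 76) (nat_lit 3477582780) (nat_lit 110) (nat_lit 4) (nat_lit 111) (nat_lit 5) (nat_lit 111) (nat_lit 4) (nat_lit 441) (nat_lit 292) (nat_lit 287)))) (XT.nd (nat_lit 156) (nat_lit 228) (nat_lit 0) (XT.nd (nat_lit 78) (nat_lit 76) (nat_lit 0) (XT.lf (nat_lit 0) (nat_lit 5429024140) (nat_lit 152) (nat_lit 8807891354) (nat_lit 0) (nat_lit 4244325581)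 (nat_lit 108) (nat_lit 5) (nat_lit 110) (nat_lit 4) (nat_lit 108) (nat_lit 4) (nat_lit 442) (nat_lit 292) (nat_lit 286)) (XT.lf (nat_lit 0) (nat_lit 9028927179) (nat_lit 76) (nat_lit 5546598460) (nat_lit 76) (nat_lit 4184082972) (nat_lit 107) (nat_lit 4) (nat_lit 108) (nat_lit 5) (nat_lit 108) (nat_lit 4) (nat_lit 443) (nat_lit 292) (nat_lit 285))) (XT.nd (nat_lit 78) (nat_lit 76) (nat_lit 0) (XT.lf (nat_lit 0) (nat_lit 4886371963) (nat_lit 152) (nat_lit 10761609694) (nat_lit 0) (nat_lit 3395931884) (nat_lit 105) (nat_lit 5) (nat_lit 107) (nat_lit 4) (nat_lit 105) (nat_lit 4) (nat_lit 444) (nat_lit 292) (nat_lit 284)) (XT.lf (nat_lit 0) (nat_lit 7413526290) (nat_lit 76) (nat_lit 6786741792) (nat_lit 76) (nat_lit 5133574034) (nat_lit 104) (nat_lit 4) (nat_lit 105) (nat_lit 5) (nat_lit 105) (nat_lit 4) (nat_lit 445) (nat_lit 292) (nat_lit 283))))) (XT.nd (nat_lit 312) (nat_lit 380) (nat_lit 0) (XT.nd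 (nat_lit 156) (nat_lit 228) (nat_lit 0) (XT.nd (nat_lit 78) (nat_lit 76) (nat_lit 0) (XT.lf (nat_lit 0) (nat_lit 4105017038) (nat_lit 152) (nat_lit 13178885100) (nat_lit 0) (nat_lit 2346613353) (nat_lit 102) (nat_lit 5) (nat_lit 104) (nat_lit 4) (nat_lit 102) (nat_lit 4) (nat_lit 446) (nat_lit 292) (nat_lit 282)) (XT.lf (nat_lit 0) (nat_lit 5336075276) (nat_lit 76) (nat_lit 8251850668) (nat_lit 76) (nat_lit 6344528104) (nat_lit 101) (nat_lit 4) (nat_lit 102) (nat_lit 5) (nat_lit 102) (nat_lit 4) (nat_lit 447) (nat_lit 292) (nat_lit 281))) (XT.nd (nat_lit 78) (nat_lit 76) (nat_lit 0) (XT.lf (nat_lit 0) (nat_lit 3066357975) (nat_lit 152) (nat_lit 16101520905) (nat_lit 0) (nat_lit 1074218171) (nat_lit 99) (nat_lit 5) (nat_lit 101) (nat_lit 4) (nat_lit 99) (nat_lit 4) (nat_lit 448) (nat_lit 292) (nat_lit 280)) (XT.lf (nat_lit 0) (nat_lit 2754310319) (nat_lit 76) (nat_lit 9965314499) (nat_lit 76) (nat_lit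 7836892826) (nat_lit 98) (nat_lit 4) (nat_lit 99) (nat_lit 5) (nat_lit 99) (nat_lit 4) (nat_lit 449) (nat_lit 292) (nat_lit 279)))) (XT.nd (nat_lit 156) (nat_lit 228) (nat_lit 0) (XT.nd (nat_lit 78) (nat_lit 0) (nat_lit 0) (XT.lf (nat_lit 0) (nat_lit 1301258733) (nat_lit 76) (nat_lit 453417572) (nat_lit 152) (nat_lit 19124960634) (nat_lit 96) (nat_lit 5) (nat_lit 97) (nat_lit 5) (nat_lit 98) (nat_lit 4) (nat_lit 450) (nat_lit 292) (nat_lit 278)) (XT.lf (nat_lit 0) (nat_lit 11578618243) (nat_lit 152) (nat_lit 369426108) (nat_lit 0) (nat_lit 9259013486) (nat_lit 96) (nat_lit 5) (nat_lit 98) (nat_lit 4) (nat_lit 96) (nat_lit 4) (nat_lit 451) (nat_lit 292) (nat_lit 277))) (XT.nd (nat_lit 78) (nat_lit 76) (nat_lit 0) (XT.lf (nat_lit 0) (nat_lit 177563409) (nat_lit 152) (nat_lit 2080235710) (nat_lit 76) (nat_lit 19285630983) (nat_lit 94) (nat_lit 5) (nat_lit 96) (nat_lit 5) (nat_lit 95) (nat_lit 4) (nat_lit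 452) (nat_lit 292) (nat_lit 276)) (XT.lf (nat_lit 0) (nat_lit 10171557545) (nat_lit 152) (nat_lit 4025033829) (nat_lit 0) (nat_lit 7687822235) (nat_lit 93) (nat_lit 5) (nat_lit 95) (nat_lit 4) (nat_lit 93) (nat_lit 4) (nat_lit 453) (nat_lit 292) (nat_lit 275))))))))
noncomputable def xc15 : XT := (XT.nd (nat_lit 2418) (nat_lit 1064) (nat_lit 0) (XT.nd (nat_lit 1170) (nat_lit 1444) (nat_lit 0) (XT.nd (nat_lit 546) (nat_lit 836) (nat_lit 0) (XT.nd (nat_lit 234) (nat_lit 456) (nat_lit 0) (XT.nd (nat_lit 78) (nat_lit 228) (nat_lit 0) (XT.lf (nat_lit 0) (nat_lit 16171475023) (nat_lit 76) (nat_lit 4328824351) (nat_lit 76) (nat_lit 1734279410) (nat_lit 92) (nat_lit 4) (nat_lit 93) (nat_lit 5) (nat_lit 93) (nat_lit 4) (nat_lit 454) (nat_lit 292) (nat_lit 274)) (XT.nd (nat_lit 78) (nat_lit 76) (nat_lit 0) (XT.lf (nat_lit 0) (nat_lit 8448848859) (nat_lit 152) (nat_lit 8316354416) (nat_lit 0) (nat_lit 5825424483)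 (nat_lit 90) (nat_lit 5) (nat_lit 92) (nat_lit 4) (nat_lit 90) (nat_lit 4) (nat_lit 455) (nat_lit 292) (nat_lit 273)) (XT.lf (nat_lit 0) (nat_lit 12242246038) (nat_lit 76) (nat_lit 6718836918) (nat_lit 76) (nat_lit 3994006032) (nat_lit 89) (nat_lit 4) (nat_lit 90) (nat_lit 5) (nat_lit 90) (nat_lit 4) (nat_lit 456) (nat_lit 292) (nat_lit 272)))) (XT.nd (nat_lit 156) (nat_lit 228) (nat_lit 0) (XT.nd (nat_lit 78) (nat_lit 76) (nat_lit 0) (XT.lf (nat_lit 0) (nat_lit 6385646922) (nat_lit 152) (nat_lit 13296775958) (nat_lit 0) (nat_lit 3644594682) (nat_lit 87) (nat_lit 5) (nat_lit 89) (nat_lit 4) (nat_lit 87) (nat_lit 4) (nat_lit 457) (nat_lit 292) (nat_lit 271)) (XT.lf (nat_lit 0) (nat_lit 7623263017) (nat_lit 76) (nat_lit 9458474248) (nat_lit 76) (nat_lit 6624620687) (nat_lit 86) (nat_lit 4) (nat_lit 87) (nat_lit 5) (nat_lit 87) (nat_lit 4) (nat_lit 458) (nat_lit 292) (nat_lit 270))) (XT.nd (nat_lit 78)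 (nat_lit 76) (nat_lit 0) (XT.lf (nat_lit 0) (nat_lit 3955278917) (nat_lit 152) (nat_lit 19023203018) (nat_lit 0) (nat_lit 1116490634) (nat_lit 84) (nat_lit 5) (nat_lit 86) (nat_lit 4) (nat_lit 84) (nat_lit 4) (nat_lit 459) (nat_lit 292) (nat_lit 269)) (XT.lf (nat_lit 0) (nat_lit 2256911576) (nat_lit 76) (nat_lit 12578303668) (nat_lit 76) (nat_lit 9654589029) (nat_lit 83) (nat_lit 4) (nat_lit 84) (nat_lit 5) (nat_lit 84) (nat_lit 4) (nat_lit 460) (nat_lit 292) (nat_lit 268))))) (XT.nd (nat_lit 312) (nat_lit 456) (nat_lit 0) (XT.nd (nat_lit 156) (nat_lit 228) (nat_lit 0) (XT.nd (nat_lit 78) (nat_lit 76) (nat_lit 0) (XT.lf (nat_lit 0) (nat_lit 1153202289) (nat_lit 152) (nat_lit 665166761) (nat_lit 76) (nat_lit 23076867326) (nat_lit 82) (nat_lit 5) (nat_lit 84) (nat_lit 5) (nat_lit 83) (nat_lit 4) (nat_lit 461) (nat_lit 292) (nat_lit 267)) (XT.lf (nat_lit 0) (nat_lit 12230170789) (nat_lit 152) (nat_lit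 3841781214) (nat_lit 0) (nat_lit 9233842007) (nat_lit 81) (nat_lit 5) (nat_lit 83) (nat_lit 4) (nat_lit 81) (nat_lit 4) (nat_lit 462) (nat_lit 292) (nat_lit 266))) (XT.nd (nat_lit 78) (nat_lit 152) (nat_lit 0) (XT.lf (nat_lit 0) (nat_lit 18569017858) (nat_lit 76) (nat_lit 5115048363) (nat_lit 76) (nat_lit 2043263614) (nat_lit 80) (nat_lit 4) (nat_lit 81) (nat_lit 5) (nat_lit 81) (nat_lit 4) (nat_lit 463) (nat_lit 292) (nat_lit 265)) (XT.lf (nat_lit 0) (nat_lit 9227947071) (nat_lit 152) (nat_lit 10753677213) (nat_lit 0) (nat_lit 6174507296) (nat_lit 78) (nat_lit 5) (nat_lit 80) (nat_lit 4) (nat_lit 78) (nat_lit 4) (nat_lit 464) (nat_lit 292) (nat_lit 264)))) (XT.nd (nat_lit 156) (nat_lit 228) (nat_lit 0) (XT.nd (nat_lit 78) (nat_lit 152) (nat_lit 0) (XT.lf (nat_lit 0) (nat_lit 12036819648) (nat_lit 76) (nat_lit 8840219556) (nat_lit 76) (nat_lit 5717726882) (nat_lit 77) (nat_lit 4) (nat_lit 78) (nat_lit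 5) (nat_lit 78) (nat_lit 4) (nat_lit 465) (nat_lit 292) (nat_lit 263)) (XT.lf (nat_lit 0) (nat_lit 5774222978) (nat_lit 152) (nat_lit 18591300239) (nat_lit 0) (nat_lit 2677587713) (nat_lit 75) (nat_lit 5) (nat_lit 77) (nat_lit 4) (nat_lit 75) (nat_lit 4) (nat_lit 466) (nat_lit 292) (nat_lit 262))) (XT.nd (nat_lit 78) (nat_lit 152) (nat_lit 0) (XT.lf (nat_lit 0) (nat_lit 4575740817) (nat_lit 76) (nat_lit 13041824392) (nat_lit 76) (nat_lit 9881995943) (nat_lit 74) (nat_lit 4) (nat_lit 75) (nat_lit 5) (nat_lit 75) (nat_lit 4) (nat_lit 467) (nat_lit 292) (nat_lit 261)) (XT.lf (nat_lit 0) (nat_lit 527733205) (nat_lit 76) (nat_lit 1319022587) (nat_lit 152) (nat_lit 26121328048) (nat_lit 72) (nat_lit 5) (nat_lit 73) (nat_lit 5) (nat_lit 74) (nat_lit 4) (nat_lit 468) (nat_lit 292) (nat_lit 260)))))) (XT.nd (nat_lit 624) (nat_lit 760) (nat_lit 0) (XT.nd (nat_lit 312) (nat_lit 380) (nat_lit 0) (XT.nd (nat_lit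 156) (nat_lit 228) (nat_lit 0) (XT.nd (nat_lit 78) (nat_lit 76) (nat_lit 0) (XT.lf (nat_lit 0) (nat_lit 13907605745) (nat_lit 152) (nat_lit 3812340817) (nat_lit 0) (nat_lit 10722414782) (nat_lit 72) (nat_lit 5) (nat_lit 74) (nat_lit 4) (nat_lit 72) (nat_lit 4) (nat_lit 469) (nat_lit 292) (nat_lit 259)) (XT.lf (nat_lit 0) (nat_lit 20604933120) (nat_lit 76) (nat_lit 5782774278) (nat_lit 76) (nat_lit 2541436989) (nat_lit 71) (nat_lit 4) (nat_lit 72) (nat_lit 5) (nat_lit 72) (nat_lit 4) (nat_lit 470) (nat_lit 292) (nat_lit 258))) (XT.nd (nat_lit 78) (nat_lit 76) (nat_lit 0) (XT.lf (nat_lit 0) (nat_lit 9726279529) (nat_lit 152) (nat_lit 13171813303) (nat_lit 0) (nat_lit 6526426825) (nat_lit 69) (nat_lit 5) (nat_lit 71) (nat_lit 4) (nat_lit 69) (nat_lit 4) (nat_lit 471) (nat_lit 292) (nat_lit 257)) (XT.lf (nat_lit 0) (nat_lit 11640545240) (nat_lit 76) (nat_lit 10770838751) (nat_lit 76) (nat_lit 7519604206)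 (nat_lit 68) (nat_lit 4) (nat_lit 69) (nat_lit 5) (nat_lit 69) (nat_lit 4) (nat_lit 472) (nat_lit 292) (nat_lit 256)))) (XT.nd (nat_lit 156) (nat_lit 152) (nat_lit 0) (XT.nd (nat_lit 78) (nat_lit 76) (nat_lit 0) (XT.lf (nat_lit 0) (nat_lit 4989894651) (nat_lit 152) (nat_lit 23674476840) (nat_lit 0) (nat_lit 1784923944) (nat_lit 66) (nat_lit 5) (nat_lit 68) (nat_lit 4) (nat_lit 66) (nat_lit 4) (nat_lit 473) (nat_lit 292) (nat_lit 255)) (XT.lf (nat_lit 0) (nat_lit 1527471057) (nat_lit 76) (nat_lit 16350404818) (nat_lit 76) (nat_lit 13098412448) (nat_lit 65) (nat_lit 4) (nat_lit 66) (nat_lit 5) (nat_lit 66) (nat_lit 4) (nat_lit 474) (nat_lit 292) (nat_lit 254))) (XT.nd (nat_lit 78) (nat_lit 152) (nat_lit 0) (XT.lf (nat_lit 0) (nat_lit 27665031773) (nat_lit 76) (nat_lit 3574545635) (nat_lit 76) (nat_lit 276901164) (nat_lit 65) (nat_lit 4) (nat_lit 66) (nat_lit 5) (nat_lit 66) (nat_lit 4) (nat_lit 475) (nat_lit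 292) (nat_lit 253)) (XT.lf (nat_lit 0) (nat_lit 12838564351) (nat_lit 152) (nat_lit 9631797210) (nat_lit 0) (nat_lit 9593936293) (nat_lit 63) (nat_lit 5) (nat_lit 65) (nat_lit 4) (nat_lit 63) (nat_lit 4) (nat_lit 476) (nat_lit 292) (nat_lit 252))))) (XT.nd (nat_lit 312) (nat_lit 380) (nat_lit 0) (XT.nd (nat_lit 156) (nat_lit 152) (nat_lit 0) (XT.nd (nat_lit 78) (nat_lit 152) (nat_lit 0) (XT.lf (nat_lit 0) (nat_lit 16948887296) (nat_lit 76) (nat_lit 9481664828) (nat_lit 76) (nat_lit 6195258631) (nat_lit 62) (nat_lit 4) (nat_lit 63) (nat_lit 5) (nat_lit 63) (nat_lit 4) (nat_lit 477) (nat_lit 292) (nat_lit 251)) (XT.lf (nat_lit 0) (nat_lit 7180515368) (nat_lit 152) (nat_lit 22068258198) (nat_lit 0) (nat_lit 3950449836) (nat_lit 60) (nat_lit 5) (nat_lit 62) (nat_lit 4) (nat_lit 60) (nat_lit 4) (nat_lit 478) (nat_lit 292) (nat_lit 250))) (XT.nd (nat_lit 78) (nat_lit 76) (nat_lit 0) (XT.lf (nat_lit 0) (nat_lit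 4918626480) (nat_lit 76) (nat_lit 16066553076) (nat_lit 76) (nat_lit 12798254630) (nat_lit 59) (nat_lit 4) (nat_lit 60) (nat_lit 5) (nat_lit 60) (nat_lit 4) (nat_lit 479) (nat_lit 292) (nat_lit 249)) (XT.lf (nat_lit 0) (nat_lit 879012556) (nat_lit 152) (nat_lit 1521022293) (nat_lit 76) (nat_lit 31982614972) (nat_lit 58) (nat_lit 5) (nat_lit 60) (nat_lit 5) (nat_lit 59) (nat_lit 4) (nat_lit 480) (nat_lit 292) (nat_lit 248)))) (XT.nd (nat_lit 156) (nat_lit 228) (nat_lit 0) (XT.nd (nat_lit 78) (nat_lit 76) (nat_lit 0) (XT.lf (nat_lit 0) (nat_lit 14936568259) (nat_lit 152) (nat_lit 8360219875) (nat_lit 0) (nat_lit 11692436247) (nat_lit 57) (nat_lit 5) (nat_lit 59) (nat_lit 4) (nat_lit 57) (nat_lit 4) (nat_lit 481) (nat_lit 292) (nat_lit 247)) (XT.lf (nat_lit 0) (nat_lit 20118588041) (nat_lit 76) (nat_lit 9385432255) (nat_lit 76) (nat_lit 6107330792) (nat_lit 56) (nat_lit 4) (nat_lit 57) (nat_lit 5) (nat_lit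 57) (nat_lit 4) (nat_lit 482) (nat_lit 292) (nat_lit 246))) (XT.nd (nat_lit 78) (nat_lit 76) (nat_lit 0) (XT.lf (nat_lit 0) (nat_lit 8212493604) (nat_lit 152) (nat_lit 23035898162) (nat_lit 0) (nat_lit 4997851360) (nat_lit 54) (nat_lit 5) (nat_lit 56) (nat_lit 4) (nat_lit 54) (nat_lit 4) (nat_lit 483) (nat_lit 292) (nat_lit 245)) (XT.lf (nat_lit 0) (nat_lit 5864827993) (nat_lit 76) (nat_lit 17137191616) (nat_lit 76) (nat_lit 13891462513) (nat_lit 53) (nat_lit 4) (nat_lit 54) (nat_lit 5) (nat_lit 54) (nat_lit 4) (nat_lit 484) (nat_lit 292) (nat_lit 244))))))) (XT.nd (nat_lit 49374) (nat_lit 0) (nat_lit 4256) (XT.nd (nat_lit 546) (nat_lit 456) (nat_lit 0) (XT.nd (nat_lit 234) (nat_lit 380) (nat_lit 0) (XT.nd (nat_lit 78) (nat_lit 152) (nat_lit 0) (XT.lf (nat_lit 0) (nat_lit 752419640) (nat_lit 152) (nat_lit 1748498650) (nat_lit 76) (nat_lit 35056310316) (nat_lit 52) (nat_lit 5) (nat_lit 54) (nat_lit 5)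 (nat_lit 53) (nat_lit 4) (nat_lit 485) (nat_lit 292) (nat_lit 243)) (XT.nd (nat_lit 78) (nat_lit 76) (nat_lit 0) (XT.lf (nat_lit 0) (nat_lit 15814188902) (nat_lit 152) (nat_lit 9809594773) (nat_lit 0) (nat_lit 12605244372) (nat_lit 51) (nat_lit 5) (nat_lit 53) (nat_lit 4) (nat_lit 51) (nat_lit 4) (nat_lit 486) (nat_lit 292) (nat_lit 242)) (XT.lf (nat_lit 0) (nat_lit 20703982880) (nat_lit 76) (nat_lit 10725260219) (nat_lit 76) (nat_lit 7488695417) (nat_lit 50) (nat_lit 4) (nat_lit 51) (nat_lit 5) (nat_lit 51) (nat_lit 4) (nat_lit 487) (nat_lit 292) (nat_lit 241)))) (XT.nd (nat_lit 156) (nat_lit 152) (nat_lit 0) (XT.nd (nat_lit 78) (nat_lit 76) (nat_lit 0) (XT.lf (nat_lit 0) (nat_lit 7858294480) (nat_lit 152) (nat_lit 27073176154) (nat_lit 0) (nat_lit 4689963800) (nat_lit 48) (nat_lit 5) (nat_lit 50) (nat_lit 4) (nat_lit 48) (nat_lit 4) (nat_lit 488) (nat_lit 292) (nat_lit 240)) (XT.lf (nat_lit 0) (nat_lit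 3876750497) (nat_lit 76) (nat_lit 19827497712) (nat_lit 76) (nat_lit 16633890571) (nat_lit 47) (nat_lit 4) (nat_lit 48) (nat_lit 5) (nat_lit 48) (nat_lit 4) (nat_lit 489) (nat_lit 292) (nat_lit 239))) (XT.nd (nat_lit 78) (nat_lit 152) (nat_lit 0) (XT.lf (nat_lit 0) (nat_lit 36029991342) (nat_lit 76) (nat_lit 4130230535) (nat_lit 76) (nat_lit 912083140) (nat_lit 47) (nat_lit 4) (nat_lit 48) (nat_lit 5) (nat_lit 48) (nat_lit 4) (nat_lit 490) (nat_lit 292) (nat_lit 238)) (XT.lf (nat_lit 0) (nat_lit 15229298344) (nat_lit 152) (nat_lit 14505655785) (nat_lit 0) (nat_lit 12081751855) (nat_lit 45) (nat_lit 5) (nat_lit 47) (nat_lit 4) (nat_lit 45) (nat_lit 4) (nat_lit 491) (nat_lit 292) (nat_lit 237))))) (XT.nd (nat_lit 312) (nat_lit 152) (nat_lit 0) (XT.nd (nat_lit 156) (nat_lit 76) (nat_lit 0) (XT.nd (nat_lit 78) (nat_lit 152) (nat_lit 0) (XT.lf (nat_lit 0) (nat_lit 18186183785) (nat_lit 76) (nat_lit 13781527460)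 (nat_lit 76) (nat_lit 10611523163) (nat_lit 44) (nat_lit 4) (nat_lit 45) (nat_lit 5) (nat_lit 45) (nat_lit 4) (nat_lit 492) (nat_lit 292) (nat_lit 236)) (XT.lf (nat_lit 0) (nat_lit 5851502290) (nat_lit 152) (nat_lit 34755134792) (nat_lit 0) (nat_lit 2752659577) (nat_lit 42) (nat_lit 5) (nat_lit 44) (nat_lit 4) (nat_lit 42) (nat_lit 4) (nat_lit 493) (nat_lit 292) (nat_lit 235))) (XT.nd (nat_lit 78) (nat_lit 76) (nat_lit 0) (XT.lf (nat_lit 0) (nat_lit 22844377511) (nat_lit 152) (nat_lit 1582771404) (nat_lit 0) (nat_lit 19724982721) (nat_lit 42) (nat_lit 5) (nat_lit 44) (nat_lit 4) (nat_lit 42) (nat_lit 4) (nat_lit 494) (nat_lit 292) (nat_lit 234)) (XT.lf (nat_lit 0) (nat_lit 32961186928) (nat_lit 76) (nat_lit 7570684019) (nat_lit 76) (nat_lit 4431335758) (nat_lit 41) (nat_lit 4) (nat_lit 42) (nat_lit 5) (nat_lit 42) (nat_lit 4) (nat_lit 495) (nat_lit 292) (nat_lit 233)))) (XT.nd (nat_lit 48360) (nat_lit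 0) (nat_lit 5928) (XT.nd (nat_lit 48282) (nat_lit 0) (nat_lit 6232) (XT.lf (nat_lit 0) (nat_lit 12898634514) (nat_lit 152) (nat_lit 23058329475) (nat_lit 0) (nat_lit 9831915520) (nat_lit 39) (nat_lit 5) (nat_lit 41) (nat_lit 4) (nat_lit 39) (nat_lit 4) (nat_lit 496) (nat_lit 292) (nat_lit 232)) (XT.lf (nat_lit 0) (nat_lit 2932644193) (nat_lit 152) (nat_lit 2358867744) (nat_lit 0) (nat_lit 2932644193) (nat_lit 121) (nat_lit 5) (nat_lit 123) (nat_lit 4) (nat_lit 121) (nat_lit 4) (nat_lit 434) (nat_lit 293) (nat_lit 293))) (XT.nd (nat_lit 78) (nat_lit 152) (nat_lit 0) (XT.lf (nat_lit 0) (nat_lit 11629191067) (nat_lit 152) (nat_lit 2651954052) (nat_lit 152) (nat_lit 2405813838) (nat_lit 119) (nat_lit 4) (nat_lit 121) (nat_lit 5) (nat_lit 121) (nat_lit 4) (nat_lit 435) (nat_lit 293) (nat_lit 292)) (XT.lf (nat_lit 0) (nat_lit 5944705653) (nat_lit 152) (nat_lit 5511238469) (nat_lit 0) (nat_lit 5473723812)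 (nat_lit 117) (nat_lit 5) (nat_lit 119) (nat_lit 4) (nat_lit 117) (nat_lit 4) (nat_lit 436) (nat_lit 293) (nat_lit 291)))))) (XT.nd (nat_lit 624) (nat_lit 760) (nat_lit 0) (XT.nd (nat_lit 312) (nat_lit 456) (nat_lit 0) (XT.nd (nat_lit 156) (nat_lit 228) (nat_lit 0) (XT.nd (nat_lit 78) (nat_lit 152) (nat_lit 0) (XT.lf (nat_lit 0) (nat_lit 11157551310) (nat_lit 76) (nat_lit 3358533166) (nat_lit 76) (nat_lit 2662298160) (nat_lit 116) (nat_lit 4) (nat_lit 117) (nat_lit 5) (nat_lit 117) (nat_lit 4) (nat_lit 437) (nat_lit 293) (nat_lit 290)) (XT.lf (nat_lit 0) (nat_lit 5837350403) (nat_lit 152) (nat_lit 6645153748) (nat_lit 0) (nat_lit 4949071375) (nat_lit 114) (nat_lit 5) (nat_lit 116) (nat_lit 4) (nat_lit 114) (nat_lit 4) (nat_lit 438) (nat_lit 293) (nat_lit 289))) (XT.nd (nat_lit 78) (nat_lit 152) (nat_lit 0) (XT.lf (nat_lit 0) (nat_lit 10348046523) (nat_lit 76) (nat_lit 4218550469) (nat_lit 76) (nat_lit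 3124132886) (nat_lit 113) (nat_lit 4) (nat_lit 114) (nat_lit 5) (nat_lit 114) (nat_lit 4) (nat_lit 439) (nat_lit 293) (nat_lit 288)) (XT.lf (nat_lit 0) (nat_lit 5529184432) (nat_lit 152) (nat_lit 8153369769) (nat_lit 0) (nat_lit 4272337730) (nat_lit 111) (nat_lit 5) (nat_lit 113) (nat_lit 4) (nat_lit 111) (nat_lit 4) (nat_lit 440) (nat_lit 293) (nat_lit 287)))) (XT.nd (nat_lit 156) (nat_lit 228) (nat_lit 0) (XT.nd (nat_lit 78) (nat_lit 152) (nat_lit 0) (XT.lf (nat_lit 0) (nat_lit 9166462006) (nat_lit 76) (nat_lit 5251954177) (nat_lit 76) (nat_lit 3806461497) (nat_lit 110) (nat_lit 4) (nat_lit 111) (nat_lit 5) (nat_lit 111) (nat_lit 4) (nat_lit 441) (nat_lit 293) (nat_lit 286)) (XT.lf (nat_lit 0) (nat_lit 5004924029) (nat_lit 152) (nat_lit 10071884671) (nat_lit 0) (nat_lit 3423716149) (nat_lit 108) (nat_lit 5) (nat_lit 110) (nat_lit 4) (nat_lit 108) (nat_lit 4) (nat_lit 442) (nat_lit 293) (nat_lit 285)))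 (XT.nd (nat_lit 78) (nat_lit 152) (nat_lit 0) (XT.lf (nat_lit 0) (nat_lit 7576436004) (nat_lit 76) (nat_lit 6479582140) (nat_lit 76) (nat_lit 4725736465) (nat_lit 107) (nat_lit 4) (nat_lit 108) (nat_lit 5) (nat_lit 108) (nat_lit 4) (nat_lit 443) (nat_lit 293) (nat_lit 284)) (XT.lf (nat_lit 0) (nat_lit 4247980196) (nat_lit 152) (nat_lit 12438965053) (nat_lit 0) (nat_lit 2382489726) (nat_lit 105) (nat_lit 5) (nat_lit 107) (nat_lit 4) (nat_lit 105) (nat_lit 4) (nat_lit 444) (nat_lit 293) (nat_lit 283))))) (XT.nd (nat_lit 312) (nat_lit 304) (nat_lit 0) (XT.nd (nat_lit 156) (nat_lit 228) (nat_lit 0) (XT.nd (nat_lit 78) (nat_lit 152) (nat_lit 0) (XT.lf (nat_lit 0) (nat_lit 5539298424) (nat_lit 76) (nat_lit 7923261562) (nat_lit 76) (nat_lit 5899783055) (nat_lit 104) (nat_lit 4) (nat_lit 105) (nat_lit 5) (nat_lit 105) (nat_lit 4) (nat_lit 445) (nat_lit 293) (nat_lit 282)) (XT.lf (nat_lit 0) (nat_lit 3240393307)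 (nat_lit 152) (nat_lit 15295312864) (nat_lit 0) (nat_lit 1126932189) (nat_lit 102) (nat_lit 5) (nat_lit 104) (nat_lit 4) (nat_lit 102) (nat_lit 4) (nat_lit 446) (nat_lit 293) (nat_lit 281))) (XT.nd (nat_lit 78) (nat_lit 152) (nat_lit 0) (XT.lf (nat_lit 0) (nat_lit 3013901222) (nat_lit 76) (nat_lit 9605911466) (nat_lit 76) (nat_lit 7347868913) (nat_lit 101) (nat_lit 4) (nat_lit 102) (nat_lit 5) (nat_lit 102) (nat_lit 4) (nat_lit 447) (nat_lit 293) (nat_lit 280)) (XT.lf (nat_lit 0) (nat_lit 1593274046) (nat_lit 76) (nat_lit 373074192) (nat_lit 152) (nat_lit 18314753141) (nat_lit 99) (nat_lit 5) (nat_lit 100) (nat_lit 5) (nat_lit 101) (nat_lit 4) (nat_lit 448) (nat_lit 293) (nat_lit 279)))) (XT.nd (nat_lit 156) (nat_lit 152) (nat_lit 0) (XT.nd (nat_lit 78) (nat_lit 152) (nat_lit 0) (XT.lf (nat_lit 0) (nat_lit 11508506857) (nat_lit 152) (nat_lit 42710190) (nat_lit 0) (nat_lit 9047638171) (nat_lit 99) (nat_lit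 5) (nat_lit 101) (nat_lit 4) (nat_lit 99) (nat_lit 4) (nat_lit 449) (nat_lit 293) (nat_lit 278)) (XT.lf (nat_lit 0) (nat_lit 431741099) (nat_lit 152) (nat_lit 1712892986) (nat_lit 76) (nat_lit 18780520070) (nat_lit 97) (nat_lit 5) (nat_lit 99) (nat_lit 5) (nat_lit 98) (nat_lit 4) (nat_lit 450) (nat_lit 293) (nat_lit 277))) (XT.nd (nat_lit 78) (nat_lit 76) (nat_lit 0) (XT.lf (nat_lit 0) (nat_lit 10141531968) (nat_lit 152) (nat_lit 3607930441) (nat_lit 0) (nat_lit 7506537177) (nat_lit 96) (nat_lit 5) (nat_lit 98) (nat_lit 4) (nat_lit 96) (nat_lit 4) (nat_lit 451) (nat_lit 293) (nat_lit 276)) (XT.lf (nat_lit 0) (nat_lit 16002940712) (nat_lit 76) (nat_lit 4172695897) (nat_lit 76) (nat_lit 1420143168) (nat_lit 95) (nat_lit 4) (nat_lit 96) (nat_lit 5) (nat_lit 96) (nat_lit 4) (nat_lit 452) (nat_lit 293) (nat_lit 275))))))))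
noncomputable def xc16 : XT := (XT.nd (nat_lit 2340) (nat_lit 1292) (nat_lit 0) (XT.nd (nat_lit 1170) (nat_lit 1444) (nat_lit 0) (XT.nd (nat_lit 546) (nat_lit 760) (nat_lit 0) (XT.nd (nat_lit 234) (nat_lit 380) (nat_lit 0) (XT.nd (nat_lit 78) (nat_lit 228) (nat_lit 0) (XT.lf (nat_lit 0) (nat_lit 8467544673) (nat_lit 152) (nat_lit 7789294948) (nat_lit 0) (nat_lit 5684353753) (nat_lit 93) (nat_lit 5) (nat_lit 95) (nat_lit 4) (nat_lit 93) (nat_lit 4) (nat_lit 453) (nat_lit 293) (nat_lit 274)) (XT.nd (nat_lit 78) (nat_lit 152) (nat_lit 0) (XT.lf (nat_lit 0) (nat_lit 12173107188) (nat_lit 76) (nat_lit 6506265925) (nat_lit 76) (nat_lit 3615492839) (nat_lit 92) (nat_lit 4) (nat_lit 93) (nat_lit 5) (nat_lit 93) (nat_lit 4) (nat_lit 454) (nat_lit 293) (nat_lit 273)) (XT.lf (nat_lit 0) (nat_lit 6462489185) (nat_lit 152) (nat_lit 12638717042) (nat_lit 0) (nat_lit 3554506864) (nat_lit 90) (nat_lit 5) (nat_lit 92)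 (nat_lit 4) (nat_lit 90) (nat_lit 4) (nat_lit 455) (nat_lit 293) (nat_lit 272)))) (XT.nd (nat_lit 156) (nat_lit 152) (nat_lit 0) (XT.nd (nat_lit 78) (nat_lit 152) (nat_lit 0) (XT.lf (nat_lit 0) (nat_lit 7674577193) (nat_lit 76) (nat_lit 9177850618) (nat_lit 76) (nat_lit 6171415374) (nat_lit 89) (nat_lit 4) (nat_lit 90) (nat_lit 5) (nat_lit 90) (nat_lit 4) (nat_lit 456) (nat_lit 293) (nat_lit 271)) (XT.lf (nat_lit 0) (nat_lit 4100529265) (nat_lit 152) (nat_lit 18211517558) (nat_lit 0) (nat_lit 1088858775) (nat_lit 87) (nat_lit 5) (nat_lit 89) (nat_lit 4) (nat_lit 87) (nat_lit 4) (nat_lit 457) (nat_lit 293) (nat_lit 270))) (XT.nd (nat_lit 78) (nat_lit 76) (nat_lit 0) (XT.lf (nat_lit 0) (nat_lit 2451341330) (nat_lit 76) (nat_lit 12217257078) (nat_lit 76) (nat_lit 9115488218) (nat_lit 86) (nat_lit 4) (nat_lit 87) (nat_lit 5) (nat_lit 87) (nat_lit 4) (nat_lit 458) (nat_lit 293) (nat_lit 269)) (XT.lf (nat_lit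 0) (nat_lit 1374930326) (nat_lit 152) (nat_lit 398134443) (nat_lit 76) (nat_lit 22404497392) (nat_lit 85) (nat_lit 5) (nat_lit 87) (nat_lit 5) (nat_lit 86) (nat_lit 4) (nat_lit 459) (nat_lit 293) (nat_lit 268))))) (XT.nd (nat_lit 312) (nat_lit 380) (nat_lit 0) (XT.nd (nat_lit 156) (nat_lit 228) (nat_lit 0) (XT.nd (nat_lit 78) (nat_lit 76) (nat_lit 0) (XT.lf (nat_lit 0) (nat_lit 12133956304) (nat_lit 152) (nat_lit 3486913773) (nat_lit 0) (nat_lit 8955151099) (nat_lit 84) (nat_lit 5) (nat_lit 86) (nat_lit 4) (nat_lit 84) (nat_lit 4) (nat_lit 460) (nat_lit 293) (nat_lit 267)) (XT.lf (nat_lit 0) (nat_lit 18273692638) (nat_lit 76) (nat_lit 4985152500) (nat_lit 76) (nat_lit 1726296060) (nat_lit 83) (nat_lit 4) (nat_lit 84) (nat_lit 5) (nat_lit 84) (nat_lit 4) (nat_lit 461) (nat_lit 293) (nat_lit 266))) (XT.nd (nat_lit 78) (nat_lit 76) (nat_lit 0) (XT.lf (nat_lit 0) (nat_lit 9215892905) (nat_lit 152) (nat_lit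 10208859079) (nat_lit 0) (nat_lit 5976498647) (nat_lit 81) (nat_lit 5) (nat_lit 83) (nat_lit 4) (nat_lit 81) (nat_lit 4) (nat_lit 462) (nat_lit 293) (nat_lit 265)) (XT.lf (nat_lit 0) (nat_lit 11920353774) (nat_lit 76) (nat_lit 8609639506) (nat_lit 76) (nat_lit 5296987028) (nat_lit 80) (nat_lit 4) (nat_lit 81) (nat_lit 5) (nat_lit 81) (nat_lit 4) (nat_lit 463) (nat_lit 293) (nat_lit 264)))) (XT.nd (nat_lit 156) (nat_lit 152) (nat_lit 0) (XT.nd (nat_lit 78) (nat_lit 76) (nat_lit 0) (XT.lf (nat_lit 0) (nat_lit 5859211223) (nat_lit 152) (nat_lit 17828873393) (nat_lit 0) (nat_lit 2573990870) (nat_lit 78) (nat_lit 5) (nat_lit 80) (nat_lit 4) (nat_lit 78) (nat_lit 4) (nat_lit 464) (nat_lit 293) (nat_lit 263)) (XT.lf (nat_lit 0) (nat_lit 4665881531) (nat_lit 76) (nat_lit 12695745378) (nat_lit 76) (nat_lit 9343483376) (nat_lit 77) (nat_lit 4) (nat_lit 78) (nat_lit 5) (nat_lit 78) (nat_lit 4) (nat_lit 465) (nat_lit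 293) (nat_lit 262))) (XT.nd (nat_lit 78) (nat_lit 0) (nat_lit 0) (XT.lf (nat_lit 0) (nat_lit 729269829) (nat_lit 76) (nat_lit 1313400520) (nat_lit 152) (nat_lit 25117126802) (nat_lit 75) (nat_lit 5) (nat_lit 76) (nat_lit 5) (nat_lit 77) (nat_lit 4) (nat_lit 466) (nat_lit 293) (nat_lit 261)) (XT.lf (nat_lit 0) (nat_lit 13753636398) (nat_lit 152) (nat_lit 3492114953) (nat_lit 0) (nat_lit 10374467305) (nat_lit 75) (nat_lit 5) (nat_lit 77) (nat_lit 4) (nat_lit 75) (nat_lit 4) (nat_lit 467) (nat_lit 293) (nat_lit 260)))))) (XT.nd (nat_lit 546) (nat_lit 760) (nat_lit 0) (XT.nd (nat_lit 234) (nat_lit 380) (nat_lit 0) (XT.nd (nat_lit 78) (nat_lit 228) (nat_lit 0) (XT.lf (nat_lit 0) (nat_lit 20216438077) (nat_lit 76) (nat_lit 5657504562) (nat_lit 76) (nat_lit 2218769833) (nat_lit 74) (nat_lit 4) (nat_lit 75) (nat_lit 5) (nat_lit 75) (nat_lit 4) (nat_lit 468) (nat_lit 293) (nat_lit 259)) (XT.nd (nat_lit 78) (nat_lit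 76) (nat_lit 0) (XT.lf (nat_lit 0) (nat_lit 9689974646) (nat_lit 152) (nat_lit 12588266311) (nat_lit 0) (nat_lit 6295250913) (nat_lit 72) (nat_lit 5) (nat_lit 74) (nat_lit 4) (nat_lit 72) (nat_lit 4) (nat_lit 469) (nat_lit 293) (nat_lit 258)) (XT.lf (nat_lit 0) (nat_lit 11503823597) (nat_lit 76) (nat_lit 10505257944) (nat_lit 76) (nat_lit 7056023215) (nat_lit 71) (nat_lit 4) (nat_lit 72) (nat_lit 5) (nat_lit 72) (nat_lit 4) (nat_lit 470) (nat_lit 293) (nat_lit 257)))) (XT.nd (nat_lit 156) (nat_lit 152) (nat_lit 0) (XT.nd (nat_lit 78) (nat_lit 76) (nat_lit 0) (XT.lf (nat_lit 0) (nat_lit 5087270169) (nat_lit 152) (nat_lit 22793770589) (nat_lit 0) (nat_lit 1687116746) (nat_lit 69) (nat_lit 5) (nat_lit 71) (nat_lit 4) (nat_lit 69) (nat_lit 4) (nat_lit 471) (nat_lit 293) (nat_lit 256)) (XT.lf (nat_lit 0) (nat_lit 1676519523) (nat_lit 76) (nat_lit 15926611271) (nat_lit 76) (nat_lit 12476572565) (nat_lit 68)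 (nat_lit 4) (nat_lit 69) (nat_lit 5) (nat_lit 69) (nat_lit 4) (nat_lit 472) (nat_lit 293) (nat_lit 255))) (XT.nd (nat_lit 78) (nat_lit 152) (nat_lit 0) (XT.lf (nat_lit 0) (nat_lit 27051408670) (nat_lit 76) (nat_lit 3525590984) (nat_lit 76) (nat_lit 27119965) (nat_lit 68) (nat_lit 4) (nat_lit 69) (nat_lit 5) (nat_lit 69) (nat_lit 4) (nat_lit 473) (nat_lit 293) (nat_lit 254)) (XT.lf (nat_lit 0) (nat_lit 12704220374) (nat_lit 152) (nat_lit 9169620589) (nat_lit 0) (nat_lit 9261994468) (nat_lit 66) (nat_lit 5) (nat_lit 68) (nat_lit 4) (nat_lit 66) (nat_lit 4) (nat_lit 474) (nat_lit 293) (nat_lit 253))))) (XT.nd (nat_lit 312) (nat_lit 380) (nat_lit 0) (XT.nd (nat_lit 156) (nat_lit 152) (nat_lit 0) (XT.nd (nat_lit 78) (nat_lit 152) (nat_lit 0) (XT.lf (nat_lit 0) (nat_lit 16639218191) (nat_lit 76) (nat_lit 9264116717) (nat_lit 76) (nat_lit 5777568383) (nat_lit 65) (nat_lit 4) (nat_lit 66) (nat_lit 5) (nat_lit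 66) (nat_lit 4) (nat_lit 475) (nat_lit 293) (nat_lit 252)) (XT.lf (nat_lit 0) (nat_lit 7206365628) (nat_lit 152) (nat_lit 21251520192) (nat_lit 0) (nat_lit 3779589106) (nat_lit 63) (nat_lit 5) (nat_lit 65) (nat_lit 4) (nat_lit 63) (nat_lit 4) (nat_lit 476) (nat_lit 293) (nat_lit 251))) (XT.nd (nat_lit 78) (nat_lit 76) (nat_lit 0) (XT.lf (nat_lit 0) (nat_lit 4951642556) (nat_lit 76) (nat_lit 15660140107) (nat_lit 76) (nat_lit 12192802285) (nat_lit 62) (nat_lit 4) (nat_lit 63) (nat_lit 5) (nat_lit 63) (nat_lit 4) (nat_lit 477) (nat_lit 293) (nat_lit 250)) (XT.lf (nat_lit 0) (nat_lit 1082660196) (nat_lit 152) (nat_lit 1308917525) (nat_lit 76) (nat_lit 30994669791) (nat_lit 61) (nat_lit 5) (nat_lit 63) (nat_lit 5) (nat_lit 62) (nat_lit 4) (nat_lit 478) (nat_lit 293) (nat_lit 249)))) (XT.nd (nat_lit 156) (nat_lit 228) (nat_lit 0) (XT.nd (nat_lit 78) (nat_lit 76) (nat_lit 0) (XT.lf (nat_lit 0) (nat_lit 14732882849)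 (nat_lit 152) (nat_lit 7951025497) (nat_lit 0) (nat_lit 11291183197) (nat_lit 60) (nat_lit 5) (nat_lit 62) (nat_lit 4) (nat_lit 60) (nat_lit 4) (nat_lit 479) (nat_lit 293) (nat_lit 248)) (XT.lf (nat_lit 0) (nat_lit 19700570814) (nat_lit 76) (nat_lit 9178093183) (nat_lit 76) (nat_lit 5700355342) (nat_lit 59) (nat_lit 4) (nat_lit 60) (nat_lit 5) (nat_lit 60) (nat_lit 4) (nat_lit 480) (nat_lit 293) (nat_lit 247))) (XT.nd (nat_lit 78) (nat_lit 76) (nat_lit 0) (XT.lf (nat_lit 0) (nat_lit 8199847621) (nat_lit 152) (nat_lit 22206014089) (nat_lit 0) (nat_lit 4789433664) (nat_lit 57) (nat_lit 5) (nat_lit 59) (nat_lit 4) (nat_lit 57) (nat_lit 4) (nat_lit 481) (nat_lit 293) (nat_lit 246)) (XT.lf (nat_lit 0) (nat_lit 5855164450) (nat_lit 76) (nat_lit 16705919061) (nat_lit 76) (nat_lit 13262525056) (nat_lit 56) (nat_lit 4) (nat_lit 57) (nat_lit 5) (nat_lit 57) (nat_lit 4) (nat_lit 482) (nat_lit 293) (nat_lit 245)))))))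 (XT.nd (nat_lit 49218) (nat_lit 0) (nat_lit 4636) (XT.nd (nat_lit 546) (nat_lit 684) (nat_lit 0) (XT.nd (nat_lit 234) (nat_lit 380) (nat_lit 0) (XT.nd (nat_lit 78) (nat_lit 152) (nat_lit 0) (XT.lf (nat_lit 0) (nat_lit 951355476) (nat_lit 152) (nat_lit 1544161853) (nat_lit 76) (nat_lit 33972413704) (nat_lit 55) (nat_lit 5) (nat_lit 57) (nat_lit 5) (nat_lit 56) (nat_lit 4) (nat_lit 483) (nat_lit 293) (nat_lit 244)) (XT.nd (nat_lit 78) (nat_lit 76) (nat_lit 0) (XT.lf (nat_lit 0) (nat_lit 15576148312) (nat_lit 152) (nat_lit 9372184651) (nat_lit 0) (nat_lit 12171779060) (nat_lit 54) (nat_lit 5) (nat_lit 56) (nat_lit 4) (nat_lit 54) (nat_lit 4) (nat_lit 484) (nat_lit 293) (nat_lit 243)) (XT.lf (nat_lit 0) (nat_lit 20254830049) (nat_lit 76) (nat_lit 10483864847) (nat_lit 76) (nat_lit 7050193249) (nat_lit 53) (nat_lit 4) (nat_lit 54) (nat_lit 5) (nat_lit 54) (nat_lit 4) (nat_lit 485) (nat_lit 293) (nat_lit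 242)))) (XT.nd (nat_lit 156) (nat_lit 152) (nat_lit 0) (XT.nd (nat_lit 78) (nat_lit 76) (nat_lit 0) (XT.lf (nat_lit 0) (nat_lit 7847066716) (nat_lit 152) (nat_lit 26138931814) (nat_lit 0) (nat_lit 4485784699) (nat_lit 51) (nat_lit 5) (nat_lit 53) (nat_lit 4) (nat_lit 51) (nat_lit 4) (nat_lit 486) (nat_lit 293) (nat_lit 241)) (XT.lf (nat_lit 0) (nat_lit 3911674531) (nat_lit 76) (nat_lit 19321985406) (nat_lit 76) (nat_lit 15933887590) (nat_lit 50) (nat_lit 4) (nat_lit 51) (nat_lit 5) (nat_lit 51) (nat_lit 4) (nat_lit 487) (nat_lit 293) (nat_lit 240))) (XT.nd (nat_lit 78) (nat_lit 152) (nat_lit 0) (XT.lf (nat_lit 0) (nat_lit 35127669574) (nat_lit 76) (nat_lit 4083385809) (nat_lit 76) (nat_lit 669253239) (nat_lit 50) (nat_lit 4) (nat_lit 51) (nat_lit 5) (nat_lit 51) (nat_lit 4) (nat_lit 488) (nat_lit 293) (nat_lit 239)) (XT.lf (nat_lit 0) (nat_lit 14999165994) (nat_lit 152) (nat_lit 13943823869) (nat_lit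 0) (nat_lit 11659933924) (nat_lit 48) (nat_lit 5) (nat_lit 50) (nat_lit 4) (nat_lit 48) (nat_lit 4) (nat_lit 489) (nat_lit 293) (nat_lit 238))))) (XT.nd (nat_lit 312) (nat_lit 380) (nat_lit 0) (XT.nd (nat_lit 156) (nat_lit 76) (nat_lit 0) (XT.nd (nat_lit 78) (nat_lit 152) (nat_lit 0) (XT.lf (nat_lit 0) (nat_lit 17797918742) (nat_lit 76) (nat_lit 13454160329) (nat_lit 76) (nat_lit 10091102770) (nat_lit 47) (nat_lit 4) (nat_lit 48) (nat_lit 5) (nat_lit 48) (nat_lit 4) (nat_lit 490) (nat_lit 293) (nat_lit 237)) (XT.lf (nat_lit 0) (nat_lit 5889569725) (nat_lit 152) (nat_lit 33608847365) (nat_lit 0) (nat_lit 2602007491) (nat_lit 45) (nat_lit 5) (nat_lit 47) (nat_lit 4) (nat_lit 45) (nat_lit 4) (nat_lit 491) (nat_lit 293) (nat_lit 236))) (XT.nd (nat_lit 78) (nat_lit 76) (nat_lit 0) (XT.lf (nat_lit 0) (nat_lit 22388117468) (nat_lit 152) (nat_lit 1403279954) (nat_lit 0) (nat_lit 19078751536) (nat_lit 45) (nat_lit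 5) (nat_lit 47) (nat_lit 4) (nat_lit 45) (nat_lit 4) (nat_lit 492) (nat_lit 293) (nat_lit 235)) (XT.lf (nat_lit 0) (nat_lit 32136593768) (nat_lit 76) (nat_lit 7425742220) (nat_lit 76) (nat_lit 4095207649) (nat_lit 44) (nat_lit 4) (nat_lit 45) (nat_lit 5) (nat_lit 45) (nat_lit 4) (nat_lit 493) (nat_lit 293) (nat_lit 234)))) (XT.nd (nat_lit 156) (nat_lit 152) (nat_lit 0) (XT.nd (nat_lit 78) (nat_lit 76) (nat_lit 0) (XT.lf (nat_lit 0) (nat_lit 12727100119) (nat_lit 152) (nat_lit 22258355918) (nat_lit 0) (nat_lit 9473617938) (nat_lit 42) (nat_lit 5) (nat_lit 44) (nat_lit 4) (nat_lit 42) (nat_lit 4) (nat_lit 494) (nat_lit 293) (nat_lit 233)) (XT.lf (nat_lit 0) (nat_lit 11743993570) (nat_lit 76) (nat_lit 18403511309) (nat_lit 76) (nat_lit 15130656825) (nat_lit 41) (nat_lit 4) (nat_lit 42) (nat_lit 5) (nat_lit 42) (nat_lit 4) (nat_lit 495) (nat_lit 293) (nat_lit 232))) (XT.nd (nat_lit 48126) (nat_lit 0) (nat_lit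 6536) (XT.lf (nat_lit 0) (nat_lit 843918209) (nat_lit 76) (nat_lit 1193313689) (nat_lit 152) (nat_lit 44080813978) (nat_lit 39) (nat_lit 5) (nat_lit 40) (nat_lit 5) (nat_lit 41) (nat_lit 4) (nat_lit 496) (nat_lit 293) (nat_lit 231)) (XT.lf (nat_lit 0) (nat_lit 2976537378) (nat_lit 152) (nat_lit 2039075469) (nat_lit 0) (nat_lit 2976537378) (nat_lit 125) (nat_lit 5) (nat_lit 127) (nat_lit 4) (nat_lit 125) (nat_lit 4) (nat_lit 432) (nat_lit 294) (nat_lit 294)))))) (XT.nd (nat_lit 624) (nat_lit 836) (nat_lit 0) (XT.nd (nat_lit 312) (nat_lit 456) (nat_lit 0) (XT.nd (nat_lit 156) (nat_lit 304) (nat_lit 0) (XT.nd (nat_lit 78) (nat_lit 152) (nat_lit 0) (XT.lf (nat_lit 0) (nat_lit 11795187033) (nat_lit 152) (nat_lit 2340787223) (nat_lit 152) (nat_lit 2079657069) (nat_lit 123) (nat_lit 4) (nat_lit 125) (nat_lit 5) (nat_lit 125) (nat_lit 4) (nat_lit 433) (nat_lit 294) (nat_lit 293)) (XT.lf (nat_lit 0) (nat_lit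 6036639911) (nat_lit 152) (nat_lit 4877162266) (nat_lit 0) (nat_lit 5536975274) (nat_lit 121) (nat_lit 5) (nat_lit 123) (nat_lit 4) (nat_lit 121) (nat_lit 4) (nat_lit 434) (nat_lit 294) (nat_lit 292))) (XT.nd (nat_lit 78) (nat_lit 152) (nat_lit 0) (XT.lf (nat_lit 0) (nat_lit 11308727616) (nat_lit 152) (nat_lit 3060909023) (nat_lit 152) (nat_lit 2322273305) (nat_lit 119) (nat_lit 4) (nat_lit 121) (nat_lit 5) (nat_lit 121) (nat_lit 4) (nat_lit 435) (nat_lit 294) (nat_lit 291)) (XT.lf (nat_lit 0) (nat_lit 5937496863) (nat_lit 152) (nat_lit 6004649899) (nat_lit 0) (nat_lit 4995121642) (nat_lit 117) (nat_lit 5) (nat_lit 119) (nat_lit 4) (nat_lit 117) (nat_lit 4) (nat_lit 436) (nat_lit 294) (nat_lit 290)))) (XT.nd (nat_lit 156) (nat_lit 228) (nat_lit 0) (XT.nd (nat_lit 78) (nat_lit 152) (nat_lit 0) (XT.lf (nat_lit 0) (nat_lit 10496251481) (nat_lit 76) (nat_lit 3926688653) (nat_lit 76) (nat_lit 2765621039)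 (nat_lit 116) (nat_lit 4) (nat_lit 117) (nat_lit 5) (nat_lit 117) (nat_lit 4) (nat_lit 437) (nat_lit 294) (nat_lit 289)) (XT.lf (nat_lit 0) (nat_lit 5642157125) (nat_lit 152) (nat_lit 7493674872) (nat_lit 0) (nat_lit 4308768459) (nat_lit 114) (nat_lit 5) (nat_lit 116) (nat_lit 4) (nat_lit 114) (nat_lit 4) (nat_lit 438) (nat_lit 294) (nat_lit 288))) (XT.nd (nat_lit 78) (nat_lit 152) (nat_lit 0) (XT.lf (nat_lit 0) (nat_lit 9324382222) (nat_lit 76) (nat_lit 4957786412) (nat_lit 76) (nat_lit 3424263227) (nat_lit 113) (nat_lit 4) (nat_lit 114) (nat_lit 5) (nat_lit 114) (nat_lit 4) (nat_lit 439) (nat_lit 294) (nat_lit 287)) (XT.lf (nat_lit 0) (nat_lit 5135910323) (nat_lit 152) (nat_lit 9379333271) (nat_lit 0) (nat_lit 3458406883) (nat_lit 111) (nat_lit 5) (nat_lit 113) (nat_lit 4) (nat_lit 111) (nat_lit 4) (nat_lit 440) (nat_lit 294) (nat_lit 286))))) (XT.nd (nat_lit 312) (nat_lit 380) (nat_lit 0) (XT.nd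 (nat_lit 156) (nat_lit 228) (nat_lit 0) (XT.nd (nat_lit 78) (nat_lit 152) (nat_lit 0) (XT.lf (nat_lit 0) (nat_lit 7757671988) (nat_lit 76) (nat_lit 6174701092) (nat_lit 76) (nat_lit 4314046216) (nat_lit 110) (nat_lit 4) (nat_lit 111) (nat_lit 5) (nat_lit 111) (nat_lit 4) (nat_lit 441) (nat_lit 294) (nat_lit 285)) (XT.lf (nat_lit 0) (nat_lit 4402767258) (nat_lit 152) (nat_lit 11698911471) (nat_lit 0) (nat_lit 2423668418) (nat_lit 108) (nat_lit 5) (nat_lit 110) (nat_lit 4) (nat_lit 108) (nat_lit 4) (nat_lit 442) (nat_lit 294) (nat_lit 284))) (XT.nd (nat_lit 78) (nat_lit 152) (nat_lit 0) (XT.lf (nat_lit 0) (nat_lit 5758443799) (nat_lit 76) (nat_lit 7598868957) (nat_lit 76) (nat_lit 5452160608) (nat_lit 107) (nat_lit 4) (nat_lit 108) (nat_lit 5) (nat_lit 108) (nat_lit 4) (nat_lit 443) (nat_lit 294) (nat_lit 283)) (XT.lf (nat_lit 0) (nat_lit 3425397464) (nat_lit 152) (nat_lit 14492049201) (nat_lit 0) (nat_lit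 1183226564) (nat_lit 105) (nat_lit 5) (nat_lit 107) (nat_lit 4) (nat_lit 105) (nat_lit 4) (nat_lit 444) (nat_lit 294) (nat_lit 282)))) (XT.nd (nat_lit 156) (nat_lit 152) (nat_lit 0) (XT.nd (nat_lit 78) (nat_lit 152) (nat_lit 0) (XT.lf (nat_lit 0) (nat_lit 3286625870) (nat_lit 76) (nat_lit 9252765178) (nat_lit 76) (nat_lit 6857207833) (nat_lit 104) (nat_lit 4) (nat_lit 105) (nat_lit 5) (nat_lit 105) (nat_lit 4) (nat_lit 445) (nat_lit 294) (nat_lit 281)) (XT.lf (nat_lit 0) (nat_lit 1896875946) (nat_lit 76) (nat_lit 290982264) (nat_lit 152) (nat_lit 17512725884) (nat_lit 102) (nat_lit 5) (nat_lit 103) (nat_lit 5) (nat_lit 104) (nat_lit 4) (nat_lit 446) (nat_lit 294) (nat_lit 280))) (XT.nd (nat_lit 78) (nat_lit 76) (nat_lit 0) (XT.lf (nat_lit 0) (nat_lit 299577277) (nat_lit 76) (nat_lit 11160008206) (nat_lit 76) (nat_lit 8549272616) (nat_lit 101) (nat_lit 4) (nat_lit 102) (nat_lit 5) (nat_lit 102) (nat_lit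 4) (nat_lit 447) (nat_lit 294) (nat_lit 279)) (XT.lf (nat_lit 0) (nat_lit 694309936) (nat_lit 152) (nat_lit 1337568287) (nat_lit 76) (nat_lit 18293568461) (nat_lit 100) (nat_lit 5) (nat_lit 102) (nat_lit 5) (nat_lit 101) (nat_lit 4) (nat_lit 448) (nat_lit 294) (nat_lit 278))))))))
noncomputable def xc17 : XT := (XT.nd (nat_lit 2340) (nat_lit 1596) (nat_lit 0) (XT.nd (nat_lit 1170) (nat_lit 1368) (nat_lit 0) (XT.nd (nat_lit 546) (nat_lit 760) (nat_lit 0) (XT.nd (nat_lit 234) (nat_lit 456) (nat_lit 0) (XT.nd (nat_lit 78) (nat_lit 228) (nat_lit 0) (XT.lf (nat_lit 0) (nat_lit 10128594535) (nat_lit 152) (nat_lit 3184713649) (nat_lit 0) (nat_lit 7333128561) (nat_lit 99) (nat_lit 5) (nat_lit 101) (nat_lit 4) (nat_lit 99) (nat_lit 4) (nat_lit 449) (nat_lit 294) (nat_lit 277)) (XT.nd (nat_lit 78) (nat_lit 152) (nat_lit 0) (XT.lf (nat_lit 0) (nat_lit 15857736171) (nat_lit 76) (nat_lit 4019285059) (nat_lit 76)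 (nat_lit 1099101870) (nat_lit 98) (nat_lit 4) (nat_lit 99) (nat_lit 5) (nat_lit 99) (nat_lit 4) (nat_lit 450) (nat_lit 294) (nat_lit 276)) (XT.lf (nat_lit 0) (nat_lit 8501820978) (nat_lit 152) (nat_lit 7260240242) (nat_lit 0) (nat_lit 5549133730) (nat_lit 96) (nat_lit 5) (nat_lit 98) (nat_lit 4) (nat_lit 96) (nat_lit 4) (nat_lit 451) (nat_lit 294) (nat_lit 275)))) (XT.nd (nat_lit 156) (nat_lit 228) (nat_lit 0) (XT.nd (nat_lit 78) (nat_lit 152) (nat_lit 0) (XT.lf (nat_lit 0) (nat_lit 12123486664) (nat_lit 76) (nat_lit 6298858529) (nat_lit 76) (nat_lit 3232037362) (nat_lit 95) (nat_lit 4) (nat_lit 96) (nat_lit 5) (nat_lit 96) (nat_lit 4) (nat_lit 452) (nat_lit 294) (nat_lit 274)) (XT.lf (nat_lit 0) (nat_lit 6553099792) (nat_lit 152) (nat_lit 11983334743) (nat_lit 0) (nat_lit 3468021347) (nat_lit 93) (nat_lit 5) (nat_lit 95) (nat_lit 4) (nat_lit 93) (nat_lit 4) (nat_lit 453) (nat_lit 294) (nat_lit 273)))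 (XT.nd (nat_lit 78) (nat_lit 152) (nat_lit 0) (XT.lf (nat_lit 0) (nat_lit 7741043856) (nat_lit 76) (nat_lit 8905087825) (nat_lit 76) (nat_lit 5715560675) (nat_lit 92) (nat_lit 4) (nat_lit 93) (nat_lit 5) (nat_lit 93) (nat_lit 4) (nat_lit 454) (nat_lit 294) (nat_lit 272)) (XT.lf (nat_lit 0) (nat_lit 4257410586) (nat_lit 152) (nat_lit 17407784877) (nat_lit 0) (nat_lit 1062329364) (nat_lit 90) (nat_lit 5) (nat_lit 92) (nat_lit 4) (nat_lit 90) (nat_lit 4) (nat_lit 455) (nat_lit 294) (nat_lit 271))))) (XT.nd (nat_lit 312) (nat_lit 456) (nat_lit 0) (XT.nd (nat_lit 156) (nat_lit 152) (nat_lit 0) (XT.nd (nat_lit 78) (nat_lit 76) (nat_lit 0) (XT.lf (nat_lit 0) (nat_lit 2655952132) (nat_lit 76) (nat_lit 11867049895) (nat_lit 76) (nat_lit 8576383311) (nat_lit 89) (nat_lit 4) (nat_lit 90) (nat_lit 5) (nat_lit 90) (nat_lit 4) (nat_lit 456) (nat_lit 294) (nat_lit 270)) (XT.lf (nat_lit 0) (nat_lit 1605749036) (nat_lit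 152) (nat_lit 123797360) (nat_lit 76) (nat_lit 21751697153) (nat_lit 88) (nat_lit 5) (nat_lit 90) (nat_lit 5) (nat_lit 89) (nat_lit 4) (nat_lit 457) (nat_lit 294) (nat_lit 269))) (XT.nd (nat_lit 78) (nat_lit 76) (nat_lit 0) (XT.lf (nat_lit 0) (nat_lit 12056378431) (nat_lit 152) (nat_lit 3127585349) (nat_lit 0) (nat_lit 8683983989) (nat_lit 87) (nat_lit 5) (nat_lit 89) (nat_lit 4) (nat_lit 87) (nat_lit 4) (nat_lit 458) (nat_lit 294) (nat_lit 268)) (XT.lf (nat_lit 0) (nat_lit 18001921289) (nat_lit 76) (nat_lit 4860202357) (nat_lit 76) (nat_lit 1402881560) (nat_lit 86) (nat_lit 4) (nat_lit 87) (nat_lit 5) (nat_lit 87) (nat_lit 4) (nat_lit 459) (nat_lit 294) (nat_lit 267)))) (XT.nd (nat_lit 156) (nat_lit 228) (nat_lit 0) (XT.nd (nat_lit 78) (nat_lit 76) (nat_lit 0) (XT.lf (nat_lit 0) (nat_lit 9219824140) (nat_lit 152) (nat_lit 9665804737) (nat_lit 0) (nat_lit 5783150771) (nat_lit 84) (nat_lit 5) (nat_lit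 86) (nat_lit 4) (nat_lit 84) (nat_lit 4) (nat_lit 460) (nat_lit 294) (nat_lit 266)) (XT.lf (nat_lit 0) (nat_lit 11821538086) (nat_lit 76) (nat_lit 8387413717) (nat_lit 76) (nat_lit 4873020703) (nat_lit 83) (nat_lit 4) (nat_lit 84) (nat_lit 5) (nat_lit 84) (nat_lit 4) (nat_lit 461) (nat_lit 294) (nat_lit 265))) (XT.nd (nat_lit 78) (nat_lit 76) (nat_lit 0) (XT.lf (nat_lit 0) (nat_lit 5957142103) (nat_lit 152) (nat_lit 17075198355) (nat_lit 0) (nat_lit 2471851831) (nat_lit 81) (nat_lit 5) (nat_lit 83) (nat_lit 4) (nat_lit 81) (nat_lit 4) (nat_lit 462) (nat_lit 294) (nat_lit 264)) (XT.lf (nat_lit 0) (nat_lit 4767002743) (nat_lit 76) (nat_lit 12361803534) (nat_lit 76) (nat_lit 8805388776) (nat_lit 80) (nat_lit 4) (nat_lit 81) (nat_lit 5) (nat_lit 81) (nat_lit 4) (nat_lit 463) (nat_lit 294) (nat_lit 263)))))) (XT.nd (nat_lit 546) (nat_lit 684) (nat_lit 0) (XT.nd (nat_lit 234) (nat_lit 456) (nat_lit 0) (XT.nd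 (nat_lit 78) (nat_lit 76) (nat_lit 0) (XT.lf (nat_lit 0) (nat_lit 938146120) (nat_lit 76) (nat_lit 1309939483) (nat_lit 152) (nat_lit 24127351936) (nat_lit 78) (nat_lit 5) (nat_lit 79) (nat_lit 5) (nat_lit 80) (nat_lit 4) (nat_lit 464) (nat_lit 294) (nat_lit 262)) (XT.nd (nat_lit 78) (nat_lit 76) (nat_lit 0) (XT.lf (nat_lit 0) (nat_lit 13619443984) (nat_lit 152) (nat_lit 3168476579) (nat_lit 0) (nat_lit 10034483494) (nat_lit 78) (nat_lit 5) (nat_lit 80) (nat_lit 4) (nat_lit 78) (nat_lit 4) (nat_lit 465) (nat_lit 294) (nat_lit 261)) (XT.lf (nat_lit 0) (nat_lit 19852147825) (nat_lit 76) (nat_lit 5538511960) (nat_lit 76) (nat_lit 1890358285) (nat_lit 77) (nat_lit 4) (nat_lit 78) (nat_lit 5) (nat_lit 78) (nat_lit 4) (nat_lit 466) (nat_lit 294) (nat_lit 260)))) (XT.nd (nat_lit 156) (nat_lit 228) (nat_lit 0) (XT.nd (nat_lit 78) (nat_lit 76) (nat_lit 0) (XT.lf (nat_lit 0) (nat_lit 9669768563) (nat_lit 152)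 (nat_lit 12009541805) (nat_lit 0) (nat_lit 6068306155) (nat_lit 75) (nat_lit 5) (nat_lit 77) (nat_lit 4) (nat_lit 75) (nat_lit 4) (nat_lit 467) (nat_lit 294) (nat_lit 259)) (XT.lf (nat_lit 0) (nat_lit 11383405631) (nat_lit 76) (nat_lit 10250343796) (nat_lit 76) (nat_lit 6591050672) (nat_lit 74) (nat_lit 4) (nat_lit 75) (nat_lit 5) (nat_lit 75) (nat_lit 4) (nat_lit 468) (nat_lit 294) (nat_lit 258))) (XT.nd (nat_lit 78) (nat_lit 76) (nat_lit 0) (XT.lf (nat_lit 0) (nat_lit 5196590683) (nat_lit 152) (nat_lit 21927074430) (nat_lit 0) (nat_lit 1589367917) (nat_lit 72) (nat_lit 5) (nat_lit 74) (nat_lit 4) (nat_lit 72) (nat_lit 4) (nat_lit 469) (nat_lit 294) (nat_lit 257)) (XT.lf (nat_lit 0) (nat_lit 1833013231) (nat_lit 76) (nat_lit 15518354325) (nat_lit 76) (nat_lit 11858208261) (nat_lit 71) (nat_lit 4) (nat_lit 72) (nat_lit 5) (nat_lit 72) (nat_lit 4) (nat_lit 470) (nat_lit 294) (nat_lit 256))))) (XT.nd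 (nat_lit 312) (nat_lit 304) (nat_lit 0) (XT.nd (nat_lit 156) (nat_lit 228) (nat_lit 0) (XT.nd (nat_lit 78) (nat_lit 76) (nat_lit 0) (XT.lf (nat_lit 0) (nat_lit 225616357) (nat_lit 152) (nat_lit 3253526699) (nat_lit 76) (nat_lit 26239465655) (nat_lit 70) (nat_lit 5) (nat_lit 72) (nat_lit 5) (nat_lit 71) (nat_lit 4) (nat_lit 471) (nat_lit 294) (nat_lit 255)) (XT.lf (nat_lit 0) (nat_lit 12588380652) (nat_lit 152) (nat_lit 8709843617) (nat_lit 0) (nat_lit 8936523188) (nat_lit 69) (nat_lit 5) (nat_lit 71) (nat_lit 4) (nat_lit 69) (nat_lit 4) (nat_lit 472) (nat_lit 294) (nat_lit 254))) (XT.nd (nat_lit 78) (nat_lit 152) (nat_lit 0) (XT.lf (nat_lit 0) (nat_lit 16349773432) (nat_lit 76) (nat_lit 9056474727) (nat_lit 76) (nat_lit 5357595599) (nat_lit 68) (nat_lit 4) (nat_lit 69) (nat_lit 5) (nat_lit 69) (nat_lit 4) (nat_lit 473) (nat_lit 294) (nat_lit 253)) (XT.lf (nat_lit 0) (nat_lit 7245773949) (nat_lit 152)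 (nat_lit 20447975704) (nat_lit 0) (nat_lit 3610306737) (nat_lit 66) (nat_lit 5) (nat_lit 68) (nat_lit 4) (nat_lit 66) (nat_lit 4) (nat_lit 474) (nat_lit 294) (nat_lit 252)))) (XT.nd (nat_lit 156) (nat_lit 152) (nat_lit 0) (XT.nd (nat_lit 78) (nat_lit 76) (nat_lit 0) (XT.lf (nat_lit 0) (nat_lit 4994432271) (nat_lit 76) (nat_lit 15269312493) (nat_lit 76) (nat_lit 11590813797) (nat_lit 65) (nat_lit 4) (nat_lit 66) (nat_lit 5) (nat_lit 66) (nat_lit 4) (nat_lit 475) (nat_lit 294) (nat_lit 251)) (XT.lf (nat_lit 0) (nat_lit 1294337674) (nat_lit 152) (nat_lit 1092771355) (nat_lit 76) (nat_lit 30032064178) (nat_lit 64) (nat_lit 5) (nat_lit 66) (nat_lit 5) (nat_lit 65) (nat_lit 4) (nat_lit 476) (nat_lit 294) (nat_lit 250))) (XT.nd (nat_lit 78) (nat_lit 76) (nat_lit 0) (XT.lf (nat_lit 0) (nat_lit 14549219864) (nat_lit 152) (nat_lit 7543658709) (nat_lit 0) (nat_lit 10897920703) (nat_lit 63) (nat_lit 5) (nat_lit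 65) (nat_lit 4) (nat_lit 63) (nat_lit 4) (nat_lit 477) (nat_lit 294) (nat_lit 249)) (XT.lf (nat_lit 0) (nat_lit 19304957676) (nat_lit 76) (nat_lit 8980813917) (nat_lit 76) (nat_lit 5291281841) (nat_lit 62) (nat_lit 4) (nat_lit 63) (nat_lit 5) (nat_lit 63) (nat_lit 4) (nat_lit 478) (nat_lit 294) (nat_lit 248))))))) (XT.nd (nat_lit 1170) (nat_lit 228) (nat_lit 0) (XT.nd (nat_lit 546) (nat_lit 684) (nat_lit 0) (XT.nd (nat_lit 234) (nat_lit 380) (nat_lit 0) (XT.nd (nat_lit 78) (nat_lit 152) (nat_lit 0) (XT.lf (nat_lit 0) (nat_lit 8201367037) (nat_lit 152) (nat_lit 21390622220) (nat_lit 0) (nat_lit 4583258870) (nat_lit 60) (nat_lit 5) (nat_lit 62) (nat_lit 4) (nat_lit 60) (nat_lit 4) (nat_lit 479) (nat_lit 294) (nat_lit 247)) (XT.nd (nat_lit 78) (nat_lit 76) (nat_lit 0) (XT.lf (nat_lit 0) (nat_lit 5855596811) (nat_lit 76) (nat_lit 16291341061) (nat_lit 76) (nat_lit 12638244361) (nat_lit 59) (nat_lit 4) (nat_lit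 60) (nat_lit 5) (nat_lit 60) (nat_lit 4) (nat_lit 480) (nat_lit 294) (nat_lit 246)) (XT.lf (nat_lit 0) (nat_lit 1157946889) (nat_lit 152) (nat_lit 1336433965) (nat_lit 76) (nat_lit 32916259999) (nat_lit 58) (nat_lit 5) (nat_lit 60) (nat_lit 5) (nat_lit 59) (nat_lit 4) (nat_lit 481) (nat_lit 294) (nat_lit 245)))) (XT.nd (nat_lit 156) (nat_lit 228) (nat_lit 0) (XT.nd (nat_lit 78) (nat_lit 76) (nat_lit 0) (XT.lf (nat_lit 0) (nat_lit 15358595265) (nat_lit 152) (nat_lit 8938276479) (nat_lit 0) (nat_lit 11746899926) (nat_lit 57) (nat_lit 5) (nat_lit 59) (nat_lit 4) (nat_lit 57) (nat_lit 4) (nat_lit 482) (nat_lit 294) (nat_lit 244)) (XT.lf (nat_lit 0) (nat_lit 19828130377) (nat_lit 76) (nat_lit 10253823751) (nat_lit 76) (nat_lit 6611041552) (nat_lit 56) (nat_lit 4) (nat_lit 57) (nat_lit 5) (nat_lit 57) (nat_lit 4) (nat_lit 483) (nat_lit 294) (nat_lit 243))) (XT.nd (nat_lit 78) (nat_lit 76) (nat_lit 0) (XT.lf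 (nat_lit 0) (nat_lit 7849421140) (nat_lit 152) (nat_lit 25223025026) (nat_lit 0) (nat_lit 4283437048) (nat_lit 54) (nat_lit 5) (nat_lit 56) (nat_lit 4) (nat_lit 54) (nat_lit 4) (nat_lit 484) (nat_lit 294) (nat_lit 242)) (XT.lf (nat_lit 0) (nat_lit 3954584762) (nat_lit 76) (nat_lit 18835580806) (nat_lit 76) (nat_lit 15241147833) (nat_lit 53) (nat_lit 4) (nat_lit 54) (nat_lit 5) (nat_lit 54) (nat_lit 4) (nat_lit 485) (nat_lit 294) (nat_lit 241))))) (XT.nd (nat_lit 312) (nat_lit 304) (nat_lit 0) (XT.nd (nat_lit 156) (nat_lit 228) (nat_lit 0) (XT.nd (nat_lit 78) (nat_lit 152) (nat_lit 0) (XT.lf (nat_lit 0) (nat_lit 34260587135) (nat_lit 76) (nat_lit 4042378797) (nat_lit 76) (nat_lit 420325552) (nat_lit 53) (nat_lit 4) (nat_lit 54) (nat_lit 5) (nat_lit 54) (nat_lit 4) (nat_lit 486) (nat_lit 294) (nat_lit 240)) (XT.lf (nat_lit 0) (nat_lit 14788734989) (nat_lit 152) (nat_lit 13389870362) (nat_lit 0) (nat_lit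 11246143686) (nat_lit 51) (nat_lit 5) (nat_lit 53) (nat_lit 4) (nat_lit 51) (nat_lit 4) (nat_lit 487) (nat_lit 294) (nat_lit 239))) (XT.nd (nat_lit 78) (nat_lit 152) (nat_lit 0) (XT.lf (nat_lit 0) (nat_lit 17429575454) (nat_lit 76) (nat_lit 13140836991) (nat_lit 76) (nat_lit 9572969227) (nat_lit 50) (nat_lit 4) (nat_lit 51) (nat_lit 5) (nat_lit 51) (nat_lit 4) (nat_lit 488) (nat_lit 294) (nat_lit 238)) (XT.lf (nat_lit 0) (nat_lit 5939226022) (nat_lit 152) (nat_lit 32487786232) (nat_lit 0) (nat_lit 2451451248) (nat_lit 48) (nat_lit 5) (nat_lit 50) (nat_lit 4) (nat_lit 48) (nat_lit 4) (nat_lit 489) (nat_lit 294) (nat_lit 237)))) (XT.nd (nat_lit 156) (nat_lit 228) (nat_lit 0) (XT.nd (nat_lit 78) (nat_lit 76) (nat_lit 0) (XT.lf (nat_lit 0) (nat_lit 21957881363) (nat_lit 152) (nat_lit 1220892880) (nat_lit 0) (nat_lit 18446975046) (nat_lit 48) (nat_lit 5) (nat_lit 50) (nat_lit 4) (nat_lit 48) (nat_lit 4)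 (nat_lit 490) (nat_lit 294) (nat_lit 236)) (XT.lf (nat_lit 0) (nat_lit 31344266268) (nat_lit 76) (nat_lit 7289623847) (nat_lit 76) (nat_lit 3756259721) (nat_lit 47) (nat_lit 4) (nat_lit 48) (nat_lit 5) (nat_lit 48) (nat_lit 4) (nat_lit 491) (nat_lit 294) (nat_lit 235))) (XT.nd (nat_lit 78) (nat_lit 76) (nat_lit 0) (XT.lf (nat_lit 0) (nat_lit 12572994850) (nat_lit 152) (nat_lit 21473864724) (nat_lit 0) (nat_lit 9121375604) (nat_lit 45) (nat_lit 5) (nat_lit 47) (nat_lit 4) (nat_lit 45) (nat_lit 4) (nat_lit 492) (nat_lit 294) (nat_lit 234)) (XT.lf (nat_lit 0) (nat_lit 11540248472) (nat_lit 76) (nat_lit 17947665839) (nat_lit 76) (nat_lit 14475494517) (nat_lit 44) (nat_lit 4) (nat_lit 45) (nat_lit 5) (nat_lit 45) (nat_lit 4) (nat_lit 493) (nat_lit 294) (nat_lit 233)))))) (XT.nd (nat_lit 48516) (nat_lit 0) (nat_lit 5092) (XT.nd (nat_lit 48204) (nat_lit 0) (nat_lit 6080) (XT.nd (nat_lit 156) (nat_lit 76) (nat_lit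 0) (XT.nd (nat_lit 78) (nat_lit 0) (nat_lit 0) (XT.lf (nat_lit 0) (nat_lit 953622501) (nat_lit 76) (nat_lit 1236400796) (nat_lit 152) (nat_lit 42588689721) (nat_lit 42) (nat_lit 5) (nat_lit 43) (nat_lit 5) (nat_lit 44) (nat_lit 4) (nat_lit 494) (nat_lit 294) (nat_lit 232)) (XT.lf (nat_lit 0) (nat_lit 19424355446) (nat_lit 152) (nat_lit 10163892515) (nat_lit 0) (nat_lit 16015134964) (nat_lit 42) (nat_lit 5) (nat_lit 44) (nat_lit 4) (nat_lit 42) (nat_lit 4) (nat_lit 495) (nat_lit 294) (nat_lit 231))) (XT.nd (nat_lit 47970) (nat_lit 0) (nat_lit 6688) (XT.lf (nat_lit 0) (nat_lit 24733407711) (nat_lit 76) (nat_lit 12571495197) (nat_lit 76) (nat_lit 9144014461) (nat_lit 41) (nat_lit 4) (nat_lit 42) (nat_lit 5) (nat_lit 42) (nat_lit 4) (nat_lit 496) (nat_lit 294) (nat_lit 230)) (XT.lf (nat_lit 0) (nat_lit 3027027099) (nat_lit 152) (nat_lit 1713306310) (nat_lit 0) (nat_lit 3027027099) (nat_lit 129) (nat_lit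 5) (nat_lit 131) (nat_lit 4) (nat_lit 129) (nat_lit 4) (nat_lit 430) (nat_lit 295) (nat_lit 295)))) (XT.nd (nat_lit 156) (nat_lit 304) (nat_lit 0) (XT.nd (nat_lit 78) (nat_lit 152) (nat_lit 0) (XT.lf (nat_lit 0) (nat_lit 11987085021) (nat_lit 152) (nat_lit 2024437445) (nat_lit 152) (nat_lit 1747404465) (nat_lit 127) (nat_lit 4) (nat_lit 129) (nat_lit 5) (nat_lit 129) (nat_lit 4) (nat_lit 431) (nat_lit 295) (nat_lit 294)) (XT.lf (nat_lit 0) (nat_lit 6142039905) (nat_lit 152) (nat_lit 4232714820) (nat_lit 0) (nat_lit 5611945693) (nat_lit 125) (nat_lit 5) (nat_lit 127) (nat_lit 4) (nat_lit 125) (nat_lit 4) (nat_lit 432) (nat_lit 295) (nat_lit 293))) (XT.nd (nat_lit 78) (nat_lit 152) (nat_lit 0) (XT.lf (nat_lit 0) (nat_lit 11484498478) (nat_lit 152) (nat_lit 2759785555) (nat_lit 152) (nat_lit 1976166921) (nat_lit 123) (nat_lit 4) (nat_lit 125) (nat_lit 5) (nat_lit 125) (nat_lit 4) (nat_lit 433) (nat_lit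 295) (nat_lit 292)) (XT.lf (nat_lit 0) (nat_lit 6051179569) (nat_lit 152) (nat_lit 5355581901) (nat_lit 0) (nat_lit 5051413696) (nat_lit 121) (nat_lit 5) (nat_lit 123) (nat_lit 4) (nat_lit 121) (nat_lit 4) (nat_lit 434) (nat_lit 295) (nat_lit 291))))) (XT.nd (nat_lit 312) (nat_lit 456) (nat_lit 0) (XT.nd (nat_lit 156) (nat_lit 228) (nat_lit 0) (XT.nd (nat_lit 78) (nat_lit 152) (nat_lit 0) (XT.lf (nat_lit 0) (nat_lit 10667520697) (nat_lit 152) (nat_lit 3633036090) (nat_lit 152) (nat_lit 2401259458) (nat_lit 119) (nat_lit 4) (nat_lit 121) (nat_lit 5) (nat_lit 121) (nat_lit 4) (nat_lit 435) (nat_lit 295) (nat_lit 290)) (XT.lf (nat_lit 0) (nat_lit 5768526980) (nat_lit 152) (nat_lit 6827481308) (nat_lit 0) (nat_lit 4353934945) (nat_lit 117) (nat_lit 5) (nat_lit 119) (nat_lit 4) (nat_lit 117) (nat_lit 4) (nat_lit 436) (nat_lit 295) (nat_lit 289))) (XT.nd (nat_lit 78) (nat_lit 152) (nat_lit 0) (XT.lf (nat_lit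 0) (nat_lit 9503579508) (nat_lit 76) (nat_lit 4663587667) (nat_lit 76) (nat_lit 3036672920) (nat_lit 116) (nat_lit 4) (nat_lit 117) (nat_lit 5) (nat_lit 117) (nat_lit 4) (nat_lit 437) (nat_lit 295) (nat_lit 288)) (XT.lf (nat_lit 0) (nat_lit 5279936214) (nat_lit 152) (nat_lit 8682642262) (nat_lit 0) (nat_lit 3500272815) (nat_lit 114) (nat_lit 5) (nat_lit 116) (nat_lit 4) (nat_lit 114) (nat_lit 4) (nat_lit 438) (nat_lit 295) (nat_lit 287)))) (XT.nd (nat_lit 156) (nat_lit 228) (nat_lit 0) (XT.nd (nat_lit 78) (nat_lit 152) (nat_lit 0) (XT.lf (nat_lit 0) (nat_lit 7958105505) (nat_lit 76) (nat_lit 5871626214) (nat_lit 76) (nat_lit 3897657456) (nat_lit 113) (nat_lit 4) (nat_lit 114) (nat_lit 5) (nat_lit 114) (nat_lit 4) (nat_lit 439) (nat_lit 295) (nat_lit 286)) (XT.lf (nat_lit 0) (nat_lit 4570007500) (nat_lit 152) (nat_lit 10957407652) (nat_lit 0) (nat_lit 2470381542) (nat_lit 111) (nat_lit 5) (nat_lit 113)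 (nat_lit 4) (nat_lit 111) (nat_lit 4) (nat_lit 440) (nat_lit 295) (nat_lit 285))) (XT.nd (nat_lit 78) (nat_lit 152) (nat_lit 0) (XT.lf (nat_lit 0) (nat_lit 5994377785) (nat_lit 76) (nat_lit 7278223344) (nat_lit 76) (nat_lit 5000780457) (nat_lit 110) (nat_lit 4) (nat_lit 111) (nat_lit 5) (nat_lit 111) (nat_lit 4) (nat_lit 441) (nat_lit 295) (nat_lit 284)) (XT.lf (nat_lit 0) (nat_lit 3622027670) (nat_lit 152) (nat_lit 13690393427) (nat_lit 0) (nat_lit 1243308562) (nat_lit 108) (nat_lit 5) (nat_lit 110) (nat_lit 4) (nat_lit 108) (nat_lit 4) (nat_lit 442) (nat_lit 295) (nat_lit 283))))))))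
noncomputable def xc18 : XT := (XT.nd (nat_lit 2340) (nat_lit 2128) (nat_lit 0) (XT.nd (nat_lit 1170) (nat_lit 1520) (nat_lit 0) (XT.nd (nat_lit 546) (nat_lit 760) (nat_lit 0) (XT.nd (nat_lit 234) (nat_lit 380) (nat_lit 0) (XT.nd (nat_lit 78) (nat_lit 228) (nat_lit 0) (XT.lf (nat_lit 0) (nat_lit 3573362029) (nat_lit 76) (nat_lit 8905436929) (nat_lit 76) (nat_lit 6363990143) (nat_lit 107) (nat_lit 4) (nat_lit 108) (nat_lit 5) (nat_lit 108) (nat_lit 4) (nat_lit 443) (nat_lit 295) (nat_lit 282)) (XT.nd (nat_lit 78) (nat_lit 76) (nat_lit 0) (XT.lf (nat_lit 0) (nat_lit 2212950556) (nat_lit 76) (nat_lit 206943719) (nat_lit 152) (nat_lit 16717701644) (nat_lit 105) (nat_lit 5) (nat_lit 106) (nat_lit 5) (nat_lit 107) (nat_lit 4) (nat_lit 444) (nat_lit 295) (nat_lit 281)) (XT.lf (nat_lit 0) (nat_lit 653540273) (nat_lit 76) (nat_lit 10776414341) (nat_lit 76) (nat_lit 8006684954) (nat_lit 104) (nat_lit 4) (nat_lit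 105) (nat_lit 5) (nat_lit 105) (nat_lit 4) (nat_lit 445) (nat_lit 295) (nat_lit 280)))) (XT.nd (nat_lit 156) (nat_lit 228) (nat_lit 0) (XT.nd (nat_lit 78) (nat_lit 76) (nat_lit 0) (XT.lf (nat_lit 0) (nat_lit 965987396) (nat_lit 152) (nat_lit 953356407) (nat_lit 76) (nat_lit 17824457187) (nat_lit 103) (nat_lit 5) (nat_lit 105) (nat_lit 5) (nat_lit 104) (nat_lit 4) (nat_lit 446) (nat_lit 295) (nat_lit 279)) (XT.lf (nat_lit 0) (nat_lit 10133234942) (nat_lit 152) (nat_lit 2754449355) (nat_lit 0) (nat_lit 7167525091) (nat_lit 102) (nat_lit 5) (nat_lit 104) (nat_lit 4) (nat_lit 102) (nat_lit 4) (nat_lit 447) (nat_lit 295) (nat_lit 278))) (XT.nd (nat_lit 78) (nat_lit 152) (nat_lit 0) (XT.lf (nat_lit 0) (nat_lit 15736303730) (nat_lit 76) (nat_lit 3868401250) (nat_lit 76) (nat_lit 770378905) (nat_lit 101) (nat_lit 4) (nat_lit 102) (nat_lit 5) (nat_lit 102) (nat_lit 4) (nat_lit 448) (nat_lit 295) (nat_lit 277))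 (XT.lf (nat_lit 0) (nat_lit 8552205986) (nat_lit 152) (nat_lit 6728192011) (nat_lit 0) (nat_lit 5419700085) (nat_lit 99) (nat_lit 5) (nat_lit 101) (nat_lit 4) (nat_lit 99) (nat_lit 4) (nat_lit 449) (nat_lit 295) (nat_lit 276))))) (XT.nd (nat_lit 312) (nat_lit 304) (nat_lit 0) (XT.nd (nat_lit 156) (nat_lit 228) (nat_lit 0) (XT.nd (nat_lit 78) (nat_lit 152) (nat_lit 0) (XT.lf (nat_lit 0) (nat_lit 12093882001) (nat_lit 76) (nat_lit 6096401741) (nat_lit 76) (nat_lit 2842811164) (nat_lit 98) (nat_lit 4) (nat_lit 99) (nat_lit 5) (nat_lit 99) (nat_lit 4) (nat_lit 450) (nat_lit 295) (nat_lit 275)) (XT.lf (nat_lit 0) (nat_lit 6658052516) (nat_lit 152) (nat_lit 11329546852) (nat_lit 0) (nat_lit 3385092794) (nat_lit 96) (nat_lit 5) (nat_lit 98) (nat_lit 4) (nat_lit 96) (nat_lit 4) (nat_lit 451) (nat_lit 295) (nat_lit 274))) (XT.nd (nat_lit 78) (nat_lit 152) (nat_lit 0) (XT.lf (nat_lit 0) (nat_lit 7823235476) (nat_lit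 76) (nat_lit 8639937872) (nat_lit 76) (nat_lit 5256168519) (nat_lit 95) (nat_lit 4) (nat_lit 96) (nat_lit 5) (nat_lit 96) (nat_lit 4) (nat_lit 452) (nat_lit 295) (nat_lit 273)) (XT.lf (nat_lit 0) (nat_lit 4426550085) (nat_lit 152) (nat_lit 16610817908) (nat_lit 0) (nat_lit 1036888416) (nat_lit 93) (nat_lit 5) (nat_lit 95) (nat_lit 4) (nat_lit 93) (nat_lit 4) (nat_lit 453) (nat_lit 295) (nat_lit 272)))) (XT.nd (nat_lit 156) (nat_lit 76) (nat_lit 0) (XT.nd (nat_lit 78) (nat_lit 152) (nat_lit 0) (XT.lf (nat_lit 0) (nat_lit 2871412351) (nat_lit 76) (nat_lit 11527386108) (nat_lit 76) (nat_lit 8036317929) (nat_lit 92) (nat_lit 4) (nat_lit 93) (nat_lit 5) (nat_lit 93) (nat_lit 4) (nat_lit 454) (nat_lit 295) (nat_lit 271)) (XT.lf (nat_lit 0) (nat_lit 161705705) (nat_lit 76) (nat_lit 1686189272) (nat_lit 152) (nat_lit 20957744480) (nat_lit 90) (nat_lit 5) (nat_lit 91) (nat_lit 5) (nat_lit 92) (nat_lit 4) (nat_lit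 455) (nat_lit 295) (nat_lit 270))) (XT.nd (nat_lit 78) (nat_lit 76) (nat_lit 0) (XT.lf (nat_lit 0) (nat_lit 11997858662) (nat_lit 152) (nat_lit 2763024740) (nat_lit 0) (nat_lit 8420085398) (nat_lit 90) (nat_lit 5) (nat_lit 92) (nat_lit 4) (nat_lit 90) (nat_lit 4) (nat_lit 456) (nat_lit 295) (nat_lit 269)) (XT.lf (nat_lit 0) (nat_lit 17753928363) (nat_lit 76) (nat_lit 4740124670) (nat_lit 76) (nat_lit 1072253037) (nat_lit 89) (nat_lit 4) (nat_lit 90) (nat_lit 5) (nat_lit 90) (nat_lit 4) (nat_lit 457) (nat_lit 295) (nat_lit 268)))))) (XT.nd (nat_lit 546) (nat_lit 836) (nat_lit 0) (XT.nd (nat_lit 234) (nat_lit 304) (nat_lit 0) (XT.nd (nat_lit 78) (nat_lit 228) (nat_lit 0) (XT.lf (nat_lit 0) (nat_lit 9240227310) (nat_lit 152) (nat_lit 9123603838) (nat_lit 0) (nat_lit 5594260534) (nat_lit 87) (nat_lit 5) (nat_lit 89) (nat_lit 4) (nat_lit 87) (nat_lit 4) (nat_lit 458) (nat_lit 295) (nat_lit 267)) (XT.nd (nat_lit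 78) (nat_lit 152) (nat_lit 0) (XT.lf (nat_lit 0) (nat_lit 11740726811) (nat_lit 76) (nat_lit 8173398634) (nat_lit 76) (nat_lit 4444979086) (nat_lit 86) (nat_lit 4) (nat_lit 87) (nat_lit 5) (nat_lit 87) (nat_lit 4) (nat_lit 459) (nat_lit 295) (nat_lit 266)) (XT.lf (nat_lit 0) (nat_lit 6068577608) (nat_lit 152) (nat_lit 16329200820) (nat_lit 0) (nat_lit 2371033159) (nat_lit 84) (nat_lit 5) (nat_lit 86) (nat_lit 4) (nat_lit 84) (nat_lit 4) (nat_lit 460) (nat_lit 295) (nat_lit 265)))) (XT.nd (nat_lit 156) (nat_lit 76) (nat_lit 0) (XT.nd (nat_lit 78) (nat_lit 152) (nat_lit 0) (XT.lf (nat_lit 0) (nat_lit 4879613237) (nat_lit 76) (nat_lit 12039770633) (nat_lit 76) (nat_lit 8266770217) (nat_lit 83) (nat_lit 4) (nat_lit 84) (nat_lit 5) (nat_lit 84) (nat_lit 4) (nat_lit 461) (nat_lit 295) (nat_lit 264)) (XT.lf (nat_lit 0) (nat_lit 1154952770) (nat_lit 76) (nat_lit 1308698168) (nat_lit 152) (nat_lit 23150680594)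 (nat_lit 81) (nat_lit 5) (nat_lit 82) (nat_lit 5) (nat_lit 83) (nat_lit 4) (nat_lit 462) (nat_lit 295) (nat_lit 263))) (XT.nd (nat_lit 78) (nat_lit 76) (nat_lit 0) (XT.lf (nat_lit 0) (nat_lit 13505383783) (nat_lit 152) (nat_lit 2840749255) (nat_lit 0) (nat_lit 9702099198) (nat_lit 81) (nat_lit 5) (nat_lit 83) (nat_lit 4) (nat_lit 81) (nat_lit 4) (nat_lit 463) (nat_lit 295) (nat_lit 262)) (XT.lf (nat_lit 0) (nat_lit 19512142337) (nat_lit 76) (nat_lit 5425773717) (nat_lit 76) (nat_lit 1555447483) (nat_lit 80) (nat_lit 4) (nat_lit 81) (nat_lit 5) (nat_lit 81) (nat_lit 4) (nat_lit 464) (nat_lit 295) (nat_lit 261))))) (XT.nd (nat_lit 312) (nat_lit 380) (nat_lit 0) (XT.nd (nat_lit 156) (nat_lit 228) (nat_lit 0) (XT.nd (nat_lit 78) (nat_lit 76) (nat_lit 0) (XT.lf (nat_lit 0) (nat_lit 9666108401) (nat_lit 152) (nat_lit 11434757925) (nat_lit 0) (nat_lit 5845316932) (nat_lit 78) (nat_lit 5) (nat_lit 80) (nat_lit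 4) (nat_lit 78) (nat_lit 4) (nat_lit 465) (nat_lit 295) (nat_lit 260)) (XT.lf (nat_lit 0) (nat_lit 11279566856) (nat_lit 76) (nat_lit 10005964144) (nat_lit 76) (nat_lit 6123820069) (nat_lit 77) (nat_lit 4) (nat_lit 78) (nat_lit 5) (nat_lit 78) (nat_lit 4) (nat_lit 466) (nat_lit 295) (nat_lit 259))) (XT.nd (nat_lit 78) (nat_lit 76) (nat_lit 0) (XT.lf (nat_lit 0) (nat_lit 5318408455) (nat_lit 152) (nat_lit 21073271333) (nat_lit 0) (nat_lit 1491505822) (nat_lit 75) (nat_lit 5) (nat_lit 77) (nat_lit 4) (nat_lit 75) (nat_lit 4) (nat_lit 467) (nat_lit 295) (nat_lit 258)) (XT.lf (nat_lit 0) (nat_lit 1997453123) (nat_lit 76) (nat_lit 15125375915) (nat_lit 76) (nat_lit 11242326957) (nat_lit 74) (nat_lit 4) (nat_lit 75) (nat_lit 5) (nat_lit 75) (nat_lit 4) (nat_lit 468) (nat_lit 295) (nat_lit 257)))) (XT.nd (nat_lit 156) (nat_lit 228) (nat_lit 0) (XT.nd (nat_lit 78) (nat_lit 76) (nat_lit 0) (XT.lf (nat_lit 0)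 (nat_lit 485789879) (nat_lit 152) (nat_lit 2951406498) (nat_lit 76) (nat_lit 25422042508) (nat_lit 73) (nat_lit 5) (nat_lit 75) (nat_lit 5) (nat_lit 74) (nat_lit 4) (nat_lit 469) (nat_lit 295) (nat_lit 256)) (XT.lf (nat_lit 0) (nat_lit 12491394836) (nat_lit 152) (nat_lit 8251722739) (nat_lit 0) (nat_lit 8617139253) (nat_lit 72) (nat_lit 5) (nat_lit 74) (nat_lit 4) (nat_lit 72) (nat_lit 4) (nat_lit 470) (nat_lit 295) (nat_lit 255))) (XT.nd (nat_lit 78) (nat_lit 152) (nat_lit 0) (XT.lf (nat_lit 0) (nat_lit 16080646336) (nat_lit 76) (nat_lit 8858667729) (nat_lit 76) (nat_lit 4934526862) (nat_lit 71) (nat_lit 4) (nat_lit 72) (nat_lit 5) (nat_lit 72) (nat_lit 4) (nat_lit 471) (nat_lit 295) (nat_lit 254)) (XT.lf (nat_lit 0) (nat_lit 7299216976) (nat_lit 152) (nat_lit 19656595222) (nat_lit 0) (nat_lit 3442349811) (nat_lit 69) (nat_lit 5) (nat_lit 71) (nat_lit 4) (nat_lit 69) (nat_lit 4) (nat_lit 472) (nat_lit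 295) (nat_lit 253))))))) (XT.nd (nat_lit 1170) (nat_lit 760) (nat_lit 0) (XT.nd (nat_lit 546) (nat_lit 760) (nat_lit 0) (XT.nd (nat_lit 234) (nat_lit 380) (nat_lit 0) (XT.nd (nat_lit 78) (nat_lit 152) (nat_lit 0) (XT.lf (nat_lit 0) (nat_lit 5047364734) (nat_lit 76) (nat_lit 14893844549) (nat_lit 76) (nat_lit 10991325282) (nat_lit 68) (nat_lit 4) (nat_lit 69) (nat_lit 5) (nat_lit 69) (nat_lit 4) (nat_lit 473) (nat_lit 295) (nat_lit 252)) (XT.nd (nat_lit 78) (nat_lit 76) (nat_lit 0) (XT.lf (nat_lit 0) (nat_lit 1514661355) (nat_lit 152) (nat_lit 872079142) (nat_lit 76) (nat_lit 29093850865) (nat_lit 67) (nat_lit 5) (nat_lit 69) (nat_lit 5) (nat_lit 68) (nat_lit 4) (nat_lit 474) (nat_lit 295) (nat_lit 251)) (XT.lf (nat_lit 0) (nat_lit 14385854197) (nat_lit 152) (nat_lit 7137451756) (nat_lit 0) (nat_lit 10512190918) (nat_lit 66) (nat_lit 5) (nat_lit 68) (nat_lit 4) (nat_lit 66) (nat_lit 4) (nat_lit 475)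 (nat_lit 295) (nat_lit 250)))) (XT.nd (nat_lit 156) (nat_lit 152) (nat_lit 0) (XT.nd (nat_lit 78) (nat_lit 152) (nat_lit 0) (XT.lf (nat_lit 0) (nat_lit 18931719015) (nat_lit 76) (nat_lit 8793546318) (nat_lit 76) (nat_lit 4879321738) (nat_lit 65) (nat_lit 4) (nat_lit 66) (nat_lit 5) (nat_lit 66) (nat_lit 4) (nat_lit 476) (nat_lit 295) (nat_lit 249)) (XT.lf (nat_lit 0) (nat_lit 8217479508) (nat_lit 152) (nat_lit 20588710990) (nat_lit 0) (nat_lit 4379028554) (nat_lit 63) (nat_lit 5) (nat_lit 65) (nat_lit 4) (nat_lit 63) (nat_lit 4) (nat_lit 477) (nat_lit 295) (nat_lit 248))) (XT.nd (nat_lit 78) (nat_lit 76) (nat_lit 0) (XT.lf (nat_lit 0) (nat_lit 5866428721) (nat_lit 76) (nat_lit 15893223081) (nat_lit 76) (nat_lit 12017652792) (nat_lit 62) (nat_lit 4) (nat_lit 63) (nat_lit 5) (nat_lit 63) (nat_lit 4) (nat_lit 478) (nat_lit 295) (nat_lit 247)) (XT.lf (nat_lit 0) (nat_lit 1372789995) (nat_lit 152) (nat_lit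 1124844789) (nat_lit 76) (nat_lit 31886808098) (nat_lit 61) (nat_lit 5) (nat_lit 63) (nat_lit 5) (nat_lit 62) (nat_lit 4) (nat_lit 479) (nat_lit 295) (nat_lit 246))))) (XT.nd (nat_lit 312) (nat_lit 380) (nat_lit 0) (XT.nd (nat_lit 156) (nat_lit 228) (nat_lit 0) (XT.nd (nat_lit 78) (nat_lit 76) (nat_lit 0) (XT.lf (nat_lit 0) (nat_lit 15161758494) (nat_lit 152) (nat_lit 8507205655) (nat_lit 0) (nat_lit 11330110908) (nat_lit 60) (nat_lit 5) (nat_lit 62) (nat_lit 4) (nat_lit 60) (nat_lit 4) (nat_lit 480) (nat_lit 295) (nat_lit 245)) (XT.lf (nat_lit 0) (nat_lit 19423800582) (nat_lit 76) (nat_lit 10035069515) (nat_lit 76) (nat_lit 6170441880) (nat_lit 59) (nat_lit 4) (nat_lit 60) (nat_lit 5) (nat_lit 60) (nat_lit 4) (nat_lit 481) (nat_lit 295) (nat_lit 244))) (XT.nd (nat_lit 78) (nat_lit 76) (nat_lit 0) (XT.lf (nat_lit 0) (nat_lit 7865769393) (nat_lit 152) (nat_lit 24324381293) (nat_lit 0) (nat_lit 4082616869)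 (nat_lit 57) (nat_lit 5) (nat_lit 59) (nat_lit 4) (nat_lit 57) (nat_lit 4) (nat_lit 482) (nat_lit 295) (nat_lit 243)) (XT.lf (nat_lit 0) (nat_lit 4005796888) (nat_lit 76) (nat_lit 18367994364) (nat_lit 76) (nat_lit 14554660424) (nat_lit 56) (nat_lit 4) (nat_lit 57) (nat_lit 5) (nat_lit 57) (nat_lit 4) (nat_lit 483) (nat_lit 295) (nat_lit 242)))) (XT.nd (nat_lit 156) (nat_lit 228) (nat_lit 0) (XT.nd (nat_lit 78) (nat_lit 152) (nat_lit 0) (XT.lf (nat_lit 0) (nat_lit 33428263188) (nat_lit 76) (nat_lit 4007311890) (nat_lit 76) (nat_lit 164675603) (nat_lit 56) (nat_lit 4) (nat_lit 57) (nat_lit 5) (nat_lit 57) (nat_lit 4) (nat_lit 484) (nat_lit 295) (nat_lit 241)) (XT.lf (nat_lit 0) (nat_lit 14598223112) (nat_lit 152) (nat_lit 12843049019) (nat_lit 0) (nat_lit 10839887999) (nat_lit 54) (nat_lit 5) (nat_lit 56) (nat_lit 4) (nat_lit 54) (nat_lit 4) (nat_lit 485) (nat_lit 295) (nat_lit 240))) (XT.nd (nat_lit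 78) (nat_lit 152) (nat_lit 0) (XT.lf (nat_lit 0) (nat_lit 17081098211) (nat_lit 76) (nat_lit 12841422991) (nat_lit 76) (nat_lit 9056272080) (nat_lit 53) (nat_lit 4) (nat_lit 54) (nat_lit 5) (nat_lit 54) (nat_lit 4) (nat_lit 486) (nat_lit 295) (nat_lit 239)) (XT.lf (nat_lit 0) (nat_lit 6000906927) (nat_lit 152) (nat_lit 31390719659) (nat_lit 0) (nat_lit 2300726668) (nat_lit 51) (nat_lit 5) (nat_lit 53) (nat_lit 4) (nat_lit 51) (nat_lit 4) (nat_lit 487) (nat_lit 295) (nat_lit 238)))))) (XT.nd (nat_lit 624) (nat_lit 76) (nat_lit 0) (XT.nd (nat_lit 312) (nat_lit 380) (nat_lit 0) (XT.nd (nat_lit 156) (nat_lit 228) (nat_lit 0) (XT.nd (nat_lit 78) (nat_lit 76) (nat_lit 0) (XT.lf (nat_lit 0) (nat_lit 21553686766) (nat_lit 152) (nat_lit 1035199797) (nat_lit 0) (nat_lit 17828966254) (nat_lit 51) (nat_lit 5) (nat_lit 53) (nat_lit 4) (nat_lit 51) (nat_lit 4) (nat_lit 488) (nat_lit 295) (nat_lit 237)) (XT.lf (nat_lit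 0) (nat_lit 30583766975) (nat_lit 76) (nat_lit 7162352159) (nat_lit 76) (nat_lit 3413806158) (nat_lit 50) (nat_lit 4) (nat_lit 51) (nat_lit 5) (nat_lit 51) (nat_lit 4) (nat_lit 489) (nat_lit 295) (nat_lit 236))) (XT.nd (nat_lit 78) (nat_lit 76) (nat_lit 0) (XT.lf (nat_lit 0) (nat_lit 12436568230) (nat_lit 152) (nat_lit 20703928843) (nat_lit 0) (nat_lit 8774745372) (nat_lit 48) (nat_lit 5) (nat_lit 50) (nat_lit 4) (nat_lit 48) (nat_lit 4) (nat_lit 490) (nat_lit 295) (nat_lit 235)) (XT.lf (nat_lit 0) (nat_lit 11350860957) (nat_lit 76) (nat_lit 17509980331) (nat_lit 76) (nat_lit 13826353775) (nat_lit 47) (nat_lit 4) (nat_lit 48) (nat_lit 5) (nat_lit 48) (nat_lit 4) (nat_lit 491) (nat_lit 295) (nat_lit 234)))) (XT.nd (nat_lit 156) (nat_lit 228) (nat_lit 0) (XT.nd (nat_lit 78) (nat_lit 0) (nat_lit 0) (XT.lf (nat_lit 0) (nat_lit 1068309445) (nat_lit 76) (nat_lit 1282973628) (nat_lit 152) (nat_lit 41127344975)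 (nat_lit 45) (nat_lit 5) (nat_lit 46) (nat_lit 5) (nat_lit 47) (nat_lit 4) (nat_lit 492) (nat_lit 295) (nat_lit 233)) (XT.lf (nat_lit 0) (nat_lit 19083409347) (nat_lit 152) (nat_lit 9729308809) (nat_lit 0) (nat_lit 15466567337) (nat_lit 45) (nat_lit 5) (nat_lit 47) (nat_lit 4) (nat_lit 45) (nat_lit 4) (nat_lit 493) (nat_lit 295) (nat_lit 232))) (XT.nd (nat_lit 78) (nat_lit 152) (nat_lit 0) (XT.lf (nat_lit 0) (nat_lit 24153769235) (nat_lit 76) (nat_lit 12291290466) (nat_lit 76) (nat_lit 8655076153) (nat_lit 44) (nat_lit 4) (nat_lit 45) (nat_lit 5) (nat_lit 45) (nat_lit 4) (nat_lit 494) (nat_lit 295) (nat_lit 231)) (XT.lf (nat_lit 0) (nat_lit 8374979806) (nat_lit 152) (nat_lit 32737102534) (nat_lit 0) (nat_lit 4826414394) (nat_lit 42) (nat_lit 5) (nat_lit 44) (nat_lit 4) (nat_lit 42) (nat_lit 4) (nat_lit 495) (nat_lit 295) (nat_lit 230))))) (XT.nd (nat_lit 48048) (nat_lit 0) (nat_lit 6080) (XT.nd (nat_lit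 47892) (nat_lit 0) (nat_lit 6688) (XT.nd (nat_lit 47814) (nat_lit 0) (nat_lit 6992) (XT.lf (nat_lit 0) (nat_lit 1591864502) (nat_lit 76) (nat_lit 24383433681) (nat_lit 76) (nat_lit 20817139868) (nat_lit 41) (nat_lit 4) (nat_lit 42) (nat_lit 5) (nat_lit 42) (nat_lit 4) (nat_lit 496) (nat_lit 295) (nat_lit 229)) (XT.lf (nat_lit 0) (nat_lit 3084400812) (nat_lit 152) (nat_lit 1380803116) (nat_lit 0) (nat_lit 3084400812) (nat_lit 133) (nat_lit 5) (nat_lit 135) (nat_lit 4) (nat_lit 133) (nat_lit 4) (nat_lit 428) (nat_lit 296) (nat_lit 296))) (XT.nd (nat_lit 78) (nat_lit 152) (nat_lit 0) (XT.lf (nat_lit 0) (nat_lit 12206002476) (nat_lit 152) (nat_lit 1702188094) (nat_lit 152) (nat_lit 1408283805) (nat_lit 131) (nat_lit 4) (nat_lit 133) (nat_lit 5) (nat_lit 133) (nat_lit 4) (nat_lit 429) (nat_lit 296) (nat_lit 295)) (XT.lf (nat_lit 0) (nat_lit 6261496567) (nat_lit 152) (nat_lit 3576441883) (nat_lit 0) (nat_lit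 5699119617) (nat_lit 129) (nat_lit 5) (nat_lit 131) (nat_lit 4) (nat_lit 129) (nat_lit 4) (nat_lit 430) (nat_lit 296) (nat_lit 294)))) (XT.nd (nat_lit 156) (nat_lit 304) (nat_lit 0) (XT.nd (nat_lit 78) (nat_lit 152) (nat_lit 0) (XT.lf (nat_lit 0) (nat_lit 11685913513) (nat_lit 152) (nat_lit 2454523652) (nat_lit 152) (nat_lit 1623182644) (nat_lit 127) (nat_lit 4) (nat_lit 129) (nat_lit 5) (nat_lit 129) (nat_lit 4) (nat_lit 431) (nat_lit 296) (nat_lit 293)) (XT.lf (nat_lit 0) (nat_lit 6179006255) (nat_lit 152) (nat_lit 4696541521) (nat_lit 0) (nat_lit 5118354641) (nat_lit 125) (nat_lit 5) (nat_lit 127) (nat_lit 4) (nat_lit 125) (nat_lit 4) (nat_lit 432) (nat_lit 296) (nat_lit 292))) (XT.nd (nat_lit 78) (nat_lit 152) (nat_lit 0) (XT.lf (nat_lit 0) (nat_lit 10862849892) (nat_lit 152) (nat_lit 3337018179) (nat_lit 152) (nat_lit 2030226351) (nat_lit 123) (nat_lit 4) (nat_lit 125) (nat_lit 5) (nat_lit 125)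 (nat_lit 4) (nat_lit 433) (nat_lit 296) (nat_lit 291)) (XT.lf (nat_lit 0) (nat_lit 5908920066) (nat_lit 152) (nat_lit 6153412430) (nat_lit 0) (nat_lit 4408179376) (nat_lit 121) (nat_lit 5) (nat_lit 123) (nat_lit 4) (nat_lit 121) (nat_lit 4) (nat_lit 434) (nat_lit 296) (nat_lit 290))))))))
noncomputable def xc19 : XT := (XT.nd (nat_lit 2340) (nat_lit 2736) (nat_lit 0) (XT.nd (nat_lit 1170) (nat_lit 1444) (nat_lit 0) (XT.nd (nat_lit 546) (nat_lit 836) (nat_lit 0) (XT.nd (nat_lit 234) (nat_lit 456) (nat_lit 0) (XT.nd (nat_lit 78) (nat_lit 228) (nat_lit 0) (XT.lf (nat_lit 0) (nat_lit 9705010032) (nat_lit 152) (nat_lit 4368835168) (nat_lit 152) (nat_lit 2642841313) (nat_lit 119) (nat_lit 4) (nat_lit 121) (nat_lit 5) (nat_lit 121) (nat_lit 4) (nat_lit 435) (nat_lit 296) (nat_lit 289)) (XT.nd (nat_lit 78) (nat_lit 76) (nat_lit 0) (XT.lf (nat_lit 0) (nat_lit 5437648361) (nat_lit 152) (nat_lit 7980451675) (nat_lit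 0) (nat_lit 3549603460) (nat_lit 117) (nat_lit 5) (nat_lit 119) (nat_lit 4) (nat_lit 117) (nat_lit 4) (nat_lit 436) (nat_lit 296) (nat_lit 288)) (XT.lf (nat_lit 0) (nat_lit 8178668006) (nat_lit 76) (nat_lit 5569874100) (nat_lit 76) (nat_lit 3475690645) (nat_lit 116) (nat_lit 4) (nat_lit 117) (nat_lit 5) (nat_lit 117) (nat_lit 4) (nat_lit 437) (nat_lit 296) (nat_lit 287)))) (XT.nd (nat_lit 156) (nat_lit 228) (nat_lit 0) (XT.nd (nat_lit 78) (nat_lit 76) (nat_lit 0) (XT.lf (nat_lit 0) (nat_lit 4750371167) (nat_lit 152) (nat_lit 10213094820) (nat_lit 0) (nat_lit 2522877988) (nat_lit 114) (nat_lit 5) (nat_lit 116) (nat_lit 4) (nat_lit 114) (nat_lit 4) (nat_lit 438) (nat_lit 296) (nat_lit 286)) (XT.lf (nat_lit 0) (nat_lit 6248022536) (nat_lit 76) (nat_lit 6960868377) (nat_lit 76) (nat_lit 4544729218) (nat_lit 113) (nat_lit 4) (nat_lit 114) (nat_lit 5) (nat_lit 114) (nat_lit 4) (nat_lit 439) (nat_lit 296)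 (nat_lit 285))) (XT.nd (nat_lit 78) (nat_lit 76) (nat_lit 0) (XT.lf (nat_lit 0) (nat_lit 3830981485) (nat_lit 152) (nat_lit 12888971814) (nat_lit 0) (nat_lit 1307398383) (nat_lit 111) (nat_lit 5) (nat_lit 113) (nat_lit 4) (nat_lit 111) (nat_lit 4) (nat_lit 440) (nat_lit 296) (nat_lit 284)) (XT.lf (nat_lit 0) (nat_lit 3875038655) (nat_lit 76) (nat_lit 8563485177) (nat_lit 76) (nat_lit 5867264281) (nat_lit 110) (nat_lit 4) (nat_lit 111) (nat_lit 5) (nat_lit 111) (nat_lit 4) (nat_lit 441) (nat_lit 296) (nat_lit 283))))) (XT.nd (nat_lit 312) (nat_lit 456) (nat_lit 0) (XT.nd (nat_lit 156) (nat_lit 152) (nat_lit 0) (XT.nd (nat_lit 78) (nat_lit 76) (nat_lit 0) (XT.lf (nat_lit 0) (nat_lit 2542432705) (nat_lit 76) (nat_lit 120751092) (nat_lit 152) (nat_lit 15928480309) (nat_lit 108) (nat_lit 5) (nat_lit 109) (nat_lit 5) (nat_lit 110) (nat_lit 4) (nat_lit 442) (nat_lit 296) (nat_lit 282)) (XT.lf (nat_lit 0) (nat_lit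 1019281399) (nat_lit 76) (nat_lit 10400427718) (nat_lit 76) (nat_lit 7462021812) (nat_lit 107) (nat_lit 4) (nat_lit 108) (nat_lit 5) (nat_lit 108) (nat_lit 4) (nat_lit 443) (nat_lit 296) (nat_lit 281))) (XT.nd (nat_lit 78) (nat_lit 76) (nat_lit 0) (XT.lf (nat_lit 0) (nat_lit 1247528634) (nat_lit 152) (nat_lit 559309222) (nat_lit 76) (nat_lit 17372889355) (nat_lit 106) (nat_lit 5) (nat_lit 108) (nat_lit 5) (nat_lit 107) (nat_lit 4) (nat_lit 444) (nat_lit 296) (nat_lit 280)) (XT.lf (nat_lit 0) (nat_lit 10155988756) (nat_lit 152) (nat_lit 2316162937) (nat_lit 0) (nat_lit 7009667175) (nat_lit 105) (nat_lit 5) (nat_lit 107) (nat_lit 4) (nat_lit 105) (nat_lit 4) (nat_lit 445) (nat_lit 296) (nat_lit 279)))) (XT.nd (nat_lit 156) (nat_lit 228) (nat_lit 0) (XT.nd (nat_lit 78) (nat_lit 152) (nat_lit 0) (XT.lf (nat_lit 0) (nat_lit 15639141157) (nat_lit 76) (nat_lit 3719852645) (nat_lit 76) (nat_lit 433160738) (nat_lit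 104) (nat_lit 4) (nat_lit 105) (nat_lit 5) (nat_lit 105) (nat_lit 4) (nat_lit 446) (nat_lit 296) (nat_lit 278)) (XT.lf (nat_lit 0) (nat_lit 8619272332) (nat_lit 152) (nat_lit 6192116708) (nat_lit 0) (nat_lit 5295996821) (nat_lit 102) (nat_lit 5) (nat_lit 104) (nat_lit 4) (nat_lit 102) (nat_lit 4) (nat_lit 447) (nat_lit 296) (nat_lit 277))) (XT.nd (nat_lit 78) (nat_lit 152) (nat_lit 0) (XT.lf (nat_lit 0) (nat_lit 12084841161) (nat_lit 76) (nat_lit 5898684963) (nat_lit 76) (nat_lit 2446950721) (nat_lit 101) (nat_lit 4) (nat_lit 102) (nat_lit 5) (nat_lit 102) (nat_lit 4) (nat_lit 448) (nat_lit 296) (nat_lit 276)) (XT.lf (nat_lit 0) (nat_lit 6777963785) (nat_lit 152) (nat_lit 10676241520) (nat_lit 0) (nat_lit 3305680816) (nat_lit 99) (nat_lit 5) (nat_lit 101) (nat_lit 4) (nat_lit 99) (nat_lit 4) (nat_lit 449) (nat_lit 296) (nat_lit 275)))))) (XT.nd (nat_lit 546) (nat_lit 760) (nat_lit 0) (XT.nd (nat_lit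 234) (nat_lit 380) (nat_lit 0) (XT.nd (nat_lit 78) (nat_lit 228) (nat_lit 0) (XT.lf (nat_lit 0) (nat_lit 7921769594) (nat_lit 76) (nat_lit 8382158825) (nat_lit 76) (nat_lit 4792317918) (nat_lit 98) (nat_lit 4) (nat_lit 99) (nat_lit 5) (nat_lit 99) (nat_lit 4) (nat_lit 450) (nat_lit 296) (nat_lit 274)) (XT.nd (nat_lit 78) (nat_lit 76) (nat_lit 0) (XT.lf (nat_lit 0) (nat_lit 4608615522) (nat_lit 152) (nat_lit 15819405973) (nat_lit 0) (nat_lit 1012523457) (nat_lit 96) (nat_lit 5) (nat_lit 98) (nat_lit 4) (nat_lit 96) (nat_lit 4) (nat_lit 451) (nat_lit 296) (nat_lit 273)) (XT.lf (nat_lit 0) (nat_lit 3098429648) (nat_lit 76) (nat_lit 11197979528) (nat_lit 76) (nat_lit 7494305298) (nat_lit 95) (nat_lit 4) (nat_lit 96) (nat_lit 5) (nat_lit 96) (nat_lit 4) (nat_lit 452) (nat_lit 296) (nat_lit 272)))) (XT.nd (nat_lit 156) (nat_lit 228) (nat_lit 0) (XT.nd (nat_lit 78) (nat_lit 0) (nat_lit 0) (XT.lf (nat_lit 0)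 (nat_lit 458598419) (nat_lit 76) (nat_lit 1643234760) (nat_lit 152) (nat_lit 20048348894) (nat_lit 93) (nat_lit 5) (nat_lit 94) (nat_lit 5) (nat_lit 95) (nat_lit 4) (nat_lit 453) (nat_lit 296) (nat_lit 271)) (XT.lf (nat_lit 0) (nat_lit 11958864938) (nat_lit 152) (nat_lit 2392428330) (nat_lit 0) (nat_lit 8163205283) (nat_lit 93) (nat_lit 5) (nat_lit 95) (nat_lit 4) (nat_lit 93) (nat_lit 4) (nat_lit 454) (nat_lit 296) (nat_lit 270))) (XT.nd (nat_lit 78) (nat_lit 152) (nat_lit 0) (XT.lf (nat_lit 0) (nat_lit 17529987326) (nat_lit 76) (nat_lit 4624852622) (nat_lit 76) (nat_lit 733607606) (nat_lit 92) (nat_lit 4) (nat_lit 93) (nat_lit 5) (nat_lit 93) (nat_lit 4) (nat_lit 455) (nat_lit 296) (nat_lit 269)) (XT.lf (nat_lit 0) (nat_lit 9277632765) (nat_lit 152) (nat_lit 8581320236) (nat_lit 0) (nat_lit 5409626612) (nat_lit 90) (nat_lit 5) (nat_lit 92) (nat_lit 4) (nat_lit 90) (nat_lit 4) (nat_lit 456) (nat_lit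 296) (nat_lit 268))))) (XT.nd (nat_lit 312) (nat_lit 304) (nat_lit 0) (XT.nd (nat_lit 156) (nat_lit 228) (nat_lit 0) (XT.nd (nat_lit 78) (nat_lit 152) (nat_lit 0) (XT.lf (nat_lit 0) (nat_lit 11678316739) (nat_lit 76) (nat_lit 7967460963) (nat_lit 76) (nat_lit 4011980664) (nat_lit 89) (nat_lit 4) (nat_lit 90) (nat_lit 5) (nat_lit 90) (nat_lit 4) (nat_lit 457) (nat_lit 296) (nat_lit 267)) (XT.lf (nat_lit 0) (nat_lit 6194120539) (nat_lit 152) (nat_lit 15589787874) (nat_lit 0) (nat_lit 2271395632) (nat_lit 87) (nat_lit 5) (nat_lit 89) (nat_lit 4) (nat_lit 87) (nat_lit 4) (nat_lit 458) (nat_lit 296) (nat_lit 266))) (XT.nd (nat_lit 78) (nat_lit 152) (nat_lit 0) (XT.lf (nat_lit 0) (nat_lit 5004257437) (nat_lit 76) (nat_lit 11729432728) (nat_lit 76) (nat_lit 7726656586) (nat_lit 86) (nat_lit 4) (nat_lit 87) (nat_lit 5) (nat_lit 87) (nat_lit 4) (nat_lit 459) (nat_lit 296) (nat_lit 265)) (XT.lf (nat_lit 0) (nat_lit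 1380312260) (nat_lit 76) (nat_lit 1309740965) (nat_lit 152) (nat_lit 22185773473) (nat_lit 84) (nat_lit 5) (nat_lit 85) (nat_lit 5) (nat_lit 86) (nat_lit 4) (nat_lit 460) (nat_lit 296) (nat_lit 264)))) (XT.nd (nat_lit 156) (nat_lit 228) (nat_lit 0) (XT.nd (nat_lit 78) (nat_lit 76) (nat_lit 0) (XT.lf (nat_lit 0) (nat_lit 13411857441) (nat_lit 152) (nat_lit 2508228993) (nat_lit 0) (nat_lit 9376952825) (nat_lit 84) (nat_lit 5) (nat_lit 86) (nat_lit 4) (nat_lit 84) (nat_lit 4) (nat_lit 461) (nat_lit 296) (nat_lit 263)) (XT.lf (nat_lit 0) (nat_lit 19196547056) (nat_lit 76) (nat_lit 5319277490) (nat_lit 76) (nat_lit 1213248389) (nat_lit 83) (nat_lit 4) (nat_lit 84) (nat_lit 5) (nat_lit 84) (nat_lit 4) (nat_lit 462) (nat_lit 296) (nat_lit 262))) (XT.nd (nat_lit 78) (nat_lit 76) (nat_lit 0) (XT.lf (nat_lit 0) (nat_lit 9679484046) (nat_lit 152) (nat_lit 10863013348) (nat_lit 0) (nat_lit 5626006377) (nat_lit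 81) (nat_lit 5) (nat_lit 83) (nat_lit 4) (nat_lit 81) (nat_lit 4) (nat_lit 463) (nat_lit 296) (nat_lit 261)) (XT.lf (nat_lit 0) (nat_lit 11192620460) (nat_lit 76) (nat_lit 9772001545) (nat_lit 76) (nat_lit 5653434896) (nat_lit 80) (nat_lit 4) (nat_lit 81) (nat_lit 5) (nat_lit 81) (nat_lit 4) (nat_lit 464) (nat_lit 296) (nat_lit 260))))))) (XT.nd (nat_lit 1170) (nat_lit 1368) (nat_lit 0) (XT.nd (nat_lit 546) (nat_lit 684) (nat_lit 0) (XT.nd (nat_lit 234) (nat_lit 380) (nat_lit 0) (XT.nd (nat_lit 78) (nat_lit 152) (nat_lit 0) (XT.lf (nat_lit 0) (nat_lit 5453314481) (nat_lit 152) (nat_lit 20231233626) (nat_lit 0) (nat_lit 1393353478) (nat_lit 78) (nat_lit 5) (nat_lit 80) (nat_lit 4) (nat_lit 78) (nat_lit 4) (nat_lit 465) (nat_lit 296) (nat_lit 259)) (XT.nd (nat_lit 78) (nat_lit 76) (nat_lit 0) (XT.lf (nat_lit 0) (nat_lit 2170369268) (nat_lit 76) (nat_lit 14747437340) (nat_lit 76) (nat_lit 10627910700)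 (nat_lit 77) (nat_lit 4) (nat_lit 78) (nat_lit 5) (nat_lit 78) (nat_lit 4) (nat_lit 466) (nat_lit 296) (nat_lit 258)) (XT.lf (nat_lit 0) (nat_lit 754630295) (nat_lit 152) (nat_lit 2645457855) (nat_lit 76) (nat_lit 24625189939) (nat_lit 76) (nat_lit 5) (nat_lit 78) (nat_lit 5) (nat_lit 77) (nat_lit 4) (nat_lit 467) (nat_lit 296) (nat_lit 257)))) (XT.nd (nat_lit 156) (nat_lit 228) (nat_lit 0) (XT.nd (nat_lit 78) (nat_lit 76) (nat_lit 0) (XT.lf (nat_lit 0) (nat_lit 12413656513) (nat_lit 152) (nat_lit 7794495028) (nat_lit 0) (nat_lit 8303458764) (nat_lit 75) (nat_lit 5) (nat_lit 77) (nat_lit 4) (nat_lit 75) (nat_lit 4) (nat_lit 468) (nat_lit 296) (nat_lit 256)) (XT.lf (nat_lit 0) (nat_lit 15831969060) (nat_lit 76) (nat_lit 8670639905) (nat_lit 76) (nat_lit 4507518859) (nat_lit 74) (nat_lit 4) (nat_lit 75) (nat_lit 5) (nat_lit 75) (nat_lit 4) (nat_lit 469) (nat_lit 296) (nat_lit 255))) (XT.nd (nat_lit 78)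 (nat_lit 76) (nat_lit 0) (XT.lf (nat_lit 0) (nat_lit 7367210545) (nat_lit 152) (nat_lit 18876339928) (nat_lit 0) (nat_lit 3275460169) (nat_lit 72) (nat_lit 5) (nat_lit 74) (nat_lit 4) (nat_lit 72) (nat_lit 4) (nat_lit 470) (nat_lit 296) (nat_lit 254)) (XT.lf (nat_lit 0) (nat_lit 5110838117) (nat_lit 76) (nat_lit 14533531065) (nat_lit 76) (nat_lit 10393348376) (nat_lit 71) (nat_lit 4) (nat_lit 72) (nat_lit 5) (nat_lit 72) (nat_lit 4) (nat_lit 471) (nat_lit 296) (nat_lit 253))))) (XT.nd (nat_lit 312) (nat_lit 304) (nat_lit 0) (XT.nd (nat_lit 156) (nat_lit 228) (nat_lit 0) (XT.nd (nat_lit 78) (nat_lit 76) (nat_lit 0) (XT.lf (nat_lit 0) (nat_lit 1744281432) (nat_lit 152) (nat_lit 646313045) (nat_lit 76) (nat_lit 28179097429) (nat_lit 70) (nat_lit 5) (nat_lit 72) (nat_lit 5) (nat_lit 71) (nat_lit 4) (nat_lit 472) (nat_lit 296) (nat_lit 252)) (XT.lf (nat_lit 0) (nat_lit 14243104994) (nat_lit 152) (nat_lit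 6731718909) (nat_lit 0) (nat_lit 10133535621) (nat_lit 69) (nat_lit 5) (nat_lit 71) (nat_lit 4) (nat_lit 69) (nat_lit 4) (nat_lit 473) (nat_lit 296) (nat_lit 251))) (XT.nd (nat_lit 78) (nat_lit 152) (nat_lit 0) (XT.lf (nat_lit 0) (nat_lit 18580864020) (nat_lit 76) (nat_lit 8616258564) (nat_lit 76) (nat_lit 4463657707) (nat_lit 68) (nat_lit 4) (nat_lit 69) (nat_lit 5) (nat_lit 69) (nat_lit 4) (nat_lit 474) (nat_lit 296) (nat_lit 250)) (XT.lf (nat_lit 0) (nat_lit 8248651407) (nat_lit 152) (nat_lit 19799262399) (nat_lit 0) (nat_lit 4176438790) (nat_lit 66) (nat_lit 5) (nat_lit 68) (nat_lit 4) (nat_lit 66) (nat_lit 4) (nat_lit 475) (nat_lit 296) (nat_lit 249)))) (XT.nd (nat_lit 156) (nat_lit 152) (nat_lit 0) (XT.nd (nat_lit 78) (nat_lit 76) (nat_lit 0) (XT.lf (nat_lit 0) (nat_lit 5887991379) (nat_lit 76) (nat_lit 15511352745) (nat_lit 76) (nat_lit 11399760224) (nat_lit 65) (nat_lit 4) (nat_lit 66) (nat_lit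 5) (nat_lit 66) (nat_lit 4) (nat_lit 476) (nat_lit 296) (nat_lit 248)) (XT.lf (nat_lit 0) (nat_lit 1596513430) (nat_lit 152) (nat_lit 908903172) (nat_lit 76) (nat_lit 30883033027) (nat_lit 64) (nat_lit 5) (nat_lit 66) (nat_lit 5) (nat_lit 65) (nat_lit 4) (nat_lit 477) (nat_lit 296) (nat_lit 247))) (XT.nd (nat_lit 78) (nat_lit 76) (nat_lit 0) (XT.lf (nat_lit 0) (nat_lit 14985910341) (nat_lit 152) (nat_lit 8078292672) (nat_lit 0) (nat_lit 10920915417) (nat_lit 63) (nat_lit 5) (nat_lit 65) (nat_lit 4) (nat_lit 63) (nat_lit 4) (nat_lit 478) (nat_lit 296) (nat_lit 246)) (XT.lf (nat_lit 0) (nat_lit 19041794567) (nat_lit 76) (nat_lit 9827552722) (nat_lit 76) (nat_lit 5727569265) (nat_lit 62) (nat_lit 4) (nat_lit 63) (nat_lit 5) (nat_lit 63) (nat_lit 4) (nat_lit 479) (nat_lit 296) (nat_lit 245)))))) (XT.nd (nat_lit 624) (nat_lit 684) (nat_lit 0) (XT.nd (nat_lit 312) (nat_lit 304) (nat_lit 0) (XT.nd (nat_lit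 156) (nat_lit 152) (nat_lit 0) (XT.nd (nat_lit 78) (nat_lit 76) (nat_lit 0) (XT.lf (nat_lit 0) (nat_lit 7896560289) (nat_lit 152) (nat_lit 23441924505) (nat_lit 0) (nat_lit 3883013776) (nat_lit 60) (nat_lit 5) (nat_lit 62) (nat_lit 4) (nat_lit 60) (nat_lit 4) (nat_lit 480) (nat_lit 296) (nat_lit 244)) (XT.lf (nat_lit 0) (nat_lit 4065650806) (nat_lit 76) (nat_lit 17918961229) (nat_lit 76) (nat_lit 13873395251) (nat_lit 59) (nat_lit 4) (nat_lit 60) (nat_lit 5) (nat_lit 60) (nat_lit 4) (nat_lit 481) (nat_lit 296) (nat_lit 243))) (XT.nd (nat_lit 78) (nat_lit 76) (nat_lit 0) (XT.lf (nat_lit 0) (nat_lit 96432548) (nat_lit 152) (nat_lit 3880894764) (nat_lit 76) (nat_lit 32532857793) (nat_lit 58) (nat_lit 5) (nat_lit 60) (nat_lit 5) (nat_lit 59) (nat_lit 4) (nat_lit 482) (nat_lit 296) (nat_lit 242)) (XT.lf (nat_lit 0) (nat_lit 14427890008) (nat_lit 152) (nat_lit 12302603861) (nat_lit 0) (nat_lit 10440672287)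 (nat_lit 57) (nat_lit 5) (nat_lit 59) (nat_lit 4) (nat_lit 57) (nat_lit 4) (nat_lit 483) (nat_lit 296) (nat_lit 241)))) (XT.nd (nat_lit 156) (nat_lit 76) (nat_lit 0) (XT.nd (nat_lit 78) (nat_lit 152) (nat_lit 0) (XT.lf (nat_lit 0) (nat_lit 16752464872) (nat_lit 76) (nat_lit 12555804512) (nat_lit 76) (nat_lit 8540137911) (nat_lit 56) (nat_lit 4) (nat_lit 57) (nat_lit 5) (nat_lit 57) (nat_lit 4) (nat_lit 484) (nat_lit 296) (nat_lit 240)) (XT.lf (nat_lit 0) (nat_lit 6075082586) (nat_lit 152) (nat_lit 30316421521) (nat_lit 0) (nat_lit 2149561349) (nat_lit 54) (nat_lit 5) (nat_lit 56) (nat_lit 4) (nat_lit 54) (nat_lit 4) (nat_lit 485) (nat_lit 296) (nat_lit 239))) (XT.nd (nat_lit 78) (nat_lit 76) (nat_lit 0) (XT.lf (nat_lit 0) (nat_lit 21175597968) (nat_lit 152) (nat_lit 845772144) (nat_lit 0) (nat_lit 17224041977) (nat_lit 54) (nat_lit 5) (nat_lit 56) (nat_lit 4) (nat_lit 54) (nat_lit 4) (nat_lit 486) (nat_lit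 296) (nat_lit 238)) (XT.lf (nat_lit 0) (nat_lit 29854701774) (nat_lit 76) (nat_lit 7043966803) (nat_lit 76) (nat_lit 3067134351) (nat_lit 53) (nat_lit 4) (nat_lit 54) (nat_lit 5) (nat_lit 54) (nat_lit 4) (nat_lit 487) (nat_lit 296) (nat_lit 237))))) (XT.nd (nat_lit 312) (nat_lit 304) (nat_lit 0) (XT.nd (nat_lit 156) (nat_lit 152) (nat_lit 0) (XT.nd (nat_lit 78) (nat_lit 76) (nat_lit 0) (XT.lf (nat_lit 0) (nat_lit 12318108627) (nat_lit 152) (nat_lit 19947619233) (nat_lit 0) (nat_lit 8433280757) (nat_lit 51) (nat_lit 5) (nat_lit 53) (nat_lit 4) (nat_lit 51) (nat_lit 4) (nat_lit 488) (nat_lit 296) (nat_lit 236)) (XT.lf (nat_lit 0) (nat_lit 11175925820) (nat_lit 76) (nat_lit 17090223222) (nat_lit 76) (nat_lit 13182263809) (nat_lit 50) (nat_lit 4) (nat_lit 51) (nat_lit 5) (nat_lit 51) (nat_lit 4) (nat_lit 489) (nat_lit 296) (nat_lit 235))) (XT.nd (nat_lit 78) (nat_lit 0) (nat_lit 0) (XT.lf (nat_lit 0) (nat_lit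 1188331949) (nat_lit 76) (nat_lit 1333219366) (nat_lit 152) (nat_lit 39695111012) (nat_lit 48) (nat_lit 5) (nat_lit 49) (nat_lit 5) (nat_lit 50) (nat_lit 4) (nat_lit 490) (nat_lit 296) (nat_lit 234)) (XT.lf (nat_lit 0) (nat_lit 18766084758) (nat_lit 152) (nat_lit 9298945307) (nat_lit 0) (nat_lit 14928977069) (nat_lit 48) (nat_lit 5) (nat_lit 50) (nat_lit 4) (nat_lit 48) (nat_lit 4) (nat_lit 491) (nat_lit 296) (nat_lit 233)))) (XT.nd (nat_lit 156) (nat_lit 76) (nat_lit 0) (XT.nd (nat_lit 78) (nat_lit 152) (nat_lit 0) (XT.lf (nat_lit 0) (nat_lit 23599585232) (nat_lit 76) (nat_lit 12024481717) (nat_lit 76) (nat_lit 8166821953) (nat_lit 47) (nat_lit 4) (nat_lit 48) (nat_lit 5) (nat_lit 48) (nat_lit 4) (nat_lit 492) (nat_lit 296) (nat_lit 232)) (XT.lf (nat_lit 0) (nat_lit 8363705897) (nat_lit 152) (nat_lit 31641991611) (nat_lit 0) (nat_lit 4599032851) (nat_lit 45) (nat_lit 5) (nat_lit 47) (nat_lit 4) (nat_lit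 45) (nat_lit 4) (nat_lit 493) (nat_lit 296) (nat_lit 231))) (XT.nd (nat_lit 78) (nat_lit 0) (nat_lit 0) (XT.lf (nat_lit 0) (nat_lit 1689383555) (nat_lit 76) (nat_lit 23763919927) (nat_lit 76) (nat_lit 19980438821) (nat_lit 44) (nat_lit 4) (nat_lit 45) (nat_lit 5) (nat_lit 45) (nat_lit 4) (nat_lit 494) (nat_lit 296) (nat_lit 230)) (XT.lf (nat_lit 0) (nat_lit 36441501653) (nat_lit 76) (nat_lit 6820831001) (nat_lit 76) (nat_lit 3019089641) (nat_lit 44) (nat_lit 4) (nat_lit 45) (nat_lit 5) (nat_lit 45) (nat_lit 4) (nat_lit 495) (nat_lit 296) (nat_lit 229))))))))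
noncomputable def xc20 : XT := (XT.nd (nat_lit 49920) (nat_lit 0) (nat_lit 1064) (XT.nd (nat_lit 48750) (nat_lit 0) (nat_lit 3876) (XT.nd (nat_lit 48126) (nat_lit 0) (nat_lit 5396) (XT.nd (nat_lit 47814) (nat_lit 0) (nat_lit 6460) (XT.nd (nat_lit 47658) (nat_lit 0) (nat_lit 7068) (XT.lf (nat_lit 0) (nat_lit 14405753567) (nat_lit 152) (nat_lit 22039981840) (nat_lit 0) (nat_lit 10697530498) (nat_lit 42) (nat_lit 5) (nat_lit 44) (nat_lit 4) (nat_lit 42) (nat_lit 4) (nat_lit 496) (nat_lit 296) (nat_lit 228)) (XT.nd (nat_lit 78) (nat_lit 152) (nat_lit 0) (XT.lf (nat_lit 0) (nat_lit 3148966804) (nat_lit 152) (nat_lit 1040774075) (nat_lit 0) (nat_lit 3148966804) (nat_lit 137) (nat_lit 5) (nat_lit 139) (nat_lit 4) (nat_lit 137) (nat_lit 4) (nat_lit 426) (nat_lit 297) (nat_lit 297)) (XT.lf (nat_lit 0) (nat_lit 12453138297) (nat_lit 152) (nat_lit 1373290580) (nat_lit 152) (nat_lit 1061487520) (nat_lit 135) (nat_lit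 4) (nat_lit 137) (nat_lit 5) (nat_lit 137) (nat_lit 4) (nat_lit 427) (nat_lit 297) (nat_lit 296)))) (XT.nd (nat_lit 156) (nat_lit 304) (nat_lit 0) (XT.nd (nat_lit 78) (nat_lit 152) (nat_lit 0) (XT.lf (nat_lit 0) (nat_lit 6395643485) (nat_lit 152) (nat_lit 2906824602) (nat_lit 0) (nat_lit 5799017779) (nat_lit 133) (nat_lit 5) (nat_lit 135) (nat_lit 4) (nat_lit 133) (nat_lit 4) (nat_lit 428) (nat_lit 297) (nat_lit 295)) (XT.lf (nat_lit 0) (nat_lit 11914099314) (nat_lit 152) (nat_lit 2144457693) (nat_lit 152) (nat_lit 1262488017) (nat_lit 131) (nat_lit 4) (nat_lit 133) (nat_lit 5) (nat_lit 133) (nat_lit 4) (nat_lit 429) (nat_lit 297) (nat_lit 294))) (XT.nd (nat_lit 78) (nat_lit 152) (nat_lit 0) (XT.lf (nat_lit 0) (nat_lit 6321627980) (nat_lit 152) (nat_lit 4026060591) (nat_lit 0) (nat_lit 5196382682) (nat_lit 129) (nat_lit 5) (nat_lit 131) (nat_lit 4) (nat_lit 129) (nat_lit 4) (nat_lit 430) (nat_lit 297)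 (nat_lit 293)) (XT.lf (nat_lit 0) (nat_lit 11083307338) (nat_lit 152) (nat_lit 3038038889) (nat_lit 152) (nat_lit 1651663438) (nat_lit 127) (nat_lit 4) (nat_lit 129) (nat_lit 5) (nat_lit 129) (nat_lit 4) (nat_lit 431) (nat_lit 297) (nat_lit 292))))) (XT.nd (nat_lit 312) (nat_lit 456) (nat_lit 0) (XT.nd (nat_lit 156) (nat_lit 304) (nat_lit 0) (XT.nd (nat_lit 78) (nat_lit 152) (nat_lit 0) (XT.lf (nat_lit 0) (nat_lit 6064006107) (nat_lit 152) (nat_lit 5470036326) (nat_lit 0) (nat_lit 4471870308) (nat_lit 125) (nat_lit 5) (nat_lit 127) (nat_lit 4) (nat_lit 125) (nat_lit 4) (nat_lit 432) (nat_lit 297) (nat_lit 291)) (XT.lf (nat_lit 0) (nat_lit 9929698087) (nat_lit 152) (nat_lit 4072989475) (nat_lit 152) (nat_lit 2241882594) (nat_lit 123) (nat_lit 4) (nat_lit 125) (nat_lit 5) (nat_lit 125) (nat_lit 4) (nat_lit 433) (nat_lit 297) (nat_lit 290))) (XT.nd (nat_lit 78) (nat_lit 152) (nat_lit 0) (XT.lf (nat_lit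 0) (nat_lit 5609737099) (nat_lit 152) (nat_lit 7271350988) (nat_lit 0) (nat_lit 3606710264) (nat_lit 121) (nat_lit 5) (nat_lit 123) (nat_lit 4) (nat_lit 121) (nat_lit 4) (nat_lit 434) (nat_lit 297) (nat_lit 289)) (XT.lf (nat_lit 0) (nat_lit 8420354593) (nat_lit 152) (nat_lit 5268949190) (nat_lit 152) (nat_lit 3047229962) (nat_lit 119) (nat_lit 4) (nat_lit 121) (nat_lit 5) (nat_lit 121) (nat_lit 4) (nat_lit 435) (nat_lit 297) (nat_lit 288)))) (XT.nd (nat_lit 156) (nat_lit 228) (nat_lit 0) (XT.nd (nat_lit 78) (nat_lit 76) (nat_lit 0) (XT.lf (nat_lit 0) (nat_lit 4944571888) (nat_lit 152) (nat_lit 9464568451) (nat_lit 0) (nat_lit 2581424374) (nat_lit 117) (nat_lit 5) (nat_lit 119) (nat_lit 4) (nat_lit 117) (nat_lit 4) (nat_lit 436) (nat_lit 297) (nat_lit 287)) (XT.lf (nat_lit 0) (nat_lit 6520359287) (nat_lit 76) (nat_lit 6646339854) (nat_lit 76) (nat_lit 4083057821) (nat_lit 116) (nat_lit 4) (nat_lit 117)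 (nat_lit 5) (nat_lit 117) (nat_lit 4) (nat_lit 437) (nat_lit 297) (nat_lit 286))) (XT.nd (nat_lit 78) (nat_lit 76) (nat_lit 0) (XT.lf (nat_lit 0) (nat_lit 4052999257) (nat_lit 152) (nat_lit 12086369835) (nat_lit 0) (nat_lit 1375729944) (nat_lit 114) (nat_lit 5) (nat_lit 116) (nat_lit 4) (nat_lit 114) (nat_lit 4) (nat_lit 438) (nat_lit 297) (nat_lit 285)) (XT.lf (nat_lit 0) (nat_lit 4192639070) (nat_lit 76) (nat_lit 8226464665) (nat_lit 76) (nat_lit 5366043916) (nat_lit 113) (nat_lit 4) (nat_lit 114) (nat_lit 5) (nat_lit 114) (nat_lit 4) (nat_lit 439) (nat_lit 297) (nat_lit 284)))))) (XT.nd (nat_lit 546) (nat_lit 836) (nat_lit 0) (XT.nd (nat_lit 234) (nat_lit 380) (nat_lit 0) (XT.nd (nat_lit 78) (nat_lit 152) (nat_lit 0) (XT.lf (nat_lit 0) (nat_lit 2886309052) (nat_lit 76) (nat_lit 32186873) (nat_lit 152) (nat_lit 15143836056) (nat_lit 111) (nat_lit 5) (nat_lit 112) (nat_lit 5) (nat_lit 113) (nat_lit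 4) (nat_lit 440) (nat_lit 297) (nat_lit 283)) (XT.nd (nat_lit 78) (nat_lit 76) (nat_lit 0) (XT.lf (nat_lit 0) (nat_lit 1397802747) (nat_lit 76) (nat_lit 10031609634) (nat_lit 76) (nat_lit 6914254807) (nat_lit 110) (nat_lit 4) (nat_lit 111) (nat_lit 5) (nat_lit 111) (nat_lit 4) (nat_lit 441) (nat_lit 297) (nat_lit 282)) (XT.lf (nat_lit 0) (nat_lit 1539728959) (nat_lit 152) (nat_lit 154432716) (nat_lit 76) (nat_lit 16938590283) (nat_lit 109) (nat_lit 5) (nat_lit 111) (nat_lit 5) (nat_lit 110) (nat_lit 4) (nat_lit 442) (nat_lit 297) (nat_lit 281)))) (XT.nd (nat_lit 156) (nat_lit 228) (nat_lit 0) (XT.nd (nat_lit 78) (nat_lit 76) (nat_lit 0) (XT.lf (nat_lit 0) (nat_lit 10197439739) (nat_lit 152) (nat_lit 1868836304) (nat_lit 0) (nat_lit 6859507173) (nat_lit 108) (nat_lit 5) (nat_lit 110) (nat_lit 4) (nat_lit 108) (nat_lit 4) (nat_lit 443) (nat_lit 297) (nat_lit 280)) (XT.lf (nat_lit 0) (nat_lit 15566804203)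 (nat_lit 76) (nat_lit 3573445805) (nat_lit 76) (nat_lit 86594361) (nat_lit 107) (nat_lit 4) (nat_lit 108) (nat_lit 5) (nat_lit 108) (nat_lit 4) (nat_lit 444) (nat_lit 297) (nat_lit 279))) (XT.nd (nat_lit 78) (nat_lit 76) (nat_lit 0) (XT.lf (nat_lit 0) (nat_lit 8703639415) (nat_lit 152) (nat_lit 5650942638) (nat_lit 0) (nat_lit 5177976426) (nat_lit 105) (nat_lit 5) (nat_lit 107) (nat_lit 4) (nat_lit 105) (nat_lit 4) (nat_lit 445) (nat_lit 297) (nat_lit 278)) (XT.lf (nat_lit 0) (nat_lit 12096965023) (nat_lit 76) (nat_lit 5705499690) (nat_lit 76) (nat_lit 2043554832) (nat_lit 104) (nat_lit 4) (nat_lit 105) (nat_lit 5) (nat_lit 105) (nat_lit 4) (nat_lit 446) (nat_lit 297) (nat_lit 277))))) (XT.nd (nat_lit 312) (nat_lit 380) (nat_lit 0) (XT.nd (nat_lit 156) (nat_lit 228) (nat_lit 0) (XT.nd (nat_lit 78) (nat_lit 76) (nat_lit 0) (XT.lf (nat_lit 0) (nat_lit 6913495052) (nat_lit 152) (nat_lit 10022274400) (nat_lit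 0) (nat_lit 3229750050) (nat_lit 102) (nat_lit 5) (nat_lit 104) (nat_lit 4) (nat_lit 102) (nat_lit 4) (nat_lit 447) (nat_lit 297) (nat_lit 276)) (XT.lf (nat_lit 0) (nat_lit 8037311263) (nat_lit 76) (nat_lit 8131514566) (nat_lit 76) (nat_lit 4323052348) (nat_lit 101) (nat_lit 4) (nat_lit 102) (nat_lit 5) (nat_lit 102) (nat_lit 4) (nat_lit 448) (nat_lit 297) (nat_lit 275))) (XT.nd (nat_lit 78) (nat_lit 76) (nat_lit 0) (XT.lf (nat_lit 0) (nat_lit 4804317622) (nat_lit 152) (nat_lit 15032311927) (nat_lit 0) (nat_lit 989223551) (nat_lit 99) (nat_lit 5) (nat_lit 101) (nat_lit 4) (nat_lit 99) (nat_lit 4) (nat_lit 449) (nat_lit 297) (nat_lit 274)) (XT.lf (nat_lit 0) (nat_lit 3337753416) (nat_lit 76) (nat_lit 10878553575) (nat_lit 76) (nat_lit 6949325584) (nat_lit 98) (nat_lit 4) (nat_lit 99) (nat_lit 5) (nat_lit 99) (nat_lit 4) (nat_lit 450) (nat_lit 297) (nat_lit 273)))) (XT.nd (nat_lit 156) (nat_lit 228) (nat_lit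 0) (XT.nd (nat_lit 78) (nat_lit 0) (nat_lit 0) (XT.lf (nat_lit 0) (nat_lit 765211370) (nat_lit 76) (nat_lit 1601906359) (nat_lit 152) (nat_lit 19147232929) (nat_lit 96) (nat_lit 5) (nat_lit 97) (nat_lit 5) (nat_lit 98) (nat_lit 4) (nat_lit 451) (nat_lit 297) (nat_lit 272)) (XT.lf (nat_lit 0) (nat_lit 11939913875) (nat_lit 152) (nat_lit 2014957683) (nat_lit 0) (nat_lit 7913098547) (nat_lit 96) (nat_lit 5) (nat_lit 98) (nat_lit 4) (nat_lit 96) (nat_lit 4) (nat_lit 452) (nat_lit 297) (nat_lit 271))) (XT.nd (nat_lit 78) (nat_lit 152) (nat_lit 0) (XT.lf (nat_lit 0) (nat_lit 17330422511) (nat_lit 76) (nat_lit 4514325913) (nat_lit 76) (nat_lit 386104075) (nat_lit 95) (nat_lit 4) (nat_lit 96) (nat_lit 5) (nat_lit 96) (nat_lit 4) (nat_lit 453) (nat_lit 297) (nat_lit 270)) (XT.lf (nat_lit 0) (nat_lit 9332616922) (nat_lit 152) (nat_lit 8037989555) (nat_lit 0) (nat_lit 5229049195) (nat_lit 93) (nat_lit 5) (nat_lit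 95) (nat_lit 4) (nat_lit 93) (nat_lit 4) (nat_lit 454) (nat_lit 297) (nat_lit 269))))))) (XT.nd (nat_lit 1170) (nat_lit 1368) (nat_lit 0) (XT.nd (nat_lit 546) (nat_lit 760) (nat_lit 0) (XT.nd (nat_lit 234) (nat_lit 380) (nat_lit 0) (XT.nd (nat_lit 78) (nat_lit 228) (nat_lit 0) (XT.lf (nat_lit 0) (nat_lit 11634749205) (nat_lit 76) (nat_lit 7769477735) (nat_lit 76) (nat_lit 3573108686) (nat_lit 92) (nat_lit 4) (nat_lit 93) (nat_lit 5) (nat_lit 93) (nat_lit 4) (nat_lit 455) (nat_lit 297) (nat_lit 268)) (XT.nd (nat_lit 78) (nat_lit 76) (nat_lit 0) (XT.lf (nat_lit 0) (nat_lit 6334416804) (nat_lit 152) (nat_lit 14855845493) (nat_lit 0) (nat_lit 2172797951) (nat_lit 90) (nat_lit 5) (nat_lit 92) (nat_lit 4) (nat_lit 90) (nat_lit 4) (nat_lit 456) (nat_lit 297) (nat_lit 267)) (XT.lf (nat_lit 0) (nat_lit 5141517447) (nat_lit 76) (nat_lit 11430590193) (nat_lit 76) (nat_lit 7184044984) (nat_lit 89) (nat_lit 4) (nat_lit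 90) (nat_lit 5) (nat_lit 90) (nat_lit 4) (nat_lit 457) (nat_lit 297) (nat_lit 266)))) (XT.nd (nat_lit 156) (nat_lit 228) (nat_lit 0) (XT.nd (nat_lit 78) (nat_lit 0) (nat_lit 0) (XT.lf (nat_lit 0) (nat_lit 1614880914) (nat_lit 76) (nat_lit 1313138245) (nat_lit 152) (nat_lit 21231271963) (nat_lit 87) (nat_lit 5) (nat_lit 88) (nat_lit 5) (nat_lit 89) (nat_lit 4) (nat_lit 458) (nat_lit 297) (nat_lit 265)) (XT.lf (nat_lit 0) (nat_lit 13339315080) (nat_lit 152) (nat_lit 2170182186) (nat_lit 0) (nat_lit 9058684773) (nat_lit 87) (nat_lit 5) (nat_lit 89) (nat_lit 4) (nat_lit 87) (nat_lit 4) (nat_lit 459) (nat_lit 297) (nat_lit 264))) (XT.nd (nat_lit 78) (nat_lit 152) (nat_lit 0) (XT.lf (nat_lit 0) (nat_lit 18905534491) (nat_lit 76) (nat_lit 5219021639) (nat_lit 76) (nat_lit 862935365) (nat_lit 86) (nat_lit 4) (nat_lit 87) (nat_lit 5) (nat_lit 87) (nat_lit 4) (nat_lit 460) (nat_lit 297) (nat_lit 263)) (XT.lf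 (nat_lit 0) (nat_lit 9710430298) (nat_lit 152) (nat_lit 10293385099) (nat_lit 0) (nat_lit 5410095838) (nat_lit 84) (nat_lit 5) (nat_lit 86) (nat_lit 4) (nat_lit 84) (nat_lit 4) (nat_lit 461) (nat_lit 297) (nat_lit 262))))) (XT.nd (nat_lit 312) (nat_lit 380) (nat_lit 0) (XT.nd (nat_lit 156) (nat_lit 152) (nat_lit 0) (XT.nd (nat_lit 78) (nat_lit 152) (nat_lit 0) (XT.lf (nat_lit 0) (nat_lit 11122918990) (nat_lit 76) (nat_lit 9548353513) (nat_lit 76) (nat_lit 5178966155) (nat_lit 83) (nat_lit 4) (nat_lit 84) (nat_lit 5) (nat_lit 84) (nat_lit 4) (nat_lit 462) (nat_lit 297) (nat_lit 261)) (XT.lf (nat_lit 0) (nat_lit 5601940702) (nat_lit 152) (nat_lit 19399820674) (nat_lit 0) (nat_lit 1294728074) (nat_lit 81) (nat_lit 5) (nat_lit 83) (nat_lit 4) (nat_lit 81) (nat_lit 4) (nat_lit 463) (nat_lit 297) (nat_lit 260))) (XT.nd (nat_lit 78) (nat_lit 76) (nat_lit 0) (XT.lf (nat_lit 0) (nat_lit 2352322669) (nat_lit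 76) (nat_lit 14384319411) (nat_lit 76) (nat_lit 10013913599) (nat_lit 80) (nat_lit 4) (nat_lit 81) (nat_lit 5) (nat_lit 81) (nat_lit 4) (nat_lit 464) (nat_lit 297) (nat_lit 259)) (XT.lf (nat_lit 0) (nat_lit 1032874476) (nat_lit 152) (nat_lit 2335023230) (nat_lit 76) (nat_lit 23848111621) (nat_lit 79) (nat_lit 5) (nat_lit 81) (nat_lit 5) (nat_lit 80) (nat_lit 4) (nat_lit 465) (nat_lit 297) (nat_lit 258)))) (XT.nd (nat_lit 156) (nat_lit 228) (nat_lit 0) (XT.nd (nat_lit 78) (nat_lit 76) (nat_lit 0) (XT.lf (nat_lit 0) (nat_lit 12355605214) (nat_lit 152) (nat_lit 7337376256) (nat_lit 0) (nat_lit 7995096423) (nat_lit 78) (nat_lit 5) (nat_lit 80) (nat_lit 4) (nat_lit 78) (nat_lit 4) (nat_lit 466) (nat_lit 297) (nat_lit 257)) (XT.lf (nat_lit 0) (nat_lit 15603913996) (nat_lit 76) (nat_lit 8492351110) (nat_lit 76) (nat_lit 4075695992) (nat_lit 77) (nat_lit 4) (nat_lit 78) (nat_lit 5) (nat_lit 78) (nat_lit 4)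 (nat_lit 467) (nat_lit 297) (nat_lit 256))) (XT.nd (nat_lit 78) (nat_lit 76) (nat_lit 0) (XT.lf (nat_lit 0) (nat_lit 7450311779) (nat_lit 152) (nat_lit 18106159570) (nat_lit 0) (nat_lit 3109373806) (nat_lit 75) (nat_lit 5) (nat_lit 77) (nat_lit 4) (nat_lit 75) (nat_lit 4) (nat_lit 468) (nat_lit 297) (nat_lit 255)) (XT.lf (nat_lit 0) (nat_lit 5185281237) (nat_lit 76) (nat_lit 14188187557) (nat_lit 76) (nat_lit 9795867742) (nat_lit 74) (nat_lit 4) (nat_lit 75) (nat_lit 5) (nat_lit 75) (nat_lit 4) (nat_lit 469) (nat_lit 297) (nat_lit 254)))))) (XT.nd (nat_lit 624) (nat_lit 684) (nat_lit 0) (XT.nd (nat_lit 312) (nat_lit 304) (nat_lit 0) (XT.nd (nat_lit 156) (nat_lit 228) (nat_lit 0) (XT.nd (nat_lit 78) (nat_lit 76) (nat_lit 0) (XT.lf (nat_lit 0) (nat_lit 1983884094) (nat_lit 152) (nat_lit 414920386) (nat_lit 76) (nat_lit 27286885090) (nat_lit 73) (nat_lit 5) (nat_lit 75) (nat_lit 5) (nat_lit 74) (nat_lit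 4) (nat_lit 470) (nat_lit 297) (nat_lit 253)) (XT.lf (nat_lit 0) (nat_lit 14121337540) (nat_lit 152) (nat_lit 6325754709) (nat_lit 0) (nat_lit 9761495392) (nat_lit 72) (nat_lit 5) (nat_lit 74) (nat_lit 4) (nat_lit 72) (nat_lit 4) (nat_lit 471) (nat_lit 297) (nat_lit 252))) (XT.nd (nat_lit 78) (nat_lit 152) (nat_lit 0) (XT.lf (nat_lit 0) (nat_lit 18252441860) (nat_lit 76) (nat_lit 8448935579) (nat_lit 76) (nat_lit 4043441331) (nat_lit 71) (nat_lit 4) (nat_lit 72) (nat_lit 5) (nat_lit 72) (nat_lit 4) (nat_lit 472) (nat_lit 297) (nat_lit 251)) (XT.lf (nat_lit 0) (nat_lit 8295389809) (nat_lit 152) (nat_lit 19021250012) (nat_lit 0) (nat_lit 3975179444) (nat_lit 69) (nat_lit 5) (nat_lit 71) (nat_lit 4) (nat_lit 69) (nat_lit 4) (nat_lit 473) (nat_lit 297) (nat_lit 250)))) (XT.nd (nat_lit 156) (nat_lit 152) (nat_lit 0) (XT.nd (nat_lit 78) (nat_lit 76) (nat_lit 0) (XT.lf (nat_lit 0) (nat_lit 5920644957) (nat_lit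 76) (nat_lit 15145540125) (nat_lit 76) (nat_lit 10783551620) (nat_lit 68) (nat_lit 4) (nat_lit 69) (nat_lit 5) (nat_lit 69) (nat_lit 4) (nat_lit 474) (nat_lit 297) (nat_lit 249)) (XT.lf (nat_lit 0) (nat_lit 1829780442) (nat_lit 152) (nat_lit 688095506) (nat_lit 76) (nat_lit 29903924607) (nat_lit 67) (nat_lit 5) (nat_lit 69) (nat_lit 5) (nat_lit 68) (nat_lit 4) (nat_lit 475) (nat_lit 297) (nat_lit 248))) (XT.nd (nat_lit 78) (nat_lit 76) (nat_lit 0) (XT.lf (nat_lit 0) (nat_lit 14831368548) (nat_lit 152) (nat_lit 7650841466) (nat_lit 0) (nat_lit 10518815433) (nat_lit 66) (nat_lit 5) (nat_lit 68) (nat_lit 4) (nat_lit 66) (nat_lit 4) (nat_lit 476) (nat_lit 297) (nat_lit 247)) (XT.lf (nat_lit 0) (nat_lit 18682104447) (nat_lit 76) (nat_lit 9631242405) (nat_lit 76) (nat_lit 5281569955) (nat_lit 65) (nat_lit 4) (nat_lit 66) (nat_lit 5) (nat_lit 66) (nat_lit 4) (nat_lit 477) (nat_lit 297) (nat_lit 246))))) (XT.nd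 (nat_lit 312) (nat_lit 304) (nat_lit 0) (XT.nd (nat_lit 156) (nat_lit 152) (nat_lit 0) (XT.nd (nat_lit 78) (nat_lit 76) (nat_lit 0) (XT.lf (nat_lit 0) (nat_lit 7942281723) (nat_lit 152) (nat_lit 22574574980) (nat_lit 0) (nat_lit 3684310227) (nat_lit 63) (nat_lit 5) (nat_lit 65) (nat_lit 4) (nat_lit 63) (nat_lit 4) (nat_lit 478) (nat_lit 297) (nat_lit 245)) (XT.lf (nat_lit 0) (nat_lit 4134511937) (nat_lit 76) (nat_lit 17488241509) (nat_lit 76) (nat_lit 13196300564) (nat_lit 62) (nat_lit 4) (nat_lit 63) (nat_lit 5) (nat_lit 63) (nat_lit 4) (nat_lit 479) (nat_lit 297) (nat_lit 244))) (XT.nd (nat_lit 78) (nat_lit 76) (nat_lit 0) (XT.lf (nat_lit 0) (nat_lit 362235178) (nat_lit 152) (nat_lit 3589583582) (nat_lit 76) (nat_lit 31500311157) (nat_lit 61) (nat_lit 5) (nat_lit 63) (nat_lit 5) (nat_lit 62) (nat_lit 4) (nat_lit 480) (nat_lit 297) (nat_lit 243)) (XT.lf (nat_lit 0) (nat_lit 14278038907) (nat_lit 152)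 (nat_lit 11767767541) (nat_lit 0) (nat_lit 10047999626) (nat_lit 60) (nat_lit 5) (nat_lit 62) (nat_lit 4) (nat_lit 60) (nat_lit 4) (nat_lit 481) (nat_lit 297) (nat_lit 242)))) (XT.nd (nat_lit 156) (nat_lit 76) (nat_lit 0) (XT.nd (nat_lit 78) (nat_lit 152) (nat_lit 0) (XT.lf (nat_lit 0) (nat_lit 16443687826) (nat_lit 76) (nat_lit 12283888795) (nat_lit 76) (nat_lit 8023668097) (nat_lit 59) (nat_lit 4) (nat_lit 60) (nat_lit 5) (nat_lit 60) (nat_lit 4) (nat_lit 482) (nat_lit 297) (nat_lit 241)) (XT.lf (nat_lit 0) (nat_lit 6162259413) (nat_lit 152) (nat_lit 29263669294) (nat_lit 0) (nat_lit 1997673933) (nat_lit 57) (nat_lit 5) (nat_lit 59) (nat_lit 4) (nat_lit 57) (nat_lit 4) (nat_lit 483) (nat_lit 297) (nat_lit 240))) (XT.nd (nat_lit 78) (nat_lit 76) (nat_lit 0) (XT.lf (nat_lit 0) (nat_lit 20823727494) (nat_lit 152) (nat_lit 652161881) (nat_lit 0) (nat_lit 16631521743) (nat_lit 57) (nat_lit 5) (nat_lit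 59) (nat_lit 4) (nat_lit 57) (nat_lit 4) (nat_lit 484) (nat_lit 297) (nat_lit 239)) (XT.lf (nat_lit 0) (nat_lit 29156720482) (nat_lit 76) (nat_lit 6934524379) (nat_lit 76) (nat_lit 2715502830) (nat_lit 56) (nat_lit 4) (nat_lit 57) (nat_lit 5) (nat_lit 57) (nat_lit 4) (nat_lit 485) (nat_lit 297) (nat_lit 238))))))))
noncomputable def xc21 : XT := (XT.nd (nat_lit 49764) (nat_lit 0) (nat_lit 2128) (XT.nd (nat_lit 48594) (nat_lit 0) (nat_lit 5092) (XT.nd (nat_lit 546) (nat_lit 380) (nat_lit 0) (XT.nd (nat_lit 234) (nat_lit 304) (nat_lit 0) (XT.nd (nat_lit 78) (nat_lit 228) (nat_lit 0) (XT.lf (nat_lit 0) (nat_lit 12217944930) (nat_lit 152) (nat_lit 19204003151) (nat_lit 0) (nat_lit 8096531042) (nat_lit 54) (nat_lit 5) (nat_lit 56) (nat_lit 4) (nat_lit 54) (nat_lit 4) (nat_lit 486) (nat_lit 297) (nat_lit 237)) (XT.nd (nat_lit 78) (nat_lit 152) (nat_lit 0) (XT.lf (nat_lit 0) (nat_lit 11015566333) (nat_lit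 76) (nat_lit 16688187806) (nat_lit 76) (nat_lit 12542233665) (nat_lit 53) (nat_lit 4) (nat_lit 54) (nat_lit 5) (nat_lit 54) (nat_lit 4) (nat_lit 487) (nat_lit 297) (nat_lit 236)) (XT.lf (nat_lit 0) (nat_lit 1314062976) (nat_lit 76) (nat_lit 1387337322) (nat_lit 152) (nat_lit 38290320679) (nat_lit 51) (nat_lit 5) (nat_lit 52) (nat_lit 5) (nat_lit 53) (nat_lit 4) (nat_lit 488) (nat_lit 297) (nat_lit 235)))) (XT.nd (nat_lit 156) (nat_lit 228) (nat_lit 0) (XT.nd (nat_lit 78) (nat_lit 76) (nat_lit 0) (XT.lf (nat_lit 0) (nat_lit 18472527456) (nat_lit 152) (nat_lit 8872165243) (nat_lit 0) (nat_lit 14401739909) (nat_lit 51) (nat_lit 5) (nat_lit 53) (nat_lit 4) (nat_lit 51) (nat_lit 4) (nat_lit 489) (nat_lit 297) (nat_lit 234)) (XT.lf (nat_lit 0) (nat_lit 23070636332) (nat_lit 76) (nat_lit 11770997569) (nat_lit 76) (nat_lit 7678406324) (nat_lit 50) (nat_lit 4) (nat_lit 51) (nat_lit 5) (nat_lit 51) (nat_lit 4)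 (nat_lit 490) (nat_lit 297) (nat_lit 233))) (XT.nd (nat_lit 78) (nat_lit 76) (nat_lit 0) (XT.lf (nat_lit 0) (nat_lit 8366929198) (nat_lit 152) (nat_lit 30570153495) (nat_lit 0) (nat_lit 4372987564) (nat_lit 48) (nat_lit 5) (nat_lit 50) (nat_lit 4) (nat_lit 48) (nat_lit 4) (nat_lit 491) (nat_lit 297) (nat_lit 232)) (XT.lf (nat_lit 0) (nat_lit 1792824785) (nat_lit 76) (nat_lit 23167972879) (nat_lit 76) (nat_lit 19154077773) (nat_lit 47) (nat_lit 4) (nat_lit 48) (nat_lit 5) (nat_lit 48) (nat_lit 4) (nat_lit 492) (nat_lit 297) (nat_lit 231))))) (XT.nd (nat_lit 47736) (nat_lit 0) (nat_lit 7068) (XT.nd (nat_lit 156) (nat_lit 228) (nat_lit 0) (XT.nd (nat_lit 78) (nat_lit 152) (nat_lit 0) (XT.lf (nat_lit 0) (nat_lit 35532191929) (nat_lit 76) (nat_lit 6719462542) (nat_lit 76) (nat_lit 2686195133) (nat_lit 47) (nat_lit 4) (nat_lit 48) (nat_lit 5) (nat_lit 48) (nat_lit 4) (nat_lit 493) (nat_lit 297) (nat_lit 230))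 (XT.lf (nat_lit 0) (nat_lit 14227386458) (nat_lit 152) (nat_lit 21253770125) (nat_lit 0) (nat_lit 10293332604) (nat_lit 45) (nat_lit 5) (nat_lit 47) (nat_lit 4) (nat_lit 45) (nat_lit 4) (nat_lit 494) (nat_lit 297) (nat_lit 229))) (XT.nd (nat_lit 78) (nat_lit 152) (nat_lit 0) (XT.lf (nat_lit 0) (nat_lit 12966394519) (nat_lit 76) (nat_lit 18807713079) (nat_lit 76) (nat_lit 14855930824) (nat_lit 44) (nat_lit 4) (nat_lit 45) (nat_lit 5) (nat_lit 45) (nat_lit 4) (nat_lit 495) (nat_lit 297) (nat_lit 228)) (XT.lf (nat_lit 0) (nat_lit 920526577) (nat_lit 76) (nat_lit 1488104394) (nat_lit 152) (nat_lit 45098402375) (nat_lit 42) (nat_lit 5) (nat_lit 43) (nat_lit 5) (nat_lit 44) (nat_lit 4) (nat_lit 496) (nat_lit 297) (nat_lit 227)))) (XT.nd (nat_lit 156) (nat_lit 304) (nat_lit 0) (XT.nd (nat_lit 78) (nat_lit 152) (nat_lit 0) (XT.lf (nat_lit 0) (nat_lit 3221055371) (nat_lit 152) (nat_lit 692390274) (nat_lit 0)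 (nat_lit 3221055371) (nat_lit 141) (nat_lit 5) (nat_lit 143) (nat_lit 4) (nat_lit 141) (nat_lit 4) (nat_lit 424) (nat_lit 298) (nat_lit 298)) (XT.lf (nat_lit 0) (nat_lit 12729777400) (nat_lit 152) (nat_lit 1036962065) (nat_lit 152) (nat_lit 706170198) (nat_lit 139) (nat_lit 4) (nat_lit 141) (nat_lit 5) (nat_lit 141) (nat_lit 4) (nat_lit 425) (nat_lit 298) (nat_lit 297))) (XT.nd (nat_lit 78) (nat_lit 152) (nat_lit 0) (XT.lf (nat_lit 0) (nat_lit 6545159317) (nat_lit 152) (nat_lit 2222274889) (nat_lit 0) (nat_lit 5912199105) (nat_lit 137) (nat_lit 5) (nat_lit 139) (nat_lit 4) (nat_lit 137) (nat_lit 4) (nat_lit 426) (nat_lit 298) (nat_lit 296)) (XT.lf (nat_lit 0) (nat_lit 12170263756) (nat_lit 152) (nat_lit 1828893566) (nat_lit 152) (nat_lit 893211936) (nat_lit 135) (nat_lit 4) (nat_lit 137) (nat_lit 5) (nat_lit 137) (nat_lit 4) (nat_lit 427) (nat_lit 298) (nat_lit 295)))))) (XT.nd (nat_lit 546) (nat_lit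 912) (nat_lit 0) (XT.nd (nat_lit 234) (nat_lit 608) (nat_lit 0) (XT.nd (nat_lit 78) (nat_lit 304) (nat_lit 0) (XT.lf (nat_lit 0) (nat_lit 6479741574) (nat_lit 152) (nat_lit 3342606605) (nat_lit 0) (nat_lit 5285968838) (nat_lit 133) (nat_lit 5) (nat_lit 135) (nat_lit 4) (nat_lit 133) (nat_lit 4) (nat_lit 428) (nat_lit 298) (nat_lit 294)) (XT.nd (nat_lit 78) (nat_lit 152) (nat_lit 0) (XT.lf (nat_lit 0) (nat_lit 11330037928) (nat_lit 152) (nat_lit 2735479053) (nat_lit 152) (nat_lit 1264673337) (nat_lit 131) (nat_lit 4) (nat_lit 133) (nat_lit 5) (nat_lit 133) (nat_lit 4) (nat_lit 429) (nat_lit 298) (nat_lit 293)) (XT.lf (nat_lit 0) (nat_lit 6234500980) (nat_lit 152) (nat_lit 4775861614) (nat_lit 0) (nat_lit 4545404112) (nat_lit 129) (nat_lit 5) (nat_lit 131) (nat_lit 4) (nat_lit 129) (nat_lit 4) (nat_lit 430) (nat_lit 298) (nat_lit 292)))) (XT.nd (nat_lit 156) (nat_lit 304) (nat_lit 0) (XT.nd (nat_lit 78)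 (nat_lit 152) (nat_lit 0) (XT.lf (nat_lit 0) (nat_lit 10178739947) (nat_lit 152) (nat_lit 3775493024) (nat_lit 152) (nat_lit 1832871734) (nat_lit 127) (nat_lit 4) (nat_lit 129) (nat_lit 5) (nat_lit 129) (nat_lit 4) (nat_lit 431) (nat_lit 298) (nat_lit 291)) (XT.lf (nat_lit 0) (nat_lit 5796938974) (nat_lit 152) (nat_lit 6553875104) (nat_lit 0) (nat_lit 3671927805) (nat_lit 125) (nat_lit 5) (nat_lit 127) (nat_lit 4) (nat_lit 125) (nat_lit 4) (nat_lit 432) (nat_lit 298) (nat_lit 290))) (XT.nd (nat_lit 78) (nat_lit 152) (nat_lit 0) (XT.lf (nat_lit 0) (nat_lit 8684227688) (nat_lit 152) (nat_lit 4968342523) (nat_lit 152) (nat_lit 2611320594) (nat_lit 123) (nat_lit 4) (nat_lit 125) (nat_lit 5) (nat_lit 125) (nat_lit 4) (nat_lit 433) (nat_lit 298) (nat_lit 289)) (XT.lf (nat_lit 0) (nat_lit 5153369245) (nat_lit 152) (nat_lit 8710374414) (nat_lit 0) (nat_lit 2646306047) (nat_lit 121) (nat_lit 5) (nat_lit 123)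 (nat_lit 4) (nat_lit 121) (nat_lit 4) (nat_lit 434) (nat_lit 298) (nat_lit 288))))) (XT.nd (nat_lit 312) (nat_lit 380) (nat_lit 0) (XT.nd (nat_lit 156) (nat_lit 228) (nat_lit 0) (XT.nd (nat_lit 78) (nat_lit 152) (nat_lit 0) (XT.lf (nat_lit 0) (nat_lit 6812431866) (nat_lit 152) (nat_lit 6334164663) (nat_lit 152) (nat_lit 3614778754) (nat_lit 119) (nat_lit 4) (nat_lit 121) (nat_lit 5) (nat_lit 121) (nat_lit 4) (nat_lit 435) (nat_lit 298) (nat_lit 287)) (XT.lf (nat_lit 0) (nat_lit 4288866718) (nat_lit 152) (nat_lit 11281128436) (nat_lit 0) (nat_lit 1448551704) (nat_lit 117) (nat_lit 5) (nat_lit 119) (nat_lit 4) (nat_lit 117) (nat_lit 4) (nat_lit 436) (nat_lit 298) (nat_lit 286))) (XT.nd (nat_lit 78) (nat_lit 152) (nat_lit 0) (XT.lf (nat_lit 0) (nat_lit 4527204343) (nat_lit 76) (nat_lit 7893925529) (nat_lit 76) (nat_lit 4859305157) (nat_lit 116) (nat_lit 4) (nat_lit 117) (nat_lit 5) (nat_lit 117) (nat_lit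 4) (nat_lit 437) (nat_lit 298) (nat_lit 285)) (XT.lf (nat_lit 0) (nat_lit 3187211130) (nat_lit 152) (nat_lit 14304104150) (nat_lit 0) (nat_lit 57826323) (nat_lit 114) (nat_lit 5) (nat_lit 116) (nat_lit 4) (nat_lit 114) (nat_lit 4) (nat_lit 438) (nat_lit 298) (nat_lit 284)))) (XT.nd (nat_lit 156) (nat_lit 152) (nat_lit 0) (XT.nd (nat_lit 78) (nat_lit 152) (nat_lit 0) (XT.lf (nat_lit 0) (nat_lit 1790159138) (nat_lit 76) (nat_lit 9669520940) (nat_lit 76) (nat_lit 6362319204) (nat_lit 113) (nat_lit 4) (nat_lit 114) (nat_lit 5) (nat_lit 114) (nat_lit 4) (nat_lit 439) (nat_lit 298) (nat_lit 283)) (XT.lf (nat_lit 0) (nat_lit 267536759) (nat_lit 76) (nat_lit 1578461412) (nat_lit 152) (nat_lit 16256342647) (nat_lit 111) (nat_lit 5) (nat_lit 112) (nat_lit 5) (nat_lit 113) (nat_lit 4) (nat_lit 440) (nat_lit 298) (nat_lit 282))) (XT.nd (nat_lit 78) (nat_lit 152) (nat_lit 0) (XT.lf (nat_lit 0) (nat_lit 10258222332)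 (nat_lit 152) (nat_lit 1411404790) (nat_lit 0) (nat_lit 6717009673) (nat_lit 111) (nat_lit 5) (nat_lit 113) (nat_lit 4) (nat_lit 111) (nat_lit 4) (nat_lit 441) (nat_lit 298) (nat_lit 281)) (XT.lf (nat_lit 0) (nat_lit 264942531) (nat_lit 152) (nat_lit 3161367358) (nat_lit 76) (nat_lit 15252291395) (nat_lit 109) (nat_lit 5) (nat_lit 111) (nat_lit 5) (nat_lit 110) (nat_lit 4) (nat_lit 442) (nat_lit 298) (nat_lit 280))))))) (XT.nd (nat_lit 1170) (nat_lit 1520) (nat_lit 0) (XT.nd (nat_lit 546) (nat_lit 684) (nat_lit 0) (XT.nd (nat_lit 234) (nat_lit 456) (nat_lit 0) (XT.nd (nat_lit 78) (nat_lit 228) (nat_lit 0) (XT.lf (nat_lit 0) (nat_lit 8805975909) (nat_lit 152) (nat_lit 5103556912) (nat_lit 0) (nat_lit 5065600044) (nat_lit 108) (nat_lit 5) (nat_lit 110) (nat_lit 4) (nat_lit 108) (nat_lit 4) (nat_lit 443) (nat_lit 298) (nat_lit 279)) (XT.nd (nat_lit 78) (nat_lit 152) (nat_lit 0) (XT.lf (nat_lit 0) (nat_lit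 12130910033) (nat_lit 76) (nat_lit 5516639196) (nat_lit 76) (nat_lit 1631681896) (nat_lit 107) (nat_lit 4) (nat_lit 108) (nat_lit 5) (nat_lit 108) (nat_lit 4) (nat_lit 444) (nat_lit 298) (nat_lit 278)) (XT.lf (nat_lit 0) (nat_lit 7065355321) (nat_lit 152) (nat_lit 9366465640) (nat_lit 0) (nat_lit 3157270248) (nat_lit 105) (nat_lit 5) (nat_lit 107) (nat_lit 4) (nat_lit 105) (nat_lit 4) (nat_lit 445) (nat_lit 298) (nat_lit 277)))) (XT.nd (nat_lit 156) (nat_lit 228) (nat_lit 0) (XT.nd (nat_lit 78) (nat_lit 152) (nat_lit 0) (XT.lf (nat_lit 0) (nat_lit 8170575655) (nat_lit 76) (nat_lit 7887774549) (nat_lit 76) (nat_lit 3847376982) (nat_lit 104) (nat_lit 4) (nat_lit 105) (nat_lit 5) (nat_lit 105) (nat_lit 4) (nat_lit 446) (nat_lit 298) (nat_lit 276)) (XT.lf (nat_lit 0) (nat_lit 5014412619) (nat_lit 152) (nat_lit 14248269170) (nat_lit 0) (nat_lit 966979318) (nat_lit 102) (nat_lit 5) (nat_lit 104) (nat_lit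 4) (nat_lit 102) (nat_lit 4) (nat_lit 447) (nat_lit 298) (nat_lit 275))) (XT.nd (nat_lit 78) (nat_lit 152) (nat_lit 0) (XT.lf (nat_lit 0) (nat_lit 3590177359) (nat_lit 76) (nat_lit 10568841074) (nat_lit 76) (nat_lit 6400323098) (nat_lit 101) (nat_lit 4) (nat_lit 102) (nat_lit 5) (nat_lit 102) (nat_lit 4) (nat_lit 448) (nat_lit 298) (nat_lit 274)) (XT.lf (nat_lit 0) (nat_lit 1082380031) (nat_lit 76) (nat_lit 1562179547) (nat_lit 152) (nat_lit 18253046587) (nat_lit 99) (nat_lit 5) (nat_lit 100) (nat_lit 5) (nat_lit 101) (nat_lit 4) (nat_lit 449) (nat_lit 298) (nat_lit 273))))) (XT.nd (nat_lit 312) (nat_lit 380) (nat_lit 0) (XT.nd (nat_lit 156) (nat_lit 228) (nat_lit 0) (XT.nd (nat_lit 78) (nat_lit 76) (nat_lit 0) (XT.lf (nat_lit 0) (nat_lit 11941573137) (nat_lit 152) (nat_lit 1629737022) (nat_lit 0) (nat_lit 7669524755) (nat_lit 99) (nat_lit 5) (nat_lit 101) (nat_lit 4) (nat_lit 99) (nat_lit 4) (nat_lit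 450) (nat_lit 298) (nat_lit 272)) (XT.lf (nat_lit 0) (nat_lit 17155611220) (nat_lit 76) (nat_lit 4408490852) (nat_lit 76) (nat_lit 28860304) (nat_lit 98) (nat_lit 4) (nat_lit 99) (nat_lit 5) (nat_lit 99) (nat_lit 4) (nat_lit 451) (nat_lit 298) (nat_lit 271))) (XT.nd (nat_lit 78) (nat_lit 76) (nat_lit 0) (XT.lf (nat_lit 0) (nat_lit 9405804674) (nat_lit 152) (nat_lit 7492616631) (nat_lit 0) (nat_lit 5052329671) (nat_lit 96) (nat_lit 5) (nat_lit 98) (nat_lit 4) (nat_lit 96) (nat_lit 4) (nat_lit 452) (nat_lit 298) (nat_lit 270)) (XT.lf (nat_lit 0) (nat_lit 11610512204) (nat_lit 76) (nat_lit 7579336404) (nat_lit 76) (nat_lit 3127408480) (nat_lit 95) (nat_lit 4) (nat_lit 96) (nat_lit 5) (nat_lit 96) (nat_lit 4) (nat_lit 453) (nat_lit 298) (nat_lit 269)))) (XT.nd (nat_lit 156) (nat_lit 152) (nat_lit 0) (XT.nd (nat_lit 78) (nat_lit 76) (nat_lit 0) (XT.lf (nat_lit 0) (nat_lit 6490157860) (nat_lit 152) (nat_lit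 14126235937) (nat_lit 0) (nat_lit 2075096418) (nat_lit 93) (nat_lit 5) (nat_lit 95) (nat_lit 4) (nat_lit 93) (nat_lit 4) (nat_lit 454) (nat_lit 298) (nat_lit 268)) (XT.lf (nat_lit 0) (nat_lit 5292015211) (nat_lit 76) (nat_lit 11143057808) (nat_lit 76) (nat_lit 6637897996) (nat_lit 92) (nat_lit 4) (nat_lit 93) (nat_lit 5) (nat_lit 93) (nat_lit 4) (nat_lit 455) (nat_lit 298) (nat_lit 267))) (XT.nd (nat_lit 78) (nat_lit 0) (nat_lit 0) (XT.lf (nat_lit 0) (nat_lit 1859351081) (nat_lit 76) (nat_lit 1318966672) (nat_lit 152) (nat_lit 20285795149) (nat_lit 90) (nat_lit 5) (nat_lit 91) (nat_lit 5) (nat_lit 92) (nat_lit 4) (nat_lit 456) (nat_lit 298) (nat_lit 266)) (XT.lf (nat_lit 0) (nat_lit 13288257543) (nat_lit 152) (nat_lit 1825843414) (nat_lit 0) (nat_lit 8746936851) (nat_lit 90) (nat_lit 5) (nat_lit 92) (nat_lit 4) (nat_lit 90) (nat_lit 4) (nat_lit 457) (nat_lit 298) (nat_lit 265)))))) (XT.nd (nat_lit 624)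 (nat_lit 760) (nat_lit 0) (XT.nd (nat_lit 312) (nat_lit 304) (nat_lit 0) (XT.nd (nat_lit 156) (nat_lit 228) (nat_lit 0) (XT.nd (nat_lit 78) (nat_lit 152) (nat_lit 0) (XT.lf (nat_lit 0) (nat_lit 18639325929) (nat_lit 76) (nat_lit 5125015541) (nat_lit 76) (nat_lit 503643614) (nat_lit 89) (nat_lit 4) (nat_lit 90) (nat_lit 5) (nat_lit 90) (nat_lit 4) (nat_lit 458) (nat_lit 298) (nat_lit 264)) (XT.lf (nat_lit 0) (nat_lit 9759529166) (nat_lit 152) (nat_lit 9724926268) (nat_lit 0) (nat_lit 5197304338) (nat_lit 87) (nat_lit 5) (nat_lit 89) (nat_lit 4) (nat_lit 87) (nat_lit 4) (nat_lit 459) (nat_lit 298) (nat_lit 263))) (XT.nd (nat_lit 78) (nat_lit 152) (nat_lit 0) (XT.lf (nat_lit 0) (nat_lit 11070856159) (nat_lit 76) (nat_lit 9334932779) (nat_lit 76) (nat_lit 4699449730) (nat_lit 86) (nat_lit 4) (nat_lit 87) (nat_lit 5) (nat_lit 87) (nat_lit 4) (nat_lit 460) (nat_lit 298) (nat_lit 262)) (XT.lf (nat_lit 0) (nat_lit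 5764962357) (nat_lit 152) (nat_lit 18577876473) (nat_lit 0) (nat_lit 1195440479) (nat_lit 84) (nat_lit 5) (nat_lit 86) (nat_lit 4) (nat_lit 84) (nat_lit 4) (nat_lit 461) (nat_lit 298) (nat_lit 261)))) (XT.nd (nat_lit 156) (nat_lit 152) (nat_lit 0) (XT.nd (nat_lit 78) (nat_lit 76) (nat_lit 0) (XT.lf (nat_lit 0) (nat_lit 2543907189) (nat_lit 76) (nat_lit 14035822655) (nat_lit 76) (nat_lit 9399259128) (nat_lit 83) (nat_lit 4) (nat_lit 84) (nat_lit 5) (nat_lit 84) (nat_lit 4) (nat_lit 462) (nat_lit 298) (nat_lit 260)) (XT.lf (nat_lit 0) (nat_lit 1321298081) (nat_lit 152) (nat_lit 2019417399) (nat_lit 76) (nat_lit 23090022409) (nat_lit 82) (nat_lit 5) (nat_lit 84) (nat_lit 5) (nat_lit 83) (nat_lit 4) (nat_lit 463) (nat_lit 298) (nat_lit 259))) (XT.nd (nat_lit 78) (nat_lit 76) (nat_lit 0) (XT.lf (nat_lit 0) (nat_lit 12317728582) (nat_lit 152) (nat_lit 6879558858) (nat_lit 0) (nat_lit 7691664805) (nat_lit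 81) (nat_lit 5) (nat_lit 83) (nat_lit 4) (nat_lit 81) (nat_lit 4) (nat_lit 464) (nat_lit 298) (nat_lit 258)) (XT.lf (nat_lit 0) (nat_lit 15396695291) (nat_lit 76) (nat_lit 8323777268) (nat_lit 76) (nat_lit 3638147854) (nat_lit 80) (nat_lit 4) (nat_lit 81) (nat_lit 5) (nat_lit 81) (nat_lit 4) (nat_lit 465) (nat_lit 298) (nat_lit 257))))) (XT.nd (nat_lit 312) (nat_lit 380) (nat_lit 0) (XT.nd (nat_lit 156) (nat_lit 152) (nat_lit 0) (XT.nd (nat_lit 78) (nat_lit 76) (nat_lit 0) (XT.lf (nat_lit 0) (nat_lit 7549121312) (nat_lit 152) (nat_lit 17344990261) (nat_lit 0) (nat_lit 2943820216) (nat_lit 78) (nat_lit 5) (nat_lit 80) (nat_lit 4) (nat_lit 78) (nat_lit 4) (nat_lit 466) (nat_lit 298) (nat_lit 256)) (XT.lf (nat_lit 0) (nat_lit 5271155232) (nat_lit 76) (nat_lit 13857650558) (nat_lit 76) (nat_lit 9197838466) (nat_lit 77) (nat_lit 4) (nat_lit 78) (nat_lit 5) (nat_lit 78) (nat_lit 4) (nat_lit 467) (nat_lit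 298) (nat_lit 255))) (XT.nd (nat_lit 78) (nat_lit 76) (nat_lit 0) (XT.lf (nat_lit 0) (nat_lit 2234193822) (nat_lit 152) (nat_lit 177321928) (nat_lit 76) (nat_lit 26416307486) (nat_lit 76) (nat_lit 5) (nat_lit 78) (nat_lit 5) (nat_lit 77) (nat_lit 4) (nat_lit 468) (nat_lit 298) (nat_lit 254)) (XT.lf (nat_lit 0) (nat_lit 14020965299) (nat_lit 152) (nat_lit 5918832120) (nat_lit 0) (nat_lit 9395608765) (nat_lit 75) (nat_lit 5) (nat_lit 77) (nat_lit 4) (nat_lit 75) (nat_lit 4) (nat_lit 469) (nat_lit 298) (nat_lit 253)))) (XT.nd (nat_lit 156) (nat_lit 152) (nat_lit 0) (XT.nd (nat_lit 78) (nat_lit 152) (nat_lit 0) (XT.lf (nat_lit 0) (nat_lit 17946542967) (nat_lit 76) (nat_lit 8291579512) (nat_lit 76) (nat_lit 3617790664) (nat_lit 74) (nat_lit 4) (nat_lit 75) (nat_lit 5) (nat_lit 75) (nat_lit 4) (nat_lit 470) (nat_lit 298) (nat_lit 252)) (XT.lf (nat_lit 0) (nat_lit 8358244612) (nat_lit 152) (nat_lit 18253636889)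 (nat_lit 0) (nat_lit 3774933436) (nat_lit 72) (nat_lit 5) (nat_lit 74) (nat_lit 4) (nat_lit 72) (nat_lit 4) (nat_lit 471) (nat_lit 298) (nat_lit 251))) (XT.nd (nat_lit 78) (nat_lit 76) (nat_lit 0) (XT.lf (nat_lit 0) (nat_lit 5964780101) (nat_lit 76) (nat_lit 14795618079) (nat_lit 76) (nat_lit 10167984475) (nat_lit 71) (nat_lit 4) (nat_lit 72) (nat_lit 5) (nat_lit 72) (nat_lit 4) (nat_lit 472) (nat_lit 298) (nat_lit 250)) (XT.lf (nat_lit 0) (nat_lit 2073291104) (nat_lit 152) (nat_lit 461884146) (nat_lit 76) (nat_lit 28948486110) (nat_lit 70) (nat_lit 5) (nat_lit 72) (nat_lit 5) (nat_lit 71) (nat_lit 4) (nat_lit 473) (nat_lit 298) (nat_lit 249))))))))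
noncomputable def xc22 : XT := (XT.nd (nat_lit 49608) (nat_lit 0) (nat_lit 3268) (XT.nd (nat_lit 1170) (nat_lit 684) (nat_lit 0) (XT.nd (nat_lit 546) (nat_lit 684) (nat_lit 0) (XT.nd (nat_lit 234) (nat_lit 304) (nat_lit 0) (XT.nd (nat_lit 78) (nat_lit 228) (nat_lit 0) (XT.lf (nat_lit 0) (nat_lit 14698498180) (nat_lit 152) (nat_lit 7224137681) (nat_lit 0) (nat_lit 10123310581) (nat_lit 69) (nat_lit 5) (nat_lit 71) (nat_lit 4) (nat_lit 69) (nat_lit 4) (nat_lit 474) (nat_lit 298) (nat_lit 248)) (XT.nd (nat_lit 78) (nat_lit 152) (nat_lit 0) (XT.lf (nat_lit 0) (nat_lit 18344761688) (nat_lit 76) (nat_lit 9446126545) (nat_lit 76) (nat_lit 4831559042) (nat_lit 68) (nat_lit 4) (nat_lit 69) (nat_lit 5) (nat_lit 69) (nat_lit 4) (nat_lit 475) (nat_lit 298) (nat_lit 247)) (XT.lf (nat_lit 0) (nat_lit 8003462711) (nat_lit 152) (nat_lit 21721247444) (nat_lit 0) (nat_lit 3486180752) (nat_lit 66) (nat_lit 5) (nat_lit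 68) (nat_lit 4) (nat_lit 66) (nat_lit 4) (nat_lit 476) (nat_lit 298) (nat_lit 246)))) (XT.nd (nat_lit 156) (nat_lit 152) (nat_lit 0) (XT.nd (nat_lit 78) (nat_lit 76) (nat_lit 0) (XT.lf (nat_lit 0) (nat_lit 4212772644) (nat_lit 76) (nat_lit 17075620603) (nat_lit 76) (nat_lit 12522300454) (nat_lit 65) (nat_lit 4) (nat_lit 66) (nat_lit 5) (nat_lit 66) (nat_lit 4) (nat_lit 477) (nat_lit 298) (nat_lit 245)) (XT.lf (nat_lit 0) (nat_lit 636654415) (nat_lit 152) (nat_lit 3295900219) (nat_lit 76) (nat_lit 30492662946) (nat_lit 64) (nat_lit 5) (nat_lit 66) (nat_lit 5) (nat_lit 65) (nat_lit 4) (nat_lit 478) (nat_lit 298) (nat_lit 244))) (XT.nd (nat_lit 78) (nat_lit 76) (nat_lit 0) (XT.lf (nat_lit 0) (nat_lit 14149018463) (nat_lit 152) (nat_lit 11237759637) (nat_lit 0) (nat_lit 9661369790) (nat_lit 63) (nat_lit 5) (nat_lit 65) (nat_lit 4) (nat_lit 63) (nat_lit 4) (nat_lit 479) (nat_lit 298) (nat_lit 243)) (XT.lf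 (nat_lit 0) (nat_lit 16154815059) (nat_lit 76) (nat_lit 12025604601) (nat_lit 76) (nat_lit 7505936462) (nat_lit 62) (nat_lit 4) (nat_lit 63) (nat_lit 5) (nat_lit 63) (nat_lit 4) (nat_lit 480) (nat_lit 298) (nat_lit 242))))) (XT.nd (nat_lit 312) (nat_lit 304) (nat_lit 0) (XT.nd (nat_lit 156) (nat_lit 228) (nat_lit 0) (XT.nd (nat_lit 78) (nat_lit 0) (nat_lit 0) (XT.lf (nat_lit 0) (nat_lit 6262982077) (nat_lit 152) (nat_lit 28231242000) (nat_lit 0) (nat_lit 1844773342) (nat_lit 60) (nat_lit 5) (nat_lit 62) (nat_lit 4) (nat_lit 60) (nat_lit 4) (nat_lit 481) (nat_lit 298) (nat_lit 241)) (XT.lf (nat_lit 0) (nat_lit 20498237750) (nat_lit 152) (nat_lit 453900106) (nat_lit 0) (nat_lit 16050726669) (nat_lit 60) (nat_lit 5) (nat_lit 62) (nat_lit 4) (nat_lit 60) (nat_lit 4) (nat_lit 482) (nat_lit 298) (nat_lit 240))) (XT.nd (nat_lit 78) (nat_lit 152) (nat_lit 0) (XT.lf (nat_lit 0) (nat_lit 28489517545) (nat_lit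 76) (nat_lit 6834099048) (nat_lit 76) (nat_lit 2358139086) (nat_lit 59) (nat_lit 4) (nat_lit 60) (nat_lit 5) (nat_lit 60) (nat_lit 4) (nat_lit 483) (nat_lit 298) (nat_lit 239)) (XT.lf (nat_lit 0) (nat_lit 12136448346) (nat_lit 152) (nat_lit 18472142387) (nat_lit 0) (nat_lit 7764040353) (nat_lit 57) (nat_lit 5) (nat_lit 59) (nat_lit 4) (nat_lit 57) (nat_lit 4) (nat_lit 484) (nat_lit 298) (nat_lit 238)))) (XT.nd (nat_lit 156) (nat_lit 76) (nat_lit 0) (XT.nd (nat_lit 78) (nat_lit 152) (nat_lit 0) (XT.lf (nat_lit 0) (nat_lit 10869935324) (nat_lit 76) (nat_lit 16303692609) (nat_lit 76) (nat_lit 11905249860) (nat_lit 56) (nat_lit 4) (nat_lit 57) (nat_lit 5) (nat_lit 57) (nat_lit 4) (nat_lit 485) (nat_lit 298) (nat_lit 237)) (XT.lf (nat_lit 0) (nat_lit 1445896801) (nat_lit 76) (nat_lit 1445539657) (nat_lit 152) (nat_lit 36911305486) (nat_lit 54) (nat_lit 5) (nat_lit 55) (nat_lit 5) (nat_lit 56) (nat_lit 4)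 (nat_lit 486) (nat_lit 298) (nat_lit 236))) (XT.nd (nat_lit 78) (nat_lit 76) (nat_lit 0) (XT.lf (nat_lit 0) (nat_lit 18202929754) (nat_lit 152) (nat_lit 8448319103) (nat_lit 0) (nat_lit 13884231246) (nat_lit 54) (nat_lit 5) (nat_lit 56) (nat_lit 4) (nat_lit 54) (nat_lit 4) (nat_lit 487) (nat_lit 298) (nat_lit 235)) (XT.lf (nat_lit 0) (nat_lit 22566741347) (nat_lit 76) (nat_lit 11530788131) (nat_lit 76) (nat_lit 7188958080) (nat_lit 53) (nat_lit 4) (nat_lit 54) (nat_lit 5) (nat_lit 54) (nat_lit 4) (nat_lit 488) (nat_lit 298) (nat_lit 234)))))) (XT.nd (nat_lit 546) (nat_lit 76) (nat_lit 0) (XT.nd (nat_lit 234) (nat_lit 380) (nat_lit 0) (XT.nd (nat_lit 78) (nat_lit 76) (nat_lit 0) (XT.lf (nat_lit 0) (nat_lit 8385090343) (nat_lit 152) (nat_lit 29520385158) (nat_lit 0) (nat_lit 4147917664) (nat_lit 51) (nat_lit 5) (nat_lit 53) (nat_lit 4) (nat_lit 51) (nat_lit 4) (nat_lit 489) (nat_lit 298) (nat_lit 233))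 (XT.nd (nat_lit 78) (nat_lit 0) (nat_lit 0) (XT.lf (nat_lit 0) (nat_lit 1902549341) (nat_lit 76) (nat_lit 22595242454) (nat_lit 76) (nat_lit 18336901137) (nat_lit 50) (nat_lit 4) (nat_lit 51) (nat_lit 5) (nat_lit 51) (nat_lit 4) (nat_lit 490) (nat_lit 298) (nat_lit 232)) (XT.lf (nat_lit 0) (nat_lit 34658629433) (nat_lit 76) (nat_lit 6626971920) (nat_lit 76) (nat_lit 2348078526) (nat_lit 50) (nat_lit 4) (nat_lit 51) (nat_lit 5) (nat_lit 51) (nat_lit 4) (nat_lit 491) (nat_lit 298) (nat_lit 231)))) (XT.nd (nat_lit 156) (nat_lit 152) (nat_lit 0) (XT.nd (nat_lit 78) (nat_lit 76) (nat_lit 0) (XT.lf (nat_lit 0) (nat_lit 14068904681) (nat_lit 152) (nat_lit 20481671708) (nat_lit 0) (nat_lit 9895266947) (nat_lit 48) (nat_lit 5) (nat_lit 50) (nat_lit 4) (nat_lit 48) (nat_lit 4) (nat_lit 492) (nat_lit 298) (nat_lit 230)) (XT.lf (nat_lit 0) (nat_lit 12744298015) (nat_lit 76) (nat_lit 18362280388) (nat_lit 76) (nat_lit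 14169834593) (nat_lit 47) (nat_lit 4) (nat_lit 48) (nat_lit 5) (nat_lit 48) (nat_lit 4) (nat_lit 493) (nat_lit 298) (nat_lit 229))) (XT.nd (nat_lit 78) (nat_lit 0) (nat_lit 0) (XT.lf (nat_lit 0) (nat_lit 1044749562) (nat_lit 76) (nat_lit 1544144827) (nat_lit 152) (nat_lit 43538838018) (nat_lit 45) (nat_lit 5) (nat_lit 46) (nat_lit 5) (nat_lit 47) (nat_lit 4) (nat_lit 494) (nat_lit 298) (nat_lit 228)) (XT.lf (nat_lit 0) (nat_lit 19944781513) (nat_lit 152) (nat_lit 11204719798) (nat_lit 0) (nat_lit 15839505349) (nat_lit 45) (nat_lit 5) (nat_lit 47) (nat_lit 4) (nat_lit 45) (nat_lit 4) (nat_lit 495) (nat_lit 298) (nat_lit 227))))) (XT.nd (nat_lit 47580) (nat_lit 0) (nat_lit 6764) (XT.nd (nat_lit 47424) (nat_lit 0) (nat_lit 7372) (XT.nd (nat_lit 47346) (nat_lit 0) (nat_lit 7676) (XT.lf (nat_lit 0) (nat_lit 23937278575) (nat_lit 76) (nat_lit 14028250961) (nat_lit 76) (nat_lit 9906264077) (nat_lit 44) (nat_lit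 4) (nat_lit 45) (nat_lit 5) (nat_lit 45) (nat_lit 4) (nat_lit 496) (nat_lit 298) (nat_lit 226)) (XT.lf (nat_lit 0) (nat_lit 3301020058) (nat_lit 152) (nat_lit 334783112) (nat_lit 0) (nat_lit 3301020058) (nat_lit 145) (nat_lit 5) (nat_lit 147) (nat_lit 4) (nat_lit 145) (nat_lit 4) (nat_lit 422) (nat_lit 299) (nat_lit 299))) (XT.nd (nat_lit 78) (nat_lit 152) (nat_lit 0) (XT.lf (nat_lit 0) (nat_lit 13037295582) (nat_lit 152) (nat_lit 692383043) (nat_lit 152) (nat_lit 341445952) (nat_lit 143) (nat_lit 4) (nat_lit 145) (nat_lit 5) (nat_lit 145) (nat_lit 4) (nat_lit 423) (nat_lit 299) (nat_lit 298)) (XT.lf (nat_lit 0) (nat_lit 6710770338) (nat_lit 152) (nat_lit 1521130525) (nat_lit 0) (nat_lit 6039262850) (nat_lit 141) (nat_lit 5) (nat_lit 143) (nat_lit 4) (nat_lit 141) (nat_lit 4) (nat_lit 424) (nat_lit 299) (nat_lit 297)))) (XT.nd (nat_lit 156) (nat_lit 304) (nat_lit 0) (XT.nd (nat_lit 78) (nat_lit 152)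 (nat_lit 0) (XT.lf (nat_lit 0) (nat_lit 12455700580) (nat_lit 152) (nat_lit 1507106580) (nat_lit 152) (nat_lit 514441940) (nat_lit 139) (nat_lit 4) (nat_lit 141) (nat_lit 5) (nat_lit 141) (nat_lit 4) (nat_lit 425) (nat_lit 299) (nat_lit 296)) (XT.lf (nat_lit 0) (nat_lit 6654092253) (nat_lit 152) (nat_lit 2644578069) (nat_lit 0) (nat_lit 5387618757) (nat_lit 137) (nat_lit 5) (nat_lit 139) (nat_lit 4) (nat_lit 137) (nat_lit 4) (nat_lit 426) (nat_lit 299) (nat_lit 295))) (XT.nd (nat_lit 78) (nat_lit 152) (nat_lit 0) (XT.lf (nat_lit 0) (nat_lit 11604267503) (nat_lit 152) (nat_lit 2428694576) (nat_lit 152) (nat_lit 868316792) (nat_lit 135) (nat_lit 4) (nat_lit 137) (nat_lit 5) (nat_lit 137) (nat_lit 4) (nat_lit 427) (nat_lit 299) (nat_lit 294)) (XT.lf (nat_lit 0) (nat_lit 6421169373) (nat_lit 152) (nat_lit 4069333019) (nat_lit 0) (nat_lit 4629206505) (nat_lit 133) (nat_lit 5) (nat_lit 135) (nat_lit 4) (nat_lit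 133) (nat_lit 4) (nat_lit 428) (nat_lit 299) (nat_lit 293))))))) (XT.nd (nat_lit 1170) (nat_lit 1596) (nat_lit 0) (XT.nd (nat_lit 546) (nat_lit 836) (nat_lit 0) (XT.nd (nat_lit 234) (nat_lit 608) (nat_lit 0) (XT.nd (nat_lit 78) (nat_lit 304) (nat_lit 0) (XT.lf (nat_lit 0) (nat_lit 10453307974) (nat_lit 152) (nat_lit 3475768598) (nat_lit 152) (nat_lit 1414841672) (nat_lit 131) (nat_lit 4) (nat_lit 133) (nat_lit 5) (nat_lit 133) (nat_lit 4) (nat_lit 429) (nat_lit 299) (nat_lit 292)) (XT.nd (nat_lit 78) (nat_lit 152) (nat_lit 0) (XT.lf (nat_lit 0) (nat_lit 6000039438) (nat_lit 152) (nat_lit 5826500118) (nat_lit 0) (nat_lit 3745615088) (nat_lit 129) (nat_lit 5) (nat_lit 131) (nat_lit 4) (nat_lit 129) (nat_lit 4) (nat_lit 430) (nat_lit 299) (nat_lit 291)) (XT.lf (nat_lit 0) (nat_lit 8971420941) (nat_lit 152) (nat_lit 4667530434) (nat_lit 152) (nat_lit 2166965870) (nat_lit 127) (nat_lit 4) (nat_lit 129) (nat_lit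 5) (nat_lit 129) (nat_lit 4) (nat_lit 431) (nat_lit 299) (nat_lit 290)))) (XT.nd (nat_lit 156) (nat_lit 304) (nat_lit 0) (XT.nd (nat_lit 78) (nat_lit 152) (nat_lit 0) (XT.lf (nat_lit 0) (nat_lit 5377571499) (nat_lit 152) (nat_lit 7949004900) (nat_lit 0) (nat_lit 2717828152) (nat_lit 125) (nat_lit 5) (nat_lit 127) (nat_lit 4) (nat_lit 125) (nat_lit 4) (nat_lit 432) (nat_lit 299) (nat_lit 289)) (XT.lf (nat_lit 0) (nat_lit 7125350420) (nat_lit 152) (nat_lit 6023859671) (nat_lit 152) (nat_lit 3138863160) (nat_lit 123) (nat_lit 4) (nat_lit 125) (nat_lit 5) (nat_lit 125) (nat_lit 4) (nat_lit 433) (nat_lit 299) (nat_lit 288))) (XT.nd (nat_lit 78) (nat_lit 152) (nat_lit 0) (XT.lf (nat_lit 0) (nat_lit 4539417736) (nat_lit 152) (nat_lit 10471740107) (nat_lit 0) (nat_lit 1526127537) (nat_lit 121) (nat_lit 5) (nat_lit 123) (nat_lit 4) (nat_lit 121) (nat_lit 4) (nat_lit 434) (nat_lit 299) (nat_lit 287)) (XT.lf (nat_lit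 0) (nat_lit 4879836868) (nat_lit 152) (nat_lit 7565412357) (nat_lit 152) (nat_lit 4345983604) (nat_lit 119) (nat_lit 4) (nat_lit 121) (nat_lit 5) (nat_lit 121) (nat_lit 4) (nat_lit 435) (nat_lit 299) (nat_lit 286))))) (XT.nd (nat_lit 312) (nat_lit 456) (nat_lit 0) (XT.nd (nat_lit 156) (nat_lit 152) (nat_lit 0) (XT.nd (nat_lit 78) (nat_lit 76) (nat_lit 0) (XT.lf (nat_lit 0) (nat_lit 3469959904) (nat_lit 152) (nat_lit 13431718915) (nat_lit 0) (nat_lit 149995562) (nat_lit 117) (nat_lit 5) (nat_lit 119) (nat_lit 4) (nat_lit 117) (nat_lit 4) (nat_lit 436) (nat_lit 299) (nat_lit 285)) (XT.lf (nat_lit 0) (nat_lit 2197461582) (nat_lit 76) (nat_lit 9313721250) (nat_lit 76) (nat_lit 5805110928) (nat_lit 116) (nat_lit 4) (nat_lit 117) (nat_lit 5) (nat_lit 117) (nat_lit 4) (nat_lit 437) (nat_lit 299) (nat_lit 284))) (XT.nd (nat_lit 78) (nat_lit 0) (nat_lit 0) (XT.lf (nat_lit 0) (nat_lit 705805592) (nat_lit 76)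 (nat_lit 1460483742) (nat_lit 152) (nat_lit 15421790912) (nat_lit 114) (nat_lit 5) (nat_lit 115) (nat_lit 5) (nat_lit 116) (nat_lit 4) (nat_lit 438) (nat_lit 299) (nat_lit 283)) (XT.lf (nat_lit 0) (nat_lit 10339024298) (nat_lit 152) (nat_lit 942753860) (nat_lit 0) (nat_lit 6582151788) (nat_lit 114) (nat_lit 5) (nat_lit 116) (nat_lit 4) (nat_lit 114) (nat_lit 4) (nat_lit 439) (nat_lit 299) (nat_lit 282)))) (XT.nd (nat_lit 156) (nat_lit 228) (nat_lit 0) (XT.nd (nat_lit 78) (nat_lit 76) (nat_lit 0) (XT.lf (nat_lit 0) (nat_lit 625755020) (nat_lit 152) (nat_lit 2654199326) (nat_lit 76) (nat_lit 14867062688) (nat_lit 112) (nat_lit 5) (nat_lit 114) (nat_lit 5) (nat_lit 113) (nat_lit 4) (nat_lit 440) (nat_lit 299) (nat_lit 281)) (XT.lf (nat_lit 0) (nat_lit 8927002418) (nat_lit 152) (nat_lit 4548802233) (nat_lit 0) (nat_lit 4958837663) (nat_lit 111) (nat_lit 5) (nat_lit 113) (nat_lit 4) (nat_lit 111) (nat_lit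 4) (nat_lit 441) (nat_lit 299) (nat_lit 280))) (XT.nd (nat_lit 78) (nat_lit 152) (nat_lit 0) (XT.lf (nat_lit 0) (nat_lit 12187391037) (nat_lit 76) (nat_lit 5331898227) (nat_lit 76) (nat_lit 1210347027) (nat_lit 110) (nat_lit 4) (nat_lit 111) (nat_lit 5) (nat_lit 111) (nat_lit 4) (nat_lit 442) (nat_lit 299) (nat_lit 279)) (XT.lf (nat_lit 0) (nat_lit 7234303829) (nat_lit 152) (nat_lit 8707596728) (nat_lit 0) (nat_lit 3088216375) (nat_lit 108) (nat_lit 5) (nat_lit 110) (nat_lit 4) (nat_lit 108) (nat_lit 4) (nat_lit 443) (nat_lit 299) (nat_lit 278)))))) (XT.nd (nat_lit 624) (nat_lit 836) (nat_lit 0) (XT.nd (nat_lit 312) (nat_lit 304) (nat_lit 0) (XT.nd (nat_lit 156) (nat_lit 228) (nat_lit 0) (XT.nd (nat_lit 78) (nat_lit 152) (nat_lit 0) (XT.lf (nat_lit 0) (nat_lit 8322330835) (nat_lit 76) (nat_lit 7650713559) (nat_lit 76) (nat_lit 3364255780) (nat_lit 107) (nat_lit 4) (nat_lit 108) (nat_lit 5) (nat_lit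 108) (nat_lit 4) (nat_lit 444) (nat_lit 299) (nat_lit 277)) (XT.lf (nat_lit 0) (nat_lit 5239704962) (nat_lit 152) (nat_lit 13465978517) (nat_lit 0) (nat_lit 945782974) (nat_lit 105) (nat_lit 5) (nat_lit 107) (nat_lit 4) (nat_lit 105) (nat_lit 4) (nat_lit 445) (nat_lit 299) (nat_lit 276))) (XT.nd (nat_lit 78) (nat_lit 152) (nat_lit 0) (XT.lf (nat_lit 0) (nat_lit 3856542228) (nat_lit 76) (nat_lit 10268584064) (nat_lit 76) (nat_lit 5846203344) (nat_lit 104) (nat_lit 4) (nat_lit 105) (nat_lit 5) (nat_lit 105) (nat_lit 4) (nat_lit 446) (nat_lit 299) (nat_lit 275)) (XT.lf (nat_lit 0) (nat_lit 1410983663) (nat_lit 76) (nat_lit 1524031903) (nat_lit 152) (nat_lit 17364411660) (nat_lit 102) (nat_lit 5) (nat_lit 103) (nat_lit 5) (nat_lit 104) (nat_lit 4) (nat_lit 447) (nat_lit 299) (nat_lit 274)))) (XT.nd (nat_lit 156) (nat_lit 152) (nat_lit 0) (XT.nd (nat_lit 78) (nat_lit 152) (nat_lit 0) (XT.lf (nat_lit 0) (nat_lit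 11964463977) (nat_lit 152) (nat_lit 1235850546) (nat_lit 0) (nat_lit 7432247848) (nat_lit 102) (nat_lit 5) (nat_lit 104) (nat_lit 4) (nat_lit 102) (nat_lit 4) (nat_lit 448) (nat_lit 299) (nat_lit 273)) (XT.lf (nat_lit 0) (nat_lit 332433507) (nat_lit 152) (nat_lit 3971510026) (nat_lit 76) (nat_lit 16670195545) (nat_lit 100) (nat_lit 5) (nat_lit 102) (nat_lit 5) (nat_lit 101) (nat_lit 4) (nat_lit 449) (nat_lit 299) (nat_lit 272))) (XT.nd (nat_lit 78) (nat_lit 76) (nat_lit 0) (XT.lf (nat_lit 0) (nat_lit 9497871946) (nat_lit 152) (nat_lit 6944172820) (nat_lit 0) (nat_lit 4879270316) (nat_lit 99) (nat_lit 5) (nat_lit 101) (nat_lit 4) (nat_lit 99) (nat_lit 4) (nat_lit 450) (nat_lit 299) (nat_lit 271)) (XT.lf (nat_lit 0) (nat_lit 11606142662) (nat_lit 76) (nat_lit 7396934957) (nat_lit 76) (nat_lit 2673884623) (nat_lit 98) (nat_lit 4) (nat_lit 99) (nat_lit 5) (nat_lit 99) (nat_lit 4) (nat_lit 451) (nat_lit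 299) (nat_lit 270))))) (XT.nd (nat_lit 312) (nat_lit 456) (nat_lit 0) (XT.nd (nat_lit 156) (nat_lit 152) (nat_lit 0) (XT.nd (nat_lit 78) (nat_lit 76) (nat_lit 0) (XT.lf (nat_lit 0) (nat_lit 6662083301) (nat_lit 152) (nat_lit 13399795020) (nat_lit 0) (nat_lit 1978144618) (nat_lit 96) (nat_lit 5) (nat_lit 98) (nat_lit 4) (nat_lit 96) (nat_lit 4) (nat_lit 452) (nat_lit 299) (nat_lit 269)) (XT.lf (nat_lit 0) (nat_lit 5456414813) (nat_lit 76) (nat_lit 10866664856) (nat_lit 76) (nat_lit 6087140811) (nat_lit 95) (nat_lit 4) (nat_lit 96) (nat_lit 5) (nat_lit 96) (nat_lit 4) (nat_lit 453) (nat_lit 299) (nat_lit 268))) (XT.nd (nat_lit 78) (nat_lit 0) (nat_lit 0) (XT.lf (nat_lit 0) (nat_lit 2114453444) (nat_lit 76) (nat_lit 1327309516) (nat_lit 152) (nat_lit 19347936698) (nat_lit 93) (nat_lit 5) (nat_lit 94) (nat_lit 5) (nat_lit 95) (nat_lit 4) (nat_lit 454) (nat_lit 299) (nat_lit 267)) (XT.lf (nat_lit 0) (nat_lit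 13259238812) (nat_lit 152) (nat_lit 1474413135) (nat_lit 0) (nat_lit 8441351689) (nat_lit 93) (nat_lit 5) (nat_lit 95) (nat_lit 4) (nat_lit 93) (nat_lit 4) (nat_lit 455) (nat_lit 299) (nat_lit 266)))) (XT.nd (nat_lit 156) (nat_lit 228) (nat_lit 0) (XT.nd (nat_lit 78) (nat_lit 152) (nat_lit 0) (XT.lf (nat_lit 0) (nat_lit 18398193294) (nat_lit 76) (nat_lit 5037279944) (nat_lit 76) (nat_lit 134466466) (nat_lit 92) (nat_lit 4) (nat_lit 93) (nat_lit 5) (nat_lit 93) (nat_lit 4) (nat_lit 456) (nat_lit 299) (nat_lit 265)) (XT.lf (nat_lit 0) (nat_lit 9827412321) (nat_lit 152) (nat_lit 9156663615) (nat_lit 0) (nat_lit 4987348001) (nat_lit 90) (nat_lit 5) (nat_lit 92) (nat_lit 4) (nat_lit 90) (nat_lit 4) (nat_lit 457) (nat_lit 299) (nat_lit 264))) (XT.nd (nat_lit 78) (nat_lit 152) (nat_lit 0) (XT.lf (nat_lit 0) (nat_lit 11036868776) (nat_lit 76) (nat_lit 9131667600) (nat_lit 76) (nat_lit 4213883634) (nat_lit 89)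 (nat_lit 4) (nat_lit 90) (nat_lit 5) (nat_lit 90) (nat_lit 4) (nat_lit 458) (nat_lit 299) (nat_lit 263)) (XT.lf (nat_lit 0) (nat_lit 5943100472) (nat_lit 152) (nat_lit 17764227130) (nat_lit 0) (nat_lit 1095294713) (nat_lit 87) (nat_lit 5) (nat_lit 89) (nat_lit 4) (nat_lit 87) (nat_lit 4) (nat_lit 459) (nat_lit 299) (nat_lit 262))))))))
noncomputable def xc23 : XT := (XT.nd (nat_lit 2418) (nat_lit 456) (nat_lit 0) (XT.nd (nat_lit 1170) (nat_lit 1368) (nat_lit 0) (XT.nd (nat_lit 546) (nat_lit 684) (nat_lit 0) (XT.nd (nat_lit 234) (nat_lit 456) (nat_lit 0) (XT.nd (nat_lit 78) (nat_lit 152) (nat_lit 0) (XT.lf (nat_lit 0) (nat_lit 2745751593) (nat_lit 76) (nat_lit 13701767547) (nat_lit 76) (nat_lit 8782837302) (nat_lit 86) (nat_lit 4) (nat_lit 87) (nat_lit 5) (nat_lit 87) (nat_lit 4) (nat_lit 460) (nat_lit 299) (nat_lit 261)) (XT.nd (nat_lit 78) (nat_lit 76) (nat_lit 0) (XT.lf (nat_lit 0) (nat_lit 1620718096)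 (nat_lit 152) (nat_lit 1697925408) (nat_lit 76) (nat_lit 22350147289) (nat_lit 85) (nat_lit 5) (nat_lit 87) (nat_lit 5) (nat_lit 86) (nat_lit 4) (nat_lit 461) (nat_lit 299) (nat_lit 260)) (XT.lf (nat_lit 0) (nat_lit 12300564670) (nat_lit 152) (nat_lit 6420209806) (nat_lit 0) (nat_lit 7392773609) (nat_lit 84) (nat_lit 5) (nat_lit 86) (nat_lit 4) (nat_lit 84) (nat_lit 4) (nat_lit 462) (nat_lit 299) (nat_lit 259)))) (XT.nd (nat_lit 156) (nat_lit 228) (nat_lit 0) (XT.nd (nat_lit 78) (nat_lit 152) (nat_lit 0) (XT.lf (nat_lit 0) (nat_lit 15210570474) (nat_lit 76) (nat_lit 8164910813) (nat_lit 76) (nat_lit 3193926568) (nat_lit 83) (nat_lit 4) (nat_lit 84) (nat_lit 5) (nat_lit 84) (nat_lit 4) (nat_lit 463) (nat_lit 299) (nat_lit 258)) (XT.lf (nat_lit 0) (nat_lit 7664285660) (nat_lit 152) (nat_lit 16591752180) (nat_lit 0) (nat_lit 2778521727) (nat_lit 81) (nat_lit 5) (nat_lit 83) (nat_lit 4) (nat_lit 81) (nat_lit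 4) (nat_lit 464) (nat_lit 299) (nat_lit 257))) (XT.nd (nat_lit 78) (nat_lit 152) (nat_lit 0) (XT.lf (nat_lit 0) (nat_lit 5368955350) (nat_lit 76) (nat_lit 13541777962) (nat_lit 76) (nat_lit 8598183313) (nat_lit 80) (nat_lit 4) (nat_lit 81) (nat_lit 5) (nat_lit 81) (nat_lit 4) (nat_lit 465) (nat_lit 299) (nat_lit 256)) (XT.lf (nat_lit 0) (nat_lit 68425173) (nat_lit 76) (nat_lit 2428208396) (nat_lit 152) (nat_lit 25498702013) (nat_lit 78) (nat_lit 5) (nat_lit 79) (nat_lit 5) (nat_lit 80) (nat_lit 4) (nat_lit 466) (nat_lit 299) (nat_lit 255))))) (XT.nd (nat_lit 312) (nat_lit 380) (nat_lit 0) (XT.nd (nat_lit 156) (nat_lit 228) (nat_lit 0) (XT.nd (nat_lit 78) (nat_lit 76) (nat_lit 0) (XT.lf (nat_lit 0) (nat_lit 13942452089) (nat_lit 152) (nat_lit 5510200598) (nat_lit 0) (nat_lit 9035411342) (nat_lit 78) (nat_lit 5) (nat_lit 80) (nat_lit 4) (nat_lit 78) (nat_lit 4) (nat_lit 467) (nat_lit 299) (nat_lit 254))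 (XT.lf (nat_lit 0) (nat_lit 17663300442) (nat_lit 76) (nat_lit 8144210255) (nat_lit 76) (nat_lit 3185787666) (nat_lit 77) (nat_lit 4) (nat_lit 78) (nat_lit 5) (nat_lit 78) (nat_lit 4) (nat_lit 468) (nat_lit 299) (nat_lit 253))) (XT.nd (nat_lit 78) (nat_lit 76) (nat_lit 0) (XT.lf (nat_lit 0) (nat_lit 8437810801) (nat_lit 152) (nat_lit 17495373425) (nat_lit 0) (nat_lit 3575375973) (nat_lit 75) (nat_lit 5) (nat_lit 77) (nat_lit 4) (nat_lit 75) (nat_lit 4) (nat_lit 469) (nat_lit 299) (nat_lit 252)) (XT.lf (nat_lit 0) (nat_lit 6020819546) (nat_lit 76) (nat_lit 14461442639) (nat_lit 76) (nat_lit 9551986148) (nat_lit 74) (nat_lit 4) (nat_lit 75) (nat_lit 5) (nat_lit 75) (nat_lit 4) (nat_lit 470) (nat_lit 299) (nat_lit 251)))) (XT.nd (nat_lit 156) (nat_lit 228) (nat_lit 0) (XT.nd (nat_lit 78) (nat_lit 76) (nat_lit 0) (XT.lf (nat_lit 0) (nat_lit 2327784661) (nat_lit 152) (nat_lit 229705728) (nat_lit 76) (nat_lit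 28015732890) (nat_lit 73) (nat_lit 5) (nat_lit 75) (nat_lit 5) (nat_lit 74) (nat_lit 4) (nat_lit 471) (nat_lit 299) (nat_lit 250)) (XT.lf (nat_lit 0) (nat_lit 14587713698) (nat_lit 152) (nat_lit 6797446861) (nat_lit 0) (nat_lit 9733897174) (nat_lit 72) (nat_lit 5) (nat_lit 74) (nat_lit 4) (nat_lit 72) (nat_lit 4) (nat_lit 472) (nat_lit 299) (nat_lit 249))) (XT.nd (nat_lit 78) (nat_lit 152) (nat_lit 0) (XT.lf (nat_lit 0) (nat_lit 18029838334) (nat_lit 76) (nat_lit 9272212620) (nat_lit 76) (nat_lit 4376617957) (nat_lit 71) (nat_lit 4) (nat_lit 72) (nat_lit 5) (nat_lit 72) (nat_lit 4) (nat_lit 473) (nat_lit 299) (nat_lit 248)) (XT.lf (nat_lit 0) (nat_lit 8080675562) (nat_lit 152) (nat_lit 20880848935) (nat_lit 0) (nat_lit 3288291131) (nat_lit 69) (nat_lit 5) (nat_lit 71) (nat_lit 4) (nat_lit 69) (nat_lit 4) (nat_lit 474) (nat_lit 299) (nat_lit 247)))))) (XT.nd (nat_lit 624) (nat_lit 684) (nat_lit 0) (XT.nd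 (nat_lit 312) (nat_lit 380) (nat_lit 0) (XT.nd (nat_lit 156) (nat_lit 152) (nat_lit 0) (XT.nd (nat_lit 78) (nat_lit 76) (nat_lit 0) (XT.lf (nat_lit 0) (nat_lit 4300853730) (nat_lit 76) (nat_lit 16680909573) (nat_lit 76) (nat_lit 11850292227) (nat_lit 68) (nat_lit 4) (nat_lit 69) (nat_lit 5) (nat_lit 69) (nat_lit 4) (nat_lit 475) (nat_lit 299) (nat_lit 246)) (XT.lf (nat_lit 0) (nat_lit 920435518) (nat_lit 152) (nat_lit 2999252579) (nat_lit 76) (nat_lit 29508872759) (nat_lit 67) (nat_lit 5) (nat_lit 69) (nat_lit 5) (nat_lit 68) (nat_lit 4) (nat_lit 476) (nat_lit 299) (nat_lit 245))) (XT.nd (nat_lit 78) (nat_lit 76) (nat_lit 0) (XT.lf (nat_lit 0) (nat_lit 14041224743) (nat_lit 152) (nat_lit 10711784881) (nat_lit 0) (nat_lit 9280278266) (nat_lit 66) (nat_lit 5) (nat_lit 68) (nat_lit 4) (nat_lit 66) (nat_lit 4) (nat_lit 477) (nat_lit 299) (nat_lit 244)) (XT.lf (nat_lit 0) (nat_lit 15885931300) (nat_lit 76)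 (nat_lit 11780902735) (nat_lit 76) (nat_lit 6985986807) (nat_lit 65) (nat_lit 4) (nat_lit 66) (nat_lit 5) (nat_lit 66) (nat_lit 4) (nat_lit 478) (nat_lit 299) (nat_lit 243)))) (XT.nd (nat_lit 156) (nat_lit 228) (nat_lit 0) (XT.nd (nat_lit 78) (nat_lit 0) (nat_lit 0) (XT.lf (nat_lit 0) (nat_lit 6377835614) (nat_lit 152) (nat_lit 27217918081) (nat_lit 0) (nat_lit 1690557966) (nat_lit 63) (nat_lit 5) (nat_lit 65) (nat_lit 4) (nat_lit 63) (nat_lit 4) (nat_lit 479) (nat_lit 299) (nat_lit 242)) (XT.lf (nat_lit 0) (nat_lit 20199342810) (nat_lit 152) (nat_lit 250495600) (nat_lit 0) (nat_lit 15480978303) (nat_lit 63) (nat_lit 5) (nat_lit 65) (nat_lit 4) (nat_lit 63) (nat_lit 4) (nat_lit 480) (nat_lit 299) (nat_lit 241))) (XT.nd (nat_lit 78) (nat_lit 152) (nat_lit 0) (XT.lf (nat_lit 0) (nat_lit 27852832839) (nat_lit 76) (nat_lit 6742783188) (nat_lit 76) (nat_lit 1994237265) (nat_lit 62) (nat_lit 4) (nat_lit 63)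 (nat_lit 5) (nat_lit 63) (nat_lit 4) (nat_lit 481) (nat_lit 299) (nat_lit 240)) (XT.lf (nat_lit 0) (nat_lit 12074034332) (nat_lit 152) (nat_lit 17751091434) (nat_lit 0) (nat_lit 7435346692) (nat_lit 60) (nat_lit 5) (nat_lit 62) (nat_lit 4) (nat_lit 60) (nat_lit 4) (nat_lit 482) (nat_lit 299) (nat_lit 239))))) (XT.nd (nat_lit 312) (nat_lit 380) (nat_lit 0) (XT.nd (nat_lit 156) (nat_lit 76) (nat_lit 0) (XT.nd (nat_lit 78) (nat_lit 152) (nat_lit 0) (XT.lf (nat_lit 0) (nat_lit 10739216328) (nat_lit 76) (nat_lit 15936581823) (nat_lit 76) (nat_lit 11270273911) (nat_lit 59) (nat_lit 4) (nat_lit 60) (nat_lit 5) (nat_lit 60) (nat_lit 4) (nat_lit 483) (nat_lit 299) (nat_lit 238)) (XT.lf (nat_lit 0) (nat_lit 1584250352) (nat_lit 76) (nat_lit 1508052141) (nat_lit 152) (nat_lit 35556392609) (nat_lit 57) (nat_lit 5) (nat_lit 58) (nat_lit 5) (nat_lit 59) (nat_lit 4) (nat_lit 484) (nat_lit 299) (nat_lit 237))) (XT.nd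 (nat_lit 78) (nat_lit 76) (nat_lit 0) (XT.lf (nat_lit 0) (nat_lit 17957532230) (nat_lit 152) (nat_lit 8026743093) (nat_lit 0) (nat_lit 13375824982) (nat_lit 57) (nat_lit 5) (nat_lit 59) (nat_lit 4) (nat_lit 57) (nat_lit 4) (nat_lit 485) (nat_lit 299) (nat_lit 236)) (XT.lf (nat_lit 0) (nat_lit 22087758091) (nat_lit 76) (nat_lit 11303825565) (nat_lit 76) (nat_lit 6697578064) (nat_lit 56) (nat_lit 4) (nat_lit 57) (nat_lit 5) (nat_lit 57) (nat_lit 4) (nat_lit 486) (nat_lit 299) (nat_lit 235)))) (XT.nd (nat_lit 156) (nat_lit 152) (nat_lit 0) (XT.nd (nat_lit 78) (nat_lit 76) (nat_lit 0) (XT.lf (nat_lit 0) (nat_lit 8418669682) (nat_lit 152) (nat_lit 28491486629) (nat_lit 0) (nat_lit 3923453187) (nat_lit 54) (nat_lit 5) (nat_lit 56) (nat_lit 4) (nat_lit 54) (nat_lit 4) (nat_lit 487) (nat_lit 299) (nat_lit 234)) (XT.lf (nat_lit 0) (nat_lit 2018940349) (nat_lit 76) (nat_lit 22045409251) (nat_lit 76) (nat_lit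 17527734947) (nat_lit 53) (nat_lit 4) (nat_lit 54) (nat_lit 5) (nat_lit 54) (nat_lit 4) (nat_lit 488) (nat_lit 299) (nat_lit 233))) (XT.nd (nat_lit 78) (nat_lit 152) (nat_lit 0) (XT.lf (nat_lit 0) (nat_lit 33820337068) (nat_lit 76) (nat_lit 6543461412) (nat_lit 76) (nat_lit 2003983411) (nat_lit 53) (nat_lit 4) (nat_lit 54) (nat_lit 5) (nat_lit 54) (nat_lit 4) (nat_lit 489) (nat_lit 299) (nat_lit 232)) (XT.lf (nat_lit 0) (nat_lit 13930623682) (nat_lit 152) (nat_lit 19722740449) (nat_lit 0) (nat_lit 9502811410) (nat_lit 51) (nat_lit 5) (nat_lit 53) (nat_lit 4) (nat_lit 51) (nat_lit 4) (nat_lit 490) (nat_lit 299) (nat_lit 231))))))) (XT.nd (nat_lit 48282) (nat_lit 0) (nat_lit 4712) (XT.nd (nat_lit 47658) (nat_lit 0) (nat_lit 6688) (XT.nd (nat_lit 234) (nat_lit 228) (nat_lit 0) (XT.nd (nat_lit 78) (nat_lit 152) (nat_lit 0) (XT.lf (nat_lit 0) (nat_lit 12538144278) (nat_lit 76) (nat_lit 17936055479) (nat_lit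 76) (nat_lit 13488289736) (nat_lit 50) (nat_lit 4) (nat_lit 51) (nat_lit 5) (nat_lit 51) (nat_lit 4) (nat_lit 491) (nat_lit 299) (nat_lit 230)) (XT.nd (nat_lit 78) (nat_lit 0) (nat_lit 0) (XT.lf (nat_lit 0) (nat_lit 1174552399) (nat_lit 76) (nat_lit 1604605455) (nat_lit 152) (nat_lit 42009715330) (nat_lit 48) (nat_lit 5) (nat_lit 49) (nat_lit 5) (nat_lit 50) (nat_lit 4) (nat_lit 492) (nat_lit 299) (nat_lit 229)) (XT.lf (nat_lit 0) (nat_lit 19629031589) (nat_lit 152) (nat_lit 10722301149) (nat_lit 0) (nat_lit 15273744106) (nat_lit 48) (nat_lit 5) (nat_lit 50) (nat_lit 4) (nat_lit 48) (nat_lit 4) (nat_lit 493) (nat_lit 299) (nat_lit 228)))) (XT.nd (nat_lit 156) (nat_lit 0) (nat_lit 0) (XT.nd (nat_lit 78) (nat_lit 152) (nat_lit 0) (XT.lf (nat_lit 0) (nat_lit 23398743541) (nat_lit 76) (nat_lit 13728181624) (nat_lit 76) (nat_lit 9355165739) (nat_lit 47) (nat_lit 4) (nat_lit 48) (nat_lit 5) (nat_lit 48) (nat_lit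 4) (nat_lit 494) (nat_lit 299) (nat_lit 227)) (XT.lf (nat_lit 0) (nat_lit 7787751747) (nat_lit 152) (nat_lit 36044782378) (nat_lit 0) (nat_lit 3525394538) (nat_lit 45) (nat_lit 5) (nat_lit 47) (nat_lit 4) (nat_lit 45) (nat_lit 4) (nat_lit 495) (nat_lit 299) (nat_lit 226))) (XT.nd (nat_lit 47190) (nat_lit 0) (nat_lit 7752) (XT.lf (nat_lit 0) (nat_lit 25529997860) (nat_lit 152) (nat_lit 1467656160) (nat_lit 0) (nat_lit 21251416653) (nat_lit 45) (nat_lit 5) (nat_lit 47) (nat_lit 4) (nat_lit 45) (nat_lit 4) (nat_lit 496) (nat_lit 299) (nat_lit 225)) (XT.lf (nat_lit 0) (nat_lit 33614368) (nat_lit 152) (nat_lit 3355947745) (nat_lit 152) (nat_lit 3355947745) (nat_lit 147) (nat_lit 4) (nat_lit 149) (nat_lit 5) (nat_lit 149) (nat_lit 4) (nat_lit 420) (nat_lit 300) (nat_lit 300))))) (XT.nd (nat_lit 312) (nat_lit 608) (nat_lit 0) (XT.nd (nat_lit 156) (nat_lit 304) (nat_lit 0) (XT.nd (nat_lit 78) (nat_lit 76) (nat_lit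 0) (XT.lf (nat_lit 0) (nat_lit 32958430) (nat_lit 228) (nat_lit 305403544) (nat_lit 76) (nat_lit 13343873441) (nat_lit 146) (nat_lit 5) (nat_lit 149) (nat_lit 5) (nat_lit 147) (nat_lit 4) (nat_lit 421) (nat_lit 300) (nat_lit 299)) (XT.lf (nat_lit 0) (nat_lit 6893253164) (nat_lit 152) (nat_lit 801649991) (nat_lit 0) (nat_lit 6180850869) (nat_lit 145) (nat_lit 5) (nat_lit 147) (nat_lit 4) (nat_lit 145) (nat_lit 4) (nat_lit 422) (nat_lit 300) (nat_lit 298))) (XT.nd (nat_lit 78) (nat_lit 152) (nat_lit 0) (XT.lf (nat_lit 0) (nat_lit 12771794261) (nat_lit 152) (nat_lit 1178339271) (nat_lit 152) (nat_lit 125221354) (nat_lit 143) (nat_lit 4) (nat_lit 145) (nat_lit 5) (nat_lit 145) (nat_lit 4) (nat_lit 423) (nat_lit 300) (nat_lit 297)) (XT.lf (nat_lit 0) (nat_lit 6845476391) (nat_lit 152) (nat_lit 1930299594) (nat_lit 0) (nat_lit 5501874660) (nat_lit 141) (nat_lit 5) (nat_lit 143) (nat_lit 4) (nat_lit 141) (nat_lit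 4) (nat_lit 424) (nat_lit 300) (nat_lit 296)))) (XT.nd (nat_lit 156) (nat_lit 304) (nat_lit 0) (XT.nd (nat_lit 78) (nat_lit 152) (nat_lit 0) (XT.lf (nat_lit 0) (nat_lit 11907307457) (nat_lit 152) (nat_lit 2117014551) (nat_lit 152) (nat_lit 461609760) (nat_lit 139) (nat_lit 4) (nat_lit 141) (nat_lit 5) (nat_lit 141) (nat_lit 4) (nat_lit 425) (nat_lit 300) (nat_lit 295)) (XT.lf (nat_lit 0) (nat_lit 6624827600) (nat_lit 152) (nat_lit 3348826694) (nat_lit 0) (nat_lit 4723734194) (nat_lit 137) (nat_lit 5) (nat_lit 139) (nat_lit 4) (nat_lit 137) (nat_lit 4) (nat_lit 426) (nat_lit 300) (nat_lit 294))) (XT.nd (nat_lit 78) (nat_lit 152) (nat_lit 0) (XT.lf (nat_lit 0) (nat_lit 10754654977) (nat_lit 152) (nat_lit 3173217711) (nat_lit 152) (nat_lit 986780335) (nat_lit 135) (nat_lit 4) (nat_lit 137) (nat_lit 5) (nat_lit 137) (nat_lit 4) (nat_lit 427) (nat_lit 300) (nat_lit 293)) (XT.lf (nat_lit 0) (nat_lit 6219875703)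 (nat_lit 152) (nat_lit 5087638849) (nat_lit 0) (nat_lit 3828156911) (nat_lit 133) (nat_lit 5) (nat_lit 135) (nat_lit 4) (nat_lit 133) (nat_lit 4) (nat_lit 428) (nat_lit 300) (nat_lit 292)))))) (XT.nd (nat_lit 624) (nat_lit 760) (nat_lit 0) (XT.nd (nat_lit 312) (nat_lit 608) (nat_lit 0) (XT.nd (nat_lit 156) (nat_lit 304) (nat_lit 0) (XT.nd (nat_lit 78) (nat_lit 152) (nat_lit 0) (XT.lf (nat_lit 0) (nat_lit 9283143376) (nat_lit 152) (nat_lit 4365973185) (nat_lit 152) (nat_lit 1713124239) (nat_lit 131) (nat_lit 4) (nat_lit 133) (nat_lit 5) (nat_lit 133) (nat_lit 4) (nat_lit 429) (nat_lit 300) (nat_lit 291)) (XT.lf (nat_lit 0) (nat_lit 5618038483) (nat_lit 152) (nat_lit 7178894137) (nat_lit 0) (nat_lit 2796316767) (nat_lit 129) (nat_lit 5) (nat_lit 131) (nat_lit 4) (nat_lit 129) (nat_lit 4) (nat_lit 430) (nat_lit 300) (nat_lit 290))) (XT.nd (nat_lit 78) (nat_lit 152) (nat_lit 0) (XT.lf (nat_lit 0) (nat_lit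 7460295382) (nat_lit 152) (nat_lit 5714930570) (nat_lit 152) (nat_lit 2654237771) (nat_lit 127) (nat_lit 4) (nat_lit 129) (nat_lit 5) (nat_lit 129) (nat_lit 4) (nat_lit 431) (nat_lit 300) (nat_lit 289)) (XT.lf (nat_lit 0) (nat_lit 4805537241) (nat_lit 152) (nat_lit 9656644758) (nat_lit 0) (nat_lit 1608737670) (nat_lit 125) (nat_lit 5) (nat_lit 127) (nat_lit 4) (nat_lit 125) (nat_lit 4) (nat_lit 432) (nat_lit 300) (nat_lit 288)))) (XT.nd (nat_lit 156) (nat_lit 304) (nat_lit 0) (XT.nd (nat_lit 78) (nat_lit 152) (nat_lit 0) (XT.lf (nat_lit 0) (nat_lit 5251704158) (nat_lit 152) (nat_lit 7240463216) (nat_lit 152) (nat_lit 3824971252) (nat_lit 123) (nat_lit 4) (nat_lit 125) (nat_lit 5) (nat_lit 125) (nat_lit 4) (nat_lit 433) (nat_lit 300) (nat_lit 287)) (XT.lf (nat_lit 0) (nat_lit 3767346109) (nat_lit 152) (nat_lit 12556987124) (nat_lit 0) (nat_lit 245195939) (nat_lit 121) (nat_lit 5) (nat_lit 123) (nat_lit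 4) (nat_lit 121) (nat_lit 4) (nat_lit 434) (nat_lit 300) (nat_lit 286))) (XT.nd (nat_lit 78) (nat_lit 152) (nat_lit 0) (XT.lf (nat_lit 0) (nat_lit 2620880926) (nat_lit 152) (nat_lit 8963768121) (nat_lit 152) (nat_lit 5241483431) (nat_lit 119) (nat_lit 4) (nat_lit 121) (nat_lit 5) (nat_lit 121) (nat_lit 4) (nat_lit 435) (nat_lit 300) (nat_lit 285)) (XT.lf (nat_lit 0) (nat_lit 1158474438) (nat_lit 76) (nat_lit 1341557328) (nat_lit 152) (nat_lit 14589557588) (nat_lit 117) (nat_lit 5) (nat_lit 118) (nat_lit 5) (nat_lit 119) (nat_lit 4) (nat_lit 436) (nat_lit 300) (nat_lit 284))))) (XT.nd (nat_lit 312) (nat_lit 456) (nat_lit 0) (XT.nd (nat_lit 156) (nat_lit 152) (nat_lit 0) (XT.nd (nat_lit 78) (nat_lit 152) (nat_lit 0) (XT.lf (nat_lit 0) (nat_lit 10440589543) (nat_lit 152) (nat_lit 461715647) (nat_lit 0) (nat_lit 6454923497) (nat_lit 117) (nat_lit 5) (nat_lit 119) (nat_lit 4) (nat_lit 117) (nat_lit 4) (nat_lit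 437) (nat_lit 300) (nat_lit 283)) (XT.lf (nat_lit 0) (nat_lit 998501841) (nat_lit 152) (nat_lit 2136524236) (nat_lit 76) (nat_lit 14496648113) (nat_lit 115) (nat_lit 5) (nat_lit 117) (nat_lit 5) (nat_lit 116) (nat_lit 4) (nat_lit 438) (nat_lit 300) (nat_lit 282))) (XT.nd (nat_lit 78) (nat_lit 76) (nat_lit 0) (XT.lf (nat_lit 0) (nat_lit 9067494317) (nat_lit 152) (nat_lit 3985473518) (nat_lit 0) (nat_lit 4857668329) (nat_lit 114) (nat_lit 5) (nat_lit 116) (nat_lit 4) (nat_lit 114) (nat_lit 4) (nat_lit 439) (nat_lit 300) (nat_lit 281)) (XT.lf (nat_lit 0) (nat_lit 12267184299) (nat_lit 76) (nat_lit 5151072677) (nat_lit 76) (nat_lit 778519009) (nat_lit 113) (nat_lit 4) (nat_lit 114) (nat_lit 5) (nat_lit 114) (nat_lit 4) (nat_lit 440) (nat_lit 300) (nat_lit 280)))) (XT.nd (nat_lit 156) (nat_lit 228) (nat_lit 0) (XT.nd (nat_lit 78) (nat_lit 76) (nat_lit 0) (XT.lf (nat_lit 0) (nat_lit 7421152902) (nat_lit 152)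 (nat_lit 8044407164) (nat_lit 0) (nat_lit 3022568722) (nat_lit 111) (nat_lit 5) (nat_lit 113) (nat_lit 4) (nat_lit 111) (nat_lit 4) (nat_lit 441) (nat_lit 300) (nat_lit 279)) (XT.lf (nat_lit 0) (nat_lit 8493400708) (nat_lit 76) (nat_lit 7420111471) (nat_lit 76) (nat_lit 2872608413) (nat_lit 110) (nat_lit 4) (nat_lit 111) (nat_lit 5) (nat_lit 111) (nat_lit 4) (nat_lit 442) (nat_lit 300) (nat_lit 278))) (XT.nd (nat_lit 78) (nat_lit 76) (nat_lit 0) (XT.lf (nat_lit 0) (nat_lit 5481050193) (nat_lit 152) (nat_lit 12684104914) (nat_lit 0) (nat_lit 925628356) (nat_lit 108) (nat_lit 5) (nat_lit 110) (nat_lit 4) (nat_lit 108) (nat_lit 4) (nat_lit 443) (nat_lit 300) (nat_lit 277)) (XT.lf (nat_lit 0) (nat_lit 4137738725) (nat_lit 76) (nat_lit 9977533619) (nat_lit 76) (nat_lit 5285829913) (nat_lit 107) (nat_lit 4) (nat_lit 108) (nat_lit 5) (nat_lit 108) (nat_lit 4) (nat_lit 444) (nat_lit 300) (nat_lit 276))))))))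
noncomputable def xc24 : XT := (XT.nd (nat_lit 2340) (nat_lit 1900) (nat_lit 0) (XT.nd (nat_lit 1170) (nat_lit 1368) (nat_lit 0) (XT.nd (nat_lit 546) (nat_lit 760) (nat_lit 0) (XT.nd (nat_lit 234) (nat_lit 380) (nat_lit 0) (XT.nd (nat_lit 78) (nat_lit 152) (nat_lit 0) (XT.lf (nat_lit 0) (nat_lit 1751948187) (nat_lit 76) (nat_lit 1487443136) (nat_lit 152) (nat_lit 16479918443) (nat_lit 105) (nat_lit 5) (nat_lit 106) (nat_lit 5) (nat_lit 107) (nat_lit 4) (nat_lit 445) (nat_lit 300) (nat_lit 275)) (XT.nd (nat_lit 78) (nat_lit 152) (nat_lit 0) (XT.lf (nat_lit 0) (nat_lit 12009263945) (nat_lit 152) (nat_lit 832339611) (nat_lit 0) (nat_lit 7201035855) (nat_lit 105) (nat_lit 5) (nat_lit 107) (nat_lit 4) (nat_lit 105) (nat_lit 4) (nat_lit 446) (nat_lit 300) (nat_lit 274)) (XT.lf (nat_lit 0) (nat_lit 704575737) (nat_lit 152) (nat_lit 3499024018) (nat_lit 76) (nat_lit 16170346398) (nat_lit 103) (nat_lit 5) (nat_lit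 105) (nat_lit 5) (nat_lit 104) (nat_lit 4) (nat_lit 447) (nat_lit 300) (nat_lit 273)))) (XT.nd (nat_lit 156) (nat_lit 228) (nat_lit 0) (XT.nd (nat_lit 78) (nat_lit 76) (nat_lit 0) (XT.lf (nat_lit 0) (nat_lit 9609548432) (nat_lit 152) (nat_lit 6391593174) (nat_lit 0) (nat_lit 4709673963) (nat_lit 102) (nat_lit 5) (nat_lit 104) (nat_lit 4) (nat_lit 102) (nat_lit 4) (nat_lit 448) (nat_lit 300) (nat_lit 272)) (XT.lf (nat_lit 0) (nat_lit 11622228852) (nat_lit 76) (nat_lit 7222182050) (nat_lit 76) (nat_lit 2211497950) (nat_lit 101) (nat_lit 4) (nat_lit 102) (nat_lit 5) (nat_lit 102) (nat_lit 4) (nat_lit 449) (nat_lit 300) (nat_lit 271))) (XT.nd (nat_lit 78) (nat_lit 76) (nat_lit 0) (XT.lf (nat_lit 0) (nat_lit 6850983619) (nat_lit 152) (nat_lit 12675329250) (nat_lit 0) (nat_lit 1881793069) (nat_lit 99) (nat_lit 5) (nat_lit 101) (nat_lit 4) (nat_lit 99) (nat_lit 4) (nat_lit 450) (nat_lit 300) (nat_lit 270))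 (XT.lf (nat_lit 0) (nat_lit 5635424917) (nat_lit 76) (nat_lit 10601255257) (nat_lit 76) (nat_lit 5530658198) (nat_lit 98) (nat_lit 4) (nat_lit 99) (nat_lit 5) (nat_lit 99) (nat_lit 4) (nat_lit 451) (nat_lit 300) (nat_lit 269))))) (XT.nd (nat_lit 312) (nat_lit 380) (nat_lit 0) (XT.nd (nat_lit 156) (nat_lit 228) (nat_lit 0) (XT.nd (nat_lit 78) (nat_lit 0) (nat_lit 0) (XT.lf (nat_lit 0) (nat_lit 2380959468) (nat_lit 76) (nat_lit 1338257009) (nat_lit 152) (nat_lit 18416261600) (nat_lit 96) (nat_lit 5) (nat_lit 97) (nat_lit 5) (nat_lit 98) (nat_lit 4) (nat_lit 452) (nat_lit 300) (nat_lit 268)) (XT.lf (nat_lit 0) (nat_lit 13252868575) (nat_lit 152) (nat_lit 1115055242) (nat_lit 0) (nat_lit 8141572127) (nat_lit 96) (nat_lit 5) (nat_lit 98) (nat_lit 4) (nat_lit 96) (nat_lit 4) (nat_lit 453) (nat_lit 300) (nat_lit 267))) (XT.nd (nat_lit 78) (nat_lit 76) (nat_lit 0) (XT.lf (nat_lit 0) (nat_lit 240755964) (nat_lit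 152) (nat_lit 4712660210) (nat_lit 76) (nat_lit 17939274016) (nat_lit 94) (nat_lit 5) (nat_lit 96) (nat_lit 5) (nat_lit 95) (nat_lit 4) (nat_lit 454) (nat_lit 300) (nat_lit 266)) (XT.lf (nat_lit 0) (nat_lit 9914763701) (nat_lit 152) (nat_lit 8587595048) (nat_lit 0) (nat_lit 4779939463) (nat_lit 93) (nat_lit 5) (nat_lit 95) (nat_lit 4) (nat_lit 93) (nat_lit 4) (nat_lit 455) (nat_lit 300) (nat_lit 265)))) (XT.nd (nat_lit 156) (nat_lit 152) (nat_lit 0) (XT.nd (nat_lit 78) (nat_lit 152) (nat_lit 0) (XT.lf (nat_lit 0) (nat_lit 11021438821) (nat_lit 76) (nat_lit 8938502093) (nat_lit 76) (nat_lit 3721225083) (nat_lit 92) (nat_lit 4) (nat_lit 93) (nat_lit 5) (nat_lit 93) (nat_lit 4) (nat_lit 456) (nat_lit 300) (nat_lit 264)) (XT.lf (nat_lit 0) (nat_lit 6137124523) (nat_lit 152) (nat_lit 16957678251) (nat_lit 0) (nat_lit 994087392) (nat_lit 90) (nat_lit 5) (nat_lit 92) (nat_lit 4) (nat_lit 90) (nat_lit 4) (nat_lit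 457) (nat_lit 300) (nat_lit 263))) (XT.nd (nat_lit 78) (nat_lit 76) (nat_lit 0) (XT.lf (nat_lit 0) (nat_lit 2958521706) (nat_lit 76) (nat_lit 13381994796) (nat_lit 76) (nat_lit 8163501699) (nat_lit 89) (nat_lit 4) (nat_lit 90) (nat_lit 5) (nat_lit 90) (nat_lit 4) (nat_lit 458) (nat_lit 300) (nat_lit 262)) (XT.lf (nat_lit 0) (nat_lit 1931995518) (nat_lit 152) (nat_lit 1369800415) (nat_lit 76) (nat_lit 21627720303) (nat_lit 88) (nat_lit 5) (nat_lit 90) (nat_lit 5) (nat_lit 89) (nat_lit 4) (nat_lit 459) (nat_lit 300) (nat_lit 261)))))) (XT.nd (nat_lit 546) (nat_lit 760) (nat_lit 0) (XT.nd (nat_lit 234) (nat_lit 304) (nat_lit 0) (XT.nd (nat_lit 78) (nat_lit 228) (nat_lit 0) (XT.lf (nat_lit 0) (nat_lit 12304704415) (nat_lit 152) (nat_lit 5958468364) (nat_lit 0) (nat_lit 7098028878) (nat_lit 87) (nat_lit 5) (nat_lit 89) (nat_lit 4) (nat_lit 87) (nat_lit 4) (nat_lit 460) (nat_lit 300) (nat_lit 260)) (XT.nd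 (nat_lit 78) (nat_lit 152) (nat_lit 0) (XT.lf (nat_lit 0) (nat_lit 15045842215) (nat_lit 76) (nat_lit 8015761173) (nat_lit 76) (nat_lit 2742043988) (nat_lit 86) (nat_lit 4) (nat_lit 87) (nat_lit 5) (nat_lit 87) (nat_lit 4) (nat_lit 461) (nat_lit 300) (nat_lit 259)) (XT.lf (nat_lit 0) (nat_lit 7796499744) (nat_lit 152) (nat_lit 15845347182) (nat_lit 0) (nat_lit 2613192788) (nat_lit 84) (nat_lit 5) (nat_lit 86) (nat_lit 4) (nat_lit 84) (nat_lit 4) (nat_lit 462) (nat_lit 300) (nat_lit 258)))) (XT.nd (nat_lit 156) (nat_lit 76) (nat_lit 0) (XT.nd (nat_lit 78) (nat_lit 152) (nat_lit 0) (XT.lf (nat_lit 0) (nat_lit 5479212852) (nat_lit 76) (nat_lit 13240449409) (nat_lit 76) (nat_lit 7995789846) (nat_lit 83) (nat_lit 4) (nat_lit 84) (nat_lit 5) (nat_lit 84) (nat_lit 4) (nat_lit 463) (nat_lit 300) (nat_lit 257)) (XT.lf (nat_lit 0) (nat_lit 325300986) (nat_lit 76) (nat_lit 2447864622) (nat_lit 152) (nat_lit 24414311718)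 (nat_lit 81) (nat_lit 5) (nat_lit 82) (nat_lit 5) (nat_lit 83) (nat_lit 4) (nat_lit 464) (nat_lit 300) (nat_lit 256))) (XT.nd (nat_lit 78) (nat_lit 76) (nat_lit 0) (XT.lf (nat_lit 0) (nat_lit 13886314415) (nat_lit 152) (nat_lit 5099084049) (nat_lit 0) (nat_lit 8680434886) (nat_lit 81) (nat_lit 5) (nat_lit 83) (nat_lit 4) (nat_lit 81) (nat_lit 4) (nat_lit 465) (nat_lit 300) (nat_lit 255)) (XT.lf (nat_lit 0) (nat_lit 17402891564) (nat_lit 76) (nat_lit 8006866009) (nat_lit 76) (nat_lit 2746475484) (nat_lit 80) (nat_lit 4) (nat_lit 81) (nat_lit 5) (nat_lit 81) (nat_lit 4) (nat_lit 466) (nat_lit 300) (nat_lit 254))))) (XT.nd (nat_lit 312) (nat_lit 380) (nat_lit 0) (XT.nd (nat_lit 156) (nat_lit 152) (nat_lit 0) (XT.nd (nat_lit 78) (nat_lit 76) (nat_lit 0) (XT.lf (nat_lit 0) (nat_lit 8534730849) (nat_lit 152) (nat_lit 16745395112) (nat_lit 0) (nat_lit 3376173741) (nat_lit 78) (nat_lit 5) (nat_lit 80) (nat_lit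 4) (nat_lit 78) (nat_lit 4) (nat_lit 467) (nat_lit 300) (nat_lit 253)) (XT.lf (nat_lit 0) (nat_lit 6089219822) (nat_lit 76) (nat_lit 14142893445) (nat_lit 76) (nat_lit 8934451054) (nat_lit 77) (nat_lit 4) (nat_lit 78) (nat_lit 5) (nat_lit 78) (nat_lit 4) (nat_lit 468) (nat_lit 300) (nat_lit 252))) (XT.nd (nat_lit 78) (nat_lit 0) (nat_lit 0) (XT.lf (nat_lit 0) (nat_lit 9210319) (nat_lit 76) (nat_lit 2584920234) (nat_lit 152) (nat_lit 27095569214) (nat_lit 75) (nat_lit 5) (nat_lit 76) (nat_lit 5) (nat_lit 77) (nat_lit 4) (nat_lit 469) (nat_lit 300) (nat_lit 251)) (XT.lf (nat_lit 0) (nat_lit 14499481170) (nat_lit 152) (nat_lit 6370012535) (nat_lit 0) (nat_lit 9350067219) (nat_lit 75) (nat_lit 5) (nat_lit 77) (nat_lit 4) (nat_lit 75) (nat_lit 4) (nat_lit 470) (nat_lit 300) (nat_lit 250)))) (XT.nd (nat_lit 156) (nat_lit 152) (nat_lit 0) (XT.nd (nat_lit 78) (nat_lit 152) (nat_lit 0) (XT.lf (nat_lit 0) (nat_lit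 17737448362) (nat_lit 76) (nat_lit 9109528202) (nat_lit 76) (nat_lit 3915791824) (nat_lit 74) (nat_lit 4) (nat_lit 75) (nat_lit 5) (nat_lit 75) (nat_lit 4) (nat_lit 471) (nat_lit 300) (nat_lit 249)) (XT.lf (nat_lit 0) (nat_lit 8174538191) (nat_lit 152) (nat_lit 20052276637) (nat_lit 0) (nat_lit 3090297549) (nat_lit 72) (nat_lit 5) (nat_lit 74) (nat_lit 4) (nat_lit 72) (nat_lit 4) (nat_lit 472) (nat_lit 300) (nat_lit 248))) (XT.nd (nat_lit 78) (nat_lit 76) (nat_lit 0) (XT.lf (nat_lit 0) (nat_lit 4399206046) (nat_lit 76) (nat_lit 16303945583) (nat_lit 76) (nat_lit 11179143640) (nat_lit 71) (nat_lit 4) (nat_lit 72) (nat_lit 5) (nat_lit 72) (nat_lit 4) (nat_lit 473) (nat_lit 300) (nat_lit 247)) (XT.lf (nat_lit 0) (nat_lit 1214362710) (nat_lit 152) (nat_lit 2699025543) (nat_lit 76) (nat_lit 28547911305) (nat_lit 70) (nat_lit 5) (nat_lit 72) (nat_lit 5) (nat_lit 71) (nat_lit 4) (nat_lit 474) (nat_lit 300)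 (nat_lit 246))))))) (XT.nd (nat_lit 1170) (nat_lit 608) (nat_lit 0) (XT.nd (nat_lit 546) (nat_lit 684) (nat_lit 0) (XT.nd (nat_lit 234) (nat_lit 304) (nat_lit 0) (XT.nd (nat_lit 78) (nat_lit 228) (nat_lit 0) (XT.lf (nat_lit 0) (nat_lit 13955103345) (nat_lit 152) (nat_lit 10189031300) (nat_lit 0) (nat_lit 8904215227) (nat_lit 69) (nat_lit 5) (nat_lit 71) (nat_lit 4) (nat_lit 69) (nat_lit 4) (nat_lit 475) (nat_lit 300) (nat_lit 245)) (XT.nd (nat_lit 78) (nat_lit 152) (nat_lit 0) (XT.lf (nat_lit 0) (nat_lit 15637159278) (nat_lit 76) (nat_lit 11549756618) (nat_lit 76) (nat_lit 6462830310) (nat_lit 68) (nat_lit 4) (nat_lit 69) (nat_lit 5) (nat_lit 69) (nat_lit 4) (nat_lit 476) (nat_lit 300) (nat_lit 244)) (XT.lf (nat_lit 0) (nat_lit 6507447674) (nat_lit 152) (nat_lit 26222473216) (nat_lit 0) (nat_lit 1534714818) (nat_lit 66) (nat_lit 5) (nat_lit 68) (nat_lit 4) (nat_lit 66) (nat_lit 4) (nat_lit 477) (nat_lit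 300) (nat_lit 243)))) (XT.nd (nat_lit 156) (nat_lit 228) (nat_lit 0) (XT.nd (nat_lit 78) (nat_lit 76) (nat_lit 0) (XT.lf (nat_lit 0) (nat_lit 19927310341) (nat_lit 152) (nat_lit 41433284) (nat_lit 0) (nat_lit 14921597436) (nat_lit 66) (nat_lit 5) (nat_lit 68) (nat_lit 4) (nat_lit 66) (nat_lit 4) (nat_lit 478) (nat_lit 300) (nat_lit 242)) (XT.lf (nat_lit 0) (nat_lit 27246452568) (nat_lit 76) (nat_lit 6660688110) (nat_lit 76) (nat_lit 1622955740) (nat_lit 65) (nat_lit 4) (nat_lit 66) (nat_lit 5) (nat_lit 66) (nat_lit 4) (nat_lit 479) (nat_lit 300) (nat_lit 241))) (XT.nd (nat_lit 78) (nat_lit 76) (nat_lit 0) (XT.lf (nat_lit 0) (nat_lit 12031164656) (nat_lit 152) (nat_lit 17039895598) (nat_lit 0) (nat_lit 7109980938) (nat_lit 63) (nat_lit 5) (nat_lit 65) (nat_lit 4) (nat_lit 63) (nat_lit 4) (nat_lit 480) (nat_lit 300) (nat_lit 240)) (XT.lf (nat_lit 0) (nat_lit 10623624838) (nat_lit 76) (nat_lit 15586725806)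 (nat_lit 76) (nat_lit 10636239743) (nat_lit 62) (nat_lit 4) (nat_lit 63) (nat_lit 5) (nat_lit 63) (nat_lit 4) (nat_lit 481) (nat_lit 300) (nat_lit 239))))) (XT.nd (nat_lit 312) (nat_lit 304) (nat_lit 0) (XT.nd (nat_lit 156) (nat_lit 228) (nat_lit 0) (XT.nd (nat_lit 78) (nat_lit 0) (nat_lit 0) (XT.lf (nat_lit 0) (nat_lit 1729564632) (nat_lit 76) (nat_lit 1575114961) (nat_lit 152) (nat_lit 34223901792) (nat_lit 60) (nat_lit 5) (nat_lit 61) (nat_lit 5) (nat_lit 62) (nat_lit 4) (nat_lit 482) (nat_lit 300) (nat_lit 238)) (XT.lf (nat_lit 0) (nat_lit 17736625607) (nat_lit 152) (nat_lit 7606757530) (nat_lit 0) (nat_lit 12875892388) (nat_lit 60) (nat_lit 5) (nat_lit 62) (nat_lit 4) (nat_lit 60) (nat_lit 4) (nat_lit 483) (nat_lit 300) (nat_lit 237))) (XT.nd (nat_lit 78) (nat_lit 152) (nat_lit 0) (XT.lf (nat_lit 0) (nat_lit 21633584302) (nat_lit 76) (nat_lit 11090104695) (nat_lit 76) (nat_lit 6203336721) (nat_lit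 59) (nat_lit 4) (nat_lit 60) (nat_lit 5) (nat_lit 60) (nat_lit 4) (nat_lit 484) (nat_lit 300) (nat_lit 236)) (XT.lf (nat_lit 0) (nat_lit 8468189323) (nat_lit 152) (nat_lit 27482258956) (nat_lit 0) (nat_lit 3699214143) (nat_lit 57) (nat_lit 5) (nat_lit 59) (nat_lit 4) (nat_lit 57) (nat_lit 4) (nat_lit 485) (nat_lit 300) (nat_lit 235)))) (XT.nd (nat_lit 156) (nat_lit 228) (nat_lit 0) (XT.nd (nat_lit 78) (nat_lit 0) (nat_lit 0) (XT.lf (nat_lit 0) (nat_lit 2142404256) (nat_lit 76) (nat_lit 21518184899) (nat_lit 76) (nat_lit 16725384230) (nat_lit 56) (nat_lit 4) (nat_lit 57) (nat_lit 5) (nat_lit 57) (nat_lit 4) (nat_lit 486) (nat_lit 300) (nat_lit 234)) (XT.lf (nat_lit 0) (nat_lit 33016885986) (nat_lit 76) (nat_lit 6469052292) (nat_lit 76) (nat_lit 1653120080) (nat_lit 56) (nat_lit 4) (nat_lit 57) (nat_lit 5) (nat_lit 57) (nat_lit 4) (nat_lit 487) (nat_lit 300) (nat_lit 233))) (XT.nd (nat_lit 78) (nat_lit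 76) (nat_lit 0) (XT.lf (nat_lit 0) (nat_lit 13812904204) (nat_lit 152) (nat_lit 18976025181) (nat_lit 0) (nat_lit 9115438165) (nat_lit 54) (nat_lit 5) (nat_lit 56) (nat_lit 4) (nat_lit 54) (nat_lit 4) (nat_lit 488) (nat_lit 300) (nat_lit 232)) (XT.lf (nat_lit 0) (nat_lit 12348045919) (nat_lit 76) (nat_lit 17528858555) (nat_lit 76) (nat_lit 12810223878) (nat_lit 53) (nat_lit 4) (nat_lit 54) (nat_lit 5) (nat_lit 54) (nat_lit 4) (nat_lit 489) (nat_lit 300) (nat_lit 231)))))) (XT.nd (nat_lit 47580) (nat_lit 0) (nat_lit 6992) (XT.nd (nat_lit 312) (nat_lit 228) (nat_lit 0) (XT.nd (nat_lit 156) (nat_lit 228) (nat_lit 0) (XT.nd (nat_lit 78) (nat_lit 0) (nat_lit 0) (XT.lf (nat_lit 0) (nat_lit 1310332727) (nat_lit 76) (nat_lit 1669726130) (nat_lit 152) (nat_lit 40509235223) (nat_lit 51) (nat_lit 5) (nat_lit 52) (nat_lit 5) (nat_lit 53) (nat_lit 4) (nat_lit 490) (nat_lit 300) (nat_lit 230)) (XT.lf (nat_lit 0)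 (nat_lit 19338626876) (nat_lit 152) (nat_lit 10244429012) (nat_lit 0) (nat_lit 14718102385) (nat_lit 51) (nat_lit 5) (nat_lit 53) (nat_lit 4) (nat_lit 51) (nat_lit 4) (nat_lit 491) (nat_lit 300) (nat_lit 229))) (XT.nd (nat_lit 78) (nat_lit 152) (nat_lit 0) (XT.lf (nat_lit 0) (nat_lit 22885556829) (nat_lit 76) (nat_lit 13443461068) (nat_lit 76) (nat_lit 8804128516) (nat_lit 50) (nat_lit 4) (nat_lit 51) (nat_lit 5) (nat_lit 51) (nat_lit 4) (nat_lit 492) (nat_lit 300) (nat_lit 228)) (XT.lf (nat_lit 0) (nat_lit 7835052949) (nat_lit 152) (nat_lit 34835192633) (nat_lit 0) (nat_lit 3313118187) (nat_lit 48) (nat_lit 5) (nat_lit 50) (nat_lit 4) (nat_lit 48) (nat_lit 4) (nat_lit 493) (nat_lit 300) (nat_lit 227)))) (XT.nd (nat_lit 156) (nat_lit 152) (nat_lit 0) (XT.nd (nat_lit 78) (nat_lit 76) (nat_lit 0) (XT.lf (nat_lit 0) (nat_lit 25061016654) (nat_lit 152) (nat_lit 1265649220) (nat_lit 0) (nat_lit 20521869851)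 (nat_lit 48) (nat_lit 5) (nat_lit 50) (nat_lit 4) (nat_lit 48) (nat_lit 4) (nat_lit 494) (nat_lit 300) (nat_lit 226)) (XT.lf (nat_lit 0) (nat_lit 33783160919) (nat_lit 76) (nat_lit 9252698223) (nat_lit 76) (nat_lit 4696840702) (nat_lit 47) (nat_lit 4) (nat_lit 48) (nat_lit 5) (nat_lit 48) (nat_lit 4) (nat_lit 495) (nat_lit 300) (nat_lit 225))) (XT.nd (nat_lit 47034) (nat_lit 0) (nat_lit 8056) (XT.lf (nat_lit 0) (nat_lit 12863008475) (nat_lit 152) (nat_lit 27346314944) (nat_lit 0) (nat_lit 8424094378) (nat_lit 45) (nat_lit 5) (nat_lit 47) (nat_lit 4) (nat_lit 45) (nat_lit 4) (nat_lit 496) (nat_lit 300) (nat_lit 224)) (XT.lf (nat_lit 0) (nat_lit 419986123) (nat_lit 152) (nat_lit 3070167318) (nat_lit 152) (nat_lit 3070167318) (nat_lit 151) (nat_lit 4) (nat_lit 153) (nat_lit 5) (nat_lit 153) (nat_lit 4) (nat_lit 418) (nat_lit 301) (nat_lit 301))))) (XT.nd (nat_lit 312) (nat_lit 608) (nat_lit 0) (XT.nd (nat_lit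 156) (nat_lit 304) (nat_lit 0) (XT.nd (nat_lit 78) (nat_lit 0) (nat_lit 0) (XT.lf (nat_lit 0) (nat_lit 416436865) (nat_lit 152) (nat_lit 12856312841) (nat_lit 0) (nat_lit 32958430) (nat_lit 149) (nat_lit 5) (nat_lit 151) (nat_lit 4) (nat_lit 149) (nat_lit 4) (nat_lit 419) (nat_lit 301) (nat_lit 300)) (XT.lf (nat_lit 0) (nat_lit 7093437632) (nat_lit 152) (nat_lit 62006997) (nat_lit 0) (nat_lit 6337650038) (nat_lit 149) (nat_lit 5) (nat_lit 151) (nat_lit 4) (nat_lit 149) (nat_lit 4) (nat_lit 420) (nat_lit 301) (nat_lit 299))) (XT.nd (nat_lit 78) (nat_lit 76) (nat_lit 0) (XT.lf (nat_lit 0) (nat_lit 270078638) (nat_lit 228) (nat_lit 568993161) (nat_lit 76) (nat_lit 12847219285) (nat_lit 146) (nat_lit 5) (nat_lit 149) (nat_lit 5) (nat_lit 147) (nat_lit 4) (nat_lit 421) (nat_lit 301) (nat_lit 298)) (XT.lf (nat_lit 0) (nat_lit 7054744466) (nat_lit 152) (nat_lit 1198016704) (nat_lit 0) (nat_lit 5629317389)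 (nat_lit 145) (nat_lit 5) (nat_lit 147) (nat_lit 4) (nat_lit 145) (nat_lit 4) (nat_lit 422) (nat_lit 301) (nat_lit 297)))) (XT.nd (nat_lit 156) (nat_lit 304) (nat_lit 0) (XT.nd (nat_lit 78) (nat_lit 152) (nat_lit 0) (XT.lf (nat_lit 0) (nat_lit 12240559629) (nat_lit 152) (nat_lit 1799739257) (nat_lit 152) (nat_lit 43520314) (nat_lit 143) (nat_lit 4) (nat_lit 145) (nat_lit 5) (nat_lit 145) (nat_lit 4) (nat_lit 423) (nat_lit 301) (nat_lit 296)) (XT.lf (nat_lit 0) (nat_lit 6846346603) (nat_lit 152) (nat_lit 2612645282) (nat_lit 0) (nat_lit 4829476608) (nat_lit 141) (nat_lit 5) (nat_lit 143) (nat_lit 4) (nat_lit 141) (nat_lit 4) (nat_lit 424) (nat_lit 301) (nat_lit 295))) (XT.nd (nat_lit 78) (nat_lit 152) (nat_lit 0) (XT.lf (nat_lit 0) (nat_lit 11084118850) (nat_lit 152) (nat_lit 2867218907) (nat_lit 152) (nat_lit 547627495) (nat_lit 139) (nat_lit 4) (nat_lit 141) (nat_lit 5) (nat_lit 141) (nat_lit 4) (nat_lit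 425) (nat_lit 301) (nat_lit 294)) (XT.lf (nat_lit 0) (nat_lit 6457339788) (nat_lit 152) (nat_lit 4335636126) (nat_lit 0) (nat_lit 3919965321) (nat_lit 137) (nat_lit 5) (nat_lit 139) (nat_lit 4) (nat_lit 137) (nat_lit 4) (nat_lit 426) (nat_lit 301) (nat_lit 293))))))))
noncomputable def xc25 : XT := (XT.nd (nat_lit 2340) (nat_lit 2736) (nat_lit 0) (XT.nd (nat_lit 1170) (nat_lit 1444) (nat_lit 0) (XT.nd (nat_lit 546) (nat_lit 912) (nat_lit 0) (XT.nd (nat_lit 234) (nat_lit 608) (nat_lit 0) (XT.nd (nat_lit 78) (nat_lit 304) (nat_lit 0) (XT.lf (nat_lit 0) (nat_lit 9620683798) (nat_lit 152) (nat_lit 4063113522) (nat_lit 152) (nat_lit 1248706075) (nat_lit 135) (nat_lit 4) (nat_lit 137) (nat_lit 5) (nat_lit 137) (nat_lit 4) (nat_lit 427) (nat_lit 301) (nat_lit 292)) (XT.nd (nat_lit 78) (nat_lit 152) (nat_lit 0) (XT.lf (nat_lit 0) (nat_lit 5875684678) (nat_lit 152) (nat_lit 6398413876) (nat_lit 0) (nat_lit 2882120109)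 (nat_lit 133) (nat_lit 5) (nat_lit 135) (nat_lit 4) (nat_lit 133) (nat_lit 4) (nat_lit 428) (nat_lit 301) (nat_lit 291)) (XT.lf (nat_lit 0) (nat_lit 7818521662) (nat_lit 152) (nat_lit 5406870662) (nat_lit 152) (nat_lit 2159781672) (nat_lit 131) (nat_lit 4) (nat_lit 133) (nat_lit 5) (nat_lit 133) (nat_lit 4) (nat_lit 429) (nat_lit 301) (nat_lit 290)))) (XT.nd (nat_lit 156) (nat_lit 304) (nat_lit 0) (XT.nd (nat_lit 78) (nat_lit 152) (nat_lit 0) (XT.lf (nat_lit 0) (nat_lit 5088164329) (nat_lit 152) (nat_lit 8834225374) (nat_lit 0) (nat_lit 1696679664) (nat_lit 129) (nat_lit 5) (nat_lit 131) (nat_lit 4) (nat_lit 129) (nat_lit 4) (nat_lit 430) (nat_lit 301) (nat_lit 289)) (XT.lf (nat_lit 0) (nat_lit 5644042867) (nat_lit 152) (nat_lit 6918608635) (nat_lit 152) (nat_lit 3295113210) (nat_lit 127) (nat_lit 4) (nat_lit 129) (nat_lit 5) (nat_lit 129) (nat_lit 4) (nat_lit 431) (nat_lit 301) (nat_lit 288))) (XT.nd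 (nat_lit 78) (nat_lit 152) (nat_lit 0) (XT.lf (nat_lit 0) (nat_lit 4080336367) (nat_lit 152) (nat_lit 11678286791) (nat_lit 0) (nat_lit 343687252) (nat_lit 125) (nat_lit 5) (nat_lit 127) (nat_lit 4) (nat_lit 125) (nat_lit 4) (nat_lit 432) (nat_lit 301) (nat_lit 287)) (XT.lf (nat_lit 0) (nat_lit 3061651733) (nat_lit 152) (nat_lit 8619216208) (nat_lit 152) (nat_lit 4670244381) (nat_lit 123) (nat_lit 4) (nat_lit 125) (nat_lit 5) (nat_lit 125) (nat_lit 4) (nat_lit 433) (nat_lit 301) (nat_lit 286))))) (XT.nd (nat_lit 312) (nat_lit 456) (nat_lit 0) (XT.nd (nat_lit 156) (nat_lit 152) (nat_lit 0) (XT.nd (nat_lit 78) (nat_lit 152) (nat_lit 0) (XT.lf (nat_lit 0) (nat_lit 1626778236) (nat_lit 76) (nat_lit 1221442757) (nat_lit 152) (nat_lit 13758236023) (nat_lit 121) (nat_lit 5) (nat_lit 122) (nat_lit 5) (nat_lit 123) (nat_lit 4) (nat_lit 434) (nat_lit 301) (nat_lit 285)) (XT.lf (nat_lit 0) (nat_lit 33590193) (nat_lit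 152) (nat_lit 10530453818) (nat_lit 152) (nat_lit 6302060710) (nat_lit 119) (nat_lit 4) (nat_lit 121) (nat_lit 5) (nat_lit 121) (nat_lit 4) (nat_lit 435) (nat_lit 301) (nat_lit 284))) (XT.nd (nat_lit 78) (nat_lit 76) (nat_lit 0) (XT.lf (nat_lit 0) (nat_lit 1384202195) (nat_lit 228) (nat_lit 1607108630) (nat_lit 76) (nat_lit 14140835058) (nat_lit 118) (nat_lit 5) (nat_lit 121) (nat_lit 5) (nat_lit 119) (nat_lit 4) (nat_lit 436) (nat_lit 301) (nat_lit 283)) (XT.lf (nat_lit 0) (nat_lit 9228284772) (nat_lit 152) (nat_lit 3412314320) (nat_lit 0) (nat_lit 4762080381) (nat_lit 117) (nat_lit 5) (nat_lit 119) (nat_lit 4) (nat_lit 117) (nat_lit 4) (nat_lit 437) (nat_lit 301) (nat_lit 282)))) (XT.nd (nat_lit 156) (nat_lit 228) (nat_lit 0) (XT.nd (nat_lit 78) (nat_lit 152) (nat_lit 0) (XT.lf (nat_lit 0) (nat_lit 12371130724) (nat_lit 76) (nat_lit 4973959263) (nat_lit 76) (nat_lit 335117078) (nat_lit 116) (nat_lit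 4) (nat_lit 117) (nat_lit 5) (nat_lit 117) (nat_lit 4) (nat_lit 438) (nat_lit 301) (nat_lit 281)) (XT.lf (nat_lit 0) (nat_lit 7626770987) (nat_lit 152) (nat_lit 7375590974) (nat_lit 0) (nat_lit 2960313031) (nat_lit 114) (nat_lit 5) (nat_lit 116) (nat_lit 4) (nat_lit 114) (nat_lit 4) (nat_lit 439) (nat_lit 301) (nat_lit 280))) (XT.nd (nat_lit 78) (nat_lit 152) (nat_lit 0) (XT.lf (nat_lit 0) (nat_lit 8684668156) (nat_lit 76) (nat_lit 7195753013) (nat_lit 76) (nat_lit 2371307019) (nat_lit 113) (nat_lit 4) (nat_lit 114) (nat_lit 5) (nat_lit 114) (nat_lit 4) (nat_lit 440) (nat_lit 301) (nat_lit 279)) (XT.lf (nat_lit 0) (nat_lit 5739357993) (nat_lit 152) (nat_lit 11901273995) (nat_lit 0) (nat_lit 906510966) (nat_lit 111) (nat_lit 5) (nat_lit 113) (nat_lit 4) (nat_lit 111) (nat_lit 4) (nat_lit 441) (nat_lit 301) (nat_lit 278)))))) (XT.nd (nat_lit 546) (nat_lit 760) (nat_lit 0) (XT.nd (nat_lit 234) (nat_lit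 456) (nat_lit 0) (XT.nd (nat_lit 78) (nat_lit 152) (nat_lit 0) (XT.lf (nat_lit 0) (nat_lit 4434710582) (nat_lit 76) (nat_lit 9695449674) (nat_lit 76) (nat_lit 4718021212) (nat_lit 110) (nat_lit 4) (nat_lit 111) (nat_lit 5) (nat_lit 111) (nat_lit 4) (nat_lit 442) (nat_lit 301) (nat_lit 277)) (XT.nd (nat_lit 78) (nat_lit 0) (nat_lit 0) (XT.lf (nat_lit 0) (nat_lit 2106249229) (nat_lit 76) (nat_lit 1452395113) (nat_lit 152) (nat_lit 15598122285) (nat_lit 108) (nat_lit 5) (nat_lit 109) (nat_lit 5) (nat_lit 110) (nat_lit 4) (nat_lit 443) (nat_lit 301) (nat_lit 276)) (XT.lf (nat_lit 0) (nat_lit 12076709782) (nat_lit 152) (nat_lit 418199741) (nat_lit 0) (nat_lit 6975660601) (nat_lit 108) (nat_lit 5) (nat_lit 110) (nat_lit 4) (nat_lit 108) (nat_lit 4) (nat_lit 444) (nat_lit 301) (nat_lit 275)))) (XT.nd (nat_lit 156) (nat_lit 228) (nat_lit 0) (XT.nd (nat_lit 78) (nat_lit 76) (nat_lit 0) (XT.lf (nat_lit 0) (nat_lit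 1089132001) (nat_lit 152) (nat_lit 3018569950) (nat_lit 76) (nat_lit 15684184517) (nat_lit 106) (nat_lit 5) (nat_lit 108) (nat_lit 5) (nat_lit 107) (nat_lit 4) (nat_lit 445) (nat_lit 301) (nat_lit 274)) (XT.lf (nat_lit 0) (nat_lit 9741620500) (nat_lit 152) (nat_lit 5833773461) (nat_lit 0) (nat_lit 4543343676) (nat_lit 105) (nat_lit 5) (nat_lit 107) (nat_lit 4) (nat_lit 105) (nat_lit 4) (nat_lit 446) (nat_lit 301) (nat_lit 273))) (XT.nd (nat_lit 78) (nat_lit 152) (nat_lit 0) (XT.lf (nat_lit 0) (nat_lit 11659412980) (nat_lit 76) (nat_lit 7054997164) (nat_lit 76) (nat_lit 1739162402) (nat_lit 104) (nat_lit 4) (nat_lit 105) (nat_lit 5) (nat_lit 105) (nat_lit 4) (nat_lit 447) (nat_lit 301) (nat_lit 272)) (XT.lf (nat_lit 0) (nat_lit 7057703127) (nat_lit 152) (nat_lit 11951612834) (nat_lit 0) (nat_lit 1785888873) (nat_lit 102) (nat_lit 5) (nat_lit 104) (nat_lit 4) (nat_lit 102) (nat_lit 4) (nat_lit 448) (nat_lit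 301) (nat_lit 271))))) (XT.nd (nat_lit 312) (nat_lit 380) (nat_lit 0) (XT.nd (nat_lit 156) (nat_lit 152) (nat_lit 0) (XT.nd (nat_lit 78) (nat_lit 152) (nat_lit 0) (XT.lf (nat_lit 0) (nat_lit 5829801364) (nat_lit 76) (nat_lit 10346687733) (nat_lit 76) (nat_lit 4967291313) (nat_lit 101) (nat_lit 4) (nat_lit 102) (nat_lit 5) (nat_lit 102) (nat_lit 4) (nat_lit 449) (nat_lit 301) (nat_lit 270)) (XT.lf (nat_lit 0) (nat_lit 2659683985) (nat_lit 76) (nat_lit 1351906708) (nat_lit 152) (nat_lit 17489302765) (nat_lit 99) (nat_lit 5) (nat_lit 100) (nat_lit 5) (nat_lit 101) (nat_lit 4) (nat_lit 450) (nat_lit 301) (nat_lit 269))) (XT.nd (nat_lit 78) (nat_lit 152) (nat_lit 0) (XT.lf (nat_lit 0) (nat_lit 13269814990) (nat_lit 152) (nat_lit 746894482) (nat_lit 0) (nat_lit 7847240588) (nat_lit 99) (nat_lit 5) (nat_lit 101) (nat_lit 4) (nat_lit 99) (nat_lit 4) (nat_lit 451) (nat_lit 301) (nat_lit 268)) (XT.lf (nat_lit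 0) (nat_lit 624959476) (nat_lit 152) (nat_lit 4249492026) (nat_lit 76) (nat_lit 17361238492) (nat_lit 97) (nat_lit 5) (nat_lit 99) (nat_lit 5) (nat_lit 98) (nat_lit 4) (nat_lit 452) (nat_lit 301) (nat_lit 267)))) (XT.nd (nat_lit 156) (nat_lit 228) (nat_lit 0) (XT.nd (nat_lit 78) (nat_lit 76) (nat_lit 0) (XT.lf (nat_lit 0) (nat_lit 10022322295) (nat_lit 152) (nat_lit 8016686983) (nat_lit 0) (nat_lit 4574787261) (nat_lit 96) (nat_lit 5) (nat_lit 98) (nat_lit 4) (nat_lit 96) (nat_lit 4) (nat_lit 453) (nat_lit 301) (nat_lit 266)) (XT.lf (nat_lit 0) (nat_lit 11025095645) (nat_lit 76) (nat_lit 8755396614) (nat_lit 76) (nat_lit 3220387435) (nat_lit 95) (nat_lit 4) (nat_lit 96) (nat_lit 5) (nat_lit 96) (nat_lit 4) (nat_lit 454) (nat_lit 301) (nat_lit 265))) (XT.nd (nat_lit 78) (nat_lit 76) (nat_lit 0) (XT.lf (nat_lit 0) (nat_lit 6347855242) (nat_lit 152) (nat_lit 16157012205) (nat_lit 0) (nat_lit 891607151)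 (nat_lit 93) (nat_lit 5) (nat_lit 95) (nat_lit 4) (nat_lit 93) (nat_lit 4) (nat_lit 455) (nat_lit 301) (nat_lit 264)) (XT.lf (nat_lit 0) (nat_lit 3182922708) (nat_lit 76) (nat_lit 13076365662) (nat_lit 76) (nat_lit 7540066335) (nat_lit 92) (nat_lit 4) (nat_lit 93) (nat_lit 5) (nat_lit 93) (nat_lit 4) (nat_lit 456) (nat_lit 301) (nat_lit 263))))))) (XT.nd (nat_lit 1170) (nat_lit 1368) (nat_lit 0) (XT.nd (nat_lit 546) (nat_lit 760) (nat_lit 0) (XT.nd (nat_lit 234) (nat_lit 380) (nat_lit 0) (XT.nd (nat_lit 78) (nat_lit 152) (nat_lit 0) (XT.lf (nat_lit 0) (nat_lit 2256038210) (nat_lit 152) (nat_lit 1034261405) (nat_lit 76) (nat_lit 20921983463) (nat_lit 91) (nat_lit 5) (nat_lit 93) (nat_lit 5) (nat_lit 92) (nat_lit 4) (nat_lit 457) (nat_lit 301) (nat_lit 262)) (XT.nd (nat_lit 78) (nat_lit 76) (nat_lit 0) (XT.lf (nat_lit 0) (nat_lit 12330794270) (nat_lit 152) (nat_lit 5493443728) (nat_lit 0) (nat_lit 6807032193)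 (nat_lit 90) (nat_lit 5) (nat_lit 92) (nat_lit 4) (nat_lit 90) (nat_lit 4) (nat_lit 458) (nat_lit 301) (nat_lit 261)) (XT.lf (nat_lit 0) (nat_lit 14902860219) (nat_lit 76) (nat_lit 7876355292) (nat_lit 76) (nat_lit 2281468730) (nat_lit 89) (nat_lit 4) (nat_lit 90) (nat_lit 5) (nat_lit 90) (nat_lit 4) (nat_lit 459) (nat_lit 301) (nat_lit 260)))) (XT.nd (nat_lit 156) (nat_lit 152) (nat_lit 0) (XT.nd (nat_lit 78) (nat_lit 76) (nat_lit 0) (XT.lf (nat_lit 0) (nat_lit 7946509576) (nat_lit 152) (nat_lit 15104656295) (nat_lit 0) (nat_lit 2447539226) (nat_lit 87) (nat_lit 5) (nat_lit 89) (nat_lit 4) (nat_lit 87) (nat_lit 4) (nat_lit 460) (nat_lit 301) (nat_lit 259)) (XT.lf (nat_lit 0) (nat_lit 5602497033) (nat_lit 76) (nat_lit 12953566729) (nat_lit 76) (nat_lit 7389507399) (nat_lit 86) (nat_lit 4) (nat_lit 87) (nat_lit 5) (nat_lit 87) (nat_lit 4) (nat_lit 461) (nat_lit 301) (nat_lit 258))) (XT.nd (nat_lit 78)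 (nat_lit 0) (nat_lit 0) (XT.lf (nat_lit 0) (nat_lit 590460087) (nat_lit 76) (nat_lit 2472452523) (nat_lit 152) (nat_lit 23340695489) (nat_lit 84) (nat_lit 5) (nat_lit 85) (nat_lit 5) (nat_lit 86) (nat_lit 4) (nat_lit 462) (nat_lit 301) (nat_lit 257)) (XT.lf (nat_lit 0) (nat_lit 13853123966) (nat_lit 152) (nat_lit 4684678689) (nat_lit 0) (nat_lit 8330206373) (nat_lit 84) (nat_lit 5) (nat_lit 86) (nat_lit 4) (nat_lit 84) (nat_lit 4) (nat_lit 463) (nat_lit 301) (nat_lit 256))))) (XT.nd (nat_lit 312) (nat_lit 304) (nat_lit 0) (XT.nd (nat_lit 156) (nat_lit 228) (nat_lit 0) (XT.nd (nat_lit 78) (nat_lit 152) (nat_lit 0) (XT.lf (nat_lit 0) (nat_lit 17165539432) (nat_lit 76) (nat_lit 7879603905) (nat_lit 76) (nat_lit 2298855598) (nat_lit 83) (nat_lit 4) (nat_lit 84) (nat_lit 5) (nat_lit 84) (nat_lit 4) (nat_lit 464) (nat_lit 301) (nat_lit 255)) (XT.lf (nat_lit 0) (nat_lit 8649697288) (nat_lit 152) (nat_lit 16002620205)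 (nat_lit 0) (nat_lit 3176984052) (nat_lit 81) (nat_lit 5) (nat_lit 83) (nat_lit 4) (nat_lit 81) (nat_lit 4) (nat_lit 465) (nat_lit 301) (nat_lit 254))) (XT.nd (nat_lit 78) (nat_lit 152) (nat_lit 0) (XT.lf (nat_lit 0) (nat_lit 6170473082) (nat_lit 76) (nat_lit 13839874248) (nat_lit 76) (nat_lit 8314237715) (nat_lit 80) (nat_lit 4) (nat_lit 81) (nat_lit 5) (nat_lit 81) (nat_lit 4) (nat_lit 466) (nat_lit 301) (nat_lit 253)) (XT.lf (nat_lit 0) (nat_lit 260018928) (nat_lit 76) (nat_lit 2615368905) (nat_lit 152) (nat_lit 25956876315) (nat_lit 78) (nat_lit 5) (nat_lit 79) (nat_lit 5) (nat_lit 80) (nat_lit 4) (nat_lit 467) (nat_lit 301) (nat_lit 252)))) (XT.nd (nat_lit 156) (nat_lit 228) (nat_lit 0) (XT.nd (nat_lit 78) (nat_lit 76) (nat_lit 0) (XT.lf (nat_lit 0) (nat_lit 14434320648) (nat_lit 152) (nat_lit 5941054220) (nat_lit 0) (nat_lit 8971307388) (nat_lit 78) (nat_lit 5) (nat_lit 80) (nat_lit 4) (nat_lit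 78) (nat_lit 4) (nat_lit 468) (nat_lit 301) (nat_lit 251)) (XT.lf (nat_lit 0) (nat_lit 17467749135) (nat_lit 76) (nat_lit 8958121609) (nat_lit 76) (nat_lit 3448086685) (nat_lit 77) (nat_lit 4) (nat_lit 78) (nat_lit 5) (nat_lit 78) (nat_lit 4) (nat_lit 469) (nat_lit 301) (nat_lit 250))) (XT.nd (nat_lit 78) (nat_lit 76) (nat_lit 0) (XT.lf (nat_lit 0) (nat_lit 8285716584) (nat_lit 152) (nat_lit 19234415626) (nat_lit 0) (nat_lit 2891845686) (nat_lit 75) (nat_lit 5) (nat_lit 77) (nat_lit 4) (nat_lit 75) (nat_lit 4) (nat_lit 470) (nat_lit 301) (nat_lit 249)) (XT.lf (nat_lit 0) (nat_lit 4508312182) (nat_lit 76) (nat_lit 15944592391) (nat_lit 76) (nat_lit 10507690010) (nat_lit 74) (nat_lit 4) (nat_lit 75) (nat_lit 5) (nat_lit 75) (nat_lit 4) (nat_lit 471) (nat_lit 301) (nat_lit 248)))))) (XT.nd (nat_lit 624) (nat_lit 684) (nat_lit 0) (XT.nd (nat_lit 312) (nat_lit 304) (nat_lit 0) (XT.nd (nat_lit 156) (nat_lit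 228) (nat_lit 0) (XT.nd (nat_lit 78) (nat_lit 76) (nat_lit 0) (XT.lf (nat_lit 0) (nat_lit 1519261738) (nat_lit 152) (nat_lit 2394579190) (nat_lit 76) (nat_lit 27608758903) (nat_lit 73) (nat_lit 5) (nat_lit 75) (nat_lit 5) (nat_lit 74) (nat_lit 4) (nat_lit 472) (nat_lit 301) (nat_lit 247)) (XT.lf (nat_lit 0) (nat_lit 13891151677) (nat_lit 152) (nat_lit 9668668278) (nat_lit 0) (nat_lit 8532664473) (nat_lit 72) (nat_lit 5) (nat_lit 74) (nat_lit 4) (nat_lit 72) (nat_lit 4) (nat_lit 473) (nat_lit 301) (nat_lit 246))) (XT.nd (nat_lit 78) (nat_lit 152) (nat_lit 0) (XT.lf (nat_lit 0) (nat_lit 15408661075) (nat_lit 76) (nat_lit 11332162919) (nat_lit 76) (nat_lit 5935442799) (nat_lit 71) (nat_lit 4) (nat_lit 72) (nat_lit 5) (nat_lit 72) (nat_lit 4) (nat_lit 474) (nat_lit 301) (nat_lit 245)) (XT.lf (nat_lit 0) (nat_lit 6652490919) (nat_lit 152) (nat_lit 25243678073) (nat_lit 0) (nat_lit 1376918632) (nat_lit 69)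 (nat_lit 5) (nat_lit 71) (nat_lit 4) (nat_lit 69) (nat_lit 4) (nat_lit 475) (nat_lit 301) (nat_lit 244)))) (XT.nd (nat_lit 156) (nat_lit 228) (nat_lit 0) (XT.nd (nat_lit 78) (nat_lit 0) (nat_lit 0) (XT.lf (nat_lit 0) (nat_lit 177286913) (nat_lit 76) (nat_lit 19506880967) (nat_lit 76) (nat_lit 14196320146) (nat_lit 68) (nat_lit 4) (nat_lit 69) (nat_lit 5) (nat_lit 69) (nat_lit 4) (nat_lit 476) (nat_lit 301) (nat_lit 243)) (XT.lf (nat_lit 0) (nat_lit 26670210276) (nat_lit 76) (nat_lit 6587944818) (nat_lit 76) (nat_lit 1243414547) (nat_lit 68) (nat_lit 4) (nat_lit 69) (nat_lit 5) (nat_lit 69) (nat_lit 4) (nat_lit 477) (nat_lit 301) (nat_lit 242))) (XT.nd (nat_lit 78) (nat_lit 76) (nat_lit 0) (XT.lf (nat_lit 0) (nat_lit 12008349605) (nat_lit 152) (nat_lit 16337589021) (nat_lit 0) (nat_lit 6787465799) (nat_lit 66) (nat_lit 5) (nat_lit 68) (nat_lit 4) (nat_lit 66) (nat_lit 4) (nat_lit 478) (nat_lit 301) (nat_lit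 241)) (XT.lf (nat_lit 0) (nat_lit 10523409645) (nat_lit 76) (nat_lit 15254021632) (nat_lit 76) (nat_lit 10002050966) (nat_lit 65) (nat_lit 4) (nat_lit 66) (nat_lit 5) (nat_lit 66) (nat_lit 4) (nat_lit 479) (nat_lit 301) (nat_lit 240))))) (XT.nd (nat_lit 312) (nat_lit 304) (nat_lit 0) (XT.nd (nat_lit 156) (nat_lit 228) (nat_lit 0) (XT.nd (nat_lit 78) (nat_lit 0) (nat_lit 0) (XT.lf (nat_lit 0) (nat_lit 1882306219) (nat_lit 76) (nat_lit 1646983584) (nat_lit 152) (nat_lit 32912142142) (nat_lit 63) (nat_lit 5) (nat_lit 64) (nat_lit 5) (nat_lit 65) (nat_lit 4) (nat_lit 480) (nat_lit 301) (nat_lit 239)) (XT.lf (nat_lit 0) (nat_lit 17540552770) (nat_lit 152) (nat_lit 7187665163) (nat_lit 0) (nat_lit 12383800898) (nat_lit 63) (nat_lit 5) (nat_lit 65) (nat_lit 4) (nat_lit 63) (nat_lit 4) (nat_lit 481) (nat_lit 301) (nat_lit 238))) (XT.nd (nat_lit 78) (nat_lit 152) (nat_lit 0) (XT.lf (nat_lit 0) (nat_lit 21204158658)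 (nat_lit 76) (nat_lit 10889643675) (nat_lit 76) (nat_lit 5705271531) (nat_lit 62) (nat_lit 4) (nat_lit 63) (nat_lit 5) (nat_lit 63) (nat_lit 4) (nat_lit 482) (nat_lit 301) (nat_lit 237)) (XT.lf (nat_lit 0) (nat_lit 8534215313) (nat_lit 152) (nat_lit 26491502109) (nat_lit 0) (nat_lit 3474809544) (nat_lit 60) (nat_lit 5) (nat_lit 62) (nat_lit 4) (nat_lit 60) (nat_lit 4) (nat_lit 483) (nat_lit 301) (nat_lit 236)))) (XT.nd (nat_lit 156) (nat_lit 228) (nat_lit 0) (XT.nd (nat_lit 78) (nat_lit 0) (nat_lit 0) (XT.lf (nat_lit 0) (nat_lit 2273372249) (nat_lit 76) (nat_lit 21013312480) (nat_lit 76) (nat_lit 15928630250) (nat_lit 59) (nat_lit 4) (nat_lit 60) (nat_lit 5) (nat_lit 60) (nat_lit 4) (nat_lit 484) (nat_lit 301) (nat_lit 235)) (XT.lf (nat_lit 0) (nat_lit 32247896275) (nat_lit 76) (nat_lit 6403885615) (nat_lit 76) (nat_lit 1294663132) (nat_lit 59) (nat_lit 4) (nat_lit 60) (nat_lit 5) (nat_lit 60) (nat_lit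 4) (nat_lit 485) (nat_lit 301) (nat_lit 234))) (XT.nd (nat_lit 78) (nat_lit 76) (nat_lit 0) (XT.lf (nat_lit 0) (nat_lit 13716154283) (nat_lit 152) (nat_lit 18240567871) (nat_lit 0) (nat_lit 8732612563) (nat_lit 57) (nat_lit 5) (nat_lit 59) (nat_lit 4) (nat_lit 57) (nat_lit 4) (nat_lit 486) (nat_lit 301) (nat_lit 233)) (XT.lf (nat_lit 0) (nat_lit 12174147406) (nat_lit 76) (nat_lit 17140538174) (nat_lit 76) (nat_lit 12134538645) (nat_lit 56) (nat_lit 4) (nat_lit 57) (nat_lit 5) (nat_lit 57) (nat_lit 4) (nat_lit 487) (nat_lit 301) (nat_lit 232))))))))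
noncomputable def xc26 : XT := (XT.nd (nat_lit 49140) (nat_lit 0) (nat_lit 2508) (XT.nd (nat_lit 47970) (nat_lit 0) (nat_lit 5396) (XT.nd (nat_lit 546) (nat_lit 76) (nat_lit 0) (XT.nd (nat_lit 234) (nat_lit 380) (nat_lit 0) (XT.nd (nat_lit 78) (nat_lit 76) (nat_lit 0) (XT.lf (nat_lit 0) (nat_lit 1452510715) (nat_lit 76) (nat_lit 1739762162) (nat_lit 152) (nat_lit 39035595443) (nat_lit 54) (nat_lit 5) (nat_lit 55) (nat_lit 5) (nat_lit 56) (nat_lit 4) (nat_lit 488) (nat_lit 301) (nat_lit 231)) (XT.nd (nat_lit 78) (nat_lit 76) (nat_lit 0) (XT.lf (nat_lit 0) (nat_lit 19073812615) (nat_lit 152) (nat_lit 9770392140) (nat_lit 0) (nat_lit 14171898183) (nat_lit 54) (nat_lit 5) (nat_lit 56) (nat_lit 4) (nat_lit 54) (nat_lit 4) (nat_lit 489) (nat_lit 301) (nat_lit 230)) (XT.lf (nat_lit 0) (nat_lit 22397568605) (nat_lit 76) (nat_lit 13174044725) (nat_lit 76) (nat_lit 8252176821) (nat_lit 53) (nat_lit 4) (nat_lit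 54) (nat_lit 5) (nat_lit 54) (nat_lit 4) (nat_lit 490) (nat_lit 301) (nat_lit 229)))) (XT.nd (nat_lit 156) (nat_lit 228) (nat_lit 0) (XT.nd (nat_lit 78) (nat_lit 0) (nat_lit 0) (XT.lf (nat_lit 0) (nat_lit 7897670898) (nat_lit 152) (nat_lit 33651105387) (nat_lit 0) (nat_lit 3100350308) (nat_lit 51) (nat_lit 5) (nat_lit 53) (nat_lit 4) (nat_lit 51) (nat_lit 4) (nat_lit 491) (nat_lit 301) (nat_lit 228)) (XT.lf (nat_lit 0) (nat_lit 24622418903) (nat_lit 152) (nat_lit 1059827063) (nat_lit 0) (nat_lit 19806838060) (nat_lit 51) (nat_lit 5) (nat_lit 53) (nat_lit 4) (nat_lit 51) (nat_lit 4) (nat_lit 492) (nat_lit 301) (nat_lit 227))) (XT.nd (nat_lit 78) (nat_lit 152) (nat_lit 0) (XT.lf (nat_lit 0) (nat_lit 32971000169) (nat_lit 76) (nat_lit 9104870211) (nat_lit 76) (nat_lit 4271560967) (nat_lit 50) (nat_lit 4) (nat_lit 51) (nat_lit 5) (nat_lit 51) (nat_lit 4) (nat_lit 493) (nat_lit 301) (nat_lit 226)) (XT.lf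 (nat_lit 0) (nat_lit 12772157079) (nat_lit 152) (nat_lit 26386732913) (nat_lit 0) (nat_lit 8062913113) (nat_lit 48) (nat_lit 5) (nat_lit 50) (nat_lit 4) (nat_lit 48) (nat_lit 4) (nat_lit 494) (nat_lit 301) (nat_lit 225))))) (XT.nd (nat_lit 47112) (nat_lit 0) (nat_lit 7524) (XT.nd (nat_lit 46956) (nat_lit 0) (nat_lit 8056) (XT.nd (nat_lit 78) (nat_lit 0) (nat_lit 0) (XT.lf (nat_lit 0) (nat_lit 8070878552) (nat_lit 76) (nat_lit 22384650378) (nat_lit 76) (nat_lit 17659182414) (nat_lit 47) (nat_lit 4) (nat_lit 48) (nat_lit 5) (nat_lit 48) (nat_lit 4) (nat_lit 495) (nat_lit 301) (nat_lit 224)) (XT.lf (nat_lit 0) (nat_lit 43923298288) (nat_lit 76) (nat_lit 4923502990) (nat_lit 76) (nat_lit 182283571) (nat_lit 47) (nat_lit 4) (nat_lit 48) (nat_lit 5) (nat_lit 48) (nat_lit 4) (nat_lit 496) (nat_lit 301) (nat_lit 223))) (XT.nd (nat_lit 78) (nat_lit 228) (nat_lit 0) (XT.lf (nat_lit 0) (nat_lit 818693997) (nat_lit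 152) (nat_lit 2781259299) (nat_lit 152) (nat_lit 2781259299) (nat_lit 156) (nat_lit 4) (nat_lit 158) (nat_lit 5) (nat_lit 158) (nat_lit 4) (nat_lit 416) (nat_lit 302) (nat_lit 302)) (XT.lf (nat_lit 0) (nat_lit 818622953) (nat_lit 228) (nat_lit 11710878950) (nat_lit 0) (nat_lit 411790681) (nat_lit 153) (nat_lit 5) (nat_lit 156) (nat_lit 4) (nat_lit 153) (nat_lit 4) (nat_lit 417) (nat_lit 302) (nat_lit 301)))) (XT.nd (nat_lit 156) (nat_lit 228) (nat_lit 0) (XT.nd (nat_lit 78) (nat_lit 152) (nat_lit 0) (XT.lf (nat_lit 0) (nat_lit 713641005) (nat_lit 152) (nat_lit 6605428826) (nat_lit 152) (nat_lit 5803613767) (nat_lit 151) (nat_lit 4) (nat_lit 153) (nat_lit 5) (nat_lit 153) (nat_lit 4) (nat_lit 418) (nat_lit 302) (nat_lit 300)) (XT.lf (nat_lit 0) (nat_lit 189051311) (nat_lit 76) (nat_lit 487965833) (nat_lit 152) (nat_lit 12632723068) (nat_lit 149) (nat_lit 5) (nat_lit 150) (nat_lit 5) (nat_lit 151) (nat_lit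 4) (nat_lit 419) (nat_lit 302) (nat_lit 299))) (XT.nd (nat_lit 78) (nat_lit 228) (nat_lit 0) (XT.lf (nat_lit 0) (nat_lit 7282804193) (nat_lit 152) (nat_lit 445890353) (nat_lit 0) (nat_lit 5770568608) (nat_lit 149) (nat_lit 5) (nat_lit 151) (nat_lit 4) (nat_lit 149) (nat_lit 4) (nat_lit 420) (nat_lit 302) (nat_lit 298)) (XT.lf (nat_lit 0) (nat_lit 379482179) (nat_lit 228) (nat_lit 1092823852) (nat_lit 76) (nat_lit 12222207300) (nat_lit 146) (nat_lit 5) (nat_lit 149) (nat_lit 5) (nat_lit 147) (nat_lit 4) (nat_lit 421) (nat_lit 302) (nat_lit 297)))))) (XT.nd (nat_lit 546) (nat_lit 1140) (nat_lit 0) (XT.nd (nat_lit 234) (nat_lit 608) (nat_lit 0) (XT.nd (nat_lit 78) (nat_lit 304) (nat_lit 0) (XT.lf (nat_lit 0) (nat_lit 7086655133) (nat_lit 152) (nat_lit 1859012703) (nat_lit 0) (nat_lit 4946957756) (nat_lit 145) (nat_lit 5) (nat_lit 147) (nat_lit 4) (nat_lit 145) (nat_lit 4) (nat_lit 422) (nat_lit 302) (nat_lit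 296)) (XT.nd (nat_lit 78) (nat_lit 152) (nat_lit 0) (XT.lf (nat_lit 0) (nat_lit 11443127500) (nat_lit 152) (nat_lit 2557125973) (nat_lit 152) (nat_lit 96271443) (nat_lit 143) (nat_lit 4) (nat_lit 145) (nat_lit 5) (nat_lit 145) (nat_lit 4) (nat_lit 423) (nat_lit 302) (nat_lit 295)) (XT.lf (nat_lit 0) (nat_lit 6713381737) (nat_lit 152) (nat_lit 3568763814) (nat_lit 0) (nat_lit 4021481164) (nat_lit 141) (nat_lit 5) (nat_lit 143) (nat_lit 4) (nat_lit 141) (nat_lit 4) (nat_lit 424) (nat_lit 302) (nat_lit 294)))) (XT.nd (nat_lit 156) (nat_lit 304) (nat_lit 0) (XT.nd (nat_lit 78) (nat_lit 152) (nat_lit 0) (XT.lf (nat_lit 0) (nat_lit 9985415470) (nat_lit 152) (nat_lit 3758375165) (nat_lit 152) (nat_lit 772570304) (nat_lit 139) (nat_lit 4) (nat_lit 141) (nat_lit 5) (nat_lit 141) (nat_lit 4) (nat_lit 425) (nat_lit 302) (nat_lit 293)) (XT.lf (nat_lit 0) (nat_lit 6151482468) (nat_lit 152) (nat_lit 5605868626) (nat_lit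 0) (nat_lit 2975609817) (nat_lit 137) (nat_lit 5) (nat_lit 139) (nat_lit 4) (nat_lit 137) (nat_lit 4) (nat_lit 426) (nat_lit 302) (nat_lit 292))) (XT.nd (nat_lit 78) (nat_lit 152) (nat_lit 0) (XT.lf (nat_lit 0) (nat_lit 8201363118) (nat_lit 152) (nat_lit 5099159591) (nat_lit 152) (nat_lit 1654322881) (nat_lit 135) (nat_lit 4) (nat_lit 137) (nat_lit 5) (nat_lit 137) (nat_lit 4) (nat_lit 427) (nat_lit 302) (nat_lit 291)) (XT.lf (nat_lit 0) (nat_lit 5388295546) (nat_lit 152) (nat_lit 8002803437) (nat_lit 0) (nat_lit 1790269465) (nat_lit 133) (nat_lit 5) (nat_lit 135) (nat_lit 4) (nat_lit 133) (nat_lit 4) (nat_lit 428) (nat_lit 302) (nat_lit 290))))) (XT.nd (nat_lit 312) (nat_lit 532) (nat_lit 0) (XT.nd (nat_lit 156) (nat_lit 304) (nat_lit 0) (XT.nd (nat_lit 78) (nat_lit 152) (nat_lit 0) (XT.lf (nat_lit 0) (nat_lit 6058163064) (nat_lit 152) (nat_lit 6599370551) (nat_lit 152) (nat_lit 2755204255) (nat_lit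 131) (nat_lit 4) (nat_lit 133) (nat_lit 5) (nat_lit 133) (nat_lit 4) (nat_lit 429) (nat_lit 302) (nat_lit 289)) (XT.lf (nat_lit 0) (nat_lit 4409953979) (nat_lit 152) (nat_lit 10793940236) (nat_lit 0) (nat_lit 445742932) (nat_lit 129) (nat_lit 5) (nat_lit 131) (nat_lit 4) (nat_lit 129) (nat_lit 4) (nat_lit 430) (nat_lit 302) (nat_lit 288))) (XT.nd (nat_lit 78) (nat_lit 152) (nat_lit 0) (XT.lf (nat_lit 0) (nat_lit 3521076381) (nat_lit 152) (nat_lit 8279616387) (nat_lit 152) (nat_lit 4090152175) (nat_lit 127) (nat_lit 4) (nat_lit 129) (nat_lit 5) (nat_lit 129) (nat_lit 4) (nat_lit 431) (nat_lit 302) (nat_lit 287)) (XT.lf (nat_lit 0) (nat_lit 2112016705) (nat_lit 76) (nat_lit 1099891328) (nat_lit 152) (nat_lit 12926378983) (nat_lit 125) (nat_lit 5) (nat_lit 126) (nat_lit 5) (nat_lit 127) (nat_lit 4) (nat_lit 432) (nat_lit 302) (nat_lit 286)))) (XT.nd (nat_lit 156) (nat_lit 304) (nat_lit 0) (XT.nd (nat_lit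 78) (nat_lit 76) (nat_lit 0) (XT.lf (nat_lit 0) (nat_lit 553279509) (nat_lit 152) (nat_lit 10161323385) (nat_lit 152) (nat_lit 5675421136) (nat_lit 123) (nat_lit 4) (nat_lit 125) (nat_lit 5) (nat_lit 125) (nat_lit 4) (nat_lit 433) (nat_lit 302) (nat_lit 285)) (XT.lf (nat_lit 0) (nat_lit 1783928838) (nat_lit 228) (nat_lit 1064661224) (nat_lit 76) (nat_lit 13799430433) (nat_lit 122) (nat_lit 5) (nat_lit 125) (nat_lit 5) (nat_lit 123) (nat_lit 4) (nat_lit 434) (nat_lit 302) (nat_lit 284))) (XT.nd (nat_lit 78) (nat_lit 228) (nat_lit 0) (XT.lf (nat_lit 0) (nat_lit 9410267946) (nat_lit 152) (nat_lit 2828013063) (nat_lit 0) (nat_lit 4672071708) (nat_lit 121) (nat_lit 5) (nat_lit 123) (nat_lit 4) (nat_lit 121) (nat_lit 4) (nat_lit 435) (nat_lit 302) (nat_lit 283)) (XT.lf (nat_lit 0) (nat_lit 118631486) (nat_lit 228) (nat_lit 4680525757) (nat_lit 76) (nat_lit 12380309853) (nat_lit 118) (nat_lit 5) (nat_lit 121)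 (nat_lit 5) (nat_lit 119) (nat_lit 4) (nat_lit 436) (nat_lit 302) (nat_lit 282))))))) (XT.nd (nat_lit 1170) (nat_lit 1444) (nat_lit 0) (XT.nd (nat_lit 546) (nat_lit 760) (nat_lit 0) (XT.nd (nat_lit 234) (nat_lit 380) (nat_lit 0) (XT.nd (nat_lit 78) (nat_lit 228) (nat_lit 0) (XT.lf (nat_lit 0) (nat_lit 7852085878) (nat_lit 152) (nat_lit 6699793021) (nat_lit 0) (nat_lit 2901440632) (nat_lit 117) (nat_lit 5) (nat_lit 119) (nat_lit 4) (nat_lit 117) (nat_lit 4) (nat_lit 437) (nat_lit 302) (nat_lit 281)) (XT.nd (nat_lit 78) (nat_lit 152) (nat_lit 0) (XT.lf (nat_lit 0) (nat_lit 8897078373) (nat_lit 76) (nat_lit 6977427530) (nat_lit 76) (nat_lit 1859172775) (nat_lit 116) (nat_lit 4) (nat_lit 117) (nat_lit 5) (nat_lit 117) (nat_lit 4) (nat_lit 438) (nat_lit 302) (nat_lit 280)) (XT.lf (nat_lit 0) (nat_lit 6015595423) (nat_lit 152) (nat_lit 11116068467) (nat_lit 0) (nat_lit 888428012) (nat_lit 114) (nat_lit 5)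 (nat_lit 116) (nat_lit 4) (nat_lit 114) (nat_lit 4) (nat_lit 439) (nat_lit 302) (nat_lit 279)))) (XT.nd (nat_lit 156) (nat_lit 152) (nat_lit 0) (XT.nd (nat_lit 78) (nat_lit 152) (nat_lit 0) (XT.lf (nat_lit 0) (nat_lit 4748457824) (nat_lit 76) (nat_lit 9422100868) (nat_lit 76) (nat_lit 4141547012) (nat_lit 113) (nat_lit 4) (nat_lit 114) (nat_lit 5) (nat_lit 114) (nat_lit 4) (nat_lit 440) (nat_lit 302) (nat_lit 278)) (XT.lf (nat_lit 0) (nat_lit 2474915339) (nat_lit 76) (nat_lit 1418871888) (nat_lit 152) (nat_lit 14717539979) (nat_lit 111) (nat_lit 5) (nat_lit 112) (nat_lit 5) (nat_lit 113) (nat_lit 4) (nat_lit 441) (nat_lit 302) (nat_lit 277))) (XT.nd (nat_lit 78) (nat_lit 76) (nat_lit 0) (XT.lf (nat_lit 0) (nat_lit 7774231) (nat_lit 76) (nat_lit 12159900997) (nat_lit 76) (nat_lit 6748197921) (nat_lit 110) (nat_lit 4) (nat_lit 111) (nat_lit 5) (nat_lit 111) (nat_lit 4) (nat_lit 442) (nat_lit 302) (nat_lit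 276)) (XT.lf (nat_lit 0) (nat_lit 1487156840) (nat_lit 152) (nat_lit 2529056559) (nat_lit 76) (nat_lit 15211258173) (nat_lit 109) (nat_lit 5) (nat_lit 111) (nat_lit 5) (nat_lit 110) (nat_lit 4) (nat_lit 443) (nat_lit 302) (nat_lit 275))))) (XT.nd (nat_lit 312) (nat_lit 380) (nat_lit 0) (XT.nd (nat_lit 156) (nat_lit 228) (nat_lit 0) (XT.nd (nat_lit 78) (nat_lit 76) (nat_lit 0) (XT.lf (nat_lit 0) (nat_lit 9894934284) (nat_lit 152) (nat_lit 5269567023) (nat_lit 0) (nat_lit 4380082401) (nat_lit 108) (nat_lit 5) (nat_lit 110) (nat_lit 4) (nat_lit 108) (nat_lit 4) (nat_lit 444) (nat_lit 302) (nat_lit 274)) (XT.lf (nat_lit 0) (nat_lit 11718393939) (nat_lit 76) (nat_lit 6895310789) (nat_lit 76) (nat_lit 1255741690) (nat_lit 107) (nat_lit 4) (nat_lit 108) (nat_lit 5) (nat_lit 108) (nat_lit 4) (nat_lit 445) (nat_lit 302) (nat_lit 273))) (XT.nd (nat_lit 78) (nat_lit 76) (nat_lit 0) (XT.lf (nat_lit 0) (nat_lit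 7283143079) (nat_lit 152) (nat_lit 11227384533) (nat_lit 0) (nat_lit 1690275337) (nat_lit 105) (nat_lit 5) (nat_lit 107) (nat_lit 4) (nat_lit 105) (nat_lit 4) (nat_lit 446) (nat_lit 302) (nat_lit 272)) (XT.lf (nat_lit 0) (nat_lit 6040349928) (nat_lit 76) (nat_lit 10102835998) (nat_lit 76) (nat_lit 4395834336) (nat_lit 104) (nat_lit 4) (nat_lit 105) (nat_lit 5) (nat_lit 105) (nat_lit 4) (nat_lit 447) (nat_lit 302) (nat_lit 271)))) (XT.nd (nat_lit 156) (nat_lit 228) (nat_lit 0) (XT.nd (nat_lit 78) (nat_lit 0) (nat_lit 0) (XT.lf (nat_lit 0) (nat_lit 2951487950) (nat_lit 76) (nat_lit 1368363893) (nat_lit 152) (nat_lit 16565557451) (nat_lit 102) (nat_lit 5) (nat_lit 103) (nat_lit 5) (nat_lit 104) (nat_lit 4) (nat_lit 448) (nat_lit 302) (nat_lit 270)) (XT.lf (nat_lit 0) (nat_lit 13310807615) (nat_lit 152) (nat_lit 369013731) (nat_lit 0) (nat_lit 7557998432) (nat_lit 102) (nat_lit 5) (nat_lit 104) (nat_lit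 4) (nat_lit 102) (nat_lit 4) (nat_lit 449) (nat_lit 302) (nat_lit 269))) (XT.nd (nat_lit 78) (nat_lit 76) (nat_lit 0) (XT.lf (nat_lit 0) (nat_lit 1021797637) (nat_lit 152) (nat_lit 3779966488) (nat_lit 76) (nat_lit 16796657030) (nat_lit 100) (nat_lit 5) (nat_lit 102) (nat_lit 5) (nat_lit 101) (nat_lit 4) (nat_lit 450) (nat_lit 302) (nat_lit 268)) (XT.lf (nat_lit 0) (nat_lit 10150885106) (nat_lit 152) (nat_lit 7442871567) (nat_lit 0) (nat_lit 4371595189) (nat_lit 99) (nat_lit 5) (nat_lit 101) (nat_lit 4) (nat_lit 99) (nat_lit 4) (nat_lit 451) (nat_lit 302) (nat_lit 267)))))) (XT.nd (nat_lit 624) (nat_lit 684) (nat_lit 0) (XT.nd (nat_lit 312) (nat_lit 380) (nat_lit 0) (XT.nd (nat_lit 156) (nat_lit 152) (nat_lit 0) (XT.nd (nat_lit 78) (nat_lit 152) (nat_lit 0) (XT.lf (nat_lit 0) (nat_lit 11048418338) (nat_lit 76) (nat_lit 8582328175) (nat_lit 76) (nat_lit 2710236937) (nat_lit 98) (nat_lit 4) (nat_lit 99)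 (nat_lit 5) (nat_lit 99) (nat_lit 4) (nat_lit 452) (nat_lit 302) (nat_lit 266)) (XT.lf (nat_lit 0) (nat_lit 6576167623) (nat_lit 152) (nat_lit 15360985267) (nat_lit 0) (nat_lit 787634022) (nat_lit 96) (nat_lit 5) (nat_lit 98) (nat_lit 4) (nat_lit 96) (nat_lit 4) (nat_lit 453) (nat_lit 302) (nat_lit 265))) (XT.nd (nat_lit 78) (nat_lit 76) (nat_lit 0) (XT.lf (nat_lit 0) (nat_lit 3419701566) (nat_lit 76) (nat_lit 12784762334) (nat_lit 76) (nat_lit 6911302378) (nat_lit 95) (nat_lit 4) (nat_lit 96) (nat_lit 5) (nat_lit 96) (nat_lit 4) (nat_lit 454) (nat_lit 302) (nat_lit 264)) (XT.lf (nat_lit 0) (nat_lit 2593803913) (nat_lit 152) (nat_lit 690490783) (nat_lit 76) (nat_lit 20232185648) (nat_lit 94) (nat_lit 5) (nat_lit 96) (nat_lit 5) (nat_lit 95) (nat_lit 4) (nat_lit 455) (nat_lit 302) (nat_lit 263)))) (XT.nd (nat_lit 156) (nat_lit 228) (nat_lit 0) (XT.nd (nat_lit 78) (nat_lit 76) (nat_lit 0) (XT.lf (nat_lit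 0) (nat_lit 12379539015) (nat_lit 152) (nat_lit 5024212549) (nat_lit 0) (nat_lit 6519379828) (nat_lit 93) (nat_lit 5) (nat_lit 95) (nat_lit 4) (nat_lit 93) (nat_lit 4) (nat_lit 456) (nat_lit 302) (nat_lit 262)) (XT.lf (nat_lit 0) (nat_lit 14782023255) (nat_lit 76) (nat_lit 7746738206) (nat_lit 76) (nat_lit 1811123053) (nat_lit 92) (nat_lit 4) (nat_lit 93) (nat_lit 5) (nat_lit 93) (nat_lit 4) (nat_lit 457) (nat_lit 302) (nat_lit 261))) (XT.nd (nat_lit 78) (nat_lit 76) (nat_lit 0) (XT.lf (nat_lit 0) (nat_lit 8115115113) (nat_lit 152) (nat_lit 14368537116) (nat_lit 0) (nat_lit 2281257469) (nat_lit 90) (nat_lit 5) (nat_lit 92) (nat_lit 4) (nat_lit 90) (nat_lit 4) (nat_lit 458) (nat_lit 302) (nat_lit 260)) (XT.lf (nat_lit 0) (nat_lit 5739417372) (nat_lit 76) (nat_lit 12681054428) (nat_lit 76) (nat_lit 6778143885) (nat_lit 89) (nat_lit 4) (nat_lit 90) (nat_lit 5) (nat_lit 90) (nat_lit 4) (nat_lit 459) (nat_lit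 302) (nat_lit 259))))) (XT.nd (nat_lit 312) (nat_lit 304) (nat_lit 0) (XT.nd (nat_lit 156) (nat_lit 228) (nat_lit 0) (XT.nd (nat_lit 78) (nat_lit 0) (nat_lit 0) (XT.lf (nat_lit 0) (nat_lit 864621312) (nat_lit 76) (nat_lit 2502163665) (nat_lit 152) (nat_lit 22276272181) (nat_lit 87) (nat_lit 5) (nat_lit 88) (nat_lit 5) (nat_lit 89) (nat_lit 4) (nat_lit 460) (nat_lit 302) (nat_lit 258)) (XT.lf (nat_lit 0) (nat_lit 13843510286) (nat_lit 152) (nat_lit 4266150788) (nat_lit 0) (nat_lit 7984247013) (nat_lit 87) (nat_lit 5) (nat_lit 89) (nat_lit 4) (nat_lit 87) (nat_lit 4) (nat_lit 461) (nat_lit 302) (nat_lit 257))) (XT.nd (nat_lit 78) (nat_lit 152) (nat_lit 0) (XT.lf (nat_lit 0) (nat_lit 16951514736) (nat_lit 76) (nat_lit 7762500673) (nat_lit 76) (nat_lit 1841884794) (nat_lit 86) (nat_lit 4) (nat_lit 87) (nat_lit 5) (nat_lit 87) (nat_lit 4) (nat_lit 462) (nat_lit 302) (nat_lit 256)) (XT.lf (nat_lit 0) (nat_lit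 8783455436) (nat_lit 152) (nat_lit 15265947280) (nat_lit 0) (nat_lit 2977453963) (nat_lit 84) (nat_lit 5) (nat_lit 86) (nat_lit 4) (nat_lit 84) (nat_lit 4) (nat_lit 463) (nat_lit 302) (nat_lit 255)))) (XT.nd (nat_lit 156) (nat_lit 76) (nat_lit 0) (XT.nd (nat_lit 78) (nat_lit 152) (nat_lit 0) (XT.lf (nat_lit 0) (nat_lit 6265109040) (nat_lit 76) (nat_lit 13552313456) (nat_lit 76) (nat_lit 7690165658) (nat_lit 83) (nat_lit 4) (nat_lit 84) (nat_lit 5) (nat_lit 84) (nat_lit 4) (nat_lit 464) (nat_lit 302) (nat_lit 254)) (XT.lf (nat_lit 0) (nat_lit 518813013) (nat_lit 76) (nat_lit 2651370142) (nat_lit 152) (nat_lit 24830064585) (nat_lit 81) (nat_lit 5) (nat_lit 82) (nat_lit 5) (nat_lit 83) (nat_lit 4) (nat_lit 465) (nat_lit 302) (nat_lit 253))) (XT.nd (nat_lit 78) (nat_lit 76) (nat_lit 0) (XT.lf (nat_lit 0) (nat_lit 14392808713) (nat_lit 152) (nat_lit 5509765318) (nat_lit 0) (nat_lit 8597097945) (nat_lit 81)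 (nat_lit 5) (nat_lit 83) (nat_lit 4) (nat_lit 81) (nat_lit 4) (nat_lit 466) (nat_lit 302) (nat_lit 252)) (XT.lf (nat_lit 0) (nat_lit 17220942988) (nat_lit 76) (nat_lit 8818062612) (nat_lit 76) (nat_lit 2972466561) (nat_lit 80) (nat_lit 4) (nat_lit 81) (nat_lit 5) (nat_lit 81) (nat_lit 4) (nat_lit 467) (nat_lit 302) (nat_lit 251))))))))
noncomputable def xc27 : XT := (XT.nd (nat_lit 48984) (nat_lit 0) (nat_lit 4560) (XT.nd (nat_lit 1170) (nat_lit 1140) (nat_lit 0) (XT.nd (nat_lit 546) (nat_lit 684) (nat_lit 0) (XT.nd (nat_lit 234) (nat_lit 380) (nat_lit 0) (XT.nd (nat_lit 78) (nat_lit 152) (nat_lit 0) (XT.lf (nat_lit 0) (nat_lit 8414927420) (nat_lit 152) (nat_lit 18426136530) (nat_lit 0) (nat_lit 2692569785) (nat_lit 78) (nat_lit 5) (nat_lit 80) (nat_lit 4) (nat_lit 78) (nat_lit 4) (nat_lit 468) (nat_lit 302) (nat_lit 250)) (XT.nd (nat_lit 78) (nat_lit 76) (nat_lit 0) (XT.lf (nat_lit 0) (nat_lit 4628688286)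 (nat_lit 76) (nat_lit 15602740903) (nat_lit 76) (nat_lit 9834731167) (nat_lit 77) (nat_lit 4) (nat_lit 78) (nat_lit 5) (nat_lit 78) (nat_lit 4) (nat_lit 469) (nat_lit 302) (nat_lit 249)) (XT.lf (nat_lit 0) (nat_lit 1836002583) (nat_lit 152) (nat_lit 2085246919) (nat_lit 76) (nat_lit 26690403971) (nat_lit 76) (nat_lit 5) (nat_lit 78) (nat_lit 5) (nat_lit 77) (nat_lit 4) (nat_lit 470) (nat_lit 302) (nat_lit 248)))) (XT.nd (nat_lit 156) (nat_lit 228) (nat_lit 0) (XT.nd (nat_lit 78) (nat_lit 76) (nat_lit 0) (XT.lf (nat_lit 0) (nat_lit 13849921396) (nat_lit 152) (nat_lit 9149844517) (nat_lit 0) (nat_lit 8165102321) (nat_lit 75) (nat_lit 5) (nat_lit 77) (nat_lit 4) (nat_lit 75) (nat_lit 4) (nat_lit 471) (nat_lit 302) (nat_lit 247)) (XT.lf (nat_lit 0) (nat_lit 15200639600) (nat_lit 76) (nat_lit 11128142245) (nat_lit 76) (nat_lit 5402761870) (nat_lit 74) (nat_lit 4) (nat_lit 75) (nat_lit 5) (nat_lit 75) (nat_lit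 4) (nat_lit 472) (nat_lit 302) (nat_lit 246))) (XT.nd (nat_lit 78) (nat_lit 76) (nat_lit 0) (XT.lf (nat_lit 0) (nat_lit 6813685559) (nat_lit 152) (nat_lit 24280295968) (nat_lit 0) (nat_lit 1216830920) (nat_lit 72) (nat_lit 5) (nat_lit 74) (nat_lit 4) (nat_lit 72) (nat_lit 4) (nat_lit 473) (nat_lit 302) (nat_lit 245)) (XT.lf (nat_lit 0) (nat_lit 403732528) (nat_lit 76) (nat_lit 19065332522) (nat_lit 76) (nat_lit 13431358547) (nat_lit 71) (nat_lit 4) (nat_lit 72) (nat_lit 5) (nat_lit 72) (nat_lit 4) (nat_lit 474) (nat_lit 302) (nat_lit 244))))) (XT.nd (nat_lit 312) (nat_lit 304) (nat_lit 0) (XT.nd (nat_lit 156) (nat_lit 228) (nat_lit 0) (XT.nd (nat_lit 78) (nat_lit 152) (nat_lit 0) (XT.lf (nat_lit 0) (nat_lit 26123987971) (nat_lit 76) (nat_lit 6524704834) (nat_lit 76) (nat_lit 854692669) (nat_lit 71) (nat_lit 4) (nat_lit 72) (nat_lit 5) (nat_lit 72) (nat_lit 4) (nat_lit 475) (nat_lit 302) (nat_lit 243))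 (XT.lf (nat_lit 0) (nat_lit 12006150350) (nat_lit 152) (nat_lit 15643192641) (nat_lit 0) (nat_lit 6467314721) (nat_lit 69) (nat_lit 5) (nat_lit 71) (nat_lit 4) (nat_lit 69) (nat_lit 4) (nat_lit 476) (nat_lit 302) (nat_lit 242))) (XT.nd (nat_lit 78) (nat_lit 152) (nat_lit 0) (XT.lf (nat_lit 0) (nat_lit 10438854277) (nat_lit 76) (nat_lit 14938393708) (nat_lit 76) (nat_lit 9366578029) (nat_lit 68) (nat_lit 4) (nat_lit 69) (nat_lit 5) (nat_lit 69) (nat_lit 4) (nat_lit 477) (nat_lit 302) (nat_lit 241)) (XT.lf (nat_lit 0) (nat_lit 2042968862) (nat_lit 76) (nat_lit 1723929662) (nat_lit 152) (nat_lit 31619408813) (nat_lit 66) (nat_lit 5) (nat_lit 67) (nat_lit 5) (nat_lit 68) (nat_lit 4) (nat_lit 478) (nat_lit 302) (nat_lit 240)))) (XT.nd (nat_lit 156) (nat_lit 228) (nat_lit 0) (XT.nd (nat_lit 78) (nat_lit 76) (nat_lit 0) (XT.lf (nat_lit 0) (nat_lit 17369710943) (nat_lit 152) (nat_lit 6768749408) (nat_lit 0)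 (nat_lit 11898912882) (nat_lit 66) (nat_lit 5) (nat_lit 68) (nat_lit 4) (nat_lit 66) (nat_lit 4) (nat_lit 479) (nat_lit 302) (nat_lit 239)) (XT.lf (nat_lit 0) (nat_lit 20799461893) (nat_lit 76) (nat_lit 10702484727) (nat_lit 76) (nat_lit 5202384319) (nat_lit 65) (nat_lit 4) (nat_lit 66) (nat_lit 5) (nat_lit 66) (nat_lit 4) (nat_lit 480) (nat_lit 302) (nat_lit 238))) (XT.nd (nat_lit 78) (nat_lit 76) (nat_lit 0) (XT.lf (nat_lit 0) (nat_lit 8617359957) (nat_lit 152) (nat_lit 25518012824) (nat_lit 0) (nat_lit 3249836377) (nat_lit 63) (nat_lit 5) (nat_lit 65) (nat_lit 4) (nat_lit 63) (nat_lit 4) (nat_lit 481) (nat_lit 302) (nat_lit 237)) (XT.lf (nat_lit 0) (nat_lit 2412301758) (nat_lit 76) (nat_lit 20530567017) (nat_lit 76) (nat_lit 15136227639) (nat_lit 62) (nat_lit 4) (nat_lit 63) (nat_lit 5) (nat_lit 63) (nat_lit 4) (nat_lit 482) (nat_lit 302) (nat_lit 236)))))) (XT.nd (nat_lit 546) (nat_lit 532) (nat_lit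 0) (XT.nd (nat_lit 234) (nat_lit 380) (nat_lit 0) (XT.nd (nat_lit 78) (nat_lit 228) (nat_lit 0) (XT.lf (nat_lit 0) (nat_lit 31513037753) (nat_lit 76) (nat_lit 6348123064) (nat_lit 76) (nat_lit 927748931) (nat_lit 62) (nat_lit 4) (nat_lit 63) (nat_lit 5) (nat_lit 63) (nat_lit 4) (nat_lit 483) (nat_lit 302) (nat_lit 235)) (XT.nd (nat_lit 78) (nat_lit 76) (nat_lit 0) (XT.lf (nat_lit 0) (nat_lit 13640831393) (nat_lit 152) (nat_lit 17515401712) (nat_lit 0) (nat_lit 8353791982) (nat_lit 60) (nat_lit 5) (nat_lit 62) (nat_lit 4) (nat_lit 60) (nat_lit 4) (nat_lit 484) (nat_lit 302) (nat_lit 234)) (XT.lf (nat_lit 0) (nat_lit 12016626274) (nat_lit 76) (nat_lit 16770971835) (nat_lit 76) (nat_lit 11460106934) (nat_lit 59) (nat_lit 4) (nat_lit 60) (nat_lit 5) (nat_lit 60) (nat_lit 4) (nat_lit 485) (nat_lit 302) (nat_lit 233)))) (XT.nd (nat_lit 156) (nat_lit 228) (nat_lit 0) (XT.nd (nat_lit 78) (nat_lit 0) (nat_lit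 0) (XT.lf (nat_lit 0) (nat_lit 1601530486) (nat_lit 76) (nat_lit 1814985242) (nat_lit 152) (nat_lit 37586987279) (nat_lit 57) (nat_lit 5) (nat_lit 58) (nat_lit 5) (nat_lit 59) (nat_lit 4) (nat_lit 486) (nat_lit 302) (nat_lit 232)) (XT.lf (nat_lit 0) (nat_lit 18834886796) (nat_lit 152) (nat_lit 9299464751) (nat_lit 0) (nat_lit 13634445775) (nat_lit 57) (nat_lit 5) (nat_lit 59) (nat_lit 4) (nat_lit 57) (nat_lit 4) (nat_lit 487) (nat_lit 302) (nat_lit 231))) (XT.nd (nat_lit 78) (nat_lit 152) (nat_lit 0) (XT.lf (nat_lit 0) (nat_lit 21934669237) (nat_lit 76) (nat_lit 12919913833) (nat_lit 76) (nat_lit 7698304173) (nat_lit 56) (nat_lit 4) (nat_lit 57) (nat_lit 5) (nat_lit 57) (nat_lit 4) (nat_lit 488) (nat_lit 302) (nat_lit 230)) (XT.lf (nat_lit 0) (nat_lit 7976176167) (nat_lit 152) (nat_lit 32491185397) (nat_lit 0) (nat_lit 2886698753) (nat_lit 54) (nat_lit 5) (nat_lit 56) (nat_lit 4) (nat_lit 54) (nat_lit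 4) (nat_lit 489) (nat_lit 302) (nat_lit 229))))) (XT.nd (nat_lit 312) (nat_lit 228) (nat_lit 0) (XT.nd (nat_lit 156) (nat_lit 228) (nat_lit 0) (XT.nd (nat_lit 78) (nat_lit 76) (nat_lit 0) (XT.lf (nat_lit 0) (nat_lit 24214338130) (nat_lit 152) (nat_lit 849710148) (nat_lit 0) (nat_lit 19105488414) (nat_lit 54) (nat_lit 5) (nat_lit 56) (nat_lit 4) (nat_lit 54) (nat_lit 4) (nat_lit 490) (nat_lit 302) (nat_lit 228)) (XT.lf (nat_lit 0) (nat_lit 32192958109) (nat_lit 76) (nat_lit 8968757455) (nat_lit 76) (nat_lit 3841099677) (nat_lit 53) (nat_lit 4) (nat_lit 54) (nat_lit 5) (nat_lit 54) (nat_lit 4) (nat_lit 491) (nat_lit 302) (nat_lit 227))) (XT.nd (nat_lit 78) (nat_lit 76) (nat_lit 0) (XT.lf (nat_lit 0) (nat_lit 12701235220) (nat_lit 152) (nat_lit 25445167850) (nat_lit 0) (nat_lit 7705198296) (nat_lit 51) (nat_lit 5) (nat_lit 53) (nat_lit 4) (nat_lit 51) (nat_lit 4) (nat_lit 492) (nat_lit 302) (nat_lit 226))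 (XT.lf (nat_lit 0) (nat_lit 8011775656) (nat_lit 76) (nat_lit 21859955334) (nat_lit 76) (nat_lit 16846706370) (nat_lit 50) (nat_lit 4) (nat_lit 51) (nat_lit 5) (nat_lit 51) (nat_lit 4) (nat_lit 493) (nat_lit 302) (nat_lit 225)))) (XT.nd (nat_lit 156) (nat_lit 76) (nat_lit 0) (XT.nd (nat_lit 78) (nat_lit 76) (nat_lit 0) (XT.lf (nat_lit 0) (nat_lit 119260383) (nat_lit 152) (nat_lit 4787861103) (nat_lit 76) (nat_lit 42699008162) (nat_lit 49) (nat_lit 5) (nat_lit 51) (nat_lit 5) (nat_lit 50) (nat_lit 4) (nat_lit 494) (nat_lit 302) (nat_lit 224)) (XT.lf (nat_lit 0) (nat_lit 17587457281) (nat_lit 152) (nat_lit 18229786028) (nat_lit 0) (nat_lit 12688249824) (nat_lit 48) (nat_lit 5) (nat_lit 50) (nat_lit 4) (nat_lit 48) (nat_lit 4) (nat_lit 495) (nat_lit 302) (nat_lit 223))) (XT.nd (nat_lit 46722) (nat_lit 0) (nat_lit 8664) (XT.lf (nat_lit 0) (nat_lit 17173822910) (nat_lit 76) (nat_lit 18583591656) (nat_lit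 76) (nat_lit 13669091525) (nat_lit 47) (nat_lit 4) (nat_lit 48) (nat_lit 5) (nat_lit 48) (nat_lit 4) (nat_lit 496) (nat_lit 302) (nat_lit 222)) (XT.lf (nat_lit 0) (nat_lit 1230815296) (nat_lit 152) (nat_lit 2488617400) (nat_lit 152) (nat_lit 2488617400) (nat_lit 161) (nat_lit 4) (nat_lit 163) (nat_lit 5) (nat_lit 163) (nat_lit 4) (nat_lit 414) (nat_lit 303) (nat_lit 303))))))) (XT.nd (nat_lit 1170) (nat_lit 1824) (nat_lit 0) (XT.nd (nat_lit 546) (nat_lit 1140) (nat_lit 0) (XT.nd (nat_lit 234) (nat_lit 532) (nat_lit 0) (XT.nd (nat_lit 78) (nat_lit 380) (nat_lit 0) (XT.lf (nat_lit 0) (nat_lit 1234326685) (nat_lit 228) (nat_lit 10551854641) (nat_lit 0) (nat_lit 802718329) (nat_lit 158) (nat_lit 5) (nat_lit 161) (nat_lit 4) (nat_lit 158) (nat_lit 4) (nat_lit 415) (nat_lit 303) (nat_lit 302)) (XT.nd (nat_lit 78) (nat_lit 228) (nat_lit 0) (XT.lf (nat_lit 0) (nat_lit 1515095378) (nat_lit 152) (nat_lit 6049984235)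 (nat_lit 152) (nat_lit 5199338639) (nat_lit 156) (nat_lit 4) (nat_lit 158) (nat_lit 5) (nat_lit 158) (nat_lit 4) (nat_lit 416) (nat_lit 303) (nat_lit 301)) (XT.lf (nat_lit 0) (nat_lit 981836256) (nat_lit 152) (nat_lit 121274149) (nat_lit 228) (nat_lit 11842218673) (nat_lit 153) (nat_lit 5) (nat_lit 155) (nat_lit 5) (nat_lit 156) (nat_lit 4) (nat_lit 417) (nat_lit 303) (nat_lit 300)))) (XT.nd (nat_lit 156) (nat_lit 304) (nat_lit 0) (XT.nd (nat_lit 78) (nat_lit 76) (nat_lit 0) (XT.lf (nat_lit 0) (nat_lit 334536893) (nat_lit 152) (nat_lit 7199302731) (nat_lit 152) (nat_lit 5594971998) (nat_lit 151) (nat_lit 4) (nat_lit 153) (nat_lit 5) (nat_lit 153) (nat_lit 4) (nat_lit 418) (nat_lit 303) (nat_lit 299)) (XT.lf (nat_lit 0) (nat_lit 814973153) (nat_lit 228) (nat_lit 322244390) (nat_lit 76) (nat_lit 12180588956) (nat_lit 150) (nat_lit 5) (nat_lit 153) (nat_lit 5) (nat_lit 151) (nat_lit 4) (nat_lit 419) (nat_lit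 303) (nat_lit 298))) (XT.nd (nat_lit 78) (nat_lit 228) (nat_lit 0) (XT.lf (nat_lit 0) (nat_lit 7346743132) (nat_lit 152) (nat_lit 1086068638) (nat_lit 0) (nat_lit 5076738184) (nat_lit 149) (nat_lit 5) (nat_lit 151) (nat_lit 4) (nat_lit 149) (nat_lit 4) (nat_lit 420) (nat_lit 303) (nat_lit 297)) (XT.lf (nat_lit 0) (nat_lit 361264648) (nat_lit 228) (nat_lit 1877353333) (nat_lit 76) (nat_lit 11468291359) (nat_lit 146) (nat_lit 5) (nat_lit 149) (nat_lit 5) (nat_lit 147) (nat_lit 4) (nat_lit 421) (nat_lit 303) (nat_lit 296))))) (XT.nd (nat_lit 312) (nat_lit 608) (nat_lit 0) (XT.nd (nat_lit 156) (nat_lit 304) (nat_lit 0) (XT.nd (nat_lit 78) (nat_lit 152) (nat_lit 0) (XT.lf (nat_lit 0) (nat_lit 6989013049) (nat_lit 152) (nat_lit 2785215558) (nat_lit 0) (nat_lit 4133175732) (nat_lit 145) (nat_lit 5) (nat_lit 147) (nat_lit 4) (nat_lit 145) (nat_lit 4) (nat_lit 422) (nat_lit 303) (nat_lit 295)) (XT.lf (nat_lit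 0) (nat_lit 10378801087) (nat_lit 152) (nat_lit 3451161212) (nat_lit 152) (nat_lit 283520835) (nat_lit 143) (nat_lit 4) (nat_lit 145) (nat_lit 5) (nat_lit 145) (nat_lit 4) (nat_lit 423) (nat_lit 303) (nat_lit 294))) (XT.nd (nat_lit 78) (nat_lit 152) (nat_lit 0) (XT.lf (nat_lit 0) (nat_lit 6446465607) (nat_lit 152) (nat_lit 4799490633) (nat_lit 0) (nat_lit 3077182312) (nat_lit 141) (nat_lit 5) (nat_lit 143) (nat_lit 4) (nat_lit 141) (nat_lit 4) (nat_lit 424) (nat_lit 303) (nat_lit 293)) (XT.lf (nat_lit 0) (nat_lit 8610237285) (nat_lit 152) (nat_lit 4791262007) (nat_lit 152) (nat_lit 1136634742) (nat_lit 139) (nat_lit 4) (nat_lit 141) (nat_lit 5) (nat_lit 141) (nat_lit 4) (nat_lit 425) (nat_lit 303) (nat_lit 292)))) (XT.nd (nat_lit 156) (nat_lit 304) (nat_lit 0) (XT.nd (nat_lit 78) (nat_lit 152) (nat_lit 0) (XT.lf (nat_lit 0) (nat_lit 5706988385) (nat_lit 152) (nat_lit 7160634107) (nat_lit 0) (nat_lit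 1889842516) (nat_lit 137) (nat_lit 5) (nat_lit 139) (nat_lit 4) (nat_lit 137) (nat_lit 4) (nat_lit 426) (nat_lit 303) (nat_lit 291)) (XT.lf (nat_lit 0) (nat_lit 6495452755) (nat_lit 152) (nat_lit 6282261198) (nat_lit 152) (nat_lit 2203985175) (nat_lit 135) (nat_lit 4) (nat_lit 137) (nat_lit 5) (nat_lit 137) (nat_lit 4) (nat_lit 427) (nat_lit 303) (nat_lit 290))) (XT.nd (nat_lit 78) (nat_lit 152) (nat_lit 0) (XT.lf (nat_lit 0) (nat_lit 4757282435) (nat_lit 152) (nat_lit 9902209428) (nat_lit 0) (nat_lit 551650936) (nat_lit 133) (nat_lit 5) (nat_lit 135) (nat_lit 4) (nat_lit 133) (nat_lit 4) (nat_lit 428) (nat_lit 303) (nat_lit 289)) (XT.lf (nat_lit 0) (nat_lit 4000529405) (nat_lit 152) (nat_lit 7944514842) (nat_lit 152) (nat_lit 3499912260) (nat_lit 131) (nat_lit 4) (nat_lit 133) (nat_lit 5) (nat_lit 133) (nat_lit 4) (nat_lit 429) (nat_lit 303) (nat_lit 288)))))) (XT.nd (nat_lit 624) (nat_lit 760) (nat_lit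 0) (XT.nd (nat_lit 312) (nat_lit 608) (nat_lit 0) (XT.nd (nat_lit 156) (nat_lit 152) (nat_lit 0) (XT.nd (nat_lit 78) (nat_lit 152) (nat_lit 0) (XT.lf (nat_lit 0) (nat_lit 2615558595) (nat_lit 76) (nat_lit 976644329) (nat_lit 152) (nat_lit 12092494867) (nat_lit 129) (nat_lit 5) (nat_lit 130) (nat_lit 5) (nat_lit 131) (nat_lit 4) (nat_lit 430) (nat_lit 303) (nat_lit 287)) (XT.lf (nat_lit 0) (nat_lit 1089540904) (nat_lit 152) (nat_lit 9799143056) (nat_lit 152) (nat_lit 5040049361) (nat_lit 127) (nat_lit 4) (nat_lit 129) (nat_lit 5) (nat_lit 129) (nat_lit 4) (nat_lit 431) (nat_lit 303) (nat_lit 286))) (XT.nd (nat_lit 78) (nat_lit 76) (nat_lit 0) (XT.lf (nat_lit 0) (nat_lit 2198811590) (nat_lit 228) (nat_lit 507828878) (nat_lit 76) (nat_lit 13472260911) (nat_lit 126) (nat_lit 5) (nat_lit 129) (nat_lit 5) (nat_lit 127) (nat_lit 4) (nat_lit 432) (nat_lit 303) (nat_lit 285)) (XT.lf (nat_lit 0) (nat_lit 9614402422)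 (nat_lit 152) (nat_lit 2231199059) (nat_lit 0) (nat_lit 4587650032) (nat_lit 125) (nat_lit 5) (nat_lit 127) (nat_lit 4) (nat_lit 125) (nat_lit 4) (nat_lit 433) (nat_lit 303) (nat_lit 284)))) (XT.nd (nat_lit 156) (nat_lit 304) (nat_lit 0) (XT.nd (nat_lit 78) (nat_lit 76) (nat_lit 0) (XT.lf (nat_lit 0) (nat_lit 579467413) (nat_lit 228) (nat_lit 4044738899) (nat_lit 76) (nat_lit 12069871782) (nat_lit 122) (nat_lit 5) (nat_lit 125) (nat_lit 5) (nat_lit 123) (nat_lit 4) (nat_lit 434) (nat_lit 303) (nat_lit 283)) (XT.lf (nat_lit 0) (nat_lit 8098088138) (nat_lit 152) (nat_lit 6015605132) (nat_lit 0) (nat_lit 2845948597) (nat_lit 121) (nat_lit 5) (nat_lit 123) (nat_lit 4) (nat_lit 121) (nat_lit 4) (nat_lit 435) (nat_lit 303) (nat_lit 282))) (XT.nd (nat_lit 78) (nat_lit 152) (nat_lit 0) (XT.lf (nat_lit 0) (nat_lit 9131642414) (nat_lit 152) (nat_lit 6764928749) (nat_lit 152) (nat_lit 1334972280) (nat_lit 119)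 (nat_lit 4) (nat_lit 121) (nat_lit 5) (nat_lit 121) (nat_lit 4) (nat_lit 436) (nat_lit 303) (nat_lit 281)) (XT.lf (nat_lit 0) (nat_lit 6310790357) (nat_lit 152) (nat_lit 10327024305) (nat_lit 0) (nat_lit 871378450) (nat_lit 117) (nat_lit 5) (nat_lit 119) (nat_lit 4) (nat_lit 117) (nat_lit 4) (nat_lit 437) (nat_lit 303) (nat_lit 280))))) (XT.nd (nat_lit 312) (nat_lit 380) (nat_lit 0) (XT.nd (nat_lit 156) (nat_lit 152) (nat_lit 0) (XT.nd (nat_lit 78) (nat_lit 152) (nat_lit 0) (XT.lf (nat_lit 0) (nat_lit 5080040234) (nat_lit 76) (nat_lit 9157264392) (nat_lit 76) (nat_lit 3555124807) (nat_lit 116) (nat_lit 4) (nat_lit 117) (nat_lit 5) (nat_lit 117) (nat_lit 4) (nat_lit 438) (nat_lit 303) (nat_lit 279)) (XT.lf (nat_lit 0) (nat_lit 2859031403) (nat_lit 76) (nat_lit 1386859742) (nat_lit 152) (nat_lit 13836645977) (nat_lit 114) (nat_lit 5) (nat_lit 115) (nat_lit 5) (nat_lit 116) (nat_lit 4) (nat_lit 439) (nat_lit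 303) (nat_lit 278))) (XT.nd (nat_lit 78) (nat_lit 76) (nat_lit 0) (XT.lf (nat_lit 0) (nat_lit 455113897) (nat_lit 76) (nat_lit 11832061594) (nat_lit 76) (nat_lit 6090785801) (nat_lit 113) (nat_lit 4) (nat_lit 114) (nat_lit 5) (nat_lit 114) (nat_lit 4) (nat_lit 440) (nat_lit 303) (nat_lit 277)) (XT.lf (nat_lit 0) (nat_lit 1899760323) (nat_lit 152) (nat_lit 2029343772) (nat_lit 76) (nat_lit 14751125561) (nat_lit 112) (nat_lit 5) (nat_lit 114) (nat_lit 5) (nat_lit 113) (nat_lit 4) (nat_lit 441) (nat_lit 303) (nat_lit 276)))) (XT.nd (nat_lit 156) (nat_lit 228) (nat_lit 0) (XT.nd (nat_lit 78) (nat_lit 76) (nat_lit 0) (XT.lf (nat_lit 0) (nat_lit 10070398981) (nat_lit 152) (nat_lit 4697781479) (nat_lit 0) (nat_lit 4219692618) (nat_lit 111) (nat_lit 5) (nat_lit 113) (nat_lit 4) (nat_lit 111) (nat_lit 4) (nat_lit 442) (nat_lit 303) (nat_lit 275)) (XT.lf (nat_lit 0) (nat_lit 11799930255) (nat_lit 76) (nat_lit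 6743064631) (nat_lit 76) (nat_lit 760045774) (nat_lit 110) (nat_lit 4) (nat_lit 111) (nat_lit 5) (nat_lit 111) (nat_lit 4) (nat_lit 443) (nat_lit 303) (nat_lit 274))) (XT.nd (nat_lit 78) (nat_lit 76) (nat_lit 0) (XT.lf (nat_lit 0) (nat_lit 7528264969) (nat_lit 152) (nat_lit 10501344366) (nat_lit 0) (nat_lit 1594791581) (nat_lit 108) (nat_lit 5) (nat_lit 110) (nat_lit 4) (nat_lit 108) (nat_lit 4) (nat_lit 444) (nat_lit 303) (nat_lit 273)) (XT.lf (nat_lit 0) (nat_lit 6267929238) (nat_lit 76) (nat_lit 9869588983) (nat_lit 76) (nat_lit 3815030920) (nat_lit 107) (nat_lit 4) (nat_lit 108) (nat_lit 5) (nat_lit 108) (nat_lit 4) (nat_lit 445) (nat_lit 303) (nat_lit 272))))))))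
noncomputable def xc28 : XT := (XT.nd (nat_lit 2340) (nat_lit 1748) (nat_lit 0) (XT.nd (nat_lit 1170) (nat_lit 1368) (nat_lit 0) (XT.nd (nat_lit 546) (nat_lit 684) (nat_lit 0) (XT.nd (nat_lit 234) (nat_lit 380) (nat_lit 0) (XT.nd (nat_lit 78) (nat_lit 152) (nat_lit 0) (XT.lf (nat_lit 0) (nat_lit 3257281343) (nat_lit 76) (nat_lit 1387741978) (nat_lit 152) (nat_lit 15643483539) (nat_lit 105) (nat_lit 5) (nat_lit 106) (nat_lit 5) (nat_lit 107) (nat_lit 4) (nat_lit 446) (nat_lit 303) (nat_lit 271)) (XT.nd (nat_lit 78) (nat_lit 76) (nat_lit 0) (XT.lf (nat_lit 0) (nat_lit 19937952) (nat_lit 76) (nat_lit 13356894251) (nat_lit 76) (nat_lit 7253738989) (nat_lit 104) (nat_lit 4) (nat_lit 105) (nat_lit 5) (nat_lit 105) (nat_lit 4) (nat_lit 447) (nat_lit 303) (nat_lit 270)) (XT.lf (nat_lit 0) (nat_lit 1432353394) (nat_lit 152) (nat_lit 3303060037) (nat_lit 76) (nat_lit 16244931806) (nat_lit 103) (nat_lit 5) (nat_lit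 105) (nat_lit 5) (nat_lit 104) (nat_lit 4) (nat_lit 448) (nat_lit 303) (nat_lit 269)))) (XT.nd (nat_lit 156) (nat_lit 228) (nat_lit 0) (XT.nd (nat_lit 78) (nat_lit 76) (nat_lit 0) (XT.lf (nat_lit 0) (nat_lit 10301310303) (nat_lit 152) (nat_lit 6865043752) (nat_lit 0) (nat_lit 4170061630) (nat_lit 102) (nat_lit 5) (nat_lit 104) (nat_lit 4) (nat_lit 102) (nat_lit 4) (nat_lit 449) (nat_lit 303) (nat_lit 268)) (XT.lf (nat_lit 0) (nat_lit 11092038246) (nat_lit 76) (nat_lit 8419290900) (nat_lit 76) (nat_lit 2189589305) (nat_lit 101) (nat_lit 4) (nat_lit 102) (nat_lit 5) (nat_lit 102) (nat_lit 4) (nat_lit 450) (nat_lit 303) (nat_lit 267))) (XT.nd (nat_lit 78) (nat_lit 76) (nat_lit 0) (XT.lf (nat_lit 0) (nat_lit 6822994092) (nat_lit 152) (nat_lit 14568324627) (nat_lit 0) (nat_lit 681938795) (nat_lit 99) (nat_lit 5) (nat_lit 101) (nat_lit 4) (nat_lit 99) (nat_lit 4) (nat_lit 451) (nat_lit 303) (nat_lit 266))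 (XT.lf (nat_lit 0) (nat_lit 3669649609) (nat_lit 76) (nat_lit 12507088344) (nat_lit 76) (nat_lit 6275934676) (nat_lit 98) (nat_lit 4) (nat_lit 99) (nat_lit 5) (nat_lit 99) (nat_lit 4) (nat_lit 452) (nat_lit 303) (nat_lit 265))))) (XT.nd (nat_lit 312) (nat_lit 304) (nat_lit 0) (XT.nd (nat_lit 156) (nat_lit 228) (nat_lit 0) (XT.nd (nat_lit 78) (nat_lit 76) (nat_lit 0) (XT.lf (nat_lit 0) (nat_lit 2946303441) (nat_lit 152) (nat_lit 337631826) (nat_lit 76) (nat_lit 19557581475) (nat_lit 97) (nat_lit 5) (nat_lit 99) (nat_lit 5) (nat_lit 98) (nat_lit 4) (nat_lit 453) (nat_lit 303) (nat_lit 264)) (XT.lf (nat_lit 0) (nat_lit 12451704761) (nat_lit 152) (nat_lit 4549816315) (nat_lit 0) (nat_lit 6234661880) (nat_lit 96) (nat_lit 5) (nat_lit 98) (nat_lit 4) (nat_lit 96) (nat_lit 4) (nat_lit 454) (nat_lit 303) (nat_lit 263))) (XT.nd (nat_lit 78) (nat_lit 152) (nat_lit 0) (XT.lf (nat_lit 0) (nat_lit 14683781333) (nat_lit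 76) (nat_lit 7626973667) (nat_lit 76) (nat_lit 1329879550) (nat_lit 95) (nat_lit 4) (nat_lit 96) (nat_lit 5) (nat_lit 96) (nat_lit 4) (nat_lit 455) (nat_lit 303) (nat_lit 262)) (XT.lf (nat_lit 0) (nat_lit 8303173298) (nat_lit 152) (nat_lit 13635821077) (nat_lit 0) (nat_lit 2114033723) (nat_lit 93) (nat_lit 5) (nat_lit 95) (nat_lit 4) (nat_lit 93) (nat_lit 4) (nat_lit 456) (nat_lit 303) (nat_lit 261)))) (XT.nd (nat_lit 156) (nat_lit 76) (nat_lit 0) (XT.nd (nat_lit 78) (nat_lit 152) (nat_lit 0) (XT.lf (nat_lit 0) (nat_lit 5890625821) (nat_lit 76) (nat_lit 12422860241) (nat_lit 76) (nat_lit 6160462446) (nat_lit 92) (nat_lit 4) (nat_lit 93) (nat_lit 5) (nat_lit 93) (nat_lit 4) (nat_lit 457) (nat_lit 303) (nat_lit 260)) (XT.lf (nat_lit 0) (nat_lit 1148541027) (nat_lit 76) (nat_lit 2537204444) (nat_lit 152) (nat_lit 21219429522) (nat_lit 90) (nat_lit 5) (nat_lit 91) (nat_lit 5) (nat_lit 92) (nat_lit 4) (nat_lit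 458) (nat_lit 303) (nat_lit 259))) (XT.nd (nat_lit 78) (nat_lit 76) (nat_lit 0) (XT.lf (nat_lit 0) (nat_lit 13858163627) (nat_lit 152) (nat_lit 3842634290) (nat_lit 0) (nat_lit 7642071220) (nat_lit 90) (nat_lit 5) (nat_lit 92) (nat_lit 4) (nat_lit 90) (nat_lit 4) (nat_lit 459) (nat_lit 303) (nat_lit 258)) (XT.lf (nat_lit 0) (nat_lit 16761137665) (nat_lit 76) (nat_lit 7655653362) (nat_lit 76) (nat_lit 1374471976) (nat_lit 89) (nat_lit 4) (nat_lit 90) (nat_lit 5) (nat_lit 90) (nat_lit 4) (nat_lit 460) (nat_lit 303) (nat_lit 257)))))) (XT.nd (nat_lit 546) (nat_lit 684) (nat_lit 0) (XT.nd (nat_lit 234) (nat_lit 304) (nat_lit 0) (XT.nd (nat_lit 78) (nat_lit 228) (nat_lit 0) (XT.lf (nat_lit 0) (nat_lit 8936806302) (nat_lit 152) (nat_lit 14534252697) (nat_lit 0) (nat_lit 2777219340) (nat_lit 87) (nat_lit 5) (nat_lit 89) (nat_lit 4) (nat_lit 87) (nat_lit 4) (nat_lit 461) (nat_lit 303) (nat_lit 256)) (XT.nd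 (nat_lit 78) (nat_lit 152) (nat_lit 0) (XT.lf (nat_lit 0) (nat_lit 6373697043) (nat_lit 76) (nat_lit 13280164750) (nat_lit 76) (nat_lit 7061012151) (nat_lit 86) (nat_lit 4) (nat_lit 87) (nat_lit 5) (nat_lit 87) (nat_lit 4) (nat_lit 462) (nat_lit 303) (nat_lit 255)) (XT.lf (nat_lit 0) (nat_lit 786291185) (nat_lit 76) (nat_lit 2693154381) (nat_lit 152) (nat_lit 23713491733) (nat_lit 84) (nat_lit 5) (nat_lit 85) (nat_lit 5) (nat_lit 86) (nat_lit 4) (nat_lit 463) (nat_lit 303) (nat_lit 254)))) (XT.nd (nat_lit 156) (nat_lit 228) (nat_lit 0) (XT.nd (nat_lit 78) (nat_lit 76) (nat_lit 0) (XT.lf (nat_lit 0) (nat_lit 14375581187) (nat_lit 152) (nat_lit 5075310895) (nat_lit 0) (nat_lit 8226911634) (nat_lit 84) (nat_lit 5) (nat_lit 86) (nat_lit 4) (nat_lit 84) (nat_lit 4) (nat_lit 464) (nat_lit 303) (nat_lit 253)) (XT.lf (nat_lit 0) (nat_lit 16997278931) (nat_lit 76) (nat_lit 8689443205) (nat_lit 76) (nat_lit 2487850355)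 (nat_lit 83) (nat_lit 4) (nat_lit 84) (nat_lit 5) (nat_lit 84) (nat_lit 4) (nat_lit 465) (nat_lit 303) (nat_lit 252))) (XT.nd (nat_lit 78) (nat_lit 76) (nat_lit 0) (XT.lf (nat_lit 0) (nat_lit 8562940865) (nat_lit 152) (nat_lit 17626293091) (nat_lit 0) (nat_lit 2492091650) (nat_lit 81) (nat_lit 5) (nat_lit 83) (nat_lit 4) (nat_lit 81) (nat_lit 4) (nat_lit 466) (nat_lit 303) (nat_lit 251)) (XT.lf (nat_lit 0) (nat_lit 4760885977) (nat_lit 76) (nat_lit 15278309801) (nat_lit 76) (nat_lit 9159028273) (nat_lit 80) (nat_lit 4) (nat_lit 81) (nat_lit 5) (nat_lit 81) (nat_lit 4) (nat_lit 467) (nat_lit 303) (nat_lit 250))))) (XT.nd (nat_lit 312) (nat_lit 304) (nat_lit 0) (XT.nd (nat_lit 156) (nat_lit 228) (nat_lit 0) (XT.nd (nat_lit 78) (nat_lit 76) (nat_lit 0) (XT.lf (nat_lit 0) (nat_lit 2165502329) (nat_lit 152) (nat_lit 1770333463) (nat_lit 76) (nat_lit 25791841467) (nat_lit 79) (nat_lit 5) (nat_lit 81) (nat_lit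 5) (nat_lit 80) (nat_lit 4) (nat_lit 468) (nat_lit 303) (nat_lit 249)) (XT.lf (nat_lit 0) (nat_lit 13832021008) (nat_lit 152) (nat_lit 8631685914) (nat_lit 0) (nat_lit 7800996452) (nat_lit 78) (nat_lit 5) (nat_lit 80) (nat_lit 4) (nat_lit 78) (nat_lit 4) (nat_lit 469) (nat_lit 303) (nat_lit 248))) (XT.nd (nat_lit 78) (nat_lit 152) (nat_lit 0) (XT.lf (nat_lit 0) (nat_lit 15013340169) (nat_lit 76) (nat_lit 10937739899) (nat_lit 76) (nat_lit 4863683859) (nat_lit 77) (nat_lit 4) (nat_lit 78) (nat_lit 5) (nat_lit 78) (nat_lit 4) (nat_lit 470) (nat_lit 303) (nat_lit 247)) (XT.lf (nat_lit 0) (nat_lit 6991802062) (nat_lit 152) (nat_lit 23331080459) (nat_lit 0) (nat_lit 1054098975) (nat_lit 75) (nat_lit 5) (nat_lit 77) (nat_lit 4) (nat_lit 75) (nat_lit 4) (nat_lit 471) (nat_lit 303) (nat_lit 246)))) (XT.nd (nat_lit 156) (nat_lit 228) (nat_lit 0) (XT.nd (nat_lit 78) (nat_lit 0) (nat_lit 0) (XT.lf (nat_lit 0)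 (nat_lit 637687646) (nat_lit 76) (nat_lit 18644355452) (nat_lit 76) (nat_lit 12667272462) (nat_lit 74) (nat_lit 4) (nat_lit 75) (nat_lit 5) (nat_lit 75) (nat_lit 4) (nat_lit 472) (nat_lit 303) (nat_lit 245)) (XT.lf (nat_lit 0) (nat_lit 25607717373) (nat_lit 76) (nat_lit 6471141083) (nat_lit 76) (nat_lit 455825177) (nat_lit 74) (nat_lit 4) (nat_lit 75) (nat_lit 5) (nat_lit 75) (nat_lit 4) (nat_lit 473) (nat_lit 303) (nat_lit 244))) (XT.nd (nat_lit 78) (nat_lit 76) (nat_lit 0) (XT.lf (nat_lit 0) (nat_lit 12025181464) (nat_lit 152) (nat_lit 14955712052) (nat_lit 0) (nat_lit 6149030745) (nat_lit 72) (nat_lit 5) (nat_lit 74) (nat_lit 4) (nat_lit 72) (nat_lit 4) (nat_lit 474) (nat_lit 303) (nat_lit 243)) (XT.lf (nat_lit 0) (nat_lit 10370278546) (nat_lit 76) (nat_lit 14639794466) (nat_lit 76) (nat_lit 8728655212) (nat_lit 71) (nat_lit 4) (nat_lit 72) (nat_lit 5) (nat_lit 72) (nat_lit 4) (nat_lit 475) (nat_lit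 303) (nat_lit 242))))))) (XT.nd (nat_lit 1170) (nat_lit 456) (nat_lit 0) (XT.nd (nat_lit 546) (nat_lit 684) (nat_lit 0) (XT.nd (nat_lit 234) (nat_lit 380) (nat_lit 0) (XT.nd (nat_lit 78) (nat_lit 76) (nat_lit 0) (XT.lf (nat_lit 0) (nat_lit 2212075175) (nat_lit 76) (nat_lit 1806242006) (nat_lit 152) (nat_lit 30343979562) (nat_lit 69) (nat_lit 5) (nat_lit 70) (nat_lit 5) (nat_lit 71) (nat_lit 4) (nat_lit 476) (nat_lit 303) (nat_lit 241)) (XT.nd (nat_lit 78) (nat_lit 76) (nat_lit 0) (XT.lf (nat_lit 0) (nat_lit 17224554018) (nat_lit 152) (nat_lit 6349272496) (nat_lit 0) (nat_lit 11420584355) (nat_lit 69) (nat_lit 5) (nat_lit 71) (nat_lit 4) (nat_lit 69) (nat_lit 4) (nat_lit 477) (nat_lit 303) (nat_lit 240)) (XT.lf (nat_lit 0) (nat_lit 20419518027) (nat_lit 76) (nat_lit 10528694932) (nat_lit 76) (nat_lit 4693638410) (nat_lit 68) (nat_lit 4) (nat_lit 69) (nat_lit 5) (nat_lit 69) (nat_lit 4) (nat_lit 478)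 (nat_lit 303) (nat_lit 239)))) (XT.nd (nat_lit 156) (nat_lit 152) (nat_lit 0) (XT.nd (nat_lit 78) (nat_lit 76) (nat_lit 0) (XT.lf (nat_lit 0) (nat_lit 8718284297) (nat_lit 152) (nat_lit 24560582365) (nat_lit 0) (nat_lit 3023878531) (nat_lit 66) (nat_lit 5) (nat_lit 68) (nat_lit 4) (nat_lit 66) (nat_lit 4) (nat_lit 479) (nat_lit 303) (nat_lit 238)) (XT.lf (nat_lit 0) (nat_lit 2559678060) (nat_lit 76) (nat_lit 20069756031) (nat_lit 76) (nat_lit 14346901385) (nat_lit 65) (nat_lit 4) (nat_lit 66) (nat_lit 5) (nat_lit 66) (nat_lit 4) (nat_lit 480) (nat_lit 303) (nat_lit 237))) (XT.nd (nat_lit 78) (nat_lit 152) (nat_lit 0) (XT.lf (nat_lit 0) (nat_lit 30812030873) (nat_lit 76) (nat_lit 6301947850) (nat_lit 76) (nat_lit 551472933) (nat_lit 65) (nat_lit 4) (nat_lit 66) (nat_lit 5) (nat_lit 66) (nat_lit 4) (nat_lit 481) (nat_lit 303) (nat_lit 236)) (XT.lf (nat_lit 0) (nat_lit 13587444738) (nat_lit 152) (nat_lit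 16799549151) (nat_lit 0) (nat_lit 7978424626) (nat_lit 63) (nat_lit 5) (nat_lit 65) (nat_lit 4) (nat_lit 63) (nat_lit 4) (nat_lit 482) (nat_lit 303) (nat_lit 235))))) (XT.nd (nat_lit 312) (nat_lit 380) (nat_lit 0) (XT.nd (nat_lit 156) (nat_lit 76) (nat_lit 0) (XT.nd (nat_lit 78) (nat_lit 152) (nat_lit 0) (XT.lf (nat_lit 0) (nat_lit 11875694437) (nat_lit 76) (nat_lit 16420066628) (nat_lit 76) (nat_lit 10785770055) (nat_lit 62) (nat_lit 4) (nat_lit 63) (nat_lit 5) (nat_lit 63) (nat_lit 4) (nat_lit 483) (nat_lit 303) (nat_lit 234)) (XT.lf (nat_lit 0) (nat_lit 1757861624) (nat_lit 76) (nat_lit 1895684410) (nat_lit 152) (nat_lit 36161592157) (nat_lit 60) (nat_lit 5) (nat_lit 61) (nat_lit 5) (nat_lit 62) (nat_lit 4) (nat_lit 484) (nat_lit 303) (nat_lit 233))) (XT.nd (nat_lit 78) (nat_lit 76) (nat_lit 0) (XT.lf (nat_lit 0) (nat_lit 18622202269) (nat_lit 152) (nat_lit 8830904804) (nat_lit 0) (nat_lit 13105054389)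 (nat_lit 60) (nat_lit 5) (nat_lit 62) (nat_lit 4) (nat_lit 60) (nat_lit 4) (nat_lit 485) (nat_lit 303) (nat_lit 232)) (XT.lf (nat_lit 0) (nat_lit 21496790307) (nat_lit 76) (nat_lit 12681076182) (nat_lit 76) (nat_lit 7141470494) (nat_lit 59) (nat_lit 4) (nat_lit 60) (nat_lit 5) (nat_lit 60) (nat_lit 4) (nat_lit 486) (nat_lit 303) (nat_lit 231)))) (XT.nd (nat_lit 156) (nat_lit 228) (nat_lit 0) (XT.nd (nat_lit 78) (nat_lit 0) (nat_lit 0) (XT.lf (nat_lit 0) (nat_lit 8071184627) (nat_lit 152) (nat_lit 31354100230) (nat_lit 0) (nat_lit 2671758039) (nat_lit 57) (nat_lit 5) (nat_lit 59) (nat_lit 4) (nat_lit 57) (nat_lit 4) (nat_lit 487) (nat_lit 303) (nat_lit 230)) (XT.lf (nat_lit 0) (nat_lit 23836965999) (nat_lit 152) (nat_lit 634796930) (nat_lit 0) (nat_lit 18416987335) (nat_lit 57) (nat_lit 5) (nat_lit 59) (nat_lit 4) (nat_lit 57) (nat_lit 4) (nat_lit 488) (nat_lit 303) (nat_lit 229))) (XT.nd (nat_lit 78)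 (nat_lit 152) (nat_lit 0) (XT.lf (nat_lit 0) (nat_lit 31448678218) (nat_lit 76) (nat_lit 8844469975) (nat_lit 76) (nat_lit 3404537839) (nat_lit 56) (nat_lit 4) (nat_lit 57) (nat_lit 5) (nat_lit 57) (nat_lit 4) (nat_lit 489) (nat_lit 303) (nat_lit 228)) (XT.lf (nat_lit 0) (nat_lit 12650714983) (nat_lit 152) (nat_lit 24520490127) (nat_lit 0) (nat_lit 7350419411) (nat_lit 54) (nat_lit 5) (nat_lit 56) (nat_lit 4) (nat_lit 54) (nat_lit 4) (nat_lit 490) (nat_lit 303) (nat_lit 227)))))) (XT.nd (nat_lit 47112) (nat_lit 0) (nat_lit 7448) (XT.nd (nat_lit 312) (nat_lit 152) (nat_lit 0) (XT.nd (nat_lit 156) (nat_lit 152) (nat_lit 0) (XT.nd (nat_lit 78) (nat_lit 76) (nat_lit 0) (XT.lf (nat_lit 0) (nat_lit 7965110851) (nat_lit 76) (nat_lit 21358294330) (nat_lit 76) (nat_lit 16039738505) (nat_lit 53) (nat_lit 4) (nat_lit 54) (nat_lit 5) (nat_lit 54) (nat_lit 4) (nat_lit 491) (nat_lit 303) (nat_lit 226)) (XT.lf (nat_lit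 0) (nat_lit 426398479) (nat_lit 152) (nat_lit 4470695312) (nat_lit 76) (nat_lit 41327780962) (nat_lit 52) (nat_lit 5) (nat_lit 54) (nat_lit 5) (nat_lit 53) (nat_lit 4) (nat_lit 492) (nat_lit 303) (nat_lit 225))) (XT.nd (nat_lit 78) (nat_lit 76) (nat_lit 0) (XT.lf (nat_lit 0) (nat_lit 17386762986) (nat_lit 152) (nat_lit 17522057904) (nat_lit 0) (nat_lit 12189193795) (nat_lit 51) (nat_lit 5) (nat_lit 53) (nat_lit 4) (nat_lit 51) (nat_lit 4) (nat_lit 493) (nat_lit 303) (nat_lit 224)) (XT.lf (nat_lit 0) (nat_lit 16853432486) (nat_lit 76) (nat_lit 18176248620) (nat_lit 76) (nat_lit 12962455430) (nat_lit 50) (nat_lit 4) (nat_lit 51) (nat_lit 5) (nat_lit 51) (nat_lit 4) (nat_lit 494) (nat_lit 303) (nat_lit 223)))) (XT.nd (nat_lit 46644) (nat_lit 0) (nat_lit 8740) (XT.nd (nat_lit 78) (nat_lit 0) (nat_lit 0) (XT.lf (nat_lit 0) (nat_lit 3572151799) (nat_lit 76) (nat_lit 763659256) (nat_lit 152) (nat_lit 44572113296)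 (nat_lit 48) (nat_lit 5) (nat_lit 49) (nat_lit 5) (nat_lit 50) (nat_lit 4) (nat_lit 495) (nat_lit 303) (nat_lit 222)) (XT.lf (nat_lit 0) (nat_lit 22292793781) (nat_lit 152) (nat_lit 10341814049) (nat_lit 0) (nat_lit 17200718714) (nat_lit 48) (nat_lit 5) (nat_lit 50) (nat_lit 4) (nat_lit 48) (nat_lit 4) (nat_lit 496) (nat_lit 303) (nat_lit 221))) (XT.nd (nat_lit 78) (nat_lit 228) (nat_lit 0) (XT.lf (nat_lit 0) (nat_lit 1657483437) (nat_lit 152) (nat_lit 2191610519) (nat_lit 152) (nat_lit 2191610519) (nat_lit 166) (nat_lit 4) (nat_lit 168) (nat_lit 5) (nat_lit 168) (nat_lit 4) (nat_lit 412) (nat_lit 304) (nat_lit 304)) (XT.lf (nat_lit 0) (nat_lit 1664690962) (nat_lit 228) (nat_lit 9376776339) (nat_lit 0) (nat_lit 1206797656) (nat_lit 163) (nat_lit 5) (nat_lit 166) (nat_lit 4) (nat_lit 163) (nat_lit 4) (nat_lit 413) (nat_lit 304) (nat_lit 303))))) (XT.nd (nat_lit 312) (nat_lit 532) (nat_lit 0) (XT.nd (nat_lit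 156) (nat_lit 380) (nat_lit 0) (XT.nd (nat_lit 78) (nat_lit 228) (nat_lit 0) (XT.lf (nat_lit 0) (nat_lit 2343280838) (nat_lit 152) (nat_lit 5488607686) (nat_lit 152) (nat_lit 4586157773) (nat_lit 161) (nat_lit 4) (nat_lit 163) (nat_lit 5) (nat_lit 163) (nat_lit 4) (nat_lit 414) (nat_lit 304) (nat_lit 302)) (XT.lf (nat_lit 0) (nat_lit 1546405928) (nat_lit 228) (nat_lit 10795264324) (nat_lit 0) (nat_lit 251203724) (nat_lit 158) (nat_lit 5) (nat_lit 161) (nat_lit 4) (nat_lit 158) (nat_lit 4) (nat_lit 415) (nat_lit 304) (nat_lit 301))) (XT.nd (nat_lit 78) (nat_lit 228) (nat_lit 0) (XT.lf (nat_lit 0) (nat_lit 1148110669) (nat_lit 152) (nat_lit 6662161490) (nat_lit 152) (nat_lit 4960127015) (nat_lit 156) (nat_lit 4) (nat_lit 158) (nat_lit 5) (nat_lit 158) (nat_lit 4) (nat_lit 416) (nat_lit 304) (nat_lit 300)) (XT.lf (nat_lit 0) (nat_lit 480252313) (nat_lit 152) (nat_lit 789338610) (nat_lit 228) (nat_lit 11683691990)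 (nat_lit 153) (nat_lit 5) (nat_lit 155) (nat_lit 5) (nat_lit 156) (nat_lit 4) (nat_lit 417) (nat_lit 304) (nat_lit 299)))) (XT.nd (nat_lit 156) (nat_lit 304) (nat_lit 0) (XT.nd (nat_lit 78) (nat_lit 228) (nat_lit 0) (XT.lf (nat_lit 0) (nat_lit 7627665323) (nat_lit 228) (nat_lit 291862705) (nat_lit 0) (nat_lit 5219417074) (nat_lit 153) (nat_lit 5) (nat_lit 156) (nat_lit 4) (nat_lit 153) (nat_lit 4) (nat_lit 418) (nat_lit 304) (nat_lit 298)) (XT.lf (nat_lit 0) (nat_lit 831232669) (nat_lit 228) (nat_lit 1082311133) (nat_lit 76) (nat_lit 11416346029) (nat_lit 150) (nat_lit 5) (nat_lit 153) (nat_lit 5) (nat_lit 151) (nat_lit 4) (nat_lit 419) (nat_lit 304) (nat_lit 297))) (XT.nd (nat_lit 78) (nat_lit 228) (nat_lit 0) (XT.lf (nat_lit 0) (nat_lit 7285310317) (nat_lit 152) (nat_lit 1983101231) (nat_lit 0) (nat_lit 4255552507) (nat_lit 149) (nat_lit 5) (nat_lit 151) (nat_lit 4) (nat_lit 149) (nat_lit 4) (nat_lit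 420) (nat_lit 304) (nat_lit 296)) (XT.lf (nat_lit 0) (nat_lit 215410128) (nat_lit 228) (nat_lit 2923267116) (nat_lit 76) (nat_lit 10584812701) (nat_lit 146) (nat_lit 5) (nat_lit 149) (nat_lit 5) (nat_lit 147) (nat_lit 4) (nat_lit 421) (nat_lit 304) (nat_lit 295))))))))
noncomputable def xc29 : XT := (XT.nd (nat_lit 2340) (nat_lit 2736) (nat_lit 0) (XT.nd (nat_lit 1170) (nat_lit 1520) (nat_lit 0) (XT.nd (nat_lit 546) (nat_lit 1064) (nat_lit 0) (XT.nd (nat_lit 234) (nat_lit 608) (nat_lit 0) (XT.nd (nat_lit 78) (nat_lit 304) (nat_lit 0) (XT.lf (nat_lit 0) (nat_lit 6761732894) (nat_lit 152) (nat_lit 3977434571) (nat_lit 0) (nat_lit 3187260246) (nat_lit 145) (nat_lit 5) (nat_lit 147) (nat_lit 4) (nat_lit 145) (nat_lit 4) (nat_lit 422) (nat_lit 304) (nat_lit 294)) (XT.nd (nat_lit 78) (nat_lit 152) (nat_lit 0) (XT.lf (nat_lit 0) (nat_lit 9046650398) (nat_lit 152) (nat_lit 4482626171) (nat_lit 152) (nat_lit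 605432106) (nat_lit 143) (nat_lit 4) (nat_lit 145) (nat_lit 5) (nat_lit 145) (nat_lit 4) (nat_lit 423) (nat_lit 304) (nat_lit 293)) (XT.lf (nat_lit 0) (nat_lit 6045364988) (nat_lit 152) (nat_lit 6305901131) (nat_lit 0) (nat_lit 1995754935) (nat_lit 141) (nat_lit 5) (nat_lit 143) (nat_lit 4) (nat_lit 141) (nat_lit 4) (nat_lit 424) (nat_lit 304) (nat_lit 292)))) (XT.nd (nat_lit 156) (nat_lit 304) (nat_lit 0) (XT.nd (nat_lit 78) (nat_lit 152) (nat_lit 0) (XT.lf (nat_lit 0) (nat_lit 6957382682) (nat_lit 152) (nat_lit 5966781954) (nat_lit 152) (nat_lit 1640138921) (nat_lit 139) (nat_lit 4) (nat_lit 141) (nat_lit 5) (nat_lit 141) (nat_lit 4) (nat_lit 425) (nat_lit 304) (nat_lit 291)) (XT.lf (nat_lit 0) (nat_lit 5123469148) (nat_lit 152) (nat_lit 9001291100) (nat_lit 0) (nat_lit 661714690) (nat_lit 137) (nat_lit 5) (nat_lit 139) (nat_lit 4) (nat_lit 137) (nat_lit 4) (nat_lit 426) (nat_lit 304) (nat_lit 290)))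 (XT.nd (nat_lit 78) (nat_lit 152) (nat_lit 0) (XT.lf (nat_lit 0) (nat_lit 4501462105) (nat_lit 152) (nat_lit 7613452123) (nat_lit 152) (nat_lit 2898173244) (nat_lit 135) (nat_lit 4) (nat_lit 137) (nat_lit 5) (nat_lit 137) (nat_lit 4) (nat_lit 427) (nat_lit 304) (nat_lit 289)) (XT.lf (nat_lit 0) (nat_lit 3138846183) (nat_lit 76) (nat_lit 851432278) (nat_lit 152) (nat_lit 11255043731) (nat_lit 133) (nat_lit 5) (nat_lit 134) (nat_lit 5) (nat_lit 135) (nat_lit 4) (nat_lit 428) (nat_lit 304) (nat_lit 288))))) (XT.nd (nat_lit 312) (nat_lit 532) (nat_lit 0) (XT.nd (nat_lit 156) (nat_lit 228) (nat_lit 0) (XT.nd (nat_lit 78) (nat_lit 152) (nat_lit 0) (XT.lf (nat_lit 0) (nat_lit 1643822753) (nat_lit 152) (nat_lit 9443478904) (nat_lit 152) (nat_lit 4394556403) (nat_lit 131) (nat_lit 4) (nat_lit 133) (nat_lit 5) (nat_lit 133) (nat_lit 4) (nat_lit 429) (nat_lit 304) (nat_lit 287)) (XT.lf (nat_lit 0) (nat_lit 66097458)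 (nat_lit 76) (nat_lit 2564578957) (nat_lit 152) (nat_lit 13093711127) (nat_lit 129) (nat_lit 5) (nat_lit 130) (nat_lit 5) (nat_lit 131) (nat_lit 4) (nat_lit 430) (nat_lit 304) (nat_lit 286))) (XT.nd (nat_lit 78) (nat_lit 228) (nat_lit 0) (XT.lf (nat_lit 0) (nat_lit 9841714827) (nat_lit 152) (nat_lit 1620438306) (nat_lit 0) (nat_lit 4508833217) (nat_lit 129) (nat_lit 5) (nat_lit 131) (nat_lit 4) (nat_lit 129) (nat_lit 4) (nat_lit 431) (nat_lit 304) (nat_lit 285)) (XT.lf (nat_lit 0) (nat_lit 1055156269) (nat_lit 228) (nat_lit 3397052938) (nat_lit 76) (nat_lit 11771529944) (nat_lit 126) (nat_lit 5) (nat_lit 129) (nat_lit 5) (nat_lit 127) (nat_lit 4) (nat_lit 432) (nat_lit 304) (nat_lit 284)))) (XT.nd (nat_lit 156) (nat_lit 304) (nat_lit 0) (XT.nd (nat_lit 78) (nat_lit 152) (nat_lit 0) (XT.lf (nat_lit 0) (nat_lit 8365834745) (nat_lit 152) (nat_lit 5321562004) (nat_lit 0) (nat_lit 2793839906) (nat_lit 125)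 (nat_lit 5) (nat_lit 127) (nat_lit 4) (nat_lit 125) (nat_lit 4) (nat_lit 433) (nat_lit 304) (nat_lit 283)) (XT.lf (nat_lit 0) (nat_lit 9389440959) (nat_lit 152) (nat_lit 6558054544) (nat_lit 152) (nat_lit 797413725) (nat_lit 123) (nat_lit 4) (nat_lit 125) (nat_lit 5) (nat_lit 125) (nat_lit 4) (nat_lit 434) (nat_lit 304) (nat_lit 282))) (XT.nd (nat_lit 78) (nat_lit 152) (nat_lit 0) (XT.lf (nat_lit 0) (nat_lit 6626035133) (nat_lit 152) (nat_lit 9532626752) (nat_lit 0) (nat_lit 855363041) (nat_lit 121) (nat_lit 5) (nat_lit 123) (nat_lit 4) (nat_lit 121) (nat_lit 4) (nat_lit 435) (nat_lit 304) (nat_lit 281)) (XT.lf (nat_lit 0) (nat_lit 5430581021) (nat_lit 152) (nat_lit 8900725853) (nat_lit 152) (nat_lit 2957415966) (nat_lit 119) (nat_lit 4) (nat_lit 121) (nat_lit 5) (nat_lit 121) (nat_lit 4) (nat_lit 436) (nat_lit 304) (nat_lit 280)))))) (XT.nd (nat_lit 546) (nat_lit 836) (nat_lit 0) (XT.nd (nat_lit 234)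 (nat_lit 380) (nat_lit 0) (XT.nd (nat_lit 78) (nat_lit 152) (nat_lit 0) (XT.lf (nat_lit 0) (nat_lit 3259742260) (nat_lit 76) (nat_lit 1356347225) (nat_lit 152) (nat_lit 12953868409) (nat_lit 117) (nat_lit 5) (nat_lit 118) (nat_lit 5) (nat_lit 119) (nat_lit 4) (nat_lit 437) (nat_lit 304) (nat_lit 279)) (XT.nd (nat_lit 78) (nat_lit 76) (nat_lit 0) (XT.lf (nat_lit 0) (nat_lit 916681029) (nat_lit 76) (nat_lit 11515374560) (nat_lit 76) (nat_lit 5424455071) (nat_lit 116) (nat_lit 4) (nat_lit 117) (nat_lit 5) (nat_lit 117) (nat_lit 4) (nat_lit 438) (nat_lit 304) (nat_lit 278)) (XT.lf (nat_lit 0) (nat_lit 2328111679) (nat_lit 152) (nat_lit 1518239224) (nat_lit 76) (nat_lit 14303354318) (nat_lit 115) (nat_lit 5) (nat_lit 117) (nat_lit 5) (nat_lit 116) (nat_lit 4) (nat_lit 439) (nat_lit 304) (nat_lit 277)))) (XT.nd (nat_lit 156) (nat_lit 228) (nat_lit 0) (XT.nd (nat_lit 78) (nat_lit 76) (nat_lit 0) (XT.lf (nat_lit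 0) (nat_lit 10268990356) (nat_lit 152) (nat_lit 4117175230) (nat_lit 0) (nat_lit 4061975976) (nat_lit 114) (nat_lit 5) (nat_lit 116) (nat_lit 4) (nat_lit 114) (nat_lit 4) (nat_lit 440) (nat_lit 304) (nat_lit 276)) (XT.lf (nat_lit 0) (nat_lit 11904843217) (nat_lit 76) (nat_lit 6598211845) (nat_lit 76) (nat_lit 250827140) (nat_lit 113) (nat_lit 4) (nat_lit 114) (nat_lit 5) (nat_lit 114) (nat_lit 4) (nat_lit 441) (nat_lit 304) (nat_lit 275))) (XT.nd (nat_lit 78) (nat_lit 76) (nat_lit 0) (XT.lf (nat_lit 0) (nat_lit 7794094050) (nat_lit 152) (nat_lit 9772150135) (nat_lit 0) (nat_lit 1499272133) (nat_lit 111) (nat_lit 5) (nat_lit 113) (nat_lit 4) (nat_lit 111) (nat_lit 4) (nat_lit 442) (nat_lit 304) (nat_lit 274)) (XT.lf (nat_lit 0) (nat_lit 6513453896) (nat_lit 76) (nat_lit 9646851101) (nat_lit 76) (nat_lit 3223570452) (nat_lit 110) (nat_lit 4) (nat_lit 111) (nat_lit 5) (nat_lit 111) (nat_lit 4) (nat_lit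 443) (nat_lit 304) (nat_lit 273))))) (XT.nd (nat_lit 312) (nat_lit 456) (nat_lit 0) (XT.nd (nat_lit 156) (nat_lit 152) (nat_lit 0) (XT.nd (nat_lit 78) (nat_lit 76) (nat_lit 0) (XT.lf (nat_lit 0) (nat_lit 3578026258) (nat_lit 76) (nat_lit 1410162964) (nat_lit 152) (nat_lit 14721495608) (nat_lit 108) (nat_lit 5) (nat_lit 109) (nat_lit 5) (nat_lit 110) (nat_lit 4) (nat_lit 444) (nat_lit 304) (nat_lit 272)) (XT.lf (nat_lit 0) (nat_lit 428157971) (nat_lit 76) (nat_lit 13044133517) (nat_lit 76) (nat_lit 6569296099) (nat_lit 107) (nat_lit 4) (nat_lit 108) (nat_lit 5) (nat_lit 108) (nat_lit 4) (nat_lit 445) (nat_lit 304) (nat_lit 271))) (XT.nd (nat_lit 78) (nat_lit 76) (nat_lit 0) (XT.lf (nat_lit 0) (nat_lit 1857766512) (nat_lit 152) (nat_lit 2817705316) (nat_lit 76) (nat_lit 15705469865) (nat_lit 106) (nat_lit 5) (nat_lit 108) (nat_lit 5) (nat_lit 107) (nat_lit 4) (nat_lit 446) (nat_lit 304) (nat_lit 270))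 (XT.lf (nat_lit 0) (nat_lit 10474520581) (nat_lit 152) (nat_lit 6282058225) (nat_lit 0) (nat_lit 3969878864) (nat_lit 105) (nat_lit 5) (nat_lit 107) (nat_lit 4) (nat_lit 105) (nat_lit 4) (nat_lit 447) (nat_lit 304) (nat_lit 269)))) (XT.nd (nat_lit 156) (nat_lit 228) (nat_lit 0) (XT.nd (nat_lit 78) (nat_lit 152) (nat_lit 0) (XT.lf (nat_lit 0) (nat_lit 11156641659) (nat_lit 76) (nat_lit 8266296530) (nat_lit 76) (nat_lit 1657206108) (nat_lit 104) (nat_lit 4) (nat_lit 105) (nat_lit 5) (nat_lit 105) (nat_lit 4) (nat_lit 448) (nat_lit 304) (nat_lit 268)) (XT.lf (nat_lit 0) (nat_lit 7089327889) (nat_lit 152) (nat_lit 13777725264) (nat_lit 0) (nat_lit 574282325) (nat_lit 102) (nat_lit 5) (nat_lit 104) (nat_lit 4) (nat_lit 102) (nat_lit 4) (nat_lit 449) (nat_lit 304) (nat_lit 267))) (XT.nd (nat_lit 78) (nat_lit 152) (nat_lit 0) (XT.lf (nat_lit 0) (nat_lit 3933605268) (nat_lit 76) (nat_lit 12243269037) (nat_lit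 76) (nat_lit 5632638111) (nat_lit 101) (nat_lit 4) (nat_lit 102) (nat_lit 5) (nat_lit 102) (nat_lit 4) (nat_lit 450) (nat_lit 304) (nat_lit 266)) (XT.lf (nat_lit 0) (nat_lit 25715820) (nat_lit 76) (nat_lit 3289135444) (nat_lit 152) (nat_lit 18871961524) (nat_lit 99) (nat_lit 5) (nat_lit 100) (nat_lit 5) (nat_lit 101) (nat_lit 4) (nat_lit 451) (nat_lit 304) (nat_lit 265))))))) (XT.nd (nat_lit 1170) (nat_lit 1444) (nat_lit 0) (XT.nd (nat_lit 546) (nat_lit 760) (nat_lit 0) (XT.nd (nat_lit 234) (nat_lit 304) (nat_lit 0) (XT.nd (nat_lit 78) (nat_lit 228) (nat_lit 0) (XT.lf (nat_lit 0) (nat_lit 12548122145) (nat_lit 152) (nat_lit 4069258596) (nat_lit 0) (nat_lit 5952461351) (nat_lit 99) (nat_lit 5) (nat_lit 101) (nat_lit 4) (nat_lit 99) (nat_lit 4) (nat_lit 452) (nat_lit 304) (nat_lit 264)) (XT.nd (nat_lit 78) (nat_lit 152) (nat_lit 0) (XT.lf (nat_lit 0) (nat_lit 14608638045) (nat_lit 76) (nat_lit 7517144814)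 (nat_lit 76) (nat_lit 836557666) (nat_lit 98) (nat_lit 4) (nat_lit 99) (nat_lit 5) (nat_lit 99) (nat_lit 4) (nat_lit 453) (nat_lit 304) (nat_lit 263)) (XT.lf (nat_lit 0) (nat_lit 8511601284) (nat_lit 152) (nat_lit 12905310591) (nat_lit 0) (nat_lit 1945543108) (nat_lit 96) (nat_lit 5) (nat_lit 98) (nat_lit 4) (nat_lit 96) (nat_lit 4) (nat_lit 454) (nat_lit 304) (nat_lit 262)))) (XT.nd (nat_lit 156) (nat_lit 76) (nat_lit 0) (XT.nd (nat_lit 78) (nat_lit 152) (nat_lit 0) (XT.lf (nat_lit 0) (nat_lit 6056819236) (nat_lit 76) (nat_lit 12178955729) (nat_lit 76) (nat_lit 5535177908) (nat_lit 95) (nat_lit 4) (nat_lit 96) (nat_lit 5) (nat_lit 96) (nat_lit 4) (nat_lit 455) (nat_lit 304) (nat_lit 261)) (XT.lf (nat_lit 0) (nat_lit 1443015600) (nat_lit 76) (nat_lit 2577796906) (nat_lit 152) (nat_lit 20168520320) (nat_lit 93) (nat_lit 5) (nat_lit 94) (nat_lit 5) (nat_lit 95) (nat_lit 4) (nat_lit 456) (nat_lit 304)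 (nat_lit 260))) (XT.nd (nat_lit 78) (nat_lit 76) (nat_lit 0) (XT.lf (nat_lit 0) (nat_lit 13897837990) (nat_lit 152) (nat_lit 3413228310) (nat_lit 0) (nat_lit 7303185555) (nat_lit 93) (nat_lit 5) (nat_lit 95) (nat_lit 4) (nat_lit 93) (nat_lit 4) (nat_lit 457) (nat_lit 304) (nat_lit 259)) (XT.lf (nat_lit 0) (nat_lit 16594779961) (nat_lit 76) (nat_lit 7559180126) (nat_lit 76) (nat_lit 895474793) (nat_lit 92) (nat_lit 4) (nat_lit 93) (nat_lit 5) (nat_lit 93) (nat_lit 4) (nat_lit 458) (nat_lit 304) (nat_lit 258))))) (XT.nd (nat_lit 312) (nat_lit 380) (nat_lit 0) (XT.nd (nat_lit 156) (nat_lit 152) (nat_lit 0) (XT.nd (nat_lit 78) (nat_lit 76) (nat_lit 0) (XT.lf (nat_lit 0) (nat_lit 9110609679) (nat_lit 152) (nat_lit 13806387937) (nat_lit 0) (nat_lit 2575903871) (nat_lit 90) (nat_lit 5) (nat_lit 92) (nat_lit 4) (nat_lit 90) (nat_lit 4) (nat_lit 459) (nat_lit 304) (nat_lit 257)) (XT.lf (nat_lit 0) (nat_lit 6496848263)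 (nat_lit 76) (nat_lit 13023407758) (nat_lit 76) (nat_lit 6425508766) (nat_lit 89) (nat_lit 4) (nat_lit 90) (nat_lit 5) (nat_lit 90) (nat_lit 4) (nat_lit 460) (nat_lit 304) (nat_lit 256))) (XT.nd (nat_lit 78) (nat_lit 0) (nat_lit 0) (XT.lf (nat_lit 0) (nat_lit 1063188413) (nat_lit 76) (nat_lit 2740969227) (nat_lit 152) (nat_lit 22605484365) (nat_lit 87) (nat_lit 5) (nat_lit 88) (nat_lit 5) (nat_lit 89) (nat_lit 4) (nat_lit 461) (nat_lit 304) (nat_lit 255)) (XT.lf (nat_lit 0) (nat_lit 14383336047) (nat_lit 152) (nat_lit 4636825357) (nat_lit 0) (nat_lit 7860212518) (nat_lit 87) (nat_lit 5) (nat_lit 89) (nat_lit 4) (nat_lit 87) (nat_lit 4) (nat_lit 462) (nat_lit 304) (nat_lit 254)))) (XT.nd (nat_lit 156) (nat_lit 152) (nat_lit 0) (XT.nd (nat_lit 78) (nat_lit 152) (nat_lit 0) (XT.lf (nat_lit 0) (nat_lit 16797054494) (nat_lit 76) (nat_lit 8572378432) (nat_lit 76) (nat_lit 1993108577) (nat_lit 86) (nat_lit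 4) (nat_lit 87) (nat_lit 5) (nat_lit 87) (nat_lit 4) (nat_lit 463) (nat_lit 304) (nat_lit 253)) (XT.lf (nat_lit 0) (nat_lit 8730583541) (nat_lit 152) (nat_lit 16833719628) (nat_lit 0) (nat_lit 2290019609) (nat_lit 84) (nat_lit 5) (nat_lit 86) (nat_lit 4) (nat_lit 84) (nat_lit 4) (nat_lit 464) (nat_lit 304) (nat_lit 252))) (XT.nd (nat_lit 78) (nat_lit 76) (nat_lit 0) (XT.lf (nat_lit 0) (nat_lit 4905494393) (nat_lit 76) (nat_lit 14971246225) (nat_lit 76) (nat_lit 8479300451) (nat_lit 83) (nat_lit 4) (nat_lit 84) (nat_lit 5) (nat_lit 84) (nat_lit 4) (nat_lit 465) (nat_lit 304) (nat_lit 251)) (XT.lf (nat_lit 0) (nat_lit 2508728207) (nat_lit 152) (nat_lit 1449112796) (nat_lit 76) (nat_lit 24912071306) (nat_lit 82) (nat_lit 5) (nat_lit 84) (nat_lit 5) (nat_lit 83) (nat_lit 4) (nat_lit 466) (nat_lit 304) (nat_lit 250)))))) (XT.nd (nat_lit 624) (nat_lit 684) (nat_lit 0) (XT.nd (nat_lit 312) (nat_lit 380) (nat_lit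 0) (XT.nd (nat_lit 156) (nat_lit 228) (nat_lit 0) (XT.nd (nat_lit 78) (nat_lit 76) (nat_lit 0) (XT.lf (nat_lit 0) (nat_lit 13838118660) (nat_lit 152) (nat_lit 8113293319) (nat_lit 0) (nat_lit 7439804708) (nat_lit 81) (nat_lit 5) (nat_lit 83) (nat_lit 4) (nat_lit 81) (nat_lit 4) (nat_lit 467) (nat_lit 304) (nat_lit 249)) (XT.lf (nat_lit 0) (nat_lit 14847052213) (nat_lit 76) (nat_lit 10761026697) (nat_lit 76) (nat_lit 4317060644) (nat_lit 80) (nat_lit 4) (nat_lit 81) (nat_lit 5) (nat_lit 81) (nat_lit 4) (nat_lit 468) (nat_lit 304) (nat_lit 248))) (XT.nd (nat_lit 78) (nat_lit 76) (nat_lit 0) (XT.lf (nat_lit 0) (nat_lit 7187664022) (nat_lit 152) (nat_lit 22394772838) (nat_lit 0) (nat_lit 888354818) (nat_lit 78) (nat_lit 5) (nat_lit 80) (nat_lit 4) (nat_lit 78) (nat_lit 4) (nat_lit 469) (nat_lit 304) (nat_lit 247)) (XT.lf (nat_lit 0) (nat_lit 879792540) (nat_lit 76) (nat_lit 18243820174) (nat_lit 76) (nat_lit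 11902732830) (nat_lit 77) (nat_lit 4) (nat_lit 78) (nat_lit 5) (nat_lit 78) (nat_lit 4) (nat_lit 470) (nat_lit 304) (nat_lit 246)))) (XT.nd (nat_lit 156) (nat_lit 228) (nat_lit 0) (XT.nd (nat_lit 78) (nat_lit 152) (nat_lit 0) (XT.lf (nat_lit 0) (nat_lit 25121381277) (nat_lit 76) (nat_lit 6427448841) (nat_lit 76) (nat_lit 45800197) (nat_lit 77) (nat_lit 4) (nat_lit 78) (nat_lit 5) (nat_lit 78) (nat_lit 4) (nat_lit 471) (nat_lit 304) (nat_lit 245)) (XT.lf (nat_lit 0) (nat_lit 12066113615) (nat_lit 152) (nat_lit 14274135284) (nat_lit 0) (nat_lit 5832105317) (nat_lit 75) (nat_lit 5) (nat_lit 77) (nat_lit 4) (nat_lit 75) (nat_lit 4) (nat_lit 472) (nat_lit 304) (nat_lit 244))) (XT.nd (nat_lit 78) (nat_lit 152) (nat_lit 0) (XT.lf (nat_lit 0) (nat_lit 10318040202) (nat_lit 76) (nat_lit 14358205115) (nat_lit 76) (nat_lit 8087077481) (nat_lit 74) (nat_lit 4) (nat_lit 75) (nat_lit 5) (nat_lit 75) (nat_lit 4) (nat_lit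 473) (nat_lit 304) (nat_lit 243)) (XT.lf (nat_lit 0) (nat_lit 2390178426) (nat_lit 76) (nat_lit 1894227608) (nat_lit 152) (nat_lit 29084111171) (nat_lit 72) (nat_lit 5) (nat_lit 73) (nat_lit 5) (nat_lit 74) (nat_lit 4) (nat_lit 474) (nat_lit 304) (nat_lit 242))))) (XT.nd (nat_lit 312) (nat_lit 380) (nat_lit 0) (XT.nd (nat_lit 156) (nat_lit 228) (nat_lit 0) (XT.nd (nat_lit 78) (nat_lit 76) (nat_lit 0) (XT.lf (nat_lit 0) (nat_lit 17105595065) (nat_lit 152) (nat_lit 5928473530) (nat_lit 0) (nat_lit 10948163650) (nat_lit 72) (nat_lit 5) (nat_lit 74) (nat_lit 4) (nat_lit 72) (nat_lit 4) (nat_lit 475) (nat_lit 304) (nat_lit 241)) (XT.lf (nat_lit 0) (nat_lit 20064395709) (nat_lit 76) (nat_lit 10368367099) (nat_lit 76) (nat_lit 4177955635) (nat_lit 71) (nat_lit 4) (nat_lit 72) (nat_lit 5) (nat_lit 72) (nat_lit 4) (nat_lit 476) (nat_lit 304) (nat_lit 240))) (XT.nd (nat_lit 78) (nat_lit 76) (nat_lit 0) (XT.lf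 (nat_lit 0) (nat_lit 8837700741) (nat_lit 152) (nat_lit 23617994219) (nat_lit 0) (nat_lit 2796505664) (nat_lit 69) (nat_lit 5) (nat_lit 71) (nat_lit 4) (nat_lit 69) (nat_lit 4) (nat_lit 477) (nat_lit 304) (nat_lit 239)) (XT.lf (nat_lit 0) (nat_lit 2716015973) (nat_lit 76) (nat_lit 19630720175) (nat_lit 76) (nat_lit 13559343681) (nat_lit 68) (nat_lit 4) (nat_lit 69) (nat_lit 5) (nat_lit 69) (nat_lit 4) (nat_lit 478) (nat_lit 304) (nat_lit 238)))) (XT.nd (nat_lit 156) (nat_lit 228) (nat_lit 0) (XT.nd (nat_lit 78) (nat_lit 152) (nat_lit 0) (XT.lf (nat_lit 0) (nat_lit 30144647748) (nat_lit 76) (nat_lit 6265565689) (nat_lit 76) (nat_lit 164886849) (nat_lit 68) (nat_lit 4) (nat_lit 69) (nat_lit 5) (nat_lit 69) (nat_lit 4) (nat_lit 479) (nat_lit 304) (nat_lit 237)) (XT.lf (nat_lit 0) (nat_lit 13556557707) (nat_lit 152) (nat_lit 16092019824) (nat_lit 0) (nat_lit 7605948271) (nat_lit 66) (nat_lit 5) (nat_lit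 68) (nat_lit 4) (nat_lit 66) (nat_lit 4) (nat_lit 480) (nat_lit 304) (nat_lit 236))) (XT.nd (nat_lit 78) (nat_lit 152) (nat_lit 0) (XT.lf (nat_lit 0) (nat_lit 11751599590) (nat_lit 76) (nat_lit 16087759956) (nat_lit 76) (nat_lit 10110334721) (nat_lit 65) (nat_lit 4) (nat_lit 66) (nat_lit 5) (nat_lit 66) (nat_lit 4) (nat_lit 481) (nat_lit 304) (nat_lit 235)) (XT.lf (nat_lit 0) (nat_lit 1922000766) (nat_lit 76) (nat_lit 1982167093) (nat_lit 152) (nat_lit 34757578122) (nat_lit 63) (nat_lit 5) (nat_lit 64) (nat_lit 5) (nat_lit 65) (nat_lit 4) (nat_lit 482) (nat_lit 304) (nat_lit 234))))))))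
noncomputable def xc30 : XT := (XT.nd (nat_lit 48672) (nat_lit 0) (nat_lit 3572) (XT.nd (nat_lit 47502) (nat_lit 0) (nat_lit 6916) (XT.nd (nat_lit 546) (nat_lit 608) (nat_lit 0) (XT.nd (nat_lit 234) (nat_lit 304) (nat_lit 0) (XT.nd (nat_lit 78) (nat_lit 228) (nat_lit 0) (XT.lf (nat_lit 0) (nat_lit 18436169015) (nat_lit 152) (nat_lit 8363952198) (nat_lit 0) (nat_lit 12583026829) (nat_lit 63) (nat_lit 5) (nat_lit 65) (nat_lit 4) (nat_lit 63) (nat_lit 4) (nat_lit 483) (nat_lit 304) (nat_lit 233)) (XT.nd (nat_lit 78) (nat_lit 152) (nat_lit 0) (XT.lf (nat_lit 0) (nat_lit 21083905723) (nat_lit 76) (nat_lit 12457566921) (nat_lit 76) (nat_lit 6580599247) (nat_lit 62) (nat_lit 4) (nat_lit 63) (nat_lit 5) (nat_lit 63) (nat_lit 4) (nat_lit 484) (nat_lit 304) (nat_lit 232)) (XT.lf (nat_lit 0) (nat_lit 8183359898) (nat_lit 152) (nat_lit 30238517984) (nat_lit 0) (nat_lit 2455108230) (nat_lit 60) (nat_lit 5) (nat_lit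 62) (nat_lit 4) (nat_lit 60) (nat_lit 4) (nat_lit 485) (nat_lit 304) (nat_lit 231)))) (XT.nd (nat_lit 156) (nat_lit 228) (nat_lit 0) (XT.nd (nat_lit 78) (nat_lit 76) (nat_lit 0) (XT.lf (nat_lit 0) (nat_lit 23490554390) (nat_lit 152) (nat_lit 414562309) (nat_lit 0) (nat_lit 17740499025) (nat_lit 60) (nat_lit 5) (nat_lit 62) (nat_lit 4) (nat_lit 60) (nat_lit 4) (nat_lit 486) (nat_lit 304) (nat_lit 230)) (XT.lf (nat_lit 0) (nat_lit 30737853168) (nat_lit 76) (nat_lit 8732142072) (nat_lit 76) (nat_lit 2960918069) (nat_lit 59) (nat_lit 4) (nat_lit 60) (nat_lit 5) (nat_lit 60) (nat_lit 4) (nat_lit 487) (nat_lit 304) (nat_lit 229))) (XT.nd (nat_lit 78) (nat_lit 76) (nat_lit 0) (XT.lf (nat_lit 0) (nat_lit 12621118805) (nat_lit 152) (nat_lit 23611566184) (nat_lit 0) (nat_lit 6998035233) (nat_lit 57) (nat_lit 5) (nat_lit 59) (nat_lit 4) (nat_lit 57) (nat_lit 4) (nat_lit 488) (nat_lit 304) (nat_lit 228)) (XT.lf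 (nat_lit 0) (nat_lit 7931174508) (nat_lit 76) (nat_lit 20879468548) (nat_lit 76) (nat_lit 15237012673) (nat_lit 56) (nat_lit 4) (nat_lit 57) (nat_lit 5) (nat_lit 57) (nat_lit 4) (nat_lit 489) (nat_lit 304) (nat_lit 227))))) (XT.nd (nat_lit 312) (nat_lit 228) (nat_lit 0) (XT.nd (nat_lit 156) (nat_lit 228) (nat_lit 0) (XT.nd (nat_lit 78) (nat_lit 76) (nat_lit 0) (XT.lf (nat_lit 0) (nat_lit 743507058) (nat_lit 152) (nat_lit 4151944606) (nat_lit 76) (nat_lit 39988723602) (nat_lit 55) (nat_lit 5) (nat_lit 57) (nat_lit 5) (nat_lit 56) (nat_lit 4) (nat_lit 490) (nat_lit 304) (nat_lit 226)) (XT.lf (nat_lit 0) (nat_lit 17210888266) (nat_lit 152) (nat_lit 16824178323) (nat_lit 0) (nat_lit 11696787111) (nat_lit 54) (nat_lit 5) (nat_lit 56) (nat_lit 4) (nat_lit 54) (nat_lit 4) (nat_lit 491) (nat_lit 304) (nat_lit 225))) (XT.nd (nat_lit 78) (nat_lit 152) (nat_lit 0) (XT.lf (nat_lit 0) (nat_lit 16553324738) (nat_lit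 76) (nat_lit 17788926075) (nat_lit 76) (nat_lit 12257612879) (nat_lit 53) (nat_lit 4) (nat_lit 54) (nat_lit 5) (nat_lit 54) (nat_lit 4) (nat_lit 492) (nat_lit 304) (nat_lit 224)) (XT.lf (nat_lit 0) (nat_lit 3653321093) (nat_lit 76) (nat_lit 879361175) (nat_lit 152) (nat_lit 42956133972) (nat_lit 51) (nat_lit 5) (nat_lit 52) (nat_lit 5) (nat_lit 53) (nat_lit 4) (nat_lit 493) (nat_lit 304) (nat_lit 223)))) (XT.nd (nat_lit 156) (nat_lit 152) (nat_lit 0) (XT.nd (nat_lit 78) (nat_lit 76) (nat_lit 0) (XT.lf (nat_lit 0) (nat_lit 21965761210) (nat_lit 152) (nat_lit 9859893284) (nat_lit 0) (nat_lit 16563578771) (nat_lit 51) (nat_lit 5) (nat_lit 53) (nat_lit 4) (nat_lit 51) (nat_lit 4) (nat_lit 494) (nat_lit 304) (nat_lit 222)) (XT.lf (nat_lit 0) (nat_lit 25466589009) (nat_lit 76) (nat_lit 14631136065) (nat_lit 76) (nat_lit 9213660951) (nat_lit 50) (nat_lit 4) (nat_lit 51) (nat_lit 5) (nat_lit 51) (nat_lit 4)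 (nat_lit 495) (nat_lit 304) (nat_lit 221))) (XT.nd (nat_lit 46410) (nat_lit 0) (nat_lit 9348) (XT.lf (nat_lit 0) (nat_lit 8514356232) (nat_lit 152) (nat_lit 38499094882) (nat_lit 0) (nat_lit 3240256842) (nat_lit 48) (nat_lit 5) (nat_lit 50) (nat_lit 4) (nat_lit 48) (nat_lit 4) (nat_lit 496) (nat_lit 304) (nat_lit 220)) (XT.lf (nat_lit 0) (nat_lit 2099891643) (nat_lit 152) (nat_lit 1889580881) (nat_lit 152) (nat_lit 1889580881) (nat_lit 171) (nat_lit 4) (nat_lit 173) (nat_lit 5) (nat_lit 173) (nat_lit 4) (nat_lit 410) (nat_lit 305) (nat_lit 305)))))) (XT.nd (nat_lit 546) (nat_lit 1216) (nat_lit 0) (XT.nd (nat_lit 234) (nat_lit 608) (nat_lit 0) (XT.nd (nat_lit 78) (nat_lit 380) (nat_lit 0) (XT.lf (nat_lit 0) (nat_lit 2110918973) (nat_lit 228) (nat_lit 8183078086) (nat_lit 0) (nat_lit 1625139965) (nat_lit 168) (nat_lit 5) (nat_lit 171) (nat_lit 4) (nat_lit 168) (nat_lit 4) (nat_lit 411) (nat_lit 305) (nat_lit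 304)) (XT.nd (nat_lit 78) (nat_lit 228) (nat_lit 0) (XT.lf (nat_lit 0) (nat_lit 3200468341) (nat_lit 152) (nat_lit 4920125458) (nat_lit 152) (nat_lit 3962716346) (nat_lit 166) (nat_lit 4) (nat_lit 168) (nat_lit 5) (nat_lit 168) (nat_lit 4) (nat_lit 412) (nat_lit 305) (nat_lit 303)) (XT.lf (nat_lit 0) (nat_lit 2006944044) (nat_lit 228) (nat_lit 9612338197) (nat_lit 0) (nat_lit 632864026) (nat_lit 163) (nat_lit 5) (nat_lit 166) (nat_lit 4) (nat_lit 163) (nat_lit 4) (nat_lit 413) (nat_lit 305) (nat_lit 302)))) (XT.nd (nat_lit 156) (nat_lit 228) (nat_lit 0) (XT.nd (nat_lit 78) (nat_lit 228) (nat_lit 0) (XT.lf (nat_lit 0) (nat_lit 1988128162) (nat_lit 152) (nat_lit 6120723262) (nat_lit 152) (nat_lit 4315034888) (nat_lit 161) (nat_lit 4) (nat_lit 163) (nat_lit 5) (nat_lit 163) (nat_lit 4) (nat_lit 414) (nat_lit 305) (nat_lit 301)) (XT.lf (nat_lit 0) (nat_lit 1314281479) (nat_lit 152) (nat_lit 429071768) (nat_lit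 228) (nat_lit 10857349109) (nat_lit 158) (nat_lit 5) (nat_lit 160) (nat_lit 5) (nat_lit 161) (nat_lit 4) (nat_lit 415) (nat_lit 305) (nat_lit 300))) (XT.nd (nat_lit 78) (nat_lit 76) (nat_lit 0) (XT.lf (nat_lit 0) (nat_lit 536113203) (nat_lit 152) (nat_lit 7399585275) (nat_lit 152) (nat_lit 4844674707) (nat_lit 156) (nat_lit 4) (nat_lit 158) (nat_lit 5) (nat_lit 158) (nat_lit 4) (nat_lit 416) (nat_lit 305) (nat_lit 299)) (XT.lf (nat_lit 0) (nat_lit 1316774160) (nat_lit 228) (nat_lit 265337456) (nat_lit 76) (nat_lit 11383092499) (nat_lit 155) (nat_lit 5) (nat_lit 158) (nat_lit 5) (nat_lit 156) (nat_lit 4) (nat_lit 417) (nat_lit 305) (nat_lit 298))))) (XT.nd (nat_lit 312) (nat_lit 608) (nat_lit 0) (XT.nd (nat_lit 156) (nat_lit 228) (nat_lit 0) (XT.nd (nat_lit 78) (nat_lit 228) (nat_lit 0) (XT.lf (nat_lit 0) (nat_lit 7603419088) (nat_lit 228) (nat_lit 1160441073) (nat_lit 0) (nat_lit 4389149027) (nat_lit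 153) (nat_lit 5) (nat_lit 156) (nat_lit 4) (nat_lit 153) (nat_lit 4) (nat_lit 418) (nat_lit 305) (nat_lit 297)) (XT.lf (nat_lit 0) (nat_lit 723992624) (nat_lit 228) (nat_lit 2095502124) (nat_lit 76) (nat_lit 10526560536) (nat_lit 150) (nat_lit 5) (nat_lit 153) (nat_lit 5) (nat_lit 151) (nat_lit 4) (nat_lit 419) (nat_lit 305) (nat_lit 296))) (XT.nd (nat_lit 78) (nat_lit 152) (nat_lit 0) (XT.lf (nat_lit 0) (nat_lit 7098452070) (nat_lit 152) (nat_lit 3137771947) (nat_lit 0) (nat_lit 3306294037) (nat_lit 149) (nat_lit 5) (nat_lit 151) (nat_lit 4) (nat_lit 149) (nat_lit 4) (nat_lit 420) (nat_lit 305) (nat_lit 295)) (XT.lf (nat_lit 0) (nat_lit 9512202730) (nat_lit 152) (nat_lit 4172682482) (nat_lit 152) (nat_lit 59367297) (nat_lit 147) (nat_lit 4) (nat_lit 149) (nat_lit 5) (nat_lit 149) (nat_lit 4) (nat_lit 421) (nat_lit 305) (nat_lit 294)))) (XT.nd (nat_lit 156) (nat_lit 304) (nat_lit 0) (XT.nd (nat_lit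 78) (nat_lit 152) (nat_lit 0) (XT.lf (nat_lit 0) (nat_lit 6404616075) (nat_lit 152) (nat_lit 5436711489) (nat_lit 0) (nat_lit 2108384770) (nat_lit 145) (nat_lit 5) (nat_lit 147) (nat_lit 4) (nat_lit 145) (nat_lit 4) (nat_lit 422) (nat_lit 305) (nat_lit 293)) (XT.lf (nat_lit 0) (nat_lit 7445511417) (nat_lit 152) (nat_lit 5652422130) (nat_lit 152) (nat_lit 1062286536) (nat_lit 143) (nat_lit 4) (nat_lit 145) (nat_lit 5) (nat_lit 145) (nat_lit 4) (nat_lit 423) (nat_lit 305) (nat_lit 292))) (XT.nd (nat_lit 78) (nat_lit 152) (nat_lit 0) (XT.lf (nat_lit 0) (nat_lit 5509729402) (nat_lit 152) (nat_lit 8089311590) (nat_lit 0) (nat_lit 776254098) (nat_lit 141) (nat_lit 5) (nat_lit 143) (nat_lit 4) (nat_lit 141) (nat_lit 4) (nat_lit 424) (nat_lit 305) (nat_lit 291)) (XT.lf (nat_lit 0) (nat_lit 5025407419) (nat_lit 152) (nat_lit 7285962160) (nat_lit 152) (nat_lit 2283522797) (nat_lit 139) (nat_lit 4) (nat_lit 141)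 (nat_lit 5) (nat_lit 141) (nat_lit 4) (nat_lit 425) (nat_lit 305) (nat_lit 290))))))) (XT.nd (nat_lit 1170) (nat_lit 1444) (nat_lit 0) (XT.nd (nat_lit 546) (nat_lit 988) (nat_lit 0) (XT.nd (nat_lit 234) (nat_lit 456) (nat_lit 0) (XT.nd (nat_lit 78) (nat_lit 304) (nat_lit 0) (XT.lf (nat_lit 0) (nat_lit 3683400042) (nat_lit 76) (nat_lit 723974124) (nat_lit 152) (nat_lit 10412433105) (nat_lit 137) (nat_lit 5) (nat_lit 138) (nat_lit 5) (nat_lit 139) (nat_lit 4) (nat_lit 426) (nat_lit 305) (nat_lit 289)) (XT.nd (nat_lit 78) (nat_lit 152) (nat_lit 0) (XT.lf (nat_lit 0) (nat_lit 2217648849) (nat_lit 152) (nat_lit 9093895542) (nat_lit 152) (nat_lit 3737493660) (nat_lit 135) (nat_lit 4) (nat_lit 137) (nat_lit 5) (nat_lit 137) (nat_lit 4) (nat_lit 427) (nat_lit 305) (nat_lit 288)) (XT.lf (nat_lit 0) (nat_lit 667768821) (nat_lit 76) (nat_lit 2417522698) (nat_lit 152) (nat_lit 12198684634) (nat_lit 133) (nat_lit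 5) (nat_lit 134) (nat_lit 5) (nat_lit 135) (nat_lit 4) (nat_lit 428) (nat_lit 305) (nat_lit 287)))) (XT.nd (nat_lit 156) (nat_lit 228) (nat_lit 0) (XT.nd (nat_lit 78) (nat_lit 228) (nat_lit 0) (XT.lf (nat_lit 0) (nat_lit 10093303705) (nat_lit 152) (nat_lit 994229042) (nat_lit 0) (nat_lit 4435649604) (nat_lit 133) (nat_lit 5) (nat_lit 135) (nat_lit 4) (nat_lit 133) (nat_lit 4) (nat_lit 429) (nat_lit 305) (nat_lit 286)) (XT.lf (nat_lit 0) (nat_lit 1546987412) (nat_lit 228) (nat_lit 2735962045) (nat_lit 76) (nat_lit 11485118030) (nat_lit 130) (nat_lit 5) (nat_lit 133) (nat_lit 5) (nat_lit 131) (nat_lit 4) (nat_lit 430) (nat_lit 305) (nat_lit 285))) (XT.nd (nat_lit 78) (nat_lit 152) (nat_lit 0) (XT.lf (nat_lit 0) (nat_lit 8656452955) (nat_lit 152) (nat_lit 4616136897) (nat_lit 0) (nat_lit 2745123630) (nat_lit 129) (nat_lit 5) (nat_lit 131) (nat_lit 4) (nat_lit 129) (nat_lit 4) (nat_lit 431) (nat_lit 305)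 (nat_lit 284)) (XT.lf (nat_lit 0) (nat_lit 9671628323) (nat_lit 152) (nat_lit 6356606700) (nat_lit 152) (nat_lit 245142855) (nat_lit 127) (nat_lit 4) (nat_lit 129) (nat_lit 5) (nat_lit 129) (nat_lit 4) (nat_lit 432) (nat_lit 305) (nat_lit 283))))) (XT.nd (nat_lit 312) (nat_lit 380) (nat_lit 0) (XT.nd (nat_lit 156) (nat_lit 304) (nat_lit 0) (XT.nd (nat_lit 78) (nat_lit 152) (nat_lit 0) (XT.lf (nat_lit 0) (nat_lit 6962490423) (nat_lit 152) (nat_lit 8731306118) (nat_lit 0) (nat_lit 840384401) (nat_lit 125) (nat_lit 5) (nat_lit 127) (nat_lit 4) (nat_lit 125) (nat_lit 4) (nat_lit 433) (nat_lit 305) (nat_lit 282)) (XT.lf (nat_lit 0) (nat_lit 5801270724) (nat_lit 152) (nat_lit 8652279144) (nat_lit 152) (nat_lit 2347021685) (nat_lit 123) (nat_lit 4) (nat_lit 125) (nat_lit 5) (nat_lit 125) (nat_lit 4) (nat_lit 434) (nat_lit 305) (nat_lit 281))) (XT.nd (nat_lit 78) (nat_lit 152) (nat_lit 0) (XT.lf (nat_lit 0)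 (nat_lit 3678256529) (nat_lit 76) (nat_lit 1327325202) (nat_lit 152) (nat_lit 12067584910) (nat_lit 121) (nat_lit 5) (nat_lit 122) (nat_lit 5) (nat_lit 123) (nat_lit 4) (nat_lit 435) (nat_lit 305) (nat_lit 280)) (XT.lf (nat_lit 0) (nat_lit 1393721170) (nat_lit 152) (nat_lit 11209612729) (nat_lit 152) (nat_lit 4747756243) (nat_lit 119) (nat_lit 4) (nat_lit 121) (nat_lit 5) (nat_lit 121) (nat_lit 4) (nat_lit 436) (nat_lit 305) (nat_lit 279)))) (XT.nd (nat_lit 156) (nat_lit 228) (nat_lit 0) (XT.nd (nat_lit 78) (nat_lit 76) (nat_lit 0) (XT.lf (nat_lit 0) (nat_lit 2773443149) (nat_lit 228) (nat_lit 994494571) (nat_lit 76) (nat_lit 13867521032) (nat_lit 118) (nat_lit 5) (nat_lit 121) (nat_lit 5) (nat_lit 119) (nat_lit 4) (nat_lit 437) (nat_lit 305) (nat_lit 278)) (XT.lf (nat_lit 0) (nat_lit 10491754467) (nat_lit 152) (nat_lit 3526453783) (nat_lit 0) (nat_lit 3906732911) (nat_lit 117) (nat_lit 5) (nat_lit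 119) (nat_lit 4) (nat_lit 117) (nat_lit 4) (nat_lit 438) (nat_lit 305) (nat_lit 277))) (XT.nd (nat_lit 78) (nat_lit 76) (nat_lit 0) (XT.lf (nat_lit 0) (nat_lit 267891571) (nat_lit 152) (nat_lit 6190120544) (nat_lit 76) (nat_lit 11763423465) (nat_lit 115) (nat_lit 5) (nat_lit 117) (nat_lit 5) (nat_lit 116) (nat_lit 4) (nat_lit 439) (nat_lit 305) (nat_lit 276)) (XT.lf (nat_lit 0) (nat_lit 8081723062) (nat_lit 152) (nat_lit 9038413785) (nat_lit 0) (nat_lit 1403546490) (nat_lit 114) (nat_lit 5) (nat_lit 116) (nat_lit 4) (nat_lit 114) (nat_lit 4) (nat_lit 440) (nat_lit 305) (nat_lit 275)))))) (XT.nd (nat_lit 624) (nat_lit 684) (nat_lit 0) (XT.nd (nat_lit 312) (nat_lit 380) (nat_lit 0) (XT.nd (nat_lit 156) (nat_lit 152) (nat_lit 0) (XT.nd (nat_lit 78) (nat_lit 152) (nat_lit 0) (XT.lf (nat_lit 0) (nat_lit 6777897770) (nat_lit 76) (nat_lit 9434542536) (nat_lit 76) (nat_lit 2620084095) (nat_lit 113) (nat_lit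 4) (nat_lit 114) (nat_lit 5) (nat_lit 114) (nat_lit 4) (nat_lit 441) (nat_lit 305) (nat_lit 274)) (XT.lf (nat_lit 0) (nat_lit 3914740176) (nat_lit 76) (nat_lit 1435757908) (nat_lit 152) (nat_lit 13797960828) (nat_lit 111) (nat_lit 5) (nat_lit 112) (nat_lit 5) (nat_lit 113) (nat_lit 4) (nat_lit 442) (nat_lit 305) (nat_lit 273))) (XT.nd (nat_lit 78) (nat_lit 76) (nat_lit 0) (XT.lf (nat_lit 0) (nat_lit 849384052) (nat_lit 76) (nat_lit 12745127466) (nat_lit 76) (nat_lit 5875972450) (nat_lit 110) (nat_lit 4) (nat_lit 111) (nat_lit 5) (nat_lit 111) (nat_lit 4) (nat_lit 443) (nat_lit 305) (nat_lit 272)) (XT.lf (nat_lit 0) (nat_lit 2299237306) (nat_lit 152) (nat_lit 2322787960) (nat_lit 76) (nat_lit 15177682214) (nat_lit 109) (nat_lit 5) (nat_lit 111) (nat_lit 5) (nat_lit 110) (nat_lit 4) (nat_lit 444) (nat_lit 305) (nat_lit 271)))) (XT.nd (nat_lit 156) (nat_lit 228) (nat_lit 0) (XT.nd (nat_lit 78) (nat_lit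 76) (nat_lit 0) (XT.lf (nat_lit 0) (nat_lit 10671506729) (nat_lit 152) (nat_lit 5692726161) (nat_lit 0) (nat_lit 3770732331) (nat_lit 108) (nat_lit 5) (nat_lit 110) (nat_lit 4) (nat_lit 108) (nat_lit 4) (nat_lit 445) (nat_lit 305) (nat_lit 270)) (XT.lf (nat_lit 0) (nat_lit 11242972673) (nat_lit 76) (nat_lit 8123374974) (nat_lit 76) (nat_lit 1111790945) (nat_lit 107) (nat_lit 4) (nat_lit 108) (nat_lit 5) (nat_lit 108) (nat_lit 4) (nat_lit 446) (nat_lit 305) (nat_lit 269))) (XT.nd (nat_lit 78) (nat_lit 76) (nat_lit 0) (XT.lf (nat_lit 0) (nat_lit 7376226654) (nat_lit 152) (nat_lit 12987846662) (nat_lit 0) (nat_lit 464414814) (nat_lit 105) (nat_lit 5) (nat_lit 107) (nat_lit 4) (nat_lit 105) (nat_lit 4) (nat_lit 447) (nat_lit 305) (nat_lit 268)) (XT.lf (nat_lit 0) (nat_lit 4212456972) (nat_lit 76) (nat_lit 11993252095) (nat_lit 76) (nat_lit 4980033746) (nat_lit 104) (nat_lit 4) (nat_lit 105) (nat_lit 5)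 (nat_lit 105) (nat_lit 4) (nat_lit 448) (nat_lit 305) (nat_lit 267))))) (XT.nd (nat_lit 312) (nat_lit 304) (nat_lit 0) (XT.nd (nat_lit 156) (nat_lit 228) (nat_lit 0) (XT.nd (nat_lit 78) (nat_lit 0) (nat_lit 0) (XT.lf (nat_lit 0) (nat_lit 406930633) (nat_lit 76) (nat_lit 3296814146) (nat_lit 152) (nat_lit 17847975320) (nat_lit 102) (nat_lit 5) (nat_lit 103) (nat_lit 5) (nat_lit 104) (nat_lit 4) (nat_lit 449) (nat_lit 305) (nat_lit 266)) (XT.lf (nat_lit 0) (nat_lit 12669689738) (nat_lit 152) (nat_lit 3581502142) (nat_lit 0) (nat_lit 5672353202) (nat_lit 102) (nat_lit 5) (nat_lit 104) (nat_lit 4) (nat_lit 102) (nat_lit 4) (nat_lit 450) (nat_lit 305) (nat_lit 265))) (XT.nd (nat_lit 78) (nat_lit 152) (nat_lit 0) (XT.lf (nat_lit 0) (nat_lit 14557153062) (nat_lit 76) (nat_lit 7417354905) (nat_lit 76) (nat_lit 329919999) (nat_lit 101) (nat_lit 4) (nat_lit 102) (nat_lit 5) (nat_lit 102) (nat_lit 4) (nat_lit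 451) (nat_lit 305) (nat_lit 264)) (XT.lf (nat_lit 0) (nat_lit 8741379872) (nat_lit 152) (nat_lit 12175776054) (nat_lit 0) (nat_lit 1775448753) (nat_lit 99) (nat_lit 5) (nat_lit 101) (nat_lit 4) (nat_lit 99) (nat_lit 4) (nat_lit 452) (nat_lit 305) (nat_lit 263)))) (XT.nd (nat_lit 156) (nat_lit 76) (nat_lit 0) (XT.nd (nat_lit 78) (nat_lit 152) (nat_lit 0) (XT.lf (nat_lit 0) (nat_lit 6238741957) (nat_lit 76) (nat_lit 11949336948) (nat_lit 76) (nat_lit 4900953057) (nat_lit 98) (nat_lit 4) (nat_lit 99) (nat_lit 5) (nat_lit 99) (nat_lit 4) (nat_lit 453) (nat_lit 305) (nat_lit 262)) (XT.lf (nat_lit 0) (nat_lit 1748884011) (nat_lit 76) (nat_lit 2624179602) (nat_lit 152) (nat_lit 19121858489) (nat_lit 96) (nat_lit 5) (nat_lit 97) (nat_lit 5) (nat_lit 98) (nat_lit 4) (nat_lit 454) (nat_lit 305) (nat_lit 261))) (XT.nd (nat_lit 78) (nat_lit 76) (nat_lit 0) (XT.lf (nat_lit 0) (nat_lit 13963354380) (nat_lit 152)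 (nat_lit 2976994488) (nat_lit 0) (nat_lit 6967087612) (nat_lit 96) (nat_lit 5) (nat_lit 98) (nat_lit 4) (nat_lit 96) (nat_lit 4) (nat_lit 455) (nat_lit 305) (nat_lit 260)) (XT.lf (nat_lit 0) (nat_lit 16452867121) (nat_lit 76) (nat_lit 7473221064) (nat_lit 76) (nat_lit 403696076) (nat_lit 95) (nat_lit 4) (nat_lit 96) (nat_lit 5) (nat_lit 96) (nat_lit 4) (nat_lit 456) (nat_lit 305) (nat_lit 259))))))))
noncomputable def xc31 : XT := (XT.nd (nat_lit 2418) (nat_lit 684) (nat_lit 0) (XT.nd (nat_lit 1170) (nat_lit 1368) (nat_lit 0) (XT.nd (nat_lit 546) (nat_lit 684) (nat_lit 0) (XT.nd (nat_lit 234) (nat_lit 304) (nat_lit 0) (XT.nd (nat_lit 78) (nat_lit 228) (nat_lit 0) (XT.lf (nat_lit 0) (nat_lit 9305787434) (nat_lit 152) (nat_lit 13081176818) (nat_lit 0) (nat_lit 2373118042) (nat_lit 93) (nat_lit 5) (nat_lit 95) (nat_lit 4) (nat_lit 93) (nat_lit 4) (nat_lit 457) (nat_lit 305) (nat_lit 258)) (XT.nd (nat_lit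 78) (nat_lit 152) (nat_lit 0) (XT.lf (nat_lit 0) (nat_lit 6635218040) (nat_lit 76) (nat_lit 12782048800) (nat_lit 76) (nat_lit 5782337759) (nat_lit 92) (nat_lit 4) (nat_lit 93) (nat_lit 5) (nat_lit 93) (nat_lit 4) (nat_lit 458) (nat_lit 305) (nat_lit 257)) (XT.lf (nat_lit 0) (nat_lit 1350278428) (nat_lit 76) (nat_lit 2795080413) (nat_lit 152) (nat_lit 21504334077) (nat_lit 90) (nat_lit 5) (nat_lit 91) (nat_lit 5) (nat_lit 92) (nat_lit 4) (nat_lit 459) (nat_lit 305) (nat_lit 256)))) (XT.nd (nat_lit 156) (nat_lit 228) (nat_lit 0) (XT.nd (nat_lit 78) (nat_lit 76) (nat_lit 0) (XT.lf (nat_lit 0) (nat_lit 14416836519) (nat_lit 152) (nat_lit 4193409991) (nat_lit 0) (nat_lit 7496454767) (nat_lit 90) (nat_lit 5) (nat_lit 92) (nat_lit 4) (nat_lit 90) (nat_lit 4) (nat_lit 460) (nat_lit 305) (nat_lit 255)) (XT.lf (nat_lit 0) (nat_lit 16620617711) (nat_lit 76) (nat_lit 8467007284) (nat_lit 76) (nat_lit 1487059896)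 (nat_lit 89) (nat_lit 4) (nat_lit 90) (nat_lit 5) (nat_lit 90) (nat_lit 4) (nat_lit 461) (nat_lit 305) (nat_lit 254))) (XT.nd (nat_lit 78) (nat_lit 76) (nat_lit 0) (XT.lf (nat_lit 0) (nat_lit 8918741689) (nat_lit 152) (nat_lit 16047228385) (nat_lit 0) (nat_lit 2085947413) (nat_lit 87) (nat_lit 5) (nat_lit 89) (nat_lit 4) (nat_lit 87) (nat_lit 4) (nat_lit 462) (nat_lit 305) (nat_lit 253)) (XT.lf (nat_lit 0) (nat_lit 5063142362) (nat_lit 76) (nat_lit 14681526534) (nat_lit 76) (nat_lit 7794221262) (nat_lit 86) (nat_lit 4) (nat_lit 87) (nat_lit 5) (nat_lit 87) (nat_lit 4) (nat_lit 463) (nat_lit 305) (nat_lit 252))))) (XT.nd (nat_lit 312) (nat_lit 304) (nat_lit 0) (XT.nd (nat_lit 156) (nat_lit 228) (nat_lit 0) (XT.nd (nat_lit 78) (nat_lit 76) (nat_lit 0) (XT.lf (nat_lit 0) (nat_lit 2866700808) (nat_lit 152) (nat_lit 1120825926) (nat_lit 76) (nat_lit 24050096733) (nat_lit 85) (nat_lit 5) (nat_lit 87) (nat_lit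 5) (nat_lit 86) (nat_lit 4) (nat_lit 464) (nat_lit 305) (nat_lit 251)) (XT.lf (nat_lit 0) (nat_lit 13868945108) (nat_lit 152) (nat_lit 7593740196) (nat_lit 0) (nat_lit 7080973836) (nat_lit 84) (nat_lit 5) (nat_lit 86) (nat_lit 4) (nat_lit 84) (nat_lit 4) (nat_lit 465) (nat_lit 305) (nat_lit 250))) (XT.nd (nat_lit 78) (nat_lit 152) (nat_lit 0) (XT.lf (nat_lit 0) (nat_lit 14702111118) (nat_lit 76) (nat_lit 10598099862) (nat_lit 76) (nat_lit 3761696276) (nat_lit 83) (nat_lit 4) (nat_lit 84) (nat_lit 5) (nat_lit 84) (nat_lit 4) (nat_lit 466) (nat_lit 305) (nat_lit 249)) (XT.lf (nat_lit 0) (nat_lit 7402151223) (nat_lit 152) (nat_lit 21470099533) (nat_lit 0) (nat_lit 719214087) (nat_lit 81) (nat_lit 5) (nat_lit 83) (nat_lit 4) (nat_lit 81) (nat_lit 4) (nat_lit 467) (nat_lit 305) (nat_lit 248)))) (XT.nd (nat_lit 156) (nat_lit 152) (nat_lit 0) (XT.nd (nat_lit 78) (nat_lit 76) (nat_lit 0) (XT.lf (nat_lit 0)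 (nat_lit 1130721144) (nat_lit 76) (nat_lit 17863629477) (nat_lit 76) (nat_lit 11136369914) (nat_lit 80) (nat_lit 4) (nat_lit 81) (nat_lit 5) (nat_lit 81) (nat_lit 4) (nat_lit 468) (nat_lit 305) (nat_lit 247)) (XT.lf (nat_lit 0) (nat_lit 369098508) (nat_lit 152) (nat_lit 6021021075) (nat_lit 76) (nat_lit 24292189384) (nat_lit 79) (nat_lit 5) (nat_lit 81) (nat_lit 5) (nat_lit 80) (nat_lit 4) (nat_lit 469) (nat_lit 305) (nat_lit 246))) (XT.nd (nat_lit 78) (nat_lit 76) (nat_lit 0) (XT.lf (nat_lit 0) (nat_lit 12129676439) (nat_lit 152) (nat_lit 13597430480) (nat_lit 0) (nat_lit 5516017035) (nat_lit 78) (nat_lit 5) (nat_lit 80) (nat_lit 4) (nat_lit 78) (nat_lit 4) (nat_lit 470) (nat_lit 305) (nat_lit 245)) (XT.lf (nat_lit 0) (nat_lit 10282536708) (nat_lit 76) (nat_lit 14093636473) (nat_lit 76) (nat_lit 7440597166) (nat_lit 77) (nat_lit 4) (nat_lit 78) (nat_lit 5) (nat_lit 78) (nat_lit 4) (nat_lit 471) (nat_lit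 305) (nat_lit 244)))))) (XT.nd (nat_lit 624) (nat_lit 684) (nat_lit 0) (XT.nd (nat_lit 312) (nat_lit 304) (nat_lit 0) (XT.nd (nat_lit 156) (nat_lit 228) (nat_lit 0) (XT.nd (nat_lit 78) (nat_lit 0) (nat_lit 0) (XT.lf (nat_lit 0) (nat_lit 2577864441) (nat_lit 76) (nat_lit 1988212732) (nat_lit 152) (nat_lit 27838035731) (nat_lit 75) (nat_lit 5) (nat_lit 76) (nat_lit 5) (nat_lit 77) (nat_lit 4) (nat_lit 472) (nat_lit 305) (nat_lit 243)) (XT.lf (nat_lit 0) (nat_lit 17013409015) (nat_lit 152) (nat_lit 5505566440) (nat_lit 0) (nat_lit 10480990027) (nat_lit 75) (nat_lit 5) (nat_lit 77) (nat_lit 4) (nat_lit 75) (nat_lit 4) (nat_lit 473) (nat_lit 305) (nat_lit 242))) (XT.nd (nat_lit 78) (nat_lit 152) (nat_lit 0) (XT.lf (nat_lit 0) (nat_lit 19734209674) (nat_lit 76) (nat_lit 10221620700) (nat_lit 76) (nat_lit 3654213178) (nat_lit 74) (nat_lit 4) (nat_lit 75) (nat_lit 5) (nat_lit 75) (nat_lit 4) (nat_lit 474) (nat_lit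 305) (nat_lit 241)) (XT.lf (nat_lit 0) (nat_lit 8976375872) (nat_lit 152) (nat_lit 22689021706) (nat_lit 0) (nat_lit 2567272014) (nat_lit 72) (nat_lit 5) (nat_lit 74) (nat_lit 4) (nat_lit 72) (nat_lit 4) (nat_lit 475) (nat_lit 305) (nat_lit 240)))) (XT.nd (nat_lit 156) (nat_lit 152) (nat_lit 0) (XT.nd (nat_lit 78) (nat_lit 76) (nat_lit 0) (XT.lf (nat_lit 0) (nat_lit 2881861656) (nat_lit 76) (nat_lit 19213333948) (nat_lit 76) (nat_lit 12772210626) (nat_lit 71) (nat_lit 4) (nat_lit 72) (nat_lit 5) (nat_lit 72) (nat_lit 4) (nat_lit 476) (nat_lit 305) (nat_lit 239)) (XT.lf (nat_lit 0) (nat_lit 228457587) (nat_lit 152) (nat_lit 6008441277) (nat_lit 76) (nat_lit 29279948735) (nat_lit 70) (nat_lit 5) (nat_lit 72) (nat_lit 5) (nat_lit 71) (nat_lit 4) (nat_lit 477) (nat_lit 305) (nat_lit 238))) (XT.nd (nat_lit 78) (nat_lit 76) (nat_lit 0) (XT.lf (nat_lit 0) (nat_lit 13548790504) (nat_lit 152) (nat_lit 15391808424)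 (nat_lit 0) (nat_lit 7235788952) (nat_lit 69) (nat_lit 5) (nat_lit 71) (nat_lit 4) (nat_lit 69) (nat_lit 4) (nat_lit 478) (nat_lit 305) (nat_lit 237)) (XT.lf (nat_lit 0) (nat_lit 11644626725) (nat_lit 76) (nat_lit 15774020333) (nat_lit 76) (nat_lit 9432569902) (nat_lit 68) (nat_lit 4) (nat_lit 69) (nat_lit 5) (nat_lit 69) (nat_lit 4) (nat_lit 479) (nat_lit 305) (nat_lit 236))))) (XT.nd (nat_lit 312) (nat_lit 304) (nat_lit 0) (XT.nd (nat_lit 156) (nat_lit 228) (nat_lit 0) (XT.nd (nat_lit 78) (nat_lit 0) (nat_lit 0) (XT.lf (nat_lit 0) (nat_lit 2094473302) (nat_lit 76) (nat_lit 2074760197) (nat_lit 152) (nat_lit 33373096186) (nat_lit 66) (nat_lit 5) (nat_lit 67) (nat_lit 5) (nat_lit 68) (nat_lit 4) (nat_lit 480) (nat_lit 305) (nat_lit 235)) (XT.lf (nat_lit 0) (nat_lit 18277256589) (nat_lit 152) (nat_lit 7897826878) (nat_lit 0) (nat_lit 12067658045) (nat_lit 66) (nat_lit 5) (nat_lit 68) (nat_lit 4) (nat_lit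 66) (nat_lit 4) (nat_lit 481) (nat_lit 305) (nat_lit 234))) (XT.nd (nat_lit 78) (nat_lit 152) (nat_lit 0) (XT.lf (nat_lit 0) (nat_lit 20696032946) (nat_lit 76) (nat_lit 12249449446) (nat_lit 76) (nat_lit 6014574440) (nat_lit 65) (nat_lit 4) (nat_lit 66) (nat_lit 5) (nat_lit 66) (nat_lit 4) (nat_lit 482) (nat_lit 305) (nat_lit 233)) (XT.lf (nat_lit 0) (nat_lit 8313415959) (nat_lit 152) (nat_lit 29143104944) (nat_lit 0) (nat_lit 2236313766) (nat_lit 63) (nat_lit 5) (nat_lit 65) (nat_lit 4) (nat_lit 63) (nat_lit 4) (nat_lit 483) (nat_lit 305) (nat_lit 232)))) (XT.nd (nat_lit 156) (nat_lit 228) (nat_lit 0) (XT.nd (nat_lit 78) (nat_lit 76) (nat_lit 0) (XT.lf (nat_lit 0) (nat_lit 23175417659) (nat_lit 152) (nat_lit 188455995) (nat_lit 0) (nat_lit 17075183922) (nat_lit 63) (nat_lit 5) (nat_lit 65) (nat_lit 4) (nat_lit 63) (nat_lit 4) (nat_lit 484) (nat_lit 305) (nat_lit 231)) (XT.lf (nat_lit 0) (nat_lit 30060225753)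 (nat_lit 76) (nat_lit 8631933286) (nat_lit 76) (nat_lit 2509241742) (nat_lit 62) (nat_lit 4) (nat_lit 63) (nat_lit 5) (nat_lit 63) (nat_lit 4) (nat_lit 485) (nat_lit 305) (nat_lit 230))) (XT.nd (nat_lit 78) (nat_lit 76) (nat_lit 0) (XT.lf (nat_lit 0) (nat_lit 12613021911) (nat_lit 152) (nat_lit 22717256399) (nat_lit 0) (nat_lit 6647492549) (nat_lit 60) (nat_lit 5) (nat_lit 62) (nat_lit 4) (nat_lit 60) (nat_lit 4) (nat_lit 486) (nat_lit 305) (nat_lit 229)) (XT.lf (nat_lit 0) (nat_lit 7910288284) (nat_lit 76) (nat_lit 20423313710) (nat_lit 76) (nat_lit 14437232272) (nat_lit 59) (nat_lit 4) (nat_lit 60) (nat_lit 5) (nat_lit 60) (nat_lit 4) (nat_lit 487) (nat_lit 305) (nat_lit 228))))))) (XT.nd (nat_lit 47346) (nat_lit 0) (nat_lit 6308) (XT.nd (nat_lit 546) (nat_lit 76) (nat_lit 0) (XT.nd (nat_lit 234) (nat_lit 380) (nat_lit 0) (XT.nd (nat_lit 78) (nat_lit 152) (nat_lit 0) (XT.lf (nat_lit 0) (nat_lit 1071447717)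 (nat_lit 152) (nat_lit 3830996042) (nat_lit 76) (nat_lit 38680425975) (nat_lit 58) (nat_lit 5) (nat_lit 60) (nat_lit 5) (nat_lit 59) (nat_lit 4) (nat_lit 488) (nat_lit 305) (nat_lit 227)) (XT.nd (nat_lit 78) (nat_lit 76) (nat_lit 0) (XT.lf (nat_lit 0) (nat_lit 17060265744) (nat_lit 152) (nat_lit 16135204854) (nat_lit 0) (nat_lit 11210355829) (nat_lit 57) (nat_lit 5) (nat_lit 59) (nat_lit 4) (nat_lit 57) (nat_lit 4) (nat_lit 489) (nat_lit 305) (nat_lit 226)) (XT.lf (nat_lit 0) (nat_lit 16273575821) (nat_lit 76) (nat_lit 17421537608) (nat_lit 76) (nat_lit 11553367440) (nat_lit 56) (nat_lit 4) (nat_lit 57) (nat_lit 5) (nat_lit 57) (nat_lit 4) (nat_lit 490) (nat_lit 305) (nat_lit 225)))) (XT.nd (nat_lit 156) (nat_lit 228) (nat_lit 0) (XT.nd (nat_lit 78) (nat_lit 0) (nat_lit 0) (XT.lf (nat_lit 0) (nat_lit 3743405677) (nat_lit 76) (nat_lit 1000093951) (nat_lit 152) (nat_lit 41367870275) (nat_lit 54) (nat_lit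 5) (nat_lit 55) (nat_lit 5) (nat_lit 56) (nat_lit 4) (nat_lit 491) (nat_lit 305) (nat_lit 224)) (XT.lf (nat_lit 0) (nat_lit 21667880231) (nat_lit 152) (nat_lit 9381004241) (nat_lit 0) (nat_lit 15936704881) (nat_lit 54) (nat_lit 5) (nat_lit 56) (nat_lit 4) (nat_lit 54) (nat_lit 4) (nat_lit 492) (nat_lit 305) (nat_lit 223))) (XT.nd (nat_lit 78) (nat_lit 152) (nat_lit 0) (XT.lf (nat_lit 0) (nat_lit 24919903330) (nat_lit 76) (nat_lit 14354154715) (nat_lit 76) (nat_lit 8606755367) (nat_lit 53) (nat_lit 4) (nat_lit 54) (nat_lit 5) (nat_lit 54) (nat_lit 4) (nat_lit 493) (nat_lit 305) (nat_lit 222)) (XT.lf (nat_lit 0) (nat_lit 8599174962) (nat_lit 152) (nat_lit 37192507479) (nat_lit 0) (nat_lit 3003882920) (nat_lit 51) (nat_lit 5) (nat_lit 53) (nat_lit 4) (nat_lit 51) (nat_lit 4) (nat_lit 494) (nat_lit 305) (nat_lit 221))))) (XT.nd (nat_lit 46488) (nat_lit 0) (nat_lit 8588) (XT.nd (nat_lit 46332) (nat_lit 0)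 (nat_lit 9348) (XT.nd (nat_lit 78) (nat_lit 76) (nat_lit 0) (XT.lf (nat_lit 0) (nat_lit 26449218291) (nat_lit 152) (nat_lit 2437878455) (nat_lit 0) (nat_lit 20839078991) (nat_lit 51) (nat_lit 5) (nat_lit 53) (nat_lit 4) (nat_lit 51) (nat_lit 4) (nat_lit 495) (nat_lit 305) (nat_lit 220)) (XT.lf (nat_lit 0) (nat_lit 33872733488) (nat_lit 76) (nat_lit 11214475828) (nat_lit 76) (nat_lit 5589921716) (nat_lit 50) (nat_lit 4) (nat_lit 51) (nat_lit 5) (nat_lit 51) (nat_lit 4) (nat_lit 496) (nat_lit 305) (nat_lit 219))) (XT.nd (nat_lit 78) (nat_lit 228) (nat_lit 0) (XT.lf (nat_lit 0) (nat_lit 2559296855) (nat_lit 228) (nat_lit 1581842067) (nat_lit 228) (nat_lit 1581842067) (nat_lit 176) (nat_lit 4) (nat_lit 179) (nat_lit 5) (nat_lit 179) (nat_lit 4) (nat_lit 408) (nat_lit 306) (nat_lit 306)) (XT.lf (nat_lit 0) (nat_lit 2574278143) (nat_lit 228) (nat_lit 6968083918) (nat_lit 0) (nat_lit 2058915194) (nat_lit 173)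 (nat_lit 5) (nat_lit 176) (nat_lit 4) (nat_lit 173) (nat_lit 4) (nat_lit 409) (nat_lit 306) (nat_lit 305)))) (XT.nd (nat_lit 156) (nat_lit 380) (nat_lit 0) (XT.nd (nat_lit 78) (nat_lit 228) (nat_lit 0) (XT.lf (nat_lit 0) (nat_lit 4089048416) (nat_lit 152) (nat_lit 4343316015) (nat_lit 152) (nat_lit 3327600688) (nat_lit 171) (nat_lit 4) (nat_lit 173) (nat_lit 5) (nat_lit 173) (nat_lit 4) (nat_lit 410) (nat_lit 306) (nat_lit 304)) (XT.lf (nat_lit 0) (nat_lit 2484858193) (nat_lit 228) (nat_lit 8410974522) (nat_lit 0) (nat_lit 1027096703) (nat_lit 168) (nat_lit 5) (nat_lit 171) (nat_lit 4) (nat_lit 168) (nat_lit 4) (nat_lit 411) (nat_lit 306) (nat_lit 303))) (XT.nd (nat_lit 78) (nat_lit 228) (nat_lit 0) (XT.lf (nat_lit 0) (nat_lit 2856872695) (nat_lit 152) (nat_lit 5573898744) (nat_lit 152) (nat_lit 3658243948) (nat_lit 166) (nat_lit 4) (nat_lit 168) (nat_lit 5) (nat_lit 168) (nat_lit 4) (nat_lit 412) (nat_lit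 306) (nat_lit 302)) (XT.lf (nat_lit 0) (nat_lit 2175662773) (nat_lit 152) (nat_lit 58758003) (nat_lit 228) (nat_lit 10025474560) (nat_lit 163) (nat_lit 5) (nat_lit 165) (nat_lit 5) (nat_lit 166) (nat_lit 4) (nat_lit 413) (nat_lit 306) (nat_lit 301)))))) (XT.nd (nat_lit 624) (nat_lit 1064) (nat_lit 0) (XT.nd (nat_lit 312) (nat_lit 608) (nat_lit 0) (XT.nd (nat_lit 156) (nat_lit 228) (nat_lit 0) (XT.nd (nat_lit 78) (nat_lit 228) (nat_lit 0) (XT.lf (nat_lit 0) (nat_lit 1395862238) (nat_lit 152) (nat_lit 6874133863) (nat_lit 152) (nat_lit 4163629242) (nat_lit 161) (nat_lit 4) (nat_lit 163) (nat_lit 5) (nat_lit 163) (nat_lit 4) (nat_lit 414) (nat_lit 306) (nat_lit 300)) (XT.lf (nat_lit 0) (nat_lit 587131836) (nat_lit 152) (nat_lit 1237729606) (nat_lit 228) (nat_lit 10787544571) (nat_lit 158) (nat_lit 5) (nat_lit 160) (nat_lit 5) (nat_lit 161) (nat_lit 4) (nat_lit 415) (nat_lit 306) (nat_lit 299))) (XT.nd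 (nat_lit 78) (nat_lit 228) (nat_lit 0) (XT.lf (nat_lit 0) (nat_lit 7944557963) (nat_lit 228) (nat_lit 315159484) (nat_lit 0) (nat_lit 4534538856) (nat_lit 158) (nat_lit 5) (nat_lit 161) (nat_lit 4) (nat_lit 158) (nat_lit 4) (nat_lit 416) (nat_lit 306) (nat_lit 298)) (XT.lf (nat_lit 0) (nat_lit 1249116803) (nat_lit 228) (nat_lit 1246621155) (nat_lit 76) (nat_lit 10485232676) (nat_lit 155) (nat_lit 5) (nat_lit 158) (nat_lit 5) (nat_lit 156) (nat_lit 4) (nat_lit 417) (nat_lit 306) (nat_lit 297)))) (XT.nd (nat_lit 156) (nat_lit 228) (nat_lit 0) (XT.nd (nat_lit 78) (nat_lit 228) (nat_lit 0) (XT.lf (nat_lit 0) (nat_lit 7457863958) (nat_lit 228) (nat_lit 2278485182) (nat_lit 0) (nat_lit 3434763501) (nat_lit 153) (nat_lit 5) (nat_lit 156) (nat_lit 4) (nat_lit 153) (nat_lit 4) (nat_lit 418) (nat_lit 306) (nat_lit 296)) (XT.lf (nat_lit 0) (nat_lit 493159312) (nat_lit 228) (nat_lit 3362702675) (nat_lit 76) (nat_lit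 9510454994) (nat_lit 150) (nat_lit 5) (nat_lit 153) (nat_lit 5) (nat_lit 151) (nat_lit 4) (nat_lit 419) (nat_lit 306) (nat_lit 295))) (XT.nd (nat_lit 78) (nat_lit 152) (nat_lit 0) (XT.lf (nat_lit 0) (nat_lit 6786005115) (nat_lit 152) (nat_lit 4551089722) (nat_lit 0) (nat_lit 2228133324) (nat_lit 149) (nat_lit 5) (nat_lit 151) (nat_lit 4) (nat_lit 149) (nat_lit 4) (nat_lit 420) (nat_lit 306) (nat_lit 294)) (XT.lf (nat_lit 0) (nat_lit 7961490762) (nat_lit 152) (nat_lit 5338657700) (nat_lit 152) (nat_lit 468982849) (nat_lit 147) (nat_lit 4) (nat_lit 149) (nat_lit 5) (nat_lit 149) (nat_lit 4) (nat_lit 421) (nat_lit 306) (nat_lit 293))))) (XT.nd (nat_lit 312) (nat_lit 456) (nat_lit 0) (XT.nd (nat_lit 156) (nat_lit 304) (nat_lit 0) (XT.nd (nat_lit 78) (nat_lit 152) (nat_lit 0) (XT.lf (nat_lit 0) (nat_lit 5917350547) (nat_lit 152) (nat_lit 7164321406) (nat_lit 0) (nat_lit 895606597) (nat_lit 145) (nat_lit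 5) (nat_lit 147) (nat_lit 4) (nat_lit 145) (nat_lit 4) (nat_lit 422) (nat_lit 306) (nat_lit 292)) (XT.lf (nat_lit 0) (nat_lit 5573985091) (nat_lit 152) (nat_lit 6961571240) (nat_lit 152) (nat_lit 1654483319) (nat_lit 143) (nat_lit 4) (nat_lit 145) (nat_lit 5) (nat_lit 145) (nat_lit 4) (nat_lit 423) (nat_lit 306) (nat_lit 291))) (XT.nd (nat_lit 78) (nat_lit 152) (nat_lit 0) (XT.lf (nat_lit 0) (nat_lit 4250824082) (nat_lit 76) (nat_lit 593976401) (nat_lit 152) (nat_lit 9563013592) (nat_lit 141) (nat_lit 5) (nat_lit 142) (nat_lit 5) (nat_lit 143) (nat_lit 4) (nat_lit 424) (nat_lit 306) (nat_lit 290)) (XT.lf (nat_lit 0) (nat_lit 2812623363) (nat_lit 152) (nat_lit 8749955307) (nat_lit 152) (nat_lit 3067348551) (nat_lit 139) (nat_lit 4) (nat_lit 141) (nat_lit 5) (nat_lit 141) (nat_lit 4) (nat_lit 425) (nat_lit 306) (nat_lit 289)))) (XT.nd (nat_lit 156) (nat_lit 304) (nat_lit 0) (XT.nd (nat_lit 78) (nat_lit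 0) (nat_lit 0) (XT.lf (nat_lit 0) (nat_lit 1288674805) (nat_lit 76) (nat_lit 2270342920) (nat_lit 152) (nat_lit 11298445208) (nat_lit 137) (nat_lit 5) (nat_lit 138) (nat_lit 5) (nat_lit 139) (nat_lit 4) (nat_lit 426) (nat_lit 306) (nat_lit 288)) (XT.lf (nat_lit 0) (nat_lit 10370343614) (nat_lit 152) (nat_lit 350997050) (nat_lit 0) (nat_lit 4368138379) (nat_lit 137) (nat_lit 5) (nat_lit 139) (nat_lit 4) (nat_lit 137) (nat_lit 4) (nat_lit 427) (nat_lit 306) (nat_lit 287))) (XT.nd (nat_lit 78) (nat_lit 76) (nat_lit 0) (XT.lf (nat_lit 0) (nat_lit 2056317516) (nat_lit 228) (nat_lit 2059891437) (nat_lit 76) (nat_lit 11210485905) (nat_lit 134) (nat_lit 5) (nat_lit 137) (nat_lit 5) (nat_lit 135) (nat_lit 4) (nat_lit 428) (nat_lit 306) (nat_lit 286)) (XT.lf (nat_lit 0) (nat_lit 8971144409) (nat_lit 152) (nat_lit 3897737077) (nat_lit 0) (nat_lit 2699815128) (nat_lit 133) (nat_lit 5) (nat_lit 135) (nat_lit 4)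 (nat_lit 133) (nat_lit 4) (nat_lit 429) (nat_lit 306) (nat_lit 285))))))))
noncomputable def xc32 : XT := (XT.nd (nat_lit 2340) (nat_lit 2660) (nat_lit 0) (XT.nd (nat_lit 1170) (nat_lit 1368) (nat_lit 0) (XT.nd (nat_lit 546) (nat_lit 836) (nat_lit 0) (XT.nd (nat_lit 234) (nat_lit 456) (nat_lit 0) (XT.nd (nat_lit 78) (nat_lit 228) (nat_lit 0) (XT.lf (nat_lit 0) (nat_lit 316953316) (nat_lit 228) (nat_lit 5840236759) (nat_lit 76) (nat_lit 9659282788) (nat_lit 130) (nat_lit 5) (nat_lit 133) (nat_lit 5) (nat_lit 131) (nat_lit 4) (nat_lit 430) (nat_lit 306) (nat_lit 284)) (XT.nd (nat_lit 78) (nat_lit 152) (nat_lit 0) (XT.lf (nat_lit 0) (nat_lit 7321389343) (nat_lit 152) (nat_lit 7921433336) (nat_lit 0) (nat_lit 826447064) (nat_lit 129) (nat_lit 5) (nat_lit 131) (nat_lit 4) (nat_lit 129) (nat_lit 4) (nat_lit 431) (nat_lit 306) (nat_lit 283)) (XT.lf (nat_lit 0) (nat_lit 6193371332) (nat_lit 152) (nat_lit 8411726329)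 (nat_lit 152) (nat_lit 1722478691) (nat_lit 127) (nat_lit 4) (nat_lit 129) (nat_lit 5) (nat_lit 129) (nat_lit 4) (nat_lit 432) (nat_lit 306) (nat_lit 282)))) (XT.nd (nat_lit 156) (nat_lit 152) (nat_lit 0) (XT.nd (nat_lit 78) (nat_lit 152) (nat_lit 0) (XT.lf (nat_lit 0) (nat_lit 4115850667) (nat_lit 76) (nat_lit 1299786910) (nat_lit 152) (nat_lit 11176118224) (nat_lit 125) (nat_lit 5) (nat_lit 126) (nat_lit 5) (nat_lit 127) (nat_lit 4) (nat_lit 433) (nat_lit 306) (nat_lit 281)) (XT.lf (nat_lit 0) (nat_lit 1887544680) (nat_lit 152) (nat_lit 10914561502) (nat_lit 152) (nat_lit 4059177956) (nat_lit 123) (nat_lit 4) (nat_lit 125) (nat_lit 5) (nat_lit 125) (nat_lit 4) (nat_lit 434) (nat_lit 306) (nat_lit 280))) (XT.nd (nat_lit 78) (nat_lit 76) (nat_lit 0) (XT.lf (nat_lit 0) (nat_lit 3237054058) (nat_lit 228) (nat_lit 456801600) (nat_lit 76) (nat_lit 13443210768) (nat_lit 122) (nat_lit 5) (nat_lit 125) (nat_lit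 5) (nat_lit 123) (nat_lit 4) (nat_lit 435) (nat_lit 306) (nat_lit 279)) (XT.lf (nat_lit 0) (nat_lit 10739811634) (nat_lit 152) (nat_lit 2924265868) (nat_lit 0) (nat_lit 3753762265) (nat_lit 121) (nat_lit 5) (nat_lit 123) (nat_lit 4) (nat_lit 121) (nat_lit 4) (nat_lit 436) (nat_lit 306) (nat_lit 278))))) (XT.nd (nat_lit 312) (nat_lit 304) (nat_lit 0) (XT.nd (nat_lit 156) (nat_lit 228) (nat_lit 0) (XT.nd (nat_lit 78) (nat_lit 76) (nat_lit 0) (XT.lf (nat_lit 0) (nat_lit 797605649) (nat_lit 228) (nat_lit 5524897937) (nat_lit 76) (nat_lit 11382758404) (nat_lit 118) (nat_lit 5) (nat_lit 121) (nat_lit 5) (nat_lit 119) (nat_lit 4) (nat_lit 437) (nat_lit 306) (nat_lit 277)) (XT.lf (nat_lit 0) (nat_lit 8392316194) (nat_lit 152) (nat_lit 8298697559) (nat_lit 0) (nat_lit 1307438669) (nat_lit 117) (nat_lit 5) (nat_lit 119) (nat_lit 4) (nat_lit 117) (nat_lit 4) (nat_lit 438) (nat_lit 306) (nat_lit 276))) (XT.nd (nat_lit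 78) (nat_lit 152) (nat_lit 0) (XT.lf (nat_lit 0) (nat_lit 7062297502) (nat_lit 76) (nat_lit 9232599577) (nat_lit 76) (nat_lit 2003140618) (nat_lit 116) (nat_lit 4) (nat_lit 117) (nat_lit 5) (nat_lit 117) (nat_lit 4) (nat_lit 439) (nat_lit 306) (nat_lit 275)) (XT.lf (nat_lit 0) (nat_lit 4268499424) (nat_lit 76) (nat_lit 1464667427) (nat_lit 152) (nat_lit 12871194640) (nat_lit 114) (nat_lit 5) (nat_lit 115) (nat_lit 5) (nat_lit 116) (nat_lit 4) (nat_lit 440) (nat_lit 306) (nat_lit 274)))) (XT.nd (nat_lit 156) (nat_lit 152) (nat_lit 0) (XT.nd (nat_lit 78) (nat_lit 76) (nat_lit 0) (XT.lf (nat_lit 0) (nat_lit 1284753542) (nat_lit 76) (nat_lit 12459758369) (nat_lit 76) (nat_lit 5172271811) (nat_lit 113) (nat_lit 4) (nat_lit 114) (nat_lit 5) (nat_lit 114) (nat_lit 4) (nat_lit 441) (nat_lit 306) (nat_lit 273)) (XT.lf (nat_lit 0) (nat_lit 2758030578) (nat_lit 152) (nat_lit 1817143214) (nat_lit 76) (nat_lit 14660982901)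 (nat_lit 112) (nat_lit 5) (nat_lit 114) (nat_lit 5) (nat_lit 113) (nat_lit 4) (nat_lit 442) (nat_lit 306) (nat_lit 272))) (XT.nd (nat_lit 78) (nat_lit 76) (nat_lit 0) (XT.lf (nat_lit 0) (nat_lit 10893331435) (nat_lit 152) (nat_lit 5095811815) (nat_lit 0) (nat_lit 3572299877) (nat_lit 111) (nat_lit 5) (nat_lit 113) (nat_lit 4) (nat_lit 111) (nat_lit 4) (nat_lit 443) (nat_lit 306) (nat_lit 271)) (XT.lf (nat_lit 0) (nat_lit 11351836250) (nat_lit 76) (nat_lit 7990574903) (nat_lit 76) (nat_lit 551985407) (nat_lit 110) (nat_lit 4) (nat_lit 111) (nat_lit 5) (nat_lit 111) (nat_lit 4) (nat_lit 444) (nat_lit 306) (nat_lit 270)))))) (XT.nd (nat_lit 546) (nat_lit 684) (nat_lit 0) (XT.nd (nat_lit 234) (nat_lit 304) (nat_lit 0) (XT.nd (nat_lit 78) (nat_lit 228) (nat_lit 0) (XT.lf (nat_lit 0) (nat_lit 7684816232) (nat_lit 152) (nat_lit 12197309368) (nat_lit 0) (nat_lit 352075051) (nat_lit 108) (nat_lit 5) (nat_lit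 110) (nat_lit 4) (nat_lit 108) (nat_lit 4) (nat_lit 445) (nat_lit 306) (nat_lit 269)) (XT.nd (nat_lit 78) (nat_lit 152) (nat_lit 0) (XT.lf (nat_lit 0) (nat_lit 4507146226) (nat_lit 76) (nat_lit 11757008113) (nat_lit 76) (nat_lit 4316684766) (nat_lit 107) (nat_lit 4) (nat_lit 108) (nat_lit 5) (nat_lit 108) (nat_lit 4) (nat_lit 446) (nat_lit 306) (nat_lit 268)) (XT.lf (nat_lit 0) (nat_lit 800303698) (nat_lit 76) (nat_lit 3310571055) (nat_lit 152) (nat_lit 16824928026) (nat_lit 105) (nat_lit 5) (nat_lit 106) (nat_lit 5) (nat_lit 107) (nat_lit 4) (nat_lit 447) (nat_lit 306) (nat_lit 267)))) (XT.nd (nat_lit 156) (nat_lit 152) (nat_lit 0) (XT.nd (nat_lit 78) (nat_lit 152) (nat_lit 0) (XT.lf (nat_lit 0) (nat_lit 12817377682) (nat_lit 152) (nat_lit 3085465813) (nat_lit 0) (nat_lit 5393903352) (nat_lit 105) (nat_lit 5) (nat_lit 107) (nat_lit 4) (nat_lit 105) (nat_lit 4) (nat_lit 448) (nat_lit 306) (nat_lit 266))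 (XT.lf (nat_lit 0) (nat_lit 187598021) (nat_lit 152) (nat_lit 7138235707) (nat_lit 76) (nat_lit 14340452416) (nat_lit 103) (nat_lit 5) (nat_lit 105) (nat_lit 5) (nat_lit 104) (nat_lit 4) (nat_lit 449) (nat_lit 306) (nat_lit 265))) (XT.nd (nat_lit 78) (nat_lit 76) (nat_lit 0) (XT.lf (nat_lit 0) (nat_lit 8993557158) (nat_lit 152) (nat_lit 11445952708) (nat_lit 0) (nat_lit 1603400835) (nat_lit 102) (nat_lit 5) (nat_lit 104) (nat_lit 4) (nat_lit 102) (nat_lit 4) (nat_lit 450) (nat_lit 306) (nat_lit 264)) (XT.lf (nat_lit 0) (nat_lit 6437188555) (nat_lit 76) (nat_lit 11734025174) (nat_lit 76) (nat_lit 4256394705) (nat_lit 101) (nat_lit 4) (nat_lit 102) (nat_lit 5) (nat_lit 102) (nat_lit 4) (nat_lit 451) (nat_lit 306) (nat_lit 263))))) (XT.nd (nat_lit 312) (nat_lit 304) (nat_lit 0) (XT.nd (nat_lit 156) (nat_lit 228) (nat_lit 0) (XT.nd (nat_lit 78) (nat_lit 0) (nat_lit 0) (XT.lf (nat_lit 0) (nat_lit 2067030622)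 (nat_lit 76) (nat_lit 2676608514) (nat_lit 152) (nat_lit 18077714895) (nat_lit 99) (nat_lit 5) (nat_lit 100) (nat_lit 5) (nat_lit 101) (nat_lit 4) (nat_lit 452) (nat_lit 306) (nat_lit 262)) (XT.lf (nat_lit 0) (nat_lit 14055604270) (nat_lit 152) (nat_lit 2532954204) (nat_lit 0) (nat_lit 6633264856) (nat_lit 99) (nat_lit 5) (nat_lit 101) (nat_lit 4) (nat_lit 99) (nat_lit 4) (nat_lit 453) (nat_lit 306) (nat_lit 261))) (XT.nd (nat_lit 78) (nat_lit 76) (nat_lit 0) (XT.lf (nat_lit 0) (nat_lit 100127204) (nat_lit 152) (nat_lit 7296800834) (nat_lit 76) (nat_lit 16234742475) (nat_lit 97) (nat_lit 5) (nat_lit 99) (nat_lit 5) (nat_lit 98) (nat_lit 4) (nat_lit 454) (nat_lit 306) (nat_lit 260)) (XT.lf (nat_lit 0) (nat_lit 9523327000) (nat_lit 152) (nat_lit 12357412578) (nat_lit 0) (nat_lit 2168458043) (nat_lit 96) (nat_lit 5) (nat_lit 98) (nat_lit 4) (nat_lit 96) (nat_lit 4) (nat_lit 455) (nat_lit 306) (nat_lit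 259)))) (XT.nd (nat_lit 156) (nat_lit 76) (nat_lit 0) (XT.nd (nat_lit 78) (nat_lit 152) (nat_lit 0) (XT.lf (nat_lit 0) (nat_lit 6789508371) (nat_lit 76) (nat_lit 12556121698) (nat_lit 76) (nat_lit 5130128254) (nat_lit 95) (nat_lit 4) (nat_lit 96) (nat_lit 5) (nat_lit 96) (nat_lit 4) (nat_lit 456) (nat_lit 306) (nat_lit 258)) (XT.lf (nat_lit 0) (nat_lit 1648376249) (nat_lit 76) (nat_lit 2855772809) (nat_lit 152) (nat_lit 20408293375) (nat_lit 93) (nat_lit 5) (nat_lit 94) (nat_lit 5) (nat_lit 95) (nat_lit 4) (nat_lit 457) (nat_lit 306) (nat_lit 257))) (XT.nd (nat_lit 78) (nat_lit 76) (nat_lit 0) (XT.lf (nat_lit 0) (nat_lit 14476914393) (nat_lit 152) (nat_lit 3744130377) (nat_lit 0) (nat_lit 7135081392) (nat_lit 93) (nat_lit 5) (nat_lit 95) (nat_lit 4) (nat_lit 93) (nat_lit 4) (nat_lit 458) (nat_lit 306) (nat_lit 256)) (XT.lf (nat_lit 0) (nat_lit 16468369251) (nat_lit 76) (nat_lit 8373493665) (nat_lit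 76) (nat_lit 968467480) (nat_lit 92) (nat_lit 4) (nat_lit 93) (nat_lit 5) (nat_lit 93) (nat_lit 4) (nat_lit 459) (nat_lit 306) (nat_lit 255))))))) (XT.nd (nat_lit 1170) (nat_lit 1292) (nat_lit 0) (XT.nd (nat_lit 546) (nat_lit 684) (nat_lit 0) (XT.nd (nat_lit 234) (nat_lit 380) (nat_lit 0) (XT.nd (nat_lit 78) (nat_lit 152) (nat_lit 0) (XT.lf (nat_lit 0) (nat_lit 9128364523) (nat_lit 152) (nat_lit 15265606759) (nat_lit 0) (nat_lit 1879453076) (nat_lit 90) (nat_lit 5) (nat_lit 92) (nat_lit 4) (nat_lit 90) (nat_lit 4) (nat_lit 460) (nat_lit 306) (nat_lit 254)) (XT.nd (nat_lit 78) (nat_lit 76) (nat_lit 0) (XT.lf (nat_lit 0) (nat_lit 5234500702) (nat_lit 76) (nat_lit 14409157144) (nat_lit 76) (nat_lit 7102414981) (nat_lit 89) (nat_lit 4) (nat_lit 90) (nat_lit 5) (nat_lit 90) (nat_lit 4) (nat_lit 461) (nat_lit 306) (nat_lit 253)) (XT.lf (nat_lit 0) (nat_lit 3240497503) (nat_lit 152) (nat_lit 784678555) (nat_lit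 76) (nat_lit 23204922657) (nat_lit 88) (nat_lit 5) (nat_lit 90) (nat_lit 5) (nat_lit 89) (nat_lit 4) (nat_lit 462) (nat_lit 306) (nat_lit 252)))) (XT.nd (nat_lit 156) (nat_lit 228) (nat_lit 0) (XT.nd (nat_lit 78) (nat_lit 76) (nat_lit 0) (XT.lf (nat_lit 0) (nat_lit 13925296896) (nat_lit 152) (nat_lit 7072070152) (nat_lit 0) (nat_lit 6723938173) (nat_lit 87) (nat_lit 5) (nat_lit 89) (nat_lit 4) (nat_lit 87) (nat_lit 4) (nat_lit 463) (nat_lit 306) (nat_lit 251)) (XT.lf (nat_lit 0) (nat_lit 14578900196) (nat_lit 76) (nat_lit 10449083987) (nat_lit 76) (nat_lit 3196343423) (nat_lit 86) (nat_lit 4) (nat_lit 87) (nat_lit 5) (nat_lit 87) (nat_lit 4) (nat_lit 464) (nat_lit 306) (nat_lit 250))) (XT.nd (nat_lit 78) (nat_lit 76) (nat_lit 0) (XT.lf (nat_lit 0) (nat_lit 7636202874) (nat_lit 152) (nat_lit 20555769399) (nat_lit 0) (nat_lit 546274867) (nat_lit 84) (nat_lit 5) (nat_lit 86) (nat_lit 4) (nat_lit 84) (nat_lit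 4) (nat_lit 465) (nat_lit 306) (nat_lit 249)) (XT.lf (nat_lit 0) (nat_lit 1391183264) (nat_lit 76) (nat_lit 17503719323) (nat_lit 76) (nat_lit 10366769653) (nat_lit 83) (nat_lit 4) (nat_lit 84) (nat_lit 5) (nat_lit 84) (nat_lit 4) (nat_lit 466) (nat_lit 306) (nat_lit 248))))) (XT.nd (nat_lit 312) (nat_lit 304) (nat_lit 0) (XT.nd (nat_lit 156) (nat_lit 228) (nat_lit 0) (XT.nd (nat_lit 78) (nat_lit 76) (nat_lit 0) (XT.lf (nat_lit 0) (nat_lit 796178338) (nat_lit 152) (nat_lit 5566359744) (nat_lit 76) (nat_lit 23434490154) (nat_lit 82) (nat_lit 5) (nat_lit 84) (nat_lit 5) (nat_lit 83) (nat_lit 4) (nat_lit 467) (nat_lit 306) (nat_lit 247)) (XT.lf (nat_lit 0) (nat_lit 12216661603) (nat_lit 152) (nat_lit 12924543469) (nat_lit 0) (nat_lit 5200230341) (nat_lit 81) (nat_lit 5) (nat_lit 83) (nat_lit 4) (nat_lit 81) (nat_lit 4) (nat_lit 468) (nat_lit 306) (nat_lit 246))) (XT.nd (nat_lit 78) (nat_lit 152) (nat_lit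 0) (XT.lf (nat_lit 0) (nat_lit 10264207132) (nat_lit 76) (nat_lit 13846129872) (nat_lit 76) (nat_lit 6787920472) (nat_lit 80) (nat_lit 4) (nat_lit 81) (nat_lit 5) (nat_lit 81) (nat_lit 4) (nat_lit 469) (nat_lit 306) (nat_lit 245)) (XT.lf (nat_lit 0) (nat_lit 2775753617) (nat_lit 76) (nat_lit 2088544076) (nat_lit 152) (nat_lit 26603956756) (nat_lit 78) (nat_lit 5) (nat_lit 79) (nat_lit 5) (nat_lit 80) (nat_lit 4) (nat_lit 470) (nat_lit 306) (nat_lit 244)))) (XT.nd (nat_lit 156) (nat_lit 228) (nat_lit 0) (XT.nd (nat_lit 78) (nat_lit 76) (nat_lit 0) (XT.lf (nat_lit 0) (nat_lit 16948635538) (nat_lit 152) (nat_lit 5079737837) (nat_lit 0) (nat_lit 10018392233) (nat_lit 78) (nat_lit 5) (nat_lit 80) (nat_lit 4) (nat_lit 78) (nat_lit 4) (nat_lit 471) (nat_lit 306) (nat_lit 243)) (XT.lf (nat_lit 0) (nat_lit 19429122331) (nat_lit 76) (nat_lit 10088602881) (nat_lit 76) (nat_lit 3121240240) (nat_lit 77) (nat_lit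 4) (nat_lit 78) (nat_lit 5) (nat_lit 78) (nat_lit 4) (nat_lit 472) (nat_lit 306) (nat_lit 242))) (XT.nd (nat_lit 78) (nat_lit 76) (nat_lit 0) (XT.lf (nat_lit 0) (nat_lit 9135133430) (nat_lit 152) (nat_lit 21772425495) (nat_lit 0) (nat_lit 2335715148) (nat_lit 75) (nat_lit 5) (nat_lit 77) (nat_lit 4) (nat_lit 75) (nat_lit 4) (nat_lit 473) (nat_lit 306) (nat_lit 241)) (XT.lf (nat_lit 0) (nat_lit 3057794517) (nat_lit 76) (nat_lit 18817506486) (nat_lit 76) (nat_lit 11984118753) (nat_lit 74) (nat_lit 4) (nat_lit 75) (nat_lit 5) (nat_lit 75) (nat_lit 4) (nat_lit 474) (nat_lit 306) (nat_lit 240)))))) (XT.nd (nat_lit 624) (nat_lit 608) (nat_lit 0) (XT.nd (nat_lit 312) (nat_lit 304) (nat_lit 0) (XT.nd (nat_lit 156) (nat_lit 228) (nat_lit 0) (XT.nd (nat_lit 78) (nat_lit 76) (nat_lit 0) (XT.lf (nat_lit 0) (nat_lit 630693531) (nat_lit 152) (nat_lit 5586059912) (nat_lit 76) (nat_lit 28273044214) (nat_lit 73) (nat_lit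 5) (nat_lit 75) (nat_lit 5) (nat_lit 74) (nat_lit 4) (nat_lit 475) (nat_lit 306) (nat_lit 239)) (XT.lf (nat_lit 0) (nat_lit 13564822945) (nat_lit 152) (nat_lit 14697892462) (nat_lit 0) (nat_lit 6867359599) (nat_lit 72) (nat_lit 5) (nat_lit 74) (nat_lit 4) (nat_lit 72) (nat_lit 4) (nat_lit 476) (nat_lit 306) (nat_lit 238))) (XT.nd (nat_lit 78) (nat_lit 152) (nat_lit 0) (XT.lf (nat_lit 0) (nat_lit 11555099755) (nat_lit 76) (nat_lit 15478848265) (nat_lit 76) (nat_lit 8751203502) (nat_lit 71) (nat_lit 4) (nat_lit 72) (nat_lit 5) (nat_lit 72) (nat_lit 4) (nat_lit 477) (nat_lit 306) (nat_lit 237)) (XT.lf (nat_lit 0) (nat_lit 2275835162) (nat_lit 76) (nat_lit 2173811276) (nat_lit 152) (nat_lit 32006276536) (nat_lit 69) (nat_lit 5) (nat_lit 70) (nat_lit 5) (nat_lit 71) (nat_lit 4) (nat_lit 478) (nat_lit 306) (nat_lit 236)))) (XT.nd (nat_lit 156) (nat_lit 228) (nat_lit 0) (XT.nd (nat_lit 78) (nat_lit 76) (nat_lit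 0) (XT.lf (nat_lit 0) (nat_lit 18145996740) (nat_lit 152) (nat_lit 7431726856) (nat_lit 0) (nat_lit 11558233644) (nat_lit 69) (nat_lit 5) (nat_lit 71) (nat_lit 4) (nat_lit 69) (nat_lit 4) (nat_lit 479) (nat_lit 306) (nat_lit 235)) (XT.lf (nat_lit 0) (nat_lit 20333234329) (nat_lit 76) (nat_lit 12056816353) (nat_lit 76) (nat_lit 5442237460) (nat_lit 68) (nat_lit 4) (nat_lit 69) (nat_lit 5) (nat_lit 69) (nat_lit 4) (nat_lit 480) (nat_lit 306) (nat_lit 234))) (XT.nd (nat_lit 78) (nat_lit 76) (nat_lit 0) (XT.lf (nat_lit 0) (nat_lit 8462119927) (nat_lit 152) (nat_lit 28066523156) (nat_lit 0) (nat_lit 2014922210) (nat_lit 66) (nat_lit 5) (nat_lit 68) (nat_lit 4) (nat_lit 66) (nat_lit 4) (nat_lit 481) (nat_lit 306) (nat_lit 233)) (XT.lf (nat_lit 0) (nat_lit 44976888) (nat_lit 76) (nat_lit 22847390523) (nat_lit 76) (nat_lit 16375652552) (nat_lit 65) (nat_lit 4) (nat_lit 66) (nat_lit 5) (nat_lit 66) (nat_lit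 4) (nat_lit 482) (nat_lit 306) (nat_lit 232))))) (XT.nd (nat_lit 312) (nat_lit 304) (nat_lit 0) (XT.nd (nat_lit 156) (nat_lit 152) (nat_lit 0) (XT.nd (nat_lit 78) (nat_lit 152) (nat_lit 0) (XT.lf (nat_lit 0) (nat_lit 29415589936) (nat_lit 76) (nat_lit 8544029443) (nat_lit 76) (nat_lit 2048465983) (nat_lit 65) (nat_lit 4) (nat_lit 66) (nat_lit 5) (nat_lit 66) (nat_lit 4) (nat_lit 483) (nat_lit 306) (nat_lit 231)) (XT.lf (nat_lit 0) (nat_lit 12627054917) (nat_lit 152) (nat_lit 21836412880) (nat_lit 0) (nat_lit 6298224817) (nat_lit 63) (nat_lit 5) (nat_lit 65) (nat_lit 4) (nat_lit 63) (nat_lit 4) (nat_lit 484) (nat_lit 306) (nat_lit 230))) (XT.nd (nat_lit 78) (nat_lit 76) (nat_lit 0) (XT.lf (nat_lit 0) (nat_lit 7902806635) (nat_lit 76) (nat_lit 19989700824) (nat_lit 76) (nat_lit 13639067026) (nat_lit 62) (nat_lit 4) (nat_lit 63) (nat_lit 5) (nat_lit 63) (nat_lit 4) (nat_lit 485) (nat_lit 306) (nat_lit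 229)) (XT.lf (nat_lit 0) (nat_lit 1411127116) (nat_lit 152) (nat_lit 3507214389) (nat_lit 76) (nat_lit 37401490234) (nat_lit 61) (nat_lit 5) (nat_lit 63) (nat_lit 5) (nat_lit 62) (nat_lit 4) (nat_lit 486) (nat_lit 306) (nat_lit 228)))) (XT.nd (nat_lit 156) (nat_lit 152) (nat_lit 0) (XT.nd (nat_lit 78) (nat_lit 76) (nat_lit 0) (XT.lf (nat_lit 0) (nat_lit 16935385814) (nat_lit 152) (nat_lit 15454182588) (nat_lit 0) (nat_lit 10729216385) (nat_lit 60) (nat_lit 5) (nat_lit 62) (nat_lit 4) (nat_lit 60) (nat_lit 4) (nat_lit 487) (nat_lit 306) (nat_lit 227)) (XT.lf (nat_lit 0) (nat_lit 16014300283) (nat_lit 76) (nat_lit 17074029575) (nat_lit 76) (nat_lit 10848487843) (nat_lit 59) (nat_lit 4) (nat_lit 60) (nat_lit 5) (nat_lit 60) (nat_lit 4) (nat_lit 488) (nat_lit 306) (nat_lit 226))) (XT.nd (nat_lit 78) (nat_lit 0) (nat_lit 0) (XT.lf (nat_lit 0) (nat_lit 3842832801) (nat_lit 76) (nat_lit 1126222663) (nat_lit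 152) (nat_lit 39805336433) (nat_lit 57) (nat_lit 5) (nat_lit 58) (nat_lit 5) (nat_lit 59) (nat_lit 4) (nat_lit 489) (nat_lit 306) (nat_lit 225)) (XT.lf (nat_lit 0) (nat_lit 21399497013) (nat_lit 152) (nat_lit 8904388424) (nat_lit 0) (nat_lit 15319293085) (nat_lit 57) (nat_lit 5) (nat_lit 59) (nat_lit 4) (nat_lit 57) (nat_lit 4) (nat_lit 490) (nat_lit 306) (nat_lit 224))))))))
noncomputable def xc33 : XT := (XT.nd (nat_lit 48360) (nat_lit 0) (nat_lit 3116) (XT.nd (nat_lit 47190) (nat_lit 0) (nat_lit 6308) (XT.nd (nat_lit 46566) (nat_lit 0) (nat_lit 8436) (XT.nd (nat_lit 234) (nat_lit 304) (nat_lit 0) (XT.nd (nat_lit 78) (nat_lit 152) (nat_lit 0) (XT.lf (nat_lit 0) (nat_lit 24401019665) (nat_lit 76) (nat_lit 14094325130) (nat_lit 76) (nat_lit 7996909161) (nat_lit 56) (nat_lit 4) (nat_lit 57) (nat_lit 5) (nat_lit 57) (nat_lit 4) (nat_lit 491) (nat_lit 306) (nat_lit 223)) (XT.nd (nat_lit 78) (nat_lit 0)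 (nat_lit 0) (XT.lf (nat_lit 0) (nat_lit 8701791354) (nat_lit 152) (nat_lit 35912694017) (nat_lit 0) (nat_lit 2765746027) (nat_lit 54) (nat_lit 5) (nat_lit 56) (nat_lit 4) (nat_lit 54) (nat_lit 4) (nat_lit 492) (nat_lit 306) (nat_lit 222)) (XT.lf (nat_lit 0) (nat_lit 26032371644) (nat_lit 152) (nat_lit 2170776877) (nat_lit 0) (nat_lit 20080574861) (nat_lit 54) (nat_lit 5) (nat_lit 56) (nat_lit 4) (nat_lit 54) (nat_lit 4) (nat_lit 493) (nat_lit 306) (nat_lit 221)))) (XT.nd (nat_lit 156) (nat_lit 76) (nat_lit 0) (XT.nd (nat_lit 78) (nat_lit 152) (nat_lit 0) (XT.lf (nat_lit 0) (nat_lit 33085710298) (nat_lit 76) (nat_lit 11044144856) (nat_lit 76) (nat_lit 5077055399) (nat_lit 53) (nat_lit 4) (nat_lit 54) (nat_lit 5) (nat_lit 54) (nat_lit 4) (nat_lit 494) (nat_lit 306) (nat_lit 220)) (XT.lf (nat_lit 0) (nat_lit 12570241710) (nat_lit 152) (nat_lit 30815261705) (nat_lit 0) (nat_lit 6762536162) (nat_lit 51)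 (nat_lit 5) (nat_lit 53) (nat_lit 4) (nat_lit 51) (nat_lit 4) (nat_lit 495) (nat_lit 306) (nat_lit 219))) (XT.nd (nat_lit 46098) (nat_lit 0) (nat_lit 10032) (XT.lf (nat_lit 0) (nat_lit 4858571081) (nat_lit 76) (nat_lit 26035770518) (nat_lit 76) (nat_lit 20214070007) (nat_lit 50) (nat_lit 4) (nat_lit 51) (nat_lit 5) (nat_lit 51) (nat_lit 4) (nat_lit 496) (nat_lit 306) (nat_lit 218)) (XT.lf (nat_lit 0) (nat_lit 3037023870) (nat_lit 228) (nat_lit 1267676938) (nat_lit 228) (nat_lit 1267676938) (nat_lit 182) (nat_lit 4) (nat_lit 185) (nat_lit 5) (nat_lit 185) (nat_lit 4) (nat_lit 406) (nat_lit 307) (nat_lit 307))))) (XT.nd (nat_lit 312) (nat_lit 760) (nat_lit 0) (XT.nd (nat_lit 156) (nat_lit 380) (nat_lit 0) (XT.nd (nat_lit 78) (nat_lit 228) (nat_lit 0) (XT.lf (nat_lit 0) (nat_lit 3056104309) (nat_lit 228) (nat_lit 5728999818) (nat_lit 0) (nat_lit 2509355756) (nat_lit 179) (nat_lit 5) (nat_lit 182) (nat_lit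 4) (nat_lit 179) (nat_lit 4) (nat_lit 407) (nat_lit 307) (nat_lit 306)) (XT.lf (nat_lit 0) (nat_lit 5011538993) (nat_lit 228) (nat_lit 3756906404) (nat_lit 228) (nat_lit 2679334013) (nat_lit 176) (nat_lit 4) (nat_lit 179) (nat_lit 5) (nat_lit 179) (nat_lit 4) (nat_lit 408) (nat_lit 307) (nat_lit 305))) (XT.nd (nat_lit 78) (nat_lit 152) (nat_lit 0) (XT.lf (nat_lit 0) (nat_lit 2981517375) (nat_lit 228) (nat_lit 7188489208) (nat_lit 0) (nat_lit 1434978210) (nat_lit 173) (nat_lit 5) (nat_lit 176) (nat_lit 4) (nat_lit 173) (nat_lit 4) (nat_lit 409) (nat_lit 307) (nat_lit 304)) (XT.lf (nat_lit 0) (nat_lit 3756747045) (nat_lit 152) (nat_lit 5020556396) (nat_lit 152) (nat_lit 2988238223) (nat_lit 171) (nat_lit 4) (nat_lit 173) (nat_lit 5) (nat_lit 173) (nat_lit 4) (nat_lit 410) (nat_lit 307) (nat_lit 303)))) (XT.nd (nat_lit 156) (nat_lit 380) (nat_lit 0) (XT.nd (nat_lit 78) (nat_lit 152) (nat_lit 0) (XT.lf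 (nat_lit 0) (nat_lit 2747284370) (nat_lit 228) (nat_lit 8866966526) (nat_lit 0) (nat_lit 316266625) (nat_lit 168) (nat_lit 5) (nat_lit 171) (nat_lit 4) (nat_lit 168) (nat_lit 4) (nat_lit 411) (nat_lit 307) (nat_lit 302)) (XT.lf (nat_lit 0) (nat_lit 2283879706) (nat_lit 152) (nat_lit 6345112155) (nat_lit 152) (nat_lit 3469537802) (nat_lit 166) (nat_lit 4) (nat_lit 168) (nat_lit 5) (nat_lit 168) (nat_lit 4) (nat_lit 412) (nat_lit 307) (nat_lit 301))) (XT.nd (nat_lit 78) (nat_lit 152) (nat_lit 0) (XT.lf (nat_lit 0) (nat_lit 1471655811) (nat_lit 152) (nat_lit 882451833) (nat_lit 228) (nat_lit 9917207656) (nat_lit 163) (nat_lit 5) (nat_lit 165) (nat_lit 5) (nat_lit 166) (nat_lit 4) (nat_lit 413) (nat_lit 307) (nat_lit 300)) (XT.lf (nat_lit 0) (nat_lit 565965552) (nat_lit 152) (nat_lit 7749497808) (nat_lit 152) (nat_lit 4131808537) (nat_lit 161) (nat_lit 4) (nat_lit 163) (nat_lit 5) (nat_lit 163) (nat_lit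 4) (nat_lit 414) (nat_lit 307) (nat_lit 299)))))) (XT.nd (nat_lit 546) (nat_lit 1064) (nat_lit 0) (XT.nd (nat_lit 234) (nat_lit 608) (nat_lit 0) (XT.nd (nat_lit 78) (nat_lit 380) (nat_lit 0) (XT.lf (nat_lit 0) (nat_lit 1792210374) (nat_lit 228) (nat_lit 374484997) (nat_lit 76) (nat_lit 10461263544) (nat_lit 160) (nat_lit 5) (nat_lit 163) (nat_lit 5) (nat_lit 161) (nat_lit 4) (nat_lit 415) (nat_lit 307) (nat_lit 298)) (XT.nd (nat_lit 78) (nat_lit 228) (nat_lit 0) (XT.lf (nat_lit 0) (nat_lit 7841286861) (nat_lit 228) (nat_lit 1397461359) (nat_lit 0) (nat_lit 3573179586) (nat_lit 158) (nat_lit 5) (nat_lit 161) (nat_lit 4) (nat_lit 158) (nat_lit 4) (nat_lit 416) (nat_lit 307) (nat_lit 297)) (XT.lf (nat_lit 0) (nat_lit 1061943255) (nat_lit 228) (nat_lit 2473827668) (nat_lit 76) (nat_lit 9464963820) (nat_lit 155) (nat_lit 5) (nat_lit 158) (nat_lit 5) (nat_lit 156) (nat_lit 4) (nat_lit 417) (nat_lit 307) (nat_lit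 296)))) (XT.nd (nat_lit 156) (nat_lit 228) (nat_lit 0) (XT.nd (nat_lit 78) (nat_lit 228) (nat_lit 0) (XT.lf (nat_lit 0) (nat_lit 7190872751) (nat_lit 228) (nat_lit 3646971963) (nat_lit 0) (nat_lit 2355426567) (nat_lit 153) (nat_lit 5) (nat_lit 156) (nat_lit 4) (nat_lit 153) (nat_lit 4) (nat_lit 418) (nat_lit 307) (nat_lit 295)) (XT.lf (nat_lit 0) (nat_lit 138531034) (nat_lit 228) (nat_lit 4885020050) (nat_lit 76) (nat_lit 8367141545) (nat_lit 150) (nat_lit 5) (nat_lit 153) (nat_lit 5) (nat_lit 151) (nat_lit 4) (nat_lit 419) (nat_lit 307) (nat_lit 294))) (XT.nd (nat_lit 78) (nat_lit 152) (nat_lit 0) (XT.lf (nat_lit 0) (nat_lit 6347696442) (nat_lit 152) (nat_lit 6224289492) (nat_lit 0) (nat_lit 1020128285) (nat_lit 149) (nat_lit 5) (nat_lit 151) (nat_lit 4) (nat_lit 149) (nat_lit 4) (nat_lit 420) (nat_lit 307) (nat_lit 293)) (XT.lf (nat_lit 0) (nat_lit 6148907152) (nat_lit 152) (nat_lit 6639796932) (nat_lit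 152) (nat_lit 1009507357) (nat_lit 147) (nat_lit 4) (nat_lit 149) (nat_lit 5) (nat_lit 149) (nat_lit 4) (nat_lit 421) (nat_lit 307) (nat_lit 292))))) (XT.nd (nat_lit 312) (nat_lit 456) (nat_lit 0) (XT.nd (nat_lit 156) (nat_lit 304) (nat_lit 0) (XT.nd (nat_lit 78) (nat_lit 152) (nat_lit 0) (XT.lf (nat_lit 0) (nat_lit 4842810896) (nat_lit 76) (nat_lit 461132334) (nat_lit 152) (nat_lit 8705074237) (nat_lit 145) (nat_lit 5) (nat_lit 146) (nat_lit 5) (nat_lit 147) (nat_lit 4) (nat_lit 422) (nat_lit 307) (nat_lit 291)) (XT.lf (nat_lit 0) (nat_lit 3430436105) (nat_lit 152) (nat_lit 8411217418) (nat_lit 152) (nat_lit 2382539910) (nat_lit 143) (nat_lit 4) (nat_lit 145) (nat_lit 5) (nat_lit 145) (nat_lit 4) (nat_lit 423) (nat_lit 307) (nat_lit 290))) (XT.nd (nat_lit 78) (nat_lit 152) (nat_lit 0) (XT.lf (nat_lit 0) (nat_lit 1930493802) (nat_lit 76) (nat_lit 2122774852) (nat_lit 152) (nat_lit 10391239627) (nat_lit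 141) (nat_lit 5) (nat_lit 142) (nat_lit 5) (nat_lit 143) (nat_lit 4) (nat_lit 424) (nat_lit 307) (nat_lit 289)) (XT.lf (nat_lit 0) (nat_lit 317097013) (nat_lit 152) (nat_lit 10360040612) (nat_lit 152) (nat_lit 3992301078) (nat_lit 139) (nat_lit 4) (nat_lit 141) (nat_lit 5) (nat_lit 141) (nat_lit 4) (nat_lit 425) (nat_lit 307) (nat_lit 288)))) (XT.nd (nat_lit 156) (nat_lit 304) (nat_lit 0) (XT.nd (nat_lit 78) (nat_lit 76) (nat_lit 0) (XT.lf (nat_lit 0) (nat_lit 2584574990) (nat_lit 228) (nat_lit 1367192518) (nat_lit 76) (nat_lit 10947499824) (nat_lit 138) (nat_lit 5) (nat_lit 141) (nat_lit 5) (nat_lit 139) (nat_lit 4) (nat_lit 426) (nat_lit 307) (nat_lit 287)) (XT.lf (nat_lit 0) (nat_lit 9311189500) (nat_lit 152) (nat_lit 3164699016) (nat_lit 0) (nat_lit 2657936266) (nat_lit 137) (nat_lit 5) (nat_lit 139) (nat_lit 4) (nat_lit 137) (nat_lit 4) (nat_lit 427) (nat_lit 307) (nat_lit 286))) (XT.nd (nat_lit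 78) (nat_lit 76) (nat_lit 0) (XT.lf (nat_lit 0) (nat_lit 891547453) (nat_lit 228) (nat_lit 5068665069) (nat_lit 76) (nat_lit 9413630406) (nat_lit 134) (nat_lit 5) (nat_lit 137) (nat_lit 5) (nat_lit 135) (nat_lit 4) (nat_lit 428) (nat_lit 307) (nat_lit 285)) (XT.lf (nat_lit 0) (nat_lit 7704041811) (nat_lit 152) (nat_lit 7101315301) (nat_lit 0) (nat_lit 813557548) (nat_lit 133) (nat_lit 5) (nat_lit 135) (nat_lit 4) (nat_lit 133) (nat_lit 4) (nat_lit 429) (nat_lit 307) (nat_lit 284))))))) (XT.nd (nat_lit 1170) (nat_lit 1444) (nat_lit 0) (XT.nd (nat_lit 546) (nat_lit 836) (nat_lit 0) (XT.nd (nat_lit 234) (nat_lit 456) (nat_lit 0) (XT.nd (nat_lit 78) (nat_lit 304) (nat_lit 0) (XT.lf (nat_lit 0) (nat_lit 6608220677) (nat_lit 152) (nat_lit 8178877535) (nat_lit 152) (nat_lit 1082254716) (nat_lit 131) (nat_lit 4) (nat_lit 133) (nat_lit 5) (nat_lit 133) (nat_lit 4) (nat_lit 430) (nat_lit 307) (nat_lit 283)) (XT.nd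 (nat_lit 78) (nat_lit 152) (nat_lit 0) (XT.lf (nat_lit 0) (nat_lit 4573873270) (nat_lit 76) (nat_lit 1273728014) (nat_lit 152) (nat_lit 10277731584) (nat_lit 129) (nat_lit 5) (nat_lit 130) (nat_lit 5) (nat_lit 131) (nat_lit 4) (nat_lit 431) (nat_lit 307) (nat_lit 282)) (XT.lf (nat_lit 0) (nat_lit 2399530995) (nat_lit 152) (nat_lit 10630018840) (nat_lit 152) (nat_lit 3357142435) (nat_lit 127) (nat_lit 4) (nat_lit 129) (nat_lit 5) (nat_lit 129) (nat_lit 4) (nat_lit 432) (nat_lit 307) (nat_lit 281)))) (XT.nd (nat_lit 156) (nat_lit 304) (nat_lit 0) (XT.nd (nat_lit 78) (nat_lit 0) (nat_lit 0) (XT.lf (nat_lit 0) (nat_lit 98126695) (nat_lit 76) (nat_lit 3623131696) (nat_lit 152) (nat_lit 12932833139) (nat_lit 125) (nat_lit 5) (nat_lit 126) (nat_lit 5) (nat_lit 127) (nat_lit 4) (nat_lit 433) (nat_lit 307) (nat_lit 280)) (XT.lf (nat_lit 0) (nat_lit 11014360647) (nat_lit 152) (nat_lit 2309199338) (nat_lit 0)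 (nat_lit 3602860872) (nat_lit 125) (nat_lit 5) (nat_lit 127) (nat_lit 4) (nat_lit 125) (nat_lit 4) (nat_lit 434) (nat_lit 307) (nat_lit 279))) (XT.nd (nat_lit 78) (nat_lit 76) (nat_lit 0) (XT.lf (nat_lit 0) (nat_lit 1344625932) (nat_lit 228) (nat_lit 4849518640) (nat_lit 76) (nat_lit 11010863973) (nat_lit 122) (nat_lit 5) (nat_lit 125) (nat_lit 5) (nat_lit 123) (nat_lit 4) (nat_lit 435) (nat_lit 307) (nat_lit 278)) (XT.lf (nat_lit 0) (nat_lit 8727113297) (nat_lit 152) (nat_lit 7551509964) (nat_lit 0) (nat_lit 1210766731) (nat_lit 121) (nat_lit 5) (nat_lit 123) (nat_lit 4) (nat_lit 121) (nat_lit 4) (nat_lit 436) (nat_lit 307) (nat_lit 277))))) (XT.nd (nat_lit 312) (nat_lit 380) (nat_lit 0) (XT.nd (nat_lit 156) (nat_lit 152) (nat_lit 0) (XT.nd (nat_lit 78) (nat_lit 152) (nat_lit 0) (XT.lf (nat_lit 0) (nat_lit 7367756234) (nat_lit 152) (nat_lit 9040974989) (nat_lit 152) (nat_lit 1371241979) (nat_lit 119)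 (nat_lit 4) (nat_lit 121) (nat_lit 5) (nat_lit 121) (nat_lit 4) (nat_lit 437) (nat_lit 307) (nat_lit 276)) (XT.lf (nat_lit 0) (nat_lit 4640442856) (nat_lit 76) (nat_lit 1497042239) (nat_lit 152) (nat_lit 11939456217) (nat_lit 117) (nat_lit 5) (nat_lit 118) (nat_lit 5) (nat_lit 119) (nat_lit 4) (nat_lit 438) (nat_lit 307) (nat_lit 275))) (XT.nd (nat_lit 78) (nat_lit 76) (nat_lit 0) (XT.lf (nat_lit 0) (nat_lit 1735462994) (nat_lit 76) (nat_lit 12187929148) (nat_lit 76) (nat_lit 4456634659) (nat_lit 116) (nat_lit 4) (nat_lit 117) (nat_lit 5) (nat_lit 117) (nat_lit 4) (nat_lit 439) (nat_lit 307) (nat_lit 274)) (XT.lf (nat_lit 0) (nat_lit 3235479807) (nat_lit 152) (nat_lit 1299552349) (nat_lit 76) (nat_lit 14154788060) (nat_lit 115) (nat_lit 5) (nat_lit 117) (nat_lit 5) (nat_lit 116) (nat_lit 4) (nat_lit 440) (nat_lit 307) (nat_lit 273)))) (XT.nd (nat_lit 156) (nat_lit 152) (nat_lit 0) (XT.nd (nat_lit 78)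 (nat_lit 152) (nat_lit 0) (XT.lf (nat_lit 0) (nat_lit 11141133326) (nat_lit 152) (nat_lit 4490028921) (nat_lit 0) (nat_lit 3374250945) (nat_lit 114) (nat_lit 5) (nat_lit 116) (nat_lit 4) (nat_lit 114) (nat_lit 4) (nat_lit 441) (nat_lit 307) (nat_lit 272)) (XT.lf (nat_lit 0) (nat_lit 23173985) (nat_lit 152) (nat_lit 7844556405) (nat_lit 76) (nat_lit 11460693469) (nat_lit 112) (nat_lit 5) (nat_lit 114) (nat_lit 5) (nat_lit 113) (nat_lit 4) (nat_lit 442) (nat_lit 307) (nat_lit 271))) (XT.nd (nat_lit 78) (nat_lit 76) (nat_lit 0) (XT.lf (nat_lit 0) (nat_lit 8016294719) (nat_lit 152) (nat_lit 11404691376) (nat_lit 0) (nat_lit 236989601) (nat_lit 111) (nat_lit 5) (nat_lit 113) (nat_lit 4) (nat_lit 111) (nat_lit 4) (nat_lit 443) (nat_lit 307) (nat_lit 270)) (XT.lf (nat_lit 0) (nat_lit 4818670873) (nat_lit 76) (nat_lit 11534531232) (nat_lit 76) (nat_lit 3641092194) (nat_lit 110) (nat_lit 4) (nat_lit 111) (nat_lit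 5) (nat_lit 111) (nat_lit 4) (nat_lit 444) (nat_lit 307) (nat_lit 269)))))) (XT.nd (nat_lit 624) (nat_lit 684) (nat_lit 0) (XT.nd (nat_lit 312) (nat_lit 380) (nat_lit 0) (XT.nd (nat_lit 156) (nat_lit 228) (nat_lit 0) (XT.nd (nat_lit 78) (nat_lit 0) (nat_lit 0) (XT.lf (nat_lit 0) (nat_lit 1206897522) (nat_lit 76) (nat_lit 3330612916) (nat_lit 152) (nat_lit 15801033142) (nat_lit 108) (nat_lit 5) (nat_lit 109) (nat_lit 5) (nat_lit 110) (nat_lit 4) (nat_lit 445) (nat_lit 307) (nat_lit 268)) (XT.lf (nat_lit 0) (nat_lit 12992231555) (nat_lit 152) (nat_lit 2580021352) (nat_lit 0) (nat_lit 5116667638) (nat_lit 108) (nat_lit 5) (nat_lit 110) (nat_lit 4) (nat_lit 108) (nat_lit 4) (nat_lit 446) (nat_lit 307) (nat_lit 267))) (XT.nd (nat_lit 78) (nat_lit 76) (nat_lit 0) (XT.lf (nat_lit 0) (nat_lit 714343276) (nat_lit 152) (nat_lit 6526853575) (nat_lit 76) (nat_lit 13806136586) (nat_lit 106) (nat_lit 5) (nat_lit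 108) (nat_lit 5) (nat_lit 107) (nat_lit 4) (nat_lit 447) (nat_lit 307) (nat_lit 266)) (XT.lf (nat_lit 0) (nat_lit 9269252413) (nat_lit 152) (nat_lit 10714537337) (nat_lit 0) (nat_lit 1429035569) (nat_lit 105) (nat_lit 5) (nat_lit 107) (nat_lit 4) (nat_lit 105) (nat_lit 4) (nat_lit 448) (nat_lit 307) (nat_lit 265)))) (XT.nd (nat_lit 156) (nat_lit 152) (nat_lit 0) (XT.nd (nat_lit 78) (nat_lit 152) (nat_lit 0) (XT.lf (nat_lit 0) (nat_lit 6653006749) (nat_lit 76) (nat_lit 11533067702) (nat_lit 76) (nat_lit 3600049537) (nat_lit 104) (nat_lit 4) (nat_lit 105) (nat_lit 5) (nat_lit 105) (nat_lit 4) (nat_lit 449) (nat_lit 307) (nat_lit 264)) (XT.lf (nat_lit 0) (nat_lit 2398388101) (nat_lit 76) (nat_lit 2735358024) (nat_lit 152) (nat_lit 17034312999) (nat_lit 102) (nat_lit 5) (nat_lit 103) (nat_lit 5) (nat_lit 104) (nat_lit 4) (nat_lit 450) (nat_lit 307) (nat_lit 263))) (XT.nd (nat_lit 78) (nat_lit 152) (nat_lit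 0) (XT.lf (nat_lit 0) (nat_lit 14175553296) (nat_lit 152) (nat_lit 2080085632) (nat_lit 0) (nat_lit 6301193412) (nat_lit 102) (nat_lit 5) (nat_lit 104) (nat_lit 4) (nat_lit 102) (nat_lit 4) (nat_lit 451) (nat_lit 307) (nat_lit 262)) (XT.lf (nat_lit 0) (nat_lit 611128896) (nat_lit 152) (nat_lit 6716220997) (nat_lit 76) (nat_lit 15627061088) (nat_lit 100) (nat_lit 5) (nat_lit 102) (nat_lit 5) (nat_lit 101) (nat_lit 4) (nat_lit 452) (nat_lit 307) (nat_lit 261))))) (XT.nd (nat_lit 312) (nat_lit 380) (nat_lit 0) (XT.nd (nat_lit 156) (nat_lit 152) (nat_lit 0) (XT.nd (nat_lit 78) (nat_lit 76) (nat_lit 0) (XT.lf (nat_lit 0) (nat_lit 9764285102) (nat_lit 152) (nat_lit 11633854822) (nat_lit 0) (nat_lit 1961504624) (nat_lit 99) (nat_lit 5) (nat_lit 101) (nat_lit 4) (nat_lit 99) (nat_lit 4) (nat_lit 453) (nat_lit 307) (nat_lit 260)) (XT.lf (nat_lit 0) (nat_lit 6960470549) (nat_lit 76) (nat_lit 12345688660) (nat_lit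 76) (nat_lit 4467452216) (nat_lit 98) (nat_lit 4) (nat_lit 99) (nat_lit 5) (nat_lit 99) (nat_lit 4) (nat_lit 454) (nat_lit 307) (nat_lit 259))) (XT.nd (nat_lit 78) (nat_lit 0) (nat_lit 0) (XT.lf (nat_lit 0) (nat_lit 1958340872) (nat_lit 76) (nat_lit 2923351509) (nat_lit 152) (nat_lit 19315571406) (nat_lit 96) (nat_lit 5) (nat_lit 97) (nat_lit 5) (nat_lit 98) (nat_lit 4) (nat_lit 455) (nat_lit 307) (nat_lit 258)) (XT.lf (nat_lit 0) (nat_lit 14564473557) (nat_lit 152) (nat_lit 3288013662) (nat_lit 0) (nat_lit 6775522927) (nat_lit 96) (nat_lit 5) (nat_lit 98) (nat_lit 4) (nat_lit 96) (nat_lit 4) (nat_lit 456) (nat_lit 307) (nat_lit 257)))) (XT.nd (nat_lit 156) (nat_lit 152) (nat_lit 0) (XT.nd (nat_lit 78) (nat_lit 152) (nat_lit 0) (XT.lf (nat_lit 0) (nat_lit 16340764706) (nat_lit 76) (nat_lit 8292027426) (nat_lit 76) (nat_lit 436035146) (nat_lit 95) (nat_lit 4) (nat_lit 96) (nat_lit 5) (nat_lit 96) (nat_lit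 4) (nat_lit 457) (nat_lit 307) (nat_lit 256)) (XT.lf (nat_lit 0) (nat_lit 9360467811) (nat_lit 152) (nat_lit 14487614411) (nat_lit 0) (nat_lit 1670097657) (nat_lit 93) (nat_lit 5) (nat_lit 95) (nat_lit 4) (nat_lit 93) (nat_lit 4) (nat_lit 458) (nat_lit 307) (nat_lit 255))) (XT.nd (nat_lit 78) (nat_lit 76) (nat_lit 0) (XT.lf (nat_lit 0) (nat_lit 5420284679) (nat_lit 76) (nat_lit 14154175440) (nat_lit 76) (nat_lit 6402452679) (nat_lit 92) (nat_lit 4) (nat_lit 93) (nat_lit 5) (nat_lit 93) (nat_lit 4) (nat_lit 459) (nat_lit 307) (nat_lit 254)) (XT.lf (nat_lit 0) (nat_lit 3631256049) (nat_lit 152) (nat_lit 439838616) (nat_lit 76) (nat_lit 22375553936) (nat_lit 91) (nat_lit 5) (nat_lit 93) (nat_lit 5) (nat_lit 92) (nat_lit 4) (nat_lit 460) (nat_lit 307) (nat_lit 253))))))))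
noncomputable def xc34 : XT := (XT.nd (nat_lit 2340) (nat_lit 456) (nat_lit 0) (XT.nd (nat_lit 1170) (nat_lit 1292) (nat_lit 0) (XT.nd (nat_lit 546) (nat_lit 684) (nat_lit 0) (XT.nd (nat_lit 234) (nat_lit 304) (nat_lit 0) (XT.nd (nat_lit 78) (nat_lit 228) (nat_lit 0) (XT.lf (nat_lit 0) (nat_lit 14008039740) (nat_lit 152) (nat_lit 6547294349) (nat_lit 0) (nat_lit 6368118271) (nat_lit 90) (nat_lit 5) (nat_lit 92) (nat_lit 4) (nat_lit 90) (nat_lit 4) (nat_lit 461) (nat_lit 307) (nat_lit 252)) (XT.nd (nat_lit 78) (nat_lit 152) (nat_lit 0) (XT.lf (nat_lit 0) (nat_lit 14477852800) (nat_lit 76) (nat_lit 10314132079) (nat_lit 76) (nat_lit 2619699614) (nat_lit 89) (nat_lit 4) (nat_lit 90) (nat_lit 5) (nat_lit 90) (nat_lit 4) (nat_lit 462) (nat_lit 307) (nat_lit 251)) (XT.lf (nat_lit 0) (nat_lit 7890821068) (nat_lit 152) (nat_lit 19650470905) (nat_lit 0) (nat_lit 369116446) (nat_lit 87) (nat_lit 5) (nat_lit 89)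 (nat_lit 4) (nat_lit 87) (nat_lit 4) (nat_lit 463) (nat_lit 307) (nat_lit 250)))) (XT.nd (nat_lit 156) (nat_lit 152) (nat_lit 0) (XT.nd (nat_lit 78) (nat_lit 76) (nat_lit 0) (XT.lf (nat_lit 0) (nat_lit 1661926910) (nat_lit 76) (nat_lit 17164059724) (nat_lit 76) (nat_lit 9592469819) (nat_lit 86) (nat_lit 4) (nat_lit 87) (nat_lit 5) (nat_lit 87) (nat_lit 4) (nat_lit 464) (nat_lit 307) (nat_lit 249)) (XT.lf (nat_lit 0) (nat_lit 1237482813) (nat_lit 152) (nat_lit 5107932107) (nat_lit 76) (nat_lit 22592627726) (nat_lit 85) (nat_lit 5) (nat_lit 87) (nat_lit 5) (nat_lit 86) (nat_lit 4) (nat_lit 465) (nat_lit 307) (nat_lit 248))) (XT.nd (nat_lit 78) (nat_lit 76) (nat_lit 0) (XT.lf (nat_lit 0) (nat_lit 12327926069) (nat_lit 152) (nat_lit 12254395227) (nat_lit 0) (nat_lit 4884194144) (nat_lit 84) (nat_lit 5) (nat_lit 86) (nat_lit 4) (nat_lit 84) (nat_lit 4) (nat_lit 466) (nat_lit 307) (nat_lit 247)) (XT.lf (nat_lit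 0) (nat_lit 10263534180) (nat_lit 76) (nat_lit 13615758151) (nat_lit 76) (nat_lit 6127703797) (nat_lit 83) (nat_lit 4) (nat_lit 84) (nat_lit 5) (nat_lit 84) (nat_lit 4) (nat_lit 467) (nat_lit 307) (nat_lit 246))))) (XT.nd (nat_lit 312) (nat_lit 304) (nat_lit 0) (XT.nd (nat_lit 156) (nat_lit 228) (nat_lit 0) (XT.nd (nat_lit 78) (nat_lit 0) (nat_lit 0) (XT.lf (nat_lit 0) (nat_lit 2984503063) (nat_lit 76) (nat_lit 2195589990) (nat_lit 152) (nat_lit 25380045149) (nat_lit 81) (nat_lit 5) (nat_lit 82) (nat_lit 5) (nat_lit 83) (nat_lit 4) (nat_lit 468) (nat_lit 307) (nat_lit 245)) (XT.lf (nat_lit 0) (nat_lit 16911982116) (nat_lit 152) (nat_lit 4650144746) (nat_lit 0) (nat_lit 9559686993) (nat_lit 81) (nat_lit 5) (nat_lit 83) (nat_lit 4) (nat_lit 81) (nat_lit 4) (nat_lit 469) (nat_lit 307) (nat_lit 244))) (XT.nd (nat_lit 78) (nat_lit 152) (nat_lit 0) (XT.lf (nat_lit 0) (nat_lit 19149345480) (nat_lit 76) (nat_lit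 9969489554) (nat_lit 76) (nat_lit 2577814528) (nat_lit 80) (nat_lit 4) (nat_lit 81) (nat_lit 5) (nat_lit 81) (nat_lit 4) (nat_lit 470) (nat_lit 307) (nat_lit 243)) (XT.lf (nat_lit 0) (nat_lit 9314857490) (nat_lit 152) (nat_lit 20866951031) (nat_lit 0) (nat_lit 2101354635) (nat_lit 78) (nat_lit 5) (nat_lit 80) (nat_lit 4) (nat_lit 78) (nat_lit 4) (nat_lit 471) (nat_lit 307) (nat_lit 242)))) (XT.nd (nat_lit 156) (nat_lit 152) (nat_lit 0) (XT.nd (nat_lit 78) (nat_lit 76) (nat_lit 0) (XT.lf (nat_lit 0) (nat_lit 3244429237) (nat_lit 76) (nat_lit 18443182436) (nat_lit 76) (nat_lit 11193641391) (nat_lit 77) (nat_lit 4) (nat_lit 78) (nat_lit 5) (nat_lit 78) (nat_lit 4) (nat_lit 472) (nat_lit 307) (nat_lit 241)) (XT.lf (nat_lit 0) (nat_lit 1046115268) (nat_lit 152) (nat_lit 5160915583) (nat_lit 76) (nat_lit 27286082899) (nat_lit 76) (nat_lit 5) (nat_lit 78) (nat_lit 5) (nat_lit 77) (nat_lit 4) (nat_lit 473)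 (nat_lit 307) (nat_lit 240))) (XT.nd (nat_lit 78) (nat_lit 76) (nat_lit 0) (XT.lf (nat_lit 0) (nat_lit 13605397457) (nat_lit 152) (nat_lit 14009229943) (nat_lit 0) (nat_lit 6500058594) (nat_lit 75) (nat_lit 5) (nat_lit 77) (nat_lit 4) (nat_lit 75) (nat_lit 4) (nat_lit 474) (nat_lit 307) (nat_lit 239)) (XT.lf (nat_lit 0) (nat_lit 11483383254) (nat_lit 76) (nat_lit 15202277205) (nat_lit 76) (nat_lit 8064918876) (nat_lit 74) (nat_lit 4) (nat_lit 75) (nat_lit 5) (nat_lit 75) (nat_lit 4) (nat_lit 475) (nat_lit 307) (nat_lit 238)))))) (XT.nd (nat_lit 546) (nat_lit 684) (nat_lit 0) (XT.nd (nat_lit 234) (nat_lit 380) (nat_lit 0) (XT.nd (nat_lit 78) (nat_lit 76) (nat_lit 0) (XT.lf (nat_lit 0) (nat_lit 2466674724) (nat_lit 76) (nat_lit 2279689764) (nat_lit 152) (nat_lit 30655224594) (nat_lit 72) (nat_lit 5) (nat_lit 73) (nat_lit 5) (nat_lit 74) (nat_lit 4) (nat_lit 476) (nat_lit 307) (nat_lit 237)) (XT.nd (nat_lit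 78) (nat_lit 76) (nat_lit 0) (XT.lf (nat_lit 0) (nat_lit 18042986218) (nat_lit 152) (nat_lit 6964826130) (nat_lit 0) (nat_lit 11054028350) (nat_lit 72) (nat_lit 5) (nat_lit 74) (nat_lit 4) (nat_lit 72) (nat_lit 4) (nat_lit 477) (nat_lit 307) (nat_lit 236)) (XT.lf (nat_lit 0) (nat_lit 19995618568) (nat_lit 76) (nat_lit 11879790485) (nat_lit 76) (nat_lit 4862383737) (nat_lit 71) (nat_lit 4) (nat_lit 72) (nat_lit 5) (nat_lit 72) (nat_lit 4) (nat_lit 478) (nat_lit 307) (nat_lit 235)))) (XT.nd (nat_lit 156) (nat_lit 152) (nat_lit 0) (XT.nd (nat_lit 78) (nat_lit 76) (nat_lit 0) (XT.lf (nat_lit 0) (nat_lit 8630295007) (nat_lit 152) (nat_lit 27007427931) (nat_lit 0) (nat_lit 1790462949) (nat_lit 69) (nat_lit 5) (nat_lit 71) (nat_lit 4) (nat_lit 69) (nat_lit 4) (nat_lit 479) (nat_lit 307) (nat_lit 234)) (XT.lf (nat_lit 0) (nat_lit 289355700) (nat_lit 76) (nat_lit 22353979162) (nat_lit 76) (nat_lit 15488112349)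 (nat_lit 68) (nat_lit 4) (nat_lit 69) (nat_lit 5) (nat_lit 69) (nat_lit 4) (nat_lit 480) (nat_lit 307) (nat_lit 233))) (XT.nd (nat_lit 78) (nat_lit 152) (nat_lit 0) (XT.lf (nat_lit 0) (nat_lit 28803792017) (nat_lit 76) (nat_lit 8468643768) (nat_lit 76) (nat_lit 1577500494) (nat_lit 68) (nat_lit 4) (nat_lit 69) (nat_lit 5) (nat_lit 69) (nat_lit 4) (nat_lit 481) (nat_lit 307) (nat_lit 232)) (XT.lf (nat_lit 0) (nat_lit 12663906612) (nat_lit 152) (nat_lit 20967877189) (nat_lit 0) (nat_lit 5949650759) (nat_lit 66) (nat_lit 5) (nat_lit 68) (nat_lit 4) (nat_lit 66) (nat_lit 4) (nat_lit 482) (nat_lit 307) (nat_lit 231))))) (XT.nd (nat_lit 312) (nat_lit 380) (nat_lit 0) (XT.nd (nat_lit 156) (nat_lit 152) (nat_lit 0) (XT.nd (nat_lit 78) (nat_lit 76) (nat_lit 0) (XT.lf (nat_lit 0) (nat_lit 7909118428) (nat_lit 76) (nat_lit 19578537010) (nat_lit 76) (nat_lit 12841149614) (nat_lit 65) (nat_lit 4) (nat_lit 66) (nat_lit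 5) (nat_lit 66) (nat_lit 4) (nat_lit 483) (nat_lit 307) (nat_lit 230)) (XT.lf (nat_lit 0) (nat_lit 1763499934) (nat_lit 152) (nat_lit 3179940336) (nat_lit 76) (nat_lit 36150528675) (nat_lit 64) (nat_lit 5) (nat_lit 66) (nat_lit 5) (nat_lit 65) (nat_lit 4) (nat_lit 484) (nat_lit 307) (nat_lit 229))) (XT.nd (nat_lit 78) (nat_lit 76) (nat_lit 0) (XT.lf (nat_lit 0) (nat_lit 16836799243) (nat_lit 152) (nat_lit 14780142073) (nat_lit 0) (nat_lit 10252674096) (nat_lit 63) (nat_lit 5) (nat_lit 65) (nat_lit 4) (nat_lit 63) (nat_lit 4) (nat_lit 485) (nat_lit 307) (nat_lit 228)) (XT.lf (nat_lit 0) (nat_lit 15775652428) (nat_lit 76) (nat_lit 16746381982) (nat_lit 76) (nat_lit 10141704758) (nat_lit 62) (nat_lit 4) (nat_lit 63) (nat_lit 5) (nat_lit 63) (nat_lit 4) (nat_lit 486) (nat_lit 307) (nat_lit 227)))) (XT.nd (nat_lit 156) (nat_lit 228) (nat_lit 0) (XT.nd (nat_lit 78) (nat_lit 0) (nat_lit 0) (XT.lf (nat_lit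 0) (nat_lit 3952059103) (nat_lit 76) (nat_lit 1258132915) (nat_lit 152) (nat_lit 38266532740) (nat_lit 60) (nat_lit 5) (nat_lit 61) (nat_lit 5) (nat_lit 62) (nat_lit 4) (nat_lit 487) (nat_lit 307) (nat_lit 226)) (XT.lf (nat_lit 0) (nat_lit 21161020436) (nat_lit 152) (nat_lit 8429268616) (nat_lit 0) (nat_lit 14710532088) (nat_lit 60) (nat_lit 5) (nat_lit 62) (nat_lit 4) (nat_lit 60) (nat_lit 4) (nat_lit 488) (nat_lit 307) (nat_lit 225))) (XT.nd (nat_lit 78) (nat_lit 152) (nat_lit 0) (XT.lf (nat_lit 0) (nat_lit 23909851688) (nat_lit 76) (nat_lit 13851700979) (nat_lit 76) (nat_lit 7382952377) (nat_lit 59) (nat_lit 4) (nat_lit 60) (nat_lit 5) (nat_lit 60) (nat_lit 4) (nat_lit 489) (nat_lit 307) (nat_lit 224)) (XT.lf (nat_lit 0) (nat_lit 8822921357) (nat_lit 152) (nat_lit 34658187600) (nat_lit 0) (nat_lit 2525370869) (nat_lit 57) (nat_lit 5) (nat_lit 59) (nat_lit 4) (nat_lit 57) (nat_lit 4) (nat_lit 490)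 (nat_lit 307) (nat_lit 223))))))) (XT.nd (nat_lit 47034) (nat_lit 0) (nat_lit 6384) (XT.nd (nat_lit 46410) (nat_lit 0) (nat_lit 8740) (XT.nd (nat_lit 234) (nat_lit 228) (nat_lit 0) (XT.nd (nat_lit 78) (nat_lit 228) (nat_lit 0) (XT.lf (nat_lit 0) (nat_lit 25649195465) (nat_lit 152) (nat_lit 1899512747) (nat_lit 0) (nat_lit 19334934259) (nat_lit 57) (nat_lit 5) (nat_lit 59) (nat_lit 4) (nat_lit 57) (nat_lit 4) (nat_lit 491) (nat_lit 307) (nat_lit 222)) (XT.nd (nat_lit 78) (nat_lit 152) (nat_lit 0) (XT.lf (nat_lit 0) (nat_lit 32333763395) (nat_lit 76) (nat_lit 10888293910) (nat_lit 76) (nat_lit 4557808704) (nat_lit 56) (nat_lit 4) (nat_lit 57) (nat_lit 5) (nat_lit 57) (nat_lit 4) (nat_lit 492) (nat_lit 307) (nat_lit 221)) (XT.lf (nat_lit 0) (nat_lit 12569112092) (nat_lit 152) (nat_lit 29716620963) (nat_lit 0) (nat_lit 6407717276) (nat_lit 54) (nat_lit 5) (nat_lit 56) (nat_lit 4) (nat_lit 54) (nat_lit 4)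 (nat_lit 493) (nat_lit 307) (nat_lit 220)))) (XT.nd (nat_lit 156) (nat_lit 152) (nat_lit 0) (XT.nd (nat_lit 78) (nat_lit 0) (nat_lit 0) (XT.lf (nat_lit 0) (nat_lit 4921746521) (nat_lit 76) (nat_lit 25440137204) (nat_lit 76) (nat_lit 19263895131) (nat_lit 53) (nat_lit 4) (nat_lit 54) (nat_lit 5) (nat_lit 54) (nat_lit 4) (nat_lit 494) (nat_lit 307) (nat_lit 219)) (XT.lf (nat_lit 0) (nat_lit 41070655882) (nat_lit 76) (nat_lit 7849562424) (nat_lit 76) (nat_lit 1658905539) (nat_lit 53) (nat_lit 4) (nat_lit 54) (nat_lit 5) (nat_lit 54) (nat_lit 4) (nat_lit 495) (nat_lit 307) (nat_lit 218))) (XT.nd (nat_lit 45942) (nat_lit 0) (nat_lit 10412) (XT.lf (nat_lit 0) (nat_lit 16447293819) (nat_lit 152) (nat_lit 24676828616) (nat_lit 0) (nat_lit 10423359984) (nat_lit 51) (nat_lit 5) (nat_lit 53) (nat_lit 4) (nat_lit 51) (nat_lit 4) (nat_lit 496) (nat_lit 307) (nat_lit 217)) (XT.lf (nat_lit 0) (nat_lit 3534469726)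 (nat_lit 228) (nat_lit 946335443) (nat_lit 228) (nat_lit 946335443) (nat_lit 188) (nat_lit 4) (nat_lit 191) (nat_lit 5) (nat_lit 191) (nat_lit 4) (nat_lit 404) (nat_lit 308) (nat_lit 308))))) (XT.nd (nat_lit 312) (nat_lit 760) (nat_lit 0) (XT.nd (nat_lit 156) (nat_lit 456) (nat_lit 0) (XT.nd (nat_lit 78) (nat_lit 228) (nat_lit 0) (XT.lf (nat_lit 0) (nat_lit 3557806135) (nat_lit 228) (nat_lit 4462905216) (nat_lit 0) (nat_lit 2977760595) (nat_lit 185) (nat_lit 5) (nat_lit 188) (nat_lit 4) (nat_lit 185) (nat_lit 4) (nat_lit 405) (nat_lit 308) (nat_lit 307)) (XT.lf (nat_lit 0) (nat_lit 5970593686) (nat_lit 228) (nat_lit 3159568453) (nat_lit 228) (nat_lit 2016371904) (nat_lit 182) (nat_lit 4) (nat_lit 185) (nat_lit 5) (nat_lit 185) (nat_lit 4) (nat_lit 406) (nat_lit 308) (nat_lit 306))) (XT.nd (nat_lit 78) (nat_lit 228) (nat_lit 0) (XT.lf (nat_lit 0) (nat_lit 3498364907) (nat_lit 228) (nat_lit 5942080180)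 (nat_lit 0) (nat_lit 1857641507) (nat_lit 179) (nat_lit 5) (nat_lit 182) (nat_lit 4) (nat_lit 179) (nat_lit 4) (nat_lit 407) (nat_lit 308) (nat_lit 305)) (XT.lf (nat_lit 0) (nat_lit 4690281293) (nat_lit 228) (nat_lit 4459519172) (nat_lit 228) (nat_lit 2303432822) (nat_lit 176) (nat_lit 4) (nat_lit 179) (nat_lit 5) (nat_lit 179) (nat_lit 4) (nat_lit 408) (nat_lit 308) (nat_lit 304)))) (XT.nd (nat_lit 156) (nat_lit 380) (nat_lit 0) (XT.nd (nat_lit 78) (nat_lit 152) (nat_lit 0) (XT.lf (nat_lit 0) (nat_lit 3280988730) (nat_lit 228) (nat_lit 7629492376) (nat_lit 0) (nat_lit 701922004) (nat_lit 173) (nat_lit 5) (nat_lit 176) (nat_lit 4) (nat_lit 173) (nat_lit 4) (nat_lit 409) (nat_lit 308) (nat_lit 303)) (XT.lf (nat_lit 0) (nat_lit 3202588813) (nat_lit 152) (nat_lit 5811474668) (nat_lit 152) (nat_lit 2760777838) (nat_lit 171) (nat_lit 4) (nat_lit 173) (nat_lit 5) (nat_lit 173) (nat_lit 4) (nat_lit 410) (nat_lit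 308) (nat_lit 302))) (XT.nd (nat_lit 78) (nat_lit 152) (nat_lit 0) (XT.lf (nat_lit 0) (nat_lit 2385325909) (nat_lit 152) (nat_lit 518081009) (nat_lit 228) (nat_lit 9038351642) (nat_lit 168) (nat_lit 5) (nat_lit 170) (nat_lit 5) (nat_lit 171) (nat_lit 4) (nat_lit 411) (nat_lit 308) (nat_lit 301)) (XT.lf (nat_lit 0) (nat_lit 1480988702) (nat_lit 152) (nat_lit 7234439565) (nat_lit 152) (nat_lit 3396433018) (nat_lit 166) (nat_lit 4) (nat_lit 168) (nat_lit 5) (nat_lit 168) (nat_lit 4) (nat_lit 412) (nat_lit 308) (nat_lit 300)))))) (XT.nd (nat_lit 624) (nat_lit 1064) (nat_lit 0) (XT.nd (nat_lit 312) (nat_lit 684) (nat_lit 0) (XT.nd (nat_lit 156) (nat_lit 380) (nat_lit 0) (XT.nd (nat_lit 78) (nat_lit 0) (nat_lit 0) (XT.lf (nat_lit 0) (nat_lit 533562719) (nat_lit 152) (nat_lit 1826341963) (nat_lit 228) (nat_lit 9926697596) (nat_lit 163) (nat_lit 5) (nat_lit 165) (nat_lit 5) (nat_lit 166) (nat_lit 4) (nat_lit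 413) (nat_lit 308) (nat_lit 299)) (XT.lf (nat_lit 0) (nat_lit 8250121219) (nat_lit 228) (nat_lit 492485620) (nat_lit 0) (nat_lit 3722086211) (nat_lit 163) (nat_lit 5) (nat_lit 166) (nat_lit 4) (nat_lit 163) (nat_lit 4) (nat_lit 414) (nat_lit 308) (nat_lit 298))) (XT.nd (nat_lit 78) (nat_lit 152) (nat_lit 0) (XT.lf (nat_lit 0) (nat_lit 1649674378) (nat_lit 228) (nat_lit 1562674453) (nat_lit 76) (nat_lit 9434896735) (nat_lit 160) (nat_lit 5) (nat_lit 163) (nat_lit 5) (nat_lit 161) (nat_lit 4) (nat_lit 415) (nat_lit 308) (nat_lit 297)) (XT.lf (nat_lit 0) (nat_lit 7620641487) (nat_lit 228) (nat_lit 2722199620) (nat_lit 0) (nat_lit 2490716631) (nat_lit 158) (nat_lit 5) (nat_lit 161) (nat_lit 4) (nat_lit 158) (nat_lit 4) (nat_lit 416) (nat_lit 308) (nat_lit 296)))) (XT.nd (nat_lit 156) (nat_lit 304) (nat_lit 0) (XT.nd (nat_lit 78) (nat_lit 152) (nat_lit 0) (XT.lf (nat_lit 0) (nat_lit 755089967) (nat_lit 228)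 (nat_lit 3948029312) (nat_lit 76) (nat_lit 8321394433) (nat_lit 155) (nat_lit 5) (nat_lit 158) (nat_lit 5) (nat_lit 156) (nat_lit 4) (nat_lit 417) (nat_lit 308) (nat_lit 295)) (XT.lf (nat_lit 0) (nat_lit 6802212172) (nat_lit 228) (nat_lit 5267097181) (nat_lit 0) (nat_lit 1150195114) (nat_lit 153) (nat_lit 5) (nat_lit 156) (nat_lit 4) (nat_lit 153) (nat_lit 4) (nat_lit 418) (nat_lit 308) (nat_lit 294))) (XT.nd (nat_lit 78) (nat_lit 152) (nat_lit 0) (XT.lf (nat_lit 0) (nat_lit 6751983723) (nat_lit 152) (nat_lit 6320146976) (nat_lit 152) (nat_lit 346972766) (nat_lit 151) (nat_lit 4) (nat_lit 153) (nat_lit 5) (nat_lit 153) (nat_lit 4) (nat_lit 419) (nat_lit 308) (nat_lit 293)) (XT.lf (nat_lit 0) (nat_lit 5461147428) (nat_lit 76) (nat_lit 325120895) (nat_lit 152) (nat_lit 7836837644) (nat_lit 149) (nat_lit 5) (nat_lit 150) (nat_lit 5) (nat_lit 151) (nat_lit 4) (nat_lit 420) (nat_lit 308) (nat_lit 292)))))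 (XT.nd (nat_lit 312) (nat_lit 532) (nat_lit 0) (XT.nd (nat_lit 156) (nat_lit 228) (nat_lit 0) (XT.nd (nat_lit 78) (nat_lit 152) (nat_lit 0) (XT.lf (nat_lit 0) (nat_lit 4072868090) (nat_lit 152) (nat_lit 8077237094) (nat_lit 152) (nat_lit 1681413126) (nat_lit 147) (nat_lit 4) (nat_lit 149) (nat_lit 5) (nat_lit 149) (nat_lit 4) (nat_lit 421) (nat_lit 308) (nat_lit 291)) (XT.lf (nat_lit 0) (nat_lit 2594991653) (nat_lit 76) (nat_lit 1974545091) (nat_lit 152) (nat_lit 9475249718) (nat_lit 145) (nat_lit 5) (nat_lit 146) (nat_lit 5) (nat_lit 147) (nat_lit 4) (nat_lit 422) (nat_lit 308) (nat_lit 290))) (XT.nd (nat_lit 78) (nat_lit 76) (nat_lit 0) (XT.lf (nat_lit 0) (nat_lit 1012991455) (nat_lit 152) (nat_lit 10002627345) (nat_lit 152) (nat_lit 3247092473) (nat_lit 143) (nat_lit 4) (nat_lit 145) (nat_lit 5) (nat_lit 145) (nat_lit 4) (nat_lit 423) (nat_lit 308) (nat_lit 289)) (XT.lf (nat_lit 0) (nat_lit 3133264672)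 (nat_lit 228) (nat_lit 656137739) (nat_lit 76) (nat_lit 10696042687) (nat_lit 142) (nat_lit 5) (nat_lit 145) (nat_lit 5) (nat_lit 143) (nat_lit 4) (nat_lit 424) (nat_lit 308) (nat_lit 288)))) (XT.nd (nat_lit 156) (nat_lit 228) (nat_lit 0) (XT.nd (nat_lit 78) (nat_lit 228) (nat_lit 0) (XT.lf (nat_lit 0) (nat_lit 9677952006) (nat_lit 152) (nat_lit 2415283314) (nat_lit 0) (nat_lit 2619515650) (nat_lit 141) (nat_lit 5) (nat_lit 143) (nat_lit 4) (nat_lit 141) (nat_lit 4) (nat_lit 425) (nat_lit 308) (nat_lit 287)) (XT.lf (nat_lit 0) (nat_lit 1484960828) (nat_lit 228) (nat_lit 4282936957) (nat_lit 76) (nat_lit 9177306223) (nat_lit 138) (nat_lit 5) (nat_lit 141) (nat_lit 5) (nat_lit 139) (nat_lit 4) (nat_lit 426) (nat_lit 308) (nat_lit 286))) (XT.nd (nat_lit 78) (nat_lit 152) (nat_lit 0) (XT.lf (nat_lit 0) (nat_lit 8111839178) (nat_lit 152) (nat_lit 6269189942) (nat_lit 0) (nat_lit 801724423) (nat_lit 137)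 (nat_lit 5) (nat_lit 139) (nat_lit 4) (nat_lit 137) (nat_lit 4) (nat_lit 427) (nat_lit 308) (nat_lit 285)) (XT.lf (nat_lit 0) (nat_lit 7047237074) (nat_lit 152) (nat_lit 7953550859) (nat_lit 152) (nat_lit 424743711) (nat_lit 135) (nat_lit 4) (nat_lit 137) (nat_lit 5) (nat_lit 137) (nat_lit 4) (nat_lit 428) (nat_lit 308) (nat_lit 284))))))))
noncomputable def xc35 : XT := (XT.nd (nat_lit 2340) (nat_lit 2584) (nat_lit 0) (XT.nd (nat_lit 1170) (nat_lit 1292) (nat_lit 0) (XT.nd (nat_lit 546) (nat_lit 912) (nat_lit 0) (XT.nd (nat_lit 234) (nat_lit 456) (nat_lit 0) (XT.nd (nat_lit 78) (nat_lit 304) (nat_lit 0) (XT.lf (nat_lit 0) (nat_lit 5053749625) (nat_lit 76) (nat_lit 1249146672) (nat_lit 152) (nat_lit 9370623845) (nat_lit 133) (nat_lit 5) (nat_lit 134) (nat_lit 5) (nat_lit 135) (nat_lit 4) (nat_lit 429) (nat_lit 308) (nat_lit 283)) (XT.nd (nat_lit 78) (nat_lit 152) (nat_lit 0) (XT.lf (nat_lit 0) (nat_lit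 2931133156) (nat_lit 152) (nat_lit 10355795280) (nat_lit 152) (nat_lit 2640000703) (nat_lit 131) (nat_lit 4) (nat_lit 133) (nat_lit 5) (nat_lit 133) (nat_lit 4) (nat_lit 430) (nat_lit 308) (nat_lit 282)) (XT.lf (nat_lit 0) (nat_lit 679240882) (nat_lit 76) (nat_lit 3551961490) (nat_lit 152) (nat_lit 11954827431) (nat_lit 129) (nat_lit 5) (nat_lit 130) (nat_lit 5) (nat_lit 131) (nat_lit 4) (nat_lit 431) (nat_lit 308) (nat_lit 281)))) (XT.nd (nat_lit 156) (nat_lit 228) (nat_lit 0) (XT.nd (nat_lit 78) (nat_lit 228) (nat_lit 0) (XT.lf (nat_lit 0) (nat_lit 11316683254) (nat_lit 152) (nat_lit 1679776839) (nat_lit 0) (nat_lit 3453823143) (nat_lit 129) (nat_lit 5) (nat_lit 131) (nat_lit 4) (nat_lit 129) (nat_lit 4) (nat_lit 432) (nat_lit 308) (nat_lit 280)) (XT.lf (nat_lit 0) (nat_lit 1910441903) (nat_lit 228) (nat_lit 4162479975) (nat_lit 76) (nat_lit 10647343630) (nat_lit 126) (nat_lit 5) (nat_lit 129) (nat_lit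 5) (nat_lit 127) (nat_lit 4) (nat_lit 433) (nat_lit 308) (nat_lit 279))) (XT.nd (nat_lit 78) (nat_lit 152) (nat_lit 0) (XT.lf (nat_lit 0) (nat_lit 9087434348) (nat_lit 152) (nat_lit 6795301507) (nat_lit 0) (nat_lit 1113342276) (nat_lit 125) (nat_lit 5) (nat_lit 127) (nat_lit 4) (nat_lit 125) (nat_lit 4) (nat_lit 434) (nat_lit 308) (nat_lit 278)) (XT.lf (nat_lit 0) (nat_lit 7695447554) (nat_lit 152) (nat_lit 8859638422) (nat_lit 152) (nat_lit 722818672) (nat_lit 123) (nat_lit 4) (nat_lit 125) (nat_lit 5) (nat_lit 125) (nat_lit 4) (nat_lit 435) (nat_lit 308) (nat_lit 277))))) (XT.nd (nat_lit 312) (nat_lit 456) (nat_lit 0) (XT.nd (nat_lit 156) (nat_lit 152) (nat_lit 0) (XT.nd (nat_lit 78) (nat_lit 152) (nat_lit 0) (XT.lf (nat_lit 0) (nat_lit 5031775745) (nat_lit 76) (nat_lit 1533043729) (nat_lit 152) (nat_lit 11000943686) (nat_lit 121) (nat_lit 5) (nat_lit 122) (nat_lit 5) (nat_lit 123) (nat_lit 4) (nat_lit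 436) (nat_lit 308) (nat_lit 276)) (XT.lf (nat_lit 0) (nat_lit 2202772071) (nat_lit 152) (nat_lit 11929563834) (nat_lit 152) (nat_lit 3727433511) (nat_lit 119) (nat_lit 4) (nat_lit 121) (nat_lit 5) (nat_lit 121) (nat_lit 4) (nat_lit 437) (nat_lit 308) (nat_lit 275))) (XT.nd (nat_lit 78) (nat_lit 76) (nat_lit 0) (XT.lf (nat_lit 0) (nat_lit 3732991562) (nat_lit 228) (nat_lit 768738886) (nat_lit 76) (nat_lit 13658514945) (nat_lit 118) (nat_lit 5) (nat_lit 121) (nat_lit 5) (nat_lit 119) (nat_lit 4) (nat_lit 438) (nat_lit 308) (nat_lit 274)) (XT.lf (nat_lit 0) (nat_lit 11416131264) (nat_lit 152) (nat_lit 3874036892) (nat_lit 0) (nat_lit 3176245746) (nat_lit 117) (nat_lit 5) (nat_lit 119) (nat_lit 4) (nat_lit 117) (nat_lit 4) (nat_lit 439) (nat_lit 308) (nat_lit 273)))) (XT.nd (nat_lit 156) (nat_lit 228) (nat_lit 0) (XT.nd (nat_lit 78) (nat_lit 76) (nat_lit 0) (XT.lf (nat_lit 0) (nat_lit 604534905) (nat_lit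 152) (nat_lit 7144992153) (nat_lit 76) (nat_lit 11030065460) (nat_lit 115) (nat_lit 5) (nat_lit 117) (nat_lit 5) (nat_lit 116) (nat_lit 4) (nat_lit 440) (nat_lit 308) (nat_lit 272)) (XT.lf (nat_lit 0) (nat_lit 8371936757) (nat_lit 152) (nat_lit 10608524332) (nat_lit 0) (nat_lit 118871957) (nat_lit 114) (nat_lit 5) (nat_lit 116) (nat_lit 4) (nat_lit 114) (nat_lit 4) (nat_lit 441) (nat_lit 308) (nat_lit 271))) (XT.nd (nat_lit 78) (nat_lit 152) (nat_lit 0) (XT.lf (nat_lit 0) (nat_lit 5148088552) (nat_lit 76) (nat_lit 11325839840) (nat_lit 76) (nat_lit 2951690364) (nat_lit 113) (nat_lit 4) (nat_lit 114) (nat_lit 5) (nat_lit 114) (nat_lit 4) (nat_lit 442) (nat_lit 308) (nat_lit 270)) (XT.lf (nat_lit 0) (nat_lit 1627829940) (nat_lit 76) (nat_lit 3357163829) (nat_lit 152) (nat_lit 14774449069) (nat_lit 111) (nat_lit 5) (nat_lit 112) (nat_lit 5) (nat_lit 113) (nat_lit 4) (nat_lit 443) (nat_lit 308) (nat_lit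 269)))))) (XT.nd (nat_lit 546) (nat_lit 684) (nat_lit 0) (XT.nd (nat_lit 234) (nat_lit 380) (nat_lit 0) (XT.nd (nat_lit 78) (nat_lit 228) (nat_lit 0) (XT.lf (nat_lit 0) (nat_lit 13195376488) (nat_lit 152) (nat_lit 2063989964) (nat_lit 0) (nat_lit 4840190728) (nat_lit 111) (nat_lit 5) (nat_lit 113) (nat_lit 4) (nat_lit 111) (nat_lit 4) (nat_lit 444) (nat_lit 308) (nat_lit 268)) (XT.nd (nat_lit 78) (nat_lit 76) (nat_lit 0) (XT.lf (nat_lit 0) (nat_lit 1258157981) (nat_lit 152) (nat_lit 5908707223) (nat_lit 76) (nat_lit 13280280419) (nat_lit 109) (nat_lit 5) (nat_lit 111) (nat_lit 5) (nat_lit 110) (nat_lit 4) (nat_lit 445) (nat_lit 308) (nat_lit 267)) (XT.lf (nat_lit 0) (nat_lit 9569660199) (nat_lit 152) (nat_lit 9980184806) (nat_lit 0) (nat_lit 1251974150) (nat_lit 108) (nat_lit 5) (nat_lit 110) (nat_lit 4) (nat_lit 108) (nat_lit 4) (nat_lit 446) (nat_lit 308) (nat_lit 266)))) (XT.nd (nat_lit 156) (nat_lit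 152) (nat_lit 0) (XT.nd (nat_lit 78) (nat_lit 152) (nat_lit 0) (XT.lf (nat_lit 0) (nat_lit 6887100502) (nat_lit 76) (nat_lit 11346538705) (nat_lit 76) (nat_lit 2930399734) (nat_lit 107) (nat_lit 4) (nat_lit 108) (nat_lit 5) (nat_lit 108) (nat_lit 4) (nat_lit 447) (nat_lit 308) (nat_lit 265)) (XT.lf (nat_lit 0) (nat_lit 2743940534) (nat_lit 76) (nat_lit 2800721961) (nat_lit 152) (nat_lit 15989824278) (nat_lit 105) (nat_lit 5) (nat_lit 106) (nat_lit 5) (nat_lit 107) (nat_lit 4) (nat_lit 448) (nat_lit 308) (nat_lit 264))) (XT.nd (nat_lit 78) (nat_lit 152) (nat_lit 0) (XT.lf (nat_lit 0) (nat_lit 14324245197) (nat_lit 152) (nat_lit 1617320629) (nat_lit 0) (nat_lit 5970336796) (nat_lit 105) (nat_lit 5) (nat_lit 107) (nat_lit 4) (nat_lit 105) (nat_lit 4) (nat_lit 449) (nat_lit 308) (nat_lit 263)) (XT.lf (nat_lit 0) (nat_lit 1138544650) (nat_lit 152) (nat_lit 6130136906) (nat_lit 76) (nat_lit 15028868327) (nat_lit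 103) (nat_lit 5) (nat_lit 105) (nat_lit 5) (nat_lit 104) (nat_lit 4) (nat_lit 450) (nat_lit 308) (nat_lit 262))))) (XT.nd (nat_lit 312) (nat_lit 380) (nat_lit 0) (XT.nd (nat_lit 156) (nat_lit 152) (nat_lit 0) (XT.nd (nat_lit 78) (nat_lit 76) (nat_lit 0) (XT.lf (nat_lit 0) (nat_lit 10029791702) (nat_lit 152) (nat_lit 10909226306) (nat_lit 0) (nat_lit 1751821894) (nat_lit 102) (nat_lit 5) (nat_lit 104) (nat_lit 4) (nat_lit 102) (nat_lit 4) (nat_lit 451) (nat_lit 308) (nat_lit 261)) (XT.lf (nat_lit 0) (nat_lit 7148907980) (nat_lit 76) (nat_lit 12150841246) (nat_lit 76) (nat_lit 3792820203) (nat_lit 101) (nat_lit 4) (nat_lit 102) (nat_lit 5) (nat_lit 102) (nat_lit 4) (nat_lit 452) (nat_lit 308) (nat_lit 260))) (XT.nd (nat_lit 78) (nat_lit 0) (nat_lit 0) (XT.lf (nat_lit 0) (nat_lit 2281078112) (nat_lit 76) (nat_lit 2998142971) (nat_lit 152) (nat_lit 18224329476) (nat_lit 99) (nat_lit 5) (nat_lit 100) (nat_lit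 5) (nat_lit 101) (nat_lit 4) (nat_lit 453) (nat_lit 308) (nat_lit 259)) (XT.lf (nat_lit 0) (nat_lit 14680493762) (nat_lit 152) (nat_lit 2824045680) (nat_lit 0) (nat_lit 6417196038) (nat_lit 99) (nat_lit 5) (nat_lit 101) (nat_lit 4) (nat_lit 99) (nat_lit 4) (nat_lit 454) (nat_lit 308) (nat_lit 258)))) (XT.nd (nat_lit 156) (nat_lit 152) (nat_lit 0) (XT.nd (nat_lit 78) (nat_lit 76) (nat_lit 0) (XT.lf (nat_lit 0) (nat_lit 109419069) (nat_lit 152) (nat_lit 8112301497) (nat_lit 76) (nat_lit 16127793064) (nat_lit 97) (nat_lit 5) (nat_lit 99) (nat_lit 5) (nat_lit 98) (nat_lit 4) (nat_lit 455) (nat_lit 308) (nat_lit 257)) (XT.lf (nat_lit 0) (nat_lit 9616137669) (nat_lit 152) (nat_lit 13711980225) (nat_lit 0) (nat_lit 1457423972) (nat_lit 96) (nat_lit 5) (nat_lit 98) (nat_lit 4) (nat_lit 96) (nat_lit 4) (nat_lit 456) (nat_lit 308) (nat_lit 256))) (XT.nd (nat_lit 78) (nat_lit 76) (nat_lit 0) (XT.lf (nat_lit 0)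 (nat_lit 5621256602) (nat_lit 76) (nat_lit 13916650769) (nat_lit 76) (nat_lit 5692848092) (nat_lit 95) (nat_lit 4) (nat_lit 96) (nat_lit 5) (nat_lit 96) (nat_lit 4) (nat_lit 457) (nat_lit 308) (nat_lit 255)) (XT.lf (nat_lit 0) (nat_lit 4040178424) (nat_lit 152) (nat_lit 85433658) (nat_lit 76) (nat_lit 21560993607) (nat_lit 94) (nat_lit 5) (nat_lit 96) (nat_lit 5) (nat_lit 95) (nat_lit 4) (nat_lit 458) (nat_lit 308) (nat_lit 254))))))) (XT.nd (nat_lit 1170) (nat_lit 1292) (nat_lit 0) (XT.nd (nat_lit 546) (nat_lit 684) (nat_lit 0) (XT.nd (nat_lit 234) (nat_lit 304) (nat_lit 0) (XT.nd (nat_lit 78) (nat_lit 228) (nat_lit 0) (XT.lf (nat_lit 0) (nat_lit 14118112139) (nat_lit 152) (nat_lit 6018388774) (nat_lit 0) (nat_lit 6012919453) (nat_lit 93) (nat_lit 5) (nat_lit 95) (nat_lit 4) (nat_lit 93) (nat_lit 4) (nat_lit 459) (nat_lit 308) (nat_lit 253)) (XT.nd (nat_lit 78) (nat_lit 152) (nat_lit 0) (XT.lf (nat_lit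 0) (nat_lit 14399454601) (nat_lit 76) (nat_lit 10193426681) (nat_lit 76) (nat_lit 2030403279) (nat_lit 92) (nat_lit 4) (nat_lit 93) (nat_lit 5) (nat_lit 93) (nat_lit 4) (nat_lit 460) (nat_lit 308) (nat_lit 252)) (XT.lf (nat_lit 0) (nat_lit 8167074439) (nat_lit 152) (nat_lit 18752869194) (nat_lit 0) (nat_lit 187298005) (nat_lit 90) (nat_lit 5) (nat_lit 92) (nat_lit 4) (nat_lit 90) (nat_lit 4) (nat_lit 461) (nat_lit 308) (nat_lit 251)))) (XT.nd (nat_lit 156) (nat_lit 152) (nat_lit 0) (XT.nd (nat_lit 78) (nat_lit 76) (nat_lit 0) (XT.lf (nat_lit 0) (nat_lit 1943740769) (nat_lit 76) (nat_lit 16844655713) (nat_lit 76) (nat_lit 8811955982) (nat_lit 89) (nat_lit 4) (nat_lit 90) (nat_lit 5) (nat_lit 90) (nat_lit 4) (nat_lit 462) (nat_lit 308) (nat_lit 250)) (XT.lf (nat_lit 0) (nat_lit 1694221453) (nat_lit 152) (nat_lit 4644812021) (nat_lit 76) (nat_lit 21765583922) (nat_lit 88) (nat_lit 5) (nat_lit 90) (nat_lit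 5) (nat_lit 89) (nat_lit 4) (nat_lit 463) (nat_lit 308) (nat_lit 249))) (XT.nd (nat_lit 78) (nat_lit 76) (nat_lit 0) (XT.lf (nat_lit 0) (nat_lit 12464395578) (nat_lit 152) (nat_lit 11585879218) (nat_lit 0) (nat_lit 4567340378) (nat_lit 87) (nat_lit 5) (nat_lit 89) (nat_lit 4) (nat_lit 87) (nat_lit 4) (nat_lit 464) (nat_lit 308) (nat_lit 248)) (XT.lf (nat_lit 0) (nat_lit 10281046357) (nat_lit 76) (nat_lit 13402626724) (nat_lit 76) (nat_lit 5458549861) (nat_lit 86) (nat_lit 4) (nat_lit 87) (nat_lit 5) (nat_lit 87) (nat_lit 4) (nat_lit 465) (nat_lit 308) (nat_lit 247))))) (XT.nd (nat_lit 312) (nat_lit 304) (nat_lit 0) (XT.nd (nat_lit 156) (nat_lit 228) (nat_lit 0) (XT.nd (nat_lit 78) (nat_lit 0) (nat_lit 0) (XT.lf (nat_lit 0) (nat_lit 3204808862) (nat_lit 76) (nat_lit 2309741790) (nat_lit 152) (nat_lit 24164434972) (nat_lit 84) (nat_lit 5) (nat_lit 85) (nat_lit 5) (nat_lit 86) (nat_lit 4) (nat_lit 466)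 (nat_lit 308) (nat_lit 246)) (XT.lf (nat_lit 0) (nat_lit 16904227335) (nat_lit 152) (nat_lit 4215912226) (nat_lit 0) (nat_lit 9104177439) (nat_lit 84) (nat_lit 5) (nat_lit 86) (nat_lit 4) (nat_lit 84) (nat_lit 4) (nat_lit 467) (nat_lit 308) (nat_lit 245))) (XT.nd (nat_lit 78) (nat_lit 152) (nat_lit 0) (XT.lf (nat_lit 0) (nat_lit 18895142173) (nat_lit 76) (nat_lit 9864486572) (nat_lit 76) (nat_lit 2022658538) (nat_lit 83) (nat_lit 4) (nat_lit 84) (nat_lit 5) (nat_lit 84) (nat_lit 4) (nat_lit 468) (nat_lit 308) (nat_lit 244)) (XT.lf (nat_lit 0) (nat_lit 9516495840) (nat_lit 152) (nat_lit 19971325847) (nat_lit 0) (nat_lit 1863690661) (nat_lit 81) (nat_lit 5) (nat_lit 83) (nat_lit 4) (nat_lit 81) (nat_lit 4) (nat_lit 469) (nat_lit 308) (nat_lit 243)))) (XT.nd (nat_lit 156) (nat_lit 152) (nat_lit 0) (XT.nd (nat_lit 78) (nat_lit 76) (nat_lit 0) (XT.lf (nat_lit 0) (nat_lit 3442417924) (nat_lit 76) (nat_lit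 18090342932) (nat_lit 76) (nat_lit 10399304837) (nat_lit 80) (nat_lit 4) (nat_lit 81) (nat_lit 5) (nat_lit 81) (nat_lit 4) (nat_lit 470) (nat_lit 308) (nat_lit 242)) (XT.lf (nat_lit 0) (nat_lit 1475855243) (nat_lit 152) (nat_lit 4732171287) (nat_lit 76) (nat_lit 26317912427) (nat_lit 79) (nat_lit 5) (nat_lit 81) (nat_lit 5) (nat_lit 80) (nat_lit 4) (nat_lit 471) (nat_lit 308) (nat_lit 241))) (XT.nd (nat_lit 78) (nat_lit 76) (nat_lit 0) (XT.lf (nat_lit 0) (nat_lit 13671322274) (nat_lit 152) (nat_lit 13324756931) (nat_lit 0) (nat_lit 6133268274) (nat_lit 78) (nat_lit 5) (nat_lit 80) (nat_lit 4) (nat_lit 78) (nat_lit 4) (nat_lit 472) (nat_lit 308) (nat_lit 240)) (XT.lf (nat_lit 0) (nat_lit 11429884328) (nat_lit 76) (nat_lit 14944374606) (nat_lit 76) (nat_lit 7372351155) (nat_lit 77) (nat_lit 4) (nat_lit 78) (nat_lit 5) (nat_lit 78) (nat_lit 4) (nat_lit 473) (nat_lit 308) (nat_lit 239)))))) (XT.nd (nat_lit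 624) (nat_lit 608) (nat_lit 0) (XT.nd (nat_lit 312) (nat_lit 304) (nat_lit 0) (XT.nd (nat_lit 156) (nat_lit 228) (nat_lit 0) (XT.nd (nat_lit 78) (nat_lit 0) (nat_lit 0) (XT.lf (nat_lit 0) (nat_lit 2667614826) (nat_lit 76) (nat_lit 2392788289) (nat_lit 152) (nat_lit 29318016916) (nat_lit 75) (nat_lit 5) (nat_lit 76) (nat_lit 5) (nat_lit 77) (nat_lit 4) (nat_lit 474) (nat_lit 308) (nat_lit 238)) (XT.lf (nat_lit 0) (nat_lit 17968889784) (nat_lit 152) (nat_lit 6496272497) (nat_lit 0) (nat_lit 10554304382) (nat_lit 75) (nat_lit 5) (nat_lit 77) (nat_lit 4) (nat_lit 75) (nat_lit 4) (nat_lit 475) (nat_lit 308) (nat_lit 237))) (XT.nd (nat_lit 78) (nat_lit 152) (nat_lit 0) (XT.lf (nat_lit 0) (nat_lit 19683342290) (nat_lit 76) (nat_lit 11718526052) (nat_lit 76) (nat_lit 4273759232) (nat_lit 74) (nat_lit 4) (nat_lit 75) (nat_lit 5) (nat_lit 75) (nat_lit 4) (nat_lit 476) (nat_lit 308) (nat_lit 236)) (XT.lf (nat_lit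 0) (nat_lit 8818823640) (nat_lit 152) (nat_lit 25964465259) (nat_lit 0) (nat_lit 1562445809) (nat_lit 72) (nat_lit 5) (nat_lit 74) (nat_lit 4) (nat_lit 72) (nat_lit 4) (nat_lit 477) (nat_lit 308) (nat_lit 235)))) (XT.nd (nat_lit 156) (nat_lit 228) (nat_lit 0) (XT.nd (nat_lit 78) (nat_lit 0) (nat_lit 0) (XT.lf (nat_lit 0) (nat_lit 541579133) (nat_lit 76) (nat_lit 21885416645) (nat_lit 76) (nat_lit 14601418542) (nat_lit 71) (nat_lit 4) (nat_lit 72) (nat_lit 5) (nat_lit 72) (nat_lit 4) (nat_lit 478) (nat_lit 308) (nat_lit 234)) (XT.lf (nat_lit 0) (nat_lit 28224731936) (nat_lit 76) (nat_lit 8406018088) (nat_lit 76) (nat_lit 1095204188) (nat_lit 71) (nat_lit 4) (nat_lit 72) (nat_lit 5) (nat_lit 72) (nat_lit 4) (nat_lit 479) (nat_lit 308) (nat_lit 233))) (XT.nd (nat_lit 78) (nat_lit 76) (nat_lit 0) (XT.lf (nat_lit 0) (nat_lit 12724326923) (nat_lit 152) (nat_lit 20110477962) (nat_lit 0) (nat_lit 5601172888)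 (nat_lit 69) (nat_lit 5) (nat_lit 71) (nat_lit 4) (nat_lit 69) (nat_lit 4) (nat_lit 480) (nat_lit 308) (nat_lit 232)) (XT.lf (nat_lit 0) (nat_lit 7929648661) (nat_lit 76) (nat_lit 19189766425) (nat_lit 76) (nat_lit 12042072137) (nat_lit 68) (nat_lit 4) (nat_lit 69) (nat_lit 5) (nat_lit 69) (nat_lit 4) (nat_lit 481) (nat_lit 308) (nat_lit 231))))) (XT.nd (nat_lit 312) (nat_lit 228) (nat_lit 0) (XT.nd (nat_lit 156) (nat_lit 228) (nat_lit 0) (XT.nd (nat_lit 78) (nat_lit 76) (nat_lit 0) (XT.lf (nat_lit 0) (nat_lit 2129572009) (nat_lit 152) (nat_lit 2848488597) (nat_lit 76) (nat_lit 34926161586) (nat_lit 67) (nat_lit 5) (nat_lit 69) (nat_lit 5) (nat_lit 68) (nat_lit 4) (nat_lit 482) (nat_lit 308) (nat_lit 230)) (XT.lf (nat_lit 0) (nat_lit 16765119961) (nat_lit 152) (nat_lit 14112097158) (nat_lit 0) (nat_lit 9780021592) (nat_lit 66) (nat_lit 5) (nat_lit 68) (nat_lit 4) (nat_lit 66) (nat_lit 4) (nat_lit 483)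 (nat_lit 308) (nat_lit 229))) (XT.nd (nat_lit 78) (nat_lit 152) (nat_lit 0) (XT.lf (nat_lit 0) (nat_lit 15557827775) (nat_lit 76) (nat_lit 16438609466) (nat_lit 76) (nat_lit 9431707399) (nat_lit 65) (nat_lit 4) (nat_lit 66) (nat_lit 5) (nat_lit 66) (nat_lit 4) (nat_lit 484) (nat_lit 308) (nat_lit 228)) (XT.lf (nat_lit 0) (nat_lit 4071572303) (nat_lit 76) (nat_lit 1396232133) (nat_lit 152) (nat_lit 36749441592) (nat_lit 63) (nat_lit 5) (nat_lit 64) (nat_lit 5) (nat_lit 65) (nat_lit 4) (nat_lit 485) (nat_lit 308) (nat_lit 227)))) (XT.nd (nat_lit 156) (nat_lit 152) (nat_lit 0) (XT.nd (nat_lit 78) (nat_lit 76) (nat_lit 0) (XT.lf (nat_lit 0) (nat_lit 20952924692) (nat_lit 152) (nat_lit 7954846936) (nat_lit 0) (nat_lit 14109601604) (nat_lit 63) (nat_lit 5) (nat_lit 65) (nat_lit 4) (nat_lit 63) (nat_lit 4) (nat_lit 486) (nat_lit 308) (nat_lit 226)) (XT.lf (nat_lit 0) (nat_lit 23446359642) (nat_lit 76) (nat_lit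 13626368062) (nat_lit 76) (nat_lit 6763672671) (nat_lit 62) (nat_lit 4) (nat_lit 63) (nat_lit 5) (nat_lit 63) (nat_lit 4) (nat_lit 487) (nat_lit 308) (nat_lit 225))) (XT.nd (nat_lit 78) (nat_lit 0) (nat_lit 0) (XT.lf (nat_lit 0) (nat_lit 8963335238) (nat_lit 152) (nat_lit 33427522213) (nat_lit 0) (nat_lit 2282263926) (nat_lit 60) (nat_lit 5) (nat_lit 62) (nat_lit 4) (nat_lit 60) (nat_lit 4) (nat_lit 488) (nat_lit 308) (nat_lit 224)) (XT.lf (nat_lit 0) (nat_lit 25300020195) (nat_lit 152) (nat_lit 1623480024) (nat_lit 0) (nat_lit 18601220481) (nat_lit 60) (nat_lit 5) (nat_lit 62) (nat_lit 4) (nat_lit 60) (nat_lit 4) (nat_lit 489) (nat_lit 308) (nat_lit 223))))))))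
noncomputable def xc36 : XT := (XT.nd (nat_lit 48048) (nat_lit 0) (nat_lit 3496) (XT.nd (nat_lit 46878) (nat_lit 0) (nat_lit 6840) (XT.nd (nat_lit 46254) (nat_lit 0) (nat_lit 9196) (XT.nd (nat_lit 234) (nat_lit 304) (nat_lit 0) (XT.nd (nat_lit 78) (nat_lit 228) (nat_lit 0) (XT.lf (nat_lit 0) (nat_lit 31616611276) (nat_lit 76) (nat_lit 10747080943) (nat_lit 76) (nat_lit 4031069188) (nat_lit 59) (nat_lit 4) (nat_lit 60) (nat_lit 5) (nat_lit 60) (nat_lit 4) (nat_lit 490) (nat_lit 308) (nat_lit 222)) (XT.nd (nat_lit 78) (nat_lit 76) (nat_lit 0) (XT.lf (nat_lit 0) (nat_lit 12590243505) (nat_lit 152) (nat_lit 28637731938) (nat_lit 0) (nat_lit 6053619744) (nat_lit 57) (nat_lit 5) (nat_lit 59) (nat_lit 4) (nat_lit 57) (nat_lit 4) (nat_lit 491) (nat_lit 308) (nat_lit 221)) (XT.lf (nat_lit 0) (nat_lit 4995547351) (nat_lit 76) (nat_lit 24871760261) (nat_lit 76) (nat_lit 18319385045) (nat_lit 56) (nat_lit 4) (nat_lit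 57) (nat_lit 5) (nat_lit 57) (nat_lit 4) (nat_lit 492) (nat_lit 308) (nat_lit 220)))) (XT.nd (nat_lit 156) (nat_lit 152) (nat_lit 0) (XT.nd (nat_lit 78) (nat_lit 152) (nat_lit 0) (XT.lf (nat_lit 0) (nat_lit 40091139046) (nat_lit 76) (nat_lit 7794393219) (nat_lit 76) (nat_lit 1226725328) (nat_lit 56) (nat_lit 4) (nat_lit 57) (nat_lit 5) (nat_lit 57) (nat_lit 4) (nat_lit 493) (nat_lit 308) (nat_lit 219)) (XT.lf (nat_lit 0) (nat_lit 16345437973) (nat_lit 152) (nat_lit 23752191725) (nat_lit 0) (nat_lit 9954646568) (nat_lit 54) (nat_lit 5) (nat_lit 56) (nat_lit 4) (nat_lit 54) (nat_lit 4) (nat_lit 494) (nat_lit 308) (nat_lit 218))) (XT.nd (nat_lit 78) (nat_lit 76) (nat_lit 0) (XT.lf (nat_lit 0) (nat_lit 11858111805) (nat_lit 76) (nat_lit 22780130857) (nat_lit 76) (nat_lit 16375344488) (nat_lit 53) (nat_lit 4) (nat_lit 54) (nat_lit 5) (nat_lit 54) (nat_lit 4) (nat_lit 495) (nat_lit 308) (nat_lit 217)) (XT.lf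 (nat_lit 0) (nat_lit 1624499003) (nat_lit 152) (nat_lit 3120640734) (nat_lit 76) (nat_lit 47252855686) (nat_lit 52) (nat_lit 5) (nat_lit 54) (nat_lit 5) (nat_lit 53) (nat_lit 4) (nat_lit 496) (nat_lit 308) (nat_lit 216))))) (XT.nd (nat_lit 312) (nat_lit 912) (nat_lit 0) (XT.nd (nat_lit 156) (nat_lit 456) (nat_lit 0) (XT.nd (nat_lit 78) (nat_lit 304) (nat_lit 0) (XT.lf (nat_lit 0) (nat_lit 4053108353) (nat_lit 228) (nat_lit 617032301) (nat_lit 228) (nat_lit 617032301) (nat_lit 195) (nat_lit 4) (nat_lit 198) (nat_lit 5) (nat_lit 198) (nat_lit 4) (nat_lit 402) (nat_lit 309) (nat_lit 309)) (XT.lf (nat_lit 0) (nat_lit 4080869805) (nat_lit 304) (nat_lit 3166744017) (nat_lit 0) (nat_lit 3465499491) (nat_lit 191) (nat_lit 5) (nat_lit 195) (nat_lit 4) (nat_lit 191) (nat_lit 4) (nat_lit 403) (nat_lit 309) (nat_lit 308))) (XT.nd (nat_lit 78) (nat_lit 228) (nat_lit 0) (XT.lf (nat_lit 0) (nat_lit 6969010578) (nat_lit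 228) (nat_lit 2549914764) (nat_lit 228) (nat_lit 1337097545) (nat_lit 188) (nat_lit 4) (nat_lit 191) (nat_lit 5) (nat_lit 191) (nat_lit 4) (nat_lit 404) (nat_lit 309) (nat_lit 307)) (XT.lf (nat_lit 0) (nat_lit 4036923218) (nat_lit 228) (nat_lit 4668818862) (nat_lit 0) (nat_lit 2296279762) (nat_lit 185) (nat_lit 5) (nat_lit 188) (nat_lit 4) (nat_lit 185) (nat_lit 4) (nat_lit 405) (nat_lit 309) (nat_lit 306)))) (XT.nd (nat_lit 156) (nat_lit 456) (nat_lit 0) (XT.nd (nat_lit 78) (nat_lit 228) (nat_lit 0) (XT.lf (nat_lit 0) (nat_lit 5660141125) (nat_lit 228) (nat_lit 3889561066) (nat_lit 228) (nat_lit 1602169058) (nat_lit 182) (nat_lit 4) (nat_lit 185) (nat_lit 5) (nat_lit 185) (nat_lit 4) (nat_lit 406) (nat_lit 309) (nat_lit 305)) (XT.lf (nat_lit 0) (nat_lit 3836523993) (nat_lit 228) (nat_lit 6368427091) (nat_lit 0) (nat_lit 1100392103) (nat_lit 179) (nat_lit 5) (nat_lit 182) (nat_lit 4) (nat_lit 179) (nat_lit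 4) (nat_lit 407) (nat_lit 309) (nat_lit 304))) (XT.nd (nat_lit 78) (nat_lit 228) (nat_lit 0) (XT.lf (nat_lit 0) (nat_lit 4154539902) (nat_lit 228) (nat_lit 5272136372) (nat_lit 228) (nat_lit 2035652105) (nat_lit 176) (nat_lit 4) (nat_lit 179) (nat_lit 5) (nat_lit 179) (nat_lit 4) (nat_lit 408) (nat_lit 309) (nat_lit 303)) (XT.lf (nat_lit 0) (nat_lit 3330637169) (nat_lit 152) (nat_lit 143698025) (nat_lit 228) (nat_lit 8149162052) (nat_lit 173) (nat_lit 5) (nat_lit 175) (nat_lit 5) (nat_lit 176) (nat_lit 4) (nat_lit 409) (nat_lit 309) (nat_lit 302)))))) (XT.nd (nat_lit 546) (nat_lit 1216) (nat_lit 0) (XT.nd (nat_lit 234) (nat_lit 608) (nat_lit 0) (XT.nd (nat_lit 78) (nat_lit 380) (nat_lit 0) (XT.lf (nat_lit 0) (nat_lit 2426089505) (nat_lit 152) (nat_lit 6716761926) (nat_lit 152) (nat_lit 2645020780) (nat_lit 171) (nat_lit 4) (nat_lit 173) (nat_lit 5) (nat_lit 173) (nat_lit 4) (nat_lit 410) (nat_lit 309)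 (nat_lit 301)) (XT.nd (nat_lit 78) (nat_lit 152) (nat_lit 0) (XT.lf (nat_lit 0) (nat_lit 1477474869) (nat_lit 152) (nat_lit 1475122481) (nat_lit 228) (nat_lit 9004087953) (nat_lit 168) (nat_lit 5) (nat_lit 170) (nat_lit 5) (nat_lit 171) (nat_lit 4) (nat_lit 411) (nat_lit 309) (nat_lit 300)) (XT.lf (nat_lit 0) (nat_lit 447498127) (nat_lit 152) (nat_lit 8242658059) (nat_lit 152) (nat_lit 3438865719) (nat_lit 166) (nat_lit 4) (nat_lit 168) (nat_lit 5) (nat_lit 168) (nat_lit 4) (nat_lit 412) (nat_lit 309) (nat_lit 299)))) (XT.nd (nat_lit 156) (nat_lit 380) (nat_lit 0) (XT.nd (nat_lit 78) (nat_lit 152) (nat_lit 0) (XT.lf (nat_lit 0) (nat_lit 2257963604) (nat_lit 228) (nat_lit 626958493) (nat_lit 76) (nat_lit 9420663129) (nat_lit 165) (nat_lit 5) (nat_lit 168) (nat_lit 5) (nat_lit 166) (nat_lit 4) (nat_lit 413) (nat_lit 309) (nat_lit 298)) (XT.lf (nat_lit 0) (nat_lit 8076820676) (nat_lit 228) (nat_lit 1774512708)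 (nat_lit 0) (nat_lit 2634483396) (nat_lit 163) (nat_lit 5) (nat_lit 166) (nat_lit 4) (nat_lit 163) (nat_lit 4) (nat_lit 414) (nat_lit 309) (nat_lit 297))) (XT.nd (nat_lit 78) (nat_lit 152) (nat_lit 0) (XT.lf (nat_lit 0) (nat_lit 1391485037) (nat_lit 228) (nat_lit 2989931813) (nat_lit 76) (nat_lit 8289035285) (nat_lit 160) (nat_lit 5) (nat_lit 163) (nat_lit 5) (nat_lit 161) (nat_lit 4) (nat_lit 415) (nat_lit 309) (nat_lit 296)) (XT.lf (nat_lit 0) (nat_lit 7282429045) (nat_lit 228) (nat_lit 4290531806) (nat_lit 0) (nat_lit 1286204149) (nat_lit 158) (nat_lit 5) (nat_lit 161) (nat_lit 4) (nat_lit 158) (nat_lit 4) (nat_lit 416) (nat_lit 309) (nat_lit 295))))) (XT.nd (nat_lit 312) (nat_lit 532) (nat_lit 0) (XT.nd (nat_lit 156) (nat_lit 304) (nat_lit 0) (XT.nd (nat_lit 78) (nat_lit 152) (nat_lit 0) (XT.lf (nat_lit 0) (nat_lit 328288814) (nat_lit 228) (nat_lit 5670514224) (nat_lit 76) (nat_lit 7053525280) (nat_lit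 155) (nat_lit 5) (nat_lit 158) (nat_lit 5) (nat_lit 156) (nat_lit 4) (nat_lit 417) (nat_lit 309) (nat_lit 294)) (XT.lf (nat_lit 0) (nat_lit 6107720964) (nat_lit 152) (nat_lit 185605808) (nat_lit 228) (nat_lit 6956454829) (nat_lit 153) (nat_lit 5) (nat_lit 155) (nat_lit 5) (nat_lit 156) (nat_lit 4) (nat_lit 418) (nat_lit 309) (nat_lit 293))) (XT.nd (nat_lit 78) (nat_lit 152) (nat_lit 0) (XT.lf (nat_lit 0) (nat_lit 4741797434) (nat_lit 152) (nat_lit 7747564655) (nat_lit 152) (nat_lit 962235007) (nat_lit 151) (nat_lit 4) (nat_lit 153) (nat_lit 5) (nat_lit 153) (nat_lit 4) (nat_lit 419) (nat_lit 309) (nat_lit 292)) (XT.lf (nat_lit 0) (nat_lit 3284027400) (nat_lit 76) (nat_lit 1825370858) (nat_lit 152) (nat_lit 8548587181) (nat_lit 149) (nat_lit 5) (nat_lit 150) (nat_lit 5) (nat_lit 151) (nat_lit 4) (nat_lit 420) (nat_lit 309) (nat_lit 291)))) (XT.nd (nat_lit 156) (nat_lit 228) (nat_lit 0) (XT.nd (nat_lit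 78) (nat_lit 152) (nat_lit 0) (XT.lf (nat_lit 0) (nat_lit 1731559562) (nat_lit 152) (nat_lit 9652234204) (nat_lit 152) (nat_lit 2485287258) (nat_lit 147) (nat_lit 4) (nat_lit 149) (nat_lit 5) (nat_lit 149) (nat_lit 4) (nat_lit 421) (nat_lit 309) (nat_lit 290)) (XT.lf (nat_lit 0) (nat_lit 76579169) (nat_lit 76) (nat_lit 3628129744) (nat_lit 152) (nat_lit 10380171286) (nat_lit 145) (nat_lit 5) (nat_lit 146) (nat_lit 5) (nat_lit 147) (nat_lit 4) (nat_lit 422) (nat_lit 309) (nat_lit 289))) (XT.nd (nat_lit 78) (nat_lit 228) (nat_lit 0) (XT.lf (nat_lit 0) (nat_lit 10072884007) (nat_lit 152) (nat_lit 1647669337) (nat_lit 0) (nat_lit 2584588877) (nat_lit 145) (nat_lit 5) (nat_lit 147) (nat_lit 4) (nat_lit 145) (nat_lit 4) (nat_lit 423) (nat_lit 309) (nat_lit 288)) (XT.lf (nat_lit 0) (nat_lit 2098810607) (nat_lit 228) (nat_lit 3481234017) (nat_lit 76) (nat_lit 8950170895) (nat_lit 142) (nat_lit 5) (nat_lit 145)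 (nat_lit 5) (nat_lit 143) (nat_lit 4) (nat_lit 424) (nat_lit 309) (nat_lit 287))))))) (XT.nd (nat_lit 1170) (nat_lit 1444) (nat_lit 0) (XT.nd (nat_lit 546) (nat_lit 988) (nat_lit 0) (XT.nd (nat_lit 234) (nat_lit 532) (nat_lit 0) (XT.nd (nat_lit 78) (nat_lit 304) (nat_lit 0) (XT.lf (nat_lit 0) (nat_lit 8546259137) (nat_lit 152) (nat_lit 5423221026) (nat_lit 0) (nat_lit 790958393) (nat_lit 141) (nat_lit 5) (nat_lit 143) (nat_lit 4) (nat_lit 141) (nat_lit 4) (nat_lit 425) (nat_lit 309) (nat_lit 286)) (XT.nd (nat_lit 78) (nat_lit 76) (nat_lit 0) (XT.lf (nat_lit 0) (nat_lit 246826880) (nat_lit 228) (nat_lit 7486252936) (nat_lit 76) (nat_lit 7262604908) (nat_lit 138) (nat_lit 5) (nat_lit 141) (nat_lit 5) (nat_lit 139) (nat_lit 4) (nat_lit 426) (nat_lit 309) (nat_lit 285)) (XT.lf (nat_lit 0) (nat_lit 5556986544) (nat_lit 76) (nat_lit 1226043609) (nat_lit 152) (nat_lit 8452924360) (nat_lit 137) (nat_lit 5)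 (nat_lit 138) (nat_lit 5) (nat_lit 139) (nat_lit 4) (nat_lit 427) (nat_lit 309) (nat_lit 284)))) (XT.nd (nat_lit 156) (nat_lit 228) (nat_lit 0) (XT.nd (nat_lit 78) (nat_lit 152) (nat_lit 0) (XT.lf (nat_lit 0) (nat_lit 3483882586) (nat_lit 152) (nat_lit 10091713982) (nat_lit 152) (nat_lit 1906027515) (nat_lit 135) (nat_lit 4) (nat_lit 137) (nat_lit 5) (nat_lit 137) (nat_lit 4) (nat_lit 428) (nat_lit 309) (nat_lit 283)) (XT.lf (nat_lit 0) (nat_lit 1278993323) (nat_lit 76) (nat_lit 3484956600) (nat_lit 152) (nat_lit 10968686862) (nat_lit 133) (nat_lit 5) (nat_lit 134) (nat_lit 5) (nat_lit 135) (nat_lit 4) (nat_lit 429) (nat_lit 309) (nat_lit 282))) (XT.nd (nat_lit 78) (nat_lit 228) (nat_lit 0) (XT.lf (nat_lit 0) (nat_lit 11648148918) (nat_lit 152) (nat_lit 1034451231) (nat_lit 0) (nat_lit 3306440626) (nat_lit 133) (nat_lit 5) (nat_lit 135) (nat_lit 4) (nat_lit 133) (nat_lit 4) (nat_lit 430) (nat_lit 309)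 (nat_lit 281)) (XT.lf (nat_lit 0) (nat_lit 2496621069) (nat_lit 228) (nat_lit 3462213501) (nat_lit 76) (nat_lit 10291803790) (nat_lit 130) (nat_lit 5) (nat_lit 133) (nat_lit 5) (nat_lit 131) (nat_lit 4) (nat_lit 431) (nat_lit 309) (nat_lit 280))))) (XT.nd (nat_lit 312) (nat_lit 456) (nat_lit 0) (XT.nd (nat_lit 156) (nat_lit 304) (nat_lit 0) (XT.nd (nat_lit 78) (nat_lit 152) (nat_lit 0) (XT.lf (nat_lit 0) (nat_lit 9474684198) (nat_lit 152) (nat_lit 6028460209) (nat_lit 0) (nat_lit 1014969918) (nat_lit 129) (nat_lit 5) (nat_lit 131) (nat_lit 4) (nat_lit 129) (nat_lit 4) (nat_lit 432) (nat_lit 309) (nat_lit 279)) (XT.lf (nat_lit 0) (nat_lit 8046619693) (nat_lit 152) (nat_lit 8688576865) (nat_lit 152) (nat_lit 56224791) (nat_lit 127) (nat_lit 4) (nat_lit 129) (nat_lit 5) (nat_lit 129) (nat_lit 4) (nat_lit 433) (nat_lit 309) (nat_lit 278))) (XT.nd (nat_lit 78) (nat_lit 152) (nat_lit 0) (XT.lf (nat_lit 0)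 (nat_lit 5443773916) (nat_lit 76) (nat_lit 1572844556) (nat_lit 152) (nat_lit 10053789103) (nat_lit 125) (nat_lit 5) (nat_lit 126) (nat_lit 5) (nat_lit 127) (nat_lit 4) (nat_lit 434) (nat_lit 309) (nat_lit 277)) (XT.lf (nat_lit 0) (nat_lit 2688007667) (nat_lit 152) (nat_lit 11684608058) (nat_lit 152) (nat_lit 2982967999) (nat_lit 123) (nat_lit 4) (nat_lit 125) (nat_lit 5) (nat_lit 125) (nat_lit 4) (nat_lit 435) (nat_lit 309) (nat_lit 276)))) (XT.nd (nat_lit 156) (nat_lit 304) (nat_lit 0) (XT.nd (nat_lit 78) (nat_lit 76) (nat_lit 0) (XT.lf (nat_lit 0) (nat_lit 4252050199) (nat_lit 228) (nat_lit 223364598) (nat_lit 76) (nat_lit 13171580924) (nat_lit 122) (nat_lit 5) (nat_lit 125) (nat_lit 5) (nat_lit 123) (nat_lit 4) (nat_lit 436) (nat_lit 309) (nat_lit 275)) (XT.lf (nat_lit 0) (nat_lit 11719628919) (nat_lit 152) (nat_lit 3246436816) (nat_lit 0) (nat_lit 2977934373) (nat_lit 121) (nat_lit 5) (nat_lit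 123) (nat_lit 4) (nat_lit 121) (nat_lit 4) (nat_lit 437) (nat_lit 309) (nat_lit 274))) (XT.nd (nat_lit 78) (nat_lit 76) (nat_lit 0) (XT.lf (nat_lit 0) (nat_lit 1204408968) (nat_lit 228) (nat_lit 6437114664) (nat_lit 76) (nat_lit 10606083591) (nat_lit 118) (nat_lit 5) (nat_lit 121) (nat_lit 5) (nat_lit 119) (nat_lit 4) (nat_lit 438) (nat_lit 309) (nat_lit 273)) (XT.lf (nat_lit 0) (nat_lit 8750493683) (nat_lit 76) (nat_lit 2629677) (nat_lit 152) (nat_lit 9804685133) (nat_lit 117) (nat_lit 5) (nat_lit 118) (nat_lit 5) (nat_lit 119) (nat_lit 4) (nat_lit 439) (nat_lit 309) (nat_lit 272)))))) (XT.nd (nat_lit 624) (nat_lit 760) (nat_lit 0) (XT.nd (nat_lit 312) (nat_lit 304) (nat_lit 0) (XT.nd (nat_lit 156) (nat_lit 152) (nat_lit 0) (XT.nd (nat_lit 78) (nat_lit 152) (nat_lit 0) (XT.lf (nat_lit 0) (nat_lit 5496520371) (nat_lit 76) (nat_lit 11130977326) (nat_lit 76) (nat_lit 2246842148) (nat_lit 116) (nat_lit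 4) (nat_lit 117) (nat_lit 5) (nat_lit 117) (nat_lit 4) (nat_lit 440) (nat_lit 309) (nat_lit 271)) (XT.lf (nat_lit 0) (nat_lit 2064277753) (nat_lit 76) (nat_lit 3390466161) (nat_lit 152) (nat_lit 13743274191) (nat_lit 114) (nat_lit 5) (nat_lit 115) (nat_lit 5) (nat_lit 116) (nat_lit 4) (nat_lit 441) (nat_lit 309) (nat_lit 270))) (XT.nd (nat_lit 78) (nat_lit 152) (nat_lit 0) (XT.lf (nat_lit 0) (nat_lit 13428021549) (nat_lit 152) (nat_lit 1536138711) (nat_lit 0) (nat_lit 4564004976) (nat_lit 114) (nat_lit 5) (nat_lit 116) (nat_lit 4) (nat_lit 114) (nat_lit 4) (nat_lit 442) (nat_lit 309) (nat_lit 269)) (XT.lf (nat_lit 0) (nat_lit 1820518830) (nat_lit 152) (nat_lit 5282497265) (nat_lit 76) (nat_lit 12762204947) (nat_lit 112) (nat_lit 5) (nat_lit 114) (nat_lit 5) (nat_lit 113) (nat_lit 4) (nat_lit 443) (nat_lit 309) (nat_lit 268)))) (XT.nd (nat_lit 156) (nat_lit 152) (nat_lit 0) (XT.nd (nat_lit 78) (nat_lit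 76) (nat_lit 0) (XT.lf (nat_lit 0) (nat_lit 9896054752) (nat_lit 152) (nat_lit 9241504414) (nat_lit 0) (nat_lit 1071821622) (nat_lit 111) (nat_lit 5) (nat_lit 113) (nat_lit 4) (nat_lit 111) (nat_lit 4) (nat_lit 444) (nat_lit 309) (nat_lit 267)) (XT.lf (nat_lit 0) (nat_lit 7140433312) (nat_lit 76) (nat_lit 11174540173) (nat_lit 76) (nat_lit 2245858339) (nat_lit 110) (nat_lit 4) (nat_lit 111) (nat_lit 5) (nat_lit 111) (nat_lit 4) (nat_lit 445) (nat_lit 309) (nat_lit 266))) (XT.nd (nat_lit 78) (nat_lit 0) (nat_lit 0) (XT.lf (nat_lit 0) (nat_lit 3104726703) (nat_lit 76) (nat_lit 2873014698) (nat_lit 152) (nat_lit 14942363429) (nat_lit 108) (nat_lit 5) (nat_lit 109) (nat_lit 5) (nat_lit 110) (nat_lit 4) (nat_lit 446) (nat_lit 309) (nat_lit 265)) (XT.lf (nat_lit 0) (nat_lit 14502806007) (nat_lit 152) (nat_lit 1143541458) (nat_lit 0) (nat_lit 5640144584) (nat_lit 108) (nat_lit 5) (nat_lit 110) (nat_lit 4)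 (nat_lit 108) (nat_lit 4) (nat_lit 447) (nat_lit 309) (nat_lit 264))))) (XT.nd (nat_lit 312) (nat_lit 304) (nat_lit 0) (XT.nd (nat_lit 156) (nat_lit 228) (nat_lit 0) (XT.nd (nat_lit 78) (nat_lit 76) (nat_lit 0) (XT.lf (nat_lit 0) (nat_lit 1683802412) (nat_lit 152) (nat_lit 5537343846) (nat_lit 76) (nat_lit 14439387786) (nat_lit 106) (nat_lit 5) (nat_lit 108) (nat_lit 5) (nat_lit 107) (nat_lit 4) (nat_lit 448) (nat_lit 309) (nat_lit 263)) (XT.lf (nat_lit 0) (nat_lit 10321054209) (nat_lit 152) (nat_lit 10182209572) (nat_lit 0) (nat_lit 1538956039) (nat_lit 105) (nat_lit 5) (nat_lit 107) (nat_lit 4) (nat_lit 105) (nat_lit 4) (nat_lit 449) (nat_lit 309) (nat_lit 262))) (XT.nd (nat_lit 78) (nat_lit 152) (nat_lit 0) (XT.lf (nat_lit 0) (nat_lit 7355679171) (nat_lit 76) (nat_lit 11971701407) (nat_lit 76) (nat_lit 3104676883) (nat_lit 104) (nat_lit 4) (nat_lit 105) (nat_lit 5) (nat_lit 105) (nat_lit 4) (nat_lit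 450) (nat_lit 309) (nat_lit 261)) (XT.lf (nat_lit 0) (nat_lit 2617543615) (nat_lit 76) (nat_lit 3080496242) (nat_lit 152) (nat_lit 17132676356) (nat_lit 102) (nat_lit 5) (nat_lit 103) (nat_lit 5) (nat_lit 104) (nat_lit 4) (nat_lit 451) (nat_lit 309) (nat_lit 260)))) (XT.nd (nat_lit 156) (nat_lit 152) (nat_lit 0) (XT.nd (nat_lit 78) (nat_lit 152) (nat_lit 0) (XT.lf (nat_lit 0) (nat_lit 14826034633) (nat_lit 152) (nat_lit 2351167913) (nat_lit 0) (nat_lit 6059502078) (nat_lit 102) (nat_lit 5) (nat_lit 104) (nat_lit 4) (nat_lit 102) (nat_lit 4) (nat_lit 452) (nat_lit 309) (nat_lit 259)) (XT.lf (nat_lit 0) (nat_lit 662667124) (nat_lit 152) (nat_lit 7496774259) (nat_lit 76) (nat_lit 15492240510) (nat_lit 100) (nat_lit 5) (nat_lit 102) (nat_lit 5) (nat_lit 101) (nat_lit 4) (nat_lit 453) (nat_lit 309) (nat_lit 258))) (XT.nd (nat_lit 78) (nat_lit 76) (nat_lit 0) (XT.lf (nat_lit 0) (nat_lit 9896534596) (nat_lit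 152) (nat_lit 12937399139) (nat_lit 0) (nat_lit 1240955235) (nat_lit 99) (nat_lit 5) (nat_lit 101) (nat_lit 4) (nat_lit 99) (nat_lit 4) (nat_lit 454) (nat_lit 309) (nat_lit 257)) (XT.lf (nat_lit 0) (nat_lit 5838228592) (nat_lit 76) (nat_lit 13696685523) (nat_lit 76) (nat_lit 4972053264) (nat_lit 98) (nat_lit 4) (nat_lit 99) (nat_lit 5) (nat_lit 99) (nat_lit 4) (nat_lit 455) (nat_lit 309) (nat_lit 256))))))))
noncomputable def xc37 : XT := (XT.nd (nat_lit 2340) (nat_lit 912) (nat_lit 0) (XT.nd (nat_lit 1170) (nat_lit 1216) (nat_lit 0) (XT.nd (nat_lit 546) (nat_lit 684) (nat_lit 0) (XT.nd (nat_lit 234) (nat_lit 380) (nat_lit 0) (XT.nd (nat_lit 78) (nat_lit 76) (nat_lit 0) (XT.lf (nat_lit 0) (nat_lit 285013547) (nat_lit 76) (nat_lit 4186261061) (nat_lit 152) (nat_lit 20477967242) (nat_lit 96) (nat_lit 5) (nat_lit 97) (nat_lit 5) (nat_lit 98) (nat_lit 4) (nat_lit 456) (nat_lit 309) (nat_lit 255)) (XT.nd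 (nat_lit 78) (nat_lit 76) (nat_lit 0) (XT.lf (nat_lit 0) (nat_lit 14256529226) (nat_lit 152) (nat_lit 5484291368) (nat_lit 0) (nat_lit 5657730306) (nat_lit 96) (nat_lit 5) (nat_lit 98) (nat_lit 4) (nat_lit 96) (nat_lit 4) (nat_lit 457) (nat_lit 309) (nat_lit 254)) (XT.lf (nat_lit 0) (nat_lit 14344246013) (nat_lit 76) (nat_lit 10087181083) (nat_lit 76) (nat_lit 1427029556) (nat_lit 95) (nat_lit 4) (nat_lit 96) (nat_lit 5) (nat_lit 96) (nat_lit 4) (nat_lit 458) (nat_lit 309) (nat_lit 253)))) (XT.nd (nat_lit 156) (nat_lit 152) (nat_lit 0) (XT.nd (nat_lit 78) (nat_lit 76) (nat_lit 0) (XT.lf (nat_lit 0) (nat_lit 8466102057) (nat_lit 152) (nat_lit 17861603017) (nat_lit 0) (nat_lit 357238) (nat_lit 93) (nat_lit 5) (nat_lit 95) (nat_lit 4) (nat_lit 93) (nat_lit 4) (nat_lit 459) (nat_lit 309) (nat_lit 252)) (XT.lf (nat_lit 0) (nat_lit 2237456824) (nat_lit 76) (nat_lit 16545548403) (nat_lit 76) (nat_lit 8023657258)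 (nat_lit 92) (nat_lit 4) (nat_lit 93) (nat_lit 5) (nat_lit 93) (nat_lit 4) (nat_lit 460) (nat_lit 309) (nat_lit 251))) (XT.nd (nat_lit 78) (nat_lit 76) (nat_lit 0) (XT.lf (nat_lit 0) (nat_lit 2167667439) (nat_lit 152) (nat_lit 4176037237) (nat_lit 76) (nat_lit 20952336300) (nat_lit 91) (nat_lit 5) (nat_lit 93) (nat_lit 5) (nat_lit 92) (nat_lit 4) (nat_lit 461) (nat_lit 309) (nat_lit 250)) (XT.lf (nat_lit 0) (nat_lit 12627068347) (nat_lit 152) (nat_lit 10917858604) (nat_lit 0) (nat_lit 4249082486) (nat_lit 90) (nat_lit 5) (nat_lit 92) (nat_lit 4) (nat_lit 90) (nat_lit 4) (nat_lit 462) (nat_lit 309) (nat_lit 249))))) (XT.nd (nat_lit 312) (nat_lit 380) (nat_lit 0) (XT.nd (nat_lit 156) (nat_lit 76) (nat_lit 0) (XT.nd (nat_lit 78) (nat_lit 152) (nat_lit 0) (XT.lf (nat_lit 0) (nat_lit 10317320279) (nat_lit 76) (nat_lit 13206874752) (nat_lit 76) (nat_lit 4779003608) (nat_lit 89) (nat_lit 4) (nat_lit 90) (nat_lit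 5) (nat_lit 90) (nat_lit 4) (nat_lit 463) (nat_lit 309) (nat_lit 248)) (XT.lf (nat_lit 0) (nat_lit 3437408482) (nat_lit 76) (nat_lit 2431415133) (nat_lit 152) (nat_lit 22955219037) (nat_lit 87) (nat_lit 5) (nat_lit 88) (nat_lit 5) (nat_lit 89) (nat_lit 4) (nat_lit 464) (nat_lit 309) (nat_lit 247))) (XT.nd (nat_lit 78) (nat_lit 76) (nat_lit 0) (XT.lf (nat_lit 0) (nat_lit 16926224399) (nat_lit 152) (nat_lit 3776130857) (nat_lit 0) (nat_lit 8651151465) (nat_lit 87) (nat_lit 5) (nat_lit 89) (nat_lit 4) (nat_lit 87) (nat_lit 4) (nat_lit 465) (nat_lit 309) (nat_lit 246)) (XT.lf (nat_lit 0) (nat_lit 18666828713) (nat_lit 76) (nat_lit 9773830993) (nat_lit 76) (nat_lit 1454435631) (nat_lit 86) (nat_lit 4) (nat_lit 87) (nat_lit 5) (nat_lit 87) (nat_lit 4) (nat_lit 466) (nat_lit 309) (nat_lit 245)))) (XT.nd (nat_lit 156) (nat_lit 152) (nat_lit 0) (XT.nd (nat_lit 78) (nat_lit 76) (nat_lit 0) (XT.lf (nat_lit 0)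 (nat_lit 9741063571) (nat_lit 152) (nat_lit 19084256774) (nat_lit 0) (nat_lit 1622202557) (nat_lit 84) (nat_lit 5) (nat_lit 86) (nat_lit 4) (nat_lit 84) (nat_lit 4) (nat_lit 467) (nat_lit 309) (nat_lit 244)) (XT.lf (nat_lit 0) (nat_lit 3652452386) (nat_lit 76) (nat_lit 17759006646) (nat_lit 76) (nat_lit 9599584331) (nat_lit 83) (nat_lit 4) (nat_lit 84) (nat_lit 5) (nat_lit 84) (nat_lit 4) (nat_lit 468) (nat_lit 309) (nat_lit 243))) (XT.nd (nat_lit 78) (nat_lit 76) (nat_lit 0) (XT.lf (nat_lit 0) (nat_lit 1921105268) (nat_lit 152) (nat_lit 4298958522) (nat_lit 76) (nat_lit 25367379197) (nat_lit 82) (nat_lit 5) (nat_lit 84) (nat_lit 5) (nat_lit 83) (nat_lit 4) (nat_lit 469) (nat_lit 309) (nat_lit 242)) (XT.lf (nat_lit 0) (nat_lit 13763474842) (nat_lit 152) (nat_lit 12643385001) (nat_lit 0) (nat_lit 5766353353) (nat_lit 81) (nat_lit 5) (nat_lit 83) (nat_lit 4) (nat_lit 81) (nat_lit 4) (nat_lit 470) (nat_lit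 309) (nat_lit 241)))))) (XT.nd (nat_lit 546) (nat_lit 684) (nat_lit 0) (XT.nd (nat_lit 234) (nat_lit 304) (nat_lit 0) (XT.nd (nat_lit 78) (nat_lit 152) (nat_lit 0) (XT.lf (nat_lit 0) (nat_lit 11395054607) (nat_lit 76) (nat_lit 14705243058) (nat_lit 76) (nat_lit 6672083379) (nat_lit 80) (nat_lit 4) (nat_lit 81) (nat_lit 5) (nat_lit 81) (nat_lit 4) (nat_lit 471) (nat_lit 309) (nat_lit 240)) (XT.nd (nat_lit 78) (nat_lit 0) (nat_lit 0) (XT.lf (nat_lit 0) (nat_lit 2879314910) (nat_lit 76) (nat_lit 2513524066) (nat_lit 152) (nat_lit 27992696906) (nat_lit 78) (nat_lit 5) (nat_lit 79) (nat_lit 5) (nat_lit 80) (nat_lit 4) (nat_lit 472) (nat_lit 309) (nat_lit 239)) (XT.lf (nat_lit 0) (nat_lit 17924443429) (nat_lit 152) (nat_lit 6025185254) (nat_lit 0) (nat_lit 10058309776) (nat_lit 78) (nat_lit 5) (nat_lit 80) (nat_lit 4) (nat_lit 78) (nat_lit 4) (nat_lit 473) (nat_lit 309) (nat_lit 238)))) (XT.nd (nat_lit 156)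 (nat_lit 76) (nat_lit 0) (XT.nd (nat_lit 78) (nat_lit 152) (nat_lit 0) (XT.lf (nat_lit 0) (nat_lit 19396611769) (nat_lit 76) (nat_lit 11573209847) (nat_lit 76) (nat_lit 3675056729) (nat_lit 77) (nat_lit 4) (nat_lit 78) (nat_lit 5) (nat_lit 78) (nat_lit 4) (nat_lit 474) (nat_lit 309) (nat_lit 237)) (XT.lf (nat_lit 0) (nat_lit 9028650841) (nat_lit 152) (nat_lit 24936269121) (nat_lit 0) (nat_lit 1330359601) (nat_lit 75) (nat_lit 5) (nat_lit 77) (nat_lit 4) (nat_lit 75) (nat_lit 4) (nat_lit 475) (nat_lit 309) (nat_lit 236))) (XT.nd (nat_lit 78) (nat_lit 0) (nat_lit 0) (XT.lf (nat_lit 0) (nat_lit 802329914) (nat_lit 76) (nat_lit 21441617306) (nat_lit 76) (nat_lit 13714023719) (nat_lit 74) (nat_lit 4) (nat_lit 75) (nat_lit 5) (nat_lit 75) (nat_lit 4) (nat_lit 476) (nat_lit 309) (nat_lit 235)) (XT.lf (nat_lit 0) (nat_lit 27678364698) (nat_lit 76) (nat_lit 8356424118) (nat_lit 76) (nat_lit 600381652) (nat_lit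 74) (nat_lit 4) (nat_lit 75) (nat_lit 5) (nat_lit 75) (nat_lit 4) (nat_lit 477) (nat_lit 309) (nat_lit 234))))) (XT.nd (nat_lit 312) (nat_lit 304) (nat_lit 0) (XT.nd (nat_lit 156) (nat_lit 152) (nat_lit 0) (XT.nd (nat_lit 78) (nat_lit 76) (nat_lit 0) (XT.lf (nat_lit 0) (nat_lit 12809130081) (nat_lit 152) (nat_lit 19263028451) (nat_lit 0) (nat_lit 5252175966) (nat_lit 72) (nat_lit 5) (nat_lit 74) (nat_lit 4) (nat_lit 72) (nat_lit 4) (nat_lit 478) (nat_lit 309) (nat_lit 233)) (XT.lf (nat_lit 0) (nat_lit 7964860304) (nat_lit 76) (nat_lit 18823371269) (nat_lit 76) (nat_lit 11240382399) (nat_lit 71) (nat_lit 4) (nat_lit 72) (nat_lit 5) (nat_lit 72) (nat_lit 4) (nat_lit 479) (nat_lit 309) (nat_lit 232))) (XT.nd (nat_lit 78) (nat_lit 76) (nat_lit 0) (XT.lf (nat_lit 0) (nat_lit 2510403652) (nat_lit 152) (nat_lit 2512145915) (nat_lit 76) (nat_lit 33727015035) (nat_lit 70) (nat_lit 5) (nat_lit 72) (nat_lit 5)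 (nat_lit 71) (nat_lit 4) (nat_lit 480) (nat_lit 309) (nat_lit 231)) (XT.lf (nat_lit 0) (nat_lit 16721028042) (nat_lit 152) (nat_lit 13449042742) (nat_lit 0) (nat_lit 9310537183) (nat_lit 69) (nat_lit 5) (nat_lit 71) (nat_lit 4) (nat_lit 69) (nat_lit 4) (nat_lit 481) (nat_lit 309) (nat_lit 230)))) (XT.nd (nat_lit 156) (nat_lit 76) (nat_lit 0) (XT.nd (nat_lit 78) (nat_lit 152) (nat_lit 0) (XT.lf (nat_lit 0) (nat_lit 15361064645) (nat_lit 76) (nat_lit 16150762356) (nat_lit 76) (nat_lit 8717139954) (nat_lit 68) (nat_lit 4) (nat_lit 69) (nat_lit 5) (nat_lit 69) (nat_lit 4) (nat_lit 482) (nat_lit 309) (nat_lit 229)) (XT.lf (nat_lit 0) (nat_lit 4201892999) (nat_lit 76) (nat_lit 1540950946) (nat_lit 152) (nat_lit 35252023370) (nat_lit 66) (nat_lit 5) (nat_lit 67) (nat_lit 5) (nat_lit 68) (nat_lit 4) (nat_lit 483) (nat_lit 309) (nat_lit 228))) (XT.nd (nat_lit 78) (nat_lit 76) (nat_lit 0) (XT.lf (nat_lit 0) (nat_lit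 20775752089) (nat_lit 152) (nat_lit 7480302804) (nat_lit 0) (nat_lit 13515670624) (nat_lit 66) (nat_lit 5) (nat_lit 68) (nat_lit 4) (nat_lit 66) (nat_lit 4) (nat_lit 484) (nat_lit 309) (nat_lit 227)) (XT.lf (nat_lit 0) (nat_lit 23010551668) (nat_lit 76) (nat_lit 13418445425) (nat_lit 76) (nat_lit 6137811884) (nat_lit 65) (nat_lit 4) (nat_lit 66) (nat_lit 5) (nat_lit 66) (nat_lit 4) (nat_lit 485) (nat_lit 309) (nat_lit 226))))))) (XT.nd (nat_lit 46722) (nat_lit 0) (nat_lit 7448) (XT.nd (nat_lit 546) (nat_lit 304) (nat_lit 0) (XT.nd (nat_lit 234) (nat_lit 380) (nat_lit 0) (XT.nd (nat_lit 78) (nat_lit 76) (nat_lit 0) (XT.lf (nat_lit 0) (nat_lit 9123860578) (nat_lit 152) (nat_lit 32219230149) (nat_lit 0) (nat_lit 2035912023) (nat_lit 63) (nat_lit 5) (nat_lit 65) (nat_lit 4) (nat_lit 63) (nat_lit 4) (nat_lit 486) (nat_lit 309) (nat_lit 225)) (XT.nd (nat_lit 78) (nat_lit 76) (nat_lit 0) (XT.lf (nat_lit 0)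 (nat_lit 24985246499) (nat_lit 152) (nat_lit 1342046025) (nat_lit 0) (nat_lit 17878489882) (nat_lit 63) (nat_lit 5) (nat_lit 65) (nat_lit 4) (nat_lit 63) (nat_lit 4) (nat_lit 487) (nat_lit 309) (nat_lit 224)) (XT.lf (nat_lit 0) (nat_lit 30934025708) (nat_lit 76) (nat_lit 10620694613) (nat_lit 76) (nat_lit 3495677742) (nat_lit 62) (nat_lit 4) (nat_lit 63) (nat_lit 5) (nat_lit 63) (nat_lit 4) (nat_lit 488) (nat_lit 309) (nat_lit 223)))) (XT.nd (nat_lit 156) (nat_lit 152) (nat_lit 0) (XT.nd (nat_lit 78) (nat_lit 76) (nat_lit 0) (XT.lf (nat_lit 0) (nat_lit 12634341263) (nat_lit 152) (nat_lit 27577273461) (nat_lit 0) (nat_lit 5699637116) (nat_lit 60) (nat_lit 5) (nat_lit 62) (nat_lit 4) (nat_lit 60) (nat_lit 4) (nat_lit 489) (nat_lit 309) (nat_lit 222)) (XT.lf (nat_lit 0) (nat_lit 5080423240) (nat_lit 76) (nat_lit 24330449199) (nat_lit 76) (nat_lit 17379034333) (nat_lit 59) (nat_lit 4) (nat_lit 60) (nat_lit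 5) (nat_lit 60) (nat_lit 4) (nat_lit 490) (nat_lit 309) (nat_lit 221))) (XT.nd (nat_lit 78) (nat_lit 152) (nat_lit 0) (XT.lf (nat_lit 0) (nat_lit 39153349822) (nat_lit 76) (nat_lit 7751394525) (nat_lit 76) (nat_lit 783755661) (nat_lit 59) (nat_lit 4) (nat_lit 60) (nat_lit 5) (nat_lit 60) (nat_lit 4) (nat_lit 491) (nat_lit 309) (nat_lit 220)) (XT.lf (nat_lit 0) (nat_lit 16269519767) (nat_lit 152) (nat_lit 22841947042) (nat_lit 0) (nat_lit 9489529165) (nat_lit 57) (nat_lit 5) (nat_lit 59) (nat_lit 4) (nat_lit 57) (nat_lit 4) (nat_lit 492) (nat_lit 309) (nat_lit 219))))) (XT.nd (nat_lit 45864) (nat_lit 0) (nat_lit 10488) (XT.nd (nat_lit 156) (nat_lit 152) (nat_lit 0) (XT.nd (nat_lit 78) (nat_lit 76) (nat_lit 0) (XT.lf (nat_lit 0) (nat_lit 11735086343) (nat_lit 76) (nat_lit 22296991215) (nat_lit 76) (nat_lit 15502153357) (nat_lit 56) (nat_lit 4) (nat_lit 57) (nat_lit 5) (nat_lit 57) (nat_lit 4) (nat_lit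 493) (nat_lit 309) (nat_lit 218)) (XT.lf (nat_lit 0) (nat_lit 1966094493) (nat_lit 152) (nat_lit 2818080848) (nat_lit 76) (nat_lit 45705665384) (nat_lit 55) (nat_lit 5) (nat_lit 57) (nat_lit 5) (nat_lit 56) (nat_lit 4) (nat_lit 494) (nat_lit 309) (nat_lit 217))) (XT.nd (nat_lit 78) (nat_lit 76) (nat_lit 0) (XT.lf (nat_lit 0) (nat_lit 20039922629) (nat_lit 152) (nat_lit 18002387915) (nat_lit 0) (nat_lit 13415410362) (nat_lit 54) (nat_lit 5) (nat_lit 56) (nat_lit 4) (nat_lit 54) (nat_lit 4) (nat_lit 495) (nat_lit 309) (nat_lit 216)) (XT.lf (nat_lit 0) (nat_lit 18612868156) (nat_lit 76) (nat_lit 20236830603) (nat_lit 76) (nat_lit 13599126741) (nat_lit 53) (nat_lit 4) (nat_lit 54) (nat_lit 5) (nat_lit 54) (nat_lit 4) (nat_lit 496) (nat_lit 309) (nat_lit 215)))) (XT.nd (nat_lit 156) (nat_lit 532) (nat_lit 0) (XT.nd (nat_lit 78) (nat_lit 304) (nat_lit 0) (XT.lf (nat_lit 0) (nat_lit 4594495487) (nat_lit 228)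 (nat_lit 278944548) (nat_lit 228) (nat_lit 278944548) (nat_lit 202) (nat_lit 4) (nat_lit 205) (nat_lit 5) (nat_lit 205) (nat_lit 4) (nat_lit 400) (nat_lit 310) (nat_lit 310)) (XT.lf (nat_lit 0) (nat_lit 4626863976) (nat_lit 304) (nat_lit 1837315110) (nat_lit 0) (nat_lit 3974017610) (nat_lit 198) (nat_lit 5) (nat_lit 202) (nat_lit 4) (nat_lit 198) (nat_lit 4) (nat_lit 401) (nat_lit 310) (nat_lit 309))) (XT.nd (nat_lit 78) (nat_lit 304) (nat_lit 0) (XT.lf (nat_lit 0) (nat_lit 8009741513) (nat_lit 228) (nat_lit 1926494469) (nat_lit 228) (nat_lit 639816681) (nat_lit 195) (nat_lit 4) (nat_lit 198) (nat_lit 5) (nat_lit 198) (nat_lit 4) (nat_lit 402) (nat_lit 310) (nat_lit 308)) (XT.lf (nat_lit 0) (nat_lit 4598798917) (nat_lit 304) (nat_lit 3365641191) (nat_lit 0) (nat_lit 2752150275) (nat_lit 191) (nat_lit 5) (nat_lit 195) (nat_lit 4) (nat_lit 191) (nat_lit 4) (nat_lit 403) (nat_lit 310) (nat_lit 307))))))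 (XT.nd (nat_lit 624) (nat_lit 1292) (nat_lit 0) (XT.nd (nat_lit 312) (nat_lit 836) (nat_lit 0) (XT.nd (nat_lit 156) (nat_lit 456) (nat_lit 0) (XT.nd (nat_lit 78) (nat_lit 228) (nat_lit 0) (XT.lf (nat_lit 0) (nat_lit 6669136634) (nat_lit 228) (nat_lit 3309403467) (nat_lit 228) (nat_lit 882709285) (nat_lit 188) (nat_lit 4) (nat_lit 191) (nat_lit 5) (nat_lit 191) (nat_lit 4) (nat_lit 404) (nat_lit 310) (nat_lit 306)) (XT.lf (nat_lit 0) (nat_lit 4415530489) (nat_lit 228) (nat_lit 5080826077) (nat_lit 0) (nat_lit 1512768167) (nat_lit 185) (nat_lit 5) (nat_lit 188) (nat_lit 4) (nat_lit 185) (nat_lit 4) (nat_lit 405) (nat_lit 310) (nat_lit 305))) (XT.nd (nat_lit 78) (nat_lit 228) (nat_lit 0) (XT.lf (nat_lit 0) (nat_lit 5142418790) (nat_lit 228) (nat_lit 4725969571) (nat_lit 228) (nat_lit 1292383412) (nat_lit 182) (nat_lit 4) (nat_lit 185) (nat_lit 5) (nat_lit 185) (nat_lit 4) (nat_lit 406) (nat_lit 310) (nat_lit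 304)) (XT.lf (nat_lit 0) (nat_lit 4070877045) (nat_lit 228) (nat_lit 7008413088) (nat_lit 0) (nat_lit 236945871) (nat_lit 179) (nat_lit 5) (nat_lit 182) (nat_lit 4) (nat_lit 179) (nat_lit 4) (nat_lit 407) (nat_lit 310) (nat_lit 303)))) (XT.nd (nat_lit 156) (nat_lit 380) (nat_lit 0) (XT.nd (nat_lit 78) (nat_lit 228) (nat_lit 0) (XT.lf (nat_lit 0) (nat_lit 3403846696) (nat_lit 228) (nat_lit 6195468059) (nat_lit 228) (nat_lit 1875757877) (nat_lit 176) (nat_lit 4) (nat_lit 179) (nat_lit 5) (nat_lit 179) (nat_lit 4) (nat_lit 408) (nat_lit 310) (nat_lit 302)) (XT.lf (nat_lit 0) (nat_lit 2452325108) (nat_lit 152) (nat_lit 1115982967) (nat_lit 228) (nat_lit 8069771350) (nat_lit 173) (nat_lit 5) (nat_lit 175) (nat_lit 5) (nat_lit 176) (nat_lit 4) (nat_lit 409) (nat_lit 310) (nat_lit 301))) (XT.nd (nat_lit 78) (nat_lit 228) (nat_lit 0) (XT.lf (nat_lit 0) (nat_lit 1426570625) (nat_lit 152) (nat_lit 7737209197)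 (nat_lit 152) (nat_lit 2640865904) (nat_lit 171) (nat_lit 4) (nat_lit 173) (nat_lit 5) (nat_lit 173) (nat_lit 4) (nat_lit 410) (nat_lit 310) (nat_lit 300)) (XT.lf (nat_lit 0) (nat_lit 342398279) (nat_lit 152) (nat_lit 2549399715) (nat_lit 228) (nat_lit 9083605821) (nat_lit 168) (nat_lit 5) (nat_lit 170) (nat_lit 5) (nat_lit 171) (nat_lit 4) (nat_lit 411) (nat_lit 310) (nat_lit 299))))) (XT.nd (nat_lit 312) (nat_lit 684) (nat_lit 0) (XT.nd (nat_lit 156) (nat_lit 380) (nat_lit 0) (XT.nd (nat_lit 78) (nat_lit 228) (nat_lit 0) (XT.lf (nat_lit 0) (nat_lit 8561011796) (nat_lit 228) (nat_lit 801542795) (nat_lit 0) (nat_lit 2787236176) (nat_lit 168) (nat_lit 5) (nat_lit 171) (nat_lit 4) (nat_lit 168) (nat_lit 4) (nat_lit 412) (nat_lit 310) (nat_lit 298)) (XT.lf (nat_lit 0) (nat_lit 2049440156) (nat_lit 228) (nat_lit 2008394890) (nat_lit 76) (nat_lit 8270408340) (nat_lit 165) (nat_lit 5) (nat_lit 168) (nat_lit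 5) (nat_lit 166) (nat_lit 4) (nat_lit 413) (nat_lit 310) (nat_lit 297))) (XT.nd (nat_lit 78) (nat_lit 228) (nat_lit 0) (XT.lf (nat_lit 0) (nat_lit 7789969898) (nat_lit 228) (nat_lit 3292279957) (nat_lit 0) (nat_lit 1428574905) (nat_lit 163) (nat_lit 5) (nat_lit 166) (nat_lit 4) (nat_lit 163) (nat_lit 4) (nat_lit 414) (nat_lit 310) (nat_lit 296)) (XT.lf (nat_lit 0) (nat_lit 1017416749) (nat_lit 228) (nat_lit 4657504195) (nat_lit 76) (nat_lit 7022677955) (nat_lit 160) (nat_lit 5) (nat_lit 163) (nat_lit 5) (nat_lit 161) (nat_lit 4) (nat_lit 415) (nat_lit 310) (nat_lit 295)))) (XT.nd (nat_lit 156) (nat_lit 380) (nat_lit 0) (XT.nd (nat_lit 78) (nat_lit 152) (nat_lit 0) (XT.lf (nat_lit 0) (nat_lit 6784525499) (nat_lit 152) (nat_lit 42234494) (nat_lit 228) (nat_lit 6061999795) (nat_lit 158) (nat_lit 5) (nat_lit 160) (nat_lit 5) (nat_lit 161) (nat_lit 4) (nat_lit 416) (nat_lit 310) (nat_lit 294)) (XT.lf (nat_lit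 0) (nat_lit 5439205593) (nat_lit 152) (nat_lit 7421744567) (nat_lit 152) (nat_lit 223188344) (nat_lit 156) (nat_lit 4) (nat_lit 158) (nat_lit 5) (nat_lit 158) (nat_lit 4) (nat_lit 417) (nat_lit 310) (nat_lit 293))) (XT.nd (nat_lit 78) (nat_lit 152) (nat_lit 0) (XT.lf (nat_lit 0) (nat_lit 3999559382) (nat_lit 152) (nat_lit 1674959217) (nat_lit 228) (nat_lit 7609288136) (nat_lit 153) (nat_lit 5) (nat_lit 155) (nat_lit 5) (nat_lit 156) (nat_lit 4) (nat_lit 418) (nat_lit 310) (nat_lit 292)) (XT.lf (nat_lit 0) (nat_lit 2474756129) (nat_lit 152) (nat_lit 9308450270) (nat_lit 152) (nat_lit 1705036256) (nat_lit 151) (nat_lit 4) (nat_lit 153) (nat_lit 5) (nat_lit 153) (nat_lit 4) (nat_lit 419) (nat_lit 310) (nat_lit 291))))))))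
noncomputable def xc38 : XT := (XT.nd (nat_lit 2340) (nat_lit 2584) (nat_lit 0) (XT.nd (nat_lit 1170) (nat_lit 1520) (nat_lit 0) (XT.nd (nat_lit 546) (nat_lit 1064) (nat_lit 0) (XT.nd (nat_lit 234) (nat_lit 532) (nat_lit 0) (XT.nd (nat_lit 78) (nat_lit 228) (nat_lit 0) (XT.lf (nat_lit 0) (nat_lit 844863602) (nat_lit 76) (nat_lit 3461629947) (nat_lit 152) (nat_lit 9390589603) (nat_lit 149) (nat_lit 5) (nat_lit 150) (nat_lit 5) (nat_lit 151) (nat_lit 4) (nat_lit 420) (nat_lit 310) (nat_lit 290)) (XT.nd (nat_lit 78) (nat_lit 228) (nat_lit 0) (XT.lf (nat_lit 0) (nat_lit 10497531112) (nat_lit 152) (nat_lit 859949554) (nat_lit 0) (nat_lit 2553198809) (nat_lit 149) (nat_lit 5) (nat_lit 151) (nat_lit 4) (nat_lit 149) (nat_lit 4) (nat_lit 421) (nat_lit 310) (nat_lit 289)) (XT.lf (nat_lit 0) (nat_lit 2734798722) (nat_lit 228) (nat_lit 2661654954) (nat_lit 76) (nat_lit 8732097199) (nat_lit 146) (nat_lit 5) (nat_lit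 149) (nat_lit 5) (nat_lit 147) (nat_lit 4) (nat_lit 422) (nat_lit 310) (nat_lit 288)))) (XT.nd (nat_lit 156) (nat_lit 228) (nat_lit 0) (XT.nd (nat_lit 78) (nat_lit 228) (nat_lit 0) (XT.lf (nat_lit 0) (nat_lit 9008870932) (nat_lit 152) (nat_lit 4561492678) (nat_lit 0) (nat_lit 781272373) (nat_lit 145) (nat_lit 5) (nat_lit 147) (nat_lit 4) (nat_lit 145) (nat_lit 4) (nat_lit 423) (nat_lit 310) (nat_lit 287)) (XT.lf (nat_lit 0) (nat_lit 930445480) (nat_lit 228) (nat_lit 6584934448) (nat_lit 76) (nat_lit 7064035448) (nat_lit 142) (nat_lit 5) (nat_lit 145) (nat_lit 5) (nat_lit 143) (nat_lit 4) (nat_lit 424) (nat_lit 310) (nat_lit 286))) (XT.nd (nat_lit 78) (nat_lit 152) (nat_lit 0) (XT.lf (nat_lit 0) (nat_lit 6085177477) (nat_lit 76) (nat_lit 1204422194) (nat_lit 152) (nat_lit 7522687572) (nat_lit 141) (nat_lit 5) (nat_lit 142) (nat_lit 5) (nat_lit 143) (nat_lit 4) (nat_lit 425) (nat_lit 310) (nat_lit 285))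 (XT.lf (nat_lit 0) (nat_lit 4059394162) (nat_lit 152) (nat_lit 9837610791) (nat_lit 152) (nat_lit 1153416018) (nat_lit 139) (nat_lit 4) (nat_lit 141) (nat_lit 5) (nat_lit 141) (nat_lit 4) (nat_lit 426) (nat_lit 310) (nat_lit 284))))) (XT.nd (nat_lit 312) (nat_lit 608) (nat_lit 0) (XT.nd (nat_lit 156) (nat_lit 304) (nat_lit 0) (XT.nd (nat_lit 78) (nat_lit 0) (nat_lit 0) (XT.lf (nat_lit 0) (nat_lit 1899006997) (nat_lit 76) (nat_lit 3422123131) (nat_lit 152) (nat_lit 9972418183) (nat_lit 137) (nat_lit 5) (nat_lit 138) (nat_lit 5) (nat_lit 139) (nat_lit 4) (nat_lit 427) (nat_lit 310) (nat_lit 283)) (XT.lf (nat_lit 0) (nat_lit 12010219880) (nat_lit 152) (nat_lit 371600749) (nat_lit 0) (nat_lit 3160501553) (nat_lit 137) (nat_lit 5) (nat_lit 139) (nat_lit 4) (nat_lit 137) (nat_lit 4) (nat_lit 428) (nat_lit 310) (nat_lit 282))) (XT.nd (nat_lit 78) (nat_lit 76) (nat_lit 0) (XT.lf (nat_lit 0) (nat_lit 3104814082)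 (nat_lit 228) (nat_lit 2747080259) (nat_lit 76) (nat_lit 9943853217) (nat_lit 134) (nat_lit 5) (nat_lit 137) (nat_lit 5) (nat_lit 135) (nat_lit 4) (nat_lit 429) (nat_lit 310) (nat_lit 281)) (XT.lf (nat_lit 0) (nat_lit 9890357609) (nat_lit 152) (nat_lit 5249306873) (nat_lit 0) (nat_lit 915446730) (nat_lit 133) (nat_lit 5) (nat_lit 135) (nat_lit 4) (nat_lit 133) (nat_lit 4) (nat_lit 430) (nat_lit 310) (nat_lit 280)))) (XT.nd (nat_lit 156) (nat_lit 304) (nat_lit 0) (XT.nd (nat_lit 78) (nat_lit 76) (nat_lit 0) (XT.lf (nat_lit 0) (nat_lit 617968391) (nat_lit 228) (nat_lit 7903586479) (nat_lit 76) (nat_lit 7798391321) (nat_lit 130) (nat_lit 5) (nat_lit 133) (nat_lit 5) (nat_lit 131) (nat_lit 4) (nat_lit 431) (nat_lit 310) (nat_lit 279)) (XT.lf (nat_lit 0) (nat_lit 5877788124) (nat_lit 76) (nat_lit 1616629297) (nat_lit 152) (nat_lit 9096053157) (nat_lit 129) (nat_lit 5) (nat_lit 130) (nat_lit 5) (nat_lit 131)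 (nat_lit 4) (nat_lit 432) (nat_lit 310) (nat_lit 278))) (XT.nd (nat_lit 78) (nat_lit 152) (nat_lit 0) (XT.lf (nat_lit 0) (nat_lit 3192568282) (nat_lit 152) (nat_lit 11453029608) (nat_lit 152) (nat_lit 2221459669) (nat_lit 127) (nat_lit 4) (nat_lit 129) (nat_lit 5) (nat_lit 129) (nat_lit 4) (nat_lit 433) (nat_lit 310) (nat_lit 277)) (XT.lf (nat_lit 0) (nat_lit 344701076) (nat_lit 76) (nat_lit 4452835226) (nat_lit 152) (nat_lit 12352014855) (nat_lit 125) (nat_lit 5) (nat_lit 126) (nat_lit 5) (nat_lit 127) (nat_lit 4) (nat_lit 434) (nat_lit 310) (nat_lit 276)))))) (XT.nd (nat_lit 546) (nat_lit 760) (nat_lit 0) (XT.nd (nat_lit 234) (nat_lit 456) (nat_lit 0) (XT.nd (nat_lit 78) (nat_lit 304) (nat_lit 0) (XT.lf (nat_lit 0) (nat_lit 12053019622) (nat_lit 152) (nat_lit 2605767224) (nat_lit 0) (nat_lit 2778955878) (nat_lit 125) (nat_lit 5) (nat_lit 127) (nat_lit 4) (nat_lit 125) (nat_lit 4) (nat_lit 435) (nat_lit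 310) (nat_lit 275)) (XT.nd (nat_lit 78) (nat_lit 76) (nat_lit 0) (XT.lf (nat_lit 0) (nat_lit 1824415618) (nat_lit 228) (nat_lit 5719418916) (nat_lit 76) (nat_lit 10188195193) (nat_lit 122) (nat_lit 5) (nat_lit 125) (nat_lit 5) (nat_lit 123) (nat_lit 4) (nat_lit 436) (nat_lit 310) (nat_lit 274)) (XT.lf (nat_lit 0) (nat_lit 9032254323) (nat_lit 76) (nat_lit 130217784) (nat_lit 152) (nat_lit 8870447674) (nat_lit 121) (nat_lit 5) (nat_lit 122) (nat_lit 5) (nat_lit 123) (nat_lit 4) (nat_lit 437) (nat_lit 310) (nat_lit 273)))) (XT.nd (nat_lit 156) (nat_lit 152) (nat_lit 0) (XT.nd (nat_lit 78) (nat_lit 152) (nat_lit 0) (XT.lf (nat_lit 0) (nat_lit 5865154797) (nat_lit 152) (nat_lit 10950012914) (nat_lit 152) (nat_lit 1524833903) (nat_lit 119) (nat_lit 4) (nat_lit 121) (nat_lit 5) (nat_lit 121) (nat_lit 4) (nat_lit 438) (nat_lit 310) (nat_lit 272)) (XT.lf (nat_lit 0) (nat_lit 2517480589) (nat_lit 76) (nat_lit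 3430781526) (nat_lit 152) (nat_lit 12705541699) (nat_lit 117) (nat_lit 5) (nat_lit 118) (nat_lit 5) (nat_lit 119) (nat_lit 4) (nat_lit 439) (nat_lit 310) (nat_lit 271))) (XT.nd (nat_lit 78) (nat_lit 152) (nat_lit 0) (XT.lf (nat_lit 0) (nat_lit 13691464403) (nat_lit 152) (nat_lit 995176703) (nat_lit 0) (nat_lit 4287629221) (nat_lit 117) (nat_lit 5) (nat_lit 119) (nat_lit 4) (nat_lit 117) (nat_lit 4) (nat_lit 440) (nat_lit 310) (nat_lit 270)) (XT.lf (nat_lit 0) (nat_lit 2402979717) (nat_lit 152) (nat_lit 4646871031) (nat_lit 76) (nat_lit 12251224637) (nat_lit 115) (nat_lit 5) (nat_lit 117) (nat_lit 5) (nat_lit 116) (nat_lit 4) (nat_lit 441) (nat_lit 310) (nat_lit 269))))) (XT.nd (nat_lit 312) (nat_lit 456) (nat_lit 0) (XT.nd (nat_lit 156) (nat_lit 152) (nat_lit 0) (XT.nd (nat_lit 78) (nat_lit 76) (nat_lit 0) (XT.lf (nat_lit 0) (nat_lit 10249794629) (nat_lit 152) (nat_lit 8497056066) (nat_lit 0) (nat_lit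 888165702) (nat_lit 114) (nat_lit 5) (nat_lit 116) (nat_lit 4) (nat_lit 114) (nat_lit 4) (nat_lit 442) (nat_lit 310) (nat_lit 268)) (XT.lf (nat_lit 0) (nat_lit 7414031711) (nat_lit 76) (nat_lit 11017202933) (nat_lit 76) (nat_lit 1544764375) (nat_lit 113) (nat_lit 4) (nat_lit 114) (nat_lit 5) (nat_lit 114) (nat_lit 4) (nat_lit 443) (nat_lit 310) (nat_lit 267))) (XT.nd (nat_lit 78) (nat_lit 0) (nat_lit 0) (XT.lf (nat_lit 0) (nat_lit 3481843580) (nat_lit 76) (nat_lit 2952572332) (nat_lit 152) (nat_lit 13889983316) (nat_lit 111) (nat_lit 5) (nat_lit 112) (nat_lit 5) (nat_lit 113) (nat_lit 4) (nat_lit 444) (nat_lit 310) (nat_lit 266)) (XT.lf (nat_lit 0) (nat_lit 14712448521) (nat_lit 152) (nat_lit 657577310) (nat_lit 0) (nat_lit 5310051017) (nat_lit 111) (nat_lit 5) (nat_lit 113) (nat_lit 4) (nat_lit 111) (nat_lit 4) (nat_lit 445) (nat_lit 310) (nat_lit 265)))) (XT.nd (nat_lit 156) (nat_lit 228) (nat_lit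 0) (XT.nd (nat_lit 78) (nat_lit 76) (nat_lit 0) (XT.lf (nat_lit 0) (nat_lit 2248404613) (nat_lit 152) (nat_lit 4936589059) (nat_lit 76) (nat_lit 13857835219) (nat_lit 109) (nat_lit 5) (nat_lit 111) (nat_lit 5) (nat_lit 110) (nat_lit 4) (nat_lit 446) (nat_lit 310) (nat_lit 264)) (XT.lf (nat_lit 0) (nat_lit 10639361937) (nat_lit 152) (nat_lit 9451443402) (nat_lit 0) (nat_lit 1322433989) (nat_lit 108) (nat_lit 5) (nat_lit 110) (nat_lit 4) (nat_lit 108) (nat_lit 4) (nat_lit 447) (nat_lit 310) (nat_lit 263))) (XT.nd (nat_lit 78) (nat_lit 152) (nat_lit 0) (XT.lf (nat_lit 0) (nat_lit 7581700900) (nat_lit 76) (nat_lit 11808422614) (nat_lit 76) (nat_lit 2401396296) (nat_lit 107) (nat_lit 4) (nat_lit 108) (nat_lit 5) (nat_lit 108) (nat_lit 4) (nat_lit 448) (nat_lit 310) (nat_lit 262)) (XT.lf (nat_lit 0) (nat_lit 2968746046) (nat_lit 76) (nat_lit 3170784254) (nat_lit 152) (nat_lit 16038663351) (nat_lit 105) (nat_lit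 5) (nat_lit 106) (nat_lit 5) (nat_lit 107) (nat_lit 4) (nat_lit 449) (nat_lit 310) (nat_lit 261))))))) (XT.nd (nat_lit 1170) (nat_lit 1368) (nat_lit 0) (XT.nd (nat_lit 546) (nat_lit 684) (nat_lit 0) (XT.nd (nat_lit 234) (nat_lit 304) (nat_lit 0) (XT.nd (nat_lit 78) (nat_lit 228) (nat_lit 0) (XT.lf (nat_lit 0) (nat_lit 15002239949) (nat_lit 152) (nat_lit 1868274282) (nat_lit 0) (nat_lit 5701825561) (nat_lit 105) (nat_lit 5) (nat_lit 107) (nat_lit 4) (nat_lit 105) (nat_lit 4) (nat_lit 450) (nat_lit 310) (nat_lit 260)) (XT.nd (nat_lit 78) (nat_lit 76) (nat_lit 0) (XT.lf (nat_lit 0) (nat_lit 1233688050) (nat_lit 152) (nat_lit 6876078880) (nat_lit 76) (nat_lit 14865101306) (nat_lit 103) (nat_lit 5) (nat_lit 105) (nat_lit 5) (nat_lit 104) (nat_lit 4) (nat_lit 451) (nat_lit 310) (nat_lit 259)) (XT.lf (nat_lit 0) (nat_lit 10202897770) (nat_lit 152) (nat_lit 12162528802) (nat_lit 0) (nat_lit 1020193626) (nat_lit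 102) (nat_lit 5) (nat_lit 104) (nat_lit 4) (nat_lit 102) (nat_lit 4) (nat_lit 452) (nat_lit 310) (nat_lit 258)))) (XT.nd (nat_lit 156) (nat_lit 76) (nat_lit 0) (XT.nd (nat_lit 78) (nat_lit 152) (nat_lit 0) (XT.lf (nat_lit 0) (nat_lit 6072065512) (nat_lit 76) (nat_lit 13494416315) (nat_lit 76) (nat_lit 4238453951) (nat_lit 101) (nat_lit 4) (nat_lit 102) (nat_lit 5) (nat_lit 102) (nat_lit 4) (nat_lit 453) (nat_lit 310) (nat_lit 257)) (XT.lf (nat_lit 0) (nat_lit 668831029) (nat_lit 76) (nat_lit 4255266447) (nat_lit 152) (nat_lit 19309888363) (nat_lit 99) (nat_lit 5) (nat_lit 100) (nat_lit 5) (nat_lit 101) (nat_lit 4) (nat_lit 454) (nat_lit 310) (nat_lit 256))) (XT.nd (nat_lit 78) (nat_lit 76) (nat_lit 0) (XT.lf (nat_lit 0) (nat_lit 14424386863) (nat_lit 152) (nat_lit 4943899001) (nat_lit 0) (nat_lit 5301921089) (nat_lit 99) (nat_lit 5) (nat_lit 101) (nat_lit 4) (nat_lit 99) (nat_lit 4) (nat_lit 455) (nat_lit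 310) (nat_lit 255)) (XT.lf (nat_lit 0) (nat_lit 14312824796) (nat_lit 76) (nat_lit 9995640621) (nat_lit 76) (nat_lit 808085867) (nat_lit 98) (nat_lit 4) (nat_lit 99) (nat_lit 5) (nat_lit 99) (nat_lit 4) (nat_lit 456) (nat_lit 310) (nat_lit 254))))) (XT.nd (nat_lit 312) (nat_lit 304) (nat_lit 0) (XT.nd (nat_lit 156) (nat_lit 152) (nat_lit 0) (XT.nd (nat_lit 78) (nat_lit 76) (nat_lit 0) (XT.lf (nat_lit 0) (nat_lit 8594985688) (nat_lit 76) (nat_lit 196016098) (nat_lit 152) (nat_lit 16781149651) (nat_lit 96) (nat_lit 5) (nat_lit 97) (nat_lit 5) (nat_lit 98) (nat_lit 4) (nat_lit 457) (nat_lit 310) (nat_lit 253)) (XT.lf (nat_lit 0) (nat_lit 2543953132) (nat_lit 76) (nat_lit 16266816142) (nat_lit 76) (nat_lit 7225941827) (nat_lit 95) (nat_lit 4) (nat_lit 96) (nat_lit 5) (nat_lit 96) (nat_lit 4) (nat_lit 458) (nat_lit 310) (nat_lit 252))) (XT.nd (nat_lit 78) (nat_lit 76) (nat_lit 0) (XT.lf (nat_lit 0) (nat_lit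 2659161784) (nat_lit 152) (nat_lit 3700606608) (nat_lit 76) (nat_lit 20151856219) (nat_lit 94) (nat_lit 5) (nat_lit 96) (nat_lit 5) (nat_lit 95) (nat_lit 4) (nat_lit 459) (nat_lit 310) (nat_lit 251)) (XT.lf (nat_lit 0) (nat_lit 12817019022) (nat_lit 152) (nat_lit 10249163320) (nat_lit 0) (nat_lit 3928813822) (nat_lit 93) (nat_lit 5) (nat_lit 95) (nat_lit 4) (nat_lit 93) (nat_lit 4) (nat_lit 460) (nat_lit 310) (nat_lit 250)))) (XT.nd (nat_lit 156) (nat_lit 76) (nat_lit 0) (XT.nd (nat_lit 78) (nat_lit 152) (nat_lit 0) (XT.lf (nat_lit 0) (nat_lit 10372983142) (nat_lit 76) (nat_lit 13028676395) (nat_lit 76) (nat_lit 4087547898) (nat_lit 92) (nat_lit 4) (nat_lit 93) (nat_lit 5) (nat_lit 93) (nat_lit 4) (nat_lit 461) (nat_lit 310) (nat_lit 249)) (XT.lf (nat_lit 0) (nat_lit 3683083320) (nat_lit 76) (nat_lit 2561051487) (nat_lit 152) (nat_lit 21750444280) (nat_lit 90) (nat_lit 5) (nat_lit 91) (nat_lit 5) (nat_lit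 92) (nat_lit 4) (nat_lit 462) (nat_lit 310) (nat_lit 248))) (XT.nd (nat_lit 78) (nat_lit 76) (nat_lit 0) (XT.lf (nat_lit 0) (nat_lit 16978904882) (nat_lit 152) (nat_lit 3329854098) (nat_lit 0) (nat_lit 8199880006) (nat_lit 90) (nat_lit 5) (nat_lit 92) (nat_lit 4) (nat_lit 90) (nat_lit 4) (nat_lit 463) (nat_lit 310) (nat_lit 247)) (XT.lf (nat_lit 0) (nat_lit 18464776816) (nat_lit 76) (nat_lit 9697792435) (nat_lit 76) (nat_lit 871745896) (nat_lit 89) (nat_lit 4) (nat_lit 90) (nat_lit 5) (nat_lit 90) (nat_lit 4) (nat_lit 464) (nat_lit 310) (nat_lit 246)))))) (XT.nd (nat_lit 624) (nat_lit 684) (nat_lit 0) (XT.nd (nat_lit 312) (nat_lit 304) (nat_lit 0) (XT.nd (nat_lit 156) (nat_lit 152) (nat_lit 0) (XT.nd (nat_lit 78) (nat_lit 76) (nat_lit 0) (XT.lf (nat_lit 0) (nat_lit 9989646901) (nat_lit 152) (nat_lit 18204427024) (nat_lit 0) (nat_lit 1376347250) (nat_lit 87) (nat_lit 5) (nat_lit 89) (nat_lit 4) (nat_lit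 87) (nat_lit 4) (nat_lit 465) (nat_lit 310) (nat_lit 245)) (XT.lf (nat_lit 0) (nat_lit 3875266551) (nat_lit 76) (nat_lit 17449230957) (nat_lit 76) (nat_lit 8792899823) (nat_lit 86) (nat_lit 4) (nat_lit 87) (nat_lit 5) (nat_lit 87) (nat_lit 4) (nat_lit 466) (nat_lit 310) (nat_lit 244))) (XT.nd (nat_lit 78) (nat_lit 76) (nat_lit 0) (XT.lf (nat_lit 0) (nat_lit 2383120425) (nat_lit 152) (nat_lit 3860374809) (nat_lit 76) (nat_lit 24433326282) (nat_lit 85) (nat_lit 5) (nat_lit 87) (nat_lit 5) (nat_lit 86) (nat_lit 4) (nat_lit 467) (nat_lit 310) (nat_lit 243)) (XT.lf (nat_lit 0) (nat_lit 13882805450) (nat_lit 152) (nat_lit 11963998577) (nat_lit 0) (nat_lit 5398659263) (nat_lit 84) (nat_lit 5) (nat_lit 86) (nat_lit 4) (nat_lit 84) (nat_lit 4) (nat_lit 468) (nat_lit 310) (nat_lit 242)))) (XT.nd (nat_lit 156) (nat_lit 76) (nat_lit 0) (XT.nd (nat_lit 78) (nat_lit 152) (nat_lit 0) (XT.lf (nat_lit 0) (nat_lit 11379392388)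 (nat_lit 76) (nat_lit 14485021523) (nat_lit 76) (nat_lit 5962642420) (nat_lit 83) (nat_lit 4) (nat_lit 84) (nat_lit 5) (nat_lit 84) (nat_lit 4) (nat_lit 469) (nat_lit 310) (nat_lit 241)) (XT.lf (nat_lit 0) (nat_lit 3102473287) (nat_lit 76) (nat_lit 2642340370) (nat_lit 152) (nat_lit 26677270362) (nat_lit 81) (nat_lit 5) (nat_lit 82) (nat_lit 5) (nat_lit 83) (nat_lit 4) (nat_lit 470) (nat_lit 310) (nat_lit 240))) (XT.nd (nat_lit 78) (nat_lit 76) (nat_lit 0) (XT.lf (nat_lit 0) (nat_lit 17910457818) (nat_lit 152) (nat_lit 5550652785) (nat_lit 0) (nat_lit 9565276625) (nat_lit 81) (nat_lit 5) (nat_lit 83) (nat_lit 4) (nat_lit 81) (nat_lit 4) (nat_lit 471) (nat_lit 310) (nat_lit 239)) (XT.lf (nat_lit 0) (nat_lit 19135684778) (nat_lit 76) (nat_lit 11444062559) (nat_lit 76) (nat_lit 3064911916) (nat_lit 80) (nat_lit 4) (nat_lit 81) (nat_lit 5) (nat_lit 81) (nat_lit 4) (nat_lit 472) (nat_lit 310) (nat_lit 238)))))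 (XT.nd (nat_lit 312) (nat_lit 304) (nat_lit 0) (XT.nd (nat_lit 156) (nat_lit 152) (nat_lit 0) (XT.nd (nat_lit 78) (nat_lit 76) (nat_lit 0) (XT.lf (nat_lit 0) (nat_lit 9260787756) (nat_lit 152) (nat_lit 23921458715) (nat_lit 0) (nat_lit 1093670579) (nat_lit 78) (nat_lit 5) (nat_lit 80) (nat_lit 4) (nat_lit 78) (nat_lit 4) (nat_lit 473) (nat_lit 310) (nat_lit 237)) (XT.lf (nat_lit 0) (nat_lit 1072326381) (nat_lit 76) (nat_lit 21022536837) (nat_lit 76) (nat_lit 12824332801) (nat_lit 77) (nat_lit 4) (nat_lit 78) (nat_lit 5) (nat_lit 78) (nat_lit 4) (nat_lit 474) (nat_lit 310) (nat_lit 236))) (XT.nd (nat_lit 78) (nat_lit 152) (nat_lit 0) (XT.lf (nat_lit 0) (nat_lit 27164701950) (nat_lit 76) (nat_lit 8320164841) (nat_lit 76) (nat_lit 91779388) (nat_lit 77) (nat_lit 4) (nat_lit 78) (nat_lit 5) (nat_lit 78) (nat_lit 4) (nat_lit 475) (nat_lit 310) (nat_lit 235)) (XT.lf (nat_lit 0) (nat_lit 12919197995) (nat_lit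 152) (nat_lit 18424323952) (nat_lit 0) (nat_lit 4902025374) (nat_lit 75) (nat_lit 5) (nat_lit 77) (nat_lit 4) (nat_lit 75) (nat_lit 4) (nat_lit 476) (nat_lit 310) (nat_lit 234)))) (XT.nd (nat_lit 156) (nat_lit 152) (nat_lit 0) (XT.nd (nat_lit 78) (nat_lit 76) (nat_lit 0) (XT.lf (nat_lit 0) (nat_lit 8015256258) (nat_lit 76) (nat_lit 18479372898) (nat_lit 76) (nat_lit 10434580006) (nat_lit 74) (nat_lit 4) (nat_lit 75) (nat_lit 5) (nat_lit 75) (nat_lit 4) (nat_lit 477) (nat_lit 310) (nat_lit 233)) (XT.lf (nat_lit 0) (nat_lit 2907113165) (nat_lit 152) (nat_lit 2170168964) (nat_lit 76) (nat_lit 32551718609) (nat_lit 73) (nat_lit 5) (nat_lit 75) (nat_lit 5) (nat_lit 74) (nat_lit 4) (nat_lit 478) (nat_lit 310) (nat_lit 232))) (XT.nd (nat_lit 78) (nat_lit 76) (nat_lit 0) (XT.lf (nat_lit 0) (nat_lit 16705272898) (nat_lit 152) (nat_lit 12789952422) (nat_lit 0) (nat_lit 8843483145) (nat_lit 72) (nat_lit 5) (nat_lit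 74) (nat_lit 4) (nat_lit 72) (nat_lit 4) (nat_lit 479) (nat_lit 310) (nat_lit 231)) (XT.lf (nat_lit 0) (nat_lit 15185645870) (nat_lit 76) (nat_lit 15882927836) (nat_lit 76) (nat_lit 7996597830) (nat_lit 71) (nat_lit 4) (nat_lit 72) (nat_lit 5) (nat_lit 72) (nat_lit 4) (nat_lit 480) (nat_lit 310) (nat_lit 230))))))))
noncomputable def xc39 : XT := (XT.nd (nat_lit 47892) (nat_lit 0) (nat_lit 4408) (XT.nd (nat_lit 46644) (nat_lit 0) (nat_lit 8436) (XT.nd (nat_lit 546) (nat_lit 684) (nat_lit 0) (XT.nd (nat_lit 234) (nat_lit 380) (nat_lit 0) (XT.nd (nat_lit 78) (nat_lit 76) (nat_lit 0) (XT.lf (nat_lit 0) (nat_lit 4343576576) (nat_lit 76) (nat_lit 1692744641) (nat_lit 152) (nat_lit 33772212161) (nat_lit 69) (nat_lit 5) (nat_lit 70) (nat_lit 5) (nat_lit 71) (nat_lit 4) (nat_lit 481) (nat_lit 310) (nat_lit 229)) (XT.nd (nat_lit 78) (nat_lit 76) (nat_lit 0) (XT.lf (nat_lit 0) (nat_lit 20630116054) (nat_lit 152)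 (nat_lit 7004790808) (nat_lit 0) (nat_lit 12927895628) (nat_lit 69) (nat_lit 5) (nat_lit 71) (nat_lit 4) (nat_lit 69) (nat_lit 4) (nat_lit 482) (nat_lit 310) (nat_lit 228)) (XT.lf (nat_lit 0) (nat_lit 22602485259) (nat_lit 76) (nat_lit 13228086564) (nat_lit 76) (nat_lit 5504062441) (nat_lit 68) (nat_lit 4) (nat_lit 69) (nat_lit 5) (nat_lit 69) (nat_lit 4) (nat_lit 483) (nat_lit 310) (nat_lit 227)))) (XT.nd (nat_lit 156) (nat_lit 228) (nat_lit 0) (XT.nd (nat_lit 78) (nat_lit 0) (nat_lit 0) (XT.lf (nat_lit 0) (nat_lit 9305385458) (nat_lit 152) (nat_lit 31031839355) (nat_lit 0) (nat_lit 1785780835) (nat_lit 66) (nat_lit 5) (nat_lit 68) (nat_lit 4) (nat_lit 66) (nat_lit 4) (nat_lit 484) (nat_lit 310) (nat_lit 226)) (XT.lf (nat_lit 0) (nat_lit 24705348083) (nat_lit 152) (nat_lit 1054549509) (nat_lit 0) (nat_lit 17165789988) (nat_lit 66) (nat_lit 5) (nat_lit 68) (nat_lit 4) (nat_lit 66) (nat_lit 4) (nat_lit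 485) (nat_lit 310) (nat_lit 225))) (XT.nd (nat_lit 78) (nat_lit 152) (nat_lit 0) (XT.lf (nat_lit 0) (nat_lit 30285832927) (nat_lit 76) (nat_lit 10509355536) (nat_lit 76) (nat_lit 2950425139) (nat_lit 65) (nat_lit 4) (nat_lit 66) (nat_lit 5) (nat_lit 66) (nat_lit 4) (nat_lit 486) (nat_lit 310) (nat_lit 224)) (XT.lf (nat_lit 0) (nat_lit 12702172577) (nat_lit 152) (nat_lit 26533917423) (nat_lit 0) (nat_lit 5345144947) (nat_lit 63) (nat_lit 5) (nat_lit 65) (nat_lit 4) (nat_lit 63) (nat_lit 4) (nat_lit 487) (nat_lit 310) (nat_lit 223))))) (XT.nd (nat_lit 312) (nat_lit 380) (nat_lit 0) (XT.nd (nat_lit 156) (nat_lit 228) (nat_lit 0) (XT.nd (nat_lit 78) (nat_lit 0) (nat_lit 0) (XT.lf (nat_lit 0) (nat_lit 5176856992) (nat_lit 76) (nat_lit 23816055825) (nat_lit 76) (nat_lit 16441299794) (nat_lit 62) (nat_lit 4) (nat_lit 63) (nat_lit 5) (nat_lit 63) (nat_lit 4) (nat_lit 488) (nat_lit 310) (nat_lit 222)) (XT.lf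 (nat_lit 0) (nat_lit 38256876601) (nat_lit 76) (nat_lit 7720855189) (nat_lit 76) (nat_lit 328887118) (nat_lit 62) (nat_lit 4) (nat_lit 63) (nat_lit 5) (nat_lit 63) (nat_lit 4) (nat_lit 489) (nat_lit 310) (nat_lit 221))) (XT.nd (nat_lit 78) (nat_lit 76) (nat_lit 0) (XT.lf (nat_lit 0) (nat_lit 16220182668) (nat_lit 152) (nat_lit 21944911753) (nat_lit 0) (nat_lit 9027290639) (nat_lit 60) (nat_lit 5) (nat_lit 62) (nat_lit 4) (nat_lit 60) (nat_lit 4) (nat_lit 490) (nat_lit 310) (nat_lit 220)) (XT.lf (nat_lit 0) (nat_lit 11629185654) (nat_lit 76) (nat_lit 21838907485) (nat_lit 76) (nat_lit 14630264001) (nat_lit 59) (nat_lit 4) (nat_lit 60) (nat_lit 5) (nat_lit 60) (nat_lit 4) (nat_lit 491) (nat_lit 310) (nat_lit 219)))) (XT.nd (nat_lit 156) (nat_lit 228) (nat_lit 0) (XT.nd (nat_lit 78) (nat_lit 76) (nat_lit 0) (XT.lf (nat_lit 0) (nat_lit 2321425280) (nat_lit 152) (nat_lit 2511442839) (nat_lit 76) (nat_lit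 44193131461) (nat_lit 58) (nat_lit 5) (nat_lit 60) (nat_lit 5) (nat_lit 59) (nat_lit 4) (nat_lit 492) (nat_lit 310) (nat_lit 218)) (XT.lf (nat_lit 0) (nat_lit 19869650752) (nat_lit 152) (nat_lit 17254308050) (nat_lit 0) (nat_lit 12841705688) (nat_lit 57) (nat_lit 5) (nat_lit 59) (nat_lit 4) (nat_lit 57) (nat_lit 4) (nat_lit 493) (nat_lit 310) (nat_lit 217))) (XT.nd (nat_lit 78) (nat_lit 152) (nat_lit 0) (XT.lf (nat_lit 0) (nat_lit 18298537342) (nat_lit 76) (nat_lit 19835613599) (nat_lit 76) (nat_lit 12793673571) (nat_lit 56) (nat_lit 4) (nat_lit 57) (nat_lit 5) (nat_lit 57) (nat_lit 4) (nat_lit 494) (nat_lit 310) (nat_lit 216)) (XT.lf (nat_lit 0) (nat_lit 3251431328) (nat_lit 76) (nat_lit 1825888228) (nat_lit 152) (nat_lit 46835649125) (nat_lit 54) (nat_lit 5) (nat_lit 55) (nat_lit 5) (nat_lit 56) (nat_lit 4) (nat_lit 495) (nat_lit 310) (nat_lit 215)))))) (XT.nd (nat_lit 624) (nat_lit 1520) (nat_lit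 0) (XT.nd (nat_lit 312) (nat_lit 988) (nat_lit 0) (XT.nd (nat_lit 156) (nat_lit 532) (nat_lit 0) (XT.nd (nat_lit 78) (nat_lit 0) (nat_lit 0) (XT.lf (nat_lit 0) (nat_lit 69472149) (nat_lit 304) (nat_lit 4883666949) (nat_lit 0) (nat_lit 69472149) (nat_lit 205) (nat_lit 5) (nat_lit 209) (nat_lit 4) (nat_lit 205) (nat_lit 4) (nat_lit 398) (nat_lit 311) (nat_lit 311)) (XT.lf (nat_lit 0) (nat_lit 5197445040) (nat_lit 304) (nat_lit 471262340) (nat_lit 0) (nat_lit 4504840331) (nat_lit 205) (nat_lit 5) (nat_lit 209) (nat_lit 4) (nat_lit 205) (nat_lit 4) (nat_lit 399) (nat_lit 311) (nat_lit 310))) (XT.nd (nat_lit 78) (nat_lit 228) (nat_lit 0) (XT.lf (nat_lit 0) (nat_lit 75740329) (nat_lit 304) (nat_lit 1211283595) (nat_lit 76) (nat_lit 9019396787) (nat_lit 201) (nat_lit 5) (nat_lit 205) (nat_lit 5) (nat_lit 202) (nat_lit 4) (nat_lit 400) (nat_lit 311) (nat_lit 309)) (XT.lf (nat_lit 0) (nat_lit 5185688174) (nat_lit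 304) (nat_lit 2029338119) (nat_lit 0) (nat_lit 3226578630) (nat_lit 198) (nat_lit 5) (nat_lit 202) (nat_lit 4) (nat_lit 198) (nat_lit 4) (nat_lit 401) (nat_lit 311) (nat_lit 308)))) (XT.nd (nat_lit 156) (nat_lit 456) (nat_lit 0) (XT.nd (nat_lit 78) (nat_lit 304) (nat_lit 0) (XT.lf (nat_lit 0) (nat_lit 7720231632) (nat_lit 228) (nat_lit 2717711316) (nat_lit 228) (nat_lit 143231458) (nat_lit 195) (nat_lit 4) (nat_lit 198) (nat_lit 5) (nat_lit 198) (nat_lit 4) (nat_lit 402) (nat_lit 311) (nat_lit 307)) (XT.lf (nat_lit 0) (nat_lit 5019739387) (nat_lit 304) (nat_lit 3763609333) (nat_lit 0) (nat_lit 1940198840) (nat_lit 191) (nat_lit 5) (nat_lit 195) (nat_lit 4) (nat_lit 191) (nat_lit 4) (nat_lit 403) (nat_lit 311) (nat_lit 306))) (XT.nd (nat_lit 78) (nat_lit 228) (nat_lit 0) (XT.lf (nat_lit 0) (nat_lit 6169055597) (nat_lit 228) (nat_lit 4171800627) (nat_lit 228) (nat_lit 529109070) (nat_lit 188) (nat_lit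 4) (nat_lit 191) (nat_lit 5) (nat_lit 191) (nat_lit 4) (nat_lit 404) (nat_lit 311) (nat_lit 305)) (XT.lf (nat_lit 0) (nat_lit 4693958770) (nat_lit 228) (nat_lit 5699286869) (nat_lit 0) (nat_lit 626541188) (nat_lit 185) (nat_lit 5) (nat_lit 188) (nat_lit 4) (nat_lit 185) (nat_lit 4) (nat_lit 405) (nat_lit 311) (nat_lit 304))))) (XT.nd (nat_lit 312) (nat_lit 608) (nat_lit 0) (XT.nd (nat_lit 156) (nat_lit 456) (nat_lit 0) (XT.nd (nat_lit 78) (nat_lit 228) (nat_lit 0) (XT.lf (nat_lit 0) (nat_lit 4416974301) (nat_lit 228) (nat_lit 5669524812) (nat_lit 228) (nat_lit 1086744281) (nat_lit 182) (nat_lit 4) (nat_lit 185) (nat_lit 5) (nat_lit 185) (nat_lit 4) (nat_lit 406) (nat_lit 311) (nat_lit 303)) (XT.lf (nat_lit 0) (nat_lit 3460770756) (nat_lit 152) (nat_lit 748048783) (nat_lit 228) (nat_lit 7121739299) (nat_lit 179) (nat_lit 5) (nat_lit 181) (nat_lit 5) (nat_lit 182) (nat_lit 4) (nat_lit 407) (nat_lit 311)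 (nat_lit 302))) (XT.nd (nat_lit 78) (nat_lit 228) (nat_lit 0) (XT.lf (nat_lit 0) (nat_lit 2437545730) (nat_lit 228) (nat_lit 7230321025) (nat_lit 228) (nat_lit 1823610426) (nat_lit 176) (nat_lit 4) (nat_lit 179) (nat_lit 5) (nat_lit 179) (nat_lit 4) (nat_lit 408) (nat_lit 311) (nat_lit 301)) (XT.lf (nat_lit 0) (nat_lit 1354295131) (nat_lit 152) (nat_lit 2201812768) (nat_lit 228) (nat_lit 8100260939) (nat_lit 173) (nat_lit 5) (nat_lit 175) (nat_lit 5) (nat_lit 176) (nat_lit 4) (nat_lit 409) (nat_lit 311) (nat_lit 300)))) (XT.nd (nat_lit 156) (nat_lit 380) (nat_lit 0) (XT.nd (nat_lit 78) (nat_lit 76) (nat_lit 0) (XT.lf (nat_lit 0) (nat_lit 203158808) (nat_lit 152) (nat_lit 8873708133) (nat_lit 152) (nat_lit 2748309578) (nat_lit 171) (nat_lit 4) (nat_lit 173) (nat_lit 5) (nat_lit 173) (nat_lit 4) (nat_lit 410) (nat_lit 311) (nat_lit 299)) (XT.lf (nat_lit 0) (nat_lit 2730769198) (nat_lit 228) (nat_lit 1000974322)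 (nat_lit 76) (nat_lit 8265892524) (nat_lit 170) (nat_lit 5) (nat_lit 173) (nat_lit 5) (nat_lit 171) (nat_lit 4) (nat_lit 411) (nat_lit 311) (nat_lit 298))) (XT.nd (nat_lit 78) (nat_lit 228) (nat_lit 0) (XT.lf (nat_lit 0) (nat_lit 8326554720) (nat_lit 228) (nat_lit 2269920354) (nat_lit 0) (nat_lit 1577750772) (nat_lit 168) (nat_lit 5) (nat_lit 171) (nat_lit 4) (nat_lit 168) (nat_lit 4) (nat_lit 412) (nat_lit 311) (nat_lit 297)) (XT.lf (nat_lit 0) (nat_lit 1729023201) (nat_lit 228) (nat_lit 3622365283) (nat_lit 76) (nat_lit 7003361941) (nat_lit 165) (nat_lit 5) (nat_lit 168) (nat_lit 5) (nat_lit 166) (nat_lit 4) (nat_lit 413) (nat_lit 311) (nat_lit 296))))))) (XT.nd (nat_lit 1170) (nat_lit 1900) (nat_lit 0) (XT.nd (nat_lit 546) (nat_lit 988) (nat_lit 0) (XT.nd (nat_lit 234) (nat_lit 608) (nat_lit 0) (XT.nd (nat_lit 78) (nat_lit 380) (nat_lit 0) (XT.lf (nat_lit 0) (nat_lit 7389318238) (nat_lit 228) (nat_lit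 5047113571) (nat_lit 0) (nat_lit 103307032) (nat_lit 163) (nat_lit 5) (nat_lit 166) (nat_lit 4) (nat_lit 163) (nat_lit 4) (nat_lit 414) (nat_lit 311) (nat_lit 295)) (XT.nd (nat_lit 78) (nat_lit 152) (nat_lit 0) (XT.lf (nat_lit 0) (nat_lit 527142658) (nat_lit 228) (nat_lit 6566848700) (nat_lit 76) (nat_lit 5634718220) (nat_lit 160) (nat_lit 5) (nat_lit 163) (nat_lit 5) (nat_lit 161) (nat_lit 4) (nat_lit 415) (nat_lit 311) (nat_lit 294)) (XT.lf (nat_lit 0) (nat_lit 4743651688) (nat_lit 152) (nat_lit 1523006246) (nat_lit 228) (nat_lit 6655307371) (nat_lit 158) (nat_lit 5) (nat_lit 160) (nat_lit 5) (nat_lit 161) (nat_lit 4) (nat_lit 416) (nat_lit 311) (nat_lit 293)))) (XT.nd (nat_lit 156) (nat_lit 228) (nat_lit 0) (XT.nd (nat_lit 78) (nat_lit 228) (nat_lit 0) (XT.lf (nat_lit 0) (nat_lit 3244638281) (nat_lit 152) (nat_lit 8970864021) (nat_lit 152) (nat_lit 904402093) (nat_lit 156) (nat_lit 4) (nat_lit 158)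 (nat_lit 5) (nat_lit 158) (nat_lit 4) (nat_lit 417) (nat_lit 311) (nat_lit 292)) (XT.lf (nat_lit 0) (nat_lit 1637695174) (nat_lit 152) (nat_lit 3296275348) (nat_lit 228) (nat_lit 8387977370) (nat_lit 153) (nat_lit 5) (nat_lit 155) (nat_lit 5) (nat_lit 156) (nat_lit 4) (nat_lit 418) (nat_lit 311) (nat_lit 291))) (XT.nd (nat_lit 78) (nat_lit 228) (nat_lit 0) (XT.lf (nat_lit 0) (nat_lit 10953538009) (nat_lit 228) (nat_lit 50123544) (nat_lit 0) (nat_lit 2525395868) (nat_lit 153) (nat_lit 5) (nat_lit 156) (nat_lit 4) (nat_lit 153) (nat_lit 4) (nat_lit 419) (nat_lit 311) (nat_lit 290)) (XT.lf (nat_lit 0) (nat_lit 3394717430) (nat_lit 228) (nat_lit 1822209727) (nat_lit 76) (nat_lit 8522970167) (nat_lit 150) (nat_lit 5) (nat_lit 153) (nat_lit 5) (nat_lit 151) (nat_lit 4) (nat_lit 420) (nat_lit 311) (nat_lit 289))))) (XT.nd (nat_lit 312) (nat_lit 456) (nat_lit 0) (XT.nd (nat_lit 156) (nat_lit 228) (nat_lit 0)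 (XT.nd (nat_lit 78) (nat_lit 228) (nat_lit 0) (XT.lf (nat_lit 0) (nat_lit 9501340894) (nat_lit 152) (nat_lit 3682003594) (nat_lit 0) (nat_lit 772681582) (nat_lit 149) (nat_lit 5) (nat_lit 151) (nat_lit 4) (nat_lit 149) (nat_lit 4) (nat_lit 421) (nat_lit 311) (nat_lit 288)) (XT.lf (nat_lit 0) (nat_lit 1636223049) (nat_lit 228) (nat_lit 5668256674) (nat_lit 76) (nat_lit 6872038994) (nat_lit 146) (nat_lit 5) (nat_lit 149) (nat_lit 5) (nat_lit 147) (nat_lit 4) (nat_lit 422) (nat_lit 311) (nat_lit 287))) (XT.nd (nat_lit 78) (nat_lit 152) (nat_lit 0) (XT.lf (nat_lit 0) (nat_lit 6640007943) (nat_lit 76) (nat_lit 1184288524) (nat_lit 152) (nat_lit 6577887321) (nat_lit 145) (nat_lit 5) (nat_lit 146) (nat_lit 5) (nat_lit 147) (nat_lit 4) (nat_lit 423) (nat_lit 311) (nat_lit 286)) (XT.lf (nat_lit 0) (nat_lit 4659371584) (nat_lit 152) (nat_lit 9593334324) (nat_lit 152) (nat_lit 380272089) (nat_lit 143) (nat_lit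 4) (nat_lit 145) (nat_lit 5) (nat_lit 145) (nat_lit 4) (nat_lit 424) (nat_lit 311) (nat_lit 285)))) (XT.nd (nat_lit 156) (nat_lit 152) (nat_lit 0) (XT.nd (nat_lit 78) (nat_lit 152) (nat_lit 0) (XT.lf (nat_lit 0) (nat_lit 2540989515) (nat_lit 76) (nat_lit 3363474774) (nat_lit 152) (nat_lit 8963950385) (nat_lit 141) (nat_lit 5) (nat_lit 142) (nat_lit 5) (nat_lit 143) (nat_lit 4) (nat_lit 425) (nat_lit 311) (nat_lit 284)) (XT.lf (nat_lit 0) (nat_lit 316655188) (nat_lit 152) (nat_lit 12090845231) (nat_lit 152) (nat_lit 2702179058) (nat_lit 139) (nat_lit 4) (nat_lit 141) (nat_lit 5) (nat_lit 141) (nat_lit 4) (nat_lit 426) (nat_lit 311) (nat_lit 283))) (XT.nd (nat_lit 78) (nat_lit 76) (nat_lit 0) (XT.lf (nat_lit 0) (nat_lit 3736760162) (nat_lit 228) (nat_lit 2015365754) (nat_lit 76) (nat_lit 9603102398) (nat_lit 138) (nat_lit 5) (nat_lit 141) (nat_lit 5) (nat_lit 139) (nat_lit 4) (nat_lit 427) (nat_lit 311)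 (nat_lit 282)) (XT.lf (nat_lit 0) (nat_lit 10336044605) (nat_lit 152) (nat_lit 4456090086) (nat_lit 0) (nat_lit 814561653) (nat_lit 137) (nat_lit 5) (nat_lit 139) (nat_lit 4) (nat_lit 137) (nat_lit 4) (nat_lit 428) (nat_lit 311) (nat_lit 281)))))) (XT.nd (nat_lit 624) (nat_lit 836) (nat_lit 0) (XT.nd (nat_lit 312) (nat_lit 456) (nat_lit 0) (XT.nd (nat_lit 156) (nat_lit 304) (nat_lit 0) (XT.nd (nat_lit 78) (nat_lit 76) (nat_lit 0) (XT.lf (nat_lit 0) (nat_lit 1312353452) (nat_lit 228) (nat_lit 7051710801) (nat_lit 76) (nat_lit 7499193923) (nat_lit 134) (nat_lit 5) (nat_lit 137) (nat_lit 5) (nat_lit 135) (nat_lit 4) (nat_lit 429) (nat_lit 311) (nat_lit 280)) (XT.lf (nat_lit 0) (nat_lit 6335248700) (nat_lit 76) (nat_lit 1664595136) (nat_lit 152) (nat_lit 8125719589) (nat_lit 133) (nat_lit 5) (nat_lit 134) (nat_lit 5) (nat_lit 135) (nat_lit 4) (nat_lit 430) (nat_lit 311) (nat_lit 279))) (XT.nd (nat_lit 78)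 (nat_lit 152) (nat_lit 0) (XT.lf (nat_lit 0) (nat_lit 3717928650) (nat_lit 152) (nat_lit 11234819033) (nat_lit 152) (nat_lit 1441046485) (nat_lit 131) (nat_lit 4) (nat_lit 133) (nat_lit 5) (nat_lit 133) (nat_lit 4) (nat_lit 431) (nat_lit 311) (nat_lit 278)) (XT.lf (nat_lit 0) (nat_lit 934998903) (nat_lit 76) (nat_lit 4435153434) (nat_lit 152) (nat_lit 11297382893) (nat_lit 129) (nat_lit 5) (nat_lit 130) (nat_lit 5) (nat_lit 131) (nat_lit 4) (nat_lit 432) (nat_lit 311) (nat_lit 277)))) (XT.nd (nat_lit 156) (nat_lit 228) (nat_lit 0) (XT.nd (nat_lit 78) (nat_lit 228) (nat_lit 0) (XT.lf (nat_lit 0) (nat_lit 12417791528) (nat_lit 152) (nat_lit 1950499618) (nat_lit 0) (nat_lit 2578937303) (nat_lit 129) (nat_lit 5) (nat_lit 131) (nat_lit 4) (nat_lit 129) (nat_lit 4) (nat_lit 433) (nat_lit 311) (nat_lit 276)) (XT.lf (nat_lit 0) (nat_lit 2466258590) (nat_lit 228) (nat_lit 4990337323) (nat_lit 76) (nat_lit 9775841825)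 (nat_lit 126) (nat_lit 5) (nat_lit 129) (nat_lit 5) (nat_lit 127) (nat_lit 4) (nat_lit 434) (nat_lit 311) (nat_lit 275))) (XT.nd (nat_lit 78) (nat_lit 152) (nat_lit 0) (XT.lf (nat_lit 0) (nat_lit 9338489072) (nat_lit 76) (nat_lit 261864513) (nat_lit 152) (nat_lit 7923917371) (nat_lit 125) (nat_lit 5) (nat_lit 126) (nat_lit 5) (nat_lit 127) (nat_lit 4) (nat_lit 435) (nat_lit 311) (nat_lit 274)) (XT.lf (nat_lit 0) (nat_lit 6255251789) (nat_lit 152) (nat_lit 10783042553) (nat_lit 152) (nat_lit 783870140) (nat_lit 123) (nat_lit 4) (nat_lit 125) (nat_lit 5) (nat_lit 125) (nat_lit 4) (nat_lit 436) (nat_lit 311) (nat_lit 273))))) (XT.nd (nat_lit 312) (nat_lit 380) (nat_lit 0) (XT.nd (nat_lit 156) (nat_lit 304) (nat_lit 0) (XT.nd (nat_lit 78) (nat_lit 0) (nat_lit 0) (XT.lf (nat_lit 0) (nat_lit 2988744982) (nat_lit 76) (nat_lit 3478391825) (nat_lit 152) (nat_lit 11659214150) (nat_lit 121) (nat_lit 5) (nat_lit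 122) (nat_lit 5) (nat_lit 123) (nat_lit 4) (nat_lit 437) (nat_lit 311) (nat_lit 272)) (XT.lf (nat_lit 0) (nat_lit 13987096277) (nat_lit 152) (nat_lit 439751065) (nat_lit 0) (nat_lit 4010567532) (nat_lit 121) (nat_lit 5) (nat_lit 123) (nat_lit 4) (nat_lit 121) (nat_lit 4) (nat_lit 438) (nat_lit 311) (nat_lit 271))) (XT.nd (nat_lit 78) (nat_lit 76) (nat_lit 0) (XT.lf (nat_lit 0) (nat_lit 3007176803) (nat_lit 228) (nat_lit 4000418565) (nat_lit 76) (nat_lit 11746645973) (nat_lit 118) (nat_lit 5) (nat_lit 121) (nat_lit 5) (nat_lit 119) (nat_lit 4) (nat_lit 439) (nat_lit 311) (nat_lit 270)) (XT.lf (nat_lit 0) (nat_lit 10632327648) (nat_lit 152) (nat_lit 7745346230) (nat_lit 0) (nat_lit 700575520) (nat_lit 117) (nat_lit 5) (nat_lit 119) (nat_lit 4) (nat_lit 117) (nat_lit 4) (nat_lit 440) (nat_lit 311) (nat_lit 269)))) (XT.nd (nat_lit 156) (nat_lit 152) (nat_lit 0) (XT.nd (nat_lit 78) (nat_lit 152) (nat_lit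 0) (XT.lf (nat_lit 0) (nat_lit 7708988970) (nat_lit 76) (nat_lit 10874687741) (nat_lit 76) (nat_lit 825377675) (nat_lit 116) (nat_lit 4) (nat_lit 117) (nat_lit 5) (nat_lit 117) (nat_lit 4) (nat_lit 441) (nat_lit 311) (nat_lit 268)) (XT.lf (nat_lit 0) (nat_lit 3876450010) (nat_lit 76) (nat_lit 3039753928) (nat_lit 152) (nat_lit 12830669663) (nat_lit 114) (nat_lit 5) (nat_lit 115) (nat_lit 5) (nat_lit 116) (nat_lit 4) (nat_lit 442) (nat_lit 311) (nat_lit 267))) (XT.nd (nat_lit 78) (nat_lit 152) (nat_lit 0) (XT.lf (nat_lit 0) (nat_lit 14954477051) (nat_lit 152) (nat_lit 158200640) (nat_lit 0) (nat_lit 4979473540) (nat_lit 114) (nat_lit 5) (nat_lit 116) (nat_lit 4) (nat_lit 114) (nat_lit 4) (nat_lit 443) (nat_lit 311) (nat_lit 266)) (XT.lf (nat_lit 0) (nat_lit 2833933070) (nat_lit 152) (nat_lit 4326568083) (nat_lit 76) (nat_lit 13283416914) (nat_lit 112) (nat_lit 5) (nat_lit 114) (nat_lit 5) (nat_lit 113)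 (nat_lit 4) (nat_lit 444) (nat_lit 311) (nat_lit 265))))))))
noncomputable def xc40 : XT := (XT.nd (nat_lit 2340) (nat_lit 1672) (nat_lit 0) (XT.nd (nat_lit 1170) (nat_lit 1292) (nat_lit 0) (XT.nd (nat_lit 546) (nat_lit 684) (nat_lit 0) (XT.nd (nat_lit 234) (nat_lit 304) (nat_lit 0) (XT.nd (nat_lit 78) (nat_lit 228) (nat_lit 0) (XT.lf (nat_lit 0) (nat_lit 10986090852) (nat_lit 152) (nat_lit 8715519088) (nat_lit 0) (nat_lit 1101761992) (nat_lit 111) (nat_lit 5) (nat_lit 113) (nat_lit 4) (nat_lit 111) (nat_lit 4) (nat_lit 445) (nat_lit 311) (nat_lit 264)) (XT.nd (nat_lit 78) (nat_lit 152) (nat_lit 0) (XT.lf (nat_lit 0) (nat_lit 7827951600) (nat_lit 76) (nat_lit 11661191077) (nat_lit 76) (nat_lit 1681276856) (nat_lit 110) (nat_lit 4) (nat_lit 111) (nat_lit 5) (nat_lit 111) (nat_lit 4) (nat_lit 446) (nat_lit 311) (nat_lit 263)) (XT.lf (nat_lit 0) (nat_lit 3335750471) (nat_lit 76) (nat_lit 3269405200) (nat_lit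 152) (nat_lit 14940279119) (nat_lit 108) (nat_lit 5) (nat_lit 109) (nat_lit 5) (nat_lit 110) (nat_lit 4) (nat_lit 447) (nat_lit 311) (nat_lit 262)))) (XT.nd (nat_lit 156) (nat_lit 152) (nat_lit 0) (XT.nd (nat_lit 78) (nat_lit 152) (nat_lit 0) (XT.lf (nat_lit 0) (nat_lit 15210342194) (nat_lit 152) (nat_lit 1374207761) (nat_lit 0) (nat_lit 5343532570) (nat_lit 108) (nat_lit 5) (nat_lit 110) (nat_lit 4) (nat_lit 108) (nat_lit 4) (nat_lit 448) (nat_lit 311) (nat_lit 261)) (XT.lf (nat_lit 0) (nat_lit 1824027902) (nat_lit 152) (nat_lit 6248959336) (nat_lit 76) (nat_lit 14245515441) (nat_lit 106) (nat_lit 5) (nat_lit 108) (nat_lit 5) (nat_lit 107) (nat_lit 4) (nat_lit 449) (nat_lit 311) (nat_lit 260))) (XT.nd (nat_lit 78) (nat_lit 76) (nat_lit 0) (XT.lf (nat_lit 0) (nat_lit 10536549601) (nat_lit 152) (nat_lit 11385986084) (nat_lit 0) (nat_lit 794618774) (nat_lit 105) (nat_lit 5) (nat_lit 107) (nat_lit 4) (nat_lit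 105) (nat_lit 4) (nat_lit 450) (nat_lit 311) (nat_lit 259)) (XT.lf (nat_lit 0) (nat_lit 6323688087) (nat_lit 76) (nat_lit 13310015243) (nat_lit 76) (nat_lit 3490364771) (nat_lit 104) (nat_lit 4) (nat_lit 105) (nat_lit 5) (nat_lit 105) (nat_lit 4) (nat_lit 451) (nat_lit 311) (nat_lit 258))))) (XT.nd (nat_lit 312) (nat_lit 304) (nat_lit 0) (XT.nd (nat_lit 156) (nat_lit 228) (nat_lit 0) (XT.nd (nat_lit 78) (nat_lit 0) (nat_lit 0) (XT.lf (nat_lit 0) (nat_lit 1065349399) (nat_lit 76) (nat_lit 4333889929) (nat_lit 152) (nat_lit 18141018736) (nat_lit 102) (nat_lit 5) (nat_lit 103) (nat_lit 5) (nat_lit 104) (nat_lit 4) (nat_lit 452) (nat_lit 311) (nat_lit 257)) (XT.lf (nat_lit 0) (nat_lit 14622866011) (nat_lit 152) (nat_lit 4396064283) (nat_lit 0) (nat_lit 4944842071) (nat_lit 102) (nat_lit 5) (nat_lit 104) (nat_lit 4) (nat_lit 102) (nat_lit 4) (nat_lit 453) (nat_lit 311) (nat_lit 256))) (XT.nd (nat_lit 78)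 (nat_lit 152) (nat_lit 0) (XT.lf (nat_lit 0) (nat_lit 14305848837) (nat_lit 76) (nat_lit 9919084077) (nat_lit 76) (nat_lit 172007238) (nat_lit 101) (nat_lit 4) (nat_lit 102) (nat_lit 5) (nat_lit 102) (nat_lit 4) (nat_lit 454) (nat_lit 311) (nat_lit 255)) (XT.lf (nat_lit 0) (nat_lit 8742609826) (nat_lit 76) (nat_lit 398635648) (nat_lit 152) (nat_lit 15697677189) (nat_lit 99) (nat_lit 5) (nat_lit 100) (nat_lit 5) (nat_lit 101) (nat_lit 4) (nat_lit 455) (nat_lit 311) (nat_lit 254)))) (XT.nd (nat_lit 156) (nat_lit 152) (nat_lit 0) (XT.nd (nat_lit 78) (nat_lit 76) (nat_lit 0) (XT.lf (nat_lit 0) (nat_lit 2864156758) (nat_lit 76) (nat_lit 16008575771) (nat_lit 76) (nat_lit 6417112210) (nat_lit 98) (nat_lit 4) (nat_lit 99) (nat_lit 5) (nat_lit 99) (nat_lit 4) (nat_lit 456) (nat_lit 311) (nat_lit 253)) (XT.lf (nat_lit 0) (nat_lit 3170117744) (nat_lit 152) (nat_lit 3217477146) (nat_lit 76) (nat_lit 19363106825)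 (nat_lit 97) (nat_lit 5) (nat_lit 99) (nat_lit 5) (nat_lit 98) (nat_lit 4) (nat_lit 457) (nat_lit 311) (nat_lit 252))) (XT.nd (nat_lit 78) (nat_lit 76) (nat_lit 0) (XT.lf (nat_lit 0) (nat_lit 13035402871) (nat_lit 152) (nat_lit 9578587005) (nat_lit 0) (nat_lit 3605905974) (nat_lit 96) (nat_lit 5) (nat_lit 98) (nat_lit 4) (nat_lit 96) (nat_lit 4) (nat_lit 458) (nat_lit 311) (nat_lit 251)) (XT.lf (nat_lit 0) (nat_lit 10448715347) (nat_lit 76) (nat_lit 12868242177) (nat_lit 76) (nat_lit 3382598955) (nat_lit 95) (nat_lit 4) (nat_lit 96) (nat_lit 5) (nat_lit 96) (nat_lit 4) (nat_lit 459) (nat_lit 311) (nat_lit 250)))))) (XT.nd (nat_lit 546) (nat_lit 684) (nat_lit 0) (XT.nd (nat_lit 234) (nat_lit 380) (nat_lit 0) (XT.nd (nat_lit 78) (nat_lit 76) (nat_lit 0) (XT.lf (nat_lit 0) (nat_lit 3942661405) (nat_lit 76) (nat_lit 2699119689) (nat_lit 152) (nat_lit 20548106921) (nat_lit 93) (nat_lit 5) (nat_lit 94) (nat_lit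 5) (nat_lit 95) (nat_lit 4) (nat_lit 460) (nat_lit 311) (nat_lit 249)) (XT.nd (nat_lit 78) (nat_lit 76) (nat_lit 0) (XT.lf (nat_lit 0) (nat_lit 17063282730) (nat_lit 152) (nat_lit 2876095485) (nat_lit 0) (nat_lit 7749615240) (nat_lit 93) (nat_lit 5) (nat_lit 95) (nat_lit 4) (nat_lit 93) (nat_lit 4) (nat_lit 461) (nat_lit 311) (nat_lit 248)) (XT.lf (nat_lit 0) (nat_lit 18289415932) (nat_lit 76) (nat_lit 9636674533) (nat_lit 76) (nat_lit 273121759) (nat_lit 92) (nat_lit 4) (nat_lit 93) (nat_lit 5) (nat_lit 93) (nat_lit 4) (nat_lit 462) (nat_lit 311) (nat_lit 247)))) (XT.nd (nat_lit 156) (nat_lit 152) (nat_lit 0) (XT.nd (nat_lit 78) (nat_lit 76) (nat_lit 0) (XT.lf (nat_lit 0) (nat_lit 10263407230) (nat_lit 152) (nat_lit 17330493146) (nat_lit 0) (nat_lit 1125557631) (nat_lit 90) (nat_lit 5) (nat_lit 92) (nat_lit 4) (nat_lit 90) (nat_lit 4) (nat_lit 463) (nat_lit 311) (nat_lit 246)) (XT.lf (nat_lit 0) (nat_lit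 4111639037) (nat_lit 76) (nat_lit 17161113206) (nat_lit 76) (nat_lit 7977611506) (nat_lit 89) (nat_lit 4) (nat_lit 90) (nat_lit 5) (nat_lit 90) (nat_lit 4) (nat_lit 464) (nat_lit 311) (nat_lit 245))) (XT.nd (nat_lit 78) (nat_lit 76) (nat_lit 0) (XT.lf (nat_lit 0) (nat_lit 2863223183) (nat_lit 152) (nat_lit 3415481064) (nat_lit 76) (nat_lit 23514591281) (nat_lit 88) (nat_lit 5) (nat_lit 90) (nat_lit 5) (nat_lit 89) (nat_lit 4) (nat_lit 465) (nat_lit 311) (nat_lit 244)) (XT.lf (nat_lit 0) (nat_lit 14030341109) (nat_lit 152) (nat_lit 11285452139) (nat_lit 0) (nat_lit 5029510419) (nat_lit 87) (nat_lit 5) (nat_lit 89) (nat_lit 4) (nat_lit 87) (nat_lit 4) (nat_lit 466) (nat_lit 311) (nat_lit 243))))) (XT.nd (nat_lit 312) (nat_lit 380) (nat_lit 0) (XT.nd (nat_lit 156) (nat_lit 76) (nat_lit 0) (XT.nd (nat_lit 78) (nat_lit 152) (nat_lit 0) (XT.lf (nat_lit 0) (nat_lit 11383444914) (nat_lit 76) (nat_lit 14283886677)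 (nat_lit 76) (nat_lit 5242494686) (nat_lit 86) (nat_lit 4) (nat_lit 87) (nat_lit 5) (nat_lit 87) (nat_lit 4) (nat_lit 467) (nat_lit 311) (nat_lit 242)) (XT.lf (nat_lit 0) (nat_lit 3337829540) (nat_lit 76) (nat_lit 2779708112) (nat_lit 152) (nat_lit 25369700801) (nat_lit 84) (nat_lit 5) (nat_lit 85) (nat_lit 5) (nat_lit 86) (nat_lit 4) (nat_lit 468) (nat_lit 311) (nat_lit 241))) (XT.nd (nat_lit 78) (nat_lit 76) (nat_lit 0) (XT.lf (nat_lit 0) (nat_lit 17927821966) (nat_lit 152) (nat_lit 5071730015) (nat_lit 0) (nat_lit 9074419238) (nat_lit 84) (nat_lit 5) (nat_lit 86) (nat_lit 4) (nat_lit 84) (nat_lit 4) (nat_lit 469) (nat_lit 311) (nat_lit 240)) (XT.lf (nat_lit 0) (nat_lit 18900872595) (nat_lit 76) (nat_lit 11331340175) (nat_lit 76) (nat_lit 2441899257) (nat_lit 83) (nat_lit 4) (nat_lit 84) (nat_lit 5) (nat_lit 84) (nat_lit 4) (nat_lit 470) (nat_lit 311) (nat_lit 239)))) (XT.nd (nat_lit 156) (nat_lit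 152) (nat_lit 0) (XT.nd (nat_lit 78) (nat_lit 76) (nat_lit 0) (XT.lf (nat_lit 0) (nat_lit 9516315439) (nat_lit 152) (nat_lit 22918635555) (nat_lit 0) (nat_lit 851820825) (nat_lit 81) (nat_lit 5) (nat_lit 83) (nat_lit 4) (nat_lit 81) (nat_lit 4) (nat_lit 471) (nat_lit 311) (nat_lit 238)) (XT.lf (nat_lit 0) (nat_lit 1352324819) (nat_lit 76) (nat_lit 20628173444) (nat_lit 76) (nat_lit 11930698782) (nat_lit 80) (nat_lit 4) (nat_lit 81) (nat_lit 5) (nat_lit 81) (nat_lit 4) (nat_lit 472) (nat_lit 311) (nat_lit 237))) (XT.nd (nat_lit 78) (nat_lit 76) (nat_lit 0) (XT.lf (nat_lit 0) (nat_lit 423489867) (nat_lit 152) (nat_lit 7869809696) (nat_lit 76) (nat_lit 26256047414) (nat_lit 79) (nat_lit 5) (nat_lit 81) (nat_lit 5) (nat_lit 80) (nat_lit 4) (nat_lit 473) (nat_lit 311) (nat_lit 236)) (XT.lf (nat_lit 0) (nat_lit 13055483844) (nat_lit 152) (nat_lit 17593139134) (nat_lit 0) (nat_lit 4550065411) (nat_lit 78)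 (nat_lit 5) (nat_lit 80) (nat_lit 4) (nat_lit 78) (nat_lit 4) (nat_lit 474) (nat_lit 311) (nat_lit 235))))))) (XT.nd (nat_lit 1170) (nat_lit 456) (nat_lit 0) (XT.nd (nat_lit 546) (nat_lit 684) (nat_lit 0) (XT.nd (nat_lit 234) (nat_lit 304) (nat_lit 0) (XT.nd (nat_lit 78) (nat_lit 152) (nat_lit 0) (XT.lf (nat_lit 0) (nat_lit 8081381442) (nat_lit 76) (nat_lit 18157833037) (nat_lit 76) (nat_lit 9623112258) (nat_lit 77) (nat_lit 4) (nat_lit 78) (nat_lit 5) (nat_lit 78) (nat_lit 4) (nat_lit 475) (nat_lit 311) (nat_lit 234)) (XT.nd (nat_lit 78) (nat_lit 76) (nat_lit 0) (XT.lf (nat_lit 0) (nat_lit 3320880560) (nat_lit 152) (nat_lit 1821782120) (nat_lit 76) (nat_lit 31398903085) (nat_lit 76) (nat_lit 5) (nat_lit 78) (nat_lit 5) (nat_lit 77) (nat_lit 4) (nat_lit 476) (nat_lit 311) (nat_lit 233)) (XT.lf (nat_lit 0) (nat_lit 16718676685) (nat_lit 152) (nat_lit 12133776036) (nat_lit 0) (nat_lit 8378103937) (nat_lit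 75) (nat_lit 5) (nat_lit 77) (nat_lit 4) (nat_lit 75) (nat_lit 4) (nat_lit 477) (nat_lit 311) (nat_lit 232)))) (XT.nd (nat_lit 156) (nat_lit 76) (nat_lit 0) (XT.nd (nat_lit 78) (nat_lit 152) (nat_lit 0) (XT.lf (nat_lit 0) (nat_lit 15031900623) (nat_lit 76) (nat_lit 15635231202) (nat_lit 76) (nat_lit 7268623698) (nat_lit 74) (nat_lit 4) (nat_lit 75) (nat_lit 5) (nat_lit 75) (nat_lit 4) (nat_lit 478) (nat_lit 311) (nat_lit 231)) (XT.lf (nat_lit 0) (nat_lit 4497215237) (nat_lit 76) (nat_lit 1852094714) (nat_lit 152) (nat_lit 32307911307) (nat_lit 72) (nat_lit 5) (nat_lit 73) (nat_lit 5) (nat_lit 74) (nat_lit 4) (nat_lit 479) (nat_lit 311) (nat_lit 230))) (XT.nd (nat_lit 78) (nat_lit 76) (nat_lit 0) (XT.lf (nat_lit 0) (nat_lit 20516704357) (nat_lit 152) (nat_lit 6527438455) (nat_lit 0) (nat_lit 12345418708) (nat_lit 72) (nat_lit 5) (nat_lit 74) (nat_lit 4) (nat_lit 72) (nat_lit 4) (nat_lit 480) (nat_lit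 311) (nat_lit 229)) (XT.lf (nat_lit 0) (nat_lit 22222268838) (nat_lit 76) (nat_lit 13055480738) (nat_lit 76) (nat_lit 4861063546) (nat_lit 71) (nat_lit 4) (nat_lit 72) (nat_lit 5) (nat_lit 72) (nat_lit 4) (nat_lit 481) (nat_lit 311) (nat_lit 228))))) (XT.nd (nat_lit 312) (nat_lit 304) (nat_lit 0) (XT.nd (nat_lit 156) (nat_lit 228) (nat_lit 0) (XT.nd (nat_lit 78) (nat_lit 0) (nat_lit 0) (XT.lf (nat_lit 0) (nat_lit 9508861851) (nat_lit 152) (nat_lit 29863870692) (nat_lit 0) (nat_lit 1531313306) (nat_lit 69) (nat_lit 5) (nat_lit 71) (nat_lit 4) (nat_lit 69) (nat_lit 4) (nat_lit 482) (nat_lit 311) (nat_lit 227)) (XT.lf (nat_lit 0) (nat_lit 24460874725) (nat_lit 152) (nat_lit 760298643) (nat_lit 0) (nat_lit 16462157542) (nat_lit 69) (nat_lit 5) (nat_lit 71) (nat_lit 4) (nat_lit 69) (nat_lit 4) (nat_lit 483) (nat_lit 311) (nat_lit 226))) (XT.nd (nat_lit 78) (nat_lit 152) (nat_lit 0) (XT.lf (nat_lit 0) (nat_lit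 29671914962) (nat_lit 76) (nat_lit 10413317640) (nat_lit 76) (nat_lit 2394048381) (nat_lit 68) (nat_lit 4) (nat_lit 69) (nat_lit 5) (nat_lit 69) (nat_lit 4) (nat_lit 484) (nat_lit 311) (nat_lit 225)) (XT.lf (nat_lit 0) (nat_lit 12794569771) (nat_lit 152) (nat_lit 25506326206) (nat_lit 0) (nat_lit 4989499159) (nat_lit 66) (nat_lit 5) (nat_lit 68) (nat_lit 4) (nat_lit 66) (nat_lit 4) (nat_lit 485) (nat_lit 311) (nat_lit 224)))) (XT.nd (nat_lit 156) (nat_lit 152) (nat_lit 0) (XT.nd (nat_lit 78) (nat_lit 76) (nat_lit 0) (XT.lf (nat_lit 0) (nat_lit 5285366395) (nat_lit 76) (nat_lit 23328475246) (nat_lit 76) (nat_lit 15504596573) (nat_lit 65) (nat_lit 4) (nat_lit 66) (nat_lit 5) (nat_lit 66) (nat_lit 4) (nat_lit 486) (nat_lit 311) (nat_lit 223)) (XT.lf (nat_lit 0) (nat_lit 136330853) (nat_lit 152) (nat_lit 7565387294) (nat_lit 76) (nat_lit 37263661184) (nat_lit 64) (nat_lit 5) (nat_lit 66) (nat_lit 5) (nat_lit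 65) (nat_lit 4) (nat_lit 487) (nat_lit 311) (nat_lit 222))) (XT.nd (nat_lit 78) (nat_lit 76) (nat_lit 0) (XT.lf (nat_lit 0) (nat_lit 16198136596) (nat_lit 152) (nat_lit 21059890992) (nat_lit 0) (nat_lit 8567197442) (nat_lit 63) (nat_lit 5) (nat_lit 65) (nat_lit 4) (nat_lit 63) (nat_lit 4) (nat_lit 488) (nat_lit 311) (nat_lit 221)) (XT.lf (nat_lit 0) (nat_lit 11540735636) (nat_lit 76) (nat_lit 21405818799) (nat_lit 76) (nat_lit 13758168927) (nat_lit 62) (nat_lit 4) (nat_lit 63) (nat_lit 5) (nat_lit 63) (nat_lit 4) (nat_lit 489) (nat_lit 311) (nat_lit 220)))))) (XT.nd (nat_lit 45942) (nat_lit 0) (nat_lit 9804) (XT.nd (nat_lit 312) (nat_lit 76) (nat_lit 0) (XT.nd (nat_lit 156) (nat_lit 228) (nat_lit 0) (XT.nd (nat_lit 78) (nat_lit 76) (nat_lit 0) (XT.lf (nat_lit 0) (nat_lit 2691533703) (nat_lit 152) (nat_lit 2200060453) (nat_lit 76) (nat_lit 42713610696) (nat_lit 61) (nat_lit 5) (nat_lit 63) (nat_lit 5)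 (nat_lit 62) (nat_lit 4) (nat_lit 490) (nat_lit 311) (nat_lit 219)) (XT.lf (nat_lit 0) (nat_lit 19729515236) (nat_lit 152) (nat_lit 16514391247) (nat_lit 0) (nat_lit 12273568317) (nat_lit 60) (nat_lit 5) (nat_lit 62) (nat_lit 4) (nat_lit 60) (nat_lit 4) (nat_lit 491) (nat_lit 311) (nat_lit 218))) (XT.nd (nat_lit 78) (nat_lit 152) (nat_lit 0) (XT.lf (nat_lit 0) (nat_lit 18007234300) (nat_lit 76) (nat_lit 19457544226) (nat_lit 76) (nat_lit 11986750050) (nat_lit 59) (nat_lit 4) (nat_lit 60) (nat_lit 5) (nat_lit 60) (nat_lit 4) (nat_lit 492) (nat_lit 311) (nat_lit 217)) (XT.lf (nat_lit 0) (nat_lit 3391354751) (nat_lit 76) (nat_lit 1966558420) (nat_lit 152) (nat_lit 45049861042) (nat_lit 57) (nat_lit 5) (nat_lit 58) (nat_lit 5) (nat_lit 59) (nat_lit 4) (nat_lit 493) (nat_lit 311) (nat_lit 216)))) (XT.nd (nat_lit 45474) (nat_lit 0) (nat_lit 11628) (XT.nd (nat_lit 78) (nat_lit 76) (nat_lit 0) (XT.lf (nat_lit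 0) (nat_lit 23399141531) (nat_lit 152) (nat_lit 11859129862) (nat_lit 0) (nat_lit 16118360995) (nat_lit 57) (nat_lit 5) (nat_lit 59) (nat_lit 4) (nat_lit 57) (nat_lit 4) (nat_lit 494) (nat_lit 311) (nat_lit 215)) (XT.lf (nat_lit 0) (nat_lit 24702332192) (nat_lit 76) (nat_lit 17480085953) (nat_lit 76) (nat_lit 10186113821) (nat_lit 56) (nat_lit 4) (nat_lit 57) (nat_lit 5) (nat_lit 57) (nat_lit 4) (nat_lit 495) (nat_lit 311) (nat_lit 214))) (XT.nd (nat_lit 78) (nat_lit 304) (nat_lit 0) (XT.lf (nat_lit 0) (nat_lit 431309258) (nat_lit 304) (nat_lit 4034898845) (nat_lit 0) (nat_lit 431309258) (nat_lit 213) (nat_lit 5) (nat_lit 217) (nat_lit 4) (nat_lit 213) (nat_lit 4) (nat_lit 396) (nat_lit 312) (nat_lit 312)) (XT.lf (nat_lit 0) (nat_lit 953543155) (nat_lit 304) (nat_lit 4849985579) (nat_lit 304) (nat_lit 4115201243) (nat_lit 209) (nat_lit 4) (nat_lit 213) (nat_lit 5) (nat_lit 213) (nat_lit 4) (nat_lit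 397) (nat_lit 312) (nat_lit 311))))) (XT.nd (nat_lit 312) (nat_lit 988) (nat_lit 0) (XT.nd (nat_lit 156) (nat_lit 532) (nat_lit 0) (XT.nd (nat_lit 78) (nat_lit 0) (nat_lit 0) (XT.lf (nat_lit 0) (nat_lit 179412390) (nat_lit 228) (nat_lit 622350947) (nat_lit 304) (nat_lit 9244976072) (nat_lit 205) (nat_lit 5) (nat_lit 208) (nat_lit 5) (nat_lit 209) (nat_lit 4) (nat_lit 398) (nat_lit 312) (nat_lit 310)) (XT.lf (nat_lit 0) (nat_lit 5799382412) (nat_lit 304) (nat_lit 656545568) (nat_lit 0) (nat_lit 3720963096) (nat_lit 205) (nat_lit 5) (nat_lit 209) (nat_lit 4) (nat_lit 205) (nat_lit 4) (nat_lit 399) (nat_lit 312) (nat_lit 309))) (XT.nd (nat_lit 78) (nat_lit 228) (nat_lit 0) (XT.lf (nat_lit 0) (nat_lit 606113788) (nat_lit 304) (nat_lit 1500854689) (nat_lit 76) (nat_lit 8204319172) (nat_lit 201) (nat_lit 5) (nat_lit 205) (nat_lit 5) (nat_lit 202) (nat_lit 4) (nat_lit 400) (nat_lit 312) (nat_lit 308)) (XT.lf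 (nat_lit 0) (nat_lit 5650978498) (nat_lit 304) (nat_lit 2413551925) (nat_lit 0) (nat_lit 2383893931) (nat_lit 198) (nat_lit 5) (nat_lit 202) (nat_lit 4) (nat_lit 198) (nat_lit 4) (nat_lit 401) (nat_lit 312) (nat_lit 307)))) (XT.nd (nat_lit 156) (nat_lit 456) (nat_lit 0) (XT.nd (nat_lit 78) (nat_lit 228) (nat_lit 0) (XT.lf (nat_lit 0) (nat_lit 251127053) (nat_lit 304) (nat_lit 3354743553) (nat_lit 76) (nat_lit 6983771150) (nat_lit 194) (nat_lit 5) (nat_lit 198) (nat_lit 5) (nat_lit 195) (nat_lit 4) (nat_lit 402) (nat_lit 312) (nat_lit 306)) (XT.lf (nat_lit 0) (nat_lit 5344059028) (nat_lit 304) (nat_lit 4360996181) (nat_lit 0) (nat_lit 1028935715) (nat_lit 191) (nat_lit 5) (nat_lit 195) (nat_lit 4) (nat_lit 191) (nat_lit 4) (nat_lit 403) (nat_lit 312) (nat_lit 305))) (XT.nd (nat_lit 78) (nat_lit 228) (nat_lit 0) (XT.lf (nat_lit 0) (nat_lit 5468330502) (nat_lit 228) (nat_lit 5137859794) (nat_lit 228) (nat_lit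 275987928) (nat_lit 188) (nat_lit 4) (nat_lit 191) (nat_lit 5) (nat_lit 191) (nat_lit 4) (nat_lit 404) (nat_lit 312) (nat_lit 304)) (XT.lf (nat_lit 0) (nat_lit 4505608441) (nat_lit 152) (nat_lit 370403453) (nat_lit 228) (nat_lit 6157898731) (nat_lit 185) (nat_lit 5) (nat_lit 187) (nat_lit 5) (nat_lit 188) (nat_lit 4) (nat_lit 405) (nat_lit 312) (nat_lit 303))))))))
noncomputable def xc41 : XT := (XT.nd (nat_lit 2340) (nat_lit 2888) (nat_lit 0) (XT.nd (nat_lit 1170) (nat_lit 1900) (nat_lit 0) (XT.nd (nat_lit 546) (nat_lit 1368) (nat_lit 0) (XT.nd (nat_lit 234) (nat_lit 608) (nat_lit 0) (XT.nd (nat_lit 78) (nat_lit 456) (nat_lit 0) (XT.lf (nat_lit 0) (nat_lit 3483173774) (nat_lit 228) (nat_lit 6721051254) (nat_lit 228) (nat_lit 985071979) (nat_lit 182) (nat_lit 4) (nat_lit 185) (nat_lit 5) (nat_lit 185) (nat_lit 4) (nat_lit 406) (nat_lit 312) (nat_lit 302)) (XT.nd (nat_lit 78) (nat_lit 228) (nat_lit 0)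 (XT.lf (nat_lit 0) (nat_lit 2398951118) (nat_lit 152) (nat_lit 1847703758) (nat_lit 228) (nat_lit 7101783844) (nat_lit 179) (nat_lit 5) (nat_lit 181) (nat_lit 5) (nat_lit 182) (nat_lit 4) (nat_lit 407) (nat_lit 312) (nat_lit 301)) (XT.lf (nat_lit 0) (nat_lit 1254792663) (nat_lit 228) (nat_lit 8377599513) (nat_lit 228) (nat_lit 1879164185) (nat_lit 176) (nat_lit 4) (nat_lit 179) (nat_lit 5) (nat_lit 179) (nat_lit 4) (nat_lit 408) (nat_lit 312) (nat_lit 300)))) (XT.nd (nat_lit 156) (nat_lit 380) (nat_lit 0) (XT.nd (nat_lit 78) (nat_lit 0) (nat_lit 0) (XT.lf (nat_lit 0) (nat_lit 35587793) (nat_lit 152) (nat_lit 3402136210) (nat_lit 228) (nat_lit 8240657461) (nat_lit 173) (nat_lit 5) (nat_lit 175) (nat_lit 5) (nat_lit 176) (nat_lit 4) (nat_lit 409) (nat_lit 312) (nat_lit 299)) (XT.lf (nat_lit 0) (nat_lit 8894006615) (nat_lit 228) (nat_lit 1220916316) (nat_lit 0) (nat_lit 1734200507) (nat_lit 173) (nat_lit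 5) (nat_lit 176) (nat_lit 4) (nat_lit 173) (nat_lit 4) (nat_lit 410) (nat_lit 312) (nat_lit 298))) (XT.nd (nat_lit 78) (nat_lit 152) (nat_lit 0) (XT.lf (nat_lit 0) (nat_lit 2465044765) (nat_lit 228) (nat_lit 2562597505) (nat_lit 76) (nat_lit 6995888915) (nat_lit 170) (nat_lit 5) (nat_lit 173) (nat_lit 5) (nat_lit 171) (nat_lit 4) (nat_lit 411) (nat_lit 312) (nat_lit 297)) (XT.lf (nat_lit 0) (nat_lit 7982278466) (nat_lit 228) (nat_lit 3967649897) (nat_lit 0) (nat_lit 252549177) (nat_lit 168) (nat_lit 5) (nat_lit 171) (nat_lit 4) (nat_lit 168) (nat_lit 4) (nat_lit 412) (nat_lit 312) (nat_lit 296))))) (XT.nd (nat_lit 312) (nat_lit 608) (nat_lit 0) (XT.nd (nat_lit 156) (nat_lit 380) (nat_lit 0) (XT.nd (nat_lit 78) (nat_lit 152) (nat_lit 0) (XT.lf (nat_lit 0) (nat_lit 1296432764) (nat_lit 228) (nat_lit 5470279936) (nat_lit 76) (nat_lit 5618416804) (nat_lit 165) (nat_lit 5) (nat_lit 168) (nat_lit 5) (nat_lit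 166) (nat_lit 4) (nat_lit 413) (nat_lit 312) (nat_lit 295)) (XT.lf (nat_lit 0) (nat_lit 5518480989) (nat_lit 152) (nat_lit 1369196173) (nat_lit 228) (nat_lit 5684512277) (nat_lit 163) (nat_lit 5) (nat_lit 165) (nat_lit 5) (nat_lit 166) (nat_lit 4) (nat_lit 414) (nat_lit 312) (nat_lit 294))) (XT.nd (nat_lit 78) (nat_lit 228) (nat_lit 0) (XT.lf (nat_lit 0) (nat_lit 4043372193) (nat_lit 152) (nat_lit 8639062581) (nat_lit 152) (nat_lit 81353122) (nat_lit 161) (nat_lit 4) (nat_lit 163) (nat_lit 5) (nat_lit 163) (nat_lit 4) (nat_lit 415) (nat_lit 312) (nat_lit 293)) (XT.lf (nat_lit 0) (nat_lit 2457216616) (nat_lit 152) (nat_lit 3131807000) (nat_lit 228) (nat_lit 7370165250) (nat_lit 158) (nat_lit 5) (nat_lit 160) (nat_lit 5) (nat_lit 161) (nat_lit 4) (nat_lit 416) (nat_lit 312) (nat_lit 292)))) (XT.nd (nat_lit 156) (nat_lit 380) (nat_lit 0) (XT.nd (nat_lit 78) (nat_lit 76) (nat_lit 0) (XT.lf (nat_lit 0) (nat_lit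 799509649) (nat_lit 152) (nat_lit 10650830075) (nat_lit 152) (nat_lit 1709414078) (nat_lit 156) (nat_lit 4) (nat_lit 158) (nat_lit 5) (nat_lit 158) (nat_lit 4) (nat_lit 417) (nat_lit 312) (nat_lit 291)) (XT.lf (nat_lit 0) (nat_lit 4080455202) (nat_lit 228) (nat_lit 960813354) (nat_lit 76) (nat_lit 8322687253) (nat_lit 155) (nat_lit 5) (nat_lit 158) (nat_lit 5) (nat_lit 156) (nat_lit 4) (nat_lit 418) (nat_lit 312) (nat_lit 290))) (XT.nd (nat_lit 78) (nat_lit 228) (nat_lit 0) (XT.lf (nat_lit 0) (nat_lit 10025438304) (nat_lit 228) (nat_lit 2782660925) (nat_lit 0) (nat_lit 765203640) (nat_lit 153) (nat_lit 5) (nat_lit 156) (nat_lit 4) (nat_lit 153) (nat_lit 4) (nat_lit 419) (nat_lit 312) (nat_lit 289)) (XT.lf (nat_lit 0) (nat_lit 2366076256) (nat_lit 228) (nat_lit 4734132843) (nat_lit 76) (nat_lit 6686472175) (nat_lit 150) (nat_lit 5) (nat_lit 153) (nat_lit 5) (nat_lit 151) (nat_lit 4) (nat_lit 420) (nat_lit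 312) (nat_lit 288)))))) (XT.nd (nat_lit 546) (nat_lit 988) (nat_lit 0) (XT.nd (nat_lit 234) (nat_lit 532) (nat_lit 0) (XT.nd (nat_lit 78) (nat_lit 304) (nat_lit 0) (XT.lf (nat_lit 0) (nat_lit 7223261278) (nat_lit 76) (nat_lit 1165651519) (nat_lit 152) (nat_lit 5616410830) (nat_lit 149) (nat_lit 5) (nat_lit 150) (nat_lit 5) (nat_lit 151) (nat_lit 4) (nat_lit 421) (nat_lit 312) (nat_lit 287)) (XT.nd (nat_lit 78) (nat_lit 76) (nat_lit 0) (XT.lf (nat_lit 0) (nat_lit 407285848) (nat_lit 228) (nat_lit 8947347452) (nat_lit 76) (nat_lit 4874214422) (nat_lit 146) (nat_lit 5) (nat_lit 149) (nat_lit 5) (nat_lit 147) (nat_lit 4) (nat_lit 422) (nat_lit 312) (nat_lit 286)) (XT.lf (nat_lit 0) (nat_lit 3206738681) (nat_lit 76) (nat_lit 3309033052) (nat_lit 152) (nat_lit 7941128685) (nat_lit 145) (nat_lit 5) (nat_lit 146) (nat_lit 5) (nat_lit 147) (nat_lit 4) (nat_lit 423) (nat_lit 312) (nat_lit 285)))) (XT.nd (nat_lit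 156) (nat_lit 304) (nat_lit 0) (XT.nd (nat_lit 78) (nat_lit 76) (nat_lit 0) (XT.lf (nat_lit 0) (nat_lit 1033737935) (nat_lit 152) (nat_lit 11808722135) (nat_lit 152) (nat_lit 1848286191) (nat_lit 143) (nat_lit 4) (nat_lit 145) (nat_lit 5) (nat_lit 145) (nat_lit 4) (nat_lit 424) (nat_lit 312) (nat_lit 284)) (XT.lf (nat_lit 0) (nat_lit 4394292840) (nat_lit 228) (nat_lit 1265274642) (nat_lit 76) (nat_lit 9269162907) (nat_lit 142) (nat_lit 5) (nat_lit 145) (nat_lit 5) (nat_lit 143) (nat_lit 4) (nat_lit 425) (nat_lit 312) (nat_lit 283))) (XT.nd (nat_lit 78) (nat_lit 228) (nat_lit 0) (XT.lf (nat_lit 0) (nat_lit 10813436146) (nat_lit 152) (nat_lit 3646980948) (nat_lit 0) (nat_lit 712094883) (nat_lit 141) (nat_lit 5) (nat_lit 143) (nat_lit 4) (nat_lit 141) (nat_lit 4) (nat_lit 426) (nat_lit 312) (nat_lit 282)) (XT.lf (nat_lit 0) (nat_lit 2029897899) (nat_lit 228) (nat_lit 6186787082) (nat_lit 76) (nat_lit 7204322572)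 (nat_lit 138) (nat_lit 5) (nat_lit 141) (nat_lit 5) (nat_lit 139) (nat_lit 4) (nat_lit 427) (nat_lit 312) (nat_lit 281))))) (XT.nd (nat_lit 312) (nat_lit 608) (nat_lit 0) (XT.nd (nat_lit 156) (nat_lit 152) (nat_lit 0) (XT.nd (nat_lit 78) (nat_lit 152) (nat_lit 0) (XT.lf (nat_lit 0) (nat_lit 6817670471) (nat_lit 76) (nat_lit 1716952587) (nat_lit 152) (nat_lit 7140689304) (nat_lit 137) (nat_lit 5) (nat_lit 138) (nat_lit 5) (nat_lit 139) (nat_lit 4) (nat_lit 428) (nat_lit 312) (nat_lit 280)) (XT.lf (nat_lit 0) (nat_lit 4265644641) (nat_lit 152) (nat_lit 11029990310) (nat_lit 152) (nat_lit 639777014) (nat_lit 135) (nat_lit 4) (nat_lit 137) (nat_lit 5) (nat_lit 137) (nat_lit 4) (nat_lit 429) (nat_lit 312) (nat_lit 279))) (XT.nd (nat_lit 78) (nat_lit 0) (nat_lit 0) (XT.lf (nat_lit 0) (nat_lit 1544664153) (nat_lit 76) (nat_lit 4424808204) (nat_lit 152) (nat_lit 10231151116) (nat_lit 133) (nat_lit 5) (nat_lit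 134) (nat_lit 5) (nat_lit 135) (nat_lit 4) (nat_lit 430) (nat_lit 312) (nat_lit 278)) (XT.lf (nat_lit 0) (nat_lit 12815533101) (nat_lit 152) (nat_lit 1279033754) (nat_lit 0) (nat_lit 2377492654) (nat_lit 133) (nat_lit 5) (nat_lit 135) (nat_lit 4) (nat_lit 133) (nat_lit 4) (nat_lit 431) (nat_lit 312) (nat_lit 277)))) (XT.nd (nat_lit 156) (nat_lit 304) (nat_lit 0) (XT.nd (nat_lit 78) (nat_lit 76) (nat_lit 0) (XT.lf (nat_lit 0) (nat_lit 3131731468) (nat_lit 228) (nat_lit 4248235075) (nat_lit 76) (nat_lit 9368458112) (nat_lit 130) (nat_lit 5) (nat_lit 133) (nat_lit 5) (nat_lit 131) (nat_lit 4) (nat_lit 432) (nat_lit 312) (nat_lit 276)) (XT.lf (nat_lit 0) (nat_lit 9670475348) (nat_lit 76) (nat_lit 397925135) (nat_lit 152) (nat_lit 6963046495) (nat_lit 129) (nat_lit 5) (nat_lit 130) (nat_lit 5) (nat_lit 131) (nat_lit 4) (nat_lit 433) (nat_lit 312) (nat_lit 275))) (XT.nd (nat_lit 78) (nat_lit 152) (nat_lit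 0) (XT.lf (nat_lit 0) (nat_lit 6668147170) (nat_lit 152) (nat_lit 10630189895) (nat_lit 152) (nat_lit 22067883) (nat_lit 127) (nat_lit 4) (nat_lit 129) (nat_lit 5) (nat_lit 129) (nat_lit 4) (nat_lit 434) (nat_lit 312) (nat_lit 274)) (XT.lf (nat_lit 0) (nat_lit 3479448702) (nat_lit 76) (nat_lit 3533600358) (nat_lit 152) (nat_lit 10602177730) (nat_lit 125) (nat_lit 5) (nat_lit 126) (nat_lit 5) (nat_lit 127) (nat_lit 4) (nat_lit 435) (nat_lit 312) (nat_lit 273))))))) (XT.nd (nat_lit 1170) (nat_lit 1368) (nat_lit 0) (XT.nd (nat_lit 546) (nat_lit 760) (nat_lit 0) (XT.nd (nat_lit 234) (nat_lit 456) (nat_lit 0) (XT.nd (nat_lit 78) (nat_lit 152) (nat_lit 0) (XT.lf (nat_lit 0) (nat_lit 134175564) (nat_lit 152) (nat_lit 14183521440) (nat_lit 152) (nat_lit 3599422095) (nat_lit 123) (nat_lit 4) (nat_lit 125) (nat_lit 5) (nat_lit 125) (nat_lit 4) (nat_lit 436) (nat_lit 312) (nat_lit 272)) (XT.nd (nat_lit 78) (nat_lit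 76) (nat_lit 0) (XT.lf (nat_lit 0) (nat_lit 3634833891) (nat_lit 228) (nat_lit 3341668414) (nat_lit 76) (nat_lit 11247765990) (nat_lit 122) (nat_lit 5) (nat_lit 125) (nat_lit 5) (nat_lit 123) (nat_lit 4) (nat_lit 437) (nat_lit 312) (nat_lit 271)) (XT.lf (nat_lit 0) (nat_lit 11045196137) (nat_lit 152) (nat_lit 6984823689) (nat_lit 0) (nat_lit 508600303) (nat_lit 121) (nat_lit 5) (nat_lit 123) (nat_lit 4) (nat_lit 121) (nat_lit 4) (nat_lit 438) (nat_lit 312) (nat_lit 270)))) (XT.nd (nat_lit 156) (nat_lit 152) (nat_lit 0) (XT.nd (nat_lit 78) (nat_lit 152) (nat_lit 0) (XT.lf (nat_lit 0) (nat_lit 8026469046) (nat_lit 152) (nat_lit 10747186466) (nat_lit 152) (nat_lit 85873417) (nat_lit 119) (nat_lit 4) (nat_lit 121) (nat_lit 5) (nat_lit 121) (nat_lit 4) (nat_lit 439) (nat_lit 312) (nat_lit 269)) (XT.lf (nat_lit 0) (nat_lit 4289770627) (nat_lit 76) (nat_lit 3134942846) (nat_lit 152) (nat_lit 11762335467) (nat_lit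 117) (nat_lit 5) (nat_lit 118) (nat_lit 5) (nat_lit 119) (nat_lit 4) (nat_lit 440) (nat_lit 312) (nat_lit 268))) (XT.nd (nat_lit 78) (nat_lit 76) (nat_lit 0) (XT.lf (nat_lit 0) (nat_lit 362959360) (nat_lit 76) (nat_lit 14870822113) (nat_lit 76) (nat_lit 4288340887) (nat_lit 116) (nat_lit 4) (nat_lit 117) (nat_lit 5) (nat_lit 117) (nat_lit 4) (nat_lit 441) (nat_lit 312) (nat_lit 267)) (XT.lf (nat_lit 0) (nat_lit 3442054172) (nat_lit 152) (nat_lit 3705920885) (nat_lit 76) (nat_lit 12715328004) (nat_lit 115) (nat_lit 5) (nat_lit 117) (nat_lit 5) (nat_lit 116) (nat_lit 4) (nat_lit 442) (nat_lit 312) (nat_lit 266))))) (XT.nd (nat_lit 312) (nat_lit 456) (nat_lit 0) (XT.nd (nat_lit 156) (nat_lit 152) (nat_lit 0) (XT.nd (nat_lit 78) (nat_lit 76) (nat_lit 0) (XT.lf (nat_lit 0) (nat_lit 11362708613) (nat_lit 152) (nat_lit 7972976514) (nat_lit 0) (nat_lit 876424125) (nat_lit 114) (nat_lit 5) (nat_lit 116) (nat_lit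 4) (nat_lit 114) (nat_lit 4) (nat_lit 443) (nat_lit 312) (nat_lit 265)) (XT.lf (nat_lit 0) (nat_lit 8095474935) (nat_lit 76) (nat_lit 11530227056) (nat_lit 76) (nat_lit 942536059) (nat_lit 113) (nat_lit 4) (nat_lit 114) (nat_lit 5) (nat_lit 114) (nat_lit 4) (nat_lit 444) (nat_lit 312) (nat_lit 264))) (XT.nd (nat_lit 78) (nat_lit 0) (nat_lit 0) (XT.lf (nat_lit 0) (nat_lit 3719681938) (nat_lit 76) (nat_lit 3376784001) (nat_lit 152) (nat_lit 13835444224) (nat_lit 111) (nat_lit 5) (nat_lit 112) (nat_lit 5) (nat_lit 113) (nat_lit 4) (nat_lit 445) (nat_lit 312) (nat_lit 263)) (XT.lf (nat_lit 0) (nat_lit 15451667404) (nat_lit 152) (nat_lit 867756796) (nat_lit 0) (nat_lit 4983969074) (nat_lit 111) (nat_lit 5) (nat_lit 113) (nat_lit 4) (nat_lit 111) (nat_lit 4) (nat_lit 446) (nat_lit 312) (nat_lit 262)))) (XT.nd (nat_lit 156) (nat_lit 228) (nat_lit 0) (XT.nd (nat_lit 78) (nat_lit 76) (nat_lit 0) (XT.lf (nat_lit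 0) (nat_lit 2435313387) (nat_lit 152) (nat_lit 5614110524) (nat_lit 76) (nat_lit 13632610501) (nat_lit 109) (nat_lit 5) (nat_lit 111) (nat_lit 5) (nat_lit 110) (nat_lit 4) (nat_lit 447) (nat_lit 312) (nat_lit 261)) (XT.lf (nat_lit 0) (nat_lit 10898900575) (nat_lit 152) (nat_lit 10606343391) (nat_lit 0) (nat_lit 563686161) (nat_lit 108) (nat_lit 5) (nat_lit 110) (nat_lit 4) (nat_lit 108) (nat_lit 4) (nat_lit 448) (nat_lit 312) (nat_lit 260))) (XT.nd (nat_lit 78) (nat_lit 152) (nat_lit 0) (XT.lf (nat_lit 0) (nat_lit 6594076211) (nat_lit 76) (nat_lit 13143691263) (nat_lit 76) (nat_lit 2726024077) (nat_lit 107) (nat_lit 4) (nat_lit 108) (nat_lit 5) (nat_lit 108) (nat_lit 4) (nat_lit 449) (nat_lit 312) (nat_lit 259)) (XT.lf (nat_lit 0) (nat_lit 1475653023) (nat_lit 76) (nat_lit 4422559510) (nat_lit 152) (nat_lit 16969261313) (nat_lit 105) (nat_lit 5) (nat_lit 106) (nat_lit 5) (nat_lit 107) (nat_lit 4) (nat_lit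 450) (nat_lit 312) (nat_lit 258)))))) (XT.nd (nat_lit 624) (nat_lit 684) (nat_lit 0) (XT.nd (nat_lit 312) (nat_lit 380) (nat_lit 0) (XT.nd (nat_lit 156) (nat_lit 152) (nat_lit 0) (XT.nd (nat_lit 78) (nat_lit 152) (nat_lit 0) (XT.lf (nat_lit 0) (nat_lit 14853237374) (nat_lit 152) (nat_lit 3839592204) (nat_lit 0) (nat_lit 4585821776) (nat_lit 105) (nat_lit 5) (nat_lit 107) (nat_lit 4) (nat_lit 105) (nat_lit 4) (nat_lit 451) (nat_lit 312) (nat_lit 257)) (XT.lf (nat_lit 0) (nat_lit 473426528) (nat_lit 152) (nat_lit 9379617966) (nat_lit 76) (nat_lit 13845831911) (nat_lit 103) (nat_lit 5) (nat_lit 105) (nat_lit 5) (nat_lit 104) (nat_lit 4) (nat_lit 452) (nat_lit 312) (nat_lit 256))) (XT.nd (nat_lit 78) (nat_lit 76) (nat_lit 0) (XT.lf (nat_lit 0) (nat_lit 8910170210) (nat_lit 76) (nat_lit 608040880) (nat_lit 152) (nat_lit 14609544879) (nat_lit 102) (nat_lit 5) (nat_lit 103) (nat_lit 5) (nat_lit 104) (nat_lit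 4) (nat_lit 453) (nat_lit 312) (nat_lit 255)) (XT.lf (nat_lit 0) (nat_lit 3199046895) (nat_lit 76) (nat_lit 15770983983) (nat_lit 76) (nat_lit 5595400291) (nat_lit 101) (nat_lit 4) (nat_lit 102) (nat_lit 5) (nat_lit 102) (nat_lit 4) (nat_lit 454) (nat_lit 312) (nat_lit 254)))) (XT.nd (nat_lit 156) (nat_lit 228) (nat_lit 0) (XT.nd (nat_lit 78) (nat_lit 76) (nat_lit 0) (XT.lf (nat_lit 0) (nat_lit 3702025494) (nat_lit 152) (nat_lit 2725560917) (nat_lit 76) (nat_lit 18585040964) (nat_lit 100) (nat_lit 5) (nat_lit 102) (nat_lit 5) (nat_lit 101) (nat_lit 4) (nat_lit 455) (nat_lit 312) (nat_lit 253)) (XT.lf (nat_lit 0) (nat_lit 13283460255) (nat_lit 152) (nat_lit 8904883767) (nat_lit 0) (nat_lit 3279706998) (nat_lit 99) (nat_lit 5) (nat_lit 101) (nat_lit 4) (nat_lit 99) (nat_lit 4) (nat_lit 456) (nat_lit 312) (nat_lit 252))) (XT.nd (nat_lit 78) (nat_lit 152) (nat_lit 0) (XT.lf (nat_lit 0) (nat_lit 10545253307)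 (nat_lit 76) (nat_lit 12725820446) (nat_lit 76) (nat_lit 2662501551) (nat_lit 98) (nat_lit 4) (nat_lit 99) (nat_lit 5) (nat_lit 99) (nat_lit 4) (nat_lit 457) (nat_lit 312) (nat_lit 251)) (XT.lf (nat_lit 0) (nat_lit 4217020272) (nat_lit 76) (nat_lit 2846117600) (nat_lit 152) (nat_lit 19346147395) (nat_lit 96) (nat_lit 5) (nat_lit 97) (nat_lit 5) (nat_lit 98) (nat_lit 4) (nat_lit 458) (nat_lit 312) (nat_lit 250))))) (XT.nd (nat_lit 312) (nat_lit 380) (nat_lit 0) (XT.nd (nat_lit 156) (nat_lit 152) (nat_lit 0) (XT.nd (nat_lit 78) (nat_lit 152) (nat_lit 0) (XT.lf (nat_lit 0) (nat_lit 17180458532) (nat_lit 152) (nat_lit 2413825693) (nat_lit 0) (nat_lit 7299588692) (nat_lit 96) (nat_lit 5) (nat_lit 98) (nat_lit 4) (nat_lit 96) (nat_lit 4) (nat_lit 459) (nat_lit 312) (nat_lit 249)) (XT.lf (nat_lit 0) (nat_lit 336283931) (nat_lit 152) (nat_lit 9251136756) (nat_lit 76) (nat_lit 17801556000) (nat_lit 94) (nat_lit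 5) (nat_lit 96) (nat_lit 5) (nat_lit 95) (nat_lit 4) (nat_lit 460) (nat_lit 312) (nat_lit 248))) (XT.nd (nat_lit 78) (nat_lit 76) (nat_lit 0) (XT.lf (nat_lit 0) (nat_lit 10563585461) (nat_lit 152) (nat_lit 16461081846) (nat_lit 0) (nat_lit 869240821) (nat_lit 93) (nat_lit 5) (nat_lit 95) (nat_lit 4) (nat_lit 93) (nat_lit 4) (nat_lit 461) (nat_lit 312) (nat_lit 247)) (XT.lf (nat_lit 0) (nat_lit 4362395867) (nat_lit 76) (nat_lit 16894792071) (nat_lit 76) (nat_lit 7152015118) (nat_lit 92) (nat_lit 4) (nat_lit 93) (nat_lit 5) (nat_lit 93) (nat_lit 4) (nat_lit 462) (nat_lit 312) (nat_lit 246)))) (XT.nd (nat_lit 156) (nat_lit 228) (nat_lit 0) (XT.nd (nat_lit 78) (nat_lit 76) (nat_lit 0) (XT.lf (nat_lit 0) (nat_lit 3362807771) (nat_lit 152) (nat_lit 2963298841) (nat_lit 76) (nat_lit 22610004093) (nat_lit 91) (nat_lit 5) (nat_lit 93) (nat_lit 5) (nat_lit 92) (nat_lit 4) (nat_lit 463) (nat_lit 312) (nat_lit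 245)) (XT.lf (nat_lit 0) (nat_lit 14207189666) (nat_lit 152) (nat_lit 10606567289) (nat_lit 0) (nat_lit 4658208386) (nat_lit 90) (nat_lit 5) (nat_lit 92) (nat_lit 4) (nat_lit 90) (nat_lit 4) (nat_lit 464) (nat_lit 312) (nat_lit 244))) (XT.nd (nat_lit 78) (nat_lit 152) (nat_lit 0) (XT.lf (nat_lit 0) (nat_lit 11407810815) (nat_lit 76) (nat_lit 14102054349) (nat_lit 76) (nat_lit 4510041586) (nat_lit 89) (nat_lit 4) (nat_lit 90) (nat_lit 5) (nat_lit 90) (nat_lit 4) (nat_lit 465) (nat_lit 312) (nat_lit 243)) (XT.lf (nat_lit 0) (nat_lit 3586167077) (nat_lit 76) (nat_lit 2926127493) (nat_lit 152) (nat_lit 24067904584) (nat_lit 87) (nat_lit 5) (nat_lit 88) (nat_lit 5) (nat_lit 89) (nat_lit 4) (nat_lit 466) (nat_lit 312) (nat_lit 242))))))))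
noncomputable def xc42 : XT := (XT.nd (nat_lit 47502) (nat_lit 0) (nat_lit 6460) (XT.nd (nat_lit 1170) (nat_lit 1140) (nat_lit 0) (XT.nd (nat_lit 546) (nat_lit 608) (nat_lit 0) (XT.nd (nat_lit 234) (nat_lit 304) (nat_lit 0) (XT.nd (nat_lit 78) (nat_lit 228) (nat_lit 0) (XT.lf (nat_lit 0) (nat_lit 17977507164) (nat_lit 152) (nat_lit 4587435727) (nat_lit 0) (nat_lit 8584932210) (nat_lit 87) (nat_lit 5) (nat_lit 89) (nat_lit 4) (nat_lit 87) (nat_lit 4) (nat_lit 467) (nat_lit 312) (nat_lit 241)) (XT.nd (nat_lit 78) (nat_lit 152) (nat_lit 0) (XT.lf (nat_lit 0) (nat_lit 18692542158) (nat_lit 76) (nat_lit 11235335496) (nat_lit 76) (nat_lit 1804527627) (nat_lit 86) (nat_lit 4) (nat_lit 87) (nat_lit 5) (nat_lit 87) (nat_lit 4) (nat_lit 468) (nat_lit 312) (nat_lit 240)) (XT.lf (nat_lit 0) (nat_lit 9796388862) (nat_lit 152) (nat_lit 21926380464) (nat_lit 0) (nat_lit 604226527) (nat_lit 84) (nat_lit 5) (nat_lit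 86) (nat_lit 4) (nat_lit 84) (nat_lit 4) (nat_lit 469) (nat_lit 312) (nat_lit 239)))) (XT.nd (nat_lit 156) (nat_lit 152) (nat_lit 0) (XT.nd (nat_lit 78) (nat_lit 76) (nat_lit 0) (XT.lf (nat_lit 0) (nat_lit 1643121946) (nat_lit 76) (nat_lit 20258569122) (nat_lit 76) (nat_lit 11031418253) (nat_lit 83) (nat_lit 4) (nat_lit 84) (nat_lit 5) (nat_lit 84) (nat_lit 4) (nat_lit 470) (nat_lit 312) (nat_lit 238)) (XT.lf (nat_lit 0) (nat_lit 953123706) (nat_lit 152) (nat_lit 7326279194) (nat_lit 76) (nat_lit 25273081799) (nat_lit 82) (nat_lit 5) (nat_lit 84) (nat_lit 5) (nat_lit 83) (nat_lit 4) (nat_lit 471) (nat_lit 312) (nat_lit 237))) (XT.nd (nat_lit 78) (nat_lit 76) (nat_lit 0) (XT.lf (nat_lit 0) (nat_lit 13219015908) (nat_lit 152) (nat_lit 16768225243) (nat_lit 0) (nat_lit 4195617493) (nat_lit 81) (nat_lit 5) (nat_lit 83) (nat_lit 4) (nat_lit 81) (nat_lit 4) (nat_lit 472) (nat_lit 312) (nat_lit 236)) (XT.lf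 (nat_lit 0) (nat_lit 8163825027) (nat_lit 76) (nat_lit 17858855098) (nat_lit 76) (nat_lit 8804369823) (nat_lit 80) (nat_lit 4) (nat_lit 81) (nat_lit 5) (nat_lit 81) (nat_lit 4) (nat_lit 473) (nat_lit 312) (nat_lit 235))))) (XT.nd (nat_lit 312) (nat_lit 228) (nat_lit 0) (XT.nd (nat_lit 156) (nat_lit 228) (nat_lit 0) (XT.nd (nat_lit 78) (nat_lit 76) (nat_lit 0) (XT.lf (nat_lit 0) (nat_lit 3752951511) (nat_lit 152) (nat_lit 1466175123) (nat_lit 76) (nat_lit 30267198044) (nat_lit 79) (nat_lit 5) (nat_lit 81) (nat_lit 5) (nat_lit 80) (nat_lit 4) (nat_lit 474) (nat_lit 312) (nat_lit 234)) (XT.lf (nat_lit 0) (nat_lit 16762137948) (nat_lit 152) (nat_lit 11479437086) (nat_lit 0) (nat_lit 7913624319) (nat_lit 78) (nat_lit 5) (nat_lit 80) (nat_lit 4) (nat_lit 78) (nat_lit 4) (nat_lit 475) (nat_lit 312) (nat_lit 233))) (XT.nd (nat_lit 78) (nat_lit 152) (nat_lit 0) (XT.lf (nat_lit 0) (nat_lit 14900206400) (nat_lit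 76) (nat_lit 15407837230) (nat_lit 76) (nat_lit 6531703329) (nat_lit 77) (nat_lit 4) (nat_lit 78) (nat_lit 5) (nat_lit 78) (nat_lit 4) (nat_lit 476) (nat_lit 312) (nat_lit 232)) (XT.lf (nat_lit 0) (nat_lit 4663440158) (nat_lit 76) (nat_lit 2019510510) (nat_lit 152) (nat_lit 30856988761) (nat_lit 75) (nat_lit 5) (nat_lit 76) (nat_lit 5) (nat_lit 77) (nat_lit 4) (nat_lit 477) (nat_lit 312) (nat_lit 231)))) (XT.nd (nat_lit 156) (nat_lit 152) (nat_lit 0) (XT.nd (nat_lit 78) (nat_lit 76) (nat_lit 0) (XT.lf (nat_lit 0) (nat_lit 20436282561) (nat_lit 152) (nat_lit 6047343813) (nat_lit 0) (nat_lit 11767365616) (nat_lit 75) (nat_lit 5) (nat_lit 77) (nat_lit 4) (nat_lit 75) (nat_lit 4) (nat_lit 478) (nat_lit 312) (nat_lit 230)) (XT.lf (nat_lit 0) (nat_lit 21870063484) (nat_lit 76) (nat_lit 12900854371) (nat_lit 76) (nat_lit 4207397172) (nat_lit 74) (nat_lit 4) (nat_lit 75) (nat_lit 5) (nat_lit 75) (nat_lit 4)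 (nat_lit 479) (nat_lit 312) (nat_lit 229))) (XT.nd (nat_lit 78) (nat_lit 0) (nat_lit 0) (XT.lf (nat_lit 0) (nat_lit 9735309225) (nat_lit 152) (nat_lit 28713835098) (nat_lit 0) (nat_lit 1271927974) (nat_lit 72) (nat_lit 5) (nat_lit 74) (nat_lit 4) (nat_lit 72) (nat_lit 4) (nat_lit 480) (nat_lit 312) (nat_lit 228)) (XT.lf (nat_lit 0) (nat_lit 24252455533) (nat_lit 152) (nat_lit 458568859) (nat_lit 0) (nat_lit 15766616474) (nat_lit 72) (nat_lit 5) (nat_lit 74) (nat_lit 4) (nat_lit 72) (nat_lit 4) (nat_lit 481) (nat_lit 312) (nat_lit 227)))))) (XT.nd (nat_lit 546) (nat_lit 532) (nat_lit 0) (XT.nd (nat_lit 234) (nat_lit 304) (nat_lit 0) (XT.nd (nat_lit 78) (nat_lit 228) (nat_lit 0) (XT.lf (nat_lit 0) (nat_lit 29092211097) (nat_lit 76) (nat_lit 10332869608) (nat_lit 76) (nat_lit 1825226851) (nat_lit 71) (nat_lit 4) (nat_lit 72) (nat_lit 5) (nat_lit 72) (nat_lit 4) (nat_lit 482) (nat_lit 312) (nat_lit 226))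 (XT.nd (nat_lit 78) (nat_lit 76) (nat_lit 0) (XT.lf (nat_lit 0) (nat_lit 12912433715) (nat_lit 152) (nat_lit 24493150027) (nat_lit 0) (nat_lit 4632034302) (nat_lit 69) (nat_lit 5) (nat_lit 71) (nat_lit 4) (nat_lit 69) (nat_lit 4) (nat_lit 483) (nat_lit 312) (nat_lit 225)) (XT.lf (nat_lit 0) (nat_lit 5406506190) (nat_lit 76) (nat_lit 22867646982) (nat_lit 76) (nat_lit 14567294098) (nat_lit 68) (nat_lit 4) (nat_lit 69) (nat_lit 5) (nat_lit 69) (nat_lit 4) (nat_lit 484) (nat_lit 312) (nat_lit 224)))) (XT.nd (nat_lit 156) (nat_lit 152) (nat_lit 0) (XT.nd (nat_lit 78) (nat_lit 76) (nat_lit 0) (XT.lf (nat_lit 0) (nat_lit 609136881) (nat_lit 152) (nat_lit 7083177318) (nat_lit 76) (nat_lit 35971249656) (nat_lit 67) (nat_lit 5) (nat_lit 69) (nat_lit 5) (nat_lit 68) (nat_lit 4) (nat_lit 485) (nat_lit 312) (nat_lit 223)) (XT.lf (nat_lit 0) (nat_lit 16204161176) (nat_lit 152) (nat_lit 20185675357) (nat_lit 0) (nat_lit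 8108497828) (nat_lit 66) (nat_lit 5) (nat_lit 68) (nat_lit 4) (nat_lit 66) (nat_lit 4) (nat_lit 486) (nat_lit 312) (nat_lit 222))) (XT.nd (nat_lit 78) (nat_lit 76) (nat_lit 0) (XT.lf (nat_lit 0) (nat_lit 11470102917) (nat_lit 76) (nat_lit 20997706804) (nat_lit 76) (nat_lit 12884315054) (nat_lit 65) (nat_lit 4) (nat_lit 66) (nat_lit 5) (nat_lit 66) (nat_lit 4) (nat_lit 487) (nat_lit 312) (nat_lit 221)) (XT.lf (nat_lit 0) (nat_lit 3077519584) (nat_lit 152) (nat_lit 1883239032) (nat_lit 76) (nat_lit 41265469130) (nat_lit 64) (nat_lit 5) (nat_lit 66) (nat_lit 5) (nat_lit 65) (nat_lit 4) (nat_lit 488) (nat_lit 312) (nat_lit 220))))) (XT.nd (nat_lit 312) (nat_lit 228) (nat_lit 0) (XT.nd (nat_lit 156) (nat_lit 152) (nat_lit 0) (XT.nd (nat_lit 78) (nat_lit 76) (nat_lit 0) (XT.lf (nat_lit 0) (nat_lit 19620171599) (nat_lit 152) (nat_lit 15781569941) (nat_lit 0) (nat_lit 11710157513) (nat_lit 63) (nat_lit 5) (nat_lit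 65) (nat_lit 4) (nat_lit 63) (nat_lit 4) (nat_lit 489) (nat_lit 312) (nat_lit 219)) (XT.lf (nat_lit 0) (nat_lit 17739133154) (nat_lit 76) (nat_lit 19102646299) (nat_lit 76) (nat_lit 11176880758) (nat_lit 62) (nat_lit 4) (nat_lit 63) (nat_lit 5) (nat_lit 63) (nat_lit 4) (nat_lit 490) (nat_lit 312) (nat_lit 218))) (XT.nd (nat_lit 78) (nat_lit 0) (nat_lit 0) (XT.lf (nat_lit 0) (nat_lit 3541491415) (nat_lit 76) (nat_lit 2114936974) (nat_lit 152) (nat_lit 43290408148) (nat_lit 60) (nat_lit 5) (nat_lit 61) (nat_lit 5) (nat_lit 62) (nat_lit 4) (nat_lit 491) (nat_lit 312) (nat_lit 217)) (XT.lf (nat_lit 0) (nat_lit 23170610880) (nat_lit 152) (nat_lit 11270481049) (nat_lit 0) (nat_lit 15446430809) (nat_lit 60) (nat_lit 5) (nat_lit 62) (nat_lit 4) (nat_lit 60) (nat_lit 4) (nat_lit 492) (nat_lit 312) (nat_lit 216)))) (XT.nd (nat_lit 156) (nat_lit 0) (nat_lit 0) (XT.nd (nat_lit 78) (nat_lit 152) (nat_lit 0) (XT.lf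 (nat_lit 0) (nat_lit 24230525206) (nat_lit 76) (nat_lit 17179049341) (nat_lit 76) (nat_lit 9440874306) (nat_lit 59) (nat_lit 4) (nat_lit 60) (nat_lit 5) (nat_lit 60) (nat_lit 4) (nat_lit 493) (nat_lit 312) (nat_lit 215)) (XT.lf (nat_lit 0) (nat_lit 8347142076) (nat_lit 152) (nat_lit 42666851434) (nat_lit 0) (nat_lit 821159185) (nat_lit 57) (nat_lit 5) (nat_lit 59) (nat_lit 4) (nat_lit 57) (nat_lit 4) (nat_lit 494) (nat_lit 312) (nat_lit 214))) (XT.nd (nat_lit 45240) (nat_lit 0) (nat_lit 12464) (XT.lf (nat_lit 0) (nat_lit 26866127801) (nat_lit 152) (nat_lit 6641515663) (nat_lit 0) (nat_lit 19327337535) (nat_lit 57) (nat_lit 5) (nat_lit 59) (nat_lit 4) (nat_lit 57) (nat_lit 4) (nat_lit 495) (nat_lit 312) (nat_lit 213)) (XT.lf (nat_lit 0) (nat_lit 804766530) (nat_lit 304) (nat_lit 3167824746) (nat_lit 0) (nat_lit 804766530) (nat_lit 221) (nat_lit 5) (nat_lit 225) (nat_lit 4) (nat_lit 221) (nat_lit 4) (nat_lit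 394) (nat_lit 313) (nat_lit 313))))))) (XT.nd (nat_lit 1170) (nat_lit 2508) (nat_lit 0) (XT.nd (nat_lit 546) (nat_lit 1748) (nat_lit 0) (XT.nd (nat_lit 234) (nat_lit 836) (nat_lit 0) (XT.nd (nat_lit 78) (nat_lit 608) (nat_lit 0) (XT.lf (nat_lit 0) (nat_lit 2432444613) (nat_lit 304) (nat_lit 4010403372) (nat_lit 304) (nat_lit 3230870670) (nat_lit 217) (nat_lit 4) (nat_lit 221) (nat_lit 5) (nat_lit 221) (nat_lit 4) (nat_lit 395) (nat_lit 313) (nat_lit 312)) (XT.nd (nat_lit 78) (nat_lit 304) (nat_lit 0) (XT.lf (nat_lit 0) (nat_lit 1563929779) (nat_lit 304) (nat_lit 8160452864) (nat_lit 0) (nat_lit 72317577) (nat_lit 213) (nat_lit 5) (nat_lit 217) (nat_lit 4) (nat_lit 213) (nat_lit 4) (nat_lit 396) (nat_lit 313) (nat_lit 311)) (XT.lf (nat_lit 0) (nat_lit 771317368) (nat_lit 304) (nat_lit 5677871349) (nat_lit 304) (nat_lit 3472876297) (nat_lit 209) (nat_lit 4) (nat_lit 213) (nat_lit 5) (nat_lit 213) (nat_lit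 4) (nat_lit 397) (nat_lit 313) (nat_lit 310)))) (XT.nd (nat_lit 156) (nat_lit 532) (nat_lit 0) (XT.nd (nat_lit 78) (nat_lit 228) (nat_lit 0) (XT.lf (nat_lit 0) (nat_lit 1376135699) (nat_lit 380) (nat_lit 104044290) (nat_lit 76) (nat_lit 8571371779) (nat_lit 208) (nat_lit 5) (nat_lit 213) (nat_lit 5) (nat_lit 209) (nat_lit 4) (nat_lit 398) (nat_lit 313) (nat_lit 309)) (XT.lf (nat_lit 0) (nat_lit 6311178411) (nat_lit 304) (nat_lit 1027273921) (nat_lit 0) (nat_lit 2845128394) (nat_lit 205) (nat_lit 5) (nat_lit 209) (nat_lit 4) (nat_lit 205) (nat_lit 4) (nat_lit 399) (nat_lit 313) (nat_lit 308))) (XT.nd (nat_lit 78) (nat_lit 228) (nat_lit 0) (XT.lf (nat_lit 0) (nat_lit 1044581139) (nat_lit 304) (nat_lit 1979381726) (nat_lit 76) (nat_lit 7295572250) (nat_lit 201) (nat_lit 5) (nat_lit 205) (nat_lit 5) (nat_lit 202) (nat_lit 4) (nat_lit 400) (nat_lit 313) (nat_lit 307)) (XT.lf (nat_lit 0) (nat_lit 6023141512)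 (nat_lit 304) (nat_lit 2990292248) (nat_lit 0) (nat_lit 1445227189) (nat_lit 198) (nat_lit 5) (nat_lit 202) (nat_lit 4) (nat_lit 198) (nat_lit 4) (nat_lit 401) (nat_lit 313) (nat_lit 306))))) (XT.nd (nat_lit 312) (nat_lit 760) (nat_lit 0) (XT.nd (nat_lit 156) (nat_lit 456) (nat_lit 0) (XT.nd (nat_lit 78) (nat_lit 228) (nat_lit 0) (XT.lf (nat_lit 0) (nat_lit 547701241) (nat_lit 304) (nat_lit 4046126342) (nat_lit 76) (nat_lit 6007695089) (nat_lit 194) (nat_lit 5) (nat_lit 198) (nat_lit 5) (nat_lit 195) (nat_lit 4) (nat_lit 402) (nat_lit 313) (nat_lit 305)) (XT.lf (nat_lit 0) (nat_lit 5572041225) (nat_lit 304) (nat_lit 5158323724) (nat_lit 0) (nat_lit 17564649) (nat_lit 191) (nat_lit 5) (nat_lit 195) (nat_lit 4) (nat_lit 191) (nat_lit 4) (nat_lit 403) (nat_lit 313) (nat_lit 304))) (XT.nd (nat_lit 78) (nat_lit 228) (nat_lit 0) (XT.lf (nat_lit 0) (nat_lit 4566349065) (nat_lit 228) (nat_lit 6208425099) (nat_lit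 228) (nat_lit 123124686) (nat_lit 188) (nat_lit 4) (nat_lit 191) (nat_lit 5) (nat_lit 191) (nat_lit 4) (nat_lit 404) (nat_lit 313) (nat_lit 303)) (XT.lf (nat_lit 0) (nat_lit 3479202012) (nat_lit 152) (nat_lit 1486248910) (nat_lit 228) (nat_lit 6085949483) (nat_lit 185) (nat_lit 5) (nat_lit 187) (nat_lit 5) (nat_lit 188) (nat_lit 4) (nat_lit 405) (nat_lit 313) (nat_lit 302)))) (XT.nd (nat_lit 156) (nat_lit 304) (nat_lit 0) (XT.nd (nat_lit 78) (nat_lit 228) (nat_lit 0) (XT.lf (nat_lit 0) (nat_lit 2340201268) (nat_lit 228) (nat_lit 7881467706) (nat_lit 228) (nat_lit 987277667) (nat_lit 182) (nat_lit 4) (nat_lit 185) (nat_lit 5) (nat_lit 185) (nat_lit 4) (nat_lit 406) (nat_lit 313) (nat_lit 301)) (XT.lf (nat_lit 0) (nat_lit 1123828889) (nat_lit 152) (nat_lit 3058264230) (nat_lit 228) (nat_lit 7187867845) (nat_lit 179) (nat_lit 5) (nat_lit 181) (nat_lit 5) (nat_lit 182) (nat_lit 4) (nat_lit 407) (nat_lit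 313) (nat_lit 300))) (XT.nd (nat_lit 78) (nat_lit 304) (nat_lit 0) (XT.lf (nat_lit 0) (nat_lit 9494258136) (nat_lit 228) (nat_lit 142607803) (nat_lit 0) (nat_lit 1898419835) (nat_lit 179) (nat_lit 5) (nat_lit 182) (nat_lit 4) (nat_lit 179) (nat_lit 4) (nat_lit 408) (nat_lit 313) (nat_lit 299)) (XT.lf (nat_lit 0) (nat_lit 3227519439) (nat_lit 304) (nat_lit 1475582195) (nat_lit 76) (nat_lit 7000600910) (nat_lit 175) (nat_lit 5) (nat_lit 179) (nat_lit 5) (nat_lit 176) (nat_lit 4) (nat_lit 409) (nat_lit 313) (nat_lit 298)))))) (XT.nd (nat_lit 624) (nat_lit 1216) (nat_lit 0) (XT.nd (nat_lit 312) (nat_lit 532) (nat_lit 0) (XT.nd (nat_lit 156) (nat_lit 380) (nat_lit 0) (XT.nd (nat_lit 78) (nat_lit 228) (nat_lit 0) (XT.lf (nat_lit 0) (nat_lit 8607186358) (nat_lit 228) (nat_lit 2862840076) (nat_lit 0) (nat_lit 406716555) (nat_lit 173) (nat_lit 5) (nat_lit 176) (nat_lit 4) (nat_lit 173) (nat_lit 4) (nat_lit 410)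 (nat_lit 313) (nat_lit 297)) (XT.lf (nat_lit 0) (nat_lit 2091101168) (nat_lit 228) (nat_lit 4350517217) (nat_lit 76) (nat_lit 5611592217) (nat_lit 170) (nat_lit 5) (nat_lit 173) (nat_lit 5) (nat_lit 171) (nat_lit 4) (nat_lit 411) (nat_lit 313) (nat_lit 296))) (XT.nd (nat_lit 78) (nat_lit 228) (nat_lit 0) (XT.lf (nat_lit 0) (nat_lit 6326343775) (nat_lit 152) (nat_lit 1213200461) (nat_lit 228) (nat_lit 4694676441) (nat_lit 168) (nat_lit 5) (nat_lit 170) (nat_lit 5) (nat_lit 171) (nat_lit 4) (nat_lit 412) (nat_lit 313) (nat_lit 295)) (XT.lf (nat_lit 0) (nat_lit 751290853) (nat_lit 228) (nat_lit 7553753532) (nat_lit 76) (nat_lit 4114362783) (nat_lit 165) (nat_lit 5) (nat_lit 168) (nat_lit 5) (nat_lit 166) (nat_lit 4) (nat_lit 413) (nat_lit 313) (nat_lit 294)))) (XT.nd (nat_lit 156) (nat_lit 228) (nat_lit 0) (XT.nd (nat_lit 78) (nat_lit 152) (nat_lit 0) (XT.lf (nat_lit 0) (nat_lit 3305682278) (nat_lit 152)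 (nat_lit 2967959758) (nat_lit 228) (nat_lit 6334891865) (nat_lit 163) (nat_lit 5) (nat_lit 165) (nat_lit 5) (nat_lit 166) (nat_lit 4) (nat_lit 414) (nat_lit 313) (nat_lit 293)) (XT.lf (nat_lit 0) (nat_lit 1677077483) (nat_lit 152) (nat_lit 10305784617) (nat_lit 152) (nat_lit 819836385) (nat_lit 161) (nat_lit 4) (nat_lit 163) (nat_lit 5) (nat_lit 163) (nat_lit 4) (nat_lit 415) (nat_lit 313) (nat_lit 292))) (XT.nd (nat_lit 78) (nat_lit 152) (nat_lit 0) (XT.lf (nat_lit 0) (nat_lit 4794002963) (nat_lit 228) (nat_lit 75279368) (nat_lit 76) (nat_lit 8131158521) (nat_lit 160) (nat_lit 5) (nat_lit 163) (nat_lit 5) (nat_lit 161) (nat_lit 4) (nat_lit 416) (nat_lit 313) (nat_lit 291)) (XT.lf (nat_lit 0) (nat_lit 10583041622) (nat_lit 228) (nat_lit 1861273822) (nat_lit 0) (nat_lit 758858668) (nat_lit 158) (nat_lit 5) (nat_lit 161) (nat_lit 4) (nat_lit 158) (nat_lit 4) (nat_lit 417) (nat_lit 313) (nat_lit 290)))))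 (XT.nd (nat_lit 312) (nat_lit 532) (nat_lit 0) (XT.nd (nat_lit 156) (nat_lit 304) (nat_lit 0) (XT.nd (nat_lit 78) (nat_lit 152) (nat_lit 0) (XT.lf (nat_lit 0) (nat_lit 3122021973) (nat_lit 228) (nat_lit 3780382637) (nat_lit 76) (nat_lit 6507198726) (nat_lit 155) (nat_lit 5) (nat_lit 158) (nat_lit 5) (nat_lit 156) (nat_lit 4) (nat_lit 418) (nat_lit 313) (nat_lit 289)) (XT.lf (nat_lit 0) (nat_lit 7836824737) (nat_lit 152) (nat_lit 1148523021) (nat_lit 228) (nat_lit 4636052358) (nat_lit 153) (nat_lit 5) (nat_lit 155) (nat_lit 5) (nat_lit 156) (nat_lit 4) (nat_lit 419) (nat_lit 313) (nat_lit 288))) (XT.nd (nat_lit 78) (nat_lit 76) (nat_lit 0) (XT.lf (nat_lit 0) (nat_lit 1211549870) (nat_lit 228) (nat_lit 7909936475) (nat_lit 76) (nat_lit 4716233177) (nat_lit 150) (nat_lit 5) (nat_lit 153) (nat_lit 5) (nat_lit 151) (nat_lit 4) (nat_lit 420) (nat_lit 313) (nat_lit 287)) (XT.lf (nat_lit 0) (nat_lit 3898148391)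 (nat_lit 76) (nat_lit 3258827597) (nat_lit 152) (nat_lit 6901708201) (nat_lit 149) (nat_lit 5) (nat_lit 150) (nat_lit 5) (nat_lit 151) (nat_lit 4) (nat_lit 421) (nat_lit 313) (nat_lit 286)))) (XT.nd (nat_lit 156) (nat_lit 304) (nat_lit 0) (XT.nd (nat_lit 78) (nat_lit 76) (nat_lit 0) (XT.lf (nat_lit 0) (nat_lit 1774166794) (nat_lit 152) (nat_lit 11539081496) (nat_lit 152) (nat_lit 972055004) (nat_lit 147) (nat_lit 4) (nat_lit 149) (nat_lit 5) (nat_lit 149) (nat_lit 4) (nat_lit 422) (nat_lit 313) (nat_lit 285)) (XT.lf (nat_lit 0) (nat_lit 5079346034) (nat_lit 228) (nat_lit 494925124) (nat_lit 76) (nat_lit 8941646747) (nat_lit 146) (nat_lit 5) (nat_lit 149) (nat_lit 5) (nat_lit 147) (nat_lit 4) (nat_lit 423) (nat_lit 313) (nat_lit 284))) (XT.nd (nat_lit 78) (nat_lit 228) (nat_lit 0) (XT.lf (nat_lit 0) (nat_lit 11324330159) (nat_lit 152) (nat_lit 2820067501) (nat_lit 0) (nat_lit 607817213) (nat_lit 145)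 (nat_lit 5) (nat_lit 147) (nat_lit 4) (nat_lit 145) (nat_lit 4) (nat_lit 424) (nat_lit 313) (nat_lit 283)) (XT.lf (nat_lit 0) (nat_lit 2772569284) (nat_lit 228) (nat_lit 5306889690) (nat_lit 76) (nat_lit 6913384010) (nat_lit 142) (nat_lit 5) (nat_lit 145) (nat_lit 5) (nat_lit 143) (nat_lit 4) (nat_lit 425) (nat_lit 313) (nat_lit 282))))))))
noncomputable def xc43 : XT := (XT.nd (nat_lit 2340) (nat_lit 2584) (nat_lit 0) (XT.nd (nat_lit 1170) (nat_lit 1292) (nat_lit 0) (XT.nd (nat_lit 546) (nat_lit 912) (nat_lit 0) (XT.nd (nat_lit 234) (nat_lit 532) (nat_lit 0) (XT.nd (nat_lit 78) (nat_lit 304) (nat_lit 0) (XT.lf (nat_lit 0) (nat_lit 7326657986) (nat_lit 76) (nat_lit 1773926268) (nat_lit 152) (nat_lit 6138774168) (nat_lit 141) (nat_lit 5) (nat_lit 142) (nat_lit 5) (nat_lit 143) (nat_lit 4) (nat_lit 426) (nat_lit 313) (nat_lit 281)) (XT.nd (nat_lit 78) (nat_lit 76) (nat_lit 0) (XT.lf (nat_lit 0) (nat_lit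 180797489) (nat_lit 228) (nat_lit 10655958383) (nat_lit 76) (nat_lit 4654735264) (nat_lit 138) (nat_lit 5) (nat_lit 141) (nat_lit 5) (nat_lit 139) (nat_lit 4) (nat_lit 427) (nat_lit 313) (nat_lit 280)) (XT.lf (nat_lit 0) (nat_lit 2175359264) (nat_lit 76) (nat_lit 4422001281) (nat_lit 152) (nat_lit 9151080262) (nat_lit 137) (nat_lit 5) (nat_lit 138) (nat_lit 5) (nat_lit 139) (nat_lit 4) (nat_lit 428) (nat_lit 313) (nat_lit 279)))) (XT.nd (nat_lit 156) (nat_lit 304) (nat_lit 0) (XT.nd (nat_lit 78) (nat_lit 228) (nat_lit 0) (XT.lf (nat_lit 0) (nat_lit 13247938940) (nat_lit 152) (nat_lit 589692647) (nat_lit 0) (nat_lit 2174221829) (nat_lit 137) (nat_lit 5) (nat_lit 139) (nat_lit 4) (nat_lit 137) (nat_lit 4) (nat_lit 429) (nat_lit 313) (nat_lit 278)) (XT.lf (nat_lit 0) (nat_lit 3822723555) (nat_lit 228) (nat_lit 3491405221) (nat_lit 76) (nat_lit 8965470530) (nat_lit 134) (nat_lit 5) (nat_lit 137) (nat_lit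 5) (nat_lit 135) (nat_lit 4) (nat_lit 430) (nat_lit 313) (nat_lit 277))) (XT.nd (nat_lit 78) (nat_lit 228) (nat_lit 0) (XT.lf (nat_lit 0) (nat_lit 10029574571) (nat_lit 76) (nat_lit 538773411) (nat_lit 152) (nat_lit 5985700451) (nat_lit 133) (nat_lit 5) (nat_lit 134) (nat_lit 5) (nat_lit 135) (nat_lit 4) (nat_lit 431) (nat_lit 313) (nat_lit 276)) (XT.lf (nat_lit 0) (nat_lit 747669214) (nat_lit 228) (nat_lit 9736388137) (nat_lit 76) (nat_lit 6350038074) (nat_lit 130) (nat_lit 5) (nat_lit 133) (nat_lit 5) (nat_lit 131) (nat_lit 4) (nat_lit 432) (nat_lit 313) (nat_lit 275))))) (XT.nd (nat_lit 312) (nat_lit 532) (nat_lit 0) (XT.nd (nat_lit 156) (nat_lit 152) (nat_lit 0) (XT.nd (nat_lit 78) (nat_lit 152) (nat_lit 0) (XT.lf (nat_lit 0) (nat_lit 3991045332) (nat_lit 76) (nat_lit 3596732998) (nat_lit 152) (nat_lit 9532236216) (nat_lit 129) (nat_lit 5) (nat_lit 130) (nat_lit 5) (nat_lit 131) (nat_lit 4) (nat_lit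 433) (nat_lit 313) (nat_lit 274)) (XT.lf (nat_lit 0) (nat_lit 734572458) (nat_lit 152) (nat_lit 13953480457) (nat_lit 152) (nat_lit 2724809461) (nat_lit 127) (nat_lit 4) (nat_lit 129) (nat_lit 5) (nat_lit 129) (nat_lit 4) (nat_lit 434) (nat_lit 313) (nat_lit 273))) (XT.nd (nat_lit 78) (nat_lit 76) (nat_lit 0) (XT.lf (nat_lit 0) (nat_lit 4287768110) (nat_lit 228) (nat_lit 2669083165) (nat_lit 76) (nat_lit 10753870742) (nat_lit 126) (nat_lit 5) (nat_lit 129) (nat_lit 5) (nat_lit 127) (nat_lit 4) (nat_lit 435) (nat_lit 313) (nat_lit 272)) (XT.lf (nat_lit 0) (nat_lit 11490042499) (nat_lit 152) (nat_lit 6213875056) (nat_lit 0) (nat_lit 311767979) (nat_lit 125) (nat_lit 5) (nat_lit 127) (nat_lit 4) (nat_lit 125) (nat_lit 4) (nat_lit 436) (nat_lit 313) (nat_lit 271)))) (XT.nd (nat_lit 156) (nat_lit 228) (nat_lit 0) (XT.nd (nat_lit 78) (nat_lit 76) (nat_lit 0) (XT.lf (nat_lit 0) (nat_lit 662479015) (nat_lit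 228) (nat_lit 9965754612) (nat_lit 76) (nat_lit 7698542013) (nat_lit 122) (nat_lit 5) (nat_lit 125) (nat_lit 5) (nat_lit 123) (nat_lit 4) (nat_lit 437) (nat_lit 313) (nat_lit 270)) (XT.lf (nat_lit 0) (nat_lit 4723100000) (nat_lit 76) (nat_lit 3238548150) (nat_lit 152) (nat_lit 10682815117) (nat_lit 121) (nat_lit 5) (nat_lit 122) (nat_lit 5) (nat_lit 123) (nat_lit 4) (nat_lit 438) (nat_lit 313) (nat_lit 269))) (XT.nd (nat_lit 78) (nat_lit 76) (nat_lit 0) (XT.lf (nat_lit 0) (nat_lit 903640932) (nat_lit 152) (nat_lit 14646443087) (nat_lit 152) (nat_lit 3419488755) (nat_lit 119) (nat_lit 4) (nat_lit 121) (nat_lit 5) (nat_lit 121) (nat_lit 4) (nat_lit 439) (nat_lit 313) (nat_lit 268)) (XT.lf (nat_lit 0) (nat_lit 4074524376) (nat_lit 228) (nat_lit 3073227784) (nat_lit 76) (nat_lit 12152750704) (nat_lit 118) (nat_lit 5) (nat_lit 121) (nat_lit 5) (nat_lit 119) (nat_lit 4) (nat_lit 440) (nat_lit 313) (nat_lit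 267)))))) (XT.nd (nat_lit 546) (nat_lit 684) (nat_lit 0) (XT.nd (nat_lit 234) (nat_lit 304) (nat_lit 0) (XT.nd (nat_lit 78) (nat_lit 228) (nat_lit 0) (XT.lf (nat_lit 0) (nat_lit 11770779925) (nat_lit 152) (nat_lit 7222300020) (nat_lit 0) (nat_lit 645880712) (nat_lit 117) (nat_lit 5) (nat_lit 119) (nat_lit 4) (nat_lit 117) (nat_lit 4) (nat_lit 441) (nat_lit 313) (nat_lit 266)) (XT.nd (nat_lit 78) (nat_lit 152) (nat_lit 0) (XT.lf (nat_lit 0) (nat_lit 8385383613) (nat_lit 76) (nat_lit 11415786274) (nat_lit 76) (nat_lit 183304895) (nat_lit 116) (nat_lit 4) (nat_lit 117) (nat_lit 5) (nat_lit 117) (nat_lit 4) (nat_lit 442) (nat_lit 313) (nat_lit 265)) (XT.lf (nat_lit 0) (nat_lit 4121729270) (nat_lit 76) (nat_lit 3493373859) (nat_lit 152) (nat_lit 12722005405) (nat_lit 114) (nat_lit 5) (nat_lit 115) (nat_lit 5) (nat_lit 116) (nat_lit 4) (nat_lit 443) (nat_lit 313) (nat_lit 264)))) (XT.nd (nat_lit 156) (nat_lit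 152) (nat_lit 0) (XT.nd (nat_lit 78) (nat_lit 152) (nat_lit 0) (XT.lf (nat_lit 0) (nat_lit 15727640328) (nat_lit 152) (nat_lit 347651518) (nat_lit 0) (nat_lit 4622459170) (nat_lit 114) (nat_lit 5) (nat_lit 116) (nat_lit 4) (nat_lit 114) (nat_lit 4) (nat_lit 444) (nat_lit 313) (nat_lit 263)) (XT.lf (nat_lit 0) (nat_lit 3069257161) (nat_lit 152) (nat_lit 4970174481) (nat_lit 76) (nat_lit 13025499752) (nat_lit 112) (nat_lit 5) (nat_lit 114) (nat_lit 5) (nat_lit 113) (nat_lit 4) (nat_lit 445) (nat_lit 313) (nat_lit 262))) (XT.nd (nat_lit 78) (nat_lit 76) (nat_lit 0) (XT.lf (nat_lit 0) (nat_lit 11291454400) (nat_lit 152) (nat_lit 9822124805) (nat_lit 0) (nat_lit 326825428) (nat_lit 111) (nat_lit 5) (nat_lit 113) (nat_lit 4) (nat_lit 111) (nat_lit 4) (nat_lit 446) (nat_lit 313) (nat_lit 261)) (XT.lf (nat_lit 0) (nat_lit 6884272461) (nat_lit 76) (nat_lit 12995691664) (nat_lit 76) (nat_lit 1943588546) (nat_lit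 110) (nat_lit 4) (nat_lit 111) (nat_lit 5) (nat_lit 111) (nat_lit 4) (nat_lit 447) (nat_lit 313) (nat_lit 260))))) (XT.nd (nat_lit 312) (nat_lit 304) (nat_lit 0) (XT.nd (nat_lit 156) (nat_lit 228) (nat_lit 0) (XT.nd (nat_lit 78) (nat_lit 0) (nat_lit 0) (XT.lf (nat_lit 0) (nat_lit 1900883248) (nat_lit 76) (nat_lit 4521733855) (nat_lit 152) (nat_lit 15792451011) (nat_lit 108) (nat_lit 5) (nat_lit 109) (nat_lit 5) (nat_lit 110) (nat_lit 4) (nat_lit 448) (nat_lit 313) (nat_lit 259)) (XT.lf (nat_lit 0) (nat_lit 15116866349) (nat_lit 152) (nat_lit 3273236578) (nat_lit 0) (nat_lit 4224165141) (nat_lit 108) (nat_lit 5) (nat_lit 110) (nat_lit 4) (nat_lit 108) (nat_lit 4) (nat_lit 449) (nat_lit 313) (nat_lit 258))) (XT.nd (nat_lit 78) (nat_lit 76) (nat_lit 0) (XT.lf (nat_lit 0) (nat_lit 1135605890) (nat_lit 152) (nat_lit 8665140896) (nat_lit 76) (nat_lit 13221109612) (nat_lit 106) (nat_lit 5) (nat_lit 108) (nat_lit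 5) (nat_lit 107) (nat_lit 4) (nat_lit 450) (nat_lit 313) (nat_lit 257)) (XT.lf (nat_lit 0) (nat_lit 9098562145) (nat_lit 76) (nat_lit 824806803) (nat_lit 152) (nat_lit 13514682812) (nat_lit 105) (nat_lit 5) (nat_lit 106) (nat_lit 5) (nat_lit 107) (nat_lit 4) (nat_lit 451) (nat_lit 313) (nat_lit 256)))) (XT.nd (nat_lit 156) (nat_lit 152) (nat_lit 0) (XT.nd (nat_lit 78) (nat_lit 76) (nat_lit 0) (XT.lf (nat_lit 0) (nat_lit 3549658163) (nat_lit 76) (nat_lit 15554238798) (nat_lit 76) (nat_lit 4758962060) (nat_lit 104) (nat_lit 4) (nat_lit 105) (nat_lit 5) (nat_lit 105) (nat_lit 4) (nat_lit 452) (nat_lit 313) (nat_lit 255)) (XT.lf (nat_lit 0) (nat_lit 4256457080) (nat_lit 152) (nat_lit 2223721764) (nat_lit 76) (nat_lit 17816599021) (nat_lit 103) (nat_lit 5) (nat_lit 105) (nat_lit 5) (nat_lit 104) (nat_lit 4) (nat_lit 453) (nat_lit 313) (nat_lit 254))) (XT.nd (nat_lit 78) (nat_lit 76) (nat_lit 0) (XT.lf (nat_lit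 0) (nat_lit 13562521383) (nat_lit 152) (nat_lit 8226764794) (nat_lit 0) (nat_lit 2949539552) (nat_lit 102) (nat_lit 5) (nat_lit 104) (nat_lit 4) (nat_lit 102) (nat_lit 4) (nat_lit 454) (nat_lit 313) (nat_lit 253)) (XT.lf (nat_lit 0) (nat_lit 10663392434) (nat_lit 76) (nat_lit 12601698950) (nat_lit 76) (nat_lit 1925523934) (nat_lit 101) (nat_lit 4) (nat_lit 102) (nat_lit 5) (nat_lit 102) (nat_lit 4) (nat_lit 455) (nat_lit 313) (nat_lit 252))))))) (XT.nd (nat_lit 1170) (nat_lit 1292) (nat_lit 0) (XT.nd (nat_lit 546) (nat_lit 684) (nat_lit 0) (XT.nd (nat_lit 234) (nat_lit 304) (nat_lit 0) (XT.nd (nat_lit 78) (nat_lit 152) (nat_lit 0) (XT.lf (nat_lit 0) (nat_lit 4507089999) (nat_lit 76) (nat_lit 3002573853) (nat_lit 152) (nat_lit 18142445017) (nat_lit 99) (nat_lit 5) (nat_lit 100) (nat_lit 5) (nat_lit 101) (nat_lit 4) (nat_lit 456) (nat_lit 313) (nat_lit 251)) (XT.nd (nat_lit 78) (nat_lit 152) (nat_lit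 0) (XT.lf (nat_lit 0) (nat_lit 17331624073) (nat_lit 152) (nat_lit 1941969419) (nat_lit 0) (nat_lit 6849009259) (nat_lit 99) (nat_lit 5) (nat_lit 101) (nat_lit 4) (nat_lit 99) (nat_lit 4) (nat_lit 457) (nat_lit 313) (nat_lit 250)) (XT.lf (nat_lit 0) (nat_lit 959078812) (nat_lit 152) (nat_lit 8591831150) (nat_lit 76) (nat_lit 17052025191) (nat_lit 97) (nat_lit 5) (nat_lit 99) (nat_lit 5) (nat_lit 98) (nat_lit 4) (nat_lit 458) (nat_lit 313) (nat_lit 249)))) (XT.nd (nat_lit 156) (nat_lit 152) (nat_lit 0) (XT.nd (nat_lit 78) (nat_lit 76) (nat_lit 0) (XT.lf (nat_lit 0) (nat_lit 10891506584) (nat_lit 152) (nat_lit 15594786649) (nat_lit 0) (nat_lit 606776355) (nat_lit 96) (nat_lit 5) (nat_lit 98) (nat_lit 4) (nat_lit 96) (nat_lit 4) (nat_lit 459) (nat_lit 313) (nat_lit 248)) (XT.lf (nat_lit 0) (nat_lit 4628413360) (nat_lit 76) (nat_lit 16650449055) (nat_lit 76) (nat_lit 6314336985) (nat_lit 95) (nat_lit 4)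 (nat_lit 96) (nat_lit 5) (nat_lit 96) (nat_lit 4) (nat_lit 460) (nat_lit 313) (nat_lit 247))) (XT.nd (nat_lit 78) (nat_lit 76) (nat_lit 0) (XT.lf (nat_lit 0) (nat_lit 3883344798) (nat_lit 152) (nat_lit 2502807411) (nat_lit 76) (nat_lit 21718384608) (nat_lit 94) (nat_lit 5) (nat_lit 96) (nat_lit 5) (nat_lit 95) (nat_lit 4) (nat_lit 461) (nat_lit 313) (nat_lit 246)) (XT.lf (nat_lit 0) (nat_lit 14414544199) (nat_lit 152) (nat_lit 9926129678) (nat_lit 0) (nat_lit 4284029960) (nat_lit 93) (nat_lit 5) (nat_lit 95) (nat_lit 4) (nat_lit 93) (nat_lit 4) (nat_lit 462) (nat_lit 313) (nat_lit 245))))) (XT.nd (nat_lit 312) (nat_lit 380) (nat_lit 0) (XT.nd (nat_lit 156) (nat_lit 76) (nat_lit 0) (XT.nd (nat_lit 78) (nat_lit 152) (nat_lit 0) (XT.lf (nat_lit 0) (nat_lit 11453142713) (nat_lit 76) (nat_lit 13939781084) (nat_lit 76) (nat_lit 3763614744) (nat_lit 92) (nat_lit 4) (nat_lit 93) (nat_lit 5) (nat_lit 93) (nat_lit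 4) (nat_lit 463) (nat_lit 313) (nat_lit 244)) (XT.lf (nat_lit 0) (nat_lit 3848315834) (nat_lit 76) (nat_lit 3082129782) (nat_lit 152) (nat_lit 22769745802) (nat_lit 90) (nat_lit 5) (nat_lit 91) (nat_lit 5) (nat_lit 92) (nat_lit 4) (nat_lit 464) (nat_lit 313) (nat_lit 243))) (XT.nd (nat_lit 78) (nat_lit 76) (nat_lit 0) (XT.lf (nat_lit 0) (nat_lit 18060571176) (nat_lit 152) (nat_lit 4096749742) (nat_lit 0) (nat_lit 8095988408) (nat_lit 90) (nat_lit 5) (nat_lit 92) (nat_lit 4) (nat_lit 90) (nat_lit 4) (nat_lit 465) (nat_lit 313) (nat_lit 242)) (XT.lf (nat_lit 0) (nat_lit 18511118385) (nat_lit 76) (nat_lit 11156379763) (nat_lit 76) (nat_lit 1151235694) (nat_lit 89) (nat_lit 4) (nat_lit 90) (nat_lit 5) (nat_lit 90) (nat_lit 4) (nat_lit 466) (nat_lit 313) (nat_lit 241)))) (XT.nd (nat_lit 156) (nat_lit 152) (nat_lit 0) (XT.nd (nat_lit 78) (nat_lit 76) (nat_lit 0) (XT.lf (nat_lit 0) (nat_lit 10102241190) (nat_lit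 152) (nat_lit 20943250437) (nat_lit 0) (nat_lit 350276169) (nat_lit 87) (nat_lit 5) (nat_lit 89) (nat_lit 4) (nat_lit 87) (nat_lit 4) (nat_lit 467) (nat_lit 313) (nat_lit 240)) (XT.lf (nat_lit 0) (nat_lit 1945557534) (nat_lit 76) (nat_lit 19913811046) (nat_lit 76) (nat_lit 10124726689) (nat_lit 86) (nat_lit 4) (nat_lit 87) (nat_lit 5) (nat_lit 87) (nat_lit 4) (nat_lit 468) (nat_lit 313) (nat_lit 239))) (XT.nd (nat_lit 78) (nat_lit 76) (nat_lit 0) (XT.lf (nat_lit 0) (nat_lit 1500337198) (nat_lit 152) (nat_lit 6779438033) (nat_lit 76) (nat_lit 24305456264) (nat_lit 85) (nat_lit 5) (nat_lit 87) (nat_lit 5) (nat_lit 86) (nat_lit 4) (nat_lit 469) (nat_lit 313) (nat_lit 238)) (XT.lf (nat_lit 0) (nat_lit 13410901645) (nat_lit 152) (nat_lit 15948307184) (nat_lit 0) (nat_lit 3837978266) (nat_lit 84) (nat_lit 5) (nat_lit 86) (nat_lit 4) (nat_lit 84) (nat_lit 4) (nat_lit 470) (nat_lit 313) (nat_lit 237)))))) (XT.nd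 (nat_lit 624) (nat_lit 608) (nat_lit 0) (XT.nd (nat_lit 312) (nat_lit 380) (nat_lit 0) (XT.nd (nat_lit 156) (nat_lit 152) (nat_lit 0) (XT.nd (nat_lit 78) (nat_lit 76) (nat_lit 0) (XT.lf (nat_lit 0) (nat_lit 8263222801) (nat_lit 76) (nat_lit 17582585615) (nat_lit 76) (nat_lit 7976682186) (nat_lit 83) (nat_lit 4) (nat_lit 84) (nat_lit 5) (nat_lit 84) (nat_lit 4) (nat_lit 471) (nat_lit 313) (nat_lit 236)) (XT.lf (nat_lit 0) (nat_lit 4204641524) (nat_lit 152) (nat_lit 1102500598) (nat_lit 76) (nat_lit 29155229396) (nat_lit 82) (nat_lit 5) (nat_lit 84) (nat_lit 5) (nat_lit 83) (nat_lit 4) (nat_lit 472) (nat_lit 313) (nat_lit 235))) (XT.nd (nat_lit 78) (nat_lit 76) (nat_lit 0) (XT.lf (nat_lit 0) (nat_lit 16836635501) (nat_lit 152) (nat_lit 10825830036) (nat_lit 0) (nat_lit 7449247392) (nat_lit 81) (nat_lit 5) (nat_lit 83) (nat_lit 4) (nat_lit 81) (nat_lit 4) (nat_lit 473) (nat_lit 313) (nat_lit 234)) (XT.lf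 (nat_lit 0) (nat_lit 14790991134) (nat_lit 76) (nat_lit 15200951650) (nat_lit 76) (nat_lit 5784261195) (nat_lit 80) (nat_lit 4) (nat_lit 81) (nat_lit 5) (nat_lit 81) (nat_lit 4) (nat_lit 474) (nat_lit 313) (nat_lit 233)))) (XT.nd (nat_lit 156) (nat_lit 228) (nat_lit 0) (XT.nd (nat_lit 78) (nat_lit 0) (nat_lit 0) (XT.lf (nat_lit 0) (nat_lit 4842923773) (nat_lit 76) (nat_lit 2195530960) (nat_lit 152) (nat_lit 29417272246) (nat_lit 78) (nat_lit 5) (nat_lit 79) (nat_lit 5) (nat_lit 80) (nat_lit 4) (nat_lit 475) (nat_lit 313) (nat_lit 232)) (XT.lf (nat_lit 0) (nat_lit 20389697712) (nat_lit 152) (nat_lit 5563573028) (nat_lit 0) (nat_lit 11192843724) (nat_lit 78) (nat_lit 5) (nat_lit 80) (nat_lit 4) (nat_lit 78) (nat_lit 4) (nat_lit 476) (nat_lit 313) (nat_lit 231))) (XT.nd (nat_lit 78) (nat_lit 152) (nat_lit 0) (XT.lf (nat_lit 0) (nat_lit 21546084790) (nat_lit 76) (nat_lit 12764472574) (nat_lit 76) (nat_lit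 3541583831) (nat_lit 77) (nat_lit 4) (nat_lit 78) (nat_lit 5) (nat_lit 78) (nat_lit 4) (nat_lit 477) (nat_lit 313) (nat_lit 230)) (XT.lf (nat_lit 0) (nat_lit 9985818379) (nat_lit 152) (nat_lit 27580230645) (nat_lit 0) (nat_lit 1007017211) (nat_lit 75) (nat_lit 5) (nat_lit 77) (nat_lit 4) (nat_lit 75) (nat_lit 4) (nat_lit 478) (nat_lit 313) (nat_lit 229))))) (XT.nd (nat_lit 312) (nat_lit 304) (nat_lit 0) (XT.nd (nat_lit 156) (nat_lit 228) (nat_lit 0) (XT.nd (nat_lit 78) (nat_lit 76) (nat_lit 0) (XT.lf (nat_lit 0) (nat_lit 24080802441) (nat_lit 152) (nat_lit 148600584) (nat_lit 0) (nat_lit 15078175783) (nat_lit 75) (nat_lit 5) (nat_lit 77) (nat_lit 4) (nat_lit 75) (nat_lit 4) (nat_lit 479) (nat_lit 313) (nat_lit 228)) (XT.lf (nat_lit 0) (nat_lit 28546719485) (nat_lit 76) (nat_lit 10268336438) (nat_lit 76) (nat_lit 1242578238) (nat_lit 74) (nat_lit 4) (nat_lit 75) (nat_lit 5) (nat_lit 75) (nat_lit 4) (nat_lit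 480) (nat_lit 313) (nat_lit 227))) (XT.nd (nat_lit 78) (nat_lit 76) (nat_lit 0) (XT.lf (nat_lit 0) (nat_lit 13056737477) (nat_lit 152) (nat_lit 23493024179) (nat_lit 0) (nat_lit 4272061740) (nat_lit 72) (nat_lit 5) (nat_lit 74) (nat_lit 4) (nat_lit 72) (nat_lit 4) (nat_lit 481) (nat_lit 313) (nat_lit 226)) (XT.lf (nat_lit 0) (nat_lit 5540870167) (nat_lit 76) (nat_lit 22433556192) (nat_lit 76) (nat_lit 13627711817) (nat_lit 71) (nat_lit 4) (nat_lit 72) (nat_lit 5) (nat_lit 72) (nat_lit 4) (nat_lit 482) (nat_lit 313) (nat_lit 225)))) (XT.nd (nat_lit 156) (nat_lit 152) (nat_lit 0) (XT.nd (nat_lit 78) (nat_lit 76) (nat_lit 0) (XT.lf (nat_lit 0) (nat_lit 1097207568) (nat_lit 152) (nat_lit 6599065087) (nat_lit 76) (nat_lit 34703871096) (nat_lit 70) (nat_lit 5) (nat_lit 72) (nat_lit 5) (nat_lit 71) (nat_lit 4) (nat_lit 483) (nat_lit 313) (nat_lit 224)) (XT.lf (nat_lit 0) (nat_lit 16239109214) (nat_lit 152)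 (nat_lit 19321038329) (nat_lit 0) (nat_lit 7650419968) (nat_lit 69) (nat_lit 5) (nat_lit 71) (nat_lit 4) (nat_lit 69) (nat_lit 4) (nat_lit 484) (nat_lit 313) (nat_lit 223))) (XT.nd (nat_lit 78) (nat_lit 76) (nat_lit 0) (XT.lf (nat_lit 0) (nat_lit 11417696730) (nat_lit 76) (nat_lit 20614596895) (nat_lit 76) (nat_lit 12007099588) (nat_lit 68) (nat_lit 4) (nat_lit 69) (nat_lit 5) (nat_lit 69) (nat_lit 4) (nat_lit 485) (nat_lit 313) (nat_lit 222)) (XT.lf (nat_lit 0) (nat_lit 3480543905) (nat_lit 152) (nat_lit 1560253433) (nat_lit 76) (nat_lit 39847079446) (nat_lit 67) (nat_lit 5) (nat_lit 69) (nat_lit 5) (nat_lit 68) (nat_lit 4) (nat_lit 486) (nat_lit 313) (nat_lit 221))))))))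
noncomputable def xc44 : XT := (XT.nd (nat_lit 47346) (nat_lit 0) (nat_lit 4408) (XT.nd (nat_lit 46176) (nat_lit 0) (nat_lit 8436) (XT.nd (nat_lit 546) (nat_lit 228) (nat_lit 0) (XT.nd (nat_lit 234) (nat_lit 228) (nat_lit 0) (XT.nd (nat_lit 78) (nat_lit 228) (nat_lit 0) (XT.lf (nat_lit 0) (nat_lit 19542349647) (nat_lit 152) (nat_lit 15054757131) (nat_lit 0) (nat_lit 11150615703) (nat_lit 66) (nat_lit 5) (nat_lit 68) (nat_lit 4) (nat_lit 66) (nat_lit 4) (nat_lit 487) (nat_lit 313) (nat_lit 220)) (XT.nd (nat_lit 78) (nat_lit 152) (nat_lit 0) (XT.lf (nat_lit 0) (nat_lit 17494454408) (nat_lit 76) (nat_lit 18770985449) (nat_lit 76) (nat_lit 10362540786) (nat_lit 65) (nat_lit 4) (nat_lit 66) (nat_lit 5) (nat_lit 66) (nat_lit 4) (nat_lit 488) (nat_lit 313) (nat_lit 219)) (XT.lf (nat_lit 0) (nat_lit 3702414029) (nat_lit 76) (nat_lit 2271518330) (nat_lit 152) (nat_lit 41554959605) (nat_lit 63) (nat_lit 5) (nat_lit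 64) (nat_lit 5) (nat_lit 65) (nat_lit 4) (nat_lit 489) (nat_lit 313) (nat_lit 218)))) (XT.nd (nat_lit 156) (nat_lit 152) (nat_lit 0) (XT.nd (nat_lit 78) (nat_lit 76) (nat_lit 0) (XT.lf (nat_lit 0) (nat_lit 22976324023) (nat_lit 152) (nat_lit 10684164197) (nat_lit 0) (nat_lit 14781741386) (nat_lit 63) (nat_lit 5) (nat_lit 65) (nat_lit 4) (nat_lit 63) (nat_lit 4) (nat_lit 490) (nat_lit 313) (nat_lit 217)) (XT.lf (nat_lit 0) (nat_lit 23787543787) (nat_lit 76) (nat_lit 16899453594) (nat_lit 76) (nat_lit 8690023700) (nat_lit 62) (nat_lit 4) (nat_lit 63) (nat_lit 5) (nat_lit 63) (nat_lit 4) (nat_lit 491) (nat_lit 313) (nat_lit 216))) (XT.nd (nat_lit 78) (nat_lit 0) (nat_lit 0) (XT.lf (nat_lit 0) (nat_lit 8571404754) (nat_lit 152) (nat_lit 41174388870) (nat_lit 0) (nat_lit 587089504) (nat_lit 60) (nat_lit 5) (nat_lit 62) (nat_lit 4) (nat_lit 60) (nat_lit 4) (nat_lit 492) (nat_lit 313) (nat_lit 215)) (XT.lf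 (nat_lit 0) (nat_lit 26551383073) (nat_lit 152) (nat_lit 6198715251) (nat_lit 0) (nat_lit 18553480480) (nat_lit 60) (nat_lit 5) (nat_lit 62) (nat_lit 4) (nat_lit 60) (nat_lit 4) (nat_lit 493) (nat_lit 313) (nat_lit 214))))) (XT.nd (nat_lit 45318) (nat_lit 0) (nat_lit 11552) (XT.nd (nat_lit 45162) (nat_lit 0) (nat_lit 12768) (XT.nd (nat_lit 78) (nat_lit 152) (nat_lit 0) (XT.lf (nat_lit 0) (nat_lit 30314283150) (nat_lit 76) (nat_lit 14996502816) (nat_lit 76) (nat_lit 6985408627) (nat_lit 59) (nat_lit 4) (nat_lit 60) (nat_lit 5) (nat_lit 60) (nat_lit 4) (nat_lit 494) (nat_lit 313) (nat_lit 213)) (XT.lf (nat_lit 0) (nat_lit 11282034031) (nat_lit 152) (nat_lit 38535800574) (nat_lit 0) (nat_lit 3491838339) (nat_lit 57) (nat_lit 5) (nat_lit 59) (nat_lit 4) (nat_lit 57) (nat_lit 4) (nat_lit 495) (nat_lit 313) (nat_lit 212))) (XT.nd (nat_lit 78) (nat_lit 304) (nat_lit 0) (XT.lf (nat_lit 0) (nat_lit 1190855005)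 (nat_lit 380) (nat_lit 2280357468) (nat_lit 0) (nat_lit 1190855005) (nat_lit 229) (nat_lit 5) (nat_lit 234) (nat_lit 4) (nat_lit 229) (nat_lit 4) (nat_lit 392) (nat_lit 314) (nat_lit 314)) (XT.lf (nat_lit 0) (nat_lit 3960027753) (nat_lit 304) (nat_lit 3152747297) (nat_lit 304) (nat_lit 2325741053) (nat_lit 225) (nat_lit 4) (nat_lit 229) (nat_lit 5) (nat_lit 229) (nat_lit 4) (nat_lit 393) (nat_lit 314) (nat_lit 313)))) (XT.nd (nat_lit 156) (nat_lit 608) (nat_lit 0) (XT.nd (nat_lit 78) (nat_lit 304) (nat_lit 0) (XT.lf (nat_lit 0) (nat_lit 2357897181) (nat_lit 304) (nat_lit 6423009275) (nat_lit 0) (nat_lit 775445796) (nat_lit 221) (nat_lit 5) (nat_lit 225) (nat_lit 4) (nat_lit 221) (nat_lit 4) (nat_lit 394) (nat_lit 314) (nat_lit 312)) (XT.lf (nat_lit 0) (nat_lit 2256842885) (nat_lit 304) (nat_lit 4879715632) (nat_lit 304) (nat_lit 2540436382) (nat_lit 217) (nat_lit 4) (nat_lit 221) (nat_lit 5) (nat_lit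 221) (nat_lit 4) (nat_lit 395) (nat_lit 314) (nat_lit 311))) (XT.nd (nat_lit 78) (nat_lit 304) (nat_lit 0) (XT.lf (nat_lit 0) (nat_lit 1361044753) (nat_lit 228) (nat_lit 823737679) (nat_lit 304) (nat_lit 7616678189) (nat_lit 213) (nat_lit 5) (nat_lit 216) (nat_lit 5) (nat_lit 217) (nat_lit 4) (nat_lit 396) (nat_lit 314) (nat_lit 310)) (XT.lf (nat_lit 0) (nat_lit 406706568) (nat_lit 304) (nat_lit 6599581948) (nat_lit 304) (nat_lit 2922449485) (nat_lit 209) (nat_lit 4) (nat_lit 213) (nat_lit 5) (nat_lit 213) (nat_lit 4) (nat_lit 397) (nat_lit 314) (nat_lit 309)))))) (XT.nd (nat_lit 546) (nat_lit 1520) (nat_lit 0) (XT.nd (nat_lit 234) (nat_lit 988) (nat_lit 0) (XT.nd (nat_lit 78) (nat_lit 532) (nat_lit 0) (XT.lf (nat_lit 0) (nat_lit 1863691711) (nat_lit 380) (nat_lit 566270045) (nat_lit 76) (nat_lit 7629668169) (nat_lit 208) (nat_lit 5) (nat_lit 213) (nat_lit 5) (nat_lit 209) (nat_lit 4) (nat_lit 398)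 (nat_lit 314) (nat_lit 308)) (XT.nd (nat_lit 78) (nat_lit 304) (nat_lit 0) (XT.lf (nat_lit 0) (nat_lit 6733280238) (nat_lit 304) (nat_lit 1583771337) (nat_lit 0) (nat_lit 1876570932) (nat_lit 205) (nat_lit 5) (nat_lit 209) (nat_lit 4) (nat_lit 205) (nat_lit 4) (nat_lit 399) (nat_lit 314) (nat_lit 307)) (XT.lf (nat_lit 0) (nat_lit 1391525507) (nat_lit 304) (nat_lit 2647282837) (nat_lit 76) (nat_lit 6292361969) (nat_lit 201) (nat_lit 5) (nat_lit 205) (nat_lit 5) (nat_lit 202) (nat_lit 4) (nat_lit 400) (nat_lit 314) (nat_lit 306)))) (XT.nd (nat_lit 156) (nat_lit 456) (nat_lit 0) (XT.nd (nat_lit 78) (nat_lit 304) (nat_lit 0) (XT.lf (nat_lit 0) (nat_lit 6302502407) (nat_lit 304) (nat_lit 3760063037) (nat_lit 0) (nat_lit 409758209) (nat_lit 198) (nat_lit 5) (nat_lit 202) (nat_lit 4) (nat_lit 198) (nat_lit 4) (nat_lit 401) (nat_lit 314) (nat_lit 305)) (XT.lf (nat_lit 0) (nat_lit 749545208) (nat_lit 304) (nat_lit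 4934318433) (nat_lit 76) (nat_lit 4933005197) (nat_lit 194) (nat_lit 5) (nat_lit 198) (nat_lit 5) (nat_lit 195) (nat_lit 4) (nat_lit 402) (nat_lit 314) (nat_lit 304))) (XT.nd (nat_lit 78) (nat_lit 228) (nat_lit 0) (XT.lf (nat_lit 0) (nat_lit 4598031795) (nat_lit 228) (nat_lit 1116586705) (nat_lit 304) (nat_lit 5050435266) (nat_lit 191) (nat_lit 5) (nat_lit 194) (nat_lit 5) (nat_lit 195) (nat_lit 4) (nat_lit 403) (nat_lit 314) (nat_lit 303)) (XT.lf (nat_lit 0) (nat_lit 3462323147) (nat_lit 228) (nat_lit 7384431986) (nat_lit 228) (nat_lit 70385773) (nat_lit 188) (nat_lit 4) (nat_lit 191) (nat_lit 5) (nat_lit 191) (nat_lit 4) (nat_lit 404) (nat_lit 314) (nat_lit 302))))) (XT.nd (nat_lit 312) (nat_lit 836) (nat_lit 0) (XT.nd (nat_lit 156) (nat_lit 228) (nat_lit 0) (XT.nd (nat_lit 78) (nat_lit 228) (nat_lit 0) (XT.lf (nat_lit 0) (nat_lit 2246710652) (nat_lit 152) (nat_lit 2709500797) (nat_lit 228) (nat_lit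 6116244283) (nat_lit 185) (nat_lit 5) (nat_lit 187) (nat_lit 5) (nat_lit 188) (nat_lit 4) (nat_lit 405) (nat_lit 314) (nat_lit 301)) (XT.lf (nat_lit 0) (nat_lit 987058068) (nat_lit 228) (nat_lit 9151788125) (nat_lit 228) (nat_lit 1093363273) (nat_lit 182) (nat_lit 4) (nat_lit 185) (nat_lit 5) (nat_lit 185) (nat_lit 4) (nat_lit 406) (nat_lit 314) (nat_lit 300))) (XT.nd (nat_lit 78) (nat_lit 152) (nat_lit 0) (XT.lf (nat_lit 0) (nat_lit 4018593283) (nat_lit 304) (nat_lit 358573793) (nat_lit 76) (nat_lit 7017871836) (nat_lit 181) (nat_lit 5) (nat_lit 185) (nat_lit 5) (nat_lit 182) (nat_lit 4) (nat_lit 407) (nat_lit 314) (nat_lit 299)) (XT.lf (nat_lit 0) (nat_lit 9266108796) (nat_lit 228) (nat_lit 1729964027) (nat_lit 0) (nat_lit 566230383) (nat_lit 179) (nat_lit 5) (nat_lit 182) (nat_lit 4) (nat_lit 179) (nat_lit 4) (nat_lit 408) (nat_lit 314) (nat_lit 298)))) (XT.nd (nat_lit 156) (nat_lit 380) (nat_lit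 0) (XT.nd (nat_lit 78) (nat_lit 152) (nat_lit 0) (XT.lf (nat_lit 0) (nat_lit 2913318792) (nat_lit 304) (nat_lit 3204878504) (nat_lit 76) (nat_lit 5614516658) (nat_lit 175) (nat_lit 5) (nat_lit 179) (nat_lit 5) (nat_lit 176) (nat_lit 4) (nat_lit 409) (nat_lit 314) (nat_lit 297)) (XT.lf (nat_lit 0) (nat_lit 7169664027) (nat_lit 152) (nat_lit 1054676835) (nat_lit 228) (nat_lit 3683472883) (nat_lit 173) (nat_lit 5) (nat_lit 175) (nat_lit 5) (nat_lit 176) (nat_lit 4) (nat_lit 410) (nat_lit 314) (nat_lit 296))) (XT.nd (nat_lit 78) (nat_lit 152) (nat_lit 0) (XT.lf (nat_lit 0) (nat_lit 1608611661) (nat_lit 228) (nat_lit 6366295717) (nat_lit 76) (nat_lit 4111792852) (nat_lit 170) (nat_lit 5) (nat_lit 173) (nat_lit 5) (nat_lit 171) (nat_lit 4) (nat_lit 411) (nat_lit 314) (nat_lit 295)) (XT.lf (nat_lit 0) (nat_lit 4185465484) (nat_lit 152) (nat_lit 2804461625) (nat_lit 228) (nat_lit 5279797024) (nat_lit 168) (nat_lit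 5) (nat_lit 170) (nat_lit 5) (nat_lit 171) (nat_lit 4) (nat_lit 412) (nat_lit 314) (nat_lit 294))))))) (XT.nd (nat_lit 1170) (nat_lit 1824) (nat_lit 0) (XT.nd (nat_lit 546) (nat_lit 1064) (nat_lit 0) (XT.nd (nat_lit 234) (nat_lit 760) (nat_lit 0) (XT.nd (nat_lit 78) (nat_lit 152) (nat_lit 0) (XT.lf (nat_lit 0) (nat_lit 93121130) (nat_lit 228) (nat_lit 9874606583) (nat_lit 76) (nat_lit 2489885656) (nat_lit 165) (nat_lit 5) (nat_lit 168) (nat_lit 5) (nat_lit 166) (nat_lit 4) (nat_lit 413) (nat_lit 314) (nat_lit 293)) (XT.nd (nat_lit 78) (nat_lit 0) (nat_lit 0) (XT.lf (nat_lit 0) (nat_lit 853338822) (nat_lit 152) (nat_lit 4692324686) (nat_lit 228) (nat_lit 7103170857) (nat_lit 163) (nat_lit 5) (nat_lit 165) (nat_lit 5) (nat_lit 166) (nat_lit 4) (nat_lit 414) (nat_lit 314) (nat_lit 292)) (XT.lf (nat_lit 0) (nat_lit 11176145096) (nat_lit 228) (nat_lit 915546608) (nat_lit 0) (nat_lit 753669399) (nat_lit 163)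 (nat_lit 5) (nat_lit 166) (nat_lit 4) (nat_lit 163) (nat_lit 4) (nat_lit 415) (nat_lit 314) (nat_lit 291)))) (XT.nd (nat_lit 156) (nat_lit 380) (nat_lit 0) (XT.nd (nat_lit 78) (nat_lit 152) (nat_lit 0) (XT.lf (nat_lit 0) (nat_lit 3906183861) (nat_lit 228) (nat_lit 2804725517) (nat_lit 76) (nat_lit 6334089453) (nat_lit 160) (nat_lit 5) (nat_lit 163) (nat_lit 5) (nat_lit 161) (nat_lit 4) (nat_lit 416) (nat_lit 314) (nat_lit 290)) (XT.lf (nat_lit 0) (nat_lit 8482695953) (nat_lit 152) (nat_lit 1132917902) (nat_lit 228) (nat_lit 3634506498) (nat_lit 158) (nat_lit 5) (nat_lit 160) (nat_lit 5) (nat_lit 161) (nat_lit 4) (nat_lit 417) (nat_lit 314) (nat_lit 289))) (XT.nd (nat_lit 78) (nat_lit 152) (nat_lit 0) (XT.lf (nat_lit 0) (nat_lit 2042090843) (nat_lit 228) (nat_lit 6855433707) (nat_lit 76) (nat_lit 4561878086) (nat_lit 155) (nat_lit 5) (nat_lit 158) (nat_lit 5) (nat_lit 156) (nat_lit 4) (nat_lit 418) (nat_lit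 314) (nat_lit 288)) (XT.lf (nat_lit 0) (nat_lit 4617214876) (nat_lit 152) (nat_lit 3212896441) (nat_lit 228) (nat_lit 5843347258) (nat_lit 153) (nat_lit 5) (nat_lit 155) (nat_lit 5) (nat_lit 156) (nat_lit 4) (nat_lit 419) (nat_lit 314) (nat_lit 287))))) (XT.nd (nat_lit 312) (nat_lit 532) (nat_lit 0) (XT.nd (nat_lit 156) (nat_lit 228) (nat_lit 0) (XT.nd (nat_lit 78) (nat_lit 152) (nat_lit 0) (XT.lf (nat_lit 0) (nat_lit 2539955512) (nat_lit 152) (nat_lit 11281819504) (nat_lit 152) (nat_lit 71261098) (nat_lit 151) (nat_lit 4) (nat_lit 153) (nat_lit 5) (nat_lit 153) (nat_lit 4) (nat_lit 420) (nat_lit 314) (nat_lit 286)) (XT.lf (nat_lit 0) (nat_lit 303580945) (nat_lit 76) (nat_lit 5493297759) (nat_lit 152) (nat_lit 8319502933) (nat_lit 149) (nat_lit 5) (nat_lit 150) (nat_lit 5) (nat_lit 151) (nat_lit 4) (nat_lit 421) (nat_lit 314) (nat_lit 285))) (XT.nd (nat_lit 78) (nat_lit 228) (nat_lit 0) (XT.lf (nat_lit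 0) (nat_lit 11870637936) (nat_lit 152) (nat_lit 1973348848) (nat_lit 0) (nat_lit 501489351) (nat_lit 149) (nat_lit 5) (nat_lit 151) (nat_lit 4) (nat_lit 149) (nat_lit 4) (nat_lit 422) (nat_lit 314) (nat_lit 284)) (XT.lf (nat_lit 0) (nat_lit 3542438757) (nat_lit 228) (nat_lit 4410008665) (nat_lit 76) (nat_lit 6625980157) (nat_lit 146) (nat_lit 5) (nat_lit 149) (nat_lit 5) (nat_lit 147) (nat_lit 4) (nat_lit 423) (nat_lit 314) (nat_lit 283)))) (XT.nd (nat_lit 156) (nat_lit 228) (nat_lit 0) (XT.nd (nat_lit 78) (nat_lit 228) (nat_lit 0) (XT.lf (nat_lit 0) (nat_lit 7863911053) (nat_lit 76) (nat_lit 1835755725) (nat_lit 152) (nat_lit 5117690453) (nat_lit 145) (nat_lit 5) (nat_lit 146) (nat_lit 5) (nat_lit 147) (nat_lit 4) (nat_lit 424) (nat_lit 314) (nat_lit 282)) (XT.lf (nat_lit 0) (nat_lit 1013451038) (nat_lit 228) (nat_lit 9636970994) (nat_lit 76) (nat_lit 4411119214) (nat_lit 142) (nat_lit 5) (nat_lit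 145) (nat_lit 5) (nat_lit 143) (nat_lit 4) (nat_lit 425) (nat_lit 314) (nat_lit 281))) (XT.nd (nat_lit 78) (nat_lit 152) (nat_lit 0) (XT.lf (nat_lit 0) (nat_lit 2828833852) (nat_lit 76) (nat_lit 4426953837) (nat_lit 152) (nat_lit 8054839345) (nat_lit 141) (nat_lit 5) (nat_lit 142) (nat_lit 5) (nat_lit 143) (nat_lit 4) (nat_lit 426) (nat_lit 314) (nat_lit 280)) (XT.lf (nat_lit 0) (nat_lit 121656664) (nat_lit 152) (nat_lit 13596328742) (nat_lit 152) (nat_lit 1848222259) (nat_lit 139) (nat_lit 4) (nat_lit 141) (nat_lit 5) (nat_lit 141) (nat_lit 4) (nat_lit 427) (nat_lit 314) (nat_lit 279)))))) (XT.nd (nat_lit 624) (nat_lit 836) (nat_lit 0) (XT.nd (nat_lit 312) (nat_lit 532) (nat_lit 0) (XT.nd (nat_lit 156) (nat_lit 304) (nat_lit 0) (XT.nd (nat_lit 78) (nat_lit 76) (nat_lit 0) (XT.lf (nat_lit 0) (nat_lit 4541226099) (nat_lit 228) (nat_lit 2718063479) (nat_lit 76) (nat_lit 8566296151) (nat_lit 138) (nat_lit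 5) (nat_lit 141) (nat_lit 5) (nat_lit 139) (nat_lit 4) (nat_lit 428) (nat_lit 314) (nat_lit 278)) (XT.lf (nat_lit 0) (nat_lit 10417237093) (nat_lit 76) (nat_lit 684802803) (nat_lit 152) (nat_lit 4989651380) (nat_lit 137) (nat_lit 5) (nat_lit 138) (nat_lit 5) (nat_lit 139) (nat_lit 4) (nat_lit 429) (nat_lit 314) (nat_lit 277))) (XT.nd (nat_lit 78) (nat_lit 76) (nat_lit 0) (XT.lf (nat_lit 0) (nat_lit 1541381088) (nat_lit 228) (nat_lit 8810531173) (nat_lit 76) (nat_lit 6011137891) (nat_lit 134) (nat_lit 5) (nat_lit 137) (nat_lit 5) (nat_lit 135) (nat_lit 4) (nat_lit 430) (nat_lit 314) (nat_lit 276)) (XT.lf (nat_lit 0) (nat_lit 4525069124) (nat_lit 76) (nat_lit 3668139455) (nat_lit 152) (nat_lit 8447104608) (nat_lit 133) (nat_lit 5) (nat_lit 134) (nat_lit 5) (nat_lit 135) (nat_lit 4) (nat_lit 431) (nat_lit 314) (nat_lit 275)))) (XT.nd (nat_lit 156) (nat_lit 304) (nat_lit 0) (XT.nd (nat_lit 78) (nat_lit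 76) (nat_lit 0) (XT.lf (nat_lit 0) (nat_lit 1354284234) (nat_lit 152) (nat_lit 13741288737) (nat_lit 152) (nat_lit 1828791678) (nat_lit 131) (nat_lit 4) (nat_lit 133) (nat_lit 5) (nat_lit 133) (nat_lit 4) (nat_lit 432) (nat_lit 314) (nat_lit 274)) (XT.lf (nat_lit 0) (nat_lit 4967895941) (nat_lit 228) (nat_lit 1981054741) (nat_lit 76) (nat_lit 10264233707) (nat_lit 130) (nat_lit 5) (nat_lit 133) (nat_lit 5) (nat_lit 131) (nat_lit 4) (nat_lit 433) (nat_lit 314) (nat_lit 273))) (XT.nd (nat_lit 78) (nat_lit 228) (nat_lit 0) (XT.lf (nat_lit 0) (nat_lit 11968615133) (nat_lit 152) (nat_lit 5430820052) (nat_lit 0) (nat_lit 109583695) (nat_lit 129) (nat_lit 5) (nat_lit 131) (nat_lit 4) (nat_lit 129) (nat_lit 4) (nat_lit 434) (nat_lit 314) (nat_lit 272)) (XT.lf (nat_lit 0) (nat_lit 1432731147) (nat_lit 228) (nat_lit 9090957534) (nat_lit 76) (nat_lit 7286833349) (nat_lit 126) (nat_lit 5) (nat_lit 129) (nat_lit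 5) (nat_lit 127) (nat_lit 4) (nat_lit 435) (nat_lit 314) (nat_lit 271))))) (XT.nd (nat_lit 312) (nat_lit 456) (nat_lit 0) (XT.nd (nat_lit 156) (nat_lit 152) (nat_lit 0) (XT.nd (nat_lit 78) (nat_lit 152) (nat_lit 0) (XT.lf (nat_lit 0) (nat_lit 5177807024) (nat_lit 76) (nat_lit 3351006106) (nat_lit 152) (nat_lit 9589858188) (nat_lit 125) (nat_lit 5) (nat_lit 126) (nat_lit 5) (nat_lit 127) (nat_lit 4) (nat_lit 436) (nat_lit 314) (nat_lit 270)) (XT.lf (nat_lit 0) (nat_lit 1462145816) (nat_lit 152) (nat_lit 14441312352) (nat_lit 152) (nat_lit 2530636501) (nat_lit 123) (nat_lit 4) (nat_lit 125) (nat_lit 5) (nat_lit 125) (nat_lit 4) (nat_lit 437) (nat_lit 314) (nat_lit 269))) (XT.nd (nat_lit 78) (nat_lit 76) (nat_lit 0) (XT.lf (nat_lit 0) (nat_lit 4733196023) (nat_lit 228) (nat_lit 2427005139) (nat_lit 76) (nat_lit 11594852468) (nat_lit 122) (nat_lit 5) (nat_lit 125) (nat_lit 5) (nat_lit 123) (nat_lit 4) (nat_lit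 438) (nat_lit 314) (nat_lit 268)) (XT.lf (nat_lit 0) (nat_lit 12211972226) (nat_lit 152) (nat_lit 6461914049) (nat_lit 0) (nat_lit 409566651) (nat_lit 121) (nat_lit 5) (nat_lit 123) (nat_lit 4) (nat_lit 121) (nat_lit 4) (nat_lit 439) (nat_lit 314) (nat_lit 267)))) (XT.nd (nat_lit 156) (nat_lit 152) (nat_lit 0) (XT.nd (nat_lit 78) (nat_lit 76) (nat_lit 0) (XT.lf (nat_lit 0) (nat_lit 586701548) (nat_lit 228) (nat_lit 10725535352) (nat_lit 76) (nat_lit 8106237348) (nat_lit 118) (nat_lit 5) (nat_lit 121) (nat_lit 5) (nat_lit 119) (nat_lit 4) (nat_lit 440) (nat_lit 314) (nat_lit 266)) (XT.lf (nat_lit 0) (nat_lit 4543149090) (nat_lit 76) (nat_lit 3619657912) (nat_lit 152) (nat_lit 11597729541) (nat_lit 117) (nat_lit 5) (nat_lit 118) (nat_lit 5) (nat_lit 119) (nat_lit 4) (nat_lit 441) (nat_lit 314) (nat_lit 265))) (XT.nd (nat_lit 78) (nat_lit 76) (nat_lit 0) (XT.lf (nat_lit 0) (nat_lit 191170688) (nat_lit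 76) (nat_lit 15850456877) (nat_lit 76) (nat_lit 4068970186) (nat_lit 116) (nat_lit 4) (nat_lit 117) (nat_lit 5) (nat_lit 117) (nat_lit 4) (nat_lit 442) (nat_lit 314) (nat_lit 264)) (XT.lf (nat_lit 0) (nat_lit 3727663456) (nat_lit 152) (nat_lit 4315736384) (nat_lit 76) (nat_lit 12423280135) (nat_lit 115) (nat_lit 5) (nat_lit 117) (nat_lit 5) (nat_lit 116) (nat_lit 4) (nat_lit 443) (nat_lit 314) (nat_lit 263))))))))
noncomputable def xc45 : XT := (XT.nd (nat_lit 2340) (nat_lit 1672) (nat_lit 0) (XT.nd (nat_lit 1170) (nat_lit 1292) (nat_lit 0) (XT.nd (nat_lit 546) (nat_lit 684) (nat_lit 0) (XT.nd (nat_lit 234) (nat_lit 304) (nat_lit 0) (XT.nd (nat_lit 78) (nat_lit 228) (nat_lit 0) (XT.lf (nat_lit 0) (nat_lit 11715813467) (nat_lit 152) (nat_lit 9031802014) (nat_lit 0) (nat_lit 83438591) (nat_lit 114) (nat_lit 5) (nat_lit 116) (nat_lit 4) (nat_lit 114) (nat_lit 4) (nat_lit 444) (nat_lit 314) (nat_lit 262))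 (XT.nd (nat_lit 78) (nat_lit 152) (nat_lit 0) (XT.lf (nat_lit 0) (nat_lit 7195385828) (nat_lit 76) (nat_lit 12866303658) (nat_lit 76) (nat_lit 1141127461) (nat_lit 113) (nat_lit 4) (nat_lit 114) (nat_lit 5) (nat_lit 114) (nat_lit 4) (nat_lit 445) (nat_lit 314) (nat_lit 261)) (XT.lf (nat_lit 0) (nat_lit 2342242141) (nat_lit 76) (nat_lit 4631904020) (nat_lit 152) (nat_lit 14608348836) (nat_lit 111) (nat_lit 5) (nat_lit 112) (nat_lit 5) (nat_lit 113) (nat_lit 4) (nat_lit 446) (nat_lit 314) (nat_lit 260)))) (XT.nd (nat_lit 156) (nat_lit 152) (nat_lit 0) (XT.nd (nat_lit 78) (nat_lit 152) (nat_lit 0) (XT.lf (nat_lit 0) (nat_lit 15415218285) (nat_lit 152) (nat_lit 2695696306) (nat_lit 0) (nat_lit 3859151573) (nat_lit 111) (nat_lit 5) (nat_lit 113) (nat_lit 4) (nat_lit 111) (nat_lit 4) (nat_lit 447) (nat_lit 314) (nat_lit 259)) (XT.lf (nat_lit 0) (nat_lit 1819664955) (nat_lit 152) (nat_lit 7944599623) (nat_lit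 76) (nat_lit 12601097069) (nat_lit 109) (nat_lit 5) (nat_lit 111) (nat_lit 5) (nat_lit 110) (nat_lit 4) (nat_lit 448) (nat_lit 314) (nat_lit 258))) (XT.nd (nat_lit 78) (nat_lit 76) (nat_lit 0) (XT.lf (nat_lit 0) (nat_lit 9308744744) (nat_lit 76) (nat_lit 1049538735) (nat_lit 152) (nat_lit 12410947043) (nat_lit 108) (nat_lit 5) (nat_lit 109) (nat_lit 5) (nat_lit 110) (nat_lit 4) (nat_lit 449) (nat_lit 314) (nat_lit 257)) (XT.lf (nat_lit 0) (nat_lit 3917084103) (nat_lit 76) (nat_lit 15358581155) (nat_lit 76) (nat_lit 3905872063) (nat_lit 107) (nat_lit 4) (nat_lit 108) (nat_lit 5) (nat_lit 108) (nat_lit 4) (nat_lit 450) (nat_lit 314) (nat_lit 256))))) (XT.nd (nat_lit 312) (nat_lit 304) (nat_lit 0) (XT.nd (nat_lit 156) (nat_lit 228) (nat_lit 0) (XT.nd (nat_lit 78) (nat_lit 76) (nat_lit 0) (XT.lf (nat_lit 0) (nat_lit 4835071659) (nat_lit 152) (nat_lit 1710771843) (nat_lit 76) (nat_lit 17056706660) (nat_lit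 106) (nat_lit 5) (nat_lit 108) (nat_lit 5) (nat_lit 107) (nat_lit 4) (nat_lit 451) (nat_lit 314) (nat_lit 255)) (XT.lf (nat_lit 0) (nat_lit 13874011361) (nat_lit 152) (nat_lit 7542894776) (nat_lit 0) (nat_lit 2614698936) (nat_lit 105) (nat_lit 5) (nat_lit 107) (nat_lit 4) (nat_lit 105) (nat_lit 4) (nat_lit 452) (nat_lit 314) (nat_lit 254))) (XT.nd (nat_lit 78) (nat_lit 152) (nat_lit 0) (XT.lf (nat_lit 0) (nat_lit 10803990314) (nat_lit 76) (nat_lit 12496206531) (nat_lit 76) (nat_lit 1169852457) (nat_lit 104) (nat_lit 4) (nat_lit 105) (nat_lit 5) (nat_lit 105) (nat_lit 4) (nat_lit 453) (nat_lit 314) (nat_lit 253)) (XT.lf (nat_lit 0) (nat_lit 4813856432) (nat_lit 76) (nat_lit 3169049718) (nat_lit 152) (nat_lit 16934812389) (nat_lit 102) (nat_lit 5) (nat_lit 103) (nat_lit 5) (nat_lit 104) (nat_lit 4) (nat_lit 454) (nat_lit 314) (nat_lit 252)))) (XT.nd (nat_lit 156) (nat_lit 152) (nat_lit 0) (XT.nd (nat_lit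 78) (nat_lit 152) (nat_lit 0) (XT.lf (nat_lit 0) (nat_lit 17518067179) (nat_lit 152) (nat_lit 1459402095) (nat_lit 0) (nat_lit 6397061123) (nat_lit 102) (nat_lit 5) (nat_lit 104) (nat_lit 4) (nat_lit 102) (nat_lit 4) (nat_lit 455) (nat_lit 314) (nat_lit 251)) (XT.lf (nat_lit 0) (nat_lit 1602258740) (nat_lit 152) (nat_lit 7927986449) (nat_lit 76) (nat_lit 16310255108) (nat_lit 100) (nat_lit 5) (nat_lit 102) (nat_lit 5) (nat_lit 101) (nat_lit 4) (nat_lit 456) (nat_lit 314) (nat_lit 250))) (XT.nd (nat_lit 78) (nat_lit 76) (nat_lit 0) (XT.lf (nat_lit 0) (nat_lit 11248584546) (nat_lit 152) (nat_lit 14730164418) (nat_lit 0) (nat_lit 337514247) (nat_lit 99) (nat_lit 5) (nat_lit 101) (nat_lit 4) (nat_lit 99) (nat_lit 4) (nat_lit 457) (nat_lit 314) (nat_lit 249)) (XT.lf (nat_lit 0) (nat_lit 4910621195) (nat_lit 76) (nat_lit 16428310089) (nat_lit 76) (nat_lit 5462728794) (nat_lit 98) (nat_lit 4) (nat_lit 99)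 (nat_lit 5) (nat_lit 99) (nat_lit 4) (nat_lit 458) (nat_lit 314) (nat_lit 248)))))) (XT.nd (nat_lit 546) (nat_lit 684) (nat_lit 0) (XT.nd (nat_lit 234) (nat_lit 380) (nat_lit 0) (XT.nd (nat_lit 78) (nat_lit 152) (nat_lit 0) (XT.lf (nat_lit 0) (nat_lit 4426386161) (nat_lit 152) (nat_lit 2032940684) (nat_lit 76) (nat_lit 20838540313) (nat_lit 97) (nat_lit 5) (nat_lit 99) (nat_lit 5) (nat_lit 98) (nat_lit 4) (nat_lit 459) (nat_lit 314) (nat_lit 247)) (XT.nd (nat_lit 78) (nat_lit 76) (nat_lit 0) (XT.lf (nat_lit 0) (nat_lit 14653687691) (nat_lit 152) (nat_lit 9242885773) (nat_lit 0) (nat_lit 3906225135) (nat_lit 96) (nat_lit 5) (nat_lit 98) (nat_lit 4) (nat_lit 96) (nat_lit 4) (nat_lit 460) (nat_lit 314) (nat_lit 246)) (XT.lf (nat_lit 0) (nat_lit 11520149997) (nat_lit 76) (nat_lit 13797365815) (nat_lit 76) (nat_lit 3001470945) (nat_lit 95) (nat_lit 4) (nat_lit 96) (nat_lit 5) (nat_lit 96) (nat_lit 4) (nat_lit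 461) (nat_lit 314) (nat_lit 245)))) (XT.nd (nat_lit 156) (nat_lit 228) (nat_lit 0) (XT.nd (nat_lit 78) (nat_lit 0) (nat_lit 0) (XT.lf (nat_lit 0) (nat_lit 4125155145) (nat_lit 76) (nat_lit 3248279179) (nat_lit 152) (nat_lit 21473030922) (nat_lit 93) (nat_lit 5) (nat_lit 94) (nat_lit 5) (nat_lit 95) (nat_lit 4) (nat_lit 462) (nat_lit 314) (nat_lit 244)) (XT.lf (nat_lit 0) (nat_lit 18178162705) (nat_lit 152) (nat_lit 3598609937) (nat_lit 0) (nat_lit 7606736846) (nat_lit 93) (nat_lit 5) (nat_lit 95) (nat_lit 4) (nat_lit 93) (nat_lit 4) (nat_lit 463) (nat_lit 314) (nat_lit 243))) (XT.nd (nat_lit 78) (nat_lit 152) (nat_lit 0) (XT.lf (nat_lit 0) (nat_lit 18357086669) (nat_lit 76) (nat_lit 11094844392) (nat_lit 76) (nat_lit 480387050) (nat_lit 92) (nat_lit 4) (nat_lit 93) (nat_lit 5) (nat_lit 93) (nat_lit 4) (nat_lit 464) (nat_lit 314) (nat_lit 242)) (XT.lf (nat_lit 0) (nat_lit 10435188306) (nat_lit 152) (nat_lit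 19967775361) (nat_lit 0) (nat_lit 89328614) (nat_lit 90) (nat_lit 5) (nat_lit 92) (nat_lit 4) (nat_lit 90) (nat_lit 4) (nat_lit 465) (nat_lit 314) (nat_lit 241))))) (XT.nd (nat_lit 312) (nat_lit 380) (nat_lit 0) (XT.nd (nat_lit 156) (nat_lit 152) (nat_lit 0) (XT.nd (nat_lit 78) (nat_lit 76) (nat_lit 0) (XT.lf (nat_lit 0) (nat_lit 2260517194) (nat_lit 76) (nat_lit 19594033074) (nat_lit 76) (nat_lit 9208793480) (nat_lit 89) (nat_lit 4) (nat_lit 90) (nat_lit 5) (nat_lit 90) (nat_lit 4) (nat_lit 466) (nat_lit 314) (nat_lit 240)) (XT.lf (nat_lit 0) (nat_lit 2066628373) (nat_lit 152) (nat_lit 6228216911) (nat_lit 76) (nat_lit 23351914652) (nat_lit 88) (nat_lit 5) (nat_lit 90) (nat_lit 5) (nat_lit 89) (nat_lit 4) (nat_lit 467) (nat_lit 314) (nat_lit 239))) (XT.nd (nat_lit 78) (nat_lit 76) (nat_lit 0) (XT.lf (nat_lit 0) (nat_lit 13632332030) (nat_lit 152) (nat_lit 15132080475) (nat_lit 0) (nat_lit 3476417617)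 (nat_lit 87) (nat_lit 5) (nat_lit 89) (nat_lit 4) (nat_lit 87) (nat_lit 4) (nat_lit 468) (nat_lit 314) (nat_lit 238)) (XT.lf (nat_lit 0) (nat_lit 8380259701) (nat_lit 76) (nat_lit 17329215798) (nat_lit 76) (nat_lit 7138312851) (nat_lit 86) (nat_lit 4) (nat_lit 87) (nat_lit 5) (nat_lit 87) (nat_lit 4) (nat_lit 469) (nat_lit 314) (nat_lit 237)))) (XT.nd (nat_lit 156) (nat_lit 228) (nat_lit 0) (XT.nd (nat_lit 78) (nat_lit 76) (nat_lit 0) (XT.lf (nat_lit 0) (nat_lit 4677340373) (nat_lit 152) (nat_lit 729871438) (nat_lit 76) (nat_lit 28061616837) (nat_lit 85) (nat_lit 5) (nat_lit 87) (nat_lit 5) (nat_lit 86) (nat_lit 4) (nat_lit 470) (nat_lit 314) (nat_lit 236)) (XT.lf (nat_lit 0) (nat_lit 16943232576) (nat_lit 152) (nat_lit 10171817486) (nat_lit 0) (nat_lit 6984152531) (nat_lit 84) (nat_lit 5) (nat_lit 86) (nat_lit 4) (nat_lit 84) (nat_lit 4) (nat_lit 471) (nat_lit 314) (nat_lit 235))) (XT.nd (nat_lit 78)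 (nat_lit 152) (nat_lit 0) (XT.lf (nat_lit 0) (nat_lit 14704735469) (nat_lit 76) (nat_lit 15014822745) (nat_lit 76) (nat_lit 5024655841) (nat_lit 83) (nat_lit 4) (nat_lit 84) (nat_lit 5) (nat_lit 84) (nat_lit 4) (nat_lit 472) (nat_lit 314) (nat_lit 234)) (XT.lf (nat_lit 0) (nat_lit 5036382208) (nat_lit 76) (nat_lit 2380726426) (nat_lit 152) (nat_lit 27986544193) (nat_lit 81) (nat_lit 5) (nat_lit 82) (nat_lit 5) (nat_lit 83) (nat_lit 4) (nat_lit 473) (nat_lit 314) (nat_lit 233))))))) (XT.nd (nat_lit 1170) (nat_lit 532) (nat_lit 0) (XT.nd (nat_lit 546) (nat_lit 608) (nat_lit 0) (XT.nd (nat_lit 234) (nat_lit 304) (nat_lit 0) (XT.nd (nat_lit 78) (nat_lit 228) (nat_lit 0) (XT.lf (nat_lit 0) (nat_lit 20377882285) (nat_lit 152) (nat_lit 5075157710) (nat_lit 0) (nat_lit 10620939890) (nat_lit 81) (nat_lit 5) (nat_lit 83) (nat_lit 4) (nat_lit 81) (nat_lit 4) (nat_lit 474) (nat_lit 314) (nat_lit 232)) (XT.nd (nat_lit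 78) (nat_lit 152) (nat_lit 0) (XT.lf (nat_lit 0) (nat_lit 21250604887) (nat_lit 76) (nat_lit 12646640770) (nat_lit 76) (nat_lit 2862078103) (nat_lit 80) (nat_lit 4) (nat_lit 81) (nat_lit 5) (nat_lit 81) (nat_lit 4) (nat_lit 475) (nat_lit 314) (nat_lit 231)) (XT.lf (nat_lit 0) (nat_lit 10261555518) (nat_lit 152) (nat_lit 26461539498) (nat_lit 0) (nat_lit 735945358) (nat_lit 78) (nat_lit 5) (nat_lit 80) (nat_lit 4) (nat_lit 78) (nat_lit 4) (nat_lit 476) (nat_lit 314) (nat_lit 230)))) (XT.nd (nat_lit 156) (nat_lit 228) (nat_lit 0) (XT.nd (nat_lit 78) (nat_lit 0) (nat_lit 0) (XT.lf (nat_lit 0) (nat_lit 173794509) (nat_lit 76) (nat_lit 23774590067) (nat_lit 76) (nat_lit 14223703445) (nat_lit 77) (nat_lit 4) (nat_lit 78) (nat_lit 5) (nat_lit 78) (nat_lit 4) (nat_lit 477) (nat_lit 314) (nat_lit 229)) (XT.lf (nat_lit 0) (nat_lit 28035498908) (nat_lit 76) (nat_lit 10220081110) (nat_lit 76) (nat_lit 644654235)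 (nat_lit 77) (nat_lit 4) (nat_lit 78) (nat_lit 5) (nat_lit 78) (nat_lit 4) (nat_lit 478) (nat_lit 314) (nat_lit 228))) (XT.nd (nat_lit 78) (nat_lit 76) (nat_lit 0) (XT.lf (nat_lit 0) (nat_lit 13228530215) (nat_lit 152) (nat_lit 22504566163) (nat_lit 0) (nat_lit 3908867726) (nat_lit 75) (nat_lit 5) (nat_lit 77) (nat_lit 4) (nat_lit 75) (nat_lit 4) (nat_lit 479) (nat_lit 314) (nat_lit 227)) (XT.lf (nat_lit 0) (nat_lit 5689093384) (nat_lit 76) (nat_lit 22026235015) (nat_lit 76) (nat_lit 12684114717) (nat_lit 74) (nat_lit 4) (nat_lit 75) (nat_lit 5) (nat_lit 75) (nat_lit 4) (nat_lit 480) (nat_lit 314) (nat_lit 226))))) (XT.nd (nat_lit 312) (nat_lit 304) (nat_lit 0) (XT.nd (nat_lit 156) (nat_lit 152) (nat_lit 0) (XT.nd (nat_lit 78) (nat_lit 76) (nat_lit 0) (XT.lf (nat_lit 0) (nat_lit 1601866588) (nat_lit 152) (nat_lit 6112134821) (nat_lit 76) (nat_lit 33460028433) (nat_lit 73) (nat_lit 5) (nat_lit 75) (nat_lit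 5) (nat_lit 74) (nat_lit 4) (nat_lit 481) (nat_lit 314) (nat_lit 225)) (XT.lf (nat_lit 0) (nat_lit 16303910405) (nat_lit 152) (nat_lit 18464733586) (nat_lit 0) (nat_lit 7192169984) (nat_lit 72) (nat_lit 5) (nat_lit 74) (nat_lit 4) (nat_lit 72) (nat_lit 4) (nat_lit 482) (nat_lit 314) (nat_lit 224))) (XT.nd (nat_lit 78) (nat_lit 76) (nat_lit 0) (XT.lf (nat_lit 0) (nat_lit 11383970912) (nat_lit 76) (nat_lit 20256559581) (nat_lit 76) (nat_lit 11124865688) (nat_lit 71) (nat_lit 4) (nat_lit 72) (nat_lit 5) (nat_lit 72) (nat_lit 4) (nat_lit 483) (nat_lit 314) (nat_lit 223)) (XT.lf (nat_lit 0) (nat_lit 3901832696) (nat_lit 152) (nat_lit 1230345822) (nat_lit 76) (nat_lit 38456818278) (nat_lit 70) (nat_lit 5) (nat_lit 72) (nat_lit 5) (nat_lit 71) (nat_lit 4) (nat_lit 484) (nat_lit 314) (nat_lit 222)))) (XT.nd (nat_lit 156) (nat_lit 152) (nat_lit 0) (XT.nd (nat_lit 78) (nat_lit 76) (nat_lit 0) (XT.lf (nat_lit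 0) (nat_lit 19496856991) (nat_lit 152) (nat_lit 14332843861) (nat_lit 0) (nat_lit 10594066450) (nat_lit 69) (nat_lit 5) (nat_lit 71) (nat_lit 4) (nat_lit 69) (nat_lit 4) (nat_lit 485) (nat_lit 314) (nat_lit 221)) (XT.lf (nat_lit 0) (nat_lit 17273466724) (nat_lit 76) (nat_lit 18462670492) (nat_lit 76) (nat_lit 9542151550) (nat_lit 68) (nat_lit 4) (nat_lit 69) (nat_lit 5) (nat_lit 69) (nat_lit 4) (nat_lit 486) (nat_lit 314) (nat_lit 220))) (XT.nd (nat_lit 78) (nat_lit 0) (nat_lit 0) (XT.lf (nat_lit 0) (nat_lit 3874731613) (nat_lit 76) (nat_lit 2436826315) (nat_lit 152) (nat_lit 39841157227) (nat_lit 66) (nat_lit 5) (nat_lit 67) (nat_lit 5) (nat_lit 68) (nat_lit 4) (nat_lit 487) (nat_lit 314) (nat_lit 219)) (XT.lf (nat_lit 0) (nat_lit 22816963653) (nat_lit 152) (nat_lit 10099209265) (nat_lit 0) (nat_lit 14123330933) (nat_lit 66) (nat_lit 5) (nat_lit 68) (nat_lit 4) (nat_lit 66) (nat_lit 4) (nat_lit 488)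 (nat_lit 314) (nat_lit 218)))))) (XT.nd (nat_lit 45474) (nat_lit 0) (nat_lit 11324) (XT.nd (nat_lit 312) (nat_lit 228) (nat_lit 0) (XT.nd (nat_lit 156) (nat_lit 76) (nat_lit 0) (XT.nd (nat_lit 78) (nat_lit 152) (nat_lit 0) (XT.lf (nat_lit 0) (nat_lit 23373466948) (nat_lit 76) (nat_lit 16641445996) (nat_lit 76) (nat_lit 7932061822) (nat_lit 65) (nat_lit 4) (nat_lit 66) (nat_lit 5) (nat_lit 66) (nat_lit 4) (nat_lit 489) (nat_lit 314) (nat_lit 217)) (XT.lf (nat_lit 0) (nat_lit 8817599153) (nat_lit 152) (nat_lit 39710187000) (nat_lit 0) (nat_lit 347039105) (nat_lit 63) (nat_lit 5) (nat_lit 65) (nat_lit 4) (nat_lit 63) (nat_lit 4) (nat_lit 490) (nat_lit 314) (nat_lit 216))) (XT.nd (nat_lit 78) (nat_lit 76) (nat_lit 0) (XT.lf (nat_lit 0) (nat_lit 26274292485) (nat_lit 152) (nat_lit 5753626023) (nat_lit 0) (nat_lit 17789317625) (nat_lit 63) (nat_lit 5) (nat_lit 65) (nat_lit 4) (nat_lit 63) (nat_lit 4) (nat_lit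 491) (nat_lit 314) (nat_lit 215)) (XT.lf (nat_lit 0) (nat_lit 29700752190) (nat_lit 76) (nat_lit 14789534484) (nat_lit 76) (nat_lit 6290564659) (nat_lit 62) (nat_lit 4) (nat_lit 63) (nat_lit 5) (nat_lit 63) (nat_lit 4) (nat_lit 492) (nat_lit 314) (nat_lit 214)))) (XT.nd (nat_lit 156) (nat_lit 76) (nat_lit 0) (XT.nd (nat_lit 78) (nat_lit 0) (nat_lit 0) (XT.lf (nat_lit 0) (nat_lit 11435977835) (nat_lit 152) (nat_lit 37157309634) (nat_lit 0) (nat_lit 3171359225) (nat_lit 60) (nat_lit 5) (nat_lit 62) (nat_lit 4) (nat_lit 60) (nat_lit 4) (nat_lit 493) (nat_lit 314) (nat_lit 213)) (XT.lf (nat_lit 0) (nat_lit 29879410913) (nat_lit 152) (nat_lit 1285345735) (nat_lit 0) (nat_lit 21601984929) (nat_lit 60) (nat_lit 5) (nat_lit 62) (nat_lit 4) (nat_lit 60) (nat_lit 4) (nat_lit 494) (nat_lit 314) (nat_lit 212))) (XT.nd (nat_lit 44928) (nat_lit 0) (nat_lit 13604) (XT.lf (nat_lit 0) (nat_lit 36273049177) (nat_lit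 76) (nat_lit 12903351425) (nat_lit 76) (nat_lit 4613491097) (nat_lit 59) (nat_lit 4) (nat_lit 60) (nat_lit 5) (nat_lit 60) (nat_lit 4) (nat_lit 495) (nat_lit 314) (nat_lit 211)) (XT.lf (nat_lit 0) (nat_lit 1590638457) (nat_lit 380) (nat_lit 1370311040) (nat_lit 0) (nat_lit 1590638457) (nat_lit 238) (nat_lit 5) (nat_lit 243) (nat_lit 4) (nat_lit 238) (nat_lit 4) (nat_lit 390) (nat_lit 315) (nat_lit 315))))) (XT.nd (nat_lit 312) (nat_lit 988) (nat_lit 0) (XT.nd (nat_lit 156) (nat_lit 608) (nat_lit 0) (XT.nd (nat_lit 78) (nat_lit 380) (nat_lit 0) (XT.lf (nat_lit 0) (nat_lit 5540462630) (nat_lit 304) (nat_lit 2274953840) (nat_lit 304) (nat_lit 1397582916) (nat_lit 234) (nat_lit 4) (nat_lit 238) (nat_lit 5) (nat_lit 238) (nat_lit 4) (nat_lit 391) (nat_lit 315) (nat_lit 314)) (XT.lf (nat_lit 0) (nat_lit 3179866010) (nat_lit 380) (nat_lit 4644835425) (nat_lit 0) (nat_lit 1501043336) (nat_lit 229) (nat_lit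 5) (nat_lit 234) (nat_lit 4) (nat_lit 229) (nat_lit 4) (nat_lit 392) (nat_lit 315) (nat_lit 313))) (XT.nd (nat_lit 78) (nat_lit 304) (nat_lit 0) (XT.lf (nat_lit 0) (nat_lit 3790937325) (nat_lit 304) (nat_lit 4066270817) (nat_lit 304) (nat_lit 1584529460) (nat_lit 225) (nat_lit 4) (nat_lit 229) (nat_lit 5) (nat_lit 229) (nat_lit 4) (nat_lit 393) (nat_lit 315) (nat_lit 312)) (XT.lf (nat_lit 0) (nat_lit 2874633477) (nat_lit 228) (nat_lit 147981072) (nat_lit 304) (nat_lit 6538606369) (nat_lit 221) (nat_lit 5) (nat_lit 224) (nat_lit 5) (nat_lit 225) (nat_lit 4) (nat_lit 394) (nat_lit 315) (nat_lit 311)))) (XT.nd (nat_lit 156) (nat_lit 380) (nat_lit 0) (XT.nd (nat_lit 78) (nat_lit 304) (nat_lit 0) (XT.lf (nat_lit 0) (nat_lit 1905485991) (nat_lit 304) (nat_lit 5839567045) (nat_lit 304) (nat_lit 1938497215) (nat_lit 217) (nat_lit 4) (nat_lit 221) (nat_lit 5) (nat_lit 221) (nat_lit 4) (nat_lit 395) (nat_lit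 315) (nat_lit 310)) (XT.lf (nat_lit 0) (nat_lit 905908074) (nat_lit 228) (nat_lit 1813481459) (nat_lit 304) (nat_lit 7090120435) (nat_lit 213) (nat_lit 5) (nat_lit 216) (nat_lit 5) (nat_lit 217) (nat_lit 4) (nat_lit 396) (nat_lit 315) (nat_lit 309))) (XT.nd (nat_lit 78) (nat_lit 380) (nat_lit 0) (XT.lf (nat_lit 0) (nat_lit 7476666526) (nat_lit 304) (nat_lit 137864071) (nat_lit 0) (nat_lit 2324183624) (nat_lit 213) (nat_lit 5) (nat_lit 217) (nat_lit 4) (nat_lit 213) (nat_lit 4) (nat_lit 397) (nat_lit 315) (nat_lit 308)) (XT.lf (nat_lit 0) (nat_lit 2263132771) (nat_lit 380) (nat_lit 1211169741) (nat_lit 76) (nat_lit 6596730162) (nat_lit 208) (nat_lit 5) (nat_lit 213) (nat_lit 5) (nat_lit 209) (nat_lit 4) (nat_lit 398) (nat_lit 315) (nat_lit 307))))))))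
noncomputable def xc46 : XT := (XT.nd (nat_lit 2340) (nat_lit 3040) (nat_lit 0) (XT.nd (nat_lit 1170) (nat_lit 2128) (nat_lit 0) (XT.nd (nat_lit 546) (nat_lit 1444) (nat_lit 0) (XT.nd (nat_lit 234) (nat_lit 988) (nat_lit 0) (XT.nd (nat_lit 78) (nat_lit 532) (nat_lit 0) (XT.lf (nat_lit 0) (nat_lit 7066056719) (nat_lit 304) (nat_lit 2326524077) (nat_lit 0) (nat_lit 814444399) (nat_lit 205) (nat_lit 5) (nat_lit 209) (nat_lit 4) (nat_lit 205) (nat_lit 4) (nat_lit 399) (nat_lit 315) (nat_lit 306)) (XT.nd (nat_lit 78) (nat_lit 228) (nat_lit 0) (XT.lf (nat_lit 0) (nat_lit 1647250050) (nat_lit 304) (nat_lit 3505141624) (nat_lit 76) (nat_lit 5193811740) (nat_lit 201) (nat_lit 5) (nat_lit 205) (nat_lit 5) (nat_lit 202) (nat_lit 4) (nat_lit 400) (nat_lit 315) (nat_lit 305)) (XT.lf (nat_lit 0) (nat_lit 5758582397) (nat_lit 228) (nat_lit 737815220) (nat_lit 304) (nat_lit 3992814016) (nat_lit 198) (nat_lit 5) (nat_lit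 201) (nat_lit 5) (nat_lit 202) (nat_lit 4) (nat_lit 401) (nat_lit 315) (nat_lit 304)))) (XT.nd (nat_lit 156) (nat_lit 456) (nat_lit 0) (XT.nd (nat_lit 78) (nat_lit 228) (nat_lit 0) (XT.lf (nat_lit 0) (nat_lit 856835324) (nat_lit 304) (nat_lit 6020095917) (nat_lit 76) (nat_lit 3758762424) (nat_lit 194) (nat_lit 5) (nat_lit 198) (nat_lit 5) (nat_lit 195) (nat_lit 4) (nat_lit 402) (nat_lit 315) (nat_lit 303)) (XT.lf (nat_lit 0) (nat_lit 3407264052) (nat_lit 228) (nat_lit 2355080537) (nat_lit 304) (nat_lit 5023320925) (nat_lit 191) (nat_lit 5) (nat_lit 194) (nat_lit 5) (nat_lit 195) (nat_lit 4) (nat_lit 403) (nat_lit 315) (nat_lit 302))) (XT.nd (nat_lit 78) (nat_lit 228) (nat_lit 0) (XT.lf (nat_lit 0) (nat_lit 2155288066) (nat_lit 228) (nat_lit 8666908034) (nat_lit 228) (nat_lit 117725108) (nat_lit 188) (nat_lit 4) (nat_lit 191) (nat_lit 5) (nat_lit 191) (nat_lit 4) (nat_lit 404) (nat_lit 315) (nat_lit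 301)) (XT.lf (nat_lit 0) (nat_lit 807057424) (nat_lit 152) (nat_lit 4041227973) (nat_lit 228) (nat_lit 6248809601) (nat_lit 185) (nat_lit 5) (nat_lit 187) (nat_lit 5) (nat_lit 188) (nat_lit 4) (nat_lit 405) (nat_lit 315) (nat_lit 300))))) (XT.nd (nat_lit 312) (nat_lit 684) (nat_lit 0) (XT.nd (nat_lit 156) (nat_lit 456) (nat_lit 0) (XT.nd (nat_lit 78) (nat_lit 304) (nat_lit 0) (XT.lf (nat_lit 0) (nat_lit 9961235006) (nat_lit 228) (nat_lit 566170284) (nat_lit 0) (nat_lit 731533997) (nat_lit 185) (nat_lit 5) (nat_lit 188) (nat_lit 4) (nat_lit 185) (nat_lit 4) (nat_lit 406) (nat_lit 315) (nat_lit 299)) (XT.lf (nat_lit 0) (nat_lit 3765370549) (nat_lit 304) (nat_lit 2030555400) (nat_lit 76) (nat_lit 5627487786) (nat_lit 181) (nat_lit 5) (nat_lit 185) (nat_lit 5) (nat_lit 182) (nat_lit 4) (nat_lit 407) (nat_lit 315) (nat_lit 298))) (XT.nd (nat_lit 78) (nat_lit 304) (nat_lit 0) (XT.lf (nat_lit 0) (nat_lit 8051001339)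 (nat_lit 152) (nat_lit 893268272) (nat_lit 228) (nat_lit 2648466913) (nat_lit 179) (nat_lit 5) (nat_lit 181) (nat_lit 5) (nat_lit 182) (nat_lit 4) (nat_lit 408) (nat_lit 315) (nat_lit 297)) (XT.lf (nat_lit 0) (nat_lit 2494505426) (nat_lit 304) (nat_lit 5154506616) (nat_lit 76) (nat_lit 4116439265) (nat_lit 175) (nat_lit 5) (nat_lit 179) (nat_lit 5) (nat_lit 176) (nat_lit 4) (nat_lit 409) (nat_lit 315) (nat_lit 296)))) (XT.nd (nat_lit 156) (nat_lit 304) (nat_lit 0) (XT.nd (nat_lit 78) (nat_lit 228) (nat_lit 0) (XT.lf (nat_lit 0) (nat_lit 5099066308) (nat_lit 152) (nat_lit 2641033065) (nat_lit 228) (nat_lit 4202414569) (nat_lit 173) (nat_lit 5) (nat_lit 175) (nat_lit 5) (nat_lit 176) (nat_lit 4) (nat_lit 410) (nat_lit 315) (nat_lit 295)) (XT.lf (nat_lit 0) (nat_lit 1017154649) (nat_lit 228) (nat_lit 8611694366) (nat_lit 76) (nat_lit 2495180316) (nat_lit 170) (nat_lit 5) (nat_lit 173) (nat_lit 5) (nat_lit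 171) (nat_lit 4) (nat_lit 411) (nat_lit 315) (nat_lit 294))) (XT.nd (nat_lit 78) (nat_lit 152) (nat_lit 0) (XT.lf (nat_lit 0) (nat_lit 1812872352) (nat_lit 152) (nat_lit 4517598515) (nat_lit 228) (nat_lit 5978622344) (nat_lit 168) (nat_lit 5) (nat_lit 170) (nat_lit 5) (nat_lit 171) (nat_lit 4) (nat_lit 412) (nat_lit 315) (nat_lit 293)) (XT.lf (nat_lit 0) (nat_lit 58061424) (nat_lit 152) (nat_lit 11749362465) (nat_lit 152) (nat_lit 692157998) (nat_lit 166) (nat_lit 4) (nat_lit 168) (nat_lit 5) (nat_lit 168) (nat_lit 4) (nat_lit 413) (nat_lit 315) (nat_lit 292)))))) (XT.nd (nat_lit 546) (nat_lit 1140) (nat_lit 0) (XT.nd (nat_lit 234) (nat_lit 532) (nat_lit 0) (XT.nd (nat_lit 78) (nat_lit 380) (nat_lit 0) (XT.lf (nat_lit 0) (nat_lit 4720799342) (nat_lit 228) (nat_lit 1804773667) (nat_lit 76) (nat_lit 6167022224) (nat_lit 165) (nat_lit 5) (nat_lit 168) (nat_lit 5) (nat_lit 166) (nat_lit 4) (nat_lit 414)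 (nat_lit 315) (nat_lit 291)) (XT.nd (nat_lit 78) (nat_lit 228) (nat_lit 0) (XT.lf (nat_lit 0) (nat_lit 9162989795) (nat_lit 152) (nat_lit 1118854184) (nat_lit 228) (nat_lit 2609361100) (nat_lit 163) (nat_lit 5) (nat_lit 165) (nat_lit 5) (nat_lit 166) (nat_lit 4) (nat_lit 415) (nat_lit 315) (nat_lit 290)) (XT.lf (nat_lit 0) (nat_lit 2901170278) (nat_lit 228) (nat_lit 5781455930) (nat_lit 76) (nat_lit 4410984140) (nat_lit 160) (nat_lit 5) (nat_lit 163) (nat_lit 5) (nat_lit 161) (nat_lit 4) (nat_lit 416) (nat_lit 315) (nat_lit 289)))) (XT.nd (nat_lit 156) (nat_lit 152) (nat_lit 0) (XT.nd (nat_lit 78) (nat_lit 228) (nat_lit 0) (XT.lf (nat_lit 0) (nat_lit 5366043307) (nat_lit 152) (nat_lit 3171286343) (nat_lit 228) (nat_lit 4763600337) (nat_lit 158) (nat_lit 5) (nat_lit 160) (nat_lit 5) (nat_lit 161) (nat_lit 4) (nat_lit 417) (nat_lit 315) (nat_lit 288)) (XT.lf (nat_lit 0) (nat_lit 839718183) (nat_lit 228)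 (nat_lit 10188653500) (nat_lit 76) (nat_lit 2485025540) (nat_lit 155) (nat_lit 5) (nat_lit 158) (nat_lit 5) (nat_lit 156) (nat_lit 4) (nat_lit 418) (nat_lit 315) (nat_lit 287))) (XT.nd (nat_lit 78) (nat_lit 0) (nat_lit 0) (XT.lf (nat_lit 0) (nat_lit 1136726165) (nat_lit 152) (nat_lit 5414491389) (nat_lit 228) (nat_lit 7178531241) (nat_lit 153) (nat_lit 5) (nat_lit 155) (nat_lit 5) (nat_lit 156) (nat_lit 4) (nat_lit 419) (nat_lit 315) (nat_lit 286)) (XT.lf (nat_lit 0) (nat_lit 12454390922) (nat_lit 228) (nat_lit 1104728934) (nat_lit 0) (nat_lit 392861189) (nat_lit 153) (nat_lit 5) (nat_lit 156) (nat_lit 4) (nat_lit 153) (nat_lit 4) (nat_lit 420) (nat_lit 315) (nat_lit 285))))) (XT.nd (nat_lit 312) (nat_lit 532) (nat_lit 0) (XT.nd (nat_lit 156) (nat_lit 304) (nat_lit 0) (XT.nd (nat_lit 78) (nat_lit 76) (nat_lit 0) (XT.lf (nat_lit 0) (nat_lit 4341687844) (nat_lit 228) (nat_lit 3494043623) (nat_lit 76)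 (nat_lit 6341707262) (nat_lit 150) (nat_lit 5) (nat_lit 153) (nat_lit 5) (nat_lit 151) (nat_lit 4) (nat_lit 421) (nat_lit 315) (nat_lit 284)) (XT.lf (nat_lit 0) (nat_lit 8431230610) (nat_lit 76) (nat_lit 1902696306) (nat_lit 152) (nat_lit 4075051916) (nat_lit 149) (nat_lit 5) (nat_lit 150) (nat_lit 5) (nat_lit 151) (nat_lit 4) (nat_lit 422) (nat_lit 315) (nat_lit 283))) (XT.nd (nat_lit 78) (nat_lit 76) (nat_lit 0) (XT.lf (nat_lit 0) (nat_lit 1872881840) (nat_lit 228) (nat_lit 8604507911) (nat_lit 76) (nat_lit 4168019066) (nat_lit 146) (nat_lit 5) (nat_lit 149) (nat_lit 5) (nat_lit 147) (nat_lit 4) (nat_lit 423) (nat_lit 315) (nat_lit 282)) (XT.lf (nat_lit 0) (nat_lit 3506930424) (nat_lit 76) (nat_lit 4439907440) (nat_lit 152) (nat_lit 6939998764) (nat_lit 145) (nat_lit 5) (nat_lit 146) (nat_lit 5) (nat_lit 147) (nat_lit 4) (nat_lit 424) (nat_lit 315) (nat_lit 281)))) (XT.nd (nat_lit 156) (nat_lit 304)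 (nat_lit 0) (XT.nd (nat_lit 78) (nat_lit 76) (nat_lit 0) (XT.lf (nat_lit 0) (nat_lit 866650369) (nat_lit 152) (nat_lit 13365770413) (nat_lit 152) (nat_lit 902204246) (nat_lit 143) (nat_lit 4) (nat_lit 145) (nat_lit 5) (nat_lit 145) (nat_lit 4) (nat_lit 425) (nat_lit 315) (nat_lit 280)) (XT.lf (nat_lit 0) (nat_lit 5289338885) (nat_lit 228) (nat_lit 1926342749) (nat_lit 76) (nat_lit 8170341321) (nat_lit 142) (nat_lit 5) (nat_lit 145) (nat_lit 5) (nat_lit 143) (nat_lit 4) (nat_lit 426) (nat_lit 315) (nat_lit 279))) (XT.nd (nat_lit 78) (nat_lit 228) (nat_lit 0) (XT.lf (nat_lit 0) (nat_lit 10835007445) (nat_lit 76) (nat_lit 836427771) (nat_lit 152) (nat_lit 3972571412) (nat_lit 141) (nat_lit 5) (nat_lit 142) (nat_lit 5) (nat_lit 143) (nat_lit 4) (nat_lit 427) (nat_lit 315) (nat_lit 278)) (XT.lf (nat_lit 0) (nat_lit 2361638399) (nat_lit 228) (nat_lit 7872526501) (nat_lit 76) (nat_lit 5672733177) (nat_lit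 138) (nat_lit 5) (nat_lit 141) (nat_lit 5) (nat_lit 139) (nat_lit 4) (nat_lit 428) (nat_lit 315) (nat_lit 277))))))) (XT.nd (nat_lit 1170) (nat_lit 1368) (nat_lit 0) (XT.nd (nat_lit 546) (nat_lit 836) (nat_lit 0) (XT.nd (nat_lit 234) (nat_lit 532) (nat_lit 0) (XT.nd (nat_lit 78) (nat_lit 228) (nat_lit 0) (XT.lf (nat_lit 0) (nat_lit 5083140135) (nat_lit 76) (nat_lit 3748194600) (nat_lit 152) (nat_lit 7344402411) (nat_lit 137) (nat_lit 5) (nat_lit 138) (nat_lit 5) (nat_lit 139) (nat_lit 4) (nat_lit 429) (nat_lit 315) (nat_lit 276)) (XT.nd (nat_lit 78) (nat_lit 76) (nat_lit 0) (XT.lf (nat_lit 0) (nat_lit 1994989574) (nat_lit 152) (nat_lit 13547105377) (nat_lit 152) (nat_lit 909137248) (nat_lit 135) (nat_lit 4) (nat_lit 137) (nat_lit 5) (nat_lit 137) (nat_lit 4) (nat_lit 430) (nat_lit 315) (nat_lit 275)) (XT.lf (nat_lit 0) (nat_lit 5677239593) (nat_lit 228) (nat_lit 1275899433) (nat_lit 76) (nat_lit 9778114118)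 (nat_lit 134) (nat_lit 5) (nat_lit 137) (nat_lit 5) (nat_lit 135) (nat_lit 4) (nat_lit 431) (nat_lit 315) (nat_lit 274)))) (XT.nd (nat_lit 156) (nat_lit 228) (nat_lit 0) (XT.nd (nat_lit 78) (nat_lit 228) (nat_lit 0) (XT.lf (nat_lit 0) (nat_lit 12383308602) (nat_lit 76) (nat_lit 100431520) (nat_lit 152) (nat_lit 4534440402) (nat_lit 133) (nat_lit 5) (nat_lit 134) (nat_lit 5) (nat_lit 135) (nat_lit 4) (nat_lit 432) (nat_lit 315) (nat_lit 273)) (XT.lf (nat_lit 0) (nat_lit 2228632201) (nat_lit 228) (nat_lit 8206041961) (nat_lit 76) (nat_lit 6875698711) (nat_lit 130) (nat_lit 5) (nat_lit 133) (nat_lit 5) (nat_lit 131) (nat_lit 4) (nat_lit 433) (nat_lit 315) (nat_lit 272))) (XT.nd (nat_lit 78) (nat_lit 152) (nat_lit 0) (XT.lf (nat_lit 0) (nat_lit 5655339582) (nat_lit 76) (nat_lit 3472781770) (nat_lit 152) (nat_lit 8481122912) (nat_lit 129) (nat_lit 5) (nat_lit 130) (nat_lit 5) (nat_lit 131) (nat_lit 4) (nat_lit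 434) (nat_lit 315) (nat_lit 271)) (XT.lf (nat_lit 0) (nat_lit 2039999382) (nat_lit 152) (nat_lit 14255643498) (nat_lit 152) (nat_lit 1619607488) (nat_lit 127) (nat_lit 4) (nat_lit 129) (nat_lit 5) (nat_lit 129) (nat_lit 4) (nat_lit 435) (nat_lit 315) (nat_lit 270))))) (XT.nd (nat_lit 312) (nat_lit 380) (nat_lit 0) (XT.nd (nat_lit 156) (nat_lit 304) (nat_lit 0) (XT.nd (nat_lit 78) (nat_lit 76) (nat_lit 0) (XT.lf (nat_lit 0) (nat_lit 5420023497) (nat_lit 228) (nat_lit 1765700804) (nat_lit 76) (nat_lit 11040784077) (nat_lit 126) (nat_lit 5) (nat_lit 129) (nat_lit 5) (nat_lit 127) (nat_lit 4) (nat_lit 436) (nat_lit 315) (nat_lit 269)) (XT.lf (nat_lit 0) (nat_lit 12688061726) (nat_lit 152) (nat_lit 5690178554) (nat_lit 0) (nat_lit 166889652) (nat_lit 125) (nat_lit 5) (nat_lit 127) (nat_lit 4) (nat_lit 125) (nat_lit 4) (nat_lit 437) (nat_lit 315) (nat_lit 268))) (XT.nd (nat_lit 78) (nat_lit 76) (nat_lit 0)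 (XT.lf (nat_lit 0) (nat_lit 1377164621) (nat_lit 228) (nat_lit 9846612569) (nat_lit 76) (nat_lit 7646106286) (nat_lit 122) (nat_lit 5) (nat_lit 125) (nat_lit 5) (nat_lit 123) (nat_lit 4) (nat_lit 438) (nat_lit 315) (nat_lit 267)) (XT.lf (nat_lit 0) (nat_lit 4985270080) (nat_lit 76) (nat_lit 3756150987) (nat_lit 152) (nat_lit 10460297297) (nat_lit 121) (nat_lit 5) (nat_lit 122) (nat_lit 5) (nat_lit 123) (nat_lit 4) (nat_lit 439) (nat_lit 315) (nat_lit 266)))) (XT.nd (nat_lit 156) (nat_lit 152) (nat_lit 0) (XT.nd (nat_lit 78) (nat_lit 76) (nat_lit 0) (XT.lf (nat_lit 0) (nat_lit 753623171) (nat_lit 152) (nat_lit 15643376266) (nat_lit 152) (nat_lit 3144397035) (nat_lit 119) (nat_lit 4) (nat_lit 121) (nat_lit 5) (nat_lit 121) (nat_lit 4) (nat_lit 440) (nat_lit 315) (nat_lit 265)) (XT.lf (nat_lit 0) (nat_lit 4412434018) (nat_lit 228) (nat_lit 3649320339) (nat_lit 76) (nat_lit 11825030175) (nat_lit 118) (nat_lit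 5) (nat_lit 121) (nat_lit 5) (nat_lit 119) (nat_lit 4) (nat_lit 441) (nat_lit 315) (nat_lit 264))) (XT.nd (nat_lit 78) (nat_lit 76) (nat_lit 0) (XT.lf (nat_lit 0) (nat_lit 12004895410) (nat_lit 76) (nat_lit 170427501) (nat_lit 152) (nat_lit 8065000777) (nat_lit 117) (nat_lit 5) (nat_lit 118) (nat_lit 5) (nat_lit 119) (nat_lit 4) (nat_lit 442) (nat_lit 315) (nat_lit 263)) (XT.lf (nat_lit 0) (nat_lit 7528595674) (nat_lit 76) (nat_lit 12755856087) (nat_lit 76) (nat_lit 316616660) (nat_lit 116) (nat_lit 4) (nat_lit 117) (nat_lit 5) (nat_lit 117) (nat_lit 4) (nat_lit 443) (nat_lit 315) (nat_lit 262)))))) (XT.nd (nat_lit 624) (nat_lit 684) (nat_lit 0) (XT.nd (nat_lit 312) (nat_lit 304) (nat_lit 0) (XT.nd (nat_lit 156) (nat_lit 228) (nat_lit 0) (XT.nd (nat_lit 78) (nat_lit 0) (nat_lit 0) (XT.lf (nat_lit 0) (nat_lit 2800996438) (nat_lit 76) (nat_lit 4753595299) (nat_lit 152) (nat_lit 13414635686) (nat_lit 114)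 (nat_lit 5) (nat_lit 115) (nat_lit 5) (nat_lit 116) (nat_lit 4) (nat_lit 444) (nat_lit 315) (nat_lit 261)) (XT.lf (nat_lit 0) (nat_lit 15749864084) (nat_lit 152) (nat_lit 2105611415) (nat_lit 0) (nat_lit 3490032909) (nat_lit 114) (nat_lit 5) (nat_lit 116) (nat_lit 4) (nat_lit 114) (nat_lit 4) (nat_lit 445) (nat_lit 315) (nat_lit 260))) (XT.nd (nat_lit 78) (nat_lit 76) (nat_lit 0) (XT.lf (nat_lit 0) (nat_lit 2527473490) (nat_lit 152) (nat_lit 7216534135) (nat_lit 76) (nat_lit 11984835803) (nat_lit 112) (nat_lit 5) (nat_lit 114) (nat_lit 5) (nat_lit 113) (nat_lit 4) (nat_lit 446) (nat_lit 315) (nat_lit 259)) (XT.lf (nat_lit 0) (nat_lit 9541744546) (nat_lit 76) (nat_lit 1282874282) (nat_lit 152) (nat_lit 11296113571) (nat_lit 111) (nat_lit 5) (nat_lit 112) (nat_lit 5) (nat_lit 113) (nat_lit 4) (nat_lit 447) (nat_lit 315) (nat_lit 258)))) (XT.nd (nat_lit 156) (nat_lit 152) (nat_lit 0) (XT.nd (nat_lit 78)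 (nat_lit 76) (nat_lit 0) (XT.lf (nat_lit 0) (nat_lit 4302480893) (nat_lit 76) (nat_lit 15184296626) (nat_lit 76) (nat_lit 3034117550) (nat_lit 110) (nat_lit 4) (nat_lit 111) (nat_lit 5) (nat_lit 111) (nat_lit 4) (nat_lit 448) (nat_lit 315) (nat_lit 257)) (XT.lf (nat_lit 0) (nat_lit 5439621059) (nat_lit 152) (nat_lit 1185467970) (nat_lit 76) (nat_lit 16304272483) (nat_lit 109) (nat_lit 5) (nat_lit 111) (nat_lit 5) (nat_lit 110) (nat_lit 4) (nat_lit 449) (nat_lit 315) (nat_lit 256))) (XT.nd (nat_lit 78) (nat_lit 76) (nat_lit 0) (XT.lf (nat_lit 0) (nat_lit 14219455570) (nat_lit 152) (nat_lit 6851888141) (nat_lit 0) (nat_lit 2274451019) (nat_lit 108) (nat_lit 5) (nat_lit 110) (nat_lit 4) (nat_lit 108) (nat_lit 4) (nat_lit 450) (nat_lit 315) (nat_lit 255)) (XT.lf (nat_lit 0) (nat_lit 10967970102) (nat_lit 76) (nat_lit 12409714941) (nat_lit 76) (nat_lit 393585904) (nat_lit 107) (nat_lit 4) (nat_lit 108) (nat_lit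 5) (nat_lit 108) (nat_lit 4) (nat_lit 451) (nat_lit 315) (nat_lit 254))))) (XT.nd (nat_lit 312) (nat_lit 304) (nat_lit 0) (XT.nd (nat_lit 156) (nat_lit 228) (nat_lit 0) (XT.nd (nat_lit 78) (nat_lit 0) (nat_lit 0) (XT.lf (nat_lit 0) (nat_lit 5138364612) (nat_lit 76) (nat_lit 3346141076) (nat_lit 152) (nat_lit 15720989523) (nat_lit 105) (nat_lit 5) (nat_lit 106) (nat_lit 5) (nat_lit 107) (nat_lit 4) (nat_lit 452) (nat_lit 315) (nat_lit 253)) (XT.lf (nat_lit 0) (nat_lit 17741176887) (nat_lit 152) (nat_lit 964946419) (nat_lit 0) (nat_lit 5942901562) (nat_lit 105) (nat_lit 5) (nat_lit 107) (nat_lit 4) (nat_lit 105) (nat_lit 4) (nat_lit 453) (nat_lit 315) (nat_lit 252))) (XT.nd (nat_lit 78) (nat_lit 76) (nat_lit 0) (XT.lf (nat_lit 0) (nat_lit 2267576131) (nat_lit 152) (nat_lit 7258288961) (nat_lit 76) (nat_lit 15575162831) (nat_lit 103) (nat_lit 5) (nat_lit 105) (nat_lit 5) (nat_lit 104) (nat_lit 4) (nat_lit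 454) (nat_lit 315) (nat_lit 251)) (XT.lf (nat_lit 0) (nat_lit 11636327434) (nat_lit 152) (nat_lit 13865731685) (nat_lit 0) (nat_lit 60772954) (nat_lit 102) (nat_lit 5) (nat_lit 104) (nat_lit 4) (nat_lit 102) (nat_lit 4) (nat_lit 455) (nat_lit 315) (nat_lit 250)))) (XT.nd (nat_lit 156) (nat_lit 152) (nat_lit 0) (XT.nd (nat_lit 78) (nat_lit 76) (nat_lit 0) (XT.lf (nat_lit 0) (nat_lit 5210005658) (nat_lit 76) (nat_lit 16228647267) (nat_lit 76) (nat_lit 4595262071) (nat_lit 101) (nat_lit 4) (nat_lit 102) (nat_lit 5) (nat_lit 102) (nat_lit 4) (nat_lit 456) (nat_lit 315) (nat_lit 249)) (XT.lf (nat_lit 0) (nat_lit 4993570228) (nat_lit 152) (nat_lit 1552583957) (nat_lit 76) (nat_lit 19969263809) (nat_lit 100) (nat_lit 5) (nat_lit 102) (nat_lit 5) (nat_lit 101) (nat_lit 4) (nat_lit 457) (nat_lit 315) (nat_lit 248))) (XT.nd (nat_lit 78) (nat_lit 76) (nat_lit 0) (XT.lf (nat_lit 0) (nat_lit 14925998000) (nat_lit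 152) (nat_lit 8555539456) (nat_lit 0) (nat_lit 3524014974) (nat_lit 99) (nat_lit 5) (nat_lit 101) (nat_lit 4) (nat_lit 99) (nat_lit 4) (nat_lit 458) (nat_lit 315) (nat_lit 247)) (XT.lf (nat_lit 0) (nat_lit 11609601785) (nat_lit 76) (nat_lit 13675151669) (nat_lit 76) (nat_lit 2221786801) (nat_lit 98) (nat_lit 4) (nat_lit 99) (nat_lit 5) (nat_lit 99) (nat_lit 4) (nat_lit 459) (nat_lit 315) (nat_lit 246))))))))
noncomputable def xc47 : XT := (XT.nd (nat_lit 2418) (nat_lit 456) (nat_lit 0) (XT.nd (nat_lit 1170) (nat_lit 1216) (nat_lit 0) (XT.nd (nat_lit 546) (nat_lit 684) (nat_lit 0) (XT.nd (nat_lit 234) (nat_lit 304) (nat_lit 0) (XT.nd (nat_lit 78) (nat_lit 152) (nat_lit 0) (XT.lf (nat_lit 0) (nat_lit 4417616779) (nat_lit 76) (nat_lit 3425174812) (nat_lit 152) (nat_lit 20175503167) (nat_lit 96) (nat_lit 5) (nat_lit 97) (nat_lit 5) (nat_lit 98) (nat_lit 4) (nat_lit 460) (nat_lit 315) (nat_lit 245)) (XT.nd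 (nat_lit 78) (nat_lit 152) (nat_lit 0) (XT.lf (nat_lit 0) (nat_lit 18331526157) (nat_lit 152) (nat_lit 3091909102) (nat_lit 0) (nat_lit 7116300463) (nat_lit 96) (nat_lit 5) (nat_lit 98) (nat_lit 4) (nat_lit 96) (nat_lit 4) (nat_lit 461) (nat_lit 315) (nat_lit 244)) (XT.lf (nat_lit 0) (nat_lit 205642265) (nat_lit 152) (nat_lit 10843423996) (nat_lit 76) (nat_lit 18023276704) (nat_lit 94) (nat_lit 5) (nat_lit 96) (nat_lit 5) (nat_lit 95) (nat_lit 4) (nat_lit 462) (nat_lit 315) (nat_lit 243)))) (XT.nd (nat_lit 156) (nat_lit 152) (nat_lit 0) (XT.nd (nat_lit 78) (nat_lit 76) (nat_lit 0) (XT.lf (nat_lit 0) (nat_lit 10615534247) (nat_lit 76) (nat_lit 182857116) (nat_lit 152) (nat_lit 18817355219) (nat_lit 93) (nat_lit 5) (nat_lit 94) (nat_lit 5) (nat_lit 95) (nat_lit 4) (nat_lit 463) (nat_lit 315) (nat_lit 242)) (XT.lf (nat_lit 0) (nat_lit 2588935317) (nat_lit 76) (nat_lit 19299417393) (nat_lit 76) (nat_lit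 8281716708) (nat_lit 92) (nat_lit 4) (nat_lit 93) (nat_lit 5) (nat_lit 93) (nat_lit 4) (nat_lit 464) (nat_lit 315) (nat_lit 241))) (XT.nd (nat_lit 78) (nat_lit 76) (nat_lit 0) (XT.lf (nat_lit 0) (nat_lit 2653574040) (nat_lit 152) (nat_lit 5671506682) (nat_lit 76) (nat_lit 22411188099) (nat_lit 91) (nat_lit 5) (nat_lit 93) (nat_lit 5) (nat_lit 92) (nat_lit 4) (nat_lit 465) (nat_lit 315) (nat_lit 240)) (XT.lf (nat_lit 0) (nat_lit 13884586171) (nat_lit 152) (nat_lit 14318208043) (nat_lit 0) (nat_lit 3110176570) (nat_lit 90) (nat_lit 5) (nat_lit 92) (nat_lit 4) (nat_lit 90) (nat_lit 4) (nat_lit 466) (nat_lit 315) (nat_lit 239))))) (XT.nd (nat_lit 312) (nat_lit 380) (nat_lit 0) (XT.nd (nat_lit 156) (nat_lit 152) (nat_lit 0) (XT.nd (nat_lit 78) (nat_lit 76) (nat_lit 0) (XT.lf (nat_lit 0) (nat_lit 8515672499) (nat_lit 76) (nat_lit 17098983215) (nat_lit 76) (nat_lit 6287454278) (nat_lit 89) (nat_lit 4) (nat_lit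 90) (nat_lit 5) (nat_lit 90) (nat_lit 4) (nat_lit 467) (nat_lit 315) (nat_lit 238)) (XT.lf (nat_lit 0) (nat_lit 5172516791) (nat_lit 152) (nat_lit 347358038) (nat_lit 76) (nat_lit 26984971217) (nat_lit 88) (nat_lit 5) (nat_lit 90) (nat_lit 5) (nat_lit 89) (nat_lit 4) (nat_lit 468) (nat_lit 315) (nat_lit 237))) (XT.nd (nat_lit 78) (nat_lit 76) (nat_lit 0) (XT.lf (nat_lit 0) (nat_lit 17083081238) (nat_lit 152) (nat_lit 9516227190) (nat_lit 0) (nat_lit 6517493219) (nat_lit 87) (nat_lit 5) (nat_lit 89) (nat_lit 4) (nat_lit 87) (nat_lit 4) (nat_lit 469) (nat_lit 315) (nat_lit 236)) (XT.lf (nat_lit 0) (nat_lit 14641975194) (nat_lit 76) (nat_lit 14849743061) (nat_lit 76) (nat_lit 4251174992) (nat_lit 86) (nat_lit 4) (nat_lit 87) (nat_lit 5) (nat_lit 87) (nat_lit 4) (nat_lit 470) (nat_lit 315) (nat_lit 235)))) (XT.nd (nat_lit 156) (nat_lit 228) (nat_lit 0) (XT.nd (nat_lit 78) (nat_lit 0) (nat_lit 0) (XT.lf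 (nat_lit 0) (nat_lit 5244577864) (nat_lit 76) (nat_lit 2575700656) (nat_lit 152) (nat_lit 26562536450) (nat_lit 84) (nat_lit 5) (nat_lit 85) (nat_lit 5) (nat_lit 86) (nat_lit 4) (nat_lit 471) (nat_lit 315) (nat_lit 234)) (XT.lf (nat_lit 0) (nat_lit 20401858407) (nat_lit 152) (nat_lit 4581092178) (nat_lit 0) (nat_lit 10050718220) (nat_lit 84) (nat_lit 5) (nat_lit 86) (nat_lit 4) (nat_lit 84) (nat_lit 4) (nat_lit 472) (nat_lit 315) (nat_lit 233))) (XT.nd (nat_lit 78) (nat_lit 152) (nat_lit 0) (XT.lf (nat_lit 0) (nat_lit 20983954622) (nat_lit 76) (nat_lit 12547706452) (nat_lit 76) (nat_lit 2167263919) (nat_lit 83) (nat_lit 4) (nat_lit 84) (nat_lit 5) (nat_lit 84) (nat_lit 4) (nat_lit 473) (nat_lit 315) (nat_lit 232)) (XT.lf (nat_lit 0) (nat_lit 10563766577) (nat_lit 152) (nat_lit 25356224735) (nat_lit 0) (nat_lit 458046759) (nat_lit 81) (nat_lit 5) (nat_lit 83) (nat_lit 4) (nat_lit 81) (nat_lit 4) (nat_lit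 474) (nat_lit 315) (nat_lit 231)))))) (XT.nd (nat_lit 624) (nat_lit 608) (nat_lit 0) (XT.nd (nat_lit 312) (nat_lit 304) (nat_lit 0) (XT.nd (nat_lit 156) (nat_lit 228) (nat_lit 0) (XT.nd (nat_lit 78) (nat_lit 0) (nat_lit 0) (XT.lf (nat_lit 0) (nat_lit 509215896) (nat_lit 76) (nat_lit 23346758171) (nat_lit 76) (nat_lit 13214222555) (nat_lit 80) (nat_lit 4) (nat_lit 81) (nat_lit 5) (nat_lit 81) (nat_lit 4) (nat_lit 475) (nat_lit 315) (nat_lit 230)) (XT.lf (nat_lit 0) (nat_lit 27558670700) (nat_lit 76) (nat_lit 10188506362) (nat_lit 76) (nat_lit 29935990) (nat_lit 80) (nat_lit 4) (nat_lit 81) (nat_lit 5) (nat_lit 81) (nat_lit 4) (nat_lit 476) (nat_lit 315) (nat_lit 229))) (XT.nd (nat_lit 78) (nat_lit 76) (nat_lit 0) (XT.lf (nat_lit 0) (nat_lit 13428941323) (nat_lit 152) (nat_lit 21526372700) (nat_lit 0) (nat_lit 3541711388) (nat_lit 78) (nat_lit 5) (nat_lit 80) (nat_lit 4) (nat_lit 78) (nat_lit 4) (nat_lit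 477) (nat_lit 315) (nat_lit 228)) (XT.lf (nat_lit 0) (nat_lit 5851854533) (nat_lit 76) (nat_lit 21645764039) (nat_lit 76) (nat_lit 11734708615) (nat_lit 77) (nat_lit 4) (nat_lit 78) (nat_lit 5) (nat_lit 78) (nat_lit 4) (nat_lit 478) (nat_lit 315) (nat_lit 227)))) (XT.nd (nat_lit 156) (nat_lit 152) (nat_lit 0) (XT.nd (nat_lit 78) (nat_lit 76) (nat_lit 0) (XT.lf (nat_lit 0) (nat_lit 2124506747) (nat_lit 152) (nat_lit 5621438269) (nat_lit 76) (nat_lit 32238221435) (nat_lit 76) (nat_lit 5) (nat_lit 78) (nat_lit 5) (nat_lit 77) (nat_lit 4) (nat_lit 479) (nat_lit 315) (nat_lit 226)) (XT.lf (nat_lit 0) (nat_lit 16399575286) (nat_lit 152) (nat_lit 17615492193) (nat_lit 0) (nat_lit 6732929873) (nat_lit 75) (nat_lit 5) (nat_lit 77) (nat_lit 4) (nat_lit 75) (nat_lit 4) (nat_lit 480) (nat_lit 315) (nat_lit 225))) (XT.nd (nat_lit 78) (nat_lit 76) (nat_lit 0) (XT.lf (nat_lit 0) (nat_lit 11369426052) (nat_lit 76)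 (nat_lit 19923711958) (nat_lit 76) (nat_lit 10235897907) (nat_lit 74) (nat_lit 4) (nat_lit 75) (nat_lit 5) (nat_lit 75) (nat_lit 4) (nat_lit 481) (nat_lit 315) (nat_lit 224)) (XT.lf (nat_lit 0) (nat_lit 4342681169) (nat_lit 152) (nat_lit 892723353) (nat_lit 76) (nat_lit 37093063458) (nat_lit 73) (nat_lit 5) (nat_lit 75) (nat_lit 5) (nat_lit 74) (nat_lit 4) (nat_lit 482) (nat_lit 315) (nat_lit 223))))) (XT.nd (nat_lit 312) (nat_lit 304) (nat_lit 0) (XT.nd (nat_lit 156) (nat_lit 152) (nat_lit 0) (XT.nd (nat_lit 78) (nat_lit 76) (nat_lit 0) (XT.lf (nat_lit 0) (nat_lit 19484582815) (nat_lit 152) (nat_lit 13614696595) (nat_lit 0) (nat_lit 10039612330) (nat_lit 72) (nat_lit 5) (nat_lit 74) (nat_lit 4) (nat_lit 72) (nat_lit 4) (nat_lit 483) (nat_lit 315) (nat_lit 222)) (XT.lf (nat_lit 0) (nat_lit 17076488851) (nat_lit 76) (nat_lit 18177854920) (nat_lit 76) (nat_lit 8714076375) (nat_lit 71) (nat_lit 4) (nat_lit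 72) (nat_lit 5) (nat_lit 72) (nat_lit 4) (nat_lit 484) (nat_lit 315) (nat_lit 221))) (XT.nd (nat_lit 78) (nat_lit 0) (nat_lit 0) (XT.lf (nat_lit 0) (nat_lit 4059091670) (nat_lit 76) (nat_lit 2611415949) (nat_lit 152) (nat_lit 38146610482) (nat_lit 69) (nat_lit 5) (nat_lit 70) (nat_lit 5) (nat_lit 71) (nat_lit 4) (nat_lit 485) (nat_lit 315) (nat_lit 220)) (XT.lf (nat_lit 0) (nat_lit 22693294891) (nat_lit 152) (nat_lit 9514619526) (nat_lit 0) (nat_lit 13470219939) (nat_lit 69) (nat_lit 5) (nat_lit 71) (nat_lit 4) (nat_lit 69) (nat_lit 4) (nat_lit 486) (nat_lit 315) (nat_lit 219)))) (XT.nd (nat_lit 156) (nat_lit 76) (nat_lit 0) (XT.nd (nat_lit 78) (nat_lit 152) (nat_lit 0) (XT.lf (nat_lit 0) (nat_lit 22988427341) (nat_lit 76) (nat_lit 16405216541) (nat_lit 76) (nat_lit 7165430870) (nat_lit 68) (nat_lit 4) (nat_lit 69) (nat_lit 5) (nat_lit 69) (nat_lit 4) (nat_lit 487) (nat_lit 315) (nat_lit 218)) (XT.lf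 (nat_lit 0) (nat_lit 9086819922) (nat_lit 152) (nat_lit 38272496464) (nat_lit 0) (nat_lit 100402767) (nat_lit 66) (nat_lit 5) (nat_lit 68) (nat_lit 4) (nat_lit 66) (nat_lit 4) (nat_lit 488) (nat_lit 315) (nat_lit 217))) (XT.nd (nat_lit 78) (nat_lit 76) (nat_lit 0) (XT.lf (nat_lit 0) (nat_lit 26035494163) (nat_lit 152) (nat_lit 5305389823) (nat_lit 0) (nat_lit 17033784333) (nat_lit 66) (nat_lit 5) (nat_lit 68) (nat_lit 4) (nat_lit 66) (nat_lit 4) (nat_lit 489) (nat_lit 315) (nat_lit 216)) (XT.lf (nat_lit 0) (nat_lit 29121498091) (nat_lit 76) (nat_lit 14602590577) (nat_lit 76) (nat_lit 5586033490) (nat_lit 65) (nat_lit 4) (nat_lit 66) (nat_lit 5) (nat_lit 66) (nat_lit 4) (nat_lit 490) (nat_lit 315) (nat_lit 215))))))) (XT.nd (nat_lit 45864) (nat_lit 0) (nat_lit 8284) (XT.nd (nat_lit 45240) (nat_lit 0) (nat_lit 11704) (XT.nd (nat_lit 234) (nat_lit 228) (nat_lit 0) (XT.nd (nat_lit 78) (nat_lit 76) (nat_lit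 0) (XT.lf (nat_lit 0) (nat_lit 11614824934) (nat_lit 152) (nat_lit 35803373096) (nat_lit 0) (nat_lit 2846891051) (nat_lit 63) (nat_lit 5) (nat_lit 65) (nat_lit 4) (nat_lit 63) (nat_lit 4) (nat_lit 491) (nat_lit 315) (nat_lit 214)) (XT.nd (nat_lit 78) (nat_lit 76) (nat_lit 0) (XT.lf (nat_lit 0) (nat_lit 29521451169) (nat_lit 152) (nat_lit 976604208) (nat_lit 0) (nat_lit 20739929943) (nat_lit 63) (nat_lit 5) (nat_lit 65) (nat_lit 4) (nat_lit 63) (nat_lit 4) (nat_lit 492) (nat_lit 315) (nat_lit 213)) (XT.lf (nat_lit 0) (nat_lit 35492879562) (nat_lit 76) (nat_lit 12766538721) (nat_lit 76) (nat_lit 3971825899) (nat_lit 62) (nat_lit 4) (nat_lit 63) (nat_lit 5) (nat_lit 63) (nat_lit 4) (nat_lit 493) (nat_lit 315) (nat_lit 212)))) (XT.nd (nat_lit 44850) (nat_lit 0) (nat_lit 13984) (XT.nd (nat_lit 78) (nat_lit 76) (nat_lit 0) (XT.lf (nat_lit 0) (nat_lit 14236810906) (nat_lit 152) (nat_lit 33321222153) (nat_lit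 0) (nat_lit 5685820424) (nat_lit 60) (nat_lit 5) (nat_lit 62) (nat_lit 4) (nat_lit 60) (nat_lit 4) (nat_lit 494) (nat_lit 315) (nat_lit 211)) (XT.lf (nat_lit 0) (nat_lit 3552015013) (nat_lit 76) (nat_lit 29644091044) (nat_lit 76) (nat_lit 21081028383) (nat_lit 59) (nat_lit 4) (nat_lit 60) (nat_lit 5) (nat_lit 60) (nat_lit 4) (nat_lit 495) (nat_lit 315) (nat_lit 210))) (XT.nd (nat_lit 78) (nat_lit 380) (nat_lit 0) (XT.lf (nat_lit 0) (nat_lit 2005236865) (nat_lit 380) (nat_lit 435393857) (nat_lit 0) (nat_lit 2005236865) (nat_lit 248) (nat_lit 5) (nat_lit 253) (nat_lit 4) (nat_lit 248) (nat_lit 4) (nat_lit 388) (nat_lit 316) (nat_lit 316)) (XT.lf (nat_lit 0) (nat_lit 7178138150) (nat_lit 380) (nat_lit 1374861861) (nat_lit 380) (nat_lit 444059049) (nat_lit 243) (nat_lit 4) (nat_lit 248) (nat_lit 5) (nat_lit 248) (nat_lit 4) (nat_lit 389) (nat_lit 316) (nat_lit 315))))) (XT.nd (nat_lit 312) (nat_lit 912)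 (nat_lit 0) (XT.nd (nat_lit 156) (nat_lit 684) (nat_lit 0) (XT.nd (nat_lit 78) (nat_lit 304) (nat_lit 0) (XT.lf (nat_lit 0) (nat_lit 4032134308) (nat_lit 380) (nat_lit 2821555305) (nat_lit 0) (nat_lit 2251071334) (nat_lit 238) (nat_lit 5) (nat_lit 243) (nat_lit 4) (nat_lit 238) (nat_lit 4) (nat_lit 390) (nat_lit 316) (nat_lit 314)) (XT.lf (nat_lit 0) (nat_lit 5377778912) (nat_lit 304) (nat_lit 3235635353) (nat_lit 304) (nat_lit 602755948) (nat_lit 234) (nat_lit 4) (nat_lit 238) (nat_lit 5) (nat_lit 238) (nat_lit 4) (nat_lit 391) (nat_lit 316) (nat_lit 313))) (XT.nd (nat_lit 78) (nat_lit 304) (nat_lit 0) (XT.lf (nat_lit 0) (nat_lit 3896208753) (nat_lit 380) (nat_lit 4897270391) (nat_lit 0) (nat_lit 537096473) (nat_lit 229) (nat_lit 5) (nat_lit 234) (nat_lit 4) (nat_lit 229) (nat_lit 4) (nat_lit 392) (nat_lit 316) (nat_lit 312)) (XT.lf (nat_lit 0) (nat_lit 3452608722) (nat_lit 304) (nat_lit 5067109839)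 (nat_lit 304) (nat_lit 928464857) (nat_lit 225) (nat_lit 4) (nat_lit 229) (nat_lit 5) (nat_lit 229) (nat_lit 4) (nat_lit 393) (nat_lit 316) (nat_lit 311)))) (XT.nd (nat_lit 156) (nat_lit 304) (nat_lit 0) (XT.nd (nat_lit 78) (nat_lit 304) (nat_lit 0) (XT.lf (nat_lit 0) (nat_lit 2435466405) (nat_lit 228) (nat_lit 1175833719) (nat_lit 304) (nat_lit 5957814719) (nat_lit 221) (nat_lit 5) (nat_lit 224) (nat_lit 5) (nat_lit 225) (nat_lit 4) (nat_lit 394) (nat_lit 316) (nat_lit 310)) (XT.lf (nat_lit 0) (nat_lit 1378066920) (nat_lit 304) (nat_lit 6890796314) (nat_lit 304) (nat_lit 1424527204) (nat_lit 217) (nat_lit 4) (nat_lit 221) (nat_lit 5) (nat_lit 221) (nat_lit 4) (nat_lit 395) (nat_lit 316) (nat_lit 309))) (XT.nd (nat_lit 78) (nat_lit 0) (nat_lit 0) (XT.lf (nat_lit 0) (nat_lit 271169892) (nat_lit 228) (nat_lit 2896339325) (nat_lit 304) (nat_lit 6653367348) (nat_lit 213) (nat_lit 5) (nat_lit 216) (nat_lit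 5) (nat_lit 217) (nat_lit 4) (nat_lit 396) (nat_lit 316) (nat_lit 308)) (XT.lf (nat_lit 0) (nat_lit 7865051335) (nat_lit 304) (nat_lit 854105705) (nat_lit 0) (nat_lit 1232715824) (nat_lit 213) (nat_lit 5) (nat_lit 217) (nat_lit 4) (nat_lit 213) (nat_lit 4) (nat_lit 397) (nat_lit 316) (nat_lit 307)))))) (XT.nd (nat_lit 624) (nat_lit 1444) (nat_lit 0) (XT.nd (nat_lit 312) (nat_lit 836) (nat_lit 0) (XT.nd (nat_lit 156) (nat_lit 532) (nat_lit 0) (XT.nd (nat_lit 78) (nat_lit 228) (nat_lit 0) (XT.lf (nat_lit 0) (nat_lit 2574807906) (nat_lit 380) (nat_lit 2039306883) (nat_lit 76) (nat_lit 5471655191) (nat_lit 208) (nat_lit 5) (nat_lit 213) (nat_lit 5) (nat_lit 209) (nat_lit 4) (nat_lit 398) (nat_lit 316) (nat_lit 306)) (XT.lf (nat_lit 0) (nat_lit 6964164012) (nat_lit 228) (nat_lit 348989317) (nat_lit 304) (nat_lit 2910546528) (nat_lit 205) (nat_lit 5) (nat_lit 208) (nat_lit 5) (nat_lit 209) (nat_lit 4) (nat_lit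 399) (nat_lit 316) (nat_lit 305))) (XT.nd (nat_lit 78) (nat_lit 228) (nat_lit 0) (XT.lf (nat_lit 0) (nat_lit 1811978214) (nat_lit 304) (nat_lit 4553707673) (nat_lit 76) (nat_lit 3998961662) (nat_lit 201) (nat_lit 5) (nat_lit 205) (nat_lit 5) (nat_lit 202) (nat_lit 4) (nat_lit 400) (nat_lit 316) (nat_lit 304)) (XT.lf (nat_lit 0) (nat_lit 4608677812) (nat_lit 228) (nat_lit 1994205079) (nat_lit 304) (nat_lit 3906520164) (nat_lit 198) (nat_lit 5) (nat_lit 201) (nat_lit 5) (nat_lit 202) (nat_lit 4) (nat_lit 401) (nat_lit 316) (nat_lit 303)))) (XT.nd (nat_lit 156) (nat_lit 304) (nat_lit 0) (XT.nd (nat_lit 78) (nat_lit 228) (nat_lit 0) (XT.lf (nat_lit 0) (nat_lit 869665337) (nat_lit 304) (nat_lit 7304407531) (nat_lit 76) (nat_lit 2483940733) (nat_lit 194) (nat_lit 5) (nat_lit 198) (nat_lit 5) (nat_lit 195) (nat_lit 4) (nat_lit 402) (nat_lit 316) (nat_lit 302)) (XT.lf (nat_lit 0) (nat_lit 2016439537) (nat_lit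 228) (nat_lit 3698649454) (nat_lit 304) (nat_lit 5094699026) (nat_lit 191) (nat_lit 5) (nat_lit 194) (nat_lit 5) (nat_lit 195) (nat_lit 4) (nat_lit 403) (nat_lit 316) (nat_lit 301))) (XT.nd (nat_lit 78) (nat_lit 76) (nat_lit 0) (XT.lf (nat_lit 0) (nat_lit 644101751) (nat_lit 228) (nat_lit 10056973853) (nat_lit 228) (nat_lit 265184053) (nat_lit 188) (nat_lit 4) (nat_lit 191) (nat_lit 5) (nat_lit 191) (nat_lit 4) (nat_lit 404) (nat_lit 316) (nat_lit 300)) (XT.lf (nat_lit 0) (nat_lit 4649662822) (nat_lit 304) (nat_lit 824604375) (nat_lit 76) (nat_lit 5650830009) (nat_lit 187) (nat_lit 5) (nat_lit 191) (nat_lit 5) (nat_lit 188) (nat_lit 4) (nat_lit 405) (nat_lit 316) (nat_lit 299))))) (XT.nd (nat_lit 312) (nat_lit 532) (nat_lit 0) (XT.nd (nat_lit 156) (nat_lit 456) (nat_lit 0) (XT.nd (nat_lit 78) (nat_lit 304) (nat_lit 0) (XT.lf (nat_lit 0) (nat_lit 8973059527) (nat_lit 152) (nat_lit 728601919) (nat_lit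 228) (nat_lit 1587108578) (nat_lit 185) (nat_lit 5) (nat_lit 187) (nat_lit 5) (nat_lit 188) (nat_lit 4) (nat_lit 406) (nat_lit 316) (nat_lit 298)) (XT.lf (nat_lit 0) (nat_lit 3411400724) (nat_lit 304) (nat_lit 3915506836) (nat_lit 76) (nat_lit 4128526755) (nat_lit 181) (nat_lit 5) (nat_lit 185) (nat_lit 5) (nat_lit 182) (nat_lit 4) (nat_lit 407) (nat_lit 316) (nat_lit 297))) (XT.nd (nat_lit 78) (nat_lit 304) (nat_lit 0) (XT.lf (nat_lit 0) (nat_lit 6049119811) (nat_lit 152) (nat_lit 2477386276) (nat_lit 228) (nat_lit 3100164827) (nat_lit 179) (nat_lit 5) (nat_lit 181) (nat_lit 5) (nat_lit 182) (nat_lit 4) (nat_lit 408) (nat_lit 316) (nat_lit 296)) (XT.lf (nat_lit 0) (nat_lit 1970713389) (nat_lit 304) (nat_lit 7326170089) (nat_lit 76) (nat_lit 2505059732) (nat_lit 175) (nat_lit 5) (nat_lit 179) (nat_lit 5) (nat_lit 176) (nat_lit 4) (nat_lit 409) (nat_lit 316) (nat_lit 295)))) (XT.nd (nat_lit 156) (nat_lit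 152) (nat_lit 0) (XT.nd (nat_lit 78) (nat_lit 228) (nat_lit 0) (XT.lf (nat_lit 0) (nat_lit 2804407537) (nat_lit 152) (nat_lit 4345643813) (nat_lit 228) (nat_lit 4830942174) (nat_lit 173) (nat_lit 5) (nat_lit 175) (nat_lit 5) (nat_lit 176) (nat_lit 4) (nat_lit 410) (nat_lit 316) (nat_lit 294)) (XT.lf (nat_lit 0) (nat_lit 316213327) (nat_lit 228) (nat_lit 11088675163) (nat_lit 76) (nat_lit 760342033) (nat_lit 170) (nat_lit 5) (nat_lit 173) (nat_lit 5) (nat_lit 171) (nat_lit 4) (nat_lit 411) (nat_lit 316) (nat_lit 293))) (XT.nd (nat_lit 78) (nat_lit 152) (nat_lit 0) (XT.lf (nat_lit 0) (nat_lit 5568226977) (nat_lit 228) (nat_lit 778024544) (nat_lit 76) (nat_lit 6005881959) (nat_lit 170) (nat_lit 5) (nat_lit 173) (nat_lit 5) (nat_lit 171) (nat_lit 4) (nat_lit 412) (nat_lit 316) (nat_lit 292)) (XT.lf (nat_lit 0) (nat_lit 9879945640) (nat_lit 152) (nat_lit 1106353163) (nat_lit 228) (nat_lit 1558089790) (nat_lit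 168) (nat_lit 5) (nat_lit 170) (nat_lit 5) (nat_lit 171) (nat_lit 4) (nat_lit 413) (nat_lit 316) (nat_lit 291))))))))
noncomputable def xc48 : XT := (XT.nd (nat_lit 2340) (nat_lit 2660) (nat_lit 0) (XT.nd (nat_lit 1170) (nat_lit 1596) (nat_lit 0) (XT.nd (nat_lit 546) (nat_lit 1140) (nat_lit 0) (XT.nd (nat_lit 234) (nat_lit 532) (nat_lit 0) (XT.nd (nat_lit 78) (nat_lit 380) (nat_lit 0) (XT.lf (nat_lit 0) (nat_lit 3791168153) (nat_lit 228) (nat_lit 4685513889) (nat_lit 76) (nat_lit 4263387518) (nat_lit 165) (nat_lit 5) (nat_lit 168) (nat_lit 5) (nat_lit 166) (nat_lit 4) (nat_lit 414) (nat_lit 316) (nat_lit 290)) (XT.nd (nat_lit 78) (nat_lit 228) (nat_lit 0) (XT.lf (nat_lit 0) (nat_lit 6146854807) (nat_lit 152) (nat_lit 3134053127) (nat_lit 228) (nat_lit 3659910618) (nat_lit 163) (nat_lit 5) (nat_lit 165) (nat_lit 5) (nat_lit 166) (nat_lit 4) (nat_lit 415) (nat_lit 316) (nat_lit 289)) (XT.lf (nat_lit 0)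 (nat_lit 1778084046) (nat_lit 228) (nat_lit 9008071635) (nat_lit 76) (nat_lit 2360162196) (nat_lit 160) (nat_lit 5) (nat_lit 163) (nat_lit 5) (nat_lit 161) (nat_lit 4) (nat_lit 416) (nat_lit 316) (nat_lit 288)))) (XT.nd (nat_lit 156) (nat_lit 380) (nat_lit 0) (XT.nd (nat_lit 78) (nat_lit 0) (nat_lit 0) (XT.lf (nat_lit 0) (nat_lit 1996882051) (nat_lit 152) (nat_lit 5342924978) (nat_lit 228) (nat_lit 6016063580) (nat_lit 158) (nat_lit 5) (nat_lit 160) (nat_lit 5) (nat_lit 161) (nat_lit 4) (nat_lit 417) (nat_lit 316) (nat_lit 287)) (XT.lf (nat_lit 0) (nat_lit 13077747927) (nat_lit 228) (nat_lit 212009976) (nat_lit 0) (nat_lit 281671033) (nat_lit 158) (nat_lit 5) (nat_lit 161) (nat_lit 4) (nat_lit 158) (nat_lit 4) (nat_lit 418) (nat_lit 316) (nat_lit 286))) (XT.nd (nat_lit 78) (nat_lit 152) (nat_lit 0) (XT.lf (nat_lit 0) (nat_lit 5172615630) (nat_lit 228) (nat_lit 2556797317) (nat_lit 76) (nat_lit 6060155015)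 (nat_lit 155) (nat_lit 5) (nat_lit 158) (nat_lit 5) (nat_lit 156) (nat_lit 4) (nat_lit 419) (nat_lit 316) (nat_lit 285)) (XT.lf (nat_lit 0) (nat_lit 9030524957) (nat_lit 152) (nat_lit 1975020080) (nat_lit 228) (nat_lit 3008362494) (nat_lit 153) (nat_lit 5) (nat_lit 155) (nat_lit 5) (nat_lit 156) (nat_lit 4) (nat_lit 420) (nat_lit 316) (nat_lit 284))))) (XT.nd (nat_lit 312) (nat_lit 608) (nat_lit 0) (XT.nd (nat_lit 156) (nat_lit 228) (nat_lit 0) (XT.nd (nat_lit 78) (nat_lit 76) (nat_lit 0) (XT.lf (nat_lit 0) (nat_lit 2761417658) (nat_lit 228) (nat_lit 7556333495) (nat_lit 76) (nat_lit 3925019089) (nat_lit 150) (nat_lit 5) (nat_lit 153) (nat_lit 5) (nat_lit 151) (nat_lit 4) (nat_lit 421) (nat_lit 316) (nat_lit 283)) (XT.lf (nat_lit 0) (nat_lit 4211590440) (nat_lit 76) (nat_lit 4461125098) (nat_lit 152) (nat_lit 5804023042) (nat_lit 149) (nat_lit 5) (nat_lit 150) (nat_lit 5) (nat_lit 151) (nat_lit 4) (nat_lit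 422) (nat_lit 316) (nat_lit 282))) (XT.nd (nat_lit 78) (nat_lit 0) (nat_lit 0) (XT.lf (nat_lit 0) (nat_lit 69216447) (nat_lit 228) (nat_lit 13082087959) (nat_lit 76) (nat_lit 1565615740) (nat_lit 146) (nat_lit 5) (nat_lit 149) (nat_lit 5) (nat_lit 147) (nat_lit 4) (nat_lit 423) (nat_lit 316) (nat_lit 281)) (XT.lf (nat_lit 0) (nat_lit 6069277212) (nat_lit 228) (nat_lit 1114287317) (nat_lit 76) (nat_lit 7777000285) (nat_lit 146) (nat_lit 5) (nat_lit 149) (nat_lit 5) (nat_lit 147) (nat_lit 4) (nat_lit 424) (nat_lit 316) (nat_lit 280)))) (XT.nd (nat_lit 156) (nat_lit 304) (nat_lit 0) (XT.nd (nat_lit 78) (nat_lit 228) (nat_lit 0) (XT.lf (nat_lit 0) (nat_lit 11284529896) (nat_lit 76) (nat_lit 994085133) (nat_lit 152) (nat_lit 2932025538) (nat_lit 145) (nat_lit 5) (nat_lit 146) (nat_lit 5) (nat_lit 147) (nat_lit 4) (nat_lit 425) (nat_lit 316) (nat_lit 279)) (XT.lf (nat_lit 0) (nat_lit 3210692471) (nat_lit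 228) (nat_lit 6920345868) (nat_lit 76) (nat_lit 5334238538) (nat_lit 142) (nat_lit 5) (nat_lit 145) (nat_lit 5) (nat_lit 143) (nat_lit 4) (nat_lit 426) (nat_lit 316) (nat_lit 278))) (XT.nd (nat_lit 78) (nat_lit 228) (nat_lit 0) (XT.lf (nat_lit 0) (nat_lit 5666969682) (nat_lit 76) (nat_lit 3837299897) (nat_lit 152) (nat_lit 6221646549) (nat_lit 141) (nat_lit 5) (nat_lit 142) (nat_lit 5) (nat_lit 143) (nat_lit 4) (nat_lit 427) (nat_lit 316) (nat_lit 277)) (XT.lf (nat_lit 0) (nat_lit 35782066) (nat_lit 228) (nat_lit 13334982793) (nat_lit 76) (nat_lit 2622311363) (nat_lit 138) (nat_lit 5) (nat_lit 141) (nat_lit 5) (nat_lit 139) (nat_lit 4) (nat_lit 428) (nat_lit 316) (nat_lit 276)))))) (XT.nd (nat_lit 546) (nat_lit 912) (nat_lit 0) (XT.nd (nat_lit 234) (nat_lit 380) (nat_lit 0) (XT.nd (nat_lit 78) (nat_lit 304) (nat_lit 0) (XT.lf (nat_lit 0) (nat_lit 6417933765) (nat_lit 228) (nat_lit 551852638) (nat_lit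 76) (nat_lit 9294755228) (nat_lit 138) (nat_lit 5) (nat_lit 141) (nat_lit 5) (nat_lit 139) (nat_lit 4) (nat_lit 429) (nat_lit 316) (nat_lit 275)) (XT.nd (nat_lit 78) (nat_lit 228) (nat_lit 0) (XT.lf (nat_lit 0) (nat_lit 12718397235) (nat_lit 76) (nat_lit 319171694) (nat_lit 152) (nat_lit 3505201507) (nat_lit 137) (nat_lit 5) (nat_lit 138) (nat_lit 5) (nat_lit 139) (nat_lit 4) (nat_lit 430) (nat_lit 316) (nat_lit 274)) (XT.lf (nat_lit 0) (nat_lit 3052363405) (nat_lit 228) (nat_lit 7309134686) (nat_lit 76) (nat_lit 6464426055) (nat_lit 134) (nat_lit 5) (nat_lit 137) (nat_lit 5) (nat_lit 135) (nat_lit 4) (nat_lit 431) (nat_lit 316) (nat_lit 273)))) (XT.nd (nat_lit 156) (nat_lit 152) (nat_lit 0) (XT.nd (nat_lit 78) (nat_lit 152) (nat_lit 0) (XT.lf (nat_lit 0) (nat_lit 6157229482) (nat_lit 76) (nat_lit 3604370677) (nat_lit 152) (nat_lit 7354169278) (nat_lit 133) (nat_lit 5) (nat_lit 134) (nat_lit 5) (nat_lit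 135) (nat_lit 4) (nat_lit 432) (nat_lit 316) (nat_lit 272)) (XT.lf (nat_lit 0) (nat_lit 2638807077) (nat_lit 152) (nat_lit 14089691045) (nat_lit 152) (nat_lit 684120442) (nat_lit 131) (nat_lit 4) (nat_lit 133) (nat_lit 5) (nat_lit 133) (nat_lit 4) (nat_lit 433) (nat_lit 316) (nat_lit 271))) (XT.nd (nat_lit 78) (nat_lit 76) (nat_lit 0) (XT.lf (nat_lit 0) (nat_lit 6137069760) (nat_lit 228) (nat_lit 1087689315) (nat_lit 76) (nat_lit 10489677627) (nat_lit 130) (nat_lit 5) (nat_lit 133) (nat_lit 5) (nat_lit 131) (nat_lit 4) (nat_lit 434) (nat_lit 316) (nat_lit 270)) (XT.lf (nat_lit 0) (nat_lit 13117332362) (nat_lit 76) (nat_lit 84418947) (nat_lit 152) (nat_lit 4821776694) (nat_lit 129) (nat_lit 5) (nat_lit 130) (nat_lit 5) (nat_lit 131) (nat_lit 4) (nat_lit 435) (nat_lit 316) (nat_lit 269))))) (XT.nd (nat_lit 312) (nat_lit 380) (nat_lit 0) (XT.nd (nat_lit 156) (nat_lit 228) (nat_lit 0) (XT.nd (nat_lit 78)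 (nat_lit 76) (nat_lit 0) (XT.lf (nat_lit 0) (nat_lit 2193784382) (nat_lit 228) (nat_lit 8958787889) (nat_lit 76) (nat_lit 7185733851) (nat_lit 126) (nat_lit 5) (nat_lit 129) (nat_lit 5) (nat_lit 127) (nat_lit 4) (nat_lit 436) (nat_lit 316) (nat_lit 268)) (XT.lf (nat_lit 0) (nat_lit 5449497504) (nat_lit 76) (nat_lit 3903401464) (nat_lit 152) (nat_lit 9307296418) (nat_lit 125) (nat_lit 5) (nat_lit 126) (nat_lit 5) (nat_lit 127) (nat_lit 4) (nat_lit 437) (nat_lit 316) (nat_lit 267))) (XT.nd (nat_lit 78) (nat_lit 76) (nat_lit 0) (XT.lf (nat_lit 0) (nat_lit 1334285996) (nat_lit 152) (nat_lit 15457831245) (nat_lit 152) (nat_lit 2197664179) (nat_lit 123) (nat_lit 4) (nat_lit 125) (nat_lit 5) (nat_lit 125) (nat_lit 4) (nat_lit 438) (nat_lit 316) (nat_lit 266)) (XT.lf (nat_lit 0) (nat_lit 5125574412) (nat_lit 228) (nat_lit 2969384927) (nat_lit 76) (nat_lit 11229807794) (nat_lit 122) (nat_lit 5) (nat_lit 125)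 (nat_lit 5) (nat_lit 123) (nat_lit 4) (nat_lit 439) (nat_lit 316) (nat_lit 265)))) (XT.nd (nat_lit 156) (nat_lit 76) (nat_lit 0) (XT.nd (nat_lit 78) (nat_lit 228) (nat_lit 0) (XT.lf (nat_lit 0) (nat_lit 12237134338) (nat_lit 76) (nat_lit 433922289) (nat_lit 152) (nat_lit 6996691500) (nat_lit 121) (nat_lit 5) (nat_lit 122) (nat_lit 5) (nat_lit 123) (nat_lit 4) (nat_lit 440) (nat_lit 316) (nat_lit 264)) (XT.lf (nat_lit 0) (nat_lit 521685294) (nat_lit 228) (nat_lit 12137767960) (nat_lit 76) (nat_lit 7358202642) (nat_lit 118) (nat_lit 5) (nat_lit 121) (nat_lit 5) (nat_lit 119) (nat_lit 4) (nat_lit 441) (nat_lit 316) (nat_lit 263))) (XT.nd (nat_lit 78) (nat_lit 0) (nat_lit 0) (XT.lf (nat_lit 0) (nat_lit 3278481733) (nat_lit 76) (nat_lit 4887369178) (nat_lit 152) (nat_lit 12208905840) (nat_lit 117) (nat_lit 5) (nat_lit 118) (nat_lit 5) (nat_lit 119) (nat_lit 4) (nat_lit 442) (nat_lit 316) (nat_lit 262)) (XT.lf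 (nat_lit 0) (nat_lit 16122486151) (nat_lit 152) (nat_lit 1501558883) (nat_lit 0) (nat_lit 3116031258) (nat_lit 117) (nat_lit 5) (nat_lit 119) (nat_lit 4) (nat_lit 117) (nat_lit 4) (nat_lit 443) (nat_lit 316) (nat_lit 261))))))) (XT.nd (nat_lit 1170) (nat_lit 1292) (nat_lit 0) (XT.nd (nat_lit 546) (nat_lit 684) (nat_lit 0) (XT.nd (nat_lit 234) (nat_lit 380) (nat_lit 0) (XT.nd (nat_lit 78) (nat_lit 152) (nat_lit 0) (XT.lf (nat_lit 0) (nat_lit 3260999478) (nat_lit 152) (nat_lit 6479427272) (nat_lit 76) (nat_lit 11371345239) (nat_lit 115) (nat_lit 5) (nat_lit 117) (nat_lit 5) (nat_lit 116) (nat_lit 4) (nat_lit 444) (nat_lit 316) (nat_lit 260)) (XT.nd (nat_lit 78) (nat_lit 76) (nat_lit 0) (XT.lf (nat_lit 0) (nat_lit 9798659358) (nat_lit 76) (nat_lit 1525485441) (nat_lit 152) (nat_lit 10167871987) (nat_lit 114) (nat_lit 5) (nat_lit 115) (nat_lit 5) (nat_lit 116) (nat_lit 4) (nat_lit 445) (nat_lit 316) (nat_lit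 259)) (XT.lf (nat_lit 0) (nat_lit 4707071268) (nat_lit 76) (nat_lit 15031717259) (nat_lit 76) (nat_lit 2141592278) (nat_lit 113) (nat_lit 4) (nat_lit 114) (nat_lit 5) (nat_lit 114) (nat_lit 4) (nat_lit 446) (nat_lit 316) (nat_lit 258)))) (XT.nd (nat_lit 156) (nat_lit 228) (nat_lit 0) (XT.nd (nat_lit 78) (nat_lit 76) (nat_lit 0) (XT.lf (nat_lit 0) (nat_lit 6071955668) (nat_lit 152) (nat_lit 646507746) (nat_lit 76) (nat_lit 15558185578) (nat_lit 112) (nat_lit 5) (nat_lit 114) (nat_lit 5) (nat_lit 113) (nat_lit 4) (nat_lit 447) (nat_lit 316) (nat_lit 257)) (XT.lf (nat_lit 0) (nat_lit 14600485383) (nat_lit 152) (nat_lit 6152305093) (nat_lit 0) (nat_lit 1928030054) (nat_lit 111) (nat_lit 5) (nat_lit 113) (nat_lit 4) (nat_lit 111) (nat_lit 4) (nat_lit 448) (nat_lit 316) (nat_lit 256))) (XT.nd (nat_lit 78) (nat_lit 76) (nat_lit 0) (XT.lf (nat_lit 0) (nat_lit 397362220) (nat_lit 152) (nat_lit 11941265987) (nat_lit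 76) (nat_lit 10754949321) (nat_lit 109) (nat_lit 5) (nat_lit 111) (nat_lit 5) (nat_lit 110) (nat_lit 4) (nat_lit 449) (nat_lit 316) (nat_lit 255)) (XT.lf (nat_lit 0) (nat_lit 5481722398) (nat_lit 76) (nat_lit 3534480514) (nat_lit 152) (nat_lit 14498637649) (nat_lit 108) (nat_lit 5) (nat_lit 109) (nat_lit 5) (nat_lit 110) (nat_lit 4) (nat_lit 450) (nat_lit 316) (nat_lit 254))))) (XT.nd (nat_lit 312) (nat_lit 380) (nat_lit 0) (XT.nd (nat_lit 156) (nat_lit 152) (nat_lit 0) (XT.nd (nat_lit 78) (nat_lit 152) (nat_lit 0) (XT.lf (nat_lit 0) (nat_lit 18002448945) (nat_lit 152) (nat_lit 457368682) (nat_lit 0) (nat_lit 5485658653) (nat_lit 108) (nat_lit 5) (nat_lit 110) (nat_lit 4) (nat_lit 108) (nat_lit 4) (nat_lit 451) (nat_lit 316) (nat_lit 253)) (XT.lf (nat_lit 0) (nat_lit 2956875239) (nat_lit 152) (nat_lit 6581375204) (nat_lit 76) (nat_lit 14845644798) (nat_lit 106) (nat_lit 5) (nat_lit 108) (nat_lit 5)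 (nat_lit 107) (nat_lit 4) (nat_lit 452) (nat_lit 316) (nat_lit 252))) (XT.nd (nat_lit 78) (nat_lit 76) (nat_lit 0) (XT.lf (nat_lit 0) (nat_lit 11829916584) (nat_lit 76) (nat_lit 228624058) (nat_lit 152) (nat_lit 12773534432) (nat_lit 105) (nat_lit 5) (nat_lit 106) (nat_lit 5) (nat_lit 107) (nat_lit 4) (nat_lit 453) (nat_lit 316) (nat_lit 251)) (XT.lf (nat_lit 0) (nat_lit 5527613092) (nat_lit 76) (nat_lit 16051780714) (nat_lit 76) (nat_lit 3709922360) (nat_lit 104) (nat_lit 4) (nat_lit 105) (nat_lit 5) (nat_lit 105) (nat_lit 4) (nat_lit 454) (nat_lit 316) (nat_lit 250)))) (XT.nd (nat_lit 156) (nat_lit 228) (nat_lit 0) (XT.nd (nat_lit 78) (nat_lit 76) (nat_lit 0) (XT.lf (nat_lit 0) (nat_lit 5586627344) (nat_lit 152) (nat_lit 1060570481) (nat_lit 76) (nat_lit 19109330218) (nat_lit 103) (nat_lit 5) (nat_lit 105) (nat_lit 5) (nat_lit 104) (nat_lit 4) (nat_lit 455) (nat_lit 316) (nat_lit 249)) (XT.lf (nat_lit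 0) (nat_lit 15232953151) (nat_lit 152) (nat_lit 7862748450) (nat_lit 0) (nat_lit 3136589358) (nat_lit 102) (nat_lit 5) (nat_lit 104) (nat_lit 4) (nat_lit 102) (nat_lit 4) (nat_lit 456) (nat_lit 316) (nat_lit 248))) (XT.nd (nat_lit 78) (nat_lit 152) (nat_lit 0) (XT.lf (nat_lit 0) (nat_lit 11722330080) (nat_lit 76) (nat_lit 13573527895) (nat_lit 76) (nat_lit 1422653107) (nat_lit 101) (nat_lit 4) (nat_lit 102) (nat_lit 5) (nat_lit 102) (nat_lit 4) (nat_lit 457) (nat_lit 316) (nat_lit 247)) (XT.lf (nat_lit 0) (nat_lit 4726688170) (nat_lit 76) (nat_lit 3613452842) (nat_lit 152) (nat_lit 18874836612) (nat_lit 99) (nat_lit 5) (nat_lit 100) (nat_lit 5) (nat_lit 101) (nat_lit 4) (nat_lit 458) (nat_lit 316) (nat_lit 246)))))) (XT.nd (nat_lit 624) (nat_lit 608) (nat_lit 0) (XT.nd (nat_lit 312) (nat_lit 380) (nat_lit 0) (XT.nd (nat_lit 156) (nat_lit 152) (nat_lit 0) (XT.nd (nat_lit 78) (nat_lit 152) (nat_lit 0)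 (XT.lf (nat_lit 0) (nat_lit 18522006724) (nat_lit 152) (nat_lit 2575491629) (nat_lit 0) (nat_lit 6623773786) (nat_lit 99) (nat_lit 5) (nat_lit 101) (nat_lit 4) (nat_lit 99) (nat_lit 4) (nat_lit 459) (nat_lit 316) (nat_lit 245)) (XT.lf (nat_lit 0) (nat_lit 902961921) (nat_lit 152) (nat_lit 10113652551) (nat_lit 76) (nat_lit 17221379528) (nat_lit 97) (nat_lit 5) (nat_lit 99) (nat_lit 5) (nat_lit 98) (nat_lit 4) (nat_lit 460) (nat_lit 316) (nat_lit 244))) (XT.nd (nat_lit 78) (nat_lit 76) (nat_lit 0) (XT.lf (nat_lit 0) (nat_lit 10727182679) (nat_lit 76) (nat_lit 465363919) (nat_lit 152) (nat_lit 17572862864) (nat_lit 96) (nat_lit 5) (nat_lit 97) (nat_lit 5) (nat_lit 98) (nat_lit 4) (nat_lit 461) (nat_lit 316) (nat_lit 243)) (XT.lf (nat_lit 0) (nat_lit 2931798203) (nat_lit 76) (nat_lit 19030196286) (nat_lit 76) (nat_lit 7341517628) (nat_lit 95) (nat_lit 4) (nat_lit 96) (nat_lit 5) (nat_lit 96) (nat_lit 4)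 (nat_lit 462) (nat_lit 316) (nat_lit 242)))) (XT.nd (nat_lit 156) (nat_lit 228) (nat_lit 0) (XT.nd (nat_lit 78) (nat_lit 76) (nat_lit 0) (XT.lf (nat_lit 0) (nat_lit 3262834951) (nat_lit 152) (nat_lit 5108155188) (nat_lit 76) (nat_lit 21481992411) (nat_lit 94) (nat_lit 5) (nat_lit 96) (nat_lit 5) (nat_lit 95) (nat_lit 4) (nat_lit 463) (nat_lit 316) (nat_lit 241)) (XT.lf (nat_lit 0) (nat_lit 14169036226) (nat_lit 152) (nat_lit 13505316881) (nat_lit 0) (nat_lit 2738465081) (nat_lit 93) (nat_lit 5) (nat_lit 95) (nat_lit 4) (nat_lit 93) (nat_lit 4) (nat_lit 464) (nat_lit 316) (nat_lit 240))) (XT.nd (nat_lit 78) (nat_lit 152) (nat_lit 0) (XT.lf (nat_lit 0) (nat_lit 8670252664) (nat_lit 76) (nat_lit 16892173598) (nat_lit 76) (nat_lit 5422222549) (nat_lit 92) (nat_lit 4) (nat_lit 93) (nat_lit 5) (nat_lit 93) (nat_lit 4) (nat_lit 465) (nat_lit 316) (nat_lit 239)) (XT.lf (nat_lit 0) (nat_lit 46930404) (nat_lit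 76) (nat_lit 5645244161) (nat_lit 152) (nat_lit 25877412523) (nat_lit 90) (nat_lit 5) (nat_lit 91) (nat_lit 5) (nat_lit 92) (nat_lit 4) (nat_lit 466) (nat_lit 316) (nat_lit 238))))) (XT.nd (nat_lit 312) (nat_lit 380) (nat_lit 0) (XT.nd (nat_lit 156) (nat_lit 152) (nat_lit 0) (XT.nd (nat_lit 78) (nat_lit 76) (nat_lit 0) (XT.lf (nat_lit 0) (nat_lit 17257427098) (nat_lit 152) (nat_lit 8857848940) (nat_lit 0) (nat_lit 6048394768) (nat_lit 90) (nat_lit 5) (nat_lit 92) (nat_lit 4) (nat_lit 90) (nat_lit 4) (nat_lit 467) (nat_lit 316) (nat_lit 237)) (XT.lf (nat_lit 0) (nat_lit 14603303847) (nat_lit 76) (nat_lit 14706051258) (nat_lit 76) (nat_lit 3462030394) (nat_lit 89) (nat_lit 4) (nat_lit 90) (nat_lit 5) (nat_lit 90) (nat_lit 4) (nat_lit 468) (nat_lit 316) (nat_lit 236))) (XT.nd (nat_lit 78) (nat_lit 0) (nat_lit 0) (XT.lf (nat_lit 0) (nat_lit 5468322149) (nat_lit 76) (nat_lit 2781092857) (nat_lit 152) (nat_lit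 25142924741) (nat_lit 87) (nat_lit 5) (nat_lit 88) (nat_lit 5) (nat_lit 89) (nat_lit 4) (nat_lit 469) (nat_lit 316) (nat_lit 235)) (XT.lf (nat_lit 0) (nat_lit 20462742351) (nat_lit 152) (nat_lit 4080330559) (nat_lit 0) (nat_lit 9481217726) (nat_lit 87) (nat_lit 5) (nat_lit 89) (nat_lit 4) (nat_lit 87) (nat_lit 4) (nat_lit 470) (nat_lit 316) (nat_lit 234)))) (XT.nd (nat_lit 156) (nat_lit 152) (nat_lit 0) (XT.nd (nat_lit 78) (nat_lit 152) (nat_lit 0) (XT.lf (nat_lit 0) (nat_lit 20746525902) (nat_lit 76) (nat_lit 12468061055) (nat_lit 76) (nat_lit 1455449572) (nat_lit 86) (nat_lit 4) (nat_lit 87) (nat_lit 5) (nat_lit 87) (nat_lit 4) (nat_lit 471) (nat_lit 316) (nat_lit 233)) (XT.lf (nat_lit 0) (nat_lit 10893781835) (nat_lit 152) (nat_lit 24262727056) (nat_lit 0) (nat_lit 172623679) (nat_lit 84) (nat_lit 5) (nat_lit 86) (nat_lit 4) (nat_lit 84) (nat_lit 4) (nat_lit 472) (nat_lit 316) (nat_lit 232))) (XT.nd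 (nat_lit 78) (nat_lit 76) (nat_lit 0) (XT.lf (nat_lit 0) (nat_lit 855603166) (nat_lit 76) (nat_lit 22947503482) (nat_lit 76) (nat_lit 12197896446) (nat_lit 83) (nat_lit 4) (nat_lit 84) (nat_lit 5) (nat_lit 84) (nat_lit 4) (nat_lit 473) (nat_lit 316) (nat_lit 231)) (XT.lf (nat_lit 0) (nat_lit 591400668) (nat_lit 152) (nat_lit 9576683950) (nat_lit 76) (nat_lit 26519048187) (nat_lit 82) (nat_lit 5) (nat_lit 84) (nat_lit 5) (nat_lit 83) (nat_lit 4) (nat_lit 474) (nat_lit 316) (nat_lit 230))))))))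
noncomputable def xc49 : XT := (XT.nd (nat_lit 46878) (nat_lit 0) (nat_lit 6460) (XT.nd (nat_lit 1170) (nat_lit 456) (nat_lit 0) (XT.nd (nat_lit 546) (nat_lit 684) (nat_lit 0) (XT.nd (nat_lit 234) (nat_lit 304) (nat_lit 0) (XT.nd (nat_lit 78) (nat_lit 152) (nat_lit 0) (XT.lf (nat_lit 0) (nat_lit 13659184837) (nat_lit 152) (nat_lit 20557016620) (nat_lit 0) (nat_lit 3169822599) (nat_lit 81) (nat_lit 5) (nat_lit 83) (nat_lit 4) (nat_lit 81) (nat_lit 4) (nat_lit 475) (nat_lit 316) (nat_lit 229)) (XT.nd (nat_lit 78) (nat_lit 76) (nat_lit 0) (XT.lf (nat_lit 0) (nat_lit 6029878457) (nat_lit 76) (nat_lit 21292273896) (nat_lit 76) (nat_lit 10777635197) (nat_lit 80) (nat_lit 4) (nat_lit 81) (nat_lit 5) (nat_lit 81) (nat_lit 4) (nat_lit 476) (nat_lit 316) (nat_lit 228)) (XT.lf (nat_lit 0) (nat_lit 2666594532) (nat_lit 152) (nat_lit 5125992051) (nat_lit 76) (nat_lit 31036943945) (nat_lit 79) (nat_lit 5) (nat_lit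 81) (nat_lit 5) (nat_lit 80) (nat_lit 4) (nat_lit 477) (nat_lit 316) (nat_lit 227)))) (XT.nd (nat_lit 156) (nat_lit 152) (nat_lit 0) (XT.nd (nat_lit 78) (nat_lit 76) (nat_lit 0) (XT.lf (nat_lit 0) (nat_lit 16527199457) (nat_lit 152) (nat_lit 16772019680) (nat_lit 0) (nat_lit 6271855339) (nat_lit 78) (nat_lit 5) (nat_lit 80) (nat_lit 4) (nat_lit 78) (nat_lit 4) (nat_lit 478) (nat_lit 316) (nat_lit 226)) (XT.lf (nat_lit 0) (nat_lit 11374611780) (nat_lit 76) (nat_lit 19616219316) (nat_lit 76) (nat_lit 9338417389) (nat_lit 77) (nat_lit 4) (nat_lit 78) (nat_lit 5) (nat_lit 78) (nat_lit 4) (nat_lit 479) (nat_lit 316) (nat_lit 225))) (XT.nd (nat_lit 78) (nat_lit 76) (nat_lit 0) (XT.lf (nat_lit 0) (nat_lit 4804458085) (nat_lit 152) (nat_lit 546555711) (nat_lit 76) (nat_lit 35754191164) (nat_lit 76) (nat_lit 5) (nat_lit 78) (nat_lit 5) (nat_lit 77) (nat_lit 4) (nat_lit 480) (nat_lit 316) (nat_lit 224)) (XT.lf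 (nat_lit 0) (nat_lit 19506501902) (nat_lit 152) (nat_lit 12899154476) (nat_lit 0) (nat_lit 9486332714) (nat_lit 75) (nat_lit 5) (nat_lit 77) (nat_lit 4) (nat_lit 75) (nat_lit 4) (nat_lit 481) (nat_lit 316) (nat_lit 223))))) (XT.nd (nat_lit 312) (nat_lit 380) (nat_lit 0) (XT.nd (nat_lit 156) (nat_lit 76) (nat_lit 0) (XT.nd (nat_lit 78) (nat_lit 152) (nat_lit 0) (XT.lf (nat_lit 0) (nat_lit 16903891685) (nat_lit 76) (nat_lit 17916738514) (nat_lit 76) (nat_lit 7876615854) (nat_lit 74) (nat_lit 4) (nat_lit 75) (nat_lit 5) (nat_lit 75) (nat_lit 4) (nat_lit 482) (nat_lit 316) (nat_lit 222)) (XT.lf (nat_lit 0) (nat_lit 4256182491) (nat_lit 76) (nat_lit 2795875367) (nat_lit 152) (nat_lit 36468891273) (nat_lit 72) (nat_lit 5) (nat_lit 73) (nat_lit 5) (nat_lit 74) (nat_lit 4) (nat_lit 483) (nat_lit 316) (nat_lit 221))) (XT.nd (nat_lit 78) (nat_lit 76) (nat_lit 0) (XT.lf (nat_lit 0) (nat_lit 22606169124) (nat_lit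 152) (nat_lit 8929368997) (nat_lit 0) (nat_lit 12821408907) (nat_lit 72) (nat_lit 5) (nat_lit 74) (nat_lit 4) (nat_lit 72) (nat_lit 4) (nat_lit 484) (nat_lit 316) (nat_lit 220)) (XT.lf (nat_lit 0) (nat_lit 22632613106) (nat_lit 76) (nat_lit 16190999553) (nat_lit 76) (nat_lit 6388510934) (nat_lit 71) (nat_lit 4) (nat_lit 72) (nat_lit 5) (nat_lit 72) (nat_lit 4) (nat_lit 485) (nat_lit 316) (nat_lit 219)))) (XT.nd (nat_lit 156) (nat_lit 228) (nat_lit 0) (XT.nd (nat_lit 78) (nat_lit 0) (nat_lit 0) (XT.lf (nat_lit 0) (nat_lit 9225231233) (nat_lit 76) (nat_lit 156508614) (nat_lit 152) (nat_lit 36704558288) (nat_lit 69) (nat_lit 5) (nat_lit 70) (nat_lit 5) (nat_lit 71) (nat_lit 4) (nat_lit 486) (nat_lit 316) (nat_lit 218)) (XT.lf (nat_lit 0) (nat_lit 25835713296) (nat_lit 152) (nat_lit 4853117164) (nat_lit 0) (nat_lit 16285799338) (nat_lit 69) (nat_lit 5) (nat_lit 71) (nat_lit 4) (nat_lit 69) (nat_lit 4) (nat_lit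 487) (nat_lit 316) (nat_lit 217))) (XT.nd (nat_lit 78) (nat_lit 152) (nat_lit 0) (XT.lf (nat_lit 0) (nat_lit 28576521687) (nat_lit 76) (nat_lit 14435940230) (nat_lit 76) (nat_lit 4870274817) (nat_lit 68) (nat_lit 4) (nat_lit 69) (nat_lit 5) (nat_lit 69) (nat_lit 4) (nat_lit 488) (nat_lit 316) (nat_lit 216)) (XT.lf (nat_lit 0) (nat_lit 11819639665) (nat_lit 152) (nat_lit 34472325998) (nat_lit 0) (nat_lit 2517738609) (nat_lit 66) (nat_lit 5) (nat_lit 68) (nat_lit 4) (nat_lit 66) (nat_lit 4) (nat_lit 489) (nat_lit 316) (nat_lit 215)))))) (XT.nd (nat_lit 45084) (nat_lit 0) (nat_lit 12236) (XT.nd (nat_lit 234) (nat_lit 228) (nat_lit 0) (XT.nd (nat_lit 78) (nat_lit 228) (nat_lit 0) (XT.lf (nat_lit 0) (nat_lit 29205117382) (nat_lit 152) (nat_lit 660332722) (nat_lit 0) (nat_lit 19888801513) (nat_lit 66) (nat_lit 5) (nat_lit 68) (nat_lit 4) (nat_lit 66) (nat_lit 4) (nat_lit 490) (nat_lit 316) (nat_lit 214))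 (XT.nd (nat_lit 78) (nat_lit 152) (nat_lit 0) (XT.lf (nat_lit 0) (nat_lit 34752261646) (nat_lit 76) (nat_lit 12648266749) (nat_lit 76) (nat_lit 3317955916) (nat_lit 65) (nat_lit 4) (nat_lit 66) (nat_lit 5) (nat_lit 66) (nat_lit 4) (nat_lit 491) (nat_lit 316) (nat_lit 213)) (XT.lf (nat_lit 0) (nat_lit 14350580274) (nat_lit 152) (nat_lit 32072007690) (nat_lit 0) (nat_lit 5278834472) (nat_lit 63) (nat_lit 5) (nat_lit 65) (nat_lit 4) (nat_lit 63) (nat_lit 4) (nat_lit 492) (nat_lit 316) (nat_lit 212)))) (XT.nd (nat_lit 156) (nat_lit 152) (nat_lit 0) (XT.nd (nat_lit 78) (nat_lit 0) (nat_lit 0) (XT.lf (nat_lit 0) (nat_lit 3732432417) (nat_lit 76) (nat_lit 29028317984) (nat_lit 76) (nat_lit 19943764807) (nat_lit 62) (nat_lit 4) (nat_lit 63) (nat_lit 5) (nat_lit 63) (nat_lit 4) (nat_lit 493) (nat_lit 316) (nat_lit 211)) (XT.lf (nat_lit 0) (nat_lit 41177427289) (nat_lit 76) (nat_lit 10824450712) (nat_lit 76)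 (nat_lit 1727463192) (nat_lit 62) (nat_lit 4) (nat_lit 63) (nat_lit 5) (nat_lit 63) (nat_lit 4) (nat_lit 494) (nat_lit 316) (nat_lit 210))) (XT.nd (nat_lit 44616) (nat_lit 0) (nat_lit 14668) (XT.lf (nat_lit 0) (nat_lit 16980583850) (nat_lit 152) (nat_lit 29654248609) (nat_lit 0) (nat_lit 8136836569) (nat_lit 60) (nat_lit 5) (nat_lit 62) (nat_lit 4) (nat_lit 60) (nat_lit 4) (nat_lit 495) (nat_lit 316) (nat_lit 209)) (XT.lf (nat_lit 0) (nat_lit 537282868) (nat_lit 380) (nat_lit 1903711910) (nat_lit 380) (nat_lit 1903711910) (nat_lit 253) (nat_lit 4) (nat_lit 258) (nat_lit 5) (nat_lit 258) (nat_lit 4) (nat_lit 386) (nat_lit 317) (nat_lit 317))))) (XT.nd (nat_lit 312) (nat_lit 1292) (nat_lit 0) (XT.nd (nat_lit 156) (nat_lit 760) (nat_lit 0) (XT.nd (nat_lit 78) (nat_lit 0) (nat_lit 0) (XT.lf (nat_lit 0) (nat_lit 83542557) (nat_lit 304) (nat_lit 444059049) (nat_lit 380) (nat_lit 8262818748) (nat_lit 248)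 (nat_lit 5) (nat_lit 252) (nat_lit 5) (nat_lit 253) (nat_lit 4) (nat_lit 387) (nat_lit 317) (nat_lit 316)) (XT.lf (nat_lit 0) (nat_lit 4917122800) (nat_lit 380) (nat_lit 948581618) (nat_lit 0) (nat_lit 3027593090) (nat_lit 248) (nat_lit 5) (nat_lit 253) (nat_lit 4) (nat_lit 248) (nat_lit 4) (nat_lit 388) (nat_lit 317) (nat_lit 315))) (XT.nd (nat_lit 78) (nat_lit 304) (nat_lit 0) (XT.lf (nat_lit 0) (nat_lit 399451736) (nat_lit 456) (nat_lit 1982334737) (nat_lit 76) (nat_lit 6618279362) (nat_lit 242) (nat_lit 5) (nat_lit 248) (nat_lit 5) (nat_lit 243) (nat_lit 4) (nat_lit 389) (nat_lit 317) (nat_lit 314)) (XT.lf (nat_lit 0) (nat_lit 4804386985) (nat_lit 380) (nat_lit 3064425700) (nat_lit 0) (nat_lit 1240704767) (nat_lit 238) (nat_lit 5) (nat_lit 243) (nat_lit 4) (nat_lit 238) (nat_lit 4) (nat_lit 390) (nat_lit 317) (nat_lit 313)))) (XT.nd (nat_lit 156) (nat_lit 608) (nat_lit 0) (XT.nd (nat_lit 78) (nat_lit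 304) (nat_lit 0) (XT.lf (nat_lit 0) (nat_lit 108070753) (nat_lit 380) (nat_lit 4171304831) (nat_lit 76) (nat_lit 4943107269) (nat_lit 233) (nat_lit 5) (nat_lit 238) (nat_lit 5) (nat_lit 234) (nat_lit 4) (nat_lit 391) (nat_lit 317) (nat_lit 312)) (XT.lf (nat_lit 0) (nat_lit 4015231483) (nat_lit 304) (nat_lit 521142224) (nat_lit 380) (nat_lit 4802107723) (nat_lit 229) (nat_lit 5) (nat_lit 233) (nat_lit 5) (nat_lit 234) (nat_lit 4) (nat_lit 392) (nat_lit 317) (nat_lit 311))) (XT.nd (nat_lit 78) (nat_lit 304) (nat_lit 0) (XT.lf (nat_lit 0) (nat_lit 2944746316) (nat_lit 304) (nat_lit 6156138882) (nat_lit 304) (nat_lit 356973983) (nat_lit 225) (nat_lit 4) (nat_lit 229) (nat_lit 5) (nat_lit 229) (nat_lit 4) (nat_lit 393) (nat_lit 317) (nat_lit 310)) (XT.lf (nat_lit 0) (nat_lit 1823288505) (nat_lit 228) (nat_lit 2293577376) (nat_lit 304) (nat_lit 5463403117) (nat_lit 221) (nat_lit 5) (nat_lit 224) (nat_lit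 5) (nat_lit 225) (nat_lit 4) (nat_lit 394) (nat_lit 317) (nat_lit 309))))))) (XT.nd (nat_lit 1170) (nat_lit 2280) (nat_lit 0) (XT.nd (nat_lit 546) (nat_lit 1748) (nat_lit 0) (XT.nd (nat_lit 234) (nat_lit 1140) (nat_lit 0) (XT.nd (nat_lit 78) (nat_lit 304) (nat_lit 0) (XT.lf (nat_lit 0) (nat_lit 674124819) (nat_lit 304) (nat_lit 8034321991) (nat_lit 304) (nat_lit 998077248) (nat_lit 217) (nat_lit 4) (nat_lit 221) (nat_lit 5) (nat_lit 221) (nat_lit 4) (nat_lit 395) (nat_lit 317) (nat_lit 308)) (XT.nd (nat_lit 78) (nat_lit 228) (nat_lit 0) (XT.lf (nat_lit 0) (nat_lit 3534759657) (nat_lit 380) (nat_lit 533114394) (nat_lit 76) (nat_lit 5767539494) (nat_lit 216) (nat_lit 5) (nat_lit 221) (nat_lit 5) (nat_lit 217) (nat_lit 4) (nat_lit 396) (nat_lit 317) (nat_lit 307)) (XT.lf (nat_lit 0) (nat_lit 8167872796) (nat_lit 304) (nat_lit 1750580484) (nat_lit 0) (nat_lit 49889433) (nat_lit 213) (nat_lit 5) (nat_lit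 217) (nat_lit 4) (nat_lit 213) (nat_lit 4) (nat_lit 397) (nat_lit 317) (nat_lit 306)))) (XT.nd (nat_lit 156) (nat_lit 532) (nat_lit 0) (XT.nd (nat_lit 78) (nat_lit 228) (nat_lit 0) (XT.lf (nat_lit 0) (nat_lit 2798989453) (nat_lit 380) (nat_lit 3051405086) (nat_lit 76) (nat_lit 4253460182) (nat_lit 208) (nat_lit 5) (nat_lit 213) (nat_lit 5) (nat_lit 209) (nat_lit 4) (nat_lit 398) (nat_lit 317) (nat_lit 305)) (XT.lf (nat_lit 0) (nat_lit 5854308795) (nat_lit 228) (nat_lit 1626040651) (nat_lit 304) (nat_lit 2763144713) (nat_lit 205) (nat_lit 5) (nat_lit 208) (nat_lit 5) (nat_lit 209) (nat_lit 4) (nat_lit 399) (nat_lit 317) (nat_lit 304))) (XT.nd (nat_lit 78) (nat_lit 228) (nat_lit 0) (XT.lf (nat_lit 0) (nat_lit 1885853938) (nat_lit 304) (nat_lit 5793897206) (nat_lit 76) (nat_lit 2706767694) (nat_lit 201) (nat_lit 5) (nat_lit 205) (nat_lit 5) (nat_lit 202) (nat_lit 4) (nat_lit 400) (nat_lit 317) (nat_lit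 303)) (XT.lf (nat_lit 0) (nat_lit 3265679847) (nat_lit 228) (nat_lit 3352354193) (nat_lit 304) (nat_lit 3915002042) (nat_lit 198) (nat_lit 5) (nat_lit 201) (nat_lit 5) (nat_lit 202) (nat_lit 4) (nat_lit 401) (nat_lit 317) (nat_lit 302))))) (XT.nd (nat_lit 312) (nat_lit 912) (nat_lit 0) (XT.nd (nat_lit 156) (nat_lit 304) (nat_lit 0) (XT.nd (nat_lit 78) (nat_lit 228) (nat_lit 0) (XT.lf (nat_lit 0) (nat_lit 788046457) (nat_lit 304) (nat_lit 8788375490) (nat_lit 76) (nat_lit 1107426202) (nat_lit 194) (nat_lit 5) (nat_lit 198) (nat_lit 5) (nat_lit 195) (nat_lit 4) (nat_lit 402) (nat_lit 317) (nat_lit 301)) (XT.lf (nat_lit 0) (nat_lit 424342968) (nat_lit 228) (nat_lit 5148467447) (nat_lit 304) (nat_lit 5264631940) (nat_lit 191) (nat_lit 5) (nat_lit 194) (nat_lit 5) (nat_lit 195) (nat_lit 4) (nat_lit 403) (nat_lit 317) (nat_lit 300))) (XT.nd (nat_lit 78) (nat_lit 304) (nat_lit 0) (XT.lf (nat_lit 0) (nat_lit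 9938695752) (nat_lit 228) (nat_lit 560287960) (nat_lit 304) (nat_lit 496724684) (nat_lit 191) (nat_lit 5) (nat_lit 194) (nat_lit 5) (nat_lit 195) (nat_lit 4) (nat_lit 404) (nat_lit 317) (nat_lit 299)) (XT.lf (nat_lit 0) (nat_lit 4361853978) (nat_lit 304) (nat_lit 2646282335) (nat_lit 76) (nat_lit 4148299994) (nat_lit 187) (nat_lit 5) (nat_lit 191) (nat_lit 5) (nat_lit 188) (nat_lit 4) (nat_lit 405) (nat_lit 317) (nat_lit 298)))) (XT.nd (nat_lit 156) (nat_lit 456) (nat_lit 0) (XT.nd (nat_lit 78) (nat_lit 304) (nat_lit 0) (XT.lf (nat_lit 0) (nat_lit 7038404766) (nat_lit 152) (nat_lit 2313224438) (nat_lit 228) (nat_lit 1970346623) (nat_lit 185) (nat_lit 5) (nat_lit 187) (nat_lit 5) (nat_lit 188) (nat_lit 4) (nat_lit 406) (nat_lit 317) (nat_lit 297)) (XT.lf (nat_lit 0) (nat_lit 2956374516) (nat_lit 304) (nat_lit 6015075145) (nat_lit 76) (nat_lit 2519678971) (nat_lit 181) (nat_lit 5) (nat_lit 185) (nat_lit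 5) (nat_lit 182) (nat_lit 4) (nat_lit 407) (nat_lit 317) (nat_lit 296))) (XT.nd (nat_lit 78) (nat_lit 304) (nat_lit 0) (XT.lf (nat_lit 0) (nat_lit 3830663197) (nat_lit 152) (nat_lit 4176238714) (nat_lit 228) (nat_lit 3657400658) (nat_lit 179) (nat_lit 5) (nat_lit 181) (nat_lit 5) (nat_lit 182) (nat_lit 4) (nat_lit 408) (nat_lit 317) (nat_lit 295)) (XT.lf (nat_lit 0) (nat_lit 1341484998) (nat_lit 304) (nat_lit 9721766494) (nat_lit 76) (nat_lit 778970055) (nat_lit 175) (nat_lit 5) (nat_lit 179) (nat_lit 5) (nat_lit 176) (nat_lit 4) (nat_lit 409) (nat_lit 317) (nat_lit 294)))))) (XT.nd (nat_lit 624) (nat_lit 1140) (nat_lit 0) (XT.nd (nat_lit 312) (nat_lit 608) (nat_lit 0) (XT.nd (nat_lit 156) (nat_lit 380) (nat_lit 0) (XT.nd (nat_lit 78) (nat_lit 0) (nat_lit 0) (XT.lf (nat_lit 0) (nat_lit 283682672) (nat_lit 152) (nat_lit 6169998545) (nat_lit 228) (nat_lit 5569604896) (nat_lit 173) (nat_lit 5) (nat_lit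 175) (nat_lit 5) (nat_lit 176) (nat_lit 4) (nat_lit 410) (nat_lit 317) (nat_lit 293)) (XT.lf (nat_lit 0) (nat_lit 10635935074) (nat_lit 152) (nat_lit 1095439545) (nat_lit 228) (nat_lit 478044059) (nat_lit 173) (nat_lit 5) (nat_lit 175) (nat_lit 5) (nat_lit 176) (nat_lit 4) (nat_lit 411) (nat_lit 317) (nat_lit 292))) (XT.nd (nat_lit 78) (nat_lit 152) (nat_lit 0) (XT.lf (nat_lit 0) (nat_lit 4714590687) (nat_lit 228) (nat_lit 3565004687) (nat_lit 76) (nat_lit 4118925337) (nat_lit 170) (nat_lit 5) (nat_lit 173) (nat_lit 5) (nat_lit 171) (nat_lit 4) (nat_lit 412) (nat_lit 317) (nat_lit 291)) (XT.lf (nat_lit 0) (nat_lit 6961993859) (nat_lit 152) (nat_lit 3101262055) (nat_lit 228) (nat_lit 2529602107) (nat_lit 168) (nat_lit 5) (nat_lit 170) (nat_lit 5) (nat_lit 171) (nat_lit 4) (nat_lit 413) (nat_lit 317) (nat_lit 290)))) (XT.nd (nat_lit 156) (nat_lit 228) (nat_lit 0) (XT.nd (nat_lit 78) (nat_lit 152) (nat_lit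 0) (XT.lf (nat_lit 0) (nat_lit 2747754827) (nat_lit 228) (nat_lit 7808050709) (nat_lit 76) (nat_lit 2235739376) (nat_lit 165) (nat_lit 5) (nat_lit 168) (nat_lit 5) (nat_lit 166) (nat_lit 4) (nat_lit 414) (nat_lit 317) (nat_lit 289)) (XT.lf (nat_lit 0) (nat_lit 2886384656) (nat_lit 152) (nat_lit 5278688783) (nat_lit 228) (nat_lit 4829393100) (nat_lit 163) (nat_lit 5) (nat_lit 165) (nat_lit 5) (nat_lit 166) (nat_lit 4) (nat_lit 415) (nat_lit 317) (nat_lit 288))) (XT.nd (nat_lit 78) (nat_lit 0) (nat_lit 0) (XT.lf (nat_lit 0) (nat_lit 535943828) (nat_lit 228) (nat_lit 12487392004) (nat_lit 76) (nat_lit 179831643) (nat_lit 160) (nat_lit 5) (nat_lit 163) (nat_lit 5) (nat_lit 161) (nat_lit 4) (nat_lit 416) (nat_lit 317) (nat_lit 287)) (XT.lf (nat_lit 0) (nat_lit 6037646365) (nat_lit 228) (nat_lit 1595968834) (nat_lit 76) (nat_lit 5780905621) (nat_lit 160) (nat_lit 5) (nat_lit 163) (nat_lit 5) (nat_lit 161)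 (nat_lit 4) (nat_lit 417) (nat_lit 317) (nat_lit 286))))) (XT.nd (nat_lit 312) (nat_lit 380) (nat_lit 0) (XT.nd (nat_lit 156) (nat_lit 380) (nat_lit 0) (XT.nd (nat_lit 78) (nat_lit 228) (nat_lit 0) (XT.lf (nat_lit 0) (nat_lit 9663816356) (nat_lit 152) (nat_lit 2053016831) (nat_lit 228) (nat_lit 1915008582) (nat_lit 158) (nat_lit 5) (nat_lit 160) (nat_lit 5) (nat_lit 161) (nat_lit 4) (nat_lit 418) (nat_lit 317) (nat_lit 285)) (XT.lf (nat_lit 0) (nat_lit 3681507716) (nat_lit 228) (nat_lit 6490117169) (nat_lit 76) (nat_lit 3681691257) (nat_lit 155) (nat_lit 5) (nat_lit 158) (nat_lit 5) (nat_lit 156) (nat_lit 4) (nat_lit 419) (nat_lit 317) (nat_lit 284))) (XT.nd (nat_lit 78) (nat_lit 228) (nat_lit 0) (XT.lf (nat_lit 0) (nat_lit 4944860717) (nat_lit 152) (nat_lit 4490892369) (nat_lit 228) (nat_lit 4644263146) (nat_lit 153) (nat_lit 5) (nat_lit 155) (nat_lit 5) (nat_lit 156) (nat_lit 4) (nat_lit 420) (nat_lit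 317) (nat_lit 283)) (XT.lf (nat_lit 0) (nat_lit 1051769124) (nat_lit 228) (nat_lit 11892762202) (nat_lit 76) (nat_lit 1367989482) (nat_lit 150) (nat_lit 5) (nat_lit 153) (nat_lit 5) (nat_lit 151) (nat_lit 4) (nat_lit 421) (nat_lit 317) (nat_lit 282)))) (XT.nd (nat_lit 156) (nat_lit 304) (nat_lit 0) (XT.nd (nat_lit 78) (nat_lit 76) (nat_lit 0) (XT.lf (nat_lit 0) (nat_lit 6883379290) (nat_lit 228) (nat_lit 279846730) (nat_lit 76) (nat_lit 7385653757) (nat_lit 150) (nat_lit 5) (nat_lit 153) (nat_lit 5) (nat_lit 151) (nat_lit 4) (nat_lit 422) (nat_lit 317) (nat_lit 281)) (XT.lf (nat_lit 0) (nat_lit 11767554366) (nat_lit 76) (nat_lit 1158235509) (nat_lit 152) (nat_lit 1865464075) (nat_lit 149) (nat_lit 5) (nat_lit 150) (nat_lit 5) (nat_lit 151) (nat_lit 4) (nat_lit 423) (nat_lit 317) (nat_lit 280))) (XT.nd (nat_lit 78) (nat_lit 76) (nat_lit 0) (XT.lf (nat_lit 0) (nat_lit 4090913248) (nat_lit 228) (nat_lit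 5951875033) (nat_lit 76) (nat_lit 4995050860) (nat_lit 146) (nat_lit 5) (nat_lit 149) (nat_lit 5) (nat_lit 147) (nat_lit 4) (nat_lit 424) (nat_lit 317) (nat_lit 279)) (XT.lf (nat_lit 0) (nat_lit 6278366108) (nat_lit 76) (nat_lit 3935884903) (nat_lit 152) (nat_lit 5076243883) (nat_lit 145) (nat_lit 5) (nat_lit 146) (nat_lit 5) (nat_lit 147) (nat_lit 4) (nat_lit 425) (nat_lit 317) (nat_lit 278))))))))
noncomputable def xc50 : XT := (XT.nd (nat_lit 2340) (nat_lit 2508) (nat_lit 0) (XT.nd (nat_lit 1170) (nat_lit 1292) (nat_lit 0) (XT.nd (nat_lit 546) (nat_lit 988) (nat_lit 0) (XT.nd (nat_lit 234) (nat_lit 532) (nat_lit 0) (XT.nd (nat_lit 78) (nat_lit 76) (nat_lit 0) (XT.lf (nat_lit 0) (nat_lit 990839672) (nat_lit 228) (nat_lit 12212739935) (nat_lit 76) (nat_lit 2345694220) (nat_lit 142) (nat_lit 5) (nat_lit 145) (nat_lit 5) (nat_lit 143) (nat_lit 4) (nat_lit 426) (nat_lit 317) (nat_lit 277)) (XT.nd (nat_lit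 78) (nat_lit 0) (nat_lit 0) (XT.lf (nat_lit 0) (nat_lit 196776509) (nat_lit 76) (nat_lit 6997347833) (nat_lit 152) (nat_lit 8618497509) (nat_lit 141) (nat_lit 5) (nat_lit 142) (nat_lit 5) (nat_lit 143) (nat_lit 4) (nat_lit 427) (nat_lit 317) (nat_lit 276)) (XT.lf (nat_lit 0) (nat_lit 13086098248) (nat_lit 76) (nat_lit 545040216) (nat_lit 152) (nat_lit 2451302924) (nat_lit 141) (nat_lit 5) (nat_lit 142) (nat_lit 5) (nat_lit 143) (nat_lit 4) (nat_lit 428) (nat_lit 317) (nat_lit 275)))) (XT.nd (nat_lit 156) (nat_lit 228) (nat_lit 0) (XT.nd (nat_lit 78) (nat_lit 76) (nat_lit 0) (XT.lf (nat_lit 0) (nat_lit 3906220785) (nat_lit 228) (nat_lit 6398285036) (nat_lit 76) (nat_lit 6052281730) (nat_lit 138) (nat_lit 5) (nat_lit 141) (nat_lit 5) (nat_lit 139) (nat_lit 4) (nat_lit 429) (nat_lit 317) (nat_lit 274)) (XT.lf (nat_lit 0) (nat_lit 6685097689) (nat_lit 76) (nat_lit 3746300635) (nat_lit 152) (nat_lit 6206451760)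 (nat_lit 137) (nat_lit 5) (nat_lit 138) (nat_lit 5) (nat_lit 139) (nat_lit 4) (nat_lit 430) (nat_lit 317) (nat_lit 273))) (XT.nd (nat_lit 78) (nat_lit 0) (nat_lit 0) (XT.lf (nat_lit 0) (nat_lit 272788700) (nat_lit 228) (nat_lit 13668208790) (nat_lit 76) (nat_lit 2984716352) (nat_lit 134) (nat_lit 5) (nat_lit 137) (nat_lit 5) (nat_lit 135) (nat_lit 4) (nat_lit 431) (nat_lit 317) (nat_lit 272)) (XT.lf (nat_lit 0) (nat_lit 6886513261) (nat_lit 228) (nat_lit 391266809) (nat_lit 76) (nat_lit 9940644430) (nat_lit 134) (nat_lit 5) (nat_lit 137) (nat_lit 5) (nat_lit 135) (nat_lit 4) (nat_lit 432) (nat_lit 317) (nat_lit 271))))) (XT.nd (nat_lit 312) (nat_lit 456) (nat_lit 0) (XT.nd (nat_lit 156) (nat_lit 228) (nat_lit 0) (XT.nd (nat_lit 78) (nat_lit 228) (nat_lit 0) (XT.lf (nat_lit 0) (nat_lit 13409116304) (nat_lit 76) (nat_lit 346837621) (nat_lit 152) (nat_lit 3762243422) (nat_lit 133) (nat_lit 5) (nat_lit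 134) (nat_lit 5) (nat_lit 135) (nat_lit 4) (nat_lit 433) (nat_lit 317) (nat_lit 270)) (XT.lf (nat_lit 0) (nat_lit 3038794041) (nat_lit 228) (nat_lit 8060219446) (nat_lit 76) (nat_lit 6724296201) (nat_lit 130) (nat_lit 5) (nat_lit 133) (nat_lit 5) (nat_lit 131) (nat_lit 4) (nat_lit 434) (nat_lit 317) (nat_lit 269))) (XT.nd (nat_lit 78) (nat_lit 152) (nat_lit 0) (XT.lf (nat_lit 0) (nat_lit 5937317996) (nat_lit 76) (nat_lit 4061993255) (nat_lit 152) (nat_lit 8136214669) (nat_lit 129) (nat_lit 5) (nat_lit 130) (nat_lit 5) (nat_lit 131) (nat_lit 4) (nat_lit 435) (nat_lit 317) (nat_lit 268)) (XT.lf (nat_lit 0) (nat_lit 1934735444) (nat_lit 152) (nat_lit 15294138764) (nat_lit 152) (nat_lit 1226427525) (nat_lit 127) (nat_lit 4) (nat_lit 129) (nat_lit 5) (nat_lit 129) (nat_lit 4) (nat_lit 436) (nat_lit 317) (nat_lit 267)))) (XT.nd (nat_lit 156) (nat_lit 304) (nat_lit 0) (XT.nd (nat_lit 78) (nat_lit 76) (nat_lit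 0) (XT.lf (nat_lit 0) (nat_lit 5869200693) (nat_lit 228) (nat_lit 2274318508) (nat_lit 76) (nat_lit 10636648022) (nat_lit 126) (nat_lit 5) (nat_lit 129) (nat_lit 5) (nat_lit 127) (nat_lit 4) (nat_lit 437) (nat_lit 317) (nat_lit 266)) (XT.lf (nat_lit 0) (nat_lit 12498046496) (nat_lit 76) (nat_lit 706091606) (nat_lit 152) (nat_lit 5908743581) (nat_lit 125) (nat_lit 5) (nat_lit 126) (nat_lit 5) (nat_lit 127) (nat_lit 4) (nat_lit 438) (nat_lit 317) (nat_lit 265))) (XT.nd (nat_lit 78) (nat_lit 76) (nat_lit 0) (XT.lf (nat_lit 0) (nat_lit 1379697985) (nat_lit 228) (nat_lit 11199686655) (nat_lit 76) (nat_lit 6872769358) (nat_lit 122) (nat_lit 5) (nat_lit 125) (nat_lit 5) (nat_lit 123) (nat_lit 4) (nat_lit 439) (nat_lit 317) (nat_lit 264)) (XT.lf (nat_lit 0) (nat_lit 3776106913) (nat_lit 76) (nat_lit 5033825423) (nat_lit 152) (nat_lit 10988660090) (nat_lit 121) (nat_lit 5) (nat_lit 122) (nat_lit 5) (nat_lit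 123) (nat_lit 4) (nat_lit 440) (nat_lit 317) (nat_lit 263)))))) (XT.nd (nat_lit 546) (nat_lit 608) (nat_lit 0) (XT.nd (nat_lit 234) (nat_lit 380) (nat_lit 0) (XT.nd (nat_lit 78) (nat_lit 304) (nat_lit 0) (XT.lf (nat_lit 0) (nat_lit 16534884728) (nat_lit 152) (nat_lit 882048219) (nat_lit 0) (nat_lit 2736336731) (nat_lit 121) (nat_lit 5) (nat_lit 123) (nat_lit 4) (nat_lit 121) (nat_lit 4) (nat_lit 441) (nat_lit 317) (nat_lit 262)) (XT.nd (nat_lit 78) (nat_lit 76) (nat_lit 0) (XT.lf (nat_lit 0) (nat_lit 4022315563) (nat_lit 228) (nat_lit 5731700323) (nat_lit 76) (nat_lit 10759620296) (nat_lit 118) (nat_lit 5) (nat_lit 121) (nat_lit 5) (nat_lit 119) (nat_lit 4) (nat_lit 442) (nat_lit 317) (nat_lit 261)) (XT.lf (nat_lit 0) (nat_lit 10080662344) (nat_lit 76) (nat_lit 1778080819) (nat_lit 152) (nat_lit 9023818789) (nat_lit 117) (nat_lit 5) (nat_lit 118) (nat_lit 5) (nat_lit 119) (nat_lit 4) (nat_lit 443) (nat_lit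 317) (nat_lit 260)))) (XT.nd (nat_lit 156) (nat_lit 228) (nat_lit 0) (XT.nd (nat_lit 78) (nat_lit 76) (nat_lit 0) (XT.lf (nat_lit 0) (nat_lit 5132148694) (nat_lit 76) (nat_lit 14901223567) (nat_lit 76) (nat_lit 1226089974) (nat_lit 116) (nat_lit 4) (nat_lit 117) (nat_lit 5) (nat_lit 117) (nat_lit 4) (nat_lit 444) (nat_lit 317) (nat_lit 259)) (XT.lf (nat_lit 0) (nat_lit 6734030667) (nat_lit 152) (nat_lit 92525483) (nat_lit 76) (nat_lit 14817312963) (nat_lit 115) (nat_lit 5) (nat_lit 117) (nat_lit 5) (nat_lit 116) (nat_lit 4) (nat_lit 445) (nat_lit 317) (nat_lit 258))) (XT.nd (nat_lit 78) (nat_lit 152) (nat_lit 0) (XT.lf (nat_lit 0) (nat_lit 15018844233) (nat_lit 152) (nat_lit 5442647429) (nat_lit 0) (nat_lit 1574636375) (nat_lit 114) (nat_lit 5) (nat_lit 116) (nat_lit 4) (nat_lit 114) (nat_lit 4) (nat_lit 446) (nat_lit 317) (nat_lit 257)) (XT.lf (nat_lit 0) (nat_lit 1204832938) (nat_lit 152) (nat_lit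 11078448228) (nat_lit 76) (nat_lit 10153118307) (nat_lit 112) (nat_lit 5) (nat_lit 114) (nat_lit 5) (nat_lit 113) (nat_lit 4) (nat_lit 447) (nat_lit 317) (nat_lit 256))))) (XT.nd (nat_lit 312) (nat_lit 304) (nat_lit 0) (XT.nd (nat_lit 156) (nat_lit 152) (nat_lit 0) (XT.nd (nat_lit 78) (nat_lit 76) (nat_lit 0) (XT.lf (nat_lit 0) (nat_lit 5845104322) (nat_lit 76) (nat_lit 3734739550) (nat_lit 152) (nat_lit 13265332704) (nat_lit 111) (nat_lit 5) (nat_lit 112) (nat_lit 5) (nat_lit 113) (nat_lit 4) (nat_lit 448) (nat_lit 317) (nat_lit 255)) (XT.lf (nat_lit 0) (nat_lit 65911278) (nat_lit 76) (nat_lit 18238213965) (nat_lit 76) (nat_lit 4959151144) (nat_lit 110) (nat_lit 4) (nat_lit 111) (nat_lit 5) (nat_lit 111) (nat_lit 4) (nat_lit 449) (nat_lit 317) (nat_lit 254))) (XT.nd (nat_lit 78) (nat_lit 76) (nat_lit 0) (XT.lf (nat_lit 0) (nat_lit 3672098186) (nat_lit 152) (nat_lit 5895827987) (nat_lit 76) (nat_lit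 14120574227) (nat_lit 109) (nat_lit 5) (nat_lit 111) (nat_lit 5) (nat_lit 110) (nat_lit 4) (nat_lit 450) (nat_lit 317) (nat_lit 253)) (XT.lf (nat_lit 0) (nat_lit 11987068912) (nat_lit 76) (nat_lit 528354297) (nat_lit 152) (nat_lit 11608000542) (nat_lit 108) (nat_lit 5) (nat_lit 109) (nat_lit 5) (nat_lit 110) (nat_lit 4) (nat_lit 451) (nat_lit 317) (nat_lit 252)))) (XT.nd (nat_lit 156) (nat_lit 152) (nat_lit 0) (XT.nd (nat_lit 78) (nat_lit 76) (nat_lit 0) (XT.lf (nat_lit 0) (nat_lit 5864553554) (nat_lit 76) (nat_lit 15898080595) (nat_lit 76) (nat_lit 2804603067) (nat_lit 107) (nat_lit 4) (nat_lit 108) (nat_lit 5) (nat_lit 108) (nat_lit 4) (nat_lit 452) (nat_lit 317) (nat_lit 251)) (XT.lf (nat_lit 0) (nat_lit 6207385658) (nat_lit 152) (nat_lit 555677826) (nat_lit 76) (nat_lit 18257494490) (nat_lit 106) (nat_lit 5) (nat_lit 108) (nat_lit 5) (nat_lit 107) (nat_lit 4) (nat_lit 453) (nat_lit 317) (nat_lit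 250))) (XT.nd (nat_lit 78) (nat_lit 76) (nat_lit 0) (XT.lf (nat_lit 0) (nat_lit 15576136961) (nat_lit 152) (nat_lit 7163120549) (nat_lit 0) (nat_lit 2743104613) (nat_lit 105) (nat_lit 5) (nat_lit 107) (nat_lit 4) (nat_lit 105) (nat_lit 4) (nat_lit 454) (nat_lit 317) (nat_lit 249)) (XT.lf (nat_lit 0) (nat_lit 11859233134) (nat_lit 76) (nat_lit 13492931948) (nat_lit 76) (nat_lit 602068885) (nat_lit 104) (nat_lit 4) (nat_lit 105) (nat_lit 5) (nat_lit 105) (nat_lit 4) (nat_lit 455) (nat_lit 317) (nat_lit 248))))))) (XT.nd (nat_lit 1170) (nat_lit 1216) (nat_lit 0) (XT.nd (nat_lit 546) (nat_lit 684) (nat_lit 0) (XT.nd (nat_lit 234) (nat_lit 304) (nat_lit 0) (XT.nd (nat_lit 78) (nat_lit 152) (nat_lit 0) (XT.lf (nat_lit 0) (nat_lit 5053415839) (nat_lit 76) (nat_lit 3813788706) (nat_lit 152) (nat_lit 17568629988) (nat_lit 102) (nat_lit 5) (nat_lit 103) (nat_lit 5) (nat_lit 104) (nat_lit 4) (nat_lit 456) (nat_lit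 317) (nat_lit 247)) (XT.nd (nat_lit 78) (nat_lit 152) (nat_lit 0) (XT.lf (nat_lit 0) (nat_lit 18751055793) (nat_lit 152) (nat_lit 2048150004) (nat_lit 0) (nat_lit 6128220468) (nat_lit 102) (nat_lit 5) (nat_lit 104) (nat_lit 4) (nat_lit 102) (nat_lit 4) (nat_lit 457) (nat_lit 317) (nat_lit 246)) (XT.lf (nat_lit 0) (nat_lit 1622802829) (nat_lit 152) (nat_lit 9379927423) (nat_lit 76) (nat_lit 16425972486) (nat_lit 100) (nat_lit 5) (nat_lit 102) (nat_lit 5) (nat_lit 101) (nat_lit 4) (nat_lit 458) (nat_lit 317) (nat_lit 245)))) (XT.nd (nat_lit 156) (nat_lit 152) (nat_lit 0) (XT.nd (nat_lit 78) (nat_lit 76) (nat_lit 0) (XT.lf (nat_lit 0) (nat_lit 10861208295) (nat_lit 76) (nat_lit 757171381) (nat_lit 152) (nat_lit 16322206243) (nat_lit 99) (nat_lit 5) (nat_lit 100) (nat_lit 5) (nat_lit 101) (nat_lit 4) (nat_lit 459) (nat_lit 317) (nat_lit 244)) (XT.lf (nat_lit 0) (nat_lit 3290147359) (nat_lit 76) (nat_lit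 18786654049) (nat_lit 76) (nat_lit 6386134861) (nat_lit 98) (nat_lit 4) (nat_lit 99) (nat_lit 5) (nat_lit 99) (nat_lit 4) (nat_lit 460) (nat_lit 317) (nat_lit 243))) (XT.nd (nat_lit 78) (nat_lit 76) (nat_lit 0) (XT.lf (nat_lit 0) (nat_lit 3896161262) (nat_lit 152) (nat_lit 4536963925) (nat_lit 76) (nat_lit 20563025319) (nat_lit 97) (nat_lit 5) (nat_lit 99) (nat_lit 5) (nat_lit 98) (nat_lit 4) (nat_lit 461) (nat_lit 317) (nat_lit 242)) (XT.lf (nat_lit 0) (nat_lit 14487152627) (nat_lit 152) (nat_lit 12691994531) (nat_lit 0) (nat_lit 2360459699) (nat_lit 96) (nat_lit 5) (nat_lit 98) (nat_lit 4) (nat_lit 96) (nat_lit 4) (nat_lit 462) (nat_lit 317) (nat_lit 241))))) (XT.nd (nat_lit 312) (nat_lit 380) (nat_lit 0) (XT.nd (nat_lit 156) (nat_lit 76) (nat_lit 0) (XT.nd (nat_lit 78) (nat_lit 152) (nat_lit 0) (XT.lf (nat_lit 0) (nat_lit 8844849411) (nat_lit 76) (nat_lit 16709122800) (nat_lit 76) (nat_lit 4540651733)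 (nat_lit 95) (nat_lit 4) (nat_lit 96) (nat_lit 5) (nat_lit 96) (nat_lit 4) (nat_lit 463) (nat_lit 317) (nat_lit 240)) (XT.lf (nat_lit 0) (nat_lit 460251244) (nat_lit 76) (nat_lit 5780775165) (nat_lit 152) (nat_lit 24421136426) (nat_lit 93) (nat_lit 5) (nat_lit 94) (nat_lit 5) (nat_lit 95) (nat_lit 4) (nat_lit 464) (nat_lit 317) (nat_lit 239))) (XT.nd (nat_lit 78) (nat_lit 76) (nat_lit 0) (XT.lf (nat_lit 0) (nat_lit 17467614323) (nat_lit 152) (nat_lit 8195431275) (nat_lit 0) (nat_lit 5575951924) (nat_lit 93) (nat_lit 5) (nat_lit 95) (nat_lit 4) (nat_lit 93) (nat_lit 4) (nat_lit 465) (nat_lit 317) (nat_lit 238)) (XT.lf (nat_lit 0) (nat_lit 14589375502) (nat_lit 76) (nat_lit 14584134096) (nat_lit 76) (nat_lit 2655352361) (nat_lit 92) (nat_lit 4) (nat_lit 93) (nat_lit 5) (nat_lit 93) (nat_lit 4) (nat_lit 466) (nat_lit 317) (nat_lit 237)))) (XT.nd (nat_lit 156) (nat_lit 228) (nat_lit 0) (XT.nd (nat_lit 78)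 (nat_lit 0) (nat_lit 0) (XT.lf (nat_lit 0) (nat_lit 5708478399) (nat_lit 76) (nat_lit 2997579888) (nat_lit 152) (nat_lit 23725322859) (nat_lit 90) (nat_lit 5) (nat_lit 91) (nat_lit 5) (nat_lit 92) (nat_lit 4) (nat_lit 467) (nat_lit 317) (nat_lit 236)) (XT.lf (nat_lit 0) (nat_lit 20561749348) (nat_lit 152) (nat_lit 3571783726) (nat_lit 0) (nat_lit 8911449874) (nat_lit 90) (nat_lit 5) (nat_lit 92) (nat_lit 4) (nat_lit 90) (nat_lit 4) (nat_lit 468) (nat_lit 317) (nat_lit 235))) (XT.nd (nat_lit 78) (nat_lit 152) (nat_lit 0) (XT.lf (nat_lit 0) (nat_lit 20538774227) (nat_lit 76) (nat_lit 12408141974) (nat_lit 76) (nat_lit 724862451) (nat_lit 89) (nat_lit 4) (nat_lit 90) (nat_lit 5) (nat_lit 90) (nat_lit 4) (nat_lit 469) (nat_lit 317) (nat_lit 234)) (XT.lf (nat_lit 0) (nat_lit 11130742470) (nat_lit 76) (nat_lit 123465144) (nat_lit 152) (nat_lit 23057183021) (nat_lit 87) (nat_lit 5) (nat_lit 88) (nat_lit 5)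 (nat_lit 89) (nat_lit 4) (nat_lit 470) (nat_lit 317) (nat_lit 233)))))) (XT.nd (nat_lit 624) (nat_lit 608) (nat_lit 0) (XT.nd (nat_lit 312) (nat_lit 304) (nat_lit 0) (XT.nd (nat_lit 156) (nat_lit 152) (nat_lit 0) (XT.nd (nat_lit 78) (nat_lit 76) (nat_lit 0) (XT.lf (nat_lit 0) (nat_lit 1213899710) (nat_lit 76) (nat_lit 22576975121) (nat_lit 76) (nat_lit 11172717017) (nat_lit 86) (nat_lit 4) (nat_lit 87) (nat_lit 5) (nat_lit 87) (nat_lit 4) (nat_lit 471) (nat_lit 317) (nat_lit 232)) (XT.lf (nat_lit 0) (nat_lit 1231824761) (nat_lit 152) (nat_lit 8932956184) (nat_lit 76) (nat_lit 25464738450) (nat_lit 85) (nat_lit 5) (nat_lit 87) (nat_lit 5) (nat_lit 86) (nat_lit 4) (nat_lit 472) (nat_lit 317) (nat_lit 231))) (XT.nd (nat_lit 78) (nat_lit 76) (nat_lit 0) (XT.lf (nat_lit 0) (nat_lit 13920564133) (nat_lit 152) (nat_lit 19595043615) (nat_lit 0) (nat_lit 2792399734) (nat_lit 84) (nat_lit 5) (nat_lit 86) (nat_lit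 4) (nat_lit 84) (nat_lit 4) (nat_lit 473) (nat_lit 317) (nat_lit 230)) (XT.lf (nat_lit 0) (nat_lit 6223938815) (nat_lit 76) (nat_lit 20965946994) (nat_lit 76) (nat_lit 9810966798) (nat_lit 83) (nat_lit 4) (nat_lit 84) (nat_lit 5) (nat_lit 84) (nat_lit 4) (nat_lit 474) (nat_lit 317) (nat_lit 229)))) (XT.nd (nat_lit 156) (nat_lit 152) (nat_lit 0) (XT.nd (nat_lit 78) (nat_lit 76) (nat_lit 0) (XT.lf (nat_lit 0) (nat_lit 3229674921) (nat_lit 152) (nat_lit 4624774861) (nat_lit 76) (nat_lit 29854681040) (nat_lit 82) (nat_lit 5) (nat_lit 84) (nat_lit 5) (nat_lit 83) (nat_lit 4) (nat_lit 475) (nat_lit 317) (nat_lit 228)) (XT.lf (nat_lit 0) (nat_lit 16687968075) (nat_lit 152) (nat_lit 15932992972) (nat_lit 0) (nat_lit 5808073500) (nat_lit 81) (nat_lit 5) (nat_lit 83) (nat_lit 4) (nat_lit 81) (nat_lit 4) (nat_lit 476) (nat_lit 317) (nat_lit 227))) (XT.nd (nat_lit 78) (nat_lit 76) (nat_lit 0) (XT.lf (nat_lit 0)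 (nat_lit 11400129212) (nat_lit 76) (nat_lit 19334296877) (nat_lit 76) (nat_lit 8430576813) (nat_lit 80) (nat_lit 4) (nat_lit 81) (nat_lit 5) (nat_lit 81) (nat_lit 4) (nat_lit 477) (nat_lit 317) (nat_lit 226)) (XT.lf (nat_lit 0) (nat_lit 5288610390) (nat_lit 152) (nat_lit 190972513) (nat_lit 76) (nat_lit 34438573000) (nat_lit 79) (nat_lit 5) (nat_lit 81) (nat_lit 5) (nat_lit 80) (nat_lit 4) (nat_lit 478) (nat_lit 317) (nat_lit 225))))) (XT.nd (nat_lit 312) (nat_lit 304) (nat_lit 0) (XT.nd (nat_lit 156) (nat_lit 152) (nat_lit 0) (XT.nd (nat_lit 78) (nat_lit 76) (nat_lit 0) (XT.lf (nat_lit 0) (nat_lit 19563678929) (nat_lit 152) (nat_lit 12185026438) (nat_lit 0) (nat_lit 8933281438) (nat_lit 78) (nat_lit 5) (nat_lit 80) (nat_lit 4) (nat_lit 78) (nat_lit 4) (nat_lit 479) (nat_lit 317) (nat_lit 224)) (XT.lf (nat_lit 0) (nat_lit 16756100497) (nat_lit 76) (nat_lit 17679569082) (nat_lit 76) (nat_lit 7028002953)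 (nat_lit 77) (nat_lit 4) (nat_lit 78) (nat_lit 5) (nat_lit 78) (nat_lit 4) (nat_lit 480) (nat_lit 317) (nat_lit 223))) (XT.nd (nat_lit 78) (nat_lit 0) (nat_lit 0) (XT.lf (nat_lit 0) (nat_lit 4466735596) (nat_lit 76) (nat_lit 2990827852) (nat_lit 152) (nat_lit 34805528512) (nat_lit 75) (nat_lit 5) (nat_lit 76) (nat_lit 5) (nat_lit 77) (nat_lit 4) (nat_lit 481) (nat_lit 317) (nat_lit 222)) (XT.lf (nat_lit 0) (nat_lit 22556528100) (nat_lit 152) (nat_lit 8342399745) (nat_lit 0) (nat_lit 12175875986) (nat_lit 75) (nat_lit 5) (nat_lit 77) (nat_lit 4) (nat_lit 75) (nat_lit 4) (nat_lit 482) (nat_lit 317) (nat_lit 221)))) (XT.nd (nat_lit 156) (nat_lit 76) (nat_lit 0) (XT.nd (nat_lit 78) (nat_lit 152) (nat_lit 0) (XT.lf (nat_lit 0) (nat_lit 22306269866) (nat_lit 76) (nat_lit 15999075429) (nat_lit 76) (nat_lit 5599615254) (nat_lit 74) (nat_lit 4) (nat_lit 75) (nat_lit 5) (nat_lit 75) (nat_lit 4) (nat_lit 483)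 (nat_lit 317) (nat_lit 220)) (XT.lf (nat_lit 0) (nat_lit 9279699336) (nat_lit 76) (nat_lit 423463109) (nat_lit 152) (nat_lit 35050228875) (nat_lit 72) (nat_lit 5) (nat_lit 73) (nat_lit 5) (nat_lit 74) (nat_lit 4) (nat_lit 484) (nat_lit 317) (nat_lit 219))) (XT.nd (nat_lit 78) (nat_lit 76) (nat_lit 0) (XT.lf (nat_lit 0) (nat_lit 25675766041) (nat_lit 152) (nat_lit 4395884720) (nat_lit 0) (nat_lit 15544262323) (nat_lit 72) (nat_lit 5) (nat_lit 74) (nat_lit 4) (nat_lit 72) (nat_lit 4) (nat_lit 485) (nat_lit 317) (nat_lit 218)) (XT.lf (nat_lit 0) (nat_lit 28065884637) (nat_lit 76) (nat_lit 14289896647) (nat_lit 76) (nat_lit 4141682210) (nat_lit 71) (nat_lit 4) (nat_lit 72) (nat_lit 5) (nat_lit 72) (nat_lit 4) (nat_lit 486) (nat_lit 317) (nat_lit 217))))))))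
noncomputable def xc51 : XT := (XT.nd (nat_lit 46722) (nat_lit 0) (nat_lit 5244) (XT.nd (nat_lit 45552) (nat_lit 0) (nat_lit 9880) (XT.nd (nat_lit 546) (nat_lit 152) (nat_lit 0) (XT.nd (nat_lit 234) (nat_lit 380) (nat_lit 0) (XT.nd (nat_lit 78) (nat_lit 76) (nat_lit 0) (XT.lf (nat_lit 0) (nat_lit 12051564355) (nat_lit 152) (nat_lit 33162494031) (nat_lit 0) (nat_lit 2183177524) (nat_lit 69) (nat_lit 5) (nat_lit 71) (nat_lit 4) (nat_lit 69) (nat_lit 4) (nat_lit 487) (nat_lit 317) (nat_lit 216)) (XT.nd (nat_lit 78) (nat_lit 76) (nat_lit 0) (XT.lf (nat_lit 0) (nat_lit 28931097221) (nat_lit 152) (nat_lit 335744380) (nat_lit 0) (nat_lit 19047417716) (nat_lit 69) (nat_lit 5) (nat_lit 71) (nat_lit 4) (nat_lit 69) (nat_lit 4) (nat_lit 488) (nat_lit 317) (nat_lit 215)) (XT.lf (nat_lit 0) (nat_lit 34051068281) (nat_lit 76) (nat_lit 12548881942) (nat_lit 76) (nat_lit 2650355179) (nat_lit 68) (nat_lit 4) (nat_lit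 69) (nat_lit 5) (nat_lit 69) (nat_lit 4) (nat_lit 489) (nat_lit 317) (nat_lit 214)))) (XT.nd (nat_lit 156) (nat_lit 152) (nat_lit 0) (XT.nd (nat_lit 78) (nat_lit 76) (nat_lit 0) (XT.lf (nat_lit 0) (nat_lit 14493217588) (nat_lit 152) (nat_lit 30842205685) (nat_lit 0) (nat_lit 4869002466) (nat_lit 66) (nat_lit 5) (nat_lit 68) (nat_lit 4) (nat_lit 66) (nat_lit 4) (nat_lit 490) (nat_lit 317) (nat_lit 213)) (XT.lf (nat_lit 0) (nat_lit 3924882881) (nat_lit 76) (nat_lit 28445561768) (nat_lit 76) (nat_lit 18807759303) (nat_lit 65) (nat_lit 4) (nat_lit 66) (nat_lit 5) (nat_lit 66) (nat_lit 4) (nat_lit 491) (nat_lit 317) (nat_lit 212))) (XT.nd (nat_lit 78) (nat_lit 152) (nat_lit 0) (XT.lf (nat_lit 0) (nat_lit 40278870038) (nat_lit 76) (nat_lit 10772646842) (nat_lit 76) (nat_lit 1121652782) (nat_lit 65) (nat_lit 4) (nat_lit 66) (nat_lit 5) (nat_lit 66) (nat_lit 4) (nat_lit 492) (nat_lit 317) (nat_lit 211)) (XT.lf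 (nat_lit 0) (nat_lit 17031366880) (nat_lit 152) (nat_lit 28504554764) (nat_lit 0) (nat_lit 7649035390) (nat_lit 63) (nat_lit 5) (nat_lit 65) (nat_lit 4) (nat_lit 63) (nat_lit 4) (nat_lit 493) (nat_lit 317) (nat_lit 210))))) (XT.nd (nat_lit 44694) (nat_lit 0) (nat_lit 13756) (XT.nd (nat_lit 44538) (nat_lit 0) (nat_lit 14972) (XT.nd (nat_lit 78) (nat_lit 76) (nat_lit 0) (XT.lf (nat_lit 0) (nat_lit 8329610575) (nat_lit 76) (nat_lit 27641804251) (nat_lit 76) (nat_lit 18247400582) (nat_lit 62) (nat_lit 4) (nat_lit 63) (nat_lit 5) (nat_lit 63) (nat_lit 4) (nat_lit 494) (nat_lit 317) (nat_lit 209)) (XT.lf (nat_lit 0) (nat_lit 439801904) (nat_lit 152) (nat_lit 8513326365) (nat_lit 76) (nat_lit 46323075208) (nat_lit 61) (nat_lit 5) (nat_lit 63) (nat_lit 5) (nat_lit 62) (nat_lit 4) (nat_lit 495) (nat_lit 317) (nat_lit 208))) (XT.nd (nat_lit 78) (nat_lit 456) (nat_lit 0) (XT.lf (nat_lit 0) (nat_lit 1549018068)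 (nat_lit 380) (nat_lit 1349533788) (nat_lit 380) (nat_lit 1349533788) (nat_lit 264) (nat_lit 4) (nat_lit 269) (nat_lit 5) (nat_lit 269) (nat_lit 4) (nat_lit 384) (nat_lit 318) (nat_lit 318)) (XT.lf (nat_lit 0) (nat_lit 1543911909) (nat_lit 456) (nat_lit 6521627788) (nat_lit 0) (nat_lit 526798544) (nat_lit 258) (nat_lit 5) (nat_lit 264) (nat_lit 4) (nat_lit 258) (nat_lit 4) (nat_lit 385) (nat_lit 318) (nat_lit 317)))) (XT.nd (nat_lit 156) (nat_lit 760) (nat_lit 0) (XT.nd (nat_lit 78) (nat_lit 76) (nat_lit 0) (XT.lf (nat_lit 0) (nat_lit 998380700) (nat_lit 380) (nat_lit 4848599218) (nat_lit 380) (nat_lit 2843997148) (nat_lit 253) (nat_lit 4) (nat_lit 258) (nat_lit 5) (nat_lit 258) (nat_lit 4) (nat_lit 386) (nat_lit 318) (nat_lit 316)) (XT.lf (nat_lit 0) (nat_lit 1420319395) (nat_lit 456) (nat_lit 80080593) (nat_lit 76) (nat_lit 7292863493) (nat_lit 252) (nat_lit 5) (nat_lit 258) (nat_lit 5) (nat_lit 253)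 (nat_lit 4) (nat_lit 387) (nat_lit 318) (nat_lit 315))) (XT.nd (nat_lit 78) (nat_lit 456) (nat_lit 0) (XT.lf (nat_lit 0) (nat_lit 5748332520) (nat_lit 380) (nat_lit 1182031305) (nat_lit 0) (nat_lit 1967622054) (nat_lit 248) (nat_lit 5) (nat_lit 253) (nat_lit 4) (nat_lit 248) (nat_lit 4) (nat_lit 388) (nat_lit 318) (nat_lit 314)) (XT.lf (nat_lit 0) (nat_lit 1157232902) (nat_lit 456) (nat_lit 2308898596) (nat_lit 76) (nat_lit 5539962708) (nat_lit 242) (nat_lit 5) (nat_lit 248) (nat_lit 5) (nat_lit 243) (nat_lit 4) (nat_lit 389) (nat_lit 318) (nat_lit 313)))))) (XT.nd (nat_lit 546) (nat_lit 1900) (nat_lit 0) (XT.nd (nat_lit 234) (nat_lit 988) (nat_lit 0) (XT.nd (nat_lit 78) (nat_lit 684) (nat_lit 0) (XT.lf (nat_lit 0) (nat_lit 5498709727) (nat_lit 380) (nat_lit 3469445480) (nat_lit 0) (nat_lit 149294368) (nat_lit 238) (nat_lit 5) (nat_lit 243) (nat_lit 4) (nat_lit 238) (nat_lit 4) (nat_lit 390) (nat_lit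 318) (nat_lit 312)) (XT.nd (nat_lit 78) (nat_lit 304) (nat_lit 0) (XT.lf (nat_lit 0) (nat_lit 727494080) (nat_lit 380) (nat_lit 4675521057) (nat_lit 76) (nat_lit 3828809101) (nat_lit 233) (nat_lit 5) (nat_lit 238) (nat_lit 5) (nat_lit 234) (nat_lit 4) (nat_lit 391) (nat_lit 318) (nat_lit 311)) (XT.lf (nat_lit 0) (nat_lit 3425204800) (nat_lit 304) (nat_lit 1676800886) (nat_lit 380) (nat_lit 4247430869) (nat_lit 229) (nat_lit 5) (nat_lit 233) (nat_lit 5) (nat_lit 234) (nat_lit 4) (nat_lit 392) (nat_lit 318) (nat_lit 310)))) (XT.nd (nat_lit 156) (nat_lit 380) (nat_lit 0) (XT.nd (nat_lit 78) (nat_lit 228) (nat_lit 0) (XT.lf (nat_lit 0) (nat_lit 127897119) (nat_lit 380) (nat_lit 7205120895) (nat_lit 76) (nat_lit 2137717714) (nat_lit 224) (nat_lit 5) (nat_lit 229) (nat_lit 5) (nat_lit 225) (nat_lit 4) (nat_lit 393) (nat_lit 318) (nat_lit 309)) (XT.lf (nat_lit 0) (nat_lit 1037564865) (nat_lit 228) (nat_lit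 3502188712) (nat_lit 304) (nat_lit 5054939552) (nat_lit 221) (nat_lit 5) (nat_lit 224) (nat_lit 5) (nat_lit 225) (nat_lit 4) (nat_lit 394) (nat_lit 318) (nat_lit 308))) (XT.nd (nat_lit 78) (nat_lit 380) (nat_lit 0) (XT.lf (nat_lit 0) (nat_lit 9066177249) (nat_lit 304) (nat_lit 202916958) (nat_lit 0) (nat_lit 453808699) (nat_lit 221) (nat_lit 5) (nat_lit 225) (nat_lit 4) (nat_lit 221) (nat_lit 4) (nat_lit 395) (nat_lit 318) (nat_lit 307)) (XT.lf (nat_lit 0) (nat_lit 3820575838) (nat_lit 380) (nat_lit 1509445962) (nat_lit 76) (nat_lit 4523138386) (nat_lit 216) (nat_lit 5) (nat_lit 221) (nat_lit 5) (nat_lit 217) (nat_lit 4) (nat_lit 396) (nat_lit 318) (nat_lit 306))))) (XT.nd (nat_lit 312) (nat_lit 760) (nat_lit 0) (XT.nd (nat_lit 156) (nat_lit 532) (nat_lit 0) (XT.nd (nat_lit 78) (nat_lit 380) (nat_lit 0) (XT.lf (nat_lit 0) (nat_lit 7147693002) (nat_lit 228) (nat_lit 1249715540) (nat_lit 304) (nat_lit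 1590369227) (nat_lit 213) (nat_lit 5) (nat_lit 216) (nat_lit 5) (nat_lit 217) (nat_lit 4) (nat_lit 397) (nat_lit 318) (nat_lit 305)) (XT.lf (nat_lit 0) (nat_lit 2935873299) (nat_lit 380) (nat_lit 4248348708) (nat_lit 76) (nat_lit 2941080691) (nat_lit 208) (nat_lit 5) (nat_lit 213) (nat_lit 5) (nat_lit 209) (nat_lit 4) (nat_lit 398) (nat_lit 318) (nat_lit 304))) (XT.nd (nat_lit 78) (nat_lit 304) (nat_lit 0) (XT.lf (nat_lit 0) (nat_lit 4558189984) (nat_lit 228) (nat_lit 3001616434) (nat_lit 304) (nat_lit 2706858525) (nat_lit 205) (nat_lit 5) (nat_lit 208) (nat_lit 5) (nat_lit 209) (nat_lit 4) (nat_lit 399) (nat_lit 318) (nat_lit 303)) (XT.lf (nat_lit 0) (nat_lit 1868941773) (nat_lit 304) (nat_lit 7226793885) (nat_lit 76) (nat_lit 1316100732) (nat_lit 201) (nat_lit 5) (nat_lit 205) (nat_lit 5) (nat_lit 202) (nat_lit 4) (nat_lit 400) (nat_lit 318) (nat_lit 302)))) (XT.nd (nat_lit 156) (nat_lit 228) (nat_lit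 0) (XT.nd (nat_lit 78) (nat_lit 304) (nat_lit 0) (XT.lf (nat_lit 0) (nat_lit 1728415007) (nat_lit 228) (nat_lit 4813449293) (nat_lit 304) (nat_lit 4018267061) (nat_lit 198) (nat_lit 5) (nat_lit 201) (nat_lit 5) (nat_lit 202) (nat_lit 4) (nat_lit 401) (nat_lit 318) (nat_lit 301)) (XT.lf (nat_lit 0) (nat_lit 236167110) (nat_lit 228) (nat_lit 379387158) (nat_lit 304) (nat_lit 10097556206) (nat_lit 194) (nat_lit 5) (nat_lit 197) (nat_lit 5) (nat_lit 198) (nat_lit 5) (nat_lit 402) (nat_lit 318) (nat_lit 300))) (XT.nd (nat_lit 78) (nat_lit 228) (nat_lit 0) (XT.lf (nat_lit 0) (nat_lit 5348557826) (nat_lit 304) (nat_lit 1343675039) (nat_lit 76) (nat_lit 4176024628) (nat_lit 194) (nat_lit 5) (nat_lit 198) (nat_lit 5) (nat_lit 195) (nat_lit 4) (nat_lit 403) (nat_lit 318) (nat_lit 299)) (XT.lf (nat_lit 0) (nat_lit 8069852897) (nat_lit 228) (nat_lit 2148240910) (nat_lit 304) (nat_lit 810128847) (nat_lit 191) (nat_lit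 5) (nat_lit 194) (nat_lit 5) (nat_lit 195) (nat_lit 4) (nat_lit 404) (nat_lit 318) (nat_lit 298))))))) (XT.nd (nat_lit 1170) (nat_lit 1900) (nat_lit 0) (XT.nd (nat_lit 546) (nat_lit 1368) (nat_lit 0) (XT.nd (nat_lit 234) (nat_lit 608) (nat_lit 0) (XT.nd (nat_lit 78) (nat_lit 456) (nat_lit 0) (XT.lf (nat_lit 0) (nat_lit 3976849453) (nat_lit 304) (nat_lit 4675316811) (nat_lit 76) (nat_lit 2539206160) (nat_lit 187) (nat_lit 5) (nat_lit 191) (nat_lit 5) (nat_lit 188) (nat_lit 4) (nat_lit 405) (nat_lit 318) (nat_lit 297)) (XT.nd (nat_lit 78) (nat_lit 304) (nat_lit 0) (XT.lf (nat_lit 0) (nat_lit 4894501306) (nat_lit 152) (nat_lit 4009159218) (nat_lit 228) (nat_lit 2455140345) (nat_lit 185) (nat_lit 5) (nat_lit 187) (nat_lit 5) (nat_lit 188) (nat_lit 4) (nat_lit 406) (nat_lit 318) (nat_lit 296)) (XT.lf (nat_lit 0) (nat_lit 2399894327) (nat_lit 304) (nat_lit 8331094902) (nat_lit 76) (nat_lit 799538645) (nat_lit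 181) (nat_lit 5) (nat_lit 185) (nat_lit 5) (nat_lit 182) (nat_lit 4) (nat_lit 407) (nat_lit 318) (nat_lit 295)))) (XT.nd (nat_lit 156) (nat_lit 380) (nat_lit 0) (XT.nd (nat_lit 78) (nat_lit 76) (nat_lit 0) (XT.lf (nat_lit 0) (nat_lit 1393693039) (nat_lit 152) (nat_lit 5991310021) (nat_lit 228) (nat_lit 4320661311) (nat_lit 179) (nat_lit 5) (nat_lit 181) (nat_lit 5) (nat_lit 182) (nat_lit 4) (nat_lit 408) (nat_lit 318) (nat_lit 294)) (XT.lf (nat_lit 0) (nat_lit 621192153) (nat_lit 228) (nat_lit 458676619) (nat_lit 76) (nat_lit 10806005091) (nat_lit 178) (nat_lit 5) (nat_lit 181) (nat_lit 5) (nat_lit 179) (nat_lit 5) (nat_lit 409) (nat_lit 318) (nat_lit 293))) (XT.nd (nat_lit 78) (nat_lit 152) (nat_lit 0) (XT.lf (nat_lit 0) (nat_lit 5674078573) (nat_lit 304) (nat_lit 2417203766) (nat_lit 76) (nat_lit 3977435384) (nat_lit 175) (nat_lit 5) (nat_lit 179) (nat_lit 5) (nat_lit 176) (nat_lit 4) (nat_lit 410)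 (nat_lit 318) (nat_lit 292)) (XT.lf (nat_lit 0) (nat_lit 7813936173) (nat_lit 152) (nat_lit 3072988228) (nat_lit 228) (nat_lit 1369871314) (nat_lit 173) (nat_lit 5) (nat_lit 175) (nat_lit 5) (nat_lit 176) (nat_lit 4) (nat_lit 411) (nat_lit 318) (nat_lit 291))))) (XT.nd (nat_lit 312) (nat_lit 760) (nat_lit 0) (XT.nd (nat_lit 156) (nat_lit 228) (nat_lit 0) (XT.nd (nat_lit 78) (nat_lit 152) (nat_lit 0) (XT.lf (nat_lit 0) (nat_lit 3751389662) (nat_lit 228) (nat_lit 6585878969) (nat_lit 76) (nat_lit 2111549596) (nat_lit 170) (nat_lit 5) (nat_lit 173) (nat_lit 5) (nat_lit 171) (nat_lit 4) (nat_lit 412) (nat_lit 318) (nat_lit 290)) (XT.lf (nat_lit 0) (nat_lit 3807692168) (nat_lit 152) (nat_lit 5221888769) (nat_lit 228) (nat_lit 3615688819) (nat_lit 168) (nat_lit 5) (nat_lit 170) (nat_lit 5) (nat_lit 171) (nat_lit 4) (nat_lit 413) (nat_lit 318) (nat_lit 289))) (XT.nd (nat_lit 78) (nat_lit 0) (nat_lit 0) (XT.lf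 (nat_lit 0) (nat_lit 1589647645) (nat_lit 228) (nat_lit 11175112558) (nat_lit 76) (nat_lit 82306067) (nat_lit 165) (nat_lit 5) (nat_lit 168) (nat_lit 5) (nat_lit 166) (nat_lit 4) (nat_lit 414) (nat_lit 318) (nat_lit 288)) (XT.lf (nat_lit 0) (nat_lit 6939337518) (nat_lit 228) (nat_lit 609146404) (nat_lit 76) (nat_lit 5503532837) (nat_lit 165) (nat_lit 5) (nat_lit 168) (nat_lit 5) (nat_lit 166) (nat_lit 4) (nat_lit 415) (nat_lit 318) (nat_lit 287)))) (XT.nd (nat_lit 156) (nat_lit 380) (nat_lit 0) (XT.nd (nat_lit 78) (nat_lit 228) (nat_lit 0) (XT.lf (nat_lit 0) (nat_lit 10333248043) (nat_lit 152) (nat_lit 2136995098) (nat_lit 228) (nat_lit 792250869) (nat_lit 163) (nat_lit 5) (nat_lit 165) (nat_lit 5) (nat_lit 166) (nat_lit 4) (nat_lit 416) (nat_lit 318) (nat_lit 286)) (XT.lf (nat_lit 0) (nat_lit 4635730684) (nat_lit 228) (nat_lit 5403426434) (nat_lit 76) (nat_lit 3437594125) (nat_lit 160) (nat_lit 5)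 (nat_lit 163) (nat_lit 5) (nat_lit 161) (nat_lit 4) (nat_lit 417) (nat_lit 318) (nat_lit 285))) (XT.nd (nat_lit 78) (nat_lit 228) (nat_lit 0) (XT.lf (nat_lit 0) (nat_lit 5708900229) (nat_lit 152) (nat_lit 4529518542) (nat_lit 228) (nat_lit 3457948383) (nat_lit 158) (nat_lit 5) (nat_lit 160) (nat_lit 5) (nat_lit 161) (nat_lit 4) (nat_lit 418) (nat_lit 318) (nat_lit 284)) (XT.lf (nat_lit 0) (nat_lit 2065663996) (nat_lit 228) (nat_lit 10688851892) (nat_lit 76) (nat_lit 1166860957) (nat_lit 155) (nat_lit 5) (nat_lit 158) (nat_lit 5) (nat_lit 156) (nat_lit 4) (nat_lit 419) (nat_lit 318) (nat_lit 283)))))) (XT.nd (nat_lit 624) (nat_lit 912) (nat_lit 0) (XT.nd (nat_lit 312) (nat_lit 532) (nat_lit 0) (XT.nd (nat_lit 156) (nat_lit 304) (nat_lit 0) (XT.nd (nat_lit 78) (nat_lit 0) (nat_lit 0) (XT.lf (nat_lit 0) (nat_lit 590656522) (nat_lit 152) (nat_lit 7149135305) (nat_lit 228) (nat_lit 6410688634) (nat_lit 153)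 (nat_lit 5) (nat_lit 155) (nat_lit 5) (nat_lit 156) (nat_lit 4) (nat_lit 420) (nat_lit 318) (nat_lit 282)) (XT.lf (nat_lit 0) (nat_lit 12285942699) (nat_lit 152) (nat_lit 1329364860) (nat_lit 228) (nat_lit 770214703) (nat_lit 153) (nat_lit 5) (nat_lit 155) (nat_lit 5) (nat_lit 156) (nat_lit 4) (nat_lit 421) (nat_lit 318) (nat_lit 281))) (XT.nd (nat_lit 78) (nat_lit 76) (nat_lit 0) (XT.lf (nat_lit 0) (nat_lit 5004797054) (nat_lit 228) (nat_lit 4964907427) (nat_lit 76) (nat_lit 4654547705) (nat_lit 150) (nat_lit 5) (nat_lit 153) (nat_lit 5) (nat_lit 151) (nat_lit 4) (nat_lit 422) (nat_lit 318) (nat_lit 280)) (XT.lf (nat_lit 0) (nat_lit 6919240908) (nat_lit 76) (nat_lit 4044408878) (nat_lit 152) (nat_lit 3905483310) (nat_lit 149) (nat_lit 5) (nat_lit 150) (nat_lit 5) (nat_lit 151) (nat_lit 4) (nat_lit 423) (nat_lit 318) (nat_lit 279)))) (XT.nd (nat_lit 156) (nat_lit 228) (nat_lit 0) (XT.nd (nat_lit 78)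 (nat_lit 76) (nat_lit 0) (XT.lf (nat_lit 0) (nat_lit 1976306544) (nat_lit 228) (nat_lit 11078492583) (nat_lit 76) (nat_lit 2064939324) (nat_lit 146) (nat_lit 5) (nat_lit 149) (nat_lit 5) (nat_lit 147) (nat_lit 4) (nat_lit 424) (nat_lit 318) (nat_lit 278)) (XT.lf (nat_lit 0) (nat_lit 979526009) (nat_lit 76) (nat_lit 7032408097) (nat_lit 152) (nat_lit 7363091405) (nat_lit 145) (nat_lit 5) (nat_lit 146) (nat_lit 5) (nat_lit 147) (nat_lit 4) (nat_lit 425) (nat_lit 318) (nat_lit 277))) (XT.nd (nat_lit 78) (nat_lit 228) (nat_lit 0) (XT.lf (nat_lit 0) (nat_lit 13488042234) (nat_lit 76) (nat_lit 778651578) (nat_lit 152) (nat_lit 1370135471) (nat_lit 145) (nat_lit 5) (nat_lit 146) (nat_lit 5) (nat_lit 147) (nat_lit 4) (nat_lit 426) (nat_lit 318) (nat_lit 276)) (XT.lf (nat_lit 0) (nat_lit 4792622689) (nat_lit 228) (nat_lit 5471459088) (nat_lit 76) (nat_lit 5638508530) (nat_lit 142) (nat_lit 5) (nat_lit 145) (nat_lit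 5) (nat_lit 143) (nat_lit 4) (nat_lit 427) (nat_lit 318) (nat_lit 275))))) (XT.nd (nat_lit 312) (nat_lit 532) (nat_lit 0) (XT.nd (nat_lit 156) (nat_lit 76) (nat_lit 0) (XT.nd (nat_lit 78) (nat_lit 228) (nat_lit 0) (XT.lf (nat_lit 0) (nat_lit 7240659878) (nat_lit 76) (nat_lit 3899133629) (nat_lit 152) (nat_lit 5035311636) (nat_lit 141) (nat_lit 5) (nat_lit 142) (nat_lit 5) (nat_lit 143) (nat_lit 4) (nat_lit 428) (nat_lit 318) (nat_lit 274)) (XT.lf (nat_lit 0) (nat_lit 1245138843) (nat_lit 228) (nat_lit 12560455964) (nat_lit 76) (nat_lit 2648426569) (nat_lit 138) (nat_lit 5) (nat_lit 141) (nat_lit 5) (nat_lit 139) (nat_lit 4) (nat_lit 429) (nat_lit 318) (nat_lit 273))) (XT.nd (nat_lit 78) (nat_lit 0) (nat_lit 0) (XT.lf (nat_lit 0) (nat_lit 331829536) (nat_lit 76) (nat_lit 7342015483) (nat_lit 152) (nat_lit 9064133030) (nat_lit 137) (nat_lit 5) (nat_lit 138) (nat_lit 5) (nat_lit 139) (nat_lit 4) (nat_lit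 430) (nat_lit 318) (nat_lit 272)) (XT.lf (nat_lit 0) (nat_lit 13733438673) (nat_lit 76) (nat_lit 617744071) (nat_lit 152) (nat_lit 2677597569) (nat_lit 137) (nat_lit 5) (nat_lit 138) (nat_lit 5) (nat_lit 139) (nat_lit 4) (nat_lit 431) (nat_lit 318) (nat_lit 271)))) (XT.nd (nat_lit 156) (nat_lit 228) (nat_lit 0) (XT.nd (nat_lit 78) (nat_lit 76) (nat_lit 0) (XT.lf (nat_lit 0) (nat_lit 3914544161) (nat_lit 228) (nat_lit 7148991057) (nat_lit 76) (nat_lit 6260942886) (nat_lit 134) (nat_lit 5) (nat_lit 137) (nat_lit 5) (nat_lit 135) (nat_lit 4) (nat_lit 432) (nat_lit 318) (nat_lit 270)) (XT.lf (nat_lit 0) (nat_lit 6450304636) (nat_lit 76) (nat_lit 4232547909) (nat_lit 152) (nat_lit 6944432375) (nat_lit 133) (nat_lit 5) (nat_lit 134) (nat_lit 5) (nat_lit 135) (nat_lit 4) (nat_lit 433) (nat_lit 318) (nat_lit 269))) (XT.nd (nat_lit 78) (nat_lit 76) (nat_lit 0) (XT.lf (nat_lit 0) (nat_lit 2556630182) (nat_lit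 152) (nat_lit 15152664045) (nat_lit 152) (nat_lit 228229190) (nat_lit 131) (nat_lit 4) (nat_lit 133) (nat_lit 5) (nat_lit 133) (nat_lit 4) (nat_lit 434) (nat_lit 318) (nat_lit 268)) (XT.lf (nat_lit 0) (nat_lit 6645546470) (nat_lit 228) (nat_lit 1562434251) (nat_lit 76) (nat_lit 10044560599) (nat_lit 130) (nat_lit 5) (nat_lit 133) (nat_lit 5) (nat_lit 131) (nat_lit 4) (nat_lit 435) (nat_lit 318) (nat_lit 267))))))))
noncomputable def xc52 : XT := (XT.nd (nat_lit 2340) (nat_lit 2356) (nat_lit 0) (XT.nd (nat_lit 1170) (nat_lit 1292) (nat_lit 0) (XT.nd (nat_lit 546) (nat_lit 684) (nat_lit 0) (XT.nd (nat_lit 234) (nat_lit 456) (nat_lit 0) (XT.nd (nat_lit 78) (nat_lit 304) (nat_lit 0) (XT.lf (nat_lit 0) (nat_lit 12788954884) (nat_lit 76) (nat_lit 987678458) (nat_lit 152) (nat_lit 4798638073) (nat_lit 129) (nat_lit 5) (nat_lit 130) (nat_lit 5) (nat_lit 131) (nat_lit 4) (nat_lit 436) (nat_lit 318) (nat_lit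 266)) (XT.nd (nat_lit 78) (nat_lit 76) (nat_lit 0) (XT.lf (nat_lit 0) (nat_lit 2265898345) (nat_lit 228) (nat_lit 10253328763) (nat_lit 76) (nat_lit 6384963900) (nat_lit 126) (nat_lit 5) (nat_lit 129) (nat_lit 5) (nat_lit 127) (nat_lit 4) (nat_lit 437) (nat_lit 318) (nat_lit 265)) (XT.lf (nat_lit 0) (nat_lit 4295358856) (nat_lit 76) (nat_lit 5193604287) (nat_lit 152) (nat_lit 9751298504) (nat_lit 125) (nat_lit 5) (nat_lit 126) (nat_lit 5) (nat_lit 127) (nat_lit 4) (nat_lit 438) (nat_lit 318) (nat_lit 264)))) (XT.nd (nat_lit 156) (nat_lit 228) (nat_lit 0) (XT.nd (nat_lit 78) (nat_lit 228) (nat_lit 0) (XT.lf (nat_lit 0) (nat_lit 16988984615) (nat_lit 152) (nat_lit 245516801) (nat_lit 0) (nat_lit 2350105046) (nat_lit 125) (nat_lit 5) (nat_lit 127) (nat_lit 4) (nat_lit 125) (nat_lit 4) (nat_lit 439) (nat_lit 318) (nat_lit 263)) (XT.lf (nat_lit 0) (nat_lit 4813605859) (nat_lit 228) (nat_lit 4971708379) (nat_lit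 76) (nat_lit 10148628872) (nat_lit 122) (nat_lit 5) (nat_lit 125) (nat_lit 5) (nat_lit 123) (nat_lit 4) (nat_lit 440) (nat_lit 318) (nat_lit 262))) (XT.nd (nat_lit 78) (nat_lit 152) (nat_lit 0) (XT.lf (nat_lit 0) (nat_lit 10389006361) (nat_lit 76) (nat_lit 2041407995) (nat_lit 152) (nat_lit 7861450322) (nat_lit 121) (nat_lit 5) (nat_lit 122) (nat_lit 5) (nat_lit 123) (nat_lit 4) (nat_lit 441) (nat_lit 318) (nat_lit 261)) (XT.lf (nat_lit 0) (nat_lit 5579081778) (nat_lit 152) (nat_lit 14793246652) (nat_lit 152) (nat_lit 285297424) (nat_lit 119) (nat_lit 4) (nat_lit 121) (nat_lit 5) (nat_lit 121) (nat_lit 4) (nat_lit 442) (nat_lit 318) (nat_lit 260))))) (XT.nd (nat_lit 312) (nat_lit 304) (nat_lit 0) (XT.nd (nat_lit 156) (nat_lit 228) (nat_lit 0) (XT.nd (nat_lit 78) (nat_lit 0) (nat_lit 0) (XT.lf (nat_lit 0) (nat_lit 487423515) (nat_lit 76) (nat_lit 6945174546) (nat_lit 152) (nat_lit 13597758816) (nat_lit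 117) (nat_lit 5) (nat_lit 118) (nat_lit 5) (nat_lit 119) (nat_lit 4) (nat_lit 443) (nat_lit 318) (nat_lit 259)) (XT.lf (nat_lit 0) (nat_lit 15476394070) (nat_lit 152) (nat_lit 4721354129) (nat_lit 0) (nat_lit 1213433953) (nat_lit 117) (nat_lit 5) (nat_lit 119) (nat_lit 4) (nat_lit 117) (nat_lit 4) (nat_lit 444) (nat_lit 318) (nat_lit 258))) (XT.nd (nat_lit 78) (nat_lit 76) (nat_lit 0) (XT.lf (nat_lit 0) (nat_lit 2038664893) (nat_lit 152) (nat_lit 10209396738) (nat_lit 76) (nat_lit 9551241826) (nat_lit 115) (nat_lit 5) (nat_lit 117) (nat_lit 5) (nat_lit 116) (nat_lit 4) (nat_lit 445) (nat_lit 318) (nat_lit 257)) (XT.lf (nat_lit 0) (nat_lit 6229755671) (nat_lit 76) (nat_lit 3947630986) (nat_lit 152) (nat_lit 12018558478) (nat_lit 114) (nat_lit 5) (nat_lit 115) (nat_lit 5) (nat_lit 116) (nat_lit 4) (nat_lit 446) (nat_lit 318) (nat_lit 256)))) (XT.nd (nat_lit 156) (nat_lit 152) (nat_lit 0) (XT.nd (nat_lit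 78) (nat_lit 76) (nat_lit 0) (XT.lf (nat_lit 0) (nat_lit 614382161) (nat_lit 76) (nat_lit 18037555806) (nat_lit 76) (nat_lit 3949798059) (nat_lit 113) (nat_lit 4) (nat_lit 114) (nat_lit 5) (nat_lit 114) (nat_lit 4) (nat_lit 447) (nat_lit 318) (nat_lit 255)) (XT.lf (nat_lit 0) (nat_lit 4415291339) (nat_lit 152) (nat_lit 5200172293) (nat_lit 76) (nat_lit 13398798422) (nat_lit 112) (nat_lit 5) (nat_lit 114) (nat_lit 5) (nat_lit 113) (nat_lit 4) (nat_lit 448) (nat_lit 318) (nat_lit 254))) (XT.nd (nat_lit 78) (nat_lit 76) (nat_lit 0) (XT.lf (nat_lit 0) (nat_lit 12170198310) (nat_lit 76) (nat_lit 838013632) (nat_lit 152) (nat_lit 10428090748) (nat_lit 111) (nat_lit 5) (nat_lit 112) (nat_lit 5) (nat_lit 113) (nat_lit 4) (nat_lit 449) (nat_lit 318) (nat_lit 253)) (XT.lf (nat_lit 0) (nat_lit 6222004696) (nat_lit 76) (nat_lit 15767969272) (nat_lit 76) (nat_lit 1877098963) (nat_lit 110) (nat_lit 4) (nat_lit 111)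 (nat_lit 5) (nat_lit 111) (nat_lit 4) (nat_lit 450) (nat_lit 318) (nat_lit 252)))))) (XT.nd (nat_lit 546) (nat_lit 684) (nat_lit 0) (XT.nd (nat_lit 234) (nat_lit 304) (nat_lit 0) (XT.nd (nat_lit 78) (nat_lit 228) (nat_lit 0) (XT.lf (nat_lit 0) (nat_lit 6857777297) (nat_lit 152) (nat_lit 36624045) (nat_lit 76) (nat_lit 17412488586) (nat_lit 109) (nat_lit 5) (nat_lit 111) (nat_lit 5) (nat_lit 110) (nat_lit 4) (nat_lit 451) (nat_lit 318) (nat_lit 251)) (XT.nd (nat_lit 78) (nat_lit 152) (nat_lit 0) (XT.lf (nat_lit 0) (nat_lit 15957245025) (nat_lit 152) (nat_lit 6455209657) (nat_lit 0) (nat_lit 2342681008) (nat_lit 108) (nat_lit 5) (nat_lit 110) (nat_lit 4) (nat_lit 108) (nat_lit 4) (nat_lit 452) (nat_lit 318) (nat_lit 250)) (XT.lf (nat_lit 0) (nat_lit 237341362) (nat_lit 152) (nat_lit 13194113657) (nat_lit 76) (nat_lit 11781540982) (nat_lit 106) (nat_lit 5) (nat_lit 108) (nat_lit 5) (nat_lit 107) (nat_lit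 4) (nat_lit 453) (nat_lit 318) (nat_lit 249)))) (XT.nd (nat_lit 156) (nat_lit 228) (nat_lit 0) (XT.nd (nat_lit 78) (nat_lit 0) (nat_lit 0) (XT.lf (nat_lit 0) (nat_lit 5398909018) (nat_lit 76) (nat_lit 4026899493) (nat_lit 152) (nat_lit 16254400164) (nat_lit 105) (nat_lit 5) (nat_lit 106) (nat_lit 5) (nat_lit 107) (nat_lit 4) (nat_lit 454) (nat_lit 318) (nat_lit 248)) (XT.lf (nat_lit 0) (nat_lit 19020236701) (nat_lit 152) (nat_lit 1508621111) (nat_lit 0) (nat_lit 5628670705) (nat_lit 105) (nat_lit 5) (nat_lit 107) (nat_lit 4) (nat_lit 105) (nat_lit 4) (nat_lit 455) (nat_lit 318) (nat_lit 247))) (XT.nd (nat_lit 78) (nat_lit 76) (nat_lit 0) (XT.lf (nat_lit 0) (nat_lit 2367117469) (nat_lit 152) (nat_lit 8640828528) (nat_lit 76) (nat_lit 15635839399) (nat_lit 103) (nat_lit 5) (nat_lit 105) (nat_lit 5) (nat_lit 104) (nat_lit 4) (nat_lit 456) (nat_lit 318) (nat_lit 246)) (XT.lf (nat_lit 0) (nat_lit 11018520143)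 (nat_lit 76) (nat_lit 1059076128) (nat_lit 152) (nat_lit 15062982031) (nat_lit 102) (nat_lit 5) (nat_lit 103) (nat_lit 5) (nat_lit 104) (nat_lit 4) (nat_lit 457) (nat_lit 318) (nat_lit 245))))) (XT.nd (nat_lit 312) (nat_lit 380) (nat_lit 0) (XT.nd (nat_lit 156) (nat_lit 152) (nat_lit 0) (XT.nd (nat_lit 78) (nat_lit 76) (nat_lit 0) (XT.lf (nat_lit 0) (nat_lit 3665083009) (nat_lit 76) (nat_lit 18569129056) (nat_lit 76) (nat_lit 5413418250) (nat_lit 101) (nat_lit 4) (nat_lit 102) (nat_lit 5) (nat_lit 102) (nat_lit 4) (nat_lit 458) (nat_lit 318) (nat_lit 244)) (XT.lf (nat_lit 0) (nat_lit 4555398320) (nat_lit 152) (nat_lit 3956684529) (nat_lit 76) (nat_lit 19652963628) (nat_lit 100) (nat_lit 5) (nat_lit 102) (nat_lit 5) (nat_lit 101) (nat_lit 4) (nat_lit 459) (nat_lit 318) (nat_lit 243))) (XT.nd (nat_lit 78) (nat_lit 76) (nat_lit 0) (XT.lf (nat_lit 0) (nat_lit 14840509635) (nat_lit 152) (nat_lit 11876785398)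 (nat_lit 0) (nat_lit 1975301107) (nat_lit 99) (nat_lit 5) (nat_lit 101) (nat_lit 4) (nat_lit 99) (nat_lit 4) (nat_lit 460) (nat_lit 318) (nat_lit 242)) (XT.lf (nat_lit 0) (nat_lit 9040372934) (nat_lit 76) (nat_lit 16550218894) (nat_lit 76) (nat_lit 3640687938) (nat_lit 98) (nat_lit 4) (nat_lit 99) (nat_lit 5) (nat_lit 99) (nat_lit 4) (nat_lit 461) (nat_lit 318) (nat_lit 241)))) (XT.nd (nat_lit 156) (nat_lit 228) (nat_lit 0) (XT.nd (nat_lit 78) (nat_lit 0) (nat_lit 0) (XT.lf (nat_lit 0) (nat_lit 886788097) (nat_lit 76) (nat_lit 5930625959) (nat_lit 152) (nat_lit 22964489926) (nat_lit 96) (nat_lit 5) (nat_lit 97) (nat_lit 5) (nat_lit 98) (nat_lit 4) (nat_lit 462) (nat_lit 318) (nat_lit 240)) (XT.lf (nat_lit 0) (nat_lit 17715090982) (nat_lit 152) (nat_lit 7527678024) (nat_lit 0) (nat_lit 5099226343) (nat_lit 96) (nat_lit 5) (nat_lit 98) (nat_lit 4) (nat_lit 96) (nat_lit 4) (nat_lit 463) (nat_lit 318) (nat_lit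 239))) (XT.nd (nat_lit 78) (nat_lit 152) (nat_lit 0) (XT.lf (nat_lit 0) (nat_lit 14600907742) (nat_lit 76) (nat_lit 14484428557) (nat_lit 76) (nat_lit 1829184015) (nat_lit 95) (nat_lit 4) (nat_lit 96) (nat_lit 5) (nat_lit 96) (nat_lit 4) (nat_lit 464) (nat_lit 318) (nat_lit 238)) (XT.lf (nat_lit 0) (nat_lit 5965964958) (nat_lit 76) (nat_lit 3225878596) (nat_lit 152) (nat_lit 22307276576) (nat_lit 93) (nat_lit 5) (nat_lit 94) (nat_lit 5) (nat_lit 95) (nat_lit 4) (nat_lit 465) (nat_lit 318) (nat_lit 237))))))) (XT.nd (nat_lit 1170) (nat_lit 1216) (nat_lit 0) (XT.nd (nat_lit 546) (nat_lit 608) (nat_lit 0) (XT.nd (nat_lit 234) (nat_lit 304) (nat_lit 0) (XT.nd (nat_lit 78) (nat_lit 228) (nat_lit 0) (XT.lf (nat_lit 0) (nat_lit 20700198706) (nat_lit 152) (nat_lit 3054316070) (nat_lit 0) (nat_lit 8340395994) (nat_lit 93) (nat_lit 5) (nat_lit 95) (nat_lit 4) (nat_lit 93) (nat_lit 4) (nat_lit 466) (nat_lit 318)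 (nat_lit 236)) (XT.nd (nat_lit 78) (nat_lit 76) (nat_lit 0) (XT.lf (nat_lit 0) (nat_lit 25842220) (nat_lit 152) (nat_lit 12342331538) (nat_lit 76) (nat_lit 20335118223) (nat_lit 91) (nat_lit 5) (nat_lit 93) (nat_lit 5) (nat_lit 92) (nat_lit 4) (nat_lit 467) (nat_lit 318) (nat_lit 235)) (XT.lf (nat_lit 0) (nat_lit 11214957638) (nat_lit 76) (nat_lit 432194250) (nat_lit 152) (nat_lit 21676773336) (nat_lit 90) (nat_lit 5) (nat_lit 91) (nat_lit 5) (nat_lit 92) (nat_lit 4) (nat_lit 468) (nat_lit 318) (nat_lit 234)))) (XT.nd (nat_lit 156) (nat_lit 152) (nat_lit 0) (XT.nd (nat_lit 78) (nat_lit 76) (nat_lit 0) (XT.lf (nat_lit 0) (nat_lit 1585098350) (nat_lit 76) (nat_lit 22235377642) (nat_lit 76) (nat_lit 10136600219) (nat_lit 89) (nat_lit 4) (nat_lit 90) (nat_lit 5) (nat_lit 90) (nat_lit 4) (nat_lit 469) (nat_lit 318) (nat_lit 233)) (XT.lf (nat_lit 0) (nat_lit 1893646571) (nat_lit 152) (nat_lit 8285761741)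 (nat_lit 76) (nat_lit 24423968429) (nat_lit 88) (nat_lit 5) (nat_lit 90) (nat_lit 5) (nat_lit 89) (nat_lit 4) (nat_lit 470) (nat_lit 318) (nat_lit 232))) (XT.nd (nat_lit 78) (nat_lit 76) (nat_lit 0) (XT.lf (nat_lit 0) (nat_lit 14214476915) (nat_lit 152) (nat_lit 18638968841) (nat_lit 0) (nat_lit 2408607305) (nat_lit 87) (nat_lit 5) (nat_lit 89) (nat_lit 4) (nat_lit 87) (nat_lit 4) (nat_lit 471) (nat_lit 318) (nat_lit 231)) (XT.lf (nat_lit 0) (nat_lit 6434860922) (nat_lit 76) (nat_lit 20667019398) (nat_lit 76) (nat_lit 8832700908) (nat_lit 86) (nat_lit 4) (nat_lit 87) (nat_lit 5) (nat_lit 87) (nat_lit 4) (nat_lit 472) (nat_lit 318) (nat_lit 230))))) (XT.nd (nat_lit 312) (nat_lit 228) (nat_lit 0) (XT.nd (nat_lit 156) (nat_lit 228) (nat_lit 0) (XT.nd (nat_lit 78) (nat_lit 76) (nat_lit 0) (XT.lf (nat_lit 0) (nat_lit 3815376474) (nat_lit 152) (nat_lit 4116724519) (nat_lit 76) (nat_lit 28689906076) (nat_lit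 85) (nat_lit 5) (nat_lit 87) (nat_lit 5) (nat_lit 86) (nat_lit 4) (nat_lit 473) (nat_lit 318) (nat_lit 229)) (XT.lf (nat_lit 0) (nat_lit 16883160643) (nat_lit 152) (nat_lit 15097057188) (nat_lit 0) (nat_lit 5340680488) (nat_lit 84) (nat_lit 5) (nat_lit 86) (nat_lit 4) (nat_lit 84) (nat_lit 4) (nat_lit 474) (nat_lit 318) (nat_lit 228))) (XT.nd (nat_lit 78) (nat_lit 152) (nat_lit 0) (XT.lf (nat_lit 0) (nat_lit 11446633561) (nat_lit 76) (nat_lit 19078211678) (nat_lit 76) (nat_lit 7510455062) (nat_lit 83) (nat_lit 4) (nat_lit 84) (nat_lit 5) (nat_lit 84) (nat_lit 4) (nat_lit 475) (nat_lit 318) (nat_lit 227)) (XT.lf (nat_lit 0) (nat_lit 178421073) (nat_lit 76) (nat_lit 5619962149) (nat_lit 152) (nat_lit 32967866982) (nat_lit 81) (nat_lit 5) (nat_lit 82) (nat_lit 5) (nat_lit 83) (nat_lit 4) (nat_lit 476) (nat_lit 318) (nat_lit 226)))) (XT.nd (nat_lit 156) (nat_lit 152) (nat_lit 0) (XT.nd (nat_lit 78) (nat_lit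 76) (nat_lit 0) (XT.lf (nat_lit 0) (nat_lit 19657273055) (nat_lit 152) (nat_lit 11471088193) (nat_lit 0) (nat_lit 8379484357) (nat_lit 81) (nat_lit 5) (nat_lit 83) (nat_lit 4) (nat_lit 81) (nat_lit 4) (nat_lit 477) (nat_lit 318) (nat_lit 225)) (XT.lf (nat_lit 0) (nat_lit 16633597317) (nat_lit 76) (nat_lit 17466644347) (nat_lit 76) (nat_lit 6166397840) (nat_lit 80) (nat_lit 4) (nat_lit 81) (nat_lit 5) (nat_lit 81) (nat_lit 4) (nat_lit 478) (nat_lit 318) (nat_lit 224))) (XT.nd (nat_lit 78) (nat_lit 0) (nat_lit 0) (XT.lf (nat_lit 0) (nat_lit 4691528328) (nat_lit 76) (nat_lit 3196934002) (nat_lit 152) (nat_lit 33154002442) (nat_lit 78) (nat_lit 5) (nat_lit 79) (nat_lit 5) (nat_lit 80) (nat_lit 4) (nat_lit 479) (nat_lit 318) (nat_lit 223)) (XT.lf (nat_lit 0) (nat_lit 22545408308) (nat_lit 152) (nat_lit 7752619051) (nat_lit 0) (nat_lit 11532574480) (nat_lit 78) (nat_lit 5) (nat_lit 80) (nat_lit 4) (nat_lit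 78) (nat_lit 4) (nat_lit 480) (nat_lit 318) (nat_lit 222)))))) (XT.nd (nat_lit 624) (nat_lit 532) (nat_lit 0) (XT.nd (nat_lit 312) (nat_lit 380) (nat_lit 0) (XT.nd (nat_lit 156) (nat_lit 76) (nat_lit 0) (XT.nd (nat_lit 78) (nat_lit 152) (nat_lit 0) (XT.lf (nat_lit 0) (nat_lit 22009702886) (nat_lit 76) (nat_lit 15829772525) (nat_lit 76) (nat_lit 4796985225) (nat_lit 77) (nat_lit 4) (nat_lit 78) (nat_lit 5) (nat_lit 78) (nat_lit 4) (nat_lit 481) (nat_lit 318) (nat_lit 221)) (XT.lf (nat_lit 0) (nat_lit 9352261686) (nat_lit 76) (nat_lit 699177371) (nat_lit 152) (nat_lit 33408441200) (nat_lit 75) (nat_lit 5) (nat_lit 76) (nat_lit 5) (nat_lit 77) (nat_lit 4) (nat_lit 482) (nat_lit 318) (nat_lit 220))) (XT.nd (nat_lit 78) (nat_lit 76) (nat_lit 0) (XT.lf (nat_lit 0) (nat_lit 25556563693) (nat_lit 152) (nat_lit 3932732662) (nat_lit 0) (nat_lit 14808051398) (nat_lit 75) (nat_lit 5) (nat_lit 77) (nat_lit 4) (nat_lit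 75) (nat_lit 4) (nat_lit 483) (nat_lit 318) (nat_lit 219)) (XT.lf (nat_lit 0) (nat_lit 27589711360) (nat_lit 76) (nat_lit 14164818981) (nat_lit 76) (nat_lit 3398578285) (nat_lit 74) (nat_lit 4) (nat_lit 75) (nat_lit 5) (nat_lit 75) (nat_lit 4) (nat_lit 484) (nat_lit 318) (nat_lit 218)))) (XT.nd (nat_lit 156) (nat_lit 228) (nat_lit 0) (XT.nd (nat_lit 78) (nat_lit 0) (nat_lit 0) (XT.lf (nat_lit 0) (nat_lit 12311823686) (nat_lit 152) (nat_lit 31872190286) (nat_lit 0) (nat_lit 1842452097) (nat_lit 72) (nat_lit 5) (nat_lit 74) (nat_lit 4) (nat_lit 72) (nat_lit 4) (nat_lit 485) (nat_lit 318) (nat_lit 217)) (XT.lf (nat_lit 0) (nat_lit 28700174043) (nat_lit 152) (nat_lit 2013927) (nat_lit 0) (nat_lit 18214578456) (nat_lit 72) (nat_lit 5) (nat_lit 74) (nat_lit 4) (nat_lit 72) (nat_lit 4) (nat_lit 486) (nat_lit 318) (nat_lit 216))) (XT.nd (nat_lit 78) (nat_lit 152) (nat_lit 0) (XT.lf (nat_lit 0) (nat_lit 33389238438)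 (nat_lit 76) (nat_lit 12468774626) (nat_lit 76) (nat_lit 1967427584) (nat_lit 71) (nat_lit 4) (nat_lit 72) (nat_lit 5) (nat_lit 72) (nat_lit 4) (nat_lit 487) (nat_lit 318) (nat_lit 215)) (XT.lf (nat_lit 0) (nat_lit 14665841893) (nat_lit 152) (nat_lit 29630217105) (nat_lit 0) (nat_lit 4455512071) (nat_lit 69) (nat_lit 5) (nat_lit 71) (nat_lit 4) (nat_lit 69) (nat_lit 4) (nat_lit 488) (nat_lit 318) (nat_lit 214))))) (XT.nd (nat_lit 312) (nat_lit 228) (nat_lit 0) (XT.nd (nat_lit 156) (nat_lit 228) (nat_lit 0) (XT.nd (nat_lit 78) (nat_lit 0) (nat_lit 0) (XT.lf (nat_lit 0) (nat_lit 4130068763) (nat_lit 76) (nat_lit 27895779217) (nat_lit 76) (nat_lit 17671034581) (nat_lit 68) (nat_lit 4) (nat_lit 69) (nat_lit 5) (nat_lit 69) (nat_lit 4) (nat_lit 489) (nat_lit 318) (nat_lit 213)) (XT.lf (nat_lit 0) (nat_lit 39424802181) (nat_lit 76) (nat_lit 10738397231) (nat_lit 76) (nat_lit 499657632) (nat_lit 68) (nat_lit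 4) (nat_lit 69) (nat_lit 5) (nat_lit 69) (nat_lit 4) (nat_lit 490) (nat_lit 318) (nat_lit 212))) (XT.nd (nat_lit 78) (nat_lit 76) (nat_lit 0) (XT.lf (nat_lit 0) (nat_lit 17113883408) (nat_lit 152) (nat_lit 27370931095) (nat_lit 0) (nat_lit 7160167930) (nat_lit 66) (nat_lit 5) (nat_lit 68) (nat_lit 4) (nat_lit 66) (nat_lit 4) (nat_lit 491) (nat_lit 318) (nat_lit 211)) (XT.lf (nat_lit 0) (nat_lit 8396066788) (nat_lit 76) (nat_lit 27109542301) (nat_lit 76) (nat_lit 17143019449) (nat_lit 65) (nat_lit 4) (nat_lit 66) (nat_lit 5) (nat_lit 66) (nat_lit 4) (nat_lit 492) (nat_lit 318) (nat_lit 210)))) (XT.nd (nat_lit 156) (nat_lit 76) (nat_lit 0) (XT.nd (nat_lit 78) (nat_lit 76) (nat_lit 0) (XT.lf (nat_lit 0) (nat_lit 989064413) (nat_lit 152) (nat_lit 7971156437) (nat_lit 76) (nat_lit 44714822386) (nat_lit 64) (nat_lit 5) (nat_lit 66) (nat_lit 5) (nat_lit 65) (nat_lit 4) (nat_lit 493) (nat_lit 318) (nat_lit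 209)) (XT.lf (nat_lit 0) (nat_lit 19663402427) (nat_lit 152) (nat_lit 25090096575) (nat_lit 0) (nat_lit 9963373907) (nat_lit 63) (nat_lit 5) (nat_lit 65) (nat_lit 4) (nat_lit 63) (nat_lit 4) (nat_lit 494) (nat_lit 318) (nat_lit 208))) (XT.nd (nat_lit 44304) (nat_lit 0) (nat_lit 16188) (XT.lf (nat_lit 0) (nat_lit 12807234951) (nat_lit 76) (nat_lit 26343276992) (nat_lit 76) (nat_lit 16631869286) (nat_lit 62) (nat_lit 4) (nat_lit 63) (nat_lit 5) (nat_lit 63) (nat_lit 4) (nat_lit 495) (nat_lit 318) (nat_lit 207)) (XT.lf (nat_lit 0) (nat_lit 2593852952) (nat_lit 456) (nat_lit 781124108) (nat_lit 456) (nat_lit 781124108) (nat_lit 275) (nat_lit 4) (nat_lit 281) (nat_lit 5) (nat_lit 281) (nat_lit 4) (nat_lit 382) (nat_lit 319) (nat_lit 319))))))))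
noncomputable def xc53 : XT := (XT.nd (nat_lit 2340) (nat_lit 3952) (nat_lit 0) (XT.nd (nat_lit 1170) (nat_lit 3268) (nat_lit 0) (XT.nd (nat_lit 546) (nat_lit 2204) (nat_lit 0) (XT.nd (nat_lit 234) (nat_lit 1216) (nat_lit 0) (XT.nd (nat_lit 78) (nat_lit 836) (nat_lit 0) (XT.lf (nat_lit 0) (nat_lit 2597846716) (nat_lit 456) (nat_lit 4286784878) (nat_lit 0) (nat_lit 1518791146) (nat_lit 269) (nat_lit 5) (nat_lit 275) (nat_lit 4) (nat_lit 269) (nat_lit 4) (nat_lit 383) (nat_lit 319) (nat_lit 318)) (XT.nd (nat_lit 78) (nat_lit 456) (nat_lit 0) (XT.lf (nat_lit 0) (nat_lit 3024967797) (nat_lit 380) (nat_lit 3799715061) (nat_lit 380) (nat_lit 1673032726) (nat_lit 264) (nat_lit 4) (nat_lit 269) (nat_lit 5) (nat_lit 269) (nat_lit 4) (nat_lit 384) (nat_lit 319) (nat_lit 317)) (XT.lf (nat_lit 0) (nat_lit 1916496884) (nat_lit 380) (nat_lit 576258083) (nat_lit 456) (nat_lit 6102546786) (nat_lit 258) (nat_lit 5)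 (nat_lit 263) (nat_lit 5) (nat_lit 264) (nat_lit 4) (nat_lit 385) (nat_lit 319) (nat_lit 316)))) (XT.nd (nat_lit 156) (nat_lit 760) (nat_lit 0) (XT.nd (nat_lit 78) (nat_lit 76) (nat_lit 0) (XT.lf (nat_lit 0) (nat_lit 769759022) (nat_lit 380) (nat_lit 5968433107) (nat_lit 380) (nat_lit 1957477374) (nat_lit 253) (nat_lit 4) (nat_lit 258) (nat_lit 5) (nat_lit 258) (nat_lit 4) (nat_lit 386) (nat_lit 319) (nat_lit 315)) (XT.lf (nat_lit 0) (nat_lit 2239922600) (nat_lit 456) (nat_lit 394715666) (nat_lit 76) (nat_lit 6164550520) (nat_lit 252) (nat_lit 5) (nat_lit 258) (nat_lit 5) (nat_lit 253) (nat_lit 4) (nat_lit 387) (nat_lit 319) (nat_lit 314))) (XT.nd (nat_lit 78) (nat_lit 456) (nat_lit 0) (XT.lf (nat_lit 0) (nat_lit 6504829188) (nat_lit 380) (nat_lit 1571340758) (nat_lit 0) (nat_lit 829634433) (nat_lit 248) (nat_lit 5) (nat_lit 253) (nat_lit 4) (nat_lit 248) (nat_lit 4) (nat_lit 388) (nat_lit 319) (nat_lit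 313)) (XT.lf (nat_lit 0) (nat_lit 1838611781) (nat_lit 456) (nat_lit 2794629267) (nat_lit 76) (nat_lit 4382036452) (nat_lit 242) (nat_lit 5) (nat_lit 248) (nat_lit 5) (nat_lit 243) (nat_lit 4) (nat_lit 389) (nat_lit 319) (nat_lit 312))))) (XT.nd (nat_lit 312) (nat_lit 836) (nat_lit 0) (XT.nd (nat_lit 156) (nat_lit 684) (nat_lit 0) (XT.nd (nat_lit 78) (nat_lit 380) (nat_lit 0) (XT.lf (nat_lit 0) (nat_lit 5081254166) (nat_lit 304) (nat_lit 1044495387) (nat_lit 380) (nat_lit 3002513489) (nat_lit 238) (nat_lit 5) (nat_lit 242) (nat_lit 5) (nat_lit 243) (nat_lit 4) (nat_lit 390) (nat_lit 319) (nat_lit 311)) (XT.lf (nat_lit 0) (nat_lit 1267817215) (nat_lit 380) (nat_lit 5345686499) (nat_lit 76) (nat_lit 2630872637) (nat_lit 233) (nat_lit 5) (nat_lit 238) (nat_lit 5) (nat_lit 234) (nat_lit 4) (nat_lit 391) (nat_lit 319) (nat_lit 310))) (XT.nd (nat_lit 78) (nat_lit 380) (nat_lit 0) (XT.lf (nat_lit 0) (nat_lit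 2668133243) (nat_lit 304) (nat_lit 2920200035) (nat_lit 380) (nat_lit 3775275256) (nat_lit 229) (nat_lit 5) (nat_lit 233) (nat_lit 5) (nat_lit 234) (nat_lit 4) (nat_lit 392) (nat_lit 319) (nat_lit 309)) (XT.lf (nat_lit 0) (nat_lit 523786186) (nat_lit 380) (nat_lit 8073575837) (nat_lit 76) (nat_lit 889421118) (nat_lit 224) (nat_lit 5) (nat_lit 229) (nat_lit 5) (nat_lit 225) (nat_lit 4) (nat_lit 393) (nat_lit 319) (nat_lit 308)))) (XT.nd (nat_lit 156) (nat_lit 608) (nat_lit 0) (XT.nd (nat_lit 78) (nat_lit 0) (nat_lit 0) (XT.lf (nat_lit 0) (nat_lit 77608929) (nat_lit 228) (nat_lit 4802723796) (nat_lit 304) (nat_lit 4732067114) (nat_lit 221) (nat_lit 5) (nat_lit 224) (nat_lit 5) (nat_lit 225) (nat_lit 4) (nat_lit 394) (nat_lit 319) (nat_lit 307)) (XT.lf (nat_lit 0) (nat_lit 8492557215) (nat_lit 228) (nat_lit 864317403) (nat_lit 304) (nat_lit 385231452) (nat_lit 221) (nat_lit 5) (nat_lit 224) (nat_lit 5)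 (nat_lit 225) (nat_lit 4) (nat_lit 395) (nat_lit 319) (nat_lit 306))) (XT.nd (nat_lit 78) (nat_lit 228) (nat_lit 0) (XT.lf (nat_lit 0) (nat_lit 4022600853) (nat_lit 380) (nat_lit 2663969418) (nat_lit 76) (nat_lit 3187639927) (nat_lit 216) (nat_lit 5) (nat_lit 221) (nat_lit 5) (nat_lit 217) (nat_lit 4) (nat_lit 396) (nat_lit 319) (nat_lit 305)) (XT.lf (nat_lit 0) (nat_lit 5897560681) (nat_lit 228) (nat_lit 2645680769) (nat_lit 304) (nat_lit 1467272092) (nat_lit 213) (nat_lit 5) (nat_lit 216) (nat_lit 5) (nat_lit 217) (nat_lit 4) (nat_lit 397) (nat_lit 319) (nat_lit 304)))))) (XT.nd (nat_lit 546) (nat_lit 1596) (nat_lit 0) (XT.nd (nat_lit 234) (nat_lit 760) (nat_lit 0) (XT.nd (nat_lit 78) (nat_lit 532) (nat_lit 0) (XT.lf (nat_lit 0) (nat_lit 2985579052) (nat_lit 380) (nat_lit 5631183622) (nat_lit 76) (nat_lit 1533369980) (nat_lit 208) (nat_lit 5) (nat_lit 213) (nat_lit 5) (nat_lit 209) (nat_lit 4) (nat_lit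 398) (nat_lit 319) (nat_lit 303)) (XT.nd (nat_lit 78) (nat_lit 304) (nat_lit 0) (XT.lf (nat_lit 0) (nat_lit 3074675047) (nat_lit 228) (nat_lit 4476918624) (nat_lit 304) (nat_lit 2741638783) (nat_lit 205) (nat_lit 5) (nat_lit 208) (nat_lit 5) (nat_lit 209) (nat_lit 4) (nat_lit 399) (nat_lit 319) (nat_lit 302)) (XT.lf (nat_lit 0) (nat_lit 1585212946) (nat_lit 228) (nat_lit 177722371) (nat_lit 304) (nat_lit 8677635760) (nat_lit 201) (nat_lit 5) (nat_lit 204) (nat_lit 5) (nat_lit 205) (nat_lit 5) (nat_lit 400) (nat_lit 319) (nat_lit 301)))) (XT.nd (nat_lit 156) (nat_lit 456) (nat_lit 0) (XT.nd (nat_lit 78) (nat_lit 304) (nat_lit 0) (XT.lf (nat_lit 0) (nat_lit 6374349989) (nat_lit 304) (nat_lit 4372917) (nat_lit 76) (nat_lit 4211988377) (nat_lit 201) (nat_lit 5) (nat_lit 205) (nat_lit 5) (nat_lit 202) (nat_lit 4) (nat_lit 401) (nat_lit 319) (nat_lit 300)) (XT.lf (nat_lit 0) (nat_lit 375975810) (nat_lit 304)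 (nat_lit 1602345968) (nat_lit 76) (nat_lit 8766786237) (nat_lit 197) (nat_lit 5) (nat_lit 201) (nat_lit 5) (nat_lit 198) (nat_lit 5) (nat_lit 402) (nat_lit 319) (nat_lit 299))) (XT.nd (nat_lit 78) (nat_lit 228) (nat_lit 0) (XT.lf (nat_lit 0) (nat_lit 5034992720) (nat_lit 304) (nat_lit 3303658741) (nat_lit 76) (nat_lit 2563823174) (nat_lit 194) (nat_lit 5) (nat_lit 198) (nat_lit 5) (nat_lit 195) (nat_lit 4) (nat_lit 403) (nat_lit 319) (nat_lit 298)) (XT.lf (nat_lit 0) (nat_lit 5998936357) (nat_lit 228) (nat_lit 3844178729) (nat_lit 304) (nat_lit 1221167117) (nat_lit 191) (nat_lit 5) (nat_lit 194) (nat_lit 5) (nat_lit 195) (nat_lit 4) (nat_lit 404) (nat_lit 319) (nat_lit 297))))) (XT.nd (nat_lit 312) (nat_lit 836) (nat_lit 0) (XT.nd (nat_lit 156) (nat_lit 304) (nat_lit 0) (XT.nd (nat_lit 78) (nat_lit 152) (nat_lit 0) (XT.lf (nat_lit 0) (nat_lit 3494312835) (nat_lit 304) (nat_lit 6913480745) (nat_lit 76)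 (nat_lit 822142503) (nat_lit 187) (nat_lit 5) (nat_lit 191) (nat_lit 5) (nat_lit 188) (nat_lit 4) (nat_lit 405) (nat_lit 319) (nat_lit 296)) (XT.lf (nat_lit 0) (nat_lit 2539475831) (nat_lit 152) (nat_lit 5817888145) (nat_lit 228) (nat_lit 3041913350) (nat_lit 185) (nat_lit 5) (nat_lit 187) (nat_lit 5) (nat_lit 188) (nat_lit 4) (nat_lit 406) (nat_lit 319) (nat_lit 295))) (XT.nd (nat_lit 78) (nat_lit 0) (nat_lit 0) (XT.lf (nat_lit 0) (nat_lit 697641368) (nat_lit 228) (nat_lit 1053963889) (nat_lit 304) (nat_lit 9821757269) (nat_lit 181) (nat_lit 5) (nat_lit 184) (nat_lit 5) (nat_lit 185) (nat_lit 5) (nat_lit 407) (nat_lit 319) (nat_lit 294)) (XT.lf (nat_lit 0) (nat_lit 6672415699) (nat_lit 304) (nat_lit 1239256420) (nat_lit 76) (nat_lit 3838755854) (nat_lit 181) (nat_lit 5) (nat_lit 185) (nat_lit 5) (nat_lit 182) (nat_lit 4) (nat_lit 408) (nat_lit 319) (nat_lit 293)))) (XT.nd (nat_lit 156) (nat_lit 380)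 (nat_lit 0) (XT.nd (nat_lit 78) (nat_lit 304) (nat_lit 0) (XT.lf (nat_lit 0) (nat_lit 8705297009) (nat_lit 152) (nat_lit 3049317010) (nat_lit 228) (nat_lit 177778457) (nat_lit 179) (nat_lit 5) (nat_lit 181) (nat_lit 5) (nat_lit 182) (nat_lit 4) (nat_lit 409) (nat_lit 319) (nat_lit 292)) (XT.lf (nat_lit 0) (nat_lit 4791787705) (nat_lit 304) (nat_lit 5338724020) (nat_lit 76) (nat_lit 1987379560) (nat_lit 175) (nat_lit 5) (nat_lit 179) (nat_lit 5) (nat_lit 176) (nat_lit 4) (nat_lit 410) (nat_lit 319) (nat_lit 291))) (XT.nd (nat_lit 78) (nat_lit 228) (nat_lit 0) (XT.lf (nat_lit 0) (nat_lit 4763392939) (nat_lit 152) (nat_lit 5172647269) (nat_lit 228) (nat_lit 2371986868) (nat_lit 173) (nat_lit 5) (nat_lit 175) (nat_lit 5) (nat_lit 176) (nat_lit 4) (nat_lit 411) (nat_lit 319) (nat_lit 290)) (XT.lf (nat_lit 0) (nat_lit 2659601231) (nat_lit 152) (nat_lit 18357503) (nat_lit 228) (nat_lit 9825105951) (nat_lit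 170) (nat_lit 5) (nat_lit 172) (nat_lit 5) (nat_lit 173) (nat_lit 5) (nat_lit 412) (nat_lit 319) (nat_lit 289))))))) (XT.nd (nat_lit 1170) (nat_lit 1824) (nat_lit 0) (XT.nd (nat_lit 546) (nat_lit 1140) (nat_lit 0) (XT.nd (nat_lit 234) (nat_lit 608) (nat_lit 0) (XT.nd (nat_lit 78) (nat_lit 228) (nat_lit 0) (XT.lf (nat_lit 0) (nat_lit 414284383) (nat_lit 152) (nat_lit 7470086279) (nat_lit 228) (nat_lit 4817298933) (nat_lit 168) (nat_lit 5) (nat_lit 170) (nat_lit 5) (nat_lit 171) (nat_lit 4) (nat_lit 413) (nat_lit 319) (nat_lit 288)) (XT.nd (nat_lit 78) (nat_lit 152) (nat_lit 0) (XT.lf (nat_lit 0) (nat_lit 355705062) (nat_lit 228) (nat_lit 1867986300) (nat_lit 76) (nat_lit 10681794670) (nat_lit 167) (nat_lit 5) (nat_lit 170) (nat_lit 5) (nat_lit 168) (nat_lit 5) (nat_lit 414) (nat_lit 319) (nat_lit 287)) (XT.lf (nat_lit 0) (nat_lit 5626803138) (nat_lit 228) (nat_lit 4293719501) (nat_lit 76) (nat_lit 3192271637)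 (nat_lit 165) (nat_lit 5) (nat_lit 168) (nat_lit 5) (nat_lit 166) (nat_lit 4) (nat_lit 415) (nat_lit 319) (nat_lit 286)))) (XT.nd (nat_lit 156) (nat_lit 228) (nat_lit 0) (XT.nd (nat_lit 78) (nat_lit 228) (nat_lit 0) (XT.lf (nat_lit 0) (nat_lit 6505987297) (nat_lit 152) (nat_lit 4577337899) (nat_lit 228) (nat_lit 2242177839) (nat_lit 163) (nat_lit 5) (nat_lit 165) (nat_lit 5) (nat_lit 166) (nat_lit 4) (nat_lit 416) (nat_lit 319) (nat_lit 285)) (XT.lf (nat_lit 0) (nat_lit 3113639760) (nat_lit 228) (nat_lit 9467784014) (nat_lit 76) (nat_lit 961768338) (nat_lit 160) (nat_lit 5) (nat_lit 163) (nat_lit 5) (nat_lit 161) (nat_lit 4) (nat_lit 417) (nat_lit 319) (nat_lit 284))) (XT.nd (nat_lit 78) (nat_lit 76) (nat_lit 0) (XT.lf (nat_lit 0) (nat_lit 1494059154) (nat_lit 152) (nat_lit 7144392227) (nat_lit 228) (nat_lit 5126692937) (nat_lit 158) (nat_lit 5) (nat_lit 160) (nat_lit 5) (nat_lit 161) (nat_lit 4) (nat_lit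 418) (nat_lit 319) (nat_lit 283)) (XT.lf (nat_lit 0) (nat_lit 349568847) (nat_lit 228) (nat_lit 1154887293) (nat_lit 76) (nat_lit 12488576512) (nat_lit 157) (nat_lit 5) (nat_lit 160) (nat_lit 5) (nat_lit 158) (nat_lit 5) (nat_lit 419) (nat_lit 319) (nat_lit 282))))) (XT.nd (nat_lit 312) (nat_lit 532) (nat_lit 0) (XT.nd (nat_lit 156) (nat_lit 304) (nat_lit 0) (XT.nd (nat_lit 78) (nat_lit 152) (nat_lit 0) (XT.lf (nat_lit 0) (nat_lit 5954974816) (nat_lit 228) (nat_lit 3957137478) (nat_lit 76) (nat_lit 4312085629) (nat_lit 155) (nat_lit 5) (nat_lit 158) (nat_lit 5) (nat_lit 156) (nat_lit 4) (nat_lit 420) (nat_lit 319) (nat_lit 281)) (XT.lf (nat_lit 0) (nat_lit 7591615208) (nat_lit 152) (nat_lit 4163362490) (nat_lit 228) (nat_lit 2706527412) (nat_lit 153) (nat_lit 5) (nat_lit 155) (nat_lit 5) (nat_lit 156) (nat_lit 4) (nat_lit 421) (nat_lit 319) (nat_lit 280))) (XT.nd (nat_lit 78) (nat_lit 76) (nat_lit 0)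 (XT.lf (nat_lit 0) (nat_lit 2994842967) (nat_lit 228) (nat_lit 9929868691) (nat_lit 76) (nat_lit 1779424541) (nat_lit 150) (nat_lit 5) (nat_lit 153) (nat_lit 5) (nat_lit 151) (nat_lit 4) (nat_lit 422) (nat_lit 319) (nat_lit 279)) (XT.lf (nat_lit 0) (nat_lit 1787495464) (nat_lit 76) (nat_lit 7080994158) (nat_lit 152) (nat_lit 6083083670) (nat_lit 149) (nat_lit 5) (nat_lit 150) (nat_lit 5) (nat_lit 151) (nat_lit 4) (nat_lit 423) (nat_lit 319) (nat_lit 278)))) (XT.nd (nat_lit 156) (nat_lit 304) (nat_lit 0) (XT.nd (nat_lit 78) (nat_lit 228) (nat_lit 0) (XT.lf (nat_lit 0) (nat_lit 13925969446) (nat_lit 76) (nat_lit 1020652443) (nat_lit 152) (nat_lit 258963322) (nat_lit 149) (nat_lit 5) (nat_lit 150) (nat_lit 5) (nat_lit 151) (nat_lit 4) (nat_lit 424) (nat_lit 319) (nat_lit 277)) (XT.lf (nat_lit 0) (nat_lit 5714117738) (nat_lit 228) (nat_lit 4526533562) (nat_lit 76) (nat_lit 5222323645) (nat_lit 146) (nat_lit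 5) (nat_lit 149) (nat_lit 5) (nat_lit 147) (nat_lit 4) (nat_lit 425) (nat_lit 319) (nat_lit 276))) (XT.nd (nat_lit 78) (nat_lit 228) (nat_lit 0) (XT.lf (nat_lit 0) (nat_lit 7825732316) (nat_lit 76) (nat_lit 4063467843) (nat_lit 152) (nat_lit 3837968877) (nat_lit 145) (nat_lit 5) (nat_lit 146) (nat_lit 5) (nat_lit 147) (nat_lit 4) (nat_lit 426) (nat_lit 319) (nat_lit 275)) (XT.lf (nat_lit 0) (nat_lit 2248868101) (nat_lit 228) (nat_lit 11441750119) (nat_lit 76) (nat_lit 2306745835) (nat_lit 142) (nat_lit 5) (nat_lit 145) (nat_lit 5) (nat_lit 143) (nat_lit 4) (nat_lit 427) (nat_lit 319) (nat_lit 274)))))) (XT.nd (nat_lit 624) (nat_lit 912) (nat_lit 0) (XT.nd (nat_lit 312) (nat_lit 532) (nat_lit 0) (XT.nd (nat_lit 156) (nat_lit 304) (nat_lit 0) (XT.nd (nat_lit 78) (nat_lit 0) (nat_lit 0) (XT.lf (nat_lit 0) (nat_lit 1085227953) (nat_lit 76) (nat_lit 7417131567) (nat_lit 152) (nat_lit 7770329752) (nat_lit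 141) (nat_lit 5) (nat_lit 142) (nat_lit 5) (nat_lit 143) (nat_lit 4) (nat_lit 428) (nat_lit 319) (nat_lit 273)) (XT.lf (nat_lit 0) (nat_lit 14091850900) (nat_lit 76) (nat_lit 897873460) (nat_lit 152) (nat_lit 1565161826) (nat_lit 141) (nat_lit 5) (nat_lit 142) (nat_lit 5) (nat_lit 143) (nat_lit 4) (nat_lit 429) (nat_lit 319) (nat_lit 272))) (XT.nd (nat_lit 78) (nat_lit 76) (nat_lit 0) (XT.lf (nat_lit 0) (nat_lit 4823510350) (nat_lit 228) (nat_lit 6223106599) (nat_lit 76) (nat_lit 5794794547) (nat_lit 138) (nat_lit 5) (nat_lit 141) (nat_lit 5) (nat_lit 139) (nat_lit 4) (nat_lit 430) (nat_lit 319) (nat_lit 271)) (XT.lf (nat_lit 0) (nat_lit 6990122338) (nat_lit 76) (nat_lit 4415726838) (nat_lit 152) (nat_lit 5729214552) (nat_lit 137) (nat_lit 5) (nat_lit 138) (nat_lit 5) (nat_lit 139) (nat_lit 4) (nat_lit 431) (nat_lit 319) (nat_lit 270)))) (XT.nd (nat_lit 156) (nat_lit 304) (nat_lit 0) (XT.nd (nat_lit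 78) (nat_lit 0) (nat_lit 0) (XT.lf (nat_lit 0) (nat_lit 783908938) (nat_lit 228) (nat_lit 14241997792) (nat_lit 76) (nat_lit 2409891798) (nat_lit 134) (nat_lit 5) (nat_lit 137) (nat_lit 5) (nat_lit 135) (nat_lit 4) (nat_lit 432) (nat_lit 319) (nat_lit 269)) (XT.lf (nat_lit 0) (nat_lit 7456970400) (nat_lit 228) (nat_lit 831964892) (nat_lit 76) (nat_lit 9452527458) (nat_lit 134) (nat_lit 5) (nat_lit 137) (nat_lit 5) (nat_lit 135) (nat_lit 4) (nat_lit 433) (nat_lit 319) (nat_lit 268))) (XT.nd (nat_lit 78) (nat_lit 228) (nat_lit 0) (XT.lf (nat_lit 0) (nat_lit 13111275398) (nat_lit 76) (nat_lit 1279464847) (nat_lit 152) (nat_lit 3663741158) (nat_lit 133) (nat_lit 5) (nat_lit 134) (nat_lit 5) (nat_lit 135) (nat_lit 4) (nat_lit 434) (nat_lit 319) (nat_lit 267)) (XT.lf (nat_lit 0) (nat_lit 3182703937) (nat_lit 228) (nat_lit 9296767350) (nat_lit 76) (nat_lit 5893849840) (nat_lit 130) (nat_lit 5) (nat_lit 133)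 (nat_lit 5) (nat_lit 131) (nat_lit 4) (nat_lit 435) (nat_lit 319) (nat_lit 266))))) (XT.nd (nat_lit 312) (nat_lit 532) (nat_lit 0) (XT.nd (nat_lit 156) (nat_lit 152) (nat_lit 0) (XT.nd (nat_lit 78) (nat_lit 152) (nat_lit 0) (XT.lf (nat_lit 0) (nat_lit 4837807407) (nat_lit 76) (nat_lit 5367388861) (nat_lit 152) (nat_lit 8494112790) (nat_lit 129) (nat_lit 5) (nat_lit 130) (nat_lit 5) (nat_lit 131) (nat_lit 4) (nat_lit 436) (nat_lit 319) (nat_lit 265)) (XT.lf (nat_lit 0) (nat_lit 417828402) (nat_lit 152) (nat_lit 17073030349) (nat_lit 152) (nat_lit 1542643014) (nat_lit 127) (nat_lit 4) (nat_lit 129) (nat_lit 5) (nat_lit 129) (nat_lit 4) (nat_lit 437) (nat_lit 319) (nat_lit 264))) (XT.nd (nat_lit 78) (nat_lit 76) (nat_lit 0) (XT.lf (nat_lit 0) (nat_lit 5637173173) (nat_lit 228) (nat_lit 4197735424) (nat_lit 76) (nat_lit 9537309206) (nat_lit 126) (nat_lit 5) (nat_lit 129) (nat_lit 5) (nat_lit 127) (nat_lit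 4) (nat_lit 438) (nat_lit 319) (nat_lit 263)) (XT.lf (nat_lit 0) (nat_lit 10725028577) (nat_lit 76) (nat_lit 2316256008) (nat_lit 152) (nat_lit 6678155335) (nat_lit 125) (nat_lit 5) (nat_lit 126) (nat_lit 5) (nat_lit 127) (nat_lit 4) (nat_lit 439) (nat_lit 319) (nat_lit 262)))) (XT.nd (nat_lit 156) (nat_lit 228) (nat_lit 0) (XT.nd (nat_lit 78) (nat_lit 76) (nat_lit 0) (XT.lf (nat_lit 0) (nat_lit 669880902) (nat_lit 228) (nat_lit 14031625104) (nat_lit 76) (nat_lit 5372673568) (nat_lit 122) (nat_lit 5) (nat_lit 125) (nat_lit 5) (nat_lit 123) (nat_lit 4) (nat_lit 440) (nat_lit 319) (nat_lit 261)) (XT.lf (nat_lit 0) (nat_lit 1087532251) (nat_lit 76) (nat_lit 7078708393) (nat_lit 152) (nat_lit 12269473961) (nat_lit 121) (nat_lit 5) (nat_lit 122) (nat_lit 5) (nat_lit 123) (nat_lit 4) (nat_lit 441) (nat_lit 319) (nat_lit 260))) (XT.nd (nat_lit 78) (nat_lit 228) (nat_lit 0) (XT.lf (nat_lit 0) (nat_lit 15975122220)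 (nat_lit 152) (nat_lit 3986796704) (nat_lit 0) (nat_lit 843547832) (nat_lit 121) (nat_lit 5) (nat_lit 123) (nat_lit 4) (nat_lit 121) (nat_lit 4) (nat_lit 442) (nat_lit 319) (nat_lit 259)) (XT.lf (nat_lit 0) (nat_lit 2901127963) (nat_lit 228) (nat_lit 9332382992) (nat_lit 76) (nat_lit 8948250914) (nat_lit 118) (nat_lit 5) (nat_lit 121) (nat_lit 5) (nat_lit 119) (nat_lit 4) (nat_lit 443) (nat_lit 319) (nat_lit 258))))))))
noncomputable def xc54 : XT := (XT.nd (nat_lit 2340) (nat_lit 1748) (nat_lit 0) (XT.nd (nat_lit 1170) (nat_lit 1216) (nat_lit 0) (XT.nd (nat_lit 546) (nat_lit 684) (nat_lit 0) (XT.nd (nat_lit 234) (nat_lit 304) (nat_lit 0) (XT.nd (nat_lit 78) (nat_lit 152) (nat_lit 0) (XT.lf (nat_lit 0) (nat_lit 6636996816) (nat_lit 76) (nat_lit 4173911420) (nat_lit 152) (nat_lit 10755699381) (nat_lit 117) (nat_lit 5) (nat_lit 118) (nat_lit 5) (nat_lit 119) (nat_lit 4) (nat_lit 444) (nat_lit 319) (nat_lit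 257)) (XT.nd (nat_lit 78) (nat_lit 76) (nat_lit 0) (XT.lf (nat_lit 0) (nat_lit 1180396952) (nat_lit 76) (nat_lit 17862872673) (nat_lit 76) (nat_lit 2917170480) (nat_lit 116) (nat_lit 4) (nat_lit 117) (nat_lit 5) (nat_lit 117) (nat_lit 4) (nat_lit 445) (nat_lit 319) (nat_lit 256)) (XT.lf (nat_lit 0) (nat_lit 5188612070) (nat_lit 152) (nat_lit 4492870924) (nat_lit 76) (nat_lit 12679135949) (nat_lit 115) (nat_lit 5) (nat_lit 117) (nat_lit 5) (nat_lit 116) (nat_lit 4) (nat_lit 446) (nat_lit 319) (nat_lit 255)))) (XT.nd (nat_lit 156) (nat_lit 152) (nat_lit 0) (XT.nd (nat_lit 78) (nat_lit 76) (nat_lit 0) (XT.lf (nat_lit 0) (nat_lit 12380408922) (nat_lit 76) (nat_lit 1158449203) (nat_lit 152) (nat_lit 9231280867) (nat_lit 114) (nat_lit 5) (nat_lit 115) (nat_lit 5) (nat_lit 116) (nat_lit 4) (nat_lit 447) (nat_lit 319) (nat_lit 254)) (XT.lf (nat_lit 0) (nat_lit 6601215879) (nat_lit 76) (nat_lit 15661923619)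 (nat_lit 76) (nat_lit 925099308) (nat_lit 113) (nat_lit 4) (nat_lit 114) (nat_lit 5) (nat_lit 114) (nat_lit 4) (nat_lit 448) (nat_lit 319) (nat_lit 253))) (XT.nd (nat_lit 78) (nat_lit 0) (nat_lit 0) (XT.lf (nat_lit 0) (nat_lit 507846296) (nat_lit 76) (nat_lit 7036880350) (nat_lit 152) (nat_lit 16070053973) (nat_lit 111) (nat_lit 5) (nat_lit 112) (nat_lit 5) (nat_lit 113) (nat_lit 4) (nat_lit 449) (nat_lit 319) (nat_lit 252)) (XT.lf (nat_lit 0) (nat_lit 16378091076) (nat_lit 152) (nat_lit 5737511602) (nat_lit 0) (nat_lit 1934400110) (nat_lit 111) (nat_lit 5) (nat_lit 113) (nat_lit 4) (nat_lit 111) (nat_lit 4) (nat_lit 450) (nat_lit 319) (nat_lit 251))))) (XT.nd (nat_lit 312) (nat_lit 304) (nat_lit 0) (XT.nd (nat_lit 156) (nat_lit 152) (nat_lit 0) (XT.nd (nat_lit 78) (nat_lit 76) (nat_lit 0) (XT.lf (nat_lit 0) (nat_lit 1090253922) (nat_lit 152) (nat_lit 12295564482) (nat_lit 76) (nat_lit 11108246127)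 (nat_lit 109) (nat_lit 5) (nat_lit 111) (nat_lit 5) (nat_lit 110) (nat_lit 4) (nat_lit 451) (nat_lit 319) (nat_lit 250)) (XT.lf (nat_lit 0) (nat_lit 5764343504) (nat_lit 76) (nat_lit 4253546463) (nat_lit 152) (nat_lit 14929575278) (nat_lit 108) (nat_lit 5) (nat_lit 109) (nat_lit 5) (nat_lit 110) (nat_lit 4) (nat_lit 452) (nat_lit 319) (nat_lit 249))) (XT.nd (nat_lit 78) (nat_lit 152) (nat_lit 0) (XT.lf (nat_lit 0) (nat_lit 19331230874) (nat_lit 152) (nat_lit 955582322) (nat_lit 0) (nat_lit 5124118509) (nat_lit 108) (nat_lit 5) (nat_lit 110) (nat_lit 4) (nat_lit 108) (nat_lit 4) (nat_lit 453) (nat_lit 319) (nat_lit 248)) (XT.lf (nat_lit 0) (nat_lit 3137960309) (nat_lit 152) (nat_lit 7894883651) (nat_lit 76) (nat_lit 14849736959) (nat_lit 106) (nat_lit 5) (nat_lit 108) (nat_lit 5) (nat_lit 107) (nat_lit 4) (nat_lit 454) (nat_lit 319) (nat_lit 247)))) (XT.nd (nat_lit 156) (nat_lit 152) (nat_lit 0) (XT.nd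 (nat_lit 78) (nat_lit 76) (nat_lit 0) (XT.lf (nat_lit 0) (nat_lit 11200095847) (nat_lit 76) (nat_lit 1371916592) (nat_lit 152) (nat_lit 13792699605) (nat_lit 105) (nat_lit 5) (nat_lit 106) (nat_lit 5) (nat_lit 107) (nat_lit 4) (nat_lit 455) (nat_lit 319) (nat_lit 246)) (XT.lf (nat_lit 0) (nat_lit 4057767802) (nat_lit 76) (nat_lit 18378015983) (nat_lit 76) (nat_lit 4421122389) (nat_lit 104) (nat_lit 4) (nat_lit 105) (nat_lit 5) (nat_lit 105) (nat_lit 4) (nat_lit 456) (nat_lit 319) (nat_lit 245))) (XT.nd (nat_lit 78) (nat_lit 76) (nat_lit 0) (XT.lf (nat_lit 0) (nat_lit 5242492793) (nat_lit 152) (nat_lit 3366015065) (nat_lit 76) (nat_lit 18750460247) (nat_lit 103) (nat_lit 5) (nat_lit 105) (nat_lit 5) (nat_lit 104) (nat_lit 4) (nat_lit 457) (nat_lit 319) (nat_lit 244)) (XT.lf (nat_lit 0) (nat_lit 15230791247) (nat_lit 152) (nat_lit 11058186872) (nat_lit 0) (nat_lit 1582091520) (nat_lit 102) (nat_lit 5)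 (nat_lit 104) (nat_lit 4) (nat_lit 102) (nat_lit 4) (nat_lit 458) (nat_lit 319) (nat_lit 243)))))) (XT.nd (nat_lit 546) (nat_lit 608) (nat_lit 0) (XT.nd (nat_lit 234) (nat_lit 380) (nat_lit 0) (XT.nd (nat_lit 78) (nat_lit 152) (nat_lit 0) (XT.lf (nat_lit 0) (nat_lit 9257797853) (nat_lit 76) (nat_lit 16415904424) (nat_lit 76) (nat_lit 2720183033) (nat_lit 101) (nat_lit 4) (nat_lit 102) (nat_lit 5) (nat_lit 102) (nat_lit 4) (nat_lit 459) (nat_lit 319) (nat_lit 242)) (XT.nd (nat_lit 78) (nat_lit 0) (nat_lit 0) (XT.lf (nat_lit 0) (nat_lit 1327694029) (nat_lit 76) (nat_lit 6095491941) (nat_lit 152) (nat_lit 21504878131) (nat_lit 99) (nat_lit 5) (nat_lit 100) (nat_lit 5) (nat_lit 101) (nat_lit 4) (nat_lit 460) (nat_lit 319) (nat_lit 241)) (XT.lf (nat_lit 0) (nat_lit 18001414728) (nat_lit 152) (nat_lit 6853244669) (nat_lit 0) (nat_lit 4617243933) (nat_lit 99) (nat_lit 5) (nat_lit 101) (nat_lit 4) (nat_lit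 99) (nat_lit 4) (nat_lit 461) (nat_lit 319) (nat_lit 240)))) (XT.nd (nat_lit 156) (nat_lit 152) (nat_lit 0) (XT.nd (nat_lit 78) (nat_lit 152) (nat_lit 0) (XT.lf (nat_lit 0) (nat_lit 14638684842) (nat_lit 76) (nat_lit 14407424135) (nat_lit 76) (nat_lit 981475200) (nat_lit 98) (nat_lit 4) (nat_lit 99) (nat_lit 5) (nat_lit 99) (nat_lit 4) (nat_lit 462) (nat_lit 319) (nat_lit 239)) (XT.lf (nat_lit 0) (nat_lit 6241758461) (nat_lit 76) (nat_lit 3466748285) (nat_lit 152) (nat_lit 20886257248) (nat_lit 96) (nat_lit 5) (nat_lit 97) (nat_lit 5) (nat_lit 98) (nat_lit 4) (nat_lit 463) (nat_lit 319) (nat_lit 238))) (XT.nd (nat_lit 78) (nat_lit 152) (nat_lit 0) (XT.lf (nat_lit 0) (nat_lit 20879519276) (nat_lit 152) (nat_lit 2526742088) (nat_lit 0) (nat_lit 7767004579) (nat_lit 96) (nat_lit 5) (nat_lit 98) (nat_lit 4) (nat_lit 96) (nat_lit 4) (nat_lit 464) (nat_lit 319) (nat_lit 237)) (XT.lf (nat_lit 0) (nat_lit 784544853)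 (nat_lit 152) (nat_lit 11557007979) (nat_lit 76) (nat_lit 19421991226) (nat_lit 94) (nat_lit 5) (nat_lit 96) (nat_lit 5) (nat_lit 95) (nat_lit 4) (nat_lit 465) (nat_lit 319) (nat_lit 236))))) (XT.nd (nat_lit 312) (nat_lit 304) (nat_lit 0) (XT.nd (nat_lit 156) (nat_lit 152) (nat_lit 0) (XT.nd (nat_lit 78) (nat_lit 76) (nat_lit 0) (XT.lf (nat_lit 0) (nat_lit 11321592201) (nat_lit 76) (nat_lit 750951849) (nat_lit 152) (nat_lit 20293401327) (nat_lit 93) (nat_lit 5) (nat_lit 94) (nat_lit 5) (nat_lit 95) (nat_lit 4) (nat_lit 466) (nat_lit 319) (nat_lit 235)) (XT.lf (nat_lit 0) (nat_lit 1970244575) (nat_lit 76) (nat_lit 21922973048) (nat_lit 76) (nat_lit 9087380081) (nat_lit 92) (nat_lit 4) (nat_lit 93) (nat_lit 5) (nat_lit 93) (nat_lit 4) (nat_lit 467) (nat_lit 319) (nat_lit 234))) (XT.nd (nat_lit 78) (nat_lit 76) (nat_lit 0) (XT.lf (nat_lit 0) (nat_lit 2578681960) (nat_lit 152) (nat_lit 7633848636) (nat_lit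 76) (nat_lit 23395298210) (nat_lit 91) (nat_lit 5) (nat_lit 93) (nat_lit 5) (nat_lit 92) (nat_lit 4) (nat_lit 468) (nat_lit 319) (nat_lit 233)) (XT.lf (nat_lit 0) (nat_lit 14542420527) (nat_lit 152) (nat_lit 17687273374) (nat_lit 0) (nat_lit 2017573458) (nat_lit 90) (nat_lit 5) (nat_lit 92) (nat_lit 4) (nat_lit 90) (nat_lit 4) (nat_lit 469) (nat_lit 319) (nat_lit 232)))) (XT.nd (nat_lit 156) (nat_lit 152) (nat_lit 0) (XT.nd (nat_lit 78) (nat_lit 76) (nat_lit 0) (XT.lf (nat_lit 0) (nat_lit 6663524761) (nat_lit 76) (nat_lit 20395782851) (nat_lit 76) (nat_lit 7840754365) (nat_lit 89) (nat_lit 4) (nat_lit 90) (nat_lit 5) (nat_lit 90) (nat_lit 4) (nat_lit 470) (nat_lit 319) (nat_lit 231)) (XT.lf (nat_lit 0) (nat_lit 4425416737) (nat_lit 152) (nat_lit 3600734856) (nat_lit 76) (nat_lit 27541077628) (nat_lit 88) (nat_lit 5) (nat_lit 90) (nat_lit 5) (nat_lit 89) (nat_lit 4) (nat_lit 471) (nat_lit 319) (nat_lit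 230))) (XT.nd (nat_lit 78) (nat_lit 76) (nat_lit 0) (XT.lf (nat_lit 0) (nat_lit 17114156108) (nat_lit 152) (nat_lit 14262822287) (nat_lit 0) (nat_lit 4868738912) (nat_lit 87) (nat_lit 5) (nat_lit 89) (nat_lit 4) (nat_lit 87) (nat_lit 4) (nat_lit 472) (nat_lit 319) (nat_lit 229)) (XT.lf (nat_lit 0) (nat_lit 11514836923) (nat_lit 76) (nat_lit 18848284596) (nat_lit 76) (nat_lit 6576051602) (nat_lit 86) (nat_lit 4) (nat_lit 87) (nat_lit 5) (nat_lit 87) (nat_lit 4) (nat_lit 473) (nat_lit 319) (nat_lit 228))))))) (XT.nd (nat_lit 1170) (nat_lit 532) (nat_lit 0) (XT.nd (nat_lit 546) (nat_lit 608) (nat_lit 0) (XT.nd (nat_lit 234) (nat_lit 380) (nat_lit 0) (XT.nd (nat_lit 78) (nat_lit 76) (nat_lit 0) (XT.lf (nat_lit 0) (nat_lit 563127699) (nat_lit 76) (nat_lit 5772535083) (nat_lit 152) (nat_lit 31312829748) (nat_lit 84) (nat_lit 5) (nat_lit 85) (nat_lit 5) (nat_lit 86) (nat_lit 4) (nat_lit 474) (nat_lit 319)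 (nat_lit 227)) (XT.nd (nat_lit 78) (nat_lit 76) (nat_lit 0) (XT.lf (nat_lit 0) (nat_lit 19788542809) (nat_lit 152) (nat_lit 10756079060) (nat_lit 0) (nat_lit 7823936779) (nat_lit 84) (nat_lit 5) (nat_lit 86) (nat_lit 4) (nat_lit 84) (nat_lit 4) (nat_lit 475) (nat_lit 319) (nat_lit 226)) (XT.lf (nat_lit 0) (nat_lit 16536923491) (nat_lit 76) (nat_lit 17278313966) (nat_lit 76) (nat_lit 5289882447) (nat_lit 83) (nat_lit 4) (nat_lit 84) (nat_lit 5) (nat_lit 84) (nat_lit 4) (nat_lit 476) (nat_lit 319) (nat_lit 225)))) (XT.nd (nat_lit 156) (nat_lit 228) (nat_lit 0) (XT.nd (nat_lit 78) (nat_lit 0) (nat_lit 0) (XT.lf (nat_lit 0) (nat_lit 4931386612) (nat_lit 76) (nat_lit 3414894015) (nat_lit 152) (nat_lit 31511738708) (nat_lit 81) (nat_lit 5) (nat_lit 82) (nat_lit 5) (nat_lit 83) (nat_lit 4) (nat_lit 477) (nat_lit 319) (nat_lit 224)) (XT.lf (nat_lit 0) (nat_lit 22573945661) (nat_lit 152) (nat_lit 7158896427)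 (nat_lit 0) (nat_lit 10890430253) (nat_lit 81) (nat_lit 5) (nat_lit 83) (nat_lit 4) (nat_lit 81) (nat_lit 4) (nat_lit 478) (nat_lit 319) (nat_lit 223))) (XT.nd (nat_lit 78) (nat_lit 152) (nat_lit 0) (XT.lf (nat_lit 0) (nat_lit 21743279409) (nat_lit 76) (nat_lit 15683469168) (nat_lit 76) (nat_lit 3978785122) (nat_lit 80) (nat_lit 4) (nat_lit 81) (nat_lit 5) (nat_lit 81) (nat_lit 4) (nat_lit 479) (nat_lit 319) (nat_lit 222)) (XT.lf (nat_lit 0) (nat_lit 9443589822) (nat_lit 76) (nat_lit 984403253) (nat_lit 152) (nat_lit 31776659333) (nat_lit 78) (nat_lit 5) (nat_lit 79) (nat_lit 5) (nat_lit 80) (nat_lit 4) (nat_lit 480) (nat_lit 319) (nat_lit 221))))) (XT.nd (nat_lit 312) (nat_lit 304) (nat_lit 0) (XT.nd (nat_lit 156) (nat_lit 228) (nat_lit 0) (XT.nd (nat_lit 78) (nat_lit 76) (nat_lit 0) (XT.lf (nat_lit 0) (nat_lit 25479117160) (nat_lit 152) (nat_lit 3462661871) (nat_lit 0) (nat_lit 14076020466) (nat_lit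 78) (nat_lit 5) (nat_lit 80) (nat_lit 4) (nat_lit 78) (nat_lit 4) (nat_lit 481) (nat_lit 319) (nat_lit 220)) (XT.lf (nat_lit 0) (nat_lit 27148191139) (nat_lit 76) (nat_lit 14061114348) (nat_lit 76) (nat_lit 2639209593) (nat_lit 77) (nat_lit 4) (nat_lit 78) (nat_lit 5) (nat_lit 78) (nat_lit 4) (nat_lit 482) (nat_lit 319) (nat_lit 219))) (XT.nd (nat_lit 78) (nat_lit 76) (nat_lit 0) (XT.lf (nat_lit 0) (nat_lit 12601729342) (nat_lit 152) (nat_lit 30599711886) (nat_lit 0) (nat_lit 1494773024) (nat_lit 75) (nat_lit 5) (nat_lit 77) (nat_lit 4) (nat_lit 75) (nat_lit 4) (nat_lit 483) (nat_lit 319) (nat_lit 218)) (XT.lf (nat_lit 0) (nat_lit 348525861) (nat_lit 76) (nat_lit 28168055530) (nat_lit 76) (nat_lit 17043887171) (nat_lit 74) (nat_lit 4) (nat_lit 75) (nat_lit 5) (nat_lit 75) (nat_lit 4) (nat_lit 484) (nat_lit 319) (nat_lit 217)))) (XT.nd (nat_lit 156) (nat_lit 152) (nat_lit 0) (XT.nd (nat_lit 78) (nat_lit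 152) (nat_lit 0) (XT.lf (nat_lit 0) (nat_lit 32766779077) (nat_lit 76) (nat_lit 12408381034) (nat_lit 76) (nat_lit 1267501957) (nat_lit 74) (nat_lit 4) (nat_lit 75) (nat_lit 5) (nat_lit 75) (nat_lit 4) (nat_lit 485) (nat_lit 319) (nat_lit 216)) (XT.lf (nat_lit 0) (nat_lit 14869658999) (nat_lit 152) (nat_lit 28434426544) (nat_lit 0) (nat_lit 4037520090) (nat_lit 72) (nat_lit 5) (nat_lit 74) (nat_lit 4) (nat_lit 72) (nat_lit 4) (nat_lit 486) (nat_lit 319) (nat_lit 215))) (XT.nd (nat_lit 78) (nat_lit 76) (nat_lit 0) (XT.lf (nat_lit 0) (nat_lit 4348736082) (nat_lit 76) (nat_lit 27378984343) (nat_lit 76) (nat_lit 16531552759) (nat_lit 71) (nat_lit 4) (nat_lit 72) (nat_lit 5) (nat_lit 72) (nat_lit 4) (nat_lit 487) (nat_lit 319) (nat_lit 214)) (XT.lf (nat_lit 0) (nat_lit 137377013) (nat_lit 152) (nat_lit 10583403502) (nat_lit 76) (nat_lit 38476279214) (nat_lit 70) (nat_lit 5) (nat_lit 72) (nat_lit 5) (nat_lit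 71) (nat_lit 4) (nat_lit 488) (nat_lit 319) (nat_lit 213)))))) (XT.nd (nat_lit 44694) (nat_lit 0) (nat_lit 14060) (XT.nd (nat_lit 312) (nat_lit 228) (nat_lit 0) (XT.nd (nat_lit 156) (nat_lit 152) (nat_lit 0) (XT.nd (nat_lit 78) (nat_lit 76) (nat_lit 0) (XT.lf (nat_lit 0) (nat_lit 17229231805) (nat_lit 152) (nat_lit 26251848901) (nat_lit 0) (nat_lit 6669335055) (nat_lit 69) (nat_lit 5) (nat_lit 71) (nat_lit 4) (nat_lit 69) (nat_lit 4) (nat_lit 489) (nat_lit 319) (nat_lit 212)) (XT.lf (nat_lit 0) (nat_lit 8479409516) (nat_lit 76) (nat_lit 26609399031) (nat_lit 76) (nat_lit 16035914937) (nat_lit 68) (nat_lit 4) (nat_lit 69) (nat_lit 5) (nat_lit 69) (nat_lit 4) (nat_lit 490) (nat_lit 319) (nat_lit 211))) (XT.nd (nat_lit 78) (nat_lit 76) (nat_lit 0) (XT.lf (nat_lit 0) (nat_lit 1556559186) (nat_lit 152) (nat_lit 7426860541) (nat_lit 76) (nat_lit 43137636524) (nat_lit 67) (nat_lit 5) (nat_lit 69) (nat_lit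 5) (nat_lit 68) (nat_lit 4) (nat_lit 491) (nat_lit 319) (nat_lit 210)) (XT.lf (nat_lit 0) (nat_lit 19687691363) (nat_lit 152) (nat_lit 24047897692) (nat_lit 0) (nat_lit 9396931107) (nat_lit 66) (nat_lit 5) (nat_lit 68) (nat_lit 4) (nat_lit 66) (nat_lit 4) (nat_lit 492) (nat_lit 319) (nat_lit 209)))) (XT.nd (nat_lit 156) (nat_lit 76) (nat_lit 0) (XT.nd (nat_lit 78) (nat_lit 76) (nat_lit 0) (XT.lf (nat_lit 0) (nat_lit 12751481094) (nat_lit 76) (nat_lit 25859121982) (nat_lit 76) (nat_lit 15556289547) (nat_lit 65) (nat_lit 4) (nat_lit 66) (nat_lit 5) (nat_lit 66) (nat_lit 4) (nat_lit 493) (nat_lit 319) (nat_lit 208)) (XT.lf (nat_lit 0) (nat_lit 3018757713) (nat_lit 152) (nat_lit 4186474839) (nat_lit 76) (nat_lit 48020061341) (nat_lit 64) (nat_lit 5) (nat_lit 66) (nat_lit 5) (nat_lit 65) (nat_lit 4) (nat_lit 494) (nat_lit 319) (nat_lit 207))) (XT.nd (nat_lit 44148) (nat_lit 0) (nat_lit 17024) (XT.lf (nat_lit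 0) (nat_lit 22252639536) (nat_lit 152) (nat_lit 21818296850) (nat_lit 0) (nat_lit 12227462659) (nat_lit 63) (nat_lit 5) (nat_lit 65) (nat_lit 4) (nat_lit 63) (nat_lit 4) (nat_lit 495) (nat_lit 319) (nat_lit 206)) (XT.lf (nat_lit 0) (nat_lit 3674633823) (nat_lit 456) (nat_lit 197047684) (nat_lit 456) (nat_lit 197047684) (nat_lit 287) (nat_lit 4) (nat_lit 293) (nat_lit 5) (nat_lit 293) (nat_lit 4) (nat_lit 380) (nat_lit 320) (nat_lit 320))))) (XT.nd (nat_lit 312) (nat_lit 1216) (nat_lit 0) (XT.nd (nat_lit 156) (nat_lit 836) (nat_lit 0) (XT.nd (nat_lit 78) (nat_lit 456) (nat_lit 0) (XT.lf (nat_lit 0) (nat_lit 3688007591) (nat_lit 456) (nat_lit 1992500522) (nat_lit 0) (nat_lit 2543237538) (nat_lit 281) (nat_lit 5) (nat_lit 287) (nat_lit 4) (nat_lit 281) (nat_lit 4) (nat_lit 381) (nat_lit 320) (nat_lit 319)) (XT.lf (nat_lit 0) (nat_lit 5117718153) (nat_lit 456) (nat_lit 2726104262) (nat_lit 456) (nat_lit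 469906973) (nat_lit 275) (nat_lit 4) (nat_lit 281) (nat_lit 5) (nat_lit 281) (nat_lit 4) (nat_lit 382) (nat_lit 320) (nat_lit 318))) (XT.nd (nat_lit 78) (nat_lit 380) (nat_lit 0) (XT.lf (nat_lit 0) (nat_lit 3606202635) (nat_lit 456) (nat_lit 4432219181) (nat_lit 0) (nat_lit 368093063) (nat_lit 269) (nat_lit 5) (nat_lit 275) (nat_lit 4) (nat_lit 269) (nat_lit 4) (nat_lit 383) (nat_lit 320) (nat_lit 317)) (XT.lf (nat_lit 0) (nat_lit 2805698930) (nat_lit 380) (nat_lit 4975936909) (nat_lit 380) (nat_lit 720713972) (nat_lit 264) (nat_lit 4) (nat_lit 269) (nat_lit 5) (nat_lit 269) (nat_lit 4) (nat_lit 384) (nat_lit 320) (nat_lit 316)))) (XT.nd (nat_lit 156) (nat_lit 380) (nat_lit 0) (XT.nd (nat_lit 78) (nat_lit 380) (nat_lit 0) (XT.lf (nat_lit 0) (nat_lit 1607561933) (nat_lit 380) (nat_lit 1766957068) (nat_lit 456) (nat_lit 5226701498) (nat_lit 258) (nat_lit 5) (nat_lit 263) (nat_lit 5) (nat_lit 264) (nat_lit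 4) (nat_lit 385) (nat_lit 320) (nat_lit 315)) (XT.lf (nat_lit 0) (nat_lit 388500934) (nat_lit 380) (nat_lit 7167903984) (nat_lit 380) (nat_lit 1147089869) (nat_lit 253) (nat_lit 4) (nat_lit 258) (nat_lit 5) (nat_lit 258) (nat_lit 4) (nat_lit 386) (nat_lit 320) (nat_lit 314))) (XT.nd (nat_lit 78) (nat_lit 304) (nat_lit 0) (XT.lf (nat_lit 0) (nat_lit 2986324318) (nat_lit 456) (nat_lit 862267799) (nat_lit 76) (nat_lit 4959633420) (nat_lit 252) (nat_lit 5) (nat_lit 258) (nat_lit 5) (nat_lit 253) (nat_lit 4) (nat_lit 387) (nat_lit 320) (nat_lit 313)) (XT.lf (nat_lit 0) (nat_lit 6795998073) (nat_lit 304) (nat_lit 395073435) (nat_lit 380) (nat_lit 1725574405) (nat_lit 248) (nat_lit 5) (nat_lit 252) (nat_lit 5) (nat_lit 253) (nat_lit 4) (nat_lit 388) (nat_lit 320) (nat_lit 312))))))))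
noncomputable def xc55 : XT := (XT.nd (nat_lit 2418) (nat_lit 3572) (nat_lit 0) (XT.nd (nat_lit 1170) (nat_lit 2736) (nat_lit 0) (XT.nd (nat_lit 546) (nat_lit 2052) (nat_lit 0) (XT.nd (nat_lit 234) (nat_lit 912) (nat_lit 0) (XT.nd (nat_lit 78) (nat_lit 684) (nat_lit 0) (XT.lf (nat_lit 0) (nat_lit 2444183752) (nat_lit 456) (nat_lit 3439951177) (nat_lit 76) (nat_lit 3143488814) (nat_lit 242) (nat_lit 5) (nat_lit 248) (nat_lit 5) (nat_lit 243) (nat_lit 4) (nat_lit 389) (nat_lit 320) (nat_lit 311)) (XT.nd (nat_lit 78) (nat_lit 380) (nat_lit 0) (XT.lf (nat_lit 0) (nat_lit 4352351371) (nat_lit 304) (nat_lit 2325931509) (nat_lit 380) (nat_lit 2463917563) (nat_lit 238) (nat_lit 5) (nat_lit 242) (nat_lit 5) (nat_lit 243) (nat_lit 4) (nat_lit 390) (nat_lit 320) (nat_lit 310)) (XT.lf (nat_lit 0) (nat_lit 1729512286) (nat_lit 380) (nat_lit 6182386737) (nat_lit 76) (nat_lit 1348251137) (nat_lit 233) (nat_lit 5)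 (nat_lit 238) (nat_lit 5) (nat_lit 234) (nat_lit 4) (nat_lit 391) (nat_lit 320) (nat_lit 309)))) (XT.nd (nat_lit 156) (nat_lit 228) (nat_lit 0) (XT.nd (nat_lit 78) (nat_lit 380) (nat_lit 0) (XT.lf (nat_lit 0) (nat_lit 1743355292) (nat_lit 304) (nat_lit 4252426139) (nat_lit 380) (nat_lit 3385228320) (nat_lit 229) (nat_lit 5) (nat_lit 233) (nat_lit 5) (nat_lit 234) (nat_lit 4) (nat_lit 392) (nat_lit 320) (nat_lit 308)) (XT.lf (nat_lit 0) (nat_lit 385792493) (nat_lit 304) (nat_lit 456601628) (nat_lit 380) (nat_lit 8663592588) (nat_lit 224) (nat_lit 5) (nat_lit 228) (nat_lit 5) (nat_lit 229) (nat_lit 5) (nat_lit 393) (nat_lit 320) (nat_lit 307))) (XT.nd (nat_lit 78) (nat_lit 228) (nat_lit 0) (XT.lf (nat_lit 0) (nat_lit 5149065469) (nat_lit 380) (nat_lit 1036784061) (nat_lit 76) (nat_lit 3447250133) (nat_lit 224) (nat_lit 5) (nat_lit 229) (nat_lit 5) (nat_lit 225) (nat_lit 4) (nat_lit 394) (nat_lit 320)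 (nat_lit 306)) (XT.lf (nat_lit 0) (nat_lit 7287573512) (nat_lit 228) (nat_lit 2283759907) (nat_lit 304) (nat_lit 193100694) (nat_lit 221) (nat_lit 5) (nat_lit 224) (nat_lit 5) (nat_lit 225) (nat_lit 4) (nat_lit 395) (nat_lit 320) (nat_lit 305))))) (XT.nd (nat_lit 312) (nat_lit 836) (nat_lit 0) (XT.nd (nat_lit 156) (nat_lit 608) (nat_lit 0) (XT.nd (nat_lit 78) (nat_lit 228) (nat_lit 0) (XT.lf (nat_lit 0) (nat_lit 4141011228) (nat_lit 380) (nat_lit 3997693567) (nat_lit 76) (nat_lit 1759877176) (nat_lit 216) (nat_lit 5) (nat_lit 221) (nat_lit 5) (nat_lit 217) (nat_lit 4) (nat_lit 396) (nat_lit 320) (nat_lit 304)) (XT.lf (nat_lit 0) (nat_lit 4466776704) (nat_lit 228) (nat_lit 4138233133) (nat_lit 304) (nat_lit 1431574738) (nat_lit 213) (nat_lit 5) (nat_lit 216) (nat_lit 5) (nat_lit 217) (nat_lit 4) (nat_lit 397) (nat_lit 320) (nat_lit 303))) (XT.nd (nat_lit 78) (nat_lit 228) (nat_lit 0) (XT.lf (nat_lit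 0) (nat_lit 2948150142) (nat_lit 380) (nat_lit 7201118130) (nat_lit 76) (nat_lit 29098010) (nat_lit 208) (nat_lit 5) (nat_lit 213) (nat_lit 5) (nat_lit 209) (nat_lit 4) (nat_lit 398) (nat_lit 320) (nat_lit 302)) (XT.lf (nat_lit 0) (nat_lit 1402467708) (nat_lit 228) (nat_lit 6053236321) (nat_lit 304) (nat_lit 2867515875) (nat_lit 205) (nat_lit 5) (nat_lit 208) (nat_lit 5) (nat_lit 209) (nat_lit 4) (nat_lit 399) (nat_lit 320) (nat_lit 301)))) (XT.nd (nat_lit 156) (nat_lit 532) (nat_lit 0) (XT.nd (nat_lit 78) (nat_lit 228) (nat_lit 0) (XT.lf (nat_lit 0) (nat_lit 1582047721) (nat_lit 304) (nat_lit 216504762) (nat_lit 76) (nat_lit 8673766349) (nat_lit 204) (nat_lit 5) (nat_lit 208) (nat_lit 5) (nat_lit 205) (nat_lit 5) (nat_lit 400) (nat_lit 320) (nat_lit 300)) (XT.lf (nat_lit 0) (nat_lit 6133811286) (nat_lit 304) (nat_lit 1896710913) (nat_lit 76) (nat_lit 2593726373) (nat_lit 201) (nat_lit 5) (nat_lit 205)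 (nat_lit 5) (nat_lit 202) (nat_lit 4) (nat_lit 401) (nat_lit 320) (nat_lit 299))) (XT.nd (nat_lit 78) (nat_lit 228) (nat_lit 0) (XT.lf (nat_lit 0) (nat_lit 46729215) (nat_lit 304) (nat_lit 3633866488) (nat_lit 76) (nat_lit 7099944203) (nat_lit 197) (nat_lit 5) (nat_lit 201) (nat_lit 5) (nat_lit 198) (nat_lit 5) (nat_lit 402) (nat_lit 320) (nat_lit 298)) (XT.lf (nat_lit 0) (nat_lit 4627762063) (nat_lit 304) (nat_lit 5465601202) (nat_lit 76) (nat_lit 846882781) (nat_lit 194) (nat_lit 5) (nat_lit 198) (nat_lit 5) (nat_lit 195) (nat_lit 4) (nat_lit 403) (nat_lit 320) (nat_lit 297)))))) (XT.nd (nat_lit 624) (nat_lit 1140) (nat_lit 0) (XT.nd (nat_lit 312) (nat_lit 836) (nat_lit 0) (XT.nd (nat_lit 156) (nat_lit 228) (nat_lit 0) (XT.nd (nat_lit 78) (nat_lit 304) (nat_lit 0) (XT.lf (nat_lit 0) (nat_lit 3724136594) (nat_lit 228) (nat_lit 5649583303) (nat_lit 304) (nat_lit 1730198653) (nat_lit 191) (nat_lit 5)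 (nat_lit 194) (nat_lit 5) (nat_lit 195) (nat_lit 4) (nat_lit 404) (nat_lit 320) (nat_lit 296)) (XT.lf (nat_lit 0) (nat_lit 1899288783) (nat_lit 228) (nat_lit 1024380680) (nat_lit 304) (nat_lit 8348196107) (nat_lit 187) (nat_lit 5) (nat_lit 190) (nat_lit 5) (nat_lit 191) (nat_lit 5) (nat_lit 405) (nat_lit 320) (nat_lit 295))) (XT.nd (nat_lit 78) (nat_lit 228) (nat_lit 0) (XT.lf (nat_lit 0) (nat_lit 7712538380) (nat_lit 304) (nat_lit 28168830) (nat_lit 76) (nat_lit 3702725070) (nat_lit 187) (nat_lit 5) (nat_lit 191) (nat_lit 5) (nat_lit 188) (nat_lit 4) (nat_lit 406) (nat_lit 320) (nat_lit 294)) (XT.lf (nat_lit 0) (nat_lit 1029277209) (nat_lit 228) (nat_lit 1990673602) (nat_lit 76) (nat_lit 8599169118) (nat_lit 184) (nat_lit 5) (nat_lit 187) (nat_lit 5) (nat_lit 185) (nat_lit 5) (nat_lit 407) (nat_lit 320) (nat_lit 293)))) (XT.nd (nat_lit 156) (nat_lit 456) (nat_lit 0) (XT.nd (nat_lit 78) (nat_lit 152)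 (nat_lit 0) (XT.lf (nat_lit 0) (nat_lit 5871897298) (nat_lit 304) (nat_lit 4063624178) (nat_lit 76) (nat_lit 1863009610) (nat_lit 181) (nat_lit 5) (nat_lit 185) (nat_lit 5) (nat_lit 182) (nat_lit 4) (nat_lit 408) (nat_lit 320) (nat_lit 292)) (XT.lf (nat_lit 0) (nat_lit 5756213974) (nat_lit 152) (nat_lit 5131103696) (nat_lit 228) (nat_lit 1095181257) (nat_lit 179) (nat_lit 5) (nat_lit 181) (nat_lit 5) (nat_lit 182) (nat_lit 4) (nat_lit 409) (nat_lit 320) (nat_lit 291))) (XT.nd (nat_lit 78) (nat_lit 152) (nat_lit 0) (XT.lf (nat_lit 0) (nat_lit 3680739676) (nat_lit 228) (nat_lit 123760737) (nat_lit 304) (nat_lit 8366395472) (nat_lit 175) (nat_lit 5) (nat_lit 178) (nat_lit 5) (nat_lit 179) (nat_lit 5) (nat_lit 410) (nat_lit 320) (nat_lit 290)) (XT.lf (nat_lit 0) (nat_lit 1481639850) (nat_lit 152) (nat_lit 7396251324) (nat_lit 228) (nat_lit 3485266354) (nat_lit 173) (nat_lit 5) (nat_lit 175) (nat_lit 5)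 (nat_lit 176) (nat_lit 4) (nat_lit 411) (nat_lit 320) (nat_lit 289))))) (XT.nd (nat_lit 312) (nat_lit 532) (nat_lit 0) (XT.nd (nat_lit 156) (nat_lit 380) (nat_lit 0) (XT.nd (nat_lit 78) (nat_lit 152) (nat_lit 0) (XT.lf (nat_lit 0) (nat_lit 1522807159) (nat_lit 228) (nat_lit 786046319) (nat_lit 76) (nat_lit 10251570590) (nat_lit 172) (nat_lit 5) (nat_lit 175) (nat_lit 5) (nat_lit 173) (nat_lit 5) (nat_lit 412) (nat_lit 320) (nat_lit 288)) (XT.lf (nat_lit 0) (nat_lit 6657588511) (nat_lit 228) (nat_lit 3158337501) (nat_lit 76) (nat_lit 2945251882) (nat_lit 170) (nat_lit 5) (nat_lit 173) (nat_lit 5) (nat_lit 171) (nat_lit 4) (nat_lit 413) (nat_lit 320) (nat_lit 287))) (XT.nd (nat_lit 78) (nat_lit 228) (nat_lit 0) (XT.lf (nat_lit 0) (nat_lit 7338527208) (nat_lit 152) (nat_lit 4634711056) (nat_lit 228) (nat_lit 993911323) (nat_lit 168) (nat_lit 5) (nat_lit 170) (nat_lit 5) (nat_lit 171) (nat_lit 4) (nat_lit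 414) (nat_lit 320) (nat_lit 286)) (XT.lf (nat_lit 0) (nat_lit 4198577730) (nat_lit 228) (nat_lit 8226877925) (nat_lit 76) (nat_lit 752228913) (nat_lit 165) (nat_lit 5) (nat_lit 168) (nat_lit 5) (nat_lit 166) (nat_lit 4) (nat_lit 415) (nat_lit 320) (nat_lit 285)))) (XT.nd (nat_lit 156) (nat_lit 304) (nat_lit 0) (XT.nd (nat_lit 78) (nat_lit 76) (nat_lit 0) (XT.lf (nat_lit 0) (nat_lit 2427214007) (nat_lit 152) (nat_lit 7152179482) (nat_lit 228) (nat_lit 3813271028) (nat_lit 163) (nat_lit 5) (nat_lit 165) (nat_lit 5) (nat_lit 166) (nat_lit 4) (nat_lit 416) (nat_lit 320) (nat_lit 284)) (XT.lf (nat_lit 0) (nat_lit 1488085412) (nat_lit 228) (nat_lit 191528666) (nat_lit 76) (nat_lit 11933746150) (nat_lit 162) (nat_lit 5) (nat_lit 165) (nat_lit 5) (nat_lit 163) (nat_lit 5) (nat_lit 417) (nat_lit 320) (nat_lit 283))) (XT.nd (nat_lit 78) (nat_lit 152) (nat_lit 0) (XT.lf (nat_lit 0) (nat_lit 6944220764) (nat_lit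 228) (nat_lit 2926153548) (nat_lit 76) (nat_lit 3966998410) (nat_lit 160) (nat_lit 5) (nat_lit 163) (nat_lit 5) (nat_lit 161) (nat_lit 4) (nat_lit 418) (nat_lit 320) (nat_lit 282)) (XT.lf (nat_lit 0) (nat_lit 8297626640) (nat_lit 152) (nat_lit 4293269626) (nat_lit 228) (nat_lit 1476403640) (nat_lit 158) (nat_lit 5) (nat_lit 160) (nat_lit 5) (nat_lit 161) (nat_lit 4) (nat_lit 419) (nat_lit 320) (nat_lit 281))))))) (XT.nd (nat_lit 1170) (nat_lit 1672) (nat_lit 0) (XT.nd (nat_lit 546) (nat_lit 912) (nat_lit 0) (XT.nd (nat_lit 234) (nat_lit 532) (nat_lit 0) (XT.nd (nat_lit 78) (nat_lit 228) (nat_lit 0) (XT.lf (nat_lit 0) (nat_lit 4049247695) (nat_lit 228) (nat_lit 8764399548) (nat_lit 76) (nat_lit 1488500635) (nat_lit 155) (nat_lit 5) (nat_lit 158) (nat_lit 5) (nat_lit 156) (nat_lit 4) (nat_lit 420) (nat_lit 320) (nat_lit 280)) (XT.nd (nat_lit 78) (nat_lit 76) (nat_lit 0) (XT.lf (nat_lit 0) (nat_lit 2622874638)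 (nat_lit 152) (nat_lit 7143597973) (nat_lit 228) (nat_lit 4775465793) (nat_lit 153) (nat_lit 5) (nat_lit 155) (nat_lit 5) (nat_lit 156) (nat_lit 4) (nat_lit 421) (nat_lit 320) (nat_lit 279)) (XT.lf (nat_lit 0) (nat_lit 867813455) (nat_lit 228) (nat_lit 395147083) (nat_lit 76) (nat_lit 13525159499) (nat_lit 152) (nat_lit 5) (nat_lit 155) (nat_lit 5) (nat_lit 153) (nat_lit 5) (nat_lit 422) (nat_lit 320) (nat_lit 278)))) (XT.nd (nat_lit 156) (nat_lit 304) (nat_lit 0) (XT.nd (nat_lit 78) (nat_lit 76) (nat_lit 0) (XT.lf (nat_lit 0) (nat_lit 6673393263) (nat_lit 228) (nat_lit 3561289373) (nat_lit 76) (nat_lit 4802916499) (nat_lit 150) (nat_lit 5) (nat_lit 153) (nat_lit 5) (nat_lit 151) (nat_lit 4) (nat_lit 423) (nat_lit 320) (nat_lit 277)) (XT.lf (nat_lit 0) (nat_lit 8442238105) (nat_lit 76) (nat_lit 4239939807) (nat_lit 152) (nat_lit 2611513571) (nat_lit 149) (nat_lit 5) (nat_lit 150) (nat_lit 5) (nat_lit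 151) (nat_lit 4) (nat_lit 424) (nat_lit 320) (nat_lit 276))) (XT.nd (nat_lit 78) (nat_lit 76) (nat_lit 0) (XT.lf (nat_lit 0) (nat_lit 3286698248) (nat_lit 228) (nat_lit 10309778320) (nat_lit 76) (nat_lit 1958906353) (nat_lit 146) (nat_lit 5) (nat_lit 149) (nat_lit 5) (nat_lit 147) (nat_lit 4) (nat_lit 425) (nat_lit 320) (nat_lit 275)) (XT.lf (nat_lit 0) (nat_lit 1863153286) (nat_lit 76) (nat_lit 7507657540) (nat_lit 152) (nat_lit 6451495280) (nat_lit 145) (nat_lit 5) (nat_lit 146) (nat_lit 5) (nat_lit 147) (nat_lit 4) (nat_lit 426) (nat_lit 320) (nat_lit 274))))) (XT.nd (nat_lit 312) (nat_lit 380) (nat_lit 0) (XT.nd (nat_lit 156) (nat_lit 304) (nat_lit 0) (XT.nd (nat_lit 78) (nat_lit 228) (nat_lit 0) (XT.lf (nat_lit 0) (nat_lit 14486011427) (nat_lit 76) (nat_lit 1187999367) (nat_lit 152) (nat_lit 422129273) (nat_lit 145) (nat_lit 5) (nat_lit 146) (nat_lit 5) (nat_lit 147) (nat_lit 4) (nat_lit 427) (nat_lit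 320) (nat_lit 273)) (XT.lf (nat_lit 0) (nat_lit 5768301402) (nat_lit 228) (nat_lit 5280484070) (nat_lit 76) (nat_lit 5324940486) (nat_lit 142) (nat_lit 5) (nat_lit 145) (nat_lit 5) (nat_lit 143) (nat_lit 4) (nat_lit 428) (nat_lit 320) (nat_lit 272))) (XT.nd (nat_lit 78) (nat_lit 228) (nat_lit 0) (XT.lf (nat_lit 0) (nat_lit 7558533555) (nat_lit 76) (nat_lit 4612233691) (nat_lit 152) (nat_lit 4487702596) (nat_lit 141) (nat_lit 5) (nat_lit 142) (nat_lit 5) (nat_lit 143) (nat_lit 4) (nat_lit 429) (nat_lit 320) (nat_lit 271)) (XT.lf (nat_lit 0) (nat_lit 1823214517) (nat_lit 228) (nat_lit 13096457441) (nat_lit 76) (nat_lit 2030209523) (nat_lit 138) (nat_lit 5) (nat_lit 141) (nat_lit 5) (nat_lit 139) (nat_lit 4) (nat_lit 430) (nat_lit 320) (nat_lit 270)))) (XT.nd (nat_lit 156) (nat_lit 304) (nat_lit 0) (XT.nd (nat_lit 78) (nat_lit 76) (nat_lit 0) (XT.lf (nat_lit 0) (nat_lit 8305964122) (nat_lit 228) (nat_lit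 81057179) (nat_lit 76) (nat_lit 8859500087) (nat_lit 138) (nat_lit 5) (nat_lit 141) (nat_lit 5) (nat_lit 139) (nat_lit 4) (nat_lit 431) (nat_lit 320) (nat_lit 269)) (XT.lf (nat_lit 0) (nat_lit 13466522130) (nat_lit 76) (nat_lit 1582274324) (nat_lit 152) (nat_lit 2501296031) (nat_lit 137) (nat_lit 5) (nat_lit 138) (nat_lit 5) (nat_lit 139) (nat_lit 4) (nat_lit 432) (nat_lit 320) (nat_lit 268))) (XT.nd (nat_lit 78) (nat_lit 76) (nat_lit 0) (XT.lf (nat_lit 0) (nat_lit 4132659132) (nat_lit 228) (nat_lit 8327999573) (nat_lit 76) (nat_lit 5398456790) (nat_lit 134) (nat_lit 5) (nat_lit 137) (nat_lit 5) (nat_lit 135) (nat_lit 4) (nat_lit 433) (nat_lit 320) (nat_lit 267)) (XT.lf (nat_lit 0) (nat_lit 5405110651) (nat_lit 76) (nat_lit 5555907573) (nat_lit 152) (nat_lit 7214278247) (nat_lit 133) (nat_lit 5) (nat_lit 134) (nat_lit 5) (nat_lit 135) (nat_lit 4) (nat_lit 434) (nat_lit 320) (nat_lit 266)))))) (XT.nd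 (nat_lit 624) (nat_lit 760) (nat_lit 0) (XT.nd (nat_lit 312) (nat_lit 380) (nat_lit 0) (XT.nd (nat_lit 156) (nat_lit 304) (nat_lit 0) (XT.nd (nat_lit 78) (nat_lit 76) (nat_lit 0) (XT.lf (nat_lit 0) (nat_lit 1106847953) (nat_lit 152) (nat_lit 16934445444) (nat_lit 152) (nat_lit 458257520) (nat_lit 131) (nat_lit 4) (nat_lit 133) (nat_lit 5) (nat_lit 133) (nat_lit 4) (nat_lit 435) (nat_lit 320) (nat_lit 265)) (XT.lf (nat_lit 0) (nat_lit 6495446647) (nat_lit 228) (nat_lit 3407989167) (nat_lit 76) (nat_lit 8924567099) (nat_lit 130) (nat_lit 5) (nat_lit 133) (nat_lit 5) (nat_lit 131) (nat_lit 4) (nat_lit 436) (nat_lit 320) (nat_lit 264))) (XT.nd (nat_lit 78) (nat_lit 228) (nat_lit 0) (XT.lf (nat_lit 0) (nat_lit 11090155369) (nat_lit 76) (nat_lit 2603458005) (nat_lit 152) (nat_lit 5471207119) (nat_lit 129) (nat_lit 5) (nat_lit 130) (nat_lit 5) (nat_lit 131) (nat_lit 4) (nat_lit 437) (nat_lit 320) (nat_lit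 263)) (XT.lf (nat_lit 0) (nat_lit 1649168609) (nat_lit 228) (nat_lit 12981012394) (nat_lit 76) (nat_lit 4878571466) (nat_lit 126) (nat_lit 5) (nat_lit 129) (nat_lit 5) (nat_lit 127) (nat_lit 4) (nat_lit 438) (nat_lit 320) (nat_lit 262)))) (XT.nd (nat_lit 156) (nat_lit 304) (nat_lit 0) (XT.nd (nat_lit 78) (nat_lit 0) (nat_lit 0) (XT.lf (nat_lit 0) (nat_lit 1707573299) (nat_lit 76) (nat_lit 7228804373) (nat_lit 152) (nat_lit 10923103985) (nat_lit 125) (nat_lit 5) (nat_lit 126) (nat_lit 5) (nat_lit 127) (nat_lit 4) (nat_lit 439) (nat_lit 320) (nat_lit 261)) (XT.lf (nat_lit 0) (nat_lit 16517148668) (nat_lit 152) (nat_lit 3237274282) (nat_lit 0) (nat_lit 464061400) (nat_lit 125) (nat_lit 5) (nat_lit 127) (nat_lit 4) (nat_lit 125) (nat_lit 4) (nat_lit 440) (nat_lit 320) (nat_lit 260))) (XT.nd (nat_lit 78) (nat_lit 76) (nat_lit 0) (XT.lf (nat_lit 0) (nat_lit 3794610907) (nat_lit 228) (nat_lit 8445612487) (nat_lit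 76) (nat_lit 8343042560) (nat_lit 122) (nat_lit 5) (nat_lit 125) (nat_lit 5) (nat_lit 123) (nat_lit 4) (nat_lit 441) (nat_lit 320) (nat_lit 259)) (XT.lf (nat_lit 0) (nat_lit 7068227810) (nat_lit 76) (nat_lit 4414383894) (nat_lit 152) (nat_lit 9474032824) (nat_lit 121) (nat_lit 5) (nat_lit 122) (nat_lit 5) (nat_lit 123) (nat_lit 4) (nat_lit 442) (nat_lit 320) (nat_lit 258))))) (XT.nd (nat_lit 312) (nat_lit 304) (nat_lit 0) (XT.nd (nat_lit 156) (nat_lit 228) (nat_lit 0) (XT.nd (nat_lit 78) (nat_lit 76) (nat_lit 0) (XT.lf (nat_lit 0) (nat_lit 1765485960) (nat_lit 152) (nat_lit 17714633967) (nat_lit 152) (nat_lit 1858738510) (nat_lit 119) (nat_lit 4) (nat_lit 121) (nat_lit 5) (nat_lit 121) (nat_lit 4) (nat_lit 443) (nat_lit 320) (nat_lit 257)) (XT.lf (nat_lit 0) (nat_lit 5994335913) (nat_lit 228) (nat_lit 3772319907) (nat_lit 76) (nat_lit 11960373681) (nat_lit 118) (nat_lit 5) (nat_lit 121) (nat_lit 5)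 (nat_lit 119) (nat_lit 4) (nat_lit 444) (nat_lit 320) (nat_lit 256))) (XT.nd (nat_lit 78) (nat_lit 152) (nat_lit 0) (XT.lf (nat_lit 0) (nat_lit 12618886054) (nat_lit 76) (nat_lit 1490552683) (nat_lit 152) (nat_lit 8014941010) (nat_lit 117) (nat_lit 5) (nat_lit 118) (nat_lit 5) (nat_lit 119) (nat_lit 4) (nat_lit 445) (nat_lit 320) (nat_lit 255)) (XT.lf (nat_lit 0) (nat_lit 52769197) (nat_lit 152) (nat_lit 15527175440) (nat_lit 76) (nat_lit 6950210481) (nat_lit 115) (nat_lit 5) (nat_lit 117) (nat_lit 5) (nat_lit 116) (nat_lit 4) (nat_lit 446) (nat_lit 320) (nat_lit 254)))) (XT.nd (nat_lit 156) (nat_lit 228) (nat_lit 0) (XT.nd (nat_lit 78) (nat_lit 0) (nat_lit 0) (XT.lf (nat_lit 0) (nat_lit 1070302315) (nat_lit 76) (nat_lit 7195734725) (nat_lit 152) (nat_lit 14677747473) (nat_lit 114) (nat_lit 5) (nat_lit 115) (nat_lit 5) (nat_lit 116) (nat_lit 4) (nat_lit 447) (nat_lit 320) (nat_lit 253)) (XT.lf (nat_lit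 0) (nat_lit 16840613744) (nat_lit 152) (nat_lit 5008459725) (nat_lit 0) (nat_lit 1517301998) (nat_lit 114) (nat_lit 5) (nat_lit 116) (nat_lit 4) (nat_lit 114) (nat_lit 4) (nat_lit 448) (nat_lit 320) (nat_lit 252))) (XT.nd (nat_lit 78) (nat_lit 76) (nat_lit 0) (XT.lf (nat_lit 0) (nat_lit 1970687737) (nat_lit 152) (nat_lit 11391868538) (nat_lit 76) (nat_lit 10434456084) (nat_lit 112) (nat_lit 5) (nat_lit 114) (nat_lit 5) (nat_lit 113) (nat_lit 4) (nat_lit 449) (nat_lit 320) (nat_lit 251)) (XT.lf (nat_lit 0) (nat_lit 6150965738) (nat_lit 76) (nat_lit 4494537725) (nat_lit 152) (nat_lit 13591487524) (nat_lit 111) (nat_lit 5) (nat_lit 112) (nat_lit 5) (nat_lit 113) (nat_lit 4) (nat_lit 450) (nat_lit 320) (nat_lit 250))))))))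
noncomputable def xc56 : XT := (XT.nd (nat_lit 2340) (nat_lit 1216) (nat_lit 0) (XT.nd (nat_lit 1170) (nat_lit 1140) (nat_lit 0) (XT.nd (nat_lit 546) (nat_lit 684) (nat_lit 0) (XT.nd (nat_lit 234) (nat_lit 304) (nat_lit 0) (XT.nd (nat_lit 78) (nat_lit 228) (nat_lit 0) (XT.lf (nat_lit 0) (nat_lit 19685844347) (nat_lit 152) (nat_lit 387647369) (nat_lit 0) (nat_lit 4613518839) (nat_lit 111) (nat_lit 5) (nat_lit 113) (nat_lit 4) (nat_lit 111) (nat_lit 4) (nat_lit 451) (nat_lit 320) (nat_lit 249)) (XT.nd (nat_lit 78) (nat_lit 76) (nat_lit 0) (XT.lf (nat_lit 0) (nat_lit 3937494506) (nat_lit 152) (nat_lit 7140564265) (nat_lit 76) (nat_lit 14066391708) (nat_lit 109) (nat_lit 5) (nat_lit 111) (nat_lit 5) (nat_lit 110) (nat_lit 4) (nat_lit 452) (nat_lit 320) (nat_lit 248)) (XT.lf (nat_lit 0) (nat_lit 11406985401) (nat_lit 76) (nat_lit 1696575757) (nat_lit 152) (nat_lit 12508774010) (nat_lit 108) (nat_lit 5) (nat_lit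 109) (nat_lit 5) (nat_lit 110) (nat_lit 4) (nat_lit 453) (nat_lit 320) (nat_lit 247)))) (XT.nd (nat_lit 156) (nat_lit 152) (nat_lit 0) (XT.nd (nat_lit 78) (nat_lit 76) (nat_lit 0) (XT.lf (nat_lit 0) (nat_lit 4469430753) (nat_lit 76) (nat_lit 18213768192) (nat_lit 76) (nat_lit 3406899778) (nat_lit 107) (nat_lit 4) (nat_lit 108) (nat_lit 5) (nat_lit 108) (nat_lit 4) (nat_lit 454) (nat_lit 320) (nat_lit 246)) (XT.lf (nat_lit 0) (nat_lit 5959499163) (nat_lit 152) (nat_lit 2763596108) (nat_lit 76) (nat_lit 17854141075) (nat_lit 106) (nat_lit 5) (nat_lit 108) (nat_lit 5) (nat_lit 107) (nat_lit 4) (nat_lit 455) (nat_lit 320) (nat_lit 245))) (XT.nd (nat_lit 78) (nat_lit 76) (nat_lit 0) (XT.lf (nat_lit 0) (nat_lit 15659797477) (nat_lit 152) (nat_lit 10234645252) (nat_lit 0) (nat_lit 1179891937) (nat_lit 105) (nat_lit 5) (nat_lit 107) (nat_lit 4) (nat_lit 105) (nat_lit 4) (nat_lit 456) (nat_lit 320) (nat_lit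 244)) (XT.lf (nat_lit 0) (nat_lit 9498166876) (nat_lit 76) (nat_lit 16306678827) (nat_lit 76) (nat_lit 1776888004) (nat_lit 104) (nat_lit 4) (nat_lit 105) (nat_lit 5) (nat_lit 105) (nat_lit 4) (nat_lit 457) (nat_lit 320) (nat_lit 243))))) (XT.nd (nat_lit 312) (nat_lit 304) (nat_lit 0) (XT.nd (nat_lit 156) (nat_lit 228) (nat_lit 0) (XT.nd (nat_lit 78) (nat_lit 0) (nat_lit 0) (XT.lf (nat_lit 0) (nat_lit 1784182184) (nat_lit 76) (nat_lit 6276116003) (nat_lit 152) (nat_lit 20039623042) (nat_lit 102) (nat_lit 5) (nat_lit 103) (nat_lit 5) (nat_lit 104) (nat_lit 4) (nat_lit 458) (nat_lit 320) (nat_lit 242)) (XT.lf (nat_lit 0) (nat_lit 18328258852) (nat_lit 152) (nat_lit 6170734505) (nat_lit 0) (nat_lit 4128992055) (nat_lit 102) (nat_lit 5) (nat_lit 104) (nat_lit 4) (nat_lit 102) (nat_lit 4) (nat_lit 459) (nat_lit 320) (nat_lit 241))) (XT.nd (nat_lit 78) (nat_lit 152) (nat_lit 0) (XT.lf (nat_lit 0) (nat_lit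 14703561154) (nat_lit 76) (nat_lit 14353665274) (nat_lit 76) (nat_lit 110076049) (nat_lit 101) (nat_lit 4) (nat_lit 102) (nat_lit 5) (nat_lit 102) (nat_lit 4) (nat_lit 460) (nat_lit 320) (nat_lit 240)) (XT.lf (nat_lit 0) (nat_lit 6536897315) (nat_lit 76) (nat_lit 3720993336) (nat_lit 152) (nat_lit 19459655099) (nat_lit 99) (nat_lit 5) (nat_lit 100) (nat_lit 5) (nat_lit 101) (nat_lit 4) (nat_lit 461) (nat_lit 320) (nat_lit 239)))) (XT.nd (nat_lit 156) (nat_lit 152) (nat_lit 0) (XT.nd (nat_lit 78) (nat_lit 152) (nat_lit 0) (XT.lf (nat_lit 0) (nat_lit 21101255270) (nat_lit 152) (nat_lit 1987822788) (nat_lit 0) (nat_lit 7190188428) (nat_lit 99) (nat_lit 5) (nat_lit 101) (nat_lit 4) (nat_lit 99) (nat_lit 4) (nat_lit 462) (nat_lit 320) (nat_lit 238)) (XT.lf (nat_lit 0) (nat_lit 1567400181) (nat_lit 152) (nat_lit 10768624377) (nat_lit 76) (nat_lit 18515920883) (nat_lit 97) (nat_lit 5) (nat_lit 99) (nat_lit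 5) (nat_lit 98) (nat_lit 4) (nat_lit 463) (nat_lit 320) (nat_lit 237))) (XT.nd (nat_lit 78) (nat_lit 76) (nat_lit 0) (XT.lf (nat_lit 0) (nat_lit 11451507888) (nat_lit 76) (nat_lit 1080604205) (nat_lit 152) (nat_lit 18904524317) (nat_lit 96) (nat_lit 5) (nat_lit 97) (nat_lit 5) (nat_lit 98) (nat_lit 4) (nat_lit 464) (nat_lit 320) (nat_lit 236)) (XT.lf (nat_lit 0) (nat_lit 2370439980) (nat_lit 76) (nat_lit 21640082989) (nat_lit 76) (nat_lit 8022802409) (nat_lit 95) (nat_lit 4) (nat_lit 96) (nat_lit 5) (nat_lit 96) (nat_lit 4) (nat_lit 465) (nat_lit 320) (nat_lit 235)))))) (XT.nd (nat_lit 546) (nat_lit 532) (nat_lit 0) (XT.nd (nat_lit 234) (nat_lit 380) (nat_lit 0) (XT.nd (nat_lit 78) (nat_lit 152) (nat_lit 0) (XT.lf (nat_lit 0) (nat_lit 3288842442) (nat_lit 152) (nat_lit 6975918955) (nat_lit 76) (nat_lit 22377266146) (nat_lit 94) (nat_lit 5) (nat_lit 96) (nat_lit 5) (nat_lit 95) (nat_lit 4) (nat_lit 466)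 (nat_lit 320) (nat_lit 234)) (XT.nd (nat_lit 78) (nat_lit 76) (nat_lit 0) (XT.lf (nat_lit 0) (nat_lit 14905997595) (nat_lit 152) (nat_lit 16738400488) (nat_lit 0) (nat_lit 1618387339) (nat_lit 93) (nat_lit 5) (nat_lit 95) (nat_lit 4) (nat_lit 93) (nat_lit 4) (nat_lit 467) (nat_lit 320) (nat_lit 233)) (XT.lf (nat_lit 0) (nat_lit 6910868185) (nat_lit 76) (nat_lit 20152586970) (nat_lit 76) (nat_lit 6832957250) (nat_lit 92) (nat_lit 4) (nat_lit 93) (nat_lit 5) (nat_lit 93) (nat_lit 4) (nat_lit 468) (nat_lit 320) (nat_lit 232)))) (XT.nd (nat_lit 156) (nat_lit 228) (nat_lit 0) (XT.nd (nat_lit 78) (nat_lit 76) (nat_lit 0) (XT.lf (nat_lit 0) (nat_lit 5061607951) (nat_lit 152) (nat_lit 3075652438) (nat_lit 76) (nat_lit 26406636315) (nat_lit 91) (nat_lit 5) (nat_lit 93) (nat_lit 5) (nat_lit 92) (nat_lit 4) (nat_lit 469) (nat_lit 320) (nat_lit 231)) (XT.lf (nat_lit 0) (nat_lit 17382438295) (nat_lit 152) (nat_lit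 13428859538) (nat_lit 0) (nat_lit 4391275192) (nat_lit 90) (nat_lit 5) (nat_lit 92) (nat_lit 4) (nat_lit 90) (nat_lit 4) (nat_lit 470) (nat_lit 320) (nat_lit 230))) (XT.nd (nat_lit 78) (nat_lit 152) (nat_lit 0) (XT.lf (nat_lit 0) (nat_lit 11605511247) (nat_lit 76) (nat_lit 18644892532) (nat_lit 76) (nat_lit 5625280549) (nat_lit 89) (nat_lit 4) (nat_lit 90) (nat_lit 5) (nat_lit 90) (nat_lit 4) (nat_lit 471) (nat_lit 320) (nat_lit 229)) (XT.lf (nat_lit 0) (nat_lit 960374391) (nat_lit 76) (nat_lit 5939924449) (nat_lit 152) (nat_lit 29663683669) (nat_lit 87) (nat_lit 5) (nat_lit 88) (nat_lit 5) (nat_lit 89) (nat_lit 4) (nat_lit 472) (nat_lit 320) (nat_lit 228))))) (XT.nd (nat_lit 312) (nat_lit 304) (nat_lit 0) (XT.nd (nat_lit 156) (nat_lit 152) (nat_lit 0) (XT.nd (nat_lit 78) (nat_lit 76) (nat_lit 0) (XT.lf (nat_lit 0) (nat_lit 19958851303) (nat_lit 152) (nat_lit 10038698641) (nat_lit 0) (nat_lit 7265600766)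 (nat_lit 87) (nat_lit 5) (nat_lit 89) (nat_lit 4) (nat_lit 87) (nat_lit 4) (nat_lit 473) (nat_lit 320) (nat_lit 227)) (XT.lf (nat_lit 0) (nat_lit 16466682420) (nat_lit 76) (nat_lit 17114981712) (nat_lit 76) (nat_lit 4396454714) (nat_lit 86) (nat_lit 4) (nat_lit 87) (nat_lit 5) (nat_lit 87) (nat_lit 4) (nat_lit 474) (nat_lit 320) (nat_lit 226))) (XT.nd (nat_lit 78) (nat_lit 0) (nat_lit 0) (XT.lf (nat_lit 0) (nat_lit 5187187870) (nat_lit 76) (nat_lit 3645450120) (nat_lit 152) (nat_lit 29876102156) (nat_lit 84) (nat_lit 5) (nat_lit 85) (nat_lit 5) (nat_lit 86) (nat_lit 4) (nat_lit 475) (nat_lit 320) (nat_lit 225)) (XT.lf (nat_lit 0) (nat_lit 22643380493) (nat_lit 152) (nat_lit 6560060477) (nat_lit 0) (nat_lit 10248338996) (nat_lit 84) (nat_lit 5) (nat_lit 86) (nat_lit 4) (nat_lit 84) (nat_lit 4) (nat_lit 476) (nat_lit 320) (nat_lit 224)))) (XT.nd (nat_lit 156) (nat_lit 76) (nat_lit 0) (XT.nd (nat_lit 78)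 (nat_lit 152) (nat_lit 0) (XT.lf (nat_lit 0) (nat_lit 21507431161) (nat_lit 76) (nat_lit 15560595836) (nat_lit 76) (nat_lit 3143096531) (nat_lit 83) (nat_lit 4) (nat_lit 84) (nat_lit 5) (nat_lit 84) (nat_lit 4) (nat_lit 477) (nat_lit 320) (nat_lit 223)) (XT.lf (nat_lit 0) (nat_lit 9554408713) (nat_lit 76) (nat_lit 1279932033) (nat_lit 152) (nat_lit 30152289017) (nat_lit 81) (nat_lit 5) (nat_lit 82) (nat_lit 5) (nat_lit 83) (nat_lit 4) (nat_lit 478) (nat_lit 320) (nat_lit 222))) (XT.nd (nat_lit 78) (nat_lit 76) (nat_lit 0) (XT.lf (nat_lit 0) (nat_lit 25444541742) (nat_lit 152) (nat_lit 2984630978) (nat_lit 0) (nat_lit 13346996460) (nat_lit 81) (nat_lit 5) (nat_lit 83) (nat_lit 4) (nat_lit 81) (nat_lit 4) (nat_lit 479) (nat_lit 320) (nat_lit 221)) (XT.lf (nat_lit 0) (nat_lit 26741580404) (nat_lit 76) (nat_lit 13979239990) (nat_lit 76) (nat_lit 1861741236) (nat_lit 80) (nat_lit 4) (nat_lit 81) (nat_lit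 5) (nat_lit 81) (nat_lit 4) (nat_lit 480) (nat_lit 320) (nat_lit 220))))))) (XT.nd (nat_lit 45084) (nat_lit 0) (nat_lit 12464) (XT.nd (nat_lit 546) (nat_lit 608) (nat_lit 0) (XT.nd (nat_lit 234) (nat_lit 380) (nat_lit 0) (XT.nd (nat_lit 78) (nat_lit 76) (nat_lit 0) (XT.lf (nat_lit 0) (nat_lit 12922684945) (nat_lit 152) (nat_lit 29343336488) (nat_lit 0) (nat_lit 1139314986) (nat_lit 78) (nat_lit 5) (nat_lit 80) (nat_lit 4) (nat_lit 78) (nat_lit 4) (nat_lit 481) (nat_lit 320) (nat_lit 219)) (XT.nd (nat_lit 78) (nat_lit 0) (nat_lit 0) (XT.lf (nat_lit 0) (nat_lit 710241338) (nat_lit 76) (nat_lit 27667842283) (nat_lit 76) (nat_lit 15866212072) (nat_lit 77) (nat_lit 4) (nat_lit 78) (nat_lit 5) (nat_lit 78) (nat_lit 4) (nat_lit 482) (nat_lit 320) (nat_lit 218)) (XT.lf (nat_lit 0) (nat_lit 32183767203) (nat_lit 76) (nat_lit 12368185452) (nat_lit 76) (nat_lit 548826839) (nat_lit 77) (nat_lit 4) (nat_lit 78)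 (nat_lit 5) (nat_lit 78) (nat_lit 4) (nat_lit 483) (nat_lit 320) (nat_lit 217)))) (XT.nd (nat_lit 156) (nat_lit 152) (nat_lit 0) (XT.nd (nat_lit 78) (nat_lit 76) (nat_lit 0) (XT.lf (nat_lit 0) (nat_lit 15105966217) (nat_lit 152) (nat_lit 27253198865) (nat_lit 0) (nat_lit 3614150048) (nat_lit 75) (nat_lit 5) (nat_lit 77) (nat_lit 4) (nat_lit 75) (nat_lit 4) (nat_lit 484) (nat_lit 320) (nat_lit 216)) (XT.lf (nat_lit 0) (nat_lit 4581677149) (nat_lit 76) (nat_lit 26895250093) (nat_lit 76) (nat_lit 15387209926) (nat_lit 74) (nat_lit 4) (nat_lit 75) (nat_lit 5) (nat_lit 75) (nat_lit 4) (nat_lit 485) (nat_lit 320) (nat_lit 215))) (XT.nd (nat_lit 78) (nat_lit 76) (nat_lit 0) (XT.lf (nat_lit 0) (nat_lit 783723753) (nat_lit 152) (nat_lit 9932832403) (nat_lit 76) (nat_lit 37057849003) (nat_lit 73) (nat_lit 5) (nat_lit 75) (nat_lit 5) (nat_lit 74) (nat_lit 4) (nat_lit 486) (nat_lit 320) (nat_lit 214)) (XT.lf (nat_lit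 0) (nat_lit 17378601632) (nat_lit 152) (nat_lit 25145759415) (nat_lit 0) (nat_lit 6175607169) (nat_lit 72) (nat_lit 5) (nat_lit 74) (nat_lit 4) (nat_lit 72) (nat_lit 4) (nat_lit 487) (nat_lit 320) (nat_lit 213))))) (XT.nd (nat_lit 312) (nat_lit 304) (nat_lit 0) (XT.nd (nat_lit 156) (nat_lit 152) (nat_lit 0) (XT.nd (nat_lit 78) (nat_lit 76) (nat_lit 0) (XT.lf (nat_lit 0) (nat_lit 8580293188) (nat_lit 76) (nat_lit 26141450853) (nat_lit 76) (nat_lit 14924041578) (nat_lit 71) (nat_lit 4) (nat_lit 72) (nat_lit 5) (nat_lit 72) (nat_lit 4) (nat_lit 488) (nat_lit 320) (nat_lit 212)) (XT.lf (nat_lit 0) (nat_lit 2143839806) (nat_lit 152) (nat_lit 6879409431) (nat_lit 76) (nat_lit 41589652040) (nat_lit 70) (nat_lit 5) (nat_lit 72) (nat_lit 5) (nat_lit 71) (nat_lit 4) (nat_lit 489) (nat_lit 320) (nat_lit 211))) (XT.nd (nat_lit 78) (nat_lit 76) (nat_lit 0) (XT.lf (nat_lit 0) (nat_lit 19747630727) (nat_lit 152) (nat_lit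 23017088677) (nat_lit 0) (nat_lit 8830163171) (nat_lit 69) (nat_lit 5) (nat_lit 71) (nat_lit 4) (nat_lit 69) (nat_lit 4) (nat_lit 490) (nat_lit 320) (nat_lit 210)) (XT.lf (nat_lit 0) (nat_lit 12716673025) (nat_lit 76) (nat_lit 25406310881) (nat_lit 76) (nat_lit 14476035950) (nat_lit 68) (nat_lit 4) (nat_lit 69) (nat_lit 5) (nat_lit 69) (nat_lit 4) (nat_lit 491) (nat_lit 320) (nat_lit 209)))) (XT.nd (nat_lit 156) (nat_lit 152) (nat_lit 0) (XT.nd (nat_lit 78) (nat_lit 76) (nat_lit 0) (XT.lf (nat_lit 0) (nat_lit 3546100645) (nat_lit 152) (nat_lit 3744124964) (nat_lit 76) (nat_lit 46336176989) (nat_lit 67) (nat_lit 5) (nat_lit 69) (nat_lit 5) (nat_lit 68) (nat_lit 4) (nat_lit 492) (nat_lit 320) (nat_lit 208)) (XT.lf (nat_lit 0) (nat_lit 22220438659) (nat_lit 152) (nat_lit 20863065101) (nat_lit 0) (nat_lit 11584728510) (nat_lit 66) (nat_lit 5) (nat_lit 68) (nat_lit 4) (nat_lit 66) (nat_lit 4) (nat_lit 493)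 (nat_lit 320) (nat_lit 207))) (XT.nd (nat_lit 78) (nat_lit 76) (nat_lit 0) (XT.lf (nat_lit 0) (nat_lit 17001998289) (nat_lit 76) (nat_lit 24689654253) (nat_lit 76) (nat_lit 14042564918) (nat_lit 65) (nat_lit 4) (nat_lit 66) (nat_lit 5) (nat_lit 66) (nat_lit 4) (nat_lit 494) (nat_lit 320) (nat_lit 206)) (XT.lf (nat_lit 0) (nat_lit 4994532403) (nat_lit 152) (nat_lit 519236309) (nat_lit 76) (nat_lit 51311727638) (nat_lit 64) (nat_lit 5) (nat_lit 66) (nat_lit 5) (nat_lit 65) (nat_lit 4) (nat_lit 495) (nat_lit 320) (nat_lit 205)))))) (XT.nd (nat_lit 624) (nat_lit 2280) (nat_lit 0) (XT.nd (nat_lit 312) (nat_lit 1748) (nat_lit 0) (XT.nd (nat_lit 156) (nat_lit 456) (nat_lit 0) (XT.nd (nat_lit 78) (nat_lit 456) (nat_lit 0) (XT.lf (nat_lit 0) (nat_lit 408203506) (nat_lit 532) (nat_lit 3169072854) (nat_lit 0) (nat_lit 408203506) (nat_lit 293) (nat_lit 5) (nat_lit 300) (nat_lit 4) (nat_lit 293) (nat_lit 4) (nat_lit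 378) (nat_lit 321) (nat_lit 321)) (XT.lf (nat_lit 0) (nat_lit 374383668) (nat_lit 456) (nat_lit 4446630167) (nat_lit 456) (nat_lit 3232143618) (nat_lit 287) (nat_lit 4) (nat_lit 293) (nat_lit 5) (nat_lit 293) (nat_lit 4) (nat_lit 379) (nat_lit 321) (nat_lit 320))) (XT.nd (nat_lit 78) (nat_lit 380) (nat_lit 0) (XT.lf (nat_lit 0) (nat_lit 753483243) (nat_lit 532) (nat_lit 864028719) (nat_lit 76) (nat_lit 6521236812) (nat_lit 286) (nat_lit 5) (nat_lit 293) (nat_lit 5) (nat_lit 287) (nat_lit 4) (nat_lit 380) (nat_lit 321) (nat_lit 319)) (XT.lf (nat_lit 0) (nat_lit 4765155891) (nat_lit 456) (nat_lit 2131803259) (nat_lit 0) (nat_lit 1329845447) (nat_lit 281) (nat_lit 5) (nat_lit 287) (nat_lit 4) (nat_lit 281) (nat_lit 4) (nat_lit 381) (nat_lit 321) (nat_lit 318)))) (XT.nd (nat_lit 156) (nat_lit 836) (nat_lit 0) (XT.nd (nat_lit 78) (nat_lit 380) (nat_lit 0) (XT.lf (nat_lit 0) (nat_lit 541104890) (nat_lit 532)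 (nat_lit 3415923086) (nat_lit 76) (nat_lit 4361124756) (nat_lit 274) (nat_lit 5) (nat_lit 281) (nat_lit 5) (nat_lit 275) (nat_lit 4) (nat_lit 382) (nat_lit 321) (nat_lit 317)) (XT.lf (nat_lit 0) (nat_lit 3680850617) (nat_lit 380) (nat_lit 872274208) (nat_lit 456) (nat_lit 3859325491) (nat_lit 269) (nat_lit 5) (nat_lit 274) (nat_lit 5) (nat_lit 275) (nat_lit 4) (nat_lit 383) (nat_lit 321) (nat_lit 316))) (XT.nd (nat_lit 78) (nat_lit 380) (nat_lit 0) (XT.lf (nat_lit 0) (nat_lit 155623591) (nat_lit 456) (nat_lit 6071565804) (nat_lit 76) (nat_lit 2282842857) (nat_lit 263) (nat_lit 5) (nat_lit 269) (nat_lit 5) (nat_lit 264) (nat_lit 4) (nat_lit 384) (nat_lit 321) (nat_lit 315)) (XT.lf (nat_lit 0) (nat_lit 1148955289) (nat_lit 380) (nat_lit 3035854503) (nat_lit 456) (nat_lit 4425444800) (nat_lit 258) (nat_lit 5) (nat_lit 263) (nat_lit 5) (nat_lit 264) (nat_lit 4) (nat_lit 385) (nat_lit 321) (nat_lit 314)))))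 (XT.nd (nat_lit 312) (nat_lit 1064) (nat_lit 0) (XT.nd (nat_lit 156) (nat_lit 760) (nat_lit 0) (XT.nd (nat_lit 78) (nat_lit 456) (nat_lit 0) (XT.lf (nat_lit 0) (nat_lit 8303734043) (nat_lit 456) (nat_lit 142883046) (nat_lit 0) (nat_lit 267800641) (nat_lit 258) (nat_lit 5) (nat_lit 264) (nat_lit 4) (nat_lit 258) (nat_lit 4) (nat_lit 386) (nat_lit 321) (nat_lit 313)) (XT.lf (nat_lit 0) (nat_lit 3660176744) (nat_lit 456) (nat_lit 1483145534) (nat_lit 76) (nat_lit 3677059354) (nat_lit 252) (nat_lit 5) (nat_lit 258) (nat_lit 5) (nat_lit 253) (nat_lit 4) (nat_lit 387) (nat_lit 321) (nat_lit 312))) (XT.nd (nat_lit 78) (nat_lit 456) (nat_lit 0) (XT.lf (nat_lit 0) (nat_lit 6094816185) (nat_lit 304) (nat_lit 1717960633) (nat_lit 380) (nat_lit 1117589603) (nat_lit 248) (nat_lit 5) (nat_lit 252) (nat_lit 5) (nat_lit 253) (nat_lit 4) (nat_lit 388) (nat_lit 321) (nat_lit 311)) (XT.lf (nat_lit 0) (nat_lit 2974477954)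 (nat_lit 456) (nat_lit 4245428198) (nat_lit 76) (nat_lit 1823237567) (nat_lit 242) (nat_lit 5) (nat_lit 248) (nat_lit 5) (nat_lit 243) (nat_lit 4) (nat_lit 389) (nat_lit 321) (nat_lit 310)))) (XT.nd (nat_lit 156) (nat_lit 380) (nat_lit 0) (XT.nd (nat_lit 78) (nat_lit 380) (nat_lit 0) (XT.lf (nat_lit 0) (nat_lit 3462166386) (nat_lit 304) (nat_lit 3693162448) (nat_lit 380) (nat_lit 2003989034) (nat_lit 238) (nat_lit 5) (nat_lit 242) (nat_lit 5) (nat_lit 243) (nat_lit 4) (nat_lit 390) (nat_lit 321) (nat_lit 309)) (XT.lf (nat_lit 0) (nat_lit 2092602840) (nat_lit 304) (nat_lit 20577679) (nat_lit 380) (nat_lit 7165972995) (nat_lit 233) (nat_lit 5) (nat_lit 237) (nat_lit 5) (nat_lit 238) (nat_lit 5) (nat_lit 391) (nat_lit 321) (nat_lit 308))) (XT.nd (nat_lit 78) (nat_lit 76) (nat_lit 0) (XT.lf (nat_lit 0) (nat_lit 650062890) (nat_lit 304) (nat_lit 5674643277) (nat_lit 380) (nat_lit 3076949243) (nat_lit 229)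 (nat_lit 5) (nat_lit 233) (nat_lit 5) (nat_lit 234) (nat_lit 4) (nat_lit 392) (nat_lit 321) (nat_lit 307)) (XT.lf (nat_lit 0) (nat_lit 1097118517) (nat_lit 380) (nat_lit 806835058) (nat_lit 76) (nat_lit 7624016063) (nat_lit 228) (nat_lit 5) (nat_lit 233) (nat_lit 5) (nat_lit 229) (nat_lit 5) (nat_lit 393) (nat_lit 321) (nat_lit 306))))))))
noncomputable def xc57 : XT := (XT.nd (nat_lit 2340) (nat_lit 3192) (nat_lit 0) (XT.nd (nat_lit 1170) (nat_lit 2356) (nat_lit 0) (XT.nd (nat_lit 546) (nat_lit 1748) (nat_lit 0) (XT.nd (nat_lit 234) (nat_lit 912) (nat_lit 0) (XT.nd (nat_lit 78) (nat_lit 608) (nat_lit 0) (XT.lf (nat_lit 0) (nat_lit 5338451640) (nat_lit 380) (nat_lit 2322289865) (nat_lit 76) (nat_lit 1996301235) (nat_lit 224) (nat_lit 5) (nat_lit 229) (nat_lit 5) (nat_lit 225) (nat_lit 4) (nat_lit 394) (nat_lit 321) (nat_lit 305)) (XT.nd (nat_lit 78) (nat_lit 380) (nat_lit 0) (XT.lf (nat_lit 0) (nat_lit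 5908564519) (nat_lit 228) (nat_lit 3796727420) (nat_lit 304) (nat_lit 84748079) (nat_lit 221) (nat_lit 5) (nat_lit 224) (nat_lit 5) (nat_lit 225) (nat_lit 4) (nat_lit 395) (nat_lit 321) (nat_lit 304)) (XT.lf (nat_lit 0) (nat_lit 4175910429) (nat_lit 380) (nat_lit 5511783800) (nat_lit 76) (nat_lit 238602573) (nat_lit 216) (nat_lit 5) (nat_lit 221) (nat_lit 5) (nat_lit 217) (nat_lit 4) (nat_lit 396) (nat_lit 321) (nat_lit 303)))) (XT.nd (nat_lit 156) (nat_lit 304) (nat_lit 0) (XT.nd (nat_lit 78) (nat_lit 380) (nat_lit 0) (XT.lf (nat_lit 0) (nat_lit 2854090871) (nat_lit 228) (nat_lit 5728676804) (nat_lit 304) (nat_lit 1483245972) (nat_lit 213) (nat_lit 5) (nat_lit 216) (nat_lit 5) (nat_lit 217) (nat_lit 4) (nat_lit 397) (nat_lit 321) (nat_lit 302)) (XT.lf (nat_lit 0) (nat_lit 1234619519) (nat_lit 304) (nat_lit 1604356402) (nat_lit 380) (nat_lit 7370589671) (nat_lit 208) (nat_lit 5) (nat_lit 212) (nat_lit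 5) (nat_lit 213) (nat_lit 5) (nat_lit 398) (nat_lit 321) (nat_lit 301))) (XT.nd (nat_lit 78) (nat_lit 304) (nat_lit 0) (XT.lf (nat_lit 0) (nat_lit 7276474481) (nat_lit 380) (nat_lit 450919010) (nat_lit 76) (nat_lit 2629127384) (nat_lit 208) (nat_lit 5) (nat_lit 213) (nat_lit 5) (nat_lit 209) (nat_lit 4) (nat_lit 399) (nat_lit 321) (nat_lit 300)) (XT.lf (nat_lit 0) (nat_lit 1328201075) (nat_lit 304) (nat_lit 2177979217) (nat_lit 76) (nat_lit 7000864702) (nat_lit 204) (nat_lit 5) (nat_lit 208) (nat_lit 5) (nat_lit 205) (nat_lit 5) (nat_lit 400) (nat_lit 321) (nat_lit 299))))) (XT.nd (nat_lit 312) (nat_lit 760) (nat_lit 0) (XT.nd (nat_lit 156) (nat_lit 532) (nat_lit 0) (XT.nd (nat_lit 78) (nat_lit 228) (nat_lit 0) (XT.lf (nat_lit 0) (nat_lit 5803423430) (nat_lit 304) (nat_lit 3983980082) (nat_lit 76) (nat_lit 873867457) (nat_lit 201) (nat_lit 5) (nat_lit 205) (nat_lit 5) (nat_lit 202) (nat_lit 4) (nat_lit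 401) (nat_lit 321) (nat_lit 298)) (XT.lf (nat_lit 0) (nat_lit 4950943003) (nat_lit 228) (nat_lit 5486250471) (nat_lit 304) (nat_lit 382201519) (nat_lit 198) (nat_lit 5) (nat_lit 201) (nat_lit 5) (nat_lit 202) (nat_lit 4) (nat_lit 402) (nat_lit 321) (nat_lit 297))) (XT.nd (nat_lit 78) (nat_lit 228) (nat_lit 0) (XT.lf (nat_lit 0) (nat_lit 3140354554) (nat_lit 228) (nat_lit 995727008) (nat_lit 304) (nat_lit 6845236028) (nat_lit 194) (nat_lit 5) (nat_lit 197) (nat_lit 5) (nat_lit 198) (nat_lit 5) (nat_lit 403) (nat_lit 321) (nat_lit 296)) (XT.lf (nat_lit 0) (nat_lit 1243465920) (nat_lit 228) (nat_lit 7566032172) (nat_lit 304) (nat_lit 2337668242) (nat_lit 191) (nat_lit 5) (nat_lit 194) (nat_lit 5) (nat_lit 195) (nat_lit 4) (nat_lit 404) (nat_lit 321) (nat_lit 295)))) (XT.nd (nat_lit 156) (nat_lit 456) (nat_lit 0) (XT.nd (nat_lit 78) (nat_lit 228) (nat_lit 0) (XT.lf (nat_lit 0) (nat_lit 2270797093) (nat_lit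 304) (nat_lit 722450292) (nat_lit 76) (nat_lit 8323758850) (nat_lit 190) (nat_lit 5) (nat_lit 194) (nat_lit 5) (nat_lit 191) (nat_lit 5) (nat_lit 405) (nat_lit 321) (nat_lit 294)) (XT.lf (nat_lit 0) (nat_lit 6994825670) (nat_lit 304) (nat_lit 2757479343) (nat_lit 76) (nat_lit 1738213142) (nat_lit 187) (nat_lit 5) (nat_lit 191) (nat_lit 5) (nat_lit 188) (nat_lit 4) (nat_lit 406) (nat_lit 321) (nat_lit 293))) (XT.nd (nat_lit 78) (nat_lit 228) (nat_lit 0) (XT.lf (nat_lit 0) (nat_lit 213732214) (nat_lit 228) (nat_lit 4881524807) (nat_lit 76) (nat_lit 6573139445) (nat_lit 184) (nat_lit 5) (nat_lit 187) (nat_lit 5) (nat_lit 185) (nat_lit 5) (nat_lit 407) (nat_lit 321) (nat_lit 292)) (XT.lf (nat_lit 0) (nat_lit 4739041121) (nat_lit 228) (nat_lit 232545593) (nat_lit 304) (nat_lit 6878763877) (nat_lit 181) (nat_lit 5) (nat_lit 184) (nat_lit 5) (nat_lit 185) (nat_lit 5) (nat_lit 408) (nat_lit 321) (nat_lit 291))))))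 (XT.nd (nat_lit 546) (nat_lit 1140) (nat_lit 0) (XT.nd (nat_lit 234) (nat_lit 760) (nat_lit 0) (XT.nd (nat_lit 78) (nat_lit 304) (nat_lit 0) (XT.lf (nat_lit 0) (nat_lit 2583644094) (nat_lit 152) (nat_lit 7333320690) (nat_lit 228) (nat_lit 2119454917) (nat_lit 179) (nat_lit 5) (nat_lit 181) (nat_lit 5) (nat_lit 182) (nat_lit 4) (nat_lit 409) (nat_lit 321) (nat_lit 290)) (XT.nd (nat_lit 78) (nat_lit 0) (nat_lit 0) (XT.lf (nat_lit 0) (nat_lit 333464679) (nat_lit 228) (nat_lit 2397364240) (nat_lit 304) (nat_lit 9496364670) (nat_lit 175) (nat_lit 5) (nat_lit 178) (nat_lit 5) (nat_lit 179) (nat_lit 5) (nat_lit 410) (nat_lit 321) (nat_lit 289)) (XT.lf (nat_lit 0) (nat_lit 7731106586) (nat_lit 304) (nat_lit 1994496258) (nat_lit 76) (nat_lit 2696045782) (nat_lit 175) (nat_lit 5) (nat_lit 179) (nat_lit 5) (nat_lit 176) (nat_lit 4) (nat_lit 411) (nat_lit 321) (nat_lit 288)))) (XT.nd (nat_lit 156) (nat_lit 380)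 (nat_lit 0) (XT.nd (nat_lit 78) (nat_lit 152) (nat_lit 0) (XT.lf (nat_lit 0) (nat_lit 284380471) (nat_lit 228) (nat_lit 4414774239) (nat_lit 76) (nat_lit 7921808140) (nat_lit 172) (nat_lit 5) (nat_lit 175) (nat_lit 5) (nat_lit 173) (nat_lit 5) (nat_lit 412) (nat_lit 321) (nat_lit 287)) (XT.lf (nat_lit 0) (nat_lit 5323511218) (nat_lit 228) (nat_lit 6963337378) (nat_lit 76) (nat_lit 537737598) (nat_lit 170) (nat_lit 5) (nat_lit 173) (nat_lit 5) (nat_lit 171) (nat_lit 4) (nat_lit 413) (nat_lit 321) (nat_lit 286))) (XT.nd (nat_lit 78) (nat_lit 228) (nat_lit 0) (XT.lf (nat_lit 0) (nat_lit 3392668865) (nat_lit 152) (nat_lit 7172886793) (nat_lit 228) (nat_lit 2467210389) (nat_lit 168) (nat_lit 5) (nat_lit 170) (nat_lit 5) (nat_lit 171) (nat_lit 4) (nat_lit 414) (nat_lit 321) (nat_lit 285)) (XT.lf (nat_lit 0) (nat_lit 816320339) (nat_lit 152) (nat_lit 1854923652) (nat_lit 228) (nat_lit 10574965426) (nat_lit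 165) (nat_lit 5) (nat_lit 167) (nat_lit 5) (nat_lit 168) (nat_lit 5) (nat_lit 415) (nat_lit 321) (nat_lit 284))))) (XT.nd (nat_lit 312) (nat_lit 608) (nat_lit 0) (XT.nd (nat_lit 156) (nat_lit 380) (nat_lit 0) (XT.nd (nat_lit 78) (nat_lit 152) (nat_lit 0) (XT.lf (nat_lit 0) (nat_lit 7975461655) (nat_lit 228) (nat_lit 1869430471) (nat_lit 76) (nat_lit 3618595181) (nat_lit 165) (nat_lit 5) (nat_lit 168) (nat_lit 5) (nat_lit 166) (nat_lit 4) (nat_lit 416) (nat_lit 321) (nat_lit 283)) (XT.lf (nat_lit 0) (nat_lit 9039536633) (nat_lit 152) (nat_lit 4434689320) (nat_lit 228) (nat_lit 211994979) (nat_lit 163) (nat_lit 5) (nat_lit 165) (nat_lit 5) (nat_lit 166) (nat_lit 4) (nat_lit 417) (nat_lit 321) (nat_lit 282))) (XT.nd (nat_lit 78) (nat_lit 152) (nat_lit 0) (XT.lf (nat_lit 0) (nat_lit 5142467066) (nat_lit 228) (nat_lit 7579512504) (nat_lit 76) (nat_lit 1191489293) (nat_lit 160) (nat_lit 5) (nat_lit 163) (nat_lit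 5) (nat_lit 161) (nat_lit 4) (nat_lit 418) (nat_lit 321) (nat_lit 281)) (XT.lf (nat_lit 0) (nat_lit 3487967607) (nat_lit 152) (nat_lit 7220751119) (nat_lit 228) (nat_lit 3437090037) (nat_lit 158) (nat_lit 5) (nat_lit 160) (nat_lit 5) (nat_lit 161) (nat_lit 4) (nat_lit 419) (nat_lit 321) (nat_lit 280)))) (XT.nd (nat_lit 156) (nat_lit 380) (nat_lit 0) (XT.nd (nat_lit 78) (nat_lit 0) (nat_lit 0) (XT.lf (nat_lit 0) (nat_lit 522792320) (nat_lit 152) (nat_lit 1506961026) (nat_lit 228) (nat_lit 12354380849) (nat_lit 155) (nat_lit 5) (nat_lit 157) (nat_lit 5) (nat_lit 158) (nat_lit 5) (nat_lit 420) (nat_lit 321) (nat_lit 279)) (XT.lf (nat_lit 0) (nat_lit 7673284229) (nat_lit 228) (nat_lit 2573404826) (nat_lit 76) (nat_lit 4379446487) (nat_lit 155) (nat_lit 5) (nat_lit 158) (nat_lit 5) (nat_lit 156) (nat_lit 4) (nat_lit 421) (nat_lit 321) (nat_lit 278))) (XT.nd (nat_lit 78) (nat_lit 228) (nat_lit 0) (XT.lf (nat_lit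 0) (nat_lit 9092213795) (nat_lit 152) (nat_lit 4429226678) (nat_lit 228) (nat_lit 1352896874) (nat_lit 153) (nat_lit 5) (nat_lit 155) (nat_lit 5) (nat_lit 156) (nat_lit 4) (nat_lit 422) (nat_lit 321) (nat_lit 277)) (XT.lf (nat_lit 0) (nat_lit 4361493200) (nat_lit 228) (nat_lit 9162134711) (nat_lit 76) (nat_lit 1604106368) (nat_lit 150) (nat_lit 5) (nat_lit 153) (nat_lit 5) (nat_lit 151) (nat_lit 4) (nat_lit 423) (nat_lit 321) (nat_lit 276))))))) (XT.nd (nat_lit 1170) (nat_lit 1596) (nat_lit 0) (XT.nd (nat_lit 546) (nat_lit 912) (nat_lit 0) (XT.nd (nat_lit 234) (nat_lit 380) (nat_lit 0) (XT.nd (nat_lit 78) (nat_lit 228) (nat_lit 0) (XT.lf (nat_lit 0) (nat_lit 2667721214) (nat_lit 76) (nat_lit 7614216273) (nat_lit 152) (nat_lit 5104539349) (nat_lit 149) (nat_lit 5) (nat_lit 150) (nat_lit 5) (nat_lit 151) (nat_lit 4) (nat_lit 424) (nat_lit 321) (nat_lit 275)) (XT.nd (nat_lit 78) (nat_lit 152) (nat_lit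 0) (XT.lf (nat_lit 0) (nat_lit 739723539) (nat_lit 152) (nat_lit 741743012) (nat_lit 76) (nat_lit 14170498564) (nat_lit 148) (nat_lit 5) (nat_lit 150) (nat_lit 5) (nat_lit 149) (nat_lit 5) (nat_lit 425) (nat_lit 321) (nat_lit 274)) (XT.lf (nat_lit 0) (nat_lit 6751667920) (nat_lit 228) (nat_lit 4318949316) (nat_lit 76) (nat_lit 4850436110) (nat_lit 146) (nat_lit 5) (nat_lit 149) (nat_lit 5) (nat_lit 147) (nat_lit 4) (nat_lit 426) (nat_lit 321) (nat_lit 273)))) (XT.nd (nat_lit 156) (nat_lit 76) (nat_lit 0) (XT.nd (nat_lit 78) (nat_lit 228) (nat_lit 0) (XT.lf (nat_lit 0) (nat_lit 8157404333) (nat_lit 76) (nat_lit 4822816867) (nat_lit 152) (nat_lit 3216905508) (nat_lit 145) (nat_lit 5) (nat_lit 146) (nat_lit 5) (nat_lit 147) (nat_lit 4) (nat_lit 427) (nat_lit 321) (nat_lit 272)) (XT.lf (nat_lit 0) (nat_lit 2896933257) (nat_lit 228) (nat_lit 11939781199) (nat_lit 76) (nat_lit 1642737938) (nat_lit 142) (nat_lit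 5) (nat_lit 145) (nat_lit 5) (nat_lit 143) (nat_lit 4) (nat_lit 428) (nat_lit 321) (nat_lit 271))) (XT.nd (nat_lit 78) (nat_lit 0) (nat_lit 0) (XT.lf (nat_lit 0) (nat_lit 706010799) (nat_lit 76) (nat_lit 8495936469) (nat_lit 152) (nat_lit 7565172564) (nat_lit 141) (nat_lit 5) (nat_lit 142) (nat_lit 5) (nat_lit 143) (nat_lit 4) (nat_lit 429) (nat_lit 321) (nat_lit 270)) (XT.lf (nat_lit 0) (nat_lit 13856312997) (nat_lit 76) (nat_lit 1896974702) (nat_lit 152) (nat_lit 1308414315) (nat_lit 141) (nat_lit 5) (nat_lit 142) (nat_lit 5) (nat_lit 143) (nat_lit 4) (nat_lit 430) (nat_lit 321) (nat_lit 269))))) (XT.nd (nat_lit 312) (nat_lit 380) (nat_lit 0) (XT.nd (nat_lit 156) (nat_lit 228) (nat_lit 0) (XT.nd (nat_lit 78) (nat_lit 76) (nat_lit 0) (XT.lf (nat_lit 0) (nat_lit 5118443439) (nat_lit 228) (nat_lit 7344940856) (nat_lit 76) (nat_lit 4897777657) (nat_lit 138) (nat_lit 5) (nat_lit 141) (nat_lit 5) (nat_lit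 139) (nat_lit 4) (nat_lit 431) (nat_lit 321) (nat_lit 268)) (XT.lf (nat_lit 0) (nat_lit 5999020504) (nat_lit 76) (nat_lit 5759936841) (nat_lit 152) (nat_lit 5908845256) (nat_lit 137) (nat_lit 5) (nat_lit 138) (nat_lit 5) (nat_lit 139) (nat_lit 4) (nat_lit 432) (nat_lit 321) (nat_lit 267))) (XT.nd (nat_lit 78) (nat_lit 0) (nat_lit 0) (XT.lf (nat_lit 0) (nat_lit 645009729) (nat_lit 228) (nat_lit 16170218017) (nat_lit 76) (nat_lit 1166978341) (nat_lit 134) (nat_lit 5) (nat_lit 137) (nat_lit 5) (nat_lit 135) (nat_lit 4) (nat_lit 433) (nat_lit 321) (nat_lit 266)) (XT.lf (nat_lit 0) (nat_lit 7390989860) (nat_lit 228) (nat_lit 2600595567) (nat_lit 76) (nat_lit 8309273004) (nat_lit 134) (nat_lit 5) (nat_lit 137) (nat_lit 5) (nat_lit 135) (nat_lit 4) (nat_lit 434) (nat_lit 321) (nat_lit 265)))) (XT.nd (nat_lit 156) (nat_lit 76) (nat_lit 0) (XT.nd (nat_lit 78) (nat_lit 228) (nat_lit 0) (XT.lf (nat_lit 0) (nat_lit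 11485907532) (nat_lit 76) (nat_lit 2903894039) (nat_lit 152) (nat_lit 4237755210) (nat_lit 133) (nat_lit 5) (nat_lit 134) (nat_lit 5) (nat_lit 135) (nat_lit 4) (nat_lit 435) (nat_lit 321) (nat_lit 264)) (XT.lf (nat_lit 0) (nat_lit 2660760220) (nat_lit 228) (nat_lit 11921906847) (nat_lit 76) (nat_lit 4378299846) (nat_lit 130) (nat_lit 5) (nat_lit 133) (nat_lit 5) (nat_lit 131) (nat_lit 4) (nat_lit 436) (nat_lit 321) (nat_lit 263))) (XT.nd (nat_lit 78) (nat_lit 0) (nat_lit 0) (XT.lf (nat_lit 0) (nat_lit 2349244449) (nat_lit 76) (nat_lit 7396225587) (nat_lit 152) (nat_lit 9555718164) (nat_lit 129) (nat_lit 5) (nat_lit 130) (nat_lit 5) (nat_lit 131) (nat_lit 4) (nat_lit 437) (nat_lit 321) (nat_lit 262)) (XT.lf (nat_lit 0) (nat_lit 17104733804) (nat_lit 152) (nat_lit 2471008421) (nat_lit 0) (nat_lit 74013522) (nat_lit 129) (nat_lit 5) (nat_lit 131) (nat_lit 4) (nat_lit 129) (nat_lit 4) (nat_lit 438) (nat_lit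 321) (nat_lit 261)))))) (XT.nd (nat_lit 624) (nat_lit 684) (nat_lit 0) (XT.nd (nat_lit 312) (nat_lit 380) (nat_lit 0) (XT.nd (nat_lit 156) (nat_lit 228) (nat_lit 0) (XT.nd (nat_lit 78) (nat_lit 76) (nat_lit 0) (XT.lf (nat_lit 0) (nat_lit 4721629168) (nat_lit 228) (nat_lit 7547219580) (nat_lit 76) (nat_lit 7734476731) (nat_lit 126) (nat_lit 5) (nat_lit 129) (nat_lit 5) (nat_lit 127) (nat_lit 4) (nat_lit 439) (nat_lit 321) (nat_lit 260)) (XT.lf (nat_lit 0) (nat_lit 7524933260) (nat_lit 76) (nat_lit 4669900716) (nat_lit 152) (nat_lit 8170721181) (nat_lit 125) (nat_lit 5) (nat_lit 126) (nat_lit 5) (nat_lit 127) (nat_lit 4) (nat_lit 440) (nat_lit 321) (nat_lit 259))) (XT.nd (nat_lit 78) (nat_lit 76) (nat_lit 0) (XT.lf (nat_lit 0) (nat_lit 2371259232) (nat_lit 152) (nat_lit 17593370077) (nat_lit 152) (nat_lit 771850587) (nat_lit 123) (nat_lit 4) (nat_lit 125) (nat_lit 5) (nat_lit 125) (nat_lit 4) (nat_lit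 441) (nat_lit 321) (nat_lit 258)) (XT.lf (nat_lit 0) (nat_lit 6834864143) (nat_lit 228) (nat_lit 3036843649) (nat_lit 76) (nat_lit 11241263693) (nat_lit 122) (nat_lit 5) (nat_lit 125) (nat_lit 5) (nat_lit 123) (nat_lit 4) (nat_lit 442) (nat_lit 321) (nat_lit 257)))) (XT.nd (nat_lit 156) (nat_lit 76) (nat_lit 0) (XT.nd (nat_lit 78) (nat_lit 228) (nat_lit 0) (XT.lf (nat_lit 0) (nat_lit 12886900708) (nat_lit 76) (nat_lit 1835263190) (nat_lit 152) (nat_lit 6776327750) (nat_lit 121) (nat_lit 5) (nat_lit 122) (nat_lit 5) (nat_lit 123) (nat_lit 4) (nat_lit 443) (nat_lit 321) (nat_lit 256)) (XT.lf (nat_lit 0) (nat_lit 1041473779) (nat_lit 228) (nat_lit 14472233820) (nat_lit 76) (nat_lit 6378310222) (nat_lit 118) (nat_lit 5) (nat_lit 121) (nat_lit 5) (nat_lit 119) (nat_lit 4) (nat_lit 444) (nat_lit 321) (nat_lit 255))) (XT.nd (nat_lit 78) (nat_lit 0) (nat_lit 0) (XT.lf (nat_lit 0) (nat_lit 1651530503) (nat_lit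 76) (nat_lit 7372118428) (nat_lit 152) (nat_lit 13269706967) (nat_lit 117) (nat_lit 5) (nat_lit 118) (nat_lit 5) (nat_lit 119) (nat_lit 4) (nat_lit 445) (nat_lit 321) (nat_lit 254)) (XT.lf (nat_lit 0) (nat_lit 17346883743) (nat_lit 152) (nat_lit 4266420229) (nat_lit 0) (nat_lit 1090382312) (nat_lit 117) (nat_lit 5) (nat_lit 119) (nat_lit 4) (nat_lit 117) (nat_lit 4) (nat_lit 446) (nat_lit 321) (nat_lit 253))))) (XT.nd (nat_lit 312) (nat_lit 304) (nat_lit 0) (XT.nd (nat_lit 156) (nat_lit 152) (nat_lit 0) (XT.nd (nat_lit 78) (nat_lit 76) (nat_lit 0) (XT.lf (nat_lit 0) (nat_lit 2881030145) (nat_lit 152) (nat_lit 10481268456) (nat_lit 76) (nat_lit 9758960835) (nat_lit 115) (nat_lit 5) (nat_lit 117) (nat_lit 5) (nat_lit 116) (nat_lit 4) (nat_lit 447) (nat_lit 321) (nat_lit 252)) (XT.lf (nat_lit 0) (nat_lit 6560097139) (nat_lit 76) (nat_lit 4750731075) (nat_lit 152) (nat_lit 12237365533) (nat_lit 114) (nat_lit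 5) (nat_lit 115) (nat_lit 5) (nat_lit 116) (nat_lit 4) (nat_lit 448) (nat_lit 321) (nat_lit 251))) (XT.nd (nat_lit 78) (nat_lit 76) (nat_lit 0) (XT.lf (nat_lit 0) (nat_lit 200551510) (nat_lit 76) (nat_lit 19887391020) (nat_lit 76) (nat_lit 3897160889) (nat_lit 113) (nat_lit 4) (nat_lit 114) (nat_lit 5) (nat_lit 114) (nat_lit 4) (nat_lit 449) (nat_lit 321) (nat_lit 250)) (XT.lf (nat_lit 0) (nat_lit 4767999004) (nat_lit 152) (nat_lit 6376281133) (nat_lit 76) (nat_lit 13284496874) (nat_lit 112) (nat_lit 5) (nat_lit 114) (nat_lit 5) (nat_lit 113) (nat_lit 4) (nat_lit 450) (nat_lit 321) (nat_lit 249)))) (XT.nd (nat_lit 156) (nat_lit 152) (nat_lit 0) (XT.nd (nat_lit 78) (nat_lit 76) (nat_lit 0) (XT.lf (nat_lit 0) (nat_lit 11640315197) (nat_lit 76) (nat_lit 2033984060) (nat_lit 152) (nat_lit 11208518540) (nat_lit 111) (nat_lit 5) (nat_lit 112) (nat_lit 5) (nat_lit 113) (nat_lit 4) (nat_lit 451) (nat_lit 321)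 (nat_lit 248)) (XT.lf (nat_lit 0) (nat_lit 4901371407) (nat_lit 76) (nat_lit 18076900302) (nat_lit 76) (nat_lit 2368293602) (nat_lit 110) (nat_lit 4) (nat_lit 111) (nat_lit 5) (nat_lit 111) (nat_lit 4) (nat_lit 452) (nat_lit 321) (nat_lit 247))) (XT.nd (nat_lit 78) (nat_lit 76) (nat_lit 0) (XT.lf (nat_lit 0) (nat_lit 6708586602) (nat_lit 152) (nat_lit 2148006612) (nat_lit 76) (nat_lit 16962601762) (nat_lit 109) (nat_lit 5) (nat_lit 111) (nat_lit 5) (nat_lit 110) (nat_lit 4) (nat_lit 453) (nat_lit 321) (nat_lit 246)) (XT.lf (nat_lit 0) (nat_lit 16129451031) (nat_lit 152) (nat_lit 9404551457) (nat_lit 0) (nat_lit 767719243) (nat_lit 108) (nat_lit 5) (nat_lit 110) (nat_lit 4) (nat_lit 108) (nat_lit 4) (nat_lit 454) (nat_lit 321) (nat_lit 245))))))))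
noncomputable def xc58 : XT := (XT.nd (nat_lit 2340) (nat_lit 836) (nat_lit 0) (XT.nd (nat_lit 1170) (nat_lit 1216) (nat_lit 0) (XT.nd (nat_lit 546) (nat_lit 608) (nat_lit 0) (XT.nd (nat_lit 234) (nat_lit 380) (nat_lit 0) (XT.nd (nat_lit 78) (nat_lit 152) (nat_lit 0) (XT.lf (nat_lit 0) (nat_lit 9762594688) (nat_lit 76) (nat_lit 16223101028) (nat_lit 76) (nat_lit 808445944) (nat_lit 107) (nat_lit 4) (nat_lit 108) (nat_lit 5) (nat_lit 108) (nat_lit 4) (nat_lit 455) (nat_lit 321) (nat_lit 244)) (XT.nd (nat_lit 78) (nat_lit 0) (nat_lit 0) (XT.lf (nat_lit 0) (nat_lit 2257529741) (nat_lit 76) (nat_lit 6473291276) (nat_lit 152) (nat_lit 18565956312) (nat_lit 105) (nat_lit 5) (nat_lit 106) (nat_lit 5) (nat_lit 107) (nat_lit 4) (nat_lit 456) (nat_lit 321) (nat_lit 243)) (XT.lf (nat_lit 0) (nat_lit 18697418715) (nat_lit 152) (nat_lit 5478694602) (nat_lit 0) (nat_lit 3633416570) (nat_lit 105) (nat_lit 5) (nat_lit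 107) (nat_lit 4) (nat_lit 105) (nat_lit 4) (nat_lit 457) (nat_lit 321) (nat_lit 242)))) (XT.nd (nat_lit 156) (nat_lit 152) (nat_lit 0) (XT.nd (nat_lit 78) (nat_lit 76) (nat_lit 0) (XT.lf (nat_lit 0) (nat_lit 771907355) (nat_lit 152) (nat_lit 13544051876) (nat_lit 76) (nat_lit 14016762626) (nat_lit 103) (nat_lit 5) (nat_lit 105) (nat_lit 5) (nat_lit 104) (nat_lit 4) (nat_lit 458) (nat_lit 321) (nat_lit 241)) (XT.lf (nat_lit 0) (nat_lit 6852485395) (nat_lit 76) (nat_lit 3989465986) (nat_lit 152) (nat_lit 18024772158) (nat_lit 102) (nat_lit 5) (nat_lit 103) (nat_lit 5) (nat_lit 104) (nat_lit 4) (nat_lit 459) (nat_lit 321) (nat_lit 240))) (XT.nd (nat_lit 78) (nat_lit 152) (nat_lit 0) (XT.lf (nat_lit 0) (nat_lit 21367072465) (nat_lit 152) (nat_lit 1436261882) (nat_lit 0) (nat_lit 6608821652) (nat_lit 102) (nat_lit 5) (nat_lit 104) (nat_lit 4) (nat_lit 102) (nat_lit 4) (nat_lit 460) (nat_lit 321) (nat_lit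 239)) (XT.lf (nat_lit 0) (nat_lit 2376521401) (nat_lit 152) (nat_lit 9975690507) (nat_lit 76) (nat_lit 17615511719) (nat_lit 100) (nat_lit 5) (nat_lit 102) (nat_lit 5) (nat_lit 101) (nat_lit 4) (nat_lit 461) (nat_lit 321) (nat_lit 238))))) (XT.nd (nat_lit 312) (nat_lit 304) (nat_lit 0) (XT.nd (nat_lit 156) (nat_lit 152) (nat_lit 0) (XT.nd (nat_lit 78) (nat_lit 76) (nat_lit 0) (XT.lf (nat_lit 0) (nat_lit 11605633573) (nat_lit 76) (nat_lit 1422062892) (nat_lit 152) (nat_lit 17507513585) (nat_lit 99) (nat_lit 5) (nat_lit 100) (nat_lit 5) (nat_lit 101) (nat_lit 4) (nat_lit 462) (nat_lit 321) (nat_lit 237)) (XT.lf (nat_lit 0) (nat_lit 2786845901) (nat_lit 76) (nat_lit 21387091112) (nat_lit 76) (nat_lit 6940518146) (nat_lit 98) (nat_lit 4) (nat_lit 99) (nat_lit 5) (nat_lit 99) (nat_lit 4) (nat_lit 463) (nat_lit 321) (nat_lit 236))) (XT.nd (nat_lit 78) (nat_lit 76) (nat_lit 0) (XT.lf (nat_lit 0) (nat_lit 4026141442)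 (nat_lit 152) (nat_lit 6310625174) (nat_lit 76) (nat_lit 21368385611) (nat_lit 97) (nat_lit 5) (nat_lit 99) (nat_lit 5) (nat_lit 98) (nat_lit 4) (nat_lit 464) (nat_lit 321) (nat_lit 235)) (XT.lf (nat_lit 0) (nat_lit 15306922031) (nat_lit 152) (nat_lit 15790751763) (nat_lit 0) (nat_lit 1210096310) (nat_lit 96) (nat_lit 5) (nat_lit 98) (nat_lit 4) (nat_lit 96) (nat_lit 4) (nat_lit 465) (nat_lit 321) (nat_lit 234)))) (XT.nd (nat_lit 156) (nat_lit 152) (nat_lit 0) (XT.nd (nat_lit 78) (nat_lit 76) (nat_lit 0) (XT.lf (nat_lit 0) (nat_lit 7177890316) (nat_lit 76) (nat_lit 19937841598) (nat_lit 76) (nat_lit 5807046427) (nat_lit 95) (nat_lit 4) (nat_lit 96) (nat_lit 5) (nat_lit 96) (nat_lit 4) (nat_lit 466) (nat_lit 321) (nat_lit 233)) (XT.lf (nat_lit 0) (nat_lit 5725863114) (nat_lit 152) (nat_lit 2540273097) (nat_lit 76) (nat_lit 25285001496) (nat_lit 94) (nat_lit 5) (nat_lit 96) (nat_lit 5) (nat_lit 95) (nat_lit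 4) (nat_lit 467) (nat_lit 321) (nat_lit 232))) (XT.nd (nat_lit 78) (nat_lit 76) (nat_lit 0) (XT.lf (nat_lit 0) (nat_lit 17689601681) (nat_lit 152) (nat_lit 12593697835) (nat_lit 0) (nat_lit 3907276744) (nat_lit 93) (nat_lit 5) (nat_lit 95) (nat_lit 4) (nat_lit 93) (nat_lit 4) (nat_lit 468) (nat_lit 321) (nat_lit 231)) (XT.lf (nat_lit 0) (nat_lit 11719491499) (nat_lit 76) (nat_lit 18468470764) (nat_lit 76) (nat_lit 4655964411) (nat_lit 92) (nat_lit 4) (nat_lit 93) (nat_lit 5) (nat_lit 93) (nat_lit 4) (nat_lit 469) (nat_lit 321) (nat_lit 230)))))) (XT.nd (nat_lit 546) (nat_lit 608) (nat_lit 0) (XT.nd (nat_lit 234) (nat_lit 380) (nat_lit 0) (XT.nd (nat_lit 78) (nat_lit 76) (nat_lit 0) (XT.lf (nat_lit 0) (nat_lit 1371241983) (nat_lit 76) (nat_lit 6122871653) (nat_lit 152) (nat_lit 28017680246) (nat_lit 90) (nat_lit 5) (nat_lit 91) (nat_lit 5) (nat_lit 92) (nat_lit 4) (nat_lit 470) (nat_lit 321) (nat_lit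 229)) (XT.nd (nat_lit 78) (nat_lit 76) (nat_lit 0) (XT.lf (nat_lit 0) (nat_lit 20169671792) (nat_lit 152) (nat_lit 9317603317) (nat_lit 0) (nat_lit 6703402297) (nat_lit 90) (nat_lit 5) (nat_lit 92) (nat_lit 4) (nat_lit 90) (nat_lit 4) (nat_lit 471) (nat_lit 321) (nat_lit 228)) (XT.lf (nat_lit 0) (nat_lit 16423542494) (nat_lit 76) (nat_lit 16977107812) (nat_lit 76) (nat_lit 3484022520) (nat_lit 89) (nat_lit 4) (nat_lit 90) (nat_lit 5) (nat_lit 90) (nat_lit 4) (nat_lit 472) (nat_lit 321) (nat_lit 227)))) (XT.nd (nat_lit 156) (nat_lit 228) (nat_lit 0) (XT.nd (nat_lit 78) (nat_lit 0) (nat_lit 0) (XT.lf (nat_lit 0) (nat_lit 5459864130) (nat_lit 76) (nat_lit 3889389159) (nat_lit 152) (nat_lit 28244390331) (nat_lit 87) (nat_lit 5) (nat_lit 88) (nat_lit 5) (nat_lit 89) (nat_lit 4) (nat_lit 473) (nat_lit 321) (nat_lit 226)) (XT.lf (nat_lit 0) (nat_lit 22755062890) (nat_lit 152) (nat_lit 5954895595) (nat_lit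 0) (nat_lit 9605163366) (nat_lit 87) (nat_lit 5) (nat_lit 89) (nat_lit 4) (nat_lit 87) (nat_lit 4) (nat_lit 474) (nat_lit 321) (nat_lit 225))) (XT.nd (nat_lit 78) (nat_lit 152) (nat_lit 0) (XT.lf (nat_lit 0) (nat_lit 21302657055) (nat_lit 76) (nat_lit 15461637477) (nat_lit 76) (nat_lit 2287912465) (nat_lit 86) (nat_lit 4) (nat_lit 87) (nat_lit 5) (nat_lit 87) (nat_lit 4) (nat_lit 475) (nat_lit 321) (nat_lit 224)) (XT.lf (nat_lit 0) (nat_lit 9685499651) (nat_lit 76) (nat_lit 1586597001) (nat_lit 152) (nat_lit 28532671312) (nat_lit 84) (nat_lit 5) (nat_lit 85) (nat_lit 5) (nat_lit 86) (nat_lit 4) (nat_lit 476) (nat_lit 321) (nat_lit 223))))) (XT.nd (nat_lit 312) (nat_lit 304) (nat_lit 0) (XT.nd (nat_lit 156) (nat_lit 228) (nat_lit 0) (XT.nd (nat_lit 78) (nat_lit 76) (nat_lit 0) (XT.lf (nat_lit 0) (nat_lit 25454062244) (nat_lit 152) (nat_lit 2497553256) (nat_lit 0) (nat_lit 12619776454) (nat_lit 84) (nat_lit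 5) (nat_lit 86) (nat_lit 4) (nat_lit 84) (nat_lit 4) (nat_lit 477) (nat_lit 321) (nat_lit 222)) (XT.lf (nat_lit 0) (nat_lit 26370205200) (nat_lit 76) (nat_lit 13919705587) (nat_lit 76) (nat_lit 1064251159) (nat_lit 83) (nat_lit 4) (nat_lit 84) (nat_lit 5) (nat_lit 84) (nat_lit 4) (nat_lit 478) (nat_lit 321) (nat_lit 221))) (XT.nd (nat_lit 78) (nat_lit 76) (nat_lit 0) (XT.lf (nat_lit 0) (nat_lit 13276191298) (nat_lit 152) (nat_lit 28101318639) (nat_lit 0) (nat_lit 775214109) (nat_lit 81) (nat_lit 5) (nat_lit 83) (nat_lit 4) (nat_lit 81) (nat_lit 4) (nat_lit 479) (nat_lit 321) (nat_lit 220)) (XT.lf (nat_lit 0) (nat_lit 1084068096) (nat_lit 76) (nat_lit 27201699482) (nat_lit 76) (nat_lit 14681349990) (nat_lit 80) (nat_lit 4) (nat_lit 81) (nat_lit 5) (nat_lit 81) (nat_lit 4) (nat_lit 480) (nat_lit 321) (nat_lit 219)))) (XT.nd (nat_lit 156) (nat_lit 152) (nat_lit 0) (XT.nd (nat_lit 78) (nat_lit 76) (nat_lit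 0) (XT.lf (nat_lit 0) (nat_lit 186718957) (nat_lit 152) (nat_lit 12160118068) (nat_lit 76) (nat_lit 31451747648) (nat_lit 79) (nat_lit 5) (nat_lit 81) (nat_lit 5) (nat_lit 80) (nat_lit 4) (nat_lit 481) (nat_lit 321) (nat_lit 218)) (XT.lf (nat_lit 0) (nat_lit 15376157409) (nat_lit 152) (nat_lit 26084875710) (nat_lit 0) (nat_lit 3184489636) (nat_lit 78) (nat_lit 5) (nat_lit 80) (nat_lit 4) (nat_lit 78) (nat_lit 4) (nat_lit 482) (nat_lit 321) (nat_lit 217))) (XT.nd (nat_lit 78) (nat_lit 76) (nat_lit 0) (XT.lf (nat_lit 0) (nat_lit 4829733364) (nat_lit 76) (nat_lit 26444710244) (nat_lit 76) (nat_lit 14235830431) (nat_lit 77) (nat_lit 4) (nat_lit 78) (nat_lit 5) (nat_lit 78) (nat_lit 4) (nat_lit 483) (nat_lit 321) (nat_lit 216)) (XT.lf (nat_lit 0) (nat_lit 1450851053) (nat_lit 152) (nat_lit 9280362893) (nat_lit 76) (nat_lit 35662598595) (nat_lit 76) (nat_lit 5) (nat_lit 78) (nat_lit 5) (nat_lit 77) (nat_lit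 4) (nat_lit 484) (nat_lit 321) (nat_lit 215))))))) (XT.nd (nat_lit 44928) (nat_lit 0) (nat_lit 11856) (XT.nd (nat_lit 546) (nat_lit 304) (nat_lit 0) (XT.nd (nat_lit 234) (nat_lit 304) (nat_lit 0) (XT.nd (nat_lit 78) (nat_lit 152) (nat_lit 0) (XT.lf (nat_lit 0) (nat_lit 17563278481) (nat_lit 152) (nat_lit 24051090450) (nat_lit 0) (nat_lit 5678021655) (nat_lit 75) (nat_lit 5) (nat_lit 77) (nat_lit 4) (nat_lit 75) (nat_lit 4) (nat_lit 485) (nat_lit 321) (nat_lit 214)) (XT.nd (nat_lit 78) (nat_lit 76) (nat_lit 0) (XT.lf (nat_lit 0) (nat_lit 8699422978) (nat_lit 76) (nat_lit 25705833580) (nat_lit 76) (nat_lit 13805284079) (nat_lit 74) (nat_lit 4) (nat_lit 75) (nat_lit 5) (nat_lit 75) (nat_lit 4) (nat_lit 486) (nat_lit 321) (nat_lit 213)) (XT.lf (nat_lit 0) (nat_lit 2752541559) (nat_lit 152) (nat_lit 6327737392) (nat_lit 76) (nat_lit 40068999180) (nat_lit 73) (nat_lit 5) (nat_lit 75) (nat_lit 5) (nat_lit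 74) (nat_lit 4) (nat_lit 487) (nat_lit 321) (nat_lit 212)))) (XT.nd (nat_lit 156) (nat_lit 152) (nat_lit 0) (XT.nd (nat_lit 78) (nat_lit 76) (nat_lit 0) (XT.lf (nat_lit 0) (nat_lit 19844396351) (nat_lit 152) (nat_lit 21996182791) (nat_lit 0) (nat_lit 8262055021) (nat_lit 72) (nat_lit 5) (nat_lit 74) (nat_lit 4) (nat_lit 72) (nat_lit 4) (nat_lit 488) (nat_lit 321) (nat_lit 211)) (XT.lf (nat_lit 0) (nat_lit 12703377376) (nat_lit 76) (nat_lit 24984980815) (nat_lit 76) (nat_lit 13389052141) (nat_lit 71) (nat_lit 4) (nat_lit 72) (nat_lit 5) (nat_lit 72) (nat_lit 4) (nat_lit 489) (nat_lit 321) (nat_lit 210))) (XT.nd (nat_lit 78) (nat_lit 76) (nat_lit 0) (XT.lf (nat_lit 0) (nat_lit 4095553890) (nat_lit 152) (nat_lit 3295145870) (nat_lit 76) (nat_lit 44683966588) (nat_lit 70) (nat_lit 5) (nat_lit 72) (nat_lit 5) (nat_lit 71) (nat_lit 4) (nat_lit 490) (nat_lit 321) (nat_lit 209)) (XT.lf (nat_lit 0) (nat_lit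 22226686067) (nat_lit 152) (nat_lit 19916183022) (nat_lit 0) (nat_lit 10943261171) (nat_lit 69) (nat_lit 5) (nat_lit 71) (nat_lit 4) (nat_lit 69) (nat_lit 4) (nat_lit 491) (nat_lit 321) (nat_lit 208))))) (XT.nd (nat_lit 44070) (nat_lit 0) (nat_lit 16872) (XT.nd (nat_lit 156) (nat_lit 152) (nat_lit 0) (XT.nd (nat_lit 78) (nat_lit 76) (nat_lit 0) (XT.lf (nat_lit 0) (nat_lit 16852420764) (nat_lit 76) (nat_lit 24282016918) (nat_lit 76) (nat_lit 12986519842) (nat_lit 68) (nat_lit 4) (nat_lit 69) (nat_lit 5) (nat_lit 69) (nat_lit 4) (nat_lit 492) (nat_lit 321) (nat_lit 207)) (XT.lf (nat_lit 0) (nat_lit 5483801115) (nat_lit 152) (nat_lit 175101373) (nat_lit 76) (nat_lit 49521352665) (nat_lit 67) (nat_lit 5) (nat_lit 69) (nat_lit 5) (nat_lit 68) (nat_lit 4) (nat_lit 493) (nat_lit 321) (nat_lit 206))) (XT.nd (nat_lit 78) (nat_lit 76) (nat_lit 0) (XT.lf (nat_lit 0) (nat_lit 24717682938) (nat_lit 152) (nat_lit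 17806923383) (nat_lit 0) (nat_lit 13728753983) (nat_lit 66) (nat_lit 5) (nat_lit 68) (nat_lit 4) (nat_lit 66) (nat_lit 4) (nat_lit 494) (nat_lit 321) (nat_lit 205)) (XT.lf (nat_lit 0) (nat_lit 21157993539) (nat_lit 76) (nat_lit 23596767306) (nat_lit 76) (nat_lit 12597112377) (nat_lit 65) (nat_lit 4) (nat_lit 66) (nat_lit 5) (nat_lit 66) (nat_lit 4) (nat_lit 495) (nat_lit 321) (nat_lit 204)))) (XT.nd (nat_lit 156) (nat_lit 988) (nat_lit 0) (XT.nd (nat_lit 78) (nat_lit 532) (nat_lit 0) (XT.lf (nat_lit 0) (nat_lit 1034345795) (nat_lit 532) (nat_lit 1837873234) (nat_lit 0) (nat_lit 1034345795) (nat_lit 307) (nat_lit 5) (nat_lit 314) (nat_lit 4) (nat_lit 307) (nat_lit 4) (nat_lit 376) (nat_lit 322) (nat_lit 322)) (XT.lf (nat_lit 0) (nat_lit 2853782769) (nat_lit 532) (nat_lit 3162899296) (nat_lit 532) (nat_lit 1874450515) (nat_lit 300) (nat_lit 4) (nat_lit 307) (nat_lit 5) (nat_lit 307) (nat_lit 4) (nat_lit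 377) (nat_lit 322) (nat_lit 321))) (XT.nd (nat_lit 78) (nat_lit 456) (nat_lit 0) (XT.lf (nat_lit 0) (nat_lit 1562212518) (nat_lit 456) (nat_lit 458271444) (nat_lit 532) (nat_lit 5951881098) (nat_lit 293) (nat_lit 5) (nat_lit 299) (nat_lit 5) (nat_lit 300) (nat_lit 4) (nat_lit 378) (nat_lit 322) (nat_lit 320)) (XT.lf (nat_lit 0) (nat_lit 238497727) (nat_lit 456) (nat_lit 5731124973) (nat_lit 456) (nat_lit 2086604122) (nat_lit 287) (nat_lit 4) (nat_lit 293) (nat_lit 5) (nat_lit 293) (nat_lit 4) (nat_lit 379) (nat_lit 322) (nat_lit 319)))))) (XT.nd (nat_lit 624) (nat_lit 2356) (nat_lit 0) (XT.nd (nat_lit 312) (nat_lit 1292) (nat_lit 0) (XT.nd (nat_lit 156) (nat_lit 912) (nat_lit 0) (XT.nd (nat_lit 78) (nat_lit 380) (nat_lit 0) (XT.lf (nat_lit 0) (nat_lit 1827252486) (nat_lit 532) (nat_lit 1079968355) (nat_lit 76) (nat_lit 5235749452) (nat_lit 286) (nat_lit 5) (nat_lit 293) (nat_lit 5) (nat_lit 287) (nat_lit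 4) (nat_lit 380) (nat_lit 322) (nat_lit 318)) (XT.lf (nat_lit 0) (nat_lit 5775623635) (nat_lit 456) (nat_lit 2410530454) (nat_lit 0) (nat_lit 46771072) (nat_lit 281) (nat_lit 5) (nat_lit 287) (nat_lit 4) (nat_lit 281) (nat_lit 4) (nat_lit 381) (nat_lit 322) (nat_lit 317))) (XT.nd (nat_lit 78) (nat_lit 380) (nat_lit 0) (XT.lf (nat_lit 0) (nat_lit 1474639127) (nat_lit 532) (nat_lit 3782961899) (nat_lit 76) (nat_lit 3067919073) (nat_lit 274) (nat_lit 5) (nat_lit 281) (nat_lit 5) (nat_lit 275) (nat_lit 4) (nat_lit 382) (nat_lit 322) (nat_lit 316)) (XT.lf (nat_lit 0) (nat_lit 3240228718) (nat_lit 380) (nat_lit 2195151288) (nat_lit 456) (nat_lit 2985976050) (nat_lit 269) (nat_lit 5) (nat_lit 274) (nat_lit 5) (nat_lit 275) (nat_lit 4) (nat_lit 383) (nat_lit 322) (nat_lit 315)))) (XT.nd (nat_lit 156) (nat_lit 456) (nat_lit 0) (XT.nd (nat_lit 78) (nat_lit 380) (nat_lit 0) (XT.lf (nat_lit 0) (nat_lit 947189127)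 (nat_lit 456) (nat_lit 6602527818) (nat_lit 76) (nat_lit 970911442) (nat_lit 263) (nat_lit 5) (nat_lit 269) (nat_lit 5) (nat_lit 264) (nat_lit 4) (nat_lit 384) (nat_lit 322) (nat_lit 314)) (XT.lf (nat_lit 0) (nat_lit 540276229) (nat_lit 380) (nat_lit 4384059134) (nat_lit 456) (nat_lit 3698076564) (nat_lit 258) (nat_lit 5) (nat_lit 263) (nat_lit 5) (nat_lit 264) (nat_lit 4) (nat_lit 385) (nat_lit 322) (nat_lit 313))) (XT.nd (nat_lit 78) (nat_lit 380) (nat_lit 0) (XT.lf (nat_lit 0) (nat_lit 261932853) (nat_lit 456) (nat_lit 830220064) (nat_lit 76) (nat_lit 7635787984) (nat_lit 257) (nat_lit 5) (nat_lit 263) (nat_lit 5) (nat_lit 258) (nat_lit 5) (nat_lit 386) (nat_lit 322) (nat_lit 312)) (XT.lf (nat_lit 0) (nat_lit 4262068681) (nat_lit 456) (nat_lit 2257891385) (nat_lit 76) (nat_lit 2315707624) (nat_lit 252) (nat_lit 5) (nat_lit 258) (nat_lit 5) (nat_lit 253) (nat_lit 4) (nat_lit 387) (nat_lit 322) (nat_lit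 311))))) (XT.nd (nat_lit 312) (nat_lit 912) (nat_lit 0) (XT.nd (nat_lit 156) (nat_lit 684) (nat_lit 0) (XT.nd (nat_lit 78) (nat_lit 456) (nat_lit 0) (XT.lf (nat_lit 0) (nat_lit 5238682957) (nat_lit 304) (nat_lit 3123671727) (nat_lit 380) (nat_lit 584867218) (nat_lit 248) (nat_lit 5) (nat_lit 252) (nat_lit 5) (nat_lit 253) (nat_lit 4) (nat_lit 388) (nat_lit 322) (nat_lit 310)) (XT.lf (nat_lit 0) (nat_lit 3429957753) (nat_lit 456) (nat_lit 5211764144) (nat_lit 76) (nat_lit 420129095) (nat_lit 242) (nat_lit 5) (nat_lit 248) (nat_lit 5) (nat_lit 243) (nat_lit 4) (nat_lit 389) (nat_lit 322) (nat_lit 309))) (XT.nd (nat_lit 78) (nat_lit 380) (nat_lit 0) (XT.lf (nat_lit 0) (nat_lit 2409921380) (nat_lit 304) (nat_lit 5147382871) (nat_lit 380) (nat_lit 1622326022) (nat_lit 238) (nat_lit 5) (nat_lit 242) (nat_lit 5) (nat_lit 243) (nat_lit 4) (nat_lit 390) (nat_lit 322) (nat_lit 308)) (XT.lf (nat_lit 0) (nat_lit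 928057963) (nat_lit 304) (nat_lit 1504972323) (nat_lit 380) (nat_lit 6867956538) (nat_lit 233) (nat_lit 5) (nat_lit 237) (nat_lit 5) (nat_lit 238) (nat_lit 5) (nat_lit 391) (nat_lit 322) (nat_lit 307)))) (XT.nd (nat_lit 156) (nat_lit 532) (nat_lit 0) (XT.nd (nat_lit 78) (nat_lit 380) (nat_lit 0) (XT.lf (nat_lit 0) (nat_lit 6581284536) (nat_lit 380) (nat_lit 600743298) (nat_lit 76) (nat_lit 2243359027) (nat_lit 233) (nat_lit 5) (nat_lit 238) (nat_lit 5) (nat_lit 234) (nat_lit 4) (nat_lit 392) (nat_lit 322) (nat_lit 306)) (XT.lf (nat_lit 0) (nat_lit 1276919844) (nat_lit 380) (nat_lit 2161896886) (nat_lit 76) (nat_lit 6114272269) (nat_lit 228) (nat_lit 5) (nat_lit 233) (nat_lit 5) (nat_lit 229) (nat_lit 5) (nat_lit 393) (nat_lit 322) (nat_lit 305))) (XT.nd (nat_lit 78) (nat_lit 228) (nat_lit 0) (XT.lf (nat_lit 0) (nat_lit 5447910696) (nat_lit 380) (nat_lit 3781546169) (nat_lit 76) (nat_lit 454815503) (nat_lit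 224) (nat_lit 5) (nat_lit 229) (nat_lit 5) (nat_lit 225) (nat_lit 4) (nat_lit 394) (nat_lit 322) (nat_lit 304)) (XT.lf (nat_lit 0) (nat_lit 4354325277) (nat_lit 228) (nat_lit 5404541951) (nat_lit 304) (nat_lit 60078932) (nat_lit 221) (nat_lit 5) (nat_lit 224) (nat_lit 5) (nat_lit 225) (nat_lit 4) (nat_lit 395) (nat_lit 322) (nat_lit 303))))))))
noncomputable def xc59 : XT := (XT.nd (nat_lit 2340) (nat_lit 3268) (nat_lit 0) (XT.nd (nat_lit 1170) (nat_lit 2204) (nat_lit 0) (XT.nd (nat_lit 546) (nat_lit 1520) (nat_lit 0) (XT.nd (nat_lit 234) (nat_lit 1064) (nat_lit 0) (XT.nd (nat_lit 78) (nat_lit 304) (nat_lit 0) (XT.lf (nat_lit 0) (nat_lit 2735905617) (nat_lit 304) (nat_lit 1404928362) (nat_lit 380) (nat_lit 5816139778) (nat_lit 216) (nat_lit 5) (nat_lit 220) (nat_lit 5) (nat_lit 221) (nat_lit 5) (nat_lit 396) (nat_lit 322) (nat_lit 302)) (XT.nd (nat_lit 78) (nat_lit 76) (nat_lit 0) (XT.lf (nat_lit 0)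 (nat_lit 1058094040) (nat_lit 228) (nat_lit 7418401490) (nat_lit 304) (nat_lit 1622330943) (nat_lit 213) (nat_lit 5) (nat_lit 216) (nat_lit 5) (nat_lit 217) (nat_lit 4) (nat_lit 397) (nat_lit 322) (nat_lit 301)) (XT.lf (nat_lit 0) (nat_lit 2650473036) (nat_lit 304) (nat_lit 682278597) (nat_lit 76) (nat_lit 6911230854) (nat_lit 212) (nat_lit 5) (nat_lit 216) (nat_lit 5) (nat_lit 213) (nat_lit 5) (nat_lit 398) (nat_lit 322) (nat_lit 300)))) (XT.nd (nat_lit 156) (nat_lit 456) (nat_lit 0) (XT.nd (nat_lit 78) (nat_lit 304) (nat_lit 0) (XT.lf (nat_lit 0) (nat_lit 7024648671) (nat_lit 380) (nat_lit 2464977057) (nat_lit 76) (nat_lit 903211728) (nat_lit 208) (nat_lit 5) (nat_lit 213) (nat_lit 5) (nat_lit 209) (nat_lit 4) (nat_lit 399) (nat_lit 322) (nat_lit 299)) (XT.lf (nat_lit 0) (nat_lit 985935534) (nat_lit 304) (nat_lit 4331857540) (nat_lit 76) (nat_lit 5227443970) (nat_lit 204) (nat_lit 5) (nat_lit 208)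 (nat_lit 5) (nat_lit 205) (nat_lit 5) (nat_lit 400) (nat_lit 322) (nat_lit 298))) (XT.nd (nat_lit 78) (nat_lit 228) (nat_lit 0) (XT.lf (nat_lit 0) (nat_lit 4424222615) (nat_lit 228) (nat_lit 967979932) (nat_lit 304) (nat_lit 5309329133) (nat_lit 201) (nat_lit 5) (nat_lit 204) (nat_lit 5) (nat_lit 205) (nat_lit 5) (nat_lit 401) (nat_lit 322) (nat_lit 297)) (XT.lf (nat_lit 0) (nat_lit 2556032789) (nat_lit 228) (nat_lit 7399244423) (nat_lit 304) (nat_lit 906499353) (nat_lit 198) (nat_lit 5) (nat_lit 201) (nat_lit 5) (nat_lit 202) (nat_lit 4) (nat_lit 402) (nat_lit 322) (nat_lit 296))))) (XT.nd (nat_lit 312) (nat_lit 684) (nat_lit 0) (XT.nd (nat_lit 156) (nat_lit 532) (nat_lit 0) (XT.nd (nat_lit 78) (nat_lit 0) (nat_lit 0) (XT.lf (nat_lit 0) (nat_lit 594131896) (nat_lit 228) (nat_lit 2965169745) (nat_lit 304) (nat_lit 7466430107) (nat_lit 194) (nat_lit 5) (nat_lit 197) (nat_lit 5) (nat_lit 198) (nat_lit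 5) (nat_lit 403) (nat_lit 322) (nat_lit 295)) (XT.lf (nat_lit 0) (nat_lit 8163849220) (nat_lit 304) (nat_lit 1417041341) (nat_lit 76) (nat_lit 1612755999) (nat_lit 194) (nat_lit 5) (nat_lit 198) (nat_lit 5) (nat_lit 195) (nat_lit 4) (nat_lit 404) (nat_lit 322) (nat_lit 294))) (XT.nd (nat_lit 78) (nat_lit 228) (nat_lit 0) (XT.lf (nat_lit 0) (nat_lit 1540280146) (nat_lit 304) (nat_lit 3515924018) (nat_lit 76) (nat_lit 6309038708) (nat_lit 190) (nat_lit 5) (nat_lit 194) (nat_lit 5) (nat_lit 191) (nat_lit 5) (nat_lit 405) (nat_lit 322) (nat_lit 293)) (XT.lf (nat_lit 0) (nat_lit 5837497656) (nat_lit 228) (nat_lit 345006481) (nat_lit 304) (nat_lit 5358704792) (nat_lit 187) (nat_lit 5) (nat_lit 190) (nat_lit 5) (nat_lit 191) (nat_lit 5) (nat_lit 406) (nat_lit 322) (nat_lit 292)))) (XT.nd (nat_lit 156) (nat_lit 228) (nat_lit 0) (XT.nd (nat_lit 78) (nat_lit 304) (nat_lit 0) (XT.lf (nat_lit 0) (nat_lit 3723291298)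 (nat_lit 152) (nat_lit 7281509882) (nat_lit 228) (nat_lit 716428597) (nat_lit 185) (nat_lit 5) (nat_lit 187) (nat_lit 5) (nat_lit 188) (nat_lit 4) (nat_lit 407) (nat_lit 322) (nat_lit 291)) (XT.lf (nat_lit 0) (nat_lit 1503265683) (nat_lit 228) (nat_lit 2484607085) (nat_lit 304) (nat_lit 7917543735) (nat_lit 181) (nat_lit 5) (nat_lit 184) (nat_lit 5) (nat_lit 185) (nat_lit 5) (nat_lit 408) (nat_lit 322) (nat_lit 290))) (XT.nd (nat_lit 78) (nat_lit 228) (nat_lit 0) (XT.lf (nat_lit 0) (nat_lit 8850543535) (nat_lit 304) (nat_lit 799277588) (nat_lit 76) (nat_lit 2444145709) (nat_lit 181) (nat_lit 5) (nat_lit 185) (nat_lit 5) (nat_lit 182) (nat_lit 4) (nat_lit 409) (nat_lit 322) (nat_lit 289)) (XT.lf (nat_lit 0) (nat_lit 1581548817) (nat_lit 228) (nat_lit 3182182226) (nat_lit 76) (nat_lit 7522751138) (nat_lit 178) (nat_lit 5) (nat_lit 181) (nat_lit 5) (nat_lit 179) (nat_lit 5) (nat_lit 410) (nat_lit 322)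 (nat_lit 288)))))) (XT.nd (nat_lit 546) (nat_lit 1064) (nat_lit 0) (XT.nd (nat_lit 234) (nat_lit 532) (nat_lit 0) (XT.nd (nat_lit 78) (nat_lit 380) (nat_lit 0) (XT.lf (nat_lit 0) (nat_lit 6491635483) (nat_lit 304) (nat_lit 5674242088) (nat_lit 76) (nat_lit 317765376) (nat_lit 175) (nat_lit 5) (nat_lit 179) (nat_lit 5) (nat_lit 176) (nat_lit 4) (nat_lit 411) (nat_lit 322) (nat_lit 287)) (XT.nd (nat_lit 78) (nat_lit 228) (nat_lit 0) (XT.lf (nat_lit 0) (nat_lit 4393105238) (nat_lit 152) (nat_lit 7206938493) (nat_lit 228) (nat_lit 1085144236) (nat_lit 173) (nat_lit 5) (nat_lit 175) (nat_lit 5) (nat_lit 176) (nat_lit 4) (nat_lit 412) (nat_lit 322) (nat_lit 286)) (XT.lf (nat_lit 0) (nat_lit 1859778942) (nat_lit 152) (nat_lit 2036790665) (nat_lit 228) (nat_lit 8994912397) (nat_lit 170) (nat_lit 5) (nat_lit 172) (nat_lit 5) (nat_lit 173) (nat_lit 5) (nat_lit 413) (nat_lit 322) (nat_lit 285)))) (XT.nd (nat_lit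 156) (nat_lit 304) (nat_lit 0) (XT.nd (nat_lit 78) (nat_lit 228) (nat_lit 0) (XT.lf (nat_lit 0) (nat_lit 9051786538) (nat_lit 228) (nat_lit 784321672) (nat_lit 76) (nat_lit 3266158471) (nat_lit 170) (nat_lit 5) (nat_lit 173) (nat_lit 5) (nat_lit 171) (nat_lit 4) (nat_lit 414) (nat_lit 322) (nat_lit 284)) (XT.lf (nat_lit 0) (nat_lit 1068700669) (nat_lit 228) (nat_lit 3508725346) (nat_lit 76) (nat_lit 8740245682) (nat_lit 167) (nat_lit 5) (nat_lit 170) (nat_lit 5) (nat_lit 168) (nat_lit 5) (nat_lit 415) (nat_lit 322) (nat_lit 283))) (XT.nd (nat_lit 78) (nat_lit 152) (nat_lit 0) (XT.lf (nat_lit 0) (nat_lit 6277604656) (nat_lit 228) (nat_lit 6372523284) (nat_lit 76) (nat_lit 887681059) (nat_lit 165) (nat_lit 5) (nat_lit 168) (nat_lit 5) (nat_lit 166) (nat_lit 4) (nat_lit 416) (nat_lit 322) (nat_lit 282)) (XT.lf (nat_lit 0) (nat_lit 4385200274) (nat_lit 152) (nat_lit 7313026930) (nat_lit 228) (nat_lit 2064659672)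 (nat_lit 163) (nat_lit 5) (nat_lit 165) (nat_lit 5) (nat_lit 166) (nat_lit 4) (nat_lit 417) (nat_lit 322) (nat_lit 281))))) (XT.nd (nat_lit 312) (nat_lit 456) (nat_lit 0) (XT.nd (nat_lit 156) (nat_lit 380) (nat_lit 0) (XT.nd (nat_lit 78) (nat_lit 0) (nat_lit 0) (XT.lf (nat_lit 0) (nat_lit 1477297356) (nat_lit 152) (nat_lit 1756844637) (nat_lit 228) (nat_lit 10759281458) (nat_lit 160) (nat_lit 5) (nat_lit 162) (nat_lit 5) (nat_lit 163) (nat_lit 5) (nat_lit 418) (nat_lit 322) (nat_lit 280)) (XT.lf (nat_lit 0) (nat_lit 8716782690) (nat_lit 228) (nat_lit 1560448412) (nat_lit 76) (nat_lit 3951040578) (nat_lit 160) (nat_lit 5) (nat_lit 163) (nat_lit 5) (nat_lit 161) (nat_lit 4) (nat_lit 419) (nat_lit 322) (nat_lit 279))) (XT.nd (nat_lit 78) (nat_lit 228) (nat_lit 0) (XT.lf (nat_lit 0) (nat_lit 9777816401) (nat_lit 152) (nat_lit 4632048657) (nat_lit 228) (nat_lit 58921425) (nat_lit 158) (nat_lit 5) (nat_lit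 160) (nat_lit 5) (nat_lit 161) (nat_lit 4) (nat_lit 420) (nat_lit 322) (nat_lit 278)) (XT.lf (nat_lit 0) (nat_lit 5476268358) (nat_lit 228) (nat_lit 7996313464) (nat_lit 76) (nat_lit 1241507726) (nat_lit 155) (nat_lit 5) (nat_lit 158) (nat_lit 5) (nat_lit 156) (nat_lit 4) (nat_lit 421) (nat_lit 322) (nat_lit 277)))) (XT.nd (nat_lit 156) (nat_lit 76) (nat_lit 0) (XT.nd (nat_lit 78) (nat_lit 228) (nat_lit 0) (XT.lf (nat_lit 0) (nat_lit 3501158148) (nat_lit 152) (nat_lit 7737477762) (nat_lit 228) (nat_lit 3726229103) (nat_lit 153) (nat_lit 5) (nat_lit 155) (nat_lit 5) (nat_lit 156) (nat_lit 4) (nat_lit 422) (nat_lit 322) (nat_lit 276)) (XT.lf (nat_lit 0) (nat_lit 150128543) (nat_lit 152) (nat_lit 1780574251) (nat_lit 228) (nat_lit 13291356683) (nat_lit 150) (nat_lit 5) (nat_lit 152) (nat_lit 5) (nat_lit 153) (nat_lit 5) (nat_lit 423) (nat_lit 322) (nat_lit 275))) (XT.nd (nat_lit 78) (nat_lit 76) (nat_lit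 0) (XT.lf (nat_lit 0) (nat_lit 7776511451) (nat_lit 228) (nat_lit 3336229412) (nat_lit 76) (nat_lit 4370300240) (nat_lit 150) (nat_lit 5) (nat_lit 153) (nat_lit 5) (nat_lit 151) (nat_lit 4) (nat_lit 424) (nat_lit 322) (nat_lit 274)) (XT.lf (nat_lit 0) (nat_lit 8788710727) (nat_lit 76) (nat_lit 5048272186) (nat_lit 152) (nat_lit 1913690611) (nat_lit 149) (nat_lit 5) (nat_lit 150) (nat_lit 5) (nat_lit 151) (nat_lit 4) (nat_lit 425) (nat_lit 322) (nat_lit 273))))))) (XT.nd (nat_lit 1170) (nat_lit 1520) (nat_lit 0) (XT.nd (nat_lit 546) (nat_lit 912) (nat_lit 0) (XT.nd (nat_lit 234) (nat_lit 532) (nat_lit 0) (XT.nd (nat_lit 78) (nat_lit 76) (nat_lit 0) (XT.lf (nat_lit 0) (nat_lit 4008002100) (nat_lit 228) (nat_lit 10769583290) (nat_lit 76) (nat_lit 1246556072) (nat_lit 146) (nat_lit 5) (nat_lit 149) (nat_lit 5) (nat_lit 147) (nat_lit 4) (nat_lit 426) (nat_lit 322) (nat_lit 272)) (XT.nd (nat_lit 78) (nat_lit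 0) (nat_lit 0) (XT.lf (nat_lit 0) (nat_lit 1519604723) (nat_lit 76) (nat_lit 8622345994) (nat_lit 152) (nat_lit 6161102247) (nat_lit 145) (nat_lit 5) (nat_lit 146) (nat_lit 5) (nat_lit 147) (nat_lit 4) (nat_lit 427) (nat_lit 322) (nat_lit 271)) (XT.lf (nat_lit 0) (nat_lit 14282375731) (nat_lit 76) (nat_lit 2224480920) (nat_lit 152) (nat_lit 82066995) (nat_lit 145) (nat_lit 5) (nat_lit 146) (nat_lit 5) (nat_lit 147) (nat_lit 4) (nat_lit 428) (nat_lit 322) (nat_lit 270)))) (XT.nd (nat_lit 156) (nat_lit 228) (nat_lit 0) (XT.nd (nat_lit 78) (nat_lit 76) (nat_lit 0) (XT.lf (nat_lit 0) (nat_lit 6142880300) (nat_lit 228) (nat_lit 6345418733) (nat_lit 76) (nat_lit 4390765761) (nat_lit 142) (nat_lit 5) (nat_lit 145) (nat_lit 5) (nat_lit 143) (nat_lit 4) (nat_lit 429) (nat_lit 322) (nat_lit 269)) (XT.lf (nat_lit 0) (nat_lit 6621388634) (nat_lit 76) (nat_lit 5980303884) (nat_lit 152) (nat_lit 4574730305) (nat_lit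 141) (nat_lit 5) (nat_lit 142) (nat_lit 5) (nat_lit 143) (nat_lit 4) (nat_lit 430) (nat_lit 322) (nat_lit 268))) (XT.nd (nat_lit 78) (nat_lit 0) (nat_lit 0) (XT.lf (nat_lit 0) (nat_lit 1773308583) (nat_lit 228) (nat_lit 14944278238) (nat_lit 76) (nat_lit 763514567) (nat_lit 138) (nat_lit 5) (nat_lit 141) (nat_lit 5) (nat_lit 139) (nat_lit 4) (nat_lit 431) (nat_lit 322) (nat_lit 267)) (XT.lf (nat_lit 0) (nat_lit 8326509407) (nat_lit 228) (nat_lit 1773593060) (nat_lit 76) (nat_lit 7690258963) (nat_lit 138) (nat_lit 5) (nat_lit 141) (nat_lit 5) (nat_lit 139) (nat_lit 4) (nat_lit 432) (nat_lit 322) (nat_lit 266))))) (XT.nd (nat_lit 312) (nat_lit 532) (nat_lit 0) (XT.nd (nat_lit 156) (nat_lit 76) (nat_lit 0) (XT.nd (nat_lit 78) (nat_lit 228) (nat_lit 0) (XT.lf (nat_lit 0) (nat_lit 11913905807) (nat_lit 76) (nat_lit 3218494043) (nat_lit 152) (nat_lit 2974816616) (nat_lit 137) (nat_lit 5) (nat_lit 138) (nat_lit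 5) (nat_lit 139) (nat_lit 4) (nat_lit 433) (nat_lit 322) (nat_lit 265)) (XT.lf (nat_lit 0) (nat_lit 3707419199) (nat_lit 228) (nat_lit 10852175050) (nat_lit 76) (nat_lit 3870786245) (nat_lit 134) (nat_lit 5) (nat_lit 137) (nat_lit 5) (nat_lit 135) (nat_lit 4) (nat_lit 434) (nat_lit 322) (nat_lit 264))) (XT.nd (nat_lit 78) (nat_lit 0) (nat_lit 0) (XT.lf (nat_lit 0) (nat_lit 3014332791) (nat_lit 76) (nat_lit 7581788762) (nat_lit 152) (nat_lit 8164260572) (nat_lit 133) (nat_lit 5) (nat_lit 134) (nat_lit 5) (nat_lit 135) (nat_lit 4) (nat_lit 435) (nat_lit 322) (nat_lit 263)) (XT.lf (nat_lit 0) (nat_lit 17409373967) (nat_lit 76) (nat_lit 334124480) (nat_lit 152) (nat_lit 1355224953) (nat_lit 133) (nat_lit 5) (nat_lit 134) (nat_lit 5) (nat_lit 135) (nat_lit 4) (nat_lit 436) (nat_lit 322) (nat_lit 262)))) (XT.nd (nat_lit 156) (nat_lit 228) (nat_lit 0) (XT.nd (nat_lit 78) (nat_lit 76) (nat_lit 0) (XT.lf (nat_lit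 0) (nat_lit 5684833138) (nat_lit 228) (nat_lit 6635262042) (nat_lit 76) (nat_lit 7121373236) (nat_lit 130) (nat_lit 5) (nat_lit 133) (nat_lit 5) (nat_lit 131) (nat_lit 4) (nat_lit 437) (nat_lit 322) (nat_lit 261)) (XT.lf (nat_lit 0) (nat_lit 8008687498) (nat_lit 76) (nat_lit 4941366450) (nat_lit 152) (nat_lit 6842803303) (nat_lit 129) (nat_lit 5) (nat_lit 130) (nat_lit 5) (nat_lit 131) (nat_lit 4) (nat_lit 438) (nat_lit 322) (nat_lit 260))) (XT.nd (nat_lit 78) (nat_lit 0) (nat_lit 0) (XT.lf (nat_lit 0) (nat_lit 339517805) (nat_lit 228) (nat_lit 17156728881) (nat_lit 76) (nat_lit 2656465541) (nat_lit 126) (nat_lit 5) (nat_lit 129) (nat_lit 5) (nat_lit 127) (nat_lit 4) (nat_lit 439) (nat_lit 322) (nat_lit 259)) (XT.lf (nat_lit 0) (nat_lit 7712731809) (nat_lit 228) (nat_lit 2284689815) (nat_lit 76) (nat_lit 10520520006) (nat_lit 126) (nat_lit 5) (nat_lit 129) (nat_lit 5) (nat_lit 127) (nat_lit 4) (nat_lit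 440) (nat_lit 322) (nat_lit 258)))))) (XT.nd (nat_lit 624) (nat_lit 684) (nat_lit 0) (XT.nd (nat_lit 312) (nat_lit 456) (nat_lit 0) (XT.nd (nat_lit 156) (nat_lit 76) (nat_lit 0) (XT.nd (nat_lit 78) (nat_lit 228) (nat_lit 0) (XT.lf (nat_lit 0) (nat_lit 13185814411) (nat_lit 76) (nat_lit 2193570377) (nat_lit 152) (nat_lit 5512575851) (nat_lit 125) (nat_lit 5) (nat_lit 126) (nat_lit 5) (nat_lit 127) (nat_lit 4) (nat_lit 441) (nat_lit 322) (nat_lit 257)) (XT.lf (nat_lit 0) (nat_lit 2061686851) (nat_lit 228) (nat_lit 13411314604) (nat_lit 76) (nat_lit 5800566715) (nat_lit 122) (nat_lit 5) (nat_lit 125) (nat_lit 5) (nat_lit 123) (nat_lit 4) (nat_lit 442) (nat_lit 322) (nat_lit 256))) (XT.nd (nat_lit 78) (nat_lit 0) (nat_lit 0) (XT.lf (nat_lit 0) (nat_lit 2253124999) (nat_lit 76) (nat_lit 7566870205) (nat_lit 152) (nat_lit 11842962871) (nat_lit 121) (nat_lit 5) (nat_lit 122) (nat_lit 5) (nat_lit 123) (nat_lit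 4) (nat_lit 443) (nat_lit 322) (nat_lit 255)) (XT.lf (nat_lit 0) (nat_lit 17899111509) (nat_lit 152) (nat_lit 3509687267) (nat_lit 0) (nat_lit 652589141) (nat_lit 121) (nat_lit 5) (nat_lit 123) (nat_lit 4) (nat_lit 121) (nat_lit 4) (nat_lit 444) (nat_lit 322) (nat_lit 254)))) (XT.nd (nat_lit 156) (nat_lit 152) (nat_lit 0) (XT.nd (nat_lit 78) (nat_lit 76) (nat_lit 0) (XT.lf (nat_lit 0) (nat_lit 3823793157) (nat_lit 228) (nat_lit 9561941904) (nat_lit 76) (nat_lit 9080511040) (nat_lit 118) (nat_lit 5) (nat_lit 121) (nat_lit 5) (nat_lit 119) (nat_lit 4) (nat_lit 445) (nat_lit 322) (nat_lit 253)) (XT.lf (nat_lit 0) (nat_lit 6993138693) (nat_lit 76) (nat_lit 5023037007) (nat_lit 152) (nat_lit 10864326355) (nat_lit 117) (nat_lit 5) (nat_lit 118) (nat_lit 5) (nat_lit 119) (nat_lit 4) (nat_lit 446) (nat_lit 322) (nat_lit 252))) (XT.nd (nat_lit 78) (nat_lit 76) (nat_lit 0) (XT.lf (nat_lit 0) (nat_lit 814698484)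 (nat_lit 76) (nat_lit 19726951374) (nat_lit 76) (nat_lit 2762916227) (nat_lit 116) (nat_lit 4) (nat_lit 117) (nat_lit 5) (nat_lit 117) (nat_lit 4) (nat_lit 447) (nat_lit 322) (nat_lit 251)) (XT.lf (nat_lit 0) (nat_lit 5631876047) (nat_lit 152) (nat_lit 5600379667) (nat_lit 76) (nat_lit 12502709054) (nat_lit 115) (nat_lit 5) (nat_lit 117) (nat_lit 5) (nat_lit 116) (nat_lit 4) (nat_lit 448) (nat_lit 322) (nat_lit 250))))) (XT.nd (nat_lit 312) (nat_lit 380) (nat_lit 0) (XT.nd (nat_lit 156) (nat_lit 152) (nat_lit 0) (XT.nd (nat_lit 78) (nat_lit 76) (nat_lit 0) (XT.lf (nat_lit 0) (nat_lit 11901292319) (nat_lit 76) (nat_lit 2385122465) (nat_lit 152) (nat_lit 9889136924) (nat_lit 114) (nat_lit 5) (nat_lit 115) (nat_lit 5) (nat_lit 116) (nat_lit 4) (nat_lit 449) (nat_lit 322) (nat_lit 249)) (XT.lf (nat_lit 0) (nat_lit 5354964268) (nat_lit 76) (nat_lit 17967990935) (nat_lit 76) (nat_lit 1302730087) (nat_lit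 113) (nat_lit 4) (nat_lit 114) (nat_lit 5) (nat_lit 114) (nat_lit 4) (nat_lit 450) (nat_lit 322) (nat_lit 248))) (XT.nd (nat_lit 78) (nat_lit 76) (nat_lit 0) (XT.lf (nat_lit 0) (nat_lit 7492046264) (nat_lit 152) (nat_lit 1517759536) (nat_lit 76) (nat_lit 16074404301) (nat_lit 112) (nat_lit 5) (nat_lit 114) (nat_lit 5) (nat_lit 113) (nat_lit 4) (nat_lit 451) (nat_lit 322) (nat_lit 247)) (XT.lf (nat_lit 0) (nat_lit 16641804392) (nat_lit 152) (nat_lit 8566236515) (nat_lit 0) (nat_lit 344543139) (nat_lit 111) (nat_lit 5) (nat_lit 113) (nat_lit 4) (nat_lit 111) (nat_lit 4) (nat_lit 452) (nat_lit 322) (nat_lit 246)))) (XT.nd (nat_lit 156) (nat_lit 152) (nat_lit 0) (XT.nd (nat_lit 78) (nat_lit 76) (nat_lit 0) (XT.lf (nat_lit 0) (nat_lit 183954315) (nat_lit 152) (nat_lit 15979980318) (nat_lit 76) (nat_lit 9866460200) (nat_lit 109) (nat_lit 5) (nat_lit 111) (nat_lit 5) (nat_lit 110) (nat_lit 4) (nat_lit 453)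 (nat_lit 322) (nat_lit 245)) (XT.lf (nat_lit 0) (nat_lit 2749082101) (nat_lit 76) (nat_lit 6687864044) (nat_lit 152) (nat_lit 17081011621) (nat_lit 108) (nat_lit 5) (nat_lit 109) (nat_lit 5) (nat_lit 110) (nat_lit 4) (nat_lit 454) (nat_lit 322) (nat_lit 244))) (XT.nd (nat_lit 78) (nat_lit 152) (nat_lit 0) (XT.lf (nat_lit 0) (nat_lit 19110818602) (nat_lit 152) (nat_lit 4775611535) (nat_lit 0) (nat_lit 3129418726) (nat_lit 108) (nat_lit 5) (nat_lit 110) (nat_lit 4) (nat_lit 108) (nat_lit 4) (nat_lit 455) (nat_lit 322) (nat_lit 243)) (XT.lf (nat_lit 0) (nat_lit 1679507042) (nat_lit 152) (nat_lit 12621885862) (nat_lit 76) (nat_lit 13221934417) (nat_lit 106) (nat_lit 5) (nat_lit 108) (nat_lit 5) (nat_lit 107) (nat_lit 4) (nat_lit 456) (nat_lit 322) (nat_lit 242))))))))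
noncomputable def xc60 : XT := (XT.nd (nat_lit 2340) (nat_lit 684) (nat_lit 0) (XT.nd (nat_lit 1170) (nat_lit 1140) (nat_lit 0) (XT.nd (nat_lit 546) (nat_lit 684) (nat_lit 0) (XT.nd (nat_lit 234) (nat_lit 304) (nat_lit 0) (XT.nd (nat_lit 78) (nat_lit 152) (nat_lit 0) (XT.lf (nat_lit 0) (nat_lit 7189695962) (nat_lit 76) (nat_lit 4273069276) (nat_lit 152) (nat_lit 16578814824) (nat_lit 105) (nat_lit 5) (nat_lit 106) (nat_lit 5) (nat_lit 107) (nat_lit 4) (nat_lit 457) (nat_lit 322) (nat_lit 241)) (XT.nd (nat_lit 78) (nat_lit 152) (nat_lit 0) (XT.lf (nat_lit 0) (nat_lit 21678764797) (nat_lit 152) (nat_lit 870701770) (nat_lit 0) (nat_lit 6021736510) (nat_lit 105) (nat_lit 5) (nat_lit 107) (nat_lit 4) (nat_lit 105) (nat_lit 4) (nat_lit 458) (nat_lit 322) (nat_lit 240)) (XT.lf (nat_lit 0) (nat_lit 3214131699) (nat_lit 152) (nat_lit 9176663365) (nat_lit 76) (nat_lit 16719336435) (nat_lit 103) (nat_lit 5) (nat_lit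 105) (nat_lit 5) (nat_lit 104) (nat_lit 4) (nat_lit 459) (nat_lit 322) (nat_lit 239)))) (XT.nd (nat_lit 156) (nat_lit 152) (nat_lit 0) (XT.nd (nat_lit 78) (nat_lit 76) (nat_lit 0) (XT.lf (nat_lit 0) (nat_lit 11784968945) (nat_lit 76) (nat_lit 1776287775) (nat_lit 152) (nat_lit 16099647121) (nat_lit 102) (nat_lit 5) (nat_lit 103) (nat_lit 5) (nat_lit 104) (nat_lit 4) (nat_lit 460) (nat_lit 322) (nat_lit 238)) (XT.lf (nat_lit 0) (nat_lit 3220687269) (nat_lit 76) (nat_lit 21164445611) (nat_lit 76) (nat_lit 5838076351) (nat_lit 101) (nat_lit 4) (nat_lit 102) (nat_lit 5) (nat_lit 102) (nat_lit 4) (nat_lit 461) (nat_lit 322) (nat_lit 237))) (XT.nd (nat_lit 78) (nat_lit 76) (nat_lit 0) (XT.lf (nat_lit 0) (nat_lit 4792700927) (nat_lit 152) (nat_lit 5636566280) (nat_lit 76) (nat_lit 20367141612) (nat_lit 100) (nat_lit 5) (nat_lit 102) (nat_lit 5) (nat_lit 101) (nat_lit 4) (nat_lit 462) (nat_lit 322) (nat_lit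 236)) (XT.lf (nat_lit 0) (nat_lit 15747025410) (nat_lit 152) (nat_lit 14842682997) (nat_lit 0) (nat_lit 791703003) (nat_lit 99) (nat_lit 5) (nat_lit 101) (nat_lit 4) (nat_lit 99) (nat_lit 4) (nat_lit 463) (nat_lit 322) (nat_lit 235))))) (XT.nd (nat_lit 312) (nat_lit 380) (nat_lit 0) (XT.nd (nat_lit 156) (nat_lit 152) (nat_lit 0) (XT.nd (nat_lit 78) (nat_lit 76) (nat_lit 0) (XT.lf (nat_lit 0) (nat_lit 7465655154) (nat_lit 76) (nat_lit 19752019337) (nat_lit 76) (nat_lit 4760658741) (nat_lit 98) (nat_lit 4) (nat_lit 99) (nat_lit 5) (nat_lit 99) (nat_lit 4) (nat_lit 464) (nat_lit 322) (nat_lit 234)) (XT.lf (nat_lit 0) (nat_lit 6420202389) (nat_lit 152) (nat_lit 1993338279) (nat_lit 76) (nat_lit 24174567824) (nat_lit 97) (nat_lit 5) (nat_lit 99) (nat_lit 5) (nat_lit 98) (nat_lit 4) (nat_lit 465) (nat_lit 322) (nat_lit 233))) (XT.nd (nat_lit 78) (nat_lit 76) (nat_lit 0) (XT.lf (nat_lit 0) (nat_lit 18037357543)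 (nat_lit 152) (nat_lit 11755819812) (nat_lit 0) (nat_lit 3415689017) (nat_lit 96) (nat_lit 5) (nat_lit 98) (nat_lit 4) (nat_lit 96) (nat_lit 4) (nat_lit 466) (nat_lit 322) (nat_lit 232)) (XT.lf (nat_lit 0) (nat_lit 11857679034) (nat_lit 76) (nat_lit 18319515465) (nat_lit 76) (nat_lit 3665827474) (nat_lit 95) (nat_lit 4) (nat_lit 96) (nat_lit 5) (nat_lit 96) (nat_lit 4) (nat_lit 467) (nat_lit 322) (nat_lit 231)))) (XT.nd (nat_lit 156) (nat_lit 228) (nat_lit 0) (XT.nd (nat_lit 78) (nat_lit 0) (nat_lit 0) (XT.lf (nat_lit 0) (nat_lit 1796867894) (nat_lit 76) (nat_lit 6322167940) (nat_lit 152) (nat_lit 26371994101) (nat_lit 93) (nat_lit 5) (nat_lit 94) (nat_lit 5) (nat_lit 95) (nat_lit 4) (nat_lit 468) (nat_lit 322) (nat_lit 230)) (XT.lf (nat_lit 0) (nat_lit 20422593584) (nat_lit 152) (nat_lit 8591402570) (nat_lit 0) (nat_lit 6136228278) (nat_lit 93) (nat_lit 5) (nat_lit 95) (nat_lit 4) (nat_lit 93) (nat_lit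 4) (nat_lit 469) (nat_lit 322) (nat_lit 229))) (XT.nd (nat_lit 78) (nat_lit 152) (nat_lit 0) (XT.lf (nat_lit 0) (nat_lit 16408240227) (nat_lit 76) (nat_lit 16865211459) (nat_lit 76) (nat_lit 2550397272) (nat_lit 92) (nat_lit 4) (nat_lit 93) (nat_lit 5) (nat_lit 93) (nat_lit 4) (nat_lit 470) (nat_lit 322) (nat_lit 228)) (XT.lf (nat_lit 0) (nat_lit 5750405310) (nat_lit 76) (nat_lit 4147545314) (nat_lit 152) (nat_lit 26613826667) (nat_lit 90) (nat_lit 5) (nat_lit 91) (nat_lit 5) (nat_lit 92) (nat_lit 4) (nat_lit 471) (nat_lit 322) (nat_lit 227)))))) (XT.nd (nat_lit 546) (nat_lit 608) (nat_lit 0) (XT.nd (nat_lit 234) (nat_lit 304) (nat_lit 0) (XT.nd (nat_lit 78) (nat_lit 228) (nat_lit 0) (XT.lf (nat_lit 0) (nat_lit 22910458380) (nat_lit 152) (nat_lit 5342138479) (nat_lit 0) (nat_lit 8959729976) (nat_lit 90) (nat_lit 5) (nat_lit 92) (nat_lit 4) (nat_lit 90) (nat_lit 4) (nat_lit 472) (nat_lit 322) (nat_lit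 226)) (XT.nd (nat_lit 78) (nat_lit 152) (nat_lit 0) (XT.lf (nat_lit 0) (nat_lit 21129526089) (nat_lit 76) (nat_lit 15387136009) (nat_lit 76) (nat_lit 1411131144) (nat_lit 89) (nat_lit 4) (nat_lit 90) (nat_lit 5) (nat_lit 90) (nat_lit 4) (nat_lit 473) (nat_lit 322) (nat_lit 225)) (XT.lf (nat_lit 0) (nat_lit 9837703325) (nat_lit 76) (nat_lit 1905276203) (nat_lit 152) (nat_lit 26915075940) (nat_lit 87) (nat_lit 5) (nat_lit 88) (nat_lit 5) (nat_lit 89) (nat_lit 4) (nat_lit 474) (nat_lit 322) (nat_lit 224)))) (XT.nd (nat_lit 156) (nat_lit 228) (nat_lit 0) (XT.nd (nat_lit 78) (nat_lit 76) (nat_lit 0) (XT.lf (nat_lit 0) (nat_lit 25509018431) (nat_lit 152) (nat_lit 2000293329) (nat_lit 0) (nat_lit 11893124637) (nat_lit 87) (nat_lit 5) (nat_lit 89) (nat_lit 4) (nat_lit 87) (nat_lit 4) (nat_lit 475) (nat_lit 322) (nat_lit 223)) (XT.lf (nat_lit 0) (nat_lit 26034463850) (nat_lit 76) (nat_lit 13883075736) (nat_lit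 76) (nat_lit 244724133) (nat_lit 86) (nat_lit 4) (nat_lit 87) (nat_lit 5) (nat_lit 87) (nat_lit 4) (nat_lit 476) (nat_lit 322) (nat_lit 222))) (XT.nd (nat_lit 78) (nat_lit 76) (nat_lit 0) (XT.lf (nat_lit 0) (nat_lit 13663851969) (nat_lit 152) (nat_lit 26871885992) (nat_lit 0) (nat_lit 401565270) (nat_lit 84) (nat_lit 5) (nat_lit 86) (nat_lit 4) (nat_lit 84) (nat_lit 4) (nat_lit 477) (nat_lit 322) (nat_lit 221)) (XT.lf (nat_lit 0) (nat_lit 1471032561) (nat_lit 76) (nat_lit 26769822401) (nat_lit 76) (nat_lit 13486983626) (nat_lit 83) (nat_lit 4) (nat_lit 84) (nat_lit 5) (nat_lit 84) (nat_lit 4) (nat_lit 478) (nat_lit 322) (nat_lit 220))))) (XT.nd (nat_lit 312) (nat_lit 304) (nat_lit 0) (XT.nd (nat_lit 156) (nat_lit 152) (nat_lit 0) (XT.nd (nat_lit 78) (nat_lit 76) (nat_lit 0) (XT.lf (nat_lit 0) (nat_lit 933631451) (nat_lit 152) (nat_lit 11407520400) (nat_lit 76) (nat_lit 30193698474) (nat_lit 82) (nat_lit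 5) (nat_lit 84) (nat_lit 5) (nat_lit 83) (nat_lit 4) (nat_lit 479) (nat_lit 322) (nat_lit 219)) (XT.lf (nat_lit 0) (nat_lit 15681728355) (nat_lit 152) (nat_lit 24927771858) (nat_lit 0) (nat_lit 2747588015) (nat_lit 81) (nat_lit 5) (nat_lit 83) (nat_lit 4) (nat_lit 81) (nat_lit 4) (nat_lit 480) (nat_lit 322) (nat_lit 218))) (XT.nd (nat_lit 78) (nat_lit 76) (nat_lit 0) (XT.lf (nat_lit 0) (nat_lit 5093798181) (nat_lit 76) (nat_lit 26027561468) (nat_lit 76) (nat_lit 13075160874) (nat_lit 80) (nat_lit 4) (nat_lit 81) (nat_lit 5) (nat_lit 81) (nat_lit 4) (nat_lit 481) (nat_lit 322) (nat_lit 217)) (XT.lf (nat_lit 0) (nat_lit 2140565672) (nat_lit 152) (nat_lit 8624780680) (nat_lit 76) (nat_lit 34288748507) (nat_lit 79) (nat_lit 5) (nat_lit 81) (nat_lit 5) (nat_lit 80) (nat_lit 4) (nat_lit 482) (nat_lit 322) (nat_lit 216)))) (XT.nd (nat_lit 156) (nat_lit 152) (nat_lit 0) (XT.nd (nat_lit 78) (nat_lit 76) (nat_lit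 0) (XT.lf (nat_lit 0) (nat_lit 17784649140) (nat_lit 152) (nat_lit 22966242914) (nat_lit 0) (nat_lit 5175580173) (nat_lit 78) (nat_lit 5) (nat_lit 80) (nat_lit 4) (nat_lit 78) (nat_lit 4) (nat_lit 483) (nat_lit 322) (nat_lit 215)) (XT.lf (nat_lit 0) (nat_lit 8837557579) (nat_lit 76) (nat_lit 25302744447) (nat_lit 76) (nat_lit 12677451482) (nat_lit 77) (nat_lit 4) (nat_lit 78) (nat_lit 5) (nat_lit 78) (nat_lit 4) (nat_lit 484) (nat_lit 322) (nat_lit 214))) (XT.nd (nat_lit 78) (nat_lit 76) (nat_lit 0) (XT.lf (nat_lit 0) (nat_lit 3384386785) (nat_lit 152) (nat_lit 5770739246) (nat_lit 76) (nat_lit 38573800581) (nat_lit 76) (nat_lit 5) (nat_lit 78) (nat_lit 5) (nat_lit 77) (nat_lit 4) (nat_lit 485) (nat_lit 322) (nat_lit 213)) (XT.lf (nat_lit 0) (nat_lit 19979264664) (nat_lit 152) (nat_lit 20983666258) (nat_lit 0) (nat_lit 7691558747) (nat_lit 75) (nat_lit 5) (nat_lit 77) (nat_lit 4) (nat_lit 75) (nat_lit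 4) (nat_lit 486) (nat_lit 322) (nat_lit 212))))))) (XT.nd (nat_lit 44772) (nat_lit 0) (nat_lit 11780) (XT.nd (nat_lit 546) (nat_lit 152) (nat_lit 0) (XT.nd (nat_lit 234) (nat_lit 304) (nat_lit 0) (XT.nd (nat_lit 78) (nat_lit 152) (nat_lit 0) (XT.lf (nat_lit 0) (nat_lit 12712215936) (nat_lit 76) (nat_lit 24595328867) (nat_lit 76) (nat_lit 12293208137) (nat_lit 74) (nat_lit 4) (nat_lit 75) (nat_lit 5) (nat_lit 75) (nat_lit 4) (nat_lit 487) (nat_lit 322) (nat_lit 211)) (XT.nd (nat_lit 78) (nat_lit 76) (nat_lit 0) (XT.lf (nat_lit 0) (nat_lit 4668755371) (nat_lit 152) (nat_lit 2838542289) (nat_lit 76) (nat_lit 43061449688) (nat_lit 73) (nat_lit 5) (nat_lit 75) (nat_lit 5) (nat_lit 74) (nat_lit 4) (nat_lit 488) (nat_lit 322) (nat_lit 210)) (XT.lf (nat_lit 0) (nat_lit 22272546292) (nat_lit 152) (nat_lit 18976221535) (nat_lit 0) (nat_lit 10301960819) (nat_lit 72) (nat_lit 5) (nat_lit 74) (nat_lit 4) (nat_lit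 72) (nat_lit 4) (nat_lit 489) (nat_lit 322) (nat_lit 209)))) (XT.nd (nat_lit 156) (nat_lit 76) (nat_lit 0) (XT.nd (nat_lit 78) (nat_lit 152) (nat_lit 0) (XT.lf (nat_lit 0) (nat_lit 16728248509) (nat_lit 76) (nat_lit 23905221573) (nat_lit 76) (nat_lit 11921828726) (nat_lit 71) (nat_lit 4) (nat_lit 72) (nat_lit 5) (nat_lit 72) (nat_lit 4) (nat_lit 490) (nat_lit 322) (nat_lit 208)) (XT.lf (nat_lit 0) (nat_lit 182610405) (nat_lit 76) (nat_lit 5816619937) (nat_lit 152) (nat_lit 47584251702) (nat_lit 69) (nat_lit 5) (nat_lit 70) (nat_lit 5) (nat_lit 71) (nat_lit 4) (nat_lit 491) (nat_lit 322) (nat_lit 207))) (XT.nd (nat_lit 78) (nat_lit 76) (nat_lit 0) (XT.lf (nat_lit 0) (nat_lit 24671812994) (nat_lit 152) (nat_lit 16939893118) (nat_lit 0) (nat_lit 13013658265) (nat_lit 69) (nat_lit 5) (nat_lit 71) (nat_lit 4) (nat_lit 69) (nat_lit 4) (nat_lit 492) (nat_lit 322) (nat_lit 206)) (XT.lf (nat_lit 0) (nat_lit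 20896731768) (nat_lit 76) (nat_lit 23232285994) (nat_lit 76) (nat_lit 11562752079) (nat_lit 68) (nat_lit 4) (nat_lit 69) (nat_lit 5) (nat_lit 69) (nat_lit 4) (nat_lit 493) (nat_lit 322) (nat_lit 205))))) (XT.nd (nat_lit 43914) (nat_lit 0) (nat_lit 17252) (XT.nd (nat_lit 43758) (nat_lit 0) (nat_lit 18848) (XT.nd (nat_lit 78) (nat_lit 0) (nat_lit 0) (XT.lf (nat_lit 0) (nat_lit 3355139382) (nat_lit 76) (nat_lit 4051619755) (nat_lit 152) (nat_lit 49376150350) (nat_lit 66) (nat_lit 5) (nat_lit 67) (nat_lit 5) (nat_lit 68) (nat_lit 4) (nat_lit 494) (nat_lit 322) (nat_lit 204)) (XT.lf (nat_lit 0) (nat_lit 27184758831) (nat_lit 152) (nat_lit 14870461209) (nat_lit 0) (nat_lit 15833974712) (nat_lit 66) (nat_lit 5) (nat_lit 68) (nat_lit 4) (nat_lit 66) (nat_lit 4) (nat_lit 495) (nat_lit 322) (nat_lit 203))) (XT.nd (nat_lit 78) (nat_lit 532) (nat_lit 0) (XT.lf (nat_lit 0) (nat_lit 1681107061) (nat_lit 608) (nat_lit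 469997621) (nat_lit 0) (nat_lit 1681107061) (nat_lit 321) (nat_lit 5) (nat_lit 329) (nat_lit 4) (nat_lit 321) (nat_lit 4) (nat_lit 374) (nat_lit 323) (nat_lit 323)) (XT.lf (nat_lit 0) (nat_lit 5412625844) (nat_lit 532) (nat_lit 1846266806) (nat_lit 532) (nat_lit 479351495) (nat_lit 314) (nat_lit 4) (nat_lit 321) (nat_lit 5) (nat_lit 321) (nat_lit 4) (nat_lit 375) (nat_lit 323) (nat_lit 322)))) (XT.nd (nat_lit 156) (nat_lit 532) (nat_lit 0) (XT.nd (nat_lit 78) (nat_lit 532) (nat_lit 0) (XT.lf (nat_lit 0) (nat_lit 3344954622) (nat_lit 532) (nat_lit 3740296607) (nat_lit 0) (nat_lit 729403597) (nat_lit 307) (nat_lit 5) (nat_lit 314) (nat_lit 4) (nat_lit 307) (nat_lit 4) (nat_lit 376) (nat_lit 323) (nat_lit 321)) (XT.lf (nat_lit 0) (nat_lit 2724030664) (nat_lit 532) (nat_lit 4518308717) (nat_lit 532) (nat_lit 651836547) (nat_lit 300) (nat_lit 4) (nat_lit 307) (nat_lit 5) (nat_lit 307) (nat_lit 4) (nat_lit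 377) (nat_lit 323) (nat_lit 320))) (XT.nd (nat_lit 78) (nat_lit 0) (nat_lit 0) (XT.lf (nat_lit 0) (nat_lit 1350502552) (nat_lit 456) (nat_lit 1817704970) (nat_lit 532) (nat_lit 4808379294) (nat_lit 293) (nat_lit 5) (nat_lit 299) (nat_lit 5) (nat_lit 300) (nat_lit 4) (nat_lit 378) (nat_lit 323) (nat_lit 319)) (XT.lf (nat_lit 0) (nat_lit 7053678510) (nat_lit 532) (nat_lit 32741275) (nat_lit 0) (nat_lit 975938825) (nat_lit 293) (nat_lit 5) (nat_lit 300) (nat_lit 4) (nat_lit 293) (nat_lit 4) (nat_lit 379) (nat_lit 323) (nat_lit 318)))))) (XT.nd (nat_lit 624) (nat_lit 2356) (nat_lit 0) (XT.nd (nat_lit 312) (nat_lit 1292) (nat_lit 0) (XT.nd (nat_lit 156) (nat_lit 912) (nat_lit 0) (XT.nd (nat_lit 78) (nat_lit 380) (nat_lit 0) (XT.lf (nat_lit 0) (nat_lit 2835840825) (nat_lit 532) (nat_lit 1432410044) (nat_lit 76) (nat_lit 3881989409) (nat_lit 286) (nat_lit 5) (nat_lit 293) (nat_lit 5) (nat_lit 287) (nat_lit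 4) (nat_lit 380) (nat_lit 323) (nat_lit 317)) (XT.lf (nat_lit 0) (nat_lit 5399987822) (nat_lit 380) (nat_lit 1333120705) (nat_lit 456) (nat_lit 1508619721) (nat_lit 281) (nat_lit 5) (nat_lit 286) (nat_lit 5) (nat_lit 287) (nat_lit 4) (nat_lit 381) (nat_lit 323) (nat_lit 316))) (XT.nd (nat_lit 78) (nat_lit 380) (nat_lit 0) (XT.lf (nat_lit 0) (nat_lit 2340681026) (nat_lit 532) (nat_lit 4292931357) (nat_lit 76) (nat_lit 1702361057) (nat_lit 274) (nat_lit 5) (nat_lit 281) (nat_lit 5) (nat_lit 275) (nat_lit 4) (nat_lit 382) (nat_lit 323) (nat_lit 315)) (XT.lf (nat_lit 0) (nat_lit 2655762010) (nat_lit 380) (nat_lit 3594368312) (nat_lit 456) (nat_lit 2183217820) (nat_lit 269) (nat_lit 5) (nat_lit 274) (nat_lit 5) (nat_lit 275) (nat_lit 4) (nat_lit 383) (nat_lit 323) (nat_lit 314)))) (XT.nd (nat_lit 156) (nat_lit 836) (nat_lit 0) (XT.nd (nat_lit 78) (nat_lit 0) (nat_lit 0) (XT.lf (nat_lit 0) (nat_lit 1247066903)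 (nat_lit 380) (nat_lit 425763818) (nat_lit 456) (nat_lit 6861401813) (nat_lit 263) (nat_lit 5) (nat_lit 268) (nat_lit 5) (nat_lit 269) (nat_lit 5) (nat_lit 384) (nat_lit 323) (nat_lit 313)) (XT.lf (nat_lit 0) (nat_lit 5595847130) (nat_lit 456) (nat_lit 214733485) (nat_lit 76) (nat_lit 2827059354) (nat_lit 263) (nat_lit 5) (nat_lit 269) (nat_lit 5) (nat_lit 264) (nat_lit 4) (nat_lit 385) (nat_lit 323) (nat_lit 312))) (XT.nd (nat_lit 78) (nat_lit 380) (nat_lit 0) (XT.lf (nat_lit 0) (nat_lit 858700989) (nat_lit 456) (nat_lit 1675264826) (nat_lit 76) (nat_lit 6210415144) (nat_lit 257) (nat_lit 5) (nat_lit 263) (nat_lit 5) (nat_lit 258) (nat_lit 5) (nat_lit 386) (nat_lit 323) (nat_lit 311)) (XT.lf (nat_lit 0) (nat_lit 4792526055) (nat_lit 456) (nat_lit 3187182314) (nat_lit 76) (nat_lit 874388702) (nat_lit 252) (nat_lit 5) (nat_lit 258) (nat_lit 5) (nat_lit 253) (nat_lit 4) (nat_lit 387) (nat_lit 323) (nat_lit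 310))))) (XT.nd (nat_lit 312) (nat_lit 1216) (nat_lit 0) (XT.nd (nat_lit 156) (nat_lit 380) (nat_lit 0) (XT.nd (nat_lit 78) (nat_lit 456) (nat_lit 0) (XT.lf (nat_lit 0) (nat_lit 4226850310) (nat_lit 304) (nat_lit 4613435010) (nat_lit 380) (nat_lit 126941764) (nat_lit 248) (nat_lit 5) (nat_lit 252) (nat_lit 5) (nat_lit 253) (nat_lit 4) (nat_lit 388) (nat_lit 323) (nat_lit 309)) (XT.lf (nat_lit 0) (nat_lit 2733183280) (nat_lit 380) (nat_lit 1088299258) (nat_lit 456) (nat_lit 5261965528) (nat_lit 242) (nat_lit 5) (nat_lit 247) (nat_lit 5) (nat_lit 248) (nat_lit 5) (nat_lit 389) (nat_lit 323) (nat_lit 308))) (XT.nd (nat_lit 78) (nat_lit 76) (nat_lit 0) (XT.lf (nat_lit 0) (nat_lit 1194696914) (nat_lit 304) (nat_lit 6689863456) (nat_lit 380) (nat_lit 1318595035) (nat_lit 238) (nat_lit 5) (nat_lit 242) (nat_lit 5) (nat_lit 243) (nat_lit 4) (nat_lit 390) (nat_lit 323) (nat_lit 307)) (XT.lf (nat_lit 0) (nat_lit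 2679999437) (nat_lit 380) (nat_lit 395404748) (nat_lit 76) (nat_lit 6250545232) (nat_lit 237) (nat_lit 5) (nat_lit 242) (nat_lit 5) (nat_lit 238) (nat_lit 5) (nat_lit 391) (nat_lit 323) (nat_lit 306)))) (XT.nd (nat_lit 156) (nat_lit 532) (nat_lit 0) (XT.nd (nat_lit 78) (nat_lit 380) (nat_lit 0) (XT.lf (nat_lit 0) (nat_lit 6767734402) (nat_lit 380) (nat_lit 2006109063) (nat_lit 76) (nat_lit 678321567) (nat_lit 233) (nat_lit 5) (nat_lit 238) (nat_lit 5) (nat_lit 234) (nat_lit 4) (nat_lit 392) (nat_lit 323) (nat_lit 305)) (XT.lf (nat_lit 0) (nat_lit 1378246737) (nat_lit 380) (nat_lit 3688105227) (nat_lit 76) (nat_lit 4515126031) (nat_lit 228) (nat_lit 5) (nat_lit 233) (nat_lit 5) (nat_lit 229) (nat_lit 5) (nat_lit 393) (nat_lit 323) (nat_lit 304))) (XT.nd (nat_lit 78) (nat_lit 228) (nat_lit 0) (XT.lf (nat_lit 0) (nat_lit 4287083210) (nat_lit 304) (nat_lit 1202009524) (nat_lit 380) (nat_lit 4225372977)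 (nat_lit 224) (nat_lit 5) (nat_lit 228) (nat_lit 5) (nat_lit 229) (nat_lit 5) (nat_lit 394) (nat_lit 323) (nat_lit 303)) (XT.lf (nat_lit 0) (nat_lit 2623497713) (nat_lit 228) (nat_lit 7108608387) (nat_lit 304) (nat_lit 119071697) (nat_lit 221) (nat_lit 5) (nat_lit 224) (nat_lit 5) (nat_lit 225) (nat_lit 4) (nat_lit 395) (nat_lit 323) (nat_lit 302))))))))
noncomputable def xc61 : XT := (XT.nd (nat_lit 2340) (nat_lit 3116) (nat_lit 0) (XT.nd (nat_lit 1170) (nat_lit 2204) (nat_lit 0) (XT.nd (nat_lit 546) (nat_lit 1748) (nat_lit 0) (XT.nd (nat_lit 234) (nat_lit 836) (nat_lit 0) (XT.nd (nat_lit 78) (nat_lit 304) (nat_lit 0) (XT.lf (nat_lit 0) (nat_lit 874140453) (nat_lit 304) (nat_lit 3151376847) (nat_lit 380) (nat_lit 5965429358) (nat_lit 216) (nat_lit 5) (nat_lit 220) (nat_lit 5) (nat_lit 221) (nat_lit 5) (nat_lit 396) (nat_lit 323) (nat_lit 301)) (XT.nd (nat_lit 78) (nat_lit 304) (nat_lit 0) (XT.lf (nat_lit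 0) (nat_lit 8294970896) (nat_lit 380) (nat_lit 904776285) (nat_lit 76) (nat_lit 935038432) (nat_lit 216) (nat_lit 5) (nat_lit 221) (nat_lit 5) (nat_lit 217) (nat_lit 4) (nat_lit 397) (nat_lit 323) (nat_lit 300)) (XT.lf (nat_lit 0) (nat_lit 2389183666) (nat_lit 304) (nat_lit 2760633220) (nat_lit 76) (nat_lit 5131628943) (nat_lit 212) (nat_lit 5) (nat_lit 216) (nat_lit 5) (nat_lit 213) (nat_lit 5) (nat_lit 398) (nat_lit 323) (nat_lit 299)))) (XT.nd (nat_lit 156) (nat_lit 228) (nat_lit 0) (XT.nd (nat_lit 78) (nat_lit 304) (nat_lit 0) (XT.lf (nat_lit 0) (nat_lit 5754454345) (nat_lit 304) (nat_lit 941117433) (nat_lit 380) (nat_lit 3736762647) (nat_lit 208) (nat_lit 5) (nat_lit 212) (nat_lit 5) (nat_lit 213) (nat_lit 5) (nat_lit 399) (nat_lit 323) (nat_lit 298)) (XT.lf (nat_lit 0) (nat_lit 554952031) (nat_lit 304) (nat_lit 6680021762) (nat_lit 76) (nat_lit 3351954563) (nat_lit 204) (nat_lit 5) (nat_lit 208)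 (nat_lit 5) (nat_lit 205) (nat_lit 5) (nat_lit 400) (nat_lit 323) (nat_lit 297))) (XT.nd (nat_lit 78) (nat_lit 0) (nat_lit 0) (XT.lf (nat_lit 0) (nat_lit 1966074937) (nat_lit 228) (nat_lit 2933995162) (nat_lit 304) (nat_lit 5844987361) (nat_lit 201) (nat_lit 5) (nat_lit 204) (nat_lit 5) (nat_lit 205) (nat_lit 5) (nat_lit 401) (nat_lit 323) (nat_lit 296)) (XT.lf (nat_lit 0) (nat_lit 9382424401) (nat_lit 304) (nat_lit 38903729) (nat_lit 76) (nat_lit 1486395827) (nat_lit 201) (nat_lit 5) (nat_lit 205) (nat_lit 5) (nat_lit 202) (nat_lit 4) (nat_lit 402) (nat_lit 323) (nat_lit 295))))) (XT.nd (nat_lit 312) (nat_lit 684) (nat_lit 0) (XT.nd (nat_lit 156) (nat_lit 532) (nat_lit 0) (XT.nd (nat_lit 78) (nat_lit 228) (nat_lit 0) (XT.lf (nat_lit 0) (nat_lit 2909356644) (nat_lit 304) (nat_lit 2115591703) (nat_lit 76) (nat_lit 6048205836) (nat_lit 197) (nat_lit 5) (nat_lit 201) (nat_lit 5) (nat_lit 198) (nat_lit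 5) (nat_lit 403) (nat_lit 323) (nat_lit 294)) (XT.lf (nat_lit 0) (nat_lit 6979262361) (nat_lit 228) (nat_lit 461453163) (nat_lit 304) (nat_lit 3802549132) (nat_lit 194) (nat_lit 5) (nat_lit 197) (nat_lit 5) (nat_lit 198) (nat_lit 5) (nat_lit 404) (nat_lit 323) (nat_lit 293))) (XT.nd (nat_lit 78) (nat_lit 228) (nat_lit 0) (XT.lf (nat_lit 0) (nat_lit 713223181) (nat_lit 304) (nat_lit 6520635256) (nat_lit 76) (nat_lit 4183306905) (nat_lit 190) (nat_lit 5) (nat_lit 194) (nat_lit 5) (nat_lit 191) (nat_lit 5) (nat_lit 405) (nat_lit 323) (nat_lit 292)) (XT.lf (nat_lit 0) (nat_lit 2710827188) (nat_lit 228) (nat_lit 2578874377) (nat_lit 304) (nat_lit 6305402202) (nat_lit 187) (nat_lit 5) (nat_lit 190) (nat_lit 5) (nat_lit 191) (nat_lit 5) (nat_lit 406) (nat_lit 323) (nat_lit 291)))) (XT.nd (nat_lit 156) (nat_lit 456) (nat_lit 0) (XT.nd (nat_lit 78) (nat_lit 76) (nat_lit 0) (XT.lf (nat_lit 0) (nat_lit 438945297)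 (nat_lit 152) (nat_lit 9584536679) (nat_lit 228) (nat_lit 1754298138) (nat_lit 185) (nat_lit 5) (nat_lit 187) (nat_lit 5) (nat_lit 188) (nat_lit 4) (nat_lit 407) (nat_lit 323) (nat_lit 290)) (XT.lf (nat_lit 0) (nat_lit 2920437544) (nat_lit 228) (nat_lit 1918256964) (nat_lit 76) (nat_lit 7125066179) (nat_lit 184) (nat_lit 5) (nat_lit 187) (nat_lit 5) (nat_lit 185) (nat_lit 5) (nat_lit 408) (nat_lit 323) (nat_lit 289))) (XT.nd (nat_lit 78) (nat_lit 228) (nat_lit 0) (XT.lf (nat_lit 0) (nat_lit 7706318251) (nat_lit 304) (nat_lit 4356538833) (nat_lit 76) (nat_lit 91757634) (nat_lit 181) (nat_lit 5) (nat_lit 185) (nat_lit 5) (nat_lit 182) (nat_lit 4) (nat_lit 409) (nat_lit 323) (nat_lit 288)) (XT.lf (nat_lit 0) (nat_lit 329893558) (nat_lit 228) (nat_lit 6921570477) (nat_lit 76) (nat_lit 5098122296) (nat_lit 178) (nat_lit 5) (nat_lit 181) (nat_lit 5) (nat_lit 179) (nat_lit 5) (nat_lit 410) (nat_lit 323) (nat_lit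 287)))))) (XT.nd (nat_lit 546) (nat_lit 1216) (nat_lit 0) (XT.nd (nat_lit 234) (nat_lit 532) (nat_lit 0) (XT.nd (nat_lit 78) (nat_lit 228) (nat_lit 0) (XT.lf (nat_lit 0) (nat_lit 2937840154) (nat_lit 228) (nat_lit 2227726519) (nat_lit 304) (nat_lit 7383412831) (nat_lit 175) (nat_lit 5) (nat_lit 178) (nat_lit 5) (nat_lit 179) (nat_lit 5) (nat_lit 411) (nat_lit 323) (nat_lit 286)) (XT.nd (nat_lit 78) (nat_lit 76) (nat_lit 0) (XT.lf (nat_lit 0) (nat_lit 338555610) (nat_lit 152) (nat_lit 9841155896) (nat_lit 228) (nat_lit 2573640920) (nat_lit 173) (nat_lit 5) (nat_lit 175) (nat_lit 5) (nat_lit 176) (nat_lit 4) (nat_lit 412) (nat_lit 323) (nat_lit 285)) (XT.lf (nat_lit 0) (nat_lit 2385451944) (nat_lit 228) (nat_lit 2344950313) (nat_lit 76) (nat_lit 8231223464) (nat_lit 172) (nat_lit 5) (nat_lit 175) (nat_lit 5) (nat_lit 173) (nat_lit 5) (nat_lit 413) (nat_lit 323) (nat_lit 284)))) (XT.nd (nat_lit 156) (nat_lit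 228) (nat_lit 0) (XT.nd (nat_lit 78) (nat_lit 152) (nat_lit 0) (XT.lf (nat_lit 0) (nat_lit 7457931503) (nat_lit 228) (nat_lit 5140627883) (nat_lit 76) (nat_lit 576333134) (nat_lit 170) (nat_lit 5) (nat_lit 173) (nat_lit 5) (nat_lit 171) (nat_lit 4) (nat_lit 414) (nat_lit 323) (nat_lit 283)) (XT.lf (nat_lit 0) (nat_lit 5317128329) (nat_lit 152) (nat_lit 7421042763) (nat_lit 228) (nat_lit 654718661) (nat_lit 168) (nat_lit 5) (nat_lit 170) (nat_lit 5) (nat_lit 171) (nat_lit 4) (nat_lit 415) (nat_lit 323) (nat_lit 282))) (XT.nd (nat_lit 78) (nat_lit 0) (nat_lit 0) (XT.lf (nat_lit 0) (nat_lit 2463057953) (nat_lit 152) (nat_lit 2017341023) (nat_lit 228) (nat_lit 9135413753) (nat_lit 165) (nat_lit 5) (nat_lit 167) (nat_lit 5) (nat_lit 168) (nat_lit 5) (nat_lit 416) (nat_lit 323) (nat_lit 281)) (XT.lf (nat_lit 0) (nat_lit 9807047816) (nat_lit 228) (nat_lit 519871208) (nat_lit 76) (nat_lit 3516790793) (nat_lit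 165) (nat_lit 5) (nat_lit 168) (nat_lit 5) (nat_lit 166) (nat_lit 4) (nat_lit 417) (nat_lit 323) (nat_lit 280))))) (XT.nd (nat_lit 312) (nat_lit 456) (nat_lit 0) (XT.nd (nat_lit 156) (nat_lit 380) (nat_lit 0) (XT.nd (nat_lit 78) (nat_lit 152) (nat_lit 0) (XT.lf (nat_lit 0) (nat_lit 1248912955) (nat_lit 228) (nat_lit 3587647033) (nat_lit 76) (nat_lit 9239806315) (nat_lit 162) (nat_lit 5) (nat_lit 165) (nat_lit 5) (nat_lit 163) (nat_lit 5) (nat_lit 418) (nat_lit 323) (nat_lit 279)) (XT.lf (nat_lit 0) (nat_lit 6634200501) (nat_lit 228) (nat_lit 6809701332) (nat_lit 76) (nat_lit 870233294) (nat_lit 160) (nat_lit 5) (nat_lit 163) (nat_lit 5) (nat_lit 161) (nat_lit 4) (nat_lit 419) (nat_lit 323) (nat_lit 278))) (XT.nd (nat_lit 78) (nat_lit 228) (nat_lit 0) (XT.lf (nat_lit 0) (nat_lit 4365808497) (nat_lit 152) (nat_lit 7878161728) (nat_lit 228) (nat_lit 2313179083) (nat_lit 158) (nat_lit 5) (nat_lit 160) (nat_lit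 5) (nat_lit 161) (nat_lit 4) (nat_lit 420) (nat_lit 323) (nat_lit 277)) (XT.lf (nat_lit 0) (nat_lit 1084227545) (nat_lit 152) (nat_lit 2084098687) (nat_lit 228) (nat_lit 11637706415) (nat_lit 155) (nat_lit 5) (nat_lit 157) (nat_lit 5) (nat_lit 158) (nat_lit 5) (nat_lit 421) (nat_lit 323) (nat_lit 276)))) (XT.nd (nat_lit 156) (nat_lit 304) (nat_lit 0) (XT.nd (nat_lit 78) (nat_lit 152) (nat_lit 0) (XT.lf (nat_lit 0) (nat_lit 8845894158) (nat_lit 228) (nat_lit 2329945670) (nat_lit 76) (nat_lit 3883512274) (nat_lit 155) (nat_lit 5) (nat_lit 158) (nat_lit 5) (nat_lit 156) (nat_lit 4) (nat_lit 422) (nat_lit 323) (nat_lit 275)) (XT.lf (nat_lit 0) (nat_lit 9454545608) (nat_lit 152) (nat_lit 5289445721) (nat_lit 228) (nat_lit 574773745) (nat_lit 153) (nat_lit 5) (nat_lit 155) (nat_lit 5) (nat_lit 156) (nat_lit 4) (nat_lit 423) (nat_lit 323) (nat_lit 274))) (XT.nd (nat_lit 78) (nat_lit 76) (nat_lit 0) (XT.lf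 (nat_lit 0) (nat_lit 5159512348) (nat_lit 228) (nat_lit 9583382385) (nat_lit 76) (nat_lit 840699874) (nat_lit 150) (nat_lit 5) (nat_lit 153) (nat_lit 5) (nat_lit 151) (nat_lit 4) (nat_lit 424) (nat_lit 323) (nat_lit 273)) (XT.lf (nat_lit 0) (nat_lit 2360301919) (nat_lit 76) (nat_lit 8767842005) (nat_lit 152) (nat_lit 4725838300) (nat_lit 149) (nat_lit 5) (nat_lit 150) (nat_lit 5) (nat_lit 151) (nat_lit 4) (nat_lit 425) (nat_lit 323) (nat_lit 272))))))) (XT.nd (nat_lit 1170) (nat_lit 1368) (nat_lit 0) (XT.nd (nat_lit 546) (nat_lit 912) (nat_lit 0) (XT.nd (nat_lit 234) (nat_lit 532) (nat_lit 0) (XT.nd (nat_lit 78) (nat_lit 228) (nat_lit 0) (XT.lf (nat_lit 0) (nat_lit 1157881071) (nat_lit 152) (nat_lit 1396184678) (nat_lit 76) (nat_lit 13576980829) (nat_lit 148) (nat_lit 5) (nat_lit 150) (nat_lit 5) (nat_lit 149) (nat_lit 5) (nat_lit 426) (nat_lit 323) (nat_lit 271)) (XT.nd (nat_lit 78) (nat_lit 76) (nat_lit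 0) (XT.lf (nat_lit 0) (nat_lit 7208946424) (nat_lit 228) (nat_lit 5327166364) (nat_lit 76) (nat_lit 3876331790) (nat_lit 146) (nat_lit 5) (nat_lit 149) (nat_lit 5) (nat_lit 147) (nat_lit 4) (nat_lit 427) (nat_lit 323) (nat_lit 270)) (XT.lf (nat_lit 0) (nat_lit 7274172736) (nat_lit 76) (nat_lit 6217889720) (nat_lit 152) (nat_lit 3208706500) (nat_lit 145) (nat_lit 5) (nat_lit 146) (nat_lit 5) (nat_lit 147) (nat_lit 4) (nat_lit 428) (nat_lit 323) (nat_lit 269)))) (XT.nd (nat_lit 156) (nat_lit 304) (nat_lit 0) (XT.nd (nat_lit 78) (nat_lit 0) (nat_lit 0) (XT.lf (nat_lit 0) (nat_lit 2938601874) (nat_lit 228) (nat_lit 13708068222) (nat_lit 76) (nat_lit 349301192) (nat_lit 142) (nat_lit 5) (nat_lit 145) (nat_lit 5) (nat_lit 143) (nat_lit 4) (nat_lit 429) (nat_lit 323) (nat_lit 268)) (XT.lf (nat_lit 0) (nat_lit 9304863990) (nat_lit 228) (nat_lit 924926453) (nat_lit 76) (nat_lit 7066315377) (nat_lit 142) (nat_lit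 5) (nat_lit 145) (nat_lit 5) (nat_lit 143) (nat_lit 4) (nat_lit 430) (nat_lit 323) (nat_lit 267))) (XT.nd (nat_lit 78) (nat_lit 228) (nat_lit 0) (XT.lf (nat_lit 0) (nat_lit 12375876754) (nat_lit 76) (nat_lit 3548240968) (nat_lit 152) (nat_lit 1679266553) (nat_lit 141) (nat_lit 5) (nat_lit 142) (nat_lit 5) (nat_lit 143) (nat_lit 4) (nat_lit 431) (nat_lit 323) (nat_lit 266)) (XT.lf (nat_lit 0) (nat_lit 4792054118) (nat_lit 228) (nat_lit 9769600739) (nat_lit 76) (nat_lit 3354913185) (nat_lit 138) (nat_lit 5) (nat_lit 141) (nat_lit 5) (nat_lit 139) (nat_lit 4) (nat_lit 432) (nat_lit 323) (nat_lit 265))))) (XT.nd (nat_lit 312) (nat_lit 532) (nat_lit 0) (XT.nd (nat_lit 156) (nat_lit 304) (nat_lit 0) (XT.nd (nat_lit 78) (nat_lit 0) (nat_lit 0) (XT.lf (nat_lit 0) (nat_lit 3704720566) (nat_lit 76) (nat_lit 7786367306) (nat_lit 152) (nat_lit 6745540906) (nat_lit 137) (nat_lit 5) (nat_lit 138) (nat_lit 5) (nat_lit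 139) (nat_lit 4) (nat_lit 433) (nat_lit 323) (nat_lit 264)) (XT.lf (nat_lit 0) (nat_lit 17677030105) (nat_lit 76) (nat_lit 756616493) (nat_lit 152) (nat_lit 131368119) (nat_lit 137) (nat_lit 5) (nat_lit 138) (nat_lit 5) (nat_lit 139) (nat_lit 4) (nat_lit 434) (nat_lit 323) (nat_lit 263))) (XT.nd (nat_lit 78) (nat_lit 76) (nat_lit 0) (XT.lf (nat_lit 0) (nat_lit 6687016908) (nat_lit 228) (nat_lit 5707715315) (nat_lit 76) (nat_lit 6502508432) (nat_lit 134) (nat_lit 5) (nat_lit 137) (nat_lit 5) (nat_lit 135) (nat_lit 4) (nat_lit 435) (nat_lit 323) (nat_lit 262)) (XT.lf (nat_lit 0) (nat_lit 8521160065) (nat_lit 76) (nat_lit 5229741084) (nat_lit 152) (nat_lit 5487185561) (nat_lit 133) (nat_lit 5) (nat_lit 134) (nat_lit 5) (nat_lit 135) (nat_lit 4) (nat_lit 436) (nat_lit 323) (nat_lit 261)))) (XT.nd (nat_lit 156) (nat_lit 304) (nat_lit 0) (XT.nd (nat_lit 78) (nat_lit 0) (nat_lit 0) (XT.lf (nat_lit 0) (nat_lit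 1469316050) (nat_lit 228) (nat_lit 15950056801) (nat_lit 76) (nat_lit 2167576021) (nat_lit 130) (nat_lit 5) (nat_lit 133) (nat_lit 5) (nat_lit 131) (nat_lit 4) (nat_lit 437) (nat_lit 323) (nat_lit 260)) (XT.lf (nat_lit 0) (nat_lit 8630616243) (nat_lit 228) (nat_lit 1514023918) (nat_lit 76) (nat_lit 9796815164) (nat_lit 130) (nat_lit 5) (nat_lit 133) (nat_lit 5) (nat_lit 131) (nat_lit 4) (nat_lit 438) (nat_lit 323) (nat_lit 259))) (XT.nd (nat_lit 78) (nat_lit 228) (nat_lit 0) (XT.lf (nat_lit 0) (nat_lit 13517084344) (nat_lit 76) (nat_lit 2566517704) (nat_lit 152) (nat_lit 4220689527) (nat_lit 129) (nat_lit 5) (nat_lit 130) (nat_lit 5) (nat_lit 131) (nat_lit 4) (nat_lit 439) (nat_lit 323) (nat_lit 258)) (XT.lf (nat_lit 0) (nat_lit 3116163307) (nat_lit 228) (nat_lit 12342356618) (nat_lit 76) (nat_lit 5215779870) (nat_lit 126) (nat_lit 5) (nat_lit 129) (nat_lit 5) (nat_lit 127) (nat_lit 4) (nat_lit 440)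 (nat_lit 323) (nat_lit 257)))))) (XT.nd (nat_lit 624) (nat_lit 608) (nat_lit 0) (XT.nd (nat_lit 312) (nat_lit 380) (nat_lit 0) (XT.nd (nat_lit 156) (nat_lit 304) (nat_lit 0) (XT.nd (nat_lit 78) (nat_lit 0) (nat_lit 0) (XT.lf (nat_lit 0) (nat_lit 2876763892) (nat_lit 76) (nat_lit 7780886548) (nat_lit 152) (nat_lit 10394423339) (nat_lit 125) (nat_lit 5) (nat_lit 126) (nat_lit 5) (nat_lit 127) (nat_lit 4) (nat_lit 441) (nat_lit 323) (nat_lit 256)) (XT.lf (nat_lit 0) (nat_lit 18499655309) (nat_lit 152) (nat_lit 2736477751) (nat_lit 0) (nat_lit 202819728) (nat_lit 125) (nat_lit 5) (nat_lit 127) (nat_lit 4) (nat_lit 125) (nat_lit 4) (nat_lit 442) (nat_lit 323) (nat_lit 255))) (XT.nd (nat_lit 78) (nat_lit 76) (nat_lit 0) (XT.lf (nat_lit 0) (nat_lit 4801621652) (nat_lit 228) (nat_lit 8631996397) (nat_lit 76) (nat_lit 8397814640) (nat_lit 122) (nat_lit 5) (nat_lit 125) (nat_lit 5) (nat_lit 123) (nat_lit 4) (nat_lit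 443) (nat_lit 323) (nat_lit 254)) (XT.lf (nat_lit 0) (nat_lit 7451575829) (nat_lit 76) (nat_lit 5312421913) (nat_lit 152) (nat_lit 9469366996) (nat_lit 121) (nat_lit 5) (nat_lit 122) (nat_lit 5) (nat_lit 123) (nat_lit 4) (nat_lit 444) (nat_lit 323) (nat_lit 253)))) (XT.nd (nat_lit 156) (nat_lit 152) (nat_lit 0) (XT.nd (nat_lit 78) (nat_lit 76) (nat_lit 0) (XT.lf (nat_lit 0) (nat_lit 1448714967) (nat_lit 152) (nat_lit 19596689936) (nat_lit 152) (nat_lit 1599545049) (nat_lit 119) (nat_lit 4) (nat_lit 121) (nat_lit 5) (nat_lit 121) (nat_lit 4) (nat_lit 445) (nat_lit 323) (nat_lit 252)) (XT.lf (nat_lit 0) (nat_lit 6531659148) (nat_lit 228) (nat_lit 4811135036) (nat_lit 76) (nat_lit 11719644735) (nat_lit 118) (nat_lit 5) (nat_lit 121) (nat_lit 5) (nat_lit 119) (nat_lit 4) (nat_lit 446) (nat_lit 323) (nat_lit 251))) (XT.nd (nat_lit 78) (nat_lit 76) (nat_lit 0) (XT.lf (nat_lit 0) (nat_lit 12191209106) (nat_lit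 76) (nat_lit 2751025720) (nat_lit 152) (nat_lit 8547715076) (nat_lit 117) (nat_lit 5) (nat_lit 118) (nat_lit 5) (nat_lit 119) (nat_lit 4) (nat_lit 447) (nat_lit 323) (nat_lit 250)) (XT.lf (nat_lit 0) (nat_lit 5831663477) (nat_lit 76) (nat_lit 17887685666) (nat_lit 76) (nat_lit 207510431) (nat_lit 116) (nat_lit 4) (nat_lit 117) (nat_lit 5) (nat_lit 117) (nat_lit 4) (nat_lit 448) (nat_lit 323) (nat_lit 249))))) (XT.nd (nat_lit 312) (nat_lit 228) (nat_lit 0) (XT.nd (nat_lit 156) (nat_lit 228) (nat_lit 0) (XT.nd (nat_lit 78) (nat_lit 76) (nat_lit 0) (XT.lf (nat_lit 0) (nat_lit 8312299006) (nat_lit 152) (nat_lit 871297229) (nat_lit 76) (nat_lit 15188073476) (nat_lit 115) (nat_lit 5) (nat_lit 117) (nat_lit 5) (nat_lit 116) (nat_lit 4) (nat_lit 449) (nat_lit 323) (nat_lit 248)) (XT.lf (nat_lit 0) (nat_lit 17107414193) (nat_lit 76) (nat_lit 92522550) (nat_lit 152) (nat_lit 7626333630) (nat_lit 114) (nat_lit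 5) (nat_lit 115) (nat_lit 5) (nat_lit 116) (nat_lit 4) (nat_lit 450) (nat_lit 323) (nat_lit 247))) (XT.nd (nat_lit 78) (nat_lit 76) (nat_lit 0) (XT.lf (nat_lit 0) (nat_lit 1190203916) (nat_lit 152) (nat_lit 14933216151) (nat_lit 76) (nat_lit 9166247762) (nat_lit 112) (nat_lit 5) (nat_lit 114) (nat_lit 5) (nat_lit 113) (nat_lit 4) (nat_lit 451) (nat_lit 323) (nat_lit 246)) (XT.lf (nat_lit 0) (nat_lit 3260257317) (nat_lit 76) (nat_lit 6920736837) (nat_lit 152) (nat_lit 15581816656) (nat_lit 111) (nat_lit 5) (nat_lit 112) (nat_lit 5) (nat_lit 113) (nat_lit 4) (nat_lit 452) (nat_lit 323) (nat_lit 245)))) (XT.nd (nat_lit 156) (nat_lit 76) (nat_lit 0) (XT.nd (nat_lit 78) (nat_lit 152) (nat_lit 0) (XT.lf (nat_lit 0) (nat_lit 19570518995) (nat_lit 152) (nat_lit 4059906891) (nat_lit 0) (nat_lit 2615851867) (nat_lit 111) (nat_lit 5) (nat_lit 113) (nat_lit 4) (nat_lit 111) (nat_lit 4) (nat_lit 453) (nat_lit 323)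 (nat_lit 244)) (XT.lf (nat_lit 0) (nat_lit 2617313806) (nat_lit 152) (nat_lit 11694443398) (nat_lit 76) (nat_lit 12426714248) (nat_lit 109) (nat_lit 5) (nat_lit 111) (nat_lit 5) (nat_lit 110) (nat_lit 4) (nat_lit 454) (nat_lit 323) (nat_lit 243))) (XT.nd (nat_lit 78) (nat_lit 0) (nat_lit 0) (XT.lf (nat_lit 0) (nat_lit 7549775832) (nat_lit 76) (nat_lit 4572760176) (nat_lit 152) (nat_lit 15118886047) (nat_lit 108) (nat_lit 5) (nat_lit 109) (nat_lit 5) (nat_lit 110) (nat_lit 4) (nat_lit 455) (nat_lit 323) (nat_lit 242)) (XT.lf (nat_lit 0) (nat_lit 22038261399) (nat_lit 152) (nat_lit 289719294) (nat_lit 0) (nat_lit 5427720088) (nat_lit 108) (nat_lit 5) (nat_lit 110) (nat_lit 4) (nat_lit 108) (nat_lit 4) (nat_lit 456) (nat_lit 323) (nat_lit 241))))))))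
noncomputable def xc62 : XT := (XT.nd (nat_lit 2340) (nat_lit 760) (nat_lit 0) (XT.nd (nat_lit 1170) (nat_lit 1216) (nat_lit 0) (XT.nd (nat_lit 546) (nat_lit 608) (nat_lit 0) (XT.nd (nat_lit 234) (nat_lit 304) (nat_lit 0) (XT.nd (nat_lit 78) (nat_lit 152) (nat_lit 0) (XT.lf (nat_lit 0) (nat_lit 4082571489) (nat_lit 152) (nat_lit 8369942849) (nat_lit 76) (nat_lit 15825932425) (nat_lit 106) (nat_lit 5) (nat_lit 108) (nat_lit 5) (nat_lit 107) (nat_lit 4) (nat_lit 457) (nat_lit 323) (nat_lit 240)) (XT.nd (nat_lit 78) (nat_lit 76) (nat_lit 0) (XT.lf (nat_lit 0) (nat_lit 11990588395) (nat_lit 76) (nat_lit 2144290161) (nat_lit 152) (nat_lit 14678101998) (nat_lit 105) (nat_lit 5) (nat_lit 106) (nat_lit 5) (nat_lit 107) (nat_lit 4) (nat_lit 458) (nat_lit 323) (nat_lit 239)) (XT.lf (nat_lit 0) (nat_lit 3673256690) (nat_lit 76) (nat_lit 20972661951) (nat_lit 76) (nat_lit 4712916803) (nat_lit 104) (nat_lit 4) (nat_lit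 105) (nat_lit 5) (nat_lit 105) (nat_lit 4) (nat_lit 459) (nat_lit 323) (nat_lit 238)))) (XT.nd (nat_lit 156) (nat_lit 152) (nat_lit 0) (XT.nd (nat_lit 78) (nat_lit 76) (nat_lit 0) (XT.lf (nat_lit 0) (nat_lit 5590758424) (nat_lit 152) (nat_lit 4952283685) (nat_lit 76) (nat_lit 19371987252) (nat_lit 103) (nat_lit 5) (nat_lit 105) (nat_lit 5) (nat_lit 104) (nat_lit 4) (nat_lit 460) (nat_lit 323) (nat_lit 237)) (XT.lf (nat_lit 0) (nat_lit 16228263750) (nat_lit 152) (nat_lit 13892499917) (nat_lit 0) (nat_lit 362162209) (nat_lit 102) (nat_lit 5) (nat_lit 104) (nat_lit 4) (nat_lit 102) (nat_lit 4) (nat_lit 461) (nat_lit 323) (nat_lit 236))) (XT.nd (nat_lit 78) (nat_lit 76) (nat_lit 0) (XT.lf (nat_lit 0) (nat_lit 7775295416) (nat_lit 76) (nat_lit 19595658272) (nat_lit 76) (nat_lit 3691323815) (nat_lit 101) (nat_lit 4) (nat_lit 102) (nat_lit 5) (nat_lit 102) (nat_lit 4) (nat_lit 462) (nat_lit 323) (nat_lit 235))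 (XT.lf (nat_lit 0) (nat_lit 7146759911) (nat_lit 152) (nat_lit 1433531172) (nat_lit 76) (nat_lit 23073701662) (nat_lit 100) (nat_lit 5) (nat_lit 102) (nat_lit 5) (nat_lit 101) (nat_lit 4) (nat_lit 463) (nat_lit 323) (nat_lit 234))))) (XT.nd (nat_lit 312) (nat_lit 304) (nat_lit 0) (XT.nd (nat_lit 156) (nat_lit 152) (nat_lit 0) (XT.nd (nat_lit 78) (nat_lit 76) (nat_lit 0) (XT.lf (nat_lit 0) (nat_lit 18427540500) (nat_lit 152) (nat_lit 10913657761) (nat_lit 0) (nat_lit 2915412362) (nat_lit 99) (nat_lit 5) (nat_lit 101) (nat_lit 4) (nat_lit 99) (nat_lit 4) (nat_lit 464) (nat_lit 323) (nat_lit 233)) (XT.lf (nat_lit 0) (nat_lit 12021045184) (nat_lit 76) (nat_lit 18198586414) (nat_lit 76) (nat_lit 2652488825) (nat_lit 98) (nat_lit 4) (nat_lit 99) (nat_lit 5) (nat_lit 99) (nat_lit 4) (nat_lit 465) (nat_lit 323) (nat_lit 232))) (XT.nd (nat_lit 78) (nat_lit 0) (nat_lit 0) (XT.lf (nat_lit 0) (nat_lit 2238449841)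 (nat_lit 76) (nat_lit 6538657291) (nat_lit 152) (nat_lit 24723715656) (nat_lit 96) (nat_lit 5) (nat_lit 97) (nat_lit 5) (nat_lit 98) (nat_lit 4) (nat_lit 466) (nat_lit 323) (nat_lit 231)) (XT.lf (nat_lit 0) (nat_lit 20719328350) (nat_lit 152) (nat_lit 7858655115) (nat_lit 0) (nat_lit 5562923396) (nat_lit 96) (nat_lit 5) (nat_lit 98) (nat_lit 4) (nat_lit 96) (nat_lit 4) (nat_lit 467) (nat_lit 323) (nat_lit 230)))) (XT.nd (nat_lit 156) (nat_lit 76) (nat_lit 0) (XT.nd (nat_lit 78) (nat_lit 152) (nat_lit 0) (XT.lf (nat_lit 0) (nat_lit 16421583605) (nat_lit 76) (nat_lit 16779873497) (nat_lit 76) (nat_lit 1593287127) (nat_lit 95) (nat_lit 4) (nat_lit 96) (nat_lit 5) (nat_lit 96) (nat_lit 4) (nat_lit 468) (nat_lit 323) (nat_lit 229)) (XT.lf (nat_lit 0) (nat_lit 6059862716) (nat_lit 76) (nat_lit 4420803014) (nat_lit 152) (nat_lit 24981553337) (nat_lit 93) (nat_lit 5) (nat_lit 94) (nat_lit 5) (nat_lit 95) (nat_lit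 4) (nat_lit 469) (nat_lit 323) (nat_lit 228))) (XT.nd (nat_lit 78) (nat_lit 76) (nat_lit 0) (XT.lf (nat_lit 0) (nat_lit 23111153995) (nat_lit 152) (nat_lit 4720474462) (nat_lit 0) (nat_lit 8310826231) (nat_lit 93) (nat_lit 5) (nat_lit 95) (nat_lit 4) (nat_lit 93) (nat_lit 4) (nat_lit 470) (nat_lit 323) (nat_lit 227)) (XT.lf (nat_lit 0) (nat_lit 20988680461) (nat_lit 76) (nat_lit 15337692990) (nat_lit 76) (nat_lit 510549429) (nat_lit 92) (nat_lit 4) (nat_lit 93) (nat_lit 5) (nat_lit 93) (nat_lit 4) (nat_lit 471) (nat_lit 323) (nat_lit 226)))))) (XT.nd (nat_lit 546) (nat_lit 608) (nat_lit 0) (XT.nd (nat_lit 234) (nat_lit 304) (nat_lit 0) (XT.nd (nat_lit 78) (nat_lit 152) (nat_lit 0) (XT.lf (nat_lit 0) (nat_lit 10011923094) (nat_lit 76) (nat_lit 2236895334) (nat_lit 152) (nat_lit 25296694303) (nat_lit 90) (nat_lit 5) (nat_lit 91) (nat_lit 5) (nat_lit 92) (nat_lit 4) (nat_lit 472) (nat_lit 323) (nat_lit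 225)) (XT.nd (nat_lit 78) (nat_lit 152) (nat_lit 0) (XT.lf (nat_lit 0) (nat_lit 25610870854) (nat_lit 152) (nat_lit 1491663697) (nat_lit 0) (nat_lit 11165769127) (nat_lit 90) (nat_lit 5) (nat_lit 92) (nat_lit 4) (nat_lit 90) (nat_lit 4) (nat_lit 473) (nat_lit 323) (nat_lit 224)) (XT.lf (nat_lit 0) (nat_lit 587266851) (nat_lit 152) (nat_lit 13276775506) (nat_lit 76) (nat_lit 25141632743) (nat_lit 88) (nat_lit 5) (nat_lit 90) (nat_lit 5) (nat_lit 89) (nat_lit 4) (nat_lit 474) (nat_lit 323) (nat_lit 223)))) (XT.nd (nat_lit 156) (nat_lit 152) (nat_lit 0) (XT.nd (nat_lit 78) (nat_lit 76) (nat_lit 0) (XT.lf (nat_lit 0) (nat_lit 14087379216) (nat_lit 152) (nat_lit 25653235351) (nat_lit 0) (nat_lit 17419257) (nat_lit 87) (nat_lit 5) (nat_lit 89) (nat_lit 4) (nat_lit 87) (nat_lit 4) (nat_lit 475) (nat_lit 323) (nat_lit 222)) (XT.lf (nat_lit 0) (nat_lit 1872215258) (nat_lit 76) (nat_lit 26372472955) (nat_lit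 76) (nat_lit 12280709298) (nat_lit 86) (nat_lit 4) (nat_lit 87) (nat_lit 5) (nat_lit 87) (nat_lit 4) (nat_lit 476) (nat_lit 323) (nat_lit 221))) (XT.nd (nat_lit 78) (nat_lit 76) (nat_lit 0) (XT.lf (nat_lit 0) (nat_lit 1704607383) (nat_lit 152) (nat_lit 10652579307) (nat_lit 76) (nat_lit 28951464996) (nat_lit 85) (nat_lit 5) (nat_lit 87) (nat_lit 5) (nat_lit 86) (nat_lit 4) (nat_lit 477) (nat_lit 323) (nat_lit 220)) (XT.lf (nat_lit 0) (nat_lit 16024282467) (nat_lit 152) (nat_lit 23780171433) (nat_lit 0) (nat_lit 2302452980) (nat_lit 84) (nat_lit 5) (nat_lit 86) (nat_lit 4) (nat_lit 84) (nat_lit 4) (nat_lit 478) (nat_lit 323) (nat_lit 219))))) (XT.nd (nat_lit 312) (nat_lit 304) (nat_lit 0) (XT.nd (nat_lit 156) (nat_lit 152) (nat_lit 0) (XT.nd (nat_lit 78) (nat_lit 76) (nat_lit 0) (XT.lf (nat_lit 0) (nat_lit 5374820253) (nat_lit 76) (nat_lit 25644065563) (nat_lit 76) (nat_lit 11902863773) (nat_lit 83)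 (nat_lit 4) (nat_lit 84) (nat_lit 5) (nat_lit 84) (nat_lit 4) (nat_lit 479) (nat_lit 323) (nat_lit 218)) (XT.lf (nat_lit 0) (nat_lit 2854768636) (nat_lit 152) (nat_lit 7964829519) (nat_lit 76) (nat_lit 32934503833) (nat_lit 82) (nat_lit 5) (nat_lit 84) (nat_lit 5) (nat_lit 83) (nat_lit 4) (nat_lit 480) (nat_lit 323) (nat_lit 217))) (XT.nd (nat_lit 78) (nat_lit 76) (nat_lit 0) (XT.lf (nat_lit 0) (nat_lit 18044207087) (nat_lit 152) (nat_lit 21889587161) (nat_lit 0) (nat_lit 4667245821) (nat_lit 81) (nat_lit 5) (nat_lit 83) (nat_lit 4) (nat_lit 81) (nat_lit 4) (nat_lit 481) (nat_lit 323) (nat_lit 216)) (XT.lf (nat_lit 0) (nat_lit 8995512158) (nat_lit 76) (nat_lit 24932444304) (nat_lit 76) (nat_lit 11538270997) (nat_lit 80) (nat_lit 4) (nat_lit 81) (nat_lit 5) (nat_lit 81) (nat_lit 4) (nat_lit 482) (nat_lit 323) (nat_lit 215)))) (XT.nd (nat_lit 156) (nat_lit 152) (nat_lit 0) (XT.nd (nat_lit 78) (nat_lit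 76) (nat_lit 0) (XT.lf (nat_lit 0) (nat_lit 4041190546) (nat_lit 152) (nat_lit 5207267214) (nat_lit 76) (nat_lit 37102167707) (nat_lit 79) (nat_lit 5) (nat_lit 81) (nat_lit 5) (nat_lit 80) (nat_lit 4) (nat_lit 483) (nat_lit 323) (nat_lit 214)) (XT.lf (nat_lit 0) (nat_lit 20153617974) (nat_lit 152) (nat_lit 19977994771) (nat_lit 0) (nat_lit 7117590767) (nat_lit 78) (nat_lit 5) (nat_lit 80) (nat_lit 4) (nat_lit 78) (nat_lit 4) (nat_lit 484) (nat_lit 323) (nat_lit 213))) (XT.nd (nat_lit 78) (nat_lit 76) (nat_lit 0) (XT.lf (nat_lit 0) (nat_lit 12743868408) (nat_lit 76) (nat_lit 24237614220) (nat_lit 76) (nat_lit 11186294338) (nat_lit 77) (nat_lit 4) (nat_lit 78) (nat_lit 5) (nat_lit 78) (nat_lit 4) (nat_lit 485) (nat_lit 323) (nat_lit 212)) (XT.lf (nat_lit 0) (nat_lit 5267434271) (nat_lit 152) (nat_lit 2373275568) (nat_lit 76) (nat_lit 41466639094) (nat_lit 76) (nat_lit 5) (nat_lit 78) (nat_lit 5) (nat_lit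 77) (nat_lit 4) (nat_lit 486) (nat_lit 323) (nat_lit 211))))))) (XT.nd (nat_lit 44616) (nat_lit 0) (nat_lit 12312) (XT.nd (nat_lit 546) (nat_lit 228) (nat_lit 0) (XT.nd (nat_lit 234) (nat_lit 228) (nat_lit 0) (XT.nd (nat_lit 78) (nat_lit 228) (nat_lit 0) (XT.lf (nat_lit 0) (nat_lit 22359289063) (nat_lit 152) (nat_lit 18041720967) (nat_lit 0) (nat_lit 9659694935) (nat_lit 75) (nat_lit 5) (nat_lit 77) (nat_lit 4) (nat_lit 75) (nat_lit 4) (nat_lit 487) (nat_lit 323) (nat_lit 210)) (XT.nd (nat_lit 78) (nat_lit 152) (nat_lit 0) (XT.lf (nat_lit 0) (nat_lit 16630023426) (nat_lit 76) (nat_lit 23559525126) (nat_lit 76) (nat_lit 10846343654) (nat_lit 74) (nat_lit 4) (nat_lit 75) (nat_lit 5) (nat_lit 75) (nat_lit 4) (nat_lit 488) (nat_lit 323) (nat_lit 209)) (XT.lf (nat_lit 0) (nat_lit 554966855) (nat_lit 76) (nat_lit 5987565126) (nat_lit 152) (nat_lit 45491266369) (nat_lit 72) (nat_lit 5) (nat_lit 73) (nat_lit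 5) (nat_lit 74) (nat_lit 4) (nat_lit 489) (nat_lit 323) (nat_lit 208)))) (XT.nd (nat_lit 156) (nat_lit 152) (nat_lit 0) (XT.nd (nat_lit 78) (nat_lit 76) (nat_lit 0) (XT.lf (nat_lit 0) (nat_lit 24668329478) (nat_lit 152) (nat_lit 16076899697) (nat_lit 0) (nat_lit 12300193126) (nat_lit 72) (nat_lit 5) (nat_lit 74) (nat_lit 4) (nat_lit 72) (nat_lit 4) (nat_lit 490) (nat_lit 323) (nat_lit 207)) (XT.lf (nat_lit 0) (nat_lit 20664698482) (nat_lit 76) (nat_lit 22898079355) (nat_lit 76) (nat_lit 10517870825) (nat_lit 71) (nat_lit 4) (nat_lit 72) (nat_lit 5) (nat_lit 72) (nat_lit 4) (nat_lit 491) (nat_lit 323) (nat_lit 206))) (XT.nd (nat_lit 78) (nat_lit 0) (nat_lit 0) (XT.lf (nat_lit 0) (nat_lit 3623057058) (nat_lit 76) (nat_lit 4266098680) (nat_lit 152) (nat_lit 47250532313) (nat_lit 69) (nat_lit 5) (nat_lit 70) (nat_lit 5) (nat_lit 71) (nat_lit 4) (nat_lit 492) (nat_lit 323) (nat_lit 205)) (XT.lf (nat_lit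 0) (nat_lit 27088210521) (nat_lit 152) (nat_lit 14079463845) (nat_lit 0) (nat_lit 15046163649) (nat_lit 69) (nat_lit 5) (nat_lit 71) (nat_lit 4) (nat_lit 69) (nat_lit 4) (nat_lit 493) (nat_lit 323) (nat_lit 204))))) (XT.nd (nat_lit 43758) (nat_lit 0) (nat_lit 17708) (XT.nd (nat_lit 43602) (nat_lit 0) (nat_lit 19380) (XT.nd (nat_lit 78) (nat_lit 152) (nat_lit 0) (XT.lf (nat_lit 0) (nat_lit 24859234042) (nat_lit 76) (nat_lit 22253138605) (nat_lit 76) (nat_lit 10200365759) (nat_lit 68) (nat_lit 4) (nat_lit 69) (nat_lit 5) (nat_lit 69) (nat_lit 4) (nat_lit 494) (nat_lit 323) (nat_lit 203)) (XT.lf (nat_lit 0) (nat_lit 6791718913) (nat_lit 76) (nat_lit 2496411789) (nat_lit 152) (nat_lit 49148491006) (nat_lit 66) (nat_lit 5) (nat_lit 67) (nat_lit 5) (nat_lit 68) (nat_lit 4) (nat_lit 495) (nat_lit 323) (nat_lit 202))) (XT.nd (nat_lit 78) (nat_lit 608) (nat_lit 0) (XT.lf (nat_lit 0) (nat_lit 956750228) (nat_lit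 608) (nat_lit 1402699730) (nat_lit 608) (nat_lit 1402699730) (nat_lit 329) (nat_lit 4) (nat_lit 337) (nat_lit 5) (nat_lit 337) (nat_lit 4) (nat_lit 372) (nat_lit 324) (nat_lit 324)) (XT.lf (nat_lit 0) (nat_lit 463181473) (nat_lit 532) (nat_lit 479351495) (nat_lit 608) (nat_lit 6651552602) (nat_lit 321) (nat_lit 5) (nat_lit 328) (nat_lit 5) (nat_lit 329) (nat_lit 4) (nat_lit 373) (nat_lit 324) (nat_lit 323)))) (XT.nd (nat_lit 156) (nat_lit 1064) (nat_lit 0) (XT.nd (nat_lit 78) (nat_lit 608) (nat_lit 0) (XT.lf (nat_lit 0) (nat_lit 4719629977) (nat_lit 608) (nat_lit 1001516821) (nat_lit 0) (nat_lit 1944791895) (nat_lit 321) (nat_lit 5) (nat_lit 329) (nat_lit 4) (nat_lit 321) (nat_lit 4) (nat_lit 374) (nat_lit 324) (nat_lit 322)) (XT.lf (nat_lit 0) (nat_lit 808722669) (nat_lit 608) (nat_lit 2460233306) (nat_lit 76) (nat_lit 4472072255) (nat_lit 313) (nat_lit 5) (nat_lit 321) (nat_lit 5) (nat_lit 314) (nat_lit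 4) (nat_lit 375) (nat_lit 324) (nat_lit 321))) (XT.nd (nat_lit 78) (nat_lit 608) (nat_lit 0) (XT.lf (nat_lit 0) (nat_lit 3878421383) (nat_lit 456) (nat_lit 687495113) (nat_lit 532) (nat_lit 3253116933) (nat_lit 307) (nat_lit 5) (nat_lit 313) (nat_lit 5) (nat_lit 314) (nat_lit 4) (nat_lit 376) (nat_lit 324) (nat_lit 320)) (XT.lf (nat_lit 0) (nat_lit 496136816) (nat_lit 608) (nat_lit 5440716293) (nat_lit 76) (nat_lit 1963266251) (nat_lit 299) (nat_lit 5) (nat_lit 307) (nat_lit 5) (nat_lit 300) (nat_lit 4) (nat_lit 377) (nat_lit 324) (nat_lit 319)))))) (XT.nd (nat_lit 624) (nat_lit 2660) (nat_lit 0) (XT.nd (nat_lit 312) (nat_lit 1368) (nat_lit 0) (XT.nd (nat_lit 156) (nat_lit 836) (nat_lit 0) (XT.nd (nat_lit 78) (nat_lit 76) (nat_lit 0) (XT.lf (nat_lit 0) (nat_lit 1005743249) (nat_lit 456) (nat_lit 3246833319) (nat_lit 532) (nat_lit 3731292244) (nat_lit 293) (nat_lit 5) (nat_lit 299) (nat_lit 5) (nat_lit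 300) (nat_lit 4) (nat_lit 378) (nat_lit 324) (nat_lit 318)) (XT.lf (nat_lit 0) (nat_lit 10178750) (nat_lit 532) (nat_lit 437312341) (nat_lit 76) (nat_lit 7623836589) (nat_lit 292) (nat_lit 5) (nat_lit 299) (nat_lit 5) (nat_lit 293) (nat_lit 5) (nat_lit 379) (nat_lit 324) (nat_lit 317))) (XT.nd (nat_lit 78) (nat_lit 380) (nat_lit 0) (XT.lf (nat_lit 0) (nat_lit 3780129550) (nat_lit 532) (nat_lit 1921661745) (nat_lit 76) (nat_lit 2458773784) (nat_lit 286) (nat_lit 5) (nat_lit 293) (nat_lit 5) (nat_lit 287) (nat_lit 4) (nat_lit 380) (nat_lit 324) (nat_lit 316)) (XT.lf (nat_lit 0) (nat_lit 4839423119) (nat_lit 380) (nat_lit 2787362407) (nat_lit 456) (nat_lit 626785876) (nat_lit 281) (nat_lit 5) (nat_lit 286) (nat_lit 5) (nat_lit 287) (nat_lit 4) (nat_lit 381) (nat_lit 324) (nat_lit 315)))) (XT.nd (nat_lit 156) (nat_lit 456) (nat_lit 0) (XT.nd (nat_lit 78) (nat_lit 380) (nat_lit 0) (XT.lf (nat_lit 0) (nat_lit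 3139987321) (nat_lit 532) (nat_lit 4946277062) (nat_lit 76) (nat_lit 263257501) (nat_lit 274) (nat_lit 5) (nat_lit 281) (nat_lit 5) (nat_lit 275) (nat_lit 4) (nat_lit 382) (nat_lit 324) (nat_lit 314)) (XT.lf (nat_lit 0) (nat_lit 1926939796) (nat_lit 380) (nat_lit 5071147897) (nat_lit 456) (nat_lit 1450349362) (nat_lit 269) (nat_lit 5) (nat_lit 274) (nat_lit 5) (nat_lit 275) (nat_lit 4) (nat_lit 383) (nat_lit 324) (nat_lit 313))) (XT.nd (nat_lit 78) (nat_lit 0) (nat_lit 0) (XT.lf (nat_lit 0) (nat_lit 418409874) (nat_lit 380) (nat_lit 1920956280) (nat_lit 456) (nat_lit 6211304913) (nat_lit 263) (nat_lit 5) (nat_lit 268) (nat_lit 5) (nat_lit 269) (nat_lit 5) (nat_lit 384) (nat_lit 324) (nat_lit 312)) (XT.lf (nat_lit 0) (nat_lit 6204472324) (nat_lit 456) (nat_lit 1107516410) (nat_lit 76) (nat_lit 1343827075) (nat_lit 263) (nat_lit 5) (nat_lit 269) (nat_lit 5) (nat_lit 264) (nat_lit 4) (nat_lit 385) (nat_lit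 324) (nat_lit 311))))) (XT.nd (nat_lit 312) (nat_lit 1064) (nat_lit 0) (XT.nd (nat_lit 156) (nat_lit 760) (nat_lit 0) (XT.nd (nat_lit 78) (nat_lit 380) (nat_lit 0) (XT.lf (nat_lit 0) (nat_lit 1385504595) (nat_lit 456) (nat_lit 2672156487) (nat_lit 76) (nat_lit 4706289163) (nat_lit 257) (nat_lit 5) (nat_lit 263) (nat_lit 5) (nat_lit 258) (nat_lit 5) (nat_lit 386) (nat_lit 324) (nat_lit 310)) (XT.lf (nat_lit 0) (nat_lit 4597310440) (nat_lit 380) (nat_lit 661056410) (nat_lit 456) (nat_lit 3617128392) (nat_lit 252) (nat_lit 5) (nat_lit 257) (nat_lit 5) (nat_lit 258) (nat_lit 5) (nat_lit 387) (nat_lit 324) (nat_lit 309))) (XT.nd (nat_lit 78) (nat_lit 380) (nat_lit 0) (XT.lf (nat_lit 0) (nat_lit 251579951) (nat_lit 380) (nat_lit 5934431800) (nat_lit 76) (nat_lit 2804313703) (nat_lit 247) (nat_lit 5) (nat_lit 252) (nat_lit 5) (nat_lit 248) (nat_lit 5) (nat_lit 388) (nat_lit 324) (nat_lit 308)) (XT.lf (nat_lit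 0) (nat_lit 1451708858) (nat_lit 380) (nat_lit 2692171019) (nat_lit 456) (nat_lit 4964239370) (nat_lit 242) (nat_lit 5) (nat_lit 247) (nat_lit 5) (nat_lit 248) (nat_lit 5) (nat_lit 389) (nat_lit 324) (nat_lit 307)))) (XT.nd (nat_lit 156) (nat_lit 684) (nat_lit 0) (XT.nd (nat_lit 78) (nat_lit 380) (nat_lit 0) (XT.lf (nat_lit 0) (nat_lit 8139157335) (nat_lit 456) (nat_lit 180967253) (nat_lit 76) (nat_lit 909736010) (nat_lit 242) (nat_lit 5) (nat_lit 248) (nat_lit 5) (nat_lit 243) (nat_lit 4) (nat_lit 390) (nat_lit 324) (nat_lit 306)) (XT.lf (nat_lit 0) (nat_lit 2860959367) (nat_lit 380) (nat_lit 1865430853) (nat_lit 76) (nat_lit 4627473216) (nat_lit 237) (nat_lit 5) (nat_lit 242) (nat_lit 5) (nat_lit 238) (nat_lit 5) (nat_lit 391) (nat_lit 324) (nat_lit 305))) (XT.nd (nat_lit 78) (nat_lit 380) (nat_lit 0) (XT.lf (nat_lit 0) (nat_lit 5892400500) (nat_lit 304) (nat_lit 995135228) (nat_lit 380) (nat_lit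 2594378081) (nat_lit 233) (nat_lit 5) (nat_lit 237) (nat_lit 5) (nat_lit 238) (nat_lit 5) (nat_lit 392) (nat_lit 324) (nat_lit 304)) (XT.lf (nat_lit 0) (nat_lit 1401187735) (nat_lit 380) (nat_lit 5386793660) (nat_lit 76) (nat_lit 2825180037) (nat_lit 228) (nat_lit 5) (nat_lit 233) (nat_lit 5) (nat_lit 229) (nat_lit 5) (nat_lit 393) (nat_lit 324) (nat_lit 303))))))))
noncomputable def xc63 : XT := (XT.nd (nat_lit 2418) (nat_lit 3268) (nat_lit 0) (XT.nd (nat_lit 1170) (nat_lit 2432) (nat_lit 0) (XT.nd (nat_lit 546) (nat_lit 1520) (nat_lit 0) (XT.nd (nat_lit 234) (nat_lit 1216) (nat_lit 0) (XT.nd (nat_lit 78) (nat_lit 304) (nat_lit 0) (XT.lf (nat_lit 0) (nat_lit 2492788657) (nat_lit 304) (nat_lit 2963054321) (nat_lit 380) (nat_lit 4291991892) (nat_lit 224) (nat_lit 5) (nat_lit 228) (nat_lit 5) (nat_lit 229) (nat_lit 5) (nat_lit 394) (nat_lit 324) (nat_lit 302)) (XT.nd (nat_lit 78) (nat_lit 76) (nat_lit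 0) (XT.lf (nat_lit 0) (nat_lit 714569454) (nat_lit 228) (nat_lit 8910415719) (nat_lit 304) (nat_lit 261777919) (nat_lit 221) (nat_lit 5) (nat_lit 224) (nat_lit 5) (nat_lit 225) (nat_lit 4) (nat_lit 395) (nat_lit 324) (nat_lit 301)) (XT.lf (nat_lit 0) (nat_lit 3838767144) (nat_lit 304) (nat_lit 1147168943) (nat_lit 76) (nat_lit 5042041879) (nat_lit 220) (nat_lit 5) (nat_lit 224) (nat_lit 5) (nat_lit 221) (nat_lit 5) (nat_lit 396) (nat_lit 324) (nat_lit 300)))) (XT.nd (nat_lit 156) (nat_lit 608) (nat_lit 0) (XT.nd (nat_lit 78) (nat_lit 304) (nat_lit 0) (XT.lf (nat_lit 0) (nat_lit 7134800199) (nat_lit 304) (nat_lit 915118401) (nat_lit 380) (nat_lit 2123647385) (nat_lit 216) (nat_lit 5) (nat_lit 220) (nat_lit 5) (nat_lit 221) (nat_lit 5) (nat_lit 397) (nat_lit 324) (nat_lit 299)) (XT.lf (nat_lit 0) (nat_lit 2043011585) (nat_lit 304) (nat_lit 5026352260) (nat_lit 76) (nat_lit 3252980547) (nat_lit 212) (nat_lit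 5) (nat_lit 216) (nat_lit 5) (nat_lit 213) (nat_lit 5) (nat_lit 398) (nat_lit 324) (nat_lit 298))) (XT.nd (nat_lit 78) (nat_lit 304) (nat_lit 0) (XT.lf (nat_lit 0) (nat_lit 3382663666) (nat_lit 304) (nat_lit 2907089622) (nat_lit 380) (nat_lit 4185269092) (nat_lit 208) (nat_lit 5) (nat_lit 212) (nat_lit 5) (nat_lit 213) (nat_lit 5) (nat_lit 399) (nat_lit 324) (nat_lit 297)) (XT.lf (nat_lit 0) (nat_lit 34873979) (nat_lit 304) (nat_lit 9224523678) (nat_lit 76) (nat_lit 1372757702) (nat_lit 204) (nat_lit 5) (nat_lit 208) (nat_lit 5) (nat_lit 205) (nat_lit 5) (nat_lit 400) (nat_lit 324) (nat_lit 296))))) (XT.nd (nat_lit 312) (nat_lit 760) (nat_lit 0) (XT.nd (nat_lit 156) (nat_lit 532) (nat_lit 0) (XT.nd (nat_lit 78) (nat_lit 228) (nat_lit 0) (XT.lf (nat_lit 0) (nat_lit 4324666014) (nat_lit 304) (nat_lit 677002026) (nat_lit 76) (nat_lit 5790276204) (nat_lit 204) (nat_lit 5) (nat_lit 208) (nat_lit 5) (nat_lit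 205) (nat_lit 5) (nat_lit 401) (nat_lit 324) (nat_lit 295)) (XT.lf (nat_lit 0) (nat_lit 8167659727) (nat_lit 228) (nat_lit 582211765) (nat_lit 304) (nat_lit 2206453713) (nat_lit 201) (nat_lit 5) (nat_lit 204) (nat_lit 5) (nat_lit 205) (nat_lit 5) (nat_lit 402) (nat_lit 324) (nat_lit 294))) (XT.nd (nat_lit 78) (nat_lit 228) (nat_lit 0) (XT.lf (nat_lit 0) (nat_lit 2172630114) (nat_lit 304) (nat_lit 5017672503) (nat_lit 76) (nat_lit 3933715169) (nat_lit 197) (nat_lit 5) (nat_lit 201) (nat_lit 5) (nat_lit 198) (nat_lit 5) (nat_lit 403) (nat_lit 324) (nat_lit 293)) (XT.lf (nat_lit 0) (nat_lit 3959423968) (nat_lit 228) (nat_lit 2680544060) (nat_lit 304) (nat_lit 4656080861) (nat_lit 194) (nat_lit 5) (nat_lit 197) (nat_lit 5) (nat_lit 198) (nat_lit 5) (nat_lit 404) (nat_lit 324) (nat_lit 292)))) (XT.nd (nat_lit 156) (nat_lit 456) (nat_lit 0) (XT.nd (nat_lit 78) (nat_lit 76) (nat_lit 0) (XT.lf (nat_lit 0) (nat_lit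 1731477872) (nat_lit 228) (nat_lit 9525981352) (nat_lit 304) (nat_lit 215297704) (nat_lit 191) (nat_lit 5) (nat_lit 194) (nat_lit 5) (nat_lit 195) (nat_lit 4) (nat_lit 405) (nat_lit 324) (nat_lit 291)) (XT.lf (nat_lit 0) (nat_lit 4304673164) (nat_lit 304) (nat_lit 619816522) (nat_lit 76) (nat_lit 6728089017) (nat_lit 190) (nat_lit 5) (nat_lit 194) (nat_lit 5) (nat_lit 191) (nat_lit 5) (nat_lit 406) (nat_lit 324) (nat_lit 290))) (XT.nd (nat_lit 78) (nat_lit 228) (nat_lit 0) (XT.lf (nat_lit 0) (nat_lit 8828820798) (nat_lit 228) (nat_lit 143671121) (nat_lit 304) (nat_lit 2864741983) (nat_lit 187) (nat_lit 5) (nat_lit 190) (nat_lit 5) (nat_lit 191) (nat_lit 5) (nat_lit 407) (nat_lit 324) (nat_lit 289)) (XT.lf (nat_lit 0) (nat_lit 1766157323) (nat_lit 228) (nat_lit 5532964246) (nat_lit 76) (nat_lit 4726378285) (nat_lit 184) (nat_lit 5) (nat_lit 187) (nat_lit 5) (nat_lit 185) (nat_lit 5) (nat_lit 408) (nat_lit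 324) (nat_lit 288)))))) (XT.nd (nat_lit 624) (nat_lit 1140) (nat_lit 0) (XT.nd (nat_lit 312) (nat_lit 608) (nat_lit 0) (XT.nd (nat_lit 156) (nat_lit 304) (nat_lit 0) (XT.nd (nat_lit 78) (nat_lit 152) (nat_lit 0) (XT.lf (nat_lit 0) (nat_lit 4053454303) (nat_lit 228) (nat_lit 2428341961) (nat_lit 304) (nat_lit 5736664876) (nat_lit 181) (nat_lit 5) (nat_lit 184) (nat_lit 5) (nat_lit 185) (nat_lit 5) (nat_lit 409) (nat_lit 324) (nat_lit 287)) (XT.lf (nat_lit 0) (nat_lit 1511797563) (nat_lit 152) (nat_lit 9855653407) (nat_lit 228) (nat_lit 1048903895) (nat_lit 179) (nat_lit 5) (nat_lit 181) (nat_lit 5) (nat_lit 182) (nat_lit 4) (nat_lit 410) (nat_lit 324) (nat_lit 286))) (XT.nd (nat_lit 78) (nat_lit 228) (nat_lit 0) (XT.lf (nat_lit 0) (nat_lit 3745937040) (nat_lit 228) (nat_lit 1150421471) (nat_lit 76) (nat_lit 7721531011) (nat_lit 178) (nat_lit 5) (nat_lit 181) (nat_lit 5) (nat_lit 179) (nat_lit 5) (nat_lit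 411) (nat_lit 324) (nat_lit 285)) (XT.lf (nat_lit 0) (nat_lit 8686896933) (nat_lit 304) (nat_lit 3880893996) (nat_lit 76) (nat_lit 256667063) (nat_lit 175) (nat_lit 5) (nat_lit 179) (nat_lit 5) (nat_lit 176) (nat_lit 4) (nat_lit 412) (nat_lit 324) (nat_lit 284)))) (XT.nd (nat_lit 156) (nat_lit 228) (nat_lit 0) (XT.nd (nat_lit 78) (nat_lit 152) (nat_lit 0) (XT.lf (nat_lit 0) (nat_lit 780819411) (nat_lit 228) (nat_lit 6756758258) (nat_lit 76) (nat_lit 5497741520) (nat_lit 172) (nat_lit 5) (nat_lit 175) (nat_lit 5) (nat_lit 173) (nat_lit 5) (nat_lit 413) (nat_lit 324) (nat_lit 283)) (XT.lf (nat_lit 0) (nat_lit 3482760306) (nat_lit 152) (nat_lit 2289230633) (nat_lit 228) (nat_lit 7479034290) (nat_lit 170) (nat_lit 5) (nat_lit 172) (nat_lit 5) (nat_lit 173) (nat_lit 5) (nat_lit 414) (nat_lit 324) (nat_lit 282))) (XT.nd (nat_lit 78) (nat_lit 76) (nat_lit 0) (XT.lf (nat_lit 0) (nat_lit 561967174) (nat_lit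 152) (nat_lit 10390851302) (nat_lit 228) (nat_lit 2519186348) (nat_lit 168) (nat_lit 5) (nat_lit 170) (nat_lit 5) (nat_lit 171) (nat_lit 4) (nat_lit 415) (nat_lit 324) (nat_lit 281)) (XT.lf (nat_lit 0) (nat_lit 2597013410) (nat_lit 228) (nat_lit 2458171391) (nat_lit 76) (nat_lit 8641939682) (nat_lit 167) (nat_lit 5) (nat_lit 170) (nat_lit 5) (nat_lit 168) (nat_lit 5) (nat_lit 416) (nat_lit 324) (nat_lit 280))))) (XT.nd (nat_lit 312) (nat_lit 608) (nat_lit 0) (XT.nd (nat_lit 156) (nat_lit 228) (nat_lit 0) (XT.nd (nat_lit 78) (nat_lit 152) (nat_lit 0) (XT.lf (nat_lit 0) (nat_lit 7838638263) (nat_lit 228) (nat_lit 5599569791) (nat_lit 76) (nat_lit 489364237) (nat_lit 165) (nat_lit 5) (nat_lit 168) (nat_lit 5) (nat_lit 166) (nat_lit 4) (nat_lit 417) (nat_lit 324) (nat_lit 279)) (XT.lf (nat_lit 0) (nat_lit 5264142368) (nat_lit 152) (nat_lit 8037040390) (nat_lit 228) (nat_lit 861840649) (nat_lit 163) (nat_lit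 5) (nat_lit 165) (nat_lit 5) (nat_lit 166) (nat_lit 4) (nat_lit 418) (nat_lit 324) (nat_lit 278))) (XT.nd (nat_lit 78) (nat_lit 0) (nat_lit 0) (XT.lf (nat_lit 0) (nat_lit 2048272706) (nat_lit 152) (nat_lit 2400425602) (nat_lit 228) (nat_lit 9955089446) (nat_lit 160) (nat_lit 5) (nat_lit 162) (nat_lit 5) (nat_lit 163) (nat_lit 5) (nat_lit 419) (nat_lit 324) (nat_lit 277)) (XT.lf (nat_lit 0) (nat_lit 9963049072) (nat_lit 228) (nat_lit 1297606242) (nat_lit 76) (nat_lit 3389009190) (nat_lit 160) (nat_lit 5) (nat_lit 163) (nat_lit 5) (nat_lit 161) (nat_lit 4) (nat_lit 420) (nat_lit 324) (nat_lit 276)))) (XT.nd (nat_lit 156) (nat_lit 228) (nat_lit 0) (XT.nd (nat_lit 78) (nat_lit 152) (nat_lit 0) (XT.lf (nat_lit 0) (nat_lit 787615998) (nat_lit 228) (nat_lit 4751667433) (nat_lit 76) (nat_lit 9361556505) (nat_lit 157) (nat_lit 5) (nat_lit 160) (nat_lit 5) (nat_lit 158) (nat_lit 5) (nat_lit 421) (nat_lit 324)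 (nat_lit 275)) (XT.lf (nat_lit 0) (nat_lit 6354719776) (nat_lit 228) (nat_lit 8378594327) (nat_lit 76) (nat_lit 424159212) (nat_lit 155) (nat_lit 5) (nat_lit 158) (nat_lit 5) (nat_lit 156) (nat_lit 4) (nat_lit 422) (nat_lit 324) (nat_lit 274))) (XT.nd (nat_lit 78) (nat_lit 76) (nat_lit 0) (XT.lf (nat_lit 0) (nat_lit 3230406702) (nat_lit 152) (nat_lit 8933255175) (nat_lit 228) (nat_lit 3255899061) (nat_lit 153) (nat_lit 5) (nat_lit 155) (nat_lit 5) (nat_lit 156) (nat_lit 4) (nat_lit 423) (nat_lit 324) (nat_lit 273)) (XT.lf (nat_lit 0) (nat_lit 2435431949) (nat_lit 228) (nat_lit 461799621) (nat_lit 76) (nat_lit 12790790285) (nat_lit 152) (nat_lit 5) (nat_lit 155) (nat_lit 5) (nat_lit 153) (nat_lit 5) (nat_lit 424) (nat_lit 324) (nat_lit 272))))))) (XT.nd (nat_lit 1170) (nat_lit 1520) (nat_lit 0) (XT.nd (nat_lit 546) (nat_lit 912) (nat_lit 0) (XT.nd (nat_lit 234) (nat_lit 380) (nat_lit 0) (XT.nd (nat_lit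 78) (nat_lit 304) (nat_lit 0) (XT.lf (nat_lit 0) (nat_lit 8319781664) (nat_lit 228) (nat_lit 4287815680) (nat_lit 76) (nat_lit 3353340583) (nat_lit 150) (nat_lit 5) (nat_lit 153) (nat_lit 5) (nat_lit 151) (nat_lit 4) (nat_lit 425) (nat_lit 324) (nat_lit 271)) (XT.nd (nat_lit 78) (nat_lit 228) (nat_lit 0) (XT.lf (nat_lit 0) (nat_lit 7959443191) (nat_lit 76) (nat_lit 6473632339) (nat_lit 152) (nat_lit 1807393541) (nat_lit 149) (nat_lit 5) (nat_lit 150) (nat_lit 5) (nat_lit 151) (nat_lit 4) (nat_lit 426) (nat_lit 324) (nat_lit 270)) (XT.lf (nat_lit 0) (nat_lit 4066572706) (nat_lit 152) (nat_lit 78245857) (nat_lit 228) (nat_lit 12381593382) (nat_lit 146) (nat_lit 5) (nat_lit 148) (nat_lit 5) (nat_lit 149) (nat_lit 5) (nat_lit 427) (nat_lit 324) (nat_lit 269)))) (XT.nd (nat_lit 156) (nat_lit 304) (nat_lit 0) (XT.nd (nat_lit 78) (nat_lit 76) (nat_lit 0) (XT.lf (nat_lit 0) (nat_lit 10329074051) (nat_lit 228)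 (nat_lit 52440470) (nat_lit 76) (nat_lit 6436187617) (nat_lit 146) (nat_lit 5) (nat_lit 149) (nat_lit 5) (nat_lit 147) (nat_lit 4) (nat_lit 428) (nat_lit 324) (nat_lit 268)) (XT.lf (nat_lit 0) (nat_lit 12873658991) (nat_lit 76) (nat_lit 3894174122) (nat_lit 152) (nat_lit 347828649) (nat_lit 145) (nat_lit 5) (nat_lit 146) (nat_lit 5) (nat_lit 147) (nat_lit 4) (nat_lit 429) (nat_lit 324) (nat_lit 267))) (XT.nd (nat_lit 78) (nat_lit 76) (nat_lit 0) (XT.lf (nat_lit 0) (nat_lit 5917728164) (nat_lit 228) (nat_lit 8671878384) (nat_lit 76) (nat_lit 2829514832) (nat_lit 142) (nat_lit 5) (nat_lit 145) (nat_lit 5) (nat_lit 143) (nat_lit 4) (nat_lit 430) (nat_lit 324) (nat_lit 266)) (XT.lf (nat_lit 0) (nat_lit 4422391357) (nat_lit 76) (nat_lit 8010894558) (nat_lit 152) (nat_lit 5296224799) (nat_lit 141) (nat_lit 5) (nat_lit 142) (nat_lit 5) (nat_lit 143) (nat_lit 4) (nat_lit 431) (nat_lit 324) (nat_lit 265)))))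 (XT.nd (nat_lit 312) (nat_lit 380) (nat_lit 0) (XT.nd (nat_lit 156) (nat_lit 304) (nat_lit 0) (XT.nd (nat_lit 78) (nat_lit 152) (nat_lit 0) (XT.lf (nat_lit 0) (nat_lit 1106941101) (nat_lit 152) (nat_lit 75006306) (nat_lit 76) (nat_lit 16865952166) (nat_lit 140) (nat_lit 5) (nat_lit 142) (nat_lit 5) (nat_lit 141) (nat_lit 5) (nat_lit 432) (nat_lit 324) (nat_lit 264)) (XT.lf (nat_lit 0) (nat_lit 7731127530) (nat_lit 228) (nat_lit 4762466454) (nat_lit 76) (nat_lit 5876611745) (nat_lit 138) (nat_lit 5) (nat_lit 141) (nat_lit 5) (nat_lit 139) (nat_lit 4) (nat_lit 433) (nat_lit 324) (nat_lit 263))) (XT.nd (nat_lit 78) (nat_lit 228) (nat_lit 0) (XT.lf (nat_lit 0) (nat_lit 9064121526) (nat_lit 76) (nat_lit 5536043401) (nat_lit 152) (nat_lit 4100632381) (nat_lit 137) (nat_lit 5) (nat_lit 138) (nat_lit 5) (nat_lit 139) (nat_lit 4) (nat_lit 434) (nat_lit 324) (nat_lit 262)) (XT.lf (nat_lit 0) (nat_lit 2635614494)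 (nat_lit 228) (nat_lit 14735476554) (nat_lit 76) (nat_lit 1667864632) (nat_lit 134) (nat_lit 5) (nat_lit 137) (nat_lit 5) (nat_lit 135) (nat_lit 4) (nat_lit 435) (nat_lit 324) (nat_lit 261)))) (XT.nd (nat_lit 156) (nat_lit 304) (nat_lit 0) (XT.nd (nat_lit 78) (nat_lit 76) (nat_lit 0) (XT.lf (nat_lit 0) (nat_lit 9591346081) (nat_lit 228) (nat_lit 722923599) (nat_lit 76) (nat_lit 9068776635) (nat_lit 134) (nat_lit 5) (nat_lit 137) (nat_lit 5) (nat_lit 135) (nat_lit 4) (nat_lit 436) (nat_lit 324) (nat_lit 260)) (XT.lf (nat_lit 0) (nat_lit 13882268795) (nat_lit 76) (nat_lit 2955205906) (nat_lit 152) (nat_lit 2897533215) (nat_lit 133) (nat_lit 5) (nat_lit 134) (nat_lit 5) (nat_lit 135) (nat_lit 4) (nat_lit 437) (nat_lit 324) (nat_lit 259))) (XT.nd (nat_lit 78) (nat_lit 76) (nat_lit 0) (XT.lf (nat_lit 0) (nat_lit 4207801464) (nat_lit 228) (nat_lit 11263222598) (nat_lit 76) (nat_lit 4622701098) (nat_lit 130)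 (nat_lit 5) (nat_lit 133) (nat_lit 5) (nat_lit 131) (nat_lit 4) (nat_lit 438) (nat_lit 324) (nat_lit 258)) (XT.lf (nat_lit 0) (nat_lit 3524214717) (nat_lit 76) (nat_lit 8015125011) (nat_lit 152) (nat_lit 8920865107) (nat_lit 129) (nat_lit 5) (nat_lit 130) (nat_lit 5) (nat_lit 131) (nat_lit 4) (nat_lit 439) (nat_lit 324) (nat_lit 257)))))) (XT.nd (nat_lit 624) (nat_lit 684) (nat_lit 0) (XT.nd (nat_lit 312) (nat_lit 380) (nat_lit 0) (XT.nd (nat_lit 156) (nat_lit 228) (nat_lit 0) (XT.nd (nat_lit 78) (nat_lit 228) (nat_lit 0) (XT.lf (nat_lit 0) (nat_lit 18888320524) (nat_lit 76) (nat_lit 265259169) (nat_lit 152) (nat_lit 1682216542) (nat_lit 129) (nat_lit 5) (nat_lit 130) (nat_lit 5) (nat_lit 131) (nat_lit 4) (nat_lit 440) (nat_lit 324) (nat_lit 256)) (XT.lf (nat_lit 0) (nat_lit 5817302054) (nat_lit 228) (nat_lit 7689463844) (nat_lit 76) (nat_lit 7709533276) (nat_lit 126) (nat_lit 5) (nat_lit 129) (nat_lit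 5) (nat_lit 127) (nat_lit 4) (nat_lit 441) (nat_lit 324) (nat_lit 255))) (XT.nd (nat_lit 78) (nat_lit 152) (nat_lit 0) (XT.lf (nat_lit 0) (nat_lit 7936983582) (nat_lit 76) (nat_lit 5619911467) (nat_lit 152) (nat_lit 8049355490) (nat_lit 125) (nat_lit 5) (nat_lit 126) (nat_lit 5) (nat_lit 127) (nat_lit 4) (nat_lit 442) (nat_lit 324) (nat_lit 254)) (XT.lf (nat_lit 0) (nat_lit 2104321656) (nat_lit 152) (nat_lit 19497280998) (nat_lit 152) (nat_lit 404109987) (nat_lit 123) (nat_lit 4) (nat_lit 125) (nat_lit 5) (nat_lit 125) (nat_lit 4) (nat_lit 443) (nat_lit 324) (nat_lit 253)))) (XT.nd (nat_lit 156) (nat_lit 228) (nat_lit 0) (XT.nd (nat_lit 78) (nat_lit 76) (nat_lit 0) (XT.lf (nat_lit 0) (nat_lit 7470021509) (nat_lit 228) (nat_lit 4006746991) (nat_lit 76) (nat_lit 10933876633) (nat_lit 122) (nat_lit 5) (nat_lit 125) (nat_lit 5) (nat_lit 123) (nat_lit 4) (nat_lit 444) (nat_lit 324) (nat_lit 252)) (XT.lf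 (nat_lit 0) (nat_lit 12511447997) (nat_lit 76) (nat_lit 3132785805) (nat_lit 152) (nat_lit 7181212393) (nat_lit 121) (nat_lit 5) (nat_lit 122) (nat_lit 5) (nat_lit 123) (nat_lit 4) (nat_lit 445) (nat_lit 324) (nat_lit 251))) (XT.nd (nat_lit 78) (nat_lit 0) (nat_lit 0) (XT.lf (nat_lit 0) (nat_lit 902241361) (nat_lit 228) (nat_lit 16925347941) (nat_lit 76) (nat_lit 5421655557) (nat_lit 118) (nat_lit 5) (nat_lit 121) (nat_lit 5) (nat_lit 119) (nat_lit 4) (nat_lit 446) (nat_lit 324) (nat_lit 250)) (XT.lf (nat_lit 0) (nat_lit 9171903574) (nat_lit 228) (nat_lit 206986548) (nat_lit 76) (nat_lit 14302093125) (nat_lit 118) (nat_lit 5) (nat_lit 121) (nat_lit 5) (nat_lit 119) (nat_lit 4) (nat_lit 447) (nat_lit 324) (nat_lit 249))))) (XT.nd (nat_lit 312) (nat_lit 380) (nat_lit 0) (XT.nd (nat_lit 156) (nat_lit 76) (nat_lit 0) (XT.nd (nat_lit 78) (nat_lit 152) (nat_lit 0) (XT.lf (nat_lit 0) (nat_lit 17258874167)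 (nat_lit 76) (nat_lit 549927123) (nat_lit 152) (nat_lit 6313298126) (nat_lit 117) (nat_lit 5) (nat_lit 118) (nat_lit 5) (nat_lit 119) (nat_lit 4) (nat_lit 448) (nat_lit 324) (nat_lit 248)) (XT.lf (nat_lit 0) (nat_lit 2228752172) (nat_lit 152) (nat_lit 13881537394) (nat_lit 76) (nat_lit 8461287917) (nat_lit 115) (nat_lit 5) (nat_lit 117) (nat_lit 5) (nat_lit 116) (nat_lit 4) (nat_lit 449) (nat_lit 324) (nat_lit 247))) (XT.nd (nat_lit 78) (nat_lit 0) (nat_lit 0) (XT.lf (nat_lit 0) (nat_lit 3792550788) (nat_lit 76) (nat_lit 7172871722) (nat_lit 152) (nat_lit 14065284656) (nat_lit 114) (nat_lit 5) (nat_lit 115) (nat_lit 5) (nat_lit 116) (nat_lit 4) (nat_lit 450) (nat_lit 324) (nat_lit 246)) (XT.lf (nat_lit 0) (nat_lit 20078724321) (nat_lit 152) (nat_lit 3329932515) (nat_lit 0) (nat_lit 2091517965) (nat_lit 114) (nat_lit 5) (nat_lit 116) (nat_lit 4) (nat_lit 114) (nat_lit 4) (nat_lit 451) (nat_lit 324) (nat_lit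 245)))) (XT.nd (nat_lit 156) (nat_lit 152) (nat_lit 0) (XT.nd (nat_lit 78) (nat_lit 76) (nat_lit 0) (XT.lf (nat_lit 0) (nat_lit 3587897328) (nat_lit 152) (nat_lit 10759921104) (nat_lit 76) (nat_lit 11629679812) (nat_lit 112) (nat_lit 5) (nat_lit 114) (nat_lit 5) (nat_lit 113) (nat_lit 4) (nat_lit 452) (nat_lit 324) (nat_lit 244)) (XT.lf (nat_lit 0) (nat_lit 7934049787) (nat_lit 76) (nat_lit 4889552904) (nat_lit 152) (nat_lit 13641977081) (nat_lit 111) (nat_lit 5) (nat_lit 112) (nat_lit 5) (nat_lit 113) (nat_lit 4) (nat_lit 453) (nat_lit 324) (nat_lit 243))) (XT.nd (nat_lit 78) (nat_lit 76) (nat_lit 0) (XT.lf (nat_lit 0) (nat_lit 314312116) (nat_lit 76) (nat_lit 22136343310) (nat_lit 76) (nat_lit 4514220034) (nat_lit 110) (nat_lit 4) (nat_lit 111) (nat_lit 5) (nat_lit 111) (nat_lit 4) (nat_lit 454) (nat_lit 324) (nat_lit 242)) (XT.lf (nat_lit 0) (nat_lit 4984306083) (nat_lit 152) (nat_lit 7553867209)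 (nat_lit 76) (nat_lit 14933798118) (nat_lit 109) (nat_lit 5) (nat_lit 111) (nat_lit 5) (nat_lit 110) (nat_lit 4) (nat_lit 455) (nat_lit 324) (nat_lit 241))))))))
noncomputable def xc64 : XT := (XT.nd (nat_lit 2340) (nat_lit 760) (nat_lit 0) (XT.nd (nat_lit 1170) (nat_lit 1140) (nat_lit 0) (XT.nd (nat_lit 546) (nat_lit 684) (nat_lit 0) (XT.nd (nat_lit 234) (nat_lit 304) (nat_lit 0) (XT.nd (nat_lit 78) (nat_lit 152) (nat_lit 0) (XT.lf (nat_lit 0) (nat_lit 12223645172) (nat_lit 76) (nat_lit 2527136130) (nat_lit 152) (nat_lit 13239946339) (nat_lit 108) (nat_lit 5) (nat_lit 109) (nat_lit 5) (nat_lit 110) (nat_lit 4) (nat_lit 456) (nat_lit 324) (nat_lit 240)) (XT.nd (nat_lit 78) (nat_lit 76) (nat_lit 0) (XT.lf (nat_lit 0) (nat_lit 4145918766) (nat_lit 76) (nat_lit 20812325803) (nat_lit 76) (nat_lit 3562362176) (nat_lit 107) (nat_lit 4) (nat_lit 108) (nat_lit 5) (nat_lit 108) (nat_lit 4) (nat_lit 457) (nat_lit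 324) (nat_lit 239)) (XT.lf (nat_lit 0) (nat_lit 6422674458) (nat_lit 152) (nat_lit 4256256905) (nat_lit 76) (nat_lit 18381340029) (nat_lit 106) (nat_lit 5) (nat_lit 108) (nat_lit 5) (nat_lit 107) (nat_lit 4) (nat_lit 458) (nat_lit 324) (nat_lit 238)))) (XT.nd (nat_lit 156) (nat_lit 152) (nat_lit 0) (XT.nd (nat_lit 78) (nat_lit 76) (nat_lit 0) (XT.lf (nat_lit 0) (nat_lit 16672298274) (nat_lit 76) (nat_lit 81207052) (nat_lit 152) (nat_lit 12858027232) (nat_lit 105) (nat_lit 5) (nat_lit 106) (nat_lit 5) (nat_lit 107) (nat_lit 4) (nat_lit 459) (nat_lit 324) (nat_lit 237)) (XT.lf (nat_lit 0) (nat_lit 8108016599) (nat_lit 76) (nat_lit 19469364887) (nat_lit 76) (nat_lit 2596456462) (nat_lit 104) (nat_lit 4) (nat_lit 105) (nat_lit 5) (nat_lit 105) (nat_lit 4) (nat_lit 460) (nat_lit 324) (nat_lit 236))) (XT.nd (nat_lit 78) (nat_lit 76) (nat_lit 0) (XT.lf (nat_lit 0) (nat_lit 7907790984) (nat_lit 152) (nat_lit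 859472630) (nat_lit 76) (nat_lit 21980737334) (nat_lit 103) (nat_lit 5) (nat_lit 105) (nat_lit 5) (nat_lit 104) (nat_lit 4) (nat_lit 461) (nat_lit 324) (nat_lit 235)) (XT.lf (nat_lit 0) (nat_lit 18862115467) (nat_lit 152) (nat_lit 10065589346) (nat_lit 0) (nat_lit 2405298725) (nat_lit 102) (nat_lit 5) (nat_lit 104) (nat_lit 4) (nat_lit 102) (nat_lit 4) (nat_lit 462) (nat_lit 324) (nat_lit 234))))) (XT.nd (nat_lit 312) (nat_lit 380) (nat_lit 0) (XT.nd (nat_lit 156) (nat_lit 76) (nat_lit 0) (XT.nd (nat_lit 78) (nat_lit 152) (nat_lit 0) (XT.lf (nat_lit 0) (nat_lit 12210635086) (nat_lit 76) (nat_lit 18106309897) (nat_lit 76) (nat_lit 1613454965) (nat_lit 101) (nat_lit 4) (nat_lit 102) (nat_lit 5) (nat_lit 102) (nat_lit 4) (nat_lit 463) (nat_lit 324) (nat_lit 233)) (XT.lf (nat_lit 0) (nat_lit 2697249779) (nat_lit 76) (nat_lit 6773239503) (nat_lit 152) (nat_lit 23069843448) (nat_lit 99) (nat_lit 5) (nat_lit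 100) (nat_lit 5) (nat_lit 101) (nat_lit 4) (nat_lit 464) (nat_lit 324) (nat_lit 232))) (XT.nd (nat_lit 78) (nat_lit 76) (nat_lit 0) (XT.lf (nat_lit 0) (nat_lit 21061716821) (nat_lit 152) (nat_lit 7117864811) (nat_lit 0) (nat_lit 4982286805) (nat_lit 99) (nat_lit 5) (nat_lit 101) (nat_lit 4) (nat_lit 99) (nat_lit 4) (nat_lit 465) (nat_lit 324) (nat_lit 231)) (XT.lf (nat_lit 0) (nat_lit 16464455667) (nat_lit 76) (nat_lit 16721739309) (nat_lit 76) (nat_lit 610289828) (nat_lit 98) (nat_lit 4) (nat_lit 99) (nat_lit 5) (nat_lit 99) (nat_lit 4) (nat_lit 466) (nat_lit 324) (nat_lit 230)))) (XT.nd (nat_lit 156) (nat_lit 228) (nat_lit 0) (XT.nd (nat_lit 78) (nat_lit 0) (nat_lit 0) (XT.lf (nat_lit 0) (nat_lit 6389352747) (nat_lit 76) (nat_lit 4710100004) (nat_lit 152) (nat_lit 23344623747) (nat_lit 96) (nat_lit 5) (nat_lit 97) (nat_lit 5) (nat_lit 98) (nat_lit 4) (nat_lit 467) (nat_lit 324) (nat_lit 229)) (XT.lf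 (nat_lit 0) (nat_lit 23358864729) (nat_lit 152) (nat_lit 4088533638) (nat_lit 0) (nat_lit 7657197004) (nat_lit 96) (nat_lit 5) (nat_lit 98) (nat_lit 4) (nat_lit 96) (nat_lit 4) (nat_lit 468) (nat_lit 324) (nat_lit 228))) (XT.nd (nat_lit 78) (nat_lit 76) (nat_lit 0) (XT.lf (nat_lit 0) (nat_lit 408023660) (nat_lit 152) (nat_lit 14901828573) (nat_lit 76) (nat_lit 20468694999) (nat_lit 94) (nat_lit 5) (nat_lit 96) (nat_lit 5) (nat_lit 95) (nat_lit 4) (nat_lit 469) (nat_lit 324) (nat_lit 227)) (XT.lf (nat_lit 0) (nat_lit 10209128468) (nat_lit 76) (nat_lit 2582430814) (nat_lit 152) (nat_lit 23674632149) (nat_lit 93) (nat_lit 5) (nat_lit 94) (nat_lit 5) (nat_lit 95) (nat_lit 4) (nat_lit 470) (nat_lit 324) (nat_lit 226)))))) (XT.nd (nat_lit 546) (nat_lit 608) (nat_lit 0) (XT.nd (nat_lit 234) (nat_lit 304) (nat_lit 0) (XT.nd (nat_lit 78) (nat_lit 228) (nat_lit 0) (XT.lf (nat_lit 0) (nat_lit 25761207064) (nat_lit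 152) (nat_lit 970421069) (nat_lit 0) (nat_lit 10436398642) (nat_lit 93) (nat_lit 5) (nat_lit 95) (nat_lit 4) (nat_lit 93) (nat_lit 4) (nat_lit 471) (nat_lit 324) (nat_lit 225)) (XT.nd (nat_lit 78) (nat_lit 76) (nat_lit 0) (XT.lf (nat_lit 0) (nat_lit 1440340540) (nat_lit 152) (nat_lit 12426193585) (nat_lit 76) (nat_lit 24016969742) (nat_lit 91) (nat_lit 5) (nat_lit 93) (nat_lit 5) (nat_lit 92) (nat_lit 4) (nat_lit 472) (nat_lit 324) (nat_lit 224)) (XT.lf (nat_lit 0) (nat_lit 14166560761) (nat_lit 76) (nat_lit 385747562) (nat_lit 152) (nat_lit 24061489030) (nat_lit 90) (nat_lit 5) (nat_lit 91) (nat_lit 5) (nat_lit 92) (nat_lit 4) (nat_lit 473) (nat_lit 324) (nat_lit 223)))) (XT.nd (nat_lit 156) (nat_lit 152) (nat_lit 0) (XT.nd (nat_lit 78) (nat_lit 76) (nat_lit 0) (XT.lf (nat_lit 0) (nat_lit 2288754346) (nat_lit 76) (nat_lit 26009982160) (nat_lit 76) (nat_lit 11060030096) (nat_lit 89) (nat_lit 4) (nat_lit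 90) (nat_lit 5) (nat_lit 90) (nat_lit 4) (nat_lit 474) (nat_lit 324) (nat_lit 222)) (XT.lf (nat_lit 0) (nat_lit 2501736202) (nat_lit 152) (nat_lit 9893885381) (nat_lit 76) (nat_lit 27723318229) (nat_lit 88) (nat_lit 5) (nat_lit 90) (nat_lit 5) (nat_lit 89) (nat_lit 4) (nat_lit 475) (nat_lit 324) (nat_lit 221))) (XT.nd (nat_lit 78) (nat_lit 76) (nat_lit 0) (XT.lf (nat_lit 0) (nat_lit 16405536856) (nat_lit 152) (nat_lit 22640323941) (nat_lit 0) (nat_lit 1848047954) (nat_lit 87) (nat_lit 5) (nat_lit 89) (nat_lit 4) (nat_lit 87) (nat_lit 4) (nat_lit 476) (nat_lit 324) (nat_lit 220)) (XT.lf (nat_lit 0) (nat_lit 5673806770) (nat_lit 76) (nat_lit 25294551876) (nat_lit 76) (nat_lit 10716510897) (nat_lit 86) (nat_lit 4) (nat_lit 87) (nat_lit 5) (nat_lit 87) (nat_lit 4) (nat_lit 477) (nat_lit 324) (nat_lit 219))))) (XT.nd (nat_lit 312) (nat_lit 304) (nat_lit 0) (XT.nd (nat_lit 156) (nat_lit 152) (nat_lit 0) (XT.nd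 (nat_lit 78) (nat_lit 76) (nat_lit 0) (XT.lf (nat_lit 0) (nat_lit 3595461438) (nat_lit 152) (nat_lit 7299207730) (nat_lit 76) (nat_lit 31598050594) (nat_lit 85) (nat_lit 5) (nat_lit 87) (nat_lit 5) (nat_lit 86) (nat_lit 4) (nat_lit 478) (nat_lit 324) (nat_lit 218)) (XT.lf (nat_lit 0) (nat_lit 18343558342) (nat_lit 152) (nat_lit 20819459187) (nat_lit 0) (nat_lit 4151940135) (nat_lit 84) (nat_lit 5) (nat_lit 86) (nat_lit 4) (nat_lit 84) (nat_lit 4) (nat_lit 479) (nat_lit 324) (nat_lit 217))) (XT.nd (nat_lit 78) (nat_lit 76) (nat_lit 0) (XT.lf (nat_lit 0) (nat_lit 9174161491) (nat_lit 76) (nat_lit 24595259987) (nat_lit 76) (nat_lit 10385381526) (nat_lit 83) (nat_lit 4) (nat_lit 84) (nat_lit 5) (nat_lit 84) (nat_lit 4) (nat_lit 480) (nat_lit 324) (nat_lit 216)) (XT.lf (nat_lit 0) (nat_lit 4724866630) (nat_lit 152) (nat_lit 4636127602) (nat_lit 76) (nat_lit 35652197168) (nat_lit 82) (nat_lit 5) (nat_lit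 84) (nat_lit 5) (nat_lit 83) (nat_lit 4) (nat_lit 481) (nat_lit 324) (nat_lit 215)))) (XT.nd (nat_lit 156) (nat_lit 152) (nat_lit 0) (XT.nd (nat_lit 78) (nat_lit 76) (nat_lit 0) (XT.lf (nat_lit 0) (nat_lit 20368950098) (nat_lit 152) (nat_lit 18977589835) (nat_lit 0) (nat_lit 6539028833) (nat_lit 81) (nat_lit 5) (nat_lit 83) (nat_lit 4) (nat_lit 81) (nat_lit 4) (nat_lit 482) (nat_lit 324) (nat_lit 214)) (XT.lf (nat_lit 0) (nat_lit 12799075355) (nat_lit 76) (nat_lit 23912160485) (nat_lit 76) (nat_lit 10066015221) (nat_lit 80) (nat_lit 4) (nat_lit 81) (nat_lit 5) (nat_lit 81) (nat_lit 4) (nat_lit 483) (nat_lit 324) (nat_lit 213))) (XT.nd (nat_lit 78) (nat_lit 76) (nat_lit 0) (XT.lf (nat_lit 0) (nat_lit 5893416841) (nat_lit 152) (nat_lit 1898260529) (nat_lit 76) (nat_lit 39897537144) (nat_lit 79) (nat_lit 5) (nat_lit 81) (nat_lit 5) (nat_lit 80) (nat_lit 4) (nat_lit 484) (nat_lit 324) (nat_lit 212)) (XT.lf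 (nat_lit 0) (nat_lit 22488294721) (nat_lit 152) (nat_lit 17111187541) (nat_lit 0) (nat_lit 9015295310) (nat_lit 78) (nat_lit 5) (nat_lit 80) (nat_lit 4) (nat_lit 78) (nat_lit 4) (nat_lit 485) (nat_lit 324) (nat_lit 211))))))) (XT.nd (nat_lit 44460) (nat_lit 0) (nat_lit 13224) (XT.nd (nat_lit 546) (nat_lit 228) (nat_lit 0) (XT.nd (nat_lit 234) (nat_lit 304) (nat_lit 0) (XT.nd (nat_lit 78) (nat_lit 152) (nat_lit 0) (XT.lf (nat_lit 0) (nat_lit 16558349700) (nat_lit 76) (nat_lit 23245247350) (nat_lit 76) (nat_lit 9757833127) (nat_lit 77) (nat_lit 4) (nat_lit 78) (nat_lit 5) (nat_lit 78) (nat_lit 4) (nat_lit 486) (nat_lit 324) (nat_lit 210)) (XT.nd (nat_lit 78) (nat_lit 0) (nat_lit 0) (XT.lf (nat_lit 0) (nat_lit 939478392) (nat_lit 76) (nat_lit 6174259331) (nat_lit 152) (nat_lit 43416183266) (nat_lit 75) (nat_lit 5) (nat_lit 76) (nat_lit 5) (nat_lit 77) (nat_lit 4) (nat_lit 487) (nat_lit 324) (nat_lit 209))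 (XT.lf (nat_lit 0) (nat_lit 24708497803) (nat_lit 152) (nat_lit 15216533460) (nat_lit 0) (nat_lit 11587141948) (nat_lit 75) (nat_lit 5) (nat_lit 77) (nat_lit 4) (nat_lit 75) (nat_lit 4) (nat_lit 488) (nat_lit 324) (nat_lit 208)))) (XT.nd (nat_lit 156) (nat_lit 76) (nat_lit 0) (XT.nd (nat_lit 78) (nat_lit 152) (nat_lit 0) (XT.lf (nat_lit 0) (nat_lit 20462358959) (nat_lit 76) (nat_lit 22594462820) (nat_lit 76) (nat_lit 9460299590) (nat_lit 74) (nat_lit 4) (nat_lit 75) (nat_lit 5) (nat_lit 75) (nat_lit 4) (nat_lit 489) (nat_lit 324) (nat_lit 207)) (XT.lf (nat_lit 0) (nat_lit 3905438793) (nat_lit 76) (nat_lit 4494579121) (nat_lit 152) (nat_lit 45144958087) (nat_lit 72) (nat_lit 5) (nat_lit 73) (nat_lit 5) (nat_lit 74) (nat_lit 4) (nat_lit 490) (nat_lit 324) (nat_lit 206))) (XT.nd (nat_lit 78) (nat_lit 76) (nat_lit 0) (XT.lf (nat_lit 0) (nat_lit 27036814461) (nat_lit 152) (nat_lit 13289710521) (nat_lit 0)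 (nat_lit 14261406935) (nat_lit 72) (nat_lit 5) (nat_lit 74) (nat_lit 4) (nat_lit 72) (nat_lit 4) (nat_lit 491) (nat_lit 324) (nat_lit 205)) (XT.lf (nat_lit 0) (nat_lit 24522081719) (nat_lit 76) (nat_lit 21959704680) (nat_lit 76) (nat_lit 9172917967) (nat_lit 71) (nat_lit 4) (nat_lit 72) (nat_lit 5) (nat_lit 72) (nat_lit 4) (nat_lit 492) (nat_lit 324) (nat_lit 204))))) (XT.nd (nat_lit 43602) (nat_lit 0) (nat_lit 19228) (XT.nd (nat_lit 156) (nat_lit 76) (nat_lit 0) (XT.nd (nat_lit 78) (nat_lit 0) (nat_lit 0) (XT.lf (nat_lit 0) (nat_lit 6969535875) (nat_lit 76) (nat_lit 2768084982) (nat_lit 152) (nat_lit 47007904122) (nat_lit 69) (nat_lit 5) (nat_lit 70) (nat_lit 5) (nat_lit 71) (nat_lit 4) (nat_lit 493) (nat_lit 324) (nat_lit 203)) (XT.lf (nat_lit 0) (nat_lit 29480876760) (nat_lit 152) (nat_lit 11326594610) (nat_lit 0) (nat_lit 17045381187) (nat_lit 69) (nat_lit 5) (nat_lit 71) (nat_lit 4) (nat_lit 69)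 (nat_lit 4) (nat_lit 494) (nat_lit 324) (nat_lit 202))) (XT.nd (nat_lit 43368) (nat_lit 0) (nat_lit 21052) (XT.lf (nat_lit 0) (nat_lit 28749134280) (nat_lit 76) (nat_lit 21340832708) (nat_lit 76) (nat_lit 8895226875) (nat_lit 68) (nat_lit 4) (nat_lit 69) (nat_lit 5) (nat_lit 69) (nat_lit 4) (nat_lit 495) (nat_lit 324) (nat_lit 201)) (XT.lf (nat_lit 0) (nat_lit 2437632074) (nat_lit 608) (nat_lit 629442282) (nat_lit 608) (nat_lit 629442282) (nat_lit 345) (nat_lit 4) (nat_lit 353) (nat_lit 5) (nat_lit 353) (nat_lit 4) (nat_lit 370) (nat_lit 325) (nat_lit 325)))) (XT.nd (nat_lit 156) (nat_lit 608) (nat_lit 0) (XT.nd (nat_lit 78) (nat_lit 608) (nat_lit 0) (XT.lf (nat_lit 0) (nat_lit 2431745852) (nat_lit 608) (nat_lit 4088124671) (nat_lit 0) (nat_lit 938080585) (nat_lit 337) (nat_lit 5) (nat_lit 345) (nat_lit 4) (nat_lit 337) (nat_lit 4) (nat_lit 371) (nat_lit 325) (nat_lit 324)) (XT.lf (nat_lit 0) (nat_lit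 1853824676) (nat_lit 608) (nat_lit 4307912628) (nat_lit 608) (nat_lit 1364086907) (nat_lit 329) (nat_lit 4) (nat_lit 337) (nat_lit 5) (nat_lit 337) (nat_lit 4) (nat_lit 372) (nat_lit 325) (nat_lit 323))) (XT.nd (nat_lit 78) (nat_lit 0) (nat_lit 0) (XT.lf (nat_lit 0) (nat_lit 326530031) (nat_lit 532) (nat_lit 1978040669) (nat_lit 608) (nat_lit 5292158552) (nat_lit 321) (nat_lit 5) (nat_lit 328) (nat_lit 5) (nat_lit 329) (nat_lit 4) (nat_lit 373) (nat_lit 325) (nat_lit 322)) (XT.lf (nat_lit 0) (nat_lit 6018225551) (nat_lit 608) (nat_lit 1186135317) (nat_lit 0) (nat_lit 466124772) (nat_lit 321) (nat_lit 5) (nat_lit 329) (nat_lit 4) (nat_lit 321) (nat_lit 4) (nat_lit 374) (nat_lit 325) (nat_lit 321)))))) (XT.nd (nat_lit 624) (nat_lit 2432) (nat_lit 0) (XT.nd (nat_lit 312) (nat_lit 1444) (nat_lit 0) (XT.nd (nat_lit 156) (nat_lit 1064) (nat_lit 0) (XT.nd (nat_lit 78) (nat_lit 456) (nat_lit 0) (XT.lf (nat_lit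 0) (nat_lit 2027038708) (nat_lit 608) (nat_lit 2725660981) (nat_lit 76) (nat_lit 2994016743) (nat_lit 313) (nat_lit 5) (nat_lit 321) (nat_lit 5) (nat_lit 314) (nat_lit 4) (nat_lit 375) (nat_lit 325) (nat_lit 320)) (XT.lf (nat_lit 0) (nat_lit 3548188118) (nat_lit 456) (nat_lit 2185633962) (nat_lit 532) (nat_lit 2092411865) (nat_lit 307) (nat_lit 5) (nat_lit 313) (nat_lit 5) (nat_lit 314) (nat_lit 4) (nat_lit 376) (nat_lit 325) (nat_lit 319))) (XT.nd (nat_lit 78) (nat_lit 456) (nat_lit 0) (XT.lf (nat_lit 0) (nat_lit 1568879790) (nat_lit 608) (nat_lit 5850083981) (nat_lit 76) (nat_lit 489980759) (nat_lit 299) (nat_lit 5) (nat_lit 307) (nat_lit 5) (nat_lit 300) (nat_lit 4) (nat_lit 377) (nat_lit 325) (nat_lit 318)) (XT.lf (nat_lit 0) (nat_lit 527633364) (nat_lit 456) (nat_lit 4746905243) (nat_lit 532) (nat_lit 2719678803) (nat_lit 293) (nat_lit 5) (nat_lit 299) (nat_lit 5) (nat_lit 300) (nat_lit 4) (nat_lit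 378) (nat_lit 325) (nat_lit 317)))) (XT.nd (nat_lit 156) (nat_lit 912) (nat_lit 0) (XT.nd (nat_lit 78) (nat_lit 456) (nat_lit 0) (XT.lf (nat_lit 0) (nat_lit 956197045) (nat_lit 532) (nat_lit 995237749) (nat_lit 76) (nat_lit 6131325404) (nat_lit 292) (nat_lit 5) (nat_lit 299) (nat_lit 5) (nat_lit 293) (nat_lit 5) (nat_lit 379) (nat_lit 325) (nat_lit 316)) (XT.lf (nat_lit 0) (nat_lit 4660943769) (nat_lit 532) (nat_lit 2548150959) (nat_lit 76) (nat_lit 964858993) (nat_lit 286) (nat_lit 5) (nat_lit 293) (nat_lit 5) (nat_lit 287) (nat_lit 4) (nat_lit 380) (nat_lit 325) (nat_lit 315))) (XT.nd (nat_lit 78) (nat_lit 456) (nat_lit 0) (XT.lf (nat_lit 0) (nat_lit 184819967) (nat_lit 456) (nat_lit 4129607605) (nat_lit 76) (nat_lit 3953996795) (nat_lit 280) (nat_lit 5) (nat_lit 286) (nat_lit 5) (nat_lit 281) (nat_lit 5) (nat_lit 381) (nat_lit 325) (nat_lit 314)) (XT.lf (nat_lit 0) (nat_lit 2609978271) (nat_lit 456)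 (nat_lit 1275539429) (nat_lit 532) (nat_lit 4480291736) (nat_lit 274) (nat_lit 5) (nat_lit 280) (nat_lit 5) (nat_lit 281) (nat_lit 5) (nat_lit 382) (nat_lit 325) (nat_lit 313))))) (XT.nd (nat_lit 312) (nat_lit 1140) (nat_lit 0) (XT.nd (nat_lit 156) (nat_lit 836) (nat_lit 0) (XT.nd (nat_lit 78) (nat_lit 76) (nat_lit 0) (XT.lf (nat_lit 0) (nat_lit 1053125239) (nat_lit 380) (nat_lit 6626780434) (nat_lit 456) (nat_lit 786730306) (nat_lit 269) (nat_lit 5) (nat_lit 274) (nat_lit 5) (nat_lit 275) (nat_lit 4) (nat_lit 383) (nat_lit 325) (nat_lit 312)) (XT.lf (nat_lit 0) (nat_lit 2943230530) (nat_lit 456) (nat_lit 547886274) (nat_lit 76) (nat_lit 5078965966) (nat_lit 268) (nat_lit 5) (nat_lit 274) (nat_lit 5) (nat_lit 269) (nat_lit 5) (nat_lit 384) (nat_lit 325) (nat_lit 311))) (XT.nd (nat_lit 78) (nat_lit 456) (nat_lit 0) (XT.lf (nat_lit 0) (nat_lit 6525516061) (nat_lit 380) (nat_lit 222168850) (nat_lit 456)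 (nat_lit 1929362154) (nat_lit 263) (nat_lit 5) (nat_lit 268) (nat_lit 5) (nat_lit 269) (nat_lit 5) (nat_lit 385) (nat_lit 325) (nat_lit 310)) (XT.lf (nat_lit 0) (nat_lit 1842803983) (nat_lit 456) (nat_lit 3821766117) (nat_lit 76) (nat_lit 3122095759) (nat_lit 257) (nat_lit 5) (nat_lit 263) (nat_lit 5) (nat_lit 258) (nat_lit 5) (nat_lit 386) (nat_lit 325) (nat_lit 309)))) (XT.nd (nat_lit 156) (nat_lit 380) (nat_lit 0) (XT.nd (nat_lit 78) (nat_lit 380) (nat_lit 0) (XT.lf (nat_lit 0) (nat_lit 3364916305) (nat_lit 380) (nat_lit 2298103596) (nat_lit 456) (nat_lit 3236770346) (nat_lit 252) (nat_lit 5) (nat_lit 257) (nat_lit 5) (nat_lit 258) (nat_lit 5) (nat_lit 387) (nat_lit 325) (nat_lit 308)) (XT.lf (nat_lit 0) (nat_lit 555008107) (nat_lit 380) (nat_lit 7289787060) (nat_lit 76) (nat_lit 1171800838) (nat_lit 247) (nat_lit 5) (nat_lit 252) (nat_lit 5) (nat_lit 248) (nat_lit 5) (nat_lit 388) (nat_lit 325)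 (nat_lit 307))) (XT.nd (nat_lit 78) (nat_lit 0) (nat_lit 0) (XT.lf (nat_lit 0) (nat_lit 8786329) (nat_lit 380) (nat_lit 4384526236) (nat_lit 456) (nat_lit 4742697097) (nat_lit 242) (nat_lit 5) (nat_lit 247) (nat_lit 5) (nat_lit 248) (nat_lit 5) (nat_lit 389) (nat_lit 325) (nat_lit 306)) (XT.lf (nat_lit 0) (nat_lit 7556329170) (nat_lit 380) (nat_lit 783819861) (nat_lit 456) (nat_lit 919055212) (nat_lit 242) (nat_lit 5) (nat_lit 247) (nat_lit 5) (nat_lit 248) (nat_lit 5) (nat_lit 390) (nat_lit 325) (nat_lit 305))))))))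
noncomputable def xc65 : XT := (XT.nd (nat_lit 2340) (nat_lit 3496) (nat_lit 0) (XT.nd (nat_lit 1170) (nat_lit 2584) (nat_lit 0) (XT.nd (nat_lit 546) (nat_lit 1672) (nat_lit 0) (XT.nd (nat_lit 234) (nat_lit 912) (nat_lit 0) (XT.nd (nat_lit 78) (nat_lit 684) (nat_lit 0) (XT.lf (nat_lit 0) (nat_lit 2967147136) (nat_lit 380) (nat_lit 3501414593) (nat_lit 76) (nat_lit 2916459176) (nat_lit 237) (nat_lit 5) (nat_lit 242) (nat_lit 5) (nat_lit 238) (nat_lit 5) (nat_lit 391) (nat_lit 325) (nat_lit 304)) (XT.nd (nat_lit 78) (nat_lit 380) (nat_lit 0) (XT.lf (nat_lit 0) (nat_lit 4164417981) (nat_lit 304) (nat_lit 2774337945) (nat_lit 380) (nat_lit 2575964380) (nat_lit 233) (nat_lit 5) (nat_lit 237) (nat_lit 5) (nat_lit 238) (nat_lit 5) (nat_lit 392) (nat_lit 325) (nat_lit 303)) (XT.lf (nat_lit 0) (nat_lit 1345762883) (nat_lit 380) (nat_lit 7259446477) (nat_lit 76) (nat_lit 1042957635) (nat_lit 228) (nat_lit 5)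 (nat_lit 233) (nat_lit 5) (nat_lit 229) (nat_lit 5) (nat_lit 393) (nat_lit 325) (nat_lit 302)))) (XT.nd (nat_lit 156) (nat_lit 608) (nat_lit 0) (XT.nd (nat_lit 78) (nat_lit 0) (nat_lit 0) (XT.lf (nat_lit 0) (nat_lit 522867456) (nat_lit 304) (nat_lit 4820805945) (nat_lit 380) (nat_lit 4440869374) (nat_lit 224) (nat_lit 5) (nat_lit 228) (nat_lit 5) (nat_lit 229) (nat_lit 5) (nat_lit 394) (nat_lit 325) (nat_lit 301)) (XT.lf (nat_lit 0) (nat_lit 8569212040) (nat_lit 304) (nat_lit 889962623) (nat_lit 380) (nat_lit 465905562) (nat_lit 224) (nat_lit 5) (nat_lit 228) (nat_lit 5) (nat_lit 229) (nat_lit 5) (nat_lit 395) (nat_lit 325) (nat_lit 300))) (XT.nd (nat_lit 78) (nat_lit 304) (nat_lit 0) (XT.lf (nat_lit 0) (nat_lit 3579336791) (nat_lit 304) (nat_lit 3331988349) (nat_lit 76) (nat_lit 3156807404) (nat_lit 220) (nat_lit 5) (nat_lit 224) (nat_lit 5) (nat_lit 221) (nat_lit 5) (nat_lit 396) (nat_lit 325) (nat_lit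 299)) (XT.lf (nat_lit 0) (nat_lit 4847750180) (nat_lit 304) (nat_lit 2884533472) (nat_lit 380) (nat_lit 2483183048) (nat_lit 216) (nat_lit 5) (nat_lit 220) (nat_lit 5) (nat_lit 221) (nat_lit 5) (nat_lit 397) (nat_lit 325) (nat_lit 298))))) (XT.nd (nat_lit 312) (nat_lit 760) (nat_lit 0) (XT.nd (nat_lit 156) (nat_lit 304) (nat_lit 0) (XT.nd (nat_lit 78) (nat_lit 304) (nat_lit 0) (XT.lf (nat_lit 0) (nat_lit 1611654311) (nat_lit 304) (nat_lit 7481415474) (nat_lit 76) (nat_lit 1273644129) (nat_lit 212) (nat_lit 5) (nat_lit 216) (nat_lit 5) (nat_lit 213) (nat_lit 5) (nat_lit 398) (nat_lit 325) (nat_lit 297)) (XT.lf (nat_lit 0) (nat_lit 819536593) (nat_lit 304) (nat_lit 4978446992) (nat_lit 380) (nat_lit 4723220688) (nat_lit 208) (nat_lit 5) (nat_lit 212) (nat_lit 5) (nat_lit 213) (nat_lit 5) (nat_lit 399) (nat_lit 325) (nat_lit 296))) (XT.nd (nat_lit 78) (nat_lit 304) (nat_lit 0) (XT.lf (nat_lit 0) (nat_lit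 9406196699) (nat_lit 304) (nat_lit 707625845) (nat_lit 380) (nat_lit 566389208) (nat_lit 208) (nat_lit 5) (nat_lit 212) (nat_lit 5) (nat_lit 213) (nat_lit 5) (nat_lit 400) (nat_lit 325) (nat_lit 295)) (XT.lf (nat_lit 0) (nat_lit 3679673036) (nat_lit 304) (nat_lit 3478521146) (nat_lit 76) (nat_lit 3683613253) (nat_lit 204) (nat_lit 5) (nat_lit 208) (nat_lit 5) (nat_lit 205) (nat_lit 5) (nat_lit 401) (nat_lit 325) (nat_lit 294)))) (XT.nd (nat_lit 156) (nat_lit 228) (nat_lit 0) (XT.nd (nat_lit 78) (nat_lit 304) (nat_lit 0) (XT.lf (nat_lit 0) (nat_lit 5252501823) (nat_lit 228) (nat_lit 2790018546) (nat_lit 304) (nat_lit 2965538772) (nat_lit 201) (nat_lit 5) (nat_lit 204) (nat_lit 5) (nat_lit 205) (nat_lit 5) (nat_lit 402) (nat_lit 325) (nat_lit 293)) (XT.lf (nat_lit 0) (nat_lit 1342767150) (nat_lit 304) (nat_lit 8126239955) (nat_lit 76) (nat_lit 1709531231) (nat_lit 197) (nat_lit 5) (nat_lit 201) (nat_lit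 5) (nat_lit 198) (nat_lit 5) (nat_lit 403) (nat_lit 325) (nat_lit 292))) (XT.nd (nat_lit 78) (nat_lit 0) (nat_lit 0) (XT.lf (nat_lit 0) (nat_lit 730737020) (nat_lit 228) (nat_lit 5014358694) (nat_lit 304) (nat_lit 5607424004) (nat_lit 194) (nat_lit 5) (nat_lit 197) (nat_lit 5) (nat_lit 198) (nat_lit 5) (nat_lit 404) (nat_lit 325) (nat_lit 291)) (XT.lf (nat_lit 0) (nat_lit 9905194130) (nat_lit 228) (nat_lit 388298523) (nat_lit 304) (nat_lit 1237807934) (nat_lit 194) (nat_lit 5) (nat_lit 197) (nat_lit 5) (nat_lit 198) (nat_lit 5) (nat_lit 405) (nat_lit 325) (nat_lit 290)))))) (XT.nd (nat_lit 546) (nat_lit 1140) (nat_lit 0) (XT.nd (nat_lit 234) (nat_lit 684) (nat_lit 0) (XT.nd (nat_lit 78) (nat_lit 456) (nat_lit 0) (XT.lf (nat_lit 0) (nat_lit 3248641787) (nat_lit 304) (nat_lit 4112514126) (nat_lit 76) (nat_lit 4351865539) (nat_lit 190) (nat_lit 5) (nat_lit 194) (nat_lit 5) (nat_lit 191) (nat_lit 5) (nat_lit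 406) (nat_lit 325) (nat_lit 289)) (XT.nd (nat_lit 78) (nat_lit 228) (nat_lit 0) (XT.lf (nat_lit 0) (nat_lit 5209726839) (nat_lit 228) (nat_lit 2639283225) (nat_lit 304) (nat_lit 4050690099) (nat_lit 187) (nat_lit 5) (nat_lit 190) (nat_lit 5) (nat_lit 191) (nat_lit 5) (nat_lit 407) (nat_lit 325) (nat_lit 288)) (XT.lf (nat_lit 0) (nat_lit 509573203) (nat_lit 228) (nat_lit 9373348774) (nat_lit 76) (nat_lit 2208199486) (nat_lit 184) (nat_lit 5) (nat_lit 187) (nat_lit 5) (nat_lit 185) (nat_lit 5) (nat_lit 408) (nat_lit 325) (nat_lit 287)))) (XT.nd (nat_lit 156) (nat_lit 456) (nat_lit 0) (XT.nd (nat_lit 78) (nat_lit 0) (nat_lit 0) (XT.lf (nat_lit 0) (nat_lit 79453050) (nat_lit 228) (nat_lit 5075191882) (nat_lit 304) (nat_lit 7131554832) (nat_lit 181) (nat_lit 5) (nat_lit 184) (nat_lit 5) (nat_lit 185) (nat_lit 5) (nat_lit 409) (nat_lit 325) (nat_lit 286)) (XT.lf (nat_lit 0) (nat_lit 9895277900) (nat_lit 228)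 (nat_lit 73569319) (nat_lit 304) (nat_lit 2517389843) (nat_lit 181) (nat_lit 5) (nat_lit 184) (nat_lit 5) (nat_lit 185) (nat_lit 5) (nat_lit 410) (nat_lit 325) (nat_lit 285))) (XT.nd (nat_lit 78) (nat_lit 228) (nat_lit 0) (XT.lf (nat_lit 0) (nat_lit 2247649436) (nat_lit 228) (nat_lit 5416652407) (nat_lit 76) (nat_lit 5025647067) (nat_lit 178) (nat_lit 5) (nat_lit 181) (nat_lit 5) (nat_lit 179) (nat_lit 5) (nat_lit 411) (nat_lit 325) (nat_lit 284)) (XT.lf (nat_lit 0) (nat_lit 4539231403) (nat_lit 228) (nat_lit 2573337538) (nat_lit 304) (nat_lit 5786229652) (nat_lit 175) (nat_lit 5) (nat_lit 178) (nat_lit 5) (nat_lit 179) (nat_lit 5) (nat_lit 412) (nat_lit 325) (nat_lit 283))))) (XT.nd (nat_lit 312) (nat_lit 532) (nat_lit 0) (XT.nd (nat_lit 156) (nat_lit 380) (nat_lit 0) (XT.nd (nat_lit 78) (nat_lit 76) (nat_lit 0) (XT.lf (nat_lit 0) (nat_lit 1687914368) (nat_lit 152) (nat_lit 10469725528) (nat_lit 228)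 (nat_lit 955247754) (nat_lit 173) (nat_lit 5) (nat_lit 175) (nat_lit 5) (nat_lit 176) (nat_lit 4) (nat_lit 413) (nat_lit 325) (nat_lit 282)) (XT.lf (nat_lit 0) (nat_lit 3990163426) (nat_lit 228) (nat_lit 1299171752) (nat_lit 76) (nat_lit 8041466005) (nat_lit 172) (nat_lit 5) (nat_lit 175) (nat_lit 5) (nat_lit 173) (nat_lit 5) (nat_lit 414) (nat_lit 325) (nat_lit 281))) (XT.nd (nat_lit 78) (nat_lit 228) (nat_lit 0) (XT.lf (nat_lit 0) (nat_lit 9093113228) (nat_lit 228) (nat_lit 4363066745) (nat_lit 76) (nat_lit 97937136) (nat_lit 170) (nat_lit 5) (nat_lit 173) (nat_lit 5) (nat_lit 171) (nat_lit 4) (nat_lit 415) (nat_lit 325) (nat_lit 280)) (XT.lf (nat_lit 0) (nat_lit 619186197) (nat_lit 228) (nat_lit 7589502640) (nat_lit 76) (nat_lit 5573324956) (nat_lit 167) (nat_lit 5) (nat_lit 170) (nat_lit 5) (nat_lit 168) (nat_lit 5) (nat_lit 416) (nat_lit 325) (nat_lit 279)))) (XT.nd (nat_lit 156) (nat_lit 380)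 (nat_lit 0) (XT.nd (nat_lit 78) (nat_lit 0) (nat_lit 0) (XT.lf (nat_lit 0) (nat_lit 3044872419) (nat_lit 152) (nat_lit 2730500166) (nat_lit 228) (nat_lit 8239652169) (nat_lit 165) (nat_lit 5) (nat_lit 167) (nat_lit 5) (nat_lit 168) (nat_lit 5) (nat_lit 417) (nat_lit 325) (nat_lit 278)) (XT.lf (nat_lit 0) (nat_lit 11131390955) (nat_lit 228) (nat_lit 236598307) (nat_lit 76) (nat_lit 2885682391) (nat_lit 165) (nat_lit 5) (nat_lit 168) (nat_lit 5) (nat_lit 166) (nat_lit 4) (nat_lit 418) (nat_lit 325) (nat_lit 277))) (XT.nd (nat_lit 78) (nat_lit 152) (nat_lit 0) (XT.lf (nat_lit 0) (nat_lit 2180722113) (nat_lit 228) (nat_lit 3619858111) (nat_lit 76) (nat_lit 8696057002) (nat_lit 162) (nat_lit 5) (nat_lit 165) (nat_lit 5) (nat_lit 163) (nat_lit 5) (nat_lit 419) (nat_lit 325) (nat_lit 276)) (XT.lf (nat_lit 0) (nat_lit 7592888383) (nat_lit 152) (nat_lit 4207403) (nat_lit 228) (nat_lit 7148357503) (nat_lit 160)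 (nat_lit 5) (nat_lit 162) (nat_lit 5) (nat_lit 163) (nat_lit 5) (nat_lit 420) (nat_lit 325) (nat_lit 275))))))) (XT.nd (nat_lit 1170) (nat_lit 1748) (nat_lit 0) (XT.nd (nat_lit 546) (nat_lit 836) (nat_lit 0) (XT.nd (nat_lit 234) (nat_lit 532) (nat_lit 0) (XT.nd (nat_lit 78) (nat_lit 228) (nat_lit 0) (XT.lf (nat_lit 0) (nat_lit 4132344680) (nat_lit 152) (nat_lit 9119476427) (nat_lit 228) (nat_lit 1747636915) (nat_lit 158) (nat_lit 5) (nat_lit 160) (nat_lit 5) (nat_lit 161) (nat_lit 4) (nat_lit 421) (nat_lit 325) (nat_lit 274)) (XT.nd (nat_lit 78) (nat_lit 0) (nat_lit 0) (XT.lf (nat_lit 0) (nat_lit 509744809) (nat_lit 152) (nat_lit 3250784458) (nat_lit 228) (nat_lit 11498857323) (nat_lit 155) (nat_lit 5) (nat_lit 157) (nat_lit 5) (nat_lit 158) (nat_lit 5) (nat_lit 422) (nat_lit 325) (nat_lit 273)) (XT.lf (nat_lit 0) (nat_lit 9478699476) (nat_lit 228) (nat_lit 3224890144) (nat_lit 76) (nat_lit 2820607751)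 (nat_lit 155) (nat_lit 5) (nat_lit 158) (nat_lit 5) (nat_lit 156) (nat_lit 4) (nat_lit 423) (nat_lit 325) (nat_lit 272)))) (XT.nd (nat_lit 156) (nat_lit 152) (nat_lit 0) (XT.nd (nat_lit 78) (nat_lit 228) (nat_lit 0) (XT.lf (nat_lit 0) (nat_lit 8679390111) (nat_lit 152) (nat_lit 6748530079) (nat_lit 228) (nat_lit 367247123) (nat_lit 153) (nat_lit 5) (nat_lit 155) (nat_lit 5) (nat_lit 156) (nat_lit 4) (nat_lit 424) (nat_lit 325) (nat_lit 271)) (XT.lf (nat_lit 0) (nat_lit 4872182591) (nat_lit 152) (nat_lit 525918441) (nat_lit 228) (nat_lit 10673873295) (nat_lit 150) (nat_lit 5) (nat_lit 152) (nat_lit 5) (nat_lit 153) (nat_lit 5) (nat_lit 425) (nat_lit 325) (nat_lit 270))) (XT.nd (nat_lit 78) (nat_lit 76) (nat_lit 0) (XT.lf (nat_lit 0) (nat_lit 862966661) (nat_lit 76) (nat_lit 10547660687) (nat_lit 152) (nat_lit 4943901149) (nat_lit 149) (nat_lit 5) (nat_lit 150) (nat_lit 5) (nat_lit 151) (nat_lit 4) (nat_lit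 426) (nat_lit 325) (nat_lit 269)) (XT.lf (nat_lit 0) (nat_lit 1002974264) (nat_lit 152) (nat_lit 3244290367) (nat_lit 76) (nat_lit 12396107479) (nat_lit 148) (nat_lit 5) (nat_lit 150) (nat_lit 5) (nat_lit 149) (nat_lit 5) (nat_lit 427) (nat_lit 325) (nat_lit 268))))) (XT.nd (nat_lit 312) (nat_lit 380) (nat_lit 0) (XT.nd (nat_lit 156) (nat_lit 228) (nat_lit 0) (XT.nd (nat_lit 78) (nat_lit 76) (nat_lit 0) (XT.lf (nat_lit 0) (nat_lit 7087669218) (nat_lit 228) (nat_lit 7556606418) (nat_lit 76) (nat_lit 2293373483) (nat_lit 146) (nat_lit 5) (nat_lit 149) (nat_lit 5) (nat_lit 147) (nat_lit 4) (nat_lit 428) (nat_lit 325) (nat_lit 267)) (XT.lf (nat_lit 0) (nat_lit 5169436649) (nat_lit 76) (nat_lit 8256367245) (nat_lit 152) (nat_lit 3812823580) (nat_lit 145) (nat_lit 5) (nat_lit 146) (nat_lit 5) (nat_lit 147) (nat_lit 4) (nat_lit 429) (nat_lit 325) (nat_lit 266))) (XT.nd (nat_lit 78) (nat_lit 0) (nat_lit 0)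 (XT.lf (nat_lit 0) (nat_lit 776071581) (nat_lit 152) (nat_lit 1613111201) (nat_lit 228) (nat_lit 15157838490) (nat_lit 142) (nat_lit 5) (nat_lit 144) (nat_lit 5) (nat_lit 145) (nat_lit 5) (nat_lit 430) (nat_lit 325) (nat_lit 265)) (XT.lf (nat_lit 0) (nat_lit 8820274840) (nat_lit 228) (nat_lit 3797307725) (nat_lit 76) (nat_lit 5242362012) (nat_lit 142) (nat_lit 5) (nat_lit 145) (nat_lit 5) (nat_lit 143) (nat_lit 4) (nat_lit 431) (nat_lit 325) (nat_lit 264)))) (XT.nd (nat_lit 156) (nat_lit 76) (nat_lit 0) (XT.nd (nat_lit 78) (nat_lit 228) (nat_lit 0) (XT.lf (nat_lit 0) (nat_lit 9639449647) (nat_lit 76) (nat_lit 5861354546) (nat_lit 152) (nat_lit 2679756251) (nat_lit 141) (nat_lit 5) (nat_lit 142) (nat_lit 5) (nat_lit 143) (nat_lit 4) (nat_lit 432) (nat_lit 325) (nat_lit 263)) (XT.lf (nat_lit 0) (nat_lit 3841576909) (nat_lit 228) (nat_lit 13510596486) (nat_lit 76) (nat_lit 1156120337) (nat_lit 138) (nat_lit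 5) (nat_lit 141) (nat_lit 5) (nat_lit 139) (nat_lit 4) (nat_lit 433) (nat_lit 325) (nat_lit 262))) (XT.nd (nat_lit 78) (nat_lit 0) (nat_lit 0) (XT.lf (nat_lit 0) (nat_lit 92431079) (nat_lit 76) (nat_lit 10506368237) (nat_lit 152) (nat_lit 8243440446) (nat_lit 137) (nat_lit 5) (nat_lit 138) (nat_lit 5) (nat_lit 139) (nat_lit 4) (nat_lit 434) (nat_lit 325) (nat_lit 261)) (XT.lf (nat_lit 0) (nat_lit 14283032959) (nat_lit 76) (nat_lit 3360796658) (nat_lit 152) (nat_lit 1539821818) (nat_lit 137) (nat_lit 5) (nat_lit 138) (nat_lit 5) (nat_lit 139) (nat_lit 4) (nat_lit 435) (nat_lit 325) (nat_lit 260)))))) (XT.nd (nat_lit 624) (nat_lit 836) (nat_lit 0) (XT.nd (nat_lit 312) (nat_lit 380) (nat_lit 0) (XT.nd (nat_lit 156) (nat_lit 228) (nat_lit 0) (XT.nd (nat_lit 78) (nat_lit 76) (nat_lit 0) (XT.lf (nat_lit 0) (nat_lit 5339652508) (nat_lit 228) (nat_lit 10171693108) (nat_lit 76) (nat_lit 4020029648) (nat_lit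 134) (nat_lit 5) (nat_lit 137) (nat_lit 5) (nat_lit 135) (nat_lit 4) (nat_lit 436) (nat_lit 325) (nat_lit 259)) (XT.lf (nat_lit 0) (nat_lit 4197340271) (nat_lit 76) (nat_lit 8270607748) (nat_lit 152) (nat_lit 7418923839) (nat_lit 133) (nat_lit 5) (nat_lit 134) (nat_lit 5) (nat_lit 135) (nat_lit 4) (nat_lit 437) (nat_lit 325) (nat_lit 258))) (XT.nd (nat_lit 78) (nat_lit 228) (nat_lit 0) (XT.lf (nat_lit 0) (nat_lit 19111135698) (nat_lit 76) (nat_lit 752008552) (nat_lit 152) (nat_lit 388297544) (nat_lit 133) (nat_lit 5) (nat_lit 134) (nat_lit 5) (nat_lit 135) (nat_lit 4) (nat_lit 438) (nat_lit 325) (nat_lit 257)) (XT.lf (nat_lit 0) (nat_lit 6873771518) (nat_lit 228) (nat_lit 6732294780) (nat_lit 76) (nat_lit 7014278537) (nat_lit 130) (nat_lit 5) (nat_lit 133) (nat_lit 5) (nat_lit 131) (nat_lit 4) (nat_lit 439) (nat_lit 325) (nat_lit 256)))) (XT.nd (nat_lit 156) (nat_lit 76) (nat_lit 0) (XT.nd (nat_lit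 78) (nat_lit 228) (nat_lit 0) (XT.lf (nat_lit 0) (nat_lit 8451032081) (nat_lit 76) (nat_lit 5946594231) (nat_lit 152) (nat_lit 6601021477) (nat_lit 129) (nat_lit 5) (nat_lit 130) (nat_lit 5) (nat_lit 131) (nat_lit 4) (nat_lit 440) (nat_lit 325) (nat_lit 255)) (XT.lf (nat_lit 0) (nat_lit 810343888) (nat_lit 228) (nat_lit 18610947030) (nat_lit 76) (nat_lit 1964802390) (nat_lit 126) (nat_lit 5) (nat_lit 129) (nat_lit 5) (nat_lit 127) (nat_lit 4) (nat_lit 441) (nat_lit 325) (nat_lit 254))) (XT.nd (nat_lit 78) (nat_lit 76) (nat_lit 0) (XT.lf (nat_lit 0) (nat_lit 8449784964) (nat_lit 228) (nat_lit 3185334418) (nat_lit 76) (nat_lit 10143929850) (nat_lit 126) (nat_lit 5) (nat_lit 129) (nat_lit 5) (nat_lit 127) (nat_lit 4) (nat_lit 442) (nat_lit 325) (nat_lit 253)) (XT.lf (nat_lit 0) (nat_lit 12863486692) (nat_lit 76) (nat_lit 3531555585) (nat_lit 152) (nat_lit 5786452567) (nat_lit 125) (nat_lit 5) (nat_lit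 126) (nat_lit 5) (nat_lit 127) (nat_lit 4) (nat_lit 443) (nat_lit 325) (nat_lit 252))))) (XT.nd (nat_lit 312) (nat_lit 304) (nat_lit 0) (XT.nd (nat_lit 156) (nat_lit 228) (nat_lit 0) (XT.nd (nat_lit 78) (nat_lit 76) (nat_lit 0) (XT.lf (nat_lit 0) (nat_lit 2042715338) (nat_lit 228) (nat_lit 15752480851) (nat_lit 76) (nat_lit 4797283072) (nat_lit 122) (nat_lit 5) (nat_lit 125) (nat_lit 5) (nat_lit 123) (nat_lit 4) (nat_lit 444) (nat_lit 325) (nat_lit 251)) (XT.lf (nat_lit 0) (nat_lit 486377275) (nat_lit 76) (nat_lit 9591863356) (nat_lit 152) (nat_lit 12933200302) (nat_lit 121) (nat_lit 5) (nat_lit 122) (nat_lit 5) (nat_lit 123) (nat_lit 4) (nat_lit 445) (nat_lit 325) (nat_lit 250))) (XT.nd (nat_lit 78) (nat_lit 228) (nat_lit 0) (XT.lf (nat_lit 0) (nat_lit 17445491497) (nat_lit 76) (nat_lit 1022029286) (nat_lit 152) (nat_lit 4972070000) (nat_lit 121) (nat_lit 5) (nat_lit 122) (nat_lit 5) (nat_lit 123)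 (nat_lit 4) (nat_lit 446) (nat_lit 325) (nat_lit 249)) (XT.lf (nat_lit 0) (nat_lit 3302410205) (nat_lit 228) (nat_lit 12822931158) (nat_lit 76) (nat_lit 7750187794) (nat_lit 118) (nat_lit 5) (nat_lit 121) (nat_lit 5) (nat_lit 119) (nat_lit 4) (nat_lit 447) (nat_lit 325) (nat_lit 248)))) (XT.nd (nat_lit 156) (nat_lit 228) (nat_lit 0) (XT.nd (nat_lit 78) (nat_lit 0) (nat_lit 0) (XT.lf (nat_lit 0) (nat_lit 4347540239) (nat_lit 76) (nat_lit 7445293797) (nat_lit 152) (nat_lit 12528205507) (nat_lit 117) (nat_lit 5) (nat_lit 118) (nat_lit 5) (nat_lit 119) (nat_lit 4) (nat_lit 448) (nat_lit 325) (nat_lit 247)) (XT.lf (nat_lit 0) (nat_lit 20637791175) (nat_lit 152) (nat_lit 2583965497) (nat_lit 0) (nat_lit 1555163951) (nat_lit 117) (nat_lit 5) (nat_lit 119) (nat_lit 4) (nat_lit 117) (nat_lit 4) (nat_lit 449) (nat_lit 325) (nat_lit 246))) (XT.nd (nat_lit 78) (nat_lit 76) (nat_lit 0) (XT.lf (nat_lit 0) (nat_lit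 4593962519) (nat_lit 152) (nat_lit 9816448944) (nat_lit 76) (nat_lit 10829362910) (nat_lit 115) (nat_lit 5) (nat_lit 117) (nat_lit 5) (nat_lit 116) (nat_lit 4) (nat_lit 450) (nat_lit 325) (nat_lit 245)) (XT.lf (nat_lit 0) (nat_lit 8343925271) (nat_lit 76) (nat_lit 5224522436) (nat_lit 152) (nat_lit 12144958800) (nat_lit 114) (nat_lit 5) (nat_lit 115) (nat_lit 5) (nat_lit 116) (nat_lit 4) (nat_lit 451) (nat_lit 325) (nat_lit 244))))))))
noncomputable def xc66 : XT := (XT.nd (nat_lit 2340) (nat_lit 1064) (nat_lit 0) (XT.nd (nat_lit 1170) (nat_lit 1216) (nat_lit 0) (XT.nd (nat_lit 546) (nat_lit 608) (nat_lit 0) (XT.nd (nat_lit 234) (nat_lit 304) (nat_lit 0) (XT.nd (nat_lit 78) (nat_lit 152) (nat_lit 0) (XT.lf (nat_lit 0) (nat_lit 942960954) (nat_lit 76) (nat_lit 21975208585) (nat_lit 76) (nat_lit 3279898001) (nat_lit 113) (nat_lit 4) (nat_lit 114) (nat_lit 5) (nat_lit 114) (nat_lit 4) (nat_lit 452) (nat_lit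 325) (nat_lit 243)) (XT.nd (nat_lit 78) (nat_lit 76) (nat_lit 0) (XT.lf (nat_lit 0) (nat_lit 5921933809) (nat_lit 152) (nat_lit 6726708246) (nat_lit 76) (nat_lit 14041389150) (nat_lit 112) (nat_lit 5) (nat_lit 114) (nat_lit 5) (nat_lit 113) (nat_lit 4) (nat_lit 453) (nat_lit 325) (nat_lit 242)) (XT.lf (nat_lit 0) (nat_lit 12485375787) (nat_lit 76) (nat_lit 2925950079) (nat_lit 152) (nat_lit 11782130847) (nat_lit 111) (nat_lit 5) (nat_lit 112) (nat_lit 5) (nat_lit 113) (nat_lit 4) (nat_lit 454) (nat_lit 325) (nat_lit 241)))) (XT.nd (nat_lit 156) (nat_lit 152) (nat_lit 0) (XT.nd (nat_lit 78) (nat_lit 76) (nat_lit 0) (XT.lf (nat_lit 0) (nat_lit 4640114678) (nat_lit 76) (nat_lit 20684096192) (nat_lit 76) (nat_lit 2383609780) (nat_lit 110) (nat_lit 4) (nat_lit 111) (nat_lit 5) (nat_lit 111) (nat_lit 4) (nat_lit 455) (nat_lit 325) (nat_lit 240)) (XT.lf (nat_lit 0) (nat_lit 7290940425) (nat_lit 152) (nat_lit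 3546899012) (nat_lit 76) (nat_lit 17393577960) (nat_lit 109) (nat_lit 5) (nat_lit 111) (nat_lit 5) (nat_lit 110) (nat_lit 4) (nat_lit 456) (nat_lit 325) (nat_lit 239))) (XT.nd (nat_lit 78) (nat_lit 76) (nat_lit 0) (XT.lf (nat_lit 0) (nat_lit 16782433012) (nat_lit 76) (nat_lit 545445406) (nat_lit 152) (nat_lit 11438533842) (nat_lit 108) (nat_lit 5) (nat_lit 109) (nat_lit 5) (nat_lit 110) (nat_lit 4) (nat_lit 457) (nat_lit 325) (nat_lit 238)) (XT.lf (nat_lit 0) (nat_lit 8465101307) (nat_lit 76) (nat_lit 19373817196) (nat_lit 76) (nat_lit 1473348647) (nat_lit 107) (nat_lit 4) (nat_lit 108) (nat_lit 5) (nat_lit 108) (nat_lit 4) (nat_lit 458) (nat_lit 325) (nat_lit 237))))) (XT.nd (nat_lit 312) (nat_lit 228) (nat_lit 0) (XT.nd (nat_lit 156) (nat_lit 228) (nat_lit 0) (XT.nd (nat_lit 78) (nat_lit 76) (nat_lit 0) (XT.lf (nat_lit 0) (nat_lit 8705679721) (nat_lit 152) (nat_lit 269716853) (nat_lit 76) (nat_lit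 20893973209) (nat_lit 106) (nat_lit 5) (nat_lit 108) (nat_lit 5) (nat_lit 107) (nat_lit 4) (nat_lit 459) (nat_lit 325) (nat_lit 236)) (XT.lf (nat_lit 0) (nat_lit 19343185047) (nat_lit 152) (nat_lit 9209933085) (nat_lit 0) (nat_lit 1884148166) (nat_lit 105) (nat_lit 5) (nat_lit 107) (nat_lit 4) (nat_lit 105) (nat_lit 4) (nat_lit 460) (nat_lit 325) (nat_lit 235))) (XT.nd (nat_lit 78) (nat_lit 152) (nat_lit 0) (XT.lf (nat_lit 0) (nat_lit 12427571743) (nat_lit 76) (nat_lit 18043381811) (nat_lit 76) (nat_lit 546112014) (nat_lit 104) (nat_lit 4) (nat_lit 105) (nat_lit 5) (nat_lit 105) (nat_lit 4) (nat_lit 461) (nat_lit 325) (nat_lit 234)) (XT.lf (nat_lit 0) (nat_lit 3174598060) (nat_lit 76) (nat_lit 7026873463) (nat_lit 152) (nat_lit 21407276049) (nat_lit 102) (nat_lit 5) (nat_lit 103) (nat_lit 5) (nat_lit 104) (nat_lit 4) (nat_lit 462) (nat_lit 325) (nat_lit 233)))) (XT.nd (nat_lit 156) (nat_lit 76) (nat_lit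 0) (XT.nd (nat_lit 78) (nat_lit 152) (nat_lit 0) (XT.lf (nat_lit 0) (nat_lit 21451735934) (nat_lit 152) (nat_lit 6367476371) (nat_lit 0) (nat_lit 4393068630) (nat_lit 102) (nat_lit 5) (nat_lit 104) (nat_lit 4) (nat_lit 102) (nat_lit 4) (nat_lit 463) (nat_lit 325) (nat_lit 232)) (XT.lf (nat_lit 0) (nat_lit 393287669) (nat_lit 152) (nat_lit 16294262785) (nat_lit 76) (nat_lit 16140559214) (nat_lit 100) (nat_lit 5) (nat_lit 102) (nat_lit 5) (nat_lit 101) (nat_lit 4) (nat_lit 464) (nat_lit 325) (nat_lit 231))) (XT.nd (nat_lit 78) (nat_lit 0) (nat_lit 0) (XT.lf (nat_lit 0) (nat_lit 6740060825) (nat_lit 76) (nat_lit 5016430616) (nat_lit 152) (nat_lit 21699994646) (nat_lit 99) (nat_lit 5) (nat_lit 100) (nat_lit 5) (nat_lit 101) (nat_lit 4) (nat_lit 465) (nat_lit 325) (nat_lit 230)) (XT.lf (nat_lit 0) (nat_lit 23655440421) (nat_lit 152) (nat_lit 3444886775) (nat_lit 0) (nat_lit 6997541132) (nat_lit 99) (nat_lit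 5) (nat_lit 101) (nat_lit 4) (nat_lit 99) (nat_lit 4) (nat_lit 466) (nat_lit 325) (nat_lit 229)))))) (XT.nd (nat_lit 546) (nat_lit 608) (nat_lit 0) (XT.nd (nat_lit 234) (nat_lit 380) (nat_lit 0) (XT.nd (nat_lit 78) (nat_lit 76) (nat_lit 0) (XT.lf (nat_lit 0) (nat_lit 1344616152) (nat_lit 152) (nat_lit 13958509916) (nat_lit 76) (nat_lit 19448606100) (nat_lit 97) (nat_lit 5) (nat_lit 99) (nat_lit 5) (nat_lit 98) (nat_lit 4) (nat_lit 467) (nat_lit 325) (nat_lit 228)) (XT.nd (nat_lit 78) (nat_lit 0) (nat_lit 0) (XT.lf (nat_lit 0) (nat_lit 10430358818) (nat_lit 76) (nat_lit 2942913039) (nat_lit 152) (nat_lit 22045901872) (nat_lit 96) (nat_lit 5) (nat_lit 97) (nat_lit 5) (nat_lit 98) (nat_lit 4) (nat_lit 468) (nat_lit 325) (nat_lit 227)) (XT.lf (nat_lit 0) (nat_lit 25961748239) (nat_lit 152) (nat_lit 435262481) (nat_lit 0) (nat_lit 9703658984) (nat_lit 96) (nat_lit 5) (nat_lit 98) (nat_lit 4) (nat_lit 96)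 (nat_lit 4) (nat_lit 469) (nat_lit 325) (nat_lit 226)))) (XT.nd (nat_lit 156) (nat_lit 152) (nat_lit 0) (XT.nd (nat_lit 78) (nat_lit 76) (nat_lit 0) (XT.lf (nat_lit 0) (nat_lit 2321561296) (nat_lit 152) (nat_lit 11572135621) (nat_lit 76) (nat_lit 22901167825) (nat_lit 94) (nat_lit 5) (nat_lit 96) (nat_lit 5) (nat_lit 95) (nat_lit 4) (nat_lit 470) (nat_lit 325) (nat_lit 225)) (XT.lf (nat_lit 0) (nat_lit 14255123192) (nat_lit 76) (nat_lit 802050699) (nat_lit 152) (nat_lit 22446547249) (nat_lit 93) (nat_lit 5) (nat_lit 94) (nat_lit 5) (nat_lit 95) (nat_lit 4) (nat_lit 471) (nat_lit 325) (nat_lit 224))) (XT.nd (nat_lit 78) (nat_lit 76) (nat_lit 0) (XT.lf (nat_lit 0) (nat_lit 2721849368) (nat_lit 76) (nat_lit 25682752794) (nat_lit 76) (nat_lit 9822348649) (nat_lit 92) (nat_lit 4) (nat_lit 93) (nat_lit 5) (nat_lit 93) (nat_lit 4) (nat_lit 472) (nat_lit 325) (nat_lit 223)) (XT.lf (nat_lit 0) (nat_lit 3327216431)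 (nat_lit 152) (nat_lit 9129980277) (nat_lit 76) (nat_lit 26507502305) (nat_lit 91) (nat_lit 5) (nat_lit 93) (nat_lit 5) (nat_lit 92) (nat_lit 4) (nat_lit 473) (nat_lit 325) (nat_lit 222))))) (XT.nd (nat_lit 312) (nat_lit 304) (nat_lit 0) (XT.nd (nat_lit 156) (nat_lit 152) (nat_lit 0) (XT.nd (nat_lit 78) (nat_lit 76) (nat_lit 0) (XT.lf (nat_lit 0) (nat_lit 16827328796) (nat_lit 152) (nat_lit 21506440123) (nat_lit 0) (nat_lit 1383288819) (nat_lit 90) (nat_lit 5) (nat_lit 92) (nat_lit 4) (nat_lit 90) (nat_lit 4) (nat_lit 474) (nat_lit 325) (nat_lit 221)) (XT.lf (nat_lit 0) (nat_lit 5991827004) (nat_lit 76) (nat_lit 24979419911) (nat_lit 76) (nat_lit 9513576236) (nat_lit 89) (nat_lit 4) (nat_lit 90) (nat_lit 5) (nat_lit 90) (nat_lit 4) (nat_lit 475) (nat_lit 325) (nat_lit 220))) (XT.nd (nat_lit 78) (nat_lit 76) (nat_lit 0) (XT.lf (nat_lit 0) (nat_lit 4364752606) (nat_lit 152) (nat_lit 6626564522) (nat_lit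 76) (nat_lit 30277551950) (nat_lit 88) (nat_lit 5) (nat_lit 90) (nat_lit 5) (nat_lit 89) (nat_lit 4) (nat_lit 476) (nat_lit 325) (nat_lit 219)) (XT.lf (nat_lit 0) (nat_lit 18684427690) (nat_lit 152) (nat_lit 19754156648) (nat_lit 0) (nat_lit 3628539933) (nat_lit 87) (nat_lit 5) (nat_lit 89) (nat_lit 4) (nat_lit 87) (nat_lit 4) (nat_lit 477) (nat_lit 325) (nat_lit 218)))) (XT.nd (nat_lit 156) (nat_lit 152) (nat_lit 0) (XT.nd (nat_lit 78) (nat_lit 76) (nat_lit 0) (XT.lf (nat_lit 0) (nat_lit 9374443308) (nat_lit 76) (nat_lit 24291586879) (nat_lit 76) (nat_lit 9216326820) (nat_lit 86) (nat_lit 4) (nat_lit 87) (nat_lit 5) (nat_lit 87) (nat_lit 4) (nat_lit 478) (nat_lit 325) (nat_lit 217)) (XT.lf (nat_lit 0) (nat_lit 5437433901) (nat_lit 152) (nat_lit 4056077301) (nat_lit 76) (nat_lit 34221966895) (nat_lit 85) (nat_lit 5) (nat_lit 87) (nat_lit 5) (nat_lit 86) (nat_lit 4) (nat_lit 479) (nat_lit 325) (nat_lit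 216))) (XT.nd (nat_lit 78) (nat_lit 76) (nat_lit 0) (XT.lf (nat_lit 0) (nat_lit 20626872352) (nat_lit 152) (nat_lit 17980834942) (nat_lit 0) (nat_lit 5954708882) (nat_lit 84) (nat_lit 5) (nat_lit 86) (nat_lit 4) (nat_lit 84) (nat_lit 4) (nat_lit 480) (nat_lit 325) (nat_lit 215)) (XT.lf (nat_lit 0) (nat_lit 12878641337) (nat_lit 76) (nat_lit 23619358203) (nat_lit 76) (nat_lit 8929982693) (nat_lit 83) (nat_lit 4) (nat_lit 84) (nat_lit 5) (nat_lit 84) (nat_lit 4) (nat_lit 481) (nat_lit 325) (nat_lit 214))))))) (XT.nd (nat_lit 44304) (nat_lit 0) (nat_lit 15124) (XT.nd (nat_lit 546) (nat_lit 456) (nat_lit 0) (XT.nd (nat_lit 234) (nat_lit 380) (nat_lit 0) (XT.nd (nat_lit 78) (nat_lit 152) (nat_lit 0) (XT.lf (nat_lit 0) (nat_lit 6548632551) (nat_lit 152) (nat_lit 1412362148) (nat_lit 76) (nat_lit 38352131844) (nat_lit 82) (nat_lit 5) (nat_lit 84) (nat_lit 5) (nat_lit 83) (nat_lit 4) (nat_lit 482) (nat_lit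 325) (nat_lit 213)) (XT.nd (nat_lit 78) (nat_lit 76) (nat_lit 0) (XT.lf (nat_lit 0) (nat_lit 22661059979) (nat_lit 152) (nat_lit 16183089705) (nat_lit 0) (nat_lit 8367554904) (nat_lit 81) (nat_lit 5) (nat_lit 83) (nat_lit 4) (nat_lit 81) (nat_lit 4) (nat_lit 483) (nat_lit 325) (nat_lit 212)) (XT.lf (nat_lit 0) (nat_lit 16513896738) (nat_lit 76) (nat_lit 22962773345) (nat_lit 76) (nat_lit 8653975596) (nat_lit 80) (nat_lit 4) (nat_lit 81) (nat_lit 5) (nat_lit 81) (nat_lit 4) (nat_lit 484) (nat_lit 325) (nat_lit 211)))) (XT.nd (nat_lit 156) (nat_lit 228) (nat_lit 0) (XT.nd (nat_lit 78) (nat_lit 0) (nat_lit 0) (XT.lf (nat_lit 0) (nat_lit 1337191709) (nat_lit 76) (nat_lit 6377506180) (nat_lit 152) (nat_lit 41355858705) (nat_lit 78) (nat_lit 5) (nat_lit 79) (nat_lit 5) (nat_lit 80) (nat_lit 4) (nat_lit 485) (nat_lit 325) (nat_lit 210)) (XT.lf (nat_lit 0) (nat_lit 24793698777) (nat_lit 152) (nat_lit 14357347116)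 (nat_lit 0) (nat_lit 10873252350) (nat_lit 78) (nat_lit 5) (nat_lit 80) (nat_lit 4) (nat_lit 78) (nat_lit 4) (nat_lit 486) (nat_lit 325) (nat_lit 209))) (XT.nd (nat_lit 78) (nat_lit 152) (nat_lit 0) (XT.lf (nat_lit 0) (nat_lit 20290245105) (nat_lit 76) (nat_lit 22321815539) (nat_lit 76) (nat_lit 8387781769) (nat_lit 77) (nat_lit 4) (nat_lit 78) (nat_lit 5) (nat_lit 78) (nat_lit 4) (nat_lit 487) (nat_lit 325) (nat_lit 208)) (XT.lf (nat_lit 0) (nat_lit 4203219394) (nat_lit 76) (nat_lit 4737886398) (nat_lit 152) (nat_lit 43056294148) (nat_lit 75) (nat_lit 5) (nat_lit 76) (nat_lit 5) (nat_lit 77) (nat_lit 4) (nat_lit 488) (nat_lit 325) (nat_lit 207))))) (XT.nd (nat_lit 312) (nat_lit 228) (nat_lit 0) (XT.nd (nat_lit 156) (nat_lit 152) (nat_lit 0) (XT.nd (nat_lit 78) (nat_lit 76) (nat_lit 0) (XT.lf (nat_lit 0) (nat_lit 27031834054) (nat_lit 152) (nat_lit 12499837706) (nat_lit 0) (nat_lit 13478404209) (nat_lit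 75) (nat_lit 5) (nat_lit 77) (nat_lit 4) (nat_lit 75) (nat_lit 4) (nat_lit 489) (nat_lit 325) (nat_lit 206)) (XT.lf (nat_lit 0) (nat_lit 24218311762) (nat_lit 76) (nat_lit 21696419562) (nat_lit 76) (nat_lit 8130917539) (nat_lit 74) (nat_lit 4) (nat_lit 75) (nat_lit 5) (nat_lit 75) (nat_lit 4) (nat_lit 490) (nat_lit 325) (nat_lit 205))) (XT.nd (nat_lit 78) (nat_lit 0) (nat_lit 0) (XT.lf (nat_lit 0) (nat_lit 7165049814) (nat_lit 76) (nat_lit 3052818363) (nat_lit 152) (nat_lit 44886481613) (nat_lit 72) (nat_lit 5) (nat_lit 73) (nat_lit 5) (nat_lit 74) (nat_lit 4) (nat_lit 491) (nat_lit 325) (nat_lit 204)) (XT.lf (nat_lit 0) (nat_lit 29382875158) (nat_lit 152) (nat_lit 10606588125) (nat_lit 0) (nat_lit 16190057904) (nat_lit 72) (nat_lit 5) (nat_lit 74) (nat_lit 4) (nat_lit 72) (nat_lit 4) (nat_lit 492) (nat_lit 325) (nat_lit 203)))) (XT.nd (nat_lit 156) (nat_lit 0) (nat_lit 0) (XT.nd (nat_lit 78) (nat_lit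 152) (nat_lit 0) (XT.lf (nat_lit 0) (nat_lit 28309344023) (nat_lit 76) (nat_lit 21086478612) (nat_lit 76) (nat_lit 7882935383) (nat_lit 71) (nat_lit 4) (nat_lit 72) (nat_lit 5) (nat_lit 72) (nat_lit 4) (nat_lit 493) (nat_lit 325) (nat_lit 202)) (XT.lf (nat_lit 0) (nat_lit 10230546832) (nat_lit 76) (nat_lit 1318469733) (nat_lit 152) (nat_lit 46853296152) (nat_lit 69) (nat_lit 5) (nat_lit 70) (nat_lit 5) (nat_lit 71) (nat_lit 4) (nat_lit 494) (nat_lit 325) (nat_lit 201))) (XT.nd (nat_lit 43212) (nat_lit 0) (nat_lit 21584) (XT.lf (nat_lit 0) (nat_lit 31854623380) (nat_lit 152) (nat_lit 8673411819) (nat_lit 0) (nat_lit 19015723326) (nat_lit 69) (nat_lit 5) (nat_lit 71) (nat_lit 4) (nat_lit 69) (nat_lit 4) (nat_lit 495) (nat_lit 325) (nat_lit 200)) (XT.lf (nat_lit 0) (nat_lit 167538930) (nat_lit 684) (nat_lit 3300199336) (nat_lit 0) (nat_lit 167538930) (nat_lit 353) (nat_lit 5) (nat_lit 362) (nat_lit 4)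 (nat_lit 353) (nat_lit 4) (nat_lit 368) (nat_lit 326) (nat_lit 326)))))) (XT.nd (nat_lit 624) (nat_lit 2964) (nat_lit 0) (XT.nd (nat_lit 312) (nat_lit 1596) (nat_lit 0) (XT.nd (nat_lit 156) (nat_lit 1216) (nat_lit 0) (XT.nd (nat_lit 78) (nat_lit 684) (nat_lit 0) (XT.lf (nat_lit 0) (nat_lit 3974694574) (nat_lit 684) (nat_lit 966059375) (nat_lit 0) (nat_lit 2390065092) (nat_lit 353) (nat_lit 5) (nat_lit 362) (nat_lit 4) (nat_lit 353) (nat_lit 4) (nat_lit 369) (nat_lit 326) (nat_lit 325)) (XT.lf (nat_lit 0) (nat_lit 268259817) (nat_lit 684) (nat_lit 2578537277) (nat_lit 76) (nat_lit 4547676106) (nat_lit 344) (nat_lit 5) (nat_lit 353) (nat_lit 5) (nat_lit 345) (nat_lit 4) (nat_lit 370) (nat_lit 326) (nat_lit 324))) (XT.nd (nat_lit 78) (nat_lit 684) (nat_lit 0) (XT.lf (nat_lit 0) (nat_lit 3247907835) (nat_lit 532) (nat_lit 626317686) (nat_lit 608) (nat_lit 3586605453) (nat_lit 337) (nat_lit 5) (nat_lit 344)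 (nat_lit 5) (nat_lit 345) (nat_lit 4) (nat_lit 371) (nat_lit 326) (nat_lit 323)) (XT.lf (nat_lit 0) (nat_lit 16947145) (nat_lit 684) (nat_lit 5855821011) (nat_lit 76) (nat_lit 1657626913) (nat_lit 328) (nat_lit 5) (nat_lit 337) (nat_lit 5) (nat_lit 329) (nat_lit 4) (nat_lit 372) (nat_lit 326) (nat_lit 322)))) (XT.nd (nat_lit 156) (nat_lit 1064) (nat_lit 0) (XT.nd (nat_lit 78) (nat_lit 0) (nat_lit 0) (XT.lf (nat_lit 0) (nat_lit 67325002) (nat_lit 532) (nat_lit 3540785357) (nat_lit 608) (nat_lit 3994322662) (nat_lit 321) (nat_lit 5) (nat_lit 328) (nat_lit 5) (nat_lit 329) (nat_lit 4) (nat_lit 373) (nat_lit 326) (nat_lit 321)) (XT.lf (nat_lit 0) (nat_lit 6173200061) (nat_lit 532) (nat_lit 1096475472) (nat_lit 608) (nat_lit 408076566) (nat_lit 321) (nat_lit 5) (nat_lit 328) (nat_lit 5) (nat_lit 329) (nat_lit 4) (nat_lit 374) (nat_lit 326) (nat_lit 320))) (XT.nd (nat_lit 78) (nat_lit 456) (nat_lit 0) (XT.lf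 (nat_lit 0) (nat_lit 3186015044) (nat_lit 608) (nat_lit 3117525432) (nat_lit 76) (nat_lit 1451911479) (nat_lit 313) (nat_lit 5) (nat_lit 321) (nat_lit 5) (nat_lit 314) (nat_lit 4) (nat_lit 375) (nat_lit 326) (nat_lit 319)) (XT.lf (nat_lit 0) (nat_lit 3090735418) (nat_lit 456) (nat_lit 3751805439) (nat_lit 532) (nat_lit 993936338) (nat_lit 307) (nat_lit 5) (nat_lit 313) (nat_lit 5) (nat_lit 314) (nat_lit 4) (nat_lit 376) (nat_lit 326) (nat_lit 318))))) (XT.nd (nat_lit 312) (nat_lit 1368) (nat_lit 0) (XT.nd (nat_lit 156) (nat_lit 988) (nat_lit 0) (XT.nd (nat_lit 78) (nat_lit 0) (nat_lit 0) (XT.lf (nat_lit 0) (nat_lit 1517888430) (nat_lit 532) (nat_lit 1072470210) (nat_lit 608) (nat_lit 5330179208) (nat_lit 299) (nat_lit 5) (nat_lit 306) (nat_lit 5) (nat_lit 307) (nat_lit 5) (nat_lit 377) (nat_lit 326) (nat_lit 317)) (XT.lf (nat_lit 0) (nat_lit 6235796429) (nat_lit 608) (nat_lit 82600948) (nat_lit 76)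 (nat_lit 1689219982) (nat_lit 299) (nat_lit 5) (nat_lit 307) (nat_lit 5) (nat_lit 300) (nat_lit 4) (nat_lit 378) (nat_lit 326) (nat_lit 316))) (XT.nd (nat_lit 78) (nat_lit 456) (nat_lit 0) (XT.lf (nat_lit 0) (nat_lit 1840221622) (nat_lit 532) (nat_lit 1687646197) (nat_lit 76) (nat_lit 4569379101) (nat_lit 292) (nat_lit 5) (nat_lit 299) (nat_lit 5) (nat_lit 293) (nat_lit 5) (nat_lit 379) (nat_lit 326) (nat_lit 315)) (XT.lf (nat_lit 0) (nat_lit 4871923265) (nat_lit 456) (nat_lit 613022607) (nat_lit 532) (nat_lit 2705295245) (nat_lit 286) (nat_lit 5) (nat_lit 292) (nat_lit 5) (nat_lit 293) (nat_lit 5) (nat_lit 380) (nat_lit 326) (nat_lit 314)))) (XT.nd (nat_lit 156) (nat_lit 456) (nat_lit 0) (XT.nd (nat_lit 78) (nat_lit 456) (nat_lit 0) (XT.lf (nat_lit 0) (nat_lit 919642347) (nat_lit 456) (nat_lit 4992322189) (nat_lit 76) (nat_lit 2374228227) (nat_lit 280) (nat_lit 5) (nat_lit 286) (nat_lit 5) (nat_lit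 281) (nat_lit 5) (nat_lit 381) (nat_lit 326) (nat_lit 313)) (XT.lf (nat_lit 0) (nat_lit 1671762315) (nat_lit 456) (nat_lit 2897216593) (nat_lit 532) (nat_lit 3816139759) (nat_lit 274) (nat_lit 5) (nat_lit 280) (nat_lit 5) (nat_lit 281) (nat_lit 5) (nat_lit 382) (nat_lit 326) (nat_lit 312))) (XT.nd (nat_lit 78) (nat_lit 76) (nat_lit 0) (XT.lf (nat_lit 0) (nat_lit 33554814) (nat_lit 380) (nat_lit 8262625213) (nat_lit 456) (nat_lit 191780790) (nat_lit 269) (nat_lit 5) (nat_lit 274) (nat_lit 5) (nat_lit 275) (nat_lit 4) (nat_lit 383) (nat_lit 326) (nat_lit 311)) (XT.lf (nat_lit 0) (nat_lit 3485033477) (nat_lit 456) (nat_lit 1652499460) (nat_lit 76) (nat_lit 3454949208) (nat_lit 268) (nat_lit 5) (nat_lit 274) (nat_lit 5) (nat_lit 269) (nat_lit 5) (nat_lit 384) (nat_lit 326) (nat_lit 310))))))))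
noncomputable def xc67 : XT := (XT.nd (nat_lit 2340) (nat_lit 3800) (nat_lit 0) (XT.nd (nat_lit 1170) (nat_lit 3040) (nat_lit 0) (XT.nd (nat_lit 546) (nat_lit 1900) (nat_lit 0) (XT.nd (nat_lit 234) (nat_lit 1140) (nat_lit 0) (XT.nd (nat_lit 78) (nat_lit 836) (nat_lit 0) (XT.lf (nat_lit 0) (nat_lit 5341488618) (nat_lit 380) (nat_lit 1896290496) (nat_lit 456) (nat_lit 1463218589) (nat_lit 263) (nat_lit 5) (nat_lit 268) (nat_lit 5) (nat_lit 269) (nat_lit 5) (nat_lit 385) (nat_lit 326) (nat_lit 309)) (XT.nd (nat_lit 78) (nat_lit 380) (nat_lit 0) (XT.lf (nat_lit 0) (nat_lit 2230998737) (nat_lit 456) (nat_lit 5125098230) (nat_lit 76) (nat_lit 1456450684) (nat_lit 257) (nat_lit 5) (nat_lit 263) (nat_lit 5) (nat_lit 258) (nat_lit 5) (nat_lit 386) (nat_lit 326) (nat_lit 308)) (XT.lf (nat_lit 0) (nat_lit 1977485115) (nat_lit 380) (nat_lit 4020781236) (nat_lit 456) (nat_lit 2928994137) (nat_lit 252) (nat_lit 5)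 (nat_lit 257) (nat_lit 5) (nat_lit 258) (nat_lit 5) (nat_lit 387) (nat_lit 326) (nat_lit 307)))) (XT.nd (nat_lit 156) (nat_lit 760) (nat_lit 0) (XT.nd (nat_lit 78) (nat_lit 0) (nat_lit 0) (XT.lf (nat_lit 0) (nat_lit 234174192) (nat_lit 304) (nat_lit 557267527) (nat_lit 380) (nat_lit 8254495874) (nat_lit 247) (nat_lit 5) (nat_lit 251) (nat_lit 5) (nat_lit 252) (nat_lit 5) (nat_lit 388) (nat_lit 326) (nat_lit 306)) (XT.lf (nat_lit 0) (nat_lit 4585348404) (nat_lit 380) (nat_lit 1565684914) (nat_lit 76) (nat_lit 3015649865) (nat_lit 247) (nat_lit 5) (nat_lit 252) (nat_lit 5) (nat_lit 248) (nat_lit 5) (nat_lit 389) (nat_lit 326) (nat_lit 305))) (XT.nd (nat_lit 78) (nat_lit 380) (nat_lit 0) (XT.lf (nat_lit 0) (nat_lit 5893582972) (nat_lit 380) (nat_lit 2584881161) (nat_lit 456) (nat_lit 813025253) (nat_lit 242) (nat_lit 5) (nat_lit 247) (nat_lit 5) (nat_lit 248) (nat_lit 5) (nat_lit 390) (nat_lit 326) (nat_lit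 304)) (XT.lf (nat_lit 0) (nat_lit 2998655530) (nat_lit 380) (nat_lit 5304785467) (nat_lit 76) (nat_lit 1116008050) (nat_lit 237) (nat_lit 5) (nat_lit 242) (nat_lit 5) (nat_lit 238) (nat_lit 5) (nat_lit 391) (nat_lit 326) (nat_lit 303))))) (XT.nd (nat_lit 312) (nat_lit 912) (nat_lit 0) (XT.nd (nat_lit 156) (nat_lit 304) (nat_lit 0) (XT.nd (nat_lit 78) (nat_lit 380) (nat_lit 0) (XT.lf (nat_lit 0) (nat_lit 2267448241) (nat_lit 304) (nat_lit 4647341297) (nat_lit 380) (nat_lit 2636023154) (nat_lit 233) (nat_lit 5) (nat_lit 237) (nat_lit 5) (nat_lit 238) (nat_lit 5) (nat_lit 392) (nat_lit 326) (nat_lit 302)) (XT.lf (nat_lit 0) (nat_lit 370412636) (nat_lit 304) (nat_lit 849678747) (nat_lit 380) (nat_lit 8466188859) (nat_lit 228) (nat_lit 5) (nat_lit 232) (nat_lit 5) (nat_lit 233) (nat_lit 5) (nat_lit 393) (nat_lit 326) (nat_lit 301))) (XT.nd (nat_lit 78) (nat_lit 304) (nat_lit 0) (XT.lf (nat_lit 0) (nat_lit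 5168100733) (nat_lit 380) (nat_lit 1592703755) (nat_lit 76) (nat_lit 3063348568) (nat_lit 228) (nat_lit 5) (nat_lit 233) (nat_lit 5) (nat_lit 229) (nat_lit 5) (nat_lit 394) (nat_lit 326) (nat_lit 300)) (XT.lf (nat_lit 0) (nat_lit 6365388163) (nat_lit 304) (nat_lit 2866417184) (nat_lit 380) (nat_lit 734439060) (nat_lit 224) (nat_lit 5) (nat_lit 228) (nat_lit 5) (nat_lit 229) (nat_lit 5) (nat_lit 395) (nat_lit 326) (nat_lit 299)))) (XT.nd (nat_lit 156) (nat_lit 304) (nat_lit 0) (XT.nd (nat_lit 78) (nat_lit 304) (nat_lit 0) (XT.lf (nat_lit 0) (nat_lit 3238596783) (nat_lit 304) (nat_lit 5699284457) (nat_lit 76) (nat_lit 1173816321) (nat_lit 220) (nat_lit 5) (nat_lit 224) (nat_lit 5) (nat_lit 221) (nat_lit 5) (nat_lit 396) (nat_lit 326) (nat_lit 298)) (XT.lf (nat_lit 0) (nat_lit 2376302933) (nat_lit 304) (nat_lit 4956318529) (nat_lit 380) (nat_lit 2928177920) (nat_lit 216) (nat_lit 5) (nat_lit 220) (nat_lit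 5) (nat_lit 221) (nat_lit 5) (nat_lit 397) (nat_lit 326) (nat_lit 297))) (XT.nd (nat_lit 78) (nat_lit 0) (nat_lit 0) (XT.lf (nat_lit 0) (nat_lit 278464777) (nat_lit 228) (nat_lit 824192798) (nat_lit 304) (nat_lit 9311697907) (nat_lit 212) (nat_lit 5) (nat_lit 215) (nat_lit 5) (nat_lit 216) (nat_lit 5) (nat_lit 398) (nat_lit 326) (nat_lit 296)) (XT.lf (nat_lit 0) (nat_lit 5238454199) (nat_lit 304) (nat_lit 1899365402) (nat_lit 76) (nat_lit 3432542222) (nat_lit 212) (nat_lit 5) (nat_lit 216) (nat_lit 5) (nat_lit 213) (nat_lit 5) (nat_lit 399) (nat_lit 326) (nat_lit 295)))))) (XT.nd (nat_lit 546) (nat_lit 1368) (nat_lit 0) (XT.nd (nat_lit 234) (nat_lit 836) (nat_lit 0) (XT.nd (nat_lit 78) (nat_lit 532) (nat_lit 0) (XT.lf (nat_lit 0) (nat_lit 6593688830) (nat_lit 304) (nat_lit 2907726163) (nat_lit 380) (nat_lit 1229540652) (nat_lit 208) (nat_lit 5) (nat_lit 212) (nat_lit 5) (nat_lit 213) (nat_lit 5) (nat_lit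 400) (nat_lit 326) (nat_lit 294)) (XT.nd (nat_lit 78) (nat_lit 228) (nat_lit 0) (XT.lf (nat_lit 0) (nat_lit 2945628463) (nat_lit 304) (nat_lit 6479295554) (nat_lit 76) (nat_lit 1470333557) (nat_lit 204) (nat_lit 5) (nat_lit 208) (nat_lit 5) (nat_lit 205) (nat_lit 5) (nat_lit 401) (nat_lit 326) (nat_lit 293)) (XT.lf (nat_lit 0) (nat_lit 2135808973) (nat_lit 228) (nat_lit 5109371474) (nat_lit 304) (nat_lit 3818227694) (nat_lit 201) (nat_lit 5) (nat_lit 204) (nat_lit 5) (nat_lit 205) (nat_lit 5) (nat_lit 402) (nat_lit 326) (nat_lit 292)))) (XT.nd (nat_lit 156) (nat_lit 532) (nat_lit 0) (XT.nd (nat_lit 78) (nat_lit 228) (nat_lit 0) (XT.lf (nat_lit 0) (nat_lit 427235700) (nat_lit 304) (nat_lit 209403563) (nat_lit 76) (nat_lit 10599878418) (nat_lit 200) (nat_lit 5) (nat_lit 204) (nat_lit 5) (nat_lit 201) (nat_lit 5) (nat_lit 403) (nat_lit 326) (nat_lit 291)) (XT.lf (nat_lit 0) (nat_lit 4781363181) (nat_lit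 304) (nat_lit 2656745223) (nat_lit 76) (nat_lit 3973836691) (nat_lit 197) (nat_lit 5) (nat_lit 201) (nat_lit 5) (nat_lit 198) (nat_lit 5) (nat_lit 404) (nat_lit 326) (nat_lit 290))) (XT.nd (nat_lit 78) (nat_lit 304) (nat_lit 0) (XT.lf (nat_lit 0) (nat_lit 6409928493) (nat_lit 228) (nat_lit 2861234253) (nat_lit 304) (nat_lit 2321321139) (nat_lit 194) (nat_lit 5) (nat_lit 197) (nat_lit 5) (nat_lit 198) (nat_lit 5) (nat_lit 405) (nat_lit 326) (nat_lit 289)) (XT.lf (nat_lit 0) (nat_lit 2094626559) (nat_lit 304) (nat_lit 7823215495) (nat_lit 76) (nat_lit 1859424516) (nat_lit 190) (nat_lit 5) (nat_lit 194) (nat_lit 5) (nat_lit 191) (nat_lit 5) (nat_lit 406) (nat_lit 326) (nat_lit 288))))) (XT.nd (nat_lit 312) (nat_lit 684) (nat_lit 0) (XT.nd (nat_lit 156) (nat_lit 456) (nat_lit 0) (XT.nd (nat_lit 78) (nat_lit 0) (nat_lit 0) (XT.lf (nat_lit 0) (nat_lit 1369947251) (nat_lit 228) (nat_lit 5256427049) (nat_lit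 304) (nat_lit 5339629597) (nat_lit 187) (nat_lit 5) (nat_lit 190) (nat_lit 5) (nat_lit 191) (nat_lit 5) (nat_lit 407) (nat_lit 326) (nat_lit 287)) (XT.lf (nat_lit 0) (nat_lit 10890425741) (nat_lit 228) (nat_lit 419104712) (nat_lit 304) (nat_lit 850409213) (nat_lit 187) (nat_lit 5) (nat_lit 190) (nat_lit 5) (nat_lit 191) (nat_lit 5) (nat_lit 408) (nat_lit 326) (nat_lit 286))) (XT.nd (nat_lit 78) (nat_lit 228) (nat_lit 0) (XT.lf (nat_lit 0) (nat_lit 3762471212) (nat_lit 228) (nat_lit 4045951364) (nat_lit 76) (nat_lit 4548304206) (nat_lit 184) (nat_lit 5) (nat_lit 187) (nat_lit 5) (nat_lit 185) (nat_lit 5) (nat_lit 409) (nat_lit 326) (nat_lit 285)) (XT.lf (nat_lit 0) (nat_lit 5635448260) (nat_lit 228) (nat_lit 2870532201) (nat_lit 304) (nat_lit 4052904410) (nat_lit 181) (nat_lit 5) (nat_lit 184) (nat_lit 5) (nat_lit 185) (nat_lit 5) (nat_lit 410) (nat_lit 326) (nat_lit 284)))) (XT.nd (nat_lit 156) (nat_lit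 456) (nat_lit 0) (XT.nd (nat_lit 78) (nat_lit 0) (nat_lit 0) (XT.lf (nat_lit 0) (nat_lit 641154364) (nat_lit 228) (nat_lit 9921908272) (nat_lit 76) (nat_lit 2203005212) (nat_lit 178) (nat_lit 5) (nat_lit 181) (nat_lit 5) (nat_lit 179) (nat_lit 5) (nat_lit 411) (nat_lit 326) (nat_lit 283)) (XT.lf (nat_lit 0) (nat_lit 5432185639) (nat_lit 228) (nat_lit 107706576) (nat_lit 76) (nat_lit 7437241960) (nat_lit 178) (nat_lit 5) (nat_lit 181) (nat_lit 5) (nat_lit 179) (nat_lit 5) (nat_lit 412) (nat_lit 326) (nat_lit 282))) (XT.nd (nat_lit 78) (nat_lit 228) (nat_lit 0) (XT.lf (nat_lit 0) (nat_lit 10093212126) (nat_lit 228) (nat_lit 311130331) (nat_lit 304) (nat_lit 2789068200) (nat_lit 175) (nat_lit 5) (nat_lit 178) (nat_lit 5) (nat_lit 179) (nat_lit 5) (nat_lit 413) (nat_lit 326) (nat_lit 281)) (XT.lf (nat_lit 0) (nat_lit 2128420009) (nat_lit 228) (nat_lit 6262838122) (nat_lit 76) (nat_lit 5022506116) (nat_lit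 172) (nat_lit 5) (nat_lit 175) (nat_lit 5) (nat_lit 173) (nat_lit 5) (nat_lit 414) (nat_lit 326) (nat_lit 280))))))) (XT.nd (nat_lit 1170) (nat_lit 1824) (nat_lit 0) (XT.nd (nat_lit 546) (nat_lit 1064) (nat_lit 0) (XT.nd (nat_lit 234) (nat_lit 532) (nat_lit 0) (XT.nd (nat_lit 78) (nat_lit 228) (nat_lit 0) (XT.lf (nat_lit 0) (nat_lit 4076771078) (nat_lit 152) (nat_lit 3075320291) (nat_lit 228) (nat_lit 6487367158) (nat_lit 170) (nat_lit 5) (nat_lit 172) (nat_lit 5) (nat_lit 173) (nat_lit 5) (nat_lit 415) (nat_lit 326) (nat_lit 279)) (XT.nd (nat_lit 78) (nat_lit 76) (nat_lit 0) (XT.lf (nat_lit 0) (nat_lit 872852690) (nat_lit 152) (nat_lit 11490065508) (nat_lit 228) (nat_lit 1507912077) (nat_lit 168) (nat_lit 5) (nat_lit 170) (nat_lit 5) (nat_lit 171) (nat_lit 4) (nat_lit 416) (nat_lit 326) (nat_lit 278)) (XT.lf (nat_lit 0) (nat_lit 3619489547) (nat_lit 228) (nat_lit 2460515365) (nat_lit 76) (nat_lit 8026017462)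 (nat_lit 167) (nat_lit 5) (nat_lit 170) (nat_lit 5) (nat_lit 168) (nat_lit 5) (nat_lit 417) (nat_lit 326) (nat_lit 277)))) (XT.nd (nat_lit 156) (nat_lit 228) (nat_lit 0) (XT.nd (nat_lit 78) (nat_lit 152) (nat_lit 0) (XT.lf (nat_lit 0) (nat_lit 8440374551) (nat_lit 152) (nat_lit 454127328) (nat_lit 228) (nat_lit 5452597575) (nat_lit 165) (nat_lit 5) (nat_lit 167) (nat_lit 5) (nat_lit 168) (nat_lit 5) (nat_lit 418) (nat_lit 326) (nat_lit 276)) (XT.lf (nat_lit 0) (nat_lit 5068670694) (nat_lit 152) (nat_lit 9327460320) (nat_lit 228) (nat_lit 197226840) (nat_lit 163) (nat_lit 5) (nat_lit 165) (nat_lit 5) (nat_lit 166) (nat_lit 4) (nat_lit 419) (nat_lit 326) (nat_lit 275))) (XT.nd (nat_lit 78) (nat_lit 0) (nat_lit 0) (XT.lf (nat_lit 0) (nat_lit 1520806191) (nat_lit 152) (nat_lit 3615906960) (nat_lit 228) (nat_lit 9708106110) (nat_lit 160) (nat_lit 5) (nat_lit 162) (nat_lit 5) (nat_lit 163) (nat_lit 5) (nat_lit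 420) (nat_lit 326) (nat_lit 274)) (XT.lf (nat_lit 0) (nat_lit 10689198011) (nat_lit 228) (nat_lit 2135797108) (nat_lit 76) (nat_lit 2276896089) (nat_lit 160) (nat_lit 5) (nat_lit 163) (nat_lit 5) (nat_lit 161) (nat_lit 4) (nat_lit 421) (nat_lit 326) (nat_lit 273))))) (XT.nd (nat_lit 312) (nat_lit 456) (nat_lit 0) (XT.nd (nat_lit 156) (nat_lit 228) (nat_lit 0) (XT.nd (nat_lit 78) (nat_lit 152) (nat_lit 0) (XT.lf (nat_lit 0) (nat_lit 1093685777) (nat_lit 228) (nat_lit 5938915341) (nat_lit 76) (nat_lit 8331600964) (nat_lit 157) (nat_lit 5) (nat_lit 160) (nat_lit 5) (nat_lit 158) (nat_lit 5) (nat_lit 422) (nat_lit 326) (nat_lit 272)) (XT.lf (nat_lit 0) (nat_lit 5710602984) (nat_lit 152) (nat_lit 987954069) (nat_lit 228) (nat_lit 8933854778) (nat_lit 155) (nat_lit 5) (nat_lit 157) (nat_lit 5) (nat_lit 158) (nat_lit 5) (nat_lit 423) (nat_lit 326) (nat_lit 271))) (XT.nd (nat_lit 78) (nat_lit 76) (nat_lit 0)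 (XT.lf (nat_lit 0) (nat_lit 1808441704) (nat_lit 152) (nat_lit 10736955103) (nat_lit 228) (nat_lit 3361056395) (nat_lit 153) (nat_lit 5) (nat_lit 155) (nat_lit 5) (nat_lit 156) (nat_lit 4) (nat_lit 424) (nat_lit 326) (nat_lit 270)) (XT.lf (nat_lit 0) (nat_lit 2389089315) (nat_lit 228) (nat_lit 2225845116) (nat_lit 76) (nat_lit 11571397808) (nat_lit 152) (nat_lit 5) (nat_lit 155) (nat_lit 5) (nat_lit 153) (nat_lit 5) (nat_lit 425) (nat_lit 326) (nat_lit 269)))) (XT.nd (nat_lit 156) (nat_lit 228) (nat_lit 0) (XT.nd (nat_lit 78) (nat_lit 76) (nat_lit 0) (XT.lf (nat_lit 0) (nat_lit 8305280514) (nat_lit 228) (nat_lit 6421280099) (nat_lit 76) (nat_lit 1745215849) (nat_lit 150) (nat_lit 5) (nat_lit 153) (nat_lit 5) (nat_lit 151) (nat_lit 4) (nat_lit 426) (nat_lit 326) (nat_lit 268)) (XT.lf (nat_lit 0) (nat_lit 5948062777) (nat_lit 76) (nat_lit 8523849143) (nat_lit 152) (nat_lit 2291683459) (nat_lit 149) (nat_lit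 5) (nat_lit 150) (nat_lit 5) (nat_lit 151) (nat_lit 4) (nat_lit 427) (nat_lit 326) (nat_lit 267))) (XT.nd (nat_lit 78) (nat_lit 0) (nat_lit 0) (XT.lf (nat_lit 0) (nat_lit 1655595946) (nat_lit 152) (nat_lit 2059291083) (nat_lit 228) (nat_lit 13347331537) (nat_lit 146) (nat_lit 5) (nat_lit 148) (nat_lit 5) (nat_lit 149) (nat_lit 5) (nat_lit 428) (nat_lit 326) (nat_lit 266)) (XT.lf (nat_lit 0) (nat_lit 9957741852) (nat_lit 228) (nat_lit 2809929847) (nat_lit 76) (nat_lit 4598383617) (nat_lit 146) (nat_lit 5) (nat_lit 149) (nat_lit 5) (nat_lit 147) (nat_lit 4) (nat_lit 429) (nat_lit 326) (nat_lit 265)))))) (XT.nd (nat_lit 624) (nat_lit 912) (nat_lit 0) (XT.nd (nat_lit 312) (nat_lit 532) (nat_lit 0) (XT.nd (nat_lit 156) (nat_lit 76) (nat_lit 0) (XT.nd (nat_lit 78) (nat_lit 228) (nat_lit 0) (XT.lf (nat_lit 0) (nat_lit 10249135936) (nat_lit 76) (nat_lit 6206821817) (nat_lit 152) (nat_lit 1221007154) (nat_lit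 145) (nat_lit 5) (nat_lit 146) (nat_lit 5) (nat_lit 147) (nat_lit 4) (nat_lit 430) (nat_lit 326) (nat_lit 264)) (XT.lf (nat_lit 0) (nat_lit 5090532334) (nat_lit 228) (nat_lit 12272934929) (nat_lit 76) (nat_lit 631074424) (nat_lit 142) (nat_lit 5) (nat_lit 145) (nat_lit 5) (nat_lit 143) (nat_lit 4) (nat_lit 431) (nat_lit 326) (nat_lit 263))) (XT.nd (nat_lit 78) (nat_lit 0) (nat_lit 0) (XT.lf (nat_lit 0) (nat_lit 947229577) (nat_lit 76) (nat_lit 10715346689) (nat_lit 152) (nat_lit 6655835852) (nat_lit 141) (nat_lit 5) (nat_lit 142) (nat_lit 5) (nat_lit 143) (nat_lit 4) (nat_lit 432) (nat_lit 326) (nat_lit 262)) (XT.lf (nat_lit 0) (nat_lit 14721155098) (nat_lit 76) (nat_lit 3784516467) (nat_lit 152) (nat_lit 144110395) (nat_lit 141) (nat_lit 5) (nat_lit 142) (nat_lit 5) (nat_lit 143) (nat_lit 4) (nat_lit 433) (nat_lit 326) (nat_lit 261)))) (XT.nd (nat_lit 156) (nat_lit 228) (nat_lit 0) (XT.nd (nat_lit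 78) (nat_lit 76) (nat_lit 0) (XT.lf (nat_lit 0) (nat_lit 6514930485) (nat_lit 228) (nat_lit 9065460144) (nat_lit 76) (nat_lit 3406408728) (nat_lit 138) (nat_lit 5) (nat_lit 141) (nat_lit 5) (nat_lit 139) (nat_lit 4) (nat_lit 434) (nat_lit 326) (nat_lit 260)) (XT.lf (nat_lit 0) (nat_lit 4898104776) (nat_lit 76) (nat_lit 8548425259) (nat_lit 152) (nat_lit 5885083918) (nat_lit 137) (nat_lit 5) (nat_lit 138) (nat_lit 5) (nat_lit 139) (nat_lit 4) (nat_lit 435) (nat_lit 326) (nat_lit 259))) (XT.nd (nat_lit 78) (nat_lit 152) (nat_lit 0) (XT.lf (nat_lit 0) (nat_lit 925334299) (nat_lit 152) (nat_lit 320015958) (nat_lit 76) (nat_lit 18439856038) (nat_lit 136) (nat_lit 5) (nat_lit 138) (nat_lit 5) (nat_lit 137) (nat_lit 5) (nat_lit 436) (nat_lit 326) (nat_lit 258)) (XT.lf (nat_lit 0) (nat_lit 7974127669) (nat_lit 228) (nat_lit 5758352297) (nat_lit 76) (nat_lit 6310607987) (nat_lit 134) (nat_lit 5) (nat_lit 137)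 (nat_lit 5) (nat_lit 135) (nat_lit 4) (nat_lit 437) (nat_lit 326) (nat_lit 257))))) (XT.nd (nat_lit 312) (nat_lit 532) (nat_lit 0) (XT.nd (nat_lit 156) (nat_lit 76) (nat_lit 0) (XT.nd (nat_lit 78) (nat_lit 228) (nat_lit 0) (XT.lf (nat_lit 0) (nat_lit 8995492361) (nat_lit 76) (nat_lit 6293625465) (nat_lit 152) (nat_lit 5120946246) (nat_lit 133) (nat_lit 5) (nat_lit 134) (nat_lit 5) (nat_lit 135) (nat_lit 4) (nat_lit 438) (nat_lit 326) (nat_lit 256)) (XT.lf (nat_lit 0) (nat_lit 2054546548) (nat_lit 228) (nat_lit 17318802690) (nat_lit 76) (nat_lit 1412350487) (nat_lit 130) (nat_lit 5) (nat_lit 133) (nat_lit 5) (nat_lit 131) (nat_lit 4) (nat_lit 439) (nat_lit 326) (nat_lit 255))) (XT.nd (nat_lit 78) (nat_lit 76) (nat_lit 0) (XT.lf (nat_lit 0) (nat_lit 9473929437) (nat_lit 228) (nat_lit 2344929571) (nat_lit 76) (nat_lit 9348277829) (nat_lit 130) (nat_lit 5) (nat_lit 133) (nat_lit 5) (nat_lit 131) (nat_lit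 4) (nat_lit 440) (nat_lit 326) (nat_lit 254)) (XT.lf (nat_lit 0) (nat_lit 13248903625) (nat_lit 76) (nat_lit 3948552684) (nat_lit 152) (nat_lit 4360113877) (nat_lit 129) (nat_lit 5) (nat_lit 130) (nat_lit 5) (nat_lit 131) (nat_lit 4) (nat_lit 441) (nat_lit 326) (nat_lit 253)))) (XT.nd (nat_lit 156) (nat_lit 228) (nat_lit 0) (XT.nd (nat_lit 78) (nat_lit 76) (nat_lit 0) (XT.lf (nat_lit 0) (nat_lit 3221026874) (nat_lit 228) (nat_lit 14572369285) (nat_lit 76) (nat_lit 4162688769) (nat_lit 126) (nat_lit 5) (nat_lit 129) (nat_lit 5) (nat_lit 127) (nat_lit 4) (nat_lit 442) (nat_lit 326) (nat_lit 252)) (XT.lf (nat_lit 0) (nat_lit 1205647765) (nat_lit 76) (nat_lit 9826086841) (nat_lit 152) (nat_lit 11330832421) (nat_lit 125) (nat_lit 5) (nat_lit 126) (nat_lit 5) (nat_lit 127) (nat_lit 4) (nat_lit 443) (nat_lit 326) (nat_lit 251))) (XT.nd (nat_lit 78) (nat_lit 228) (nat_lit 0) (XT.lf (nat_lit 0) (nat_lit 17668651922)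 (nat_lit 76) (nat_lit 1510107375) (nat_lit 152) (nat_lit 3599424419) (nat_lit 125) (nat_lit 5) (nat_lit 126) (nat_lit 5) (nat_lit 127) (nat_lit 4) (nat_lit 444) (nat_lit 326) (nat_lit 250)) (XT.lf (nat_lit 0) (nat_lit 4414135751) (nat_lit 228) (nat_lit 11755311875) (nat_lit 76) (nat_lit 7031501845) (nat_lit 122) (nat_lit 5) (nat_lit 125) (nat_lit 5) (nat_lit 123) (nat_lit 4) (nat_lit 445) (nat_lit 326) (nat_lit 249))))))))
noncomputable def xc68 : XT := (XT.nd (nat_lit 2340) (nat_lit 1444) (nat_lit 0) (XT.nd (nat_lit 1170) (nat_lit 1140) (nat_lit 0) (XT.nd (nat_lit 546) (nat_lit 684) (nat_lit 0) (XT.nd (nat_lit 234) (nat_lit 304) (nat_lit 0) (XT.nd (nat_lit 78) (nat_lit 228) (nat_lit 0) (XT.lf (nat_lit 0) (nat_lit 4926890982) (nat_lit 76) (nat_lit 7739094895) (nat_lit 152) (nat_lit 10967236344) (nat_lit 121) (nat_lit 5) (nat_lit 122) (nat_lit 5) (nat_lit 123) (nat_lit 4) (nat_lit 446) (nat_lit 326)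 (nat_lit 248)) (XT.nd (nat_lit 78) (nat_lit 228) (nat_lit 0) (XT.lf (nat_lit 0) (nat_lit 21250237068) (nat_lit 152) (nat_lit 1820202872) (nat_lit 0) (nat_lit 1005477847) (nat_lit 121) (nat_lit 5) (nat_lit 123) (nat_lit 4) (nat_lit 121) (nat_lit 4) (nat_lit 447) (nat_lit 326) (nat_lit 247)) (XT.lf (nat_lit 0) (nat_lit 5638358375) (nat_lit 228) (nat_lit 8862084902) (nat_lit 76) (nat_lit 10024245479) (nat_lit 118) (nat_lit 5) (nat_lit 121) (nat_lit 5) (nat_lit 119) (nat_lit 4) (nat_lit 448) (nat_lit 326) (nat_lit 246)))) (XT.nd (nat_lit 156) (nat_lit 152) (nat_lit 0) (XT.nd (nat_lit 78) (nat_lit 76) (nat_lit 0) (XT.lf (nat_lit 0) (nat_lit 8780897360) (nat_lit 76) (nat_lit 5578808241) (nat_lit 152) (nat_lit 10624572533) (nat_lit 117) (nat_lit 5) (nat_lit 118) (nat_lit 5) (nat_lit 119) (nat_lit 4) (nat_lit 449) (nat_lit 326) (nat_lit 245)) (XT.lf (nat_lit 0) (nat_lit 1592141869) (nat_lit 76) (nat_lit 21848219144)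 (nat_lit 76) (nat_lit 2014364146) (nat_lit 116) (nat_lit 4) (nat_lit 117) (nat_lit 5) (nat_lit 117) (nat_lit 4) (nat_lit 450) (nat_lit 326) (nat_lit 244))) (XT.nd (nat_lit 78) (nat_lit 76) (nat_lit 0) (XT.lf (nat_lit 0) (nat_lit 6898194613) (nat_lit 152) (nat_lit 5886666258) (nat_lit 76) (nat_lit 13147114338) (nat_lit 115) (nat_lit 5) (nat_lit 117) (nat_lit 5) (nat_lit 116) (nat_lit 4) (nat_lit 451) (nat_lit 326) (nat_lit 243)) (XT.lf (nat_lit 0) (nat_lit 12777104711) (nat_lit 76) (nat_lit 3341918456) (nat_lit 152) (nat_lit 10301479874) (nat_lit 114) (nat_lit 5) (nat_lit 115) (nat_lit 5) (nat_lit 116) (nat_lit 4) (nat_lit 452) (nat_lit 326) (nat_lit 242))))) (XT.nd (nat_lit 312) (nat_lit 380) (nat_lit 0) (XT.nd (nat_lit 156) (nat_lit 152) (nat_lit 0) (XT.nd (nat_lit 78) (nat_lit 76) (nat_lit 0) (XT.lf (nat_lit 0) (nat_lit 5157367040) (nat_lit 76) (nat_lit 20588708861) (nat_lit 76) (nat_lit 1173722826)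 (nat_lit 113) (nat_lit 4) (nat_lit 114) (nat_lit 5) (nat_lit 114) (nat_lit 4) (nat_lit 453) (nat_lit 326) (nat_lit 241)) (XT.lf (nat_lit 0) (nat_lit 8198186942) (nat_lit 152) (nat_lit 2822551824) (nat_lit 76) (nat_lit 16407035521) (nat_lit 112) (nat_lit 5) (nat_lit 114) (nat_lit 5) (nat_lit 113) (nat_lit 4) (nat_lit 454) (nat_lit 326) (nat_lit 240))) (XT.nd (nat_lit 78) (nat_lit 76) (nat_lit 0) (XT.lf (nat_lit 0) (nat_lit 16925640243) (nat_lit 76) (nat_lit 1024578414) (nat_lit 152) (nat_lit 9996745166) (nat_lit 111) (nat_lit 5) (nat_lit 112) (nat_lit 5) (nat_lit 113) (nat_lit 4) (nat_lit 455) (nat_lit 326) (nat_lit 239)) (XT.lf (nat_lit 0) (nat_lit 8847913837) (nat_lit 76) (nat_lit 19309768087) (nat_lit 76) (nat_lit 319161004) (nat_lit 110) (nat_lit 4) (nat_lit 111) (nat_lit 5) (nat_lit 111) (nat_lit 4) (nat_lit 456) (nat_lit 326) (nat_lit 238)))) (XT.nd (nat_lit 156) (nat_lit 228) (nat_lit 0) (XT.nd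 (nat_lit 78) (nat_lit 0) (nat_lit 0) (XT.lf (nat_lit 0) (nat_lit 343965176) (nat_lit 76) (nat_lit 9202288364) (nat_lit 152) (nat_lit 19471008832) (nat_lit 108) (nat_lit 5) (nat_lit 109) (nat_lit 5) (nat_lit 110) (nat_lit 4) (nat_lit 457) (nat_lit 326) (nat_lit 237)) (XT.lf (nat_lit 0) (nat_lit 19872997393) (nat_lit 152) (nat_lit 8344943590) (nat_lit 0) (nat_lit 1350705166) (nat_lit 108) (nat_lit 5) (nat_lit 110) (nat_lit 4) (nat_lit 108) (nat_lit 4) (nat_lit 458) (nat_lit 326) (nat_lit 236))) (XT.nd (nat_lit 78) (nat_lit 76) (nat_lit 0) (XT.lf (nat_lit 0) (nat_lit 541505518) (nat_lit 152) (nat_lit 17463597325) (nat_lit 76) (nat_lit 12126086696) (nat_lit 106) (nat_lit 5) (nat_lit 108) (nat_lit 5) (nat_lit 107) (nat_lit 4) (nat_lit 459) (nat_lit 326) (nat_lit 235)) (XT.lf (nat_lit 0) (nat_lit 3671897848) (nat_lit 76) (nat_lit 7300580614) (nat_lit 152) (nat_lit 19732803563) (nat_lit 105) (nat_lit 5) (nat_lit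 106) (nat_lit 5) (nat_lit 107) (nat_lit 4) (nat_lit 460) (nat_lit 326) (nat_lit 234)))))) (XT.nd (nat_lit 546) (nat_lit 608) (nat_lit 0) (XT.nd (nat_lit 234) (nat_lit 304) (nat_lit 0) (XT.nd (nat_lit 78) (nat_lit 228) (nat_lit 0) (XT.lf (nat_lit 0) (nat_lit 21891506417) (nat_lit 152) (nat_lit 5605870820) (nat_lit 0) (nat_lit 3793966275) (nat_lit 105) (nat_lit 5) (nat_lit 107) (nat_lit 4) (nat_lit 105) (nat_lit 4) (nat_lit 461) (nat_lit 326) (nat_lit 233)) (XT.nd (nat_lit 78) (nat_lit 76) (nat_lit 0) (XT.lf (nat_lit 0) (nat_lit 1415403879) (nat_lit 152) (nat_lit 15260308457) (nat_lit 76) (nat_lit 15213019722) (nat_lit 103) (nat_lit 5) (nat_lit 105) (nat_lit 5) (nat_lit 104) (nat_lit 4) (nat_lit 462) (nat_lit 326) (nat_lit 232)) (XT.lf (nat_lit 0) (nat_lit 7113245575) (nat_lit 76) (nat_lit 5340849223) (nat_lit 152) (nat_lit 20044517827) (nat_lit 102) (nat_lit 5) (nat_lit 103) (nat_lit 5) (nat_lit 104)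 (nat_lit 4) (nat_lit 463) (nat_lit 326) (nat_lit 231)))) (XT.nd (nat_lit 156) (nat_lit 152) (nat_lit 0) (XT.nd (nat_lit 78) (nat_lit 152) (nat_lit 0) (XT.lf (nat_lit 0) (nat_lit 24002873084) (nat_lit 152) (nat_lit 2788040999) (nat_lit 0) (nat_lit 6330507728) (nat_lit 102) (nat_lit 5) (nat_lit 104) (nat_lit 4) (nat_lit 102) (nat_lit 4) (nat_lit 464) (nat_lit 326) (nat_lit 230)) (XT.lf (nat_lit 0) (nat_lit 2311691480) (nat_lit 152) (nat_lit 13011651115) (nat_lit 76) (nat_lit 18432412207) (nat_lit 100) (nat_lit 5) (nat_lit 102) (nat_lit 5) (nat_lit 101) (nat_lit 4) (nat_lit 465) (nat_lit 326) (nat_lit 229))) (XT.nd (nat_lit 78) (nat_lit 76) (nat_lit 0) (XT.lf (nat_lit 0) (nat_lit 10676727306) (nat_lit 76) (nat_lit 3319429829) (nat_lit 152) (nat_lit 20407414407) (nat_lit 99) (nat_lit 5) (nat_lit 100) (nat_lit 5) (nat_lit 101) (nat_lit 4) (nat_lit 466) (nat_lit 326) (nat_lit 228)) (XT.lf (nat_lit 0) (nat_lit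 117471084) (nat_lit 76) (nat_lit 26098014365) (nat_lit 76) (nat_lit 8849807475) (nat_lit 98) (nat_lit 4) (nat_lit 99) (nat_lit 5) (nat_lit 99) (nat_lit 4) (nat_lit 467) (nat_lit 326) (nat_lit 227))))) (XT.nd (nat_lit 312) (nat_lit 304) (nat_lit 0) (XT.nd (nat_lit 156) (nat_lit 152) (nat_lit 0) (XT.nd (nat_lit 78) (nat_lit 76) (nat_lit 0) (XT.lf (nat_lit 0) (nat_lit 3233336628) (nat_lit 152) (nat_lit 10712982414) (nat_lit 76) (nat_lit 21792513632) (nat_lit 97) (nat_lit 5) (nat_lit 99) (nat_lit 5) (nat_lit 98) (nat_lit 4) (nat_lit 468) (nat_lit 326) (nat_lit 226)) (XT.lf (nat_lit 0) (nat_lit 14371628040) (nat_lit 76) (nat_lit 1232265595) (nat_lit 152) (nat_lit 20822972596) (nat_lit 96) (nat_lit 5) (nat_lit 97) (nat_lit 5) (nat_lit 98) (nat_lit 4) (nat_lit 469) (nat_lit 326) (nat_lit 225))) (XT.nd (nat_lit 78) (nat_lit 76) (nat_lit 0) (XT.lf (nat_lit 0) (nat_lit 3172765220) (nat_lit 76) (nat_lit 25391262264)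 (nat_lit 76) (nat_lit 8564959507) (nat_lit 95) (nat_lit 4) (nat_lit 96) (nat_lit 5) (nat_lit 96) (nat_lit 4) (nat_lit 470) (nat_lit 326) (nat_lit 224)) (XT.lf (nat_lit 0) (nat_lit 4183362838) (nat_lit 152) (nat_lit 8359352655) (nat_lit 76) (nat_lit 25302230550) (nat_lit 94) (nat_lit 5) (nat_lit 96) (nat_lit 5) (nat_lit 95) (nat_lit 4) (nat_lit 471) (nat_lit 326) (nat_lit 223)))) (XT.nd (nat_lit 156) (nat_lit 152) (nat_lit 0) (XT.nd (nat_lit 78) (nat_lit 76) (nat_lit 0) (XT.lf (nat_lit 0) (nat_lit 17291622580) (nat_lit 152) (nat_lit 20376687621) (nat_lit 0) (nat_lit 907040569) (nat_lit 93) (nat_lit 5) (nat_lit 95) (nat_lit 4) (nat_lit 93) (nat_lit 4) (nat_lit 472) (nat_lit 326) (nat_lit 222)) (XT.lf (nat_lit 0) (nat_lit 6330016067) (nat_lit 76) (nat_lit 24699142142) (nat_lit 76) (nat_lit 8291428588) (nat_lit 92) (nat_lit 4) (nat_lit 93) (nat_lit 5) (nat_lit 93) (nat_lit 4) (nat_lit 473) (nat_lit 326)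 (nat_lit 221))) (XT.nd (nat_lit 78) (nat_lit 76) (nat_lit 0) (XT.lf (nat_lit 0) (nat_lit 5164864647) (nat_lit 152) (nat_lit 5945496128) (nat_lit 76) (nat_lit 28971144257) (nat_lit 91) (nat_lit 5) (nat_lit 93) (nat_lit 5) (nat_lit 92) (nat_lit 4) (nat_lit 474) (nat_lit 326) (nat_lit 220)) (XT.lf (nat_lit 0) (nat_lit 19068665301) (nat_lit 152) (nat_lit 18691934688) (nat_lit 0) (nat_lit 3095873981) (nat_lit 90) (nat_lit 5) (nat_lit 92) (nat_lit 4) (nat_lit 90) (nat_lit 4) (nat_lit 475) (nat_lit 326) (nat_lit 219))))))) (XT.nd (nat_lit 1170) (nat_lit 304) (nat_lit 0) (XT.nd (nat_lit 546) (nat_lit 608) (nat_lit 0) (XT.nd (nat_lit 234) (nat_lit 304) (nat_lit 0) (XT.nd (nat_lit 78) (nat_lit 152) (nat_lit 0) (XT.lf (nat_lit 0) (nat_lit 9597361839) (nat_lit 76) (nat_lit 24021891664) (nat_lit 76) (nat_lit 8028548267) (nat_lit 89) (nat_lit 4) (nat_lit 90) (nat_lit 5) (nat_lit 90) (nat_lit 4) (nat_lit 476) (nat_lit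 326) (nat_lit 218)) (XT.nd (nat_lit 78) (nat_lit 76) (nat_lit 0) (XT.lf (nat_lit 0) (nat_lit 6181023035) (nat_lit 152) (nat_lit 3465820105) (nat_lit 76) (nat_lit 32809532173) (nat_lit 88) (nat_lit 5) (nat_lit 90) (nat_lit 5) (nat_lit 89) (nat_lit 4) (nat_lit 477) (nat_lit 326) (nat_lit 217)) (XT.lf (nat_lit 0) (nat_lit 20929119939) (nat_lit 152) (nat_lit 16986071563) (nat_lit 0) (nat_lit 5363421715) (nat_lit 87) (nat_lit 5) (nat_lit 89) (nat_lit 4) (nat_lit 87) (nat_lit 4) (nat_lit 478) (nat_lit 326) (nat_lit 216)))) (XT.nd (nat_lit 156) (nat_lit 152) (nat_lit 0) (XT.nd (nat_lit 78) (nat_lit 76) (nat_lit 0) (XT.lf (nat_lit 0) (nat_lit 12983438257) (nat_lit 76) (nat_lit 23359667549) (nat_lit 76) (nat_lit 7775709070) (nat_lit 86) (nat_lit 4) (nat_lit 87) (nat_lit 5) (nat_lit 87) (nat_lit 4) (nat_lit 479) (nat_lit 326) (nat_lit 215)) (XT.lf (nat_lit 0) (nat_lit 7235120608) (nat_lit 152) (nat_lit 914392044)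 (nat_lit 76) (nat_lit 36828392876) (nat_lit 85) (nat_lit 5) (nat_lit 87) (nat_lit 5) (nat_lit 86) (nat_lit 4) (nat_lit 480) (nat_lit 326) (nat_lit 214))) (XT.nd (nat_lit 78) (nat_lit 76) (nat_lit 0) (XT.lf (nat_lit 0) (nat_lit 22879204076) (nat_lit 152) (nat_lit 15255854278) (nat_lit 0) (nat_lit 7715224542) (nat_lit 84) (nat_lit 5) (nat_lit 86) (nat_lit 4) (nat_lit 84) (nat_lit 4) (nat_lit 481) (nat_lit 326) (nat_lit 213)) (XT.lf (nat_lit 0) (nat_lit 16497402312) (nat_lit 76) (nat_lit 22712556175) (nat_lit 76) (nat_lit 7532352643) (nat_lit 83) (nat_lit 4) (nat_lit 84) (nat_lit 5) (nat_lit 84) (nat_lit 4) (nat_lit 482) (nat_lit 326) (nat_lit 212))))) (XT.nd (nat_lit 312) (nat_lit 228) (nat_lit 0) (XT.nd (nat_lit 156) (nat_lit 228) (nat_lit 0) (XT.nd (nat_lit 78) (nat_lit 0) (nat_lit 0) (XT.lf (nat_lit 0) (nat_lit 1749208317) (nat_lit 76) (nat_lit 6598162768) (nat_lit 152) (nat_lit 39307080868) (nat_lit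 81) (nat_lit 5) (nat_lit 82) (nat_lit 5) (nat_lit 83) (nat_lit 4) (nat_lit 483) (nat_lit 326) (nat_lit 211)) (XT.lf (nat_lit 0) (nat_lit 24925434505) (nat_lit 152) (nat_lit 13497852048) (nat_lit 0) (nat_lit 10157232891) (nat_lit 81) (nat_lit 5) (nat_lit 83) (nat_lit 4) (nat_lit 81) (nat_lit 4) (nat_lit 484) (nat_lit 326) (nat_lit 210))) (XT.nd (nat_lit 78) (nat_lit 152) (nat_lit 0) (XT.lf (nat_lit 0) (nat_lit 20148958396) (nat_lit 76) (nat_lit 22080582972) (nat_lit 76) (nat_lit 7297966546) (nat_lit 80) (nat_lit 4) (nat_lit 81) (nat_lit 5) (nat_lit 81) (nat_lit 4) (nat_lit 485) (nat_lit 326) (nat_lit 209)) (XT.lf (nat_lit 0) (nat_lit 4517389027) (nat_lit 76) (nat_lit 4996896892) (nat_lit 152) (nat_lit 40981342960) (nat_lit 78) (nat_lit 5) (nat_lit 79) (nat_lit 5) (nat_lit 80) (nat_lit 4) (nat_lit 486) (nat_lit 326) (nat_lit 208)))) (XT.nd (nat_lit 156) (nat_lit 152) (nat_lit 0) (XT.nd (nat_lit 78) (nat_lit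 76) (nat_lit 0) (XT.lf (nat_lit 0) (nat_lit 27074652934) (nat_lit 152) (nat_lit 11708440749) (nat_lit 0) (nat_lit 12695819211) (nat_lit 78) (nat_lit 5) (nat_lit 80) (nat_lit 4) (nat_lit 78) (nat_lit 4) (nat_lit 487) (nat_lit 326) (nat_lit 207)) (XT.lf (nat_lit 0) (nat_lit 23948386819) (nat_lit 76) (nat_lit 21463720705) (nat_lit 76) (nat_lit 7072079608) (nat_lit 77) (nat_lit 4) (nat_lit 78) (nat_lit 5) (nat_lit 78) (nat_lit 4) (nat_lit 488) (nat_lit 326) (nat_lit 206))) (XT.nd (nat_lit 78) (nat_lit 0) (nat_lit 0) (XT.lf (nat_lit 0) (nat_lit 7379138438) (nat_lit 76) (nat_lit 3351508792) (nat_lit 152) (nat_lit 42781035460) (nat_lit 75) (nat_lit 5) (nat_lit 76) (nat_lit 5) (nat_lit 77) (nat_lit 4) (nat_lit 489) (nat_lit 326) (nat_lit 205)) (XT.lf (nat_lit 0) (nat_lit 29334052452) (nat_lit 152) (nat_lit 9883795268) (nat_lit 0) (nat_lit 15337792627) (nat_lit 75) (nat_lit 5) (nat_lit 77) (nat_lit 4) (nat_lit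 75) (nat_lit 4) (nat_lit 490) (nat_lit 326) (nat_lit 204)))))) (XT.nd (nat_lit 43680) (nat_lit 0) (nat_lit 17328) (XT.nd (nat_lit 43368) (nat_lit 0) (nat_lit 21432) (XT.nd (nat_lit 156) (nat_lit 76) (nat_lit 0) (XT.nd (nat_lit 78) (nat_lit 152) (nat_lit 0) (XT.lf (nat_lit 0) (nat_lit 27906574787) (nat_lit 76) (nat_lit 20861896802) (nat_lit 76) (nat_lit 6854257791) (nat_lit 74) (nat_lit 4) (nat_lit 75) (nat_lit 5) (nat_lit 75) (nat_lit 4) (nat_lit 491) (nat_lit 326) (nat_lit 203)) (XT.lf (nat_lit 0) (nat_lit 10342059803) (nat_lit 76) (nat_lit 1658307964) (nat_lit 152) (nat_lit 44712833610) (nat_lit 72) (nat_lit 5) (nat_lit 73) (nat_lit 5) (nat_lit 74) (nat_lit 4) (nat_lit 492) (nat_lit 326) (nat_lit 202))) (XT.nd (nat_lit 78) (nat_lit 76) (nat_lit 0) (XT.lf (nat_lit 0) (nat_lit 31711204907) (nat_lit 152) (nat_lit 8019880772) (nat_lit 0) (nat_lit 18090415839) (nat_lit 72) (nat_lit 5) (nat_lit 74) (nat_lit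 4) (nat_lit 72) (nat_lit 4) (nat_lit 493) (nat_lit 326) (nat_lit 201)) (XT.lf (nat_lit 0) (nat_lit 32035049880) (nat_lit 76) (nat_lit 20274999817) (nat_lit 76) (nat_lit 6644100490) (nat_lit 71) (nat_lit 4) (nat_lit 72) (nat_lit 5) (nat_lit 72) (nat_lit 4) (nat_lit 494) (nat_lit 326) (nat_lit 200)))) (XT.nd (nat_lit 156) (nat_lit 684) (nat_lit 0) (XT.nd (nat_lit 78) (nat_lit 836) (nat_lit 0) (XT.lf (nat_lit 0) (nat_lit 995145823) (nat_lit 1292) (nat_lit 1587598059) (nat_lit 0) (nat_lit 995145823) (nat_lit 373) (nat_lit 5) (nat_lit 390) (nat_lit 4) (nat_lit 373) (nat_lit 4) (nat_lit 366) (nat_lit 327) (nat_lit 327)) (XT.lf (nat_lit 0) (nat_lit 2292692994) (nat_lit 836) (nat_lit 3300327791) (nat_lit 836) (nat_lit 1619194374) (nat_lit 362) (nat_lit 4) (nat_lit 373) (nat_lit 5) (nat_lit 373) (nat_lit 4) (nat_lit 367) (nat_lit 327) (nat_lit 326))) (XT.nd (nat_lit 78) (nat_lit 0) (nat_lit 0) (XT.lf (nat_lit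 0) (nat_lit 601384440) (nat_lit 608) (nat_lit 1327032418) (nat_lit 684) (nat_lit 5343302415) (nat_lit 353) (nat_lit 5) (nat_lit 361) (nat_lit 5) (nat_lit 362) (nat_lit 4) (nat_lit 368) (nat_lit 327) (nat_lit 325)) (XT.lf (nat_lit 0) (nat_lit 5505194204) (nat_lit 684) (nat_lit 1078753769) (nat_lit 0) (nat_lit 749921131) (nat_lit 353) (nat_lit 5) (nat_lit 362) (nat_lit 4) (nat_lit 353) (nat_lit 4) (nat_lit 369) (nat_lit 327) (nat_lit 324))))) (XT.nd (nat_lit 312) (nat_lit 2204) (nat_lit 0) (XT.nd (nat_lit 156) (nat_lit 684) (nat_lit 0) (XT.nd (nat_lit 78) (nat_lit 532) (nat_lit 0) (XT.lf (nat_lit 0) (nat_lit 1715148098) (nat_lit 684) (nat_lit 2767187701) (nat_lit 76) (nat_lit 2916269637) (nat_lit 344) (nat_lit 5) (nat_lit 353) (nat_lit 5) (nat_lit 345) (nat_lit 4) (nat_lit 370) (nat_lit 327) (nat_lit 323)) (XT.lf (nat_lit 0) (nat_lit 3000093364) (nat_lit 532) (nat_lit 2270444645) (nat_lit 608) (nat_lit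 2195942476) (nat_lit 337) (nat_lit 5) (nat_lit 344) (nat_lit 5) (nat_lit 345) (nat_lit 4) (nat_lit 371) (nat_lit 327) (nat_lit 322))) (XT.nd (nat_lit 78) (nat_lit 0) (nat_lit 0) (XT.lf (nat_lit 0) (nat_lit 1313774872) (nat_lit 684) (nat_lit 6174805519) (nat_lit 76) (nat_lit 49064103) (nat_lit 328) (nat_lit 5) (nat_lit 337) (nat_lit 5) (nat_lit 329) (nat_lit 4) (nat_lit 372) (nat_lit 327) (nat_lit 321)) (XT.lf (nat_lit 0) (nat_lit 4857315666) (nat_lit 684) (nat_lit 308519950) (nat_lit 76) (nat_lit 2445275502) (nat_lit 328) (nat_lit 5) (nat_lit 337) (nat_lit 5) (nat_lit 329) (nat_lit 4) (nat_lit 373) (nat_lit 327) (nat_lit 320)))) (XT.nd (nat_lit 156) (nat_lit 1064) (nat_lit 0) (XT.nd (nat_lit 78) (nat_lit 532) (nat_lit 0) (XT.lf (nat_lit 0) (nat_lit 766559335) (nat_lit 608) (nat_lit 1959207460) (nat_lit 76) (nat_lit 4961912756) (nat_lit 320) (nat_lit 5) (nat_lit 328) (nat_lit 5) (nat_lit 321) (nat_lit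 5) (nat_lit 374) (nat_lit 327) (nat_lit 319)) (XT.lf (nat_lit 0) (nat_lit 4129502204) (nat_lit 532) (nat_lit 158687572) (nat_lit 608) (nat_lit 3479006895) (nat_lit 313) (nat_lit 5) (nat_lit 320) (nat_lit 5) (nat_lit 321) (nat_lit 5) (nat_lit 375) (nat_lit 327) (nat_lit 318))) (XT.nd (nat_lit 78) (nat_lit 532) (nat_lit 0) (XT.lf (nat_lit 0) (nat_lit 42425135) (nat_lit 532) (nat_lit 5344524497) (nat_lit 76) (nat_lit 2462810021) (nat_lit 306) (nat_lit 5) (nat_lit 313) (nat_lit 5) (nat_lit 307) (nat_lit 5) (nat_lit 376) (nat_lit 327) (nat_lit 317)) (XT.lf (nat_lit 0) (nat_lit 840991297) (nat_lit 532) (nat_lit 2715642312) (nat_lit 608) (nat_lit 4378420803) (nat_lit 299) (nat_lit 5) (nat_lit 306) (nat_lit 5) (nat_lit 307) (nat_lit 5) (nat_lit 377) (nat_lit 327) (nat_lit 316))))))))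
noncomputable def xc69 : XT := (XT.nd (nat_lit 2340) (nat_lit 4256) (nat_lit 0) (XT.nd (nat_lit 1170) (nat_lit 3268) (nat_lit 0) (XT.nd (nat_lit 546) (nat_lit 2660) (nat_lit 0) (XT.nd (nat_lit 234) (nat_lit 1368) (nat_lit 0) (XT.nd (nat_lit 78) (nat_lit 988) (nat_lit 0) (XT.lf (nat_lit 0) (nat_lit 7142742383) (nat_lit 608) (nat_lit 814221498) (nat_lit 76) (nat_lit 66949913) (nat_lit 299) (nat_lit 5) (nat_lit 307) (nat_lit 5) (nat_lit 300) (nat_lit 4) (nat_lit 378) (nat_lit 327) (nat_lit 315)) (XT.nd (nat_lit 78) (nat_lit 456) (nat_lit 0) (XT.lf (nat_lit 0) (nat_lit 2663024930) (nat_lit 532) (nat_lit 2515142703) (nat_lit 76) (nat_lit 2936632871) (nat_lit 292) (nat_lit 5) (nat_lit 299) (nat_lit 5) (nat_lit 293) (nat_lit 5) (nat_lit 379) (nat_lit 327) (nat_lit 314)) (XT.lf (nat_lit 0) (nat_lit 3972196843) (nat_lit 456) (nat_lit 2284939865) (nat_lit 532) (nat_lit 1952176367) (nat_lit 286) (nat_lit 5) (nat_lit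 292) (nat_lit 5) (nat_lit 293) (nat_lit 5) (nat_lit 380) (nat_lit 327) (nat_lit 313)))) (XT.nd (nat_lit 156) (nat_lit 456) (nat_lit 0) (XT.nd (nat_lit 78) (nat_lit 456) (nat_lit 0) (XT.lf (nat_lit 0) (nat_lit 1590554191) (nat_lit 456) (nat_lit 5997020812) (nat_lit 76) (nat_lit 719497863) (nat_lit 280) (nat_lit 5) (nat_lit 286) (nat_lit 5) (nat_lit 281) (nat_lit 5) (nat_lit 381) (nat_lit 327) (nat_lit 312)) (XT.lf (nat_lit 0) (nat_lit 590435538) (nat_lit 456) (nat_lit 4597951650) (nat_lit 532) (nat_lit 3219156692) (nat_lit 274) (nat_lit 5) (nat_lit 280) (nat_lit 5) (nat_lit 281) (nat_lit 5) (nat_lit 382) (nat_lit 327) (nat_lit 311))) (XT.nd (nat_lit 78) (nat_lit 380) (nat_lit 0) (XT.lf (nat_lit 0) (nat_lit 353900959) (nat_lit 532) (nat_lit 1128311952) (nat_lit 76) (nat_lit 7029358095) (nat_lit 273) (nat_lit 5) (nat_lit 280) (nat_lit 5) (nat_lit 274) (nat_lit 5) (nat_lit 383) (nat_lit 327) (nat_lit 310))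 (XT.lf (nat_lit 0) (nat_lit 3961226402) (nat_lit 456) (nat_lit 2904559564) (nat_lit 76) (nat_lit 1752223459) (nat_lit 268) (nat_lit 5) (nat_lit 274) (nat_lit 5) (nat_lit 269) (nat_lit 5) (nat_lit 384) (nat_lit 327) (nat_lit 309))))) (XT.nd (nat_lit 312) (nat_lit 1368) (nat_lit 0) (XT.nd (nat_lit 156) (nat_lit 456) (nat_lit 0) (XT.nd (nat_lit 78) (nat_lit 456) (nat_lit 0) (XT.lf (nat_lit 0) (nat_lit 4008752502) (nat_lit 380) (nat_lit 3653255892) (nat_lit 456) (nat_lit 1066075498) (nat_lit 263) (nat_lit 5) (nat_lit 268) (nat_lit 5) (nat_lit 269) (nat_lit 5) (nat_lit 385) (nat_lit 327) (nat_lit 308)) (XT.lf (nat_lit 0) (nat_lit 2255376924) (nat_lit 380) (nat_lit 297914871) (nat_lit 456) (nat_lit 6288240528) (nat_lit 257) (nat_lit 5) (nat_lit 262) (nat_lit 5) (nat_lit 263) (nat_lit 5) (nat_lit 386) (nat_lit 327) (nat_lit 307))) (XT.nd (nat_lit 78) (nat_lit 76) (nat_lit 0) (XT.lf (nat_lit 0) (nat_lit 433804552)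 (nat_lit 380) (nat_lit 5830594580) (nat_lit 456) (nat_lit 2693530835) (nat_lit 252) (nat_lit 5) (nat_lit 257) (nat_lit 5) (nat_lit 258) (nat_lit 5) (nat_lit 387) (nat_lit 327) (nat_lit 306)) (XT.lf (nat_lit 0) (nat_lit 981819776) (nat_lit 456) (nat_lit 1402591469) (nat_lit 76) (nat_lit 6693342640) (nat_lit 251) (nat_lit 5) (nat_lit 257) (nat_lit 5) (nat_lit 252) (nat_lit 5) (nat_lit 388) (nat_lit 327) (nat_lit 305)))) (XT.nd (nat_lit 156) (nat_lit 684) (nat_lit 0) (XT.nd (nat_lit 78) (nat_lit 380) (nat_lit 0) (XT.lf (nat_lit 0) (nat_lit 4706453931) (nat_lit 380) (nat_lit 3300894184) (nat_lit 76) (nat_lit 1193229537) (nat_lit 247) (nat_lit 5) (nat_lit 252) (nat_lit 5) (nat_lit 248) (nat_lit 5) (nat_lit 389) (nat_lit 327) (nat_lit 304)) (XT.lf (nat_lit 0) (nat_lit 4068388419) (nat_lit 380) (nat_lit 4476916100) (nat_lit 456) (nat_lit 781707290) (nat_lit 242) (nat_lit 5) (nat_lit 247) (nat_lit 5) (nat_lit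 248) (nat_lit 5) (nat_lit 390) (nat_lit 327) (nat_lit 303))) (XT.nd (nat_lit 78) (nat_lit 304) (nat_lit 0) (XT.lf (nat_lit 0) (nat_lit 2172228151) (nat_lit 304) (nat_lit 790886413) (nat_lit 380) (nat_lit 6493835309) (nat_lit 237) (nat_lit 5) (nat_lit 241) (nat_lit 5) (nat_lit 242) (nat_lit 5) (nat_lit 391) (nat_lit 327) (nat_lit 302)) (XT.lf (nat_lit 0) (nat_lit 199833735) (nat_lit 304) (nat_lit 6615781888) (nat_lit 380) (nat_lit 2774606883) (nat_lit 233) (nat_lit 5) (nat_lit 237) (nat_lit 5) (nat_lit 238) (nat_lit 5) (nat_lit 392) (nat_lit 327) (nat_lit 301)))))) (XT.nd (nat_lit 546) (nat_lit 1672) (nat_lit 0) (XT.nd (nat_lit 234) (nat_lit 912) (nat_lit 0) (XT.nd (nat_lit 78) (nat_lit 608) (nat_lit 0) (XT.lf (nat_lit 0) (nat_lit 1044673460) (nat_lit 380) (nat_lit 1797619205) (nat_lit 76) (nat_lit 6884623510) (nat_lit 232) (nat_lit 5) (nat_lit 237) (nat_lit 5) (nat_lit 233) (nat_lit 5) (nat_lit 393)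 (nat_lit 327) (nat_lit 300)) (XT.nd (nat_lit 78) (nat_lit 304) (nat_lit 0) (XT.lf (nat_lit 0) (nat_lit 4920092108) (nat_lit 380) (nat_lit 3873798823) (nat_lit 76) (nat_lit 1073075779) (nat_lit 228) (nat_lit 5) (nat_lit 233) (nat_lit 5) (nat_lit 229) (nat_lit 5) (nat_lit 394) (nat_lit 327) (nat_lit 299)) (XT.lf (nat_lit 0) (nat_lit 3983987318) (nat_lit 304) (nat_lit 4942317663) (nat_lit 380) (nat_lit 1084477831) (nat_lit 224) (nat_lit 5) (nat_lit 228) (nat_lit 5) (nat_lit 229) (nat_lit 5) (nat_lit 395) (nat_lit 327) (nat_lit 298)))) (XT.nd (nat_lit 156) (nat_lit 608) (nat_lit 0) (XT.nd (nat_lit 78) (nat_lit 0) (nat_lit 0) (XT.lf (nat_lit 0) (nat_lit 1898409581) (nat_lit 228) (nat_lit 926748275) (nat_lit 304) (nat_lit 7333285974) (nat_lit 220) (nat_lit 5) (nat_lit 223) (nat_lit 5) (nat_lit 224) (nat_lit 5) (nat_lit 396) (nat_lit 327) (nat_lit 297)) (XT.lf (nat_lit 0) (nat_lit 6853290697) (nat_lit 304)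 (nat_lit 276204054) (nat_lit 76) (nat_lit 3180027656) (nat_lit 220) (nat_lit 5) (nat_lit 224) (nat_lit 5) (nat_lit 221) (nat_lit 5) (nat_lit 397) (nat_lit 327) (nat_lit 296))) (XT.nd (nat_lit 78) (nat_lit 228) (nat_lit 0) (XT.lf (nat_lit 0) (nat_lit 545499948) (nat_lit 380) (nat_lit 2483114266) (nat_lit 76) (nat_lit 7435798814) (nat_lit 215) (nat_lit 5) (nat_lit 220) (nat_lit 5) (nat_lit 216) (nat_lit 5) (nat_lit 398) (nat_lit 327) (nat_lit 295)) (XT.lf (nat_lit 0) (nat_lit 4601800531) (nat_lit 304) (nat_lit 4794435708) (nat_lit 76) (nat_lit 1226568011) (nat_lit 212) (nat_lit 5) (nat_lit 216) (nat_lit 5) (nat_lit 213) (nat_lit 5) (nat_lit 399) (nat_lit 327) (nat_lit 294))))) (XT.nd (nat_lit 312) (nat_lit 836) (nat_lit 0) (XT.nd (nat_lit 156) (nat_lit 228) (nat_lit 0) (XT.nd (nat_lit 78) (nat_lit 304) (nat_lit 0) (XT.lf (nat_lit 0) (nat_lit 3586821553) (nat_lit 304) (nat_lit 5216297570) (nat_lit 380)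 (nat_lit 1982128215) (nat_lit 208) (nat_lit 5) (nat_lit 212) (nat_lit 5) (nat_lit 213) (nat_lit 5) (nat_lit 400) (nat_lit 327) (nat_lit 293)) (XT.lf (nat_lit 0) (nat_lit 1261795634) (nat_lit 228) (nat_lit 868443272) (nat_lit 304) (nat_lit 8821852023) (nat_lit 204) (nat_lit 5) (nat_lit 207) (nat_lit 5) (nat_lit 208) (nat_lit 5) (nat_lit 401) (nat_lit 327) (nat_lit 292))) (XT.nd (nat_lit 78) (nat_lit 228) (nat_lit 0) (XT.lf (nat_lit 0) (nat_lit 6368547335) (nat_lit 304) (nat_lit 1162015752) (nat_lit 76) (nat_lit 3591515714) (nat_lit 204) (nat_lit 5) (nat_lit 208) (nat_lit 5) (nat_lit 205) (nat_lit 5) (nat_lit 402) (nat_lit 327) (nat_lit 291)) (XT.lf (nat_lit 0) (nat_lit 7657506041) (nat_lit 228) (nat_lit 3094919029) (nat_lit 304) (nat_lit 544188638) (nat_lit 201) (nat_lit 5) (nat_lit 204) (nat_lit 5) (nat_lit 205) (nat_lit 5) (nat_lit 403) (nat_lit 327) (nat_lit 290)))) (XT.nd (nat_lit 156) (nat_lit 304)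 (nat_lit 0) (XT.nd (nat_lit 78) (nat_lit 228) (nat_lit 0) (XT.lf (nat_lit 0) (nat_lit 3730946936) (nat_lit 304) (nat_lit 6240454931) (nat_lit 76) (nat_lit 1503484519) (nat_lit 197) (nat_lit 5) (nat_lit 201) (nat_lit 5) (nat_lit 198) (nat_lit 5) (nat_lit 404) (nat_lit 327) (nat_lit 289)) (XT.lf (nat_lit 0) (nat_lit 2701586273) (nat_lit 228) (nat_lit 5452423051) (nat_lit 304) (nat_lit 3503417967) (nat_lit 194) (nat_lit 5) (nat_lit 197) (nat_lit 5) (nat_lit 198) (nat_lit 5) (nat_lit 405) (nat_lit 327) (nat_lit 288))) (XT.nd (nat_lit 78) (nat_lit 0) (nat_lit 0) (XT.lf (nat_lit 0) (nat_lit 82619417) (nat_lit 228) (nat_lit 766366483) (nat_lit 304) (nat_lit 10996163290) (nat_lit 190) (nat_lit 5) (nat_lit 193) (nat_lit 5) (nat_lit 194) (nat_lit 5) (nat_lit 406) (nat_lit 327) (nat_lit 287)) (XT.lf (nat_lit 0) (nat_lit 5329411462) (nat_lit 304) (nat_lit 2641305944) (nat_lit 76) (nat_lit 4064708778) (nat_lit 190)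 (nat_lit 5) (nat_lit 194) (nat_lit 5) (nat_lit 191) (nat_lit 5) (nat_lit 407) (nat_lit 327) (nat_lit 286))))))) (XT.nd (nat_lit 1170) (nat_lit 1824) (nat_lit 0) (XT.nd (nat_lit 546) (nat_lit 1064) (nat_lit 0) (XT.nd (nat_lit 234) (nat_lit 684) (nat_lit 0) (XT.nd (nat_lit 78) (nat_lit 456) (nat_lit 0) (XT.lf (nat_lit 0) (nat_lit 6774547704) (nat_lit 228) (nat_lit 3181734414) (nat_lit 304) (nat_lit 2274768398) (nat_lit 187) (nat_lit 5) (nat_lit 190) (nat_lit 5) (nat_lit 191) (nat_lit 5) (nat_lit 408) (nat_lit 327) (nat_lit 285)) (XT.nd (nat_lit 78) (nat_lit 228) (nat_lit 0) (XT.lf (nat_lit 0) (nat_lit 2267386282) (nat_lit 228) (nat_lit 8400808555) (nat_lit 76) (nat_lit 1763009154) (nat_lit 184) (nat_lit 5) (nat_lit 187) (nat_lit 5) (nat_lit 185) (nat_lit 5) (nat_lit 409) (nat_lit 327) (nat_lit 284)) (XT.lf (nat_lit 0) (nat_lit 1141587999) (nat_lit 228) (nat_lit 5796489700) (nat_lit 304) (nat_lit 5697468917)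 (nat_lit 181) (nat_lit 5) (nat_lit 184) (nat_lit 5) (nat_lit 185) (nat_lit 5) (nat_lit 410) (nat_lit 327) (nat_lit 283)))) (XT.nd (nat_lit 156) (nat_lit 456) (nat_lit 0) (XT.nd (nat_lit 78) (nat_lit 228) (nat_lit 0) (XT.lf (nat_lit 0) (nat_lit 11039323301) (nat_lit 228) (nat_lit 735029317) (nat_lit 304) (nat_lit 1070903017) (nat_lit 181) (nat_lit 5) (nat_lit 184) (nat_lit 5) (nat_lit 185) (nat_lit 5) (nat_lit 411) (nat_lit 327) (nat_lit 282)) (XT.lf (nat_lit 0) (nat_lit 3686706198) (nat_lit 228) (nat_lit 4907482605) (nat_lit 76) (nat_lit 4464071564) (nat_lit 178) (nat_lit 5) (nat_lit 181) (nat_lit 5) (nat_lit 179) (nat_lit 5) (nat_lit 412) (nat_lit 327) (nat_lit 281))) (XT.nd (nat_lit 78) (nat_lit 228) (nat_lit 0) (XT.lf (nat_lit 0) (nat_lit 5146858017) (nat_lit 228) (nat_lit 3435939981) (nat_lit 304) (nat_lit 4694020800) (nat_lit 175) (nat_lit 5) (nat_lit 178) (nat_lit 5) (nat_lit 179) (nat_lit 5)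 (nat_lit 413) (nat_lit 327) (nat_lit 280)) (XT.lf (nat_lit 0) (nat_lit 151655501) (nat_lit 228) (nat_lit 11480537184) (nat_lit 76) (nat_lit 1868798581) (nat_lit 172) (nat_lit 5) (nat_lit 175) (nat_lit 5) (nat_lit 173) (nat_lit 5) (nat_lit 414) (nat_lit 327) (nat_lit 279))))) (XT.nd (nat_lit 312) (nat_lit 532) (nat_lit 0) (XT.nd (nat_lit 156) (nat_lit 380) (nat_lit 0) (XT.nd (nat_lit 78) (nat_lit 152) (nat_lit 0) (XT.lf (nat_lit 0) (nat_lit 5107840205) (nat_lit 228) (nat_lit 1270756765) (nat_lit 76) (nat_lit 7350113176) (nat_lit 172) (nat_lit 5) (nat_lit 175) (nat_lit 5) (nat_lit 173) (nat_lit 5) (nat_lit 415) (nat_lit 327) (nat_lit 278)) (XT.lf (nat_lit 0) (nat_lit 9328256725) (nat_lit 152) (nat_lit 918350376) (nat_lit 228) (nat_lit 3715636592) (nat_lit 170) (nat_lit 5) (nat_lit 172) (nat_lit 5) (nat_lit 173) (nat_lit 5) (nat_lit 416) (nat_lit 327) (nat_lit 277))) (XT.nd (nat_lit 78) (nat_lit 152) (nat_lit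 0) (XT.lf (nat_lit 0) (nat_lit 1372039424) (nat_lit 228) (nat_lit 8172334319) (nat_lit 76) (nat_lit 4656182895) (nat_lit 167) (nat_lit 5) (nat_lit 170) (nat_lit 5) (nat_lit 168) (nat_lit 5) (nat_lit 417) (nat_lit 327) (nat_lit 276)) (XT.lf (nat_lit 0) (nat_lit 2564897000) (nat_lit 152) (nat_lit 3998396984) (nat_lit 228) (nat_lit 7880852468) (nat_lit 165) (nat_lit 5) (nat_lit 167) (nat_lit 5) (nat_lit 168) (nat_lit 5) (nat_lit 418) (nat_lit 327) (nat_lit 275)))) (XT.nd (nat_lit 156) (nat_lit 304) (nat_lit 0) (XT.nd (nat_lit 78) (nat_lit 228) (nat_lit 0) (XT.lf (nat_lit 0) (nat_lit 11954971855) (nat_lit 228) (nat_lit 1017819729) (nat_lit 76) (nat_lit 1720911805) (nat_lit 165) (nat_lit 5) (nat_lit 168) (nat_lit 5) (nat_lit 166) (nat_lit 4) (nat_lit 419) (nat_lit 327) (nat_lit 274)) (XT.lf (nat_lit 0) (nat_lit 2593005327) (nat_lit 228) (nat_lit 4740918102) (nat_lit 76) (nat_lit 7613528195) (nat_lit 162)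 (nat_lit 5) (nat_lit 165) (nat_lit 5) (nat_lit 163) (nat_lit 5) (nat_lit 420) (nat_lit 327) (nat_lit 273))) (XT.nd (nat_lit 78) (nat_lit 152) (nat_lit 0) (XT.lf (nat_lit 0) (nat_lit 6584305378) (nat_lit 152) (nat_lit 1465603186) (nat_lit 228) (nat_lit 7157482454) (nat_lit 160) (nat_lit 5) (nat_lit 162) (nat_lit 5) (nat_lit 163) (nat_lit 5) (nat_lit 421) (nat_lit 327) (nat_lit 272)) (XT.lf (nat_lit 0) (nat_lit 2785488787) (nat_lit 152) (nat_lit 10950973416) (nat_lit 228) (nat_lit 1736688093) (nat_lit 158) (nat_lit 5) (nat_lit 160) (nat_lit 5) (nat_lit 161) (nat_lit 4) (nat_lit 422) (nat_lit 327) (nat_lit 271)))))) (XT.nd (nat_lit 624) (nat_lit 836) (nat_lit 0) (XT.nd (nat_lit 312) (nat_lit 380) (nat_lit 0) (XT.nd (nat_lit 156) (nat_lit 380) (nat_lit 0) (XT.nd (nat_lit 78) (nat_lit 152) (nat_lit 0) (XT.lf (nat_lit 0) (nat_lit 3821025552) (nat_lit 228) (nat_lit 1180794681) (nat_lit 76) (nat_lit 10742472035)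 (nat_lit 157) (nat_lit 5) (nat_lit 160) (nat_lit 5) (nat_lit 158) (nat_lit 5) (nat_lit 423) (nat_lit 327) (nat_lit 270)) (XT.lf (nat_lit 0) (nat_lit 9574151944) (nat_lit 228) (nat_lit 5263283970) (nat_lit 76) (nat_lit 1183709126) (nat_lit 155) (nat_lit 5) (nat_lit 158) (nat_lit 5) (nat_lit 156) (nat_lit 4) (nat_lit 424) (nat_lit 327) (nat_lit 269))) (XT.nd (nat_lit 78) (nat_lit 228) (nat_lit 0) (XT.lf (nat_lit 0) (nat_lit 6760598282) (nat_lit 152) (nat_lit 8814474987) (nat_lit 228) (nat_lit 728974092) (nat_lit 153) (nat_lit 5) (nat_lit 155) (nat_lit 5) (nat_lit 156) (nat_lit 4) (nat_lit 425) (nat_lit 327) (nat_lit 268)) (XT.lf (nat_lit 0) (nat_lit 2564442716) (nat_lit 152) (nat_lit 2522509104) (nat_lit 228) (nat_lit 11506184691) (nat_lit 150) (nat_lit 5) (nat_lit 152) (nat_lit 5) (nat_lit 153) (nat_lit 5) (nat_lit 426) (nat_lit 327) (nat_lit 267)))) (XT.nd (nat_lit 156) (nat_lit 228) (nat_lit 0) (XT.nd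 (nat_lit 78) (nat_lit 152) (nat_lit 0) (XT.lf (nat_lit 0) (nat_lit 11146995782) (nat_lit 228) (nat_lit 1797914849) (nat_lit 76) (nat_lit 3943242420) (nat_lit 150) (nat_lit 5) (nat_lit 153) (nat_lit 5) (nat_lit 151) (nat_lit 4) (nat_lit 427) (nat_lit 327) (nat_lit 266)) (XT.lf (nat_lit 0) (nat_lit 273887708) (nat_lit 152) (nat_lit 6297009244) (nat_lit 76) (nat_lit 10618639154) (nat_lit 148) (nat_lit 5) (nat_lit 150) (nat_lit 5) (nat_lit 149) (nat_lit 5) (nat_lit 428) (nat_lit 327) (nat_lit 265))) (XT.nd (nat_lit 78) (nat_lit 76) (nat_lit 0) (XT.lf (nat_lit 0) (nat_lit 6385985938) (nat_lit 228) (nat_lit 11019913091) (nat_lit 76) (nat_lit 91396525) (nat_lit 146) (nat_lit 5) (nat_lit 149) (nat_lit 5) (nat_lit 147) (nat_lit 4) (nat_lit 429) (nat_lit 327) (nat_lit 264)) (XT.lf (nat_lit 0) (nat_lit 1829352213) (nat_lit 76) (nat_lit 10949601230) (nat_lit 152) (nat_lit 5032409152) (nat_lit 145) (nat_lit 5) (nat_lit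 146) (nat_lit 5) (nat_lit 147) (nat_lit 4) (nat_lit 430) (nat_lit 327) (nat_lit 263))))) (XT.nd (nat_lit 312) (nat_lit 304) (nat_lit 0) (XT.nd (nat_lit 156) (nat_lit 304) (nat_lit 0) (XT.nd (nat_lit 78) (nat_lit 152) (nat_lit 0) (XT.lf (nat_lit 0) (nat_lit 1267981432) (nat_lit 152) (nat_lit 2946875236) (nat_lit 76) (nat_lit 13917747527) (nat_lit 144) (nat_lit 5) (nat_lit 146) (nat_lit 5) (nat_lit 145) (nat_lit 5) (nat_lit 431) (nat_lit 327) (nat_lit 262)) (XT.lf (nat_lit 0) (nat_lit 7737022897) (nat_lit 228) (nat_lit 7942120381) (nat_lit 76) (nat_lit 2780421422) (nat_lit 142) (nat_lit 5) (nat_lit 145) (nat_lit 5) (nat_lit 143) (nat_lit 4) (nat_lit 432) (nat_lit 327) (nat_lit 261))) (XT.nd (nat_lit 78) (nat_lit 228) (nat_lit 0) (XT.lf (nat_lit 0) (nat_lit 5628580408) (nat_lit 76) (nat_lit 8849740375) (nat_lit 152) (nat_lit 4315667681) (nat_lit 141) (nat_lit 5) (nat_lit 142) (nat_lit 5) (nat_lit 143)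 (nat_lit 4) (nat_lit 433) (nat_lit 327) (nat_lit 260)) (XT.lf (nat_lit 0) (nat_lit 530829101) (nat_lit 152) (nat_lit 1746485600) (nat_lit 228) (nat_lit 16859317966) (nat_lit 138) (nat_lit 5) (nat_lit 140) (nat_lit 5) (nat_lit 141) (nat_lit 5) (nat_lit 434) (nat_lit 327) (nat_lit 259)))) (XT.nd (nat_lit 156) (nat_lit 228) (nat_lit 0) (XT.nd (nat_lit 78) (nat_lit 76) (nat_lit 0) (XT.lf (nat_lit 0) (nat_lit 9121638904) (nat_lit 228) (nat_lit 4765405627) (nat_lit 76) (nat_lit 5597020992) (nat_lit 138) (nat_lit 5) (nat_lit 141) (nat_lit 5) (nat_lit 139) (nat_lit 4) (nat_lit 435) (nat_lit 327) (nat_lit 258)) (XT.lf (nat_lit 0) (nat_lit 9572242532) (nat_lit 76) (nat_lit 6662231184) (nat_lit 152) (nat_lit 3605552222) (nat_lit 137) (nat_lit 5) (nat_lit 138) (nat_lit 5) (nat_lit 139) (nat_lit 4) (nat_lit 436) (nat_lit 327) (nat_lit 257))) (XT.nd (nat_lit 78) (nat_lit 0) (nat_lit 0) (XT.lf (nat_lit 0) (nat_lit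 3339719614) (nat_lit 228) (nat_lit 16018613876) (nat_lit 76) (nat_lit 845830235) (nat_lit 134) (nat_lit 5) (nat_lit 137) (nat_lit 5) (nat_lit 135) (nat_lit 4) (nat_lit 437) (nat_lit 327) (nat_lit 256)) (XT.lf (nat_lit 0) (nat_lit 10545602971) (nat_lit 228) (nat_lit 1483471983) (nat_lit 76) (nat_lit 8545338095) (nat_lit 134) (nat_lit 5) (nat_lit 137) (nat_lit 5) (nat_lit 135) (nat_lit 4) (nat_lit 438) (nat_lit 327) (nat_lit 255))))))))
noncomputable def xc70 : XT := (XT.nd (nat_lit 2340) (nat_lit 1976) (nat_lit 0) (XT.nd (nat_lit 1170) (nat_lit 1216) (nat_lit 0) (XT.nd (nat_lit 546) (nat_lit 836) (nat_lit 0) (XT.nd (nat_lit 234) (nat_lit 304) (nat_lit 0) (XT.nd (nat_lit 78) (nat_lit 304) (nat_lit 0) (XT.lf (nat_lit 0) (nat_lit 13669383791) (nat_lit 76) (nat_lit 4385063586) (nat_lit 152) (nat_lit 2898718937) (nat_lit 133) (nat_lit 5) (nat_lit 134) (nat_lit 5) (nat_lit 135) (nat_lit 4) (nat_lit 439) (nat_lit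 327) (nat_lit 254)) (XT.nd (nat_lit 78) (nat_lit 76) (nat_lit 0) (XT.lf (nat_lit 0) (nat_lit 4440401171) (nat_lit 228) (nat_lit 13382702642) (nat_lit 76) (nat_lit 3516440357) (nat_lit 130) (nat_lit 5) (nat_lit 133) (nat_lit 5) (nat_lit 131) (nat_lit 4) (nat_lit 440) (nat_lit 327) (nat_lit 253)) (XT.lf (nat_lit 0) (nat_lit 1948634931) (nat_lit 76) (nat_lit 10084766410) (nat_lit 152) (nat_lit 9700491980) (nat_lit 129) (nat_lit 5) (nat_lit 130) (nat_lit 5) (nat_lit 131) (nat_lit 4) (nat_lit 441) (nat_lit 327) (nat_lit 252)))) (XT.nd (nat_lit 156) (nat_lit 76) (nat_lit 0) (XT.nd (nat_lit 78) (nat_lit 228) (nat_lit 0) (XT.lf (nat_lit 0) (nat_lit 17929847575) (nat_lit 76) (nat_lit 2015506416) (nat_lit 152) (nat_lit 2191984082) (nat_lit 129) (nat_lit 5) (nat_lit 130) (nat_lit 5) (nat_lit 131) (nat_lit 4) (nat_lit 442) (nat_lit 327) (nat_lit 251)) (XT.lf (nat_lit 0) (nat_lit 5567042796) (nat_lit 228) (nat_lit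 10676515426) (nat_lit 76) (nat_lit 6303727700) (nat_lit 126) (nat_lit 5) (nat_lit 129) (nat_lit 5) (nat_lit 127) (nat_lit 4) (nat_lit 443) (nat_lit 327) (nat_lit 250))) (XT.nd (nat_lit 78) (nat_lit 0) (nat_lit 0) (XT.lf (nat_lit 0) (nat_lit 5532361499) (nat_lit 76) (nat_lit 8055437527) (nat_lit 152) (nat_lit 9378891641) (nat_lit 125) (nat_lit 5) (nat_lit 126) (nat_lit 5) (nat_lit 127) (nat_lit 4) (nat_lit 444) (nat_lit 327) (nat_lit 249)) (XT.lf (nat_lit 0) (nat_lit 21918749719) (nat_lit 152) (nat_lit 1036756019) (nat_lit 0) (nat_lit 441084661) (nat_lit 125) (nat_lit 5) (nat_lit 127) (nat_lit 4) (nat_lit 125) (nat_lit 4) (nat_lit 445) (nat_lit 327) (nat_lit 248))))) (XT.nd (nat_lit 312) (nat_lit 304) (nat_lit 0) (XT.nd (nat_lit 156) (nat_lit 228) (nat_lit 0) (XT.nd (nat_lit 78) (nat_lit 76) (nat_lit 0) (XT.lf (nat_lit 0) (nat_lit 6724087350) (nat_lit 228) (nat_lit 7894809385) (nat_lit 76) (nat_lit 9212755394)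 (nat_lit 122) (nat_lit 5) (nat_lit 125) (nat_lit 5) (nat_lit 123) (nat_lit 4) (nat_lit 446) (nat_lit 327) (nat_lit 247)) (XT.lf (nat_lit 0) (nat_lit 9246554048) (nat_lit 76) (nat_lit 5953618234) (nat_lit 152) (nat_lit 9077420400) (nat_lit 121) (nat_lit 5) (nat_lit 122) (nat_lit 5) (nat_lit 123) (nat_lit 4) (nat_lit 447) (nat_lit 327) (nat_lit 246))) (XT.nd (nat_lit 78) (nat_lit 76) (nat_lit 0) (XT.lf (nat_lit 0) (nat_lit 2263622331) (nat_lit 152) (nat_lit 21756174095) (nat_lit 152) (nat_lit 714437327) (nat_lit 119) (nat_lit 4) (nat_lit 121) (nat_lit 5) (nat_lit 121) (nat_lit 4) (nat_lit 448) (nat_lit 327) (nat_lit 245)) (XT.lf (nat_lit 0) (nat_lit 7915979164) (nat_lit 228) (nat_lit 5031864699) (nat_lit 76) (nat_lit 12249331454) (nat_lit 118) (nat_lit 5) (nat_lit 121) (nat_lit 5) (nat_lit 119) (nat_lit 4) (nat_lit 449) (nat_lit 327) (nat_lit 244)))) (XT.nd (nat_lit 156) (nat_lit 76) (nat_lit 0) (XT.nd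 (nat_lit 78) (nat_lit 152) (nat_lit 0) (XT.lf (nat_lit 0) (nat_lit 13100249357) (nat_lit 76) (nat_lit 3776293734) (nat_lit 152) (nat_lit 8794681997) (nat_lit 117) (nat_lit 5) (nat_lit 118) (nat_lit 5) (nat_lit 119) (nat_lit 4) (nat_lit 450) (nat_lit 327) (nat_lit 243)) (XT.lf (nat_lit 0) (nat_lit 69005457) (nat_lit 152) (nat_lit 20457277605) (nat_lit 76) (nat_lit 5629582764) (nat_lit 115) (nat_lit 5) (nat_lit 117) (nat_lit 5) (nat_lit 116) (nat_lit 4) (nat_lit 451) (nat_lit 327) (nat_lit 242))) (XT.nd (nat_lit 78) (nat_lit 76) (nat_lit 0) (XT.lf (nat_lit 0) (nat_lit 9147192688) (nat_lit 152) (nat_lit 2081480824) (nat_lit 76) (nat_lit 15419999386) (nat_lit 115) (nat_lit 5) (nat_lit 117) (nat_lit 5) (nat_lit 116) (nat_lit 4) (nat_lit 452) (nat_lit 327) (nat_lit 241)) (XT.lf (nat_lit 0) (nat_lit 17103166162) (nat_lit 76) (nat_lit 1519902795) (nat_lit 152) (nat_lit 8529434921) (nat_lit 114) (nat_lit 5)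 (nat_lit 115) (nat_lit 5) (nat_lit 116) (nat_lit 4) (nat_lit 453) (nat_lit 327) (nat_lit 240)))))) (XT.nd (nat_lit 546) (nat_lit 608) (nat_lit 0) (XT.nd (nat_lit 234) (nat_lit 380) (nat_lit 0) (XT.nd (nat_lit 78) (nat_lit 76) (nat_lit 0) (XT.lf (nat_lit 0) (nat_lit 852127144) (nat_lit 152) (nat_lit 18417316951) (nat_lit 76) (nat_lit 8397173096) (nat_lit 112) (nat_lit 5) (nat_lit 114) (nat_lit 5) (nat_lit 113) (nat_lit 4) (nat_lit 454) (nat_lit 327) (nat_lit 239)) (XT.nd (nat_lit 78) (nat_lit 0) (nat_lit 0) (XT.lf (nat_lit 0) (nat_lit 982196719) (nat_lit 76) (nat_lit 9449504481) (nat_lit 152) (nat_lit 17759279257) (nat_lit 111) (nat_lit 5) (nat_lit 112) (nat_lit 5) (nat_lit 113) (nat_lit 4) (nat_lit 455) (nat_lit 327) (nat_lit 238)) (XT.lf (nat_lit 0) (nat_lit 20453954563) (nat_lit 152) (nat_lit 7468806557) (nat_lit 0) (nat_lit 803654738) (nat_lit 111) (nat_lit 5) (nat_lit 113) (nat_lit 4) (nat_lit 111)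 (nat_lit 4) (nat_lit 456) (nat_lit 327) (nat_lit 237)))) (XT.nd (nat_lit 156) (nat_lit 152) (nat_lit 0) (XT.nd (nat_lit 78) (nat_lit 76) (nat_lit 0) (XT.lf (nat_lit 0) (nat_lit 1651735780) (nat_lit 152) (nat_lit 16340307672) (nat_lit 76) (nat_lit 11279977860) (nat_lit 109) (nat_lit 5) (nat_lit 111) (nat_lit 5) (nat_lit 110) (nat_lit 4) (nat_lit 457) (nat_lit 327) (nat_lit 236)) (XT.lf (nat_lit 0) (nat_lit 4190629792) (nat_lit 76) (nat_lit 7595448650) (nat_lit 152) (nat_lit 18043098682) (nat_lit 108) (nat_lit 5) (nat_lit 109) (nat_lit 5) (nat_lit 110) (nat_lit 4) (nat_lit 458) (nat_lit 327) (nat_lit 235))) (XT.nd (nat_lit 78) (nat_lit 152) (nat_lit 0) (XT.lf (nat_lit 0) (nat_lit 22383300872) (nat_lit 152) (nat_lit 4831360720) (nat_lit 0) (nat_lit 3183620535) (nat_lit 108) (nat_lit 5) (nat_lit 110) (nat_lit 4) (nat_lit 108) (nat_lit 4) (nat_lit 459) (nat_lit 327) (nat_lit 234)) (XT.lf (nat_lit 0) (nat_lit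 2470694199) (nat_lit 152) (nat_lit 14222404027) (nat_lit 76) (nat_lit 14284638693) (nat_lit 106) (nat_lit 5) (nat_lit 108) (nat_lit 5) (nat_lit 107) (nat_lit 4) (nat_lit 460) (nat_lit 327) (nat_lit 233))))) (XT.nd (nat_lit 312) (nat_lit 304) (nat_lit 0) (XT.nd (nat_lit 156) (nat_lit 228) (nat_lit 0) (XT.nd (nat_lit 78) (nat_lit 0) (nat_lit 0) (XT.lf (nat_lit 0) (nat_lit 7510243245) (nat_lit 76) (nat_lit 5684473914) (nat_lit 152) (nat_lit 18374931397) (nat_lit 105) (nat_lit 5) (nat_lit 106) (nat_lit 5) (nat_lit 107) (nat_lit 4) (nat_lit 461) (nat_lit 327) (nat_lit 232)) (XT.lf (nat_lit 0) (nat_lit 24403304696) (nat_lit 152) (nat_lit 2116435240) (nat_lit 0) (nat_lit 5654692290) (nat_lit 105) (nat_lit 5) (nat_lit 107) (nat_lit 4) (nat_lit 105) (nat_lit 4) (nat_lit 462) (nat_lit 327) (nat_lit 231))) (XT.nd (nat_lit 78) (nat_lit 76) (nat_lit 0) (XT.lf (nat_lit 0) (nat_lit 3311879515) (nat_lit 152) (nat_lit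 12059466440) (nat_lit 76) (nat_lit 17418427659) (nat_lit 103) (nat_lit 5) (nat_lit 105) (nat_lit 5) (nat_lit 104) (nat_lit 4) (nat_lit 463) (nat_lit 327) (nat_lit 230)) (XT.lf (nat_lit 0) (nat_lit 10949425083) (nat_lit 76) (nat_lit 3713130083) (nat_lit 152) (nat_lit 18755970712) (nat_lit 102) (nat_lit 5) (nat_lit 103) (nat_lit 5) (nat_lit 104) (nat_lit 4) (nat_lit 464) (nat_lit 327) (nat_lit 229)))) (XT.nd (nat_lit 156) (nat_lit 152) (nat_lit 0) (XT.nd (nat_lit 78) (nat_lit 76) (nat_lit 0) (XT.lf (nat_lit 0) (nat_lit 695917480) (nat_lit 76) (nat_lit 25831813265) (nat_lit 76) (nat_lit 7533190576) (nat_lit 101) (nat_lit 4) (nat_lit 102) (nat_lit 5) (nat_lit 102) (nat_lit 4) (nat_lit 465) (nat_lit 327) (nat_lit 228)) (XT.lf (nat_lit 0) (nat_lit 4178200468) (nat_lit 152) (nat_lit 9847057154) (nat_lit 76) (nat_lit 20689255076) (nat_lit 100) (nat_lit 5) (nat_lit 102) (nat_lit 5) (nat_lit 101) (nat_lit 4)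 (nat_lit 466) (nat_lit 327) (nat_lit 227))) (XT.nd (nat_lit 78) (nat_lit 76) (nat_lit 0) (XT.lf (nat_lit 0) (nat_lit 14517120232) (nat_lit 76) (nat_lit 1677572715) (nat_lit 152) (nat_lit 19187626208) (nat_lit 99) (nat_lit 5) (nat_lit 100) (nat_lit 5) (nat_lit 101) (nat_lit 4) (nat_lit 467) (nat_lit 327) (nat_lit 226)) (XT.lf (nat_lit 0) (nat_lit 3642836356) (nat_lit 76) (nat_lit 25136065695) (nat_lit 76) (nat_lit 7285041100) (nat_lit 98) (nat_lit 4) (nat_lit 99) (nat_lit 5) (nat_lit 99) (nat_lit 4) (nat_lit 468) (nat_lit 327) (nat_lit 225))))))) (XT.nd (nat_lit 1170) (nat_lit 836) (nat_lit 0) (XT.nd (nat_lit 546) (nat_lit 608) (nat_lit 0) (XT.nd (nat_lit 234) (nat_lit 304) (nat_lit 0) (XT.nd (nat_lit 78) (nat_lit 152) (nat_lit 0) (XT.lf (nat_lit 0) (nat_lit 5072614030) (nat_lit 152) (nat_lit 7580433910) (nat_lit 76) (nat_lit 24105681395) (nat_lit 97) (nat_lit 5) (nat_lit 99) (nat_lit 5) (nat_lit 98)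 (nat_lit 4) (nat_lit 469) (nat_lit 327) (nat_lit 224)) (XT.nd (nat_lit 78) (nat_lit 76) (nat_lit 0) (XT.lf (nat_lit 0) (nat_lit 17800516824) (nat_lit 152) (nat_lit 19249186436) (nat_lit 0) (nat_lit 418113768) (nat_lit 96) (nat_lit 5) (nat_lit 98) (nat_lit 4) (nat_lit 96) (nat_lit 4) (nat_lit 470) (nat_lit 327) (nat_lit 223)) (XT.lf (nat_lit 0) (nat_lit 6689578897) (nat_lit 76) (nat_lit 24454267043) (nat_lit 76) (nat_lit 7047323733) (nat_lit 95) (nat_lit 4) (nat_lit 96) (nat_lit 5) (nat_lit 96) (nat_lit 4) (nat_lit 471) (nat_lit 327) (nat_lit 222)))) (XT.nd (nat_lit 156) (nat_lit 152) (nat_lit 0) (XT.nd (nat_lit 78) (nat_lit 76) (nat_lit 0) (XT.lf (nat_lit 0) (nat_lit 5998141416) (nat_lit 152) (nat_lit 5254541723) (nat_lit 76) (nat_lit 27676932955) (nat_lit 94) (nat_lit 5) (nat_lit 96) (nat_lit 5) (nat_lit 95) (nat_lit 4) (nat_lit 472) (nat_lit 327) (nat_lit 221)) (XT.lf (nat_lit 0) (nat_lit 19498253781)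 (nat_lit 152) (nat_lit 17631001568) (nat_lit 0) (nat_lit 2552719468) (nat_lit 93) (nat_lit 5) (nat_lit 95) (nat_lit 4) (nat_lit 93) (nat_lit 4) (nat_lit 473) (nat_lit 327) (nat_lit 220))) (XT.nd (nat_lit 78) (nat_lit 76) (nat_lit 0) (XT.lf (nat_lit 0) (nat_lit 9843991596) (nat_lit 76) (nat_lit 23786715298) (nat_lit 76) (nat_lit 6819377288) (nat_lit 92) (nat_lit 4) (nat_lit 93) (nat_lit 5) (nat_lit 93) (nat_lit 4) (nat_lit 474) (nat_lit 327) (nat_lit 219)) (XT.lf (nat_lit 0) (nat_lit 6957883659) (nat_lit 152) (nat_lit 2864002819) (nat_lit 76) (nat_lit 31412921513) (nat_lit 91) (nat_lit 5) (nat_lit 93) (nat_lit 5) (nat_lit 92) (nat_lit 4) (nat_lit 475) (nat_lit 327) (nat_lit 218))))) (XT.nd (nat_lit 312) (nat_lit 304) (nat_lit 0) (XT.nd (nat_lit 156) (nat_lit 152) (nat_lit 0) (XT.nd (nat_lit 78) (nat_lit 76) (nat_lit 0) (XT.lf (nat_lit 0) (nat_lit 21277558743) (nat_lit 152) (nat_lit 15991594945) (nat_lit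 0) (nat_lit 4763909496) (nat_lit 90) (nat_lit 5) (nat_lit 92) (nat_lit 4) (nat_lit 90) (nat_lit 4) (nat_lit 476) (nat_lit 327) (nat_lit 217)) (XT.lf (nat_lit 0) (nat_lit 13114408930) (nat_lit 76) (nat_lit 23133621236) (nat_lit 76) (nat_lit 6600599686) (nat_lit 89) (nat_lit 4) (nat_lit 90) (nat_lit 5) (nat_lit 90) (nat_lit 4) (nat_lit 477) (nat_lit 327) (nat_lit 216))) (XT.nd (nat_lit 78) (nat_lit 76) (nat_lit 0) (XT.lf (nat_lit 0) (nat_lit 7955036865) (nat_lit 152) (nat_lit 403104773) (nat_lit 76) (nat_lit 35324267441) (nat_lit 88) (nat_lit 5) (nat_lit 90) (nat_lit 5) (nat_lit 89) (nat_lit 4) (nat_lit 478) (nat_lit 327) (nat_lit 215)) (XT.lf (nat_lit 0) (nat_lit 23144475316) (nat_lit 152) (nat_lit 14327862415) (nat_lit 0) (nat_lit 7057009429) (nat_lit 87) (nat_lit 5) (nat_lit 89) (nat_lit 4) (nat_lit 87) (nat_lit 4) (nat_lit 479) (nat_lit 327) (nat_lit 214)))) (XT.nd (nat_lit 156) (nat_lit 76) (nat_lit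 0) (XT.nd (nat_lit 78) (nat_lit 152) (nat_lit 0) (XT.lf (nat_lit 0) (nat_lit 16509675922) (nat_lit 76) (nat_lit 22495119714) (nat_lit 76) (nat_lit 6390441786) (nat_lit 86) (nat_lit 4) (nat_lit 87) (nat_lit 5) (nat_lit 87) (nat_lit 4) (nat_lit 480) (nat_lit 327) (nat_lit 213)) (XT.lf (nat_lit 0) (nat_lit 2176688146) (nat_lit 76) (nat_lit 6837142785) (nat_lit 152) (nat_lit 37266562061) (nat_lit 84) (nat_lit 5) (nat_lit 85) (nat_lit 5) (nat_lit 86) (nat_lit 4) (nat_lit 481) (nat_lit 327) (nat_lit 212))) (XT.nd (nat_lit 78) (nat_lit 76) (nat_lit 0) (XT.lf (nat_lit 0) (nat_lit 25105334702) (nat_lit 152) (nat_lit 12636514435) (nat_lit 0) (nat_lit 9437749610) (nat_lit 84) (nat_lit 5) (nat_lit 86) (nat_lit 4) (nat_lit 84) (nat_lit 4) (nat_lit 482) (nat_lit 327) (nat_lit 211)) (XT.lf (nat_lit 0) (nat_lit 20039173034) (nat_lit 76) (nat_lit 21871279667) (nat_lit 76) (nat_lit 6188401900) (nat_lit 83) (nat_lit 4)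 (nat_lit 84) (nat_lit 5) (nat_lit 84) (nat_lit 4) (nat_lit 483) (nat_lit 327) (nat_lit 210)))))) (XT.nd (nat_lit 624) (nat_lit 228) (nat_lit 0) (XT.nd (nat_lit 312) (nat_lit 228) (nat_lit 0) (XT.nd (nat_lit 156) (nat_lit 228) (nat_lit 0) (XT.nd (nat_lit 78) (nat_lit 0) (nat_lit 0) (XT.lf (nat_lit 0) (nat_lit 4848996632) (nat_lit 76) (nat_lit 5272541129) (nat_lit 152) (nat_lit 38916835385) (nat_lit 81) (nat_lit 5) (nat_lit 82) (nat_lit 5) (nat_lit 83) (nat_lit 4) (nat_lit 484) (nat_lit 327) (nat_lit 209)) (XT.lf (nat_lit 0) (nat_lit 27166781032) (nat_lit 152) (nat_lit 10914070155) (nat_lit 0) (nat_lit 11912276336) (nat_lit 81) (nat_lit 5) (nat_lit 83) (nat_lit 4) (nat_lit 81) (nat_lit 4) (nat_lit 485) (nat_lit 327) (nat_lit 208))) (XT.nd (nat_lit 78) (nat_lit 152) (nat_lit 0) (XT.lf (nat_lit 0) (nat_lit 23712843450) (nat_lit 76) (nat_lit 21262112938) (nat_lit 76) (nat_lit 5994020899) (nat_lit 80) (nat_lit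 4) (nat_lit 81) (nat_lit 5) (nat_lit 81) (nat_lit 4) (nat_lit 486) (nat_lit 327) (nat_lit 207)) (XT.lf (nat_lit 0) (nat_lit 7612738737) (nat_lit 76) (nat_lit 3665104795) (nat_lit 152) (nat_lit 40688310342) (nat_lit 78) (nat_lit 5) (nat_lit 79) (nat_lit 5) (nat_lit 80) (nat_lit 4) (nat_lit 487) (nat_lit 327) (nat_lit 206)))) (XT.nd (nat_lit 156) (nat_lit 152) (nat_lit 0) (XT.nd (nat_lit 78) (nat_lit 76) (nat_lit 0) (XT.lf (nat_lit 0) (nat_lit 29335797408) (nat_lit 152) (nat_lit 9156850366) (nat_lit 0) (nat_lit 14487165360) (nat_lit 78) (nat_lit 5) (nat_lit 80) (nat_lit 4) (nat_lit 78) (nat_lit 4) (nat_lit 488) (nat_lit 327) (nat_lit 205)) (XT.lf (nat_lit 0) (nat_lit 27541222778) (nat_lit 76) (nat_lit 20667582086) (nat_lit 76) (nat_lit 5806877859) (nat_lit 77) (nat_lit 4) (nat_lit 78) (nat_lit 5) (nat_lit 78) (nat_lit 4) (nat_lit 489) (nat_lit 327) (nat_lit 204))) (XT.nd (nat_lit 78) (nat_lit 0) (nat_lit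 0) (XT.lf (nat_lit 0) (nat_lit 10475262768) (nat_lit 76) (nat_lit 2011282826) (nat_lit 152) (nat_lit 42587468209) (nat_lit 75) (nat_lit 5) (nat_lit 76) (nat_lit 5) (nat_lit 77) (nat_lit 4) (nat_lit 490) (nat_lit 327) (nat_lit 203)) (XT.lf (nat_lit 0) (nat_lit 31619732783) (nat_lit 152) (nat_lit 7360969349) (nat_lit 0) (nat_lit 17169437662) (nat_lit 75) (nat_lit 5) (nat_lit 77) (nat_lit 4) (nat_lit 75) (nat_lit 4) (nat_lit 491) (nat_lit 327) (nat_lit 202))))) (XT.nd (nat_lit 43212) (nat_lit 0) (nat_lit 21356) (XT.nd (nat_lit 156) (nat_lit 0) (nat_lit 0) (XT.nd (nat_lit 78) (nat_lit 152) (nat_lit 0) (XT.lf (nat_lit 0) (nat_lit 31535471222) (nat_lit 76) (nat_lit 20087607276) (nat_lit 76) (nat_lit 5626586180) (nat_lit 74) (nat_lit 4) (nat_lit 75) (nat_lit 5) (nat_lit 75) (nat_lit 4) (nat_lit 492) (nat_lit 327) (nat_lit 201)) (XT.lf (nat_lit 0) (nat_lit 13444345817) (nat_lit 76) (nat_lit 307270183) (nat_lit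 152) (nat_lit 44621244303) (nat_lit 72) (nat_lit 5) (nat_lit 73) (nat_lit 5) (nat_lit 74) (nat_lit 4) (nat_lit 493) (nat_lit 327) (nat_lit 200))) (XT.nd (nat_lit 42978) (nat_lit 0) (nat_lit 24168) (XT.lf (nat_lit 0) (nat_lit 34026329812) (nat_lit 152) (nat_lit 5522325628) (nat_lit 0) (nat_lit 19966577460) (nat_lit 72) (nat_lit 5) (nat_lit 74) (nat_lit 4) (nat_lit 72) (nat_lit 4) (nat_lit 494) (nat_lit 327) (nat_lit 199)) (XT.lf (nat_lit 0) (nat_lit 177019482) (nat_lit 1140) (nat_lit 1674028235) (nat_lit 1140) (nat_lit 1674028235) (nat_lit 390) (nat_lit 4) (nat_lit 405) (nat_lit 5) (nat_lit 405) (nat_lit 4) (nat_lit 364) (nat_lit 328) (nat_lit 328)))) (XT.nd (nat_lit 156) (nat_lit 1520) (nat_lit 0) (XT.nd (nat_lit 78) (nat_lit 1216) (nat_lit 0) (XT.lf (nat_lit 0) (nat_lit 173565195) (nat_lit 1216) (nat_lit 1431177096) (nat_lit 76) (nat_lit 5497760089) (nat_lit 389) (nat_lit 5) (nat_lit 405) (nat_lit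 5) (nat_lit 390) (nat_lit 4) (nat_lit 365) (nat_lit 328) (nat_lit 327)) (XT.lf (nat_lit 0) (nat_lit 3670363487) (nat_lit 1292) (nat_lit 3229298142) (nat_lit 0) (nat_lit 257662649) (nat_lit 373) (nat_lit 5) (nat_lit 390) (nat_lit 4) (nat_lit 373) (nat_lit 4) (nat_lit 366) (nat_lit 328) (nat_lit 326))) (XT.nd (nat_lit 78) (nat_lit 608) (nat_lit 0) (XT.lf (nat_lit 0) (nat_lit 6628366) (nat_lit 912) (nat_lit 5031413619) (nat_lit 76) (nat_lit 2177247324) (nat_lit 361) (nat_lit 5) (nat_lit 373) (nat_lit 5) (nat_lit 362) (nat_lit 4) (nat_lit 367) (nat_lit 328) (nat_lit 325)) (XT.lf (nat_lit 0) (nat_lit 417340013) (nat_lit 608) (nat_lit 3054009099) (nat_lit 684) (nat_lit 3804516196) (nat_lit 353) (nat_lit 5) (nat_lit 361) (nat_lit 5) (nat_lit 362) (nat_lit 4) (nat_lit 368) (nat_lit 328) (nat_lit 324))))))))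
noncomputable def xc71 : XT := (XT.nd (nat_lit 2418) (nat_lit 5016) (nat_lit 0) (XT.nd (nat_lit 1170) (nat_lit 4636) (nat_lit 0) (XT.nd (nat_lit 546) (nat_lit 3040) (nat_lit 0) (XT.nd (nat_lit 234) (nat_lit 1824) (nat_lit 0) (XT.nd (nat_lit 78) (nat_lit 1216) (nat_lit 0) (XT.lf (nat_lit 0) (nat_lit 6026166301) (nat_lit 608) (nat_lit 966020995) (nat_lit 684) (nat_lit 347506018) (nat_lit 353) (nat_lit 5) (nat_lit 361) (nat_lit 5) (nat_lit 362) (nat_lit 4) (nat_lit 369) (nat_lit 328) (nat_lit 323)) (XT.nd (nat_lit 78) (nat_lit 532) (nat_lit 0) (XT.lf (nat_lit 0) (nat_lit 3107609919) (nat_lit 684) (nat_lit 3071784076) (nat_lit 76) (nat_lit 1226402638) (nat_lit 344) (nat_lit 5) (nat_lit 353) (nat_lit 5) (nat_lit 345) (nat_lit 4) (nat_lit 370) (nat_lit 328) (nat_lit 322)) (XT.lf (nat_lit 0) (nat_lit 2635639261) (nat_lit 532) (nat_lit 3977067262) (nat_lit 608) (nat_lit 862473957) (nat_lit 337) (nat_lit 5)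 (nat_lit 344) (nat_lit 5) (nat_lit 345) (nat_lit 4) (nat_lit 371) (nat_lit 328) (nat_lit 321)))) (XT.nd (nat_lit 156) (nat_lit 1140) (nat_lit 0) (XT.nd (nat_lit 78) (nat_lit 0) (nat_lit 0) (XT.lf (nat_lit 0) (nat_lit 915470851) (nat_lit 608) (nat_lit 1654581670) (nat_lit 684) (nat_lit 4977442528) (nat_lit 328) (nat_lit 5) (nat_lit 336) (nat_lit 5) (nat_lit 337) (nat_lit 5) (nat_lit 372) (nat_lit 328) (nat_lit 320)) (XT.lf (nat_lit 0) (nat_lit 6052081425) (nat_lit 684) (nat_lit 803762606) (nat_lit 76) (nat_lit 766962998) (nat_lit 328) (nat_lit 5) (nat_lit 337) (nat_lit 5) (nat_lit 329) (nat_lit 4) (nat_lit 373) (nat_lit 328) (nat_lit 319))) (XT.nd (nat_lit 78) (nat_lit 532) (nat_lit 0) (XT.lf (nat_lit 0) (nat_lit 1876404357) (nat_lit 608) (nat_lit 2541772694) (nat_lit 76) (nat_lit 3282361407) (nat_lit 320) (nat_lit 5) (nat_lit 328) (nat_lit 5) (nat_lit 321) (nat_lit 5) (nat_lit 374) (nat_lit 328) (nat_lit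 318)) (XT.lf (nat_lit 0) (nat_lit 3481574749) (nat_lit 532) (nat_lit 1866313834) (nat_lit 608) (nat_lit 2433671381) (nat_lit 313) (nat_lit 5) (nat_lit 320) (nat_lit 5) (nat_lit 321) (nat_lit 5) (nat_lit 375) (nat_lit 328) (nat_lit 317))))) (XT.nd (nat_lit 312) (nat_lit 1444) (nat_lit 0) (XT.nd (nat_lit 156) (nat_lit 532) (nat_lit 0) (XT.nd (nat_lit 78) (nat_lit 532) (nat_lit 0) (XT.lf (nat_lit 0) (nat_lit 1000205827) (nat_lit 532) (nat_lit 6083474971) (nat_lit 76) (nat_lit 782155392) (nat_lit 306) (nat_lit 5) (nat_lit 313) (nat_lit 5) (nat_lit 307) (nat_lit 5) (nat_lit 376) (nat_lit 328) (nat_lit 316)) (XT.lf (nat_lit 0) (nat_lit 32525531) (nat_lit 532) (nat_lit 4431219751) (nat_lit 608) (nat_lit 3488905738) (nat_lit 299) (nat_lit 5) (nat_lit 306) (nat_lit 5) (nat_lit 307) (nat_lit 5) (nat_lit 377) (nat_lit 328) (nat_lit 315))) (XT.nd (nat_lit 78) (nat_lit 532) (nat_lit 0) (XT.lf (nat_lit 0) (nat_lit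 6348690236) (nat_lit 532) (nat_lit 1658347829) (nat_lit 608) (nat_lit 35756816) (nat_lit 299) (nat_lit 5) (nat_lit 306) (nat_lit 5) (nat_lit 307) (nat_lit 5) (nat_lit 378) (nat_lit 328) (nat_lit 314)) (XT.lf (nat_lit 0) (nat_lit 3425325922) (nat_lit 532) (nat_lit 3478450320) (nat_lit 76) (nat_lit 1231660045) (nat_lit 292) (nat_lit 5) (nat_lit 299) (nat_lit 5) (nat_lit 293) (nat_lit 5) (nat_lit 379) (nat_lit 328) (nat_lit 313)))) (XT.nd (nat_lit 156) (nat_lit 532) (nat_lit 0) (XT.nd (nat_lit 78) (nat_lit 456) (nat_lit 0) (XT.lf (nat_lit 0) (nat_lit 2935580512) (nat_lit 456) (nat_lit 4033151092) (nat_lit 532) (nat_lit 1262738437) (nat_lit 286) (nat_lit 5) (nat_lit 292) (nat_lit 5) (nat_lit 293) (nat_lit 5) (nat_lit 380) (nat_lit 328) (nat_lit 312)) (XT.lf (nat_lit 0) (nat_lit 1176285973) (nat_lit 380) (nat_lit 1031773801) (nat_lit 456) (nat_lit 6122725609) (nat_lit 280) (nat_lit 5) (nat_lit 285) (nat_lit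 5) (nat_lit 286) (nat_lit 5) (nat_lit 381) (nat_lit 328) (nat_lit 311))) (XT.nd (nat_lit 78) (nat_lit 532) (nat_lit 0) (XT.lf (nat_lit 0) (nat_lit 5750387266) (nat_lit 456) (nat_lit 622556807) (nat_lit 76) (nat_lit 2059977486) (nat_lit 280) (nat_lit 5) (nat_lit 286) (nat_lit 5) (nat_lit 281) (nat_lit 5) (nat_lit 382) (nat_lit 328) (nat_lit 310)) (XT.lf (nat_lit 0) (nat_lit 834236761) (nat_lit 532) (nat_lit 2438523967) (nat_lit 76) (nat_lit 5265407663) (nat_lit 273) (nat_lit 5) (nat_lit 280) (nat_lit 5) (nat_lit 274) (nat_lit 5) (nat_lit 383) (nat_lit 328) (nat_lit 309)))))) (XT.nd (nat_lit 624) (nat_lit 1900) (nat_lit 0) (XT.nd (nat_lit 312) (nat_lit 1520) (nat_lit 0) (XT.nd (nat_lit 156) (nat_lit 456) (nat_lit 0) (XT.nd (nat_lit 78) (nat_lit 380) (nat_lit 0) (XT.lf (nat_lit 0) (nat_lit 4341216296) (nat_lit 380) (nat_lit 31310072) (nat_lit 456) (nat_lit 4274151517) (nat_lit 268) (nat_lit 5) (nat_lit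 273) (nat_lit 5) (nat_lit 274) (nat_lit 5) (nat_lit 384) (nat_lit 328) (nat_lit 308)) (XT.lf (nat_lit 0) (nat_lit 2526143185) (nat_lit 380) (nat_lit 5494600252) (nat_lit 456) (nat_lit 737585863) (nat_lit 263) (nat_lit 5) (nat_lit 268) (nat_lit 5) (nat_lit 269) (nat_lit 5) (nat_lit 385) (nat_lit 328) (nat_lit 307))) (XT.nd (nat_lit 78) (nat_lit 0) (nat_lit 0) (XT.lf (nat_lit 0) (nat_lit 654823230) (nat_lit 380) (nat_lit 2167382022) (nat_lit 456) (nat_lit 6051072734) (nat_lit 257) (nat_lit 5) (nat_lit 262) (nat_lit 5) (nat_lit 263) (nat_lit 5) (nat_lit 386) (nat_lit 328) (nat_lit 306)) (XT.lf (nat_lit 0) (nat_lit 6473834527) (nat_lit 456) (nat_lit 1242741244) (nat_lit 76) (nat_lit 1274884202) (nat_lit 257) (nat_lit 5) (nat_lit 263) (nat_lit 5) (nat_lit 258) (nat_lit 5) (nat_lit 387) (nat_lit 328) (nat_lit 305)))) (XT.nd (nat_lit 156) (nat_lit 760) (nat_lit 0) (XT.nd (nat_lit 78) (nat_lit 304) (nat_lit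 0) (XT.lf (nat_lit 0) (nat_lit 1104862537) (nat_lit 456) (nat_lit 3193299757) (nat_lit 76) (nat_lit 4814553771) (nat_lit 251) (nat_lit 5) (nat_lit 257) (nat_lit 5) (nat_lit 252) (nat_lit 5) (nat_lit 388) (nat_lit 328) (nat_lit 304)) (XT.lf (nat_lit 0) (nat_lit 4031951200) (nat_lit 304) (nat_lit 731733173) (nat_lit 380) (nat_lit 4473829829) (nat_lit 247) (nat_lit 5) (nat_lit 251) (nat_lit 5) (nat_lit 252) (nat_lit 5) (nat_lit 389) (nat_lit 328) (nat_lit 303))) (XT.nd (nat_lit 78) (nat_lit 380) (nat_lit 0) (XT.lf (nat_lit 0) (nat_lit 2079150679) (nat_lit 380) (nat_lit 6461577914) (nat_lit 456) (nat_lit 825073957) (nat_lit 242) (nat_lit 5) (nat_lit 247) (nat_lit 5) (nat_lit 248) (nat_lit 5) (nat_lit 390) (nat_lit 328) (nat_lit 302)) (XT.lf (nat_lit 0) (nat_lit 50234943) (nat_lit 304) (nat_lit 2814498831) (nat_lit 380) (nat_lit 6632695157) (nat_lit 237) (nat_lit 5) (nat_lit 241) (nat_lit 5) (nat_lit 242)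 (nat_lit 5) (nat_lit 391) (nat_lit 328) (nat_lit 301))))) (XT.nd (nat_lit 312) (nat_lit 912) (nat_lit 0) (XT.nd (nat_lit 156) (nat_lit 608) (nat_lit 0) (XT.nd (nat_lit 78) (nat_lit 380) (nat_lit 0) (XT.lf (nat_lit 0) (nat_lit 6660759485) (nat_lit 380) (nat_lit 2000419911) (nat_lit 76) (nat_lit 971216428) (nat_lit 237) (nat_lit 5) (nat_lit 242) (nat_lit 5) (nat_lit 238) (nat_lit 5) (nat_lit 392) (nat_lit 328) (nat_lit 300)) (XT.lf (nat_lit 0) (nat_lit 796752687) (nat_lit 380) (nat_lit 4131865059) (nat_lit 76) (nat_lit 4842170648) (nat_lit 232) (nat_lit 5) (nat_lit 237) (nat_lit 5) (nat_lit 233) (nat_lit 5) (nat_lit 393) (nat_lit 328) (nat_lit 299))) (XT.nd (nat_lit 78) (nat_lit 304) (nat_lit 0) (XT.lf (nat_lit 0) (nat_lit 3570320102) (nat_lit 304) (nat_lit 1034024270) (nat_lit 380) (nat_lit 5308529367) (nat_lit 228) (nat_lit 5) (nat_lit 232) (nat_lit 5) (nat_lit 233) (nat_lit 5) (nat_lit 394) (nat_lit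 328) (nat_lit 298)) (XT.lf (nat_lit 0) (nat_lit 1422928669) (nat_lit 304) (nat_lit 7119477954) (nat_lit 380) (nat_lit 1516327735) (nat_lit 224) (nat_lit 5) (nat_lit 228) (nat_lit 5) (nat_lit 229) (nat_lit 5) (nat_lit 395) (nat_lit 328) (nat_lit 297)))) (XT.nd (nat_lit 156) (nat_lit 608) (nat_lit 0) (XT.nd (nat_lit 78) (nat_lit 228) (nat_lit 0) (XT.lf (nat_lit 0) (nat_lit 2350046819) (nat_lit 380) (nat_lit 795915324) (nat_lit 76) (nat_lit 7062108414) (nat_lit 223) (nat_lit 5) (nat_lit 228) (nat_lit 5) (nat_lit 224) (nat_lit 5) (nat_lit 396) (nat_lit 328) (nat_lit 296)) (XT.lf (nat_lit 0) (nat_lit 6315820372) (nat_lit 304) (nat_lit 3067534371) (nat_lit 76) (nat_lit 977665169) (nat_lit 220) (nat_lit 5) (nat_lit 224) (nat_lit 5) (nat_lit 221) (nat_lit 5) (nat_lit 397) (nat_lit 328) (nat_lit 295))) (XT.nd (nat_lit 78) (nat_lit 304) (nat_lit 0) (XT.lf (nat_lit 0) (nat_lit 5087726766) (nat_lit 304) (nat_lit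 5335684047) (nat_lit 380) (nat_lit 94461625) (nat_lit 216) (nat_lit 5) (nat_lit 220) (nat_lit 5) (nat_lit 221) (nat_lit 5) (nat_lit 398) (nat_lit 328) (nat_lit 294)) (XT.lf (nat_lit 0) (nat_lit 2783661532) (nat_lit 228) (nat_lit 1106563831) (nat_lit 304) (nat_lit 6788269244) (nat_lit 212) (nat_lit 5) (nat_lit 215) (nat_lit 5) (nat_lit 216) (nat_lit 5) (nat_lit 399) (nat_lit 328) (nat_lit 293))))))) (XT.nd (nat_lit 1170) (nat_lit 2204) (nat_lit 0) (XT.nd (nat_lit 546) (nat_lit 1444) (nat_lit 0) (XT.nd (nat_lit 234) (nat_lit 760) (nat_lit 0) (XT.nd (nat_lit 78) (nat_lit 304) (nat_lit 0) (XT.lf (nat_lit 0) (nat_lit 382967509) (nat_lit 304) (nat_lit 7635357263) (nat_lit 380) (nat_lit 2824809498) (nat_lit 208) (nat_lit 5) (nat_lit 212) (nat_lit 5) (nat_lit 213) (nat_lit 5) (nat_lit 400) (nat_lit 328) (nat_lit 292)) (XT.nd (nat_lit 78) (nat_lit 228) (nat_lit 0) (XT.lf (nat_lit 0) (nat_lit 1260211876) (nat_lit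 380) (nat_lit 2068166529) (nat_lit 76) (nat_lit 7683156151) (nat_lit 207) (nat_lit 5) (nat_lit 212) (nat_lit 5) (nat_lit 208) (nat_lit 5) (nat_lit 401) (nat_lit 328) (nat_lit 291)) (XT.lf (nat_lit 0) (nat_lit 5422974827) (nat_lit 304) (nat_lit 4621280785) (nat_lit 76) (nat_lit 1139533182) (nat_lit 204) (nat_lit 5) (nat_lit 208) (nat_lit 5) (nat_lit 205) (nat_lit 5) (nat_lit 402) (nat_lit 328) (nat_lit 290)))) (XT.nd (nat_lit 156) (nat_lit 228) (nat_lit 0) (XT.nd (nat_lit 78) (nat_lit 304) (nat_lit 0) (XT.lf (nat_lit 0) (nat_lit 4077966502) (nat_lit 228) (nat_lit 5663970366) (nat_lit 304) (nat_lit 1618334304) (nat_lit 201) (nat_lit 5) (nat_lit 204) (nat_lit 5) (nat_lit 205) (nat_lit 5) (nat_lit 403) (nat_lit 328) (nat_lit 289)) (XT.lf (nat_lit 0) (nat_lit 1492899636) (nat_lit 228) (nat_lit 1103613822) (nat_lit 304) (nat_lit 8944777599) (nat_lit 197) (nat_lit 5) (nat_lit 200) (nat_lit 5) (nat_lit 201)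 (nat_lit 5) (nat_lit 404) (nat_lit 328) (nat_lit 288))) (XT.nd (nat_lit 78) (nat_lit 228) (nat_lit 0) (XT.lf (nat_lit 0) (nat_lit 6952813157) (nat_lit 304) (nat_lit 1199206273) (nat_lit 76) (nat_lit 3573815413) (nat_lit 197) (nat_lit 5) (nat_lit 201) (nat_lit 5) (nat_lit 198) (nat_lit 5) (nat_lit 405) (nat_lit 328) (nat_lit 287)) (XT.lf (nat_lit 0) (nat_lit 7959836733) (nat_lit 228) (nat_lit 3507916412) (nat_lit 304) (nat_lit 447323259) (nat_lit 194) (nat_lit 5) (nat_lit 197) (nat_lit 5) (nat_lit 198) (nat_lit 5) (nat_lit 406) (nat_lit 328) (nat_lit 286))))) (XT.nd (nat_lit 312) (nat_lit 684) (nat_lit 0) (XT.nd (nat_lit 156) (nat_lit 228) (nat_lit 0) (XT.nd (nat_lit 78) (nat_lit 228) (nat_lit 0) (XT.lf (nat_lit 0) (nat_lit 3946427017) (nat_lit 304) (nat_lit 6848977088) (nat_lit 76) (nat_lit 1312940415) (nat_lit 190) (nat_lit 5) (nat_lit 194) (nat_lit 5) (nat_lit 191) (nat_lit 5) (nat_lit 407) (nat_lit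 328) (nat_lit 285)) (XT.lf (nat_lit 0) (nat_lit 2432594224) (nat_lit 228) (nat_lit 6069946589) (nat_lit 304) (nat_lit 3803550746) (nat_lit 187) (nat_lit 5) (nat_lit 190) (nat_lit 5) (nat_lit 191) (nat_lit 5) (nat_lit 408) (nat_lit 328) (nat_lit 284))) (XT.nd (nat_lit 78) (nat_lit 152) (nat_lit 0) (XT.lf (nat_lit 0) (nat_lit 683308391) (nat_lit 304) (nat_lit 482740591) (nat_lit 76) (nat_lit 11343190747) (nat_lit 186) (nat_lit 5) (nat_lit 190) (nat_lit 5) (nat_lit 187) (nat_lit 5) (nat_lit 409) (nat_lit 328) (nat_lit 283)) (XT.lf (nat_lit 0) (nat_lit 5298280403) (nat_lit 228) (nat_lit 3520171248) (nat_lit 76) (nat_lit 3896802284) (nat_lit 184) (nat_lit 5) (nat_lit 187) (nat_lit 5) (nat_lit 185) (nat_lit 5) (nat_lit 410) (nat_lit 328) (nat_lit 282)))) (XT.nd (nat_lit 156) (nat_lit 228) (nat_lit 0) (XT.nd (nat_lit 78) (nat_lit 228) (nat_lit 0) (XT.lf (nat_lit 0) (nat_lit 6258176991) (nat_lit 228) (nat_lit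 3813472886) (nat_lit 304) (nat_lit 2855200241) (nat_lit 181) (nat_lit 5) (nat_lit 184) (nat_lit 5) (nat_lit 185) (nat_lit 5) (nat_lit 411) (nat_lit 328) (nat_lit 281)) (XT.lf (nat_lit 0) (nat_lit 1830971573) (nat_lit 228) (nat_lit 9952867414) (nat_lit 76) (nat_lit 1359718080) (nat_lit 178) (nat_lit 5) (nat_lit 181) (nat_lit 5) (nat_lit 179) (nat_lit 5) (nat_lit 412) (nat_lit 328) (nat_lit 280))) (XT.nd (nat_lit 78) (nat_lit 228) (nat_lit 0) (XT.lf (nat_lit 0) (nat_lit 6649901600) (nat_lit 228) (nat_lit 47559458) (nat_lit 76) (nat_lit 6666969293) (nat_lit 178) (nat_lit 5) (nat_lit 181) (nat_lit 5) (nat_lit 179) (nat_lit 5) (nat_lit 413) (nat_lit 328) (nat_lit 279)) (XT.lf (nat_lit 0) (nat_lit 10259321700) (nat_lit 228) (nat_lit 1398129072) (nat_lit 304) (nat_lit 1933157525) (nat_lit 175) (nat_lit 5) (nat_lit 178) (nat_lit 5) (nat_lit 179) (nat_lit 5) (nat_lit 414) (nat_lit 328) (nat_lit 278)))))) (XT.nd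 (nat_lit 624) (nat_lit 1064) (nat_lit 0) (XT.nd (nat_lit 312) (nat_lit 532) (nat_lit 0) (XT.nd (nat_lit 156) (nat_lit 228) (nat_lit 0) (XT.nd (nat_lit 78) (nat_lit 152) (nat_lit 0) (XT.lf (nat_lit 0) (nat_lit 2986853317) (nat_lit 228) (nat_lit 6795859610) (nat_lit 76) (nat_lit 4038388632) (nat_lit 172) (nat_lit 5) (nat_lit 175) (nat_lit 5) (nat_lit 173) (nat_lit 5) (nat_lit 415) (nat_lit 328) (nat_lit 277)) (XT.lf (nat_lit 0) (nat_lit 3644860113) (nat_lit 152) (nat_lit 4399454011) (nat_lit 228) (nat_lit 6012760165) (nat_lit 170) (nat_lit 5) (nat_lit 172) (nat_lit 5) (nat_lit 173) (nat_lit 5) (nat_lit 416) (nat_lit 328) (nat_lit 276))) (XT.nd (nat_lit 78) (nat_lit 76) (nat_lit 0) (XT.lf (nat_lit 0) (nat_lit 134516476) (nat_lit 152) (nat_lit 13146701060) (nat_lit 228) (nat_lit 1018077100) (nat_lit 168) (nat_lit 5) (nat_lit 170) (nat_lit 5) (nat_lit 171) (nat_lit 4) (nat_lit 417) (nat_lit 328) (nat_lit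 275)) (XT.lf (nat_lit 0) (nat_lit 4141903901) (nat_lit 228) (nat_lit 3515390322) (nat_lit 76) (nat_lit 6887418017) (nat_lit 167) (nat_lit 5) (nat_lit 170) (nat_lit 5) (nat_lit 168) (nat_lit 5) (nat_lit 418) (nat_lit 328) (nat_lit 274)))) (XT.nd (nat_lit 156) (nat_lit 228) (nat_lit 0) (XT.nd (nat_lit 78) (nat_lit 152) (nat_lit 0) (XT.lf (nat_lit 0) (nat_lit 7495897996) (nat_lit 152) (nat_lit 1960181444) (nat_lit 228) (nat_lit 5340514807) (nat_lit 165) (nat_lit 5) (nat_lit 167) (nat_lit 5) (nat_lit 168) (nat_lit 5) (nat_lit 419) (nat_lit 328) (nat_lit 273)) (XT.lf (nat_lit 0) (nat_lit 3796788145) (nat_lit 152) (nat_lit 11190836966) (nat_lit 228) (nat_lit 66669257) (nat_lit 163) (nat_lit 5) (nat_lit 165) (nat_lit 5) (nat_lit 166) (nat_lit 4) (nat_lit 420) (nat_lit 328) (nat_lit 272))) (XT.nd (nat_lit 78) (nat_lit 152) (nat_lit 0) (XT.lf (nat_lit 0) (nat_lit 5302697559) (nat_lit 228) (nat_lit 106487211)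 (nat_lit 76) (nat_lit 9907733340) (nat_lit 162) (nat_lit 5) (nat_lit 165) (nat_lit 5) (nat_lit 163) (nat_lit 5) (nat_lit 421) (nat_lit 328) (nat_lit 271)) (XT.lf (nat_lit 0) (nat_lit 10898072016) (nat_lit 228) (nat_lit 4079883899) (nat_lit 76) (nat_lit 607456848) (nat_lit 160) (nat_lit 5) (nat_lit 163) (nat_lit 5) (nat_lit 161) (nat_lit 4) (nat_lit 422) (nat_lit 328) (nat_lit 270))))) (XT.nd (nat_lit 312) (nat_lit 456) (nat_lit 0) (XT.nd (nat_lit 156) (nat_lit 228) (nat_lit 0) (XT.nd (nat_lit 78) (nat_lit 152) (nat_lit 0) (XT.lf (nat_lit 0) (nat_lit 862164742) (nat_lit 228) (nat_lit 8258583686) (nat_lit 76) (nat_lit 6738630793) (nat_lit 157) (nat_lit 5) (nat_lit 160) (nat_lit 5) (nat_lit 158) (nat_lit 5) (nat_lit 423) (nat_lit 328) (nat_lit 269)) (XT.lf (nat_lit 0) (nat_lit 3505103663) (nat_lit 152) (nat_lit 3004098058) (nat_lit 228) (nat_lit 9630212954) (nat_lit 155) (nat_lit 5) (nat_lit 157) (nat_lit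 5) (nat_lit 158) (nat_lit 5) (nat_lit 424) (nat_lit 328) (nat_lit 268))) (XT.nd (nat_lit 78) (nat_lit 228) (nat_lit 0) (XT.lf (nat_lit 0) (nat_lit 12391699720) (nat_lit 228) (nat_lit 758728517) (nat_lit 76) (nat_lit 3275441457) (nat_lit 155) (nat_lit 5) (nat_lit 158) (nat_lit 5) (nat_lit 156) (nat_lit 4) (nat_lit 425) (nat_lit 328) (nat_lit 267)) (XT.lf (nat_lit 0) (nat_lit 1789574200) (nat_lit 228) (nat_lit 5155523655) (nat_lit 76) (nat_lit 9772514478) (nat_lit 152) (nat_lit 5) (nat_lit 155) (nat_lit 5) (nat_lit 153) (nat_lit 5) (nat_lit 426) (nat_lit 328) (nat_lit 266)))) (XT.nd (nat_lit 156) (nat_lit 228) (nat_lit 0) (XT.nd (nat_lit 78) (nat_lit 76) (nat_lit 0) (XT.lf (nat_lit 0) (nat_lit 7262632316) (nat_lit 152) (nat_lit 473550263) (nat_lit 228) (nat_lit 9279849361) (nat_lit 150) (nat_lit 5) (nat_lit 152) (nat_lit 5) (nat_lit 153) (nat_lit 5) (nat_lit 427) (nat_lit 328) (nat_lit 265)) (XT.lf (nat_lit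 0) (nat_lit 2741183408) (nat_lit 76) (nat_lit 11210305662) (nat_lit 152) (nat_lit 3369206070) (nat_lit 149) (nat_lit 5) (nat_lit 150) (nat_lit 5) (nat_lit 151) (nat_lit 4) (nat_lit 428) (nat_lit 328) (nat_lit 264))) (XT.nd (nat_lit 78) (nat_lit 152) (nat_lit 0) (XT.lf (nat_lit 0) (nat_lit 2721788667) (nat_lit 152) (nat_lit 1942325024) (nat_lit 76) (nat_lit 12967917969) (nat_lit 148) (nat_lit 5) (nat_lit 150) (nat_lit 5) (nat_lit 149) (nat_lit 5) (nat_lit 429) (nat_lit 328) (nat_lit 263)) (XT.lf (nat_lit 0) (nat_lit 9009501908) (nat_lit 228) (nat_lit 6799168050) (nat_lit 76) (nat_lit 2140586371) (nat_lit 146) (nat_lit 5) (nat_lit 149) (nat_lit 5) (nat_lit 147) (nat_lit 4) (nat_lit 430) (nat_lit 328) (nat_lit 262))))))))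
noncomputable def xc72 : XT := (XT.nd (nat_lit 2340) (nat_lit 2508) (nat_lit 0) (XT.nd (nat_lit 1170) (nat_lit 1292) (nat_lit 0) (XT.nd (nat_lit 546) (nat_lit 912) (nat_lit 0) (XT.nd (nat_lit 234) (nat_lit 380) (nat_lit 0) (XT.nd (nat_lit 78) (nat_lit 228) (nat_lit 0) (XT.lf (nat_lit 0) (nat_lit 6390954209) (nat_lit 76) (nat_lit 9175792495) (nat_lit 152) (nat_lit 2706824031) (nat_lit 145) (nat_lit 5) (nat_lit 146) (nat_lit 5) (nat_lit 147) (nat_lit 4) (nat_lit 431) (nat_lit 328) (nat_lit 261)) (XT.nd (nat_lit 78) (nat_lit 0) (nat_lit 0) (XT.lf (nat_lit 0) (nat_lit 1414701103) (nat_lit 152) (nat_lit 2262424415) (nat_lit 228) (nat_lit 14928323664) (nat_lit 142) (nat_lit 5) (nat_lit 144) (nat_lit 5) (nat_lit 145) (nat_lit 5) (nat_lit 432) (nat_lit 328) (nat_lit 260)) (XT.lf (nat_lit 0) (nat_lit 10319755315) (nat_lit 228) (nat_lit 3751123368) (nat_lit 76) (nat_lit 4871954307) (nat_lit 142) (nat_lit 5) (nat_lit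 145) (nat_lit 5) (nat_lit 143) (nat_lit 4) (nat_lit 433) (nat_lit 328) (nat_lit 259)))) (XT.nd (nat_lit 156) (nat_lit 76) (nat_lit 0) (XT.nd (nat_lit 78) (nat_lit 228) (nat_lit 0) (XT.lf (nat_lit 0) (nat_lit 10183274321) (nat_lit 76) (nat_lit 7053712449) (nat_lit 152) (nat_lit 2051091858) (nat_lit 141) (nat_lit 5) (nat_lit 142) (nat_lit 5) (nat_lit 143) (nat_lit 4) (nat_lit 434) (nat_lit 328) (nat_lit 258)) (XT.lf (nat_lit 0) (nat_lit 4669371821) (nat_lit 228) (nat_lit 14707832997) (nat_lit 76) (nat_lit 263814698) (nat_lit 138) (nat_lit 5) (nat_lit 141) (nat_lit 5) (nat_lit 139) (nat_lit 4) (nat_lit 435) (nat_lit 328) (nat_lit 257))) (XT.nd (nat_lit 78) (nat_lit 76) (nat_lit 0) (XT.lf (nat_lit 0) (nat_lit 11668132358) (nat_lit 228) (nat_lit 598802029) (nat_lit 76) (nat_lit 7733467773) (nat_lit 138) (nat_lit 5) (nat_lit 141) (nat_lit 5) (nat_lit 139) (nat_lit 4) (nat_lit 436) (nat_lit 328) (nat_lit 256))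 (XT.lf (nat_lit 0) (nat_lit 14126724929) (nat_lit 76) (nat_lit 4842447980) (nat_lit 152) (nat_lit 1398623857) (nat_lit 137) (nat_lit 5) (nat_lit 138) (nat_lit 5) (nat_lit 139) (nat_lit 4) (nat_lit 437) (nat_lit 328) (nat_lit 255))))) (XT.nd (nat_lit 312) (nat_lit 380) (nat_lit 0) (XT.nd (nat_lit 156) (nat_lit 228) (nat_lit 0) (XT.nd (nat_lit 78) (nat_lit 76) (nat_lit 0) (XT.lf (nat_lit 0) (nat_lit 5704233019) (nat_lit 228) (nat_lit 12181084056) (nat_lit 76) (nat_lit 2857041907) (nat_lit 134) (nat_lit 5) (nat_lit 137) (nat_lit 5) (nat_lit 135) (nat_lit 4) (nat_lit 438) (nat_lit 328) (nat_lit 254)) (XT.lf (nat_lit 0) (nat_lit 2717368173) (nat_lit 76) (nat_lit 10369094587) (nat_lit 152) (nat_lit 8038447927) (nat_lit 133) (nat_lit 5) (nat_lit 134) (nat_lit 5) (nat_lit 135) (nat_lit 4) (nat_lit 439) (nat_lit 328) (nat_lit 253))) (XT.nd (nat_lit 78) (nat_lit 228) (nat_lit 0) (XT.lf (nat_lit 0) (nat_lit 18230682817)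 (nat_lit 76) (nat_lit 2539642505) (nat_lit 152) (nat_lit 746208646) (nat_lit 133) (nat_lit 5) (nat_lit 134) (nat_lit 5) (nat_lit 135) (nat_lit 4) (nat_lit 440) (nat_lit 328) (nat_lit 252)) (XT.lf (nat_lit 0) (nat_lit 6764411798) (nat_lit 228) (nat_lit 9584292942) (nat_lit 76) (nat_lit 5565301798) (nat_lit 130) (nat_lit 5) (nat_lit 133) (nat_lit 5) (nat_lit 131) (nat_lit 4) (nat_lit 441) (nat_lit 328) (nat_lit 251)))) (XT.nd (nat_lit 156) (nat_lit 304) (nat_lit 0) (XT.nd (nat_lit 78) (nat_lit 0) (nat_lit 0) (XT.lf (nat_lit 0) (nat_lit 6165809359) (nat_lit 76) (nat_lit 8395559063) (nat_lit 152) (nat_lit 7759532748) (nat_lit 129) (nat_lit 5) (nat_lit 130) (nat_lit 5) (nat_lit 131) (nat_lit 4) (nat_lit 442) (nat_lit 328) (nat_lit 250)) (XT.lf (nat_lit 0) (nat_lit 22505330750) (nat_lit 76) (nat_lit 142233415) (nat_lit 152) (nat_lit 90778563) (nat_lit 129) (nat_lit 5) (nat_lit 130) (nat_lit 5) (nat_lit 131)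 (nat_lit 4) (nat_lit 443) (nat_lit 328) (nat_lit 249))) (XT.nd (nat_lit 78) (nat_lit 76) (nat_lit 0) (XT.lf (nat_lit 0) (nat_lit 7854315288) (nat_lit 228) (nat_lit 6912519308) (nat_lit 76) (nat_lit 8393262067) (nat_lit 126) (nat_lit 5) (nat_lit 129) (nat_lit 5) (nat_lit 127) (nat_lit 4) (nat_lit 444) (nat_lit 328) (nat_lit 248)) (XT.lf (nat_lit 0) (nat_lit 9742581849) (nat_lit 76) (nat_lit 6350232974) (nat_lit 152) (nat_lit 7499955108) (nat_lit 125) (nat_lit 5) (nat_lit 126) (nat_lit 5) (nat_lit 127) (nat_lit 4) (nat_lit 445) (nat_lit 328) (nat_lit 247)))))) (XT.nd (nat_lit 546) (nat_lit 532) (nat_lit 0) (XT.nd (nat_lit 234) (nat_lit 456) (nat_lit 0) (XT.nd (nat_lit 78) (nat_lit 76) (nat_lit 0) (XT.lf (nat_lit 0) (nat_lit 611058768) (nat_lit 228) (nat_lit 21082729235) (nat_lit 76) (nat_lit 2342033124) (nat_lit 122) (nat_lit 5) (nat_lit 125) (nat_lit 5) (nat_lit 123) (nat_lit 4) (nat_lit 446) (nat_lit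 328) (nat_lit 246)) (XT.nd (nat_lit 78) (nat_lit 76) (nat_lit 0) (XT.lf (nat_lit 0) (nat_lit 8978338509) (nat_lit 228) (nat_lit 4160344547) (nat_lit 76) (nat_lit 11346342782) (nat_lit 122) (nat_lit 5) (nat_lit 125) (nat_lit 5) (nat_lit 123) (nat_lit 4) (nat_lit 447) (nat_lit 328) (nat_lit 245)) (XT.lf (nat_lit 0) (nat_lit 13456325387) (nat_lit 76) (nat_lit 4230398609) (nat_lit 152) (nat_lit 7258280070) (nat_lit 121) (nat_lit 5) (nat_lit 122) (nat_lit 5) (nat_lit 123) (nat_lit 4) (nat_lit 448) (nat_lit 328) (nat_lit 244)))) (XT.nd (nat_lit 156) (nat_lit 228) (nat_lit 0) (XT.nd (nat_lit 78) (nat_lit 0) (nat_lit 0) (XT.lf (nat_lit 0) (nat_lit 1325547324) (nat_lit 228) (nat_lit 19160876759) (nat_lit 76) (nat_lit 4928637142) (nat_lit 118) (nat_lit 5) (nat_lit 121) (nat_lit 5) (nat_lit 119) (nat_lit 4) (nat_lit 449) (nat_lit 328) (nat_lit 243)) (XT.lf (nat_lit 0) (nat_lit 10140893772) (nat_lit 228) (nat_lit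 1321869796) (nat_lit 76) (nat_lit 14430703952) (nat_lit 118) (nat_lit 5) (nat_lit 121) (nat_lit 5) (nat_lit 119) (nat_lit 4) (nat_lit 450) (nat_lit 328) (nat_lit 242))) (XT.nd (nat_lit 78) (nat_lit 152) (nat_lit 0) (XT.lf (nat_lit 0) (nat_lit 17316355223) (nat_lit 76) (nat_lit 2032782891) (nat_lit 152) (nat_lit 7033234765) (nat_lit 117) (nat_lit 5) (nat_lit 118) (nat_lit 5) (nat_lit 119) (nat_lit 4) (nat_lit 451) (nat_lit 328) (nat_lit 241)) (XT.lf (nat_lit 0) (nat_lit 2053650608) (nat_lit 152) (nat_lit 17205184844) (nat_lit 76) (nat_lit 7622229099) (nat_lit 115) (nat_lit 5) (nat_lit 117) (nat_lit 5) (nat_lit 116) (nat_lit 4) (nat_lit 452) (nat_lit 328) (nat_lit 240))))) (XT.nd (nat_lit 312) (nat_lit 228) (nat_lit 0) (XT.nd (nat_lit 156) (nat_lit 228) (nat_lit 0) (XT.nd (nat_lit 78) (nat_lit 0) (nat_lit 0) (XT.lf (nat_lit 0) (nat_lit 1641317415) (nat_lit 76) (nat_lit 9720898485) (nat_lit 152) (nat_lit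 16027698962) (nat_lit 114) (nat_lit 5) (nat_lit 115) (nat_lit 5) (nat_lit 116) (nat_lit 4) (nat_lit 453) (nat_lit 328) (nat_lit 239)) (XT.lf (nat_lit 0) (nat_lit 21088621394) (nat_lit 152) (nat_lit 6579633481) (nat_lit 0) (nat_lit 241618310) (nat_lit 114) (nat_lit 5) (nat_lit 116) (nat_lit 4) (nat_lit 114) (nat_lit 4) (nat_lit 454) (nat_lit 328) (nat_lit 238))) (XT.nd (nat_lit 78) (nat_lit 76) (nat_lit 0) (XT.lf (nat_lit 0) (nat_lit 2798202777) (nat_lit 152) (nat_lit 15212303545) (nat_lit 76) (nat_lit 10428494030) (nat_lit 112) (nat_lit 5) (nat_lit 114) (nat_lit 5) (nat_lit 113) (nat_lit 4) (nat_lit 455) (nat_lit 328) (nat_lit 237)) (XT.lf (nat_lit 0) (nat_lit 4732356977) (nat_lit 76) (nat_lit 7912635431) (nat_lit 152) (nat_lit 16334707257) (nat_lit 111) (nat_lit 5) (nat_lit 112) (nat_lit 5) (nat_lit 113) (nat_lit 4) (nat_lit 456) (nat_lit 328) (nat_lit 236)))) (XT.nd (nat_lit 156) (nat_lit 76) (nat_lit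 0) (XT.nd (nat_lit 78) (nat_lit 152) (nat_lit 0) (XT.lf (nat_lit 0) (nat_lit 22929552355) (nat_lit 152) (nat_lit 4042185119) (nat_lit 0) (nat_lit 2560611485) (nat_lit 111) (nat_lit 5) (nat_lit 113) (nat_lit 4) (nat_lit 111) (nat_lit 4) (nat_lit 457) (nat_lit 328) (nat_lit 235)) (XT.lf (nat_lit 0) (nat_lit 3562025713) (nat_lit 152) (nat_lit 13178589971) (nat_lit 76) (nat_lit 13353744132) (nat_lit 109) (nat_lit 5) (nat_lit 111) (nat_lit 5) (nat_lit 110) (nat_lit 4) (nat_lit 458) (nat_lit 328) (nat_lit 234))) (XT.nd (nat_lit 78) (nat_lit 0) (nat_lit 0) (XT.lf (nat_lit 0) (nat_lit 7932472412) (nat_lit 76) (nat_lit 6048490388) (nat_lit 152) (nat_lit 16687850578) (nat_lit 108) (nat_lit 5) (nat_lit 109) (nat_lit 5) (nat_lit 110) (nat_lit 4) (nat_lit 459) (nat_lit 328) (nat_lit 233)) (XT.lf (nat_lit 0) (nat_lit 24859035506) (nat_lit 152) (nat_lit 1428435411) (nat_lit 0) (nat_lit 4968632605) (nat_lit 108) (nat_lit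 5) (nat_lit 110) (nat_lit 4) (nat_lit 108) (nat_lit 4) (nat_lit 460) (nat_lit 328) (nat_lit 232))))))) (XT.nd (nat_lit 1170) (nat_lit 1292) (nat_lit 0) (XT.nd (nat_lit 546) (nat_lit 608) (nat_lit 0) (XT.nd (nat_lit 234) (nat_lit 304) (nat_lit 0) (XT.nd (nat_lit 78) (nat_lit 152) (nat_lit 0) (XT.lf (nat_lit 0) (nat_lit 4347947758) (nat_lit 152) (nat_lit 11100107142) (nat_lit 76) (nat_lit 16404920146) (nat_lit 106) (nat_lit 5) (nat_lit 108) (nat_lit 5) (nat_lit 107) (nat_lit 4) (nat_lit 461) (nat_lit 328) (nat_lit 231)) (XT.nd (nat_lit 78) (nat_lit 76) (nat_lit 0) (XT.lf (nat_lit 0) (nat_lit 11249725734) (nat_lit 76) (nat_lit 4125227644) (nat_lit 152) (nat_lit 17088252793) (nat_lit 105) (nat_lit 5) (nat_lit 106) (nat_lit 5) (nat_lit 107) (nat_lit 4) (nat_lit 462) (nat_lit 328) (nat_lit 230)) (XT.lf (nat_lit 0) (nat_lit 1292951677) (nat_lit 76) (nat_lit 25603446252) (nat_lit 76) (nat_lit 6190437440) (nat_lit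 104) (nat_lit 4) (nat_lit 105) (nat_lit 5) (nat_lit 105) (nat_lit 4) (nat_lit 463) (nat_lit 328) (nat_lit 229)))) (XT.nd (nat_lit 156) (nat_lit 152) (nat_lit 0) (XT.nd (nat_lit 78) (nat_lit 76) (nat_lit 0) (XT.lf (nat_lit 0) (nat_lit 5158821460) (nat_lit 152) (nat_lit 8972620712) (nat_lit 76) (nat_lit 19589597084) (nat_lit 103) (nat_lit 5) (nat_lit 105) (nat_lit 5) (nat_lit 104) (nat_lit 4) (nat_lit 464) (nat_lit 328) (nat_lit 228)) (XT.lf (nat_lit 0) (nat_lit 14692727461) (nat_lit 76) (nat_lit 2139214704) (nat_lit 152) (nat_lit 17537254179) (nat_lit 102) (nat_lit 5) (nat_lit 103) (nat_lit 5) (nat_lit 104) (nat_lit 4) (nat_lit 465) (nat_lit 328) (nat_lit 227))) (XT.nd (nat_lit 78) (nat_lit 76) (nat_lit 0) (XT.lf (nat_lit 0) (nat_lit 4133471239) (nat_lit 76) (nat_lit 24917799240) (nat_lit 76) (nat_lit 5979647247) (nat_lit 101) (nat_lit 4) (nat_lit 102) (nat_lit 5) (nat_lit 102) (nat_lit 4) (nat_lit 466)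 (nat_lit 328) (nat_lit 226)) (XT.lf (nat_lit 0) (nat_lit 5997540491) (nat_lit 152) (nat_lit 6791593673) (nat_lit 76) (nat_lit 22915994095) (nat_lit 100) (nat_lit 5) (nat_lit 102) (nat_lit 5) (nat_lit 101) (nat_lit 4) (nat_lit 467) (nat_lit 328) (nat_lit 225))))) (XT.nd (nat_lit 312) (nat_lit 304) (nat_lit 0) (XT.nd (nat_lit 156) (nat_lit 152) (nat_lit 0) (XT.nd (nat_lit 78) (nat_lit 76) (nat_lit 0) (XT.lf (nat_lit 0) (nat_lit 18270657317) (nat_lit 76) (nat_lit 86425668) (nat_lit 152) (nat_lit 18036409268) (nat_lit 99) (nat_lit 5) (nat_lit 100) (nat_lit 5) (nat_lit 101) (nat_lit 4) (nat_lit 468) (nat_lit 328) (nat_lit 224)) (XT.lf (nat_lit 0) (nat_lit 7071794497) (nat_lit 76) (nat_lit 24245422337) (nat_lit 76) (nat_lit 5778396180) (nat_lit 98) (nat_lit 4) (nat_lit 99) (nat_lit 5) (nat_lit 99) (nat_lit 4) (nat_lit 469) (nat_lit 328) (nat_lit 223))) (XT.nd (nat_lit 78) (nat_lit 76) (nat_lit 0) (XT.lf (nat_lit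 0) (nat_lit 6867055910) (nat_lit 152) (nat_lit 4552179120) (nat_lit 76) (nat_lit 26392988281) (nat_lit 97) (nat_lit 5) (nat_lit 99) (nat_lit 5) (nat_lit 98) (nat_lit 4) (nat_lit 470) (nat_lit 328) (nat_lit 222)) (XT.lf (nat_lit 0) (nat_lit 19975315652) (nat_lit 152) (nat_lit 16569514086) (nat_lit 0) (nat_lit 1997798300) (nat_lit 96) (nat_lit 5) (nat_lit 98) (nat_lit 4) (nat_lit 96) (nat_lit 4) (nat_lit 471) (nat_lit 328) (nat_lit 221)))) (XT.nd (nat_lit 156) (nat_lit 152) (nat_lit 0) (XT.nd (nat_lit 78) (nat_lit 76) (nat_lit 0) (XT.lf (nat_lit 0) (nat_lit 10115481384) (nat_lit 76) (nat_lit 23586676193) (nat_lit 76) (nat_lit 5586027299) (nat_lit 95) (nat_lit 4) (nat_lit 96) (nat_lit 5) (nat_lit 96) (nat_lit 4) (nat_lit 472) (nat_lit 328) (nat_lit 220)) (XT.lf (nat_lit 0) (nat_lit 7770391901) (nat_lit 152) (nat_lit 2249211143) (nat_lit 76) (nat_lit 30030132345) (nat_lit 94) (nat_lit 5) (nat_lit 96) (nat_lit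 5) (nat_lit 95) (nat_lit 4) (nat_lit 473) (nat_lit 328) (nat_lit 219))) (XT.nd (nat_lit 78) (nat_lit 76) (nat_lit 0) (XT.lf (nat_lit 0) (nat_lit 21674192555) (nat_lit 152) (nat_lit 14995649703) (nat_lit 0) (nat_lit 4154862069) (nat_lit 93) (nat_lit 5) (nat_lit 95) (nat_lit 4) (nat_lit 93) (nat_lit 4) (nat_lit 474) (nat_lit 328) (nat_lit 218)) (XT.lf (nat_lit 0) (nat_lit 13272570884) (nat_lit 76) (nat_lit 22941827636) (nat_lit 76) (nat_lit 5401945074) (nat_lit 92) (nat_lit 4) (nat_lit 93) (nat_lit 5) (nat_lit 93) (nat_lit 4) (nat_lit 475) (nat_lit 328) (nat_lit 217)))))) (XT.nd (nat_lit 624) (nat_lit 684) (nat_lit 0) (XT.nd (nat_lit 312) (nat_lit 228) (nat_lit 0) (XT.nd (nat_lit 156) (nat_lit 228) (nat_lit 0) (XT.nd (nat_lit 78) (nat_lit 0) (nat_lit 0) (XT.lf (nat_lit 0) (nat_lit 125250175) (nat_lit 76) (nat_lit 8586614952) (nat_lit 152) (nat_lit 33713629755) (nat_lit 90) (nat_lit 5) (nat_lit 91) (nat_lit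 5) (nat_lit 92) (nat_lit 4) (nat_lit 476) (nat_lit 328) (nat_lit 216)) (XT.lf (nat_lit 0) (nat_lit 23458758050) (nat_lit 152) (nat_lit 13397445364) (nat_lit 0) (nat_lit 6391565490) (nat_lit 90) (nat_lit 5) (nat_lit 92) (nat_lit 4) (nat_lit 90) (nat_lit 4) (nat_lit 477) (nat_lit 328) (nat_lit 215))) (XT.nd (nat_lit 78) (nat_lit 152) (nat_lit 0) (XT.lf (nat_lit 0) (nat_lit 16551602379) (nat_lit 76) (nat_lit 22311061696) (nat_lit 76) (nat_lit 5225608882) (nat_lit 89) (nat_lit 4) (nat_lit 90) (nat_lit 5) (nat_lit 90) (nat_lit 4) (nat_lit 478) (nat_lit 328) (nat_lit 214)) (XT.lf (nat_lit 0) (nat_lit 2620853350) (nat_lit 76) (nat_lit 7095419834) (nat_lit 152) (nat_lit 35230930612) (nat_lit 87) (nat_lit 5) (nat_lit 88) (nat_lit 5) (nat_lit 89) (nat_lit 4) (nat_lit 479) (nat_lit 328) (nat_lit 213)))) (XT.nd (nat_lit 156) (nat_lit 152) (nat_lit 0) (XT.nd (nat_lit 78) (nat_lit 76) (nat_lit 0) (XT.lf (nat_lit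 0) (nat_lit 25335163406) (nat_lit 152) (nat_lit 11771751172) (nat_lit 0) (nat_lit 8713422382) (nat_lit 87) (nat_lit 5) (nat_lit 89) (nat_lit 4) (nat_lit 87) (nat_lit 4) (nat_lit 480) (nat_lit 328) (nat_lit 212)) (XT.lf (nat_lit 0) (nat_lit 19961639324) (nat_lit 76) (nat_lit 21694492241) (nat_lit 76) (nat_lit 5056527218) (nat_lit 86) (nat_lit 4) (nat_lit 87) (nat_lit 5) (nat_lit 87) (nat_lit 4) (nat_lit 481) (nat_lit 328) (nat_lit 211))) (XT.nd (nat_lit 78) (nat_lit 0) (nat_lit 0) (XT.lf (nat_lit 0) (nat_lit 5199153550) (nat_lit 76) (nat_lit 5565807054) (nat_lit 152) (nat_lit 36859422736) (nat_lit 84) (nat_lit 5) (nat_lit 85) (nat_lit 5) (nat_lit 86) (nat_lit 4) (nat_lit 482) (nat_lit 328) (nat_lit 210)) (XT.lf (nat_lit 0) (nat_lit 27309861040) (nat_lit 152) (nat_lit 10115227674) (nat_lit 0) (nat_lit 11126357007) (nat_lit 84) (nat_lit 5) (nat_lit 86) (nat_lit 4) (nat_lit 84) (nat_lit 4) (nat_lit 483)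 (nat_lit 328) (nat_lit 209))))) (XT.nd (nat_lit 312) (nat_lit 380) (nat_lit 0) (XT.nd (nat_lit 156) (nat_lit 76) (nat_lit 0) (XT.nd (nat_lit 78) (nat_lit 152) (nat_lit 0) (XT.lf (nat_lit 0) (nat_lit 23512295300) (nat_lit 76) (nat_lit 21092171386) (nat_lit 76) (nat_lit 4894252541) (nat_lit 83) (nat_lit 4) (nat_lit 84) (nat_lit 5) (nat_lit 84) (nat_lit 4) (nat_lit 484) (nat_lit 328) (nat_lit 208)) (XT.lf (nat_lit 0) (nat_lit 7866850418) (nat_lit 76) (nat_lit 3994609792) (nat_lit 152) (nat_lit 38604975841) (nat_lit 81) (nat_lit 5) (nat_lit 82) (nat_lit 5) (nat_lit 83) (nat_lit 4) (nat_lit 485) (nat_lit 328) (nat_lit 207))) (XT.nd (nat_lit 78) (nat_lit 76) (nat_lit 0) (XT.lf (nat_lit 0) (nat_lit 29389630152) (nat_lit 152) (nat_lit 8424339414) (nat_lit 0) (nat_lit 13636716412) (nat_lit 81) (nat_lit 5) (nat_lit 83) (nat_lit 4) (nat_lit 81) (nat_lit 4) (nat_lit 486) (nat_lit 328) (nat_lit 206)) (XT.lf (nat_lit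 0) (nat_lit 27213762455) (nat_lit 76) (nat_lit 20504097805) (nat_lit 76) (nat_lit 4738376691) (nat_lit 80) (nat_lit 4) (nat_lit 81) (nat_lit 5) (nat_lit 81) (nat_lit 4) (nat_lit 487) (nat_lit 328) (nat_lit 205)))) (XT.nd (nat_lit 156) (nat_lit 228) (nat_lit 0) (XT.nd (nat_lit 78) (nat_lit 0) (nat_lit 0) (XT.lf (nat_lit 0) (nat_lit 10631042701) (nat_lit 76) (nat_lit 2378414520) (nat_lit 152) (nat_lit 40473882918) (nat_lit 78) (nat_lit 5) (nat_lit 79) (nat_lit 5) (nat_lit 80) (nat_lit 4) (nat_lit 488) (nat_lit 328) (nat_lit 204)) (XT.lf (nat_lit 0) (nat_lit 31581603149) (nat_lit 152) (nat_lit 6695347370) (nat_lit 0) (nat_lit 16251285055) (nat_lit 78) (nat_lit 5) (nat_lit 80) (nat_lit 4) (nat_lit 78) (nat_lit 4) (nat_lit 489) (nat_lit 328) (nat_lit 203))) (XT.nd (nat_lit 78) (nat_lit 152) (nat_lit 0) (XT.lf (nat_lit 0) (nat_lit 31076842395) (nat_lit 76) (nat_lit 19930224083) (nat_lit 76) (nat_lit 4588526803)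 (nat_lit 77) (nat_lit 4) (nat_lit 78) (nat_lit 5) (nat_lit 78) (nat_lit 4) (nat_lit 490) (nat_lit 328) (nat_lit 202)) (XT.lf (nat_lit 0) (nat_lit 13499248407) (nat_lit 76) (nat_lit 713556243) (nat_lit 152) (nat_lit 42472879686) (nat_lit 75) (nat_lit 5) (nat_lit 76) (nat_lit 5) (nat_lit 77) (nat_lit 4) (nat_lit 491) (nat_lit 328) (nat_lit 201))))))))
noncomputable def xc73 : XT := (XT.nd (nat_lit 45084) (nat_lit 0) (nat_lit 7068) (XT.nd (nat_lit 43914) (nat_lit 0) (nat_lit 13604) (XT.nd (nat_lit 43290) (nat_lit 0) (nat_lit 19456) (XT.nd (nat_lit 42978) (nat_lit 0) (nat_lit 24092) (XT.nd (nat_lit 78) (nat_lit 228) (nat_lit 0) (XT.lf (nat_lit 0) (nat_lit 33893292962) (nat_lit 152) (nat_lit 4924300289) (nat_lit 0) (nat_lit 18977301692) (nat_lit 75) (nat_lit 5) (nat_lit 77) (nat_lit 4) (nat_lit 75) (nat_lit 4) (nat_lit 492) (nat_lit 328) (nat_lit 200)) (XT.nd (nat_lit 78) (nat_lit 152) (nat_lit 0) (XT.lf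 (nat_lit 0) (nat_lit 35112979596) (nat_lit 76) (nat_lit 19370463197) (nat_lit 76) (nat_lit 4444361667) (nat_lit 74) (nat_lit 4) (nat_lit 75) (nat_lit 5) (nat_lit 75) (nat_lit 4) (nat_lit 493) (nat_lit 328) (nat_lit 199)) (XT.lf (nat_lit 0) (nat_lit 15485188956) (nat_lit 152) (nat_lit 43614928062) (nat_lit 0) (nat_lit 984298358) (nat_lit 72) (nat_lit 5) (nat_lit 74) (nat_lit 4) (nat_lit 72) (nat_lit 4) (nat_lit 494) (nat_lit 328) (nat_lit 198)))) (XT.nd (nat_lit 156) (nat_lit 1216) (nat_lit 0) (XT.nd (nat_lit 78) (nat_lit 1140) (nat_lit 0) (XT.lf (nat_lit 0) (nat_lit 2027433750) (nat_lit 988) (nat_lit 724507910) (nat_lit 988) (nat_lit 724507910) (nat_lit 420) (nat_lit 4) (nat_lit 433) (nat_lit 5) (nat_lit 433) (nat_lit 4) (nat_lit 362) (nat_lit 329) (nat_lit 329)) (XT.lf (nat_lit 0) (nat_lit 2010585070) (nat_lit 1140) (nat_lit 4816783910) (nat_lit 0) (nat_lit 173565195) (nat_lit 405) (nat_lit 5) (nat_lit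 420) (nat_lit 4) (nat_lit 405) (nat_lit 4) (nat_lit 363) (nat_lit 329) (nat_lit 328))) (XT.nd (nat_lit 78) (nat_lit 76) (nat_lit 0) (XT.lf (nat_lit 0) (nat_lit 301995653) (nat_lit 1140) (nat_lit 5185125202) (nat_lit 1140) (nat_lit 1564590884) (nat_lit 390) (nat_lit 4) (nat_lit 405) (nat_lit 5) (nat_lit 405) (nat_lit 4) (nat_lit 364) (nat_lit 329) (nat_lit 327)) (XT.lf (nat_lit 0) (nat_lit 1871249087) (nat_lit 1216) (nat_lit 1553466091) (nat_lit 76) (nat_lit 3680362119) (nat_lit 389) (nat_lit 5) (nat_lit 405) (nat_lit 5) (nat_lit 390) (nat_lit 4) (nat_lit 365) (nat_lit 329) (nat_lit 326))))) (XT.nd (nat_lit 312) (nat_lit 1824) (nat_lit 0) (XT.nd (nat_lit 156) (nat_lit 684) (nat_lit 0) (XT.nd (nat_lit 78) (nat_lit 912) (nat_lit 0) (XT.lf (nat_lit 0) (nat_lit 3754868467) (nat_lit 1216) (nat_lit 1559468292) (nat_lit 1292) (nat_lit 1847173753) (nat_lit 373) (nat_lit 5) (nat_lit 389) (nat_lit 5) (nat_lit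 390) (nat_lit 4) (nat_lit 366) (nat_lit 329) (nat_lit 325)) (XT.lf (nat_lit 0) (nat_lit 1548145784) (nat_lit 912) (nat_lit 5270277185) (nat_lit 76) (nat_lit 402567839) (nat_lit 361) (nat_lit 5) (nat_lit 373) (nat_lit 5) (nat_lit 362) (nat_lit 4) (nat_lit 367) (nat_lit 329) (nat_lit 324))) (XT.nd (nat_lit 78) (nat_lit 76) (nat_lit 0) (XT.lf (nat_lit 0) (nat_lit 121245253) (nat_lit 608) (nat_lit 4840692484) (nat_lit 684) (nat_lit 2321156936) (nat_lit 353) (nat_lit 5) (nat_lit 361) (nat_lit 5) (nat_lit 362) (nat_lit 4) (nat_lit 368) (nat_lit 329) (nat_lit 323)) (XT.lf (nat_lit 0) (nat_lit 1066049768) (nat_lit 684) (nat_lit 1679666634) (nat_lit 76) (nat_lit 4602307887) (nat_lit 352) (nat_lit 5) (nat_lit 361) (nat_lit 5) (nat_lit 353) (nat_lit 5) (nat_lit 369) (nat_lit 329) (nat_lit 322)))) (XT.nd (nat_lit 156) (nat_lit 608) (nat_lit 0) (XT.nd (nat_lit 78) (nat_lit 608) (nat_lit 0) (XT.lf (nat_lit 0) (nat_lit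 3918175193) (nat_lit 608) (nat_lit 533818188) (nat_lit 684) (nat_lit 2963905750) (nat_lit 344) (nat_lit 5) (nat_lit 352) (nat_lit 5) (nat_lit 353) (nat_lit 5) (nat_lit 370) (nat_lit 329) (nat_lit 321)) (XT.lf (nat_lit 0) (nat_lit 406867803) (nat_lit 608) (nat_lit 5336700392) (nat_lit 76) (nat_lit 1743250701) (nat_lit 336) (nat_lit 5) (nat_lit 344) (nat_lit 5) (nat_lit 337) (nat_lit 5) (nat_lit 371) (nat_lit 329) (nat_lit 320))) (XT.nd (nat_lit 78) (nat_lit 0) (nat_lit 0) (XT.lf (nat_lit 0) (nat_lit 347330775) (nat_lit 608) (nat_lit 3424739276) (nat_lit 684) (nat_lit 3788329523) (nat_lit 328) (nat_lit 5) (nat_lit 336) (nat_lit 5) (nat_lit 337) (nat_lit 5) (nat_lit 372) (nat_lit 329) (nat_lit 319)) (XT.lf (nat_lit 0) (nat_lit 6207551274) (nat_lit 608) (nat_lit 994815943) (nat_lit 684) (nat_lit 434896290) (nat_lit 328) (nat_lit 5) (nat_lit 336) (nat_lit 5) (nat_lit 337) (nat_lit 5) (nat_lit 373) (nat_lit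 329) (nat_lit 318)))))) (XT.nd (nat_lit 546) (nat_lit 2660) (nat_lit 0) (XT.nd (nat_lit 234) (nat_lit 1520) (nat_lit 0) (XT.nd (nat_lit 78) (nat_lit 1064) (nat_lit 0) (XT.lf (nat_lit 0) (nat_lit 2930391309) (nat_lit 608) (nat_lit 3248834096) (nat_lit 76) (nat_lit 1537232328) (nat_lit 320) (nat_lit 5) (nat_lit 328) (nat_lit 5) (nat_lit 321) (nat_lit 5) (nat_lit 374) (nat_lit 329) (nat_lit 317)) (XT.nd (nat_lit 78) (nat_lit 532) (nat_lit 0) (XT.lf (nat_lit 0) (nat_lit 2708239466) (nat_lit 532) (nat_lit 3643563519) (nat_lit 608) (nat_lit 1447178431) (nat_lit 313) (nat_lit 5) (nat_lit 320) (nat_lit 5) (nat_lit 321) (nat_lit 5) (nat_lit 375) (nat_lit 329) (nat_lit 316)) (XT.lf (nat_lit 0) (nat_lit 921544841) (nat_lit 456) (nat_lit 987586352) (nat_lit 532) (nat_lit 5975591492) (nat_lit 306) (nat_lit 5) (nat_lit 312) (nat_lit 5) (nat_lit 313) (nat_lit 5) (nat_lit 376) (nat_lit 329) (nat_lit 315)))) (XT.nd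 (nat_lit 156) (nat_lit 912) (nat_lit 0) (XT.nd (nat_lit 78) (nat_lit 608) (nat_lit 0) (XT.lf (nat_lit 0) (nat_lit 5321216602) (nat_lit 532) (nat_lit 890492741) (nat_lit 76) (nat_lit 1761371795) (nat_lit 306) (nat_lit 5) (nat_lit 313) (nat_lit 5) (nat_lit 307) (nat_lit 5) (nat_lit 377) (nat_lit 329) (nat_lit 314)) (XT.lf (nat_lit 0) (nat_lit 735494749) (nat_lit 608) (nat_lit 2715638663) (nat_lit 76) (nat_lit 4613365124) (nat_lit 298) (nat_lit 5) (nat_lit 306) (nat_lit 5) (nat_lit 299) (nat_lit 5) (nat_lit 378) (nat_lit 329) (nat_lit 313))) (XT.nd (nat_lit 78) (nat_lit 456) (nat_lit 0) (XT.lf (nat_lit 0) (nat_lit 3575237607) (nat_lit 456) (nat_lit 557916112) (nat_lit 532) (nat_lit 4025857693) (nat_lit 292) (nat_lit 5) (nat_lit 298) (nat_lit 5) (nat_lit 299) (nat_lit 5) (nat_lit 379) (nat_lit 329) (nat_lit 312)) (XT.lf (nat_lit 0) (nat_lit 1761168490) (nat_lit 456) (nat_lit 5859183853) (nat_lit 532) (nat_lit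 636379034) (nat_lit 286) (nat_lit 5) (nat_lit 292) (nat_lit 5) (nat_lit 293) (nat_lit 5) (nat_lit 380) (nat_lit 329) (nat_lit 311))))) (XT.nd (nat_lit 312) (nat_lit 1292) (nat_lit 0) (XT.nd (nat_lit 156) (nat_lit 912) (nat_lit 0) (XT.nd (nat_lit 78) (nat_lit 380) (nat_lit 0) (XT.lf (nat_lit 0) (nat_lit 2771611086) (nat_lit 532) (nat_lit 104172944) (nat_lit 76) (nat_lit 5481599627) (nat_lit 285) (nat_lit 5) (nat_lit 292) (nat_lit 5) (nat_lit 286) (nat_lit 5) (nat_lit 381) (nat_lit 329) (nat_lit 310)) (XT.lf (nat_lit 0) (nat_lit 6256432052) (nat_lit 456) (nat_lit 1966322082) (nat_lit 76) (nat_lit 238490896) (nat_lit 280) (nat_lit 5) (nat_lit 286) (nat_lit 5) (nat_lit 281) (nat_lit 5) (nat_lit 382) (nat_lit 329) (nat_lit 309))) (XT.nd (nat_lit 78) (nat_lit 380) (nat_lit 0) (XT.lf (nat_lit 0) (nat_lit 1250835067) (nat_lit 532) (nat_lit 3894806291) (nat_lit 76) (nat_lit 3422266767) (nat_lit 273) (nat_lit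 5) (nat_lit 280) (nat_lit 5) (nat_lit 274) (nat_lit 5) (nat_lit 383) (nat_lit 329) (nat_lit 308)) (XT.lf (nat_lit 0) (nat_lit 2803873638) (nat_lit 380) (nat_lit 1933098069) (nat_lit 456) (nat_lit 3941010500) (nat_lit 268) (nat_lit 5) (nat_lit 273) (nat_lit 5) (nat_lit 274) (nat_lit 5) (nat_lit 384) (nat_lit 329) (nat_lit 307)))) (XT.nd (nat_lit 156) (nat_lit 836) (nat_lit 0) (XT.nd (nat_lit 78) (nat_lit 76) (nat_lit 0) (XT.lf (nat_lit 0) (nat_lit 892365185) (nat_lit 380) (nat_lit 7421932515) (nat_lit 456) (nat_lit 477462655) (nat_lit 263) (nat_lit 5) (nat_lit 268) (nat_lit 5) (nat_lit 269) (nat_lit 5) (nat_lit 385) (nat_lit 329) (nat_lit 306)) (XT.lf (nat_lit 0) (nat_lit 3034277707) (nat_lit 456) (nat_lit 1079420323) (nat_lit 76) (nat_lit 4794225242) (nat_lit 262) (nat_lit 5) (nat_lit 268) (nat_lit 5) (nat_lit 263) (nat_lit 5) (nat_lit 386) (nat_lit 329) (nat_lit 305))) (XT.nd (nat_lit 78) (nat_lit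 456) (nat_lit 0) (XT.lf (nat_lit 0) (nat_lit 5954617761) (nat_lit 380) (nat_lit 672103273) (nat_lit 456) (nat_lit 2401159803) (nat_lit 257) (nat_lit 5) (nat_lit 262) (nat_lit 5) (nat_lit 263) (nat_lit 5) (nat_lit 387) (nat_lit 329) (nat_lit 304)) (XT.lf (nat_lit 0) (nat_lit 1158426491) (nat_lit 456) (nat_lit 5144084951) (nat_lit 76) (nat_lit 2848410772) (nat_lit 251) (nat_lit 5) (nat_lit 257) (nat_lit 5) (nat_lit 252) (nat_lit 5) (nat_lit 388) (nat_lit 329) (nat_lit 303))))))) (XT.nd (nat_lit 1170) (nat_lit 2736) (nat_lit 0) (XT.nd (nat_lit 546) (nat_lit 2052) (nat_lit 0) (XT.nd (nat_lit 234) (nat_lit 988) (nat_lit 0) (XT.nd (nat_lit 78) (nat_lit 456) (nat_lit 0) (XT.lf (nat_lit 0) (nat_lit 1990463253) (nat_lit 304) (nat_lit 2772166499) (nat_lit 380) (nat_lit 4514729155) (nat_lit 247) (nat_lit 5) (nat_lit 251) (nat_lit 5) (nat_lit 252) (nat_lit 5) (nat_lit 389) (nat_lit 329) (nat_lit 302)) (XT.nd (nat_lit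 78) (nat_lit 456) (nat_lit 0) (XT.lf (nat_lit 0) (nat_lit 8465461649) (nat_lit 380) (nat_lit 74387950) (nat_lit 76) (nat_lit 868024026) (nat_lit 247) (nat_lit 5) (nat_lit 252) (nat_lit 5) (nat_lit 248) (nat_lit 5) (nat_lit 390) (nat_lit 329) (nat_lit 301)) (XT.lf (nat_lit 0) (nat_lit 2714036460) (nat_lit 456) (nat_lit 2198153160) (nat_lit 76) (nat_lit 4628413693) (nat_lit 241) (nat_lit 5) (nat_lit 247) (nat_lit 5) (nat_lit 242) (nat_lit 5) (nat_lit 391) (nat_lit 329) (nat_lit 300)))) (XT.nd (nat_lit 156) (nat_lit 304) (nat_lit 0) (XT.nd (nat_lit 78) (nat_lit 380) (nat_lit 0) (XT.lf (nat_lit 0) (nat_lit 5298720923) (nat_lit 304) (nat_lit 1146352683) (nat_lit 380) (nat_lit 3232446258) (nat_lit 237) (nat_lit 5) (nat_lit 241) (nat_lit 5) (nat_lit 242) (nat_lit 5) (nat_lit 392) (nat_lit 329) (nat_lit 299)) (XT.lf (nat_lit 0) (nat_lit 472551804) (nat_lit 380) (nat_lit 6641592642) (nat_lit 76) (nat_lit 2703897609)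 (nat_lit 232) (nat_lit 5) (nat_lit 237) (nat_lit 5) (nat_lit 233) (nat_lit 5) (nat_lit 393) (nat_lit 329) (nat_lit 298))) (XT.nd (nat_lit 78) (nat_lit 0) (nat_lit 0) (XT.lf (nat_lit 0) (nat_lit 959205354) (nat_lit 304) (nat_lit 3262913691) (nat_lit 380) (nat_lit 5739749088) (nat_lit 228) (nat_lit 5) (nat_lit 232) (nat_lit 5) (nat_lit 233) (nat_lit 5) (nat_lit 394) (nat_lit 329) (nat_lit 297)) (XT.lf (nat_lit 0) (nat_lit 8092463725) (nat_lit 380) (nat_lit 1294267145) (nat_lit 76) (nat_lit 723029410) (nat_lit 228) (nat_lit 5) (nat_lit 233) (nat_lit 5) (nat_lit 229) (nat_lit 5) (nat_lit 395) (nat_lit 329) (nat_lit 296))))) (XT.nd (nat_lit 312) (nat_lit 1064) (nat_lit 0) (XT.nd (nat_lit 156) (nat_lit 380) (nat_lit 0) (XT.nd (nat_lit 78) (nat_lit 228) (nat_lit 0) (XT.lf (nat_lit 0) (nat_lit 1813573735) (nat_lit 380) (nat_lit 3636229208) (nat_lit 76) (nat_lit 4810796402) (nat_lit 223) (nat_lit 5) (nat_lit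 228) (nat_lit 5) (nat_lit 224) (nat_lit 5) (nat_lit 396) (nat_lit 329) (nat_lit 295)) (XT.lf (nat_lit 0) (nat_lit 4356121027) (nat_lit 228) (nat_lit 1353790815) (nat_lit 304) (nat_lit 4705719923) (nat_lit 220) (nat_lit 5) (nat_lit 223) (nat_lit 5) (nat_lit 224) (nat_lit 5) (nat_lit 397) (nat_lit 329) (nat_lit 294))) (XT.nd (nat_lit 78) (nat_lit 76) (nat_lit 0) (XT.lf (nat_lit 0) (nat_lit 1998799756) (nat_lit 304) (nat_lit 7744752654) (nat_lit 380) (nat_lit 831150376) (nat_lit 216) (nat_lit 5) (nat_lit 220) (nat_lit 5) (nat_lit 221) (nat_lit 5) (nat_lit 398) (nat_lit 329) (nat_lit 293)) (XT.lf (nat_lit 0) (nat_lit 3110042100) (nat_lit 380) (nat_lit 459153649) (nat_lit 76) (nat_lit 7168077751) (nat_lit 215) (nat_lit 5) (nat_lit 220) (nat_lit 5) (nat_lit 216) (nat_lit 5) (nat_lit 399) (nat_lit 329) (nat_lit 292)))) (XT.nd (nat_lit 156) (nat_lit 456) (nat_lit 0) (XT.nd (nat_lit 78) (nat_lit 380) (nat_lit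 0) (XT.lf (nat_lit 0) (nat_lit 7175382753) (nat_lit 304) (nat_lit 2961728579) (nat_lit 76) (nat_lit 766684594) (nat_lit 212) (nat_lit 5) (nat_lit 216) (nat_lit 5) (nat_lit 213) (nat_lit 5) (nat_lit 400) (nat_lit 329) (nat_lit 291)) (XT.lf (nat_lit 0) (nat_lit 314178521) (nat_lit 380) (nat_lit 5574559666) (nat_lit 76) (nat_lit 5185520472) (nat_lit 207) (nat_lit 5) (nat_lit 212) (nat_lit 5) (nat_lit 208) (nat_lit 5) (nat_lit 401) (nat_lit 329) (nat_lit 290))) (XT.nd (nat_lit 78) (nat_lit 228) (nat_lit 0) (XT.lf (nat_lit 0) (nat_lit 2948136347) (nat_lit 228) (nat_lit 1452936156) (nat_lit 304) (nat_lit 6847716462) (nat_lit 204) (nat_lit 5) (nat_lit 207) (nat_lit 5) (nat_lit 208) (nat_lit 5) (nat_lit 402) (nat_lit 329) (nat_lit 289)) (XT.lf (nat_lit 0) (nat_lit 289681990) (nat_lit 228) (nat_lit 8350352318) (nat_lit 304) (nat_lit 2787637043) (nat_lit 201) (nat_lit 5) (nat_lit 204) (nat_lit 5) (nat_lit 205)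 (nat_lit 5) (nat_lit 403) (nat_lit 329) (nat_lit 288)))))) (XT.nd (nat_lit 624) (nat_lit 1216) (nat_lit 0) (XT.nd (nat_lit 312) (nat_lit 684) (nat_lit 0) (XT.nd (nat_lit 156) (nat_lit 532) (nat_lit 0) (XT.nd (nat_lit 78) (nat_lit 228) (nat_lit 0) (XT.lf (nat_lit 0) (nat_lit 1406166311) (nat_lit 304) (nat_lit 2429740330) (nat_lit 76) (nat_lit 7774437648) (nat_lit 200) (nat_lit 5) (nat_lit 204) (nat_lit 5) (nat_lit 201) (nat_lit 5) (nat_lit 404) (nat_lit 329) (nat_lit 287)) (XT.lf (nat_lit 0) (nat_lit 5682839093) (nat_lit 304) (nat_lit 5262739298) (nat_lit 76) (nat_lit 851698491) (nat_lit 197) (nat_lit 5) (nat_lit 201) (nat_lit 5) (nat_lit 198) (nat_lit 5) (nat_lit 405) (nat_lit 329) (nat_lit 286))) (XT.nd (nat_lit 78) (nat_lit 304) (nat_lit 0) (XT.lf (nat_lit 0) (nat_lit 3766645540) (nat_lit 228) (nat_lit 6362373973) (nat_lit 304) (nat_lit 1859561717) (nat_lit 194) (nat_lit 5) (nat_lit 197) (nat_lit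 5) (nat_lit 198) (nat_lit 5) (nat_lit 406) (nat_lit 329) (nat_lit 285)) (XT.lf (nat_lit 0) (nat_lit 885976211) (nat_lit 228) (nat_lit 1592374428) (nat_lit 304) (nat_lit 9706407839) (nat_lit 190) (nat_lit 5) (nat_lit 193) (nat_lit 5) (nat_lit 194) (nat_lit 5) (nat_lit 407) (nat_lit 329) (nat_lit 284)))) (XT.nd (nat_lit 156) (nat_lit 456) (nat_lit 0) (XT.nd (nat_lit 78) (nat_lit 228) (nat_lit 0) (XT.lf (nat_lit 0) (nat_lit 6967599851) (nat_lit 304) (nat_lit 2097484583) (nat_lit 76) (nat_lit 3319427022) (nat_lit 190) (nat_lit 5) (nat_lit 194) (nat_lit 5) (nat_lit 191) (nat_lit 5) (nat_lit 408) (nat_lit 329) (nat_lit 283)) (XT.lf (nat_lit 0) (nat_lit 7413936204) (nat_lit 228) (nat_lit 4209096064) (nat_lit 304) (nat_lit 966279581) (nat_lit 187) (nat_lit 5) (nat_lit 190) (nat_lit 5) (nat_lit 191) (nat_lit 5) (nat_lit 409) (nat_lit 329) (nat_lit 282))) (XT.nd (nat_lit 78) (nat_lit 228) (nat_lit 0) (XT.lf (nat_lit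 0) (nat_lit 3563914879) (nat_lit 228) (nat_lit 8397021811) (nat_lit 76) (nat_lit 837777014) (nat_lit 184) (nat_lit 5) (nat_lit 187) (nat_lit 5) (nat_lit 185) (nat_lit 5) (nat_lit 410) (nat_lit 329) (nat_lit 281)) (XT.lf (nat_lit 0) (nat_lit 1236375547) (nat_lit 228) (nat_lit 7025529593) (nat_lit 304) (nat_lit 4750666123) (nat_lit 181) (nat_lit 5) (nat_lit 184) (nat_lit 5) (nat_lit 185) (nat_lit 5) (nat_lit 411) (nat_lit 329) (nat_lit 280))))) (XT.nd (nat_lit 312) (nat_lit 532) (nat_lit 0) (XT.nd (nat_lit 156) (nat_lit 456) (nat_lit 0) (XT.nd (nat_lit 78) (nat_lit 228) (nat_lit 0) (XT.lf (nat_lit 0) (nat_lit 11236516469) (nat_lit 228) (nat_lit 1894781112) (nat_lit 304) (nat_lit 100633095) (nat_lit 181) (nat_lit 5) (nat_lit 184) (nat_lit 5) (nat_lit 185) (nat_lit 5) (nat_lit 412) (nat_lit 329) (nat_lit 279)) (XT.lf (nat_lit 0) (nat_lit 4655409667) (nat_lit 228) (nat_lit 5390145062) (nat_lit 76) (nat_lit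 3409223780) (nat_lit 178) (nat_lit 5) (nat_lit 181) (nat_lit 5) (nat_lit 179) (nat_lit 5) (nat_lit 413) (nat_lit 329) (nat_lit 278))) (XT.nd (nat_lit 78) (nat_lit 228) (nat_lit 0) (XT.lf (nat_lit 0) (nat_lit 4763687323) (nat_lit 228) (nat_lit 4820346440) (nat_lit 304) (nat_lit 4099290445) (nat_lit 175) (nat_lit 5) (nat_lit 178) (nat_lit 5) (nat_lit 179) (nat_lit 5) (nat_lit 414) (nat_lit 329) (nat_lit 277)) (XT.lf (nat_lit 0) (nat_lit 748089000) (nat_lit 228) (nat_lit 12582917704) (nat_lit 76) (nat_lit 586882446) (nat_lit 172) (nat_lit 5) (nat_lit 175) (nat_lit 5) (nat_lit 173) (nat_lit 5) (nat_lit 415) (nat_lit 329) (nat_lit 276)))) (XT.nd (nat_lit 156) (nat_lit 380) (nat_lit 0) (XT.nd (nat_lit 78) (nat_lit 152) (nat_lit 0) (XT.lf (nat_lit 0) (nat_lit 5744616284) (nat_lit 228) (nat_lit 2259332259) (nat_lit 76) (nat_lit 6151741341) (nat_lit 172) (nat_lit 5) (nat_lit 175) (nat_lit 5) (nat_lit 173) (nat_lit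 5) (nat_lit 416) (nat_lit 329) (nat_lit 275)) (XT.lf (nat_lit 0) (nat_lit 8448134515) (nat_lit 152) (nat_lit 2473073992) (nat_lit 228) (nat_lit 3478511062) (nat_lit 170) (nat_lit 5) (nat_lit 172) (nat_lit 5) (nat_lit 173) (nat_lit 5) (nat_lit 417) (nat_lit 329) (nat_lit 274))) (XT.nd (nat_lit 78) (nat_lit 152) (nat_lit 0) (XT.lf (nat_lit 0) (nat_lit 1621069426) (nat_lit 228) (nat_lit 9820307528) (nat_lit 76) (nat_lit 3207722126) (nat_lit 167) (nat_lit 5) (nat_lit 170) (nat_lit 5) (nat_lit 168) (nat_lit 5) (nat_lit 418) (nat_lit 329) (nat_lit 273)) (XT.lf (nat_lit 0) (nat_lit 1019759782) (nat_lit 152) (nat_lit 5828268352) (nat_lit 228) (nat_lit 8055569459) (nat_lit 165) (nat_lit 5) (nat_lit 167) (nat_lit 5) (nat_lit 168) (nat_lit 5) (nat_lit 419) (nat_lit 329) (nat_lit 272))))))))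
noncomputable def xc74 : XT := (XT.nd (nat_lit 2340) (nat_lit 2584) (nat_lit 0) (XT.nd (nat_lit 1170) (nat_lit 1520) (nat_lit 0) (XT.nd (nat_lit 546) (nat_lit 912) (nat_lit 0) (XT.nd (nat_lit 234) (nat_lit 532) (nat_lit 0) (XT.nd (nat_lit 78) (nat_lit 380) (nat_lit 0) (XT.lf (nat_lit 0) (nat_lit 12281040543) (nat_lit 228) (nat_lit 2868218668) (nat_lit 76) (nat_lit 14994501) (nat_lit 165) (nat_lit 5) (nat_lit 168) (nat_lit 5) (nat_lit 166) (nat_lit 4) (nat_lit 420) (nat_lit 329) (nat_lit 271)) (XT.nd (nat_lit 78) (nat_lit 152) (nat_lit 0) (XT.lf (nat_lit 0) (nat_lit 2487915381) (nat_lit 228) (nat_lit 6957038859) (nat_lit 76) (nat_lit 5984331421) (nat_lit 162) (nat_lit 5) (nat_lit 165) (nat_lit 5) (nat_lit 163) (nat_lit 5) (nat_lit 421) (nat_lit 329) (nat_lit 270)) (XT.lf (nat_lit 0) (nat_lit 4480201743) (nat_lit 152) (nat_lit 3505463309) (nat_lit 228) (nat_lit 7715044005) (nat_lit 160) (nat_lit 5) (nat_lit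 162) (nat_lit 5) (nat_lit 163) (nat_lit 5) (nat_lit 422) (nat_lit 329) (nat_lit 269)))) (XT.nd (nat_lit 156) (nat_lit 304) (nat_lit 0) (XT.nd (nat_lit 78) (nat_lit 76) (nat_lit 0) (XT.lf (nat_lit 0) (nat_lit 316462912) (nat_lit 152) (nat_lit 13382304127) (nat_lit 228) (nat_lit 2279995522) (nat_lit 158) (nat_lit 5) (nat_lit 160) (nat_lit 5) (nat_lit 161) (nat_lit 4) (nat_lit 423) (nat_lit 329) (nat_lit 268)) (XT.lf (nat_lit 0) (nat_lit 3353905609) (nat_lit 228) (nat_lit 3988938295) (nat_lit 76) (nat_lit 8918340415) (nat_lit 157) (nat_lit 5) (nat_lit 160) (nat_lit 5) (nat_lit 158) (nat_lit 5) (nat_lit 424) (nat_lit 329) (nat_lit 267))) (XT.nd (nat_lit 78) (nat_lit 152) (nat_lit 0) (XT.lf (nat_lit 0) (nat_lit 8083371410) (nat_lit 152) (nat_lit 1058158972) (nat_lit 228) (nat_lit 7408955154) (nat_lit 155) (nat_lit 5) (nat_lit 157) (nat_lit 5) (nat_lit 158) (nat_lit 5) (nat_lit 425) (nat_lit 329) (nat_lit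 266)) (XT.lf (nat_lit 0) (nat_lit 3685231813) (nat_lit 152) (nat_lit 11498715915) (nat_lit 228) (nat_lit 1662083147) (nat_lit 153) (nat_lit 5) (nat_lit 155) (nat_lit 5) (nat_lit 156) (nat_lit 4) (nat_lit 426) (nat_lit 329) (nat_lit 265))))) (XT.nd (nat_lit 312) (nat_lit 380) (nat_lit 0) (XT.nd (nat_lit 156) (nat_lit 304) (nat_lit 0) (XT.nd (nat_lit 78) (nat_lit 152) (nat_lit 0) (XT.lf (nat_lit 0) (nat_lit 4224037991) (nat_lit 228) (nat_lit 911083575) (nat_lit 76) (nat_lit 12012595840) (nat_lit 152) (nat_lit 5) (nat_lit 155) (nat_lit 5) (nat_lit 153) (nat_lit 5) (nat_lit 427) (nat_lit 329) (nat_lit 264)) (XT.lf (nat_lit 0) (nat_lit 10336136221) (nat_lit 228) (nat_lit 5633987422) (nat_lit 76) (nat_lit 1485353211) (nat_lit 150) (nat_lit 5) (nat_lit 153) (nat_lit 5) (nat_lit 151) (nat_lit 4) (nat_lit 428) (nat_lit 329) (nat_lit 263))) (XT.nd (nat_lit 78) (nat_lit 228) (nat_lit 0) (XT.lf (nat_lit 0) (nat_lit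 7187535411) (nat_lit 76) (nat_lit 9527902073) (nat_lit 152) (nat_lit 1054516398) (nat_lit 149) (nat_lit 5) (nat_lit 150) (nat_lit 5) (nat_lit 151) (nat_lit 4) (nat_lit 429) (nat_lit 329) (nat_lit 262)) (XT.lf (nat_lit 0) (nat_lit 2327598644) (nat_lit 152) (nat_lit 2797854452) (nat_lit 228) (nat_lit 12965879190) (nat_lit 146) (nat_lit 5) (nat_lit 148) (nat_lit 5) (nat_lit 149) (nat_lit 5) (nat_lit 430) (nat_lit 329) (nat_lit 261)))) (XT.nd (nat_lit 156) (nat_lit 304) (nat_lit 0) (XT.nd (nat_lit 78) (nat_lit 76) (nat_lit 0) (XT.lf (nat_lit 0) (nat_lit 11572120260) (nat_lit 228) (nat_lit 2713066333) (nat_lit 76) (nat_lit 4133777428) (nat_lit 146) (nat_lit 5) (nat_lit 149) (nat_lit 5) (nat_lit 147) (nat_lit 4) (nat_lit 431) (nat_lit 329) (nat_lit 260)) (XT.lf (nat_lit 0) (nat_lit 10830700018) (nat_lit 76) (nat_lit 7469449932) (nat_lit 152) (nat_lit 453635881) (nat_lit 145) (nat_lit 5) (nat_lit 146) (nat_lit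 5) (nat_lit 147) (nat_lit 4) (nat_lit 432) (nat_lit 329) (nat_lit 259))) (XT.nd (nat_lit 78) (nat_lit 76) (nat_lit 0) (XT.lf (nat_lit 0) (nat_lit 5708617913) (nat_lit 152) (nat_lit 341864359) (nat_lit 228) (nat_lit 13045239097) (nat_lit 142) (nat_lit 5) (nat_lit 144) (nat_lit 5) (nat_lit 145) (nat_lit 5) (nat_lit 433) (nat_lit 329) (nat_lit 258)) (XT.lf (nat_lit 0) (nat_lit 317542269) (nat_lit 76) (nat_lit 12530544543) (nat_lit 152) (nat_lit 6596469003) (nat_lit 141) (nat_lit 5) (nat_lit 142) (nat_lit 5) (nat_lit 143) (nat_lit 4) (nat_lit 434) (nat_lit 329) (nat_lit 257)))))) (XT.nd (nat_lit 546) (nat_lit 684) (nat_lit 0) (XT.nd (nat_lit 234) (nat_lit 532) (nat_lit 0) (XT.nd (nat_lit 78) (nat_lit 228) (nat_lit 0) (XT.lf (nat_lit 0) (nat_lit 141183388) (nat_lit 152) (nat_lit 5179534311) (nat_lit 76) (nat_lit 14480235031) (nat_lit 140) (nat_lit 5) (nat_lit 142) (nat_lit 5) (nat_lit 141) (nat_lit 5) (nat_lit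 435) (nat_lit 329) (nat_lit 256)) (XT.nd (nat_lit 78) (nat_lit 76) (nat_lit 0) (XT.lf (nat_lit 0) (nat_lit 7016097914) (nat_lit 228) (nat_lit 10965023554) (nat_lit 76) (nat_lit 2182929285) (nat_lit 138) (nat_lit 5) (nat_lit 141) (nat_lit 5) (nat_lit 139) (nat_lit 4) (nat_lit 436) (nat_lit 329) (nat_lit 255)) (XT.lf (nat_lit 0) (nat_lit 3513983444) (nat_lit 76) (nat_lit 10680345169) (nat_lit 152) (nat_lit 6340801042) (nat_lit 137) (nat_lit 5) (nat_lit 138) (nat_lit 5) (nat_lit 139) (nat_lit 4) (nat_lit 437) (nat_lit 329) (nat_lit 254)))) (XT.nd (nat_lit 156) (nat_lit 304) (nat_lit 0) (XT.nd (nat_lit 78) (nat_lit 152) (nat_lit 0) (XT.lf (nat_lit 0) (nat_lit 727144830) (nat_lit 152) (nat_lit 2349519893) (nat_lit 76) (nat_lit 17838392887) (nat_lit 136) (nat_lit 5) (nat_lit 138) (nat_lit 5) (nat_lit 137) (nat_lit 5) (nat_lit 438) (nat_lit 329) (nat_lit 253)) (XT.lf (nat_lit 0) (nat_lit 8009700492) (nat_lit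 228) (nat_lit 8476304271) (nat_lit 76) (nat_lit 4814594775) (nat_lit 134) (nat_lit 5) (nat_lit 137) (nat_lit 5) (nat_lit 135) (nat_lit 4) (nat_lit 439) (nat_lit 329) (nat_lit 252))) (XT.nd (nat_lit 78) (nat_lit 228) (nat_lit 0) (XT.lf (nat_lit 0) (nat_lit 6829197483) (nat_lit 76) (nat_lit 8760776174) (nat_lit 152) (nat_lit 6105356841) (nat_lit 133) (nat_lit 5) (nat_lit 134) (nat_lit 5) (nat_lit 135) (nat_lit 4) (nat_lit 440) (nat_lit 329) (nat_lit 251)) (XT.lf (nat_lit 0) (nat_lit 588558656) (nat_lit 152) (nat_lit 733227497) (nat_lit 228) (nat_lit 20778203989) (nat_lit 130) (nat_lit 5) (nat_lit 132) (nat_lit 5) (nat_lit 133) (nat_lit 5) (nat_lit 441) (nat_lit 329) (nat_lit 250))))) (XT.nd (nat_lit 312) (nat_lit 380) (nat_lit 0) (XT.nd (nat_lit 156) (nat_lit 228) (nat_lit 0) (XT.nd (nat_lit 78) (nat_lit 76) (nat_lit 0) (XT.lf (nat_lit 0) (nat_lit 9032381943) (nat_lit 228) (nat_lit 5913021862) (nat_lit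 76) (nat_lit 7564071795) (nat_lit 130) (nat_lit 5) (nat_lit 133) (nat_lit 5) (nat_lit 131) (nat_lit 4) (nat_lit 442) (nat_lit 329) (nat_lit 249)) (XT.lf (nat_lit 0) (nat_lit 10270771744) (nat_lit 76) (nat_lit 6770010113) (nat_lit 152) (nat_lit 5888469176) (nat_lit 129) (nat_lit 5) (nat_lit 130) (nat_lit 5) (nat_lit 131) (nat_lit 4) (nat_lit 443) (nat_lit 329) (nat_lit 248))) (XT.nd (nat_lit 78) (nat_lit 0) (nat_lit 0) (XT.lf (nat_lit 0) (nat_lit 1963044153) (nat_lit 228) (nat_lit 19697680478) (nat_lit 76) (nat_lit 1698153698) (nat_lit 126) (nat_lit 5) (nat_lit 129) (nat_lit 5) (nat_lit 127) (nat_lit 4) (nat_lit 444) (nat_lit 329) (nat_lit 247)) (XT.lf (nat_lit 0) (nat_lit 10088494288) (nat_lit 228) (nat_lit 3270058352) (nat_lit 76) (nat_lit 10436390437) (nat_lit 126) (nat_lit 5) (nat_lit 129) (nat_lit 5) (nat_lit 127) (nat_lit 4) (nat_lit 445) (nat_lit 329) (nat_lit 246)))) (XT.nd (nat_lit 156) (nat_lit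 76) (nat_lit 0) (XT.nd (nat_lit 78) (nat_lit 228) (nat_lit 0) (XT.lf (nat_lit 0) (nat_lit 13846952345) (nat_lit 76) (nat_lit 4705630454) (nat_lit 152) (nat_lit 5688660725) (nat_lit 125) (nat_lit 5) (nat_lit 126) (nat_lit 5) (nat_lit 127) (nat_lit 4) (nat_lit 446) (nat_lit 329) (nat_lit 245)) (XT.lf (nat_lit 0) (nat_lit 2622136685) (nat_lit 228) (nat_lit 17859571190) (nat_lit 76) (nat_lit 4215405502) (nat_lit 122) (nat_lit 5) (nat_lit 125) (nat_lit 5) (nat_lit 123) (nat_lit 4) (nat_lit 447) (nat_lit 329) (nat_lit 244))) (XT.nd (nat_lit 78) (nat_lit 76) (nat_lit 0) (XT.lf (nat_lit 0) (nat_lit 11182393668) (nat_lit 228) (nat_lit 541815153) (nat_lit 76) (nat_lit 13437326642) (nat_lit 122) (nat_lit 5) (nat_lit 125) (nat_lit 5) (nat_lit 123) (nat_lit 4) (nat_lit 448) (nat_lit 329) (nat_lit 243)) (XT.lf (nat_lit 0) (nat_lit 17566655470) (nat_lit 76) (nat_lit 2564655113) (nat_lit 152) (nat_lit 5504624060) (nat_lit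 121) (nat_lit 5) (nat_lit 122) (nat_lit 5) (nat_lit 123) (nat_lit 4) (nat_lit 449) (nat_lit 329) (nat_lit 242))))))) (XT.nd (nat_lit 1170) (nat_lit 1292) (nat_lit 0) (XT.nd (nat_lit 546) (nat_lit 608) (nat_lit 0) (XT.nd (nat_lit 234) (nat_lit 380) (nat_lit 0) (XT.nd (nat_lit 78) (nat_lit 76) (nat_lit 0) (XT.lf (nat_lit 0) (nat_lit 3294862513) (nat_lit 228) (nat_lit 15987207097) (nat_lit 76) (nat_lit 6837556989) (nat_lit 118) (nat_lit 5) (nat_lit 121) (nat_lit 5) (nat_lit 119) (nat_lit 4) (nat_lit 450) (nat_lit 329) (nat_lit 241)) (XT.nd (nat_lit 78) (nat_lit 0) (nat_lit 0) (XT.lf (nat_lit 0) (nat_lit 2323123078) (nat_lit 76) (nat_lit 10017677106) (nat_lit 152) (nat_lit 14272600974) (nat_lit 117) (nat_lit 5) (nat_lit 118) (nat_lit 5) (nat_lit 119) (nat_lit 4) (nat_lit 451) (nat_lit 329) (nat_lit 240)) (XT.lf (nat_lit 0) (nat_lit 21439482777) (nat_lit 76) (nat_lit 343554619) (nat_lit 152) (nat_lit 5335203915)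 (nat_lit 117) (nat_lit 5) (nat_lit 118) (nat_lit 5) (nat_lit 119) (nat_lit 4) (nat_lit 452) (nat_lit 329) (nat_lit 239)))) (XT.nd (nat_lit 156) (nat_lit 152) (nat_lit 0) (XT.nd (nat_lit 78) (nat_lit 76) (nat_lit 0) (XT.lf (nat_lit 0) (nat_lit 3984027198) (nat_lit 152) (nat_lit 14077442671) (nat_lit 76) (nat_lit 9569963606) (nat_lit 115) (nat_lit 5) (nat_lit 117) (nat_lit 5) (nat_lit 116) (nat_lit 4) (nat_lit 453) (nat_lit 329) (nat_lit 238)) (XT.lf (nat_lit 0) (nat_lit 5298730168) (nat_lit 76) (nat_lit 8253373140) (nat_lit 152) (nat_lit 14604038372) (nat_lit 114) (nat_lit 5) (nat_lit 115) (nat_lit 5) (nat_lit 116) (nat_lit 4) (nat_lit 454) (nat_lit 329) (nat_lit 237))) (XT.nd (nat_lit 78) (nat_lit 152) (nat_lit 0) (XT.lf (nat_lit 0) (nat_lit 23532863511) (nat_lit 152) (nat_lit 3236504223) (nat_lit 0) (nat_lit 1923454142) (nat_lit 114) (nat_lit 5) (nat_lit 116) (nat_lit 4) (nat_lit 114) (nat_lit 4) (nat_lit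 455) (nat_lit 329) (nat_lit 236)) (XT.lf (nat_lit 0) (nat_lit 4692415445) (nat_lit 152) (nat_lit 12126837497) (nat_lit 76) (nat_lit 12418609423) (nat_lit 112) (nat_lit 5) (nat_lit 114) (nat_lit 5) (nat_lit 113) (nat_lit 4) (nat_lit 456) (nat_lit 329) (nat_lit 235))))) (XT.nd (nat_lit 312) (nat_lit 304) (nat_lit 0) (XT.nd (nat_lit 156) (nat_lit 228) (nat_lit 0) (XT.nd (nat_lit 78) (nat_lit 0) (nat_lit 0) (XT.lf (nat_lit 0) (nat_lit 8381438967) (nat_lit 76) (nat_lit 6434156086) (nat_lit 152) (nat_lit 14979758017) (nat_lit 111) (nat_lit 5) (nat_lit 112) (nat_lit 5) (nat_lit 113) (nat_lit 4) (nat_lit 457) (nat_lit 329) (nat_lit 234)) (XT.lf (nat_lit 0) (nat_lit 25372532861) (nat_lit 152) (nat_lit 722329327) (nat_lit 0) (nat_lit 4270804422) (nat_lit 111) (nat_lit 5) (nat_lit 113) (nat_lit 4) (nat_lit 111) (nat_lit 4) (nat_lit 458) (nat_lit 329) (nat_lit 233))) (XT.nd (nat_lit 78) (nat_lit 76) (nat_lit 0)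 (XT.lf (nat_lit 0) (nat_lit 5422810379) (nat_lit 152) (nat_lit 10131656284) (nat_lit 76) (nat_lit 15390106231) (nat_lit 109) (nat_lit 5) (nat_lit 111) (nat_lit 5) (nat_lit 110) (nat_lit 4) (nat_lit 459) (nat_lit 329) (nat_lit 232)) (XT.lf (nat_lit 0) (nat_lit 11578990016) (nat_lit 76) (nat_lit 4557005405) (nat_lit 152) (nat_lit 15400814247) (nat_lit 108) (nat_lit 5) (nat_lit 109) (nat_lit 5) (nat_lit 110) (nat_lit 4) (nat_lit 460) (nat_lit 329) (nat_lit 231)))) (XT.nd (nat_lit 156) (nat_lit 152) (nat_lit 0) (XT.nd (nat_lit 78) (nat_lit 76) (nat_lit 0) (XT.lf (nat_lit 0) (nat_lit 1910190319) (nat_lit 76) (nat_lit 25413643273) (nat_lit 76) (nat_lit 4818382225) (nat_lit 107) (nat_lit 4) (nat_lit 108) (nat_lit 5) (nat_lit 108) (nat_lit 4) (nat_lit 461) (nat_lit 329) (nat_lit 230)) (XT.lf (nat_lit 0) (nat_lit 6178011728) (nat_lit 152) (nat_lit 8087866689) (nat_lit 76) (nat_lit 18491697113) (nat_lit 106)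 (nat_lit 5) (nat_lit 108) (nat_lit 5) (nat_lit 107) (nat_lit 4) (nat_lit 462) (nat_lit 329) (nat_lit 229))) (XT.nd (nat_lit 78) (nat_lit 76) (nat_lit 0) (XT.lf (nat_lit 0) (nat_lit 14899664666) (nat_lit 76) (nat_lit 2618500463) (nat_lit 152) (nat_lit 15868478333) (nat_lit 105) (nat_lit 5) (nat_lit 106) (nat_lit 5) (nat_lit 107) (nat_lit 4) (nat_lit 463) (nat_lit 329) (nat_lit 228)) (XT.lf (nat_lit 0) (nat_lit 4646157063) (nat_lit 76) (nat_lit 24737183645) (nat_lit 76) (nat_lit 4645698196) (nat_lit 104) (nat_lit 4) (nat_lit 105) (nat_lit 5) (nat_lit 105) (nat_lit 4) (nat_lit 464) (nat_lit 329) (nat_lit 227)))))) (XT.nd (nat_lit 624) (nat_lit 684) (nat_lit 0) (XT.nd (nat_lit 312) (nat_lit 304) (nat_lit 0) (XT.nd (nat_lit 156) (nat_lit 152) (nat_lit 0) (XT.nd (nat_lit 78) (nat_lit 76) (nat_lit 0) (XT.lf (nat_lit 0) (nat_lit 6960853102) (nat_lit 152) (nat_lit 5991135066) (nat_lit 76) (nat_lit 21731264255)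 (nat_lit 103) (nat_lit 5) (nat_lit 105) (nat_lit 5) (nat_lit 104) (nat_lit 4) (nat_lit 465) (nat_lit 329) (nat_lit 226)) (XT.lf (nat_lit 0) (nat_lit 18352304294) (nat_lit 76) (nat_lit 614825511) (nat_lit 152) (nat_lit 16384235548) (nat_lit 102) (nat_lit 5) (nat_lit 103) (nat_lit 5) (nat_lit 104) (nat_lit 4) (nat_lit 466) (nat_lit 329) (nat_lit 225))) (XT.nd (nat_lit 78) (nat_lit 76) (nat_lit 0) (XT.lf (nat_lit 0) (nat_lit 7478020417) (nat_lit 76) (nat_lit 24073318491) (nat_lit 76) (nat_lit 4481650440) (nat_lit 101) (nat_lit 4) (nat_lit 102) (nat_lit 5) (nat_lit 102) (nat_lit 4) (nat_lit 467) (nat_lit 329) (nat_lit 224)) (XT.lf (nat_lit 0) (nat_lit 7774218529) (nat_lit 152) (nat_lit 3836820233) (nat_lit 76) (nat_lit 25117340791) (nat_lit 100) (nat_lit 5) (nat_lit 102) (nat_lit 5) (nat_lit 101) (nat_lit 4) (nat_lit 468) (nat_lit 329) (nat_lit 223)))) (XT.nd (nat_lit 156) (nat_lit 152) (nat_lit 0) (XT.nd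 (nat_lit 78) (nat_lit 76) (nat_lit 0) (XT.lf (nat_lit 0) (nat_lit 20502121323) (nat_lit 152) (nat_lit 15505572758) (nat_lit 0) (nat_lit 1429773164) (nat_lit 99) (nat_lit 5) (nat_lit 101) (nat_lit 4) (nat_lit 99) (nat_lit 4) (nat_lit 469) (nat_lit 329) (nat_lit 222)) (XT.lf (nat_lit 0) (nat_lit 10413058569) (nat_lit 76) (nat_lit 23422473641) (nat_lit 76) (nat_lit 4325585228) (nat_lit 98) (nat_lit 4) (nat_lit 99) (nat_lit 5) (nat_lit 99) (nat_lit 4) (nat_lit 470) (nat_lit 329) (nat_lit 221))) (XT.nd (nat_lit 78) (nat_lit 76) (nat_lit 0) (XT.lf (nat_lit 0) (nat_lit 8621058405) (nat_lit 152) (nat_lit 1619965337) (nat_lit 76) (nat_lit 28659126543) (nat_lit 97) (nat_lit 5) (nat_lit 99) (nat_lit 5) (nat_lit 98) (nat_lit 4) (nat_lit 471) (nat_lit 329) (nat_lit 220)) (XT.lf (nat_lit 0) (nat_lit 22121170770) (nat_lit 152) (nat_lit 13996425183) (nat_lit 0) (nat_lit 3534913057) (nat_lit 96) (nat_lit 5) (nat_lit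 98) (nat_lit 4) (nat_lit 96) (nat_lit 4) (nat_lit 472) (nat_lit 329) (nat_lit 219))))) (XT.nd (nat_lit 312) (nat_lit 380) (nat_lit 0) (XT.nd (nat_lit 156) (nat_lit 76) (nat_lit 0) (XT.nd (nat_lit 78) (nat_lit 152) (nat_lit 0) (XT.lf (nat_lit 0) (nat_lit 13459020403) (nat_lit 76) (nat_lit 22784974131) (nat_lit 76) (nat_lit 4176912721) (nat_lit 95) (nat_lit 4) (nat_lit 96) (nat_lit 5) (nat_lit 96) (nat_lit 4) (nat_lit 473) (nat_lit 329) (nat_lit 218)) (XT.lf (nat_lit 0) (nat_lit 677941192) (nat_lit 76) (nat_lit 8832980601) (nat_lit 152) (nat_lit 31695083114) (nat_lit 93) (nat_lit 5) (nat_lit 94) (nat_lit 5) (nat_lit 95) (nat_lit 4) (nat_lit 474) (nat_lit 329) (nat_lit 217))) (XT.nd (nat_lit 78) (nat_lit 76) (nat_lit 0) (XT.lf (nat_lit 0) (nat_lit 23824080092) (nat_lit 152) (nat_lit 12462880008) (nat_lit 0) (nat_lit 5717495505) (nat_lit 93) (nat_lit 5) (nat_lit 95) (nat_lit 4) (nat_lit 93) (nat_lit 4)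 (nat_lit 475) (nat_lit 329) (nat_lit 216)) (XT.lf (nat_lit 0) (nat_lit 16624145636) (nat_lit 76) (nat_lit 22161056996) (nat_lit 76) (nat_lit 4035100106) (nat_lit 92) (nat_lit 4) (nat_lit 93) (nat_lit 5) (nat_lit 93) (nat_lit 4) (nat_lit 476) (nat_lit 329) (nat_lit 215)))) (XT.nd (nat_lit 156) (nat_lit 228) (nat_lit 0) (XT.nd (nat_lit 78) (nat_lit 0) (nat_lit 0) (XT.lf (nat_lit 0) (nat_lit 3082992343) (nat_lit 76) (nat_lit 7374030954) (nat_lit 152) (nat_lit 33196722365) (nat_lit 90) (nat_lit 5) (nat_lit 91) (nat_lit 5) (nat_lit 92) (nat_lit 4) (nat_lit 477) (nat_lit 329) (nat_lit 214)) (XT.lf (nat_lit 0) (nat_lit 25616826141) (nat_lit 152) (nat_lit 10901925582) (nat_lit 0) (nat_lit 7982821088) (nat_lit 90) (nat_lit 5) (nat_lit 92) (nat_lit 4) (nat_lit 90) (nat_lit 4) (nat_lit 478) (nat_lit 329) (nat_lit 213))) (XT.nd (nat_lit 78) (nat_lit 152) (nat_lit 0) (XT.lf (nat_lit 0) (nat_lit 19917187287) (nat_lit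 76) (nat_lit 21550882588) (nat_lit 76) (nat_lit 3899665495) (nat_lit 89) (nat_lit 4) (nat_lit 90) (nat_lit 5) (nat_lit 90) (nat_lit 4) (nat_lit 479) (nat_lit 329) (nat_lit 212)) (XT.lf (nat_lit 0) (nat_lit 5569037363) (nat_lit 76) (nat_lit 5877743511) (nat_lit 152) (nat_lit 34805668451) (nat_lit 87) (nat_lit 5) (nat_lit 88) (nat_lit 5) (nat_lit 89) (nat_lit 4) (nat_lit 480) (nat_lit 329) (nat_lit 211))))))))
noncomputable def xc75 : XT := (XT.nd (nat_lit 44928) (nat_lit 0) (nat_lit 9348) (XT.nd (nat_lit 43758) (nat_lit 0) (nat_lit 18164) (XT.nd (nat_lit 546) (nat_lit 532) (nat_lit 0) (XT.nd (nat_lit 234) (nat_lit 228) (nat_lit 0) (XT.nd (nat_lit 78) (nat_lit 228) (nat_lit 0) (XT.lf (nat_lit 0) (nat_lit 27505675308) (nat_lit 152) (nat_lit 9310362171) (nat_lit 0) (nat_lit 10336595880) (nat_lit 87) (nat_lit 5) (nat_lit 89) (nat_lit 4) (nat_lit 87) (nat_lit 4) (nat_lit 481) (nat_lit 329) (nat_lit 210))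 (XT.nd (nat_lit 78) (nat_lit 152) (nat_lit 0) (XT.lf (nat_lit 0) (nat_lit 23347436495) (nat_lit 76) (nat_lit 20954544593) (nat_lit 76) (nat_lit 3770172491) (nat_lit 86) (nat_lit 4) (nat_lit 87) (nat_lit 5) (nat_lit 87) (nat_lit 4) (nat_lit 482) (nat_lit 329) (nat_lit 209)) (XT.lf (nat_lit 0) (nat_lit 8142539561) (nat_lit 76) (nat_lit 4341085522) (nat_lit 152) (nat_lit 36527618288) (nat_lit 84) (nat_lit 5) (nat_lit 85) (nat_lit 5) (nat_lit 86) (nat_lit 4) (nat_lit 483) (nat_lit 329) (nat_lit 208)))) (XT.nd (nat_lit 156) (nat_lit 152) (nat_lit 0) (XT.nd (nat_lit 78) (nat_lit 76) (nat_lit 0) (XT.lf (nat_lit 0) (nat_lit 29497208804) (nat_lit 152) (nat_lit 7684796112) (nat_lit 0) (nat_lit 12784942618) (nat_lit 84) (nat_lit 5) (nat_lit 86) (nat_lit 4) (nat_lit 84) (nat_lit 4) (nat_lit 484) (nat_lit 329) (nat_lit 207)) (XT.lf (nat_lit 0) (nat_lit 26924749724) (nat_lit 76) (nat_lit 20372078886) (nat_lit 76)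 (nat_lit 3646225356) (nat_lit 83) (nat_lit 4) (nat_lit 84) (nat_lit 5) (nat_lit 84) (nat_lit 4) (nat_lit 485) (nat_lit 329) (nat_lit 206))) (XT.nd (nat_lit 78) (nat_lit 0) (nat_lit 0) (XT.lf (nat_lit 0) (nat_lit 10810353231) (nat_lit 76) (nat_lit 2760778964) (nat_lit 152) (nat_lit 38368682092) (nat_lit 81) (nat_lit 5) (nat_lit 82) (nat_lit 5) (nat_lit 83) (nat_lit 4) (nat_lit 486) (nat_lit 329) (nat_lit 205)) (XT.lf (nat_lit 0) (nat_lit 31598348644) (nat_lit 152) (nat_lit 6021632848) (nat_lit 0) (nat_lit 15334414178) (nat_lit 81) (nat_lit 5) (nat_lit 83) (nat_lit 4) (nat_lit 81) (nat_lit 4) (nat_lit 487) (nat_lit 329) (nat_lit 204))))) (XT.nd (nat_lit 312) (nat_lit 228) (nat_lit 0) (XT.nd (nat_lit 156) (nat_lit 76) (nat_lit 0) (XT.nd (nat_lit 78) (nat_lit 152) (nat_lit 0) (XT.lf (nat_lit 0) (nat_lit 30659578383) (nat_lit 76) (nat_lit 19803471356) (nat_lit 76) (nat_lit 3527464711) (nat_lit 80) (nat_lit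 4) (nat_lit 81) (nat_lit 5) (nat_lit 81) (nat_lit 4) (nat_lit 488) (nat_lit 329) (nat_lit 203)) (XT.lf (nat_lit 0) (nat_lit 13579742859) (nat_lit 76) (nat_lit 1133296581) (nat_lit 152) (nat_lit 40335401948) (nat_lit 78) (nat_lit 5) (nat_lit 79) (nat_lit 5) (nat_lit 80) (nat_lit 4) (nat_lit 489) (nat_lit 329) (nat_lit 202))) (XT.nd (nat_lit 78) (nat_lit 76) (nat_lit 0) (XT.lf (nat_lit 0) (nat_lit 33816384469) (nat_lit 152) (nat_lit 4317068846) (nat_lit 0) (nat_lit 17992009330) (nat_lit 78) (nat_lit 5) (nat_lit 80) (nat_lit 4) (nat_lit 78) (nat_lit 4) (nat_lit 490) (nat_lit 329) (nat_lit 201)) (XT.lf (nat_lit 0) (nat_lit 34563000936) (nat_lit 76) (nat_lit 19248664819) (nat_lit 76) (nat_lit 3413563706) (nat_lit 77) (nat_lit 4) (nat_lit 78) (nat_lit 5) (nat_lit 78) (nat_lit 4) (nat_lit 491) (nat_lit 329) (nat_lit 200)))) (XT.nd (nat_lit 156) (nat_lit 76) (nat_lit 0) (XT.nd (nat_lit 78) (nat_lit 0) (nat_lit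 0) (XT.lf (nat_lit 0) (nat_lit 15918500765) (nat_lit 152) (nat_lit 41894868812) (nat_lit 0) (nat_lit 534505930) (nat_lit 75) (nat_lit 5) (nat_lit 77) (nat_lit 4) (nat_lit 75) (nat_lit 4) (nat_lit 492) (nat_lit 329) (nat_lit 199)) (XT.lf (nat_lit 0) (nat_lit 36159001351) (nat_lit 152) (nat_lit 2567082421) (nat_lit 0) (nat_lit 20765190730) (nat_lit 75) (nat_lit 5) (nat_lit 77) (nat_lit 4) (nat_lit 75) (nat_lit 4) (nat_lit 493) (nat_lit 329) (nat_lit 198))) (XT.nd (nat_lit 42666) (nat_lit 0) (nat_lit 27284) (XT.lf (nat_lit 0) (nat_lit 38646757557) (nat_lit 76) (nat_lit 18707565125) (nat_lit 76) (nat_lit 3304224614) (nat_lit 74) (nat_lit 4) (nat_lit 75) (nat_lit 5) (nat_lit 75) (nat_lit 4) (nat_lit 494) (nat_lit 329) (nat_lit 197)) (XT.lf (nat_lit 0) (nat_lit 254710058) (nat_lit 988) (nat_lit 2922815464) (nat_lit 0) (nat_lit 254710058) (nat_lit 433) (nat_lit 5) (nat_lit 446) (nat_lit 4) (nat_lit 433) (nat_lit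 4) (nat_lit 360) (nat_lit 330) (nat_lit 330)))))) (XT.nd (nat_lit 546) (nat_lit 3648) (nat_lit 0) (XT.nd (nat_lit 234) (nat_lit 3344) (nat_lit 0) (XT.nd (nat_lit 78) (nat_lit 2128) (nat_lit 0) (XT.lf (nat_lit 0) (nat_lit 3936765601) (nat_lit 988) (nat_lit 983185760) (nat_lit 0) (nat_lit 1987871215) (nat_lit 433) (nat_lit 5) (nat_lit 446) (nat_lit 4) (nat_lit 433) (nat_lit 4) (nat_lit 361) (nat_lit 330) (nat_lit 329)) (XT.nd (nat_lit 78) (nat_lit 1064) (nat_lit 0) (XT.lf (nat_lit 0) (nat_lit 437554543) (nat_lit 1064) (nat_lit 2952789134) (nat_lit 76) (nat_lit 3563988398) (nat_lit 419) (nat_lit 5) (nat_lit 433) (nat_lit 5) (nat_lit 420) (nat_lit 4) (nat_lit 362) (nat_lit 330) (nat_lit 328)) (XT.lf (nat_lit 0) (nat_lit 2066386999) (nat_lit 1064) (nat_lit 1748604002) (nat_lit 1140) (nat_lit 3188574911) (nat_lit 405) (nat_lit 5) (nat_lit 419) (nat_lit 5) (nat_lit 420) (nat_lit 4) (nat_lit 363) (nat_lit 330)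 (nat_lit 327)))) (XT.nd (nat_lit 156) (nat_lit 2128) (nat_lit 0) (XT.nd (nat_lit 78) (nat_lit 0) (nat_lit 0) (XT.lf (nat_lit 0) (nat_lit 143972498) (nat_lit 1140) (nat_lit 19792227) (nat_lit 1216) (nat_lit 6892574060) (nat_lit 389) (nat_lit 5) (nat_lit 404) (nat_lit 5) (nat_lit 405) (nat_lit 5) (nat_lit 364) (nat_lit 330) (nat_lit 326)) (XT.lf (nat_lit 0) (nat_lit 3519388633) (nat_lit 1216) (nat_lit 1781006702) (nat_lit 76) (nat_lit 1810348371) (nat_lit 389) (nat_lit 5) (nat_lit 405) (nat_lit 5) (nat_lit 390) (nat_lit 4) (nat_lit 365) (nat_lit 330) (nat_lit 325))) (XT.nd (nat_lit 78) (nat_lit 912) (nat_lit 0) (XT.lf (nat_lit 0) (nat_lit 3473249088) (nat_lit 1216) (nat_lit 3438466716) (nat_lit 1292) (nat_lit 256983934) (nat_lit 373) (nat_lit 5) (nat_lit 389) (nat_lit 5) (nat_lit 390) (nat_lit 4) (nat_lit 366) (nat_lit 330) (nat_lit 324)) (XT.lf (nat_lit 0) (nat_lit 1594601898) (nat_lit 836) (nat_lit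 1457711667) (nat_lit 912) (nat_lit 4177057643) (nat_lit 361) (nat_lit 5) (nat_lit 372) (nat_lit 5) (nat_lit 373) (nat_lit 5) (nat_lit 367) (nat_lit 330) (nat_lit 323))))) (XT.nd (nat_lit 312) (nat_lit 1748) (nat_lit 0) (XT.nd (nat_lit 156) (nat_lit 1216) (nat_lit 0) (XT.nd (nat_lit 78) (nat_lit 684) (nat_lit 0) (XT.lf (nat_lit 0) (nat_lit 6404245532) (nat_lit 912) (nat_lit 281555065) (nat_lit 76) (nat_lit 607530275) (nat_lit 361) (nat_lit 5) (nat_lit 373) (nat_lit 5) (nat_lit 362) (nat_lit 4) (nat_lit 368) (nat_lit 330) (nat_lit 322)) (XT.lf (nat_lit 0) (nat_lit 2421137469) (nat_lit 684) (nat_lit 2162513497) (nat_lit 76) (nat_lit 2775667715) (nat_lit 352) (nat_lit 5) (nat_lit 361) (nat_lit 5) (nat_lit 353) (nat_lit 5) (nat_lit 369) (nat_lit 330) (nat_lit 321))) (XT.nd (nat_lit 78) (nat_lit 608) (nat_lit 0) (XT.lf (nat_lit 0) (nat_lit 3375827288) (nat_lit 608) (nat_lit 2381136196) (nat_lit 684) (nat_lit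 1671733567) (nat_lit 344) (nat_lit 5) (nat_lit 352) (nat_lit 5) (nat_lit 353) (nat_lit 5) (nat_lit 370) (nat_lit 330) (nat_lit 320)) (XT.lf (nat_lit 0) (nat_lit 1538553710) (nat_lit 532) (nat_lit 67634495) (nat_lit 608) (nat_lit 5895085082) (nat_lit 336) (nat_lit 5) (nat_lit 343) (nat_lit 5) (nat_lit 344) (nat_lit 5) (nat_lit 371) (nat_lit 330) (nat_lit 319)))) (XT.nd (nat_lit 156) (nat_lit 1064) (nat_lit 0) (XT.nd (nat_lit 78) (nat_lit 684) (nat_lit 0) (XT.lf (nat_lit 0) (nat_lit 4923680245) (nat_lit 608) (nat_lit 334916732) (nat_lit 76) (nat_lit 2317688294) (nat_lit 336) (nat_lit 5) (nat_lit 344) (nat_lit 5) (nat_lit 337) (nat_lit 5) (nat_lit 372) (nat_lit 330) (nat_lit 318)) (XT.lf (nat_lit 0) (nat_lit 640486768) (nat_lit 684) (nat_lit 2191786076) (nat_lit 76) (nat_lit 4822074229) (nat_lit 327) (nat_lit 5) (nat_lit 336) (nat_lit 5) (nat_lit 328) (nat_lit 5) (nat_lit 373) (nat_lit 330) (nat_lit 317)))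 (XT.nd (nat_lit 78) (nat_lit 532) (nat_lit 0) (XT.lf (nat_lit 0) (nat_lit 3651664848) (nat_lit 532) (nat_lit 280472376) (nat_lit 608) (nat_lit 3803233183) (nat_lit 320) (nat_lit 5) (nat_lit 327) (nat_lit 5) (nat_lit 328) (nat_lit 5) (nat_lit 374) (nat_lit 330) (nat_lit 316)) (XT.lf (nat_lit 0) (nat_lit 1808820627) (nat_lit 532) (nat_lit 5491989567) (nat_lit 608) (nat_lit 518666058) (nat_lit 313) (nat_lit 5) (nat_lit 320) (nat_lit 5) (nat_lit 321) (nat_lit 5) (nat_lit 375) (nat_lit 330) (nat_lit 315))))))) (XT.nd (nat_lit 1170) (nat_lit 3800) (nat_lit 0) (XT.nd (nat_lit 546) (nat_lit 2508) (nat_lit 0) (XT.nd (nat_lit 234) (nat_lit 1368) (nat_lit 0) (XT.nd (nat_lit 78) (nat_lit 1064) (nat_lit 0) (XT.lf (nat_lit 0) (nat_lit 2769599749) (nat_lit 608) (nat_lit 75299594) (nat_lit 76) (nat_lit 5061548170) (nat_lit 312) (nat_lit 5) (nat_lit 320) (nat_lit 5) (nat_lit 313) (nat_lit 5) (nat_lit 376) (nat_lit 330)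 (nat_lit 314)) (XT.nd (nat_lit 78) (nat_lit 608) (nat_lit 0) (XT.lf (nat_lit 0) (nat_lit 6052499497) (nat_lit 456) (nat_lit 70832317) (nat_lit 532) (nat_lit 1873224752) (nat_lit 306) (nat_lit 5) (nat_lit 312) (nat_lit 5) (nat_lit 313) (nat_lit 5) (nat_lit 377) (nat_lit 330) (nat_lit 313)) (XT.lf (nat_lit 0) (nat_lit 1447695309) (nat_lit 608) (nat_lit 3871614373) (nat_lit 76) (nat_lit 2769977094) (nat_lit 298) (nat_lit 5) (nat_lit 306) (nat_lit 5) (nat_lit 299) (nat_lit 5) (nat_lit 378) (nat_lit 330) (nat_lit 312)))) (XT.nd (nat_lit 156) (nat_lit 456) (nat_lit 0) (XT.nd (nat_lit 78) (nat_lit 456) (nat_lit 0) (XT.lf (nat_lit 0) (nat_lit 2345798812) (nat_lit 456) (nat_lit 2448773326) (nat_lit 532) (nat_lit 3390750978) (nat_lit 292) (nat_lit 5) (nat_lit 298) (nat_lit 5) (nat_lit 299) (nat_lit 5) (nat_lit 379) (nat_lit 330) (nat_lit 311)) (XT.lf (nat_lit 0) (nat_lit 447934592) (nat_lit 456) (nat_lit 7764633710)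 (nat_lit 532) (nat_lit 72550852) (nat_lit 286) (nat_lit 5) (nat_lit 292) (nat_lit 5) (nat_lit 293) (nat_lit 5) (nat_lit 380) (nat_lit 330) (nat_lit 310))) (XT.nd (nat_lit 78) (nat_lit 380) (nat_lit 0) (XT.lf (nat_lit 0) (nat_lit 3286302595) (nat_lit 532) (nat_lit 1501516457) (nat_lit 76) (nat_lit 3598933818) (nat_lit 285) (nat_lit 5) (nat_lit 292) (nat_lit 5) (nat_lit 286) (nat_lit 5) (nat_lit 381) (nat_lit 330) (nat_lit 309)) (XT.lf (nat_lit 0) (nat_lit 5022369031) (nat_lit 380) (nat_lit 1695214501) (nat_lit 456) (nat_lit 1774636911) (nat_lit 280) (nat_lit 5) (nat_lit 285) (nat_lit 5) (nat_lit 286) (nat_lit 5) (nat_lit 382) (nat_lit 330) (nat_lit 308))))) (XT.nd (nat_lit 312) (nat_lit 1140) (nat_lit 0) (XT.nd (nat_lit 156) (nat_lit 456) (nat_lit 0) (XT.nd (nat_lit 78) (nat_lit 380) (nat_lit 0) (XT.lf (nat_lit 0) (nat_lit 1604059894) (nat_lit 532) (nat_lit 5498431404) (nat_lit 76) (nat_lit 1498324897)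 (nat_lit 273) (nat_lit 5) (nat_lit 280) (nat_lit 5) (nat_lit 274) (nat_lit 5) (nat_lit 383) (nat_lit 330) (nat_lit 307)) (XT.lf (nat_lit 0) (nat_lit 1117772601) (nat_lit 380) (nat_lit 3919929606) (nat_lit 456) (nat_lit 3674762900) (nat_lit 268) (nat_lit 5) (nat_lit 273) (nat_lit 5) (nat_lit 274) (nat_lit 5) (nat_lit 384) (nat_lit 330) (nat_lit 306))) (XT.nd (nat_lit 78) (nat_lit 456) (nat_lit 0) (XT.lf (nat_lit 0) (nat_lit 7945526539) (nat_lit 380) (nat_lit 611876645) (nat_lit 456) (nat_lit 270568821) (nat_lit 268) (nat_lit 5) (nat_lit 273) (nat_lit 5) (nat_lit 274) (nat_lit 5) (nat_lit 385) (nat_lit 330) (nat_lit 305)) (XT.lf (nat_lit 0) (nat_lit 3186903585) (nat_lit 456) (nat_lit 2954534580) (nat_lit 76) (nat_lit 2804144013) (nat_lit 262) (nat_lit 5) (nat_lit 268) (nat_lit 5) (nat_lit 263) (nat_lit 5) (nat_lit 386) (nat_lit 330) (nat_lit 304)))) (XT.nd (nat_lit 156) (nat_lit 304) (nat_lit 0) (XT.nd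 (nat_lit 78) (nat_lit 456) (nat_lit 0) (XT.lf (nat_lit 0) (nat_lit 3992429069) (nat_lit 380) (nat_lit 2733481429) (nat_lit 456) (nat_lit 2341232338) (nat_lit 257) (nat_lit 5) (nat_lit 262) (nat_lit 5) (nat_lit 263) (nat_lit 5) (nat_lit 387) (nat_lit 330) (nat_lit 303)) (XT.lf (nat_lit 0) (nat_lit 1142558441) (nat_lit 456) (nat_lit 7256651620) (nat_lit 76) (nat_lit 793195654) (nat_lit 251) (nat_lit 5) (nat_lit 257) (nat_lit 5) (nat_lit 252) (nat_lit 5) (nat_lit 388) (nat_lit 330) (nat_lit 302))) (XT.nd (nat_lit 78) (nat_lit 304) (nat_lit 0) (XT.lf (nat_lit 0) (nat_lit 4693652867) (nat_lit 456) (nat_lit 210328959) (nat_lit 76) (nat_lit 4416453847) (nat_lit 251) (nat_lit 5) (nat_lit 257) (nat_lit 5) (nat_lit 252) (nat_lit 5) (nat_lit 389) (nat_lit 330) (nat_lit 301)) (XT.lf (nat_lit 0) (nat_lit 7088372568) (nat_lit 304) (nat_lit 1264084334) (nat_lit 380) (nat_lit 1099814325) (nat_lit 247) (nat_lit 5) (nat_lit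 251) (nat_lit 5) (nat_lit 252) (nat_lit 5) (nat_lit 390) (nat_lit 330) (nat_lit 300)))))) (XT.nd (nat_lit 624) (nat_lit 1748) (nat_lit 0) (XT.nd (nat_lit 312) (nat_lit 912) (nat_lit 0) (XT.nd (nat_lit 156) (nat_lit 380) (nat_lit 0) (XT.nd (nat_lit 78) (nat_lit 304) (nat_lit 0) (XT.lf (nat_lit 0) (nat_lit 2491459249) (nat_lit 456) (nat_lit 4614347116) (nat_lit 76) (nat_lit 2481287332) (nat_lit 241) (nat_lit 5) (nat_lit 247) (nat_lit 5) (nat_lit 242) (nat_lit 5) (nat_lit 391) (nat_lit 330) (nat_lit 299)) (XT.lf (nat_lit 0) (nat_lit 2784996562) (nat_lit 304) (nat_lit 3380883197) (nat_lit 380) (nat_lit 3559828988) (nat_lit 237) (nat_lit 5) (nat_lit 241) (nat_lit 5) (nat_lit 242) (nat_lit 5) (nat_lit 392) (nat_lit 330) (nat_lit 298))) (XT.nd (nat_lit 78) (nat_lit 0) (nat_lit 0) (XT.lf (nat_lit 0) (nat_lit 71787527) (nat_lit 380) (nat_lit 9328994922) (nat_lit 76) (nat_lit 467935998) (nat_lit 232) (nat_lit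 5) (nat_lit 237) (nat_lit 5) (nat_lit 233) (nat_lit 5) (nat_lit 393) (nat_lit 330) (nat_lit 297)) (XT.lf (nat_lit 0) (nat_lit 3780168463) (nat_lit 380) (nat_lit 1795880408) (nat_lit 76) (nat_lit 4437731242) (nat_lit 232) (nat_lit 5) (nat_lit 237) (nat_lit 5) (nat_lit 233) (nat_lit 5) (nat_lit 394) (nat_lit 330) (nat_lit 296)))) (XT.nd (nat_lit 156) (nat_lit 228) (nat_lit 0) (XT.nd (nat_lit 78) (nat_lit 380) (nat_lit 0) (XT.lf (nat_lit 0) (nat_lit 5983481136) (nat_lit 304) (nat_lit 1610835944) (nat_lit 380) (nat_lit 2569041063) (nat_lit 228) (nat_lit 5) (nat_lit 232) (nat_lit 5) (nat_lit 233) (nat_lit 5) (nat_lit 395) (nat_lit 330) (nat_lit 295)) (XT.lf (nat_lit 0) (nat_lit 1197021167) (nat_lit 380) (nat_lit 6662058709) (nat_lit 76) (nat_lit 2457543681) (nat_lit 223) (nat_lit 5) (nat_lit 228) (nat_lit 5) (nat_lit 224) (nat_lit 5) (nat_lit 396) (nat_lit 330) (nat_lit 294))) (XT.nd (nat_lit 78) (nat_lit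 0) (nat_lit 0) (XT.lf (nat_lit 0) (nat_lit 1221144096) (nat_lit 228) (nat_lit 3811478068) (nat_lit 304) (nat_lit 5440855925) (nat_lit 220) (nat_lit 5) (nat_lit 223) (nat_lit 5) (nat_lit 224) (nat_lit 5) (nat_lit 397) (nat_lit 330) (nat_lit 293)) (XT.lf (nat_lit 0) (nat_lit 8993090514) (nat_lit 304) (nat_lit 1257643280) (nat_lit 76) (nat_lit 384010483) (nat_lit 220) (nat_lit 5) (nat_lit 224) (nat_lit 5) (nat_lit 221) (nat_lit 5) (nat_lit 398) (nat_lit 330) (nat_lit 292))))) (XT.nd (nat_lit 312) (nat_lit 760) (nat_lit 0) (XT.nd (nat_lit 156) (nat_lit 380) (nat_lit 0) (XT.nd (nat_lit 78) (nat_lit 228) (nat_lit 0) (XT.lf (nat_lit 0) (nat_lit 2272697099) (nat_lit 380) (nat_lit 3841493502) (nat_lit 76) (nat_lit 4684637845) (nat_lit 215) (nat_lit 5) (nat_lit 220) (nat_lit 5) (nat_lit 216) (nat_lit 5) (nat_lit 399) (nat_lit 330) (nat_lit 291)) (XT.lf (nat_lit 0) (nat_lit 4452259523) (nat_lit 228) (nat_lit 1815315359)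 (nat_lit 304) (nat_lit 4699889877) (nat_lit 212) (nat_lit 5) (nat_lit 215) (nat_lit 5) (nat_lit 216) (nat_lit 5) (nat_lit 400) (nat_lit 330) (nat_lit 290))) (XT.nd (nat_lit 78) (nat_lit 76) (nat_lit 0) (XT.lf (nat_lit 0) (nat_lit 1848333288) (nat_lit 304) (nat_lit 8556974013) (nat_lit 380) (nat_lit 735162611) (nat_lit 208) (nat_lit 5) (nat_lit 212) (nat_lit 5) (nat_lit 213) (nat_lit 5) (nat_lit 401) (nat_lit 330) (nat_lit 289)) (XT.lf (nat_lit 0) (nat_lit 3308764053) (nat_lit 380) (nat_lit 867214792) (nat_lit 76) (nat_lit 7140952769) (nat_lit 207) (nat_lit 5) (nat_lit 212) (nat_lit 5) (nat_lit 208) (nat_lit 5) (nat_lit 402) (nat_lit 330) (nat_lit 288)))) (XT.nd (nat_lit 156) (nat_lit 228) (nat_lit 0) (XT.nd (nat_lit 78) (nat_lit 304) (nat_lit 0) (XT.lf (nat_lit 0) (nat_lit 7481423674) (nat_lit 304) (nat_lit 3638249351) (nat_lit 76) (nat_lit 378130039) (nat_lit 204) (nat_lit 5) (nat_lit 208) (nat_lit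 5) (nat_lit 205) (nat_lit 5) (nat_lit 403) (nat_lit 330) (nat_lit 287)) (XT.lf (nat_lit 0) (nat_lit 136727373) (nat_lit 304) (nat_lit 6536751618) (nat_lit 76) (nat_lit 5009291566) (nat_lit 200) (nat_lit 5) (nat_lit 204) (nat_lit 5) (nat_lit 201) (nat_lit 5) (nat_lit 404) (nat_lit 330) (nat_lit 286))) (XT.nd (nat_lit 78) (nat_lit 0) (nat_lit 0) (XT.lf (nat_lit 0) (nat_lit 2307221760) (nat_lit 228) (nat_lit 2029293194) (nat_lit 304) (nat_lit 7535494754) (nat_lit 197) (nat_lit 5) (nat_lit 200) (nat_lit 5) (nat_lit 201) (nat_lit 5) (nat_lit 405) (nat_lit 330) (nat_lit 285)) (XT.lf (nat_lit 0) (nat_lit 8699357916) (nat_lit 304) (nat_lit 635837807) (nat_lit 76) (nat_lit 2730618456) (nat_lit 197) (nat_lit 5) (nat_lit 201) (nat_lit 5) (nat_lit 198) (nat_lit 5) (nat_lit 406) (nat_lit 330) (nat_lit 284))))))))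
noncomputable def xc76 : XT := (XT.nd (nat_lit 2340) (nat_lit 2888) (nat_lit 0) (XT.nd (nat_lit 1170) (nat_lit 1748) (nat_lit 0) (XT.nd (nat_lit 546) (nat_lit 1140) (nat_lit 0) (XT.nd (nat_lit 234) (nat_lit 684) (nat_lit 0) (XT.nd (nat_lit 78) (nat_lit 456) (nat_lit 0) (XT.lf (nat_lit 0) (nat_lit 958518331) (nat_lit 304) (nat_lit 3655856489) (nat_lit 76) (nat_lit 7649321446) (nat_lit 193) (nat_lit 5) (nat_lit 197) (nat_lit 5) (nat_lit 194) (nat_lit 5) (nat_lit 407) (nat_lit 330) (nat_lit 283)) (XT.nd (nat_lit 78) (nat_lit 228) (nat_lit 0) (XT.lf (nat_lit 0) (nat_lit 5355168108) (nat_lit 304) (nat_lit 6809395363) (nat_lit 76) (nat_lit 301663753) (nat_lit 190) (nat_lit 5) (nat_lit 194) (nat_lit 5) (nat_lit 191) (nat_lit 5) (nat_lit 408) (nat_lit 330) (nat_lit 282)) (XT.lf (nat_lit 0) (nat_lit 2561996591) (nat_lit 228) (nat_lit 7375407308) (nat_lit 304) (nat_lit 2735819618) (nat_lit 187) (nat_lit 5) (nat_lit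 190) (nat_lit 5) (nat_lit 191) (nat_lit 5) (nat_lit 409) (nat_lit 330) (nat_lit 281)))) (XT.nd (nat_lit 156) (nat_lit 456) (nat_lit 0) (XT.nd (nat_lit 78) (nat_lit 152) (nat_lit 0) (XT.lf (nat_lit 0) (nat_lit 1751823837) (nat_lit 304) (nat_lit 640179827) (nat_lit 76) (nat_lit 10493444438) (nat_lit 186) (nat_lit 5) (nat_lit 190) (nat_lit 5) (nat_lit 187) (nat_lit 5) (nat_lit 410) (nat_lit 330) (nat_lit 280)) (XT.lf (nat_lit 0) (nat_lit 6382280410) (nat_lit 228) (nat_lit 3951820045) (nat_lit 76) (nat_lit 2767231217) (nat_lit 184) (nat_lit 5) (nat_lit 187) (nat_lit 5) (nat_lit 185) (nat_lit 5) (nat_lit 411) (nat_lit 330) (nat_lit 279))) (XT.nd (nat_lit 78) (nat_lit 228) (nat_lit 0) (XT.lf (nat_lit 0) (nat_lit 5924529112) (nat_lit 228) (nat_lit 5262415908) (nat_lit 304) (nat_lit 2135687900) (nat_lit 181) (nat_lit 5) (nat_lit 184) (nat_lit 5) (nat_lit 185) (nat_lit 5) (nat_lit 412) (nat_lit 330) (nat_lit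 278)) (XT.lf (nat_lit 0) (nat_lit 2548104693) (nat_lit 228) (nat_lit 10986000812) (nat_lit 76) (nat_lit 15320957) (nat_lit 178) (nat_lit 5) (nat_lit 181) (nat_lit 5) (nat_lit 179) (nat_lit 5) (nat_lit 413) (nat_lit 330) (nat_lit 277))))) (XT.nd (nat_lit 312) (nat_lit 532) (nat_lit 0) (XT.nd (nat_lit 156) (nat_lit 380) (nat_lit 0) (XT.nd (nat_lit 78) (nat_lit 228) (nat_lit 0) (XT.lf (nat_lit 0) (nat_lit 7405599762) (nat_lit 228) (nat_lit 969600028) (nat_lit 76) (nat_lit 5404906241) (nat_lit 178) (nat_lit 5) (nat_lit 181) (nat_lit 5) (nat_lit 179) (nat_lit 5) (nat_lit 414) (nat_lit 330) (nat_lit 276)) (XT.lf (nat_lit 0) (nat_lit 9443923315) (nat_lit 228) (nat_lit 3005740022) (nat_lit 304) (nat_lit 1566817341) (nat_lit 175) (nat_lit 5) (nat_lit 178) (nat_lit 5) (nat_lit 179) (nat_lit 5) (nat_lit 415) (nat_lit 330) (nat_lit 275))) (XT.nd (nat_lit 78) (nat_lit 152) (nat_lit 0) (XT.lf (nat_lit 0) (nat_lit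 3360975716) (nat_lit 228) (nat_lit 8358072091) (nat_lit 76) (nat_lit 2538664697) (nat_lit 172) (nat_lit 5) (nat_lit 175) (nat_lit 5) (nat_lit 173) (nat_lit 5) (nat_lit 416) (nat_lit 330) (nat_lit 274)) (XT.lf (nat_lit 0) (nat_lit 2183785907) (nat_lit 152) (nat_lit 6269154971) (nat_lit 228) (nat_lit 6051340121) (nat_lit 170) (nat_lit 5) (nat_lit 172) (nat_lit 5) (nat_lit 173) (nat_lit 5) (nat_lit 417) (nat_lit 330) (nat_lit 273)))) (XT.nd (nat_lit 156) (nat_lit 304) (nat_lit 0) (XT.nd (nat_lit 78) (nat_lit 228) (nat_lit 0) (XT.lf (nat_lit 0) (nat_lit 13126056444) (nat_lit 152) (nat_lit 607061066) (nat_lit 228) (nat_lit 1024065463) (nat_lit 170) (nat_lit 5) (nat_lit 172) (nat_lit 5) (nat_lit 173) (nat_lit 5) (nat_lit 418) (nat_lit 330) (nat_lit 272)) (XT.lf (nat_lit 0) (nat_lit 4166851569) (nat_lit 228) (nat_lit 5628787988) (nat_lit 76) (nat_lit 5218017993) (nat_lit 167) (nat_lit 5) (nat_lit 170) (nat_lit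 5) (nat_lit 168) (nat_lit 5) (nat_lit 419) (nat_lit 330) (nat_lit 271))) (XT.nd (nat_lit 78) (nat_lit 152) (nat_lit 0) (XT.lf (nat_lit 0) (nat_lit 5492499687) (nat_lit 152) (nat_lit 4028087461) (nat_lit 228) (nat_lit 5756104828) (nat_lit 165) (nat_lit 5) (nat_lit 167) (nat_lit 5) (nat_lit 168) (nat_lit 5) (nat_lit 420) (nat_lit 330) (nat_lit 270)) (XT.lf (nat_lit 0) (nat_lit 1440024614) (nat_lit 152) (nat_lit 13636982121) (nat_lit 228) (nat_lit 469348539) (nat_lit 163) (nat_lit 5) (nat_lit 165) (nat_lit 5) (nat_lit 166) (nat_lit 4) (nat_lit 421) (nat_lit 330) (nat_lit 269)))))) (XT.nd (nat_lit 546) (nat_lit 760) (nat_lit 0) (XT.nd (nat_lit 234) (nat_lit 532) (nat_lit 0) (XT.nd (nat_lit 78) (nat_lit 380) (nat_lit 0) (XT.lf (nat_lit 0) (nat_lit 4971116072) (nat_lit 228) (nat_lit 2794430900) (nat_lit 76) (nat_lit 8054360361) (nat_lit 162) (nat_lit 5) (nat_lit 165) (nat_lit 5) (nat_lit 163) (nat_lit 5)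 (nat_lit 422) (nat_lit 330) (nat_lit 268)) (XT.nd (nat_lit 78) (nat_lit 228) (nat_lit 0) (XT.lf (nat_lit 0) (nat_lit 8943070850) (nat_lit 152) (nat_lit 1662182891) (nat_lit 228) (nat_lit 5495076025) (nat_lit 160) (nat_lit 5) (nat_lit 162) (nat_lit 5) (nat_lit 163) (nat_lit 5) (nat_lit 423) (nat_lit 330) (nat_lit 267)) (XT.lf (nat_lit 0) (nat_lit 91484560) (nat_lit 228) (nat_lit 11723766366) (nat_lit 76) (nat_lit 4571730109) (nat_lit 157) (nat_lit 5) (nat_lit 160) (nat_lit 5) (nat_lit 158) (nat_lit 5) (nat_lit 424) (nat_lit 330) (nat_lit 266)))) (XT.nd (nat_lit 156) (nat_lit 380) (nat_lit 0) (XT.nd (nat_lit 78) (nat_lit 0) (nat_lit 0) (XT.lf (nat_lit 0) (nat_lit 152453975) (nat_lit 152) (nat_lit 5627858841) (nat_lit 228) (nat_lit 10898933332) (nat_lit 155) (nat_lit 5) (nat_lit 157) (nat_lit 5) (nat_lit 158) (nat_lit 5) (nat_lit 425) (nat_lit 330) (nat_lit 265)) (XT.lf (nat_lit 0) (nat_lit 11720903661)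 (nat_lit 228) (nat_lit 4443844865) (nat_lit 76) (nat_lit 813097756) (nat_lit 155) (nat_lit 5) (nat_lit 158) (nat_lit 5) (nat_lit 156) (nat_lit 4) (nat_lit 426) (nat_lit 330) (nat_lit 264))) (XT.nd (nat_lit 78) (nat_lit 152) (nat_lit 0) (XT.lf (nat_lit 0) (nat_lit 632894142) (nat_lit 228) (nat_lit 9268190271) (nat_lit 76) (nat_lit 7381478070) (nat_lit 152) (nat_lit 5) (nat_lit 155) (nat_lit 5) (nat_lit 153) (nat_lit 5) (nat_lit 427) (nat_lit 330) (nat_lit 263)) (XT.lf (nat_lit 0) (nat_lit 3272011773) (nat_lit 152) (nat_lit 3354310187) (nat_lit 228) (nat_lit 10967560083) (nat_lit 150) (nat_lit 5) (nat_lit 152) (nat_lit 5) (nat_lit 153) (nat_lit 5) (nat_lit 428) (nat_lit 330) (nat_lit 262))))) (XT.nd (nat_lit 312) (nat_lit 380) (nat_lit 0) (XT.nd (nat_lit 156) (nat_lit 228) (nat_lit 0) (XT.nd (nat_lit 78) (nat_lit 152) (nat_lit 0) (XT.lf (nat_lit 0) (nat_lit 12882582623) (nat_lit 228) (nat_lit 1648679987)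 (nat_lit 76) (nat_lit 3380787680) (nat_lit 150) (nat_lit 5) (nat_lit 153) (nat_lit 5) (nat_lit 151) (nat_lit 4) (nat_lit 429) (nat_lit 330) (nat_lit 261)) (XT.lf (nat_lit 0) (nat_lit 1167699609) (nat_lit 152) (nat_lit 6731417662) (nat_lit 76) (nat_lit 10337268748) (nat_lit 148) (nat_lit 5) (nat_lit 150) (nat_lit 5) (nat_lit 149) (nat_lit 5) (nat_lit 430) (nat_lit 330) (nat_lit 260))) (XT.nd (nat_lit 78) (nat_lit 76) (nat_lit 0) (XT.lf (nat_lit 0) (nat_lit 6514694185) (nat_lit 152) (nat_lit 971728125) (nat_lit 228) (nat_lit 11081433776) (nat_lit 146) (nat_lit 5) (nat_lit 148) (nat_lit 5) (nat_lit 149) (nat_lit 5) (nat_lit 431) (nat_lit 330) (nat_lit 259)) (XT.lf (nat_lit 0) (nat_lit 1274215003) (nat_lit 76) (nat_lit 12818061384) (nat_lit 152) (nat_lit 4814066779) (nat_lit 145) (nat_lit 5) (nat_lit 146) (nat_lit 5) (nat_lit 147) (nat_lit 4) (nat_lit 432) (nat_lit 330) (nat_lit 258)))) (XT.nd (nat_lit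 156) (nat_lit 152) (nat_lit 0) (XT.nd (nat_lit 78) (nat_lit 152) (nat_lit 0) (XT.lf (nat_lit 0) (nat_lit 1699324325) (nat_lit 152) (nat_lit 4109185807) (nat_lit 76) (nat_lit 13443300467) (nat_lit 144) (nat_lit 5) (nat_lit 146) (nat_lit 5) (nat_lit 145) (nat_lit 5) (nat_lit 433) (nat_lit 330) (nat_lit 257)) (XT.lf (nat_lit 0) (nat_lit 8379763815) (nat_lit 228) (nat_lit 9731930847) (nat_lit 76) (nat_lit 1492465335) (nat_lit 142) (nat_lit 5) (nat_lit 145) (nat_lit 5) (nat_lit 143) (nat_lit 4) (nat_lit 434) (nat_lit 330) (nat_lit 256))) (XT.nd (nat_lit 78) (nat_lit 76) (nat_lit 0) (XT.lf (nat_lit 0) (nat_lit 4340730230) (nat_lit 76) (nat_lit 11019877919) (nat_lit 152) (nat_lit 4603471978) (nat_lit 141) (nat_lit 5) (nat_lit 142) (nat_lit 5) (nat_lit 143) (nat_lit 4) (nat_lit 435) (nat_lit 330) (nat_lit 255)) (XT.lf (nat_lit 0) (nat_lit 2230990655) (nat_lit 152) (nat_lit 1396654448) (nat_lit 76) (nat_lit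 16704769056) (nat_lit 140) (nat_lit 5) (nat_lit 142) (nat_lit 5) (nat_lit 141) (nat_lit 5) (nat_lit 436) (nat_lit 330) (nat_lit 254))))))) (XT.nd (nat_lit 1170) (nat_lit 1216) (nat_lit 0) (XT.nd (nat_lit 546) (nat_lit 912) (nat_lit 0) (XT.nd (nat_lit 234) (nat_lit 304) (nat_lit 0) (XT.nd (nat_lit 78) (nat_lit 304) (nat_lit 0) (XT.lf (nat_lit 0) (nat_lit 9306555344) (nat_lit 228) (nat_lit 7350111094) (nat_lit 76) (nat_lit 4049906603) (nat_lit 138) (nat_lit 5) (nat_lit 141) (nat_lit 5) (nat_lit 139) (nat_lit 4) (nat_lit 437) (nat_lit 330) (nat_lit 253)) (XT.nd (nat_lit 78) (nat_lit 228) (nat_lit 0) (XT.lf (nat_lit 0) (nat_lit 7524600789) (nat_lit 76) (nat_lit 9152489544) (nat_lit 152) (nat_lit 4412385256) (nat_lit 137) (nat_lit 5) (nat_lit 138) (nat_lit 5) (nat_lit 139) (nat_lit 4) (nat_lit 438) (nat_lit 330) (nat_lit 252)) (XT.lf (nat_lit 0) (nat_lit 1439680220) (nat_lit 152) (nat_lit 1339911753) (nat_lit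 228) (nat_lit 18701998380) (nat_lit 134) (nat_lit 5) (nat_lit 136) (nat_lit 5) (nat_lit 137) (nat_lit 5) (nat_lit 439) (nat_lit 330) (nat_lit 251)))) (XT.nd (nat_lit 156) (nat_lit 228) (nat_lit 0) (XT.nd (nat_lit 78) (nat_lit 76) (nat_lit 0) (XT.lf (nat_lit 0) (nat_lit 10261812113) (nat_lit 228) (nat_lit 4894027930) (nat_lit 76) (nat_lit 6723422862) (nat_lit 134) (nat_lit 5) (nat_lit 137) (nat_lit 5) (nat_lit 135) (nat_lit 4) (nat_lit 440) (nat_lit 330) (nat_lit 250)) (XT.lf (nat_lit 0) (nat_lit 10833025490) (nat_lit 76) (nat_lit 7214389118) (nat_lit 152) (nat_lit 4239083553) (nat_lit 133) (nat_lit 5) (nat_lit 134) (nat_lit 5) (nat_lit 135) (nat_lit 4) (nat_lit 441) (nat_lit 330) (nat_lit 249))) (XT.nd (nat_lit 78) (nat_lit 0) (nat_lit 0) (XT.lf (nat_lit 0) (nat_lit 3359071120) (nat_lit 228) (nat_lit 18306019736) (nat_lit 76) (nat_lit 1037970050) (nat_lit 130) (nat_lit 5) (nat_lit 133) (nat_lit 5) (nat_lit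 131) (nat_lit 4) (nat_lit 442) (nat_lit 330) (nat_lit 248)) (XT.lf (nat_lit 0) (nat_lit 11249849575) (nat_lit 228) (nat_lit 2358863957) (nat_lit 76) (nat_lit 9517651451) (nat_lit 130) (nat_lit 5) (nat_lit 133) (nat_lit 5) (nat_lit 131) (nat_lit 4) (nat_lit 443) (nat_lit 330) (nat_lit 247))))) (XT.nd (nat_lit 312) (nat_lit 532) (nat_lit 0) (XT.nd (nat_lit 156) (nat_lit 76) (nat_lit 0) (XT.nd (nat_lit 78) (nat_lit 228) (nat_lit 0) (XT.lf (nat_lit 0) (nat_lit 14273859647) (nat_lit 76) (nat_lit 5203466037) (nat_lit 152) (nat_lit 4082043268) (nat_lit 129) (nat_lit 5) (nat_lit 130) (nat_lit 5) (nat_lit 131) (nat_lit 4) (nat_lit 444) (nat_lit 330) (nat_lit 246)) (XT.lf (nat_lit 0) (nat_lit 3962274838) (nat_lit 228) (nat_lit 16550905518) (nat_lit 76) (nat_lit 3488254142) (nat_lit 126) (nat_lit 5) (nat_lit 129) (nat_lit 5) (nat_lit 127) (nat_lit 4) (nat_lit 445) (nat_lit 330) (nat_lit 245))) (XT.nd (nat_lit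 78) (nat_lit 0) (nat_lit 0) (XT.lf (nat_lit 0) (nat_lit 265868109) (nat_lit 76) (nat_lit 12011661315) (nat_lit 152) (nat_lit 12174670536) (nat_lit 125) (nat_lit 5) (nat_lit 126) (nat_lit 5) (nat_lit 127) (nat_lit 4) (nat_lit 446) (nat_lit 330) (nat_lit 244)) (XT.lf (nat_lit 0) (nat_lit 17855624220) (nat_lit 76) (nat_lit 3117032651) (nat_lit 152) (nat_lit 3939919061) (nat_lit 125) (nat_lit 5) (nat_lit 126) (nat_lit 5) (nat_lit 127) (nat_lit 4) (nat_lit 447) (nat_lit 330) (nat_lit 243)))) (XT.nd (nat_lit 156) (nat_lit 228) (nat_lit 0) (XT.nd (nat_lit 78) (nat_lit 76) (nat_lit 0) (XT.lf (nat_lit 0) (nat_lit 4579155158) (nat_lit 228) (nat_lit 14761047907) (nat_lit 76) (nat_lit 6041473082) (nat_lit 122) (nat_lit 5) (nat_lit 125) (nat_lit 5) (nat_lit 123) (nat_lit 4) (nat_lit 448) (nat_lit 330) (nat_lit 242)) (XT.lf (nat_lit 0) (nat_lit 3029503636) (nat_lit 76) (nat_lit 10341128305) (nat_lit 152) (nat_lit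 12490166591) (nat_lit 121) (nat_lit 5) (nat_lit 122) (nat_lit 5) (nat_lit 123) (nat_lit 4) (nat_lit 449) (nat_lit 330) (nat_lit 241))) (XT.nd (nat_lit 78) (nat_lit 228) (nat_lit 0) (XT.lf (nat_lit 0) (nat_lit 21587519138) (nat_lit 76) (nat_lit 951845068) (nat_lit 152) (nat_lit 3811525047) (nat_lit 121) (nat_lit 5) (nat_lit 122) (nat_lit 5) (nat_lit 123) (nat_lit 4) (nat_lit 450) (nat_lit 330) (nat_lit 240)) (XT.lf (nat_lit 0) (nat_lit 5212493165) (nat_lit 228) (nat_lit 12933506347) (nat_lit 76) (nat_lit 8702652341) (nat_lit 118) (nat_lit 5) (nat_lit 121) (nat_lit 5) (nat_lit 119) (nat_lit 4) (nat_lit 451) (nat_lit 330) (nat_lit 239)))))) (XT.nd (nat_lit 624) (nat_lit 608) (nat_lit 0) (XT.nd (nat_lit 312) (nat_lit 304) (nat_lit 0) (XT.nd (nat_lit 156) (nat_lit 228) (nat_lit 0) (XT.nd (nat_lit 78) (nat_lit 0) (nat_lit 0) (XT.lf (nat_lit 0) (nat_lit 5891493371) (nat_lit 76) (nat_lit 8618972702) (nat_lit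 152) (nat_lit 12847353864) (nat_lit 117) (nat_lit 5) (nat_lit 118) (nat_lit 5) (nat_lit 119) (nat_lit 4) (nat_lit 452) (nat_lit 330) (nat_lit 238)) (XT.lf (nat_lit 0) (nat_lit 24196016275) (nat_lit 152) (nat_lit 2412393767) (nat_lit 0) (nat_lit 1270593876) (nat_lit 117) (nat_lit 5) (nat_lit 119) (nat_lit 4) (nat_lit 117) (nat_lit 4) (nat_lit 453) (nat_lit 330) (nat_lit 237))) (XT.nd (nat_lit 78) (nat_lit 76) (nat_lit 0) (XT.lf (nat_lit 0) (nat_lit 5865040212) (nat_lit 152) (nat_lit 11065042869) (nat_lit 76) (nat_lit 11477448634) (nat_lit 115) (nat_lit 5) (nat_lit 117) (nat_lit 5) (nat_lit 116) (nat_lit 4) (nat_lit 454) (nat_lit 330) (nat_lit 236)) (XT.lf (nat_lit 0) (nat_lit 8858741400) (nat_lit 76) (nat_lit 6842804573) (nat_lit 152) (nat_lit 13246993570) (nat_lit 114) (nat_lit 5) (nat_lit 115) (nat_lit 5) (nat_lit 116) (nat_lit 4) (nat_lit 455) (nat_lit 330) (nat_lit 235)))) (XT.nd (nat_lit 156) (nat_lit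 152) (nat_lit 0) (XT.nd (nat_lit 78) (nat_lit 76) (nat_lit 0) (XT.lf (nat_lit 0) (nat_lit 3751893) (nat_lit 76) (nat_lit 25942724761) (nat_lit 76) (nat_lit 3555901061) (nat_lit 113) (nat_lit 4) (nat_lit 114) (nat_lit 5) (nat_lit 114) (nat_lit 4) (nat_lit 456) (nat_lit 330) (nat_lit 234)) (XT.lf (nat_lit 0) (nat_lit 6539537785) (nat_lit 152) (nat_lit 9152123295) (nat_lit 76) (nat_lit 14372146660) (nat_lit 112) (nat_lit 5) (nat_lit 114) (nat_lit 5) (nat_lit 113) (nat_lit 4) (nat_lit 457) (nat_lit 330) (nat_lit 233))) (XT.nd (nat_lit 78) (nat_lit 76) (nat_lit 0) (XT.lf (nat_lit 0) (nat_lit 11938670881) (nat_lit 76) (nat_lit 5009819652) (nat_lit 152) (nat_lit 13690070299) (nat_lit 111) (nat_lit 5) (nat_lit 112) (nat_lit 5) (nat_lit 113) (nat_lit 4) (nat_lit 458) (nat_lit 330) (nat_lit 232)) (XT.lf (nat_lit 0) (nat_lit 2549334391) (nat_lit 76) (nat_lit 25263224580) (nat_lit 76) (nat_lit 3413712134) (nat_lit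 110) (nat_lit 4) (nat_lit 111) (nat_lit 5) (nat_lit 111) (nat_lit 4) (nat_lit 459) (nat_lit 330) (nat_lit 231))))) (XT.nd (nat_lit 312) (nat_lit 304) (nat_lit 0) (XT.nd (nat_lit 156) (nat_lit 152) (nat_lit 0) (XT.nd (nat_lit 78) (nat_lit 76) (nat_lit 0) (XT.lf (nat_lit 0) (nat_lit 7238736177) (nat_lit 152) (nat_lit 7190916194) (nat_lit 76) (nat_lit 17393660464) (nat_lit 109) (nat_lit 5) (nat_lit 111) (nat_lit 5) (nat_lit 110) (nat_lit 4) (nat_lit 460) (nat_lit 330) (nat_lit 230)) (XT.lf (nat_lit 0) (nat_lit 15139238811) (nat_lit 76) (nat_lit 3116809455) (nat_lit 152) (nat_lit 14177786502) (nat_lit 108) (nat_lit 5) (nat_lit 109) (nat_lit 5) (nat_lit 110) (nat_lit 4) (nat_lit 461) (nat_lit 330) (nat_lit 229))) (XT.nd (nat_lit 78) (nat_lit 76) (nat_lit 0) (XT.lf (nat_lit 0) (nat_lit 5182464753) (nat_lit 76) (nat_lit 24595028062) (nat_lit 76) (nat_lit 3279971150) (nat_lit 107) (nat_lit 4) (nat_lit 108)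 (nat_lit 5) (nat_lit 108) (nat_lit 4) (nat_lit 462) (nat_lit 330) (nat_lit 228)) (XT.lf (nat_lit 0) (nat_lit 7965412158) (nat_lit 152) (nat_lit 5177289695) (nat_lit 76) (nat_lit 20549539141) (nat_lit 106) (nat_lit 5) (nat_lit 108) (nat_lit 5) (nat_lit 107) (nat_lit 4) (nat_lit 463) (nat_lit 330) (nat_lit 227)))) (XT.nd (nat_lit 156) (nat_lit 152) (nat_lit 0) (XT.nd (nat_lit 78) (nat_lit 76) (nat_lit 0) (XT.lf (nat_lit 0) (nat_lit 18468953749) (nat_lit 76) (nat_lit 1160167918) (nat_lit 152) (nat_lit 14711558752) (nat_lit 105) (nat_lit 5) (nat_lit 106) (nat_lit 5) (nat_lit 107) (nat_lit 4) (nat_lit 464) (nat_lit 330) (nat_lit 226)) (XT.lf (nat_lit 0) (nat_lit 7909697527) (nat_lit 76) (nat_lit 23938752454) (nat_lit 76) (nat_lit 3153951820) (nat_lit 104) (nat_lit 4) (nat_lit 105) (nat_lit 5) (nat_lit 105) (nat_lit 4) (nat_lit 465) (nat_lit 330) (nat_lit 225))) (XT.nd (nat_lit 78) (nat_lit 76) (nat_lit 0)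 (XT.lf (nat_lit 0) (nat_lit 8722385830) (nat_lit 152) (nat_lit 3106806278) (nat_lit 76) (nat_lit 23847976674) (nat_lit 103) (nat_lit 5) (nat_lit 105) (nat_lit 5) (nat_lit 104) (nat_lit 4) (nat_lit 466) (nat_lit 330) (nat_lit 224)) (XT.lf (nat_lit 0) (nat_lit 21081097548) (nat_lit 152) (nat_lit 14437216765) (nat_lit 0) (nat_lit 847243386) (nat_lit 102) (nat_lit 5) (nat_lit 104) (nat_lit 4) (nat_lit 102) (nat_lit 4) (nat_lit 467) (nat_lit 330) (nat_lit 223))))))))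
noncomputable def xc77 : XT := (XT.nd (nat_lit 44772) (nat_lit 0) (nat_lit 12616) (XT.nd (nat_lit 1170) (nat_lit 912) (nat_lit 0) (XT.nd (nat_lit 546) (nat_lit 608) (nat_lit 0) (XT.nd (nat_lit 234) (nat_lit 304) (nat_lit 0) (XT.nd (nat_lit 78) (nat_lit 152) (nat_lit 0) (XT.lf (nat_lit 0) (nat_lit 10738033611) (nat_lit 76) (nat_lit 23294891477) (nat_lit 76) (nat_lit 3035002560) (nat_lit 101) (nat_lit 4) (nat_lit 102) (nat_lit 5) (nat_lit 102) (nat_lit 4) (nat_lit 468) (nat_lit 330) (nat_lit 222)) (XT.nd (nat_lit 78) (nat_lit 76) (nat_lit 0) (XT.lf (nat_lit 0) (nat_lit 9512536821) (nat_lit 152) (nat_lit 974715630) (nat_lit 76) (nat_lit 27297825737) (nat_lit 100) (nat_lit 5) (nat_lit 102) (nat_lit 5) (nat_lit 101) (nat_lit 4) (nat_lit 469) (nat_lit 330) (nat_lit 221)) (XT.lf (nat_lit 0) (nat_lit 22620796563) (nat_lit 152) (nat_lit 12992050596) (nat_lit 0) (nat_lit 2902635756) (nat_lit 99) (nat_lit 5) (nat_lit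 101) (nat_lit 4) (nat_lit 99) (nat_lit 4) (nat_lit 470) (nat_lit 330) (nat_lit 220)))) (XT.nd (nat_lit 156) (nat_lit 76) (nat_lit 0) (XT.nd (nat_lit 78) (nat_lit 152) (nat_lit 0) (XT.lf (nat_lit 0) (nat_lit 13674936835) (nat_lit 76) (nat_lit 22663830698) (nat_lit 76) (nat_lit 2922538348) (nat_lit 98) (nat_lit 4) (nat_lit 99) (nat_lit 5) (nat_lit 99) (nat_lit 4) (nat_lit 471) (nat_lit 330) (nat_lit 219)) (XT.lf (nat_lit 0) (nat_lit 1248415463) (nat_lit 76) (nat_lit 9102405040) (nat_lit 152) (nat_lit 29672200382) (nat_lit 96) (nat_lit 5) (nat_lit 97) (nat_lit 5) (nat_lit 98) (nat_lit 4) (nat_lit 472) (nat_lit 330) (nat_lit 218))) (XT.nd (nat_lit 78) (nat_lit 76) (nat_lit 0) (XT.lf (nat_lit 0) (nat_lit 24242620624) (nat_lit 152) (nat_lit 11522384178) (nat_lit 0) (nat_lit 5033345036) (nat_lit 96) (nat_lit 5) (nat_lit 98) (nat_lit 4) (nat_lit 96) (nat_lit 4) (nat_lit 473) (nat_lit 330) (nat_lit 217)) (XT.lf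 (nat_lit 0) (nat_lit 16728352876) (nat_lit 76) (nat_lit 22045861136) (nat_lit 76) (nat_lit 2816033471) (nat_lit 95) (nat_lit 4) (nat_lit 96) (nat_lit 5) (nat_lit 96) (nat_lit 4) (nat_lit 474) (nat_lit 330) (nat_lit 216))))) (XT.nd (nat_lit 312) (nat_lit 228) (nat_lit 0) (XT.nd (nat_lit 156) (nat_lit 228) (nat_lit 0) (XT.nd (nat_lit 78) (nat_lit 0) (nat_lit 0) (XT.lf (nat_lit 0) (nat_lit 3564464077) (nat_lit 76) (nat_lit 7674080363) (nat_lit 152) (nat_lit 31160371765) (nat_lit 93) (nat_lit 5) (nat_lit 94) (nat_lit 5) (nat_lit 95) (nat_lit 4) (nat_lit 475) (nat_lit 330) (nat_lit 215)) (XT.lf (nat_lit 0) (nat_lit 25952377535) (nat_lit 152) (nat_lit 10025342913) (nat_lit 0) (nat_lit 7244461574) (nat_lit 93) (nat_lit 5) (nat_lit 95) (nat_lit 4) (nat_lit 93) (nat_lit 4) (nat_lit 476) (nat_lit 330) (nat_lit 214))) (XT.nd (nat_lit 78) (nat_lit 152) (nat_lit 0) (XT.lf (nat_lit 0) (nat_lit 19906730525) (nat_lit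 76) (nat_lit 21441191308) (nat_lit 76) (nat_lit 2715015093) (nat_lit 92) (nat_lit 4) (nat_lit 93) (nat_lit 5) (nat_lit 93) (nat_lit 4) (nat_lit 477) (nat_lit 330) (nat_lit 213)) (XT.lf (nat_lit 0) (nat_lit 5959895973) (nat_lit 76) (nat_lit 6209463922) (nat_lit 152) (nat_lit 32752039359) (nat_lit 90) (nat_lit 5) (nat_lit 91) (nat_lit 5) (nat_lit 92) (nat_lit 4) (nat_lit 478) (nat_lit 330) (nat_lit 212)))) (XT.nd (nat_lit 156) (nat_lit 152) (nat_lit 0) (XT.nd (nat_lit 78) (nat_lit 76) (nat_lit 0) (XT.lf (nat_lit 0) (nat_lit 27756153197) (nat_lit 152) (nat_lit 8497865297) (nat_lit 0) (nat_lit 9541476833) (nat_lit 90) (nat_lit 5) (nat_lit 92) (nat_lit 4) (nat_lit 90) (nat_lit 4) (nat_lit 479) (nat_lit 330) (nat_lit 211)) (XT.lf (nat_lit 0) (nat_lit 23219045292) (nat_lit 76) (nat_lit 20849957883) (nat_lit 76) (nat_lit 2619057520) (nat_lit 89) (nat_lit 4) (nat_lit 90) (nat_lit 5) (nat_lit 90) (nat_lit 4)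 (nat_lit 480) (nat_lit 330) (nat_lit 210))) (XT.nd (nat_lit 78) (nat_lit 0) (nat_lit 0) (XT.lf (nat_lit 0) (nat_lit 8440942504) (nat_lit 76) (nat_lit 4705655684) (nat_lit 152) (nat_lit 34452732200) (nat_lit 87) (nat_lit 5) (nat_lit 88) (nat_lit 5) (nat_lit 89) (nat_lit 4) (nat_lit 481) (nat_lit 330) (nat_lit 209)) (XT.lf (nat_lit 0) (nat_lit 29660336565) (nat_lit 152) (nat_lit 6936697698) (nat_lit 0) (nat_lit 11930293367) (nat_lit 87) (nat_lit 5) (nat_lit 89) (nat_lit 4) (nat_lit 87) (nat_lit 4) (nat_lit 482) (nat_lit 330) (nat_lit 208)))))) (XT.nd (nat_lit 546) (nat_lit 380) (nat_lit 0) (XT.nd (nat_lit 234) (nat_lit 304) (nat_lit 0) (XT.nd (nat_lit 78) (nat_lit 152) (nat_lit 0) (XT.lf (nat_lit 0) (nat_lit 26674825366) (nat_lit 76) (nat_lit 20272235116) (nat_lit 76) (nat_lit 2527777106) (nat_lit 86) (nat_lit 4) (nat_lit 87) (nat_lit 5) (nat_lit 87) (nat_lit 4) (nat_lit 483) (nat_lit 330) (nat_lit 207))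 (XT.nd (nat_lit 78) (nat_lit 0) (nat_lit 0) (XT.lf (nat_lit 0) (nat_lit 11014218335) (nat_lit 76) (nat_lit 3159511373) (nat_lit 152) (nat_lit 36268383088) (nat_lit 84) (nat_lit 5) (nat_lit 85) (nat_lit 5) (nat_lit 86) (nat_lit 4) (nat_lit 484) (nat_lit 330) (nat_lit 206)) (XT.lf (nat_lit 0) (nat_lit 31671645225) (nat_lit 152) (nat_lit 5338387981) (nat_lit 0) (nat_lit 14417237150) (nat_lit 84) (nat_lit 5) (nat_lit 86) (nat_lit 4) (nat_lit 84) (nat_lit 4) (nat_lit 485) (nat_lit 330) (nat_lit 205)))) (XT.nd (nat_lit 156) (nat_lit 76) (nat_lit 0) (XT.nd (nat_lit 78) (nat_lit 152) (nat_lit 0) (XT.lf (nat_lit 0) (nat_lit 30284179994) (nat_lit 76) (nat_lit 19708043174) (nat_lit 76) (nat_lit 2440827725) (nat_lit 83) (nat_lit 4) (nat_lit 84) (nat_lit 5) (nat_lit 84) (nat_lit 4) (nat_lit 486) (nat_lit 330) (nat_lit 204)) (XT.lf (nat_lit 0) (nat_lit 13686739708) (nat_lit 76) (nat_lit 1567639356) (nat_lit 152)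 (nat_lit 38205346264) (nat_lit 81) (nat_lit 5) (nat_lit 82) (nat_lit 5) (nat_lit 83) (nat_lit 4) (nat_lit 487) (nat_lit 330) (nat_lit 203))) (XT.nd (nat_lit 78) (nat_lit 76) (nat_lit 0) (XT.lf (nat_lit 0) (nat_lit 33797151763) (nat_lit 152) (nat_lit 3699278018) (nat_lit 0) (nat_lit 17009072179) (nat_lit 81) (nat_lit 5) (nat_lit 83) (nat_lit 4) (nat_lit 81) (nat_lit 4) (nat_lit 488) (nat_lit 330) (nat_lit 202)) (XT.lf (nat_lit 0) (nat_lit 34057830297) (nat_lit 76) (nat_lit 19157355510) (nat_lit 76) (nat_lit 2357896739) (nat_lit 80) (nat_lit 4) (nat_lit 81) (nat_lit 5) (nat_lit 81) (nat_lit 4) (nat_lit 489) (nat_lit 330) (nat_lit 201))))) (XT.nd (nat_lit 312) (nat_lit 0) (nat_lit 0) (XT.nd (nat_lit 156) (nat_lit 228) (nat_lit 0) (XT.nd (nat_lit 78) (nat_lit 0) (nat_lit 0) (XT.lf (nat_lit 0) (nat_lit 16393047949) (nat_lit 152) (nat_lit 40197520334) (nat_lit 0) (nat_lit 72167828) (nat_lit 78) (nat_lit 5)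 (nat_lit 80) (nat_lit 4) (nat_lit 78) (nat_lit 4) (nat_lit 490) (nat_lit 330) (nat_lit 200)) (XT.lf (nat_lit 0) (nat_lit 36044311034) (nat_lit 152) (nat_lit 2015495092) (nat_lit 0) (nat_lit 19713017346) (nat_lit 78) (nat_lit 5) (nat_lit 80) (nat_lit 4) (nat_lit 78) (nat_lit 4) (nat_lit 491) (nat_lit 330) (nat_lit 199))) (XT.nd (nat_lit 78) (nat_lit 152) (nat_lit 0) (XT.lf (nat_lit 0) (nat_lit 38007142608) (nat_lit 76) (nat_lit 18620105359) (nat_lit 76) (nat_lit 2278701411) (nat_lit 77) (nat_lit 4) (nat_lit 78) (nat_lit 5) (nat_lit 78) (nat_lit 4) (nat_lit 492) (nat_lit 330) (nat_lit 198)) (XT.lf (nat_lit 0) (nat_lit 17608589381) (nat_lit 152) (nat_lit 40719727619) (nat_lit 0) (nat_lit 1733618765) (nat_lit 75) (nat_lit 5) (nat_lit 77) (nat_lit 4) (nat_lit 75) (nat_lit 4) (nat_lit 493) (nat_lit 330) (nat_lit 197)))) (XT.nd (nat_lit 42588) (nat_lit 0) (nat_lit 27208) (XT.nd (nat_lit 42510) (nat_lit 0)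 (nat_lit 29032) (XT.lf (nat_lit 0) (nat_lit 38420988472) (nat_lit 152) (nat_lit 282942216) (nat_lit 0) (nat_lit 22536765537) (nat_lit 75) (nat_lit 5) (nat_lit 77) (nat_lit 4) (nat_lit 75) (nat_lit 4) (nat_lit 494) (nat_lit 330) (nat_lit 196)) (XT.lf (nat_lit 0) (nat_lit 1271144914) (nat_lit 836) (nat_lit 849619683) (nat_lit 0) (nat_lit 1271144914) (nat_lit 457) (nat_lit 5) (nat_lit 468) (nat_lit 4) (nat_lit 457) (nat_lit 4) (nat_lit 358) (nat_lit 331) (nat_lit 331))) (XT.nd (nat_lit 78) (nat_lit 988) (nat_lit 0) (XT.lf (nat_lit 0) (nat_lit 3022659344) (nat_lit 836) (nat_lit 2934110835) (nat_lit 836) (nat_lit 866528781) (nat_lit 446) (nat_lit 4) (nat_lit 457) (nat_lit 5) (nat_lit 457) (nat_lit 4) (nat_lit 359) (nat_lit 331) (nat_lit 330)) (XT.lf (nat_lit 0) (nat_lit 955971456) (nat_lit 912) (nat_lit 1522311661) (nat_lit 988) (nat_lit 4387342993) (nat_lit 433) (nat_lit 5) (nat_lit 445) (nat_lit 5) (nat_lit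 446) (nat_lit 4) (nat_lit 360) (nat_lit 331) (nat_lit 329))))))) (XT.nd (nat_lit 1170) (nat_lit 5396) (nat_lit 0) (XT.nd (nat_lit 546) (nat_lit 3724) (nat_lit 0) (XT.nd (nat_lit 234) (nat_lit 3344) (nat_lit 0) (XT.nd (nat_lit 78) (nat_lit 2128) (nat_lit 0) (XT.lf (nat_lit 0) (nat_lit 5830345542) (nat_lit 912) (nat_lit 9153571) (nat_lit 988) (nat_lit 1071462293) (nat_lit 433) (nat_lit 5) (nat_lit 445) (nat_lit 5) (nat_lit 446) (nat_lit 4) (nat_lit 361) (nat_lit 331) (nat_lit 328)) (XT.nd (nat_lit 78) (nat_lit 1064) (nat_lit 0) (XT.lf (nat_lit 0) (nat_lit 2247990209) (nat_lit 1064) (nat_lit 3121985826) (nat_lit 76) (nat_lit 1588509802) (nat_lit 419) (nat_lit 5) (nat_lit 433) (nat_lit 5) (nat_lit 420) (nat_lit 4) (nat_lit 362) (nat_lit 331) (nat_lit 327)) (XT.lf (nat_lit 0) (nat_lit 1845800996) (nat_lit 1064) (nat_lit 3727953383) (nat_lit 1140) (nat_lit 1435515463) (nat_lit 405) (nat_lit 5) (nat_lit 419)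 (nat_lit 5) (nat_lit 420) (nat_lit 4) (nat_lit 363) (nat_lit 331) (nat_lit 326)))) (XT.nd (nat_lit 156) (nat_lit 2128) (nat_lit 0) (XT.nd (nat_lit 78) (nat_lit 1140) (nat_lit 0) (XT.lf (nat_lit 0) (nat_lit 1832194165) (nat_lit 1140) (nat_lit 149577546) (nat_lit 76) (nat_lit 5081278105) (nat_lit 404) (nat_lit 5) (nat_lit 419) (nat_lit 5) (nat_lit 405) (nat_lit 5) (nat_lit 364) (nat_lit 331) (nat_lit 325)) (XT.lf (nat_lit 0) (nat_lit 5004358490) (nat_lit 1140) (nat_lit 116182279) (nat_lit 1216) (nat_lit 1998932287) (nat_lit 389) (nat_lit 5) (nat_lit 404) (nat_lit 5) (nat_lit 405) (nat_lit 5) (nat_lit 365) (nat_lit 331) (nat_lit 324))) (XT.nd (nat_lit 78) (nat_lit 836) (nat_lit 0) (XT.lf (nat_lit 0) (nat_lit 1257372093) (nat_lit 1292) (nat_lit 4105777385) (nat_lit 76) (nat_lit 1815454724) (nat_lit 372) (nat_lit 5) (nat_lit 389) (nat_lit 5) (nat_lit 373) (nat_lit 5) (nat_lit 366) (nat_lit 331) (nat_lit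 323)) (XT.lf (nat_lit 0) (nat_lit 1125016287) (nat_lit 836) (nat_lit 3385927863) (nat_lit 912) (nat_lit 2729778738) (nat_lit 361) (nat_lit 5) (nat_lit 372) (nat_lit 5) (nat_lit 373) (nat_lit 5) (nat_lit 367) (nat_lit 331) (nat_lit 322))))) (XT.nd (nat_lit 312) (nat_lit 1824) (nat_lit 0) (XT.nd (nat_lit 156) (nat_lit 1216) (nat_lit 0) (XT.nd (nat_lit 78) (nat_lit 608) (nat_lit 0) (XT.lf (nat_lit 0) (nat_lit 495532892) (nat_lit 912) (nat_lit 809911848) (nat_lit 76) (nat_lit 6000629890) (nat_lit 360) (nat_lit 5) (nat_lit 372) (nat_lit 5) (nat_lit 361) (nat_lit 5) (nat_lit 368) (nat_lit 331) (nat_lit 321)) (XT.lf (nat_lit 0) (nat_lit 3725722236) (nat_lit 684) (nat_lit 2759149066) (nat_lit 76) (nat_lit 888815269) (nat_lit 352) (nat_lit 5) (nat_lit 361) (nat_lit 5) (nat_lit 353) (nat_lit 5) (nat_lit 369) (nat_lit 331) (nat_lit 320))) (XT.nd (nat_lit 78) (nat_lit 608) (nat_lit 0) (XT.lf (nat_lit 0) (nat_lit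 2718879206) (nat_lit 608) (nat_lit 4292757728) (nat_lit 684) (nat_lit 432925346) (nat_lit 344) (nat_lit 5) (nat_lit 352) (nat_lit 5) (nat_lit 353) (nat_lit 5) (nat_lit 370) (nat_lit 331) (nat_lit 319)) (XT.lf (nat_lit 0) (nat_lit 791364587) (nat_lit 532) (nat_lit 1979073649) (nat_lit 608) (nat_lit 4747854573) (nat_lit 336) (nat_lit 5) (nat_lit 343) (nat_lit 5) (nat_lit 344) (nat_lit 5) (nat_lit 371) (nat_lit 331) (nat_lit 318)))) (XT.nd (nat_lit 156) (nat_lit 1140) (nat_lit 0) (XT.nd (nat_lit 78) (nat_lit 684) (nat_lit 0) (XT.lf (nat_lit 0) (nat_lit 6027108481) (nat_lit 608) (nat_lit 1129393000) (nat_lit 76) (nat_lit 438627965) (nat_lit 336) (nat_lit 5) (nat_lit 344) (nat_lit 5) (nat_lit 337) (nat_lit 5) (nat_lit 372) (nat_lit 331) (nat_lit 317)) (XT.lf (nat_lit 0) (nat_lit 1653953452) (nat_lit 684) (nat_lit 3080502677) (nat_lit 76) (nat_lit 2939920946) (nat_lit 327) (nat_lit 5) (nat_lit 336) (nat_lit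 5) (nat_lit 328) (nat_lit 5) (nat_lit 373) (nat_lit 331) (nat_lit 316))) (XT.nd (nat_lit 78) (nat_lit 608) (nat_lit 0) (XT.lf (nat_lit 0) (nat_lit 2696739175) (nat_lit 532) (nat_lit 2198824109) (nat_lit 608) (nat_lit 2861338344) (nat_lit 320) (nat_lit 5) (nat_lit 327) (nat_lit 5) (nat_lit 328) (nat_lit 5) (nat_lit 374) (nat_lit 331) (nat_lit 315)) (XT.lf (nat_lit 0) (nat_lit 345795057) (nat_lit 608) (nat_lit 7063920194) (nat_lit 76) (nat_lit 433245420) (nat_lit 312) (nat_lit 5) (nat_lit 320) (nat_lit 5) (nat_lit 313) (nat_lit 5) (nat_lit 375) (nat_lit 331) (nat_lit 314)))))) (XT.nd (nat_lit 624) (nat_lit 2432) (nat_lit 0) (XT.nd (nat_lit 312) (nat_lit 1444) (nat_lit 0) (XT.nd (nat_lit 156) (nat_lit 1064) (nat_lit 0) (XT.nd (nat_lit 78) (nat_lit 456) (nat_lit 0) (XT.lf (nat_lit 0) (nat_lit 3584069197) (nat_lit 608) (nat_lit 1182115602) (nat_lit 76) (nat_lit 3164793682) (nat_lit 312) (nat_lit 5) (nat_lit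 320) (nat_lit 5) (nat_lit 313) (nat_lit 5) (nat_lit 376) (nat_lit 331) (nat_lit 313)) (XT.lf (nat_lit 0) (nat_lit 4875566111) (nat_lit 456) (nat_lit 2012212401) (nat_lit 532) (nat_lit 1134809703) (nat_lit 306) (nat_lit 5) (nat_lit 312) (nat_lit 5) (nat_lit 313) (nat_lit 5) (nat_lit 377) (nat_lit 331) (nat_lit 312))) (XT.nd (nat_lit 78) (nat_lit 456) (nat_lit 0) (XT.lf (nat_lit 0) (nat_lit 2102164919) (nat_lit 608) (nat_lit 5162698134) (nat_lit 76) (nat_lit 852328519) (nat_lit 298) (nat_lit 5) (nat_lit 306) (nat_lit 5) (nat_lit 299) (nat_lit 5) (nat_lit 378) (nat_lit 331) (nat_lit 311)) (XT.lf (nat_lit 0) (nat_lit 980032669) (nat_lit 456) (nat_lit 4418051351) (nat_lit 532) (nat_lit 2816672624) (nat_lit 292) (nat_lit 5) (nat_lit 298) (nat_lit 5) (nat_lit 299) (nat_lit 5) (nat_lit 379) (nat_lit 331) (nat_lit 310)))) (XT.nd (nat_lit 156) (nat_lit 912) (nat_lit 0) (XT.nd (nat_lit 78) (nat_lit 456) (nat_lit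 0) (XT.lf (nat_lit 0) (nat_lit 444729078) (nat_lit 532) (nat_lit 1003981404) (nat_lit 76) (nat_lit 6867107926) (nat_lit 291) (nat_lit 5) (nat_lit 298) (nat_lit 5) (nat_lit 292) (nat_lit 5) (nat_lit 380) (nat_lit 331) (nat_lit 309)) (XT.lf (nat_lit 0) (nat_lit 3741276852) (nat_lit 532) (nat_lit 3039919120) (nat_lit 76) (nat_lit 1638061926) (nat_lit 285) (nat_lit 5) (nat_lit 292) (nat_lit 5) (nat_lit 286) (nat_lit 5) (nat_lit 381) (nat_lit 331) (nat_lit 308))) (XT.nd (nat_lit 78) (nat_lit 532) (nat_lit 0) (XT.lf (nat_lit 0) (nat_lit 3404991062) (nat_lit 380) (nat_lit 3716074215) (nat_lit 456) (nat_lit 1405204970) (nat_lit 280) (nat_lit 5) (nat_lit 285) (nat_lit 5) (nat_lit 286) (nat_lit 5) (nat_lit 382) (nat_lit 331) (nat_lit 307)) (XT.lf (nat_lit 0) (nat_lit 1380990018) (nat_lit 456) (nat_lit 518211229) (nat_lit 532) (nat_lit 6737570665) (nat_lit 273) (nat_lit 5) (nat_lit 279) (nat_lit 5) (nat_lit 280)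 (nat_lit 5) (nat_lit 383) (nat_lit 331) (nat_lit 306))))) (XT.nd (nat_lit 312) (nat_lit 1216) (nat_lit 0) (XT.nd (nat_lit 156) (nat_lit 836) (nat_lit 0) (XT.nd (nat_lit 78) (nat_lit 380) (nat_lit 0) (XT.lf (nat_lit 0) (nat_lit 5281887879) (nat_lit 532) (nat_lit 704538412) (nat_lit 76) (nat_lit 2763523204) (nat_lit 273) (nat_lit 5) (nat_lit 280) (nat_lit 5) (nat_lit 274) (nat_lit 5) (nat_lit 384) (nat_lit 331) (nat_lit 305)) (XT.lf (nat_lit 0) (nat_lit 6061535577) (nat_lit 380) (nat_lit 2698484419) (nat_lit 456) (nat_lit 106683462) (nat_lit 268) (nat_lit 5) (nat_lit 273) (nat_lit 5) (nat_lit 274) (nat_lit 5) (nat_lit 385) (nat_lit 331) (nat_lit 304))) (XT.nd (nat_lit 78) (nat_lit 380) (nat_lit 0) (XT.lf (nat_lit 0) (nat_lit 3273921688) (nat_lit 456) (nat_lit 4984935949) (nat_lit 76) (nat_lit 727618812) (nat_lit 262) (nat_lit 5) (nat_lit 268) (nat_lit 5) (nat_lit 263) (nat_lit 5) (nat_lit 386) (nat_lit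 331) (nat_lit 303)) (XT.lf (nat_lit 0) (nat_lit 1873311952) (nat_lit 380) (nat_lit 4885678773) (nat_lit 456) (nat_lit 2350664519) (nat_lit 257) (nat_lit 5) (nat_lit 262) (nat_lit 5) (nat_lit 263) (nat_lit 5) (nat_lit 387) (nat_lit 331) (nat_lit 302)))) (XT.nd (nat_lit 156) (nat_lit 760) (nat_lit 0) (XT.nd (nat_lit 78) (nat_lit 380) (nat_lit 0) (XT.lf (nat_lit 0) (nat_lit 1073481346) (nat_lit 456) (nat_lit 303268746) (nat_lit 76) (nat_lit 7859965619) (nat_lit 256) (nat_lit 5) (nat_lit 262) (nat_lit 5) (nat_lit 257) (nat_lit 5) (nat_lit 388) (nat_lit 331) (nat_lit 301)) (XT.lf (nat_lit 0) (nat_lit 4575353234) (nat_lit 456) (nat_lit 2534469091) (nat_lit 76) (nat_lit 2256400020) (nat_lit 251) (nat_lit 5) (nat_lit 257) (nat_lit 5) (nat_lit 252) (nat_lit 5) (nat_lit 389) (nat_lit 331) (nat_lit 300))) (XT.nd (nat_lit 78) (nat_lit 456) (nat_lit 0) (XT.lf (nat_lit 0) (nat_lit 4670501495) (nat_lit 304) (nat_lit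 3508388754) (nat_lit 380) (nat_lit 1320825661) (nat_lit 247) (nat_lit 5) (nat_lit 251) (nat_lit 5) (nat_lit 252) (nat_lit 5) (nat_lit 390) (nat_lit 331) (nat_lit 299)) (XT.lf (nat_lit 0) (nat_lit 2196324767) (nat_lit 456) (nat_lit 7201438426) (nat_lit 76) (nat_lit 239191998) (nat_lit 241) (nat_lit 5) (nat_lit 247) (nat_lit 5) (nat_lit 242) (nat_lit 5) (nat_lit 391) (nat_lit 331) (nat_lit 298))))))))
noncomputable def xc78 : XT := (XT.nd (nat_lit 2340) (nat_lit 3572) (nat_lit 0) (XT.nd (nat_lit 1170) (nat_lit 2432) (nat_lit 0) (XT.nd (nat_lit 546) (nat_lit 1748) (nat_lit 0) (XT.nd (nat_lit 234) (nat_lit 912) (nat_lit 0) (XT.nd (nat_lit 78) (nat_lit 380) (nat_lit 0) (XT.lf (nat_lit 0) (nat_lit 98413754) (nat_lit 304) (nat_lit 5714998504) (nat_lit 380) (nat_lit 3963877974) (nat_lit 237) (nat_lit 5) (nat_lit 241) (nat_lit 5) (nat_lit 242) (nat_lit 5) (nat_lit 392) (nat_lit 331) (nat_lit 297)) (XT.nd (nat_lit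 78) (nat_lit 380) (nat_lit 0) (XT.lf (nat_lit 0) (nat_lit 7670275465) (nat_lit 304) (nat_lit 1878449706) (nat_lit 380) (nat_lit 372818768) (nat_lit 237) (nat_lit 5) (nat_lit 241) (nat_lit 5) (nat_lit 242) (nat_lit 5) (nat_lit 393) (nat_lit 331) (nat_lit 296)) (XT.lf (nat_lit 0) (nat_lit 3271455818) (nat_lit 380) (nat_lit 4710845339) (nat_lit 76) (nat_lit 2086553404) (nat_lit 232) (nat_lit 5) (nat_lit 237) (nat_lit 5) (nat_lit 233) (nat_lit 5) (nat_lit 394) (nat_lit 331) (nat_lit 295)))) (XT.nd (nat_lit 156) (nat_lit 228) (nat_lit 0) (XT.nd (nat_lit 78) (nat_lit 380) (nat_lit 0) (XT.lf (nat_lit 0) (nat_lit 2963429023) (nat_lit 304) (nat_lit 4063013956) (nat_lit 380) (nat_lit 3193764453) (nat_lit 228) (nat_lit 5) (nat_lit 232) (nat_lit 5) (nat_lit 233) (nat_lit 5) (nat_lit 395) (nat_lit 331) (nat_lit 294)) (XT.lf (nat_lit 0) (nat_lit 499850380) (nat_lit 380) (nat_lit 9876047754) (nat_lit 76) (nat_lit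 294009) (nat_lit 223) (nat_lit 5) (nat_lit 228) (nat_lit 5) (nat_lit 224) (nat_lit 5) (nat_lit 396) (nat_lit 331) (nat_lit 293))) (XT.nd (nat_lit 78) (nat_lit 228) (nat_lit 0) (XT.lf (nat_lit 0) (nat_lit 4294002514) (nat_lit 380) (nat_lit 2063249342) (nat_lit 76) (nat_lit 4177038286) (nat_lit 223) (nat_lit 5) (nat_lit 228) (nat_lit 5) (nat_lit 224) (nat_lit 5) (nat_lit 397) (nat_lit 331) (nat_lit 292)) (XT.lf (nat_lit 0) (nat_lit 6009403752) (nat_lit 228) (nat_lit 2191785920) (nat_lit 304) (nat_lit 2495965095) (nat_lit 220) (nat_lit 5) (nat_lit 223) (nat_lit 5) (nat_lit 224) (nat_lit 5) (nat_lit 398) (nat_lit 331) (nat_lit 291))))) (XT.nd (nat_lit 312) (nat_lit 760) (nat_lit 0) (XT.nd (nat_lit 156) (nat_lit 380) (nat_lit 0) (XT.nd (nat_lit 78) (nat_lit 228) (nat_lit 0) (XT.lf (nat_lit 0) (nat_lit 1350700444) (nat_lit 380) (nat_lit 7420632732) (nat_lit 76) (nat_lit 2092682804) (nat_lit 215) (nat_lit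 5) (nat_lit 220) (nat_lit 5) (nat_lit 216) (nat_lit 5) (nat_lit 399) (nat_lit 331) (nat_lit 290)) (XT.lf (nat_lit 0) (nat_lit 755388610) (nat_lit 228) (nat_lit 4526181414) (nat_lit 304) (nat_lit 5753002514) (nat_lit 212) (nat_lit 5) (nat_lit 215) (nat_lit 5) (nat_lit 216) (nat_lit 5) (nat_lit 400) (nat_lit 331) (nat_lit 289))) (XT.nd (nat_lit 78) (nat_lit 380) (nat_lit 0) (XT.lf (nat_lit 0) (nat_lit 9237161065) (nat_lit 228) (nat_lit 111143553) (nat_lit 304) (nat_lit 1861403008) (nat_lit 212) (nat_lit 5) (nat_lit 215) (nat_lit 5) (nat_lit 216) (nat_lit 5) (nat_lit 401) (nat_lit 331) (nat_lit 288)) (XT.lf (nat_lit 0) (nat_lit 2155772314) (nat_lit 380) (nat_lit 4831018328) (nat_lit 76) (nat_lit 4401165320) (nat_lit 207) (nat_lit 5) (nat_lit 212) (nat_lit 5) (nat_lit 208) (nat_lit 5) (nat_lit 402) (nat_lit 331) (nat_lit 287)))) (XT.nd (nat_lit 156) (nat_lit 304) (nat_lit 0) (XT.nd (nat_lit 78) (nat_lit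 228) (nat_lit 0) (XT.lf (nat_lit 0) (nat_lit 3775197194) (nat_lit 228) (nat_lit 2482919055) (nat_lit 304) (nat_lit 5312820634) (nat_lit 204) (nat_lit 5) (nat_lit 207) (nat_lit 5) (nat_lit 208) (nat_lit 5) (nat_lit 403) (nat_lit 331) (nat_lit 286)) (XT.lf (nat_lit 0) (nat_lit 885815991) (nat_lit 228) (nat_lit 9621198540) (nat_lit 304) (nat_lit 1251688180) (nat_lit 201) (nat_lit 5) (nat_lit 204) (nat_lit 5) (nat_lit 205) (nat_lit 5) (nat_lit 404) (nat_lit 331) (nat_lit 285))) (XT.nd (nat_lit 78) (nat_lit 228) (nat_lit 0) (XT.lf (nat_lit 0) (nat_lit 2923339124) (nat_lit 304) (nat_lit 2106803590) (nat_lit 76) (nat_lit 6919635663) (nat_lit 200) (nat_lit 5) (nat_lit 204) (nat_lit 5) (nat_lit 201) (nat_lit 5) (nat_lit 405) (nat_lit 331) (nat_lit 284)) (XT.lf (nat_lit 0) (nat_lit 6957135553) (nat_lit 228) (nat_lit 254973264) (nat_lit 304) (nat_lit 4933696230) (nat_lit 197) (nat_lit 5) (nat_lit 200) (nat_lit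 5) (nat_lit 201) (nat_lit 5) (nat_lit 406) (nat_lit 331) (nat_lit 283)))))) (XT.nd (nat_lit 546) (nat_lit 1140) (nat_lit 0) (XT.nd (nat_lit 234) (nat_lit 760) (nat_lit 0) (XT.nd (nat_lit 78) (nat_lit 304) (nat_lit 0) (XT.lf (nat_lit 0) (nat_lit 3931930702) (nat_lit 228) (nat_lit 7748863751) (nat_lit 304) (nat_lit 665380477) (nat_lit 194) (nat_lit 5) (nat_lit 197) (nat_lit 5) (nat_lit 198) (nat_lit 5) (nat_lit 407) (nat_lit 331) (nat_lit 282)) (XT.nd (nat_lit 78) (nat_lit 0) (nat_lit 0) (XT.lf (nat_lit 0) (nat_lit 768577387) (nat_lit 228) (nat_lit 2899749861) (nat_lit 304) (nat_lit 8882848304) (nat_lit 190) (nat_lit 5) (nat_lit 193) (nat_lit 5) (nat_lit 194) (nat_lit 5) (nat_lit 408) (nat_lit 331) (nat_lit 281)) (XT.lf (nat_lit 0) (nat_lit 8172278078) (nat_lit 304) (nat_lit 2477354961) (nat_lit 76) (nat_lit 2110887354) (nat_lit 190) (nat_lit 5) (nat_lit 194) (nat_lit 5) (nat_lit 191) (nat_lit 5) (nat_lit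 409) (nat_lit 331) (nat_lit 280)))) (XT.nd (nat_lit 156) (nat_lit 304) (nat_lit 0) (XT.nd (nat_lit 78) (nat_lit 228) (nat_lit 0) (XT.lf (nat_lit 0) (nat_lit 7130705005) (nat_lit 228) (nat_lit 5727081861) (nat_lit 304) (nat_lit 116965532) (nat_lit 187) (nat_lit 5) (nat_lit 190) (nat_lit 5) (nat_lit 191) (nat_lit 5) (nat_lit 410) (nat_lit 331) (nat_lit 279)) (XT.lf (nat_lit 0) (nat_lit 3827490636) (nat_lit 152) (nat_lit 584771192) (nat_lit 228) (nat_lit 8781513219) (nat_lit 184) (nat_lit 5) (nat_lit 186) (nat_lit 5) (nat_lit 187) (nat_lit 5) (nat_lit 411) (nat_lit 331) (nat_lit 278))) (XT.nd (nat_lit 78) (nat_lit 76) (nat_lit 0) (XT.lf (nat_lit 0) (nat_lit 364211381) (nat_lit 228) (nat_lit 8768838337) (nat_lit 304) (nat_lit 4284542878) (nat_lit 181) (nat_lit 5) (nat_lit 184) (nat_lit 5) (nat_lit 185) (nat_lit 5) (nat_lit 412) (nat_lit 331) (nat_lit 277)) (XT.lf (nat_lit 0) (nat_lit 391653323) (nat_lit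 304) (nat_lit 3164109320) (nat_lit 76) (nat_lit 10090729028) (nat_lit 180) (nat_lit 5) (nat_lit 184) (nat_lit 5) (nat_lit 181) (nat_lit 5) (nat_lit 413) (nat_lit 331) (nat_lit 276))))) (XT.nd (nat_lit 312) (nat_lit 532) (nat_lit 0) (XT.nd (nat_lit 156) (nat_lit 228) (nat_lit 0) (XT.nd (nat_lit 78) (nat_lit 228) (nat_lit 0) (XT.lf (nat_lit 0) (nat_lit 5159040847) (nat_lit 228) (nat_lit 6866795025) (nat_lit 76) (nat_lit 1854038593) (nat_lit 178) (nat_lit 5) (nat_lit 181) (nat_lit 5) (nat_lit 179) (nat_lit 5) (nat_lit 414) (nat_lit 331) (nat_lit 275)) (XT.lf (nat_lit 0) (nat_lit 3386606384) (nat_lit 228) (nat_lit 6734388331) (nat_lit 304) (nat_lit 3997717688) (nat_lit 175) (nat_lit 5) (nat_lit 178) (nat_lit 5) (nat_lit 179) (nat_lit 5) (nat_lit 415) (nat_lit 331) (nat_lit 274))) (XT.nd (nat_lit 78) (nat_lit 152) (nat_lit 0) (XT.lf (nat_lit 0) (nat_lit 871844739) (nat_lit 304) (nat_lit 368513810) (nat_lit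 76) (nat_lit 13123456687) (nat_lit 174) (nat_lit 5) (nat_lit 178) (nat_lit 5) (nat_lit 175) (nat_lit 5) (nat_lit 416) (nat_lit 331) (nat_lit 273)) (XT.lf (nat_lit 0) (nat_lit 5903546948) (nat_lit 228) (nat_lit 4270673859) (nat_lit 76) (nat_lit 4437970812) (nat_lit 172) (nat_lit 5) (nat_lit 175) (nat_lit 5) (nat_lit 173) (nat_lit 5) (nat_lit 417) (nat_lit 331) (nat_lit 272)))) (XT.nd (nat_lit 156) (nat_lit 152) (nat_lit 0) (XT.nd (nat_lit 78) (nat_lit 228) (nat_lit 0) (XT.lf (nat_lit 0) (nat_lit 6544909090) (nat_lit 152) (nat_lit 4573535304) (nat_lit 228) (nat_lit 3748607576) (nat_lit 170) (nat_lit 5) (nat_lit 172) (nat_lit 5) (nat_lit 173) (nat_lit 5) (nat_lit 418) (nat_lit 331) (nat_lit 271)) (XT.lf (nat_lit 0) (nat_lit 1367568042) (nat_lit 228) (nat_lit 12542111751) (nat_lit 76) (nat_lit 1218469665) (nat_lit 167) (nat_lit 5) (nat_lit 170) (nat_lit 5) (nat_lit 168) (nat_lit 5) (nat_lit 419) (nat_lit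 331) (nat_lit 270))) (XT.nd (nat_lit 78) (nat_lit 152) (nat_lit 0) (XT.lf (nat_lit 0) (nat_lit 6645660548) (nat_lit 228) (nat_lit 1569045006) (nat_lit 76) (nat_lit 7178747621) (nat_lit 167) (nat_lit 5) (nat_lit 170) (nat_lit 5) (nat_lit 168) (nat_lit 5) (nat_lit 420) (nat_lit 331) (nat_lit 269)) (XT.lf (nat_lit 0) (nat_lit 9844424372) (nat_lit 152) (nat_lit 2287275885) (nat_lit 228) (nat_lit 3533527614) (nat_lit 165) (nat_lit 5) (nat_lit 167) (nat_lit 5) (nat_lit 168) (nat_lit 5) (nat_lit 421) (nat_lit 331) (nat_lit 268))))))) (XT.nd (nat_lit 1170) (nat_lit 1748) (nat_lit 0) (XT.nd (nat_lit 546) (nat_lit 836) (nat_lit 0) (XT.nd (nat_lit 234) (nat_lit 608) (nat_lit 0) (XT.nd (nat_lit 78) (nat_lit 152) (nat_lit 0) (XT.lf (nat_lit 0) (nat_lit 1864415347) (nat_lit 228) (nat_lit 10280874415) (nat_lit 76) (nat_lit 3797443254) (nat_lit 162) (nat_lit 5) (nat_lit 165) (nat_lit 5) (nat_lit 163) (nat_lit 5) (nat_lit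 422) (nat_lit 331) (nat_lit 267)) (XT.nd (nat_lit 78) (nat_lit 0) (nat_lit 0) (XT.lf (nat_lit 0) (nat_lit 1266844394) (nat_lit 152) (nat_lit 6135884691) (nat_lit 228) (nat_lit 8823301083) (nat_lit 160) (nat_lit 5) (nat_lit 162) (nat_lit 5) (nat_lit 163) (nat_lit 5) (nat_lit 423) (nat_lit 331) (nat_lit 266)) (XT.lf (nat_lit 0) (nat_lit 13168004504) (nat_lit 228) (nat_lit 3225880463) (nat_lit 76) (nat_lit 122116898) (nat_lit 160) (nat_lit 5) (nat_lit 163) (nat_lit 5) (nat_lit 161) (nat_lit 4) (nat_lit 424) (nat_lit 331) (nat_lit 265)))) (XT.nd (nat_lit 156) (nat_lit 228) (nat_lit 0) (XT.nd (nat_lit 78) (nat_lit 152) (nat_lit 0) (XT.lf (nat_lit 0) (nat_lit 2350854882) (nat_lit 228) (nat_lit 7941415770) (nat_lit 76) (nat_lit 6518621041) (nat_lit 157) (nat_lit 5) (nat_lit 160) (nat_lit 5) (nat_lit 158) (nat_lit 5) (nat_lit 425) (nat_lit 331) (nat_lit 264)) (XT.lf (nat_lit 0) (nat_lit 4250561146) (nat_lit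 152) (nat_lit 3933409424) (nat_lit 228) (nat_lit 8928745511) (nat_lit 155) (nat_lit 5) (nat_lit 157) (nat_lit 5) (nat_lit 158) (nat_lit 5) (nat_lit 426) (nat_lit 331) (nat_lit 263))) (XT.nd (nat_lit 78) (nat_lit 228) (nat_lit 0) (XT.lf (nat_lit 0) (nat_lit 14255209806) (nat_lit 228) (nat_lit 555286458) (nat_lit 76) (nat_lit 2611205035) (nat_lit 155) (nat_lit 5) (nat_lit 158) (nat_lit 5) (nat_lit 156) (nat_lit 4) (nat_lit 427) (nat_lit 331) (nat_lit 262)) (XT.lf (nat_lit 0) (nat_lit 2830628782) (nat_lit 228) (nat_lit 5520431007) (nat_lit 76) (nat_lit 9384617133) (nat_lit 152) (nat_lit 5) (nat_lit 155) (nat_lit 5) (nat_lit 153) (nat_lit 5) (nat_lit 428) (nat_lit 331) (nat_lit 261))))) (XT.nd (nat_lit 312) (nat_lit 380) (nat_lit 0) (XT.nd (nat_lit 156) (nat_lit 228) (nat_lit 0) (XT.nd (nat_lit 78) (nat_lit 76) (nat_lit 0) (XT.lf (nat_lit 0) (nat_lit 7356508422) (nat_lit 152) (nat_lit 1622211442) (nat_lit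 228) (nat_lit 9078370393) (nat_lit 150) (nat_lit 5) (nat_lit 152) (nat_lit 5) (nat_lit 153) (nat_lit 5) (nat_lit 429) (nat_lit 331) (nat_lit 260)) (XT.lf (nat_lit 0) (nat_lit 2261848105) (nat_lit 76) (nat_lit 13136940233) (nat_lit 152) (nat_lit 2986731614) (nat_lit 149) (nat_lit 5) (nat_lit 150) (nat_lit 5) (nat_lit 151) (nat_lit 4) (nat_lit 430) (nat_lit 331) (nat_lit 259))) (XT.nd (nat_lit 78) (nat_lit 152) (nat_lit 0) (XT.lf (nat_lit 0) (nat_lit 3307223730) (nat_lit 152) (nat_lit 3014015665) (nat_lit 76) (nat_lit 12399103410) (nat_lit 148) (nat_lit 5) (nat_lit 150) (nat_lit 5) (nat_lit 149) (nat_lit 5) (nat_lit 431) (nat_lit 331) (nat_lit 258)) (XT.lf (nat_lit 0) (nat_lit 9799203604) (nat_lit 228) (nat_lit 8479107724) (nat_lit 76) (nat_lit 783934782) (nat_lit 146) (nat_lit 5) (nat_lit 149) (nat_lit 5) (nat_lit 147) (nat_lit 4) (nat_lit 432) (nat_lit 331) (nat_lit 257)))) (XT.nd (nat_lit 156) (nat_lit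 228) (nat_lit 0) (XT.nd (nat_lit 78) (nat_lit 76) (nat_lit 0) (XT.lf (nat_lit 0) (nat_lit 5199978947) (nat_lit 76) (nat_lit 11389143562) (nat_lit 152) (nat_lit 2822188617) (nat_lit 145) (nat_lit 5) (nat_lit 146) (nat_lit 5) (nat_lit 147) (nat_lit 4) (nat_lit 433) (nat_lit 331) (nat_lit 256)) (XT.lf (nat_lit 0) (nat_lit 3783909156) (nat_lit 152) (nat_lit 417680406) (nat_lit 76) (nat_lit 15566767202) (nat_lit 144) (nat_lit 5) (nat_lit 146) (nat_lit 5) (nat_lit 145) (nat_lit 5) (nat_lit 434) (nat_lit 331) (nat_lit 255))) (XT.nd (nat_lit 78) (nat_lit 76) (nat_lit 0) (XT.lf (nat_lit 0) (nat_lit 10658823683) (nat_lit 228) (nat_lit 6203169649) (nat_lit 76) (nat_lit 3269461457) (nat_lit 142) (nat_lit 5) (nat_lit 145) (nat_lit 5) (nat_lit 143) (nat_lit 4) (nat_lit 435) (nat_lit 331) (nat_lit 254)) (XT.lf (nat_lit 0) (nat_lit 8254213229) (nat_lit 76) (nat_lit 9572188877) (nat_lit 152) (nat_lit 2676451153) (nat_lit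 141) (nat_lit 5) (nat_lit 142) (nat_lit 5) (nat_lit 143) (nat_lit 4) (nat_lit 436) (nat_lit 331) (nat_lit 253)))))) (XT.nd (nat_lit 624) (nat_lit 836) (nat_lit 0) (XT.nd (nat_lit 312) (nat_lit 380) (nat_lit 0) (XT.nd (nat_lit 156) (nat_lit 304) (nat_lit 0) (XT.nd (nat_lit 78) (nat_lit 0) (nat_lit 0) (XT.lf (nat_lit 0) (nat_lit 2318889116) (nat_lit 152) (nat_lit 1967173254) (nat_lit 228) (nat_lit 16596679954) (nat_lit 138) (nat_lit 5) (nat_lit 140) (nat_lit 5) (nat_lit 141) (nat_lit 5) (nat_lit 437) (nat_lit 331) (nat_lit 252)) (XT.lf (nat_lit 0) (nat_lit 11546327452) (nat_lit 228) (nat_lit 3853145140) (nat_lit 76) (nat_lit 5869480378) (nat_lit 138) (nat_lit 5) (nat_lit 141) (nat_lit 5) (nat_lit 139) (nat_lit 4) (nat_lit 438) (nat_lit 331) (nat_lit 251))) (XT.nd (nat_lit 78) (nat_lit 228) (nat_lit 0) (XT.lf (nat_lit 0) (nat_lit 11431362322) (nat_lit 76) (nat_lit 7684896279) (nat_lit 152) (nat_lit 2547735589)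 (nat_lit 137) (nat_lit 5) (nat_lit 138) (nat_lit 5) (nat_lit 139) (nat_lit 4) (nat_lit 439) (nat_lit 331) (nat_lit 250)) (XT.lf (nat_lit 0) (nat_lit 4802937170) (nat_lit 228) (nat_lit 16905080140) (nat_lit 76) (nat_lit 359822030) (nat_lit 134) (nat_lit 5) (nat_lit 137) (nat_lit 5) (nat_lit 135) (nat_lit 4) (nat_lit 440) (nat_lit 331) (nat_lit 249)))) (XT.nd (nat_lit 156) (nat_lit 304) (nat_lit 0) (XT.nd (nat_lit 78) (nat_lit 76) (nat_lit 0) (XT.lf (nat_lit 0) (nat_lit 12466000350) (nat_lit 228) (nat_lit 1424517851) (nat_lit 76) (nat_lit 8588232575) (nat_lit 134) (nat_lit 5) (nat_lit 137) (nat_lit 5) (nat_lit 135) (nat_lit 4) (nat_lit 441) (nat_lit 331) (nat_lit 248)) (XT.lf (nat_lit 0) (nat_lit 14738892947) (nat_lit 76) (nat_lit 5725466526) (nat_lit 152) (nat_lit 2434467961) (nat_lit 133) (nat_lit 5) (nat_lit 134) (nat_lit 5) (nat_lit 135) (nat_lit 4) (nat_lit 442) (nat_lit 331) (nat_lit 247))) (XT.nd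 (nat_lit 78) (nat_lit 76) (nat_lit 0) (XT.lf (nat_lit 0) (nat_lit 5349645364) (nat_lit 228) (nat_lit 15232337648) (nat_lit 76) (nat_lit 2745475658) (nat_lit 130) (nat_lit 5) (nat_lit 133) (nat_lit 5) (nat_lit 131) (nat_lit 4) (nat_lit 443) (nat_lit 331) (nat_lit 246)) (XT.lf (nat_lit 0) (nat_lit 1109360143) (nat_lit 76) (nat_lit 12323408097) (nat_lit 152) (nat_lit 10332024996) (nat_lit 129) (nat_lit 5) (nat_lit 130) (nat_lit 5) (nat_lit 131) (nat_lit 4) (nat_lit 444) (nat_lit 331) (nat_lit 245))))) (XT.nd (nat_lit 312) (nat_lit 532) (nat_lit 0) (XT.nd (nat_lit 156) (nat_lit 76) (nat_lit 0) (XT.nd (nat_lit 78) (nat_lit 228) (nat_lit 0) (XT.lf (nat_lit 0) (nat_lit 18184934096) (nat_lit 76) (nat_lit 3691510466) (nat_lit 152) (nat_lit 2335261487) (nat_lit 129) (nat_lit 5) (nat_lit 130) (nat_lit 5) (nat_lit 131) (nat_lit 4) (nat_lit 445) (nat_lit 331) (nat_lit 244)) (XT.lf (nat_lit 0) (nat_lit 5910099026)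 (nat_lit 228) (nat_lit 13524286889) (nat_lit 76) (nat_lit 5232222939) (nat_lit 126) (nat_lit 5) (nat_lit 129) (nat_lit 5) (nat_lit 127) (nat_lit 4) (nat_lit 446) (nat_lit 331) (nat_lit 243))) (XT.nd (nat_lit 78) (nat_lit 0) (nat_lit 0) (XT.lf (nat_lit 0) (nat_lit 3762449303) (nat_lit 76) (nat_lit 10692625993) (nat_lit 152) (nat_lit 10676414064) (nat_lit 125) (nat_lit 5) (nat_lit 126) (nat_lit 5) (nat_lit 127) (nat_lit 4) (nat_lit 447) (nat_lit 331) (nat_lit 242)) (XT.lf (nat_lit 0) (nat_lit 21778288238) (nat_lit 76) (nat_lit 1580072600) (nat_lit 152) (nat_lit 2248896644) (nat_lit 125) (nat_lit 5) (nat_lit 126) (nat_lit 5) (nat_lit 127) (nat_lit 4) (nat_lit 448) (nat_lit 331) (nat_lit 241)))) (XT.nd (nat_lit 156) (nat_lit 228) (nat_lit 0) (XT.nd (nat_lit 78) (nat_lit 76) (nat_lit 0) (XT.lf (nat_lit 0) (nat_lit 6487058961) (nat_lit 228) (nat_lit 11778193212) (nat_lit 76) (nat_lit 7824758385) (nat_lit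 122) (nat_lit 5) (nat_lit 125) (nat_lit 5) (nat_lit 123) (nat_lit 4) (nat_lit 449) (nat_lit 331) (nat_lit 240)) (XT.lf (nat_lit 0) (nat_lit 6512489720) (nat_lit 76) (nat_lit 9010828467) (nat_lit 152) (nat_lit 11060757283) (nat_lit 121) (nat_lit 5) (nat_lit 122) (nat_lit 5) (nat_lit 123) (nat_lit 4) (nat_lit 450) (nat_lit 331) (nat_lit 239))) (XT.nd (nat_lit 78) (nat_lit 228) (nat_lit 0) (XT.lf (nat_lit 0) (nat_lit 24921982187) (nat_lit 152) (nat_lit 1567839069) (nat_lit 0) (nat_lit 600401563) (nat_lit 121) (nat_lit 5) (nat_lit 123) (nat_lit 4) (nat_lit 121) (nat_lit 4) (nat_lit 451) (nat_lit 331) (nat_lit 238)) (XT.lf (nat_lit 0) (nat_lit 7083247050) (nat_lit 228) (nat_lit 9991021424) (nat_lit 76) (nat_lit 10528411563) (nat_lit 118) (nat_lit 5) (nat_lit 121) (nat_lit 5) (nat_lit 119) (nat_lit 4) (nat_lit 452) (nat_lit 331) (nat_lit 237))))))))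
noncomputable def xc79 : XT := (XT.nd (nat_lit 2418) (nat_lit 912) (nat_lit 0) (XT.nd (nat_lit 1170) (nat_lit 1216) (nat_lit 0) (XT.nd (nat_lit 546) (nat_lit 608) (nat_lit 0) (XT.nd (nat_lit 234) (nat_lit 304) (nat_lit 0) (XT.nd (nat_lit 78) (nat_lit 152) (nat_lit 0) (XT.lf (nat_lit 0) (nat_lit 9366076422) (nat_lit 76) (nat_lit 7275850190) (nat_lit 152) (nat_lit 11485743526) (nat_lit 117) (nat_lit 5) (nat_lit 118) (nat_lit 5) (nat_lit 119) (nat_lit 4) (nat_lit 453) (nat_lit 331) (nat_lit 236)) (XT.nd (nat_lit 78) (nat_lit 76) (nat_lit 0) (XT.lf (nat_lit 0) (nat_lit 766429250) (nat_lit 76) (nat_lit 25824527130) (nat_lit 76) (nat_lit 2074345867) (nat_lit 116) (nat_lit 4) (nat_lit 117) (nat_lit 5) (nat_lit 117) (nat_lit 4) (nat_lit 454) (nat_lit 331) (nat_lit 235)) (XT.lf (nat_lit 0) (nat_lit 7701366757) (nat_lit 152) (nat_lit 8159438228) (nat_lit 76) (nat_lit 13349141420) (nat_lit 115) (nat_lit 5) (nat_lit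 117) (nat_lit 5) (nat_lit 116) (nat_lit 4) (nat_lit 455) (nat_lit 331) (nat_lit 234)))) (XT.nd (nat_lit 156) (nat_lit 152) (nat_lit 0) (XT.nd (nat_lit 78) (nat_lit 76) (nat_lit 0) (XT.lf (nat_lit 0) (nat_lit 12330318825) (nat_lit 76) (nat_lit 5485104678) (nat_lit 152) (nat_lit 11952287293) (nat_lit 114) (nat_lit 5) (nat_lit 115) (nat_lit 5) (nat_lit 116) (nat_lit 4) (nat_lit 456) (nat_lit 331) (nat_lit 233)) (XT.lf (nat_lit 0) (nat_lit 3212174760) (nat_lit 76) (nat_lit 25153104890) (nat_lit 76) (nat_lit 1972957136) (nat_lit 113) (nat_lit 4) (nat_lit 114) (nat_lit 5) (nat_lit 114) (nat_lit 4) (nat_lit 457) (nat_lit 331) (nat_lit 232))) (XT.nd (nat_lit 78) (nat_lit 76) (nat_lit 0) (XT.lf (nat_lit 0) (nat_lit 8344122332) (nat_lit 152) (nat_lit 6279812333) (nat_lit 76) (nat_lit 16293535354) (nat_lit 112) (nat_lit 5) (nat_lit 114) (nat_lit 5) (nat_lit 113) (nat_lit 4) (nat_lit 458) (nat_lit 331) (nat_lit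 231)) (XT.lf (nat_lit 0) (nat_lit 15412853956) (nat_lit 76) (nat_lit 3635596271) (nat_lit 152) (nat_lit 12461522282) (nat_lit 111) (nat_lit 5) (nat_lit 112) (nat_lit 5) (nat_lit 113) (nat_lit 4) (nat_lit 459) (nat_lit 331) (nat_lit 230))))) (XT.nd (nat_lit 312) (nat_lit 304) (nat_lit 0) (XT.nd (nat_lit 156) (nat_lit 152) (nat_lit 0) (XT.nd (nat_lit 78) (nat_lit 76) (nat_lit 0) (XT.lf (nat_lit 0) (nat_lit 5744054259) (nat_lit 76) (nat_lit 24492234139) (nat_lit 76) (nat_lit 1879090260) (nat_lit 110) (nat_lit 4) (nat_lit 111) (nat_lit 5) (nat_lit 111) (nat_lit 4) (nat_lit 460) (nat_lit 331) (nat_lit 229)) (XT.lf (nat_lit 0) (nat_lit 9014236926) (nat_lit 152) (nat_lit 4348212368) (nat_lit 76) (nat_lit 19368812767) (nat_lit 109) (nat_lit 5) (nat_lit 111) (nat_lit 5) (nat_lit 110) (nat_lit 4) (nat_lit 461) (nat_lit 331) (nat_lit 228))) (XT.nd (nat_lit 78) (nat_lit 76) (nat_lit 0) (XT.lf (nat_lit 0) (nat_lit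 18621862666) (nat_lit 76) (nat_lit 1723928488) (nat_lit 152) (nat_lit 13014796814) (nat_lit 108) (nat_lit 5) (nat_lit 109) (nat_lit 5) (nat_lit 110) (nat_lit 4) (nat_lit 462) (nat_lit 331) (nat_lit 227)) (XT.lf (nat_lit 0) (nat_lit 8368355063) (nat_lit 76) (nat_lit 23842611670) (nat_lit 76) (nat_lit 1792016677) (nat_lit 107) (nat_lit 4) (nat_lit 108) (nat_lit 5) (nat_lit 108) (nat_lit 4) (nat_lit 463) (nat_lit 331) (nat_lit 226)))) (XT.nd (nat_lit 156) (nat_lit 152) (nat_lit 0) (XT.nd (nat_lit 78) (nat_lit 76) (nat_lit 0) (XT.lf (nat_lit 0) (nat_lit 9714469799) (nat_lit 152) (nat_lit 2360402716) (nat_lit 76) (nat_lit 22582832851) (nat_lit 106) (nat_lit 5) (nat_lit 108) (nat_lit 5) (nat_lit 107) (nat_lit 4) (nat_lit 464) (nat_lit 331) (nat_lit 225)) (XT.lf (nat_lit 0) (nat_lit 21714836424) (nat_lit 152) (nat_lit 13362418630) (nat_lit 0) (nat_lit 248740544) (nat_lit 105) (nat_lit 5) (nat_lit 107) (nat_lit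 4) (nat_lit 105) (nat_lit 4) (nat_lit 465) (nat_lit 331) (nat_lit 224))) (XT.nd (nat_lit 78) (nat_lit 76) (nat_lit 0) (XT.lf (nat_lit 0) (nat_lit 11091804883) (nat_lit 76) (nat_lit 23204802010) (nat_lit 76) (nat_lit 1711085859) (nat_lit 104) (nat_lit 4) (nat_lit 105) (nat_lit 5) (nat_lit 105) (nat_lit 4) (nat_lit 466) (nat_lit 331) (nat_lit 223)) (XT.lf (nat_lit 0) (nat_lit 10447632798) (nat_lit 152) (nat_lit 311837368) (nat_lit 76) (nat_lit 25944106418) (nat_lit 103) (nat_lit 5) (nat_lit 105) (nat_lit 5) (nat_lit 104) (nat_lit 4) (nat_lit 467) (nat_lit 331) (nat_lit 222)))))) (XT.nd (nat_lit 624) (nat_lit 608) (nat_lit 0) (XT.nd (nat_lit 312) (nat_lit 304) (nat_lit 0) (XT.nd (nat_lit 156) (nat_lit 152) (nat_lit 0) (XT.nd (nat_lit 78) (nat_lit 76) (nat_lit 0) (XT.lf (nat_lit 0) (nat_lit 23175535591) (nat_lit 152) (nat_lit 11980589894) (nat_lit 0) (nat_lit 2256538791) (nat_lit 102) (nat_lit 5) (nat_lit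 104) (nat_lit 4) (nat_lit 102) (nat_lit 4) (nat_lit 468) (nat_lit 331) (nat_lit 221)) (XT.lf (nat_lit 0) (nat_lit 13921587176) (nat_lit 76) (nat_lit 22579253757) (nat_lit 76) (nat_lit 1635716702) (nat_lit 101) (nat_lit 4) (nat_lit 102) (nat_lit 5) (nat_lit 102) (nat_lit 4) (nat_lit 469) (nat_lit 331) (nat_lit 220))) (XT.nd (nat_lit 78) (nat_lit 0) (nat_lit 0) (XT.lf (nat_lit 0) (nat_lit 1838218384) (nat_lit 76) (nat_lit 9396057934) (nat_lit 152) (nat_lit 27641263313) (nat_lit 99) (nat_lit 5) (nat_lit 100) (nat_lit 5) (nat_lit 101) (nat_lit 4) (nat_lit 470) (nat_lit 331) (nat_lit 219)) (XT.lf (nat_lit 0) (nat_lit 24716718604) (nat_lit 152) (nat_lit 10574111722) (nat_lit 0) (nat_lit 4337598132) (nat_lit 99) (nat_lit 5) (nat_lit 101) (nat_lit 4) (nat_lit 99) (nat_lit 4) (nat_lit 471) (nat_lit 331) (nat_lit 218)))) (XT.nd (nat_lit 156) (nat_lit 76) (nat_lit 0) (XT.nd (nat_lit 78) (nat_lit 152) (nat_lit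 0) (XT.lf (nat_lit 0) (nat_lit 16865358857) (nat_lit 76) (nat_lit 21966314049) (nat_lit 76) (nat_lit 1565389880) (nat_lit 98) (nat_lit 4) (nat_lit 99) (nat_lit 5) (nat_lit 99) (nat_lit 4) (nat_lit 472) (nat_lit 331) (nat_lit 217)) (XT.lf (nat_lit 0) (nat_lit 4066702560) (nat_lit 76) (nat_lit 7996743433) (nat_lit 152) (nat_lit 29118202491) (nat_lit 96) (nat_lit 5) (nat_lit 97) (nat_lit 5) (nat_lit 98) (nat_lit 4) (nat_lit 473) (nat_lit 331) (nat_lit 216))) (XT.nd (nat_lit 78) (nat_lit 76) (nat_lit 0) (XT.lf (nat_lit 0) (nat_lit 26344029445) (nat_lit 152) (nat_lit 9140245580) (nat_lit 0) (nat_lit 6496801402) (nat_lit 96) (nat_lit 5) (nat_lit 98) (nat_lit 4) (nat_lit 96) (nat_lit 4) (nat_lit 474) (nat_lit 331) (nat_lit 215)) (XT.lf (nat_lit 0) (nat_lit 19931270349) (nat_lit 76) (nat_lit 21366241383) (nat_lit 76) (nat_lit 1499641037) (nat_lit 95) (nat_lit 4) (nat_lit 96) (nat_lit 5) (nat_lit 96) (nat_lit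 4) (nat_lit 475) (nat_lit 331) (nat_lit 214))))) (XT.nd (nat_lit 312) (nat_lit 228) (nat_lit 0) (XT.nd (nat_lit 156) (nat_lit 228) (nat_lit 0) (XT.nd (nat_lit 78) (nat_lit 0) (nat_lit 0) (XT.lf (nat_lit 0) (nat_lit 6373051924) (nat_lit 76) (nat_lit 6562150209) (nat_lit 152) (nat_lit 30694896517) (nat_lit 93) (nat_lit 5) (nat_lit 94) (nat_lit 5) (nat_lit 95) (nat_lit 4) (nat_lit 476) (nat_lit 331) (nat_lit 213)) (XT.lf (nat_lit 0) (nat_lit 28063378911) (nat_lit 152) (nat_lit 7676066914) (nat_lit 0) (nat_lit 8739428755) (nat_lit 93) (nat_lit 5) (nat_lit 95) (nat_lit 4) (nat_lit 93) (nat_lit 4) (nat_lit 477) (nat_lit 331) (nat_lit 212))) (XT.nd (nat_lit 78) (nat_lit 152) (nat_lit 0) (XT.lf (nat_lit 0) (nat_lit 23127987979) (nat_lit 76) (nat_lit 20779216944) (nat_lit 76) (nat_lit 1438054748) (nat_lit 92) (nat_lit 4) (nat_lit 93) (nat_lit 5) (nat_lit 93) (nat_lit 4) (nat_lit 478) (nat_lit 331) (nat_lit 211))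 (XT.lf (nat_lit 0) (nat_lit 8763269965) (nat_lit 76) (nat_lit 5089509778) (nat_lit 152) (nat_lit 32376711318) (nat_lit 90) (nat_lit 5) (nat_lit 91) (nat_lit 5) (nat_lit 92) (nat_lit 4) (nat_lit 479) (nat_lit 331) (nat_lit 210)))) (XT.nd (nat_lit 156) (nat_lit 152) (nat_lit 0) (XT.nd (nat_lit 78) (nat_lit 76) (nat_lit 0) (XT.lf (nat_lit 0) (nat_lit 29880969259) (nat_lit 152) (nat_lit 6178460552) (nat_lit 0) (nat_lit 11071166431) (nat_lit 90) (nat_lit 5) (nat_lit 92) (nat_lit 4) (nat_lit 90) (nat_lit 4) (nat_lit 480) (nat_lit 331) (nat_lit 209)) (XT.lf (nat_lit 0) (nat_lit 26464718720) (nat_lit 76) (nat_lit 20205354648) (nat_lit 76) (nat_lit 1380259145) (nat_lit 89) (nat_lit 4) (nat_lit 90) (nat_lit 5) (nat_lit 90) (nat_lit 4) (nat_lit 481) (nat_lit 331) (nat_lit 208))) (XT.nd (nat_lit 78) (nat_lit 0) (nat_lit 0) (XT.lf (nat_lit 0) (nat_lit 11243736262) (nat_lit 76) (nat_lit 3575810053) (nat_lit 152)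 (nat_lit 34169407478) (nat_lit 87) (nat_lit 5) (nat_lit 88) (nat_lit 5) (nat_lit 89) (nat_lit 4) (nat_lit 482) (nat_lit 331) (nat_lit 207)) (XT.lf (nat_lit 0) (nat_lit 31803319437) (nat_lit 152) (nat_lit 4644114928) (nat_lit 0) (nat_lit 13498117910) (nat_lit 87) (nat_lit 5) (nat_lit 89) (nat_lit 4) (nat_lit 87) (nat_lit 4) (nat_lit 483) (nat_lit 331) (nat_lit 206))))))) (XT.nd (nat_lit 43446) (nat_lit 0) (nat_lit 18544) (XT.nd (nat_lit 546) (nat_lit 380) (nat_lit 0) (XT.nd (nat_lit 234) (nat_lit 304) (nat_lit 0) (XT.nd (nat_lit 78) (nat_lit 152) (nat_lit 0) (XT.lf (nat_lit 0) (nat_lit 29951237321) (nat_lit 76) (nat_lit 19644710007) (nat_lit 76) (nat_lit 1325921137) (nat_lit 86) (nat_lit 4) (nat_lit 87) (nat_lit 5) (nat_lit 87) (nat_lit 4) (nat_lit 484) (nat_lit 331) (nat_lit 205)) (XT.nd (nat_lit 78) (nat_lit 0) (nat_lit 0) (XT.lf (nat_lit 0) (nat_lit 13821223815) (nat_lit 76) (nat_lit 2017793071) (nat_lit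 152) (nat_lit 36079157035) (nat_lit 84) (nat_lit 5) (nat_lit 85) (nat_lit 5) (nat_lit 86) (nat_lit 4) (nat_lit 485) (nat_lit 331) (nat_lit 204)) (XT.lf (nat_lit 0) (nat_lit 33837291006) (nat_lit 152) (nat_lit 3069515194) (nat_lit 0) (nat_lit 16026817374) (nat_lit 84) (nat_lit 5) (nat_lit 86) (nat_lit 4) (nat_lit 84) (nat_lit 4) (nat_lit 486) (nat_lit 331) (nat_lit 203)))) (XT.nd (nat_lit 156) (nat_lit 76) (nat_lit 0) (XT.nd (nat_lit 78) (nat_lit 152) (nat_lit 0) (XT.lf (nat_lit 0) (nat_lit 33597915856) (nat_lit 76) (nat_lit 19097287978) (nat_lit 76) (nat_lit 1274742168) (nat_lit 83) (nat_lit 4) (nat_lit 84) (nat_lit 5) (nat_lit 84) (nat_lit 4) (nat_lit 487) (nat_lit 331) (nat_lit 202)) (XT.lf (nat_lit 0) (nat_lit 16502918183) (nat_lit 76) (nat_lit 411951055) (nat_lit 152) (nat_lit 38112562086) (nat_lit 81) (nat_lit 5) (nat_lit 82) (nat_lit 5) (nat_lit 83) (nat_lit 4) (nat_lit 488) (nat_lit 331) (nat_lit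 201))) (XT.nd (nat_lit 78) (nat_lit 76) (nat_lit 0) (XT.lf (nat_lit 0) (nat_lit 35990114917) (nat_lit 152) (nat_lit 1450935201) (nat_lit 0) (nat_lit 18664245443) (nat_lit 81) (nat_lit 5) (nat_lit 83) (nat_lit 4) (nat_lit 81) (nat_lit 4) (nat_lit 489) (nat_lit 331) (nat_lit 200)) (XT.lf (nat_lit 0) (nat_lit 37415755764) (nat_lit 76) (nat_lit 18563049889) (nat_lit 76) (nat_lit 1226454441) (nat_lit 80) (nat_lit 4) (nat_lit 81) (nat_lit 5) (nat_lit 81) (nat_lit 4) (nat_lit 490) (nat_lit 331) (nat_lit 199))))) (XT.nd (nat_lit 42588) (nat_lit 0) (nat_lit 28120) (XT.nd (nat_lit 156) (nat_lit 152) (nat_lit 0) (XT.nd (nat_lit 78) (nat_lit 76) (nat_lit 0) (XT.lf (nat_lit 0) (nat_lit 18062931651) (nat_lit 152) (nat_lit 39043168449) (nat_lit 0) (nat_lit 1221175325) (nat_lit 78) (nat_lit 5) (nat_lit 80) (nat_lit 4) (nat_lit 78) (nat_lit 4) (nat_lit 491) (nat_lit 331) (nat_lit 198)) (XT.lf (nat_lit 0) (nat_lit 219861899)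 (nat_lit 76) (nat_lit 38051670810) (nat_lit 76) (nat_lit 21200098698) (nat_lit 77) (nat_lit 4) (nat_lit 78) (nat_lit 5) (nat_lit 78) (nat_lit 4) (nat_lit 492) (nat_lit 331) (nat_lit 197))) (XT.nd (nat_lit 78) (nat_lit 152) (nat_lit 0) (XT.lf (nat_lit 0) (nat_lit 41416422438) (nat_lit 76) (nat_lit 18041919562) (nat_lit 76) (nat_lit 1180817561) (nat_lit 77) (nat_lit 4) (nat_lit 78) (nat_lit 5) (nat_lit 78) (nat_lit 4) (nat_lit 493) (nat_lit 331) (nat_lit 196)) (XT.lf (nat_lit 0) (nat_lit 19279776266) (nat_lit 152) (nat_lit 39648938207) (nat_lit 0) (nat_lit 2900791489) (nat_lit 75) (nat_lit 5) (nat_lit 77) (nat_lit 4) (nat_lit 75) (nat_lit 4) (nat_lit 494) (nat_lit 331) (nat_lit 195)))) (XT.nd (nat_lit 156) (nat_lit 912) (nat_lit 0) (XT.nd (nat_lit 78) (nat_lit 836) (nat_lit 0) (XT.lf (nat_lit 0) (nat_lit 1309824317) (nat_lit 684) (nat_lit 1023094070) (nat_lit 684) (nat_lit 1023094070) (nat_lit 468) (nat_lit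 4) (nat_lit 477) (nat_lit 5) (nat_lit 477) (nat_lit 4) (nat_lit 356) (nat_lit 332) (nat_lit 332)) (XT.lf (nat_lit 0) (nat_lit 421790656) (nat_lit 760) (nat_lit 866528781) (nat_lit 836) (nat_lit 5459226066) (nat_lit 457) (nat_lit 5) (nat_lit 467) (nat_lit 5) (nat_lit 468) (nat_lit 4) (nat_lit 357) (nat_lit 332) (nat_lit 331))) (XT.nd (nat_lit 78) (nat_lit 912) (nat_lit 0) (XT.lf (nat_lit 0) (nat_lit 4618578114) (nat_lit 836) (nat_lit 1745454003) (nat_lit 0) (nat_lit 421386544) (nat_lit 457) (nat_lit 5) (nat_lit 468) (nat_lit 4) (nat_lit 457) (nat_lit 4) (nat_lit 358) (nat_lit 332) (nat_lit 330)) (XT.lf (nat_lit 0) (nat_lit 1131401761) (nat_lit 912) (nat_lit 3907807212) (nat_lit 76) (nat_lit 1786936693) (nat_lit 445) (nat_lit 5) (nat_lit 457) (nat_lit 5) (nat_lit 446) (nat_lit 4) (nat_lit 359) (nat_lit 332) (nat_lit 329)))))) (XT.nd (nat_lit 624) (nat_lit 3192) (nat_lit 0) (XT.nd (nat_lit 312) (nat_lit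 3268) (nat_lit 0) (XT.nd (nat_lit 156) (nat_lit 2128) (nat_lit 0) (XT.nd (nat_lit 78) (nat_lit 76) (nat_lit 0) (XT.lf (nat_lit 0) (nat_lit 791823682) (nat_lit 912) (nat_lit 3614713685) (nat_lit 988) (nat_lit 2463268577) (nat_lit 433) (nat_lit 5) (nat_lit 445) (nat_lit 5) (nat_lit 446) (nat_lit 4) (nat_lit 360) (nat_lit 332) (nat_lit 328)) (XT.lf (nat_lit 0) (nat_lit 785347302) (nat_lit 988) (nat_lit 1303148779) (nat_lit 76) (nat_lit 4827918103) (nat_lit 432) (nat_lit 5) (nat_lit 445) (nat_lit 5) (nat_lit 433) (nat_lit 5) (nat_lit 361) (nat_lit 332) (nat_lit 327))) (XT.nd (nat_lit 78) (nat_lit 1140) (nat_lit 0) (XT.lf (nat_lit 0) (nat_lit 3569516153) (nat_lit 988) (nat_lit 446928626) (nat_lit 1064) (nat_lit 2949208257) (nat_lit 419) (nat_lit 5) (nat_lit 432) (nat_lit 5) (nat_lit 433) (nat_lit 5) (nat_lit 362) (nat_lit 332) (nat_lit 326)) (XT.lf (nat_lit 0) (nat_lit 263366852) (nat_lit 1140) (nat_lit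 5496731847) (nat_lit 76) (nat_lit 1257925839) (nat_lit 404) (nat_lit 5) (nat_lit 419) (nat_lit 5) (nat_lit 405) (nat_lit 5) (nat_lit 363) (nat_lit 332) (nat_lit 325)))) (XT.nd (nat_lit 156) (nat_lit 2128) (nat_lit 0) (XT.nd (nat_lit 78) (nat_lit 1140) (nat_lit 0) (XT.lf (nat_lit 0) (nat_lit 3455455129) (nat_lit 1140) (nat_lit 542852425) (nat_lit 76) (nat_lit 3074511265) (nat_lit 404) (nat_lit 5) (nat_lit 419) (nat_lit 5) (nat_lit 405) (nat_lit 5) (nat_lit 364) (nat_lit 332) (nat_lit 324)) (XT.lf (nat_lit 0) (nat_lit 4557496910) (nat_lit 1140) (nat_lit 2135786718) (nat_lit 1216) (nat_lit 437473973) (nat_lit 389) (nat_lit 5) (nat_lit 404) (nat_lit 5) (nat_lit 405) (nat_lit 5) (nat_lit 365) (nat_lit 332) (nat_lit 323))) (XT.nd (nat_lit 78) (nat_lit 836) (nat_lit 0) (XT.lf (nat_lit 0) (nat_lit 2562346996) (nat_lit 1216) (nat_lit 157379976) (nat_lit 1292) (nat_lit 4471770498) (nat_lit 372) (nat_lit 5) (nat_lit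 388) (nat_lit 5) (nat_lit 389) (nat_lit 5) (nat_lit 366) (nat_lit 332) (nat_lit 322)) (XT.lf (nat_lit 0) (nat_lit 545611619) (nat_lit 836) (nat_lit 5375753706) (nat_lit 912) (nat_lit 1333808841) (nat_lit 361) (nat_lit 5) (nat_lit 372) (nat_lit 5) (nat_lit 373) (nat_lit 5) (nat_lit 367) (nat_lit 332) (nat_lit 321))))) (XT.nd (nat_lit 312) (nat_lit 1824) (nat_lit 0) (XT.nd (nat_lit 156) (nat_lit 684) (nat_lit 0) (XT.nd (nat_lit 78) (nat_lit 608) (nat_lit 0) (XT.lf (nat_lit 0) (nat_lit 1819841848) (nat_lit 912) (nat_lit 1463855591) (nat_lit 76) (nat_lit 4037758517) (nat_lit 360) (nat_lit 5) (nat_lit 372) (nat_lit 5) (nat_lit 361) (nat_lit 5) (nat_lit 368) (nat_lit 332) (nat_lit 320)) (XT.lf (nat_lit 0) (nat_lit 3910342949) (nat_lit 608) (nat_lit 1080992207) (nat_lit 684) (nat_lit 2399493623) (nat_lit 352) (nat_lit 5) (nat_lit 360) (nat_lit 5) (nat_lit 361) (nat_lit 5) (nat_lit 369) (nat_lit 332) (nat_lit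 319))) (XT.nd (nat_lit 78) (nat_lit 0) (nat_lit 0) (XT.lf (nat_lit 0) (nat_lit 738895890) (nat_lit 684) (nat_lit 5523995844) (nat_lit 76) (nat_lit 1200399627) (nat_lit 343) (nat_lit 5) (nat_lit 352) (nat_lit 5) (nat_lit 344) (nat_lit 5) (nat_lit 370) (nat_lit 332) (nat_lit 318)) (XT.lf (nat_lit 0) (nat_lit 3884260634) (nat_lit 684) (nat_lit 73044601) (nat_lit 76) (nat_lit 3581078335) (nat_lit 343) (nat_lit 5) (nat_lit 352) (nat_lit 5) (nat_lit 344) (nat_lit 5) (nat_lit 371) (nat_lit 332) (nat_lit 317)))) (XT.nd (nat_lit 156) (nat_lit 608) (nat_lit 0) (XT.nd (nat_lit 78) (nat_lit 684) (nat_lit 0) (XT.lf (nat_lit 0) (nat_lit 5558266115) (nat_lit 532) (nat_lit 1536483672) (nat_lit 608) (nat_lit 521855853) (nat_lit 336) (nat_lit 5) (nat_lit 343) (nat_lit 5) (nat_lit 344) (nat_lit 5) (nat_lit 372) (nat_lit 332) (nat_lit 316)) (XT.lf (nat_lit 0) (nat_lit 2614875708) (nat_lit 684) (nat_lit 4092458094) (nat_lit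 76) (nat_lit 990162628) (nat_lit 327) (nat_lit 5) (nat_lit 336) (nat_lit 5) (nat_lit 328) (nat_lit 5) (nat_lit 373) (nat_lit 332) (nat_lit 315))) (XT.nd (nat_lit 78) (nat_lit 76) (nat_lit 0) (XT.lf (nat_lit 0) (nat_lit 1617535249) (nat_lit 532) (nat_lit 4188905163) (nat_lit 608) (nat_lit 1975081924) (nat_lit 320) (nat_lit 5) (nat_lit 327) (nat_lit 5) (nat_lit 328) (nat_lit 5) (nat_lit 374) (nat_lit 332) (nat_lit 314)) (XT.lf (nat_lit 0) (nat_lit 1163638216) (nat_lit 608) (nat_lit 390735202) (nat_lit 76) (nat_lit 6314485961) (nat_lit 319) (nat_lit 5) (nat_lit 327) (nat_lit 5) (nat_lit 320) (nat_lit 5) (nat_lit 375) (nat_lit 332) (nat_lit 313))))))))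
noncomputable def xc80 : XT := (XT.nd (nat_lit 2340) (nat_lit 4408) (nat_lit 0) (XT.nd (nat_lit 1170) (nat_lit 3572) (nat_lit 0) (XT.nd (nat_lit 546) (nat_lit 2508) (nat_lit 0) (XT.nd (nat_lit 234) (nat_lit 1368) (nat_lit 0) (XT.nd (nat_lit 78) (nat_lit 1064) (nat_lit 0) (XT.lf (nat_lit 0) (nat_lit 4344392757) (nat_lit 608) (nat_lit 2417852962) (nat_lit 76) (nat_lit 1196357058) (nat_lit 312) (nat_lit 5) (nat_lit 320) (nat_lit 5) (nat_lit 313) (nat_lit 5) (nat_lit 376) (nat_lit 332) (nat_lit 312)) (XT.nd (nat_lit 78) (nat_lit 608) (nat_lit 0) (XT.lf (nat_lit 0) (nat_lit 3568546254) (nat_lit 456) (nat_lit 4029410055) (nat_lit 532) (nat_lit 453760575) (nat_lit 306) (nat_lit 5) (nat_lit 312) (nat_lit 5) (nat_lit 313) (nat_lit 5) (nat_lit 377) (nat_lit 332) (nat_lit 311)) (XT.lf (nat_lit 0) (nat_lit 1546694779) (nat_lit 532) (nat_lit 1163969453) (nat_lit 608) (nat_lit 5437237412) (nat_lit 298) (nat_lit 5)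 (nat_lit 305) (nat_lit 5) (nat_lit 306) (nat_lit 5) (nat_lit 378) (nat_lit 332) (nat_lit 310)))) (XT.nd (nat_lit 156) (nat_lit 836) (nat_lit 0) (XT.nd (nat_lit 78) (nat_lit 532) (nat_lit 0) (XT.lf (nat_lit 0) (nat_lit 5949246546) (nat_lit 608) (nat_lit 513043635) (nat_lit 76) (nat_lit 1784896639) (nat_lit 298) (nat_lit 5) (nat_lit 306) (nat_lit 5) (nat_lit 299) (nat_lit 5) (nat_lit 379) (nat_lit 332) (nat_lit 309)) (XT.lf (nat_lit 0) (nat_lit 911800545) (nat_lit 532) (nat_lit 2591686742) (nat_lit 76) (nat_lit 4845857861) (nat_lit 291) (nat_lit 5) (nat_lit 298) (nat_lit 5) (nat_lit 292) (nat_lit 5) (nat_lit 380) (nat_lit 332) (nat_lit 308))) (XT.nd (nat_lit 78) (nat_lit 380) (nat_lit 0) (XT.lf (nat_lit 0) (nat_lit 3730135201) (nat_lit 456) (nat_lit 410744535) (nat_lit 532) (nat_lit 4313928961) (nat_lit 285) (nat_lit 5) (nat_lit 291) (nat_lit 5) (nat_lit 292) (nat_lit 5) (nat_lit 381) (nat_lit 332) (nat_lit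 307)) (XT.lf (nat_lit 0) (nat_lit 1643784089) (nat_lit 380) (nat_lit 5821107611) (nat_lit 456) (nat_lit 1098602640) (nat_lit 280) (nat_lit 5) (nat_lit 285) (nat_lit 5) (nat_lit 286) (nat_lit 5) (nat_lit 382) (nat_lit 332) (nat_lit 306))))) (XT.nd (nat_lit 312) (nat_lit 1140) (nat_lit 0) (XT.nd (nat_lit 156) (nat_lit 836) (nat_lit 0) (XT.nd (nat_lit 78) (nat_lit 456) (nat_lit 0) (XT.lf (nat_lit 0) (nat_lit 2151885896) (nat_lit 456) (nat_lit 493608309) (nat_lit 76) (nat_lit 6029851424) (nat_lit 279) (nat_lit 5) (nat_lit 285) (nat_lit 5) (nat_lit 280) (nat_lit 5) (nat_lit 383) (nat_lit 332) (nat_lit 305)) (XT.lf (nat_lit 0) (nat_lit 5475033071) (nat_lit 532) (nat_lit 2653911019) (nat_lit 76) (nat_lit 661365306) (nat_lit 273) (nat_lit 5) (nat_lit 280) (nat_lit 5) (nat_lit 274) (nat_lit 5) (nat_lit 384) (nat_lit 332) (nat_lit 304))) (XT.nd (nat_lit 78) (nat_lit 456) (nat_lit 0) (XT.lf (nat_lit 0) (nat_lit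 4027096484) (nat_lit 380) (nat_lit 4873305150) (nat_lit 456) (nat_lit 8244632) (nat_lit 268) (nat_lit 5) (nat_lit 273) (nat_lit 5) (nat_lit 274) (nat_lit 5) (nat_lit 385) (nat_lit 332) (nat_lit 303)) (XT.lf (nat_lit 0) (nat_lit 1843730705) (nat_lit 380) (nat_lit 1465767197) (nat_lit 456) (nat_lit 5720721219) (nat_lit 262) (nat_lit 5) (nat_lit 267) (nat_lit 5) (nat_lit 268) (nat_lit 5) (nat_lit 386) (nat_lit 332) (nat_lit 302)))) (XT.nd (nat_lit 156) (nat_lit 684) (nat_lit 0) (XT.nd (nat_lit 78) (nat_lit 456) (nat_lit 0) (XT.lf (nat_lit 0) (nat_lit 6729879739) (nat_lit 456) (nat_lit 396690331) (nat_lit 76) (nat_lit 2028768461) (nat_lit 262) (nat_lit 5) (nat_lit 268) (nat_lit 5) (nat_lit 263) (nat_lit 5) (nat_lit 387) (nat_lit 332) (nat_lit 301)) (XT.lf (nat_lit 0) (nat_lit 963822936) (nat_lit 456) (nat_lit 2672386951) (nat_lit 76) (nat_lit 5647300390) (nat_lit 256) (nat_lit 5) (nat_lit 262) (nat_lit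 5) (nat_lit 257) (nat_lit 5) (nat_lit 388) (nat_lit 332) (nat_lit 300))) (XT.nd (nat_lit 78) (nat_lit 304) (nat_lit 0) (XT.lf (nat_lit 0) (nat_lit 4388493935) (nat_lit 456) (nat_lit 5022829050) (nat_lit 76) (nat_lit 4009954) (nat_lit 251) (nat_lit 5) (nat_lit 257) (nat_lit 5) (nat_lit 252) (nat_lit 5) (nat_lit 389) (nat_lit 332) (nat_lit 299)) (XT.lf (nat_lit 0) (nat_lit 2086525094) (nat_lit 304) (nat_lit 5849574895) (nat_lit 380) (nat_lit 1614404442) (nat_lit 247) (nat_lit 5) (nat_lit 251) (nat_lit 5) (nat_lit 252) (nat_lit 5) (nat_lit 390) (nat_lit 332) (nat_lit 298)))))) (XT.nd (nat_lit 546) (nat_lit 1748) (nat_lit 0) (XT.nd (nat_lit 234) (nat_lit 1064) (nat_lit 0) (XT.nd (nat_lit 78) (nat_lit 684) (nat_lit 0) (XT.lf (nat_lit 0) (nat_lit 1851774942) (nat_lit 380) (nat_lit 286949611) (nat_lit 76) (nat_lit 7550804816) (nat_lit 246) (nat_lit 5) (nat_lit 251) (nat_lit 5) (nat_lit 247) (nat_lit 5) (nat_lit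 391) (nat_lit 332) (nat_lit 297)) (XT.nd (nat_lit 78) (nat_lit 304) (nat_lit 0) (XT.lf (nat_lit 0) (nat_lit 5413926372) (nat_lit 456) (nat_lit 2709451601) (nat_lit 76) (nat_lit 1708134518) (nat_lit 241) (nat_lit 5) (nat_lit 247) (nat_lit 5) (nat_lit 242) (nat_lit 5) (nat_lit 392) (nat_lit 332) (nat_lit 296)) (XT.lf (nat_lit 0) (nat_lit 4763238988) (nat_lit 304) (nat_lit 4329302840) (nat_lit 380) (nat_lit 884925294) (nat_lit 237) (nat_lit 5) (nat_lit 241) (nat_lit 5) (nat_lit 242) (nat_lit 5) (nat_lit 393) (nat_lit 332) (nat_lit 295)))) (XT.nd (nat_lit 156) (nat_lit 684) (nat_lit 0) (XT.nd (nat_lit 78) (nat_lit 0) (nat_lit 0) (XT.lf (nat_lit 0) (nat_lit 2316767758) (nat_lit 304) (nat_lit 373135180) (nat_lit 380) (nat_lit 7437405668) (nat_lit 232) (nat_lit 5) (nat_lit 236) (nat_lit 5) (nat_lit 237) (nat_lit 5) (nat_lit 394) (nat_lit 332) (nat_lit 294)) (XT.lf (nat_lit 0) (nat_lit 6383563735) (nat_lit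 380) (nat_lit 235317621) (nat_lit 76) (nat_lit 3661619913) (nat_lit 232) (nat_lit 5) (nat_lit 237) (nat_lit 5) (nat_lit 233) (nat_lit 5) (nat_lit 395) (nat_lit 332) (nat_lit 293))) (XT.nd (nat_lit 78) (nat_lit 380) (nat_lit 0) (XT.lf (nat_lit 0) (nat_lit 7623921706) (nat_lit 304) (nat_lit 2583438357) (nat_lit 380) (nat_lit 230349879) (nat_lit 228) (nat_lit 5) (nat_lit 232) (nat_lit 5) (nat_lit 233) (nat_lit 5) (nat_lit 396) (nat_lit 332) (nat_lit 292)) (XT.lf (nat_lit 0) (nat_lit 3486759205) (nat_lit 380) (nat_lit 5513425179) (nat_lit 76) (nat_lit 1598136125) (nat_lit 223) (nat_lit 5) (nat_lit 228) (nat_lit 5) (nat_lit 224) (nat_lit 5) (nat_lit 397) (nat_lit 332) (nat_lit 291))))) (XT.nd (nat_lit 312) (nat_lit 912) (nat_lit 0) (XT.nd (nat_lit 156) (nat_lit 532) (nat_lit 0) (XT.nd (nat_lit 78) (nat_lit 76) (nat_lit 0) (XT.lf (nat_lit 0) (nat_lit 2445787067) (nat_lit 228) (nat_lit 4885898655) (nat_lit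 304) (nat_lit 3431367230) (nat_lit 220) (nat_lit 5) (nat_lit 223) (nat_lit 5) (nat_lit 224) (nat_lit 5) (nat_lit 398) (nat_lit 332) (nat_lit 290)) (XT.lf (nat_lit 0) (nat_lit 351851325) (nat_lit 304) (nat_lit 267639461) (nat_lit 76) (nat_lit 10313144131) (nat_lit 219) (nat_lit 5) (nat_lit 223) (nat_lit 5) (nat_lit 220) (nat_lit 5) (nat_lit 399) (nat_lit 332) (nat_lit 289))) (XT.nd (nat_lit 78) (nat_lit 228) (nat_lit 0) (XT.lf (nat_lit 0) (nat_lit 4239212482) (nat_lit 380) (nat_lit 3082682233) (nat_lit 76) (nat_lit 3782602014) (nat_lit 215) (nat_lit 5) (nat_lit 220) (nat_lit 5) (nat_lit 216) (nat_lit 5) (nat_lit 400) (nat_lit 332) (nat_lit 288)) (XT.lf (nat_lit 0) (nat_lit 5293908285) (nat_lit 228) (nat_lit 2954557860) (nat_lit 304) (nat_lit 3032890100) (nat_lit 212) (nat_lit 5) (nat_lit 215) (nat_lit 5) (nat_lit 216) (nat_lit 5) (nat_lit 401) (nat_lit 332) (nat_lit 287)))) (XT.nd (nat_lit 156) (nat_lit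 532) (nat_lit 0) (XT.nd (nat_lit 78) (nat_lit 0) (nat_lit 0) (XT.lf (nat_lit 0) (nat_lit 912750528) (nat_lit 380) (nat_lit 9004266536) (nat_lit 76) (nat_lit 1545757185) (nat_lit 207) (nat_lit 5) (nat_lit 212) (nat_lit 5) (nat_lit 208) (nat_lit 5) (nat_lit 402) (nat_lit 332) (nat_lit 286)) (XT.lf (nat_lit 0) (nat_lit 4952289920) (nat_lit 380) (nat_lit 515016124) (nat_lit 76) (nat_lit 6180333263) (nat_lit 207) (nat_lit 5) (nat_lit 212) (nat_lit 5) (nat_lit 208) (nat_lit 5) (nat_lit 403) (nat_lit 332) (nat_lit 285))) (XT.nd (nat_lit 78) (nat_lit 304) (nat_lit 0) (XT.lf (nat_lit 0) (nat_lit 8305651228) (nat_lit 228) (nat_lit 834945471) (nat_lit 304) (nat_lit 2696626181) (nat_lit 204) (nat_lit 5) (nat_lit 207) (nat_lit 5) (nat_lit 208) (nat_lit 5) (nat_lit 404) (nat_lit 332) (nat_lit 284)) (XT.lf (nat_lit 0) (nat_lit 1437384817) (nat_lit 304) (nat_lit 6695369131) (nat_lit 76) (nat_lit 3898037655) (nat_lit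 200) (nat_lit 5) (nat_lit 204) (nat_lit 5) (nat_lit 201) (nat_lit 5) (nat_lit 405) (nat_lit 332) (nat_lit 283))))))) (XT.nd (nat_lit 1170) (nat_lit 1900) (nat_lit 0) (XT.nd (nat_lit 546) (nat_lit 1292) (nat_lit 0) (XT.nd (nat_lit 234) (nat_lit 684) (nat_lit 0) (XT.nd (nat_lit 78) (nat_lit 304) (nat_lit 0) (XT.lf (nat_lit 0) (nat_lit 2234083669) (nat_lit 228) (nat_lit 3421213483) (nat_lit 304) (nat_lit 6573646840) (nat_lit 197) (nat_lit 5) (nat_lit 200) (nat_lit 5) (nat_lit 201) (nat_lit 5) (nat_lit 406) (nat_lit 332) (nat_lit 282)) (XT.nd (nat_lit 78) (nat_lit 304) (nat_lit 0) (XT.lf (nat_lit 0) (nat_lit 10030471551) (nat_lit 304) (nat_lit 963050224) (nat_lit 76) (nat_lit 1438597439) (nat_lit 197) (nat_lit 5) (nat_lit 201) (nat_lit 5) (nat_lit 198) (nat_lit 5) (nat_lit 407) (nat_lit 332) (nat_lit 281)) (XT.lf (nat_lit 0) (nat_lit 1923823181) (nat_lit 304) (nat_lit 4272596389) (nat_lit 76) (nat_lit 6442464499)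 (nat_lit 193) (nat_lit 5) (nat_lit 197) (nat_lit 5) (nat_lit 194) (nat_lit 5) (nat_lit 408) (nat_lit 332) (nat_lit 280)))) (XT.nd (nat_lit 156) (nat_lit 228) (nat_lit 0) (XT.nd (nat_lit 78) (nat_lit 228) (nat_lit 0) (XT.lf (nat_lit 0) (nat_lit 5136107369) (nat_lit 228) (nat_lit 1204217430) (nat_lit 304) (nat_lit 6510527587) (nat_lit 190) (nat_lit 5) (nat_lit 193) (nat_lit 5) (nat_lit 194) (nat_lit 5) (nat_lit 409) (nat_lit 332) (nat_lit 279)) (XT.lf (nat_lit 0) (nat_lit 1758559017) (nat_lit 228) (nat_lit 9179755294) (nat_lit 304) (nat_lit 2129395657) (nat_lit 187) (nat_lit 5) (nat_lit 190) (nat_lit 5) (nat_lit 191) (nat_lit 5) (nat_lit 410) (nat_lit 332) (nat_lit 278))) (XT.nd (nat_lit 78) (nat_lit 152) (nat_lit 0) (XT.lf (nat_lit 0) (nat_lit 2378081339) (nat_lit 304) (nat_lit 1734533332) (nat_lit 76) (nat_lit 9176528892) (nat_lit 186) (nat_lit 5) (nat_lit 190) (nat_lit 5) (nat_lit 187) (nat_lit 5)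 (nat_lit 411) (nat_lit 332) (nat_lit 277)) (XT.lf (nat_lit 0) (nat_lit 7020198969) (nat_lit 228) (nat_lit 5342959875) (nat_lit 76) (nat_lit 1152162375) (nat_lit 184) (nat_lit 5) (nat_lit 187) (nat_lit 5) (nat_lit 185) (nat_lit 5) (nat_lit 412) (nat_lit 332) (nat_lit 276))))) (XT.nd (nat_lit 312) (nat_lit 608) (nat_lit 0) (XT.nd (nat_lit 156) (nat_lit 228) (nat_lit 0) (XT.nd (nat_lit 78) (nat_lit 228) (nat_lit 0) (XT.lf (nat_lit 0) (nat_lit 4631518593) (nat_lit 228) (nat_lit 7225524059) (nat_lit 304) (nat_lit 1889577679) (nat_lit 181) (nat_lit 5) (nat_lit 184) (nat_lit 5) (nat_lit 185) (nat_lit 5) (nat_lit 413) (nat_lit 332) (nat_lit 275)) (XT.lf (nat_lit 0) (nat_lit 939517739) (nat_lit 152) (nat_lit 1875109491) (nat_lit 228) (nat_lit 11168922461) (nat_lit 178) (nat_lit 5) (nat_lit 180) (nat_lit 5) (nat_lit 181) (nat_lit 5) (nat_lit 414) (nat_lit 332) (nat_lit 274))) (XT.nd (nat_lit 78) (nat_lit 228)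 (nat_lit 0) (XT.lf (nat_lit 0) (nat_lit 7702814820) (nat_lit 228) (nat_lit 2879391569) (nat_lit 76) (nat_lit 3642394228) (nat_lit 178) (nat_lit 5) (nat_lit 181) (nat_lit 5) (nat_lit 179) (nat_lit 5) (nat_lit 415) (nat_lit 332) (nat_lit 273)) (XT.lf (nat_lit 0) (nat_lit 7640500046) (nat_lit 228) (nat_lit 5143459057) (nat_lit 304) (nat_lit 1687534636) (nat_lit 175) (nat_lit 5) (nat_lit 178) (nat_lit 5) (nat_lit 179) (nat_lit 5) (nat_lit 416) (nat_lit 332) (nat_lit 272)))) (XT.nd (nat_lit 156) (nat_lit 380) (nat_lit 0) (XT.nd (nat_lit 78) (nat_lit 0) (nat_lit 0) (XT.lf (nat_lit 0) (nat_lit 3252584455) (nat_lit 228) (nat_lit 10957860316) (nat_lit 76) (nat_lit 513647391) (nat_lit 172) (nat_lit 5) (nat_lit 175) (nat_lit 5) (nat_lit 173) (nat_lit 5) (nat_lit 417) (nat_lit 332) (nat_lit 271)) (XT.lf (nat_lit 0) (nat_lit 8382229340) (nat_lit 228) (nat_lit 309680686) (nat_lit 76) (nat_lit 6289600063) (nat_lit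 172) (nat_lit 5) (nat_lit 175) (nat_lit 5) (nat_lit 173) (nat_lit 5) (nat_lit 418) (nat_lit 332) (nat_lit 270))) (XT.nd (nat_lit 78) (nat_lit 228) (nat_lit 0) (XT.lf (nat_lit 0) (nat_lit 10790280405) (nat_lit 152) (nat_lit 2935178807) (nat_lit 228) (nat_lit 1519400473) (nat_lit 170) (nat_lit 5) (nat_lit 172) (nat_lit 5) (nat_lit 173) (nat_lit 5) (nat_lit 419) (nat_lit 332) (nat_lit 269)) (XT.lf (nat_lit 0) (nat_lit 3693841133) (nat_lit 228) (nat_lit 8812931781) (nat_lit 76) (nat_lit 3006663646) (nat_lit 167) (nat_lit 5) (nat_lit 170) (nat_lit 5) (nat_lit 168) (nat_lit 5) (nat_lit 420) (nat_lit 332) (nat_lit 268)))))) (XT.nd (nat_lit 624) (nat_lit 836) (nat_lit 0) (XT.nd (nat_lit 312) (nat_lit 532) (nat_lit 0) (XT.nd (nat_lit 156) (nat_lit 380) (nat_lit 0) (XT.nd (nat_lit 78) (nat_lit 0) (nat_lit 0) (XT.lf (nat_lit 0) (nat_lit 2416913636) (nat_lit 152) (nat_lit 6670035065) (nat_lit 228) (nat_lit 6701050518)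 (nat_lit 165) (nat_lit 5) (nat_lit 167) (nat_lit 5) (nat_lit 168) (nat_lit 5) (nat_lit 421) (nat_lit 332) (nat_lit 267)) (XT.lf (nat_lit 0) (nat_lit 14086547276) (nat_lit 152) (nat_lit 601106528) (nat_lit 228) (nat_lit 1381770827) (nat_lit 165) (nat_lit 5) (nat_lit 167) (nat_lit 5) (nat_lit 168) (nat_lit 5) (nat_lit 422) (nat_lit 332) (nat_lit 266))) (XT.nd (nat_lit 78) (nat_lit 152) (nat_lit 0) (XT.lf (nat_lit 0) (nat_lit 4124524359) (nat_lit 228) (nat_lit 6588924410) (nat_lit 76) (nat_lit 5641440942) (nat_lit 162) (nat_lit 5) (nat_lit 165) (nat_lit 5) (nat_lit 163) (nat_lit 5) (nat_lit 423) (nat_lit 332) (nat_lit 265)) (XT.lf (nat_lit 0) (nat_lit 5266006589) (nat_lit 152) (nat_lit 4536858665) (nat_lit 228) (nat_lit 6844604190) (nat_lit 160) (nat_lit 5) (nat_lit 162) (nat_lit 5) (nat_lit 163) (nat_lit 5) (nat_lit 424) (nat_lit 332) (nat_lit 264)))) (XT.nd (nat_lit 156) (nat_lit 304) (nat_lit 0) (XT.nd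 (nat_lit 78) (nat_lit 76) (nat_lit 0) (XT.lf (nat_lit 0) (nat_lit 581266521) (nat_lit 152) (nat_lit 15118622471) (nat_lit 228) (nat_lit 1247487599) (nat_lit 158) (nat_lit 5) (nat_lit 160) (nat_lit 5) (nat_lit 161) (nat_lit 4) (nat_lit 425) (nat_lit 332) (nat_lit 263)) (XT.lf (nat_lit 0) (nat_lit 4548466762) (nat_lit 228) (nat_lit 4282906818) (nat_lit 76) (nat_lit 8420032276) (nat_lit 157) (nat_lit 5) (nat_lit 160) (nat_lit 5) (nat_lit 158) (nat_lit 5) (nat_lit 426) (nat_lit 332) (nat_lit 262))) (XT.nd (nat_lit 78) (nat_lit 152) (nat_lit 0) (XT.lf (nat_lit 0) (nat_lit 8236625961) (nat_lit 152) (nat_lit 2295086716) (nat_lit 228) (nat_lit 7031318198) (nat_lit 155) (nat_lit 5) (nat_lit 157) (nat_lit 5) (nat_lit 158) (nat_lit 5) (nat_lit 427) (nat_lit 332) (nat_lit 261)) (XT.lf (nat_lit 0) (nat_lit 3283122235) (nat_lit 152) (nat_lit 13488687575) (nat_lit 228) (nat_lit 1109874218) (nat_lit 153) (nat_lit 5)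 (nat_lit 155) (nat_lit 5) (nat_lit 156) (nat_lit 4) (nat_lit 428) (nat_lit 332) (nat_lit 260))))) (XT.nd (nat_lit 312) (nat_lit 304) (nat_lit 0) (XT.nd (nat_lit 156) (nat_lit 304) (nat_lit 0) (XT.nd (nat_lit 78) (nat_lit 152) (nat_lit 0) (XT.lf (nat_lit 0) (nat_lit 4969226425) (nat_lit 228) (nat_lit 1891336640) (nat_lit 76) (nat_lit 11345573803) (nat_lit 152) (nat_lit 5) (nat_lit 155) (nat_lit 5) (nat_lit 153) (nat_lit 5) (nat_lit 429) (nat_lit 332) (nat_lit 259)) (XT.lf (nat_lit 0) (nat_lit 11278608281) (nat_lit 228) (nat_lit 7203740035) (nat_lit 76) (nat_lit 55538844) (nat_lit 150) (nat_lit 5) (nat_lit 153) (nat_lit 5) (nat_lit 151) (nat_lit 4) (nat_lit 430) (nat_lit 332) (nat_lit 258))) (XT.nd (nat_lit 78) (nat_lit 228) (nat_lit 0) (XT.lf (nat_lit 0) (nat_lit 6094228777) (nat_lit 76) (nat_lit 11789689082) (nat_lit 152) (nat_lit 992472715) (nat_lit 149) (nat_lit 5) (nat_lit 150) (nat_lit 5) (nat_lit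 151) (nat_lit 4) (nat_lit 431) (nat_lit 332) (nat_lit 257)) (XT.lf (nat_lit 0) (nat_lit 601662585) (nat_lit 152) (nat_lit 4794248023) (nat_lit 228) (nat_lit 13826358377) (nat_lit 146) (nat_lit 5) (nat_lit 148) (nat_lit 5) (nat_lit 149) (nat_lit 5) (nat_lit 432) (nat_lit 332) (nat_lit 256)))) (XT.nd (nat_lit 156) (nat_lit 228) (nat_lit 0) (XT.nd (nat_lit 78) (nat_lit 76) (nat_lit 0) (XT.lf (nat_lit 0) (nat_lit 12070566549) (nat_lit 228) (nat_lit 5032823058) (nat_lit 76) (nat_lit 2471402282) (nat_lit 146) (nat_lit 5) (nat_lit 149) (nat_lit 5) (nat_lit 147) (nat_lit 4) (nat_lit 433) (nat_lit 332) (nat_lit 255)) (XT.lf (nat_lit 0) (nat_lit 9020355253) (nat_lit 76) (nat_lit 10021458209) (nat_lit 152) (nat_lit 893186479) (nat_lit 145) (nat_lit 5) (nat_lit 146) (nat_lit 5) (nat_lit 147) (nat_lit 4) (nat_lit 434) (nat_lit 332) (nat_lit 254))) (XT.nd (nat_lit 78) (nat_lit 0) (nat_lit 0) (XT.lf (nat_lit 0) (nat_lit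 3228587493) (nat_lit 152) (nat_lit 2616741944) (nat_lit 228) (nat_lit 14457640939) (nat_lit 142) (nat_lit 5) (nat_lit 144) (nat_lit 5) (nat_lit 145) (nat_lit 5) (nat_lit 435) (nat_lit 332) (nat_lit 253)) (XT.lf (nat_lit 0) (nat_lit 12889858969) (nat_lit 228) (nat_lit 2787870523) (nat_lit 76) (nat_lit 5000330823) (nat_lit 142) (nat_lit 5) (nat_lit 145) (nat_lit 5) (nat_lit 143) (nat_lit 4) (nat_lit 436) (nat_lit 332) (nat_lit 252))))))))
noncomputable def xc81 : XT := (XT.nd (nat_lit 2340) (nat_lit 2128) (nat_lit 0) (XT.nd (nat_lit 1170) (nat_lit 1216) (nat_lit 0) (XT.nd (nat_lit 546) (nat_lit 912) (nat_lit 0) (XT.nd (nat_lit 234) (nat_lit 380) (nat_lit 0) (XT.nd (nat_lit 78) (nat_lit 228) (nat_lit 0) (XT.lf (nat_lit 0) (nat_lit 12067926055) (nat_lit 76) (nat_lit 8183150019) (nat_lit 152) (nat_lit 810166326) (nat_lit 141) (nat_lit 5) (nat_lit 142) (nat_lit 5) (nat_lit 143) (nat_lit 4) (nat_lit 437) (nat_lit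 332) (nat_lit 251)) (XT.nd (nat_lit 78) (nat_lit 0) (nat_lit 0) (XT.lf (nat_lit 0) (nat_lit 5957192943) (nat_lit 152) (nat_lit 344759685) (nat_lit 228) (nat_lit 15150652714) (nat_lit 138) (nat_lit 5) (nat_lit 140) (nat_lit 5) (nat_lit 141) (nat_lit 5) (nat_lit 438) (nat_lit 332) (nat_lit 250)) (XT.lf (nat_lit 0) (nat_lit 13740747671) (nat_lit 228) (nat_lit 464668152) (nat_lit 76) (nat_lit 7646164823) (nat_lit 138) (nat_lit 5) (nat_lit 141) (nat_lit 5) (nat_lit 139) (nat_lit 4) (nat_lit 439) (nat_lit 332) (nat_lit 249)))) (XT.nd (nat_lit 156) (nat_lit 76) (nat_lit 0) (XT.nd (nat_lit 78) (nat_lit 228) (nat_lit 0) (XT.lf (nat_lit 0) (nat_lit 15244020894) (nat_lit 76) (nat_lit 6273282783) (nat_lit 152) (nat_lit 741783620) (nat_lit 137) (nat_lit 5) (nat_lit 138) (nat_lit 5) (nat_lit 139) (nat_lit 4) (nat_lit 440) (nat_lit 332) (nat_lit 248)) (XT.lf (nat_lit 0) (nat_lit 6788126134) (nat_lit 228) (nat_lit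 13901231655) (nat_lit 76) (nat_lit 1985283707) (nat_lit 134) (nat_lit 5) (nat_lit 137) (nat_lit 5) (nat_lit 135) (nat_lit 4) (nat_lit 441) (nat_lit 332) (nat_lit 247))) (XT.nd (nat_lit 78) (nat_lit 0) (nat_lit 0) (XT.lf (nat_lit 0) (nat_lit 1980124706) (nat_lit 76) (nat_lit 12666366377) (nat_lit 152) (nat_lit 8452426896) (nat_lit 133) (nat_lit 5) (nat_lit 134) (nat_lit 5) (nat_lit 135) (nat_lit 4) (nat_lit 442) (nat_lit 332) (nat_lit 246)) (XT.lf (nat_lit 0) (nat_lit 18556379456) (nat_lit 76) (nat_lit 4289770566) (nat_lit 152) (nat_lit 686606441) (nat_lit 133) (nat_lit 5) (nat_lit 134) (nat_lit 5) (nat_lit 135) (nat_lit 4) (nat_lit 443) (nat_lit 332) (nat_lit 245))))) (XT.nd (nat_lit 312) (nat_lit 380) (nat_lit 0) (XT.nd (nat_lit 156) (nat_lit 228) (nat_lit 0) (XT.nd (nat_lit 78) (nat_lit 76) (nat_lit 0) (XT.lf (nat_lit 0) (nat_lit 7291454463) (nat_lit 228) (nat_lit 12274412235) (nat_lit 76) (nat_lit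 4407976139) (nat_lit 130) (nat_lit 5) (nat_lit 133) (nat_lit 5) (nat_lit 131) (nat_lit 4) (nat_lit 444) (nat_lit 332) (nat_lit 244)) (XT.lf (nat_lit 0) (nat_lit 4524057121) (nat_lit 76) (nat_lit 11073635047) (nat_lit 152) (nat_lit 8827186640) (nat_lit 129) (nat_lit 5) (nat_lit 130) (nat_lit 5) (nat_lit 131) (nat_lit 4) (nat_lit 445) (nat_lit 332) (nat_lit 243))) (XT.nd (nat_lit 78) (nat_lit 228) (nat_lit 0) (XT.lf (nat_lit 0) (nat_lit 22013410442) (nat_lit 76) (nat_lit 2229949670) (nat_lit 152) (nat_lit 643378451) (nat_lit 129) (nat_lit 5) (nat_lit 130) (nat_lit 5) (nat_lit 131) (nat_lit 4) (nat_lit 446) (nat_lit 332) (nat_lit 242)) (XT.lf (nat_lit 0) (nat_lit 7811368387) (nat_lit 228) (nat_lit 10609112681) (nat_lit 76) (nat_lit 6934407060) (nat_lit 126) (nat_lit 5) (nat_lit 129) (nat_lit 5) (nat_lit 127) (nat_lit 4) (nat_lit 447) (nat_lit 332) (nat_lit 241)))) (XT.nd (nat_lit 156) (nat_lit 304) (nat_lit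 0) (XT.nd (nat_lit 78) (nat_lit 0) (nat_lit 0) (XT.lf (nat_lit 0) (nat_lit 7163667725) (nat_lit 76) (nat_lit 9430423190) (nat_lit 152) (nat_lit 9240182225) (nat_lit 125) (nat_lit 5) (nat_lit 126) (nat_lit 5) (nat_lit 127) (nat_lit 4) (nat_lit 448) (nat_lit 332) (nat_lit 240)) (XT.lf (nat_lit 0) (nat_lit 25624204791) (nat_lit 76) (nat_lit 90599455) (nat_lit 152) (nat_lit 611000183) (nat_lit 125) (nat_lit 5) (nat_lit 126) (nat_lit 5) (nat_lit 127) (nat_lit 4) (nat_lit 449) (nat_lit 332) (nat_lit 239))) (XT.nd (nat_lit 78) (nat_lit 76) (nat_lit 0) (XT.lf (nat_lit 0) (nat_lit 8350564261) (nat_lit 228) (nat_lit 8902501274) (nat_lit 76) (nat_lit 9569578533) (nat_lit 122) (nat_lit 5) (nat_lit 125) (nat_lit 5) (nat_lit 123) (nat_lit 4) (nat_lit 450) (nat_lit 332) (nat_lit 238)) (XT.lf (nat_lit 0) (nat_lit 9905244913) (nat_lit 76) (nat_lit 7734792978) (nat_lit 152) (nat_lit 9692029237) (nat_lit 121) (nat_lit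 5) (nat_lit 122) (nat_lit 5) (nat_lit 123) (nat_lit 4) (nat_lit 451) (nat_lit 332) (nat_lit 237)))))) (XT.nd (nat_lit 546) (nat_lit 608) (nat_lit 0) (XT.nd (nat_lit 234) (nat_lit 304) (nat_lit 0) (XT.nd (nat_lit 78) (nat_lit 152) (nat_lit 0) (XT.lf (nat_lit 0) (nat_lit 1553346409) (nat_lit 152) (nat_lit 25748590766) (nat_lit 152) (nat_lit 552023463) (nat_lit 119) (nat_lit 4) (nat_lit 121) (nat_lit 5) (nat_lit 121) (nat_lit 4) (nat_lit 452) (nat_lit 332) (nat_lit 236)) (XT.nd (nat_lit 78) (nat_lit 76) (nat_lit 0) (XT.lf (nat_lit 0) (nat_lit 8911711178) (nat_lit 228) (nat_lit 7151445710) (nat_lit 76) (nat_lit 12319124548) (nat_lit 118) (nat_lit 5) (nat_lit 121) (nat_lit 5) (nat_lit 119) (nat_lit 4) (nat_lit 453) (nat_lit 332) (nat_lit 235)) (XT.lf (nat_lit 0) (nat_lit 12755587558) (nat_lit 76) (nat_lit 5984377658) (nat_lit 152) (nat_lit 10183571602) (nat_lit 117) (nat_lit 5) (nat_lit 118) (nat_lit 5)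 (nat_lit 119) (nat_lit 4) (nat_lit 454) (nat_lit 332) (nat_lit 234)))) (XT.nd (nat_lit 156) (nat_lit 152) (nat_lit 0) (XT.nd (nat_lit 78) (nat_lit 76) (nat_lit 0) (XT.lf (nat_lit 0) (nat_lit 3900598051) (nat_lit 76) (nat_lit 25084297845) (nat_lit 76) (nat_lit 492479093) (nat_lit 116) (nat_lit 4) (nat_lit 117) (nat_lit 5) (nat_lit 117) (nat_lit 4) (nat_lit 455) (nat_lit 332) (nat_lit 233)) (XT.lf (nat_lit 0) (nat_lit 9497470763) (nat_lit 152) (nat_lit 5352514403) (nat_lit 76) (nat_lit 15189307742) (nat_lit 115) (nat_lit 5) (nat_lit 117) (nat_lit 5) (nat_lit 116) (nat_lit 4) (nat_lit 456) (nat_lit 332) (nat_lit 232))) (XT.nd (nat_lit 78) (nat_lit 76) (nat_lit 0) (XT.lf (nat_lit 0) (nat_lit 15722016666) (nat_lit 76) (nat_lit 4176395462) (nat_lit 152) (nat_lit 10715874213) (nat_lit 114) (nat_lit 5) (nat_lit 115) (nat_lit 5) (nat_lit 116) (nat_lit 4) (nat_lit 457) (nat_lit 332) (nat_lit 231)) (XT.lf (nat_lit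 0) (nat_lit 6332680176) (nat_lit 76) (nat_lit 24429800389) (nat_lit 76) (nat_lit 439516048) (nat_lit 113) (nat_lit 4) (nat_lit 114) (nat_lit 5) (nat_lit 114) (nat_lit 4) (nat_lit 458) (nat_lit 332) (nat_lit 230))))) (XT.nd (nat_lit 312) (nat_lit 304) (nat_lit 0) (XT.nd (nat_lit 156) (nat_lit 152) (nat_lit 0) (XT.nd (nat_lit 78) (nat_lit 76) (nat_lit 0) (XT.lf (nat_lit 0) (nat_lit 10110515767) (nat_lit 152) (nat_lit 3501975522) (nat_lit 76) (nat_lit 18187020738) (nat_lit 112) (nat_lit 5) (nat_lit 114) (nat_lit 5) (nat_lit 113) (nat_lit 4) (nat_lit 459) (nat_lit 332) (nat_lit 229)) (XT.lf (nat_lit 0) (nat_lit 18812390058) (nat_lit 76) (nat_lit 2307659756) (nat_lit 152) (nat_lit 11290217488) (nat_lit 111) (nat_lit 5) (nat_lit 112) (nat_lit 5) (nat_lit 113) (nat_lit 4) (nat_lit 460) (nat_lit 332) (nat_lit 228))) (XT.nd (nat_lit 78) (nat_lit 76) (nat_lit 0) (XT.lf (nat_lit 0) (nat_lit 8855616000) (nat_lit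 76) (nat_lit 23785878363) (nat_lit 76) (nat_lit 392402135) (nat_lit 110) (nat_lit 4) (nat_lit 111) (nat_lit 5) (nat_lit 111) (nat_lit 4) (nat_lit 461) (nat_lit 332) (nat_lit 227)) (XT.lf (nat_lit 0) (nat_lit 10753547682) (nat_lit 152) (nat_lit 1595793897) (nat_lit 76) (nat_lit 21319791834) (nat_lit 109) (nat_lit 5) (nat_lit 111) (nat_lit 5) (nat_lit 110) (nat_lit 4) (nat_lit 462) (nat_lit 332) (nat_lit 226)))) (XT.nd (nat_lit 156) (nat_lit 152) (nat_lit 0) (XT.nd (nat_lit 78) (nat_lit 76) (nat_lit 0) (XT.lf (nat_lit 0) (nat_lit 22035120008) (nat_lit 76) (nat_lit 374585686) (nat_lit 152) (nat_lit 11908093689) (nat_lit 108) (nat_lit 5) (nat_lit 109) (nat_lit 5) (nat_lit 110) (nat_lit 4) (nat_lit 463) (nat_lit 332) (nat_lit 225)) (XT.lf (nat_lit 0) (nat_lit 11475863786) (nat_lit 76) (nat_lit 23153170222) (nat_lit 76) (nat_lit 350486757) (nat_lit 107) (nat_lit 4) (nat_lit 108) (nat_lit 5) (nat_lit 108)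 (nat_lit 4) (nat_lit 464) (nat_lit 332) (nat_lit 224))) (XT.nd (nat_lit 78) (nat_lit 0) (nat_lit 0) (XT.lf (nat_lit 0) (nat_lit 377745278) (nat_lit 76) (nat_lit 11055199363) (nat_lit 152) (nat_lit 24221680663) (nat_lit 105) (nat_lit 5) (nat_lit 106) (nat_lit 5) (nat_lit 107) (nat_lit 4) (nat_lit 465) (nat_lit 332) (nat_lit 223)) (XT.lf (nat_lit 0) (nat_lit 23788025241) (nat_lit 152) (nat_lit 10960036378) (nat_lit 0) (nat_lit 1595061535) (nat_lit 105) (nat_lit 5) (nat_lit 107) (nat_lit 4) (nat_lit 105) (nat_lit 4) (nat_lit 466) (nat_lit 332) (nat_lit 222))))))) (XT.nd (nat_lit 1170) (nat_lit 988) (nat_lit 0) (XT.nd (nat_lit 546) (nat_lit 608) (nat_lit 0) (XT.nd (nat_lit 234) (nat_lit 304) (nat_lit 0) (XT.nd (nat_lit 78) (nat_lit 152) (nat_lit 0) (XT.lf (nat_lit 0) (nat_lit 14200330950) (nat_lit 76) (nat_lit 22532190281) (nat_lit 76) (nat_lit 313191820) (nat_lit 104) (nat_lit 4) (nat_lit 105) (nat_lit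 5) (nat_lit 105) (nat_lit 4) (nat_lit 467) (nat_lit 332) (nat_lit 221)) (XT.nd (nat_lit 78) (nat_lit 0) (nat_lit 0) (XT.lf (nat_lit 0) (nat_lit 2448976000) (nat_lit 76) (nat_lit 9715187015) (nat_lit 152) (nat_lit 25598427830) (nat_lit 102) (nat_lit 5) (nat_lit 103) (nat_lit 5) (nat_lit 104) (nat_lit 4) (nat_lit 468) (nat_lit 332) (nat_lit 220)) (XT.lf (nat_lit 0) (nat_lit 25248881702) (nat_lit 152) (nat_lit 9616147308) (nat_lit 0) (nat_lit 3628672793) (nat_lit 102) (nat_lit 5) (nat_lit 104) (nat_lit 4) (nat_lit 102) (nat_lit 4) (nat_lit 469) (nat_lit 332) (nat_lit 219)))) (XT.nd (nat_lit 156) (nat_lit 76) (nat_lit 0) (XT.nd (nat_lit 78) (nat_lit 152) (nat_lit 0) (XT.lf (nat_lit 0) (nat_lit 17036390562) (nat_lit 76) (nat_lit 21923344099) (nat_lit 76) (nat_lit 280003648) (nat_lit 101) (nat_lit 4) (nat_lit 102) (nat_lit 5) (nat_lit 102) (nat_lit 4) (nat_lit 470) (nat_lit 332) (nat_lit 218)) (XT.lf (nat_lit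 0) (nat_lit 4591221660) (nat_lit 76) (nat_lit 8343270911) (nat_lit 152) (nat_lit 27066417611) (nat_lit 99) (nat_lit 5) (nat_lit 100) (nat_lit 5) (nat_lit 101) (nat_lit 4) (nat_lit 471) (nat_lit 332) (nat_lit 217))) (XT.nd (nat_lit 78) (nat_lit 76) (nat_lit 0) (XT.lf (nat_lit 0) (nat_lit 26794159594) (nat_lit 152) (nat_lit 8244808170) (nat_lit 0) (nat_lit 5738235364) (nat_lit 99) (nat_lit 5) (nat_lit 101) (nat_lit 4) (nat_lit 99) (nat_lit 4) (nat_lit 472) (nat_lit 332) (nat_lit 216)) (XT.lf (nat_lit 0) (nat_lit 19991900184) (nat_lit 76) (nat_lit 21326942109) (nat_lit 76) (nat_lit 250465802) (nat_lit 98) (nat_lit 4) (nat_lit 99) (nat_lit 5) (nat_lit 99) (nat_lit 4) (nat_lit 473) (nat_lit 332) (nat_lit 215))))) (XT.nd (nat_lit 312) (nat_lit 228) (nat_lit 0) (XT.nd (nat_lit 156) (nat_lit 228) (nat_lit 0) (XT.nd (nat_lit 78) (nat_lit 0) (nat_lit 0) (XT.lf (nat_lit 0) (nat_lit 6809906986) (nat_lit 76) (nat_lit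 6937056937) (nat_lit 152) (nat_lit 28630485580) (nat_lit 96) (nat_lit 5) (nat_lit 97) (nat_lit 5) (nat_lit 98) (nat_lit 4) (nat_lit 474) (nat_lit 332) (nat_lit 214)) (XT.lf (nat_lit 0) (nat_lit 28429599835) (nat_lit 152) (nat_lit 6843230284) (nat_lit 0) (nat_lit 7928821116) (nat_lit 96) (nat_lit 5) (nat_lit 98) (nat_lit 4) (nat_lit 96) (nat_lit 4) (nat_lit 475) (nat_lit 332) (nat_lit 213))) (XT.nd (nat_lit 78) (nat_lit 152) (nat_lit 0) (XT.lf (nat_lit 0) (nat_lit 23075223057) (nat_lit 76) (nat_lit 20743211669) (nat_lit 76) (nat_lit 224172696) (nat_lit 95) (nat_lit 4) (nat_lit 96) (nat_lit 5) (nat_lit 96) (nat_lit 4) (nat_lit 476) (nat_lit 332) (nat_lit 212)) (XT.lf (nat_lit 0) (nat_lit 9110811419) (nat_lit 76) (nat_lit 5493907198) (nat_lit 152) (nat_lit 30295839180) (nat_lit 93) (nat_lit 5) (nat_lit 94) (nat_lit 5) (nat_lit 95) (nat_lit 4) (nat_lit 477) (nat_lit 332) (nat_lit 211)))) (XT.nd (nat_lit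 156) (nat_lit 152) (nat_lit 0) (XT.nd (nat_lit 78) (nat_lit 76) (nat_lit 0) (XT.lf (nat_lit 0) (nat_lit 30161223392) (nat_lit 152) (nat_lit 5408435560) (nat_lit 0) (nat_lit 10205903572) (nat_lit 93) (nat_lit 5) (nat_lit 95) (nat_lit 4) (nat_lit 93) (nat_lit 4) (nat_lit 478) (nat_lit 332) (nat_lit 210)) (XT.lf (nat_lit 0) (nat_lit 26295251633) (nat_lit 76) (nat_lit 20172307749) (nat_lit 76) (nat_lit 200763930) (nat_lit 92) (nat_lit 4) (nat_lit 93) (nat_lit 5) (nat_lit 93) (nat_lit 4) (nat_lit 479) (nat_lit 332) (nat_lit 209))) (XT.nd (nat_lit 78) (nat_lit 0) (nat_lit 0) (XT.lf (nat_lit 0) (nat_lit 11500083714) (nat_lit 76) (nat_lit 4010940417) (nat_lit 152) (nat_lit 32068071831) (nat_lit 90) (nat_lit 5) (nat_lit 91) (nat_lit 5) (nat_lit 92) (nat_lit 4) (nat_lit 480) (nat_lit 332) (nat_lit 208)) (XT.lf (nat_lit 0) (nat_lit 31995356171) (nat_lit 152) (nat_lit 3937251352) (nat_lit 0) (nat_lit 12575367872)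 (nat_lit 90) (nat_lit 5) (nat_lit 92) (nat_lit 4) (nat_lit 90) (nat_lit 4) (nat_lit 481) (nat_lit 332) (nat_lit 207)))))) (XT.nd (nat_lit 624) (nat_lit 304) (nat_lit 0) (XT.nd (nat_lit 312) (nat_lit 380) (nat_lit 0) (XT.nd (nat_lit 156) (nat_lit 76) (nat_lit 0) (XT.nd (nat_lit 78) (nat_lit 152) (nat_lit 0) (XT.lf (nat_lit 0) (nat_lit 29661433465) (nat_lit 76) (nat_lit 19614322364) (nat_lit 76) (nat_lit 179919252) (nat_lit 89) (nat_lit 4) (nat_lit 90) (nat_lit 5) (nat_lit 90) (nat_lit 4) (nat_lit 482) (nat_lit 332) (nat_lit 206)) (XT.lf (nat_lit 0) (nat_lit 13984258344) (nat_lit 76) (nat_lit 2485030532) (nat_lit 152) (nat_lit 33953178846) (nat_lit 87) (nat_lit 5) (nat_lit 88) (nat_lit 5) (nat_lit 89) (nat_lit 4) (nat_lit 483) (nat_lit 332) (nat_lit 205))) (XT.nd (nat_lit 78) (nat_lit 76) (nat_lit 0) (XT.lf (nat_lit 0) (nat_lit 33938654552) (nat_lit 152) (nat_lit 2426304150) (nat_lit 0) (nat_lit 15043523076)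 (nat_lit 87) (nat_lit 5) (nat_lit 89) (nat_lit 4) (nat_lit 87) (nat_lit 4) (nat_lit 484) (nat_lit 332) (nat_lit 204)) (XT.lf (nat_lit 0) (nat_lit 33183799508) (nat_lit 76) (nat_lit 19069292930) (nat_lit 76) (nat_lit 161354080) (nat_lit 86) (nat_lit 4) (nat_lit 87) (nat_lit 5) (nat_lit 87) (nat_lit 4) (nat_lit 485) (nat_lit 332) (nat_lit 203)))) (XT.nd (nat_lit 156) (nat_lit 228) (nat_lit 0) (XT.nd (nat_lit 78) (nat_lit 0) (nat_lit 0) (XT.lf (nat_lit 0) (nat_lit 16570273698) (nat_lit 76) (nat_lit 912803588) (nat_lit 152) (nat_lit 35957575156) (nat_lit 84) (nat_lit 5) (nat_lit 85) (nat_lit 5) (nat_lit 86) (nat_lit 4) (nat_lit 486) (nat_lit 332) (nat_lit 202)) (XT.lf (nat_lit 0) (nat_lit 35998131693) (nat_lit 152) (nat_lit 872012162) (nat_lit 0) (nat_lit 17617116768) (nat_lit 84) (nat_lit 5) (nat_lit 86) (nat_lit 4) (nat_lit 84) (nat_lit 4) (nat_lit 487) (nat_lit 332) (nat_lit 201))) (XT.nd (nat_lit 78)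 (nat_lit 152) (nat_lit 0) (XT.lf (nat_lit 0) (nat_lit 36872994873) (nat_lit 76) (nat_lit 18537209641) (nat_lit 76) (nat_lit 144815530) (nat_lit 83) (nat_lit 4) (nat_lit 84) (nat_lit 5) (nat_lit 84) (nat_lit 4) (nat_lit 488) (nat_lit 332) (nat_lit 200)) (XT.lf (nat_lit 0) (nat_lit 18562943972) (nat_lit 152) (nat_lit 37385566747) (nat_lit 0) (nat_lit 695524686) (nat_lit 81) (nat_lit 5) (nat_lit 83) (nat_lit 4) (nat_lit 81) (nat_lit 4) (nat_lit 489) (nat_lit 332) (nat_lit 199))))) (XT.nd (nat_lit 312) (nat_lit 0) (nat_lit 0) (XT.nd (nat_lit 156) (nat_lit 228) (nat_lit 0) (XT.nd (nat_lit 78) (nat_lit 0) (nat_lit 0) (XT.lf (nat_lit 0) (nat_lit 743940165) (nat_lit 76) (nat_lit 37444395794) (nat_lit 76) (nat_lit 19566562940) (nat_lit 80) (nat_lit 4) (nat_lit 81) (nat_lit 5) (nat_lit 81) (nat_lit 4) (nat_lit 490) (nat_lit 332) (nat_lit 198)) (XT.lf (nat_lit 0) (nat_lit 40740312099) (nat_lit 76) (nat_lit 18018021991)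 (nat_lit 76) (nat_lit 130078878) (nat_lit 80) (nat_lit 4) (nat_lit 81) (nat_lit 5) (nat_lit 81) (nat_lit 4) (nat_lit 491) (nat_lit 332) (nat_lit 197))) (XT.nd (nat_lit 78) (nat_lit 76) (nat_lit 0) (XT.lf (nat_lit 0) (nat_lit 19715284549) (nat_lit 152) (nat_lit 37989675593) (nat_lit 0) (nat_lit 2338819598) (nat_lit 78) (nat_lit 5) (nat_lit 80) (nat_lit 4) (nat_lit 78) (nat_lit 4) (nat_lit 492) (nat_lit 332) (nat_lit 196)) (XT.lf (nat_lit 0) (nat_lit 2429434020) (nat_lit 76) (nat_lit 38089542334) (nat_lit 76) (nat_lit 20703825064) (nat_lit 77) (nat_lit 4) (nat_lit 78) (nat_lit 5) (nat_lit 78) (nat_lit 4) (nat_lit 493) (nat_lit 332) (nat_lit 195)))) (XT.nd (nat_lit 42276) (nat_lit 0) (nat_lit 29640) (XT.nd (nat_lit 42198) (nat_lit 0) (nat_lit 30400) (XT.lf (nat_lit 0) (nat_lit 44797727018) (nat_lit 76) (nat_lit 17511644528) (nat_lit 76) (nat_lit 116944423) (nat_lit 77) (nat_lit 4) (nat_lit 78) (nat_lit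 5) (nat_lit 78) (nat_lit 4) (nat_lit 494) (nat_lit 332) (nat_lit 194)) (XT.lf (nat_lit 0) (nat_lit 115662647) (nat_lit 684) (nat_lit 3093274571) (nat_lit 0) (nat_lit 115662647) (nat_lit 477) (nat_lit 5) (nat_lit 486) (nat_lit 4) (nat_lit 477) (nat_lit 4) (nat_lit 354) (nat_lit 333) (nat_lit 333))) (XT.nd (nat_lit 78) (nat_lit 760) (nat_lit 0) (XT.lf (nat_lit 0) (nat_lit 3543567663) (nat_lit 684) (nat_lit 1851871600) (nat_lit 0) (nat_lit 1284264927) (nat_lit 477) (nat_lit 5) (nat_lit 486) (nat_lit 4) (nat_lit 477) (nat_lit 4) (nat_lit 355) (nat_lit 333) (nat_lit 332)) (XT.lf (nat_lit 0) (nat_lit 154388039) (nat_lit 760) (nat_lit 4139392816) (nat_lit 76) (nat_lit 2419819641) (nat_lit 467) (nat_lit 5) (nat_lit 477) (nat_lit 5) (nat_lit 468) (nat_lit 4) (nat_lit 356) (nat_lit 333) (nat_lit 331))))))))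
noncomputable def xc82 : XT := (XT.nd (nat_lit 2340) (nat_lit 7068) (nat_lit 0) (XT.nd (nat_lit 1170) (nat_lit 5776) (nat_lit 0) (XT.nd (nat_lit 546) (nat_lit 4636) (nat_lit 0) (XT.nd (nat_lit 234) (nat_lit 3116) (nat_lit 0) (XT.nd (nat_lit 78) (nat_lit 912) (nat_lit 0) (XT.lf (nat_lit 0) (nat_lit 309250649) (nat_lit 760) (nat_lit 3085656100) (nat_lit 836) (nat_lit 3355246068) (nat_lit 457) (nat_lit 5) (nat_lit 467) (nat_lit 5) (nat_lit 468) (nat_lit 4) (nat_lit 357) (nat_lit 333) (nat_lit 330)) (XT.nd (nat_lit 78) (nat_lit 912) (nat_lit 0) (XT.lf (nat_lit 0) (nat_lit 4888449651) (nat_lit 760) (nat_lit 1780733481) (nat_lit 836) (nat_lit 120522313) (nat_lit 457) (nat_lit 5) (nat_lit 467) (nat_lit 5) (nat_lit 468) (nat_lit 4) (nat_lit 358) (nat_lit 333) (nat_lit 329)) (XT.lf (nat_lit 0) (nat_lit 2709325047) (nat_lit 836) (nat_lit 362095192) (nat_lit 912) (nat_lit 3760413158) (nat_lit 445) (nat_lit 5)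 (nat_lit 456) (nat_lit 5) (nat_lit 457) (nat_lit 5) (nat_lit 359) (nat_lit 333) (nat_lit 328)))) (XT.nd (nat_lit 156) (nat_lit 2128) (nat_lit 0) (XT.nd (nat_lit 78) (nat_lit 76) (nat_lit 0) (XT.lf (nat_lit 0) (nat_lit 531397628) (nat_lit 912) (nat_lit 5759475808) (nat_lit 988) (nat_lit 586290711) (nat_lit 433) (nat_lit 5) (nat_lit 445) (nat_lit 5) (nat_lit 446) (nat_lit 4) (nat_lit 360) (nat_lit 333) (nat_lit 327)) (XT.lf (nat_lit 0) (nat_lit 2576545863) (nat_lit 988) (nat_lit 1633645092) (nat_lit 76) (nat_lit 2714514734) (nat_lit 432) (nat_lit 5) (nat_lit 445) (nat_lit 5) (nat_lit 433) (nat_lit 5) (nat_lit 361) (nat_lit 333) (nat_lit 326))) (XT.nd (nat_lit 78) (nat_lit 1140) (nat_lit 0) (XT.lf (nat_lit 0) (nat_lit 3188210855) (nat_lit 988) (nat_lit 2568046072) (nat_lit 1064) (nat_lit 1219229206) (nat_lit 419) (nat_lit 5) (nat_lit 432) (nat_lit 5) (nat_lit 433) (nat_lit 5) (nat_lit 362) (nat_lit 333)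 (nat_lit 325)) (XT.lf (nat_lit 0) (nat_lit 1073355857) (nat_lit 1064) (nat_lit 822264622) (nat_lit 1140) (nat_lit 5133657286) (nat_lit 404) (nat_lit 5) (nat_lit 418) (nat_lit 5) (nat_lit 419) (nat_lit 5) (nat_lit 363) (nat_lit 333) (nat_lit 324))))) (XT.nd (nat_lit 312) (nat_lit 2128) (nat_lit 0) (XT.nd (nat_lit 156) (nat_lit 1292) (nat_lit 0) (XT.nd (nat_lit 78) (nat_lit 1216) (nat_lit 0) (XT.lf (nat_lit 0) (nat_lit 5033582049) (nat_lit 1140) (nat_lit 1039005198) (nat_lit 76) (nat_lit 1013108601) (nat_lit 404) (nat_lit 5) (nat_lit 419) (nat_lit 5) (nat_lit 405) (nat_lit 5) (nat_lit 364) (nat_lit 333) (nat_lit 323)) (XT.lf (nat_lit 0) (nat_lit 1055104628) (nat_lit 1216) (nat_lit 3148441048) (nat_lit 76) (nat_lit 2941283658) (nat_lit 388) (nat_lit 5) (nat_lit 404) (nat_lit 5) (nat_lit 389) (nat_lit 5) (nat_lit 365) (nat_lit 333) (nat_lit 322))) (XT.nd (nat_lit 78) (nat_lit 76) (nat_lit 0) (XT.lf (nat_lit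 0) (nat_lit 1926537444) (nat_lit 1216) (nat_lit 2226700312) (nat_lit 1292) (nat_lit 3053721222) (nat_lit 372) (nat_lit 5) (nat_lit 388) (nat_lit 5) (nat_lit 389) (nat_lit 5) (nat_lit 366) (nat_lit 333) (nat_lit 321)) (XT.lf (nat_lit 0) (nat_lit 14768051) (nat_lit 1292) (nat_lit 142968592) (nat_lit 76) (nat_lit 7114909595) (nat_lit 371) (nat_lit 5) (nat_lit 388) (nat_lit 5) (nat_lit 372) (nat_lit 5) (nat_lit 367) (nat_lit 333) (nat_lit 320)))) (XT.nd (nat_lit 156) (nat_lit 684) (nat_lit 0) (XT.nd (nat_lit 78) (nat_lit 608) (nat_lit 0) (XT.lf (nat_lit 0) (nat_lit 3096332799) (nat_lit 912) (nat_lit 2229396119) (nat_lit 76) (nat_lit 2014196224) (nat_lit 360) (nat_lit 5) (nat_lit 372) (nat_lit 5) (nat_lit 361) (nat_lit 5) (nat_lit 368) (nat_lit 333) (nat_lit 319)) (XT.lf (nat_lit 0) (nat_lit 3084701283) (nat_lit 608) (nat_lit 3133317632) (nat_lit 684) (nat_lit 1192773265) (nat_lit 352) (nat_lit 5) (nat_lit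 360) (nat_lit 5) (nat_lit 361) (nat_lit 5) (nat_lit 369) (nat_lit 333) (nat_lit 318))) (XT.nd (nat_lit 78) (nat_lit 0) (nat_lit 0) (XT.lf (nat_lit 0) (nat_lit 1031884928) (nat_lit 608) (nat_lit 828099699) (nat_lit 684) (nat_lit 5624784668) (nat_lit 343) (nat_lit 5) (nat_lit 351) (nat_lit 5) (nat_lit 352) (nat_lit 5) (nat_lit 370) (nat_lit 333) (nat_lit 317)) (XT.lf (nat_lit 0) (nat_lit 4956667010) (nat_lit 684) (nat_lit 1039111276) (nat_lit 76) (nat_lit 1565543689) (nat_lit 343) (nat_lit 5) (nat_lit 352) (nat_lit 5) (nat_lit 344) (nat_lit 5) (nat_lit 371) (nat_lit 333) (nat_lit 316)))))) (XT.nd (nat_lit 546) (nat_lit 2888) (nat_lit 0) (XT.nd (nat_lit 234) (nat_lit 1140) (nat_lit 0) (XT.nd (nat_lit 78) (nat_lit 1140) (nat_lit 0) (XT.lf (nat_lit 0) (nat_lit 467390065) (nat_lit 608) (nat_lit 3117332411) (nat_lit 76) (nat_lit 4056167211) (nat_lit 335) (nat_lit 5) (nat_lit 343) (nat_lit 5) (nat_lit 336)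 (nat_lit 5) (nat_lit 372) (nat_lit 333) (nat_lit 315)) (XT.nd (nat_lit 78) (nat_lit 532) (nat_lit 0) (XT.lf (nat_lit 0) (nat_lit 2484798862) (nat_lit 608) (nat_lit 1049381613) (nat_lit 684) (nat_lit 4189242245) (nat_lit 327) (nat_lit 5) (nat_lit 335) (nat_lit 5) (nat_lit 336) (nat_lit 5) (nat_lit 373) (nat_lit 333) (nat_lit 314)) (XT.lf (nat_lit 0) (nat_lit 413110076) (nat_lit 532) (nat_lit 6252454444) (nat_lit 608) (nat_lit 1143689526) (nat_lit 320) (nat_lit 5) (nat_lit 327) (nat_lit 5) (nat_lit 328) (nat_lit 5) (nat_lit 374) (nat_lit 333) (nat_lit 313)))) (XT.nd (nat_lit 156) (nat_lit 532) (nat_lit 0) (XT.nd (nat_lit 78) (nat_lit 532) (nat_lit 0) (XT.lf (nat_lit 0) (nat_lit 1940611977) (nat_lit 608) (nat_lit 1676048480) (nat_lit 76) (nat_lit 4280836732) (nat_lit 319) (nat_lit 5) (nat_lit 327) (nat_lit 5) (nat_lit 320) (nat_lit 5) (nat_lit 375) (nat_lit 333) (nat_lit 312)) (XT.lf (nat_lit 0) (nat_lit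 4197215389) (nat_lit 532) (nat_lit 862308436) (nat_lit 608) (nat_lit 2929572042) (nat_lit 312) (nat_lit 5) (nat_lit 319) (nat_lit 5) (nat_lit 320) (nat_lit 5) (nat_lit 376) (nat_lit 333) (nat_lit 311))) (XT.nd (nat_lit 78) (nat_lit 0) (nat_lit 0) (XT.lf (nat_lit 0) (nat_lit 167190309) (nat_lit 532) (nat_lit 5955309276) (nat_lit 76) (nat_lit 1961419265) (nat_lit 305) (nat_lit 5) (nat_lit 312) (nat_lit 5) (nat_lit 306) (nat_lit 5) (nat_lit 377) (nat_lit 333) (nat_lit 310)) (XT.lf (nat_lit 0) (nat_lit 3271690338) (nat_lit 532) (nat_lit 4716544) (nat_lit 76) (nat_lit 4905097981) (nat_lit 305) (nat_lit 5) (nat_lit 312) (nat_lit 5) (nat_lit 306) (nat_lit 5) (nat_lit 378) (nat_lit 333) (nat_lit 309))))) (XT.nd (nat_lit 312) (nat_lit 1368) (nat_lit 0) (XT.nd (nat_lit 156) (nat_lit 456) (nat_lit 0) (XT.nd (nat_lit 78) (nat_lit 532) (nat_lit 0) (XT.lf (nat_lit 0) (nat_lit 6156371202) (nat_lit 532) (nat_lit 300782412)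 (nat_lit 608) (nat_lit 1825229995) (nat_lit 298) (nat_lit 5) (nat_lit 305) (nat_lit 5) (nat_lit 306) (nat_lit 5) (nat_lit 379) (nat_lit 333) (nat_lit 308)) (XT.lf (nat_lit 0) (nat_lit 1321028256) (nat_lit 532) (nat_lit 4319458830) (nat_lit 76) (nat_lit 2745546282) (nat_lit 291) (nat_lit 5) (nat_lit 298) (nat_lit 5) (nat_lit 292) (nat_lit 5) (nat_lit 380) (nat_lit 333) (nat_lit 307))) (XT.nd (nat_lit 78) (nat_lit 0) (nat_lit 0) (XT.lf (nat_lit 0) (nat_lit 1922888707) (nat_lit 456) (nat_lit 2575480366) (nat_lit 532) (nat_lit 3994679995) (nat_lit 285) (nat_lit 5) (nat_lit 291) (nat_lit 5) (nat_lit 292) (nat_lit 5) (nat_lit 381) (nat_lit 333) (nat_lit 306)) (XT.lf (nat_lit 0) (nat_lit 7751889335) (nat_lit 532) (nat_lit 257662812) (nat_lit 76) (nat_lit 594297314) (nat_lit 285) (nat_lit 5) (nat_lit 292) (nat_lit 5) (nat_lit 286) (nat_lit 5) (nat_lit 382) (nat_lit 333) (nat_lit 305)))) (XT.nd (nat_lit 156)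 (nat_lit 456) (nat_lit 0) (XT.nd (nat_lit 78) (nat_lit 456) (nat_lit 0) (XT.lf (nat_lit 0) (nat_lit 2357514074) (nat_lit 456) (nat_lit 2487884177) (nat_lit 76) (nat_lit 3871317417) (nat_lit 279) (nat_lit 5) (nat_lit 285) (nat_lit 5) (nat_lit 280) (nat_lit 5) (nat_lit 383) (nat_lit 333) (nat_lit 304)) (XT.lf (nat_lit 0) (nat_lit 4064627237) (nat_lit 456) (nat_lit 1556900480) (nat_lit 532) (nat_lit 3211925723) (nat_lit 273) (nat_lit 5) (nat_lit 279) (nat_lit 5) (nat_lit 280) (nat_lit 5) (nat_lit 384) (nat_lit 333) (nat_lit 303))) (XT.nd (nat_lit 78) (nat_lit 0) (nat_lit 0) (XT.lf (nat_lit 0) (nat_lit 24349089) (nat_lit 456) (nat_lit 7113644198) (nat_lit 76) (nat_lit 1815836628) (nat_lit 267) (nat_lit 5) (nat_lit 273) (nat_lit 5) (nat_lit 268) (nat_lit 5) (nat_lit 385) (nat_lit 333) (nat_lit 302)) (XT.lf (nat_lit 0) (nat_lit 3292173320) (nat_lit 456) (nat_lit 468672388) (nat_lit 76) (nat_lit 5316047408)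 (nat_lit 267) (nat_lit 5) (nat_lit 273) (nat_lit 5) (nat_lit 268) (nat_lit 5) (nat_lit 386) (nat_lit 333) (nat_lit 301))))))) (XT.nd (nat_lit 1170) (nat_lit 2888) (nat_lit 0) (XT.nd (nat_lit 546) (nat_lit 1900) (nat_lit 0) (XT.nd (nat_lit 234) (nat_lit 1064) (nat_lit 0) (XT.nd (nat_lit 78) (nat_lit 836) (nat_lit 0) (XT.lf (nat_lit 0) (nat_lit 6413586431) (nat_lit 380) (nat_lit 242961492) (nat_lit 456) (nat_lit 2547144819) (nat_lit 262) (nat_lit 5) (nat_lit 267) (nat_lit 5) (nat_lit 268) (nat_lit 5) (nat_lit 387) (nat_lit 333) (nat_lit 300)) (XT.nd (nat_lit 78) (nat_lit 380) (nat_lit 0) (XT.lf (nat_lit 0) (nat_lit 787026319) (nat_lit 456) (nat_lit 5203590732) (nat_lit 76) (nat_lit 3343007083) (nat_lit 256) (nat_lit 5) (nat_lit 262) (nat_lit 5) (nat_lit 257) (nat_lit 5) (nat_lit 388) (nat_lit 333) (nat_lit 299)) (XT.lf (nat_lit 0) (nat_lit 1766570713) (nat_lit 380) (nat_lit 2389308474) (nat_lit 456) (nat_lit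 5311242151) (nat_lit 251) (nat_lit 5) (nat_lit 256) (nat_lit 5) (nat_lit 257) (nat_lit 5) (nat_lit 389) (nat_lit 333) (nat_lit 298)))) (XT.nd (nat_lit 156) (nat_lit 684) (nat_lit 0) (XT.nd (nat_lit 78) (nat_lit 380) (nat_lit 0) (XT.lf (nat_lit 0) (nat_lit 7630274192) (nat_lit 456) (nat_lit 652822039) (nat_lit 76) (nat_lit 1321392932) (nat_lit 251) (nat_lit 5) (nat_lit 257) (nat_lit 5) (nat_lit 252) (nat_lit 5) (nat_lit 390) (nat_lit 333) (nat_lit 297)) (XT.lf (nat_lit 0) (nat_lit 1462502700) (nat_lit 380) (nat_lit 3133988540) (nat_lit 76) (nat_lit 5148221110) (nat_lit 246) (nat_lit 5) (nat_lit 251) (nat_lit 5) (nat_lit 247) (nat_lit 5) (nat_lit 391) (nat_lit 333) (nat_lit 296))) (XT.nd (nat_lit 78) (nat_lit 304) (nat_lit 0) (XT.lf (nat_lit 0) (nat_lit 4191996220) (nat_lit 380) (nat_lit 758435134) (nat_lit 456) (nat_lit 4938490802) (nat_lit 241) (nat_lit 5) (nat_lit 246) (nat_lit 5) (nat_lit 247) (nat_lit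 5) (nat_lit 392) (nat_lit 333) (nat_lit 295)) (XT.lf (nat_lit 0) (nat_lit 1679813867) (nat_lit 304) (nat_lit 6883468403) (nat_lit 380) (nat_lit 1473567453) (nat_lit 237) (nat_lit 5) (nat_lit 241) (nat_lit 5) (nat_lit 242) (nat_lit 5) (nat_lit 393) (nat_lit 333) (nat_lit 294))))) (XT.nd (nat_lit 312) (nat_lit 836) (nat_lit 0) (XT.nd (nat_lit 156) (nat_lit 684) (nat_lit 0) (XT.nd (nat_lit 78) (nat_lit 304) (nat_lit 0) (XT.lf (nat_lit 0) (nat_lit 2061791508) (nat_lit 380) (nat_lit 908811276) (nat_lit 76) (nat_lit 7217786848) (nat_lit 236) (nat_lit 5) (nat_lit 241) (nat_lit 5) (nat_lit 237) (nat_lit 5) (nat_lit 394) (nat_lit 333) (nat_lit 293)) (XT.lf (nat_lit 0) (nat_lit 5693084495) (nat_lit 380) (nat_lit 3558781037) (nat_lit 76) (nat_lit 1091587798) (nat_lit 232) (nat_lit 5) (nat_lit 237) (nat_lit 5) (nat_lit 233) (nat_lit 5) (nat_lit 395) (nat_lit 333) (nat_lit 292))) (XT.nd (nat_lit 78) (nat_lit 380)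 (nat_lit 0) (XT.lf (nat_lit 0) (nat_lit 4191235780) (nat_lit 304) (nat_lit 5265073955) (nat_lit 380) (nat_lit 1046169400) (nat_lit 228) (nat_lit 5) (nat_lit 232) (nat_lit 5) (nat_lit 233) (nat_lit 5) (nat_lit 396) (nat_lit 333) (nat_lit 291)) (XT.lf (nat_lit 0) (nat_lit 1498756523) (nat_lit 304) (nat_lit 1110365483) (nat_lit 380) (nat_lit 8056535078) (nat_lit 223) (nat_lit 5) (nat_lit 227) (nat_lit 5) (nat_lit 228) (nat_lit 5) (nat_lit 397) (nat_lit 333) (nat_lit 290)))) (XT.nd (nat_lit 156) (nat_lit 608) (nat_lit 0) (XT.nd (nat_lit 78) (nat_lit 228) (nat_lit 0) (XT.lf (nat_lit 0) (nat_lit 6392675312) (nat_lit 380) (nat_lit 1287364075) (nat_lit 76) (nat_lit 3152191337) (nat_lit 223) (nat_lit 5) (nat_lit 228) (nat_lit 5) (nat_lit 224) (nat_lit 5) (nat_lit 398) (nat_lit 333) (nat_lit 289)) (XT.lf (nat_lit 0) (nat_lit 6867570970) (nat_lit 228) (nat_lit 3445586584) (nat_lit 304) (nat_lit 689941349) (nat_lit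 220) (nat_lit 5) (nat_lit 223) (nat_lit 5) (nat_lit 224) (nat_lit 5) (nat_lit 399) (nat_lit 333) (nat_lit 288))) (XT.nd (nat_lit 78) (nat_lit 228) (nat_lit 0) (XT.lf (nat_lit 0) (nat_lit 3118583730) (nat_lit 380) (nat_lit 7107952344) (nat_lit 76) (nat_lit 951392584) (nat_lit 215) (nat_lit 5) (nat_lit 220) (nat_lit 5) (nat_lit 216) (nat_lit 5) (nat_lit 400) (nat_lit 333) (nat_lit 287)) (XT.lf (nat_lit 0) (nat_lit 1145973506) (nat_lit 228) (nat_lit 5915935837) (nat_lit 304) (nat_lit 4294856673) (nat_lit 212) (nat_lit 5) (nat_lit 215) (nat_lit 5) (nat_lit 216) (nat_lit 5) (nat_lit 401) (nat_lit 333) (nat_lit 286)))))) (XT.nd (nat_lit 624) (nat_lit 1444) (nat_lit 0) (XT.nd (nat_lit 312) (nat_lit 608) (nat_lit 0) (XT.nd (nat_lit 156) (nat_lit 456) (nat_lit 0) (XT.nd (nat_lit 78) (nat_lit 380) (nat_lit 0) (XT.lf (nat_lit 0) (nat_lit 9709354825) (nat_lit 228) (nat_lit 1433797860) (nat_lit 304) (nat_lit 397227269)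 (nat_lit 212) (nat_lit 5) (nat_lit 215) (nat_lit 5) (nat_lit 216) (nat_lit 5) (nat_lit 402) (nat_lit 333) (nat_lit 285)) (XT.lf (nat_lit 0) (nat_lit 3592409197) (nat_lit 380) (nat_lit 4943391860) (nat_lit 76) (nat_lit 3191288136) (nat_lit 207) (nat_lit 5) (nat_lit 212) (nat_lit 5) (nat_lit 208) (nat_lit 5) (nat_lit 403) (nat_lit 333) (nat_lit 284))) (XT.nd (nat_lit 78) (nat_lit 228) (nat_lit 0) (XT.lf (nat_lit 0) (nat_lit 3747517927) (nat_lit 228) (nat_lit 3964389516) (nat_lit 304) (nat_lit 4206829579) (nat_lit 204) (nat_lit 5) (nat_lit 207) (nat_lit 5) (nat_lit 208) (nat_lit 5) (nat_lit 404) (nat_lit 333) (nat_lit 283)) (XT.lf (nat_lit 0) (nat_lit 606816587) (nat_lit 228) (nat_lit 11361219247) (nat_lit 304) (nat_lit 147707096) (nat_lit 201) (nat_lit 5) (nat_lit 204) (nat_lit 5) (nat_lit 205) (nat_lit 5) (nat_lit 405) (nat_lit 333) (nat_lit 282)))) (XT.nd (nat_lit 156) (nat_lit 304) (nat_lit 0) (XT.nd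 (nat_lit 78) (nat_lit 228) (nat_lit 0) (XT.lf (nat_lit 0) (nat_lit 4026897116) (nat_lit 304) (nat_lit 2662738604) (nat_lit 76) (nat_lit 5625687909) (nat_lit 200) (nat_lit 5) (nat_lit 204) (nat_lit 5) (nat_lit 201) (nat_lit 5) (nat_lit 406) (nat_lit 333) (nat_lit 281)) (XT.lf (nat_lit 0) (nat_lit 6493092961) (nat_lit 228) (nat_lit 1844383080) (nat_lit 304) (nat_lit 4182960672) (nat_lit 197) (nat_lit 5) (nat_lit 200) (nat_lit 5) (nat_lit 201) (nat_lit 5) (nat_lit 407) (nat_lit 333) (nat_lit 280))) (XT.nd (nat_lit 78) (nat_lit 0) (nat_lit 0) (XT.lf (nat_lit 0) (nat_lit 84938445) (nat_lit 304) (nat_lit 9533486529) (nat_lit 76) (nat_lit 3112060233) (nat_lit 193) (nat_lit 5) (nat_lit 197) (nat_lit 5) (nat_lit 194) (nat_lit 5) (nat_lit 408) (nat_lit 333) (nat_lit 279)) (XT.lf (nat_lit 0) (nat_lit 4428320405) (nat_lit 304) (nat_lit 265146756) (nat_lit 76) (nat_lit 8251179954) (nat_lit 193) (nat_lit 5) (nat_lit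 197) (nat_lit 5) (nat_lit 194) (nat_lit 5) (nat_lit 409) (nat_lit 333) (nat_lit 278))))) (XT.nd (nat_lit 312) (nat_lit 760) (nat_lit 0) (XT.nd (nat_lit 156) (nat_lit 152) (nat_lit 0) (XT.nd (nat_lit 78) (nat_lit 304) (nat_lit 0) (XT.lf (nat_lit 0) (nat_lit 8949644169) (nat_lit 304) (nat_lit 3782886941) (nat_lit 76) (nat_lit 431273560) (nat_lit 190) (nat_lit 5) (nat_lit 194) (nat_lit 5) (nat_lit 191) (nat_lit 5) (nat_lit 410) (nat_lit 333) (nat_lit 277)) (XT.lf (nat_lit 0) (nat_lit 273021165) (nat_lit 304) (nat_lit 7468432250) (nat_lit 76) (nat_lit 5646215348) (nat_lit 186) (nat_lit 5) (nat_lit 190) (nat_lit 5) (nat_lit 187) (nat_lit 5) (nat_lit 411) (nat_lit 333) (nat_lit 276))) (XT.nd (nat_lit 78) (nat_lit 0) (nat_lit 0) (XT.lf (nat_lit 0) (nat_lit 2296010911) (nat_lit 152) (nat_lit 2528396101) (nat_lit 228) (nat_lit 8792161361) (nat_lit 184) (nat_lit 5) (nat_lit 186) (nat_lit 5) (nat_lit 187) (nat_lit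 5) (nat_lit 412) (nat_lit 333) (nat_lit 275)) (XT.lf (nat_lit 0) (nat_lit 9569723875) (nat_lit 228) (nat_lit 1451478236) (nat_lit 76) (nat_lit 2829411176) (nat_lit 184) (nat_lit 5) (nat_lit 187) (nat_lit 5) (nat_lit 185) (nat_lit 5) (nat_lit 413) (nat_lit 333) (nat_lit 274)))) (XT.nd (nat_lit 156) (nat_lit 304) (nat_lit 0) (XT.nd (nat_lit 78) (nat_lit 152) (nat_lit 0) (XT.lf (nat_lit 0) (nat_lit 423939930) (nat_lit 304) (nat_lit 5311383028) (nat_lit 76) (nat_lit 8354290453) (nat_lit 180) (nat_lit 5) (nat_lit 184) (nat_lit 5) (nat_lit 181) (nat_lit 5) (nat_lit 414) (nat_lit 333) (nat_lit 273)) (XT.lf (nat_lit 0) (nat_lit 4986377489) (nat_lit 152) (nat_lit 215615891) (nat_lit 228) (nat_lit 9131974981) (nat_lit 178) (nat_lit 5) (nat_lit 180) (nat_lit 5) (nat_lit 181) (nat_lit 5) (nat_lit 415) (nat_lit 333) (nat_lit 272))) (XT.nd (nat_lit 78) (nat_lit 76) (nat_lit 0) (XT.lf (nat_lit 0) (nat_lit 1006556804)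 (nat_lit 228) (nat_lit 9188882315) (nat_lit 304) (nat_lit 4388053321) (nat_lit 175) (nat_lit 5) (nat_lit 178) (nat_lit 5) (nat_lit 179) (nat_lit 5) (nat_lit 416) (nat_lit 333) (nat_lit 271)) (XT.lf (nat_lit 0) (nat_lit 541674994) (nat_lit 304) (nat_lit 3060580347) (nat_lit 76) (nat_lit 11236506921) (nat_lit 174) (nat_lit 5) (nat_lit 178) (nat_lit 5) (nat_lit 175) (nat_lit 5) (nat_lit 417) (nat_lit 333) (nat_lit 270))))))))
noncomputable def xc83 : XT := (XT.nd (nat_lit 2340) (nat_lit 2508) (nat_lit 0) (XT.nd (nat_lit 1170) (nat_lit 1672) (nat_lit 0) (XT.nd (nat_lit 546) (nat_lit 1064) (nat_lit 0) (XT.nd (nat_lit 234) (nat_lit 532) (nat_lit 0) (XT.nd (nat_lit 78) (nat_lit 228) (nat_lit 0) (XT.lf (nat_lit 0) (nat_lit 5584701778) (nat_lit 228) (nat_lit 7316583126) (nat_lit 76) (nat_lit 2197493829) (nat_lit 172) (nat_lit 5) (nat_lit 175) (nat_lit 5) (nat_lit 173) (nat_lit 5) (nat_lit 418) (nat_lit 333)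 (nat_lit 269)) (XT.nd (nat_lit 78) (nat_lit 76) (nat_lit 0) (XT.lf (nat_lit 0) (nat_lit 3605772045) (nat_lit 152) (nat_lit 7232041168) (nat_lit 228) (nat_lit 4527018669) (nat_lit 170) (nat_lit 5) (nat_lit 172) (nat_lit 5) (nat_lit 173) (nat_lit 5) (nat_lit 419) (nat_lit 333) (nat_lit 268)) (XT.lf (nat_lit 0) (nat_lit 629728834) (nat_lit 228) (nat_lit 713508308) (nat_lit 76) (nat_lit 14294494454) (nat_lit 169) (nat_lit 5) (nat_lit 172) (nat_lit 5) (nat_lit 170) (nat_lit 5) (nat_lit 420) (nat_lit 333) (nat_lit 267)))) (XT.nd (nat_lit 156) (nat_lit 228) (nat_lit 0) (XT.nd (nat_lit 78) (nat_lit 152) (nat_lit 0) (XT.lf (nat_lit 0) (nat_lit 5958719945) (nat_lit 228) (nat_lit 5207545654) (nat_lit 76) (nat_lit 4747952151) (nat_lit 167) (nat_lit 5) (nat_lit 170) (nat_lit 5) (nat_lit 168) (nat_lit 5) (nat_lit 421) (nat_lit 333) (nat_lit 266)) (XT.lf (nat_lit 0) (nat_lit 6321256165) (nat_lit 152) (nat_lit 5166458803)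 (nat_lit 228) (nat_lit 4710079495) (nat_lit 165) (nat_lit 5) (nat_lit 167) (nat_lit 5) (nat_lit 168) (nat_lit 5) (nat_lit 422) (nat_lit 333) (nat_lit 265))) (XT.nd (nat_lit 78) (nat_lit 0) (nat_lit 0) (XT.lf (nat_lit 0) (nat_lit 718352535) (nat_lit 228) (nat_lit 14731427660) (nat_lit 76) (nat_lit 1038723474) (nat_lit 162) (nat_lit 5) (nat_lit 165) (nat_lit 5) (nat_lit 163) (nat_lit 5) (nat_lit 423) (nat_lit 333) (nat_lit 264)) (XT.lf (nat_lit 0) (nat_lit 6325907889) (nat_lit 228) (nat_lit 3015853866) (nat_lit 76) (nat_lit 7441445213) (nat_lit 162) (nat_lit 5) (nat_lit 165) (nat_lit 5) (nat_lit 163) (nat_lit 5) (nat_lit 424) (nat_lit 333) (nat_lit 263))))) (XT.nd (nat_lit 312) (nat_lit 532) (nat_lit 0) (XT.nd (nat_lit 156) (nat_lit 152) (nat_lit 0) (XT.nd (nat_lit 78) (nat_lit 228) (nat_lit 0) (XT.lf (nat_lit 0) (nat_lit 9157757040) (nat_lit 152) (nat_lit 2992219241) (nat_lit 228) (nat_lit 4935326493)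 (nat_lit 160) (nat_lit 5) (nat_lit 162) (nat_lit 5) (nat_lit 163) (nat_lit 5) (nat_lit 425) (nat_lit 333) (nat_lit 262)) (XT.lf (nat_lit 0) (nat_lit 805293304) (nat_lit 228) (nat_lit 13061488199) (nat_lit 76) (nat_lit 3527432959) (nat_lit 157) (nat_lit 5) (nat_lit 160) (nat_lit 5) (nat_lit 158) (nat_lit 5) (nat_lit 426) (nat_lit 333) (nat_lit 261))) (XT.nd (nat_lit 78) (nat_lit 152) (nat_lit 0) (XT.lf (nat_lit 0) (nat_lit 6689903547) (nat_lit 228) (nat_lit 738332071) (nat_lit 76) (nat_lit 10280562931) (nat_lit 157) (nat_lit 5) (nat_lit 160) (nat_lit 5) (nat_lit 158) (nat_lit 5) (nat_lit 427) (nat_lit 333) (nat_lit 260)) (XT.lf (nat_lit 0) (nat_lit 12120776280) (nat_lit 152) (nat_lit 708434566) (nat_lit 228) (nat_lit 5201264550) (nat_lit 155) (nat_lit 5) (nat_lit 157) (nat_lit 5) (nat_lit 158) (nat_lit 5) (nat_lit 428) (nat_lit 333) (nat_lit 259)))) (XT.nd (nat_lit 156) (nat_lit 152) (nat_lit 0) (XT.nd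 (nat_lit 78) (nat_lit 152) (nat_lit 0) (XT.lf (nat_lit 0) (nat_lit 872999820) (nat_lit 228) (nat_lit 11341347951) (nat_lit 76) (nat_lit 6144300556) (nat_lit 152) (nat_lit 5) (nat_lit 155) (nat_lit 5) (nat_lit 153) (nat_lit 5) (nat_lit 429) (nat_lit 333) (nat_lit 258)) (XT.lf (nat_lit 0) (nat_lit 1661215125) (nat_lit 152) (nat_lit 5408845923) (nat_lit 228) (nat_lit 11623707190) (nat_lit 150) (nat_lit 5) (nat_lit 152) (nat_lit 5) (nat_lit 153) (nat_lit 5) (nat_lit 430) (nat_lit 333) (nat_lit 257))) (XT.nd (nat_lit 78) (nat_lit 152) (nat_lit 0) (XT.lf (nat_lit 0) (nat_lit 13546072308) (nat_lit 228) (nat_lit 3836293223) (nat_lit 76) (nat_lit 1653785071) (nat_lit 150) (nat_lit 5) (nat_lit 153) (nat_lit 5) (nat_lit 151) (nat_lit 4) (nat_lit 431) (nat_lit 333) (nat_lit 256)) (XT.lf (nat_lit 0) (nat_lit 923610159) (nat_lit 152) (nat_lit 9569044736) (nat_lit 76) (nat_lit 8892544911) (nat_lit 148) (nat_lit 5)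 (nat_lit 150) (nat_lit 5) (nat_lit 149) (nat_lit 5) (nat_lit 432) (nat_lit 333) (nat_lit 255)))))) (XT.nd (nat_lit 546) (nat_lit 912) (nat_lit 0) (XT.nd (nat_lit 234) (nat_lit 456) (nat_lit 0) (XT.nd (nat_lit 78) (nat_lit 152) (nat_lit 0) (XT.lf (nat_lit 0) (nat_lit 4171303646) (nat_lit 152) (nat_lit 3290439237) (nat_lit 228) (nat_lit 12280075522) (nat_lit 146) (nat_lit 5) (nat_lit 148) (nat_lit 5) (nat_lit 149) (nat_lit 5) (nat_lit 433) (nat_lit 333) (nat_lit 254)) (XT.nd (nat_lit 78) (nat_lit 152) (nat_lit 0) (XT.lf (nat_lit 0) (nat_lit 14296560288) (nat_lit 228) (nat_lit 1695582754) (nat_lit 76) (nat_lit 4113976301) (nat_lit 146) (nat_lit 5) (nat_lit 149) (nat_lit 5) (nat_lit 147) (nat_lit 4) (nat_lit 434) (nat_lit 333) (nat_lit 253)) (XT.lf (nat_lit 0) (nat_lit 959006836) (nat_lit 152) (nat_lit 7742175607) (nat_lit 76) (nat_lit 11776301697) (nat_lit 144) (nat_lit 5) (nat_lit 146) (nat_lit 5) (nat_lit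 145) (nat_lit 5) (nat_lit 435) (nat_lit 333) (nat_lit 252)))) (XT.nd (nat_lit 156) (nat_lit 228) (nat_lit 0) (XT.nd (nat_lit 78) (nat_lit 76) (nat_lit 0) (XT.lf (nat_lit 0) (nat_lit 6782283983) (nat_lit 152) (nat_lit 1078466381) (nat_lit 228) (nat_lit 12996107294) (nat_lit 142) (nat_lit 5) (nat_lit 144) (nat_lit 5) (nat_lit 145) (nat_lit 5) (nat_lit 436) (nat_lit 333) (nat_lit 251)) (XT.lf (nat_lit 0) (nat_lit 533564582) (nat_lit 76) (nat_lit 14549674931) (nat_lit 152) (nat_lit 6160962069) (nat_lit 141) (nat_lit 5) (nat_lit 142) (nat_lit 5) (nat_lit 143) (nat_lit 4) (nat_lit 437) (nat_lit 333) (nat_lit 250))) (XT.nd (nat_lit 78) (nat_lit 152) (nat_lit 0) (XT.lf (nat_lit 0) (nat_lit 980844750) (nat_lit 152) (nat_lit 5857911633) (nat_lit 76) (nat_lit 14800592956) (nat_lit 140) (nat_lit 5) (nat_lit 142) (nat_lit 5) (nat_lit 141) (nat_lit 5) (nat_lit 438) (nat_lit 333) (nat_lit 249)) (XT.lf (nat_lit 0)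 (nat_lit 8281802013) (nat_lit 228) (nat_lit 12554850298) (nat_lit 76) (nat_lit 1205807468) (nat_lit 138) (nat_lit 5) (nat_lit 141) (nat_lit 5) (nat_lit 139) (nat_lit 4) (nat_lit 439) (nat_lit 333) (nat_lit 248))))) (XT.nd (nat_lit 312) (nat_lit 532) (nat_lit 0) (XT.nd (nat_lit 156) (nat_lit 228) (nat_lit 0) (XT.nd (nat_lit 78) (nat_lit 76) (nat_lit 0) (XT.lf (nat_lit 0) (nat_lit 2880524523) (nat_lit 76) (nat_lit 13042080833) (nat_lit 152) (nat_lit 6531433652) (nat_lit 137) (nat_lit 5) (nat_lit 138) (nat_lit 5) (nat_lit 139) (nat_lit 4) (nat_lit 440) (nat_lit 333) (nat_lit 247)) (XT.lf (nat_lit 0) (nat_lit 990575959) (nat_lit 152) (nat_lit 3913008772) (nat_lit 76) (nat_lit 17971304398) (nat_lit 136) (nat_lit 5) (nat_lit 138) (nat_lit 5) (nat_lit 137) (nat_lit 5) (nat_lit 441) (nat_lit 333) (nat_lit 246))) (XT.nd (nat_lit 78) (nat_lit 76) (nat_lit 0) (XT.lf (nat_lit 0) (nat_lit 8727184046) (nat_lit 228)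 (nat_lit 11008813528) (nat_lit 76) (nat_lit 3566820743) (nat_lit 134) (nat_lit 5) (nat_lit 137) (nat_lit 5) (nat_lit 135) (nat_lit 4) (nat_lit 442) (nat_lit 333) (nat_lit 245)) (XT.lf (nat_lit 0) (nat_lit 5316537885) (nat_lit 76) (nat_lit 11485716635) (nat_lit 152) (nat_lit 6938139937) (nat_lit 133) (nat_lit 5) (nat_lit 134) (nat_lit 5) (nat_lit 135) (nat_lit 4) (nat_lit 443) (nat_lit 333) (nat_lit 244)))) (XT.nd (nat_lit 156) (nat_lit 304) (nat_lit 0) (XT.nd (nat_lit 78) (nat_lit 152) (nat_lit 0) (XT.lf (nat_lit 0) (nat_lit 989471644) (nat_lit 152) (nat_lit 1903815138) (nat_lit 76) (nat_lit 21295170033) (nat_lit 132) (nat_lit 5) (nat_lit 134) (nat_lit 5) (nat_lit 133) (nat_lit 5) (nat_lit 444) (nat_lit 333) (nat_lit 243)) (XT.lf (nat_lit 0) (nat_lit 9189262795) (nat_lit 228) (nat_lit 9423778035) (nat_lit 76) (nat_lit 6029645352) (nat_lit 130) (nat_lit 5) (nat_lit 133) (nat_lit 5) (nat_lit 131) (nat_lit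 4) (nat_lit 445) (nat_lit 333) (nat_lit 242))) (XT.nd (nat_lit 78) (nat_lit 228) (nat_lit 0) (XT.lf (nat_lit 0) (nat_lit 7847087887) (nat_lit 76) (nat_lit 9879333311) (nat_lit 152) (nat_lit 7381380025) (nat_lit 129) (nat_lit 5) (nat_lit 130) (nat_lit 5) (nat_lit 131) (nat_lit 4) (nat_lit 446) (nat_lit 333) (nat_lit 241)) (XT.lf (nat_lit 0) (nat_lit 177182551) (nat_lit 152) (nat_lit 803162209) (nat_lit 228) (nat_lit 24604284264) (nat_lit 126) (nat_lit 5) (nat_lit 128) (nat_lit 5) (nat_lit 129) (nat_lit 5) (nat_lit 447) (nat_lit 333) (nat_lit 240))))))) (XT.nd (nat_lit 1170) (nat_lit 1216) (nat_lit 0) (XT.nd (nat_lit 546) (nat_lit 684) (nat_lit 0) (XT.nd (nat_lit 234) (nat_lit 304) (nat_lit 0) (XT.nd (nat_lit 78) (nat_lit 304) (nat_lit 0) (XT.lf (nat_lit 0) (nat_lit 9670713105) (nat_lit 228) (nat_lit 7797116655) (nat_lit 76) (nat_lit 8598954901) (nat_lit 126) (nat_lit 5) (nat_lit 129) (nat_lit 5) (nat_lit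 127) (nat_lit 4) (nat_lit 448) (nat_lit 333) (nat_lit 239)) (XT.nd (nat_lit 78) (nat_lit 228) (nat_lit 0) (XT.lf (nat_lit 0) (nat_lit 10478158248) (nat_lit 76) (nat_lit 8221223921) (nat_lit 152) (nat_lit 7861695109) (nat_lit 125) (nat_lit 5) (nat_lit 126) (nat_lit 5) (nat_lit 127) (nat_lit 4) (nat_lit 449) (nat_lit 333) (nat_lit 238)) (XT.lf (nat_lit 0) (nat_lit 995183340) (nat_lit 228) (nat_lit 24710816070) (nat_lit 76) (nat_lit 1361393646) (nat_lit 122) (nat_lit 5) (nat_lit 125) (nat_lit 5) (nat_lit 123) (nat_lit 4) (nat_lit 450) (nat_lit 333) (nat_lit 237)))) (XT.nd (nat_lit 156) (nat_lit 228) (nat_lit 0) (XT.nd (nat_lit 78) (nat_lit 76) (nat_lit 0) (XT.lf (nat_lit 0) (nat_lit 10174173404) (nat_lit 228) (nat_lit 6125898553) (nat_lit 76) (nat_lit 11280058667) (nat_lit 122) (nat_lit 5) (nat_lit 125) (nat_lit 5) (nat_lit 123) (nat_lit 4) (nat_lit 451) (nat_lit 333) (nat_lit 236)) (XT.lf (nat_lit 0)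 (nat_lit 13216240042) (nat_lit 76) (nat_lit 6509243835) (nat_lit 152) (nat_lit 8379857921) (nat_lit 121) (nat_lit 5) (nat_lit 122) (nat_lit 5) (nat_lit 123) (nat_lit 4) (nat_lit 452) (nat_lit 333) (nat_lit 235))) (XT.nd (nat_lit 78) (nat_lit 0) (nat_lit 0) (XT.lf (nat_lit 0) (nat_lit 1011410682) (nat_lit 228) (nat_lit 24036296828) (nat_lit 76) (nat_lit 3594968922) (nat_lit 118) (nat_lit 5) (nat_lit 121) (nat_lit 5) (nat_lit 119) (nat_lit 4) (nat_lit 453) (nat_lit 333) (nat_lit 234)) (XT.lf (nat_lit 0) (nat_lit 10702266130) (nat_lit 228) (nat_lit 4406891751) (nat_lit 76) (nat_lit 14078895889) (nat_lit 118) (nat_lit 5) (nat_lit 121) (nat_lit 5) (nat_lit 119) (nat_lit 4) (nat_lit 454) (nat_lit 333) (nat_lit 233))))) (XT.nd (nat_lit 312) (nat_lit 380) (nat_lit 0) (XT.nd (nat_lit 156) (nat_lit 76) (nat_lit 0) (XT.nd (nat_lit 78) (nat_lit 152) (nat_lit 0) (XT.lf (nat_lit 0) (nat_lit 16068341756) (nat_lit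 76) (nat_lit 4740826663) (nat_lit 152) (nat_lit 8936864375) (nat_lit 117) (nat_lit 5) (nat_lit 118) (nat_lit 5) (nat_lit 119) (nat_lit 4) (nat_lit 455) (nat_lit 333) (nat_lit 232)) (XT.lf (nat_lit 0) (nat_lit 1022123519) (nat_lit 152) (nat_lit 23376381913) (nat_lit 76) (nat_lit 5917752729) (nat_lit 115) (nat_lit 5) (nat_lit 117) (nat_lit 5) (nat_lit 116) (nat_lit 4) (nat_lit 456) (nat_lit 333) (nat_lit 231))) (XT.nd (nat_lit 78) (nat_lit 76) (nat_lit 0) (XT.lf (nat_lit 0) (nat_lit 11257616869) (nat_lit 152) (nat_lit 2636563327) (nat_lit 76) (nat_lit 17002034839) (nat_lit 115) (nat_lit 5) (nat_lit 117) (nat_lit 5) (nat_lit 116) (nat_lit 4) (nat_lit 457) (nat_lit 333) (nat_lit 230)) (XT.lf (nat_lit 0) (nat_lit 19042002433) (nat_lit 76) (nat_lit 2912996257) (nat_lit 152) (nat_lit 9533927216) (nat_lit 114) (nat_lit 5) (nat_lit 115) (nat_lit 5) (nat_lit 116) (nat_lit 4) (nat_lit 458) (nat_lit 333) (nat_lit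 229)))) (XT.nd (nat_lit 156) (nat_lit 228) (nat_lit 0) (XT.nd (nat_lit 78) (nat_lit 0) (nat_lit 0) (XT.lf (nat_lit 0) (nat_lit 1028044699) (nat_lit 152) (nat_lit 22731208189) (nat_lit 76) (nat_lit 8334776801) (nat_lit 112) (nat_lit 5) (nat_lit 114) (nat_lit 5) (nat_lit 113) (nat_lit 4) (nat_lit 459) (nat_lit 333) (nat_lit 228)) (XT.lf (nat_lit 0) (nat_lit 11842872398) (nat_lit 152) (nat_lit 811077411) (nat_lit 76) (nat_lit 20056676344) (nat_lit 112) (nat_lit 5) (nat_lit 114) (nat_lit 5) (nat_lit 113) (nat_lit 4) (nat_lit 460) (nat_lit 333) (nat_lit 227))) (XT.nd (nat_lit 78) (nat_lit 152) (nat_lit 0) (XT.lf (nat_lit 0) (nat_lit 22145307790) (nat_lit 76) (nat_lit 1022375076) (nat_lit 152) (nat_lit 10172471507) (nat_lit 111) (nat_lit 5) (nat_lit 112) (nat_lit 5) (nat_lit 113) (nat_lit 4) (nat_lit 461) (nat_lit 333) (nat_lit 226)) (XT.lf (nat_lit 0) (nat_lit 1029813324) (nat_lit 152) (nat_lit 22100845838)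 (nat_lit 76) (nat_lit 10851587767) (nat_lit 109) (nat_lit 5) (nat_lit 111) (nat_lit 5) (nat_lit 110) (nat_lit 4) (nat_lit 462) (nat_lit 333) (nat_lit 225)))))) (XT.nd (nat_lit 624) (nat_lit 684) (nat_lit 0) (XT.nd (nat_lit 312) (nat_lit 228) (nat_lit 0) (XT.nd (nat_lit 156) (nat_lit 228) (nat_lit 0) (XT.nd (nat_lit 78) (nat_lit 0) (nat_lit 0) (XT.lf (nat_lit 0) (nat_lit 1095077805) (nat_lit 76) (nat_lit 11376166583) (nat_lit 152) (nat_lit 22166110319) (nat_lit 108) (nat_lit 5) (nat_lit 109) (nat_lit 5) (nat_lit 110) (nat_lit 4) (nat_lit 463) (nat_lit 333) (nat_lit 224)) (XT.lf (nat_lit 0) (nat_lit 24461084455) (nat_lit 152) (nat_lit 9928307021) (nat_lit 0) (nat_lit 916569260) (nat_lit 108) (nat_lit 5) (nat_lit 110) (nat_lit 4) (nat_lit 108) (nat_lit 4) (nat_lit 464) (nat_lit 333) (nat_lit 223))) (XT.nd (nat_lit 78) (nat_lit 76) (nat_lit 0) (XT.lf (nat_lit 0) (nat_lit 1027994173) (nat_lit 152) (nat_lit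 21485307294) (nat_lit 76) (nat_lit 13474250492) (nat_lit 106) (nat_lit 5) (nat_lit 108) (nat_lit 5) (nat_lit 107) (nat_lit 4) (nat_lit 465) (nat_lit 333) (nat_lit 222)) (XT.lf (nat_lit 0) (nat_lit 3082400304) (nat_lit 76) (nat_lit 10061122635) (nat_lit 152) (nat_lit 23539713425) (nat_lit 105) (nat_lit 5) (nat_lit 106) (nat_lit 5) (nat_lit 107) (nat_lit 4) (nat_lit 466) (nat_lit 333) (nat_lit 221)))) (XT.nd (nat_lit 156) (nat_lit 76) (nat_lit 0) (XT.nd (nat_lit 78) (nat_lit 152) (nat_lit 0) (XT.lf (nat_lit 0) (nat_lit 25841795816) (nat_lit 152) (nat_lit 8646500953) (nat_lit 0) (nat_lit 2904916185) (nat_lit 105) (nat_lit 5) (nat_lit 107) (nat_lit 4) (nat_lit 105) (nat_lit 4) (nat_lit 467) (nat_lit 333) (nat_lit 220)) (XT.lf (nat_lit 0) (nat_lit 1023086084) (nat_lit 152) (nat_lit 20884555133) (nat_lit 76) (nat_lit 16209354888) (nat_lit 103) (nat_lit 5) (nat_lit 105) (nat_lit 5) (nat_lit 104) (nat_lit 4)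 (nat_lit 468) (nat_lit 333) (nat_lit 219))) (XT.nd (nat_lit 78) (nat_lit 0) (nat_lit 0) (XT.lf (nat_lit 0) (nat_lit 5139620179) (nat_lit 76) (nat_lit 8714993393) (nat_lit 152) (nat_lit 25001089228) (nat_lit 102) (nat_lit 5) (nat_lit 103) (nat_lit 5) (nat_lit 104) (nat_lit 4) (nat_lit 469) (nat_lit 333) (nat_lit 218)) (XT.lf (nat_lit 0) (nat_lit 27305320764) (nat_lit 152) (nat_lit 7337132167) (nat_lit 0) (nat_lit 4967090748) (nat_lit 102) (nat_lit 5) (nat_lit 104) (nat_lit 4) (nat_lit 102) (nat_lit 4) (nat_lit 470) (nat_lit 333) (nat_lit 217))))) (XT.nd (nat_lit 312) (nat_lit 304) (nat_lit 0) (XT.nd (nat_lit 156) (nat_lit 152) (nat_lit 0) (XT.nd (nat_lit 78) (nat_lit 76) (nat_lit 0) (XT.lf (nat_lit 0) (nat_lit 1015529390) (nat_lit 152) (nat_lit 20298509050) (nat_lit 76) (nat_lit 19064026028) (nat_lit 100) (nat_lit 5) (nat_lit 102) (nat_lit 5) (nat_lit 101) (nat_lit 4) (nat_lit 471) (nat_lit 333) (nat_lit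 216)) (XT.lf (nat_lit 0) (nat_lit 7271947021) (nat_lit 76) (nat_lit 7335515724) (nat_lit 152) (nat_lit 26554926680) (nat_lit 99) (nat_lit 5) (nat_lit 100) (nat_lit 5) (nat_lit 101) (nat_lit 4) (nat_lit 472) (nat_lit 333) (nat_lit 215))) (XT.nd (nat_lit 78) (nat_lit 152) (nat_lit 0) (XT.lf (nat_lit 0) (nat_lit 28857235426) (nat_lit 152) (nat_lit 5997546983) (nat_lit 0) (nat_lit 7107959282) (nat_lit 99) (nat_lit 5) (nat_lit 101) (nat_lit 4) (nat_lit 99) (nat_lit 4) (nat_lit 473) (nat_lit 333) (nat_lit 214)) (XT.lf (nat_lit 0) (nat_lit 1005712531) (nat_lit 152) (nat_lit 19727052007) (nat_lit 76) (nat_lit 22045937449) (nat_lit 97) (nat_lit 5) (nat_lit 99) (nat_lit 5) (nat_lit 98) (nat_lit 4) (nat_lit 474) (nat_lit 333) (nat_lit 213)))) (XT.nd (nat_lit 156) (nat_lit 228) (nat_lit 0) (XT.nd (nat_lit 78) (nat_lit 0) (nat_lit 0) (XT.lf (nat_lit 0) (nat_lit 9484939750) (nat_lit 76) (nat_lit 5920181559) (nat_lit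 152) (nat_lit 28206279225) (nat_lit 96) (nat_lit 5) (nat_lit 97) (nat_lit 5) (nat_lit 98) (nat_lit 4) (nat_lit 475) (nat_lit 333) (nat_lit 212)) (XT.lf (nat_lit 0) (nat_lit 30503384717) (nat_lit 152) (nat_lit 4624903228) (nat_lit 0) (nat_lit 9332785920) (nat_lit 96) (nat_lit 5) (nat_lit 98) (nat_lit 4) (nat_lit 96) (nat_lit 4) (nat_lit 476) (nat_lit 333) (nat_lit 211))) (XT.nd (nat_lit 78) (nat_lit 76) (nat_lit 0) (XT.lf (nat_lit 0) (nat_lit 993977919) (nat_lit 152) (nat_lit 19170035661) (nat_lit 76) (nat_lit 25163327547) (nat_lit 94) (nat_lit 5) (nat_lit 96) (nat_lit 5) (nat_lit 95) (nat_lit 4) (nat_lit 477) (nat_lit 333) (nat_lit 210)) (XT.lf (nat_lit 0) (nat_lit 11784520282) (nat_lit 76) (nat_lit 4466239244) (nat_lit 152) (nat_lit 29960578025) (nat_lit 93) (nat_lit 5) (nat_lit 94) (nat_lit 5) (nat_lit 95) (nat_lit 4) (nat_lit 478) (nat_lit 333) (nat_lit 209))))))))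
noncomputable def xc84 : XT := (XT.nd (nat_lit 44304) (nat_lit 0) (nat_lit 11476) (XT.nd (nat_lit 1170) (nat_lit 76) (nat_lit 0) (XT.nd (nat_lit 546) (nat_lit 684) (nat_lit 0) (XT.nd (nat_lit 234) (nat_lit 228) (nat_lit 0) (XT.nd (nat_lit 78) (nat_lit 228) (nat_lit 0) (XT.lf (nat_lit 0) (nat_lit 32249906936) (nat_lit 152) (nat_lit 3216165711) (nat_lit 0) (nat_lit 11647241348) (nat_lit 93) (nat_lit 5) (nat_lit 95) (nat_lit 4) (nat_lit 93) (nat_lit 4) (nat_lit 479) (nat_lit 333) (nat_lit 208)) (XT.nd (nat_lit 78) (nat_lit 76) (nat_lit 0) (XT.lf (nat_lit 0) (nat_lit 980627148) (nat_lit 152) (nat_lit 18627285151) (nat_lit 76) (nat_lit 28425018981) (nat_lit 91) (nat_lit 5) (nat_lit 93) (nat_lit 5) (nat_lit 92) (nat_lit 4) (nat_lit 480) (nat_lit 333) (nat_lit 207)) (XT.lf (nat_lit 0) (nat_lit 14176988997) (nat_lit 76) (nat_lit 2970693030) (nat_lit 152) (nat_lit 31823647000) (nat_lit 90) (nat_lit 5) (nat_lit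 91) (nat_lit 5) (nat_lit 92) (nat_lit 4) (nat_lit 481) (nat_lit 333) (nat_lit 206)))) (XT.nd (nat_lit 156) (nat_lit 76) (nat_lit 0) (XT.nd (nat_lit 78) (nat_lit 152) (nat_lit 0) (XT.lf (nat_lit 0) (nat_lit 34103258929) (nat_lit 152) (nat_lit 1768100520) (nat_lit 0) (nat_lit 14057413946) (nat_lit 90) (nat_lit 5) (nat_lit 92) (nat_lit 4) (nat_lit 90) (nat_lit 4) (nat_lit 482) (nat_lit 333) (nat_lit 205)) (XT.lf (nat_lit 0) (nat_lit 965925628) (nat_lit 152) (nat_lit 18098603300) (nat_lit 76) (nat_lit 31840441058) (nat_lit 88) (nat_lit 5) (nat_lit 90) (nat_lit 5) (nat_lit 89) (nat_lit 4) (nat_lit 483) (nat_lit 333) (nat_lit 204))) (XT.nd (nat_lit 78) (nat_lit 0) (nat_lit 0) (XT.lf (nat_lit 0) (nat_lit 16669042004) (nat_lit 76) (nat_lit 1430300816) (nat_lit 152) (nat_lit 33801719676) (nat_lit 87) (nat_lit 5) (nat_lit 88) (nat_lit 5) (nat_lit 89) (nat_lit 4) (nat_lit 484) (nat_lit 333) (nat_lit 203)) (XT.lf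 (nat_lit 0) (nat_lit 36070241968) (nat_lit 152) (nat_lit 277268195) (nat_lit 0) (nat_lit 16569823234) (nat_lit 87) (nat_lit 5) (nat_lit 89) (nat_lit 4) (nat_lit 87) (nat_lit 4) (nat_lit 485) (nat_lit 333) (nat_lit 202))))) (XT.nd (nat_lit 312) (nat_lit 304) (nat_lit 0) (XT.nd (nat_lit 156) (nat_lit 152) (nat_lit 0) (XT.nd (nat_lit 78) (nat_lit 76) (nat_lit 0) (XT.lf (nat_lit 0) (nat_lit 950106689) (nat_lit 152) (nat_lit 17583774332) (nat_lit 76) (nat_lit 35419655069) (nat_lit 85) (nat_lit 5) (nat_lit 87) (nat_lit 5) (nat_lit 86) (nat_lit 4) (nat_lit 486) (nat_lit 333) (nat_lit 201)) (XT.lf (nat_lit 0) (nat_lit 19110883360) (nat_lit 152) (nat_lit 35744551003) (nat_lit 0) (nat_lit 155338239) (nat_lit 84) (nat_lit 5) (nat_lit 86) (nat_lit 4) (nat_lit 84) (nat_lit 4) (nat_lit 487) (nat_lit 333) (nat_lit 200))) (XT.nd (nat_lit 78) (nat_lit 76) (nat_lit 0) (XT.lf (nat_lit 0) (nat_lit 1285060371) (nat_lit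 76) (nat_lit 36885320888) (nat_lit 76) (nat_lit 17918728014) (nat_lit 83) (nat_lit 4) (nat_lit 84) (nat_lit 5) (nat_lit 84) (nat_lit 4) (nat_lit 488) (nat_lit 333) (nat_lit 199)) (XT.lf (nat_lit 0) (nat_lit 933375235) (nat_lit 152) (nat_lit 17082567121) (nat_lit 76) (nat_lit 39173382567) (nat_lit 82) (nat_lit 5) (nat_lit 84) (nat_lit 5) (nat_lit 83) (nat_lit 4) (nat_lit 489) (nat_lit 333) (nat_lit 198)))) (XT.nd (nat_lit 156) (nat_lit 152) (nat_lit 0) (XT.nd (nat_lit 78) (nat_lit 76) (nat_lit 0) (XT.lf (nat_lit 0) (nat_lit 20198828784) (nat_lit 152) (nat_lit 36348020670) (nat_lit 0) (nat_lit 1764137118) (nat_lit 81) (nat_lit 5) (nat_lit 83) (nat_lit 4) (nat_lit 81) (nat_lit 4) (nat_lit 490) (nat_lit 333) (nat_lit 197)) (XT.lf (nat_lit 0) (nat_lit 2904203674) (nat_lit 76) (nat_lit 37497903013) (nat_lit 76) (nat_lit 19053395561) (nat_lit 80) (nat_lit 4) (nat_lit 81) (nat_lit 5) (nat_lit 81) (nat_lit 4)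 (nat_lit 491) (nat_lit 333) (nat_lit 196))) (XT.nd (nat_lit 78) (nat_lit 76) (nat_lit 0) (XT.lf (nat_lit 0) (nat_lit 915910979) (nat_lit 152) (nat_lit 16594738053) (nat_lit 76) (nat_lit 43113036630) (nat_lit 79) (nat_lit 5) (nat_lit 81) (nat_lit 5) (nat_lit 80) (nat_lit 4) (nat_lit 492) (nat_lit 333) (nat_lit 195)) (XT.lf (nat_lit 0) (nat_lit 21353462803) (nat_lit 152) (nat_lit 37032289877) (nat_lit 0) (nat_lit 3427938860) (nat_lit 78) (nat_lit 5) (nat_lit 80) (nat_lit 4) (nat_lit 78) (nat_lit 4) (nat_lit 493) (nat_lit 333) (nat_lit 194)))))) (XT.nd (nat_lit 42510) (nat_lit 0) (nat_lit 23636) (XT.nd (nat_lit 42198) (nat_lit 0) (nat_lit 28880) (XT.nd (nat_lit 42042) (nat_lit 0) (nat_lit 31084) (XT.lf (nat_lit 0) (nat_lit 4578833455) (nat_lit 76) (nat_lit 38191905672) (nat_lit 76) (nat_lit 20257660530) (nat_lit 77) (nat_lit 4) (nat_lit 78) (nat_lit 5) (nat_lit 78) (nat_lit 4) (nat_lit 494) (nat_lit 333)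 (nat_lit 193)) (XT.nd (nat_lit 78) (nat_lit 532) (nat_lit 0) (XT.lf (nat_lit 0) (nat_lit 1299220761) (nat_lit 532) (nat_lit 698466711) (nat_lit 0) (nat_lit 1299220761) (nat_lit 493) (nat_lit 5) (nat_lit 500) (nat_lit 4) (nat_lit 493) (nat_lit 4) (nat_lit 352) (nat_lit 334) (nat_lit 334)) (XT.lf (nat_lit 0) (nat_lit 2798982047) (nat_lit 532) (nat_lit 3109261840) (nat_lit 532) (nat_lit 712367568) (nat_lit 486) (nat_lit 4) (nat_lit 493) (nat_lit 5) (nat_lit 493) (nat_lit 4) (nat_lit 353) (nat_lit 334) (nat_lit 333)))) (XT.nd (nat_lit 156) (nat_lit 1520) (nat_lit 0) (XT.nd (nat_lit 78) (nat_lit 0) (nat_lit 0) (XT.lf (nat_lit 0) (nat_lit 398954557) (nat_lit 608) (nat_lit 2124656598) (nat_lit 684) (nat_lit 4126632454) (nat_lit 477) (nat_lit 5) (nat_lit 485) (nat_lit 5) (nat_lit 486) (nat_lit 4) (nat_lit 354) (nat_lit 334) (nat_lit 332)) (XT.lf (nat_lit 0) (nat_lit 4733475008) (nat_lit 608) (nat_lit 1038324909)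 (nat_lit 684) (nat_lit 910869759) (nat_lit 477) (nat_lit 5) (nat_lit 485) (nat_lit 5) (nat_lit 486) (nat_lit 4) (nat_lit 355) (nat_lit 334) (nat_lit 331))) (XT.nd (nat_lit 78) (nat_lit 760) (nat_lit 0) (XT.lf (nat_lit 0) (nat_lit 2272308665) (nat_lit 760) (nat_lit 4296705280) (nat_lit 76) (nat_lit 148828015) (nat_lit 467) (nat_lit 5) (nat_lit 477) (nat_lit 5) (nat_lit 468) (nat_lit 4) (nat_lit 356) (nat_lit 334) (nat_lit 330)) (XT.lf (nat_lit 0) (nat_lit 105577180) (nat_lit 760) (nat_lit 5353856861) (nat_lit 836) (nat_lit 1296562039) (nat_lit 457) (nat_lit 5) (nat_lit 467) (nat_lit 5) (nat_lit 468) (nat_lit 4) (nat_lit 357) (nat_lit 334) (nat_lit 329))))) (XT.nd (nat_lit 312) (nat_lit 3344) (nat_lit 0) (XT.nd (nat_lit 156) (nat_lit 988) (nat_lit 0) (XT.nd (nat_lit 78) (nat_lit 836) (nat_lit 0) (XT.lf (nat_lit 0) (nat_lit 1849501946) (nat_lit 836) (nat_lit 2172386170) (nat_lit 76) (nat_lit 2774626846)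 (nat_lit 456) (nat_lit 5) (nat_lit 467) (nat_lit 5) (nat_lit 457) (nat_lit 5) (nat_lit 358) (nat_lit 334) (nat_lit 328)) (XT.lf (nat_lit 0) (nat_lit 2389055606) (nat_lit 836) (nat_lit 2597599944) (nat_lit 912) (nat_lit 1853525722) (nat_lit 445) (nat_lit 5) (nat_lit 456) (nat_lit 5) (nat_lit 457) (nat_lit 5) (nat_lit 359) (nat_lit 334) (nat_lit 327))) (XT.nd (nat_lit 78) (nat_lit 0) (nat_lit 0) (XT.lf (nat_lit 0) (nat_lit 151444966) (nat_lit 912) (nat_lit 1079867121) (nat_lit 988) (nat_lit 5655724555) (nat_lit 432) (nat_lit 5) (nat_lit 444) (nat_lit 5) (nat_lit 445) (nat_lit 5) (nat_lit 360) (nat_lit 334) (nat_lit 326)) (XT.lf (nat_lit 0) (nat_lit 4324606602) (nat_lit 988) (nat_lit 2062094036) (nat_lit 76) (nat_lit 549451514) (nat_lit 432) (nat_lit 5) (nat_lit 445) (nat_lit 5) (nat_lit 433) (nat_lit 5) (nat_lit 361) (nat_lit 334) (nat_lit 325)))) (XT.nd (nat_lit 156) (nat_lit 1216) (nat_lit 0) (XT.nd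 (nat_lit 78) (nat_lit 1064) (nat_lit 0) (XT.lf (nat_lit 0) (nat_lit 455840207) (nat_lit 1064) (nat_lit 4284638179) (nat_lit 76) (nat_lit 2247848472) (nat_lit 418) (nat_lit 5) (nat_lit 432) (nat_lit 5) (nat_lit 419) (nat_lit 5) (nat_lit 362) (nat_lit 334) (nat_lit 324)) (XT.lf (nat_lit 0) (nat_lit 510688783) (nat_lit 1064) (nat_lit 2984969066) (nat_lit 1140) (nat_lit 3547646257) (nat_lit 404) (nat_lit 5) (nat_lit 418) (nat_lit 5) (nat_lit 419) (nat_lit 5) (nat_lit 363) (nat_lit 334) (nat_lit 323))) (XT.nd (nat_lit 78) (nat_lit 1216) (nat_lit 0) (XT.lf (nat_lit 0) (nat_lit 5452067142) (nat_lit 1064) (nat_lit 1126717427) (nat_lit 1140) (nat_lit 522582666) (nat_lit 404) (nat_lit 5) (nat_lit 418) (nat_lit 5) (nat_lit 419) (nat_lit 5) (nat_lit 364) (nat_lit 334) (nat_lit 322)) (XT.lf (nat_lit 0) (nat_lit 2493496544) (nat_lit 1216) (nat_lit 3834562738) (nat_lit 76) (nat_lit 833839131) (nat_lit 388) (nat_lit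 5) (nat_lit 404) (nat_lit 5) (nat_lit 389) (nat_lit 5) (nat_lit 365) (nat_lit 334) (nat_lit 321))))))) (XT.nd (nat_lit 1170) (nat_lit 4788) (nat_lit 0) (XT.nd (nat_lit 546) (nat_lit 3344) (nat_lit 0) (XT.nd (nat_lit 234) (nat_lit 1900) (nat_lit 0) (XT.nd (nat_lit 78) (nat_lit 912) (nat_lit 0) (XT.lf (nat_lit 0) (nat_lit 1183175133) (nat_lit 1216) (nat_lit 4358183318) (nat_lit 1292) (nat_lit 1684177743) (nat_lit 372) (nat_lit 5) (nat_lit 388) (nat_lit 5) (nat_lit 389) (nat_lit 5) (nat_lit 366) (nat_lit 334) (nat_lit 320)) (XT.nd (nat_lit 78) (nat_lit 836) (nat_lit 0) (XT.lf (nat_lit 0) (nat_lit 1314891976) (nat_lit 1292) (nat_lit 961238694) (nat_lit 76) (nat_lit 5015978681) (nat_lit 371) (nat_lit 5) (nat_lit 388) (nat_lit 5) (nat_lit 372) (nat_lit 5) (nat_lit 367) (nat_lit 334) (nat_lit 319)) (XT.lf (nat_lit 0) (nat_lit 4253570681) (nat_lit 836) (nat_lit 73254609) (nat_lit 912) (nat_lit 3034651908) (nat_lit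 360) (nat_lit 5) (nat_lit 371) (nat_lit 5) (nat_lit 372) (nat_lit 5) (nat_lit 368) (nat_lit 334) (nat_lit 318)))) (XT.nd (nat_lit 156) (nat_lit 1216) (nat_lit 0) (XT.nd (nat_lit 78) (nat_lit 76) (nat_lit 0) (XT.lf (nat_lit 0) (nat_lit 2145866365) (nat_lit 608) (nat_lit 5252265134) (nat_lit 684) (nat_lit 35724136) (nat_lit 352) (nat_lit 5) (nat_lit 360) (nat_lit 5) (nat_lit 361) (nat_lit 5) (nat_lit 369) (nat_lit 334) (nat_lit 317)) (XT.lf (nat_lit 0) (nat_lit 2944268073) (nat_lit 684) (nat_lit 4362843) (nat_lit 76) (nat_lit 4560373790) (nat_lit 351) (nat_lit 5) (nat_lit 360) (nat_lit 5) (nat_lit 352) (nat_lit 5) (nat_lit 370) (nat_lit 334) (nat_lit 316))) (XT.nd (nat_lit 78) (nat_lit 608) (nat_lit 0) (XT.lf (nat_lit 0) (nat_lit 5459016140) (nat_lit 608) (nat_lit 527037403) (nat_lit 684) (nat_lit 1601150750) (nat_lit 343) (nat_lit 5) (nat_lit 351) (nat_lit 5) (nat_lit 352) (nat_lit 5) (nat_lit 371) (nat_lit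 334) (nat_lit 315)) (XT.lf (nat_lit 0) (nat_lit 1396277306) (nat_lit 608) (nat_lit 4302934939) (nat_lit 76) (nat_lit 1968921421) (nat_lit 335) (nat_lit 5) (nat_lit 343) (nat_lit 5) (nat_lit 336) (nat_lit 5) (nat_lit 372) (nat_lit 334) (nat_lit 314))))) (XT.nd (nat_lit 312) (nat_lit 1596) (nat_lit 0) (XT.nd (nat_lit 156) (nat_lit 1140) (nat_lit 0) (XT.nd (nat_lit 78) (nat_lit 0) (nat_lit 0) (XT.lf (nat_lit 0) (nat_lit 1231859722) (nat_lit 608) (nat_lit 3181119465) (nat_lit 684) (nat_lit 3339190167) (nat_lit 327) (nat_lit 5) (nat_lit 335) (nat_lit 5) (nat_lit 336) (nat_lit 5) (nat_lit 373) (nat_lit 334) (nat_lit 313)) (XT.lf (nat_lit 0) (nat_lit 6934696581) (nat_lit 608) (nat_lit 553127140) (nat_lit 684) (nat_lit 351873146) (nat_lit 327) (nat_lit 5) (nat_lit 335) (nat_lit 5) (nat_lit 336) (nat_lit 5) (nat_lit 374) (nat_lit 334) (nat_lit 312))) (XT.nd (nat_lit 78) (nat_lit 532) (nat_lit 0) (XT.lf (nat_lit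 0) (nat_lit 2665617075) (nat_lit 608) (nat_lit 3088934773) (nat_lit 76) (nat_lit 2174700622) (nat_lit 319) (nat_lit 5) (nat_lit 327) (nat_lit 5) (nat_lit 320) (nat_lit 5) (nat_lit 375) (nat_lit 334) (nat_lit 311)) (XT.lf (nat_lit 0) (nat_lit 2712790710) (nat_lit 532) (nat_lit 3021466397) (nat_lit 608) (nat_lit 2288102195) (nat_lit 312) (nat_lit 5) (nat_lit 319) (nat_lit 5) (nat_lit 320) (nat_lit 5) (nat_lit 376) (nat_lit 334) (nat_lit 310)))) (XT.nd (nat_lit 156) (nat_lit 1064) (nat_lit 0) (XT.nd (nat_lit 78) (nat_lit 0) (nat_lit 0) (XT.lf (nat_lit 0) (nat_lit 550515730) (nat_lit 456) (nat_lit 175328137) (nat_lit 532) (nat_lit 7393262399) (nat_lit 305) (nat_lit 5) (nat_lit 311) (nat_lit 5) (nat_lit 312) (nat_lit 5) (nat_lit 377) (nat_lit 334) (nat_lit 309)) (XT.lf (nat_lit 0) (nat_lit 3793510477) (nat_lit 532) (nat_lit 1659738917) (nat_lit 76) (nat_lit 2764547888) (nat_lit 305) (nat_lit 5) (nat_lit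 312) (nat_lit 5) (nat_lit 306) (nat_lit 5) (nat_lit 378) (nat_lit 334) (nat_lit 308))) (XT.nd (nat_lit 78) (nat_lit 532) (nat_lit 0) (XT.lf (nat_lit 0) (nat_lit 4425409915) (nat_lit 532) (nat_lit 2502800452) (nat_lit 608) (nat_lit 1391988563) (nat_lit 298) (nat_lit 5) (nat_lit 305) (nat_lit 5) (nat_lit 306) (nat_lit 5) (nat_lit 379) (nat_lit 334) (nat_lit 307)) (XT.lf (nat_lit 0) (nat_lit 1672769788) (nat_lit 532) (nat_lit 6188807371) (nat_lit 76) (nat_lit 564337965) (nat_lit 291) (nat_lit 5) (nat_lit 298) (nat_lit 5) (nat_lit 292) (nat_lit 5) (nat_lit 380) (nat_lit 334) (nat_lit 306)))))) (XT.nd (nat_lit 624) (nat_lit 2128) (nat_lit 0) (XT.nd (nat_lit 312) (nat_lit 1292) (nat_lit 0) (XT.nd (nat_lit 156) (nat_lit 912) (nat_lit 0) (XT.nd (nat_lit 78) (nat_lit 456) (nat_lit 0) (XT.lf (nat_lit 0) (nat_lit 4798261559) (nat_lit 532) (nat_lit 26903209) (nat_lit 76) (nat_lit 3709321528) (nat_lit 291) (nat_lit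 5) (nat_lit 298) (nat_lit 5) (nat_lit 292) (nat_lit 5) (nat_lit 381) (nat_lit 334) (nat_lit 305)) (XT.lf (nat_lit 0) (nat_lit 6359360446) (nat_lit 456) (nat_lit 1653529371) (nat_lit 532) (nat_lit 633563632) (nat_lit 285) (nat_lit 5) (nat_lit 291) (nat_lit 5) (nat_lit 292) (nat_lit 5) (nat_lit 382) (nat_lit 334) (nat_lit 304))) (XT.nd (nat_lit 78) (nat_lit 456) (nat_lit 0) (XT.lf (nat_lit 0) (nat_lit 2502990534) (nat_lit 456) (nat_lit 4630528245) (nat_lit 76) (nat_lit 1627797646) (nat_lit 279) (nat_lit 5) (nat_lit 285) (nat_lit 5) (nat_lit 280) (nat_lit 5) (nat_lit 383) (nat_lit 334) (nat_lit 303)) (XT.lf (nat_lit 0) (nat_lit 1836152230) (nat_lit 456) (nat_lit 3877711816) (nat_lit 532) (nat_lit 3165784356) (nat_lit 273) (nat_lit 5) (nat_lit 279) (nat_lit 5) (nat_lit 280) (nat_lit 5) (nat_lit 384) (nat_lit 334) (nat_lit 302)))) (XT.nd (nat_lit 156) (nat_lit 836) (nat_lit 0) (XT.nd (nat_lit 78) (nat_lit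 380) (nat_lit 0) (XT.lf (nat_lit 0) (nat_lit 2415729) (nat_lit 532) (nat_lit 495415121) (nat_lit 76) (nat_lit 8504195950) (nat_lit 272) (nat_lit 5) (nat_lit 279) (nat_lit 5) (nat_lit 273) (nat_lit 5) (nat_lit 385) (nat_lit 334) (nat_lit 301)) (XT.lf (nat_lit 0) (nat_lit 3229448089) (nat_lit 456) (nat_lit 2900604729) (nat_lit 76) (nat_lit 2996260938) (nat_lit 267) (nat_lit 5) (nat_lit 273) (nat_lit 5) (nat_lit 268) (nat_lit 5) (nat_lit 386) (nat_lit 334) (nat_lit 300))) (XT.nd (nat_lit 78) (nat_lit 456) (nat_lit 0) (XT.lf (nat_lit 0) (nat_lit 3890712352) (nat_lit 380) (nat_lit 2648663479) (nat_lit 456) (nat_lit 2715370958) (nat_lit 262) (nat_lit 5) (nat_lit 267) (nat_lit 5) (nat_lit 268) (nat_lit 5) (nat_lit 387) (nat_lit 334) (nat_lit 299)) (XT.lf (nat_lit 0) (nat_lit 542937011) (nat_lit 456) (nat_lit 7899091822) (nat_lit 76) (nat_lit 945072237) (nat_lit 256) (nat_lit 5) (nat_lit 262) (nat_lit 5) (nat_lit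 257) (nat_lit 5) (nat_lit 388) (nat_lit 334) (nat_lit 298))))) (XT.nd (nat_lit 312) (nat_lit 988) (nat_lit 0) (XT.nd (nat_lit 156) (nat_lit 760) (nat_lit 0) (XT.nd (nat_lit 78) (nat_lit 380) (nat_lit 0) (XT.lf (nat_lit 0) (nat_lit 3865161579) (nat_lit 456) (nat_lit 1005662419) (nat_lit 76) (nat_lit 4651173125) (nat_lit 256) (nat_lit 5) (nat_lit 262) (nat_lit 5) (nat_lit 257) (nat_lit 5) (nat_lit 389) (nat_lit 334) (nat_lit 297)) (XT.lf (nat_lit 0) (nat_lit 6130917241) (nat_lit 380) (nat_lit 1156639389) (nat_lit 456) (nat_lit 2373368316) (nat_lit 251) (nat_lit 5) (nat_lit 256) (nat_lit 5) (nat_lit 257) (nat_lit 5) (nat_lit 390) (nat_lit 334) (nat_lit 296))) (XT.nd (nat_lit 78) (nat_lit 380) (nat_lit 0) (XT.lf (nat_lit 0) (nat_lit 1002387984) (nat_lit 380) (nat_lit 6153245191) (nat_lit 76) (nat_lit 2647692574) (nat_lit 246) (nat_lit 5) (nat_lit 251) (nat_lit 5) (nat_lit 247) (nat_lit 5) (nat_lit 391)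 (nat_lit 334) (nat_lit 295)) (XT.lf (nat_lit 0) (nat_lit 1070307825) (nat_lit 380) (nat_lit 3361705139) (nat_lit 456) (nat_lit 5517271701) (nat_lit 241) (nat_lit 5) (nat_lit 246) (nat_lit 5) (nat_lit 247) (nat_lit 5) (nat_lit 392) (nat_lit 334) (nat_lit 294)))) (XT.nd (nat_lit 156) (nat_lit 608) (nat_lit 0) (XT.nd (nat_lit 78) (nat_lit 380) (nat_lit 0) (XT.lf (nat_lit 0) (nat_lit 7975697860) (nat_lit 456) (nat_lit 1551810089) (nat_lit 76) (nat_lit 571779265) (nat_lit 241) (nat_lit 5) (nat_lit 247) (nat_lit 5) (nat_lit 242) (nat_lit 5) (nat_lit 393) (nat_lit 334) (nat_lit 293)) (XT.lf (nat_lit 0) (nat_lit 1381239312) (nat_lit 380) (nat_lit 4269776508) (nat_lit 76) (nat_lit 4601295191) (nat_lit 236) (nat_lit 5) (nat_lit 241) (nat_lit 5) (nat_lit 237) (nat_lit 5) (nat_lit 394) (nat_lit 334) (nat_lit 292))) (XT.nd (nat_lit 78) (nat_lit 304) (nat_lit 0) (XT.lf (nat_lit 0) (nat_lit 3326289207) (nat_lit 304)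 (nat_lit 1615152258) (nat_lit 380) (nat_lit 5468065968) (nat_lit 232) (nat_lit 5) (nat_lit 236) (nat_lit 5) (nat_lit 237) (nat_lit 5) (nat_lit 395) (nat_lit 334) (nat_lit 291)) (XT.lf (nat_lit 0) (nat_lit 570665864) (nat_lit 304) (nat_lit 8056900993) (nat_lit 380) (nat_lit 1943279378) (nat_lit 228) (nat_lit 5) (nat_lit 232) (nat_lit 5) (nat_lit 233) (nat_lit 5) (nat_lit 396) (nat_lit 334) (nat_lit 290))))))))
noncomputable def xc85 : XT := (XT.nd (nat_lit 2340) (nat_lit 3420) (nat_lit 0) (XT.nd (nat_lit 1170) (nat_lit 2052) (nat_lit 0) (XT.nd (nat_lit 546) (nat_lit 1520) (nat_lit 0) (XT.nd (nat_lit 234) (nat_lit 988) (nat_lit 0) (XT.nd (nat_lit 78) (nat_lit 532) (nat_lit 0) (XT.lf (nat_lit 0) (nat_lit 1688468227) (nat_lit 380) (nat_lit 2251939458) (nat_lit 76) (nat_lit 6795106695) (nat_lit 227) (nat_lit 5) (nat_lit 232) (nat_lit 5) (nat_lit 228) (nat_lit 5) (nat_lit 397) (nat_lit 334) (nat_lit 289))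 (XT.nd (nat_lit 78) (nat_lit 228) (nat_lit 0) (XT.lf (nat_lit 0) (nat_lit 5396123630) (nat_lit 380) (nat_lit 5167356716) (nat_lit 76) (nat_lit 340884612) (nat_lit 223) (nat_lit 5) (nat_lit 228) (nat_lit 5) (nat_lit 224) (nat_lit 5) (nat_lit 398) (nat_lit 334) (nat_lit 288)) (XT.lf (nat_lit 0) (nat_lit 2869382865) (nat_lit 228) (nat_lit 6383161456) (nat_lit 304) (nat_lit 1824610662) (nat_lit 220) (nat_lit 5) (nat_lit 223) (nat_lit 5) (nat_lit 224) (nat_lit 5) (nat_lit 399) (nat_lit 334) (nat_lit 287)))) (XT.nd (nat_lit 156) (nat_lit 608) (nat_lit 0) (XT.nd (nat_lit 78) (nat_lit 304) (nat_lit 0) (XT.lf (nat_lit 0) (nat_lit 1931998455) (nat_lit 304) (nat_lit 101651221) (nat_lit 76) (nat_lit 9220884000) (nat_lit 219) (nat_lit 5) (nat_lit 223) (nat_lit 5) (nat_lit 220) (nat_lit 5) (nat_lit 400) (nat_lit 334) (nat_lit 286)) (XT.lf (nat_lit 0) (nat_lit 5818456474) (nat_lit 380) (nat_lit 3147623792) (nat_lit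 76) (nat_lit 2468996795) (nat_lit 215) (nat_lit 5) (nat_lit 220) (nat_lit 5) (nat_lit 216) (nat_lit 5) (nat_lit 401) (nat_lit 334) (nat_lit 285))) (XT.nd (nat_lit 78) (nat_lit 380) (nat_lit 0) (XT.lf (nat_lit 0) (nat_lit 5313002510) (nat_lit 228) (nat_lit 4530892809) (nat_lit 304) (nat_lit 1776469816) (nat_lit 212) (nat_lit 5) (nat_lit 215) (nat_lit 5) (nat_lit 216) (nat_lit 5) (nat_lit 402) (nat_lit 334) (nat_lit 284)) (XT.lf (nat_lit 0) (nat_lit 2140996328) (nat_lit 380) (nat_lit 9587467160) (nat_lit 76) (nat_lit 81981158) (nat_lit 207) (nat_lit 5) (nat_lit 212) (nat_lit 5) (nat_lit 208) (nat_lit 5) (nat_lit 403) (nat_lit 334) (nat_lit 283))))) (XT.nd (nat_lit 312) (nat_lit 760) (nat_lit 0) (XT.nd (nat_lit 156) (nat_lit 532) (nat_lit 0) (XT.nd (nat_lit 78) (nat_lit 228) (nat_lit 0) (XT.lf (nat_lit 0) (nat_lit 6200206124) (nat_lit 380) (nat_lit 1009308214) (nat_lit 76) (nat_lit 4794386791) (nat_lit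 207) (nat_lit 5) (nat_lit 212) (nat_lit 5) (nat_lit 208) (nat_lit 5) (nat_lit 404) (nat_lit 334) (nat_lit 282)) (XT.lf (nat_lit 0) (nat_lit 7902305481) (nat_lit 228) (nat_lit 2507025242) (nat_lit 304) (nat_lit 1792986428) (nat_lit 204) (nat_lit 5) (nat_lit 207) (nat_lit 5) (nat_lit 208) (nat_lit 5) (nat_lit 405) (nat_lit 334) (nat_lit 281))) (XT.nd (nat_lit 78) (nat_lit 228) (nat_lit 0) (XT.lf (nat_lit 0) (nat_lit 2323054489) (nat_lit 304) (nat_lit 7742545667) (nat_lit 76) (nat_lit 2339492214) (nat_lit 200) (nat_lit 5) (nat_lit 204) (nat_lit 5) (nat_lit 201) (nat_lit 5) (nat_lit 406) (nat_lit 334) (nat_lit 280)) (XT.lf (nat_lit 0) (nat_lit 1272685786) (nat_lit 228) (nat_lit 5287469585) (nat_lit 304) (nat_lit 6052254427) (nat_lit 197) (nat_lit 5) (nat_lit 200) (nat_lit 5) (nat_lit 201) (nat_lit 5) (nat_lit 407) (nat_lit 334) (nat_lit 279)))) (XT.nd (nat_lit 156) (nat_lit 456) (nat_lit 0) (XT.nd (nat_lit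 78) (nat_lit 304) (nat_lit 0) (XT.lf (nat_lit 0) (nat_lit 10639235341) (nat_lit 228) (nat_lit 316656031) (nat_lit 304) (nat_lit 1869109712) (nat_lit 197) (nat_lit 5) (nat_lit 200) (nat_lit 5) (nat_lit 201) (nat_lit 5) (nat_lit 408) (nat_lit 334) (nat_lit 278)) (XT.lf (nat_lit 0) (nat_lit 2463003617) (nat_lit 304) (nat_lit 5804318771) (nat_lit 76) (nat_lit 4773811866) (nat_lit 193) (nat_lit 5) (nat_lit 197) (nat_lit 5) (nat_lit 194) (nat_lit 5) (nat_lit 409) (nat_lit 334) (nat_lit 277))) (XT.nd (nat_lit 78) (nat_lit 228) (nat_lit 0) (XT.lf (nat_lit 0) (nat_lit 3697271510) (nat_lit 228) (nat_lit 3205766143) (nat_lit 304) (nat_lit 6359692845) (nat_lit 190) (nat_lit 5) (nat_lit 193) (nat_lit 5) (nat_lit 194) (nat_lit 5) (nat_lit 410) (nat_lit 334) (nat_lit 276)) (XT.lf (nat_lit 0) (nat_lit 17030204) (nat_lit 228) (nat_lit 11492748350) (nat_lit 304) (nat_lit 1980190904) (nat_lit 187) (nat_lit 5) (nat_lit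 190) (nat_lit 5) (nat_lit 191) (nat_lit 5) (nat_lit 411) (nat_lit 334) (nat_lit 275)))))) (XT.nd (nat_lit 546) (nat_lit 912) (nat_lit 0) (XT.nd (nat_lit 234) (nat_lit 684) (nat_lit 0) (XT.nd (nat_lit 78) (nat_lit 380) (nat_lit 0) (XT.lf (nat_lit 0) (nat_lit 2565592937) (nat_lit 304) (nat_lit 3772313566) (nat_lit 76) (nat_lit 7382860888) (nat_lit 186) (nat_lit 5) (nat_lit 190) (nat_lit 5) (nat_lit 187) (nat_lit 5) (nat_lit 412) (nat_lit 334) (nat_lit 274)) (XT.nd (nat_lit 78) (nat_lit 228) (nat_lit 0) (XT.lf (nat_lit 0) (nat_lit 6246629834) (nat_lit 152) (nat_lit 977668798) (nat_lit 228) (nat_lit 6733112010) (nat_lit 184) (nat_lit 5) (nat_lit 186) (nat_lit 5) (nat_lit 187) (nat_lit 5) (nat_lit 413) (nat_lit 334) (nat_lit 273)) (XT.lf (nat_lit 0) (nat_lit 2370414987) (nat_lit 228) (nat_lit 9713841905) (nat_lit 304) (nat_lit 2115051556) (nat_lit 181) (nat_lit 5) (nat_lit 184) (nat_lit 5) (nat_lit 185)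 (nat_lit 5) (nat_lit 414) (nat_lit 334) (nat_lit 272)))) (XT.nd (nat_lit 156) (nat_lit 456) (nat_lit 0) (XT.nd (nat_lit 78) (nat_lit 152) (nat_lit 0) (XT.lf (nat_lit 0) (nat_lit 2635005098) (nat_lit 304) (nat_lit 1645233830) (nat_lit 76) (nat_lit 10166112477) (nat_lit 180) (nat_lit 5) (nat_lit 184) (nat_lit 5) (nat_lit 181) (nat_lit 5) (nat_lit 415) (nat_lit 334) (nat_lit 271)) (XT.lf (nat_lit 0) (nat_lit 7542194310) (nat_lit 228) (nat_lit 5788322068) (nat_lit 76) (nat_lit 1367946802) (nat_lit 178) (nat_lit 5) (nat_lit 181) (nat_lit 5) (nat_lit 179) (nat_lit 5) (nat_lit 416) (nat_lit 334) (nat_lit 270))) (XT.nd (nat_lit 78) (nat_lit 228) (nat_lit 0) (XT.lf (nat_lit 0) (nat_lit 4836692075) (nat_lit 228) (nat_lit 7823735550) (nat_lit 304) (nat_lit 2295795829) (nat_lit 175) (nat_lit 5) (nat_lit 178) (nat_lit 5) (nat_lit 179) (nat_lit 5) (nat_lit 417) (nat_lit 334) (nat_lit 269)) (XT.lf (nat_lit 0) (nat_lit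 590518440) (nat_lit 152) (nat_lit 2090076248) (nat_lit 228) (nat_lit 12539650359) (nat_lit 172) (nat_lit 5) (nat_lit 174) (nat_lit 5) (nat_lit 175) (nat_lit 5) (nat_lit 418) (nat_lit 334) (nat_lit 268))))) (XT.nd (nat_lit 312) (nat_lit 532) (nat_lit 0) (XT.nd (nat_lit 156) (nat_lit 228) (nat_lit 0) (XT.nd (nat_lit 78) (nat_lit 152) (nat_lit 0) (XT.lf (nat_lit 0) (nat_lit 7858510895) (nat_lit 228) (nat_lit 3793962608) (nat_lit 76) (nat_lit 3836080549) (nat_lit 172) (nat_lit 5) (nat_lit 175) (nat_lit 5) (nat_lit 173) (nat_lit 5) (nat_lit 419) (nat_lit 334) (nat_lit 267)) (XT.lf (nat_lit 0) (nat_lit 7419375787) (nat_lit 152) (nat_lit 5824111138) (nat_lit 228) (nat_lit 2519873733) (nat_lit 170) (nat_lit 5) (nat_lit 172) (nat_lit 5) (nat_lit 173) (nat_lit 5) (nat_lit 420) (nat_lit 334) (nat_lit 266))) (XT.nd (nat_lit 78) (nat_lit 0) (nat_lit 0) (XT.lf (nat_lit 0) (nat_lit 2719368811) (nat_lit 228) (nat_lit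 13086186546) (nat_lit 76) (nat_lit 239185743) (nat_lit 167) (nat_lit 5) (nat_lit 170) (nat_lit 5) (nat_lit 168) (nat_lit 5) (nat_lit 421) (nat_lit 334) (nat_lit 265)) (XT.lf (nat_lit 0) (nat_lit 8167893060) (nat_lit 228) (nat_lit 1716138805) (nat_lit 76) (nat_lit 6446700071) (nat_lit 167) (nat_lit 5) (nat_lit 170) (nat_lit 5) (nat_lit 168) (nat_lit 5) (nat_lit 422) (nat_lit 334) (nat_lit 264)))) (XT.nd (nat_lit 156) (nat_lit 152) (nat_lit 0) (XT.nd (nat_lit 78) (nat_lit 228) (nat_lit 0) (XT.lf (nat_lit 0) (nat_lit 10122765958) (nat_lit 152) (nat_lit 3715573300) (nat_lit 228) (nat_lit 2785209253) (nat_lit 165) (nat_lit 5) (nat_lit 167) (nat_lit 5) (nat_lit 168) (nat_lit 5) (nat_lit 423) (nat_lit 334) (nat_lit 263)) (XT.lf (nat_lit 0) (nat_lit 2757036897) (nat_lit 228) (nat_lit 11512459541) (nat_lit 76) (nat_lit 2653148326) (nat_lit 162) (nat_lit 5) (nat_lit 165) (nat_lit 5) (nat_lit 163) (nat_lit 5)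 (nat_lit 424) (nat_lit 334) (nat_lit 262))) (XT.nd (nat_lit 78) (nat_lit 0) (nat_lit 0) (XT.lf (nat_lit 0) (nat_lit 456868134) (nat_lit 152) (nat_lit 8021591004) (nat_lit 228) (nat_lit 8749360818) (nat_lit 160) (nat_lit 5) (nat_lit 162) (nat_lit 5) (nat_lit 163) (nat_lit 5) (nat_lit 425) (nat_lit 334) (nat_lit 261)) (XT.lf (nat_lit 0) (nat_lit 12951926319) (nat_lit 152) (nat_lit 1497722284) (nat_lit 228) (nat_lit 3090158065) (nat_lit 160) (nat_lit 5) (nat_lit 162) (nat_lit 5) (nat_lit 163) (nat_lit 5) (nat_lit 426) (nat_lit 334) (nat_lit 260))))))) (XT.nd (nat_lit 1170) (nat_lit 1672) (nat_lit 0) (XT.nd (nat_lit 546) (nat_lit 836) (nat_lit 0) (XT.nd (nat_lit 234) (nat_lit 532) (nat_lit 0) (XT.nd (nat_lit 78) (nat_lit 152) (nat_lit 0) (XT.lf (nat_lit 0) (nat_lit 2776037328) (nat_lit 228) (nat_lit 9887253280) (nat_lit 76) (nat_lit 5194352730) (nat_lit 157) (nat_lit 5) (nat_lit 160) (nat_lit 5) (nat_lit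 158) (nat_lit 5) (nat_lit 427) (nat_lit 334) (nat_lit 259)) (XT.nd (nat_lit 78) (nat_lit 0) (nat_lit 0) (XT.lf (nat_lit 0) (nat_lit 2755500883) (nat_lit 152) (nat_lit 6051475898) (nat_lit 228) (nat_lit 9375594440) (nat_lit 155) (nat_lit 5) (nat_lit 157) (nat_lit 5) (nat_lit 158) (nat_lit 5) (nat_lit 428) (nat_lit 334) (nat_lit 258)) (XT.lf (nat_lit 0) (nat_lit 15089871078) (nat_lit 228) (nat_lit 2610672258) (nat_lit 76) (nat_lit 814572806) (nat_lit 155) (nat_lit 5) (nat_lit 158) (nat_lit 5) (nat_lit 156) (nat_lit 4) (nat_lit 429) (nat_lit 334) (nat_lit 257)))) (XT.nd (nat_lit 156) (nat_lit 152) (nat_lit 0) (XT.nd (nat_lit 78) (nat_lit 152) (nat_lit 0) (XT.lf (nat_lit 0) (nat_lit 2778596820) (nat_lit 228) (nat_lit 8208893656) (nat_lit 76) (nat_lit 7865535090) (nat_lit 152) (nat_lit 5) (nat_lit 155) (nat_lit 5) (nat_lit 153) (nat_lit 5) (nat_lit 430) (nat_lit 334) (nat_lit 256)) (XT.lf (nat_lit 0) (nat_lit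 5149700285) (nat_lit 152) (nat_lit 3990183985) (nat_lit 228) (nat_lit 10058965373) (nat_lit 150) (nat_lit 5) (nat_lit 152) (nat_lit 5) (nat_lit 153) (nat_lit 5) (nat_lit 431) (nat_lit 334) (nat_lit 255))) (XT.nd (nat_lit 78) (nat_lit 152) (nat_lit 0) (XT.lf (nat_lit 0) (nat_lit 15770821691) (nat_lit 228) (nat_lit 573533954) (nat_lit 76) (nat_lit 3208328458) (nat_lit 150) (nat_lit 5) (nat_lit 153) (nat_lit 5) (nat_lit 151) (nat_lit 4) (nat_lit 432) (nat_lit 334) (nat_lit 254)) (XT.lf (nat_lit 0) (nat_lit 2766672726) (nat_lit 152) (nat_lit 6475255060) (nat_lit 76) (nat_lit 10670367385) (nat_lit 148) (nat_lit 5) (nat_lit 150) (nat_lit 5) (nat_lit 149) (nat_lit 5) (nat_lit 433) (nat_lit 334) (nat_lit 253))))) (XT.nd (nat_lit 312) (nat_lit 380) (nat_lit 0) (XT.nd (nat_lit 156) (nat_lit 228) (nat_lit 0) (XT.nd (nat_lit 78) (nat_lit 76) (nat_lit 0) (XT.lf (nat_lit 0) (nat_lit 7644158077) (nat_lit 152) (nat_lit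 1836097248) (nat_lit 228) (nat_lit 10799977829) (nat_lit 146) (nat_lit 5) (nat_lit 148) (nat_lit 5) (nat_lit 149) (nat_lit 5) (nat_lit 434) (nat_lit 334) (nat_lit 252)) (XT.lf (nat_lit 0) (nat_lit 1572215969) (nat_lit 76) (nat_lit 14925236822) (nat_lit 152) (nat_lit 4158690262) (nat_lit 145) (nat_lit 5) (nat_lit 146) (nat_lit 5) (nat_lit 147) (nat_lit 4) (nat_lit 435) (nat_lit 334) (nat_lit 251))) (XT.nd (nat_lit 78) (nat_lit 152) (nat_lit 0) (XT.lf (nat_lit 0) (nat_lit 2741982665) (nat_lit 152) (nat_lit 4683777295) (nat_lit 76) (nat_lit 13613422535) (nat_lit 144) (nat_lit 5) (nat_lit 146) (nat_lit 5) (nat_lit 145) (nat_lit 5) (nat_lit 436) (nat_lit 334) (nat_lit 250)) (XT.lf (nat_lit 0) (nat_lit 9834978316) (nat_lit 228) (nat_lit 11190347122) (nat_lit 76) (nat_lit 405085785) (nat_lit 142) (nat_lit 5) (nat_lit 145) (nat_lit 5) (nat_lit 143) (nat_lit 4) (nat_lit 437) (nat_lit 334) (nat_lit 249)))) (XT.nd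 (nat_lit 156) (nat_lit 228) (nat_lit 0) (XT.nd (nat_lit 78) (nat_lit 76) (nat_lit 0) (XT.lf (nat_lit 0) (nat_lit 3813045771) (nat_lit 76) (nat_lit 13452200589) (nat_lit 152) (nat_lit 4564395979) (nat_lit 141) (nat_lit 5) (nat_lit 142) (nat_lit 5) (nat_lit 143) (nat_lit 4) (nat_lit 438) (nat_lit 334) (nat_lit 248)) (XT.lf (nat_lit 0) (nat_lit 2706030792) (nat_lit 152) (nat_lit 2831478415) (nat_lit 76) (nat_lit 16700147792) (nat_lit 140) (nat_lit 5) (nat_lit 142) (nat_lit 5) (nat_lit 141) (nat_lit 5) (nat_lit 439) (nat_lit 334) (nat_lit 247))) (XT.nd (nat_lit 78) (nat_lit 76) (nat_lit 0) (XT.lf (nat_lit 0) (nat_lit 10221465677) (nat_lit 228) (nat_lit 9724774144) (nat_lit 76) (nat_lit 2706757463) (nat_lit 138) (nat_lit 5) (nat_lit 141) (nat_lit 5) (nat_lit 139) (nat_lit 4) (nat_lit 440) (nat_lit 334) (nat_lit 246)) (XT.lf (nat_lit 0) (nat_lit 6142223474) (nat_lit 76) (nat_lit 11930533879) (nat_lit 152)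 (nat_lit 5004728610) (nat_lit 137) (nat_lit 5) (nat_lit 138) (nat_lit 5) (nat_lit 139) (nat_lit 4) (nat_lit 441) (nat_lit 334) (nat_lit 245)))))) (XT.nd (nat_lit 624) (nat_lit 836) (nat_lit 0) (XT.nd (nat_lit 312) (nat_lit 304) (nat_lit 0) (XT.nd (nat_lit 156) (nat_lit 304) (nat_lit 0) (XT.nd (nat_lit 78) (nat_lit 152) (nat_lit 0) (XT.lf (nat_lit 0) (nat_lit 2660131085) (nat_lit 152) (nat_lit 914963809) (nat_lit 76) (nat_lit 19936845773) (nat_lit 136) (nat_lit 5) (nat_lit 138) (nat_lit 5) (nat_lit 137) (nat_lit 5) (nat_lit 442) (nat_lit 334) (nat_lit 244)) (XT.lf (nat_lit 0) (nat_lit 10624793825) (nat_lit 228) (nat_lit 8219599118) (nat_lit 76) (nat_lit 5108436095) (nat_lit 134) (nat_lit 5) (nat_lit 137) (nat_lit 5) (nat_lit 135) (nat_lit 4) (nat_lit 443) (nat_lit 334) (nat_lit 243))) (XT.nd (nat_lit 78) (nat_lit 228) (nat_lit 0) (XT.lf (nat_lit 0) (nat_lit 8564929712) (nat_lit 76) (nat_lit 10359234564)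 (nat_lit 152) (nat_lit 5479906751) (nat_lit 133) (nat_lit 5) (nat_lit 134) (nat_lit 5) (nat_lit 135) (nat_lit 4) (nat_lit 444) (nat_lit 334) (nat_lit 242)) (XT.lf (nat_lit 0) (nat_lit 1090854693) (nat_lit 152) (nat_lit 1525059255) (nat_lit 228) (nat_lit 22250293826) (nat_lit 130) (nat_lit 5) (nat_lit 132) (nat_lit 5) (nat_lit 133) (nat_lit 5) (nat_lit 445) (nat_lit 334) (nat_lit 241)))) (XT.nd (nat_lit 156) (nat_lit 228) (nat_lit 0) (XT.nd (nat_lit 78) (nat_lit 76) (nat_lit 0) (XT.lf (nat_lit 0) (nat_lit 11047620195) (nat_lit 228) (nat_lit 6672400917) (nat_lit 76) (nat_lit 7614465270) (nat_lit 130) (nat_lit 5) (nat_lit 133) (nat_lit 5) (nat_lit 131) (nat_lit 4) (nat_lit 446) (nat_lit 334) (nat_lit 240)) (XT.lf (nat_lit 0) (nat_lit 11086844997) (nat_lit 76) (nat_lit 8736830488) (nat_lit 152) (nat_lit 5990395926) (nat_lit 129) (nat_lit 5) (nat_lit 130) (nat_lit 5) (nat_lit 131) (nat_lit 4) (nat_lit 447)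 (nat_lit 334) (nat_lit 239))) (XT.nd (nat_lit 78) (nat_lit 0) (nat_lit 0) (XT.lf (nat_lit 0) (nat_lit 2579476465) (nat_lit 228) (nat_lit 23122621255) (nat_lit 76) (nat_lit 602978534) (nat_lit 126) (nat_lit 5) (nat_lit 129) (nat_lit 5) (nat_lit 127) (nat_lit 4) (nat_lit 448) (nat_lit 334) (nat_lit 238)) (XT.lf (nat_lit 0) (nat_lit 11492556307) (nat_lit 228) (nat_lit 5080451017) (nat_lit 76) (nat_lit 10229829223) (nat_lit 126) (nat_lit 5) (nat_lit 129) (nat_lit 5) (nat_lit 127) (nat_lit 4) (nat_lit 449) (nat_lit 334) (nat_lit 237))))) (XT.nd (nat_lit 312) (nat_lit 456) (nat_lit 0) (XT.nd (nat_lit 156) (nat_lit 76) (nat_lit 0) (XT.nd (nat_lit 78) (nat_lit 228) (nat_lit 0) (XT.lf (nat_lit 0) (nat_lit 13714154886) (nat_lit 76) (nat_lit 7061402005) (nat_lit 152) (nat_lit 6536896907) (nat_lit 125) (nat_lit 5) (nat_lit 126) (nat_lit 5) (nat_lit 127) (nat_lit 4) (nat_lit 450) (nat_lit 334) (nat_lit 236)) (XT.lf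 (nat_lit 0) (nat_lit 2552312836) (nat_lit 228) (nat_lit 22497113602) (nat_lit 76) (nat_lit 2784170191) (nat_lit 122) (nat_lit 5) (nat_lit 125) (nat_lit 5) (nat_lit 123) (nat_lit 4) (nat_lit 451) (nat_lit 334) (nat_lit 235))) (XT.nd (nat_lit 78) (nat_lit 76) (nat_lit 0) (XT.lf (nat_lit 0) (nat_lit 11962188893) (nat_lit 228) (nat_lit 3440717305) (nat_lit 76) (nat_lit 12960144635) (nat_lit 122) (nat_lit 5) (nat_lit 125) (nat_lit 5) (nat_lit 123) (nat_lit 4) (nat_lit 452) (nat_lit 334) (nat_lit 234)) (XT.lf (nat_lit 0) (nat_lit 16453558406) (nat_lit 76) (nat_lit 5330600014) (nat_lit 152) (nat_lit 7120336330) (nat_lit 121) (nat_lit 5) (nat_lit 122) (nat_lit 5) (nat_lit 123) (nat_lit 4) (nat_lit 453) (nat_lit 334) (nat_lit 233)))) (XT.nd (nat_lit 156) (nat_lit 228) (nat_lit 0) (XT.nd (nat_lit 78) (nat_lit 0) (nat_lit 0) (XT.lf (nat_lit 0) (nat_lit 2520591465) (nat_lit 228) (nat_lit 21884475704) (nat_lit 76)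 (nat_lit 5052524402) (nat_lit 118) (nat_lit 5) (nat_lit 121) (nat_lit 5) (nat_lit 119) (nat_lit 4) (nat_lit 454) (nat_lit 334) (nat_lit 232)) (XT.lf (nat_lit 0) (nat_lit 12459099612) (nat_lit 228) (nat_lit 1749865466) (nat_lit 76) (nat_lit 15811657341) (nat_lit 118) (nat_lit 5) (nat_lit 121) (nat_lit 5) (nat_lit 119) (nat_lit 4) (nat_lit 455) (nat_lit 334) (nat_lit 231))) (XT.nd (nat_lit 78) (nat_lit 152) (nat_lit 0) (XT.lf (nat_lit 0) (nat_lit 19312279625) (nat_lit 76) (nat_lit 3541659886) (nat_lit 152) (nat_lit 7741859387) (nat_lit 117) (nat_lit 5) (nat_lit 118) (nat_lit 5) (nat_lit 119) (nat_lit 4) (nat_lit 456) (nat_lit 334) (nat_lit 230)) (XT.lf (nat_lit 0) (nat_lit 2485041577) (nat_lit 152) (nat_lit 21284929188) (nat_lit 76) (nat_lit 7412807510) (nat_lit 115) (nat_lit 5) (nat_lit 117) (nat_lit 5) (nat_lit 116) (nat_lit 4) (nat_lit 457) (nat_lit 334) (nat_lit 229))))))))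
noncomputable def xc86 : XT := (XT.nd (nat_lit 2340) (nat_lit 532) (nat_lit 0) (XT.nd (nat_lit 1170) (nat_lit 1140) (nat_lit 0) (XT.nd (nat_lit 546) (nat_lit 608) (nat_lit 0) (XT.nd (nat_lit 234) (nat_lit 304) (nat_lit 0) (XT.nd (nat_lit 78) (nat_lit 228) (nat_lit 0) (XT.lf (nat_lit 0) (nat_lit 12985883582) (nat_lit 152) (nat_lit 4258108) (nat_lit 76) (nat_lit 18791243650) (nat_lit 115) (nat_lit 5) (nat_lit 117) (nat_lit 5) (nat_lit 116) (nat_lit 4) (nat_lit 458) (nat_lit 334) (nat_lit 228)) (XT.nd (nat_lit 78) (nat_lit 152) (nat_lit 0) (XT.lf (nat_lit 0) (nat_lit 22298082251) (nat_lit 76) (nat_lit 1691411623) (nat_lit 152) (nat_lit 8402824452) (nat_lit 114) (nat_lit 5) (nat_lit 115) (nat_lit 5) (nat_lit 116) (nat_lit 4) (nat_lit 459) (nat_lit 334) (nat_lit 227)) (XT.lf (nat_lit 0) (nat_lit 2446304641) (nat_lit 152) (nat_lit 20698622710) (nat_lit 76) (nat_lit 9870300672) (nat_lit 112) (nat_lit 5) (nat_lit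 114) (nat_lit 5) (nat_lit 113) (nat_lit 4) (nat_lit 460) (nat_lit 334) (nat_lit 226)))) (XT.nd (nat_lit 156) (nat_lit 228) (nat_lit 0) (XT.nd (nat_lit 78) (nat_lit 0) (nat_lit 0) (XT.lf (nat_lit 0) (nat_lit 1835872741) (nat_lit 76) (nat_lit 11726941710) (nat_lit 152) (nat_lit 20088190810) (nat_lit 111) (nat_lit 5) (nat_lit 112) (nat_lit 5) (nat_lit 113) (nat_lit 4) (nat_lit 461) (nat_lit 334) (nat_lit 225)) (XT.lf (nat_lit 0) (nat_lit 25197724186) (nat_lit 152) (nat_lit 8883236479) (nat_lit 0) (nat_lit 219348015) (nat_lit 111) (nat_lit 5) (nat_lit 113) (nat_lit 4) (nat_lit 111) (nat_lit 4) (nat_lit 462) (nat_lit 334) (nat_lit 224))) (XT.nd (nat_lit 78) (nat_lit 76) (nat_lit 0) (XT.lf (nat_lit 0) (nat_lit 2404944344) (nat_lit 152) (nat_lit 20125641498) (nat_lit 76) (nat_lit 12430801397) (nat_lit 109) (nat_lit 5) (nat_lit 111) (nat_lit 5) (nat_lit 110) (nat_lit 4) (nat_lit 463) (nat_lit 334) (nat_lit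 223)) (XT.lf (nat_lit 0) (nat_lit 3740294858) (nat_lit 76) (nat_lit 10435282607) (nat_lit 152) (nat_lit 21460992012) (nat_lit 108) (nat_lit 5) (nat_lit 109) (nat_lit 5) (nat_lit 110) (nat_lit 4) (nat_lit 464) (nat_lit 334) (nat_lit 222))))) (XT.nd (nat_lit 312) (nat_lit 380) (nat_lit 0) (XT.nd (nat_lit 156) (nat_lit 76) (nat_lit 0) (XT.nd (nat_lit 78) (nat_lit 152) (nat_lit 0) (XT.lf (nat_lit 0) (nat_lit 26498335180) (nat_lit 152) (nat_lit 7663102253) (nat_lit 0) (nat_lit 2164599580) (nat_lit 108) (nat_lit 5) (nat_lit 110) (nat_lit 4) (nat_lit 108) (nat_lit 4) (nat_lit 465) (nat_lit 334) (nat_lit 221)) (XT.lf (nat_lit 0) (nat_lit 2361455449) (nat_lit 152) (nat_lit 19566015793) (nat_lit 76) (nat_lit 15100628633) (nat_lit 106) (nat_lit 5) (nat_lit 108) (nat_lit 5) (nat_lit 107) (nat_lit 4) (nat_lit 466) (nat_lit 334) (nat_lit 220))) (XT.nd (nat_lit 78) (nat_lit 0) (nat_lit 0) (XT.lf (nat_lit 0) (nat_lit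 5713587242) (nat_lit 76) (nat_lit 9113326087) (nat_lit 152) (nat_lit 22918147586) (nat_lit 105) (nat_lit 5) (nat_lit 106) (nat_lit 5) (nat_lit 107) (nat_lit 4) (nat_lit 467) (nat_lit 334) (nat_lit 219)) (XT.lf (nat_lit 0) (nat_lit 27880250575) (nat_lit 152) (nat_lit 6415240390) (nat_lit 0) (nat_lit 4181622351) (nat_lit 105) (nat_lit 5) (nat_lit 107) (nat_lit 4) (nat_lit 105) (nat_lit 4) (nat_lit 468) (nat_lit 334) (nat_lit 218)))) (XT.nd (nat_lit 156) (nat_lit 152) (nat_lit 0) (XT.nd (nat_lit 78) (nat_lit 76) (nat_lit 0) (XT.lf (nat_lit 0) (nat_lit 2316271657) (nat_lit 152) (nat_lit 19019728302) (nat_lit 76) (nat_lit 17886631240) (nat_lit 103) (nat_lit 5) (nat_lit 105) (nat_lit 5) (nat_lit 104) (nat_lit 4) (nat_lit 469) (nat_lit 334) (nat_lit 217)) (XT.lf (nat_lit 0) (nat_lit 7760747137) (nat_lit 76) (nat_lit 7758939912) (nat_lit 152) (nat_lit 24464203782) (nat_lit 102) (nat_lit 5) (nat_lit 103) (nat_lit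 5) (nat_lit 104) (nat_lit 4) (nat_lit 470) (nat_lit 334) (nat_lit 216))) (XT.nd (nat_lit 78) (nat_lit 152) (nat_lit 0) (XT.lf (nat_lit 0) (nat_lit 29348886656) (nat_lit 152) (nat_lit 5137131551) (nat_lit 0) (nat_lit 6275079595) (nat_lit 102) (nat_lit 5) (nat_lit 104) (nat_lit 4) (nat_lit 102) (nat_lit 4) (nat_lit 471) (nat_lit 334) (nat_lit 215)) (XT.lf (nat_lit 0) (nat_lit 2269772586) (nat_lit 152) (nat_lit 18486720785) (nat_lit 76) (nat_lit 20796199711) (nat_lit 100) (nat_lit 5) (nat_lit 102) (nat_lit 5) (nat_lit 101) (nat_lit 4) (nat_lit 472) (nat_lit 334) (nat_lit 214)))))) (XT.nd (nat_lit 546) (nat_lit 608) (nat_lit 0) (XT.nd (nat_lit 234) (nat_lit 304) (nat_lit 0) (XT.nd (nat_lit 78) (nat_lit 152) (nat_lit 0) (XT.lf (nat_lit 0) (nat_lit 9887116188) (nat_lit 76) (nat_lit 6369745288) (nat_lit 152) (nat_lit 26104064386) (nat_lit 99) (nat_lit 5) (nat_lit 100) (nat_lit 5) (nat_lit 101) (nat_lit 4)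 (nat_lit 473) (nat_lit 334) (nat_lit 213)) (XT.nd (nat_lit 78) (nat_lit 152) (nat_lit 0) (XT.lf (nat_lit 0) (nat_lit 30909917371) (nat_lit 152) (nat_lit 3826068517) (nat_lit 0) (nat_lit 8450029107) (nat_lit 99) (nat_lit 5) (nat_lit 101) (nat_lit 4) (nat_lit 99) (nat_lit 4) (nat_lit 474) (nat_lit 334) (nat_lit 212)) (XT.lf (nat_lit 0) (nat_lit 2222289972) (nat_lit 152) (nat_lit 17966899873) (nat_lit 76) (nat_lit 23837281019) (nat_lit 97) (nat_lit 5) (nat_lit 99) (nat_lit 5) (nat_lit 98) (nat_lit 4) (nat_lit 475) (nat_lit 334) (nat_lit 211)))) (XT.nd (nat_lit 156) (nat_lit 228) (nat_lit 0) (XT.nd (nat_lit 78) (nat_lit 0) (nat_lit 0) (XT.lf (nat_lit 0) (nat_lit 12098393168) (nat_lit 76) (nat_lit 4943119189) (nat_lit 152) (nat_lit 27843003070) (nat_lit 96) (nat_lit 5) (nat_lit 97) (nat_lit 5) (nat_lit 98) (nat_lit 4) (nat_lit 476) (nat_lit 334) (nat_lit 210)) (XT.lf (nat_lit 0) (nat_lit 32569298670) (nat_lit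 152) (nat_lit 2479152292) (nat_lit 0) (nat_lit 10711930748) (nat_lit 96) (nat_lit 5) (nat_lit 98) (nat_lit 4) (nat_lit 96) (nat_lit 4) (nat_lit 477) (nat_lit 334) (nat_lit 209))) (XT.nd (nat_lit 78) (nat_lit 76) (nat_lit 0) (XT.lf (nat_lit 0) (nat_lit 2174113164) (nat_lit 152) (nat_lit 17460142195) (nat_lit 76) (nat_lit 27018396524) (nat_lit 94) (nat_lit 5) (nat_lit 96) (nat_lit 5) (nat_lit 95) (nat_lit 4) (nat_lit 478) (nat_lit 334) (nat_lit 208)) (XT.lf (nat_lit 0) (nat_lit 14400648519) (nat_lit 76) (nat_lit 3476194778) (nat_lit 152) (nat_lit 29686677550) (nat_lit 93) (nat_lit 5) (nat_lit 94) (nat_lit 5) (nat_lit 95) (nat_lit 4) (nat_lit 479) (nat_lit 334) (nat_lit 207))))) (XT.nd (nat_lit 312) (nat_lit 304) (nat_lit 0) (XT.nd (nat_lit 156) (nat_lit 152) (nat_lit 0) (XT.nd (nat_lit 78) (nat_lit 152) (nat_lit 0) (XT.lf (nat_lit 0) (nat_lit 34333293334) (nat_lit 152) (nat_lit 1093287013) (nat_lit 0)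 (nat_lit 13066656392) (nat_lit 93) (nat_lit 5) (nat_lit 95) (nat_lit 4) (nat_lit 93) (nat_lit 4) (nat_lit 480) (nat_lit 334) (nat_lit 206)) (XT.lf (nat_lit 0) (nat_lit 2125494016) (nat_lit 152) (nat_lit 16966298900) (nat_lit 76) (nat_lit 30348662860) (nat_lit 91) (nat_lit 5) (nat_lit 93) (nat_lit 5) (nat_lit 92) (nat_lit 4) (nat_lit 481) (nat_lit 334) (nat_lit 205))) (XT.nd (nat_lit 78) (nat_lit 76) (nat_lit 0) (XT.lf (nat_lit 0) (nat_lit 16800340679) (nat_lit 76) (nat_lit 1965860008) (nat_lit 152) (nat_lit 31641145563) (nat_lit 90) (nat_lit 5) (nat_lit 91) (nat_lit 5) (nat_lit 92) (nat_lit 4) (nat_lit 482) (nat_lit 334) (nat_lit 204)) (XT.lf (nat_lit 0) (nat_lit 341489974) (nat_lit 76) (nat_lit 35870289093) (nat_lit 76) (nat_lit 15182294858) (nat_lit 89) (nat_lit 4) (nat_lit 90) (nat_lit 5) (nat_lit 90) (nat_lit 4) (nat_lit 483) (nat_lit 334) (nat_lit 203)))) (XT.nd (nat_lit 156) (nat_lit 152) (nat_lit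 0) (XT.nd (nat_lit 78) (nat_lit 76) (nat_lit 0) (XT.lf (nat_lit 0) (nat_lit 2076651213) (nat_lit 152) (nat_lit 16485199644) (nat_lit 76) (nat_lit 33837815794) (nat_lit 88) (nat_lit 5) (nat_lit 90) (nat_lit 5) (nat_lit 89) (nat_lit 4) (nat_lit 484) (nat_lit 334) (nat_lit 202)) (XT.lf (nat_lit 0) (nat_lit 19304334217) (nat_lit 76) (nat_lit 408754536) (nat_lit 152) (nat_lit 33712882648) (nat_lit 87) (nat_lit 5) (nat_lit 88) (nat_lit 5) (nat_lit 89) (nat_lit 4) (nat_lit 485) (nat_lit 334) (nat_lit 201))) (XT.nd (nat_lit 78) (nat_lit 76) (nat_lit 0) (XT.lf (nat_lit 0) (nat_lit 1844693604) (nat_lit 76) (nat_lit 36374900416) (nat_lit 76) (nat_lit 16253242036) (nat_lit 86) (nat_lit 4) (nat_lit 87) (nat_lit 5) (nat_lit 87) (nat_lit 4) (nat_lit 486) (nat_lit 334) (nat_lit 200)) (XT.lf (nat_lit 0) (nat_lit 2027774123) (nat_lit 152) (nat_lit 16016656095) (nat_lit 76) (nat_lit 37496237028) (nat_lit 85) (nat_lit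 5) (nat_lit 87) (nat_lit 5) (nat_lit 86) (nat_lit 4) (nat_lit 487) (nat_lit 334) (nat_lit 199))))))) (XT.nd (nat_lit 42978) (nat_lit 0) (nat_lit 19532) (XT.nd (nat_lit 42354) (nat_lit 0) (nat_lit 29488) (XT.nd (nat_lit 234) (nat_lit 304) (nat_lit 0) (XT.nd (nat_lit 78) (nat_lit 152) (nat_lit 0) (XT.lf (nat_lit 0) (nat_lit 20732707754) (nat_lit 152) (nat_lit 34721589725) (nat_lit 0) (nat_lit 1175343365) (nat_lit 84) (nat_lit 5) (nat_lit 86) (nat_lit 4) (nat_lit 84) (nat_lit 4) (nat_lit 488) (nat_lit 334) (nat_lit 198)) (XT.nd (nat_lit 78) (nat_lit 76) (nat_lit 0) (XT.lf (nat_lit 0) (nat_lit 3398367854) (nat_lit 76) (nat_lit 36955027782) (nat_lit 76) (nat_lit 17387249826) (nat_lit 83) (nat_lit 4) (nat_lit 84) (nat_lit 5) (nat_lit 84) (nat_lit 4) (nat_lit 489) (nat_lit 334) (nat_lit 197)) (XT.lf (nat_lit 0) (nat_lit 1979026207) (nat_lit 152) (nat_lit 15560465014) (nat_lit 76) (nat_lit 41334983958) (nat_lit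 82) (nat_lit 5) (nat_lit 84) (nat_lit 5) (nat_lit 83) (nat_lit 4) (nat_lit 490) (nat_lit 334) (nat_lit 196)))) (XT.nd (nat_lit 156) (nat_lit 152) (nat_lit 0) (XT.nd (nat_lit 78) (nat_lit 76) (nat_lit 0) (XT.lf (nat_lit 0) (nat_lit 21821851327) (nat_lit 152) (nat_lit 35403290135) (nat_lit 0) (nat_lit 2804662976) (nat_lit 81) (nat_lit 5) (nat_lit 83) (nat_lit 4) (nat_lit 81) (nat_lit 4) (nat_lit 491) (nat_lit 334) (nat_lit 195)) (XT.lf (nat_lit 0) (nat_lit 5006548281) (nat_lit 76) (nat_lit 37614427760) (nat_lit 76) (nat_lit 18587987089) (nat_lit 80) (nat_lit 4) (nat_lit 81) (nat_lit 5) (nat_lit 81) (nat_lit 4) (nat_lit 492) (nat_lit 334) (nat_lit 194))) (XT.nd (nat_lit 78) (nat_lit 76) (nat_lit 0) (XT.lf (nat_lit 0) (nat_lit 1930548047) (nat_lit 152) (nat_lit 15116410968) (nat_lit 76) (nat_lit 45365822425) (nat_lit 79) (nat_lit 5) (nat_lit 81) (nat_lit 5) (nat_lit 80) (nat_lit 4) (nat_lit 493) (nat_lit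 334) (nat_lit 193)) (XT.lf (nat_lit 0) (nat_lit 22980700411) (nat_lit 152) (nat_lit 36166563331) (nat_lit 0) (nat_lit 4491239533) (nat_lit 78) (nat_lit 5) (nat_lit 80) (nat_lit 4) (nat_lit 78) (nat_lit 4) (nat_lit 494) (nat_lit 334) (nat_lit 192))))) (XT.nd (nat_lit 312) (nat_lit 1444) (nat_lit 0) (XT.nd (nat_lit 156) (nat_lit 608) (nat_lit 0) (XT.nd (nat_lit 78) (nat_lit 532) (nat_lit 0) (XT.lf (nat_lit 0) (nat_lit 1802112152) (nat_lit 380) (nat_lit 735801011) (nat_lit 380) (nat_lit 735801011) (nat_lit 500) (nat_lit 4) (nat_lit 505) (nat_lit 5) (nat_lit 505) (nat_lit 4) (nat_lit 350) (nat_lit 335) (nat_lit 335)) (XT.lf (nat_lit 0) (nat_lit 1064814533) (nat_lit 456) (nat_lit 712367568) (nat_lit 532) (nat_lit 4792919621) (nat_lit 493) (nat_lit 5) (nat_lit 499) (nat_lit 5) (nat_lit 500) (nat_lit 4) (nat_lit 351) (nat_lit 335) (nat_lit 334))) (XT.nd (nat_lit 78) (nat_lit 608) (nat_lit 0) (XT.lf (nat_lit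 0) (nat_lit 5011617675) (nat_lit 532) (nat_lit 1437945239) (nat_lit 0) (nat_lit 145922303) (nat_lit 493) (nat_lit 5) (nat_lit 500) (nat_lit 4) (nat_lit 493) (nat_lit 4) (nat_lit 352) (nat_lit 335) (nat_lit 333)) (XT.lf (nat_lit 0) (nat_lit 1610643703) (nat_lit 608) (nat_lit 3923170471) (nat_lit 76) (nat_lit 1089636228) (nat_lit 485) (nat_lit 5) (nat_lit 493) (nat_lit 5) (nat_lit 486) (nat_lit 4) (nat_lit 353) (nat_lit 335) (nat_lit 332)))) (XT.nd (nat_lit 156) (nat_lit 760) (nat_lit 0) (XT.nd (nat_lit 78) (nat_lit 76) (nat_lit 0) (XT.lf (nat_lit 0) (nat_lit 247114458) (nat_lit 608) (nat_lit 4530813809) (nat_lit 684) (nat_lit 1876592657) (nat_lit 477) (nat_lit 5) (nat_lit 485) (nat_lit 5) (nat_lit 486) (nat_lit 4) (nat_lit 354) (nat_lit 335) (nat_lit 331)) (XT.lf (nat_lit 0) (nat_lit 1260355816) (nat_lit 684) (nat_lit 2159324916) (nat_lit 76) (nat_lit 3268460538) (nat_lit 476) (nat_lit 5) (nat_lit 485)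 (nat_lit 5) (nat_lit 477) (nat_lit 5) (nat_lit 355) (nat_lit 335) (nat_lit 330))) (XT.nd (nat_lit 78) (nat_lit 76) (nat_lit 0) (XT.lf (nat_lit 0) (nat_lit 2158660626) (nat_lit 684) (nat_lit 2211954882) (nat_lit 760) (nat_lit 2354089701) (nat_lit 467) (nat_lit 5) (nat_lit 476) (nat_lit 5) (nat_lit 477) (nat_lit 5) (nat_lit 356) (nat_lit 335) (nat_lit 329)) (XT.lf (nat_lit 0) (nat_lit 715413034) (nat_lit 760) (nat_lit 201609974) (nat_lit 76) (nat_lit 5847525820) (nat_lit 466) (nat_lit 5) (nat_lit 476) (nat_lit 5) (nat_lit 467) (nat_lit 5) (nat_lit 357) (nat_lit 335) (nat_lit 328)))))) (XT.nd (nat_lit 624) (nat_lit 4028) (nat_lit 0) (XT.nd (nat_lit 312) (nat_lit 3344) (nat_lit 0) (XT.nd (nat_lit 156) (nat_lit 912) (nat_lit 0) (XT.nd (nat_lit 78) (nat_lit 912) (nat_lit 0) (XT.lf (nat_lit 0) (nat_lit 3776006802) (nat_lit 836) (nat_lit 2537557515) (nat_lit 76) (nat_lit 492934580) (nat_lit 456) (nat_lit 5)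 (nat_lit 467) (nat_lit 5) (nat_lit 457) (nat_lit 5) (nat_lit 358) (nat_lit 335) (nat_lit 327)) (XT.lf (nat_lit 0) (nat_lit 9353897) (nat_lit 912) (nat_lit 4876519018) (nat_lit 76) (nat_lit 1965846488) (nat_lit 444) (nat_lit 5) (nat_lit 456) (nat_lit 5) (nat_lit 445) (nat_lit 5) (nat_lit 359) (nat_lit 335) (nat_lit 326))) (XT.nd (nat_lit 78) (nat_lit 912) (nat_lit 0) (XT.lf (nat_lit 0) (nat_lit 3009191739) (nat_lit 912) (nat_lit 335781951) (nat_lit 76) (nat_lit 3554531496) (nat_lit 444) (nat_lit 5) (nat_lit 456) (nat_lit 5) (nat_lit 445) (nat_lit 5) (nat_lit 360) (nat_lit 335) (nat_lit 325)) (XT.lf (nat_lit 0) (nat_lit 4345038317) (nat_lit 912) (nat_lit 1702382981) (nat_lit 988) (nat_lit 902851348) (nat_lit 432) (nat_lit 5) (nat_lit 444) (nat_lit 5) (nat_lit 445) (nat_lit 5) (nat_lit 361) (nat_lit 335) (nat_lit 324)))) (XT.nd (nat_lit 156) (nat_lit 2280) (nat_lit 0) (XT.nd (nat_lit 78) (nat_lit 0) (nat_lit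 0) (XT.lf (nat_lit 0) (nat_lit 2063617866) (nat_lit 1064) (nat_lit 4895480751) (nat_lit 76) (nat_lit 44883197) (nat_lit 418) (nat_lit 5) (nat_lit 432) (nat_lit 5) (nat_lit 419) (nat_lit 5) (nat_lit 362) (nat_lit 335) (nat_lit 323)) (XT.lf (nat_lit 0) (nat_lit 5054029569) (nat_lit 1064) (nat_lit 151482794) (nat_lit 76) (nat_lit 1854928877) (nat_lit 418) (nat_lit 5) (nat_lit 432) (nat_lit 5) (nat_lit 419) (nat_lit 5) (nat_lit 363) (nat_lit 335) (nat_lit 322))) (XT.nd (nat_lit 78) (nat_lit 1140) (nat_lit 0) (XT.lf (nat_lit 0) (nat_lit 953248317) (nat_lit 1140) (nat_lit 2383279673) (nat_lit 76) (nat_lit 3783048401) (nat_lit 403) (nat_lit 5) (nat_lit 418) (nat_lit 5) (nat_lit 404) (nat_lit 5) (nat_lit 364) (nat_lit 335) (nat_lit 321)) (XT.lf (nat_lit 0) (nat_lit 2540621074) (nat_lit 1140) (nat_lit 1359946882) (nat_lit 1216) (nat_lit 3281145777) (nat_lit 388) (nat_lit 5) (nat_lit 403) (nat_lit 5) (nat_lit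 404) (nat_lit 5) (nat_lit 365) (nat_lit 335) (nat_lit 320))))) (XT.nd (nat_lit 312) (nat_lit 1216) (nat_lit 0) (XT.nd (nat_lit 156) (nat_lit 1520) (nat_lit 0) (XT.nd (nat_lit 78) (nat_lit 76) (nat_lit 0) (XT.lf (nat_lit 0) (nat_lit 331610523) (nat_lit 1216) (nat_lit 6553691455) (nat_lit 1292) (nat_lit 361943372) (nat_lit 372) (nat_lit 5) (nat_lit 388) (nat_lit 5) (nat_lit 389) (nat_lit 5) (nat_lit 366) (nat_lit 335) (nat_lit 319)) (XT.lf (nat_lit 0) (nat_lit 2569873504) (nat_lit 1292) (nat_lit 1889131019) (nat_lit 76) (nat_lit 2855676220) (nat_lit 371) (nat_lit 5) (nat_lit 388) (nat_lit 5) (nat_lit 372) (nat_lit 5) (nat_lit 367) (nat_lit 335) (nat_lit 318))) (XT.nd (nat_lit 78) (nat_lit 684) (nat_lit 0) (XT.lf (nat_lit 0) (nat_lit 3265713914) (nat_lit 836) (nat_lit 2266353050) (nat_lit 912) (nat_lit 1853473820) (nat_lit 360) (nat_lit 5) (nat_lit 371) (nat_lit 5) (nat_lit 372) (nat_lit 5) (nat_lit 368)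 (nat_lit 335) (nat_lit 317)) (XT.lf (nat_lit 0) (nat_lit 1051733223) (nat_lit 684) (nat_lit 6377332551) (nat_lit 76) (nat_lit 30664187) (nat_lit 351) (nat_lit 5) (nat_lit 360) (nat_lit 5) (nat_lit 352) (nat_lit 5) (nat_lit 369) (nat_lit 335) (nat_lit 316)))) (XT.nd (nat_lit 156) (nat_lit 608) (nat_lit 0) (XT.nd (nat_lit 78) (nat_lit 608) (nat_lit 0) (XT.lf (nat_lit 0) (nat_lit 3991932815) (nat_lit 684) (nat_lit 1135885782) (nat_lit 76) (nat_lit 2408222999) (nat_lit 351) (nat_lit 5) (nat_lit 360) (nat_lit 5) (nat_lit 352) (nat_lit 5) (nat_lit 370) (nat_lit 335) (nat_lit 315)) (XT.lf (nat_lit 0) (nat_lit 4263547579) (nat_lit 608) (nat_lit 2720722321) (nat_lit 684) (nat_lit 631454733) (nat_lit 343) (nat_lit 5) (nat_lit 351) (nat_lit 5) (nat_lit 352) (nat_lit 5) (nat_lit 371) (nat_lit 335) (nat_lit 314))) (XT.nd (nat_lit 78) (nat_lit 0) (nat_lit 0) (XT.lf (nat_lit 0) (nat_lit 2085442170) (nat_lit 532) (nat_lit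 192206239) (nat_lit 608) (nat_lit 5420808037) (nat_lit 335) (nat_lit 5) (nat_lit 342) (nat_lit 5) (nat_lit 343) (nat_lit 5) (nat_lit 372) (nat_lit 335) (nat_lit 313)) (XT.lf (nat_lit 0) (nat_lit 5243724879) (nat_lit 608) (nat_lit 142048145) (nat_lit 76) (nat_lit 2398237874) (nat_lit 335) (nat_lit 5) (nat_lit 343) (nat_lit 5) (nat_lit 336) (nat_lit 5) (nat_lit 373) (nat_lit 335) (nat_lit 312))))))))
noncomputable def xc87 : XT := (XT.nd (nat_lit 2418) (nat_lit 4636) (nat_lit 0) (XT.nd (nat_lit 1170) (nat_lit 4104) (nat_lit 0) (XT.nd (nat_lit 546) (nat_lit 2280) (nat_lit 0) (XT.nd (nat_lit 234) (nat_lit 1596) (nat_lit 0) (XT.nd (nat_lit 78) (nat_lit 1064) (nat_lit 0) (XT.lf (nat_lit 0) (nat_lit 400285491) (nat_lit 684) (nat_lit 2359860486) (nat_lit 76) (nat_lit 5112404188) (nat_lit 326) (nat_lit 5) (nat_lit 335) (nat_lit 5) (nat_lit 327) (nat_lit 5) (nat_lit 374) (nat_lit 335) (nat_lit 311)) (XT.nd (nat_lit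 78) (nat_lit 532) (nat_lit 0) (XT.lf (nat_lit 0) (nat_lit 3333466136) (nat_lit 532) (nat_lit 5877371) (nat_lit 608) (nat_lit 4624807765) (nat_lit 319) (nat_lit 5) (nat_lit 326) (nat_lit 5) (nat_lit 327) (nat_lit 5) (nat_lit 375) (nat_lit 335) (nat_lit 310)) (XT.lf (nat_lit 0) (nat_lit 1098259569) (nat_lit 532) (nat_lit 5259193614) (nat_lit 608) (nat_lit 1701320832) (nat_lit 312) (nat_lit 5) (nat_lit 319) (nat_lit 5) (nat_lit 320) (nat_lit 5) (nat_lit 376) (nat_lit 335) (nat_lit 309)))) (XT.nd (nat_lit 156) (nat_lit 1064) (nat_lit 0) (XT.nd (nat_lit 78) (nat_lit 456) (nat_lit 0) (XT.lf (nat_lit 0) (nat_lit 1261213891) (nat_lit 608) (nat_lit 1158429896) (nat_lit 76) (nat_lit 5736906812) (nat_lit 311) (nat_lit 5) (nat_lit 319) (nat_lit 5) (nat_lit 312) (nat_lit 5) (nat_lit 377) (nat_lit 335) (nat_lit 308)) (XT.lf (nat_lit 0) (nat_lit 4261712833) (nat_lit 532) (nat_lit 3450000061) (nat_lit 76) (nat_lit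 545543750) (nat_lit 305) (nat_lit 5) (nat_lit 312) (nat_lit 5) (nat_lit 306) (nat_lit 5) (nat_lit 378) (nat_lit 335) (nat_lit 307))) (XT.nd (nat_lit 78) (nat_lit 532) (nat_lit 0) (XT.lf (nat_lit 0) (nat_lit 2557770788) (nat_lit 532) (nat_lit 4787558629) (nat_lit 608) (nat_lit 1015861375) (nat_lit 298) (nat_lit 5) (nat_lit 305) (nat_lit 5) (nat_lit 306) (nat_lit 5) (nat_lit 379) (nat_lit 335) (nat_lit 306)) (XT.lf (nat_lit 0) (nat_lit 250496125) (nat_lit 456) (nat_lit 1733499823) (nat_lit 532) (nat_lit 6484529414) (nat_lit 291) (nat_lit 5) (nat_lit 297) (nat_lit 5) (nat_lit 298) (nat_lit 5) (nat_lit 380) (nat_lit 335) (nat_lit 305))))) (XT.nd (nat_lit 312) (nat_lit 1368) (nat_lit 0) (XT.nd (nat_lit 156) (nat_lit 456) (nat_lit 0) (XT.nd (nat_lit 78) (nat_lit 456) (nat_lit 0) (XT.lf (nat_lit 0) (nat_lit 5060430993) (nat_lit 532) (nat_lit 2081132383) (nat_lit 76) (nat_lit 1437004859) (nat_lit 291) (nat_lit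 5) (nat_lit 298) (nat_lit 5) (nat_lit 292) (nat_lit 5) (nat_lit 381) (nat_lit 335) (nat_lit 304)) (XT.lf (nat_lit 0) (nat_lit 4222985853) (nat_lit 456) (nat_lit 4000087487) (nat_lit 532) (nat_lit 469021626) (nat_lit 285) (nat_lit 5) (nat_lit 291) (nat_lit 5) (nat_lit 292) (nat_lit 5) (nat_lit 382) (nat_lit 335) (nat_lit 303))) (XT.nd (nat_lit 78) (nat_lit 0) (nat_lit 0) (XT.lf (nat_lit 0) (nat_lit 1878678574) (nat_lit 380) (nat_lit 716652724) (nat_lit 456) (nat_lit 6213648908) (nat_lit 279) (nat_lit 5) (nat_lit 284) (nat_lit 5) (nat_lit 285) (nat_lit 5) (nat_lit 383) (nat_lit 335) (nat_lit 302)) (XT.lf (nat_lit 0) (nat_lit 5750870863) (nat_lit 456) (nat_lit 533674200) (nat_lit 76) (nat_lit 2644427136) (nat_lit 279) (nat_lit 5) (nat_lit 285) (nat_lit 5) (nat_lit 280) (nat_lit 5) (nat_lit 384) (nat_lit 335) (nat_lit 301)))) (XT.nd (nat_lit 156) (nat_lit 456) (nat_lit 0) (XT.nd (nat_lit 78) (nat_lit 456)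 (nat_lit 0) (XT.lf (nat_lit 0) (nat_lit 6085479534) (nat_lit 456) (nat_lit 2920497296) (nat_lit 532) (nat_lit 46440118) (nat_lit 273) (nat_lit 5) (nat_lit 279) (nat_lit 5) (nat_lit 280) (nat_lit 5) (nat_lit 385) (nat_lit 335) (nat_lit 300)) (XT.lf (nat_lit 0) (nat_lit 3103544334) (nat_lit 456) (nat_lit 5490169135) (nat_lit 76) (nat_lit 585342451) (nat_lit 267) (nat_lit 5) (nat_lit 273) (nat_lit 5) (nat_lit 268) (nat_lit 5) (nat_lit 386) (nat_lit 335) (nat_lit 299))) (XT.nd (nat_lit 78) (nat_lit 76) (nat_lit 0) (XT.lf (nat_lit 0) (nat_lit 1208308096) (nat_lit 380) (nat_lit 5150063096) (nat_lit 456) (nat_lit 2950770787) (nat_lit 262) (nat_lit 5) (nat_lit 267) (nat_lit 5) (nat_lit 268) (nat_lit 5) (nat_lit 387) (nat_lit 335) (nat_lit 298)) (XT.lf (nat_lit 0) (nat_lit 259336685) (nat_lit 456) (nat_lit 1306885925) (nat_lit 76) (nat_lit 7876925354) (nat_lit 261) (nat_lit 5) (nat_lit 267) (nat_lit 5) (nat_lit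 262) (nat_lit 5) (nat_lit 388) (nat_lit 335) (nat_lit 297)))))) (XT.nd (nat_lit 624) (nat_lit 1900) (nat_lit 0) (XT.nd (nat_lit 312) (nat_lit 1064) (nat_lit 0) (XT.nd (nat_lit 156) (nat_lit 380) (nat_lit 0) (XT.nd (nat_lit 78) (nat_lit 380) (nat_lit 0) (XT.lf (nat_lit 0) (nat_lit 3524782860) (nat_lit 456) (nat_lit 3908845126) (nat_lit 76) (nat_lit 2146119384) (nat_lit 256) (nat_lit 5) (nat_lit 262) (nat_lit 5) (nat_lit 257) (nat_lit 5) (nat_lit 389) (nat_lit 335) (nat_lit 296)) (XT.lf (nat_lit 0) (nat_lit 3129328737) (nat_lit 380) (nat_lit 3761050983) (nat_lit 456) (nat_lit 2829999419) (nat_lit 251) (nat_lit 5) (nat_lit 256) (nat_lit 5) (nat_lit 257) (nat_lit 5) (nat_lit 390) (nat_lit 335) (nat_lit 295))) (XT.nd (nat_lit 78) (nat_lit 0) (nat_lit 0) (XT.lf (nat_lit 0) (nat_lit 471028752) (nat_lit 380) (nat_lit 9347357751) (nat_lit 76) (nat_lit 47034280) (nat_lit 246) (nat_lit 5) (nat_lit 251) (nat_lit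 5) (nat_lit 247) (nat_lit 5) (nat_lit 391) (nat_lit 335) (nat_lit 294)) (XT.lf (nat_lit 0) (nat_lit 3862893341) (nat_lit 380) (nat_lit 2184997440) (nat_lit 76) (nat_lit 3964621729) (nat_lit 246) (nat_lit 5) (nat_lit 251) (nat_lit 5) (nat_lit 247) (nat_lit 5) (nat_lit 392) (nat_lit 335) (nat_lit 293)))) (XT.nd (nat_lit 156) (nat_lit 304) (nat_lit 0) (XT.nd (nat_lit 78) (nat_lit 380) (nat_lit 0) (XT.lf (nat_lit 0) (nat_lit 5214547999) (nat_lit 380) (nat_lit 2137947572) (nat_lit 456) (nat_lit 2811641967) (nat_lit 241) (nat_lit 5) (nat_lit 246) (nat_lit 5) (nat_lit 247) (nat_lit 5) (nat_lit 393) (nat_lit 335) (nat_lit 292)) (XT.lf (nat_lit 0) (nat_lit 625381504) (nat_lit 380) (nat_lit 7814273188) (nat_lit 76) (nat_lit 1880142011) (nat_lit 236) (nat_lit 5) (nat_lit 241) (nat_lit 5) (nat_lit 237) (nat_lit 5) (nat_lit 394) (nat_lit 335) (nat_lit 291))) (XT.nd (nat_lit 78) (nat_lit 304) (nat_lit 0) (XT.lf (nat_lit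 0) (nat_lit 4127357935) (nat_lit 380) (nat_lit 322668891) (nat_lit 76) (nat_lit 6028713072) (nat_lit 236) (nat_lit 5) (nat_lit 241) (nat_lit 5) (nat_lit 237) (nat_lit 5) (nat_lit 395) (nat_lit 335) (nat_lit 290)) (XT.lf (nat_lit 0) (nat_lit 7461325845) (nat_lit 304) (nat_lit 293052450) (nat_lit 380) (nat_lit 2887473554) (nat_lit 232) (nat_lit 5) (nat_lit 236) (nat_lit 5) (nat_lit 237) (nat_lit 5) (nat_lit 396) (nat_lit 335) (nat_lit 289))))) (XT.nd (nat_lit 312) (nat_lit 912) (nat_lit 0) (XT.nd (nat_lit 156) (nat_lit 304) (nat_lit 0) (XT.nd (nat_lit 78) (nat_lit 304) (nat_lit 0) (XT.lf (nat_lit 0) (nat_lit 702524640) (nat_lit 380) (nat_lit 6166107446) (nat_lit 76) (nat_lit 3939965415) (nat_lit 227) (nat_lit 5) (nat_lit 232) (nat_lit 5) (nat_lit 228) (nat_lit 5) (nat_lit 397) (nat_lit 335) (nat_lit 288)) (XT.lf (nat_lit 0) (nat_lit 1708836203) (nat_lit 304) (nat_lit 2634134205) (nat_lit 380) (nat_lit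 6636493960) (nat_lit 223) (nat_lit 5) (nat_lit 227) (nat_lit 5) (nat_lit 228) (nat_lit 5) (nat_lit 398) (nat_lit 335) (nat_lit 287))) (XT.nd (nat_lit 78) (nat_lit 304) (nat_lit 0) (XT.lf (nat_lit 0) (nat_lit 8121605869) (nat_lit 380) (nat_lit 1303565895) (nat_lit 76) (nat_lit 1729416187) (nat_lit 223) (nat_lit 5) (nat_lit 228) (nat_lit 5) (nat_lit 224) (nat_lit 5) (nat_lit 399) (nat_lit 335) (nat_lit 286)) (XT.lf (nat_lit 0) (nat_lit 709528649) (nat_lit 304) (nat_lit 4405734541) (nat_lit 76) (nat_lit 6218182264) (nat_lit 219) (nat_lit 5) (nat_lit 223) (nat_lit 5) (nat_lit 220) (nat_lit 5) (nat_lit 400) (nat_lit 335) (nat_lit 285)))) (XT.nd (nat_lit 156) (nat_lit 380) (nat_lit 0) (XT.nd (nat_lit 78) (nat_lit 228) (nat_lit 0) (XT.lf (nat_lit 0) (nat_lit 3883908964) (nat_lit 304) (nat_lit 621252656) (nat_lit 380) (nat_lit 7011551970) (nat_lit 215) (nat_lit 5) (nat_lit 219) (nat_lit 5) (nat_lit 220) (nat_lit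 5) (nat_lit 401) (nat_lit 335) (nat_lit 284)) (XT.lf (nat_lit 0) (nat_lit 705705649) (nat_lit 228) (nat_lit 7750790269) (nat_lit 304) (nat_lit 3247728883) (nat_lit 212) (nat_lit 5) (nat_lit 215) (nat_lit 5) (nat_lit 216) (nat_lit 5) (nat_lit 402) (nat_lit 335) (nat_lit 283))) (XT.nd (nat_lit 78) (nat_lit 304) (nat_lit 0) (XT.lf (nat_lit 0) (nat_lit 652520235) (nat_lit 304) (nat_lit 2534884185) (nat_lit 76) (nat_lit 8708701969) (nat_lit 211) (nat_lit 5) (nat_lit 215) (nat_lit 5) (nat_lit 212) (nat_lit 5) (nat_lit 403) (nat_lit 335) (nat_lit 282)) (XT.lf (nat_lit 0) (nat_lit 4632434617) (nat_lit 380) (nat_lit 5911610202) (nat_lit 76) (nat_lit 1547896914) (nat_lit 207) (nat_lit 5) (nat_lit 212) (nat_lit 5) (nat_lit 208) (nat_lit 5) (nat_lit 404) (nat_lit 335) (nat_lit 281))))))) (XT.nd (nat_lit 1170) (nat_lit 1976) (nat_lit 0) (XT.nd (nat_lit 546) (nat_lit 1368) (nat_lit 0) (XT.nd (nat_lit 234) (nat_lit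 760) (nat_lit 0) (XT.nd (nat_lit 78) (nat_lit 304) (nat_lit 0) (XT.lf (nat_lit 0) (nat_lit 2864346026) (nat_lit 228) (nat_lit 5905913136) (nat_lit 304) (nat_lit 3522237595) (nat_lit 204) (nat_lit 5) (nat_lit 207) (nat_lit 5) (nat_lit 208) (nat_lit 5) (nat_lit 405) (nat_lit 335) (nat_lit 280)) (XT.nd (nat_lit 78) (nat_lit 228) (nat_lit 0) (XT.lf (nat_lit 0) (nat_lit 536779895) (nat_lit 304) (nat_lit 554225556) (nat_lit 76) (nat_lit 11407488225) (nat_lit 203) (nat_lit 5) (nat_lit 207) (nat_lit 5) (nat_lit 204) (nat_lit 5) (nat_lit 406) (nat_lit 335) (nat_lit 279)) (XT.lf (nat_lit 0) (nat_lit 4723054384) (nat_lit 304) (nat_lit 4100577509) (nat_lit 76) (nat_lit 3883704001) (nat_lit 200) (nat_lit 5) (nat_lit 204) (nat_lit 5) (nat_lit 201) (nat_lit 5) (nat_lit 407) (nat_lit 335) (nat_lit 278)))) (XT.nd (nat_lit 156) (nat_lit 228) (nat_lit 0) (XT.nd (nat_lit 78) (nat_lit 304) (nat_lit 0) (XT.lf (nat_lit 0)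 (nat_lit 5147128098) (nat_lit 228) (nat_lit 3909143632) (nat_lit 304) (nat_lit 3865531010) (nat_lit 197) (nat_lit 5) (nat_lit 200) (nat_lit 5) (nat_lit 201) (nat_lit 5) (nat_lit 408) (nat_lit 335) (nat_lit 277)) (XT.lf (nat_lit 0) (nat_lit 393285762) (nat_lit 304) (nat_lit 11586472681) (nat_lit 76) (nat_lit 1162120809) (nat_lit 193) (nat_lit 5) (nat_lit 197) (nat_lit 5) (nat_lit 194) (nat_lit 5) (nat_lit 409) (nat_lit 335) (nat_lit 276))) (XT.nd (nat_lit 78) (nat_lit 228) (nat_lit 0) (XT.lf (nat_lit 0) (nat_lit 4776046348) (nat_lit 304) (nat_lit 2193763298) (nat_lit 76) (nat_lit 6395384055) (nat_lit 193) (nat_lit 5) (nat_lit 197) (nat_lit 5) (nat_lit 194) (nat_lit 5) (nat_lit 410) (nat_lit 335) (nat_lit 275)) (XT.lf (nat_lit 0) (nat_lit 7555769936) (nat_lit 228) (nat_lit 1764317468) (nat_lit 304) (nat_lit 4274226252) (nat_lit 190) (nat_lit 5) (nat_lit 193) (nat_lit 5) (nat_lit 194) (nat_lit 5) (nat_lit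 411) (nat_lit 335) (nat_lit 274))))) (XT.nd (nat_lit 312) (nat_lit 684) (nat_lit 0) (XT.nd (nat_lit 156) (nat_lit 380) (nat_lit 0) (XT.nd (nat_lit 78) (nat_lit 0) (nat_lit 0) (XT.lf (nat_lit 0) (nat_lit 218049008) (nat_lit 304) (nat_lit 10051529687) (nat_lit 76) (nat_lit 3559142649) (nat_lit 186) (nat_lit 5) (nat_lit 190) (nat_lit 5) (nat_lit 187) (nat_lit 5) (nat_lit 412) (nat_lit 335) (nat_lit 273)) (XT.lf (nat_lit 0) (nat_lit 4795809040) (nat_lit 304) (nat_lit 190345211) (nat_lit 76) (nat_lit 9081638713) (nat_lit 186) (nat_lit 5) (nat_lit 190) (nat_lit 5) (nat_lit 187) (nat_lit 5) (nat_lit 413) (nat_lit 335) (nat_lit 272))) (XT.nd (nat_lit 78) (nat_lit 228) (nat_lit 0) (XT.lf (nat_lit 0) (nat_lit 9571789859) (nat_lit 228) (nat_lit 4224480424) (nat_lit 76) (nat_lit 515939810) (nat_lit 184) (nat_lit 5) (nat_lit 187) (nat_lit 5) (nat_lit 185) (nat_lit 5) (nat_lit 414) (nat_lit 335) (nat_lit 271)) (XT.lf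 (nat_lit 0) (nat_lit 6113118964) (nat_lit 228) (nat_lit 8447058400) (nat_lit 304) (nat_lit 1708555) (nat_lit 181) (nat_lit 5) (nat_lit 184) (nat_lit 5) (nat_lit 185) (nat_lit 5) (nat_lit 415) (nat_lit 335) (nat_lit 270)))) (XT.nd (nat_lit 156) (nat_lit 456) (nat_lit 0) (XT.nd (nat_lit 78) (nat_lit 0) (nat_lit 0) (XT.lf (nat_lit 0) (nat_lit 1949339666) (nat_lit 152) (nat_lit 2855606690) (nat_lit 228) (nat_lit 10012068859) (nat_lit 178) (nat_lit 5) (nat_lit 180) (nat_lit 5) (nat_lit 181) (nat_lit 5) (nat_lit 416) (nat_lit 335) (nat_lit 269)) (XT.lf (nat_lit 0) (nat_lit 9829234894) (nat_lit 228) (nat_lit 2344701750) (nat_lit 76) (nat_lit 2903657187) (nat_lit 178) (nat_lit 5) (nat_lit 181) (nat_lit 5) (nat_lit 179) (nat_lit 5) (nat_lit 417) (nat_lit 335) (nat_lit 268))) (XT.nd (nat_lit 78) (nat_lit 228) (nat_lit 0) (XT.lf (nat_lit 0) (nat_lit 8563599385) (nat_lit 228) (nat_lit 6511823774) (nat_lit 304)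 (nat_lit 268431517) (nat_lit 175) (nat_lit 5) (nat_lit 178) (nat_lit 5) (nat_lit 179) (nat_lit 5) (nat_lit 418) (nat_lit 335) (nat_lit 267)) (XT.lf (nat_lit 0) (nat_lit 4195428917) (nat_lit 152) (nat_lit 595534884) (nat_lit 228) (nat_lit 10824990059) (nat_lit 172) (nat_lit 5) (nat_lit 174) (nat_lit 5) (nat_lit 175) (nat_lit 5) (nat_lit 419) (nat_lit 335) (nat_lit 266)))))) (XT.nd (nat_lit 624) (nat_lit 1064) (nat_lit 0) (XT.nd (nat_lit 312) (nat_lit 380) (nat_lit 0) (XT.nd (nat_lit 156) (nat_lit 380) (nat_lit 0) (XT.nd (nat_lit 78) (nat_lit 152) (nat_lit 0) (XT.lf (nat_lit 0) (nat_lit 10079625883) (nat_lit 228) (nat_lit 380476357) (nat_lit 76) (nat_lit 5433547645) (nat_lit 172) (nat_lit 5) (nat_lit 175) (nat_lit 5) (nat_lit 173) (nat_lit 5) (nat_lit 420) (nat_lit 335) (nat_lit 265)) (XT.lf (nat_lit 0) (nat_lit 11134680767) (nat_lit 152) (nat_lit 4467218614) (nat_lit 228) (nat_lit 575528862) (nat_lit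 170) (nat_lit 5) (nat_lit 172) (nat_lit 5) (nat_lit 173) (nat_lit 5) (nat_lit 421) (nat_lit 335) (nat_lit 264))) (XT.nd (nat_lit 78) (nat_lit 152) (nat_lit 0) (XT.lf (nat_lit 0) (nat_lit 4772223193) (nat_lit 228) (nat_lit 9937380668) (nat_lit 76) (nat_lit 1757341273) (nat_lit 167) (nat_lit 5) (nat_lit 170) (nat_lit 5) (nat_lit 168) (nat_lit 5) (nat_lit 422) (nat_lit 335) (nat_lit 263)) (XT.lf (nat_lit 0) (nat_lit 1703869816) (nat_lit 152) (nat_lit 8639296264) (nat_lit 228) (nat_lit 6419580728) (nat_lit 165) (nat_lit 5) (nat_lit 167) (nat_lit 5) (nat_lit 168) (nat_lit 5) (nat_lit 423) (nat_lit 335) (nat_lit 262)))) (XT.nd (nat_lit 156) (nat_lit 152) (nat_lit 0) (XT.nd (nat_lit 78) (nat_lit 228) (nat_lit 0) (XT.lf (nat_lit 0) (nat_lit 13830984810) (nat_lit 152) (nat_lit 2313345272) (nat_lit 228) (nat_lit 921199665) (nat_lit 165) (nat_lit 5) (nat_lit 167) (nat_lit 5) (nat_lit 168) (nat_lit 5) (nat_lit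 424) (nat_lit 335) (nat_lit 261)) (XT.lf (nat_lit 0) (nat_lit 4741090059) (nat_lit 228) (nat_lit 8407073644) (nat_lit 76) (nat_lit 4225120142) (nat_lit 162) (nat_lit 5) (nat_lit 165) (nat_lit 5) (nat_lit 163) (nat_lit 5) (nat_lit 425) (nat_lit 335) (nat_lit 260))) (XT.nd (nat_lit 78) (nat_lit 0) (nat_lit 0) (XT.lf (nat_lit 0) (nat_lit 3887502884) (nat_lit 152) (nat_lit 6724118798) (nat_lit 228) (nat_lit 7076668610) (nat_lit 160) (nat_lit 5) (nat_lit 162) (nat_lit 5) (nat_lit 163) (nat_lit 5) (nat_lit 426) (nat_lit 335) (nat_lit 259)) (XT.lf (nat_lit 0) (nat_lit 16657890619) (nat_lit 152) (nat_lit 49333625) (nat_lit 228) (nat_lit 1304054037) (nat_lit 160) (nat_lit 5) (nat_lit 162) (nat_lit 5) (nat_lit 163) (nat_lit 5) (nat_lit 427) (nat_lit 335) (nat_lit 258))))) (XT.nd (nat_lit 312) (nat_lit 456) (nat_lit 0) (XT.nd (nat_lit 156) (nat_lit 228) (nat_lit 0) (XT.nd (nat_lit 78) (nat_lit 152) (nat_lit 0)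 (XT.lf (nat_lit 0) (nat_lit 4694161718) (nat_lit 228) (nat_lit 6822498868) (nat_lit 76) (nat_lit 6821666754) (nat_lit 157) (nat_lit 5) (nat_lit 160) (nat_lit 5) (nat_lit 158) (nat_lit 5) (nat_lit 428) (nat_lit 335) (nat_lit 257)) (XT.lf (nat_lit 0) (nat_lit 6166583292) (nat_lit 152) (nat_lit 4717998810) (nat_lit 228) (nat_lit 7789064376) (nat_lit 155) (nat_lit 5) (nat_lit 157) (nat_lit 5) (nat_lit 158) (nat_lit 5) (nat_lit 429) (nat_lit 335) (nat_lit 256))) (XT.nd (nat_lit 78) (nat_lit 76) (nat_lit 0) (XT.lf (nat_lit 0) (nat_lit 592725185) (nat_lit 152) (nat_lit 16730257457) (nat_lit 228) (nat_lit 1694174520) (nat_lit 153) (nat_lit 5) (nat_lit 155) (nat_lit 5) (nat_lit 156) (nat_lit 4) (nat_lit 430) (nat_lit 335) (nat_lit 255)) (XT.lf (nat_lit 0) (nat_lit 4633476079) (nat_lit 228) (nat_lit 5181812617) (nat_lit 76) (nat_lit 9550181996) (nat_lit 152) (nat_lit 5) (nat_lit 155) (nat_lit 5) (nat_lit 153)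 (nat_lit 5) (nat_lit 431) (nat_lit 335) (nat_lit 254)))) (XT.nd (nat_lit 156) (nat_lit 228) (nat_lit 0) (XT.nd (nat_lit 78) (nat_lit 76) (nat_lit 0) (XT.lf (nat_lit 0) (nat_lit 8545447497) (nat_lit 152) (nat_lit 2619713885) (nat_lit 228) (nat_lit 8557121334) (nat_lit 150) (nat_lit 5) (nat_lit 152) (nat_lit 5) (nat_lit 153) (nat_lit 5) (nat_lit 432) (nat_lit 335) (nat_lit 253)) (XT.lf (nat_lit 0) (nat_lit 2644815674) (nat_lit 76) (nat_lit 15338539751) (nat_lit 152) (nat_lit 2103726928) (nat_lit 149) (nat_lit 5) (nat_lit 150) (nat_lit 5) (nat_lit 151) (nat_lit 4) (nat_lit 433) (nat_lit 335) (nat_lit 252))) (XT.nd (nat_lit 78) (nat_lit 152) (nat_lit 0) (XT.lf (nat_lit 0) (nat_lit 4560818410) (nat_lit 152) (nat_lit 3482726948) (nat_lit 76) (nat_lit 12414784304) (nat_lit 148) (nat_lit 5) (nat_lit 150) (nat_lit 5) (nat_lit 149) (nat_lit 5) (nat_lit 434) (nat_lit 335) (nat_lit 251)) (XT.lf (nat_lit 0) (nat_lit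 11029025586) (nat_lit 152) (nat_lit 427276718) (nat_lit 228) (nat_lit 9381588664) (nat_lit 146) (nat_lit 5) (nat_lit 148) (nat_lit 5) (nat_lit 149) (nat_lit 5) (nat_lit 435) (nat_lit 335) (nat_lit 250))))))))
noncomputable def xc88 : XT := (XT.nd (nat_lit 2340) (nat_lit 2204) (nat_lit 0) (XT.nd (nat_lit 1170) (nat_lit 1368) (nat_lit 0) (XT.nd (nat_lit 546) (nat_lit 836) (nat_lit 0) (XT.nd (nat_lit 234) (nat_lit 380) (nat_lit 0) (XT.nd (nat_lit 78) (nat_lit 228) (nat_lit 0) (XT.lf (nat_lit 0) (nat_lit 4780306185) (nat_lit 76) (nat_lit 13898485268) (nat_lit 152) (nat_lit 2546443440) (nat_lit 145) (nat_lit 5) (nat_lit 146) (nat_lit 5) (nat_lit 147) (nat_lit 4) (nat_lit 436) (nat_lit 335) (nat_lit 249)) (XT.nd (nat_lit 78) (nat_lit 152) (nat_lit 0) (XT.lf (nat_lit 0) (nat_lit 4477749191) (nat_lit 152) (nat_lit 1722524586) (nat_lit 76) (nat_lit 15420478983) (nat_lit 144) (nat_lit 5) (nat_lit 146) (nat_lit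 5) (nat_lit 145) (nat_lit 5) (nat_lit 437) (nat_lit 335) (nat_lit 248)) (XT.lf (nat_lit 0) (nat_lit 11778706453) (nat_lit 228) (nat_lit 8419463250) (nat_lit 76) (nat_lit 1825693494) (nat_lit 142) (nat_lit 5) (nat_lit 145) (nat_lit 5) (nat_lit 143) (nat_lit 4) (nat_lit 438) (nat_lit 335) (nat_lit 247)))) (XT.nd (nat_lit 156) (nat_lit 76) (nat_lit 0) (XT.nd (nat_lit 78) (nat_lit 228) (nat_lit 0) (XT.lf (nat_lit 0) (nat_lit 7003574623) (nat_lit 76) (nat_lit 12409857859) (nat_lit 152) (nat_lit 3022192264) (nat_lit 141) (nat_lit 5) (nat_lit 142) (nat_lit 5) (nat_lit 143) (nat_lit 4) (nat_lit 439) (nat_lit 335) (nat_lit 246)) (XT.lf (nat_lit 0) (nat_lit 103958717) (nat_lit 152) (nat_lit 4282669411) (nat_lit 228) (nat_lit 18470176089) (nat_lit 138) (nat_lit 5) (nat_lit 140) (nat_lit 5) (nat_lit 141) (nat_lit 5) (nat_lit 440) (nat_lit 335) (nat_lit 245))) (XT.nd (nat_lit 78) (nat_lit 76) (nat_lit 0) (XT.lf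 (nat_lit 0) (nat_lit 12122236901) (nat_lit 228) (nat_lit 6993874647) (nat_lit 76) (nat_lit 4168651836) (nat_lit 138) (nat_lit 5) (nat_lit 141) (nat_lit 5) (nat_lit 139) (nat_lit 4) (nat_lit 441) (nat_lit 335) (nat_lit 244)) (XT.lf (nat_lit 0) (nat_lit 9319499147) (nat_lit 76) (nat_lit 10871907923) (nat_lit 152) (nat_lit 3531109463) (nat_lit 137) (nat_lit 5) (nat_lit 138) (nat_lit 5) (nat_lit 139) (nat_lit 4) (nat_lit 442) (nat_lit 335) (nat_lit 243))))) (XT.nd (nat_lit 312) (nat_lit 304) (nat_lit 0) (XT.nd (nat_lit 156) (nat_lit 304) (nat_lit 0) (XT.nd (nat_lit 78) (nat_lit 0) (nat_lit 0) (XT.lf (nat_lit 0) (nat_lit 2033871942) (nat_lit 152) (nat_lit 2271318343) (nat_lit 228) (nat_lit 19865150944) (nat_lit 134) (nat_lit 5) (nat_lit 136) (nat_lit 5) (nat_lit 137) (nat_lit 5) (nat_lit 443) (nat_lit 335) (nat_lit 242)) (XT.lf (nat_lit 0) (nat_lit 12485430615) (nat_lit 228) (nat_lit 5525779121) (nat_lit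 76) (nat_lit 6613947384) (nat_lit 134) (nat_lit 5) (nat_lit 137) (nat_lit 5) (nat_lit 135) (nat_lit 4) (nat_lit 444) (nat_lit 335) (nat_lit 241))) (XT.nd (nat_lit 78) (nat_lit 228) (nat_lit 0) (XT.lf (nat_lit 0) (nat_lit 11733458044) (nat_lit 76) (nat_lit 9283402523) (nat_lit 152) (nat_lit 4073583449) (nat_lit 133) (nat_lit 5) (nat_lit 134) (nat_lit 5) (nat_lit 135) (nat_lit 4) (nat_lit 445) (nat_lit 335) (nat_lit 240)) (XT.lf (nat_lit 0) (nat_lit 4036965789) (nat_lit 152) (nat_lit 180644501) (nat_lit 228) (nat_lit 21348887150) (nat_lit 130) (nat_lit 5) (nat_lit 132) (nat_lit 5) (nat_lit 133) (nat_lit 5) (nat_lit 446) (nat_lit 335) (nat_lit 239)))) (XT.nd (nat_lit 156) (nat_lit 228) (nat_lit 0) (XT.nd (nat_lit 78) (nat_lit 76) (nat_lit 0) (XT.lf (nat_lit 0) (nat_lit 12870876038) (nat_lit 228) (nat_lit 4012651690) (nat_lit 76) (nat_lit 9166238428) (nat_lit 130) (nat_lit 5) (nat_lit 133) (nat_lit 5) (nat_lit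 131) (nat_lit 4) (nat_lit 447) (nat_lit 335) (nat_lit 238)) (XT.lf (nat_lit 0) (nat_lit 14251333158) (nat_lit 76) (nat_lit 7642650340) (nat_lit 152) (nat_lit 4650242123) (nat_lit 129) (nat_lit 5) (nat_lit 130) (nat_lit 5) (nat_lit 131) (nat_lit 4) (nat_lit 448) (nat_lit 335) (nat_lit 237))) (XT.nd (nat_lit 78) (nat_lit 0) (nat_lit 0) (XT.lf (nat_lit 0) (nat_lit 4143969311) (nat_lit 228) (nat_lit 20951659953) (nat_lit 76) (nat_lit 1953986020) (nat_lit 126) (nat_lit 5) (nat_lit 129) (nat_lit 5) (nat_lit 127) (nat_lit 4) (nat_lit 449) (nat_lit 335) (nat_lit 236)) (XT.lf (nat_lit 0) (nat_lit 13281127707) (nat_lit 228) (nat_lit 2451660723) (nat_lit 76) (nat_lit 11830819372) (nat_lit 126) (nat_lit 5) (nat_lit 129) (nat_lit 5) (nat_lit 127) (nat_lit 4) (nat_lit 450) (nat_lit 335) (nat_lit 235)))))) (XT.nd (nat_lit 546) (nat_lit 684) (nat_lit 0) (XT.nd (nat_lit 234) (nat_lit 380) (nat_lit 0) (XT.nd (nat_lit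 78) (nat_lit 228) (nat_lit 0) (XT.lf (nat_lit 0) (nat_lit 16879516653) (nat_lit 76) (nat_lit 5947521911) (nat_lit 152) (nat_lit 5261942400) (nat_lit 125) (nat_lit 5) (nat_lit 126) (nat_lit 5) (nat_lit 127) (nat_lit 4) (nat_lit 451) (nat_lit 335) (nat_lit 234)) (XT.nd (nat_lit 78) (nat_lit 0) (nat_lit 0) (XT.lf (nat_lit 0) (nat_lit 4068484441) (nat_lit 228) (nat_lit 20386630695) (nat_lit 76) (nat_lit 4170301324) (nat_lit 122) (nat_lit 5) (nat_lit 125) (nat_lit 5) (nat_lit 123) (nat_lit 4) (nat_lit 452) (nat_lit 335) (nat_lit 233)) (XT.lf (nat_lit 0) (nat_lit 13718726619) (nat_lit 228) (nat_lit 839670557) (nat_lit 76) (nat_lit 14613615021) (nat_lit 122) (nat_lit 5) (nat_lit 125) (nat_lit 5) (nat_lit 123) (nat_lit 4) (nat_lit 453) (nat_lit 335) (nat_lit 232)))) (XT.nd (nat_lit 156) (nat_lit 76) (nat_lit 0) (XT.nd (nat_lit 78) (nat_lit 228) (nat_lit 0) (XT.lf (nat_lit 0) (nat_lit 19624920991) (nat_lit 76)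 (nat_lit 4195465572) (nat_lit 152) (nat_lit 5909761928) (nat_lit 121) (nat_lit 5) (nat_lit 122) (nat_lit 5) (nat_lit 123) (nat_lit 4) (nat_lit 454) (nat_lit 335) (nat_lit 231)) (XT.lf (nat_lit 0) (nat_lit 3990156294) (nat_lit 228) (nat_lit 19833016735) (nat_lit 76) (nat_lit 6476327877) (nat_lit 118) (nat_lit 5) (nat_lit 121) (nat_lit 5) (nat_lit 119) (nat_lit 4) (nat_lit 455) (nat_lit 335) (nat_lit 230))) (XT.nd (nat_lit 78) (nat_lit 0) (nat_lit 0) (XT.lf (nat_lit 0) (nat_lit 843212329) (nat_lit 76) (nat_lit 13351112428) (nat_lit 152) (nat_lit 16686072770) (nat_lit 117) (nat_lit 5) (nat_lit 118) (nat_lit 5) (nat_lit 119) (nat_lit 4) (nat_lit 456) (nat_lit 335) (nat_lit 229)) (XT.lf (nat_lit 0) (nat_lit 22494991981) (nat_lit 76) (nat_lit 2383519469) (nat_lit 152) (nat_lit 6594992801) (nat_lit 117) (nat_lit 5) (nat_lit 118) (nat_lit 5) (nat_lit 119) (nat_lit 4) (nat_lit 457) (nat_lit 335) (nat_lit 228)))))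 (XT.nd (nat_lit 312) (nat_lit 304) (nat_lit 0) (XT.nd (nat_lit 156) (nat_lit 152) (nat_lit 0) (XT.nd (nat_lit 78) (nat_lit 76) (nat_lit 0) (XT.lf (nat_lit 0) (nat_lit 3909629919) (nat_lit 152) (nat_lit 19291047822) (nat_lit 76) (nat_lit 8877082770) (nat_lit 115) (nat_lit 5) (nat_lit 117) (nat_lit 5) (nat_lit 116) (nat_lit 4) (nat_lit 458) (nat_lit 335) (nat_lit 227)) (XT.lf (nat_lit 0) (nat_lit 2602147972) (nat_lit 76) (nat_lit 12109041180) (nat_lit 152) (nat_lit 17983565876) (nat_lit 114) (nat_lit 5) (nat_lit 115) (nat_lit 5) (nat_lit 116) (nat_lit 4) (nat_lit 459) (nat_lit 335) (nat_lit 226))) (XT.nd (nat_lit 78) (nat_lit 152) (nat_lit 0) (XT.lf (nat_lit 0) (nat_lit 25497724827) (nat_lit 76) (nat_lit 508319943) (nat_lit 152) (nat_lit 7319137124) (nat_lit 114) (nat_lit 5) (nat_lit 115) (nat_lit 5) (nat_lit 116) (nat_lit 4) (nat_lit 460) (nat_lit 335) (nat_lit 225)) (XT.lf (nat_lit 0) (nat_lit 3827468877)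 (nat_lit 152) (nat_lit 18760884317) (nat_lit 76) (nat_lit 11378098416) (nat_lit 112) (nat_lit 5) (nat_lit 114) (nat_lit 5) (nat_lit 113) (nat_lit 4) (nat_lit 461) (nat_lit 335) (nat_lit 224)))) (XT.nd (nat_lit 156) (nat_lit 228) (nat_lit 0) (XT.nd (nat_lit 78) (nat_lit 0) (nat_lit 0) (XT.lf (nat_lit 0) (nat_lit 4424560732) (nat_lit 76) (nat_lit 10839177340) (nat_lit 152) (nat_lit 19357976172) (nat_lit 111) (nat_lit 5) (nat_lit 112) (nat_lit 5) (nat_lit 113) (nat_lit 4) (nat_lit 462) (nat_lit 335) (nat_lit 223)) (XT.lf (nat_lit 0) (nat_lit 27221573112) (nat_lit 152) (nat_lit 6663794298) (nat_lit 0) (nat_lit 1405913013) (nat_lit 111) (nat_lit 5) (nat_lit 113) (nat_lit 4) (nat_lit 111) (nat_lit 4) (nat_lit 463) (nat_lit 335) (nat_lit 222))) (XT.nd (nat_lit 78) (nat_lit 76) (nat_lit 0) (XT.lf (nat_lit 0) (nat_lit 3744164613) (nat_lit 152) (nat_lit 18242626205) (nat_lit 76) (nat_lit 13985425880) (nat_lit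 109) (nat_lit 5) (nat_lit 111) (nat_lit 5) (nat_lit 110) (nat_lit 4) (nat_lit 464) (nat_lit 335) (nat_lit 221)) (XT.lf (nat_lit 0) (nat_lit 6314908000) (nat_lit 76) (nat_lit 9539773855) (nat_lit 152) (nat_lit 20813369593) (nat_lit 108) (nat_lit 5) (nat_lit 109) (nat_lit 5) (nat_lit 110) (nat_lit 4) (nat_lit 465) (nat_lit 335) (nat_lit 220))))))) (XT.nd (nat_lit 1170) (nat_lit 1064) (nat_lit 0) (XT.nd (nat_lit 546) (nat_lit 684) (nat_lit 0) (XT.nd (nat_lit 234) (nat_lit 228) (nat_lit 0) (XT.nd (nat_lit 78) (nat_lit 228) (nat_lit 0) (XT.lf (nat_lit 0) (nat_lit 28521881891) (nat_lit 152) (nat_lit 5477071125) (nat_lit 0) (nat_lit 3380007208) (nat_lit 108) (nat_lit 5) (nat_lit 110) (nat_lit 4) (nat_lit 108) (nat_lit 4) (nat_lit 466) (nat_lit 335) (nat_lit 219)) (XT.nd (nat_lit 78) (nat_lit 76) (nat_lit 0) (XT.lf (nat_lit 0) (nat_lit 3660144763) (nat_lit 152) (nat_lit 17736321066) (nat_lit 76) (nat_lit 16705641672)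 (nat_lit 106) (nat_lit 5) (nat_lit 108) (nat_lit 5) (nat_lit 107) (nat_lit 4) (nat_lit 467) (nat_lit 335) (nat_lit 218)) (XT.lf (nat_lit 0) (nat_lit 8277977165) (nat_lit 76) (nat_lit 8208829529) (nat_lit 152) (nat_lit 22354153469) (nat_lit 105) (nat_lit 5) (nat_lit 106) (nat_lit 5) (nat_lit 107) (nat_lit 4) (nat_lit 468) (nat_lit 335) (nat_lit 217)))) (XT.nd (nat_lit 156) (nat_lit 76) (nat_lit 0) (XT.nd (nat_lit 78) (nat_lit 152) (nat_lit 0) (XT.lf (nat_lit 0) (nat_lit 29907346079) (nat_lit 152) (nat_lit 4260015830) (nat_lit 0) (nat_lit 5428344168) (nat_lit 105) (nat_lit 5) (nat_lit 107) (nat_lit 4) (nat_lit 105) (nat_lit 4) (nat_lit 469) (nat_lit 335) (nat_lit 216)) (XT.lf (nat_lit 0) (nat_lit 3575780535) (nat_lit 152) (nat_lit 17241971121) (nat_lit 76) (nat_lit 19545857857) (nat_lit 103) (nat_lit 5) (nat_lit 105) (nat_lit 5) (nat_lit 104) (nat_lit 4) (nat_lit 470) (nat_lit 335) (nat_lit 215))) (XT.nd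 (nat_lit 78) (nat_lit 0) (nat_lit 0) (XT.lf (nat_lit 0) (nat_lit 10318895551) (nat_lit 76) (nat_lit 6844094496) (nat_lit 152) (nat_lit 23985086137) (nat_lit 102) (nat_lit 5) (nat_lit 103) (nat_lit 5) (nat_lit 104) (nat_lit 4) (nat_lit 471) (nat_lit 335) (nat_lit 214)) (XT.lf (nat_lit 0) (nat_lit 31383473596) (nat_lit 152) (nat_lit 3010055393) (nat_lit 0) (nat_lit 7555778136) (nat_lit 102) (nat_lit 5) (nat_lit 104) (nat_lit 4) (nat_lit 102) (nat_lit 4) (nat_lit 472) (nat_lit 335) (nat_lit 213))))) (XT.nd (nat_lit 312) (nat_lit 304) (nat_lit 0) (XT.nd (nat_lit 156) (nat_lit 152) (nat_lit 0) (XT.nd (nat_lit 78) (nat_lit 76) (nat_lit 0) (XT.lf (nat_lit 0) (nat_lit 3491393254) (nat_lit 152) (nat_lit 16759539454) (nat_lit 76) (nat_lit 22513735341) (nat_lit 100) (nat_lit 5) (nat_lit 102) (nat_lit 5) (nat_lit 101) (nat_lit 4) (nat_lit 473) (nat_lit 335) (nat_lit 212)) (XT.lf (nat_lit 0) (nat_lit 12443142207)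 (nat_lit 76) (nat_lit 5443073571) (nat_lit 152) (nat_lit 25711288407) (nat_lit 99) (nat_lit 5) (nat_lit 100) (nat_lit 5) (nat_lit 101) (nat_lit 4) (nat_lit 474) (nat_lit 335) (nat_lit 211))) (XT.nd (nat_lit 78) (nat_lit 152) (nat_lit 0) (XT.lf (nat_lit 0) (nat_lit 32956043135) (nat_lit 152) (nat_lit 1724425957) (nat_lit 0) (nat_lit 9767561507) (nat_lit 99) (nat_lit 5) (nat_lit 101) (nat_lit 4) (nat_lit 99) (nat_lit 4) (nat_lit 475) (nat_lit 335) (nat_lit 210)) (XT.lf (nat_lit 0) (nat_lit 3407260174) (nat_lit 152) (nat_lit 16288955514) (nat_lit 76) (nat_lit 25617500258) (nat_lit 97) (nat_lit 5) (nat_lit 99) (nat_lit 5) (nat_lit 98) (nat_lit 4) (nat_lit 476) (nat_lit 335) (nat_lit 209)))) (XT.nd (nat_lit 156) (nat_lit 228) (nat_lit 0) (XT.nd (nat_lit 78) (nat_lit 0) (nat_lit 0) (XT.lf (nat_lit 0) (nat_lit 14656561502) (nat_lit 76) (nat_lit 4003027605) (nat_lit 152) (nat_lit 27538256842) (nat_lit 96) (nat_lit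 5) (nat_lit 97) (nat_lit 5) (nat_lit 98) (nat_lit 4) (nat_lit 477) (nat_lit 335) (nat_lit 208)) (XT.lf (nat_lit 0) (nat_lit 34631128700) (nat_lit 152) (nat_lit 400168359) (nat_lit 0) (nat_lit 12069353569) (nat_lit 96) (nat_lit 5) (nat_lit 98) (nat_lit 4) (nat_lit 96) (nat_lit 4) (nat_lit 478) (nat_lit 335) (nat_lit 207))) (XT.nd (nat_lit 78) (nat_lit 76) (nat_lit 0) (XT.lf (nat_lit 0) (nat_lit 3323619629) (nat_lit 152) (nat_lit 15830119959) (nat_lit 76) (nat_lit 28865963361) (nat_lit 94) (nat_lit 5) (nat_lit 96) (nat_lit 5) (nat_lit 95) (nat_lit 4) (nat_lit 479) (nat_lit 335) (nat_lit 206)) (XT.lf (nat_lit 0) (nat_lit 16965378531) (nat_lit 76) (nat_lit 2520972993) (nat_lit 152) (nat_lit 29471878861) (nat_lit 93) (nat_lit 5) (nat_lit 94) (nat_lit 5) (nat_lit 95) (nat_lit 4) (nat_lit 480) (nat_lit 335) (nat_lit 205)))))) (XT.nd (nat_lit 624) (nat_lit 456) (nat_lit 0) (XT.nd (nat_lit 312) (nat_lit 304)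 (nat_lit 0) (XT.nd (nat_lit 156) (nat_lit 152) (nat_lit 0) (XT.nd (nat_lit 78) (nat_lit 76) (nat_lit 0) (XT.lf (nat_lit 0) (nat_lit 985100346) (nat_lit 76) (nat_lit 35439493760) (nat_lit 76) (nat_lit 13491600676) (nat_lit 92) (nat_lit 4) (nat_lit 93) (nat_lit 5) (nat_lit 93) (nat_lit 4) (nat_lit 481) (nat_lit 335) (nat_lit 204)) (XT.lf (nat_lit 0) (nat_lit 3240675609) (nat_lit 152) (nat_lit 15382908939) (nat_lit 76) (nat_lit 32268542398) (nat_lit 91) (nat_lit 5) (nat_lit 93) (nat_lit 5) (nat_lit 92) (nat_lit 4) (nat_lit 482) (nat_lit 335) (nat_lit 203))) (XT.nd (nat_lit 78) (nat_lit 76) (nat_lit 0) (XT.lf (nat_lit 0) (nat_lit 19376216309) (nat_lit 76) (nat_lit 993679420) (nat_lit 152) (nat_lit 31518449639) (nat_lit 90) (nat_lit 5) (nat_lit 91) (nat_lit 5) (nat_lit 92) (nat_lit 4) (nat_lit 483) (nat_lit 335) (nat_lit 202)) (XT.lf (nat_lit 0) (nat_lit 2424387928) (nat_lit 76) (nat_lit 35913688634) (nat_lit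 76) (nat_lit 14566621258) (nat_lit 89) (nat_lit 4) (nat_lit 90) (nat_lit 5) (nat_lit 90) (nat_lit 4) (nat_lit 484) (nat_lit 335) (nat_lit 201)))) (XT.nd (nat_lit 156) (nat_lit 152) (nat_lit 0) (XT.nd (nat_lit 78) (nat_lit 76) (nat_lit 0) (XT.lf (nat_lit 0) (nat_lit 3158601817) (nat_lit 152) (nat_lit 14947177865) (nat_lit 76) (nat_lit 35835287437) (nat_lit 88) (nat_lit 5) (nat_lit 90) (nat_lit 5) (nat_lit 89) (nat_lit 4) (nat_lit 485) (nat_lit 335) (nat_lit 200)) (XT.lf (nat_lit 0) (nat_lit 21319378488) (nat_lit 152) (nat_lit 33107954536) (nat_lit 0) (nat_lit 570970608) (nat_lit 87) (nat_lit 5) (nat_lit 89) (nat_lit 4) (nat_lit 87) (nat_lit 4) (nat_lit 486) (nat_lit 335) (nat_lit 199))) (XT.nd (nat_lit 78) (nat_lit 76) (nat_lit 0) (XT.lf (nat_lit 0) (nat_lit 3913384939) (nat_lit 76) (nat_lit 36461416621) (nat_lit 76) (nat_lit 15701960987) (nat_lit 86) (nat_lit 4) (nat_lit 87) (nat_lit 5) (nat_lit 87)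 (nat_lit 4) (nat_lit 487) (nat_lit 335) (nat_lit 198)) (XT.lf (nat_lit 0) (nat_lit 3077545261) (nat_lit 152) (nat_lit 14522764726) (nat_lit 76) (nat_lit 39576909139) (nat_lit 85) (nat_lit 5) (nat_lit 87) (nat_lit 5) (nat_lit 86) (nat_lit 4) (nat_lit 488) (nat_lit 335) (nat_lit 197))))) (XT.nd (nat_lit 312) (nat_lit 152) (nat_lit 0) (XT.nd (nat_lit 156) (nat_lit 152) (nat_lit 0) (XT.nd (nat_lit 78) (nat_lit 76) (nat_lit 0) (XT.lf (nat_lit 0) (nat_lit 22342998811) (nat_lit 152) (nat_lit 33788218275) (nat_lit 0) (nat_lit 2167663689) (nat_lit 84) (nat_lit 5) (nat_lit 86) (nat_lit 4) (nat_lit 84) (nat_lit 4) (nat_lit 489) (nat_lit 335) (nat_lit 196)) (XT.lf (nat_lit 0) (nat_lit 5455975099) (nat_lit 76) (nat_lit 37086345472) (nat_lit 76) (nat_lit 16901194564) (nat_lit 83) (nat_lit 4) (nat_lit 84) (nat_lit 5) (nat_lit 84) (nat_lit 4) (nat_lit 490) (nat_lit 335) (nat_lit 195))) (XT.nd (nat_lit 78) (nat_lit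 76) (nat_lit 0) (XT.lf (nat_lit 0) (nat_lit 2997629451) (nat_lit 152) (nat_lit 14109493009) (nat_lit 76) (nat_lit 43504810000) (nat_lit 82) (nat_lit 5) (nat_lit 84) (nat_lit 5) (nat_lit 83) (nat_lit 4) (nat_lit 491) (nat_lit 335) (nat_lit 194)) (XT.lf (nat_lit 0) (nat_lit 23435181276) (nat_lit 152) (nat_lit 34547044834) (nat_lit 0) (nat_lit 3819712230) (nat_lit 81) (nat_lit 5) (nat_lit 83) (nat_lit 4) (nat_lit 81) (nat_lit 4) (nat_lit 492) (nat_lit 335) (nat_lit 193)))) (XT.nd (nat_lit 41808) (nat_lit 0) (nat_lit 32376) (XT.nd (nat_lit 78) (nat_lit 76) (nat_lit 0) (XT.lf (nat_lit 0) (nat_lit 7056281441) (nat_lit 76) (nat_lit 37792335243) (nat_lit 76) (nat_lit 18168144999) (nat_lit 80) (nat_lit 4) (nat_lit 81) (nat_lit 5) (nat_lit 81) (nat_lit 4) (nat_lit 493) (nat_lit 335) (nat_lit 192)) (XT.lf (nat_lit 0) (nat_lit 2918957221) (nat_lit 152) (nat_lit 13707174267) (nat_lit 76) (nat_lit 47631118613) (nat_lit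 79) (nat_lit 5) (nat_lit 81) (nat_lit 5) (nat_lit 80) (nat_lit 4) (nat_lit 494) (nat_lit 335) (nat_lit 191))) (XT.nd (nat_lit 78) (nat_lit 0) (nat_lit 0) (XT.lf (nat_lit 0) (nat_lit 575544218) (nat_lit 380) (nat_lit 2103663882) (nat_lit 0) (nat_lit 575544218) (nat_lit 505) (nat_lit 5) (nat_lit 510) (nat_lit 4) (nat_lit 505) (nat_lit 4) (nat_lit 348) (nat_lit 336) (nat_lit 336)) (XT.lf (nat_lit 0) (nat_lit 4386097540) (nat_lit 380) (nat_lit 374799723) (nat_lit 0) (nat_lit 1766946453) (nat_lit 505) (nat_lit 5) (nat_lit 510) (nat_lit 4) (nat_lit 505) (nat_lit 4) (nat_lit 349) (nat_lit 336) (nat_lit 335))))))))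
noncomputable def xc89 : XT := (XT.nd (nat_lit 2340) (nat_lit 7980) (nat_lit 0) (XT.nd (nat_lit 1170) (nat_lit 7980) (nat_lit 0) (XT.nd (nat_lit 546) (nat_lit 4864) (nat_lit 0) (XT.nd (nat_lit 234) (nat_lit 1900) (nat_lit 0) (XT.nd (nat_lit 78) (nat_lit 532) (nat_lit 0) (XT.lf (nat_lit 0) (nat_lit 1068086044) (nat_lit 456) (nat_lit 2993801550) (nat_lit 76) (nat_lit 2486921933) (nat_lit 499) (nat_lit 5) (nat_lit 505) (nat_lit 5) (nat_lit 500) (nat_lit 4) (nat_lit 350) (nat_lit 336) (nat_lit 334)) (XT.nd (nat_lit 78) (nat_lit 76) (nat_lit 0) (XT.lf (nat_lit 0) (nat_lit 959603916) (nat_lit 456) (nat_lit 3272130683) (nat_lit 532) (nat_lit 2341016502) (nat_lit 493) (nat_lit 5) (nat_lit 499) (nat_lit 5) (nat_lit 500) (nat_lit 4) (nat_lit 351) (nat_lit 336) (nat_lit 333)) (XT.lf (nat_lit 0) (nat_lit 794956284) (nat_lit 532) (nat_lit 1591830633) (nat_lit 76) (nat_lit 4212781580) (nat_lit 492) (nat_lit 5) (nat_lit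 499) (nat_lit 5) (nat_lit 493) (nat_lit 5) (nat_lit 352) (nat_lit 336) (nat_lit 332)))) (XT.nd (nat_lit 156) (nat_lit 684) (nat_lit 0) (XT.nd (nat_lit 78) (nat_lit 684) (nat_lit 0) (XT.lf (nat_lit 0) (nat_lit 2498590968) (nat_lit 532) (nat_lit 1395584213) (nat_lit 608) (nat_lit 2734833311) (nat_lit 485) (nat_lit 5) (nat_lit 492) (nat_lit 5) (nat_lit 493) (nat_lit 5) (nat_lit 353) (nat_lit 336) (nat_lit 331)) (XT.lf (nat_lit 0) (nat_lit 2822834) (nat_lit 608) (nat_lit 325707058) (nat_lit 684) (nat_lit 6333383925) (nat_lit 476) (nat_lit 5) (nat_lit 484) (nat_lit 5) (nat_lit 485) (nat_lit 5) (nat_lit 354) (nat_lit 336) (nat_lit 330))) (XT.nd (nat_lit 78) (nat_lit 684) (nat_lit 0) (XT.lf (nat_lit 0) (nat_lit 3374580632) (nat_lit 684) (nat_lit 2465859155) (nat_lit 76) (nat_lit 856181566) (nat_lit 476) (nat_lit 5) (nat_lit 485) (nat_lit 5) (nat_lit 477) (nat_lit 5) (nat_lit 355) (nat_lit 336) (nat_lit 329))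 (XT.lf (nat_lit 0) (nat_lit 1806475678) (nat_lit 684) (nat_lit 4625321213) (nat_lit 760) (nat_lit 302979705) (nat_lit 467) (nat_lit 5) (nat_lit 476) (nat_lit 5) (nat_lit 477) (nat_lit 5) (nat_lit 356) (nat_lit 336) (nat_lit 328))))) (XT.nd (nat_lit 312) (nat_lit 3116) (nat_lit 0) (XT.nd (nat_lit 156) (nat_lit 912) (nat_lit 0) (XT.nd (nat_lit 78) (nat_lit 760) (nat_lit 0) (XT.lf (nat_lit 0) (nat_lit 2677436716) (nat_lit 760) (nat_lit 622957391) (nat_lit 76) (nat_lit 3475106466) (nat_lit 466) (nat_lit 5) (nat_lit 476) (nat_lit 5) (nat_lit 467) (nat_lit 5) (nat_lit 357) (nat_lit 336) (nat_lit 327)) (XT.lf (nat_lit 0) (nat_lit 3805197466) (nat_lit 760) (nat_lit 1875861900) (nat_lit 836) (nat_lit 1138100410) (nat_lit 456) (nat_lit 5) (nat_lit 466) (nat_lit 5) (nat_lit 467) (nat_lit 5) (nat_lit 358) (nat_lit 336) (nat_lit 326))) (XT.nd (nat_lit 78) (nat_lit 0) (nat_lit 0) (XT.lf (nat_lit 0) (nat_lit 1446073127)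 (nat_lit 836) (nat_lit 352004728) (nat_lit 912) (nat_lit 5067758911) (nat_lit 444) (nat_lit 5) (nat_lit 455) (nat_lit 5) (nat_lit 456) (nat_lit 5) (nat_lit 359) (nat_lit 336) (nat_lit 325)) (XT.lf (nat_lit 0) (nat_lit 4748536651) (nat_lit 912) (nat_lit 915508040) (nat_lit 76) (nat_lit 1251059230) (nat_lit 444) (nat_lit 5) (nat_lit 456) (nat_lit 5) (nat_lit 445) (nat_lit 5) (nat_lit 360) (nat_lit 336) (nat_lit 324)))) (XT.nd (nat_lit 156) (nat_lit 1140) (nat_lit 0) (XT.nd (nat_lit 78) (nat_lit 988) (nat_lit 0) (XT.lf (nat_lit 0) (nat_lit 753655317) (nat_lit 988) (nat_lit 3260481494) (nat_lit 76) (nat_lit 2953034468) (nat_lit 431) (nat_lit 5) (nat_lit 444) (nat_lit 5) (nat_lit 432) (nat_lit 5) (nat_lit 361) (nat_lit 336) (nat_lit 323)) (XT.lf (nat_lit 0) (nat_lit 1391831342) (nat_lit 988) (nat_lit 2259185507) (nat_lit 1064) (nat_lit 3371147930) (nat_lit 418) (nat_lit 5) (nat_lit 431) (nat_lit 5) (nat_lit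 432) (nat_lit 5) (nat_lit 362) (nat_lit 336) (nat_lit 322))) (XT.nd (nat_lit 78) (nat_lit 1140) (nat_lit 0) (XT.lf (nat_lit 0) (nat_lit 6171747607) (nat_lit 988) (nat_lit 408692009) (nat_lit 1064) (nat_lit 500014257) (nat_lit 418) (nat_lit 5) (nat_lit 431) (nat_lit 5) (nat_lit 432) (nat_lit 5) (nat_lit 363) (nat_lit 336) (nat_lit 321)) (XT.lf (nat_lit 0) (nat_lit 2376080746) (nat_lit 1140) (nat_lit 3226902870) (nat_lit 76) (nat_lit 1537796088) (nat_lit 403) (nat_lit 5) (nat_lit 418) (nat_lit 5) (nat_lit 404) (nat_lit 5) (nat_lit 364) (nat_lit 336) (nat_lit 320)))))) (XT.nd (nat_lit 546) (nat_lit 3344) (nat_lit 0) (XT.nd (nat_lit 234) (nat_lit 2204) (nat_lit 0) (XT.nd (nat_lit 78) (nat_lit 1292) (nat_lit 0) (XT.lf (nat_lit 0) (nat_lit 1639990482) (nat_lit 1140) (nat_lit 3633253571) (nat_lit 1216) (nat_lit 1931177683) (nat_lit 388) (nat_lit 5) (nat_lit 403) (nat_lit 5) (nat_lit 404) (nat_lit 5) (nat_lit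 365) (nat_lit 336) (nat_lit 319)) (XT.nd (nat_lit 78) (nat_lit 1216) (nat_lit 0) (XT.lf (nat_lit 0) (nat_lit 917622107) (nat_lit 1216) (nat_lit 640693205) (nat_lit 76) (nat_lit 5712886796) (nat_lit 387) (nat_lit 5) (nat_lit 403) (nat_lit 5) (nat_lit 388) (nat_lit 5) (nat_lit 366) (nat_lit 336) (nat_lit 318)) (XT.lf (nat_lit 0) (nat_lit 3780809219) (nat_lit 1292) (nat_lit 2927456345) (nat_lit 76) (nat_lit 632114569) (nat_lit 371) (nat_lit 5) (nat_lit 388) (nat_lit 5) (nat_lit 372) (nat_lit 5) (nat_lit 367) (nat_lit 336) (nat_lit 317)))) (XT.nd (nat_lit 156) (nat_lit 1292) (nat_lit 0) (XT.nd (nat_lit 78) (nat_lit 76) (nat_lit 0) (XT.lf (nat_lit 0) (nat_lit 2166434979) (nat_lit 836) (nat_lit 4526928944) (nat_lit 912) (nat_lit 719365415) (nat_lit 360) (nat_lit 5) (nat_lit 371) (nat_lit 5) (nat_lit 372) (nat_lit 5) (nat_lit 368) (nat_lit 336) (nat_lit 316)) (XT.lf (nat_lit 0) (nat_lit 2114313709) (nat_lit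 912) (nat_lit 115675112) (nat_lit 76) (nat_lit 5258084562) (nat_lit 359) (nat_lit 5) (nat_lit 371) (nat_lit 5) (nat_lit 360) (nat_lit 5) (nat_lit 369) (nat_lit 336) (nat_lit 315))) (XT.nd (nat_lit 78) (nat_lit 684) (nat_lit 0) (XT.lf (nat_lit 0) (nat_lit 4993975177) (nat_lit 684) (nat_lit 2383808390) (nat_lit 76) (nat_lit 188417594) (nat_lit 351) (nat_lit 5) (nat_lit 360) (nat_lit 5) (nat_lit 352) (nat_lit 5) (nat_lit 370) (nat_lit 336) (nat_lit 314)) (XT.lf (nat_lit 0) (nat_lit 283822839) (nat_lit 684) (nat_lit 4699581596) (nat_lit 76) (nat_lit 2663880459) (nat_lit 342) (nat_lit 5) (nat_lit 351) (nat_lit 5) (nat_lit 343) (nat_lit 5) (nat_lit 371) (nat_lit 336) (nat_lit 313))))) (XT.nd (nat_lit 312) (nat_lit 1596) (nat_lit 0) (XT.nd (nat_lit 156) (nat_lit 1216) (nat_lit 0) (XT.nd (nat_lit 78) (nat_lit 0) (nat_lit 0) (XT.lf (nat_lit 0) (nat_lit 664464595) (nat_lit 532) (nat_lit 2465968887) (nat_lit 608)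 (nat_lit 4600906245) (nat_lit 335) (nat_lit 5) (nat_lit 342) (nat_lit 5) (nat_lit 343) (nat_lit 5) (nat_lit 372) (nat_lit 336) (nat_lit 312)) (XT.lf (nat_lit 0) (nat_lit 6038792553) (nat_lit 608) (nat_lit 1614477555) (nat_lit 76) (nat_lit 165355591) (nat_lit 335) (nat_lit 5) (nat_lit 343) (nat_lit 5) (nat_lit 336) (nat_lit 5) (nat_lit 373) (nat_lit 336) (nat_lit 311))) (XT.nd (nat_lit 78) (nat_lit 532) (nat_lit 0) (XT.lf (nat_lit 0) (nat_lit 1095771255) (nat_lit 684) (nat_lit 3944545538) (nat_lit 76) (nat_lit 2868132714) (nat_lit 326) (nat_lit 5) (nat_lit 335) (nat_lit 5) (nat_lit 327) (nat_lit 5) (nat_lit 374) (nat_lit 336) (nat_lit 310)) (XT.lf (nat_lit 0) (nat_lit 1676905593) (nat_lit 532) (nat_lit 2307485800) (nat_lit 608) (nat_lit 4017172357) (nat_lit 319) (nat_lit 5) (nat_lit 326) (nat_lit 5) (nat_lit 327) (nat_lit 5) (nat_lit 375) (nat_lit 336) (nat_lit 309)))) (XT.nd (nat_lit 156) (nat_lit 988)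 (nat_lit 0) (XT.nd (nat_lit 78) (nat_lit 608) (nat_lit 0) (XT.lf (nat_lit 0) (nat_lit 6935883538) (nat_lit 608) (nat_lit 635148095) (nat_lit 76) (nat_lit 527153386) (nat_lit 319) (nat_lit 5) (nat_lit 327) (nat_lit 5) (nat_lit 320) (nat_lit 5) (nat_lit 376) (nat_lit 336) (nat_lit 308)) (XT.lf (nat_lit 0) (nat_lit 1749766992) (nat_lit 608) (nat_lit 2989600384) (nat_lit 76) (nat_lit 3457637225) (nat_lit 311) (nat_lit 5) (nat_lit 319) (nat_lit 5) (nat_lit 312) (nat_lit 5) (nat_lit 377) (nat_lit 336) (nat_lit 307))) (XT.nd (nat_lit 78) (nat_lit 532) (nat_lit 0) (XT.lf (nat_lit 0) (nat_lit 2905142669) (nat_lit 456) (nat_lit 1788758487) (nat_lit 532) (nat_lit 3605500435) (nat_lit 305) (nat_lit 5) (nat_lit 311) (nat_lit 5) (nat_lit 312) (nat_lit 5) (nat_lit 378) (nat_lit 336) (nat_lit 306)) (XT.lf (nat_lit 0) (nat_lit 551821904) (nat_lit 532) (nat_lit 7157053335) (nat_lit 608) (nat_lit 696519774) (nat_lit 298)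 (nat_lit 5) (nat_lit 305) (nat_lit 5) (nat_lit 306) (nat_lit 5) (nat_lit 379) (nat_lit 336) (nat_lit 305))))))) (XT.nd (nat_lit 1170) (nat_lit 3648) (nat_lit 0) (XT.nd (nat_lit 546) (nat_lit 1976) (nat_lit 0) (XT.nd (nat_lit 234) (nat_lit 1368) (nat_lit 0) (XT.nd (nat_lit 78) (nat_lit 912) (nat_lit 0) (XT.lf (nat_lit 0) (nat_lit 2262778315) (nat_lit 608) (nat_lit 1847601789) (nat_lit 76) (nat_lit 4403287221) (nat_lit 297) (nat_lit 5) (nat_lit 305) (nat_lit 5) (nat_lit 298) (nat_lit 5) (nat_lit 380) (nat_lit 336) (nat_lit 304)) (XT.nd (nat_lit 78) (nat_lit 456) (nat_lit 0) (XT.lf (nat_lit 0) (nat_lit 4337482979) (nat_lit 456) (nat_lit 938157639) (nat_lit 532) (nat_lit 3349976761) (nat_lit 291) (nat_lit 5) (nat_lit 297) (nat_lit 5) (nat_lit 298) (nat_lit 5) (nat_lit 381) (nat_lit 336) (nat_lit 303)) (XT.lf (nat_lit 0) (nat_lit 1941197373) (nat_lit 456) (nat_lit 6435599741) (nat_lit 532) (nat_lit 364191572)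 (nat_lit 285) (nat_lit 5) (nat_lit 291) (nat_lit 5) (nat_lit 292) (nat_lit 5) (nat_lit 382) (nat_lit 336) (nat_lit 302)))) (XT.nd (nat_lit 156) (nat_lit 912) (nat_lit 0) (XT.nd (nat_lit 78) (nat_lit 380) (nat_lit 0) (XT.lf (nat_lit 0) (nat_lit 2649741226) (nat_lit 532) (nat_lit 529168050) (nat_lit 76) (nat_lit 5680385654) (nat_lit 284) (nat_lit 5) (nat_lit 291) (nat_lit 5) (nat_lit 285) (nat_lit 5) (nat_lit 383) (nat_lit 336) (nat_lit 301)) (XT.lf (nat_lit 0) (nat_lit 5746474901) (nat_lit 456) (nat_lit 3018717155) (nat_lit 76) (nat_lit 215859045) (nat_lit 279) (nat_lit 5) (nat_lit 285) (nat_lit 5) (nat_lit 280) (nat_lit 5) (nat_lit 384) (nat_lit 336) (nat_lit 300))) (XT.nd (nat_lit 78) (nat_lit 456) (nat_lit 0) (XT.lf (nat_lit 0) (nat_lit 3511456102) (nat_lit 456) (nat_lit 5436354603) (nat_lit 532) (nat_lit 158298249) (nat_lit 273) (nat_lit 5) (nat_lit 279) (nat_lit 5) (nat_lit 280) (nat_lit 5) (nat_lit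 385) (nat_lit 336) (nat_lit 299)) (XT.lf (nat_lit 0) (nat_lit 976161095) (nat_lit 380) (nat_lit 1957002855) (nat_lit 456) (nat_lit 6301437385) (nat_lit 267) (nat_lit 5) (nat_lit 272) (nat_lit 5) (nat_lit 273) (nat_lit 5) (nat_lit 386) (nat_lit 336) (nat_lit 298))))) (XT.nd (nat_lit 312) (nat_lit 1140) (nat_lit 0) (XT.nd (nat_lit 156) (nat_lit 456) (nat_lit 0) (XT.nd (nat_lit 78) (nat_lit 380) (nat_lit 0) (XT.lf (nat_lit 0) (nat_lit 6129101795) (nat_lit 456) (nat_lit 1604046515) (nat_lit 76) (nat_lit 1633305755) (nat_lit 267) (nat_lit 5) (nat_lit 273) (nat_lit 5) (nat_lit 268) (nat_lit 5) (nat_lit 387) (nat_lit 336) (nat_lit 297)) (XT.lf (nat_lit 0) (nat_lit 5255671037) (nat_lit 380) (nat_lit 4179048503) (nat_lit 456) (nat_lit 67128783) (nat_lit 262) (nat_lit 5) (nat_lit 267) (nat_lit 5) (nat_lit 268) (nat_lit 5) (nat_lit 388) (nat_lit 336) (nat_lit 296))) (XT.nd (nat_lit 78) (nat_lit 0) (nat_lit 0)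 (XT.lf (nat_lit 0) (nat_lit 2656335712) (nat_lit 380) (nat_lit 465604213) (nat_lit 456) (nat_lit 6518857783) (nat_lit 256) (nat_lit 5) (nat_lit 261) (nat_lit 5) (nat_lit 262) (nat_lit 5) (nat_lit 389) (nat_lit 336) (nat_lit 295)) (XT.lf (nat_lit 0) (nat_lit 6425848939) (nat_lit 456) (nat_lit 41550718) (nat_lit 76) (nat_lit 3315880456) (nat_lit 256) (nat_lit 5) (nat_lit 262) (nat_lit 5) (nat_lit 257) (nat_lit 5) (nat_lit 390) (nat_lit 336) (nat_lit 294)))) (XT.nd (nat_lit 156) (nat_lit 380) (nat_lit 0) (XT.nd (nat_lit 78) (nat_lit 380) (nat_lit 0) (XT.lf (nat_lit 0) (nat_lit 7168704049) (nat_lit 380) (nat_lit 2680219008) (nat_lit 456) (nat_lit 80512497) (nat_lit 251) (nat_lit 5) (nat_lit 256) (nat_lit 5) (nat_lit 257) (nat_lit 5) (nat_lit 391) (nat_lit 336) (nat_lit 293)) (XT.lf (nat_lit 0) (nat_lit 3233153516) (nat_lit 380) (nat_lit 5595890030) (nat_lit 76) (nat_lit 1249900044) (nat_lit 246) (nat_lit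 5) (nat_lit 251) (nat_lit 5) (nat_lit 247) (nat_lit 5) (nat_lit 392) (nat_lit 336) (nat_lit 292))) (XT.nd (nat_lit 78) (nat_lit 0) (nat_lit 0) (XT.lf (nat_lit 0) (nat_lit 1697022467) (nat_lit 380) (nat_lit 4966025736) (nat_lit 456) (nat_lit 3569311641) (nat_lit 241) (nat_lit 5) (nat_lit 246) (nat_lit 5) (nat_lit 247) (nat_lit 5) (nat_lit 393) (nat_lit 336) (nat_lit 291)) (XT.lf (nat_lit 0) (nat_lit 9247062241) (nat_lit 380) (nat_lit 953515239) (nat_lit 456) (nat_lit 189658974) (nat_lit 241) (nat_lit 5) (nat_lit 246) (nat_lit 5) (nat_lit 247) (nat_lit 5) (nat_lit 394) (nat_lit 336) (nat_lit 290)))))) (XT.nd (nat_lit 624) (nat_lit 1672) (nat_lit 0) (XT.nd (nat_lit 312) (nat_lit 912) (nat_lit 0) (XT.nd (nat_lit 156) (nat_lit 380) (nat_lit 0) (XT.nd (nat_lit 78) (nat_lit 304) (nat_lit 0) (XT.lf (nat_lit 0) (nat_lit 3270047263) (nat_lit 380) (nat_lit 4092195644) (nat_lit 76) (nat_lit 3188370568) (nat_lit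 236) (nat_lit 5) (nat_lit 241) (nat_lit 5) (nat_lit 237) (nat_lit 5) (nat_lit 395) (nat_lit 336) (nat_lit 289)) (XT.lf (nat_lit 0) (nat_lit 3578753112) (nat_lit 304) (nat_lit 3256248388) (nat_lit 380) (nat_lit 3880585910) (nat_lit 232) (nat_lit 5) (nat_lit 236) (nat_lit 5) (nat_lit 237) (nat_lit 5) (nat_lit 396) (nat_lit 336) (nat_lit 288))) (XT.nd (nat_lit 78) (nat_lit 76) (nat_lit 0) (XT.lf (nat_lit 0) (nat_lit 605313335) (nat_lit 304) (nat_lit 9908761046) (nat_lit 380) (nat_lit 371221082) (nat_lit 228) (nat_lit 5) (nat_lit 232) (nat_lit 5) (nat_lit 233) (nat_lit 5) (nat_lit 397) (nat_lit 336) (nat_lit 287)) (XT.lf (nat_lit 0) (nat_lit 3235660336) (nat_lit 380) (nat_lit 2472461255) (nat_lit 76) (nat_lit 5349372037) (nat_lit 227) (nat_lit 5) (nat_lit 232) (nat_lit 5) (nat_lit 228) (nat_lit 5) (nat_lit 398) (nat_lit 336) (nat_lit 286)))) (XT.nd (nat_lit 156) (nat_lit 380) (nat_lit 0) (XT.nd (nat_lit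 78) (nat_lit 228) (nat_lit 0) (XT.lf (nat_lit 0) (nat_lit 5600704926) (nat_lit 304) (nat_lit 1348365989) (nat_lit 380) (nat_lit 4285503043) (nat_lit 223) (nat_lit 5) (nat_lit 227) (nat_lit 5) (nat_lit 228) (nat_lit 5) (nat_lit 399) (nat_lit 336) (nat_lit 285)) (XT.lf (nat_lit 0) (nat_lit 2494111528) (nat_lit 228) (nat_lit 8311554929) (nat_lit 304) (nat_lit 610346759) (nat_lit 220) (nat_lit 5) (nat_lit 223) (nat_lit 5) (nat_lit 224) (nat_lit 5) (nat_lit 400) (nat_lit 336) (nat_lit 284))) (XT.nd (nat_lit 78) (nat_lit 304) (nat_lit 0) (XT.lf (nat_lit 0) (nat_lit 3136512278) (nat_lit 304) (nat_lit 739051559) (nat_lit 76) (nat_lit 7725714047) (nat_lit 219) (nat_lit 5) (nat_lit 223) (nat_lit 5) (nat_lit 220) (nat_lit 5) (nat_lit 401) (nat_lit 336) (nat_lit 283)) (XT.lf (nat_lit 0) (nat_lit 7019313099) (nat_lit 380) (nat_lit 4036232607) (nat_lit 76) (nat_lit 735299393) (nat_lit 215) (nat_lit 5) (nat_lit 220)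 (nat_lit 5) (nat_lit 216) (nat_lit 5) (nat_lit 402) (nat_lit 336) (nat_lit 282))))) (XT.nd (nat_lit 312) (nat_lit 836) (nat_lit 0) (XT.nd (nat_lit 156) (nat_lit 228) (nat_lit 0) (XT.nd (nat_lit 78) (nat_lit 380) (nat_lit 0) (XT.lf (nat_lit 0) (nat_lit 4508836812) (nat_lit 228) (nat_lit 6553385823) (nat_lit 304) (nat_lit 922567955) (nat_lit 212) (nat_lit 5) (nat_lit 215) (nat_lit 5) (nat_lit 216) (nat_lit 5) (nat_lit 403) (nat_lit 336) (nat_lit 281)) (XT.lf (nat_lit 0) (nat_lit 1128798648) (nat_lit 304) (nat_lit 1860283123) (nat_lit 380) (nat_lit 9194398231) (nat_lit 207) (nat_lit 5) (nat_lit 211) (nat_lit 5) (nat_lit 212) (nat_lit 5) (nat_lit 404) (nat_lit 336) (nat_lit 280))) (XT.nd (nat_lit 78) (nat_lit 228) (nat_lit 0) (XT.lf (nat_lit 0) (nat_lit 7059284364) (nat_lit 380) (nat_lit 2352997558) (nat_lit 76) (nat_lit 2973781763) (nat_lit 207) (nat_lit 5) (nat_lit 212) (nat_lit 5) (nat_lit 208) (nat_lit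 5) (nat_lit 405) (nat_lit 336) (nat_lit 279)) (XT.lf (nat_lit 0) (nat_lit 6649610290) (nat_lit 228) (nat_lit 4640556430) (nat_lit 304) (nat_lit 1303400946) (nat_lit 204) (nat_lit 5) (nat_lit 207) (nat_lit 5) (nat_lit 208) (nat_lit 5) (nat_lit 406) (nat_lit 336) (nat_lit 278)))) (XT.nd (nat_lit 156) (nat_lit 532) (nat_lit 0) (XT.nd (nat_lit 78) (nat_lit 0) (nat_lit 0) (XT.lf (nat_lit 0) (nat_lit 2798864458) (nat_lit 304) (nat_lit 9683569888) (nat_lit 76) (nat_lit 323634706) (nat_lit 200) (nat_lit 5) (nat_lit 204) (nat_lit 5) (nat_lit 201) (nat_lit 5) (nat_lit 407) (nat_lit 336) (nat_lit 277)) (XT.lf (nat_lit 0) (nat_lit 7061285048) (nat_lit 304) (nat_lit 571747790) (nat_lit 76) (nat_lit 5389626962) (nat_lit 200) (nat_lit 5) (nat_lit 204) (nat_lit 5) (nat_lit 201) (nat_lit 5) (nat_lit 408) (nat_lit 336) (nat_lit 276))) (XT.nd (nat_lit 78) (nat_lit 304) (nat_lit 0) (XT.lf (nat_lit 0) (nat_lit 8917586563)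 (nat_lit 228) (nat_lit 2577695120) (nat_lit 304) (nat_lit 1749155486) (nat_lit 197) (nat_lit 5) (nat_lit 200) (nat_lit 5) (nat_lit 201) (nat_lit 5) (nat_lit 409) (nat_lit 336) (nat_lit 275)) (XT.lf (nat_lit 0) (nat_lit 2579018921) (nat_lit 304) (nat_lit 8259615370) (nat_lit 76) (nat_lit 2632283301) (nat_lit 193) (nat_lit 5) (nat_lit 197) (nat_lit 5) (nat_lit 194) (nat_lit 5) (nat_lit 410) (nat_lit 336) (nat_lit 274))))))))
noncomputable def xc90 : XT := (XT.nd (nat_lit 2340) (nat_lit 2888) (nat_lit 0) (XT.nd (nat_lit 1170) (nat_lit 1748) (nat_lit 0) (XT.nd (nat_lit 546) (nat_lit 1064) (nat_lit 0) (XT.nd (nat_lit 234) (nat_lit 608) (nat_lit 0) (XT.nd (nat_lit 78) (nat_lit 304) (nat_lit 0) (XT.lf (nat_lit 0) (nat_lit 1333881261) (nat_lit 228) (nat_lit 5708884663) (nat_lit 304) (nat_lit 6659680444) (nat_lit 190) (nat_lit 5) (nat_lit 193) (nat_lit 5) (nat_lit 194) (nat_lit 5) (nat_lit 411) (nat_lit 336)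 (nat_lit 273)) (XT.nd (nat_lit 78) (nat_lit 304) (nat_lit 0) (XT.lf (nat_lit 0) (nat_lit 11314896875) (nat_lit 228) (nat_lit 367891105) (nat_lit 304) (nat_lit 2256862146) (nat_lit 190) (nat_lit 5) (nat_lit 193) (nat_lit 5) (nat_lit 194) (nat_lit 5) (nat_lit 412) (nat_lit 336) (nat_lit 272)) (XT.lf (nat_lit 0) (nat_lit 2315122823) (nat_lit 304) (nat_lit 6765563188) (nat_lit 76) (nat_lit 5100181004) (nat_lit 186) (nat_lit 5) (nat_lit 190) (nat_lit 5) (nat_lit 187) (nat_lit 5) (nat_lit 413) (nat_lit 336) (nat_lit 271)))) (XT.nd (nat_lit 156) (nat_lit 456) (nat_lit 0) (XT.nd (nat_lit 78) (nat_lit 0) (nat_lit 0) (XT.lf (nat_lit 0) (nat_lit 3352383241) (nat_lit 152) (nat_lit 3649168281) (nat_lit 228) (nat_lit 7426419185) (nat_lit 184) (nat_lit 5) (nat_lit 186) (nat_lit 5) (nat_lit 187) (nat_lit 5) (nat_lit 414) (nat_lit 336) (nat_lit 270)) (XT.lf (nat_lit 0) (nat_lit 11876515576) (nat_lit 228) (nat_lit 856122067)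 (nat_lit 76) (nat_lit 1948411592) (nat_lit 184) (nat_lit 5) (nat_lit 187) (nat_lit 5) (nat_lit 185) (nat_lit 5) (nat_lit 415) (nat_lit 336) (nat_lit 269))) (XT.nd (nat_lit 78) (nat_lit 152) (nat_lit 0) (XT.lf (nat_lit 0) (nat_lit 2010073422) (nat_lit 304) (nat_lit 5201347150) (nat_lit 76) (nat_lit 7726968465) (nat_lit 180) (nat_lit 5) (nat_lit 184) (nat_lit 5) (nat_lit 181) (nat_lit 5) (nat_lit 416) (nat_lit 336) (nat_lit 268)) (XT.lf (nat_lit 0) (nat_lit 5474363538) (nat_lit 152) (nat_lit 1461256556) (nat_lit 228) (nat_lit 8266309816) (nat_lit 178) (nat_lit 5) (nat_lit 180) (nat_lit 5) (nat_lit 181) (nat_lit 5) (nat_lit 417) (nat_lit 336) (nat_lit 267))))) (XT.nd (nat_lit 312) (nat_lit 456) (nat_lit 0) (XT.nd (nat_lit 156) (nat_lit 304) (nat_lit 0) (XT.nd (nat_lit 78) (nat_lit 76) (nat_lit 0) (XT.lf (nat_lit 0) (nat_lit 1014375194) (nat_lit 228) (nat_lit 11061965395) (nat_lit 304) (nat_lit 3395014198)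 (nat_lit 175) (nat_lit 5) (nat_lit 178) (nat_lit 5) (nat_lit 179) (nat_lit 5) (nat_lit 418) (nat_lit 336) (nat_lit 266)) (XT.lf (nat_lit 0) (nat_lit 1666259249) (nat_lit 304) (nat_lit 3566251979) (nat_lit 76) (nat_lit 10513618366) (nat_lit 174) (nat_lit 5) (nat_lit 178) (nat_lit 5) (nat_lit 175) (nat_lit 5) (nat_lit 419) (nat_lit 336) (nat_lit 265))) (XT.nd (nat_lit 78) (nat_lit 152) (nat_lit 0) (XT.lf (nat_lit 0) (nat_lit 6856329982) (nat_lit 228) (nat_lit 8332676220) (nat_lit 76) (nat_lit 837777156) (nat_lit 172) (nat_lit 5) (nat_lit 175) (nat_lit 5) (nat_lit 173) (nat_lit 5) (nat_lit 420) (nat_lit 336) (nat_lit 264)) (XT.lf (nat_lit 0) (nat_lit 2991303849) (nat_lit 152) (nat_lit 9290856947) (nat_lit 228) (nat_lit 4031294201) (nat_lit 170) (nat_lit 5) (nat_lit 172) (nat_lit 5) (nat_lit 173) (nat_lit 5) (nat_lit 421) (nat_lit 336) (nat_lit 263)))) (XT.nd (nat_lit 156) (nat_lit 228) (nat_lit 0) (XT.nd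 (nat_lit 78) (nat_lit 152) (nat_lit 0) (XT.lf (nat_lit 0) (nat_lit 1285607366) (nat_lit 228) (nat_lit 1858950850) (nat_lit 76) (nat_lit 13462358787) (nat_lit 169) (nat_lit 5) (nat_lit 172) (nat_lit 5) (nat_lit 170) (nat_lit 5) (nat_lit 422) (nat_lit 336) (nat_lit 262)) (XT.lf (nat_lit 0) (nat_lit 6773504053) (nat_lit 228) (nat_lit 6897400973) (nat_lit 76) (nat_lit 3234305037) (nat_lit 167) (nat_lit 5) (nat_lit 170) (nat_lit 5) (nat_lit 168) (nat_lit 5) (nat_lit 423) (nat_lit 336) (nat_lit 261))) (XT.nd (nat_lit 78) (nat_lit 76) (nat_lit 0) (XT.lf (nat_lit 0) (nat_lit 5060360545) (nat_lit 152) (nat_lit 7428868135) (nat_lit 228) (nat_lit 4721327504) (nat_lit 165) (nat_lit 5) (nat_lit 167) (nat_lit 5) (nat_lit 168) (nat_lit 5) (nat_lit 424) (nat_lit 336) (nat_lit 260)) (XT.lf (nat_lit 0) (nat_lit 869624724) (nat_lit 228) (nat_lit 77536472) (nat_lit 76) (nat_lit 16576609711) (nat_lit 164) (nat_lit 5) (nat_lit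 167) (nat_lit 5) (nat_lit 165) (nat_lit 5) (nat_lit 425) (nat_lit 336) (nat_lit 259)))))) (XT.nd (nat_lit 546) (nat_lit 836) (nat_lit 0) (XT.nd (nat_lit 234) (nat_lit 380) (nat_lit 0) (XT.nd (nat_lit 78) (nat_lit 380) (nat_lit 0) (XT.lf (nat_lit 0) (nat_lit 6675520004) (nat_lit 228) (nat_lit 5406613893) (nat_lit 76) (nat_lit 5758582547) (nat_lit 162) (nat_lit 5) (nat_lit 165) (nat_lit 5) (nat_lit 163) (nat_lit 5) (nat_lit 426) (nat_lit 336) (nat_lit 258)) (XT.nd (nat_lit 78) (nat_lit 228) (nat_lit 0) (XT.lf (nat_lit 0) (nat_lit 7224910991) (nat_lit 152) (nat_lit 5476016801) (nat_lit 228) (nat_lit 5464882485) (nat_lit 160) (nat_lit 5) (nat_lit 162) (nat_lit 5) (nat_lit 163) (nat_lit 5) (nat_lit 427) (nat_lit 336) (nat_lit 257)) (XT.lf (nat_lit 0) (nat_lit 450145443) (nat_lit 228) (nat_lit 16696755881) (nat_lit 76) (nat_lit 1352089322) (nat_lit 157) (nat_lit 5) (nat_lit 160) (nat_lit 5) (nat_lit 158)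 (nat_lit 5) (nat_lit 428) (nat_lit 336) (nat_lit 256)))) (XT.nd (nat_lit 156) (nat_lit 228) (nat_lit 0) (XT.nd (nat_lit 78) (nat_lit 152) (nat_lit 0) (XT.lf (nat_lit 0) (nat_lit 6564502330) (nat_lit 228) (nat_lit 3858758329) (nat_lit 76) (nat_lit 8413331029) (nat_lit 157) (nat_lit 5) (nat_lit 160) (nat_lit 5) (nat_lit 158) (nat_lit 5) (nat_lit 429) (nat_lit 336) (nat_lit 255)) (XT.lf (nat_lit 0) (nat_lit 9488933399) (nat_lit 152) (nat_lit 3431485833) (nat_lit 228) (nat_lit 6262157649) (nat_lit 155) (nat_lit 5) (nat_lit 157) (nat_lit 5) (nat_lit 158) (nat_lit 5) (nat_lit 430) (nat_lit 336) (nat_lit 254))) (XT.nd (nat_lit 78) (nat_lit 0) (nat_lit 0) (XT.lf (nat_lit 0) (nat_lit 8975119) (nat_lit 228) (nat_lit 15782383312) (nat_lit 76) (nat_lit 3745218957) (nat_lit 152) (nat_lit 5) (nat_lit 155) (nat_lit 5) (nat_lit 153) (nat_lit 5) (nat_lit 431) (nat_lit 336) (nat_lit 253)) (XT.lf (nat_lit 0) (nat_lit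 6442309144) (nat_lit 228) (nat_lit 2251822704) (nat_lit 76) (nat_lit 11202208102) (nat_lit 152) (nat_lit 5) (nat_lit 155) (nat_lit 5) (nat_lit 153) (nat_lit 5) (nat_lit 432) (nat_lit 336) (nat_lit 252))))) (XT.nd (nat_lit 312) (nat_lit 380) (nat_lit 0) (XT.nd (nat_lit 156) (nat_lit 228) (nat_lit 0) (XT.nd (nat_lit 78) (nat_lit 76) (nat_lit 0) (XT.lf (nat_lit 0) (nat_lit 11857005760) (nat_lit 152) (nat_lit 1293671857) (nat_lit 228) (nat_lit 7113756738) (nat_lit 150) (nat_lit 5) (nat_lit 152) (nat_lit 5) (nat_lit 153) (nat_lit 5) (nat_lit 433) (nat_lit 336) (nat_lit 251)) (XT.lf (nat_lit 0) (nat_lit 5785063653) (nat_lit 76) (nat_lit 14382811431) (nat_lit 152) (nat_lit 472469171) (nat_lit 149) (nat_lit 5) (nat_lit 150) (nat_lit 5) (nat_lit 151) (nat_lit 4) (nat_lit 434) (nat_lit 336) (nat_lit 250))) (XT.nd (nat_lit 78) (nat_lit 152) (nat_lit 0) (XT.lf (nat_lit 0) (nat_lit 6310561712) (nat_lit 152) (nat_lit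 583357532) (nat_lit 76) (nat_lit 14129772745) (nat_lit 148) (nat_lit 5) (nat_lit 150) (nat_lit 5) (nat_lit 149) (nat_lit 5) (nat_lit 435) (nat_lit 336) (nat_lit 249)) (XT.lf (nat_lit 0) (nat_lit 13403557363) (nat_lit 228) (nat_lit 7089927359) (nat_lit 76) (nat_lit 921435996) (nat_lit 146) (nat_lit 5) (nat_lit 149) (nat_lit 5) (nat_lit 147) (nat_lit 4) (nat_lit 436) (nat_lit 336) (nat_lit 248)))) (XT.nd (nat_lit 156) (nat_lit 76) (nat_lit 0) (XT.nd (nat_lit 78) (nat_lit 228) (nat_lit 0) (XT.lf (nat_lit 0) (nat_lit 7903189153) (nat_lit 76) (nat_lit 12925573996) (nat_lit 152) (nat_lit 985540551) (nat_lit 145) (nat_lit 5) (nat_lit 146) (nat_lit 5) (nat_lit 147) (nat_lit 4) (nat_lit 437) (nat_lit 336) (nat_lit 247)) (XT.lf (nat_lit 0) (nat_lit 1172389181) (nat_lit 152) (nat_lit 5009551183) (nat_lit 228) (nat_lit 16040339216) (nat_lit 142) (nat_lit 5) (nat_lit 144) (nat_lit 5) (nat_lit 145) (nat_lit 5) (nat_lit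 438) (nat_lit 336) (nat_lit 246))) (XT.nd (nat_lit 78) (nat_lit 76) (nat_lit 0) (XT.lf (nat_lit 0) (nat_lit 13686105527) (nat_lit 228) (nat_lit 5743784082) (nat_lit 76) (nat_lit 3208068347) (nat_lit 142) (nat_lit 5) (nat_lit 145) (nat_lit 5) (nat_lit 143) (nat_lit 4) (nat_lit 439) (nat_lit 336) (nat_lit 245)) (XT.lf (nat_lit 0) (nat_lit 10113236466) (nat_lit 76) (nat_lit 11419245925) (nat_lit 152) (nat_lit 1530111690) (nat_lit 141) (nat_lit 5) (nat_lit 142) (nat_lit 5) (nat_lit 143) (nat_lit 4) (nat_lit 440) (nat_lit 336) (nat_lit 244))))))) (XT.nd (nat_lit 1170) (nat_lit 1368) (nat_lit 0) (XT.nd (nat_lit 546) (nat_lit 684) (nat_lit 0) (XT.nd (nat_lit 234) (nat_lit 532) (nat_lit 0) (XT.nd (nat_lit 78) (nat_lit 76) (nat_lit 0) (XT.lf (nat_lit 0) (nat_lit 3008787363) (nat_lit 152) (nat_lit 3043994037) (nat_lit 228) (nat_lit 17443690310) (nat_lit 138) (nat_lit 5) (nat_lit 140) (nat_lit 5) (nat_lit 141)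 (nat_lit 5) (nat_lit 441) (nat_lit 336) (nat_lit 243)) (XT.nd (nat_lit 78) (nat_lit 76) (nat_lit 0) (XT.lf (nat_lit 0) (nat_lit 13988521836) (nat_lit 228) (nat_lit 4354560223) (nat_lit 76) (nat_lit 5595145692) (nat_lit 138) (nat_lit 5) (nat_lit 141) (nat_lit 5) (nat_lit 139) (nat_lit 4) (nat_lit 442) (nat_lit 336) (nat_lit 242)) (XT.lf (nat_lit 0) (nat_lit 12420282131) (nat_lit 76) (nat_lit 9862838492) (nat_lit 152) (nat_lit 2106492265) (nat_lit 137) (nat_lit 5) (nat_lit 138) (nat_lit 5) (nat_lit 139) (nat_lit 4) (nat_lit 443) (nat_lit 336) (nat_lit 241)))) (XT.nd (nat_lit 156) (nat_lit 304) (nat_lit 0) (XT.nd (nat_lit 78) (nat_lit 0) (nat_lit 0) (XT.lf (nat_lit 0) (nat_lit 4918001050) (nat_lit 152) (nat_lit 1000457121) (nat_lit 228) (nat_lit 18932469930) (nat_lit 134) (nat_lit 5) (nat_lit 136) (nat_lit 5) (nat_lit 137) (nat_lit 5) (nat_lit 444) (nat_lit 336) (nat_lit 240)) (XT.lf (nat_lit 0) (nat_lit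 14313375545) (nat_lit 228) (nat_lit 2919935971) (nat_lit 76) (nat_lit 8086998859) (nat_lit 134) (nat_lit 5) (nat_lit 137) (nat_lit 5) (nat_lit 135) (nat_lit 4) (nat_lit 445) (nat_lit 336) (nat_lit 239))) (XT.nd (nat_lit 78) (nat_lit 228) (nat_lit 0) (XT.lf (nat_lit 0) (nat_lit 14829905599) (nat_lit 76) (nat_lit 8254892554) (nat_lit 152) (nat_lit 2715236231) (nat_lit 133) (nat_lit 5) (nat_lit 134) (nat_lit 5) (nat_lit 135) (nat_lit 4) (nat_lit 446) (nat_lit 336) (nat_lit 238)) (XT.lf (nat_lit 0) (nat_lit 5790725998) (nat_lit 228) (nat_lit 19397006464) (nat_lit 76) (nat_lit 1102362279) (nat_lit 130) (nat_lit 5) (nat_lit 133) (nat_lit 5) (nat_lit 131) (nat_lit 4) (nat_lit 447) (nat_lit 336) (nat_lit 237))))) (XT.nd (nat_lit 312) (nat_lit 304) (nat_lit 0) (XT.nd (nat_lit 156) (nat_lit 304) (nat_lit 0) (XT.nd (nat_lit 78) (nat_lit 76) (nat_lit 0) (XT.lf (nat_lit 0) (nat_lit 14663192569) (nat_lit 228) (nat_lit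 1437281166) (nat_lit 76) (nat_lit 10688599698) (nat_lit 130) (nat_lit 5) (nat_lit 133) (nat_lit 5) (nat_lit 131) (nat_lit 4) (nat_lit 448) (nat_lit 336) (nat_lit 236)) (XT.lf (nat_lit 0) (nat_lit 17348194305) (nat_lit 76) (nat_lit 6593501099) (nat_lit 152) (nat_lit 3357130213) (nat_lit 129) (nat_lit 5) (nat_lit 130) (nat_lit 5) (nat_lit 131) (nat_lit 4) (nat_lit 449) (nat_lit 336) (nat_lit 235))) (XT.nd (nat_lit 78) (nat_lit 76) (nat_lit 0) (XT.lf (nat_lit 0) (nat_lit 5670030828) (nat_lit 228) (nat_lit 18880011864) (nat_lit 76) (nat_lit 3269008778) (nat_lit 126) (nat_lit 5) (nat_lit 129) (nat_lit 5) (nat_lit 127) (nat_lit 4) (nat_lit 450) (nat_lit 336) (nat_lit 234)) (XT.lf (nat_lit 0) (nat_lit 98258172) (nat_lit 76) (nat_lit 14943162871) (nat_lit 152) (nat_lit 13308239208) (nat_lit 125) (nat_lit 5) (nat_lit 126) (nat_lit 5) (nat_lit 127) (nat_lit 4) (nat_lit 451) (nat_lit 336) (nat_lit 233)))) (XT.nd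 (nat_lit 156) (nat_lit 76) (nat_lit 0) (XT.nd (nat_lit 78) (nat_lit 228) (nat_lit 0) (XT.lf (nat_lit 0) (nat_lit 19981752017) (nat_lit 76) (nat_lit 4876327289) (nat_lit 152) (nat_lit 4033184200) (nat_lit 125) (nat_lit 5) (nat_lit 126) (nat_lit 5) (nat_lit 127) (nat_lit 4) (nat_lit 452) (nat_lit 336) (nat_lit 232)) (XT.lf (nat_lit 0) (nat_lit 5547502138) (nat_lit 228) (nat_lit 18372726444) (nat_lit 76) (nat_lit 5523241477) (nat_lit 122) (nat_lit 5) (nat_lit 125) (nat_lit 5) (nat_lit 123) (nat_lit 4) (nat_lit 453) (nat_lit 336) (nat_lit 231))) (XT.nd (nat_lit 78) (nat_lit 0) (nat_lit 0) (XT.lf (nat_lit 0) (nat_lit 1717689846) (nat_lit 76) (nat_lit 13746550021) (nat_lit 152) (nat_lit 14542914152) (nat_lit 121) (nat_lit 5) (nat_lit 122) (nat_lit 5) (nat_lit 123) (nat_lit 4) (nat_lit 454) (nat_lit 336) (nat_lit 230)) (XT.lf (nat_lit 0) (nat_lit 22737710315) (nat_lit 76) (nat_lit 3100618406) (nat_lit 152)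 (nat_lit 4744624309) (nat_lit 121) (nat_lit 5) (nat_lit 122) (nat_lit 5) (nat_lit 123) (nat_lit 4) (nat_lit 455) (nat_lit 336) (nat_lit 229)))))) (XT.nd (nat_lit 624) (nat_lit 608) (nat_lit 0) (XT.nd (nat_lit 312) (nat_lit 304) (nat_lit 0) (XT.nd (nat_lit 156) (nat_lit 152) (nat_lit 0) (XT.nd (nat_lit 78) (nat_lit 76) (nat_lit 0) (XT.lf (nat_lit 0) (nat_lit 5423789803) (nat_lit 228) (nat_lit 17875463887) (nat_lit 76) (nat_lit 7869814379) (nat_lit 118) (nat_lit 5) (nat_lit 121) (nat_lit 5) (nat_lit 119) (nat_lit 4) (nat_lit 456) (nat_lit 336) (nat_lit 228)) (XT.lf (nat_lit 0) (nat_lit 3396027115) (nat_lit 76) (nat_lit 12524082487) (nat_lit 152) (nat_lit 15847701198) (nat_lit 117) (nat_lit 5) (nat_lit 118) (nat_lit 5) (nat_lit 119) (nat_lit 4) (nat_lit 457) (nat_lit 336) (nat_lit 227))) (XT.nd (nat_lit 78) (nat_lit 152) (nat_lit 0) (XT.lf (nat_lit 0) (nat_lit 25623743115) (nat_lit 76) (nat_lit 1263216011)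 (nat_lit 152) (nat_lit 5492887483) (nat_lit 117) (nat_lit 5) (nat_lit 118) (nat_lit 5) (nat_lit 119) (nat_lit 4) (nat_lit 458) (nat_lit 336) (nat_lit 226)) (XT.lf (nat_lit 0) (nat_lit 5299458258) (nat_lit 152) (nat_lit 17388462223) (nat_lit 76) (nat_lit 10313996661) (nat_lit 115) (nat_lit 5) (nat_lit 117) (nat_lit 5) (nat_lit 116) (nat_lit 4) (nat_lit 459) (nat_lit 336) (nat_lit 225)))) (XT.nd (nat_lit 156) (nat_lit 228) (nat_lit 0) (XT.nd (nat_lit 78) (nat_lit 0) (nat_lit 0) (XT.lf (nat_lit 0) (nat_lit 5137202808) (nat_lit 76) (nat_lit 11274415300) (nat_lit 152) (nat_lit 17226206773) (nat_lit 114) (nat_lit 5) (nat_lit 115) (nat_lit 5) (nat_lit 116) (nat_lit 4) (nat_lit 460) (nat_lit 336) (nat_lit 224)) (XT.lf (nat_lit 0) (nat_lit 28014793438) (nat_lit 152) (nat_lit 5646327253) (nat_lit 0) (nat_lit 626959640) (nat_lit 114) (nat_lit 5) (nat_lit 116) (nat_lit 4) (nat_lit 114) (nat_lit 4) (nat_lit 461)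 (nat_lit 336) (nat_lit 223))) (XT.nd (nat_lit 78) (nat_lit 76) (nat_lit 0) (XT.lf (nat_lit 0) (nat_lit 5174996399) (nat_lit 152) (nat_lit 16911893453) (nat_lit 76) (nat_lit 12861574203) (nat_lit 112) (nat_lit 5) (nat_lit 114) (nat_lit 5) (nat_lit 113) (nat_lit 4) (nat_lit 462) (nat_lit 336) (nat_lit 222)) (XT.lf (nat_lit 0) (nat_lit 6945469679) (nat_lit 76) (nat_lit 9995936578) (nat_lit 152) (nat_lit 18682366733) (nat_lit 111) (nat_lit 5) (nat_lit 112) (nat_lit 5) (nat_lit 113) (nat_lit 4) (nat_lit 463) (nat_lit 336) (nat_lit 221))))) (XT.nd (nat_lit 312) (nat_lit 380) (nat_lit 0) (XT.nd (nat_lit 156) (nat_lit 76) (nat_lit 0) (XT.nd (nat_lit 78) (nat_lit 152) (nat_lit 0) (XT.lf (nat_lit 0) (nat_lit 29233353872) (nat_lit 152) (nat_lit 4520471936) (nat_lit 0) (nat_lit 2560339021) (nat_lit 111) (nat_lit 5) (nat_lit 113) (nat_lit 4) (nat_lit 111) (nat_lit 4) (nat_lit 464) (nat_lit 336) (nat_lit 220)) (XT.lf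 (nat_lit 0) (nat_lit 5050826377) (nat_lit 152) (nat_lit 16445872060) (nat_lit 76) (nat_lit 15518854658) (nat_lit 109) (nat_lit 5) (nat_lit 111) (nat_lit 5) (nat_lit 110) (nat_lit 4) (nat_lit 465) (nat_lit 336) (nat_lit 219))) (XT.nd (nat_lit 78) (nat_lit 0) (nat_lit 0) (XT.lf (nat_lit 0) (nat_lit 8825407457) (nat_lit 76) (nat_lit 8686776544) (nat_lit 152) (nat_lit 20220453140) (nat_lit 108) (nat_lit 5) (nat_lit 109) (nat_lit 5) (nat_lit 110) (nat_lit 4) (nat_lit 466) (nat_lit 336) (nat_lit 218)) (XT.lf (nat_lit 0) (nat_lit 30535608529) (nat_lit 152) (nat_lit 3364142995) (nat_lit 0) (nat_lit 4565835401) (nat_lit 108) (nat_lit 5) (nat_lit 110) (nat_lit 4) (nat_lit 108) (nat_lit 4) (nat_lit 467) (nat_lit 336) (nat_lit 217)))) (XT.nd (nat_lit 156) (nat_lit 152) (nat_lit 0) (XT.nd (nat_lit 78) (nat_lit 76) (nat_lit 0) (XT.lf (nat_lit 0) (nat_lit 4927311393) (nat_lit 152) (nat_lit 15990462541) (nat_lit 76)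 (nat_lit 18292675924) (nat_lit 106) (nat_lit 5) (nat_lit 108) (nat_lit 5) (nat_lit 107) (nat_lit 4) (nat_lit 468) (nat_lit 336) (nat_lit 216)) (XT.lf (nat_lit 0) (nat_lit 10781931812) (nat_lit 76) (nat_lit 7344814143) (nat_lit 152) (nat_lit 21845082961) (nat_lit 105) (nat_lit 5) (nat_lit 106) (nat_lit 5) (nat_lit 107) (nat_lit 4) (nat_lit 469) (nat_lit 336) (nat_lit 215))) (XT.nd (nat_lit 78) (nat_lit 152) (nat_lit 0) (XT.lf (nat_lit 0) (nat_lit 31926904086) (nat_lit 152) (nat_lit 2174901071) (nat_lit 0) (nat_lit 6648101973) (nat_lit 105) (nat_lit 5) (nat_lit 107) (nat_lit 4) (nat_lit 105) (nat_lit 4) (nat_lit 470) (nat_lit 336) (nat_lit 214)) (XT.lf (nat_lit 0) (nat_lit 4804762621) (nat_lit 152) (nat_lit 15545686066) (nat_lit 76) (nat_lit 21190417851) (nat_lit 103) (nat_lit 5) (nat_lit 105) (nat_lit 5) (nat_lit 104) (nat_lit 4) (nat_lit 471) (nat_lit 336) (nat_lit 213))))))))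
noncomputable def xc91 : XT := (XT.nd (nat_lit 43836) (nat_lit 0) (nat_lit 15504) (XT.nd (nat_lit 1170) (nat_lit 608) (nat_lit 0) (XT.nd (nat_lit 546) (nat_lit 608) (nat_lit 0) (XT.nd (nat_lit 234) (nat_lit 304) (nat_lit 0) (XT.nd (nat_lit 78) (nat_lit 152) (nat_lit 0) (XT.lf (nat_lit 0) (nat_lit 12820305193) (nat_lit 76) (nat_lit 5967681434) (nat_lit 152) (nat_lit 23561228638) (nat_lit 102) (nat_lit 5) (nat_lit 103) (nat_lit 5) (nat_lit 104) (nat_lit 4) (nat_lit 472) (nat_lit 336) (nat_lit 212)) (XT.nd (nat_lit 78) (nat_lit 152) (nat_lit 0) (XT.lf (nat_lit 0) (nat_lit 33412846915) (nat_lit 152) (nat_lit 950116595) (nat_lit 0) (nat_lit 8812186756) (nat_lit 102) (nat_lit 5) (nat_lit 104) (nat_lit 4) (nat_lit 102) (nat_lit 4) (nat_lit 473) (nat_lit 336) (nat_lit 211)) (XT.lf (nat_lit 0) (nat_lit 4683445345) (nat_lit 152) (nat_lit 15111526360) (nat_lit 76) (nat_lit 24220017078) (nat_lit 100) (nat_lit 5)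 (nat_lit 102) (nat_lit 5) (nat_lit 101) (nat_lit 4) (nat_lit 474) (nat_lit 336) (nat_lit 210)))) (XT.nd (nat_lit 156) (nat_lit 152) (nat_lit 0) (XT.nd (nat_lit 78) (nat_lit 76) (nat_lit 0) (XT.lf (nat_lit 0) (nat_lit 14946149484) (nat_lit 76) (nat_lit 4552765933) (nat_lit 152) (nat_lit 25374230498) (nat_lit 99) (nat_lit 5) (nat_lit 100) (nat_lit 5) (nat_lit 101) (nat_lit 4) (nat_lit 475) (nat_lit 336) (nat_lit 209)) (XT.lf (nat_lit 0) (nat_lit 319264031) (nat_lit 76) (nat_lit 34683132283) (nat_lit 76) (nat_lit 10747345046) (nat_lit 98) (nat_lit 4) (nat_lit 99) (nat_lit 5) (nat_lit 99) (nat_lit 4) (nat_lit 476) (nat_lit 336) (nat_lit 208))) (XT.nd (nat_lit 78) (nat_lit 76) (nat_lit 0) (XT.lf (nat_lit 0) (nat_lit 4563584401) (nat_lit 152) (nat_lit 14687934900) (nat_lit 76) (nat_lit 27389984930) (nat_lit 97) (nat_lit 5) (nat_lit 99) (nat_lit 5) (nat_lit 98) (nat_lit 4) (nat_lit 477) (nat_lit 336) (nat_lit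 207)) (XT.lf (nat_lit 0) (nat_lit 17165460476) (nat_lit 76) (nat_lit 3097211034) (nat_lit 152) (nat_lit 27289810975) (nat_lit 96) (nat_lit 5) (nat_lit 97) (nat_lit 5) (nat_lit 98) (nat_lit 4) (nat_lit 478) (nat_lit 336) (nat_lit 206))))) (XT.nd (nat_lit 312) (nat_lit 304) (nat_lit 0) (XT.nd (nat_lit 156) (nat_lit 152) (nat_lit 0) (XT.nd (nat_lit 78) (nat_lit 76) (nat_lit 0) (XT.lf (nat_lit 0) (nat_lit 1649766387) (nat_lit 76) (nat_lit 35058636659) (nat_lit 76) (nat_lit 11774116887) (nat_lit 95) (nat_lit 4) (nat_lit 96) (nat_lit 5) (nat_lit 96) (nat_lit 4) (nat_lit 479) (nat_lit 336) (nat_lit 205)) (XT.lf (nat_lit 0) (nat_lit 4445369003) (nat_lit 152) (nat_lit 14274835507) (nat_lit 76) (nat_lit 30709428302) (nat_lit 94) (nat_lit 5) (nat_lit 96) (nat_lit 5) (nat_lit 95) (nat_lit 4) (nat_lit 480) (nat_lit 336) (nat_lit 204))) (XT.nd (nat_lit 78) (nat_lit 76) (nat_lit 0) (XT.lf (nat_lit 0) (nat_lit 19484624132)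 (nat_lit 76) (nat_lit 1597914626) (nat_lit 152) (nat_lit 29314090637) (nat_lit 93) (nat_lit 5) (nat_lit 94) (nat_lit 5) (nat_lit 95) (nat_lit 4) (nat_lit 481) (nat_lit 336) (nat_lit 203)) (XT.lf (nat_lit 0) (nat_lit 3025773427) (nat_lit 76) (nat_lit 35502343711) (nat_lit 76) (nat_lit 12855239932) (nat_lit 92) (nat_lit 4) (nat_lit 93) (nat_lit 5) (nat_lit 93) (nat_lit 4) (nat_lit 482) (nat_lit 336) (nat_lit 202)))) (XT.nd (nat_lit 156) (nat_lit 152) (nat_lit 0) (XT.nd (nat_lit 78) (nat_lit 76) (nat_lit 0) (XT.lf (nat_lit 0) (nat_lit 4328957026) (nat_lit 152) (nat_lit 13872128389) (nat_lit 76) (nat_lit 34188073505) (nat_lit 91) (nat_lit 5) (nat_lit 93) (nat_lit 5) (nat_lit 92) (nat_lit 4) (nat_lit 483) (nat_lit 336) (nat_lit 201)) (XT.lf (nat_lit 0) (nat_lit 21910434657) (nat_lit 76) (nat_lit 51526009) (nat_lit 152) (nat_lit 31453606021) (nat_lit 90) (nat_lit 5) (nat_lit 91) (nat_lit 5) (nat_lit 92) (nat_lit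 4) (nat_lit 484) (nat_lit 336) (nat_lit 200))) (XT.nd (nat_lit 78) (nat_lit 76) (nat_lit 0) (XT.lf (nat_lit 0) (nat_lit 4450794044) (nat_lit 76) (nat_lit 36017671889) (nat_lit 76) (nat_lit 13993965408) (nat_lit 89) (nat_lit 4) (nat_lit 90) (nat_lit 5) (nat_lit 90) (nat_lit 4) (nat_lit 485) (nat_lit 336) (nat_lit 199)) (XT.lf (nat_lit 0) (nat_lit 4214478796) (nat_lit 152) (nat_lit 13479693711) (nat_lit 76) (nat_lit 37836293058) (nat_lit 88) (nat_lit 5) (nat_lit 90) (nat_lit 5) (nat_lit 89) (nat_lit 4) (nat_lit 486) (nat_lit 336) (nat_lit 198)))))) (XT.nd (nat_lit 546) (nat_lit 76) (nat_lit 0) (XT.nd (nat_lit 234) (nat_lit 304) (nat_lit 0) (XT.nd (nat_lit 78) (nat_lit 152) (nat_lit 0) (XT.lf (nat_lit 0) (nat_lit 22919412426) (nat_lit 152) (nat_lit 32184627342) (nat_lit 0) (nat_lit 1515399395) (nat_lit 87) (nat_lit 5) (nat_lit 89) (nat_lit 4) (nat_lit 87) (nat_lit 4) (nat_lit 487) (nat_lit 336) (nat_lit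 197)) (XT.nd (nat_lit 78) (nat_lit 76) (nat_lit 0) (XT.lf (nat_lit 0) (nat_lit 5928562456) (nat_lit 76) (nat_lit 36608203970) (nat_lit 76) (nat_lit 15193777372) (nat_lit 86) (nat_lit 4) (nat_lit 87) (nat_lit 5) (nat_lit 87) (nat_lit 4) (nat_lit 488) (nat_lit 336) (nat_lit 196)) (XT.lf (nat_lit 0) (nat_lit 4102040452) (nat_lit 152) (nat_lit 13097394739) (nat_lit 76) (nat_lit 41665135444) (nat_lit 85) (nat_lit 5) (nat_lit 87) (nat_lit 5) (nat_lit 86) (nat_lit 4) (nat_lit 489) (nat_lit 336) (nat_lit 195)))) (XT.nd (nat_lit 156) (nat_lit 152) (nat_lit 0) (XT.nd (nat_lit 78) (nat_lit 76) (nat_lit 0) (XT.lf (nat_lit 0) (nat_lit 23944865572) (nat_lit 152) (nat_lit 32940219860) (nat_lit 0) (nat_lit 3134814462) (nat_lit 84) (nat_lit 5) (nat_lit 86) (nat_lit 4) (nat_lit 84) (nat_lit 4) (nat_lit 490) (nat_lit 336) (nat_lit 194)) (XT.lf (nat_lit 0) (nat_lit 7463047895) (nat_lit 76) (nat_lit 37277705612) (nat_lit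 76) (nat_lit 16458402182) (nat_lit 83) (nat_lit 4) (nat_lit 84) (nat_lit 5) (nat_lit 84) (nat_lit 4) (nat_lit 491) (nat_lit 336) (nat_lit 193))) (XT.nd (nat_lit 78) (nat_lit 76) (nat_lit 0) (XT.lf (nat_lit 0) (nat_lit 3991726926) (nat_lit 152) (nat_lit 12725080603) (nat_lit 76) (nat_lit 45686357848) (nat_lit 82) (nat_lit 5) (nat_lit 84) (nat_lit 5) (nat_lit 83) (nat_lit 4) (nat_lit 492) (nat_lit 336) (nat_lit 192)) (XT.lf (nat_lit 0) (nat_lit 25041879290) (nat_lit 152) (nat_lit 33775232967) (nat_lit 0) (nat_lit 4811774956) (nat_lit 81) (nat_lit 5) (nat_lit 83) (nat_lit 4) (nat_lit 81) (nat_lit 4) (nat_lit 493) (nat_lit 336) (nat_lit 191))))) (XT.nd (nat_lit 41808) (nat_lit 0) (nat_lit 31312) (XT.nd (nat_lit 41652) (nat_lit 0) (nat_lit 32300) (XT.nd (nat_lit 41574) (nat_lit 0) (nat_lit 32680) (XT.lf (nat_lit 0) (nat_lit 9058465418) (nat_lit 76) (nat_lit 38030143995) (nat_lit 76) (nat_lit 17791819095)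 (nat_lit 80) (nat_lit 4) (nat_lit 81) (nat_lit 5) (nat_lit 81) (nat_lit 4) (nat_lit 494) (nat_lit 336) (nat_lit 190)) (XT.lf (nat_lit 0) (nat_lit 641927632) (nat_lit 228) (nat_lit 1298997380) (nat_lit 228) (nat_lit 1298997380) (nat_lit 510) (nat_lit 4) (nat_lit 513) (nat_lit 5) (nat_lit 513) (nat_lit 4) (nat_lit 346) (nat_lit 337) (nat_lit 337))) (XT.nd (nat_lit 78) (nat_lit 304) (nat_lit 0) (XT.lf (nat_lit 0) (nat_lit 629401312) (nat_lit 304) (nat_lit 1500972724) (nat_lit 76) (nat_lit 4363684489) (nat_lit 509) (nat_lit 5) (nat_lit 513) (nat_lit 5) (nat_lit 510) (nat_lit 4) (nat_lit 347) (nat_lit 337) (nat_lit 336)) (XT.lf (nat_lit 0) (nat_lit 2249691908) (nat_lit 304) (nat_lit 1556256326) (nat_lit 380) (nat_lit 2704842379) (nat_lit 505) (nat_lit 5) (nat_lit 509) (nat_lit 5) (nat_lit 510) (nat_lit 4) (nat_lit 348) (nat_lit 337) (nat_lit 335)))) (XT.nd (nat_lit 156) (nat_lit 532) (nat_lit 0) (XT.nd (nat_lit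 78) (nat_lit 380) (nat_lit 0) (XT.lf (nat_lit 0) (nat_lit 438845862) (nat_lit 380) (nat_lit 464318583) (nat_lit 76) (nat_lit 5627707470) (nat_lit 504) (nat_lit 5) (nat_lit 509) (nat_lit 5) (nat_lit 505) (nat_lit 5) (nat_lit 349) (nat_lit 337) (nat_lit 334)) (XT.lf (nat_lit 0) (nat_lit 3413416838) (nat_lit 380) (nat_lit 129739134) (nat_lit 456) (nat_lit 3009975989) (nat_lit 499) (nat_lit 5) (nat_lit 504) (nat_lit 5) (nat_lit 505) (nat_lit 5) (nat_lit 350) (nat_lit 337) (nat_lit 333))) (XT.nd (nat_lit 78) (nat_lit 0) (nat_lit 0) (XT.lf (nat_lit 0) (nat_lit 69811635) (nat_lit 532) (nat_lit 5805441920) (nat_lit 76) (nat_lit 703504205) (nat_lit 492) (nat_lit 5) (nat_lit 499) (nat_lit 5) (nat_lit 493) (nat_lit 5) (nat_lit 351) (nat_lit 337) (nat_lit 332)) (XT.lf (nat_lit 0) (nat_lit 3106999830) (nat_lit 532) (nat_lit 1844615140) (nat_lit 76) (nat_lit 1654878174) (nat_lit 492) (nat_lit 5) (nat_lit 499) (nat_lit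 5) (nat_lit 493) (nat_lit 5) (nat_lit 352) (nat_lit 337) (nat_lit 331))))))) (XT.nd (nat_lit 1170) (nat_lit 6612) (nat_lit 0) (XT.nd (nat_lit 546) (nat_lit 5548) (nat_lit 0) (XT.nd (nat_lit 234) (nat_lit 2432) (nat_lit 0) (XT.nd (nat_lit 78) (nat_lit 684) (nat_lit 0) (XT.lf (nat_lit 0) (nat_lit 2203161481) (nat_lit 532) (nat_lit 3948661156) (nat_lit 608) (nat_lit 485742385) (nat_lit 485) (nat_lit 5) (nat_lit 492) (nat_lit 5) (nat_lit 493) (nat_lit 5) (nat_lit 353) (nat_lit 337) (nat_lit 330)) (XT.nd (nat_lit 78) (nat_lit 608) (nat_lit 0) (XT.lf (nat_lit 0) (nat_lit 2482801112) (nat_lit 608) (nat_lit 360369526) (nat_lit 76) (nat_lit 3828179076) (nat_lit 484) (nat_lit 5) (nat_lit 492) (nat_lit 5) (nat_lit 485) (nat_lit 5) (nat_lit 354) (nat_lit 337) (nat_lit 329)) (XT.lf (nat_lit 0) (nat_lit 3831879868) (nat_lit 608) (nat_lit 1635265725) (nat_lit 684) (nat_lit 1240762844) (nat_lit 476) (nat_lit 5) (nat_lit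 484) (nat_lit 5) (nat_lit 485) (nat_lit 5) (nat_lit 355) (nat_lit 337) (nat_lit 328)))) (XT.nd (nat_lit 156) (nat_lit 1672) (nat_lit 0) (XT.nd (nat_lit 78) (nat_lit 0) (nat_lit 0) (XT.lf (nat_lit 0) (nat_lit 1345574380) (nat_lit 684) (nat_lit 332375760) (nat_lit 760) (nat_lit 5069570129) (nat_lit 466) (nat_lit 5) (nat_lit 475) (nat_lit 5) (nat_lit 476) (nat_lit 5) (nat_lit 356) (nat_lit 337) (nat_lit 327)) (XT.lf (nat_lit 0) (nat_lit 4601626550) (nat_lit 760) (nat_lit 1134547515) (nat_lit 76) (nat_lit 1053507641) (nat_lit 466) (nat_lit 5) (nat_lit 476) (nat_lit 5) (nat_lit 467) (nat_lit 5) (nat_lit 357) (nat_lit 337) (nat_lit 326))) (XT.nd (nat_lit 78) (nat_lit 836) (nat_lit 0) (XT.lf (nat_lit 0) (nat_lit 704709562) (nat_lit 836) (nat_lit 3596225822) (nat_lit 76) (nat_lit 2533747004) (nat_lit 455) (nat_lit 5) (nat_lit 466) (nat_lit 5) (nat_lit 456) (nat_lit 5) (nat_lit 358) (nat_lit 337) (nat_lit 325))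 (XT.lf (nat_lit 0) (nat_lit 802654128) (nat_lit 836) (nat_lit 2764140549) (nat_lit 912) (nat_lit 3315793039) (nat_lit 444) (nat_lit 5) (nat_lit 455) (nat_lit 5) (nat_lit 456) (nat_lit 5) (nat_lit 359) (nat_lit 337) (nat_lit 324))))) (XT.nd (nat_lit 312) (nat_lit 3496) (nat_lit 0) (XT.nd (nat_lit 156) (nat_lit 1064) (nat_lit 0) (XT.nd (nat_lit 78) (nat_lit 988) (nat_lit 0) (XT.lf (nat_lit 0) (nat_lit 5331519397) (nat_lit 836) (nat_lit 1128741615) (nat_lit 912) (nat_lit 473303633) (nat_lit 444) (nat_lit 5) (nat_lit 455) (nat_lit 5) (nat_lit 456) (nat_lit 5) (nat_lit 360) (nat_lit 337) (nat_lit 323)) (XT.lf (nat_lit 0) (nat_lit 2352073384) (nat_lit 988) (nat_lit 4023908053) (nat_lit 76) (nat_lit 611016382) (nat_lit 431) (nat_lit 5) (nat_lit 444) (nat_lit 5) (nat_lit 432) (nat_lit 5) (nat_lit 361) (nat_lit 337) (nat_lit 322))) (XT.nd (nat_lit 78) (nat_lit 76) (nat_lit 0) (XT.lf (nat_lit 0) (nat_lit 574392068)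 (nat_lit 988) (nat_lit 4624314884) (nat_lit 1064) (nat_lit 1844806206) (nat_lit 418) (nat_lit 5) (nat_lit 431) (nat_lit 5) (nat_lit 432) (nat_lit 5) (nat_lit 362) (nat_lit 337) (nat_lit 321)) (XT.lf (nat_lit 0) (nat_lit 963900566) (nat_lit 1064) (nat_lit 1795891819) (nat_lit 76) (nat_lit 4342985882) (nat_lit 417) (nat_lit 5) (nat_lit 431) (nat_lit 5) (nat_lit 418) (nat_lit 5) (nat_lit 363) (nat_lit 337) (nat_lit 320)))) (XT.nd (nat_lit 156) (nat_lit 1292) (nat_lit 0) (XT.nd (nat_lit 78) (nat_lit 1140) (nat_lit 0) (XT.lf (nat_lit 0) (nat_lit 2981506728) (nat_lit 1064) (nat_lit 783378930) (nat_lit 1140) (nat_lit 3400034834) (nat_lit 403) (nat_lit 5) (nat_lit 417) (nat_lit 5) (nat_lit 418) (nat_lit 5) (nat_lit 364) (nat_lit 337) (nat_lit 319)) (XT.lf (nat_lit 0) (nat_lit 633077079) (nat_lit 1140) (nat_lit 5971472287) (nat_lit 1216) (nat_lit 625738144) (nat_lit 388) (nat_lit 5) (nat_lit 403) (nat_lit 5)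 (nat_lit 404) (nat_lit 5) (nat_lit 365) (nat_lit 337) (nat_lit 318))) (XT.nd (nat_lit 78) (nat_lit 1216) (nat_lit 0) (XT.lf (nat_lit 0) (nat_lit 2157715800) (nat_lit 1216) (nat_lit 1724723580) (nat_lit 76) (nat_lit 3415448202) (nat_lit 387) (nat_lit 5) (nat_lit 403) (nat_lit 5) (nat_lit 388) (nat_lit 5) (nat_lit 366) (nat_lit 337) (nat_lit 317)) (XT.lf (nat_lit 0) (nat_lit 3275379123) (nat_lit 1216) (nat_lit 1689619756) (nat_lit 1292) (nat_lit 2403743850) (nat_lit 371) (nat_lit 5) (nat_lit 387) (nat_lit 5) (nat_lit 388) (nat_lit 5) (nat_lit 367) (nat_lit 337) (nat_lit 316)))))) (XT.nd (nat_lit 624) (nat_lit 3192) (nat_lit 0) (XT.nd (nat_lit 312) (nat_lit 1216) (nat_lit 0) (XT.nd (nat_lit 156) (nat_lit 1292) (nat_lit 0) (XT.nd (nat_lit 78) (nat_lit 0) (nat_lit 0) (XT.lf (nat_lit 0) (nat_lit 361470307) (nat_lit 912) (nat_lit 6491837100) (nat_lit 76) (nat_lit 589652893) (nat_lit 359) (nat_lit 5) (nat_lit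 371) (nat_lit 5) (nat_lit 360) (nat_lit 5) (nat_lit 368) (nat_lit 337) (nat_lit 315)) (XT.lf (nat_lit 0) (nat_lit 3143549781) (nat_lit 912) (nat_lit 1406856547) (nat_lit 76) (nat_lit 2968817434) (nat_lit 359) (nat_lit 5) (nat_lit 371) (nat_lit 5) (nat_lit 360) (nat_lit 5) (nat_lit 369) (nat_lit 337) (nat_lit 314))) (XT.nd (nat_lit 78) (nat_lit 684) (nat_lit 0) (XT.lf (nat_lit 0) (nat_lit 3829072873) (nat_lit 608) (nat_lit 2142795722) (nat_lit 684) (nat_lit 1627023225) (nat_lit 351) (nat_lit 5) (nat_lit 359) (nat_lit 5) (nat_lit 360) (nat_lit 5) (nat_lit 370) (nat_lit 337) (nat_lit 313)) (XT.lf (nat_lit 0) (nat_lit 1139749309) (nat_lit 684) (nat_lit 6174402971) (nat_lit 76) (nat_lit 367675658) (nat_lit 342) (nat_lit 5) (nat_lit 351) (nat_lit 5) (nat_lit 343) (nat_lit 5) (nat_lit 371) (nat_lit 337) (nat_lit 312)))) (XT.nd (nat_lit 156) (nat_lit 684) (nat_lit 0) (XT.nd (nat_lit 78) (nat_lit 532) (nat_lit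 0) (XT.lf (nat_lit 0) (nat_lit 3944524906) (nat_lit 684) (nat_lit 861939104) (nat_lit 76) (nat_lit 2960673810) (nat_lit 342) (nat_lit 5) (nat_lit 351) (nat_lit 5) (nat_lit 343) (nat_lit 5) (nat_lit 372) (nat_lit 337) (nat_lit 311)) (XT.lf (nat_lit 0) (nat_lit 4624022296) (nat_lit 532) (nat_lit 2184007255) (nat_lit 608) (nat_lit 1047739875) (nat_lit 335) (nat_lit 5) (nat_lit 342) (nat_lit 5) (nat_lit 343) (nat_lit 5) (nat_lit 373) (nat_lit 337) (nat_lit 310))) (XT.nd (nat_lit 78) (nat_lit 0) (nat_lit 0) (XT.lf (nat_lit 0) (nat_lit 1742058162) (nat_lit 684) (nat_lit 5657057700) (nat_lit 76) (nat_lit 548411869) (nat_lit 326) (nat_lit 5) (nat_lit 335) (nat_lit 5) (nat_lit 327) (nat_lit 5) (nat_lit 374) (nat_lit 337) (nat_lit 309)) (XT.lf (nat_lit 0) (nat_lit 4581050116) (nat_lit 684) (nat_lit 106727122) (nat_lit 76) (nat_lit 3354353583) (nat_lit 326) (nat_lit 5) (nat_lit 335) (nat_lit 5) (nat_lit 327) (nat_lit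 5) (nat_lit 375) (nat_lit 337) (nat_lit 308))))) (XT.nd (nat_lit 312) (nat_lit 1596) (nat_lit 0) (XT.nd (nat_lit 156) (nat_lit 456) (nat_lit 0) (XT.nd (nat_lit 78) (nat_lit 608) (nat_lit 0) (XT.lf (nat_lit 0) (nat_lit 5644581712) (nat_lit 532) (nat_lit 1848847786) (nat_lit 608) (nat_lit 646495974) (nat_lit 319) (nat_lit 5) (nat_lit 326) (nat_lit 5) (nat_lit 327) (nat_lit 5) (nat_lit 376) (nat_lit 337) (nat_lit 307)) (XT.lf (nat_lit 0) (nat_lit 2186638170) (nat_lit 608) (nat_lit 4955338332) (nat_lit 76) (nat_lit 1098685879) (nat_lit 311) (nat_lit 5) (nat_lit 319) (nat_lit 5) (nat_lit 312) (nat_lit 5) (nat_lit 377) (nat_lit 337) (nat_lit 306))) (XT.nd (nat_lit 78) (nat_lit 0) (nat_lit 0) (XT.lf (nat_lit 0) (nat_lit 861439512) (nat_lit 456) (nat_lit 4217960241) (nat_lit 532) (nat_lit 3265200794) (nat_lit 305) (nat_lit 5) (nat_lit 311) (nat_lit 5) (nat_lit 312) (nat_lit 5) (nat_lit 378) (nat_lit 337) (nat_lit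 305)) (XT.lf (nat_lit 0) (nat_lit 6877745285) (nat_lit 456) (nat_lit 1167971793) (nat_lit 532) (nat_lit 406336594) (nat_lit 305) (nat_lit 5) (nat_lit 311) (nat_lit 5) (nat_lit 312) (nat_lit 5) (nat_lit 379) (nat_lit 337) (nat_lit 304)))) (XT.nd (nat_lit 156) (nat_lit 532) (nat_lit 0) (XT.nd (nat_lit 78) (nat_lit 456) (nat_lit 0) (XT.lf (nat_lit 0) (nat_lit 2489494401) (nat_lit 608) (nat_lit 4082417289) (nat_lit 76) (nat_lit 1990064748) (nat_lit 297) (nat_lit 5) (nat_lit 305) (nat_lit 5) (nat_lit 298) (nat_lit 5) (nat_lit 380) (nat_lit 337) (nat_lit 303)) (XT.lf (nat_lit 0) (nat_lit 2019748529) (nat_lit 456) (nat_lit 3430241214) (nat_lit 532) (nat_lit 3225507759) (nat_lit 291) (nat_lit 5) (nat_lit 297) (nat_lit 5) (nat_lit 298) (nat_lit 5) (nat_lit 381) (nat_lit 337) (nat_lit 302))) (XT.nd (nat_lit 78) (nat_lit 532) (nat_lit 0) (XT.lf (nat_lit 0) (nat_lit 8312901059) (nat_lit 456) (nat_lit 167596384)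 (nat_lit 532) (nat_lit 312490830) (nat_lit 291) (nat_lit 5) (nat_lit 297) (nat_lit 5) (nat_lit 298) (nat_lit 5) (nat_lit 382) (nat_lit 337) (nat_lit 301)) (XT.lf (nat_lit 0) (nat_lit 2664636192) (nat_lit 532) (nat_lit 3049333993) (nat_lit 76) (nat_lit 3198383328) (nat_lit 284) (nat_lit 5) (nat_lit 291) (nat_lit 5) (nat_lit 285) (nat_lit 5) (nat_lit 383) (nat_lit 337) (nat_lit 300))))))))
noncomputable def xc92 : XT := (XT.nd (nat_lit 2340) (nat_lit 3800) (nat_lit 0) (XT.nd (nat_lit 1170) (nat_lit 3040) (nat_lit 0) (XT.nd (nat_lit 546) (nat_lit 2204) (nat_lit 0) (XT.nd (nat_lit 234) (nat_lit 1216) (nat_lit 0) (XT.nd (nat_lit 78) (nat_lit 532) (nat_lit 0) (XT.lf (nat_lit 0) (nat_lit 3356220907) (nat_lit 380) (nat_lit 2349384917) (nat_lit 456) (nat_lit 3330176783) (nat_lit 279) (nat_lit 5) (nat_lit 284) (nat_lit 5) (nat_lit 285) (nat_lit 5) (nat_lit 384) (nat_lit 337) (nat_lit 299)) (XT.nd (nat_lit 78)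 (nat_lit 76) (nat_lit 0) (XT.lf (nat_lit 0) (nat_lit 782316633) (nat_lit 456) (nat_lit 8047625487) (nat_lit 532) (nat_lit 333208325) (nat_lit 273) (nat_lit 5) (nat_lit 279) (nat_lit 5) (nat_lit 280) (nat_lit 5) (nat_lit 385) (nat_lit 337) (nat_lit 298)) (XT.lf (nat_lit 0) (nat_lit 2724290183) (nat_lit 532) (nat_lit 1865198516) (nat_lit 76) (nat_lit 4703325871) (nat_lit 272) (nat_lit 5) (nat_lit 279) (nat_lit 5) (nat_lit 273) (nat_lit 5) (nat_lit 386) (nat_lit 337) (nat_lit 297)))) (XT.nd (nat_lit 156) (nat_lit 456) (nat_lit 0) (XT.nd (nat_lit 78) (nat_lit 380) (nat_lit 0) (XT.lf (nat_lit 0) (nat_lit 4862979142) (nat_lit 380) (nat_lit 995411901) (nat_lit 456) (nat_lit 3568131366) (nat_lit 267) (nat_lit 5) (nat_lit 272) (nat_lit 5) (nat_lit 273) (nat_lit 5) (nat_lit 387) (nat_lit 337) (nat_lit 296)) (XT.lf (nat_lit 0) (nat_lit 2209235851) (nat_lit 380) (nat_lit 6889091963) (nat_lit 456) (nat_lit 465559283)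 (nat_lit 262) (nat_lit 5) (nat_lit 267) (nat_lit 5) (nat_lit 268) (nat_lit 5) (nat_lit 388) (nat_lit 337) (nat_lit 295))) (XT.nd (nat_lit 78) (nat_lit 380) (nat_lit 0) (XT.lf (nat_lit 0) (nat_lit 2679088921) (nat_lit 456) (nat_lit 537370257) (nat_lit 76) (nat_lit 6488058064) (nat_lit 261) (nat_lit 5) (nat_lit 267) (nat_lit 5) (nat_lit 262) (nat_lit 5) (nat_lit 389) (nat_lit 337) (nat_lit 294)) (XT.lf (nat_lit 0) (nat_lit 5924893611) (nat_lit 456) (nat_lit 3320881291) (nat_lit 76) (nat_lit 602967873) (nat_lit 256) (nat_lit 5) (nat_lit 262) (nat_lit 5) (nat_lit 257) (nat_lit 5) (nat_lit 390) (nat_lit 337) (nat_lit 293))))) (XT.nd (nat_lit 312) (nat_lit 1064) (nat_lit 0) (XT.nd (nat_lit 156) (nat_lit 380) (nat_lit 0) (XT.nd (nat_lit 78) (nat_lit 380) (nat_lit 0) (XT.lf (nat_lit 0) (nat_lit 3786929118) (nat_lit 380) (nat_lit 5502957210) (nat_lit 456) (nat_lit 706754332) (nat_lit 251) (nat_lit 5) (nat_lit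 256) (nat_lit 5) (nat_lit 257) (nat_lit 5) (nat_lit 391) (nat_lit 337) (nat_lit 292)) (XT.lf (nat_lit 0) (nat_lit 946862397) (nat_lit 304) (nat_lit 1600477143) (nat_lit 380) (nat_lit 7601143519) (nat_lit 246) (nat_lit 5) (nat_lit 250) (nat_lit 5) (nat_lit 251) (nat_lit 5) (nat_lit 392) (nat_lit 337) (nat_lit 291))) (XT.nd (nat_lit 78) (nat_lit 380) (nat_lit 0) (XT.lf (nat_lit 0) (nat_lit 5920395931) (nat_lit 380) (nat_lit 1963325168) (nat_lit 76) (nat_lit 2419883364) (nat_lit 246) (nat_lit 5) (nat_lit 251) (nat_lit 5) (nat_lit 247) (nat_lit 5) (nat_lit 393) (nat_lit 337) (nat_lit 290)) (XT.lf (nat_lit 0) (nat_lit 5511115472) (nat_lit 380) (nat_lit 3902801886) (nat_lit 456) (nat_lit 1048883950) (nat_lit 241) (nat_lit 5) (nat_lit 246) (nat_lit 5) (nat_lit 247) (nat_lit 5) (nat_lit 394) (nat_lit 337) (nat_lit 289)))) (XT.nd (nat_lit 156) (nat_lit 684) (nat_lit 0) (XT.nd (nat_lit 78) (nat_lit 0) (nat_lit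 0) (XT.lf (nat_lit 0) (nat_lit 2336786019) (nat_lit 380) (nat_lit 8050492693) (nat_lit 76) (nat_lit 238871485) (nat_lit 236) (nat_lit 5) (nat_lit 241) (nat_lit 5) (nat_lit 237) (nat_lit 5) (nat_lit 395) (nat_lit 337) (nat_lit 288)) (XT.lf (nat_lit 0) (nat_lit 5843315345) (nat_lit 380) (nat_lit 485575389) (nat_lit 76) (nat_lit 4463986146) (nat_lit 236) (nat_lit 5) (nat_lit 241) (nat_lit 5) (nat_lit 237) (nat_lit 5) (nat_lit 396) (nat_lit 337) (nat_lit 287))) (XT.nd (nat_lit 78) (nat_lit 380) (nat_lit 0) (XT.lf (nat_lit 0) (nat_lit 7378939221) (nat_lit 304) (nat_lit 2099684434) (nat_lit 380) (nat_lit 1485274214) (nat_lit 232) (nat_lit 5) (nat_lit 236) (nat_lit 5) (nat_lit 237) (nat_lit 5) (nat_lit 397) (nat_lit 337) (nat_lit 286)) (XT.lf (nat_lit 0) (nat_lit 2063996623) (nat_lit 380) (nat_lit 6819046511) (nat_lit 76) (nat_lit 2255754663) (nat_lit 227) (nat_lit 5) (nat_lit 232) (nat_lit 5) (nat_lit 228)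 (nat_lit 5) (nat_lit 398) (nat_lit 337) (nat_lit 285)))))) (XT.nd (nat_lit 546) (nat_lit 1520) (nat_lit 0) (XT.nd (nat_lit 234) (nat_lit 912) (nat_lit 0) (XT.nd (nat_lit 78) (nat_lit 304) (nat_lit 0) (XT.lf (nat_lit 0) (nat_lit 1131423269) (nat_lit 304) (nat_lit 4580040249) (nat_lit 380) (nat_lit 5606392918) (nat_lit 223) (nat_lit 5) (nat_lit 227) (nat_lit 5) (nat_lit 228) (nat_lit 5) (nat_lit 399) (nat_lit 337) (nat_lit 284)) (XT.nd (nat_lit 78) (nat_lit 304) (nat_lit 0) (XT.lf (nat_lit 0) (nat_lit 9388863350) (nat_lit 304) (nat_lit 102369384) (nat_lit 380) (nat_lit 2010367751) (nat_lit 223) (nat_lit 5) (nat_lit 227) (nat_lit 5) (nat_lit 228) (nat_lit 5) (nat_lit 400) (nat_lit 337) (nat_lit 283)) (XT.lf (nat_lit 0) (nat_lit 1719239105) (nat_lit 304) (nat_lit 5495306947) (nat_lit 76) (nat_lit 4474059985) (nat_lit 219) (nat_lit 5) (nat_lit 223) (nat_lit 5) (nat_lit 220) (nat_lit 5) (nat_lit 401) (nat_lit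 337) (nat_lit 282)))) (XT.nd (nat_lit 156) (nat_lit 608) (nat_lit 0) (XT.nd (nat_lit 78) (nat_lit 0) (nat_lit 0) (XT.lf (nat_lit 0) (nat_lit 2875676908) (nat_lit 304) (nat_lit 2650174380) (nat_lit 380) (nat_lit 6354607623) (nat_lit 215) (nat_lit 5) (nat_lit 219) (nat_lit 5) (nat_lit 220) (nat_lit 5) (nat_lit 402) (nat_lit 337) (nat_lit 281)) (XT.lf (nat_lit 0) (nat_lit 9478122906) (nat_lit 380) (nat_lit 557163923) (nat_lit 76) (nat_lit 2041836711) (nat_lit 215) (nat_lit 5) (nat_lit 220) (nat_lit 5) (nat_lit 216) (nat_lit 5) (nat_lit 403) (nat_lit 337) (nat_lit 280))) (XT.nd (nat_lit 78) (nat_lit 304) (nat_lit 0) (XT.lf (nat_lit 0) (nat_lit 1307263947) (nat_lit 304) (nat_lit 4081678218) (nat_lit 76) (nat_lit 6888497184) (nat_lit 211) (nat_lit 5) (nat_lit 215) (nat_lit 5) (nat_lit 212) (nat_lit 5) (nat_lit 404) (nat_lit 337) (nat_lit 279)) (XT.lf (nat_lit 0) (nat_lit 4736695975) (nat_lit 304) (nat_lit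 550167674) (nat_lit 380) (nat_lit 7195877469) (nat_lit 207) (nat_lit 5) (nat_lit 211) (nat_lit 5) (nat_lit 212) (nat_lit 5) (nat_lit 405) (nat_lit 337) (nat_lit 278))))) (XT.nd (nat_lit 312) (nat_lit 760) (nat_lit 0) (XT.nd (nat_lit 156) (nat_lit 456) (nat_lit 0) (XT.nd (nat_lit 78) (nat_lit 76) (nat_lit 0) (XT.lf (nat_lit 0) (nat_lit 1119764665) (nat_lit 228) (nat_lit 8318605317) (nat_lit 304) (nat_lit 3254256399) (nat_lit 204) (nat_lit 5) (nat_lit 207) (nat_lit 5) (nat_lit 208) (nat_lit 5) (nat_lit 406) (nat_lit 337) (nat_lit 277)) (XT.lf (nat_lit 0) (nat_lit 832006219) (nat_lit 304) (nat_lit 2579638531) (nat_lit 76) (nat_lit 9495667732) (nat_lit 203) (nat_lit 5) (nat_lit 207) (nat_lit 5) (nat_lit 204) (nat_lit 5) (nat_lit 407) (nat_lit 337) (nat_lit 276))) (XT.nd (nat_lit 78) (nat_lit 228) (nat_lit 0) (XT.lf (nat_lit 0) (nat_lit 5015392559) (nat_lit 304) (nat_lit 6428594418) (nat_lit 76) (nat_lit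 1682287281) (nat_lit 200) (nat_lit 5) (nat_lit 204) (nat_lit 5) (nat_lit 201) (nat_lit 5) (nat_lit 408) (nat_lit 337) (nat_lit 275)) (XT.lf (nat_lit 0) (nat_lit 2910102439) (nat_lit 228) (nat_lit 6461443551) (nat_lit 304) (nat_lit 3978840932) (nat_lit 197) (nat_lit 5) (nat_lit 200) (nat_lit 5) (nat_lit 201) (nat_lit 5) (nat_lit 409) (nat_lit 337) (nat_lit 274)))) (XT.nd (nat_lit 156) (nat_lit 456) (nat_lit 0) (XT.nd (nat_lit 78) (nat_lit 228) (nat_lit 0) (XT.lf (nat_lit 0) (nat_lit 296661624) (nat_lit 304) (nat_lit 989808444) (nat_lit 76) (nat_lit 12293925703) (nat_lit 196) (nat_lit 5) (nat_lit 200) (nat_lit 5) (nat_lit 197) (nat_lit 5) (nat_lit 410) (nat_lit 337) (nat_lit 273)) (XT.lf (nat_lit 0) (nat_lit 4705531335) (nat_lit 304) (nat_lit 5043880888) (nat_lit 76) (nat_lit 4064158641) (nat_lit 193) (nat_lit 5) (nat_lit 197) (nat_lit 5) (nat_lit 194) (nat_lit 5) (nat_lit 411) (nat_lit 337) (nat_lit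 272))) (XT.nd (nat_lit 78) (nat_lit 228) (nat_lit 0) (XT.lf (nat_lit 0) (nat_lit 4803464535) (nat_lit 228) (nat_lit 4473009565) (nat_lit 304) (nat_lit 4776372902) (nat_lit 190) (nat_lit 5) (nat_lit 193) (nat_lit 5) (nat_lit 194) (nat_lit 5) (nat_lit 412) (nat_lit 337) (nat_lit 271)) (XT.lf (nat_lit 0) (nat_lit 689042121) (nat_lit 228) (nat_lit 13323862453) (nat_lit 304) (nat_lit 285546068) (nat_lit 187) (nat_lit 5) (nat_lit 190) (nat_lit 5) (nat_lit 191) (nat_lit 5) (nat_lit 413) (nat_lit 337) (nat_lit 270))))))) (XT.nd (nat_lit 1170) (nat_lit 1748) (nat_lit 0) (XT.nd (nat_lit 546) (nat_lit 1064) (nat_lit 0) (XT.nd (nat_lit 234) (nat_lit 532) (nat_lit 0) (XT.nd (nat_lit 78) (nat_lit 380) (nat_lit 0) (XT.lf (nat_lit 0) (nat_lit 4355103743) (nat_lit 304) (nat_lit 3586955581) (nat_lit 76) (nat_lit 6605117884) (nat_lit 186) (nat_lit 5) (nat_lit 190) (nat_lit 5) (nat_lit 187) (nat_lit 5) (nat_lit 414) (nat_lit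 337) (nat_lit 269)) (XT.nd (nat_lit 78) (nat_lit 228) (nat_lit 0) (XT.lf (nat_lit 0) (nat_lit 6801376550) (nat_lit 152) (nat_lit 2355541835) (nat_lit 228) (nat_lit 5645531834) (nat_lit 184) (nat_lit 5) (nat_lit 186) (nat_lit 5) (nat_lit 187) (nat_lit 5) (nat_lit 415) (nat_lit 337) (nat_lit 268)) (XT.lf (nat_lit 0) (nat_lit 2460670970) (nat_lit 228) (nat_lit 11697548681) (nat_lit 304) (nat_lit 905498804) (nat_lit 181) (nat_lit 5) (nat_lit 184) (nat_lit 5) (nat_lit 185) (nat_lit 5) (nat_lit 416) (nat_lit 337) (nat_lit 267)))) (XT.nd (nat_lit 156) (nat_lit 304) (nat_lit 0) (XT.nd (nat_lit 78) (nat_lit 152) (nat_lit 0) (XT.lf (nat_lit 0) (nat_lit 3966689031) (nat_lit 304) (nat_lit 2057485691) (nat_lit 76) (nat_lit 9305476583) (nat_lit 180) (nat_lit 5) (nat_lit 184) (nat_lit 5) (nat_lit 181) (nat_lit 5) (nat_lit 417) (nat_lit 337) (nat_lit 266)) (XT.lf (nat_lit 0) (nat_lit 8906144338) (nat_lit 152) (nat_lit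 110035025) (nat_lit 228) (nat_lit 6585633724) (nat_lit 178) (nat_lit 5) (nat_lit 180) (nat_lit 5) (nat_lit 181) (nat_lit 5) (nat_lit 418) (nat_lit 337) (nat_lit 265))) (XT.nd (nat_lit 78) (nat_lit 76) (nat_lit 0) (XT.lf (nat_lit 0) (nat_lit 4322666838) (nat_lit 228) (nat_lit 9978444447) (nat_lit 304) (nat_lit 1578509732) (nat_lit 175) (nat_lit 5) (nat_lit 178) (nat_lit 5) (nat_lit 179) (nat_lit 5) (nat_lit 419) (nat_lit 337) (nat_lit 264)) (XT.lf (nat_lit 0) (nat_lit 3542383802) (nat_lit 304) (nat_lit 454507110) (nat_lit 76) (nat_lit 12166838466) (nat_lit 174) (nat_lit 5) (nat_lit 178) (nat_lit 5) (nat_lit 175) (nat_lit 5) (nat_lit 420) (nat_lit 337) (nat_lit 263))))) (XT.nd (nat_lit 312) (nat_lit 532) (nat_lit 0) (XT.nd (nat_lit 156) (nat_lit 228) (nat_lit 0) (XT.nd (nat_lit 78) (nat_lit 152) (nat_lit 0) (XT.lf (nat_lit 0) (nat_lit 8878905216) (nat_lit 228) (nat_lit 5354672637) (nat_lit 76) (nat_lit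 2219502446) (nat_lit 172) (nat_lit 5) (nat_lit 175) (nat_lit 5) (nat_lit 173) (nat_lit 5) (nat_lit 421) (nat_lit 337) (nat_lit 262)) (XT.lf (nat_lit 0) (nat_lit 6277379934) (nat_lit 152) (nat_lit 8167937177) (nat_lit 228) (nat_lit 2303700791) (nat_lit 170) (nat_lit 5) (nat_lit 172) (nat_lit 5) (nat_lit 173) (nat_lit 5) (nat_lit 422) (nat_lit 337) (nat_lit 261))) (XT.nd (nat_lit 78) (nat_lit 0) (nat_lit 0) (XT.lf (nat_lit 0) (nat_lit 1247892165) (nat_lit 152) (nat_lit 1847949520) (nat_lit 228) (nat_lit 13956132845) (nat_lit 167) (nat_lit 5) (nat_lit 169) (nat_lit 5) (nat_lit 170) (nat_lit 5) (nat_lit 423) (nat_lit 337) (nat_lit 260)) (XT.lf (nat_lit 0) (nat_lit 8728159985) (nat_lit 228) (nat_lit 3957842546) (nat_lit 76) (nat_lit 4673820310) (nat_lit 167) (nat_lit 5) (nat_lit 170) (nat_lit 5) (nat_lit 168) (nat_lit 5) (nat_lit 424) (nat_lit 337) (nat_lit 259)))) (XT.nd (nat_lit 156) (nat_lit 152) (nat_lit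 0) (XT.nd (nat_lit 78) (nat_lit 228) (nat_lit 0) (XT.lf (nat_lit 0) (nat_lit 8327803969) (nat_lit 152) (nat_lit 6266488617) (nat_lit 228) (nat_lit 3080668672) (nat_lit 165) (nat_lit 5) (nat_lit 167) (nat_lit 5) (nat_lit 168) (nat_lit 5) (nat_lit 425) (nat_lit 337) (nat_lit 258)) (XT.lf (nat_lit 0) (nat_lit 2625542237) (nat_lit 228) (nat_lit 14963639985) (nat_lit 76) (nat_lit 408406950) (nat_lit 162) (nat_lit 5) (nat_lit 165) (nat_lit 5) (nat_lit 163) (nat_lit 5) (nat_lit 426) (nat_lit 337) (nat_lit 257))) (XT.nd (nat_lit 78) (nat_lit 152) (nat_lit 0) (XT.lf (nat_lit 0) (nat_lit 8565103394) (nat_lit 228) (nat_lit 2502857025) (nat_lit 76) (nat_lit 7257297985) (nat_lit 162) (nat_lit 5) (nat_lit 165) (nat_lit 5) (nat_lit 163) (nat_lit 5) (nat_lit 427) (nat_lit 337) (nat_lit 256)) (XT.lf (nat_lit 0) (nat_lit 10477555220) (nat_lit 152) (nat_lit 4273697663) (nat_lit 228) (nat_lit 3909452785) (nat_lit 160)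 (nat_lit 5) (nat_lit 162) (nat_lit 5) (nat_lit 163) (nat_lit 5) (nat_lit 428) (nat_lit 337) (nat_lit 255)))))) (XT.nd (nat_lit 624) (nat_lit 684) (nat_lit 0) (XT.nd (nat_lit 312) (nat_lit 456) (nat_lit 0) (XT.nd (nat_lit 156) (nat_lit 380) (nat_lit 0) (XT.nd (nat_lit 78) (nat_lit 0) (nat_lit 0) (XT.lf (nat_lit 0) (nat_lit 2142791321) (nat_lit 228) (nat_lit 14121526998) (nat_lit 76) (nat_lit 2739267800) (nat_lit 157) (nat_lit 5) (nat_lit 160) (nat_lit 5) (nat_lit 158) (nat_lit 5) (nat_lit 429) (nat_lit 337) (nat_lit 254)) (XT.lf (nat_lit 0) (nat_lit 8391671881) (nat_lit 228) (nat_lit 987985585) (nat_lit 76) (nat_lit 9973124939) (nat_lit 157) (nat_lit 5) (nat_lit 160) (nat_lit 5) (nat_lit 158) (nat_lit 5) (nat_lit 430) (nat_lit 337) (nat_lit 253))) (XT.nd (nat_lit 78) (nat_lit 228) (nat_lit 0) (XT.lf (nat_lit 0) (nat_lit 12730857136) (nat_lit 152) (nat_lit 2188353548) (nat_lit 228) (nat_lit 4790508139)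 (nat_lit 155) (nat_lit 5) (nat_lit 157) (nat_lit 5) (nat_lit 158) (nat_lit 5) (nat_lit 431) (nat_lit 337) (nat_lit 252)) (XT.lf (nat_lit 0) (nat_lit 1630437365) (nat_lit 228) (nat_lit 13260277829) (nat_lit 76) (nat_lit 5183323726) (nat_lit 152) (nat_lit 5) (nat_lit 155) (nat_lit 5) (nat_lit 153) (nat_lit 5) (nat_lit 432) (nat_lit 337) (nat_lit 251)))) (XT.nd (nat_lit 156) (nat_lit 304) (nat_lit 0) (XT.nd (nat_lit 78) (nat_lit 0) (nat_lit 0) (XT.lf (nat_lit 0) (nat_lit 600671037) (nat_lit 152) (nat_lit 7614655178) (nat_lit 228) (nat_lit 12230511500) (nat_lit 150) (nat_lit 5) (nat_lit 152) (nat_lit 5) (nat_lit 153) (nat_lit 5) (nat_lit 433) (nat_lit 337) (nat_lit 250)) (XT.lf (nat_lit 0) (nat_lit 15092530089) (nat_lit 152) (nat_lit 8480275) (nat_lit 228) (nat_lit 5724682649) (nat_lit 150) (nat_lit 5) (nat_lit 152) (nat_lit 5) (nat_lit 153) (nat_lit 5) (nat_lit 434) (nat_lit 337) (nat_lit 249))) (XT.nd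 (nat_lit 78) (nat_lit 152) (nat_lit 0) (XT.lf (nat_lit 0) (nat_lit 1088793449) (nat_lit 152) (nat_lit 12379900696) (nat_lit 76) (nat_lit 7744022559) (nat_lit 148) (nat_lit 5) (nat_lit 150) (nat_lit 5) (nat_lit 149) (nat_lit 5) (nat_lit 435) (nat_lit 337) (nat_lit 248)) (XT.lf (nat_lit 0) (nat_lit 2274952127) (nat_lit 152) (nat_lit 5767125282) (nat_lit 228) (nat_lit 13566059374) (nat_lit 146) (nat_lit 5) (nat_lit 148) (nat_lit 5) (nat_lit 149) (nat_lit 5) (nat_lit 436) (nat_lit 337) (nat_lit 247))))) (XT.nd (nat_lit 312) (nat_lit 380) (nat_lit 0) (XT.nd (nat_lit 156) (nat_lit 152) (nat_lit 0) (XT.nd (nat_lit 78) (nat_lit 152) (nat_lit 0) (XT.lf (nat_lit 0) (nat_lit 15321166441) (nat_lit 228) (nat_lit 4466379046) (nat_lit 76) (nat_lit 2224357781) (nat_lit 146) (nat_lit 5) (nat_lit 149) (nat_lit 5) (nat_lit 147) (nat_lit 4) (nat_lit 437) (nat_lit 337) (nat_lit 246)) (XT.lf (nat_lit 0) (nat_lit 517894802)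 (nat_lit 152) (nat_lit 11480134847) (nat_lit 76) (nat_lit 10425600102) (nat_lit 144) (nat_lit 5) (nat_lit 146) (nat_lit 5) (nat_lit 145) (nat_lit 5) (nat_lit 438) (nat_lit 337) (nat_lit 245))) (XT.nd (nat_lit 78) (nat_lit 0) (nat_lit 0) (XT.lf (nat_lit 0) (nat_lit 4018287193) (nat_lit 152) (nat_lit 3845249396) (nat_lit 228) (nat_lit 14980527238) (nat_lit 142) (nat_lit 5) (nat_lit 144) (nat_lit 5) (nat_lit 145) (nat_lit 5) (nat_lit 439) (nat_lit 337) (nat_lit 244)) (XT.lf (nat_lit 0) (nat_lit 15561518442) (nat_lit 228) (nat_lit 3155928818) (nat_lit 76) (nat_lit 4555704542) (nat_lit 142) (nat_lit 5) (nat_lit 145) (nat_lit 5) (nat_lit 143) (nat_lit 4) (nat_lit 440) (nat_lit 337) (nat_lit 243)))) (XT.nd (nat_lit 156) (nat_lit 76) (nat_lit 0) (XT.nd (nat_lit 78) (nat_lit 228) (nat_lit 0) (XT.lf (nat_lit 0) (nat_lit 13149741868) (nat_lit 76) (nat_lit 10477152109) (nat_lit 152) (nat_lit 84124813) (nat_lit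 141) (nat_lit 5) (nat_lit 142) (nat_lit 5) (nat_lit 143) (nat_lit 4) (nat_lit 441) (nat_lit 337) (nat_lit 242)) (XT.lf (nat_lit 0) (nat_lit 5834190852) (nat_lit 152) (nat_lit 1846638717) (nat_lit 228) (nat_lit 16477142351) (nat_lit 138) (nat_lit 5) (nat_lit 140) (nat_lit 5) (nat_lit 141) (nat_lit 5) (nat_lit 442) (nat_lit 337) (nat_lit 241))) (XT.nd (nat_lit 78) (nat_lit 76) (nat_lit 0) (XT.lf (nat_lit 0) (nat_lit 15824538908) (nat_lit 228) (nat_lit 1799618122) (nat_lit 76) (nat_lit 6989726711) (nat_lit 138) (nat_lit 5) (nat_lit 141) (nat_lit 5) (nat_lit 139) (nat_lit 4) (nat_lit 443) (nat_lit 337) (nat_lit 240)) (XT.lf (nat_lit 0) (nat_lit 15452140298) (nat_lit 76) (nat_lit 8900144451) (nat_lit 152) (nat_lit 726996411) (nat_lit 137) (nat_lit 5) (nat_lit 138) (nat_lit 5) (nat_lit 139) (nat_lit 4) (nat_lit 444) (nat_lit 337) (nat_lit 239))))))))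
noncomputable def xc93 : XT := (XT.nd (nat_lit 2340) (nat_lit 1520) (nat_lit 0) (XT.nd (nat_lit 1170) (nat_lit 1216) (nat_lit 0) (XT.nd (nat_lit 546) (nat_lit 684) (nat_lit 0) (XT.nd (nat_lit 234) (nat_lit 532) (nat_lit 0) (XT.nd (nat_lit 78) (nat_lit 76) (nat_lit 0) (XT.lf (nat_lit 0) (nat_lit 7497156896) (nat_lit 228) (nat_lit 17830119518) (nat_lit 76) (nat_lit 227145180) (nat_lit 134) (nat_lit 5) (nat_lit 137) (nat_lit 5) (nat_lit 135) (nat_lit 4) (nat_lit 445) (nat_lit 337) (nat_lit 238)) (XT.nd (nat_lit 78) (nat_lit 76) (nat_lit 0) (XT.lf (nat_lit 0) (nat_lit 16112728749) (nat_lit 228) (nat_lit 395019652) (nat_lit 76) (nat_lit 9531072726) (nat_lit 134) (nat_lit 5) (nat_lit 137) (nat_lit 5) (nat_lit 135) (nat_lit 4) (nat_lit 446) (nat_lit 337) (nat_lit 237)) (XT.lf (nat_lit 0) (nat_lit 17861704278) (nat_lit 76) (nat_lit 7270555125) (nat_lit 152) (nat_lit 1401128493) (nat_lit 133) (nat_lit 5) (nat_lit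 134) (nat_lit 5) (nat_lit 135) (nat_lit 4) (nat_lit 447) (nat_lit 337) (nat_lit 236)))) (XT.nd (nat_lit 156) (nat_lit 228) (nat_lit 0) (XT.nd (nat_lit 78) (nat_lit 76) (nat_lit 0) (XT.lf (nat_lit 0) (nat_lit 7329681031) (nat_lit 228) (nat_lit 17361683576) (nat_lit 76) (nat_lit 2346475979) (nat_lit 130) (nat_lit 5) (nat_lit 133) (nat_lit 5) (nat_lit 131) (nat_lit 4) (nat_lit 448) (nat_lit 337) (nat_lit 235)) (XT.lf (nat_lit 0) (nat_lit 1081711478) (nat_lit 76) (nat_lit 15357244119) (nat_lit 152) (nat_lit 11113714022) (nat_lit 129) (nat_lit 5) (nat_lit 130) (nat_lit 5) (nat_lit 131) (nat_lit 4) (nat_lit 449) (nat_lit 337) (nat_lit 234))) (XT.nd (nat_lit 78) (nat_lit 228) (nat_lit 0) (XT.lf (nat_lit 0) (nat_lit 20384731333) (nat_lit 76) (nat_lit 5586264421) (nat_lit 152) (nat_lit 2107463148) (nat_lit 129) (nat_lit 5) (nat_lit 130) (nat_lit 5) (nat_lit 131) (nat_lit 4) (nat_lit 450) (nat_lit 337) (nat_lit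 233)) (XT.lf (nat_lit 0) (nat_lit 7161408441) (nat_lit 228) (nat_lit 16901216737) (nat_lit 76) (nat_lit 4551359537) (nat_lit 126) (nat_lit 5) (nat_lit 129) (nat_lit 5) (nat_lit 127) (nat_lit 4) (nat_lit 451) (nat_lit 337) (nat_lit 232))))) (XT.nd (nat_lit 312) (nat_lit 304) (nat_lit 0) (XT.nd (nat_lit 156) (nat_lit 304) (nat_lit 0) (XT.nd (nat_lit 78) (nat_lit 0) (nat_lit 0) (XT.lf (nat_lit 0) (nat_lit 2621448504) (nat_lit 76) (nat_lit 14178234185) (nat_lit 152) (nat_lit 12361256800) (nat_lit 125) (nat_lit 5) (nat_lit 126) (nat_lit 5) (nat_lit 127) (nat_lit 4) (nat_lit 452) (nat_lit 337) (nat_lit 231)) (XT.lf (nat_lit 0) (nat_lit 23028042039) (nat_lit 76) (nat_lit 3844730145) (nat_lit 152) (nat_lit 2847160712) (nat_lit 125) (nat_lit 5) (nat_lit 126) (nat_lit 5) (nat_lit 127) (nat_lit 4) (nat_lit 453) (nat_lit 337) (nat_lit 230))) (XT.nd (nat_lit 78) (nat_lit 76) (nat_lit 0) (XT.lf (nat_lit 0) (nat_lit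 6992995129) (nat_lit 228) (nat_lit 16449119688) (nat_lit 76) (nat_lit 6846287306) (nat_lit 122) (nat_lit 5) (nat_lit 125) (nat_lit 5) (nat_lit 123) (nat_lit 4) (nat_lit 454) (nat_lit 337) (nat_lit 229)) (XT.lf (nat_lit 0) (nat_lit 4219746458) (nat_lit 76) (nat_lit 12973790081) (nat_lit 152) (nat_lit 13675871017) (nat_lit 121) (nat_lit 5) (nat_lit 122) (nat_lit 5) (nat_lit 123) (nat_lit 4) (nat_lit 455) (nat_lit 337) (nat_lit 228)))) (XT.nd (nat_lit 156) (nat_lit 76) (nat_lit 0) (XT.nd (nat_lit 78) (nat_lit 228) (nat_lit 0) (XT.lf (nat_lit 0) (nat_lit 25798992999) (nat_lit 76) (nat_lit 2042999637) (nat_lit 152) (nat_lit 3621593563) (nat_lit 121) (nat_lit 5) (nat_lit 122) (nat_lit 5) (nat_lit 123) (nat_lit 4) (nat_lit 456) (nat_lit 337) (nat_lit 227)) (XT.lf (nat_lit 0) (nat_lit 6825007428) (nat_lit 228) (nat_lit 16005710884) (nat_lit 76) (nat_lit 9236266681) (nat_lit 118) (nat_lit 5) (nat_lit 121) (nat_lit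 5) (nat_lit 119) (nat_lit 4) (nat_lit 457) (nat_lit 337) (nat_lit 226))) (XT.nd (nat_lit 78) (nat_lit 0) (nat_lit 0) (XT.lf (nat_lit 0) (nat_lit 5880336447) (nat_lit 76) (nat_lit 11742708804) (nat_lit 152) (nat_lit 15061039902) (nat_lit 117) (nat_lit 5) (nat_lit 118) (nat_lit 5) (nat_lit 119) (nat_lit 4) (nat_lit 458) (nat_lit 337) (nat_lit 225)) (XT.lf (nat_lit 0) (nat_lit 28705492805) (nat_lit 76) (nat_lit 177718164) (nat_lit 152) (nat_lit 4432341747) (nat_lit 117) (nat_lit 5) (nat_lit 118) (nat_lit 5) (nat_lit 119) (nat_lit 4) (nat_lit 459) (nat_lit 337) (nat_lit 224)))))) (XT.nd (nat_lit 546) (nat_lit 608) (nat_lit 0) (XT.nd (nat_lit 234) (nat_lit 380) (nat_lit 0) (XT.nd (nat_lit 78) (nat_lit 76) (nat_lit 0) (XT.lf (nat_lit 0) (nat_lit 6657932478) (nat_lit 152) (nat_lit 15571236804) (nat_lit 76) (nat_lit 11726820660) (nat_lit 115) (nat_lit 5) (nat_lit 117) (nat_lit 5) (nat_lit 116) (nat_lit 4) (nat_lit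 460) (nat_lit 337) (nat_lit 223)) (XT.nd (nat_lit 78) (nat_lit 0) (nat_lit 0) (XT.lf (nat_lit 0) (nat_lit 7607267989) (nat_lit 76) (nat_lit 10483514839) (nat_lit 152) (nat_lit 16520572314) (nat_lit 114) (nat_lit 5) (nat_lit 115) (nat_lit 5) (nat_lit 116) (nat_lit 4) (nat_lit 461) (nat_lit 337) (nat_lit 222)) (XT.lf (nat_lit 0) (nat_lit 30018023739) (nat_lit 152) (nat_lit 3543193124) (nat_lit 0) (nat_lit 1720622283) (nat_lit 114) (nat_lit 5) (nat_lit 116) (nat_lit 4) (nat_lit 114) (nat_lit 4) (nat_lit 462) (nat_lit 337) (nat_lit 221)))) (XT.nd (nat_lit 156) (nat_lit 152) (nat_lit 0) (XT.nd (nat_lit 78) (nat_lit 76) (nat_lit 0) (XT.lf (nat_lit 0) (nat_lit 6492187527) (nat_lit 152) (nat_lit 15145881047) (nat_lit 76) (nat_lit 14323991166) (nat_lit 112) (nat_lit 5) (nat_lit 114) (nat_lit 5) (nat_lit 113) (nat_lit 4) (nat_lit 463) (nat_lit 337) (nat_lit 220)) (XT.lf (nat_lit 0) (nat_lit 9404915046) (nat_lit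 76) (nat_lit 9194470456) (nat_lit 152) (nat_lit 18058608566) (nat_lit 111) (nat_lit 5) (nat_lit 112) (nat_lit 5) (nat_lit 113) (nat_lit 4) (nat_lit 464) (nat_lit 337) (nat_lit 219))) (XT.nd (nat_lit 78) (nat_lit 152) (nat_lit 0) (XT.lf (nat_lit 0) (nat_lit 31236882499) (nat_lit 152) (nat_lit 2447361246) (nat_lit 0) (nat_lit 3685550189) (nat_lit 111) (nat_lit 5) (nat_lit 113) (nat_lit 4) (nat_lit 111) (nat_lit 4) (nat_lit 465) (nat_lit 337) (nat_lit 218)) (XT.lf (nat_lit 0) (nat_lit 6328128175) (nat_lit 152) (nat_lit 14729772369) (nat_lit 76) (nat_lit 17034345833) (nat_lit 109) (nat_lit 5) (nat_lit 111) (nat_lit 5) (nat_lit 110) (nat_lit 4) (nat_lit 466) (nat_lit 337) (nat_lit 217))))) (XT.nd (nat_lit 312) (nat_lit 304) (nat_lit 0) (XT.nd (nat_lit 156) (nat_lit 228) (nat_lit 0) (XT.nd (nat_lit 78) (nat_lit 0) (nat_lit 0) (XT.lf (nat_lit 0) (nat_lit 11277984005) (nat_lit 76) (nat_lit 7873583511) (nat_lit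 152) (nat_lit 19679628200) (nat_lit 108) (nat_lit 5) (nat_lit 109) (nat_lit 5) (nat_lit 110) (nat_lit 4) (nat_lit 467) (nat_lit 337) (nat_lit 216)) (XT.lf (nat_lit 0) (nat_lit 32543269000) (nat_lit 152) (nat_lit 1318549928) (nat_lit 0) (nat_lit 5724987838) (nat_lit 108) (nat_lit 5) (nat_lit 110) (nat_lit 4) (nat_lit 108) (nat_lit 4) (nat_lit 468) (nat_lit 337) (nat_lit 215))) (XT.nd (nat_lit 78) (nat_lit 76) (nat_lit 0) (XT.lf (nat_lit 0) (nat_lit 6166055692) (nat_lit 152) (nat_lit 14322991803) (nat_lit 76) (nat_lit 19864988110) (nat_lit 106) (nat_lit 5) (nat_lit 108) (nat_lit 5) (nat_lit 107) (nat_lit 4) (nat_lit 469) (nat_lit 337) (nat_lit 214)) (XT.lf (nat_lit 0) (nat_lit 13231523552) (nat_lit 76) (nat_lit 6518612925) (nat_lit 152) (nat_lit 21388459663) (nat_lit 105) (nat_lit 5) (nat_lit 106) (nat_lit 5) (nat_lit 107) (nat_lit 4) (nat_lit 470) (nat_lit 337) (nat_lit 213)))) (XT.nd (nat_lit 156) (nat_lit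 152) (nat_lit 0) (XT.nd (nat_lit 78) (nat_lit 152) (nat_lit 0) (XT.lf (nat_lit 0) (nat_lit 33942622063) (nat_lit 152) (nat_lit 154263256) (nat_lit 0) (nat_lit 7843781700) (nat_lit 105) (nat_lit 5) (nat_lit 107) (nat_lit 4) (nat_lit 105) (nat_lit 4) (nat_lit 471) (nat_lit 337) (nat_lit 212)) (XT.lf (nat_lit 0) (nat_lit 6006223504) (nat_lit 152) (nat_lit 13925578951) (nat_lit 76) (nat_lit 22823570539) (nat_lit 103) (nat_lit 5) (nat_lit 105) (nat_lit 5) (nat_lit 104) (nat_lit 4) (nat_lit 472) (nat_lit 337) (nat_lit 211))) (XT.nd (nat_lit 78) (nat_lit 76) (nat_lit 0) (XT.lf (nat_lit 0) (nat_lit 15270936382) (nat_lit 76) (nat_lit 5127072045) (nat_lit 152) (nat_lit 23190291829) (nat_lit 102) (nat_lit 5) (nat_lit 103) (nat_lit 5) (nat_lit 104) (nat_lit 4) (nat_lit 473) (nat_lit 337) (nat_lit 210)) (XT.lf (nat_lit 0) (nat_lit 1069048760) (nat_lit 76) (nat_lit 34381880887) (nat_lit 76) (nat_lit 8988404207) (nat_lit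 101) (nat_lit 4) (nat_lit 102) (nat_lit 5) (nat_lit 102) (nat_lit 4) (nat_lit 474) (nat_lit 337) (nat_lit 209))))))) (XT.nd (nat_lit 1170) (nat_lit 380) (nat_lit 0) (XT.nd (nat_lit 546) (nat_lit 608) (nat_lit 0) (XT.nd (nat_lit 234) (nat_lit 304) (nat_lit 0) (XT.nd (nat_lit 78) (nat_lit 152) (nat_lit 0) (XT.lf (nat_lit 0) (nat_lit 5848842940) (nat_lit 152) (nat_lit 13537537550) (nat_lit 76) (nat_lit 25918311129) (nat_lit 100) (nat_lit 5) (nat_lit 102) (nat_lit 5) (nat_lit 101) (nat_lit 4) (nat_lit 475) (nat_lit 337) (nat_lit 208)) (XT.nd (nat_lit 78) (nat_lit 76) (nat_lit 0) (XT.lf (nat_lit 0) (nat_lit 17401992740) (nat_lit 76) (nat_lit 3696230007) (nat_lit 152) (nat_lit 25090687349) (nat_lit 99) (nat_lit 5) (nat_lit 100) (nat_lit 5) (nat_lit 101) (nat_lit 4) (nat_lit 476) (nat_lit 337) (nat_lit 207)) (XT.lf (nat_lit 0) (nat_lit 2337298742) (nat_lit 76) (nat_lit 34728540378) (nat_lit 76) (nat_lit 10025993352)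 (nat_lit 98) (nat_lit 4) (nat_lit 99) (nat_lit 5) (nat_lit 99) (nat_lit 4) (nat_lit 477) (nat_lit 337) (nat_lit 206)))) (XT.nd (nat_lit 156) (nat_lit 152) (nat_lit 0) (XT.nd (nat_lit 78) (nat_lit 76) (nat_lit 0) (XT.lf (nat_lit 0) (nat_lit 5694088334) (nat_lit 152) (nat_lit 13158840382) (nat_lit 76) (nat_lit 29158012750) (nat_lit 97) (nat_lit 5) (nat_lit 99) (nat_lit 5) (nat_lit 98) (nat_lit 4) (nat_lit 478) (nat_lit 337) (nat_lit 205)) (XT.lf (nat_lit 0) (nat_lit 19630845752) (nat_lit 76) (nat_lit 2223111247) (nat_lit 152) (nat_lit 27095597800) (nat_lit 96) (nat_lit 5) (nat_lit 97) (nat_lit 5) (nat_lit 98) (nat_lit 4) (nat_lit 479) (nat_lit 337) (nat_lit 204))) (XT.nd (nat_lit 78) (nat_lit 76) (nat_lit 0) (XT.lf (nat_lit 0) (nat_lit 3650567568) (nat_lit 76) (nat_lit 35141632014) (nat_lit 76) (nat_lit 11115319615) (nat_lit 95) (nat_lit 4) (nat_lit 96) (nat_lit 5) (nat_lit 96) (nat_lit 4) (nat_lit 480)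 (nat_lit 337) (nat_lit 203)) (XT.lf (nat_lit 0) (nat_lit 5542101537) (nat_lit 152) (nat_lit 12789433622) (nat_lit 76) (nat_lit 32552085495) (nat_lit 94) (nat_lit 5) (nat_lit 96) (nat_lit 5) (nat_lit 95) (nat_lit 4) (nat_lit 481) (nat_lit 337) (nat_lit 202))))) (XT.nd (nat_lit 312) (nat_lit 304) (nat_lit 0) (XT.nd (nat_lit 156) (nat_lit 152) (nat_lit 0) (XT.nd (nat_lit 78) (nat_lit 76) (nat_lit 0) (XT.lf (nat_lit 0) (nat_lit 21964048563) (nat_lit 76) (nat_lit 704493260) (nat_lit 152) (nat_lit 29211380648) (nat_lit 93) (nat_lit 5) (nat_lit 94) (nat_lit 5) (nat_lit 95) (nat_lit 4) (nat_lit 482) (nat_lit 337) (nat_lit 201)) (XT.lf (nat_lit 0) (nat_lit 5012220182) (nat_lit 76) (nat_lit 35624502473) (nat_lit 76) (nat_lit 12259552267) (nat_lit 92) (nat_lit 4) (nat_lit 93) (nat_lit 5) (nat_lit 93) (nat_lit 4) (nat_lit 483) (nat_lit 337) (nat_lit 200))) (XT.nd (nat_lit 78) (nat_lit 76) (nat_lit 0) (XT.lf (nat_lit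 0) (nat_lit 5392995921) (nat_lit 152) (nat_lit 12429240664) (nat_lit 76) (nat_lit 36110571997) (nat_lit 91) (nat_lit 5) (nat_lit 93) (nat_lit 5) (nat_lit 92) (nat_lit 4) (nat_lit 484) (nat_lit 337) (nat_lit 199)) (XT.lf (nat_lit 0) (nat_lit 23553772592) (nat_lit 152) (nat_lit 30590017335) (nat_lit 0) (nat_lit 846255168) (nat_lit 90) (nat_lit 5) (nat_lit 92) (nat_lit 4) (nat_lit 90) (nat_lit 4) (nat_lit 485) (nat_lit 337) (nat_lit 198)))) (XT.nd (nat_lit 156) (nat_lit 152) (nat_lit 0) (XT.nd (nat_lit 78) (nat_lit 76) (nat_lit 0) (XT.lf (nat_lit 0) (nat_lit 6425843437) (nat_lit 76) (nat_lit 36180653358) (nat_lit 76) (nat_lit 13462088180) (nat_lit 89) (nat_lit 4) (nat_lit 90) (nat_lit 5) (nat_lit 90) (nat_lit 4) (nat_lit 486) (nat_lit 337) (nat_lit 197)) (XT.lf (nat_lit 0) (nat_lit 5246859926) (nat_lit 152) (nat_lit 12078165501) (nat_lit 76) (nat_lit 39844175702) (nat_lit 88) (nat_lit 5) (nat_lit 90) (nat_lit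 5) (nat_lit 89) (nat_lit 4) (nat_lit 487) (nat_lit 337) (nat_lit 196))) (XT.nd (nat_lit 78) (nat_lit 76) (nat_lit 0) (XT.lf (nat_lit 0) (nat_lit 24512313475) (nat_lit 152) (nat_lit 31343619051) (nat_lit 0) (nat_lit 2434930252) (nat_lit 87) (nat_lit 5) (nat_lit 89) (nat_lit 4) (nat_lit 87) (nat_lit 4) (nat_lit 488) (nat_lit 337) (nat_lit 195)) (XT.lf (nat_lit 0) (nat_lit 7895255195) (nat_lit 76) (nat_lit 36813759780) (nat_lit 76) (nat_lit 14726560771) (nat_lit 86) (nat_lit 4) (nat_lit 87) (nat_lit 5) (nat_lit 87) (nat_lit 4) (nat_lit 489) (nat_lit 337) (nat_lit 194)))))) (XT.nd (nat_lit 41964) (nat_lit 0) (nat_lit 30628) (XT.nd (nat_lit 312) (nat_lit 76) (nat_lit 0) (XT.nd (nat_lit 156) (nat_lit 152) (nat_lit 0) (XT.nd (nat_lit 78) (nat_lit 76) (nat_lit 0) (XT.lf (nat_lit 0) (nat_lit 5103760194) (nat_lit 152) (nat_lit 11736095704) (nat_lit 76) (nat_lit 43764292100) (nat_lit 85) (nat_lit 5) (nat_lit 87)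 (nat_lit 5) (nat_lit 86) (nat_lit 4) (nat_lit 490) (nat_lit 337) (nat_lit 193)) (XT.lf (nat_lit 0) (nat_lit 25541312018) (nat_lit 152) (nat_lit 32173647528) (nat_lit 0) (nat_lit 4079194330) (nat_lit 84) (nat_lit 5) (nat_lit 86) (nat_lit 4) (nat_lit 84) (nat_lit 4) (nat_lit 491) (nat_lit 337) (nat_lit 192))) (XT.nd (nat_lit 78) (nat_lit 76) (nat_lit 0) (XT.lf (nat_lit 0) (nat_lit 9424514544) (nat_lit 76) (nat_lit 37527688940) (nat_lit 76) (nat_lit 16056850054) (nat_lit 83) (nat_lit 4) (nat_lit 84) (nat_lit 5) (nat_lit 84) (nat_lit 4) (nat_lit 492) (nat_lit 337) (nat_lit 191)) (XT.lf (nat_lit 0) (nat_lit 4963744349) (nat_lit 152) (nat_lit 11402905039) (nat_lit 76) (nat_lit 47883042982) (nat_lit 82) (nat_lit 5) (nat_lit 84) (nat_lit 5) (nat_lit 83) (nat_lit 4) (nat_lit 493) (nat_lit 337) (nat_lit 190)))) (XT.nd (nat_lit 41496) (nat_lit 0) (nat_lit 32528) (XT.nd (nat_lit 41418) (nat_lit 0) (nat_lit 32832)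 (XT.lf (nat_lit 0) (nat_lit 26644905463) (nat_lit 152) (nat_lit 33084066153) (nat_lit 0) (nat_lit 5783229118) (nat_lit 81) (nat_lit 5) (nat_lit 83) (nat_lit 4) (nat_lit 81) (nat_lit 4) (nat_lit 494) (nat_lit 337) (nat_lit 189)) (XT.lf (nat_lit 0) (nat_lit 143603562) (nat_lit 228) (nat_lit 2942383602) (nat_lit 0) (nat_lit 143603562) (nat_lit 513) (nat_lit 5) (nat_lit 516) (nat_lit 4) (nat_lit 513) (nat_lit 4) (nat_lit 344) (nat_lit 338) (nat_lit 338))) (XT.nd (nat_lit 78) (nat_lit 304) (nat_lit 0) (XT.lf (nat_lit 0) (nat_lit 3491418422) (nat_lit 228) (nat_lit 2347832983) (nat_lit 0) (nat_lit 629401312) (nat_lit 513) (nat_lit 5) (nat_lit 516) (nat_lit 4) (nat_lit 513) (nat_lit 4) (nat_lit 345) (nat_lit 338) (nat_lit 337)) (XT.lf (nat_lit 0) (nat_lit 199465541) (nat_lit 304) (nat_lit 5235759449) (nat_lit 76) (nat_lit 1046325800) (nat_lit 509) (nat_lit 5) (nat_lit 513) (nat_lit 5) (nat_lit 510) (nat_lit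 4) (nat_lit 346) (nat_lit 338) (nat_lit 336))))) (XT.nd (nat_lit 312) (nat_lit 1140) (nat_lit 0) (XT.nd (nat_lit 156) (nat_lit 456) (nat_lit 0) (XT.nd (nat_lit 78) (nat_lit 304) (nat_lit 0) (XT.lf (nat_lit 0) (nat_lit 3318490834) (nat_lit 304) (nat_lit 1601863723) (nat_lit 76) (nat_lit 1576391003) (nat_lit 509) (nat_lit 5) (nat_lit 513) (nat_lit 5) (nat_lit 510) (nat_lit 4) (nat_lit 347) (nat_lit 338) (nat_lit 335)) (XT.lf (nat_lit 0) (nat_lit 2110999811) (nat_lit 304) (nat_lit 4326710049) (nat_lit 380) (nat_lit 77487626) (nat_lit 505) (nat_lit 5) (nat_lit 509) (nat_lit 5) (nat_lit 510) (nat_lit 4) (nat_lit 348) (nat_lit 338) (nat_lit 334))) (XT.nd (nat_lit 78) (nat_lit 380) (nat_lit 0) (XT.lf (nat_lit 0) (nat_lit 2959692064) (nat_lit 380) (nat_lit 668523315) (nat_lit 76) (nat_lit 2907962918) (nat_lit 504) (nat_lit 5) (nat_lit 509) (nat_lit 5) (nat_lit 505) (nat_lit 5) (nat_lit 349) (nat_lit 338) (nat_lit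 333)) (XT.lf (nat_lit 0) (nat_lit 3169649480) (nat_lit 380) (nat_lit 2838378971) (nat_lit 456) (nat_lit 552089105) (nat_lit 499) (nat_lit 5) (nat_lit 504) (nat_lit 5) (nat_lit 505) (nat_lit 5) (nat_lit 350) (nat_lit 338) (nat_lit 332)))) (XT.nd (nat_lit 156) (nat_lit 608) (nat_lit 0) (XT.nd (nat_lit 78) (nat_lit 0) (nat_lit 0) (XT.lf (nat_lit 0) (nat_lit 464354826) (nat_lit 456) (nat_lit 1952527622) (nat_lit 532) (nat_lit 4170037719) (nat_lit 492) (nat_lit 5) (nat_lit 498) (nat_lit 5) (nat_lit 499) (nat_lit 5) (nat_lit 351) (nat_lit 338) (nat_lit 331)) (XT.lf (nat_lit 0) (nat_lit 4427354421) (nat_lit 456) (nat_lit 965673738) (nat_lit 532) (nat_lit 1223458668) (nat_lit 492) (nat_lit 5) (nat_lit 498) (nat_lit 5) (nat_lit 499) (nat_lit 5) (nat_lit 352) (nat_lit 338) (nat_lit 330))) (XT.nd (nat_lit 78) (nat_lit 0) (nat_lit 0) (XT.lf (nat_lit 0) (nat_lit 1691758794) (nat_lit 608) (nat_lit 4841297306) (nat_lit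 76) (nat_lit 115894275) (nat_lit 484) (nat_lit 5) (nat_lit 492) (nat_lit 5) (nat_lit 485) (nat_lit 5) (nat_lit 353) (nat_lit 338) (nat_lit 329)) (XT.lf (nat_lit 0) (nat_lit 4601401663) (nat_lit 608) (nat_lit 808371010) (nat_lit 76) (nat_lit 1274304978) (nat_lit 484) (nat_lit 5) (nat_lit 492) (nat_lit 5) (nat_lit 485) (nat_lit 5) (nat_lit 354) (nat_lit 338) (nat_lit 328))))))))
noncomputable def xc94 : XT := (XT.nd (nat_lit 2340) (nat_lit 7068) (nat_lit 0) (XT.nd (nat_lit 1170) (nat_lit 6080) (nat_lit 0) (XT.nd (nat_lit 546) (nat_lit 5472) (nat_lit 0) (XT.nd (nat_lit 234) (nat_lit 2660) (nat_lit 0) (XT.nd (nat_lit 78) (nat_lit 684) (nat_lit 0) (XT.lf (nat_lit 0) (nat_lit 794984790) (nat_lit 684) (nat_lit 3391130943) (nat_lit 76) (nat_lit 2535868470) (nat_lit 475) (nat_lit 5) (nat_lit 484) (nat_lit 5) (nat_lit 476) (nat_lit 5) (nat_lit 355) (nat_lit 338) (nat_lit 327)) (XT.nd (nat_lit 78) (nat_lit 0)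 (nat_lit 0) (XT.lf (nat_lit 0) (nat_lit 771366777) (nat_lit 684) (nat_lit 2865213288) (nat_lit 760) (nat_lit 3126245338) (nat_lit 466) (nat_lit 5) (nat_lit 475) (nat_lit 5) (nat_lit 476) (nat_lit 5) (nat_lit 356) (nat_lit 338) (nat_lit 326)) (XT.lf (nat_lit 0) (nat_lit 5055944232) (nat_lit 684) (nat_lit 1447635190) (nat_lit 760) (nat_lit 303107731) (nat_lit 466) (nat_lit 5) (nat_lit 475) (nat_lit 5) (nat_lit 476) (nat_lit 5) (nat_lit 357) (nat_lit 338) (nat_lit 325)))) (XT.nd (nat_lit 156) (nat_lit 988) (nat_lit 0) (XT.nd (nat_lit 78) (nat_lit 836) (nat_lit 0) (XT.lf (nat_lit 0) (nat_lit 2487158599) (nat_lit 836) (nat_lit 4283675252) (nat_lit 76) (nat_lit 82281893) (nat_lit 455) (nat_lit 5) (nat_lit 466) (nat_lit 5) (nat_lit 456) (nat_lit 5) (nat_lit 358) (nat_lit 338) (nat_lit 324)) (XT.lf (nat_lit 0) (nat_lit 64232375) (nat_lit 836) (nat_lit 5233544465) (nat_lit 912) (nat_lit 1604788239) (nat_lit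 444) (nat_lit 5) (nat_lit 455) (nat_lit 5) (nat_lit 456) (nat_lit 5) (nat_lit 359) (nat_lit 338) (nat_lit 323))) (XT.nd (nat_lit 78) (nat_lit 912) (nat_lit 0) (XT.lf (nat_lit 0) (nat_lit 1169694771) (nat_lit 912) (nat_lit 2409419288) (nat_lit 76) (nat_lit 3375386655) (nat_lit 443) (nat_lit 5) (nat_lit 455) (nat_lit 5) (nat_lit 444) (nat_lit 5) (nat_lit 360) (nat_lit 338) (nat_lit 322)) (XT.lf (nat_lit 0) (nat_lit 2104463358) (nat_lit 912) (nat_lit 1824492188) (nat_lit 988) (nat_lit 3080548262) (nat_lit 431) (nat_lit 5) (nat_lit 443) (nat_lit 5) (nat_lit 444) (nat_lit 5) (nat_lit 361) (nat_lit 338) (nat_lit 321))))) (XT.nd (nat_lit 312) (nat_lit 3268) (nat_lit 0) (XT.nd (nat_lit 156) (nat_lit 1140) (nat_lit 0) (XT.nd (nat_lit 78) (nat_lit 1064) (nat_lit 0) (XT.lf (nat_lit 0) (nat_lit 6710907982) (nat_lit 988) (nat_lit 337363595) (nat_lit 76) (nat_lit 19688004) (nat_lit 431) (nat_lit 5) (nat_lit 444)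 (nat_lit 5) (nat_lit 432) (nat_lit 5) (nat_lit 362) (nat_lit 338) (nat_lit 320)) (XT.lf (nat_lit 0) (nat_lit 2378118870) (nat_lit 1064) (nat_lit 2790585704) (nat_lit 76) (nat_lit 1959426226) (nat_lit 417) (nat_lit 5) (nat_lit 431) (nat_lit 5) (nat_lit 418) (nat_lit 5) (nat_lit 363) (nat_lit 338) (nat_lit 319))) (XT.nd (nat_lit 78) (nat_lit 76) (nat_lit 0) (XT.lf (nat_lit 0) (nat_lit 1929973332) (nat_lit 1064) (nat_lit 3199057000) (nat_lit 1140) (nat_lit 2062744901) (nat_lit 403) (nat_lit 5) (nat_lit 417) (nat_lit 5) (nat_lit 418) (nat_lit 5) (nat_lit 364) (nat_lit 338) (nat_lit 318)) (XT.lf (nat_lit 0) (nat_lit 639582902) (nat_lit 1140) (nat_lit 488792073) (nat_lit 76) (nat_lit 6130304599) (nat_lit 402) (nat_lit 5) (nat_lit 417) (nat_lit 5) (nat_lit 403) (nat_lit 5) (nat_lit 365) (nat_lit 338) (nat_lit 317)))) (XT.nd (nat_lit 156) (nat_lit 912) (nat_lit 0) (XT.nd (nat_lit 78) (nat_lit 1216) (nat_lit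 0) (XT.lf (nat_lit 0) (nat_lit 3356429588) (nat_lit 1216) (nat_lit 2917552637) (nat_lit 76) (nat_lit 1053748878) (nat_lit 387) (nat_lit 5) (nat_lit 403) (nat_lit 5) (nat_lit 388) (nat_lit 5) (nat_lit 366) (nat_lit 338) (nat_lit 316)) (XT.lf (nat_lit 0) (nat_lit 2021603557) (nat_lit 1216) (nat_lit 4092473851) (nat_lit 1292) (nat_lit 1285997899) (nat_lit 371) (nat_lit 5) (nat_lit 387) (nat_lit 5) (nat_lit 388) (nat_lit 5) (nat_lit 367) (nat_lit 338) (nat_lit 315))) (XT.nd (nat_lit 78) (nat_lit 836) (nat_lit 0) (XT.lf (nat_lit 0) (nat_lit 1405223589) (nat_lit 1292) (nat_lit 394314632) (nat_lit 76) (nat_lit 5675997766) (nat_lit 370) (nat_lit 5) (nat_lit 387) (nat_lit 5) (nat_lit 371) (nat_lit 5) (nat_lit 368) (nat_lit 338) (nat_lit 314)) (XT.lf (nat_lit 0) (nat_lit 4129632501) (nat_lit 912) (nat_lit 2813092977) (nat_lit 76) (nat_lit 610804088) (nat_lit 359) (nat_lit 5) (nat_lit 371) (nat_lit 5) (nat_lit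 360) (nat_lit 5) (nat_lit 369) (nat_lit 338) (nat_lit 313)))))) (XT.nd (nat_lit 546) (nat_lit 3040) (nat_lit 0) (XT.nd (nat_lit 234) (nat_lit 1748) (nat_lit 0) (XT.nd (nat_lit 78) (nat_lit 684) (nat_lit 0) (XT.lf (nat_lit 0) (nat_lit 2357622329) (nat_lit 608) (nat_lit 4550778489) (nat_lit 684) (nat_lit 726283321) (nat_lit 351) (nat_lit 5) (nat_lit 359) (nat_lit 5) (nat_lit 360) (nat_lit 5) (nat_lit 370) (nat_lit 338) (nat_lit 312)) (XT.nd (nat_lit 78) (nat_lit 608) (nat_lit 0) (XT.lf (nat_lit 0) (nat_lit 1969715905) (nat_lit 684) (nat_lit 71092141) (nat_lit 76) (nat_lit 5678148355) (nat_lit 350) (nat_lit 5) (nat_lit 359) (nat_lit 5) (nat_lit 351) (nat_lit 5) (nat_lit 371) (nat_lit 338) (nat_lit 311)) (XT.lf (nat_lit 0) (nat_lit 4719754780) (nat_lit 684) (nat_lit 2496887546) (nat_lit 76) (nat_lit 589266060) (nat_lit 342) (nat_lit 5) (nat_lit 351) (nat_lit 5) (nat_lit 343) (nat_lit 5) (nat_lit 372) (nat_lit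 338) (nat_lit 310)))) (XT.nd (nat_lit 156) (nat_lit 532) (nat_lit 0) (XT.nd (nat_lit 78) (nat_lit 684) (nat_lit 0) (XT.lf (nat_lit 0) (nat_lit 2919411256) (nat_lit 532) (nat_lit 4614049449) (nat_lit 608) (nat_lit 362573249) (nat_lit 335) (nat_lit 5) (nat_lit 342) (nat_lit 5) (nat_lit 343) (nat_lit 5) (nat_lit 373) (nat_lit 338) (nat_lit 309)) (XT.lf (nat_lit 0) (nat_lit 472256538) (nat_lit 608) (nat_lit 1885579737) (nat_lit 684) (nat_lit 5631438949) (nat_lit 326) (nat_lit 5) (nat_lit 334) (nat_lit 5) (nat_lit 335) (nat_lit 5) (nat_lit 374) (nat_lit 338) (nat_lit 308))) (XT.nd (nat_lit 78) (nat_lit 532) (nat_lit 0) (XT.lf (nat_lit 0) (nat_lit 5146170124) (nat_lit 684) (nat_lit 1985842457) (nat_lit 76) (nat_lit 953385475) (nat_lit 326) (nat_lit 5) (nat_lit 335) (nat_lit 5) (nat_lit 327) (nat_lit 5) (nat_lit 375) (nat_lit 338) (nat_lit 307)) (XT.lf (nat_lit 0) (nat_lit 3691154089) (nat_lit 532) (nat_lit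 4317032673) (nat_lit 608) (nat_lit 176516829) (nat_lit 319) (nat_lit 5) (nat_lit 326) (nat_lit 5) (nat_lit 327) (nat_lit 5) (nat_lit 376) (nat_lit 338) (nat_lit 306))))) (XT.nd (nat_lit 312) (nat_lit 1368) (nat_lit 0) (XT.nd (nat_lit 156) (nat_lit 1064) (nat_lit 0) (XT.nd (nat_lit 78) (nat_lit 0) (nat_lit 0) (XT.lf (nat_lit 0) (nat_lit 1216649056) (nat_lit 532) (nat_lit 1368717044) (nat_lit 608) (nat_lit 5701801274) (nat_lit 311) (nat_lit 5) (nat_lit 318) (nat_lit 5) (nat_lit 319) (nat_lit 5) (nat_lit 377) (nat_lit 338) (nat_lit 305)) (XT.lf (nat_lit 0) (nat_lit 5425886896) (nat_lit 608) (nat_lit 1294369237) (nat_lit 76) (nat_lit 1672416631) (nat_lit 311) (nat_lit 5) (nat_lit 319) (nat_lit 5) (nat_lit 312) (nat_lit 5) (nat_lit 378) (nat_lit 338) (nat_lit 304))) (XT.nd (nat_lit 78) (nat_lit 608) (nat_lit 0) (XT.lf (nat_lit 0) (nat_lit 4659562636) (nat_lit 456) (nat_lit 3689693759) (nat_lit 532) (nat_lit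 152157930) (nat_lit 305) (nat_lit 5) (nat_lit 311) (nat_lit 5) (nat_lit 312) (nat_lit 5) (nat_lit 379) (nat_lit 338) (nat_lit 303)) (XT.lf (nat_lit 0) (nat_lit 2147634444) (nat_lit 532) (nat_lit 519291691) (nat_lit 608) (nat_lit 5946491265) (nat_lit 297) (nat_lit 5) (nat_lit 304) (nat_lit 5) (nat_lit 305) (nat_lit 5) (nat_lit 380) (nat_lit 338) (nat_lit 302)))) (XT.nd (nat_lit 156) (nat_lit 912) (nat_lit 0) (XT.nd (nat_lit 78) (nat_lit 456) (nat_lit 0) (XT.lf (nat_lit 0) (nat_lit 5573803525) (nat_lit 608) (nat_lit 434631745) (nat_lit 76) (nat_lit 2720111732) (nat_lit 297) (nat_lit 5) (nat_lit 305) (nat_lit 5) (nat_lit 298) (nat_lit 5) (nat_lit 381) (nat_lit 338) (nat_lit 301)) (XT.lf (nat_lit 0) (nat_lit 5813635734) (nat_lit 456) (nat_lit 2757705747) (nat_lit 532) (nat_lit 275685385) (nat_lit 291) (nat_lit 5) (nat_lit 297) (nat_lit 5) (nat_lit 298) (nat_lit 5) (nat_lit 382) (nat_lit 338) (nat_lit 300)))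 (XT.nd (nat_lit 78) (nat_lit 380) (nat_lit 0) (XT.lf (nat_lit 0) (nat_lit 2621970205) (nat_lit 532) (nat_lit 5720681129) (nat_lit 76) (nat_lit 626092756) (nat_lit 284) (nat_lit 5) (nat_lit 291) (nat_lit 5) (nat_lit 285) (nat_lit 5) (nat_lit 383) (nat_lit 338) (nat_lit 299)) (XT.lf (nat_lit 0) (nat_lit 594844061) (nat_lit 380) (nat_lit 5013808749) (nat_lit 456) (nat_lit 3485148983) (nat_lit 279) (nat_lit 5) (nat_lit 284) (nat_lit 5) (nat_lit 285) (nat_lit 5) (nat_lit 384) (nat_lit 338) (nat_lit 298))))))) (XT.nd (nat_lit 1170) (nat_lit 3116) (nat_lit 0) (XT.nd (nat_lit 546) (nat_lit 1824) (nat_lit 0) (XT.nd (nat_lit 234) (nat_lit 1216) (nat_lit 0) (XT.nd (nat_lit 78) (nat_lit 912) (nat_lit 0) (XT.lf (nat_lit 0) (nat_lit 7144447761) (nat_lit 380) (nat_lit 1542879468) (nat_lit 456) (nat_lit 535212259) (nat_lit 279) (nat_lit 5) (nat_lit 284) (nat_lit 5) (nat_lit 285) (nat_lit 5) (nat_lit 385) (nat_lit 338)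 (nat_lit 297)) (XT.nd (nat_lit 78) (nat_lit 380) (nat_lit 0) (XT.lf (nat_lit 0) (nat_lit 2463643788) (nat_lit 532) (nat_lit 4846700888) (nat_lit 76) (nat_lit 2043794720) (nat_lit 272) (nat_lit 5) (nat_lit 279) (nat_lit 5) (nat_lit 273) (nat_lit 5) (nat_lit 386) (nat_lit 338) (nat_lit 296)) (XT.lf (nat_lit 0) (nat_lit 1785788665) (nat_lit 380) (nat_lit 3755989721) (nat_lit 456) (nat_lit 3947747837) (nat_lit 267) (nat_lit 5) (nat_lit 272) (nat_lit 5) (nat_lit 273) (nat_lit 5) (nat_lit 387) (nat_lit 338) (nat_lit 295)))) (XT.nd (nat_lit 156) (nat_lit 760) (nat_lit 0) (XT.nd (nat_lit 78) (nat_lit 456) (nat_lit 0) (XT.lf (nat_lit 0) (nat_lit 8644963544) (nat_lit 380) (nat_lit 63542673) (nat_lit 456) (nat_lit 920580962) (nat_lit 267) (nat_lit 5) (nat_lit 272) (nat_lit 5) (nat_lit 273) (nat_lit 5) (nat_lit 388) (nat_lit 338) (nat_lit 294)) (XT.lf (nat_lit 0) (nat_lit 2196707283) (nat_lit 456) (nat_lit 3846867978)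 (nat_lit 76) (nat_lit 3727360452) (nat_lit 261) (nat_lit 5) (nat_lit 267) (nat_lit 5) (nat_lit 262) (nat_lit 5) (nat_lit 389) (nat_lit 338) (nat_lit 293))) (XT.nd (nat_lit 78) (nat_lit 380) (nat_lit 0) (XT.lf (nat_lit 0) (nat_lit 3122798406) (nat_lit 380) (nat_lit 2255881494) (nat_lit 456) (nat_lit 4538396310) (nat_lit 256) (nat_lit 5) (nat_lit 261) (nat_lit 5) (nat_lit 262) (nat_lit 5) (nat_lit 390) (nat_lit 338) (nat_lit 292)) (XT.lf (nat_lit 0) (nat_lit 230425329) (nat_lit 380) (nat_lit 8432546235) (nat_lit 456) (nat_lit 1404423559) (nat_lit 251) (nat_lit 5) (nat_lit 256) (nat_lit 5) (nat_lit 257) (nat_lit 5) (nat_lit 391) (nat_lit 338) (nat_lit 291))))) (XT.nd (nat_lit 312) (nat_lit 988) (nat_lit 0) (XT.nd (nat_lit 156) (nat_lit 456) (nat_lit 0) (XT.nd (nat_lit 78) (nat_lit 304) (nat_lit 0) (XT.lf (nat_lit 0) (nat_lit 1829497976) (nat_lit 456) (nat_lit 2727702408) (nat_lit 76) (nat_lit 5663251926)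 (nat_lit 250) (nat_lit 5) (nat_lit 256) (nat_lit 5) (nat_lit 251) (nat_lit 5) (nat_lit 392) (nat_lit 338) (nat_lit 290)) (XT.lf (nat_lit 0) (nat_lit 4600676055) (nat_lit 304) (nat_lit 527107946) (nat_lit 380) (nat_lit 5250032822) (nat_lit 246) (nat_lit 5) (nat_lit 250) (nat_lit 5) (nat_lit 251) (nat_lit 5) (nat_lit 393) (nat_lit 338) (nat_lit 289))) (XT.nd (nat_lit 78) (nat_lit 76) (nat_lit 0) (XT.lf (nat_lit 0) (nat_lit 1591103914) (nat_lit 380) (nat_lit 6963755547) (nat_lit 456) (nat_lit 1984147586) (nat_lit 241) (nat_lit 5) (nat_lit 246) (nat_lit 5) (nat_lit 247) (nat_lit 5) (nat_lit 394) (nat_lit 338) (nat_lit 288)) (XT.lf (nat_lit 0) (nat_lit 1369079551) (nat_lit 456) (nat_lit 1494362254) (nat_lit 76) (nat_lit 7840704637) (nat_lit 240) (nat_lit 5) (nat_lit 246) (nat_lit 5) (nat_lit 241) (nat_lit 5) (nat_lit 395) (nat_lit 338) (nat_lit 287)))) (XT.nd (nat_lit 156) (nat_lit 380) (nat_lit 0) (XT.nd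 (nat_lit 78) (nat_lit 304) (nat_lit 0) (XT.lf (nat_lit 0) (nat_lit 4809964031) (nat_lit 380) (nat_lit 4671244246) (nat_lit 76) (nat_lit 1391634193) (nat_lit 236) (nat_lit 5) (nat_lit 241) (nat_lit 5) (nat_lit 237) (nat_lit 5) (nat_lit 396) (nat_lit 338) (nat_lit 286)) (XT.lf (nat_lit 0) (nat_lit 3075169078) (nat_lit 304) (nat_lit 5306088105) (nat_lit 380) (nat_lit 2664526731) (nat_lit 232) (nat_lit 5) (nat_lit 236) (nat_lit 5) (nat_lit 237) (nat_lit 5) (nat_lit 397) (nat_lit 338) (nat_lit 285))) (XT.nd (nat_lit 78) (nat_lit 304) (nat_lit 0) (XT.lf (nat_lit 0) (nat_lit 821366492) (nat_lit 380) (nat_lit 150762039) (nat_lit 76) (nat_lit 10251487053) (nat_lit 231) (nat_lit 5) (nat_lit 236) (nat_lit 5) (nat_lit 232) (nat_lit 5) (nat_lit 398) (nat_lit 338) (nat_lit 284)) (XT.lf (nat_lit 0) (nat_lit 4424807239) (nat_lit 380) (nat_lit 3474122547) (nat_lit 76) (nat_lit 3505065222) (nat_lit 227) (nat_lit 5) (nat_lit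 232) (nat_lit 5) (nat_lit 228) (nat_lit 5) (nat_lit 399) (nat_lit 338) (nat_lit 283)))))) (XT.nd (nat_lit 624) (nat_lit 1368) (nat_lit 0) (XT.nd (nat_lit 312) (nat_lit 836) (nat_lit 0) (XT.nd (nat_lit 156) (nat_lit 304) (nat_lit 0) (XT.nd (nat_lit 78) (nat_lit 304) (nat_lit 0) (XT.lf (nat_lit 0) (nat_lit 4680062352) (nat_lit 304) (nat_lit 3468463219) (nat_lit 380) (nat_lit 3440895014) (nat_lit 223) (nat_lit 5) (nat_lit 227) (nat_lit 5) (nat_lit 228) (nat_lit 5) (nat_lit 400) (nat_lit 338) (nat_lit 282)) (XT.lf (nat_lit 0) (nat_lit 214769200) (nat_lit 304) (nat_lit 10464802204) (nat_lit 76) (nat_lit 1100322988) (nat_lit 219) (nat_lit 5) (nat_lit 223) (nat_lit 5) (nat_lit 220) (nat_lit 5) (nat_lit 401) (nat_lit 338) (nat_lit 281))) (XT.nd (nat_lit 78) (nat_lit 304) (nat_lit 0) (XT.lf (nat_lit 0) (nat_lit 3972370528) (nat_lit 304) (nat_lit 2183675670) (nat_lit 76) (nat_lit 5817171393) (nat_lit 219) (nat_lit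 5) (nat_lit 223) (nat_lit 5) (nat_lit 220) (nat_lit 5) (nat_lit 402) (nat_lit 338) (nat_lit 280)) (XT.lf (nat_lit 0) (nat_lit 6404354460) (nat_lit 304) (nat_lit 1457794201) (nat_lit 380) (nat_lit 4309608363) (nat_lit 215) (nat_lit 5) (nat_lit 219) (nat_lit 5) (nat_lit 220) (nat_lit 5) (nat_lit 403) (nat_lit 338) (nat_lit 279)))) (XT.nd (nat_lit 156) (nat_lit 532) (nat_lit 0) (XT.nd (nat_lit 78) (nat_lit 76) (nat_lit 0) (XT.lf (nat_lit 0) (nat_lit 2875728989) (nat_lit 228) (nat_lit 9033553661) (nat_lit 304) (nat_lit 465750114) (nat_lit 212) (nat_lit 5) (nat_lit 215) (nat_lit 5) (nat_lit 216) (nat_lit 5) (nat_lit 404) (nat_lit 338) (nat_lit 278)) (XT.lf (nat_lit 0) (nat_lit 3456922284) (nat_lit 304) (nat_lit 801904192) (nat_lit 76) (nat_lit 8323622842) (nat_lit 211) (nat_lit 5) (nat_lit 215) (nat_lit 5) (nat_lit 212) (nat_lit 5) (nat_lit 405) (nat_lit 338) (nat_lit 277))) (XT.nd (nat_lit 78) (nat_lit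 228) (nat_lit 0) (XT.lf (nat_lit 0) (nat_lit 7533753642) (nat_lit 380) (nat_lit 4554045790) (nat_lit 76) (nat_lit 706775398) (nat_lit 207) (nat_lit 5) (nat_lit 212) (nat_lit 5) (nat_lit 208) (nat_lit 5) (nat_lit 406) (nat_lit 338) (nat_lit 276)) (XT.lf (nat_lit 0) (nat_lit 4538772153) (nat_lit 228) (nat_lit 7248040427) (nat_lit 304) (nat_lit 1224633849) (nat_lit 204) (nat_lit 5) (nat_lit 207) (nat_lit 5) (nat_lit 208) (nat_lit 5) (nat_lit 407) (nat_lit 338) (nat_lit 275))))) (XT.nd (nat_lit 312) (nat_lit 532) (nat_lit 0) (XT.nd (nat_lit 156) (nat_lit 532) (nat_lit 0) (XT.nd (nat_lit 78) (nat_lit 0) (nat_lit 0) (XT.lf (nat_lit 0) (nat_lit 683419811) (nat_lit 228) (nat_lit 2205106265) (nat_lit 304) (nat_lit 10345058990) (nat_lit 200) (nat_lit 5) (nat_lit 203) (nat_lit 5) (nat_lit 204) (nat_lit 5) (nat_lit 408) (nat_lit 338) (nat_lit 274)) (XT.lf (nat_lit 0) (nat_lit 7175998711) (nat_lit 304) (nat_lit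 3279494887) (nat_lit 76) (nat_lit 3004264556) (nat_lit 200) (nat_lit 5) (nat_lit 204) (nat_lit 5) (nat_lit 201) (nat_lit 5) (nat_lit 409) (nat_lit 338) (nat_lit 273))) (XT.nd (nat_lit 78) (nat_lit 304) (nat_lit 0) (XT.lf (nat_lit 0) (nat_lit 6306598588) (nat_lit 228) (nat_lit 5329500251) (nat_lit 304) (nat_lit 2055297497) (nat_lit 197) (nat_lit 5) (nat_lit 200) (nat_lit 5) (nat_lit 201) (nat_lit 5) (nat_lit 410) (nat_lit 338) (nat_lit 272)) (XT.lf (nat_lit 0) (nat_lit 2272188163) (nat_lit 304) (nat_lit 11652420375) (nat_lit 76) (nat_lit 4200305) (nat_lit 193) (nat_lit 5) (nat_lit 197) (nat_lit 5) (nat_lit 194) (nat_lit 5) (nat_lit 411) (nat_lit 338) (nat_lit 271)))) (XT.nd (nat_lit 156) (nat_lit 304) (nat_lit 0) (XT.nd (nat_lit 78) (nat_lit 228) (nat_lit 0) (XT.lf (nat_lit 0) (nat_lit 6778209998) (nat_lit 304) (nat_lit 1930494757) (nat_lit 76) (nat_lit 5461327853) (nat_lit 193) (nat_lit 5) (nat_lit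 197) (nat_lit 5) (nat_lit 194) (nat_lit 5) (nat_lit 412) (nat_lit 338) (nat_lit 270)) (XT.lf (nat_lit 0) (nat_lit 8180264141) (nat_lit 228) (nat_lit 3280833901) (nat_lit 304) (nat_lit 2956144479) (nat_lit 190) (nat_lit 5) (nat_lit 193) (nat_lit 5) (nat_lit 194) (nat_lit 5) (nat_lit 413) (nat_lit 338) (nat_lit 269))) (XT.nd (nat_lit 78) (nat_lit 0) (nat_lit 0) (XT.lf (nat_lit 0) (nat_lit 1624759981) (nat_lit 304) (nat_lit 10731781546) (nat_lit 76) (nat_lit 2313553452) (nat_lit 186) (nat_lit 5) (nat_lit 190) (nat_lit 5) (nat_lit 187) (nat_lit 5) (nat_lit 414) (nat_lit 338) (nat_lit 268)) (XT.lf (nat_lit 0) (nat_lit 6343167767) (nat_lit 304) (nat_lit 507105955) (nat_lit 76) (nat_lit 8077596475) (nat_lit 186) (nat_lit 5) (nat_lit 190) (nat_lit 5) (nat_lit 187) (nat_lit 5) (nat_lit 415) (nat_lit 338) (nat_lit 267))))))))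
noncomputable def xc95 : XT := (XT.nd (nat_lit 2418) (nat_lit 2660) (nat_lit 0) (XT.nd (nat_lit 1170) (nat_lit 1748) (nat_lit 0) (XT.nd (nat_lit 546) (nat_lit 1140) (nat_lit 0) (XT.nd (nat_lit 234) (nat_lit 456) (nat_lit 0) (XT.nd (nat_lit 78) (nat_lit 456) (nat_lit 0) (XT.lf (nat_lit 0) (nat_lit 10161626548) (nat_lit 152) (nat_lit 1103650362) (nat_lit 228) (nat_lit 3926237286) (nat_lit 184) (nat_lit 5) (nat_lit 186) (nat_lit 5) (nat_lit 187) (nat_lit 5) (nat_lit 416) (nat_lit 338) (nat_lit 266)) (XT.nd (nat_lit 78) (nat_lit 152) (nat_lit 0) (XT.lf (nat_lit 0) (nat_lit 926616839) (nat_lit 304) (nat_lit 9768385348) (nat_lit 76) (nat_lit 4765664352) (nat_lit 180) (nat_lit 5) (nat_lit 184) (nat_lit 5) (nat_lit 181) (nat_lit 5) (nat_lit 417) (nat_lit 338) (nat_lit 265)) (XT.lf (nat_lit 0) (nat_lit 1010991835) (nat_lit 152) (nat_lit 4871873399) (nat_lit 228) (nat_lit 9852760345) (nat_lit 178) (nat_lit 5)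 (nat_lit 180) (nat_lit 5) (nat_lit 181) (nat_lit 5) (nat_lit 418) (nat_lit 338) (nat_lit 264)))) (XT.nd (nat_lit 156) (nat_lit 152) (nat_lit 0) (XT.nd (nat_lit 78) (nat_lit 304) (nat_lit 0) (XT.lf (nat_lit 0) (nat_lit 11063217695) (nat_lit 228) (nat_lit 3775160497) (nat_lit 76) (nat_lit 1178192699) (nat_lit 178) (nat_lit 5) (nat_lit 181) (nat_lit 5) (nat_lit 179) (nat_lit 5) (nat_lit 419) (nat_lit 338) (nat_lit 263)) (XT.lf (nat_lit 0) (nat_lit 178809783) (nat_lit 304) (nat_lit 8763051055) (nat_lit 76) (nat_lit 7361429223) (nat_lit 174) (nat_lit 5) (nat_lit 178) (nat_lit 5) (nat_lit 175) (nat_lit 5) (nat_lit 420) (nat_lit 338) (nat_lit 262))) (XT.nd (nat_lit 78) (nat_lit 0) (nat_lit 0) (XT.lf (nat_lit 0) (nat_lit 2616886579) (nat_lit 152) (nat_lit 2778232905) (nat_lit 228) (nat_lit 11201127850) (nat_lit 172) (nat_lit 5) (nat_lit 174) (nat_lit 5) (nat_lit 175) (nat_lit 5) (nat_lit 421) (nat_lit 338)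 (nat_lit 261)) (XT.lf (nat_lit 0) (nat_lit 10857861056) (nat_lit 228) (nat_lit 2472628426) (nat_lit 76) (nat_lit 3564805565) (nat_lit 172) (nat_lit 5) (nat_lit 175) (nat_lit 5) (nat_lit 173) (nat_lit 5) (nat_lit 422) (nat_lit 338) (nat_lit 260))))) (XT.nd (nat_lit 312) (nat_lit 608) (nat_lit 0) (XT.nd (nat_lit 156) (nat_lit 152) (nat_lit 0) (XT.nd (nat_lit 78) (nat_lit 228) (nat_lit 0) (XT.lf (nat_lit 0) (nat_lit 9478555482) (nat_lit 152) (nat_lit 7091789999) (nat_lit 228) (nat_lit 630392892) (nat_lit 170) (nat_lit 5) (nat_lit 172) (nat_lit 5) (nat_lit 173) (nat_lit 5) (nat_lit 423) (nat_lit 338) (nat_lit 259)) (XT.lf (nat_lit 0) (nat_lit 4302312823) (nat_lit 152) (nat_lit 574063513) (nat_lit 228) (nat_lit 12636527649) (nat_lit 167) (nat_lit 5) (nat_lit 169) (nat_lit 5) (nat_lit 170) (nat_lit 5) (nat_lit 424) (nat_lit 338) (nat_lit 258))) (XT.nd (nat_lit 78) (nat_lit 152) (nat_lit 0) (XT.lf (nat_lit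 0) (nat_lit 10640915153) (nat_lit 228) (nat_lit 1110718217) (nat_lit 76) (nat_lit 6079456846) (nat_lit 167) (nat_lit 5) (nat_lit 170) (nat_lit 5) (nat_lit 168) (nat_lit 5) (nat_lit 425) (nat_lit 338) (nat_lit 257)) (XT.lf (nat_lit 0) (nat_lit 11514420639) (nat_lit 152) (nat_lit 5148756475) (nat_lit 228) (nat_lit 1493101308) (nat_lit 165) (nat_lit 5) (nat_lit 167) (nat_lit 5) (nat_lit 168) (nat_lit 5) (nat_lit 426) (nat_lit 338) (nat_lit 256)))) (XT.nd (nat_lit 156) (nat_lit 228) (nat_lit 0) (XT.nd (nat_lit 78) (nat_lit 152) (nat_lit 0) (XT.lf (nat_lit 0) (nat_lit 4344422863) (nat_lit 228) (nat_lit 12435893569) (nat_lit 76) (nat_lit 1707996985) (nat_lit 162) (nat_lit 5) (nat_lit 165) (nat_lit 5) (nat_lit 163) (nat_lit 5) (nat_lit 427) (nat_lit 338) (nat_lit 255)) (XT.lf (nat_lit 0) (nat_lit 318223865) (nat_lit 152) (nat_lit 10099235630) (nat_lit 228) (nat_lit 8409694571) (nat_lit 160) (nat_lit 5) (nat_lit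 162) (nat_lit 5) (nat_lit 163) (nat_lit 5) (nat_lit 428) (nat_lit 338) (nat_lit 254))) (XT.nd (nat_lit 78) (nat_lit 228) (nat_lit 0) (XT.lf (nat_lit 0) (nat_lit 13653505874) (nat_lit 152) (nat_lit 3113757361) (nat_lit 228) (nat_lit 2406059420) (nat_lit 160) (nat_lit 5) (nat_lit 162) (nat_lit 5) (nat_lit 163) (nat_lit 5) (nat_lit 429) (nat_lit 338) (nat_lit 253)) (XT.lf (nat_lit 0) (nat_lit 3789826984) (nat_lit 228) (nat_lit 11645623785) (nat_lit 76) (nat_lit 4090760377) (nat_lit 157) (nat_lit 5) (nat_lit 160) (nat_lit 5) (nat_lit 158) (nat_lit 5) (nat_lit 430) (nat_lit 338) (nat_lit 252)))))) (XT.nd (nat_lit 624) (nat_lit 912) (nat_lit 0) (XT.nd (nat_lit 312) (nat_lit 304) (nat_lit 0) (XT.nd (nat_lit 156) (nat_lit 380) (nat_lit 0) (XT.nd (nat_lit 78) (nat_lit 0) (nat_lit 0) (XT.lf (nat_lit 0) (nat_lit 1833244183) (nat_lit 152) (nat_lit 8364452471) (nat_lit 228) (nat_lit 9689040984) (nat_lit 155) (nat_lit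 5) (nat_lit 157) (nat_lit 5) (nat_lit 158) (nat_lit 5) (nat_lit 431) (nat_lit 338) (nat_lit 251)) (XT.lf (nat_lit 0) (nat_lit 15900280007) (nat_lit 152) (nat_lit 985197613) (nat_lit 228) (nat_lit 3369972049) (nat_lit 155) (nat_lit 5) (nat_lit 157) (nat_lit 5) (nat_lit 158) (nat_lit 5) (nat_lit 432) (nat_lit 338) (nat_lit 250))) (XT.nd (nat_lit 78) (nat_lit 152) (nat_lit 0) (XT.lf (nat_lit 0) (nat_lit 3207480369) (nat_lit 228) (nat_lit 10834467555) (nat_lit 76) (nat_lit 6588468268) (nat_lit 152) (nat_lit 5) (nat_lit 155) (nat_lit 5) (nat_lit 153) (nat_lit 5) (nat_lit 433) (nat_lit 338) (nat_lit 249)) (XT.lf (nat_lit 0) (nat_lit 3414627241) (nat_lit 152) (nat_lit 6557656253) (nat_lit 228) (nat_lit 11041614427) (nat_lit 150) (nat_lit 5) (nat_lit 152) (nat_lit 5) (nat_lit 153) (nat_lit 5) (nat_lit 434) (nat_lit 338) (nat_lit 248)))) (XT.nd (nat_lit 156) (nat_lit 152) (nat_lit 0) (XT.nd (nat_lit 78) (nat_lit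 152) (nat_lit 0) (XT.lf (nat_lit 0) (nat_lit 17032455659) (nat_lit 228) (nat_lit 3158574261) (nat_lit 76) (nat_lit 1215081434) (nat_lit 150) (nat_lit 5) (nat_lit 153) (nat_lit 5) (nat_lit 151) (nat_lit 4) (nat_lit 435) (nat_lit 338) (nat_lit 247)) (XT.lf (nat_lit 0) (nat_lit 2597506394) (nat_lit 152) (nat_lit 10002348322) (nat_lit 76) (nat_lit 9204962014) (nat_lit 148) (nat_lit 5) (nat_lit 150) (nat_lit 5) (nat_lit 149) (nat_lit 5) (nat_lit 436) (nat_lit 338) (nat_lit 246))) (XT.nd (nat_lit 78) (nat_lit 0) (nat_lit 0) (XT.lf (nat_lit 0) (nat_lit 5065199601) (nat_lit 152) (nat_lit 4677363068) (nat_lit 228) (nat_lit 12470041529) (nat_lit 146) (nat_lit 5) (nat_lit 148) (nat_lit 5) (nat_lit 149) (nat_lit 5) (nat_lit 437) (nat_lit 338) (nat_lit 245)) (XT.lf (nat_lit 0) (nat_lit 17209307757) (nat_lit 228) (nat_lit 1926936415) (nat_lit 76) (nat_lit 3493161005) (nat_lit 146) (nat_lit 5) (nat_lit 149) (nat_lit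 5) (nat_lit 147) (nat_lit 4) (nat_lit 438) (nat_lit 338) (nat_lit 244))))) (XT.nd (nat_lit 312) (nat_lit 456) (nat_lit 0) (XT.nd (nat_lit 156) (nat_lit 152) (nat_lit 0) (XT.nd (nat_lit 78) (nat_lit 152) (nat_lit 0) (XT.lf (nat_lit 0) (nat_lit 1959761348) (nat_lit 152) (nat_lit 9148928269) (nat_lit 76) (nat_lit 11944859135) (nat_lit 144) (nat_lit 5) (nat_lit 146) (nat_lit 5) (nat_lit 145) (nat_lit 5) (nat_lit 439) (nat_lit 338) (nat_lit 243)) (XT.lf (nat_lit 0) (nat_lit 6788214956) (nat_lit 152) (nat_lit 2721481303) (nat_lit 228) (nat_lit 13977381876) (nat_lit 142) (nat_lit 5) (nat_lit 144) (nat_lit 5) (nat_lit 145) (nat_lit 5) (nat_lit 440) (nat_lit 338) (nat_lit 242))) (XT.nd (nat_lit 78) (nat_lit 152) (nat_lit 0) (XT.lf (nat_lit 0) (nat_lit 17409106525) (nat_lit 228) (nat_lit 648882876) (nat_lit 76) (nat_lit 5871934680) (nat_lit 142) (nat_lit 5) (nat_lit 145) (nat_lit 5) (nat_lit 143) (nat_lit 4)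 (nat_lit 441) (nat_lit 338) (nat_lit 241)) (XT.lf (nat_lit 0) (nat_lit 1293850896) (nat_lit 152) (nat_lit 8273624606) (nat_lit 76) (nat_lit 14813534581) (nat_lit 140) (nat_lit 5) (nat_lit 142) (nat_lit 5) (nat_lit 141) (nat_lit 5) (nat_lit 442) (nat_lit 338) (nat_lit 240)))) (XT.nd (nat_lit 156) (nat_lit 228) (nat_lit 0) (XT.nd (nat_lit 78) (nat_lit 76) (nat_lit 0) (XT.lf (nat_lit 0) (nat_lit 8587348227) (nat_lit 152) (nat_lit 687337962) (nat_lit 228) (nat_lit 15567121936) (nat_lit 138) (nat_lit 5) (nat_lit 140) (nat_lit 5) (nat_lit 141) (nat_lit 5) (nat_lit 443) (nat_lit 338) (nat_lit 239)) (XT.lf (nat_lit 0) (nat_lit 691298754) (nat_lit 76) (nat_lit 16949677985) (nat_lit 152) (nat_lit 7671072464) (nat_lit 137) (nat_lit 5) (nat_lit 138) (nat_lit 5) (nat_lit 139) (nat_lit 4) (nat_lit 444) (nat_lit 338) (nat_lit 238))) (XT.nd (nat_lit 78) (nat_lit 152) (nat_lit 0) (XT.lf (nat_lit 0) (nat_lit 599143838)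 (nat_lit 152) (nat_lit 7375623167) (nat_lit 76) (nat_lit 17817108382) (nat_lit 136) (nat_lit 5) (nat_lit 138) (nat_lit 5) (nat_lit 137) (nat_lit 5) (nat_lit 445) (nat_lit 338) (nat_lit 237)) (XT.lf (nat_lit 0) (nat_lit 9052122029) (nat_lit 228) (nat_lit 15828601358) (nat_lit 76) (nat_lit 1400429343) (nat_lit 134) (nat_lit 5) (nat_lit 137) (nat_lit 5) (nat_lit 135) (nat_lit 4) (nat_lit 446) (nat_lit 338) (nat_lit 236))))))) (XT.nd (nat_lit 1170) (nat_lit 1216) (nat_lit 0) (XT.nd (nat_lit 546) (nat_lit 760) (nat_lit 0) (XT.nd (nat_lit 234) (nat_lit 380) (nat_lit 0) (XT.nd (nat_lit 78) (nat_lit 228) (nat_lit 0) (XT.lf (nat_lit 0) (nat_lit 2096587107) (nat_lit 76) (nat_lit 15810988275) (nat_lit 152) (nat_lit 8873066436) (nat_lit 133) (nat_lit 5) (nat_lit 134) (nat_lit 5) (nat_lit 135) (nat_lit 4) (nat_lit 447) (nat_lit 338) (nat_lit 235)) (XT.nd (nat_lit 78) (nat_lit 228) (nat_lit 0) (XT.lf (nat_lit 0)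 (nat_lit 20835958188) (nat_lit 76) (nat_lit 6327408506) (nat_lit 152) (nat_lit 127708654) (nat_lit 133) (nat_lit 5) (nat_lit 134) (nat_lit 5) (nat_lit 135) (nat_lit 4) (nat_lit 448) (nat_lit 338) (nat_lit 234)) (XT.lf (nat_lit 0) (nat_lit 8836434742) (nat_lit 228) (nat_lit 15415540887) (nat_lit 76) (nat_lit 3558394277) (nat_lit 130) (nat_lit 5) (nat_lit 133) (nat_lit 5) (nat_lit 131) (nat_lit 4) (nat_lit 449) (nat_lit 338) (nat_lit 233)))) (XT.nd (nat_lit 156) (nat_lit 304) (nat_lit 0) (XT.nd (nat_lit 78) (nat_lit 0) (nat_lit 0) (XT.lf (nat_lit 0) (nat_lit 3556969811) (nat_lit 76) (nat_lit 14648018033) (nat_lit 152) (nat_lit 10136075956) (nat_lit 129) (nat_lit 5) (nat_lit 130) (nat_lit 5) (nat_lit 131) (nat_lit 4) (nat_lit 450) (nat_lit 338) (nat_lit 232)) (XT.lf (nat_lit 0) (nat_lit 23367930544) (nat_lit 76) (nat_lit 4617984966) (nat_lit 152) (nat_lit 897823462) (nat_lit 129) (nat_lit 5) (nat_lit 130)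 (nat_lit 5) (nat_lit 131) (nat_lit 4) (nat_lit 451) (nat_lit 338) (nat_lit 231))) (XT.nd (nat_lit 78) (nat_lit 76) (nat_lit 0) (XT.lf (nat_lit 0) (nat_lit 8621680694) (nat_lit 228) (nat_lit 15009162389) (nat_lit 76) (nat_lit 5804198272) (nat_lit 126) (nat_lit 5) (nat_lit 129) (nat_lit 5) (nat_lit 127) (nat_lit 4) (nat_lit 452) (nat_lit 338) (nat_lit 230)) (XT.lf (nat_lit 0) (nat_lit 5075662311) (nat_lit 76) (nat_lit 13460001635) (nat_lit 152) (nat_lit 11463144005) (nat_lit 125) (nat_lit 5) (nat_lit 126) (nat_lit 5) (nat_lit 127) (nat_lit 4) (nat_lit 453) (nat_lit 338) (nat_lit 229))))) (XT.nd (nat_lit 312) (nat_lit 456) (nat_lit 0) (XT.nd (nat_lit 156) (nat_lit 76) (nat_lit 0) (XT.nd (nat_lit 78) (nat_lit 228) (nat_lit 0) (XT.lf (nat_lit 0) (nat_lit 26025262283) (nat_lit 76) (nat_lit 2849800616) (nat_lit 152) (nat_lit 1700584758) (nat_lit 125) (nat_lit 5) (nat_lit 126) (nat_lit 5) (nat_lit 127) (nat_lit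 4) (nat_lit 454) (nat_lit 338) (nat_lit 228)) (XT.lf (nat_lit 0) (nat_lit 8408429178) (nat_lit 228) (nat_lit 14609867717) (nat_lit 76) (nat_lit 8142587966) (nat_lit 122) (nat_lit 5) (nat_lit 125) (nat_lit 5) (nat_lit 123) (nat_lit 4) (nat_lit 455) (nat_lit 338) (nat_lit 227))) (XT.nd (nat_lit 78) (nat_lit 0) (nat_lit 0) (XT.lf (nat_lit 0) (nat_lit 6656194556) (nat_lit 76) (nat_lit 12245880171) (nat_lit 152) (nat_lit 12857633094) (nat_lit 121) (nat_lit 5) (nat_lit 122) (nat_lit 5) (nat_lit 123) (nat_lit 4) (nat_lit 456) (nat_lit 338) (nat_lit 226)) (XT.lf (nat_lit 0) (nat_lit 28815541142) (nat_lit 76) (nat_lit 1019703594) (nat_lit 152) (nat_lit 2537509278) (nat_lit 121) (nat_lit 5) (nat_lit 122) (nat_lit 5) (nat_lit 123) (nat_lit 4) (nat_lit 457) (nat_lit 338) (nat_lit 225)))) (XT.nd (nat_lit 156) (nat_lit 152) (nat_lit 0) (XT.nd (nat_lit 78) (nat_lit 76) (nat_lit 0) (XT.lf (nat_lit 0) (nat_lit 8197166389)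 (nat_lit 228) (nat_lit 14217980504) (nat_lit 76) (nat_lit 10578825387) (nat_lit 118) (nat_lit 5) (nat_lit 121) (nat_lit 5) (nat_lit 119) (nat_lit 4) (nat_lit 458) (nat_lit 338) (nat_lit 224)) (XT.lf (nat_lit 0) (nat_lit 8302413916) (nat_lit 76) (nat_lit 11004315964) (nat_lit 152) (nat_lit 14323228030) (nat_lit 117) (nat_lit 5) (nat_lit 118) (nat_lit 5) (nat_lit 119) (nat_lit 4) (nat_lit 459) (nat_lit 338) (nat_lit 223))) (XT.nd (nat_lit 78) (nat_lit 152) (nat_lit 0) (XT.lf (nat_lit 0) (nat_lit 30879479264) (nat_lit 152) (nat_lit 2542880814) (nat_lit 0) (nat_lit 858766060) (nat_lit 117) (nat_lit 5) (nat_lit 119) (nat_lit 4) (nat_lit 117) (nat_lit 4) (nat_lit 460) (nat_lit 338) (nat_lit 222)) (XT.lf (nat_lit 0) (nat_lit 7988305265) (nat_lit 152) (nat_lit 13833755862) (nat_lit 76) (nat_lit 13118689470) (nat_lit 115) (nat_lit 5) (nat_lit 117) (nat_lit 5) (nat_lit 116) (nat_lit 4) (nat_lit 461) (nat_lit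 338) (nat_lit 221)))))) (XT.nd (nat_lit 624) (nat_lit 608) (nat_lit 0) (XT.nd (nat_lit 312) (nat_lit 304) (nat_lit 0) (XT.nd (nat_lit 156) (nat_lit 228) (nat_lit 0) (XT.nd (nat_lit 78) (nat_lit 0) (nat_lit 0) (XT.lf (nat_lit 0) (nat_lit 10018490172) (nat_lit 76) (nat_lit 9733704212) (nat_lit 152) (nat_lit 15863940769) (nat_lit 114) (nat_lit 5) (nat_lit 115) (nat_lit 5) (nat_lit 116) (nat_lit 4) (nat_lit 462) (nat_lit 338) (nat_lit 220)) (XT.lf (nat_lit 0) (nat_lit 32014602247) (nat_lit 152) (nat_lit 1507417141) (nat_lit 0) (nat_lit 2785393798) (nat_lit 114) (nat_lit 5) (nat_lit 116) (nat_lit 4) (nat_lit 114) (nat_lit 4) (nat_lit 463) (nat_lit 338) (nat_lit 219))) (XT.nd (nat_lit 78) (nat_lit 76) (nat_lit 0) (XT.lf (nat_lit 0) (nat_lit 7782194207) (nat_lit 152) (nat_lit 13457388961) (nat_lit 76) (nat_lit 15768481131) (nat_lit 112) (nat_lit 5) (nat_lit 114) (nat_lit 5) (nat_lit 113) (nat_lit 4) (nat_lit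 464) (nat_lit 338) (nat_lit 218)) (XT.lf (nat_lit 0) (nat_lit 11808922499) (nat_lit 76) (nat_lit 8432182015) (nat_lit 152) (nat_lit 17484117253) (nat_lit 111) (nat_lit 5) (nat_lit 112) (nat_lit 5) (nat_lit 113) (nat_lit 4) (nat_lit 465) (nat_lit 338) (nat_lit 217)))) (XT.nd (nat_lit 156) (nat_lit 152) (nat_lit 0) (XT.nd (nat_lit 78) (nat_lit 152) (nat_lit 0) (XT.lf (nat_lit 0) (nat_lit 33235849669) (nat_lit 152) (nat_lit 438847078) (nat_lit 0) (nat_lit 4784335185) (nat_lit 111) (nat_lit 5) (nat_lit 113) (nat_lit 4) (nat_lit 111) (nat_lit 4) (nat_lit 466) (nat_lit 338) (nat_lit 216)) (XT.lf (nat_lit 0) (nat_lit 7579124820) (nat_lit 152) (nat_lit 13089022640) (nat_lit 76) (nat_lit 18535031724) (nat_lit 109) (nat_lit 5) (nat_lit 111) (nat_lit 5) (nat_lit 110) (nat_lit 4) (nat_lit 467) (nat_lit 338) (nat_lit 215))) (XT.nd (nat_lit 78) (nat_lit 76) (nat_lit 0) (XT.lf (nat_lit 0) (nat_lit 13678548358) (nat_lit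 76) (nat_lit 7097634988) (nat_lit 152) (nat_lit 19188446177) (nat_lit 108) (nat_lit 5) (nat_lit 109) (nat_lit 5) (nat_lit 110) (nat_lit 4) (nat_lit 468) (nat_lit 338) (nat_lit 214)) (XT.lf (nat_lit 0) (nat_lit 678430678) (nat_lit 76) (nat_lit 33876588238) (nat_lit 76) (nat_lit 6188328498) (nat_lit 107) (nat_lit 4) (nat_lit 108) (nat_lit 5) (nat_lit 108) (nat_lit 4) (nat_lit 469) (nat_lit 338) (nat_lit 213))))) (XT.nd (nat_lit 312) (nat_lit 304) (nat_lit 0) (XT.nd (nat_lit 156) (nat_lit 152) (nat_lit 0) (XT.nd (nat_lit 78) (nat_lit 76) (nat_lit 0) (XT.lf (nat_lit 0) (nat_lit 7379338765) (nat_lit 152) (nat_lit 12728754123) (nat_lit 76) (nat_lit 21425714743) (nat_lit 106) (nat_lit 5) (nat_lit 108) (nat_lit 5) (nat_lit 107) (nat_lit 4) (nat_lit 470) (nat_lit 338) (nat_lit 212)) (XT.lf (nat_lit 0) (nat_lit 15632554266) (nat_lit 76) (nat_lit 5727701672) (nat_lit 152) (nat_lit 20981969625) (nat_lit 105) (nat_lit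 5) (nat_lit 106) (nat_lit 5) (nat_lit 107) (nat_lit 4) (nat_lit 471) (nat_lit 338) (nat_lit 211))) (XT.nd (nat_lit 78) (nat_lit 76) (nat_lit 0) (XT.lf (nat_lit 0) (nat_lit 1843223294) (nat_lit 76) (nat_lit 34132578063) (nat_lit 76) (nat_lit 7192638653) (nat_lit 104) (nat_lit 4) (nat_lit 105) (nat_lit 5) (nat_lit 105) (nat_lit 4) (nat_lit 472) (nat_lit 338) (nat_lit 210)) (XT.lf (nat_lit 0) (nat_lit 7183033834) (nat_lit 152) (nat_lit 12376640978) (nat_lit 76) (nat_lit 24448460663) (nat_lit 103) (nat_lit 5) (nat_lit 105) (nat_lit 5) (nat_lit 104) (nat_lit 4) (nat_lit 473) (nat_lit 338) (nat_lit 209)))) (XT.nd (nat_lit 156) (nat_lit 152) (nat_lit 0) (XT.nd (nat_lit 78) (nat_lit 76) (nat_lit 0) (XT.lf (nat_lit 0) (nat_lit 17676488390) (nat_lit 76) (nat_lit 4319775873) (nat_lit 152) (nat_lit 22870095534) (nat_lit 102) (nat_lit 5) (nat_lit 103) (nat_lit 5) (nat_lit 104) (nat_lit 4) (nat_lit 474) (nat_lit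 338) (nat_lit 208)) (XT.lf (nat_lit 0) (nat_lit 3049602937) (nat_lit 76) (nat_lit 34450142222) (nat_lit 76) (nat_lit 8243210082) (nat_lit 101) (nat_lit 4) (nat_lit 102) (nat_lit 5) (nat_lit 102) (nat_lit 4) (nat_lit 475) (nat_lit 338) (nat_lit 207))) (XT.nd (nat_lit 78) (nat_lit 76) (nat_lit 0) (XT.lf (nat_lit 0) (nat_lit 6990369341) (nat_lit 152) (nat_lit 12032706375) (nat_lit 76) (nat_lit 27611774818) (nat_lit 100) (nat_lit 5) (nat_lit 102) (nat_lit 5) (nat_lit 101) (nat_lit 4) (nat_lit 476) (nat_lit 338) (nat_lit 206)) (XT.lf (nat_lit 0) (nat_lit 19816274948) (nat_lit 76) (nat_lit 2871007092) (nat_lit 152) (nat_lit 24858611981) (nat_lit 99) (nat_lit 5) (nat_lit 100) (nat_lit 5) (nat_lit 101) (nat_lit 4) (nat_lit 477) (nat_lit 338) (nat_lit 205))))))))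
noncomputable def xc96 : XT := (XT.nd (nat_lit 43602) (nat_lit 0) (nat_lit 14364) (XT.nd (nat_lit 1170) (nat_lit 76) (nat_lit 0) (XT.nd (nat_lit 546) (nat_lit 608) (nat_lit 0) (XT.nd (nat_lit 234) (nat_lit 304) (nat_lit 0) (XT.nd (nat_lit 78) (nat_lit 152) (nat_lit 0) (XT.lf (nat_lit 0) (nat_lit 4300580859) (nat_lit 76) (nat_lit 34832432717) (nat_lit 76) (nat_lit 9342917893) (nat_lit 98) (nat_lit 4) (nat_lit 99) (nat_lit 5) (nat_lit 99) (nat_lit 4) (nat_lit 478) (nat_lit 338) (nat_lit 204)) (XT.nd (nat_lit 78) (nat_lit 76) (nat_lit 0) (XT.lf (nat_lit 0) (nat_lit 6801470887) (nat_lit 152) (nat_lit 11696943735) (nat_lit 76) (nat_lit 30924758291) (nat_lit 97) (nat_lit 5) (nat_lit 99) (nat_lit 5) (nat_lit 98) (nat_lit 4) (nat_lit 479) (nat_lit 338) (nat_lit 203)) (XT.lf (nat_lit 0) (nat_lit 22058230416) (nat_lit 76) (nat_lit 1378299148) (nat_lit 152) (nat_lit 26953703264) (nat_lit 96) (nat_lit 5) (nat_lit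 97) (nat_lit 5) (nat_lit 98) (nat_lit 4) (nat_lit 480) (nat_lit 338) (nat_lit 202)))) (XT.nd (nat_lit 156) (nat_lit 152) (nat_lit 0) (XT.nd (nat_lit 78) (nat_lit 76) (nat_lit 0) (XT.lf (nat_lit 0) (nat_lit 5599379711) (nat_lit 76) (nat_lit 35282728233) (nat_lit 76) (nat_lit 10494852559) (nat_lit 95) (nat_lit 4) (nat_lit 96) (nat_lit 5) (nat_lit 96) (nat_lit 4) (nat_lit 481) (nat_lit 338) (nat_lit 201)) (XT.lf (nat_lit 0) (nat_lit 6616434583) (nat_lit 152) (nat_lit 11369320843) (nat_lit 76) (nat_lit 34397131747) (nat_lit 94) (nat_lit 5) (nat_lit 96) (nat_lit 5) (nat_lit 95) (nat_lit 4) (nat_lit 482) (nat_lit 338) (nat_lit 200))) (XT.nd (nat_lit 78) (nat_lit 76) (nat_lit 0) (XT.lf (nat_lit 0) (nat_lit 24248942925) (nat_lit 152) (nat_lit 29001829185) (nat_lit 0) (nat_lit 158537689) (nat_lit 93) (nat_lit 5) (nat_lit 95) (nat_lit 4) (nat_lit 93) (nat_lit 4) (nat_lit 483) (nat_lit 338) (nat_lit 199)) (XT.lf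 (nat_lit 0) (nat_lit 6949440922) (nat_lit 76) (nat_lit 35804452979) (nat_lit 76) (nat_lit 11702327182) (nat_lit 92) (nat_lit 4) (nat_lit 93) (nat_lit 5) (nat_lit 93) (nat_lit 4) (nat_lit 484) (nat_lit 338) (nat_lit 198))))) (XT.nd (nat_lit 312) (nat_lit 304) (nat_lit 0) (XT.nd (nat_lit 156) (nat_lit 152) (nat_lit 0) (XT.nd (nat_lit 78) (nat_lit 76) (nat_lit 0) (XT.lf (nat_lit 0) (nat_lit 6435330793) (nat_lit 152) (nat_lit 11049783473) (nat_lit 76) (nat_lit 38039262225) (nat_lit 91) (nat_lit 5) (nat_lit 93) (nat_lit 5) (nat_lit 92) (nat_lit 4) (nat_lit 485) (nat_lit 338) (nat_lit 197)) (XT.lf (nat_lit 0) (nat_lit 25140264423) (nat_lit 152) (nat_lit 29754717103) (nat_lit 0) (nat_lit 1718368562) (nat_lit 90) (nat_lit 5) (nat_lit 92) (nat_lit 4) (nat_lit 90) (nat_lit 4) (nat_lit 486) (nat_lit 338) (nat_lit 196))) (XT.nd (nat_lit 78) (nat_lit 76) (nat_lit 0) (XT.lf (nat_lit 0) (nat_lit 8354433211) (nat_lit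 76) (nat_lit 36401195319) (nat_lit 76) (nat_lit 12968885890) (nat_lit 89) (nat_lit 4) (nat_lit 90) (nat_lit 5) (nat_lit 90) (nat_lit 4) (nat_lit 487) (nat_lit 338) (nat_lit 195)) (XT.lf (nat_lit 0) (nat_lit 6258207439) (nat_lit 152) (nat_lit 10738258585) (nat_lit 76) (nat_lit 41862192887) (nat_lit 88) (nat_lit 5) (nat_lit 90) (nat_lit 5) (nat_lit 89) (nat_lit 4) (nat_lit 488) (nat_lit 338) (nat_lit 194)))) (XT.nd (nat_lit 156) (nat_lit 152) (nat_lit 0) (XT.nd (nat_lit 78) (nat_lit 76) (nat_lit 0) (XT.lf (nat_lit 0) (nat_lit 26101032560) (nat_lit 152) (nat_lit 30581083705) (nat_lit 0) (nat_lit 3331871905) (nat_lit 87) (nat_lit 5) (nat_lit 89) (nat_lit 4) (nat_lit 87) (nat_lit 4) (nat_lit 489) (nat_lit 338) (nat_lit 193)) (XT.lf (nat_lit 0) (nat_lit 9818262220) (nat_lit 76) (nat_lit 37076726339) (nat_lit 76) (nat_lit 14298313365) (nat_lit 86) (nat_lit 4) (nat_lit 87) (nat_lit 5) (nat_lit 87) (nat_lit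 4) (nat_lit 490) (nat_lit 338) (nat_lit 192))) (XT.nd (nat_lit 78) (nat_lit 76) (nat_lit 0) (XT.lf (nat_lit 0) (nat_lit 6085092934) (nat_lit 152) (nat_lit 10434657152) (nat_lit 76) (nat_lit 45877675754) (nat_lit 85) (nat_lit 5) (nat_lit 87) (nat_lit 5) (nat_lit 86) (nat_lit 4) (nat_lit 491) (nat_lit 338) (nat_lit 191)) (XT.lf (nat_lit 0) (nat_lit 27135245297) (nat_lit 152) (nat_lit 31484809516) (nat_lit 0) (nat_lit 5003092862) (nat_lit 84) (nat_lit 5) (nat_lit 86) (nat_lit 4) (nat_lit 84) (nat_lit 4) (nat_lit 492) (nat_lit 338) (nat_lit 190)))))) (XT.nd (nat_lit 41808) (nat_lit 0) (nat_lit 29792) (XT.nd (nat_lit 41496) (nat_lit 0) (nat_lit 32376) (XT.nd (nat_lit 41340) (nat_lit 0) (nat_lit 32832) (XT.lf (nat_lit 0) (nat_lit 11345081267) (nat_lit 76) (nat_lit 37835018487) (nat_lit 76) (nat_lit 15694645486) (nat_lit 83) (nat_lit 4) (nat_lit 84) (nat_lit 5) (nat_lit 84) (nat_lit 4) (nat_lit 493) (nat_lit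 338) (nat_lit 189)) (XT.nd (nat_lit 78) (nat_lit 76) (nat_lit 0) (XT.lf (nat_lit 0) (nat_lit 64108703) (nat_lit 76) (nat_lit 1579492006) (nat_lit 76) (nat_lit 1579492006) (nat_lit 516) (nat_lit 4) (nat_lit 517) (nat_lit 5) (nat_lit 517) (nat_lit 4) (nat_lit 342) (nat_lit 339) (nat_lit 339)) (XT.lf (nat_lit 0) (nat_lit 62857711) (nat_lit 152) (nat_lit 2908712798) (nat_lit 76) (nat_lit 3480255814) (nat_lit 515) (nat_lit 5) (nat_lit 517) (nat_lit 5) (nat_lit 516) (nat_lit 4) (nat_lit 343) (nat_lit 339) (nat_lit 338)))) (XT.nd (nat_lit 156) (nat_lit 304) (nat_lit 0) (XT.nd (nat_lit 78) (nat_lit 0) (nat_lit 0) (XT.lf (nat_lit 0) (nat_lit 513205776) (nat_lit 152) (nat_lit 2687482574) (nat_lit 228) (nat_lit 3259524996) (nat_lit 513) (nat_lit 5) (nat_lit 515) (nat_lit 5) (nat_lit 516) (nat_lit 4) (nat_lit 344) (nat_lit 339) (nat_lit 337)) (XT.lf (nat_lit 0) (nat_lit 4029726052) (nat_lit 152) (nat_lit 2313098941)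 (nat_lit 228) (nat_lit 128721855) (nat_lit 513) (nat_lit 5) (nat_lit 515) (nat_lit 5) (nat_lit 516) (nat_lit 4) (nat_lit 345) (nat_lit 339) (nat_lit 336))) (XT.nd (nat_lit 78) (nat_lit 0) (nat_lit 0) (XT.lf (nat_lit 0) (nat_lit 1092034046) (nat_lit 228) (nat_lit 1837179249) (nat_lit 304) (nat_lit 3556305575) (nat_lit 509) (nat_lit 5) (nat_lit 512) (nat_lit 5) (nat_lit 513) (nat_lit 5) (nat_lit 346) (nat_lit 339) (nat_lit 335)) (XT.lf (nat_lit 0) (nat_lit 4713290299) (nat_lit 228) (nat_lit 1273535498) (nat_lit 304) (nat_lit 515730229) (nat_lit 509) (nat_lit 5) (nat_lit 512) (nat_lit 5) (nat_lit 513) (nat_lit 5) (nat_lit 347) (nat_lit 339) (nat_lit 334))))) (XT.nd (nat_lit 312) (nat_lit 1292) (nat_lit 0) (XT.nd (nat_lit 156) (nat_lit 912) (nat_lit 0) (XT.nd (nat_lit 78) (nat_lit 0) (nat_lit 0) (XT.lf (nat_lit 0) (nat_lit 1866725304) (nat_lit 304) (nat_lit 604340614) (nat_lit 380) (nat_lit 4051102390)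 (nat_lit 504) (nat_lit 5) (nat_lit 508) (nat_lit 5) (nat_lit 509) (nat_lit 5) (nat_lit 348) (nat_lit 339) (nat_lit 333)) (XT.lf (nat_lit 0) (nat_lit 5447293772) (nat_lit 380) (nat_lit 949510058) (nat_lit 76) (nat_lit 148106138) (nat_lit 504) (nat_lit 5) (nat_lit 509) (nat_lit 5) (nat_lit 505) (nat_lit 5) (nat_lit 349) (nat_lit 339) (nat_lit 332))) (XT.nd (nat_lit 78) (nat_lit 456) (nat_lit 0) (XT.lf (nat_lit 0) (nat_lit 1833481915) (nat_lit 456) (nat_lit 3739873237) (nat_lit 76) (nat_lit 996609450) (nat_lit 498) (nat_lit 5) (nat_lit 504) (nat_lit 5) (nat_lit 499) (nat_lit 5) (nat_lit 350) (nat_lit 339) (nat_lit 331)) (XT.lf (nat_lit 0) (nat_lit 67413599) (nat_lit 456) (nat_lit 4669073765) (nat_lit 532) (nat_lit 1861776425) (nat_lit 492) (nat_lit 5) (nat_lit 498) (nat_lit 5) (nat_lit 499) (nat_lit 5) (nat_lit 351) (nat_lit 339) (nat_lit 330)))) (XT.nd (nat_lit 156) (nat_lit 684) (nat_lit 0) (XT.nd (nat_lit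 78) (nat_lit 532) (nat_lit 0) (XT.lf (nat_lit 0) (nat_lit 1012928082) (nat_lit 532) (nat_lit 2642999418) (nat_lit 76) (nat_lit 2973111299) (nat_lit 491) (nat_lit 5) (nat_lit 498) (nat_lit 5) (nat_lit 492) (nat_lit 5) (nat_lit 352) (nat_lit 339) (nat_lit 329)) (XT.lf (nat_lit 0) (nat_lit 1299119102) (nat_lit 532) (nat_lit 2549887291) (nat_lit 608) (nat_lit 2813801088) (nat_lit 484) (nat_lit 5) (nat_lit 491) (nat_lit 5) (nat_lit 492) (nat_lit 5) (nat_lit 353) (nat_lit 339) (nat_lit 328))) (XT.nd (nat_lit 78) (nat_lit 684) (nat_lit 0) (XT.lf (nat_lit 0) (nat_lit 5345074499) (nat_lit 532) (nat_lit 1354097530) (nat_lit 608) (nat_lit 547043) (nat_lit 484) (nat_lit 5) (nat_lit 491) (nat_lit 5) (nat_lit 492) (nat_lit 5) (nat_lit 354) (nat_lit 339) (nat_lit 327)) (XT.lf (nat_lit 0) (nat_lit 2731611865) (nat_lit 608) (nat_lit 39439768) (nat_lit 684) (nat_lit 3967936519) (nat_lit 475) (nat_lit 5) (nat_lit 483)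 (nat_lit 5) (nat_lit 484) (nat_lit 5) (nat_lit 355) (nat_lit 339) (nat_lit 326))))))) (XT.nd (nat_lit 1170) (nat_lit 5928) (nat_lit 0) (XT.nd (nat_lit 546) (nat_lit 6080) (nat_lit 0) (XT.nd (nat_lit 234) (nat_lit 1900) (nat_lit 0) (XT.nd (nat_lit 78) (nat_lit 836) (nat_lit 0) (XT.lf (nat_lit 0) (nat_lit 107622888) (nat_lit 684) (nat_lit 5452258450) (nat_lit 760) (nat_lit 1221530981) (nat_lit 466) (nat_lit 5) (nat_lit 475) (nat_lit 5) (nat_lit 476) (nat_lit 5) (nat_lit 356) (nat_lit 339) (nat_lit 325)) (XT.nd (nat_lit 78) (nat_lit 760) (nat_lit 0) (XT.lf (nat_lit 0) (nat_lit 1524909392) (nat_lit 760) (nat_lit 2483956997) (nat_lit 76) (nat_lit 2817309134) (nat_lit 465) (nat_lit 5) (nat_lit 475) (nat_lit 5) (nat_lit 466) (nat_lit 5) (nat_lit 357) (nat_lit 339) (nat_lit 324)) (XT.lf (nat_lit 0) (nat_lit 1784353529) (nat_lit 760) (nat_lit 2472425556) (nat_lit 836) (nat_lit 2617312077) (nat_lit 455) (nat_lit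 5) (nat_lit 465) (nat_lit 5) (nat_lit 466) (nat_lit 5) (nat_lit 358) (nat_lit 339) (nat_lit 323)))) (XT.nd (nat_lit 156) (nat_lit 988) (nat_lit 0) (XT.nd (nat_lit 78) (nat_lit 836) (nat_lit 0) (XT.lf (nat_lit 0) (nat_lit 81131190) (nat_lit 836) (nat_lit 763739751) (nat_lit 76) (nat_lit 6080425625) (nat_lit 454) (nat_lit 5) (nat_lit 465) (nat_lit 5) (nat_lit 455) (nat_lit 5) (nat_lit 359) (nat_lit 339) (nat_lit 322)) (XT.lf (nat_lit 0) (nat_lit 2766038733) (nat_lit 912) (nat_lit 3318775563) (nat_lit 76) (nat_lit 893702927) (nat_lit 443) (nat_lit 5) (nat_lit 455) (nat_lit 5) (nat_lit 444) (nat_lit 5) (nat_lit 360) (nat_lit 339) (nat_lit 321))) (XT.nd (nat_lit 78) (nat_lit 76) (nat_lit 0) (XT.lf (nat_lit 0) (nat_lit 1141364568) (nat_lit 912) (nat_lit 4333340080) (nat_lit 988) (nat_lit 1560333516) (nat_lit 431) (nat_lit 5) (nat_lit 443) (nat_lit 5) (nat_lit 444) (nat_lit 5) (nat_lit 361) (nat_lit 339) (nat_lit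 320)) (XT.lf (nat_lit 0) (nat_lit 1099404429) (nat_lit 988) (nat_lit 1372402516) (nat_lit 76) (nat_lit 4622583397) (nat_lit 430) (nat_lit 5) (nat_lit 443) (nat_lit 5) (nat_lit 431) (nat_lit 5) (nat_lit 362) (nat_lit 339) (nat_lit 319))))) (XT.nd (nat_lit 312) (nat_lit 2812) (nat_lit 0) (XT.nd (nat_lit 156) (nat_lit 1216) (nat_lit 0) (XT.nd (nat_lit 78) (nat_lit 1064) (nat_lit 0) (XT.lf (nat_lit 0) (nat_lit 3262921499) (nat_lit 988) (nat_lit 495474766) (nat_lit 1064) (nat_lit 3398138668) (nat_lit 417) (nat_lit 5) (nat_lit 430) (nat_lit 5) (nat_lit 431) (nat_lit 5) (nat_lit 363) (nat_lit 339) (nat_lit 318)) (XT.lf (nat_lit 0) (nat_lit 773886558) (nat_lit 1064) (nat_lit 5680743750) (nat_lit 1140) (nat_lit 767189380) (nat_lit 403) (nat_lit 5) (nat_lit 417) (nat_lit 5) (nat_lit 418) (nat_lit 5) (nat_lit 364) (nat_lit 339) (nat_lit 317))) (XT.nd (nat_lit 78) (nat_lit 1140) (nat_lit 0) (XT.lf (nat_lit 0) (nat_lit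 1871474063) (nat_lit 1140) (nat_lit 1723057603) (nat_lit 76) (nat_lit 3694970255) (nat_lit 402) (nat_lit 5) (nat_lit 417) (nat_lit 5) (nat_lit 403) (nat_lit 5) (nat_lit 365) (nat_lit 339) (nat_lit 316)) (XT.lf (nat_lit 0) (nat_lit 3126658612) (nat_lit 1140) (nat_lit 1401625561) (nat_lit 1216) (nat_lit 2832070375) (nat_lit 387) (nat_lit 5) (nat_lit 402) (nat_lit 5) (nat_lit 403) (nat_lit 5) (nat_lit 366) (nat_lit 339) (nat_lit 315)))) (XT.nd (nat_lit 156) (nat_lit 1520) (nat_lit 0) (XT.nd (nat_lit 78) (nat_lit 76) (nat_lit 0) (XT.lf (nat_lit 0) (nat_lit 656884676) (nat_lit 1216) (nat_lit 6565966976) (nat_lit 1292) (nat_lit 211739509) (nat_lit 371) (nat_lit 5) (nat_lit 387) (nat_lit 5) (nat_lit 388) (nat_lit 5) (nat_lit 367) (nat_lit 339) (nat_lit 314)) (XT.lf (nat_lit 0) (nat_lit 2422402344) (nat_lit 1292) (nat_lit 1839665641) (nat_lit 76) (nat_lit 3248757573) (nat_lit 370) (nat_lit 5) (nat_lit 387)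 (nat_lit 5) (nat_lit 371) (nat_lit 5) (nat_lit 368) (nat_lit 339) (nat_lit 313))) (XT.nd (nat_lit 78) (nat_lit 684) (nat_lit 0) (XT.lf (nat_lit 0) (nat_lit 3237049223) (nat_lit 836) (nat_lit 1854197955) (nat_lit 912) (nat_lit 2499238882) (nat_lit 359) (nat_lit 5) (nat_lit 370) (nat_lit 5) (nat_lit 371) (nat_lit 5) (nat_lit 369) (nat_lit 339) (nat_lit 312)) (XT.lf (nat_lit 0) (nat_lit 126363256) (nat_lit 684) (nat_lit 6906245611) (nat_lit 76) (nat_lit 641018776) (nat_lit 350) (nat_lit 5) (nat_lit 359) (nat_lit 5) (nat_lit 351) (nat_lit 5) (nat_lit 370) (nat_lit 339) (nat_lit 311)))))) (XT.nd (nat_lit 624) (nat_lit 2964) (nat_lit 0) (XT.nd (nat_lit 312) (nat_lit 1748) (nat_lit 0) (XT.nd (nat_lit 156) (nat_lit 608) (nat_lit 0) (XT.nd (nat_lit 78) (nat_lit 608) (nat_lit 0) (XT.lf (nat_lit 0) (nat_lit 2774145436) (nat_lit 684) (nat_lit 1743025232) (nat_lit 76) (nat_lit 3241541133) (nat_lit 350) (nat_lit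 5) (nat_lit 359) (nat_lit 5) (nat_lit 351) (nat_lit 5) (nat_lit 371) (nat_lit 339) (nat_lit 310)) (XT.lf (nat_lit 0) (nat_lit 3574346289) (nat_lit 608) (nat_lit 1894275898) (nat_lit 684) (nat_lit 2378708462) (nat_lit 342) (nat_lit 5) (nat_lit 350) (nat_lit 5) (nat_lit 351) (nat_lit 5) (nat_lit 372) (nat_lit 339) (nat_lit 309))) (XT.nd (nat_lit 78) (nat_lit 0) (nat_lit 0) (XT.lf (nat_lit 0) (nat_lit 269237303) (nat_lit 608) (nat_lit 6851647356) (nat_lit 76) (nat_lit 818539251) (nat_lit 334) (nat_lit 5) (nat_lit 342) (nat_lit 5) (nat_lit 335) (nat_lit 5) (nat_lit 373) (nat_lit 339) (nat_lit 308)) (XT.lf (nat_lit 0) (nat_lit 2945885649) (nat_lit 608) (nat_lit 1451101452) (nat_lit 76) (nat_lit 3636674103) (nat_lit 334) (nat_lit 5) (nat_lit 342) (nat_lit 5) (nat_lit 335) (nat_lit 5) (nat_lit 374) (nat_lit 339) (nat_lit 307)))) (XT.nd (nat_lit 156) (nat_lit 532) (nat_lit 0) (XT.nd (nat_lit 78) (nat_lit 608)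 (nat_lit 0) (XT.lf (nat_lit 0) (nat_lit 4121661875) (nat_lit 608) (nat_lit 1557434910) (nat_lit 684) (nat_lit 2452340933) (nat_lit 326) (nat_lit 5) (nat_lit 334) (nat_lit 5) (nat_lit 335) (nat_lit 5) (nat_lit 375) (nat_lit 339) (nat_lit 306)) (XT.lf (nat_lit 0) (nat_lit 237986989) (nat_lit 608) (nat_lit 6628676361) (nat_lit 76) (nat_lit 1365980201) (nat_lit 318) (nat_lit 5) (nat_lit 326) (nat_lit 5) (nat_lit 319) (nat_lit 5) (nat_lit 376) (nat_lit 339) (nat_lit 305))) (XT.nd (nat_lit 78) (nat_lit 532) (nat_lit 0) (XT.lf (nat_lit 0) (nat_lit 2954325624) (nat_lit 608) (nat_lit 979316087) (nat_lit 76) (nat_lit 4402677713) (nat_lit 318) (nat_lit 5) (nat_lit 326) (nat_lit 5) (nat_lit 319) (nat_lit 5) (nat_lit 377) (nat_lit 339) (nat_lit 304)) (XT.lf (nat_lit 0) (nat_lit 4864682970) (nat_lit 532) (nat_lit 874310048) (nat_lit 608) (nat_lit 2704507400) (nat_lit 311) (nat_lit 5) (nat_lit 318) (nat_lit 5) (nat_lit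 319) (nat_lit 5) (nat_lit 378) (nat_lit 339) (nat_lit 303))))) (XT.nd (nat_lit 312) (nat_lit 1444) (nat_lit 0) (XT.nd (nat_lit 156) (nat_lit 988) (nat_lit 0) (XT.nd (nat_lit 78) (nat_lit 0) (nat_lit 0) (XT.lf (nat_lit 0) (nat_lit 47281498) (nat_lit 532) (nat_lit 6251834287) (nat_lit 76) (nat_lit 2254915142) (nat_lit 304) (nat_lit 5) (nat_lit 311) (nat_lit 5) (nat_lit 305) (nat_lit 5) (nat_lit 379) (nat_lit 339) (nat_lit 302)) (XT.lf (nat_lit 0) (nat_lit 2813948651) (nat_lit 532) (nat_lit 340803768) (nat_lit 76) (nat_lit 5512721137) (nat_lit 304) (nat_lit 5) (nat_lit 311) (nat_lit 5) (nat_lit 305) (nat_lit 5) (nat_lit 380) (nat_lit 339) (nat_lit 301))) (XT.nd (nat_lit 78) (nat_lit 456) (nat_lit 0) (XT.lf (nat_lit 0) (nat_lit 5663757750) (nat_lit 608) (nat_lit 2994170223) (nat_lit 76) (nat_lit 126387235) (nat_lit 297) (nat_lit 5) (nat_lit 305) (nat_lit 5) (nat_lit 298) (nat_lit 5) (nat_lit 381) (nat_lit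 339) (nat_lit 300)) (XT.lf (nat_lit 0) (nat_lit 3167977785) (nat_lit 456) (nat_lit 5440351932) (nat_lit 532) (nat_lit 296054333) (nat_lit 291) (nat_lit 5) (nat_lit 297) (nat_lit 5) (nat_lit 298) (nat_lit 5) (nat_lit 382) (nat_lit 339) (nat_lit 299)))) (XT.nd (nat_lit 156) (nat_lit 912) (nat_lit 0) (XT.nd (nat_lit 78) (nat_lit 0) (nat_lit 0) (XT.lf (nat_lit 0) (nat_lit 462385076) (nat_lit 456) (nat_lit 2079308492) (nat_lit 532) (nat_lit 6486222735) (nat_lit 284) (nat_lit 5) (nat_lit 290) (nat_lit 5) (nat_lit 291) (nat_lit 5) (nat_lit 383) (nat_lit 339) (nat_lit 298)) (XT.lf (nat_lit 0) (nat_lit 5475735649) (nat_lit 532) (nat_lit 2276718528) (nat_lit 76) (nat_lit 1402099046) (nat_lit 284) (nat_lit 5) (nat_lit 291) (nat_lit 5) (nat_lit 285) (nat_lit 5) (nat_lit 384) (nat_lit 339) (nat_lit 297))) (XT.nd (nat_lit 78) (nat_lit 532) (nat_lit 0) (XT.lf (nat_lit 0) (nat_lit 4192825525) (nat_lit 380) (nat_lit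 4312779326) (nat_lit 456) (nat_lit 779150223) (nat_lit 279) (nat_lit 5) (nat_lit 284) (nat_lit 5) (nat_lit 285) (nat_lit 5) (nat_lit 385) (nat_lit 339) (nat_lit 296)) (XT.lf (nat_lit 0) (nat_lit 1421714369) (nat_lit 456) (nat_lit 726886465) (nat_lit 532) (nat_lit 7270100446) (nat_lit 272) (nat_lit 5) (nat_lit 278) (nat_lit 5) (nat_lit 279) (nat_lit 5) (nat_lit 386) (nat_lit 339) (nat_lit 295))))))))
noncomputable def xc97 : XT := (XT.nd (nat_lit 2340) (nat_lit 3800) (nat_lit 0) (XT.nd (nat_lit 1170) (nat_lit 2964) (nat_lit 0) (XT.nd (nat_lit 546) (nat_lit 1748) (nat_lit 0) (XT.nd (nat_lit 234) (nat_lit 1140) (nat_lit 0) (XT.nd (nat_lit 78) (nat_lit 836) (nat_lit 0) (XT.lf (nat_lit 0) (nat_lit 5176964173) (nat_lit 532) (nat_lit 1426960198) (nat_lit 76) (nat_lit 2951656874) (nat_lit 272) (nat_lit 5) (nat_lit 279) (nat_lit 5) (nat_lit 273) (nat_lit 5) (nat_lit 387) (nat_lit 339) (nat_lit 294)) (XT.nd (nat_lit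 78) (nat_lit 456) (nat_lit 0) (XT.lf (nat_lit 0) (nat_lit 5369551671) (nat_lit 380) (nat_lit 2934949426) (nat_lit 456) (nat_lit 1391816830) (nat_lit 267) (nat_lit 5) (nat_lit 272) (nat_lit 5) (nat_lit 273) (nat_lit 5) (nat_lit 388) (nat_lit 339) (nat_lit 293)) (XT.lf (nat_lit 0) (nat_lit 1648839189) (nat_lit 456) (nat_lit 7326883923) (nat_lit 76) (nat_lit 865154078) (nat_lit 261) (nat_lit 5) (nat_lit 267) (nat_lit 5) (nat_lit 262) (nat_lit 5) (nat_lit 389) (nat_lit 339) (nat_lit 292)))) (XT.nd (nat_lit 156) (nat_lit 760) (nat_lit 0) (XT.nd (nat_lit 78) (nat_lit 380) (nat_lit 0) (XT.lf (nat_lit 0) (nat_lit 4776394969) (nat_lit 456) (nat_lit 452222827) (nat_lit 76) (nat_lit 4760032394) (nat_lit 261) (nat_lit 5) (nat_lit 267) (nat_lit 5) (nat_lit 262) (nat_lit 5) (nat_lit 390) (nat_lit 339) (nat_lit 291)) (XT.lf (nat_lit 0) (nat_lit 6692121281) (nat_lit 380) (nat_lit 1321898369) (nat_lit 456) (nat_lit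 2126349464) (nat_lit 256) (nat_lit 5) (nat_lit 261) (nat_lit 5) (nat_lit 262) (nat_lit 5) (nat_lit 391) (nat_lit 339) (nat_lit 290))) (XT.nd (nat_lit 78) (nat_lit 304) (nat_lit 0) (XT.lf (nat_lit 0) (nat_lit 1050845893) (nat_lit 456) (nat_lit 6563510683) (nat_lit 76) (nat_lit 2681402318) (nat_lit 250) (nat_lit 5) (nat_lit 256) (nat_lit 5) (nat_lit 251) (nat_lit 5) (nat_lit 392) (nat_lit 339) (nat_lit 289)) (XT.lf (nat_lit 0) (nat_lit 654364679) (nat_lit 304) (nat_lit 3633565318) (nat_lit 380) (nat_lit 6167029469) (nat_lit 246) (nat_lit 5) (nat_lit 250) (nat_lit 5) (nat_lit 251) (nat_lit 5) (nat_lit 393) (nat_lit 339) (nat_lit 288))))) (XT.nd (nat_lit 312) (nat_lit 988) (nat_lit 0) (XT.nd (nat_lit 156) (nat_lit 304) (nat_lit 0) (XT.nd (nat_lit 78) (nat_lit 456) (nat_lit 0) (XT.lf (nat_lit 0) (nat_lit 7646842310) (nat_lit 380) (nat_lit 2467293703) (nat_lit 76) (nat_lit 504058572) (nat_lit 246) (nat_lit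 5) (nat_lit 251) (nat_lit 5) (nat_lit 247) (nat_lit 5) (nat_lit 394) (nat_lit 339) (nat_lit 287)) (XT.lf (nat_lit 0) (nat_lit 353827282) (nat_lit 456) (nat_lit 5705929020) (nat_lit 76) (nat_lit 4725281711) (nat_lit 240) (nat_lit 5) (nat_lit 246) (nat_lit 5) (nat_lit 241) (nat_lit 5) (nat_lit 395) (nat_lit 339) (nat_lit 286))) (XT.nd (nat_lit 78) (nat_lit 0) (nat_lit 0) (XT.lf (nat_lit 0) (nat_lit 1886716900) (nat_lit 304) (nat_lit 1830522667) (nat_lit 380) (nat_lit 7238818639) (nat_lit 236) (nat_lit 5) (nat_lit 240) (nat_lit 5) (nat_lit 241) (nat_lit 5) (nat_lit 396) (nat_lit 339) (nat_lit 285)) (XT.lf (nat_lit 0) (nat_lit 7219391080) (nat_lit 380) (nat_lit 1398464967) (nat_lit 76) (nat_lit 2513217854) (nat_lit 236) (nat_lit 5) (nat_lit 241) (nat_lit 5) (nat_lit 237) (nat_lit 5) (nat_lit 397) (nat_lit 339) (nat_lit 284)))) (XT.nd (nat_lit 156) (nat_lit 304) (nat_lit 0) (XT.nd (nat_lit 78) (nat_lit 380)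 (nat_lit 0) (XT.lf (nat_lit 0) (nat_lit 6546880790) (nat_lit 304) (nat_lit 4317453036) (nat_lit 380) (nat_lit 445874439) (nat_lit 232) (nat_lit 5) (nat_lit 236) (nat_lit 5) (nat_lit 237) (nat_lit 5) (nat_lit 398) (nat_lit 339) (nat_lit 283)) (XT.lf (nat_lit 0) (nat_lit 3066777713) (nat_lit 380) (nat_lit 8262992993) (nat_lit 76) (nat_lit 163930239) (nat_lit 227) (nat_lit 5) (nat_lit 232) (nat_lit 5) (nat_lit 228) (nat_lit 5) (nat_lit 399) (nat_lit 339) (nat_lit 282))) (XT.nd (nat_lit 78) (nat_lit 304) (nat_lit 0) (XT.lf (nat_lit 0) (nat_lit 6724476442) (nat_lit 380) (nat_lit 232606419) (nat_lit 76) (nat_lit 4724024248) (nat_lit 227) (nat_lit 5) (nat_lit 232) (nat_lit 5) (nat_lit 228) (nat_lit 5) (nat_lit 400) (nat_lit 339) (nat_lit 281)) (XT.lf (nat_lit 0) (nat_lit 8133402656) (nat_lit 304) (nat_lit 2395235338) (nat_lit 380) (nat_lit 1344395507) (nat_lit 223) (nat_lit 5) (nat_lit 227) (nat_lit 5) (nat_lit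 228) (nat_lit 5) (nat_lit 401) (nat_lit 339) (nat_lit 280)))))) (XT.nd (nat_lit 546) (nat_lit 1444) (nat_lit 0) (XT.nd (nat_lit 234) (nat_lit 912) (nat_lit 0) (XT.nd (nat_lit 78) (nat_lit 304) (nat_lit 0) (XT.lf (nat_lit 0) (nat_lit 2358643585) (nat_lit 304) (nat_lit 7403512789) (nat_lit 76) (nat_lit 2307011909) (nat_lit 219) (nat_lit 5) (nat_lit 223) (nat_lit 5) (nat_lit 220) (nat_lit 5) (nat_lit 402) (nat_lit 339) (nat_lit 279)) (XT.nd (nat_lit 78) (nat_lit 0) (nat_lit 0) (XT.lf (nat_lit 0) (nat_lit 1048193805) (nat_lit 304) (nat_lit 5128599747) (nat_lit 380) (nat_lit 6093063009) (nat_lit 215) (nat_lit 5) (nat_lit 219) (nat_lit 5) (nat_lit 220) (nat_lit 5) (nat_lit 403) (nat_lit 339) (nat_lit 278)) (XT.lf (nat_lit 0) (nat_lit 9841284081) (nat_lit 304) (nat_lit 302654041) (nat_lit 380) (nat_lit 2331593862) (nat_lit 215) (nat_lit 5) (nat_lit 219) (nat_lit 5) (nat_lit 220) (nat_lit 5) (nat_lit 404) (nat_lit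 339) (nat_lit 277)))) (XT.nd (nat_lit 156) (nat_lit 304) (nat_lit 0) (XT.nd (nat_lit 78) (nat_lit 304) (nat_lit 0) (XT.lf (nat_lit 0) (nat_lit 1578609777) (nat_lit 304) (nat_lit 6476541043) (nat_lit 76) (nat_lit 4629802130) (nat_lit 211) (nat_lit 5) (nat_lit 215) (nat_lit 5) (nat_lit 212) (nat_lit 5) (nat_lit 405) (nat_lit 339) (nat_lit 276)) (XT.lf (nat_lit 0) (nat_lit 2428347258) (nat_lit 304) (nat_lit 3144917958) (nat_lit 380) (nat_lit 7326278524) (nat_lit 207) (nat_lit 5) (nat_lit 211) (nat_lit 5) (nat_lit 212) (nat_lit 5) (nat_lit 406) (nat_lit 339) (nat_lit 275))) (XT.nd (nat_lit 78) (nat_lit 304) (nat_lit 0) (XT.lf (nat_lit 0) (nat_lit 9733308797) (nat_lit 380) (nat_lit 1467994430) (nat_lit 76) (nat_lit 1917902572) (nat_lit 207) (nat_lit 5) (nat_lit 212) (nat_lit 5) (nat_lit 208) (nat_lit 5) (nat_lit 407) (nat_lit 339) (nat_lit 274)) (XT.lf (nat_lit 0) (nat_lit 729250987) (nat_lit 304) (nat_lit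 5484524061) (nat_lit 76) (nat_lit 7129398229) (nat_lit 203) (nat_lit 5) (nat_lit 207) (nat_lit 5) (nat_lit 204) (nat_lit 5) (nat_lit 408) (nat_lit 339) (nat_lit 273))))) (XT.nd (nat_lit 312) (nat_lit 684) (nat_lit 0) (XT.nd (nat_lit 156) (nat_lit 532) (nat_lit 0) (XT.nd (nat_lit 78) (nat_lit 0) (nat_lit 0) (XT.lf (nat_lit 0) (nat_lit 3902459081) (nat_lit 228) (nat_lit 1012216567) (nat_lit 304) (nat_lit 8657732155) (nat_lit 200) (nat_lit 5) (nat_lit 203) (nat_lit 5) (nat_lit 204) (nat_lit 5) (nat_lit 409) (nat_lit 339) (nat_lit 272)) (XT.lf (nat_lit 0) (nat_lit 9286032537) (nat_lit 304) (nat_lit 227764395) (nat_lit 76) (nat_lit 4292911351) (nat_lit 200) (nat_lit 5) (nat_lit 204) (nat_lit 5) (nat_lit 201) (nat_lit 5) (nat_lit 410) (nat_lit 339) (nat_lit 271))) (XT.nd (nat_lit 78) (nat_lit 304) (nat_lit 0) (XT.lf (nat_lit 0) (nat_lit 9615028401) (nat_lit 228) (nat_lit 4239704227) (nat_lit 304) (nat_lit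 191319073) (nat_lit 197) (nat_lit 5) (nat_lit 200) (nat_lit 5) (nat_lit 201) (nat_lit 5) (nat_lit 411) (nat_lit 339) (nat_lit 270)) (XT.lf (nat_lit 0) (nat_lit 4215608878) (nat_lit 304) (nat_lit 8832378853) (nat_lit 76) (nat_lit 1242427725) (nat_lit 193) (nat_lit 5) (nat_lit 197) (nat_lit 5) (nat_lit 194) (nat_lit 5) (nat_lit 412) (nat_lit 339) (nat_lit 269)))) (XT.nd (nat_lit 156) (nat_lit 456) (nat_lit 0) (XT.nd (nat_lit 78) (nat_lit 0) (nat_lit 0) (XT.lf (nat_lit 0) (nat_lit 1110556634) (nat_lit 228) (nat_lit 7702311003) (nat_lit 304) (nat_lit 5727326609) (nat_lit 190) (nat_lit 5) (nat_lit 193) (nat_lit 5) (nat_lit 194) (nat_lit 5) (nat_lit 413) (nat_lit 339) (nat_lit 268)) (XT.lf (nat_lit 0) (nat_lit 11472797779) (nat_lit 228) (nat_lit 2129031798) (nat_lit 304) (nat_lit 1194023261) (nat_lit 190) (nat_lit 5) (nat_lit 193) (nat_lit 5) (nat_lit 194) (nat_lit 5) (nat_lit 414) (nat_lit 339) (nat_lit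 267))) (XT.nd (nat_lit 78) (nat_lit 152) (nat_lit 0) (XT.lf (nat_lit 0) (nat_lit 3476814345) (nat_lit 304) (nat_lit 7959115291) (nat_lit 76) (nat_lit 3620168846) (nat_lit 186) (nat_lit 5) (nat_lit 190) (nat_lit 5) (nat_lit 187) (nat_lit 5) (nat_lit 415) (nat_lit 339) (nat_lit 266)) (XT.lf (nat_lit 0) (nat_lit 2531565983) (nat_lit 152) (nat_lit 5777019703) (nat_lit 228) (nat_lit 7013866929) (nat_lit 184) (nat_lit 5) (nat_lit 186) (nat_lit 5) (nat_lit 187) (nat_lit 5) (nat_lit 416) (nat_lit 339) (nat_lit 265))))))) (XT.nd (nat_lit 1170) (nat_lit 1748) (nat_lit 0) (XT.nd (nat_lit 546) (nat_lit 988) (nat_lit 0) (XT.nd (nat_lit 234) (nat_lit 608) (nat_lit 0) (XT.nd (nat_lit 78) (nat_lit 456) (nat_lit 0) (XT.lf (nat_lit 0) (nat_lit 13332683334) (nat_lit 228) (nat_lit 2154959321) (nat_lit 76) (nat_lit 107733523) (nat_lit 184) (nat_lit 5) (nat_lit 187) (nat_lit 5) (nat_lit 185) (nat_lit 5) (nat_lit 417) (nat_lit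 339) (nat_lit 264)) (XT.nd (nat_lit 78) (nat_lit 152) (nat_lit 0) (XT.lf (nat_lit 0) (nat_lit 2689810742) (nat_lit 304) (nat_lit 7041559233) (nat_lit 76) (nat_lit 6141054698) (nat_lit 180) (nat_lit 5) (nat_lit 184) (nat_lit 5) (nat_lit 181) (nat_lit 5) (nat_lit 418) (nat_lit 339) (nat_lit 263)) (XT.lf (nat_lit 0) (nat_lit 4031592622) (nat_lit 152) (nat_lit 3741352784) (nat_lit 228) (nat_lit 8383341113) (nat_lit 178) (nat_lit 5) (nat_lit 180) (nat_lit 5) (nat_lit 181) (nat_lit 5) (nat_lit 419) (nat_lit 339) (nat_lit 262)))) (XT.nd (nat_lit 156) (nat_lit 304) (nat_lit 0) (XT.nd (nat_lit 78) (nat_lit 304) (nat_lit 0) (XT.lf (nat_lit 0) (nat_lit 13070712687) (nat_lit 228) (nat_lit 947243798) (nat_lit 76) (nat_lit 2428843581) (nat_lit 178) (nat_lit 5) (nat_lit 181) (nat_lit 5) (nat_lit 179) (nat_lit 5) (nat_lit 420) (nat_lit 339) (nat_lit 261)) (XT.lf (nat_lit 0) (nat_lit 1855347916) (nat_lit 304) (nat_lit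 6080346451) (nat_lit 76) (nat_lit 8806559182) (nat_lit 174) (nat_lit 5) (nat_lit 178) (nat_lit 5) (nat_lit 175) (nat_lit 5) (nat_lit 421) (nat_lit 339) (nat_lit 260))) (XT.nd (nat_lit 78) (nat_lit 152) (nat_lit 0) (XT.lf (nat_lit 0) (nat_lit 5612110918) (nat_lit 152) (nat_lit 1595398298) (nat_lit 228) (nat_lit 9837109453) (nat_lit 172) (nat_lit 5) (nat_lit 174) (nat_lit 5) (nat_lit 175) (nat_lit 5) (nat_lit 422) (nat_lit 339) (nat_lit 259)) (XT.lf (nat_lit 0) (nat_lit 327607379) (nat_lit 152) (nat_lit 12473417759) (nat_lit 228) (nat_lit 4552605914) (nat_lit 170) (nat_lit 5) (nat_lit 172) (nat_lit 5) (nat_lit 173) (nat_lit 5) (nat_lit 423) (nat_lit 339) (nat_lit 258))))) (XT.nd (nat_lit 312) (nat_lit 532) (nat_lit 0) (XT.nd (nat_lit 156) (nat_lit 228) (nat_lit 0) (XT.nd (nat_lit 78) (nat_lit 152) (nat_lit 0) (XT.lf (nat_lit 0) (nat_lit 973713462) (nat_lit 228) (nat_lit 5075653787) (nat_lit 76) (nat_lit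 11619270086) (nat_lit 169) (nat_lit 5) (nat_lit 172) (nat_lit 5) (nat_lit 170) (nat_lit 5) (nat_lit 424) (nat_lit 339) (nat_lit 257)) (XT.lf (nat_lit 0) (nat_lit 6619809429) (nat_lit 228) (nat_lit 10721749755) (nat_lit 76) (nat_lit 648817666) (nat_lit 167) (nat_lit 5) (nat_lit 170) (nat_lit 5) (nat_lit 168) (nat_lit 5) (nat_lit 425) (nat_lit 339) (nat_lit 256))) (XT.nd (nat_lit 78) (nat_lit 76) (nat_lit 0) (XT.lf (nat_lit 0) (nat_lit 1684436797) (nat_lit 152) (nat_lit 10848039007) (nat_lit 228) (nat_lit 5786377122) (nat_lit 165) (nat_lit 5) (nat_lit 167) (nat_lit 5) (nat_lit 168) (nat_lit 5) (nat_lit 426) (nat_lit 339) (nat_lit 255)) (XT.lf (nat_lit 0) (nat_lit 44764032) (nat_lit 228) (nat_lit 4027230368) (nat_lit 76) (nat_lit 14582836415) (nat_lit 164) (nat_lit 5) (nat_lit 167) (nat_lit 5) (nat_lit 165) (nat_lit 5) (nat_lit 427) (nat_lit 339) (nat_lit 254)))) (XT.nd (nat_lit 156) (nat_lit 228) (nat_lit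 0) (XT.nd (nat_lit 78) (nat_lit 152) (nat_lit 0) (XT.lf (nat_lit 0) (nat_lit 6020720634) (nat_lit 228) (nat_lit 10003186969) (nat_lit 76) (nat_lit 2972676263) (nat_lit 162) (nat_lit 5) (nat_lit 165) (nat_lit 5) (nat_lit 163) (nat_lit 5) (nat_lit 428) (nat_lit 339) (nat_lit 253)) (XT.lf (nat_lit 0) (nat_lit 3106046307) (nat_lit 152) (nat_lit 9151580435) (nat_lit 228) (nat_lit 7088512642) (nat_lit 160) (nat_lit 5) (nat_lit 162) (nat_lit 5) (nat_lit 163) (nat_lit 5) (nat_lit 429) (nat_lit 339) (nat_lit 252))) (XT.nd (nat_lit 78) (nat_lit 228) (nat_lit 0) (XT.lf (nat_lit 0) (nat_lit 16760466123) (nat_lit 152) (nat_lit 1992964001) (nat_lit 228) (nat_lit 950597741) (nat_lit 160) (nat_lit 5) (nat_lit 162) (nat_lit 5) (nat_lit 163) (nat_lit 5) (nat_lit 430) (nat_lit 339) (nat_lit 251)) (XT.lf (nat_lit 0) (nat_lit 5395417281) (nat_lit 228) (nat_lit 9261889451) (nat_lit 76) (nat_lit 5409933884) (nat_lit 157)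 (nat_lit 5) (nat_lit 160) (nat_lit 5) (nat_lit 158) (nat_lit 5) (nat_lit 431) (nat_lit 339) (nat_lit 250)))))) (XT.nd (nat_lit 624) (nat_lit 836) (nat_lit 0) (XT.nd (nat_lit 312) (nat_lit 380) (nat_lit 0) (XT.nd (nat_lit 156) (nat_lit 380) (nat_lit 0) (XT.nd (nat_lit 78) (nat_lit 0) (nat_lit 0) (XT.lf (nat_lit 0) (nat_lit 4594549428) (nat_lit 152) (nat_lit 7383535034) (nat_lit 228) (nat_lit 8461021598) (nat_lit 155) (nat_lit 5) (nat_lit 157) (nat_lit 5) (nat_lit 158) (nat_lit 5) (nat_lit 432) (nat_lit 339) (nat_lit 249)) (XT.lf (nat_lit 0) (nat_lit 18825295492) (nat_lit 228) (nat_lit 1817137969) (nat_lit 76) (nat_lit 177682091) (nat_lit 155) (nat_lit 5) (nat_lit 158) (nat_lit 5) (nat_lit 156) (nat_lit 4) (nat_lit 433) (nat_lit 339) (nat_lit 248))) (XT.nd (nat_lit 78) (nat_lit 152) (nat_lit 0) (XT.lf (nat_lit 0) (nat_lit 4744113756) (nat_lit 228) (nat_lit 8497970232) (nat_lit 76) (nat_lit 7964032420)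 (nat_lit 152) (nat_lit 5) (nat_lit 155) (nat_lit 5) (nat_lit 153) (nat_lit 5) (nat_lit 434) (nat_lit 339) (nat_lit 247)) (XT.lf (nat_lit 0) (nat_lit 6152503964) (nat_lit 152) (nat_lit 5542736793) (nat_lit 228) (nat_lit 9906360440) (nat_lit 150) (nat_lit 5) (nat_lit 152) (nat_lit 5) (nat_lit 153) (nat_lit 5) (nat_lit 435) (nat_lit 339) (nat_lit 246)))) (XT.nd (nat_lit 156) (nat_lit 228) (nat_lit 0) (XT.nd (nat_lit 78) (nat_lit 152) (nat_lit 0) (XT.lf (nat_lit 0) (nat_lit 18937056388) (nat_lit 228) (nat_lit 664492213) (nat_lit 76) (nat_lit 2404937283) (nat_lit 150) (nat_lit 5) (nat_lit 153) (nat_lit 5) (nat_lit 151) (nat_lit 4) (nat_lit 436) (nat_lit 339) (nat_lit 245)) (XT.lf (nat_lit 0) (nat_lit 4066749468) (nat_lit 152) (nat_lit 7711270319) (nat_lit 76) (nat_lit 10639201910) (nat_lit 148) (nat_lit 5) (nat_lit 150) (nat_lit 5) (nat_lit 149) (nat_lit 5) (nat_lit 437) (nat_lit 339) (nat_lit 244))) (XT.nd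 (nat_lit 78) (nat_lit 76) (nat_lit 0) (XT.lf (nat_lit 0) (nat_lit 7782900626) (nat_lit 152) (nat_lit 3627396494) (nat_lit 228) (nat_lit 11427421477) (nat_lit 146) (nat_lit 5) (nat_lit 148) (nat_lit 5) (nat_lit 149) (nat_lit 5) (nat_lit 438) (nat_lit 339) (nat_lit 243)) (XT.lf (nat_lit 0) (nat_lit 545875442) (nat_lit 76) (nat_lit 18531463052) (nat_lit 152) (nat_lit 4190396293) (nat_lit 145) (nat_lit 5) (nat_lit 146) (nat_lit 5) (nat_lit 147) (nat_lit 4) (nat_lit 439) (nat_lit 339) (nat_lit 242))))) (XT.nd (nat_lit 312) (nat_lit 456) (nat_lit 0) (XT.nd (nat_lit 156) (nat_lit 152) (nat_lit 0) (XT.nd (nat_lit 78) (nat_lit 152) (nat_lit 0) (XT.lf (nat_lit 0) (nat_lit 3363006731) (nat_lit 152) (nat_lit 6901376489) (nat_lit 76) (nat_lit 13440438419) (nat_lit 144) (nat_lit 5) (nat_lit 146) (nat_lit 5) (nat_lit 145) (nat_lit 5) (nat_lit 440) (nat_lit 339) (nat_lit 241)) (XT.lf (nat_lit 0) (nat_lit 9489155350)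 (nat_lit 152) (nat_lit 1635131045) (nat_lit 228) (nat_lit 13027525108) (nat_lit 142) (nat_lit 5) (nat_lit 144) (nat_lit 5) (nat_lit 145) (nat_lit 5) (nat_lit 441) (nat_lit 339) (nat_lit 240))) (XT.nd (nat_lit 78) (nat_lit 76) (nat_lit 0) (XT.lf (nat_lit 0) (nat_lit 1819530446) (nat_lit 76) (nat_lit 17430821973) (nat_lit 152) (nat_lit 5357900204) (nat_lit 141) (nat_lit 5) (nat_lit 142) (nat_lit 5) (nat_lit 143) (nat_lit 4) (nat_lit 442) (nat_lit 339) (nat_lit 239)) (XT.lf (nat_lit 0) (nat_lit 2632325797) (nat_lit 152) (nat_lit 6067636242) (nat_lit 76) (nat_lit 16373488565) (nat_lit 140) (nat_lit 5) (nat_lit 142) (nat_lit 5) (nat_lit 141) (nat_lit 5) (nat_lit 443) (nat_lit 339) (nat_lit 238)))) (XT.nd (nat_lit 156) (nat_lit 228) (nat_lit 0) (XT.nd (nat_lit 78) (nat_lit 76) (nat_lit 0) (XT.lf (nat_lit 0) (nat_lit 10842292787) (nat_lit 228) (nat_lit 14277603231) (nat_lit 76) (nat_lit 428485370) (nat_lit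 138) (nat_lit 5) (nat_lit 141) (nat_lit 5) (nat_lit 139) (nat_lit 4) (nat_lit 444) (nat_lit 339) (nat_lit 237)) (XT.lf (nat_lit 0) (nat_lit 3145627903) (nat_lit 76) (nat_lit 16306390071) (nat_lit 152) (nat_lit 6580938347) (nat_lit 137) (nat_lit 5) (nat_lit 138) (nat_lit 5) (nat_lit 139) (nat_lit 4) (nat_lit 445) (nat_lit 339) (nat_lit 236))) (XT.nd (nat_lit 78) (nat_lit 152) (nat_lit 0) (XT.lf (nat_lit 0) (nat_lit 1873917317) (nat_lit 152) (nat_lit 5209170176) (nat_lit 76) (nat_lit 19444840180) (nat_lit 136) (nat_lit 5) (nat_lit 138) (nat_lit 5) (nat_lit 137) (nat_lit 5) (nat_lit 446) (nat_lit 339) (nat_lit 235)) (XT.lf (nat_lit 0) (nat_lit 10577385779) (nat_lit 228) (nat_lit 13912638638) (nat_lit 76) (nat_lit 2541951892) (nat_lit 134) (nat_lit 5) (nat_lit 137) (nat_lit 5) (nat_lit 135) (nat_lit 4) (nat_lit 447) (nat_lit 339) (nat_lit 234))))))))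
noncomputable def xc98 : XT := (XT.nd (nat_lit 2340) (nat_lit 1216) (nat_lit 0) (XT.nd (nat_lit 1170) (nat_lit 1140) (nat_lit 0) (XT.nd (nat_lit 546) (nat_lit 760) (nat_lit 0) (XT.nd (nat_lit 234) (nat_lit 380) (nat_lit 0) (XT.nd (nat_lit 78) (nat_lit 228) (nat_lit 0) (XT.lf (nat_lit 0) (nat_lit 4526866062) (nat_lit 76) (nat_lit 15157877852) (nat_lit 152) (nat_lit 7862118920) (nat_lit 133) (nat_lit 5) (nat_lit 134) (nat_lit 5) (nat_lit 135) (nat_lit 4) (nat_lit 448) (nat_lit 339) (nat_lit 233)) (XT.nd (nat_lit 78) (nat_lit 152) (nat_lit 0) (XT.lf (nat_lit 0) (nat_lit 1086772454) (nat_lit 152) (nat_lit 4324882025) (nat_lit 76) (nat_lit 22661718696) (nat_lit 132) (nat_lit 5) (nat_lit 134) (nat_lit 5) (nat_lit 133) (nat_lit 5) (nat_lit 449) (nat_lit 339) (nat_lit 232)) (XT.lf (nat_lit 0) (nat_lit 10314519847) (nat_lit 228) (nat_lit 13552629418) (nat_lit 76) (nat_lit 4741141976) (nat_lit 130) (nat_lit 5)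 (nat_lit 133) (nat_lit 5) (nat_lit 131) (nat_lit 4) (nat_lit 450) (nat_lit 339) (nat_lit 231)))) (XT.nd (nat_lit 156) (nat_lit 228) (nat_lit 0) (XT.nd (nat_lit 78) (nat_lit 76) (nat_lit 0) (XT.lf (nat_lit 0) (nat_lit 5966258780) (nat_lit 76) (nat_lit 13984674703) (nat_lit 152) (nat_lit 9204368351) (nat_lit 129) (nat_lit 5) (nat_lit 130) (nat_lit 5) (nat_lit 131) (nat_lit 4) (nat_lit 451) (nat_lit 339) (nat_lit 230)) (XT.lf (nat_lit 0) (nat_lit 269670857) (nat_lit 152) (nat_lit 3413466558) (nat_lit 76) (nat_lit 26032088897) (nat_lit 128) (nat_lit 5) (nat_lit 130) (nat_lit 5) (nat_lit 129) (nat_lit 5) (nat_lit 452) (nat_lit 339) (nat_lit 229))) (XT.nd (nat_lit 78) (nat_lit 76) (nat_lit 0) (XT.lf (nat_lit 0) (nat_lit 10054268339) (nat_lit 228) (nat_lit 13198064039) (nat_lit 76) (nat_lit 7030542102) (nat_lit 126) (nat_lit 5) (nat_lit 129) (nat_lit 5) (nat_lit 127) (nat_lit 4) (nat_lit 453) (nat_lit 339)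 (nat_lit 228)) (XT.lf (nat_lit 0) (nat_lit 7467135075) (nat_lit 76) (nat_lit 12785868254) (nat_lit 152) (nat_lit 10610930776) (nat_lit 125) (nat_lit 5) (nat_lit 126) (nat_lit 5) (nat_lit 127) (nat_lit 4) (nat_lit 454) (nat_lit 339) (nat_lit 227))))) (XT.nd (nat_lit 312) (nat_lit 456) (nat_lit 0) (XT.nd (nat_lit 156) (nat_lit 76) (nat_lit 0) (XT.nd (nat_lit 78) (nat_lit 228) (nat_lit 0) (XT.lf (nat_lit 0) (nat_lit 28980003545) (nat_lit 76) (nat_lit 1888757324) (nat_lit 152) (nat_lit 590332835) (nat_lit 125) (nat_lit 5) (nat_lit 126) (nat_lit 5) (nat_lit 127) (nat_lit 4) (nat_lit 455) (nat_lit 339) (nat_lit 226)) (XT.lf (nat_lit 0) (nat_lit 9797117340) (nat_lit 228) (nat_lit 12849346176) (nat_lit 76) (nat_lit 9415154832) (nat_lit 122) (nat_lit 5) (nat_lit 125) (nat_lit 5) (nat_lit 123) (nat_lit 4) (nat_lit 456) (nat_lit 339) (nat_lit 225))) (XT.nd (nat_lit 78) (nat_lit 0) (nat_lit 0) (XT.lf (nat_lit 0)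 (nat_lit 9033140930) (nat_lit 76) (nat_lit 11560260428) (nat_lit 152) (nat_lit 12085369765) (nat_lit 121) (nat_lit 5) (nat_lit 122) (nat_lit 5) (nat_lit 123) (nat_lit 4) (nat_lit 457) (nat_lit 339) (nat_lit 224)) (XT.lf (nat_lit 0) (nat_lit 31793852559) (nat_lit 76) (nat_lit 27968345) (nat_lit 152) (nat_lit 1489370167) (nat_lit 121) (nat_lit 5) (nat_lit 122) (nat_lit 5) (nat_lit 123) (nat_lit 4) (nat_lit 458) (nat_lit 339) (nat_lit 223)))) (XT.nd (nat_lit 156) (nat_lit 152) (nat_lit 0) (XT.nd (nat_lit 78) (nat_lit 76) (nat_lit 0) (XT.lf (nat_lit 0) (nat_lit 9543476082) (nat_lit 228) (nat_lit 12506805049) (nat_lit 76) (nat_lit 11900498477) (nat_lit 118) (nat_lit 5) (nat_lit 121) (nat_lit 5) (nat_lit 119) (nat_lit 4) (nat_lit 459) (nat_lit 339) (nat_lit 222)) (XT.lf (nat_lit 0) (nat_lit 10668243215) (nat_lit 76) (nat_lit 10306380493) (nat_lit 152) (nat_lit 13631572181) (nat_lit 117) (nat_lit 5) (nat_lit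 118) (nat_lit 5) (nat_lit 119) (nat_lit 4) (nat_lit 460) (nat_lit 339) (nat_lit 221))) (XT.nd (nat_lit 78) (nat_lit 152) (nat_lit 0) (XT.lf (nat_lit 0) (nat_lit 32872440653) (nat_lit 152) (nat_lit 541948549) (nat_lit 0) (nat_lit 1863173410) (nat_lit 117) (nat_lit 5) (nat_lit 119) (nat_lit 4) (nat_lit 117) (nat_lit 4) (nat_lit 461) (nat_lit 339) (nat_lit 220)) (XT.lf (nat_lit 0) (nat_lit 9293686171) (nat_lit 152) (nat_lit 12170704585) (nat_lit 76) (nat_lit 14492610405) (nat_lit 115) (nat_lit 5) (nat_lit 117) (nat_lit 5) (nat_lit 116) (nat_lit 4) (nat_lit 462) (nat_lit 339) (nat_lit 219)))))) (XT.nd (nat_lit 546) (nat_lit 608) (nat_lit 0) (XT.nd (nat_lit 234) (nat_lit 304) (nat_lit 0) (XT.nd (nat_lit 78) (nat_lit 152) (nat_lit 0) (XT.lf (nat_lit 0) (nat_lit 12376735654) (nat_lit 76) (nat_lit 9022495364) (nat_lit 152) (nat_lit 15253754068) (nat_lit 114) (nat_lit 5) (nat_lit 115) (nat_lit 5) (nat_lit 116)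 (nat_lit 4) (nat_lit 463) (nat_lit 339) (nat_lit 218)) (XT.nd (nat_lit 78) (nat_lit 76) (nat_lit 0) (XT.lf (nat_lit 0) (nat_lit 475752073) (nat_lit 76) (nat_lit 33536982203) (nat_lit 76) (nat_lit 3352770487) (nat_lit 113) (nat_lit 4) (nat_lit 114) (nat_lit 5) (nat_lit 114) (nat_lit 4) (nat_lit 464) (nat_lit 339) (nat_lit 217)) (XT.lf (nat_lit 0) (nat_lit 9048029771) (nat_lit 152) (nat_lit 11841251533) (nat_lit 76) (nat_lit 17198053833) (nat_lit 112) (nat_lit 5) (nat_lit 114) (nat_lit 5) (nat_lit 113) (nat_lit 4) (nat_lit 465) (nat_lit 339) (nat_lit 216)))) (XT.nd (nat_lit 156) (nat_lit 152) (nat_lit 0) (XT.nd (nat_lit 78) (nat_lit 76) (nat_lit 0) (XT.lf (nat_lit 0) (nat_lit 14163246731) (nat_lit 76) (nat_lit 7706617401) (nat_lit 152) (nat_lit 16956468493) (nat_lit 111) (nat_lit 5) (nat_lit 112) (nat_lit 5) (nat_lit 113) (nat_lit 4) (nat_lit 466) (nat_lit 339) (nat_lit 215)) (XT.lf (nat_lit 0) (nat_lit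 1540471068) (nat_lit 76) (nat_lit 33708167588) (nat_lit 76) (nat_lit 4333692829) (nat_lit 110) (nat_lit 4) (nat_lit 111) (nat_lit 5) (nat_lit 111) (nat_lit 4) (nat_lit 467) (nat_lit 339) (nat_lit 214))) (XT.nd (nat_lit 78) (nat_lit 76) (nat_lit 0) (XT.lf (nat_lit 0) (nat_lit 8806736854) (nat_lit 152) (nat_lit 11518602642) (nat_lit 76) (nat_lit 20023927915) (nat_lit 109) (nat_lit 5) (nat_lit 111) (nat_lit 5) (nat_lit 110) (nat_lit 4) (nat_lit 468) (nat_lit 339) (nat_lit 213)) (XT.lf (nat_lit 0) (nat_lit 16032749499) (nat_lit 76) (nat_lit 6356509906) (nat_lit 152) (nat_lit 18744615287) (nat_lit 108) (nat_lit 5) (nat_lit 109) (nat_lit 5) (nat_lit 110) (nat_lit 4) (nat_lit 469) (nat_lit 339) (nat_lit 212))))) (XT.nd (nat_lit 312) (nat_lit 304) (nat_lit 0) (XT.nd (nat_lit 156) (nat_lit 152) (nat_lit 0) (XT.nd (nat_lit 78) (nat_lit 76) (nat_lit 0) (XT.lf (nat_lit 0) (nat_lit 2643892549) (nat_lit 76) (nat_lit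 33936340057) (nat_lit 76) (nat_lit 5355758337) (nat_lit 107) (nat_lit 4) (nat_lit 108) (nat_lit 5) (nat_lit 108) (nat_lit 4) (nat_lit 470) (nat_lit 339) (nat_lit 211)) (XT.lf (nat_lit 0) (nat_lit 8569991622) (nat_lit 152) (nat_lit 11202871028) (nat_lit 76) (nat_lit 22977881029) (nat_lit 106) (nat_lit 5) (nat_lit 108) (nat_lit 5) (nat_lit 107) (nat_lit 4) (nat_lit 471) (nat_lit 339) (nat_lit 210))) (XT.nd (nat_lit 78) (nat_lit 76) (nat_lit 0) (XT.lf (nat_lit 0) (nat_lit 17990573224) (nat_lit 76) (nat_lit 4969690474) (nat_lit 152) (nat_lit 20623452630) (nat_lit 105) (nat_lit 5) (nat_lit 106) (nat_lit 5) (nat_lit 107) (nat_lit 4) (nat_lit 472) (nat_lit 339) (nat_lit 209)) (XT.lf (nat_lit 0) (nat_lit 3788685602) (nat_lit 76) (nat_lit 34224499315) (nat_lit 76) (nat_lit 6421565007) (nat_lit 104) (nat_lit 4) (nat_lit 105) (nat_lit 5) (nat_lit 105) (nat_lit 4) (nat_lit 473) (nat_lit 339) (nat_lit 208)))) (XT.nd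 (nat_lit 156) (nat_lit 152) (nat_lit 0) (XT.nd (nat_lit 78) (nat_lit 76) (nat_lit 0) (XT.lf (nat_lit 0) (nat_lit 8337938201) (nat_lit 152) (nat_lit 10894131799) (nat_lit 76) (nat_lit 26068127139) (nat_lit 103) (nat_lit 5) (nat_lit 105) (nat_lit 5) (nat_lit 104) (nat_lit 4) (nat_lit 474) (nat_lit 339) (nat_lit 207)) (XT.lf (nat_lit 0) (nat_lit 20042416859) (nat_lit 76) (nat_lit 3543432365) (nat_lit 152) (nat_lit 22598610456) (nat_lit 102) (nat_lit 5) (nat_lit 103) (nat_lit 5) (nat_lit 104) (nat_lit 4) (nat_lit 475) (nat_lit 339) (nat_lit 206))) (XT.nd (nat_lit 78) (nat_lit 76) (nat_lit 0) (XT.lf (nat_lit 0) (nat_lit 4977722861) (nat_lit 76) (nat_lit 34575742736) (nat_lit 76) (nat_lit 7533916459) (nat_lit 101) (nat_lit 4) (nat_lit 102) (nat_lit 5) (nat_lit 102) (nat_lit 4) (nat_lit 476) (nat_lit 339) (nat_lit 205)) (XT.lf (nat_lit 0) (nat_lit 8110685674) (nat_lit 152) (nat_lit 10592427031) (nat_lit 76)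 (nat_lit 29303465187) (nat_lit 100) (nat_lit 5) (nat_lit 102) (nat_lit 5) (nat_lit 101) (nat_lit 4) (nat_lit 477) (nat_lit 339) (nat_lit 204))))))) (XT.nd (nat_lit 1170) (nat_lit 76) (nat_lit 0) (XT.nd (nat_lit 546) (nat_lit 608) (nat_lit 0) (XT.nd (nat_lit 234) (nat_lit 304) (nat_lit 0) (XT.nd (nat_lit 78) (nat_lit 152) (nat_lit 0) (XT.lf (nat_lit 0) (nat_lit 22194364314) (nat_lit 76) (nat_lit 2074764022) (nat_lit 152) (nat_lit 24676105671) (nat_lit 99) (nat_lit 5) (nat_lit 100) (nat_lit 5) (nat_lit 101) (nat_lit 4) (nat_lit 478) (nat_lit 339) (nat_lit 203)) (XT.nd (nat_lit 78) (nat_lit 76) (nat_lit 0) (XT.lf (nat_lit 0) (nat_lit 6214086129) (nat_lit 76) (nat_lit 34993284789) (nat_lit 76) (nat_lit 8695827486) (nat_lit 98) (nat_lit 4) (nat_lit 99) (nat_lit 5) (nat_lit 99) (nat_lit 4) (nat_lit 479) (nat_lit 339) (nat_lit 202)) (XT.lf (nat_lit 0) (nat_lit 7888312547) (nat_lit 152) (nat_lit 10297770175)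 (nat_lit 76) (nat_lit 32693301453) (nat_lit 97) (nat_lit 5) (nat_lit 99) (nat_lit 5) (nat_lit 98) (nat_lit 4) (nat_lit 480) (nat_lit 339) (nat_lit 201)))) (XT.nd (nat_lit 156) (nat_lit 152) (nat_lit 0) (XT.nd (nat_lit 78) (nat_lit 76) (nat_lit 0) (XT.lf (nat_lit 0) (nat_lit 24452901535) (nat_lit 76) (nat_lit 560466827) (nat_lit 152) (nat_lit 26862359163) (nat_lit 96) (nat_lit 5) (nat_lit 97) (nat_lit 5) (nat_lit 98) (nat_lit 4) (nat_lit 481) (nat_lit 339) (nat_lit 200)) (XT.lf (nat_lit 0) (nat_lit 7501073154) (nat_lit 76) (nat_lit 35480476040) (nat_lit 76) (nat_lit 9910530782) (nat_lit 95) (nat_lit 4) (nat_lit 96) (nat_lit 5) (nat_lit 96) (nat_lit 4) (nat_lit 482) (nat_lit 339) (nat_lit 199))) (XT.nd (nat_lit 78) (nat_lit 76) (nat_lit 0) (XT.lf (nat_lit 0) (nat_lit 7670870688) (nat_lit 152) (nat_lit 10010149939) (nat_lit 76) (nat_lit 36247674869) (nat_lit 94) (nat_lit 5) (nat_lit 96) (nat_lit 5) (nat_lit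 95) (nat_lit 4) (nat_lit 483) (nat_lit 339) (nat_lit 198)) (XT.lf (nat_lit 0) (nat_lit 25831647359) (nat_lit 152) (nat_lit 28170926610) (nat_lit 0) (nat_lit 983358040) (nat_lit 93) (nat_lit 5) (nat_lit 95) (nat_lit 4) (nat_lit 93) (nat_lit 4) (nat_lit 484) (nat_lit 339) (nat_lit 197))))) (XT.nd (nat_lit 312) (nat_lit 304) (nat_lit 0) (XT.nd (nat_lit 156) (nat_lit 152) (nat_lit 0) (XT.nd (nat_lit 78) (nat_lit 76) (nat_lit 0) (XT.lf (nat_lit 0) (nat_lit 8842205547) (nat_lit 76) (nat_lit 36040821870) (nat_lit 76) (nat_lit 11181484797) (nat_lit 92) (nat_lit 4) (nat_lit 93) (nat_lit 5) (nat_lit 93) (nat_lit 4) (nat_lit 485) (nat_lit 339) (nat_lit 196)) (XT.lf (nat_lit 0) (nat_lit 7458388826) (nat_lit 152) (nat_lit 9729533729) (nat_lit 76) (nat_lit 39977285286) (nat_lit 91) (nat_lit 5) (nat_lit 93) (nat_lit 5) (nat_lit 92) (nat_lit 4) (nat_lit 486) (nat_lit 339) (nat_lit 195))) (XT.nd (nat_lit 78) (nat_lit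 76) (nat_lit 0) (XT.lf (nat_lit 0) (nat_lit 26723842375) (nat_lit 152) (nat_lit 28994987278) (nat_lit 0) (nat_lit 2568039837) (nat_lit 90) (nat_lit 5) (nat_lit 92) (nat_lit 4) (nat_lit 90) (nat_lit 4) (nat_lit 487) (nat_lit 339) (nat_lit 194)) (XT.lf (nat_lit 0) (nat_lit 10241237826) (nat_lit 76) (nat_lit 36678001053) (nat_lit 76) (nat_lit 12512382729) (nat_lit 89) (nat_lit 4) (nat_lit 90) (nat_lit 5) (nat_lit 90) (nat_lit 4) (nat_lit 488) (nat_lit 339) (nat_lit 193)))) (XT.nd (nat_lit 156) (nat_lit 152) (nat_lit 0) (XT.nd (nat_lit 78) (nat_lit 76) (nat_lit 0) (XT.lf (nat_lit 0) (nat_lit 7250875631) (nat_lit 152) (nat_lit 9455870682) (nat_lit 76) (nat_lit 43893524707) (nat_lit 88) (nat_lit 5) (nat_lit 90) (nat_lit 5) (nat_lit 89) (nat_lit 4) (nat_lit 489) (nat_lit 339) (nat_lit 192)) (XT.lf (nat_lit 0) (nat_lit 27688427455) (nat_lit 152) (nat_lit 29893422507) (nat_lit 0) (nat_lit 4208426937) (nat_lit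 87) (nat_lit 5) (nat_lit 89) (nat_lit 4) (nat_lit 87) (nat_lit 4) (nat_lit 490) (nat_lit 339) (nat_lit 191))) (XT.nd (nat_lit 78) (nat_lit 76) (nat_lit 0) (XT.lf (nat_lit 0) (nat_lit 11702167583) (nat_lit 76) (nat_lit 37395884352) (nat_lit 76) (nat_lit 13907162635) (nat_lit 86) (nat_lit 4) (nat_lit 87) (nat_lit 5) (nat_lit 87) (nat_lit 4) (nat_lit 491) (nat_lit 339) (nat_lit 190)) (XT.lf (nat_lit 0) (nat_lit 7048322443) (nat_lit 152) (nat_lit 9189094338) (nat_lit 76) (nat_lit 48008511532) (nat_lit 85) (nat_lit 5) (nat_lit 87) (nat_lit 5) (nat_lit 86) (nat_lit 4) (nat_lit 492) (nat_lit 339) (nat_lit 189)))))) (XT.nd (nat_lit 41730) (nat_lit 0) (nat_lit 30324) (XT.nd (nat_lit 41418) (nat_lit 0) (nat_lit 32300) (XT.nd (nat_lit 41262) (nat_lit 0) (nat_lit 32832) (XT.nd (nat_lit 41184) (nat_lit 0) (nat_lit 32984) (XT.lf (nat_lit 0) (nat_lit 28729483558) (nat_lit 152) (nat_lit 30870255453) (nat_lit 0) (nat_lit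 5908697668) (nat_lit 84) (nat_lit 5) (nat_lit 86) (nat_lit 4) (nat_lit 84) (nat_lit 4) (nat_lit 493) (nat_lit 339) (nat_lit 188)) (XT.lf (nat_lit 0) (nat_lit 1073741823) (nat_lit 0) (nat_lit 0) (nat_lit 0) (nat_lit 0) (nat_lit 518) (nat_lit 0) (nat_lit 1) (nat_lit 0) (nat_lit 1) (nat_lit 0) (nat_lit 340) (nat_lit 340) (nat_lit 340))) (XT.nd (nat_lit 78) (nat_lit 76) (nat_lit 0) (XT.lf (nat_lit 0) (nat_lit 3190261082) (nat_lit 76) (nat_lit 3190261082) (nat_lit 0) (nat_lit 62857711) (nat_lit 517) (nat_lit 5) (nat_lit 518) (nat_lit 0) (nat_lit 517) (nat_lit 4) (nat_lit 341) (nat_lit 340) (nat_lit 339)) (XT.lf (nat_lit 0) (nat_lit 94769520) (nat_lit 76) (nat_lit 6258486843) (nat_lit 76) (nat_lit 94769520) (nat_lit 516) (nat_lit 4) (nat_lit 517) (nat_lit 5) (nat_lit 517) (nat_lit 4) (nat_lit 342) (nat_lit 340) (nat_lit 338)))) (XT.nd (nat_lit 156) (nat_lit 304) (nat_lit 0) (XT.nd (nat_lit 78) (nat_lit 152)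 (nat_lit 0) (XT.lf (nat_lit 0) (nat_lit 3007127045) (nat_lit 152) (nat_lit 3007127045) (nat_lit 76) (nat_lit 440333572) (nat_lit 515) (nat_lit 5) (nat_lit 517) (nat_lit 5) (nat_lit 516) (nat_lit 4) (nat_lit 343) (nat_lit 340) (nat_lit 337)) (XT.lf (nat_lit 0) (nat_lit 379492195) (nat_lit 152) (nat_lit 5705780835) (nat_lit 228) (nat_lit 379492195) (nat_lit 513) (nat_lit 5) (nat_lit 515) (nat_lit 5) (nat_lit 516) (nat_lit 4) (nat_lit 344) (nat_lit 340) (nat_lit 336))) (XT.nd (nat_lit 78) (nat_lit 228) (nat_lit 0) (XT.lf (nat_lit 0) (nat_lit 2640048985) (nat_lit 228) (nat_lit 2640048985) (nat_lit 76) (nat_lit 1196934557) (nat_lit 512) (nat_lit 5) (nat_lit 515) (nat_lit 5) (nat_lit 513) (nat_lit 5) (nat_lit 345) (nat_lit 340) (nat_lit 335)) (XT.lf (nat_lit 0) (nat_lit 855411887) (nat_lit 228) (nat_lit 4781888804) (nat_lit 304) (nat_lit 855411887) (nat_lit 509) (nat_lit 5) (nat_lit 512) (nat_lit 5) (nat_lit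 513) (nat_lit 5) (nat_lit 346) (nat_lit 340) (nat_lit 334))))) (XT.nd (nat_lit 312) (nat_lit 1140) (nat_lit 0) (XT.nd (nat_lit 156) (nat_lit 456) (nat_lit 0) (XT.nd (nat_lit 78) (nat_lit 304) (nat_lit 0) (XT.lf (nat_lit 0) (nat_lit 2087403953) (nat_lit 304) (nat_lit 2087403953) (nat_lit 76) (nat_lit 2335965244) (nat_lit 508) (nat_lit 5) (nat_lit 512) (nat_lit 5) (nat_lit 509) (nat_lit 5) (nat_lit 347) (nat_lit 340) (nat_lit 333)) (XT.lf (nat_lit 0) (nat_lit 1524606770) (nat_lit 304) (nat_lit 3482727238) (nat_lit 380) (nat_lit 1524606770) (nat_lit 504) (nat_lit 5) (nat_lit 508) (nat_lit 5) (nat_lit 509) (nat_lit 5) (nat_lit 348) (nat_lit 340) (nat_lit 332))) (XT.nd (nat_lit 78) (nat_lit 380) (nat_lit 0) (XT.lf (nat_lit 0) (nat_lit 1346750063) (nat_lit 380) (nat_lit 1346750063) (nat_lit 76) (nat_lit 3862397658) (nat_lit 503) (nat_lit 5) (nat_lit 508) (nat_lit 5) (nat_lit 504) (nat_lit 5) (nat_lit 349)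 (nat_lit 340) (nat_lit 331)) (XT.lf (nat_lit 0) (nat_lit 2389996963) (nat_lit 380) (nat_lit 1802558201) (nat_lit 456) (nat_lit 2389996963) (nat_lit 498) (nat_lit 5) (nat_lit 503) (nat_lit 5) (nat_lit 504) (nat_lit 5) (nat_lit 350) (nat_lit 340) (nat_lit 330)))) (XT.nd (nat_lit 156) (nat_lit 608) (nat_lit 0) (XT.nd (nat_lit 78) (nat_lit 456) (nat_lit 0) (XT.lf (nat_lit 0) (nat_lit 414817510) (nat_lit 456) (nat_lit 414817510) (nat_lit 76) (nat_lit 5782889515) (nat_lit 497) (nat_lit 5) (nat_lit 503) (nat_lit 5) (nat_lit 498) (nat_lit 5) (nat_lit 351) (nat_lit 340) (nat_lit 329)) (XT.lf (nat_lit 0) (nat_lit 3191880731) (nat_lit 532) (nat_lit 3191880731) (nat_lit 76) (nat_lit 260840527) (nat_lit 491) (nat_lit 5) (nat_lit 498) (nat_lit 5) (nat_lit 492) (nat_lit 5) (nat_lit 352) (nat_lit 340) (nat_lit 328))) (XT.nd (nat_lit 78) (nat_lit 76) (nat_lit 0) (XT.lf (nat_lit 0) (nat_lit 705518125) (nat_lit 532) (nat_lit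 5268939464) (nat_lit 608) (nat_lit 705518125) (nat_lit 484) (nat_lit 5) (nat_lit 491) (nat_lit 5) (nat_lit 492) (nat_lit 5) (nat_lit 353) (nat_lit 340) (nat_lit 327)) (XT.lf (nat_lit 0) (nat_lit 2019425135) (nat_lit 608) (nat_lit 2019425135) (nat_lit 76) (nat_lit 2678844647) (nat_lit 483) (nat_lit 5) (nat_lit 491) (nat_lit 5) (nat_lit 484) (nat_lit 5) (nat_lit 354) (nat_lit 340) (nat_lit 326))))))))
noncomputable def xc99 : XT := (XT.nd (nat_lit 2340) (nat_lit 7220) (nat_lit 0) (XT.nd (nat_lit 1170) (nat_lit 5700) (nat_lit 0) (XT.nd (nat_lit 546) (nat_lit 5472) (nat_lit 0) (XT.nd (nat_lit 234) (nat_lit 2584) (nat_lit 0) (XT.nd (nat_lit 78) (nat_lit 760) (nat_lit 0) (XT.lf (nat_lit 0) (nat_lit 2020175886) (nat_lit 608) (nat_lit 2718191441) (nat_lit 684) (nat_lit 2020175886) (nat_lit 475) (nat_lit 5) (nat_lit 483) (nat_lit 5) (nat_lit 484) (nat_lit 5) (nat_lit 355) (nat_lit 340) (nat_lit 325)) (XT.nd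 (nat_lit 78) (nat_lit 684) (nat_lit 0) (XT.lf (nat_lit 0) (nat_lit 652635645) (nat_lit 684) (nat_lit 652635645) (nat_lit 76) (nat_lit 5497269341) (nat_lit 474) (nat_lit 5) (nat_lit 483) (nat_lit 5) (nat_lit 475) (nat_lit 5) (nat_lit 356) (nat_lit 340) (nat_lit 324)) (XT.lf (nat_lit 0) (nat_lit 3312110239) (nat_lit 760) (nat_lit 3312110239) (nat_lit 76) (nat_lit 224624973) (nat_lit 465) (nat_lit 5) (nat_lit 475) (nat_lit 5) (nat_lit 466) (nat_lit 5) (nat_lit 357) (nat_lit 340) (nat_lit 323)))) (XT.nd (nat_lit 156) (nat_lit 1748) (nat_lit 0) (XT.nd (nat_lit 78) (nat_lit 76) (nat_lit 0) (XT.lf (nat_lit 0) (nat_lit 905602171) (nat_lit 760) (nat_lit 5087095226) (nat_lit 836) (nat_lit 905602171) (nat_lit 455) (nat_lit 5) (nat_lit 465) (nat_lit 5) (nat_lit 466) (nat_lit 5) (nat_lit 358) (nat_lit 340) (nat_lit 322)) (XT.lf (nat_lit 0) (nat_lit 1717118357) (nat_lit 836) (nat_lit 1717118357) (nat_lit 76) (nat_lit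 3516044271) (nat_lit 454) (nat_lit 5) (nat_lit 465) (nat_lit 5) (nat_lit 455) (nat_lit 5) (nat_lit 359) (nat_lit 340) (nat_lit 321))) (XT.nd (nat_lit 78) (nat_lit 912) (nat_lit 0) (XT.lf (nat_lit 0) (nat_lit 2662781747) (nat_lit 836) (nat_lit 1679723759) (nat_lit 912) (nat_lit 2662781747) (nat_lit 443) (nat_lit 5) (nat_lit 454) (nat_lit 5) (nat_lit 455) (nat_lit 5) (nat_lit 360) (nat_lit 340) (nat_lit 320)) (XT.lf (nat_lit 0) (nat_lit 79121920) (nat_lit 912) (nat_lit 6905559066) (nat_lit 988) (nat_lit 79121920) (nat_lit 431) (nat_lit 5) (nat_lit 443) (nat_lit 5) (nat_lit 444) (nat_lit 5) (nat_lit 361) (nat_lit 340) (nat_lit 319))))) (XT.nd (nat_lit 312) (nat_lit 3268) (nat_lit 0) (XT.nd (nat_lit 156) (nat_lit 1140) (nat_lit 0) (XT.nd (nat_lit 78) (nat_lit 988) (nat_lit 0) (XT.lf (nat_lit 0) (nat_lit 2512036249) (nat_lit 988) (nat_lit 2512036249) (nat_lit 76) (nat_lit 2099845719) (nat_lit 430) (nat_lit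 5) (nat_lit 443) (nat_lit 5) (nat_lit 431) (nat_lit 5) (nat_lit 362) (nat_lit 340) (nat_lit 318)) (XT.lf (nat_lit 0) (nat_lit 2066555929) (nat_lit 988) (nat_lit 3054451567) (nat_lit 1064) (nat_lit 2066555929) (nat_lit 417) (nat_lit 5) (nat_lit 430) (nat_lit 5) (nat_lit 431) (nat_lit 5) (nat_lit 363) (nat_lit 340) (nat_lit 317))) (XT.nd (nat_lit 78) (nat_lit 1064) (nat_lit 0) (XT.lf (nat_lit 0) (nat_lit 492593111) (nat_lit 1064) (nat_lit 492593111) (nat_lit 76) (nat_lit 6269322806) (nat_lit 416) (nat_lit 5) (nat_lit 430) (nat_lit 5) (nat_lit 417) (nat_lit 5) (nat_lit 364) (nat_lit 340) (nat_lit 316)) (XT.lf (nat_lit 0) (nat_lit 3064673114) (nat_lit 1140) (nat_lit 3064673114) (nat_lit 76) (nat_lit 1194172177) (nat_lit 402) (nat_lit 5) (nat_lit 417) (nat_lit 5) (nat_lit 403) (nat_lit 5) (nat_lit 365) (nat_lit 340) (nat_lit 315)))) (XT.nd (nat_lit 156) (nat_lit 2052) (nat_lit 0) (XT.nd (nat_lit 78) (nat_lit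 76) (nat_lit 0) (XT.lf (nat_lit 0) (nat_lit 1724040556) (nat_lit 1140) (nat_lit 3947779804) (nat_lit 1216) (nat_lit 1724040556) (nat_lit 387) (nat_lit 5) (nat_lit 402) (nat_lit 5) (nat_lit 403) (nat_lit 5) (nat_lit 366) (nat_lit 340) (nat_lit 314)) (XT.lf (nat_lit 0) (nat_lit 828088507) (nat_lit 1216) (nat_lit 828088507) (nat_lit 76) (nat_lit 5815183404) (nat_lit 386) (nat_lit 5) (nat_lit 402) (nat_lit 5) (nat_lit 387) (nat_lit 5) (nat_lit 367) (nat_lit 340) (nat_lit 313))) (XT.nd (nat_lit 78) (nat_lit 836) (nat_lit 0) (XT.lf (nat_lit 0) (nat_lit 3398914444) (nat_lit 1292) (nat_lit 3398914444) (nat_lit 76) (nat_lit 751480389) (nat_lit 370) (nat_lit 5) (nat_lit 387) (nat_lit 5) (nat_lit 371) (nat_lit 5) (nat_lit 368) (nat_lit 340) (nat_lit 312)) (XT.lf (nat_lit 0) (nat_lit 1612361550) (nat_lit 836) (nat_lit 4405736515) (nat_lit 912) (nat_lit 1612361550) (nat_lit 359) (nat_lit 5) (nat_lit 370) (nat_lit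 5) (nat_lit 371) (nat_lit 5) (nat_lit 369) (nat_lit 340) (nat_lit 311)))))) (XT.nd (nat_lit 546) (nat_lit 3116) (nat_lit 0) (XT.nd (nat_lit 234) (nat_lit 1292) (nat_lit 0) (XT.nd (nat_lit 78) (nat_lit 1216) (nat_lit 0) (XT.lf (nat_lit 0) (nat_lit 948507459) (nat_lit 912) (nat_lit 948507459) (nat_lit 76) (nat_lit 5817753333) (nat_lit 358) (nat_lit 5) (nat_lit 370) (nat_lit 5) (nat_lit 359) (nat_lit 5) (nat_lit 370) (nat_lit 340) (nat_lit 310)) (XT.nd (nat_lit 78) (nat_lit 608) (nat_lit 0) (XT.lf (nat_lit 0) (nat_lit 3535610155) (nat_lit 684) (nat_lit 3535610155) (nat_lit 76) (nat_lit 730452482) (nat_lit 350) (nat_lit 5) (nat_lit 359) (nat_lit 5) (nat_lit 351) (nat_lit 5) (nat_lit 371) (nat_lit 340) (nat_lit 309)) (XT.lf (nat_lit 0) (nat_lit 1711699832) (nat_lit 608) (nat_lit 4468391835) (nat_lit 684) (nat_lit 1711699832) (nat_lit 342) (nat_lit 5) (nat_lit 350) (nat_lit 5) (nat_lit 351) (nat_lit 5) (nat_lit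 372) (nat_lit 340) (nat_lit 308)))) (XT.nd (nat_lit 156) (nat_lit 684) (nat_lit 0) (XT.nd (nat_lit 78) (nat_lit 532) (nat_lit 0) (XT.lf (nat_lit 0) (nat_lit 872881240) (nat_lit 684) (nat_lit 872881240) (nat_lit 76) (nat_lit 6239440397) (nat_lit 341) (nat_lit 5) (nat_lit 350) (nat_lit 5) (nat_lit 342) (nat_lit 5) (nat_lit 373) (nat_lit 340) (nat_lit 307)) (XT.lf (nat_lit 0) (nat_lit 3492895716) (nat_lit 608) (nat_lit 3492895716) (nat_lit 76) (nat_lit 1095347757) (nat_lit 334) (nat_lit 5) (nat_lit 342) (nat_lit 5) (nat_lit 335) (nat_lit 5) (nat_lit 374) (nat_lit 340) (nat_lit 306))) (XT.nd (nat_lit 78) (nat_lit 76) (nat_lit 0) (XT.lf (nat_lit 0) (nat_lit 2004976278) (nat_lit 608) (nat_lit 4170482585) (nat_lit 684) (nat_lit 2004976278) (nat_lit 326) (nat_lit 5) (nat_lit 334) (nat_lit 5) (nat_lit 335) (nat_lit 5) (nat_lit 375) (nat_lit 340) (nat_lit 305)) (XT.lf (nat_lit 0) (nat_lit 617646388) (nat_lit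 684) (nat_lit 617646388) (nat_lit 76) (nat_lit 7047988454) (nat_lit 325) (nat_lit 5) (nat_lit 334) (nat_lit 5) (nat_lit 326) (nat_lit 5) (nat_lit 376) (nat_lit 340) (nat_lit 304))))) (XT.nd (nat_lit 312) (nat_lit 1520) (nat_lit 0) (XT.nd (nat_lit 156) (nat_lit 532) (nat_lit 0) (XT.nd (nat_lit 78) (nat_lit 532) (nat_lit 0) (XT.lf (nat_lit 0) (nat_lit 3286476255) (nat_lit 608) (nat_lit 3286476255) (nat_lit 76) (nat_lit 1815429858) (nat_lit 318) (nat_lit 5) (nat_lit 326) (nat_lit 5) (nat_lit 319) (nat_lit 5) (nat_lit 377) (nat_lit 340) (nat_lit 303)) (XT.lf (nat_lit 0) (nat_lit 2477573528) (nat_lit 532) (nat_lit 3541964474) (nat_lit 608) (nat_lit 2477573528) (nat_lit 311) (nat_lit 5) (nat_lit 318) (nat_lit 5) (nat_lit 319) (nat_lit 5) (nat_lit 378) (nat_lit 340) (nat_lit 302))) (XT.nd (nat_lit 78) (nat_lit 456) (nat_lit 0) (XT.lf (nat_lit 0) (nat_lit 196910258) (nat_lit 608) (nat_lit 196910258) (nat_lit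 76) (nat_lit 8215942383) (nat_lit 310) (nat_lit 5) (nat_lit 318) (nat_lit 5) (nat_lit 311) (nat_lit 5) (nat_lit 379) (nat_lit 340) (nat_lit 301)) (XT.lf (nat_lit 0) (nat_lit 2929877706) (nat_lit 532) (nat_lit 2929877706) (nat_lit 76) (nat_lit 2864461109) (nat_lit 304) (nat_lit 5) (nat_lit 311) (nat_lit 5) (nat_lit 305) (nat_lit 5) (nat_lit 380) (nat_lit 340) (nat_lit 300)))) (XT.nd (nat_lit 156) (nat_lit 532) (nat_lit 0) (XT.nd (nat_lit 78) (nat_lit 456) (nat_lit 0) (XT.lf (nat_lit 0) (nat_lit 3117090607) (nat_lit 532) (nat_lit 2608499849) (nat_lit 608) (nat_lit 3117090607) (nat_lit 297) (nat_lit 5) (nat_lit 304) (nat_lit 5) (nat_lit 305) (nat_lit 5) (nat_lit 381) (nat_lit 340) (nat_lit 299)) (XT.lf (nat_lit 0) (nat_lit 373615473) (nat_lit 456) (nat_lit 8217878998) (nat_lit 532) (nat_lit 373615473) (nat_lit 291) (nat_lit 5) (nat_lit 297) (nat_lit 5) (nat_lit 298) (nat_lit 5) (nat_lit 382) (nat_lit 340)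 (nat_lit 298))) (XT.nd (nat_lit 78) (nat_lit 456) (nat_lit 0) (XT.lf (nat_lit 0) (nat_lit 2434668594) (nat_lit 532) (nat_lit 2434668594) (nat_lit 76) (nat_lit 4220256695) (nat_lit 290) (nat_lit 5) (nat_lit 297) (nat_lit 5) (nat_lit 291) (nat_lit 5) (nat_lit 383) (nat_lit 340) (nat_lit 297)) (XT.lf (nat_lit 0) (nat_lit 3913126840) (nat_lit 456) (nat_lit 1391887999) (nat_lit 532) (nat_lit 3913126840) (nat_lit 284) (nat_lit 5) (nat_lit 290) (nat_lit 5) (nat_lit 291) (nat_lit 5) (nat_lit 384) (nat_lit 340) (nat_lit 296))))))) (XT.nd (nat_lit 1170) (nat_lit 3192) (nat_lit 0) (XT.nd (nat_lit 546) (nat_lit 1900) (nat_lit 0) (XT.nd (nat_lit 234) (nat_lit 1216) (nat_lit 0) (XT.nd (nat_lit 78) (nat_lit 532) (nat_lit 0) (XT.lf (nat_lit 0) (nat_lit 1084169750) (nat_lit 380) (nat_lit 7182063552) (nat_lit 456) (nat_lit 1084169750) (nat_lit 279) (nat_lit 5) (nat_lit 284) (nat_lit 5) (nat_lit 285) (nat_lit 5) (nat_lit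 385) (nat_lit 340) (nat_lit 295)) (XT.nd (nat_lit 78) (nat_lit 456) (nat_lit 0) (XT.lf (nat_lit 0) (nat_lit 1810655649) (nat_lit 456) (nat_lit 1810655649) (nat_lit 76) (nat_lit 5864292252) (nat_lit 278) (nat_lit 5) (nat_lit 284) (nat_lit 5) (nat_lit 279) (nat_lit 5) (nat_lit 386) (nat_lit 340) (nat_lit 294)) (XT.lf (nat_lit 0) (nat_lit 4768396985) (nat_lit 532) (nat_lit 4768396985) (nat_lit 76) (nat_lit 87808204) (nat_lit 272) (nat_lit 5) (nat_lit 279) (nat_lit 5) (nat_lit 273) (nat_lit 5) (nat_lit 387) (nat_lit 340) (nat_lit 293)))) (XT.nd (nat_lit 156) (nat_lit 760) (nat_lit 0) (XT.nd (nat_lit 78) (nat_lit 76) (nat_lit 0) (XT.lf (nat_lit 0) (nat_lit 1928348008) (nat_lit 380) (nat_lit 5910359629) (nat_lit 456) (nat_lit 1928348008) (nat_lit 267) (nat_lit 5) (nat_lit 272) (nat_lit 5) (nat_lit 273) (nat_lit 5) (nat_lit 388) (nat_lit 340) (nat_lit 292)) (XT.lf (nat_lit 0) (nat_lit 1066056097) (nat_lit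 456) (nat_lit 1066056097) (nat_lit 76) (nat_lit 7781359085) (nat_lit 266) (nat_lit 5) (nat_lit 272) (nat_lit 5) (nat_lit 267) (nat_lit 5) (nat_lit 389) (nat_lit 340) (nat_lit 291))) (XT.nd (nat_lit 78) (nat_lit 380) (nat_lit 0) (XT.lf (nat_lit 0) (nat_lit 4138873751) (nat_lit 456) (nat_lit 4138873751) (nat_lit 76) (nat_lit 1785138921) (nat_lit 261) (nat_lit 5) (nat_lit 267) (nat_lit 5) (nat_lit 262) (nat_lit 5) (nat_lit 390) (nat_lit 340) (nat_lit 290)) (XT.lf (nat_lit 0) (nat_lit 2899347085) (nat_lit 380) (nat_lit 4417694873) (nat_lit 456) (nat_lit 2899347085) (nat_lit 256) (nat_lit 5) (nat_lit 261) (nat_lit 5) (nat_lit 262) (nat_lit 5) (nat_lit 391) (nat_lit 340) (nat_lit 289))))) (XT.nd (nat_lit 312) (nat_lit 760) (nat_lit 0) (XT.nd (nat_lit 156) (nat_lit 684) (nat_lit 0) (XT.nd (nat_lit 78) (nat_lit 380) (nat_lit 0) (XT.lf (nat_lit 0) (nat_lit 207649129) (nat_lit 456) (nat_lit 207649129) (nat_lit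 76) (nat_lit 9959261973) (nat_lit 255) (nat_lit 5) (nat_lit 261) (nat_lit 5) (nat_lit 256) (nat_lit 5) (nat_lit 392) (nat_lit 340) (nat_lit 288)) (XT.lf (nat_lit 0) (nat_lit 3409805181) (nat_lit 456) (nat_lit 3409805181) (nat_lit 76) (nat_lit 3715198282) (nat_lit 250) (nat_lit 5) (nat_lit 256) (nat_lit 5) (nat_lit 251) (nat_lit 5) (nat_lit 393) (nat_lit 340) (nat_lit 287))) (XT.nd (nat_lit 78) (nat_lit 380) (nat_lit 0) (XT.lf (nat_lit 0) (nat_lit 3991757316) (nat_lit 304) (nat_lit 2716347510) (nat_lit 380) (nat_lit 3991757316) (nat_lit 246) (nat_lit 5) (nat_lit 250) (nat_lit 5) (nat_lit 251) (nat_lit 5) (nat_lit 394) (nat_lit 340) (nat_lit 286)) (XT.lf (nat_lit 0) (nat_lit 751649143) (nat_lit 380) (nat_lit 9366194261) (nat_lit 456) (nat_lit 751649143) (nat_lit 241) (nat_lit 5) (nat_lit 246) (nat_lit 5) (nat_lit 247) (nat_lit 5) (nat_lit 395) (nat_lit 340) (nat_lit 285)))) (XT.nd (nat_lit 156) (nat_lit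 380) (nat_lit 0) (XT.nd (nat_lit 78) (nat_lit 304) (nat_lit 0) (XT.lf (nat_lit 0) (nat_lit 2586724968) (nat_lit 456) (nat_lit 2586724968) (nat_lit 76) (nat_lit 5868470732) (nat_lit 240) (nat_lit 5) (nat_lit 246) (nat_lit 5) (nat_lit 241) (nat_lit 5) (nat_lit 396) (nat_lit 340) (nat_lit 284)) (XT.lf (nat_lit 0) (nat_lit 5201441684) (nat_lit 304) (nat_lit 816190327) (nat_lit 380) (nat_lit 5201441684) (nat_lit 236) (nat_lit 5) (nat_lit 240) (nat_lit 5) (nat_lit 241) (nat_lit 5) (nat_lit 397) (nat_lit 340) (nat_lit 283))) (XT.nd (nat_lit 78) (nat_lit 76) (nat_lit 0) (XT.lf (nat_lit 0) (nat_lit 1811939786) (nat_lit 304) (nat_lit 7776551006) (nat_lit 380) (nat_lit 1811939786) (nat_lit 232) (nat_lit 5) (nat_lit 236) (nat_lit 5) (nat_lit 237) (nat_lit 5) (nat_lit 398) (nat_lit 340) (nat_lit 282)) (XT.lf (nat_lit 0) (nat_lit 1674071752) (nat_lit 380) (nat_lit 1674071752) (nat_lit 76) (nat_lit 8237772623) (nat_lit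 231) (nat_lit 5) (nat_lit 236) (nat_lit 5) (nat_lit 232) (nat_lit 5) (nat_lit 399) (nat_lit 340) (nat_lit 281)))))) (XT.nd (nat_lit 624) (nat_lit 1368) (nat_lit 0) (XT.nd (nat_lit 312) (nat_lit 912) (nat_lit 0) (XT.nd (nat_lit 156) (nat_lit 304) (nat_lit 0) (XT.nd (nat_lit 78) (nat_lit 304) (nat_lit 0) (XT.lf (nat_lit 0) (nat_lit 5262591711) (nat_lit 380) (nat_lit 5262591711) (nat_lit 76) (nat_lit 1250214233) (nat_lit 227) (nat_lit 5) (nat_lit 232) (nat_lit 5) (nat_lit 228) (nat_lit 5) (nat_lit 400) (nat_lit 340) (nat_lit 280)) (XT.lf (nat_lit 0) (nat_lit 2972092265) (nat_lit 304) (nat_lit 6025222666) (nat_lit 380) (nat_lit 2972092265) (nat_lit 223) (nat_lit 5) (nat_lit 227) (nat_lit 5) (nat_lit 228) (nat_lit 5) (nat_lit 401) (nat_lit 340) (nat_lit 279))) (XT.nd (nat_lit 78) (nat_lit 228) (nat_lit 0) (XT.lf (nat_lit 0) (nat_lit 675286172) (nat_lit 380) (nat_lit 675286172) (nat_lit 76) (nat_lit 10818061712)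 (nat_lit 222) (nat_lit 5) (nat_lit 227) (nat_lit 5) (nat_lit 223) (nat_lit 5) (nat_lit 402) (nat_lit 340) (nat_lit 278)) (XT.lf (nat_lit 0) (nat_lit 4444136902) (nat_lit 304) (nat_lit 4444136902) (nat_lit 76) (nat_lit 3482527509) (nat_lit 219) (nat_lit 5) (nat_lit 223) (nat_lit 5) (nat_lit 220) (nat_lit 5) (nat_lit 403) (nat_lit 340) (nat_lit 277)))) (XT.nd (nat_lit 156) (nat_lit 380) (nat_lit 0) (XT.nd (nat_lit 78) (nat_lit 228) (nat_lit 0) (XT.lf (nat_lit 0) (nat_lit 4229929898) (nat_lit 304) (nat_lit 4118502414) (nat_lit 380) (nat_lit 4229929898) (nat_lit 215) (nat_lit 5) (nat_lit 219) (nat_lit 5) (nat_lit 220) (nat_lit 5) (nat_lit 404) (nat_lit 340) (nat_lit 276)) (XT.lf (nat_lit 0) (nat_lit 403113325) (nat_lit 228) (nat_lit 11985364642) (nat_lit 304) (nat_lit 403113325) (nat_lit 212) (nat_lit 5) (nat_lit 215) (nat_lit 5) (nat_lit 216) (nat_lit 5) (nat_lit 405) (nat_lit 340) (nat_lit 275))) (XT.nd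 (nat_lit 78) (nat_lit 304) (nat_lit 0) (XT.lf (nat_lit 0) (nat_lit 3557320017) (nat_lit 304) (nat_lit 3557320017) (nat_lit 76) (nat_lit 5892920947) (nat_lit 211) (nat_lit 5) (nat_lit 215) (nat_lit 5) (nat_lit 212) (nat_lit 5) (nat_lit 406) (nat_lit 340) (nat_lit 274)) (XT.lf (nat_lit 0) (nat_lit 5584190255) (nat_lit 304) (nat_lit 2061007505) (nat_lit 380) (nat_lit 5584190255) (nat_lit 207) (nat_lit 5) (nat_lit 211) (nat_lit 5) (nat_lit 212) (nat_lit 5) (nat_lit 407) (nat_lit 340) (nat_lit 273))))) (XT.nd (nat_lit 312) (nat_lit 608) (nat_lit 0) (XT.nd (nat_lit 156) (nat_lit 456) (nat_lit 0) (XT.nd (nat_lit 78) (nat_lit 76) (nat_lit 0) (XT.lf (nat_lit 0) (nat_lit 1556007177) (nat_lit 228) (nat_lit 10344511306) (nat_lit 304) (nat_lit 1556007177) (nat_lit 204) (nat_lit 5) (nat_lit 207) (nat_lit 5) (nat_lit 208) (nat_lit 5) (nat_lit 408) (nat_lit 340) (nat_lit 272)) (XT.lf (nat_lit 0) (nat_lit 2604281428)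 (nat_lit 304) (nat_lit 2604281428) (nat_lit 76) (nat_lit 8479311031) (nat_lit 203) (nat_lit 5) (nat_lit 207) (nat_lit 5) (nat_lit 204) (nat_lit 5) (nat_lit 409) (nat_lit 340) (nat_lit 271))) (XT.nd (nat_lit 78) (nat_lit 228) (nat_lit 0) (XT.lf (nat_lit 0) (nat_lit 6891660832) (nat_lit 304) (nat_lit 6891660832) (nat_lit 76) (nat_lit 141372027) (nat_lit 200) (nat_lit 5) (nat_lit 204) (nat_lit 5) (nat_lit 201) (nat_lit 5) (nat_lit 410) (nat_lit 340) (nat_lit 270)) (XT.lf (nat_lit 0) (nat_lit 2789114168) (nat_lit 228) (nat_lit 8588297259) (nat_lit 304) (nat_lit 2789114168) (nat_lit 197) (nat_lit 5) (nat_lit 200) (nat_lit 5) (nat_lit 201) (nat_lit 5) (nat_lit 411) (nat_lit 340) (nat_lit 269)))) (XT.nd (nat_lit 156) (nat_lit 304) (nat_lit 0) (XT.nd (nat_lit 78) (nat_lit 228) (nat_lit 0) (XT.lf (nat_lit 0) (nat_lit 1586465467) (nat_lit 304) (nat_lit 1586465467) (nat_lit 76) (nat_lit 11241168781) (nat_lit 196)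 (nat_lit 5) (nat_lit 200) (nat_lit 5) (nat_lit 197) (nat_lit 5) (nat_lit 412) (nat_lit 340) (nat_lit 268)) (XT.lf (nat_lit 0) (nat_lit 6109684902) (nat_lit 304) (nat_lit 6109684902) (nat_lit 76) (nat_lit 2446729882) (nat_lit 193) (nat_lit 5) (nat_lit 197) (nat_lit 5) (nat_lit 194) (nat_lit 5) (nat_lit 413) (nat_lit 340) (nat_lit 267))) (XT.nd (nat_lit 78) (nat_lit 76) (nat_lit 0) (XT.lf (nat_lit 0) (nat_lit 4102247813) (nat_lit 228) (nat_lit 6719567596) (nat_lit 304) (nat_lit 4102247813) (nat_lit 190) (nat_lit 5) (nat_lit 193) (nat_lit 5) (nat_lit 194) (nat_lit 5) (nat_lit 414) (nat_lit 340) (nat_lit 266)) (XT.lf (nat_lit 0) (nat_lit 504673784) (nat_lit 304) (nat_lit 504673784) (nat_lit 76) (nat_lit 14179419945) (nat_lit 189) (nat_lit 5) (nat_lit 193) (nat_lit 5) (nat_lit 190) (nat_lit 5) (nat_lit 415) (nat_lit 340) (nat_lit 265))))))))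
noncomputable def xc100 : XT := (XT.nd (nat_lit 2340) (nat_lit 2736) (nat_lit 0) (XT.nd (nat_lit 1170) (nat_lit 1672) (nat_lit 0) (XT.nd (nat_lit 546) (nat_lit 1064) (nat_lit 0) (XT.nd (nat_lit 234) (nat_lit 532) (nat_lit 0) (XT.nd (nat_lit 78) (nat_lit 380) (nat_lit 0) (XT.lf (nat_lit 0) (nat_lit 5280912879) (nat_lit 304) (nat_lit 5280912879) (nat_lit 76) (nat_lit 4894961856) (nat_lit 186) (nat_lit 5) (nat_lit 190) (nat_lit 5) (nat_lit 187) (nat_lit 5) (nat_lit 416) (nat_lit 340) (nat_lit 264)) (XT.nd (nat_lit 78) (nat_lit 228) (nat_lit 0) (XT.lf (nat_lit 0) (nat_lit 5495891031) (nat_lit 152) (nat_lit 4740002620) (nat_lit 228) (nat_lit 5495891031) (nat_lit 184) (nat_lit 5) (nat_lit 186) (nat_lit 5) (nat_lit 187) (nat_lit 5) (nat_lit 417) (nat_lit 340) (nat_lit 263)) (XT.lf (nat_lit 0) (nat_lit 634605602) (nat_lit 228) (nat_lit 14744629133) (nat_lit 304) (nat_lit 634605602) (nat_lit 181) (nat_lit 5)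 (nat_lit 184) (nat_lit 5) (nat_lit 185) (nat_lit 5) (nat_lit 418) (nat_lit 340) (nat_lit 262)))) (XT.nd (nat_lit 156) (nat_lit 304) (nat_lit 0) (XT.nd (nat_lit 78) (nat_lit 152) (nat_lit 0) (XT.lf (nat_lit 0) (nat_lit 4406281667) (nat_lit 304) (nat_lit 4406281667) (nat_lit 76) (nat_lit 7486960781) (nat_lit 180) (nat_lit 5) (nat_lit 184) (nat_lit 5) (nat_lit 181) (nat_lit 5) (nat_lit 419) (nat_lit 340) (nat_lit 261)) (XT.lf (nat_lit 0) (nat_lit 6971157643) (nat_lit 152) (nat_lit 2650203023) (nat_lit 228) (nat_lit 6971157643) (nat_lit 178) (nat_lit 5) (nat_lit 180) (nat_lit 5) (nat_lit 181) (nat_lit 5) (nat_lit 420) (nat_lit 340) (nat_lit 260))) (XT.nd (nat_lit 78) (nat_lit 76) (nat_lit 0) (XT.lf (nat_lit 0) (nat_lit 1832432483) (nat_lit 228) (nat_lit 13227428300) (nat_lit 304) (nat_lit 1832432483) (nat_lit 175) (nat_lit 5) (nat_lit 178) (nat_lit 5) (nat_lit 179) (nat_lit 5) (nat_lit 421) (nat_lit 340)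 (nat_lit 259)) (XT.lf (nat_lit 0) (nat_lit 3486249977) (nat_lit 304) (nat_lit 3486249977) (nat_lit 76) (nat_lit 10224763952) (nat_lit 174) (nat_lit 5) (nat_lit 178) (nat_lit 5) (nat_lit 175) (nat_lit 5) (nat_lit 422) (nat_lit 340) (nat_lit 258))))) (XT.nd (nat_lit 312) (nat_lit 532) (nat_lit 0) (XT.nd (nat_lit 156) (nat_lit 228) (nat_lit 0) (XT.nd (nat_lit 78) (nat_lit 152) (nat_lit 0) (XT.lf (nat_lit 0) (nat_lit 8529760458) (nat_lit 152) (nat_lit 449762656) (nat_lit 228) (nat_lit 8529760458) (nat_lit 172) (nat_lit 5) (nat_lit 174) (nat_lit 5) (nat_lit 175) (nat_lit 5) (nat_lit 423) (nat_lit 340) (nat_lit 257)) (XT.lf (nat_lit 0) (nat_lit 3094623947) (nat_lit 152) (nat_lit 11638548589) (nat_lit 228) (nat_lit 3094623947) (nat_lit 170) (nat_lit 5) (nat_lit 172) (nat_lit 5) (nat_lit 173) (nat_lit 5) (nat_lit 424) (nat_lit 340) (nat_lit 256))) (XT.nd (nat_lit 78) (nat_lit 152) (nat_lit 0) (XT.lf (nat_lit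 0) (nat_lit 2520832179) (nat_lit 228) (nat_lit 2520832179) (nat_lit 76) (nat_lit 13111494878) (nat_lit 169) (nat_lit 5) (nat_lit 172) (nat_lit 5) (nat_lit 170) (nat_lit 5) (nat_lit 425) (nat_lit 340) (nat_lit 255)) (XT.lf (nat_lit 0) (nat_lit 8329220566) (nat_lit 228) (nat_lit 8329220566) (nat_lit 76) (nat_lit 1826322518) (nat_lit 167) (nat_lit 5) (nat_lit 170) (nat_lit 5) (nat_lit 168) (nat_lit 5) (nat_lit 426) (nat_lit 340) (nat_lit 254)))) (XT.nd (nat_lit 156) (nat_lit 304) (nat_lit 0) (XT.nd (nat_lit 78) (nat_lit 76) (nat_lit 0) (XT.lf (nat_lit 0) (nat_lit 4422541957) (nat_lit 152) (nat_lit 9978555187) (nat_lit 228) (nat_lit 4422541957) (nat_lit 165) (nat_lit 5) (nat_lit 167) (nat_lit 5) (nat_lit 168) (nat_lit 5) (nat_lit 427) (nat_lit 340) (nat_lit 253)) (XT.lf (nat_lit 0) (nat_lit 1509627099) (nat_lit 228) (nat_lit 1509627099) (nat_lit 76) (nat_lit 16151315937) (nat_lit 164) (nat_lit 5) (nat_lit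 167) (nat_lit 5) (nat_lit 165) (nat_lit 5) (nat_lit 428) (nat_lit 340) (nat_lit 252))) (XT.nd (nat_lit 78) (nat_lit 152) (nat_lit 0) (XT.lf (nat_lit 0) (nat_lit 7658562618) (nat_lit 228) (nat_lit 7658562618) (nat_lit 76) (nat_lit 4205639535) (nat_lit 162) (nat_lit 5) (nat_lit 165) (nat_lit 5) (nat_lit 163) (nat_lit 5) (nat_lit 429) (nat_lit 340) (nat_lit 251)) (XT.lf (nat_lit 0) (nat_lit 5818019030) (nat_lit 152) (nat_lit 8247286992) (nat_lit 228) (nat_lit 5818019030) (nat_lit 160) (nat_lit 5) (nat_lit 162) (nat_lit 5) (nat_lit 163) (nat_lit 5) (nat_lit 430) (nat_lit 340) (nat_lit 250)))))) (XT.nd (nat_lit 546) (nat_lit 836) (nat_lit 0) (XT.nd (nat_lit 234) (nat_lit 456) (nat_lit 0) (XT.nd (nat_lit 78) (nat_lit 304) (nat_lit 0) (XT.lf (nat_lit 0) (nat_lit 451842257) (nat_lit 228) (nat_lit 451842257) (nat_lit 76) (nat_lit 19349390987) (nat_lit 159) (nat_lit 5) (nat_lit 162) (nat_lit 5) (nat_lit 160)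 (nat_lit 5) (nat_lit 431) (nat_lit 340) (nat_lit 249)) (XT.nd (nat_lit 78) (nat_lit 152) (nat_lit 0) (XT.lf (nat_lit 0) (nat_lit 6963534383) (nat_lit 228) (nat_lit 6963534383) (nat_lit 76) (nat_lit 6700001431) (nat_lit 157) (nat_lit 5) (nat_lit 160) (nat_lit 5) (nat_lit 158) (nat_lit 5) (nat_lit 432) (nat_lit 340) (nat_lit 248)) (XT.lf (nat_lit 0) (nat_lit 7283340685) (nat_lit 152) (nat_lit 6443903361) (nat_lit 228) (nat_lit 7283340685) (nat_lit 155) (nat_lit 5) (nat_lit 157) (nat_lit 5) (nat_lit 158) (nat_lit 5) (nat_lit 433) (nat_lit 340) (nat_lit 247)))) (XT.nd (nat_lit 156) (nat_lit 228) (nat_lit 0) (XT.nd (nat_lit 78) (nat_lit 76) (nat_lit 0) (XT.lf (nat_lit 0) (nat_lit 647277360) (nat_lit 152) (nat_lit 20109172436) (nat_lit 228) (nat_lit 647277360) (nat_lit 153) (nat_lit 5) (nat_lit 155) (nat_lit 5) (nat_lit 156) (nat_lit 4) (nat_lit 434) (nat_lit 340) (nat_lit 246)) (XT.lf (nat_lit 0) (nat_lit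 6244160777) (nat_lit 228) (nat_lit 6244160777) (nat_lit 76) (nat_lit 9313246639) (nat_lit 152) (nat_lit 5) (nat_lit 155) (nat_lit 5) (nat_lit 153) (nat_lit 5) (nat_lit 435) (nat_lit 340) (nat_lit 245))) (XT.nd (nat_lit 78) (nat_lit 76) (nat_lit 0) (XT.lf (nat_lit 0) (nat_lit 8821232071) (nat_lit 152) (nat_lit 4566923367) (nat_lit 228) (nat_lit 8821232071) (nat_lit 150) (nat_lit 5) (nat_lit 152) (nat_lit 5) (nat_lit 153) (nat_lit 5) (nat_lit 436) (nat_lit 340) (nat_lit 244)) (XT.lf (nat_lit 0) (nat_lit 1790746241) (nat_lit 76) (nat_lit 19045262751) (nat_lit 152) (nat_lit 1790746241) (nat_lit 149) (nat_lit 5) (nat_lit 150) (nat_lit 5) (nat_lit 151) (nat_lit 4) (nat_lit 437) (nat_lit 340) (nat_lit 243))))) (XT.nd (nat_lit 312) (nat_lit 456) (nat_lit 0) (XT.nd (nat_lit 156) (nat_lit 152) (nat_lit 0) (XT.nd (nat_lit 78) (nat_lit 152) (nat_lit 0) (XT.lf (nat_lit 0) (nat_lit 5500202496) (nat_lit 152) (nat_lit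 5500202496) (nat_lit 76) (nat_lit 12049989839) (nat_lit 148) (nat_lit 5) (nat_lit 150) (nat_lit 5) (nat_lit 149) (nat_lit 5) (nat_lit 438) (nat_lit 340) (nat_lit 242)) (XT.lf (nat_lit 0) (nat_lit 10434848421) (nat_lit 152) (nat_lit 2614258293) (nat_lit 228) (nat_lit 10434848421) (nat_lit 146) (nat_lit 5) (nat_lit 148) (nat_lit 5) (nat_lit 149) (nat_lit 5) (nat_lit 439) (nat_lit 340) (nat_lit 241))) (XT.nd (nat_lit 78) (nat_lit 76) (nat_lit 0) (XT.lf (nat_lit 0) (nat_lit 2984836547) (nat_lit 76) (nat_lit 17957318835) (nat_lit 152) (nat_lit 2984836547) (nat_lit 145) (nat_lit 5) (nat_lit 146) (nat_lit 5) (nat_lit 147) (nat_lit 4) (nat_lit 440) (nat_lit 340) (nat_lit 240)) (XT.lf (nat_lit 0) (nat_lit 4731172399) (nat_lit 152) (nat_lit 4731172399) (nat_lit 76) (nat_lit 14915603225) (nat_lit 144) (nat_lit 5) (nat_lit 146) (nat_lit 5) (nat_lit 145) (nat_lit 5) (nat_lit 441) (nat_lit 340) (nat_lit 239)))) (XT.nd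 (nat_lit 156) (nat_lit 228) (nat_lit 0) (XT.nd (nat_lit 78) (nat_lit 76) (nat_lit 0) (XT.lf (nat_lit 0) (nat_lit 12127769067) (nat_lit 152) (nat_lit 583237952) (nat_lit 228) (nat_lit 12127769067) (nat_lit 142) (nat_lit 5) (nat_lit 144) (nat_lit 5) (nat_lit 145) (nat_lit 5) (nat_lit 442) (nat_lit 340) (nat_lit 238)) (XT.lf (nat_lit 0) (nat_lit 4231719595) (nat_lit 76) (nat_lit 16845577975) (nat_lit 152) (nat_lit 4231719595) (nat_lit 141) (nat_lit 5) (nat_lit 142) (nat_lit 5) (nat_lit 143) (nat_lit 4) (nat_lit 443) (nat_lit 340) (nat_lit 237))) (XT.nd (nat_lit 78) (nat_lit 152) (nat_lit 0) (XT.lf (nat_lit 0) (nat_lit 3936349180) (nat_lit 152) (nat_lit 3936349180) (nat_lit 76) (nat_lit 17916204153) (nat_lit 140) (nat_lit 5) (nat_lit 142) (nat_lit 5) (nat_lit 141) (nat_lit 5) (nat_lit 444) (nat_lit 340) (nat_lit 236)) (XT.lf (nat_lit 0) (nat_lit 12389327371) (nat_lit 228) (nat_lit 12389327371) (nat_lit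 76) (nat_lit 1499525114) (nat_lit 138) (nat_lit 5) (nat_lit 141) (nat_lit 5) (nat_lit 139) (nat_lit 4) (nat_lit 445) (nat_lit 340) (nat_lit 235))))))) (XT.nd (nat_lit 1170) (nat_lit 1216) (nat_lit 0) (XT.nd (nat_lit 546) (nat_lit 836) (nat_lit 0) (XT.nd (nat_lit 234) (nat_lit 380) (nat_lit 0) (XT.nd (nat_lit 78) (nat_lit 228) (nat_lit 0) (XT.lf (nat_lit 0) (nat_lit 5533888893) (nat_lit 76) (nat_lit 15709920304) (nat_lit 152) (nat_lit 5533888893) (nat_lit 137) (nat_lit 5) (nat_lit 138) (nat_lit 5) (nat_lit 139) (nat_lit 4) (nat_lit 446) (nat_lit 340) (nat_lit 234)) (XT.nd (nat_lit 78) (nat_lit 152) (nat_lit 0) (XT.lf (nat_lit 0) (nat_lit 3114788588) (nat_lit 152) (nat_lit 3114788588) (nat_lit 76) (nat_lit 21058648715) (nat_lit 136) (nat_lit 5) (nat_lit 138) (nat_lit 5) (nat_lit 137) (nat_lit 5) (nat_lit 447) (nat_lit 340) (nat_lit 233)) (XT.lf (nat_lit 0) (nat_lit 12076439929) (nat_lit 228) (nat_lit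 12076439929) (nat_lit 76) (nat_lit 3654603764) (nat_lit 134) (nat_lit 5) (nat_lit 137) (nat_lit 5) (nat_lit 135) (nat_lit 4) (nat_lit 448) (nat_lit 340) (nat_lit 232)))) (XT.nd (nat_lit 156) (nat_lit 228) (nat_lit 0) (XT.nd (nat_lit 78) (nat_lit 76) (nat_lit 0) (XT.lf (nat_lit 0) (nat_lit 6894156011) (nat_lit 76) (nat_lit 14549893790) (nat_lit 152) (nat_lit 6894156011) (nat_lit 133) (nat_lit 5) (nat_lit 134) (nat_lit 5) (nat_lit 135) (nat_lit 4) (nat_lit 449) (nat_lit 340) (nat_lit 231)) (XT.lf (nat_lit 0) (nat_lit 2265332410) (nat_lit 152) (nat_lit 2265332410) (nat_lit 76) (nat_lit 24350530847) (nat_lit 132) (nat_lit 5) (nat_lit 134) (nat_lit 5) (nat_lit 133) (nat_lit 5) (nat_lit 450) (nat_lit 340) (nat_lit 230))) (XT.nd (nat_lit 78) (nat_lit 76) (nat_lit 0) (XT.lf (nat_lit 0) (nat_lit 11767316798) (nat_lit 228) (nat_lit 11767316798) (nat_lit 76) (nat_lit 5897605541) (nat_lit 130) (nat_lit 5) (nat_lit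 133) (nat_lit 5) (nat_lit 131) (nat_lit 4) (nat_lit 451) (nat_lit 340) (nat_lit 229)) (XT.lf (nat_lit 0) (nat_lit 8315648913) (nat_lit 76) (nat_lit 13364735379) (nat_lit 152) (nat_lit 8315648913) (nat_lit 129) (nat_lit 5) (nat_lit 130) (nat_lit 5) (nat_lit 131) (nat_lit 4) (nat_lit 452) (nat_lit 340) (nat_lit 228))))) (XT.nd (nat_lit 312) (nat_lit 456) (nat_lit 0) (XT.nd (nat_lit 156) (nat_lit 152) (nat_lit 0) (XT.nd (nat_lit 78) (nat_lit 152) (nat_lit 0) (XT.lf (nat_lit 0) (nat_lit 1386615410) (nat_lit 152) (nat_lit 1386615410) (nat_lit 76) (nat_lit 27800186648) (nat_lit 128) (nat_lit 5) (nat_lit 130) (nat_lit 5) (nat_lit 129) (nat_lit 5) (nat_lit 453) (nat_lit 340) (nat_lit 227)) (XT.lf (nat_lit 0) (nat_lit 11462444813) (nat_lit 228) (nat_lit 11462444813) (nat_lit 76) (nat_lit 8233274635) (nat_lit 126) (nat_lit 5) (nat_lit 129) (nat_lit 5) (nat_lit 127) (nat_lit 4) (nat_lit 454) (nat_lit 340) (nat_lit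 226))) (XT.nd (nat_lit 78) (nat_lit 76) (nat_lit 0) (XT.lf (nat_lit 0) (nat_lit 9801812616) (nat_lit 76) (nat_lit 12153388660) (nat_lit 152) (nat_lit 9801812616) (nat_lit 125) (nat_lit 5) (nat_lit 126) (nat_lit 5) (nat_lit 127) (nat_lit 4) (nat_lit 455) (nat_lit 340) (nat_lit 225)) (XT.lf (nat_lit 0) (nat_lit 477070390) (nat_lit 152) (nat_lit 477070390) (nat_lit 76) (nat_lit 31416703639) (nat_lit 124) (nat_lit 5) (nat_lit 126) (nat_lit 5) (nat_lit 125) (nat_lit 5) (nat_lit 456) (nat_lit 340) (nat_lit 224)))) (XT.nd (nat_lit 156) (nat_lit 228) (nat_lit 0) (XT.nd (nat_lit 78) (nat_lit 76) (nat_lit 0) (XT.lf (nat_lit 0) (nat_lit 11162230113) (nat_lit 228) (nat_lit 11162230113) (nat_lit 76) (nat_lit 10666870696) (nat_lit 122) (nat_lit 5) (nat_lit 125) (nat_lit 5) (nat_lit 123) (nat_lit 4) (nat_lit 457) (nat_lit 340) (nat_lit 223)) (XT.lf (nat_lit 0) (nat_lit 11356412033) (nat_lit 76) (nat_lit 10914518380)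 (nat_lit 152) (nat_lit 11356412033) (nat_lit 121) (nat_lit 5) (nat_lit 122) (nat_lit 5) (nat_lit 123) (nat_lit 4) (nat_lit 458) (nat_lit 340) (nat_lit 222))) (XT.nd (nat_lit 78) (nat_lit 76) (nat_lit 0) (XT.lf (nat_lit 0) (nat_lit 460508987) (nat_lit 152) (nat_lit 33358240606) (nat_lit 152) (nat_lit 460508987) (nat_lit 119) (nat_lit 4) (nat_lit 121) (nat_lit 5) (nat_lit 121) (nat_lit 4) (nat_lit 459) (nat_lit 340) (nat_lit 221)) (XT.lf (nat_lit 0) (nat_lit 10867007909) (nat_lit 228) (nat_lit 10867007909) (nat_lit 76) (nat_lit 13204170353) (nat_lit 118) (nat_lit 5) (nat_lit 121) (nat_lit 5) (nat_lit 119) (nat_lit 4) (nat_lit 460) (nat_lit 340) (nat_lit 220)))))) (XT.nd (nat_lit 624) (nat_lit 608) (nat_lit 0) (XT.nd (nat_lit 312) (nat_lit 304) (nat_lit 0) (XT.nd (nat_lit 156) (nat_lit 152) (nat_lit 0) (XT.nd (nat_lit 78) (nat_lit 76) (nat_lit 0) (XT.lf (nat_lit 0) (nat_lit 12983536888) (nat_lit 76) (nat_lit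 9646522093) (nat_lit 152) (nat_lit 12983536888) (nat_lit 117) (nat_lit 5) (nat_lit 118) (nat_lit 5) (nat_lit 119) (nat_lit 4) (nat_lit 461) (nat_lit 340) (nat_lit 219)) (XT.lf (nat_lit 0) (nat_lit 1427629016) (nat_lit 76) (nat_lit 33450059226) (nat_lit 76) (nat_lit 1427629016) (nat_lit 116) (nat_lit 4) (nat_lit 117) (nat_lit 5) (nat_lit 117) (nat_lit 4) (nat_lit 462) (nat_lit 340) (nat_lit 218))) (XT.nd (nat_lit 78) (nat_lit 76) (nat_lit 0) (XT.lf (nat_lit 0) (nat_lit 10577051143) (nat_lit 152) (nat_lit 10577051143) (nat_lit 76) (nat_lit 15851472279) (nat_lit 115) (nat_lit 5) (nat_lit 117) (nat_lit 5) (nat_lit 116) (nat_lit 4) (nat_lit 463) (nat_lit 340) (nat_lit 217)) (XT.lf (nat_lit 0) (nat_lit 14687608631) (nat_lit 76) (nat_lit 8347539180) (nat_lit 152) (nat_lit 14687608631) (nat_lit 114) (nat_lit 5) (nat_lit 115) (nat_lit 5) (nat_lit 116) (nat_lit 4) (nat_lit 464) (nat_lit 340) (nat_lit 216))))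 (XT.nd (nat_lit 156) (nat_lit 152) (nat_lit 0) (XT.nd (nat_lit 78) (nat_lit 76) (nat_lit 0) (XT.lf (nat_lit 0) (nat_lit 2431105136) (nat_lit 76) (nat_lit 33594485408) (nat_lit 76) (nat_lit 2431105136) (nat_lit 113) (nat_lit 4) (nat_lit 114) (nat_lit 5) (nat_lit 114) (nat_lit 4) (nat_lit 465) (nat_lit 340) (nat_lit 215)) (XT.lf (nat_lit 0) (nat_lit 10292578156) (nat_lit 152) (nat_lit 10292578156) (nat_lit 76) (nat_lit 18615605654) (nat_lit 112) (nat_lit 5) (nat_lit 114) (nat_lit 5) (nat_lit 113) (nat_lit 4) (nat_lit 466) (nat_lit 340) (nat_lit 214))) (XT.nd (nat_lit 78) (nat_lit 76) (nat_lit 0) (XT.lf (nat_lit 0) (nat_lit 16473389263) (nat_lit 76) (nat_lit 7015457478) (nat_lit 152) (nat_lit 16473389263) (nat_lit 111) (nat_lit 5) (nat_lit 112) (nat_lit 5) (nat_lit 113) (nat_lit 4) (nat_lit 467) (nat_lit 340) (nat_lit 213)) (XT.lf (nat_lit 0) (nat_lit 3473271583) (nat_lit 76) (nat_lit 33794410729) (nat_lit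 76) (nat_lit 3473271583) (nat_lit 110) (nat_lit 4) (nat_lit 111) (nat_lit 5) (nat_lit 111) (nat_lit 4) (nat_lit 468) (nat_lit 340) (nat_lit 212))))) (XT.nd (nat_lit 312) (nat_lit 304) (nat_lit 0) (XT.nd (nat_lit 156) (nat_lit 152) (nat_lit 0) (XT.nd (nat_lit 78) (nat_lit 76) (nat_lit 0) (XT.lf (nat_lit 0) (nat_lit 10013759479) (nat_lit 152) (nat_lit 10013759479) (nat_lit 76) (nat_lit 21503941860) (nat_lit 109) (nat_lit 5) (nat_lit 111) (nat_lit 5) (nat_lit 110) (nat_lit 4) (nat_lit 469) (nat_lit 340) (nat_lit 211)) (XT.lf (nat_lit 0) (nat_lit 18345992038) (nat_lit 76) (nat_lit 5647917682) (nat_lit 152) (nat_lit 18345992038) (nat_lit 108) (nat_lit 5) (nat_lit 109) (nat_lit 5) (nat_lit 110) (nat_lit 4) (nat_lit 470) (nat_lit 340) (nat_lit 210))) (XT.nd (nat_lit 78) (nat_lit 76) (nat_lit 0) (XT.lf (nat_lit 0) (nat_lit 4556661066) (nat_lit 76) (nat_lit 34052794073) (nat_lit 76) (nat_lit 4556661066) (nat_lit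 107) (nat_lit 4) (nat_lit 108) (nat_lit 5) (nat_lit 108) (nat_lit 4) (nat_lit 471) (nat_lit 340) (nat_lit 209)) (XT.lf (nat_lit 0) (nat_lit 9740723848) (nat_lit 152) (nat_lit 9740723848) (nat_lit 76) (nat_lit 24524409320) (nat_lit 106) (nat_lit 5) (nat_lit 108) (nat_lit 5) (nat_lit 107) (nat_lit 4) (nat_lit 472) (nat_lit 340) (nat_lit 208)))) (XT.nd (nat_lit 156) (nat_lit 152) (nat_lit 0) (XT.nd (nat_lit 78) (nat_lit 76) (nat_lit 0) (XT.lf (nat_lit 0) (nat_lit 20310893993) (nat_lit 76) (nat_lit 4242315688) (nat_lit 152) (nat_lit 20310893993) (nat_lit 105) (nat_lit 5) (nat_lit 106) (nat_lit 5) (nat_lit 107) (nat_lit 4) (nat_lit 473) (nat_lit 340) (nat_lit 207)) (XT.lf (nat_lit 0) (nat_lit 5684008541) (nat_lit 76) (nat_lit 34372682038) (nat_lit 76) (nat_lit 5684008541) (nat_lit 104) (nat_lit 4) (nat_lit 105) (nat_lit 5) (nat_lit 105) (nat_lit 4) (nat_lit 474) (nat_lit 340) (nat_lit 206))) (XT.nd (nat_lit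 78) (nat_lit 76) (nat_lit 0) (XT.lf (nat_lit 0) (nat_lit 9473563530) (nat_lit 152) (nat_lit 9473563530) (nat_lit 76) (nat_lit 27685511379) (nat_lit 103) (nat_lit 5) (nat_lit 105) (nat_lit 5) (nat_lit 104) (nat_lit 4) (nat_lit 475) (nat_lit 340) (nat_lit 205)) (XT.lf (nat_lit 0) (nat_lit 22373950291) (nat_lit 76) (nat_lit 2795803029) (nat_lit 152) (nat_lit 22373950291) (nat_lit 102) (nat_lit 5) (nat_lit 103) (nat_lit 5) (nat_lit 104) (nat_lit 4) (nat_lit 476) (nat_lit 340) (nat_lit 204))))))))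
noncomputable def xc101 : XT := (XT.nd (nat_lit 43524) (nat_lit 0) (nat_lit 15124) (XT.nd (nat_lit 1170) (nat_lit 152) (nat_lit 0) (XT.nd (nat_lit 546) (nat_lit 608) (nat_lit 0) (XT.nd (nat_lit 234) (nat_lit 304) (nat_lit 0) (XT.nd (nat_lit 78) (nat_lit 152) (nat_lit 0) (XT.lf (nat_lit 0) (nat_lit 6858256202) (nat_lit 76) (nat_lit 34757228654) (nat_lit 76) (nat_lit 6858256202) (nat_lit 101) (nat_lit 4) (nat_lit 102) (nat_lit 5) (nat_lit 102) (nat_lit 4) (nat_lit 477) (nat_lit 340) (nat_lit 203)) (XT.nd (nat_lit 78) (nat_lit 76) (nat_lit 0) (XT.lf (nat_lit 0) (nat_lit 9212339031) (nat_lit 152) (nat_lit 9212339031) (nat_lit 76) (nat_lit 30996347185) (nat_lit 100) (nat_lit 5) (nat_lit 102) (nat_lit 5) (nat_lit 101) (nat_lit 4) (nat_lit 478) (nat_lit 340) (nat_lit 202)) (XT.lf (nat_lit 0) (nat_lit 24541410361) (nat_lit 76) (nat_lit 1305285495) (nat_lit 152) (nat_lit 24541410361) (nat_lit 99) (nat_lit 5)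 (nat_lit 100) (nat_lit 5) (nat_lit 101) (nat_lit 4) (nat_lit 479) (nat_lit 340) (nat_lit 201)))) (XT.nd (nat_lit 156) (nat_lit 152) (nat_lit 0) (XT.nd (nat_lit 78) (nat_lit 76) (nat_lit 0) (XT.lf (nat_lit 0) (nat_lit 8082559655) (nat_lit 76) (nat_lit 35209714580) (nat_lit 76) (nat_lit 8082559655) (nat_lit 98) (nat_lit 4) (nat_lit 99) (nat_lit 5) (nat_lit 99) (nat_lit 4) (nat_lit 480) (nat_lit 340) (nat_lit 200)) (XT.lf (nat_lit 0) (nat_lit 8957083266) (nat_lit 152) (nat_lit 8957083266) (nat_lit 76) (nat_lit 34466635527) (nat_lit 97) (nat_lit 5) (nat_lit 99) (nat_lit 5) (nat_lit 98) (nat_lit 4) (nat_lit 481) (nat_lit 340) (nat_lit 199))) (XT.nd (nat_lit 78) (nat_lit 76) (nat_lit 0) (XT.lf (nat_lit 0) (nat_lit 26589591608) (nat_lit 152) (nat_lit 26589591608) (nat_lit 0) (nat_lit 228041469) (nat_lit 96) (nat_lit 5) (nat_lit 98) (nat_lit 4) (nat_lit 96) (nat_lit 4) (nat_lit 482) (nat_lit 340) (nat_lit 198))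 (XT.lf (nat_lit 0) (nat_lit 9360295237) (nat_lit 76) (nat_lit 35733565937) (nat_lit 76) (nat_lit 9360295237) (nat_lit 95) (nat_lit 4) (nat_lit 96) (nat_lit 5) (nat_lit 96) (nat_lit 4) (nat_lit 483) (nat_lit 340) (nat_lit 197))))) (XT.nd (nat_lit 312) (nat_lit 304) (nat_lit 0) (XT.nd (nat_lit 156) (nat_lit 152) (nat_lit 0) (XT.nd (nat_lit 78) (nat_lit 76) (nat_lit 0) (XT.lf (nat_lit 0) (nat_lit 8707805243) (nat_lit 152) (nat_lit 8707805243) (nat_lit 76) (nat_lit 38106741623) (nat_lit 94) (nat_lit 5) (nat_lit 96) (nat_lit 5) (nat_lit 95) (nat_lit 4) (nat_lit 484) (nat_lit 340) (nat_lit 196)) (XT.lf (nat_lit 0) (nat_lit 27412738873) (nat_lit 152) (nat_lit 27412738873) (nat_lit 0) (nat_lit 1785847960) (nat_lit 93) (nat_lit 5) (nat_lit 95) (nat_lit 4) (nat_lit 93) (nat_lit 4) (nat_lit 485) (nat_lit 340) (nat_lit 195))) (XT.nd (nat_lit 78) (nat_lit 76) (nat_lit 0) (XT.lf (nat_lit 0) (nat_lit 10695068468)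 (nat_lit 76) (nat_lit 36332372949) (nat_lit 76) (nat_lit 10695068468) (nat_lit 92) (nat_lit 4) (nat_lit 93) (nat_lit 5) (nat_lit 93) (nat_lit 4) (nat_lit 486) (nat_lit 340) (nat_lit 194)) (XT.lf (nat_lit 0) (nat_lit 8464493313) (nat_lit 152) (nat_lit 8464493313) (nat_lit 76) (nat_lit 41927706866) (nat_lit 91) (nat_lit 5) (nat_lit 93) (nat_lit 5) (nat_lit 92) (nat_lit 4) (nat_lit 487) (nat_lit 340) (nat_lit 193)))) (XT.nd (nat_lit 156) (nat_lit 152) (nat_lit 0) (XT.nd (nat_lit 78) (nat_lit 76) (nat_lit 0) (XT.lf (nat_lit 0) (nat_lit 28307318434) (nat_lit 152) (nat_lit 28307318434) (nat_lit 0) (nat_lit 3397385884) (nat_lit 90) (nat_lit 5) (nat_lit 92) (nat_lit 4) (nat_lit 90) (nat_lit 4) (nat_lit 488) (nat_lit 340) (nat_lit 192)) (XT.lf (nat_lit 0) (nat_lit 12090723635) (nat_lit 76) (nat_lit 37009908504) (nat_lit 76) (nat_lit 12090723635) (nat_lit 89) (nat_lit 4) (nat_lit 90) (nat_lit 5) (nat_lit 90)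 (nat_lit 4) (nat_lit 489) (nat_lit 340) (nat_lit 191))) (XT.nd (nat_lit 78) (nat_lit 76) (nat_lit 0) (XT.lf (nat_lit 0) (nat_lit 8227118054) (nat_lit 152) (nat_lit 8227118054) (nat_lit 76) (nat_lit 45941281558) (nat_lit 88) (nat_lit 5) (nat_lit 90) (nat_lit 5) (nat_lit 89) (nat_lit 4) (nat_lit 490) (nat_lit 340) (nat_lit 190)) (XT.lf (nat_lit 0) (nat_lit 29277270417) (nat_lit 152) (nat_lit 29277270417) (nat_lit 0) (nat_lit 5066698667) (nat_lit 87) (nat_lit 5) (nat_lit 89) (nat_lit 4) (nat_lit 87) (nat_lit 4) (nat_lit 491) (nat_lit 340) (nat_lit 189)))))) (XT.nd (nat_lit 41730) (nat_lit 0) (nat_lit 30248) (XT.nd (nat_lit 41418) (nat_lit 0) (nat_lit 32376) (XT.nd (nat_lit 78) (nat_lit 76) (nat_lit 0) (XT.lf (nat_lit 0) (nat_lit 13551354486) (nat_lit 76) (nat_lit 37770146802) (nat_lit 76) (nat_lit 13551354486) (nat_lit 86) (nat_lit 4) (nat_lit 87) (nat_lit 5) (nat_lit 87) (nat_lit 4) (nat_lit 492) (nat_lit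 340) (nat_lit 188)) (XT.nd (nat_lit 41262) (nat_lit 0) (nat_lit 32832) (XT.lf (nat_lit 0) (nat_lit 7995634801) (nat_lit 152) (nat_lit 7995634801) (nat_lit 76) (nat_lit 50159960680) (nat_lit 85) (nat_lit 5) (nat_lit 87) (nat_lit 5) (nat_lit 86) (nat_lit 4) (nat_lit 493) (nat_lit 340) (nat_lit 187)) (XT.lf (nat_lit 0) (nat_lit 1579492006) (nat_lit 0) (nat_lit 1579492006) (nat_lit 76) (nat_lit 64108703) (nat_lit 517) (nat_lit 5) (nat_lit 517) (nat_lit 3) (nat_lit 518) (nat_lit 0) (nat_lit 341) (nat_lit 341) (nat_lit 338)))) (XT.nd (nat_lit 156) (nat_lit 228) (nat_lit 0) (XT.nd (nat_lit 78) (nat_lit 0) (nat_lit 0) (XT.lf (nat_lit 0) (nat_lit 2908712798) (nat_lit 228) (nat_lit 62857711) (nat_lit 228) (nat_lit 3480255814) (nat_lit 514) (nat_lit 3) (nat_lit 517) (nat_lit 3) (nat_lit 517) (nat_lit 5) (nat_lit 342) (nat_lit 341) (nat_lit 337)) (XT.lf (nat_lit 76) (nat_lit 3259524996) (nat_lit 0) (nat_lit 2687482574)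 (nat_lit 228) (nat_lit 513205776) (nat_lit 515) (nat_lit 5) (nat_lit 514) (nat_lit 3) (nat_lit 517) (nat_lit 5) (nat_lit 343) (nat_lit 341) (nat_lit 336))) (XT.nd (nat_lit 78) (nat_lit 0) (nat_lit 0) (XT.lf (nat_lit 76) (nat_lit 128721855) (nat_lit 0) (nat_lit 2313098941) (nat_lit 304) (nat_lit 4029726052) (nat_lit 512) (nat_lit 5) (nat_lit 511) (nat_lit 5) (nat_lit 515) (nat_lit 5) (nat_lit 344) (nat_lit 341) (nat_lit 335)) (XT.lf (nat_lit 76) (nat_lit 3556305575) (nat_lit 0) (nat_lit 1837179249) (nat_lit 304) (nat_lit 1092034046) (nat_lit 512) (nat_lit 5) (nat_lit 511) (nat_lit 5) (nat_lit 515) (nat_lit 5) (nat_lit 345) (nat_lit 341) (nat_lit 334))))) (XT.nd (nat_lit 312) (nat_lit 1520) (nat_lit 0) (XT.nd (nat_lit 156) (nat_lit 304) (nat_lit 0) (XT.nd (nat_lit 78) (nat_lit 0) (nat_lit 0) (XT.lf (nat_lit 76) (nat_lit 515730229) (nat_lit 0) (nat_lit 1273535498) (nat_lit 380) (nat_lit 4713290299) (nat_lit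 508) (nat_lit 5) (nat_lit 507) (nat_lit 5) (nat_lit 512) (nat_lit 5) (nat_lit 346) (nat_lit 341) (nat_lit 333)) (XT.lf (nat_lit 76) (nat_lit 4051102390) (nat_lit 0) (nat_lit 604340614) (nat_lit 380) (nat_lit 1866725304) (nat_lit 508) (nat_lit 5) (nat_lit 507) (nat_lit 5) (nat_lit 512) (nat_lit 5) (nat_lit 347) (nat_lit 341) (nat_lit 332))) (XT.nd (nat_lit 78) (nat_lit 0) (nat_lit 0) (XT.lf (nat_lit 0) (nat_lit 949510058) (nat_lit 380) (nat_lit 5447293772) (nat_lit 76) (nat_lit 148106138) (nat_lit 503) (nat_lit 5) (nat_lit 508) (nat_lit 5) (nat_lit 504) (nat_lit 5) (nat_lit 348) (nat_lit 341) (nat_lit 331)) (XT.lf (nat_lit 0) (nat_lit 3739873237) (nat_lit 380) (nat_lit 1833481915) (nat_lit 76) (nat_lit 996609450) (nat_lit 503) (nat_lit 5) (nat_lit 508) (nat_lit 5) (nat_lit 504) (nat_lit 5) (nat_lit 349) (nat_lit 341) (nat_lit 330)))) (XT.nd (nat_lit 156) (nat_lit 1064) (nat_lit 0) (XT.nd (nat_lit 78)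 (nat_lit 76) (nat_lit 0) (XT.lf (nat_lit 0) (nat_lit 1861776425) (nat_lit 380) (nat_lit 4669073765) (nat_lit 456) (nat_lit 67413599) (nat_lit 498) (nat_lit 5) (nat_lit 503) (nat_lit 5) (nat_lit 504) (nat_lit 5) (nat_lit 350) (nat_lit 341) (nat_lit 329)) (XT.lf (nat_lit 0) (nat_lit 2642999418) (nat_lit 456) (nat_lit 1012928082) (nat_lit 76) (nat_lit 2973111299) (nat_lit 497) (nat_lit 5) (nat_lit 503) (nat_lit 5) (nat_lit 498) (nat_lit 5) (nat_lit 351) (nat_lit 341) (nat_lit 328))) (XT.nd (nat_lit 78) (nat_lit 608) (nat_lit 0) (XT.lf (nat_lit 0) (nat_lit 2813801088) (nat_lit 456) (nat_lit 2549887291) (nat_lit 532) (nat_lit 1299119102) (nat_lit 491) (nat_lit 5) (nat_lit 497) (nat_lit 5) (nat_lit 498) (nat_lit 5) (nat_lit 352) (nat_lit 341) (nat_lit 327)) (XT.lf (nat_lit 0) (nat_lit 547043) (nat_lit 532) (nat_lit 1354097530) (nat_lit 608) (nat_lit 5345074499) (nat_lit 483) (nat_lit 5) (nat_lit 490) (nat_lit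 5) (nat_lit 491) (nat_lit 5) (nat_lit 353) (nat_lit 341) (nat_lit 326))))))) (XT.nd (nat_lit 1170) (nat_lit 6536) (nat_lit 0) (XT.nd (nat_lit 546) (nat_lit 5548) (nat_lit 0) (XT.nd (nat_lit 234) (nat_lit 2356) (nat_lit 0) (XT.nd (nat_lit 78) (nat_lit 684) (nat_lit 0) (XT.lf (nat_lit 0) (nat_lit 3967936519) (nat_lit 532) (nat_lit 39439768) (nat_lit 608) (nat_lit 2731611865) (nat_lit 483) (nat_lit 5) (nat_lit 490) (nat_lit 5) (nat_lit 491) (nat_lit 5) (nat_lit 354) (nat_lit 341) (nat_lit 325)) (XT.nd (nat_lit 78) (nat_lit 76) (nat_lit 0) (XT.lf (nat_lit 0) (nat_lit 1221530981) (nat_lit 608) (nat_lit 5452258450) (nat_lit 684) (nat_lit 107622888) (nat_lit 475) (nat_lit 5) (nat_lit 483) (nat_lit 5) (nat_lit 484) (nat_lit 5) (nat_lit 355) (nat_lit 341) (nat_lit 324)) (XT.lf (nat_lit 0) (nat_lit 2483956997) (nat_lit 684) (nat_lit 1524909392) (nat_lit 76) (nat_lit 2817309134) (nat_lit 474) (nat_lit 5) (nat_lit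 483) (nat_lit 5) (nat_lit 475) (nat_lit 5) (nat_lit 356) (nat_lit 341) (nat_lit 323)))) (XT.nd (nat_lit 156) (nat_lit 1596) (nat_lit 0) (XT.nd (nat_lit 78) (nat_lit 76) (nat_lit 0) (XT.lf (nat_lit 0) (nat_lit 2617312077) (nat_lit 684) (nat_lit 2472425556) (nat_lit 760) (nat_lit 1784353529) (nat_lit 465) (nat_lit 5) (nat_lit 474) (nat_lit 5) (nat_lit 475) (nat_lit 5) (nat_lit 357) (nat_lit 341) (nat_lit 322)) (XT.lf (nat_lit 0) (nat_lit 763739751) (nat_lit 760) (nat_lit 81131190) (nat_lit 76) (nat_lit 6080425625) (nat_lit 464) (nat_lit 5) (nat_lit 474) (nat_lit 5) (nat_lit 465) (nat_lit 5) (nat_lit 358) (nat_lit 341) (nat_lit 321))) (XT.nd (nat_lit 78) (nat_lit 836) (nat_lit 0) (XT.lf (nat_lit 0) (nat_lit 3318775563) (nat_lit 836) (nat_lit 2766038733) (nat_lit 76) (nat_lit 893702927) (nat_lit 454) (nat_lit 5) (nat_lit 465) (nat_lit 5) (nat_lit 455) (nat_lit 5) (nat_lit 359) (nat_lit 341) (nat_lit 320))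 (XT.lf (nat_lit 0) (nat_lit 1560333516) (nat_lit 836) (nat_lit 4333340080) (nat_lit 912) (nat_lit 1141364568) (nat_lit 443) (nat_lit 5) (nat_lit 454) (nat_lit 5) (nat_lit 455) (nat_lit 5) (nat_lit 360) (nat_lit 341) (nat_lit 319))))) (XT.nd (nat_lit 312) (nat_lit 3496) (nat_lit 0) (XT.nd (nat_lit 156) (nat_lit 1064) (nat_lit 0) (XT.nd (nat_lit 78) (nat_lit 912) (nat_lit 0) (XT.lf (nat_lit 0) (nat_lit 1372402516) (nat_lit 912) (nat_lit 1099404429) (nat_lit 76) (nat_lit 4622583397) (nat_lit 442) (nat_lit 5) (nat_lit 454) (nat_lit 5) (nat_lit 443) (nat_lit 5) (nat_lit 361) (nat_lit 341) (nat_lit 318)) (XT.lf (nat_lit 0) (nat_lit 3398138668) (nat_lit 912) (nat_lit 495474766) (nat_lit 988) (nat_lit 3262921499) (nat_lit 430) (nat_lit 5) (nat_lit 442) (nat_lit 5) (nat_lit 443) (nat_lit 5) (nat_lit 362) (nat_lit 341) (nat_lit 317))) (XT.nd (nat_lit 78) (nat_lit 76) (nat_lit 0) (XT.lf (nat_lit 0) (nat_lit 767189380)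 (nat_lit 988) (nat_lit 5680743750) (nat_lit 1064) (nat_lit 773886558) (nat_lit 417) (nat_lit 5) (nat_lit 430) (nat_lit 5) (nat_lit 431) (nat_lit 5) (nat_lit 363) (nat_lit 341) (nat_lit 316)) (XT.lf (nat_lit 0) (nat_lit 1723057603) (nat_lit 1064) (nat_lit 1871474063) (nat_lit 76) (nat_lit 3694970255) (nat_lit 416) (nat_lit 5) (nat_lit 430) (nat_lit 5) (nat_lit 417) (nat_lit 5) (nat_lit 364) (nat_lit 341) (nat_lit 315)))) (XT.nd (nat_lit 156) (nat_lit 1292) (nat_lit 0) (XT.nd (nat_lit 78) (nat_lit 1140) (nat_lit 0) (XT.lf (nat_lit 0) (nat_lit 2832070375) (nat_lit 1064) (nat_lit 1401625561) (nat_lit 1140) (nat_lit 3126658612) (nat_lit 402) (nat_lit 5) (nat_lit 416) (nat_lit 5) (nat_lit 417) (nat_lit 5) (nat_lit 365) (nat_lit 341) (nat_lit 314)) (XT.lf (nat_lit 0) (nat_lit 211739509) (nat_lit 1140) (nat_lit 6565966976) (nat_lit 1216) (nat_lit 656884676) (nat_lit 387) (nat_lit 5) (nat_lit 402) (nat_lit 5)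 (nat_lit 403) (nat_lit 5) (nat_lit 366) (nat_lit 341) (nat_lit 313))) (XT.nd (nat_lit 78) (nat_lit 1216) (nat_lit 0) (XT.lf (nat_lit 0) (nat_lit 1839665641) (nat_lit 1216) (nat_lit 2422402344) (nat_lit 76) (nat_lit 3248757573) (nat_lit 386) (nat_lit 5) (nat_lit 402) (nat_lit 5) (nat_lit 387) (nat_lit 5) (nat_lit 367) (nat_lit 341) (nat_lit 312)) (XT.lf (nat_lit 0) (nat_lit 2499238882) (nat_lit 1216) (nat_lit 1854197955) (nat_lit 1292) (nat_lit 3237049223) (nat_lit 370) (nat_lit 5) (nat_lit 386) (nat_lit 5) (nat_lit 387) (nat_lit 5) (nat_lit 368) (nat_lit 341) (nat_lit 311)))))) (XT.nd (nat_lit 624) (nat_lit 3116) (nat_lit 0) (XT.nd (nat_lit 312) (nat_lit 1900) (nat_lit 0) (XT.nd (nat_lit 156) (nat_lit 608) (nat_lit 0) (XT.nd (nat_lit 78) (nat_lit 912) (nat_lit 0) (XT.lf (nat_lit 0) (nat_lit 6906245611) (nat_lit 1292) (nat_lit 126363256) (nat_lit 76) (nat_lit 641018776) (nat_lit 370) (nat_lit 5) (nat_lit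 387) (nat_lit 5) (nat_lit 371) (nat_lit 5) (nat_lit 369) (nat_lit 341) (nat_lit 310)) (XT.lf (nat_lit 0) (nat_lit 1743025232) (nat_lit 912) (nat_lit 2774145436) (nat_lit 76) (nat_lit 3241541133) (nat_lit 358) (nat_lit 5) (nat_lit 370) (nat_lit 5) (nat_lit 359) (nat_lit 5) (nat_lit 370) (nat_lit 341) (nat_lit 309))) (XT.nd (nat_lit 78) (nat_lit 0) (nat_lit 0) (XT.lf (nat_lit 0) (nat_lit 2378708462) (nat_lit 608) (nat_lit 1894275898) (nat_lit 684) (nat_lit 3574346289) (nat_lit 350) (nat_lit 5) (nat_lit 358) (nat_lit 5) (nat_lit 359) (nat_lit 5) (nat_lit 371) (nat_lit 341) (nat_lit 308)) (XT.lf (nat_lit 0) (nat_lit 6851647356) (nat_lit 684) (nat_lit 269237303) (nat_lit 76) (nat_lit 818539251) (nat_lit 350) (nat_lit 5) (nat_lit 359) (nat_lit 5) (nat_lit 351) (nat_lit 5) (nat_lit 372) (nat_lit 341) (nat_lit 307)))) (XT.nd (nat_lit 156) (nat_lit 684) (nat_lit 0) (XT.nd (nat_lit 78) (nat_lit 532) (nat_lit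 0) (XT.lf (nat_lit 0) (nat_lit 1451101452) (nat_lit 684) (nat_lit 2945885649) (nat_lit 76) (nat_lit 3636674103) (nat_lit 341) (nat_lit 5) (nat_lit 350) (nat_lit 5) (nat_lit 342) (nat_lit 5) (nat_lit 373) (nat_lit 341) (nat_lit 306)) (XT.lf (nat_lit 0) (nat_lit 2452340933) (nat_lit 532) (nat_lit 1557434910) (nat_lit 608) (nat_lit 4121661875) (nat_lit 334) (nat_lit 5) (nat_lit 341) (nat_lit 5) (nat_lit 342) (nat_lit 5) (nat_lit 374) (nat_lit 341) (nat_lit 305))) (XT.nd (nat_lit 78) (nat_lit 684) (nat_lit 0) (XT.lf (nat_lit 0) (nat_lit 6628676361) (nat_lit 608) (nat_lit 237986989) (nat_lit 76) (nat_lit 1365980201) (nat_lit 334) (nat_lit 5) (nat_lit 342) (nat_lit 5) (nat_lit 335) (nat_lit 5) (nat_lit 375) (nat_lit 341) (nat_lit 304)) (XT.lf (nat_lit 0) (nat_lit 979316087) (nat_lit 684) (nat_lit 2954325624) (nat_lit 76) (nat_lit 4402677713) (nat_lit 325) (nat_lit 5) (nat_lit 334) (nat_lit 5) (nat_lit 326)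 (nat_lit 5) (nat_lit 376) (nat_lit 341) (nat_lit 303))))) (XT.nd (nat_lit 312) (nat_lit 1520) (nat_lit 0) (XT.nd (nat_lit 156) (nat_lit 1064) (nat_lit 0) (XT.nd (nat_lit 78) (nat_lit 0) (nat_lit 0) (XT.lf (nat_lit 0) (nat_lit 2704507400) (nat_lit 532) (nat_lit 874310048) (nat_lit 608) (nat_lit 4864682970) (nat_lit 318) (nat_lit 5) (nat_lit 325) (nat_lit 5) (nat_lit 326) (nat_lit 5) (nat_lit 377) (nat_lit 341) (nat_lit 302)) (XT.lf (nat_lit 0) (nat_lit 6251834287) (nat_lit 608) (nat_lit 47281498) (nat_lit 76) (nat_lit 2254915142) (nat_lit 318) (nat_lit 5) (nat_lit 326) (nat_lit 5) (nat_lit 319) (nat_lit 5) (nat_lit 378) (nat_lit 341) (nat_lit 301))) (XT.nd (nat_lit 78) (nat_lit 456) (nat_lit 0) (XT.lf (nat_lit 0) (nat_lit 340803768) (nat_lit 608) (nat_lit 2813948651) (nat_lit 76) (nat_lit 5512721137) (nat_lit 310) (nat_lit 5) (nat_lit 318) (nat_lit 5) (nat_lit 311) (nat_lit 5) (nat_lit 379) (nat_lit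 341) (nat_lit 300)) (XT.lf (nat_lit 0) (nat_lit 2994170223) (nat_lit 532) (nat_lit 5663757750) (nat_lit 76) (nat_lit 126387235) (nat_lit 304) (nat_lit 5) (nat_lit 311) (nat_lit 5) (nat_lit 305) (nat_lit 5) (nat_lit 380) (nat_lit 341) (nat_lit 299)))) (XT.nd (nat_lit 156) (nat_lit 988) (nat_lit 0) (XT.nd (nat_lit 78) (nat_lit 0) (nat_lit 0) (XT.lf (nat_lit 0) (nat_lit 296054333) (nat_lit 532) (nat_lit 5440351932) (nat_lit 608) (nat_lit 3167977785) (nat_lit 297) (nat_lit 5) (nat_lit 304) (nat_lit 5) (nat_lit 305) (nat_lit 5) (nat_lit 381) (nat_lit 341) (nat_lit 298)) (XT.lf (nat_lit 0) (nat_lit 6486222735) (nat_lit 532) (nat_lit 2079308492) (nat_lit 608) (nat_lit 462385076) (nat_lit 297) (nat_lit 5) (nat_lit 304) (nat_lit 5) (nat_lit 305) (nat_lit 5) (nat_lit 382) (nat_lit 341) (nat_lit 297))) (XT.nd (nat_lit 78) (nat_lit 456) (nat_lit 0) (XT.lf (nat_lit 0) (nat_lit 2276718528) (nat_lit 532) (nat_lit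 5475735649) (nat_lit 76) (nat_lit 1402099046) (nat_lit 290) (nat_lit 5) (nat_lit 297) (nat_lit 5) (nat_lit 291) (nat_lit 5) (nat_lit 383) (nat_lit 341) (nat_lit 296)) (XT.lf (nat_lit 0) (nat_lit 779150223) (nat_lit 456) (nat_lit 4312779326) (nat_lit 532) (nat_lit 4192825525) (nat_lit 284) (nat_lit 5) (nat_lit 290) (nat_lit 5) (nat_lit 291) (nat_lit 5) (nat_lit 384) (nat_lit 341) (nat_lit 295))))))))
noncomputable def xc102 : XT := (XT.nd (nat_lit 2340) (nat_lit 4028) (nat_lit 0) (XT.nd (nat_lit 1170) (nat_lit 2888) (nat_lit 0) (XT.nd (nat_lit 546) (nat_lit 2280) (nat_lit 0) (XT.nd (nat_lit 234) (nat_lit 836) (nat_lit 0) (XT.nd (nat_lit 78) (nat_lit 912) (nat_lit 0) (XT.lf (nat_lit 0) (nat_lit 7270100446) (nat_lit 456) (nat_lit 726886465) (nat_lit 532) (nat_lit 1421714369) (nat_lit 284) (nat_lit 5) (nat_lit 290) (nat_lit 5) (nat_lit 291) (nat_lit 5) (nat_lit 385) (nat_lit 341) (nat_lit 294)) (XT.nd (nat_lit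 78) (nat_lit 456) (nat_lit 0) (XT.lf (nat_lit 0) (nat_lit 1426960198) (nat_lit 456) (nat_lit 5176964173) (nat_lit 76) (nat_lit 2951656874) (nat_lit 278) (nat_lit 5) (nat_lit 284) (nat_lit 5) (nat_lit 279) (nat_lit 5) (nat_lit 386) (nat_lit 341) (nat_lit 293)) (XT.lf (nat_lit 0) (nat_lit 1391816830) (nat_lit 456) (nat_lit 2934949426) (nat_lit 532) (nat_lit 5369551671) (nat_lit 272) (nat_lit 5) (nat_lit 278) (nat_lit 5) (nat_lit 279) (nat_lit 5) (nat_lit 387) (nat_lit 341) (nat_lit 292)))) (XT.nd (nat_lit 156) (nat_lit 380) (nat_lit 0) (XT.nd (nat_lit 78) (nat_lit 456) (nat_lit 0) (XT.lf (nat_lit 0) (nat_lit 7326883923) (nat_lit 532) (nat_lit 1648839189) (nat_lit 76) (nat_lit 865154078) (nat_lit 272) (nat_lit 5) (nat_lit 279) (nat_lit 5) (nat_lit 273) (nat_lit 5) (nat_lit 388) (nat_lit 341) (nat_lit 291)) (XT.lf (nat_lit 0) (nat_lit 452222827) (nat_lit 456) (nat_lit 4776394969) (nat_lit 76) (nat_lit 4760032394)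 (nat_lit 266) (nat_lit 5) (nat_lit 272) (nat_lit 5) (nat_lit 267) (nat_lit 5) (nat_lit 389) (nat_lit 341) (nat_lit 290))) (XT.nd (nat_lit 78) (nat_lit 0) (nat_lit 0) (XT.lf (nat_lit 0) (nat_lit 2126349464) (nat_lit 380) (nat_lit 1321898369) (nat_lit 456) (nat_lit 6692121281) (nat_lit 261) (nat_lit 5) (nat_lit 266) (nat_lit 5) (nat_lit 267) (nat_lit 5) (nat_lit 390) (nat_lit 341) (nat_lit 289)) (XT.lf (nat_lit 0) (nat_lit 6563510683) (nat_lit 456) (nat_lit 1050845893) (nat_lit 76) (nat_lit 2681402318) (nat_lit 261) (nat_lit 5) (nat_lit 267) (nat_lit 5) (nat_lit 262) (nat_lit 5) (nat_lit 391) (nat_lit 341) (nat_lit 288))))) (XT.nd (nat_lit 312) (nat_lit 1140) (nat_lit 0) (XT.nd (nat_lit 156) (nat_lit 304) (nat_lit 0) (XT.nd (nat_lit 78) (nat_lit 456) (nat_lit 0) (XT.lf (nat_lit 0) (nat_lit 6167029469) (nat_lit 380) (nat_lit 3633565318) (nat_lit 456) (nat_lit 654364679) (nat_lit 256) (nat_lit 5) (nat_lit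 261) (nat_lit 5) (nat_lit 262) (nat_lit 5) (nat_lit 392) (nat_lit 341) (nat_lit 287)) (XT.lf (nat_lit 0) (nat_lit 2467293703) (nat_lit 456) (nat_lit 7646842310) (nat_lit 76) (nat_lit 504058572) (nat_lit 250) (nat_lit 5) (nat_lit 256) (nat_lit 5) (nat_lit 251) (nat_lit 5) (nat_lit 393) (nat_lit 341) (nat_lit 286))) (XT.nd (nat_lit 78) (nat_lit 304) (nat_lit 0) (XT.lf (nat_lit 0) (nat_lit 5705929020) (nat_lit 456) (nat_lit 353827282) (nat_lit 76) (nat_lit 4725281711) (nat_lit 250) (nat_lit 5) (nat_lit 256) (nat_lit 5) (nat_lit 251) (nat_lit 5) (nat_lit 394) (nat_lit 341) (nat_lit 285)) (XT.lf (nat_lit 0) (nat_lit 7238818639) (nat_lit 304) (nat_lit 1830522667) (nat_lit 380) (nat_lit 1886716900) (nat_lit 246) (nat_lit 5) (nat_lit 250) (nat_lit 5) (nat_lit 251) (nat_lit 5) (nat_lit 395) (nat_lit 341) (nat_lit 284)))) (XT.nd (nat_lit 156) (nat_lit 380) (nat_lit 0) (XT.nd (nat_lit 78) (nat_lit 304) (nat_lit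 0) (XT.lf (nat_lit 0) (nat_lit 1398464967) (nat_lit 456) (nat_lit 7219391080) (nat_lit 76) (nat_lit 2513217854) (nat_lit 240) (nat_lit 5) (nat_lit 246) (nat_lit 5) (nat_lit 241) (nat_lit 5) (nat_lit 396) (nat_lit 341) (nat_lit 283)) (XT.lf (nat_lit 0) (nat_lit 445874439) (nat_lit 304) (nat_lit 4317453036) (nat_lit 380) (nat_lit 6546880790) (nat_lit 236) (nat_lit 5) (nat_lit 240) (nat_lit 5) (nat_lit 241) (nat_lit 5) (nat_lit 397) (nat_lit 341) (nat_lit 282))) (XT.nd (nat_lit 78) (nat_lit 380) (nat_lit 0) (XT.lf (nat_lit 0) (nat_lit 8262992993) (nat_lit 380) (nat_lit 3066777713) (nat_lit 76) (nat_lit 163930239) (nat_lit 236) (nat_lit 5) (nat_lit 241) (nat_lit 5) (nat_lit 237) (nat_lit 5) (nat_lit 398) (nat_lit 341) (nat_lit 281)) (XT.lf (nat_lit 0) (nat_lit 232606419) (nat_lit 380) (nat_lit 6724476442) (nat_lit 76) (nat_lit 4724024248) (nat_lit 231) (nat_lit 5) (nat_lit 236) (nat_lit 5) (nat_lit 232)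 (nat_lit 5) (nat_lit 399) (nat_lit 341) (nat_lit 280)))))) (XT.nd (nat_lit 546) (nat_lit 1368) (nat_lit 0) (XT.nd (nat_lit 234) (nat_lit 912) (nat_lit 0) (XT.nd (nat_lit 78) (nat_lit 304) (nat_lit 0) (XT.lf (nat_lit 0) (nat_lit 1344395507) (nat_lit 304) (nat_lit 2395235338) (nat_lit 380) (nat_lit 8133402656) (nat_lit 227) (nat_lit 5) (nat_lit 231) (nat_lit 5) (nat_lit 232) (nat_lit 5) (nat_lit 400) (nat_lit 341) (nat_lit 279)) (XT.nd (nat_lit 78) (nat_lit 304) (nat_lit 0) (XT.lf (nat_lit 0) (nat_lit 7403512789) (nat_lit 380) (nat_lit 2358643585) (nat_lit 76) (nat_lit 2307011909) (nat_lit 227) (nat_lit 5) (nat_lit 232) (nat_lit 5) (nat_lit 228) (nat_lit 5) (nat_lit 401) (nat_lit 341) (nat_lit 278)) (XT.lf (nat_lit 0) (nat_lit 6093063009) (nat_lit 304) (nat_lit 5128599747) (nat_lit 380) (nat_lit 1048193805) (nat_lit 223) (nat_lit 5) (nat_lit 227) (nat_lit 5) (nat_lit 228) (nat_lit 5) (nat_lit 402) (nat_lit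 341) (nat_lit 277)))) (XT.nd (nat_lit 156) (nat_lit 608) (nat_lit 0) (XT.nd (nat_lit 78) (nat_lit 0) (nat_lit 0) (XT.lf (nat_lit 0) (nat_lit 2331593862) (nat_lit 228) (nat_lit 302654041) (nat_lit 304) (nat_lit 9841284081) (nat_lit 219) (nat_lit 5) (nat_lit 222) (nat_lit 5) (nat_lit 223) (nat_lit 5) (nat_lit 403) (nat_lit 341) (nat_lit 276)) (XT.lf (nat_lit 0) (nat_lit 6476541043) (nat_lit 304) (nat_lit 1578609777) (nat_lit 76) (nat_lit 4629802130) (nat_lit 219) (nat_lit 5) (nat_lit 223) (nat_lit 5) (nat_lit 220) (nat_lit 5) (nat_lit 404) (nat_lit 341) (nat_lit 275))) (XT.nd (nat_lit 78) (nat_lit 304) (nat_lit 0) (XT.lf (nat_lit 0) (nat_lit 7326278524) (nat_lit 304) (nat_lit 3144917958) (nat_lit 380) (nat_lit 2428347258) (nat_lit 215) (nat_lit 5) (nat_lit 219) (nat_lit 5) (nat_lit 220) (nat_lit 5) (nat_lit 405) (nat_lit 341) (nat_lit 274)) (XT.lf (nat_lit 0) (nat_lit 1467994430) (nat_lit 304) (nat_lit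 9733308797) (nat_lit 76) (nat_lit 1917902572) (nat_lit 211) (nat_lit 5) (nat_lit 215) (nat_lit 5) (nat_lit 212) (nat_lit 5) (nat_lit 406) (nat_lit 341) (nat_lit 273))))) (XT.nd (nat_lit 312) (nat_lit 532) (nat_lit 0) (XT.nd (nat_lit 156) (nat_lit 532) (nat_lit 0) (XT.nd (nat_lit 78) (nat_lit 304) (nat_lit 0) (XT.lf (nat_lit 0) (nat_lit 5484524061) (nat_lit 304) (nat_lit 729250987) (nat_lit 76) (nat_lit 7129398229) (nat_lit 211) (nat_lit 5) (nat_lit 215) (nat_lit 5) (nat_lit 212) (nat_lit 5) (nat_lit 407) (nat_lit 341) (nat_lit 272)) (XT.lf (nat_lit 0) (nat_lit 8657732155) (nat_lit 304) (nat_lit 1012216567) (nat_lit 380) (nat_lit 3902459081) (nat_lit 207) (nat_lit 5) (nat_lit 211) (nat_lit 5) (nat_lit 212) (nat_lit 5) (nat_lit 408) (nat_lit 341) (nat_lit 271))) (XT.nd (nat_lit 78) (nat_lit 228) (nat_lit 0) (XT.lf (nat_lit 0) (nat_lit 227764395) (nat_lit 304) (nat_lit 9286032537) (nat_lit 76) (nat_lit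 4292911351) (nat_lit 203) (nat_lit 5) (nat_lit 207) (nat_lit 5) (nat_lit 204) (nat_lit 5) (nat_lit 409) (nat_lit 341) (nat_lit 270)) (XT.lf (nat_lit 0) (nat_lit 191319073) (nat_lit 228) (nat_lit 4239704227) (nat_lit 304) (nat_lit 9615028401) (nat_lit 200) (nat_lit 5) (nat_lit 203) (nat_lit 5) (nat_lit 204) (nat_lit 5) (nat_lit 410) (nat_lit 341) (nat_lit 269)))) (XT.nd (nat_lit 156) (nat_lit 304) (nat_lit 0) (XT.nd (nat_lit 78) (nat_lit 228) (nat_lit 0) (XT.lf (nat_lit 0) (nat_lit 8832378853) (nat_lit 304) (nat_lit 4215608878) (nat_lit 76) (nat_lit 1242427725) (nat_lit 200) (nat_lit 5) (nat_lit 204) (nat_lit 5) (nat_lit 201) (nat_lit 5) (nat_lit 411) (nat_lit 341) (nat_lit 268)) (XT.lf (nat_lit 0) (nat_lit 5727326609) (nat_lit 228) (nat_lit 7702311003) (nat_lit 304) (nat_lit 1110556634) (nat_lit 197) (nat_lit 5) (nat_lit 200) (nat_lit 5) (nat_lit 201) (nat_lit 5) (nat_lit 412) (nat_lit 341) (nat_lit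 267))) (XT.nd (nat_lit 78) (nat_lit 0) (nat_lit 0) (XT.lf (nat_lit 0) (nat_lit 1194023261) (nat_lit 228) (nat_lit 2129031798) (nat_lit 304) (nat_lit 11472797779) (nat_lit 193) (nat_lit 5) (nat_lit 196) (nat_lit 5) (nat_lit 197) (nat_lit 5) (nat_lit 413) (nat_lit 341) (nat_lit 266)) (XT.lf (nat_lit 0) (nat_lit 7959115291) (nat_lit 304) (nat_lit 3476814345) (nat_lit 76) (nat_lit 3620168846) (nat_lit 193) (nat_lit 5) (nat_lit 197) (nat_lit 5) (nat_lit 194) (nat_lit 5) (nat_lit 414) (nat_lit 341) (nat_lit 265))))))) (XT.nd (nat_lit 1170) (nat_lit 1672) (nat_lit 0) (XT.nd (nat_lit 546) (nat_lit 1216) (nat_lit 0) (XT.nd (nat_lit 234) (nat_lit 608) (nat_lit 0) (XT.nd (nat_lit 78) (nat_lit 304) (nat_lit 0) (XT.lf (nat_lit 0) (nat_lit 7013866929) (nat_lit 228) (nat_lit 5777019703) (nat_lit 304) (nat_lit 2531565983) (nat_lit 190) (nat_lit 5) (nat_lit 193) (nat_lit 5) (nat_lit 194) (nat_lit 5) (nat_lit 415) (nat_lit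 341) (nat_lit 264)) (XT.nd (nat_lit 78) (nat_lit 0) (nat_lit 0) (XT.lf (nat_lit 0) (nat_lit 2154959321) (nat_lit 304) (nat_lit 13332683334) (nat_lit 76) (nat_lit 107733523) (nat_lit 186) (nat_lit 5) (nat_lit 190) (nat_lit 5) (nat_lit 187) (nat_lit 5) (nat_lit 416) (nat_lit 341) (nat_lit 263)) (XT.lf (nat_lit 0) (nat_lit 7041559233) (nat_lit 304) (nat_lit 2689810742) (nat_lit 76) (nat_lit 6141054698) (nat_lit 186) (nat_lit 5) (nat_lit 190) (nat_lit 5) (nat_lit 187) (nat_lit 5) (nat_lit 417) (nat_lit 341) (nat_lit 262)))) (XT.nd (nat_lit 156) (nat_lit 152) (nat_lit 0) (XT.nd (nat_lit 78) (nat_lit 304) (nat_lit 0) (XT.lf (nat_lit 0) (nat_lit 8383341113) (nat_lit 152) (nat_lit 3741352784) (nat_lit 228) (nat_lit 4031592622) (nat_lit 184) (nat_lit 5) (nat_lit 186) (nat_lit 5) (nat_lit 187) (nat_lit 5) (nat_lit 418) (nat_lit 341) (nat_lit 261)) (XT.lf (nat_lit 0) (nat_lit 947243798) (nat_lit 304) (nat_lit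 13070712687) (nat_lit 76) (nat_lit 2428843581) (nat_lit 180) (nat_lit 5) (nat_lit 184) (nat_lit 5) (nat_lit 181) (nat_lit 5) (nat_lit 419) (nat_lit 341) (nat_lit 260))) (XT.nd (nat_lit 78) (nat_lit 152) (nat_lit 0) (XT.lf (nat_lit 0) (nat_lit 6080346451) (nat_lit 304) (nat_lit 1855347916) (nat_lit 76) (nat_lit 8806559182) (nat_lit 180) (nat_lit 5) (nat_lit 184) (nat_lit 5) (nat_lit 181) (nat_lit 5) (nat_lit 420) (nat_lit 341) (nat_lit 259)) (XT.lf (nat_lit 0) (nat_lit 9837109453) (nat_lit 152) (nat_lit 1595398298) (nat_lit 228) (nat_lit 5612110918) (nat_lit 178) (nat_lit 5) (nat_lit 180) (nat_lit 5) (nat_lit 181) (nat_lit 5) (nat_lit 421) (nat_lit 341) (nat_lit 258))))) (XT.nd (nat_lit 312) (nat_lit 608) (nat_lit 0) (XT.nd (nat_lit 156) (nat_lit 304) (nat_lit 0) (XT.nd (nat_lit 78) (nat_lit 76) (nat_lit 0) (XT.lf (nat_lit 0) (nat_lit 4552605914) (nat_lit 228) (nat_lit 12473417759) (nat_lit 304) (nat_lit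 327607379) (nat_lit 175) (nat_lit 5) (nat_lit 178) (nat_lit 5) (nat_lit 179) (nat_lit 5) (nat_lit 422) (nat_lit 341) (nat_lit 257)) (XT.lf (nat_lit 0) (nat_lit 5075653787) (nat_lit 304) (nat_lit 973713462) (nat_lit 76) (nat_lit 11619270086) (nat_lit 174) (nat_lit 5) (nat_lit 178) (nat_lit 5) (nat_lit 175) (nat_lit 5) (nat_lit 423) (nat_lit 341) (nat_lit 256))) (XT.nd (nat_lit 78) (nat_lit 152) (nat_lit 0) (XT.lf (nat_lit 0) (nat_lit 10721749755) (nat_lit 228) (nat_lit 6619809429) (nat_lit 76) (nat_lit 648817666) (nat_lit 172) (nat_lit 5) (nat_lit 175) (nat_lit 5) (nat_lit 173) (nat_lit 5) (nat_lit 424) (nat_lit 341) (nat_lit 255)) (XT.lf (nat_lit 0) (nat_lit 5786377122) (nat_lit 152) (nat_lit 10848039007) (nat_lit 228) (nat_lit 1684436797) (nat_lit 170) (nat_lit 5) (nat_lit 172) (nat_lit 5) (nat_lit 173) (nat_lit 5) (nat_lit 425) (nat_lit 341) (nat_lit 254)))) (XT.nd (nat_lit 156) (nat_lit 380) (nat_lit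 0) (XT.nd (nat_lit 78) (nat_lit 152) (nat_lit 0) (XT.lf (nat_lit 0) (nat_lit 4027230368) (nat_lit 228) (nat_lit 44764032) (nat_lit 76) (nat_lit 14582836415) (nat_lit 169) (nat_lit 5) (nat_lit 172) (nat_lit 5) (nat_lit 170) (nat_lit 5) (nat_lit 426) (nat_lit 341) (nat_lit 253)) (XT.lf (nat_lit 0) (nat_lit 10003186969) (nat_lit 228) (nat_lit 6020720634) (nat_lit 76) (nat_lit 2972676263) (nat_lit 167) (nat_lit 5) (nat_lit 170) (nat_lit 5) (nat_lit 168) (nat_lit 5) (nat_lit 427) (nat_lit 341) (nat_lit 252))) (XT.nd (nat_lit 78) (nat_lit 228) (nat_lit 0) (XT.lf (nat_lit 0) (nat_lit 7088512642) (nat_lit 152) (nat_lit 9151580435) (nat_lit 228) (nat_lit 3106046307) (nat_lit 165) (nat_lit 5) (nat_lit 167) (nat_lit 5) (nat_lit 168) (nat_lit 5) (nat_lit 428) (nat_lit 341) (nat_lit 251)) (XT.lf (nat_lit 0) (nat_lit 950597741) (nat_lit 152) (nat_lit 1992964001) (nat_lit 228) (nat_lit 16760466123) (nat_lit 162) (nat_lit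 5) (nat_lit 164) (nat_lit 5) (nat_lit 165) (nat_lit 5) (nat_lit 429) (nat_lit 341) (nat_lit 250)))))) (XT.nd (nat_lit 624) (nat_lit 760) (nat_lit 0) (XT.nd (nat_lit 312) (nat_lit 532) (nat_lit 0) (XT.nd (nat_lit 156) (nat_lit 228) (nat_lit 0) (XT.nd (nat_lit 78) (nat_lit 152) (nat_lit 0) (XT.lf (nat_lit 0) (nat_lit 9261889451) (nat_lit 228) (nat_lit 5395417281) (nat_lit 76) (nat_lit 5409933884) (nat_lit 162) (nat_lit 5) (nat_lit 165) (nat_lit 5) (nat_lit 163) (nat_lit 5) (nat_lit 430) (nat_lit 341) (nat_lit 249)) (XT.lf (nat_lit 0) (nat_lit 8461021598) (nat_lit 152) (nat_lit 7383535034) (nat_lit 228) (nat_lit 4594549428) (nat_lit 160) (nat_lit 5) (nat_lit 162) (nat_lit 5) (nat_lit 163) (nat_lit 5) (nat_lit 431) (nat_lit 341) (nat_lit 248))) (XT.nd (nat_lit 78) (nat_lit 0) (nat_lit 0) (XT.lf (nat_lit 0) (nat_lit 1817137969) (nat_lit 228) (nat_lit 18825295492) (nat_lit 76) (nat_lit 177682091) (nat_lit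 157) (nat_lit 5) (nat_lit 160) (nat_lit 5) (nat_lit 158) (nat_lit 5) (nat_lit 432) (nat_lit 341) (nat_lit 247)) (XT.lf (nat_lit 0) (nat_lit 8497970232) (nat_lit 228) (nat_lit 4744113756) (nat_lit 76) (nat_lit 7964032420) (nat_lit 157) (nat_lit 5) (nat_lit 160) (nat_lit 5) (nat_lit 158) (nat_lit 5) (nat_lit 433) (nat_lit 341) (nat_lit 246)))) (XT.nd (nat_lit 156) (nat_lit 152) (nat_lit 0) (XT.nd (nat_lit 78) (nat_lit 228) (nat_lit 0) (XT.lf (nat_lit 0) (nat_lit 9906360440) (nat_lit 152) (nat_lit 5542736793) (nat_lit 228) (nat_lit 6152503964) (nat_lit 155) (nat_lit 5) (nat_lit 157) (nat_lit 5) (nat_lit 158) (nat_lit 5) (nat_lit 434) (nat_lit 341) (nat_lit 245)) (XT.lf (nat_lit 0) (nat_lit 664492213) (nat_lit 228) (nat_lit 18937056388) (nat_lit 76) (nat_lit 2404937283) (nat_lit 152) (nat_lit 5) (nat_lit 155) (nat_lit 5) (nat_lit 153) (nat_lit 5) (nat_lit 435) (nat_lit 341) (nat_lit 244))) (XT.nd (nat_lit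 78) (nat_lit 152) (nat_lit 0) (XT.lf (nat_lit 0) (nat_lit 7711270319) (nat_lit 228) (nat_lit 4066749468) (nat_lit 76) (nat_lit 10639201910) (nat_lit 152) (nat_lit 5) (nat_lit 155) (nat_lit 5) (nat_lit 153) (nat_lit 5) (nat_lit 436) (nat_lit 341) (nat_lit 243)) (XT.lf (nat_lit 0) (nat_lit 11427421477) (nat_lit 152) (nat_lit 3627396494) (nat_lit 228) (nat_lit 7782900626) (nat_lit 150) (nat_lit 5) (nat_lit 152) (nat_lit 5) (nat_lit 153) (nat_lit 5) (nat_lit 437) (nat_lit 341) (nat_lit 242))))) (XT.nd (nat_lit 312) (nat_lit 380) (nat_lit 0) (XT.nd (nat_lit 156) (nat_lit 228) (nat_lit 0) (XT.nd (nat_lit 78) (nat_lit 76) (nat_lit 0) (XT.lf (nat_lit 0) (nat_lit 4190396293) (nat_lit 76) (nat_lit 18531463052) (nat_lit 152) (nat_lit 545875442) (nat_lit 149) (nat_lit 5) (nat_lit 150) (nat_lit 5) (nat_lit 151) (nat_lit 4) (nat_lit 438) (nat_lit 341) (nat_lit 241)) (XT.lf (nat_lit 0) (nat_lit 6901376489) (nat_lit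 152) (nat_lit 3363006731) (nat_lit 76) (nat_lit 13440438419) (nat_lit 148) (nat_lit 5) (nat_lit 150) (nat_lit 5) (nat_lit 149) (nat_lit 5) (nat_lit 439) (nat_lit 341) (nat_lit 240))) (XT.nd (nat_lit 78) (nat_lit 76) (nat_lit 0) (XT.lf (nat_lit 0) (nat_lit 13027525108) (nat_lit 152) (nat_lit 1635131045) (nat_lit 228) (nat_lit 9489155350) (nat_lit 146) (nat_lit 5) (nat_lit 148) (nat_lit 5) (nat_lit 149) (nat_lit 5) (nat_lit 440) (nat_lit 341) (nat_lit 239)) (XT.lf (nat_lit 0) (nat_lit 5357900204) (nat_lit 76) (nat_lit 17430821973) (nat_lit 152) (nat_lit 1819530446) (nat_lit 145) (nat_lit 5) (nat_lit 146) (nat_lit 5) (nat_lit 147) (nat_lit 4) (nat_lit 441) (nat_lit 341) (nat_lit 238)))) (XT.nd (nat_lit 156) (nat_lit 152) (nat_lit 0) (XT.nd (nat_lit 78) (nat_lit 152) (nat_lit 0) (XT.lf (nat_lit 0) (nat_lit 6067636242) (nat_lit 152) (nat_lit 2632325797) (nat_lit 76) (nat_lit 16373488565) (nat_lit 144) (nat_lit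 5) (nat_lit 146) (nat_lit 5) (nat_lit 145) (nat_lit 5) (nat_lit 442) (nat_lit 341) (nat_lit 237)) (XT.lf (nat_lit 0) (nat_lit 14277603231) (nat_lit 228) (nat_lit 10842292787) (nat_lit 76) (nat_lit 428485370) (nat_lit 142) (nat_lit 5) (nat_lit 145) (nat_lit 5) (nat_lit 143) (nat_lit 4) (nat_lit 443) (nat_lit 341) (nat_lit 236))) (XT.nd (nat_lit 78) (nat_lit 76) (nat_lit 0) (XT.lf (nat_lit 0) (nat_lit 6580938347) (nat_lit 76) (nat_lit 16306390071) (nat_lit 152) (nat_lit 3145627903) (nat_lit 141) (nat_lit 5) (nat_lit 142) (nat_lit 5) (nat_lit 143) (nat_lit 4) (nat_lit 444) (nat_lit 341) (nat_lit 235)) (XT.lf (nat_lit 0) (nat_lit 5209170176) (nat_lit 152) (nat_lit 1873917317) (nat_lit 76) (nat_lit 19444840180) (nat_lit 140) (nat_lit 5) (nat_lit 142) (nat_lit 5) (nat_lit 141) (nat_lit 5) (nat_lit 445) (nat_lit 341) (nat_lit 234))))))))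
noncomputable def xc103 : XT := (XT.nd (nat_lit 2418) (nat_lit 1292) (nat_lit 0) (XT.nd (nat_lit 1170) (nat_lit 1140) (nat_lit 0) (XT.nd (nat_lit 546) (nat_lit 912) (nat_lit 0) (XT.nd (nat_lit 234) (nat_lit 456) (nat_lit 0) (XT.nd (nat_lit 78) (nat_lit 152) (nat_lit 0) (XT.lf (nat_lit 0) (nat_lit 13912638638) (nat_lit 228) (nat_lit 10577385779) (nat_lit 76) (nat_lit 2541951892) (nat_lit 138) (nat_lit 5) (nat_lit 141) (nat_lit 5) (nat_lit 139) (nat_lit 4) (nat_lit 446) (nat_lit 341) (nat_lit 233)) (XT.nd (nat_lit 78) (nat_lit 76) (nat_lit 0) (XT.lf (nat_lit 0) (nat_lit 7862118920) (nat_lit 76) (nat_lit 15157877852) (nat_lit 152) (nat_lit 4526866062) (nat_lit 137) (nat_lit 5) (nat_lit 138) (nat_lit 5) (nat_lit 139) (nat_lit 4) (nat_lit 447) (nat_lit 341) (nat_lit 232)) (XT.lf (nat_lit 0) (nat_lit 4324882025) (nat_lit 152) (nat_lit 1086772454) (nat_lit 76) (nat_lit 22661718696) (nat_lit 136) (nat_lit 5)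 (nat_lit 138) (nat_lit 5) (nat_lit 137) (nat_lit 5) (nat_lit 448) (nat_lit 341) (nat_lit 231)))) (XT.nd (nat_lit 156) (nat_lit 228) (nat_lit 0) (XT.nd (nat_lit 78) (nat_lit 76) (nat_lit 0) (XT.lf (nat_lit 0) (nat_lit 13552629418) (nat_lit 228) (nat_lit 10314519847) (nat_lit 76) (nat_lit 4741141976) (nat_lit 134) (nat_lit 5) (nat_lit 137) (nat_lit 5) (nat_lit 135) (nat_lit 4) (nat_lit 449) (nat_lit 341) (nat_lit 230)) (XT.lf (nat_lit 0) (nat_lit 9204368351) (nat_lit 76) (nat_lit 13984674703) (nat_lit 152) (nat_lit 5966258780) (nat_lit 133) (nat_lit 5) (nat_lit 134) (nat_lit 5) (nat_lit 135) (nat_lit 4) (nat_lit 450) (nat_lit 341) (nat_lit 229))) (XT.nd (nat_lit 78) (nat_lit 152) (nat_lit 0) (XT.lf (nat_lit 0) (nat_lit 3413466558) (nat_lit 152) (nat_lit 269670857) (nat_lit 76) (nat_lit 26032088897) (nat_lit 132) (nat_lit 5) (nat_lit 134) (nat_lit 5) (nat_lit 133) (nat_lit 5) (nat_lit 451) (nat_lit 341)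 (nat_lit 228)) (XT.lf (nat_lit 0) (nat_lit 13198064039) (nat_lit 228) (nat_lit 10054268339) (nat_lit 76) (nat_lit 7030542102) (nat_lit 130) (nat_lit 5) (nat_lit 133) (nat_lit 5) (nat_lit 131) (nat_lit 4) (nat_lit 452) (nat_lit 341) (nat_lit 227))))) (XT.nd (nat_lit 312) (nat_lit 532) (nat_lit 0) (XT.nd (nat_lit 156) (nat_lit 76) (nat_lit 0) (XT.nd (nat_lit 78) (nat_lit 228) (nat_lit 0) (XT.lf (nat_lit 0) (nat_lit 10610930776) (nat_lit 76) (nat_lit 12785868254) (nat_lit 152) (nat_lit 7467135075) (nat_lit 129) (nat_lit 5) (nat_lit 130) (nat_lit 5) (nat_lit 131) (nat_lit 4) (nat_lit 453) (nat_lit 341) (nat_lit 226)) (XT.lf (nat_lit 0) (nat_lit 590332835) (nat_lit 152) (nat_lit 1888757324) (nat_lit 228) (nat_lit 28980003545) (nat_lit 126) (nat_lit 5) (nat_lit 128) (nat_lit 5) (nat_lit 129) (nat_lit 5) (nat_lit 454) (nat_lit 341) (nat_lit 225))) (XT.nd (nat_lit 78) (nat_lit 76) (nat_lit 0) (XT.lf (nat_lit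 0) (nat_lit 12849346176) (nat_lit 228) (nat_lit 9797117340) (nat_lit 76) (nat_lit 9415154832) (nat_lit 126) (nat_lit 5) (nat_lit 129) (nat_lit 5) (nat_lit 127) (nat_lit 4) (nat_lit 455) (nat_lit 341) (nat_lit 224)) (XT.lf (nat_lit 0) (nat_lit 12085369765) (nat_lit 76) (nat_lit 11560260428) (nat_lit 152) (nat_lit 9033140930) (nat_lit 125) (nat_lit 5) (nat_lit 126) (nat_lit 5) (nat_lit 127) (nat_lit 4) (nat_lit 456) (nat_lit 341) (nat_lit 223)))) (XT.nd (nat_lit 156) (nat_lit 304) (nat_lit 0) (XT.nd (nat_lit 78) (nat_lit 0) (nat_lit 0) (XT.lf (nat_lit 0) (nat_lit 1489370167) (nat_lit 152) (nat_lit 27968345) (nat_lit 228) (nat_lit 31793852559) (nat_lit 122) (nat_lit 5) (nat_lit 124) (nat_lit 5) (nat_lit 125) (nat_lit 5) (nat_lit 457) (nat_lit 341) (nat_lit 222)) (XT.lf (nat_lit 0) (nat_lit 12506805049) (nat_lit 228) (nat_lit 9543476082) (nat_lit 76) (nat_lit 11900498477) (nat_lit 122) (nat_lit 5) (nat_lit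 125) (nat_lit 5) (nat_lit 123) (nat_lit 4) (nat_lit 458) (nat_lit 341) (nat_lit 221))) (XT.nd (nat_lit 78) (nat_lit 228) (nat_lit 0) (XT.lf (nat_lit 0) (nat_lit 13631572181) (nat_lit 76) (nat_lit 10306380493) (nat_lit 152) (nat_lit 10668243215) (nat_lit 121) (nat_lit 5) (nat_lit 122) (nat_lit 5) (nat_lit 123) (nat_lit 4) (nat_lit 459) (nat_lit 341) (nat_lit 220)) (XT.lf (nat_lit 0) (nat_lit 541948549) (nat_lit 228) (nat_lit 32872440653) (nat_lit 76) (nat_lit 1863173410) (nat_lit 118) (nat_lit 5) (nat_lit 121) (nat_lit 5) (nat_lit 119) (nat_lit 4) (nat_lit 460) (nat_lit 341) (nat_lit 219)))))) (XT.nd (nat_lit 624) (nat_lit 608) (nat_lit 0) (XT.nd (nat_lit 312) (nat_lit 304) (nat_lit 0) (XT.nd (nat_lit 156) (nat_lit 152) (nat_lit 0) (XT.nd (nat_lit 78) (nat_lit 76) (nat_lit 0) (XT.lf (nat_lit 0) (nat_lit 12170704585) (nat_lit 228) (nat_lit 9293686171) (nat_lit 76) (nat_lit 14492610405) (nat_lit 118) (nat_lit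 5) (nat_lit 121) (nat_lit 5) (nat_lit 119) (nat_lit 4) (nat_lit 461) (nat_lit 341) (nat_lit 218)) (XT.lf (nat_lit 0) (nat_lit 15253754068) (nat_lit 76) (nat_lit 9022495364) (nat_lit 152) (nat_lit 12376735654) (nat_lit 117) (nat_lit 5) (nat_lit 118) (nat_lit 5) (nat_lit 119) (nat_lit 4) (nat_lit 462) (nat_lit 341) (nat_lit 217))) (XT.nd (nat_lit 78) (nat_lit 76) (nat_lit 0) (XT.lf (nat_lit 0) (nat_lit 3352770487) (nat_lit 76) (nat_lit 33536982203) (nat_lit 76) (nat_lit 475752073) (nat_lit 116) (nat_lit 4) (nat_lit 117) (nat_lit 5) (nat_lit 117) (nat_lit 4) (nat_lit 463) (nat_lit 341) (nat_lit 216)) (XT.lf (nat_lit 0) (nat_lit 11841251533) (nat_lit 152) (nat_lit 9048029771) (nat_lit 76) (nat_lit 17198053833) (nat_lit 115) (nat_lit 5) (nat_lit 117) (nat_lit 5) (nat_lit 116) (nat_lit 4) (nat_lit 464) (nat_lit 341) (nat_lit 215)))) (XT.nd (nat_lit 156) (nat_lit 152) (nat_lit 0) (XT.nd (nat_lit 78) (nat_lit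 76) (nat_lit 0) (XT.lf (nat_lit 0) (nat_lit 16956468493) (nat_lit 76) (nat_lit 7706617401) (nat_lit 152) (nat_lit 14163246731) (nat_lit 114) (nat_lit 5) (nat_lit 115) (nat_lit 5) (nat_lit 116) (nat_lit 4) (nat_lit 465) (nat_lit 341) (nat_lit 214)) (XT.lf (nat_lit 0) (nat_lit 4333692829) (nat_lit 76) (nat_lit 33708167588) (nat_lit 76) (nat_lit 1540471068) (nat_lit 113) (nat_lit 4) (nat_lit 114) (nat_lit 5) (nat_lit 114) (nat_lit 4) (nat_lit 466) (nat_lit 341) (nat_lit 213))) (XT.nd (nat_lit 78) (nat_lit 76) (nat_lit 0) (XT.lf (nat_lit 0) (nat_lit 11518602642) (nat_lit 152) (nat_lit 8806736854) (nat_lit 76) (nat_lit 20023927915) (nat_lit 112) (nat_lit 5) (nat_lit 114) (nat_lit 5) (nat_lit 113) (nat_lit 4) (nat_lit 467) (nat_lit 341) (nat_lit 212)) (XT.lf (nat_lit 0) (nat_lit 18744615287) (nat_lit 76) (nat_lit 6356509906) (nat_lit 152) (nat_lit 16032749499) (nat_lit 111) (nat_lit 5) (nat_lit 112) (nat_lit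 5) (nat_lit 113) (nat_lit 4) (nat_lit 468) (nat_lit 341) (nat_lit 211))))) (XT.nd (nat_lit 312) (nat_lit 304) (nat_lit 0) (XT.nd (nat_lit 156) (nat_lit 152) (nat_lit 0) (XT.nd (nat_lit 78) (nat_lit 76) (nat_lit 0) (XT.lf (nat_lit 0) (nat_lit 5355758337) (nat_lit 76) (nat_lit 33936340057) (nat_lit 76) (nat_lit 2643892549) (nat_lit 110) (nat_lit 4) (nat_lit 111) (nat_lit 5) (nat_lit 111) (nat_lit 4) (nat_lit 469) (nat_lit 341) (nat_lit 210)) (XT.lf (nat_lit 0) (nat_lit 11202871028) (nat_lit 152) (nat_lit 8569991622) (nat_lit 76) (nat_lit 22977881029) (nat_lit 109) (nat_lit 5) (nat_lit 111) (nat_lit 5) (nat_lit 110) (nat_lit 4) (nat_lit 470) (nat_lit 341) (nat_lit 209))) (XT.nd (nat_lit 78) (nat_lit 76) (nat_lit 0) (XT.lf (nat_lit 0) (nat_lit 20623452630) (nat_lit 76) (nat_lit 4969690474) (nat_lit 152) (nat_lit 17990573224) (nat_lit 108) (nat_lit 5) (nat_lit 109) (nat_lit 5) (nat_lit 110) (nat_lit 4) (nat_lit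 471) (nat_lit 341) (nat_lit 208)) (XT.lf (nat_lit 0) (nat_lit 6421565007) (nat_lit 76) (nat_lit 34224499315) (nat_lit 76) (nat_lit 3788685602) (nat_lit 107) (nat_lit 4) (nat_lit 108) (nat_lit 5) (nat_lit 108) (nat_lit 4) (nat_lit 472) (nat_lit 341) (nat_lit 207)))) (XT.nd (nat_lit 156) (nat_lit 152) (nat_lit 0) (XT.nd (nat_lit 78) (nat_lit 76) (nat_lit 0) (XT.lf (nat_lit 0) (nat_lit 10894131799) (nat_lit 152) (nat_lit 8337938201) (nat_lit 76) (nat_lit 26068127139) (nat_lit 106) (nat_lit 5) (nat_lit 108) (nat_lit 5) (nat_lit 107) (nat_lit 4) (nat_lit 473) (nat_lit 341) (nat_lit 206)) (XT.lf (nat_lit 0) (nat_lit 22598610456) (nat_lit 76) (nat_lit 3543432365) (nat_lit 152) (nat_lit 20042416859) (nat_lit 105) (nat_lit 5) (nat_lit 106) (nat_lit 5) (nat_lit 107) (nat_lit 4) (nat_lit 474) (nat_lit 341) (nat_lit 205))) (XT.nd (nat_lit 78) (nat_lit 76) (nat_lit 0) (XT.lf (nat_lit 0) (nat_lit 7533916459) (nat_lit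 76) (nat_lit 34575742736) (nat_lit 76) (nat_lit 4977722861) (nat_lit 104) (nat_lit 4) (nat_lit 105) (nat_lit 5) (nat_lit 105) (nat_lit 4) (nat_lit 475) (nat_lit 341) (nat_lit 204)) (XT.lf (nat_lit 0) (nat_lit 10592427031) (nat_lit 152) (nat_lit 8110685674) (nat_lit 76) (nat_lit 29303465187) (nat_lit 103) (nat_lit 5) (nat_lit 105) (nat_lit 5) (nat_lit 104) (nat_lit 4) (nat_lit 476) (nat_lit 341) (nat_lit 203))))))) (XT.nd (nat_lit 1170) (nat_lit 152) (nat_lit 0) (XT.nd (nat_lit 546) (nat_lit 608) (nat_lit 0) (XT.nd (nat_lit 234) (nat_lit 304) (nat_lit 0) (XT.nd (nat_lit 78) (nat_lit 152) (nat_lit 0) (XT.lf (nat_lit 0) (nat_lit 24676105671) (nat_lit 76) (nat_lit 2074764022) (nat_lit 152) (nat_lit 22194364314) (nat_lit 102) (nat_lit 5) (nat_lit 103) (nat_lit 5) (nat_lit 104) (nat_lit 4) (nat_lit 477) (nat_lit 341) (nat_lit 202)) (XT.nd (nat_lit 78) (nat_lit 76) (nat_lit 0) (XT.lf (nat_lit 0) (nat_lit 8695827486)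 (nat_lit 76) (nat_lit 34993284789) (nat_lit 76) (nat_lit 6214086129) (nat_lit 101) (nat_lit 4) (nat_lit 102) (nat_lit 5) (nat_lit 102) (nat_lit 4) (nat_lit 478) (nat_lit 341) (nat_lit 201)) (XT.lf (nat_lit 0) (nat_lit 10297770175) (nat_lit 152) (nat_lit 7888312547) (nat_lit 76) (nat_lit 32693301453) (nat_lit 100) (nat_lit 5) (nat_lit 102) (nat_lit 5) (nat_lit 101) (nat_lit 4) (nat_lit 479) (nat_lit 341) (nat_lit 200)))) (XT.nd (nat_lit 156) (nat_lit 152) (nat_lit 0) (XT.nd (nat_lit 78) (nat_lit 76) (nat_lit 0) (XT.lf (nat_lit 0) (nat_lit 26862359163) (nat_lit 76) (nat_lit 560466827) (nat_lit 152) (nat_lit 24452901535) (nat_lit 99) (nat_lit 5) (nat_lit 100) (nat_lit 5) (nat_lit 101) (nat_lit 4) (nat_lit 480) (nat_lit 341) (nat_lit 199)) (XT.lf (nat_lit 0) (nat_lit 9910530782) (nat_lit 76) (nat_lit 35480476040) (nat_lit 76) (nat_lit 7501073154) (nat_lit 98) (nat_lit 4) (nat_lit 99) (nat_lit 5) (nat_lit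 99) (nat_lit 4) (nat_lit 481) (nat_lit 341) (nat_lit 198))) (XT.nd (nat_lit 78) (nat_lit 76) (nat_lit 0) (XT.lf (nat_lit 0) (nat_lit 10010149939) (nat_lit 152) (nat_lit 7670870688) (nat_lit 76) (nat_lit 36247674869) (nat_lit 97) (nat_lit 5) (nat_lit 99) (nat_lit 5) (nat_lit 98) (nat_lit 4) (nat_lit 482) (nat_lit 341) (nat_lit 197)) (XT.lf (nat_lit 0) (nat_lit 28170926610) (nat_lit 152) (nat_lit 25831647359) (nat_lit 0) (nat_lit 983358040) (nat_lit 96) (nat_lit 5) (nat_lit 98) (nat_lit 4) (nat_lit 96) (nat_lit 4) (nat_lit 483) (nat_lit 341) (nat_lit 196))))) (XT.nd (nat_lit 312) (nat_lit 304) (nat_lit 0) (XT.nd (nat_lit 156) (nat_lit 152) (nat_lit 0) (XT.nd (nat_lit 78) (nat_lit 76) (nat_lit 0) (XT.lf (nat_lit 0) (nat_lit 11181484797) (nat_lit 76) (nat_lit 36040821870) (nat_lit 76) (nat_lit 8842205547) (nat_lit 95) (nat_lit 4) (nat_lit 96) (nat_lit 5) (nat_lit 96) (nat_lit 4) (nat_lit 484) (nat_lit 341)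 (nat_lit 195)) (XT.lf (nat_lit 0) (nat_lit 9729533729) (nat_lit 152) (nat_lit 7458388826) (nat_lit 76) (nat_lit 39977285286) (nat_lit 94) (nat_lit 5) (nat_lit 96) (nat_lit 5) (nat_lit 95) (nat_lit 4) (nat_lit 485) (nat_lit 341) (nat_lit 194))) (XT.nd (nat_lit 78) (nat_lit 76) (nat_lit 0) (XT.lf (nat_lit 0) (nat_lit 28994987278) (nat_lit 152) (nat_lit 26723842375) (nat_lit 0) (nat_lit 2568039837) (nat_lit 93) (nat_lit 5) (nat_lit 95) (nat_lit 4) (nat_lit 93) (nat_lit 4) (nat_lit 486) (nat_lit 341) (nat_lit 193)) (XT.lf (nat_lit 0) (nat_lit 12512382729) (nat_lit 76) (nat_lit 36678001053) (nat_lit 76) (nat_lit 10241237826) (nat_lit 92) (nat_lit 4) (nat_lit 93) (nat_lit 5) (nat_lit 93) (nat_lit 4) (nat_lit 487) (nat_lit 341) (nat_lit 192)))) (XT.nd (nat_lit 156) (nat_lit 152) (nat_lit 0) (XT.nd (nat_lit 78) (nat_lit 76) (nat_lit 0) (XT.lf (nat_lit 0) (nat_lit 9455870682) (nat_lit 152) (nat_lit 7250875631)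 (nat_lit 76) (nat_lit 43893524707) (nat_lit 91) (nat_lit 5) (nat_lit 93) (nat_lit 5) (nat_lit 92) (nat_lit 4) (nat_lit 488) (nat_lit 341) (nat_lit 191)) (XT.lf (nat_lit 0) (nat_lit 29893422507) (nat_lit 152) (nat_lit 27688427455) (nat_lit 0) (nat_lit 4208426937) (nat_lit 90) (nat_lit 5) (nat_lit 92) (nat_lit 4) (nat_lit 90) (nat_lit 4) (nat_lit 489) (nat_lit 341) (nat_lit 190))) (XT.nd (nat_lit 78) (nat_lit 76) (nat_lit 0) (XT.lf (nat_lit 0) (nat_lit 13907162635) (nat_lit 76) (nat_lit 37395884352) (nat_lit 76) (nat_lit 11702167583) (nat_lit 89) (nat_lit 4) (nat_lit 90) (nat_lit 5) (nat_lit 90) (nat_lit 4) (nat_lit 490) (nat_lit 341) (nat_lit 189)) (XT.lf (nat_lit 0) (nat_lit 9189094338) (nat_lit 152) (nat_lit 7048322443) (nat_lit 76) (nat_lit 48008511532) (nat_lit 88) (nat_lit 5) (nat_lit 90) (nat_lit 5) (nat_lit 89) (nat_lit 4) (nat_lit 491) (nat_lit 341) (nat_lit 188)))))) (XT.nd (nat_lit 41886) (nat_lit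 0) (nat_lit 29488) (XT.nd (nat_lit 41574) (nat_lit 0) (nat_lit 31616) (XT.nd (nat_lit 41418) (nat_lit 0) (nat_lit 32300) (XT.nd (nat_lit 78) (nat_lit 76) (nat_lit 0) (XT.lf (nat_lit 0) (nat_lit 30870255453) (nat_lit 152) (nat_lit 28729483558) (nat_lit 0) (nat_lit 5908697668) (nat_lit 87) (nat_lit 5) (nat_lit 89) (nat_lit 4) (nat_lit 87) (nat_lit 4) (nat_lit 492) (nat_lit 341) (nat_lit 187)) (XT.lf (nat_lit 0) (nat_lit 15370018671) (nat_lit 76) (nat_lit 38198553233) (nat_lit 76) (nat_lit 13229246776) (nat_lit 86) (nat_lit 4) (nat_lit 87) (nat_lit 5) (nat_lit 87) (nat_lit 4) (nat_lit 493) (nat_lit 341) (nat_lit 186))) (XT.nd (nat_lit 78) (nat_lit 228) (nat_lit 0) (XT.lf (nat_lit 0) (nat_lit 2942383602) (nat_lit 228) (nat_lit 143603562) (nat_lit 228) (nat_lit 143603562) (nat_lit 514) (nat_lit 3) (nat_lit 517) (nat_lit 3) (nat_lit 517) (nat_lit 5) (nat_lit 342) (nat_lit 342) (nat_lit 336)) (XT.lf (nat_lit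 0) (nat_lit 2347832983) (nat_lit 228) (nat_lit 3491418422) (nat_lit 304) (nat_lit 629401312) (nat_lit 511) (nat_lit 5) (nat_lit 514) (nat_lit 3) (nat_lit 515) (nat_lit 5) (nat_lit 343) (nat_lit 342) (nat_lit 335)))) (XT.nd (nat_lit 156) (nat_lit 380) (nat_lit 0) (XT.nd (nat_lit 78) (nat_lit 304) (nat_lit 0) (XT.lf (nat_lit 0) (nat_lit 5235759449) (nat_lit 228) (nat_lit 199465541) (nat_lit 304) (nat_lit 1046325800) (nat_lit 511) (nat_lit 5) (nat_lit 514) (nat_lit 3) (nat_lit 515) (nat_lit 5) (nat_lit 344) (nat_lit 342) (nat_lit 334)) (XT.lf (nat_lit 0) (nat_lit 1601863723) (nat_lit 304) (nat_lit 3318490834) (nat_lit 380) (nat_lit 1576391003) (nat_lit 507) (nat_lit 5) (nat_lit 511) (nat_lit 5) (nat_lit 512) (nat_lit 5) (nat_lit 345) (nat_lit 342) (nat_lit 333))) (XT.nd (nat_lit 78) (nat_lit 380) (nat_lit 0) (XT.lf (nat_lit 76) (nat_lit 77487626) (nat_lit 0) (nat_lit 4326710049) (nat_lit 380) (nat_lit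 2110999811) (nat_lit 508) (nat_lit 5) (nat_lit 507) (nat_lit 5) (nat_lit 512) (nat_lit 5) (nat_lit 346) (nat_lit 342) (nat_lit 332)) (XT.lf (nat_lit 0) (nat_lit 668523315) (nat_lit 380) (nat_lit 2959692064) (nat_lit 456) (nat_lit 2907962918) (nat_lit 502) (nat_lit 5) (nat_lit 507) (nat_lit 5) (nat_lit 508) (nat_lit 5) (nat_lit 347) (nat_lit 342) (nat_lit 331))))) (XT.nd (nat_lit 312) (nat_lit 1672) (nat_lit 0) (XT.nd (nat_lit 156) (nat_lit 456) (nat_lit 0) (XT.nd (nat_lit 78) (nat_lit 0) (nat_lit 0) (XT.lf (nat_lit 76) (nat_lit 552089105) (nat_lit 0) (nat_lit 2838378971) (nat_lit 456) (nat_lit 3169649480) (nat_lit 503) (nat_lit 5) (nat_lit 502) (nat_lit 5) (nat_lit 508) (nat_lit 5) (nat_lit 348) (nat_lit 342) (nat_lit 330)) (XT.lf (nat_lit 76) (nat_lit 4170037719) (nat_lit 0) (nat_lit 1952527622) (nat_lit 456) (nat_lit 464354826) (nat_lit 503) (nat_lit 5) (nat_lit 502) (nat_lit 5) (nat_lit 508) (nat_lit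 5) (nat_lit 349) (nat_lit 342) (nat_lit 329))) (XT.nd (nat_lit 78) (nat_lit 0) (nat_lit 76) (XT.lf (nat_lit 76) (nat_lit 1223458668) (nat_lit 0) (nat_lit 965673738) (nat_lit 532) (nat_lit 4427354421) (nat_lit 497) (nat_lit 5) (nat_lit 496) (nat_lit 5) (nat_lit 503) (nat_lit 5) (nat_lit 350) (nat_lit 342) (nat_lit 328)) (XT.lf (nat_lit 0) (nat_lit 4841297306) (nat_lit 456) (nat_lit 1691758794) (nat_lit 76) (nat_lit 115894275) (nat_lit 497) (nat_lit 5) (nat_lit 503) (nat_lit 5) (nat_lit 498) (nat_lit 5) (nat_lit 351) (nat_lit 342) (nat_lit 327)))) (XT.nd (nat_lit 156) (nat_lit 1216) (nat_lit 0) (XT.nd (nat_lit 78) (nat_lit 0) (nat_lit 0) (XT.lf (nat_lit 0) (nat_lit 808371010) (nat_lit 532) (nat_lit 4601401663) (nat_lit 76) (nat_lit 1274304978) (nat_lit 490) (nat_lit 5) (nat_lit 497) (nat_lit 5) (nat_lit 491) (nat_lit 5) (nat_lit 352) (nat_lit 342) (nat_lit 326)) (XT.lf (nat_lit 0) (nat_lit 3391130943)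 (nat_lit 532) (nat_lit 794984790) (nat_lit 76) (nat_lit 2535868470) (nat_lit 490) (nat_lit 5) (nat_lit 497) (nat_lit 5) (nat_lit 491) (nat_lit 5) (nat_lit 353) (nat_lit 342) (nat_lit 325))) (XT.nd (nat_lit 78) (nat_lit 684) (nat_lit 0) (XT.lf (nat_lit 0) (nat_lit 3126245338) (nat_lit 532) (nat_lit 2865213288) (nat_lit 608) (nat_lit 771366777) (nat_lit 483) (nat_lit 5) (nat_lit 490) (nat_lit 5) (nat_lit 491) (nat_lit 5) (nat_lit 354) (nat_lit 342) (nat_lit 324)) (XT.lf (nat_lit 0) (nat_lit 303107731) (nat_lit 608) (nat_lit 1447635190) (nat_lit 684) (nat_lit 5055944232) (nat_lit 474) (nat_lit 5) (nat_lit 482) (nat_lit 5) (nat_lit 483) (nat_lit 5) (nat_lit 355) (nat_lit 342) (nat_lit 323))))))))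
noncomputable def xc104 : XT := (XT.nd (nat_lit 2340) (nat_lit 7144) (nat_lit 0) (XT.nd (nat_lit 1170) (nat_lit 5624) (nat_lit 0) (XT.nd (nat_lit 546) (nat_lit 5472) (nat_lit 0) (XT.nd (nat_lit 234) (nat_lit 2584) (nat_lit 0) (XT.nd (nat_lit 78) (nat_lit 760) (nat_lit 0) (XT.lf (nat_lit 0) (nat_lit 4283675252) (nat_lit 684) (nat_lit 2487158599) (nat_lit 76) (nat_lit 82281893) (nat_lit 474) (nat_lit 5) (nat_lit 483) (nat_lit 5) (nat_lit 475) (nat_lit 5) (nat_lit 356) (nat_lit 342) (nat_lit 322)) (XT.nd (nat_lit 78) (nat_lit 76) (nat_lit 0) (XT.lf (nat_lit 0) (nat_lit 1604788239) (nat_lit 684) (nat_lit 5233544465) (nat_lit 760) (nat_lit 64232375) (nat_lit 465) (nat_lit 5) (nat_lit 474) (nat_lit 5) (nat_lit 475) (nat_lit 5) (nat_lit 357) (nat_lit 342) (nat_lit 321)) (XT.lf (nat_lit 0) (nat_lit 2409419288) (nat_lit 760) (nat_lit 1169694771) (nat_lit 76) (nat_lit 3375386655) (nat_lit 464) (nat_lit 5) (nat_lit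 474) (nat_lit 5) (nat_lit 465) (nat_lit 5) (nat_lit 358) (nat_lit 342) (nat_lit 320)))) (XT.nd (nat_lit 156) (nat_lit 912) (nat_lit 0) (XT.nd (nat_lit 78) (nat_lit 912) (nat_lit 0) (XT.lf (nat_lit 0) (nat_lit 3080548262) (nat_lit 760) (nat_lit 1824492188) (nat_lit 836) (nat_lit 2104463358) (nat_lit 454) (nat_lit 5) (nat_lit 464) (nat_lit 5) (nat_lit 465) (nat_lit 5) (nat_lit 359) (nat_lit 342) (nat_lit 319)) (XT.lf (nat_lit 0) (nat_lit 337363595) (nat_lit 912) (nat_lit 6710907982) (nat_lit 76) (nat_lit 19688004) (nat_lit 442) (nat_lit 5) (nat_lit 454) (nat_lit 5) (nat_lit 443) (nat_lit 5) (nat_lit 360) (nat_lit 342) (nat_lit 318))) (XT.nd (nat_lit 78) (nat_lit 912) (nat_lit 0) (XT.lf (nat_lit 0) (nat_lit 2790585704) (nat_lit 912) (nat_lit 2378118870) (nat_lit 76) (nat_lit 1959426226) (nat_lit 442) (nat_lit 5) (nat_lit 454) (nat_lit 5) (nat_lit 443) (nat_lit 5) (nat_lit 361) (nat_lit 342) (nat_lit 317))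 (XT.lf (nat_lit 0) (nat_lit 2062744901) (nat_lit 912) (nat_lit 3199057000) (nat_lit 988) (nat_lit 1929973332) (nat_lit 430) (nat_lit 5) (nat_lit 442) (nat_lit 5) (nat_lit 443) (nat_lit 5) (nat_lit 362) (nat_lit 342) (nat_lit 316))))) (XT.nd (nat_lit 312) (nat_lit 3268) (nat_lit 0) (XT.nd (nat_lit 156) (nat_lit 1140) (nat_lit 0) (XT.nd (nat_lit 78) (nat_lit 988) (nat_lit 0) (XT.lf (nat_lit 0) (nat_lit 488792073) (nat_lit 988) (nat_lit 639582902) (nat_lit 76) (nat_lit 6130304599) (nat_lit 429) (nat_lit 5) (nat_lit 442) (nat_lit 5) (nat_lit 430) (nat_lit 5) (nat_lit 363) (nat_lit 342) (nat_lit 315)) (XT.lf (nat_lit 0) (nat_lit 2917552637) (nat_lit 1064) (nat_lit 3356429588) (nat_lit 76) (nat_lit 1053748878) (nat_lit 416) (nat_lit 5) (nat_lit 430) (nat_lit 5) (nat_lit 417) (nat_lit 5) (nat_lit 364) (nat_lit 342) (nat_lit 314))) (XT.nd (nat_lit 78) (nat_lit 76) (nat_lit 0) (XT.lf (nat_lit 0) (nat_lit 1285997899)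 (nat_lit 1064) (nat_lit 4092473851) (nat_lit 1140) (nat_lit 2021603557) (nat_lit 402) (nat_lit 5) (nat_lit 416) (nat_lit 5) (nat_lit 417) (nat_lit 5) (nat_lit 365) (nat_lit 342) (nat_lit 313)) (XT.lf (nat_lit 0) (nat_lit 394314632) (nat_lit 1140) (nat_lit 1405223589) (nat_lit 76) (nat_lit 5675997766) (nat_lit 401) (nat_lit 5) (nat_lit 416) (nat_lit 5) (nat_lit 402) (nat_lit 5) (nat_lit 366) (nat_lit 342) (nat_lit 312)))) (XT.nd (nat_lit 156) (nat_lit 912) (nat_lit 0) (XT.nd (nat_lit 78) (nat_lit 1216) (nat_lit 0) (XT.lf (nat_lit 0) (nat_lit 2813092977) (nat_lit 1216) (nat_lit 4129632501) (nat_lit 76) (nat_lit 610804088) (nat_lit 386) (nat_lit 5) (nat_lit 402) (nat_lit 5) (nat_lit 387) (nat_lit 5) (nat_lit 367) (nat_lit 342) (nat_lit 311)) (XT.lf (nat_lit 0) (nat_lit 726283321) (nat_lit 1216) (nat_lit 4550778489) (nat_lit 1292) (nat_lit 2357622329) (nat_lit 370) (nat_lit 5) (nat_lit 386) (nat_lit 5)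 (nat_lit 387) (nat_lit 5) (nat_lit 368) (nat_lit 342) (nat_lit 310))) (XT.nd (nat_lit 78) (nat_lit 836) (nat_lit 0) (XT.lf (nat_lit 0) (nat_lit 71092141) (nat_lit 1292) (nat_lit 1969715905) (nat_lit 76) (nat_lit 5678148355) (nat_lit 369) (nat_lit 5) (nat_lit 386) (nat_lit 5) (nat_lit 370) (nat_lit 5) (nat_lit 369) (nat_lit 342) (nat_lit 309)) (XT.lf (nat_lit 0) (nat_lit 2496887546) (nat_lit 912) (nat_lit 4719754780) (nat_lit 76) (nat_lit 589266060) (nat_lit 358) (nat_lit 5) (nat_lit 370) (nat_lit 5) (nat_lit 359) (nat_lit 5) (nat_lit 370) (nat_lit 342) (nat_lit 308)))))) (XT.nd (nat_lit 546) (nat_lit 2584) (nat_lit 0) (XT.nd (nat_lit 234) (nat_lit 1748) (nat_lit 0) (XT.nd (nat_lit 78) (nat_lit 684) (nat_lit 0) (XT.lf (nat_lit 0) (nat_lit 362573249) (nat_lit 608) (nat_lit 4614049449) (nat_lit 684) (nat_lit 2919411256) (nat_lit 350) (nat_lit 5) (nat_lit 358) (nat_lit 5) (nat_lit 359) (nat_lit 5) (nat_lit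 371) (nat_lit 342) (nat_lit 307)) (XT.nd (nat_lit 78) (nat_lit 684) (nat_lit 0) (XT.lf (nat_lit 0) (nat_lit 5631438949) (nat_lit 608) (nat_lit 1885579737) (nat_lit 684) (nat_lit 472256538) (nat_lit 350) (nat_lit 5) (nat_lit 358) (nat_lit 5) (nat_lit 359) (nat_lit 5) (nat_lit 372) (nat_lit 342) (nat_lit 306)) (XT.lf (nat_lit 0) (nat_lit 1985842457) (nat_lit 684) (nat_lit 5146170124) (nat_lit 76) (nat_lit 953385475) (nat_lit 341) (nat_lit 5) (nat_lit 350) (nat_lit 5) (nat_lit 342) (nat_lit 5) (nat_lit 373) (nat_lit 342) (nat_lit 305)))) (XT.nd (nat_lit 156) (nat_lit 1216) (nat_lit 0) (XT.nd (nat_lit 78) (nat_lit 0) (nat_lit 0) (XT.lf (nat_lit 0) (nat_lit 176516829) (nat_lit 532) (nat_lit 4317032673) (nat_lit 608) (nat_lit 3691154089) (nat_lit 334) (nat_lit 5) (nat_lit 341) (nat_lit 5) (nat_lit 342) (nat_lit 5) (nat_lit 374) (nat_lit 342) (nat_lit 304)) (XT.lf (nat_lit 0) (nat_lit 5701801274) (nat_lit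 532) (nat_lit 1368717044) (nat_lit 608) (nat_lit 1216649056) (nat_lit 334) (nat_lit 5) (nat_lit 341) (nat_lit 5) (nat_lit 342) (nat_lit 5) (nat_lit 375) (nat_lit 342) (nat_lit 303))) (XT.nd (nat_lit 78) (nat_lit 532) (nat_lit 0) (XT.lf (nat_lit 0) (nat_lit 1294369237) (nat_lit 684) (nat_lit 5425886896) (nat_lit 76) (nat_lit 1672416631) (nat_lit 325) (nat_lit 5) (nat_lit 334) (nat_lit 5) (nat_lit 326) (nat_lit 5) (nat_lit 376) (nat_lit 342) (nat_lit 302)) (XT.lf (nat_lit 0) (nat_lit 152157930) (nat_lit 532) (nat_lit 3689693759) (nat_lit 608) (nat_lit 4659562636) (nat_lit 318) (nat_lit 5) (nat_lit 325) (nat_lit 5) (nat_lit 326) (nat_lit 5) (nat_lit 377) (nat_lit 342) (nat_lit 301))))) (XT.nd (nat_lit 312) (nat_lit 1520) (nat_lit 0) (XT.nd (nat_lit 156) (nat_lit 456) (nat_lit 0) (XT.nd (nat_lit 78) (nat_lit 608) (nat_lit 0) (XT.lf (nat_lit 0) (nat_lit 5946491265) (nat_lit 532) (nat_lit 519291691) (nat_lit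 608) (nat_lit 2147634444) (nat_lit 318) (nat_lit 5) (nat_lit 325) (nat_lit 5) (nat_lit 326) (nat_lit 5) (nat_lit 378) (nat_lit 342) (nat_lit 300)) (XT.lf (nat_lit 0) (nat_lit 434631745) (nat_lit 608) (nat_lit 5573803525) (nat_lit 76) (nat_lit 2720111732) (nat_lit 310) (nat_lit 5) (nat_lit 318) (nat_lit 5) (nat_lit 311) (nat_lit 5) (nat_lit 379) (nat_lit 342) (nat_lit 299))) (XT.nd (nat_lit 78) (nat_lit 0) (nat_lit 0) (XT.lf (nat_lit 0) (nat_lit 275685385) (nat_lit 456) (nat_lit 2757705747) (nat_lit 532) (nat_lit 5813635734) (nat_lit 304) (nat_lit 5) (nat_lit 310) (nat_lit 5) (nat_lit 311) (nat_lit 5) (nat_lit 380) (nat_lit 342) (nat_lit 298)) (XT.lf (nat_lit 0) (nat_lit 5720681129) (nat_lit 532) (nat_lit 2621970205) (nat_lit 76) (nat_lit 626092756) (nat_lit 304) (nat_lit 5) (nat_lit 311) (nat_lit 5) (nat_lit 305) (nat_lit 5) (nat_lit 381) (nat_lit 342) (nat_lit 297)))) (XT.nd (nat_lit 156) (nat_lit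 456) (nat_lit 0) (XT.nd (nat_lit 78) (nat_lit 532) (nat_lit 0) (XT.lf (nat_lit 0) (nat_lit 3485148983) (nat_lit 532) (nat_lit 5013808749) (nat_lit 608) (nat_lit 594844061) (nat_lit 297) (nat_lit 5) (nat_lit 304) (nat_lit 5) (nat_lit 305) (nat_lit 5) (nat_lit 382) (nat_lit 342) (nat_lit 296)) (XT.lf (nat_lit 0) (nat_lit 535212259) (nat_lit 456) (nat_lit 1542879468) (nat_lit 532) (nat_lit 7144447761) (nat_lit 290) (nat_lit 5) (nat_lit 296) (nat_lit 5) (nat_lit 297) (nat_lit 5) (nat_lit 383) (nat_lit 342) (nat_lit 295))) (XT.nd (nat_lit 78) (nat_lit 456) (nat_lit 0) (XT.lf (nat_lit 0) (nat_lit 4846700888) (nat_lit 532) (nat_lit 2463643788) (nat_lit 76) (nat_lit 2043794720) (nat_lit 290) (nat_lit 5) (nat_lit 297) (nat_lit 5) (nat_lit 291) (nat_lit 5) (nat_lit 384) (nat_lit 342) (nat_lit 294)) (XT.lf (nat_lit 0) (nat_lit 3947747837) (nat_lit 456) (nat_lit 3755989721) (nat_lit 532) (nat_lit 1785788665) (nat_lit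 284) (nat_lit 5) (nat_lit 290) (nat_lit 5) (nat_lit 291) (nat_lit 5) (nat_lit 385) (nat_lit 342) (nat_lit 293))))))) (XT.nd (nat_lit 1170) (nat_lit 3116) (nat_lit 0) (XT.nd (nat_lit 546) (nat_lit 1900) (nat_lit 0) (XT.nd (nat_lit 234) (nat_lit 1216) (nat_lit 0) (XT.nd (nat_lit 78) (nat_lit 456) (nat_lit 0) (XT.lf (nat_lit 0) (nat_lit 920580962) (nat_lit 380) (nat_lit 63542673) (nat_lit 456) (nat_lit 8644963544) (nat_lit 278) (nat_lit 5) (nat_lit 283) (nat_lit 5) (nat_lit 284) (nat_lit 5) (nat_lit 386) (nat_lit 342) (nat_lit 292)) (XT.nd (nat_lit 78) (nat_lit 456) (nat_lit 0) (XT.lf (nat_lit 0) (nat_lit 3846867978) (nat_lit 456) (nat_lit 2196707283) (nat_lit 76) (nat_lit 3727360452) (nat_lit 278) (nat_lit 5) (nat_lit 284) (nat_lit 5) (nat_lit 279) (nat_lit 5) (nat_lit 387) (nat_lit 342) (nat_lit 291)) (XT.lf (nat_lit 0) (nat_lit 4538396310) (nat_lit 456) (nat_lit 2255881494) (nat_lit 532) (nat_lit 3122798406)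 (nat_lit 272) (nat_lit 5) (nat_lit 278) (nat_lit 5) (nat_lit 279) (nat_lit 5) (nat_lit 388) (nat_lit 342) (nat_lit 290)))) (XT.nd (nat_lit 156) (nat_lit 760) (nat_lit 0) (XT.nd (nat_lit 78) (nat_lit 76) (nat_lit 0) (XT.lf (nat_lit 0) (nat_lit 1404423559) (nat_lit 380) (nat_lit 8432546235) (nat_lit 456) (nat_lit 230425329) (nat_lit 267) (nat_lit 5) (nat_lit 272) (nat_lit 5) (nat_lit 273) (nat_lit 5) (nat_lit 389) (nat_lit 342) (nat_lit 289)) (XT.lf (nat_lit 0) (nat_lit 2727702408) (nat_lit 456) (nat_lit 1829497976) (nat_lit 76) (nat_lit 5663251926) (nat_lit 266) (nat_lit 5) (nat_lit 272) (nat_lit 5) (nat_lit 267) (nat_lit 5) (nat_lit 390) (nat_lit 342) (nat_lit 288))) (XT.nd (nat_lit 78) (nat_lit 380) (nat_lit 0) (XT.lf (nat_lit 0) (nat_lit 5250032822) (nat_lit 380) (nat_lit 527107946) (nat_lit 456) (nat_lit 4600676055) (nat_lit 261) (nat_lit 5) (nat_lit 266) (nat_lit 5) (nat_lit 267) (nat_lit 5) (nat_lit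 391) (nat_lit 342) (nat_lit 287)) (XT.lf (nat_lit 0) (nat_lit 1984147586) (nat_lit 380) (nat_lit 6963755547) (nat_lit 456) (nat_lit 1591103914) (nat_lit 256) (nat_lit 5) (nat_lit 261) (nat_lit 5) (nat_lit 262) (nat_lit 5) (nat_lit 392) (nat_lit 342) (nat_lit 286))))) (XT.nd (nat_lit 312) (nat_lit 1064) (nat_lit 0) (XT.nd (nat_lit 156) (nat_lit 380) (nat_lit 0) (XT.nd (nat_lit 78) (nat_lit 380) (nat_lit 0) (XT.lf (nat_lit 0) (nat_lit 1494362254) (nat_lit 456) (nat_lit 1369079551) (nat_lit 76) (nat_lit 7840704637) (nat_lit 255) (nat_lit 5) (nat_lit 261) (nat_lit 5) (nat_lit 256) (nat_lit 5) (nat_lit 393) (nat_lit 342) (nat_lit 285)) (XT.lf (nat_lit 0) (nat_lit 4671244246) (nat_lit 456) (nat_lit 4809964031) (nat_lit 76) (nat_lit 1391634193) (nat_lit 250) (nat_lit 5) (nat_lit 256) (nat_lit 5) (nat_lit 251) (nat_lit 5) (nat_lit 394) (nat_lit 342) (nat_lit 284))) (XT.nd (nat_lit 78) (nat_lit 76) (nat_lit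 0) (XT.lf (nat_lit 0) (nat_lit 2664526731) (nat_lit 304) (nat_lit 5306088105) (nat_lit 380) (nat_lit 3075169078) (nat_lit 246) (nat_lit 5) (nat_lit 250) (nat_lit 5) (nat_lit 251) (nat_lit 5) (nat_lit 395) (nat_lit 342) (nat_lit 283)) (XT.lf (nat_lit 0) (nat_lit 150762039) (nat_lit 380) (nat_lit 821366492) (nat_lit 76) (nat_lit 10251487053) (nat_lit 245) (nat_lit 5) (nat_lit 250) (nat_lit 5) (nat_lit 246) (nat_lit 5) (nat_lit 396) (nat_lit 342) (nat_lit 282)))) (XT.nd (nat_lit 156) (nat_lit 380) (nat_lit 0) (XT.nd (nat_lit 78) (nat_lit 304) (nat_lit 0) (XT.lf (nat_lit 0) (nat_lit 3474122547) (nat_lit 456) (nat_lit 4424807239) (nat_lit 76) (nat_lit 3505065222) (nat_lit 240) (nat_lit 5) (nat_lit 246) (nat_lit 5) (nat_lit 241) (nat_lit 5) (nat_lit 397) (nat_lit 342) (nat_lit 281)) (XT.lf (nat_lit 0) (nat_lit 3440895014) (nat_lit 304) (nat_lit 3468463219) (nat_lit 380) (nat_lit 4680062352) (nat_lit 236)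 (nat_lit 5) (nat_lit 240) (nat_lit 5) (nat_lit 241) (nat_lit 5) (nat_lit 398) (nat_lit 342) (nat_lit 280))) (XT.nd (nat_lit 78) (nat_lit 380) (nat_lit 0) (XT.lf (nat_lit 0) (nat_lit 10464802204) (nat_lit 380) (nat_lit 214769200) (nat_lit 76) (nat_lit 1100322988) (nat_lit 236) (nat_lit 5) (nat_lit 241) (nat_lit 5) (nat_lit 237) (nat_lit 5) (nat_lit 399) (nat_lit 342) (nat_lit 279)) (XT.lf (nat_lit 0) (nat_lit 2183675670) (nat_lit 380) (nat_lit 3972370528) (nat_lit 76) (nat_lit 5817171393) (nat_lit 231) (nat_lit 5) (nat_lit 236) (nat_lit 5) (nat_lit 232) (nat_lit 5) (nat_lit 400) (nat_lit 342) (nat_lit 278)))))) (XT.nd (nat_lit 624) (nat_lit 1292) (nat_lit 0) (XT.nd (nat_lit 312) (nat_lit 912) (nat_lit 0) (XT.nd (nat_lit 156) (nat_lit 304) (nat_lit 0) (XT.nd (nat_lit 78) (nat_lit 304) (nat_lit 0) (XT.lf (nat_lit 0) (nat_lit 4309608363) (nat_lit 304) (nat_lit 1457794201) (nat_lit 380) (nat_lit 6404354460)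 (nat_lit 227) (nat_lit 5) (nat_lit 231) (nat_lit 5) (nat_lit 232) (nat_lit 5) (nat_lit 401) (nat_lit 342) (nat_lit 277)) (XT.lf (nat_lit 0) (nat_lit 465750114) (nat_lit 304) (nat_lit 9033553661) (nat_lit 380) (nat_lit 2875728989) (nat_lit 223) (nat_lit 5) (nat_lit 227) (nat_lit 5) (nat_lit 228) (nat_lit 5) (nat_lit 402) (nat_lit 342) (nat_lit 276))) (XT.nd (nat_lit 78) (nat_lit 228) (nat_lit 0) (XT.lf (nat_lit 0) (nat_lit 801904192) (nat_lit 380) (nat_lit 3456922284) (nat_lit 76) (nat_lit 8323622842) (nat_lit 222) (nat_lit 5) (nat_lit 227) (nat_lit 5) (nat_lit 223) (nat_lit 5) (nat_lit 403) (nat_lit 342) (nat_lit 275)) (XT.lf (nat_lit 0) (nat_lit 4554045790) (nat_lit 304) (nat_lit 7533753642) (nat_lit 76) (nat_lit 706775398) (nat_lit 219) (nat_lit 5) (nat_lit 223) (nat_lit 5) (nat_lit 220) (nat_lit 5) (nat_lit 404) (nat_lit 342) (nat_lit 274)))) (XT.nd (nat_lit 156) (nat_lit 608) (nat_lit 0) (XT.nd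 (nat_lit 78) (nat_lit 0) (nat_lit 0) (XT.lf (nat_lit 0) (nat_lit 1224633849) (nat_lit 304) (nat_lit 7248040427) (nat_lit 380) (nat_lit 4538772153) (nat_lit 215) (nat_lit 5) (nat_lit 219) (nat_lit 5) (nat_lit 220) (nat_lit 5) (nat_lit 405) (nat_lit 342) (nat_lit 273)) (XT.lf (nat_lit 0) (nat_lit 10345058990) (nat_lit 304) (nat_lit 2205106265) (nat_lit 380) (nat_lit 683419811) (nat_lit 215) (nat_lit 5) (nat_lit 219) (nat_lit 5) (nat_lit 220) (nat_lit 5) (nat_lit 406) (nat_lit 342) (nat_lit 272))) (XT.nd (nat_lit 78) (nat_lit 304) (nat_lit 0) (XT.lf (nat_lit 0) (nat_lit 3279494887) (nat_lit 304) (nat_lit 7175998711) (nat_lit 76) (nat_lit 3004264556) (nat_lit 211) (nat_lit 5) (nat_lit 215) (nat_lit 5) (nat_lit 212) (nat_lit 5) (nat_lit 407) (nat_lit 342) (nat_lit 271)) (XT.lf (nat_lit 0) (nat_lit 2055297497) (nat_lit 304) (nat_lit 5329500251) (nat_lit 380) (nat_lit 6306598588) (nat_lit 207) (nat_lit 5)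 (nat_lit 211) (nat_lit 5) (nat_lit 212) (nat_lit 5) (nat_lit 408) (nat_lit 342) (nat_lit 270))))) (XT.nd (nat_lit 312) (nat_lit 760) (nat_lit 0) (XT.nd (nat_lit 156) (nat_lit 228) (nat_lit 0) (XT.nd (nat_lit 78) (nat_lit 304) (nat_lit 0) (XT.lf (nat_lit 0) (nat_lit 11652420375) (nat_lit 380) (nat_lit 2272188163) (nat_lit 76) (nat_lit 4200305) (nat_lit 207) (nat_lit 5) (nat_lit 212) (nat_lit 5) (nat_lit 208) (nat_lit 5) (nat_lit 409) (nat_lit 342) (nat_lit 269)) (XT.lf (nat_lit 0) (nat_lit 1930494757) (nat_lit 304) (nat_lit 6778209998) (nat_lit 76) (nat_lit 5461327853) (nat_lit 203) (nat_lit 5) (nat_lit 207) (nat_lit 5) (nat_lit 204) (nat_lit 5) (nat_lit 410) (nat_lit 342) (nat_lit 268))) (XT.nd (nat_lit 78) (nat_lit 0) (nat_lit 0) (XT.lf (nat_lit 0) (nat_lit 2956144479) (nat_lit 228) (nat_lit 3280833901) (nat_lit 304) (nat_lit 8180264141) (nat_lit 200) (nat_lit 5) (nat_lit 203) (nat_lit 5) (nat_lit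 204) (nat_lit 5) (nat_lit 411) (nat_lit 342) (nat_lit 267)) (XT.lf (nat_lit 0) (nat_lit 10731781546) (nat_lit 304) (nat_lit 1624759981) (nat_lit 76) (nat_lit 2313553452) (nat_lit 200) (nat_lit 5) (nat_lit 204) (nat_lit 5) (nat_lit 201) (nat_lit 5) (nat_lit 412) (nat_lit 342) (nat_lit 266)))) (XT.nd (nat_lit 156) (nat_lit 228) (nat_lit 0) (XT.nd (nat_lit 78) (nat_lit 228) (nat_lit 0) (XT.lf (nat_lit 0) (nat_lit 507105955) (nat_lit 304) (nat_lit 6343167767) (nat_lit 76) (nat_lit 8077596475) (nat_lit 196) (nat_lit 5) (nat_lit 200) (nat_lit 5) (nat_lit 197) (nat_lit 5) (nat_lit 413) (nat_lit 342) (nat_lit 265)) (XT.lf (nat_lit 0) (nat_lit 3926237286) (nat_lit 228) (nat_lit 1103650362) (nat_lit 304) (nat_lit 10161626548) (nat_lit 193) (nat_lit 5) (nat_lit 196) (nat_lit 5) (nat_lit 197) (nat_lit 5) (nat_lit 414) (nat_lit 342) (nat_lit 264))) (XT.nd (nat_lit 78) (nat_lit 228) (nat_lit 0) (XT.lf (nat_lit 0)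 (nat_lit 9768385348) (nat_lit 304) (nat_lit 926616839) (nat_lit 76) (nat_lit 4765664352) (nat_lit 193) (nat_lit 5) (nat_lit 197) (nat_lit 5) (nat_lit 194) (nat_lit 5) (nat_lit 415) (nat_lit 342) (nat_lit 263)) (XT.lf (nat_lit 0) (nat_lit 9852760345) (nat_lit 228) (nat_lit 4871873399) (nat_lit 304) (nat_lit 1010991835) (nat_lit 190) (nat_lit 5) (nat_lit 193) (nat_lit 5) (nat_lit 194) (nat_lit 5) (nat_lit 416) (nat_lit 342) (nat_lit 262))))))))
noncomputable def xc105 : XT := (XT.nd (nat_lit 2340) (nat_lit 2660) (nat_lit 0) (XT.nd (nat_lit 1170) (nat_lit 1824) (nat_lit 0) (XT.nd (nat_lit 546) (nat_lit 912) (nat_lit 0) (XT.nd (nat_lit 234) (nat_lit 760) (nat_lit 0) (XT.nd (nat_lit 78) (nat_lit 152) (nat_lit 0) (XT.lf (nat_lit 0) (nat_lit 3775160497) (nat_lit 304) (nat_lit 11063217695) (nat_lit 76) (nat_lit 1178192699) (nat_lit 186) (nat_lit 5) (nat_lit 190) (nat_lit 5) (nat_lit 187) (nat_lit 5) (nat_lit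 417) (nat_lit 342) (nat_lit 261)) (XT.nd (nat_lit 78) (nat_lit 152) (nat_lit 0) (XT.lf (nat_lit 0) (nat_lit 8763051055) (nat_lit 304) (nat_lit 178809783) (nat_lit 76) (nat_lit 7361429223) (nat_lit 186) (nat_lit 5) (nat_lit 190) (nat_lit 5) (nat_lit 187) (nat_lit 5) (nat_lit 418) (nat_lit 342) (nat_lit 260)) (XT.lf (nat_lit 0) (nat_lit 11201127850) (nat_lit 152) (nat_lit 2778232905) (nat_lit 228) (nat_lit 2616886579) (nat_lit 184) (nat_lit 5) (nat_lit 186) (nat_lit 5) (nat_lit 187) (nat_lit 5) (nat_lit 419) (nat_lit 342) (nat_lit 259)))) (XT.nd (nat_lit 156) (nat_lit 304) (nat_lit 0) (XT.nd (nat_lit 78) (nat_lit 152) (nat_lit 0) (XT.lf (nat_lit 0) (nat_lit 2472628426) (nat_lit 304) (nat_lit 10857861056) (nat_lit 76) (nat_lit 3564805565) (nat_lit 180) (nat_lit 5) (nat_lit 184) (nat_lit 5) (nat_lit 181) (nat_lit 5) (nat_lit 420) (nat_lit 342) (nat_lit 258)) (XT.lf (nat_lit 0) (nat_lit 630392892) (nat_lit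 152) (nat_lit 7091789999) (nat_lit 228) (nat_lit 9478555482) (nat_lit 178) (nat_lit 5) (nat_lit 180) (nat_lit 5) (nat_lit 181) (nat_lit 5) (nat_lit 421) (nat_lit 342) (nat_lit 257))) (XT.nd (nat_lit 78) (nat_lit 304) (nat_lit 0) (XT.lf (nat_lit 0) (nat_lit 12636527649) (nat_lit 152) (nat_lit 574063513) (nat_lit 228) (nat_lit 4302312823) (nat_lit 178) (nat_lit 5) (nat_lit 180) (nat_lit 5) (nat_lit 181) (nat_lit 5) (nat_lit 422) (nat_lit 342) (nat_lit 256)) (XT.lf (nat_lit 0) (nat_lit 1110718217) (nat_lit 304) (nat_lit 10640915153) (nat_lit 76) (nat_lit 6079456846) (nat_lit 174) (nat_lit 5) (nat_lit 178) (nat_lit 5) (nat_lit 175) (nat_lit 5) (nat_lit 423) (nat_lit 342) (nat_lit 255))))) (XT.nd (nat_lit 312) (nat_lit 380) (nat_lit 0) (XT.nd (nat_lit 156) (nat_lit 380) (nat_lit 0) (XT.nd (nat_lit 78) (nat_lit 0) (nat_lit 0) (XT.lf (nat_lit 0) (nat_lit 1493101308) (nat_lit 152) (nat_lit 5148756475) (nat_lit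 228) (nat_lit 11514420639) (nat_lit 172) (nat_lit 5) (nat_lit 174) (nat_lit 5) (nat_lit 175) (nat_lit 5) (nat_lit 424) (nat_lit 342) (nat_lit 254)) (XT.lf (nat_lit 0) (nat_lit 12435893569) (nat_lit 228) (nat_lit 4344422863) (nat_lit 76) (nat_lit 1707996985) (nat_lit 172) (nat_lit 5) (nat_lit 175) (nat_lit 5) (nat_lit 173) (nat_lit 5) (nat_lit 425) (nat_lit 342) (nat_lit 253))) (XT.nd (nat_lit 78) (nat_lit 228) (nat_lit 0) (XT.lf (nat_lit 0) (nat_lit 8409694571) (nat_lit 152) (nat_lit 10099235630) (nat_lit 228) (nat_lit 318223865) (nat_lit 170) (nat_lit 5) (nat_lit 172) (nat_lit 5) (nat_lit 173) (nat_lit 5) (nat_lit 426) (nat_lit 342) (nat_lit 252)) (XT.lf (nat_lit 0) (nat_lit 2406059420) (nat_lit 152) (nat_lit 3113757361) (nat_lit 228) (nat_lit 13653505874) (nat_lit 167) (nat_lit 5) (nat_lit 169) (nat_lit 5) (nat_lit 170) (nat_lit 5) (nat_lit 427) (nat_lit 342) (nat_lit 251)))) (XT.nd (nat_lit 156)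 (nat_lit 228) (nat_lit 0) (XT.nd (nat_lit 78) (nat_lit 152) (nat_lit 0) (XT.lf (nat_lit 0) (nat_lit 11645623785) (nat_lit 228) (nat_lit 3789826984) (nat_lit 76) (nat_lit 4090760377) (nat_lit 167) (nat_lit 5) (nat_lit 170) (nat_lit 5) (nat_lit 168) (nat_lit 5) (nat_lit 428) (nat_lit 342) (nat_lit 250)) (XT.lf (nat_lit 0) (nat_lit 9689040984) (nat_lit 152) (nat_lit 8364452471) (nat_lit 228) (nat_lit 1833244183) (nat_lit 165) (nat_lit 5) (nat_lit 167) (nat_lit 5) (nat_lit 168) (nat_lit 5) (nat_lit 429) (nat_lit 342) (nat_lit 249))) (XT.nd (nat_lit 78) (nat_lit 0) (nat_lit 0) (XT.lf (nat_lit 0) (nat_lit 3369972049) (nat_lit 152) (nat_lit 985197613) (nat_lit 228) (nat_lit 15900280007) (nat_lit 162) (nat_lit 5) (nat_lit 164) (nat_lit 5) (nat_lit 165) (nat_lit 5) (nat_lit 430) (nat_lit 342) (nat_lit 248)) (XT.lf (nat_lit 0) (nat_lit 10834467555) (nat_lit 228) (nat_lit 3207480369) (nat_lit 76) (nat_lit 6588468268)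 (nat_lit 162) (nat_lit 5) (nat_lit 165) (nat_lit 5) (nat_lit 163) (nat_lit 5) (nat_lit 431) (nat_lit 342) (nat_lit 247)))))) (XT.nd (nat_lit 546) (nat_lit 912) (nat_lit 0) (XT.nd (nat_lit 234) (nat_lit 532) (nat_lit 0) (XT.nd (nat_lit 78) (nat_lit 228) (nat_lit 0) (XT.lf (nat_lit 0) (nat_lit 11041614427) (nat_lit 152) (nat_lit 6557656253) (nat_lit 228) (nat_lit 3414627241) (nat_lit 160) (nat_lit 5) (nat_lit 162) (nat_lit 5) (nat_lit 163) (nat_lit 5) (nat_lit 432) (nat_lit 342) (nat_lit 246)) (XT.nd (nat_lit 78) (nat_lit 0) (nat_lit 0) (XT.lf (nat_lit 0) (nat_lit 3158574261) (nat_lit 228) (nat_lit 17032455659) (nat_lit 76) (nat_lit 1215081434) (nat_lit 157) (nat_lit 5) (nat_lit 160) (nat_lit 5) (nat_lit 158) (nat_lit 5) (nat_lit 433) (nat_lit 342) (nat_lit 245)) (XT.lf (nat_lit 0) (nat_lit 10002348322) (nat_lit 228) (nat_lit 2597506394) (nat_lit 76) (nat_lit 9204962014) (nat_lit 157) (nat_lit 5) (nat_lit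 160) (nat_lit 5) (nat_lit 158) (nat_lit 5) (nat_lit 434) (nat_lit 342) (nat_lit 244)))) (XT.nd (nat_lit 156) (nat_lit 152) (nat_lit 0) (XT.nd (nat_lit 78) (nat_lit 228) (nat_lit 0) (XT.lf (nat_lit 0) (nat_lit 12470041529) (nat_lit 152) (nat_lit 4677363068) (nat_lit 228) (nat_lit 5065199601) (nat_lit 155) (nat_lit 5) (nat_lit 157) (nat_lit 5) (nat_lit 158) (nat_lit 5) (nat_lit 435) (nat_lit 342) (nat_lit 243)) (XT.lf (nat_lit 0) (nat_lit 1926936415) (nat_lit 228) (nat_lit 17209307757) (nat_lit 76) (nat_lit 3493161005) (nat_lit 152) (nat_lit 5) (nat_lit 155) (nat_lit 5) (nat_lit 153) (nat_lit 5) (nat_lit 436) (nat_lit 342) (nat_lit 242))) (XT.nd (nat_lit 78) (nat_lit 152) (nat_lit 0) (XT.lf (nat_lit 0) (nat_lit 9148928269) (nat_lit 228) (nat_lit 1959761348) (nat_lit 76) (nat_lit 11944859135) (nat_lit 152) (nat_lit 5) (nat_lit 155) (nat_lit 5) (nat_lit 153) (nat_lit 5) (nat_lit 437) (nat_lit 342) (nat_lit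 241)) (XT.lf (nat_lit 0) (nat_lit 13977381876) (nat_lit 152) (nat_lit 2721481303) (nat_lit 228) (nat_lit 6788214956) (nat_lit 150) (nat_lit 5) (nat_lit 152) (nat_lit 5) (nat_lit 153) (nat_lit 5) (nat_lit 438) (nat_lit 342) (nat_lit 240))))) (XT.nd (nat_lit 312) (nat_lit 532) (nat_lit 0) (XT.nd (nat_lit 156) (nat_lit 228) (nat_lit 0) (XT.nd (nat_lit 78) (nat_lit 0) (nat_lit 0) (XT.lf (nat_lit 0) (nat_lit 648882876) (nat_lit 152) (nat_lit 17409106525) (nat_lit 76) (nat_lit 5871934680) (nat_lit 148) (nat_lit 5) (nat_lit 150) (nat_lit 5) (nat_lit 149) (nat_lit 5) (nat_lit 439) (nat_lit 342) (nat_lit 239)) (XT.lf (nat_lit 0) (nat_lit 8273624606) (nat_lit 152) (nat_lit 1293850896) (nat_lit 76) (nat_lit 14813534581) (nat_lit 148) (nat_lit 5) (nat_lit 150) (nat_lit 5) (nat_lit 149) (nat_lit 5) (nat_lit 440) (nat_lit 342) (nat_lit 238))) (XT.nd (nat_lit 78) (nat_lit 76) (nat_lit 0) (XT.lf (nat_lit 0) (nat_lit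 15567121936) (nat_lit 152) (nat_lit 687337962) (nat_lit 228) (nat_lit 8587348227) (nat_lit 146) (nat_lit 5) (nat_lit 148) (nat_lit 5) (nat_lit 149) (nat_lit 5) (nat_lit 441) (nat_lit 342) (nat_lit 237)) (XT.lf (nat_lit 0) (nat_lit 7671072464) (nat_lit 76) (nat_lit 16949677985) (nat_lit 152) (nat_lit 691298754) (nat_lit 145) (nat_lit 5) (nat_lit 146) (nat_lit 5) (nat_lit 147) (nat_lit 4) (nat_lit 442) (nat_lit 342) (nat_lit 236)))) (XT.nd (nat_lit 156) (nat_lit 304) (nat_lit 0) (XT.nd (nat_lit 78) (nat_lit 152) (nat_lit 0) (XT.lf (nat_lit 0) (nat_lit 7375623167) (nat_lit 152) (nat_lit 599143838) (nat_lit 76) (nat_lit 17817108382) (nat_lit 144) (nat_lit 5) (nat_lit 146) (nat_lit 5) (nat_lit 145) (nat_lit 5) (nat_lit 443) (nat_lit 342) (nat_lit 235)) (XT.lf (nat_lit 0) (nat_lit 15828601358) (nat_lit 228) (nat_lit 9052122029) (nat_lit 76) (nat_lit 1400429343) (nat_lit 142) (nat_lit 5) (nat_lit 145) (nat_lit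 5) (nat_lit 143) (nat_lit 4) (nat_lit 444) (nat_lit 342) (nat_lit 234))) (XT.nd (nat_lit 78) (nat_lit 228) (nat_lit 0) (XT.lf (nat_lit 0) (nat_lit 8873066436) (nat_lit 76) (nat_lit 15810988275) (nat_lit 152) (nat_lit 2096587107) (nat_lit 141) (nat_lit 5) (nat_lit 142) (nat_lit 5) (nat_lit 143) (nat_lit 4) (nat_lit 445) (nat_lit 342) (nat_lit 233)) (XT.lf (nat_lit 0) (nat_lit 127708654) (nat_lit 152) (nat_lit 6327408506) (nat_lit 228) (nat_lit 20835958188) (nat_lit 138) (nat_lit 5) (nat_lit 140) (nat_lit 5) (nat_lit 141) (nat_lit 5) (nat_lit 446) (nat_lit 342) (nat_lit 232))))))) (XT.nd (nat_lit 1170) (nat_lit 1140) (nat_lit 0) (XT.nd (nat_lit 546) (nat_lit 912) (nat_lit 0) (XT.nd (nat_lit 234) (nat_lit 304) (nat_lit 0) (XT.nd (nat_lit 78) (nat_lit 304) (nat_lit 0) (XT.lf (nat_lit 0) (nat_lit 15415540887) (nat_lit 228) (nat_lit 8836434742) (nat_lit 76) (nat_lit 3558394277) (nat_lit 138) (nat_lit 5) (nat_lit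 141) (nat_lit 5) (nat_lit 139) (nat_lit 4) (nat_lit 447) (nat_lit 342) (nat_lit 231)) (XT.nd (nat_lit 78) (nat_lit 228) (nat_lit 0) (XT.lf (nat_lit 0) (nat_lit 10136075956) (nat_lit 76) (nat_lit 14648018033) (nat_lit 152) (nat_lit 3556969811) (nat_lit 137) (nat_lit 5) (nat_lit 138) (nat_lit 5) (nat_lit 139) (nat_lit 4) (nat_lit 448) (nat_lit 342) (nat_lit 230)) (XT.lf (nat_lit 0) (nat_lit 897823462) (nat_lit 152) (nat_lit 4617984966) (nat_lit 228) (nat_lit 23367930544) (nat_lit 134) (nat_lit 5) (nat_lit 136) (nat_lit 5) (nat_lit 137) (nat_lit 5) (nat_lit 449) (nat_lit 342) (nat_lit 229)))) (XT.nd (nat_lit 156) (nat_lit 228) (nat_lit 0) (XT.nd (nat_lit 78) (nat_lit 76) (nat_lit 0) (XT.lf (nat_lit 0) (nat_lit 15009162389) (nat_lit 228) (nat_lit 8621680694) (nat_lit 76) (nat_lit 5804198272) (nat_lit 134) (nat_lit 5) (nat_lit 137) (nat_lit 5) (nat_lit 135) (nat_lit 4) (nat_lit 450) (nat_lit 342) (nat_lit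 228)) (XT.lf (nat_lit 0) (nat_lit 11463144005) (nat_lit 76) (nat_lit 13460001635) (nat_lit 152) (nat_lit 5075662311) (nat_lit 133) (nat_lit 5) (nat_lit 134) (nat_lit 5) (nat_lit 135) (nat_lit 4) (nat_lit 451) (nat_lit 342) (nat_lit 227))) (XT.nd (nat_lit 78) (nat_lit 0) (nat_lit 0) (XT.lf (nat_lit 0) (nat_lit 1700584758) (nat_lit 152) (nat_lit 2849800616) (nat_lit 228) (nat_lit 26025262283) (nat_lit 130) (nat_lit 5) (nat_lit 132) (nat_lit 5) (nat_lit 133) (nat_lit 5) (nat_lit 452) (nat_lit 342) (nat_lit 226)) (XT.lf (nat_lit 0) (nat_lit 14609867717) (nat_lit 228) (nat_lit 8408429178) (nat_lit 76) (nat_lit 8142587966) (nat_lit 130) (nat_lit 5) (nat_lit 133) (nat_lit 5) (nat_lit 131) (nat_lit 4) (nat_lit 453) (nat_lit 342) (nat_lit 225))))) (XT.nd (nat_lit 312) (nat_lit 532) (nat_lit 0) (XT.nd (nat_lit 156) (nat_lit 76) (nat_lit 0) (XT.nd (nat_lit 78) (nat_lit 228) (nat_lit 0) (XT.lf (nat_lit 0) (nat_lit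 12857633094) (nat_lit 76) (nat_lit 12245880171) (nat_lit 152) (nat_lit 6656194556) (nat_lit 129) (nat_lit 5) (nat_lit 130) (nat_lit 5) (nat_lit 131) (nat_lit 4) (nat_lit 454) (nat_lit 342) (nat_lit 224)) (XT.lf (nat_lit 0) (nat_lit 2537509278) (nat_lit 152) (nat_lit 1019703594) (nat_lit 228) (nat_lit 28815541142) (nat_lit 126) (nat_lit 5) (nat_lit 128) (nat_lit 5) (nat_lit 129) (nat_lit 5) (nat_lit 455) (nat_lit 342) (nat_lit 223))) (XT.nd (nat_lit 78) (nat_lit 76) (nat_lit 0) (XT.lf (nat_lit 0) (nat_lit 14217980504) (nat_lit 228) (nat_lit 8197166389) (nat_lit 76) (nat_lit 10578825387) (nat_lit 126) (nat_lit 5) (nat_lit 129) (nat_lit 5) (nat_lit 127) (nat_lit 4) (nat_lit 456) (nat_lit 342) (nat_lit 222)) (XT.lf (nat_lit 0) (nat_lit 14323228030) (nat_lit 76) (nat_lit 11004315964) (nat_lit 152) (nat_lit 8302413916) (nat_lit 125) (nat_lit 5) (nat_lit 126) (nat_lit 5) (nat_lit 127) (nat_lit 4) (nat_lit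 457) (nat_lit 342) (nat_lit 221)))) (XT.nd (nat_lit 156) (nat_lit 304) (nat_lit 0) (XT.nd (nat_lit 78) (nat_lit 0) (nat_lit 0) (XT.lf (nat_lit 0) (nat_lit 2542880814) (nat_lit 228) (nat_lit 30879479264) (nat_lit 76) (nat_lit 858766060) (nat_lit 122) (nat_lit 5) (nat_lit 125) (nat_lit 5) (nat_lit 123) (nat_lit 4) (nat_lit 458) (nat_lit 342) (nat_lit 220)) (XT.lf (nat_lit 0) (nat_lit 13833755862) (nat_lit 228) (nat_lit 7988305265) (nat_lit 76) (nat_lit 13118689470) (nat_lit 122) (nat_lit 5) (nat_lit 125) (nat_lit 5) (nat_lit 123) (nat_lit 4) (nat_lit 459) (nat_lit 342) (nat_lit 219))) (XT.nd (nat_lit 78) (nat_lit 228) (nat_lit 0) (XT.lf (nat_lit 0) (nat_lit 15863940769) (nat_lit 76) (nat_lit 9733704212) (nat_lit 152) (nat_lit 10018490172) (nat_lit 121) (nat_lit 5) (nat_lit 122) (nat_lit 5) (nat_lit 123) (nat_lit 4) (nat_lit 460) (nat_lit 342) (nat_lit 218)) (XT.lf (nat_lit 0) (nat_lit 1507417141) (nat_lit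 228) (nat_lit 32014602247) (nat_lit 76) (nat_lit 2785393798) (nat_lit 118) (nat_lit 5) (nat_lit 121) (nat_lit 5) (nat_lit 119) (nat_lit 4) (nat_lit 461) (nat_lit 342) (nat_lit 217)))))) (XT.nd (nat_lit 624) (nat_lit 608) (nat_lit 0) (XT.nd (nat_lit 312) (nat_lit 304) (nat_lit 0) (XT.nd (nat_lit 156) (nat_lit 152) (nat_lit 0) (XT.nd (nat_lit 78) (nat_lit 76) (nat_lit 0) (XT.lf (nat_lit 0) (nat_lit 13457388961) (nat_lit 228) (nat_lit 7782194207) (nat_lit 76) (nat_lit 15768481131) (nat_lit 118) (nat_lit 5) (nat_lit 121) (nat_lit 5) (nat_lit 119) (nat_lit 4) (nat_lit 462) (nat_lit 342) (nat_lit 216)) (XT.lf (nat_lit 0) (nat_lit 17484117253) (nat_lit 76) (nat_lit 8432182015) (nat_lit 152) (nat_lit 11808922499) (nat_lit 117) (nat_lit 5) (nat_lit 118) (nat_lit 5) (nat_lit 119) (nat_lit 4) (nat_lit 463) (nat_lit 342) (nat_lit 215))) (XT.nd (nat_lit 78) (nat_lit 0) (nat_lit 0) (XT.lf (nat_lit 0) (nat_lit 438847078)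 (nat_lit 152) (nat_lit 33235849669) (nat_lit 76) (nat_lit 4784335185) (nat_lit 115) (nat_lit 5) (nat_lit 117) (nat_lit 5) (nat_lit 116) (nat_lit 4) (nat_lit 464) (nat_lit 342) (nat_lit 214)) (XT.lf (nat_lit 0) (nat_lit 13089022640) (nat_lit 152) (nat_lit 7579124820) (nat_lit 76) (nat_lit 18535031724) (nat_lit 115) (nat_lit 5) (nat_lit 117) (nat_lit 5) (nat_lit 116) (nat_lit 4) (nat_lit 465) (nat_lit 342) (nat_lit 213)))) (XT.nd (nat_lit 156) (nat_lit 152) (nat_lit 0) (XT.nd (nat_lit 78) (nat_lit 76) (nat_lit 0) (XT.lf (nat_lit 0) (nat_lit 19188446177) (nat_lit 76) (nat_lit 7097634988) (nat_lit 152) (nat_lit 13678548358) (nat_lit 114) (nat_lit 5) (nat_lit 115) (nat_lit 5) (nat_lit 116) (nat_lit 4) (nat_lit 466) (nat_lit 342) (nat_lit 212)) (XT.lf (nat_lit 0) (nat_lit 6188328498) (nat_lit 76) (nat_lit 33876588238) (nat_lit 76) (nat_lit 678430678) (nat_lit 113) (nat_lit 4) (nat_lit 114) (nat_lit 5) (nat_lit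 114) (nat_lit 4) (nat_lit 467) (nat_lit 342) (nat_lit 211))) (XT.nd (nat_lit 78) (nat_lit 76) (nat_lit 0) (XT.lf (nat_lit 0) (nat_lit 12728754123) (nat_lit 152) (nat_lit 7379338765) (nat_lit 76) (nat_lit 21425714743) (nat_lit 112) (nat_lit 5) (nat_lit 114) (nat_lit 5) (nat_lit 113) (nat_lit 4) (nat_lit 468) (nat_lit 342) (nat_lit 210)) (XT.lf (nat_lit 0) (nat_lit 20981969625) (nat_lit 76) (nat_lit 5727701672) (nat_lit 152) (nat_lit 15632554266) (nat_lit 111) (nat_lit 5) (nat_lit 112) (nat_lit 5) (nat_lit 113) (nat_lit 4) (nat_lit 469) (nat_lit 342) (nat_lit 209))))) (XT.nd (nat_lit 312) (nat_lit 304) (nat_lit 0) (XT.nd (nat_lit 156) (nat_lit 152) (nat_lit 0) (XT.nd (nat_lit 78) (nat_lit 76) (nat_lit 0) (XT.lf (nat_lit 0) (nat_lit 7192638653) (nat_lit 76) (nat_lit 34132578063) (nat_lit 76) (nat_lit 1843223294) (nat_lit 110) (nat_lit 4) (nat_lit 111) (nat_lit 5) (nat_lit 111) (nat_lit 4) (nat_lit 470)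 (nat_lit 342) (nat_lit 208)) (XT.lf (nat_lit 0) (nat_lit 12376640978) (nat_lit 152) (nat_lit 7183033834) (nat_lit 76) (nat_lit 24448460663) (nat_lit 109) (nat_lit 5) (nat_lit 111) (nat_lit 5) (nat_lit 110) (nat_lit 4) (nat_lit 471) (nat_lit 342) (nat_lit 207))) (XT.nd (nat_lit 78) (nat_lit 76) (nat_lit 0) (XT.lf (nat_lit 0) (nat_lit 22870095534) (nat_lit 76) (nat_lit 4319775873) (nat_lit 152) (nat_lit 17676488390) (nat_lit 108) (nat_lit 5) (nat_lit 109) (nat_lit 5) (nat_lit 110) (nat_lit 4) (nat_lit 472) (nat_lit 342) (nat_lit 206)) (XT.lf (nat_lit 0) (nat_lit 8243210082) (nat_lit 76) (nat_lit 34450142222) (nat_lit 76) (nat_lit 3049602937) (nat_lit 107) (nat_lit 4) (nat_lit 108) (nat_lit 5) (nat_lit 108) (nat_lit 4) (nat_lit 473) (nat_lit 342) (nat_lit 205)))) (XT.nd (nat_lit 156) (nat_lit 152) (nat_lit 0) (XT.nd (nat_lit 78) (nat_lit 76) (nat_lit 0) (XT.lf (nat_lit 0) (nat_lit 12032706375) (nat_lit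 152) (nat_lit 6990369341) (nat_lit 76) (nat_lit 27611774818) (nat_lit 106) (nat_lit 5) (nat_lit 108) (nat_lit 5) (nat_lit 107) (nat_lit 4) (nat_lit 474) (nat_lit 342) (nat_lit 204)) (XT.lf (nat_lit 0) (nat_lit 24858611981) (nat_lit 76) (nat_lit 2871007092) (nat_lit 152) (nat_lit 19816274948) (nat_lit 105) (nat_lit 5) (nat_lit 106) (nat_lit 5) (nat_lit 107) (nat_lit 4) (nat_lit 475) (nat_lit 342) (nat_lit 203))) (XT.nd (nat_lit 78) (nat_lit 76) (nat_lit 0) (XT.lf (nat_lit 0) (nat_lit 9342917893) (nat_lit 76) (nat_lit 34832432717) (nat_lit 76) (nat_lit 4300580859) (nat_lit 104) (nat_lit 4) (nat_lit 105) (nat_lit 5) (nat_lit 105) (nat_lit 4) (nat_lit 476) (nat_lit 342) (nat_lit 202)) (XT.lf (nat_lit 0) (nat_lit 11696943735) (nat_lit 152) (nat_lit 6801470887) (nat_lit 76) (nat_lit 30924758291) (nat_lit 103) (nat_lit 5) (nat_lit 105) (nat_lit 5) (nat_lit 104) (nat_lit 4) (nat_lit 477) (nat_lit 342) (nat_lit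 201))))))))
noncomputable def xc106 : XT := (XT.nd (nat_lit 43680) (nat_lit 0) (nat_lit 14516) (XT.nd (nat_lit 1170) (nat_lit 76) (nat_lit 0) (XT.nd (nat_lit 546) (nat_lit 608) (nat_lit 0) (XT.nd (nat_lit 234) (nat_lit 304) (nat_lit 0) (XT.nd (nat_lit 78) (nat_lit 152) (nat_lit 0) (XT.lf (nat_lit 0) (nat_lit 26953703264) (nat_lit 76) (nat_lit 1378299148) (nat_lit 152) (nat_lit 22058230416) (nat_lit 102) (nat_lit 5) (nat_lit 103) (nat_lit 5) (nat_lit 104) (nat_lit 4) (nat_lit 478) (nat_lit 342) (nat_lit 200)) (XT.nd (nat_lit 78) (nat_lit 76) (nat_lit 0) (XT.lf (nat_lit 0) (nat_lit 10494852559) (nat_lit 76) (nat_lit 35282728233) (nat_lit 76) (nat_lit 5599379711) (nat_lit 101) (nat_lit 4) (nat_lit 102) (nat_lit 5) (nat_lit 102) (nat_lit 4) (nat_lit 479) (nat_lit 342) (nat_lit 199)) (XT.lf (nat_lit 0) (nat_lit 11369320843) (nat_lit 152) (nat_lit 6616434583) (nat_lit 76) (nat_lit 34397131747) (nat_lit 100)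 (nat_lit 5) (nat_lit 102) (nat_lit 5) (nat_lit 101) (nat_lit 4) (nat_lit 480) (nat_lit 342) (nat_lit 198)))) (XT.nd (nat_lit 156) (nat_lit 152) (nat_lit 0) (XT.nd (nat_lit 78) (nat_lit 76) (nat_lit 0) (XT.lf (nat_lit 0) (nat_lit 29001829185) (nat_lit 152) (nat_lit 24248942925) (nat_lit 0) (nat_lit 158537689) (nat_lit 99) (nat_lit 5) (nat_lit 101) (nat_lit 4) (nat_lit 99) (nat_lit 4) (nat_lit 481) (nat_lit 342) (nat_lit 197)) (XT.lf (nat_lit 0) (nat_lit 11702327182) (nat_lit 76) (nat_lit 35804452979) (nat_lit 76) (nat_lit 6949440922) (nat_lit 98) (nat_lit 4) (nat_lit 99) (nat_lit 5) (nat_lit 99) (nat_lit 4) (nat_lit 482) (nat_lit 342) (nat_lit 196))) (XT.nd (nat_lit 78) (nat_lit 76) (nat_lit 0) (XT.lf (nat_lit 0) (nat_lit 11049783473) (nat_lit 152) (nat_lit 6435330793) (nat_lit 76) (nat_lit 38039262225) (nat_lit 97) (nat_lit 5) (nat_lit 99) (nat_lit 5) (nat_lit 98) (nat_lit 4) (nat_lit 483) (nat_lit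 342) (nat_lit 195)) (XT.lf (nat_lit 0) (nat_lit 29754717103) (nat_lit 152) (nat_lit 25140264423) (nat_lit 0) (nat_lit 1718368562) (nat_lit 96) (nat_lit 5) (nat_lit 98) (nat_lit 4) (nat_lit 96) (nat_lit 4) (nat_lit 484) (nat_lit 342) (nat_lit 194))))) (XT.nd (nat_lit 312) (nat_lit 304) (nat_lit 0) (XT.nd (nat_lit 156) (nat_lit 152) (nat_lit 0) (XT.nd (nat_lit 78) (nat_lit 76) (nat_lit 0) (XT.lf (nat_lit 0) (nat_lit 12968885890) (nat_lit 76) (nat_lit 36401195319) (nat_lit 76) (nat_lit 8354433211) (nat_lit 95) (nat_lit 4) (nat_lit 96) (nat_lit 5) (nat_lit 96) (nat_lit 4) (nat_lit 485) (nat_lit 342) (nat_lit 193)) (XT.lf (nat_lit 0) (nat_lit 10738258585) (nat_lit 152) (nat_lit 6258207439) (nat_lit 76) (nat_lit 41862192887) (nat_lit 94) (nat_lit 5) (nat_lit 96) (nat_lit 5) (nat_lit 95) (nat_lit 4) (nat_lit 486) (nat_lit 342) (nat_lit 192))) (XT.nd (nat_lit 78) (nat_lit 76) (nat_lit 0) (XT.lf (nat_lit 0)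 (nat_lit 30581083705) (nat_lit 152) (nat_lit 26101032560) (nat_lit 0) (nat_lit 3331871905) (nat_lit 93) (nat_lit 5) (nat_lit 95) (nat_lit 4) (nat_lit 93) (nat_lit 4) (nat_lit 487) (nat_lit 342) (nat_lit 191)) (XT.lf (nat_lit 0) (nat_lit 14298313365) (nat_lit 76) (nat_lit 37076726339) (nat_lit 76) (nat_lit 9818262220) (nat_lit 92) (nat_lit 4) (nat_lit 93) (nat_lit 5) (nat_lit 93) (nat_lit 4) (nat_lit 488) (nat_lit 342) (nat_lit 190)))) (XT.nd (nat_lit 156) (nat_lit 152) (nat_lit 0) (XT.nd (nat_lit 78) (nat_lit 76) (nat_lit 0) (XT.lf (nat_lit 0) (nat_lit 10434657152) (nat_lit 152) (nat_lit 6085092934) (nat_lit 76) (nat_lit 45877675754) (nat_lit 91) (nat_lit 5) (nat_lit 93) (nat_lit 5) (nat_lit 92) (nat_lit 4) (nat_lit 489) (nat_lit 342) (nat_lit 189)) (XT.lf (nat_lit 0) (nat_lit 31484809516) (nat_lit 152) (nat_lit 27135245297) (nat_lit 0) (nat_lit 5003092862) (nat_lit 90) (nat_lit 5) (nat_lit 92) (nat_lit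 4) (nat_lit 90) (nat_lit 4) (nat_lit 490) (nat_lit 342) (nat_lit 188))) (XT.nd (nat_lit 78) (nat_lit 76) (nat_lit 0) (XT.lf (nat_lit 0) (nat_lit 15694645486) (nat_lit 76) (nat_lit 37835018487) (nat_lit 76) (nat_lit 11345081267) (nat_lit 89) (nat_lit 4) (nat_lit 90) (nat_lit 5) (nat_lit 90) (nat_lit 4) (nat_lit 491) (nat_lit 342) (nat_lit 187)) (XT.lf (nat_lit 0) (nat_lit 10138876645) (nat_lit 152) (nat_lit 5915998762) (nat_lit 76) (nat_lit 50098207472) (nat_lit 88) (nat_lit 5) (nat_lit 90) (nat_lit 5) (nat_lit 89) (nat_lit 4) (nat_lit 492) (nat_lit 342) (nat_lit 186)))))) (XT.nd (nat_lit 41886) (nat_lit 0) (nat_lit 29412) (XT.nd (nat_lit 41574) (nat_lit 0) (nat_lit 31464) (XT.nd (nat_lit 41418) (nat_lit 0) (nat_lit 31844) (XT.lf (nat_lit 0) (nat_lit 32470005234) (nat_lit 152) (nat_lit 28247127352) (nat_lit 0) (nat_lit 6736347929) (nat_lit 87) (nat_lit 5) (nat_lit 89) (nat_lit 4) (nat_lit 87) (nat_lit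 4) (nat_lit 493) (nat_lit 342) (nat_lit 185)) (XT.nd (nat_lit 78) (nat_lit 380) (nat_lit 0) (XT.lf (nat_lit 0) (nat_lit 1298997380) (nat_lit 0) (nat_lit 1298997380) (nat_lit 228) (nat_lit 641927632) (nat_lit 511) (nat_lit 5) (nat_lit 511) (nat_lit 3) (nat_lit 514) (nat_lit 3) (nat_lit 343) (nat_lit 343) (nat_lit 334)) (XT.lf (nat_lit 0) (nat_lit 1500972724) (nat_lit 380) (nat_lit 629401312) (nat_lit 380) (nat_lit 4363684489) (nat_lit 506) (nat_lit 3) (nat_lit 511) (nat_lit 3) (nat_lit 511) (nat_lit 5) (nat_lit 344) (nat_lit 343) (nat_lit 333)))) (XT.nd (nat_lit 156) (nat_lit 0) (nat_lit 0) (XT.nd (nat_lit 78) (nat_lit 380) (nat_lit 0) (XT.lf (nat_lit 76) (nat_lit 2704842379) (nat_lit 0) (nat_lit 1556256326) (nat_lit 380) (nat_lit 2249691908) (nat_lit 507) (nat_lit 5) (nat_lit 506) (nat_lit 3) (nat_lit 511) (nat_lit 5) (nat_lit 345) (nat_lit 343) (nat_lit 332)) (XT.lf (nat_lit 0) (nat_lit 464318583)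 (nat_lit 380) (nat_lit 438845862) (nat_lit 456) (nat_lit 5627707470) (nat_lit 501) (nat_lit 5) (nat_lit 506) (nat_lit 3) (nat_lit 507) (nat_lit 5) (nat_lit 346) (nat_lit 343) (nat_lit 331))) (XT.nd (nat_lit 78) (nat_lit 0) (nat_lit 76) (XT.lf (nat_lit 76) (nat_lit 3009975989) (nat_lit 0) (nat_lit 129739134) (nat_lit 456) (nat_lit 3413416838) (nat_lit 502) (nat_lit 5) (nat_lit 501) (nat_lit 5) (nat_lit 507) (nat_lit 5) (nat_lit 347) (nat_lit 343) (nat_lit 330)) (XT.lf (nat_lit 0) (nat_lit 5805441920) (nat_lit 380) (nat_lit 69811635) (nat_lit 456) (nat_lit 703504205) (nat_lit 502) (nat_lit 5) (nat_lit 507) (nat_lit 5) (nat_lit 508) (nat_lit 5) (nat_lit 348) (nat_lit 343) (nat_lit 329))))) (XT.nd (nat_lit 312) (nat_lit 1140) (nat_lit 0) (XT.nd (nat_lit 156) (nat_lit 532) (nat_lit 0) (XT.nd (nat_lit 78) (nat_lit 0) (nat_lit 0) (XT.lf (nat_lit 0) (nat_lit 1844615140) (nat_lit 456) (nat_lit 3106999830) (nat_lit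 532) (nat_lit 1654878174) (nat_lit 496) (nat_lit 5) (nat_lit 502) (nat_lit 5) (nat_lit 503) (nat_lit 5) (nat_lit 349) (nat_lit 343) (nat_lit 328)) (XT.lf (nat_lit 76) (nat_lit 485742385) (nat_lit 0) (nat_lit 3948661156) (nat_lit 532) (nat_lit 2203161481) (nat_lit 497) (nat_lit 5) (nat_lit 496) (nat_lit 5) (nat_lit 503) (nat_lit 5) (nat_lit 350) (nat_lit 343) (nat_lit 327))) (XT.nd (nat_lit 78) (nat_lit 0) (nat_lit 0) (XT.lf (nat_lit 0) (nat_lit 360369526) (nat_lit 532) (nat_lit 2482801112) (nat_lit 608) (nat_lit 3828179076) (nat_lit 489) (nat_lit 5) (nat_lit 496) (nat_lit 5) (nat_lit 497) (nat_lit 5) (nat_lit 351) (nat_lit 343) (nat_lit 326)) (XT.lf (nat_lit 76) (nat_lit 1240762844) (nat_lit 0) (nat_lit 1635265725) (nat_lit 608) (nat_lit 3831879868) (nat_lit 490) (nat_lit 5) (nat_lit 489) (nat_lit 5) (nat_lit 497) (nat_lit 5) (nat_lit 352) (nat_lit 343) (nat_lit 325)))) (XT.nd (nat_lit 156) (nat_lit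 608) (nat_lit 0) (XT.nd (nat_lit 78) (nat_lit 532) (nat_lit 0) (XT.lf (nat_lit 76) (nat_lit 5069570129) (nat_lit 0) (nat_lit 332375760) (nat_lit 608) (nat_lit 1345574380) (nat_lit 490) (nat_lit 5) (nat_lit 489) (nat_lit 5) (nat_lit 497) (nat_lit 5) (nat_lit 353) (nat_lit 343) (nat_lit 324)) (XT.lf (nat_lit 0) (nat_lit 1134547515) (nat_lit 608) (nat_lit 4601626550) (nat_lit 76) (nat_lit 1053507641) (nat_lit 482) (nat_lit 5) (nat_lit 490) (nat_lit 5) (nat_lit 483) (nat_lit 5) (nat_lit 354) (nat_lit 343) (nat_lit 323))) (XT.nd (nat_lit 78) (nat_lit 608) (nat_lit 0) (XT.lf (nat_lit 0) (nat_lit 3596225822) (nat_lit 608) (nat_lit 704709562) (nat_lit 76) (nat_lit 2533747004) (nat_lit 482) (nat_lit 5) (nat_lit 490) (nat_lit 5) (nat_lit 483) (nat_lit 5) (nat_lit 355) (nat_lit 343) (nat_lit 322)) (XT.lf (nat_lit 0) (nat_lit 3315793039) (nat_lit 608) (nat_lit 2764140549) (nat_lit 684) (nat_lit 802654128) (nat_lit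 474) (nat_lit 5) (nat_lit 482) (nat_lit 5) (nat_lit 483) (nat_lit 5) (nat_lit 356) (nat_lit 343) (nat_lit 321))))))) (XT.nd (nat_lit 1170) (nat_lit 6080) (nat_lit 0) (XT.nd (nat_lit 546) (nat_lit 5396) (nat_lit 0) (XT.nd (nat_lit 234) (nat_lit 1900) (nat_lit 0) (XT.nd (nat_lit 78) (nat_lit 760) (nat_lit 0) (XT.lf (nat_lit 0) (nat_lit 473303633) (nat_lit 684) (nat_lit 1128741615) (nat_lit 760) (nat_lit 5331519397) (nat_lit 464) (nat_lit 5) (nat_lit 473) (nat_lit 5) (nat_lit 474) (nat_lit 5) (nat_lit 357) (nat_lit 343) (nat_lit 320)) (XT.nd (nat_lit 78) (nat_lit 760) (nat_lit 0) (XT.lf (nat_lit 0) (nat_lit 4023908053) (nat_lit 760) (nat_lit 2352073384) (nat_lit 76) (nat_lit 611016382) (nat_lit 464) (nat_lit 5) (nat_lit 474) (nat_lit 5) (nat_lit 465) (nat_lit 5) (nat_lit 358) (nat_lit 343) (nat_lit 319)) (XT.lf (nat_lit 0) (nat_lit 1844806206) (nat_lit 760) (nat_lit 4624314884) (nat_lit 836) (nat_lit 574392068)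 (nat_lit 454) (nat_lit 5) (nat_lit 464) (nat_lit 5) (nat_lit 465) (nat_lit 5) (nat_lit 359) (nat_lit 343) (nat_lit 318)))) (XT.nd (nat_lit 156) (nat_lit 988) (nat_lit 0) (XT.nd (nat_lit 78) (nat_lit 836) (nat_lit 0) (XT.lf (nat_lit 0) (nat_lit 1795891819) (nat_lit 836) (nat_lit 963900566) (nat_lit 76) (nat_lit 4342985882) (nat_lit 453) (nat_lit 5) (nat_lit 464) (nat_lit 5) (nat_lit 454) (nat_lit 5) (nat_lit 360) (nat_lit 343) (nat_lit 317)) (XT.lf (nat_lit 0) (nat_lit 3400034834) (nat_lit 836) (nat_lit 783378930) (nat_lit 912) (nat_lit 2981506728) (nat_lit 442) (nat_lit 5) (nat_lit 453) (nat_lit 5) (nat_lit 454) (nat_lit 5) (nat_lit 361) (nat_lit 343) (nat_lit 316))) (XT.nd (nat_lit 78) (nat_lit 76) (nat_lit 0) (XT.lf (nat_lit 0) (nat_lit 625738144) (nat_lit 912) (nat_lit 5971472287) (nat_lit 988) (nat_lit 633077079) (nat_lit 430) (nat_lit 5) (nat_lit 442) (nat_lit 5) (nat_lit 443) (nat_lit 5) (nat_lit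 362) (nat_lit 343) (nat_lit 315)) (XT.lf (nat_lit 0) (nat_lit 1724723580) (nat_lit 988) (nat_lit 2157715800) (nat_lit 76) (nat_lit 3415448202) (nat_lit 429) (nat_lit 5) (nat_lit 442) (nat_lit 5) (nat_lit 430) (nat_lit 5) (nat_lit 363) (nat_lit 343) (nat_lit 314))))) (XT.nd (nat_lit 312) (nat_lit 2128) (nat_lit 0) (XT.nd (nat_lit 156) (nat_lit 2280) (nat_lit 0) (XT.nd (nat_lit 78) (nat_lit 0) (nat_lit 0) (XT.lf (nat_lit 0) (nat_lit 2403743850) (nat_lit 988) (nat_lit 1689619756) (nat_lit 1064) (nat_lit 3275379123) (nat_lit 416) (nat_lit 5) (nat_lit 429) (nat_lit 5) (nat_lit 430) (nat_lit 5) (nat_lit 364) (nat_lit 343) (nat_lit 313)) (XT.lf (nat_lit 0) (nat_lit 6491837100) (nat_lit 1064) (nat_lit 361470307) (nat_lit 76) (nat_lit 589652893) (nat_lit 416) (nat_lit 5) (nat_lit 430) (nat_lit 5) (nat_lit 417) (nat_lit 5) (nat_lit 365) (nat_lit 343) (nat_lit 312))) (XT.nd (nat_lit 78) (nat_lit 1140) (nat_lit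 0) (XT.lf (nat_lit 0) (nat_lit 1406856547) (nat_lit 1140) (nat_lit 3143549781) (nat_lit 76) (nat_lit 2968817434) (nat_lit 401) (nat_lit 5) (nat_lit 416) (nat_lit 5) (nat_lit 402) (nat_lit 5) (nat_lit 366) (nat_lit 343) (nat_lit 311)) (XT.lf (nat_lit 0) (nat_lit 1627023225) (nat_lit 1140) (nat_lit 2142795722) (nat_lit 1216) (nat_lit 3829072873) (nat_lit 386) (nat_lit 5) (nat_lit 401) (nat_lit 5) (nat_lit 402) (nat_lit 5) (nat_lit 367) (nat_lit 343) (nat_lit 310)))) (XT.nd (nat_lit 156) (nat_lit 836) (nat_lit 0) (XT.nd (nat_lit 78) (nat_lit 1292) (nat_lit 0) (XT.lf (nat_lit 0) (nat_lit 6174402971) (nat_lit 1216) (nat_lit 1139749309) (nat_lit 76) (nat_lit 367675658) (nat_lit 386) (nat_lit 5) (nat_lit 402) (nat_lit 5) (nat_lit 387) (nat_lit 5) (nat_lit 368) (nat_lit 343) (nat_lit 309)) (XT.lf (nat_lit 0) (nat_lit 861939104) (nat_lit 1292) (nat_lit 3944524906) (nat_lit 76) (nat_lit 2960673810) (nat_lit 369)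 (nat_lit 5) (nat_lit 386) (nat_lit 5) (nat_lit 370) (nat_lit 5) (nat_lit 369) (nat_lit 343) (nat_lit 308))) (XT.nd (nat_lit 78) (nat_lit 0) (nat_lit 0) (XT.lf (nat_lit 0) (nat_lit 1047739875) (nat_lit 836) (nat_lit 2184007255) (nat_lit 912) (nat_lit 4624022296) (nat_lit 358) (nat_lit 5) (nat_lit 369) (nat_lit 5) (nat_lit 370) (nat_lit 5) (nat_lit 370) (nat_lit 343) (nat_lit 307)) (XT.lf (nat_lit 0) (nat_lit 5657057700) (nat_lit 912) (nat_lit 1742058162) (nat_lit 76) (nat_lit 548411869) (nat_lit 358) (nat_lit 5) (nat_lit 370) (nat_lit 5) (nat_lit 359) (nat_lit 5) (nat_lit 371) (nat_lit 343) (nat_lit 306)))))) (XT.nd (nat_lit 624) (nat_lit 2432) (nat_lit 0) (XT.nd (nat_lit 312) (nat_lit 1824) (nat_lit 0) (XT.nd (nat_lit 156) (nat_lit 532) (nat_lit 0) (XT.nd (nat_lit 78) (nat_lit 608) (nat_lit 0) (XT.lf (nat_lit 0) (nat_lit 106727122) (nat_lit 684) (nat_lit 4581050116) (nat_lit 76) (nat_lit 3354353583)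 (nat_lit 349) (nat_lit 5) (nat_lit 358) (nat_lit 5) (nat_lit 350) (nat_lit 5) (nat_lit 372) (nat_lit 343) (nat_lit 305)) (XT.lf (nat_lit 0) (nat_lit 646495974) (nat_lit 608) (nat_lit 1848847786) (nat_lit 684) (nat_lit 5644581712) (nat_lit 341) (nat_lit 5) (nat_lit 349) (nat_lit 5) (nat_lit 350) (nat_lit 5) (nat_lit 373) (nat_lit 343) (nat_lit 304))) (XT.nd (nat_lit 78) (nat_lit 532) (nat_lit 0) (XT.lf (nat_lit 0) (nat_lit 4955338332) (nat_lit 684) (nat_lit 2186638170) (nat_lit 76) (nat_lit 1098685879) (nat_lit 341) (nat_lit 5) (nat_lit 350) (nat_lit 5) (nat_lit 342) (nat_lit 5) (nat_lit 374) (nat_lit 343) (nat_lit 303)) (XT.lf (nat_lit 0) (nat_lit 3265200794) (nat_lit 532) (nat_lit 4217960241) (nat_lit 608) (nat_lit 861439512) (nat_lit 334) (nat_lit 5) (nat_lit 341) (nat_lit 5) (nat_lit 342) (nat_lit 5) (nat_lit 375) (nat_lit 343) (nat_lit 302)))) (XT.nd (nat_lit 156) (nat_lit 1140) (nat_lit 0) (XT.nd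 (nat_lit 78) (nat_lit 0) (nat_lit 0) (XT.lf (nat_lit 0) (nat_lit 406336594) (nat_lit 608) (nat_lit 1167971793) (nat_lit 684) (nat_lit 6877745285) (nat_lit 325) (nat_lit 5) (nat_lit 333) (nat_lit 5) (nat_lit 334) (nat_lit 5) (nat_lit 376) (nat_lit 343) (nat_lit 301)) (XT.lf (nat_lit 0) (nat_lit 4082417289) (nat_lit 684) (nat_lit 2489494401) (nat_lit 76) (nat_lit 1990064748) (nat_lit 325) (nat_lit 5) (nat_lit 334) (nat_lit 5) (nat_lit 326) (nat_lit 5) (nat_lit 377) (nat_lit 343) (nat_lit 300))) (XT.nd (nat_lit 78) (nat_lit 608) (nat_lit 0) (XT.lf (nat_lit 0) (nat_lit 3225507759) (nat_lit 532) (nat_lit 3430241214) (nat_lit 608) (nat_lit 2019748529) (nat_lit 318) (nat_lit 5) (nat_lit 325) (nat_lit 5) (nat_lit 326) (nat_lit 5) (nat_lit 378) (nat_lit 343) (nat_lit 299)) (XT.lf (nat_lit 0) (nat_lit 312490830) (nat_lit 532) (nat_lit 167596384) (nat_lit 608) (nat_lit 8312901059) (nat_lit 310) (nat_lit 5) (nat_lit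 317) (nat_lit 5) (nat_lit 318) (nat_lit 5) (nat_lit 379) (nat_lit 343) (nat_lit 298))))) (XT.nd (nat_lit 312) (nat_lit 1368) (nat_lit 0) (XT.nd (nat_lit 156) (nat_lit 608) (nat_lit 0) (XT.nd (nat_lit 78) (nat_lit 456) (nat_lit 0) (XT.lf (nat_lit 0) (nat_lit 3049333993) (nat_lit 608) (nat_lit 2664636192) (nat_lit 76) (nat_lit 3198383328) (nat_lit 310) (nat_lit 5) (nat_lit 318) (nat_lit 5) (nat_lit 311) (nat_lit 5) (nat_lit 380) (nat_lit 343) (nat_lit 297)) (XT.lf (nat_lit 0) (nat_lit 3330176783) (nat_lit 456) (nat_lit 2349384917) (nat_lit 532) (nat_lit 3356220907) (nat_lit 304) (nat_lit 5) (nat_lit 310) (nat_lit 5) (nat_lit 311) (nat_lit 5) (nat_lit 381) (nat_lit 343) (nat_lit 296))) (XT.nd (nat_lit 78) (nat_lit 76) (nat_lit 0) (XT.lf (nat_lit 0) (nat_lit 333208325) (nat_lit 532) (nat_lit 8047625487) (nat_lit 608) (nat_lit 782316633) (nat_lit 297) (nat_lit 5) (nat_lit 304) (nat_lit 5) (nat_lit 305) (nat_lit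 5) (nat_lit 382) (nat_lit 343) (nat_lit 295)) (XT.lf (nat_lit 0) (nat_lit 1865198516) (nat_lit 608) (nat_lit 2724290183) (nat_lit 76) (nat_lit 4703325871) (nat_lit 296) (nat_lit 5) (nat_lit 304) (nat_lit 5) (nat_lit 297) (nat_lit 5) (nat_lit 383) (nat_lit 343) (nat_lit 294)))) (XT.nd (nat_lit 156) (nat_lit 456) (nat_lit 0) (XT.nd (nat_lit 78) (nat_lit 456) (nat_lit 0) (XT.lf (nat_lit 0) (nat_lit 3568131366) (nat_lit 456) (nat_lit 995411901) (nat_lit 532) (nat_lit 4862979142) (nat_lit 290) (nat_lit 5) (nat_lit 296) (nat_lit 5) (nat_lit 297) (nat_lit 5) (nat_lit 384) (nat_lit 343) (nat_lit 293)) (XT.lf (nat_lit 0) (nat_lit 465559283) (nat_lit 456) (nat_lit 6889091963) (nat_lit 532) (nat_lit 2209235851) (nat_lit 284) (nat_lit 5) (nat_lit 290) (nat_lit 5) (nat_lit 291) (nat_lit 5) (nat_lit 385) (nat_lit 343) (nat_lit 292))) (XT.nd (nat_lit 78) (nat_lit 380) (nat_lit 0) (XT.lf (nat_lit 0) (nat_lit 537370257)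 (nat_lit 532) (nat_lit 2679088921) (nat_lit 76) (nat_lit 6488058064) (nat_lit 283) (nat_lit 5) (nat_lit 290) (nat_lit 5) (nat_lit 284) (nat_lit 5) (nat_lit 386) (nat_lit 343) (nat_lit 291)) (XT.lf (nat_lit 0) (nat_lit 3320881291) (nat_lit 456) (nat_lit 5924893611) (nat_lit 76) (nat_lit 602967873) (nat_lit 278) (nat_lit 5) (nat_lit 284) (nat_lit 5) (nat_lit 279) (nat_lit 5) (nat_lit 387) (nat_lit 343) (nat_lit 290))))))))
noncomputable def xc107 : XT := (XT.nd (nat_lit 2340) (nat_lit 3876) (nat_lit 0) (XT.nd (nat_lit 1170) (nat_lit 2888) (nat_lit 0) (XT.nd (nat_lit 546) (nat_lit 1748) (nat_lit 0) (XT.nd (nat_lit 234) (nat_lit 1216) (nat_lit 0) (XT.nd (nat_lit 78) (nat_lit 456) (nat_lit 0) (XT.lf (nat_lit 0) (nat_lit 706754332) (nat_lit 456) (nat_lit 5502957210) (nat_lit 532) (nat_lit 3786929118) (nat_lit 272) (nat_lit 5) (nat_lit 278) (nat_lit 5) (nat_lit 279) (nat_lit 5) (nat_lit 388) (nat_lit 343)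 (nat_lit 289)) (XT.nd (nat_lit 78) (nat_lit 456) (nat_lit 0) (XT.lf (nat_lit 0) (nat_lit 7601143519) (nat_lit 456) (nat_lit 1600477143) (nat_lit 532) (nat_lit 946862397) (nat_lit 272) (nat_lit 5) (nat_lit 278) (nat_lit 5) (nat_lit 279) (nat_lit 5) (nat_lit 389) (nat_lit 343) (nat_lit 288)) (XT.lf (nat_lit 0) (nat_lit 1963325168) (nat_lit 456) (nat_lit 5920395931) (nat_lit 76) (nat_lit 2419883364) (nat_lit 266) (nat_lit 5) (nat_lit 272) (nat_lit 5) (nat_lit 267) (nat_lit 5) (nat_lit 390) (nat_lit 343) (nat_lit 287)))) (XT.nd (nat_lit 156) (nat_lit 836) (nat_lit 0) (XT.nd (nat_lit 78) (nat_lit 0) (nat_lit 0) (XT.lf (nat_lit 0) (nat_lit 1048883950) (nat_lit 380) (nat_lit 3902801886) (nat_lit 456) (nat_lit 5511115472) (nat_lit 261) (nat_lit 5) (nat_lit 266) (nat_lit 5) (nat_lit 267) (nat_lit 5) (nat_lit 391) (nat_lit 343) (nat_lit 286)) (XT.lf (nat_lit 0) (nat_lit 8050492693) (nat_lit 456) (nat_lit 2336786019)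 (nat_lit 76) (nat_lit 238871485) (nat_lit 261) (nat_lit 5) (nat_lit 267) (nat_lit 5) (nat_lit 262) (nat_lit 5) (nat_lit 392) (nat_lit 343) (nat_lit 285))) (XT.nd (nat_lit 78) (nat_lit 380) (nat_lit 0) (XT.lf (nat_lit 0) (nat_lit 485575389) (nat_lit 456) (nat_lit 5843315345) (nat_lit 76) (nat_lit 4463986146) (nat_lit 255) (nat_lit 5) (nat_lit 261) (nat_lit 5) (nat_lit 256) (nat_lit 5) (nat_lit 393) (nat_lit 343) (nat_lit 284)) (XT.lf (nat_lit 0) (nat_lit 1485274214) (nat_lit 380) (nat_lit 2099684434) (nat_lit 456) (nat_lit 7378939221) (nat_lit 250) (nat_lit 5) (nat_lit 255) (nat_lit 5) (nat_lit 256) (nat_lit 5) (nat_lit 394) (nat_lit 343) (nat_lit 283))))) (XT.nd (nat_lit 312) (nat_lit 988) (nat_lit 0) (XT.nd (nat_lit 156) (nat_lit 456) (nat_lit 0) (XT.nd (nat_lit 78) (nat_lit 304) (nat_lit 0) (XT.lf (nat_lit 0) (nat_lit 6819046511) (nat_lit 456) (nat_lit 2063996623) (nat_lit 76) (nat_lit 2255754663)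 (nat_lit 250) (nat_lit 5) (nat_lit 256) (nat_lit 5) (nat_lit 251) (nat_lit 5) (nat_lit 395) (nat_lit 343) (nat_lit 282)) (XT.lf (nat_lit 0) (nat_lit 5606392918) (nat_lit 304) (nat_lit 4580040249) (nat_lit 380) (nat_lit 1131423269) (nat_lit 246) (nat_lit 5) (nat_lit 250) (nat_lit 5) (nat_lit 251) (nat_lit 5) (nat_lit 396) (nat_lit 343) (nat_lit 281))) (XT.nd (nat_lit 78) (nat_lit 0) (nat_lit 0) (XT.lf (nat_lit 0) (nat_lit 2010367751) (nat_lit 380) (nat_lit 102369384) (nat_lit 456) (nat_lit 9388863350) (nat_lit 240) (nat_lit 5) (nat_lit 245) (nat_lit 5) (nat_lit 246) (nat_lit 5) (nat_lit 397) (nat_lit 343) (nat_lit 280)) (XT.lf (nat_lit 0) (nat_lit 5495306947) (nat_lit 456) (nat_lit 1719239105) (nat_lit 76) (nat_lit 4474059985) (nat_lit 240) (nat_lit 5) (nat_lit 246) (nat_lit 5) (nat_lit 241) (nat_lit 5) (nat_lit 398) (nat_lit 343) (nat_lit 279)))) (XT.nd (nat_lit 156) (nat_lit 304) (nat_lit 0) (XT.nd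 (nat_lit 78) (nat_lit 380) (nat_lit 0) (XT.lf (nat_lit 0) (nat_lit 6354607623) (nat_lit 304) (nat_lit 2650174380) (nat_lit 380) (nat_lit 2875676908) (nat_lit 236) (nat_lit 5) (nat_lit 240) (nat_lit 5) (nat_lit 241) (nat_lit 5) (nat_lit 399) (nat_lit 343) (nat_lit 278)) (XT.lf (nat_lit 0) (nat_lit 557163923) (nat_lit 380) (nat_lit 9478122906) (nat_lit 76) (nat_lit 2041836711) (nat_lit 231) (nat_lit 5) (nat_lit 236) (nat_lit 5) (nat_lit 232) (nat_lit 5) (nat_lit 400) (nat_lit 343) (nat_lit 277))) (XT.nd (nat_lit 78) (nat_lit 304) (nat_lit 0) (XT.lf (nat_lit 0) (nat_lit 4081678218) (nat_lit 380) (nat_lit 1307263947) (nat_lit 76) (nat_lit 6888497184) (nat_lit 231) (nat_lit 5) (nat_lit 236) (nat_lit 5) (nat_lit 232) (nat_lit 5) (nat_lit 401) (nat_lit 343) (nat_lit 276)) (XT.lf (nat_lit 0) (nat_lit 7195877469) (nat_lit 304) (nat_lit 550167674) (nat_lit 380) (nat_lit 4736695975) (nat_lit 227) (nat_lit 5) (nat_lit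 231) (nat_lit 5) (nat_lit 232) (nat_lit 5) (nat_lit 402) (nat_lit 343) (nat_lit 275)))))) (XT.nd (nat_lit 546) (nat_lit 1368) (nat_lit 0) (XT.nd (nat_lit 234) (nat_lit 912) (nat_lit 0) (XT.nd (nat_lit 78) (nat_lit 304) (nat_lit 0) (XT.lf (nat_lit 0) (nat_lit 3254256399) (nat_lit 304) (nat_lit 8318605317) (nat_lit 380) (nat_lit 1119764665) (nat_lit 223) (nat_lit 5) (nat_lit 227) (nat_lit 5) (nat_lit 228) (nat_lit 5) (nat_lit 403) (nat_lit 343) (nat_lit 274)) (XT.nd (nat_lit 78) (nat_lit 228) (nat_lit 0) (XT.lf (nat_lit 0) (nat_lit 2579638531) (nat_lit 380) (nat_lit 832006219) (nat_lit 76) (nat_lit 9495667732) (nat_lit 222) (nat_lit 5) (nat_lit 227) (nat_lit 5) (nat_lit 223) (nat_lit 5) (nat_lit 404) (nat_lit 343) (nat_lit 273)) (XT.lf (nat_lit 0) (nat_lit 6428594418) (nat_lit 304) (nat_lit 5015392559) (nat_lit 76) (nat_lit 1682287281) (nat_lit 219) (nat_lit 5) (nat_lit 223) (nat_lit 5) (nat_lit 220)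 (nat_lit 5) (nat_lit 405) (nat_lit 343) (nat_lit 272)))) (XT.nd (nat_lit 156) (nat_lit 532) (nat_lit 0) (XT.nd (nat_lit 78) (nat_lit 76) (nat_lit 0) (XT.lf (nat_lit 0) (nat_lit 3978840932) (nat_lit 304) (nat_lit 6461443551) (nat_lit 380) (nat_lit 2910102439) (nat_lit 215) (nat_lit 5) (nat_lit 219) (nat_lit 5) (nat_lit 220) (nat_lit 5) (nat_lit 406) (nat_lit 343) (nat_lit 271)) (XT.lf (nat_lit 0) (nat_lit 989808444) (nat_lit 380) (nat_lit 296661624) (nat_lit 76) (nat_lit 12293925703) (nat_lit 214) (nat_lit 5) (nat_lit 219) (nat_lit 5) (nat_lit 215) (nat_lit 5) (nat_lit 407) (nat_lit 343) (nat_lit 270))) (XT.nd (nat_lit 78) (nat_lit 304) (nat_lit 0) (XT.lf (nat_lit 0) (nat_lit 5043880888) (nat_lit 304) (nat_lit 4705531335) (nat_lit 76) (nat_lit 4064158641) (nat_lit 211) (nat_lit 5) (nat_lit 215) (nat_lit 5) (nat_lit 212) (nat_lit 5) (nat_lit 408) (nat_lit 343) (nat_lit 269)) (XT.lf (nat_lit 0) (nat_lit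 4776372902) (nat_lit 304) (nat_lit 4473009565) (nat_lit 380) (nat_lit 4803464535) (nat_lit 207) (nat_lit 5) (nat_lit 211) (nat_lit 5) (nat_lit 212) (nat_lit 5) (nat_lit 409) (nat_lit 343) (nat_lit 268))))) (XT.nd (nat_lit 312) (nat_lit 608) (nat_lit 0) (XT.nd (nat_lit 156) (nat_lit 456) (nat_lit 0) (XT.nd (nat_lit 78) (nat_lit 76) (nat_lit 0) (XT.lf (nat_lit 0) (nat_lit 285546068) (nat_lit 228) (nat_lit 13323862453) (nat_lit 304) (nat_lit 689042121) (nat_lit 204) (nat_lit 5) (nat_lit 207) (nat_lit 5) (nat_lit 208) (nat_lit 5) (nat_lit 410) (nat_lit 343) (nat_lit 267)) (XT.lf (nat_lit 0) (nat_lit 3586955581) (nat_lit 304) (nat_lit 4355103743) (nat_lit 76) (nat_lit 6605117884) (nat_lit 203) (nat_lit 5) (nat_lit 207) (nat_lit 5) (nat_lit 204) (nat_lit 5) (nat_lit 411) (nat_lit 343) (nat_lit 266))) (XT.nd (nat_lit 78) (nat_lit 228) (nat_lit 0) (XT.lf (nat_lit 0) (nat_lit 5645531834) (nat_lit 228) (nat_lit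 2355541835) (nat_lit 304) (nat_lit 6801376550) (nat_lit 200) (nat_lit 5) (nat_lit 203) (nat_lit 5) (nat_lit 204) (nat_lit 5) (nat_lit 412) (nat_lit 343) (nat_lit 265)) (XT.lf (nat_lit 0) (nat_lit 905498804) (nat_lit 228) (nat_lit 11697548681) (nat_lit 304) (nat_lit 2460670970) (nat_lit 197) (nat_lit 5) (nat_lit 200) (nat_lit 5) (nat_lit 201) (nat_lit 5) (nat_lit 413) (nat_lit 343) (nat_lit 264)))) (XT.nd (nat_lit 156) (nat_lit 304) (nat_lit 0) (XT.nd (nat_lit 78) (nat_lit 228) (nat_lit 0) (XT.lf (nat_lit 0) (nat_lit 2057485691) (nat_lit 304) (nat_lit 3966689031) (nat_lit 76) (nat_lit 9305476583) (nat_lit 196) (nat_lit 5) (nat_lit 200) (nat_lit 5) (nat_lit 197) (nat_lit 5) (nat_lit 414) (nat_lit 343) (nat_lit 263)) (XT.lf (nat_lit 0) (nat_lit 6585633724) (nat_lit 228) (nat_lit 110035025) (nat_lit 304) (nat_lit 8906144338) (nat_lit 193) (nat_lit 5) (nat_lit 196) (nat_lit 5) (nat_lit 197) (nat_lit 5) (nat_lit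 415) (nat_lit 343) (nat_lit 262))) (XT.nd (nat_lit 78) (nat_lit 76) (nat_lit 0) (XT.lf (nat_lit 0) (nat_lit 1578509732) (nat_lit 228) (nat_lit 9978444447) (nat_lit 304) (nat_lit 4322666838) (nat_lit 190) (nat_lit 5) (nat_lit 193) (nat_lit 5) (nat_lit 194) (nat_lit 5) (nat_lit 416) (nat_lit 343) (nat_lit 261)) (XT.lf (nat_lit 0) (nat_lit 454507110) (nat_lit 304) (nat_lit 3542383802) (nat_lit 76) (nat_lit 12166838466) (nat_lit 189) (nat_lit 5) (nat_lit 193) (nat_lit 5) (nat_lit 190) (nat_lit 5) (nat_lit 417) (nat_lit 343) (nat_lit 260))))))) (XT.nd (nat_lit 1170) (nat_lit 1824) (nat_lit 0) (XT.nd (nat_lit 546) (nat_lit 912) (nat_lit 0) (XT.nd (nat_lit 234) (nat_lit 760) (nat_lit 0) (XT.nd (nat_lit 78) (nat_lit 152) (nat_lit 0) (XT.lf (nat_lit 0) (nat_lit 5354672637) (nat_lit 304) (nat_lit 8878905216) (nat_lit 76) (nat_lit 2219502446) (nat_lit 186) (nat_lit 5) (nat_lit 190) (nat_lit 5) (nat_lit 187) (nat_lit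 5) (nat_lit 418) (nat_lit 343) (nat_lit 259)) (XT.nd (nat_lit 78) (nat_lit 0) (nat_lit 0) (XT.lf (nat_lit 0) (nat_lit 2303700791) (nat_lit 152) (nat_lit 8167937177) (nat_lit 228) (nat_lit 6277379934) (nat_lit 184) (nat_lit 5) (nat_lit 186) (nat_lit 5) (nat_lit 187) (nat_lit 5) (nat_lit 419) (nat_lit 343) (nat_lit 258)) (XT.lf (nat_lit 0) (nat_lit 13956132845) (nat_lit 152) (nat_lit 1847949520) (nat_lit 228) (nat_lit 1247892165) (nat_lit 184) (nat_lit 5) (nat_lit 186) (nat_lit 5) (nat_lit 187) (nat_lit 5) (nat_lit 420) (nat_lit 343) (nat_lit 257)))) (XT.nd (nat_lit 156) (nat_lit 304) (nat_lit 0) (XT.nd (nat_lit 78) (nat_lit 152) (nat_lit 0) (XT.lf (nat_lit 0) (nat_lit 3957842546) (nat_lit 304) (nat_lit 8728159985) (nat_lit 76) (nat_lit 4673820310) (nat_lit 180) (nat_lit 5) (nat_lit 184) (nat_lit 5) (nat_lit 181) (nat_lit 5) (nat_lit 421) (nat_lit 343) (nat_lit 256)) (XT.lf (nat_lit 0) (nat_lit 3080668672)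 (nat_lit 152) (nat_lit 6266488617) (nat_lit 228) (nat_lit 8327803969) (nat_lit 178) (nat_lit 5) (nat_lit 180) (nat_lit 5) (nat_lit 181) (nat_lit 5) (nat_lit 422) (nat_lit 343) (nat_lit 255))) (XT.nd (nat_lit 78) (nat_lit 304) (nat_lit 0) (XT.lf (nat_lit 0) (nat_lit 14963639985) (nat_lit 228) (nat_lit 2625542237) (nat_lit 76) (nat_lit 408406950) (nat_lit 178) (nat_lit 5) (nat_lit 181) (nat_lit 5) (nat_lit 179) (nat_lit 5) (nat_lit 423) (nat_lit 343) (nat_lit 254)) (XT.lf (nat_lit 0) (nat_lit 2502857025) (nat_lit 304) (nat_lit 8565103394) (nat_lit 76) (nat_lit 7257297985) (nat_lit 174) (nat_lit 5) (nat_lit 178) (nat_lit 5) (nat_lit 175) (nat_lit 5) (nat_lit 424) (nat_lit 343) (nat_lit 253))))) (XT.nd (nat_lit 312) (nat_lit 380) (nat_lit 0) (XT.nd (nat_lit 156) (nat_lit 380) (nat_lit 0) (XT.nd (nat_lit 78) (nat_lit 0) (nat_lit 0) (XT.lf (nat_lit 0) (nat_lit 3909452785) (nat_lit 152) (nat_lit 4273697663)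 (nat_lit 228) (nat_lit 10477555220) (nat_lit 172) (nat_lit 5) (nat_lit 174) (nat_lit 5) (nat_lit 175) (nat_lit 5) (nat_lit 425) (nat_lit 343) (nat_lit 252)) (XT.lf (nat_lit 0) (nat_lit 14121526998) (nat_lit 228) (nat_lit 2142791321) (nat_lit 76) (nat_lit 2739267800) (nat_lit 172) (nat_lit 5) (nat_lit 175) (nat_lit 5) (nat_lit 173) (nat_lit 5) (nat_lit 426) (nat_lit 343) (nat_lit 251))) (XT.nd (nat_lit 78) (nat_lit 152) (nat_lit 0) (XT.lf (nat_lit 0) (nat_lit 987985585) (nat_lit 228) (nat_lit 8391671881) (nat_lit 76) (nat_lit 9973124939) (nat_lit 169) (nat_lit 5) (nat_lit 172) (nat_lit 5) (nat_lit 170) (nat_lit 5) (nat_lit 427) (nat_lit 343) (nat_lit 250)) (XT.lf (nat_lit 0) (nat_lit 4790508139) (nat_lit 152) (nat_lit 2188353548) (nat_lit 228) (nat_lit 12730857136) (nat_lit 167) (nat_lit 5) (nat_lit 169) (nat_lit 5) (nat_lit 170) (nat_lit 5) (nat_lit 428) (nat_lit 343) (nat_lit 249)))) (XT.nd (nat_lit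 156) (nat_lit 228) (nat_lit 0) (XT.nd (nat_lit 78) (nat_lit 152) (nat_lit 0) (XT.lf (nat_lit 0) (nat_lit 13260277829) (nat_lit 228) (nat_lit 1630437365) (nat_lit 76) (nat_lit 5183323726) (nat_lit 167) (nat_lit 5) (nat_lit 170) (nat_lit 5) (nat_lit 168) (nat_lit 5) (nat_lit 429) (nat_lit 343) (nat_lit 248)) (XT.lf (nat_lit 0) (nat_lit 12230511500) (nat_lit 152) (nat_lit 7614655178) (nat_lit 228) (nat_lit 600671037) (nat_lit 165) (nat_lit 5) (nat_lit 167) (nat_lit 5) (nat_lit 168) (nat_lit 5) (nat_lit 430) (nat_lit 343) (nat_lit 247))) (XT.nd (nat_lit 78) (nat_lit 0) (nat_lit 0) (XT.lf (nat_lit 0) (nat_lit 5724682649) (nat_lit 152) (nat_lit 8480275) (nat_lit 228) (nat_lit 15092530089) (nat_lit 162) (nat_lit 5) (nat_lit 164) (nat_lit 5) (nat_lit 165) (nat_lit 5) (nat_lit 431) (nat_lit 343) (nat_lit 246)) (XT.lf (nat_lit 0) (nat_lit 12379900696) (nat_lit 228) (nat_lit 1088793449) (nat_lit 76) (nat_lit 7744022559)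 (nat_lit 162) (nat_lit 5) (nat_lit 165) (nat_lit 5) (nat_lit 163) (nat_lit 5) (nat_lit 432) (nat_lit 343) (nat_lit 245)))))) (XT.nd (nat_lit 624) (nat_lit 760) (nat_lit 0) (XT.nd (nat_lit 312) (nat_lit 532) (nat_lit 0) (XT.nd (nat_lit 156) (nat_lit 152) (nat_lit 0) (XT.nd (nat_lit 78) (nat_lit 228) (nat_lit 0) (XT.lf (nat_lit 0) (nat_lit 13566059374) (nat_lit 152) (nat_lit 5767125282) (nat_lit 228) (nat_lit 2274952127) (nat_lit 160) (nat_lit 5) (nat_lit 162) (nat_lit 5) (nat_lit 163) (nat_lit 5) (nat_lit 433) (nat_lit 343) (nat_lit 244)) (XT.lf (nat_lit 0) (nat_lit 4466379046) (nat_lit 228) (nat_lit 15321166441) (nat_lit 76) (nat_lit 2224357781) (nat_lit 157) (nat_lit 5) (nat_lit 160) (nat_lit 5) (nat_lit 158) (nat_lit 5) (nat_lit 434) (nat_lit 343) (nat_lit 243))) (XT.nd (nat_lit 78) (nat_lit 152) (nat_lit 0) (XT.lf (nat_lit 0) (nat_lit 11480134847) (nat_lit 228) (nat_lit 517894802) (nat_lit 76) (nat_lit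 10425600102) (nat_lit 157) (nat_lit 5) (nat_lit 160) (nat_lit 5) (nat_lit 158) (nat_lit 5) (nat_lit 435) (nat_lit 343) (nat_lit 242)) (XT.lf (nat_lit 0) (nat_lit 14980527238) (nat_lit 152) (nat_lit 3845249396) (nat_lit 228) (nat_lit 4018287193) (nat_lit 155) (nat_lit 5) (nat_lit 157) (nat_lit 5) (nat_lit 158) (nat_lit 5) (nat_lit 436) (nat_lit 343) (nat_lit 241)))) (XT.nd (nat_lit 156) (nat_lit 152) (nat_lit 0) (XT.nd (nat_lit 78) (nat_lit 152) (nat_lit 0) (XT.lf (nat_lit 0) (nat_lit 3155928818) (nat_lit 228) (nat_lit 15561518442) (nat_lit 76) (nat_lit 4555704542) (nat_lit 152) (nat_lit 5) (nat_lit 155) (nat_lit 5) (nat_lit 153) (nat_lit 5) (nat_lit 437) (nat_lit 343) (nat_lit 240)) (XT.lf (nat_lit 0) (nat_lit 84124813) (nat_lit 152) (nat_lit 10477152109) (nat_lit 228) (nat_lit 13149741868) (nat_lit 150) (nat_lit 5) (nat_lit 152) (nat_lit 5) (nat_lit 153) (nat_lit 5) (nat_lit 438) (nat_lit 343) (nat_lit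 239))) (XT.nd (nat_lit 78) (nat_lit 152) (nat_lit 0) (XT.lf (nat_lit 0) (nat_lit 16477142351) (nat_lit 152) (nat_lit 1846638717) (nat_lit 228) (nat_lit 5834190852) (nat_lit 150) (nat_lit 5) (nat_lit 152) (nat_lit 5) (nat_lit 153) (nat_lit 5) (nat_lit 439) (nat_lit 343) (nat_lit 238)) (XT.lf (nat_lit 0) (nat_lit 1799618122) (nat_lit 152) (nat_lit 15824538908) (nat_lit 76) (nat_lit 6989726711) (nat_lit 148) (nat_lit 5) (nat_lit 150) (nat_lit 5) (nat_lit 149) (nat_lit 5) (nat_lit 440) (nat_lit 343) (nat_lit 237))))) (XT.nd (nat_lit 312) (nat_lit 304) (nat_lit 0) (XT.nd (nat_lit 156) (nat_lit 304) (nat_lit 0) (XT.nd (nat_lit 78) (nat_lit 0) (nat_lit 0) (XT.lf (nat_lit 0) (nat_lit 726996411) (nat_lit 152) (nat_lit 8900144451) (nat_lit 228) (nat_lit 15452140298) (nat_lit 146) (nat_lit 5) (nat_lit 148) (nat_lit 5) (nat_lit 149) (nat_lit 5) (nat_lit 441) (nat_lit 343) (nat_lit 236)) (XT.lf (nat_lit 0) (nat_lit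 17830119518) (nat_lit 228) (nat_lit 7497156896) (nat_lit 76) (nat_lit 227145180) (nat_lit 146) (nat_lit 5) (nat_lit 149) (nat_lit 5) (nat_lit 147) (nat_lit 4) (nat_lit 442) (nat_lit 343) (nat_lit 235))) (XT.nd (nat_lit 78) (nat_lit 152) (nat_lit 0) (XT.lf (nat_lit 0) (nat_lit 395019652) (nat_lit 152) (nat_lit 16112728749) (nat_lit 76) (nat_lit 9531072726) (nat_lit 144) (nat_lit 5) (nat_lit 146) (nat_lit 5) (nat_lit 145) (nat_lit 5) (nat_lit 443) (nat_lit 343) (nat_lit 234)) (XT.lf (nat_lit 0) (nat_lit 1401128493) (nat_lit 152) (nat_lit 7270555125) (nat_lit 228) (nat_lit 17861704278) (nat_lit 142) (nat_lit 5) (nat_lit 144) (nat_lit 5) (nat_lit 145) (nat_lit 5) (nat_lit 444) (nat_lit 343) (nat_lit 233)))) (XT.nd (nat_lit 156) (nat_lit 228) (nat_lit 0) (XT.nd (nat_lit 78) (nat_lit 76) (nat_lit 0) (XT.lf (nat_lit 0) (nat_lit 17361683576) (nat_lit 228) (nat_lit 7329681031) (nat_lit 76) (nat_lit 2346475979)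 (nat_lit 142) (nat_lit 5) (nat_lit 145) (nat_lit 5) (nat_lit 143) (nat_lit 4) (nat_lit 445) (nat_lit 343) (nat_lit 232)) (XT.lf (nat_lit 0) (nat_lit 11113714022) (nat_lit 76) (nat_lit 15357244119) (nat_lit 152) (nat_lit 1081711478) (nat_lit 141) (nat_lit 5) (nat_lit 142) (nat_lit 5) (nat_lit 143) (nat_lit 4) (nat_lit 446) (nat_lit 343) (nat_lit 231))) (XT.nd (nat_lit 78) (nat_lit 0) (nat_lit 0) (XT.lf (nat_lit 0) (nat_lit 2107463148) (nat_lit 152) (nat_lit 5586264421) (nat_lit 228) (nat_lit 20384731333) (nat_lit 138) (nat_lit 5) (nat_lit 140) (nat_lit 5) (nat_lit 141) (nat_lit 5) (nat_lit 447) (nat_lit 343) (nat_lit 230)) (XT.lf (nat_lit 0) (nat_lit 16901216737) (nat_lit 228) (nat_lit 7161408441) (nat_lit 76) (nat_lit 4551359537) (nat_lit 138) (nat_lit 5) (nat_lit 141) (nat_lit 5) (nat_lit 139) (nat_lit 4) (nat_lit 448) (nat_lit 343) (nat_lit 229))))))))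
noncomputable def xc108 : XT := (XT.nd (nat_lit 2340) (nat_lit 1140) (nat_lit 0) (XT.nd (nat_lit 1170) (nat_lit 1140) (nat_lit 0) (XT.nd (nat_lit 546) (nat_lit 836) (nat_lit 0) (XT.nd (nat_lit 234) (nat_lit 380) (nat_lit 0) (XT.nd (nat_lit 78) (nat_lit 228) (nat_lit 0) (XT.lf (nat_lit 0) (nat_lit 12361256800) (nat_lit 76) (nat_lit 14178234185) (nat_lit 152) (nat_lit 2621448504) (nat_lit 137) (nat_lit 5) (nat_lit 138) (nat_lit 5) (nat_lit 139) (nat_lit 4) (nat_lit 449) (nat_lit 343) (nat_lit 228)) (XT.nd (nat_lit 78) (nat_lit 0) (nat_lit 0) (XT.lf (nat_lit 0) (nat_lit 2847160712) (nat_lit 152) (nat_lit 3844730145) (nat_lit 228) (nat_lit 23028042039) (nat_lit 134) (nat_lit 5) (nat_lit 136) (nat_lit 5) (nat_lit 137) (nat_lit 5) (nat_lit 450) (nat_lit 343) (nat_lit 227)) (XT.lf (nat_lit 0) (nat_lit 16449119688) (nat_lit 228) (nat_lit 6992995129) (nat_lit 76) (nat_lit 6846287306) (nat_lit 134) (nat_lit 5)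 (nat_lit 137) (nat_lit 5) (nat_lit 135) (nat_lit 4) (nat_lit 451) (nat_lit 343) (nat_lit 226)))) (XT.nd (nat_lit 156) (nat_lit 76) (nat_lit 0) (XT.nd (nat_lit 78) (nat_lit 228) (nat_lit 0) (XT.lf (nat_lit 0) (nat_lit 13675871017) (nat_lit 76) (nat_lit 12973790081) (nat_lit 152) (nat_lit 4219746458) (nat_lit 133) (nat_lit 5) (nat_lit 134) (nat_lit 5) (nat_lit 135) (nat_lit 4) (nat_lit 452) (nat_lit 343) (nat_lit 225)) (XT.lf (nat_lit 0) (nat_lit 3621593563) (nat_lit 152) (nat_lit 2042999637) (nat_lit 228) (nat_lit 25798992999) (nat_lit 130) (nat_lit 5) (nat_lit 132) (nat_lit 5) (nat_lit 133) (nat_lit 5) (nat_lit 453) (nat_lit 343) (nat_lit 224))) (XT.nd (nat_lit 78) (nat_lit 76) (nat_lit 0) (XT.lf (nat_lit 0) (nat_lit 16005710884) (nat_lit 228) (nat_lit 6825007428) (nat_lit 76) (nat_lit 9236266681) (nat_lit 130) (nat_lit 5) (nat_lit 133) (nat_lit 5) (nat_lit 131) (nat_lit 4) (nat_lit 454) (nat_lit 343)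 (nat_lit 223)) (XT.lf (nat_lit 0) (nat_lit 15061039902) (nat_lit 76) (nat_lit 11742708804) (nat_lit 152) (nat_lit 5880336447) (nat_lit 129) (nat_lit 5) (nat_lit 130) (nat_lit 5) (nat_lit 131) (nat_lit 4) (nat_lit 455) (nat_lit 343) (nat_lit 222))))) (XT.nd (nat_lit 312) (nat_lit 304) (nat_lit 0) (XT.nd (nat_lit 156) (nat_lit 304) (nat_lit 0) (XT.nd (nat_lit 78) (nat_lit 0) (nat_lit 0) (XT.lf (nat_lit 0) (nat_lit 4432341747) (nat_lit 152) (nat_lit 177718164) (nat_lit 228) (nat_lit 28705492805) (nat_lit 126) (nat_lit 5) (nat_lit 128) (nat_lit 5) (nat_lit 129) (nat_lit 5) (nat_lit 456) (nat_lit 343) (nat_lit 221)) (XT.lf (nat_lit 0) (nat_lit 15571236804) (nat_lit 228) (nat_lit 6657932478) (nat_lit 76) (nat_lit 11726820660) (nat_lit 126) (nat_lit 5) (nat_lit 129) (nat_lit 5) (nat_lit 127) (nat_lit 4) (nat_lit 457) (nat_lit 343) (nat_lit 220))) (XT.nd (nat_lit 78) (nat_lit 228) (nat_lit 0) (XT.lf (nat_lit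 0) (nat_lit 16520572314) (nat_lit 76) (nat_lit 10483514839) (nat_lit 152) (nat_lit 7607267989) (nat_lit 125) (nat_lit 5) (nat_lit 126) (nat_lit 5) (nat_lit 127) (nat_lit 4) (nat_lit 458) (nat_lit 343) (nat_lit 219)) (XT.lf (nat_lit 0) (nat_lit 3543193124) (nat_lit 228) (nat_lit 30018023739) (nat_lit 76) (nat_lit 1720622283) (nat_lit 122) (nat_lit 5) (nat_lit 125) (nat_lit 5) (nat_lit 123) (nat_lit 4) (nat_lit 459) (nat_lit 343) (nat_lit 218)))) (XT.nd (nat_lit 156) (nat_lit 228) (nat_lit 0) (XT.nd (nat_lit 78) (nat_lit 76) (nat_lit 0) (XT.lf (nat_lit 0) (nat_lit 15145881047) (nat_lit 228) (nat_lit 6492187527) (nat_lit 76) (nat_lit 14323991166) (nat_lit 122) (nat_lit 5) (nat_lit 125) (nat_lit 5) (nat_lit 123) (nat_lit 4) (nat_lit 460) (nat_lit 343) (nat_lit 217)) (XT.lf (nat_lit 0) (nat_lit 18058608566) (nat_lit 76) (nat_lit 9194470456) (nat_lit 152) (nat_lit 9404915046) (nat_lit 121) (nat_lit 5) (nat_lit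 122) (nat_lit 5) (nat_lit 123) (nat_lit 4) (nat_lit 461) (nat_lit 343) (nat_lit 216))) (XT.nd (nat_lit 78) (nat_lit 0) (nat_lit 0) (XT.lf (nat_lit 0) (nat_lit 2447361246) (nat_lit 228) (nat_lit 31236882499) (nat_lit 76) (nat_lit 3685550189) (nat_lit 118) (nat_lit 5) (nat_lit 121) (nat_lit 5) (nat_lit 119) (nat_lit 4) (nat_lit 462) (nat_lit 343) (nat_lit 215)) (XT.lf (nat_lit 0) (nat_lit 14729772369) (nat_lit 228) (nat_lit 6328128175) (nat_lit 76) (nat_lit 17034345833) (nat_lit 118) (nat_lit 5) (nat_lit 121) (nat_lit 5) (nat_lit 119) (nat_lit 4) (nat_lit 463) (nat_lit 343) (nat_lit 214)))))) (XT.nd (nat_lit 546) (nat_lit 608) (nat_lit 0) (XT.nd (nat_lit 234) (nat_lit 304) (nat_lit 0) (XT.nd (nat_lit 78) (nat_lit 152) (nat_lit 0) (XT.lf (nat_lit 0) (nat_lit 19679628200) (nat_lit 76) (nat_lit 7873583511) (nat_lit 152) (nat_lit 11277984005) (nat_lit 117) (nat_lit 5) (nat_lit 118) (nat_lit 5) (nat_lit 119)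 (nat_lit 4) (nat_lit 464) (nat_lit 343) (nat_lit 213)) (XT.nd (nat_lit 78) (nat_lit 0) (nat_lit 0) (XT.lf (nat_lit 0) (nat_lit 1318549928) (nat_lit 152) (nat_lit 32543269000) (nat_lit 76) (nat_lit 5724987838) (nat_lit 115) (nat_lit 5) (nat_lit 117) (nat_lit 5) (nat_lit 116) (nat_lit 4) (nat_lit 465) (nat_lit 343) (nat_lit 212)) (XT.lf (nat_lit 0) (nat_lit 14322991803) (nat_lit 152) (nat_lit 6166055692) (nat_lit 76) (nat_lit 19864988110) (nat_lit 115) (nat_lit 5) (nat_lit 117) (nat_lit 5) (nat_lit 116) (nat_lit 4) (nat_lit 466) (nat_lit 343) (nat_lit 211)))) (XT.nd (nat_lit 156) (nat_lit 76) (nat_lit 0) (XT.nd (nat_lit 78) (nat_lit 152) (nat_lit 0) (XT.lf (nat_lit 0) (nat_lit 21388459663) (nat_lit 76) (nat_lit 6518612925) (nat_lit 152) (nat_lit 13231523552) (nat_lit 114) (nat_lit 5) (nat_lit 115) (nat_lit 5) (nat_lit 116) (nat_lit 4) (nat_lit 467) (nat_lit 343) (nat_lit 210)) (XT.lf (nat_lit 0) (nat_lit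 154263256) (nat_lit 152) (nat_lit 33942622063) (nat_lit 76) (nat_lit 7843781700) (nat_lit 112) (nat_lit 5) (nat_lit 114) (nat_lit 5) (nat_lit 113) (nat_lit 4) (nat_lit 468) (nat_lit 343) (nat_lit 209))) (XT.nd (nat_lit 78) (nat_lit 76) (nat_lit 0) (XT.lf (nat_lit 0) (nat_lit 13925578951) (nat_lit 152) (nat_lit 6006223504) (nat_lit 76) (nat_lit 22823570539) (nat_lit 112) (nat_lit 5) (nat_lit 114) (nat_lit 5) (nat_lit 113) (nat_lit 4) (nat_lit 469) (nat_lit 343) (nat_lit 208)) (XT.lf (nat_lit 0) (nat_lit 23190291829) (nat_lit 76) (nat_lit 5127072045) (nat_lit 152) (nat_lit 15270936382) (nat_lit 111) (nat_lit 5) (nat_lit 112) (nat_lit 5) (nat_lit 113) (nat_lit 4) (nat_lit 470) (nat_lit 343) (nat_lit 207))))) (XT.nd (nat_lit 312) (nat_lit 304) (nat_lit 0) (XT.nd (nat_lit 156) (nat_lit 152) (nat_lit 0) (XT.nd (nat_lit 78) (nat_lit 76) (nat_lit 0) (XT.lf (nat_lit 0) (nat_lit 8988404207) (nat_lit 76) (nat_lit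 34381880887) (nat_lit 76) (nat_lit 1069048760) (nat_lit 110) (nat_lit 4) (nat_lit 111) (nat_lit 5) (nat_lit 111) (nat_lit 4) (nat_lit 471) (nat_lit 343) (nat_lit 206)) (XT.lf (nat_lit 0) (nat_lit 13537537550) (nat_lit 152) (nat_lit 5848842940) (nat_lit 76) (nat_lit 25918311129) (nat_lit 109) (nat_lit 5) (nat_lit 111) (nat_lit 5) (nat_lit 110) (nat_lit 4) (nat_lit 472) (nat_lit 343) (nat_lit 205))) (XT.nd (nat_lit 78) (nat_lit 76) (nat_lit 0) (XT.lf (nat_lit 0) (nat_lit 25090687349) (nat_lit 76) (nat_lit 3696230007) (nat_lit 152) (nat_lit 17401992740) (nat_lit 108) (nat_lit 5) (nat_lit 109) (nat_lit 5) (nat_lit 110) (nat_lit 4) (nat_lit 473) (nat_lit 343) (nat_lit 204)) (XT.lf (nat_lit 0) (nat_lit 10025993352) (nat_lit 76) (nat_lit 34728540378) (nat_lit 76) (nat_lit 2337298742) (nat_lit 107) (nat_lit 4) (nat_lit 108) (nat_lit 5) (nat_lit 108) (nat_lit 4) (nat_lit 474) (nat_lit 343) (nat_lit 203)))) (XT.nd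 (nat_lit 156) (nat_lit 152) (nat_lit 0) (XT.nd (nat_lit 78) (nat_lit 76) (nat_lit 0) (XT.lf (nat_lit 0) (nat_lit 13158840382) (nat_lit 152) (nat_lit 5694088334) (nat_lit 76) (nat_lit 29158012750) (nat_lit 106) (nat_lit 5) (nat_lit 108) (nat_lit 5) (nat_lit 107) (nat_lit 4) (nat_lit 475) (nat_lit 343) (nat_lit 202)) (XT.lf (nat_lit 0) (nat_lit 27095597800) (nat_lit 76) (nat_lit 2223111247) (nat_lit 152) (nat_lit 19630845752) (nat_lit 105) (nat_lit 5) (nat_lit 106) (nat_lit 5) (nat_lit 107) (nat_lit 4) (nat_lit 476) (nat_lit 343) (nat_lit 201))) (XT.nd (nat_lit 78) (nat_lit 76) (nat_lit 0) (XT.lf (nat_lit 0) (nat_lit 11115319615) (nat_lit 76) (nat_lit 35141632014) (nat_lit 76) (nat_lit 3650567568) (nat_lit 104) (nat_lit 4) (nat_lit 105) (nat_lit 5) (nat_lit 105) (nat_lit 4) (nat_lit 477) (nat_lit 343) (nat_lit 200)) (XT.lf (nat_lit 0) (nat_lit 12789433622) (nat_lit 152) (nat_lit 5542101537) (nat_lit 76)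 (nat_lit 32552085495) (nat_lit 103) (nat_lit 5) (nat_lit 105) (nat_lit 5) (nat_lit 104) (nat_lit 4) (nat_lit 478) (nat_lit 343) (nat_lit 199))))))) (XT.nd (nat_lit 42588) (nat_lit 0) (nat_lit 27740) (XT.nd (nat_lit 546) (nat_lit 608) (nat_lit 0) (XT.nd (nat_lit 234) (nat_lit 304) (nat_lit 0) (XT.nd (nat_lit 78) (nat_lit 152) (nat_lit 0) (XT.lf (nat_lit 0) (nat_lit 29211380648) (nat_lit 76) (nat_lit 704493260) (nat_lit 152) (nat_lit 21964048563) (nat_lit 102) (nat_lit 5) (nat_lit 103) (nat_lit 5) (nat_lit 104) (nat_lit 4) (nat_lit 479) (nat_lit 343) (nat_lit 198)) (XT.nd (nat_lit 78) (nat_lit 76) (nat_lit 0) (XT.lf (nat_lit 0) (nat_lit 12259552267) (nat_lit 76) (nat_lit 35624502473) (nat_lit 76) (nat_lit 5012220182) (nat_lit 101) (nat_lit 4) (nat_lit 102) (nat_lit 5) (nat_lit 102) (nat_lit 4) (nat_lit 480) (nat_lit 343) (nat_lit 197)) (XT.lf (nat_lit 0) (nat_lit 12429240664) (nat_lit 152) (nat_lit 5392995921)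 (nat_lit 76) (nat_lit 36110571997) (nat_lit 100) (nat_lit 5) (nat_lit 102) (nat_lit 5) (nat_lit 101) (nat_lit 4) (nat_lit 481) (nat_lit 343) (nat_lit 196)))) (XT.nd (nat_lit 156) (nat_lit 152) (nat_lit 0) (XT.nd (nat_lit 78) (nat_lit 76) (nat_lit 0) (XT.lf (nat_lit 0) (nat_lit 30590017335) (nat_lit 152) (nat_lit 23553772592) (nat_lit 0) (nat_lit 846255168) (nat_lit 99) (nat_lit 5) (nat_lit 101) (nat_lit 4) (nat_lit 99) (nat_lit 4) (nat_lit 482) (nat_lit 343) (nat_lit 195)) (XT.lf (nat_lit 0) (nat_lit 13462088180) (nat_lit 76) (nat_lit 36180653358) (nat_lit 76) (nat_lit 6425843437) (nat_lit 98) (nat_lit 4) (nat_lit 99) (nat_lit 5) (nat_lit 99) (nat_lit 4) (nat_lit 483) (nat_lit 343) (nat_lit 194))) (XT.nd (nat_lit 78) (nat_lit 76) (nat_lit 0) (XT.lf (nat_lit 0) (nat_lit 12078165501) (nat_lit 152) (nat_lit 5246859926) (nat_lit 76) (nat_lit 39844175702) (nat_lit 97) (nat_lit 5) (nat_lit 99) (nat_lit 5)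 (nat_lit 98) (nat_lit 4) (nat_lit 484) (nat_lit 343) (nat_lit 193)) (XT.lf (nat_lit 0) (nat_lit 31343619051) (nat_lit 152) (nat_lit 24512313475) (nat_lit 0) (nat_lit 2434930252) (nat_lit 96) (nat_lit 5) (nat_lit 98) (nat_lit 4) (nat_lit 96) (nat_lit 4) (nat_lit 485) (nat_lit 343) (nat_lit 192))))) (XT.nd (nat_lit 312) (nat_lit 304) (nat_lit 0) (XT.nd (nat_lit 156) (nat_lit 152) (nat_lit 0) (XT.nd (nat_lit 78) (nat_lit 76) (nat_lit 0) (XT.lf (nat_lit 0) (nat_lit 14726560771) (nat_lit 76) (nat_lit 36813759780) (nat_lit 76) (nat_lit 7895255195) (nat_lit 95) (nat_lit 4) (nat_lit 96) (nat_lit 5) (nat_lit 96) (nat_lit 4) (nat_lit 486) (nat_lit 343) (nat_lit 191)) (XT.lf (nat_lit 0) (nat_lit 11736095704) (nat_lit 152) (nat_lit 5103760194) (nat_lit 76) (nat_lit 43764292100) (nat_lit 94) (nat_lit 5) (nat_lit 96) (nat_lit 5) (nat_lit 95) (nat_lit 4) (nat_lit 487) (nat_lit 343) (nat_lit 190))) (XT.nd (nat_lit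 78) (nat_lit 76) (nat_lit 0) (XT.lf (nat_lit 0) (nat_lit 32173647528) (nat_lit 152) (nat_lit 25541312018) (nat_lit 0) (nat_lit 4079194330) (nat_lit 93) (nat_lit 5) (nat_lit 95) (nat_lit 4) (nat_lit 93) (nat_lit 4) (nat_lit 488) (nat_lit 343) (nat_lit 189)) (XT.lf (nat_lit 0) (nat_lit 16056850054) (nat_lit 76) (nat_lit 37527688940) (nat_lit 76) (nat_lit 9424514544) (nat_lit 92) (nat_lit 4) (nat_lit 93) (nat_lit 5) (nat_lit 93) (nat_lit 4) (nat_lit 489) (nat_lit 343) (nat_lit 188)))) (XT.nd (nat_lit 156) (nat_lit 152) (nat_lit 0) (XT.nd (nat_lit 78) (nat_lit 76) (nat_lit 0) (XT.lf (nat_lit 0) (nat_lit 11402905039) (nat_lit 152) (nat_lit 4963744349) (nat_lit 76) (nat_lit 47883042982) (nat_lit 91) (nat_lit 5) (nat_lit 93) (nat_lit 5) (nat_lit 92) (nat_lit 4) (nat_lit 490) (nat_lit 343) (nat_lit 187)) (XT.lf (nat_lit 0) (nat_lit 33084066153) (nat_lit 152) (nat_lit 26644905463) (nat_lit 0) (nat_lit 5783229118)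 (nat_lit 90) (nat_lit 5) (nat_lit 92) (nat_lit 4) (nat_lit 90) (nat_lit 4) (nat_lit 491) (nat_lit 343) (nat_lit 186))) (XT.nd (nat_lit 78) (nat_lit 76) (nat_lit 0) (XT.lf (nat_lit 0) (nat_lit 17457093835) (nat_lit 76) (nat_lit 38326518853) (nat_lit 76) (nat_lit 11017933145) (nat_lit 89) (nat_lit 4) (nat_lit 90) (nat_lit 5) (nat_lit 90) (nat_lit 4) (nat_lit 492) (nat_lit 343) (nat_lit 185)) (XT.lf (nat_lit 0) (nat_lit 11078455778) (nat_lit 152) (nat_lit 4826843458) (nat_lit 76) (nat_lit 52213313743) (nat_lit 88) (nat_lit 5) (nat_lit 90) (nat_lit 5) (nat_lit 89) (nat_lit 4) (nat_lit 493) (nat_lit 343) (nat_lit 184)))))) (XT.nd (nat_lit 624) (nat_lit 2736) (nat_lit 0) (XT.nd (nat_lit 312) (nat_lit 912) (nat_lit 0) (XT.nd (nat_lit 156) (nat_lit 0) (nat_lit 0) (XT.nd (nat_lit 78) (nat_lit 380) (nat_lit 0) (XT.lf (nat_lit 0) (nat_lit 2103663882) (nat_lit 380) (nat_lit 575544218) (nat_lit 380) (nat_lit 575544218)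 (nat_lit 506) (nat_lit 3) (nat_lit 511) (nat_lit 3) (nat_lit 511) (nat_lit 5) (nat_lit 344) (nat_lit 344) (nat_lit 332)) (XT.lf (nat_lit 0) (nat_lit 374799723) (nat_lit 380) (nat_lit 4386097540) (nat_lit 456) (nat_lit 1766946453) (nat_lit 501) (nat_lit 5) (nat_lit 506) (nat_lit 3) (nat_lit 507) (nat_lit 5) (nat_lit 345) (nat_lit 344) (nat_lit 331))) (XT.nd (nat_lit 78) (nat_lit 0) (nat_lit 0) (XT.lf (nat_lit 0) (nat_lit 2993801550) (nat_lit 380) (nat_lit 1068086044) (nat_lit 456) (nat_lit 2486921933) (nat_lit 501) (nat_lit 5) (nat_lit 506) (nat_lit 3) (nat_lit 507) (nat_lit 5) (nat_lit 346) (nat_lit 344) (nat_lit 330)) (XT.lf (nat_lit 76) (nat_lit 2341016502) (nat_lit 0) (nat_lit 3272130683) (nat_lit 456) (nat_lit 959603916) (nat_lit 502) (nat_lit 5) (nat_lit 501) (nat_lit 5) (nat_lit 507) (nat_lit 5) (nat_lit 347) (nat_lit 344) (nat_lit 329)))) (XT.nd (nat_lit 156) (nat_lit 456) (nat_lit 0) (XT.nd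 (nat_lit 78) (nat_lit 0) (nat_lit 0) (XT.lf (nat_lit 0) (nat_lit 1591830633) (nat_lit 456) (nat_lit 794956284) (nat_lit 532) (nat_lit 4212781580) (nat_lit 495) (nat_lit 5) (nat_lit 501) (nat_lit 5) (nat_lit 502) (nat_lit 5) (nat_lit 348) (nat_lit 344) (nat_lit 328)) (XT.lf (nat_lit 76) (nat_lit 2734833311) (nat_lit 0) (nat_lit 1395584213) (nat_lit 532) (nat_lit 2498590968) (nat_lit 496) (nat_lit 5) (nat_lit 495) (nat_lit 5) (nat_lit 502) (nat_lit 5) (nat_lit 349) (nat_lit 344) (nat_lit 327))) (XT.nd (nat_lit 78) (nat_lit 456) (nat_lit 0) (XT.lf (nat_lit 76) (nat_lit 6333383925) (nat_lit 0) (nat_lit 325707058) (nat_lit 532) (nat_lit 2822834) (nat_lit 496) (nat_lit 5) (nat_lit 495) (nat_lit 5) (nat_lit 502) (nat_lit 5) (nat_lit 350) (nat_lit 344) (nat_lit 326)) (XT.lf (nat_lit 0) (nat_lit 2465859155) (nat_lit 532) (nat_lit 3374580632) (nat_lit 608) (nat_lit 856181566) (nat_lit 489) (nat_lit 5) (nat_lit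 496) (nat_lit 5) (nat_lit 497) (nat_lit 5) (nat_lit 351) (nat_lit 344) (nat_lit 325))))) (XT.nd (nat_lit 312) (nat_lit 2128) (nat_lit 0) (XT.nd (nat_lit 156) (nat_lit 0) (nat_lit 0) (XT.nd (nat_lit 78) (nat_lit 608) (nat_lit 0) (XT.lf (nat_lit 76) (nat_lit 302979705) (nat_lit 0) (nat_lit 4625321213) (nat_lit 608) (nat_lit 1806475678) (nat_lit 490) (nat_lit 5) (nat_lit 489) (nat_lit 5) (nat_lit 497) (nat_lit 5) (nat_lit 352) (nat_lit 344) (nat_lit 324)) (XT.lf (nat_lit 0) (nat_lit 622957391) (nat_lit 608) (nat_lit 2677436716) (nat_lit 684) (nat_lit 3475106466) (nat_lit 481) (nat_lit 5) (nat_lit 489) (nat_lit 5) (nat_lit 490) (nat_lit 5) (nat_lit 353) (nat_lit 344) (nat_lit 323))) (XT.nd (nat_lit 78) (nat_lit 0) (nat_lit 0) (XT.lf (nat_lit 76) (nat_lit 1138100410) (nat_lit 0) (nat_lit 1875861900) (nat_lit 684) (nat_lit 3805197466) (nat_lit 482) (nat_lit 5) (nat_lit 481) (nat_lit 5) (nat_lit 490) (nat_lit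 5) (nat_lit 354) (nat_lit 344) (nat_lit 322)) (XT.lf (nat_lit 76) (nat_lit 5067758911) (nat_lit 0) (nat_lit 352004728) (nat_lit 684) (nat_lit 1446073127) (nat_lit 482) (nat_lit 5) (nat_lit 481) (nat_lit 5) (nat_lit 490) (nat_lit 5) (nat_lit 355) (nat_lit 344) (nat_lit 321)))) (XT.nd (nat_lit 156) (nat_lit 1520) (nat_lit 0) (XT.nd (nat_lit 78) (nat_lit 0) (nat_lit 0) (XT.lf (nat_lit 0) (nat_lit 915508040) (nat_lit 684) (nat_lit 4748536651) (nat_lit 76) (nat_lit 1251059230) (nat_lit 473) (nat_lit 5) (nat_lit 482) (nat_lit 5) (nat_lit 474) (nat_lit 5) (nat_lit 356) (nat_lit 344) (nat_lit 320)) (XT.lf (nat_lit 0) (nat_lit 3260481494) (nat_lit 684) (nat_lit 753655317) (nat_lit 76) (nat_lit 2953034468) (nat_lit 473) (nat_lit 5) (nat_lit 482) (nat_lit 5) (nat_lit 474) (nat_lit 5) (nat_lit 357) (nat_lit 344) (nat_lit 319))) (XT.nd (nat_lit 78) (nat_lit 836) (nat_lit 0) (XT.lf (nat_lit 0) (nat_lit 3371147930)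 (nat_lit 684) (nat_lit 2259185507) (nat_lit 760) (nat_lit 1391831342) (nat_lit 464) (nat_lit 5) (nat_lit 473) (nat_lit 5) (nat_lit 474) (nat_lit 5) (nat_lit 358) (nat_lit 344) (nat_lit 318)) (XT.lf (nat_lit 0) (nat_lit 500014257) (nat_lit 760) (nat_lit 408692009) (nat_lit 836) (nat_lit 6171747607) (nat_lit 453) (nat_lit 5) (nat_lit 463) (nat_lit 5) (nat_lit 464) (nat_lit 5) (nat_lit 359) (nat_lit 344) (nat_lit 317))))))))
noncomputable def xc109 : XT := (XT.nd (nat_lit 2340) (nat_lit 6688) (nat_lit 0) (XT.nd (nat_lit 1170) (nat_lit 5244) (nat_lit 0) (XT.nd (nat_lit 546) (nat_lit 4560) (nat_lit 0) (XT.nd (nat_lit 234) (nat_lit 3040) (nat_lit 0) (XT.nd (nat_lit 78) (nat_lit 912) (nat_lit 0) (XT.lf (nat_lit 0) (nat_lit 3226902870) (nat_lit 836) (nat_lit 2376080746) (nat_lit 76) (nat_lit 1537796088) (nat_lit 453) (nat_lit 5) (nat_lit 464) (nat_lit 5) (nat_lit 454) (nat_lit 5) (nat_lit 360) (nat_lit 344)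 (nat_lit 316)) (XT.nd (nat_lit 78) (nat_lit 76) (nat_lit 0) (XT.lf (nat_lit 0) (nat_lit 1931177683) (nat_lit 836) (nat_lit 3633253571) (nat_lit 912) (nat_lit 1639990482) (nat_lit 442) (nat_lit 5) (nat_lit 453) (nat_lit 5) (nat_lit 454) (nat_lit 5) (nat_lit 361) (nat_lit 344) (nat_lit 315)) (XT.lf (nat_lit 0) (nat_lit 640693205) (nat_lit 912) (nat_lit 917622107) (nat_lit 76) (nat_lit 5712886796) (nat_lit 441) (nat_lit 5) (nat_lit 453) (nat_lit 5) (nat_lit 442) (nat_lit 5) (nat_lit 362) (nat_lit 344) (nat_lit 314)))) (XT.nd (nat_lit 156) (nat_lit 1140) (nat_lit 0) (XT.nd (nat_lit 78) (nat_lit 988) (nat_lit 0) (XT.lf (nat_lit 0) (nat_lit 2927456345) (nat_lit 988) (nat_lit 3780809219) (nat_lit 76) (nat_lit 632114569) (nat_lit 429) (nat_lit 5) (nat_lit 442) (nat_lit 5) (nat_lit 430) (nat_lit 5) (nat_lit 363) (nat_lit 344) (nat_lit 313)) (XT.lf (nat_lit 0) (nat_lit 719365415) (nat_lit 988) (nat_lit 4526928944)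 (nat_lit 1064) (nat_lit 2166434979) (nat_lit 416) (nat_lit 5) (nat_lit 429) (nat_lit 5) (nat_lit 430) (nat_lit 5) (nat_lit 364) (nat_lit 344) (nat_lit 312))) (XT.nd (nat_lit 78) (nat_lit 1064) (nat_lit 0) (XT.lf (nat_lit 0) (nat_lit 115675112) (nat_lit 1064) (nat_lit 2114313709) (nat_lit 76) (nat_lit 5258084562) (nat_lit 415) (nat_lit 5) (nat_lit 429) (nat_lit 5) (nat_lit 416) (nat_lit 5) (nat_lit 365) (nat_lit 344) (nat_lit 311)) (XT.lf (nat_lit 0) (nat_lit 2383808390) (nat_lit 1140) (nat_lit 4993975177) (nat_lit 76) (nat_lit 188417594) (nat_lit 401) (nat_lit 5) (nat_lit 416) (nat_lit 5) (nat_lit 402) (nat_lit 5) (nat_lit 366) (nat_lit 344) (nat_lit 310))))) (XT.nd (nat_lit 312) (nat_lit 2128) (nat_lit 0) (XT.nd (nat_lit 156) (nat_lit 1292) (nat_lit 0) (XT.nd (nat_lit 78) (nat_lit 1140) (nat_lit 0) (XT.lf (nat_lit 0) (nat_lit 4699581596) (nat_lit 1140) (nat_lit 283822839) (nat_lit 76) (nat_lit 2663880459)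 (nat_lit 401) (nat_lit 5) (nat_lit 416) (nat_lit 5) (nat_lit 402) (nat_lit 5) (nat_lit 367) (nat_lit 344) (nat_lit 309)) (XT.lf (nat_lit 0) (nat_lit 4600906245) (nat_lit 1140) (nat_lit 2465968887) (nat_lit 1216) (nat_lit 664464595) (nat_lit 386) (nat_lit 5) (nat_lit 401) (nat_lit 5) (nat_lit 402) (nat_lit 5) (nat_lit 368) (nat_lit 344) (nat_lit 308))) (XT.nd (nat_lit 78) (nat_lit 0) (nat_lit 0) (XT.lf (nat_lit 0) (nat_lit 1614477555) (nat_lit 1292) (nat_lit 6038792553) (nat_lit 76) (nat_lit 165355591) (nat_lit 369) (nat_lit 5) (nat_lit 386) (nat_lit 5) (nat_lit 370) (nat_lit 5) (nat_lit 369) (nat_lit 344) (nat_lit 307)) (XT.lf (nat_lit 0) (nat_lit 3944545538) (nat_lit 1292) (nat_lit 1095771255) (nat_lit 76) (nat_lit 2868132714) (nat_lit 369) (nat_lit 5) (nat_lit 386) (nat_lit 5) (nat_lit 370) (nat_lit 5) (nat_lit 370) (nat_lit 344) (nat_lit 306)))) (XT.nd (nat_lit 156) (nat_lit 608) (nat_lit 0) (XT.nd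 (nat_lit 78) (nat_lit 684) (nat_lit 0) (XT.lf (nat_lit 0) (nat_lit 4017172357) (nat_lit 836) (nat_lit 2307485800) (nat_lit 912) (nat_lit 1676905593) (nat_lit 358) (nat_lit 5) (nat_lit 369) (nat_lit 5) (nat_lit 370) (nat_lit 5) (nat_lit 371) (nat_lit 344) (nat_lit 305)) (XT.lf (nat_lit 0) (nat_lit 635148095) (nat_lit 684) (nat_lit 6935883538) (nat_lit 76) (nat_lit 527153386) (nat_lit 349) (nat_lit 5) (nat_lit 358) (nat_lit 5) (nat_lit 350) (nat_lit 5) (nat_lit 372) (nat_lit 344) (nat_lit 304))) (XT.nd (nat_lit 78) (nat_lit 608) (nat_lit 0) (XT.lf (nat_lit 0) (nat_lit 2989600384) (nat_lit 684) (nat_lit 1749766992) (nat_lit 76) (nat_lit 3457637225) (nat_lit 349) (nat_lit 5) (nat_lit 358) (nat_lit 5) (nat_lit 350) (nat_lit 5) (nat_lit 373) (nat_lit 344) (nat_lit 303)) (XT.lf (nat_lit 0) (nat_lit 3605500435) (nat_lit 608) (nat_lit 1788758487) (nat_lit 684) (nat_lit 2905142669) (nat_lit 341) (nat_lit 5) (nat_lit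 349) (nat_lit 5) (nat_lit 350) (nat_lit 5) (nat_lit 374) (nat_lit 344) (nat_lit 302)))))) (XT.nd (nat_lit 546) (nat_lit 2432) (nat_lit 0) (XT.nd (nat_lit 234) (nat_lit 1596) (nat_lit 0) (XT.nd (nat_lit 78) (nat_lit 684) (nat_lit 0) (XT.lf (nat_lit 0) (nat_lit 696519774) (nat_lit 532) (nat_lit 7157053335) (nat_lit 608) (nat_lit 551821904) (nat_lit 334) (nat_lit 5) (nat_lit 341) (nat_lit 5) (nat_lit 342) (nat_lit 5) (nat_lit 375) (nat_lit 344) (nat_lit 301)) (XT.nd (nat_lit 78) (nat_lit 608) (nat_lit 0) (XT.lf (nat_lit 0) (nat_lit 1847601789) (nat_lit 608) (nat_lit 2262778315) (nat_lit 76) (nat_lit 4403287221) (nat_lit 333) (nat_lit 5) (nat_lit 341) (nat_lit 5) (nat_lit 334) (nat_lit 5) (nat_lit 376) (nat_lit 344) (nat_lit 300)) (XT.lf (nat_lit 0) (nat_lit 3349976761) (nat_lit 608) (nat_lit 938157639) (nat_lit 684) (nat_lit 4337482979) (nat_lit 325) (nat_lit 5) (nat_lit 333) (nat_lit 5) (nat_lit 334)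 (nat_lit 5) (nat_lit 377) (nat_lit 344) (nat_lit 299)))) (XT.nd (nat_lit 156) (nat_lit 988) (nat_lit 0) (XT.nd (nat_lit 78) (nat_lit 76) (nat_lit 0) (XT.lf (nat_lit 0) (nat_lit 364191572) (nat_lit 532) (nat_lit 6435599741) (nat_lit 608) (nat_lit 1941197373) (nat_lit 318) (nat_lit 5) (nat_lit 325) (nat_lit 5) (nat_lit 326) (nat_lit 5) (nat_lit 378) (nat_lit 344) (nat_lit 298)) (XT.lf (nat_lit 0) (nat_lit 529168050) (nat_lit 608) (nat_lit 2649741226) (nat_lit 76) (nat_lit 5680385654) (nat_lit 317) (nat_lit 5) (nat_lit 325) (nat_lit 5) (nat_lit 318) (nat_lit 5) (nat_lit 379) (nat_lit 344) (nat_lit 297))) (XT.nd (nat_lit 78) (nat_lit 456) (nat_lit 0) (XT.lf (nat_lit 0) (nat_lit 3018717155) (nat_lit 608) (nat_lit 5746474901) (nat_lit 76) (nat_lit 215859045) (nat_lit 310) (nat_lit 5) (nat_lit 318) (nat_lit 5) (nat_lit 311) (nat_lit 5) (nat_lit 380) (nat_lit 344) (nat_lit 296)) (XT.lf (nat_lit 0) (nat_lit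 158298249) (nat_lit 456) (nat_lit 5436354603) (nat_lit 532) (nat_lit 3511456102) (nat_lit 304) (nat_lit 5) (nat_lit 310) (nat_lit 5) (nat_lit 311) (nat_lit 5) (nat_lit 381) (nat_lit 344) (nat_lit 295))))) (XT.nd (nat_lit 312) (nat_lit 1368) (nat_lit 0) (XT.nd (nat_lit 156) (nat_lit 456) (nat_lit 0) (XT.nd (nat_lit 78) (nat_lit 608) (nat_lit 0) (XT.lf (nat_lit 0) (nat_lit 6301437385) (nat_lit 456) (nat_lit 1957002855) (nat_lit 532) (nat_lit 976161095) (nat_lit 304) (nat_lit 5) (nat_lit 310) (nat_lit 5) (nat_lit 311) (nat_lit 5) (nat_lit 382) (nat_lit 344) (nat_lit 294)) (XT.lf (nat_lit 0) (nat_lit 1604046515) (nat_lit 608) (nat_lit 6129101795) (nat_lit 76) (nat_lit 1633305755) (nat_lit 296) (nat_lit 5) (nat_lit 304) (nat_lit 5) (nat_lit 297) (nat_lit 5) (nat_lit 383) (nat_lit 344) (nat_lit 293))) (XT.nd (nat_lit 78) (nat_lit 0) (nat_lit 0) (XT.lf (nat_lit 0) (nat_lit 67128783) (nat_lit 456) (nat_lit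 4179048503) (nat_lit 532) (nat_lit 5255671037) (nat_lit 290) (nat_lit 5) (nat_lit 296) (nat_lit 5) (nat_lit 297) (nat_lit 5) (nat_lit 384) (nat_lit 344) (nat_lit 292)) (XT.lf (nat_lit 0) (nat_lit 6518857783) (nat_lit 456) (nat_lit 465604213) (nat_lit 532) (nat_lit 2656335712) (nat_lit 290) (nat_lit 5) (nat_lit 296) (nat_lit 5) (nat_lit 297) (nat_lit 5) (nat_lit 385) (nat_lit 344) (nat_lit 291)))) (XT.nd (nat_lit 156) (nat_lit 456) (nat_lit 0) (XT.nd (nat_lit 78) (nat_lit 380) (nat_lit 0) (XT.lf (nat_lit 0) (nat_lit 41550718) (nat_lit 532) (nat_lit 6425848939) (nat_lit 76) (nat_lit 3315880456) (nat_lit 283) (nat_lit 5) (nat_lit 290) (nat_lit 5) (nat_lit 284) (nat_lit 5) (nat_lit 386) (nat_lit 344) (nat_lit 290)) (XT.lf (nat_lit 0) (nat_lit 80512497) (nat_lit 380) (nat_lit 2680219008) (nat_lit 456) (nat_lit 7168704049) (nat_lit 278) (nat_lit 5) (nat_lit 283) (nat_lit 5) (nat_lit 284) (nat_lit 5) (nat_lit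 387) (nat_lit 344) (nat_lit 289))) (XT.nd (nat_lit 78) (nat_lit 456) (nat_lit 0) (XT.lf (nat_lit 0) (nat_lit 5595890030) (nat_lit 456) (nat_lit 3233153516) (nat_lit 76) (nat_lit 1249900044) (nat_lit 278) (nat_lit 5) (nat_lit 284) (nat_lit 5) (nat_lit 279) (nat_lit 5) (nat_lit 388) (nat_lit 344) (nat_lit 288)) (XT.lf (nat_lit 0) (nat_lit 3569311641) (nat_lit 456) (nat_lit 4966025736) (nat_lit 532) (nat_lit 1697022467) (nat_lit 272) (nat_lit 5) (nat_lit 278) (nat_lit 5) (nat_lit 279) (nat_lit 5) (nat_lit 389) (nat_lit 344) (nat_lit 287))))))) (XT.nd (nat_lit 1170) (nat_lit 2888) (nat_lit 0) (XT.nd (nat_lit 546) (nat_lit 1824) (nat_lit 0) (XT.nd (nat_lit 234) (nat_lit 1140) (nat_lit 0) (XT.nd (nat_lit 78) (nat_lit 380) (nat_lit 0) (XT.lf (nat_lit 0) (nat_lit 189658974) (nat_lit 380) (nat_lit 953515239) (nat_lit 456) (nat_lit 9247062241) (nat_lit 266) (nat_lit 5) (nat_lit 271) (nat_lit 5) (nat_lit 272)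 (nat_lit 5) (nat_lit 390) (nat_lit 344) (nat_lit 286)) (XT.nd (nat_lit 78) (nat_lit 380) (nat_lit 0) (XT.lf (nat_lit 0) (nat_lit 4092195644) (nat_lit 456) (nat_lit 3270047263) (nat_lit 76) (nat_lit 3188370568) (nat_lit 266) (nat_lit 5) (nat_lit 272) (nat_lit 5) (nat_lit 267) (nat_lit 5) (nat_lit 391) (nat_lit 344) (nat_lit 285)) (XT.lf (nat_lit 0) (nat_lit 3880585910) (nat_lit 380) (nat_lit 3256248388) (nat_lit 456) (nat_lit 3578753112) (nat_lit 261) (nat_lit 5) (nat_lit 266) (nat_lit 5) (nat_lit 267) (nat_lit 5) (nat_lit 392) (nat_lit 344) (nat_lit 284)))) (XT.nd (nat_lit 156) (nat_lit 684) (nat_lit 0) (XT.nd (nat_lit 78) (nat_lit 76) (nat_lit 0) (XT.lf (nat_lit 0) (nat_lit 371221082) (nat_lit 380) (nat_lit 9908761046) (nat_lit 456) (nat_lit 605313335) (nat_lit 256) (nat_lit 5) (nat_lit 261) (nat_lit 5) (nat_lit 262) (nat_lit 5) (nat_lit 393) (nat_lit 344) (nat_lit 283)) (XT.lf (nat_lit 0) (nat_lit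 2472461255) (nat_lit 456) (nat_lit 3235660336) (nat_lit 76) (nat_lit 5349372037) (nat_lit 255) (nat_lit 5) (nat_lit 261) (nat_lit 5) (nat_lit 256) (nat_lit 5) (nat_lit 394) (nat_lit 344) (nat_lit 282))) (XT.nd (nat_lit 78) (nat_lit 304) (nat_lit 0) (XT.lf (nat_lit 0) (nat_lit 4285503043) (nat_lit 380) (nat_lit 1348365989) (nat_lit 456) (nat_lit 5600704926) (nat_lit 250) (nat_lit 5) (nat_lit 255) (nat_lit 5) (nat_lit 256) (nat_lit 5) (nat_lit 395) (nat_lit 344) (nat_lit 281)) (XT.lf (nat_lit 0) (nat_lit 610346759) (nat_lit 304) (nat_lit 8311554929) (nat_lit 380) (nat_lit 2494111528) (nat_lit 246) (nat_lit 5) (nat_lit 250) (nat_lit 5) (nat_lit 251) (nat_lit 5) (nat_lit 396) (nat_lit 344) (nat_lit 280))))) (XT.nd (nat_lit 312) (nat_lit 1064) (nat_lit 0) (XT.nd (nat_lit 156) (nat_lit 304) (nat_lit 0) (XT.nd (nat_lit 78) (nat_lit 380) (nat_lit 0) (XT.lf (nat_lit 0) (nat_lit 739051559) (nat_lit 380) (nat_lit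 3136512278) (nat_lit 76) (nat_lit 7725714047) (nat_lit 245) (nat_lit 5) (nat_lit 250) (nat_lit 5) (nat_lit 246) (nat_lit 5) (nat_lit 397) (nat_lit 344) (nat_lit 279)) (XT.lf (nat_lit 0) (nat_lit 4036232607) (nat_lit 456) (nat_lit 7019313099) (nat_lit 76) (nat_lit 735299393) (nat_lit 240) (nat_lit 5) (nat_lit 246) (nat_lit 5) (nat_lit 241) (nat_lit 5) (nat_lit 398) (nat_lit 344) (nat_lit 278))) (XT.nd (nat_lit 78) (nat_lit 0) (nat_lit 0) (XT.lf (nat_lit 0) (nat_lit 922567955) (nat_lit 304) (nat_lit 6553385823) (nat_lit 380) (nat_lit 4508836812) (nat_lit 236) (nat_lit 5) (nat_lit 240) (nat_lit 5) (nat_lit 241) (nat_lit 5) (nat_lit 399) (nat_lit 344) (nat_lit 277)) (XT.lf (nat_lit 0) (nat_lit 9194398231) (nat_lit 304) (nat_lit 1860283123) (nat_lit 380) (nat_lit 1128798648) (nat_lit 236) (nat_lit 5) (nat_lit 240) (nat_lit 5) (nat_lit 241) (nat_lit 5) (nat_lit 400) (nat_lit 344) (nat_lit 276)))) (XT.nd (nat_lit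 156) (nat_lit 380) (nat_lit 0) (XT.nd (nat_lit 78) (nat_lit 304) (nat_lit 0) (XT.lf (nat_lit 0) (nat_lit 2352997558) (nat_lit 380) (nat_lit 7059284364) (nat_lit 76) (nat_lit 2973781763) (nat_lit 231) (nat_lit 5) (nat_lit 236) (nat_lit 5) (nat_lit 232) (nat_lit 5) (nat_lit 401) (nat_lit 344) (nat_lit 275)) (XT.lf (nat_lit 0) (nat_lit 1303400946) (nat_lit 304) (nat_lit 4640556430) (nat_lit 380) (nat_lit 6649610290) (nat_lit 227) (nat_lit 5) (nat_lit 231) (nat_lit 5) (nat_lit 232) (nat_lit 5) (nat_lit 402) (nat_lit 344) (nat_lit 274))) (XT.nd (nat_lit 78) (nat_lit 380) (nat_lit 0) (XT.lf (nat_lit 0) (nat_lit 9683569888) (nat_lit 380) (nat_lit 2798864458) (nat_lit 76) (nat_lit 323634706) (nat_lit 227) (nat_lit 5) (nat_lit 232) (nat_lit 5) (nat_lit 228) (nat_lit 5) (nat_lit 403) (nat_lit 344) (nat_lit 273)) (XT.lf (nat_lit 0) (nat_lit 571747790) (nat_lit 380) (nat_lit 7061285048) (nat_lit 76) (nat_lit 5389626962)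 (nat_lit 222) (nat_lit 5) (nat_lit 227) (nat_lit 5) (nat_lit 223) (nat_lit 5) (nat_lit 404) (nat_lit 344) (nat_lit 272)))))) (XT.nd (nat_lit 624) (nat_lit 1444) (nat_lit 0) (XT.nd (nat_lit 312) (nat_lit 608) (nat_lit 0) (XT.nd (nat_lit 156) (nat_lit 608) (nat_lit 0) (XT.nd (nat_lit 78) (nat_lit 0) (nat_lit 0) (XT.lf (nat_lit 0) (nat_lit 1749155486) (nat_lit 228) (nat_lit 2577695120) (nat_lit 304) (nat_lit 8917586563) (nat_lit 219) (nat_lit 5) (nat_lit 222) (nat_lit 5) (nat_lit 223) (nat_lit 5) (nat_lit 405) (nat_lit 344) (nat_lit 271)) (XT.lf (nat_lit 0) (nat_lit 8259615370) (nat_lit 304) (nat_lit 2579018921) (nat_lit 76) (nat_lit 2632283301) (nat_lit 219) (nat_lit 5) (nat_lit 223) (nat_lit 5) (nat_lit 220) (nat_lit 5) (nat_lit 406) (nat_lit 344) (nat_lit 270))) (XT.nd (nat_lit 78) (nat_lit 304) (nat_lit 0) (XT.lf (nat_lit 0) (nat_lit 6659680444) (nat_lit 304) (nat_lit 5708884663) (nat_lit 380) (nat_lit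 1333881261) (nat_lit 215) (nat_lit 5) (nat_lit 219) (nat_lit 5) (nat_lit 220) (nat_lit 5) (nat_lit 407) (nat_lit 344) (nat_lit 269)) (XT.lf (nat_lit 0) (nat_lit 2256862146) (nat_lit 228) (nat_lit 367891105) (nat_lit 304) (nat_lit 11314896875) (nat_lit 211) (nat_lit 5) (nat_lit 214) (nat_lit 5) (nat_lit 215) (nat_lit 5) (nat_lit 408) (nat_lit 344) (nat_lit 268)))) (XT.nd (nat_lit 156) (nat_lit 304) (nat_lit 0) (XT.nd (nat_lit 78) (nat_lit 304) (nat_lit 0) (XT.lf (nat_lit 0) (nat_lit 6765563188) (nat_lit 304) (nat_lit 2315122823) (nat_lit 76) (nat_lit 5100181004) (nat_lit 211) (nat_lit 5) (nat_lit 215) (nat_lit 5) (nat_lit 212) (nat_lit 5) (nat_lit 409) (nat_lit 344) (nat_lit 267)) (XT.lf (nat_lit 0) (nat_lit 7426419185) (nat_lit 304) (nat_lit 3649168281) (nat_lit 380) (nat_lit 3352383241) (nat_lit 207) (nat_lit 5) (nat_lit 211) (nat_lit 5) (nat_lit 212) (nat_lit 5) (nat_lit 410) (nat_lit 344) (nat_lit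 266))) (XT.nd (nat_lit 78) (nat_lit 0) (nat_lit 0) (XT.lf (nat_lit 0) (nat_lit 856122067) (nat_lit 304) (nat_lit 11876515576) (nat_lit 76) (nat_lit 1948411592) (nat_lit 203) (nat_lit 5) (nat_lit 207) (nat_lit 5) (nat_lit 204) (nat_lit 5) (nat_lit 411) (nat_lit 344) (nat_lit 265)) (XT.lf (nat_lit 0) (nat_lit 5201347150) (nat_lit 304) (nat_lit 2010073422) (nat_lit 76) (nat_lit 7726968465) (nat_lit 203) (nat_lit 5) (nat_lit 207) (nat_lit 5) (nat_lit 204) (nat_lit 5) (nat_lit 412) (nat_lit 344) (nat_lit 264))))) (XT.nd (nat_lit 312) (nat_lit 684) (nat_lit 0) (XT.nd (nat_lit 156) (nat_lit 304) (nat_lit 0) (XT.nd (nat_lit 78) (nat_lit 228) (nat_lit 0) (XT.lf (nat_lit 0) (nat_lit 8266309816) (nat_lit 228) (nat_lit 1461256556) (nat_lit 304) (nat_lit 5474363538) (nat_lit 200) (nat_lit 5) (nat_lit 203) (nat_lit 5) (nat_lit 204) (nat_lit 5) (nat_lit 413) (nat_lit 344) (nat_lit 263)) (XT.lf (nat_lit 0) (nat_lit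 3395014198) (nat_lit 228) (nat_lit 11061965395) (nat_lit 304) (nat_lit 1014375194) (nat_lit 197) (nat_lit 5) (nat_lit 200) (nat_lit 5) (nat_lit 201) (nat_lit 5) (nat_lit 414) (nat_lit 344) (nat_lit 262))) (XT.nd (nat_lit 78) (nat_lit 228) (nat_lit 0) (XT.lf (nat_lit 0) (nat_lit 3566251979) (nat_lit 304) (nat_lit 1666259249) (nat_lit 76) (nat_lit 10513618366) (nat_lit 196) (nat_lit 5) (nat_lit 200) (nat_lit 5) (nat_lit 197) (nat_lit 5) (nat_lit 415) (nat_lit 344) (nat_lit 261)) (XT.lf (nat_lit 0) (nat_lit 8332676220) (nat_lit 304) (nat_lit 6856329982) (nat_lit 76) (nat_lit 837777156) (nat_lit 193) (nat_lit 5) (nat_lit 197) (nat_lit 5) (nat_lit 194) (nat_lit 5) (nat_lit 416) (nat_lit 344) (nat_lit 260)))) (XT.nd (nat_lit 156) (nat_lit 380) (nat_lit 0) (XT.nd (nat_lit 78) (nat_lit 76) (nat_lit 0) (XT.lf (nat_lit 0) (nat_lit 4031294201) (nat_lit 228) (nat_lit 9290856947) (nat_lit 304) (nat_lit 2991303849)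 (nat_lit 190) (nat_lit 5) (nat_lit 193) (nat_lit 5) (nat_lit 194) (nat_lit 5) (nat_lit 417) (nat_lit 344) (nat_lit 259)) (XT.lf (nat_lit 0) (nat_lit 1858950850) (nat_lit 304) (nat_lit 1285607366) (nat_lit 76) (nat_lit 13462358787) (nat_lit 189) (nat_lit 5) (nat_lit 193) (nat_lit 5) (nat_lit 190) (nat_lit 5) (nat_lit 418) (nat_lit 344) (nat_lit 258))) (XT.nd (nat_lit 78) (nat_lit 152) (nat_lit 0) (XT.lf (nat_lit 0) (nat_lit 6897400973) (nat_lit 304) (nat_lit 6773504053) (nat_lit 76) (nat_lit 3234305037) (nat_lit 186) (nat_lit 5) (nat_lit 190) (nat_lit 5) (nat_lit 187) (nat_lit 5) (nat_lit 419) (nat_lit 344) (nat_lit 257)) (XT.lf (nat_lit 0) (nat_lit 4721327504) (nat_lit 152) (nat_lit 7428868135) (nat_lit 228) (nat_lit 5060360545) (nat_lit 184) (nat_lit 5) (nat_lit 186) (nat_lit 5) (nat_lit 187) (nat_lit 5) (nat_lit 420) (nat_lit 344) (nat_lit 256))))))))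
noncomputable def xc110 : XT := (XT.nd (nat_lit 2340) (nat_lit 2736) (nat_lit 0) (XT.nd (nat_lit 1170) (nat_lit 1520) (nat_lit 0) (XT.nd (nat_lit 546) (nat_lit 1140) (nat_lit 0) (XT.nd (nat_lit 234) (nat_lit 456) (nat_lit 0) (XT.nd (nat_lit 78) (nat_lit 380) (nat_lit 0) (XT.lf (nat_lit 0) (nat_lit 77536472) (nat_lit 228) (nat_lit 869624724) (nat_lit 76) (nat_lit 16576609711) (nat_lit 183) (nat_lit 5) (nat_lit 186) (nat_lit 5) (nat_lit 184) (nat_lit 5) (nat_lit 421) (nat_lit 344) (nat_lit 255)) (XT.nd (nat_lit 78) (nat_lit 152) (nat_lit 0) (XT.lf (nat_lit 0) (nat_lit 5406613893) (nat_lit 304) (nat_lit 6675520004) (nat_lit 76) (nat_lit 5758582547) (nat_lit 180) (nat_lit 5) (nat_lit 184) (nat_lit 5) (nat_lit 181) (nat_lit 5) (nat_lit 422) (nat_lit 344) (nat_lit 254)) (XT.lf (nat_lit 0) (nat_lit 5464882485) (nat_lit 152) (nat_lit 5476016801) (nat_lit 228) (nat_lit 7224910991) (nat_lit 178) (nat_lit 5) (nat_lit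 180) (nat_lit 5) (nat_lit 181) (nat_lit 5) (nat_lit 423) (nat_lit 344) (nat_lit 253)))) (XT.nd (nat_lit 156) (nat_lit 152) (nat_lit 0) (XT.nd (nat_lit 78) (nat_lit 304) (nat_lit 0) (XT.lf (nat_lit 0) (nat_lit 16696755881) (nat_lit 228) (nat_lit 450145443) (nat_lit 76) (nat_lit 1352089322) (nat_lit 178) (nat_lit 5) (nat_lit 181) (nat_lit 5) (nat_lit 179) (nat_lit 5) (nat_lit 424) (nat_lit 344) (nat_lit 252)) (XT.lf (nat_lit 0) (nat_lit 3858758329) (nat_lit 304) (nat_lit 6564502330) (nat_lit 76) (nat_lit 8413331029) (nat_lit 174) (nat_lit 5) (nat_lit 178) (nat_lit 5) (nat_lit 175) (nat_lit 5) (nat_lit 425) (nat_lit 344) (nat_lit 251))) (XT.nd (nat_lit 78) (nat_lit 0) (nat_lit 0) (XT.lf (nat_lit 0) (nat_lit 6262157649) (nat_lit 152) (nat_lit 3431485833) (nat_lit 228) (nat_lit 9488933399) (nat_lit 172) (nat_lit 5) (nat_lit 174) (nat_lit 5) (nat_lit 175) (nat_lit 5) (nat_lit 426) (nat_lit 344) (nat_lit 250))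 (XT.lf (nat_lit 0) (nat_lit 15782383312) (nat_lit 228) (nat_lit 8975119) (nat_lit 76) (nat_lit 3745218957) (nat_lit 172) (nat_lit 5) (nat_lit 175) (nat_lit 5) (nat_lit 173) (nat_lit 5) (nat_lit 427) (nat_lit 344) (nat_lit 249))))) (XT.nd (nat_lit 312) (nat_lit 532) (nat_lit 0) (XT.nd (nat_lit 156) (nat_lit 228) (nat_lit 0) (XT.nd (nat_lit 78) (nat_lit 152) (nat_lit 0) (XT.lf (nat_lit 0) (nat_lit 2251822704) (nat_lit 228) (nat_lit 6442309144) (nat_lit 76) (nat_lit 11202208102) (nat_lit 169) (nat_lit 5) (nat_lit 172) (nat_lit 5) (nat_lit 170) (nat_lit 5) (nat_lit 428) (nat_lit 344) (nat_lit 248)) (XT.lf (nat_lit 0) (nat_lit 7113756738) (nat_lit 152) (nat_lit 1293671857) (nat_lit 228) (nat_lit 11857005760) (nat_lit 167) (nat_lit 5) (nat_lit 169) (nat_lit 5) (nat_lit 170) (nat_lit 5) (nat_lit 429) (nat_lit 344) (nat_lit 247))) (XT.nd (nat_lit 78) (nat_lit 76) (nat_lit 0) (XT.lf (nat_lit 0) (nat_lit 472469171)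 (nat_lit 152) (nat_lit 14382811431) (nat_lit 228) (nat_lit 5785063653) (nat_lit 165) (nat_lit 5) (nat_lit 167) (nat_lit 5) (nat_lit 168) (nat_lit 5) (nat_lit 430) (nat_lit 344) (nat_lit 246)) (XT.lf (nat_lit 0) (nat_lit 583357532) (nat_lit 228) (nat_lit 6310561712) (nat_lit 76) (nat_lit 14129772745) (nat_lit 164) (nat_lit 5) (nat_lit 167) (nat_lit 5) (nat_lit 165) (nat_lit 5) (nat_lit 431) (nat_lit 344) (nat_lit 245)))) (XT.nd (nat_lit 156) (nat_lit 228) (nat_lit 0) (XT.nd (nat_lit 78) (nat_lit 152) (nat_lit 0) (XT.lf (nat_lit 0) (nat_lit 7089927359) (nat_lit 228) (nat_lit 13403557363) (nat_lit 76) (nat_lit 921435996) (nat_lit 162) (nat_lit 5) (nat_lit 165) (nat_lit 5) (nat_lit 163) (nat_lit 5) (nat_lit 432) (nat_lit 344) (nat_lit 244)) (XT.lf (nat_lit 0) (nat_lit 985540551) (nat_lit 152) (nat_lit 12925573996) (nat_lit 228) (nat_lit 7903189153) (nat_lit 160) (nat_lit 5) (nat_lit 162) (nat_lit 5) (nat_lit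 163) (nat_lit 5) (nat_lit 433) (nat_lit 344) (nat_lit 243))) (XT.nd (nat_lit 78) (nat_lit 228) (nat_lit 0) (XT.lf (nat_lit 0) (nat_lit 16040339216) (nat_lit 152) (nat_lit 5009551183) (nat_lit 228) (nat_lit 1172389181) (nat_lit 160) (nat_lit 5) (nat_lit 162) (nat_lit 5) (nat_lit 163) (nat_lit 5) (nat_lit 434) (nat_lit 344) (nat_lit 242)) (XT.lf (nat_lit 0) (nat_lit 5743784082) (nat_lit 228) (nat_lit 13686105527) (nat_lit 76) (nat_lit 3208068347) (nat_lit 157) (nat_lit 5) (nat_lit 160) (nat_lit 5) (nat_lit 158) (nat_lit 5) (nat_lit 435) (nat_lit 344) (nat_lit 241)))))) (XT.nd (nat_lit 546) (nat_lit 684) (nat_lit 0) (XT.nd (nat_lit 234) (nat_lit 456) (nat_lit 0) (XT.nd (nat_lit 78) (nat_lit 228) (nat_lit 0) (XT.lf (nat_lit 0) (nat_lit 1530111690) (nat_lit 152) (nat_lit 11419245925) (nat_lit 228) (nat_lit 10113236466) (nat_lit 155) (nat_lit 5) (nat_lit 157) (nat_lit 5) (nat_lit 158) (nat_lit 5) (nat_lit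 436) (nat_lit 344) (nat_lit 240)) (XT.nd (nat_lit 78) (nat_lit 228) (nat_lit 0) (XT.lf (nat_lit 0) (nat_lit 17443690310) (nat_lit 152) (nat_lit 3043994037) (nat_lit 228) (nat_lit 3008787363) (nat_lit 155) (nat_lit 5) (nat_lit 157) (nat_lit 5) (nat_lit 158) (nat_lit 5) (nat_lit 437) (nat_lit 344) (nat_lit 239)) (XT.lf (nat_lit 0) (nat_lit 4354560223) (nat_lit 228) (nat_lit 13988521836) (nat_lit 76) (nat_lit 5595145692) (nat_lit 152) (nat_lit 5) (nat_lit 155) (nat_lit 5) (nat_lit 153) (nat_lit 5) (nat_lit 438) (nat_lit 344) (nat_lit 238)))) (XT.nd (nat_lit 156) (nat_lit 304) (nat_lit 0) (XT.nd (nat_lit 78) (nat_lit 0) (nat_lit 0) (XT.lf (nat_lit 0) (nat_lit 2106492265) (nat_lit 152) (nat_lit 9862838492) (nat_lit 228) (nat_lit 12420282131) (nat_lit 150) (nat_lit 5) (nat_lit 152) (nat_lit 5) (nat_lit 153) (nat_lit 5) (nat_lit 439) (nat_lit 344) (nat_lit 237)) (XT.lf (nat_lit 0) (nat_lit 18932469930) (nat_lit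 152) (nat_lit 1000457121) (nat_lit 228) (nat_lit 4918001050) (nat_lit 150) (nat_lit 5) (nat_lit 152) (nat_lit 5) (nat_lit 153) (nat_lit 5) (nat_lit 440) (nat_lit 344) (nat_lit 236))) (XT.nd (nat_lit 78) (nat_lit 152) (nat_lit 0) (XT.lf (nat_lit 0) (nat_lit 2919935971) (nat_lit 152) (nat_lit 14313375545) (nat_lit 76) (nat_lit 8086998859) (nat_lit 148) (nat_lit 5) (nat_lit 150) (nat_lit 5) (nat_lit 149) (nat_lit 5) (nat_lit 441) (nat_lit 344) (nat_lit 235)) (XT.lf (nat_lit 0) (nat_lit 2715236231) (nat_lit 152) (nat_lit 8254892554) (nat_lit 228) (nat_lit 14829905599) (nat_lit 146) (nat_lit 5) (nat_lit 148) (nat_lit 5) (nat_lit 149) (nat_lit 5) (nat_lit 442) (nat_lit 344) (nat_lit 234))))) (XT.nd (nat_lit 312) (nat_lit 380) (nat_lit 0) (XT.nd (nat_lit 156) (nat_lit 152) (nat_lit 0) (XT.nd (nat_lit 78) (nat_lit 152) (nat_lit 0) (XT.lf (nat_lit 0) (nat_lit 19397006464) (nat_lit 228) (nat_lit 5790725998) (nat_lit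 76) (nat_lit 1102362279) (nat_lit 146) (nat_lit 5) (nat_lit 149) (nat_lit 5) (nat_lit 147) (nat_lit 4) (nat_lit 443) (nat_lit 344) (nat_lit 233)) (XT.lf (nat_lit 0) (nat_lit 1437281166) (nat_lit 152) (nat_lit 14663192569) (nat_lit 76) (nat_lit 10688599698) (nat_lit 144) (nat_lit 5) (nat_lit 146) (nat_lit 5) (nat_lit 145) (nat_lit 5) (nat_lit 444) (nat_lit 344) (nat_lit 232))) (XT.nd (nat_lit 78) (nat_lit 0) (nat_lit 0) (XT.lf (nat_lit 0) (nat_lit 3357130213) (nat_lit 152) (nat_lit 6593501099) (nat_lit 228) (nat_lit 17348194305) (nat_lit 142) (nat_lit 5) (nat_lit 144) (nat_lit 5) (nat_lit 145) (nat_lit 5) (nat_lit 445) (nat_lit 344) (nat_lit 231)) (XT.lf (nat_lit 0) (nat_lit 18880011864) (nat_lit 228) (nat_lit 5670030828) (nat_lit 76) (nat_lit 3269008778) (nat_lit 142) (nat_lit 5) (nat_lit 145) (nat_lit 5) (nat_lit 143) (nat_lit 4) (nat_lit 446) (nat_lit 344) (nat_lit 230)))) (XT.nd (nat_lit 156) (nat_lit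 76) (nat_lit 0) (XT.nd (nat_lit 78) (nat_lit 228) (nat_lit 0) (XT.lf (nat_lit 0) (nat_lit 13308239208) (nat_lit 76) (nat_lit 14943162871) (nat_lit 152) (nat_lit 98258172) (nat_lit 141) (nat_lit 5) (nat_lit 142) (nat_lit 5) (nat_lit 143) (nat_lit 4) (nat_lit 447) (nat_lit 344) (nat_lit 229)) (XT.lf (nat_lit 0) (nat_lit 4033184200) (nat_lit 152) (nat_lit 4876327289) (nat_lit 228) (nat_lit 19981752017) (nat_lit 138) (nat_lit 5) (nat_lit 140) (nat_lit 5) (nat_lit 141) (nat_lit 5) (nat_lit 448) (nat_lit 344) (nat_lit 228))) (XT.nd (nat_lit 78) (nat_lit 76) (nat_lit 0) (XT.lf (nat_lit 0) (nat_lit 18372726444) (nat_lit 228) (nat_lit 5547502138) (nat_lit 76) (nat_lit 5523241477) (nat_lit 138) (nat_lit 5) (nat_lit 141) (nat_lit 5) (nat_lit 139) (nat_lit 4) (nat_lit 449) (nat_lit 344) (nat_lit 227)) (XT.lf (nat_lit 0) (nat_lit 14542914152) (nat_lit 76) (nat_lit 13746550021) (nat_lit 152) (nat_lit 1717689846)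 (nat_lit 137) (nat_lit 5) (nat_lit 138) (nat_lit 5) (nat_lit 139) (nat_lit 4) (nat_lit 450) (nat_lit 344) (nat_lit 226))))))) (XT.nd (nat_lit 1170) (nat_lit 1216) (nat_lit 0) (XT.nd (nat_lit 546) (nat_lit 684) (nat_lit 0) (XT.nd (nat_lit 234) (nat_lit 532) (nat_lit 0) (XT.nd (nat_lit 78) (nat_lit 76) (nat_lit 0) (XT.lf (nat_lit 0) (nat_lit 4744624309) (nat_lit 152) (nat_lit 3100618406) (nat_lit 228) (nat_lit 22737710315) (nat_lit 134) (nat_lit 5) (nat_lit 136) (nat_lit 5) (nat_lit 137) (nat_lit 5) (nat_lit 451) (nat_lit 344) (nat_lit 225)) (XT.nd (nat_lit 78) (nat_lit 76) (nat_lit 0) (XT.lf (nat_lit 0) (nat_lit 17875463887) (nat_lit 228) (nat_lit 5423789803) (nat_lit 76) (nat_lit 7869814379) (nat_lit 134) (nat_lit 5) (nat_lit 137) (nat_lit 5) (nat_lit 135) (nat_lit 4) (nat_lit 452) (nat_lit 344) (nat_lit 224)) (XT.lf (nat_lit 0) (nat_lit 15847701198) (nat_lit 76) (nat_lit 12524082487) (nat_lit 152)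 (nat_lit 3396027115) (nat_lit 133) (nat_lit 5) (nat_lit 134) (nat_lit 5) (nat_lit 135) (nat_lit 4) (nat_lit 453) (nat_lit 344) (nat_lit 223)))) (XT.nd (nat_lit 156) (nat_lit 304) (nat_lit 0) (XT.nd (nat_lit 78) (nat_lit 0) (nat_lit 0) (XT.lf (nat_lit 0) (nat_lit 5492887483) (nat_lit 152) (nat_lit 1263216011) (nat_lit 228) (nat_lit 25623743115) (nat_lit 130) (nat_lit 5) (nat_lit 132) (nat_lit 5) (nat_lit 133) (nat_lit 5) (nat_lit 454) (nat_lit 344) (nat_lit 222)) (XT.lf (nat_lit 0) (nat_lit 17388462223) (nat_lit 228) (nat_lit 5299458258) (nat_lit 76) (nat_lit 10313996661) (nat_lit 130) (nat_lit 5) (nat_lit 133) (nat_lit 5) (nat_lit 131) (nat_lit 4) (nat_lit 455) (nat_lit 344) (nat_lit 221))) (XT.nd (nat_lit 78) (nat_lit 228) (nat_lit 0) (XT.lf (nat_lit 0) (nat_lit 17226206773) (nat_lit 76) (nat_lit 11274415300) (nat_lit 152) (nat_lit 5137202808) (nat_lit 129) (nat_lit 5) (nat_lit 130) (nat_lit 5) (nat_lit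 131) (nat_lit 4) (nat_lit 456) (nat_lit 344) (nat_lit 220)) (XT.lf (nat_lit 0) (nat_lit 5646327253) (nat_lit 228) (nat_lit 28014793438) (nat_lit 76) (nat_lit 626959640) (nat_lit 126) (nat_lit 5) (nat_lit 129) (nat_lit 5) (nat_lit 127) (nat_lit 4) (nat_lit 457) (nat_lit 344) (nat_lit 219))))) (XT.nd (nat_lit 312) (nat_lit 380) (nat_lit 0) (XT.nd (nat_lit 156) (nat_lit 228) (nat_lit 0) (XT.nd (nat_lit 78) (nat_lit 76) (nat_lit 0) (XT.lf (nat_lit 0) (nat_lit 16911893453) (nat_lit 228) (nat_lit 5174996399) (nat_lit 76) (nat_lit 12861574203) (nat_lit 126) (nat_lit 5) (nat_lit 129) (nat_lit 5) (nat_lit 127) (nat_lit 4) (nat_lit 458) (nat_lit 344) (nat_lit 218)) (XT.lf (nat_lit 0) (nat_lit 18682366733) (nat_lit 76) (nat_lit 9995936578) (nat_lit 152) (nat_lit 6945469679) (nat_lit 125) (nat_lit 5) (nat_lit 126) (nat_lit 5) (nat_lit 127) (nat_lit 4) (nat_lit 459) (nat_lit 344) (nat_lit 217))) (XT.nd (nat_lit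 78) (nat_lit 0) (nat_lit 0) (XT.lf (nat_lit 0) (nat_lit 4520471936) (nat_lit 228) (nat_lit 29233353872) (nat_lit 76) (nat_lit 2560339021) (nat_lit 122) (nat_lit 5) (nat_lit 125) (nat_lit 5) (nat_lit 123) (nat_lit 4) (nat_lit 460) (nat_lit 344) (nat_lit 216)) (XT.lf (nat_lit 0) (nat_lit 16445872060) (nat_lit 228) (nat_lit 5050826377) (nat_lit 76) (nat_lit 15518854658) (nat_lit 122) (nat_lit 5) (nat_lit 125) (nat_lit 5) (nat_lit 123) (nat_lit 4) (nat_lit 461) (nat_lit 344) (nat_lit 215)))) (XT.nd (nat_lit 156) (nat_lit 76) (nat_lit 0) (XT.nd (nat_lit 78) (nat_lit 228) (nat_lit 0) (XT.lf (nat_lit 0) (nat_lit 20220453140) (nat_lit 76) (nat_lit 8686776544) (nat_lit 152) (nat_lit 8825407457) (nat_lit 121) (nat_lit 5) (nat_lit 122) (nat_lit 5) (nat_lit 123) (nat_lit 4) (nat_lit 462) (nat_lit 344) (nat_lit 214)) (XT.lf (nat_lit 0) (nat_lit 3364142995) (nat_lit 228) (nat_lit 30535608529) (nat_lit 76) (nat_lit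 4565835401) (nat_lit 118) (nat_lit 5) (nat_lit 121) (nat_lit 5) (nat_lit 119) (nat_lit 4) (nat_lit 463) (nat_lit 344) (nat_lit 213))) (XT.nd (nat_lit 78) (nat_lit 76) (nat_lit 0) (XT.lf (nat_lit 0) (nat_lit 15990462541) (nat_lit 228) (nat_lit 4927311393) (nat_lit 76) (nat_lit 18292675924) (nat_lit 118) (nat_lit 5) (nat_lit 121) (nat_lit 5) (nat_lit 119) (nat_lit 4) (nat_lit 464) (nat_lit 344) (nat_lit 212)) (XT.lf (nat_lit 0) (nat_lit 21845082961) (nat_lit 76) (nat_lit 7344814143) (nat_lit 152) (nat_lit 10781931812) (nat_lit 117) (nat_lit 5) (nat_lit 118) (nat_lit 5) (nat_lit 119) (nat_lit 4) (nat_lit 465) (nat_lit 344) (nat_lit 211)))))) (XT.nd (nat_lit 624) (nat_lit 608) (nat_lit 0) (XT.nd (nat_lit 312) (nat_lit 228) (nat_lit 0) (XT.nd (nat_lit 156) (nat_lit 228) (nat_lit 0) (XT.nd (nat_lit 78) (nat_lit 0) (nat_lit 0) (XT.lf (nat_lit 0) (nat_lit 2174901071) (nat_lit 152) (nat_lit 31926904086) (nat_lit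 76) (nat_lit 6648101973) (nat_lit 115) (nat_lit 5) (nat_lit 117) (nat_lit 5) (nat_lit 116) (nat_lit 4) (nat_lit 466) (nat_lit 344) (nat_lit 210)) (XT.lf (nat_lit 0) (nat_lit 15545686066) (nat_lit 152) (nat_lit 4804762621) (nat_lit 76) (nat_lit 21190417851) (nat_lit 115) (nat_lit 5) (nat_lit 117) (nat_lit 5) (nat_lit 116) (nat_lit 4) (nat_lit 467) (nat_lit 344) (nat_lit 209))) (XT.nd (nat_lit 78) (nat_lit 152) (nat_lit 0) (XT.lf (nat_lit 0) (nat_lit 23561228638) (nat_lit 76) (nat_lit 5967681434) (nat_lit 152) (nat_lit 12820305193) (nat_lit 114) (nat_lit 5) (nat_lit 115) (nat_lit 5) (nat_lit 116) (nat_lit 4) (nat_lit 468) (nat_lit 344) (nat_lit 208)) (XT.lf (nat_lit 0) (nat_lit 950116595) (nat_lit 152) (nat_lit 33412846915) (nat_lit 76) (nat_lit 8812186756) (nat_lit 112) (nat_lit 5) (nat_lit 114) (nat_lit 5) (nat_lit 113) (nat_lit 4) (nat_lit 469) (nat_lit 344) (nat_lit 207)))) (XT.nd (nat_lit 156) (nat_lit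 152) (nat_lit 0) (XT.nd (nat_lit 78) (nat_lit 76) (nat_lit 0) (XT.lf (nat_lit 0) (nat_lit 15111526360) (nat_lit 152) (nat_lit 4683445345) (nat_lit 76) (nat_lit 24220017078) (nat_lit 112) (nat_lit 5) (nat_lit 114) (nat_lit 5) (nat_lit 113) (nat_lit 4) (nat_lit 470) (nat_lit 344) (nat_lit 206)) (XT.lf (nat_lit 0) (nat_lit 25374230498) (nat_lit 76) (nat_lit 4552765933) (nat_lit 152) (nat_lit 14946149484) (nat_lit 111) (nat_lit 5) (nat_lit 112) (nat_lit 5) (nat_lit 113) (nat_lit 4) (nat_lit 471) (nat_lit 344) (nat_lit 205))) (XT.nd (nat_lit 78) (nat_lit 76) (nat_lit 0) (XT.lf (nat_lit 0) (nat_lit 10747345046) (nat_lit 76) (nat_lit 34683132283) (nat_lit 76) (nat_lit 319264031) (nat_lit 110) (nat_lit 4) (nat_lit 111) (nat_lit 5) (nat_lit 111) (nat_lit 4) (nat_lit 472) (nat_lit 344) (nat_lit 204)) (XT.lf (nat_lit 0) (nat_lit 14687934900) (nat_lit 152) (nat_lit 4563584401) (nat_lit 76) (nat_lit 27389984930)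 (nat_lit 109) (nat_lit 5) (nat_lit 111) (nat_lit 5) (nat_lit 110) (nat_lit 4) (nat_lit 473) (nat_lit 344) (nat_lit 203))))) (XT.nd (nat_lit 312) (nat_lit 304) (nat_lit 0) (XT.nd (nat_lit 156) (nat_lit 152) (nat_lit 0) (XT.nd (nat_lit 78) (nat_lit 76) (nat_lit 0) (XT.lf (nat_lit 0) (nat_lit 27289810975) (nat_lit 76) (nat_lit 3097211034) (nat_lit 152) (nat_lit 17165460476) (nat_lit 108) (nat_lit 5) (nat_lit 109) (nat_lit 5) (nat_lit 110) (nat_lit 4) (nat_lit 474) (nat_lit 344) (nat_lit 202)) (XT.lf (nat_lit 0) (nat_lit 11774116887) (nat_lit 76) (nat_lit 35058636659) (nat_lit 76) (nat_lit 1649766387) (nat_lit 107) (nat_lit 4) (nat_lit 108) (nat_lit 5) (nat_lit 108) (nat_lit 4) (nat_lit 475) (nat_lit 344) (nat_lit 201))) (XT.nd (nat_lit 78) (nat_lit 76) (nat_lit 0) (XT.lf (nat_lit 0) (nat_lit 14274835507) (nat_lit 152) (nat_lit 4445369003) (nat_lit 76) (nat_lit 30709428302) (nat_lit 106) (nat_lit 5) (nat_lit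 108) (nat_lit 5) (nat_lit 107) (nat_lit 4) (nat_lit 476) (nat_lit 344) (nat_lit 200)) (XT.lf (nat_lit 0) (nat_lit 29314090637) (nat_lit 76) (nat_lit 1597914626) (nat_lit 152) (nat_lit 19484624132) (nat_lit 105) (nat_lit 5) (nat_lit 106) (nat_lit 5) (nat_lit 107) (nat_lit 4) (nat_lit 477) (nat_lit 344) (nat_lit 199)))) (XT.nd (nat_lit 156) (nat_lit 152) (nat_lit 0) (XT.nd (nat_lit 78) (nat_lit 76) (nat_lit 0) (XT.lf (nat_lit 0) (nat_lit 12855239932) (nat_lit 76) (nat_lit 35502343711) (nat_lit 76) (nat_lit 3025773427) (nat_lit 104) (nat_lit 4) (nat_lit 105) (nat_lit 5) (nat_lit 105) (nat_lit 4) (nat_lit 478) (nat_lit 344) (nat_lit 198)) (XT.lf (nat_lit 0) (nat_lit 13872128389) (nat_lit 152) (nat_lit 4328957026) (nat_lit 76) (nat_lit 34188073505) (nat_lit 103) (nat_lit 5) (nat_lit 105) (nat_lit 5) (nat_lit 104) (nat_lit 4) (nat_lit 479) (nat_lit 344) (nat_lit 197))) (XT.nd (nat_lit 78) (nat_lit 76) (nat_lit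 0) (XT.lf (nat_lit 0) (nat_lit 31453606021) (nat_lit 76) (nat_lit 51526009) (nat_lit 152) (nat_lit 21910434657) (nat_lit 102) (nat_lit 5) (nat_lit 103) (nat_lit 5) (nat_lit 104) (nat_lit 4) (nat_lit 480) (nat_lit 344) (nat_lit 196)) (XT.lf (nat_lit 0) (nat_lit 13993965408) (nat_lit 76) (nat_lit 36017671889) (nat_lit 76) (nat_lit 4450794044) (nat_lit 101) (nat_lit 4) (nat_lit 102) (nat_lit 5) (nat_lit 102) (nat_lit 4) (nat_lit 481) (nat_lit 344) (nat_lit 195))))))))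
noncomputable def xc111 : XT := (XT.nd (nat_lit 43914) (nat_lit 0) (nat_lit 12616) (XT.nd (nat_lit 42666) (nat_lit 0) (nat_lit 25840) (XT.nd (nat_lit 546) (nat_lit 380) (nat_lit 0) (XT.nd (nat_lit 234) (nat_lit 304) (nat_lit 0) (XT.nd (nat_lit 78) (nat_lit 152) (nat_lit 0) (XT.lf (nat_lit 0) (nat_lit 13479693711) (nat_lit 152) (nat_lit 4214478796) (nat_lit 76) (nat_lit 37836293058) (nat_lit 100) (nat_lit 5) (nat_lit 102) (nat_lit 5) (nat_lit 101) (nat_lit 4) (nat_lit 482) (nat_lit 344) (nat_lit 194)) (XT.nd (nat_lit 78) (nat_lit 76) (nat_lit 0) (XT.lf (nat_lit 0) (nat_lit 32184627342) (nat_lit 152) (nat_lit 22919412426) (nat_lit 0) (nat_lit 1515399395) (nat_lit 99) (nat_lit 5) (nat_lit 101) (nat_lit 4) (nat_lit 99) (nat_lit 4) (nat_lit 483) (nat_lit 344) (nat_lit 193)) (XT.lf (nat_lit 0) (nat_lit 15193777372) (nat_lit 76) (nat_lit 36608203970) (nat_lit 76) (nat_lit 5928562456) (nat_lit 98) (nat_lit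 4) (nat_lit 99) (nat_lit 5) (nat_lit 99) (nat_lit 4) (nat_lit 484) (nat_lit 344) (nat_lit 192)))) (XT.nd (nat_lit 156) (nat_lit 152) (nat_lit 0) (XT.nd (nat_lit 78) (nat_lit 76) (nat_lit 0) (XT.lf (nat_lit 0) (nat_lit 13097394739) (nat_lit 152) (nat_lit 4102040452) (nat_lit 76) (nat_lit 41665135444) (nat_lit 97) (nat_lit 5) (nat_lit 99) (nat_lit 5) (nat_lit 98) (nat_lit 4) (nat_lit 485) (nat_lit 344) (nat_lit 191)) (XT.lf (nat_lit 0) (nat_lit 32940219860) (nat_lit 152) (nat_lit 23944865572) (nat_lit 0) (nat_lit 3134814462) (nat_lit 96) (nat_lit 5) (nat_lit 98) (nat_lit 4) (nat_lit 96) (nat_lit 4) (nat_lit 486) (nat_lit 344) (nat_lit 190))) (XT.nd (nat_lit 78) (nat_lit 76) (nat_lit 0) (XT.lf (nat_lit 0) (nat_lit 16458402182) (nat_lit 76) (nat_lit 37277705612) (nat_lit 76) (nat_lit 7463047895) (nat_lit 95) (nat_lit 4) (nat_lit 96) (nat_lit 5) (nat_lit 96) (nat_lit 4) (nat_lit 487) (nat_lit 344) (nat_lit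 189)) (XT.lf (nat_lit 0) (nat_lit 12725080603) (nat_lit 152) (nat_lit 3991726926) (nat_lit 76) (nat_lit 45686357848) (nat_lit 94) (nat_lit 5) (nat_lit 96) (nat_lit 5) (nat_lit 95) (nat_lit 4) (nat_lit 488) (nat_lit 344) (nat_lit 188))))) (XT.nd (nat_lit 312) (nat_lit 76) (nat_lit 0) (XT.nd (nat_lit 156) (nat_lit 152) (nat_lit 0) (XT.nd (nat_lit 78) (nat_lit 76) (nat_lit 0) (XT.lf (nat_lit 0) (nat_lit 33775232967) (nat_lit 152) (nat_lit 25041879290) (nat_lit 0) (nat_lit 4811774956) (nat_lit 93) (nat_lit 5) (nat_lit 95) (nat_lit 4) (nat_lit 93) (nat_lit 4) (nat_lit 489) (nat_lit 344) (nat_lit 187)) (XT.lf (nat_lit 0) (nat_lit 17791819095) (nat_lit 76) (nat_lit 38030143995) (nat_lit 76) (nat_lit 9058465418) (nat_lit 92) (nat_lit 4) (nat_lit 93) (nat_lit 5) (nat_lit 93) (nat_lit 4) (nat_lit 490) (nat_lit 344) (nat_lit 186))) (XT.nd (nat_lit 78) (nat_lit 76) (nat_lit 0) (XT.lf (nat_lit 0) (nat_lit 12362588733)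 (nat_lit 152) (nat_lit 3883604580) (nat_lit 76) (nat_lit 49912461932) (nat_lit 91) (nat_lit 5) (nat_lit 93) (nat_lit 5) (nat_lit 92) (nat_lit 4) (nat_lit 491) (nat_lit 344) (nat_lit 185)) (XT.lf (nat_lit 0) (nat_lit 34693717322) (nat_lit 152) (nat_lit 26214733170) (nat_lit 0) (nat_lit 6550602389) (nat_lit 90) (nat_lit 5) (nat_lit 92) (nat_lit 4) (nat_lit 90) (nat_lit 4) (nat_lit 492) (nat_lit 344) (nat_lit 184)))) (XT.nd (nat_lit 41652) (nat_lit 0) (nat_lit 30856) (XT.nd (nat_lit 41574) (nat_lit 0) (nat_lit 31312) (XT.lf (nat_lit 0) (nat_lit 19198271995) (nat_lit 76) (nat_lit 38869706643) (nat_lit 76) (nat_lit 10719287843) (nat_lit 89) (nat_lit 4) (nat_lit 90) (nat_lit 5) (nat_lit 90) (nat_lit 4) (nat_lit 493) (nat_lit 344) (nat_lit 183)) (XT.lf (nat_lit 0) (nat_lit 735801011) (nat_lit 0) (nat_lit 735801011) (nat_lit 380) (nat_lit 1802112152) (nat_lit 501) (nat_lit 5) (nat_lit 501) (nat_lit 3) (nat_lit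 506) (nat_lit 3) (nat_lit 345) (nat_lit 345) (nat_lit 330))) (XT.nd (nat_lit 78) (nat_lit 456) (nat_lit 0) (XT.lf (nat_lit 0) (nat_lit 4792919621) (nat_lit 0) (nat_lit 712367568) (nat_lit 380) (nat_lit 1064814533) (nat_lit 501) (nat_lit 5) (nat_lit 501) (nat_lit 3) (nat_lit 506) (nat_lit 3) (nat_lit 346) (nat_lit 345) (nat_lit 329)) (XT.lf (nat_lit 0) (nat_lit 1437945239) (nat_lit 456) (nat_lit 5011617675) (nat_lit 532) (nat_lit 145922303) (nat_lit 495) (nat_lit 5) (nat_lit 501) (nat_lit 5) (nat_lit 502) (nat_lit 5) (nat_lit 347) (nat_lit 345) (nat_lit 328)))))) (XT.nd (nat_lit 624) (nat_lit 3268) (nat_lit 0) (XT.nd (nat_lit 312) (nat_lit 1216) (nat_lit 0) (XT.nd (nat_lit 156) (nat_lit 532) (nat_lit 0) (XT.nd (nat_lit 78) (nat_lit 0) (nat_lit 0) (XT.lf (nat_lit 0) (nat_lit 3923170471) (nat_lit 456) (nat_lit 1610643703) (nat_lit 532) (nat_lit 1089636228) (nat_lit 495) (nat_lit 5) (nat_lit 501) (nat_lit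 5) (nat_lit 502) (nat_lit 5) (nat_lit 348) (nat_lit 345) (nat_lit 327)) (XT.lf (nat_lit 76) (nat_lit 1876592657) (nat_lit 0) (nat_lit 4530813809) (nat_lit 532) (nat_lit 247114458) (nat_lit 496) (nat_lit 5) (nat_lit 495) (nat_lit 5) (nat_lit 502) (nat_lit 5) (nat_lit 349) (nat_lit 345) (nat_lit 326))) (XT.nd (nat_lit 78) (nat_lit 0) (nat_lit 0) (XT.lf (nat_lit 0) (nat_lit 2159324916) (nat_lit 532) (nat_lit 1260355816) (nat_lit 608) (nat_lit 3268460538) (nat_lit 488) (nat_lit 5) (nat_lit 495) (nat_lit 5) (nat_lit 496) (nat_lit 5) (nat_lit 350) (nat_lit 345) (nat_lit 325)) (XT.lf (nat_lit 76) (nat_lit 2354089701) (nat_lit 0) (nat_lit 2211954882) (nat_lit 608) (nat_lit 2158660626) (nat_lit 489) (nat_lit 5) (nat_lit 488) (nat_lit 5) (nat_lit 496) (nat_lit 5) (nat_lit 351) (nat_lit 345) (nat_lit 324)))) (XT.nd (nat_lit 156) (nat_lit 608) (nat_lit 0) (XT.nd (nat_lit 78) (nat_lit 0) (nat_lit 76) (XT.lf (nat_lit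 0) (nat_lit 201609974) (nat_lit 608) (nat_lit 715413034) (nat_lit 684) (nat_lit 5847525820) (nat_lit 480) (nat_lit 5) (nat_lit 488) (nat_lit 5) (nat_lit 489) (nat_lit 5) (nat_lit 352) (nat_lit 345) (nat_lit 323)) (XT.lf (nat_lit 0) (nat_lit 2537557515) (nat_lit 608) (nat_lit 3776006802) (nat_lit 684) (nat_lit 492934580) (nat_lit 481) (nat_lit 5) (nat_lit 489) (nat_lit 5) (nat_lit 490) (nat_lit 5) (nat_lit 353) (nat_lit 345) (nat_lit 322))) (XT.nd (nat_lit 78) (nat_lit 684) (nat_lit 0) (XT.lf (nat_lit 0) (nat_lit 4876519018) (nat_lit 608) (nat_lit 9353897) (nat_lit 684) (nat_lit 1965846488) (nat_lit 481) (nat_lit 5) (nat_lit 489) (nat_lit 5) (nat_lit 490) (nat_lit 5) (nat_lit 354) (nat_lit 345) (nat_lit 321)) (XT.lf (nat_lit 0) (nat_lit 335781951) (nat_lit 684) (nat_lit 3009191739) (nat_lit 760) (nat_lit 3554531496) (nat_lit 472) (nat_lit 5) (nat_lit 481) (nat_lit 5) (nat_lit 482) (nat_lit 5) (nat_lit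 355) (nat_lit 345) (nat_lit 320))))) (XT.nd (nat_lit 312) (nat_lit 2584) (nat_lit 0) (XT.nd (nat_lit 156) (nat_lit 684) (nat_lit 0) (XT.nd (nat_lit 78) (nat_lit 0) (nat_lit 76) (XT.lf (nat_lit 76) (nat_lit 902851348) (nat_lit 0) (nat_lit 1702382981) (nat_lit 760) (nat_lit 4345038317) (nat_lit 473) (nat_lit 5) (nat_lit 472) (nat_lit 5) (nat_lit 482) (nat_lit 5) (nat_lit 356) (nat_lit 345) (nat_lit 319)) (XT.lf (nat_lit 0) (nat_lit 4895480751) (nat_lit 684) (nat_lit 2063617866) (nat_lit 76) (nat_lit 44883197) (nat_lit 473) (nat_lit 5) (nat_lit 482) (nat_lit 5) (nat_lit 474) (nat_lit 5) (nat_lit 357) (nat_lit 345) (nat_lit 318))) (XT.nd (nat_lit 78) (nat_lit 0) (nat_lit 0) (XT.lf (nat_lit 0) (nat_lit 151482794) (nat_lit 760) (nat_lit 5054029569) (nat_lit 76) (nat_lit 1854928877) (nat_lit 463) (nat_lit 5) (nat_lit 473) (nat_lit 5) (nat_lit 464) (nat_lit 5) (nat_lit 358) (nat_lit 345) (nat_lit 317)) (XT.lf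 (nat_lit 0) (nat_lit 2383279673) (nat_lit 760) (nat_lit 953248317) (nat_lit 76) (nat_lit 3783048401) (nat_lit 463) (nat_lit 5) (nat_lit 473) (nat_lit 5) (nat_lit 464) (nat_lit 5) (nat_lit 359) (nat_lit 345) (nat_lit 316)))) (XT.nd (nat_lit 156) (nat_lit 988) (nat_lit 0) (XT.nd (nat_lit 78) (nat_lit 836) (nat_lit 0) (XT.lf (nat_lit 0) (nat_lit 3281145777) (nat_lit 760) (nat_lit 1359946882) (nat_lit 836) (nat_lit 2540621074) (nat_lit 453) (nat_lit 5) (nat_lit 463) (nat_lit 5) (nat_lit 464) (nat_lit 5) (nat_lit 360) (nat_lit 345) (nat_lit 315)) (XT.lf (nat_lit 0) (nat_lit 361943372) (nat_lit 836) (nat_lit 6553691455) (nat_lit 912) (nat_lit 331610523) (nat_lit 442) (nat_lit 5) (nat_lit 453) (nat_lit 5) (nat_lit 454) (nat_lit 5) (nat_lit 361) (nat_lit 345) (nat_lit 314))) (XT.nd (nat_lit 78) (nat_lit 912) (nat_lit 0) (XT.lf (nat_lit 0) (nat_lit 1889131019) (nat_lit 912) (nat_lit 2569873504) (nat_lit 76)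 (nat_lit 2855676220) (nat_lit 441) (nat_lit 5) (nat_lit 453) (nat_lit 5) (nat_lit 442) (nat_lit 5) (nat_lit 362) (nat_lit 345) (nat_lit 313)) (XT.lf (nat_lit 0) (nat_lit 1853473820) (nat_lit 912) (nat_lit 2266353050) (nat_lit 988) (nat_lit 3265713914) (nat_lit 429) (nat_lit 5) (nat_lit 441) (nat_lit 5) (nat_lit 442) (nat_lit 5) (nat_lit 363) (nat_lit 345) (nat_lit 312))))))) (XT.nd (nat_lit 1170) (nat_lit 5320) (nat_lit 0) (XT.nd (nat_lit 546) (nat_lit 3344) (nat_lit 0) (XT.nd (nat_lit 234) (nat_lit 2432) (nat_lit 0) (XT.nd (nat_lit 78) (nat_lit 2128) (nat_lit 0) (XT.lf (nat_lit 0) (nat_lit 6377332551) (nat_lit 988) (nat_lit 1051733223) (nat_lit 76) (nat_lit 30664187) (nat_lit 429) (nat_lit 5) (nat_lit 442) (nat_lit 5) (nat_lit 430) (nat_lit 5) (nat_lit 364) (nat_lit 345) (nat_lit 311)) (XT.nd (nat_lit 78) (nat_lit 1064) (nat_lit 0) (XT.lf (nat_lit 0) (nat_lit 1135885782) (nat_lit 1064) (nat_lit 3991932815)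 (nat_lit 76) (nat_lit 2408222999) (nat_lit 415) (nat_lit 5) (nat_lit 429) (nat_lit 5) (nat_lit 416) (nat_lit 5) (nat_lit 365) (nat_lit 345) (nat_lit 310)) (XT.lf (nat_lit 0) (nat_lit 631454733) (nat_lit 1064) (nat_lit 2720722321) (nat_lit 1140) (nat_lit 4263547579) (nat_lit 401) (nat_lit 5) (nat_lit 415) (nat_lit 5) (nat_lit 416) (nat_lit 5) (nat_lit 366) (nat_lit 345) (nat_lit 309)))) (XT.nd (nat_lit 156) (nat_lit 1216) (nat_lit 0) (XT.nd (nat_lit 78) (nat_lit 1216) (nat_lit 0) (XT.lf (nat_lit 0) (nat_lit 5420808037) (nat_lit 1064) (nat_lit 192206239) (nat_lit 1140) (nat_lit 2085442170) (nat_lit 401) (nat_lit 5) (nat_lit 415) (nat_lit 5) (nat_lit 416) (nat_lit 5) (nat_lit 367) (nat_lit 345) (nat_lit 308)) (XT.lf (nat_lit 0) (nat_lit 142048145) (nat_lit 1216) (nat_lit 5243724879) (nat_lit 76) (nat_lit 2398237874) (nat_lit 385) (nat_lit 5) (nat_lit 401) (nat_lit 5) (nat_lit 386) (nat_lit 5) (nat_lit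 368) (nat_lit 345) (nat_lit 307))) (XT.nd (nat_lit 78) (nat_lit 1216) (nat_lit 0) (XT.lf (nat_lit 0) (nat_lit 2359860486) (nat_lit 1216) (nat_lit 400285491) (nat_lit 76) (nat_lit 5112404188) (nat_lit 385) (nat_lit 5) (nat_lit 401) (nat_lit 5) (nat_lit 386) (nat_lit 5) (nat_lit 369) (nat_lit 345) (nat_lit 306)) (XT.lf (nat_lit 0) (nat_lit 4624807765) (nat_lit 1216) (nat_lit 5877371) (nat_lit 1292) (nat_lit 3333466136) (nat_lit 369) (nat_lit 5) (nat_lit 385) (nat_lit 5) (nat_lit 386) (nat_lit 5) (nat_lit 370) (nat_lit 345) (nat_lit 305))))) (XT.nd (nat_lit 312) (nat_lit 1216) (nat_lit 0) (XT.nd (nat_lit 156) (nat_lit 1216) (nat_lit 0) (XT.nd (nat_lit 78) (nat_lit 76) (nat_lit 0) (XT.lf (nat_lit 0) (nat_lit 1701320832) (nat_lit 836) (nat_lit 5259193614) (nat_lit 912) (nat_lit 1098259569) (nat_lit 358) (nat_lit 5) (nat_lit 369) (nat_lit 5) (nat_lit 370) (nat_lit 5) (nat_lit 371) (nat_lit 345) (nat_lit 304))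 (XT.lf (nat_lit 0) (nat_lit 1158429896) (nat_lit 912) (nat_lit 1261213891) (nat_lit 76) (nat_lit 5736906812) (nat_lit 357) (nat_lit 5) (nat_lit 369) (nat_lit 5) (nat_lit 358) (nat_lit 5) (nat_lit 372) (nat_lit 345) (nat_lit 303))) (XT.nd (nat_lit 78) (nat_lit 608) (nat_lit 0) (XT.lf (nat_lit 0) (nat_lit 3450000061) (nat_lit 684) (nat_lit 4261712833) (nat_lit 76) (nat_lit 545543750) (nat_lit 349) (nat_lit 5) (nat_lit 358) (nat_lit 5) (nat_lit 350) (nat_lit 5) (nat_lit 373) (nat_lit 345) (nat_lit 302)) (XT.lf (nat_lit 0) (nat_lit 1015861375) (nat_lit 608) (nat_lit 4787558629) (nat_lit 684) (nat_lit 2557770788) (nat_lit 341) (nat_lit 5) (nat_lit 349) (nat_lit 5) (nat_lit 350) (nat_lit 5) (nat_lit 374) (nat_lit 345) (nat_lit 301)))) (XT.nd (nat_lit 156) (nat_lit 608) (nat_lit 0) (XT.nd (nat_lit 78) (nat_lit 608) (nat_lit 0) (XT.lf (nat_lit 0) (nat_lit 6484529414) (nat_lit 608) (nat_lit 1733499823) (nat_lit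 684) (nat_lit 250496125) (nat_lit 341) (nat_lit 5) (nat_lit 349) (nat_lit 5) (nat_lit 350) (nat_lit 5) (nat_lit 375) (nat_lit 345) (nat_lit 300)) (XT.lf (nat_lit 0) (nat_lit 2081132383) (nat_lit 608) (nat_lit 5060430993) (nat_lit 76) (nat_lit 1437004859) (nat_lit 333) (nat_lit 5) (nat_lit 341) (nat_lit 5) (nat_lit 334) (nat_lit 5) (nat_lit 376) (nat_lit 345) (nat_lit 299))) (XT.nd (nat_lit 78) (nat_lit 0) (nat_lit 0) (XT.lf (nat_lit 0) (nat_lit 469021626) (nat_lit 608) (nat_lit 4000087487) (nat_lit 684) (nat_lit 4222985853) (nat_lit 325) (nat_lit 5) (nat_lit 333) (nat_lit 5) (nat_lit 334) (nat_lit 5) (nat_lit 377) (nat_lit 345) (nat_lit 298)) (XT.lf (nat_lit 0) (nat_lit 6213648908) (nat_lit 608) (nat_lit 716652724) (nat_lit 684) (nat_lit 1878678574) (nat_lit 325) (nat_lit 5) (nat_lit 333) (nat_lit 5) (nat_lit 334) (nat_lit 5) (nat_lit 378) (nat_lit 345) (nat_lit 297)))))) (XT.nd (nat_lit 624) (nat_lit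 2660) (nat_lit 0) (XT.nd (nat_lit 312) (nat_lit 1064) (nat_lit 0) (XT.nd (nat_lit 156) (nat_lit 456) (nat_lit 0) (XT.nd (nat_lit 78) (nat_lit 532) (nat_lit 0) (XT.lf (nat_lit 0) (nat_lit 533674200) (nat_lit 608) (nat_lit 5750870863) (nat_lit 76) (nat_lit 2644427136) (nat_lit 317) (nat_lit 5) (nat_lit 325) (nat_lit 5) (nat_lit 318) (nat_lit 5) (nat_lit 379) (nat_lit 345) (nat_lit 296)) (XT.lf (nat_lit 0) (nat_lit 46440118) (nat_lit 532) (nat_lit 2920497296) (nat_lit 608) (nat_lit 6085479534) (nat_lit 310) (nat_lit 5) (nat_lit 317) (nat_lit 5) (nat_lit 318) (nat_lit 5) (nat_lit 380) (nat_lit 345) (nat_lit 295))) (XT.nd (nat_lit 78) (nat_lit 456) (nat_lit 0) (XT.lf (nat_lit 0) (nat_lit 5490169135) (nat_lit 608) (nat_lit 3103544334) (nat_lit 76) (nat_lit 585342451) (nat_lit 310) (nat_lit 5) (nat_lit 318) (nat_lit 5) (nat_lit 311) (nat_lit 5) (nat_lit 381) (nat_lit 345) (nat_lit 294)) (XT.lf (nat_lit 0)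 (nat_lit 2950770787) (nat_lit 456) (nat_lit 5150063096) (nat_lit 532) (nat_lit 1208308096) (nat_lit 304) (nat_lit 5) (nat_lit 310) (nat_lit 5) (nat_lit 311) (nat_lit 5) (nat_lit 382) (nat_lit 345) (nat_lit 293)))) (XT.nd (nat_lit 156) (nat_lit 456) (nat_lit 0) (XT.nd (nat_lit 78) (nat_lit 532) (nat_lit 0) (XT.lf (nat_lit 0) (nat_lit 1306885925) (nat_lit 532) (nat_lit 259336685) (nat_lit 76) (nat_lit 7876925354) (nat_lit 303) (nat_lit 5) (nat_lit 310) (nat_lit 5) (nat_lit 304) (nat_lit 5) (nat_lit 383) (nat_lit 345) (nat_lit 292)) (XT.lf (nat_lit 0) (nat_lit 3908845126) (nat_lit 608) (nat_lit 3524782860) (nat_lit 76) (nat_lit 2146119384) (nat_lit 296) (nat_lit 5) (nat_lit 304) (nat_lit 5) (nat_lit 297) (nat_lit 5) (nat_lit 384) (nat_lit 345) (nat_lit 291))) (XT.nd (nat_lit 78) (nat_lit 0) (nat_lit 0) (XT.lf (nat_lit 0) (nat_lit 2829999419) (nat_lit 456) (nat_lit 3761050983) (nat_lit 532) (nat_lit 3129328737)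 (nat_lit 290) (nat_lit 5) (nat_lit 296) (nat_lit 5) (nat_lit 297) (nat_lit 5) (nat_lit 385) (nat_lit 345) (nat_lit 290)) (XT.lf (nat_lit 0) (nat_lit 9347357751) (nat_lit 532) (nat_lit 471028752) (nat_lit 76) (nat_lit 47034280) (nat_lit 290) (nat_lit 5) (nat_lit 297) (nat_lit 5) (nat_lit 291) (nat_lit 5) (nat_lit 386) (nat_lit 345) (nat_lit 289))))) (XT.nd (nat_lit 312) (nat_lit 1216) (nat_lit 0) (XT.nd (nat_lit 156) (nat_lit 532) (nat_lit 0) (XT.nd (nat_lit 78) (nat_lit 380) (nat_lit 0) (XT.lf (nat_lit 0) (nat_lit 2184997440) (nat_lit 532) (nat_lit 3862893341) (nat_lit 76) (nat_lit 3964621729) (nat_lit 283) (nat_lit 5) (nat_lit 290) (nat_lit 5) (nat_lit 284) (nat_lit 5) (nat_lit 387) (nat_lit 345) (nat_lit 288)) (XT.lf (nat_lit 0) (nat_lit 2811641967) (nat_lit 380) (nat_lit 2137947572) (nat_lit 456) (nat_lit 5214547999) (nat_lit 278) (nat_lit 5) (nat_lit 283) (nat_lit 5) (nat_lit 284) (nat_lit 5) (nat_lit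 388) (nat_lit 345) (nat_lit 287))) (XT.nd (nat_lit 78) (nat_lit 532) (nat_lit 0) (XT.lf (nat_lit 0) (nat_lit 7814273188) (nat_lit 456) (nat_lit 625381504) (nat_lit 76) (nat_lit 1880142011) (nat_lit 278) (nat_lit 5) (nat_lit 284) (nat_lit 5) (nat_lit 279) (nat_lit 5) (nat_lit 389) (nat_lit 345) (nat_lit 286)) (XT.lf (nat_lit 0) (nat_lit 322668891) (nat_lit 532) (nat_lit 4127357935) (nat_lit 76) (nat_lit 6028713072) (nat_lit 271) (nat_lit 5) (nat_lit 278) (nat_lit 5) (nat_lit 272) (nat_lit 5) (nat_lit 390) (nat_lit 345) (nat_lit 285)))) (XT.nd (nat_lit 156) (nat_lit 836) (nat_lit 0) (XT.nd (nat_lit 78) (nat_lit 0) (nat_lit 0) (XT.lf (nat_lit 0) (nat_lit 2887473554) (nat_lit 380) (nat_lit 293052450) (nat_lit 456) (nat_lit 7461325845) (nat_lit 266) (nat_lit 5) (nat_lit 271) (nat_lit 5) (nat_lit 272) (nat_lit 5) (nat_lit 391) (nat_lit 345) (nat_lit 284)) (XT.lf (nat_lit 0) (nat_lit 6166107446) (nat_lit 456)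 (nat_lit 702524640) (nat_lit 76) (nat_lit 3939965415) (nat_lit 266) (nat_lit 5) (nat_lit 272) (nat_lit 5) (nat_lit 267) (nat_lit 5) (nat_lit 392) (nat_lit 345) (nat_lit 283))) (XT.nd (nat_lit 78) (nat_lit 456) (nat_lit 0) (XT.lf (nat_lit 0) (nat_lit 6636493960) (nat_lit 380) (nat_lit 2634134205) (nat_lit 456) (nat_lit 1708836203) (nat_lit 261) (nat_lit 5) (nat_lit 266) (nat_lit 5) (nat_lit 267) (nat_lit 5) (nat_lit 393) (nat_lit 345) (nat_lit 282)) (XT.lf (nat_lit 0) (nat_lit 1303565895) (nat_lit 456) (nat_lit 8121605869) (nat_lit 76) (nat_lit 1729416187) (nat_lit 255) (nat_lit 5) (nat_lit 261) (nat_lit 5) (nat_lit 256) (nat_lit 5) (nat_lit 394) (nat_lit 345) (nat_lit 281))))))))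
noncomputable def xc112 : XT := (XT.nd (nat_lit 2340) (nat_lit 3648) (nat_lit 0) (XT.nd (nat_lit 1170) (nat_lit 2508) (nat_lit 0) (XT.nd (nat_lit 546) (nat_lit 1824) (nat_lit 0) (XT.nd (nat_lit 234) (nat_lit 836) (nat_lit 0) (XT.nd (nat_lit 78) (nat_lit 684) (nat_lit 0) (XT.lf (nat_lit 0) (nat_lit 4405734541) (nat_lit 456) (nat_lit 709528649) (nat_lit 76) (nat_lit 6218182264) (nat_lit 255) (nat_lit 5) (nat_lit 261) (nat_lit 5) (nat_lit 256) (nat_lit 5) (nat_lit 395) (nat_lit 345) (nat_lit 280)) (XT.nd (nat_lit 78) (nat_lit 304) (nat_lit 0) (XT.lf (nat_lit 0) (nat_lit 7011551970) (nat_lit 380) (nat_lit 621252656) (nat_lit 456) (nat_lit 3883908964) (nat_lit 250) (nat_lit 5) (nat_lit 255) (nat_lit 5) (nat_lit 256) (nat_lit 5) (nat_lit 396) (nat_lit 345) (nat_lit 279)) (XT.lf (nat_lit 0) (nat_lit 3247728883) (nat_lit 304) (nat_lit 7750790269) (nat_lit 380) (nat_lit 705705649) (nat_lit 246) (nat_lit 5) (nat_lit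 250) (nat_lit 5) (nat_lit 251) (nat_lit 5) (nat_lit 397) (nat_lit 345) (nat_lit 278)))) (XT.nd (nat_lit 156) (nat_lit 380) (nat_lit 0) (XT.nd (nat_lit 78) (nat_lit 380) (nat_lit 0) (XT.lf (nat_lit 0) (nat_lit 2534884185) (nat_lit 380) (nat_lit 652520235) (nat_lit 76) (nat_lit 8708701969) (nat_lit 245) (nat_lit 5) (nat_lit 250) (nat_lit 5) (nat_lit 246) (nat_lit 5) (nat_lit 398) (nat_lit 345) (nat_lit 277)) (XT.lf (nat_lit 0) (nat_lit 5911610202) (nat_lit 456) (nat_lit 4632434617) (nat_lit 76) (nat_lit 1547896914) (nat_lit 240) (nat_lit 5) (nat_lit 246) (nat_lit 5) (nat_lit 241) (nat_lit 5) (nat_lit 399) (nat_lit 345) (nat_lit 276))) (XT.nd (nat_lit 78) (nat_lit 76) (nat_lit 0) (XT.lf (nat_lit 0) (nat_lit 3522237595) (nat_lit 304) (nat_lit 5905913136) (nat_lit 380) (nat_lit 2864346026) (nat_lit 236) (nat_lit 5) (nat_lit 240) (nat_lit 5) (nat_lit 241) (nat_lit 5) (nat_lit 400) (nat_lit 345) (nat_lit 275))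 (XT.lf (nat_lit 0) (nat_lit 554225556) (nat_lit 380) (nat_lit 536779895) (nat_lit 76) (nat_lit 11407488225) (nat_lit 235) (nat_lit 5) (nat_lit 240) (nat_lit 5) (nat_lit 236) (nat_lit 5) (nat_lit 401) (nat_lit 345) (nat_lit 274))))) (XT.nd (nat_lit 312) (nat_lit 836) (nat_lit 0) (XT.nd (nat_lit 156) (nat_lit 380) (nat_lit 0) (XT.nd (nat_lit 78) (nat_lit 304) (nat_lit 0) (XT.lf (nat_lit 0) (nat_lit 4100577509) (nat_lit 380) (nat_lit 4723054384) (nat_lit 76) (nat_lit 3883704001) (nat_lit 231) (nat_lit 5) (nat_lit 236) (nat_lit 5) (nat_lit 232) (nat_lit 5) (nat_lit 402) (nat_lit 345) (nat_lit 273)) (XT.lf (nat_lit 0) (nat_lit 3865531010) (nat_lit 304) (nat_lit 3909143632) (nat_lit 380) (nat_lit 5147128098) (nat_lit 227) (nat_lit 5) (nat_lit 231) (nat_lit 5) (nat_lit 232) (nat_lit 5) (nat_lit 403) (nat_lit 345) (nat_lit 272))) (XT.nd (nat_lit 78) (nat_lit 380) (nat_lit 0) (XT.lf (nat_lit 0) (nat_lit 11586472681)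 (nat_lit 380) (nat_lit 393285762) (nat_lit 76) (nat_lit 1162120809) (nat_lit 227) (nat_lit 5) (nat_lit 232) (nat_lit 5) (nat_lit 228) (nat_lit 5) (nat_lit 404) (nat_lit 345) (nat_lit 271)) (XT.lf (nat_lit 0) (nat_lit 2193763298) (nat_lit 380) (nat_lit 4776046348) (nat_lit 76) (nat_lit 6395384055) (nat_lit 222) (nat_lit 5) (nat_lit 227) (nat_lit 5) (nat_lit 223) (nat_lit 5) (nat_lit 405) (nat_lit 345) (nat_lit 270)))) (XT.nd (nat_lit 156) (nat_lit 608) (nat_lit 0) (XT.nd (nat_lit 78) (nat_lit 0) (nat_lit 0) (XT.lf (nat_lit 0) (nat_lit 4274226252) (nat_lit 228) (nat_lit 1764317468) (nat_lit 304) (nat_lit 7555769936) (nat_lit 219) (nat_lit 5) (nat_lit 222) (nat_lit 5) (nat_lit 223) (nat_lit 5) (nat_lit 406) (nat_lit 345) (nat_lit 269)) (XT.lf (nat_lit 0) (nat_lit 10051529687) (nat_lit 304) (nat_lit 218049008) (nat_lit 76) (nat_lit 3559142649) (nat_lit 219) (nat_lit 5) (nat_lit 223) (nat_lit 5) (nat_lit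 220) (nat_lit 5) (nat_lit 407) (nat_lit 345) (nat_lit 268))) (XT.nd (nat_lit 78) (nat_lit 228) (nat_lit 0) (XT.lf (nat_lit 0) (nat_lit 190345211) (nat_lit 380) (nat_lit 4795809040) (nat_lit 76) (nat_lit 9081638713) (nat_lit 214) (nat_lit 5) (nat_lit 219) (nat_lit 5) (nat_lit 215) (nat_lit 5) (nat_lit 408) (nat_lit 345) (nat_lit 267)) (XT.lf (nat_lit 0) (nat_lit 4224480424) (nat_lit 304) (nat_lit 9571789859) (nat_lit 76) (nat_lit 515939810) (nat_lit 211) (nat_lit 5) (nat_lit 215) (nat_lit 5) (nat_lit 212) (nat_lit 5) (nat_lit 409) (nat_lit 345) (nat_lit 266)))))) (XT.nd (nat_lit 546) (nat_lit 1140) (nat_lit 0) (XT.nd (nat_lit 234) (nat_lit 760) (nat_lit 0) (XT.nd (nat_lit 78) (nat_lit 304) (nat_lit 0) (XT.lf (nat_lit 0) (nat_lit 1708555) (nat_lit 304) (nat_lit 8447058400) (nat_lit 380) (nat_lit 6113118964) (nat_lit 207) (nat_lit 5) (nat_lit 211) (nat_lit 5) (nat_lit 212) (nat_lit 5) (nat_lit 410) (nat_lit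 345) (nat_lit 265)) (XT.nd (nat_lit 78) (nat_lit 304) (nat_lit 0) (XT.lf (nat_lit 0) (nat_lit 10012068859) (nat_lit 304) (nat_lit 2855606690) (nat_lit 380) (nat_lit 1949339666) (nat_lit 207) (nat_lit 5) (nat_lit 211) (nat_lit 5) (nat_lit 212) (nat_lit 5) (nat_lit 411) (nat_lit 345) (nat_lit 264)) (XT.lf (nat_lit 0) (nat_lit 2344701750) (nat_lit 304) (nat_lit 9829234894) (nat_lit 76) (nat_lit 2903657187) (nat_lit 203) (nat_lit 5) (nat_lit 207) (nat_lit 5) (nat_lit 204) (nat_lit 5) (nat_lit 412) (nat_lit 345) (nat_lit 263)))) (XT.nd (nat_lit 156) (nat_lit 532) (nat_lit 0) (XT.nd (nat_lit 78) (nat_lit 0) (nat_lit 0) (XT.lf (nat_lit 0) (nat_lit 268431517) (nat_lit 228) (nat_lit 6511823774) (nat_lit 304) (nat_lit 8563599385) (nat_lit 200) (nat_lit 5) (nat_lit 203) (nat_lit 5) (nat_lit 204) (nat_lit 5) (nat_lit 413) (nat_lit 345) (nat_lit 262)) (XT.lf (nat_lit 0) (nat_lit 10824990059) (nat_lit 228) (nat_lit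 595534884) (nat_lit 304) (nat_lit 4195428917) (nat_lit 200) (nat_lit 5) (nat_lit 203) (nat_lit 5) (nat_lit 204) (nat_lit 5) (nat_lit 414) (nat_lit 345) (nat_lit 261))) (XT.nd (nat_lit 78) (nat_lit 228) (nat_lit 0) (XT.lf (nat_lit 0) (nat_lit 380476357) (nat_lit 304) (nat_lit 10079625883) (nat_lit 76) (nat_lit 5433547645) (nat_lit 196) (nat_lit 5) (nat_lit 200) (nat_lit 5) (nat_lit 197) (nat_lit 5) (nat_lit 415) (nat_lit 345) (nat_lit 260)) (XT.lf (nat_lit 0) (nat_lit 575528862) (nat_lit 228) (nat_lit 4467218614) (nat_lit 304) (nat_lit 11134680767) (nat_lit 193) (nat_lit 5) (nat_lit 196) (nat_lit 5) (nat_lit 197) (nat_lit 5) (nat_lit 416) (nat_lit 345) (nat_lit 259))))) (XT.nd (nat_lit 312) (nat_lit 608) (nat_lit 0) (XT.nd (nat_lit 156) (nat_lit 304) (nat_lit 0) (XT.nd (nat_lit 78) (nat_lit 228) (nat_lit 0) (XT.lf (nat_lit 0) (nat_lit 9937380668) (nat_lit 304) (nat_lit 4772223193) (nat_lit 76) (nat_lit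 1757341273) (nat_lit 193) (nat_lit 5) (nat_lit 197) (nat_lit 5) (nat_lit 194) (nat_lit 5) (nat_lit 417) (nat_lit 345) (nat_lit 258)) (XT.lf (nat_lit 0) (nat_lit 6419580728) (nat_lit 228) (nat_lit 8639296264) (nat_lit 304) (nat_lit 1703869816) (nat_lit 190) (nat_lit 5) (nat_lit 193) (nat_lit 5) (nat_lit 194) (nat_lit 5) (nat_lit 418) (nat_lit 345) (nat_lit 257))) (XT.nd (nat_lit 78) (nat_lit 0) (nat_lit 0) (XT.lf (nat_lit 0) (nat_lit 921199665) (nat_lit 228) (nat_lit 2313345272) (nat_lit 304) (nat_lit 13830984810) (nat_lit 186) (nat_lit 5) (nat_lit 189) (nat_lit 5) (nat_lit 190) (nat_lit 5) (nat_lit 419) (nat_lit 345) (nat_lit 256)) (XT.lf (nat_lit 0) (nat_lit 8407073644) (nat_lit 304) (nat_lit 4741090059) (nat_lit 76) (nat_lit 4225120142) (nat_lit 186) (nat_lit 5) (nat_lit 190) (nat_lit 5) (nat_lit 187) (nat_lit 5) (nat_lit 420) (nat_lit 345) (nat_lit 255)))) (XT.nd (nat_lit 156) (nat_lit 152) (nat_lit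 0) (XT.nd (nat_lit 78) (nat_lit 304) (nat_lit 0) (XT.lf (nat_lit 0) (nat_lit 7076668610) (nat_lit 152) (nat_lit 6724118798) (nat_lit 228) (nat_lit 3887502884) (nat_lit 184) (nat_lit 5) (nat_lit 186) (nat_lit 5) (nat_lit 187) (nat_lit 5) (nat_lit 421) (nat_lit 345) (nat_lit 254)) (XT.lf (nat_lit 0) (nat_lit 1304054037) (nat_lit 228) (nat_lit 49333625) (nat_lit 304) (nat_lit 16657890619) (nat_lit 180) (nat_lit 5) (nat_lit 183) (nat_lit 5) (nat_lit 184) (nat_lit 5) (nat_lit 422) (nat_lit 345) (nat_lit 253))) (XT.nd (nat_lit 78) (nat_lit 152) (nat_lit 0) (XT.lf (nat_lit 0) (nat_lit 6822498868) (nat_lit 304) (nat_lit 4694161718) (nat_lit 76) (nat_lit 6821666754) (nat_lit 180) (nat_lit 5) (nat_lit 184) (nat_lit 5) (nat_lit 181) (nat_lit 5) (nat_lit 423) (nat_lit 345) (nat_lit 252)) (XT.lf (nat_lit 0) (nat_lit 7789064376) (nat_lit 152) (nat_lit 4717998810) (nat_lit 228) (nat_lit 6166583292) (nat_lit 178) (nat_lit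 5) (nat_lit 180) (nat_lit 5) (nat_lit 181) (nat_lit 5) (nat_lit 424) (nat_lit 345) (nat_lit 251))))))) (XT.nd (nat_lit 1170) (nat_lit 1672) (nat_lit 0) (XT.nd (nat_lit 546) (nat_lit 988) (nat_lit 0) (XT.nd (nat_lit 234) (nat_lit 532) (nat_lit 0) (XT.nd (nat_lit 78) (nat_lit 228) (nat_lit 0) (XT.lf (nat_lit 0) (nat_lit 1694174520) (nat_lit 228) (nat_lit 16730257457) (nat_lit 304) (nat_lit 592725185) (nat_lit 175) (nat_lit 5) (nat_lit 178) (nat_lit 5) (nat_lit 179) (nat_lit 5) (nat_lit 425) (nat_lit 345) (nat_lit 250)) (XT.nd (nat_lit 78) (nat_lit 152) (nat_lit 0) (XT.lf (nat_lit 0) (nat_lit 5181812617) (nat_lit 304) (nat_lit 4633476079) (nat_lit 76) (nat_lit 9550181996) (nat_lit 174) (nat_lit 5) (nat_lit 178) (nat_lit 5) (nat_lit 175) (nat_lit 5) (nat_lit 426) (nat_lit 345) (nat_lit 249)) (XT.lf (nat_lit 0) (nat_lit 8557121334) (nat_lit 152) (nat_lit 2619713885) (nat_lit 228) (nat_lit 8545447497) (nat_lit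 172) (nat_lit 5) (nat_lit 174) (nat_lit 5) (nat_lit 175) (nat_lit 5) (nat_lit 427) (nat_lit 345) (nat_lit 248)))) (XT.nd (nat_lit 156) (nat_lit 304) (nat_lit 0) (XT.nd (nat_lit 78) (nat_lit 76) (nat_lit 0) (XT.lf (nat_lit 0) (nat_lit 2103726928) (nat_lit 152) (nat_lit 15338539751) (nat_lit 228) (nat_lit 2644815674) (nat_lit 170) (nat_lit 5) (nat_lit 172) (nat_lit 5) (nat_lit 173) (nat_lit 5) (nat_lit 428) (nat_lit 345) (nat_lit 247)) (XT.lf (nat_lit 0) (nat_lit 3482726948) (nat_lit 228) (nat_lit 4560818410) (nat_lit 76) (nat_lit 12414784304) (nat_lit 169) (nat_lit 5) (nat_lit 172) (nat_lit 5) (nat_lit 170) (nat_lit 5) (nat_lit 429) (nat_lit 345) (nat_lit 246))) (XT.nd (nat_lit 78) (nat_lit 152) (nat_lit 0) (XT.lf (nat_lit 0) (nat_lit 9381588664) (nat_lit 152) (nat_lit 427276718) (nat_lit 228) (nat_lit 11029025586) (nat_lit 167) (nat_lit 5) (nat_lit 169) (nat_lit 5) (nat_lit 170) (nat_lit 5) (nat_lit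 430) (nat_lit 345) (nat_lit 245)) (XT.lf (nat_lit 0) (nat_lit 2546443440) (nat_lit 152) (nat_lit 13898485268) (nat_lit 228) (nat_lit 4780306185) (nat_lit 165) (nat_lit 5) (nat_lit 167) (nat_lit 5) (nat_lit 168) (nat_lit 5) (nat_lit 431) (nat_lit 345) (nat_lit 244))))) (XT.nd (nat_lit 312) (nat_lit 608) (nat_lit 0) (XT.nd (nat_lit 156) (nat_lit 152) (nat_lit 0) (XT.nd (nat_lit 78) (nat_lit 152) (nat_lit 0) (XT.lf (nat_lit 0) (nat_lit 1722524586) (nat_lit 228) (nat_lit 4477749191) (nat_lit 76) (nat_lit 15420478983) (nat_lit 164) (nat_lit 5) (nat_lit 167) (nat_lit 5) (nat_lit 165) (nat_lit 5) (nat_lit 432) (nat_lit 345) (nat_lit 243)) (XT.lf (nat_lit 0) (nat_lit 8419463250) (nat_lit 228) (nat_lit 11778706453) (nat_lit 76) (nat_lit 1825693494) (nat_lit 162) (nat_lit 5) (nat_lit 165) (nat_lit 5) (nat_lit 163) (nat_lit 5) (nat_lit 433) (nat_lit 345) (nat_lit 242))) (XT.nd (nat_lit 78) (nat_lit 0) (nat_lit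 0) (XT.lf (nat_lit 0) (nat_lit 3022192264) (nat_lit 152) (nat_lit 12409857859) (nat_lit 228) (nat_lit 7003574623) (nat_lit 160) (nat_lit 5) (nat_lit 162) (nat_lit 5) (nat_lit 163) (nat_lit 5) (nat_lit 434) (nat_lit 345) (nat_lit 241)) (XT.lf (nat_lit 0) (nat_lit 18470176089) (nat_lit 152) (nat_lit 4282669411) (nat_lit 228) (nat_lit 103958717) (nat_lit 160) (nat_lit 5) (nat_lit 162) (nat_lit 5) (nat_lit 163) (nat_lit 5) (nat_lit 435) (nat_lit 345) (nat_lit 240)))) (XT.nd (nat_lit 156) (nat_lit 228) (nat_lit 0) (XT.nd (nat_lit 78) (nat_lit 152) (nat_lit 0) (XT.lf (nat_lit 0) (nat_lit 6993874647) (nat_lit 228) (nat_lit 12122236901) (nat_lit 76) (nat_lit 4168651836) (nat_lit 157) (nat_lit 5) (nat_lit 160) (nat_lit 5) (nat_lit 158) (nat_lit 5) (nat_lit 436) (nat_lit 345) (nat_lit 239)) (XT.lf (nat_lit 0) (nat_lit 3531109463) (nat_lit 152) (nat_lit 10871907923) (nat_lit 228) (nat_lit 9319499147) (nat_lit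 155) (nat_lit 5) (nat_lit 157) (nat_lit 5) (nat_lit 158) (nat_lit 5) (nat_lit 437) (nat_lit 345) (nat_lit 238))) (XT.nd (nat_lit 78) (nat_lit 228) (nat_lit 0) (XT.lf (nat_lit 0) (nat_lit 19865150944) (nat_lit 152) (nat_lit 2271318343) (nat_lit 228) (nat_lit 2033871942) (nat_lit 155) (nat_lit 5) (nat_lit 157) (nat_lit 5) (nat_lit 158) (nat_lit 5) (nat_lit 438) (nat_lit 345) (nat_lit 237)) (XT.lf (nat_lit 0) (nat_lit 5525779121) (nat_lit 228) (nat_lit 12485430615) (nat_lit 76) (nat_lit 6613947384) (nat_lit 152) (nat_lit 5) (nat_lit 155) (nat_lit 5) (nat_lit 153) (nat_lit 5) (nat_lit 439) (nat_lit 345) (nat_lit 236)))))) (XT.nd (nat_lit 624) (nat_lit 912) (nat_lit 0) (XT.nd (nat_lit 312) (nat_lit 304) (nat_lit 0) (XT.nd (nat_lit 156) (nat_lit 304) (nat_lit 0) (XT.nd (nat_lit 78) (nat_lit 0) (nat_lit 0) (XT.lf (nat_lit 0) (nat_lit 4073583449) (nat_lit 152) (nat_lit 9283402523) (nat_lit 228) (nat_lit 11733458044)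 (nat_lit 150) (nat_lit 5) (nat_lit 152) (nat_lit 5) (nat_lit 153) (nat_lit 5) (nat_lit 440) (nat_lit 345) (nat_lit 235)) (XT.lf (nat_lit 0) (nat_lit 21348887150) (nat_lit 152) (nat_lit 180644501) (nat_lit 228) (nat_lit 4036965789) (nat_lit 150) (nat_lit 5) (nat_lit 152) (nat_lit 5) (nat_lit 153) (nat_lit 5) (nat_lit 441) (nat_lit 345) (nat_lit 234))) (XT.nd (nat_lit 78) (nat_lit 152) (nat_lit 0) (XT.lf (nat_lit 0) (nat_lit 4012651690) (nat_lit 152) (nat_lit 12870876038) (nat_lit 76) (nat_lit 9166238428) (nat_lit 148) (nat_lit 5) (nat_lit 150) (nat_lit 5) (nat_lit 149) (nat_lit 5) (nat_lit 442) (nat_lit 345) (nat_lit 233)) (XT.lf (nat_lit 0) (nat_lit 4650242123) (nat_lit 152) (nat_lit 7642650340) (nat_lit 228) (nat_lit 14251333158) (nat_lit 146) (nat_lit 5) (nat_lit 148) (nat_lit 5) (nat_lit 149) (nat_lit 5) (nat_lit 443) (nat_lit 345) (nat_lit 232)))) (XT.nd (nat_lit 156) (nat_lit 152) (nat_lit 0) (XT.nd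 (nat_lit 78) (nat_lit 152) (nat_lit 0) (XT.lf (nat_lit 0) (nat_lit 20951659953) (nat_lit 228) (nat_lit 4143969311) (nat_lit 76) (nat_lit 1953986020) (nat_lit 146) (nat_lit 5) (nat_lit 149) (nat_lit 5) (nat_lit 147) (nat_lit 4) (nat_lit 444) (nat_lit 345) (nat_lit 231)) (XT.lf (nat_lit 0) (nat_lit 2451660723) (nat_lit 152) (nat_lit 13281127707) (nat_lit 76) (nat_lit 11830819372) (nat_lit 144) (nat_lit 5) (nat_lit 146) (nat_lit 5) (nat_lit 145) (nat_lit 5) (nat_lit 445) (nat_lit 345) (nat_lit 230))) (XT.nd (nat_lit 78) (nat_lit 0) (nat_lit 0) (XT.lf (nat_lit 0) (nat_lit 5261942400) (nat_lit 152) (nat_lit 5947521911) (nat_lit 228) (nat_lit 16879516653) (nat_lit 142) (nat_lit 5) (nat_lit 144) (nat_lit 5) (nat_lit 145) (nat_lit 5) (nat_lit 446) (nat_lit 345) (nat_lit 229)) (XT.lf (nat_lit 0) (nat_lit 20386630695) (nat_lit 228) (nat_lit 4068484441) (nat_lit 76) (nat_lit 4170301324) (nat_lit 142) (nat_lit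 5) (nat_lit 145) (nat_lit 5) (nat_lit 143) (nat_lit 4) (nat_lit 447) (nat_lit 345) (nat_lit 228))))) (XT.nd (nat_lit 312) (nat_lit 532) (nat_lit 0) (XT.nd (nat_lit 156) (nat_lit 76) (nat_lit 0) (XT.nd (nat_lit 78) (nat_lit 152) (nat_lit 0) (XT.lf (nat_lit 0) (nat_lit 839670557) (nat_lit 152) (nat_lit 13718726619) (nat_lit 76) (nat_lit 14613615021) (nat_lit 140) (nat_lit 5) (nat_lit 142) (nat_lit 5) (nat_lit 141) (nat_lit 5) (nat_lit 448) (nat_lit 345) (nat_lit 227)) (XT.lf (nat_lit 0) (nat_lit 5909761928) (nat_lit 152) (nat_lit 4195465572) (nat_lit 228) (nat_lit 19624920991) (nat_lit 138) (nat_lit 5) (nat_lit 140) (nat_lit 5) (nat_lit 141) (nat_lit 5) (nat_lit 449) (nat_lit 345) (nat_lit 226))) (XT.nd (nat_lit 78) (nat_lit 76) (nat_lit 0) (XT.lf (nat_lit 0) (nat_lit 19833016735) (nat_lit 228) (nat_lit 3990156294) (nat_lit 76) (nat_lit 6476327877) (nat_lit 138) (nat_lit 5) (nat_lit 141) (nat_lit 5) (nat_lit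 139) (nat_lit 4) (nat_lit 450) (nat_lit 345) (nat_lit 225)) (XT.lf (nat_lit 0) (nat_lit 16686072770) (nat_lit 76) (nat_lit 13351112428) (nat_lit 152) (nat_lit 843212329) (nat_lit 137) (nat_lit 5) (nat_lit 138) (nat_lit 5) (nat_lit 139) (nat_lit 4) (nat_lit 451) (nat_lit 345) (nat_lit 224)))) (XT.nd (nat_lit 156) (nat_lit 304) (nat_lit 0) (XT.nd (nat_lit 78) (nat_lit 0) (nat_lit 0) (XT.lf (nat_lit 0) (nat_lit 6594992801) (nat_lit 152) (nat_lit 2383519469) (nat_lit 228) (nat_lit 22494991981) (nat_lit 134) (nat_lit 5) (nat_lit 136) (nat_lit 5) (nat_lit 137) (nat_lit 5) (nat_lit 452) (nat_lit 345) (nat_lit 223)) (XT.lf (nat_lit 0) (nat_lit 19291047822) (nat_lit 228) (nat_lit 3909629919) (nat_lit 76) (nat_lit 8877082770) (nat_lit 134) (nat_lit 5) (nat_lit 137) (nat_lit 5) (nat_lit 135) (nat_lit 4) (nat_lit 453) (nat_lit 345) (nat_lit 222))) (XT.nd (nat_lit 78) (nat_lit 228) (nat_lit 0) (XT.lf (nat_lit 0)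 (nat_lit 17983565876) (nat_lit 76) (nat_lit 12109041180) (nat_lit 152) (nat_lit 2602147972) (nat_lit 133) (nat_lit 5) (nat_lit 134) (nat_lit 5) (nat_lit 135) (nat_lit 4) (nat_lit 454) (nat_lit 345) (nat_lit 221)) (XT.lf (nat_lit 0) (nat_lit 7319137124) (nat_lit 152) (nat_lit 508319943) (nat_lit 228) (nat_lit 25497724827) (nat_lit 130) (nat_lit 5) (nat_lit 132) (nat_lit 5) (nat_lit 133) (nat_lit 5) (nat_lit 455) (nat_lit 345) (nat_lit 220))))))))
noncomputable def xc113 : XT := (XT.nd (nat_lit 2340) (nat_lit 608) (nat_lit 0) (XT.nd (nat_lit 1170) (nat_lit 1064) (nat_lit 0) (XT.nd (nat_lit 546) (nat_lit 760) (nat_lit 0) (XT.nd (nat_lit 234) (nat_lit 304) (nat_lit 0) (XT.nd (nat_lit 78) (nat_lit 304) (nat_lit 0) (XT.lf (nat_lit 0) (nat_lit 18760884317) (nat_lit 228) (nat_lit 3827468877) (nat_lit 76) (nat_lit 11378098416) (nat_lit 130) (nat_lit 5) (nat_lit 133) (nat_lit 5) (nat_lit 131) (nat_lit 4) (nat_lit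 456) (nat_lit 345) (nat_lit 219)) (XT.nd (nat_lit 78) (nat_lit 228) (nat_lit 0) (XT.lf (nat_lit 0) (nat_lit 19357976172) (nat_lit 76) (nat_lit 10839177340) (nat_lit 152) (nat_lit 4424560732) (nat_lit 129) (nat_lit 5) (nat_lit 130) (nat_lit 5) (nat_lit 131) (nat_lit 4) (nat_lit 457) (nat_lit 345) (nat_lit 218)) (XT.lf (nat_lit 0) (nat_lit 6663794298) (nat_lit 228) (nat_lit 27221573112) (nat_lit 76) (nat_lit 1405913013) (nat_lit 126) (nat_lit 5) (nat_lit 129) (nat_lit 5) (nat_lit 127) (nat_lit 4) (nat_lit 458) (nat_lit 345) (nat_lit 217)))) (XT.nd (nat_lit 156) (nat_lit 228) (nat_lit 0) (XT.nd (nat_lit 78) (nat_lit 76) (nat_lit 0) (XT.lf (nat_lit 0) (nat_lit 18242626205) (nat_lit 228) (nat_lit 3744164613) (nat_lit 76) (nat_lit 13985425880) (nat_lit 126) (nat_lit 5) (nat_lit 129) (nat_lit 5) (nat_lit 127) (nat_lit 4) (nat_lit 459) (nat_lit 345) (nat_lit 216)) (XT.lf (nat_lit 0) (nat_lit 20813369593) (nat_lit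 76) (nat_lit 9539773855) (nat_lit 152) (nat_lit 6314908000) (nat_lit 125) (nat_lit 5) (nat_lit 126) (nat_lit 5) (nat_lit 127) (nat_lit 4) (nat_lit 460) (nat_lit 345) (nat_lit 215))) (XT.nd (nat_lit 78) (nat_lit 0) (nat_lit 0) (XT.lf (nat_lit 0) (nat_lit 5477071125) (nat_lit 228) (nat_lit 28521881891) (nat_lit 76) (nat_lit 3380007208) (nat_lit 122) (nat_lit 5) (nat_lit 125) (nat_lit 5) (nat_lit 123) (nat_lit 4) (nat_lit 461) (nat_lit 345) (nat_lit 214)) (XT.lf (nat_lit 0) (nat_lit 17736321066) (nat_lit 228) (nat_lit 3660144763) (nat_lit 76) (nat_lit 16705641672) (nat_lit 122) (nat_lit 5) (nat_lit 125) (nat_lit 5) (nat_lit 123) (nat_lit 4) (nat_lit 462) (nat_lit 345) (nat_lit 213))))) (XT.nd (nat_lit 312) (nat_lit 380) (nat_lit 0) (XT.nd (nat_lit 156) (nat_lit 76) (nat_lit 0) (XT.nd (nat_lit 78) (nat_lit 228) (nat_lit 0) (XT.lf (nat_lit 0) (nat_lit 22354153469) (nat_lit 76) (nat_lit 8208829529) (nat_lit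 152) (nat_lit 8277977165) (nat_lit 121) (nat_lit 5) (nat_lit 122) (nat_lit 5) (nat_lit 123) (nat_lit 4) (nat_lit 463) (nat_lit 345) (nat_lit 212)) (XT.lf (nat_lit 0) (nat_lit 4260015830) (nat_lit 228) (nat_lit 29907346079) (nat_lit 76) (nat_lit 5428344168) (nat_lit 118) (nat_lit 5) (nat_lit 121) (nat_lit 5) (nat_lit 119) (nat_lit 4) (nat_lit 464) (nat_lit 345) (nat_lit 211))) (XT.nd (nat_lit 78) (nat_lit 76) (nat_lit 0) (XT.lf (nat_lit 0) (nat_lit 17241971121) (nat_lit 228) (nat_lit 3575780535) (nat_lit 76) (nat_lit 19545857857) (nat_lit 118) (nat_lit 5) (nat_lit 121) (nat_lit 5) (nat_lit 119) (nat_lit 4) (nat_lit 465) (nat_lit 345) (nat_lit 210)) (XT.lf (nat_lit 0) (nat_lit 23985086137) (nat_lit 76) (nat_lit 6844094496) (nat_lit 152) (nat_lit 10318895551) (nat_lit 117) (nat_lit 5) (nat_lit 118) (nat_lit 5) (nat_lit 119) (nat_lit 4) (nat_lit 466) (nat_lit 345) (nat_lit 209)))) (XT.nd (nat_lit 156) (nat_lit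 228) (nat_lit 0) (XT.nd (nat_lit 78) (nat_lit 0) (nat_lit 0) (XT.lf (nat_lit 0) (nat_lit 3010055393) (nat_lit 152) (nat_lit 31383473596) (nat_lit 76) (nat_lit 7555778136) (nat_lit 115) (nat_lit 5) (nat_lit 117) (nat_lit 5) (nat_lit 116) (nat_lit 4) (nat_lit 467) (nat_lit 345) (nat_lit 208)) (XT.lf (nat_lit 0) (nat_lit 16759539454) (nat_lit 152) (nat_lit 3491393254) (nat_lit 76) (nat_lit 22513735341) (nat_lit 115) (nat_lit 5) (nat_lit 117) (nat_lit 5) (nat_lit 116) (nat_lit 4) (nat_lit 468) (nat_lit 345) (nat_lit 207))) (XT.nd (nat_lit 78) (nat_lit 152) (nat_lit 0) (XT.lf (nat_lit 0) (nat_lit 25711288407) (nat_lit 76) (nat_lit 5443073571) (nat_lit 152) (nat_lit 12443142207) (nat_lit 114) (nat_lit 5) (nat_lit 115) (nat_lit 5) (nat_lit 116) (nat_lit 4) (nat_lit 469) (nat_lit 345) (nat_lit 206)) (XT.lf (nat_lit 0) (nat_lit 1724425957) (nat_lit 152) (nat_lit 32956043135) (nat_lit 76) (nat_lit 9767561507)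 (nat_lit 112) (nat_lit 5) (nat_lit 114) (nat_lit 5) (nat_lit 113) (nat_lit 4) (nat_lit 470) (nat_lit 345) (nat_lit 205)))))) (XT.nd (nat_lit 546) (nat_lit 608) (nat_lit 0) (XT.nd (nat_lit 234) (nat_lit 228) (nat_lit 0) (XT.nd (nat_lit 78) (nat_lit 228) (nat_lit 0) (XT.lf (nat_lit 0) (nat_lit 16288955514) (nat_lit 152) (nat_lit 3407260174) (nat_lit 76) (nat_lit 25617500258) (nat_lit 112) (nat_lit 5) (nat_lit 114) (nat_lit 5) (nat_lit 113) (nat_lit 4) (nat_lit 471) (nat_lit 345) (nat_lit 204)) (XT.nd (nat_lit 78) (nat_lit 152) (nat_lit 0) (XT.lf (nat_lit 0) (nat_lit 27538256842) (nat_lit 76) (nat_lit 4003027605) (nat_lit 152) (nat_lit 14656561502) (nat_lit 111) (nat_lit 5) (nat_lit 112) (nat_lit 5) (nat_lit 113) (nat_lit 4) (nat_lit 472) (nat_lit 345) (nat_lit 203)) (XT.lf (nat_lit 0) (nat_lit 400168359) (nat_lit 152) (nat_lit 34631128700) (nat_lit 76) (nat_lit 12069353569) (nat_lit 109) (nat_lit 5) (nat_lit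 111) (nat_lit 5) (nat_lit 110) (nat_lit 4) (nat_lit 473) (nat_lit 345) (nat_lit 202)))) (XT.nd (nat_lit 156) (nat_lit 152) (nat_lit 0) (XT.nd (nat_lit 78) (nat_lit 76) (nat_lit 0) (XT.lf (nat_lit 0) (nat_lit 15830119959) (nat_lit 152) (nat_lit 3323619629) (nat_lit 76) (nat_lit 28865963361) (nat_lit 109) (nat_lit 5) (nat_lit 111) (nat_lit 5) (nat_lit 110) (nat_lit 4) (nat_lit 474) (nat_lit 345) (nat_lit 201)) (XT.lf (nat_lit 0) (nat_lit 29471878861) (nat_lit 76) (nat_lit 2520972993) (nat_lit 152) (nat_lit 16965378531) (nat_lit 108) (nat_lit 5) (nat_lit 109) (nat_lit 5) (nat_lit 110) (nat_lit 4) (nat_lit 475) (nat_lit 345) (nat_lit 200))) (XT.nd (nat_lit 78) (nat_lit 76) (nat_lit 0) (XT.lf (nat_lit 0) (nat_lit 13491600676) (nat_lit 76) (nat_lit 35439493760) (nat_lit 76) (nat_lit 985100346) (nat_lit 107) (nat_lit 4) (nat_lit 108) (nat_lit 5) (nat_lit 108) (nat_lit 4) (nat_lit 476) (nat_lit 345) (nat_lit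 199)) (XT.lf (nat_lit 0) (nat_lit 15382908939) (nat_lit 152) (nat_lit 3240675609) (nat_lit 76) (nat_lit 32268542398) (nat_lit 106) (nat_lit 5) (nat_lit 108) (nat_lit 5) (nat_lit 107) (nat_lit 4) (nat_lit 477) (nat_lit 345) (nat_lit 198))))) (XT.nd (nat_lit 312) (nat_lit 304) (nat_lit 0) (XT.nd (nat_lit 156) (nat_lit 152) (nat_lit 0) (XT.nd (nat_lit 78) (nat_lit 76) (nat_lit 0) (XT.lf (nat_lit 0) (nat_lit 31518449639) (nat_lit 76) (nat_lit 993679420) (nat_lit 152) (nat_lit 19376216309) (nat_lit 105) (nat_lit 5) (nat_lit 106) (nat_lit 5) (nat_lit 107) (nat_lit 4) (nat_lit 478) (nat_lit 345) (nat_lit 197)) (XT.lf (nat_lit 0) (nat_lit 14566621258) (nat_lit 76) (nat_lit 35913688634) (nat_lit 76) (nat_lit 2424387928) (nat_lit 104) (nat_lit 4) (nat_lit 105) (nat_lit 5) (nat_lit 105) (nat_lit 4) (nat_lit 479) (nat_lit 345) (nat_lit 196))) (XT.nd (nat_lit 78) (nat_lit 76) (nat_lit 0) (XT.lf (nat_lit 0) (nat_lit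 14947177865) (nat_lit 152) (nat_lit 3158601817) (nat_lit 76) (nat_lit 35835287437) (nat_lit 103) (nat_lit 5) (nat_lit 105) (nat_lit 5) (nat_lit 104) (nat_lit 4) (nat_lit 480) (nat_lit 345) (nat_lit 195)) (XT.lf (nat_lit 0) (nat_lit 33107954536) (nat_lit 152) (nat_lit 21319378488) (nat_lit 0) (nat_lit 570970608) (nat_lit 102) (nat_lit 5) (nat_lit 104) (nat_lit 4) (nat_lit 102) (nat_lit 4) (nat_lit 481) (nat_lit 345) (nat_lit 194)))) (XT.nd (nat_lit 156) (nat_lit 152) (nat_lit 0) (XT.nd (nat_lit 78) (nat_lit 76) (nat_lit 0) (XT.lf (nat_lit 0) (nat_lit 15701960987) (nat_lit 76) (nat_lit 36461416621) (nat_lit 76) (nat_lit 3913384939) (nat_lit 101) (nat_lit 4) (nat_lit 102) (nat_lit 5) (nat_lit 102) (nat_lit 4) (nat_lit 482) (nat_lit 345) (nat_lit 193)) (XT.lf (nat_lit 0) (nat_lit 14522764726) (nat_lit 152) (nat_lit 3077545261) (nat_lit 76) (nat_lit 39576909139) (nat_lit 100) (nat_lit 5) (nat_lit 102) (nat_lit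 5) (nat_lit 101) (nat_lit 4) (nat_lit 483) (nat_lit 345) (nat_lit 192))) (XT.nd (nat_lit 78) (nat_lit 76) (nat_lit 0) (XT.lf (nat_lit 0) (nat_lit 33788218275) (nat_lit 152) (nat_lit 22342998811) (nat_lit 0) (nat_lit 2167663689) (nat_lit 99) (nat_lit 5) (nat_lit 101) (nat_lit 4) (nat_lit 99) (nat_lit 4) (nat_lit 484) (nat_lit 345) (nat_lit 191)) (XT.lf (nat_lit 0) (nat_lit 16901194564) (nat_lit 76) (nat_lit 37086345472) (nat_lit 76) (nat_lit 5455975099) (nat_lit 98) (nat_lit 4) (nat_lit 99) (nat_lit 5) (nat_lit 99) (nat_lit 4) (nat_lit 485) (nat_lit 345) (nat_lit 190))))))) (XT.nd (nat_lit 42744) (nat_lit 0) (nat_lit 22420) (XT.nd (nat_lit 546) (nat_lit 76) (nat_lit 0) (XT.nd (nat_lit 234) (nat_lit 304) (nat_lit 0) (XT.nd (nat_lit 78) (nat_lit 152) (nat_lit 0) (XT.lf (nat_lit 0) (nat_lit 14109493009) (nat_lit 152) (nat_lit 2997629451) (nat_lit 76) (nat_lit 43504810000) (nat_lit 97) (nat_lit 5) (nat_lit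 99) (nat_lit 5) (nat_lit 98) (nat_lit 4) (nat_lit 486) (nat_lit 345) (nat_lit 189)) (XT.nd (nat_lit 78) (nat_lit 76) (nat_lit 0) (XT.lf (nat_lit 0) (nat_lit 34547044834) (nat_lit 152) (nat_lit 23435181276) (nat_lit 0) (nat_lit 3819712230) (nat_lit 96) (nat_lit 5) (nat_lit 98) (nat_lit 4) (nat_lit 96) (nat_lit 4) (nat_lit 487) (nat_lit 345) (nat_lit 188)) (XT.lf (nat_lit 0) (nat_lit 18168144999) (nat_lit 76) (nat_lit 37792335243) (nat_lit 76) (nat_lit 7056281441) (nat_lit 95) (nat_lit 4) (nat_lit 96) (nat_lit 5) (nat_lit 96) (nat_lit 4) (nat_lit 488) (nat_lit 345) (nat_lit 187)))) (XT.nd (nat_lit 156) (nat_lit 152) (nat_lit 0) (XT.nd (nat_lit 78) (nat_lit 76) (nat_lit 0) (XT.lf (nat_lit 0) (nat_lit 13707174267) (nat_lit 152) (nat_lit 2918957221) (nat_lit 76) (nat_lit 47631118613) (nat_lit 94) (nat_lit 5) (nat_lit 96) (nat_lit 5) (nat_lit 95) (nat_lit 4) (nat_lit 489) (nat_lit 345) (nat_lit 186)) (XT.lf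 (nat_lit 0) (nat_lit 35388335382) (nat_lit 152) (nat_lit 24600118335) (nat_lit 0) (nat_lit 5531304749) (nat_lit 93) (nat_lit 5) (nat_lit 95) (nat_lit 4) (nat_lit 93) (nat_lit 4) (nat_lit 490) (nat_lit 345) (nat_lit 185))) (XT.nd (nat_lit 78) (nat_lit 76) (nat_lit 0) (XT.lf (nat_lit 0) (nat_lit 19506894752) (nat_lit 76) (nat_lit 38583457011) (nat_lit 76) (nat_lit 8718677706) (nat_lit 92) (nat_lit 4) (nat_lit 93) (nat_lit 5) (nat_lit 93) (nat_lit 4) (nat_lit 491) (nat_lit 345) (nat_lit 184)) (XT.lf (nat_lit 0) (nat_lit 13315610369) (nat_lit 152) (nat_lit 2841613237) (nat_lit 76) (nat_lit 51968726977) (nat_lit 91) (nat_lit 5) (nat_lit 93) (nat_lit 5) (nat_lit 92) (nat_lit 4) (nat_lit 492) (nat_lit 345) (nat_lit 183))))) (XT.nd (nat_lit 41886) (nat_lit 0) (nat_lit 29640) (XT.nd (nat_lit 41730) (nat_lit 0) (nat_lit 30704) (XT.nd (nat_lit 41652) (nat_lit 0) (nat_lit 30704) (XT.lf (nat_lit 0) (nat_lit 36316232287)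 (nat_lit 152) (nat_lit 25842235154) (nat_lit 0) (nat_lit 7306905924) (nat_lit 90) (nat_lit 5) (nat_lit 92) (nat_lit 4) (nat_lit 90) (nat_lit 4) (nat_lit 493) (nat_lit 345) (nat_lit 182)) (XT.lf (nat_lit 0) (nat_lit 698466711) (nat_lit 532) (nat_lit 1299220761) (nat_lit 532) (nat_lit 1299220761) (nat_lit 494) (nat_lit 3) (nat_lit 501) (nat_lit 3) (nat_lit 501) (nat_lit 5) (nat_lit 346) (nat_lit 346) (nat_lit 328))) (XT.nd (nat_lit 78) (nat_lit 0) (nat_lit 0) (XT.lf (nat_lit 76) (nat_lit 712367568) (nat_lit 0) (nat_lit 3109261840) (nat_lit 532) (nat_lit 2798982047) (nat_lit 495) (nat_lit 5) (nat_lit 494) (nat_lit 3) (nat_lit 501) (nat_lit 5) (nat_lit 347) (nat_lit 346) (nat_lit 327)) (XT.lf (nat_lit 76) (nat_lit 4126632454) (nat_lit 0) (nat_lit 2124656598) (nat_lit 532) (nat_lit 398954557) (nat_lit 495) (nat_lit 5) (nat_lit 494) (nat_lit 3) (nat_lit 501) (nat_lit 5) (nat_lit 348) (nat_lit 346) (nat_lit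 326)))) (XT.nd (nat_lit 156) (nat_lit 532) (nat_lit 0) (XT.nd (nat_lit 78) (nat_lit 0) (nat_lit 76) (XT.lf (nat_lit 76) (nat_lit 910869759) (nat_lit 0) (nat_lit 1038324909) (nat_lit 608) (nat_lit 4733475008) (nat_lit 488) (nat_lit 5) (nat_lit 487) (nat_lit 5) (nat_lit 495) (nat_lit 5) (nat_lit 349) (nat_lit 346) (nat_lit 325)) (XT.lf (nat_lit 0) (nat_lit 4296705280) (nat_lit 532) (nat_lit 2272308665) (nat_lit 608) (nat_lit 148828015) (nat_lit 488) (nat_lit 5) (nat_lit 495) (nat_lit 5) (nat_lit 496) (nat_lit 5) (nat_lit 350) (nat_lit 346) (nat_lit 324))) (XT.nd (nat_lit 78) (nat_lit 608) (nat_lit 0) (XT.lf (nat_lit 76) (nat_lit 1296562039) (nat_lit 0) (nat_lit 5353856861) (nat_lit 608) (nat_lit 105577180) (nat_lit 489) (nat_lit 5) (nat_lit 488) (nat_lit 5) (nat_lit 496) (nat_lit 5) (nat_lit 351) (nat_lit 346) (nat_lit 323)) (XT.lf (nat_lit 0) (nat_lit 2172386170) (nat_lit 608) (nat_lit 1849501946) (nat_lit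 684) (nat_lit 2774626846) (nat_lit 480) (nat_lit 5) (nat_lit 488) (nat_lit 5) (nat_lit 489) (nat_lit 5) (nat_lit 352) (nat_lit 346) (nat_lit 322)))))) (XT.nd (nat_lit 624) (nat_lit 5168) (nat_lit 0) (XT.nd (nat_lit 312) (nat_lit 1444) (nat_lit 0) (XT.nd (nat_lit 156) (nat_lit 608) (nat_lit 0) (XT.nd (nat_lit 78) (nat_lit 0) (nat_lit 0) (XT.lf (nat_lit 76) (nat_lit 1853525722) (nat_lit 0) (nat_lit 2597599944) (nat_lit 684) (nat_lit 2389055606) (nat_lit 481) (nat_lit 5) (nat_lit 480) (nat_lit 5) (nat_lit 489) (nat_lit 5) (nat_lit 353) (nat_lit 346) (nat_lit 321)) (XT.lf (nat_lit 76) (nat_lit 5655724555) (nat_lit 0) (nat_lit 1079867121) (nat_lit 684) (nat_lit 151444966) (nat_lit 481) (nat_lit 5) (nat_lit 480) (nat_lit 5) (nat_lit 489) (nat_lit 5) (nat_lit 354) (nat_lit 346) (nat_lit 320))) (XT.nd (nat_lit 78) (nat_lit 0) (nat_lit 0) (XT.lf (nat_lit 0) (nat_lit 2062094036) (nat_lit 684) (nat_lit 4324606602)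 (nat_lit 760) (nat_lit 549451514) (nat_lit 472) (nat_lit 5) (nat_lit 481) (nat_lit 5) (nat_lit 482) (nat_lit 5) (nat_lit 355) (nat_lit 346) (nat_lit 319)) (XT.lf (nat_lit 0) (nat_lit 4284638179) (nat_lit 684) (nat_lit 455840207) (nat_lit 760) (nat_lit 2247848472) (nat_lit 472) (nat_lit 5) (nat_lit 481) (nat_lit 5) (nat_lit 482) (nat_lit 5) (nat_lit 356) (nat_lit 346) (nat_lit 318)))) (XT.nd (nat_lit 156) (nat_lit 684) (nat_lit 0) (XT.nd (nat_lit 78) (nat_lit 760) (nat_lit 0) (XT.lf (nat_lit 76) (nat_lit 3547646257) (nat_lit 0) (nat_lit 2984969066) (nat_lit 760) (nat_lit 510688783) (nat_lit 473) (nat_lit 5) (nat_lit 472) (nat_lit 5) (nat_lit 482) (nat_lit 5) (nat_lit 357) (nat_lit 346) (nat_lit 317)) (XT.lf (nat_lit 76) (nat_lit 522582666) (nat_lit 0) (nat_lit 1126717427) (nat_lit 836) (nat_lit 5452067142) (nat_lit 463) (nat_lit 5) (nat_lit 462) (nat_lit 5) (nat_lit 473) (nat_lit 5) (nat_lit 358) (nat_lit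 346) (nat_lit 316))) (XT.nd (nat_lit 78) (nat_lit 760) (nat_lit 0) (XT.lf (nat_lit 0) (nat_lit 3834562738) (nat_lit 760) (nat_lit 2493496544) (nat_lit 76) (nat_lit 833839131) (nat_lit 463) (nat_lit 5) (nat_lit 473) (nat_lit 5) (nat_lit 464) (nat_lit 5) (nat_lit 359) (nat_lit 346) (nat_lit 315)) (XT.lf (nat_lit 0) (nat_lit 1684177743) (nat_lit 760) (nat_lit 4358183318) (nat_lit 836) (nat_lit 1183175133) (nat_lit 453) (nat_lit 5) (nat_lit 463) (nat_lit 5) (nat_lit 464) (nat_lit 5) (nat_lit 360) (nat_lit 346) (nat_lit 314))))) (XT.nd (nat_lit 312) (nat_lit 3268) (nat_lit 0) (XT.nd (nat_lit 156) (nat_lit 988) (nat_lit 0) (XT.nd (nat_lit 78) (nat_lit 836) (nat_lit 0) (XT.lf (nat_lit 0) (nat_lit 961238694) (nat_lit 836) (nat_lit 1314891976) (nat_lit 76) (nat_lit 5015978681) (nat_lit 452) (nat_lit 5) (nat_lit 463) (nat_lit 5) (nat_lit 453) (nat_lit 5) (nat_lit 361) (nat_lit 346) (nat_lit 313)) (XT.lf (nat_lit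 0) (nat_lit 3034651908) (nat_lit 836) (nat_lit 73254609) (nat_lit 912) (nat_lit 4253570681) (nat_lit 441) (nat_lit 5) (nat_lit 452) (nat_lit 5) (nat_lit 453) (nat_lit 5) (nat_lit 362) (nat_lit 346) (nat_lit 312))) (XT.nd (nat_lit 78) (nat_lit 76) (nat_lit 0) (XT.lf (nat_lit 0) (nat_lit 35724136) (nat_lit 912) (nat_lit 5252265134) (nat_lit 988) (nat_lit 2145866365) (nat_lit 429) (nat_lit 5) (nat_lit 441) (nat_lit 5) (nat_lit 442) (nat_lit 5) (nat_lit 363) (nat_lit 346) (nat_lit 311)) (XT.lf (nat_lit 0) (nat_lit 4362843) (nat_lit 988) (nat_lit 2944268073) (nat_lit 76) (nat_lit 4560373790) (nat_lit 428) (nat_lit 5) (nat_lit 441) (nat_lit 5) (nat_lit 429) (nat_lit 5) (nat_lit 364) (nat_lit 346) (nat_lit 310)))) (XT.nd (nat_lit 156) (nat_lit 2280) (nat_lit 0) (XT.nd (nat_lit 78) (nat_lit 0) (nat_lit 0) (XT.lf (nat_lit 0) (nat_lit 1601150750) (nat_lit 988) (nat_lit 527037403) (nat_lit 1064) (nat_lit 5459016140)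 (nat_lit 415) (nat_lit 5) (nat_lit 428) (nat_lit 5) (nat_lit 429) (nat_lit 5) (nat_lit 365) (nat_lit 346) (nat_lit 309)) (XT.lf (nat_lit 0) (nat_lit 4302934939) (nat_lit 1064) (nat_lit 1396277306) (nat_lit 76) (nat_lit 1968921421) (nat_lit 415) (nat_lit 5) (nat_lit 429) (nat_lit 5) (nat_lit 416) (nat_lit 5) (nat_lit 366) (nat_lit 346) (nat_lit 308))) (XT.nd (nat_lit 78) (nat_lit 1216) (nat_lit 0) (XT.lf (nat_lit 0) (nat_lit 3339190167) (nat_lit 1064) (nat_lit 3181119465) (nat_lit 1140) (nat_lit 1231859722) (nat_lit 401) (nat_lit 5) (nat_lit 415) (nat_lit 5) (nat_lit 416) (nat_lit 5) (nat_lit 367) (nat_lit 346) (nat_lit 307)) (XT.lf (nat_lit 0) (nat_lit 351873146) (nat_lit 1140) (nat_lit 553127140) (nat_lit 1216) (nat_lit 6934696581) (nat_lit 385) (nat_lit 5) (nat_lit 400) (nat_lit 5) (nat_lit 401) (nat_lit 5) (nat_lit 368) (nat_lit 346) (nat_lit 306))))))))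
noncomputable def xc114 : XT := (XT.nd (nat_lit 2340) (nat_lit 5700) (nat_lit 0) (XT.nd (nat_lit 1170) (nat_lit 4408) (nat_lit 0) (XT.nd (nat_lit 546) (nat_lit 2812) (nat_lit 0) (XT.nd (nat_lit 234) (nat_lit 2204) (nat_lit 0) (XT.nd (nat_lit 78) (nat_lit 1216) (nat_lit 0) (XT.lf (nat_lit 0) (nat_lit 3088934773) (nat_lit 1216) (nat_lit 2665617075) (nat_lit 76) (nat_lit 2174700622) (nat_lit 385) (nat_lit 5) (nat_lit 401) (nat_lit 5) (nat_lit 386) (nat_lit 5) (nat_lit 369) (nat_lit 346) (nat_lit 305)) (XT.nd (nat_lit 78) (nat_lit 0) (nat_lit 0) (XT.lf (nat_lit 0) (nat_lit 2288102195) (nat_lit 1216) (nat_lit 3021466397) (nat_lit 1292) (nat_lit 2712790710) (nat_lit 369) (nat_lit 5) (nat_lit 385) (nat_lit 5) (nat_lit 386) (nat_lit 5) (nat_lit 370) (nat_lit 346) (nat_lit 304)) (XT.lf (nat_lit 0) (nat_lit 7393262399) (nat_lit 1216) (nat_lit 175328137) (nat_lit 1292) (nat_lit 550515730) (nat_lit 369) (nat_lit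 5) (nat_lit 385) (nat_lit 5) (nat_lit 386) (nat_lit 5) (nat_lit 371) (nat_lit 346) (nat_lit 303)))) (XT.nd (nat_lit 156) (nat_lit 684) (nat_lit 0) (XT.nd (nat_lit 78) (nat_lit 608) (nat_lit 0) (XT.lf (nat_lit 0) (nat_lit 1659738917) (nat_lit 912) (nat_lit 3793510477) (nat_lit 76) (nat_lit 2764547888) (nat_lit 357) (nat_lit 5) (nat_lit 369) (nat_lit 5) (nat_lit 358) (nat_lit 5) (nat_lit 372) (nat_lit 346) (nat_lit 302)) (XT.lf (nat_lit 0) (nat_lit 1391988563) (nat_lit 608) (nat_lit 2502800452) (nat_lit 684) (nat_lit 4425409915) (nat_lit 349) (nat_lit 5) (nat_lit 357) (nat_lit 5) (nat_lit 358) (nat_lit 5) (nat_lit 373) (nat_lit 346) (nat_lit 301))) (XT.nd (nat_lit 78) (nat_lit 684) (nat_lit 0) (XT.lf (nat_lit 0) (nat_lit 6188807371) (nat_lit 684) (nat_lit 1672769788) (nat_lit 76) (nat_lit 564337965) (nat_lit 349) (nat_lit 5) (nat_lit 358) (nat_lit 5) (nat_lit 350) (nat_lit 5) (nat_lit 374) (nat_lit 346)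 (nat_lit 300)) (XT.lf (nat_lit 0) (nat_lit 26903209) (nat_lit 684) (nat_lit 4798261559) (nat_lit 76) (nat_lit 3709321528) (nat_lit 340) (nat_lit 5) (nat_lit 349) (nat_lit 5) (nat_lit 341) (nat_lit 5) (nat_lit 375) (nat_lit 346) (nat_lit 299))))) (XT.nd (nat_lit 312) (nat_lit 1596) (nat_lit 0) (XT.nd (nat_lit 156) (nat_lit 684) (nat_lit 0) (XT.nd (nat_lit 78) (nat_lit 0) (nat_lit 0) (XT.lf (nat_lit 0) (nat_lit 633563632) (nat_lit 532) (nat_lit 1653529371) (nat_lit 608) (nat_lit 6359360446) (nat_lit 333) (nat_lit 5) (nat_lit 340) (nat_lit 5) (nat_lit 341) (nat_lit 5) (nat_lit 376) (nat_lit 346) (nat_lit 298)) (XT.lf (nat_lit 0) (nat_lit 4630528245) (nat_lit 608) (nat_lit 2502990534) (nat_lit 76) (nat_lit 1627797646) (nat_lit 333) (nat_lit 5) (nat_lit 341) (nat_lit 5) (nat_lit 334) (nat_lit 5) (nat_lit 377) (nat_lit 346) (nat_lit 297))) (XT.nd (nat_lit 78) (nat_lit 76) (nat_lit 0) (XT.lf (nat_lit 0) (nat_lit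 3165784356) (nat_lit 608) (nat_lit 3877711816) (nat_lit 684) (nat_lit 1836152230) (nat_lit 325) (nat_lit 5) (nat_lit 333) (nat_lit 5) (nat_lit 334) (nat_lit 5) (nat_lit 378) (nat_lit 346) (nat_lit 296)) (XT.lf (nat_lit 0) (nat_lit 495415121) (nat_lit 684) (nat_lit 2415729) (nat_lit 76) (nat_lit 8504195950) (nat_lit 324) (nat_lit 5) (nat_lit 333) (nat_lit 5) (nat_lit 325) (nat_lit 5) (nat_lit 379) (nat_lit 346) (nat_lit 295)))) (XT.nd (nat_lit 156) (nat_lit 532) (nat_lit 0) (XT.nd (nat_lit 78) (nat_lit 532) (nat_lit 0) (XT.lf (nat_lit 0) (nat_lit 2900604729) (nat_lit 608) (nat_lit 3229448089) (nat_lit 76) (nat_lit 2996260938) (nat_lit 317) (nat_lit 5) (nat_lit 325) (nat_lit 5) (nat_lit 318) (nat_lit 5) (nat_lit 380) (nat_lit 346) (nat_lit 294)) (XT.lf (nat_lit 0) (nat_lit 2715370958) (nat_lit 532) (nat_lit 2648663479) (nat_lit 608) (nat_lit 3890712352) (nat_lit 310) (nat_lit 5) (nat_lit 317) (nat_lit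 5) (nat_lit 318) (nat_lit 5) (nat_lit 381) (nat_lit 346) (nat_lit 293))) (XT.nd (nat_lit 78) (nat_lit 532) (nat_lit 0) (XT.lf (nat_lit 0) (nat_lit 7899091822) (nat_lit 608) (nat_lit 542937011) (nat_lit 76) (nat_lit 945072237) (nat_lit 310) (nat_lit 5) (nat_lit 318) (nat_lit 5) (nat_lit 311) (nat_lit 5) (nat_lit 382) (nat_lit 346) (nat_lit 292)) (XT.lf (nat_lit 0) (nat_lit 1005662419) (nat_lit 532) (nat_lit 3865161579) (nat_lit 76) (nat_lit 4651173125) (nat_lit 303) (nat_lit 5) (nat_lit 310) (nat_lit 5) (nat_lit 304) (nat_lit 5) (nat_lit 383) (nat_lit 346) (nat_lit 291)))))) (XT.nd (nat_lit 546) (nat_lit 2052) (nat_lit 0) (XT.nd (nat_lit 234) (nat_lit 1368) (nat_lit 0) (XT.nd (nat_lit 78) (nat_lit 456) (nat_lit 0) (XT.lf (nat_lit 0) (nat_lit 2373368316) (nat_lit 532) (nat_lit 1156639389) (nat_lit 608) (nat_lit 6130917241) (nat_lit 296) (nat_lit 5) (nat_lit 303) (nat_lit 5) (nat_lit 304) (nat_lit 5) (nat_lit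 384) (nat_lit 346) (nat_lit 290)) (XT.nd (nat_lit 78) (nat_lit 456) (nat_lit 0) (XT.lf (nat_lit 0) (nat_lit 6153245191) (nat_lit 608) (nat_lit 1002387984) (nat_lit 76) (nat_lit 2647692574) (nat_lit 296) (nat_lit 5) (nat_lit 304) (nat_lit 5) (nat_lit 297) (nat_lit 5) (nat_lit 385) (nat_lit 346) (nat_lit 289)) (XT.lf (nat_lit 0) (nat_lit 5517271701) (nat_lit 456) (nat_lit 3361705139) (nat_lit 532) (nat_lit 1070307825) (nat_lit 290) (nat_lit 5) (nat_lit 296) (nat_lit 5) (nat_lit 297) (nat_lit 5) (nat_lit 386) (nat_lit 346) (nat_lit 288)))) (XT.nd (nat_lit 156) (nat_lit 836) (nat_lit 0) (XT.nd (nat_lit 78) (nat_lit 0) (nat_lit 0) (XT.lf (nat_lit 0) (nat_lit 1551810089) (nat_lit 532) (nat_lit 7975697860) (nat_lit 76) (nat_lit 571779265) (nat_lit 283) (nat_lit 5) (nat_lit 290) (nat_lit 5) (nat_lit 284) (nat_lit 5) (nat_lit 387) (nat_lit 346) (nat_lit 287)) (XT.lf (nat_lit 0) (nat_lit 4269776508) (nat_lit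 532) (nat_lit 1381239312) (nat_lit 76) (nat_lit 4601295191) (nat_lit 283) (nat_lit 5) (nat_lit 290) (nat_lit 5) (nat_lit 284) (nat_lit 5) (nat_lit 388) (nat_lit 346) (nat_lit 286))) (XT.nd (nat_lit 78) (nat_lit 456) (nat_lit 0) (XT.lf (nat_lit 0) (nat_lit 5468065968) (nat_lit 380) (nat_lit 1615152258) (nat_lit 456) (nat_lit 3326289207) (nat_lit 278) (nat_lit 5) (nat_lit 283) (nat_lit 5) (nat_lit 284) (nat_lit 5) (nat_lit 389) (nat_lit 346) (nat_lit 285)) (XT.lf (nat_lit 0) (nat_lit 1943279378) (nat_lit 456) (nat_lit 8056900993) (nat_lit 532) (nat_lit 570665864) (nat_lit 272) (nat_lit 5) (nat_lit 278) (nat_lit 5) (nat_lit 279) (nat_lit 5) (nat_lit 390) (nat_lit 346) (nat_lit 284))))) (XT.nd (nat_lit 312) (nat_lit 1140) (nat_lit 0) (XT.nd (nat_lit 156) (nat_lit 456) (nat_lit 0) (XT.nd (nat_lit 78) (nat_lit 380) (nat_lit 0) (XT.lf (nat_lit 0) (nat_lit 2251939458) (nat_lit 532) (nat_lit 1688468227) (nat_lit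 76) (nat_lit 6795106695) (nat_lit 271) (nat_lit 5) (nat_lit 278) (nat_lit 5) (nat_lit 272) (nat_lit 5) (nat_lit 391) (nat_lit 346) (nat_lit 283)) (XT.lf (nat_lit 0) (nat_lit 5167356716) (nat_lit 456) (nat_lit 5396123630) (nat_lit 76) (nat_lit 340884612) (nat_lit 266) (nat_lit 5) (nat_lit 272) (nat_lit 5) (nat_lit 267) (nat_lit 5) (nat_lit 392) (nat_lit 346) (nat_lit 282))) (XT.nd (nat_lit 78) (nat_lit 76) (nat_lit 0) (XT.lf (nat_lit 0) (nat_lit 1824610662) (nat_lit 380) (nat_lit 6383161456) (nat_lit 456) (nat_lit 2869382865) (nat_lit 261) (nat_lit 5) (nat_lit 266) (nat_lit 5) (nat_lit 267) (nat_lit 5) (nat_lit 393) (nat_lit 346) (nat_lit 281)) (XT.lf (nat_lit 0) (nat_lit 101651221) (nat_lit 456) (nat_lit 1931998455) (nat_lit 76) (nat_lit 9220884000) (nat_lit 260) (nat_lit 5) (nat_lit 266) (nat_lit 5) (nat_lit 261) (nat_lit 5) (nat_lit 394) (nat_lit 346) (nat_lit 280)))) (XT.nd (nat_lit 156) (nat_lit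 380) (nat_lit 0) (XT.nd (nat_lit 78) (nat_lit 380) (nat_lit 0) (XT.lf (nat_lit 0) (nat_lit 3147623792) (nat_lit 456) (nat_lit 5818456474) (nat_lit 76) (nat_lit 2468996795) (nat_lit 255) (nat_lit 5) (nat_lit 261) (nat_lit 5) (nat_lit 256) (nat_lit 5) (nat_lit 395) (nat_lit 346) (nat_lit 279)) (XT.lf (nat_lit 0) (nat_lit 1776469816) (nat_lit 380) (nat_lit 4530892809) (nat_lit 456) (nat_lit 5313002510) (nat_lit 250) (nat_lit 5) (nat_lit 255) (nat_lit 5) (nat_lit 256) (nat_lit 5) (nat_lit 396) (nat_lit 346) (nat_lit 278))) (XT.nd (nat_lit 78) (nat_lit 380) (nat_lit 0) (XT.lf (nat_lit 0) (nat_lit 9587467160) (nat_lit 456) (nat_lit 2140996328) (nat_lit 76) (nat_lit 81981158) (nat_lit 250) (nat_lit 5) (nat_lit 256) (nat_lit 5) (nat_lit 251) (nat_lit 5) (nat_lit 397) (nat_lit 346) (nat_lit 277)) (XT.lf (nat_lit 0) (nat_lit 1009308214) (nat_lit 380) (nat_lit 6200206124) (nat_lit 76) (nat_lit 4794386791) (nat_lit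 245) (nat_lit 5) (nat_lit 250) (nat_lit 5) (nat_lit 246) (nat_lit 5) (nat_lit 398) (nat_lit 346) (nat_lit 276))))))) (XT.nd (nat_lit 1170) (nat_lit 2508) (nat_lit 0) (XT.nd (nat_lit 546) (nat_lit 1520) (nat_lit 0) (XT.nd (nat_lit 234) (nat_lit 988) (nat_lit 0) (XT.nd (nat_lit 78) (nat_lit 304) (nat_lit 0) (XT.lf (nat_lit 0) (nat_lit 1792986428) (nat_lit 380) (nat_lit 2507025242) (nat_lit 456) (nat_lit 7902305481) (nat_lit 240) (nat_lit 5) (nat_lit 245) (nat_lit 5) (nat_lit 246) (nat_lit 5) (nat_lit 399) (nat_lit 346) (nat_lit 275)) (XT.nd (nat_lit 78) (nat_lit 304) (nat_lit 0) (XT.lf (nat_lit 0) (nat_lit 7742545667) (nat_lit 456) (nat_lit 2323054489) (nat_lit 76) (nat_lit 2339492214) (nat_lit 240) (nat_lit 5) (nat_lit 246) (nat_lit 5) (nat_lit 241) (nat_lit 5) (nat_lit 400) (nat_lit 346) (nat_lit 274)) (XT.lf (nat_lit 0) (nat_lit 6052254427) (nat_lit 304) (nat_lit 5287469585) (nat_lit 380) (nat_lit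 1272685786) (nat_lit 236) (nat_lit 5) (nat_lit 240) (nat_lit 5) (nat_lit 241) (nat_lit 5) (nat_lit 401) (nat_lit 346) (nat_lit 273)))) (XT.nd (nat_lit 156) (nat_lit 608) (nat_lit 0) (XT.nd (nat_lit 78) (nat_lit 0) (nat_lit 0) (XT.lf (nat_lit 0) (nat_lit 1869109712) (nat_lit 304) (nat_lit 316656031) (nat_lit 380) (nat_lit 10639235341) (nat_lit 231) (nat_lit 5) (nat_lit 235) (nat_lit 5) (nat_lit 236) (nat_lit 5) (nat_lit 402) (nat_lit 346) (nat_lit 272)) (XT.lf (nat_lit 0) (nat_lit 5804318771) (nat_lit 380) (nat_lit 2463003617) (nat_lit 76) (nat_lit 4773811866) (nat_lit 231) (nat_lit 5) (nat_lit 236) (nat_lit 5) (nat_lit 232) (nat_lit 5) (nat_lit 403) (nat_lit 346) (nat_lit 271))) (XT.nd (nat_lit 78) (nat_lit 304) (nat_lit 0) (XT.lf (nat_lit 0) (nat_lit 6359692845) (nat_lit 304) (nat_lit 3205766143) (nat_lit 380) (nat_lit 3697271510) (nat_lit 227) (nat_lit 5) (nat_lit 231) (nat_lit 5) (nat_lit 232) (nat_lit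 5) (nat_lit 404) (nat_lit 346) (nat_lit 270)) (XT.lf (nat_lit 0) (nat_lit 1980190904) (nat_lit 304) (nat_lit 11492748350) (nat_lit 380) (nat_lit 17030204) (nat_lit 223) (nat_lit 5) (nat_lit 227) (nat_lit 5) (nat_lit 228) (nat_lit 5) (nat_lit 405) (nat_lit 346) (nat_lit 269))))) (XT.nd (nat_lit 312) (nat_lit 836) (nat_lit 0) (XT.nd (nat_lit 156) (nat_lit 380) (nat_lit 0) (XT.nd (nat_lit 78) (nat_lit 228) (nat_lit 0) (XT.lf (nat_lit 0) (nat_lit 3772313566) (nat_lit 380) (nat_lit 2565592937) (nat_lit 76) (nat_lit 7382860888) (nat_lit 222) (nat_lit 5) (nat_lit 227) (nat_lit 5) (nat_lit 223) (nat_lit 5) (nat_lit 406) (nat_lit 346) (nat_lit 268)) (XT.lf (nat_lit 0) (nat_lit 6733112010) (nat_lit 228) (nat_lit 977668798) (nat_lit 304) (nat_lit 6246629834) (nat_lit 219) (nat_lit 5) (nat_lit 222) (nat_lit 5) (nat_lit 223) (nat_lit 5) (nat_lit 407) (nat_lit 346) (nat_lit 267))) (XT.nd (nat_lit 78) (nat_lit 76)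 (nat_lit 0) (XT.lf (nat_lit 0) (nat_lit 2115051556) (nat_lit 304) (nat_lit 9713841905) (nat_lit 380) (nat_lit 2370414987) (nat_lit 215) (nat_lit 5) (nat_lit 219) (nat_lit 5) (nat_lit 220) (nat_lit 5) (nat_lit 408) (nat_lit 346) (nat_lit 266)) (XT.lf (nat_lit 0) (nat_lit 1645233830) (nat_lit 380) (nat_lit 2635005098) (nat_lit 76) (nat_lit 10166112477) (nat_lit 214) (nat_lit 5) (nat_lit 219) (nat_lit 5) (nat_lit 215) (nat_lit 5) (nat_lit 409) (nat_lit 346) (nat_lit 265)))) (XT.nd (nat_lit 156) (nat_lit 304) (nat_lit 0) (XT.nd (nat_lit 78) (nat_lit 304) (nat_lit 0) (XT.lf (nat_lit 0) (nat_lit 5788322068) (nat_lit 304) (nat_lit 7542194310) (nat_lit 76) (nat_lit 1367946802) (nat_lit 211) (nat_lit 5) (nat_lit 215) (nat_lit 5) (nat_lit 212) (nat_lit 5) (nat_lit 410) (nat_lit 346) (nat_lit 264)) (XT.lf (nat_lit 0) (nat_lit 2295795829) (nat_lit 304) (nat_lit 7823735550) (nat_lit 380) (nat_lit 4836692075) (nat_lit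 207) (nat_lit 5) (nat_lit 211) (nat_lit 5) (nat_lit 212) (nat_lit 5) (nat_lit 411) (nat_lit 346) (nat_lit 263))) (XT.nd (nat_lit 78) (nat_lit 304) (nat_lit 0) (XT.lf (nat_lit 0) (nat_lit 12539650359) (nat_lit 304) (nat_lit 2090076248) (nat_lit 380) (nat_lit 590518440) (nat_lit 207) (nat_lit 5) (nat_lit 211) (nat_lit 5) (nat_lit 212) (nat_lit 5) (nat_lit 412) (nat_lit 346) (nat_lit 262)) (XT.lf (nat_lit 0) (nat_lit 3793962608) (nat_lit 304) (nat_lit 7858510895) (nat_lit 76) (nat_lit 3836080549) (nat_lit 203) (nat_lit 5) (nat_lit 207) (nat_lit 5) (nat_lit 204) (nat_lit 5) (nat_lit 413) (nat_lit 346) (nat_lit 261)))))) (XT.nd (nat_lit 624) (nat_lit 1216) (nat_lit 0) (XT.nd (nat_lit 312) (nat_lit 532) (nat_lit 0) (XT.nd (nat_lit 156) (nat_lit 532) (nat_lit 0) (XT.nd (nat_lit 78) (nat_lit 0) (nat_lit 0) (XT.lf (nat_lit 0) (nat_lit 2519873733) (nat_lit 228) (nat_lit 5824111138) (nat_lit 304) (nat_lit 7419375787)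 (nat_lit 200) (nat_lit 5) (nat_lit 203) (nat_lit 5) (nat_lit 204) (nat_lit 5) (nat_lit 414) (nat_lit 346) (nat_lit 260)) (XT.lf (nat_lit 0) (nat_lit 13086186546) (nat_lit 304) (nat_lit 2719368811) (nat_lit 76) (nat_lit 239185743) (nat_lit 200) (nat_lit 5) (nat_lit 204) (nat_lit 5) (nat_lit 201) (nat_lit 5) (nat_lit 415) (nat_lit 346) (nat_lit 259))) (XT.nd (nat_lit 78) (nat_lit 228) (nat_lit 0) (XT.lf (nat_lit 0) (nat_lit 1716138805) (nat_lit 304) (nat_lit 8167893060) (nat_lit 76) (nat_lit 6446700071) (nat_lit 196) (nat_lit 5) (nat_lit 200) (nat_lit 5) (nat_lit 197) (nat_lit 5) (nat_lit 416) (nat_lit 346) (nat_lit 258)) (XT.lf (nat_lit 0) (nat_lit 2785209253) (nat_lit 228) (nat_lit 3715573300) (nat_lit 304) (nat_lit 10122765958) (nat_lit 193) (nat_lit 5) (nat_lit 196) (nat_lit 5) (nat_lit 197) (nat_lit 5) (nat_lit 417) (nat_lit 346) (nat_lit 257)))) (XT.nd (nat_lit 156) (nat_lit 304) (nat_lit 0) (XT.nd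 (nat_lit 78) (nat_lit 228) (nat_lit 0) (XT.lf (nat_lit 0) (nat_lit 11512459541) (nat_lit 304) (nat_lit 2757036897) (nat_lit 76) (nat_lit 2653148326) (nat_lit 193) (nat_lit 5) (nat_lit 197) (nat_lit 5) (nat_lit 194) (nat_lit 5) (nat_lit 418) (nat_lit 346) (nat_lit 256)) (XT.lf (nat_lit 0) (nat_lit 8749360818) (nat_lit 228) (nat_lit 8021591004) (nat_lit 304) (nat_lit 456868134) (nat_lit 190) (nat_lit 5) (nat_lit 193) (nat_lit 5) (nat_lit 194) (nat_lit 5) (nat_lit 419) (nat_lit 346) (nat_lit 255))) (XT.nd (nat_lit 78) (nat_lit 0) (nat_lit 0) (XT.lf (nat_lit 0) (nat_lit 3090158065) (nat_lit 228) (nat_lit 1497722284) (nat_lit 304) (nat_lit 12951926319) (nat_lit 186) (nat_lit 5) (nat_lit 189) (nat_lit 5) (nat_lit 190) (nat_lit 5) (nat_lit 420) (nat_lit 346) (nat_lit 254)) (XT.lf (nat_lit 0) (nat_lit 9887253280) (nat_lit 304) (nat_lit 2776037328) (nat_lit 76) (nat_lit 5194352730) (nat_lit 186) (nat_lit 5)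 (nat_lit 190) (nat_lit 5) (nat_lit 187) (nat_lit 5) (nat_lit 421) (nat_lit 346) (nat_lit 253))))) (XT.nd (nat_lit 312) (nat_lit 608) (nat_lit 0) (XT.nd (nat_lit 156) (nat_lit 152) (nat_lit 0) (XT.nd (nat_lit 78) (nat_lit 304) (nat_lit 0) (XT.lf (nat_lit 0) (nat_lit 9375594440) (nat_lit 152) (nat_lit 6051475898) (nat_lit 228) (nat_lit 2755500883) (nat_lit 184) (nat_lit 5) (nat_lit 186) (nat_lit 5) (nat_lit 187) (nat_lit 5) (nat_lit 422) (nat_lit 346) (nat_lit 252)) (XT.lf (nat_lit 0) (nat_lit 2610672258) (nat_lit 304) (nat_lit 15089871078) (nat_lit 76) (nat_lit 814572806) (nat_lit 180) (nat_lit 5) (nat_lit 184) (nat_lit 5) (nat_lit 181) (nat_lit 5) (nat_lit 423) (nat_lit 346) (nat_lit 251))) (XT.nd (nat_lit 78) (nat_lit 152) (nat_lit 0) (XT.lf (nat_lit 0) (nat_lit 8208893656) (nat_lit 304) (nat_lit 2778596820) (nat_lit 76) (nat_lit 7865535090) (nat_lit 180) (nat_lit 5) (nat_lit 184) (nat_lit 5) (nat_lit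 181) (nat_lit 5) (nat_lit 424) (nat_lit 346) (nat_lit 250)) (XT.lf (nat_lit 0) (nat_lit 10058965373) (nat_lit 152) (nat_lit 3990183985) (nat_lit 228) (nat_lit 5149700285) (nat_lit 178) (nat_lit 5) (nat_lit 180) (nat_lit 5) (nat_lit 181) (nat_lit 5) (nat_lit 425) (nat_lit 346) (nat_lit 249)))) (XT.nd (nat_lit 156) (nat_lit 304) (nat_lit 0) (XT.nd (nat_lit 78) (nat_lit 0) (nat_lit 0) (XT.lf (nat_lit 0) (nat_lit 573533954) (nat_lit 304) (nat_lit 15770821691) (nat_lit 76) (nat_lit 3208328458) (nat_lit 174) (nat_lit 5) (nat_lit 178) (nat_lit 5) (nat_lit 175) (nat_lit 5) (nat_lit 426) (nat_lit 346) (nat_lit 248)) (XT.lf (nat_lit 0) (nat_lit 6475255060) (nat_lit 304) (nat_lit 2766672726) (nat_lit 76) (nat_lit 10670367385) (nat_lit 174) (nat_lit 5) (nat_lit 178) (nat_lit 5) (nat_lit 175) (nat_lit 5) (nat_lit 427) (nat_lit 346) (nat_lit 247))) (XT.nd (nat_lit 78) (nat_lit 152) (nat_lit 0) (XT.lf (nat_lit 0)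 (nat_lit 10799977829) (nat_lit 152) (nat_lit 1836097248) (nat_lit 228) (nat_lit 7644158077) (nat_lit 172) (nat_lit 5) (nat_lit 174) (nat_lit 5) (nat_lit 175) (nat_lit 5) (nat_lit 428) (nat_lit 346) (nat_lit 246)) (XT.lf (nat_lit 0) (nat_lit 4158690262) (nat_lit 152) (nat_lit 14925236822) (nat_lit 228) (nat_lit 1572215969) (nat_lit 170) (nat_lit 5) (nat_lit 172) (nat_lit 5) (nat_lit 173) (nat_lit 5) (nat_lit 429) (nat_lit 346) (nat_lit 245))))))))
noncomputable def xc115 : XT := (XT.nd (nat_lit 2340) (nat_lit 2432) (nat_lit 0) (XT.nd (nat_lit 1170) (nat_lit 1520) (nat_lit 0) (XT.nd (nat_lit 546) (nat_lit 988) (nat_lit 0) (XT.nd (nat_lit 234) (nat_lit 456) (nat_lit 0) (XT.nd (nat_lit 78) (nat_lit 304) (nat_lit 0) (XT.lf (nat_lit 0) (nat_lit 4683777295) (nat_lit 228) (nat_lit 2741982665) (nat_lit 76) (nat_lit 13613422535) (nat_lit 169) (nat_lit 5) (nat_lit 172) (nat_lit 5) (nat_lit 170) (nat_lit 5) (nat_lit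 430) (nat_lit 346) (nat_lit 244)) (XT.nd (nat_lit 78) (nat_lit 152) (nat_lit 0) (XT.lf (nat_lit 0) (nat_lit 11190347122) (nat_lit 228) (nat_lit 9834978316) (nat_lit 76) (nat_lit 405085785) (nat_lit 167) (nat_lit 5) (nat_lit 170) (nat_lit 5) (nat_lit 168) (nat_lit 5) (nat_lit 431) (nat_lit 346) (nat_lit 243)) (XT.lf (nat_lit 0) (nat_lit 4564395979) (nat_lit 152) (nat_lit 13452200589) (nat_lit 228) (nat_lit 3813045771) (nat_lit 165) (nat_lit 5) (nat_lit 167) (nat_lit 5) (nat_lit 168) (nat_lit 5) (nat_lit 432) (nat_lit 346) (nat_lit 242)))) (XT.nd (nat_lit 156) (nat_lit 228) (nat_lit 0) (XT.nd (nat_lit 78) (nat_lit 152) (nat_lit 0) (XT.lf (nat_lit 0) (nat_lit 2831478415) (nat_lit 228) (nat_lit 2706030792) (nat_lit 76) (nat_lit 16700147792) (nat_lit 164) (nat_lit 5) (nat_lit 167) (nat_lit 5) (nat_lit 165) (nat_lit 5) (nat_lit 433) (nat_lit 346) (nat_lit 241)) (XT.lf (nat_lit 0) (nat_lit 9724774144) (nat_lit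 228) (nat_lit 10221465677) (nat_lit 76) (nat_lit 2706757463) (nat_lit 162) (nat_lit 5) (nat_lit 165) (nat_lit 5) (nat_lit 163) (nat_lit 5) (nat_lit 434) (nat_lit 346) (nat_lit 240))) (XT.nd (nat_lit 78) (nat_lit 76) (nat_lit 0) (XT.lf (nat_lit 0) (nat_lit 5004728610) (nat_lit 152) (nat_lit 11930533879) (nat_lit 228) (nat_lit 6142223474) (nat_lit 160) (nat_lit 5) (nat_lit 162) (nat_lit 5) (nat_lit 163) (nat_lit 5) (nat_lit 435) (nat_lit 346) (nat_lit 239)) (XT.lf (nat_lit 0) (nat_lit 914963809) (nat_lit 228) (nat_lit 2660131085) (nat_lit 76) (nat_lit 19936845773) (nat_lit 159) (nat_lit 5) (nat_lit 162) (nat_lit 5) (nat_lit 160) (nat_lit 5) (nat_lit 436) (nat_lit 346) (nat_lit 238))))) (XT.nd (nat_lit 312) (nat_lit 456) (nat_lit 0) (XT.nd (nat_lit 156) (nat_lit 228) (nat_lit 0) (XT.nd (nat_lit 78) (nat_lit 152) (nat_lit 0) (XT.lf (nat_lit 0) (nat_lit 8219599118) (nat_lit 228) (nat_lit 10624793825) (nat_lit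 76) (nat_lit 5108436095) (nat_lit 157) (nat_lit 5) (nat_lit 160) (nat_lit 5) (nat_lit 158) (nat_lit 5) (nat_lit 437) (nat_lit 346) (nat_lit 237)) (XT.lf (nat_lit 0) (nat_lit 5479906751) (nat_lit 152) (nat_lit 10359234564) (nat_lit 228) (nat_lit 8564929712) (nat_lit 155) (nat_lit 5) (nat_lit 157) (nat_lit 5) (nat_lit 158) (nat_lit 5) (nat_lit 438) (nat_lit 346) (nat_lit 236))) (XT.nd (nat_lit 78) (nat_lit 228) (nat_lit 0) (XT.lf (nat_lit 0) (nat_lit 22250293826) (nat_lit 152) (nat_lit 1525059255) (nat_lit 228) (nat_lit 1090854693) (nat_lit 155) (nat_lit 5) (nat_lit 157) (nat_lit 5) (nat_lit 158) (nat_lit 5) (nat_lit 439) (nat_lit 346) (nat_lit 235)) (XT.lf (nat_lit 0) (nat_lit 6672400917) (nat_lit 228) (nat_lit 11047620195) (nat_lit 76) (nat_lit 7614465270) (nat_lit 152) (nat_lit 5) (nat_lit 155) (nat_lit 5) (nat_lit 153) (nat_lit 5) (nat_lit 440) (nat_lit 346) (nat_lit 234)))) (XT.nd (nat_lit 156) (nat_lit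 304) (nat_lit 0) (XT.nd (nat_lit 78) (nat_lit 0) (nat_lit 0) (XT.lf (nat_lit 0) (nat_lit 5990395926) (nat_lit 152) (nat_lit 8736830488) (nat_lit 228) (nat_lit 11086844997) (nat_lit 150) (nat_lit 5) (nat_lit 152) (nat_lit 5) (nat_lit 153) (nat_lit 5) (nat_lit 441) (nat_lit 346) (nat_lit 233)) (XT.lf (nat_lit 0) (nat_lit 23122621255) (nat_lit 228) (nat_lit 2579476465) (nat_lit 76) (nat_lit 602978534) (nat_lit 150) (nat_lit 5) (nat_lit 153) (nat_lit 5) (nat_lit 151) (nat_lit 4) (nat_lit 442) (nat_lit 346) (nat_lit 232))) (XT.nd (nat_lit 78) (nat_lit 152) (nat_lit 0) (XT.lf (nat_lit 0) (nat_lit 5080451017) (nat_lit 152) (nat_lit 11492556307) (nat_lit 76) (nat_lit 10229829223) (nat_lit 148) (nat_lit 5) (nat_lit 150) (nat_lit 5) (nat_lit 149) (nat_lit 5) (nat_lit 443) (nat_lit 346) (nat_lit 231)) (XT.lf (nat_lit 0) (nat_lit 6536896907) (nat_lit 152) (nat_lit 7061402005) (nat_lit 228) (nat_lit 13714154886)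 (nat_lit 146) (nat_lit 5) (nat_lit 148) (nat_lit 5) (nat_lit 149) (nat_lit 5) (nat_lit 444) (nat_lit 346) (nat_lit 230)))))) (XT.nd (nat_lit 546) (nat_lit 912) (nat_lit 0) (XT.nd (nat_lit 234) (nat_lit 304) (nat_lit 0) (XT.nd (nat_lit 78) (nat_lit 304) (nat_lit 0) (XT.lf (nat_lit 0) (nat_lit 22497113602) (nat_lit 228) (nat_lit 2552312836) (nat_lit 76) (nat_lit 2784170191) (nat_lit 146) (nat_lit 5) (nat_lit 149) (nat_lit 5) (nat_lit 147) (nat_lit 4) (nat_lit 445) (nat_lit 346) (nat_lit 229)) (XT.nd (nat_lit 78) (nat_lit 152) (nat_lit 0) (XT.lf (nat_lit 0) (nat_lit 3440717305) (nat_lit 152) (nat_lit 11962188893) (nat_lit 76) (nat_lit 12960144635) (nat_lit 144) (nat_lit 5) (nat_lit 146) (nat_lit 5) (nat_lit 145) (nat_lit 5) (nat_lit 446) (nat_lit 346) (nat_lit 228)) (XT.lf (nat_lit 0) (nat_lit 7120336330) (nat_lit 152) (nat_lit 5330600014) (nat_lit 228) (nat_lit 16453558406) (nat_lit 142) (nat_lit 5) (nat_lit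 144) (nat_lit 5) (nat_lit 145) (nat_lit 5) (nat_lit 447) (nat_lit 346) (nat_lit 227)))) (XT.nd (nat_lit 156) (nat_lit 152) (nat_lit 0) (XT.nd (nat_lit 78) (nat_lit 152) (nat_lit 0) (XT.lf (nat_lit 0) (nat_lit 21884475704) (nat_lit 228) (nat_lit 2520591465) (nat_lit 76) (nat_lit 5052524402) (nat_lit 142) (nat_lit 5) (nat_lit 145) (nat_lit 5) (nat_lit 143) (nat_lit 4) (nat_lit 448) (nat_lit 346) (nat_lit 226)) (XT.lf (nat_lit 0) (nat_lit 1749865466) (nat_lit 152) (nat_lit 12459099612) (nat_lit 76) (nat_lit 15811657341) (nat_lit 140) (nat_lit 5) (nat_lit 142) (nat_lit 5) (nat_lit 141) (nat_lit 5) (nat_lit 449) (nat_lit 346) (nat_lit 225))) (XT.nd (nat_lit 78) (nat_lit 0) (nat_lit 0) (XT.lf (nat_lit 0) (nat_lit 7741859387) (nat_lit 152) (nat_lit 3541659886) (nat_lit 228) (nat_lit 19312279625) (nat_lit 138) (nat_lit 5) (nat_lit 140) (nat_lit 5) (nat_lit 141) (nat_lit 5) (nat_lit 450) (nat_lit 346) (nat_lit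 224)) (XT.lf (nat_lit 0) (nat_lit 21284929188) (nat_lit 228) (nat_lit 2485041577) (nat_lit 76) (nat_lit 7412807510) (nat_lit 138) (nat_lit 5) (nat_lit 141) (nat_lit 5) (nat_lit 139) (nat_lit 4) (nat_lit 451) (nat_lit 346) (nat_lit 223))))) (XT.nd (nat_lit 312) (nat_lit 532) (nat_lit 0) (XT.nd (nat_lit 156) (nat_lit 76) (nat_lit 0) (XT.nd (nat_lit 78) (nat_lit 152) (nat_lit 0) (XT.lf (nat_lit 0) (nat_lit 4258108) (nat_lit 152) (nat_lit 12985883582) (nat_lit 76) (nat_lit 18791243650) (nat_lit 136) (nat_lit 5) (nat_lit 138) (nat_lit 5) (nat_lit 137) (nat_lit 5) (nat_lit 452) (nat_lit 346) (nat_lit 222)) (XT.lf (nat_lit 0) (nat_lit 8402824452) (nat_lit 152) (nat_lit 1691411623) (nat_lit 228) (nat_lit 22298082251) (nat_lit 134) (nat_lit 5) (nat_lit 136) (nat_lit 5) (nat_lit 137) (nat_lit 5) (nat_lit 453) (nat_lit 346) (nat_lit 221))) (XT.nd (nat_lit 78) (nat_lit 76) (nat_lit 0) (XT.lf (nat_lit 0) (nat_lit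 20698622710) (nat_lit 228) (nat_lit 2446304641) (nat_lit 76) (nat_lit 9870300672) (nat_lit 134) (nat_lit 5) (nat_lit 137) (nat_lit 5) (nat_lit 135) (nat_lit 4) (nat_lit 454) (nat_lit 346) (nat_lit 220)) (XT.lf (nat_lit 0) (nat_lit 20088190810) (nat_lit 76) (nat_lit 11726941710) (nat_lit 152) (nat_lit 1835872741) (nat_lit 133) (nat_lit 5) (nat_lit 134) (nat_lit 5) (nat_lit 135) (nat_lit 4) (nat_lit 455) (nat_lit 346) (nat_lit 219)))) (XT.nd (nat_lit 156) (nat_lit 304) (nat_lit 0) (XT.nd (nat_lit 78) (nat_lit 0) (nat_lit 0) (XT.lf (nat_lit 0) (nat_lit 8883236479) (nat_lit 228) (nat_lit 25197724186) (nat_lit 76) (nat_lit 219348015) (nat_lit 130) (nat_lit 5) (nat_lit 133) (nat_lit 5) (nat_lit 131) (nat_lit 4) (nat_lit 456) (nat_lit 346) (nat_lit 218)) (XT.lf (nat_lit 0) (nat_lit 20125641498) (nat_lit 228) (nat_lit 2404944344) (nat_lit 76) (nat_lit 12430801397) (nat_lit 130) (nat_lit 5) (nat_lit 133) (nat_lit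 5) (nat_lit 131) (nat_lit 4) (nat_lit 457) (nat_lit 346) (nat_lit 217))) (XT.nd (nat_lit 78) (nat_lit 228) (nat_lit 0) (XT.lf (nat_lit 0) (nat_lit 21460992012) (nat_lit 76) (nat_lit 10435282607) (nat_lit 152) (nat_lit 3740294858) (nat_lit 129) (nat_lit 5) (nat_lit 130) (nat_lit 5) (nat_lit 131) (nat_lit 4) (nat_lit 458) (nat_lit 346) (nat_lit 216)) (XT.lf (nat_lit 0) (nat_lit 7663102253) (nat_lit 228) (nat_lit 26498335180) (nat_lit 76) (nat_lit 2164599580) (nat_lit 126) (nat_lit 5) (nat_lit 129) (nat_lit 5) (nat_lit 127) (nat_lit 4) (nat_lit 459) (nat_lit 346) (nat_lit 215))))))) (XT.nd (nat_lit 1170) (nat_lit 1140) (nat_lit 0) (XT.nd (nat_lit 546) (nat_lit 684) (nat_lit 0) (XT.nd (nat_lit 234) (nat_lit 304) (nat_lit 0) (XT.nd (nat_lit 78) (nat_lit 304) (nat_lit 0) (XT.lf (nat_lit 0) (nat_lit 19566015793) (nat_lit 228) (nat_lit 2361455449) (nat_lit 76) (nat_lit 15100628633) (nat_lit 126) (nat_lit 5)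 (nat_lit 129) (nat_lit 5) (nat_lit 127) (nat_lit 4) (nat_lit 460) (nat_lit 346) (nat_lit 214)) (XT.nd (nat_lit 78) (nat_lit 228) (nat_lit 0) (XT.lf (nat_lit 0) (nat_lit 22918147586) (nat_lit 76) (nat_lit 9113326087) (nat_lit 152) (nat_lit 5713587242) (nat_lit 125) (nat_lit 5) (nat_lit 126) (nat_lit 5) (nat_lit 127) (nat_lit 4) (nat_lit 461) (nat_lit 346) (nat_lit 213)) (XT.lf (nat_lit 0) (nat_lit 6415240390) (nat_lit 228) (nat_lit 27880250575) (nat_lit 76) (nat_lit 4181622351) (nat_lit 122) (nat_lit 5) (nat_lit 125) (nat_lit 5) (nat_lit 123) (nat_lit 4) (nat_lit 462) (nat_lit 346) (nat_lit 212)))) (XT.nd (nat_lit 156) (nat_lit 228) (nat_lit 0) (XT.nd (nat_lit 78) (nat_lit 76) (nat_lit 0) (XT.lf (nat_lit 0) (nat_lit 19019728302) (nat_lit 228) (nat_lit 2316271657) (nat_lit 76) (nat_lit 17886631240) (nat_lit 122) (nat_lit 5) (nat_lit 125) (nat_lit 5) (nat_lit 123) (nat_lit 4) (nat_lit 463) (nat_lit 346)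 (nat_lit 211)) (XT.lf (nat_lit 0) (nat_lit 24464203782) (nat_lit 76) (nat_lit 7758939912) (nat_lit 152) (nat_lit 7760747137) (nat_lit 121) (nat_lit 5) (nat_lit 122) (nat_lit 5) (nat_lit 123) (nat_lit 4) (nat_lit 464) (nat_lit 346) (nat_lit 210))) (XT.nd (nat_lit 78) (nat_lit 0) (nat_lit 0) (XT.lf (nat_lit 0) (nat_lit 5137131551) (nat_lit 228) (nat_lit 29348886656) (nat_lit 76) (nat_lit 6275079595) (nat_lit 118) (nat_lit 5) (nat_lit 121) (nat_lit 5) (nat_lit 119) (nat_lit 4) (nat_lit 465) (nat_lit 346) (nat_lit 209)) (XT.lf (nat_lit 0) (nat_lit 18486720785) (nat_lit 228) (nat_lit 2269772586) (nat_lit 76) (nat_lit 20796199711) (nat_lit 118) (nat_lit 5) (nat_lit 121) (nat_lit 5) (nat_lit 119) (nat_lit 4) (nat_lit 466) (nat_lit 346) (nat_lit 208))))) (XT.nd (nat_lit 312) (nat_lit 380) (nat_lit 0) (XT.nd (nat_lit 156) (nat_lit 76) (nat_lit 0) (XT.nd (nat_lit 78) (nat_lit 152) (nat_lit 0) (XT.lf (nat_lit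 0) (nat_lit 26104064386) (nat_lit 76) (nat_lit 6369745288) (nat_lit 152) (nat_lit 9887116188) (nat_lit 117) (nat_lit 5) (nat_lit 118) (nat_lit 5) (nat_lit 119) (nat_lit 4) (nat_lit 467) (nat_lit 346) (nat_lit 207)) (XT.lf (nat_lit 0) (nat_lit 3826068517) (nat_lit 152) (nat_lit 30909917371) (nat_lit 76) (nat_lit 8450029107) (nat_lit 115) (nat_lit 5) (nat_lit 117) (nat_lit 5) (nat_lit 116) (nat_lit 4) (nat_lit 468) (nat_lit 346) (nat_lit 206))) (XT.nd (nat_lit 78) (nat_lit 76) (nat_lit 0) (XT.lf (nat_lit 0) (nat_lit 17966899873) (nat_lit 152) (nat_lit 2222289972) (nat_lit 76) (nat_lit 23837281019) (nat_lit 115) (nat_lit 5) (nat_lit 117) (nat_lit 5) (nat_lit 116) (nat_lit 4) (nat_lit 469) (nat_lit 346) (nat_lit 205)) (XT.lf (nat_lit 0) (nat_lit 27843003070) (nat_lit 76) (nat_lit 4943119189) (nat_lit 152) (nat_lit 12098393168) (nat_lit 114) (nat_lit 5) (nat_lit 115) (nat_lit 5) (nat_lit 116) (nat_lit 4)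 (nat_lit 470) (nat_lit 346) (nat_lit 204)))) (XT.nd (nat_lit 156) (nat_lit 228) (nat_lit 0) (XT.nd (nat_lit 78) (nat_lit 0) (nat_lit 0) (XT.lf (nat_lit 0) (nat_lit 2479152292) (nat_lit 152) (nat_lit 32569298670) (nat_lit 76) (nat_lit 10711930748) (nat_lit 112) (nat_lit 5) (nat_lit 114) (nat_lit 5) (nat_lit 113) (nat_lit 4) (nat_lit 471) (nat_lit 346) (nat_lit 203)) (XT.lf (nat_lit 0) (nat_lit 17460142195) (nat_lit 152) (nat_lit 2174113164) (nat_lit 76) (nat_lit 27018396524) (nat_lit 112) (nat_lit 5) (nat_lit 114) (nat_lit 5) (nat_lit 113) (nat_lit 4) (nat_lit 472) (nat_lit 346) (nat_lit 202))) (XT.nd (nat_lit 78) (nat_lit 152) (nat_lit 0) (XT.lf (nat_lit 0) (nat_lit 29686677550) (nat_lit 76) (nat_lit 3476194778) (nat_lit 152) (nat_lit 14400648519) (nat_lit 111) (nat_lit 5) (nat_lit 112) (nat_lit 5) (nat_lit 113) (nat_lit 4) (nat_lit 473) (nat_lit 346) (nat_lit 201)) (XT.lf (nat_lit 0) (nat_lit 1093287013)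 (nat_lit 152) (nat_lit 34333293334) (nat_lit 76) (nat_lit 13066656392) (nat_lit 109) (nat_lit 5) (nat_lit 111) (nat_lit 5) (nat_lit 110) (nat_lit 4) (nat_lit 474) (nat_lit 346) (nat_lit 200)))))) (XT.nd (nat_lit 624) (nat_lit 608) (nat_lit 0) (XT.nd (nat_lit 312) (nat_lit 304) (nat_lit 0) (XT.nd (nat_lit 156) (nat_lit 152) (nat_lit 0) (XT.nd (nat_lit 78) (nat_lit 76) (nat_lit 0) (XT.lf (nat_lit 0) (nat_lit 16966298900) (nat_lit 152) (nat_lit 2125494016) (nat_lit 76) (nat_lit 30348662860) (nat_lit 109) (nat_lit 5) (nat_lit 111) (nat_lit 5) (nat_lit 110) (nat_lit 4) (nat_lit 475) (nat_lit 346) (nat_lit 199)) (XT.lf (nat_lit 0) (nat_lit 31641145563) (nat_lit 76) (nat_lit 1965860008) (nat_lit 152) (nat_lit 16800340679) (nat_lit 108) (nat_lit 5) (nat_lit 109) (nat_lit 5) (nat_lit 110) (nat_lit 4) (nat_lit 476) (nat_lit 346) (nat_lit 198))) (XT.nd (nat_lit 78) (nat_lit 76) (nat_lit 0) (XT.lf (nat_lit 0) (nat_lit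 15182294858) (nat_lit 76) (nat_lit 35870289093) (nat_lit 76) (nat_lit 341489974) (nat_lit 107) (nat_lit 4) (nat_lit 108) (nat_lit 5) (nat_lit 108) (nat_lit 4) (nat_lit 477) (nat_lit 346) (nat_lit 197)) (XT.lf (nat_lit 0) (nat_lit 16485199644) (nat_lit 152) (nat_lit 2076651213) (nat_lit 76) (nat_lit 33837815794) (nat_lit 106) (nat_lit 5) (nat_lit 108) (nat_lit 5) (nat_lit 107) (nat_lit 4) (nat_lit 478) (nat_lit 346) (nat_lit 196)))) (XT.nd (nat_lit 156) (nat_lit 152) (nat_lit 0) (XT.nd (nat_lit 78) (nat_lit 76) (nat_lit 0) (XT.lf (nat_lit 0) (nat_lit 33712882648) (nat_lit 76) (nat_lit 408754536) (nat_lit 152) (nat_lit 19304334217) (nat_lit 105) (nat_lit 5) (nat_lit 106) (nat_lit 5) (nat_lit 107) (nat_lit 4) (nat_lit 479) (nat_lit 346) (nat_lit 195)) (XT.lf (nat_lit 0) (nat_lit 16253242036) (nat_lit 76) (nat_lit 36374900416) (nat_lit 76) (nat_lit 1844693604) (nat_lit 104) (nat_lit 4) (nat_lit 105) (nat_lit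 5) (nat_lit 105) (nat_lit 4) (nat_lit 480) (nat_lit 346) (nat_lit 194))) (XT.nd (nat_lit 78) (nat_lit 76) (nat_lit 0) (XT.lf (nat_lit 0) (nat_lit 16016656095) (nat_lit 152) (nat_lit 2027774123) (nat_lit 76) (nat_lit 37496237028) (nat_lit 103) (nat_lit 5) (nat_lit 105) (nat_lit 5) (nat_lit 104) (nat_lit 4) (nat_lit 481) (nat_lit 346) (nat_lit 193)) (XT.lf (nat_lit 0) (nat_lit 34721589725) (nat_lit 152) (nat_lit 20732707754) (nat_lit 0) (nat_lit 1175343365) (nat_lit 102) (nat_lit 5) (nat_lit 104) (nat_lit 4) (nat_lit 102) (nat_lit 4) (nat_lit 482) (nat_lit 346) (nat_lit 192))))) (XT.nd (nat_lit 312) (nat_lit 304) (nat_lit 0) (XT.nd (nat_lit 156) (nat_lit 152) (nat_lit 0) (XT.nd (nat_lit 78) (nat_lit 76) (nat_lit 0) (XT.lf (nat_lit 0) (nat_lit 17387249826) (nat_lit 76) (nat_lit 36955027782) (nat_lit 76) (nat_lit 3398367854) (nat_lit 101) (nat_lit 4) (nat_lit 102) (nat_lit 5) (nat_lit 102) (nat_lit 4) (nat_lit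 483) (nat_lit 346) (nat_lit 191)) (XT.lf (nat_lit 0) (nat_lit 15560465014) (nat_lit 152) (nat_lit 1979026207) (nat_lit 76) (nat_lit 41334983958) (nat_lit 100) (nat_lit 5) (nat_lit 102) (nat_lit 5) (nat_lit 101) (nat_lit 4) (nat_lit 484) (nat_lit 346) (nat_lit 190))) (XT.nd (nat_lit 78) (nat_lit 76) (nat_lit 0) (XT.lf (nat_lit 0) (nat_lit 35403290135) (nat_lit 152) (nat_lit 21821851327) (nat_lit 0) (nat_lit 2804662976) (nat_lit 99) (nat_lit 5) (nat_lit 101) (nat_lit 4) (nat_lit 99) (nat_lit 4) (nat_lit 485) (nat_lit 346) (nat_lit 189)) (XT.lf (nat_lit 0) (nat_lit 18587987089) (nat_lit 76) (nat_lit 37614427760) (nat_lit 76) (nat_lit 5006548281) (nat_lit 98) (nat_lit 4) (nat_lit 99) (nat_lit 5) (nat_lit 99) (nat_lit 4) (nat_lit 486) (nat_lit 346) (nat_lit 188)))) (XT.nd (nat_lit 156) (nat_lit 152) (nat_lit 0) (XT.nd (nat_lit 78) (nat_lit 76) (nat_lit 0) (XT.lf (nat_lit 0) (nat_lit 15116410968) (nat_lit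 152) (nat_lit 1930548047) (nat_lit 76) (nat_lit 45365822425) (nat_lit 97) (nat_lit 5) (nat_lit 99) (nat_lit 5) (nat_lit 98) (nat_lit 4) (nat_lit 487) (nat_lit 346) (nat_lit 187)) (XT.lf (nat_lit 0) (nat_lit 36166563331) (nat_lit 152) (nat_lit 22980700411) (nat_lit 0) (nat_lit 4491239533) (nat_lit 96) (nat_lit 5) (nat_lit 98) (nat_lit 4) (nat_lit 96) (nat_lit 4) (nat_lit 488) (nat_lit 346) (nat_lit 186))) (XT.nd (nat_lit 78) (nat_lit 76) (nat_lit 0) (XT.lf (nat_lit 0) (nat_lit 19859377257) (nat_lit 76) (nat_lit 38357058701) (nat_lit 76) (nat_lit 6673514337) (nat_lit 95) (nat_lit 4) (nat_lit 96) (nat_lit 5) (nat_lit 96) (nat_lit 4) (nat_lit 489) (nat_lit 346) (nat_lit 185)) (XT.lf (nat_lit 0) (nat_lit 14684268698) (nat_lit 152) (nat_lit 1882460038) (nat_lit 76) (nat_lit 49601262492) (nat_lit 94) (nat_lit 5) (nat_lit 96) (nat_lit 5) (nat_lit 95) (nat_lit 4) (nat_lit 490) (nat_lit 346) (nat_lit 184))))))))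
noncomputable def xc116 : XT := (XT.nd (nat_lit 43992) (nat_lit 0) (nat_lit 10640) (XT.nd (nat_lit 42822) (nat_lit 0) (nat_lit 20216) (XT.nd (nat_lit 42198) (nat_lit 0) (nat_lit 28196) (XT.nd (nat_lit 41886) (nat_lit 0) (nat_lit 30096) (XT.nd (nat_lit 78) (nat_lit 152) (nat_lit 0) (XT.lf (nat_lit 0) (nat_lit 37015397288) (nat_lit 152) (nat_lit 24213588628) (nat_lit 0) (nat_lit 6239402949) (nat_lit 93) (nat_lit 5) (nat_lit 95) (nat_lit 4) (nat_lit 93) (nat_lit 4) (nat_lit 491) (nat_lit 346) (nat_lit 183)) (XT.nd (nat_lit 78) (nat_lit 76) (nat_lit 0) (XT.lf (nat_lit 0) (nat_lit 21205610017) (nat_lit 76) (nat_lit 39187099562) (nat_lit 76) (nat_lit 8403801356) (nat_lit 92) (nat_lit 4) (nat_lit 93) (nat_lit 5) (nat_lit 93) (nat_lit 4) (nat_lit 492) (nat_lit 346) (nat_lit 182)) (XT.lf (nat_lit 0) (nat_lit 14263805209) (nat_lit 152) (nat_lit 1834864762) (nat_lit 76) (nat_lit 54054597334) (nat_lit 91) (nat_lit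 5) (nat_lit 93) (nat_lit 5) (nat_lit 92) (nat_lit 4) (nat_lit 493) (nat_lit 346) (nat_lit 181)))) (XT.nd (nat_lit 156) (nat_lit 0) (nat_lit 0) (XT.nd (nat_lit 78) (nat_lit 532) (nat_lit 0) (XT.lf (nat_lit 0) (nat_lit 3093274571) (nat_lit 532) (nat_lit 115662647) (nat_lit 532) (nat_lit 115662647) (nat_lit 494) (nat_lit 3) (nat_lit 501) (nat_lit 3) (nat_lit 501) (nat_lit 5) (nat_lit 347) (nat_lit 347) (nat_lit 326)) (XT.lf (nat_lit 0) (nat_lit 1851871600) (nat_lit 532) (nat_lit 3543567663) (nat_lit 608) (nat_lit 1284264927) (nat_lit 487) (nat_lit 5) (nat_lit 494) (nat_lit 3) (nat_lit 495) (nat_lit 5) (nat_lit 348) (nat_lit 347) (nat_lit 325))) (XT.nd (nat_lit 78) (nat_lit 0) (nat_lit 0) (XT.lf (nat_lit 0) (nat_lit 4139392816) (nat_lit 532) (nat_lit 154388039) (nat_lit 608) (nat_lit 2419819641) (nat_lit 487) (nat_lit 5) (nat_lit 494) (nat_lit 3) (nat_lit 495) (nat_lit 5) (nat_lit 349) (nat_lit 347) (nat_lit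 324)) (XT.lf (nat_lit 76) (nat_lit 3355246068) (nat_lit 0) (nat_lit 3085656100) (nat_lit 608) (nat_lit 309250649) (nat_lit 488) (nat_lit 5) (nat_lit 487) (nat_lit 5) (nat_lit 495) (nat_lit 5) (nat_lit 350) (nat_lit 347) (nat_lit 323))))) (XT.nd (nat_lit 312) (nat_lit 684) (nat_lit 0) (XT.nd (nat_lit 156) (nat_lit 608) (nat_lit 0) (XT.nd (nat_lit 78) (nat_lit 0) (nat_lit 0) (XT.lf (nat_lit 76) (nat_lit 120522313) (nat_lit 0) (nat_lit 1780733481) (nat_lit 684) (nat_lit 4888449651) (nat_lit 480) (nat_lit 5) (nat_lit 479) (nat_lit 5) (nat_lit 488) (nat_lit 5) (nat_lit 351) (nat_lit 347) (nat_lit 322)) (XT.lf (nat_lit 76) (nat_lit 3760413158) (nat_lit 0) (nat_lit 362095192) (nat_lit 684) (nat_lit 2709325047) (nat_lit 480) (nat_lit 5) (nat_lit 479) (nat_lit 5) (nat_lit 488) (nat_lit 5) (nat_lit 352) (nat_lit 347) (nat_lit 321))) (XT.nd (nat_lit 78) (nat_lit 684) (nat_lit 0) (XT.lf (nat_lit 76) (nat_lit 586290711)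 (nat_lit 0) (nat_lit 5759475808) (nat_lit 684) (nat_lit 531397628) (nat_lit 481) (nat_lit 5) (nat_lit 480) (nat_lit 5) (nat_lit 489) (nat_lit 5) (nat_lit 353) (nat_lit 347) (nat_lit 320)) (XT.lf (nat_lit 0) (nat_lit 1633645092) (nat_lit 684) (nat_lit 2576545863) (nat_lit 760) (nat_lit 2714514734) (nat_lit 471) (nat_lit 5) (nat_lit 480) (nat_lit 5) (nat_lit 481) (nat_lit 5) (nat_lit 354) (nat_lit 347) (nat_lit 319)))) (XT.nd (nat_lit 156) (nat_lit 684) (nat_lit 0) (XT.nd (nat_lit 78) (nat_lit 0) (nat_lit 0) (XT.lf (nat_lit 76) (nat_lit 1219229206) (nat_lit 0) (nat_lit 2568046072) (nat_lit 760) (nat_lit 3188210855) (nat_lit 472) (nat_lit 5) (nat_lit 471) (nat_lit 5) (nat_lit 481) (nat_lit 5) (nat_lit 355) (nat_lit 347) (nat_lit 318)) (XT.lf (nat_lit 76) (nat_lit 5133657286) (nat_lit 0) (nat_lit 822264622) (nat_lit 760) (nat_lit 1073355857) (nat_lit 472) (nat_lit 5) (nat_lit 471) (nat_lit 5) (nat_lit 481)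 (nat_lit 5) (nat_lit 356) (nat_lit 347) (nat_lit 317))) (XT.nd (nat_lit 78) (nat_lit 0) (nat_lit 0) (XT.lf (nat_lit 0) (nat_lit 1039005198) (nat_lit 760) (nat_lit 5033582049) (nat_lit 836) (nat_lit 1013108601) (nat_lit 462) (nat_lit 5) (nat_lit 472) (nat_lit 5) (nat_lit 473) (nat_lit 5) (nat_lit 357) (nat_lit 347) (nat_lit 316)) (XT.lf (nat_lit 0) (nat_lit 3148441048) (nat_lit 760) (nat_lit 1055104628) (nat_lit 836) (nat_lit 2941283658) (nat_lit 462) (nat_lit 5) (nat_lit 472) (nat_lit 5) (nat_lit 473) (nat_lit 5) (nat_lit 358) (nat_lit 347) (nat_lit 315)))))) (XT.nd (nat_lit 546) (nat_lit 5396) (nat_lit 0) (XT.nd (nat_lit 234) (nat_lit 1748) (nat_lit 0) (XT.nd (nat_lit 78) (nat_lit 836) (nat_lit 0) (XT.lf (nat_lit 76) (nat_lit 3053721222) (nat_lit 0) (nat_lit 2226700312) (nat_lit 836) (nat_lit 1926537444) (nat_lit 463) (nat_lit 5) (nat_lit 462) (nat_lit 5) (nat_lit 473) (nat_lit 5) (nat_lit 359) (nat_lit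 347) (nat_lit 314)) (XT.nd (nat_lit 78) (nat_lit 0) (nat_lit 76) (XT.lf (nat_lit 0) (nat_lit 142968592) (nat_lit 836) (nat_lit 14768051) (nat_lit 912) (nat_lit 7114909595) (nat_lit 451) (nat_lit 5) (nat_lit 462) (nat_lit 5) (nat_lit 463) (nat_lit 5) (nat_lit 360) (nat_lit 347) (nat_lit 313)) (XT.lf (nat_lit 0) (nat_lit 2229396119) (nat_lit 836) (nat_lit 3096332799) (nat_lit 76) (nat_lit 2014196224) (nat_lit 452) (nat_lit 5) (nat_lit 463) (nat_lit 5) (nat_lit 453) (nat_lit 5) (nat_lit 361) (nat_lit 347) (nat_lit 312)))) (XT.nd (nat_lit 156) (nat_lit 988) (nat_lit 0) (XT.nd (nat_lit 78) (nat_lit 0) (nat_lit 0) (XT.lf (nat_lit 0) (nat_lit 1192773265) (nat_lit 836) (nat_lit 3133317632) (nat_lit 912) (nat_lit 3084701283) (nat_lit 441) (nat_lit 5) (nat_lit 452) (nat_lit 5) (nat_lit 453) (nat_lit 5) (nat_lit 362) (nat_lit 347) (nat_lit 311)) (XT.lf (nat_lit 0) (nat_lit 5624784668) (nat_lit 836) (nat_lit 828099699)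 (nat_lit 912) (nat_lit 1031884928) (nat_lit 441) (nat_lit 5) (nat_lit 452) (nat_lit 5) (nat_lit 453) (nat_lit 5) (nat_lit 363) (nat_lit 347) (nat_lit 310))) (XT.nd (nat_lit 78) (nat_lit 0) (nat_lit 0) (XT.lf (nat_lit 0) (nat_lit 1039111276) (nat_lit 988) (nat_lit 4956667010) (nat_lit 76) (nat_lit 1565543689) (nat_lit 428) (nat_lit 5) (nat_lit 441) (nat_lit 5) (nat_lit 429) (nat_lit 5) (nat_lit 364) (nat_lit 347) (nat_lit 309)) (XT.lf (nat_lit 0) (nat_lit 3117332411) (nat_lit 988) (nat_lit 467390065) (nat_lit 76) (nat_lit 4056167211) (nat_lit 428) (nat_lit 5) (nat_lit 441) (nat_lit 5) (nat_lit 429) (nat_lit 5) (nat_lit 365) (nat_lit 347) (nat_lit 308))))) (XT.nd (nat_lit 312) (nat_lit 2128) (nat_lit 0) (XT.nd (nat_lit 156) (nat_lit 1216) (nat_lit 0) (XT.nd (nat_lit 78) (nat_lit 1064) (nat_lit 0) (XT.lf (nat_lit 0) (nat_lit 4189242245) (nat_lit 988) (nat_lit 1049381613) (nat_lit 1064) (nat_lit 2484798862)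 (nat_lit 415) (nat_lit 5) (nat_lit 428) (nat_lit 5) (nat_lit 429) (nat_lit 5) (nat_lit 366) (nat_lit 347) (nat_lit 307)) (XT.lf (nat_lit 0) (nat_lit 1143689526) (nat_lit 1064) (nat_lit 6252454444) (nat_lit 1140) (nat_lit 413110076) (nat_lit 401) (nat_lit 5) (nat_lit 415) (nat_lit 5) (nat_lit 416) (nat_lit 5) (nat_lit 367) (nat_lit 347) (nat_lit 306))) (XT.nd (nat_lit 78) (nat_lit 1140) (nat_lit 0) (XT.lf (nat_lit 0) (nat_lit 1676048480) (nat_lit 1140) (nat_lit 1940611977) (nat_lit 76) (nat_lit 4280836732) (nat_lit 400) (nat_lit 5) (nat_lit 415) (nat_lit 5) (nat_lit 401) (nat_lit 5) (nat_lit 368) (nat_lit 347) (nat_lit 305)) (XT.lf (nat_lit 0) (nat_lit 2929572042) (nat_lit 1140) (nat_lit 862308436) (nat_lit 1216) (nat_lit 4197215389) (nat_lit 385) (nat_lit 5) (nat_lit 400) (nat_lit 5) (nat_lit 401) (nat_lit 5) (nat_lit 369) (nat_lit 347) (nat_lit 304)))) (XT.nd (nat_lit 156) (nat_lit 836) (nat_lit 0)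 (XT.nd (nat_lit 78) (nat_lit 1292) (nat_lit 0) (XT.lf (nat_lit 0) (nat_lit 5955309276) (nat_lit 1216) (nat_lit 167190309) (nat_lit 76) (nat_lit 1961419265) (nat_lit 385) (nat_lit 5) (nat_lit 401) (nat_lit 5) (nat_lit 386) (nat_lit 5) (nat_lit 370) (nat_lit 347) (nat_lit 303)) (XT.lf (nat_lit 0) (nat_lit 4716544) (nat_lit 1292) (nat_lit 3271690338) (nat_lit 76) (nat_lit 4905097981) (nat_lit 368) (nat_lit 5) (nat_lit 385) (nat_lit 5) (nat_lit 369) (nat_lit 5) (nat_lit 371) (nat_lit 347) (nat_lit 302))) (XT.nd (nat_lit 78) (nat_lit 0) (nat_lit 0) (XT.lf (nat_lit 0) (nat_lit 1825229995) (nat_lit 836) (nat_lit 300782412) (nat_lit 912) (nat_lit 6156371202) (nat_lit 357) (nat_lit 5) (nat_lit 368) (nat_lit 5) (nat_lit 369) (nat_lit 5) (nat_lit 372) (nat_lit 347) (nat_lit 301)) (XT.lf (nat_lit 0) (nat_lit 4319458830) (nat_lit 912) (nat_lit 1321028256) (nat_lit 76) (nat_lit 2745546282) (nat_lit 357) (nat_lit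 5) (nat_lit 369) (nat_lit 5) (nat_lit 358) (nat_lit 5) (nat_lit 373) (nat_lit 347) (nat_lit 300))))))) (XT.nd (nat_lit 1170) (nat_lit 3952) (nat_lit 0) (XT.nd (nat_lit 546) (nat_lit 2584) (nat_lit 0) (XT.nd (nat_lit 234) (nat_lit 1748) (nat_lit 0) (XT.nd (nat_lit 78) (nat_lit 684) (nat_lit 0) (XT.lf (nat_lit 0) (nat_lit 3994679995) (nat_lit 608) (nat_lit 2575480366) (nat_lit 684) (nat_lit 1922888707) (nat_lit 349) (nat_lit 5) (nat_lit 357) (nat_lit 5) (nat_lit 358) (nat_lit 5) (nat_lit 374) (nat_lit 347) (nat_lit 299)) (XT.nd (nat_lit 78) (nat_lit 0) (nat_lit 0) (XT.lf (nat_lit 0) (nat_lit 257662812) (nat_lit 684) (nat_lit 7751889335) (nat_lit 76) (nat_lit 594297314) (nat_lit 340) (nat_lit 5) (nat_lit 349) (nat_lit 5) (nat_lit 341) (nat_lit 5) (nat_lit 375) (nat_lit 347) (nat_lit 298)) (XT.lf (nat_lit 0) (nat_lit 2487884177) (nat_lit 684) (nat_lit 2357514074) (nat_lit 76) (nat_lit 3871317417) (nat_lit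 340) (nat_lit 5) (nat_lit 349) (nat_lit 5) (nat_lit 341) (nat_lit 5) (nat_lit 376) (nat_lit 347) (nat_lit 297)))) (XT.nd (nat_lit 156) (nat_lit 1216) (nat_lit 0) (XT.nd (nat_lit 78) (nat_lit 0) (nat_lit 0) (XT.lf (nat_lit 0) (nat_lit 3211925723) (nat_lit 532) (nat_lit 1556900480) (nat_lit 608) (nat_lit 4064627237) (nat_lit 333) (nat_lit 5) (nat_lit 340) (nat_lit 5) (nat_lit 341) (nat_lit 5) (nat_lit 377) (nat_lit 347) (nat_lit 296)) (XT.lf (nat_lit 0) (nat_lit 7113644198) (nat_lit 608) (nat_lit 24349089) (nat_lit 76) (nat_lit 1815836628) (nat_lit 333) (nat_lit 5) (nat_lit 341) (nat_lit 5) (nat_lit 334) (nat_lit 5) (nat_lit 378) (nat_lit 347) (nat_lit 295))) (XT.nd (nat_lit 78) (nat_lit 532) (nat_lit 0) (XT.lf (nat_lit 0) (nat_lit 468672388) (nat_lit 684) (nat_lit 3292173320) (nat_lit 76) (nat_lit 5316047408) (nat_lit 324) (nat_lit 5) (nat_lit 333) (nat_lit 5) (nat_lit 325) (nat_lit 5) (nat_lit 379)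 (nat_lit 347) (nat_lit 294)) (XT.lf (nat_lit 0) (nat_lit 2547144819) (nat_lit 532) (nat_lit 242961492) (nat_lit 608) (nat_lit 6413586431) (nat_lit 317) (nat_lit 5) (nat_lit 324) (nat_lit 5) (nat_lit 325) (nat_lit 5) (nat_lit 380) (nat_lit 347) (nat_lit 293))))) (XT.nd (nat_lit 312) (nat_lit 1520) (nat_lit 0) (XT.nd (nat_lit 156) (nat_lit 532) (nat_lit 0) (XT.nd (nat_lit 78) (nat_lit 532) (nat_lit 0) (XT.lf (nat_lit 0) (nat_lit 5203590732) (nat_lit 608) (nat_lit 787026319) (nat_lit 76) (nat_lit 3343007083) (nat_lit 317) (nat_lit 5) (nat_lit 325) (nat_lit 5) (nat_lit 318) (nat_lit 5) (nat_lit 381) (nat_lit 347) (nat_lit 292)) (XT.lf (nat_lit 0) (nat_lit 5311242151) (nat_lit 532) (nat_lit 2389308474) (nat_lit 608) (nat_lit 1766570713) (nat_lit 310) (nat_lit 5) (nat_lit 317) (nat_lit 5) (nat_lit 318) (nat_lit 5) (nat_lit 382) (nat_lit 347) (nat_lit 291))) (XT.nd (nat_lit 78) (nat_lit 0) (nat_lit 0) (XT.lf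 (nat_lit 0) (nat_lit 652822039) (nat_lit 532) (nat_lit 7630274192) (nat_lit 76) (nat_lit 1321392932) (nat_lit 303) (nat_lit 5) (nat_lit 310) (nat_lit 5) (nat_lit 304) (nat_lit 5) (nat_lit 383) (nat_lit 347) (nat_lit 290)) (XT.lf (nat_lit 0) (nat_lit 3133988540) (nat_lit 532) (nat_lit 1462502700) (nat_lit 76) (nat_lit 5148221110) (nat_lit 303) (nat_lit 5) (nat_lit 310) (nat_lit 5) (nat_lit 304) (nat_lit 5) (nat_lit 384) (nat_lit 347) (nat_lit 289)))) (XT.nd (nat_lit 156) (nat_lit 532) (nat_lit 0) (XT.nd (nat_lit 78) (nat_lit 456) (nat_lit 0) (XT.lf (nat_lit 0) (nat_lit 4938490802) (nat_lit 532) (nat_lit 758435134) (nat_lit 608) (nat_lit 4191996220) (nat_lit 296) (nat_lit 5) (nat_lit 303) (nat_lit 5) (nat_lit 304) (nat_lit 5) (nat_lit 385) (nat_lit 347) (nat_lit 288)) (XT.lf (nat_lit 0) (nat_lit 1473567453) (nat_lit 456) (nat_lit 6883468403) (nat_lit 532) (nat_lit 1679813867) (nat_lit 290) (nat_lit 5)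 (nat_lit 296) (nat_lit 5) (nat_lit 297) (nat_lit 5) (nat_lit 386) (nat_lit 347) (nat_lit 287))) (XT.nd (nat_lit 78) (nat_lit 456) (nat_lit 0) (XT.lf (nat_lit 0) (nat_lit 908811276) (nat_lit 532) (nat_lit 2061791508) (nat_lit 76) (nat_lit 7217786848) (nat_lit 289) (nat_lit 5) (nat_lit 296) (nat_lit 5) (nat_lit 290) (nat_lit 5) (nat_lit 387) (nat_lit 347) (nat_lit 286)) (XT.lf (nat_lit 0) (nat_lit 3558781037) (nat_lit 532) (nat_lit 5693084495) (nat_lit 76) (nat_lit 1091587798) (nat_lit 283) (nat_lit 5) (nat_lit 290) (nat_lit 5) (nat_lit 284) (nat_lit 5) (nat_lit 388) (nat_lit 347) (nat_lit 285)))))) (XT.nd (nat_lit 624) (nat_lit 1824) (nat_lit 0) (XT.nd (nat_lit 312) (nat_lit 836) (nat_lit 0) (XT.nd (nat_lit 156) (nat_lit 912) (nat_lit 0) (XT.nd (nat_lit 78) (nat_lit 0) (nat_lit 0) (XT.lf (nat_lit 0) (nat_lit 1046169400) (nat_lit 380) (nat_lit 5265073955) (nat_lit 456) (nat_lit 4191235780) (nat_lit 278)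 (nat_lit 5) (nat_lit 283) (nat_lit 5) (nat_lit 284) (nat_lit 5) (nat_lit 389) (nat_lit 347) (nat_lit 284)) (XT.lf (nat_lit 0) (nat_lit 8056535078) (nat_lit 380) (nat_lit 1110365483) (nat_lit 456) (nat_lit 1498756523) (nat_lit 278) (nat_lit 5) (nat_lit 283) (nat_lit 5) (nat_lit 284) (nat_lit 5) (nat_lit 390) (nat_lit 347) (nat_lit 283))) (XT.nd (nat_lit 78) (nat_lit 380) (nat_lit 0) (XT.lf (nat_lit 0) (nat_lit 1287364075) (nat_lit 532) (nat_lit 6392675312) (nat_lit 76) (nat_lit 3152191337) (nat_lit 271) (nat_lit 5) (nat_lit 278) (nat_lit 5) (nat_lit 272) (nat_lit 5) (nat_lit 391) (nat_lit 347) (nat_lit 282)) (XT.lf (nat_lit 0) (nat_lit 689941349) (nat_lit 380) (nat_lit 3445586584) (nat_lit 456) (nat_lit 6867570970) (nat_lit 266) (nat_lit 5) (nat_lit 271) (nat_lit 5) (nat_lit 272) (nat_lit 5) (nat_lit 392) (nat_lit 347) (nat_lit 281)))) (XT.nd (nat_lit 156) (nat_lit 456) (nat_lit 0) (XT.nd (nat_lit 78)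 (nat_lit 380) (nat_lit 0) (XT.lf (nat_lit 0) (nat_lit 7107952344) (nat_lit 456) (nat_lit 3118583730) (nat_lit 76) (nat_lit 951392584) (nat_lit 266) (nat_lit 5) (nat_lit 272) (nat_lit 5) (nat_lit 267) (nat_lit 5) (nat_lit 393) (nat_lit 347) (nat_lit 280)) (XT.lf (nat_lit 0) (nat_lit 4294856673) (nat_lit 380) (nat_lit 5915935837) (nat_lit 456) (nat_lit 1145973506) (nat_lit 261) (nat_lit 5) (nat_lit 266) (nat_lit 5) (nat_lit 267) (nat_lit 5) (nat_lit 394) (nat_lit 347) (nat_lit 279))) (XT.nd (nat_lit 78) (nat_lit 0) (nat_lit 0) (XT.lf (nat_lit 0) (nat_lit 397227269) (nat_lit 380) (nat_lit 1433797860) (nat_lit 456) (nat_lit 9709354825) (nat_lit 255) (nat_lit 5) (nat_lit 260) (nat_lit 5) (nat_lit 261) (nat_lit 5) (nat_lit 395) (nat_lit 347) (nat_lit 278)) (XT.lf (nat_lit 0) (nat_lit 4943391860) (nat_lit 456) (nat_lit 3592409197) (nat_lit 76) (nat_lit 3191288136) (nat_lit 255) (nat_lit 5) (nat_lit 261) (nat_lit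 5) (nat_lit 256) (nat_lit 5) (nat_lit 396) (nat_lit 347) (nat_lit 277))))) (XT.nd (nat_lit 312) (nat_lit 684) (nat_lit 0) (XT.nd (nat_lit 156) (nat_lit 456) (nat_lit 0) (XT.nd (nat_lit 78) (nat_lit 304) (nat_lit 0) (XT.lf (nat_lit 0) (nat_lit 4206829579) (nat_lit 380) (nat_lit 3964389516) (nat_lit 456) (nat_lit 3747517927) (nat_lit 250) (nat_lit 5) (nat_lit 255) (nat_lit 5) (nat_lit 256) (nat_lit 5) (nat_lit 397) (nat_lit 347) (nat_lit 276)) (XT.lf (nat_lit 0) (nat_lit 147707096) (nat_lit 304) (nat_lit 11361219247) (nat_lit 380) (nat_lit 606816587) (nat_lit 246) (nat_lit 5) (nat_lit 250) (nat_lit 5) (nat_lit 251) (nat_lit 5) (nat_lit 398) (nat_lit 347) (nat_lit 275))) (XT.nd (nat_lit 78) (nat_lit 380) (nat_lit 0) (XT.lf (nat_lit 0) (nat_lit 2662738604) (nat_lit 380) (nat_lit 4026897116) (nat_lit 76) (nat_lit 5625687909) (nat_lit 245) (nat_lit 5) (nat_lit 250) (nat_lit 5) (nat_lit 246) (nat_lit 5) (nat_lit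 399) (nat_lit 347) (nat_lit 274)) (XT.lf (nat_lit 0) (nat_lit 4182960672) (nat_lit 380) (nat_lit 1844383080) (nat_lit 456) (nat_lit 6493092961) (nat_lit 240) (nat_lit 5) (nat_lit 245) (nat_lit 5) (nat_lit 246) (nat_lit 5) (nat_lit 400) (nat_lit 347) (nat_lit 273)))) (XT.nd (nat_lit 156) (nat_lit 304) (nat_lit 0) (XT.nd (nat_lit 78) (nat_lit 380) (nat_lit 0) (XT.lf (nat_lit 0) (nat_lit 9533486529) (nat_lit 456) (nat_lit 84938445) (nat_lit 76) (nat_lit 3112060233) (nat_lit 240) (nat_lit 5) (nat_lit 246) (nat_lit 5) (nat_lit 241) (nat_lit 5) (nat_lit 401) (nat_lit 347) (nat_lit 272)) (XT.lf (nat_lit 0) (nat_lit 265146756) (nat_lit 380) (nat_lit 4428320405) (nat_lit 76) (nat_lit 8251179954) (nat_lit 235) (nat_lit 5) (nat_lit 240) (nat_lit 5) (nat_lit 236) (nat_lit 5) (nat_lit 402) (nat_lit 347) (nat_lit 271))) (XT.nd (nat_lit 78) (nat_lit 0) (nat_lit 0) (XT.lf (nat_lit 0) (nat_lit 3782886941) (nat_lit 380)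 (nat_lit 8949644169) (nat_lit 76) (nat_lit 431273560) (nat_lit 231) (nat_lit 5) (nat_lit 236) (nat_lit 5) (nat_lit 232) (nat_lit 5) (nat_lit 403) (nat_lit 347) (nat_lit 270)) (XT.lf (nat_lit 0) (nat_lit 7468432250) (nat_lit 380) (nat_lit 273021165) (nat_lit 76) (nat_lit 5646215348) (nat_lit 231) (nat_lit 5) (nat_lit 236) (nat_lit 5) (nat_lit 232) (nat_lit 5) (nat_lit 404) (nat_lit 347) (nat_lit 269))))))))
noncomputable def xc117 : XT := (XT.nd (nat_lit 2340) (nat_lit 3268) (nat_lit 0) (XT.nd (nat_lit 1170) (nat_lit 2204) (nat_lit 0) (XT.nd (nat_lit 546) (nat_lit 1368) (nat_lit 0) (XT.nd (nat_lit 234) (nat_lit 836) (nat_lit 0) (XT.nd (nat_lit 78) (nat_lit 380) (nat_lit 0) (XT.lf (nat_lit 0) (nat_lit 8792161361) (nat_lit 304) (nat_lit 2528396101) (nat_lit 380) (nat_lit 2296010911) (nat_lit 227) (nat_lit 5) (nat_lit 231) (nat_lit 5) (nat_lit 232) (nat_lit 5) (nat_lit 405) (nat_lit 347) (nat_lit 268))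 (XT.nd (nat_lit 78) (nat_lit 0) (nat_lit 0) (XT.lf (nat_lit 0) (nat_lit 1451478236) (nat_lit 380) (nat_lit 9569723875) (nat_lit 76) (nat_lit 2829411176) (nat_lit 222) (nat_lit 5) (nat_lit 227) (nat_lit 5) (nat_lit 223) (nat_lit 5) (nat_lit 406) (nat_lit 347) (nat_lit 267)) (XT.lf (nat_lit 0) (nat_lit 5311383028) (nat_lit 380) (nat_lit 423939930) (nat_lit 76) (nat_lit 8354290453) (nat_lit 222) (nat_lit 5) (nat_lit 227) (nat_lit 5) (nat_lit 223) (nat_lit 5) (nat_lit 407) (nat_lit 347) (nat_lit 266)))) (XT.nd (nat_lit 156) (nat_lit 304) (nat_lit 0) (XT.nd (nat_lit 78) (nat_lit 304) (nat_lit 0) (XT.lf (nat_lit 0) (nat_lit 9131974981) (nat_lit 228) (nat_lit 215615891) (nat_lit 304) (nat_lit 4986377489) (nat_lit 219) (nat_lit 5) (nat_lit 222) (nat_lit 5) (nat_lit 223) (nat_lit 5) (nat_lit 408) (nat_lit 347) (nat_lit 265)) (XT.lf (nat_lit 0) (nat_lit 4388053321) (nat_lit 304) (nat_lit 9188882315) (nat_lit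 380) (nat_lit 1006556804) (nat_lit 215) (nat_lit 5) (nat_lit 219) (nat_lit 5) (nat_lit 220) (nat_lit 5) (nat_lit 409) (nat_lit 347) (nat_lit 264))) (XT.nd (nat_lit 78) (nat_lit 228) (nat_lit 0) (XT.lf (nat_lit 0) (nat_lit 3060580347) (nat_lit 380) (nat_lit 541674994) (nat_lit 76) (nat_lit 11236506921) (nat_lit 214) (nat_lit 5) (nat_lit 219) (nat_lit 5) (nat_lit 215) (nat_lit 5) (nat_lit 410) (nat_lit 347) (nat_lit 263)) (XT.lf (nat_lit 0) (nat_lit 7316583126) (nat_lit 304) (nat_lit 5584701778) (nat_lit 76) (nat_lit 2197493829) (nat_lit 211) (nat_lit 5) (nat_lit 215) (nat_lit 5) (nat_lit 212) (nat_lit 5) (nat_lit 411) (nat_lit 347) (nat_lit 262))))) (XT.nd (nat_lit 312) (nat_lit 532) (nat_lit 0) (XT.nd (nat_lit 156) (nat_lit 456) (nat_lit 0) (XT.nd (nat_lit 78) (nat_lit 76) (nat_lit 0) (XT.lf (nat_lit 0) (nat_lit 4527018669) (nat_lit 304) (nat_lit 7232041168) (nat_lit 380) (nat_lit 3605772045) (nat_lit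 207) (nat_lit 5) (nat_lit 211) (nat_lit 5) (nat_lit 212) (nat_lit 5) (nat_lit 412) (nat_lit 347) (nat_lit 261)) (XT.lf (nat_lit 0) (nat_lit 713508308) (nat_lit 380) (nat_lit 629728834) (nat_lit 76) (nat_lit 14294494454) (nat_lit 206) (nat_lit 5) (nat_lit 211) (nat_lit 5) (nat_lit 207) (nat_lit 5) (nat_lit 413) (nat_lit 347) (nat_lit 260))) (XT.nd (nat_lit 78) (nat_lit 228) (nat_lit 0) (XT.lf (nat_lit 0) (nat_lit 5207545654) (nat_lit 304) (nat_lit 5958719945) (nat_lit 76) (nat_lit 4747952151) (nat_lit 203) (nat_lit 5) (nat_lit 207) (nat_lit 5) (nat_lit 204) (nat_lit 5) (nat_lit 414) (nat_lit 347) (nat_lit 259)) (XT.lf (nat_lit 0) (nat_lit 4710079495) (nat_lit 228) (nat_lit 5166458803) (nat_lit 304) (nat_lit 6321256165) (nat_lit 200) (nat_lit 5) (nat_lit 203) (nat_lit 5) (nat_lit 204) (nat_lit 5) (nat_lit 415) (nat_lit 347) (nat_lit 258)))) (XT.nd (nat_lit 156) (nat_lit 228) (nat_lit 0) (XT.nd (nat_lit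 78) (nat_lit 304) (nat_lit 0) (XT.lf (nat_lit 0) (nat_lit 14731427660) (nat_lit 304) (nat_lit 718352535) (nat_lit 76) (nat_lit 1038723474) (nat_lit 200) (nat_lit 5) (nat_lit 204) (nat_lit 5) (nat_lit 201) (nat_lit 5) (nat_lit 416) (nat_lit 347) (nat_lit 257)) (XT.lf (nat_lit 0) (nat_lit 3015853866) (nat_lit 304) (nat_lit 6325907889) (nat_lit 76) (nat_lit 7441445213) (nat_lit 196) (nat_lit 5) (nat_lit 200) (nat_lit 5) (nat_lit 197) (nat_lit 5) (nat_lit 417) (nat_lit 347) (nat_lit 256))) (XT.nd (nat_lit 78) (nat_lit 0) (nat_lit 0) (XT.lf (nat_lit 0) (nat_lit 4935326493) (nat_lit 228) (nat_lit 2992219241) (nat_lit 304) (nat_lit 9157757040) (nat_lit 193) (nat_lit 5) (nat_lit 196) (nat_lit 5) (nat_lit 197) (nat_lit 5) (nat_lit 418) (nat_lit 347) (nat_lit 255)) (XT.lf (nat_lit 0) (nat_lit 13061488199) (nat_lit 304) (nat_lit 805293304) (nat_lit 76) (nat_lit 3527432959) (nat_lit 193) (nat_lit 5) (nat_lit 197)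 (nat_lit 5) (nat_lit 194) (nat_lit 5) (nat_lit 419) (nat_lit 347) (nat_lit 254)))))) (XT.nd (nat_lit 546) (nat_lit 1064) (nat_lit 0) (XT.nd (nat_lit 234) (nat_lit 608) (nat_lit 0) (XT.nd (nat_lit 78) (nat_lit 228) (nat_lit 0) (XT.lf (nat_lit 0) (nat_lit 738332071) (nat_lit 304) (nat_lit 6689903547) (nat_lit 76) (nat_lit 10280562931) (nat_lit 189) (nat_lit 5) (nat_lit 193) (nat_lit 5) (nat_lit 190) (nat_lit 5) (nat_lit 420) (nat_lit 347) (nat_lit 253)) (XT.nd (nat_lit 78) (nat_lit 0) (nat_lit 0) (XT.lf (nat_lit 0) (nat_lit 5201264550) (nat_lit 228) (nat_lit 708434566) (nat_lit 304) (nat_lit 12120776280) (nat_lit 186) (nat_lit 5) (nat_lit 189) (nat_lit 5) (nat_lit 190) (nat_lit 5) (nat_lit 421) (nat_lit 347) (nat_lit 252)) (XT.lf (nat_lit 0) (nat_lit 11341347951) (nat_lit 304) (nat_lit 872999820) (nat_lit 76) (nat_lit 6144300556) (nat_lit 186) (nat_lit 5) (nat_lit 190) (nat_lit 5) (nat_lit 187) (nat_lit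 5) (nat_lit 422) (nat_lit 347) (nat_lit 251)))) (XT.nd (nat_lit 156) (nat_lit 152) (nat_lit 0) (XT.nd (nat_lit 78) (nat_lit 304) (nat_lit 0) (XT.lf (nat_lit 0) (nat_lit 11623707190) (nat_lit 152) (nat_lit 5408845923) (nat_lit 228) (nat_lit 1661215125) (nat_lit 184) (nat_lit 5) (nat_lit 186) (nat_lit 5) (nat_lit 187) (nat_lit 5) (nat_lit 423) (nat_lit 347) (nat_lit 250)) (XT.lf (nat_lit 0) (nat_lit 3836293223) (nat_lit 304) (nat_lit 13546072308) (nat_lit 76) (nat_lit 1653785071) (nat_lit 180) (nat_lit 5) (nat_lit 184) (nat_lit 5) (nat_lit 181) (nat_lit 5) (nat_lit 424) (nat_lit 347) (nat_lit 249))) (XT.nd (nat_lit 78) (nat_lit 152) (nat_lit 0) (XT.lf (nat_lit 0) (nat_lit 9569044736) (nat_lit 304) (nat_lit 923610159) (nat_lit 76) (nat_lit 8892544911) (nat_lit 180) (nat_lit 5) (nat_lit 184) (nat_lit 5) (nat_lit 181) (nat_lit 5) (nat_lit 425) (nat_lit 347) (nat_lit 248)) (XT.lf (nat_lit 0) (nat_lit 12280075522)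 (nat_lit 152) (nat_lit 3290439237) (nat_lit 228) (nat_lit 4171303646) (nat_lit 178) (nat_lit 5) (nat_lit 180) (nat_lit 5) (nat_lit 181) (nat_lit 5) (nat_lit 426) (nat_lit 347) (nat_lit 247))))) (XT.nd (nat_lit 312) (nat_lit 456) (nat_lit 0) (XT.nd (nat_lit 156) (nat_lit 304) (nat_lit 0) (XT.nd (nat_lit 78) (nat_lit 0) (nat_lit 0) (XT.lf (nat_lit 0) (nat_lit 1695582754) (nat_lit 304) (nat_lit 14296560288) (nat_lit 76) (nat_lit 4113976301) (nat_lit 174) (nat_lit 5) (nat_lit 178) (nat_lit 5) (nat_lit 175) (nat_lit 5) (nat_lit 427) (nat_lit 347) (nat_lit 246)) (XT.lf (nat_lit 0) (nat_lit 7742175607) (nat_lit 304) (nat_lit 959006836) (nat_lit 76) (nat_lit 11776301697) (nat_lit 174) (nat_lit 5) (nat_lit 178) (nat_lit 5) (nat_lit 175) (nat_lit 5) (nat_lit 428) (nat_lit 347) (nat_lit 245))) (XT.nd (nat_lit 78) (nat_lit 152) (nat_lit 0) (XT.lf (nat_lit 0) (nat_lit 12996107294) (nat_lit 152) (nat_lit 1078466381)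 (nat_lit 228) (nat_lit 6782283983) (nat_lit 172) (nat_lit 5) (nat_lit 174) (nat_lit 5) (nat_lit 175) (nat_lit 5) (nat_lit 429) (nat_lit 347) (nat_lit 244)) (XT.lf (nat_lit 0) (nat_lit 6160962069) (nat_lit 152) (nat_lit 14549674931) (nat_lit 228) (nat_lit 533564582) (nat_lit 170) (nat_lit 5) (nat_lit 172) (nat_lit 5) (nat_lit 173) (nat_lit 5) (nat_lit 430) (nat_lit 347) (nat_lit 243)))) (XT.nd (nat_lit 156) (nat_lit 228) (nat_lit 0) (XT.nd (nat_lit 78) (nat_lit 152) (nat_lit 0) (XT.lf (nat_lit 0) (nat_lit 5857911633) (nat_lit 228) (nat_lit 980844750) (nat_lit 76) (nat_lit 14800592956) (nat_lit 169) (nat_lit 5) (nat_lit 172) (nat_lit 5) (nat_lit 170) (nat_lit 5) (nat_lit 431) (nat_lit 347) (nat_lit 242)) (XT.lf (nat_lit 0) (nat_lit 12554850298) (nat_lit 228) (nat_lit 8281802013) (nat_lit 76) (nat_lit 1205807468) (nat_lit 167) (nat_lit 5) (nat_lit 170) (nat_lit 5) (nat_lit 168) (nat_lit 5) (nat_lit 432)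 (nat_lit 347) (nat_lit 241))) (XT.nd (nat_lit 78) (nat_lit 76) (nat_lit 0) (XT.lf (nat_lit 0) (nat_lit 6531433652) (nat_lit 152) (nat_lit 13042080833) (nat_lit 228) (nat_lit 2880524523) (nat_lit 165) (nat_lit 5) (nat_lit 167) (nat_lit 5) (nat_lit 168) (nat_lit 5) (nat_lit 433) (nat_lit 347) (nat_lit 240)) (XT.lf (nat_lit 0) (nat_lit 3913008772) (nat_lit 228) (nat_lit 990575959) (nat_lit 76) (nat_lit 17971304398) (nat_lit 164) (nat_lit 5) (nat_lit 167) (nat_lit 5) (nat_lit 165) (nat_lit 5) (nat_lit 434) (nat_lit 347) (nat_lit 239))))))) (XT.nd (nat_lit 1170) (nat_lit 1596) (nat_lit 0) (XT.nd (nat_lit 546) (nat_lit 760) (nat_lit 0) (XT.nd (nat_lit 234) (nat_lit 532) (nat_lit 0) (XT.nd (nat_lit 78) (nat_lit 228) (nat_lit 0) (XT.lf (nat_lit 0) (nat_lit 11008813528) (nat_lit 228) (nat_lit 8727184046) (nat_lit 76) (nat_lit 3566820743) (nat_lit 162) (nat_lit 5) (nat_lit 165) (nat_lit 5) (nat_lit 163) (nat_lit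 5) (nat_lit 435) (nat_lit 347) (nat_lit 238)) (XT.nd (nat_lit 78) (nat_lit 76) (nat_lit 0) (XT.lf (nat_lit 0) (nat_lit 6938139937) (nat_lit 152) (nat_lit 11485716635) (nat_lit 228) (nat_lit 5316537885) (nat_lit 160) (nat_lit 5) (nat_lit 162) (nat_lit 5) (nat_lit 163) (nat_lit 5) (nat_lit 436) (nat_lit 347) (nat_lit 237)) (XT.lf (nat_lit 0) (nat_lit 1903815138) (nat_lit 228) (nat_lit 989471644) (nat_lit 76) (nat_lit 21295170033) (nat_lit 159) (nat_lit 5) (nat_lit 162) (nat_lit 5) (nat_lit 160) (nat_lit 5) (nat_lit 437) (nat_lit 347) (nat_lit 236)))) (XT.nd (nat_lit 156) (nat_lit 228) (nat_lit 0) (XT.nd (nat_lit 78) (nat_lit 152) (nat_lit 0) (XT.lf (nat_lit 0) (nat_lit 9423778035) (nat_lit 228) (nat_lit 9189262795) (nat_lit 76) (nat_lit 6029645352) (nat_lit 157) (nat_lit 5) (nat_lit 160) (nat_lit 5) (nat_lit 158) (nat_lit 5) (nat_lit 438) (nat_lit 347) (nat_lit 235)) (XT.lf (nat_lit 0) (nat_lit 7381380025)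 (nat_lit 152) (nat_lit 9879333311) (nat_lit 228) (nat_lit 7847087887) (nat_lit 155) (nat_lit 5) (nat_lit 157) (nat_lit 5) (nat_lit 158) (nat_lit 5) (nat_lit 439) (nat_lit 347) (nat_lit 234))) (XT.nd (nat_lit 78) (nat_lit 228) (nat_lit 0) (XT.lf (nat_lit 0) (nat_lit 24604284264) (nat_lit 152) (nat_lit 803162209) (nat_lit 228) (nat_lit 177182551) (nat_lit 155) (nat_lit 5) (nat_lit 157) (nat_lit 5) (nat_lit 158) (nat_lit 5) (nat_lit 440) (nat_lit 347) (nat_lit 233)) (XT.lf (nat_lit 0) (nat_lit 7797116655) (nat_lit 228) (nat_lit 9670713105) (nat_lit 76) (nat_lit 8598954901) (nat_lit 152) (nat_lit 5) (nat_lit 155) (nat_lit 5) (nat_lit 153) (nat_lit 5) (nat_lit 441) (nat_lit 347) (nat_lit 232))))) (XT.nd (nat_lit 312) (nat_lit 304) (nat_lit 0) (XT.nd (nat_lit 156) (nat_lit 304) (nat_lit 0) (XT.nd (nat_lit 78) (nat_lit 0) (nat_lit 0) (XT.lf (nat_lit 0) (nat_lit 7861695109) (nat_lit 152) (nat_lit 8221223921)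 (nat_lit 228) (nat_lit 10478158248) (nat_lit 150) (nat_lit 5) (nat_lit 152) (nat_lit 5) (nat_lit 153) (nat_lit 5) (nat_lit 442) (nat_lit 347) (nat_lit 231)) (XT.lf (nat_lit 0) (nat_lit 24710816070) (nat_lit 228) (nat_lit 995183340) (nat_lit 76) (nat_lit 1361393646) (nat_lit 150) (nat_lit 5) (nat_lit 153) (nat_lit 5) (nat_lit 151) (nat_lit 4) (nat_lit 443) (nat_lit 347) (nat_lit 230))) (XT.nd (nat_lit 78) (nat_lit 152) (nat_lit 0) (XT.lf (nat_lit 0) (nat_lit 6125898553) (nat_lit 152) (nat_lit 10174173404) (nat_lit 76) (nat_lit 11280058667) (nat_lit 148) (nat_lit 5) (nat_lit 150) (nat_lit 5) (nat_lit 149) (nat_lit 5) (nat_lit 444) (nat_lit 347) (nat_lit 229)) (XT.lf (nat_lit 0) (nat_lit 8379857921) (nat_lit 152) (nat_lit 6509243835) (nat_lit 228) (nat_lit 13216240042) (nat_lit 146) (nat_lit 5) (nat_lit 148) (nat_lit 5) (nat_lit 149) (nat_lit 5) (nat_lit 445) (nat_lit 347) (nat_lit 228)))) (XT.nd (nat_lit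 156) (nat_lit 152) (nat_lit 0) (XT.nd (nat_lit 78) (nat_lit 152) (nat_lit 0) (XT.lf (nat_lit 0) (nat_lit 24036296828) (nat_lit 228) (nat_lit 1011410682) (nat_lit 76) (nat_lit 3594968922) (nat_lit 146) (nat_lit 5) (nat_lit 149) (nat_lit 5) (nat_lit 147) (nat_lit 4) (nat_lit 446) (nat_lit 347) (nat_lit 227)) (XT.lf (nat_lit 0) (nat_lit 4406891751) (nat_lit 152) (nat_lit 10702266130) (nat_lit 76) (nat_lit 14078895889) (nat_lit 144) (nat_lit 5) (nat_lit 146) (nat_lit 5) (nat_lit 145) (nat_lit 5) (nat_lit 447) (nat_lit 347) (nat_lit 226))) (XT.nd (nat_lit 78) (nat_lit 0) (nat_lit 0) (XT.lf (nat_lit 0) (nat_lit 8936864375) (nat_lit 152) (nat_lit 4740826663) (nat_lit 228) (nat_lit 16068341756) (nat_lit 142) (nat_lit 5) (nat_lit 144) (nat_lit 5) (nat_lit 145) (nat_lit 5) (nat_lit 448) (nat_lit 347) (nat_lit 225)) (XT.lf (nat_lit 0) (nat_lit 23376381913) (nat_lit 228) (nat_lit 1022123519) (nat_lit 76) (nat_lit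 5917752729) (nat_lit 142) (nat_lit 5) (nat_lit 145) (nat_lit 5) (nat_lit 143) (nat_lit 4) (nat_lit 449) (nat_lit 347) (nat_lit 224)))))) (XT.nd (nat_lit 624) (nat_lit 684) (nat_lit 0) (XT.nd (nat_lit 312) (nat_lit 456) (nat_lit 0) (XT.nd (nat_lit 156) (nat_lit 152) (nat_lit 0) (XT.nd (nat_lit 78) (nat_lit 152) (nat_lit 0) (XT.lf (nat_lit 0) (nat_lit 2636563327) (nat_lit 152) (nat_lit 11257616869) (nat_lit 76) (nat_lit 17002034839) (nat_lit 140) (nat_lit 5) (nat_lit 142) (nat_lit 5) (nat_lit 141) (nat_lit 5) (nat_lit 450) (nat_lit 347) (nat_lit 223)) (XT.lf (nat_lit 0) (nat_lit 9533927216) (nat_lit 152) (nat_lit 2912996257) (nat_lit 228) (nat_lit 19042002433) (nat_lit 138) (nat_lit 5) (nat_lit 140) (nat_lit 5) (nat_lit 141) (nat_lit 5) (nat_lit 451) (nat_lit 347) (nat_lit 222))) (XT.nd (nat_lit 78) (nat_lit 152) (nat_lit 0) (XT.lf (nat_lit 0) (nat_lit 22731208189) (nat_lit 228) (nat_lit 1028044699) (nat_lit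 76) (nat_lit 8334776801) (nat_lit 138) (nat_lit 5) (nat_lit 141) (nat_lit 5) (nat_lit 139) (nat_lit 4) (nat_lit 452) (nat_lit 347) (nat_lit 221)) (XT.lf (nat_lit 0) (nat_lit 811077411) (nat_lit 152) (nat_lit 11842872398) (nat_lit 76) (nat_lit 20056676344) (nat_lit 136) (nat_lit 5) (nat_lit 138) (nat_lit 5) (nat_lit 137) (nat_lit 5) (nat_lit 453) (nat_lit 347) (nat_lit 220)))) (XT.nd (nat_lit 156) (nat_lit 304) (nat_lit 0) (XT.nd (nat_lit 78) (nat_lit 0) (nat_lit 0) (XT.lf (nat_lit 0) (nat_lit 10172471507) (nat_lit 152) (nat_lit 1022375076) (nat_lit 228) (nat_lit 22145307790) (nat_lit 134) (nat_lit 5) (nat_lit 136) (nat_lit 5) (nat_lit 137) (nat_lit 5) (nat_lit 454) (nat_lit 347) (nat_lit 219)) (XT.lf (nat_lit 0) (nat_lit 22100845838) (nat_lit 228) (nat_lit 1029813324) (nat_lit 76) (nat_lit 10851587767) (nat_lit 134) (nat_lit 5) (nat_lit 137) (nat_lit 5) (nat_lit 135) (nat_lit 4) (nat_lit 455) (nat_lit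 347) (nat_lit 218))) (XT.nd (nat_lit 78) (nat_lit 228) (nat_lit 0) (XT.lf (nat_lit 0) (nat_lit 22166110319) (nat_lit 76) (nat_lit 11376166583) (nat_lit 152) (nat_lit 1095077805) (nat_lit 133) (nat_lit 5) (nat_lit 134) (nat_lit 5) (nat_lit 135) (nat_lit 4) (nat_lit 456) (nat_lit 347) (nat_lit 217)) (XT.lf (nat_lit 0) (nat_lit 9928307021) (nat_lit 228) (nat_lit 24461084455) (nat_lit 76) (nat_lit 916569260) (nat_lit 130) (nat_lit 5) (nat_lit 133) (nat_lit 5) (nat_lit 131) (nat_lit 4) (nat_lit 457) (nat_lit 347) (nat_lit 216))))) (XT.nd (nat_lit 312) (nat_lit 380) (nat_lit 0) (XT.nd (nat_lit 156) (nat_lit 228) (nat_lit 0) (XT.nd (nat_lit 78) (nat_lit 76) (nat_lit 0) (XT.lf (nat_lit 0) (nat_lit 21485307294) (nat_lit 228) (nat_lit 1027994173) (nat_lit 76) (nat_lit 13474250492) (nat_lit 130) (nat_lit 5) (nat_lit 133) (nat_lit 5) (nat_lit 131) (nat_lit 4) (nat_lit 458) (nat_lit 347) (nat_lit 215)) (XT.lf (nat_lit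 0) (nat_lit 23539713425) (nat_lit 76) (nat_lit 10061122635) (nat_lit 152) (nat_lit 3082400304) (nat_lit 129) (nat_lit 5) (nat_lit 130) (nat_lit 5) (nat_lit 131) (nat_lit 4) (nat_lit 459) (nat_lit 347) (nat_lit 214))) (XT.nd (nat_lit 78) (nat_lit 0) (nat_lit 0) (XT.lf (nat_lit 0) (nat_lit 8646500953) (nat_lit 228) (nat_lit 25841795816) (nat_lit 76) (nat_lit 2904916185) (nat_lit 126) (nat_lit 5) (nat_lit 129) (nat_lit 5) (nat_lit 127) (nat_lit 4) (nat_lit 460) (nat_lit 347) (nat_lit 213)) (XT.lf (nat_lit 0) (nat_lit 20884555133) (nat_lit 228) (nat_lit 1023086084) (nat_lit 76) (nat_lit 16209354888) (nat_lit 126) (nat_lit 5) (nat_lit 129) (nat_lit 5) (nat_lit 127) (nat_lit 4) (nat_lit 461) (nat_lit 347) (nat_lit 212)))) (XT.nd (nat_lit 156) (nat_lit 76) (nat_lit 0) (XT.nd (nat_lit 78) (nat_lit 228) (nat_lit 0) (XT.lf (nat_lit 0) (nat_lit 25001089228) (nat_lit 76) (nat_lit 8714993393) (nat_lit 152) (nat_lit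 5139620179) (nat_lit 125) (nat_lit 5) (nat_lit 126) (nat_lit 5) (nat_lit 127) (nat_lit 4) (nat_lit 462) (nat_lit 347) (nat_lit 211)) (XT.lf (nat_lit 0) (nat_lit 7337132167) (nat_lit 228) (nat_lit 27305320764) (nat_lit 76) (nat_lit 4967090748) (nat_lit 122) (nat_lit 5) (nat_lit 125) (nat_lit 5) (nat_lit 123) (nat_lit 4) (nat_lit 463) (nat_lit 347) (nat_lit 210))) (XT.nd (nat_lit 78) (nat_lit 76) (nat_lit 0) (XT.lf (nat_lit 0) (nat_lit 20298509050) (nat_lit 228) (nat_lit 1015529390) (nat_lit 76) (nat_lit 19064026028) (nat_lit 122) (nat_lit 5) (nat_lit 125) (nat_lit 5) (nat_lit 123) (nat_lit 4) (nat_lit 464) (nat_lit 347) (nat_lit 209)) (XT.lf (nat_lit 0) (nat_lit 26554926680) (nat_lit 76) (nat_lit 7335515724) (nat_lit 152) (nat_lit 7271947021) (nat_lit 121) (nat_lit 5) (nat_lit 122) (nat_lit 5) (nat_lit 123) (nat_lit 4) (nat_lit 465) (nat_lit 347) (nat_lit 208))))))))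
noncomputable def xc118 : XT := (XT.nd (nat_lit 44148) (nat_lit 0) (nat_lit 17024) (XT.nd (nat_lit 1170) (nat_lit 912) (nat_lit 0) (XT.nd (nat_lit 546) (nat_lit 532) (nat_lit 0) (XT.nd (nat_lit 234) (nat_lit 380) (nat_lit 0) (XT.nd (nat_lit 78) (nat_lit 76) (nat_lit 0) (XT.lf (nat_lit 0) (nat_lit 5997546983) (nat_lit 228) (nat_lit 28857235426) (nat_lit 76) (nat_lit 7107959282) (nat_lit 118) (nat_lit 5) (nat_lit 121) (nat_lit 5) (nat_lit 119) (nat_lit 4) (nat_lit 466) (nat_lit 347) (nat_lit 207)) (XT.nd (nat_lit 78) (nat_lit 76) (nat_lit 0) (XT.lf (nat_lit 0) (nat_lit 19727052007) (nat_lit 228) (nat_lit 1005712531) (nat_lit 76) (nat_lit 22045937449) (nat_lit 118) (nat_lit 5) (nat_lit 121) (nat_lit 5) (nat_lit 119) (nat_lit 4) (nat_lit 467) (nat_lit 347) (nat_lit 206)) (XT.lf (nat_lit 0) (nat_lit 28206279225) (nat_lit 76) (nat_lit 5920181559) (nat_lit 152) (nat_lit 9484939750) (nat_lit 117) (nat_lit 5)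 (nat_lit 118) (nat_lit 5) (nat_lit 119) (nat_lit 4) (nat_lit 468) (nat_lit 347) (nat_lit 205)))) (XT.nd (nat_lit 156) (nat_lit 228) (nat_lit 0) (XT.nd (nat_lit 78) (nat_lit 0) (nat_lit 0) (XT.lf (nat_lit 0) (nat_lit 4624903228) (nat_lit 152) (nat_lit 30503384717) (nat_lit 76) (nat_lit 9332785920) (nat_lit 115) (nat_lit 5) (nat_lit 117) (nat_lit 5) (nat_lit 116) (nat_lit 4) (nat_lit 469) (nat_lit 347) (nat_lit 204)) (XT.lf (nat_lit 0) (nat_lit 19170035661) (nat_lit 152) (nat_lit 993977919) (nat_lit 76) (nat_lit 25163327547) (nat_lit 115) (nat_lit 5) (nat_lit 117) (nat_lit 5) (nat_lit 116) (nat_lit 4) (nat_lit 470) (nat_lit 347) (nat_lit 203))) (XT.nd (nat_lit 78) (nat_lit 152) (nat_lit 0) (XT.lf (nat_lit 0) (nat_lit 29960578025) (nat_lit 76) (nat_lit 4466239244) (nat_lit 152) (nat_lit 11784520282) (nat_lit 114) (nat_lit 5) (nat_lit 115) (nat_lit 5) (nat_lit 116) (nat_lit 4) (nat_lit 471) (nat_lit 347)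 (nat_lit 202)) (XT.lf (nat_lit 0) (nat_lit 3216165711) (nat_lit 152) (nat_lit 32249906936) (nat_lit 76) (nat_lit 11647241348) (nat_lit 112) (nat_lit 5) (nat_lit 114) (nat_lit 5) (nat_lit 113) (nat_lit 4) (nat_lit 472) (nat_lit 347) (nat_lit 201))))) (XT.nd (nat_lit 312) (nat_lit 304) (nat_lit 0) (XT.nd (nat_lit 156) (nat_lit 152) (nat_lit 0) (XT.nd (nat_lit 78) (nat_lit 76) (nat_lit 0) (XT.lf (nat_lit 0) (nat_lit 18627285151) (nat_lit 152) (nat_lit 980627148) (nat_lit 76) (nat_lit 28425018981) (nat_lit 112) (nat_lit 5) (nat_lit 114) (nat_lit 5) (nat_lit 113) (nat_lit 4) (nat_lit 473) (nat_lit 347) (nat_lit 200)) (XT.lf (nat_lit 0) (nat_lit 31823647000) (nat_lit 76) (nat_lit 2970693030) (nat_lit 152) (nat_lit 14176988997) (nat_lit 111) (nat_lit 5) (nat_lit 112) (nat_lit 5) (nat_lit 113) (nat_lit 4) (nat_lit 474) (nat_lit 347) (nat_lit 199))) (XT.nd (nat_lit 78) (nat_lit 0) (nat_lit 0) (XT.lf (nat_lit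 0) (nat_lit 1768100520) (nat_lit 152) (nat_lit 34103258929) (nat_lit 76) (nat_lit 14057413946) (nat_lit 109) (nat_lit 5) (nat_lit 111) (nat_lit 5) (nat_lit 110) (nat_lit 4) (nat_lit 475) (nat_lit 347) (nat_lit 198)) (XT.lf (nat_lit 0) (nat_lit 18098603300) (nat_lit 152) (nat_lit 965925628) (nat_lit 76) (nat_lit 31840441058) (nat_lit 109) (nat_lit 5) (nat_lit 111) (nat_lit 5) (nat_lit 110) (nat_lit 4) (nat_lit 476) (nat_lit 347) (nat_lit 197)))) (XT.nd (nat_lit 156) (nat_lit 76) (nat_lit 0) (XT.nd (nat_lit 78) (nat_lit 152) (nat_lit 0) (XT.lf (nat_lit 0) (nat_lit 33801719676) (nat_lit 76) (nat_lit 1430300816) (nat_lit 152) (nat_lit 16669042004) (nat_lit 108) (nat_lit 5) (nat_lit 109) (nat_lit 5) (nat_lit 110) (nat_lit 4) (nat_lit 477) (nat_lit 347) (nat_lit 196)) (XT.lf (nat_lit 0) (nat_lit 277268195) (nat_lit 152) (nat_lit 36070241968) (nat_lit 76) (nat_lit 16569823234) (nat_lit 106) (nat_lit 5) (nat_lit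 108) (nat_lit 5) (nat_lit 107) (nat_lit 4) (nat_lit 478) (nat_lit 347) (nat_lit 195))) (XT.nd (nat_lit 78) (nat_lit 76) (nat_lit 0) (XT.lf (nat_lit 0) (nat_lit 17583774332) (nat_lit 152) (nat_lit 950106689) (nat_lit 76) (nat_lit 35419655069) (nat_lit 106) (nat_lit 5) (nat_lit 108) (nat_lit 5) (nat_lit 107) (nat_lit 4) (nat_lit 479) (nat_lit 347) (nat_lit 194)) (XT.lf (nat_lit 0) (nat_lit 35744551003) (nat_lit 152) (nat_lit 19110883360) (nat_lit 0) (nat_lit 155338239) (nat_lit 105) (nat_lit 5) (nat_lit 107) (nat_lit 4) (nat_lit 105) (nat_lit 4) (nat_lit 480) (nat_lit 347) (nat_lit 193)))))) (XT.nd (nat_lit 546) (nat_lit 380) (nat_lit 0) (XT.nd (nat_lit 234) (nat_lit 304) (nat_lit 0) (XT.nd (nat_lit 78) (nat_lit 152) (nat_lit 0) (XT.lf (nat_lit 0) (nat_lit 17918728014) (nat_lit 76) (nat_lit 36885320888) (nat_lit 76) (nat_lit 1285060371) (nat_lit 104) (nat_lit 4) (nat_lit 105) (nat_lit 5) (nat_lit 105)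 (nat_lit 4) (nat_lit 481) (nat_lit 347) (nat_lit 192)) (XT.nd (nat_lit 78) (nat_lit 76) (nat_lit 0) (XT.lf (nat_lit 0) (nat_lit 17082567121) (nat_lit 152) (nat_lit 933375235) (nat_lit 76) (nat_lit 39173382567) (nat_lit 103) (nat_lit 5) (nat_lit 105) (nat_lit 5) (nat_lit 104) (nat_lit 4) (nat_lit 482) (nat_lit 347) (nat_lit 191)) (XT.lf (nat_lit 0) (nat_lit 36348020670) (nat_lit 152) (nat_lit 20198828784) (nat_lit 0) (nat_lit 1764137118) (nat_lit 102) (nat_lit 5) (nat_lit 104) (nat_lit 4) (nat_lit 102) (nat_lit 4) (nat_lit 483) (nat_lit 347) (nat_lit 190)))) (XT.nd (nat_lit 156) (nat_lit 152) (nat_lit 0) (XT.nd (nat_lit 78) (nat_lit 76) (nat_lit 0) (XT.lf (nat_lit 0) (nat_lit 19053395561) (nat_lit 76) (nat_lit 37497903013) (nat_lit 76) (nat_lit 2904203674) (nat_lit 101) (nat_lit 4) (nat_lit 102) (nat_lit 5) (nat_lit 102) (nat_lit 4) (nat_lit 484) (nat_lit 347) (nat_lit 189)) (XT.lf (nat_lit 0) (nat_lit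 16594738053) (nat_lit 152) (nat_lit 915910979) (nat_lit 76) (nat_lit 43113036630) (nat_lit 100) (nat_lit 5) (nat_lit 102) (nat_lit 5) (nat_lit 101) (nat_lit 4) (nat_lit 485) (nat_lit 347) (nat_lit 188))) (XT.nd (nat_lit 78) (nat_lit 76) (nat_lit 0) (XT.lf (nat_lit 0) (nat_lit 37032289877) (nat_lit 152) (nat_lit 21353462803) (nat_lit 0) (nat_lit 3427938860) (nat_lit 99) (nat_lit 5) (nat_lit 101) (nat_lit 4) (nat_lit 99) (nat_lit 4) (nat_lit 486) (nat_lit 347) (nat_lit 187)) (XT.lf (nat_lit 0) (nat_lit 20257660530) (nat_lit 76) (nat_lit 38191905672) (nat_lit 76) (nat_lit 4578833455) (nat_lit 98) (nat_lit 4) (nat_lit 99) (nat_lit 5) (nat_lit 99) (nat_lit 4) (nat_lit 487) (nat_lit 347) (nat_lit 186))))) (XT.nd (nat_lit 312) (nat_lit 76) (nat_lit 0) (XT.nd (nat_lit 156) (nat_lit 152) (nat_lit 0) (XT.nd (nat_lit 78) (nat_lit 76) (nat_lit 0) (XT.lf (nat_lit 0) (nat_lit 16120033533) (nat_lit 152) (nat_lit 897871325)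 (nat_lit 76) (nat_lit 47250756117) (nat_lit 97) (nat_lit 5) (nat_lit 99) (nat_lit 5) (nat_lit 98) (nat_lit 4) (nat_lit 488) (nat_lit 347) (nat_lit 185)) (XT.lf (nat_lit 0) (nat_lit 37801194648) (nat_lit 152) (nat_lit 22579032439) (nat_lit 0) (nat_lit 5150942254) (nat_lit 96) (nat_lit 5) (nat_lit 98) (nat_lit 4) (nat_lit 96) (nat_lit 4) (nat_lit 489) (nat_lit 347) (nat_lit 184))) (XT.nd (nat_lit 78) (nat_lit 76) (nat_lit 0) (XT.lf (nat_lit 0) (nat_lit 21535550608) (nat_lit 76) (nat_lit 38971389465) (nat_lit 76) (nat_lit 6313388399) (nat_lit 95) (nat_lit 4) (nat_lit 96) (nat_lit 5) (nat_lit 96) (nat_lit 4) (nat_lit 490) (nat_lit 347) (nat_lit 183)) (XT.lf (nat_lit 0) (nat_lit 15658192181) (nat_lit 152) (nat_lit 879393920) (nat_lit 76) (nat_lit 51599443001) (nat_lit 94) (nat_lit 5) (nat_lit 96) (nat_lit 5) (nat_lit 95) (nat_lit 4) (nat_lit 491) (nat_lit 347) (nat_lit 182)))) (XT.nd (nat_lit 41964) (nat_lit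 0) (nat_lit 29336) (XT.nd (nat_lit 41886) (nat_lit 0) (nat_lit 29944) (XT.lf (nat_lit 0) (nat_lit 38658814098) (nat_lit 152) (nat_lit 23880015838) (nat_lit 0) (nat_lit 6937621948) (nat_lit 93) (nat_lit 5) (nat_lit 95) (nat_lit 4) (nat_lit 93) (nat_lit 4) (nat_lit 492) (nat_lit 347) (nat_lit 181)) (XT.lf (nat_lit 0) (nat_lit 1023094070) (nat_lit 0) (nat_lit 1023094070) (nat_lit 532) (nat_lit 1309824317) (nat_lit 487) (nat_lit 5) (nat_lit 487) (nat_lit 3) (nat_lit 494) (nat_lit 3) (nat_lit 348) (nat_lit 348) (nat_lit 324))) (XT.nd (nat_lit 78) (nat_lit 608) (nat_lit 0) (XT.lf (nat_lit 0) (nat_lit 5459226066) (nat_lit 0) (nat_lit 866528781) (nat_lit 532) (nat_lit 421790656) (nat_lit 487) (nat_lit 5) (nat_lit 487) (nat_lit 3) (nat_lit 494) (nat_lit 3) (nat_lit 349) (nat_lit 348) (nat_lit 323)) (XT.lf (nat_lit 0) (nat_lit 1745454003) (nat_lit 608) (nat_lit 4618578114) (nat_lit 684) (nat_lit 421386544) (nat_lit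 479) (nat_lit 5) (nat_lit 487) (nat_lit 5) (nat_lit 488) (nat_lit 5) (nat_lit 350) (nat_lit 348) (nat_lit 322))))))) (XT.nd (nat_lit 1170) (nat_lit 8436) (nat_lit 0) (XT.nd (nat_lit 546) (nat_lit 2508) (nat_lit 0) (XT.nd (nat_lit 234) (nat_lit 684) (nat_lit 0) (XT.nd (nat_lit 78) (nat_lit 684) (nat_lit 0) (XT.lf (nat_lit 0) (nat_lit 3907807212) (nat_lit 608) (nat_lit 1131401761) (nat_lit 684) (nat_lit 1786936693) (nat_lit 479) (nat_lit 5) (nat_lit 487) (nat_lit 5) (nat_lit 488) (nat_lit 5) (nat_lit 351) (nat_lit 348) (nat_lit 321)) (XT.nd (nat_lit 78) (nat_lit 684) (nat_lit 0) (XT.lf (nat_lit 76) (nat_lit 2463268577) (nat_lit 0) (nat_lit 3614713685) (nat_lit 684) (nat_lit 791823682) (nat_lit 480) (nat_lit 5) (nat_lit 479) (nat_lit 5) (nat_lit 488) (nat_lit 5) (nat_lit 352) (nat_lit 348) (nat_lit 320)) (XT.lf (nat_lit 0) (nat_lit 1303148779) (nat_lit 684) (nat_lit 785347302) (nat_lit 760) (nat_lit 4827918103)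 (nat_lit 470) (nat_lit 5) (nat_lit 479) (nat_lit 5) (nat_lit 480) (nat_lit 5) (nat_lit 353) (nat_lit 348) (nat_lit 319)))) (XT.nd (nat_lit 156) (nat_lit 684) (nat_lit 0) (XT.nd (nat_lit 78) (nat_lit 0) (nat_lit 76) (XT.lf (nat_lit 76) (nat_lit 2949208257) (nat_lit 0) (nat_lit 446928626) (nat_lit 760) (nat_lit 3569516153) (nat_lit 471) (nat_lit 5) (nat_lit 470) (nat_lit 5) (nat_lit 480) (nat_lit 5) (nat_lit 354) (nat_lit 348) (nat_lit 318)) (XT.lf (nat_lit 0) (nat_lit 5496731847) (nat_lit 684) (nat_lit 263366852) (nat_lit 760) (nat_lit 1257925839) (nat_lit 471) (nat_lit 5) (nat_lit 480) (nat_lit 5) (nat_lit 481) (nat_lit 5) (nat_lit 355) (nat_lit 348) (nat_lit 317))) (XT.nd (nat_lit 78) (nat_lit 0) (nat_lit 0) (XT.lf (nat_lit 0) (nat_lit 542852425) (nat_lit 760) (nat_lit 3455455129) (nat_lit 836) (nat_lit 3074511265) (nat_lit 461) (nat_lit 5) (nat_lit 471) (nat_lit 5) (nat_lit 472) (nat_lit 5) (nat_lit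 356) (nat_lit 348) (nat_lit 316)) (XT.lf (nat_lit 76) (nat_lit 437473973) (nat_lit 0) (nat_lit 2135786718) (nat_lit 836) (nat_lit 4557496910) (nat_lit 462) (nat_lit 5) (nat_lit 461) (nat_lit 5) (nat_lit 472) (nat_lit 5) (nat_lit 357) (nat_lit 348) (nat_lit 315))))) (XT.nd (nat_lit 312) (nat_lit 1748) (nat_lit 0) (XT.nd (nat_lit 156) (nat_lit 760) (nat_lit 0) (XT.nd (nat_lit 78) (nat_lit 0) (nat_lit 76) (XT.lf (nat_lit 76) (nat_lit 4471770498) (nat_lit 0) (nat_lit 157379976) (nat_lit 836) (nat_lit 2562346996) (nat_lit 462) (nat_lit 5) (nat_lit 461) (nat_lit 5) (nat_lit 472) (nat_lit 5) (nat_lit 358) (nat_lit 348) (nat_lit 314)) (XT.lf (nat_lit 76) (nat_lit 1333808841) (nat_lit 0) (nat_lit 5375753706) (nat_lit 836) (nat_lit 545611619) (nat_lit 463) (nat_lit 5) (nat_lit 462) (nat_lit 5) (nat_lit 473) (nat_lit 5) (nat_lit 359) (nat_lit 348) (nat_lit 313))) (XT.nd (nat_lit 78) (nat_lit 0) (nat_lit 0) (XT.lf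 (nat_lit 0) (nat_lit 1463855591) (nat_lit 836) (nat_lit 1819841848) (nat_lit 912) (nat_lit 4037758517) (nat_lit 451) (nat_lit 5) (nat_lit 462) (nat_lit 5) (nat_lit 463) (nat_lit 5) (nat_lit 360) (nat_lit 348) (nat_lit 312)) (XT.lf (nat_lit 76) (nat_lit 2399493623) (nat_lit 0) (nat_lit 1080992207) (nat_lit 912) (nat_lit 3910342949) (nat_lit 452) (nat_lit 5) (nat_lit 451) (nat_lit 5) (nat_lit 463) (nat_lit 5) (nat_lit 361) (nat_lit 348) (nat_lit 311)))) (XT.nd (nat_lit 156) (nat_lit 912) (nat_lit 0) (XT.nd (nat_lit 78) (nat_lit 912) (nat_lit 0) (XT.lf (nat_lit 0) (nat_lit 5523995844) (nat_lit 836) (nat_lit 738895890) (nat_lit 76) (nat_lit 1200399627) (nat_lit 452) (nat_lit 5) (nat_lit 463) (nat_lit 5) (nat_lit 453) (nat_lit 5) (nat_lit 362) (nat_lit 348) (nat_lit 310)) (XT.lf (nat_lit 0) (nat_lit 73044601) (nat_lit 912) (nat_lit 3884260634) (nat_lit 76) (nat_lit 3581078335) (nat_lit 440) (nat_lit 5) (nat_lit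 452) (nat_lit 5) (nat_lit 441) (nat_lit 5) (nat_lit 363) (nat_lit 348) (nat_lit 309))) (XT.nd (nat_lit 78) (nat_lit 0) (nat_lit 0) (XT.lf (nat_lit 0) (nat_lit 521855853) (nat_lit 912) (nat_lit 1536483672) (nat_lit 988) (nat_lit 5558266115) (nat_lit 428) (nat_lit 5) (nat_lit 440) (nat_lit 5) (nat_lit 441) (nat_lit 5) (nat_lit 364) (nat_lit 348) (nat_lit 308)) (XT.lf (nat_lit 0) (nat_lit 4092458094) (nat_lit 988) (nat_lit 2614875708) (nat_lit 76) (nat_lit 990162628) (nat_lit 428) (nat_lit 5) (nat_lit 441) (nat_lit 5) (nat_lit 429) (nat_lit 5) (nat_lit 365) (nat_lit 348) (nat_lit 307)))))) (XT.nd (nat_lit 624) (nat_lit 3040) (nat_lit 0) (XT.nd (nat_lit 312) (nat_lit 2128) (nat_lit 0) (XT.nd (nat_lit 156) (nat_lit 2204) (nat_lit 0) (XT.nd (nat_lit 78) (nat_lit 76) (nat_lit 0) (XT.lf (nat_lit 0) (nat_lit 1975081924) (nat_lit 988) (nat_lit 4188905163) (nat_lit 1064) (nat_lit 1617535249) (nat_lit 415) (nat_lit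 5) (nat_lit 428) (nat_lit 5) (nat_lit 429) (nat_lit 5) (nat_lit 366) (nat_lit 348) (nat_lit 306)) (XT.lf (nat_lit 0) (nat_lit 390735202) (nat_lit 1064) (nat_lit 1163638216) (nat_lit 76) (nat_lit 6314485961) (nat_lit 414) (nat_lit 5) (nat_lit 428) (nat_lit 5) (nat_lit 415) (nat_lit 5) (nat_lit 367) (nat_lit 348) (nat_lit 305))) (XT.nd (nat_lit 78) (nat_lit 1140) (nat_lit 0) (XT.lf (nat_lit 0) (nat_lit 2417852962) (nat_lit 1140) (nat_lit 4344392757) (nat_lit 76) (nat_lit 1196357058) (nat_lit 400) (nat_lit 5) (nat_lit 415) (nat_lit 5) (nat_lit 401) (nat_lit 5) (nat_lit 368) (nat_lit 348) (nat_lit 304)) (XT.lf (nat_lit 0) (nat_lit 453760575) (nat_lit 1140) (nat_lit 4029410055) (nat_lit 1216) (nat_lit 3568546254) (nat_lit 385) (nat_lit 5) (nat_lit 400) (nat_lit 5) (nat_lit 401) (nat_lit 5) (nat_lit 369) (nat_lit 348) (nat_lit 303)))) (XT.nd (nat_lit 156) (nat_lit 836) (nat_lit 0) (XT.nd (nat_lit 78) (nat_lit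 1292) (nat_lit 0) (XT.lf (nat_lit 0) (nat_lit 5437237412) (nat_lit 1140) (nat_lit 1163969453) (nat_lit 1216) (nat_lit 1546694779) (nat_lit 385) (nat_lit 5) (nat_lit 400) (nat_lit 5) (nat_lit 401) (nat_lit 5) (nat_lit 370) (nat_lit 348) (nat_lit 302)) (XT.lf (nat_lit 0) (nat_lit 513043635) (nat_lit 1292) (nat_lit 5949246546) (nat_lit 76) (nat_lit 1784896639) (nat_lit 368) (nat_lit 5) (nat_lit 385) (nat_lit 5) (nat_lit 369) (nat_lit 5) (nat_lit 371) (nat_lit 348) (nat_lit 301))) (XT.nd (nat_lit 78) (nat_lit 836) (nat_lit 0) (XT.lf (nat_lit 0) (nat_lit 2591686742) (nat_lit 1292) (nat_lit 911800545) (nat_lit 76) (nat_lit 4845857861) (nat_lit 368) (nat_lit 5) (nat_lit 385) (nat_lit 5) (nat_lit 369) (nat_lit 5) (nat_lit 372) (nat_lit 348) (nat_lit 300)) (XT.lf (nat_lit 0) (nat_lit 4313928961) (nat_lit 836) (nat_lit 410744535) (nat_lit 912) (nat_lit 3730135201) (nat_lit 357) (nat_lit 5) (nat_lit 368) (nat_lit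 5) (nat_lit 369) (nat_lit 5) (nat_lit 373) (nat_lit 348) (nat_lit 299))))) (XT.nd (nat_lit 312) (nat_lit 1216) (nat_lit 0) (XT.nd (nat_lit 156) (nat_lit 1140) (nat_lit 0) (XT.nd (nat_lit 78) (nat_lit 76) (nat_lit 0) (XT.lf (nat_lit 0) (nat_lit 1098602640) (nat_lit 608) (nat_lit 5821107611) (nat_lit 684) (nat_lit 1643784089) (nat_lit 349) (nat_lit 5) (nat_lit 357) (nat_lit 5) (nat_lit 358) (nat_lit 5) (nat_lit 374) (nat_lit 348) (nat_lit 298)) (XT.lf (nat_lit 0) (nat_lit 493608309) (nat_lit 684) (nat_lit 2151885896) (nat_lit 76) (nat_lit 6029851424) (nat_lit 348) (nat_lit 5) (nat_lit 357) (nat_lit 5) (nat_lit 349) (nat_lit 5) (nat_lit 375) (nat_lit 348) (nat_lit 297))) (XT.nd (nat_lit 78) (nat_lit 532) (nat_lit 0) (XT.lf (nat_lit 0) (nat_lit 2653911019) (nat_lit 684) (nat_lit 5475033071) (nat_lit 76) (nat_lit 661365306) (nat_lit 340) (nat_lit 5) (nat_lit 349) (nat_lit 5) (nat_lit 341) (nat_lit 5) (nat_lit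 376) (nat_lit 348) (nat_lit 296)) (XT.lf (nat_lit 0) (nat_lit 8244632) (nat_lit 532) (nat_lit 4873305150) (nat_lit 608) (nat_lit 4027096484) (nat_lit 333) (nat_lit 5) (nat_lit 340) (nat_lit 5) (nat_lit 341) (nat_lit 5) (nat_lit 377) (nat_lit 348) (nat_lit 295)))) (XT.nd (nat_lit 156) (nat_lit 532) (nat_lit 0) (XT.nd (nat_lit 78) (nat_lit 684) (nat_lit 0) (XT.lf (nat_lit 0) (nat_lit 5720721219) (nat_lit 532) (nat_lit 1465767197) (nat_lit 608) (nat_lit 1843730705) (nat_lit 333) (nat_lit 5) (nat_lit 340) (nat_lit 5) (nat_lit 341) (nat_lit 5) (nat_lit 378) (nat_lit 348) (nat_lit 294)) (XT.lf (nat_lit 0) (nat_lit 396690331) (nat_lit 684) (nat_lit 6729879739) (nat_lit 76) (nat_lit 2028768461) (nat_lit 324) (nat_lit 5) (nat_lit 333) (nat_lit 5) (nat_lit 325) (nat_lit 5) (nat_lit 379) (nat_lit 348) (nat_lit 293))) (XT.nd (nat_lit 78) (nat_lit 532) (nat_lit 0) (XT.lf (nat_lit 0) (nat_lit 2672386951) (nat_lit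 684) (nat_lit 963822936) (nat_lit 76) (nat_lit 5647300390) (nat_lit 324) (nat_lit 5) (nat_lit 333) (nat_lit 5) (nat_lit 325) (nat_lit 5) (nat_lit 380) (nat_lit 348) (nat_lit 292)) (XT.lf (nat_lit 0) (nat_lit 5022829050) (nat_lit 608) (nat_lit 4388493935) (nat_lit 76) (nat_lit 4009954) (nat_lit 317) (nat_lit 5) (nat_lit 325) (nat_lit 5) (nat_lit 318) (nat_lit 5) (nat_lit 381) (nat_lit 348) (nat_lit 291))))))))
noncomputable def xc119 : XT := (XT.nd (nat_lit 2418) (nat_lit 4636) (nat_lit 0) (XT.nd (nat_lit 1170) (nat_lit 3344) (nat_lit 0) (XT.nd (nat_lit 546) (nat_lit 2128) (nat_lit 0) (XT.nd (nat_lit 234) (nat_lit 1520) (nat_lit 0) (XT.nd (nat_lit 78) (nat_lit 532) (nat_lit 0) (XT.lf (nat_lit 0) (nat_lit 1614404442) (nat_lit 532) (nat_lit 5849574895) (nat_lit 608) (nat_lit 2086525094) (nat_lit 310) (nat_lit 5) (nat_lit 317) (nat_lit 5) (nat_lit 318) (nat_lit 5) (nat_lit 382) (nat_lit 348) (nat_lit 290))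 (XT.nd (nat_lit 78) (nat_lit 456) (nat_lit 0) (XT.lf (nat_lit 0) (nat_lit 286949611) (nat_lit 608) (nat_lit 1851774942) (nat_lit 76) (nat_lit 7550804816) (nat_lit 309) (nat_lit 5) (nat_lit 317) (nat_lit 5) (nat_lit 310) (nat_lit 5) (nat_lit 383) (nat_lit 348) (nat_lit 289)) (XT.lf (nat_lit 0) (nat_lit 2709451601) (nat_lit 532) (nat_lit 5413926372) (nat_lit 76) (nat_lit 1708134518) (nat_lit 303) (nat_lit 5) (nat_lit 310) (nat_lit 5) (nat_lit 304) (nat_lit 5) (nat_lit 384) (nat_lit 348) (nat_lit 288)))) (XT.nd (nat_lit 156) (nat_lit 988) (nat_lit 0) (XT.nd (nat_lit 78) (nat_lit 0) (nat_lit 0) (XT.lf (nat_lit 0) (nat_lit 884925294) (nat_lit 532) (nat_lit 4329302840) (nat_lit 608) (nat_lit 4763238988) (nat_lit 296) (nat_lit 5) (nat_lit 303) (nat_lit 5) (nat_lit 304) (nat_lit 5) (nat_lit 385) (nat_lit 348) (nat_lit 287)) (XT.lf (nat_lit 0) (nat_lit 7437405668) (nat_lit 532) (nat_lit 373135180) (nat_lit 608)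 (nat_lit 2316767758) (nat_lit 296) (nat_lit 5) (nat_lit 303) (nat_lit 5) (nat_lit 304) (nat_lit 5) (nat_lit 386) (nat_lit 348) (nat_lit 286))) (XT.nd (nat_lit 78) (nat_lit 456) (nat_lit 0) (XT.lf (nat_lit 0) (nat_lit 235317621) (nat_lit 532) (nat_lit 6383563735) (nat_lit 76) (nat_lit 3661619913) (nat_lit 289) (nat_lit 5) (nat_lit 296) (nat_lit 5) (nat_lit 290) (nat_lit 5) (nat_lit 387) (nat_lit 348) (nat_lit 285)) (XT.lf (nat_lit 0) (nat_lit 230349879) (nat_lit 456) (nat_lit 2583438357) (nat_lit 532) (nat_lit 7623921706) (nat_lit 283) (nat_lit 5) (nat_lit 289) (nat_lit 5) (nat_lit 290) (nat_lit 5) (nat_lit 388) (nat_lit 348) (nat_lit 284))))) (XT.nd (nat_lit 312) (nat_lit 1216) (nat_lit 0) (XT.nd (nat_lit 156) (nat_lit 532) (nat_lit 0) (XT.nd (nat_lit 78) (nat_lit 380) (nat_lit 0) (XT.lf (nat_lit 0) (nat_lit 5513425179) (nat_lit 532) (nat_lit 3486759205) (nat_lit 76) (nat_lit 1598136125) (nat_lit 283)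 (nat_lit 5) (nat_lit 290) (nat_lit 5) (nat_lit 284) (nat_lit 5) (nat_lit 389) (nat_lit 348) (nat_lit 283)) (XT.lf (nat_lit 0) (nat_lit 3431367230) (nat_lit 380) (nat_lit 4885898655) (nat_lit 456) (nat_lit 2445787067) (nat_lit 278) (nat_lit 5) (nat_lit 283) (nat_lit 5) (nat_lit 284) (nat_lit 5) (nat_lit 390) (nat_lit 348) (nat_lit 282))) (XT.nd (nat_lit 78) (nat_lit 456) (nat_lit 0) (XT.lf (nat_lit 0) (nat_lit 267639461) (nat_lit 456) (nat_lit 351851325) (nat_lit 76) (nat_lit 10313144131) (nat_lit 277) (nat_lit 5) (nat_lit 283) (nat_lit 5) (nat_lit 278) (nat_lit 5) (nat_lit 391) (nat_lit 348) (nat_lit 281)) (XT.lf (nat_lit 0) (nat_lit 3082682233) (nat_lit 532) (nat_lit 4239212482) (nat_lit 76) (nat_lit 3782602014) (nat_lit 271) (nat_lit 5) (nat_lit 278) (nat_lit 5) (nat_lit 272) (nat_lit 5) (nat_lit 392) (nat_lit 348) (nat_lit 280)))) (XT.nd (nat_lit 156) (nat_lit 836) (nat_lit 0) (XT.nd (nat_lit 78)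 (nat_lit 0) (nat_lit 0) (XT.lf (nat_lit 0) (nat_lit 3032890100) (nat_lit 380) (nat_lit 2954557860) (nat_lit 456) (nat_lit 5293908285) (nat_lit 266) (nat_lit 5) (nat_lit 271) (nat_lit 5) (nat_lit 272) (nat_lit 5) (nat_lit 393) (nat_lit 348) (nat_lit 279)) (XT.lf (nat_lit 0) (nat_lit 9004266536) (nat_lit 456) (nat_lit 912750528) (nat_lit 76) (nat_lit 1545757185) (nat_lit 266) (nat_lit 5) (nat_lit 272) (nat_lit 5) (nat_lit 267) (nat_lit 5) (nat_lit 394) (nat_lit 348) (nat_lit 278))) (XT.nd (nat_lit 78) (nat_lit 380) (nat_lit 0) (XT.lf (nat_lit 0) (nat_lit 515016124) (nat_lit 456) (nat_lit 4952289920) (nat_lit 76) (nat_lit 6180333263) (nat_lit 260) (nat_lit 5) (nat_lit 266) (nat_lit 5) (nat_lit 261) (nat_lit 5) (nat_lit 395) (nat_lit 348) (nat_lit 277)) (XT.lf (nat_lit 0) (nat_lit 2696626181) (nat_lit 380) (nat_lit 834945471) (nat_lit 456) (nat_lit 8305651228) (nat_lit 255) (nat_lit 5) (nat_lit 260) (nat_lit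 5) (nat_lit 261) (nat_lit 5) (nat_lit 396) (nat_lit 348) (nat_lit 276)))))) (XT.nd (nat_lit 624) (nat_lit 1520) (nat_lit 0) (XT.nd (nat_lit 312) (nat_lit 1064) (nat_lit 0) (XT.nd (nat_lit 156) (nat_lit 380) (nat_lit 0) (XT.nd (nat_lit 78) (nat_lit 380) (nat_lit 0) (XT.lf (nat_lit 0) (nat_lit 6695369131) (nat_lit 456) (nat_lit 1437384817) (nat_lit 76) (nat_lit 3898037655) (nat_lit 255) (nat_lit 5) (nat_lit 261) (nat_lit 5) (nat_lit 256) (nat_lit 5) (nat_lit 397) (nat_lit 348) (nat_lit 275)) (XT.lf (nat_lit 0) (nat_lit 6573646840) (nat_lit 380) (nat_lit 3421213483) (nat_lit 456) (nat_lit 2234083669) (nat_lit 250) (nat_lit 5) (nat_lit 255) (nat_lit 5) (nat_lit 256) (nat_lit 5) (nat_lit 398) (nat_lit 348) (nat_lit 274))) (XT.nd (nat_lit 78) (nat_lit 0) (nat_lit 0) (XT.lf (nat_lit 0) (nat_lit 963050224) (nat_lit 380) (nat_lit 10030471551) (nat_lit 76) (nat_lit 1438597439) (nat_lit 245) (nat_lit 5) (nat_lit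 250) (nat_lit 5) (nat_lit 246) (nat_lit 5) (nat_lit 399) (nat_lit 348) (nat_lit 273)) (XT.lf (nat_lit 0) (nat_lit 4272596389) (nat_lit 380) (nat_lit 1923823181) (nat_lit 76) (nat_lit 6442464499) (nat_lit 245) (nat_lit 5) (nat_lit 250) (nat_lit 5) (nat_lit 246) (nat_lit 5) (nat_lit 400) (nat_lit 348) (nat_lit 272)))) (XT.nd (nat_lit 156) (nat_lit 380) (nat_lit 0) (XT.nd (nat_lit 78) (nat_lit 304) (nat_lit 0) (XT.lf (nat_lit 0) (nat_lit 6510527587) (nat_lit 380) (nat_lit 1204217430) (nat_lit 456) (nat_lit 5136107369) (nat_lit 240) (nat_lit 5) (nat_lit 245) (nat_lit 5) (nat_lit 246) (nat_lit 5) (nat_lit 401) (nat_lit 348) (nat_lit 271)) (XT.lf (nat_lit 0) (nat_lit 2129395657) (nat_lit 304) (nat_lit 9179755294) (nat_lit 380) (nat_lit 1758559017) (nat_lit 236) (nat_lit 5) (nat_lit 240) (nat_lit 5) (nat_lit 241) (nat_lit 5) (nat_lit 402) (nat_lit 348) (nat_lit 270))) (XT.nd (nat_lit 78) (nat_lit 304) (nat_lit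 0) (XT.lf (nat_lit 0) (nat_lit 1734533332) (nat_lit 380) (nat_lit 2378081339) (nat_lit 76) (nat_lit 9176528892) (nat_lit 235) (nat_lit 5) (nat_lit 240) (nat_lit 5) (nat_lit 236) (nat_lit 5) (nat_lit 403) (nat_lit 348) (nat_lit 269)) (XT.lf (nat_lit 0) (nat_lit 5342959875) (nat_lit 380) (nat_lit 7020198969) (nat_lit 76) (nat_lit 1152162375) (nat_lit 231) (nat_lit 5) (nat_lit 236) (nat_lit 5) (nat_lit 232) (nat_lit 5) (nat_lit 404) (nat_lit 348) (nat_lit 268))))) (XT.nd (nat_lit 312) (nat_lit 608) (nat_lit 0) (XT.nd (nat_lit 156) (nat_lit 608) (nat_lit 0) (XT.nd (nat_lit 78) (nat_lit 0) (nat_lit 0) (XT.lf (nat_lit 0) (nat_lit 1889577679) (nat_lit 304) (nat_lit 7225524059) (nat_lit 380) (nat_lit 4631518593) (nat_lit 227) (nat_lit 5) (nat_lit 231) (nat_lit 5) (nat_lit 232) (nat_lit 5) (nat_lit 405) (nat_lit 348) (nat_lit 267)) (XT.lf (nat_lit 0) (nat_lit 11168922461) (nat_lit 304) (nat_lit 1875109491) (nat_lit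 380) (nat_lit 939517739) (nat_lit 227) (nat_lit 5) (nat_lit 231) (nat_lit 5) (nat_lit 232) (nat_lit 5) (nat_lit 406) (nat_lit 348) (nat_lit 266))) (XT.nd (nat_lit 78) (nat_lit 228) (nat_lit 0) (XT.lf (nat_lit 0) (nat_lit 2879391569) (nat_lit 380) (nat_lit 7702814820) (nat_lit 76) (nat_lit 3642394228) (nat_lit 222) (nat_lit 5) (nat_lit 227) (nat_lit 5) (nat_lit 223) (nat_lit 5) (nat_lit 407) (nat_lit 348) (nat_lit 265)) (XT.lf (nat_lit 0) (nat_lit 1687534636) (nat_lit 228) (nat_lit 5143459057) (nat_lit 304) (nat_lit 7640500046) (nat_lit 219) (nat_lit 5) (nat_lit 222) (nat_lit 5) (nat_lit 223) (nat_lit 5) (nat_lit 408) (nat_lit 348) (nat_lit 264)))) (XT.nd (nat_lit 156) (nat_lit 228) (nat_lit 0) (XT.nd (nat_lit 78) (nat_lit 380) (nat_lit 0) (XT.lf (nat_lit 0) (nat_lit 10957860316) (nat_lit 304) (nat_lit 3252584455) (nat_lit 76) (nat_lit 513647391) (nat_lit 219) (nat_lit 5) (nat_lit 223) (nat_lit 5) (nat_lit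 220) (nat_lit 5) (nat_lit 409) (nat_lit 348) (nat_lit 263)) (XT.lf (nat_lit 0) (nat_lit 309680686) (nat_lit 380) (nat_lit 8382229340) (nat_lit 76) (nat_lit 6289600063) (nat_lit 214) (nat_lit 5) (nat_lit 219) (nat_lit 5) (nat_lit 215) (nat_lit 5) (nat_lit 410) (nat_lit 348) (nat_lit 262))) (XT.nd (nat_lit 78) (nat_lit 0) (nat_lit 0) (XT.lf (nat_lit 0) (nat_lit 1519400473) (nat_lit 228) (nat_lit 2935178807) (nat_lit 304) (nat_lit 10790280405) (nat_lit 211) (nat_lit 5) (nat_lit 214) (nat_lit 5) (nat_lit 215) (nat_lit 5) (nat_lit 411) (nat_lit 348) (nat_lit 261)) (XT.lf (nat_lit 0) (nat_lit 8812931781) (nat_lit 304) (nat_lit 3693841133) (nat_lit 76) (nat_lit 3006663646) (nat_lit 211) (nat_lit 5) (nat_lit 215) (nat_lit 5) (nat_lit 212) (nat_lit 5) (nat_lit 412) (nat_lit 348) (nat_lit 260))))))) (XT.nd (nat_lit 1170) (nat_lit 2128) (nat_lit 0) (XT.nd (nat_lit 546) (nat_lit 1140) (nat_lit 0) (XT.nd (nat_lit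 234) (nat_lit 760) (nat_lit 0) (XT.nd (nat_lit 78) (nat_lit 304) (nat_lit 0) (XT.lf (nat_lit 0) (nat_lit 6701050518) (nat_lit 304) (nat_lit 6670035065) (nat_lit 380) (nat_lit 2416913636) (nat_lit 207) (nat_lit 5) (nat_lit 211) (nat_lit 5) (nat_lit 212) (nat_lit 5) (nat_lit 413) (nat_lit 348) (nat_lit 259)) (XT.nd (nat_lit 78) (nat_lit 0) (nat_lit 0) (XT.lf (nat_lit 0) (nat_lit 1381770827) (nat_lit 228) (nat_lit 601106528) (nat_lit 304) (nat_lit 14086547276) (nat_lit 203) (nat_lit 5) (nat_lit 206) (nat_lit 5) (nat_lit 207) (nat_lit 5) (nat_lit 414) (nat_lit 348) (nat_lit 258)) (XT.lf (nat_lit 0) (nat_lit 6588924410) (nat_lit 304) (nat_lit 4124524359) (nat_lit 76) (nat_lit 5641440942) (nat_lit 203) (nat_lit 5) (nat_lit 207) (nat_lit 5) (nat_lit 204) (nat_lit 5) (nat_lit 415) (nat_lit 348) (nat_lit 257)))) (XT.nd (nat_lit 156) (nat_lit 304) (nat_lit 0) (XT.nd (nat_lit 78) (nat_lit 228) (nat_lit 0) (XT.lf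 (nat_lit 0) (nat_lit 6844604190) (nat_lit 228) (nat_lit 4536858665) (nat_lit 304) (nat_lit 5266006589) (nat_lit 200) (nat_lit 5) (nat_lit 203) (nat_lit 5) (nat_lit 204) (nat_lit 5) (nat_lit 416) (nat_lit 348) (nat_lit 256)) (XT.lf (nat_lit 0) (nat_lit 1247487599) (nat_lit 228) (nat_lit 15118622471) (nat_lit 304) (nat_lit 581266521) (nat_lit 197) (nat_lit 5) (nat_lit 200) (nat_lit 5) (nat_lit 201) (nat_lit 5) (nat_lit 417) (nat_lit 348) (nat_lit 255))) (XT.nd (nat_lit 78) (nat_lit 228) (nat_lit 0) (XT.lf (nat_lit 0) (nat_lit 4282906818) (nat_lit 304) (nat_lit 4548466762) (nat_lit 76) (nat_lit 8420032276) (nat_lit 196) (nat_lit 5) (nat_lit 200) (nat_lit 5) (nat_lit 197) (nat_lit 5) (nat_lit 418) (nat_lit 348) (nat_lit 254)) (XT.lf (nat_lit 0) (nat_lit 7031318198) (nat_lit 228) (nat_lit 2295086716) (nat_lit 304) (nat_lit 8236625961) (nat_lit 193) (nat_lit 5) (nat_lit 196) (nat_lit 5) (nat_lit 197) (nat_lit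 5) (nat_lit 419) (nat_lit 348) (nat_lit 253))))) (XT.nd (nat_lit 312) (nat_lit 456) (nat_lit 0) (XT.nd (nat_lit 156) (nat_lit 380) (nat_lit 0) (XT.nd (nat_lit 78) (nat_lit 76) (nat_lit 0) (XT.lf (nat_lit 0) (nat_lit 1109874218) (nat_lit 228) (nat_lit 13488687575) (nat_lit 304) (nat_lit 3283122235) (nat_lit 190) (nat_lit 5) (nat_lit 193) (nat_lit 5) (nat_lit 194) (nat_lit 5) (nat_lit 420) (nat_lit 348) (nat_lit 252)) (XT.lf (nat_lit 0) (nat_lit 1891336640) (nat_lit 304) (nat_lit 4969226425) (nat_lit 76) (nat_lit 11345573803) (nat_lit 189) (nat_lit 5) (nat_lit 193) (nat_lit 5) (nat_lit 190) (nat_lit 5) (nat_lit 421) (nat_lit 348) (nat_lit 251))) (XT.nd (nat_lit 78) (nat_lit 152) (nat_lit 0) (XT.lf (nat_lit 0) (nat_lit 7203740035) (nat_lit 304) (nat_lit 11278608281) (nat_lit 76) (nat_lit 55538844) (nat_lit 186) (nat_lit 5) (nat_lit 190) (nat_lit 5) (nat_lit 187) (nat_lit 5) (nat_lit 422) (nat_lit 348)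 (nat_lit 250)) (XT.lf (nat_lit 0) (nat_lit 992472715) (nat_lit 152) (nat_lit 11789689082) (nat_lit 228) (nat_lit 6094228777) (nat_lit 184) (nat_lit 5) (nat_lit 186) (nat_lit 5) (nat_lit 187) (nat_lit 5) (nat_lit 423) (nat_lit 348) (nat_lit 249)))) (XT.nd (nat_lit 156) (nat_lit 152) (nat_lit 0) (XT.nd (nat_lit 78) (nat_lit 304) (nat_lit 0) (XT.lf (nat_lit 0) (nat_lit 13826358377) (nat_lit 152) (nat_lit 4794248023) (nat_lit 228) (nat_lit 601662585) (nat_lit 184) (nat_lit 5) (nat_lit 186) (nat_lit 5) (nat_lit 187) (nat_lit 5) (nat_lit 424) (nat_lit 348) (nat_lit 248)) (XT.lf (nat_lit 0) (nat_lit 5032823058) (nat_lit 304) (nat_lit 12070566549) (nat_lit 76) (nat_lit 2471402282) (nat_lit 180) (nat_lit 5) (nat_lit 184) (nat_lit 5) (nat_lit 181) (nat_lit 5) (nat_lit 425) (nat_lit 348) (nat_lit 247))) (XT.nd (nat_lit 78) (nat_lit 0) (nat_lit 0) (XT.lf (nat_lit 0) (nat_lit 893186479) (nat_lit 152) (nat_lit 10021458209)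 (nat_lit 228) (nat_lit 9020355253) (nat_lit 178) (nat_lit 5) (nat_lit 180) (nat_lit 5) (nat_lit 181) (nat_lit 5) (nat_lit 426) (nat_lit 348) (nat_lit 246)) (XT.lf (nat_lit 0) (nat_lit 14457640939) (nat_lit 152) (nat_lit 2616741944) (nat_lit 228) (nat_lit 3228587493) (nat_lit 178) (nat_lit 5) (nat_lit 180) (nat_lit 5) (nat_lit 181) (nat_lit 5) (nat_lit 427) (nat_lit 348) (nat_lit 245)))))) (XT.nd (nat_lit 624) (nat_lit 912) (nat_lit 0) (XT.nd (nat_lit 312) (nat_lit 532) (nat_lit 0) (XT.nd (nat_lit 156) (nat_lit 228) (nat_lit 0) (XT.nd (nat_lit 78) (nat_lit 152) (nat_lit 0) (XT.lf (nat_lit 0) (nat_lit 2787870523) (nat_lit 304) (nat_lit 12889858969) (nat_lit 76) (nat_lit 5000330823) (nat_lit 174) (nat_lit 5) (nat_lit 178) (nat_lit 5) (nat_lit 175) (nat_lit 5) (nat_lit 428) (nat_lit 348) (nat_lit 244)) (XT.lf (nat_lit 0) (nat_lit 810166326) (nat_lit 152) (nat_lit 8183150019) (nat_lit 228) (nat_lit 12067926055)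 (nat_lit 172) (nat_lit 5) (nat_lit 174) (nat_lit 5) (nat_lit 175) (nat_lit 5) (nat_lit 429) (nat_lit 348) (nat_lit 243))) (XT.nd (nat_lit 78) (nat_lit 228) (nat_lit 0) (XT.lf (nat_lit 0) (nat_lit 15150652714) (nat_lit 152) (nat_lit 344759685) (nat_lit 228) (nat_lit 5957192943) (nat_lit 172) (nat_lit 5) (nat_lit 174) (nat_lit 5) (nat_lit 175) (nat_lit 5) (nat_lit 430) (nat_lit 348) (nat_lit 242)) (XT.lf (nat_lit 0) (nat_lit 464668152) (nat_lit 228) (nat_lit 13740747671) (nat_lit 76) (nat_lit 7646164823) (nat_lit 169) (nat_lit 5) (nat_lit 172) (nat_lit 5) (nat_lit 170) (nat_lit 5) (nat_lit 431) (nat_lit 348) (nat_lit 241)))) (XT.nd (nat_lit 156) (nat_lit 380) (nat_lit 0) (XT.nd (nat_lit 78) (nat_lit 0) (nat_lit 0) (XT.lf (nat_lit 0) (nat_lit 741783620) (nat_lit 152) (nat_lit 6273282783) (nat_lit 228) (nat_lit 15244020894) (nat_lit 167) (nat_lit 5) (nat_lit 169) (nat_lit 5) (nat_lit 170) (nat_lit 5) (nat_lit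 432) (nat_lit 348) (nat_lit 240)) (XT.lf (nat_lit 0) (nat_lit 13901231655) (nat_lit 228) (nat_lit 6788126134) (nat_lit 76) (nat_lit 1985283707) (nat_lit 167) (nat_lit 5) (nat_lit 170) (nat_lit 5) (nat_lit 168) (nat_lit 5) (nat_lit 433) (nat_lit 348) (nat_lit 239))) (XT.nd (nat_lit 78) (nat_lit 228) (nat_lit 0) (XT.lf (nat_lit 0) (nat_lit 8452426896) (nat_lit 152) (nat_lit 12666366377) (nat_lit 228) (nat_lit 1980124706) (nat_lit 165) (nat_lit 5) (nat_lit 167) (nat_lit 5) (nat_lit 168) (nat_lit 5) (nat_lit 434) (nat_lit 348) (nat_lit 238)) (XT.lf (nat_lit 0) (nat_lit 686606441) (nat_lit 152) (nat_lit 4289770566) (nat_lit 228) (nat_lit 18556379456) (nat_lit 162) (nat_lit 5) (nat_lit 164) (nat_lit 5) (nat_lit 165) (nat_lit 5) (nat_lit 435) (nat_lit 348) (nat_lit 237))))) (XT.nd (nat_lit 312) (nat_lit 532) (nat_lit 0) (XT.nd (nat_lit 156) (nat_lit 228) (nat_lit 0) (XT.nd (nat_lit 78) (nat_lit 152) (nat_lit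 0) (XT.lf (nat_lit 0) (nat_lit 12274412235) (nat_lit 228) (nat_lit 7291454463) (nat_lit 76) (nat_lit 4407976139) (nat_lit 162) (nat_lit 5) (nat_lit 165) (nat_lit 5) (nat_lit 163) (nat_lit 5) (nat_lit 436) (nat_lit 348) (nat_lit 236)) (XT.lf (nat_lit 0) (nat_lit 8827186640) (nat_lit 152) (nat_lit 11073635047) (nat_lit 228) (nat_lit 4524057121) (nat_lit 160) (nat_lit 5) (nat_lit 162) (nat_lit 5) (nat_lit 163) (nat_lit 5) (nat_lit 437) (nat_lit 348) (nat_lit 235))) (XT.nd (nat_lit 78) (nat_lit 0) (nat_lit 0) (XT.lf (nat_lit 0) (nat_lit 643378451) (nat_lit 152) (nat_lit 2229949670) (nat_lit 228) (nat_lit 22013410442) (nat_lit 157) (nat_lit 5) (nat_lit 159) (nat_lit 5) (nat_lit 160) (nat_lit 5) (nat_lit 438) (nat_lit 348) (nat_lit 234)) (XT.lf (nat_lit 0) (nat_lit 10609112681) (nat_lit 228) (nat_lit 7811368387) (nat_lit 76) (nat_lit 6934407060) (nat_lit 157) (nat_lit 5) (nat_lit 160) (nat_lit 5) (nat_lit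 158) (nat_lit 5) (nat_lit 439) (nat_lit 348) (nat_lit 233)))) (XT.nd (nat_lit 156) (nat_lit 152) (nat_lit 0) (XT.nd (nat_lit 78) (nat_lit 228) (nat_lit 0) (XT.lf (nat_lit 0) (nat_lit 9240182225) (nat_lit 152) (nat_lit 9430423190) (nat_lit 228) (nat_lit 7163667725) (nat_lit 155) (nat_lit 5) (nat_lit 157) (nat_lit 5) (nat_lit 158) (nat_lit 5) (nat_lit 440) (nat_lit 348) (nat_lit 232)) (XT.lf (nat_lit 0) (nat_lit 611000183) (nat_lit 152) (nat_lit 90599455) (nat_lit 228) (nat_lit 25624204791) (nat_lit 152) (nat_lit 5) (nat_lit 154) (nat_lit 5) (nat_lit 155) (nat_lit 5) (nat_lit 441) (nat_lit 348) (nat_lit 231))) (XT.nd (nat_lit 78) (nat_lit 152) (nat_lit 0) (XT.lf (nat_lit 0) (nat_lit 8902501274) (nat_lit 228) (nat_lit 8350564261) (nat_lit 76) (nat_lit 9569578533) (nat_lit 152) (nat_lit 5) (nat_lit 155) (nat_lit 5) (nat_lit 153) (nat_lit 5) (nat_lit 442) (nat_lit 348) (nat_lit 230)) (XT.lf (nat_lit 0) (nat_lit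 9692029237) (nat_lit 152) (nat_lit 7734792978) (nat_lit 228) (nat_lit 9905244913) (nat_lit 150) (nat_lit 5) (nat_lit 152) (nat_lit 5) (nat_lit 153) (nat_lit 5) (nat_lit 443) (nat_lit 348) (nat_lit 229))))))))
noncomputable def xc120 : XT := (XT.nd (nat_lit 2340) (nat_lit 1444) (nat_lit 0) (XT.nd (nat_lit 1170) (nat_lit 1368) (nat_lit 0) (XT.nd (nat_lit 546) (nat_lit 836) (nat_lit 0) (XT.nd (nat_lit 234) (nat_lit 380) (nat_lit 0) (XT.nd (nat_lit 78) (nat_lit 228) (nat_lit 0) (XT.lf (nat_lit 0) (nat_lit 552023463) (nat_lit 76) (nat_lit 25748590766) (nat_lit 152) (nat_lit 1553346409) (nat_lit 149) (nat_lit 5) (nat_lit 150) (nat_lit 5) (nat_lit 151) (nat_lit 4) (nat_lit 444) (nat_lit 348) (nat_lit 228)) (XT.nd (nat_lit 78) (nat_lit 152) (nat_lit 0) (XT.lf (nat_lit 0) (nat_lit 7151445710) (nat_lit 152) (nat_lit 8911711178) (nat_lit 76) (nat_lit 12319124548) (nat_lit 148) (nat_lit 5) (nat_lit 150) (nat_lit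 5) (nat_lit 149) (nat_lit 5) (nat_lit 445) (nat_lit 348) (nat_lit 227)) (XT.lf (nat_lit 0) (nat_lit 10183571602) (nat_lit 152) (nat_lit 5984377658) (nat_lit 228) (nat_lit 12755587558) (nat_lit 146) (nat_lit 5) (nat_lit 148) (nat_lit 5) (nat_lit 149) (nat_lit 5) (nat_lit 446) (nat_lit 348) (nat_lit 226)))) (XT.nd (nat_lit 156) (nat_lit 228) (nat_lit 0) (XT.nd (nat_lit 78) (nat_lit 76) (nat_lit 0) (XT.lf (nat_lit 0) (nat_lit 492479093) (nat_lit 76) (nat_lit 25084297845) (nat_lit 152) (nat_lit 3900598051) (nat_lit 145) (nat_lit 5) (nat_lit 146) (nat_lit 5) (nat_lit 147) (nat_lit 4) (nat_lit 447) (nat_lit 348) (nat_lit 225)) (XT.lf (nat_lit 0) (nat_lit 5352514403) (nat_lit 152) (nat_lit 9497470763) (nat_lit 76) (nat_lit 15189307742) (nat_lit 144) (nat_lit 5) (nat_lit 146) (nat_lit 5) (nat_lit 145) (nat_lit 5) (nat_lit 448) (nat_lit 348) (nat_lit 224))) (XT.nd (nat_lit 78) (nat_lit 76) (nat_lit 0) (XT.lf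 (nat_lit 0) (nat_lit 10715874213) (nat_lit 152) (nat_lit 4176395462) (nat_lit 228) (nat_lit 15722016666) (nat_lit 142) (nat_lit 5) (nat_lit 144) (nat_lit 5) (nat_lit 145) (nat_lit 5) (nat_lit 449) (nat_lit 348) (nat_lit 223)) (XT.lf (nat_lit 0) (nat_lit 439516048) (nat_lit 76) (nat_lit 24429800389) (nat_lit 152) (nat_lit 6332680176) (nat_lit 141) (nat_lit 5) (nat_lit 142) (nat_lit 5) (nat_lit 143) (nat_lit 4) (nat_lit 450) (nat_lit 348) (nat_lit 222))))) (XT.nd (nat_lit 312) (nat_lit 456) (nat_lit 0) (XT.nd (nat_lit 156) (nat_lit 152) (nat_lit 0) (XT.nd (nat_lit 78) (nat_lit 152) (nat_lit 0) (XT.lf (nat_lit 0) (nat_lit 3501975522) (nat_lit 152) (nat_lit 10110515767) (nat_lit 76) (nat_lit 18187020738) (nat_lit 140) (nat_lit 5) (nat_lit 142) (nat_lit 5) (nat_lit 141) (nat_lit 5) (nat_lit 451) (nat_lit 348) (nat_lit 221)) (XT.lf (nat_lit 0) (nat_lit 11290217488) (nat_lit 152) (nat_lit 2307659756) (nat_lit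 228) (nat_lit 18812390058) (nat_lit 138) (nat_lit 5) (nat_lit 140) (nat_lit 5) (nat_lit 141) (nat_lit 5) (nat_lit 452) (nat_lit 348) (nat_lit 220))) (XT.nd (nat_lit 78) (nat_lit 76) (nat_lit 0) (XT.lf (nat_lit 0) (nat_lit 392402135) (nat_lit 76) (nat_lit 23785878363) (nat_lit 152) (nat_lit 8855616000) (nat_lit 137) (nat_lit 5) (nat_lit 138) (nat_lit 5) (nat_lit 139) (nat_lit 4) (nat_lit 453) (nat_lit 348) (nat_lit 219)) (XT.lf (nat_lit 0) (nat_lit 1595793897) (nat_lit 152) (nat_lit 10753547682) (nat_lit 76) (nat_lit 21319791834) (nat_lit 136) (nat_lit 5) (nat_lit 138) (nat_lit 5) (nat_lit 137) (nat_lit 5) (nat_lit 454) (nat_lit 348) (nat_lit 218)))) (XT.nd (nat_lit 156) (nat_lit 228) (nat_lit 0) (XT.nd (nat_lit 78) (nat_lit 76) (nat_lit 0) (XT.lf (nat_lit 0) (nat_lit 11908093689) (nat_lit 152) (nat_lit 374585686) (nat_lit 228) (nat_lit 22035120008) (nat_lit 134) (nat_lit 5) (nat_lit 136) (nat_lit 5)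 (nat_lit 137) (nat_lit 5) (nat_lit 455) (nat_lit 348) (nat_lit 217)) (XT.lf (nat_lit 0) (nat_lit 350486757) (nat_lit 76) (nat_lit 23153170222) (nat_lit 152) (nat_lit 11475863786) (nat_lit 133) (nat_lit 5) (nat_lit 134) (nat_lit 5) (nat_lit 135) (nat_lit 4) (nat_lit 456) (nat_lit 348) (nat_lit 216))) (XT.nd (nat_lit 78) (nat_lit 228) (nat_lit 0) (XT.lf (nat_lit 0) (nat_lit 24221680663) (nat_lit 76) (nat_lit 11055199363) (nat_lit 152) (nat_lit 377745278) (nat_lit 133) (nat_lit 5) (nat_lit 134) (nat_lit 5) (nat_lit 135) (nat_lit 4) (nat_lit 457) (nat_lit 348) (nat_lit 215)) (XT.lf (nat_lit 0) (nat_lit 10960036378) (nat_lit 228) (nat_lit 23788025241) (nat_lit 76) (nat_lit 1595061535) (nat_lit 130) (nat_lit 5) (nat_lit 133) (nat_lit 5) (nat_lit 131) (nat_lit 4) (nat_lit 458) (nat_lit 348) (nat_lit 214)))))) (XT.nd (nat_lit 546) (nat_lit 684) (nat_lit 0) (XT.nd (nat_lit 234) (nat_lit 380) (nat_lit 0) (XT.nd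 (nat_lit 78) (nat_lit 228) (nat_lit 0) (XT.lf (nat_lit 0) (nat_lit 313191820) (nat_lit 76) (nat_lit 22532190281) (nat_lit 152) (nat_lit 14200330950) (nat_lit 129) (nat_lit 5) (nat_lit 130) (nat_lit 5) (nat_lit 131) (nat_lit 4) (nat_lit 459) (nat_lit 348) (nat_lit 213)) (XT.nd (nat_lit 78) (nat_lit 228) (nat_lit 0) (XT.lf (nat_lit 0) (nat_lit 25598427830) (nat_lit 76) (nat_lit 9715187015) (nat_lit 152) (nat_lit 2448976000) (nat_lit 129) (nat_lit 5) (nat_lit 130) (nat_lit 5) (nat_lit 131) (nat_lit 4) (nat_lit 460) (nat_lit 348) (nat_lit 212)) (XT.lf (nat_lit 0) (nat_lit 9616147308) (nat_lit 228) (nat_lit 25248881702) (nat_lit 76) (nat_lit 3628672793) (nat_lit 126) (nat_lit 5) (nat_lit 129) (nat_lit 5) (nat_lit 127) (nat_lit 4) (nat_lit 461) (nat_lit 348) (nat_lit 211)))) (XT.nd (nat_lit 156) (nat_lit 304) (nat_lit 0) (XT.nd (nat_lit 78) (nat_lit 0) (nat_lit 0) (XT.lf (nat_lit 0) (nat_lit 280003648) (nat_lit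 76) (nat_lit 21923344099) (nat_lit 152) (nat_lit 17036390562) (nat_lit 125) (nat_lit 5) (nat_lit 126) (nat_lit 5) (nat_lit 127) (nat_lit 4) (nat_lit 462) (nat_lit 348) (nat_lit 210)) (XT.lf (nat_lit 0) (nat_lit 27066417611) (nat_lit 76) (nat_lit 8343270911) (nat_lit 152) (nat_lit 4591221660) (nat_lit 125) (nat_lit 5) (nat_lit 126) (nat_lit 5) (nat_lit 127) (nat_lit 4) (nat_lit 463) (nat_lit 348) (nat_lit 209))) (XT.nd (nat_lit 78) (nat_lit 76) (nat_lit 0) (XT.lf (nat_lit 0) (nat_lit 8244808170) (nat_lit 228) (nat_lit 26794159594) (nat_lit 76) (nat_lit 5738235364) (nat_lit 122) (nat_lit 5) (nat_lit 125) (nat_lit 5) (nat_lit 123) (nat_lit 4) (nat_lit 464) (nat_lit 348) (nat_lit 208)) (XT.lf (nat_lit 0) (nat_lit 250465802) (nat_lit 76) (nat_lit 21326942109) (nat_lit 152) (nat_lit 19991900184) (nat_lit 121) (nat_lit 5) (nat_lit 122) (nat_lit 5) (nat_lit 123) (nat_lit 4) (nat_lit 465) (nat_lit 348) (nat_lit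 207))))) (XT.nd (nat_lit 312) (nat_lit 380) (nat_lit 0) (XT.nd (nat_lit 156) (nat_lit 76) (nat_lit 0) (XT.nd (nat_lit 78) (nat_lit 228) (nat_lit 0) (XT.lf (nat_lit 0) (nat_lit 28630485580) (nat_lit 76) (nat_lit 6937056937) (nat_lit 152) (nat_lit 6809906986) (nat_lit 121) (nat_lit 5) (nat_lit 122) (nat_lit 5) (nat_lit 123) (nat_lit 4) (nat_lit 466) (nat_lit 348) (nat_lit 206)) (XT.lf (nat_lit 0) (nat_lit 6843230284) (nat_lit 228) (nat_lit 28429599835) (nat_lit 76) (nat_lit 7928821116) (nat_lit 118) (nat_lit 5) (nat_lit 121) (nat_lit 5) (nat_lit 119) (nat_lit 4) (nat_lit 467) (nat_lit 348) (nat_lit 205))) (XT.nd (nat_lit 78) (nat_lit 0) (nat_lit 0) (XT.lf (nat_lit 0) (nat_lit 224172696) (nat_lit 76) (nat_lit 20743211669) (nat_lit 152) (nat_lit 23075223057) (nat_lit 117) (nat_lit 5) (nat_lit 118) (nat_lit 5) (nat_lit 119) (nat_lit 4) (nat_lit 468) (nat_lit 348) (nat_lit 204)) (XT.lf (nat_lit 0) (nat_lit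 30295839180) (nat_lit 76) (nat_lit 5493907198) (nat_lit 152) (nat_lit 9110811419) (nat_lit 117) (nat_lit 5) (nat_lit 118) (nat_lit 5) (nat_lit 119) (nat_lit 4) (nat_lit 469) (nat_lit 348) (nat_lit 203)))) (XT.nd (nat_lit 156) (nat_lit 152) (nat_lit 0) (XT.nd (nat_lit 78) (nat_lit 76) (nat_lit 0) (XT.lf (nat_lit 0) (nat_lit 5408435560) (nat_lit 152) (nat_lit 30161223392) (nat_lit 76) (nat_lit 10205903572) (nat_lit 115) (nat_lit 5) (nat_lit 117) (nat_lit 5) (nat_lit 116) (nat_lit 4) (nat_lit 470) (nat_lit 348) (nat_lit 202)) (XT.lf (nat_lit 0) (nat_lit 200763930) (nat_lit 76) (nat_lit 20172307749) (nat_lit 152) (nat_lit 26295251633) (nat_lit 114) (nat_lit 5) (nat_lit 115) (nat_lit 5) (nat_lit 116) (nat_lit 4) (nat_lit 471) (nat_lit 348) (nat_lit 201))) (XT.nd (nat_lit 78) (nat_lit 152) (nat_lit 0) (XT.lf (nat_lit 0) (nat_lit 32068071831) (nat_lit 76) (nat_lit 4010940417) (nat_lit 152) (nat_lit 11500083714)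 (nat_lit 114) (nat_lit 5) (nat_lit 115) (nat_lit 5) (nat_lit 116) (nat_lit 4) (nat_lit 472) (nat_lit 348) (nat_lit 200)) (XT.lf (nat_lit 0) (nat_lit 3937251352) (nat_lit 152) (nat_lit 31995356171) (nat_lit 76) (nat_lit 12575367872) (nat_lit 112) (nat_lit 5) (nat_lit 114) (nat_lit 5) (nat_lit 113) (nat_lit 4) (nat_lit 473) (nat_lit 348) (nat_lit 199))))))) (XT.nd (nat_lit 1170) (nat_lit 380) (nat_lit 0) (XT.nd (nat_lit 546) (nat_lit 532) (nat_lit 0) (XT.nd (nat_lit 234) (nat_lit 304) (nat_lit 0) (XT.nd (nat_lit 78) (nat_lit 152) (nat_lit 0) (XT.lf (nat_lit 0) (nat_lit 179919252) (nat_lit 76) (nat_lit 19614322364) (nat_lit 152) (nat_lit 29661433465) (nat_lit 111) (nat_lit 5) (nat_lit 112) (nat_lit 5) (nat_lit 113) (nat_lit 4) (nat_lit 474) (nat_lit 348) (nat_lit 198)) (XT.nd (nat_lit 78) (nat_lit 152) (nat_lit 0) (XT.lf (nat_lit 0) (nat_lit 33953178846) (nat_lit 76) (nat_lit 2485030532) (nat_lit 152)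 (nat_lit 13984258344) (nat_lit 111) (nat_lit 5) (nat_lit 112) (nat_lit 5) (nat_lit 113) (nat_lit 4) (nat_lit 475) (nat_lit 348) (nat_lit 197)) (XT.lf (nat_lit 0) (nat_lit 2426304150) (nat_lit 152) (nat_lit 33938654552) (nat_lit 76) (nat_lit 15043523076) (nat_lit 109) (nat_lit 5) (nat_lit 111) (nat_lit 5) (nat_lit 110) (nat_lit 4) (nat_lit 476) (nat_lit 348) (nat_lit 196)))) (XT.nd (nat_lit 156) (nat_lit 228) (nat_lit 0) (XT.nd (nat_lit 78) (nat_lit 0) (nat_lit 0) (XT.lf (nat_lit 0) (nat_lit 161354080) (nat_lit 76) (nat_lit 19069292930) (nat_lit 152) (nat_lit 33183799508) (nat_lit 108) (nat_lit 5) (nat_lit 109) (nat_lit 5) (nat_lit 110) (nat_lit 4) (nat_lit 477) (nat_lit 348) (nat_lit 195)) (XT.lf (nat_lit 0) (nat_lit 35957575156) (nat_lit 76) (nat_lit 912803588) (nat_lit 152) (nat_lit 16570273698) (nat_lit 108) (nat_lit 5) (nat_lit 109) (nat_lit 5) (nat_lit 110) (nat_lit 4) (nat_lit 478) (nat_lit 348)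 (nat_lit 194))) (XT.nd (nat_lit 78) (nat_lit 76) (nat_lit 0) (XT.lf (nat_lit 0) (nat_lit 872012162) (nat_lit 152) (nat_lit 35998131693) (nat_lit 76) (nat_lit 17617116768) (nat_lit 106) (nat_lit 5) (nat_lit 108) (nat_lit 5) (nat_lit 107) (nat_lit 4) (nat_lit 479) (nat_lit 348) (nat_lit 193)) (XT.lf (nat_lit 0) (nat_lit 144815530) (nat_lit 76) (nat_lit 18537209641) (nat_lit 152) (nat_lit 36872994873) (nat_lit 105) (nat_lit 5) (nat_lit 106) (nat_lit 5) (nat_lit 107) (nat_lit 4) (nat_lit 480) (nat_lit 348) (nat_lit 192))))) (XT.nd (nat_lit 312) (nat_lit 304) (nat_lit 0) (XT.nd (nat_lit 156) (nat_lit 152) (nat_lit 0) (XT.nd (nat_lit 78) (nat_lit 76) (nat_lit 0) (XT.lf (nat_lit 0) (nat_lit 37385566747) (nat_lit 152) (nat_lit 18562943972) (nat_lit 0) (nat_lit 695524686) (nat_lit 105) (nat_lit 5) (nat_lit 107) (nat_lit 4) (nat_lit 105) (nat_lit 4) (nat_lit 481) (nat_lit 348) (nat_lit 191)) (XT.lf (nat_lit 0)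 (nat_lit 19566562940) (nat_lit 76) (nat_lit 37444395794) (nat_lit 76) (nat_lit 743940165) (nat_lit 104) (nat_lit 4) (nat_lit 105) (nat_lit 5) (nat_lit 105) (nat_lit 4) (nat_lit 482) (nat_lit 348) (nat_lit 190))) (XT.nd (nat_lit 78) (nat_lit 0) (nat_lit 0) (XT.lf (nat_lit 0) (nat_lit 130078878) (nat_lit 76) (nat_lit 18018021991) (nat_lit 152) (nat_lit 40740312099) (nat_lit 102) (nat_lit 5) (nat_lit 103) (nat_lit 5) (nat_lit 104) (nat_lit 4) (nat_lit 483) (nat_lit 348) (nat_lit 189)) (XT.lf (nat_lit 0) (nat_lit 37989675593) (nat_lit 152) (nat_lit 19715284549) (nat_lit 0) (nat_lit 2338819598) (nat_lit 102) (nat_lit 5) (nat_lit 104) (nat_lit 4) (nat_lit 102) (nat_lit 4) (nat_lit 484) (nat_lit 348) (nat_lit 188)))) (XT.nd (nat_lit 156) (nat_lit 76) (nat_lit 0) (XT.nd (nat_lit 78) (nat_lit 152) (nat_lit 0) (XT.lf (nat_lit 0) (nat_lit 20703825064) (nat_lit 76) (nat_lit 38089542334) (nat_lit 76) (nat_lit 2429434020)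 (nat_lit 101) (nat_lit 4) (nat_lit 102) (nat_lit 5) (nat_lit 102) (nat_lit 4) (nat_lit 485) (nat_lit 348) (nat_lit 187)) (XT.lf (nat_lit 0) (nat_lit 116944423) (nat_lit 76) (nat_lit 17511644528) (nat_lit 152) (nat_lit 44797727018) (nat_lit 99) (nat_lit 5) (nat_lit 100) (nat_lit 5) (nat_lit 101) (nat_lit 4) (nat_lit 486) (nat_lit 348) (nat_lit 186))) (XT.nd (nat_lit 78) (nat_lit 76) (nat_lit 0) (XT.lf (nat_lit 0) (nat_lit 38677617173) (nat_lit 152) (nat_lit 20935489947) (nat_lit 0) (nat_lit 4038964409) (nat_lit 99) (nat_lit 5) (nat_lit 101) (nat_lit 4) (nat_lit 99) (nat_lit 4) (nat_lit 487) (nat_lit 348) (nat_lit 185)) (XT.lf (nat_lit 0) (nat_lit 21913588883) (nat_lit 76) (nat_lit 38818334987) (nat_lit 76) (nat_lit 4171461656) (nat_lit 98) (nat_lit 4) (nat_lit 99) (nat_lit 5) (nat_lit 99) (nat_lit 4) (nat_lit 488) (nat_lit 348) (nat_lit 184)))))) (XT.nd (nat_lit 42510) (nat_lit 0) (nat_lit 27132) (XT.nd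 (nat_lit 42198) (nat_lit 0) (nat_lit 28576) (XT.nd (nat_lit 156) (nat_lit 228) (nat_lit 0) (XT.nd (nat_lit 78) (nat_lit 0) (nat_lit 0) (XT.lf (nat_lit 0) (nat_lit 105234697) (nat_lit 76) (nat_lit 17017961933) (nat_lit 152) (nat_lit 49057937313) (nat_lit 96) (nat_lit 5) (nat_lit 97) (nat_lit 5) (nat_lit 98) (nat_lit 4) (nat_lit 489) (nat_lit 348) (nat_lit 183)) (XT.lf (nat_lit 0) (nat_lit 39453313640) (nat_lit 152) (nat_lit 22227947400) (nat_lit 0) (nat_lit 5800300887) (nat_lit 96) (nat_lit 5) (nat_lit 98) (nat_lit 4) (nat_lit 96) (nat_lit 4) (nat_lit 490) (nat_lit 348) (nat_lit 182))) (XT.nd (nat_lit 78) (nat_lit 152) (nat_lit 0) (XT.lf (nat_lit 0) (nat_lit 23199990236) (nat_lit 76) (nat_lit 39634940616) (nat_lit 76) (nat_lit 5974623997) (nat_lit 95) (nat_lit 4) (nat_lit 96) (nat_lit 5) (nat_lit 96) (nat_lit 4) (nat_lit 491) (nat_lit 348) (nat_lit 181)) (XT.lf (nat_lit 0) (nat_lit 94791987) (nat_lit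 76) (nat_lit 16536833499) (nat_lit 152) (nat_lit 53534403863) (nat_lit 93) (nat_lit 5) (nat_lit 94) (nat_lit 5) (nat_lit 95) (nat_lit 4) (nat_lit 492) (nat_lit 348) (nat_lit 180)))) (XT.nd (nat_lit 156) (nat_lit 684) (nat_lit 0) (XT.nd (nat_lit 78) (nat_lit 0) (nat_lit 0) (XT.lf (nat_lit 0) (nat_lit 849619683) (nat_lit 684) (nat_lit 1271144914) (nat_lit 684) (nat_lit 1271144914) (nat_lit 478) (nat_lit 3) (nat_lit 487) (nat_lit 3) (nat_lit 487) (nat_lit 5) (nat_lit 349) (nat_lit 349) (nat_lit 322)) (XT.lf (nat_lit 76) (nat_lit 866528781) (nat_lit 0) (nat_lit 2934110835) (nat_lit 684) (nat_lit 3022659344) (nat_lit 479) (nat_lit 5) (nat_lit 478) (nat_lit 3) (nat_lit 487) (nat_lit 5) (nat_lit 350) (nat_lit 349) (nat_lit 321))) (XT.nd (nat_lit 78) (nat_lit 684) (nat_lit 0) (XT.lf (nat_lit 76) (nat_lit 4387342993) (nat_lit 0) (nat_lit 1522311661) (nat_lit 684) (nat_lit 955971456) (nat_lit 479) (nat_lit 5)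 (nat_lit 478) (nat_lit 3) (nat_lit 487) (nat_lit 5) (nat_lit 351) (nat_lit 349) (nat_lit 320)) (XT.lf (nat_lit 76) (nat_lit 1071462293) (nat_lit 0) (nat_lit 9153571) (nat_lit 760) (nat_lit 5830345542) (nat_lit 470) (nat_lit 5) (nat_lit 469) (nat_lit 5) (nat_lit 479) (nat_lit 5) (nat_lit 352) (nat_lit 349) (nat_lit 319))))) (XT.nd (nat_lit 312) (nat_lit 760) (nat_lit 0) (XT.nd (nat_lit 156) (nat_lit 760) (nat_lit 0) (XT.nd (nat_lit 78) (nat_lit 0) (nat_lit 0) (XT.lf (nat_lit 0) (nat_lit 3121985826) (nat_lit 684) (nat_lit 2247990209) (nat_lit 760) (nat_lit 1588509802) (nat_lit 470) (nat_lit 5) (nat_lit 479) (nat_lit 5) (nat_lit 480) (nat_lit 5) (nat_lit 353) (nat_lit 349) (nat_lit 318)) (XT.lf (nat_lit 76) (nat_lit 1435515463) (nat_lit 0) (nat_lit 3727953383) (nat_lit 760) (nat_lit 1845800996) (nat_lit 471) (nat_lit 5) (nat_lit 470) (nat_lit 5) (nat_lit 480) (nat_lit 5) (nat_lit 354) (nat_lit 349) (nat_lit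 317))) (XT.nd (nat_lit 78) (nat_lit 0) (nat_lit 0) (XT.lf (nat_lit 0) (nat_lit 149577546) (nat_lit 760) (nat_lit 1832194165) (nat_lit 836) (nat_lit 5081278105) (nat_lit 460) (nat_lit 5) (nat_lit 470) (nat_lit 5) (nat_lit 471) (nat_lit 5) (nat_lit 355) (nat_lit 349) (nat_lit 316)) (XT.lf (nat_lit 76) (nat_lit 1998932287) (nat_lit 0) (nat_lit 116182279) (nat_lit 836) (nat_lit 5004358490) (nat_lit 461) (nat_lit 5) (nat_lit 460) (nat_lit 5) (nat_lit 471) (nat_lit 5) (nat_lit 356) (nat_lit 349) (nat_lit 315)))) (XT.nd (nat_lit 156) (nat_lit 836) (nat_lit 0) (XT.nd (nat_lit 78) (nat_lit 0) (nat_lit 0) (XT.lf (nat_lit 0) (nat_lit 4105777385) (nat_lit 760) (nat_lit 1257372093) (nat_lit 836) (nat_lit 1815454724) (nat_lit 461) (nat_lit 5) (nat_lit 471) (nat_lit 5) (nat_lit 472) (nat_lit 5) (nat_lit 357) (nat_lit 349) (nat_lit 314)) (XT.lf (nat_lit 76) (nat_lit 2729778738) (nat_lit 0) (nat_lit 3385927863) (nat_lit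 836) (nat_lit 1125016287) (nat_lit 462) (nat_lit 5) (nat_lit 461) (nat_lit 5) (nat_lit 472) (nat_lit 5) (nat_lit 358) (nat_lit 349) (nat_lit 313))) (XT.nd (nat_lit 78) (nat_lit 0) (nat_lit 76) (XT.lf (nat_lit 0) (nat_lit 809911848) (nat_lit 836) (nat_lit 495532892) (nat_lit 912) (nat_lit 6000629890) (nat_lit 450) (nat_lit 5) (nat_lit 461) (nat_lit 5) (nat_lit 462) (nat_lit 5) (nat_lit 359) (nat_lit 349) (nat_lit 312)) (XT.lf (nat_lit 0) (nat_lit 2759149066) (nat_lit 836) (nat_lit 3725722236) (nat_lit 912) (nat_lit 888815269) (nat_lit 451) (nat_lit 5) (nat_lit 462) (nat_lit 5) (nat_lit 463) (nat_lit 5) (nat_lit 360) (nat_lit 349) (nat_lit 311))))))))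
noncomputable def xc121 : XT := (XT.nd (nat_lit 2340) (nat_lit 7068) (nat_lit 0) (XT.nd (nat_lit 1170) (nat_lit 4940) (nat_lit 0) (XT.nd (nat_lit 546) (nat_lit 5016) (nat_lit 0) (XT.nd (nat_lit 234) (nat_lit 1976) (nat_lit 0) (XT.nd (nat_lit 78) (nat_lit 836) (nat_lit 0) (XT.lf (nat_lit 76) (nat_lit 432925346) (nat_lit 0) (nat_lit 4292757728) (nat_lit 912) (nat_lit 2718879206) (nat_lit 452) (nat_lit 5) (nat_lit 451) (nat_lit 5) (nat_lit 463) (nat_lit 5) (nat_lit 361) (nat_lit 349) (nat_lit 310)) (XT.nd (nat_lit 78) (nat_lit 836) (nat_lit 0) (XT.lf (nat_lit 76) (nat_lit 4747854573) (nat_lit 0) (nat_lit 1979073649) (nat_lit 912) (nat_lit 791364587) (nat_lit 452) (nat_lit 5) (nat_lit 451) (nat_lit 5) (nat_lit 463) (nat_lit 5) (nat_lit 362) (nat_lit 349) (nat_lit 309)) (XT.lf (nat_lit 0) (nat_lit 1129393000) (nat_lit 912) (nat_lit 6027108481) (nat_lit 76) (nat_lit 438627965) (nat_lit 440) (nat_lit 5) (nat_lit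 452) (nat_lit 5) (nat_lit 441) (nat_lit 5) (nat_lit 363) (nat_lit 349) (nat_lit 308)))) (XT.nd (nat_lit 156) (nat_lit 1064) (nat_lit 0) (XT.nd (nat_lit 78) (nat_lit 912) (nat_lit 0) (XT.lf (nat_lit 0) (nat_lit 3080502677) (nat_lit 912) (nat_lit 1653953452) (nat_lit 76) (nat_lit 2939920946) (nat_lit 440) (nat_lit 5) (nat_lit 452) (nat_lit 5) (nat_lit 441) (nat_lit 5) (nat_lit 364) (nat_lit 349) (nat_lit 307)) (XT.lf (nat_lit 0) (nat_lit 2861338344) (nat_lit 912) (nat_lit 2198824109) (nat_lit 988) (nat_lit 2696739175) (nat_lit 428) (nat_lit 5) (nat_lit 440) (nat_lit 5) (nat_lit 441) (nat_lit 5) (nat_lit 365) (nat_lit 349) (nat_lit 306))) (XT.nd (nat_lit 78) (nat_lit 1064) (nat_lit 0) (XT.lf (nat_lit 0) (nat_lit 7063920194) (nat_lit 988) (nat_lit 345795057) (nat_lit 76) (nat_lit 433245420) (nat_lit 428) (nat_lit 5) (nat_lit 441) (nat_lit 5) (nat_lit 429) (nat_lit 5) (nat_lit 366) (nat_lit 349) (nat_lit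 305)) (XT.lf (nat_lit 0) (nat_lit 1182115602) (nat_lit 1064) (nat_lit 3584069197) (nat_lit 76) (nat_lit 3164793682) (nat_lit 414) (nat_lit 5) (nat_lit 428) (nat_lit 5) (nat_lit 415) (nat_lit 5) (nat_lit 367) (nat_lit 349) (nat_lit 304))))) (XT.nd (nat_lit 312) (nat_lit 2736) (nat_lit 0) (XT.nd (nat_lit 156) (nat_lit 1216) (nat_lit 0) (XT.nd (nat_lit 78) (nat_lit 0) (nat_lit 0) (XT.lf (nat_lit 0) (nat_lit 1134809703) (nat_lit 1064) (nat_lit 2012212401) (nat_lit 1140) (nat_lit 4875566111) (nat_lit 400) (nat_lit 5) (nat_lit 414) (nat_lit 5) (nat_lit 415) (nat_lit 5) (nat_lit 368) (nat_lit 349) (nat_lit 303)) (XT.lf (nat_lit 0) (nat_lit 5162698134) (nat_lit 1140) (nat_lit 2102164919) (nat_lit 76) (nat_lit 852328519) (nat_lit 400) (nat_lit 5) (nat_lit 415) (nat_lit 5) (nat_lit 401) (nat_lit 5) (nat_lit 369) (nat_lit 349) (nat_lit 302))) (XT.nd (nat_lit 78) (nat_lit 76) (nat_lit 0) (XT.lf (nat_lit 0) (nat_lit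 2816672624) (nat_lit 1140) (nat_lit 4418051351) (nat_lit 1216) (nat_lit 980032669) (nat_lit 385) (nat_lit 5) (nat_lit 400) (nat_lit 5) (nat_lit 401) (nat_lit 5) (nat_lit 370) (nat_lit 349) (nat_lit 301)) (XT.lf (nat_lit 0) (nat_lit 1003981404) (nat_lit 1216) (nat_lit 444729078) (nat_lit 76) (nat_lit 6867107926) (nat_lit 384) (nat_lit 5) (nat_lit 400) (nat_lit 5) (nat_lit 385) (nat_lit 5) (nat_lit 371) (nat_lit 349) (nat_lit 300)))) (XT.nd (nat_lit 156) (nat_lit 684) (nat_lit 0) (XT.nd (nat_lit 78) (nat_lit 836) (nat_lit 0) (XT.lf (nat_lit 0) (nat_lit 3039919120) (nat_lit 1292) (nat_lit 3741276852) (nat_lit 76) (nat_lit 1638061926) (nat_lit 368) (nat_lit 5) (nat_lit 385) (nat_lit 5) (nat_lit 369) (nat_lit 5) (nat_lit 372) (nat_lit 349) (nat_lit 299)) (XT.lf (nat_lit 0) (nat_lit 1405204970) (nat_lit 836) (nat_lit 3716074215) (nat_lit 912) (nat_lit 3404991062) (nat_lit 357) (nat_lit 5) (nat_lit 368) (nat_lit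 5) (nat_lit 369) (nat_lit 5) (nat_lit 373) (nat_lit 349) (nat_lit 298))) (XT.nd (nat_lit 78) (nat_lit 684) (nat_lit 0) (XT.lf (nat_lit 0) (nat_lit 6737570665) (nat_lit 836) (nat_lit 518211229) (nat_lit 912) (nat_lit 1380990018) (nat_lit 357) (nat_lit 5) (nat_lit 368) (nat_lit 5) (nat_lit 369) (nat_lit 5) (nat_lit 374) (nat_lit 349) (nat_lit 297)) (XT.lf (nat_lit 0) (nat_lit 704538412) (nat_lit 684) (nat_lit 5281887879) (nat_lit 76) (nat_lit 2763523204) (nat_lit 348) (nat_lit 5) (nat_lit 357) (nat_lit 5) (nat_lit 349) (nat_lit 5) (nat_lit 375) (nat_lit 349) (nat_lit 296)))))) (XT.nd (nat_lit 546) (nat_lit 2584) (nat_lit 0) (XT.nd (nat_lit 234) (nat_lit 1216) (nat_lit 0) (XT.nd (nat_lit 78) (nat_lit 532) (nat_lit 0) (XT.lf (nat_lit 0) (nat_lit 106683462) (nat_lit 608) (nat_lit 2698484419) (nat_lit 684) (nat_lit 6061535577) (nat_lit 340) (nat_lit 5) (nat_lit 348) (nat_lit 5) (nat_lit 349) (nat_lit 5) (nat_lit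 376) (nat_lit 349) (nat_lit 295)) (XT.nd (nat_lit 78) (nat_lit 532) (nat_lit 0) (XT.lf (nat_lit 0) (nat_lit 4984935949) (nat_lit 684) (nat_lit 3273921688) (nat_lit 76) (nat_lit 727618812) (nat_lit 340) (nat_lit 5) (nat_lit 349) (nat_lit 5) (nat_lit 341) (nat_lit 5) (nat_lit 377) (nat_lit 349) (nat_lit 294)) (XT.lf (nat_lit 0) (nat_lit 2350664519) (nat_lit 532) (nat_lit 4885678773) (nat_lit 608) (nat_lit 1873311952) (nat_lit 333) (nat_lit 5) (nat_lit 340) (nat_lit 5) (nat_lit 341) (nat_lit 5) (nat_lit 378) (nat_lit 349) (nat_lit 293)))) (XT.nd (nat_lit 156) (nat_lit 532) (nat_lit 0) (XT.nd (nat_lit 78) (nat_lit 608) (nat_lit 0) (XT.lf (nat_lit 0) (nat_lit 303268746) (nat_lit 608) (nat_lit 1073481346) (nat_lit 76) (nat_lit 7859965619) (nat_lit 332) (nat_lit 5) (nat_lit 340) (nat_lit 5) (nat_lit 333) (nat_lit 5) (nat_lit 379) (nat_lit 349) (nat_lit 292)) (XT.lf (nat_lit 0) (nat_lit 2534469091) (nat_lit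 684) (nat_lit 4575353234) (nat_lit 76) (nat_lit 2256400020) (nat_lit 324) (nat_lit 5) (nat_lit 333) (nat_lit 5) (nat_lit 325) (nat_lit 5) (nat_lit 380) (nat_lit 349) (nat_lit 291))) (XT.nd (nat_lit 78) (nat_lit 0) (nat_lit 0) (XT.lf (nat_lit 0) (nat_lit 1320825661) (nat_lit 532) (nat_lit 3508388754) (nat_lit 608) (nat_lit 4670501495) (nat_lit 317) (nat_lit 5) (nat_lit 324) (nat_lit 5) (nat_lit 325) (nat_lit 5) (nat_lit 381) (nat_lit 349) (nat_lit 290)) (XT.lf (nat_lit 0) (nat_lit 7201438426) (nat_lit 608) (nat_lit 2196324767) (nat_lit 76) (nat_lit 239191998) (nat_lit 317) (nat_lit 5) (nat_lit 325) (nat_lit 5) (nat_lit 318) (nat_lit 5) (nat_lit 382) (nat_lit 349) (nat_lit 289))))) (XT.nd (nat_lit 312) (nat_lit 988) (nat_lit 0) (XT.nd (nat_lit 156) (nat_lit 532) (nat_lit 0) (XT.nd (nat_lit 78) (nat_lit 532) (nat_lit 0) (XT.lf (nat_lit 0) (nat_lit 3963877974) (nat_lit 532) (nat_lit 5714998504) (nat_lit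 608) (nat_lit 98413754) (nat_lit 310) (nat_lit 5) (nat_lit 317) (nat_lit 5) (nat_lit 318) (nat_lit 5) (nat_lit 383) (nat_lit 349) (nat_lit 288)) (XT.lf (nat_lit 0) (nat_lit 372818768) (nat_lit 456) (nat_lit 1878449706) (nat_lit 532) (nat_lit 7670275465) (nat_lit 303) (nat_lit 5) (nat_lit 309) (nat_lit 5) (nat_lit 310) (nat_lit 5) (nat_lit 384) (nat_lit 349) (nat_lit 287))) (XT.nd (nat_lit 78) (nat_lit 532) (nat_lit 0) (XT.lf (nat_lit 0) (nat_lit 4710845339) (nat_lit 532) (nat_lit 3271455818) (nat_lit 76) (nat_lit 2086553404) (nat_lit 303) (nat_lit 5) (nat_lit 310) (nat_lit 5) (nat_lit 304) (nat_lit 5) (nat_lit 385) (nat_lit 349) (nat_lit 286)) (XT.lf (nat_lit 0) (nat_lit 3193764453) (nat_lit 532) (nat_lit 4063013956) (nat_lit 608) (nat_lit 2963429023) (nat_lit 296) (nat_lit 5) (nat_lit 303) (nat_lit 5) (nat_lit 304) (nat_lit 5) (nat_lit 386) (nat_lit 349) (nat_lit 285)))) (XT.nd (nat_lit 156) (nat_lit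 456) (nat_lit 0) (XT.nd (nat_lit 78) (nat_lit 532) (nat_lit 0) (XT.lf (nat_lit 0) (nat_lit 9876047754) (nat_lit 608) (nat_lit 499850380) (nat_lit 76) (nat_lit 294009) (nat_lit 296) (nat_lit 5) (nat_lit 304) (nat_lit 5) (nat_lit 297) (nat_lit 5) (nat_lit 387) (nat_lit 349) (nat_lit 284)) (XT.lf (nat_lit 0) (nat_lit 2063249342) (nat_lit 532) (nat_lit 4294002514) (nat_lit 76) (nat_lit 4177038286) (nat_lit 289) (nat_lit 5) (nat_lit 296) (nat_lit 5) (nat_lit 290) (nat_lit 5) (nat_lit 388) (nat_lit 349) (nat_lit 283))) (XT.nd (nat_lit 78) (nat_lit 0) (nat_lit 0) (XT.lf (nat_lit 0) (nat_lit 2495965095) (nat_lit 456) (nat_lit 2191785920) (nat_lit 532) (nat_lit 6009403752) (nat_lit 283) (nat_lit 5) (nat_lit 289) (nat_lit 5) (nat_lit 290) (nat_lit 5) (nat_lit 389) (nat_lit 349) (nat_lit 282)) (XT.lf (nat_lit 0) (nat_lit 7420632732) (nat_lit 532) (nat_lit 1350700444) (nat_lit 76) (nat_lit 2092682804) (nat_lit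 283) (nat_lit 5) (nat_lit 290) (nat_lit 5) (nat_lit 284) (nat_lit 5) (nat_lit 390) (nat_lit 349) (nat_lit 281))))))) (XT.nd (nat_lit 1170) (nat_lit 3116) (nat_lit 0) (XT.nd (nat_lit 546) (nat_lit 1824) (nat_lit 0) (XT.nd (nat_lit 234) (nat_lit 1216) (nat_lit 0) (XT.nd (nat_lit 78) (nat_lit 532) (nat_lit 0) (XT.lf (nat_lit 0) (nat_lit 5753002514) (nat_lit 380) (nat_lit 4526181414) (nat_lit 456) (nat_lit 755388610) (nat_lit 278) (nat_lit 5) (nat_lit 283) (nat_lit 5) (nat_lit 284) (nat_lit 5) (nat_lit 391) (nat_lit 349) (nat_lit 280)) (XT.nd (nat_lit 78) (nat_lit 0) (nat_lit 0) (XT.lf (nat_lit 0) (nat_lit 1861403008) (nat_lit 456) (nat_lit 111143553) (nat_lit 532) (nat_lit 9237161065) (nat_lit 271) (nat_lit 5) (nat_lit 277) (nat_lit 5) (nat_lit 278) (nat_lit 5) (nat_lit 392) (nat_lit 349) (nat_lit 279)) (XT.lf (nat_lit 0) (nat_lit 4831018328) (nat_lit 532) (nat_lit 2155772314) (nat_lit 76) (nat_lit 4401165320)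 (nat_lit 271) (nat_lit 5) (nat_lit 278) (nat_lit 5) (nat_lit 272) (nat_lit 5) (nat_lit 393) (nat_lit 349) (nat_lit 278)))) (XT.nd (nat_lit 156) (nat_lit 456) (nat_lit 0) (XT.nd (nat_lit 78) (nat_lit 380) (nat_lit 0) (XT.lf (nat_lit 0) (nat_lit 5312820634) (nat_lit 380) (nat_lit 2482919055) (nat_lit 456) (nat_lit 3775197194) (nat_lit 266) (nat_lit 5) (nat_lit 271) (nat_lit 5) (nat_lit 272) (nat_lit 5) (nat_lit 394) (nat_lit 349) (nat_lit 277)) (XT.lf (nat_lit 0) (nat_lit 1251688180) (nat_lit 380) (nat_lit 9621198540) (nat_lit 456) (nat_lit 885815991) (nat_lit 261) (nat_lit 5) (nat_lit 266) (nat_lit 5) (nat_lit 267) (nat_lit 5) (nat_lit 395) (nat_lit 349) (nat_lit 276))) (XT.nd (nat_lit 78) (nat_lit 380) (nat_lit 0) (XT.lf (nat_lit 0) (nat_lit 2106803590) (nat_lit 456) (nat_lit 2923339124) (nat_lit 76) (nat_lit 6919635663) (nat_lit 260) (nat_lit 5) (nat_lit 266) (nat_lit 5) (nat_lit 261) (nat_lit 5) (nat_lit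 396) (nat_lit 349) (nat_lit 275)) (XT.lf (nat_lit 0) (nat_lit 4933696230) (nat_lit 380) (nat_lit 254973264) (nat_lit 456) (nat_lit 6957135553) (nat_lit 255) (nat_lit 5) (nat_lit 260) (nat_lit 5) (nat_lit 261) (nat_lit 5) (nat_lit 397) (nat_lit 349) (nat_lit 274))))) (XT.nd (nat_lit 312) (nat_lit 684) (nat_lit 0) (XT.nd (nat_lit 156) (nat_lit 760) (nat_lit 0) (XT.nd (nat_lit 78) (nat_lit 0) (nat_lit 0) (XT.lf (nat_lit 0) (nat_lit 665380477) (nat_lit 380) (nat_lit 7748863751) (nat_lit 456) (nat_lit 3931930702) (nat_lit 250) (nat_lit 5) (nat_lit 255) (nat_lit 5) (nat_lit 256) (nat_lit 5) (nat_lit 398) (nat_lit 349) (nat_lit 273)) (XT.lf (nat_lit 0) (nat_lit 8882848304) (nat_lit 380) (nat_lit 2899749861) (nat_lit 456) (nat_lit 768577387) (nat_lit 250) (nat_lit 5) (nat_lit 255) (nat_lit 5) (nat_lit 256) (nat_lit 5) (nat_lit 399) (nat_lit 349) (nat_lit 272))) (XT.nd (nat_lit 78) (nat_lit 380) (nat_lit 0)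 (XT.lf (nat_lit 0) (nat_lit 2477354961) (nat_lit 380) (nat_lit 8172278078) (nat_lit 76) (nat_lit 2110887354) (nat_lit 245) (nat_lit 5) (nat_lit 250) (nat_lit 5) (nat_lit 246) (nat_lit 5) (nat_lit 400) (nat_lit 349) (nat_lit 271)) (XT.lf (nat_lit 0) (nat_lit 116965532) (nat_lit 380) (nat_lit 5727081861) (nat_lit 456) (nat_lit 7130705005) (nat_lit 240) (nat_lit 5) (nat_lit 245) (nat_lit 5) (nat_lit 246) (nat_lit 5) (nat_lit 401) (nat_lit 349) (nat_lit 270)))) (XT.nd (nat_lit 156) (nat_lit 380) (nat_lit 0) (XT.nd (nat_lit 78) (nat_lit 304) (nat_lit 0) (XT.lf (nat_lit 0) (nat_lit 8781513219) (nat_lit 380) (nat_lit 584771192) (nat_lit 456) (nat_lit 3827490636) (nat_lit 240) (nat_lit 5) (nat_lit 245) (nat_lit 5) (nat_lit 246) (nat_lit 5) (nat_lit 402) (nat_lit 349) (nat_lit 269)) (XT.lf (nat_lit 0) (nat_lit 4284542878) (nat_lit 304) (nat_lit 8768838337) (nat_lit 380) (nat_lit 364211381) (nat_lit 236) (nat_lit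 5) (nat_lit 240) (nat_lit 5) (nat_lit 241) (nat_lit 5) (nat_lit 403) (nat_lit 349) (nat_lit 268))) (XT.nd (nat_lit 78) (nat_lit 304) (nat_lit 0) (XT.lf (nat_lit 0) (nat_lit 3164109320) (nat_lit 380) (nat_lit 391653323) (nat_lit 76) (nat_lit 10090729028) (nat_lit 235) (nat_lit 5) (nat_lit 240) (nat_lit 5) (nat_lit 236) (nat_lit 5) (nat_lit 404) (nat_lit 349) (nat_lit 267)) (XT.lf (nat_lit 0) (nat_lit 6866795025) (nat_lit 380) (nat_lit 5159040847) (nat_lit 76) (nat_lit 1854038593) (nat_lit 231) (nat_lit 5) (nat_lit 236) (nat_lit 5) (nat_lit 232) (nat_lit 5) (nat_lit 405) (nat_lit 349) (nat_lit 266)))))) (XT.nd (nat_lit 624) (nat_lit 1596) (nat_lit 0) (XT.nd (nat_lit 312) (nat_lit 608) (nat_lit 0) (XT.nd (nat_lit 156) (nat_lit 532) (nat_lit 0) (XT.nd (nat_lit 78) (nat_lit 76) (nat_lit 0) (XT.lf (nat_lit 0) (nat_lit 3997717688) (nat_lit 304) (nat_lit 6734388331) (nat_lit 380) (nat_lit 3386606384) (nat_lit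 227) (nat_lit 5) (nat_lit 231) (nat_lit 5) (nat_lit 232) (nat_lit 5) (nat_lit 406) (nat_lit 349) (nat_lit 265)) (XT.lf (nat_lit 0) (nat_lit 368513810) (nat_lit 380) (nat_lit 871844739) (nat_lit 76) (nat_lit 13123456687) (nat_lit 226) (nat_lit 5) (nat_lit 231) (nat_lit 5) (nat_lit 227) (nat_lit 5) (nat_lit 407) (nat_lit 349) (nat_lit 264))) (XT.nd (nat_lit 78) (nat_lit 228) (nat_lit 0) (XT.lf (nat_lit 0) (nat_lit 4270673859) (nat_lit 380) (nat_lit 5903546948) (nat_lit 76) (nat_lit 4437970812) (nat_lit 222) (nat_lit 5) (nat_lit 227) (nat_lit 5) (nat_lit 223) (nat_lit 5) (nat_lit 408) (nat_lit 349) (nat_lit 263)) (XT.lf (nat_lit 0) (nat_lit 3748607576) (nat_lit 228) (nat_lit 4573535304) (nat_lit 304) (nat_lit 6544909090) (nat_lit 219) (nat_lit 5) (nat_lit 222) (nat_lit 5) (nat_lit 223) (nat_lit 5) (nat_lit 409) (nat_lit 349) (nat_lit 262)))) (XT.nd (nat_lit 156) (nat_lit 228) (nat_lit 0) (XT.nd (nat_lit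 78) (nat_lit 380) (nat_lit 0) (XT.lf (nat_lit 0) (nat_lit 12542111751) (nat_lit 304) (nat_lit 1367568042) (nat_lit 76) (nat_lit 1218469665) (nat_lit 219) (nat_lit 5) (nat_lit 223) (nat_lit 5) (nat_lit 220) (nat_lit 5) (nat_lit 410) (nat_lit 349) (nat_lit 261)) (XT.lf (nat_lit 0) (nat_lit 1569045006) (nat_lit 380) (nat_lit 6645660548) (nat_lit 76) (nat_lit 7178747621) (nat_lit 214) (nat_lit 5) (nat_lit 219) (nat_lit 5) (nat_lit 215) (nat_lit 5) (nat_lit 411) (nat_lit 349) (nat_lit 260))) (XT.nd (nat_lit 78) (nat_lit 0) (nat_lit 0) (XT.lf (nat_lit 0) (nat_lit 3533527614) (nat_lit 228) (nat_lit 2287275885) (nat_lit 304) (nat_lit 9844424372) (nat_lit 211) (nat_lit 5) (nat_lit 214) (nat_lit 5) (nat_lit 215) (nat_lit 5) (nat_lit 412) (nat_lit 349) (nat_lit 259)) (XT.lf (nat_lit 0) (nat_lit 10280874415) (nat_lit 304) (nat_lit 1864415347) (nat_lit 76) (nat_lit 3797443254) (nat_lit 211) (nat_lit 5) (nat_lit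 215) (nat_lit 5) (nat_lit 212) (nat_lit 5) (nat_lit 413) (nat_lit 349) (nat_lit 258))))) (XT.nd (nat_lit 312) (nat_lit 760) (nat_lit 0) (XT.nd (nat_lit 156) (nat_lit 228) (nat_lit 0) (XT.nd (nat_lit 78) (nat_lit 304) (nat_lit 0) (XT.lf (nat_lit 0) (nat_lit 8823301083) (nat_lit 304) (nat_lit 6135884691) (nat_lit 380) (nat_lit 1266844394) (nat_lit 207) (nat_lit 5) (nat_lit 211) (nat_lit 5) (nat_lit 212) (nat_lit 5) (nat_lit 414) (nat_lit 349) (nat_lit 257)) (XT.lf (nat_lit 0) (nat_lit 3225880463) (nat_lit 304) (nat_lit 13168004504) (nat_lit 76) (nat_lit 122116898) (nat_lit 203) (nat_lit 5) (nat_lit 207) (nat_lit 5) (nat_lit 204) (nat_lit 5) (nat_lit 415) (nat_lit 349) (nat_lit 256))) (XT.nd (nat_lit 78) (nat_lit 228) (nat_lit 0) (XT.lf (nat_lit 0) (nat_lit 7941415770) (nat_lit 304) (nat_lit 2350854882) (nat_lit 76) (nat_lit 6518621041) (nat_lit 203) (nat_lit 5) (nat_lit 207) (nat_lit 5) (nat_lit 204)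 (nat_lit 5) (nat_lit 416) (nat_lit 349) (nat_lit 255)) (XT.lf (nat_lit 0) (nat_lit 8928745511) (nat_lit 228) (nat_lit 3933409424) (nat_lit 304) (nat_lit 4250561146) (nat_lit 200) (nat_lit 5) (nat_lit 203) (nat_lit 5) (nat_lit 204) (nat_lit 5) (nat_lit 417) (nat_lit 349) (nat_lit 254)))) (XT.nd (nat_lit 156) (nat_lit 456) (nat_lit 0) (XT.nd (nat_lit 78) (nat_lit 0) (nat_lit 0) (XT.lf (nat_lit 0) (nat_lit 555286458) (nat_lit 304) (nat_lit 14255209806) (nat_lit 76) (nat_lit 2611205035) (nat_lit 196) (nat_lit 5) (nat_lit 200) (nat_lit 5) (nat_lit 197) (nat_lit 5) (nat_lit 418) (nat_lit 349) (nat_lit 253)) (XT.lf (nat_lit 0) (nat_lit 5520431007) (nat_lit 304) (nat_lit 2830628782) (nat_lit 76) (nat_lit 9384617133) (nat_lit 196) (nat_lit 5) (nat_lit 200) (nat_lit 5) (nat_lit 197) (nat_lit 5) (nat_lit 419) (nat_lit 349) (nat_lit 252))) (XT.nd (nat_lit 78) (nat_lit 228) (nat_lit 0) (XT.lf (nat_lit 0) (nat_lit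 9078370393) (nat_lit 228) (nat_lit 1622211442) (nat_lit 304) (nat_lit 7356508422) (nat_lit 193) (nat_lit 5) (nat_lit 196) (nat_lit 5) (nat_lit 197) (nat_lit 5) (nat_lit 420) (nat_lit 349) (nat_lit 251)) (XT.lf (nat_lit 0) (nat_lit 2986731614) (nat_lit 228) (nat_lit 13136940233) (nat_lit 304) (nat_lit 2261848105) (nat_lit 190) (nat_lit 5) (nat_lit 193) (nat_lit 5) (nat_lit 194) (nat_lit 5) (nat_lit 421) (nat_lit 349) (nat_lit 250))))))))
noncomputable def xc122 : XT := (XT.nd (nat_lit 2340) (nat_lit 2736) (nat_lit 0) (XT.nd (nat_lit 1170) (nat_lit 1596) (nat_lit 0) (XT.nd (nat_lit 546) (nat_lit 1216) (nat_lit 0) (XT.nd (nat_lit 234) (nat_lit 456) (nat_lit 0) (XT.nd (nat_lit 78) (nat_lit 380) (nat_lit 0) (XT.lf (nat_lit 0) (nat_lit 3014015665) (nat_lit 304) (nat_lit 3307223730) (nat_lit 76) (nat_lit 12399103410) (nat_lit 189) (nat_lit 5) (nat_lit 193) (nat_lit 5) (nat_lit 190) (nat_lit 5) (nat_lit 422)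 (nat_lit 349) (nat_lit 249)) (XT.nd (nat_lit 78) (nat_lit 152) (nat_lit 0) (XT.lf (nat_lit 0) (nat_lit 8479107724) (nat_lit 304) (nat_lit 9799203604) (nat_lit 76) (nat_lit 783934782) (nat_lit 186) (nat_lit 5) (nat_lit 190) (nat_lit 5) (nat_lit 187) (nat_lit 5) (nat_lit 423) (nat_lit 349) (nat_lit 248)) (XT.lf (nat_lit 0) (nat_lit 2822188617) (nat_lit 152) (nat_lit 11389143562) (nat_lit 228) (nat_lit 5199978947) (nat_lit 184) (nat_lit 5) (nat_lit 186) (nat_lit 5) (nat_lit 187) (nat_lit 5) (nat_lit 424) (nat_lit 349) (nat_lit 247)))) (XT.nd (nat_lit 156) (nat_lit 152) (nat_lit 0) (XT.nd (nat_lit 78) (nat_lit 228) (nat_lit 0) (XT.lf (nat_lit 0) (nat_lit 417680406) (nat_lit 228) (nat_lit 3783909156) (nat_lit 76) (nat_lit 15566767202) (nat_lit 183) (nat_lit 5) (nat_lit 186) (nat_lit 5) (nat_lit 184) (nat_lit 5) (nat_lit 425) (nat_lit 349) (nat_lit 246)) (XT.lf (nat_lit 0) (nat_lit 6203169649) (nat_lit 304)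 (nat_lit 10658823683) (nat_lit 76) (nat_lit 3269461457) (nat_lit 180) (nat_lit 5) (nat_lit 184) (nat_lit 5) (nat_lit 181) (nat_lit 5) (nat_lit 426) (nat_lit 349) (nat_lit 245))) (XT.nd (nat_lit 78) (nat_lit 0) (nat_lit 0) (XT.lf (nat_lit 0) (nat_lit 2676451153) (nat_lit 152) (nat_lit 9572188877) (nat_lit 228) (nat_lit 8254213229) (nat_lit 178) (nat_lit 5) (nat_lit 180) (nat_lit 5) (nat_lit 181) (nat_lit 5) (nat_lit 427) (nat_lit 349) (nat_lit 244)) (XT.lf (nat_lit 0) (nat_lit 16596679954) (nat_lit 152) (nat_lit 1967173254) (nat_lit 228) (nat_lit 2318889116) (nat_lit 178) (nat_lit 5) (nat_lit 180) (nat_lit 5) (nat_lit 181) (nat_lit 5) (nat_lit 428) (nat_lit 349) (nat_lit 243))))) (XT.nd (nat_lit 312) (nat_lit 532) (nat_lit 0) (XT.nd (nat_lit 156) (nat_lit 228) (nat_lit 0) (XT.nd (nat_lit 78) (nat_lit 152) (nat_lit 0) (XT.lf (nat_lit 0) (nat_lit 3853145140) (nat_lit 304) (nat_lit 11546327452) (nat_lit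 76) (nat_lit 5869480378) (nat_lit 174) (nat_lit 5) (nat_lit 178) (nat_lit 5) (nat_lit 175) (nat_lit 5) (nat_lit 429) (nat_lit 349) (nat_lit 242)) (XT.lf (nat_lit 0) (nat_lit 2547735589) (nat_lit 152) (nat_lit 7684896279) (nat_lit 228) (nat_lit 11431362322) (nat_lit 172) (nat_lit 5) (nat_lit 174) (nat_lit 5) (nat_lit 175) (nat_lit 5) (nat_lit 430) (nat_lit 349) (nat_lit 241))) (XT.nd (nat_lit 78) (nat_lit 228) (nat_lit 0) (XT.lf (nat_lit 0) (nat_lit 16905080140) (nat_lit 228) (nat_lit 4802937170) (nat_lit 76) (nat_lit 359822030) (nat_lit 172) (nat_lit 5) (nat_lit 175) (nat_lit 5) (nat_lit 173) (nat_lit 5) (nat_lit 431) (nat_lit 349) (nat_lit 240)) (XT.lf (nat_lit 0) (nat_lit 1424517851) (nat_lit 228) (nat_lit 12466000350) (nat_lit 76) (nat_lit 8588232575) (nat_lit 169) (nat_lit 5) (nat_lit 172) (nat_lit 5) (nat_lit 170) (nat_lit 5) (nat_lit 432) (nat_lit 349) (nat_lit 239)))) (XT.nd (nat_lit 156) (nat_lit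 380) (nat_lit 0) (XT.nd (nat_lit 78) (nat_lit 0) (nat_lit 0) (XT.lf (nat_lit 0) (nat_lit 2434467961) (nat_lit 152) (nat_lit 5725466526) (nat_lit 228) (nat_lit 14738892947) (nat_lit 167) (nat_lit 5) (nat_lit 169) (nat_lit 5) (nat_lit 170) (nat_lit 5) (nat_lit 433) (nat_lit 349) (nat_lit 238)) (XT.lf (nat_lit 0) (nat_lit 15232337648) (nat_lit 228) (nat_lit 5349645364) (nat_lit 76) (nat_lit 2745475658) (nat_lit 167) (nat_lit 5) (nat_lit 170) (nat_lit 5) (nat_lit 168) (nat_lit 5) (nat_lit 434) (nat_lit 349) (nat_lit 237))) (XT.nd (nat_lit 78) (nat_lit 228) (nat_lit 0) (XT.lf (nat_lit 0) (nat_lit 10332024996) (nat_lit 152) (nat_lit 12323408097) (nat_lit 228) (nat_lit 1109360143) (nat_lit 165) (nat_lit 5) (nat_lit 167) (nat_lit 5) (nat_lit 168) (nat_lit 5) (nat_lit 435) (nat_lit 349) (nat_lit 236)) (XT.lf (nat_lit 0) (nat_lit 2335261487) (nat_lit 152) (nat_lit 3691510466) (nat_lit 228) (nat_lit 18184934096)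 (nat_lit 162) (nat_lit 5) (nat_lit 164) (nat_lit 5) (nat_lit 165) (nat_lit 5) (nat_lit 436) (nat_lit 349) (nat_lit 235)))))) (XT.nd (nat_lit 546) (nat_lit 836) (nat_lit 0) (XT.nd (nat_lit 234) (nat_lit 380) (nat_lit 0) (XT.nd (nat_lit 78) (nat_lit 380) (nat_lit 0) (XT.lf (nat_lit 0) (nat_lit 13524286889) (nat_lit 228) (nat_lit 5910099026) (nat_lit 76) (nat_lit 5232222939) (nat_lit 162) (nat_lit 5) (nat_lit 165) (nat_lit 5) (nat_lit 163) (nat_lit 5) (nat_lit 437) (nat_lit 349) (nat_lit 234)) (XT.nd (nat_lit 78) (nat_lit 228) (nat_lit 0) (XT.lf (nat_lit 0) (nat_lit 10676414064) (nat_lit 152) (nat_lit 10692625993) (nat_lit 228) (nat_lit 3762449303) (nat_lit 160) (nat_lit 5) (nat_lit 162) (nat_lit 5) (nat_lit 163) (nat_lit 5) (nat_lit 438) (nat_lit 349) (nat_lit 233)) (XT.lf (nat_lit 0) (nat_lit 2248896644) (nat_lit 152) (nat_lit 1580072600) (nat_lit 228) (nat_lit 21778288238) (nat_lit 157) (nat_lit 5)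 (nat_lit 159) (nat_lit 5) (nat_lit 160) (nat_lit 5) (nat_lit 439) (nat_lit 349) (nat_lit 232)))) (XT.nd (nat_lit 156) (nat_lit 228) (nat_lit 0) (XT.nd (nat_lit 78) (nat_lit 152) (nat_lit 0) (XT.lf (nat_lit 0) (nat_lit 11778193212) (nat_lit 228) (nat_lit 6487058961) (nat_lit 76) (nat_lit 7824758385) (nat_lit 157) (nat_lit 5) (nat_lit 160) (nat_lit 5) (nat_lit 158) (nat_lit 5) (nat_lit 440) (nat_lit 349) (nat_lit 231)) (XT.lf (nat_lit 0) (nat_lit 11060757283) (nat_lit 152) (nat_lit 9010828467) (nat_lit 228) (nat_lit 6512489720) (nat_lit 155) (nat_lit 5) (nat_lit 157) (nat_lit 5) (nat_lit 158) (nat_lit 5) (nat_lit 441) (nat_lit 349) (nat_lit 230))) (XT.nd (nat_lit 78) (nat_lit 0) (nat_lit 0) (XT.lf (nat_lit 0) (nat_lit 1567839069) (nat_lit 228) (nat_lit 24921982187) (nat_lit 76) (nat_lit 600401563) (nat_lit 152) (nat_lit 5) (nat_lit 155) (nat_lit 5) (nat_lit 153) (nat_lit 5) (nat_lit 442) (nat_lit 349)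 (nat_lit 229)) (XT.lf (nat_lit 0) (nat_lit 9991021424) (nat_lit 228) (nat_lit 7083247050) (nat_lit 76) (nat_lit 10528411563) (nat_lit 152) (nat_lit 5) (nat_lit 155) (nat_lit 5) (nat_lit 153) (nat_lit 5) (nat_lit 443) (nat_lit 349) (nat_lit 228))))) (XT.nd (nat_lit 312) (nat_lit 380) (nat_lit 0) (XT.nd (nat_lit 156) (nat_lit 228) (nat_lit 0) (XT.nd (nat_lit 78) (nat_lit 76) (nat_lit 0) (XT.lf (nat_lit 0) (nat_lit 11485743526) (nat_lit 152) (nat_lit 7275850190) (nat_lit 228) (nat_lit 9366076422) (nat_lit 150) (nat_lit 5) (nat_lit 152) (nat_lit 5) (nat_lit 153) (nat_lit 5) (nat_lit 444) (nat_lit 349) (nat_lit 227)) (XT.lf (nat_lit 0) (nat_lit 2074345867) (nat_lit 76) (nat_lit 25824527130) (nat_lit 152) (nat_lit 766429250) (nat_lit 149) (nat_lit 5) (nat_lit 150) (nat_lit 5) (nat_lit 151) (nat_lit 4) (nat_lit 445) (nat_lit 349) (nat_lit 226))) (XT.nd (nat_lit 78) (nat_lit 152) (nat_lit 0) (XT.lf (nat_lit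 0) (nat_lit 8159438228) (nat_lit 152) (nat_lit 7701366757) (nat_lit 76) (nat_lit 13349141420) (nat_lit 148) (nat_lit 5) (nat_lit 150) (nat_lit 5) (nat_lit 149) (nat_lit 5) (nat_lit 446) (nat_lit 349) (nat_lit 225)) (XT.lf (nat_lit 0) (nat_lit 11952287293) (nat_lit 152) (nat_lit 5485104678) (nat_lit 228) (nat_lit 12330318825) (nat_lit 146) (nat_lit 5) (nat_lit 148) (nat_lit 5) (nat_lit 149) (nat_lit 5) (nat_lit 447) (nat_lit 349) (nat_lit 224)))) (XT.nd (nat_lit 156) (nat_lit 228) (nat_lit 0) (XT.nd (nat_lit 78) (nat_lit 76) (nat_lit 0) (XT.lf (nat_lit 0) (nat_lit 1972957136) (nat_lit 76) (nat_lit 25153104890) (nat_lit 152) (nat_lit 3212174760) (nat_lit 145) (nat_lit 5) (nat_lit 146) (nat_lit 5) (nat_lit 147) (nat_lit 4) (nat_lit 448) (nat_lit 349) (nat_lit 223)) (XT.lf (nat_lit 0) (nat_lit 6279812333) (nat_lit 152) (nat_lit 8344122332) (nat_lit 76) (nat_lit 16293535354) (nat_lit 144) (nat_lit 5) (nat_lit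 146) (nat_lit 5) (nat_lit 145) (nat_lit 5) (nat_lit 449) (nat_lit 349) (nat_lit 222))) (XT.nd (nat_lit 78) (nat_lit 76) (nat_lit 0) (XT.lf (nat_lit 0) (nat_lit 12461522282) (nat_lit 152) (nat_lit 3635596271) (nat_lit 228) (nat_lit 15412853956) (nat_lit 142) (nat_lit 5) (nat_lit 144) (nat_lit 5) (nat_lit 145) (nat_lit 5) (nat_lit 450) (nat_lit 349) (nat_lit 221)) (XT.lf (nat_lit 0) (nat_lit 1879090260) (nat_lit 76) (nat_lit 24492234139) (nat_lit 152) (nat_lit 5744054259) (nat_lit 141) (nat_lit 5) (nat_lit 142) (nat_lit 5) (nat_lit 143) (nat_lit 4) (nat_lit 451) (nat_lit 349) (nat_lit 220))))))) (XT.nd (nat_lit 1170) (nat_lit 1216) (nat_lit 0) (XT.nd (nat_lit 546) (nat_lit 836) (nat_lit 0) (XT.nd (nat_lit 234) (nat_lit 380) (nat_lit 0) (XT.nd (nat_lit 78) (nat_lit 228) (nat_lit 0) (XT.lf (nat_lit 0) (nat_lit 4348212368) (nat_lit 152) (nat_lit 9014236926) (nat_lit 76) (nat_lit 19368812767) (nat_lit 140)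 (nat_lit 5) (nat_lit 142) (nat_lit 5) (nat_lit 141) (nat_lit 5) (nat_lit 452) (nat_lit 349) (nat_lit 219)) (XT.nd (nat_lit 78) (nat_lit 76) (nat_lit 0) (XT.lf (nat_lit 0) (nat_lit 13014796814) (nat_lit 152) (nat_lit 1723928488) (nat_lit 228) (nat_lit 18621862666) (nat_lit 138) (nat_lit 5) (nat_lit 140) (nat_lit 5) (nat_lit 141) (nat_lit 5) (nat_lit 453) (nat_lit 349) (nat_lit 218)) (XT.lf (nat_lit 0) (nat_lit 1792016677) (nat_lit 76) (nat_lit 23842611670) (nat_lit 152) (nat_lit 8368355063) (nat_lit 137) (nat_lit 5) (nat_lit 138) (nat_lit 5) (nat_lit 139) (nat_lit 4) (nat_lit 454) (nat_lit 349) (nat_lit 217)))) (XT.nd (nat_lit 156) (nat_lit 152) (nat_lit 0) (XT.nd (nat_lit 78) (nat_lit 152) (nat_lit 0) (XT.lf (nat_lit 0) (nat_lit 2360402716) (nat_lit 152) (nat_lit 9714469799) (nat_lit 76) (nat_lit 22582832851) (nat_lit 136) (nat_lit 5) (nat_lit 138) (nat_lit 5) (nat_lit 137) (nat_lit 5) (nat_lit 455)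 (nat_lit 349) (nat_lit 216)) (XT.lf (nat_lit 0) (nat_lit 13362418630) (nat_lit 228) (nat_lit 21714836424) (nat_lit 76) (nat_lit 248740544) (nat_lit 134) (nat_lit 5) (nat_lit 137) (nat_lit 5) (nat_lit 135) (nat_lit 4) (nat_lit 456) (nat_lit 349) (nat_lit 215))) (XT.nd (nat_lit 78) (nat_lit 76) (nat_lit 0) (XT.lf (nat_lit 0) (nat_lit 1711085859) (nat_lit 76) (nat_lit 23204802010) (nat_lit 152) (nat_lit 11091804883) (nat_lit 133) (nat_lit 5) (nat_lit 134) (nat_lit 5) (nat_lit 135) (nat_lit 4) (nat_lit 457) (nat_lit 349) (nat_lit 214)) (XT.lf (nat_lit 0) (nat_lit 311837368) (nat_lit 152) (nat_lit 10447632798) (nat_lit 76) (nat_lit 25944106418) (nat_lit 132) (nat_lit 5) (nat_lit 134) (nat_lit 5) (nat_lit 133) (nat_lit 5) (nat_lit 458) (nat_lit 349) (nat_lit 213))))) (XT.nd (nat_lit 312) (nat_lit 380) (nat_lit 0) (XT.nd (nat_lit 156) (nat_lit 228) (nat_lit 0) (XT.nd (nat_lit 78) (nat_lit 76) (nat_lit 0) (XT.lf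 (nat_lit 0) (nat_lit 11980589894) (nat_lit 228) (nat_lit 23175535591) (nat_lit 76) (nat_lit 2256538791) (nat_lit 130) (nat_lit 5) (nat_lit 133) (nat_lit 5) (nat_lit 131) (nat_lit 4) (nat_lit 459) (nat_lit 349) (nat_lit 212)) (XT.lf (nat_lit 0) (nat_lit 1635716702) (nat_lit 76) (nat_lit 22579253757) (nat_lit 152) (nat_lit 13921587176) (nat_lit 129) (nat_lit 5) (nat_lit 130) (nat_lit 5) (nat_lit 131) (nat_lit 4) (nat_lit 460) (nat_lit 349) (nat_lit 211))) (XT.nd (nat_lit 78) (nat_lit 228) (nat_lit 0) (XT.lf (nat_lit 0) (nat_lit 27641263313) (nat_lit 76) (nat_lit 9396057934) (nat_lit 152) (nat_lit 1838218384) (nat_lit 129) (nat_lit 5) (nat_lit 130) (nat_lit 5) (nat_lit 131) (nat_lit 4) (nat_lit 461) (nat_lit 349) (nat_lit 210)) (XT.lf (nat_lit 0) (nat_lit 10574111722) (nat_lit 228) (nat_lit 24716718604) (nat_lit 76) (nat_lit 4337598132) (nat_lit 126) (nat_lit 5) (nat_lit 129) (nat_lit 5) (nat_lit 127)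 (nat_lit 4) (nat_lit 462) (nat_lit 349) (nat_lit 209)))) (XT.nd (nat_lit 156) (nat_lit 304) (nat_lit 0) (XT.nd (nat_lit 78) (nat_lit 0) (nat_lit 0) (XT.lf (nat_lit 0) (nat_lit 1565389880) (nat_lit 76) (nat_lit 21966314049) (nat_lit 152) (nat_lit 16865358857) (nat_lit 125) (nat_lit 5) (nat_lit 126) (nat_lit 5) (nat_lit 127) (nat_lit 4) (nat_lit 463) (nat_lit 349) (nat_lit 208)) (XT.lf (nat_lit 0) (nat_lit 29118202491) (nat_lit 76) (nat_lit 7996743433) (nat_lit 152) (nat_lit 4066702560) (nat_lit 125) (nat_lit 5) (nat_lit 126) (nat_lit 5) (nat_lit 127) (nat_lit 4) (nat_lit 464) (nat_lit 349) (nat_lit 207))) (XT.nd (nat_lit 78) (nat_lit 76) (nat_lit 0) (XT.lf (nat_lit 0) (nat_lit 9140245580) (nat_lit 228) (nat_lit 26344029445) (nat_lit 76) (nat_lit 6496801402) (nat_lit 122) (nat_lit 5) (nat_lit 125) (nat_lit 5) (nat_lit 123) (nat_lit 4) (nat_lit 465) (nat_lit 349) (nat_lit 206)) (XT.lf (nat_lit 0) (nat_lit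 1499641037) (nat_lit 76) (nat_lit 21366241383) (nat_lit 152) (nat_lit 19931270349) (nat_lit 121) (nat_lit 5) (nat_lit 122) (nat_lit 5) (nat_lit 123) (nat_lit 4) (nat_lit 466) (nat_lit 349) (nat_lit 205)))))) (XT.nd (nat_lit 624) (nat_lit 532) (nat_lit 0) (XT.nd (nat_lit 312) (nat_lit 380) (nat_lit 0) (XT.nd (nat_lit 156) (nat_lit 76) (nat_lit 0) (XT.nd (nat_lit 78) (nat_lit 228) (nat_lit 0) (XT.lf (nat_lit 0) (nat_lit 30694896517) (nat_lit 76) (nat_lit 6562150209) (nat_lit 152) (nat_lit 6373051924) (nat_lit 121) (nat_lit 5) (nat_lit 122) (nat_lit 5) (nat_lit 123) (nat_lit 4) (nat_lit 467) (nat_lit 349) (nat_lit 204)) (XT.lf (nat_lit 0) (nat_lit 7676066914) (nat_lit 228) (nat_lit 28063378911) (nat_lit 76) (nat_lit 8739428755) (nat_lit 118) (nat_lit 5) (nat_lit 121) (nat_lit 5) (nat_lit 119) (nat_lit 4) (nat_lit 468) (nat_lit 349) (nat_lit 203))) (XT.nd (nat_lit 78) (nat_lit 0) (nat_lit 0) (XT.lf (nat_lit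 0) (nat_lit 1438054748) (nat_lit 76) (nat_lit 20779216944) (nat_lit 152) (nat_lit 23127987979) (nat_lit 117) (nat_lit 5) (nat_lit 118) (nat_lit 5) (nat_lit 119) (nat_lit 4) (nat_lit 469) (nat_lit 349) (nat_lit 202)) (XT.lf (nat_lit 0) (nat_lit 32376711318) (nat_lit 76) (nat_lit 5089509778) (nat_lit 152) (nat_lit 8763269965) (nat_lit 117) (nat_lit 5) (nat_lit 118) (nat_lit 5) (nat_lit 119) (nat_lit 4) (nat_lit 470) (nat_lit 349) (nat_lit 201)))) (XT.nd (nat_lit 156) (nat_lit 152) (nat_lit 0) (XT.nd (nat_lit 78) (nat_lit 76) (nat_lit 0) (XT.lf (nat_lit 0) (nat_lit 6178460552) (nat_lit 152) (nat_lit 29880969259) (nat_lit 76) (nat_lit 11071166431) (nat_lit 115) (nat_lit 5) (nat_lit 117) (nat_lit 5) (nat_lit 116) (nat_lit 4) (nat_lit 471) (nat_lit 349) (nat_lit 200)) (XT.lf (nat_lit 0) (nat_lit 1380259145) (nat_lit 76) (nat_lit 20205354648) (nat_lit 152) (nat_lit 26464718720) (nat_lit 114) (nat_lit 5) (nat_lit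 115) (nat_lit 5) (nat_lit 116) (nat_lit 4) (nat_lit 472) (nat_lit 349) (nat_lit 199))) (XT.nd (nat_lit 78) (nat_lit 152) (nat_lit 0) (XT.lf (nat_lit 0) (nat_lit 34169407478) (nat_lit 76) (nat_lit 3575810053) (nat_lit 152) (nat_lit 11243736262) (nat_lit 114) (nat_lit 5) (nat_lit 115) (nat_lit 5) (nat_lit 116) (nat_lit 4) (nat_lit 473) (nat_lit 349) (nat_lit 198)) (XT.lf (nat_lit 0) (nat_lit 4644114928) (nat_lit 152) (nat_lit 31803319437) (nat_lit 76) (nat_lit 13498117910) (nat_lit 112) (nat_lit 5) (nat_lit 114) (nat_lit 5) (nat_lit 113) (nat_lit 4) (nat_lit 474) (nat_lit 349) (nat_lit 197))))) (XT.nd (nat_lit 312) (nat_lit 228) (nat_lit 0) (XT.nd (nat_lit 156) (nat_lit 228) (nat_lit 0) (XT.nd (nat_lit 78) (nat_lit 0) (nat_lit 0) (XT.lf (nat_lit 0) (nat_lit 1325921137) (nat_lit 76) (nat_lit 19644710007) (nat_lit 152) (nat_lit 29951237321) (nat_lit 111) (nat_lit 5) (nat_lit 112) (nat_lit 5) (nat_lit 113)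 (nat_lit 4) (nat_lit 475) (nat_lit 349) (nat_lit 196)) (XT.lf (nat_lit 0) (nat_lit 36079157035) (nat_lit 76) (nat_lit 2017793071) (nat_lit 152) (nat_lit 13821223815) (nat_lit 111) (nat_lit 5) (nat_lit 112) (nat_lit 5) (nat_lit 113) (nat_lit 4) (nat_lit 476) (nat_lit 349) (nat_lit 195))) (XT.nd (nat_lit 78) (nat_lit 76) (nat_lit 0) (XT.lf (nat_lit 0) (nat_lit 3069515194) (nat_lit 152) (nat_lit 33837291006) (nat_lit 76) (nat_lit 16026817374) (nat_lit 109) (nat_lit 5) (nat_lit 111) (nat_lit 5) (nat_lit 110) (nat_lit 4) (nat_lit 477) (nat_lit 349) (nat_lit 194)) (XT.lf (nat_lit 0) (nat_lit 1274742168) (nat_lit 76) (nat_lit 19097287978) (nat_lit 152) (nat_lit 33597915856) (nat_lit 108) (nat_lit 5) (nat_lit 109) (nat_lit 5) (nat_lit 110) (nat_lit 4) (nat_lit 478) (nat_lit 349) (nat_lit 193)))) (XT.nd (nat_lit 156) (nat_lit 76) (nat_lit 0) (XT.nd (nat_lit 78) (nat_lit 152) (nat_lit 0) (XT.lf (nat_lit 0) (nat_lit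 38112562086) (nat_lit 76) (nat_lit 411951055) (nat_lit 152) (nat_lit 16502918183) (nat_lit 108) (nat_lit 5) (nat_lit 109) (nat_lit 5) (nat_lit 110) (nat_lit 4) (nat_lit 479) (nat_lit 349) (nat_lit 192)) (XT.lf (nat_lit 0) (nat_lit 1450935201) (nat_lit 152) (nat_lit 35990114917) (nat_lit 76) (nat_lit 18664245443) (nat_lit 106) (nat_lit 5) (nat_lit 108) (nat_lit 5) (nat_lit 107) (nat_lit 4) (nat_lit 480) (nat_lit 349) (nat_lit 191))) (XT.nd (nat_lit 78) (nat_lit 0) (nat_lit 0) (XT.lf (nat_lit 0) (nat_lit 1226454441) (nat_lit 76) (nat_lit 18563049889) (nat_lit 152) (nat_lit 37415755764) (nat_lit 105) (nat_lit 5) (nat_lit 106) (nat_lit 5) (nat_lit 107) (nat_lit 4) (nat_lit 481) (nat_lit 349) (nat_lit 190)) (XT.lf (nat_lit 0) (nat_lit 39043168449) (nat_lit 152) (nat_lit 18062931651) (nat_lit 0) (nat_lit 1221175325) (nat_lit 105) (nat_lit 5) (nat_lit 107) (nat_lit 4) (nat_lit 105) (nat_lit 4) (nat_lit 482)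 (nat_lit 349) (nat_lit 189))))))))
noncomputable def xc123 : XT := (XT.nd (nat_lit 44382) (nat_lit 0) (nat_lit 11400) (XT.nd (nat_lit 43134) (nat_lit 0) (nat_lit 22040) (XT.nd (nat_lit 546) (nat_lit 228) (nat_lit 0) (XT.nd (nat_lit 234) (nat_lit 304) (nat_lit 0) (XT.nd (nat_lit 78) (nat_lit 152) (nat_lit 0) (XT.lf (nat_lit 0) (nat_lit 21200098698) (nat_lit 76) (nat_lit 38051670810) (nat_lit 76) (nat_lit 219861899) (nat_lit 104) (nat_lit 4) (nat_lit 105) (nat_lit 5) (nat_lit 105) (nat_lit 4) (nat_lit 483) (nat_lit 349) (nat_lit 188)) (XT.nd (nat_lit 78) (nat_lit 0) (nat_lit 0) (XT.lf (nat_lit 0) (nat_lit 1180817561) (nat_lit 76) (nat_lit 18041919562) (nat_lit 152) (nat_lit 41416422438) (nat_lit 102) (nat_lit 5) (nat_lit 103) (nat_lit 5) (nat_lit 104) (nat_lit 4) (nat_lit 484) (nat_lit 349) (nat_lit 187)) (XT.lf (nat_lit 0) (nat_lit 39648938207) (nat_lit 152) (nat_lit 19279776266) (nat_lit 0) (nat_lit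 2900791489) (nat_lit 102) (nat_lit 5) (nat_lit 104) (nat_lit 4) (nat_lit 102) (nat_lit 4) (nat_lit 485) (nat_lit 349) (nat_lit 186)))) (XT.nd (nat_lit 156) (nat_lit 76) (nat_lit 0) (XT.nd (nat_lit 78) (nat_lit 152) (nat_lit 0) (XT.lf (nat_lit 0) (nat_lit 22341838333) (nat_lit 76) (nat_lit 38729544309) (nat_lit 76) (nat_lit 1972676393) (nat_lit 101) (nat_lit 4) (nat_lit 102) (nat_lit 5) (nat_lit 102) (nat_lit 4) (nat_lit 486) (nat_lit 349) (nat_lit 185)) (XT.lf (nat_lit 0) (nat_lit 1137615550) (nat_lit 76) (nat_lit 17533788710) (nat_lit 152) (nat_lit 45612282459) (nat_lit 99) (nat_lit 5) (nat_lit 100) (nat_lit 5) (nat_lit 101) (nat_lit 4) (nat_lit 487) (nat_lit 349) (nat_lit 184))) (XT.nd (nat_lit 78) (nat_lit 76) (nat_lit 0) (XT.lf (nat_lit 0) (nat_lit 40341629919) (nat_lit 152) (nat_lit 20565744540) (nat_lit 0) (nat_lit 4639148689) (nat_lit 99) (nat_lit 5) (nat_lit 101) (nat_lit 4) (nat_lit 99) (nat_lit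 4) (nat_lit 488) (nat_lit 349) (nat_lit 183)) (XT.lf (nat_lit 0) (nat_lit 23559024203) (nat_lit 76) (nat_lit 39493368725) (nat_lit 76) (nat_lit 3783138824) (nat_lit 98) (nat_lit 4) (nat_lit 99) (nat_lit 5) (nat_lit 99) (nat_lit 4) (nat_lit 489) (nat_lit 349) (nat_lit 182))))) (XT.nd (nat_lit 42276) (nat_lit 0) (nat_lit 28424) (XT.nd (nat_lit 156) (nat_lit 76) (nat_lit 0) (XT.nd (nat_lit 78) (nat_lit 0) (nat_lit 0) (XT.lf (nat_lit 0) (nat_lit 1096654198) (nat_lit 76) (nat_lit 17038521704) (nat_lit 152) (nat_lit 50016443558) (nat_lit 96) (nat_lit 5) (nat_lit 97) (nat_lit 5) (nat_lit 98) (nat_lit 4) (nat_lit 490) (nat_lit 349) (nat_lit 181)) (XT.lf (nat_lit 0) (nat_lit 41125256109) (nat_lit 152) (nat_lit 21925367392) (nat_lit 0) (nat_lit 6440734992) (nat_lit 96) (nat_lit 5) (nat_lit 98) (nat_lit 4) (nat_lit 96) (nat_lit 4) (nat_lit 491) (nat_lit 349) (nat_lit 180))) (XT.nd (nat_lit 42042) (nat_lit 0) (nat_lit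 29108) (XT.lf (nat_lit 0) (nat_lit 24855904272) (nat_lit 76) (nat_lit 40347421266) (nat_lit 76) (nat_lit 5656015554) (nat_lit 95) (nat_lit 4) (nat_lit 96) (nat_lit 5) (nat_lit 96) (nat_lit 4) (nat_lit 492) (nat_lit 349) (nat_lit 179)) (XT.lf (nat_lit 0) (nat_lit 2922815464) (nat_lit 684) (nat_lit 254710058) (nat_lit 684) (nat_lit 254710058) (nat_lit 478) (nat_lit 3) (nat_lit 487) (nat_lit 3) (nat_lit 487) (nat_lit 5) (nat_lit 350) (nat_lit 350) (nat_lit 320)))) (XT.nd (nat_lit 156) (nat_lit 0) (nat_lit 0) (XT.nd (nat_lit 78) (nat_lit 0) (nat_lit 0) (XT.lf (nat_lit 0) (nat_lit 983185760) (nat_lit 684) (nat_lit 3936765601) (nat_lit 760) (nat_lit 1987871215) (nat_lit 469) (nat_lit 5) (nat_lit 478) (nat_lit 3) (nat_lit 479) (nat_lit 5) (nat_lit 351) (nat_lit 350) (nat_lit 319)) (XT.lf (nat_lit 0) (nat_lit 2952789134) (nat_lit 684) (nat_lit 437554543) (nat_lit 760) (nat_lit 3563988398) (nat_lit 469) (nat_lit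 5) (nat_lit 478) (nat_lit 3) (nat_lit 479) (nat_lit 5) (nat_lit 352) (nat_lit 350) (nat_lit 318))) (XT.nd (nat_lit 78) (nat_lit 0) (nat_lit 0) (XT.lf (nat_lit 76) (nat_lit 3188574911) (nat_lit 0) (nat_lit 1748604002) (nat_lit 760) (nat_lit 2066386999) (nat_lit 470) (nat_lit 5) (nat_lit 469) (nat_lit 5) (nat_lit 479) (nat_lit 5) (nat_lit 353) (nat_lit 350) (nat_lit 317)) (XT.lf (nat_lit 76) (nat_lit 6892574060) (nat_lit 0) (nat_lit 19792227) (nat_lit 760) (nat_lit 143972498) (nat_lit 470) (nat_lit 5) (nat_lit 469) (nat_lit 5) (nat_lit 479) (nat_lit 5) (nat_lit 354) (nat_lit 350) (nat_lit 316)))))) (XT.nd (nat_lit 624) (nat_lit 4104) (nat_lit 0) (XT.nd (nat_lit 312) (nat_lit 836) (nat_lit 0) (XT.nd (nat_lit 156) (nat_lit 760) (nat_lit 0) (XT.nd (nat_lit 78) (nat_lit 0) (nat_lit 0) (XT.lf (nat_lit 0) (nat_lit 1781006702) (nat_lit 760) (nat_lit 3519388633) (nat_lit 836) (nat_lit 1810348371) (nat_lit 460)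 (nat_lit 5) (nat_lit 470) (nat_lit 5) (nat_lit 471) (nat_lit 5) (nat_lit 355) (nat_lit 350) (nat_lit 315)) (XT.lf (nat_lit 76) (nat_lit 256983934) (nat_lit 0) (nat_lit 3438466716) (nat_lit 836) (nat_lit 3473249088) (nat_lit 461) (nat_lit 5) (nat_lit 460) (nat_lit 5) (nat_lit 471) (nat_lit 5) (nat_lit 356) (nat_lit 350) (nat_lit 314))) (XT.nd (nat_lit 78) (nat_lit 760) (nat_lit 0) (XT.lf (nat_lit 76) (nat_lit 4177057643) (nat_lit 0) (nat_lit 1457711667) (nat_lit 836) (nat_lit 1594601898) (nat_lit 461) (nat_lit 5) (nat_lit 460) (nat_lit 5) (nat_lit 471) (nat_lit 5) (nat_lit 357) (nat_lit 350) (nat_lit 313)) (XT.lf (nat_lit 0) (nat_lit 281555065) (nat_lit 836) (nat_lit 6404245532) (nat_lit 912) (nat_lit 607530275) (nat_lit 450) (nat_lit 5) (nat_lit 461) (nat_lit 5) (nat_lit 462) (nat_lit 5) (nat_lit 358) (nat_lit 350) (nat_lit 312)))) (XT.nd (nat_lit 156) (nat_lit 836) (nat_lit 0) (XT.nd (nat_lit 78) (nat_lit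 0) (nat_lit 0) (XT.lf (nat_lit 0) (nat_lit 2162513497) (nat_lit 836) (nat_lit 2421137469) (nat_lit 912) (nat_lit 2775667715) (nat_lit 450) (nat_lit 5) (nat_lit 461) (nat_lit 5) (nat_lit 462) (nat_lit 5) (nat_lit 359) (nat_lit 350) (nat_lit 311)) (XT.lf (nat_lit 76) (nat_lit 1671733567) (nat_lit 0) (nat_lit 2381136196) (nat_lit 912) (nat_lit 3375827288) (nat_lit 451) (nat_lit 5) (nat_lit 450) (nat_lit 5) (nat_lit 462) (nat_lit 5) (nat_lit 360) (nat_lit 350) (nat_lit 310))) (XT.nd (nat_lit 78) (nat_lit 836) (nat_lit 0) (XT.lf (nat_lit 76) (nat_lit 5895085082) (nat_lit 0) (nat_lit 67634495) (nat_lit 912) (nat_lit 1538553710) (nat_lit 451) (nat_lit 5) (nat_lit 450) (nat_lit 5) (nat_lit 462) (nat_lit 5) (nat_lit 361) (nat_lit 350) (nat_lit 309)) (XT.lf (nat_lit 0) (nat_lit 334916732) (nat_lit 912) (nat_lit 4923680245) (nat_lit 988) (nat_lit 2317688294) (nat_lit 439) (nat_lit 5) (nat_lit 451) (nat_lit 5)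 (nat_lit 452) (nat_lit 5) (nat_lit 362) (nat_lit 350) (nat_lit 308))))) (XT.nd (nat_lit 312) (nat_lit 3192) (nat_lit 0) (XT.nd (nat_lit 156) (nat_lit 912) (nat_lit 0) (XT.nd (nat_lit 78) (nat_lit 0) (nat_lit 0) (XT.lf (nat_lit 0) (nat_lit 2191786076) (nat_lit 912) (nat_lit 640486768) (nat_lit 988) (nat_lit 4822074229) (nat_lit 439) (nat_lit 5) (nat_lit 451) (nat_lit 5) (nat_lit 452) (nat_lit 5) (nat_lit 363) (nat_lit 350) (nat_lit 307)) (XT.lf (nat_lit 76) (nat_lit 3803233183) (nat_lit 0) (nat_lit 280472376) (nat_lit 988) (nat_lit 3651664848) (nat_lit 440) (nat_lit 5) (nat_lit 439) (nat_lit 5) (nat_lit 452) (nat_lit 5) (nat_lit 364) (nat_lit 350) (nat_lit 306))) (XT.nd (nat_lit 78) (nat_lit 76) (nat_lit 0) (XT.lf (nat_lit 0) (nat_lit 518666058) (nat_lit 912) (nat_lit 5491989567) (nat_lit 988) (nat_lit 1808820627) (nat_lit 428) (nat_lit 5) (nat_lit 440) (nat_lit 5) (nat_lit 441) (nat_lit 5) (nat_lit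 365) (nat_lit 350) (nat_lit 305)) (XT.lf (nat_lit 0) (nat_lit 75299594) (nat_lit 988) (nat_lit 2769599749) (nat_lit 76) (nat_lit 5061548170) (nat_lit 427) (nat_lit 5) (nat_lit 440) (nat_lit 5) (nat_lit 428) (nat_lit 5) (nat_lit 366) (nat_lit 350) (nat_lit 304)))) (XT.nd (nat_lit 156) (nat_lit 2204) (nat_lit 0) (XT.nd (nat_lit 78) (nat_lit 0) (nat_lit 0) (XT.lf (nat_lit 0) (nat_lit 1873224752) (nat_lit 988) (nat_lit 70832317) (nat_lit 1064) (nat_lit 6052499497) (nat_lit 414) (nat_lit 5) (nat_lit 427) (nat_lit 5) (nat_lit 428) (nat_lit 5) (nat_lit 367) (nat_lit 350) (nat_lit 303)) (XT.lf (nat_lit 0) (nat_lit 3871614373) (nat_lit 1064) (nat_lit 1447695309) (nat_lit 76) (nat_lit 2769977094) (nat_lit 414) (nat_lit 5) (nat_lit 428) (nat_lit 5) (nat_lit 415) (nat_lit 5) (nat_lit 368) (nat_lit 350) (nat_lit 302))) (XT.nd (nat_lit 78) (nat_lit 1140) (nat_lit 0) (XT.lf (nat_lit 0) (nat_lit 3390750978) (nat_lit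 1064) (nat_lit 2448773326) (nat_lit 1140) (nat_lit 2345798812) (nat_lit 400) (nat_lit 5) (nat_lit 414) (nat_lit 5) (nat_lit 415) (nat_lit 5) (nat_lit 369) (nat_lit 350) (nat_lit 301)) (XT.lf (nat_lit 0) (nat_lit 72550852) (nat_lit 1140) (nat_lit 7764633710) (nat_lit 1216) (nat_lit 447934592) (nat_lit 385) (nat_lit 5) (nat_lit 400) (nat_lit 5) (nat_lit 401) (nat_lit 5) (nat_lit 370) (nat_lit 350) (nat_lit 300))))))) (XT.nd (nat_lit 1170) (nat_lit 4408) (nat_lit 0) (XT.nd (nat_lit 546) (nat_lit 2812) (nat_lit 0) (XT.nd (nat_lit 234) (nat_lit 2128) (nat_lit 0) (XT.nd (nat_lit 78) (nat_lit 1216) (nat_lit 0) (XT.lf (nat_lit 0) (nat_lit 1501516457) (nat_lit 1216) (nat_lit 3286302595) (nat_lit 76) (nat_lit 3598933818) (nat_lit 384) (nat_lit 5) (nat_lit 400) (nat_lit 5) (nat_lit 385) (nat_lit 5) (nat_lit 371) (nat_lit 350) (nat_lit 299)) (XT.nd (nat_lit 78) (nat_lit 0) (nat_lit 0) (XT.lf (nat_lit 0) (nat_lit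 1774636911) (nat_lit 1216) (nat_lit 1695214501) (nat_lit 1292) (nat_lit 5022369031) (nat_lit 368) (nat_lit 5) (nat_lit 384) (nat_lit 5) (nat_lit 385) (nat_lit 5) (nat_lit 372) (nat_lit 350) (nat_lit 298)) (XT.lf (nat_lit 0) (nat_lit 5498431404) (nat_lit 1292) (nat_lit 1604059894) (nat_lit 76) (nat_lit 1498324897) (nat_lit 368) (nat_lit 5) (nat_lit 385) (nat_lit 5) (nat_lit 369) (nat_lit 5) (nat_lit 373) (nat_lit 350) (nat_lit 297)))) (XT.nd (nat_lit 156) (nat_lit 608) (nat_lit 0) (XT.nd (nat_lit 78) (nat_lit 684) (nat_lit 0) (XT.lf (nat_lit 0) (nat_lit 3674762900) (nat_lit 836) (nat_lit 3919929606) (nat_lit 912) (nat_lit 1117772601) (nat_lit 357) (nat_lit 5) (nat_lit 368) (nat_lit 5) (nat_lit 369) (nat_lit 5) (nat_lit 374) (nat_lit 350) (nat_lit 296)) (XT.lf (nat_lit 0) (nat_lit 270568821) (nat_lit 608) (nat_lit 611876645) (nat_lit 684) (nat_lit 7945526539) (nat_lit 348) (nat_lit 5) (nat_lit 356) (nat_lit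 5) (nat_lit 357) (nat_lit 5) (nat_lit 375) (nat_lit 350) (nat_lit 295))) (XT.nd (nat_lit 78) (nat_lit 608) (nat_lit 0) (XT.lf (nat_lit 0) (nat_lit 2954534580) (nat_lit 684) (nat_lit 3186903585) (nat_lit 76) (nat_lit 2804144013) (nat_lit 348) (nat_lit 5) (nat_lit 357) (nat_lit 5) (nat_lit 349) (nat_lit 5) (nat_lit 376) (nat_lit 350) (nat_lit 294)) (XT.lf (nat_lit 0) (nat_lit 2341232338) (nat_lit 608) (nat_lit 2733481429) (nat_lit 684) (nat_lit 3992429069) (nat_lit 340) (nat_lit 5) (nat_lit 348) (nat_lit 5) (nat_lit 349) (nat_lit 5) (nat_lit 377) (nat_lit 350) (nat_lit 293))))) (XT.nd (nat_lit 312) (nat_lit 1596) (nat_lit 0) (XT.nd (nat_lit 156) (nat_lit 608) (nat_lit 0) (XT.nd (nat_lit 78) (nat_lit 608) (nat_lit 0) (XT.lf (nat_lit 0) (nat_lit 7256651620) (nat_lit 684) (nat_lit 1142558441) (nat_lit 76) (nat_lit 793195654) (nat_lit 340) (nat_lit 5) (nat_lit 349) (nat_lit 5) (nat_lit 341) (nat_lit 5) (nat_lit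 378) (nat_lit 350) (nat_lit 292)) (XT.lf (nat_lit 0) (nat_lit 210328959) (nat_lit 608) (nat_lit 4693652867) (nat_lit 76) (nat_lit 4416453847) (nat_lit 332) (nat_lit 5) (nat_lit 340) (nat_lit 5) (nat_lit 333) (nat_lit 5) (nat_lit 379) (nat_lit 350) (nat_lit 291))) (XT.nd (nat_lit 78) (nat_lit 0) (nat_lit 0) (XT.lf (nat_lit 0) (nat_lit 1099814325) (nat_lit 608) (nat_lit 1264084334) (nat_lit 684) (nat_lit 7088372568) (nat_lit 324) (nat_lit 5) (nat_lit 332) (nat_lit 5) (nat_lit 333) (nat_lit 5) (nat_lit 380) (nat_lit 350) (nat_lit 290)) (XT.lf (nat_lit 0) (nat_lit 4614347116) (nat_lit 684) (nat_lit 2491459249) (nat_lit 76) (nat_lit 2481287332) (nat_lit 324) (nat_lit 5) (nat_lit 333) (nat_lit 5) (nat_lit 325) (nat_lit 5) (nat_lit 381) (nat_lit 350) (nat_lit 289)))) (XT.nd (nat_lit 156) (nat_lit 1064) (nat_lit 0) (XT.nd (nat_lit 78) (nat_lit 0) (nat_lit 0) (XT.lf (nat_lit 0) (nat_lit 3559828988) (nat_lit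 532) (nat_lit 3380883197) (nat_lit 608) (nat_lit 2784996562) (nat_lit 317) (nat_lit 5) (nat_lit 324) (nat_lit 5) (nat_lit 325) (nat_lit 5) (nat_lit 382) (nat_lit 350) (nat_lit 288)) (XT.lf (nat_lit 0) (nat_lit 9328994922) (nat_lit 608) (nat_lit 71787527) (nat_lit 76) (nat_lit 467935998) (nat_lit 317) (nat_lit 5) (nat_lit 325) (nat_lit 5) (nat_lit 318) (nat_lit 5) (nat_lit 383) (nat_lit 350) (nat_lit 287))) (XT.nd (nat_lit 78) (nat_lit 456) (nat_lit 0) (XT.lf (nat_lit 0) (nat_lit 1795880408) (nat_lit 608) (nat_lit 3780168463) (nat_lit 76) (nat_lit 4437731242) (nat_lit 309) (nat_lit 5) (nat_lit 317) (nat_lit 5) (nat_lit 310) (nat_lit 5) (nat_lit 384) (nat_lit 350) (nat_lit 286)) (XT.lf (nat_lit 0) (nat_lit 2569041063) (nat_lit 456) (nat_lit 1610835944) (nat_lit 532) (nat_lit 5983481136) (nat_lit 303) (nat_lit 5) (nat_lit 309) (nat_lit 5) (nat_lit 310) (nat_lit 5) (nat_lit 385) (nat_lit 350) (nat_lit 285))))))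 (XT.nd (nat_lit 624) (nat_lit 1976) (nat_lit 0) (XT.nd (nat_lit 312) (nat_lit 1368) (nat_lit 0) (XT.nd (nat_lit 156) (nat_lit 532) (nat_lit 0) (XT.nd (nat_lit 78) (nat_lit 532) (nat_lit 0) (XT.lf (nat_lit 0) (nat_lit 6662058709) (nat_lit 532) (nat_lit 1197021167) (nat_lit 76) (nat_lit 2457543681) (nat_lit 303) (nat_lit 5) (nat_lit 310) (nat_lit 5) (nat_lit 304) (nat_lit 5) (nat_lit 386) (nat_lit 350) (nat_lit 284)) (XT.lf (nat_lit 0) (nat_lit 5440855925) (nat_lit 532) (nat_lit 3811478068) (nat_lit 608) (nat_lit 1221144096) (nat_lit 296) (nat_lit 5) (nat_lit 303) (nat_lit 5) (nat_lit 304) (nat_lit 5) (nat_lit 387) (nat_lit 350) (nat_lit 283))) (XT.nd (nat_lit 78) (nat_lit 0) (nat_lit 0) (XT.lf (nat_lit 0) (nat_lit 1257643280) (nat_lit 532) (nat_lit 8993090514) (nat_lit 76) (nat_lit 384010483) (nat_lit 289) (nat_lit 5) (nat_lit 296) (nat_lit 5) (nat_lit 290) (nat_lit 5) (nat_lit 388) (nat_lit 350) (nat_lit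 282)) (XT.lf (nat_lit 0) (nat_lit 3841493502) (nat_lit 532) (nat_lit 2272697099) (nat_lit 76) (nat_lit 4684637845) (nat_lit 289) (nat_lit 5) (nat_lit 296) (nat_lit 5) (nat_lit 290) (nat_lit 5) (nat_lit 389) (nat_lit 350) (nat_lit 281)))) (XT.nd (nat_lit 156) (nat_lit 532) (nat_lit 0) (XT.nd (nat_lit 78) (nat_lit 380) (nat_lit 0) (XT.lf (nat_lit 0) (nat_lit 4699889877) (nat_lit 456) (nat_lit 1815315359) (nat_lit 532) (nat_lit 4452259523) (nat_lit 283) (nat_lit 5) (nat_lit 289) (nat_lit 5) (nat_lit 290) (nat_lit 5) (nat_lit 390) (nat_lit 350) (nat_lit 280)) (XT.lf (nat_lit 0) (nat_lit 735162611) (nat_lit 380) (nat_lit 8556974013) (nat_lit 456) (nat_lit 1848333288) (nat_lit 278) (nat_lit 5) (nat_lit 283) (nat_lit 5) (nat_lit 284) (nat_lit 5) (nat_lit 391) (nat_lit 350) (nat_lit 279))) (XT.nd (nat_lit 78) (nat_lit 456) (nat_lit 0) (XT.lf (nat_lit 0) (nat_lit 867214792) (nat_lit 456) (nat_lit 3308764053)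 (nat_lit 76) (nat_lit 7140952769) (nat_lit 277) (nat_lit 5) (nat_lit 283) (nat_lit 5) (nat_lit 278) (nat_lit 5) (nat_lit 392) (nat_lit 350) (nat_lit 278)) (XT.lf (nat_lit 0) (nat_lit 3638249351) (nat_lit 532) (nat_lit 7481423674) (nat_lit 76) (nat_lit 378130039) (nat_lit 271) (nat_lit 5) (nat_lit 278) (nat_lit 5) (nat_lit 272) (nat_lit 5) (nat_lit 393) (nat_lit 350) (nat_lit 277))))) (XT.nd (nat_lit 312) (nat_lit 1140) (nat_lit 0) (XT.nd (nat_lit 156) (nat_lit 456) (nat_lit 0) (XT.nd (nat_lit 78) (nat_lit 380) (nat_lit 0) (XT.lf (nat_lit 0) (nat_lit 6536751618) (nat_lit 532) (nat_lit 136727373) (nat_lit 76) (nat_lit 5009291566) (nat_lit 271) (nat_lit 5) (nat_lit 278) (nat_lit 5) (nat_lit 272) (nat_lit 5) (nat_lit 394) (nat_lit 350) (nat_lit 276)) (XT.lf (nat_lit 0) (nat_lit 7535494754) (nat_lit 380) (nat_lit 2029293194) (nat_lit 456) (nat_lit 2307221760) (nat_lit 266) (nat_lit 5) (nat_lit 271) (nat_lit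 5) (nat_lit 272) (nat_lit 5) (nat_lit 395) (nat_lit 350) (nat_lit 275))) (XT.nd (nat_lit 78) (nat_lit 0) (nat_lit 0) (XT.lf (nat_lit 0) (nat_lit 635837807) (nat_lit 456) (nat_lit 8699357916) (nat_lit 76) (nat_lit 2730618456) (nat_lit 260) (nat_lit 5) (nat_lit 266) (nat_lit 5) (nat_lit 261) (nat_lit 5) (nat_lit 396) (nat_lit 350) (nat_lit 274)) (XT.lf (nat_lit 0) (nat_lit 3655856489) (nat_lit 456) (nat_lit 958518331) (nat_lit 76) (nat_lit 7649321446) (nat_lit 260) (nat_lit 5) (nat_lit 266) (nat_lit 5) (nat_lit 261) (nat_lit 5) (nat_lit 397) (nat_lit 350) (nat_lit 273)))) (XT.nd (nat_lit 156) (nat_lit 380) (nat_lit 0) (XT.nd (nat_lit 78) (nat_lit 380) (nat_lit 0) (XT.lf (nat_lit 0) (nat_lit 6809395363) (nat_lit 456) (nat_lit 5355168108) (nat_lit 76) (nat_lit 301663753) (nat_lit 255) (nat_lit 5) (nat_lit 261) (nat_lit 5) (nat_lit 256) (nat_lit 5) (nat_lit 398) (nat_lit 350) (nat_lit 272)) (XT.lf (nat_lit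 0) (nat_lit 2735819618) (nat_lit 380) (nat_lit 7375407308) (nat_lit 456) (nat_lit 2561996591) (nat_lit 250) (nat_lit 5) (nat_lit 255) (nat_lit 5) (nat_lit 256) (nat_lit 5) (nat_lit 399) (nat_lit 350) (nat_lit 271))) (XT.nd (nat_lit 78) (nat_lit 304) (nat_lit 0) (XT.lf (nat_lit 0) (nat_lit 640179827) (nat_lit 456) (nat_lit 1751823837) (nat_lit 76) (nat_lit 10493444438) (nat_lit 249) (nat_lit 5) (nat_lit 255) (nat_lit 5) (nat_lit 250) (nat_lit 5) (nat_lit 400) (nat_lit 350) (nat_lit 270)) (XT.lf (nat_lit 0) (nat_lit 3951820045) (nat_lit 380) (nat_lit 6382280410) (nat_lit 76) (nat_lit 2767231217) (nat_lit 245) (nat_lit 5) (nat_lit 250) (nat_lit 5) (nat_lit 246) (nat_lit 5) (nat_lit 401) (nat_lit 350) (nat_lit 269))))))))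
noncomputable def xc124 : XT := (XT.nd (nat_lit 2340) (nat_lit 3268) (nat_lit 0) (XT.nd (nat_lit 1170) (nat_lit 2356) (nat_lit 0) (XT.nd (nat_lit 546) (nat_lit 1444) (nat_lit 0) (XT.nd (nat_lit 234) (nat_lit 988) (nat_lit 0) (XT.nd (nat_lit 78) (nat_lit 380) (nat_lit 0) (XT.lf (nat_lit 0) (nat_lit 2135687900) (nat_lit 380) (nat_lit 5262415908) (nat_lit 456) (nat_lit 5924529112) (nat_lit 240) (nat_lit 5) (nat_lit 245) (nat_lit 5) (nat_lit 246) (nat_lit 5) (nat_lit 402) (nat_lit 350) (nat_lit 268)) (XT.nd (nat_lit 78) (nat_lit 380) (nat_lit 0) (XT.lf (nat_lit 0) (nat_lit 10986000812) (nat_lit 456) (nat_lit 2548104693) (nat_lit 76) (nat_lit 15320957) (nat_lit 240) (nat_lit 5) (nat_lit 246) (nat_lit 5) (nat_lit 241) (nat_lit 5) (nat_lit 403) (nat_lit 350) (nat_lit 267)) (XT.lf (nat_lit 0) (nat_lit 969600028) (nat_lit 380) (nat_lit 7405599762) (nat_lit 76) (nat_lit 5404906241) (nat_lit 235) (nat_lit 5) (nat_lit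 240) (nat_lit 5) (nat_lit 236) (nat_lit 5) (nat_lit 404) (nat_lit 350) (nat_lit 266)))) (XT.nd (nat_lit 156) (nat_lit 684) (nat_lit 0) (XT.nd (nat_lit 78) (nat_lit 0) (nat_lit 0) (XT.lf (nat_lit 0) (nat_lit 1566817341) (nat_lit 304) (nat_lit 3005740022) (nat_lit 380) (nat_lit 9443923315) (nat_lit 231) (nat_lit 5) (nat_lit 235) (nat_lit 5) (nat_lit 236) (nat_lit 5) (nat_lit 405) (nat_lit 350) (nat_lit 265)) (XT.lf (nat_lit 0) (nat_lit 8358072091) (nat_lit 380) (nat_lit 3360975716) (nat_lit 76) (nat_lit 2538664697) (nat_lit 231) (nat_lit 5) (nat_lit 236) (nat_lit 5) (nat_lit 232) (nat_lit 5) (nat_lit 406) (nat_lit 350) (nat_lit 264))) (XT.nd (nat_lit 78) (nat_lit 380) (nat_lit 0) (XT.lf (nat_lit 0) (nat_lit 6051340121) (nat_lit 304) (nat_lit 6269154971) (nat_lit 380) (nat_lit 2183785907) (nat_lit 227) (nat_lit 5) (nat_lit 231) (nat_lit 5) (nat_lit 232) (nat_lit 5) (nat_lit 407) (nat_lit 350) (nat_lit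 263)) (XT.lf (nat_lit 0) (nat_lit 1024065463) (nat_lit 304) (nat_lit 607061066) (nat_lit 380) (nat_lit 13126056444) (nat_lit 222) (nat_lit 5) (nat_lit 226) (nat_lit 5) (nat_lit 227) (nat_lit 5) (nat_lit 408) (nat_lit 350) (nat_lit 262))))) (XT.nd (nat_lit 312) (nat_lit 836) (nat_lit 0) (XT.nd (nat_lit 156) (nat_lit 380) (nat_lit 0) (XT.nd (nat_lit 78) (nat_lit 228) (nat_lit 0) (XT.lf (nat_lit 0) (nat_lit 5628787988) (nat_lit 380) (nat_lit 4166851569) (nat_lit 76) (nat_lit 5218017993) (nat_lit 222) (nat_lit 5) (nat_lit 227) (nat_lit 5) (nat_lit 223) (nat_lit 5) (nat_lit 409) (nat_lit 350) (nat_lit 261)) (XT.lf (nat_lit 0) (nat_lit 5756104828) (nat_lit 228) (nat_lit 4028087461) (nat_lit 304) (nat_lit 5492499687) (nat_lit 219) (nat_lit 5) (nat_lit 222) (nat_lit 5) (nat_lit 223) (nat_lit 5) (nat_lit 410) (nat_lit 350) (nat_lit 260))) (XT.nd (nat_lit 78) (nat_lit 76) (nat_lit 0) (XT.lf (nat_lit 0) (nat_lit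 469348539) (nat_lit 304) (nat_lit 13636982121) (nat_lit 380) (nat_lit 1440024614) (nat_lit 215) (nat_lit 5) (nat_lit 219) (nat_lit 5) (nat_lit 220) (nat_lit 5) (nat_lit 411) (nat_lit 350) (nat_lit 259)) (XT.lf (nat_lit 0) (nat_lit 2794430900) (nat_lit 380) (nat_lit 4971116072) (nat_lit 76) (nat_lit 8054360361) (nat_lit 214) (nat_lit 5) (nat_lit 219) (nat_lit 5) (nat_lit 215) (nat_lit 5) (nat_lit 412) (nat_lit 350) (nat_lit 258)))) (XT.nd (nat_lit 156) (nat_lit 608) (nat_lit 0) (XT.nd (nat_lit 78) (nat_lit 0) (nat_lit 0) (XT.lf (nat_lit 0) (nat_lit 5495076025) (nat_lit 228) (nat_lit 1662182891) (nat_lit 304) (nat_lit 8943070850) (nat_lit 211) (nat_lit 5) (nat_lit 214) (nat_lit 5) (nat_lit 215) (nat_lit 5) (nat_lit 413) (nat_lit 350) (nat_lit 257)) (XT.lf (nat_lit 0) (nat_lit 11723766366) (nat_lit 304) (nat_lit 91484560) (nat_lit 76) (nat_lit 4571730109) (nat_lit 211) (nat_lit 5) (nat_lit 215) (nat_lit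 5) (nat_lit 212) (nat_lit 5) (nat_lit 414) (nat_lit 350) (nat_lit 256))) (XT.nd (nat_lit 78) (nat_lit 304) (nat_lit 0) (XT.lf (nat_lit 0) (nat_lit 10898933332) (nat_lit 304) (nat_lit 5627858841) (nat_lit 380) (nat_lit 152453975) (nat_lit 207) (nat_lit 5) (nat_lit 211) (nat_lit 5) (nat_lit 212) (nat_lit 5) (nat_lit 415) (nat_lit 350) (nat_lit 255)) (XT.lf (nat_lit 0) (nat_lit 4443844865) (nat_lit 304) (nat_lit 11720903661) (nat_lit 76) (nat_lit 813097756) (nat_lit 203) (nat_lit 5) (nat_lit 207) (nat_lit 5) (nat_lit 204) (nat_lit 5) (nat_lit 416) (nat_lit 350) (nat_lit 254)))))) (XT.nd (nat_lit 546) (nat_lit 1292) (nat_lit 0) (XT.nd (nat_lit 234) (nat_lit 532) (nat_lit 0) (XT.nd (nat_lit 78) (nat_lit 532) (nat_lit 0) (XT.lf (nat_lit 0) (nat_lit 9268190271) (nat_lit 304) (nat_lit 632894142) (nat_lit 76) (nat_lit 7381478070) (nat_lit 203) (nat_lit 5) (nat_lit 207) (nat_lit 5) (nat_lit 204) (nat_lit 5) (nat_lit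 417) (nat_lit 350) (nat_lit 253)) (XT.nd (nat_lit 78) (nat_lit 304) (nat_lit 0) (XT.lf (nat_lit 0) (nat_lit 10967560083) (nat_lit 228) (nat_lit 3354310187) (nat_lit 304) (nat_lit 3272011773) (nat_lit 200) (nat_lit 5) (nat_lit 203) (nat_lit 5) (nat_lit 204) (nat_lit 5) (nat_lit 418) (nat_lit 350) (nat_lit 252)) (XT.lf (nat_lit 0) (nat_lit 1648679987) (nat_lit 304) (nat_lit 12882582623) (nat_lit 76) (nat_lit 3380787680) (nat_lit 196) (nat_lit 5) (nat_lit 200) (nat_lit 5) (nat_lit 197) (nat_lit 5) (nat_lit 419) (nat_lit 350) (nat_lit 251)))) (XT.nd (nat_lit 156) (nat_lit 304) (nat_lit 0) (XT.nd (nat_lit 78) (nat_lit 228) (nat_lit 0) (XT.lf (nat_lit 0) (nat_lit 6731417662) (nat_lit 304) (nat_lit 1167699609) (nat_lit 76) (nat_lit 10337268748) (nat_lit 196) (nat_lit 5) (nat_lit 200) (nat_lit 5) (nat_lit 197) (nat_lit 5) (nat_lit 420) (nat_lit 350) (nat_lit 250)) (XT.lf (nat_lit 0) (nat_lit 11081433776) (nat_lit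 228) (nat_lit 971728125) (nat_lit 304) (nat_lit 6514694185) (nat_lit 193) (nat_lit 5) (nat_lit 196) (nat_lit 5) (nat_lit 197) (nat_lit 5) (nat_lit 421) (nat_lit 350) (nat_lit 249))) (XT.nd (nat_lit 78) (nat_lit 76) (nat_lit 0) (XT.lf (nat_lit 0) (nat_lit 4814066779) (nat_lit 228) (nat_lit 12818061384) (nat_lit 304) (nat_lit 1274215003) (nat_lit 190) (nat_lit 5) (nat_lit 193) (nat_lit 5) (nat_lit 194) (nat_lit 5) (nat_lit 422) (nat_lit 350) (nat_lit 248)) (XT.lf (nat_lit 0) (nat_lit 4109185807) (nat_lit 304) (nat_lit 1699324325) (nat_lit 76) (nat_lit 13443300467) (nat_lit 189) (nat_lit 5) (nat_lit 193) (nat_lit 5) (nat_lit 190) (nat_lit 5) (nat_lit 423) (nat_lit 350) (nat_lit 247))))) (XT.nd (nat_lit 312) (nat_lit 608) (nat_lit 0) (XT.nd (nat_lit 156) (nat_lit 304) (nat_lit 0) (XT.nd (nat_lit 78) (nat_lit 152) (nat_lit 0) (XT.lf (nat_lit 0) (nat_lit 9731930847) (nat_lit 304) (nat_lit 8379763815) (nat_lit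 76) (nat_lit 1492465335) (nat_lit 186) (nat_lit 5) (nat_lit 190) (nat_lit 5) (nat_lit 187) (nat_lit 5) (nat_lit 424) (nat_lit 350) (nat_lit 246)) (XT.lf (nat_lit 0) (nat_lit 4603471978) (nat_lit 152) (nat_lit 11019877919) (nat_lit 228) (nat_lit 4340730230) (nat_lit 184) (nat_lit 5) (nat_lit 186) (nat_lit 5) (nat_lit 187) (nat_lit 5) (nat_lit 425) (nat_lit 350) (nat_lit 245))) (XT.nd (nat_lit 78) (nat_lit 228) (nat_lit 0) (XT.lf (nat_lit 0) (nat_lit 1396654448) (nat_lit 228) (nat_lit 2230990655) (nat_lit 76) (nat_lit 16704769056) (nat_lit 183) (nat_lit 5) (nat_lit 186) (nat_lit 5) (nat_lit 184) (nat_lit 5) (nat_lit 426) (nat_lit 350) (nat_lit 244)) (XT.lf (nat_lit 0) (nat_lit 7350111094) (nat_lit 304) (nat_lit 9306555344) (nat_lit 76) (nat_lit 4049906603) (nat_lit 180) (nat_lit 5) (nat_lit 184) (nat_lit 5) (nat_lit 181) (nat_lit 5) (nat_lit 427) (nat_lit 350) (nat_lit 243)))) (XT.nd (nat_lit 156) (nat_lit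 456) (nat_lit 0) (XT.nd (nat_lit 78) (nat_lit 0) (nat_lit 0) (XT.lf (nat_lit 0) (nat_lit 4412385256) (nat_lit 152) (nat_lit 9152489544) (nat_lit 228) (nat_lit 7524600789) (nat_lit 178) (nat_lit 5) (nat_lit 180) (nat_lit 5) (nat_lit 181) (nat_lit 5) (nat_lit 428) (nat_lit 350) (nat_lit 242)) (XT.lf (nat_lit 0) (nat_lit 18701998380) (nat_lit 152) (nat_lit 1339911753) (nat_lit 228) (nat_lit 1439680220) (nat_lit 178) (nat_lit 5) (nat_lit 180) (nat_lit 5) (nat_lit 181) (nat_lit 5) (nat_lit 429) (nat_lit 350) (nat_lit 241))) (XT.nd (nat_lit 78) (nat_lit 152) (nat_lit 0) (XT.lf (nat_lit 0) (nat_lit 4894027930) (nat_lit 304) (nat_lit 10261812113) (nat_lit 76) (nat_lit 6723422862) (nat_lit 174) (nat_lit 5) (nat_lit 178) (nat_lit 5) (nat_lit 175) (nat_lit 5) (nat_lit 430) (nat_lit 350) (nat_lit 240)) (XT.lf (nat_lit 0) (nat_lit 4239083553) (nat_lit 152) (nat_lit 7214389118) (nat_lit 228) (nat_lit 10833025490)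 (nat_lit 172) (nat_lit 5) (nat_lit 174) (nat_lit 5) (nat_lit 175) (nat_lit 5) (nat_lit 431) (nat_lit 350) (nat_lit 239))))))) (XT.nd (nat_lit 1170) (nat_lit 1520) (nat_lit 0) (XT.nd (nat_lit 546) (nat_lit 988) (nat_lit 0) (XT.nd (nat_lit 234) (nat_lit 380) (nat_lit 0) (XT.nd (nat_lit 78) (nat_lit 380) (nat_lit 0) (XT.lf (nat_lit 0) (nat_lit 18306019736) (nat_lit 228) (nat_lit 3359071120) (nat_lit 76) (nat_lit 1037970050) (nat_lit 172) (nat_lit 5) (nat_lit 175) (nat_lit 5) (nat_lit 173) (nat_lit 5) (nat_lit 432) (nat_lit 350) (nat_lit 238)) (XT.nd (nat_lit 78) (nat_lit 152) (nat_lit 0) (XT.lf (nat_lit 0) (nat_lit 2358863957) (nat_lit 228) (nat_lit 11249849575) (nat_lit 76) (nat_lit 9517651451) (nat_lit 169) (nat_lit 5) (nat_lit 172) (nat_lit 5) (nat_lit 170) (nat_lit 5) (nat_lit 433) (nat_lit 350) (nat_lit 237)) (XT.lf (nat_lit 0) (nat_lit 4082043268) (nat_lit 152) (nat_lit 5203466037) (nat_lit 228)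 (nat_lit 14273859647) (nat_lit 167) (nat_lit 5) (nat_lit 169) (nat_lit 5) (nat_lit 170) (nat_lit 5) (nat_lit 434) (nat_lit 350) (nat_lit 236)))) (XT.nd (nat_lit 156) (nat_lit 228) (nat_lit 0) (XT.nd (nat_lit 78) (nat_lit 152) (nat_lit 0) (XT.lf (nat_lit 0) (nat_lit 16550905518) (nat_lit 228) (nat_lit 3962274838) (nat_lit 76) (nat_lit 3488254142) (nat_lit 167) (nat_lit 5) (nat_lit 170) (nat_lit 5) (nat_lit 168) (nat_lit 5) (nat_lit 435) (nat_lit 350) (nat_lit 235)) (XT.lf (nat_lit 0) (nat_lit 12174670536) (nat_lit 152) (nat_lit 12011661315) (nat_lit 228) (nat_lit 265868109) (nat_lit 165) (nat_lit 5) (nat_lit 167) (nat_lit 5) (nat_lit 168) (nat_lit 5) (nat_lit 436) (nat_lit 350) (nat_lit 234))) (XT.nd (nat_lit 78) (nat_lit 0) (nat_lit 0) (XT.lf (nat_lit 0) (nat_lit 3939919061) (nat_lit 152) (nat_lit 3117032651) (nat_lit 228) (nat_lit 17855624220) (nat_lit 162) (nat_lit 5) (nat_lit 164) (nat_lit 5) (nat_lit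 165) (nat_lit 5) (nat_lit 437) (nat_lit 350) (nat_lit 233)) (XT.lf (nat_lit 0) (nat_lit 14761047907) (nat_lit 228) (nat_lit 4579155158) (nat_lit 76) (nat_lit 6041473082) (nat_lit 162) (nat_lit 5) (nat_lit 165) (nat_lit 5) (nat_lit 163) (nat_lit 5) (nat_lit 438) (nat_lit 350) (nat_lit 232))))) (XT.nd (nat_lit 312) (nat_lit 456) (nat_lit 0) (XT.nd (nat_lit 156) (nat_lit 152) (nat_lit 0) (XT.nd (nat_lit 78) (nat_lit 228) (nat_lit 0) (XT.lf (nat_lit 0) (nat_lit 12490166591) (nat_lit 152) (nat_lit 10341128305) (nat_lit 228) (nat_lit 3029503636) (nat_lit 160) (nat_lit 5) (nat_lit 162) (nat_lit 5) (nat_lit 163) (nat_lit 5) (nat_lit 439) (nat_lit 350) (nat_lit 231)) (XT.lf (nat_lit 0) (nat_lit 3811525047) (nat_lit 152) (nat_lit 951845068) (nat_lit 228) (nat_lit 21587519138) (nat_lit 157) (nat_lit 5) (nat_lit 159) (nat_lit 5) (nat_lit 160) (nat_lit 5) (nat_lit 440) (nat_lit 350) (nat_lit 230))) (XT.nd (nat_lit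 78) (nat_lit 152) (nat_lit 0) (XT.lf (nat_lit 0) (nat_lit 12933506347) (nat_lit 228) (nat_lit 5212493165) (nat_lit 76) (nat_lit 8702652341) (nat_lit 157) (nat_lit 5) (nat_lit 160) (nat_lit 5) (nat_lit 158) (nat_lit 5) (nat_lit 441) (nat_lit 350) (nat_lit 229)) (XT.lf (nat_lit 0) (nat_lit 12847353864) (nat_lit 152) (nat_lit 8618972702) (nat_lit 228) (nat_lit 5891493371) (nat_lit 155) (nat_lit 5) (nat_lit 157) (nat_lit 5) (nat_lit 158) (nat_lit 5) (nat_lit 442) (nat_lit 350) (nat_lit 228)))) (XT.nd (nat_lit 156) (nat_lit 228) (nat_lit 0) (XT.nd (nat_lit 78) (nat_lit 0) (nat_lit 0) (XT.lf (nat_lit 0) (nat_lit 2412393767) (nat_lit 228) (nat_lit 24196016275) (nat_lit 76) (nat_lit 1270593876) (nat_lit 152) (nat_lit 5) (nat_lit 155) (nat_lit 5) (nat_lit 153) (nat_lit 5) (nat_lit 443) (nat_lit 350) (nat_lit 227)) (XT.lf (nat_lit 0) (nat_lit 11065042869) (nat_lit 228) (nat_lit 5865040212) (nat_lit 76) (nat_lit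 11477448634) (nat_lit 152) (nat_lit 5) (nat_lit 155) (nat_lit 5) (nat_lit 153) (nat_lit 5) (nat_lit 444) (nat_lit 350) (nat_lit 226))) (XT.nd (nat_lit 78) (nat_lit 76) (nat_lit 0) (XT.lf (nat_lit 0) (nat_lit 13246993570) (nat_lit 152) (nat_lit 6842804573) (nat_lit 228) (nat_lit 8858741400) (nat_lit 150) (nat_lit 5) (nat_lit 152) (nat_lit 5) (nat_lit 153) (nat_lit 5) (nat_lit 445) (nat_lit 350) (nat_lit 225)) (XT.lf (nat_lit 0) (nat_lit 3555901061) (nat_lit 76) (nat_lit 25942724761) (nat_lit 152) (nat_lit 3751893) (nat_lit 149) (nat_lit 5) (nat_lit 150) (nat_lit 5) (nat_lit 151) (nat_lit 4) (nat_lit 446) (nat_lit 350) (nat_lit 224)))))) (XT.nd (nat_lit 624) (nat_lit 684) (nat_lit 0) (XT.nd (nat_lit 312) (nat_lit 456) (nat_lit 0) (XT.nd (nat_lit 156) (nat_lit 152) (nat_lit 0) (XT.nd (nat_lit 78) (nat_lit 152) (nat_lit 0) (XT.lf (nat_lit 0) (nat_lit 9152123295) (nat_lit 152) (nat_lit 6539537785) (nat_lit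 76) (nat_lit 14372146660) (nat_lit 148) (nat_lit 5) (nat_lit 150) (nat_lit 5) (nat_lit 149) (nat_lit 5) (nat_lit 447) (nat_lit 350) (nat_lit 223)) (XT.lf (nat_lit 0) (nat_lit 13690070299) (nat_lit 152) (nat_lit 5009819652) (nat_lit 228) (nat_lit 11938670881) (nat_lit 146) (nat_lit 5) (nat_lit 148) (nat_lit 5) (nat_lit 149) (nat_lit 5) (nat_lit 448) (nat_lit 350) (nat_lit 222))) (XT.nd (nat_lit 78) (nat_lit 76) (nat_lit 0) (XT.lf (nat_lit 0) (nat_lit 3413712134) (nat_lit 76) (nat_lit 25263224580) (nat_lit 152) (nat_lit 2549334391) (nat_lit 145) (nat_lit 5) (nat_lit 146) (nat_lit 5) (nat_lit 147) (nat_lit 4) (nat_lit 449) (nat_lit 350) (nat_lit 221)) (XT.lf (nat_lit 0) (nat_lit 7190916194) (nat_lit 152) (nat_lit 7238736177) (nat_lit 76) (nat_lit 17393660464) (nat_lit 144) (nat_lit 5) (nat_lit 146) (nat_lit 5) (nat_lit 145) (nat_lit 5) (nat_lit 450) (nat_lit 350) (nat_lit 220)))) (XT.nd (nat_lit 156) (nat_lit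 228) (nat_lit 0) (XT.nd (nat_lit 78) (nat_lit 76) (nat_lit 0) (XT.lf (nat_lit 0) (nat_lit 14177786502) (nat_lit 152) (nat_lit 3116809455) (nat_lit 228) (nat_lit 15139238811) (nat_lit 142) (nat_lit 5) (nat_lit 144) (nat_lit 5) (nat_lit 145) (nat_lit 5) (nat_lit 451) (nat_lit 350) (nat_lit 219)) (XT.lf (nat_lit 0) (nat_lit 3279971150) (nat_lit 76) (nat_lit 24595028062) (nat_lit 152) (nat_lit 5182464753) (nat_lit 141) (nat_lit 5) (nat_lit 142) (nat_lit 5) (nat_lit 143) (nat_lit 4) (nat_lit 452) (nat_lit 350) (nat_lit 218))) (XT.nd (nat_lit 78) (nat_lit 152) (nat_lit 0) (XT.lf (nat_lit 0) (nat_lit 5177289695) (nat_lit 152) (nat_lit 7965412158) (nat_lit 76) (nat_lit 20549539141) (nat_lit 140) (nat_lit 5) (nat_lit 142) (nat_lit 5) (nat_lit 141) (nat_lit 5) (nat_lit 453) (nat_lit 350) (nat_lit 217)) (XT.lf (nat_lit 0) (nat_lit 14711558752) (nat_lit 152) (nat_lit 1160167918) (nat_lit 228) (nat_lit 18468953749)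 (nat_lit 138) (nat_lit 5) (nat_lit 140) (nat_lit 5) (nat_lit 141) (nat_lit 5) (nat_lit 454) (nat_lit 350) (nat_lit 216))))) (XT.nd (nat_lit 312) (nat_lit 304) (nat_lit 0) (XT.nd (nat_lit 156) (nat_lit 228) (nat_lit 0) (XT.nd (nat_lit 78) (nat_lit 76) (nat_lit 0) (XT.lf (nat_lit 0) (nat_lit 3153951820) (nat_lit 76) (nat_lit 23938752454) (nat_lit 152) (nat_lit 7909697527) (nat_lit 137) (nat_lit 5) (nat_lit 138) (nat_lit 5) (nat_lit 139) (nat_lit 4) (nat_lit 455) (nat_lit 350) (nat_lit 215)) (XT.lf (nat_lit 0) (nat_lit 3106806278) (nat_lit 152) (nat_lit 8722385830) (nat_lit 76) (nat_lit 23847976674) (nat_lit 136) (nat_lit 5) (nat_lit 138) (nat_lit 5) (nat_lit 137) (nat_lit 5) (nat_lit 456) (nat_lit 350) (nat_lit 214))) (XT.nd (nat_lit 78) (nat_lit 76) (nat_lit 0) (XT.lf (nat_lit 0) (nat_lit 14437216765) (nat_lit 228) (nat_lit 21081097548) (nat_lit 76) (nat_lit 847243386) (nat_lit 134) (nat_lit 5) (nat_lit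 137) (nat_lit 5) (nat_lit 135) (nat_lit 4) (nat_lit 457) (nat_lit 350) (nat_lit 213)) (XT.lf (nat_lit 0) (nat_lit 3035002560) (nat_lit 76) (nat_lit 23294891477) (nat_lit 152) (nat_lit 10738033611) (nat_lit 133) (nat_lit 5) (nat_lit 134) (nat_lit 5) (nat_lit 135) (nat_lit 4) (nat_lit 458) (nat_lit 350) (nat_lit 212)))) (XT.nd (nat_lit 156) (nat_lit 76) (nat_lit 0) (XT.nd (nat_lit 78) (nat_lit 152) (nat_lit 0) (XT.lf (nat_lit 0) (nat_lit 974715630) (nat_lit 152) (nat_lit 9512536821) (nat_lit 76) (nat_lit 27297825737) (nat_lit 132) (nat_lit 5) (nat_lit 134) (nat_lit 5) (nat_lit 133) (nat_lit 5) (nat_lit 459) (nat_lit 350) (nat_lit 211)) (XT.lf (nat_lit 0) (nat_lit 12992050596) (nat_lit 228) (nat_lit 22620796563) (nat_lit 76) (nat_lit 2902635756) (nat_lit 130) (nat_lit 5) (nat_lit 133) (nat_lit 5) (nat_lit 131) (nat_lit 4) (nat_lit 460) (nat_lit 350) (nat_lit 210))) (XT.nd (nat_lit 78) (nat_lit 0) (nat_lit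 0) (XT.lf (nat_lit 0) (nat_lit 2922538348) (nat_lit 76) (nat_lit 22663830698) (nat_lit 152) (nat_lit 13674936835) (nat_lit 129) (nat_lit 5) (nat_lit 130) (nat_lit 5) (nat_lit 131) (nat_lit 4) (nat_lit 461) (nat_lit 350) (nat_lit 209)) (XT.lf (nat_lit 0) (nat_lit 29672200382) (nat_lit 76) (nat_lit 9102405040) (nat_lit 152) (nat_lit 1248415463) (nat_lit 129) (nat_lit 5) (nat_lit 130) (nat_lit 5) (nat_lit 131) (nat_lit 4) (nat_lit 462) (nat_lit 350) (nat_lit 208))))))))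
noncomputable def xc125 : XT := (XT.nd (nat_lit 44382) (nat_lit 0) (nat_lit 17328) (XT.nd (nat_lit 1170) (nat_lit 1140) (nat_lit 0) (XT.nd (nat_lit 546) (nat_lit 532) (nat_lit 0) (XT.nd (nat_lit 234) (nat_lit 532) (nat_lit 0) (XT.nd (nat_lit 78) (nat_lit 76) (nat_lit 0) (XT.lf (nat_lit 0) (nat_lit 11522384178) (nat_lit 228) (nat_lit 24242620624) (nat_lit 76) (nat_lit 5033345036) (nat_lit 126) (nat_lit 5) (nat_lit 129) (nat_lit 5) (nat_lit 127) (nat_lit 4) (nat_lit 463) (nat_lit 350) (nat_lit 207)) (XT.nd (nat_lit 78) (nat_lit 0) (nat_lit 0) (XT.lf (nat_lit 0) (nat_lit 2816033471) (nat_lit 76) (nat_lit 22045861136) (nat_lit 152) (nat_lit 16728352876) (nat_lit 125) (nat_lit 5) (nat_lit 126) (nat_lit 5) (nat_lit 127) (nat_lit 4) (nat_lit 464) (nat_lit 350) (nat_lit 206)) (XT.lf (nat_lit 0) (nat_lit 31160371765) (nat_lit 76) (nat_lit 7674080363) (nat_lit 152) (nat_lit 3564464077) (nat_lit 125) (nat_lit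 5) (nat_lit 126) (nat_lit 5) (nat_lit 127) (nat_lit 4) (nat_lit 465) (nat_lit 350) (nat_lit 205)))) (XT.nd (nat_lit 156) (nat_lit 228) (nat_lit 0) (XT.nd (nat_lit 78) (nat_lit 76) (nat_lit 0) (XT.lf (nat_lit 0) (nat_lit 10025342913) (nat_lit 228) (nat_lit 25952377535) (nat_lit 76) (nat_lit 7244461574) (nat_lit 122) (nat_lit 5) (nat_lit 125) (nat_lit 5) (nat_lit 123) (nat_lit 4) (nat_lit 466) (nat_lit 350) (nat_lit 204)) (XT.lf (nat_lit 0) (nat_lit 2715015093) (nat_lit 76) (nat_lit 21441191308) (nat_lit 152) (nat_lit 19906730525) (nat_lit 121) (nat_lit 5) (nat_lit 122) (nat_lit 5) (nat_lit 123) (nat_lit 4) (nat_lit 467) (nat_lit 350) (nat_lit 203))) (XT.nd (nat_lit 78) (nat_lit 228) (nat_lit 0) (XT.lf (nat_lit 0) (nat_lit 32752039359) (nat_lit 76) (nat_lit 6209463922) (nat_lit 152) (nat_lit 5959895973) (nat_lit 121) (nat_lit 5) (nat_lit 122) (nat_lit 5) (nat_lit 123) (nat_lit 4) (nat_lit 468) (nat_lit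 350) (nat_lit 202)) (XT.lf (nat_lit 0) (nat_lit 8497865297) (nat_lit 228) (nat_lit 27756153197) (nat_lit 76) (nat_lit 9541476833) (nat_lit 118) (nat_lit 5) (nat_lit 121) (nat_lit 5) (nat_lit 119) (nat_lit 4) (nat_lit 469) (nat_lit 350) (nat_lit 201))))) (XT.nd (nat_lit 312) (nat_lit 228) (nat_lit 0) (XT.nd (nat_lit 156) (nat_lit 228) (nat_lit 0) (XT.nd (nat_lit 78) (nat_lit 0) (nat_lit 0) (XT.lf (nat_lit 0) (nat_lit 2619057520) (nat_lit 76) (nat_lit 20849957883) (nat_lit 152) (nat_lit 23219045292) (nat_lit 117) (nat_lit 5) (nat_lit 118) (nat_lit 5) (nat_lit 119) (nat_lit 4) (nat_lit 470) (nat_lit 350) (nat_lit 200)) (XT.lf (nat_lit 0) (nat_lit 34452732200) (nat_lit 76) (nat_lit 4705655684) (nat_lit 152) (nat_lit 8440942504) (nat_lit 117) (nat_lit 5) (nat_lit 118) (nat_lit 5) (nat_lit 119) (nat_lit 4) (nat_lit 471) (nat_lit 350) (nat_lit 199))) (XT.nd (nat_lit 78) (nat_lit 76) (nat_lit 0) (XT.lf (nat_lit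 0) (nat_lit 6936697698) (nat_lit 152) (nat_lit 29660336565) (nat_lit 76) (nat_lit 11930293367) (nat_lit 115) (nat_lit 5) (nat_lit 117) (nat_lit 5) (nat_lit 116) (nat_lit 4) (nat_lit 472) (nat_lit 350) (nat_lit 198)) (XT.lf (nat_lit 0) (nat_lit 2527777106) (nat_lit 76) (nat_lit 20272235116) (nat_lit 152) (nat_lit 26674825366) (nat_lit 114) (nat_lit 5) (nat_lit 115) (nat_lit 5) (nat_lit 116) (nat_lit 4) (nat_lit 473) (nat_lit 350) (nat_lit 197)))) (XT.nd (nat_lit 156) (nat_lit 76) (nat_lit 0) (XT.nd (nat_lit 78) (nat_lit 152) (nat_lit 0) (XT.lf (nat_lit 0) (nat_lit 36268383088) (nat_lit 76) (nat_lit 3159511373) (nat_lit 152) (nat_lit 11014218335) (nat_lit 114) (nat_lit 5) (nat_lit 115) (nat_lit 5) (nat_lit 116) (nat_lit 4) (nat_lit 474) (nat_lit 350) (nat_lit 196)) (XT.lf (nat_lit 0) (nat_lit 5338387981) (nat_lit 152) (nat_lit 31671645225) (nat_lit 76) (nat_lit 14417237150) (nat_lit 112) (nat_lit 5) (nat_lit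 114) (nat_lit 5) (nat_lit 113) (nat_lit 4) (nat_lit 475) (nat_lit 350) (nat_lit 195))) (XT.nd (nat_lit 78) (nat_lit 0) (nat_lit 0) (XT.lf (nat_lit 0) (nat_lit 2440827725) (nat_lit 76) (nat_lit 19708043174) (nat_lit 152) (nat_lit 30284179994) (nat_lit 111) (nat_lit 5) (nat_lit 112) (nat_lit 5) (nat_lit 113) (nat_lit 4) (nat_lit 476) (nat_lit 350) (nat_lit 194)) (XT.lf (nat_lit 0) (nat_lit 38205346264) (nat_lit 76) (nat_lit 1567639356) (nat_lit 152) (nat_lit 13686739708) (nat_lit 111) (nat_lit 5) (nat_lit 112) (nat_lit 5) (nat_lit 113) (nat_lit 4) (nat_lit 477) (nat_lit 350) (nat_lit 193)))))) (XT.nd (nat_lit 546) (nat_lit 532) (nat_lit 0) (XT.nd (nat_lit 234) (nat_lit 380) (nat_lit 0) (XT.nd (nat_lit 78) (nat_lit 76) (nat_lit 0) (XT.lf (nat_lit 0) (nat_lit 3699278018) (nat_lit 152) (nat_lit 33797151763) (nat_lit 76) (nat_lit 17009072179) (nat_lit 109) (nat_lit 5) (nat_lit 111) (nat_lit 5) (nat_lit 110)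 (nat_lit 4) (nat_lit 478) (nat_lit 350) (nat_lit 192)) (XT.nd (nat_lit 78) (nat_lit 0) (nat_lit 0) (XT.lf (nat_lit 0) (nat_lit 2357896739) (nat_lit 76) (nat_lit 19157355510) (nat_lit 152) (nat_lit 34057830297) (nat_lit 108) (nat_lit 5) (nat_lit 109) (nat_lit 5) (nat_lit 110) (nat_lit 4) (nat_lit 479) (nat_lit 350) (nat_lit 191)) (XT.lf (nat_lit 0) (nat_lit 40197520334) (nat_lit 152) (nat_lit 16393047949) (nat_lit 0) (nat_lit 72167828) (nat_lit 108) (nat_lit 5) (nat_lit 110) (nat_lit 4) (nat_lit 108) (nat_lit 4) (nat_lit 480) (nat_lit 350) (nat_lit 190)))) (XT.nd (nat_lit 156) (nat_lit 152) (nat_lit 0) (XT.nd (nat_lit 78) (nat_lit 76) (nat_lit 0) (XT.lf (nat_lit 0) (nat_lit 2015495092) (nat_lit 152) (nat_lit 36044311034) (nat_lit 76) (nat_lit 19713017346) (nat_lit 106) (nat_lit 5) (nat_lit 108) (nat_lit 5) (nat_lit 107) (nat_lit 4) (nat_lit 481) (nat_lit 350) (nat_lit 189)) (XT.lf (nat_lit 0) (nat_lit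 2278701411) (nat_lit 76) (nat_lit 18620105359) (nat_lit 152) (nat_lit 38007142608) (nat_lit 105) (nat_lit 5) (nat_lit 106) (nat_lit 5) (nat_lit 107) (nat_lit 4) (nat_lit 482) (nat_lit 350) (nat_lit 188))) (XT.nd (nat_lit 78) (nat_lit 152) (nat_lit 0) (XT.lf (nat_lit 0) (nat_lit 40719727619) (nat_lit 152) (nat_lit 17608589381) (nat_lit 0) (nat_lit 1733618765) (nat_lit 105) (nat_lit 5) (nat_lit 107) (nat_lit 4) (nat_lit 105) (nat_lit 4) (nat_lit 483) (nat_lit 350) (nat_lit 187)) (XT.lf (nat_lit 0) (nat_lit 282942216) (nat_lit 152) (nat_lit 38420988472) (nat_lit 76) (nat_lit 22536765537) (nat_lit 103) (nat_lit 5) (nat_lit 105) (nat_lit 5) (nat_lit 104) (nat_lit 4) (nat_lit 484) (nat_lit 350) (nat_lit 186))))) (XT.nd (nat_lit 312) (nat_lit 228) (nat_lit 0) (XT.nd (nat_lit 156) (nat_lit 228) (nat_lit 0) (XT.nd (nat_lit 78) (nat_lit 0) (nat_lit 0) (XT.lf (nat_lit 0) (nat_lit 2202985717) (nat_lit 76) (nat_lit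 18096191487) (nat_lit 152) (nat_lit 42144164405) (nat_lit 102) (nat_lit 5) (nat_lit 103) (nat_lit 5) (nat_lit 104) (nat_lit 4) (nat_lit 485) (nat_lit 350) (nat_lit 185)) (XT.lf (nat_lit 0) (nat_lit 41328153121) (nat_lit 152) (nat_lit 18890154832) (nat_lit 0) (nat_lit 3451390785) (nat_lit 102) (nat_lit 5) (nat_lit 104) (nat_lit 4) (nat_lit 102) (nat_lit 4) (nat_lit 486) (nat_lit 350) (nat_lit 184))) (XT.nd (nat_lit 78) (nat_lit 152) (nat_lit 0) (XT.lf (nat_lit 0) (nat_lit 23970617865) (nat_lit 76) (nat_lit 39417602478) (nat_lit 76) (nat_lit 1532619576) (nat_lit 101) (nat_lit 4) (nat_lit 102) (nat_lit 5) (nat_lit 102) (nat_lit 4) (nat_lit 487) (nat_lit 350) (nat_lit 183)) (XT.lf (nat_lit 0) (nat_lit 2130517506) (nat_lit 76) (nat_lit 17585483252) (nat_lit 152) (nat_lit 46481662931) (nat_lit 99) (nat_lit 5) (nat_lit 100) (nat_lit 5) (nat_lit 101) (nat_lit 4) (nat_lit 488) (nat_lit 350) (nat_lit 182))))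 (XT.nd (nat_lit 156) (nat_lit 152) (nat_lit 0) (XT.nd (nat_lit 78) (nat_lit 76) (nat_lit 0) (XT.lf (nat_lit 0) (nat_lit 42026649511) (nat_lit 152) (nat_lit 20242185153) (nat_lit 0) (nat_lit 5229841058) (nat_lit 99) (nat_lit 5) (nat_lit 101) (nat_lit 4) (nat_lit 99) (nat_lit 4) (nat_lit 489) (nat_lit 350) (nat_lit 181)) (XT.lf (nat_lit 0) (nat_lit 25197105753) (nat_lit 76) (nat_lit 40216753715) (nat_lit 76) (nat_lit 3412641395) (nat_lit 98) (nat_lit 4) (nat_lit 99) (nat_lit 5) (nat_lit 99) (nat_lit 4) (nat_lit 490) (nat_lit 350) (nat_lit 180))) (XT.nd (nat_lit 78) (nat_lit 0) (nat_lit 0) (XT.lf (nat_lit 0) (nat_lit 2061085977) (nat_lit 76) (nat_lit 17087825071) (nat_lit 152) (nat_lit 51033166599) (nat_lit 96) (nat_lit 5) (nat_lit 97) (nat_lit 5) (nat_lit 98) (nat_lit 4) (nat_lit 491) (nat_lit 350) (nat_lit 179)) (XT.lf (nat_lit 0) (nat_lit 42819323963) (nat_lit 152) (nat_lit 21669358567) (nat_lit 0)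 (nat_lit 7073607412) (nat_lit 96) (nat_lit 5) (nat_lit 98) (nat_lit 4) (nat_lit 96) (nat_lit 4) (nat_lit 492) (nat_lit 350) (nat_lit 178))))))) (XT.nd (nat_lit 1170) (nat_lit 8664) (nat_lit 0) (XT.nd (nat_lit 546) (nat_lit 1596) (nat_lit 0) (XT.nd (nat_lit 234) (nat_lit 760) (nat_lit 0) (XT.nd (nat_lit 78) (nat_lit 0) (nat_lit 0) (XT.lf (nat_lit 0) (nat_lit 724507910) (nat_lit 0) (nat_lit 724507910) (nat_lit 684) (nat_lit 2027433750) (nat_lit 469) (nat_lit 5) (nat_lit 469) (nat_lit 3) (nat_lit 478) (nat_lit 3) (nat_lit 351) (nat_lit 351) (nat_lit 318)) (XT.nd (nat_lit 78) (nat_lit 0) (nat_lit 0) (XT.lf (nat_lit 0) (nat_lit 4816783910) (nat_lit 684) (nat_lit 2010585070) (nat_lit 760) (nat_lit 173565195) (nat_lit 469) (nat_lit 5) (nat_lit 478) (nat_lit 3) (nat_lit 479) (nat_lit 5) (nat_lit 352) (nat_lit 351) (nat_lit 317)) (XT.lf (nat_lit 76) (nat_lit 1564590884) (nat_lit 0) (nat_lit 5185125202) (nat_lit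 760) (nat_lit 301995653) (nat_lit 470) (nat_lit 5) (nat_lit 469) (nat_lit 5) (nat_lit 479) (nat_lit 5) (nat_lit 353) (nat_lit 351) (nat_lit 316)))) (XT.nd (nat_lit 156) (nat_lit 0) (nat_lit 76) (XT.nd (nat_lit 78) (nat_lit 0) (nat_lit 0) (XT.lf (nat_lit 0) (nat_lit 1553466091) (nat_lit 760) (nat_lit 1871249087) (nat_lit 836) (nat_lit 3680362119) (nat_lit 459) (nat_lit 5) (nat_lit 469) (nat_lit 5) (nat_lit 470) (nat_lit 5) (nat_lit 354) (nat_lit 351) (nat_lit 315)) (XT.lf (nat_lit 76) (nat_lit 1847173753) (nat_lit 0) (nat_lit 1559468292) (nat_lit 836) (nat_lit 3754868467) (nat_lit 460) (nat_lit 5) (nat_lit 459) (nat_lit 5) (nat_lit 470) (nat_lit 5) (nat_lit 355) (nat_lit 351) (nat_lit 314))) (XT.nd (nat_lit 78) (nat_lit 0) (nat_lit 0) (XT.lf (nat_lit 0) (nat_lit 5270277185) (nat_lit 760) (nat_lit 1548145784) (nat_lit 836) (nat_lit 402567839) (nat_lit 460) (nat_lit 5) (nat_lit 470) (nat_lit 5) (nat_lit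 471) (nat_lit 5) (nat_lit 356) (nat_lit 351) (nat_lit 313)) (XT.lf (nat_lit 76) (nat_lit 2321156936) (nat_lit 0) (nat_lit 4840692484) (nat_lit 836) (nat_lit 121245253) (nat_lit 461) (nat_lit 5) (nat_lit 460) (nat_lit 5) (nat_lit 471) (nat_lit 5) (nat_lit 357) (nat_lit 351) (nat_lit 312))))) (XT.nd (nat_lit 312) (nat_lit 836) (nat_lit 0) (XT.nd (nat_lit 156) (nat_lit 0) (nat_lit 76) (XT.nd (nat_lit 78) (nat_lit 0) (nat_lit 0) (XT.lf (nat_lit 0) (nat_lit 1679666634) (nat_lit 836) (nat_lit 1066049768) (nat_lit 912) (nat_lit 4602307887) (nat_lit 449) (nat_lit 5) (nat_lit 460) (nat_lit 5) (nat_lit 461) (nat_lit 5) (nat_lit 358) (nat_lit 351) (nat_lit 311)) (XT.lf (nat_lit 76) (nat_lit 2963905750) (nat_lit 0) (nat_lit 533818188) (nat_lit 912) (nat_lit 3918175193) (nat_lit 450) (nat_lit 5) (nat_lit 449) (nat_lit 5) (nat_lit 461) (nat_lit 5) (nat_lit 359) (nat_lit 351) (nat_lit 310))) (XT.nd (nat_lit 78) (nat_lit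 0) (nat_lit 0) (XT.lf (nat_lit 0) (nat_lit 5336700392) (nat_lit 836) (nat_lit 406867803) (nat_lit 912) (nat_lit 1743250701) (nat_lit 450) (nat_lit 5) (nat_lit 461) (nat_lit 5) (nat_lit 462) (nat_lit 5) (nat_lit 360) (nat_lit 351) (nat_lit 309)) (XT.lf (nat_lit 76) (nat_lit 3788329523) (nat_lit 0) (nat_lit 3424739276) (nat_lit 912) (nat_lit 347330775) (nat_lit 451) (nat_lit 5) (nat_lit 450) (nat_lit 5) (nat_lit 462) (nat_lit 5) (nat_lit 361) (nat_lit 351) (nat_lit 308)))) (XT.nd (nat_lit 156) (nat_lit 0) (nat_lit 76) (XT.nd (nat_lit 78) (nat_lit 0) (nat_lit 76) (XT.lf (nat_lit 76) (nat_lit 434896290) (nat_lit 0) (nat_lit 994815943) (nat_lit 988) (nat_lit 6207551274) (nat_lit 439) (nat_lit 5) (nat_lit 438) (nat_lit 5) (nat_lit 451) (nat_lit 5) (nat_lit 362) (nat_lit 351) (nat_lit 307)) (XT.lf (nat_lit 0) (nat_lit 3248834096) (nat_lit 912) (nat_lit 2930391309) (nat_lit 988) (nat_lit 1537232328) (nat_lit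 439) (nat_lit 5) (nat_lit 451) (nat_lit 5) (nat_lit 452) (nat_lit 5) (nat_lit 363) (nat_lit 351) (nat_lit 306))) (XT.nd (nat_lit 78) (nat_lit 0) (nat_lit 0) (XT.lf (nat_lit 76) (nat_lit 1447178431) (nat_lit 0) (nat_lit 3643563519) (nat_lit 988) (nat_lit 2708239466) (nat_lit 440) (nat_lit 5) (nat_lit 439) (nat_lit 5) (nat_lit 452) (nat_lit 5) (nat_lit 364) (nat_lit 351) (nat_lit 305)) (XT.lf (nat_lit 76) (nat_lit 5975591492) (nat_lit 0) (nat_lit 987586352) (nat_lit 988) (nat_lit 921544841) (nat_lit 440) (nat_lit 5) (nat_lit 439) (nat_lit 5) (nat_lit 452) (nat_lit 5) (nat_lit 365) (nat_lit 351) (nat_lit 304)))))) (XT.nd (nat_lit 624) (nat_lit 3344) (nat_lit 0) (XT.nd (nat_lit 312) (nat_lit 2432) (nat_lit 0) (XT.nd (nat_lit 156) (nat_lit 2052) (nat_lit 0) (XT.nd (nat_lit 78) (nat_lit 0) (nat_lit 0) (XT.lf (nat_lit 0) (nat_lit 890492741) (nat_lit 988) (nat_lit 5321216602) (nat_lit 76) (nat_lit 1761371795)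 (nat_lit 427) (nat_lit 5) (nat_lit 440) (nat_lit 5) (nat_lit 428) (nat_lit 5) (nat_lit 366) (nat_lit 351) (nat_lit 303)) (XT.lf (nat_lit 0) (nat_lit 2715638663) (nat_lit 988) (nat_lit 735494749) (nat_lit 76) (nat_lit 4613365124) (nat_lit 427) (nat_lit 5) (nat_lit 440) (nat_lit 5) (nat_lit 428) (nat_lit 5) (nat_lit 367) (nat_lit 351) (nat_lit 302))) (XT.nd (nat_lit 78) (nat_lit 1064) (nat_lit 0) (XT.lf (nat_lit 0) (nat_lit 4025857693) (nat_lit 988) (nat_lit 557916112) (nat_lit 1064) (nat_lit 3575237607) (nat_lit 414) (nat_lit 5) (nat_lit 427) (nat_lit 5) (nat_lit 428) (nat_lit 5) (nat_lit 368) (nat_lit 351) (nat_lit 301)) (XT.lf (nat_lit 0) (nat_lit 636379034) (nat_lit 1064) (nat_lit 5859183853) (nat_lit 1140) (nat_lit 1761168490) (nat_lit 400) (nat_lit 5) (nat_lit 414) (nat_lit 5) (nat_lit 415) (nat_lit 5) (nat_lit 369) (nat_lit 351) (nat_lit 300)))) (XT.nd (nat_lit 156) (nat_lit 1216) (nat_lit 0) (XT.nd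 (nat_lit 78) (nat_lit 1140) (nat_lit 0) (XT.lf (nat_lit 0) (nat_lit 104172944) (nat_lit 1140) (nat_lit 2771611086) (nat_lit 76) (nat_lit 5481599627) (nat_lit 399) (nat_lit 5) (nat_lit 414) (nat_lit 5) (nat_lit 400) (nat_lit 5) (nat_lit 370) (nat_lit 351) (nat_lit 299)) (XT.lf (nat_lit 0) (nat_lit 1966322082) (nat_lit 1216) (nat_lit 6256432052) (nat_lit 76) (nat_lit 238490896) (nat_lit 384) (nat_lit 5) (nat_lit 400) (nat_lit 5) (nat_lit 385) (nat_lit 5) (nat_lit 371) (nat_lit 351) (nat_lit 298))) (XT.nd (nat_lit 78) (nat_lit 1216) (nat_lit 0) (XT.lf (nat_lit 0) (nat_lit 3894806291) (nat_lit 1216) (nat_lit 1250835067) (nat_lit 76) (nat_lit 3422266767) (nat_lit 384) (nat_lit 5) (nat_lit 400) (nat_lit 5) (nat_lit 385) (nat_lit 5) (nat_lit 372) (nat_lit 351) (nat_lit 297)) (XT.lf (nat_lit 0) (nat_lit 3941010500) (nat_lit 1216) (nat_lit 1933098069) (nat_lit 1292) (nat_lit 2803873638) (nat_lit 368) (nat_lit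 5) (nat_lit 384) (nat_lit 5) (nat_lit 385) (nat_lit 5) (nat_lit 373) (nat_lit 351) (nat_lit 296))))) (XT.nd (nat_lit 312) (nat_lit 1824) (nat_lit 0) (XT.nd (nat_lit 156) (nat_lit 608) (nat_lit 0) (XT.nd (nat_lit 78) (nat_lit 76) (nat_lit 0) (XT.lf (nat_lit 0) (nat_lit 477462655) (nat_lit 836) (nat_lit 7421932515) (nat_lit 912) (nat_lit 892365185) (nat_lit 357) (nat_lit 5) (nat_lit 368) (nat_lit 5) (nat_lit 369) (nat_lit 5) (nat_lit 374) (nat_lit 351) (nat_lit 295)) (XT.lf (nat_lit 0) (nat_lit 1079420323) (nat_lit 912) (nat_lit 3034277707) (nat_lit 76) (nat_lit 4794225242) (nat_lit 356) (nat_lit 5) (nat_lit 368) (nat_lit 5) (nat_lit 357) (nat_lit 5) (nat_lit 375) (nat_lit 351) (nat_lit 294))) (XT.nd (nat_lit 78) (nat_lit 0) (nat_lit 0) (XT.lf (nat_lit 0) (nat_lit 2401159803) (nat_lit 608) (nat_lit 672103273) (nat_lit 684) (nat_lit 5954617761) (nat_lit 348) (nat_lit 5) (nat_lit 356) (nat_lit 5) (nat_lit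 357) (nat_lit 5) (nat_lit 376) (nat_lit 351) (nat_lit 293)) (XT.lf (nat_lit 0) (nat_lit 5144084951) (nat_lit 684) (nat_lit 1158426491) (nat_lit 76) (nat_lit 2848410772) (nat_lit 348) (nat_lit 5) (nat_lit 357) (nat_lit 5) (nat_lit 349) (nat_lit 5) (nat_lit 377) (nat_lit 351) (nat_lit 292)))) (XT.nd (nat_lit 156) (nat_lit 608) (nat_lit 0) (XT.nd (nat_lit 78) (nat_lit 608) (nat_lit 0) (XT.lf (nat_lit 0) (nat_lit 4514729155) (nat_lit 608) (nat_lit 2772166499) (nat_lit 684) (nat_lit 1990463253) (nat_lit 340) (nat_lit 5) (nat_lit 348) (nat_lit 5) (nat_lit 349) (nat_lit 5) (nat_lit 378) (nat_lit 351) (nat_lit 291)) (XT.lf (nat_lit 0) (nat_lit 74387950) (nat_lit 608) (nat_lit 8465461649) (nat_lit 76) (nat_lit 868024026) (nat_lit 332) (nat_lit 5) (nat_lit 340) (nat_lit 5) (nat_lit 333) (nat_lit 5) (nat_lit 379) (nat_lit 351) (nat_lit 290))) (XT.nd (nat_lit 78) (nat_lit 608) (nat_lit 0) (XT.lf (nat_lit 0) (nat_lit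 2198153160) (nat_lit 608) (nat_lit 2714036460) (nat_lit 76) (nat_lit 4628413693) (nat_lit 332) (nat_lit 5) (nat_lit 340) (nat_lit 5) (nat_lit 333) (nat_lit 5) (nat_lit 380) (nat_lit 351) (nat_lit 289)) (XT.lf (nat_lit 0) (nat_lit 3232446258) (nat_lit 608) (nat_lit 1146352683) (nat_lit 684) (nat_lit 5298720923) (nat_lit 324) (nat_lit 5) (nat_lit 332) (nat_lit 5) (nat_lit 333) (nat_lit 5) (nat_lit 381) (nat_lit 351) (nat_lit 288))))))))
noncomputable def xc126 : XT := (XT.nd (nat_lit 2340) (nat_lit 4712) (nat_lit 0) (XT.nd (nat_lit 1170) (nat_lit 3572) (nat_lit 0) (XT.nd (nat_lit 546) (nat_lit 2204) (nat_lit 0) (XT.nd (nat_lit 234) (nat_lit 1064) (nat_lit 0) (XT.nd (nat_lit 78) (nat_lit 1140) (nat_lit 0) (XT.lf (nat_lit 0) (nat_lit 6641592642) (nat_lit 684) (nat_lit 472551804) (nat_lit 76) (nat_lit 2703897609) (nat_lit 324) (nat_lit 5) (nat_lit 333) (nat_lit 5) (nat_lit 325) (nat_lit 5) (nat_lit 382)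 (nat_lit 351) (nat_lit 287)) (XT.nd (nat_lit 78) (nat_lit 608) (nat_lit 0) (XT.lf (nat_lit 0) (nat_lit 5739749088) (nat_lit 532) (nat_lit 3262913691) (nat_lit 608) (nat_lit 959205354) (nat_lit 317) (nat_lit 5) (nat_lit 324) (nat_lit 5) (nat_lit 325) (nat_lit 5) (nat_lit 383) (nat_lit 351) (nat_lit 286)) (XT.lf (nat_lit 0) (nat_lit 1294267145) (nat_lit 608) (nat_lit 8092463725) (nat_lit 76) (nat_lit 723029410) (nat_lit 309) (nat_lit 5) (nat_lit 317) (nat_lit 5) (nat_lit 310) (nat_lit 5) (nat_lit 384) (nat_lit 351) (nat_lit 285)))) (XT.nd (nat_lit 156) (nat_lit 608) (nat_lit 0) (XT.nd (nat_lit 78) (nat_lit 456) (nat_lit 0) (XT.lf (nat_lit 0) (nat_lit 3636229208) (nat_lit 608) (nat_lit 1813573735) (nat_lit 76) (nat_lit 4810796402) (nat_lit 309) (nat_lit 5) (nat_lit 317) (nat_lit 5) (nat_lit 310) (nat_lit 5) (nat_lit 385) (nat_lit 351) (nat_lit 284)) (XT.lf (nat_lit 0) (nat_lit 4705719923) (nat_lit 456)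 (nat_lit 1353790815) (nat_lit 532) (nat_lit 4356121027) (nat_lit 303) (nat_lit 5) (nat_lit 309) (nat_lit 5) (nat_lit 310) (nat_lit 5) (nat_lit 386) (nat_lit 351) (nat_lit 283))) (XT.nd (nat_lit 78) (nat_lit 76) (nat_lit 0) (XT.lf (nat_lit 0) (nat_lit 831150376) (nat_lit 532) (nat_lit 7744752654) (nat_lit 608) (nat_lit 1998799756) (nat_lit 296) (nat_lit 5) (nat_lit 303) (nat_lit 5) (nat_lit 304) (nat_lit 5) (nat_lit 387) (nat_lit 351) (nat_lit 282)) (XT.lf (nat_lit 0) (nat_lit 459153649) (nat_lit 608) (nat_lit 3110042100) (nat_lit 76) (nat_lit 7168077751) (nat_lit 295) (nat_lit 5) (nat_lit 303) (nat_lit 5) (nat_lit 296) (nat_lit 5) (nat_lit 388) (nat_lit 351) (nat_lit 281))))) (XT.nd (nat_lit 312) (nat_lit 912) (nat_lit 0) (XT.nd (nat_lit 156) (nat_lit 836) (nat_lit 0) (XT.nd (nat_lit 78) (nat_lit 0) (nat_lit 0) (XT.lf (nat_lit 0) (nat_lit 2961728579) (nat_lit 532) (nat_lit 7175382753) (nat_lit 76) (nat_lit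 766684594) (nat_lit 289) (nat_lit 5) (nat_lit 296) (nat_lit 5) (nat_lit 290) (nat_lit 5) (nat_lit 389) (nat_lit 351) (nat_lit 280)) (XT.lf (nat_lit 0) (nat_lit 5574559666) (nat_lit 532) (nat_lit 314178521) (nat_lit 76) (nat_lit 5185520472) (nat_lit 289) (nat_lit 5) (nat_lit 296) (nat_lit 5) (nat_lit 290) (nat_lit 5) (nat_lit 390) (nat_lit 351) (nat_lit 279))) (XT.nd (nat_lit 78) (nat_lit 380) (nat_lit 0) (XT.lf (nat_lit 0) (nat_lit 6847716462) (nat_lit 456) (nat_lit 1452936156) (nat_lit 532) (nat_lit 2948136347) (nat_lit 283) (nat_lit 5) (nat_lit 289) (nat_lit 5) (nat_lit 290) (nat_lit 5) (nat_lit 391) (nat_lit 351) (nat_lit 278)) (XT.lf (nat_lit 0) (nat_lit 2787637043) (nat_lit 380) (nat_lit 8350352318) (nat_lit 456) (nat_lit 289681990) (nat_lit 278) (nat_lit 5) (nat_lit 283) (nat_lit 5) (nat_lit 284) (nat_lit 5) (nat_lit 392) (nat_lit 351) (nat_lit 277)))) (XT.nd (nat_lit 156) (nat_lit 380) (nat_lit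 0) (XT.nd (nat_lit 78) (nat_lit 456) (nat_lit 0) (XT.lf (nat_lit 0) (nat_lit 2429740330) (nat_lit 456) (nat_lit 1406166311) (nat_lit 76) (nat_lit 7774437648) (nat_lit 277) (nat_lit 5) (nat_lit 283) (nat_lit 5) (nat_lit 278) (nat_lit 5) (nat_lit 393) (nat_lit 351) (nat_lit 276)) (XT.lf (nat_lit 0) (nat_lit 5262739298) (nat_lit 532) (nat_lit 5682839093) (nat_lit 76) (nat_lit 851698491) (nat_lit 271) (nat_lit 5) (nat_lit 278) (nat_lit 5) (nat_lit 272) (nat_lit 5) (nat_lit 394) (nat_lit 351) (nat_lit 275))) (XT.nd (nat_lit 78) (nat_lit 0) (nat_lit 0) (XT.lf (nat_lit 0) (nat_lit 1859561717) (nat_lit 380) (nat_lit 6362373973) (nat_lit 456) (nat_lit 3766645540) (nat_lit 266) (nat_lit 5) (nat_lit 271) (nat_lit 5) (nat_lit 272) (nat_lit 5) (nat_lit 395) (nat_lit 351) (nat_lit 274)) (XT.lf (nat_lit 0) (nat_lit 9706407839) (nat_lit 380) (nat_lit 1592374428) (nat_lit 456) (nat_lit 885976211) (nat_lit 266) (nat_lit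 5) (nat_lit 271) (nat_lit 5) (nat_lit 272) (nat_lit 5) (nat_lit 396) (nat_lit 351) (nat_lit 273)))))) (XT.nd (nat_lit 546) (nat_lit 1596) (nat_lit 0) (XT.nd (nat_lit 234) (nat_lit 1140) (nat_lit 0) (XT.nd (nat_lit 78) (nat_lit 380) (nat_lit 0) (XT.lf (nat_lit 0) (nat_lit 2097484583) (nat_lit 456) (nat_lit 6967599851) (nat_lit 76) (nat_lit 3319427022) (nat_lit 260) (nat_lit 5) (nat_lit 266) (nat_lit 5) (nat_lit 261) (nat_lit 5) (nat_lit 397) (nat_lit 351) (nat_lit 272)) (XT.nd (nat_lit 78) (nat_lit 0) (nat_lit 0) (XT.lf (nat_lit 0) (nat_lit 966279581) (nat_lit 380) (nat_lit 4209096064) (nat_lit 456) (nat_lit 7413936204) (nat_lit 255) (nat_lit 5) (nat_lit 260) (nat_lit 5) (nat_lit 261) (nat_lit 5) (nat_lit 398) (nat_lit 351) (nat_lit 271)) (XT.lf (nat_lit 0) (nat_lit 8397021811) (nat_lit 456) (nat_lit 3563914879) (nat_lit 76) (nat_lit 837777014) (nat_lit 255) (nat_lit 5) (nat_lit 261) (nat_lit 5) (nat_lit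 256) (nat_lit 5) (nat_lit 399) (nat_lit 351) (nat_lit 270)))) (XT.nd (nat_lit 156) (nat_lit 380) (nat_lit 0) (XT.nd (nat_lit 78) (nat_lit 380) (nat_lit 0) (XT.lf (nat_lit 0) (nat_lit 4750666123) (nat_lit 380) (nat_lit 7025529593) (nat_lit 456) (nat_lit 1236375547) (nat_lit 250) (nat_lit 5) (nat_lit 255) (nat_lit 5) (nat_lit 256) (nat_lit 5) (nat_lit 400) (nat_lit 351) (nat_lit 269)) (XT.lf (nat_lit 0) (nat_lit 100633095) (nat_lit 304) (nat_lit 1894781112) (nat_lit 380) (nat_lit 11236516469) (nat_lit 245) (nat_lit 5) (nat_lit 249) (nat_lit 5) (nat_lit 250) (nat_lit 5) (nat_lit 401) (nat_lit 351) (nat_lit 268))) (XT.nd (nat_lit 78) (nat_lit 380) (nat_lit 0) (XT.lf (nat_lit 0) (nat_lit 5390145062) (nat_lit 380) (nat_lit 4655409667) (nat_lit 76) (nat_lit 3409223780) (nat_lit 245) (nat_lit 5) (nat_lit 250) (nat_lit 5) (nat_lit 246) (nat_lit 5) (nat_lit 402) (nat_lit 351) (nat_lit 267)) (XT.lf (nat_lit 0)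 (nat_lit 4099290445) (nat_lit 380) (nat_lit 4820346440) (nat_lit 456) (nat_lit 4763687323) (nat_lit 240) (nat_lit 5) (nat_lit 245) (nat_lit 5) (nat_lit 246) (nat_lit 5) (nat_lit 403) (nat_lit 351) (nat_lit 266))))) (XT.nd (nat_lit 312) (nat_lit 912) (nat_lit 0) (XT.nd (nat_lit 156) (nat_lit 304) (nat_lit 0) (XT.nd (nat_lit 78) (nat_lit 380) (nat_lit 0) (XT.lf (nat_lit 0) (nat_lit 12582917704) (nat_lit 456) (nat_lit 748089000) (nat_lit 76) (nat_lit 586882446) (nat_lit 240) (nat_lit 5) (nat_lit 246) (nat_lit 5) (nat_lit 241) (nat_lit 5) (nat_lit 404) (nat_lit 351) (nat_lit 265)) (XT.lf (nat_lit 0) (nat_lit 2259332259) (nat_lit 380) (nat_lit 5744616284) (nat_lit 76) (nat_lit 6151741341) (nat_lit 235) (nat_lit 5) (nat_lit 240) (nat_lit 5) (nat_lit 236) (nat_lit 5) (nat_lit 405) (nat_lit 351) (nat_lit 264))) (XT.nd (nat_lit 78) (nat_lit 0) (nat_lit 0) (XT.lf (nat_lit 0) (nat_lit 3478511062) (nat_lit 304)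 (nat_lit 2473073992) (nat_lit 380) (nat_lit 8448134515) (nat_lit 231) (nat_lit 5) (nat_lit 235) (nat_lit 5) (nat_lit 236) (nat_lit 5) (nat_lit 406) (nat_lit 351) (nat_lit 263)) (XT.lf (nat_lit 0) (nat_lit 9820307528) (nat_lit 380) (nat_lit 1621069426) (nat_lit 76) (nat_lit 3207722126) (nat_lit 231) (nat_lit 5) (nat_lit 236) (nat_lit 5) (nat_lit 232) (nat_lit 5) (nat_lit 407) (nat_lit 351) (nat_lit 262)))) (XT.nd (nat_lit 156) (nat_lit 228) (nat_lit 0) (XT.nd (nat_lit 78) (nat_lit 380) (nat_lit 0) (XT.lf (nat_lit 0) (nat_lit 8055569459) (nat_lit 304) (nat_lit 5828268352) (nat_lit 380) (nat_lit 1019759782) (nat_lit 227) (nat_lit 5) (nat_lit 231) (nat_lit 5) (nat_lit 232) (nat_lit 5) (nat_lit 408) (nat_lit 351) (nat_lit 261)) (XT.lf (nat_lit 0) (nat_lit 2868218668) (nat_lit 380) (nat_lit 12281040543) (nat_lit 76) (nat_lit 14994501) (nat_lit 222) (nat_lit 5) (nat_lit 227) (nat_lit 5) (nat_lit 223) (nat_lit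 5) (nat_lit 409) (nat_lit 351) (nat_lit 260))) (XT.nd (nat_lit 78) (nat_lit 228) (nat_lit 0) (XT.lf (nat_lit 0) (nat_lit 6957038859) (nat_lit 380) (nat_lit 2487915381) (nat_lit 76) (nat_lit 5984331421) (nat_lit 222) (nat_lit 5) (nat_lit 227) (nat_lit 5) (nat_lit 223) (nat_lit 5) (nat_lit 410) (nat_lit 351) (nat_lit 259)) (XT.lf (nat_lit 0) (nat_lit 7715044005) (nat_lit 228) (nat_lit 3505463309) (nat_lit 304) (nat_lit 4480201743) (nat_lit 219) (nat_lit 5) (nat_lit 222) (nat_lit 5) (nat_lit 223) (nat_lit 5) (nat_lit 411) (nat_lit 351) (nat_lit 258))))))) (XT.nd (nat_lit 1170) (nat_lit 2052) (nat_lit 0) (XT.nd (nat_lit 546) (nat_lit 1216) (nat_lit 0) (XT.nd (nat_lit 234) (nat_lit 836) (nat_lit 0) (XT.nd (nat_lit 78) (nat_lit 304) (nat_lit 0) (XT.lf (nat_lit 0) (nat_lit 2279995522) (nat_lit 304) (nat_lit 13382304127) (nat_lit 380) (nat_lit 316462912) (nat_lit 215) (nat_lit 5) (nat_lit 219) (nat_lit 5) (nat_lit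 220) (nat_lit 5) (nat_lit 412) (nat_lit 351) (nat_lit 257)) (XT.nd (nat_lit 78) (nat_lit 228) (nat_lit 0) (XT.lf (nat_lit 0) (nat_lit 3988938295) (nat_lit 380) (nat_lit 3353905609) (nat_lit 76) (nat_lit 8918340415) (nat_lit 214) (nat_lit 5) (nat_lit 219) (nat_lit 5) (nat_lit 215) (nat_lit 5) (nat_lit 413) (nat_lit 351) (nat_lit 256)) (XT.lf (nat_lit 0) (nat_lit 7408955154) (nat_lit 228) (nat_lit 1058158972) (nat_lit 304) (nat_lit 8083371410) (nat_lit 211) (nat_lit 5) (nat_lit 214) (nat_lit 5) (nat_lit 215) (nat_lit 5) (nat_lit 414) (nat_lit 351) (nat_lit 255)))) (XT.nd (nat_lit 156) (nat_lit 456) (nat_lit 0) (XT.nd (nat_lit 78) (nat_lit 76) (nat_lit 0) (XT.lf (nat_lit 0) (nat_lit 1662083147) (nat_lit 304) (nat_lit 11498715915) (nat_lit 380) (nat_lit 3685231813) (nat_lit 207) (nat_lit 5) (nat_lit 211) (nat_lit 5) (nat_lit 212) (nat_lit 5) (nat_lit 415) (nat_lit 351) (nat_lit 254)) (XT.lf (nat_lit 0)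 (nat_lit 911083575) (nat_lit 380) (nat_lit 4224037991) (nat_lit 76) (nat_lit 12012595840) (nat_lit 206) (nat_lit 5) (nat_lit 211) (nat_lit 5) (nat_lit 207) (nat_lit 5) (nat_lit 416) (nat_lit 351) (nat_lit 253))) (XT.nd (nat_lit 78) (nat_lit 228) (nat_lit 0) (XT.lf (nat_lit 0) (nat_lit 5633987422) (nat_lit 304) (nat_lit 10336136221) (nat_lit 76) (nat_lit 1485353211) (nat_lit 203) (nat_lit 5) (nat_lit 207) (nat_lit 5) (nat_lit 204) (nat_lit 5) (nat_lit 417) (nat_lit 351) (nat_lit 252)) (XT.lf (nat_lit 0) (nat_lit 1054516398) (nat_lit 228) (nat_lit 9527902073) (nat_lit 304) (nat_lit 7187535411) (nat_lit 200) (nat_lit 5) (nat_lit 203) (nat_lit 5) (nat_lit 204) (nat_lit 5) (nat_lit 418) (nat_lit 351) (nat_lit 251))))) (XT.nd (nat_lit 312) (nat_lit 684) (nat_lit 0) (XT.nd (nat_lit 156) (nat_lit 228) (nat_lit 0) (XT.nd (nat_lit 78) (nat_lit 304) (nat_lit 0) (XT.lf (nat_lit 0) (nat_lit 12965879190) (nat_lit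 228) (nat_lit 2797854452) (nat_lit 304) (nat_lit 2327598644) (nat_lit 200) (nat_lit 5) (nat_lit 203) (nat_lit 5) (nat_lit 204) (nat_lit 5) (nat_lit 419) (nat_lit 351) (nat_lit 250)) (XT.lf (nat_lit 0) (nat_lit 2713066333) (nat_lit 304) (nat_lit 11572120260) (nat_lit 76) (nat_lit 4133777428) (nat_lit 196) (nat_lit 5) (nat_lit 200) (nat_lit 5) (nat_lit 197) (nat_lit 5) (nat_lit 420) (nat_lit 351) (nat_lit 249))) (XT.nd (nat_lit 78) (nat_lit 0) (nat_lit 0) (XT.lf (nat_lit 0) (nat_lit 453635881) (nat_lit 228) (nat_lit 7469449932) (nat_lit 304) (nat_lit 10830700018) (nat_lit 193) (nat_lit 5) (nat_lit 196) (nat_lit 5) (nat_lit 197) (nat_lit 5) (nat_lit 421) (nat_lit 351) (nat_lit 248)) (XT.lf (nat_lit 0) (nat_lit 13045239097) (nat_lit 228) (nat_lit 341864359) (nat_lit 304) (nat_lit 5708617913) (nat_lit 193) (nat_lit 5) (nat_lit 196) (nat_lit 5) (nat_lit 197) (nat_lit 5) (nat_lit 422) (nat_lit 351) (nat_lit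 247)))) (XT.nd (nat_lit 156) (nat_lit 380) (nat_lit 0) (XT.nd (nat_lit 78) (nat_lit 76) (nat_lit 0) (XT.lf (nat_lit 0) (nat_lit 6596469003) (nat_lit 228) (nat_lit 12530544543) (nat_lit 304) (nat_lit 317542269) (nat_lit 190) (nat_lit 5) (nat_lit 193) (nat_lit 5) (nat_lit 194) (nat_lit 5) (nat_lit 423) (nat_lit 351) (nat_lit 246)) (XT.lf (nat_lit 0) (nat_lit 5179534311) (nat_lit 304) (nat_lit 141183388) (nat_lit 76) (nat_lit 14480235031) (nat_lit 189) (nat_lit 5) (nat_lit 193) (nat_lit 5) (nat_lit 190) (nat_lit 5) (nat_lit 424) (nat_lit 351) (nat_lit 245))) (XT.nd (nat_lit 78) (nat_lit 152) (nat_lit 0) (XT.lf (nat_lit 0) (nat_lit 10965023554) (nat_lit 304) (nat_lit 7016097914) (nat_lit 76) (nat_lit 2182929285) (nat_lit 186) (nat_lit 5) (nat_lit 190) (nat_lit 5) (nat_lit 187) (nat_lit 5) (nat_lit 425) (nat_lit 351) (nat_lit 244)) (XT.lf (nat_lit 0) (nat_lit 6340801042) (nat_lit 152) (nat_lit 10680345169)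 (nat_lit 228) (nat_lit 3513983444) (nat_lit 184) (nat_lit 5) (nat_lit 186) (nat_lit 5) (nat_lit 187) (nat_lit 5) (nat_lit 426) (nat_lit 351) (nat_lit 243)))))) (XT.nd (nat_lit 624) (nat_lit 912) (nat_lit 0) (XT.nd (nat_lit 312) (nat_lit 684) (nat_lit 0) (XT.nd (nat_lit 156) (nat_lit 152) (nat_lit 0) (XT.nd (nat_lit 78) (nat_lit 228) (nat_lit 0) (XT.lf (nat_lit 0) (nat_lit 2349519893) (nat_lit 228) (nat_lit 727144830) (nat_lit 76) (nat_lit 17838392887) (nat_lit 183) (nat_lit 5) (nat_lit 186) (nat_lit 5) (nat_lit 184) (nat_lit 5) (nat_lit 427) (nat_lit 351) (nat_lit 242)) (XT.lf (nat_lit 0) (nat_lit 8476304271) (nat_lit 304) (nat_lit 8009700492) (nat_lit 76) (nat_lit 4814594775) (nat_lit 180) (nat_lit 5) (nat_lit 184) (nat_lit 5) (nat_lit 181) (nat_lit 5) (nat_lit 428) (nat_lit 351) (nat_lit 241))) (XT.nd (nat_lit 78) (nat_lit 0) (nat_lit 0) (XT.lf (nat_lit 0) (nat_lit 6105356841) (nat_lit 152) (nat_lit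 8760776174) (nat_lit 228) (nat_lit 6829197483) (nat_lit 178) (nat_lit 5) (nat_lit 180) (nat_lit 5) (nat_lit 181) (nat_lit 5) (nat_lit 429) (nat_lit 351) (nat_lit 240)) (XT.lf (nat_lit 0) (nat_lit 20778203989) (nat_lit 152) (nat_lit 733227497) (nat_lit 228) (nat_lit 588558656) (nat_lit 178) (nat_lit 5) (nat_lit 180) (nat_lit 5) (nat_lit 181) (nat_lit 5) (nat_lit 430) (nat_lit 351) (nat_lit 239)))) (XT.nd (nat_lit 156) (nat_lit 228) (nat_lit 0) (XT.nd (nat_lit 78) (nat_lit 152) (nat_lit 0) (XT.lf (nat_lit 0) (nat_lit 5913021862) (nat_lit 304) (nat_lit 9032381943) (nat_lit 76) (nat_lit 7564071795) (nat_lit 174) (nat_lit 5) (nat_lit 178) (nat_lit 5) (nat_lit 175) (nat_lit 5) (nat_lit 431) (nat_lit 351) (nat_lit 238)) (XT.lf (nat_lit 0) (nat_lit 5888469176) (nat_lit 152) (nat_lit 6770010113) (nat_lit 228) (nat_lit 10270771744) (nat_lit 172) (nat_lit 5) (nat_lit 174) (nat_lit 5) (nat_lit 175) (nat_lit 5)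 (nat_lit 432) (nat_lit 351) (nat_lit 237))) (XT.nd (nat_lit 78) (nat_lit 228) (nat_lit 0) (XT.lf (nat_lit 0) (nat_lit 19697680478) (nat_lit 228) (nat_lit 1963044153) (nat_lit 76) (nat_lit 1698153698) (nat_lit 172) (nat_lit 5) (nat_lit 175) (nat_lit 5) (nat_lit 173) (nat_lit 5) (nat_lit 433) (nat_lit 351) (nat_lit 236)) (XT.lf (nat_lit 0) (nat_lit 3270058352) (nat_lit 228) (nat_lit 10088494288) (nat_lit 76) (nat_lit 10436390437) (nat_lit 169) (nat_lit 5) (nat_lit 172) (nat_lit 5) (nat_lit 170) (nat_lit 5) (nat_lit 434) (nat_lit 351) (nat_lit 235))))) (XT.nd (nat_lit 312) (nat_lit 380) (nat_lit 0) (XT.nd (nat_lit 156) (nat_lit 380) (nat_lit 0) (XT.nd (nat_lit 78) (nat_lit 0) (nat_lit 0) (XT.lf (nat_lit 0) (nat_lit 5688660725) (nat_lit 152) (nat_lit 4705630454) (nat_lit 228) (nat_lit 13846952345) (nat_lit 167) (nat_lit 5) (nat_lit 169) (nat_lit 5) (nat_lit 170) (nat_lit 5) (nat_lit 435) (nat_lit 351) (nat_lit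 234)) (XT.lf (nat_lit 0) (nat_lit 17859571190) (nat_lit 228) (nat_lit 2622136685) (nat_lit 76) (nat_lit 4215405502) (nat_lit 167) (nat_lit 5) (nat_lit 170) (nat_lit 5) (nat_lit 168) (nat_lit 5) (nat_lit 436) (nat_lit 351) (nat_lit 233))) (XT.nd (nat_lit 78) (nat_lit 152) (nat_lit 0) (XT.lf (nat_lit 0) (nat_lit 541815153) (nat_lit 228) (nat_lit 11182393668) (nat_lit 76) (nat_lit 13437326642) (nat_lit 164) (nat_lit 5) (nat_lit 167) (nat_lit 5) (nat_lit 165) (nat_lit 5) (nat_lit 437) (nat_lit 351) (nat_lit 232)) (XT.lf (nat_lit 0) (nat_lit 5504624060) (nat_lit 152) (nat_lit 2564655113) (nat_lit 228) (nat_lit 17566655470) (nat_lit 162) (nat_lit 5) (nat_lit 164) (nat_lit 5) (nat_lit 165) (nat_lit 5) (nat_lit 438) (nat_lit 351) (nat_lit 231)))) (XT.nd (nat_lit 156) (nat_lit 228) (nat_lit 0) (XT.nd (nat_lit 78) (nat_lit 152) (nat_lit 0) (XT.lf (nat_lit 0) (nat_lit 15987207097) (nat_lit 228) (nat_lit 3294862513)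 (nat_lit 76) (nat_lit 6837556989) (nat_lit 162) (nat_lit 5) (nat_lit 165) (nat_lit 5) (nat_lit 163) (nat_lit 5) (nat_lit 439) (nat_lit 351) (nat_lit 230)) (XT.lf (nat_lit 0) (nat_lit 14272600974) (nat_lit 152) (nat_lit 10017677106) (nat_lit 228) (nat_lit 2323123078) (nat_lit 160) (nat_lit 5) (nat_lit 162) (nat_lit 5) (nat_lit 163) (nat_lit 5) (nat_lit 440) (nat_lit 351) (nat_lit 229))) (XT.nd (nat_lit 78) (nat_lit 0) (nat_lit 0) (XT.lf (nat_lit 0) (nat_lit 5335203915) (nat_lit 152) (nat_lit 343554619) (nat_lit 228) (nat_lit 21439482777) (nat_lit 157) (nat_lit 5) (nat_lit 159) (nat_lit 5) (nat_lit 160) (nat_lit 5) (nat_lit 441) (nat_lit 351) (nat_lit 228)) (XT.lf (nat_lit 0) (nat_lit 14077442671) (nat_lit 228) (nat_lit 3984027198) (nat_lit 76) (nat_lit 9569963606) (nat_lit 157) (nat_lit 5) (nat_lit 160) (nat_lit 5) (nat_lit 158) (nat_lit 5) (nat_lit 442) (nat_lit 351) (nat_lit 227))))))))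
noncomputable def xc127 : XT := (XT.nd (nat_lit 2418) (nat_lit 1444) (nat_lit 0) (XT.nd (nat_lit 1170) (nat_lit 1596) (nat_lit 0) (XT.nd (nat_lit 546) (nat_lit 760) (nat_lit 0) (XT.nd (nat_lit 234) (nat_lit 456) (nat_lit 0) (XT.nd (nat_lit 78) (nat_lit 228) (nat_lit 0) (XT.lf (nat_lit 0) (nat_lit 14604038372) (nat_lit 152) (nat_lit 8253373140) (nat_lit 228) (nat_lit 5298730168) (nat_lit 155) (nat_lit 5) (nat_lit 157) (nat_lit 5) (nat_lit 158) (nat_lit 5) (nat_lit 443) (nat_lit 351) (nat_lit 226)) (XT.nd (nat_lit 78) (nat_lit 0) (nat_lit 0) (XT.lf (nat_lit 0) (nat_lit 3236504223) (nat_lit 228) (nat_lit 23532863511) (nat_lit 76) (nat_lit 1923454142) (nat_lit 152) (nat_lit 5) (nat_lit 155) (nat_lit 5) (nat_lit 153) (nat_lit 5) (nat_lit 444) (nat_lit 351) (nat_lit 225)) (XT.lf (nat_lit 0) (nat_lit 12126837497) (nat_lit 228) (nat_lit 4692415445) (nat_lit 76) (nat_lit 12418609423) (nat_lit 152) (nat_lit 5)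 (nat_lit 155) (nat_lit 5) (nat_lit 153) (nat_lit 5) (nat_lit 445) (nat_lit 351) (nat_lit 224)))) (XT.nd (nat_lit 156) (nat_lit 152) (nat_lit 0) (XT.nd (nat_lit 78) (nat_lit 152) (nat_lit 0) (XT.lf (nat_lit 0) (nat_lit 14979758017) (nat_lit 152) (nat_lit 6434156086) (nat_lit 228) (nat_lit 8381438967) (nat_lit 150) (nat_lit 5) (nat_lit 152) (nat_lit 5) (nat_lit 153) (nat_lit 5) (nat_lit 446) (nat_lit 351) (nat_lit 223)) (XT.lf (nat_lit 0) (nat_lit 722329327) (nat_lit 152) (nat_lit 25372532861) (nat_lit 76) (nat_lit 4270804422) (nat_lit 148) (nat_lit 5) (nat_lit 150) (nat_lit 5) (nat_lit 149) (nat_lit 5) (nat_lit 447) (nat_lit 351) (nat_lit 222))) (XT.nd (nat_lit 78) (nat_lit 152) (nat_lit 0) (XT.lf (nat_lit 0) (nat_lit 10131656284) (nat_lit 152) (nat_lit 5422810379) (nat_lit 76) (nat_lit 15390106231) (nat_lit 148) (nat_lit 5) (nat_lit 150) (nat_lit 5) (nat_lit 149) (nat_lit 5) (nat_lit 448) (nat_lit 351)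 (nat_lit 221)) (XT.lf (nat_lit 0) (nat_lit 15400814247) (nat_lit 152) (nat_lit 4557005405) (nat_lit 228) (nat_lit 11578990016) (nat_lit 146) (nat_lit 5) (nat_lit 148) (nat_lit 5) (nat_lit 149) (nat_lit 5) (nat_lit 449) (nat_lit 351) (nat_lit 220))))) (XT.nd (nat_lit 312) (nat_lit 380) (nat_lit 0) (XT.nd (nat_lit 156) (nat_lit 228) (nat_lit 0) (XT.nd (nat_lit 78) (nat_lit 76) (nat_lit 0) (XT.lf (nat_lit 0) (nat_lit 4818382225) (nat_lit 76) (nat_lit 25413643273) (nat_lit 152) (nat_lit 1910190319) (nat_lit 145) (nat_lit 5) (nat_lit 146) (nat_lit 5) (nat_lit 147) (nat_lit 4) (nat_lit 450) (nat_lit 351) (nat_lit 219)) (XT.lf (nat_lit 0) (nat_lit 8087866689) (nat_lit 152) (nat_lit 6178011728) (nat_lit 76) (nat_lit 18491697113) (nat_lit 144) (nat_lit 5) (nat_lit 146) (nat_lit 5) (nat_lit 145) (nat_lit 5) (nat_lit 451) (nat_lit 351) (nat_lit 218))) (XT.nd (nat_lit 78) (nat_lit 76) (nat_lit 0) (XT.lf (nat_lit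 0) (nat_lit 15868478333) (nat_lit 152) (nat_lit 2618500463) (nat_lit 228) (nat_lit 14899664666) (nat_lit 142) (nat_lit 5) (nat_lit 144) (nat_lit 5) (nat_lit 145) (nat_lit 5) (nat_lit 452) (nat_lit 351) (nat_lit 217)) (XT.lf (nat_lit 0) (nat_lit 4645698196) (nat_lit 76) (nat_lit 24737183645) (nat_lit 152) (nat_lit 4646157063) (nat_lit 141) (nat_lit 5) (nat_lit 142) (nat_lit 5) (nat_lit 143) (nat_lit 4) (nat_lit 453) (nat_lit 351) (nat_lit 216)))) (XT.nd (nat_lit 156) (nat_lit 152) (nat_lit 0) (XT.nd (nat_lit 78) (nat_lit 152) (nat_lit 0) (XT.lf (nat_lit 0) (nat_lit 5991135066) (nat_lit 152) (nat_lit 6960853102) (nat_lit 76) (nat_lit 21731264255) (nat_lit 140) (nat_lit 5) (nat_lit 142) (nat_lit 5) (nat_lit 141) (nat_lit 5) (nat_lit 454) (nat_lit 351) (nat_lit 215)) (XT.lf (nat_lit 0) (nat_lit 16384235548) (nat_lit 152) (nat_lit 614825511) (nat_lit 228) (nat_lit 18352304294) (nat_lit 138) (nat_lit 5) (nat_lit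 140) (nat_lit 5) (nat_lit 141) (nat_lit 5) (nat_lit 455) (nat_lit 351) (nat_lit 214))) (XT.nd (nat_lit 78) (nat_lit 76) (nat_lit 0) (XT.lf (nat_lit 0) (nat_lit 4481650440) (nat_lit 76) (nat_lit 24073318491) (nat_lit 152) (nat_lit 7478020417) (nat_lit 137) (nat_lit 5) (nat_lit 138) (nat_lit 5) (nat_lit 139) (nat_lit 4) (nat_lit 456) (nat_lit 351) (nat_lit 213)) (XT.lf (nat_lit 0) (nat_lit 3836820233) (nat_lit 152) (nat_lit 7774218529) (nat_lit 76) (nat_lit 25117340791) (nat_lit 136) (nat_lit 5) (nat_lit 138) (nat_lit 5) (nat_lit 137) (nat_lit 5) (nat_lit 457) (nat_lit 351) (nat_lit 212)))))) (XT.nd (nat_lit 624) (nat_lit 760) (nat_lit 0) (XT.nd (nat_lit 312) (nat_lit 380) (nat_lit 0) (XT.nd (nat_lit 156) (nat_lit 228) (nat_lit 0) (XT.nd (nat_lit 78) (nat_lit 76) (nat_lit 0) (XT.lf (nat_lit 0) (nat_lit 15505572758) (nat_lit 228) (nat_lit 20502121323) (nat_lit 76) (nat_lit 1429773164) (nat_lit 134) (nat_lit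 5) (nat_lit 137) (nat_lit 5) (nat_lit 135) (nat_lit 4) (nat_lit 458) (nat_lit 351) (nat_lit 211)) (XT.lf (nat_lit 0) (nat_lit 4325585228) (nat_lit 76) (nat_lit 23422473641) (nat_lit 152) (nat_lit 10413058569) (nat_lit 133) (nat_lit 5) (nat_lit 134) (nat_lit 5) (nat_lit 135) (nat_lit 4) (nat_lit 459) (nat_lit 351) (nat_lit 210))) (XT.nd (nat_lit 78) (nat_lit 152) (nat_lit 0) (XT.lf (nat_lit 0) (nat_lit 1619965337) (nat_lit 152) (nat_lit 8621058405) (nat_lit 76) (nat_lit 28659126543) (nat_lit 132) (nat_lit 5) (nat_lit 134) (nat_lit 5) (nat_lit 133) (nat_lit 5) (nat_lit 460) (nat_lit 351) (nat_lit 209)) (XT.lf (nat_lit 0) (nat_lit 13996425183) (nat_lit 228) (nat_lit 22121170770) (nat_lit 76) (nat_lit 3534913057) (nat_lit 130) (nat_lit 5) (nat_lit 133) (nat_lit 5) (nat_lit 131) (nat_lit 4) (nat_lit 461) (nat_lit 351) (nat_lit 208)))) (XT.nd (nat_lit 156) (nat_lit 304) (nat_lit 0) (XT.nd (nat_lit 78) (nat_lit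 0) (nat_lit 0) (XT.lf (nat_lit 0) (nat_lit 4176912721) (nat_lit 76) (nat_lit 22784974131) (nat_lit 152) (nat_lit 13459020403) (nat_lit 129) (nat_lit 5) (nat_lit 130) (nat_lit 5) (nat_lit 131) (nat_lit 4) (nat_lit 462) (nat_lit 351) (nat_lit 207)) (XT.lf (nat_lit 0) (nat_lit 31695083114) (nat_lit 76) (nat_lit 8832980601) (nat_lit 152) (nat_lit 677941192) (nat_lit 129) (nat_lit 5) (nat_lit 130) (nat_lit 5) (nat_lit 131) (nat_lit 4) (nat_lit 463) (nat_lit 351) (nat_lit 206))) (XT.nd (nat_lit 78) (nat_lit 76) (nat_lit 0) (XT.lf (nat_lit 0) (nat_lit 12462880008) (nat_lit 228) (nat_lit 23824080092) (nat_lit 76) (nat_lit 5717495505) (nat_lit 126) (nat_lit 5) (nat_lit 129) (nat_lit 5) (nat_lit 127) (nat_lit 4) (nat_lit 464) (nat_lit 351) (nat_lit 205)) (XT.lf (nat_lit 0) (nat_lit 4035100106) (nat_lit 76) (nat_lit 22161056996) (nat_lit 152) (nat_lit 16624145636) (nat_lit 125) (nat_lit 5) (nat_lit 126) (nat_lit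 5) (nat_lit 127) (nat_lit 4) (nat_lit 465) (nat_lit 351) (nat_lit 204))))) (XT.nd (nat_lit 312) (nat_lit 456) (nat_lit 0) (XT.nd (nat_lit 156) (nat_lit 76) (nat_lit 0) (XT.nd (nat_lit 78) (nat_lit 228) (nat_lit 0) (XT.lf (nat_lit 0) (nat_lit 33196722365) (nat_lit 76) (nat_lit 7374030954) (nat_lit 152) (nat_lit 3082992343) (nat_lit 125) (nat_lit 5) (nat_lit 126) (nat_lit 5) (nat_lit 127) (nat_lit 4) (nat_lit 466) (nat_lit 351) (nat_lit 203)) (XT.lf (nat_lit 0) (nat_lit 10901925582) (nat_lit 228) (nat_lit 25616826141) (nat_lit 76) (nat_lit 7982821088) (nat_lit 122) (nat_lit 5) (nat_lit 125) (nat_lit 5) (nat_lit 123) (nat_lit 4) (nat_lit 467) (nat_lit 351) (nat_lit 202))) (XT.nd (nat_lit 78) (nat_lit 0) (nat_lit 0) (XT.lf (nat_lit 0) (nat_lit 3899665495) (nat_lit 76) (nat_lit 21550882588) (nat_lit 152) (nat_lit 19917187287) (nat_lit 121) (nat_lit 5) (nat_lit 122) (nat_lit 5) (nat_lit 123) (nat_lit 4) (nat_lit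 468) (nat_lit 351) (nat_lit 201)) (XT.lf (nat_lit 0) (nat_lit 34805668451) (nat_lit 76) (nat_lit 5877743511) (nat_lit 152) (nat_lit 5569037363) (nat_lit 121) (nat_lit 5) (nat_lit 122) (nat_lit 5) (nat_lit 123) (nat_lit 4) (nat_lit 469) (nat_lit 351) (nat_lit 200)))) (XT.nd (nat_lit 156) (nat_lit 152) (nat_lit 0) (XT.nd (nat_lit 78) (nat_lit 76) (nat_lit 0) (XT.lf (nat_lit 0) (nat_lit 9310362171) (nat_lit 228) (nat_lit 27505675308) (nat_lit 76) (nat_lit 10336595880) (nat_lit 118) (nat_lit 5) (nat_lit 121) (nat_lit 5) (nat_lit 119) (nat_lit 4) (nat_lit 470) (nat_lit 351) (nat_lit 199)) (XT.lf (nat_lit 0) (nat_lit 3770172491) (nat_lit 76) (nat_lit 20954544593) (nat_lit 152) (nat_lit 23347436495) (nat_lit 117) (nat_lit 5) (nat_lit 118) (nat_lit 5) (nat_lit 119) (nat_lit 4) (nat_lit 471) (nat_lit 351) (nat_lit 198))) (XT.nd (nat_lit 78) (nat_lit 152) (nat_lit 0) (XT.lf (nat_lit 0) (nat_lit 36527618288) (nat_lit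 76) (nat_lit 4341085522) (nat_lit 152) (nat_lit 8142539561) (nat_lit 117) (nat_lit 5) (nat_lit 118) (nat_lit 5) (nat_lit 119) (nat_lit 4) (nat_lit 472) (nat_lit 351) (nat_lit 197)) (XT.lf (nat_lit 0) (nat_lit 7684796112) (nat_lit 152) (nat_lit 29497208804) (nat_lit 76) (nat_lit 12784942618) (nat_lit 115) (nat_lit 5) (nat_lit 117) (nat_lit 5) (nat_lit 116) (nat_lit 4) (nat_lit 473) (nat_lit 351) (nat_lit 196))))))) (XT.nd (nat_lit 1170) (nat_lit 380) (nat_lit 0) (XT.nd (nat_lit 546) (nat_lit 532) (nat_lit 0) (XT.nd (nat_lit 234) (nat_lit 304) (nat_lit 0) (XT.nd (nat_lit 78) (nat_lit 152) (nat_lit 0) (XT.lf (nat_lit 0) (nat_lit 3646225356) (nat_lit 76) (nat_lit 20372078886) (nat_lit 152) (nat_lit 26924749724) (nat_lit 114) (nat_lit 5) (nat_lit 115) (nat_lit 5) (nat_lit 116) (nat_lit 4) (nat_lit 474) (nat_lit 351) (nat_lit 195)) (XT.nd (nat_lit 78) (nat_lit 152) (nat_lit 0) (XT.lf (nat_lit 0) (nat_lit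 38368682092) (nat_lit 76) (nat_lit 2760778964) (nat_lit 152) (nat_lit 10810353231) (nat_lit 114) (nat_lit 5) (nat_lit 115) (nat_lit 5) (nat_lit 116) (nat_lit 4) (nat_lit 475) (nat_lit 351) (nat_lit 194)) (XT.lf (nat_lit 0) (nat_lit 6021632848) (nat_lit 152) (nat_lit 31598348644) (nat_lit 76) (nat_lit 15334414178) (nat_lit 112) (nat_lit 5) (nat_lit 114) (nat_lit 5) (nat_lit 113) (nat_lit 4) (nat_lit 476) (nat_lit 351) (nat_lit 193)))) (XT.nd (nat_lit 156) (nat_lit 228) (nat_lit 0) (XT.nd (nat_lit 78) (nat_lit 0) (nat_lit 0) (XT.lf (nat_lit 0) (nat_lit 3527464711) (nat_lit 76) (nat_lit 19803471356) (nat_lit 152) (nat_lit 30659578383) (nat_lit 111) (nat_lit 5) (nat_lit 112) (nat_lit 5) (nat_lit 113) (nat_lit 4) (nat_lit 477) (nat_lit 351) (nat_lit 192)) (XT.lf (nat_lit 0) (nat_lit 40335401948) (nat_lit 76) (nat_lit 1133296581) (nat_lit 152) (nat_lit 13579742859) (nat_lit 111) (nat_lit 5) (nat_lit 112)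 (nat_lit 5) (nat_lit 113) (nat_lit 4) (nat_lit 478) (nat_lit 351) (nat_lit 191))) (XT.nd (nat_lit 78) (nat_lit 76) (nat_lit 0) (XT.lf (nat_lit 0) (nat_lit 4317068846) (nat_lit 152) (nat_lit 33816384469) (nat_lit 76) (nat_lit 17992009330) (nat_lit 109) (nat_lit 5) (nat_lit 111) (nat_lit 5) (nat_lit 110) (nat_lit 4) (nat_lit 479) (nat_lit 351) (nat_lit 190)) (XT.lf (nat_lit 0) (nat_lit 3413563706) (nat_lit 76) (nat_lit 19248664819) (nat_lit 152) (nat_lit 34563000936) (nat_lit 108) (nat_lit 5) (nat_lit 109) (nat_lit 5) (nat_lit 110) (nat_lit 4) (nat_lit 480) (nat_lit 351) (nat_lit 189))))) (XT.nd (nat_lit 312) (nat_lit 304) (nat_lit 0) (XT.nd (nat_lit 156) (nat_lit 76) (nat_lit 0) (XT.nd (nat_lit 78) (nat_lit 152) (nat_lit 0) (XT.lf (nat_lit 0) (nat_lit 41894868812) (nat_lit 152) (nat_lit 15918500765) (nat_lit 0) (nat_lit 534505930) (nat_lit 108) (nat_lit 5) (nat_lit 110) (nat_lit 4) (nat_lit 108) (nat_lit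 4) (nat_lit 481) (nat_lit 351) (nat_lit 188)) (XT.lf (nat_lit 0) (nat_lit 2567082421) (nat_lit 152) (nat_lit 36159001351) (nat_lit 76) (nat_lit 20765190730) (nat_lit 106) (nat_lit 5) (nat_lit 108) (nat_lit 5) (nat_lit 107) (nat_lit 4) (nat_lit 482) (nat_lit 351) (nat_lit 187))) (XT.nd (nat_lit 78) (nat_lit 0) (nat_lit 0) (XT.lf (nat_lit 0) (nat_lit 3304224614) (nat_lit 76) (nat_lit 18707565125) (nat_lit 152) (nat_lit 38646757557) (nat_lit 105) (nat_lit 5) (nat_lit 106) (nat_lit 5) (nat_lit 107) (nat_lit 4) (nat_lit 483) (nat_lit 351) (nat_lit 186)) (XT.lf (nat_lit 0) (nat_lit 42417579335) (nat_lit 152) (nat_lit 17197804533) (nat_lit 0) (nat_lit 2234122173) (nat_lit 105) (nat_lit 5) (nat_lit 107) (nat_lit 4) (nat_lit 105) (nat_lit 4) (nat_lit 484) (nat_lit 351) (nat_lit 185)))) (XT.nd (nat_lit 156) (nat_lit 76) (nat_lit 0) (XT.nd (nat_lit 78) (nat_lit 76) (nat_lit 0) (XT.lf (nat_lit 0) (nat_lit 767423477)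 (nat_lit 152) (nat_lit 38634308702) (nat_lit 76) (nat_lit 23661905144) (nat_lit 103) (nat_lit 5) (nat_lit 105) (nat_lit 5) (nat_lit 104) (nat_lit 4) (nat_lit 485) (nat_lit 351) (nat_lit 184)) (XT.lf (nat_lit 0) (nat_lit 3199175796) (nat_lit 76) (nat_lit 18180046538) (nat_lit 152) (nat_lit 42923287428) (nat_lit 102) (nat_lit 5) (nat_lit 103) (nat_lit 5) (nat_lit 104) (nat_lit 4) (nat_lit 486) (nat_lit 351) (nat_lit 183))) (XT.nd (nat_lit 78) (nat_lit 76) (nat_lit 0) (XT.lf (nat_lit 0) (nat_lit 43029631015) (nat_lit 152) (nat_lit 18544412760) (nat_lit 0) (nat_lit 3991896927) (nat_lit 102) (nat_lit 5) (nat_lit 104) (nat_lit 4) (nat_lit 102) (nat_lit 4) (nat_lit 487) (nat_lit 351) (nat_lit 182)) (XT.lf (nat_lit 0) (nat_lit 25593237562) (nat_lit 76) (nat_lit 40153502067) (nat_lit 76) (nat_lit 1108019307) (nat_lit 101) (nat_lit 4) (nat_lit 102) (nat_lit 5) (nat_lit 102) (nat_lit 4) (nat_lit 488) (nat_lit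 351) (nat_lit 181)))))) (XT.nd (nat_lit 42744) (nat_lit 0) (nat_lit 25992) (XT.nd (nat_lit 42432) (nat_lit 0) (nat_lit 27512) (XT.nd (nat_lit 156) (nat_lit 228) (nat_lit 0) (XT.nd (nat_lit 78) (nat_lit 0) (nat_lit 0) (XT.lf (nat_lit 0) (nat_lit 3098169000) (nat_lit 76) (nat_lit 17665956488) (nat_lit 152) (nat_lit 47405768771) (nat_lit 99) (nat_lit 5) (nat_lit 100) (nat_lit 5) (nat_lit 101) (nat_lit 4) (nat_lit 489) (nat_lit 351) (nat_lit 180)) (XT.lf (nat_lit 0) (nat_lit 43734965911) (nat_lit 152) (nat_lit 19962909353) (nat_lit 0) (nat_lit 5812335222) (nat_lit 99) (nat_lit 5) (nat_lit 101) (nat_lit 4) (nat_lit 99) (nat_lit 4) (nat_lit 490) (nat_lit 351) (nat_lit 179))) (XT.nd (nat_lit 78) (nat_lit 152) (nat_lit 0) (XT.lf (nat_lit 0) (nat_lit 26830868698) (nat_lit 76) (nat_lit 40988327424) (nat_lit 76) (nat_lit 3058812140) (nat_lit 98) (nat_lit 4) (nat_lit 99) (nat_lit 5) (nat_lit 99) (nat_lit 4) (nat_lit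 491) (nat_lit 351) (nat_lit 178)) (XT.lf (nat_lit 0) (nat_lit 3000976953) (nat_lit 76) (nat_lit 17165119751) (nat_lit 152) (nat_lit 52108161724) (nat_lit 96) (nat_lit 5) (nat_lit 97) (nat_lit 5) (nat_lit 98) (nat_lit 4) (nat_lit 492) (nat_lit 351) (nat_lit 177)))) (XT.nd (nat_lit 156) (nat_lit 0) (nat_lit 76) (XT.nd (nat_lit 78) (nat_lit 836) (nat_lit 0) (XT.lf (nat_lit 0) (nat_lit 1674028235) (nat_lit 0) (nat_lit 1674028235) (nat_lit 684) (nat_lit 177019482) (nat_lit 469) (nat_lit 5) (nat_lit 469) (nat_lit 3) (nat_lit 478) (nat_lit 3) (nat_lit 352) (nat_lit 352) (nat_lit 316)) (XT.lf (nat_lit 0) (nat_lit 1431177096) (nat_lit 836) (nat_lit 173565195) (nat_lit 836) (nat_lit 5497760089) (nat_lit 458) (nat_lit 3) (nat_lit 469) (nat_lit 3) (nat_lit 469) (nat_lit 5) (nat_lit 353) (nat_lit 352) (nat_lit 315))) (XT.nd (nat_lit 78) (nat_lit 0) (nat_lit 0) (XT.lf (nat_lit 0) (nat_lit 3229298142) (nat_lit 760)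 (nat_lit 3670363487) (nat_lit 836) (nat_lit 257662649) (nat_lit 459) (nat_lit 5) (nat_lit 469) (nat_lit 5) (nat_lit 470) (nat_lit 5) (nat_lit 354) (nat_lit 352) (nat_lit 314)) (XT.lf (nat_lit 0) (nat_lit 5031413619) (nat_lit 760) (nat_lit 6628366) (nat_lit 836) (nat_lit 2177247324) (nat_lit 459) (nat_lit 5) (nat_lit 469) (nat_lit 5) (nat_lit 470) (nat_lit 5) (nat_lit 355) (nat_lit 352) (nat_lit 313))))) (XT.nd (nat_lit 312) (nat_lit 760) (nat_lit 0) (XT.nd (nat_lit 156) (nat_lit 0) (nat_lit 76) (XT.nd (nat_lit 78) (nat_lit 836) (nat_lit 0) (XT.lf (nat_lit 76) (nat_lit 3804516196) (nat_lit 0) (nat_lit 3054009099) (nat_lit 836) (nat_lit 417340013) (nat_lit 460) (nat_lit 5) (nat_lit 459) (nat_lit 5) (nat_lit 470) (nat_lit 5) (nat_lit 356) (nat_lit 352) (nat_lit 312)) (XT.lf (nat_lit 76) (nat_lit 347506018) (nat_lit 0) (nat_lit 966020995) (nat_lit 912) (nat_lit 6026166301) (nat_lit 449) (nat_lit 5) (nat_lit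 448) (nat_lit 5) (nat_lit 460) (nat_lit 5) (nat_lit 357) (nat_lit 352) (nat_lit 311))) (XT.nd (nat_lit 78) (nat_lit 0) (nat_lit 0) (XT.lf (nat_lit 0) (nat_lit 3071784076) (nat_lit 836) (nat_lit 3107609919) (nat_lit 912) (nat_lit 1226402638) (nat_lit 449) (nat_lit 5) (nat_lit 460) (nat_lit 5) (nat_lit 461) (nat_lit 5) (nat_lit 358) (nat_lit 352) (nat_lit 310)) (XT.lf (nat_lit 76) (nat_lit 862473957) (nat_lit 0) (nat_lit 3977067262) (nat_lit 912) (nat_lit 2635639261) (nat_lit 450) (nat_lit 5) (nat_lit 449) (nat_lit 5) (nat_lit 461) (nat_lit 5) (nat_lit 359) (nat_lit 352) (nat_lit 309)))) (XT.nd (nat_lit 156) (nat_lit 0) (nat_lit 0) (XT.nd (nat_lit 78) (nat_lit 836) (nat_lit 0) (XT.lf (nat_lit 76) (nat_lit 4977442528) (nat_lit 0) (nat_lit 1654581670) (nat_lit 912) (nat_lit 915470851) (nat_lit 450) (nat_lit 5) (nat_lit 449) (nat_lit 5) (nat_lit 461) (nat_lit 5) (nat_lit 360) (nat_lit 352) (nat_lit 308))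 (XT.lf (nat_lit 0) (nat_lit 803762606) (nat_lit 912) (nat_lit 6052081425) (nat_lit 988) (nat_lit 766962998) (nat_lit 438) (nat_lit 5) (nat_lit 450) (nat_lit 5) (nat_lit 451) (nat_lit 5) (nat_lit 361) (nat_lit 352) (nat_lit 307))) (XT.nd (nat_lit 78) (nat_lit 0) (nat_lit 0) (XT.lf (nat_lit 0) (nat_lit 2541772694) (nat_lit 912) (nat_lit 1876404357) (nat_lit 988) (nat_lit 3282361407) (nat_lit 438) (nat_lit 5) (nat_lit 450) (nat_lit 5) (nat_lit 451) (nat_lit 5) (nat_lit 362) (nat_lit 352) (nat_lit 306)) (XT.lf (nat_lit 76) (nat_lit 2433671381) (nat_lit 0) (nat_lit 1866313834) (nat_lit 988) (nat_lit 3481574749) (nat_lit 439) (nat_lit 5) (nat_lit 438) (nat_lit 5) (nat_lit 451) (nat_lit 5) (nat_lit 363) (nat_lit 352) (nat_lit 305))))))))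
noncomputable def xc128 : XT := (XT.nd (nat_lit 2340) (nat_lit 6688) (nat_lit 0) (XT.nd (nat_lit 1170) (nat_lit 4788) (nat_lit 0) (XT.nd (nat_lit 546) (nat_lit 4484) (nat_lit 0) (XT.nd (nat_lit 234) (nat_lit 2052) (nat_lit 0) (XT.nd (nat_lit 78) (nat_lit 988) (nat_lit 0) (XT.lf (nat_lit 0) (nat_lit 6083474971) (nat_lit 912) (nat_lit 1000205827) (nat_lit 988) (nat_lit 782155392) (nat_lit 439) (nat_lit 5) (nat_lit 451) (nat_lit 5) (nat_lit 452) (nat_lit 5) (nat_lit 364) (nat_lit 352) (nat_lit 304)) (XT.nd (nat_lit 78) (nat_lit 988) (nat_lit 0) (XT.lf (nat_lit 76) (nat_lit 3488905738) (nat_lit 0) (nat_lit 4431219751) (nat_lit 988) (nat_lit 32525531) (nat_lit 440) (nat_lit 5) (nat_lit 439) (nat_lit 5) (nat_lit 452) (nat_lit 5) (nat_lit 365) (nat_lit 352) (nat_lit 303)) (XT.lf (nat_lit 76) (nat_lit 35756816) (nat_lit 0) (nat_lit 1658347829) (nat_lit 1064) (nat_lit 6348690236) (nat_lit 427) (nat_lit 5) (nat_lit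 426) (nat_lit 5) (nat_lit 440) (nat_lit 5) (nat_lit 366) (nat_lit 352) (nat_lit 302)))) (XT.nd (nat_lit 156) (nat_lit 1140) (nat_lit 0) (XT.nd (nat_lit 78) (nat_lit 988) (nat_lit 0) (XT.lf (nat_lit 0) (nat_lit 3478450320) (nat_lit 988) (nat_lit 3425325922) (nat_lit 76) (nat_lit 1231660045) (nat_lit 427) (nat_lit 5) (nat_lit 440) (nat_lit 5) (nat_lit 428) (nat_lit 5) (nat_lit 367) (nat_lit 352) (nat_lit 301)) (XT.lf (nat_lit 0) (nat_lit 1262738437) (nat_lit 988) (nat_lit 4033151092) (nat_lit 1064) (nat_lit 2935580512) (nat_lit 414) (nat_lit 5) (nat_lit 427) (nat_lit 5) (nat_lit 428) (nat_lit 5) (nat_lit 368) (nat_lit 352) (nat_lit 300))) (XT.nd (nat_lit 78) (nat_lit 1140) (nat_lit 0) (XT.lf (nat_lit 0) (nat_lit 6122725609) (nat_lit 988) (nat_lit 1031773801) (nat_lit 1064) (nat_lit 1176285973) (nat_lit 414) (nat_lit 5) (nat_lit 427) (nat_lit 5) (nat_lit 428) (nat_lit 5) (nat_lit 369) (nat_lit 352) (nat_lit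 299)) (XT.lf (nat_lit 0) (nat_lit 622556807) (nat_lit 1140) (nat_lit 5750387266) (nat_lit 76) (nat_lit 2059977486) (nat_lit 399) (nat_lit 5) (nat_lit 414) (nat_lit 5) (nat_lit 400) (nat_lit 5) (nat_lit 370) (nat_lit 352) (nat_lit 298))))) (XT.nd (nat_lit 312) (nat_lit 2128) (nat_lit 0) (XT.nd (nat_lit 156) (nat_lit 1216) (nat_lit 0) (XT.nd (nat_lit 78) (nat_lit 1140) (nat_lit 0) (XT.lf (nat_lit 0) (nat_lit 2438523967) (nat_lit 1140) (nat_lit 834236761) (nat_lit 76) (nat_lit 5265407663) (nat_lit 399) (nat_lit 5) (nat_lit 414) (nat_lit 5) (nat_lit 400) (nat_lit 5) (nat_lit 371) (nat_lit 352) (nat_lit 297)) (XT.lf (nat_lit 0) (nat_lit 4274151517) (nat_lit 1140) (nat_lit 31310072) (nat_lit 1216) (nat_lit 4341216296) (nat_lit 384) (nat_lit 5) (nat_lit 399) (nat_lit 5) (nat_lit 400) (nat_lit 5) (nat_lit 372) (nat_lit 352) (nat_lit 296))) (XT.nd (nat_lit 78) (nat_lit 0) (nat_lit 0) (XT.lf (nat_lit 0) (nat_lit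 737585863) (nat_lit 1216) (nat_lit 5494600252) (nat_lit 1292) (nat_lit 2526143185) (nat_lit 368) (nat_lit 5) (nat_lit 384) (nat_lit 5) (nat_lit 385) (nat_lit 5) (nat_lit 373) (nat_lit 352) (nat_lit 295)) (XT.lf (nat_lit 0) (nat_lit 6051072734) (nat_lit 1216) (nat_lit 2167382022) (nat_lit 1292) (nat_lit 654823230) (nat_lit 368) (nat_lit 5) (nat_lit 384) (nat_lit 5) (nat_lit 385) (nat_lit 5) (nat_lit 374) (nat_lit 352) (nat_lit 294)))) (XT.nd (nat_lit 156) (nat_lit 1216) (nat_lit 0) (XT.nd (nat_lit 78) (nat_lit 0) (nat_lit 0) (XT.lf (nat_lit 0) (nat_lit 1242741244) (nat_lit 912) (nat_lit 6473834527) (nat_lit 76) (nat_lit 1274884202) (nat_lit 356) (nat_lit 5) (nat_lit 368) (nat_lit 5) (nat_lit 357) (nat_lit 5) (nat_lit 375) (nat_lit 352) (nat_lit 293)) (XT.lf (nat_lit 0) (nat_lit 3193299757) (nat_lit 912) (nat_lit 1104862537) (nat_lit 76) (nat_lit 4814553771) (nat_lit 356) (nat_lit 5) (nat_lit 368) (nat_lit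 5) (nat_lit 357) (nat_lit 5) (nat_lit 376) (nat_lit 352) (nat_lit 292))) (XT.nd (nat_lit 78) (nat_lit 608) (nat_lit 0) (XT.lf (nat_lit 0) (nat_lit 4473829829) (nat_lit 608) (nat_lit 731733173) (nat_lit 684) (nat_lit 4031951200) (nat_lit 348) (nat_lit 5) (nat_lit 356) (nat_lit 5) (nat_lit 357) (nat_lit 5) (nat_lit 377) (nat_lit 352) (nat_lit 291)) (XT.lf (nat_lit 0) (nat_lit 825073957) (nat_lit 608) (nat_lit 6461577914) (nat_lit 684) (nat_lit 2079150679) (nat_lit 340) (nat_lit 5) (nat_lit 348) (nat_lit 5) (nat_lit 349) (nat_lit 5) (nat_lit 378) (nat_lit 352) (nat_lit 290)))))) (XT.nd (nat_lit 546) (nat_lit 2432) (nat_lit 0) (XT.nd (nat_lit 234) (nat_lit 1748) (nat_lit 0) (XT.nd (nat_lit 78) (nat_lit 608) (nat_lit 0) (XT.lf (nat_lit 0) (nat_lit 6632695157) (nat_lit 608) (nat_lit 2814498831) (nat_lit 684) (nat_lit 50234943) (nat_lit 340) (nat_lit 5) (nat_lit 348) (nat_lit 5) (nat_lit 349) (nat_lit 5) (nat_lit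 379) (nat_lit 352) (nat_lit 289)) (XT.nd (nat_lit 78) (nat_lit 0) (nat_lit 0) (XT.lf (nat_lit 0) (nat_lit 2000419911) (nat_lit 608) (nat_lit 6660759485) (nat_lit 76) (nat_lit 971216428) (nat_lit 332) (nat_lit 5) (nat_lit 340) (nat_lit 5) (nat_lit 333) (nat_lit 5) (nat_lit 380) (nat_lit 352) (nat_lit 288)) (XT.lf (nat_lit 0) (nat_lit 4131865059) (nat_lit 608) (nat_lit 796752687) (nat_lit 76) (nat_lit 4842170648) (nat_lit 332) (nat_lit 5) (nat_lit 340) (nat_lit 5) (nat_lit 333) (nat_lit 5) (nat_lit 381) (nat_lit 352) (nat_lit 287)))) (XT.nd (nat_lit 156) (nat_lit 608) (nat_lit 0) (XT.nd (nat_lit 78) (nat_lit 532) (nat_lit 0) (XT.lf (nat_lit 0) (nat_lit 5308529367) (nat_lit 608) (nat_lit 1034024270) (nat_lit 684) (nat_lit 3570320102) (nat_lit 324) (nat_lit 5) (nat_lit 332) (nat_lit 5) (nat_lit 333) (nat_lit 5) (nat_lit 382) (nat_lit 352) (nat_lit 286)) (XT.lf (nat_lit 0) (nat_lit 1516327735) (nat_lit 532)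 (nat_lit 7119477954) (nat_lit 608) (nat_lit 1422928669) (nat_lit 317) (nat_lit 5) (nat_lit 324) (nat_lit 5) (nat_lit 325) (nat_lit 5) (nat_lit 383) (nat_lit 352) (nat_lit 285))) (XT.nd (nat_lit 78) (nat_lit 532) (nat_lit 0) (XT.lf (nat_lit 0) (nat_lit 795915324) (nat_lit 608) (nat_lit 2350046819) (nat_lit 76) (nat_lit 7062108414) (nat_lit 316) (nat_lit 5) (nat_lit 324) (nat_lit 5) (nat_lit 317) (nat_lit 5) (nat_lit 384) (nat_lit 352) (nat_lit 284)) (XT.lf (nat_lit 0) (nat_lit 3067534371) (nat_lit 608) (nat_lit 6315820372) (nat_lit 76) (nat_lit 977665169) (nat_lit 309) (nat_lit 5) (nat_lit 317) (nat_lit 5) (nat_lit 310) (nat_lit 5) (nat_lit 385) (nat_lit 352) (nat_lit 283))))) (XT.nd (nat_lit 312) (nat_lit 1368) (nat_lit 0) (XT.nd (nat_lit 156) (nat_lit 608) (nat_lit 0) (XT.nd (nat_lit 78) (nat_lit 0) (nat_lit 0) (XT.lf (nat_lit 0) (nat_lit 94461625) (nat_lit 456) (nat_lit 5335684047) (nat_lit 532) (nat_lit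 5087726766) (nat_lit 303) (nat_lit 5) (nat_lit 309) (nat_lit 5) (nat_lit 310) (nat_lit 5) (nat_lit 386) (nat_lit 352) (nat_lit 282)) (XT.lf (nat_lit 0) (nat_lit 6788269244) (nat_lit 456) (nat_lit 1106563831) (nat_lit 532) (nat_lit 2783661532) (nat_lit 303) (nat_lit 5) (nat_lit 309) (nat_lit 5) (nat_lit 310) (nat_lit 5) (nat_lit 387) (nat_lit 352) (nat_lit 281))) (XT.nd (nat_lit 78) (nat_lit 76) (nat_lit 0) (XT.lf (nat_lit 0) (nat_lit 2824809498) (nat_lit 532) (nat_lit 7635357263) (nat_lit 608) (nat_lit 382967509) (nat_lit 296) (nat_lit 5) (nat_lit 303) (nat_lit 5) (nat_lit 304) (nat_lit 5) (nat_lit 388) (nat_lit 352) (nat_lit 280)) (XT.lf (nat_lit 0) (nat_lit 2068166529) (nat_lit 608) (nat_lit 1260211876) (nat_lit 76) (nat_lit 7683156151) (nat_lit 295) (nat_lit 5) (nat_lit 303) (nat_lit 5) (nat_lit 296) (nat_lit 5) (nat_lit 389) (nat_lit 352) (nat_lit 279)))) (XT.nd (nat_lit 156) (nat_lit 456) (nat_lit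 0) (XT.nd (nat_lit 78) (nat_lit 456) (nat_lit 0) (XT.lf (nat_lit 0) (nat_lit 4621280785) (nat_lit 532) (nat_lit 5422974827) (nat_lit 76) (nat_lit 1139533182) (nat_lit 289) (nat_lit 5) (nat_lit 296) (nat_lit 5) (nat_lit 290) (nat_lit 5) (nat_lit 390) (nat_lit 352) (nat_lit 278)) (XT.lf (nat_lit 0) (nat_lit 1618334304) (nat_lit 456) (nat_lit 5663970366) (nat_lit 532) (nat_lit 4077966502) (nat_lit 283) (nat_lit 5) (nat_lit 289) (nat_lit 5) (nat_lit 290) (nat_lit 5) (nat_lit 391) (nat_lit 352) (nat_lit 277))) (XT.nd (nat_lit 78) (nat_lit 456) (nat_lit 0) (XT.lf (nat_lit 0) (nat_lit 8944777599) (nat_lit 456) (nat_lit 1103613822) (nat_lit 532) (nat_lit 1492899636) (nat_lit 283) (nat_lit 5) (nat_lit 289) (nat_lit 5) (nat_lit 290) (nat_lit 5) (nat_lit 392) (nat_lit 352) (nat_lit 276)) (XT.lf (nat_lit 0) (nat_lit 1199206273) (nat_lit 456) (nat_lit 6952813157) (nat_lit 76) (nat_lit 3573815413) (nat_lit 277) (nat_lit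 5) (nat_lit 283) (nat_lit 5) (nat_lit 278) (nat_lit 5) (nat_lit 393) (nat_lit 352) (nat_lit 275))))))) (XT.nd (nat_lit 1170) (nat_lit 2888) (nat_lit 0) (XT.nd (nat_lit 546) (nat_lit 2128) (nat_lit 0) (XT.nd (nat_lit 234) (nat_lit 836) (nat_lit 0) (XT.nd (nat_lit 78) (nat_lit 380) (nat_lit 0) (XT.lf (nat_lit 0) (nat_lit 447323259) (nat_lit 456) (nat_lit 3507916412) (nat_lit 532) (nat_lit 7959836733) (nat_lit 271) (nat_lit 5) (nat_lit 277) (nat_lit 5) (nat_lit 278) (nat_lit 5) (nat_lit 394) (nat_lit 352) (nat_lit 274)) (XT.nd (nat_lit 78) (nat_lit 380) (nat_lit 0) (XT.lf (nat_lit 0) (nat_lit 6848977088) (nat_lit 532) (nat_lit 3946427017) (nat_lit 76) (nat_lit 1312940415) (nat_lit 271) (nat_lit 5) (nat_lit 278) (nat_lit 5) (nat_lit 272) (nat_lit 5) (nat_lit 395) (nat_lit 352) (nat_lit 273)) (XT.lf (nat_lit 0) (nat_lit 3803550746) (nat_lit 380) (nat_lit 6069946589) (nat_lit 456) (nat_lit 2432594224) (nat_lit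 266) (nat_lit 5) (nat_lit 271) (nat_lit 5) (nat_lit 272) (nat_lit 5) (nat_lit 396) (nat_lit 352) (nat_lit 272)))) (XT.nd (nat_lit 156) (nat_lit 380) (nat_lit 0) (XT.nd (nat_lit 78) (nat_lit 380) (nat_lit 0) (XT.lf (nat_lit 0) (nat_lit 482740591) (nat_lit 456) (nat_lit 683308391) (nat_lit 76) (nat_lit 11343190747) (nat_lit 265) (nat_lit 5) (nat_lit 271) (nat_lit 5) (nat_lit 266) (nat_lit 5) (nat_lit 397) (nat_lit 352) (nat_lit 271)) (XT.lf (nat_lit 0) (nat_lit 3520171248) (nat_lit 456) (nat_lit 5298280403) (nat_lit 76) (nat_lit 3896802284) (nat_lit 260) (nat_lit 5) (nat_lit 266) (nat_lit 5) (nat_lit 261) (nat_lit 5) (nat_lit 398) (nat_lit 352) (nat_lit 270))) (XT.nd (nat_lit 78) (nat_lit 0) (nat_lit 0) (XT.lf (nat_lit 0) (nat_lit 2855200241) (nat_lit 380) (nat_lit 3813472886) (nat_lit 456) (nat_lit 6258176991) (nat_lit 255) (nat_lit 5) (nat_lit 260) (nat_lit 5) (nat_lit 261) (nat_lit 5) (nat_lit 399)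 (nat_lit 352) (nat_lit 269)) (XT.lf (nat_lit 0) (nat_lit 9952867414) (nat_lit 456) (nat_lit 1830971573) (nat_lit 76) (nat_lit 1359718080) (nat_lit 255) (nat_lit 5) (nat_lit 261) (nat_lit 5) (nat_lit 256) (nat_lit 5) (nat_lit 400) (nat_lit 352) (nat_lit 268))))) (XT.nd (nat_lit 312) (nat_lit 988) (nat_lit 0) (XT.nd (nat_lit 156) (nat_lit 380) (nat_lit 0) (XT.nd (nat_lit 78) (nat_lit 304) (nat_lit 0) (XT.lf (nat_lit 0) (nat_lit 47559458) (nat_lit 456) (nat_lit 6649901600) (nat_lit 76) (nat_lit 6666969293) (nat_lit 249) (nat_lit 5) (nat_lit 255) (nat_lit 5) (nat_lit 250) (nat_lit 5) (nat_lit 401) (nat_lit 352) (nat_lit 267)) (XT.lf (nat_lit 0) (nat_lit 1933157525) (nat_lit 304) (nat_lit 1398129072) (nat_lit 380) (nat_lit 10259321700) (nat_lit 245) (nat_lit 5) (nat_lit 249) (nat_lit 5) (nat_lit 250) (nat_lit 5) (nat_lit 402) (nat_lit 352) (nat_lit 266))) (XT.nd (nat_lit 78) (nat_lit 380) (nat_lit 0) (XT.lf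 (nat_lit 0) (nat_lit 6795859610) (nat_lit 380) (nat_lit 2986853317) (nat_lit 76) (nat_lit 4038388632) (nat_lit 245) (nat_lit 5) (nat_lit 250) (nat_lit 5) (nat_lit 246) (nat_lit 5) (nat_lit 403) (nat_lit 352) (nat_lit 265)) (XT.lf (nat_lit 0) (nat_lit 6012760165) (nat_lit 380) (nat_lit 4399454011) (nat_lit 456) (nat_lit 3644860113) (nat_lit 240) (nat_lit 5) (nat_lit 245) (nat_lit 5) (nat_lit 246) (nat_lit 5) (nat_lit 404) (nat_lit 352) (nat_lit 264)))) (XT.nd (nat_lit 156) (nat_lit 608) (nat_lit 0) (XT.nd (nat_lit 78) (nat_lit 76) (nat_lit 0) (XT.lf (nat_lit 0) (nat_lit 1018077100) (nat_lit 304) (nat_lit 13146701060) (nat_lit 380) (nat_lit 134516476) (nat_lit 236) (nat_lit 5) (nat_lit 240) (nat_lit 5) (nat_lit 241) (nat_lit 5) (nat_lit 405) (nat_lit 352) (nat_lit 263)) (XT.lf (nat_lit 0) (nat_lit 3515390322) (nat_lit 380) (nat_lit 4141903901) (nat_lit 76) (nat_lit 6887418017) (nat_lit 235) (nat_lit 5)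 (nat_lit 240) (nat_lit 5) (nat_lit 236) (nat_lit 5) (nat_lit 406) (nat_lit 352) (nat_lit 262))) (XT.nd (nat_lit 78) (nat_lit 304) (nat_lit 0) (XT.lf (nat_lit 0) (nat_lit 5340514807) (nat_lit 304) (nat_lit 1960181444) (nat_lit 380) (nat_lit 7495897996) (nat_lit 231) (nat_lit 5) (nat_lit 235) (nat_lit 5) (nat_lit 236) (nat_lit 5) (nat_lit 407) (nat_lit 352) (nat_lit 261)) (XT.lf (nat_lit 0) (nat_lit 66669257) (nat_lit 304) (nat_lit 11190836966) (nat_lit 380) (nat_lit 3796788145) (nat_lit 227) (nat_lit 5) (nat_lit 231) (nat_lit 5) (nat_lit 232) (nat_lit 5) (nat_lit 408) (nat_lit 352) (nat_lit 260)))))) (XT.nd (nat_lit 624) (nat_lit 1368) (nat_lit 0) (XT.nd (nat_lit 312) (nat_lit 912) (nat_lit 0) (XT.nd (nat_lit 156) (nat_lit 228) (nat_lit 0) (XT.nd (nat_lit 78) (nat_lit 304) (nat_lit 0) (XT.lf (nat_lit 0) (nat_lit 106487211) (nat_lit 380) (nat_lit 5302697559) (nat_lit 76) (nat_lit 9907733340) (nat_lit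 226) (nat_lit 5) (nat_lit 231) (nat_lit 5) (nat_lit 227) (nat_lit 5) (nat_lit 409) (nat_lit 352) (nat_lit 259)) (XT.lf (nat_lit 0) (nat_lit 4079883899) (nat_lit 380) (nat_lit 10898072016) (nat_lit 76) (nat_lit 607456848) (nat_lit 222) (nat_lit 5) (nat_lit 227) (nat_lit 5) (nat_lit 223) (nat_lit 5) (nat_lit 410) (nat_lit 352) (nat_lit 258))) (XT.nd (nat_lit 78) (nat_lit 228) (nat_lit 0) (XT.lf (nat_lit 0) (nat_lit 8258583686) (nat_lit 380) (nat_lit 862164742) (nat_lit 76) (nat_lit 6738630793) (nat_lit 222) (nat_lit 5) (nat_lit 227) (nat_lit 5) (nat_lit 223) (nat_lit 5) (nat_lit 411) (nat_lit 352) (nat_lit 257)) (XT.lf (nat_lit 0) (nat_lit 9630212954) (nat_lit 228) (nat_lit 3004098058) (nat_lit 304) (nat_lit 3505103663) (nat_lit 219) (nat_lit 5) (nat_lit 222) (nat_lit 5) (nat_lit 223) (nat_lit 5) (nat_lit 412) (nat_lit 352) (nat_lit 256)))) (XT.nd (nat_lit 156) (nat_lit 532) (nat_lit 0) (XT.nd (nat_lit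 78) (nat_lit 0) (nat_lit 0) (XT.lf (nat_lit 0) (nat_lit 758728517) (nat_lit 380) (nat_lit 12391699720) (nat_lit 76) (nat_lit 3275441457) (nat_lit 214) (nat_lit 5) (nat_lit 219) (nat_lit 5) (nat_lit 215) (nat_lit 5) (nat_lit 413) (nat_lit 352) (nat_lit 255)) (XT.lf (nat_lit 0) (nat_lit 5155523655) (nat_lit 380) (nat_lit 1789574200) (nat_lit 76) (nat_lit 9772514478) (nat_lit 214) (nat_lit 5) (nat_lit 219) (nat_lit 5) (nat_lit 215) (nat_lit 5) (nat_lit 414) (nat_lit 352) (nat_lit 254))) (XT.nd (nat_lit 78) (nat_lit 304) (nat_lit 0) (XT.lf (nat_lit 0) (nat_lit 9279849361) (nat_lit 228) (nat_lit 473550263) (nat_lit 304) (nat_lit 7262632316) (nat_lit 211) (nat_lit 5) (nat_lit 214) (nat_lit 5) (nat_lit 215) (nat_lit 5) (nat_lit 415) (nat_lit 352) (nat_lit 253)) (XT.lf (nat_lit 0) (nat_lit 3369206070) (nat_lit 304) (nat_lit 11210305662) (nat_lit 380) (nat_lit 2741183408) (nat_lit 207) (nat_lit 5) (nat_lit 211)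 (nat_lit 5) (nat_lit 212) (nat_lit 5) (nat_lit 416) (nat_lit 352) (nat_lit 252))))) (XT.nd (nat_lit 312) (nat_lit 836) (nat_lit 0) (XT.nd (nat_lit 156) (nat_lit 228) (nat_lit 0) (XT.nd (nat_lit 78) (nat_lit 228) (nat_lit 0) (XT.lf (nat_lit 0) (nat_lit 1942325024) (nat_lit 380) (nat_lit 2721788667) (nat_lit 76) (nat_lit 12967917969) (nat_lit 206) (nat_lit 5) (nat_lit 211) (nat_lit 5) (nat_lit 207) (nat_lit 5) (nat_lit 417) (nat_lit 352) (nat_lit 251)) (XT.lf (nat_lit 0) (nat_lit 6799168050) (nat_lit 304) (nat_lit 9009501908) (nat_lit 76) (nat_lit 2140586371) (nat_lit 203) (nat_lit 5) (nat_lit 207) (nat_lit 5) (nat_lit 204) (nat_lit 5) (nat_lit 418) (nat_lit 352) (nat_lit 250))) (XT.nd (nat_lit 78) (nat_lit 0) (nat_lit 0) (XT.lf (nat_lit 0) (nat_lit 2706824031) (nat_lit 228) (nat_lit 9175792495) (nat_lit 304) (nat_lit 6390954209) (nat_lit 200) (nat_lit 5) (nat_lit 203) (nat_lit 5) (nat_lit 204) (nat_lit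 5) (nat_lit 419) (nat_lit 352) (nat_lit 249)) (XT.lf (nat_lit 0) (nat_lit 14928323664) (nat_lit 228) (nat_lit 2262424415) (nat_lit 304) (nat_lit 1414701103) (nat_lit 200) (nat_lit 5) (nat_lit 203) (nat_lit 5) (nat_lit 204) (nat_lit 5) (nat_lit 420) (nat_lit 352) (nat_lit 248)))) (XT.nd (nat_lit 156) (nat_lit 304) (nat_lit 0) (XT.nd (nat_lit 78) (nat_lit 228) (nat_lit 0) (XT.lf (nat_lit 0) (nat_lit 3751123368) (nat_lit 304) (nat_lit 10319755315) (nat_lit 76) (nat_lit 4871954307) (nat_lit 196) (nat_lit 5) (nat_lit 200) (nat_lit 5) (nat_lit 197) (nat_lit 5) (nat_lit 421) (nat_lit 352) (nat_lit 247)) (XT.lf (nat_lit 0) (nat_lit 2051091858) (nat_lit 228) (nat_lit 7053712449) (nat_lit 304) (nat_lit 10183274321) (nat_lit 193) (nat_lit 5) (nat_lit 196) (nat_lit 5) (nat_lit 197) (nat_lit 5) (nat_lit 422) (nat_lit 352) (nat_lit 246))) (XT.nd (nat_lit 78) (nat_lit 304) (nat_lit 0) (XT.lf (nat_lit 0) (nat_lit 14707832997)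 (nat_lit 304) (nat_lit 4669371821) (nat_lit 76) (nat_lit 263814698) (nat_lit 193) (nat_lit 5) (nat_lit 197) (nat_lit 5) (nat_lit 194) (nat_lit 5) (nat_lit 423) (nat_lit 352) (nat_lit 245)) (XT.lf (nat_lit 0) (nat_lit 598802029) (nat_lit 304) (nat_lit 11668132358) (nat_lit 76) (nat_lit 7733467773) (nat_lit 189) (nat_lit 5) (nat_lit 193) (nat_lit 5) (nat_lit 190) (nat_lit 5) (nat_lit 424) (nat_lit 352) (nat_lit 244))))))))
noncomputable def xc129 : XT := (XT.nd (nat_lit 2340) (nat_lit 2736) (nat_lit 0) (XT.nd (nat_lit 1170) (nat_lit 1596) (nat_lit 0) (XT.nd (nat_lit 546) (nat_lit 912) (nat_lit 0) (XT.nd (nat_lit 234) (nat_lit 760) (nat_lit 0) (XT.nd (nat_lit 78) (nat_lit 152) (nat_lit 0) (XT.lf (nat_lit 0) (nat_lit 1398623857) (nat_lit 228) (nat_lit 4842447980) (nat_lit 304) (nat_lit 14126724929) (nat_lit 186) (nat_lit 5) (nat_lit 189) (nat_lit 5) (nat_lit 190) (nat_lit 5) (nat_lit 425) (nat_lit 352)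 (nat_lit 243)) (XT.nd (nat_lit 78) (nat_lit 152) (nat_lit 0) (XT.lf (nat_lit 0) (nat_lit 12181084056) (nat_lit 304) (nat_lit 5704233019) (nat_lit 76) (nat_lit 2857041907) (nat_lit 186) (nat_lit 5) (nat_lit 190) (nat_lit 5) (nat_lit 187) (nat_lit 5) (nat_lit 426) (nat_lit 352) (nat_lit 242)) (XT.lf (nat_lit 0) (nat_lit 8038447927) (nat_lit 152) (nat_lit 10369094587) (nat_lit 228) (nat_lit 2717368173) (nat_lit 184) (nat_lit 5) (nat_lit 186) (nat_lit 5) (nat_lit 187) (nat_lit 5) (nat_lit 427) (nat_lit 352) (nat_lit 241)))) (XT.nd (nat_lit 156) (nat_lit 456) (nat_lit 0) (XT.nd (nat_lit 78) (nat_lit 0) (nat_lit 0) (XT.lf (nat_lit 0) (nat_lit 746208646) (nat_lit 228) (nat_lit 2539642505) (nat_lit 304) (nat_lit 18230682817) (nat_lit 180) (nat_lit 5) (nat_lit 183) (nat_lit 5) (nat_lit 184) (nat_lit 5) (nat_lit 428) (nat_lit 352) (nat_lit 240)) (XT.lf (nat_lit 0) (nat_lit 9584292942) (nat_lit 304) (nat_lit 6764411798)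 (nat_lit 76) (nat_lit 5565301798) (nat_lit 180) (nat_lit 5) (nat_lit 184) (nat_lit 5) (nat_lit 181) (nat_lit 5) (nat_lit 429) (nat_lit 352) (nat_lit 239))) (XT.nd (nat_lit 78) (nat_lit 304) (nat_lit 0) (XT.lf (nat_lit 0) (nat_lit 7759532748) (nat_lit 152) (nat_lit 8395559063) (nat_lit 228) (nat_lit 6165809359) (nat_lit 178) (nat_lit 5) (nat_lit 180) (nat_lit 5) (nat_lit 181) (nat_lit 5) (nat_lit 430) (nat_lit 352) (nat_lit 238)) (XT.lf (nat_lit 0) (nat_lit 90778563) (nat_lit 228) (nat_lit 142233415) (nat_lit 304) (nat_lit 22505330750) (nat_lit 174) (nat_lit 5) (nat_lit 177) (nat_lit 5) (nat_lit 178) (nat_lit 5) (nat_lit 431) (nat_lit 352) (nat_lit 237))))) (XT.nd (nat_lit 312) (nat_lit 532) (nat_lit 0) (XT.nd (nat_lit 156) (nat_lit 228) (nat_lit 0) (XT.nd (nat_lit 78) (nat_lit 152) (nat_lit 0) (XT.lf (nat_lit 0) (nat_lit 6912519308) (nat_lit 304) (nat_lit 7854315288) (nat_lit 76) (nat_lit 8393262067)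 (nat_lit 174) (nat_lit 5) (nat_lit 178) (nat_lit 5) (nat_lit 175) (nat_lit 5) (nat_lit 432) (nat_lit 352) (nat_lit 236)) (XT.lf (nat_lit 0) (nat_lit 7499955108) (nat_lit 152) (nat_lit 6350232974) (nat_lit 228) (nat_lit 9742581849) (nat_lit 172) (nat_lit 5) (nat_lit 174) (nat_lit 5) (nat_lit 175) (nat_lit 5) (nat_lit 433) (nat_lit 352) (nat_lit 235))) (XT.nd (nat_lit 78) (nat_lit 228) (nat_lit 0) (XT.lf (nat_lit 0) (nat_lit 21082729235) (nat_lit 228) (nat_lit 611058768) (nat_lit 76) (nat_lit 2342033124) (nat_lit 172) (nat_lit 5) (nat_lit 175) (nat_lit 5) (nat_lit 173) (nat_lit 5) (nat_lit 434) (nat_lit 352) (nat_lit 234)) (XT.lf (nat_lit 0) (nat_lit 4160344547) (nat_lit 228) (nat_lit 8978338509) (nat_lit 76) (nat_lit 11346342782) (nat_lit 169) (nat_lit 5) (nat_lit 172) (nat_lit 5) (nat_lit 170) (nat_lit 5) (nat_lit 435) (nat_lit 352) (nat_lit 233)))) (XT.nd (nat_lit 156) (nat_lit 380) (nat_lit 0) (XT.nd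 (nat_lit 78) (nat_lit 0) (nat_lit 0) (XT.lf (nat_lit 0) (nat_lit 7258280070) (nat_lit 152) (nat_lit 4230398609) (nat_lit 228) (nat_lit 13456325387) (nat_lit 167) (nat_lit 5) (nat_lit 169) (nat_lit 5) (nat_lit 170) (nat_lit 5) (nat_lit 436) (nat_lit 352) (nat_lit 232)) (XT.lf (nat_lit 0) (nat_lit 19160876759) (nat_lit 228) (nat_lit 1325547324) (nat_lit 76) (nat_lit 4928637142) (nat_lit 167) (nat_lit 5) (nat_lit 170) (nat_lit 5) (nat_lit 168) (nat_lit 5) (nat_lit 437) (nat_lit 352) (nat_lit 231))) (XT.nd (nat_lit 78) (nat_lit 152) (nat_lit 0) (XT.lf (nat_lit 0) (nat_lit 1321869796) (nat_lit 228) (nat_lit 10140893772) (nat_lit 76) (nat_lit 14430703952) (nat_lit 164) (nat_lit 5) (nat_lit 167) (nat_lit 5) (nat_lit 165) (nat_lit 5) (nat_lit 438) (nat_lit 352) (nat_lit 230)) (XT.lf (nat_lit 0) (nat_lit 7033234765) (nat_lit 152) (nat_lit 2032782891) (nat_lit 228) (nat_lit 17316355223) (nat_lit 162) (nat_lit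 5) (nat_lit 164) (nat_lit 5) (nat_lit 165) (nat_lit 5) (nat_lit 439) (nat_lit 352) (nat_lit 229)))))) (XT.nd (nat_lit 546) (nat_lit 836) (nat_lit 0) (XT.nd (nat_lit 234) (nat_lit 380) (nat_lit 0) (XT.nd (nat_lit 78) (nat_lit 380) (nat_lit 0) (XT.lf (nat_lit 0) (nat_lit 17205184844) (nat_lit 228) (nat_lit 2053650608) (nat_lit 76) (nat_lit 7622229099) (nat_lit 162) (nat_lit 5) (nat_lit 165) (nat_lit 5) (nat_lit 163) (nat_lit 5) (nat_lit 440) (nat_lit 352) (nat_lit 228)) (XT.nd (nat_lit 78) (nat_lit 228) (nat_lit 0) (XT.lf (nat_lit 0) (nat_lit 16027698962) (nat_lit 152) (nat_lit 9720898485) (nat_lit 228) (nat_lit 1641317415) (nat_lit 160) (nat_lit 5) (nat_lit 162) (nat_lit 5) (nat_lit 163) (nat_lit 5) (nat_lit 441) (nat_lit 352) (nat_lit 227)) (XT.lf (nat_lit 0) (nat_lit 6579633481) (nat_lit 228) (nat_lit 21088621394) (nat_lit 76) (nat_lit 241618310) (nat_lit 157) (nat_lit 5) (nat_lit 160) (nat_lit 5)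 (nat_lit 158) (nat_lit 5) (nat_lit 442) (nat_lit 352) (nat_lit 226)))) (XT.nd (nat_lit 156) (nat_lit 228) (nat_lit 0) (XT.nd (nat_lit 78) (nat_lit 152) (nat_lit 0) (XT.lf (nat_lit 0) (nat_lit 15212303545) (nat_lit 228) (nat_lit 2798202777) (nat_lit 76) (nat_lit 10428494030) (nat_lit 157) (nat_lit 5) (nat_lit 160) (nat_lit 5) (nat_lit 158) (nat_lit 5) (nat_lit 443) (nat_lit 352) (nat_lit 225)) (XT.lf (nat_lit 0) (nat_lit 16334707257) (nat_lit 152) (nat_lit 7912635431) (nat_lit 228) (nat_lit 4732356977) (nat_lit 155) (nat_lit 5) (nat_lit 157) (nat_lit 5) (nat_lit 158) (nat_lit 5) (nat_lit 444) (nat_lit 352) (nat_lit 224))) (XT.nd (nat_lit 78) (nat_lit 0) (nat_lit 0) (XT.lf (nat_lit 0) (nat_lit 4042185119) (nat_lit 228) (nat_lit 22929552355) (nat_lit 76) (nat_lit 2560611485) (nat_lit 152) (nat_lit 5) (nat_lit 155) (nat_lit 5) (nat_lit 153) (nat_lit 5) (nat_lit 445) (nat_lit 352) (nat_lit 223)) (XT.lf (nat_lit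 0) (nat_lit 13178589971) (nat_lit 228) (nat_lit 3562025713) (nat_lit 76) (nat_lit 13353744132) (nat_lit 152) (nat_lit 5) (nat_lit 155) (nat_lit 5) (nat_lit 153) (nat_lit 5) (nat_lit 446) (nat_lit 352) (nat_lit 222))))) (XT.nd (nat_lit 312) (nat_lit 380) (nat_lit 0) (XT.nd (nat_lit 156) (nat_lit 152) (nat_lit 0) (XT.nd (nat_lit 78) (nat_lit 152) (nat_lit 0) (XT.lf (nat_lit 0) (nat_lit 16687850578) (nat_lit 152) (nat_lit 6048490388) (nat_lit 228) (nat_lit 7932472412) (nat_lit 150) (nat_lit 5) (nat_lit 152) (nat_lit 5) (nat_lit 153) (nat_lit 5) (nat_lit 447) (nat_lit 352) (nat_lit 221)) (XT.lf (nat_lit 0) (nat_lit 1428435411) (nat_lit 152) (nat_lit 24859035506) (nat_lit 76) (nat_lit 4968632605) (nat_lit 148) (nat_lit 5) (nat_lit 150) (nat_lit 5) (nat_lit 149) (nat_lit 5) (nat_lit 448) (nat_lit 352) (nat_lit 220))) (XT.nd (nat_lit 78) (nat_lit 152) (nat_lit 0) (XT.lf (nat_lit 0) (nat_lit 11100107142) (nat_lit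 152) (nat_lit 4347947758) (nat_lit 76) (nat_lit 16404920146) (nat_lit 148) (nat_lit 5) (nat_lit 150) (nat_lit 5) (nat_lit 149) (nat_lit 5) (nat_lit 449) (nat_lit 352) (nat_lit 219)) (XT.lf (nat_lit 0) (nat_lit 17088252793) (nat_lit 152) (nat_lit 4125227644) (nat_lit 228) (nat_lit 11249725734) (nat_lit 146) (nat_lit 5) (nat_lit 148) (nat_lit 5) (nat_lit 149) (nat_lit 5) (nat_lit 450) (nat_lit 352) (nat_lit 218)))) (XT.nd (nat_lit 156) (nat_lit 228) (nat_lit 0) (XT.nd (nat_lit 78) (nat_lit 76) (nat_lit 0) (XT.lf (nat_lit 0) (nat_lit 6190437440) (nat_lit 76) (nat_lit 25603446252) (nat_lit 152) (nat_lit 1292951677) (nat_lit 145) (nat_lit 5) (nat_lit 146) (nat_lit 5) (nat_lit 147) (nat_lit 4) (nat_lit 451) (nat_lit 352) (nat_lit 217)) (XT.lf (nat_lit 0) (nat_lit 8972620712) (nat_lit 152) (nat_lit 5158821460) (nat_lit 76) (nat_lit 19589597084) (nat_lit 144) (nat_lit 5) (nat_lit 146) (nat_lit 5) (nat_lit 145)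 (nat_lit 5) (nat_lit 452) (nat_lit 352) (nat_lit 216))) (XT.nd (nat_lit 78) (nat_lit 76) (nat_lit 0) (XT.lf (nat_lit 0) (nat_lit 17537254179) (nat_lit 152) (nat_lit 2139214704) (nat_lit 228) (nat_lit 14692727461) (nat_lit 142) (nat_lit 5) (nat_lit 144) (nat_lit 5) (nat_lit 145) (nat_lit 5) (nat_lit 453) (nat_lit 352) (nat_lit 215)) (XT.lf (nat_lit 0) (nat_lit 5979647247) (nat_lit 76) (nat_lit 24917799240) (nat_lit 152) (nat_lit 4133471239) (nat_lit 141) (nat_lit 5) (nat_lit 142) (nat_lit 5) (nat_lit 143) (nat_lit 4) (nat_lit 454) (nat_lit 352) (nat_lit 214))))))) (XT.nd (nat_lit 1170) (nat_lit 1216) (nat_lit 0) (XT.nd (nat_lit 546) (nat_lit 836) (nat_lit 0) (XT.nd (nat_lit 234) (nat_lit 380) (nat_lit 0) (XT.nd (nat_lit 78) (nat_lit 228) (nat_lit 0) (XT.lf (nat_lit 0) (nat_lit 6791593673) (nat_lit 152) (nat_lit 5997540491) (nat_lit 76) (nat_lit 22915994095) (nat_lit 140) (nat_lit 5) (nat_lit 142) (nat_lit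 5) (nat_lit 141) (nat_lit 5) (nat_lit 455) (nat_lit 352) (nat_lit 213)) (XT.nd (nat_lit 78) (nat_lit 76) (nat_lit 0) (XT.lf (nat_lit 0) (nat_lit 18036409268) (nat_lit 152) (nat_lit 86425668) (nat_lit 228) (nat_lit 18270657317) (nat_lit 138) (nat_lit 5) (nat_lit 140) (nat_lit 5) (nat_lit 141) (nat_lit 5) (nat_lit 456) (nat_lit 352) (nat_lit 212)) (XT.lf (nat_lit 0) (nat_lit 5778396180) (nat_lit 76) (nat_lit 24245422337) (nat_lit 152) (nat_lit 7071794497) (nat_lit 137) (nat_lit 5) (nat_lit 138) (nat_lit 5) (nat_lit 139) (nat_lit 4) (nat_lit 457) (nat_lit 352) (nat_lit 211)))) (XT.nd (nat_lit 156) (nat_lit 152) (nat_lit 0) (XT.nd (nat_lit 78) (nat_lit 152) (nat_lit 0) (XT.lf (nat_lit 0) (nat_lit 4552179120) (nat_lit 152) (nat_lit 6867055910) (nat_lit 76) (nat_lit 26392988281) (nat_lit 136) (nat_lit 5) (nat_lit 138) (nat_lit 5) (nat_lit 137) (nat_lit 5) (nat_lit 458) (nat_lit 352) (nat_lit 210)) (XT.lf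 (nat_lit 0) (nat_lit 16569514086) (nat_lit 228) (nat_lit 19975315652) (nat_lit 76) (nat_lit 1997798300) (nat_lit 134) (nat_lit 5) (nat_lit 137) (nat_lit 5) (nat_lit 135) (nat_lit 4) (nat_lit 459) (nat_lit 352) (nat_lit 209))) (XT.nd (nat_lit 78) (nat_lit 76) (nat_lit 0) (XT.lf (nat_lit 0) (nat_lit 5586027299) (nat_lit 76) (nat_lit 23586676193) (nat_lit 152) (nat_lit 10115481384) (nat_lit 133) (nat_lit 5) (nat_lit 134) (nat_lit 5) (nat_lit 135) (nat_lit 4) (nat_lit 460) (nat_lit 352) (nat_lit 208)) (XT.lf (nat_lit 0) (nat_lit 2249211143) (nat_lit 152) (nat_lit 7770391901) (nat_lit 76) (nat_lit 30030132345) (nat_lit 132) (nat_lit 5) (nat_lit 134) (nat_lit 5) (nat_lit 133) (nat_lit 5) (nat_lit 461) (nat_lit 352) (nat_lit 207))))) (XT.nd (nat_lit 312) (nat_lit 380) (nat_lit 0) (XT.nd (nat_lit 156) (nat_lit 228) (nat_lit 0) (XT.nd (nat_lit 78) (nat_lit 76) (nat_lit 0) (XT.lf (nat_lit 0) (nat_lit 14995649703)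 (nat_lit 228) (nat_lit 21674192555) (nat_lit 76) (nat_lit 4154862069) (nat_lit 130) (nat_lit 5) (nat_lit 133) (nat_lit 5) (nat_lit 131) (nat_lit 4) (nat_lit 462) (nat_lit 352) (nat_lit 206)) (XT.lf (nat_lit 0) (nat_lit 5401945074) (nat_lit 76) (nat_lit 22941827636) (nat_lit 152) (nat_lit 13272570884) (nat_lit 129) (nat_lit 5) (nat_lit 130) (nat_lit 5) (nat_lit 131) (nat_lit 4) (nat_lit 463) (nat_lit 352) (nat_lit 205))) (XT.nd (nat_lit 78) (nat_lit 228) (nat_lit 0) (XT.lf (nat_lit 0) (nat_lit 33713629755) (nat_lit 76) (nat_lit 8586614952) (nat_lit 152) (nat_lit 125250175) (nat_lit 129) (nat_lit 5) (nat_lit 130) (nat_lit 5) (nat_lit 131) (nat_lit 4) (nat_lit 464) (nat_lit 352) (nat_lit 204)) (XT.lf (nat_lit 0) (nat_lit 13397445364) (nat_lit 228) (nat_lit 23458758050) (nat_lit 76) (nat_lit 6391565490) (nat_lit 126) (nat_lit 5) (nat_lit 129) (nat_lit 5) (nat_lit 127) (nat_lit 4) (nat_lit 465) (nat_lit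 352) (nat_lit 203)))) (XT.nd (nat_lit 156) (nat_lit 304) (nat_lit 0) (XT.nd (nat_lit 78) (nat_lit 0) (nat_lit 0) (XT.lf (nat_lit 0) (nat_lit 5225608882) (nat_lit 76) (nat_lit 22311061696) (nat_lit 152) (nat_lit 16551602379) (nat_lit 125) (nat_lit 5) (nat_lit 126) (nat_lit 5) (nat_lit 127) (nat_lit 4) (nat_lit 466) (nat_lit 352) (nat_lit 202)) (XT.lf (nat_lit 0) (nat_lit 35230930612) (nat_lit 76) (nat_lit 7095419834) (nat_lit 152) (nat_lit 2620853350) (nat_lit 125) (nat_lit 5) (nat_lit 126) (nat_lit 5) (nat_lit 127) (nat_lit 4) (nat_lit 467) (nat_lit 352) (nat_lit 201))) (XT.nd (nat_lit 78) (nat_lit 76) (nat_lit 0) (XT.lf (nat_lit 0) (nat_lit 11771751172) (nat_lit 228) (nat_lit 25335163406) (nat_lit 76) (nat_lit 8713422382) (nat_lit 122) (nat_lit 5) (nat_lit 125) (nat_lit 5) (nat_lit 123) (nat_lit 4) (nat_lit 468) (nat_lit 352) (nat_lit 200)) (XT.lf (nat_lit 0) (nat_lit 5056527218) (nat_lit 76) (nat_lit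 21694492241) (nat_lit 152) (nat_lit 19961639324) (nat_lit 121) (nat_lit 5) (nat_lit 122) (nat_lit 5) (nat_lit 123) (nat_lit 4) (nat_lit 469) (nat_lit 352) (nat_lit 199)))))) (XT.nd (nat_lit 624) (nat_lit 532) (nat_lit 0) (XT.nd (nat_lit 312) (nat_lit 380) (nat_lit 0) (XT.nd (nat_lit 156) (nat_lit 76) (nat_lit 0) (XT.nd (nat_lit 78) (nat_lit 228) (nat_lit 0) (XT.lf (nat_lit 0) (nat_lit 36859422736) (nat_lit 76) (nat_lit 5565807054) (nat_lit 152) (nat_lit 5199153550) (nat_lit 121) (nat_lit 5) (nat_lit 122) (nat_lit 5) (nat_lit 123) (nat_lit 4) (nat_lit 470) (nat_lit 352) (nat_lit 198)) (XT.lf (nat_lit 0) (nat_lit 10115227674) (nat_lit 228) (nat_lit 27309861040) (nat_lit 76) (nat_lit 11126357007) (nat_lit 118) (nat_lit 5) (nat_lit 121) (nat_lit 5) (nat_lit 119) (nat_lit 4) (nat_lit 471) (nat_lit 352) (nat_lit 197))) (XT.nd (nat_lit 78) (nat_lit 0) (nat_lit 0) (XT.lf (nat_lit 0) (nat_lit 4894252541) (nat_lit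 76) (nat_lit 21092171386) (nat_lit 152) (nat_lit 23512295300) (nat_lit 117) (nat_lit 5) (nat_lit 118) (nat_lit 5) (nat_lit 119) (nat_lit 4) (nat_lit 472) (nat_lit 352) (nat_lit 196)) (XT.lf (nat_lit 0) (nat_lit 38604975841) (nat_lit 76) (nat_lit 3994609792) (nat_lit 152) (nat_lit 7866850418) (nat_lit 117) (nat_lit 5) (nat_lit 118) (nat_lit 5) (nat_lit 119) (nat_lit 4) (nat_lit 473) (nat_lit 352) (nat_lit 195)))) (XT.nd (nat_lit 156) (nat_lit 152) (nat_lit 0) (XT.nd (nat_lit 78) (nat_lit 76) (nat_lit 0) (XT.lf (nat_lit 0) (nat_lit 8424339414) (nat_lit 152) (nat_lit 29389630152) (nat_lit 76) (nat_lit 13636716412) (nat_lit 115) (nat_lit 5) (nat_lit 117) (nat_lit 5) (nat_lit 116) (nat_lit 4) (nat_lit 474) (nat_lit 352) (nat_lit 194)) (XT.lf (nat_lit 0) (nat_lit 4738376691) (nat_lit 76) (nat_lit 20504097805) (nat_lit 152) (nat_lit 27213762455) (nat_lit 114) (nat_lit 5) (nat_lit 115) (nat_lit 5) (nat_lit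 116) (nat_lit 4) (nat_lit 475) (nat_lit 352) (nat_lit 193))) (XT.nd (nat_lit 78) (nat_lit 152) (nat_lit 0) (XT.lf (nat_lit 0) (nat_lit 40473882918) (nat_lit 76) (nat_lit 2378414520) (nat_lit 152) (nat_lit 10631042701) (nat_lit 114) (nat_lit 5) (nat_lit 115) (nat_lit 5) (nat_lit 116) (nat_lit 4) (nat_lit 476) (nat_lit 352) (nat_lit 192)) (XT.lf (nat_lit 0) (nat_lit 6695347370) (nat_lit 152) (nat_lit 31581603149) (nat_lit 76) (nat_lit 16251285055) (nat_lit 112) (nat_lit 5) (nat_lit 114) (nat_lit 5) (nat_lit 113) (nat_lit 4) (nat_lit 477) (nat_lit 352) (nat_lit 191))))) (XT.nd (nat_lit 312) (nat_lit 228) (nat_lit 0) (XT.nd (nat_lit 156) (nat_lit 228) (nat_lit 0) (XT.nd (nat_lit 78) (nat_lit 0) (nat_lit 0) (XT.lf (nat_lit 0) (nat_lit 4588526803) (nat_lit 76) (nat_lit 19930224083) (nat_lit 152) (nat_lit 31076842395) (nat_lit 111) (nat_lit 5) (nat_lit 112) (nat_lit 5) (nat_lit 113) (nat_lit 4) (nat_lit 478)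 (nat_lit 352) (nat_lit 190)) (XT.lf (nat_lit 0) (nat_lit 42472879686) (nat_lit 76) (nat_lit 713556243) (nat_lit 152) (nat_lit 13499248407) (nat_lit 111) (nat_lit 5) (nat_lit 112) (nat_lit 5) (nat_lit 113) (nat_lit 4) (nat_lit 479) (nat_lit 352) (nat_lit 189))) (XT.nd (nat_lit 78) (nat_lit 76) (nat_lit 0) (XT.lf (nat_lit 0) (nat_lit 4924300289) (nat_lit 152) (nat_lit 33893292962) (nat_lit 76) (nat_lit 18977301692) (nat_lit 109) (nat_lit 5) (nat_lit 111) (nat_lit 5) (nat_lit 110) (nat_lit 4) (nat_lit 480) (nat_lit 352) (nat_lit 188)) (XT.lf (nat_lit 0) (nat_lit 4444361667) (nat_lit 76) (nat_lit 19370463197) (nat_lit 152) (nat_lit 35112979596) (nat_lit 108) (nat_lit 5) (nat_lit 109) (nat_lit 5) (nat_lit 110) (nat_lit 4) (nat_lit 481) (nat_lit 352) (nat_lit 187)))) (XT.nd (nat_lit 156) (nat_lit 76) (nat_lit 0) (XT.nd (nat_lit 78) (nat_lit 152) (nat_lit 0) (XT.lf (nat_lit 0) (nat_lit 43614928062) (nat_lit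 152) (nat_lit 15485188956) (nat_lit 0) (nat_lit 984298358) (nat_lit 108) (nat_lit 5) (nat_lit 110) (nat_lit 4) (nat_lit 108) (nat_lit 4) (nat_lit 482) (nat_lit 352) (nat_lit 186)) (XT.lf (nat_lit 0) (nat_lit 3107024931) (nat_lit 152) (nat_lit 36332621412) (nat_lit 76) (nat_lit 21822478494) (nat_lit 106) (nat_lit 5) (nat_lit 108) (nat_lit 5) (nat_lit 107) (nat_lit 4) (nat_lit 483) (nat_lit 352) (nat_lit 185))) (XT.nd (nat_lit 78) (nat_lit 0) (nat_lit 0) (XT.lf (nat_lit 0) (nat_lit 4305568490) (nat_lit 76) (nat_lit 18824694242) (nat_lit 152) (nat_lit 39334297403) (nat_lit 105) (nat_lit 5) (nat_lit 106) (nat_lit 5) (nat_lit 107) (nat_lit 4) (nat_lit 484) (nat_lit 352) (nat_lit 184)) (XT.lf (nat_lit 0) (nat_lit 44139027338) (nat_lit 152) (nat_lit 16828601022) (nat_lit 0) (nat_lit 2723895244) (nat_lit 105) (nat_lit 5) (nat_lit 107) (nat_lit 4) (nat_lit 105) (nat_lit 4) (nat_lit 485) (nat_lit 352) (nat_lit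 183))))))))
noncomputable def xc130 : XT := (XT.nd (nat_lit 44538) (nat_lit 0) (nat_lit 10412) (XT.nd (nat_lit 43368) (nat_lit 0) (nat_lit 20444) (XT.nd (nat_lit 42744) (nat_lit 0) (nat_lit 25764) (XT.nd (nat_lit 234) (nat_lit 304) (nat_lit 0) (XT.nd (nat_lit 78) (nat_lit 76) (nat_lit 0) (XT.lf (nat_lit 0) (nat_lit 1239115230) (nat_lit 152) (nat_lit 38907948742) (nat_lit 76) (nat_lit 24795022398) (nat_lit 103) (nat_lit 5) (nat_lit 105) (nat_lit 5) (nat_lit 104) (nat_lit 4) (nat_lit 486) (nat_lit 352) (nat_lit 182)) (XT.nd (nat_lit 78) (nat_lit 0) (nat_lit 0) (XT.lf (nat_lit 0) (nat_lit 4171860005) (nat_lit 76) (nat_lit 18292767481) (nat_lit 152) (nat_lit 43753636716) (nat_lit 102) (nat_lit 5) (nat_lit 103) (nat_lit 5) (nat_lit 104) (nat_lit 4) (nat_lit 487) (nat_lit 352) (nat_lit 181)) (XT.lf (nat_lit 0) (nat_lit 44755653605) (nat_lit 152) (nat_lit 18240676599) (nat_lit 0) (nat_lit 4523534707) (nat_lit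 102) (nat_lit 5) (nat_lit 104) (nat_lit 4) (nat_lit 102) (nat_lit 4) (nat_lit 488) (nat_lit 352) (nat_lit 180)))) (XT.nd (nat_lit 156) (nat_lit 76) (nat_lit 0) (XT.nd (nat_lit 78) (nat_lit 152) (nat_lit 0) (XT.lf (nat_lit 0) (nat_lit 27212671188) (nat_lit 76) (nat_lit 40937116946) (nat_lit 76) (nat_lit 697694182) (nat_lit 101) (nat_lit 4) (nat_lit 102) (nat_lit 5) (nat_lit 102) (nat_lit 4) (nat_lit 489) (nat_lit 352) (nat_lit 179)) (XT.lf (nat_lit 0) (nat_lit 4042971898) (nat_lit 76) (nat_lit 17774508789) (nat_lit 152) (nat_lit 48384597458) (nat_lit 99) (nat_lit 5) (nat_lit 100) (nat_lit 5) (nat_lit 101) (nat_lit 4) (nat_lit 490) (nat_lit 352) (nat_lit 178))) (XT.nd (nat_lit 78) (nat_lit 76) (nat_lit 0) (XT.lf (nat_lit 0) (nat_lit 45468842501) (nat_lit 152) (nat_lit 19726146379) (nat_lit 0) (nat_lit 6387873092) (nat_lit 99) (nat_lit 5) (nat_lit 101) (nat_lit 4) (nat_lit 99) (nat_lit 4) (nat_lit 491)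 (nat_lit 352) (nat_lit 177)) (XT.lf (nat_lit 0) (nat_lit 28463252364) (nat_lit 76) (nat_lit 41808015042) (nat_lit 76) (nat_lit 2720556242) (nat_lit 98) (nat_lit 4) (nat_lit 99) (nat_lit 5) (nat_lit 99) (nat_lit 4) (nat_lit 492) (nat_lit 352) (nat_lit 176))))) (XT.nd (nat_lit 312) (nat_lit 836) (nat_lit 0) (XT.nd (nat_lit 156) (nat_lit 760) (nat_lit 0) (XT.nd (nat_lit 78) (nat_lit 0) (nat_lit 0) (XT.lf (nat_lit 0) (nat_lit 1587598059) (nat_lit 836) (nat_lit 995145823) (nat_lit 836) (nat_lit 995145823) (nat_lit 458) (nat_lit 3) (nat_lit 469) (nat_lit 3) (nat_lit 469) (nat_lit 5) (nat_lit 353) (nat_lit 353) (nat_lit 314)) (XT.lf (nat_lit 76) (nat_lit 1619194374) (nat_lit 0) (nat_lit 3300327791) (nat_lit 836) (nat_lit 2292692994) (nat_lit 459) (nat_lit 5) (nat_lit 458) (nat_lit 3) (nat_lit 469) (nat_lit 5) (nat_lit 354) (nat_lit 353) (nat_lit 313))) (XT.nd (nat_lit 78) (nat_lit 760) (nat_lit 0) (XT.lf (nat_lit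 76) (nat_lit 5343302415) (nat_lit 0) (nat_lit 1327032418) (nat_lit 836) (nat_lit 601384440) (nat_lit 459) (nat_lit 5) (nat_lit 458) (nat_lit 3) (nat_lit 469) (nat_lit 5) (nat_lit 355) (nat_lit 353) (nat_lit 312)) (XT.lf (nat_lit 0) (nat_lit 1078753769) (nat_lit 836) (nat_lit 5505194204) (nat_lit 912) (nat_lit 749921131) (nat_lit 448) (nat_lit 5) (nat_lit 459) (nat_lit 5) (nat_lit 460) (nat_lit 5) (nat_lit 356) (nat_lit 353) (nat_lit 311)))) (XT.nd (nat_lit 156) (nat_lit 836) (nat_lit 0) (XT.nd (nat_lit 78) (nat_lit 0) (nat_lit 0) (XT.lf (nat_lit 0) (nat_lit 2767187701) (nat_lit 836) (nat_lit 1715148098) (nat_lit 912) (nat_lit 2916269637) (nat_lit 448) (nat_lit 5) (nat_lit 459) (nat_lit 5) (nat_lit 460) (nat_lit 5) (nat_lit 357) (nat_lit 353) (nat_lit 310)) (XT.lf (nat_lit 76) (nat_lit 2195942476) (nat_lit 0) (nat_lit 2270444645) (nat_lit 912) (nat_lit 3000093364) (nat_lit 449) (nat_lit 5) (nat_lit 448)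 (nat_lit 5) (nat_lit 460) (nat_lit 5) (nat_lit 358) (nat_lit 353) (nat_lit 309))) (XT.nd (nat_lit 78) (nat_lit 912) (nat_lit 0) (XT.lf (nat_lit 0) (nat_lit 6174805519) (nat_lit 836) (nat_lit 1313774872) (nat_lit 912) (nat_lit 49064103) (nat_lit 449) (nat_lit 5) (nat_lit 460) (nat_lit 5) (nat_lit 461) (nat_lit 5) (nat_lit 359) (nat_lit 353) (nat_lit 308)) (XT.lf (nat_lit 0) (nat_lit 308519950) (nat_lit 912) (nat_lit 4857315666) (nat_lit 988) (nat_lit 2445275502) (nat_lit 437) (nat_lit 5) (nat_lit 449) (nat_lit 5) (nat_lit 450) (nat_lit 5) (nat_lit 360) (nat_lit 353) (nat_lit 307)))))) (XT.nd (nat_lit 546) (nat_lit 4484) (nat_lit 0) (XT.nd (nat_lit 234) (nat_lit 836) (nat_lit 0) (XT.nd (nat_lit 78) (nat_lit 0) (nat_lit 0) (XT.lf (nat_lit 0) (nat_lit 1959207460) (nat_lit 912) (nat_lit 766559335) (nat_lit 988) (nat_lit 4961912756) (nat_lit 437) (nat_lit 5) (nat_lit 449) (nat_lit 5) (nat_lit 450) (nat_lit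 5) (nat_lit 361) (nat_lit 353) (nat_lit 306)) (XT.nd (nat_lit 78) (nat_lit 0) (nat_lit 76) (XT.lf (nat_lit 76) (nat_lit 3479006895) (nat_lit 0) (nat_lit 158687572) (nat_lit 988) (nat_lit 4129502204) (nat_lit 438) (nat_lit 5) (nat_lit 437) (nat_lit 5) (nat_lit 450) (nat_lit 5) (nat_lit 362) (nat_lit 353) (nat_lit 305)) (XT.lf (nat_lit 0) (nat_lit 5344524497) (nat_lit 912) (nat_lit 42425135) (nat_lit 988) (nat_lit 2462810021) (nat_lit 438) (nat_lit 5) (nat_lit 450) (nat_lit 5) (nat_lit 451) (nat_lit 5) (nat_lit 363) (nat_lit 353) (nat_lit 304)))) (XT.nd (nat_lit 156) (nat_lit 0) (nat_lit 0) (XT.nd (nat_lit 78) (nat_lit 912) (nat_lit 0) (XT.lf (nat_lit 76) (nat_lit 4378420803) (nat_lit 0) (nat_lit 2715642312) (nat_lit 988) (nat_lit 840991297) (nat_lit 439) (nat_lit 5) (nat_lit 438) (nat_lit 5) (nat_lit 451) (nat_lit 5) (nat_lit 364) (nat_lit 353) (nat_lit 303)) (XT.lf (nat_lit 0) (nat_lit 814221498) (nat_lit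 988) (nat_lit 7142742383) (nat_lit 1064) (nat_lit 66949913) (nat_lit 426) (nat_lit 5) (nat_lit 439) (nat_lit 5) (nat_lit 440) (nat_lit 5) (nat_lit 365) (nat_lit 353) (nat_lit 302))) (XT.nd (nat_lit 78) (nat_lit 0) (nat_lit 0) (XT.lf (nat_lit 0) (nat_lit 2515142703) (nat_lit 988) (nat_lit 2663024930) (nat_lit 1064) (nat_lit 2936632871) (nat_lit 426) (nat_lit 5) (nat_lit 439) (nat_lit 5) (nat_lit 440) (nat_lit 5) (nat_lit 366) (nat_lit 353) (nat_lit 301)) (XT.lf (nat_lit 76) (nat_lit 1952176367) (nat_lit 0) (nat_lit 2284939865) (nat_lit 1064) (nat_lit 3972196843) (nat_lit 427) (nat_lit 5) (nat_lit 426) (nat_lit 5) (nat_lit 440) (nat_lit 5) (nat_lit 367) (nat_lit 353) (nat_lit 300))))) (XT.nd (nat_lit 312) (nat_lit 2432) (nat_lit 0) (XT.nd (nat_lit 156) (nat_lit 1140) (nat_lit 0) (XT.nd (nat_lit 78) (nat_lit 988) (nat_lit 0) (XT.lf (nat_lit 0) (nat_lit 5997020812) (nat_lit 988) (nat_lit 1590554191) (nat_lit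 76) (nat_lit 719497863) (nat_lit 427) (nat_lit 5) (nat_lit 440) (nat_lit 5) (nat_lit 428) (nat_lit 5) (nat_lit 368) (nat_lit 353) (nat_lit 299)) (XT.lf (nat_lit 0) (nat_lit 3219156692) (nat_lit 988) (nat_lit 4597951650) (nat_lit 1064) (nat_lit 590435538) (nat_lit 414) (nat_lit 5) (nat_lit 427) (nat_lit 5) (nat_lit 428) (nat_lit 5) (nat_lit 369) (nat_lit 353) (nat_lit 298))) (XT.nd (nat_lit 78) (nat_lit 1064) (nat_lit 0) (XT.lf (nat_lit 0) (nat_lit 1128311952) (nat_lit 1064) (nat_lit 353900959) (nat_lit 76) (nat_lit 7029358095) (nat_lit 413) (nat_lit 5) (nat_lit 427) (nat_lit 5) (nat_lit 414) (nat_lit 5) (nat_lit 370) (nat_lit 353) (nat_lit 297)) (XT.lf (nat_lit 0) (nat_lit 2904559564) (nat_lit 1140) (nat_lit 3961226402) (nat_lit 76) (nat_lit 1752223459) (nat_lit 399) (nat_lit 5) (nat_lit 414) (nat_lit 5) (nat_lit 400) (nat_lit 5) (nat_lit 371) (nat_lit 353) (nat_lit 296)))) (XT.nd (nat_lit 156) (nat_lit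 1292) (nat_lit 0) (XT.nd (nat_lit 78) (nat_lit 0) (nat_lit 0) (XT.lf (nat_lit 0) (nat_lit 1066075498) (nat_lit 1140) (nat_lit 3653255892) (nat_lit 1216) (nat_lit 4008752502) (nat_lit 384) (nat_lit 5) (nat_lit 399) (nat_lit 5) (nat_lit 400) (nat_lit 5) (nat_lit 372) (nat_lit 353) (nat_lit 295)) (XT.lf (nat_lit 0) (nat_lit 6288240528) (nat_lit 1140) (nat_lit 297914871) (nat_lit 1216) (nat_lit 2255376924) (nat_lit 384) (nat_lit 5) (nat_lit 399) (nat_lit 5) (nat_lit 400) (nat_lit 5) (nat_lit 373) (nat_lit 353) (nat_lit 294))) (XT.nd (nat_lit 78) (nat_lit 76) (nat_lit 0) (XT.lf (nat_lit 0) (nat_lit 2693530835) (nat_lit 1216) (nat_lit 5830594580) (nat_lit 1292) (nat_lit 433804552) (nat_lit 368) (nat_lit 5) (nat_lit 384) (nat_lit 5) (nat_lit 385) (nat_lit 5) (nat_lit 374) (nat_lit 353) (nat_lit 293)) (XT.lf (nat_lit 0) (nat_lit 1402591469) (nat_lit 1292) (nat_lit 981819776) (nat_lit 76) (nat_lit 6693342640)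 (nat_lit 367) (nat_lit 5) (nat_lit 384) (nat_lit 5) (nat_lit 368) (nat_lit 5) (nat_lit 375) (nat_lit 353) (nat_lit 292))))))) (XT.nd (nat_lit 1170) (nat_lit 4104) (nat_lit 0) (XT.nd (nat_lit 546) (nat_lit 2660) (nat_lit 0) (XT.nd (nat_lit 234) (nat_lit 1824) (nat_lit 0) (XT.nd (nat_lit 78) (nat_lit 608) (nat_lit 0) (XT.lf (nat_lit 0) (nat_lit 3300894184) (nat_lit 912) (nat_lit 4706453931) (nat_lit 76) (nat_lit 1193229537) (nat_lit 356) (nat_lit 5) (nat_lit 368) (nat_lit 5) (nat_lit 357) (nat_lit 5) (nat_lit 376) (nat_lit 353) (nat_lit 291)) (XT.nd (nat_lit 78) (nat_lit 0) (nat_lit 0) (XT.lf (nat_lit 0) (nat_lit 781707290) (nat_lit 608) (nat_lit 4476916100) (nat_lit 684) (nat_lit 4068388419) (nat_lit 348) (nat_lit 5) (nat_lit 356) (nat_lit 5) (nat_lit 357) (nat_lit 5) (nat_lit 377) (nat_lit 353) (nat_lit 290)) (XT.lf (nat_lit 0) (nat_lit 6493835309) (nat_lit 608) (nat_lit 790886413) (nat_lit 684) (nat_lit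 2172228151) (nat_lit 348) (nat_lit 5) (nat_lit 356) (nat_lit 5) (nat_lit 357) (nat_lit 5) (nat_lit 378) (nat_lit 353) (nat_lit 289)))) (XT.nd (nat_lit 156) (nat_lit 1140) (nat_lit 0) (XT.nd (nat_lit 78) (nat_lit 76) (nat_lit 0) (XT.lf (nat_lit 0) (nat_lit 2774606883) (nat_lit 608) (nat_lit 6615781888) (nat_lit 684) (nat_lit 199833735) (nat_lit 340) (nat_lit 5) (nat_lit 348) (nat_lit 5) (nat_lit 349) (nat_lit 5) (nat_lit 379) (nat_lit 353) (nat_lit 288)) (XT.lf (nat_lit 0) (nat_lit 1797619205) (nat_lit 684) (nat_lit 1044673460) (nat_lit 76) (nat_lit 6884623510) (nat_lit 339) (nat_lit 5) (nat_lit 348) (nat_lit 5) (nat_lit 340) (nat_lit 5) (nat_lit 380) (nat_lit 353) (nat_lit 287))) (XT.nd (nat_lit 78) (nat_lit 608) (nat_lit 0) (XT.lf (nat_lit 0) (nat_lit 3873798823) (nat_lit 608) (nat_lit 4920092108) (nat_lit 76) (nat_lit 1073075779) (nat_lit 332) (nat_lit 5) (nat_lit 340) (nat_lit 5) (nat_lit 333) (nat_lit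 5) (nat_lit 381) (nat_lit 353) (nat_lit 286)) (XT.lf (nat_lit 0) (nat_lit 1084477831) (nat_lit 608) (nat_lit 4942317663) (nat_lit 684) (nat_lit 3983987318) (nat_lit 324) (nat_lit 5) (nat_lit 332) (nat_lit 5) (nat_lit 333) (nat_lit 5) (nat_lit 382) (nat_lit 353) (nat_lit 285))))) (XT.nd (nat_lit 312) (nat_lit 1520) (nat_lit 0) (XT.nd (nat_lit 156) (nat_lit 532) (nat_lit 0) (XT.nd (nat_lit 78) (nat_lit 608) (nat_lit 0) (XT.lf (nat_lit 0) (nat_lit 7333285974) (nat_lit 608) (nat_lit 926748275) (nat_lit 684) (nat_lit 1898409581) (nat_lit 324) (nat_lit 5) (nat_lit 332) (nat_lit 5) (nat_lit 333) (nat_lit 5) (nat_lit 383) (nat_lit 353) (nat_lit 284)) (XT.lf (nat_lit 0) (nat_lit 276204054) (nat_lit 608) (nat_lit 6853290697) (nat_lit 76) (nat_lit 3180027656) (nat_lit 316) (nat_lit 5) (nat_lit 324) (nat_lit 5) (nat_lit 317) (nat_lit 5) (nat_lit 384) (nat_lit 353) (nat_lit 283))) (XT.nd (nat_lit 78) (nat_lit 532)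 (nat_lit 0) (XT.lf (nat_lit 0) (nat_lit 2483114266) (nat_lit 608) (nat_lit 545499948) (nat_lit 76) (nat_lit 7435798814) (nat_lit 316) (nat_lit 5) (nat_lit 324) (nat_lit 5) (nat_lit 317) (nat_lit 5) (nat_lit 385) (nat_lit 353) (nat_lit 282)) (XT.lf (nat_lit 0) (nat_lit 4794435708) (nat_lit 608) (nat_lit 4601800531) (nat_lit 76) (nat_lit 1226568011) (nat_lit 309) (nat_lit 5) (nat_lit 317) (nat_lit 5) (nat_lit 310) (nat_lit 5) (nat_lit 386) (nat_lit 353) (nat_lit 281)))) (XT.nd (nat_lit 156) (nat_lit 1064) (nat_lit 0) (XT.nd (nat_lit 78) (nat_lit 0) (nat_lit 0) (XT.lf (nat_lit 0) (nat_lit 1982128215) (nat_lit 456) (nat_lit 5216297570) (nat_lit 532) (nat_lit 3586821553) (nat_lit 303) (nat_lit 5) (nat_lit 309) (nat_lit 5) (nat_lit 310) (nat_lit 5) (nat_lit 387) (nat_lit 353) (nat_lit 280)) (XT.lf (nat_lit 0) (nat_lit 8821852023) (nat_lit 456) (nat_lit 868443272) (nat_lit 532) (nat_lit 1261795634) (nat_lit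 303) (nat_lit 5) (nat_lit 309) (nat_lit 5) (nat_lit 310) (nat_lit 5) (nat_lit 388) (nat_lit 353) (nat_lit 279))) (XT.nd (nat_lit 78) (nat_lit 456) (nat_lit 0) (XT.lf (nat_lit 0) (nat_lit 1162015752) (nat_lit 608) (nat_lit 6368547335) (nat_lit 76) (nat_lit 3591515714) (nat_lit 295) (nat_lit 5) (nat_lit 303) (nat_lit 5) (nat_lit 296) (nat_lit 5) (nat_lit 389) (nat_lit 353) (nat_lit 278)) (XT.lf (nat_lit 0) (nat_lit 544188638) (nat_lit 456) (nat_lit 3094919029) (nat_lit 532) (nat_lit 7657506041) (nat_lit 289) (nat_lit 5) (nat_lit 295) (nat_lit 5) (nat_lit 296) (nat_lit 5) (nat_lit 390) (nat_lit 353) (nat_lit 277)))))) (XT.nd (nat_lit 624) (nat_lit 1900) (nat_lit 0) (XT.nd (nat_lit 312) (nat_lit 1292) (nat_lit 0) (XT.nd (nat_lit 156) (nat_lit 456) (nat_lit 0) (XT.nd (nat_lit 78) (nat_lit 456) (nat_lit 0) (XT.lf (nat_lit 0) (nat_lit 6240454931) (nat_lit 532) (nat_lit 3730946936) (nat_lit 76) (nat_lit 1503484519)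 (nat_lit 289) (nat_lit 5) (nat_lit 296) (nat_lit 5) (nat_lit 290) (nat_lit 5) (nat_lit 391) (nat_lit 353) (nat_lit 276)) (XT.lf (nat_lit 0) (nat_lit 3503417967) (nat_lit 456) (nat_lit 5452423051) (nat_lit 532) (nat_lit 2701586273) (nat_lit 283) (nat_lit 5) (nat_lit 289) (nat_lit 5) (nat_lit 290) (nat_lit 5) (nat_lit 392) (nat_lit 353) (nat_lit 275))) (XT.nd (nat_lit 78) (nat_lit 456) (nat_lit 0) (XT.lf (nat_lit 0) (nat_lit 10996163290) (nat_lit 456) (nat_lit 766366483) (nat_lit 532) (nat_lit 82619417) (nat_lit 283) (nat_lit 5) (nat_lit 289) (nat_lit 5) (nat_lit 290) (nat_lit 5) (nat_lit 393) (nat_lit 353) (nat_lit 274)) (XT.lf (nat_lit 0) (nat_lit 2641305944) (nat_lit 456) (nat_lit 5329411462) (nat_lit 76) (nat_lit 4064708778) (nat_lit 277) (nat_lit 5) (nat_lit 283) (nat_lit 5) (nat_lit 278) (nat_lit 5) (nat_lit 394) (nat_lit 353) (nat_lit 273)))) (XT.nd (nat_lit 156) (nat_lit 836) (nat_lit 0) (XT.nd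 (nat_lit 78) (nat_lit 0) (nat_lit 0) (XT.lf (nat_lit 0) (nat_lit 2274768398) (nat_lit 456) (nat_lit 3181734414) (nat_lit 532) (nat_lit 6774547704) (nat_lit 271) (nat_lit 5) (nat_lit 277) (nat_lit 5) (nat_lit 278) (nat_lit 5) (nat_lit 395) (nat_lit 353) (nat_lit 272)) (XT.lf (nat_lit 0) (nat_lit 8400808555) (nat_lit 532) (nat_lit 2267386282) (nat_lit 76) (nat_lit 1763009154) (nat_lit 271) (nat_lit 5) (nat_lit 278) (nat_lit 5) (nat_lit 272) (nat_lit 5) (nat_lit 396) (nat_lit 353) (nat_lit 271))) (XT.nd (nat_lit 78) (nat_lit 456) (nat_lit 0) (XT.lf (nat_lit 0) (nat_lit 5697468917) (nat_lit 380) (nat_lit 5796489700) (nat_lit 456) (nat_lit 1141587999) (nat_lit 266) (nat_lit 5) (nat_lit 271) (nat_lit 5) (nat_lit 272) (nat_lit 5) (nat_lit 397) (nat_lit 353) (nat_lit 270)) (XT.lf (nat_lit 0) (nat_lit 1070903017) (nat_lit 380) (nat_lit 735029317) (nat_lit 456) (nat_lit 11039323301) (nat_lit 260) (nat_lit 5)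 (nat_lit 265) (nat_lit 5) (nat_lit 266) (nat_lit 5) (nat_lit 398) (nat_lit 353) (nat_lit 269))))) (XT.nd (nat_lit 312) (nat_lit 1064) (nat_lit 0) (XT.nd (nat_lit 156) (nat_lit 456) (nat_lit 0) (XT.nd (nat_lit 78) (nat_lit 380) (nat_lit 0) (XT.lf (nat_lit 0) (nat_lit 4907482605) (nat_lit 456) (nat_lit 3686706198) (nat_lit 76) (nat_lit 4464071564) (nat_lit 260) (nat_lit 5) (nat_lit 266) (nat_lit 5) (nat_lit 261) (nat_lit 5) (nat_lit 399) (nat_lit 353) (nat_lit 268)) (XT.lf (nat_lit 0) (nat_lit 4694020800) (nat_lit 380) (nat_lit 3435939981) (nat_lit 456) (nat_lit 5146858017) (nat_lit 255) (nat_lit 5) (nat_lit 260) (nat_lit 5) (nat_lit 261) (nat_lit 5) (nat_lit 400) (nat_lit 353) (nat_lit 267))) (XT.nd (nat_lit 78) (nat_lit 456) (nat_lit 0) (XT.lf (nat_lit 0) (nat_lit 11480537184) (nat_lit 456) (nat_lit 151655501) (nat_lit 76) (nat_lit 1868798581) (nat_lit 255) (nat_lit 5) (nat_lit 261) (nat_lit 5) (nat_lit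 256) (nat_lit 5) (nat_lit 401) (nat_lit 353) (nat_lit 266)) (XT.lf (nat_lit 0) (nat_lit 1270756765) (nat_lit 456) (nat_lit 5107840205) (nat_lit 76) (nat_lit 7350113176) (nat_lit 249) (nat_lit 5) (nat_lit 255) (nat_lit 5) (nat_lit 250) (nat_lit 5) (nat_lit 402) (nat_lit 353) (nat_lit 265)))) (XT.nd (nat_lit 156) (nat_lit 760) (nat_lit 0) (XT.nd (nat_lit 78) (nat_lit 0) (nat_lit 0) (XT.lf (nat_lit 0) (nat_lit 3715636592) (nat_lit 304) (nat_lit 918350376) (nat_lit 380) (nat_lit 9328256725) (nat_lit 245) (nat_lit 5) (nat_lit 249) (nat_lit 5) (nat_lit 250) (nat_lit 5) (nat_lit 403) (nat_lit 353) (nat_lit 264)) (XT.lf (nat_lit 0) (nat_lit 8172334319) (nat_lit 380) (nat_lit 1372039424) (nat_lit 76) (nat_lit 4656182895) (nat_lit 245) (nat_lit 5) (nat_lit 250) (nat_lit 5) (nat_lit 246) (nat_lit 5) (nat_lit 404) (nat_lit 353) (nat_lit 263))) (XT.nd (nat_lit 78) (nat_lit 380) (nat_lit 0) (XT.lf (nat_lit 0) (nat_lit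 7880852468) (nat_lit 380) (nat_lit 3998396984) (nat_lit 456) (nat_lit 2564897000) (nat_lit 240) (nat_lit 5) (nat_lit 245) (nat_lit 5) (nat_lit 246) (nat_lit 5) (nat_lit 405) (nat_lit 353) (nat_lit 262)) (XT.lf (nat_lit 0) (nat_lit 1017819729) (nat_lit 380) (nat_lit 11954971855) (nat_lit 76) (nat_lit 1720911805) (nat_lit 235) (nat_lit 5) (nat_lit 240) (nat_lit 5) (nat_lit 236) (nat_lit 5) (nat_lit 406) (nat_lit 353) (nat_lit 261))))))))
noncomputable def xc131 : XT := (XT.nd (nat_lit 2340) (nat_lit 3344) (nat_lit 0) (XT.nd (nat_lit 1170) (nat_lit 2356) (nat_lit 0) (XT.nd (nat_lit 546) (nat_lit 1444) (nat_lit 0) (XT.nd (nat_lit 234) (nat_lit 608) (nat_lit 0) (XT.nd (nat_lit 78) (nat_lit 608) (nat_lit 0) (XT.lf (nat_lit 0) (nat_lit 4740918102) (nat_lit 380) (nat_lit 2593005327) (nat_lit 76) (nat_lit 7613528195) (nat_lit 235) (nat_lit 5) (nat_lit 240) (nat_lit 5) (nat_lit 236) (nat_lit 5) (nat_lit 407)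 (nat_lit 353) (nat_lit 260)) (XT.nd (nat_lit 78) (nat_lit 304) (nat_lit 0) (XT.lf (nat_lit 0) (nat_lit 7157482454) (nat_lit 304) (nat_lit 1465603186) (nat_lit 380) (nat_lit 6584305378) (nat_lit 231) (nat_lit 5) (nat_lit 235) (nat_lit 5) (nat_lit 236) (nat_lit 5) (nat_lit 408) (nat_lit 353) (nat_lit 259)) (XT.lf (nat_lit 0) (nat_lit 1736688093) (nat_lit 304) (nat_lit 10950973416) (nat_lit 380) (nat_lit 2785488787) (nat_lit 227) (nat_lit 5) (nat_lit 231) (nat_lit 5) (nat_lit 232) (nat_lit 5) (nat_lit 409) (nat_lit 353) (nat_lit 258)))) (XT.nd (nat_lit 156) (nat_lit 228) (nat_lit 0) (XT.nd (nat_lit 78) (nat_lit 304) (nat_lit 0) (XT.lf (nat_lit 0) (nat_lit 1180794681) (nat_lit 380) (nat_lit 3821025552) (nat_lit 76) (nat_lit 10742472035) (nat_lit 226) (nat_lit 5) (nat_lit 231) (nat_lit 5) (nat_lit 227) (nat_lit 5) (nat_lit 410) (nat_lit 353) (nat_lit 257)) (XT.lf (nat_lit 0) (nat_lit 5263283970) (nat_lit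 380) (nat_lit 9574151944) (nat_lit 76) (nat_lit 1183709126) (nat_lit 222) (nat_lit 5) (nat_lit 227) (nat_lit 5) (nat_lit 223) (nat_lit 5) (nat_lit 411) (nat_lit 353) (nat_lit 256))) (XT.nd (nat_lit 78) (nat_lit 0) (nat_lit 0) (XT.lf (nat_lit 0) (nat_lit 728974092) (nat_lit 228) (nat_lit 8814474987) (nat_lit 304) (nat_lit 6760598282) (nat_lit 219) (nat_lit 5) (nat_lit 222) (nat_lit 5) (nat_lit 223) (nat_lit 5) (nat_lit 412) (nat_lit 353) (nat_lit 255)) (XT.lf (nat_lit 0) (nat_lit 11506184691) (nat_lit 228) (nat_lit 2522509104) (nat_lit 304) (nat_lit 2564442716) (nat_lit 219) (nat_lit 5) (nat_lit 222) (nat_lit 5) (nat_lit 223) (nat_lit 5) (nat_lit 413) (nat_lit 353) (nat_lit 254))))) (XT.nd (nat_lit 312) (nat_lit 532) (nat_lit 0) (XT.nd (nat_lit 156) (nat_lit 532) (nat_lit 0) (XT.nd (nat_lit 78) (nat_lit 0) (nat_lit 0) (XT.lf (nat_lit 0) (nat_lit 1797914849) (nat_lit 380) (nat_lit 11146995782) (nat_lit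 76) (nat_lit 3943242420) (nat_lit 214) (nat_lit 5) (nat_lit 219) (nat_lit 5) (nat_lit 215) (nat_lit 5) (nat_lit 414) (nat_lit 353) (nat_lit 253)) (XT.lf (nat_lit 0) (nat_lit 6297009244) (nat_lit 380) (nat_lit 273887708) (nat_lit 76) (nat_lit 10618639154) (nat_lit 214) (nat_lit 5) (nat_lit 219) (nat_lit 5) (nat_lit 215) (nat_lit 5) (nat_lit 415) (nat_lit 353) (nat_lit 252))) (XT.nd (nat_lit 78) (nat_lit 304) (nat_lit 0) (XT.lf (nat_lit 0) (nat_lit 11019913091) (nat_lit 304) (nat_lit 6385985938) (nat_lit 76) (nat_lit 91396525) (nat_lit 211) (nat_lit 5) (nat_lit 215) (nat_lit 5) (nat_lit 212) (nat_lit 5) (nat_lit 416) (nat_lit 353) (nat_lit 251)) (XT.lf (nat_lit 0) (nat_lit 5032409152) (nat_lit 304) (nat_lit 10949601230) (nat_lit 380) (nat_lit 1829352213) (nat_lit 207) (nat_lit 5) (nat_lit 211) (nat_lit 5) (nat_lit 212) (nat_lit 5) (nat_lit 417) (nat_lit 353) (nat_lit 250)))) (XT.nd (nat_lit 156) (nat_lit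 228) (nat_lit 0) (XT.nd (nat_lit 78) (nat_lit 228) (nat_lit 0) (XT.lf (nat_lit 0) (nat_lit 2946875236) (nat_lit 380) (nat_lit 1267981432) (nat_lit 76) (nat_lit 13917747527) (nat_lit 206) (nat_lit 5) (nat_lit 211) (nat_lit 5) (nat_lit 207) (nat_lit 5) (nat_lit 418) (nat_lit 353) (nat_lit 249)) (XT.lf (nat_lit 0) (nat_lit 7942120381) (nat_lit 304) (nat_lit 7737022897) (nat_lit 76) (nat_lit 2780421422) (nat_lit 203) (nat_lit 5) (nat_lit 207) (nat_lit 5) (nat_lit 204) (nat_lit 5) (nat_lit 419) (nat_lit 353) (nat_lit 248))) (XT.nd (nat_lit 78) (nat_lit 0) (nat_lit 0) (XT.lf (nat_lit 0) (nat_lit 4315667681) (nat_lit 228) (nat_lit 8849740375) (nat_lit 304) (nat_lit 5628580408) (nat_lit 200) (nat_lit 5) (nat_lit 203) (nat_lit 5) (nat_lit 204) (nat_lit 5) (nat_lit 420) (nat_lit 353) (nat_lit 247)) (XT.lf (nat_lit 0) (nat_lit 16859317966) (nat_lit 228) (nat_lit 1746485600) (nat_lit 304) (nat_lit 530829101) (nat_lit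 200) (nat_lit 5) (nat_lit 203) (nat_lit 5) (nat_lit 204) (nat_lit 5) (nat_lit 421) (nat_lit 353) (nat_lit 246)))))) (XT.nd (nat_lit 546) (nat_lit 1140) (nat_lit 0) (XT.nd (nat_lit 234) (nat_lit 684) (nat_lit 0) (XT.nd (nat_lit 78) (nat_lit 228) (nat_lit 0) (XT.lf (nat_lit 0) (nat_lit 4765405627) (nat_lit 304) (nat_lit 9121638904) (nat_lit 76) (nat_lit 5597020992) (nat_lit 196) (nat_lit 5) (nat_lit 200) (nat_lit 5) (nat_lit 197) (nat_lit 5) (nat_lit 422) (nat_lit 353) (nat_lit 245)) (XT.nd (nat_lit 78) (nat_lit 0) (nat_lit 0) (XT.lf (nat_lit 0) (nat_lit 3605552222) (nat_lit 228) (nat_lit 6662231184) (nat_lit 304) (nat_lit 9572242532) (nat_lit 193) (nat_lit 5) (nat_lit 196) (nat_lit 5) (nat_lit 197) (nat_lit 5) (nat_lit 423) (nat_lit 353) (nat_lit 244)) (XT.lf (nat_lit 0) (nat_lit 16018613876) (nat_lit 304) (nat_lit 3339719614) (nat_lit 76) (nat_lit 845830235) (nat_lit 193) (nat_lit 5) (nat_lit 197) (nat_lit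 5) (nat_lit 194) (nat_lit 5) (nat_lit 424) (nat_lit 353) (nat_lit 243)))) (XT.nd (nat_lit 156) (nat_lit 152) (nat_lit 0) (XT.nd (nat_lit 78) (nat_lit 228) (nat_lit 0) (XT.lf (nat_lit 0) (nat_lit 1483471983) (nat_lit 304) (nat_lit 10545602971) (nat_lit 76) (nat_lit 8545338095) (nat_lit 189) (nat_lit 5) (nat_lit 193) (nat_lit 5) (nat_lit 190) (nat_lit 5) (nat_lit 425) (nat_lit 353) (nat_lit 242)) (XT.lf (nat_lit 0) (nat_lit 2898718937) (nat_lit 228) (nat_lit 4385063586) (nat_lit 304) (nat_lit 13669383791) (nat_lit 186) (nat_lit 5) (nat_lit 189) (nat_lit 5) (nat_lit 190) (nat_lit 5) (nat_lit 426) (nat_lit 353) (nat_lit 241))) (XT.nd (nat_lit 78) (nat_lit 152) (nat_lit 0) (XT.lf (nat_lit 0) (nat_lit 13382702642) (nat_lit 304) (nat_lit 4440401171) (nat_lit 76) (nat_lit 3516440357) (nat_lit 186) (nat_lit 5) (nat_lit 190) (nat_lit 5) (nat_lit 187) (nat_lit 5) (nat_lit 427) (nat_lit 353) (nat_lit 240)) (XT.lf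 (nat_lit 0) (nat_lit 9700491980) (nat_lit 152) (nat_lit 10084766410) (nat_lit 228) (nat_lit 1948634931) (nat_lit 184) (nat_lit 5) (nat_lit 186) (nat_lit 5) (nat_lit 187) (nat_lit 5) (nat_lit 428) (nat_lit 353) (nat_lit 239))))) (XT.nd (nat_lit 312) (nat_lit 380) (nat_lit 0) (XT.nd (nat_lit 156) (nat_lit 456) (nat_lit 0) (XT.nd (nat_lit 78) (nat_lit 0) (nat_lit 0) (XT.lf (nat_lit 0) (nat_lit 2191984082) (nat_lit 228) (nat_lit 2015506416) (nat_lit 304) (nat_lit 17929847575) (nat_lit 180) (nat_lit 5) (nat_lit 183) (nat_lit 5) (nat_lit 184) (nat_lit 5) (nat_lit 429) (nat_lit 353) (nat_lit 238)) (XT.lf (nat_lit 0) (nat_lit 10676515426) (nat_lit 304) (nat_lit 5567042796) (nat_lit 76) (nat_lit 6303727700) (nat_lit 180) (nat_lit 5) (nat_lit 184) (nat_lit 5) (nat_lit 181) (nat_lit 5) (nat_lit 430) (nat_lit 353) (nat_lit 237))) (XT.nd (nat_lit 78) (nat_lit 304) (nat_lit 0) (XT.lf (nat_lit 0) (nat_lit 9378891641)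 (nat_lit 152) (nat_lit 8055437527) (nat_lit 228) (nat_lit 5532361499) (nat_lit 178) (nat_lit 5) (nat_lit 180) (nat_lit 5) (nat_lit 181) (nat_lit 5) (nat_lit 431) (nat_lit 353) (nat_lit 236)) (XT.lf (nat_lit 0) (nat_lit 1036756019) (nat_lit 304) (nat_lit 21918749719) (nat_lit 76) (nat_lit 441084661) (nat_lit 174) (nat_lit 5) (nat_lit 178) (nat_lit 5) (nat_lit 175) (nat_lit 5) (nat_lit 432) (nat_lit 353) (nat_lit 235)))) (XT.nd (nat_lit 156) (nat_lit 228) (nat_lit 0) (XT.nd (nat_lit 78) (nat_lit 152) (nat_lit 0) (XT.lf (nat_lit 0) (nat_lit 7894809385) (nat_lit 304) (nat_lit 6724087350) (nat_lit 76) (nat_lit 9212755394) (nat_lit 174) (nat_lit 5) (nat_lit 178) (nat_lit 5) (nat_lit 175) (nat_lit 5) (nat_lit 433) (nat_lit 353) (nat_lit 234)) (XT.lf (nat_lit 0) (nat_lit 9077420400) (nat_lit 152) (nat_lit 5953618234) (nat_lit 228) (nat_lit 9246554048) (nat_lit 172) (nat_lit 5) (nat_lit 174) (nat_lit 5) (nat_lit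 175) (nat_lit 5) (nat_lit 434) (nat_lit 353) (nat_lit 233))) (XT.nd (nat_lit 78) (nat_lit 76) (nat_lit 0) (XT.lf (nat_lit 0) (nat_lit 714437327) (nat_lit 152) (nat_lit 21756174095) (nat_lit 228) (nat_lit 2263622331) (nat_lit 170) (nat_lit 5) (nat_lit 172) (nat_lit 5) (nat_lit 173) (nat_lit 5) (nat_lit 435) (nat_lit 353) (nat_lit 232)) (XT.lf (nat_lit 0) (nat_lit 5031864699) (nat_lit 228) (nat_lit 7915979164) (nat_lit 76) (nat_lit 12249331454) (nat_lit 169) (nat_lit 5) (nat_lit 172) (nat_lit 5) (nat_lit 170) (nat_lit 5) (nat_lit 436) (nat_lit 353) (nat_lit 231))))))) (XT.nd (nat_lit 1170) (nat_lit 1596) (nat_lit 0) (XT.nd (nat_lit 546) (nat_lit 836) (nat_lit 0) (XT.nd (nat_lit 234) (nat_lit 532) (nat_lit 0) (XT.nd (nat_lit 78) (nat_lit 228) (nat_lit 0) (XT.lf (nat_lit 0) (nat_lit 8794681997) (nat_lit 152) (nat_lit 3776293734) (nat_lit 228) (nat_lit 13100249357) (nat_lit 167) (nat_lit 5) (nat_lit 169)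 (nat_lit 5) (nat_lit 170) (nat_lit 5) (nat_lit 437) (nat_lit 353) (nat_lit 230)) (XT.nd (nat_lit 78) (nat_lit 228) (nat_lit 0) (XT.lf (nat_lit 0) (nat_lit 20457277605) (nat_lit 228) (nat_lit 69005457) (nat_lit 76) (nat_lit 5629582764) (nat_lit 167) (nat_lit 5) (nat_lit 170) (nat_lit 5) (nat_lit 168) (nat_lit 5) (nat_lit 438) (nat_lit 353) (nat_lit 229)) (XT.lf (nat_lit 0) (nat_lit 2081480824) (nat_lit 228) (nat_lit 9147192688) (nat_lit 76) (nat_lit 15419999386) (nat_lit 164) (nat_lit 5) (nat_lit 167) (nat_lit 5) (nat_lit 165) (nat_lit 5) (nat_lit 439) (nat_lit 353) (nat_lit 228)))) (XT.nd (nat_lit 156) (nat_lit 380) (nat_lit 0) (XT.nd (nat_lit 78) (nat_lit 0) (nat_lit 0) (XT.lf (nat_lit 0) (nat_lit 8529434921) (nat_lit 152) (nat_lit 1519902795) (nat_lit 228) (nat_lit 17103166162) (nat_lit 162) (nat_lit 5) (nat_lit 164) (nat_lit 5) (nat_lit 165) (nat_lit 5) (nat_lit 440) (nat_lit 353) (nat_lit 227))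 (XT.lf (nat_lit 0) (nat_lit 18417316951) (nat_lit 228) (nat_lit 852127144) (nat_lit 76) (nat_lit 8397173096) (nat_lit 162) (nat_lit 5) (nat_lit 165) (nat_lit 5) (nat_lit 163) (nat_lit 5) (nat_lit 441) (nat_lit 353) (nat_lit 226))) (XT.nd (nat_lit 78) (nat_lit 228) (nat_lit 0) (XT.lf (nat_lit 0) (nat_lit 17759279257) (nat_lit 152) (nat_lit 9449504481) (nat_lit 228) (nat_lit 982196719) (nat_lit 160) (nat_lit 5) (nat_lit 162) (nat_lit 5) (nat_lit 163) (nat_lit 5) (nat_lit 442) (nat_lit 353) (nat_lit 225)) (XT.lf (nat_lit 0) (nat_lit 7468806557) (nat_lit 228) (nat_lit 20453954563) (nat_lit 76) (nat_lit 803654738) (nat_lit 157) (nat_lit 5) (nat_lit 160) (nat_lit 5) (nat_lit 158) (nat_lit 5) (nat_lit 443) (nat_lit 353) (nat_lit 224))))) (XT.nd (nat_lit 312) (nat_lit 456) (nat_lit 0) (XT.nd (nat_lit 156) (nat_lit 228) (nat_lit 0) (XT.nd (nat_lit 78) (nat_lit 152) (nat_lit 0) (XT.lf (nat_lit 0) (nat_lit 16340307672)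 (nat_lit 228) (nat_lit 1651735780) (nat_lit 76) (nat_lit 11279977860) (nat_lit 157) (nat_lit 5) (nat_lit 160) (nat_lit 5) (nat_lit 158) (nat_lit 5) (nat_lit 444) (nat_lit 353) (nat_lit 223)) (XT.lf (nat_lit 0) (nat_lit 18043098682) (nat_lit 152) (nat_lit 7595448650) (nat_lit 228) (nat_lit 4190629792) (nat_lit 155) (nat_lit 5) (nat_lit 157) (nat_lit 5) (nat_lit 158) (nat_lit 5) (nat_lit 445) (nat_lit 353) (nat_lit 222))) (XT.nd (nat_lit 78) (nat_lit 0) (nat_lit 0) (XT.lf (nat_lit 0) (nat_lit 4831360720) (nat_lit 228) (nat_lit 22383300872) (nat_lit 76) (nat_lit 3183620535) (nat_lit 152) (nat_lit 5) (nat_lit 155) (nat_lit 5) (nat_lit 153) (nat_lit 5) (nat_lit 446) (nat_lit 353) (nat_lit 221)) (XT.lf (nat_lit 0) (nat_lit 14222404027) (nat_lit 228) (nat_lit 2470694199) (nat_lit 76) (nat_lit 14284638693) (nat_lit 152) (nat_lit 5) (nat_lit 155) (nat_lit 5) (nat_lit 153) (nat_lit 5) (nat_lit 447) (nat_lit 353)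 (nat_lit 220)))) (XT.nd (nat_lit 156) (nat_lit 152) (nat_lit 0) (XT.nd (nat_lit 78) (nat_lit 152) (nat_lit 0) (XT.lf (nat_lit 0) (nat_lit 18374931397) (nat_lit 152) (nat_lit 5684473914) (nat_lit 228) (nat_lit 7510243245) (nat_lit 150) (nat_lit 5) (nat_lit 152) (nat_lit 5) (nat_lit 153) (nat_lit 5) (nat_lit 448) (nat_lit 353) (nat_lit 219)) (XT.lf (nat_lit 0) (nat_lit 2116435240) (nat_lit 152) (nat_lit 24403304696) (nat_lit 76) (nat_lit 5654692290) (nat_lit 148) (nat_lit 5) (nat_lit 150) (nat_lit 5) (nat_lit 149) (nat_lit 5) (nat_lit 449) (nat_lit 353) (nat_lit 218))) (XT.nd (nat_lit 78) (nat_lit 152) (nat_lit 0) (XT.lf (nat_lit 0) (nat_lit 12059466440) (nat_lit 152) (nat_lit 3311879515) (nat_lit 76) (nat_lit 17418427659) (nat_lit 148) (nat_lit 5) (nat_lit 150) (nat_lit 5) (nat_lit 149) (nat_lit 5) (nat_lit 450) (nat_lit 353) (nat_lit 217)) (XT.lf (nat_lit 0) (nat_lit 18755970712) (nat_lit 152) (nat_lit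 3713130083) (nat_lit 228) (nat_lit 10949425083) (nat_lit 146) (nat_lit 5) (nat_lit 148) (nat_lit 5) (nat_lit 149) (nat_lit 5) (nat_lit 451) (nat_lit 353) (nat_lit 216)))))) (XT.nd (nat_lit 624) (nat_lit 836) (nat_lit 0) (XT.nd (nat_lit 312) (nat_lit 380) (nat_lit 0) (XT.nd (nat_lit 156) (nat_lit 228) (nat_lit 0) (XT.nd (nat_lit 78) (nat_lit 76) (nat_lit 0) (XT.lf (nat_lit 0) (nat_lit 7533190576) (nat_lit 76) (nat_lit 25831813265) (nat_lit 152) (nat_lit 695917480) (nat_lit 145) (nat_lit 5) (nat_lit 146) (nat_lit 5) (nat_lit 147) (nat_lit 4) (nat_lit 452) (nat_lit 353) (nat_lit 215)) (XT.lf (nat_lit 0) (nat_lit 9847057154) (nat_lit 152) (nat_lit 4178200468) (nat_lit 76) (nat_lit 20689255076) (nat_lit 144) (nat_lit 5) (nat_lit 146) (nat_lit 5) (nat_lit 145) (nat_lit 5) (nat_lit 453) (nat_lit 353) (nat_lit 214))) (XT.nd (nat_lit 78) (nat_lit 76) (nat_lit 0) (XT.lf (nat_lit 0) (nat_lit 19187626208) (nat_lit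 152) (nat_lit 1677572715) (nat_lit 228) (nat_lit 14517120232) (nat_lit 142) (nat_lit 5) (nat_lit 144) (nat_lit 5) (nat_lit 145) (nat_lit 5) (nat_lit 454) (nat_lit 353) (nat_lit 213)) (XT.lf (nat_lit 0) (nat_lit 7285041100) (nat_lit 76) (nat_lit 25136065695) (nat_lit 152) (nat_lit 3642836356) (nat_lit 141) (nat_lit 5) (nat_lit 142) (nat_lit 5) (nat_lit 143) (nat_lit 4) (nat_lit 455) (nat_lit 353) (nat_lit 212)))) (XT.nd (nat_lit 156) (nat_lit 152) (nat_lit 0) (XT.nd (nat_lit 78) (nat_lit 152) (nat_lit 0) (XT.lf (nat_lit 0) (nat_lit 7580433910) (nat_lit 152) (nat_lit 5072614030) (nat_lit 76) (nat_lit 24105681395) (nat_lit 140) (nat_lit 5) (nat_lit 142) (nat_lit 5) (nat_lit 141) (nat_lit 5) (nat_lit 456) (nat_lit 353) (nat_lit 211)) (XT.lf (nat_lit 0) (nat_lit 19249186436) (nat_lit 228) (nat_lit 17800516824) (nat_lit 76) (nat_lit 418113768) (nat_lit 138) (nat_lit 5) (nat_lit 141) (nat_lit 5) (nat_lit 139)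 (nat_lit 4) (nat_lit 457) (nat_lit 353) (nat_lit 210))) (XT.nd (nat_lit 78) (nat_lit 76) (nat_lit 0) (XT.lf (nat_lit 0) (nat_lit 7047323733) (nat_lit 76) (nat_lit 24454267043) (nat_lit 152) (nat_lit 6689578897) (nat_lit 137) (nat_lit 5) (nat_lit 138) (nat_lit 5) (nat_lit 139) (nat_lit 4) (nat_lit 458) (nat_lit 353) (nat_lit 209)) (XT.lf (nat_lit 0) (nat_lit 5254541723) (nat_lit 152) (nat_lit 5998141416) (nat_lit 76) (nat_lit 27676932955) (nat_lit 136) (nat_lit 5) (nat_lit 138) (nat_lit 5) (nat_lit 137) (nat_lit 5) (nat_lit 459) (nat_lit 353) (nat_lit 208))))) (XT.nd (nat_lit 312) (nat_lit 380) (nat_lit 0) (XT.nd (nat_lit 156) (nat_lit 228) (nat_lit 0) (XT.nd (nat_lit 78) (nat_lit 76) (nat_lit 0) (XT.lf (nat_lit 0) (nat_lit 17631001568) (nat_lit 228) (nat_lit 19498253781) (nat_lit 76) (nat_lit 2552719468) (nat_lit 134) (nat_lit 5) (nat_lit 137) (nat_lit 5) (nat_lit 135) (nat_lit 4) (nat_lit 460) (nat_lit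 353) (nat_lit 207)) (XT.lf (nat_lit 0) (nat_lit 6819377288) (nat_lit 76) (nat_lit 23786715298) (nat_lit 152) (nat_lit 9843991596) (nat_lit 133) (nat_lit 5) (nat_lit 134) (nat_lit 5) (nat_lit 135) (nat_lit 4) (nat_lit 461) (nat_lit 353) (nat_lit 206))) (XT.nd (nat_lit 78) (nat_lit 152) (nat_lit 0) (XT.lf (nat_lit 0) (nat_lit 2864002819) (nat_lit 152) (nat_lit 6957883659) (nat_lit 76) (nat_lit 31412921513) (nat_lit 132) (nat_lit 5) (nat_lit 134) (nat_lit 5) (nat_lit 133) (nat_lit 5) (nat_lit 462) (nat_lit 353) (nat_lit 205)) (XT.lf (nat_lit 0) (nat_lit 15991594945) (nat_lit 228) (nat_lit 21277558743) (nat_lit 76) (nat_lit 4763909496) (nat_lit 130) (nat_lit 5) (nat_lit 133) (nat_lit 5) (nat_lit 131) (nat_lit 4) (nat_lit 463) (nat_lit 353) (nat_lit 204)))) (XT.nd (nat_lit 156) (nat_lit 228) (nat_lit 0) (XT.nd (nat_lit 78) (nat_lit 76) (nat_lit 0) (XT.lf (nat_lit 0) (nat_lit 6600599686) (nat_lit 76) (nat_lit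 23133621236) (nat_lit 152) (nat_lit 13114408930) (nat_lit 129) (nat_lit 5) (nat_lit 130) (nat_lit 5) (nat_lit 131) (nat_lit 4) (nat_lit 464) (nat_lit 353) (nat_lit 203)) (XT.lf (nat_lit 0) (nat_lit 403104773) (nat_lit 152) (nat_lit 7955036865) (nat_lit 76) (nat_lit 35324267441) (nat_lit 128) (nat_lit 5) (nat_lit 130) (nat_lit 5) (nat_lit 129) (nat_lit 5) (nat_lit 465) (nat_lit 353) (nat_lit 202))) (XT.nd (nat_lit 78) (nat_lit 76) (nat_lit 0) (XT.lf (nat_lit 0) (nat_lit 14327862415) (nat_lit 228) (nat_lit 23144475316) (nat_lit 76) (nat_lit 7057009429) (nat_lit 126) (nat_lit 5) (nat_lit 129) (nat_lit 5) (nat_lit 127) (nat_lit 4) (nat_lit 466) (nat_lit 353) (nat_lit 201)) (XT.lf (nat_lit 0) (nat_lit 6390441786) (nat_lit 76) (nat_lit 22495119714) (nat_lit 152) (nat_lit 16509675922) (nat_lit 125) (nat_lit 5) (nat_lit 126) (nat_lit 5) (nat_lit 127) (nat_lit 4) (nat_lit 467) (nat_lit 353) (nat_lit 200))))))))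
noncomputable def xc132 : XT := (XT.nd (nat_lit 44616) (nat_lit 0) (nat_lit 15428) (XT.nd (nat_lit 1170) (nat_lit 684) (nat_lit 0) (XT.nd (nat_lit 546) (nat_lit 684) (nat_lit 0) (XT.nd (nat_lit 234) (nat_lit 304) (nat_lit 0) (XT.nd (nat_lit 78) (nat_lit 304) (nat_lit 0) (XT.lf (nat_lit 0) (nat_lit 37266562061) (nat_lit 76) (nat_lit 6837142785) (nat_lit 152) (nat_lit 2176688146) (nat_lit 125) (nat_lit 5) (nat_lit 126) (nat_lit 5) (nat_lit 127) (nat_lit 4) (nat_lit 468) (nat_lit 353) (nat_lit 199)) (XT.nd (nat_lit 78) (nat_lit 76) (nat_lit 0) (XT.lf (nat_lit 0) (nat_lit 12636514435) (nat_lit 228) (nat_lit 25105334702) (nat_lit 76) (nat_lit 9437749610) (nat_lit 122) (nat_lit 5) (nat_lit 125) (nat_lit 5) (nat_lit 123) (nat_lit 4) (nat_lit 469) (nat_lit 353) (nat_lit 198)) (XT.lf (nat_lit 0) (nat_lit 6188401900) (nat_lit 76) (nat_lit 21871279667) (nat_lit 152) (nat_lit 20039173034) (nat_lit 121) (nat_lit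 5) (nat_lit 122) (nat_lit 5) (nat_lit 123) (nat_lit 4) (nat_lit 470) (nat_lit 353) (nat_lit 197)))) (XT.nd (nat_lit 156) (nat_lit 76) (nat_lit 0) (XT.nd (nat_lit 78) (nat_lit 228) (nat_lit 0) (XT.lf (nat_lit 0) (nat_lit 38916835385) (nat_lit 76) (nat_lit 5272541129) (nat_lit 152) (nat_lit 4848996632) (nat_lit 121) (nat_lit 5) (nat_lit 122) (nat_lit 5) (nat_lit 123) (nat_lit 4) (nat_lit 471) (nat_lit 353) (nat_lit 196)) (XT.lf (nat_lit 0) (nat_lit 10914070155) (nat_lit 228) (nat_lit 27166781032) (nat_lit 76) (nat_lit 11912276336) (nat_lit 118) (nat_lit 5) (nat_lit 121) (nat_lit 5) (nat_lit 119) (nat_lit 4) (nat_lit 472) (nat_lit 353) (nat_lit 195))) (XT.nd (nat_lit 78) (nat_lit 0) (nat_lit 0) (XT.lf (nat_lit 0) (nat_lit 5994020899) (nat_lit 76) (nat_lit 21262112938) (nat_lit 152) (nat_lit 23712843450) (nat_lit 117) (nat_lit 5) (nat_lit 118) (nat_lit 5) (nat_lit 119) (nat_lit 4) (nat_lit 473) (nat_lit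 353) (nat_lit 194)) (XT.lf (nat_lit 0) (nat_lit 40688310342) (nat_lit 76) (nat_lit 3665104795) (nat_lit 152) (nat_lit 7612738737) (nat_lit 117) (nat_lit 5) (nat_lit 118) (nat_lit 5) (nat_lit 119) (nat_lit 4) (nat_lit 474) (nat_lit 353) (nat_lit 193))))) (XT.nd (nat_lit 312) (nat_lit 304) (nat_lit 0) (XT.nd (nat_lit 156) (nat_lit 152) (nat_lit 0) (XT.nd (nat_lit 78) (nat_lit 76) (nat_lit 0) (XT.lf (nat_lit 0) (nat_lit 9156850366) (nat_lit 152) (nat_lit 29335797408) (nat_lit 76) (nat_lit 14487165360) (nat_lit 115) (nat_lit 5) (nat_lit 117) (nat_lit 5) (nat_lit 116) (nat_lit 4) (nat_lit 475) (nat_lit 353) (nat_lit 192)) (XT.lf (nat_lit 0) (nat_lit 5806877859) (nat_lit 76) (nat_lit 20667582086) (nat_lit 152) (nat_lit 27541222778) (nat_lit 114) (nat_lit 5) (nat_lit 115) (nat_lit 5) (nat_lit 116) (nat_lit 4) (nat_lit 476) (nat_lit 353) (nat_lit 191))) (XT.nd (nat_lit 78) (nat_lit 152) (nat_lit 0) (XT.lf (nat_lit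 0) (nat_lit 42587468209) (nat_lit 76) (nat_lit 2011282826) (nat_lit 152) (nat_lit 10475262768) (nat_lit 114) (nat_lit 5) (nat_lit 115) (nat_lit 5) (nat_lit 116) (nat_lit 4) (nat_lit 477) (nat_lit 353) (nat_lit 190)) (XT.lf (nat_lit 0) (nat_lit 7360969349) (nat_lit 152) (nat_lit 31619732783) (nat_lit 76) (nat_lit 17169437662) (nat_lit 112) (nat_lit 5) (nat_lit 114) (nat_lit 5) (nat_lit 113) (nat_lit 4) (nat_lit 478) (nat_lit 353) (nat_lit 189)))) (XT.nd (nat_lit 156) (nat_lit 228) (nat_lit 0) (XT.nd (nat_lit 78) (nat_lit 0) (nat_lit 0) (XT.lf (nat_lit 0) (nat_lit 5626586180) (nat_lit 76) (nat_lit 20087607276) (nat_lit 152) (nat_lit 31535471222) (nat_lit 111) (nat_lit 5) (nat_lit 112) (nat_lit 5) (nat_lit 113) (nat_lit 4) (nat_lit 479) (nat_lit 353) (nat_lit 188)) (XT.lf (nat_lit 0) (nat_lit 44621244303) (nat_lit 76) (nat_lit 307270183) (nat_lit 152) (nat_lit 13444345817) (nat_lit 111) (nat_lit 5) (nat_lit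 112) (nat_lit 5) (nat_lit 113) (nat_lit 4) (nat_lit 480) (nat_lit 353) (nat_lit 187))) (XT.nd (nat_lit 78) (nat_lit 76) (nat_lit 0) (XT.lf (nat_lit 0) (nat_lit 5522325628) (nat_lit 152) (nat_lit 34026329812) (nat_lit 76) (nat_lit 19966577460) (nat_lit 109) (nat_lit 5) (nat_lit 111) (nat_lit 5) (nat_lit 110) (nat_lit 4) (nat_lit 481) (nat_lit 353) (nat_lit 186)) (XT.lf (nat_lit 0) (nat_lit 5452790123) (nat_lit 76) (nat_lit 19522072364) (nat_lit 152) (nat_lit 35707408320) (nat_lit 108) (nat_lit 5) (nat_lit 109) (nat_lit 5) (nat_lit 110) (nat_lit 4) (nat_lit 482) (nat_lit 353) (nat_lit 185)))))) (XT.nd (nat_lit 546) (nat_lit 228) (nat_lit 0) (XT.nd (nat_lit 234) (nat_lit 228) (nat_lit 0) (XT.nd (nat_lit 78) (nat_lit 228) (nat_lit 0) (XT.lf (nat_lit 0) (nat_lit 45359998758) (nat_lit 152) (nat_lit 15091165276) (nat_lit 0) (nat_lit 1422685119) (nat_lit 108) (nat_lit 5) (nat_lit 110) (nat_lit 4) (nat_lit 108)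 (nat_lit 4) (nat_lit 483) (nat_lit 353) (nat_lit 184)) (XT.nd (nat_lit 78) (nat_lit 76) (nat_lit 0) (XT.lf (nat_lit 0) (nat_lit 3636591638) (nat_lit 152) (nat_lit 36563753810) (nat_lit 76) (nat_lit 22886552455) (nat_lit 106) (nat_lit 5) (nat_lit 108) (nat_lit 5) (nat_lit 107) (nat_lit 4) (nat_lit 484) (nat_lit 353) (nat_lit 183)) (XT.lf (nat_lit 0) (nat_lit 5285161727) (nat_lit 76) (nat_lit 18970830266) (nat_lit 152) (nat_lit 40069550305) (nat_lit 105) (nat_lit 5) (nat_lit 106) (nat_lit 5) (nat_lit 107) (nat_lit 4) (nat_lit 485) (nat_lit 353) (nat_lit 182)))) (XT.nd (nat_lit 156) (nat_lit 76) (nat_lit 0) (XT.nd (nat_lit 78) (nat_lit 152) (nat_lit 0) (XT.lf (nat_lit 0) (nat_lit 45886348900) (nat_lit 152) (nat_lit 16499131927) (nat_lit 0) (nat_lit 3204093962) (nat_lit 105) (nat_lit 5) (nat_lit 107) (nat_lit 4) (nat_lit 105) (nat_lit 4) (nat_lit 486) (nat_lit 353) (nat_lit 181)) (XT.lf (nat_lit 0) (nat_lit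 1699202297) (nat_lit 152) (nat_lit 39240622947) (nat_lit 76) (nat_lit 25937836309) (nat_lit 103) (nat_lit 5) (nat_lit 105) (nat_lit 5) (nat_lit 104) (nat_lit 4) (nat_lit 487) (nat_lit 353) (nat_lit 180))) (XT.nd (nat_lit 78) (nat_lit 0) (nat_lit 0) (XT.lf (nat_lit 0) (nat_lit 5123398060) (nat_lit 76) (nat_lit 18433707680) (nat_lit 152) (nat_lit 44635150205) (nat_lit 102) (nat_lit 5) (nat_lit 103) (nat_lit 5) (nat_lit 104) (nat_lit 4) (nat_lit 488) (nat_lit 353) (nat_lit 179)) (XT.lf (nat_lit 0) (nat_lit 46508478421) (nat_lit 152) (nat_lit 17977199807) (nat_lit 0) (nat_lit 5047477975) (nat_lit 102) (nat_lit 5) (nat_lit 104) (nat_lit 4) (nat_lit 102) (nat_lit 4) (nat_lit 489) (nat_lit 353) (nat_lit 178))))) (XT.nd (nat_lit 42588) (nat_lit 0) (nat_lit 26448) (XT.nd (nat_lit 156) (nat_lit 0) (nat_lit 0) (XT.nd (nat_lit 78) (nat_lit 152) (nat_lit 0) (XT.lf (nat_lit 0) (nat_lit 28831800403) (nat_lit 76) (nat_lit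 41768406830) (nat_lit 76) (nat_lit 300521788) (nat_lit 101) (nat_lit 4) (nat_lit 102) (nat_lit 5) (nat_lit 102) (nat_lit 4) (nat_lit 490) (nat_lit 353) (nat_lit 177)) (XT.lf (nat_lit 0) (nat_lit 4967218758) (nat_lit 76) (nat_lit 17910509257) (nat_lit 152) (nat_lit 49418240786) (nat_lit 99) (nat_lit 5) (nat_lit 100) (nat_lit 5) (nat_lit 101) (nat_lit 4) (nat_lit 491) (nat_lit 353) (nat_lit 176))) (XT.nd (nat_lit 42354) (nat_lit 0) (nat_lit 27284) (XT.lf (nat_lit 0) (nat_lit 47230520759) (nat_lit 152) (nat_lit 19530250259) (nat_lit 0) (nat_lit 6957648424) (nat_lit 99) (nat_lit 5) (nat_lit 101) (nat_lit 4) (nat_lit 99) (nat_lit 4) (nat_lit 492) (nat_lit 353) (nat_lit 175)) (XT.lf (nat_lit 0) (nat_lit 3300199336) (nat_lit 836) (nat_lit 167538930) (nat_lit 836) (nat_lit 167538930) (nat_lit 458) (nat_lit 3) (nat_lit 469) (nat_lit 3) (nat_lit 469) (nat_lit 5) (nat_lit 354) (nat_lit 354) (nat_lit 312)))) (XT.nd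 (nat_lit 156) (nat_lit 0) (nat_lit 0) (XT.nd (nat_lit 78) (nat_lit 0) (nat_lit 0) (XT.lf (nat_lit 0) (nat_lit 966059375) (nat_lit 836) (nat_lit 3974694574) (nat_lit 912) (nat_lit 2390065092) (nat_lit 447) (nat_lit 5) (nat_lit 458) (nat_lit 3) (nat_lit 459) (nat_lit 5) (nat_lit 355) (nat_lit 354) (nat_lit 311)) (XT.lf (nat_lit 0) (nat_lit 2578537277) (nat_lit 836) (nat_lit 268259817) (nat_lit 912) (nat_lit 4547676106) (nat_lit 447) (nat_lit 5) (nat_lit 458) (nat_lit 3) (nat_lit 459) (nat_lit 5) (nat_lit 356) (nat_lit 354) (nat_lit 310))) (XT.nd (nat_lit 78) (nat_lit 0) (nat_lit 76) (XT.lf (nat_lit 76) (nat_lit 3586605453) (nat_lit 0) (nat_lit 626317686) (nat_lit 912) (nat_lit 3247907835) (nat_lit 448) (nat_lit 5) (nat_lit 447) (nat_lit 5) (nat_lit 459) (nat_lit 5) (nat_lit 357) (nat_lit 354) (nat_lit 309)) (XT.lf (nat_lit 0) (nat_lit 5855821011) (nat_lit 836) (nat_lit 16947145) (nat_lit 912) (nat_lit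 1657626913) (nat_lit 448) (nat_lit 5) (nat_lit 459) (nat_lit 5) (nat_lit 460) (nat_lit 5) (nat_lit 358) (nat_lit 354) (nat_lit 308))))))) (XT.nd (nat_lit 1170) (nat_lit 6232) (nat_lit 0) (XT.nd (nat_lit 546) (nat_lit 3116) (nat_lit 0) (XT.nd (nat_lit 234) (nat_lit 836) (nat_lit 0) (XT.nd (nat_lit 78) (nat_lit 912) (nat_lit 0) (XT.lf (nat_lit 76) (nat_lit 3994322662) (nat_lit 0) (nat_lit 3540785357) (nat_lit 912) (nat_lit 67325002) (nat_lit 449) (nat_lit 5) (nat_lit 448) (nat_lit 5) (nat_lit 460) (nat_lit 5) (nat_lit 359) (nat_lit 354) (nat_lit 307)) (XT.nd (nat_lit 78) (nat_lit 0) (nat_lit 76) (XT.lf (nat_lit 76) (nat_lit 408076566) (nat_lit 0) (nat_lit 1096475472) (nat_lit 988) (nat_lit 6173200061) (nat_lit 437) (nat_lit 5) (nat_lit 436) (nat_lit 5) (nat_lit 449) (nat_lit 5) (nat_lit 360) (nat_lit 354) (nat_lit 306)) (XT.lf (nat_lit 0) (nat_lit 3117525432) (nat_lit 912) (nat_lit 3186015044) (nat_lit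 988) (nat_lit 1451911479) (nat_lit 437) (nat_lit 5) (nat_lit 449) (nat_lit 5) (nat_lit 450) (nat_lit 5) (nat_lit 361) (nat_lit 354) (nat_lit 305)))) (XT.nd (nat_lit 156) (nat_lit 912) (nat_lit 0) (XT.nd (nat_lit 78) (nat_lit 0) (nat_lit 0) (XT.lf (nat_lit 76) (nat_lit 993936338) (nat_lit 0) (nat_lit 3751805439) (nat_lit 988) (nat_lit 3090735418) (nat_lit 438) (nat_lit 5) (nat_lit 437) (nat_lit 5) (nat_lit 450) (nat_lit 5) (nat_lit 362) (nat_lit 354) (nat_lit 304)) (XT.lf (nat_lit 76) (nat_lit 5330179208) (nat_lit 0) (nat_lit 1072470210) (nat_lit 988) (nat_lit 1517888430) (nat_lit 438) (nat_lit 5) (nat_lit 437) (nat_lit 5) (nat_lit 450) (nat_lit 5) (nat_lit 363) (nat_lit 354) (nat_lit 303))) (XT.nd (nat_lit 78) (nat_lit 0) (nat_lit 0) (XT.lf (nat_lit 0) (nat_lit 82600948) (nat_lit 988) (nat_lit 6235796429) (nat_lit 1064) (nat_lit 1689219982) (nat_lit 425) (nat_lit 5) (nat_lit 438) (nat_lit 5) (nat_lit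 439) (nat_lit 5) (nat_lit 364) (nat_lit 354) (nat_lit 302)) (XT.lf (nat_lit 0) (nat_lit 1687646197) (nat_lit 988) (nat_lit 1840221622) (nat_lit 1064) (nat_lit 4569379101) (nat_lit 425) (nat_lit 5) (nat_lit 438) (nat_lit 5) (nat_lit 439) (nat_lit 5) (nat_lit 365) (nat_lit 354) (nat_lit 301))))) (XT.nd (nat_lit 312) (nat_lit 2280) (nat_lit 0) (XT.nd (nat_lit 156) (nat_lit 836) (nat_lit 0) (XT.nd (nat_lit 78) (nat_lit 0) (nat_lit 76) (XT.lf (nat_lit 76) (nat_lit 2705295245) (nat_lit 0) (nat_lit 613022607) (nat_lit 1064) (nat_lit 4871923265) (nat_lit 426) (nat_lit 5) (nat_lit 425) (nat_lit 5) (nat_lit 439) (nat_lit 5) (nat_lit 366) (nat_lit 354) (nat_lit 300)) (XT.lf (nat_lit 0) (nat_lit 4992322189) (nat_lit 988) (nat_lit 919642347) (nat_lit 1064) (nat_lit 2374228227) (nat_lit 426) (nat_lit 5) (nat_lit 439) (nat_lit 5) (nat_lit 440) (nat_lit 5) (nat_lit 367) (nat_lit 354) (nat_lit 299))) (XT.nd (nat_lit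 78) (nat_lit 912) (nat_lit 0) (XT.lf (nat_lit 76) (nat_lit 3816139759) (nat_lit 0) (nat_lit 2897216593) (nat_lit 1064) (nat_lit 1671762315) (nat_lit 427) (nat_lit 5) (nat_lit 426) (nat_lit 5) (nat_lit 440) (nat_lit 5) (nat_lit 368) (nat_lit 354) (nat_lit 298)) (XT.lf (nat_lit 0) (nat_lit 191780790) (nat_lit 988) (nat_lit 8262625213) (nat_lit 1064) (nat_lit 33554814) (nat_lit 414) (nat_lit 5) (nat_lit 427) (nat_lit 5) (nat_lit 428) (nat_lit 5) (nat_lit 369) (nat_lit 354) (nat_lit 297)))) (XT.nd (nat_lit 156) (nat_lit 1140) (nat_lit 0) (XT.nd (nat_lit 78) (nat_lit 1064) (nat_lit 0) (XT.lf (nat_lit 0) (nat_lit 1652499460) (nat_lit 1064) (nat_lit 3485033477) (nat_lit 76) (nat_lit 3454949208) (nat_lit 413) (nat_lit 5) (nat_lit 427) (nat_lit 5) (nat_lit 414) (nat_lit 5) (nat_lit 370) (nat_lit 354) (nat_lit 296)) (XT.lf (nat_lit 0) (nat_lit 1463218589) (nat_lit 1064) (nat_lit 1896290496) (nat_lit 1140) (nat_lit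 5341488618) (nat_lit 399) (nat_lit 5) (nat_lit 413) (nat_lit 5) (nat_lit 414) (nat_lit 5) (nat_lit 371) (nat_lit 354) (nat_lit 295))) (XT.nd (nat_lit 78) (nat_lit 1140) (nat_lit 0) (XT.lf (nat_lit 0) (nat_lit 5125098230) (nat_lit 1140) (nat_lit 2230998737) (nat_lit 76) (nat_lit 1456450684) (nat_lit 399) (nat_lit 5) (nat_lit 414) (nat_lit 5) (nat_lit 400) (nat_lit 5) (nat_lit 372) (nat_lit 354) (nat_lit 294)) (XT.lf (nat_lit 0) (nat_lit 2928994137) (nat_lit 1140) (nat_lit 4020781236) (nat_lit 1216) (nat_lit 1977485115) (nat_lit 384) (nat_lit 5) (nat_lit 399) (nat_lit 5) (nat_lit 400) (nat_lit 5) (nat_lit 373) (nat_lit 354) (nat_lit 293)))))) (XT.nd (nat_lit 624) (nat_lit 2280) (nat_lit 0) (XT.nd (nat_lit 312) (nat_lit 1824) (nat_lit 0) (XT.nd (nat_lit 156) (nat_lit 836) (nat_lit 0) (XT.nd (nat_lit 78) (nat_lit 1292) (nat_lit 0) (XT.lf (nat_lit 0) (nat_lit 8254495874) (nat_lit 1140) (nat_lit 557267527)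 (nat_lit 1216) (nat_lit 234174192) (nat_lit 384) (nat_lit 5) (nat_lit 399) (nat_lit 5) (nat_lit 400) (nat_lit 5) (nat_lit 374) (nat_lit 354) (nat_lit 292)) (XT.lf (nat_lit 0) (nat_lit 1565684914) (nat_lit 1292) (nat_lit 4585348404) (nat_lit 76) (nat_lit 3015649865) (nat_lit 367) (nat_lit 5) (nat_lit 384) (nat_lit 5) (nat_lit 368) (nat_lit 5) (nat_lit 375) (nat_lit 354) (nat_lit 291))) (XT.nd (nat_lit 78) (nat_lit 0) (nat_lit 0) (XT.lf (nat_lit 0) (nat_lit 813025253) (nat_lit 836) (nat_lit 2584881161) (nat_lit 912) (nat_lit 5893582972) (nat_lit 356) (nat_lit 5) (nat_lit 367) (nat_lit 5) (nat_lit 368) (nat_lit 5) (nat_lit 376) (nat_lit 354) (nat_lit 290)) (XT.lf (nat_lit 0) (nat_lit 5304785467) (nat_lit 912) (nat_lit 2998655530) (nat_lit 76) (nat_lit 1116008050) (nat_lit 356) (nat_lit 5) (nat_lit 368) (nat_lit 5) (nat_lit 357) (nat_lit 5) (nat_lit 377) (nat_lit 354) (nat_lit 289)))) (XT.nd (nat_lit 156)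 (nat_lit 1216) (nat_lit 0) (XT.nd (nat_lit 78) (nat_lit 0) (nat_lit 0) (XT.lf (nat_lit 0) (nat_lit 2636023154) (nat_lit 608) (nat_lit 4647341297) (nat_lit 684) (nat_lit 2267448241) (nat_lit 348) (nat_lit 5) (nat_lit 356) (nat_lit 5) (nat_lit 357) (nat_lit 5) (nat_lit 378) (nat_lit 354) (nat_lit 288)) (XT.lf (nat_lit 0) (nat_lit 8466188859) (nat_lit 608) (nat_lit 849678747) (nat_lit 684) (nat_lit 370412636) (nat_lit 348) (nat_lit 5) (nat_lit 356) (nat_lit 5) (nat_lit 357) (nat_lit 5) (nat_lit 379) (nat_lit 354) (nat_lit 287))) (XT.nd (nat_lit 78) (nat_lit 532) (nat_lit 0) (XT.lf (nat_lit 0) (nat_lit 1592703755) (nat_lit 684) (nat_lit 5168100733) (nat_lit 76) (nat_lit 3063348568) (nat_lit 339) (nat_lit 5) (nat_lit 348) (nat_lit 5) (nat_lit 340) (nat_lit 5) (nat_lit 380) (nat_lit 354) (nat_lit 286)) (XT.lf (nat_lit 0) (nat_lit 734439060) (nat_lit 532) (nat_lit 2866417184) (nat_lit 608) (nat_lit 6365388163)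 (nat_lit 332) (nat_lit 5) (nat_lit 339) (nat_lit 5) (nat_lit 340) (nat_lit 5) (nat_lit 381) (nat_lit 354) (nat_lit 285))))) (XT.nd (nat_lit 312) (nat_lit 1064) (nat_lit 0) (XT.nd (nat_lit 156) (nat_lit 608) (nat_lit 0) (XT.nd (nat_lit 78) (nat_lit 608) (nat_lit 0) (XT.lf (nat_lit 0) (nat_lit 5699284457) (nat_lit 608) (nat_lit 3238596783) (nat_lit 76) (nat_lit 1173816321) (nat_lit 332) (nat_lit 5) (nat_lit 340) (nat_lit 5) (nat_lit 333) (nat_lit 5) (nat_lit 382) (nat_lit 354) (nat_lit 284)) (XT.lf (nat_lit 0) (nat_lit 2928177920) (nat_lit 608) (nat_lit 4956318529) (nat_lit 684) (nat_lit 2376302933) (nat_lit 324) (nat_lit 5) (nat_lit 332) (nat_lit 5) (nat_lit 333) (nat_lit 5) (nat_lit 383) (nat_lit 354) (nat_lit 283))) (XT.nd (nat_lit 78) (nat_lit 608) (nat_lit 0) (XT.lf (nat_lit 0) (nat_lit 9311697907) (nat_lit 608) (nat_lit 824192798) (nat_lit 684) (nat_lit 278464777) (nat_lit 324) (nat_lit 5) (nat_lit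 332) (nat_lit 5) (nat_lit 333) (nat_lit 5) (nat_lit 384) (nat_lit 354) (nat_lit 282)) (XT.lf (nat_lit 0) (nat_lit 1899365402) (nat_lit 608) (nat_lit 5238454199) (nat_lit 76) (nat_lit 3432542222) (nat_lit 316) (nat_lit 5) (nat_lit 324) (nat_lit 5) (nat_lit 317) (nat_lit 5) (nat_lit 385) (nat_lit 354) (nat_lit 281)))) (XT.nd (nat_lit 156) (nat_lit 532) (nat_lit 0) (XT.nd (nat_lit 78) (nat_lit 0) (nat_lit 0) (XT.lf (nat_lit 0) (nat_lit 1229540652) (nat_lit 532) (nat_lit 2907726163) (nat_lit 608) (nat_lit 6593688830) (nat_lit 309) (nat_lit 5) (nat_lit 316) (nat_lit 5) (nat_lit 317) (nat_lit 5) (nat_lit 386) (nat_lit 354) (nat_lit 280)) (XT.lf (nat_lit 0) (nat_lit 6479295554) (nat_lit 608) (nat_lit 2945628463) (nat_lit 76) (nat_lit 1470333557) (nat_lit 309) (nat_lit 5) (nat_lit 317) (nat_lit 5) (nat_lit 310) (nat_lit 5) (nat_lit 387) (nat_lit 354) (nat_lit 279))) (XT.nd (nat_lit 78) (nat_lit 76) (nat_lit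 0) (XT.lf (nat_lit 0) (nat_lit 3818227694) (nat_lit 456) (nat_lit 5109371474) (nat_lit 532) (nat_lit 2135808973) (nat_lit 303) (nat_lit 5) (nat_lit 309) (nat_lit 5) (nat_lit 310) (nat_lit 5) (nat_lit 388) (nat_lit 354) (nat_lit 278)) (XT.lf (nat_lit 0) (nat_lit 209403563) (nat_lit 532) (nat_lit 427235700) (nat_lit 76) (nat_lit 10599878418) (nat_lit 302) (nat_lit 5) (nat_lit 309) (nat_lit 5) (nat_lit 303) (nat_lit 5) (nat_lit 389) (nat_lit 354) (nat_lit 277))))))))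
noncomputable def xc133 : XT := (XT.nd (nat_lit 2340) (nat_lit 4180) (nat_lit 0) (XT.nd (nat_lit 1170) (nat_lit 3192) (nat_lit 0) (XT.nd (nat_lit 546) (nat_lit 1976) (nat_lit 0) (XT.nd (nat_lit 234) (nat_lit 1368) (nat_lit 0) (XT.nd (nat_lit 78) (nat_lit 456) (nat_lit 0) (XT.lf (nat_lit 0) (nat_lit 2656745223) (nat_lit 608) (nat_lit 4781363181) (nat_lit 76) (nat_lit 3973836691) (nat_lit 295) (nat_lit 5) (nat_lit 303) (nat_lit 5) (nat_lit 296) (nat_lit 5) (nat_lit 390) (nat_lit 354) (nat_lit 276)) (XT.nd (nat_lit 78) (nat_lit 0) (nat_lit 0) (XT.lf (nat_lit 0) (nat_lit 2321321139) (nat_lit 456) (nat_lit 2861234253) (nat_lit 532) (nat_lit 6409928493) (nat_lit 289) (nat_lit 5) (nat_lit 295) (nat_lit 5) (nat_lit 296) (nat_lit 5) (nat_lit 391) (nat_lit 354) (nat_lit 275)) (XT.lf (nat_lit 0) (nat_lit 7823215495) (nat_lit 532) (nat_lit 2094626559) (nat_lit 76) (nat_lit 1859424516) (nat_lit 289) (nat_lit 5)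 (nat_lit 296) (nat_lit 5) (nat_lit 290) (nat_lit 5) (nat_lit 392) (nat_lit 354) (nat_lit 274)))) (XT.nd (nat_lit 156) (nat_lit 456) (nat_lit 0) (XT.nd (nat_lit 78) (nat_lit 456) (nat_lit 0) (XT.lf (nat_lit 0) (nat_lit 5339629597) (nat_lit 456) (nat_lit 5256427049) (nat_lit 532) (nat_lit 1369947251) (nat_lit 283) (nat_lit 5) (nat_lit 289) (nat_lit 5) (nat_lit 290) (nat_lit 5) (nat_lit 393) (nat_lit 354) (nat_lit 273)) (XT.lf (nat_lit 0) (nat_lit 850409213) (nat_lit 380) (nat_lit 419104712) (nat_lit 456) (nat_lit 10890425741) (nat_lit 277) (nat_lit 5) (nat_lit 282) (nat_lit 5) (nat_lit 283) (nat_lit 5) (nat_lit 394) (nat_lit 354) (nat_lit 272))) (XT.nd (nat_lit 78) (nat_lit 456) (nat_lit 0) (XT.lf (nat_lit 0) (nat_lit 4045951364) (nat_lit 456) (nat_lit 3762471212) (nat_lit 76) (nat_lit 4548304206) (nat_lit 277) (nat_lit 5) (nat_lit 283) (nat_lit 5) (nat_lit 278) (nat_lit 5) (nat_lit 395) (nat_lit 354)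 (nat_lit 271)) (XT.lf (nat_lit 0) (nat_lit 4052904410) (nat_lit 456) (nat_lit 2870532201) (nat_lit 532) (nat_lit 5635448260) (nat_lit 271) (nat_lit 5) (nat_lit 277) (nat_lit 5) (nat_lit 278) (nat_lit 5) (nat_lit 396) (nat_lit 354) (nat_lit 270))))) (XT.nd (nat_lit 312) (nat_lit 1140) (nat_lit 0) (XT.nd (nat_lit 156) (nat_lit 380) (nat_lit 0) (XT.nd (nat_lit 78) (nat_lit 456) (nat_lit 0) (XT.lf (nat_lit 0) (nat_lit 9921908272) (nat_lit 532) (nat_lit 641154364) (nat_lit 76) (nat_lit 2203005212) (nat_lit 271) (nat_lit 5) (nat_lit 278) (nat_lit 5) (nat_lit 272) (nat_lit 5) (nat_lit 397) (nat_lit 354) (nat_lit 269)) (XT.lf (nat_lit 0) (nat_lit 107706576) (nat_lit 456) (nat_lit 5432185639) (nat_lit 76) (nat_lit 7437241960) (nat_lit 265) (nat_lit 5) (nat_lit 271) (nat_lit 5) (nat_lit 266) (nat_lit 5) (nat_lit 398) (nat_lit 354) (nat_lit 268))) (XT.nd (nat_lit 78) (nat_lit 0) (nat_lit 0) (XT.lf (nat_lit 0)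 (nat_lit 2789068200) (nat_lit 380) (nat_lit 311130331) (nat_lit 456) (nat_lit 10093212126) (nat_lit 260) (nat_lit 5) (nat_lit 265) (nat_lit 5) (nat_lit 266) (nat_lit 5) (nat_lit 399) (nat_lit 354) (nat_lit 267)) (XT.lf (nat_lit 0) (nat_lit 6262838122) (nat_lit 456) (nat_lit 2128420009) (nat_lit 76) (nat_lit 5022506116) (nat_lit 260) (nat_lit 5) (nat_lit 266) (nat_lit 5) (nat_lit 261) (nat_lit 5) (nat_lit 400) (nat_lit 354) (nat_lit 266)))) (XT.nd (nat_lit 156) (nat_lit 380) (nat_lit 0) (XT.nd (nat_lit 78) (nat_lit 380) (nat_lit 0) (XT.lf (nat_lit 0) (nat_lit 6487367158) (nat_lit 380) (nat_lit 3075320291) (nat_lit 456) (nat_lit 4076771078) (nat_lit 255) (nat_lit 5) (nat_lit 260) (nat_lit 5) (nat_lit 261) (nat_lit 5) (nat_lit 401) (nat_lit 354) (nat_lit 265)) (XT.lf (nat_lit 0) (nat_lit 1507912077) (nat_lit 380) (nat_lit 11490065508) (nat_lit 456) (nat_lit 872852690) (nat_lit 250) (nat_lit 5) (nat_lit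 255) (nat_lit 5) (nat_lit 256) (nat_lit 5) (nat_lit 402) (nat_lit 354) (nat_lit 264))) (XT.nd (nat_lit 78) (nat_lit 304) (nat_lit 0) (XT.lf (nat_lit 0) (nat_lit 2460515365) (nat_lit 456) (nat_lit 3619489547) (nat_lit 76) (nat_lit 8026017462) (nat_lit 249) (nat_lit 5) (nat_lit 255) (nat_lit 5) (nat_lit 250) (nat_lit 5) (nat_lit 403) (nat_lit 354) (nat_lit 263)) (XT.lf (nat_lit 0) (nat_lit 5452597575) (nat_lit 304) (nat_lit 454127328) (nat_lit 380) (nat_lit 8440374551) (nat_lit 245) (nat_lit 5) (nat_lit 249) (nat_lit 5) (nat_lit 250) (nat_lit 5) (nat_lit 404) (nat_lit 354) (nat_lit 262)))))) (XT.nd (nat_lit 546) (nat_lit 1748) (nat_lit 0) (XT.nd (nat_lit 234) (nat_lit 684) (nat_lit 0) (XT.nd (nat_lit 78) (nat_lit 380) (nat_lit 0) (XT.lf (nat_lit 0) (nat_lit 197226840) (nat_lit 380) (nat_lit 9327460320) (nat_lit 456) (nat_lit 5068670694) (nat_lit 240) (nat_lit 5) (nat_lit 245) (nat_lit 5) (nat_lit 246)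 (nat_lit 5) (nat_lit 405) (nat_lit 354) (nat_lit 261)) (XT.nd (nat_lit 78) (nat_lit 380) (nat_lit 0) (XT.lf (nat_lit 0) (nat_lit 9708106110) (nat_lit 380) (nat_lit 3615906960) (nat_lit 456) (nat_lit 1520806191) (nat_lit 240) (nat_lit 5) (nat_lit 245) (nat_lit 5) (nat_lit 246) (nat_lit 5) (nat_lit 406) (nat_lit 354) (nat_lit 260)) (XT.lf (nat_lit 0) (nat_lit 2135797108) (nat_lit 380) (nat_lit 10689198011) (nat_lit 76) (nat_lit 2276896089) (nat_lit 235) (nat_lit 5) (nat_lit 240) (nat_lit 5) (nat_lit 236) (nat_lit 5) (nat_lit 407) (nat_lit 354) (nat_lit 259)))) (XT.nd (nat_lit 156) (nat_lit 380) (nat_lit 0) (XT.nd (nat_lit 78) (nat_lit 304) (nat_lit 0) (XT.lf (nat_lit 0) (nat_lit 5938915341) (nat_lit 380) (nat_lit 1093685777) (nat_lit 76) (nat_lit 8331600964) (nat_lit 235) (nat_lit 5) (nat_lit 240) (nat_lit 5) (nat_lit 236) (nat_lit 5) (nat_lit 408) (nat_lit 354) (nat_lit 258)) (XT.lf (nat_lit 0) (nat_lit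 8933854778) (nat_lit 304) (nat_lit 987954069) (nat_lit 380) (nat_lit 5710602984) (nat_lit 231) (nat_lit 5) (nat_lit 235) (nat_lit 5) (nat_lit 236) (nat_lit 5) (nat_lit 409) (nat_lit 354) (nat_lit 257))) (XT.nd (nat_lit 78) (nat_lit 76) (nat_lit 0) (XT.lf (nat_lit 0) (nat_lit 3361056395) (nat_lit 304) (nat_lit 10736955103) (nat_lit 380) (nat_lit 1808441704) (nat_lit 227) (nat_lit 5) (nat_lit 231) (nat_lit 5) (nat_lit 232) (nat_lit 5) (nat_lit 410) (nat_lit 354) (nat_lit 256)) (XT.lf (nat_lit 0) (nat_lit 2225845116) (nat_lit 380) (nat_lit 2389089315) (nat_lit 76) (nat_lit 11571397808) (nat_lit 226) (nat_lit 5) (nat_lit 231) (nat_lit 5) (nat_lit 227) (nat_lit 5) (nat_lit 411) (nat_lit 354) (nat_lit 255))))) (XT.nd (nat_lit 312) (nat_lit 836) (nat_lit 0) (XT.nd (nat_lit 156) (nat_lit 380) (nat_lit 0) (XT.nd (nat_lit 78) (nat_lit 228) (nat_lit 0) (XT.lf (nat_lit 0) (nat_lit 6421280099) (nat_lit 380) (nat_lit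 8305280514) (nat_lit 76) (nat_lit 1745215849) (nat_lit 222) (nat_lit 5) (nat_lit 227) (nat_lit 5) (nat_lit 223) (nat_lit 5) (nat_lit 412) (nat_lit 354) (nat_lit 254)) (XT.lf (nat_lit 0) (nat_lit 2291683459) (nat_lit 228) (nat_lit 8523849143) (nat_lit 304) (nat_lit 5948062777) (nat_lit 219) (nat_lit 5) (nat_lit 222) (nat_lit 5) (nat_lit 223) (nat_lit 5) (nat_lit 413) (nat_lit 354) (nat_lit 253))) (XT.nd (nat_lit 78) (nat_lit 380) (nat_lit 0) (XT.lf (nat_lit 0) (nat_lit 13347331537) (nat_lit 228) (nat_lit 2059291083) (nat_lit 304) (nat_lit 1655595946) (nat_lit 219) (nat_lit 5) (nat_lit 222) (nat_lit 5) (nat_lit 223) (nat_lit 5) (nat_lit 414) (nat_lit 354) (nat_lit 252)) (XT.lf (nat_lit 0) (nat_lit 2809929847) (nat_lit 380) (nat_lit 9957741852) (nat_lit 76) (nat_lit 4598383617) (nat_lit 214) (nat_lit 5) (nat_lit 219) (nat_lit 5) (nat_lit 215) (nat_lit 5) (nat_lit 415) (nat_lit 354) (nat_lit 251)))) (XT.nd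 (nat_lit 156) (nat_lit 608) (nat_lit 0) (XT.nd (nat_lit 78) (nat_lit 0) (nat_lit 0) (XT.lf (nat_lit 0) (nat_lit 1221007154) (nat_lit 228) (nat_lit 6206821817) (nat_lit 304) (nat_lit 10249135936) (nat_lit 211) (nat_lit 5) (nat_lit 214) (nat_lit 5) (nat_lit 215) (nat_lit 5) (nat_lit 416) (nat_lit 354) (nat_lit 250)) (XT.lf (nat_lit 0) (nat_lit 12272934929) (nat_lit 304) (nat_lit 5090532334) (nat_lit 76) (nat_lit 631074424) (nat_lit 211) (nat_lit 5) (nat_lit 215) (nat_lit 5) (nat_lit 212) (nat_lit 5) (nat_lit 417) (nat_lit 354) (nat_lit 249))) (XT.nd (nat_lit 78) (nat_lit 304) (nat_lit 0) (XT.lf (nat_lit 0) (nat_lit 6655835852) (nat_lit 304) (nat_lit 10715346689) (nat_lit 380) (nat_lit 947229577) (nat_lit 207) (nat_lit 5) (nat_lit 211) (nat_lit 5) (nat_lit 212) (nat_lit 5) (nat_lit 418) (nat_lit 354) (nat_lit 248)) (XT.lf (nat_lit 0) (nat_lit 144110395) (nat_lit 228) (nat_lit 3784516467) (nat_lit 304)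 (nat_lit 14721155098) (nat_lit 203) (nat_lit 5) (nat_lit 206) (nat_lit 5) (nat_lit 207) (nat_lit 5) (nat_lit 419) (nat_lit 354) (nat_lit 247))))))) (XT.nd (nat_lit 1170) (nat_lit 1976) (nat_lit 0) (XT.nd (nat_lit 546) (nat_lit 1140) (nat_lit 0) (XT.nd (nat_lit 234) (nat_lit 760) (nat_lit 0) (XT.nd (nat_lit 78) (nat_lit 304) (nat_lit 0) (XT.lf (nat_lit 0) (nat_lit 9065460144) (nat_lit 304) (nat_lit 6514930485) (nat_lit 76) (nat_lit 3406408728) (nat_lit 203) (nat_lit 5) (nat_lit 207) (nat_lit 5) (nat_lit 204) (nat_lit 5) (nat_lit 420) (nat_lit 354) (nat_lit 246)) (XT.nd (nat_lit 78) (nat_lit 76) (nat_lit 0) (XT.lf (nat_lit 0) (nat_lit 5885083918) (nat_lit 228) (nat_lit 8548425259) (nat_lit 304) (nat_lit 4898104776) (nat_lit 200) (nat_lit 5) (nat_lit 203) (nat_lit 5) (nat_lit 204) (nat_lit 5) (nat_lit 421) (nat_lit 354) (nat_lit 245)) (XT.lf (nat_lit 0) (nat_lit 320015958) (nat_lit 304) (nat_lit 925334299)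 (nat_lit 76) (nat_lit 18439856038) (nat_lit 199) (nat_lit 5) (nat_lit 203) (nat_lit 5) (nat_lit 200) (nat_lit 5) (nat_lit 422) (nat_lit 354) (nat_lit 244)))) (XT.nd (nat_lit 156) (nat_lit 304) (nat_lit 0) (XT.nd (nat_lit 78) (nat_lit 228) (nat_lit 0) (XT.lf (nat_lit 0) (nat_lit 5758352297) (nat_lit 304) (nat_lit 7974127669) (nat_lit 76) (nat_lit 6310607987) (nat_lit 196) (nat_lit 5) (nat_lit 200) (nat_lit 5) (nat_lit 197) (nat_lit 5) (nat_lit 423) (nat_lit 354) (nat_lit 243)) (XT.lf (nat_lit 0) (nat_lit 5120946246) (nat_lit 228) (nat_lit 6293625465) (nat_lit 304) (nat_lit 8995492361) (nat_lit 193) (nat_lit 5) (nat_lit 196) (nat_lit 5) (nat_lit 197) (nat_lit 5) (nat_lit 424) (nat_lit 354) (nat_lit 242))) (XT.nd (nat_lit 78) (nat_lit 304) (nat_lit 0) (XT.lf (nat_lit 0) (nat_lit 17318802690) (nat_lit 304) (nat_lit 2054546548) (nat_lit 76) (nat_lit 1412350487) (nat_lit 193) (nat_lit 5) (nat_lit 197) (nat_lit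 5) (nat_lit 194) (nat_lit 5) (nat_lit 425) (nat_lit 354) (nat_lit 241)) (XT.lf (nat_lit 0) (nat_lit 2344929571) (nat_lit 304) (nat_lit 9473929437) (nat_lit 76) (nat_lit 9348277829) (nat_lit 189) (nat_lit 5) (nat_lit 193) (nat_lit 5) (nat_lit 190) (nat_lit 5) (nat_lit 426) (nat_lit 354) (nat_lit 240))))) (XT.nd (nat_lit 312) (nat_lit 456) (nat_lit 0) (XT.nd (nat_lit 156) (nat_lit 456) (nat_lit 0) (XT.nd (nat_lit 78) (nat_lit 0) (nat_lit 0) (XT.lf (nat_lit 0) (nat_lit 4360113877) (nat_lit 228) (nat_lit 3948552684) (nat_lit 304) (nat_lit 13248903625) (nat_lit 186) (nat_lit 5) (nat_lit 189) (nat_lit 5) (nat_lit 190) (nat_lit 5) (nat_lit 427) (nat_lit 354) (nat_lit 239)) (XT.lf (nat_lit 0) (nat_lit 14572369285) (nat_lit 304) (nat_lit 3221026874) (nat_lit 76) (nat_lit 4162688769) (nat_lit 186) (nat_lit 5) (nat_lit 190) (nat_lit 5) (nat_lit 187) (nat_lit 5) (nat_lit 428) (nat_lit 354) (nat_lit 238))) (XT.nd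 (nat_lit 78) (nat_lit 304) (nat_lit 0) (XT.lf (nat_lit 0) (nat_lit 11330832421) (nat_lit 152) (nat_lit 9826086841) (nat_lit 228) (nat_lit 1205647765) (nat_lit 184) (nat_lit 5) (nat_lit 186) (nat_lit 5) (nat_lit 187) (nat_lit 5) (nat_lit 429) (nat_lit 354) (nat_lit 237)) (XT.lf (nat_lit 0) (nat_lit 3599424419) (nat_lit 228) (nat_lit 1510107375) (nat_lit 304) (nat_lit 17668651922) (nat_lit 180) (nat_lit 5) (nat_lit 183) (nat_lit 5) (nat_lit 184) (nat_lit 5) (nat_lit 430) (nat_lit 354) (nat_lit 236)))) (XT.nd (nat_lit 156) (nat_lit 304) (nat_lit 0) (XT.nd (nat_lit 78) (nat_lit 152) (nat_lit 0) (XT.lf (nat_lit 0) (nat_lit 11755311875) (nat_lit 304) (nat_lit 4414135751) (nat_lit 76) (nat_lit 7031501845) (nat_lit 180) (nat_lit 5) (nat_lit 184) (nat_lit 5) (nat_lit 181) (nat_lit 5) (nat_lit 431) (nat_lit 354) (nat_lit 235)) (XT.lf (nat_lit 0) (nat_lit 10967236344) (nat_lit 152) (nat_lit 7739094895) (nat_lit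 228) (nat_lit 4926890982) (nat_lit 178) (nat_lit 5) (nat_lit 180) (nat_lit 5) (nat_lit 181) (nat_lit 5) (nat_lit 432) (nat_lit 354) (nat_lit 234))) (XT.nd (nat_lit 78) (nat_lit 0) (nat_lit 0) (XT.lf (nat_lit 0) (nat_lit 1820202872) (nat_lit 304) (nat_lit 21250237068) (nat_lit 76) (nat_lit 1005477847) (nat_lit 174) (nat_lit 5) (nat_lit 178) (nat_lit 5) (nat_lit 175) (nat_lit 5) (nat_lit 433) (nat_lit 354) (nat_lit 233)) (XT.lf (nat_lit 0) (nat_lit 8862084902) (nat_lit 304) (nat_lit 5638358375) (nat_lit 76) (nat_lit 10024245479) (nat_lit 174) (nat_lit 5) (nat_lit 178) (nat_lit 5) (nat_lit 175) (nat_lit 5) (nat_lit 434) (nat_lit 354) (nat_lit 232)))))) (XT.nd (nat_lit 624) (nat_lit 912) (nat_lit 0) (XT.nd (nat_lit 312) (nat_lit 532) (nat_lit 0) (XT.nd (nat_lit 156) (nat_lit 228) (nat_lit 0) (XT.nd (nat_lit 78) (nat_lit 152) (nat_lit 0) (XT.lf (nat_lit 0) (nat_lit 10624572533) (nat_lit 152) (nat_lit 5578808241)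 (nat_lit 228) (nat_lit 8780897360) (nat_lit 172) (nat_lit 5) (nat_lit 174) (nat_lit 5) (nat_lit 175) (nat_lit 5) (nat_lit 435) (nat_lit 354) (nat_lit 231)) (XT.lf (nat_lit 0) (nat_lit 2014364146) (nat_lit 152) (nat_lit 21848219144) (nat_lit 228) (nat_lit 1592141869) (nat_lit 170) (nat_lit 5) (nat_lit 172) (nat_lit 5) (nat_lit 173) (nat_lit 5) (nat_lit 436) (nat_lit 354) (nat_lit 230))) (XT.nd (nat_lit 78) (nat_lit 152) (nat_lit 0) (XT.lf (nat_lit 0) (nat_lit 5886666258) (nat_lit 228) (nat_lit 6898194613) (nat_lit 76) (nat_lit 13147114338) (nat_lit 169) (nat_lit 5) (nat_lit 172) (nat_lit 5) (nat_lit 170) (nat_lit 5) (nat_lit 437) (nat_lit 354) (nat_lit 229)) (XT.lf (nat_lit 0) (nat_lit 10301479874) (nat_lit 152) (nat_lit 3341918456) (nat_lit 228) (nat_lit 12777104711) (nat_lit 167) (nat_lit 5) (nat_lit 169) (nat_lit 5) (nat_lit 170) (nat_lit 5) (nat_lit 438) (nat_lit 354) (nat_lit 228)))) (XT.nd (nat_lit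 156) (nat_lit 304) (nat_lit 0) (XT.nd (nat_lit 78) (nat_lit 76) (nat_lit 0) (XT.lf (nat_lit 0) (nat_lit 1173722826) (nat_lit 152) (nat_lit 20588708861) (nat_lit 228) (nat_lit 5157367040) (nat_lit 165) (nat_lit 5) (nat_lit 167) (nat_lit 5) (nat_lit 168) (nat_lit 5) (nat_lit 439) (nat_lit 354) (nat_lit 227)) (XT.lf (nat_lit 0) (nat_lit 2822551824) (nat_lit 228) (nat_lit 8198186942) (nat_lit 76) (nat_lit 16407035521) (nat_lit 164) (nat_lit 5) (nat_lit 167) (nat_lit 5) (nat_lit 165) (nat_lit 5) (nat_lit 440) (nat_lit 354) (nat_lit 226))) (XT.nd (nat_lit 78) (nat_lit 152) (nat_lit 0) (XT.lf (nat_lit 0) (nat_lit 9996745166) (nat_lit 152) (nat_lit 1024578414) (nat_lit 228) (nat_lit 16925640243) (nat_lit 162) (nat_lit 5) (nat_lit 164) (nat_lit 5) (nat_lit 165) (nat_lit 5) (nat_lit 441) (nat_lit 354) (nat_lit 225)) (XT.lf (nat_lit 0) (nat_lit 319161004) (nat_lit 152) (nat_lit 19309768087) (nat_lit 228) (nat_lit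 8847913837) (nat_lit 160) (nat_lit 5) (nat_lit 162) (nat_lit 5) (nat_lit 163) (nat_lit 5) (nat_lit 442) (nat_lit 354) (nat_lit 224))))) (XT.nd (nat_lit 312) (nat_lit 532) (nat_lit 0) (XT.nd (nat_lit 156) (nat_lit 152) (nat_lit 0) (XT.nd (nat_lit 78) (nat_lit 228) (nat_lit 0) (XT.lf (nat_lit 0) (nat_lit 19471008832) (nat_lit 152) (nat_lit 9202288364) (nat_lit 228) (nat_lit 343965176) (nat_lit 160) (nat_lit 5) (nat_lit 162) (nat_lit 5) (nat_lit 163) (nat_lit 5) (nat_lit 443) (nat_lit 354) (nat_lit 223)) (XT.lf (nat_lit 0) (nat_lit 8344943590) (nat_lit 228) (nat_lit 19872997393) (nat_lit 76) (nat_lit 1350705166) (nat_lit 157) (nat_lit 5) (nat_lit 160) (nat_lit 5) (nat_lit 158) (nat_lit 5) (nat_lit 444) (nat_lit 354) (nat_lit 222))) (XT.nd (nat_lit 78) (nat_lit 152) (nat_lit 0) (XT.lf (nat_lit 0) (nat_lit 17463597325) (nat_lit 228) (nat_lit 541505518) (nat_lit 76) (nat_lit 12126086696) (nat_lit 157) (nat_lit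 5) (nat_lit 160) (nat_lit 5) (nat_lit 158) (nat_lit 5) (nat_lit 445) (nat_lit 354) (nat_lit 221)) (XT.lf (nat_lit 0) (nat_lit 19732803563) (nat_lit 152) (nat_lit 7300580614) (nat_lit 228) (nat_lit 3671897848) (nat_lit 155) (nat_lit 5) (nat_lit 157) (nat_lit 5) (nat_lit 158) (nat_lit 5) (nat_lit 446) (nat_lit 354) (nat_lit 220)))) (XT.nd (nat_lit 156) (nat_lit 304) (nat_lit 0) (XT.nd (nat_lit 78) (nat_lit 0) (nat_lit 0) (XT.lf (nat_lit 0) (nat_lit 5605870820) (nat_lit 228) (nat_lit 21891506417) (nat_lit 76) (nat_lit 3793966275) (nat_lit 152) (nat_lit 5) (nat_lit 155) (nat_lit 5) (nat_lit 153) (nat_lit 5) (nat_lit 447) (nat_lit 354) (nat_lit 219)) (XT.lf (nat_lit 0) (nat_lit 15260308457) (nat_lit 228) (nat_lit 1415403879) (nat_lit 76) (nat_lit 15213019722) (nat_lit 152) (nat_lit 5) (nat_lit 155) (nat_lit 5) (nat_lit 153) (nat_lit 5) (nat_lit 448) (nat_lit 354) (nat_lit 218))) (XT.nd (nat_lit 78) (nat_lit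 152) (nat_lit 0) (XT.lf (nat_lit 0) (nat_lit 20044517827) (nat_lit 152) (nat_lit 5340849223) (nat_lit 228) (nat_lit 7113245575) (nat_lit 150) (nat_lit 5) (nat_lit 152) (nat_lit 5) (nat_lit 153) (nat_lit 5) (nat_lit 449) (nat_lit 354) (nat_lit 217)) (XT.lf (nat_lit 0) (nat_lit 2788040999) (nat_lit 152) (nat_lit 24002873084) (nat_lit 76) (nat_lit 6330507728) (nat_lit 148) (nat_lit 5) (nat_lit 150) (nat_lit 5) (nat_lit 149) (nat_lit 5) (nat_lit 450) (nat_lit 354) (nat_lit 216))))))))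
noncomputable def xc134 : XT := (XT.nd (nat_lit 2340) (nat_lit 912) (nat_lit 0) (XT.nd (nat_lit 1170) (nat_lit 1368) (nat_lit 0) (XT.nd (nat_lit 546) (nat_lit 836) (nat_lit 0) (XT.nd (nat_lit 234) (nat_lit 380) (nat_lit 0) (XT.nd (nat_lit 78) (nat_lit 228) (nat_lit 0) (XT.lf (nat_lit 0) (nat_lit 13011651115) (nat_lit 152) (nat_lit 2311691480) (nat_lit 76) (nat_lit 18432412207) (nat_lit 148) (nat_lit 5) (nat_lit 150) (nat_lit 5) (nat_lit 149) (nat_lit 5) (nat_lit 451) (nat_lit 354) (nat_lit 215)) (XT.nd (nat_lit 78) (nat_lit 76) (nat_lit 0) (XT.lf (nat_lit 0) (nat_lit 20407414407) (nat_lit 152) (nat_lit 3319429829) (nat_lit 228) (nat_lit 10676727306) (nat_lit 146) (nat_lit 5) (nat_lit 148) (nat_lit 5) (nat_lit 149) (nat_lit 5) (nat_lit 452) (nat_lit 354) (nat_lit 214)) (XT.lf (nat_lit 0) (nat_lit 8849807475) (nat_lit 76) (nat_lit 26098014365) (nat_lit 152) (nat_lit 117471084) (nat_lit 145) (nat_lit 5)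 (nat_lit 146) (nat_lit 5) (nat_lit 147) (nat_lit 4) (nat_lit 453) (nat_lit 354) (nat_lit 213)))) (XT.nd (nat_lit 156) (nat_lit 152) (nat_lit 0) (XT.nd (nat_lit 78) (nat_lit 152) (nat_lit 0) (XT.lf (nat_lit 0) (nat_lit 10712982414) (nat_lit 152) (nat_lit 3233336628) (nat_lit 76) (nat_lit 21792513632) (nat_lit 144) (nat_lit 5) (nat_lit 146) (nat_lit 5) (nat_lit 145) (nat_lit 5) (nat_lit 454) (nat_lit 354) (nat_lit 212)) (XT.lf (nat_lit 0) (nat_lit 20822972596) (nat_lit 152) (nat_lit 1232265595) (nat_lit 228) (nat_lit 14371628040) (nat_lit 142) (nat_lit 5) (nat_lit 144) (nat_lit 5) (nat_lit 145) (nat_lit 5) (nat_lit 455) (nat_lit 354) (nat_lit 211))) (XT.nd (nat_lit 78) (nat_lit 76) (nat_lit 0) (XT.lf (nat_lit 0) (nat_lit 8564959507) (nat_lit 76) (nat_lit 25391262264) (nat_lit 152) (nat_lit 3172765220) (nat_lit 141) (nat_lit 5) (nat_lit 142) (nat_lit 5) (nat_lit 143) (nat_lit 4) (nat_lit 456) (nat_lit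 354) (nat_lit 210)) (XT.lf (nat_lit 0) (nat_lit 8359352655) (nat_lit 152) (nat_lit 4183362838) (nat_lit 76) (nat_lit 25302230550) (nat_lit 140) (nat_lit 5) (nat_lit 142) (nat_lit 5) (nat_lit 141) (nat_lit 5) (nat_lit 457) (nat_lit 354) (nat_lit 209))))) (XT.nd (nat_lit 312) (nat_lit 380) (nat_lit 0) (XT.nd (nat_lit 156) (nat_lit 228) (nat_lit 0) (XT.nd (nat_lit 78) (nat_lit 76) (nat_lit 0) (XT.lf (nat_lit 0) (nat_lit 20376687621) (nat_lit 228) (nat_lit 17291622580) (nat_lit 76) (nat_lit 907040569) (nat_lit 138) (nat_lit 5) (nat_lit 141) (nat_lit 5) (nat_lit 139) (nat_lit 4) (nat_lit 458) (nat_lit 354) (nat_lit 208)) (XT.lf (nat_lit 0) (nat_lit 8291428588) (nat_lit 76) (nat_lit 24699142142) (nat_lit 152) (nat_lit 6330016067) (nat_lit 137) (nat_lit 5) (nat_lit 138) (nat_lit 5) (nat_lit 139) (nat_lit 4) (nat_lit 459) (nat_lit 354) (nat_lit 207))) (XT.nd (nat_lit 78) (nat_lit 152) (nat_lit 0) (XT.lf (nat_lit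 0) (nat_lit 5945496128) (nat_lit 152) (nat_lit 5164864647) (nat_lit 76) (nat_lit 28971144257) (nat_lit 136) (nat_lit 5) (nat_lit 138) (nat_lit 5) (nat_lit 137) (nat_lit 5) (nat_lit 460) (nat_lit 354) (nat_lit 206)) (XT.lf (nat_lit 0) (nat_lit 18691934688) (nat_lit 228) (nat_lit 19068665301) (nat_lit 76) (nat_lit 3095873981) (nat_lit 134) (nat_lit 5) (nat_lit 137) (nat_lit 5) (nat_lit 135) (nat_lit 4) (nat_lit 461) (nat_lit 354) (nat_lit 205)))) (XT.nd (nat_lit 156) (nat_lit 228) (nat_lit 0) (XT.nd (nat_lit 78) (nat_lit 76) (nat_lit 0) (XT.lf (nat_lit 0) (nat_lit 8028548267) (nat_lit 76) (nat_lit 24021891664) (nat_lit 152) (nat_lit 9597361839) (nat_lit 133) (nat_lit 5) (nat_lit 134) (nat_lit 5) (nat_lit 135) (nat_lit 4) (nat_lit 462) (nat_lit 354) (nat_lit 204)) (XT.lf (nat_lit 0) (nat_lit 3465820105) (nat_lit 152) (nat_lit 6181023035) (nat_lit 76) (nat_lit 32809532173) (nat_lit 132) (nat_lit 5) (nat_lit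 134) (nat_lit 5) (nat_lit 133) (nat_lit 5) (nat_lit 463) (nat_lit 354) (nat_lit 203))) (XT.nd (nat_lit 78) (nat_lit 76) (nat_lit 0) (XT.lf (nat_lit 0) (nat_lit 16986071563) (nat_lit 228) (nat_lit 20929119939) (nat_lit 76) (nat_lit 5363421715) (nat_lit 130) (nat_lit 5) (nat_lit 133) (nat_lit 5) (nat_lit 131) (nat_lit 4) (nat_lit 464) (nat_lit 354) (nat_lit 202)) (XT.lf (nat_lit 0) (nat_lit 7775709070) (nat_lit 76) (nat_lit 23359667549) (nat_lit 152) (nat_lit 12983438257) (nat_lit 129) (nat_lit 5) (nat_lit 130) (nat_lit 5) (nat_lit 131) (nat_lit 4) (nat_lit 465) (nat_lit 354) (nat_lit 201)))))) (XT.nd (nat_lit 546) (nat_lit 760) (nat_lit 0) (XT.nd (nat_lit 234) (nat_lit 304) (nat_lit 0) (XT.nd (nat_lit 78) (nat_lit 228) (nat_lit 0) (XT.lf (nat_lit 0) (nat_lit 914392044) (nat_lit 152) (nat_lit 7235120608) (nat_lit 76) (nat_lit 36828392876) (nat_lit 128) (nat_lit 5) (nat_lit 130) (nat_lit 5) (nat_lit 129)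 (nat_lit 5) (nat_lit 466) (nat_lit 354) (nat_lit 200)) (XT.nd (nat_lit 78) (nat_lit 76) (nat_lit 0) (XT.lf (nat_lit 0) (nat_lit 15255854278) (nat_lit 228) (nat_lit 22879204076) (nat_lit 76) (nat_lit 7715224542) (nat_lit 126) (nat_lit 5) (nat_lit 129) (nat_lit 5) (nat_lit 127) (nat_lit 4) (nat_lit 467) (nat_lit 354) (nat_lit 199)) (XT.lf (nat_lit 0) (nat_lit 7532352643) (nat_lit 76) (nat_lit 22712556175) (nat_lit 152) (nat_lit 16497402312) (nat_lit 125) (nat_lit 5) (nat_lit 126) (nat_lit 5) (nat_lit 127) (nat_lit 4) (nat_lit 468) (nat_lit 354) (nat_lit 198)))) (XT.nd (nat_lit 156) (nat_lit 76) (nat_lit 0) (XT.nd (nat_lit 78) (nat_lit 228) (nat_lit 0) (XT.lf (nat_lit 0) (nat_lit 39307080868) (nat_lit 76) (nat_lit 6598162768) (nat_lit 152) (nat_lit 1749208317) (nat_lit 125) (nat_lit 5) (nat_lit 126) (nat_lit 5) (nat_lit 127) (nat_lit 4) (nat_lit 469) (nat_lit 354) (nat_lit 197)) (XT.lf (nat_lit 0) (nat_lit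 13497852048) (nat_lit 228) (nat_lit 24925434505) (nat_lit 76) (nat_lit 10157232891) (nat_lit 122) (nat_lit 5) (nat_lit 125) (nat_lit 5) (nat_lit 123) (nat_lit 4) (nat_lit 470) (nat_lit 354) (nat_lit 196))) (XT.nd (nat_lit 78) (nat_lit 0) (nat_lit 0) (XT.lf (nat_lit 0) (nat_lit 7297966546) (nat_lit 76) (nat_lit 22080582972) (nat_lit 152) (nat_lit 20148958396) (nat_lit 121) (nat_lit 5) (nat_lit 122) (nat_lit 5) (nat_lit 123) (nat_lit 4) (nat_lit 471) (nat_lit 354) (nat_lit 195)) (XT.lf (nat_lit 0) (nat_lit 40981342960) (nat_lit 76) (nat_lit 4996896892) (nat_lit 152) (nat_lit 4517389027) (nat_lit 121) (nat_lit 5) (nat_lit 122) (nat_lit 5) (nat_lit 123) (nat_lit 4) (nat_lit 472) (nat_lit 354) (nat_lit 194))))) (XT.nd (nat_lit 312) (nat_lit 304) (nat_lit 0) (XT.nd (nat_lit 156) (nat_lit 152) (nat_lit 0) (XT.nd (nat_lit 78) (nat_lit 76) (nat_lit 0) (XT.lf (nat_lit 0) (nat_lit 11708440749) (nat_lit 228) (nat_lit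 27074652934) (nat_lit 76) (nat_lit 12695819211) (nat_lit 118) (nat_lit 5) (nat_lit 121) (nat_lit 5) (nat_lit 119) (nat_lit 4) (nat_lit 473) (nat_lit 354) (nat_lit 193)) (XT.lf (nat_lit 0) (nat_lit 7072079608) (nat_lit 76) (nat_lit 21463720705) (nat_lit 152) (nat_lit 23948386819) (nat_lit 117) (nat_lit 5) (nat_lit 118) (nat_lit 5) (nat_lit 119) (nat_lit 4) (nat_lit 474) (nat_lit 354) (nat_lit 192))) (XT.nd (nat_lit 78) (nat_lit 152) (nat_lit 0) (XT.lf (nat_lit 0) (nat_lit 42781035460) (nat_lit 76) (nat_lit 3351508792) (nat_lit 152) (nat_lit 7379138438) (nat_lit 117) (nat_lit 5) (nat_lit 118) (nat_lit 5) (nat_lit 119) (nat_lit 4) (nat_lit 475) (nat_lit 354) (nat_lit 191)) (XT.lf (nat_lit 0) (nat_lit 9883795268) (nat_lit 152) (nat_lit 29334052452) (nat_lit 76) (nat_lit 15337792627) (nat_lit 115) (nat_lit 5) (nat_lit 117) (nat_lit 5) (nat_lit 116) (nat_lit 4) (nat_lit 476) (nat_lit 354) (nat_lit 190))))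 (XT.nd (nat_lit 156) (nat_lit 228) (nat_lit 0) (XT.nd (nat_lit 78) (nat_lit 0) (nat_lit 0) (XT.lf (nat_lit 0) (nat_lit 6854257791) (nat_lit 76) (nat_lit 20861896802) (nat_lit 152) (nat_lit 27906574787) (nat_lit 114) (nat_lit 5) (nat_lit 115) (nat_lit 5) (nat_lit 116) (nat_lit 4) (nat_lit 477) (nat_lit 354) (nat_lit 189)) (XT.lf (nat_lit 0) (nat_lit 44712833610) (nat_lit 76) (nat_lit 1658307964) (nat_lit 152) (nat_lit 10342059803) (nat_lit 114) (nat_lit 5) (nat_lit 115) (nat_lit 5) (nat_lit 116) (nat_lit 4) (nat_lit 478) (nat_lit 354) (nat_lit 188))) (XT.nd (nat_lit 78) (nat_lit 76) (nat_lit 0) (XT.lf (nat_lit 0) (nat_lit 8019880772) (nat_lit 152) (nat_lit 31711204907) (nat_lit 76) (nat_lit 18090415839) (nat_lit 112) (nat_lit 5) (nat_lit 114) (nat_lit 5) (nat_lit 113) (nat_lit 4) (nat_lit 479) (nat_lit 354) (nat_lit 187)) (XT.lf (nat_lit 0) (nat_lit 6644100490) (nat_lit 76) (nat_lit 20274999817) (nat_lit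 152) (nat_lit 32035049880) (nat_lit 111) (nat_lit 5) (nat_lit 112) (nat_lit 5) (nat_lit 113) (nat_lit 4) (nat_lit 480) (nat_lit 354) (nat_lit 186))))))) (XT.nd (nat_lit 43524) (nat_lit 0) (nat_lit 22800) (XT.nd (nat_lit 546) (nat_lit 456) (nat_lit 0) (XT.nd (nat_lit 234) (nat_lit 228) (nat_lit 0) (XT.nd (nat_lit 78) (nat_lit 228) (nat_lit 0) (XT.lf (nat_lit 0) (nat_lit 46698058270) (nat_lit 152) (nat_lit 13328374961) (nat_lit 0) (nat_lit 84962230) (nat_lit 111) (nat_lit 5) (nat_lit 113) (nat_lit 4) (nat_lit 111) (nat_lit 4) (nat_lit 481) (nat_lit 354) (nat_lit 185)) (XT.nd (nat_lit 78) (nat_lit 76) (nat_lit 0) (XT.lf (nat_lit 0) (nat_lit 6112442876) (nat_lit 152) (nat_lit 34214089319) (nat_lit 76) (nat_lit 20961424268) (nat_lit 109) (nat_lit 5) (nat_lit 111) (nat_lit 5) (nat_lit 110) (nat_lit 4) (nat_lit 482) (nat_lit 354) (nat_lit 184)) (XT.lf (nat_lit 0) (nat_lit 6441237250) (nat_lit 76) (nat_lit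 19702885135) (nat_lit 152) (nat_lit 36346016126) (nat_lit 108) (nat_lit 5) (nat_lit 109) (nat_lit 5) (nat_lit 110) (nat_lit 4) (nat_lit 483) (nat_lit 354) (nat_lit 183)))) (XT.nd (nat_lit 156) (nat_lit 76) (nat_lit 0) (XT.nd (nat_lit 78) (nat_lit 152) (nat_lit 0) (XT.lf (nat_lit 0) (nat_lit 47132357636) (nat_lit 152) (nat_lit 14734606852) (nat_lit 0) (nat_lit 1850753372) (nat_lit 108) (nat_lit 5) (nat_lit 110) (nat_lit 4) (nat_lit 108) (nat_lit 4) (nat_lit 484) (nat_lit 354) (nat_lit 182)) (XT.lf (nat_lit 0) (nat_lit 4156996730) (nat_lit 152) (nat_lit 36851121468) (nat_lit 76) (nat_lit 23959047422) (nat_lit 106) (nat_lit 5) (nat_lit 108) (nat_lit 5) (nat_lit 107) (nat_lit 4) (nat_lit 485) (nat_lit 354) (nat_lit 181))) (XT.nd (nat_lit 78) (nat_lit 0) (nat_lit 0) (XT.lf (nat_lit 0) (nat_lit 6245324820) (nat_lit 76) (nat_lit 19145379998) (nat_lit 152) (nat_lit 40852392757) (nat_lit 105) (nat_lit 5) (nat_lit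 106) (nat_lit 5) (nat_lit 107) (nat_lit 4) (nat_lit 486) (nat_lit 354) (nat_lit 180)) (XT.lf (nat_lit 0) (nat_lit 47661799526) (nat_lit 152) (nat_lit 16207672550) (nat_lit 0) (nat_lit 3675824152) (nat_lit 105) (nat_lit 5) (nat_lit 107) (nat_lit 4) (nat_lit 105) (nat_lit 4) (nat_lit 487) (nat_lit 354) (nat_lit 179))))) (XT.nd (nat_lit 312) (nat_lit 76) (nat_lit 0) (XT.nd (nat_lit 156) (nat_lit 152) (nat_lit 0) (XT.nd (nat_lit 78) (nat_lit 76) (nat_lit 0) (XT.lf (nat_lit 0) (nat_lit 2148815004) (nat_lit 152) (nat_lit 39631184781) (nat_lit 76) (nat_lit 27092032516) (nat_lit 103) (nat_lit 5) (nat_lit 105) (nat_lit 5) (nat_lit 104) (nat_lit 4) (nat_lit 488) (nat_lit 354) (nat_lit 178)) (XT.lf (nat_lit 0) (nat_lit 6056044534) (nat_lit 76) (nat_lit 18602287932) (nat_lit 152) (nat_lit 45567855750) (nat_lit 102) (nat_lit 5) (nat_lit 103) (nat_lit 5) (nat_lit 104) (nat_lit 4) (nat_lit 489) (nat_lit 354) (nat_lit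 177))) (XT.nd (nat_lit 78) (nat_lit 152) (nat_lit 0) (XT.lf (nat_lit 0) (nat_lit 48290343395) (nat_lit 152) (nat_lit 17752356040) (nat_lit 0) (nat_lit 5564853135) (nat_lit 102) (nat_lit 5) (nat_lit 104) (nat_lit 4) (nat_lit 102) (nat_lit 4) (nat_lit 490) (nat_lit 354) (nat_lit 176)) (XT.lf (nat_lit 0) (nat_lit 82914774) (nat_lit 152) (nat_lit 42563662659) (nat_lit 76) (nat_lit 30369670362) (nat_lit 100) (nat_lit 5) (nat_lit 102) (nat_lit 5) (nat_lit 101) (nat_lit 4) (nat_lit 491) (nat_lit 354) (nat_lit 175)))) (XT.nd (nat_lit 42510) (nat_lit 0) (nat_lit 26448) (XT.nd (nat_lit 42432) (nat_lit 0) (nat_lit 26448) (XT.lf (nat_lit 0) (nat_lit 5873099966) (nat_lit 76) (nat_lit 18073392642) (nat_lit 152) (nat_lit 50506882274) (nat_lit 99) (nat_lit 5) (nat_lit 100) (nat_lit 5) (nat_lit 101) (nat_lit 4) (nat_lit 492) (nat_lit 354) (nat_lit 174)) (XT.lf (nat_lit 0) (nat_lit 629442282) (nat_lit 0) (nat_lit 629442282)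 (nat_lit 836) (nat_lit 2437632074) (nat_lit 447) (nat_lit 5) (nat_lit 447) (nat_lit 3) (nat_lit 458) (nat_lit 3) (nat_lit 355) (nat_lit 355) (nat_lit 310))) (XT.nd (nat_lit 78) (nat_lit 0) (nat_lit 0) (XT.lf (nat_lit 0) (nat_lit 4088124671) (nat_lit 836) (nat_lit 2431745852) (nat_lit 912) (nat_lit 938080585) (nat_lit 447) (nat_lit 5) (nat_lit 458) (nat_lit 3) (nat_lit 459) (nat_lit 5) (nat_lit 356) (nat_lit 355) (nat_lit 309)) (XT.lf (nat_lit 76) (nat_lit 1364086907) (nat_lit 0) (nat_lit 4307912628) (nat_lit 912) (nat_lit 1853824676) (nat_lit 448) (nat_lit 5) (nat_lit 447) (nat_lit 5) (nat_lit 459) (nat_lit 5) (nat_lit 357) (nat_lit 355) (nat_lit 308)))))) (XT.nd (nat_lit 624) (nat_lit 1900) (nat_lit 0) (XT.nd (nat_lit 312) (nat_lit 912) (nat_lit 0) (XT.nd (nat_lit 156) (nat_lit 0) (nat_lit 0) (XT.nd (nat_lit 78) (nat_lit 836) (nat_lit 0) (XT.lf (nat_lit 76) (nat_lit 5292158552) (nat_lit 0) (nat_lit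 1978040669) (nat_lit 912) (nat_lit 326530031) (nat_lit 448) (nat_lit 5) (nat_lit 447) (nat_lit 5) (nat_lit 459) (nat_lit 5) (nat_lit 358) (nat_lit 355) (nat_lit 307)) (XT.lf (nat_lit 0) (nat_lit 1186135317) (nat_lit 912) (nat_lit 6018225551) (nat_lit 988) (nat_lit 466124772) (nat_lit 436) (nat_lit 5) (nat_lit 448) (nat_lit 5) (nat_lit 449) (nat_lit 5) (nat_lit 359) (nat_lit 355) (nat_lit 306))) (XT.nd (nat_lit 78) (nat_lit 0) (nat_lit 0) (XT.lf (nat_lit 0) (nat_lit 2725660981) (nat_lit 912) (nat_lit 2027038708) (nat_lit 988) (nat_lit 2994016743) (nat_lit 436) (nat_lit 5) (nat_lit 448) (nat_lit 5) (nat_lit 449) (nat_lit 5) (nat_lit 360) (nat_lit 355) (nat_lit 305)) (XT.lf (nat_lit 76) (nat_lit 2092411865) (nat_lit 0) (nat_lit 2185633962) (nat_lit 988) (nat_lit 3548188118) (nat_lit 437) (nat_lit 5) (nat_lit 436) (nat_lit 5) (nat_lit 449) (nat_lit 5) (nat_lit 361) (nat_lit 355) (nat_lit 304)))) (XT.nd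 (nat_lit 156) (nat_lit 988) (nat_lit 0) (XT.nd (nat_lit 78) (nat_lit 0) (nat_lit 0) (XT.lf (nat_lit 0) (nat_lit 5850083981) (nat_lit 912) (nat_lit 1568879790) (nat_lit 988) (nat_lit 489980759) (nat_lit 437) (nat_lit 5) (nat_lit 449) (nat_lit 5) (nat_lit 450) (nat_lit 5) (nat_lit 362) (nat_lit 355) (nat_lit 303)) (XT.lf (nat_lit 76) (nat_lit 2719678803) (nat_lit 0) (nat_lit 4746905243) (nat_lit 988) (nat_lit 527633364) (nat_lit 438) (nat_lit 5) (nat_lit 437) (nat_lit 5) (nat_lit 450) (nat_lit 5) (nat_lit 363) (nat_lit 355) (nat_lit 302))) (XT.nd (nat_lit 78) (nat_lit 0) (nat_lit 76) (XT.lf (nat_lit 0) (nat_lit 995237749) (nat_lit 988) (nat_lit 956197045) (nat_lit 1064) (nat_lit 6131325404) (nat_lit 424) (nat_lit 5) (nat_lit 437) (nat_lit 5) (nat_lit 438) (nat_lit 5) (nat_lit 364) (nat_lit 355) (nat_lit 301)) (XT.lf (nat_lit 0) (nat_lit 2548150959) (nat_lit 988) (nat_lit 4660943769) (nat_lit 1064) (nat_lit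 964858993) (nat_lit 425) (nat_lit 5) (nat_lit 438) (nat_lit 5) (nat_lit 439) (nat_lit 5) (nat_lit 365) (nat_lit 355) (nat_lit 300))))) (XT.nd (nat_lit 312) (nat_lit 988) (nat_lit 0) (XT.nd (nat_lit 156) (nat_lit 988) (nat_lit 0) (XT.nd (nat_lit 78) (nat_lit 0) (nat_lit 0) (XT.lf (nat_lit 0) (nat_lit 4129607605) (nat_lit 988) (nat_lit 184819967) (nat_lit 1064) (nat_lit 3953996795) (nat_lit 425) (nat_lit 5) (nat_lit 438) (nat_lit 5) (nat_lit 439) (nat_lit 5) (nat_lit 366) (nat_lit 355) (nat_lit 299)) (XT.lf (nat_lit 76) (nat_lit 4480291736) (nat_lit 0) (nat_lit 1275539429) (nat_lit 1064) (nat_lit 2609978271) (nat_lit 426) (nat_lit 5) (nat_lit 425) (nat_lit 5) (nat_lit 439) (nat_lit 5) (nat_lit 367) (nat_lit 355) (nat_lit 298))) (XT.nd (nat_lit 78) (nat_lit 1064) (nat_lit 0) (XT.lf (nat_lit 76) (nat_lit 786730306) (nat_lit 0) (nat_lit 6626780434) (nat_lit 1064) (nat_lit 1053125239) (nat_lit 427) (nat_lit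 5) (nat_lit 426) (nat_lit 5) (nat_lit 440) (nat_lit 5) (nat_lit 368) (nat_lit 355) (nat_lit 297)) (XT.lf (nat_lit 0) (nat_lit 547886274) (nat_lit 1064) (nat_lit 2943230530) (nat_lit 1140) (nat_lit 5078965966) (nat_lit 412) (nat_lit 5) (nat_lit 426) (nat_lit 5) (nat_lit 427) (nat_lit 5) (nat_lit 369) (nat_lit 355) (nat_lit 296)))) (XT.nd (nat_lit 156) (nat_lit 988) (nat_lit 0) (XT.nd (nat_lit 78) (nat_lit 0) (nat_lit 76) (XT.lf (nat_lit 76) (nat_lit 1929362154) (nat_lit 0) (nat_lit 222168850) (nat_lit 1140) (nat_lit 6525516061) (nat_lit 413) (nat_lit 5) (nat_lit 412) (nat_lit 5) (nat_lit 427) (nat_lit 5) (nat_lit 370) (nat_lit 355) (nat_lit 295)) (XT.lf (nat_lit 0) (nat_lit 3821766117) (nat_lit 1064) (nat_lit 1842803983) (nat_lit 76) (nat_lit 3122095759) (nat_lit 413) (nat_lit 5) (nat_lit 427) (nat_lit 5) (nat_lit 414) (nat_lit 5) (nat_lit 371) (nat_lit 355) (nat_lit 294))) (XT.nd (nat_lit 78) (nat_lit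 0) (nat_lit 0) (XT.lf (nat_lit 0) (nat_lit 3236770346) (nat_lit 1064) (nat_lit 2298103596) (nat_lit 1140) (nat_lit 3364916305) (nat_lit 399) (nat_lit 5) (nat_lit 413) (nat_lit 5) (nat_lit 414) (nat_lit 5) (nat_lit 372) (nat_lit 355) (nat_lit 293)) (XT.lf (nat_lit 0) (nat_lit 7289787060) (nat_lit 1140) (nat_lit 555008107) (nat_lit 76) (nat_lit 1171800838) (nat_lit 399) (nat_lit 5) (nat_lit 414) (nat_lit 5) (nat_lit 400) (nat_lit 5) (nat_lit 373) (nat_lit 355) (nat_lit 292))))))))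
noncomputable def xc135 : XT := (XT.nd (nat_lit 2418) (nat_lit 5700) (nat_lit 0) (XT.nd (nat_lit 1170) (nat_lit 4560) (nat_lit 0) (XT.nd (nat_lit 546) (nat_lit 2280) (nat_lit 0) (XT.nd (nat_lit 234) (nat_lit 2128) (nat_lit 0) (XT.nd (nat_lit 78) (nat_lit 1292) (nat_lit 0) (XT.lf (nat_lit 0) (nat_lit 4742697097) (nat_lit 1140) (nat_lit 4384526236) (nat_lit 1216) (nat_lit 8786329) (nat_lit 384) (nat_lit 5) (nat_lit 399) (nat_lit 5) (nat_lit 400) (nat_lit 5) (nat_lit 374) (nat_lit 355) (nat_lit 291)) (XT.nd (nat_lit 78) (nat_lit 0) (nat_lit 0) (XT.lf (nat_lit 0) (nat_lit 919055212) (nat_lit 1216) (nat_lit 783819861) (nat_lit 1292) (nat_lit 7556329170) (nat_lit 367) (nat_lit 5) (nat_lit 383) (nat_lit 5) (nat_lit 384) (nat_lit 5) (nat_lit 375) (nat_lit 355) (nat_lit 290)) (XT.lf (nat_lit 0) (nat_lit 3501414593) (nat_lit 1292) (nat_lit 2967147136) (nat_lit 76) (nat_lit 2916459176) (nat_lit 367) (nat_lit 5)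 (nat_lit 384) (nat_lit 5) (nat_lit 368) (nat_lit 5) (nat_lit 376) (nat_lit 355) (nat_lit 289)))) (XT.nd (nat_lit 156) (nat_lit 1292) (nat_lit 0) (XT.nd (nat_lit 78) (nat_lit 0) (nat_lit 0) (XT.lf (nat_lit 0) (nat_lit 2575964380) (nat_lit 836) (nat_lit 2774337945) (nat_lit 912) (nat_lit 4164417981) (nat_lit 356) (nat_lit 5) (nat_lit 367) (nat_lit 5) (nat_lit 368) (nat_lit 5) (nat_lit 377) (nat_lit 355) (nat_lit 288)) (XT.lf (nat_lit 0) (nat_lit 7259446477) (nat_lit 912) (nat_lit 1345762883) (nat_lit 76) (nat_lit 1042957635) (nat_lit 356) (nat_lit 5) (nat_lit 368) (nat_lit 5) (nat_lit 357) (nat_lit 5) (nat_lit 378) (nat_lit 355) (nat_lit 287))) (XT.nd (nat_lit 78) (nat_lit 684) (nat_lit 0) (XT.lf (nat_lit 0) (nat_lit 4440869374) (nat_lit 608) (nat_lit 4820805945) (nat_lit 684) (nat_lit 522867456) (nat_lit 348) (nat_lit 5) (nat_lit 356) (nat_lit 5) (nat_lit 357) (nat_lit 5) (nat_lit 379) (nat_lit 355)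 (nat_lit 286)) (XT.lf (nat_lit 0) (nat_lit 465905562) (nat_lit 608) (nat_lit 889962623) (nat_lit 684) (nat_lit 8569212040) (nat_lit 339) (nat_lit 5) (nat_lit 347) (nat_lit 5) (nat_lit 348) (nat_lit 5) (nat_lit 380) (nat_lit 355) (nat_lit 285))))) (XT.nd (nat_lit 312) (nat_lit 1140) (nat_lit 0) (XT.nd (nat_lit 156) (nat_lit 608) (nat_lit 0) (XT.nd (nat_lit 78) (nat_lit 532) (nat_lit 0) (XT.lf (nat_lit 0) (nat_lit 3331988349) (nat_lit 684) (nat_lit 3579336791) (nat_lit 76) (nat_lit 3156807404) (nat_lit 339) (nat_lit 5) (nat_lit 348) (nat_lit 5) (nat_lit 340) (nat_lit 5) (nat_lit 381) (nat_lit 355) (nat_lit 284)) (XT.lf (nat_lit 0) (nat_lit 2483183048) (nat_lit 532) (nat_lit 2884533472) (nat_lit 608) (nat_lit 4847750180) (nat_lit 332) (nat_lit 5) (nat_lit 339) (nat_lit 5) (nat_lit 340) (nat_lit 5) (nat_lit 382) (nat_lit 355) (nat_lit 283))) (XT.nd (nat_lit 78) (nat_lit 608) (nat_lit 0) (XT.lf (nat_lit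 0) (nat_lit 7481415474) (nat_lit 608) (nat_lit 1611654311) (nat_lit 76) (nat_lit 1273644129) (nat_lit 332) (nat_lit 5) (nat_lit 340) (nat_lit 5) (nat_lit 333) (nat_lit 5) (nat_lit 383) (nat_lit 355) (nat_lit 282)) (XT.lf (nat_lit 0) (nat_lit 4723220688) (nat_lit 608) (nat_lit 4978446992) (nat_lit 684) (nat_lit 819536593) (nat_lit 324) (nat_lit 5) (nat_lit 332) (nat_lit 5) (nat_lit 333) (nat_lit 5) (nat_lit 384) (nat_lit 355) (nat_lit 281)))) (XT.nd (nat_lit 156) (nat_lit 532) (nat_lit 0) (XT.nd (nat_lit 78) (nat_lit 0) (nat_lit 0) (XT.lf (nat_lit 0) (nat_lit 566389208) (nat_lit 532) (nat_lit 707625845) (nat_lit 608) (nat_lit 9406196699) (nat_lit 316) (nat_lit 5) (nat_lit 323) (nat_lit 5) (nat_lit 324) (nat_lit 5) (nat_lit 385) (nat_lit 355) (nat_lit 280)) (XT.lf (nat_lit 0) (nat_lit 3478521146) (nat_lit 608) (nat_lit 3679673036) (nat_lit 76) (nat_lit 3683613253) (nat_lit 316) (nat_lit 5) (nat_lit 324)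 (nat_lit 5) (nat_lit 317) (nat_lit 5) (nat_lit 386) (nat_lit 355) (nat_lit 279))) (XT.nd (nat_lit 78) (nat_lit 0) (nat_lit 0) (XT.lf (nat_lit 0) (nat_lit 2965538772) (nat_lit 532) (nat_lit 2790018546) (nat_lit 608) (nat_lit 5252501823) (nat_lit 309) (nat_lit 5) (nat_lit 316) (nat_lit 5) (nat_lit 317) (nat_lit 5) (nat_lit 387) (nat_lit 355) (nat_lit 278)) (XT.lf (nat_lit 0) (nat_lit 8126239955) (nat_lit 608) (nat_lit 1342767150) (nat_lit 76) (nat_lit 1709531231) (nat_lit 309) (nat_lit 5) (nat_lit 317) (nat_lit 5) (nat_lit 310) (nat_lit 5) (nat_lit 388) (nat_lit 355) (nat_lit 277)))))) (XT.nd (nat_lit 624) (nat_lit 2128) (nat_lit 0) (XT.nd (nat_lit 312) (nat_lit 912) (nat_lit 0) (XT.nd (nat_lit 156) (nat_lit 456) (nat_lit 0) (XT.nd (nat_lit 78) (nat_lit 608) (nat_lit 0) (XT.lf (nat_lit 0) (nat_lit 5607424004) (nat_lit 456) (nat_lit 5014358694) (nat_lit 532) (nat_lit 730737020) (nat_lit 303) (nat_lit 5)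 (nat_lit 309) (nat_lit 5) (nat_lit 310) (nat_lit 5) (nat_lit 389) (nat_lit 355) (nat_lit 276)) (XT.lf (nat_lit 0) (nat_lit 1237807934) (nat_lit 532) (nat_lit 388298523) (nat_lit 608) (nat_lit 9905194130) (nat_lit 295) (nat_lit 5) (nat_lit 302) (nat_lit 5) (nat_lit 303) (nat_lit 5) (nat_lit 390) (nat_lit 355) (nat_lit 275))) (XT.nd (nat_lit 78) (nat_lit 456) (nat_lit 0) (XT.lf (nat_lit 0) (nat_lit 4112514126) (nat_lit 608) (nat_lit 3248641787) (nat_lit 76) (nat_lit 4351865539) (nat_lit 295) (nat_lit 5) (nat_lit 303) (nat_lit 5) (nat_lit 296) (nat_lit 5) (nat_lit 391) (nat_lit 355) (nat_lit 274)) (XT.lf (nat_lit 0) (nat_lit 4050690099) (nat_lit 456) (nat_lit 2639283225) (nat_lit 532) (nat_lit 5209726839) (nat_lit 289) (nat_lit 5) (nat_lit 295) (nat_lit 5) (nat_lit 296) (nat_lit 5) (nat_lit 392) (nat_lit 355) (nat_lit 273)))) (XT.nd (nat_lit 156) (nat_lit 456) (nat_lit 0) (XT.nd (nat_lit 78) (nat_lit 456)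 (nat_lit 0) (XT.lf (nat_lit 0) (nat_lit 9373348774) (nat_lit 532) (nat_lit 509573203) (nat_lit 76) (nat_lit 2208199486) (nat_lit 289) (nat_lit 5) (nat_lit 296) (nat_lit 5) (nat_lit 290) (nat_lit 5) (nat_lit 393) (nat_lit 355) (nat_lit 272)) (XT.lf (nat_lit 0) (nat_lit 7131554832) (nat_lit 456) (nat_lit 5075191882) (nat_lit 532) (nat_lit 79453050) (nat_lit 283) (nat_lit 5) (nat_lit 289) (nat_lit 5) (nat_lit 290) (nat_lit 5) (nat_lit 394) (nat_lit 355) (nat_lit 271))) (XT.nd (nat_lit 78) (nat_lit 0) (nat_lit 0) (XT.lf (nat_lit 0) (nat_lit 2517389843) (nat_lit 380) (nat_lit 73569319) (nat_lit 456) (nat_lit 9895277900) (nat_lit 277) (nat_lit 5) (nat_lit 282) (nat_lit 5) (nat_lit 283) (nat_lit 5) (nat_lit 395) (nat_lit 355) (nat_lit 270)) (XT.lf (nat_lit 0) (nat_lit 5416652407) (nat_lit 456) (nat_lit 2247649436) (nat_lit 76) (nat_lit 5025647067) (nat_lit 277) (nat_lit 5) (nat_lit 283) (nat_lit 5) (nat_lit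 278) (nat_lit 5) (nat_lit 396) (nat_lit 355) (nat_lit 269))))) (XT.nd (nat_lit 312) (nat_lit 836) (nat_lit 0) (XT.nd (nat_lit 156) (nat_lit 456) (nat_lit 0) (XT.nd (nat_lit 78) (nat_lit 380) (nat_lit 0) (XT.lf (nat_lit 0) (nat_lit 5786229652) (nat_lit 456) (nat_lit 2573337538) (nat_lit 532) (nat_lit 4539231403) (nat_lit 271) (nat_lit 5) (nat_lit 277) (nat_lit 5) (nat_lit 278) (nat_lit 5) (nat_lit 397) (nat_lit 355) (nat_lit 268)) (XT.lf (nat_lit 0) (nat_lit 955247754) (nat_lit 380) (nat_lit 10469725528) (nat_lit 456) (nat_lit 1687914368) (nat_lit 266) (nat_lit 5) (nat_lit 271) (nat_lit 5) (nat_lit 272) (nat_lit 5) (nat_lit 398) (nat_lit 355) (nat_lit 267))) (XT.nd (nat_lit 78) (nat_lit 380) (nat_lit 0) (XT.lf (nat_lit 0) (nat_lit 1299171752) (nat_lit 456) (nat_lit 3990163426) (nat_lit 76) (nat_lit 8041466005) (nat_lit 265) (nat_lit 5) (nat_lit 271) (nat_lit 5) (nat_lit 266) (nat_lit 5) (nat_lit 399)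 (nat_lit 355) (nat_lit 266)) (XT.lf (nat_lit 0) (nat_lit 4363066745) (nat_lit 456) (nat_lit 9093113228) (nat_lit 76) (nat_lit 97937136) (nat_lit 260) (nat_lit 5) (nat_lit 266) (nat_lit 5) (nat_lit 261) (nat_lit 5) (nat_lit 400) (nat_lit 355) (nat_lit 265)))) (XT.nd (nat_lit 156) (nat_lit 456) (nat_lit 0) (XT.nd (nat_lit 78) (nat_lit 380) (nat_lit 0) (XT.lf (nat_lit 0) (nat_lit 7589502640) (nat_lit 456) (nat_lit 619186197) (nat_lit 76) (nat_lit 5573324956) (nat_lit 260) (nat_lit 5) (nat_lit 266) (nat_lit 5) (nat_lit 261) (nat_lit 5) (nat_lit 401) (nat_lit 355) (nat_lit 264)) (XT.lf (nat_lit 0) (nat_lit 8239652169) (nat_lit 380) (nat_lit 2730500166) (nat_lit 456) (nat_lit 3044872419) (nat_lit 255) (nat_lit 5) (nat_lit 260) (nat_lit 5) (nat_lit 261) (nat_lit 5) (nat_lit 402) (nat_lit 355) (nat_lit 263))) (XT.nd (nat_lit 78) (nat_lit 0) (nat_lit 0) (XT.lf (nat_lit 0) (nat_lit 236598307) (nat_lit 456) (nat_lit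 11131390955) (nat_lit 76) (nat_lit 2885682391) (nat_lit 249) (nat_lit 5) (nat_lit 255) (nat_lit 5) (nat_lit 250) (nat_lit 5) (nat_lit 403) (nat_lit 355) (nat_lit 262)) (XT.lf (nat_lit 0) (nat_lit 3619858111) (nat_lit 456) (nat_lit 2180722113) (nat_lit 76) (nat_lit 8696057002) (nat_lit 249) (nat_lit 5) (nat_lit 255) (nat_lit 5) (nat_lit 250) (nat_lit 5) (nat_lit 404) (nat_lit 355) (nat_lit 261))))))) (XT.nd (nat_lit 1170) (nat_lit 2508) (nat_lit 0) (XT.nd (nat_lit 546) (nat_lit 1520) (nat_lit 0) (XT.nd (nat_lit 234) (nat_lit 988) (nat_lit 0) (XT.nd (nat_lit 78) (nat_lit 380) (nat_lit 0) (XT.lf (nat_lit 0) (nat_lit 7148357503) (nat_lit 304) (nat_lit 4207403) (nat_lit 380) (nat_lit 7592888383) (nat_lit 245) (nat_lit 5) (nat_lit 249) (nat_lit 5) (nat_lit 250) (nat_lit 5) (nat_lit 405) (nat_lit 355) (nat_lit 260)) (XT.nd (nat_lit 78) (nat_lit 0) (nat_lit 0) (XT.lf (nat_lit 0) (nat_lit 1747636915) (nat_lit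 380) (nat_lit 9119476427) (nat_lit 456) (nat_lit 4132344680) (nat_lit 240) (nat_lit 5) (nat_lit 245) (nat_lit 5) (nat_lit 246) (nat_lit 5) (nat_lit 406) (nat_lit 355) (nat_lit 259)) (XT.lf (nat_lit 0) (nat_lit 11498857323) (nat_lit 380) (nat_lit 3250784458) (nat_lit 456) (nat_lit 509744809) (nat_lit 240) (nat_lit 5) (nat_lit 245) (nat_lit 5) (nat_lit 246) (nat_lit 5) (nat_lit 407) (nat_lit 355) (nat_lit 258)))) (XT.nd (nat_lit 156) (nat_lit 304) (nat_lit 0) (XT.nd (nat_lit 78) (nat_lit 304) (nat_lit 0) (XT.lf (nat_lit 0) (nat_lit 3224890144) (nat_lit 380) (nat_lit 9478699476) (nat_lit 76) (nat_lit 2820607751) (nat_lit 235) (nat_lit 5) (nat_lit 240) (nat_lit 5) (nat_lit 236) (nat_lit 5) (nat_lit 408) (nat_lit 355) (nat_lit 257)) (XT.lf (nat_lit 0) (nat_lit 367247123) (nat_lit 304) (nat_lit 6748530079) (nat_lit 380) (nat_lit 8679390111) (nat_lit 231) (nat_lit 5) (nat_lit 235) (nat_lit 5) (nat_lit 236)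 (nat_lit 5) (nat_lit 409) (nat_lit 355) (nat_lit 256))) (XT.nd (nat_lit 78) (nat_lit 304) (nat_lit 0) (XT.lf (nat_lit 0) (nat_lit 10673873295) (nat_lit 304) (nat_lit 525918441) (nat_lit 380) (nat_lit 4872182591) (nat_lit 231) (nat_lit 5) (nat_lit 235) (nat_lit 5) (nat_lit 236) (nat_lit 5) (nat_lit 410) (nat_lit 355) (nat_lit 255)) (XT.lf (nat_lit 0) (nat_lit 4943901149) (nat_lit 304) (nat_lit 10547660687) (nat_lit 380) (nat_lit 862966661) (nat_lit 227) (nat_lit 5) (nat_lit 231) (nat_lit 5) (nat_lit 232) (nat_lit 5) (nat_lit 411) (nat_lit 355) (nat_lit 254))))) (XT.nd (nat_lit 312) (nat_lit 912) (nat_lit 0) (XT.nd (nat_lit 156) (nat_lit 228) (nat_lit 0) (XT.nd (nat_lit 78) (nat_lit 304) (nat_lit 0) (XT.lf (nat_lit 0) (nat_lit 3244290367) (nat_lit 380) (nat_lit 1002974264) (nat_lit 76) (nat_lit 12396107479) (nat_lit 226) (nat_lit 5) (nat_lit 231) (nat_lit 5) (nat_lit 227) (nat_lit 5) (nat_lit 412) (nat_lit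 355) (nat_lit 253)) (XT.lf (nat_lit 0) (nat_lit 7556606418) (nat_lit 380) (nat_lit 7087669218) (nat_lit 76) (nat_lit 2293373483) (nat_lit 222) (nat_lit 5) (nat_lit 227) (nat_lit 5) (nat_lit 223) (nat_lit 5) (nat_lit 413) (nat_lit 355) (nat_lit 252))) (XT.nd (nat_lit 78) (nat_lit 0) (nat_lit 0) (XT.lf (nat_lit 0) (nat_lit 3812823580) (nat_lit 228) (nat_lit 8256367245) (nat_lit 304) (nat_lit 5169436649) (nat_lit 219) (nat_lit 5) (nat_lit 222) (nat_lit 5) (nat_lit 223) (nat_lit 5) (nat_lit 414) (nat_lit 355) (nat_lit 251)) (XT.lf (nat_lit 0) (nat_lit 15157838490) (nat_lit 228) (nat_lit 1613111201) (nat_lit 304) (nat_lit 776071581) (nat_lit 219) (nat_lit 5) (nat_lit 222) (nat_lit 5) (nat_lit 223) (nat_lit 5) (nat_lit 415) (nat_lit 355) (nat_lit 250)))) (XT.nd (nat_lit 156) (nat_lit 304) (nat_lit 0) (XT.nd (nat_lit 78) (nat_lit 228) (nat_lit 0) (XT.lf (nat_lit 0) (nat_lit 3797307725) (nat_lit 380) (nat_lit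 8820274840) (nat_lit 76) (nat_lit 5242362012) (nat_lit 214) (nat_lit 5) (nat_lit 219) (nat_lit 5) (nat_lit 215) (nat_lit 5) (nat_lit 416) (nat_lit 355) (nat_lit 249)) (XT.lf (nat_lit 0) (nat_lit 2679756251) (nat_lit 228) (nat_lit 5861354546) (nat_lit 304) (nat_lit 9639449647) (nat_lit 211) (nat_lit 5) (nat_lit 214) (nat_lit 5) (nat_lit 215) (nat_lit 5) (nat_lit 417) (nat_lit 355) (nat_lit 248))) (XT.nd (nat_lit 78) (nat_lit 304) (nat_lit 0) (XT.lf (nat_lit 0) (nat_lit 13510596486) (nat_lit 304) (nat_lit 3841576909) (nat_lit 76) (nat_lit 1156120337) (nat_lit 211) (nat_lit 5) (nat_lit 215) (nat_lit 5) (nat_lit 212) (nat_lit 5) (nat_lit 418) (nat_lit 355) (nat_lit 247)) (XT.lf (nat_lit 0) (nat_lit 8243440446) (nat_lit 304) (nat_lit 10506368237) (nat_lit 380) (nat_lit 92431079) (nat_lit 207) (nat_lit 5) (nat_lit 211) (nat_lit 5) (nat_lit 212) (nat_lit 5) (nat_lit 419) (nat_lit 355) (nat_lit 246)))))) (XT.nd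 (nat_lit 624) (nat_lit 1140) (nat_lit 0) (XT.nd (nat_lit 312) (nat_lit 532) (nat_lit 0) (XT.nd (nat_lit 156) (nat_lit 532) (nat_lit 0) (XT.nd (nat_lit 78) (nat_lit 0) (nat_lit 0) (XT.lf (nat_lit 0) (nat_lit 1539821818) (nat_lit 228) (nat_lit 3360796658) (nat_lit 304) (nat_lit 14283032959) (nat_lit 203) (nat_lit 5) (nat_lit 206) (nat_lit 5) (nat_lit 207) (nat_lit 5) (nat_lit 420) (nat_lit 355) (nat_lit 245)) (XT.lf (nat_lit 0) (nat_lit 10171693108) (nat_lit 304) (nat_lit 5339652508) (nat_lit 76) (nat_lit 4020029648) (nat_lit 203) (nat_lit 5) (nat_lit 207) (nat_lit 5) (nat_lit 204) (nat_lit 5) (nat_lit 421) (nat_lit 355) (nat_lit 244))) (XT.nd (nat_lit 78) (nat_lit 304) (nat_lit 0) (XT.lf (nat_lit 0) (nat_lit 7418923839) (nat_lit 228) (nat_lit 8270607748) (nat_lit 304) (nat_lit 4197340271) (nat_lit 200) (nat_lit 5) (nat_lit 203) (nat_lit 5) (nat_lit 204) (nat_lit 5) (nat_lit 422) (nat_lit 355) (nat_lit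 243)) (XT.lf (nat_lit 0) (nat_lit 388297544) (nat_lit 228) (nat_lit 752008552) (nat_lit 304) (nat_lit 19111135698) (nat_lit 196) (nat_lit 5) (nat_lit 199) (nat_lit 5) (nat_lit 200) (nat_lit 5) (nat_lit 423) (nat_lit 355) (nat_lit 242)))) (XT.nd (nat_lit 156) (nat_lit 304) (nat_lit 0) (XT.nd (nat_lit 78) (nat_lit 228) (nat_lit 0) (XT.lf (nat_lit 0) (nat_lit 6732294780) (nat_lit 304) (nat_lit 6873771518) (nat_lit 76) (nat_lit 7014278537) (nat_lit 196) (nat_lit 5) (nat_lit 200) (nat_lit 5) (nat_lit 197) (nat_lit 5) (nat_lit 424) (nat_lit 355) (nat_lit 241)) (XT.lf (nat_lit 0) (nat_lit 6601021477) (nat_lit 228) (nat_lit 5946594231) (nat_lit 304) (nat_lit 8451032081) (nat_lit 193) (nat_lit 5) (nat_lit 196) (nat_lit 5) (nat_lit 197) (nat_lit 5) (nat_lit 425) (nat_lit 355) (nat_lit 240))) (XT.nd (nat_lit 78) (nat_lit 304) (nat_lit 0) (XT.lf (nat_lit 0) (nat_lit 18610947030) (nat_lit 304) (nat_lit 810343888)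 (nat_lit 76) (nat_lit 1964802390) (nat_lit 193) (nat_lit 5) (nat_lit 197) (nat_lit 5) (nat_lit 194) (nat_lit 5) (nat_lit 426) (nat_lit 355) (nat_lit 239)) (XT.lf (nat_lit 0) (nat_lit 3185334418) (nat_lit 304) (nat_lit 8449784964) (nat_lit 76) (nat_lit 10143929850) (nat_lit 189) (nat_lit 5) (nat_lit 193) (nat_lit 5) (nat_lit 190) (nat_lit 5) (nat_lit 427) (nat_lit 355) (nat_lit 238))))) (XT.nd (nat_lit 312) (nat_lit 456) (nat_lit 0) (XT.nd (nat_lit 156) (nat_lit 456) (nat_lit 0) (XT.nd (nat_lit 78) (nat_lit 0) (nat_lit 0) (XT.lf (nat_lit 0) (nat_lit 5786452567) (nat_lit 228) (nat_lit 3531555585) (nat_lit 304) (nat_lit 12863486692) (nat_lit 186) (nat_lit 5) (nat_lit 189) (nat_lit 5) (nat_lit 190) (nat_lit 5) (nat_lit 428) (nat_lit 355) (nat_lit 237)) (XT.lf (nat_lit 0) (nat_lit 15752480851) (nat_lit 304) (nat_lit 2042715338) (nat_lit 76) (nat_lit 4797283072) (nat_lit 186) (nat_lit 5) (nat_lit 190) (nat_lit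 5) (nat_lit 187) (nat_lit 5) (nat_lit 429) (nat_lit 355) (nat_lit 236))) (XT.nd (nat_lit 78) (nat_lit 304) (nat_lit 0) (XT.lf (nat_lit 0) (nat_lit 12933200302) (nat_lit 152) (nat_lit 9591863356) (nat_lit 228) (nat_lit 486377275) (nat_lit 184) (nat_lit 5) (nat_lit 186) (nat_lit 5) (nat_lit 187) (nat_lit 5) (nat_lit 430) (nat_lit 355) (nat_lit 235)) (XT.lf (nat_lit 0) (nat_lit 4972070000) (nat_lit 228) (nat_lit 1022029286) (nat_lit 304) (nat_lit 17445491497) (nat_lit 180) (nat_lit 5) (nat_lit 183) (nat_lit 5) (nat_lit 184) (nat_lit 5) (nat_lit 431) (nat_lit 355) (nat_lit 234)))) (XT.nd (nat_lit 156) (nat_lit 304) (nat_lit 0) (XT.nd (nat_lit 78) (nat_lit 152) (nat_lit 0) (XT.lf (nat_lit 0) (nat_lit 12822931158) (nat_lit 304) (nat_lit 3302410205) (nat_lit 76) (nat_lit 7750187794) (nat_lit 180) (nat_lit 5) (nat_lit 184) (nat_lit 5) (nat_lit 181) (nat_lit 5) (nat_lit 432) (nat_lit 355) (nat_lit 233)) (XT.lf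 (nat_lit 0) (nat_lit 12528205507) (nat_lit 152) (nat_lit 7445293797) (nat_lit 228) (nat_lit 4347540239) (nat_lit 178) (nat_lit 5) (nat_lit 180) (nat_lit 5) (nat_lit 181) (nat_lit 5) (nat_lit 433) (nat_lit 355) (nat_lit 232))) (XT.nd (nat_lit 78) (nat_lit 0) (nat_lit 0) (XT.lf (nat_lit 0) (nat_lit 2583965497) (nat_lit 304) (nat_lit 20637791175) (nat_lit 76) (nat_lit 1555163951) (nat_lit 174) (nat_lit 5) (nat_lit 178) (nat_lit 5) (nat_lit 175) (nat_lit 5) (nat_lit 434) (nat_lit 355) (nat_lit 231)) (XT.lf (nat_lit 0) (nat_lit 9816448944) (nat_lit 304) (nat_lit 4593962519) (nat_lit 76) (nat_lit 10829362910) (nat_lit 174) (nat_lit 5) (nat_lit 178) (nat_lit 5) (nat_lit 175) (nat_lit 5) (nat_lit 435) (nat_lit 355) (nat_lit 230))))))))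
noncomputable def xc136 : XT := (XT.nd (nat_lit 2340) (nat_lit 2128) (nat_lit 0) (XT.nd (nat_lit 1170) (nat_lit 1520) (nat_lit 0) (XT.nd (nat_lit 546) (nat_lit 912) (nat_lit 0) (XT.nd (nat_lit 234) (nat_lit 532) (nat_lit 0) (XT.nd (nat_lit 78) (nat_lit 228) (nat_lit 0) (XT.lf (nat_lit 0) (nat_lit 12144958800) (nat_lit 152) (nat_lit 5224522436) (nat_lit 228) (nat_lit 8343925271) (nat_lit 172) (nat_lit 5) (nat_lit 174) (nat_lit 5) (nat_lit 175) (nat_lit 5) (nat_lit 436) (nat_lit 355) (nat_lit 229)) (XT.nd (nat_lit 78) (nat_lit 76) (nat_lit 0) (XT.lf (nat_lit 0) (nat_lit 3279898001) (nat_lit 152) (nat_lit 21975208585) (nat_lit 228) (nat_lit 942960954) (nat_lit 170) (nat_lit 5) (nat_lit 172) (nat_lit 5) (nat_lit 173) (nat_lit 5) (nat_lit 437) (nat_lit 355) (nat_lit 228)) (XT.lf (nat_lit 0) (nat_lit 6726708246) (nat_lit 228) (nat_lit 5921933809) (nat_lit 76) (nat_lit 14041389150) (nat_lit 169) (nat_lit 5)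 (nat_lit 172) (nat_lit 5) (nat_lit 170) (nat_lit 5) (nat_lit 438) (nat_lit 355) (nat_lit 227)))) (XT.nd (nat_lit 156) (nat_lit 228) (nat_lit 0) (XT.nd (nat_lit 78) (nat_lit 152) (nat_lit 0) (XT.lf (nat_lit 0) (nat_lit 11782130847) (nat_lit 152) (nat_lit 2925950079) (nat_lit 228) (nat_lit 12485375787) (nat_lit 167) (nat_lit 5) (nat_lit 169) (nat_lit 5) (nat_lit 170) (nat_lit 5) (nat_lit 439) (nat_lit 355) (nat_lit 226)) (XT.lf (nat_lit 0) (nat_lit 2383609780) (nat_lit 152) (nat_lit 20684096192) (nat_lit 228) (nat_lit 4640114678) (nat_lit 165) (nat_lit 5) (nat_lit 167) (nat_lit 5) (nat_lit 168) (nat_lit 5) (nat_lit 440) (nat_lit 355) (nat_lit 225))) (XT.nd (nat_lit 78) (nat_lit 152) (nat_lit 0) (XT.lf (nat_lit 0) (nat_lit 3546899012) (nat_lit 228) (nat_lit 7290940425) (nat_lit 76) (nat_lit 17393577960) (nat_lit 164) (nat_lit 5) (nat_lit 167) (nat_lit 5) (nat_lit 165) (nat_lit 5) (nat_lit 441) (nat_lit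 355) (nat_lit 224)) (XT.lf (nat_lit 0) (nat_lit 11438533842) (nat_lit 152) (nat_lit 545445406) (nat_lit 228) (nat_lit 16782433012) (nat_lit 162) (nat_lit 5) (nat_lit 164) (nat_lit 5) (nat_lit 165) (nat_lit 5) (nat_lit 442) (nat_lit 355) (nat_lit 223))))) (XT.nd (nat_lit 312) (nat_lit 380) (nat_lit 0) (XT.nd (nat_lit 156) (nat_lit 304) (nat_lit 0) (XT.nd (nat_lit 78) (nat_lit 76) (nat_lit 0) (XT.lf (nat_lit 0) (nat_lit 1473348647) (nat_lit 152) (nat_lit 19373817196) (nat_lit 228) (nat_lit 8465101307) (nat_lit 160) (nat_lit 5) (nat_lit 162) (nat_lit 5) (nat_lit 163) (nat_lit 5) (nat_lit 443) (nat_lit 355) (nat_lit 222)) (XT.lf (nat_lit 0) (nat_lit 269716853) (nat_lit 228) (nat_lit 8705679721) (nat_lit 76) (nat_lit 20893973209) (nat_lit 159) (nat_lit 5) (nat_lit 162) (nat_lit 5) (nat_lit 160) (nat_lit 5) (nat_lit 444) (nat_lit 355) (nat_lit 221))) (XT.nd (nat_lit 78) (nat_lit 152) (nat_lit 0) (XT.lf (nat_lit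 0) (nat_lit 9209933085) (nat_lit 228) (nat_lit 19343185047) (nat_lit 76) (nat_lit 1884148166) (nat_lit 157) (nat_lit 5) (nat_lit 160) (nat_lit 5) (nat_lit 158) (nat_lit 5) (nat_lit 445) (nat_lit 355) (nat_lit 220)) (XT.lf (nat_lit 0) (nat_lit 546112014) (nat_lit 152) (nat_lit 18043381811) (nat_lit 228) (nat_lit 12427571743) (nat_lit 155) (nat_lit 5) (nat_lit 157) (nat_lit 5) (nat_lit 158) (nat_lit 5) (nat_lit 446) (nat_lit 355) (nat_lit 219)))) (XT.nd (nat_lit 156) (nat_lit 152) (nat_lit 0) (XT.nd (nat_lit 78) (nat_lit 228) (nat_lit 0) (XT.lf (nat_lit 0) (nat_lit 21407276049) (nat_lit 152) (nat_lit 7026873463) (nat_lit 228) (nat_lit 3174598060) (nat_lit 155) (nat_lit 5) (nat_lit 157) (nat_lit 5) (nat_lit 158) (nat_lit 5) (nat_lit 447) (nat_lit 355) (nat_lit 218)) (XT.lf (nat_lit 0) (nat_lit 6367476371) (nat_lit 228) (nat_lit 21451735934) (nat_lit 76) (nat_lit 4393068630) (nat_lit 152) (nat_lit 5) (nat_lit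 155) (nat_lit 5) (nat_lit 153) (nat_lit 5) (nat_lit 448) (nat_lit 355) (nat_lit 217))) (XT.nd (nat_lit 78) (nat_lit 152) (nat_lit 0) (XT.lf (nat_lit 0) (nat_lit 16294262785) (nat_lit 228) (nat_lit 393287669) (nat_lit 76) (nat_lit 16140559214) (nat_lit 152) (nat_lit 5) (nat_lit 155) (nat_lit 5) (nat_lit 153) (nat_lit 5) (nat_lit 449) (nat_lit 355) (nat_lit 216)) (XT.lf (nat_lit 0) (nat_lit 21699994646) (nat_lit 152) (nat_lit 5016430616) (nat_lit 228) (nat_lit 6740060825) (nat_lit 150) (nat_lit 5) (nat_lit 152) (nat_lit 5) (nat_lit 153) (nat_lit 5) (nat_lit 450) (nat_lit 355) (nat_lit 215)))))) (XT.nd (nat_lit 546) (nat_lit 836) (nat_lit 0) (XT.nd (nat_lit 234) (nat_lit 380) (nat_lit 0) (XT.nd (nat_lit 78) (nat_lit 152) (nat_lit 0) (XT.lf (nat_lit 0) (nat_lit 3444886775) (nat_lit 152) (nat_lit 23655440421) (nat_lit 76) (nat_lit 6997541132) (nat_lit 148) (nat_lit 5) (nat_lit 150) (nat_lit 5) (nat_lit 149)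 (nat_lit 5) (nat_lit 451) (nat_lit 355) (nat_lit 214)) (XT.nd (nat_lit 78) (nat_lit 152) (nat_lit 0) (XT.lf (nat_lit 0) (nat_lit 13958509916) (nat_lit 152) (nat_lit 1344616152) (nat_lit 76) (nat_lit 19448606100) (nat_lit 148) (nat_lit 5) (nat_lit 150) (nat_lit 5) (nat_lit 149) (nat_lit 5) (nat_lit 452) (nat_lit 355) (nat_lit 213)) (XT.lf (nat_lit 0) (nat_lit 22045901872) (nat_lit 152) (nat_lit 2942913039) (nat_lit 228) (nat_lit 10430358818) (nat_lit 146) (nat_lit 5) (nat_lit 148) (nat_lit 5) (nat_lit 149) (nat_lit 5) (nat_lit 453) (nat_lit 355) (nat_lit 212)))) (XT.nd (nat_lit 156) (nat_lit 228) (nat_lit 0) (XT.nd (nat_lit 78) (nat_lit 0) (nat_lit 0) (XT.lf (nat_lit 0) (nat_lit 435262481) (nat_lit 152) (nat_lit 25961748239) (nat_lit 76) (nat_lit 9703658984) (nat_lit 144) (nat_lit 5) (nat_lit 146) (nat_lit 5) (nat_lit 145) (nat_lit 5) (nat_lit 454) (nat_lit 355) (nat_lit 211)) (XT.lf (nat_lit 0) (nat_lit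 11572135621) (nat_lit 152) (nat_lit 2321561296) (nat_lit 76) (nat_lit 22901167825) (nat_lit 144) (nat_lit 5) (nat_lit 146) (nat_lit 5) (nat_lit 145) (nat_lit 5) (nat_lit 455) (nat_lit 355) (nat_lit 210))) (XT.nd (nat_lit 78) (nat_lit 76) (nat_lit 0) (XT.lf (nat_lit 0) (nat_lit 22446547249) (nat_lit 152) (nat_lit 802050699) (nat_lit 228) (nat_lit 14255123192) (nat_lit 142) (nat_lit 5) (nat_lit 144) (nat_lit 5) (nat_lit 145) (nat_lit 5) (nat_lit 456) (nat_lit 355) (nat_lit 209)) (XT.lf (nat_lit 0) (nat_lit 9822348649) (nat_lit 76) (nat_lit 25682752794) (nat_lit 152) (nat_lit 2721849368) (nat_lit 141) (nat_lit 5) (nat_lit 142) (nat_lit 5) (nat_lit 143) (nat_lit 4) (nat_lit 457) (nat_lit 355) (nat_lit 208))))) (XT.nd (nat_lit 312) (nat_lit 456) (nat_lit 0) (XT.nd (nat_lit 156) (nat_lit 152) (nat_lit 0) (XT.nd (nat_lit 78) (nat_lit 152) (nat_lit 0) (XT.lf (nat_lit 0) (nat_lit 9129980277) (nat_lit 152) (nat_lit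 3327216431) (nat_lit 76) (nat_lit 26507502305) (nat_lit 140) (nat_lit 5) (nat_lit 142) (nat_lit 5) (nat_lit 141) (nat_lit 5) (nat_lit 458) (nat_lit 355) (nat_lit 207)) (XT.lf (nat_lit 0) (nat_lit 21506440123) (nat_lit 228) (nat_lit 16827328796) (nat_lit 76) (nat_lit 1383288819) (nat_lit 138) (nat_lit 5) (nat_lit 141) (nat_lit 5) (nat_lit 139) (nat_lit 4) (nat_lit 459) (nat_lit 355) (nat_lit 206))) (XT.nd (nat_lit 78) (nat_lit 76) (nat_lit 0) (XT.lf (nat_lit 0) (nat_lit 9513576236) (nat_lit 76) (nat_lit 24979419911) (nat_lit 152) (nat_lit 5991827004) (nat_lit 137) (nat_lit 5) (nat_lit 138) (nat_lit 5) (nat_lit 139) (nat_lit 4) (nat_lit 460) (nat_lit 355) (nat_lit 205)) (XT.lf (nat_lit 0) (nat_lit 6626564522) (nat_lit 152) (nat_lit 4364752606) (nat_lit 76) (nat_lit 30277551950) (nat_lit 136) (nat_lit 5) (nat_lit 138) (nat_lit 5) (nat_lit 137) (nat_lit 5) (nat_lit 461) (nat_lit 355) (nat_lit 204)))) (XT.nd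 (nat_lit 156) (nat_lit 228) (nat_lit 0) (XT.nd (nat_lit 78) (nat_lit 76) (nat_lit 0) (XT.lf (nat_lit 0) (nat_lit 19754156648) (nat_lit 228) (nat_lit 18684427690) (nat_lit 76) (nat_lit 3628539933) (nat_lit 134) (nat_lit 5) (nat_lit 137) (nat_lit 5) (nat_lit 135) (nat_lit 4) (nat_lit 462) (nat_lit 355) (nat_lit 203)) (XT.lf (nat_lit 0) (nat_lit 9216326820) (nat_lit 76) (nat_lit 24291586879) (nat_lit 152) (nat_lit 9374443308) (nat_lit 133) (nat_lit 5) (nat_lit 134) (nat_lit 5) (nat_lit 135) (nat_lit 4) (nat_lit 463) (nat_lit 355) (nat_lit 202))) (XT.nd (nat_lit 78) (nat_lit 152) (nat_lit 0) (XT.lf (nat_lit 0) (nat_lit 4056077301) (nat_lit 152) (nat_lit 5437433901) (nat_lit 76) (nat_lit 34221966895) (nat_lit 132) (nat_lit 5) (nat_lit 134) (nat_lit 5) (nat_lit 133) (nat_lit 5) (nat_lit 464) (nat_lit 355) (nat_lit 201)) (XT.lf (nat_lit 0) (nat_lit 17980834942) (nat_lit 228) (nat_lit 20626872352) (nat_lit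 76) (nat_lit 5954708882) (nat_lit 130) (nat_lit 5) (nat_lit 133) (nat_lit 5) (nat_lit 131) (nat_lit 4) (nat_lit 465) (nat_lit 355) (nat_lit 200))))))) (XT.nd (nat_lit 1170) (nat_lit 760) (nat_lit 0) (XT.nd (nat_lit 546) (nat_lit 684) (nat_lit 0) (XT.nd (nat_lit 234) (nat_lit 380) (nat_lit 0) (XT.nd (nat_lit 78) (nat_lit 228) (nat_lit 0) (XT.lf (nat_lit 0) (nat_lit 8929982693) (nat_lit 76) (nat_lit 23619358203) (nat_lit 152) (nat_lit 12878641337) (nat_lit 129) (nat_lit 5) (nat_lit 130) (nat_lit 5) (nat_lit 131) (nat_lit 4) (nat_lit 466) (nat_lit 355) (nat_lit 199)) (XT.nd (nat_lit 78) (nat_lit 152) (nat_lit 0) (XT.lf (nat_lit 0) (nat_lit 1412362148) (nat_lit 152) (nat_lit 6548632551) (nat_lit 76) (nat_lit 38352131844) (nat_lit 128) (nat_lit 5) (nat_lit 130) (nat_lit 5) (nat_lit 129) (nat_lit 5) (nat_lit 467) (nat_lit 355) (nat_lit 198)) (XT.lf (nat_lit 0) (nat_lit 16183089705) (nat_lit 228) (nat_lit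 22661059979) (nat_lit 76) (nat_lit 8367554904) (nat_lit 126) (nat_lit 5) (nat_lit 129) (nat_lit 5) (nat_lit 127) (nat_lit 4) (nat_lit 468) (nat_lit 355) (nat_lit 197)))) (XT.nd (nat_lit 156) (nat_lit 304) (nat_lit 0) (XT.nd (nat_lit 78) (nat_lit 0) (nat_lit 0) (XT.lf (nat_lit 0) (nat_lit 8653975596) (nat_lit 76) (nat_lit 22962773345) (nat_lit 152) (nat_lit 16513896738) (nat_lit 125) (nat_lit 5) (nat_lit 126) (nat_lit 5) (nat_lit 127) (nat_lit 4) (nat_lit 469) (nat_lit 355) (nat_lit 196)) (XT.lf (nat_lit 0) (nat_lit 41355858705) (nat_lit 76) (nat_lit 6377506180) (nat_lit 152) (nat_lit 1337191709) (nat_lit 125) (nat_lit 5) (nat_lit 126) (nat_lit 5) (nat_lit 127) (nat_lit 4) (nat_lit 470) (nat_lit 355) (nat_lit 195))) (XT.nd (nat_lit 78) (nat_lit 76) (nat_lit 0) (XT.lf (nat_lit 0) (nat_lit 14357347116) (nat_lit 228) (nat_lit 24793698777) (nat_lit 76) (nat_lit 10873252350) (nat_lit 122) (nat_lit 5) (nat_lit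 125) (nat_lit 5) (nat_lit 123) (nat_lit 4) (nat_lit 471) (nat_lit 355) (nat_lit 194)) (XT.lf (nat_lit 0) (nat_lit 8387781769) (nat_lit 76) (nat_lit 22321815539) (nat_lit 152) (nat_lit 20290245105) (nat_lit 121) (nat_lit 5) (nat_lit 122) (nat_lit 5) (nat_lit 123) (nat_lit 4) (nat_lit 472) (nat_lit 355) (nat_lit 193))))) (XT.nd (nat_lit 312) (nat_lit 380) (nat_lit 0) (XT.nd (nat_lit 156) (nat_lit 76) (nat_lit 0) (XT.nd (nat_lit 78) (nat_lit 228) (nat_lit 0) (XT.lf (nat_lit 0) (nat_lit 43056294148) (nat_lit 76) (nat_lit 4737886398) (nat_lit 152) (nat_lit 4203219394) (nat_lit 121) (nat_lit 5) (nat_lit 122) (nat_lit 5) (nat_lit 123) (nat_lit 4) (nat_lit 473) (nat_lit 355) (nat_lit 192)) (XT.lf (nat_lit 0) (nat_lit 12499837706) (nat_lit 228) (nat_lit 27031834054) (nat_lit 76) (nat_lit 13478404209) (nat_lit 118) (nat_lit 5) (nat_lit 121) (nat_lit 5) (nat_lit 119) (nat_lit 4) (nat_lit 474) (nat_lit 355) (nat_lit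 191))) (XT.nd (nat_lit 78) (nat_lit 0) (nat_lit 0) (XT.lf (nat_lit 0) (nat_lit 8130917539) (nat_lit 76) (nat_lit 21696419562) (nat_lit 152) (nat_lit 24218311762) (nat_lit 117) (nat_lit 5) (nat_lit 118) (nat_lit 5) (nat_lit 119) (nat_lit 4) (nat_lit 475) (nat_lit 355) (nat_lit 190)) (XT.lf (nat_lit 0) (nat_lit 44886481613) (nat_lit 76) (nat_lit 3052818363) (nat_lit 152) (nat_lit 7165049814) (nat_lit 117) (nat_lit 5) (nat_lit 118) (nat_lit 5) (nat_lit 119) (nat_lit 4) (nat_lit 476) (nat_lit 355) (nat_lit 189)))) (XT.nd (nat_lit 156) (nat_lit 152) (nat_lit 0) (XT.nd (nat_lit 78) (nat_lit 76) (nat_lit 0) (XT.lf (nat_lit 0) (nat_lit 10606588125) (nat_lit 152) (nat_lit 29382875158) (nat_lit 76) (nat_lit 16190057904) (nat_lit 115) (nat_lit 5) (nat_lit 117) (nat_lit 5) (nat_lit 116) (nat_lit 4) (nat_lit 477) (nat_lit 355) (nat_lit 188)) (XT.lf (nat_lit 0) (nat_lit 7882935383) (nat_lit 76) (nat_lit 21086478612)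 (nat_lit 152) (nat_lit 28309344023) (nat_lit 114) (nat_lit 5) (nat_lit 115) (nat_lit 5) (nat_lit 116) (nat_lit 4) (nat_lit 478) (nat_lit 355) (nat_lit 187))) (XT.nd (nat_lit 78) (nat_lit 152) (nat_lit 0) (XT.lf (nat_lit 0) (nat_lit 46853296152) (nat_lit 76) (nat_lit 1318469733) (nat_lit 152) (nat_lit 10230546832) (nat_lit 114) (nat_lit 5) (nat_lit 115) (nat_lit 5) (nat_lit 116) (nat_lit 4) (nat_lit 479) (nat_lit 355) (nat_lit 186)) (XT.lf (nat_lit 0) (nat_lit 8673411819) (nat_lit 152) (nat_lit 31854623380) (nat_lit 76) (nat_lit 19015723326) (nat_lit 112) (nat_lit 5) (nat_lit 114) (nat_lit 5) (nat_lit 113) (nat_lit 4) (nat_lit 480) (nat_lit 355) (nat_lit 185)))))) (XT.nd (nat_lit 624) (nat_lit 228) (nat_lit 0) (XT.nd (nat_lit 312) (nat_lit 228) (nat_lit 0) (XT.nd (nat_lit 156) (nat_lit 228) (nat_lit 0) (XT.nd (nat_lit 78) (nat_lit 0) (nat_lit 0) (XT.lf (nat_lit 0) (nat_lit 7643420417) (nat_lit 76) (nat_lit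 20491850361) (nat_lit 152) (nat_lit 32575245991) (nat_lit 111) (nat_lit 5) (nat_lit 112) (nat_lit 5) (nat_lit 113) (nat_lit 4) (nat_lit 481) (nat_lit 355) (nat_lit 184)) (XT.lf (nat_lit 0) (nat_lit 48499349370) (nat_lit 152) (nat_lit 12943282069) (nat_lit 0) (nat_lit 460095406) (nat_lit 111) (nat_lit 5) (nat_lit 113) (nat_lit 4) (nat_lit 111) (nat_lit 4) (nat_lit 482) (nat_lit 355) (nat_lit 183))) (XT.nd (nat_lit 78) (nat_lit 76) (nat_lit 0) (XT.lf (nat_lit 0) (nat_lit 6695898620) (nat_lit 152) (nat_lit 34455300963) (nat_lit 76) (nat_lit 21963393101) (nat_lit 109) (nat_lit 5) (nat_lit 111) (nat_lit 5) (nat_lit 110) (nat_lit 4) (nat_lit 483) (nat_lit 355) (nat_lit 182)) (XT.lf (nat_lit 0) (nat_lit 7411987256) (nat_lit 76) (nat_lit 19912362301) (nat_lit 152) (nat_lit 37028616005) (nat_lit 108) (nat_lit 5) (nat_lit 109) (nat_lit 5) (nat_lit 110) (nat_lit 4) (nat_lit 484) (nat_lit 355) (nat_lit 181))))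 (XT.nd (nat_lit 156) (nat_lit 76) (nat_lit 0) (XT.nd (nat_lit 78) (nat_lit 152) (nat_lit 0) (XT.lf (nat_lit 0) (nat_lit 48934262116) (nat_lit 152) (nat_lit 14413808425) (nat_lit 0) (nat_lit 2269540842) (nat_lit 108) (nat_lit 5) (nat_lit 110) (nat_lit 4) (nat_lit 108) (nat_lit 4) (nat_lit 485) (nat_lit 355) (nat_lit 180)) (XT.lf (nat_lit 0) (nat_lit 4669403250) (nat_lit 152) (nat_lit 37193581348) (nat_lit 76) (nat_lit 25041565092) (nat_lit 106) (nat_lit 5) (nat_lit 108) (nat_lit 5) (nat_lit 107) (nat_lit 4) (nat_lit 486) (nat_lit 355) (nat_lit 179))) (XT.nd (nat_lit 78) (nat_lit 0) (nat_lit 0) (XT.lf (nat_lit 0) (nat_lit 7188277214) (nat_lit 76) (nat_lit 19347816452) (nat_lit 152) (nat_lit 41682786806) (nat_lit 105) (nat_lit 5) (nat_lit 106) (nat_lit 5) (nat_lit 107) (nat_lit 4) (nat_lit 487) (nat_lit 355) (nat_lit 178)) (XT.lf (nat_lit 0) (nat_lit 49467617466) (nat_lit 152) (nat_lit 15952613883) (nat_lit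 0) (nat_lit 4140144849) (nat_lit 105) (nat_lit 5) (nat_lit 107) (nat_lit 4) (nat_lit 105) (nat_lit 4) (nat_lit 488) (nat_lit 355) (nat_lit 177))))) (XT.nd (nat_lit 42822) (nat_lit 0) (nat_lit 25308) (XT.nd (nat_lit 156) (nat_lit 0) (nat_lit 0) (XT.nd (nat_lit 78) (nat_lit 76) (nat_lit 0) (XT.lf (nat_lit 0) (nat_lit 2589032719) (nat_lit 152) (nat_lit 40078620791) (nat_lit 76) (nat_lit 28259267162) (nat_lit 103) (nat_lit 5) (nat_lit 105) (nat_lit 5) (nat_lit 104) (nat_lit 4) (nat_lit 489) (nat_lit 355) (nat_lit 176)) (XT.lf (nat_lit 0) (nat_lit 6971955800) (nat_lit 76) (nat_lit 18797993502) (nat_lit 152) (nat_lit 46551868555) (nat_lit 102) (nat_lit 5) (nat_lit 103) (nat_lit 5) (nat_lit 104) (nat_lit 4) (nat_lit 490) (nat_lit 355) (nat_lit 175))) (XT.nd (nat_lit 42588) (nat_lit 0) (nat_lit 26220) (XT.lf (nat_lit 0) (nat_lit 50103471287) (nat_lit 152) (nat_lit 17564632857) (nat_lit 0) (nat_lit 6076742476)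 (nat_lit 102) (nat_lit 5) (nat_lit 104) (nat_lit 4) (nat_lit 102) (nat_lit 4) (nat_lit 491) (nat_lit 355) (nat_lit 174)) (XT.lf (nat_lit 0) (nat_lit 1402699730) (nat_lit 0) (nat_lit 1402699730) (nat_lit 836) (nat_lit 956750228) (nat_lit 447) (nat_lit 5) (nat_lit 447) (nat_lit 3) (nat_lit 458) (nat_lit 3) (nat_lit 356) (nat_lit 356) (nat_lit 308)))) (XT.nd (nat_lit 156) (nat_lit 0) (nat_lit 0) (XT.nd (nat_lit 78) (nat_lit 912) (nat_lit 0) (XT.lf (nat_lit 0) (nat_lit 6651552602) (nat_lit 0) (nat_lit 479351495) (nat_lit 836) (nat_lit 463181473) (nat_lit 447) (nat_lit 5) (nat_lit 447) (nat_lit 3) (nat_lit 458) (nat_lit 3) (nat_lit 357) (nat_lit 356) (nat_lit 307)) (XT.lf (nat_lit 0) (nat_lit 1001516821) (nat_lit 912) (nat_lit 4719629977) (nat_lit 988) (nat_lit 1944791895) (nat_lit 435) (nat_lit 5) (nat_lit 447) (nat_lit 5) (nat_lit 448) (nat_lit 5) (nat_lit 358) (nat_lit 356) (nat_lit 306))) (XT.nd (nat_lit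 78) (nat_lit 0) (nat_lit 0) (XT.lf (nat_lit 0) (nat_lit 2460233306) (nat_lit 912) (nat_lit 808722669) (nat_lit 988) (nat_lit 4472072255) (nat_lit 435) (nat_lit 5) (nat_lit 447) (nat_lit 5) (nat_lit 448) (nat_lit 5) (nat_lit 359) (nat_lit 356) (nat_lit 305)) (XT.lf (nat_lit 76) (nat_lit 3253116933) (nat_lit 0) (nat_lit 687495113) (nat_lit 988) (nat_lit 3878421383) (nat_lit 436) (nat_lit 5) (nat_lit 435) (nat_lit 5) (nat_lit 448) (nat_lit 5) (nat_lit 360) (nat_lit 356) (nat_lit 304))))))))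
noncomputable def xc137 : XT := (XT.nd (nat_lit 2340) (nat_lit 7524) (nat_lit 0) (XT.nd (nat_lit 1170) (nat_lit 6156) (nat_lit 0) (XT.nd (nat_lit 546) (nat_lit 3040) (nat_lit 0) (XT.nd (nat_lit 234) (nat_lit 0) (nat_lit 76) (XT.nd (nat_lit 78) (nat_lit 988) (nat_lit 0) (XT.lf (nat_lit 0) (nat_lit 5440716293) (nat_lit 912) (nat_lit 496136816) (nat_lit 988) (nat_lit 1963266251) (nat_lit 436) (nat_lit 5) (nat_lit 448) (nat_lit 5) (nat_lit 449) (nat_lit 5) (nat_lit 361) (nat_lit 356) (nat_lit 303)) (XT.nd (nat_lit 78) (nat_lit 988) (nat_lit 0) (XT.lf (nat_lit 76) (nat_lit 3731292244) (nat_lit 0) (nat_lit 3246833319) (nat_lit 988) (nat_lit 1005743249) (nat_lit 437) (nat_lit 5) (nat_lit 436) (nat_lit 5) (nat_lit 449) (nat_lit 5) (nat_lit 362) (nat_lit 356) (nat_lit 302)) (XT.lf (nat_lit 0) (nat_lit 437312341) (nat_lit 988) (nat_lit 10178750) (nat_lit 1064) (nat_lit 7623836589) (nat_lit 423) (nat_lit 5) (nat_lit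 436) (nat_lit 5) (nat_lit 437) (nat_lit 5) (nat_lit 363) (nat_lit 356) (nat_lit 301)))) (XT.nd (nat_lit 156) (nat_lit 0) (nat_lit 76) (XT.nd (nat_lit 78) (nat_lit 0) (nat_lit 0) (XT.lf (nat_lit 0) (nat_lit 1921661745) (nat_lit 988) (nat_lit 3780129550) (nat_lit 1064) (nat_lit 2458773784) (nat_lit 424) (nat_lit 5) (nat_lit 437) (nat_lit 5) (nat_lit 438) (nat_lit 5) (nat_lit 364) (nat_lit 356) (nat_lit 300)) (XT.lf (nat_lit 76) (nat_lit 626785876) (nat_lit 0) (nat_lit 2787362407) (nat_lit 1064) (nat_lit 4839423119) (nat_lit 425) (nat_lit 5) (nat_lit 424) (nat_lit 5) (nat_lit 438) (nat_lit 5) (nat_lit 365) (nat_lit 356) (nat_lit 299))) (XT.nd (nat_lit 78) (nat_lit 0) (nat_lit 0) (XT.lf (nat_lit 0) (nat_lit 4946277062) (nat_lit 988) (nat_lit 3139987321) (nat_lit 1064) (nat_lit 263257501) (nat_lit 425) (nat_lit 5) (nat_lit 438) (nat_lit 5) (nat_lit 439) (nat_lit 5) (nat_lit 366) (nat_lit 356) (nat_lit 298))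 (XT.lf (nat_lit 76) (nat_lit 1450349362) (nat_lit 0) (nat_lit 5071147897) (nat_lit 1064) (nat_lit 1926939796) (nat_lit 426) (nat_lit 5) (nat_lit 425) (nat_lit 5) (nat_lit 439) (nat_lit 5) (nat_lit 367) (nat_lit 356) (nat_lit 297))))) (XT.nd (nat_lit 312) (nat_lit 2204) (nat_lit 0) (XT.nd (nat_lit 156) (nat_lit 0) (nat_lit 0) (XT.nd (nat_lit 78) (nat_lit 988) (nat_lit 0) (XT.lf (nat_lit 76) (nat_lit 6211304913) (nat_lit 0) (nat_lit 1920956280) (nat_lit 1064) (nat_lit 418409874) (nat_lit 426) (nat_lit 5) (nat_lit 425) (nat_lit 5) (nat_lit 439) (nat_lit 5) (nat_lit 368) (nat_lit 356) (nat_lit 296)) (XT.lf (nat_lit 0) (nat_lit 1107516410) (nat_lit 1064) (nat_lit 6204472324) (nat_lit 1140) (nat_lit 1343827075) (nat_lit 412) (nat_lit 5) (nat_lit 426) (nat_lit 5) (nat_lit 427) (nat_lit 5) (nat_lit 369) (nat_lit 356) (nat_lit 295))) (XT.nd (nat_lit 78) (nat_lit 0) (nat_lit 0) (XT.lf (nat_lit 0) (nat_lit 2672156487)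 (nat_lit 1064) (nat_lit 1385504595) (nat_lit 1140) (nat_lit 4706289163) (nat_lit 412) (nat_lit 5) (nat_lit 426) (nat_lit 5) (nat_lit 427) (nat_lit 5) (nat_lit 370) (nat_lit 356) (nat_lit 294)) (XT.lf (nat_lit 76) (nat_lit 3617128392) (nat_lit 0) (nat_lit 661056410) (nat_lit 1140) (nat_lit 4597310440) (nat_lit 413) (nat_lit 5) (nat_lit 412) (nat_lit 5) (nat_lit 427) (nat_lit 5) (nat_lit 371) (nat_lit 356) (nat_lit 293)))) (XT.nd (nat_lit 156) (nat_lit 1216) (nat_lit 0) (XT.nd (nat_lit 78) (nat_lit 1064) (nat_lit 0) (XT.lf (nat_lit 0) (nat_lit 5934431800) (nat_lit 1064) (nat_lit 251579951) (nat_lit 76) (nat_lit 2804313703) (nat_lit 413) (nat_lit 5) (nat_lit 427) (nat_lit 5) (nat_lit 414) (nat_lit 5) (nat_lit 372) (nat_lit 356) (nat_lit 292)) (XT.lf (nat_lit 0) (nat_lit 4964239370) (nat_lit 1064) (nat_lit 2692171019) (nat_lit 1140) (nat_lit 1451708858) (nat_lit 399) (nat_lit 5) (nat_lit 413) (nat_lit 5)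 (nat_lit 414) (nat_lit 5) (nat_lit 373) (nat_lit 356) (nat_lit 291))) (XT.nd (nat_lit 78) (nat_lit 0) (nat_lit 0) (XT.lf (nat_lit 0) (nat_lit 180967253) (nat_lit 1216) (nat_lit 8139157335) (nat_lit 76) (nat_lit 909736010) (nat_lit 383) (nat_lit 5) (nat_lit 399) (nat_lit 5) (nat_lit 384) (nat_lit 5) (nat_lit 374) (nat_lit 356) (nat_lit 290)) (XT.lf (nat_lit 0) (nat_lit 1865430853) (nat_lit 1216) (nat_lit 2860959367) (nat_lit 76) (nat_lit 4627473216) (nat_lit 383) (nat_lit 5) (nat_lit 399) (nat_lit 5) (nat_lit 384) (nat_lit 5) (nat_lit 375) (nat_lit 356) (nat_lit 289)))))) (XT.nd (nat_lit 546) (nat_lit 2812) (nat_lit 0) (XT.nd (nat_lit 234) (nat_lit 1292) (nat_lit 0) (XT.nd (nat_lit 78) (nat_lit 836) (nat_lit 0) (XT.lf (nat_lit 0) (nat_lit 2594378081) (nat_lit 1216) (nat_lit 995135228) (nat_lit 1292) (nat_lit 5892400500) (nat_lit 367) (nat_lit 5) (nat_lit 383) (nat_lit 5) (nat_lit 384) (nat_lit 5) (nat_lit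 376) (nat_lit 356) (nat_lit 288)) (XT.nd (nat_lit 78) (nat_lit 836) (nat_lit 0) (XT.lf (nat_lit 0) (nat_lit 5386793660) (nat_lit 1292) (nat_lit 1401187735) (nat_lit 76) (nat_lit 2825180037) (nat_lit 367) (nat_lit 5) (nat_lit 384) (nat_lit 5) (nat_lit 368) (nat_lit 5) (nat_lit 377) (nat_lit 356) (nat_lit 287)) (XT.lf (nat_lit 0) (nat_lit 4291991892) (nat_lit 836) (nat_lit 2963054321) (nat_lit 912) (nat_lit 2492788657) (nat_lit 356) (nat_lit 5) (nat_lit 367) (nat_lit 5) (nat_lit 368) (nat_lit 5) (nat_lit 378) (nat_lit 356) (nat_lit 286)))) (XT.nd (nat_lit 156) (nat_lit 608) (nat_lit 0) (XT.nd (nat_lit 78) (nat_lit 76) (nat_lit 0) (XT.lf (nat_lit 0) (nat_lit 261777919) (nat_lit 608) (nat_lit 8910415719) (nat_lit 684) (nat_lit 714569454) (nat_lit 348) (nat_lit 5) (nat_lit 356) (nat_lit 5) (nat_lit 357) (nat_lit 5) (nat_lit 379) (nat_lit 356) (nat_lit 285)) (XT.lf (nat_lit 0) (nat_lit 1147168943) (nat_lit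 684) (nat_lit 3838767144) (nat_lit 76) (nat_lit 5042041879) (nat_lit 347) (nat_lit 5) (nat_lit 356) (nat_lit 5) (nat_lit 348) (nat_lit 5) (nat_lit 380) (nat_lit 356) (nat_lit 284))) (XT.nd (nat_lit 78) (nat_lit 0) (nat_lit 0) (XT.lf (nat_lit 0) (nat_lit 2123647385) (nat_lit 608) (nat_lit 915118401) (nat_lit 684) (nat_lit 7134800199) (nat_lit 339) (nat_lit 5) (nat_lit 347) (nat_lit 5) (nat_lit 348) (nat_lit 5) (nat_lit 381) (nat_lit 356) (nat_lit 283)) (XT.lf (nat_lit 0) (nat_lit 5026352260) (nat_lit 684) (nat_lit 2043011585) (nat_lit 76) (nat_lit 3252980547) (nat_lit 339) (nat_lit 5) (nat_lit 348) (nat_lit 5) (nat_lit 340) (nat_lit 5) (nat_lit 382) (nat_lit 356) (nat_lit 282))))) (XT.nd (nat_lit 312) (nat_lit 1064) (nat_lit 0) (XT.nd (nat_lit 156) (nat_lit 1216) (nat_lit 0) (XT.nd (nat_lit 78) (nat_lit 0) (nat_lit 0) (XT.lf (nat_lit 0) (nat_lit 4185269092) (nat_lit 532) (nat_lit 2907089622) (nat_lit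 608) (nat_lit 3382663666) (nat_lit 332) (nat_lit 5) (nat_lit 339) (nat_lit 5) (nat_lit 340) (nat_lit 5) (nat_lit 383) (nat_lit 356) (nat_lit 281)) (XT.lf (nat_lit 0) (nat_lit 9224523678) (nat_lit 608) (nat_lit 34873979) (nat_lit 76) (nat_lit 1372757702) (nat_lit 332) (nat_lit 5) (nat_lit 340) (nat_lit 5) (nat_lit 333) (nat_lit 5) (nat_lit 384) (nat_lit 356) (nat_lit 280))) (XT.nd (nat_lit 78) (nat_lit 532) (nat_lit 0) (XT.lf (nat_lit 0) (nat_lit 677002026) (nat_lit 684) (nat_lit 4324666014) (nat_lit 76) (nat_lit 5790276204) (nat_lit 323) (nat_lit 5) (nat_lit 332) (nat_lit 5) (nat_lit 324) (nat_lit 5) (nat_lit 385) (nat_lit 356) (nat_lit 279)) (XT.lf (nat_lit 0) (nat_lit 2206453713) (nat_lit 532) (nat_lit 582211765) (nat_lit 608) (nat_lit 8167659727) (nat_lit 316) (nat_lit 5) (nat_lit 323) (nat_lit 5) (nat_lit 324) (nat_lit 5) (nat_lit 386) (nat_lit 356) (nat_lit 278)))) (XT.nd (nat_lit 156) (nat_lit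 532) (nat_lit 0) (XT.nd (nat_lit 78) (nat_lit 532) (nat_lit 0) (XT.lf (nat_lit 0) (nat_lit 5017672503) (nat_lit 608) (nat_lit 2172630114) (nat_lit 76) (nat_lit 3933715169) (nat_lit 316) (nat_lit 5) (nat_lit 324) (nat_lit 5) (nat_lit 317) (nat_lit 5) (nat_lit 387) (nat_lit 356) (nat_lit 277)) (XT.lf (nat_lit 0) (nat_lit 4656080861) (nat_lit 532) (nat_lit 2680544060) (nat_lit 608) (nat_lit 3959423968) (nat_lit 309) (nat_lit 5) (nat_lit 316) (nat_lit 5) (nat_lit 317) (nat_lit 5) (nat_lit 388) (nat_lit 356) (nat_lit 276))) (XT.nd (nat_lit 78) (nat_lit 76) (nat_lit 0) (XT.lf (nat_lit 0) (nat_lit 215297704) (nat_lit 456) (nat_lit 9525981352) (nat_lit 532) (nat_lit 1731477872) (nat_lit 303) (nat_lit 5) (nat_lit 309) (nat_lit 5) (nat_lit 310) (nat_lit 5) (nat_lit 389) (nat_lit 356) (nat_lit 275)) (XT.lf (nat_lit 0) (nat_lit 619816522) (nat_lit 532) (nat_lit 4304673164) (nat_lit 76) (nat_lit 6728089017) (nat_lit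 302) (nat_lit 5) (nat_lit 309) (nat_lit 5) (nat_lit 303) (nat_lit 5) (nat_lit 390) (nat_lit 356) (nat_lit 274))))))) (XT.nd (nat_lit 1170) (nat_lit 3496) (nat_lit 0) (XT.nd (nat_lit 546) (nat_lit 2128) (nat_lit 0) (XT.nd (nat_lit 234) (nat_lit 912) (nat_lit 0) (XT.nd (nat_lit 78) (nat_lit 456) (nat_lit 0) (XT.lf (nat_lit 0) (nat_lit 2864741983) (nat_lit 532) (nat_lit 143671121) (nat_lit 608) (nat_lit 8828820798) (nat_lit 295) (nat_lit 5) (nat_lit 302) (nat_lit 5) (nat_lit 303) (nat_lit 5) (nat_lit 391) (nat_lit 356) (nat_lit 273)) (XT.nd (nat_lit 78) (nat_lit 456) (nat_lit 0) (XT.lf (nat_lit 0) (nat_lit 5532964246) (nat_lit 608) (nat_lit 1766157323) (nat_lit 76) (nat_lit 4726378285) (nat_lit 295) (nat_lit 5) (nat_lit 303) (nat_lit 5) (nat_lit 296) (nat_lit 5) (nat_lit 392) (nat_lit 356) (nat_lit 272)) (XT.lf (nat_lit 0) (nat_lit 5736664876) (nat_lit 456) (nat_lit 2428341961) (nat_lit 532) (nat_lit 4053454303)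 (nat_lit 289) (nat_lit 5) (nat_lit 295) (nat_lit 5) (nat_lit 296) (nat_lit 5) (nat_lit 393) (nat_lit 356) (nat_lit 271)))) (XT.nd (nat_lit 156) (nat_lit 380) (nat_lit 0) (XT.nd (nat_lit 78) (nat_lit 76) (nat_lit 0) (XT.lf (nat_lit 0) (nat_lit 1048903895) (nat_lit 456) (nat_lit 9855653407) (nat_lit 532) (nat_lit 1511797563) (nat_lit 283) (nat_lit 5) (nat_lit 289) (nat_lit 5) (nat_lit 290) (nat_lit 5) (nat_lit 394) (nat_lit 356) (nat_lit 270)) (XT.lf (nat_lit 0) (nat_lit 1150421471) (nat_lit 532) (nat_lit 3745937040) (nat_lit 76) (nat_lit 7721531011) (nat_lit 282) (nat_lit 5) (nat_lit 289) (nat_lit 5) (nat_lit 283) (nat_lit 5) (nat_lit 395) (nat_lit 356) (nat_lit 269))) (XT.nd (nat_lit 78) (nat_lit 0) (nat_lit 0) (XT.lf (nat_lit 0) (nat_lit 3880893996) (nat_lit 456) (nat_lit 8686896933) (nat_lit 76) (nat_lit 256667063) (nat_lit 277) (nat_lit 5) (nat_lit 283) (nat_lit 5) (nat_lit 278) (nat_lit 5) (nat_lit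 396) (nat_lit 356) (nat_lit 268)) (XT.lf (nat_lit 0) (nat_lit 6756758258) (nat_lit 456) (nat_lit 780819411) (nat_lit 76) (nat_lit 5497741520) (nat_lit 277) (nat_lit 5) (nat_lit 283) (nat_lit 5) (nat_lit 278) (nat_lit 5) (nat_lit 397) (nat_lit 356) (nat_lit 267))))) (XT.nd (nat_lit 312) (nat_lit 836) (nat_lit 0) (XT.nd (nat_lit 156) (nat_lit 456) (nat_lit 0) (XT.nd (nat_lit 78) (nat_lit 380) (nat_lit 0) (XT.lf (nat_lit 0) (nat_lit 7479034290) (nat_lit 456) (nat_lit 2289230633) (nat_lit 532) (nat_lit 3482760306) (nat_lit 271) (nat_lit 5) (nat_lit 277) (nat_lit 5) (nat_lit 278) (nat_lit 5) (nat_lit 398) (nat_lit 356) (nat_lit 266)) (XT.lf (nat_lit 0) (nat_lit 2519186348) (nat_lit 380) (nat_lit 10390851302) (nat_lit 456) (nat_lit 561967174) (nat_lit 266) (nat_lit 5) (nat_lit 271) (nat_lit 5) (nat_lit 272) (nat_lit 5) (nat_lit 399) (nat_lit 356) (nat_lit 265))) (XT.nd (nat_lit 78) (nat_lit 380) (nat_lit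 0) (XT.lf (nat_lit 0) (nat_lit 2458171391) (nat_lit 456) (nat_lit 2597013410) (nat_lit 76) (nat_lit 8641939682) (nat_lit 265) (nat_lit 5) (nat_lit 271) (nat_lit 5) (nat_lit 266) (nat_lit 5) (nat_lit 400) (nat_lit 356) (nat_lit 264)) (XT.lf (nat_lit 0) (nat_lit 5599569791) (nat_lit 456) (nat_lit 7838638263) (nat_lit 76) (nat_lit 489364237) (nat_lit 260) (nat_lit 5) (nat_lit 266) (nat_lit 5) (nat_lit 261) (nat_lit 5) (nat_lit 401) (nat_lit 356) (nat_lit 263)))) (XT.nd (nat_lit 156) (nat_lit 456) (nat_lit 0) (XT.nd (nat_lit 78) (nat_lit 0) (nat_lit 0) (XT.lf (nat_lit 0) (nat_lit 861840649) (nat_lit 380) (nat_lit 8037040390) (nat_lit 456) (nat_lit 5264142368) (nat_lit 255) (nat_lit 5) (nat_lit 260) (nat_lit 5) (nat_lit 261) (nat_lit 5) (nat_lit 402) (nat_lit 356) (nat_lit 262)) (XT.lf (nat_lit 0) (nat_lit 9955089446) (nat_lit 380) (nat_lit 2400425602) (nat_lit 456) (nat_lit 2048272706) (nat_lit 255) (nat_lit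 5) (nat_lit 260) (nat_lit 5) (nat_lit 261) (nat_lit 5) (nat_lit 403) (nat_lit 356) (nat_lit 261))) (XT.nd (nat_lit 78) (nat_lit 0) (nat_lit 0) (XT.lf (nat_lit 0) (nat_lit 1297606242) (nat_lit 456) (nat_lit 9963049072) (nat_lit 76) (nat_lit 3389009190) (nat_lit 249) (nat_lit 5) (nat_lit 255) (nat_lit 5) (nat_lit 250) (nat_lit 5) (nat_lit 404) (nat_lit 356) (nat_lit 260)) (XT.lf (nat_lit 0) (nat_lit 4751667433) (nat_lit 456) (nat_lit 787615998) (nat_lit 76) (nat_lit 9361556505) (nat_lit 249) (nat_lit 5) (nat_lit 255) (nat_lit 5) (nat_lit 250) (nat_lit 5) (nat_lit 405) (nat_lit 356) (nat_lit 259)))))) (XT.nd (nat_lit 624) (nat_lit 1444) (nat_lit 0) (XT.nd (nat_lit 312) (nat_lit 988) (nat_lit 0) (XT.nd (nat_lit 156) (nat_lit 380) (nat_lit 0) (XT.nd (nat_lit 78) (nat_lit 380) (nat_lit 0) (XT.lf (nat_lit 0) (nat_lit 8378594327) (nat_lit 380) (nat_lit 6354719776) (nat_lit 76) (nat_lit 424159212) (nat_lit 245)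 (nat_lit 5) (nat_lit 250) (nat_lit 5) (nat_lit 246) (nat_lit 5) (nat_lit 406) (nat_lit 356) (nat_lit 258)) (XT.lf (nat_lit 0) (nat_lit 3255899061) (nat_lit 380) (nat_lit 8933255175) (nat_lit 456) (nat_lit 3230406702) (nat_lit 240) (nat_lit 5) (nat_lit 245) (nat_lit 5) (nat_lit 246) (nat_lit 5) (nat_lit 407) (nat_lit 356) (nat_lit 257))) (XT.nd (nat_lit 78) (nat_lit 304) (nat_lit 0) (XT.lf (nat_lit 0) (nat_lit 461799621) (nat_lit 456) (nat_lit 2435431949) (nat_lit 76) (nat_lit 12790790285) (nat_lit 239) (nat_lit 5) (nat_lit 245) (nat_lit 5) (nat_lit 240) (nat_lit 5) (nat_lit 408) (nat_lit 356) (nat_lit 256)) (XT.lf (nat_lit 0) (nat_lit 4287815680) (nat_lit 380) (nat_lit 8319781664) (nat_lit 76) (nat_lit 3353340583) (nat_lit 235) (nat_lit 5) (nat_lit 240) (nat_lit 5) (nat_lit 236) (nat_lit 5) (nat_lit 409) (nat_lit 356) (nat_lit 255)))) (XT.nd (nat_lit 156) (nat_lit 684) (nat_lit 0) (XT.nd (nat_lit 78)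 (nat_lit 0) (nat_lit 0) (XT.lf (nat_lit 0) (nat_lit 1807393541) (nat_lit 304) (nat_lit 6473632339) (nat_lit 380) (nat_lit 7959443191) (nat_lit 231) (nat_lit 5) (nat_lit 235) (nat_lit 5) (nat_lit 236) (nat_lit 5) (nat_lit 410) (nat_lit 356) (nat_lit 254)) (XT.lf (nat_lit 0) (nat_lit 12381593382) (nat_lit 304) (nat_lit 78245857) (nat_lit 380) (nat_lit 4066572706) (nat_lit 231) (nat_lit 5) (nat_lit 235) (nat_lit 5) (nat_lit 236) (nat_lit 5) (nat_lit 411) (nat_lit 356) (nat_lit 253))) (XT.nd (nat_lit 78) (nat_lit 304) (nat_lit 0) (XT.lf (nat_lit 0) (nat_lit 52440470) (nat_lit 380) (nat_lit 10329074051) (nat_lit 76) (nat_lit 6436187617) (nat_lit 226) (nat_lit 5) (nat_lit 231) (nat_lit 5) (nat_lit 227) (nat_lit 5) (nat_lit 412) (nat_lit 356) (nat_lit 252)) (XT.lf (nat_lit 0) (nat_lit 347828649) (nat_lit 304) (nat_lit 3894174122) (nat_lit 380) (nat_lit 12873658991) (nat_lit 222) (nat_lit 5) (nat_lit 226) (nat_lit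 5) (nat_lit 227) (nat_lit 5) (nat_lit 413) (nat_lit 356) (nat_lit 251))))) (XT.nd (nat_lit 312) (nat_lit 836) (nat_lit 0) (XT.nd (nat_lit 156) (nat_lit 380) (nat_lit 0) (XT.nd (nat_lit 78) (nat_lit 228) (nat_lit 0) (XT.lf (nat_lit 0) (nat_lit 8671878384) (nat_lit 380) (nat_lit 5917728164) (nat_lit 76) (nat_lit 2829514832) (nat_lit 222) (nat_lit 5) (nat_lit 227) (nat_lit 5) (nat_lit 223) (nat_lit 5) (nat_lit 414) (nat_lit 356) (nat_lit 250)) (XT.lf (nat_lit 0) (nat_lit 5296224799) (nat_lit 228) (nat_lit 8010894558) (nat_lit 304) (nat_lit 4422391357) (nat_lit 219) (nat_lit 5) (nat_lit 222) (nat_lit 5) (nat_lit 223) (nat_lit 5) (nat_lit 415) (nat_lit 356) (nat_lit 249))) (XT.nd (nat_lit 78) (nat_lit 304) (nat_lit 0) (XT.lf (nat_lit 0) (nat_lit 75006306) (nat_lit 304) (nat_lit 1106941101) (nat_lit 76) (nat_lit 16865952166) (nat_lit 218) (nat_lit 5) (nat_lit 222) (nat_lit 5) (nat_lit 219) (nat_lit 5) (nat_lit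 416) (nat_lit 356) (nat_lit 248)) (XT.lf (nat_lit 0) (nat_lit 4762466454) (nat_lit 380) (nat_lit 7731127530) (nat_lit 76) (nat_lit 5876611745) (nat_lit 214) (nat_lit 5) (nat_lit 219) (nat_lit 5) (nat_lit 215) (nat_lit 5) (nat_lit 417) (nat_lit 356) (nat_lit 247)))) (XT.nd (nat_lit 156) (nat_lit 608) (nat_lit 0) (XT.nd (nat_lit 78) (nat_lit 0) (nat_lit 0) (XT.lf (nat_lit 0) (nat_lit 4100632381) (nat_lit 228) (nat_lit 5536043401) (nat_lit 304) (nat_lit 9064121526) (nat_lit 211) (nat_lit 5) (nat_lit 214) (nat_lit 5) (nat_lit 215) (nat_lit 5) (nat_lit 418) (nat_lit 356) (nat_lit 246)) (XT.lf (nat_lit 0) (nat_lit 14735476554) (nat_lit 304) (nat_lit 2635614494) (nat_lit 76) (nat_lit 1667864632) (nat_lit 211) (nat_lit 5) (nat_lit 215) (nat_lit 5) (nat_lit 212) (nat_lit 5) (nat_lit 419) (nat_lit 356) (nat_lit 245))) (XT.nd (nat_lit 78) (nat_lit 228) (nat_lit 0) (XT.lf (nat_lit 0) (nat_lit 722923599) (nat_lit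 380) (nat_lit 9591346081) (nat_lit 76) (nat_lit 9068776635) (nat_lit 206) (nat_lit 5) (nat_lit 211) (nat_lit 5) (nat_lit 207) (nat_lit 5) (nat_lit 420) (nat_lit 356) (nat_lit 244)) (XT.lf (nat_lit 0) (nat_lit 2897533215) (nat_lit 228) (nat_lit 2955205906) (nat_lit 304) (nat_lit 13882268795) (nat_lit 203) (nat_lit 5) (nat_lit 206) (nat_lit 5) (nat_lit 207) (nat_lit 5) (nat_lit 421) (nat_lit 356) (nat_lit 243))))))))
noncomputable def xc138 : XT := (XT.nd (nat_lit 2340) (nat_lit 2964) (nat_lit 0) (XT.nd (nat_lit 1170) (nat_lit 1824) (nat_lit 0) (XT.nd (nat_lit 546) (nat_lit 1140) (nat_lit 0) (XT.nd (nat_lit 234) (nat_lit 532) (nat_lit 0) (XT.nd (nat_lit 78) (nat_lit 532) (nat_lit 0) (XT.lf (nat_lit 0) (nat_lit 11263222598) (nat_lit 304) (nat_lit 4207801464) (nat_lit 76) (nat_lit 4622701098) (nat_lit 203) (nat_lit 5) (nat_lit 207) (nat_lit 5) (nat_lit 204) (nat_lit 5) (nat_lit 422) (nat_lit 356) (nat_lit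 242)) (XT.nd (nat_lit 78) (nat_lit 304) (nat_lit 0) (XT.lf (nat_lit 0) (nat_lit 8920865107) (nat_lit 228) (nat_lit 8015125011) (nat_lit 304) (nat_lit 3524214717) (nat_lit 200) (nat_lit 5) (nat_lit 203) (nat_lit 5) (nat_lit 204) (nat_lit 5) (nat_lit 423) (nat_lit 356) (nat_lit 241)) (XT.lf (nat_lit 0) (nat_lit 1682216542) (nat_lit 228) (nat_lit 265259169) (nat_lit 304) (nat_lit 18888320524) (nat_lit 196) (nat_lit 5) (nat_lit 199) (nat_lit 5) (nat_lit 200) (nat_lit 5) (nat_lit 424) (nat_lit 356) (nat_lit 240)))) (XT.nd (nat_lit 156) (nat_lit 304) (nat_lit 0) (XT.nd (nat_lit 78) (nat_lit 228) (nat_lit 0) (XT.lf (nat_lit 0) (nat_lit 7689463844) (nat_lit 304) (nat_lit 5817302054) (nat_lit 76) (nat_lit 7709533276) (nat_lit 196) (nat_lit 5) (nat_lit 200) (nat_lit 5) (nat_lit 197) (nat_lit 5) (nat_lit 425) (nat_lit 356) (nat_lit 239)) (XT.lf (nat_lit 0) (nat_lit 8049355490) (nat_lit 228) (nat_lit 5619911467)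 (nat_lit 304) (nat_lit 7936983582) (nat_lit 193) (nat_lit 5) (nat_lit 196) (nat_lit 5) (nat_lit 197) (nat_lit 5) (nat_lit 426) (nat_lit 356) (nat_lit 238))) (XT.nd (nat_lit 78) (nat_lit 76) (nat_lit 0) (XT.lf (nat_lit 0) (nat_lit 404109987) (nat_lit 228) (nat_lit 19497280998) (nat_lit 304) (nat_lit 2104321656) (nat_lit 190) (nat_lit 5) (nat_lit 193) (nat_lit 5) (nat_lit 194) (nat_lit 5) (nat_lit 427) (nat_lit 356) (nat_lit 237)) (XT.lf (nat_lit 0) (nat_lit 4006746991) (nat_lit 304) (nat_lit 7470021509) (nat_lit 76) (nat_lit 10933876633) (nat_lit 189) (nat_lit 5) (nat_lit 193) (nat_lit 5) (nat_lit 190) (nat_lit 5) (nat_lit 428) (nat_lit 356) (nat_lit 236))))) (XT.nd (nat_lit 312) (nat_lit 456) (nat_lit 0) (XT.nd (nat_lit 156) (nat_lit 456) (nat_lit 0) (XT.nd (nat_lit 78) (nat_lit 0) (nat_lit 0) (XT.lf (nat_lit 0) (nat_lit 7181212393) (nat_lit 228) (nat_lit 3132785805) (nat_lit 304) (nat_lit 12511447997)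 (nat_lit 186) (nat_lit 5) (nat_lit 189) (nat_lit 5) (nat_lit 190) (nat_lit 5) (nat_lit 429) (nat_lit 356) (nat_lit 235)) (XT.lf (nat_lit 0) (nat_lit 16925347941) (nat_lit 304) (nat_lit 902241361) (nat_lit 76) (nat_lit 5421655557) (nat_lit 186) (nat_lit 5) (nat_lit 190) (nat_lit 5) (nat_lit 187) (nat_lit 5) (nat_lit 430) (nat_lit 356) (nat_lit 234))) (XT.nd (nat_lit 78) (nat_lit 228) (nat_lit 0) (XT.lf (nat_lit 0) (nat_lit 206986548) (nat_lit 228) (nat_lit 9171903574) (nat_lit 76) (nat_lit 14302093125) (nat_lit 183) (nat_lit 5) (nat_lit 186) (nat_lit 5) (nat_lit 184) (nat_lit 5) (nat_lit 431) (nat_lit 356) (nat_lit 233)) (XT.lf (nat_lit 0) (nat_lit 6313298126) (nat_lit 228) (nat_lit 549927123) (nat_lit 304) (nat_lit 17258874167) (nat_lit 180) (nat_lit 5) (nat_lit 183) (nat_lit 5) (nat_lit 184) (nat_lit 5) (nat_lit 432) (nat_lit 356) (nat_lit 232)))) (XT.nd (nat_lit 156) (nat_lit 304) (nat_lit 0) (XT.nd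 (nat_lit 78) (nat_lit 152) (nat_lit 0) (XT.lf (nat_lit 0) (nat_lit 13881537394) (nat_lit 304) (nat_lit 2228752172) (nat_lit 76) (nat_lit 8461287917) (nat_lit 180) (nat_lit 5) (nat_lit 184) (nat_lit 5) (nat_lit 181) (nat_lit 5) (nat_lit 433) (nat_lit 356) (nat_lit 231)) (XT.lf (nat_lit 0) (nat_lit 14065284656) (nat_lit 152) (nat_lit 7172871722) (nat_lit 228) (nat_lit 3792550788) (nat_lit 178) (nat_lit 5) (nat_lit 180) (nat_lit 5) (nat_lit 181) (nat_lit 5) (nat_lit 434) (nat_lit 356) (nat_lit 230))) (XT.nd (nat_lit 78) (nat_lit 0) (nat_lit 0) (XT.lf (nat_lit 0) (nat_lit 3329932515) (nat_lit 304) (nat_lit 20078724321) (nat_lit 76) (nat_lit 2091517965) (nat_lit 174) (nat_lit 5) (nat_lit 178) (nat_lit 5) (nat_lit 175) (nat_lit 5) (nat_lit 435) (nat_lit 356) (nat_lit 229)) (XT.lf (nat_lit 0) (nat_lit 10759921104) (nat_lit 304) (nat_lit 3587897328) (nat_lit 76) (nat_lit 11629679812) (nat_lit 174) (nat_lit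 5) (nat_lit 178) (nat_lit 5) (nat_lit 175) (nat_lit 5) (nat_lit 436) (nat_lit 356) (nat_lit 228)))))) (XT.nd (nat_lit 546) (nat_lit 912) (nat_lit 0) (XT.nd (nat_lit 234) (nat_lit 532) (nat_lit 0) (XT.nd (nat_lit 78) (nat_lit 228) (nat_lit 0) (XT.lf (nat_lit 0) (nat_lit 13641977081) (nat_lit 152) (nat_lit 4889552904) (nat_lit 228) (nat_lit 7934049787) (nat_lit 172) (nat_lit 5) (nat_lit 174) (nat_lit 5) (nat_lit 175) (nat_lit 5) (nat_lit 437) (nat_lit 356) (nat_lit 227)) (XT.nd (nat_lit 78) (nat_lit 76) (nat_lit 0) (XT.lf (nat_lit 0) (nat_lit 4514220034) (nat_lit 152) (nat_lit 22136343310) (nat_lit 228) (nat_lit 314312116) (nat_lit 170) (nat_lit 5) (nat_lit 172) (nat_lit 5) (nat_lit 173) (nat_lit 5) (nat_lit 438) (nat_lit 356) (nat_lit 226)) (XT.lf (nat_lit 0) (nat_lit 7553867209) (nat_lit 228) (nat_lit 4984306083) (nat_lit 76) (nat_lit 14933798118) (nat_lit 169) (nat_lit 5) (nat_lit 172) (nat_lit 5)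 (nat_lit 170) (nat_lit 5) (nat_lit 439) (nat_lit 356) (nat_lit 225)))) (XT.nd (nat_lit 156) (nat_lit 228) (nat_lit 0) (XT.nd (nat_lit 78) (nat_lit 152) (nat_lit 0) (XT.lf (nat_lit 0) (nat_lit 13239946339) (nat_lit 152) (nat_lit 2527136130) (nat_lit 228) (nat_lit 12223645172) (nat_lit 167) (nat_lit 5) (nat_lit 169) (nat_lit 5) (nat_lit 170) (nat_lit 5) (nat_lit 440) (nat_lit 356) (nat_lit 224)) (XT.lf (nat_lit 0) (nat_lit 3562362176) (nat_lit 152) (nat_lit 20812325803) (nat_lit 228) (nat_lit 4145918766) (nat_lit 165) (nat_lit 5) (nat_lit 167) (nat_lit 5) (nat_lit 168) (nat_lit 5) (nat_lit 441) (nat_lit 356) (nat_lit 223))) (XT.nd (nat_lit 78) (nat_lit 152) (nat_lit 0) (XT.lf (nat_lit 0) (nat_lit 4256256905) (nat_lit 228) (nat_lit 6422674458) (nat_lit 76) (nat_lit 18381340029) (nat_lit 164) (nat_lit 5) (nat_lit 167) (nat_lit 5) (nat_lit 165) (nat_lit 5) (nat_lit 442) (nat_lit 356) (nat_lit 222)) (XT.lf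 (nat_lit 0) (nat_lit 12858027232) (nat_lit 152) (nat_lit 81207052) (nat_lit 228) (nat_lit 16672298274) (nat_lit 162) (nat_lit 5) (nat_lit 164) (nat_lit 5) (nat_lit 165) (nat_lit 5) (nat_lit 443) (nat_lit 356) (nat_lit 221))))) (XT.nd (nat_lit 312) (nat_lit 380) (nat_lit 0) (XT.nd (nat_lit 156) (nat_lit 304) (nat_lit 0) (XT.nd (nat_lit 78) (nat_lit 76) (nat_lit 0) (XT.lf (nat_lit 0) (nat_lit 2596456462) (nat_lit 152) (nat_lit 19469364887) (nat_lit 228) (nat_lit 8108016599) (nat_lit 160) (nat_lit 5) (nat_lit 162) (nat_lit 5) (nat_lit 163) (nat_lit 5) (nat_lit 444) (nat_lit 356) (nat_lit 220)) (XT.lf (nat_lit 0) (nat_lit 859472630) (nat_lit 228) (nat_lit 7907790984) (nat_lit 76) (nat_lit 21980737334) (nat_lit 159) (nat_lit 5) (nat_lit 162) (nat_lit 5) (nat_lit 160) (nat_lit 5) (nat_lit 445) (nat_lit 356) (nat_lit 219))) (XT.nd (nat_lit 78) (nat_lit 152) (nat_lit 0) (XT.lf (nat_lit 0) (nat_lit 10065589346)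 (nat_lit 228) (nat_lit 18862115467) (nat_lit 76) (nat_lit 2405298725) (nat_lit 157) (nat_lit 5) (nat_lit 160) (nat_lit 5) (nat_lit 158) (nat_lit 5) (nat_lit 446) (nat_lit 356) (nat_lit 218)) (XT.lf (nat_lit 0) (nat_lit 1613454965) (nat_lit 152) (nat_lit 18106309897) (nat_lit 228) (nat_lit 12210635086) (nat_lit 155) (nat_lit 5) (nat_lit 157) (nat_lit 5) (nat_lit 158) (nat_lit 5) (nat_lit 447) (nat_lit 356) (nat_lit 217)))) (XT.nd (nat_lit 156) (nat_lit 152) (nat_lit 0) (XT.nd (nat_lit 78) (nat_lit 228) (nat_lit 0) (XT.lf (nat_lit 0) (nat_lit 23069843448) (nat_lit 152) (nat_lit 6773239503) (nat_lit 228) (nat_lit 2697249779) (nat_lit 155) (nat_lit 5) (nat_lit 157) (nat_lit 5) (nat_lit 158) (nat_lit 5) (nat_lit 448) (nat_lit 356) (nat_lit 216)) (XT.lf (nat_lit 0) (nat_lit 7117864811) (nat_lit 228) (nat_lit 21061716821) (nat_lit 76) (nat_lit 4982286805) (nat_lit 152) (nat_lit 5) (nat_lit 155) (nat_lit 5)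 (nat_lit 153) (nat_lit 5) (nat_lit 449) (nat_lit 356) (nat_lit 215))) (XT.nd (nat_lit 78) (nat_lit 0) (nat_lit 0) (XT.lf (nat_lit 0) (nat_lit 610289828) (nat_lit 152) (nat_lit 16721739309) (nat_lit 228) (nat_lit 16464455667) (nat_lit 150) (nat_lit 5) (nat_lit 152) (nat_lit 5) (nat_lit 153) (nat_lit 5) (nat_lit 450) (nat_lit 356) (nat_lit 214)) (XT.lf (nat_lit 0) (nat_lit 23344623747) (nat_lit 152) (nat_lit 4710100004) (nat_lit 228) (nat_lit 6389352747) (nat_lit 150) (nat_lit 5) (nat_lit 152) (nat_lit 5) (nat_lit 153) (nat_lit 5) (nat_lit 451) (nat_lit 356) (nat_lit 213))))))) (XT.nd (nat_lit 1170) (nat_lit 1444) (nat_lit 0) (XT.nd (nat_lit 546) (nat_lit 836) (nat_lit 0) (XT.nd (nat_lit 234) (nat_lit 380) (nat_lit 0) (XT.nd (nat_lit 78) (nat_lit 152) (nat_lit 0) (XT.lf (nat_lit 0) (nat_lit 4088533638) (nat_lit 152) (nat_lit 23358864729) (nat_lit 76) (nat_lit 7657197004) (nat_lit 148) (nat_lit 5) (nat_lit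 150) (nat_lit 5) (nat_lit 149) (nat_lit 5) (nat_lit 452) (nat_lit 356) (nat_lit 212)) (XT.nd (nat_lit 78) (nat_lit 152) (nat_lit 0) (XT.lf (nat_lit 0) (nat_lit 14901828573) (nat_lit 152) (nat_lit 408023660) (nat_lit 76) (nat_lit 20468694999) (nat_lit 148) (nat_lit 5) (nat_lit 150) (nat_lit 5) (nat_lit 149) (nat_lit 5) (nat_lit 453) (nat_lit 356) (nat_lit 211)) (XT.lf (nat_lit 0) (nat_lit 23674632149) (nat_lit 152) (nat_lit 2582430814) (nat_lit 228) (nat_lit 10209128468) (nat_lit 146) (nat_lit 5) (nat_lit 148) (nat_lit 5) (nat_lit 149) (nat_lit 5) (nat_lit 454) (nat_lit 356) (nat_lit 210)))) (XT.nd (nat_lit 156) (nat_lit 228) (nat_lit 0) (XT.nd (nat_lit 78) (nat_lit 0) (nat_lit 0) (XT.lf (nat_lit 0) (nat_lit 970421069) (nat_lit 152) (nat_lit 25761207064) (nat_lit 76) (nat_lit 10436398642) (nat_lit 144) (nat_lit 5) (nat_lit 146) (nat_lit 5) (nat_lit 145) (nat_lit 5) (nat_lit 455) (nat_lit 356) (nat_lit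 209)) (XT.lf (nat_lit 0) (nat_lit 12426193585) (nat_lit 152) (nat_lit 1440340540) (nat_lit 76) (nat_lit 24016969742) (nat_lit 144) (nat_lit 5) (nat_lit 146) (nat_lit 5) (nat_lit 145) (nat_lit 5) (nat_lit 456) (nat_lit 356) (nat_lit 208))) (XT.nd (nat_lit 78) (nat_lit 76) (nat_lit 0) (XT.lf (nat_lit 0) (nat_lit 24061489030) (nat_lit 152) (nat_lit 385747562) (nat_lit 228) (nat_lit 14166560761) (nat_lit 142) (nat_lit 5) (nat_lit 144) (nat_lit 5) (nat_lit 145) (nat_lit 5) (nat_lit 457) (nat_lit 356) (nat_lit 207)) (XT.lf (nat_lit 0) (nat_lit 11060030096) (nat_lit 76) (nat_lit 26009982160) (nat_lit 152) (nat_lit 2288754346) (nat_lit 141) (nat_lit 5) (nat_lit 142) (nat_lit 5) (nat_lit 143) (nat_lit 4) (nat_lit 458) (nat_lit 356) (nat_lit 206))))) (XT.nd (nat_lit 312) (nat_lit 456) (nat_lit 0) (XT.nd (nat_lit 156) (nat_lit 152) (nat_lit 0) (XT.nd (nat_lit 78) (nat_lit 152) (nat_lit 0) (XT.lf (nat_lit 0) (nat_lit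 9893885381) (nat_lit 152) (nat_lit 2501736202) (nat_lit 76) (nat_lit 27723318229) (nat_lit 140) (nat_lit 5) (nat_lit 142) (nat_lit 5) (nat_lit 141) (nat_lit 5) (nat_lit 459) (nat_lit 356) (nat_lit 205)) (XT.lf (nat_lit 0) (nat_lit 22640323941) (nat_lit 228) (nat_lit 16405536856) (nat_lit 76) (nat_lit 1848047954) (nat_lit 138) (nat_lit 5) (nat_lit 141) (nat_lit 5) (nat_lit 139) (nat_lit 4) (nat_lit 460) (nat_lit 356) (nat_lit 204))) (XT.nd (nat_lit 78) (nat_lit 76) (nat_lit 0) (XT.lf (nat_lit 0) (nat_lit 10716510897) (nat_lit 76) (nat_lit 25294551876) (nat_lit 152) (nat_lit 5673806770) (nat_lit 137) (nat_lit 5) (nat_lit 138) (nat_lit 5) (nat_lit 139) (nat_lit 4) (nat_lit 461) (nat_lit 356) (nat_lit 203)) (XT.lf (nat_lit 0) (nat_lit 7299207730) (nat_lit 152) (nat_lit 3595461438) (nat_lit 76) (nat_lit 31598050594) (nat_lit 136) (nat_lit 5) (nat_lit 138) (nat_lit 5) (nat_lit 137) (nat_lit 5) (nat_lit 462)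 (nat_lit 356) (nat_lit 202)))) (XT.nd (nat_lit 156) (nat_lit 228) (nat_lit 0) (XT.nd (nat_lit 78) (nat_lit 76) (nat_lit 0) (XT.lf (nat_lit 0) (nat_lit 20819459187) (nat_lit 228) (nat_lit 18343558342) (nat_lit 76) (nat_lit 4151940135) (nat_lit 134) (nat_lit 5) (nat_lit 137) (nat_lit 5) (nat_lit 135) (nat_lit 4) (nat_lit 463) (nat_lit 356) (nat_lit 201)) (XT.lf (nat_lit 0) (nat_lit 10385381526) (nat_lit 76) (nat_lit 24595259987) (nat_lit 152) (nat_lit 9174161491) (nat_lit 133) (nat_lit 5) (nat_lit 134) (nat_lit 5) (nat_lit 135) (nat_lit 4) (nat_lit 464) (nat_lit 356) (nat_lit 200))) (XT.nd (nat_lit 78) (nat_lit 152) (nat_lit 0) (XT.lf (nat_lit 0) (nat_lit 4636127602) (nat_lit 152) (nat_lit 4724866630) (nat_lit 76) (nat_lit 35652197168) (nat_lit 132) (nat_lit 5) (nat_lit 134) (nat_lit 5) (nat_lit 133) (nat_lit 5) (nat_lit 465) (nat_lit 356) (nat_lit 199)) (XT.lf (nat_lit 0) (nat_lit 18977589835) (nat_lit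 228) (nat_lit 20368950098) (nat_lit 76) (nat_lit 6539028833) (nat_lit 130) (nat_lit 5) (nat_lit 133) (nat_lit 5) (nat_lit 131) (nat_lit 4) (nat_lit 466) (nat_lit 356) (nat_lit 198)))))) (XT.nd (nat_lit 624) (nat_lit 760) (nat_lit 0) (XT.nd (nat_lit 312) (nat_lit 304) (nat_lit 0) (XT.nd (nat_lit 156) (nat_lit 228) (nat_lit 0) (XT.nd (nat_lit 78) (nat_lit 76) (nat_lit 0) (XT.lf (nat_lit 0) (nat_lit 10066015221) (nat_lit 76) (nat_lit 23912160485) (nat_lit 152) (nat_lit 12799075355) (nat_lit 129) (nat_lit 5) (nat_lit 130) (nat_lit 5) (nat_lit 131) (nat_lit 4) (nat_lit 467) (nat_lit 356) (nat_lit 197)) (XT.lf (nat_lit 0) (nat_lit 1898260529) (nat_lit 152) (nat_lit 5893416841) (nat_lit 76) (nat_lit 39897537144) (nat_lit 128) (nat_lit 5) (nat_lit 130) (nat_lit 5) (nat_lit 129) (nat_lit 5) (nat_lit 468) (nat_lit 356) (nat_lit 196))) (XT.nd (nat_lit 78) (nat_lit 76) (nat_lit 0) (XT.lf (nat_lit 0) (nat_lit 17111187541)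 (nat_lit 228) (nat_lit 22488294721) (nat_lit 76) (nat_lit 9015295310) (nat_lit 126) (nat_lit 5) (nat_lit 129) (nat_lit 5) (nat_lit 127) (nat_lit 4) (nat_lit 469) (nat_lit 356) (nat_lit 195)) (XT.lf (nat_lit 0) (nat_lit 9757833127) (nat_lit 76) (nat_lit 23245247350) (nat_lit 152) (nat_lit 16558349700) (nat_lit 125) (nat_lit 5) (nat_lit 126) (nat_lit 5) (nat_lit 127) (nat_lit 4) (nat_lit 470) (nat_lit 356) (nat_lit 194)))) (XT.nd (nat_lit 156) (nat_lit 76) (nat_lit 0) (XT.nd (nat_lit 78) (nat_lit 228) (nat_lit 0) (XT.lf (nat_lit 0) (nat_lit 43416183266) (nat_lit 76) (nat_lit 6174259331) (nat_lit 152) (nat_lit 939478392) (nat_lit 125) (nat_lit 5) (nat_lit 126) (nat_lit 5) (nat_lit 127) (nat_lit 4) (nat_lit 471) (nat_lit 356) (nat_lit 193)) (XT.lf (nat_lit 0) (nat_lit 15216533460) (nat_lit 228) (nat_lit 24708497803) (nat_lit 76) (nat_lit 11587141948) (nat_lit 122) (nat_lit 5) (nat_lit 125) (nat_lit 5) (nat_lit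 123) (nat_lit 4) (nat_lit 472) (nat_lit 356) (nat_lit 192))) (XT.nd (nat_lit 78) (nat_lit 0) (nat_lit 0) (XT.lf (nat_lit 0) (nat_lit 9460299590) (nat_lit 76) (nat_lit 22594462820) (nat_lit 152) (nat_lit 20462358959) (nat_lit 121) (nat_lit 5) (nat_lit 122) (nat_lit 5) (nat_lit 123) (nat_lit 4) (nat_lit 473) (nat_lit 356) (nat_lit 191)) (XT.lf (nat_lit 0) (nat_lit 45144958087) (nat_lit 76) (nat_lit 4494579121) (nat_lit 152) (nat_lit 3905438793) (nat_lit 121) (nat_lit 5) (nat_lit 122) (nat_lit 5) (nat_lit 123) (nat_lit 4) (nat_lit 474) (nat_lit 356) (nat_lit 190))))) (XT.nd (nat_lit 312) (nat_lit 304) (nat_lit 0) (XT.nd (nat_lit 156) (nat_lit 152) (nat_lit 0) (XT.nd (nat_lit 78) (nat_lit 76) (nat_lit 0) (XT.lf (nat_lit 0) (nat_lit 13289710521) (nat_lit 228) (nat_lit 27036814461) (nat_lit 76) (nat_lit 14261406935) (nat_lit 118) (nat_lit 5) (nat_lit 121) (nat_lit 5) (nat_lit 119) (nat_lit 4) (nat_lit 475)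 (nat_lit 356) (nat_lit 189)) (XT.lf (nat_lit 0) (nat_lit 9172917967) (nat_lit 76) (nat_lit 21959704680) (nat_lit 152) (nat_lit 24522081719) (nat_lit 117) (nat_lit 5) (nat_lit 118) (nat_lit 5) (nat_lit 119) (nat_lit 4) (nat_lit 476) (nat_lit 356) (nat_lit 188))) (XT.nd (nat_lit 78) (nat_lit 152) (nat_lit 0) (XT.lf (nat_lit 0) (nat_lit 47007904122) (nat_lit 76) (nat_lit 2768084982) (nat_lit 152) (nat_lit 6969535875) (nat_lit 117) (nat_lit 5) (nat_lit 118) (nat_lit 5) (nat_lit 119) (nat_lit 4) (nat_lit 477) (nat_lit 356) (nat_lit 187)) (XT.lf (nat_lit 0) (nat_lit 11326594610) (nat_lit 152) (nat_lit 29480876760) (nat_lit 76) (nat_lit 17045381187) (nat_lit 115) (nat_lit 5) (nat_lit 117) (nat_lit 5) (nat_lit 116) (nat_lit 4) (nat_lit 478) (nat_lit 356) (nat_lit 186)))) (XT.nd (nat_lit 156) (nat_lit 228) (nat_lit 0) (XT.nd (nat_lit 78) (nat_lit 0) (nat_lit 0) (XT.lf (nat_lit 0) (nat_lit 8895226875) (nat_lit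 76) (nat_lit 21340832708) (nat_lit 152) (nat_lit 28749134280) (nat_lit 114) (nat_lit 5) (nat_lit 115) (nat_lit 5) (nat_lit 116) (nat_lit 4) (nat_lit 479) (nat_lit 356) (nat_lit 185)) (XT.lf (nat_lit 0) (nat_lit 49012102250) (nat_lit 76) (nat_lit 990800270) (nat_lit 152) (nat_lit 10139900068) (nat_lit 114) (nat_lit 5) (nat_lit 115) (nat_lit 5) (nat_lit 116) (nat_lit 4) (nat_lit 480) (nat_lit 356) (nat_lit 184))) (XT.nd (nat_lit 78) (nat_lit 76) (nat_lit 0) (XT.lf (nat_lit 0) (nat_lit 9322844661) (nat_lit 152) (nat_lit 32048722187) (nat_lit 76) (nat_lit 19946827518) (nat_lit 112) (nat_lit 5) (nat_lit 114) (nat_lit 5) (nat_lit 113) (nat_lit 4) (nat_lit 481) (nat_lit 356) (nat_lit 183)) (XT.lf (nat_lit 0) (nat_lit 8626796847) (nat_lit 76) (nat_lit 20737674350) (nat_lit 152) (nat_lit 33155806806) (nat_lit 111) (nat_lit 5) (nat_lit 112) (nat_lit 5) (nat_lit 113) (nat_lit 4) (nat_lit 482) (nat_lit 356) (nat_lit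 182))))))))
noncomputable def xc139 : XT := (XT.nd (nat_lit 44928) (nat_lit 0) (nat_lit 10488) (XT.nd (nat_lit 43758) (nat_lit 0) (nat_lit 20140) (XT.nd (nat_lit 546) (nat_lit 228) (nat_lit 0) (XT.nd (nat_lit 234) (nat_lit 228) (nat_lit 0) (XT.nd (nat_lit 78) (nat_lit 228) (nat_lit 0) (XT.lf (nat_lit 0) (nat_lit 50331697513) (nat_lit 152) (nat_lit 12591695394) (nat_lit 0) (nat_lit 825094713) (nat_lit 111) (nat_lit 5) (nat_lit 113) (nat_lit 4) (nat_lit 111) (nat_lit 4) (nat_lit 483) (nat_lit 356) (nat_lit 181)) (XT.nd (nat_lit 78) (nat_lit 76) (nat_lit 0) (XT.lf (nat_lit 0) (nat_lit 7273891667) (nat_lit 152) (nat_lit 34748823281) (nat_lit 76) (nat_lit 22974002034) (nat_lit 109) (nat_lit 5) (nat_lit 111) (nat_lit 5) (nat_lit 110) (nat_lit 4) (nat_lit 484) (nat_lit 356) (nat_lit 180)) (XT.lf (nat_lit 0) (nat_lit 8367227342) (nat_lit 76) (nat_lit 20150029722) (nat_lit 152) (nat_lit 37755102155) (nat_lit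 108) (nat_lit 5) (nat_lit 109) (nat_lit 5) (nat_lit 110) (nat_lit 4) (nat_lit 485) (nat_lit 356) (nat_lit 179)))) (XT.nd (nat_lit 156) (nat_lit 76) (nat_lit 0) (XT.nd (nat_lit 78) (nat_lit 152) (nat_lit 0) (XT.lf (nat_lit 0) (nat_lit 50767954746) (nat_lit 152) (nat_lit 14127175990) (nat_lit 0) (nat_lit 2680039046) (nat_lit 108) (nat_lit 5) (nat_lit 110) (nat_lit 4) (nat_lit 108) (nat_lit 4) (nat_lit 486) (nat_lit 356) (nat_lit 178)) (XT.lf (nat_lit 0) (nat_lit 5174926593) (nat_lit 152) (nat_lit 37590118580) (nat_lit 76) (nat_lit 26135677770) (nat_lit 106) (nat_lit 5) (nat_lit 108) (nat_lit 5) (nat_lit 107) (nat_lit 4) (nat_lit 487) (nat_lit 356) (nat_lit 177))) (XT.nd (nat_lit 78) (nat_lit 0) (nat_lit 0) (XT.lf (nat_lit 0) (nat_lit 8116144070) (nat_lit 76) (nat_lit 19577676013) (nat_lit 152) (nat_lit 42560777496) (nat_lit 105) (nat_lit 5) (nat_lit 106) (nat_lit 5) (nat_lit 107) (nat_lit 4) (nat_lit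 488) (nat_lit 356) (nat_lit 176)) (XT.lf (nat_lit 0) (nat_lit 51306028075) (nat_lit 152) (nat_lit 15732456467) (nat_lit 0) (nat_lit 4598071479) (nat_lit 105) (nat_lit 5) (nat_lit 107) (nat_lit 4) (nat_lit 105) (nat_lit 4) (nat_lit 489) (nat_lit 356) (nat_lit 175))))) (XT.nd (nat_lit 42900) (nat_lit 0) (nat_lit 24396) (XT.nd (nat_lit 42744) (nat_lit 0) (nat_lit 25232) (XT.nd (nat_lit 78) (nat_lit 76) (nat_lit 0) (XT.lf (nat_lit 0) (nat_lit 3020887191) (nat_lit 152) (nat_lit 40582044988) (nat_lit 76) (nat_lit 29441170609) (nat_lit 103) (nat_lit 5) (nat_lit 105) (nat_lit 5) (nat_lit 104) (nat_lit 4) (nat_lit 490) (nat_lit 356) (nat_lit 174)) (XT.lf (nat_lit 0) (nat_lit 7873196603) (nat_lit 76) (nat_lit 19020371362) (nat_lit 152) (nat_lit 47587388823) (nat_lit 102) (nat_lit 5) (nat_lit 103) (nat_lit 5) (nat_lit 104) (nat_lit 4) (nat_lit 491) (nat_lit 356) (nat_lit 173))) (XT.nd (nat_lit 78) (nat_lit 0)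 (nat_lit 0) (XT.lf (nat_lit 0) (nat_lit 469997621) (nat_lit 988) (nat_lit 1681107061) (nat_lit 988) (nat_lit 1681107061) (nat_lit 434) (nat_lit 3) (nat_lit 447) (nat_lit 3) (nat_lit 447) (nat_lit 5) (nat_lit 357) (nat_lit 357) (nat_lit 306)) (XT.lf (nat_lit 76) (nat_lit 479351495) (nat_lit 0) (nat_lit 1846266806) (nat_lit 988) (nat_lit 5412625844) (nat_lit 435) (nat_lit 5) (nat_lit 434) (nat_lit 3) (nat_lit 447) (nat_lit 5) (nat_lit 358) (nat_lit 357) (nat_lit 305)))) (XT.nd (nat_lit 156) (nat_lit 912) (nat_lit 0) (XT.nd (nat_lit 78) (nat_lit 0) (nat_lit 0) (XT.lf (nat_lit 0) (nat_lit 3740296607) (nat_lit 912) (nat_lit 3344954622) (nat_lit 988) (nat_lit 729403597) (nat_lit 435) (nat_lit 5) (nat_lit 447) (nat_lit 5) (nat_lit 448) (nat_lit 5) (nat_lit 359) (nat_lit 357) (nat_lit 304)) (XT.lf (nat_lit 76) (nat_lit 651836547) (nat_lit 0) (nat_lit 4518308717) (nat_lit 988) (nat_lit 2724030664) (nat_lit 436)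 (nat_lit 5) (nat_lit 435) (nat_lit 5) (nat_lit 448) (nat_lit 5) (nat_lit 360) (nat_lit 357) (nat_lit 303))) (XT.nd (nat_lit 78) (nat_lit 912) (nat_lit 0) (XT.lf (nat_lit 76) (nat_lit 4808379294) (nat_lit 0) (nat_lit 1817704970) (nat_lit 988) (nat_lit 1350502552) (nat_lit 436) (nat_lit 5) (nat_lit 435) (nat_lit 5) (nat_lit 448) (nat_lit 5) (nat_lit 361) (nat_lit 357) (nat_lit 302)) (XT.lf (nat_lit 0) (nat_lit 32741275) (nat_lit 988) (nat_lit 7053678510) (nat_lit 1064) (nat_lit 975938825) (nat_lit 423) (nat_lit 5) (nat_lit 436) (nat_lit 5) (nat_lit 437) (nat_lit 5) (nat_lit 362) (nat_lit 357) (nat_lit 301)))))) (XT.nd (nat_lit 546) (nat_lit 3344) (nat_lit 0) (XT.nd (nat_lit 234) (nat_lit 912) (nat_lit 0) (XT.nd (nat_lit 78) (nat_lit 0) (nat_lit 0) (XT.lf (nat_lit 0) (nat_lit 1432410044) (nat_lit 988) (nat_lit 2835840825) (nat_lit 1064) (nat_lit 3881989409) (nat_lit 423) (nat_lit 5) (nat_lit 436) (nat_lit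 5) (nat_lit 437) (nat_lit 5) (nat_lit 363) (nat_lit 357) (nat_lit 300)) (XT.nd (nat_lit 78) (nat_lit 0) (nat_lit 76) (XT.lf (nat_lit 76) (nat_lit 1508619721) (nat_lit 0) (nat_lit 1333120705) (nat_lit 1064) (nat_lit 5399987822) (nat_lit 424) (nat_lit 5) (nat_lit 423) (nat_lit 5) (nat_lit 437) (nat_lit 5) (nat_lit 364) (nat_lit 357) (nat_lit 299)) (XT.lf (nat_lit 0) (nat_lit 4292931357) (nat_lit 988) (nat_lit 2340681026) (nat_lit 1064) (nat_lit 1702361057) (nat_lit 424) (nat_lit 5) (nat_lit 437) (nat_lit 5) (nat_lit 438) (nat_lit 5) (nat_lit 365) (nat_lit 357) (nat_lit 298)))) (XT.nd (nat_lit 156) (nat_lit 988) (nat_lit 0) (XT.nd (nat_lit 78) (nat_lit 0) (nat_lit 0) (XT.lf (nat_lit 76) (nat_lit 2183217820) (nat_lit 0) (nat_lit 3594368312) (nat_lit 1064) (nat_lit 2655762010) (nat_lit 425) (nat_lit 5) (nat_lit 424) (nat_lit 5) (nat_lit 438) (nat_lit 5) (nat_lit 366) (nat_lit 357) (nat_lit 297)) (XT.lf (nat_lit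 76) (nat_lit 6861401813) (nat_lit 0) (nat_lit 425763818) (nat_lit 1064) (nat_lit 1247066903) (nat_lit 425) (nat_lit 5) (nat_lit 424) (nat_lit 5) (nat_lit 438) (nat_lit 5) (nat_lit 367) (nat_lit 357) (nat_lit 296))) (XT.nd (nat_lit 78) (nat_lit 0) (nat_lit 0) (XT.lf (nat_lit 0) (nat_lit 214733485) (nat_lit 1064) (nat_lit 5595847130) (nat_lit 1140) (nat_lit 2827059354) (nat_lit 411) (nat_lit 5) (nat_lit 425) (nat_lit 5) (nat_lit 426) (nat_lit 5) (nat_lit 368) (nat_lit 357) (nat_lit 295)) (XT.lf (nat_lit 0) (nat_lit 1675264826) (nat_lit 1064) (nat_lit 858700989) (nat_lit 1140) (nat_lit 6210415144) (nat_lit 411) (nat_lit 5) (nat_lit 425) (nat_lit 5) (nat_lit 426) (nat_lit 5) (nat_lit 369) (nat_lit 357) (nat_lit 294))))) (XT.nd (nat_lit 312) (nat_lit 2432) (nat_lit 0) (XT.nd (nat_lit 156) (nat_lit 988) (nat_lit 0) (XT.nd (nat_lit 78) (nat_lit 0) (nat_lit 0) (XT.lf (nat_lit 0) (nat_lit 3187182314) (nat_lit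 1064) (nat_lit 4792526055) (nat_lit 1140) (nat_lit 874388702) (nat_lit 412) (nat_lit 5) (nat_lit 426) (nat_lit 5) (nat_lit 427) (nat_lit 5) (nat_lit 370) (nat_lit 357) (nat_lit 293)) (XT.lf (nat_lit 76) (nat_lit 126941764) (nat_lit 0) (nat_lit 4613435010) (nat_lit 1140) (nat_lit 4226850310) (nat_lit 413) (nat_lit 5) (nat_lit 412) (nat_lit 5) (nat_lit 427) (nat_lit 5) (nat_lit 371) (nat_lit 357) (nat_lit 292))) (XT.nd (nat_lit 78) (nat_lit 988) (nat_lit 0) (XT.lf (nat_lit 76) (nat_lit 5261965528) (nat_lit 0) (nat_lit 1088299258) (nat_lit 1140) (nat_lit 2733183280) (nat_lit 413) (nat_lit 5) (nat_lit 412) (nat_lit 5) (nat_lit 427) (nat_lit 5) (nat_lit 372) (nat_lit 357) (nat_lit 291)) (XT.lf (nat_lit 0) (nat_lit 1318595035) (nat_lit 1064) (nat_lit 6689863456) (nat_lit 1140) (nat_lit 1194696914) (nat_lit 399) (nat_lit 5) (nat_lit 413) (nat_lit 5) (nat_lit 414) (nat_lit 5) (nat_lit 373) (nat_lit 357) (nat_lit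 290)))) (XT.nd (nat_lit 156) (nat_lit 1216) (nat_lit 0) (XT.nd (nat_lit 78) (nat_lit 1140) (nat_lit 0) (XT.lf (nat_lit 0) (nat_lit 395404748) (nat_lit 1140) (nat_lit 2679999437) (nat_lit 76) (nat_lit 6250545232) (nat_lit 398) (nat_lit 5) (nat_lit 413) (nat_lit 5) (nat_lit 399) (nat_lit 5) (nat_lit 374) (nat_lit 357) (nat_lit 289)) (XT.lf (nat_lit 0) (nat_lit 2006109063) (nat_lit 1216) (nat_lit 6767734402) (nat_lit 76) (nat_lit 678321567) (nat_lit 383) (nat_lit 5) (nat_lit 399) (nat_lit 5) (nat_lit 384) (nat_lit 5) (nat_lit 375) (nat_lit 357) (nat_lit 288))) (XT.nd (nat_lit 78) (nat_lit 1216) (nat_lit 0) (XT.lf (nat_lit 0) (nat_lit 3688105227) (nat_lit 1216) (nat_lit 1378246737) (nat_lit 76) (nat_lit 4515126031) (nat_lit 383) (nat_lit 5) (nat_lit 399) (nat_lit 5) (nat_lit 384) (nat_lit 5) (nat_lit 376) (nat_lit 357) (nat_lit 287)) (XT.lf (nat_lit 0) (nat_lit 4225372977) (nat_lit 1216) (nat_lit 1202009524)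 (nat_lit 1292) (nat_lit 4287083210) (nat_lit 367) (nat_lit 5) (nat_lit 383) (nat_lit 5) (nat_lit 384) (nat_lit 5) (nat_lit 377) (nat_lit 357) (nat_lit 286))))))) (XT.nd (nat_lit 1170) (nat_lit 4180) (nat_lit 0) (XT.nd (nat_lit 546) (nat_lit 2812) (nat_lit 0) (XT.nd (nat_lit 234) (nat_lit 1140) (nat_lit 0) (XT.nd (nat_lit 78) (nat_lit 684) (nat_lit 0) (XT.lf (nat_lit 0) (nat_lit 119071697) (nat_lit 836) (nat_lit 7108608387) (nat_lit 912) (nat_lit 2623497713) (nat_lit 356) (nat_lit 5) (nat_lit 367) (nat_lit 5) (nat_lit 368) (nat_lit 5) (nat_lit 378) (nat_lit 357) (nat_lit 285)) (XT.nd (nat_lit 78) (nat_lit 684) (nat_lit 0) (XT.lf (nat_lit 0) (nat_lit 5965429358) (nat_lit 836) (nat_lit 3151376847) (nat_lit 912) (nat_lit 874140453) (nat_lit 356) (nat_lit 5) (nat_lit 367) (nat_lit 5) (nat_lit 368) (nat_lit 5) (nat_lit 379) (nat_lit 357) (nat_lit 284)) (XT.lf (nat_lit 0) (nat_lit 904776285) (nat_lit 684)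 (nat_lit 8294970896) (nat_lit 76) (nat_lit 935038432) (nat_lit 347) (nat_lit 5) (nat_lit 356) (nat_lit 5) (nat_lit 348) (nat_lit 5) (nat_lit 380) (nat_lit 357) (nat_lit 283)))) (XT.nd (nat_lit 156) (nat_lit 532) (nat_lit 0) (XT.nd (nat_lit 78) (nat_lit 608) (nat_lit 0) (XT.lf (nat_lit 0) (nat_lit 2760633220) (nat_lit 684) (nat_lit 2389183666) (nat_lit 76) (nat_lit 5131628943) (nat_lit 347) (nat_lit 5) (nat_lit 356) (nat_lit 5) (nat_lit 348) (nat_lit 5) (nat_lit 381) (nat_lit 357) (nat_lit 282)) (XT.lf (nat_lit 0) (nat_lit 3736762647) (nat_lit 608) (nat_lit 941117433) (nat_lit 684) (nat_lit 5754454345) (nat_lit 339) (nat_lit 5) (nat_lit 347) (nat_lit 5) (nat_lit 348) (nat_lit 5) (nat_lit 382) (nat_lit 357) (nat_lit 281))) (XT.nd (nat_lit 78) (nat_lit 532) (nat_lit 0) (XT.lf (nat_lit 0) (nat_lit 6680021762) (nat_lit 684) (nat_lit 554952031) (nat_lit 76) (nat_lit 3351954563) (nat_lit 339) (nat_lit 5) (nat_lit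 348) (nat_lit 5) (nat_lit 340) (nat_lit 5) (nat_lit 383) (nat_lit 357) (nat_lit 280)) (XT.lf (nat_lit 0) (nat_lit 5844987361) (nat_lit 532) (nat_lit 2933995162) (nat_lit 608) (nat_lit 1966074937) (nat_lit 332) (nat_lit 5) (nat_lit 339) (nat_lit 5) (nat_lit 340) (nat_lit 5) (nat_lit 384) (nat_lit 357) (nat_lit 279))))) (XT.nd (nat_lit 312) (nat_lit 1596) (nat_lit 0) (XT.nd (nat_lit 156) (nat_lit 532) (nat_lit 0) (XT.nd (nat_lit 78) (nat_lit 0) (nat_lit 0) (XT.lf (nat_lit 0) (nat_lit 38903729) (nat_lit 684) (nat_lit 9382424401) (nat_lit 76) (nat_lit 1486395827) (nat_lit 323) (nat_lit 5) (nat_lit 332) (nat_lit 5) (nat_lit 324) (nat_lit 5) (nat_lit 385) (nat_lit 357) (nat_lit 278)) (XT.lf (nat_lit 0) (nat_lit 2115591703) (nat_lit 684) (nat_lit 2909356644) (nat_lit 76) (nat_lit 6048205836) (nat_lit 323) (nat_lit 5) (nat_lit 332) (nat_lit 5) (nat_lit 324) (nat_lit 5) (nat_lit 386) (nat_lit 357) (nat_lit 277)))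 (XT.nd (nat_lit 78) (nat_lit 0) (nat_lit 0) (XT.lf (nat_lit 0) (nat_lit 3802549132) (nat_lit 532) (nat_lit 461453163) (nat_lit 608) (nat_lit 6979262361) (nat_lit 316) (nat_lit 5) (nat_lit 323) (nat_lit 5) (nat_lit 324) (nat_lit 5) (nat_lit 387) (nat_lit 357) (nat_lit 276)) (XT.lf (nat_lit 0) (nat_lit 6520635256) (nat_lit 608) (nat_lit 713223181) (nat_lit 76) (nat_lit 4183306905) (nat_lit 316) (nat_lit 5) (nat_lit 324) (nat_lit 5) (nat_lit 317) (nat_lit 5) (nat_lit 388) (nat_lit 357) (nat_lit 275)))) (XT.nd (nat_lit 156) (nat_lit 608) (nat_lit 0) (XT.nd (nat_lit 78) (nat_lit 456) (nat_lit 0) (XT.lf (nat_lit 0) (nat_lit 6305402202) (nat_lit 532) (nat_lit 2578874377) (nat_lit 608) (nat_lit 2710827188) (nat_lit 309) (nat_lit 5) (nat_lit 316) (nat_lit 5) (nat_lit 317) (nat_lit 5) (nat_lit 389) (nat_lit 357) (nat_lit 274)) (XT.lf (nat_lit 0) (nat_lit 1754298138) (nat_lit 456) (nat_lit 9584536679) (nat_lit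 532) (nat_lit 438945297) (nat_lit 303) (nat_lit 5) (nat_lit 309) (nat_lit 5) (nat_lit 310) (nat_lit 5) (nat_lit 390) (nat_lit 357) (nat_lit 273))) (XT.nd (nat_lit 78) (nat_lit 532) (nat_lit 0) (XT.lf (nat_lit 0) (nat_lit 1918256964) (nat_lit 532) (nat_lit 2920437544) (nat_lit 76) (nat_lit 7125066179) (nat_lit 302) (nat_lit 5) (nat_lit 309) (nat_lit 5) (nat_lit 303) (nat_lit 5) (nat_lit 391) (nat_lit 357) (nat_lit 272)) (XT.lf (nat_lit 0) (nat_lit 4356538833) (nat_lit 608) (nat_lit 7706318251) (nat_lit 76) (nat_lit 91757634) (nat_lit 295) (nat_lit 5) (nat_lit 303) (nat_lit 5) (nat_lit 296) (nat_lit 5) (nat_lit 392) (nat_lit 357) (nat_lit 271)))))) (XT.nd (nat_lit 624) (nat_lit 1900) (nat_lit 0) (XT.nd (nat_lit 312) (nat_lit 1292) (nat_lit 0) (XT.nd (nat_lit 156) (nat_lit 532) (nat_lit 0) (XT.nd (nat_lit 78) (nat_lit 456) (nat_lit 0) (XT.lf (nat_lit 0) (nat_lit 6921570477) (nat_lit 608) (nat_lit 329893558)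 (nat_lit 76) (nat_lit 5098122296) (nat_lit 295) (nat_lit 5) (nat_lit 303) (nat_lit 5) (nat_lit 296) (nat_lit 5) (nat_lit 393) (nat_lit 357) (nat_lit 270)) (XT.lf (nat_lit 0) (nat_lit 7383412831) (nat_lit 456) (nat_lit 2227726519) (nat_lit 532) (nat_lit 2937840154) (nat_lit 289) (nat_lit 5) (nat_lit 295) (nat_lit 5) (nat_lit 296) (nat_lit 5) (nat_lit 394) (nat_lit 357) (nat_lit 269))) (XT.nd (nat_lit 78) (nat_lit 76) (nat_lit 0) (XT.lf (nat_lit 0) (nat_lit 2573640920) (nat_lit 456) (nat_lit 9841155896) (nat_lit 532) (nat_lit 338555610) (nat_lit 283) (nat_lit 5) (nat_lit 289) (nat_lit 5) (nat_lit 290) (nat_lit 5) (nat_lit 395) (nat_lit 357) (nat_lit 268)) (XT.lf (nat_lit 0) (nat_lit 2344950313) (nat_lit 532) (nat_lit 2385451944) (nat_lit 76) (nat_lit 8231223464) (nat_lit 282) (nat_lit 5) (nat_lit 289) (nat_lit 5) (nat_lit 283) (nat_lit 5) (nat_lit 396) (nat_lit 357) (nat_lit 267)))) (XT.nd (nat_lit 156)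 (nat_lit 456) (nat_lit 0) (XT.nd (nat_lit 78) (nat_lit 456) (nat_lit 0) (XT.lf (nat_lit 0) (nat_lit 5140627883) (nat_lit 456) (nat_lit 7457931503) (nat_lit 76) (nat_lit 576333134) (nat_lit 277) (nat_lit 5) (nat_lit 283) (nat_lit 5) (nat_lit 278) (nat_lit 5) (nat_lit 397) (nat_lit 357) (nat_lit 266)) (XT.lf (nat_lit 0) (nat_lit 654718661) (nat_lit 456) (nat_lit 7421042763) (nat_lit 532) (nat_lit 5317128329) (nat_lit 271) (nat_lit 5) (nat_lit 277) (nat_lit 5) (nat_lit 278) (nat_lit 5) (nat_lit 398) (nat_lit 357) (nat_lit 265))) (XT.nd (nat_lit 78) (nat_lit 456) (nat_lit 0) (XT.lf (nat_lit 0) (nat_lit 9135413753) (nat_lit 456) (nat_lit 2017341023) (nat_lit 532) (nat_lit 2463057953) (nat_lit 271) (nat_lit 5) (nat_lit 277) (nat_lit 5) (nat_lit 278) (nat_lit 5) (nat_lit 399) (nat_lit 357) (nat_lit 264)) (XT.lf (nat_lit 0) (nat_lit 519871208) (nat_lit 456) (nat_lit 9807047816) (nat_lit 76) (nat_lit 3516790793)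 (nat_lit 265) (nat_lit 5) (nat_lit 271) (nat_lit 5) (nat_lit 266) (nat_lit 5) (nat_lit 400) (nat_lit 357) (nat_lit 263))))) (XT.nd (nat_lit 312) (nat_lit 1140) (nat_lit 0) (XT.nd (nat_lit 156) (nat_lit 380) (nat_lit 0) (XT.nd (nat_lit 78) (nat_lit 380) (nat_lit 0) (XT.lf (nat_lit 0) (nat_lit 3587647033) (nat_lit 456) (nat_lit 1248912955) (nat_lit 76) (nat_lit 9239806315) (nat_lit 265) (nat_lit 5) (nat_lit 271) (nat_lit 5) (nat_lit 266) (nat_lit 5) (nat_lit 401) (nat_lit 357) (nat_lit 262)) (XT.lf (nat_lit 0) (nat_lit 6809701332) (nat_lit 456) (nat_lit 6634200501) (nat_lit 76) (nat_lit 870233294) (nat_lit 260) (nat_lit 5) (nat_lit 266) (nat_lit 5) (nat_lit 261) (nat_lit 5) (nat_lit 402) (nat_lit 357) (nat_lit 261))) (XT.nd (nat_lit 78) (nat_lit 0) (nat_lit 0) (XT.lf (nat_lit 0) (nat_lit 2313179083) (nat_lit 380) (nat_lit 7878161728) (nat_lit 456) (nat_lit 4365808497) (nat_lit 255) (nat_lit 5) (nat_lit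 260) (nat_lit 5) (nat_lit 261) (nat_lit 5) (nat_lit 403) (nat_lit 357) (nat_lit 260)) (XT.lf (nat_lit 0) (nat_lit 11637706415) (nat_lit 380) (nat_lit 2084098687) (nat_lit 456) (nat_lit 1084227545) (nat_lit 255) (nat_lit 5) (nat_lit 260) (nat_lit 5) (nat_lit 261) (nat_lit 5) (nat_lit 404) (nat_lit 357) (nat_lit 259)))) (XT.nd (nat_lit 156) (nat_lit 380) (nat_lit 0) (XT.nd (nat_lit 78) (nat_lit 304) (nat_lit 0) (XT.lf (nat_lit 0) (nat_lit 2329945670) (nat_lit 456) (nat_lit 8845894158) (nat_lit 76) (nat_lit 3883512274) (nat_lit 249) (nat_lit 5) (nat_lit 255) (nat_lit 5) (nat_lit 250) (nat_lit 5) (nat_lit 405) (nat_lit 357) (nat_lit 258)) (XT.lf (nat_lit 0) (nat_lit 574773745) (nat_lit 304) (nat_lit 5289445721) (nat_lit 380) (nat_lit 9454545608) (nat_lit 245) (nat_lit 5) (nat_lit 249) (nat_lit 5) (nat_lit 250) (nat_lit 5) (nat_lit 406) (nat_lit 357) (nat_lit 257))) (XT.nd (nat_lit 78) (nat_lit 380) (nat_lit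 0) (XT.lf (nat_lit 0) (nat_lit 9583382385) (nat_lit 380) (nat_lit 5159512348) (nat_lit 76) (nat_lit 840699874) (nat_lit 245) (nat_lit 5) (nat_lit 250) (nat_lit 5) (nat_lit 246) (nat_lit 5) (nat_lit 407) (nat_lit 357) (nat_lit 256)) (XT.lf (nat_lit 0) (nat_lit 4725838300) (nat_lit 380) (nat_lit 8767842005) (nat_lit 456) (nat_lit 2360301919) (nat_lit 240) (nat_lit 5) (nat_lit 245) (nat_lit 5) (nat_lit 246) (nat_lit 5) (nat_lit 408) (nat_lit 357) (nat_lit 255))))))))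
noncomputable def xc140 : XT := (XT.nd (nat_lit 2340) (nat_lit 3344) (nat_lit 0) (XT.nd (nat_lit 1170) (nat_lit 2356) (nat_lit 0) (XT.nd (nat_lit 546) (nat_lit 1444) (nat_lit 0) (XT.nd (nat_lit 234) (nat_lit 684) (nat_lit 0) (XT.nd (nat_lit 78) (nat_lit 608) (nat_lit 0) (XT.lf (nat_lit 0) (nat_lit 1396184678) (nat_lit 456) (nat_lit 1157881071) (nat_lit 76) (nat_lit 13576980829) (nat_lit 239) (nat_lit 5) (nat_lit 245) (nat_lit 5) (nat_lit 240) (nat_lit 5) (nat_lit 409) (nat_lit 357) (nat_lit 254)) (XT.nd (nat_lit 78) (nat_lit 304) (nat_lit 0) (XT.lf (nat_lit 0) (nat_lit 5327166364) (nat_lit 380) (nat_lit 7208946424) (nat_lit 76) (nat_lit 3876331790) (nat_lit 235) (nat_lit 5) (nat_lit 240) (nat_lit 5) (nat_lit 236) (nat_lit 5) (nat_lit 410) (nat_lit 357) (nat_lit 253)) (XT.lf (nat_lit 0) (nat_lit 3208706500) (nat_lit 304) (nat_lit 6217889720) (nat_lit 380) (nat_lit 7274172736) (nat_lit 231) (nat_lit 5)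 (nat_lit 235) (nat_lit 5) (nat_lit 236) (nat_lit 5) (nat_lit 411) (nat_lit 357) (nat_lit 252)))) (XT.nd (nat_lit 156) (nat_lit 304) (nat_lit 0) (XT.nd (nat_lit 78) (nat_lit 380) (nat_lit 0) (XT.lf (nat_lit 0) (nat_lit 13708068222) (nat_lit 380) (nat_lit 2938601874) (nat_lit 76) (nat_lit 349301192) (nat_lit 231) (nat_lit 5) (nat_lit 236) (nat_lit 5) (nat_lit 232) (nat_lit 5) (nat_lit 412) (nat_lit 357) (nat_lit 251)) (XT.lf (nat_lit 0) (nat_lit 924926453) (nat_lit 380) (nat_lit 9304863990) (nat_lit 76) (nat_lit 7066315377) (nat_lit 226) (nat_lit 5) (nat_lit 231) (nat_lit 5) (nat_lit 227) (nat_lit 5) (nat_lit 413) (nat_lit 357) (nat_lit 250))) (XT.nd (nat_lit 78) (nat_lit 0) (nat_lit 0) (XT.lf (nat_lit 0) (nat_lit 1679266553) (nat_lit 304) (nat_lit 3548240968) (nat_lit 380) (nat_lit 12375876754) (nat_lit 222) (nat_lit 5) (nat_lit 226) (nat_lit 5) (nat_lit 227) (nat_lit 5) (nat_lit 414) (nat_lit 357) (nat_lit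 249)) (XT.lf (nat_lit 0) (nat_lit 9769600739) (nat_lit 380) (nat_lit 4792054118) (nat_lit 76) (nat_lit 3354913185) (nat_lit 222) (nat_lit 5) (nat_lit 227) (nat_lit 5) (nat_lit 223) (nat_lit 5) (nat_lit 415) (nat_lit 357) (nat_lit 248))))) (XT.nd (nat_lit 312) (nat_lit 608) (nat_lit 0) (XT.nd (nat_lit 156) (nat_lit 228) (nat_lit 0) (XT.nd (nat_lit 78) (nat_lit 380) (nat_lit 0) (XT.lf (nat_lit 0) (nat_lit 6745540906) (nat_lit 228) (nat_lit 7786367306) (nat_lit 304) (nat_lit 3704720566) (nat_lit 219) (nat_lit 5) (nat_lit 222) (nat_lit 5) (nat_lit 223) (nat_lit 5) (nat_lit 416) (nat_lit 357) (nat_lit 247)) (XT.lf (nat_lit 0) (nat_lit 131368119) (nat_lit 304) (nat_lit 756616493) (nat_lit 380) (nat_lit 17677030105) (nat_lit 214) (nat_lit 5) (nat_lit 218) (nat_lit 5) (nat_lit 219) (nat_lit 5) (nat_lit 417) (nat_lit 357) (nat_lit 246))) (XT.nd (nat_lit 78) (nat_lit 228) (nat_lit 0) (XT.lf (nat_lit 0) (nat_lit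 5707715315) (nat_lit 380) (nat_lit 6687016908) (nat_lit 76) (nat_lit 6502508432) (nat_lit 214) (nat_lit 5) (nat_lit 219) (nat_lit 5) (nat_lit 215) (nat_lit 5) (nat_lit 418) (nat_lit 357) (nat_lit 245)) (XT.lf (nat_lit 0) (nat_lit 5487185561) (nat_lit 228) (nat_lit 5229741084) (nat_lit 304) (nat_lit 8521160065) (nat_lit 211) (nat_lit 5) (nat_lit 214) (nat_lit 5) (nat_lit 215) (nat_lit 5) (nat_lit 419) (nat_lit 357) (nat_lit 244)))) (XT.nd (nat_lit 156) (nat_lit 228) (nat_lit 0) (XT.nd (nat_lit 78) (nat_lit 380) (nat_lit 0) (XT.lf (nat_lit 0) (nat_lit 15950056801) (nat_lit 304) (nat_lit 1469316050) (nat_lit 76) (nat_lit 2167576021) (nat_lit 211) (nat_lit 5) (nat_lit 215) (nat_lit 5) (nat_lit 212) (nat_lit 5) (nat_lit 420) (nat_lit 357) (nat_lit 243)) (XT.lf (nat_lit 0) (nat_lit 1514023918) (nat_lit 380) (nat_lit 8630616243) (nat_lit 76) (nat_lit 9796815164) (nat_lit 206) (nat_lit 5) (nat_lit 211) (nat_lit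 5) (nat_lit 207) (nat_lit 5) (nat_lit 421) (nat_lit 357) (nat_lit 242))) (XT.nd (nat_lit 78) (nat_lit 0) (nat_lit 0) (XT.lf (nat_lit 0) (nat_lit 4220689527) (nat_lit 228) (nat_lit 2566517704) (nat_lit 304) (nat_lit 13517084344) (nat_lit 203) (nat_lit 5) (nat_lit 206) (nat_lit 5) (nat_lit 207) (nat_lit 5) (nat_lit 422) (nat_lit 357) (nat_lit 241)) (XT.lf (nat_lit 0) (nat_lit 12342356618) (nat_lit 304) (nat_lit 3116163307) (nat_lit 76) (nat_lit 5215779870) (nat_lit 203) (nat_lit 5) (nat_lit 207) (nat_lit 5) (nat_lit 204) (nat_lit 5) (nat_lit 423) (nat_lit 357) (nat_lit 240)))))) (XT.nd (nat_lit 546) (nat_lit 1064) (nat_lit 0) (XT.nd (nat_lit 234) (nat_lit 760) (nat_lit 0) (XT.nd (nat_lit 78) (nat_lit 304) (nat_lit 0) (XT.lf (nat_lit 0) (nat_lit 10394423339) (nat_lit 228) (nat_lit 7780886548) (nat_lit 304) (nat_lit 2876763892) (nat_lit 200) (nat_lit 5) (nat_lit 203) (nat_lit 5) (nat_lit 204) (nat_lit 5)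 (nat_lit 424) (nat_lit 357) (nat_lit 239)) (XT.nd (nat_lit 78) (nat_lit 0) (nat_lit 0) (XT.lf (nat_lit 0) (nat_lit 2736477751) (nat_lit 304) (nat_lit 18499655309) (nat_lit 76) (nat_lit 202819728) (nat_lit 196) (nat_lit 5) (nat_lit 200) (nat_lit 5) (nat_lit 197) (nat_lit 5) (nat_lit 425) (nat_lit 357) (nat_lit 238)) (XT.lf (nat_lit 0) (nat_lit 8631996397) (nat_lit 304) (nat_lit 4801621652) (nat_lit 76) (nat_lit 8397814640) (nat_lit 196) (nat_lit 5) (nat_lit 200) (nat_lit 5) (nat_lit 197) (nat_lit 5) (nat_lit 426) (nat_lit 357) (nat_lit 237)))) (XT.nd (nat_lit 156) (nat_lit 304) (nat_lit 0) (XT.nd (nat_lit 78) (nat_lit 228) (nat_lit 0) (XT.lf (nat_lit 0) (nat_lit 9469366996) (nat_lit 228) (nat_lit 5312421913) (nat_lit 304) (nat_lit 7451575829) (nat_lit 193) (nat_lit 5) (nat_lit 196) (nat_lit 5) (nat_lit 197) (nat_lit 5) (nat_lit 427) (nat_lit 357) (nat_lit 236)) (XT.lf (nat_lit 0) (nat_lit 1599545049)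 (nat_lit 228) (nat_lit 19596689936) (nat_lit 304) (nat_lit 1448714967) (nat_lit 190) (nat_lit 5) (nat_lit 193) (nat_lit 5) (nat_lit 194) (nat_lit 5) (nat_lit 428) (nat_lit 357) (nat_lit 235))) (XT.nd (nat_lit 78) (nat_lit 228) (nat_lit 0) (XT.lf (nat_lit 0) (nat_lit 4811135036) (nat_lit 304) (nat_lit 6531659148) (nat_lit 76) (nat_lit 11719644735) (nat_lit 189) (nat_lit 5) (nat_lit 193) (nat_lit 5) (nat_lit 190) (nat_lit 5) (nat_lit 429) (nat_lit 357) (nat_lit 234)) (XT.lf (nat_lit 0) (nat_lit 8547715076) (nat_lit 228) (nat_lit 2751025720) (nat_lit 304) (nat_lit 12191209106) (nat_lit 186) (nat_lit 5) (nat_lit 189) (nat_lit 5) (nat_lit 190) (nat_lit 5) (nat_lit 430) (nat_lit 357) (nat_lit 233))))) (XT.nd (nat_lit 312) (nat_lit 608) (nat_lit 0) (XT.nd (nat_lit 156) (nat_lit 228) (nat_lit 0) (XT.nd (nat_lit 78) (nat_lit 76) (nat_lit 0) (XT.lf (nat_lit 0) (nat_lit 207510431) (nat_lit 152) (nat_lit 17887685666)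 (nat_lit 228) (nat_lit 5831663477) (nat_lit 184) (nat_lit 5) (nat_lit 186) (nat_lit 5) (nat_lit 187) (nat_lit 5) (nat_lit 431) (nat_lit 357) (nat_lit 232)) (XT.lf (nat_lit 0) (nat_lit 871297229) (nat_lit 228) (nat_lit 8312299006) (nat_lit 76) (nat_lit 15188073476) (nat_lit 183) (nat_lit 5) (nat_lit 186) (nat_lit 5) (nat_lit 184) (nat_lit 5) (nat_lit 432) (nat_lit 357) (nat_lit 231))) (XT.nd (nat_lit 78) (nat_lit 0) (nat_lit 0) (XT.lf (nat_lit 0) (nat_lit 7626333630) (nat_lit 228) (nat_lit 92522550) (nat_lit 304) (nat_lit 17107414193) (nat_lit 180) (nat_lit 5) (nat_lit 183) (nat_lit 5) (nat_lit 184) (nat_lit 5) (nat_lit 433) (nat_lit 357) (nat_lit 230)) (XT.lf (nat_lit 0) (nat_lit 14933216151) (nat_lit 304) (nat_lit 1190203916) (nat_lit 76) (nat_lit 9166247762) (nat_lit 180) (nat_lit 5) (nat_lit 184) (nat_lit 5) (nat_lit 181) (nat_lit 5) (nat_lit 434) (nat_lit 357) (nat_lit 229)))) (XT.nd (nat_lit 156)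 (nat_lit 152) (nat_lit 0) (XT.nd (nat_lit 78) (nat_lit 304) (nat_lit 0) (XT.lf (nat_lit 0) (nat_lit 15581816656) (nat_lit 152) (nat_lit 6920736837) (nat_lit 228) (nat_lit 3260257317) (nat_lit 178) (nat_lit 5) (nat_lit 180) (nat_lit 5) (nat_lit 181) (nat_lit 5) (nat_lit 435) (nat_lit 357) (nat_lit 228)) (XT.lf (nat_lit 0) (nat_lit 4059906891) (nat_lit 304) (nat_lit 19570518995) (nat_lit 76) (nat_lit 2615851867) (nat_lit 174) (nat_lit 5) (nat_lit 178) (nat_lit 5) (nat_lit 175) (nat_lit 5) (nat_lit 436) (nat_lit 357) (nat_lit 227))) (XT.nd (nat_lit 78) (nat_lit 152) (nat_lit 0) (XT.lf (nat_lit 0) (nat_lit 11694443398) (nat_lit 304) (nat_lit 2617313806) (nat_lit 76) (nat_lit 12426714248) (nat_lit 174) (nat_lit 5) (nat_lit 178) (nat_lit 5) (nat_lit 175) (nat_lit 5) (nat_lit 437) (nat_lit 357) (nat_lit 226)) (XT.lf (nat_lit 0) (nat_lit 15118886047) (nat_lit 152) (nat_lit 4572760176) (nat_lit 228) (nat_lit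 7549775832) (nat_lit 172) (nat_lit 5) (nat_lit 174) (nat_lit 5) (nat_lit 175) (nat_lit 5) (nat_lit 438) (nat_lit 357) (nat_lit 225))))))) (XT.nd (nat_lit 1170) (nat_lit 1520) (nat_lit 0) (XT.nd (nat_lit 546) (nat_lit 912) (nat_lit 0) (XT.nd (nat_lit 234) (nat_lit 532) (nat_lit 0) (XT.nd (nat_lit 78) (nat_lit 152) (nat_lit 0) (XT.lf (nat_lit 0) (nat_lit 289719294) (nat_lit 228) (nat_lit 22038261399) (nat_lit 76) (nat_lit 5427720088) (nat_lit 169) (nat_lit 5) (nat_lit 172) (nat_lit 5) (nat_lit 170) (nat_lit 5) (nat_lit 439) (nat_lit 357) (nat_lit 224)) (XT.nd (nat_lit 78) (nat_lit 152) (nat_lit 0) (XT.lf (nat_lit 0) (nat_lit 8369942849) (nat_lit 228) (nat_lit 4082571489) (nat_lit 76) (nat_lit 15825932425) (nat_lit 169) (nat_lit 5) (nat_lit 172) (nat_lit 5) (nat_lit 170) (nat_lit 5) (nat_lit 440) (nat_lit 357) (nat_lit 223)) (XT.lf (nat_lit 0) (nat_lit 14678101998) (nat_lit 152) (nat_lit 2144290161) (nat_lit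 228) (nat_lit 11990588395) (nat_lit 167) (nat_lit 5) (nat_lit 169) (nat_lit 5) (nat_lit 170) (nat_lit 5) (nat_lit 441) (nat_lit 357) (nat_lit 222)))) (XT.nd (nat_lit 156) (nat_lit 304) (nat_lit 0) (XT.nd (nat_lit 78) (nat_lit 76) (nat_lit 0) (XT.lf (nat_lit 0) (nat_lit 4712916803) (nat_lit 152) (nat_lit 20972661951) (nat_lit 228) (nat_lit 3673256690) (nat_lit 165) (nat_lit 5) (nat_lit 167) (nat_lit 5) (nat_lit 168) (nat_lit 5) (nat_lit 442) (nat_lit 357) (nat_lit 221)) (XT.lf (nat_lit 0) (nat_lit 4952283685) (nat_lit 228) (nat_lit 5590758424) (nat_lit 76) (nat_lit 19371987252) (nat_lit 164) (nat_lit 5) (nat_lit 167) (nat_lit 5) (nat_lit 165) (nat_lit 5) (nat_lit 443) (nat_lit 357) (nat_lit 220))) (XT.nd (nat_lit 78) (nat_lit 152) (nat_lit 0) (XT.lf (nat_lit 0) (nat_lit 13892499917) (nat_lit 228) (nat_lit 16228263750) (nat_lit 76) (nat_lit 362162209) (nat_lit 162) (nat_lit 5) (nat_lit 165) (nat_lit 5)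 (nat_lit 163) (nat_lit 5) (nat_lit 444) (nat_lit 357) (nat_lit 219)) (XT.lf (nat_lit 0) (nat_lit 3691323815) (nat_lit 152) (nat_lit 19595658272) (nat_lit 228) (nat_lit 7775295416) (nat_lit 160) (nat_lit 5) (nat_lit 162) (nat_lit 5) (nat_lit 163) (nat_lit 5) (nat_lit 445) (nat_lit 357) (nat_lit 218))))) (XT.nd (nat_lit 312) (nat_lit 532) (nat_lit 0) (XT.nd (nat_lit 156) (nat_lit 152) (nat_lit 0) (XT.nd (nat_lit 78) (nat_lit 152) (nat_lit 0) (XT.lf (nat_lit 0) (nat_lit 1433531172) (nat_lit 228) (nat_lit 7146759911) (nat_lit 76) (nat_lit 23073701662) (nat_lit 159) (nat_lit 5) (nat_lit 162) (nat_lit 5) (nat_lit 160) (nat_lit 5) (nat_lit 446) (nat_lit 357) (nat_lit 217)) (XT.lf (nat_lit 0) (nat_lit 10913657761) (nat_lit 228) (nat_lit 18427540500) (nat_lit 76) (nat_lit 2915412362) (nat_lit 157) (nat_lit 5) (nat_lit 160) (nat_lit 5) (nat_lit 158) (nat_lit 5) (nat_lit 447) (nat_lit 357) (nat_lit 216))) (XT.nd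 (nat_lit 78) (nat_lit 0) (nat_lit 0) (XT.lf (nat_lit 0) (nat_lit 2652488825) (nat_lit 152) (nat_lit 18198586414) (nat_lit 228) (nat_lit 12021045184) (nat_lit 155) (nat_lit 5) (nat_lit 157) (nat_lit 5) (nat_lit 158) (nat_lit 5) (nat_lit 448) (nat_lit 357) (nat_lit 215)) (XT.lf (nat_lit 0) (nat_lit 24723715656) (nat_lit 152) (nat_lit 6538657291) (nat_lit 228) (nat_lit 2238449841) (nat_lit 155) (nat_lit 5) (nat_lit 157) (nat_lit 5) (nat_lit 158) (nat_lit 5) (nat_lit 449) (nat_lit 357) (nat_lit 214)))) (XT.nd (nat_lit 156) (nat_lit 152) (nat_lit 0) (XT.nd (nat_lit 78) (nat_lit 152) (nat_lit 0) (XT.lf (nat_lit 0) (nat_lit 7858655115) (nat_lit 228) (nat_lit 20719328350) (nat_lit 76) (nat_lit 5562923396) (nat_lit 152) (nat_lit 5) (nat_lit 155) (nat_lit 5) (nat_lit 153) (nat_lit 5) (nat_lit 450) (nat_lit 357) (nat_lit 213)) (XT.lf (nat_lit 0) (nat_lit 1593287127) (nat_lit 152) (nat_lit 16779873497) (nat_lit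 228) (nat_lit 16421583605) (nat_lit 150) (nat_lit 5) (nat_lit 152) (nat_lit 5) (nat_lit 153) (nat_lit 5) (nat_lit 451) (nat_lit 357) (nat_lit 212))) (XT.nd (nat_lit 78) (nat_lit 152) (nat_lit 0) (XT.lf (nat_lit 0) (nat_lit 24981553337) (nat_lit 152) (nat_lit 4420803014) (nat_lit 228) (nat_lit 6059862716) (nat_lit 150) (nat_lit 5) (nat_lit 152) (nat_lit 5) (nat_lit 153) (nat_lit 5) (nat_lit 452) (nat_lit 357) (nat_lit 211)) (XT.lf (nat_lit 0) (nat_lit 4720474462) (nat_lit 152) (nat_lit 23111153995) (nat_lit 76) (nat_lit 8310826231) (nat_lit 148) (nat_lit 5) (nat_lit 150) (nat_lit 5) (nat_lit 149) (nat_lit 5) (nat_lit 453) (nat_lit 357) (nat_lit 210)))))) (XT.nd (nat_lit 624) (nat_lit 760) (nat_lit 0) (XT.nd (nat_lit 312) (nat_lit 456) (nat_lit 0) (XT.nd (nat_lit 156) (nat_lit 152) (nat_lit 0) (XT.nd (nat_lit 78) (nat_lit 0) (nat_lit 0) (XT.lf (nat_lit 0) (nat_lit 510549429) (nat_lit 152) (nat_lit 15337692990)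 (nat_lit 228) (nat_lit 20988680461) (nat_lit 146) (nat_lit 5) (nat_lit 148) (nat_lit 5) (nat_lit 149) (nat_lit 5) (nat_lit 454) (nat_lit 357) (nat_lit 209)) (XT.lf (nat_lit 0) (nat_lit 25296694303) (nat_lit 152) (nat_lit 2236895334) (nat_lit 228) (nat_lit 10011923094) (nat_lit 146) (nat_lit 5) (nat_lit 148) (nat_lit 5) (nat_lit 149) (nat_lit 5) (nat_lit 455) (nat_lit 357) (nat_lit 208))) (XT.nd (nat_lit 78) (nat_lit 0) (nat_lit 0) (XT.lf (nat_lit 0) (nat_lit 1491663697) (nat_lit 152) (nat_lit 25610870854) (nat_lit 76) (nat_lit 11165769127) (nat_lit 144) (nat_lit 5) (nat_lit 146) (nat_lit 5) (nat_lit 145) (nat_lit 5) (nat_lit 456) (nat_lit 357) (nat_lit 207)) (XT.lf (nat_lit 0) (nat_lit 13276775506) (nat_lit 152) (nat_lit 587266851) (nat_lit 76) (nat_lit 25141632743) (nat_lit 144) (nat_lit 5) (nat_lit 146) (nat_lit 5) (nat_lit 145) (nat_lit 5) (nat_lit 457) (nat_lit 357) (nat_lit 206)))) (XT.nd (nat_lit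 156) (nat_lit 228) (nat_lit 0) (XT.nd (nat_lit 78) (nat_lit 76) (nat_lit 0) (XT.lf (nat_lit 0) (nat_lit 25653235351) (nat_lit 228) (nat_lit 14087379216) (nat_lit 76) (nat_lit 17419257) (nat_lit 142) (nat_lit 5) (nat_lit 145) (nat_lit 5) (nat_lit 143) (nat_lit 4) (nat_lit 458) (nat_lit 357) (nat_lit 205)) (XT.lf (nat_lit 0) (nat_lit 12280709298) (nat_lit 76) (nat_lit 26372472955) (nat_lit 152) (nat_lit 1872215258) (nat_lit 141) (nat_lit 5) (nat_lit 142) (nat_lit 5) (nat_lit 143) (nat_lit 4) (nat_lit 459) (nat_lit 357) (nat_lit 204))) (XT.nd (nat_lit 78) (nat_lit 152) (nat_lit 0) (XT.lf (nat_lit 0) (nat_lit 10652579307) (nat_lit 152) (nat_lit 1704607383) (nat_lit 76) (nat_lit 28951464996) (nat_lit 140) (nat_lit 5) (nat_lit 142) (nat_lit 5) (nat_lit 141) (nat_lit 5) (nat_lit 460) (nat_lit 357) (nat_lit 203)) (XT.lf (nat_lit 0) (nat_lit 23780171433) (nat_lit 228) (nat_lit 16024282467) (nat_lit 76) (nat_lit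 2302452980) (nat_lit 138) (nat_lit 5) (nat_lit 141) (nat_lit 5) (nat_lit 139) (nat_lit 4) (nat_lit 461) (nat_lit 357) (nat_lit 202))))) (XT.nd (nat_lit 312) (nat_lit 380) (nat_lit 0) (XT.nd (nat_lit 156) (nat_lit 228) (nat_lit 0) (XT.nd (nat_lit 78) (nat_lit 76) (nat_lit 0) (XT.lf (nat_lit 0) (nat_lit 11902863773) (nat_lit 76) (nat_lit 25644065563) (nat_lit 152) (nat_lit 5374820253) (nat_lit 137) (nat_lit 5) (nat_lit 138) (nat_lit 5) (nat_lit 139) (nat_lit 4) (nat_lit 462) (nat_lit 357) (nat_lit 201)) (XT.lf (nat_lit 0) (nat_lit 7964829519) (nat_lit 152) (nat_lit 2854768636) (nat_lit 76) (nat_lit 32934503833) (nat_lit 136) (nat_lit 5) (nat_lit 138) (nat_lit 5) (nat_lit 137) (nat_lit 5) (nat_lit 463) (nat_lit 357) (nat_lit 200))) (XT.nd (nat_lit 78) (nat_lit 76) (nat_lit 0) (XT.lf (nat_lit 0) (nat_lit 21889587161) (nat_lit 228) (nat_lit 18044207087) (nat_lit 76) (nat_lit 4667245821) (nat_lit 134) (nat_lit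 5) (nat_lit 137) (nat_lit 5) (nat_lit 135) (nat_lit 4) (nat_lit 464) (nat_lit 357) (nat_lit 199)) (XT.lf (nat_lit 0) (nat_lit 11538270997) (nat_lit 76) (nat_lit 24932444304) (nat_lit 152) (nat_lit 8995512158) (nat_lit 133) (nat_lit 5) (nat_lit 134) (nat_lit 5) (nat_lit 135) (nat_lit 4) (nat_lit 465) (nat_lit 357) (nat_lit 198)))) (XT.nd (nat_lit 156) (nat_lit 152) (nat_lit 0) (XT.nd (nat_lit 78) (nat_lit 152) (nat_lit 0) (XT.lf (nat_lit 0) (nat_lit 5207267214) (nat_lit 152) (nat_lit 4041190546) (nat_lit 76) (nat_lit 37102167707) (nat_lit 132) (nat_lit 5) (nat_lit 134) (nat_lit 5) (nat_lit 133) (nat_lit 5) (nat_lit 466) (nat_lit 357) (nat_lit 197)) (XT.lf (nat_lit 0) (nat_lit 19977994771) (nat_lit 228) (nat_lit 20153617974) (nat_lit 76) (nat_lit 7117590767) (nat_lit 130) (nat_lit 5) (nat_lit 133) (nat_lit 5) (nat_lit 131) (nat_lit 4) (nat_lit 467) (nat_lit 357) (nat_lit 196))) (XT.nd (nat_lit 78) (nat_lit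 76) (nat_lit 0) (XT.lf (nat_lit 0) (nat_lit 11186294338) (nat_lit 76) (nat_lit 24237614220) (nat_lit 152) (nat_lit 12743868408) (nat_lit 129) (nat_lit 5) (nat_lit 130) (nat_lit 5) (nat_lit 131) (nat_lit 4) (nat_lit 468) (nat_lit 357) (nat_lit 195)) (XT.lf (nat_lit 0) (nat_lit 2373275568) (nat_lit 152) (nat_lit 5267434271) (nat_lit 76) (nat_lit 41466639094) (nat_lit 128) (nat_lit 5) (nat_lit 130) (nat_lit 5) (nat_lit 129) (nat_lit 5) (nat_lit 469) (nat_lit 357) (nat_lit 194))))))))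
noncomputable def xc141 : XT := (XT.nd (nat_lit 45006) (nat_lit 0) (nat_lit 13604) (XT.nd (nat_lit 1170) (nat_lit 608) (nat_lit 0) (XT.nd (nat_lit 546) (nat_lit 532) (nat_lit 0) (XT.nd (nat_lit 234) (nat_lit 532) (nat_lit 0) (XT.nd (nat_lit 78) (nat_lit 76) (nat_lit 0) (XT.lf (nat_lit 0) (nat_lit 18041720967) (nat_lit 228) (nat_lit 22359289063) (nat_lit 76) (nat_lit 9659694935) (nat_lit 126) (nat_lit 5) (nat_lit 129) (nat_lit 5) (nat_lit 127) (nat_lit 4) (nat_lit 470) (nat_lit 357) (nat_lit 193)) (XT.nd (nat_lit 78) (nat_lit 0) (nat_lit 0) (XT.lf (nat_lit 0) (nat_lit 10846343654) (nat_lit 76) (nat_lit 23559525126) (nat_lit 152) (nat_lit 16630023426) (nat_lit 125) (nat_lit 5) (nat_lit 126) (nat_lit 5) (nat_lit 127) (nat_lit 4) (nat_lit 471) (nat_lit 357) (nat_lit 192)) (XT.lf (nat_lit 0) (nat_lit 45491266369) (nat_lit 76) (nat_lit 5987565126) (nat_lit 152) (nat_lit 554966855) (nat_lit 125) (nat_lit 5)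 (nat_lit 126) (nat_lit 5) (nat_lit 127) (nat_lit 4) (nat_lit 472) (nat_lit 357) (nat_lit 191)))) (XT.nd (nat_lit 156) (nat_lit 228) (nat_lit 0) (XT.nd (nat_lit 78) (nat_lit 76) (nat_lit 0) (XT.lf (nat_lit 0) (nat_lit 16076899697) (nat_lit 228) (nat_lit 24668329478) (nat_lit 76) (nat_lit 12300193126) (nat_lit 122) (nat_lit 5) (nat_lit 125) (nat_lit 5) (nat_lit 123) (nat_lit 4) (nat_lit 473) (nat_lit 357) (nat_lit 190)) (XT.lf (nat_lit 0) (nat_lit 10517870825) (nat_lit 76) (nat_lit 22898079355) (nat_lit 152) (nat_lit 20664698482) (nat_lit 121) (nat_lit 5) (nat_lit 122) (nat_lit 5) (nat_lit 123) (nat_lit 4) (nat_lit 474) (nat_lit 357) (nat_lit 189))) (XT.nd (nat_lit 78) (nat_lit 228) (nat_lit 0) (XT.lf (nat_lit 0) (nat_lit 47250532313) (nat_lit 76) (nat_lit 4266098680) (nat_lit 152) (nat_lit 3623057058) (nat_lit 121) (nat_lit 5) (nat_lit 122) (nat_lit 5) (nat_lit 123) (nat_lit 4) (nat_lit 475) (nat_lit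 357) (nat_lit 188)) (XT.lf (nat_lit 0) (nat_lit 14079463845) (nat_lit 228) (nat_lit 27088210521) (nat_lit 76) (nat_lit 15046163649) (nat_lit 118) (nat_lit 5) (nat_lit 121) (nat_lit 5) (nat_lit 119) (nat_lit 4) (nat_lit 476) (nat_lit 357) (nat_lit 187))))) (XT.nd (nat_lit 312) (nat_lit 228) (nat_lit 0) (XT.nd (nat_lit 156) (nat_lit 228) (nat_lit 0) (XT.nd (nat_lit 78) (nat_lit 0) (nat_lit 0) (XT.lf (nat_lit 0) (nat_lit 10200365759) (nat_lit 76) (nat_lit 22253138605) (nat_lit 152) (nat_lit 24859234042) (nat_lit 117) (nat_lit 5) (nat_lit 118) (nat_lit 5) (nat_lit 119) (nat_lit 4) (nat_lit 477) (nat_lit 357) (nat_lit 186)) (XT.lf (nat_lit 0) (nat_lit 49148491006) (nat_lit 76) (nat_lit 2496411789) (nat_lit 152) (nat_lit 6791718913) (nat_lit 117) (nat_lit 5) (nat_lit 118) (nat_lit 5) (nat_lit 119) (nat_lit 4) (nat_lit 478) (nat_lit 357) (nat_lit 185))) (XT.nd (nat_lit 78) (nat_lit 76) (nat_lit 0) (XT.lf (nat_lit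 0) (nat_lit 12045135819) (nat_lit 152) (nat_lit 29626793635) (nat_lit 76) (nat_lit 17905146379) (nat_lit 115) (nat_lit 5) (nat_lit 117) (nat_lit 5) (nat_lit 116) (nat_lit 4) (nat_lit 479) (nat_lit 357) (nat_lit 184)) (XT.lf (nat_lit 0) (nat_lit 9893352821) (nat_lit 76) (nat_lit 21624529966) (nat_lit 152) (nat_lit 29225624650) (nat_lit 114) (nat_lit 5) (nat_lit 115) (nat_lit 5) (nat_lit 116) (nat_lit 4) (nat_lit 480) (nat_lit 357) (nat_lit 183)))) (XT.nd (nat_lit 156) (nat_lit 76) (nat_lit 0) (XT.nd (nat_lit 78) (nat_lit 152) (nat_lit 0) (XT.lf (nat_lit 0) (nat_lit 51192435356) (nat_lit 76) (nat_lit 674380857) (nat_lit 152) (nat_lit 10069355654) (nat_lit 114) (nat_lit 5) (nat_lit 115) (nat_lit 5) (nat_lit 116) (nat_lit 4) (nat_lit 481) (nat_lit 357) (nat_lit 182)) (XT.lf (nat_lit 0) (nat_lit 9969417066) (nat_lit 152) (nat_lit 32292359463) (nat_lit 76) (nat_lit 20885163056) (nat_lit 112) (nat_lit 5) (nat_lit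 114) (nat_lit 5) (nat_lit 113) (nat_lit 4) (nat_lit 482) (nat_lit 357) (nat_lit 181))) (XT.nd (nat_lit 78) (nat_lit 0) (nat_lit 0) (XT.lf (nat_lit 0) (nat_lit 9596387648) (nat_lit 76) (nat_lit 21012051238) (nat_lit 152) (nat_lit 33776556450) (nat_lit 111) (nat_lit 5) (nat_lit 112) (nat_lit 5) (nat_lit 113) (nat_lit 4) (nat_lit 483) (nat_lit 357) (nat_lit 180)) (XT.lf (nat_lit 0) (nat_lit 52197353652) (nat_lit 152) (nat_lit 12272033553) (nat_lit 0) (nat_lit 1180883886) (nat_lit 111) (nat_lit 5) (nat_lit 113) (nat_lit 4) (nat_lit 111) (nat_lit 4) (nat_lit 484) (nat_lit 357) (nat_lit 179)))))) (XT.nd (nat_lit 43212) (nat_lit 0) (nat_lit 24244) (XT.nd (nat_lit 234) (nat_lit 380) (nat_lit 0) (XT.nd (nat_lit 78) (nat_lit 76) (nat_lit 0) (XT.lf (nat_lit 0) (nat_lit 7847576498) (nat_lit 152) (nat_lit 35093638144) (nat_lit 76) (nat_lit 23994739806) (nat_lit 109) (nat_lit 5) (nat_lit 111) (nat_lit 5) (nat_lit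 110) (nat_lit 4) (nat_lit 485) (nat_lit 357) (nat_lit 178)) (XT.nd (nat_lit 78) (nat_lit 0) (nat_lit 0) (XT.lf (nat_lit 0) (nat_lit 9309054293) (nat_lit 76) (nat_lit 20415475614) (nat_lit 152) (nat_lit 38525447433) (nat_lit 108) (nat_lit 5) (nat_lit 109) (nat_lit 5) (nat_lit 110) (nat_lit 4) (nat_lit 486) (nat_lit 357) (nat_lit 177)) (XT.lf (nat_lit 0) (nat_lit 52635667501) (nat_lit 152) (nat_lit 13873220803) (nat_lit 0) (nat_lit 3083196348) (nat_lit 108) (nat_lit 5) (nat_lit 110) (nat_lit 4) (nat_lit 108) (nat_lit 4) (nat_lit 487) (nat_lit 357) (nat_lit 176)))) (XT.nd (nat_lit 156) (nat_lit 152) (nat_lit 0) (XT.nd (nat_lit 78) (nat_lit 76) (nat_lit 0) (XT.lf (nat_lit 0) (nat_lit 5674637815) (nat_lit 152) (nat_lit 38039840982) (nat_lit 76) (nat_lit 27242931932) (nat_lit 106) (nat_lit 5) (nat_lit 108) (nat_lit 5) (nat_lit 107) (nat_lit 4) (nat_lit 488) (nat_lit 357) (nat_lit 175)) (XT.lf (nat_lit 0)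 (nat_lit 9030962673) (nat_lit 76) (nat_lit 19834555795) (nat_lit 152) (nat_lit 43486490523) (nat_lit 105) (nat_lit 5) (nat_lit 106) (nat_lit 5) (nat_lit 107) (nat_lit 4) (nat_lit 489) (nat_lit 357) (nat_lit 174))) (XT.nd (nat_lit 78) (nat_lit 152) (nat_lit 0) (XT.lf (nat_lit 0) (nat_lit 53179248020) (nat_lit 152) (nat_lit 15545804624) (nat_lit 0) (nat_lit 5050578883) (nat_lit 105) (nat_lit 5) (nat_lit 107) (nat_lit 4) (nat_lit 105) (nat_lit 4) (nat_lit 490) (nat_lit 357) (nat_lit 173)) (XT.lf (nat_lit 0) (nat_lit 3445365715) (nat_lit 152) (nat_lit 41140693606) (nat_lit 76) (nat_lit 30639350992) (nat_lit 103) (nat_lit 5) (nat_lit 105) (nat_lit 5) (nat_lit 104) (nat_lit 4) (nat_lit 491) (nat_lit 357) (nat_lit 172))))) (XT.nd (nat_lit 312) (nat_lit 912) (nat_lit 0) (XT.nd (nat_lit 156) (nat_lit 0) (nat_lit 0) (XT.nd (nat_lit 78) (nat_lit 0) (nat_lit 0) (XT.lf (nat_lit 0) (nat_lit 1837873234) (nat_lit 988)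 (nat_lit 1034345795) (nat_lit 988) (nat_lit 1034345795) (nat_lit 434) (nat_lit 3) (nat_lit 447) (nat_lit 3) (nat_lit 447) (nat_lit 5) (nat_lit 358) (nat_lit 358) (nat_lit 304)) (XT.lf (nat_lit 76) (nat_lit 1874450515) (nat_lit 0) (nat_lit 3162899296) (nat_lit 988) (nat_lit 2853782769) (nat_lit 435) (nat_lit 5) (nat_lit 434) (nat_lit 3) (nat_lit 447) (nat_lit 5) (nat_lit 359) (nat_lit 358) (nat_lit 303))) (XT.nd (nat_lit 78) (nat_lit 0) (nat_lit 76) (XT.lf (nat_lit 76) (nat_lit 5951881098) (nat_lit 0) (nat_lit 458271444) (nat_lit 988) (nat_lit 1562212518) (nat_lit 435) (nat_lit 5) (nat_lit 434) (nat_lit 3) (nat_lit 447) (nat_lit 5) (nat_lit 360) (nat_lit 358) (nat_lit 302)) (XT.lf (nat_lit 76) (nat_lit 2086604122) (nat_lit 0) (nat_lit 5731124973) (nat_lit 988) (nat_lit 238497727) (nat_lit 436) (nat_lit 5) (nat_lit 435) (nat_lit 5) (nat_lit 448) (nat_lit 5) (nat_lit 361) (nat_lit 358) (nat_lit 301))))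 (XT.nd (nat_lit 156) (nat_lit 0) (nat_lit 76) (XT.nd (nat_lit 78) (nat_lit 0) (nat_lit 76) (XT.lf (nat_lit 0) (nat_lit 1079968355) (nat_lit 988) (nat_lit 1827252486) (nat_lit 1064) (nat_lit 5235749452) (nat_lit 422) (nat_lit 5) (nat_lit 435) (nat_lit 5) (nat_lit 436) (nat_lit 5) (nat_lit 362) (nat_lit 358) (nat_lit 300)) (XT.lf (nat_lit 0) (nat_lit 2410530454) (nat_lit 988) (nat_lit 5775623635) (nat_lit 1064) (nat_lit 46771072) (nat_lit 423) (nat_lit 5) (nat_lit 436) (nat_lit 5) (nat_lit 437) (nat_lit 5) (nat_lit 363) (nat_lit 358) (nat_lit 299))) (XT.nd (nat_lit 78) (nat_lit 0) (nat_lit 0) (XT.lf (nat_lit 0) (nat_lit 3782961899) (nat_lit 988) (nat_lit 1474639127) (nat_lit 1064) (nat_lit 3067919073) (nat_lit 423) (nat_lit 5) (nat_lit 436) (nat_lit 5) (nat_lit 437) (nat_lit 5) (nat_lit 364) (nat_lit 358) (nat_lit 298)) (XT.lf (nat_lit 76) (nat_lit 2985976050) (nat_lit 0) (nat_lit 2195151288) (nat_lit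 1064) (nat_lit 3240228718) (nat_lit 424) (nat_lit 5) (nat_lit 423) (nat_lit 5) (nat_lit 437) (nat_lit 5) (nat_lit 365) (nat_lit 358) (nat_lit 297))))))) (XT.nd (nat_lit 1170) (nat_lit 5548) (nat_lit 0) (XT.nd (nat_lit 546) (nat_lit 4180) (nat_lit 0) (XT.nd (nat_lit 234) (nat_lit 0) (nat_lit 76) (XT.nd (nat_lit 78) (nat_lit 1064) (nat_lit 0) (XT.lf (nat_lit 0) (nat_lit 6602527818) (nat_lit 988) (nat_lit 947189127) (nat_lit 1064) (nat_lit 970911442) (nat_lit 424) (nat_lit 5) (nat_lit 437) (nat_lit 5) (nat_lit 438) (nat_lit 5) (nat_lit 366) (nat_lit 358) (nat_lit 296)) (XT.nd (nat_lit 78) (nat_lit 1064) (nat_lit 0) (XT.lf (nat_lit 76) (nat_lit 3698076564) (nat_lit 0) (nat_lit 4384059134) (nat_lit 1064) (nat_lit 540276229) (nat_lit 425) (nat_lit 5) (nat_lit 424) (nat_lit 5) (nat_lit 438) (nat_lit 5) (nat_lit 367) (nat_lit 358) (nat_lit 295)) (XT.lf (nat_lit 0) (nat_lit 830220064) (nat_lit 1064) (nat_lit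 261932853) (nat_lit 1140) (nat_lit 7635787984) (nat_lit 410) (nat_lit 5) (nat_lit 424) (nat_lit 5) (nat_lit 425) (nat_lit 5) (nat_lit 368) (nat_lit 358) (nat_lit 294)))) (XT.nd (nat_lit 156) (nat_lit 0) (nat_lit 76) (XT.nd (nat_lit 78) (nat_lit 0) (nat_lit 0) (XT.lf (nat_lit 0) (nat_lit 2257891385) (nat_lit 1064) (nat_lit 4262068681) (nat_lit 1140) (nat_lit 2315707624) (nat_lit 411) (nat_lit 5) (nat_lit 425) (nat_lit 5) (nat_lit 426) (nat_lit 5) (nat_lit 369) (nat_lit 358) (nat_lit 293)) (XT.lf (nat_lit 76) (nat_lit 584867218) (nat_lit 0) (nat_lit 3123671727) (nat_lit 1140) (nat_lit 5238682957) (nat_lit 412) (nat_lit 5) (nat_lit 411) (nat_lit 5) (nat_lit 426) (nat_lit 5) (nat_lit 370) (nat_lit 358) (nat_lit 292))) (XT.nd (nat_lit 78) (nat_lit 0) (nat_lit 0) (XT.lf (nat_lit 0) (nat_lit 5211764144) (nat_lit 1064) (nat_lit 3429957753) (nat_lit 1140) (nat_lit 420129095) (nat_lit 412) (nat_lit 5) (nat_lit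 426) (nat_lit 5) (nat_lit 427) (nat_lit 5) (nat_lit 371) (nat_lit 358) (nat_lit 291)) (XT.lf (nat_lit 76) (nat_lit 1622326022) (nat_lit 0) (nat_lit 5147382871) (nat_lit 1140) (nat_lit 2409921380) (nat_lit 413) (nat_lit 5) (nat_lit 412) (nat_lit 5) (nat_lit 427) (nat_lit 5) (nat_lit 372) (nat_lit 358) (nat_lit 290))))) (XT.nd (nat_lit 312) (nat_lit 2128) (nat_lit 0) (XT.nd (nat_lit 156) (nat_lit 1140) (nat_lit 0) (XT.nd (nat_lit 78) (nat_lit 1064) (nat_lit 0) (XT.lf (nat_lit 76) (nat_lit 6867956538) (nat_lit 0) (nat_lit 1504972323) (nat_lit 1140) (nat_lit 928057963) (nat_lit 413) (nat_lit 5) (nat_lit 412) (nat_lit 5) (nat_lit 427) (nat_lit 5) (nat_lit 373) (nat_lit 358) (nat_lit 289)) (XT.lf (nat_lit 0) (nat_lit 600743298) (nat_lit 1140) (nat_lit 6581284536) (nat_lit 76) (nat_lit 2243359027) (nat_lit 398) (nat_lit 5) (nat_lit 413) (nat_lit 5) (nat_lit 399) (nat_lit 5) (nat_lit 374) (nat_lit 358) (nat_lit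 288))) (XT.nd (nat_lit 78) (nat_lit 1140) (nat_lit 0) (XT.lf (nat_lit 0) (nat_lit 2161896886) (nat_lit 1140) (nat_lit 1276919844) (nat_lit 76) (nat_lit 6114272269) (nat_lit 398) (nat_lit 5) (nat_lit 413) (nat_lit 5) (nat_lit 399) (nat_lit 5) (nat_lit 375) (nat_lit 358) (nat_lit 287)) (XT.lf (nat_lit 0) (nat_lit 3781546169) (nat_lit 1216) (nat_lit 5447910696) (nat_lit 76) (nat_lit 454815503) (nat_lit 383) (nat_lit 5) (nat_lit 399) (nat_lit 5) (nat_lit 384) (nat_lit 5) (nat_lit 376) (nat_lit 358) (nat_lit 286)))) (XT.nd (nat_lit 156) (nat_lit 912) (nat_lit 0) (XT.nd (nat_lit 78) (nat_lit 0) (nat_lit 0) (XT.lf (nat_lit 0) (nat_lit 60078932) (nat_lit 1216) (nat_lit 5404541951) (nat_lit 1292) (nat_lit 4354325277) (nat_lit 367) (nat_lit 5) (nat_lit 383) (nat_lit 5) (nat_lit 384) (nat_lit 5) (nat_lit 377) (nat_lit 358) (nat_lit 285)) (XT.lf (nat_lit 0) (nat_lit 5816139778) (nat_lit 1216) (nat_lit 1404928362)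 (nat_lit 1292) (nat_lit 2735905617) (nat_lit 367) (nat_lit 5) (nat_lit 383) (nat_lit 5) (nat_lit 384) (nat_lit 5) (nat_lit 378) (nat_lit 358) (nat_lit 284))) (XT.nd (nat_lit 78) (nat_lit 76) (nat_lit 0) (XT.lf (nat_lit 0) (nat_lit 1622330943) (nat_lit 836) (nat_lit 7418401490) (nat_lit 912) (nat_lit 1058094040) (nat_lit 356) (nat_lit 5) (nat_lit 367) (nat_lit 5) (nat_lit 368) (nat_lit 5) (nat_lit 379) (nat_lit 358) (nat_lit 283)) (XT.lf (nat_lit 0) (nat_lit 682278597) (nat_lit 912) (nat_lit 2650473036) (nat_lit 76) (nat_lit 6911230854) (nat_lit 355) (nat_lit 5) (nat_lit 367) (nat_lit 5) (nat_lit 356) (nat_lit 5) (nat_lit 380) (nat_lit 358) (nat_lit 282)))))) (XT.nd (nat_lit 624) (nat_lit 2584) (nat_lit 0) (XT.nd (nat_lit 312) (nat_lit 1216) (nat_lit 0) (XT.nd (nat_lit 156) (nat_lit 1140) (nat_lit 0) (XT.nd (nat_lit 78) (nat_lit 0) (nat_lit 0) (XT.lf (nat_lit 0) (nat_lit 2464977057) (nat_lit 684) (nat_lit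 7024648671) (nat_lit 76) (nat_lit 903211728) (nat_lit 347) (nat_lit 5) (nat_lit 356) (nat_lit 5) (nat_lit 348) (nat_lit 5) (nat_lit 381) (nat_lit 358) (nat_lit 281)) (XT.lf (nat_lit 0) (nat_lit 4331857540) (nat_lit 684) (nat_lit 985935534) (nat_lit 76) (nat_lit 5227443970) (nat_lit 347) (nat_lit 5) (nat_lit 356) (nat_lit 5) (nat_lit 348) (nat_lit 5) (nat_lit 382) (nat_lit 358) (nat_lit 280))) (XT.nd (nat_lit 78) (nat_lit 532) (nat_lit 0) (XT.lf (nat_lit 0) (nat_lit 5309329133) (nat_lit 608) (nat_lit 967979932) (nat_lit 684) (nat_lit 4424222615) (nat_lit 339) (nat_lit 5) (nat_lit 347) (nat_lit 5) (nat_lit 348) (nat_lit 5) (nat_lit 383) (nat_lit 358) (nat_lit 279)) (XT.lf (nat_lit 0) (nat_lit 906499353) (nat_lit 532) (nat_lit 7399244423) (nat_lit 608) (nat_lit 2556032789) (nat_lit 332) (nat_lit 5) (nat_lit 339) (nat_lit 5) (nat_lit 340) (nat_lit 5) (nat_lit 384) (nat_lit 358) (nat_lit 278)))) (XT.nd (nat_lit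 156) (nat_lit 532) (nat_lit 0) (XT.nd (nat_lit 78) (nat_lit 684) (nat_lit 0) (XT.lf (nat_lit 0) (nat_lit 7466430107) (nat_lit 532) (nat_lit 2965169745) (nat_lit 608) (nat_lit 594131896) (nat_lit 332) (nat_lit 5) (nat_lit 339) (nat_lit 5) (nat_lit 340) (nat_lit 5) (nat_lit 385) (nat_lit 358) (nat_lit 277)) (XT.lf (nat_lit 0) (nat_lit 1417041341) (nat_lit 684) (nat_lit 8163849220) (nat_lit 76) (nat_lit 1612755999) (nat_lit 323) (nat_lit 5) (nat_lit 332) (nat_lit 5) (nat_lit 324) (nat_lit 5) (nat_lit 386) (nat_lit 358) (nat_lit 276))) (XT.nd (nat_lit 78) (nat_lit 532) (nat_lit 0) (XT.lf (nat_lit 0) (nat_lit 3515924018) (nat_lit 684) (nat_lit 1540280146) (nat_lit 76) (nat_lit 6309038708) (nat_lit 323) (nat_lit 5) (nat_lit 332) (nat_lit 5) (nat_lit 324) (nat_lit 5) (nat_lit 387) (nat_lit 358) (nat_lit 275)) (XT.lf (nat_lit 0) (nat_lit 5358704792) (nat_lit 532) (nat_lit 345006481) (nat_lit 608) (nat_lit 5837497656)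 (nat_lit 316) (nat_lit 5) (nat_lit 323) (nat_lit 5) (nat_lit 324) (nat_lit 5) (nat_lit 388) (nat_lit 358) (nat_lit 274))))) (XT.nd (nat_lit 312) (nat_lit 1520) (nat_lit 0) (XT.nd (nat_lit 156) (nat_lit 532) (nat_lit 0) (XT.nd (nat_lit 78) (nat_lit 0) (nat_lit 0) (XT.lf (nat_lit 0) (nat_lit 716428597) (nat_lit 532) (nat_lit 7281509882) (nat_lit 608) (nat_lit 3723291298) (nat_lit 309) (nat_lit 5) (nat_lit 316) (nat_lit 5) (nat_lit 317) (nat_lit 5) (nat_lit 389) (nat_lit 358) (nat_lit 273)) (XT.lf (nat_lit 0) (nat_lit 7917543735) (nat_lit 532) (nat_lit 2484607085) (nat_lit 608) (nat_lit 1503265683) (nat_lit 309) (nat_lit 5) (nat_lit 316) (nat_lit 5) (nat_lit 317) (nat_lit 5) (nat_lit 390) (nat_lit 358) (nat_lit 272))) (XT.nd (nat_lit 78) (nat_lit 0) (nat_lit 0) (XT.lf (nat_lit 0) (nat_lit 799277588) (nat_lit 532) (nat_lit 8850543535) (nat_lit 76) (nat_lit 2444145709) (nat_lit 302) (nat_lit 5) (nat_lit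 309) (nat_lit 5) (nat_lit 303) (nat_lit 5) (nat_lit 391) (nat_lit 358) (nat_lit 271)) (XT.lf (nat_lit 0) (nat_lit 3182182226) (nat_lit 532) (nat_lit 1581548817) (nat_lit 76) (nat_lit 7522751138) (nat_lit 302) (nat_lit 5) (nat_lit 309) (nat_lit 5) (nat_lit 303) (nat_lit 5) (nat_lit 392) (nat_lit 358) (nat_lit 270)))) (XT.nd (nat_lit 156) (nat_lit 532) (nat_lit 0) (XT.nd (nat_lit 78) (nat_lit 456) (nat_lit 0) (XT.lf (nat_lit 0) (nat_lit 5674242088) (nat_lit 608) (nat_lit 6491635483) (nat_lit 76) (nat_lit 317765376) (nat_lit 295) (nat_lit 5) (nat_lit 303) (nat_lit 5) (nat_lit 296) (nat_lit 5) (nat_lit 393) (nat_lit 358) (nat_lit 269)) (XT.lf (nat_lit 0) (nat_lit 1085144236) (nat_lit 456) (nat_lit 7206938493) (nat_lit 532) (nat_lit 4393105238) (nat_lit 289) (nat_lit 5) (nat_lit 295) (nat_lit 5) (nat_lit 296) (nat_lit 5) (nat_lit 394) (nat_lit 358) (nat_lit 268))) (XT.nd (nat_lit 78) (nat_lit 532) (nat_lit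 0) (XT.lf (nat_lit 0) (nat_lit 8994912397) (nat_lit 456) (nat_lit 2036790665) (nat_lit 532) (nat_lit 1859778942) (nat_lit 289) (nat_lit 5) (nat_lit 295) (nat_lit 5) (nat_lit 296) (nat_lit 5) (nat_lit 395) (nat_lit 358) (nat_lit 267)) (XT.lf (nat_lit 0) (nat_lit 784321672) (nat_lit 532) (nat_lit 9051786538) (nat_lit 76) (nat_lit 3266158471) (nat_lit 282) (nat_lit 5) (nat_lit 289) (nat_lit 5) (nat_lit 283) (nat_lit 5) (nat_lit 396) (nat_lit 358) (nat_lit 266))))))))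
noncomputable def xc142 : XT := (XT.nd (nat_lit 2340) (nat_lit 3952) (nat_lit 0) (XT.nd (nat_lit 1170) (nat_lit 2964) (nat_lit 0) (XT.nd (nat_lit 546) (nat_lit 1900) (nat_lit 0) (XT.nd (nat_lit 234) (nat_lit 836) (nat_lit 0) (XT.nd (nat_lit 78) (nat_lit 836) (nat_lit 0) (XT.lf (nat_lit 0) (nat_lit 3508725346) (nat_lit 532) (nat_lit 1068700669) (nat_lit 76) (nat_lit 8740245682) (nat_lit 282) (nat_lit 5) (nat_lit 289) (nat_lit 5) (nat_lit 283) (nat_lit 5) (nat_lit 397) (nat_lit 358) (nat_lit 265)) (XT.nd (nat_lit 78) (nat_lit 456) (nat_lit 0) (XT.lf (nat_lit 0) (nat_lit 6372523284) (nat_lit 456) (nat_lit 6277604656) (nat_lit 76) (nat_lit 887681059) (nat_lit 277) (nat_lit 5) (nat_lit 283) (nat_lit 5) (nat_lit 278) (nat_lit 5) (nat_lit 398) (nat_lit 358) (nat_lit 264)) (XT.lf (nat_lit 0) (nat_lit 2064659672) (nat_lit 456) (nat_lit 7313026930) (nat_lit 532) (nat_lit 4385200274) (nat_lit 271) (nat_lit 5)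 (nat_lit 277) (nat_lit 5) (nat_lit 278) (nat_lit 5) (nat_lit 399) (nat_lit 358) (nat_lit 263)))) (XT.nd (nat_lit 156) (nat_lit 380) (nat_lit 0) (XT.nd (nat_lit 78) (nat_lit 456) (nat_lit 0) (XT.lf (nat_lit 0) (nat_lit 10759281458) (nat_lit 456) (nat_lit 1756844637) (nat_lit 532) (nat_lit 1477297356) (nat_lit 271) (nat_lit 5) (nat_lit 277) (nat_lit 5) (nat_lit 278) (nat_lit 5) (nat_lit 400) (nat_lit 358) (nat_lit 262)) (XT.lf (nat_lit 0) (nat_lit 1560448412) (nat_lit 456) (nat_lit 8716782690) (nat_lit 76) (nat_lit 3951040578) (nat_lit 265) (nat_lit 5) (nat_lit 271) (nat_lit 5) (nat_lit 266) (nat_lit 5) (nat_lit 401) (nat_lit 358) (nat_lit 261))) (XT.nd (nat_lit 78) (nat_lit 0) (nat_lit 0) (XT.lf (nat_lit 0) (nat_lit 58921425) (nat_lit 380) (nat_lit 4632048657) (nat_lit 456) (nat_lit 9777816401) (nat_lit 260) (nat_lit 5) (nat_lit 265) (nat_lit 5) (nat_lit 266) (nat_lit 5) (nat_lit 402) (nat_lit 358) (nat_lit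 260)) (XT.lf (nat_lit 0) (nat_lit 7996313464) (nat_lit 456) (nat_lit 5476268358) (nat_lit 76) (nat_lit 1241507726) (nat_lit 260) (nat_lit 5) (nat_lit 266) (nat_lit 5) (nat_lit 261) (nat_lit 5) (nat_lit 403) (nat_lit 358) (nat_lit 259))))) (XT.nd (nat_lit 312) (nat_lit 760) (nat_lit 0) (XT.nd (nat_lit 156) (nat_lit 760) (nat_lit 0) (XT.nd (nat_lit 78) (nat_lit 0) (nat_lit 0) (XT.lf (nat_lit 0) (nat_lit 3726229103) (nat_lit 380) (nat_lit 7737477762) (nat_lit 456) (nat_lit 3501158148) (nat_lit 255) (nat_lit 5) (nat_lit 260) (nat_lit 5) (nat_lit 261) (nat_lit 5) (nat_lit 404) (nat_lit 358) (nat_lit 258)) (XT.lf (nat_lit 0) (nat_lit 13291356683) (nat_lit 380) (nat_lit 1780574251) (nat_lit 456) (nat_lit 150128543) (nat_lit 255) (nat_lit 5) (nat_lit 260) (nat_lit 5) (nat_lit 261) (nat_lit 5) (nat_lit 405) (nat_lit 358) (nat_lit 257))) (XT.nd (nat_lit 78) (nat_lit 304) (nat_lit 0) (XT.lf (nat_lit 0) (nat_lit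 3336229412) (nat_lit 456) (nat_lit 7776511451) (nat_lit 76) (nat_lit 4370300240) (nat_lit 249) (nat_lit 5) (nat_lit 255) (nat_lit 5) (nat_lit 250) (nat_lit 5) (nat_lit 406) (nat_lit 358) (nat_lit 256)) (XT.lf (nat_lit 0) (nat_lit 1913690611) (nat_lit 304) (nat_lit 5048272186) (nat_lit 380) (nat_lit 8788710727) (nat_lit 245) (nat_lit 5) (nat_lit 249) (nat_lit 5) (nat_lit 250) (nat_lit 5) (nat_lit 407) (nat_lit 358) (nat_lit 255)))) (XT.nd (nat_lit 156) (nat_lit 380) (nat_lit 0) (XT.nd (nat_lit 78) (nat_lit 380) (nat_lit 0) (XT.lf (nat_lit 0) (nat_lit 10769583290) (nat_lit 380) (nat_lit 4008002100) (nat_lit 76) (nat_lit 1246556072) (nat_lit 245) (nat_lit 5) (nat_lit 250) (nat_lit 5) (nat_lit 246) (nat_lit 5) (nat_lit 408) (nat_lit 358) (nat_lit 254)) (XT.lf (nat_lit 0) (nat_lit 6161102247) (nat_lit 380) (nat_lit 8622345994) (nat_lit 456) (nat_lit 1519604723) (nat_lit 240) (nat_lit 5) (nat_lit 245) (nat_lit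 5) (nat_lit 246) (nat_lit 5) (nat_lit 409) (nat_lit 358) (nat_lit 253))) (XT.nd (nat_lit 78) (nat_lit 0) (nat_lit 0) (XT.lf (nat_lit 0) (nat_lit 82066995) (nat_lit 304) (nat_lit 2224480920) (nat_lit 380) (nat_lit 14282375731) (nat_lit 235) (nat_lit 5) (nat_lit 239) (nat_lit 5) (nat_lit 240) (nat_lit 5) (nat_lit 410) (nat_lit 358) (nat_lit 252)) (XT.lf (nat_lit 0) (nat_lit 6345418733) (nat_lit 380) (nat_lit 6142880300) (nat_lit 76) (nat_lit 4390765761) (nat_lit 235) (nat_lit 5) (nat_lit 240) (nat_lit 5) (nat_lit 236) (nat_lit 5) (nat_lit 411) (nat_lit 358) (nat_lit 251)))))) (XT.nd (nat_lit 546) (nat_lit 1368) (nat_lit 0) (XT.nd (nat_lit 234) (nat_lit 912) (nat_lit 0) (XT.nd (nat_lit 78) (nat_lit 380) (nat_lit 0) (XT.lf (nat_lit 0) (nat_lit 4574730305) (nat_lit 304) (nat_lit 5980303884) (nat_lit 380) (nat_lit 6621388634) (nat_lit 231) (nat_lit 5) (nat_lit 235) (nat_lit 5) (nat_lit 236) (nat_lit 5) (nat_lit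 412) (nat_lit 358) (nat_lit 250)) (XT.nd (nat_lit 78) (nat_lit 380) (nat_lit 0) (XT.lf (nat_lit 0) (nat_lit 14944278238) (nat_lit 380) (nat_lit 1773308583) (nat_lit 76) (nat_lit 763514567) (nat_lit 231) (nat_lit 5) (nat_lit 236) (nat_lit 5) (nat_lit 232) (nat_lit 5) (nat_lit 413) (nat_lit 358) (nat_lit 249)) (XT.lf (nat_lit 0) (nat_lit 1773593060) (nat_lit 380) (nat_lit 8326509407) (nat_lit 76) (nat_lit 7690258963) (nat_lit 226) (nat_lit 5) (nat_lit 231) (nat_lit 5) (nat_lit 227) (nat_lit 5) (nat_lit 414) (nat_lit 358) (nat_lit 248)))) (XT.nd (nat_lit 156) (nat_lit 608) (nat_lit 0) (XT.nd (nat_lit 78) (nat_lit 0) (nat_lit 0) (XT.lf (nat_lit 0) (nat_lit 2974816616) (nat_lit 304) (nat_lit 3218494043) (nat_lit 380) (nat_lit 11913905807) (nat_lit 222) (nat_lit 5) (nat_lit 226) (nat_lit 5) (nat_lit 227) (nat_lit 5) (nat_lit 415) (nat_lit 358) (nat_lit 247)) (XT.lf (nat_lit 0) (nat_lit 10852175050) (nat_lit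 380) (nat_lit 3707419199) (nat_lit 76) (nat_lit 3870786245) (nat_lit 222) (nat_lit 5) (nat_lit 227) (nat_lit 5) (nat_lit 223) (nat_lit 5) (nat_lit 416) (nat_lit 358) (nat_lit 246))) (XT.nd (nat_lit 78) (nat_lit 380) (nat_lit 0) (XT.lf (nat_lit 0) (nat_lit 8164260572) (nat_lit 228) (nat_lit 7581788762) (nat_lit 304) (nat_lit 3014332791) (nat_lit 219) (nat_lit 5) (nat_lit 222) (nat_lit 5) (nat_lit 223) (nat_lit 5) (nat_lit 417) (nat_lit 358) (nat_lit 245)) (XT.lf (nat_lit 0) (nat_lit 1355224953) (nat_lit 304) (nat_lit 334124480) (nat_lit 380) (nat_lit 17409373967) (nat_lit 214) (nat_lit 5) (nat_lit 218) (nat_lit 5) (nat_lit 219) (nat_lit 5) (nat_lit 418) (nat_lit 358) (nat_lit 244))))) (XT.nd (nat_lit 312) (nat_lit 760) (nat_lit 0) (XT.nd (nat_lit 156) (nat_lit 380) (nat_lit 0) (XT.nd (nat_lit 78) (nat_lit 228) (nat_lit 0) (XT.lf (nat_lit 0) (nat_lit 6635262042) (nat_lit 380) (nat_lit 5684833138) (nat_lit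 76) (nat_lit 7121373236) (nat_lit 214) (nat_lit 5) (nat_lit 219) (nat_lit 5) (nat_lit 215) (nat_lit 5) (nat_lit 419) (nat_lit 358) (nat_lit 243)) (XT.lf (nat_lit 0) (nat_lit 6842803303) (nat_lit 228) (nat_lit 4941366450) (nat_lit 304) (nat_lit 8008687498) (nat_lit 211) (nat_lit 5) (nat_lit 214) (nat_lit 5) (nat_lit 215) (nat_lit 5) (nat_lit 420) (nat_lit 358) (nat_lit 242))) (XT.nd (nat_lit 78) (nat_lit 380) (nat_lit 0) (XT.lf (nat_lit 0) (nat_lit 17156728881) (nat_lit 304) (nat_lit 339517805) (nat_lit 76) (nat_lit 2656465541) (nat_lit 211) (nat_lit 5) (nat_lit 215) (nat_lit 5) (nat_lit 212) (nat_lit 5) (nat_lit 421) (nat_lit 358) (nat_lit 241)) (XT.lf (nat_lit 0) (nat_lit 2284689815) (nat_lit 380) (nat_lit 7712731809) (nat_lit 76) (nat_lit 10520520006) (nat_lit 206) (nat_lit 5) (nat_lit 211) (nat_lit 5) (nat_lit 207) (nat_lit 5) (nat_lit 422) (nat_lit 358) (nat_lit 240)))) (XT.nd (nat_lit 156) (nat_lit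 532) (nat_lit 0) (XT.nd (nat_lit 78) (nat_lit 0) (nat_lit 0) (XT.lf (nat_lit 0) (nat_lit 5512575851) (nat_lit 228) (nat_lit 2193570377) (nat_lit 304) (nat_lit 13185814411) (nat_lit 203) (nat_lit 5) (nat_lit 206) (nat_lit 5) (nat_lit 207) (nat_lit 5) (nat_lit 423) (nat_lit 358) (nat_lit 239)) (XT.lf (nat_lit 0) (nat_lit 13411314604) (nat_lit 304) (nat_lit 2061686851) (nat_lit 76) (nat_lit 5800566715) (nat_lit 203) (nat_lit 5) (nat_lit 207) (nat_lit 5) (nat_lit 204) (nat_lit 5) (nat_lit 424) (nat_lit 358) (nat_lit 238))) (XT.nd (nat_lit 78) (nat_lit 304) (nat_lit 0) (XT.lf (nat_lit 0) (nat_lit 11842962871) (nat_lit 228) (nat_lit 7566870205) (nat_lit 304) (nat_lit 2253124999) (nat_lit 200) (nat_lit 5) (nat_lit 203) (nat_lit 5) (nat_lit 204) (nat_lit 5) (nat_lit 425) (nat_lit 358) (nat_lit 237)) (XT.lf (nat_lit 0) (nat_lit 3509687267) (nat_lit 304) (nat_lit 17899111509) (nat_lit 76) (nat_lit 652589141)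 (nat_lit 196) (nat_lit 5) (nat_lit 200) (nat_lit 5) (nat_lit 197) (nat_lit 5) (nat_lit 426) (nat_lit 358) (nat_lit 236))))))) (XT.nd (nat_lit 1170) (nat_lit 1900) (nat_lit 0) (XT.nd (nat_lit 546) (nat_lit 1064) (nat_lit 0) (XT.nd (nat_lit 234) (nat_lit 532) (nat_lit 0) (XT.nd (nat_lit 78) (nat_lit 456) (nat_lit 0) (XT.lf (nat_lit 0) (nat_lit 9561941904) (nat_lit 304) (nat_lit 3823793157) (nat_lit 76) (nat_lit 9080511040) (nat_lit 196) (nat_lit 5) (nat_lit 200) (nat_lit 5) (nat_lit 197) (nat_lit 5) (nat_lit 427) (nat_lit 358) (nat_lit 235)) (XT.nd (nat_lit 78) (nat_lit 228) (nat_lit 0) (XT.lf (nat_lit 0) (nat_lit 10864326355) (nat_lit 228) (nat_lit 5023037007) (nat_lit 304) (nat_lit 6993138693) (nat_lit 193) (nat_lit 5) (nat_lit 196) (nat_lit 5) (nat_lit 197) (nat_lit 5) (nat_lit 428) (nat_lit 358) (nat_lit 234)) (XT.lf (nat_lit 0) (nat_lit 2762916227) (nat_lit 228) (nat_lit 19726951374) (nat_lit 304)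 (nat_lit 814698484) (nat_lit 190) (nat_lit 5) (nat_lit 193) (nat_lit 5) (nat_lit 194) (nat_lit 5) (nat_lit 429) (nat_lit 358) (nat_lit 233)))) (XT.nd (nat_lit 156) (nat_lit 228) (nat_lit 0) (XT.nd (nat_lit 78) (nat_lit 228) (nat_lit 0) (XT.lf (nat_lit 0) (nat_lit 5600379667) (nat_lit 304) (nat_lit 5631876047) (nat_lit 76) (nat_lit 12502709054) (nat_lit 189) (nat_lit 5) (nat_lit 193) (nat_lit 5) (nat_lit 190) (nat_lit 5) (nat_lit 430) (nat_lit 358) (nat_lit 232)) (XT.lf (nat_lit 0) (nat_lit 9889136924) (nat_lit 228) (nat_lit 2385122465) (nat_lit 304) (nat_lit 11901292319) (nat_lit 186) (nat_lit 5) (nat_lit 189) (nat_lit 5) (nat_lit 190) (nat_lit 5) (nat_lit 431) (nat_lit 358) (nat_lit 231))) (XT.nd (nat_lit 78) (nat_lit 76) (nat_lit 0) (XT.lf (nat_lit 0) (nat_lit 1302730087) (nat_lit 152) (nat_lit 17967990935) (nat_lit 228) (nat_lit 5354964268) (nat_lit 184) (nat_lit 5) (nat_lit 186) (nat_lit 5) (nat_lit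 187) (nat_lit 5) (nat_lit 432) (nat_lit 358) (nat_lit 230)) (XT.lf (nat_lit 0) (nat_lit 1517759536) (nat_lit 228) (nat_lit 7492046264) (nat_lit 76) (nat_lit 16074404301) (nat_lit 183) (nat_lit 5) (nat_lit 186) (nat_lit 5) (nat_lit 184) (nat_lit 5) (nat_lit 433) (nat_lit 358) (nat_lit 229))))) (XT.nd (nat_lit 312) (nat_lit 380) (nat_lit 0) (XT.nd (nat_lit 156) (nat_lit 456) (nat_lit 0) (XT.nd (nat_lit 78) (nat_lit 0) (nat_lit 0) (XT.lf (nat_lit 0) (nat_lit 8566236515) (nat_lit 304) (nat_lit 16641804392) (nat_lit 76) (nat_lit 344543139) (nat_lit 180) (nat_lit 5) (nat_lit 184) (nat_lit 5) (nat_lit 181) (nat_lit 5) (nat_lit 434) (nat_lit 358) (nat_lit 228)) (XT.lf (nat_lit 0) (nat_lit 15979980318) (nat_lit 304) (nat_lit 183954315) (nat_lit 76) (nat_lit 9866460200) (nat_lit 180) (nat_lit 5) (nat_lit 184) (nat_lit 5) (nat_lit 181) (nat_lit 5) (nat_lit 435) (nat_lit 358) (nat_lit 227))) (XT.nd (nat_lit 78)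 (nat_lit 304) (nat_lit 0) (XT.lf (nat_lit 0) (nat_lit 17081011621) (nat_lit 152) (nat_lit 6687864044) (nat_lit 228) (nat_lit 2749082101) (nat_lit 178) (nat_lit 5) (nat_lit 180) (nat_lit 5) (nat_lit 181) (nat_lit 5) (nat_lit 436) (nat_lit 358) (nat_lit 226)) (XT.lf (nat_lit 0) (nat_lit 4775611535) (nat_lit 304) (nat_lit 19110818602) (nat_lit 76) (nat_lit 3129418726) (nat_lit 174) (nat_lit 5) (nat_lit 178) (nat_lit 5) (nat_lit 175) (nat_lit 5) (nat_lit 437) (nat_lit 358) (nat_lit 225)))) (XT.nd (nat_lit 156) (nat_lit 228) (nat_lit 0) (XT.nd (nat_lit 78) (nat_lit 152) (nat_lit 0) (XT.lf (nat_lit 0) (nat_lit 12621885862) (nat_lit 304) (nat_lit 1679507042) (nat_lit 76) (nat_lit 13221934417) (nat_lit 174) (nat_lit 5) (nat_lit 178) (nat_lit 5) (nat_lit 175) (nat_lit 5) (nat_lit 438) (nat_lit 358) (nat_lit 224)) (XT.lf (nat_lit 0) (nat_lit 16578814824) (nat_lit 152) (nat_lit 4273069276) (nat_lit 228) (nat_lit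 7189695962) (nat_lit 172) (nat_lit 5) (nat_lit 174) (nat_lit 5) (nat_lit 175) (nat_lit 5) (nat_lit 439) (nat_lit 358) (nat_lit 223))) (XT.nd (nat_lit 78) (nat_lit 0) (nat_lit 0) (XT.lf (nat_lit 0) (nat_lit 870701770) (nat_lit 228) (nat_lit 21678764797) (nat_lit 76) (nat_lit 6021736510) (nat_lit 169) (nat_lit 5) (nat_lit 172) (nat_lit 5) (nat_lit 170) (nat_lit 5) (nat_lit 440) (nat_lit 358) (nat_lit 222)) (XT.lf (nat_lit 0) (nat_lit 9176663365) (nat_lit 228) (nat_lit 3214131699) (nat_lit 76) (nat_lit 16719336435) (nat_lit 169) (nat_lit 5) (nat_lit 172) (nat_lit 5) (nat_lit 170) (nat_lit 5) (nat_lit 441) (nat_lit 358) (nat_lit 221)))))) (XT.nd (nat_lit 624) (nat_lit 836) (nat_lit 0) (XT.nd (nat_lit 312) (nat_lit 532) (nat_lit 0) (XT.nd (nat_lit 156) (nat_lit 228) (nat_lit 0) (XT.nd (nat_lit 78) (nat_lit 152) (nat_lit 0) (XT.lf (nat_lit 0) (nat_lit 16099647121) (nat_lit 152) (nat_lit 1776287775) (nat_lit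 228) (nat_lit 11784968945) (nat_lit 167) (nat_lit 5) (nat_lit 169) (nat_lit 5) (nat_lit 170) (nat_lit 5) (nat_lit 442) (nat_lit 358) (nat_lit 220)) (XT.lf (nat_lit 0) (nat_lit 5838076351) (nat_lit 152) (nat_lit 21164445611) (nat_lit 228) (nat_lit 3220687269) (nat_lit 165) (nat_lit 5) (nat_lit 167) (nat_lit 5) (nat_lit 168) (nat_lit 5) (nat_lit 443) (nat_lit 358) (nat_lit 219))) (XT.nd (nat_lit 78) (nat_lit 152) (nat_lit 0) (XT.lf (nat_lit 0) (nat_lit 5636566280) (nat_lit 228) (nat_lit 4792700927) (nat_lit 76) (nat_lit 20367141612) (nat_lit 164) (nat_lit 5) (nat_lit 167) (nat_lit 5) (nat_lit 165) (nat_lit 5) (nat_lit 444) (nat_lit 358) (nat_lit 218)) (XT.lf (nat_lit 0) (nat_lit 14842682997) (nat_lit 228) (nat_lit 15747025410) (nat_lit 76) (nat_lit 791703003) (nat_lit 162) (nat_lit 5) (nat_lit 165) (nat_lit 5) (nat_lit 163) (nat_lit 5) (nat_lit 445) (nat_lit 358) (nat_lit 217)))) (XT.nd (nat_lit 156)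 (nat_lit 304) (nat_lit 0) (XT.nd (nat_lit 78) (nat_lit 76) (nat_lit 0) (XT.lf (nat_lit 0) (nat_lit 4760658741) (nat_lit 152) (nat_lit 19752019337) (nat_lit 228) (nat_lit 7465655154) (nat_lit 160) (nat_lit 5) (nat_lit 162) (nat_lit 5) (nat_lit 163) (nat_lit 5) (nat_lit 446) (nat_lit 358) (nat_lit 216)) (XT.lf (nat_lit 0) (nat_lit 1993338279) (nat_lit 228) (nat_lit 6420202389) (nat_lit 76) (nat_lit 24174567824) (nat_lit 159) (nat_lit 5) (nat_lit 162) (nat_lit 5) (nat_lit 160) (nat_lit 5) (nat_lit 447) (nat_lit 358) (nat_lit 215))) (XT.nd (nat_lit 78) (nat_lit 152) (nat_lit 0) (XT.lf (nat_lit 0) (nat_lit 11755819812) (nat_lit 228) (nat_lit 18037357543) (nat_lit 76) (nat_lit 3415689017) (nat_lit 157) (nat_lit 5) (nat_lit 160) (nat_lit 5) (nat_lit 158) (nat_lit 5) (nat_lit 448) (nat_lit 358) (nat_lit 214)) (XT.lf (nat_lit 0) (nat_lit 3665827474) (nat_lit 152) (nat_lit 18319515465) (nat_lit 228) (nat_lit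 11857679034) (nat_lit 155) (nat_lit 5) (nat_lit 157) (nat_lit 5) (nat_lit 158) (nat_lit 5) (nat_lit 449) (nat_lit 358) (nat_lit 213))))) (XT.nd (nat_lit 312) (nat_lit 456) (nat_lit 0) (XT.nd (nat_lit 156) (nat_lit 152) (nat_lit 0) (XT.nd (nat_lit 78) (nat_lit 228) (nat_lit 0) (XT.lf (nat_lit 0) (nat_lit 26371994101) (nat_lit 152) (nat_lit 6322167940) (nat_lit 228) (nat_lit 1796867894) (nat_lit 155) (nat_lit 5) (nat_lit 157) (nat_lit 5) (nat_lit 158) (nat_lit 5) (nat_lit 450) (nat_lit 358) (nat_lit 212)) (XT.lf (nat_lit 0) (nat_lit 8591402570) (nat_lit 228) (nat_lit 20422593584) (nat_lit 76) (nat_lit 6136228278) (nat_lit 152) (nat_lit 5) (nat_lit 155) (nat_lit 5) (nat_lit 153) (nat_lit 5) (nat_lit 451) (nat_lit 358) (nat_lit 211))) (XT.nd (nat_lit 78) (nat_lit 0) (nat_lit 0) (XT.lf (nat_lit 0) (nat_lit 2550397272) (nat_lit 152) (nat_lit 16865211459) (nat_lit 228) (nat_lit 16408240227) (nat_lit 150) (nat_lit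 5) (nat_lit 152) (nat_lit 5) (nat_lit 153) (nat_lit 5) (nat_lit 452) (nat_lit 358) (nat_lit 210)) (XT.lf (nat_lit 0) (nat_lit 26613826667) (nat_lit 152) (nat_lit 4147545314) (nat_lit 228) (nat_lit 5750405310) (nat_lit 150) (nat_lit 5) (nat_lit 152) (nat_lit 5) (nat_lit 153) (nat_lit 5) (nat_lit 453) (nat_lit 358) (nat_lit 209)))) (XT.nd (nat_lit 156) (nat_lit 152) (nat_lit 0) (XT.nd (nat_lit 78) (nat_lit 152) (nat_lit 0) (XT.lf (nat_lit 0) (nat_lit 5342138479) (nat_lit 152) (nat_lit 22910458380) (nat_lit 76) (nat_lit 8959729976) (nat_lit 148) (nat_lit 5) (nat_lit 150) (nat_lit 5) (nat_lit 149) (nat_lit 5) (nat_lit 454) (nat_lit 358) (nat_lit 208)) (XT.lf (nat_lit 0) (nat_lit 1411131144) (nat_lit 152) (nat_lit 15387136009) (nat_lit 228) (nat_lit 21129526089) (nat_lit 146) (nat_lit 5) (nat_lit 148) (nat_lit 5) (nat_lit 149) (nat_lit 5) (nat_lit 455) (nat_lit 358) (nat_lit 207))) (XT.nd (nat_lit 78) (nat_lit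 152) (nat_lit 0) (XT.lf (nat_lit 0) (nat_lit 26915075940) (nat_lit 152) (nat_lit 1905276203) (nat_lit 228) (nat_lit 9837703325) (nat_lit 146) (nat_lit 5) (nat_lit 148) (nat_lit 5) (nat_lit 149) (nat_lit 5) (nat_lit 456) (nat_lit 358) (nat_lit 206)) (XT.lf (nat_lit 0) (nat_lit 2000293329) (nat_lit 152) (nat_lit 25509018431) (nat_lit 76) (nat_lit 11893124637) (nat_lit 144) (nat_lit 5) (nat_lit 146) (nat_lit 5) (nat_lit 145) (nat_lit 5) (nat_lit 457) (nat_lit 358) (nat_lit 205))))))))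
noncomputable def xc143 : XT := (XT.nd (nat_lit 2418) (nat_lit 228) (nat_lit 0) (XT.nd (nat_lit 1170) (nat_lit 1292) (nat_lit 0) (XT.nd (nat_lit 546) (nat_lit 836) (nat_lit 0) (XT.nd (nat_lit 234) (nat_lit 380) (nat_lit 0) (XT.nd (nat_lit 78) (nat_lit 76) (nat_lit 0) (XT.lf (nat_lit 0) (nat_lit 244724133) (nat_lit 152) (nat_lit 13883075736) (nat_lit 228) (nat_lit 26034463850) (nat_lit 142) (nat_lit 5) (nat_lit 144) (nat_lit 5) (nat_lit 145) (nat_lit 5) (nat_lit 458) (nat_lit 358) (nat_lit 204)) (XT.nd (nat_lit 78) (nat_lit 76) (nat_lit 0) (XT.lf (nat_lit 0) (nat_lit 26871885992) (nat_lit 228) (nat_lit 13663851969) (nat_lit 76) (nat_lit 401565270) (nat_lit 142) (nat_lit 5) (nat_lit 145) (nat_lit 5) (nat_lit 143) (nat_lit 4) (nat_lit 459) (nat_lit 358) (nat_lit 203)) (XT.lf (nat_lit 0) (nat_lit 13486983626) (nat_lit 76) (nat_lit 26769822401) (nat_lit 152) (nat_lit 1471032561) (nat_lit 141) (nat_lit 5)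 (nat_lit 142) (nat_lit 5) (nat_lit 143) (nat_lit 4) (nat_lit 460) (nat_lit 358) (nat_lit 202)))) (XT.nd (nat_lit 156) (nat_lit 152) (nat_lit 0) (XT.nd (nat_lit 78) (nat_lit 152) (nat_lit 0) (XT.lf (nat_lit 0) (nat_lit 11407520400) (nat_lit 152) (nat_lit 933631451) (nat_lit 76) (nat_lit 30193698474) (nat_lit 140) (nat_lit 5) (nat_lit 142) (nat_lit 5) (nat_lit 141) (nat_lit 5) (nat_lit 461) (nat_lit 358) (nat_lit 201)) (XT.lf (nat_lit 0) (nat_lit 24927771858) (nat_lit 228) (nat_lit 15681728355) (nat_lit 76) (nat_lit 2747588015) (nat_lit 138) (nat_lit 5) (nat_lit 141) (nat_lit 5) (nat_lit 139) (nat_lit 4) (nat_lit 462) (nat_lit 358) (nat_lit 200))) (XT.nd (nat_lit 78) (nat_lit 76) (nat_lit 0) (XT.lf (nat_lit 0) (nat_lit 13075160874) (nat_lit 76) (nat_lit 26027561468) (nat_lit 152) (nat_lit 5093798181) (nat_lit 137) (nat_lit 5) (nat_lit 138) (nat_lit 5) (nat_lit 139) (nat_lit 4) (nat_lit 463) (nat_lit 358)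 (nat_lit 199)) (XT.lf (nat_lit 0) (nat_lit 8624780680) (nat_lit 152) (nat_lit 2140565672) (nat_lit 76) (nat_lit 34288748507) (nat_lit 136) (nat_lit 5) (nat_lit 138) (nat_lit 5) (nat_lit 137) (nat_lit 5) (nat_lit 464) (nat_lit 358) (nat_lit 198))))) (XT.nd (nat_lit 312) (nat_lit 380) (nat_lit 0) (XT.nd (nat_lit 156) (nat_lit 228) (nat_lit 0) (XT.nd (nat_lit 78) (nat_lit 76) (nat_lit 0) (XT.lf (nat_lit 0) (nat_lit 22966242914) (nat_lit 228) (nat_lit 17784649140) (nat_lit 76) (nat_lit 5175580173) (nat_lit 134) (nat_lit 5) (nat_lit 137) (nat_lit 5) (nat_lit 135) (nat_lit 4) (nat_lit 465) (nat_lit 358) (nat_lit 197)) (XT.lf (nat_lit 0) (nat_lit 12677451482) (nat_lit 76) (nat_lit 25302744447) (nat_lit 152) (nat_lit 8837557579) (nat_lit 133) (nat_lit 5) (nat_lit 134) (nat_lit 5) (nat_lit 135) (nat_lit 4) (nat_lit 466) (nat_lit 358) (nat_lit 196))) (XT.nd (nat_lit 78) (nat_lit 152) (nat_lit 0) (XT.lf (nat_lit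 0) (nat_lit 5770739246) (nat_lit 152) (nat_lit 3384386785) (nat_lit 76) (nat_lit 38573800581) (nat_lit 132) (nat_lit 5) (nat_lit 134) (nat_lit 5) (nat_lit 133) (nat_lit 5) (nat_lit 467) (nat_lit 358) (nat_lit 195)) (XT.lf (nat_lit 0) (nat_lit 20983666258) (nat_lit 228) (nat_lit 19979264664) (nat_lit 76) (nat_lit 7691558747) (nat_lit 130) (nat_lit 5) (nat_lit 133) (nat_lit 5) (nat_lit 131) (nat_lit 4) (nat_lit 468) (nat_lit 358) (nat_lit 194)))) (XT.nd (nat_lit 156) (nat_lit 228) (nat_lit 0) (XT.nd (nat_lit 78) (nat_lit 76) (nat_lit 0) (XT.lf (nat_lit 0) (nat_lit 12293208137) (nat_lit 76) (nat_lit 24595328867) (nat_lit 152) (nat_lit 12712215936) (nat_lit 129) (nat_lit 5) (nat_lit 130) (nat_lit 5) (nat_lit 131) (nat_lit 4) (nat_lit 469) (nat_lit 358) (nat_lit 193)) (XT.lf (nat_lit 0) (nat_lit 2838542289) (nat_lit 152) (nat_lit 4668755371) (nat_lit 76) (nat_lit 43061449688) (nat_lit 128) (nat_lit 5) (nat_lit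 130) (nat_lit 5) (nat_lit 129) (nat_lit 5) (nat_lit 470) (nat_lit 358) (nat_lit 192))) (XT.nd (nat_lit 78) (nat_lit 76) (nat_lit 0) (XT.lf (nat_lit 0) (nat_lit 18976221535) (nat_lit 228) (nat_lit 22272546292) (nat_lit 76) (nat_lit 10301960819) (nat_lit 126) (nat_lit 5) (nat_lit 129) (nat_lit 5) (nat_lit 127) (nat_lit 4) (nat_lit 471) (nat_lit 358) (nat_lit 191)) (XT.lf (nat_lit 0) (nat_lit 11921828726) (nat_lit 76) (nat_lit 23905221573) (nat_lit 152) (nat_lit 16728248509) (nat_lit 125) (nat_lit 5) (nat_lit 126) (nat_lit 5) (nat_lit 127) (nat_lit 4) (nat_lit 472) (nat_lit 358) (nat_lit 190)))))) (XT.nd (nat_lit 624) (nat_lit 532) (nat_lit 0) (XT.nd (nat_lit 312) (nat_lit 456) (nat_lit 0) (XT.nd (nat_lit 156) (nat_lit 76) (nat_lit 0) (XT.nd (nat_lit 78) (nat_lit 228) (nat_lit 0) (XT.lf (nat_lit 0) (nat_lit 47584251702) (nat_lit 76) (nat_lit 5816619937) (nat_lit 152) (nat_lit 182610405) (nat_lit 125) (nat_lit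 5) (nat_lit 126) (nat_lit 5) (nat_lit 127) (nat_lit 4) (nat_lit 473) (nat_lit 358) (nat_lit 189)) (XT.lf (nat_lit 0) (nat_lit 16939893118) (nat_lit 228) (nat_lit 24671812994) (nat_lit 76) (nat_lit 13013658265) (nat_lit 122) (nat_lit 5) (nat_lit 125) (nat_lit 5) (nat_lit 123) (nat_lit 4) (nat_lit 474) (nat_lit 358) (nat_lit 188))) (XT.nd (nat_lit 78) (nat_lit 0) (nat_lit 0) (XT.lf (nat_lit 0) (nat_lit 11562752079) (nat_lit 76) (nat_lit 23232285994) (nat_lit 152) (nat_lit 20896731768) (nat_lit 121) (nat_lit 5) (nat_lit 122) (nat_lit 5) (nat_lit 123) (nat_lit 4) (nat_lit 475) (nat_lit 358) (nat_lit 187)) (XT.lf (nat_lit 0) (nat_lit 49376150350) (nat_lit 76) (nat_lit 4051619755) (nat_lit 152) (nat_lit 3355139382) (nat_lit 121) (nat_lit 5) (nat_lit 122) (nat_lit 5) (nat_lit 123) (nat_lit 4) (nat_lit 476) (nat_lit 358) (nat_lit 186)))) (XT.nd (nat_lit 156) (nat_lit 152) (nat_lit 0) (XT.nd (nat_lit 78) (nat_lit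 76) (nat_lit 0) (XT.lf (nat_lit 0) (nat_lit 14870461209) (nat_lit 228) (nat_lit 27184758831) (nat_lit 76) (nat_lit 15833974712) (nat_lit 118) (nat_lit 5) (nat_lit 121) (nat_lit 5) (nat_lit 119) (nat_lit 4) (nat_lit 477) (nat_lit 358) (nat_lit 185)) (XT.lf (nat_lit 0) (nat_lit 11215454169) (nat_lit 76) (nat_lit 22576348547) (nat_lit 152) (nat_lit 25229377045) (nat_lit 117) (nat_lit 5) (nat_lit 118) (nat_lit 5) (nat_lit 119) (nat_lit 4) (nat_lit 478) (nat_lit 358) (nat_lit 184))) (XT.nd (nat_lit 78) (nat_lit 152) (nat_lit 0) (XT.lf (nat_lit 0) (nat_lit 51311370432) (nat_lit 76) (nat_lit 2236950535) (nat_lit 152) (nat_lit 6630777260) (nat_lit 117) (nat_lit 5) (nat_lit 118) (nat_lit 5) (nat_lit 119) (nat_lit 4) (nat_lit 479) (nat_lit 358) (nat_lit 183)) (XT.lf (nat_lit 0) (nat_lit 12763491844) (nat_lit 152) (nat_lit 29819481478) (nat_lit 76) (nat_lit 18770704727) (nat_lit 115) (nat_lit 5) (nat_lit 117)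 (nat_lit 5) (nat_lit 116) (nat_lit 4) (nat_lit 480) (nat_lit 358) (nat_lit 182))))) (XT.nd (nat_lit 312) (nat_lit 228) (nat_lit 0) (XT.nd (nat_lit 156) (nat_lit 228) (nat_lit 0) (XT.nd (nat_lit 78) (nat_lit 0) (nat_lit 0) (XT.lf (nat_lit 0) (nat_lit 10879444705) (nat_lit 76) (nat_lit 21937204291) (nat_lit 152) (nat_lit 29738566772) (nat_lit 114) (nat_lit 5) (nat_lit 115) (nat_lit 5) (nat_lit 116) (nat_lit 4) (nat_lit 481) (nat_lit 358) (nat_lit 181)) (XT.lf (nat_lit 0) (nat_lit 53397423271) (nat_lit 76) (nat_lit 368338910) (nat_lit 152) (nat_lit 10018206598) (nat_lit 114) (nat_lit 5) (nat_lit 115) (nat_lit 5) (nat_lit 116) (nat_lit 4) (nat_lit 482) (nat_lit 358) (nat_lit 180))) (XT.nd (nat_lit 78) (nat_lit 76) (nat_lit 0) (XT.lf (nat_lit 0) (nat_lit 10614325825) (nat_lit 152) (nat_lit 32584511914) (nat_lit 76) (nat_lit 21832135246) (nat_lit 112) (nat_lit 5) (nat_lit 114) (nat_lit 5) (nat_lit 113) (nat_lit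 4) (nat_lit 483) (nat_lit 358) (nat_lit 179)) (XT.lf (nat_lit 0) (nat_lit 10554264097) (nat_lit 76) (nat_lit 21314621897) (nat_lit 152) (nat_lit 34437393384) (nat_lit 111) (nat_lit 5) (nat_lit 112) (nat_lit 5) (nat_lit 113) (nat_lit 4) (nat_lit 484) (nat_lit 358) (nat_lit 178)))) (XT.nd (nat_lit 156) (nat_lit 76) (nat_lit 0) (XT.nd (nat_lit 78) (nat_lit 152) (nat_lit 0) (XT.lf (nat_lit 0) (nat_lit 54098560541) (nat_lit 152) (nat_lit 11982816199) (nat_lit 0) (nat_lit 1528343896) (nat_lit 111) (nat_lit 5) (nat_lit 113) (nat_lit 4) (nat_lit 111) (nat_lit 4) (nat_lit 485) (nat_lit 358) (nat_lit 177)) (XT.lf (nat_lit 0) (nat_lit 8418066553) (nat_lit 152) (nat_lit 35488845408) (nat_lit 76) (nat_lit 25027069238) (nat_lit 109) (nat_lit 5) (nat_lit 111) (nat_lit 5) (nat_lit 110) (nat_lit 4) (nat_lit 486) (nat_lit 358) (nat_lit 176))) (XT.nd (nat_lit 78) (nat_lit 0) (nat_lit 0) (XT.lf (nat_lit 0) (nat_lit 10239480725)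 (nat_lit 76) (nat_lit 20708348028) (nat_lit 152) (nat_lit 39339701019) (nat_lit 108) (nat_lit 5) (nat_lit 109) (nat_lit 5) (nat_lit 110) (nat_lit 4) (nat_lit 487) (nat_lit 358) (nat_lit 175)) (XT.lf (nat_lit 0) (nat_lit 54539625934) (nat_lit 152) (nat_lit 13650553758) (nat_lit 0) (nat_lit 3479920847) (nat_lit 108) (nat_lit 5) (nat_lit 110) (nat_lit 4) (nat_lit 108) (nat_lit 4) (nat_lit 488) (nat_lit 358) (nat_lit 174))))))) (XT.nd (nat_lit 43914) (nat_lit 0) (nat_lit 17176) (XT.nd (nat_lit 43290) (nat_lit 0) (nat_lit 23180) (XT.nd (nat_lit 42978) (nat_lit 0) (nat_lit 24016) (XT.nd (nat_lit 78) (nat_lit 76) (nat_lit 0) (XT.lf (nat_lit 0) (nat_lit 6169566763) (nat_lit 152) (nat_lit 38541973947) (nat_lit 76) (nat_lit 28364851646) (nat_lit 106) (nat_lit 5) (nat_lit 108) (nat_lit 5) (nat_lit 107) (nat_lit 4) (nat_lit 489) (nat_lit 358) (nat_lit 173)) (XT.nd (nat_lit 78) (nat_lit 0) (nat_lit 0) (XT.lf (nat_lit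 0) (nat_lit 9934688501) (nat_lit 76) (nat_lit 20118111182) (nat_lit 152) (nat_lit 44460130108) (nat_lit 105) (nat_lit 5) (nat_lit 106) (nat_lit 5) (nat_lit 107) (nat_lit 4) (nat_lit 490) (nat_lit 358) (nat_lit 172)) (XT.lf (nat_lit 0) (nat_lit 55089489353) (nat_lit 152) (nat_lit 15391361026) (nat_lit 0) (nat_lit 5498604178) (nat_lit 105) (nat_lit 5) (nat_lit 107) (nat_lit 4) (nat_lit 105) (nat_lit 4) (nat_lit 491) (nat_lit 358) (nat_lit 171)))) (XT.nd (nat_lit 156) (nat_lit 988) (nat_lit 0) (XT.nd (nat_lit 78) (nat_lit 0) (nat_lit 0) (XT.lf (nat_lit 0) (nat_lit 3169072854) (nat_lit 988) (nat_lit 408203506) (nat_lit 988) (nat_lit 408203506) (nat_lit 434) (nat_lit 3) (nat_lit 447) (nat_lit 3) (nat_lit 447) (nat_lit 5) (nat_lit 359) (nat_lit 359) (nat_lit 302)) (XT.lf (nat_lit 76) (nat_lit 3232143618) (nat_lit 0) (nat_lit 4446630167) (nat_lit 988) (nat_lit 374383668) (nat_lit 435) (nat_lit 5) (nat_lit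 434) (nat_lit 3) (nat_lit 447) (nat_lit 5) (nat_lit 360) (nat_lit 359) (nat_lit 301))) (XT.nd (nat_lit 78) (nat_lit 0) (nat_lit 76) (XT.lf (nat_lit 0) (nat_lit 864028719) (nat_lit 988) (nat_lit 753483243) (nat_lit 1064) (nat_lit 6521236812) (nat_lit 421) (nat_lit 5) (nat_lit 434) (nat_lit 3) (nat_lit 435) (nat_lit 5) (nat_lit 361) (nat_lit 359) (nat_lit 300)) (XT.lf (nat_lit 0) (nat_lit 2131803259) (nat_lit 988) (nat_lit 4765155891) (nat_lit 1064) (nat_lit 1329845447) (nat_lit 422) (nat_lit 5) (nat_lit 435) (nat_lit 5) (nat_lit 436) (nat_lit 5) (nat_lit 362) (nat_lit 359) (nat_lit 299))))) (XT.nd (nat_lit 312) (nat_lit 912) (nat_lit 0) (XT.nd (nat_lit 156) (nat_lit 0) (nat_lit 76) (XT.nd (nat_lit 78) (nat_lit 0) (nat_lit 0) (XT.lf (nat_lit 0) (nat_lit 3415923086) (nat_lit 988) (nat_lit 541104890) (nat_lit 1064) (nat_lit 4361124756) (nat_lit 422) (nat_lit 5) (nat_lit 435) (nat_lit 5) (nat_lit 436) (nat_lit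 5) (nat_lit 363) (nat_lit 359) (nat_lit 298)) (XT.lf (nat_lit 76) (nat_lit 3859325491) (nat_lit 0) (nat_lit 872274208) (nat_lit 1064) (nat_lit 3680850617) (nat_lit 423) (nat_lit 5) (nat_lit 422) (nat_lit 5) (nat_lit 436) (nat_lit 5) (nat_lit 364) (nat_lit 359) (nat_lit 297))) (XT.nd (nat_lit 78) (nat_lit 0) (nat_lit 0) (XT.lf (nat_lit 0) (nat_lit 6071565804) (nat_lit 988) (nat_lit 155623591) (nat_lit 1064) (nat_lit 2282842857) (nat_lit 423) (nat_lit 5) (nat_lit 436) (nat_lit 5) (nat_lit 437) (nat_lit 5) (nat_lit 365) (nat_lit 359) (nat_lit 296)) (XT.lf (nat_lit 76) (nat_lit 4425444800) (nat_lit 0) (nat_lit 3035854503) (nat_lit 1064) (nat_lit 1148955289) (nat_lit 424) (nat_lit 5) (nat_lit 423) (nat_lit 5) (nat_lit 437) (nat_lit 5) (nat_lit 366) (nat_lit 359) (nat_lit 295)))) (XT.nd (nat_lit 156) (nat_lit 0) (nat_lit 0) (XT.nd (nat_lit 78) (nat_lit 0) (nat_lit 0) (XT.lf (nat_lit 0) (nat_lit 142883046)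 (nat_lit 1064) (nat_lit 8303734043) (nat_lit 1140) (nat_lit 267800641) (nat_lit 410) (nat_lit 5) (nat_lit 424) (nat_lit 5) (nat_lit 425) (nat_lit 5) (nat_lit 367) (nat_lit 359) (nat_lit 294)) (XT.lf (nat_lit 0) (nat_lit 1483145534) (nat_lit 1064) (nat_lit 3660176744) (nat_lit 1140) (nat_lit 3677059354) (nat_lit 410) (nat_lit 5) (nat_lit 424) (nat_lit 5) (nat_lit 425) (nat_lit 5) (nat_lit 368) (nat_lit 359) (nat_lit 293))) (XT.nd (nat_lit 78) (nat_lit 0) (nat_lit 76) (XT.lf (nat_lit 76) (nat_lit 1117589603) (nat_lit 0) (nat_lit 1717960633) (nat_lit 1140) (nat_lit 6094816185) (nat_lit 411) (nat_lit 5) (nat_lit 410) (nat_lit 5) (nat_lit 425) (nat_lit 5) (nat_lit 369) (nat_lit 359) (nat_lit 292)) (XT.lf (nat_lit 0) (nat_lit 4245428198) (nat_lit 1064) (nat_lit 2974477954) (nat_lit 1140) (nat_lit 1823237567) (nat_lit 411) (nat_lit 5) (nat_lit 425) (nat_lit 5) (nat_lit 426) (nat_lit 5) (nat_lit 370) (nat_lit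 359) (nat_lit 291)))))) (XT.nd (nat_lit 624) (nat_lit 2736) (nat_lit 0) (XT.nd (nat_lit 312) (nat_lit 2280) (nat_lit 0) (XT.nd (nat_lit 156) (nat_lit 1064) (nat_lit 0) (XT.nd (nat_lit 78) (nat_lit 0) (nat_lit 0) (XT.lf (nat_lit 76) (nat_lit 2003989034) (nat_lit 0) (nat_lit 3693162448) (nat_lit 1140) (nat_lit 3462166386) (nat_lit 412) (nat_lit 5) (nat_lit 411) (nat_lit 5) (nat_lit 426) (nat_lit 5) (nat_lit 371) (nat_lit 359) (nat_lit 290)) (XT.lf (nat_lit 76) (nat_lit 7165972995) (nat_lit 0) (nat_lit 20577679) (nat_lit 1140) (nat_lit 2092602840) (nat_lit 412) (nat_lit 5) (nat_lit 411) (nat_lit 5) (nat_lit 426) (nat_lit 5) (nat_lit 372) (nat_lit 359) (nat_lit 289))) (XT.nd (nat_lit 78) (nat_lit 1140) (nat_lit 0) (XT.lf (nat_lit 76) (nat_lit 3076949243) (nat_lit 0) (nat_lit 5674643277) (nat_lit 1140) (nat_lit 650062890) (nat_lit 413) (nat_lit 5) (nat_lit 412) (nat_lit 5) (nat_lit 427) (nat_lit 5) (nat_lit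 373) (nat_lit 359) (nat_lit 288)) (XT.lf (nat_lit 0) (nat_lit 806835058) (nat_lit 1140) (nat_lit 1097118517) (nat_lit 1216) (nat_lit 7624016063) (nat_lit 397) (nat_lit 5) (nat_lit 412) (nat_lit 5) (nat_lit 413) (nat_lit 5) (nat_lit 374) (nat_lit 359) (nat_lit 287)))) (XT.nd (nat_lit 156) (nat_lit 1216) (nat_lit 0) (XT.nd (nat_lit 78) (nat_lit 1140) (nat_lit 0) (XT.lf (nat_lit 0) (nat_lit 2322289865) (nat_lit 1140) (nat_lit 5338451640) (nat_lit 76) (nat_lit 1996301235) (nat_lit 398) (nat_lit 5) (nat_lit 413) (nat_lit 5) (nat_lit 399) (nat_lit 5) (nat_lit 375) (nat_lit 359) (nat_lit 286)) (XT.lf (nat_lit 0) (nat_lit 84748079) (nat_lit 1140) (nat_lit 3796727420) (nat_lit 1216) (nat_lit 5908564519) (nat_lit 383) (nat_lit 5) (nat_lit 398) (nat_lit 5) (nat_lit 399) (nat_lit 5) (nat_lit 376) (nat_lit 359) (nat_lit 285))) (XT.nd (nat_lit 78) (nat_lit 1216) (nat_lit 0) (XT.lf (nat_lit 0) (nat_lit 5511783800)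 (nat_lit 1216) (nat_lit 4175910429) (nat_lit 76) (nat_lit 238602573) (nat_lit 383) (nat_lit 5) (nat_lit 399) (nat_lit 5) (nat_lit 384) (nat_lit 5) (nat_lit 377) (nat_lit 359) (nat_lit 284)) (XT.lf (nat_lit 0) (nat_lit 1483245972) (nat_lit 1216) (nat_lit 5728676804) (nat_lit 1292) (nat_lit 2854090871) (nat_lit 367) (nat_lit 5) (nat_lit 383) (nat_lit 5) (nat_lit 384) (nat_lit 5) (nat_lit 378) (nat_lit 359) (nat_lit 283))))) (XT.nd (nat_lit 312) (nat_lit 1216) (nat_lit 0) (XT.nd (nat_lit 156) (nat_lit 608) (nat_lit 0) (XT.nd (nat_lit 78) (nat_lit 912) (nat_lit 0) (XT.lf (nat_lit 0) (nat_lit 7370589671) (nat_lit 1216) (nat_lit 1604356402) (nat_lit 1292) (nat_lit 1234619519) (nat_lit 367) (nat_lit 5) (nat_lit 383) (nat_lit 5) (nat_lit 384) (nat_lit 5) (nat_lit 379) (nat_lit 359) (nat_lit 282)) (XT.lf (nat_lit 0) (nat_lit 450919010) (nat_lit 912) (nat_lit 7276474481) (nat_lit 76) (nat_lit 2629127384) (nat_lit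 355) (nat_lit 5) (nat_lit 367) (nat_lit 5) (nat_lit 356) (nat_lit 5) (nat_lit 380) (nat_lit 359) (nat_lit 281))) (XT.nd (nat_lit 78) (nat_lit 608) (nat_lit 0) (XT.lf (nat_lit 0) (nat_lit 2177979217) (nat_lit 912) (nat_lit 1328201075) (nat_lit 76) (nat_lit 7000864702) (nat_lit 355) (nat_lit 5) (nat_lit 367) (nat_lit 5) (nat_lit 356) (nat_lit 5) (nat_lit 381) (nat_lit 359) (nat_lit 280)) (XT.lf (nat_lit 0) (nat_lit 3983980082) (nat_lit 684) (nat_lit 5803423430) (nat_lit 76) (nat_lit 873867457) (nat_lit 347) (nat_lit 5) (nat_lit 356) (nat_lit 5) (nat_lit 348) (nat_lit 5) (nat_lit 382) (nat_lit 359) (nat_lit 279)))) (XT.nd (nat_lit 156) (nat_lit 608) (nat_lit 0) (XT.nd (nat_lit 78) (nat_lit 0) (nat_lit 0) (XT.lf (nat_lit 0) (nat_lit 382201519) (nat_lit 608) (nat_lit 5486250471) (nat_lit 684) (nat_lit 4950943003) (nat_lit 339) (nat_lit 5) (nat_lit 347) (nat_lit 5) (nat_lit 348) (nat_lit 5) (nat_lit 383)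 (nat_lit 359) (nat_lit 278)) (XT.lf (nat_lit 0) (nat_lit 6845236028) (nat_lit 608) (nat_lit 995727008) (nat_lit 684) (nat_lit 3140354554) (nat_lit 339) (nat_lit 5) (nat_lit 347) (nat_lit 5) (nat_lit 348) (nat_lit 5) (nat_lit 384) (nat_lit 359) (nat_lit 277))) (XT.nd (nat_lit 78) (nat_lit 76) (nat_lit 0) (XT.lf (nat_lit 0) (nat_lit 2337668242) (nat_lit 532) (nat_lit 7566032172) (nat_lit 608) (nat_lit 1243465920) (nat_lit 332) (nat_lit 5) (nat_lit 339) (nat_lit 5) (nat_lit 340) (nat_lit 5) (nat_lit 385) (nat_lit 359) (nat_lit 276)) (XT.lf (nat_lit 0) (nat_lit 722450292) (nat_lit 608) (nat_lit 2270797093) (nat_lit 76) (nat_lit 8323758850) (nat_lit 331) (nat_lit 5) (nat_lit 339) (nat_lit 5) (nat_lit 332) (nat_lit 5) (nat_lit 386) (nat_lit 359) (nat_lit 275))))))))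
noncomputable def xc144 : XT := (XT.nd (nat_lit 2340) (nat_lit 4712) (nat_lit 0) (XT.nd (nat_lit 1170) (nat_lit 3724) (nat_lit 0) (XT.nd (nat_lit 546) (nat_lit 2356) (nat_lit 0) (XT.nd (nat_lit 234) (nat_lit 1064) (nat_lit 0) (XT.nd (nat_lit 78) (nat_lit 532) (nat_lit 0) (XT.lf (nat_lit 0) (nat_lit 2757479343) (nat_lit 684) (nat_lit 6994825670) (nat_lit 76) (nat_lit 1738213142) (nat_lit 323) (nat_lit 5) (nat_lit 332) (nat_lit 5) (nat_lit 324) (nat_lit 5) (nat_lit 387) (nat_lit 359) (nat_lit 274)) (XT.nd (nat_lit 78) (nat_lit 532) (nat_lit 0) (XT.lf (nat_lit 0) (nat_lit 4881524807) (nat_lit 684) (nat_lit 213732214) (nat_lit 76) (nat_lit 6573139445) (nat_lit 323) (nat_lit 5) (nat_lit 332) (nat_lit 5) (nat_lit 324) (nat_lit 5) (nat_lit 388) (nat_lit 359) (nat_lit 273)) (XT.lf (nat_lit 0) (nat_lit 6878763877) (nat_lit 532) (nat_lit 232545593) (nat_lit 608) (nat_lit 4739041121) (nat_lit 316) (nat_lit 5)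 (nat_lit 323) (nat_lit 5) (nat_lit 324) (nat_lit 5) (nat_lit 389) (nat_lit 359) (nat_lit 272)))) (XT.nd (nat_lit 156) (nat_lit 532) (nat_lit 0) (XT.nd (nat_lit 78) (nat_lit 0) (nat_lit 0) (XT.lf (nat_lit 0) (nat_lit 2119454917) (nat_lit 532) (nat_lit 7333320690) (nat_lit 608) (nat_lit 2583644094) (nat_lit 309) (nat_lit 5) (nat_lit 316) (nat_lit 5) (nat_lit 317) (nat_lit 5) (nat_lit 390) (nat_lit 359) (nat_lit 271)) (XT.lf (nat_lit 0) (nat_lit 9496364670) (nat_lit 532) (nat_lit 2397364240) (nat_lit 608) (nat_lit 333464679) (nat_lit 309) (nat_lit 5) (nat_lit 316) (nat_lit 5) (nat_lit 317) (nat_lit 5) (nat_lit 391) (nat_lit 359) (nat_lit 270))) (XT.nd (nat_lit 78) (nat_lit 0) (nat_lit 0) (XT.lf (nat_lit 0) (nat_lit 1994496258) (nat_lit 532) (nat_lit 7731106586) (nat_lit 76) (nat_lit 2696045782) (nat_lit 302) (nat_lit 5) (nat_lit 309) (nat_lit 5) (nat_lit 303) (nat_lit 5) (nat_lit 392) (nat_lit 359) (nat_lit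 269)) (XT.lf (nat_lit 0) (nat_lit 4414774239) (nat_lit 532) (nat_lit 284380471) (nat_lit 76) (nat_lit 7921808140) (nat_lit 302) (nat_lit 5) (nat_lit 309) (nat_lit 5) (nat_lit 303) (nat_lit 5) (nat_lit 393) (nat_lit 359) (nat_lit 268))))) (XT.nd (nat_lit 312) (nat_lit 836) (nat_lit 0) (XT.nd (nat_lit 156) (nat_lit 532) (nat_lit 0) (XT.nd (nat_lit 78) (nat_lit 456) (nat_lit 0) (XT.lf (nat_lit 0) (nat_lit 6963337378) (nat_lit 608) (nat_lit 5323511218) (nat_lit 76) (nat_lit 537737598) (nat_lit 295) (nat_lit 5) (nat_lit 303) (nat_lit 5) (nat_lit 296) (nat_lit 5) (nat_lit 394) (nat_lit 359) (nat_lit 267)) (XT.lf (nat_lit 0) (nat_lit 2467210389) (nat_lit 456) (nat_lit 7172886793) (nat_lit 532) (nat_lit 3392668865) (nat_lit 289) (nat_lit 5) (nat_lit 295) (nat_lit 5) (nat_lit 296) (nat_lit 5) (nat_lit 395) (nat_lit 359) (nat_lit 266))) (XT.nd (nat_lit 78) (nat_lit 532) (nat_lit 0) (XT.lf (nat_lit 0) (nat_lit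 10574965426) (nat_lit 456) (nat_lit 1854923652) (nat_lit 532) (nat_lit 816320339) (nat_lit 289) (nat_lit 5) (nat_lit 295) (nat_lit 5) (nat_lit 296) (nat_lit 5) (nat_lit 396) (nat_lit 359) (nat_lit 265)) (XT.lf (nat_lit 0) (nat_lit 1869430471) (nat_lit 532) (nat_lit 7975461655) (nat_lit 76) (nat_lit 3618595181) (nat_lit 282) (nat_lit 5) (nat_lit 289) (nat_lit 5) (nat_lit 283) (nat_lit 5) (nat_lit 397) (nat_lit 359) (nat_lit 264)))) (XT.nd (nat_lit 156) (nat_lit 456) (nat_lit 0) (XT.nd (nat_lit 78) (nat_lit 0) (nat_lit 0) (XT.lf (nat_lit 0) (nat_lit 211994979) (nat_lit 380) (nat_lit 4434689320) (nat_lit 456) (nat_lit 9039536633) (nat_lit 277) (nat_lit 5) (nat_lit 282) (nat_lit 5) (nat_lit 283) (nat_lit 5) (nat_lit 398) (nat_lit 359) (nat_lit 263)) (XT.lf (nat_lit 0) (nat_lit 7579512504) (nat_lit 456) (nat_lit 5142467066) (nat_lit 76) (nat_lit 1191489293) (nat_lit 277) (nat_lit 5) (nat_lit 283) (nat_lit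 5) (nat_lit 278) (nat_lit 5) (nat_lit 399) (nat_lit 359) (nat_lit 262))) (XT.nd (nat_lit 78) (nat_lit 0) (nat_lit 0) (XT.lf (nat_lit 0) (nat_lit 3437090037) (nat_lit 456) (nat_lit 7220751119) (nat_lit 532) (nat_lit 3487967607) (nat_lit 271) (nat_lit 5) (nat_lit 277) (nat_lit 5) (nat_lit 278) (nat_lit 5) (nat_lit 400) (nat_lit 359) (nat_lit 261)) (XT.lf (nat_lit 0) (nat_lit 12354380849) (nat_lit 456) (nat_lit 1506961026) (nat_lit 532) (nat_lit 522792320) (nat_lit 271) (nat_lit 5) (nat_lit 277) (nat_lit 5) (nat_lit 278) (nat_lit 5) (nat_lit 401) (nat_lit 359) (nat_lit 260)))))) (XT.nd (nat_lit 546) (nat_lit 1748) (nat_lit 0) (XT.nd (nat_lit 234) (nat_lit 1140) (nat_lit 0) (XT.nd (nat_lit 78) (nat_lit 380) (nat_lit 0) (XT.lf (nat_lit 0) (nat_lit 2573404826) (nat_lit 456) (nat_lit 7673284229) (nat_lit 76) (nat_lit 4379446487) (nat_lit 265) (nat_lit 5) (nat_lit 271) (nat_lit 5) (nat_lit 266) (nat_lit 5)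 (nat_lit 402) (nat_lit 359) (nat_lit 259)) (XT.nd (nat_lit 78) (nat_lit 0) (nat_lit 0) (XT.lf (nat_lit 0) (nat_lit 1352896874) (nat_lit 380) (nat_lit 4429226678) (nat_lit 456) (nat_lit 9092213795) (nat_lit 260) (nat_lit 5) (nat_lit 265) (nat_lit 5) (nat_lit 266) (nat_lit 5) (nat_lit 403) (nat_lit 359) (nat_lit 258)) (XT.lf (nat_lit 0) (nat_lit 9162134711) (nat_lit 456) (nat_lit 4361493200) (nat_lit 76) (nat_lit 1604106368) (nat_lit 260) (nat_lit 5) (nat_lit 266) (nat_lit 5) (nat_lit 261) (nat_lit 5) (nat_lit 404) (nat_lit 359) (nat_lit 257)))) (XT.nd (nat_lit 156) (nat_lit 684) (nat_lit 0) (XT.nd (nat_lit 78) (nat_lit 76) (nat_lit 0) (XT.lf (nat_lit 0) (nat_lit 5104539349) (nat_lit 380) (nat_lit 7614216273) (nat_lit 456) (nat_lit 2667721214) (nat_lit 255) (nat_lit 5) (nat_lit 260) (nat_lit 5) (nat_lit 261) (nat_lit 5) (nat_lit 405) (nat_lit 359) (nat_lit 256)) (XT.lf (nat_lit 0) (nat_lit 741743012)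 (nat_lit 456) (nat_lit 739723539) (nat_lit 76) (nat_lit 14170498564) (nat_lit 254) (nat_lit 5) (nat_lit 260) (nat_lit 5) (nat_lit 255) (nat_lit 5) (nat_lit 406) (nat_lit 359) (nat_lit 255))) (XT.nd (nat_lit 78) (nat_lit 304) (nat_lit 0) (XT.lf (nat_lit 0) (nat_lit 4318949316) (nat_lit 456) (nat_lit 6751667920) (nat_lit 76) (nat_lit 4850436110) (nat_lit 249) (nat_lit 5) (nat_lit 255) (nat_lit 5) (nat_lit 250) (nat_lit 5) (nat_lit 407) (nat_lit 359) (nat_lit 254)) (XT.lf (nat_lit 0) (nat_lit 3216905508) (nat_lit 304) (nat_lit 4822816867) (nat_lit 380) (nat_lit 8157404333) (nat_lit 245) (nat_lit 5) (nat_lit 249) (nat_lit 5) (nat_lit 250) (nat_lit 5) (nat_lit 408) (nat_lit 359) (nat_lit 253))))) (XT.nd (nat_lit 312) (nat_lit 988) (nat_lit 0) (XT.nd (nat_lit 156) (nat_lit 380) (nat_lit 0) (XT.nd (nat_lit 78) (nat_lit 380) (nat_lit 0) (XT.lf (nat_lit 0) (nat_lit 11939781199) (nat_lit 380) (nat_lit 2896933257)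 (nat_lit 76) (nat_lit 1642737938) (nat_lit 245) (nat_lit 5) (nat_lit 250) (nat_lit 5) (nat_lit 246) (nat_lit 5) (nat_lit 409) (nat_lit 359) (nat_lit 252)) (XT.lf (nat_lit 0) (nat_lit 7565172564) (nat_lit 380) (nat_lit 8495936469) (nat_lit 456) (nat_lit 706010799) (nat_lit 240) (nat_lit 5) (nat_lit 245) (nat_lit 5) (nat_lit 246) (nat_lit 5) (nat_lit 410) (nat_lit 359) (nat_lit 251))) (XT.nd (nat_lit 78) (nat_lit 0) (nat_lit 0) (XT.lf (nat_lit 0) (nat_lit 1308414315) (nat_lit 304) (nat_lit 1896974702) (nat_lit 380) (nat_lit 13856312997) (nat_lit 235) (nat_lit 5) (nat_lit 239) (nat_lit 5) (nat_lit 240) (nat_lit 5) (nat_lit 411) (nat_lit 359) (nat_lit 250)) (XT.lf (nat_lit 0) (nat_lit 7344940856) (nat_lit 380) (nat_lit 5118443439) (nat_lit 76) (nat_lit 4897777657) (nat_lit 235) (nat_lit 5) (nat_lit 240) (nat_lit 5) (nat_lit 236) (nat_lit 5) (nat_lit 412) (nat_lit 359) (nat_lit 249)))) (XT.nd (nat_lit 156)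 (nat_lit 684) (nat_lit 0) (XT.nd (nat_lit 78) (nat_lit 0) (nat_lit 0) (XT.lf (nat_lit 0) (nat_lit 5908845256) (nat_lit 304) (nat_lit 5759936841) (nat_lit 380) (nat_lit 5999020504) (nat_lit 231) (nat_lit 5) (nat_lit 235) (nat_lit 5) (nat_lit 236) (nat_lit 5) (nat_lit 413) (nat_lit 359) (nat_lit 248)) (XT.lf (nat_lit 0) (nat_lit 16170218017) (nat_lit 380) (nat_lit 645009729) (nat_lit 76) (nat_lit 1166978341) (nat_lit 231) (nat_lit 5) (nat_lit 236) (nat_lit 5) (nat_lit 232) (nat_lit 5) (nat_lit 414) (nat_lit 359) (nat_lit 247))) (XT.nd (nat_lit 78) (nat_lit 304) (nat_lit 0) (XT.lf (nat_lit 0) (nat_lit 2600595567) (nat_lit 380) (nat_lit 7390989860) (nat_lit 76) (nat_lit 8309273004) (nat_lit 226) (nat_lit 5) (nat_lit 231) (nat_lit 5) (nat_lit 227) (nat_lit 5) (nat_lit 415) (nat_lit 359) (nat_lit 246)) (XT.lf (nat_lit 0) (nat_lit 4237755210) (nat_lit 304) (nat_lit 2903894039) (nat_lit 380) (nat_lit 11485907532)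 (nat_lit 222) (nat_lit 5) (nat_lit 226) (nat_lit 5) (nat_lit 227) (nat_lit 5) (nat_lit 416) (nat_lit 359) (nat_lit 245))))))) (XT.nd (nat_lit 1170) (nat_lit 2204) (nat_lit 0) (XT.nd (nat_lit 546) (nat_lit 1292) (nat_lit 0) (XT.nd (nat_lit 234) (nat_lit 608) (nat_lit 0) (XT.nd (nat_lit 78) (nat_lit 608) (nat_lit 0) (XT.lf (nat_lit 0) (nat_lit 11921906847) (nat_lit 380) (nat_lit 2660760220) (nat_lit 76) (nat_lit 4378299846) (nat_lit 222) (nat_lit 5) (nat_lit 227) (nat_lit 5) (nat_lit 223) (nat_lit 5) (nat_lit 417) (nat_lit 359) (nat_lit 244)) (XT.nd (nat_lit 78) (nat_lit 380) (nat_lit 0) (XT.lf (nat_lit 0) (nat_lit 9555718164) (nat_lit 228) (nat_lit 7396225587) (nat_lit 304) (nat_lit 2349244449) (nat_lit 219) (nat_lit 5) (nat_lit 222) (nat_lit 5) (nat_lit 223) (nat_lit 5) (nat_lit 418) (nat_lit 359) (nat_lit 243)) (XT.lf (nat_lit 0) (nat_lit 2471008421) (nat_lit 380) (nat_lit 17104733804) (nat_lit 76)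 (nat_lit 74013522) (nat_lit 214) (nat_lit 5) (nat_lit 219) (nat_lit 5) (nat_lit 215) (nat_lit 5) (nat_lit 419) (nat_lit 359) (nat_lit 242)))) (XT.nd (nat_lit 156) (nat_lit 380) (nat_lit 0) (XT.nd (nat_lit 78) (nat_lit 228) (nat_lit 0) (XT.lf (nat_lit 0) (nat_lit 7547219580) (nat_lit 380) (nat_lit 4721629168) (nat_lit 76) (nat_lit 7734476731) (nat_lit 214) (nat_lit 5) (nat_lit 219) (nat_lit 5) (nat_lit 215) (nat_lit 5) (nat_lit 420) (nat_lit 359) (nat_lit 241)) (XT.lf (nat_lit 0) (nat_lit 8170721181) (nat_lit 228) (nat_lit 4669900716) (nat_lit 304) (nat_lit 7524933260) (nat_lit 211) (nat_lit 5) (nat_lit 214) (nat_lit 5) (nat_lit 215) (nat_lit 5) (nat_lit 421) (nat_lit 359) (nat_lit 240))) (XT.nd (nat_lit 78) (nat_lit 76) (nat_lit 0) (XT.lf (nat_lit 0) (nat_lit 771850587) (nat_lit 304) (nat_lit 17593370077) (nat_lit 380) (nat_lit 2371259232) (nat_lit 207) (nat_lit 5) (nat_lit 211) (nat_lit 5) (nat_lit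 212) (nat_lit 5) (nat_lit 422) (nat_lit 359) (nat_lit 239)) (XT.lf (nat_lit 0) (nat_lit 3036843649) (nat_lit 380) (nat_lit 6834864143) (nat_lit 76) (nat_lit 11241263693) (nat_lit 206) (nat_lit 5) (nat_lit 211) (nat_lit 5) (nat_lit 207) (nat_lit 5) (nat_lit 423) (nat_lit 359) (nat_lit 238))))) (XT.nd (nat_lit 312) (nat_lit 532) (nat_lit 0) (XT.nd (nat_lit 156) (nat_lit 532) (nat_lit 0) (XT.nd (nat_lit 78) (nat_lit 0) (nat_lit 0) (XT.lf (nat_lit 0) (nat_lit 6776327750) (nat_lit 228) (nat_lit 1835263190) (nat_lit 304) (nat_lit 12886900708) (nat_lit 203) (nat_lit 5) (nat_lit 206) (nat_lit 5) (nat_lit 207) (nat_lit 5) (nat_lit 424) (nat_lit 359) (nat_lit 237)) (XT.lf (nat_lit 0) (nat_lit 14472233820) (nat_lit 304) (nat_lit 1041473779) (nat_lit 76) (nat_lit 6378310222) (nat_lit 203) (nat_lit 5) (nat_lit 207) (nat_lit 5) (nat_lit 204) (nat_lit 5) (nat_lit 425) (nat_lit 359) (nat_lit 236))) (XT.nd (nat_lit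 78) (nat_lit 304) (nat_lit 0) (XT.lf (nat_lit 0) (nat_lit 13269706967) (nat_lit 228) (nat_lit 7372118428) (nat_lit 304) (nat_lit 1651530503) (nat_lit 200) (nat_lit 5) (nat_lit 203) (nat_lit 5) (nat_lit 204) (nat_lit 5) (nat_lit 426) (nat_lit 359) (nat_lit 235)) (XT.lf (nat_lit 0) (nat_lit 4266420229) (nat_lit 304) (nat_lit 17346883743) (nat_lit 76) (nat_lit 1090382312) (nat_lit 196) (nat_lit 5) (nat_lit 200) (nat_lit 5) (nat_lit 197) (nat_lit 5) (nat_lit 427) (nat_lit 359) (nat_lit 234)))) (XT.nd (nat_lit 156) (nat_lit 304) (nat_lit 0) (XT.nd (nat_lit 78) (nat_lit 228) (nat_lit 0) (XT.lf (nat_lit 0) (nat_lit 10481268456) (nat_lit 304) (nat_lit 2881030145) (nat_lit 76) (nat_lit 9758960835) (nat_lit 196) (nat_lit 5) (nat_lit 200) (nat_lit 5) (nat_lit 197) (nat_lit 5) (nat_lit 428) (nat_lit 359) (nat_lit 233)) (XT.lf (nat_lit 0) (nat_lit 12237365533) (nat_lit 228) (nat_lit 4750731075) (nat_lit 304) (nat_lit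 6560097139) (nat_lit 193) (nat_lit 5) (nat_lit 196) (nat_lit 5) (nat_lit 197) (nat_lit 5) (nat_lit 429) (nat_lit 359) (nat_lit 232))) (XT.nd (nat_lit 78) (nat_lit 76) (nat_lit 0) (XT.lf (nat_lit 0) (nat_lit 3897160889) (nat_lit 228) (nat_lit 19887391020) (nat_lit 304) (nat_lit 200551510) (nat_lit 190) (nat_lit 5) (nat_lit 193) (nat_lit 5) (nat_lit 194) (nat_lit 5) (nat_lit 430) (nat_lit 359) (nat_lit 231)) (XT.lf (nat_lit 0) (nat_lit 6376281133) (nat_lit 304) (nat_lit 4767999004) (nat_lit 76) (nat_lit 13284496874) (nat_lit 189) (nat_lit 5) (nat_lit 193) (nat_lit 5) (nat_lit 190) (nat_lit 5) (nat_lit 431) (nat_lit 359) (nat_lit 230)))))) (XT.nd (nat_lit 624) (nat_lit 1064) (nat_lit 0) (XT.nd (nat_lit 312) (nat_lit 456) (nat_lit 0) (XT.nd (nat_lit 156) (nat_lit 304) (nat_lit 0) (XT.nd (nat_lit 78) (nat_lit 152) (nat_lit 0) (XT.lf (nat_lit 0) (nat_lit 11208518540) (nat_lit 228) (nat_lit 2033984060) (nat_lit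 304) (nat_lit 11640315197) (nat_lit 186) (nat_lit 5) (nat_lit 189) (nat_lit 5) (nat_lit 190) (nat_lit 5) (nat_lit 432) (nat_lit 359) (nat_lit 229)) (XT.lf (nat_lit 0) (nat_lit 2368293602) (nat_lit 152) (nat_lit 18076900302) (nat_lit 228) (nat_lit 4901371407) (nat_lit 184) (nat_lit 5) (nat_lit 186) (nat_lit 5) (nat_lit 187) (nat_lit 5) (nat_lit 433) (nat_lit 359) (nat_lit 228))) (XT.nd (nat_lit 78) (nat_lit 228) (nat_lit 0) (XT.lf (nat_lit 0) (nat_lit 2148006612) (nat_lit 228) (nat_lit 6708586602) (nat_lit 76) (nat_lit 16962601762) (nat_lit 183) (nat_lit 5) (nat_lit 186) (nat_lit 5) (nat_lit 184) (nat_lit 5) (nat_lit 434) (nat_lit 359) (nat_lit 227)) (XT.lf (nat_lit 0) (nat_lit 9404551457) (nat_lit 304) (nat_lit 16129451031) (nat_lit 76) (nat_lit 767719243) (nat_lit 180) (nat_lit 5) (nat_lit 184) (nat_lit 5) (nat_lit 181) (nat_lit 5) (nat_lit 435) (nat_lit 359) (nat_lit 226)))) (XT.nd (nat_lit 156) (nat_lit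 304) (nat_lit 0) (XT.nd (nat_lit 78) (nat_lit 0) (nat_lit 0) (XT.lf (nat_lit 0) (nat_lit 808445944) (nat_lit 152) (nat_lit 16223101028) (nat_lit 228) (nat_lit 9762594688) (nat_lit 178) (nat_lit 5) (nat_lit 180) (nat_lit 5) (nat_lit 181) (nat_lit 5) (nat_lit 436) (nat_lit 359) (nat_lit 225)) (XT.lf (nat_lit 0) (nat_lit 18565956312) (nat_lit 152) (nat_lit 6473291276) (nat_lit 228) (nat_lit 2257529741) (nat_lit 178) (nat_lit 5) (nat_lit 180) (nat_lit 5) (nat_lit 181) (nat_lit 5) (nat_lit 437) (nat_lit 359) (nat_lit 224))) (XT.nd (nat_lit 78) (nat_lit 0) (nat_lit 0) (XT.lf (nat_lit 0) (nat_lit 5478694602) (nat_lit 304) (nat_lit 18697418715) (nat_lit 76) (nat_lit 3633416570) (nat_lit 174) (nat_lit 5) (nat_lit 178) (nat_lit 5) (nat_lit 175) (nat_lit 5) (nat_lit 438) (nat_lit 359) (nat_lit 223)) (XT.lf (nat_lit 0) (nat_lit 13544051876) (nat_lit 304) (nat_lit 771907355) (nat_lit 76) (nat_lit 14016762626) (nat_lit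 174) (nat_lit 5) (nat_lit 178) (nat_lit 5) (nat_lit 175) (nat_lit 5) (nat_lit 439) (nat_lit 359) (nat_lit 222))))) (XT.nd (nat_lit 312) (nat_lit 532) (nat_lit 0) (XT.nd (nat_lit 156) (nat_lit 152) (nat_lit 0) (XT.nd (nat_lit 78) (nat_lit 228) (nat_lit 0) (XT.lf (nat_lit 0) (nat_lit 18024772158) (nat_lit 152) (nat_lit 3989465986) (nat_lit 228) (nat_lit 6852485395) (nat_lit 172) (nat_lit 5) (nat_lit 174) (nat_lit 5) (nat_lit 175) (nat_lit 5) (nat_lit 440) (nat_lit 359) (nat_lit 221)) (XT.lf (nat_lit 0) (nat_lit 1436261882) (nat_lit 228) (nat_lit 21367072465) (nat_lit 76) (nat_lit 6608821652) (nat_lit 169) (nat_lit 5) (nat_lit 172) (nat_lit 5) (nat_lit 170) (nat_lit 5) (nat_lit 441) (nat_lit 359) (nat_lit 220))) (XT.nd (nat_lit 78) (nat_lit 152) (nat_lit 0) (XT.lf (nat_lit 0) (nat_lit 9975690507) (nat_lit 228) (nat_lit 2376521401) (nat_lit 76) (nat_lit 17615511719) (nat_lit 169) (nat_lit 5) (nat_lit 172)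 (nat_lit 5) (nat_lit 170) (nat_lit 5) (nat_lit 442) (nat_lit 359) (nat_lit 219)) (XT.lf (nat_lit 0) (nat_lit 17507513585) (nat_lit 152) (nat_lit 1422062892) (nat_lit 228) (nat_lit 11605633573) (nat_lit 167) (nat_lit 5) (nat_lit 169) (nat_lit 5) (nat_lit 170) (nat_lit 5) (nat_lit 443) (nat_lit 359) (nat_lit 218)))) (XT.nd (nat_lit 156) (nat_lit 304) (nat_lit 0) (XT.nd (nat_lit 78) (nat_lit 76) (nat_lit 0) (XT.lf (nat_lit 0) (nat_lit 6940518146) (nat_lit 152) (nat_lit 21387091112) (nat_lit 228) (nat_lit 2786845901) (nat_lit 165) (nat_lit 5) (nat_lit 167) (nat_lit 5) (nat_lit 168) (nat_lit 5) (nat_lit 444) (nat_lit 359) (nat_lit 217)) (XT.lf (nat_lit 0) (nat_lit 6310625174) (nat_lit 228) (nat_lit 4026141442) (nat_lit 76) (nat_lit 21368385611) (nat_lit 164) (nat_lit 5) (nat_lit 167) (nat_lit 5) (nat_lit 165) (nat_lit 5) (nat_lit 445) (nat_lit 359) (nat_lit 216))) (XT.nd (nat_lit 78) (nat_lit 152) (nat_lit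 0) (XT.lf (nat_lit 0) (nat_lit 15790751763) (nat_lit 228) (nat_lit 15306922031) (nat_lit 76) (nat_lit 1210096310) (nat_lit 162) (nat_lit 5) (nat_lit 165) (nat_lit 5) (nat_lit 163) (nat_lit 5) (nat_lit 446) (nat_lit 359) (nat_lit 215)) (XT.lf (nat_lit 0) (nat_lit 5807046427) (nat_lit 152) (nat_lit 19937841598) (nat_lit 228) (nat_lit 7177890316) (nat_lit 160) (nat_lit 5) (nat_lit 162) (nat_lit 5) (nat_lit 163) (nat_lit 5) (nat_lit 447) (nat_lit 359) (nat_lit 214))))))))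
noncomputable def xc145 : XT := (XT.nd (nat_lit 2340) (nat_lit 1216) (nat_lit 0) (XT.nd (nat_lit 1170) (nat_lit 1444) (nat_lit 0) (XT.nd (nat_lit 546) (nat_lit 760) (nat_lit 0) (XT.nd (nat_lit 234) (nat_lit 380) (nat_lit 0) (XT.nd (nat_lit 78) (nat_lit 304) (nat_lit 0) (XT.lf (nat_lit 0) (nat_lit 2540273097) (nat_lit 228) (nat_lit 5725863114) (nat_lit 76) (nat_lit 25285001496) (nat_lit 159) (nat_lit 5) (nat_lit 162) (nat_lit 5) (nat_lit 160) (nat_lit 5) (nat_lit 448) (nat_lit 359) (nat_lit 213)) (XT.nd (nat_lit 78) (nat_lit 152) (nat_lit 0) (XT.lf (nat_lit 0) (nat_lit 12593697835) (nat_lit 228) (nat_lit 17689601681) (nat_lit 76) (nat_lit 3907276744) (nat_lit 157) (nat_lit 5) (nat_lit 160) (nat_lit 5) (nat_lit 158) (nat_lit 5) (nat_lit 449) (nat_lit 359) (nat_lit 212)) (XT.lf (nat_lit 0) (nat_lit 4655964411) (nat_lit 152) (nat_lit 18468470764) (nat_lit 228) (nat_lit 11719491499) (nat_lit 155) (nat_lit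 5) (nat_lit 157) (nat_lit 5) (nat_lit 158) (nat_lit 5) (nat_lit 450) (nat_lit 359) (nat_lit 211)))) (XT.nd (nat_lit 156) (nat_lit 152) (nat_lit 0) (XT.nd (nat_lit 78) (nat_lit 228) (nat_lit 0) (XT.lf (nat_lit 0) (nat_lit 28017680246) (nat_lit 152) (nat_lit 6122871653) (nat_lit 228) (nat_lit 1371241983) (nat_lit 155) (nat_lit 5) (nat_lit 157) (nat_lit 5) (nat_lit 158) (nat_lit 5) (nat_lit 451) (nat_lit 359) (nat_lit 210)) (XT.lf (nat_lit 0) (nat_lit 9317603317) (nat_lit 228) (nat_lit 20169671792) (nat_lit 76) (nat_lit 6703402297) (nat_lit 152) (nat_lit 5) (nat_lit 155) (nat_lit 5) (nat_lit 153) (nat_lit 5) (nat_lit 452) (nat_lit 359) (nat_lit 209))) (XT.nd (nat_lit 78) (nat_lit 0) (nat_lit 0) (XT.lf (nat_lit 0) (nat_lit 3484022520) (nat_lit 152) (nat_lit 16977107812) (nat_lit 228) (nat_lit 16423542494) (nat_lit 150) (nat_lit 5) (nat_lit 152) (nat_lit 5) (nat_lit 153) (nat_lit 5) (nat_lit 453) (nat_lit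 359) (nat_lit 208)) (XT.lf (nat_lit 0) (nat_lit 28244390331) (nat_lit 152) (nat_lit 3889389159) (nat_lit 228) (nat_lit 5459864130) (nat_lit 150) (nat_lit 5) (nat_lit 152) (nat_lit 5) (nat_lit 153) (nat_lit 5) (nat_lit 454) (nat_lit 359) (nat_lit 207))))) (XT.nd (nat_lit 312) (nat_lit 304) (nat_lit 0) (XT.nd (nat_lit 156) (nat_lit 152) (nat_lit 0) (XT.nd (nat_lit 78) (nat_lit 152) (nat_lit 0) (XT.lf (nat_lit 0) (nat_lit 5954895595) (nat_lit 152) (nat_lit 22755062890) (nat_lit 76) (nat_lit 9605163366) (nat_lit 148) (nat_lit 5) (nat_lit 150) (nat_lit 5) (nat_lit 149) (nat_lit 5) (nat_lit 455) (nat_lit 359) (nat_lit 206)) (XT.lf (nat_lit 0) (nat_lit 2287912465) (nat_lit 152) (nat_lit 15461637477) (nat_lit 228) (nat_lit 21302657055) (nat_lit 146) (nat_lit 5) (nat_lit 148) (nat_lit 5) (nat_lit 149) (nat_lit 5) (nat_lit 456) (nat_lit 359) (nat_lit 205))) (XT.nd (nat_lit 78) (nat_lit 152) (nat_lit 0) (XT.lf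 (nat_lit 0) (nat_lit 28532671312) (nat_lit 152) (nat_lit 1586597001) (nat_lit 228) (nat_lit 9685499651) (nat_lit 146) (nat_lit 5) (nat_lit 148) (nat_lit 5) (nat_lit 149) (nat_lit 5) (nat_lit 457) (nat_lit 359) (nat_lit 204)) (XT.lf (nat_lit 0) (nat_lit 2497553256) (nat_lit 152) (nat_lit 25454062244) (nat_lit 76) (nat_lit 12619776454) (nat_lit 144) (nat_lit 5) (nat_lit 146) (nat_lit 5) (nat_lit 145) (nat_lit 5) (nat_lit 458) (nat_lit 359) (nat_lit 203)))) (XT.nd (nat_lit 156) (nat_lit 152) (nat_lit 0) (XT.nd (nat_lit 78) (nat_lit 0) (nat_lit 0) (XT.lf (nat_lit 0) (nat_lit 1064251159) (nat_lit 152) (nat_lit 13919705587) (nat_lit 228) (nat_lit 26370205200) (nat_lit 142) (nat_lit 5) (nat_lit 144) (nat_lit 5) (nat_lit 145) (nat_lit 5) (nat_lit 459) (nat_lit 359) (nat_lit 202)) (XT.lf (nat_lit 0) (nat_lit 28101318639) (nat_lit 228) (nat_lit 13276191298) (nat_lit 76) (nat_lit 775214109) (nat_lit 142) (nat_lit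 5) (nat_lit 145) (nat_lit 5) (nat_lit 143) (nat_lit 4) (nat_lit 460) (nat_lit 359) (nat_lit 201))) (XT.nd (nat_lit 78) (nat_lit 76) (nat_lit 0) (XT.lf (nat_lit 0) (nat_lit 14681349990) (nat_lit 76) (nat_lit 27201699482) (nat_lit 152) (nat_lit 1084068096) (nat_lit 141) (nat_lit 5) (nat_lit 142) (nat_lit 5) (nat_lit 143) (nat_lit 4) (nat_lit 461) (nat_lit 359) (nat_lit 200)) (XT.lf (nat_lit 0) (nat_lit 12160118068) (nat_lit 152) (nat_lit 186718957) (nat_lit 76) (nat_lit 31451747648) (nat_lit 140) (nat_lit 5) (nat_lit 142) (nat_lit 5) (nat_lit 141) (nat_lit 5) (nat_lit 462) (nat_lit 359) (nat_lit 199)))))) (XT.nd (nat_lit 546) (nat_lit 684) (nat_lit 0) (XT.nd (nat_lit 234) (nat_lit 456) (nat_lit 0) (XT.nd (nat_lit 78) (nat_lit 152) (nat_lit 0) (XT.lf (nat_lit 0) (nat_lit 26084875710) (nat_lit 228) (nat_lit 15376157409) (nat_lit 76) (nat_lit 3184489636) (nat_lit 138) (nat_lit 5) (nat_lit 141) (nat_lit 5)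 (nat_lit 139) (nat_lit 4) (nat_lit 463) (nat_lit 359) (nat_lit 198)) (XT.nd (nat_lit 78) (nat_lit 76) (nat_lit 0) (XT.lf (nat_lit 0) (nat_lit 14235830431) (nat_lit 76) (nat_lit 26444710244) (nat_lit 152) (nat_lit 4829733364) (nat_lit 137) (nat_lit 5) (nat_lit 138) (nat_lit 5) (nat_lit 139) (nat_lit 4) (nat_lit 464) (nat_lit 359) (nat_lit 197)) (XT.lf (nat_lit 0) (nat_lit 9280362893) (nat_lit 152) (nat_lit 1450851053) (nat_lit 76) (nat_lit 35662598595) (nat_lit 136) (nat_lit 5) (nat_lit 138) (nat_lit 5) (nat_lit 137) (nat_lit 5) (nat_lit 465) (nat_lit 359) (nat_lit 196)))) (XT.nd (nat_lit 156) (nat_lit 228) (nat_lit 0) (XT.nd (nat_lit 78) (nat_lit 76) (nat_lit 0) (XT.lf (nat_lit 0) (nat_lit 24051090450) (nat_lit 228) (nat_lit 17563278481) (nat_lit 76) (nat_lit 5678021655) (nat_lit 134) (nat_lit 5) (nat_lit 137) (nat_lit 5) (nat_lit 135) (nat_lit 4) (nat_lit 466) (nat_lit 359) (nat_lit 195)) (XT.lf (nat_lit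 0) (nat_lit 13805284079) (nat_lit 76) (nat_lit 25705833580) (nat_lit 152) (nat_lit 8699422978) (nat_lit 133) (nat_lit 5) (nat_lit 134) (nat_lit 5) (nat_lit 135) (nat_lit 4) (nat_lit 467) (nat_lit 359) (nat_lit 194))) (XT.nd (nat_lit 78) (nat_lit 152) (nat_lit 0) (XT.lf (nat_lit 0) (nat_lit 6327737392) (nat_lit 152) (nat_lit 2752541559) (nat_lit 76) (nat_lit 40068999180) (nat_lit 132) (nat_lit 5) (nat_lit 134) (nat_lit 5) (nat_lit 133) (nat_lit 5) (nat_lit 468) (nat_lit 359) (nat_lit 193)) (XT.lf (nat_lit 0) (nat_lit 21996182791) (nat_lit 228) (nat_lit 19844396351) (nat_lit 76) (nat_lit 8262055021) (nat_lit 130) (nat_lit 5) (nat_lit 133) (nat_lit 5) (nat_lit 131) (nat_lit 4) (nat_lit 469) (nat_lit 359) (nat_lit 192))))) (XT.nd (nat_lit 312) (nat_lit 304) (nat_lit 0) (XT.nd (nat_lit 156) (nat_lit 228) (nat_lit 0) (XT.nd (nat_lit 78) (nat_lit 76) (nat_lit 0) (XT.lf (nat_lit 0) (nat_lit 13389052141) (nat_lit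 76) (nat_lit 24984980815) (nat_lit 152) (nat_lit 12703377376) (nat_lit 129) (nat_lit 5) (nat_lit 130) (nat_lit 5) (nat_lit 131) (nat_lit 4) (nat_lit 470) (nat_lit 359) (nat_lit 191)) (XT.lf (nat_lit 0) (nat_lit 3295145870) (nat_lit 152) (nat_lit 4095553890) (nat_lit 76) (nat_lit 44683966588) (nat_lit 128) (nat_lit 5) (nat_lit 130) (nat_lit 5) (nat_lit 129) (nat_lit 5) (nat_lit 471) (nat_lit 359) (nat_lit 190))) (XT.nd (nat_lit 78) (nat_lit 76) (nat_lit 0) (XT.lf (nat_lit 0) (nat_lit 19916183022) (nat_lit 228) (nat_lit 22226686067) (nat_lit 76) (nat_lit 10943261171) (nat_lit 126) (nat_lit 5) (nat_lit 129) (nat_lit 5) (nat_lit 127) (nat_lit 4) (nat_lit 472) (nat_lit 359) (nat_lit 189)) (XT.lf (nat_lit 0) (nat_lit 12986519842) (nat_lit 76) (nat_lit 24282016918) (nat_lit 152) (nat_lit 16852420764) (nat_lit 125) (nat_lit 5) (nat_lit 126) (nat_lit 5) (nat_lit 127) (nat_lit 4) (nat_lit 473) (nat_lit 359) (nat_lit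 188)))) (XT.nd (nat_lit 156) (nat_lit 76) (nat_lit 0) (XT.nd (nat_lit 78) (nat_lit 152) (nat_lit 0) (XT.lf (nat_lit 0) (nat_lit 175101373) (nat_lit 152) (nat_lit 5483801115) (nat_lit 76) (nat_lit 49521352665) (nat_lit 124) (nat_lit 5) (nat_lit 126) (nat_lit 5) (nat_lit 125) (nat_lit 5) (nat_lit 474) (nat_lit 359) (nat_lit 187)) (XT.lf (nat_lit 0) (nat_lit 17806923383) (nat_lit 228) (nat_lit 24717682938) (nat_lit 76) (nat_lit 13728753983) (nat_lit 122) (nat_lit 5) (nat_lit 125) (nat_lit 5) (nat_lit 123) (nat_lit 4) (nat_lit 475) (nat_lit 359) (nat_lit 186))) (XT.nd (nat_lit 78) (nat_lit 0) (nat_lit 0) (XT.lf (nat_lit 0) (nat_lit 12597112377) (nat_lit 76) (nat_lit 23596767306) (nat_lit 152) (nat_lit 21157993539) (nat_lit 121) (nat_lit 5) (nat_lit 122) (nat_lit 5) (nat_lit 123) (nat_lit 4) (nat_lit 476) (nat_lit 359) (nat_lit 185)) (XT.lf (nat_lit 0) (nat_lit 51524888972) (nat_lit 76) (nat_lit 3850365176)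 (nat_lit 152) (nat_lit 3100803096) (nat_lit 121) (nat_lit 5) (nat_lit 122) (nat_lit 5) (nat_lit 123) (nat_lit 4) (nat_lit 477) (nat_lit 359) (nat_lit 184))))))) (XT.nd (nat_lit 43992) (nat_lit 0) (nat_lit 22192) (XT.nd (nat_lit 546) (nat_lit 532) (nat_lit 0) (XT.nd (nat_lit 234) (nat_lit 380) (nat_lit 0) (XT.nd (nat_lit 78) (nat_lit 76) (nat_lit 0) (XT.lf (nat_lit 0) (nat_lit 15664028574) (nat_lit 228) (nat_lit 27325310545) (nat_lit 76) (nat_lit 16626107869) (nat_lit 118) (nat_lit 5) (nat_lit 121) (nat_lit 5) (nat_lit 119) (nat_lit 4) (nat_lit 478) (nat_lit 359) (nat_lit 183)) (XT.nd (nat_lit 78) (nat_lit 0) (nat_lit 0) (XT.lf (nat_lit 0) (nat_lit 12220291285) (nat_lit 76) (nat_lit 22929023851) (nat_lit 152) (nat_lit 25632187269) (nat_lit 117) (nat_lit 5) (nat_lit 118) (nat_lit 5) (nat_lit 119) (nat_lit 4) (nat_lit 479) (nat_lit 359) (nat_lit 182)) (XT.lf (nat_lit 0) (nat_lit 53499617848) (nat_lit 76)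 (nat_lit 1988898708) (nat_lit 152) (nat_lit 6485942239) (nat_lit 117) (nat_lit 5) (nat_lit 118) (nat_lit 5) (nat_lit 119) (nat_lit 4) (nat_lit 480) (nat_lit 359) (nat_lit 181)))) (XT.nd (nat_lit 156) (nat_lit 152) (nat_lit 0) (XT.nd (nat_lit 78) (nat_lit 76) (nat_lit 0) (XT.lf (nat_lit 0) (nat_lit 13482905179) (nat_lit 152) (nat_lit 30057909861) (nat_lit 76) (nat_lit 19643378094) (nat_lit 115) (nat_lit 5) (nat_lit 117) (nat_lit 5) (nat_lit 116) (nat_lit 4) (nat_lit 481) (nat_lit 359) (nat_lit 180)) (XT.lf (nat_lit 0) (nat_lit 11855551205) (nat_lit 76) (nat_lit 22278550155) (nat_lit 152) (nat_lit 30287782294) (nat_lit 114) (nat_lit 5) (nat_lit 115) (nat_lit 5) (nat_lit 116) (nat_lit 4) (nat_lit 482) (nat_lit 359) (nat_lit 179))) (XT.nd (nat_lit 78) (nat_lit 152) (nat_lit 0) (XT.lf (nat_lit 0) (nat_lit 55630145152) (nat_lit 76) (nat_lit 71845131) (nat_lit 152) (nat_lit 9985799902) (nat_lit 114) (nat_lit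 5) (nat_lit 115) (nat_lit 5) (nat_lit 116) (nat_lit 4) (nat_lit 483) (nat_lit 359) (nat_lit 178)) (XT.lf (nat_lit 0) (nat_lit 11258730005) (nat_lit 152) (nat_lit 32924269599) (nat_lit 76) (nat_lit 22789123338) (nat_lit 112) (nat_lit 5) (nat_lit 114) (nat_lit 5) (nat_lit 113) (nat_lit 4) (nat_lit 484) (nat_lit 359) (nat_lit 177))))) (XT.nd (nat_lit 312) (nat_lit 228) (nat_lit 0) (XT.nd (nat_lit 156) (nat_lit 228) (nat_lit 0) (XT.nd (nat_lit 78) (nat_lit 0) (nat_lit 0) (XT.lf (nat_lit 0) (nat_lit 11502416970) (nat_lit 76) (nat_lit 21645086214) (nat_lit 152) (nat_lit 35138288058) (nat_lit 111) (nat_lit 5) (nat_lit 112) (nat_lit 5) (nat_lit 113) (nat_lit 4) (nat_lit 485) (nat_lit 359) (nat_lit 176)) (XT.lf (nat_lit 0) (nat_lit 56037556833) (nat_lit 152) (nat_lit 11722658532) (nat_lit 0) (nat_lit 1868315706) (nat_lit 111) (nat_lit 5) (nat_lit 113) (nat_lit 4) (nat_lit 111) (nat_lit 4) (nat_lit 486) (nat_lit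 359) (nat_lit 175))) (XT.nd (nat_lit 78) (nat_lit 76) (nat_lit 0) (XT.lf (nat_lit 0) (nat_lit 8986437336) (nat_lit 152) (nat_lit 35933657928) (nat_lit 76) (nat_lit 26072430508) (nat_lit 109) (nat_lit 5) (nat_lit 111) (nat_lit 5) (nat_lit 110) (nat_lit 4) (nat_lit 487) (nat_lit 359) (nat_lit 174)) (XT.lf (nat_lit 0) (nat_lit 11160441001) (nat_lit 76) (nat_lit 21028352494) (nat_lit 152) (nat_lit 40197986275) (nat_lit 108) (nat_lit 5) (nat_lit 109) (nat_lit 5) (nat_lit 110) (nat_lit 4) (nat_lit 488) (nat_lit 359) (nat_lit 173)))) (XT.nd (nat_lit 156) (nat_lit 76) (nat_lit 0) (XT.nd (nat_lit 78) (nat_lit 152) (nat_lit 0) (XT.lf (nat_lit 0) (nat_lit 56482053197) (nat_lit 152) (nat_lit 13457880089) (nat_lit 0) (nat_lit 3871083114) (nat_lit 108) (nat_lit 5) (nat_lit 110) (nat_lit 4) (nat_lit 108) (nat_lit 4) (nat_lit 489) (nat_lit 359) (nat_lit 172)) (XT.lf (nat_lit 0) (nat_lit 6660705057) (nat_lit 152) (nat_lit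 39095855690) (nat_lit 76) (nat_lit 29502941842) (nat_lit 106) (nat_lit 5) (nat_lit 108) (nat_lit 5) (nat_lit 107) (nat_lit 4) (nat_lit 490) (nat_lit 359) (nat_lit 171))) (XT.nd (nat_lit 42900) (nat_lit 0) (nat_lit 24016) (XT.lf (nat_lit 0) (nat_lit 10829200971) (nat_lit 76) (nat_lit 20428053530) (nat_lit 152) (nat_lit 45481977059) (nat_lit 105) (nat_lit 5) (nat_lit 106) (nat_lit 5) (nat_lit 107) (nat_lit 4) (nat_lit 491) (nat_lit 359) (nat_lit 170)) (XT.lf (nat_lit 0) (nat_lit 197047684) (nat_lit 0) (nat_lit 197047684) (nat_lit 988) (nat_lit 3674633823) (nat_lit 421) (nat_lit 5) (nat_lit 421) (nat_lit 3) (nat_lit 434) (nat_lit 3) (nat_lit 360) (nat_lit 360) (nat_lit 300)))))) (XT.nd (nat_lit 624) (nat_lit 912) (nat_lit 0) (XT.nd (nat_lit 312) (nat_lit 912) (nat_lit 0) (XT.nd (nat_lit 156) (nat_lit 0) (nat_lit 76) (XT.nd (nat_lit 78) (nat_lit 0) (nat_lit 0) (XT.lf (nat_lit 0) (nat_lit 1992500522) (nat_lit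 988) (nat_lit 3688007591) (nat_lit 1064) (nat_lit 2543237538) (nat_lit 421) (nat_lit 5) (nat_lit 434) (nat_lit 3) (nat_lit 435) (nat_lit 5) (nat_lit 361) (nat_lit 360) (nat_lit 299)) (XT.lf (nat_lit 76) (nat_lit 469906973) (nat_lit 0) (nat_lit 2726104262) (nat_lit 1064) (nat_lit 5117718153) (nat_lit 422) (nat_lit 5) (nat_lit 421) (nat_lit 5) (nat_lit 435) (nat_lit 5) (nat_lit 362) (nat_lit 360) (nat_lit 298))) (XT.nd (nat_lit 78) (nat_lit 0) (nat_lit 0) (XT.lf (nat_lit 0) (nat_lit 4432219181) (nat_lit 988) (nat_lit 3606202635) (nat_lit 1064) (nat_lit 368093063) (nat_lit 422) (nat_lit 5) (nat_lit 435) (nat_lit 5) (nat_lit 436) (nat_lit 5) (nat_lit 363) (nat_lit 360) (nat_lit 297)) (XT.lf (nat_lit 76) (nat_lit 720713972) (nat_lit 0) (nat_lit 4975936909) (nat_lit 1064) (nat_lit 2805698930) (nat_lit 423) (nat_lit 5) (nat_lit 422) (nat_lit 5) (nat_lit 436) (nat_lit 5) (nat_lit 364) (nat_lit 360) (nat_lit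 296)))) (XT.nd (nat_lit 156) (nat_lit 988) (nat_lit 0) (XT.nd (nat_lit 78) (nat_lit 0) (nat_lit 76) (XT.lf (nat_lit 76) (nat_lit 5226701498) (nat_lit 0) (nat_lit 1766957068) (nat_lit 1064) (nat_lit 1607561933) (nat_lit 423) (nat_lit 5) (nat_lit 422) (nat_lit 5) (nat_lit 436) (nat_lit 5) (nat_lit 365) (nat_lit 360) (nat_lit 295)) (XT.lf (nat_lit 76) (nat_lit 1147089869) (nat_lit 0) (nat_lit 7167903984) (nat_lit 1064) (nat_lit 388500934) (nat_lit 424) (nat_lit 5) (nat_lit 423) (nat_lit 5) (nat_lit 437) (nat_lit 5) (nat_lit 366) (nat_lit 360) (nat_lit 294))) (XT.nd (nat_lit 78) (nat_lit 0) (nat_lit 0) (XT.lf (nat_lit 0) (nat_lit 862267799) (nat_lit 1064) (nat_lit 2986324318) (nat_lit 1140) (nat_lit 4959633420) (nat_lit 409) (nat_lit 5) (nat_lit 423) (nat_lit 5) (nat_lit 424) (nat_lit 5) (nat_lit 367) (nat_lit 360) (nat_lit 293)) (XT.lf (nat_lit 76) (nat_lit 1725574405) (nat_lit 0) (nat_lit 395073435) (nat_lit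 1140) (nat_lit 6795998073) (nat_lit 410) (nat_lit 5) (nat_lit 409) (nat_lit 5) (nat_lit 424) (nat_lit 5) (nat_lit 368) (nat_lit 360) (nat_lit 292))))) (XT.nd (nat_lit 312) (nat_lit 988) (nat_lit 0) (XT.nd (nat_lit 156) (nat_lit 0) (nat_lit 76) (XT.nd (nat_lit 78) (nat_lit 0) (nat_lit 0) (XT.lf (nat_lit 0) (nat_lit 3439951177) (nat_lit 1064) (nat_lit 2444183752) (nat_lit 1140) (nat_lit 3143488814) (nat_lit 410) (nat_lit 5) (nat_lit 424) (nat_lit 5) (nat_lit 425) (nat_lit 5) (nat_lit 369) (nat_lit 360) (nat_lit 291)) (XT.lf (nat_lit 76) (nat_lit 2463917563) (nat_lit 0) (nat_lit 2325931509) (nat_lit 1140) (nat_lit 4352351371) (nat_lit 411) (nat_lit 5) (nat_lit 410) (nat_lit 5) (nat_lit 425) (nat_lit 5) (nat_lit 370) (nat_lit 360) (nat_lit 290))) (XT.nd (nat_lit 78) (nat_lit 0) (nat_lit 0) (XT.lf (nat_lit 0) (nat_lit 6182386737) (nat_lit 1064) (nat_lit 1729512286) (nat_lit 1140) (nat_lit 1348251137) (nat_lit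 411) (nat_lit 5) (nat_lit 425) (nat_lit 5) (nat_lit 426) (nat_lit 5) (nat_lit 371) (nat_lit 360) (nat_lit 289)) (XT.lf (nat_lit 76) (nat_lit 3385228320) (nat_lit 0) (nat_lit 4252426139) (nat_lit 1140) (nat_lit 1743355292) (nat_lit 412) (nat_lit 5) (nat_lit 411) (nat_lit 5) (nat_lit 426) (nat_lit 5) (nat_lit 372) (nat_lit 360) (nat_lit 288)))) (XT.nd (nat_lit 156) (nat_lit 0) (nat_lit 0) (XT.nd (nat_lit 78) (nat_lit 1064) (nat_lit 0) (XT.lf (nat_lit 76) (nat_lit 8663592588) (nat_lit 0) (nat_lit 456601628) (nat_lit 1140) (nat_lit 385792493) (nat_lit 412) (nat_lit 5) (nat_lit 411) (nat_lit 5) (nat_lit 426) (nat_lit 5) (nat_lit 373) (nat_lit 360) (nat_lit 287)) (XT.lf (nat_lit 0) (nat_lit 1036784061) (nat_lit 1140) (nat_lit 5149065469) (nat_lit 1216) (nat_lit 3447250133) (nat_lit 397) (nat_lit 5) (nat_lit 412) (nat_lit 5) (nat_lit 413) (nat_lit 5) (nat_lit 374) (nat_lit 360) (nat_lit 286))) (XT.nd (nat_lit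 78) (nat_lit 0) (nat_lit 76) (XT.lf (nat_lit 76) (nat_lit 193100694) (nat_lit 0) (nat_lit 2283759907) (nat_lit 1216) (nat_lit 7287573512) (nat_lit 398) (nat_lit 5) (nat_lit 397) (nat_lit 5) (nat_lit 413) (nat_lit 5) (nat_lit 375) (nat_lit 360) (nat_lit 285)) (XT.lf (nat_lit 0) (nat_lit 3997693567) (nat_lit 1140) (nat_lit 4141011228) (nat_lit 76) (nat_lit 1759877176) (nat_lit 398) (nat_lit 5) (nat_lit 413) (nat_lit 5) (nat_lit 399) (nat_lit 5) (nat_lit 376) (nat_lit 360) (nat_lit 284))))))))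
noncomputable def xc146 : XT := (XT.nd (nat_lit 2340) (nat_lit 5852) (nat_lit 0) (XT.nd (nat_lit 1170) (nat_lit 4104) (nat_lit 0) (XT.nd (nat_lit 546) (nat_lit 2888) (nat_lit 0) (XT.nd (nat_lit 234) (nat_lit 1520) (nat_lit 0) (XT.nd (nat_lit 78) (nat_lit 1216) (nat_lit 0) (XT.lf (nat_lit 0) (nat_lit 1431574738) (nat_lit 1140) (nat_lit 4138233133) (nat_lit 1216) (nat_lit 4466776704) (nat_lit 383) (nat_lit 5) (nat_lit 398) (nat_lit 5) (nat_lit 399) (nat_lit 5) (nat_lit 377) (nat_lit 360) (nat_lit 283)) (XT.nd (nat_lit 78) (nat_lit 1216) (nat_lit 0) (XT.lf (nat_lit 0) (nat_lit 7201118130) (nat_lit 1216) (nat_lit 2948150142) (nat_lit 76) (nat_lit 29098010) (nat_lit 383) (nat_lit 5) (nat_lit 399) (nat_lit 5) (nat_lit 384) (nat_lit 5) (nat_lit 378) (nat_lit 360) (nat_lit 282)) (XT.lf (nat_lit 0) (nat_lit 2867515875) (nat_lit 1216) (nat_lit 6053236321) (nat_lit 1292) (nat_lit 1402467708) (nat_lit 367) (nat_lit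 5) (nat_lit 383) (nat_lit 5) (nat_lit 384) (nat_lit 5) (nat_lit 379) (nat_lit 360) (nat_lit 281)))) (XT.nd (nat_lit 156) (nat_lit 608) (nat_lit 0) (XT.nd (nat_lit 78) (nat_lit 836) (nat_lit 0) (XT.lf (nat_lit 0) (nat_lit 216504762) (nat_lit 1292) (nat_lit 1582047721) (nat_lit 76) (nat_lit 8673766349) (nat_lit 366) (nat_lit 5) (nat_lit 383) (nat_lit 5) (nat_lit 367) (nat_lit 5) (nat_lit 380) (nat_lit 360) (nat_lit 280)) (XT.lf (nat_lit 0) (nat_lit 1896710913) (nat_lit 912) (nat_lit 6133811286) (nat_lit 76) (nat_lit 2593726373) (nat_lit 355) (nat_lit 5) (nat_lit 367) (nat_lit 5) (nat_lit 356) (nat_lit 5) (nat_lit 381) (nat_lit 360) (nat_lit 279))) (XT.nd (nat_lit 78) (nat_lit 608) (nat_lit 0) (XT.lf (nat_lit 0) (nat_lit 3633866488) (nat_lit 912) (nat_lit 46729215) (nat_lit 76) (nat_lit 7099944203) (nat_lit 355) (nat_lit 5) (nat_lit 367) (nat_lit 5) (nat_lit 356) (nat_lit 5) (nat_lit 382) (nat_lit 360)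 (nat_lit 278)) (XT.lf (nat_lit 0) (nat_lit 5465601202) (nat_lit 684) (nat_lit 4627762063) (nat_lit 76) (nat_lit 846882781) (nat_lit 347) (nat_lit 5) (nat_lit 356) (nat_lit 5) (nat_lit 348) (nat_lit 5) (nat_lit 383) (nat_lit 360) (nat_lit 277))))) (XT.nd (nat_lit 312) (nat_lit 1672) (nat_lit 0) (XT.nd (nat_lit 156) (nat_lit 608) (nat_lit 0) (XT.nd (nat_lit 78) (nat_lit 0) (nat_lit 0) (XT.lf (nat_lit 0) (nat_lit 1730198653) (nat_lit 608) (nat_lit 5649583303) (nat_lit 684) (nat_lit 3724136594) (nat_lit 339) (nat_lit 5) (nat_lit 347) (nat_lit 5) (nat_lit 348) (nat_lit 5) (nat_lit 384) (nat_lit 360) (nat_lit 276)) (XT.lf (nat_lit 0) (nat_lit 8348196107) (nat_lit 608) (nat_lit 1024380680) (nat_lit 684) (nat_lit 1899288783) (nat_lit 339) (nat_lit 5) (nat_lit 347) (nat_lit 5) (nat_lit 348) (nat_lit 5) (nat_lit 385) (nat_lit 360) (nat_lit 275))) (XT.nd (nat_lit 78) (nat_lit 0) (nat_lit 0) (XT.lf (nat_lit 0)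 (nat_lit 28168830) (nat_lit 608) (nat_lit 7712538380) (nat_lit 76) (nat_lit 3702725070) (nat_lit 331) (nat_lit 5) (nat_lit 339) (nat_lit 5) (nat_lit 332) (nat_lit 5) (nat_lit 386) (nat_lit 360) (nat_lit 274)) (XT.lf (nat_lit 0) (nat_lit 1990673602) (nat_lit 608) (nat_lit 1029277209) (nat_lit 76) (nat_lit 8599169118) (nat_lit 331) (nat_lit 5) (nat_lit 339) (nat_lit 5) (nat_lit 332) (nat_lit 5) (nat_lit 387) (nat_lit 360) (nat_lit 273)))) (XT.nd (nat_lit 156) (nat_lit 532) (nat_lit 0) (XT.nd (nat_lit 78) (nat_lit 532) (nat_lit 0) (XT.lf (nat_lit 0) (nat_lit 4063624178) (nat_lit 684) (nat_lit 5871897298) (nat_lit 76) (nat_lit 1863009610) (nat_lit 323) (nat_lit 5) (nat_lit 332) (nat_lit 5) (nat_lit 324) (nat_lit 5) (nat_lit 388) (nat_lit 360) (nat_lit 272)) (XT.lf (nat_lit 0) (nat_lit 1095181257) (nat_lit 532) (nat_lit 5131103696) (nat_lit 608) (nat_lit 5756213974) (nat_lit 316) (nat_lit 5) (nat_lit 323)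 (nat_lit 5) (nat_lit 324) (nat_lit 5) (nat_lit 389) (nat_lit 360) (nat_lit 271))) (XT.nd (nat_lit 78) (nat_lit 532) (nat_lit 0) (XT.lf (nat_lit 0) (nat_lit 8366395472) (nat_lit 532) (nat_lit 123760737) (nat_lit 608) (nat_lit 3680739676) (nat_lit 316) (nat_lit 5) (nat_lit 323) (nat_lit 5) (nat_lit 324) (nat_lit 5) (nat_lit 390) (nat_lit 360) (nat_lit 270)) (XT.lf (nat_lit 0) (nat_lit 3485266354) (nat_lit 532) (nat_lit 7396251324) (nat_lit 608) (nat_lit 1481639850) (nat_lit 309) (nat_lit 5) (nat_lit 316) (nat_lit 5) (nat_lit 317) (nat_lit 5) (nat_lit 391) (nat_lit 360) (nat_lit 269)))))) (XT.nd (nat_lit 546) (nat_lit 2052) (nat_lit 0) (XT.nd (nat_lit 234) (nat_lit 988) (nat_lit 0) (XT.nd (nat_lit 78) (nat_lit 988) (nat_lit 0) (XT.lf (nat_lit 0) (nat_lit 786046319) (nat_lit 608) (nat_lit 1522807159) (nat_lit 76) (nat_lit 10251570590) (nat_lit 308) (nat_lit 5) (nat_lit 316) (nat_lit 5) (nat_lit 309) (nat_lit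 5) (nat_lit 392) (nat_lit 360) (nat_lit 268)) (XT.nd (nat_lit 78) (nat_lit 532) (nat_lit 0) (XT.lf (nat_lit 0) (nat_lit 3158337501) (nat_lit 532) (nat_lit 6657588511) (nat_lit 76) (nat_lit 2945251882) (nat_lit 302) (nat_lit 5) (nat_lit 309) (nat_lit 5) (nat_lit 303) (nat_lit 5) (nat_lit 393) (nat_lit 360) (nat_lit 267)) (XT.lf (nat_lit 0) (nat_lit 993911323) (nat_lit 532) (nat_lit 4634711056) (nat_lit 608) (nat_lit 7338527208) (nat_lit 295) (nat_lit 5) (nat_lit 302) (nat_lit 5) (nat_lit 303) (nat_lit 5) (nat_lit 394) (nat_lit 360) (nat_lit 266)))) (XT.nd (nat_lit 156) (nat_lit 532) (nat_lit 0) (XT.nd (nat_lit 78) (nat_lit 456) (nat_lit 0) (XT.lf (nat_lit 0) (nat_lit 8226877925) (nat_lit 608) (nat_lit 4198577730) (nat_lit 76) (nat_lit 752228913) (nat_lit 295) (nat_lit 5) (nat_lit 303) (nat_lit 5) (nat_lit 296) (nat_lit 5) (nat_lit 395) (nat_lit 360) (nat_lit 265)) (XT.lf (nat_lit 0) (nat_lit 3813271028)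 (nat_lit 456) (nat_lit 7152179482) (nat_lit 532) (nat_lit 2427214007) (nat_lit 289) (nat_lit 5) (nat_lit 295) (nat_lit 5) (nat_lit 296) (nat_lit 5) (nat_lit 396) (nat_lit 360) (nat_lit 264))) (XT.nd (nat_lit 78) (nat_lit 456) (nat_lit 0) (XT.lf (nat_lit 0) (nat_lit 191528666) (nat_lit 532) (nat_lit 1488085412) (nat_lit 76) (nat_lit 11933746150) (nat_lit 288) (nat_lit 5) (nat_lit 295) (nat_lit 5) (nat_lit 289) (nat_lit 5) (nat_lit 397) (nat_lit 360) (nat_lit 263)) (XT.lf (nat_lit 0) (nat_lit 2926153548) (nat_lit 532) (nat_lit 6944220764) (nat_lit 76) (nat_lit 3966998410) (nat_lit 282) (nat_lit 5) (nat_lit 289) (nat_lit 5) (nat_lit 283) (nat_lit 5) (nat_lit 398) (nat_lit 360) (nat_lit 262))))) (XT.nd (nat_lit 312) (nat_lit 1140) (nat_lit 0) (XT.nd (nat_lit 156) (nat_lit 532) (nat_lit 0) (XT.nd (nat_lit 78) (nat_lit 0) (nat_lit 0) (XT.lf (nat_lit 0) (nat_lit 1476403640) (nat_lit 380) (nat_lit 4293269626)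 (nat_lit 456) (nat_lit 8297626640) (nat_lit 277) (nat_lit 5) (nat_lit 282) (nat_lit 5) (nat_lit 283) (nat_lit 5) (nat_lit 399) (nat_lit 360) (nat_lit 261)) (XT.lf (nat_lit 0) (nat_lit 8764399548) (nat_lit 456) (nat_lit 4049247695) (nat_lit 76) (nat_lit 1488500635) (nat_lit 277) (nat_lit 5) (nat_lit 283) (nat_lit 5) (nat_lit 278) (nat_lit 5) (nat_lit 400) (nat_lit 360) (nat_lit 260))) (XT.nd (nat_lit 78) (nat_lit 76) (nat_lit 0) (XT.lf (nat_lit 0) (nat_lit 4775465793) (nat_lit 456) (nat_lit 7143597973) (nat_lit 532) (nat_lit 2622874638) (nat_lit 271) (nat_lit 5) (nat_lit 277) (nat_lit 5) (nat_lit 278) (nat_lit 5) (nat_lit 401) (nat_lit 360) (nat_lit 259)) (XT.lf (nat_lit 0) (nat_lit 395147083) (nat_lit 532) (nat_lit 867813455) (nat_lit 76) (nat_lit 13525159499) (nat_lit 270) (nat_lit 5) (nat_lit 277) (nat_lit 5) (nat_lit 271) (nat_lit 5) (nat_lit 402) (nat_lit 360) (nat_lit 258)))) (XT.nd (nat_lit 156)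 (nat_lit 380) (nat_lit 0) (XT.nd (nat_lit 78) (nat_lit 380) (nat_lit 0) (XT.lf (nat_lit 0) (nat_lit 3561289373) (nat_lit 456) (nat_lit 6673393263) (nat_lit 76) (nat_lit 4802916499) (nat_lit 265) (nat_lit 5) (nat_lit 271) (nat_lit 5) (nat_lit 266) (nat_lit 5) (nat_lit 403) (nat_lit 360) (nat_lit 257)) (XT.lf (nat_lit 0) (nat_lit 2611513571) (nat_lit 380) (nat_lit 4239939807) (nat_lit 456) (nat_lit 8442238105) (nat_lit 260) (nat_lit 5) (nat_lit 265) (nat_lit 5) (nat_lit 266) (nat_lit 5) (nat_lit 404) (nat_lit 360) (nat_lit 256))) (XT.nd (nat_lit 78) (nat_lit 380) (nat_lit 0) (XT.lf (nat_lit 0) (nat_lit 10309778320) (nat_lit 456) (nat_lit 3286698248) (nat_lit 76) (nat_lit 1958906353) (nat_lit 260) (nat_lit 5) (nat_lit 266) (nat_lit 5) (nat_lit 261) (nat_lit 5) (nat_lit 405) (nat_lit 360) (nat_lit 255)) (XT.lf (nat_lit 0) (nat_lit 6451495280) (nat_lit 380) (nat_lit 7507657540) (nat_lit 456) (nat_lit 1863153286)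 (nat_lit 255) (nat_lit 5) (nat_lit 260) (nat_lit 5) (nat_lit 261) (nat_lit 5) (nat_lit 406) (nat_lit 360) (nat_lit 254))))))) (XT.nd (nat_lit 1170) (nat_lit 2736) (nat_lit 0) (XT.nd (nat_lit 546) (nat_lit 1596) (nat_lit 0) (XT.nd (nat_lit 234) (nat_lit 760) (nat_lit 0) (XT.nd (nat_lit 78) (nat_lit 304) (nat_lit 0) (XT.lf (nat_lit 0) (nat_lit 422129273) (nat_lit 380) (nat_lit 1187999367) (nat_lit 456) (nat_lit 14486011427) (nat_lit 249) (nat_lit 5) (nat_lit 254) (nat_lit 5) (nat_lit 255) (nat_lit 5) (nat_lit 407) (nat_lit 360) (nat_lit 253)) (XT.nd (nat_lit 78) (nat_lit 304) (nat_lit 0) (XT.lf (nat_lit 0) (nat_lit 5280484070) (nat_lit 456) (nat_lit 5768301402) (nat_lit 76) (nat_lit 5324940486) (nat_lit 249) (nat_lit 5) (nat_lit 255) (nat_lit 5) (nat_lit 250) (nat_lit 5) (nat_lit 408) (nat_lit 360) (nat_lit 252)) (XT.lf (nat_lit 0) (nat_lit 4487702596) (nat_lit 304) (nat_lit 4612233691) (nat_lit 380)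 (nat_lit 7558533555) (nat_lit 245) (nat_lit 5) (nat_lit 249) (nat_lit 5) (nat_lit 250) (nat_lit 5) (nat_lit 409) (nat_lit 360) (nat_lit 251)))) (XT.nd (nat_lit 156) (nat_lit 304) (nat_lit 0) (XT.nd (nat_lit 78) (nat_lit 456) (nat_lit 0) (XT.lf (nat_lit 0) (nat_lit 13096457441) (nat_lit 380) (nat_lit 1823214517) (nat_lit 76) (nat_lit 2030209523) (nat_lit 245) (nat_lit 5) (nat_lit 250) (nat_lit 5) (nat_lit 246) (nat_lit 5) (nat_lit 410) (nat_lit 360) (nat_lit 250)) (XT.lf (nat_lit 0) (nat_lit 81057179) (nat_lit 456) (nat_lit 8305964122) (nat_lit 76) (nat_lit 8859500087) (nat_lit 239) (nat_lit 5) (nat_lit 245) (nat_lit 5) (nat_lit 240) (nat_lit 5) (nat_lit 411) (nat_lit 360) (nat_lit 249))) (XT.nd (nat_lit 78) (nat_lit 0) (nat_lit 0) (XT.lf (nat_lit 0) (nat_lit 2501296031) (nat_lit 304) (nat_lit 1582274324) (nat_lit 380) (nat_lit 13466522130) (nat_lit 235) (nat_lit 5) (nat_lit 239) (nat_lit 5) (nat_lit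 240) (nat_lit 5) (nat_lit 412) (nat_lit 360) (nat_lit 248)) (XT.lf (nat_lit 0) (nat_lit 8327999573) (nat_lit 380) (nat_lit 4132659132) (nat_lit 76) (nat_lit 5398456790) (nat_lit 235) (nat_lit 5) (nat_lit 240) (nat_lit 5) (nat_lit 236) (nat_lit 5) (nat_lit 413) (nat_lit 360) (nat_lit 247))))) (XT.nd (nat_lit 312) (nat_lit 608) (nat_lit 0) (XT.nd (nat_lit 156) (nat_lit 380) (nat_lit 0) (XT.nd (nat_lit 78) (nat_lit 304) (nat_lit 0) (XT.lf (nat_lit 0) (nat_lit 7214278247) (nat_lit 304) (nat_lit 5555907573) (nat_lit 380) (nat_lit 5405110651) (nat_lit 231) (nat_lit 5) (nat_lit 235) (nat_lit 5) (nat_lit 236) (nat_lit 5) (nat_lit 414) (nat_lit 360) (nat_lit 246)) (XT.lf (nat_lit 0) (nat_lit 458257520) (nat_lit 304) (nat_lit 16934445444) (nat_lit 380) (nat_lit 1106847953) (nat_lit 227) (nat_lit 5) (nat_lit 231) (nat_lit 5) (nat_lit 232) (nat_lit 5) (nat_lit 415) (nat_lit 360) (nat_lit 245))) (XT.nd (nat_lit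 78) (nat_lit 304) (nat_lit 0) (XT.lf (nat_lit 0) (nat_lit 3407989167) (nat_lit 380) (nat_lit 6495446647) (nat_lit 76) (nat_lit 8924567099) (nat_lit 226) (nat_lit 5) (nat_lit 231) (nat_lit 5) (nat_lit 227) (nat_lit 5) (nat_lit 416) (nat_lit 360) (nat_lit 244)) (XT.lf (nat_lit 0) (nat_lit 5471207119) (nat_lit 304) (nat_lit 2603458005) (nat_lit 380) (nat_lit 11090155369) (nat_lit 222) (nat_lit 5) (nat_lit 226) (nat_lit 5) (nat_lit 227) (nat_lit 5) (nat_lit 417) (nat_lit 360) (nat_lit 243)))) (XT.nd (nat_lit 156) (nat_lit 380) (nat_lit 0) (XT.nd (nat_lit 78) (nat_lit 228) (nat_lit 0) (XT.lf (nat_lit 0) (nat_lit 12981012394) (nat_lit 380) (nat_lit 1649168609) (nat_lit 76) (nat_lit 4878571466) (nat_lit 222) (nat_lit 5) (nat_lit 227) (nat_lit 5) (nat_lit 223) (nat_lit 5) (nat_lit 418) (nat_lit 360) (nat_lit 242)) (XT.lf (nat_lit 0) (nat_lit 10923103985) (nat_lit 228) (nat_lit 7228804373) (nat_lit 304) (nat_lit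 1707573299) (nat_lit 219) (nat_lit 5) (nat_lit 222) (nat_lit 5) (nat_lit 223) (nat_lit 5) (nat_lit 419) (nat_lit 360) (nat_lit 241))) (XT.nd (nat_lit 78) (nat_lit 0) (nat_lit 0) (XT.lf (nat_lit 0) (nat_lit 3237274282) (nat_lit 380) (nat_lit 16517148668) (nat_lit 76) (nat_lit 464061400) (nat_lit 214) (nat_lit 5) (nat_lit 219) (nat_lit 5) (nat_lit 215) (nat_lit 5) (nat_lit 420) (nat_lit 360) (nat_lit 240)) (XT.lf (nat_lit 0) (nat_lit 8445612487) (nat_lit 380) (nat_lit 3794610907) (nat_lit 76) (nat_lit 8343042560) (nat_lit 214) (nat_lit 5) (nat_lit 219) (nat_lit 5) (nat_lit 215) (nat_lit 5) (nat_lit 421) (nat_lit 360) (nat_lit 239)))))) (XT.nd (nat_lit 624) (nat_lit 1368) (nat_lit 0) (XT.nd (nat_lit 312) (nat_lit 532) (nat_lit 0) (XT.nd (nat_lit 156) (nat_lit 304) (nat_lit 0) (XT.nd (nat_lit 78) (nat_lit 304) (nat_lit 0) (XT.lf (nat_lit 0) (nat_lit 9474032824) (nat_lit 228) (nat_lit 4414383894) (nat_lit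 304) (nat_lit 7068227810) (nat_lit 211) (nat_lit 5) (nat_lit 214) (nat_lit 5) (nat_lit 215) (nat_lit 5) (nat_lit 422) (nat_lit 360) (nat_lit 238)) (XT.lf (nat_lit 0) (nat_lit 1858738510) (nat_lit 304) (nat_lit 17714633967) (nat_lit 380) (nat_lit 1765485960) (nat_lit 207) (nat_lit 5) (nat_lit 211) (nat_lit 5) (nat_lit 212) (nat_lit 5) (nat_lit 423) (nat_lit 360) (nat_lit 237))) (XT.nd (nat_lit 78) (nat_lit 228) (nat_lit 0) (XT.lf (nat_lit 0) (nat_lit 3772319907) (nat_lit 380) (nat_lit 5994335913) (nat_lit 76) (nat_lit 11960373681) (nat_lit 206) (nat_lit 5) (nat_lit 211) (nat_lit 5) (nat_lit 207) (nat_lit 5) (nat_lit 424) (nat_lit 360) (nat_lit 236)) (XT.lf (nat_lit 0) (nat_lit 8014941010) (nat_lit 228) (nat_lit 1490552683) (nat_lit 304) (nat_lit 12618886054) (nat_lit 203) (nat_lit 5) (nat_lit 206) (nat_lit 5) (nat_lit 207) (nat_lit 5) (nat_lit 425) (nat_lit 360) (nat_lit 235)))) (XT.nd (nat_lit 156)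 (nat_lit 304) (nat_lit 0) (XT.nd (nat_lit 78) (nat_lit 228) (nat_lit 0) (XT.lf (nat_lit 0) (nat_lit 15527175440) (nat_lit 304) (nat_lit 52769197) (nat_lit 76) (nat_lit 6950210481) (nat_lit 203) (nat_lit 5) (nat_lit 207) (nat_lit 5) (nat_lit 204) (nat_lit 5) (nat_lit 426) (nat_lit 360) (nat_lit 234)) (XT.lf (nat_lit 0) (nat_lit 14677747473) (nat_lit 228) (nat_lit 7195734725) (nat_lit 304) (nat_lit 1070302315) (nat_lit 200) (nat_lit 5) (nat_lit 203) (nat_lit 5) (nat_lit 204) (nat_lit 5) (nat_lit 427) (nat_lit 360) (nat_lit 233))) (XT.nd (nat_lit 78) (nat_lit 0) (nat_lit 0) (XT.lf (nat_lit 0) (nat_lit 5008459725) (nat_lit 304) (nat_lit 16840613744) (nat_lit 76) (nat_lit 1517301998) (nat_lit 196) (nat_lit 5) (nat_lit 200) (nat_lit 5) (nat_lit 197) (nat_lit 5) (nat_lit 428) (nat_lit 360) (nat_lit 232)) (XT.lf (nat_lit 0) (nat_lit 11391868538) (nat_lit 304) (nat_lit 1970687737) (nat_lit 76) (nat_lit 10434456084)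 (nat_lit 196) (nat_lit 5) (nat_lit 200) (nat_lit 5) (nat_lit 197) (nat_lit 5) (nat_lit 429) (nat_lit 360) (nat_lit 231))))) (XT.nd (nat_lit 312) (nat_lit 608) (nat_lit 0) (XT.nd (nat_lit 156) (nat_lit 228) (nat_lit 0) (XT.nd (nat_lit 78) (nat_lit 304) (nat_lit 0) (XT.lf (nat_lit 0) (nat_lit 13591487524) (nat_lit 228) (nat_lit 4494537725) (nat_lit 304) (nat_lit 6150965738) (nat_lit 193) (nat_lit 5) (nat_lit 196) (nat_lit 5) (nat_lit 197) (nat_lit 5) (nat_lit 430) (nat_lit 360) (nat_lit 230)) (XT.lf (nat_lit 0) (nat_lit 387647369) (nat_lit 304) (nat_lit 19685844347) (nat_lit 76) (nat_lit 4613518839) (nat_lit 189) (nat_lit 5) (nat_lit 193) (nat_lit 5) (nat_lit 190) (nat_lit 5) (nat_lit 431) (nat_lit 360) (nat_lit 229))) (XT.nd (nat_lit 78) (nat_lit 228) (nat_lit 0) (XT.lf (nat_lit 0) (nat_lit 7140564265) (nat_lit 304) (nat_lit 3937494506) (nat_lit 76) (nat_lit 14066391708) (nat_lit 189) (nat_lit 5) (nat_lit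 193) (nat_lit 5) (nat_lit 190) (nat_lit 5) (nat_lit 432) (nat_lit 360) (nat_lit 228)) (XT.lf (nat_lit 0) (nat_lit 12508774010) (nat_lit 228) (nat_lit 1696575757) (nat_lit 304) (nat_lit 11406985401) (nat_lit 186) (nat_lit 5) (nat_lit 189) (nat_lit 5) (nat_lit 190) (nat_lit 5) (nat_lit 433) (nat_lit 360) (nat_lit 227)))) (XT.nd (nat_lit 156) (nat_lit 380) (nat_lit 0) (XT.nd (nat_lit 78) (nat_lit 76) (nat_lit 0) (XT.lf (nat_lit 0) (nat_lit 3406899778) (nat_lit 152) (nat_lit 18213768192) (nat_lit 228) (nat_lit 4469430753) (nat_lit 184) (nat_lit 5) (nat_lit 186) (nat_lit 5) (nat_lit 187) (nat_lit 5) (nat_lit 434) (nat_lit 360) (nat_lit 226)) (XT.lf (nat_lit 0) (nat_lit 2763596108) (nat_lit 228) (nat_lit 5959499163) (nat_lit 76) (nat_lit 17854141075) (nat_lit 183) (nat_lit 5) (nat_lit 186) (nat_lit 5) (nat_lit 184) (nat_lit 5) (nat_lit 435) (nat_lit 360) (nat_lit 225))) (XT.nd (nat_lit 78) (nat_lit 152) (nat_lit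 0) (XT.lf (nat_lit 0) (nat_lit 10234645252) (nat_lit 304) (nat_lit 15659797477) (nat_lit 76) (nat_lit 1179891937) (nat_lit 180) (nat_lit 5) (nat_lit 184) (nat_lit 5) (nat_lit 181) (nat_lit 5) (nat_lit 436) (nat_lit 360) (nat_lit 224)) (XT.lf (nat_lit 0) (nat_lit 1776888004) (nat_lit 152) (nat_lit 16306678827) (nat_lit 228) (nat_lit 9498166876) (nat_lit 178) (nat_lit 5) (nat_lit 180) (nat_lit 5) (nat_lit 181) (nat_lit 5) (nat_lit 437) (nat_lit 360) (nat_lit 223))))))))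
noncomputable def xc147 : XT := (XT.nd (nat_lit 2340) (nat_lit 2128) (nat_lit 0) (XT.nd (nat_lit 1170) (nat_lit 1596) (nat_lit 0) (XT.nd (nat_lit 546) (nat_lit 912) (nat_lit 0) (XT.nd (nat_lit 234) (nat_lit 380) (nat_lit 0) (XT.nd (nat_lit 78) (nat_lit 456) (nat_lit 0) (XT.lf (nat_lit 0) (nat_lit 20039623042) (nat_lit 152) (nat_lit 6276116003) (nat_lit 228) (nat_lit 1784182184) (nat_lit 178) (nat_lit 5) (nat_lit 180) (nat_lit 5) (nat_lit 181) (nat_lit 5) (nat_lit 438) (nat_lit 360) (nat_lit 222)) (XT.nd (nat_lit 78) (nat_lit 152) (nat_lit 0) (XT.lf (nat_lit 0) (nat_lit 6170734505) (nat_lit 304) (nat_lit 18328258852) (nat_lit 76) (nat_lit 4128992055) (nat_lit 174) (nat_lit 5) (nat_lit 178) (nat_lit 5) (nat_lit 175) (nat_lit 5) (nat_lit 439) (nat_lit 360) (nat_lit 221)) (XT.lf (nat_lit 0) (nat_lit 110076049) (nat_lit 152) (nat_lit 14353665274) (nat_lit 228) (nat_lit 14703561154) (nat_lit 172) (nat_lit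 5) (nat_lit 174) (nat_lit 5) (nat_lit 175) (nat_lit 5) (nat_lit 440) (nat_lit 360) (nat_lit 220)))) (XT.nd (nat_lit 156) (nat_lit 152) (nat_lit 0) (XT.nd (nat_lit 78) (nat_lit 228) (nat_lit 0) (XT.lf (nat_lit 0) (nat_lit 19459655099) (nat_lit 152) (nat_lit 3720993336) (nat_lit 228) (nat_lit 6536897315) (nat_lit 172) (nat_lit 5) (nat_lit 174) (nat_lit 5) (nat_lit 175) (nat_lit 5) (nat_lit 441) (nat_lit 360) (nat_lit 219)) (XT.lf (nat_lit 0) (nat_lit 1987822788) (nat_lit 228) (nat_lit 21101255270) (nat_lit 76) (nat_lit 7190188428) (nat_lit 169) (nat_lit 5) (nat_lit 172) (nat_lit 5) (nat_lit 170) (nat_lit 5) (nat_lit 442) (nat_lit 360) (nat_lit 218))) (XT.nd (nat_lit 78) (nat_lit 152) (nat_lit 0) (XT.lf (nat_lit 0) (nat_lit 10768624377) (nat_lit 228) (nat_lit 1567400181) (nat_lit 76) (nat_lit 18515920883) (nat_lit 169) (nat_lit 5) (nat_lit 172) (nat_lit 5) (nat_lit 170) (nat_lit 5) (nat_lit 443) (nat_lit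 360) (nat_lit 217)) (XT.lf (nat_lit 0) (nat_lit 18904524317) (nat_lit 152) (nat_lit 1080604205) (nat_lit 228) (nat_lit 11451507888) (nat_lit 167) (nat_lit 5) (nat_lit 169) (nat_lit 5) (nat_lit 170) (nat_lit 5) (nat_lit 444) (nat_lit 360) (nat_lit 216))))) (XT.nd (nat_lit 312) (nat_lit 380) (nat_lit 0) (XT.nd (nat_lit 156) (nat_lit 304) (nat_lit 0) (XT.nd (nat_lit 78) (nat_lit 76) (nat_lit 0) (XT.lf (nat_lit 0) (nat_lit 8022802409) (nat_lit 152) (nat_lit 21640082989) (nat_lit 228) (nat_lit 2370439980) (nat_lit 165) (nat_lit 5) (nat_lit 167) (nat_lit 5) (nat_lit 168) (nat_lit 5) (nat_lit 445) (nat_lit 360) (nat_lit 215)) (XT.lf (nat_lit 0) (nat_lit 6975918955) (nat_lit 228) (nat_lit 3288842442) (nat_lit 76) (nat_lit 22377266146) (nat_lit 164) (nat_lit 5) (nat_lit 167) (nat_lit 5) (nat_lit 165) (nat_lit 5) (nat_lit 446) (nat_lit 360) (nat_lit 214))) (XT.nd (nat_lit 78) (nat_lit 152) (nat_lit 0) (XT.lf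 (nat_lit 0) (nat_lit 16738400488) (nat_lit 228) (nat_lit 14905997595) (nat_lit 76) (nat_lit 1618387339) (nat_lit 162) (nat_lit 5) (nat_lit 165) (nat_lit 5) (nat_lit 163) (nat_lit 5) (nat_lit 447) (nat_lit 360) (nat_lit 213)) (XT.lf (nat_lit 0) (nat_lit 6832957250) (nat_lit 152) (nat_lit 20152586970) (nat_lit 228) (nat_lit 6910868185) (nat_lit 160) (nat_lit 5) (nat_lit 162) (nat_lit 5) (nat_lit 163) (nat_lit 5) (nat_lit 448) (nat_lit 360) (nat_lit 212)))) (XT.nd (nat_lit 156) (nat_lit 152) (nat_lit 0) (XT.nd (nat_lit 78) (nat_lit 152) (nat_lit 0) (XT.lf (nat_lit 0) (nat_lit 3075652438) (nat_lit 228) (nat_lit 5061607951) (nat_lit 76) (nat_lit 26406636315) (nat_lit 159) (nat_lit 5) (nat_lit 162) (nat_lit 5) (nat_lit 160) (nat_lit 5) (nat_lit 449) (nat_lit 360) (nat_lit 211)) (XT.lf (nat_lit 0) (nat_lit 13428859538) (nat_lit 228) (nat_lit 17382438295) (nat_lit 76) (nat_lit 4391275192) (nat_lit 157) (nat_lit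 5) (nat_lit 160) (nat_lit 5) (nat_lit 158) (nat_lit 5) (nat_lit 450) (nat_lit 360) (nat_lit 210))) (XT.nd (nat_lit 78) (nat_lit 0) (nat_lit 0) (XT.lf (nat_lit 0) (nat_lit 5625280549) (nat_lit 152) (nat_lit 18644892532) (nat_lit 228) (nat_lit 11605511247) (nat_lit 155) (nat_lit 5) (nat_lit 157) (nat_lit 5) (nat_lit 158) (nat_lit 5) (nat_lit 451) (nat_lit 360) (nat_lit 209)) (XT.lf (nat_lit 0) (nat_lit 29663683669) (nat_lit 152) (nat_lit 5939924449) (nat_lit 228) (nat_lit 960374391) (nat_lit 155) (nat_lit 5) (nat_lit 157) (nat_lit 5) (nat_lit 158) (nat_lit 5) (nat_lit 452) (nat_lit 360) (nat_lit 208)))))) (XT.nd (nat_lit 546) (nat_lit 760) (nat_lit 0) (XT.nd (nat_lit 234) (nat_lit 456) (nat_lit 0) (XT.nd (nat_lit 78) (nat_lit 152) (nat_lit 0) (XT.lf (nat_lit 0) (nat_lit 10038698641) (nat_lit 228) (nat_lit 19958851303) (nat_lit 76) (nat_lit 7265600766) (nat_lit 152) (nat_lit 5) (nat_lit 155) (nat_lit 5)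 (nat_lit 153) (nat_lit 5) (nat_lit 453) (nat_lit 360) (nat_lit 207)) (XT.nd (nat_lit 78) (nat_lit 0) (nat_lit 0) (XT.lf (nat_lit 0) (nat_lit 4396454714) (nat_lit 152) (nat_lit 17114981712) (nat_lit 228) (nat_lit 16466682420) (nat_lit 150) (nat_lit 5) (nat_lit 152) (nat_lit 5) (nat_lit 153) (nat_lit 5) (nat_lit 454) (nat_lit 360) (nat_lit 206)) (XT.lf (nat_lit 0) (nat_lit 29876102156) (nat_lit 152) (nat_lit 3645450120) (nat_lit 228) (nat_lit 5187187870) (nat_lit 150) (nat_lit 5) (nat_lit 152) (nat_lit 5) (nat_lit 153) (nat_lit 5) (nat_lit 455) (nat_lit 360) (nat_lit 205)))) (XT.nd (nat_lit 156) (nat_lit 152) (nat_lit 0) (XT.nd (nat_lit 78) (nat_lit 152) (nat_lit 0) (XT.lf (nat_lit 0) (nat_lit 6560060477) (nat_lit 152) (nat_lit 22643380493) (nat_lit 76) (nat_lit 10248338996) (nat_lit 148) (nat_lit 5) (nat_lit 150) (nat_lit 5) (nat_lit 149) (nat_lit 5) (nat_lit 456) (nat_lit 360) (nat_lit 204)) (XT.lf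 (nat_lit 0) (nat_lit 3143096531) (nat_lit 152) (nat_lit 15560595836) (nat_lit 228) (nat_lit 21507431161) (nat_lit 146) (nat_lit 5) (nat_lit 148) (nat_lit 5) (nat_lit 149) (nat_lit 5) (nat_lit 457) (nat_lit 360) (nat_lit 203))) (XT.nd (nat_lit 78) (nat_lit 152) (nat_lit 0) (XT.lf (nat_lit 0) (nat_lit 30152289017) (nat_lit 152) (nat_lit 1279932033) (nat_lit 228) (nat_lit 9554408713) (nat_lit 146) (nat_lit 5) (nat_lit 148) (nat_lit 5) (nat_lit 149) (nat_lit 5) (nat_lit 458) (nat_lit 360) (nat_lit 202)) (XT.lf (nat_lit 0) (nat_lit 2984630978) (nat_lit 152) (nat_lit 25444541742) (nat_lit 76) (nat_lit 13346996460) (nat_lit 144) (nat_lit 5) (nat_lit 146) (nat_lit 5) (nat_lit 145) (nat_lit 5) (nat_lit 459) (nat_lit 360) (nat_lit 201))))) (XT.nd (nat_lit 312) (nat_lit 304) (nat_lit 0) (XT.nd (nat_lit 156) (nat_lit 304) (nat_lit 0) (XT.nd (nat_lit 78) (nat_lit 0) (nat_lit 0) (XT.lf (nat_lit 0) (nat_lit 1861741236)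 (nat_lit 152) (nat_lit 13979239990) (nat_lit 228) (nat_lit 26741580404) (nat_lit 142) (nat_lit 5) (nat_lit 144) (nat_lit 5) (nat_lit 145) (nat_lit 5) (nat_lit 460) (nat_lit 360) (nat_lit 200)) (XT.lf (nat_lit 0) (nat_lit 29343336488) (nat_lit 228) (nat_lit 12922684945) (nat_lit 76) (nat_lit 1139314986) (nat_lit 142) (nat_lit 5) (nat_lit 145) (nat_lit 5) (nat_lit 143) (nat_lit 4) (nat_lit 461) (nat_lit 360) (nat_lit 199))) (XT.nd (nat_lit 78) (nat_lit 228) (nat_lit 0) (XT.lf (nat_lit 0) (nat_lit 15866212072) (nat_lit 76) (nat_lit 27667842283) (nat_lit 152) (nat_lit 710241338) (nat_lit 141) (nat_lit 5) (nat_lit 142) (nat_lit 5) (nat_lit 143) (nat_lit 4) (nat_lit 462) (nat_lit 360) (nat_lit 198)) (XT.lf (nat_lit 0) (nat_lit 548826839) (nat_lit 152) (nat_lit 12368185452) (nat_lit 228) (nat_lit 32183767203) (nat_lit 138) (nat_lit 5) (nat_lit 140) (nat_lit 5) (nat_lit 141) (nat_lit 5) (nat_lit 463) (nat_lit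 360) (nat_lit 197)))) (XT.nd (nat_lit 156) (nat_lit 228) (nat_lit 0) (XT.nd (nat_lit 78) (nat_lit 76) (nat_lit 0) (XT.lf (nat_lit 0) (nat_lit 27253198865) (nat_lit 228) (nat_lit 15105966217) (nat_lit 76) (nat_lit 3614150048) (nat_lit 138) (nat_lit 5) (nat_lit 141) (nat_lit 5) (nat_lit 139) (nat_lit 4) (nat_lit 464) (nat_lit 360) (nat_lit 196)) (XT.lf (nat_lit 0) (nat_lit 15387209926) (nat_lit 76) (nat_lit 26895250093) (nat_lit 152) (nat_lit 4581677149) (nat_lit 137) (nat_lit 5) (nat_lit 138) (nat_lit 5) (nat_lit 139) (nat_lit 4) (nat_lit 465) (nat_lit 360) (nat_lit 195))) (XT.nd (nat_lit 78) (nat_lit 152) (nat_lit 0) (XT.lf (nat_lit 0) (nat_lit 9932832403) (nat_lit 152) (nat_lit 783723753) (nat_lit 76) (nat_lit 37057849003) (nat_lit 136) (nat_lit 5) (nat_lit 138) (nat_lit 5) (nat_lit 137) (nat_lit 5) (nat_lit 466) (nat_lit 360) (nat_lit 194)) (XT.lf (nat_lit 0) (nat_lit 25145759415) (nat_lit 228) (nat_lit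 17378601632) (nat_lit 76) (nat_lit 6175607169) (nat_lit 134) (nat_lit 5) (nat_lit 137) (nat_lit 5) (nat_lit 135) (nat_lit 4) (nat_lit 467) (nat_lit 360) (nat_lit 193))))))) (XT.nd (nat_lit 1170) (nat_lit 684) (nat_lit 0) (XT.nd (nat_lit 546) (nat_lit 760) (nat_lit 0) (XT.nd (nat_lit 234) (nat_lit 380) (nat_lit 0) (XT.nd (nat_lit 78) (nat_lit 228) (nat_lit 0) (XT.lf (nat_lit 0) (nat_lit 14924041578) (nat_lit 76) (nat_lit 26141450853) (nat_lit 152) (nat_lit 8580293188) (nat_lit 133) (nat_lit 5) (nat_lit 134) (nat_lit 5) (nat_lit 135) (nat_lit 4) (nat_lit 468) (nat_lit 360) (nat_lit 192)) (XT.nd (nat_lit 78) (nat_lit 152) (nat_lit 0) (XT.lf (nat_lit 0) (nat_lit 6879409431) (nat_lit 152) (nat_lit 2143839806) (nat_lit 76) (nat_lit 41589652040) (nat_lit 132) (nat_lit 5) (nat_lit 134) (nat_lit 5) (nat_lit 133) (nat_lit 5) (nat_lit 469) (nat_lit 360) (nat_lit 191)) (XT.lf (nat_lit 0) (nat_lit 23017088677) (nat_lit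 228) (nat_lit 19747630727) (nat_lit 76) (nat_lit 8830163171) (nat_lit 130) (nat_lit 5) (nat_lit 133) (nat_lit 5) (nat_lit 131) (nat_lit 4) (nat_lit 470) (nat_lit 360) (nat_lit 190)))) (XT.nd (nat_lit 156) (nat_lit 228) (nat_lit 0) (XT.nd (nat_lit 78) (nat_lit 76) (nat_lit 0) (XT.lf (nat_lit 0) (nat_lit 14476035950) (nat_lit 76) (nat_lit 25406310881) (nat_lit 152) (nat_lit 12716673025) (nat_lit 129) (nat_lit 5) (nat_lit 130) (nat_lit 5) (nat_lit 131) (nat_lit 4) (nat_lit 471) (nat_lit 360) (nat_lit 189)) (XT.lf (nat_lit 0) (nat_lit 3744124964) (nat_lit 152) (nat_lit 3546100645) (nat_lit 76) (nat_lit 46336176989) (nat_lit 128) (nat_lit 5) (nat_lit 130) (nat_lit 5) (nat_lit 129) (nat_lit 5) (nat_lit 472) (nat_lit 360) (nat_lit 188))) (XT.nd (nat_lit 78) (nat_lit 76) (nat_lit 0) (XT.lf (nat_lit 0) (nat_lit 20863065101) (nat_lit 228) (nat_lit 22220438659) (nat_lit 76) (nat_lit 11584728510) (nat_lit 126)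 (nat_lit 5) (nat_lit 129) (nat_lit 5) (nat_lit 127) (nat_lit 4) (nat_lit 473) (nat_lit 360) (nat_lit 187)) (XT.lf (nat_lit 0) (nat_lit 14042564918) (nat_lit 76) (nat_lit 24689654253) (nat_lit 152) (nat_lit 17001998289) (nat_lit 125) (nat_lit 5) (nat_lit 126) (nat_lit 5) (nat_lit 127) (nat_lit 4) (nat_lit 474) (nat_lit 360) (nat_lit 186))))) (XT.nd (nat_lit 312) (nat_lit 456) (nat_lit 0) (XT.nd (nat_lit 156) (nat_lit 76) (nat_lit 0) (XT.nd (nat_lit 78) (nat_lit 152) (nat_lit 0) (XT.lf (nat_lit 0) (nat_lit 519236309) (nat_lit 152) (nat_lit 4994532403) (nat_lit 76) (nat_lit 51311727638) (nat_lit 124) (nat_lit 5) (nat_lit 126) (nat_lit 5) (nat_lit 125) (nat_lit 5) (nat_lit 475) (nat_lit 360) (nat_lit 185)) (XT.lf (nat_lit 0) (nat_lit 18679366047) (nat_lit 228) (nat_lit 24804783748) (nat_lit 76) (nat_lit 14446664270) (nat_lit 122) (nat_lit 5) (nat_lit 125) (nat_lit 5) (nat_lit 123) (nat_lit 4) (nat_lit 476)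 (nat_lit 360) (nat_lit 184))) (XT.nd (nat_lit 78) (nat_lit 0) (nat_lit 0) (XT.lf (nat_lit 0) (nat_lit 13623039449) (nat_lit 76) (nat_lit 23991269188) (nat_lit 152) (nat_lit 21448082406) (nat_lit 121) (nat_lit 5) (nat_lit 122) (nat_lit 5) (nat_lit 123) (nat_lit 4) (nat_lit 477) (nat_lit 360) (nat_lit 183)) (XT.lf (nat_lit 0) (nat_lit 53699775157) (nat_lit 76) (nat_lit 3661603181) (nat_lit 152) (nat_lit 2859214626) (nat_lit 121) (nat_lit 5) (nat_lit 122) (nat_lit 5) (nat_lit 123) (nat_lit 4) (nat_lit 478) (nat_lit 360) (nat_lit 182)))) (XT.nd (nat_lit 156) (nat_lit 152) (nat_lit 0) (XT.nd (nat_lit 78) (nat_lit 76) (nat_lit 0) (XT.lf (nat_lit 0) (nat_lit 16461457707) (nat_lit 228) (nat_lit 27508826058) (nat_lit 76) (nat_lit 17423801385) (nat_lit 118) (nat_lit 5) (nat_lit 121) (nat_lit 5) (nat_lit 119) (nat_lit 4) (nat_lit 479) (nat_lit 360) (nat_lit 181)) (XT.lf (nat_lit 0) (nat_lit 13216906142) (nat_lit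 76) (nat_lit 23310913651) (nat_lit 152) (nat_lit 26067406927) (nat_lit 117) (nat_lit 5) (nat_lit 118) (nat_lit 5) (nat_lit 119) (nat_lit 4) (nat_lit 480) (nat_lit 360) (nat_lit 180))) (XT.nd (nat_lit 78) (nat_lit 152) (nat_lit 0) (XT.lf (nat_lit 0) (nat_lit 55716262809) (nat_lit 76) (nat_lit 1751496819) (nat_lit 152) (nat_lit 6356495303) (nat_lit 117) (nat_lit 5) (nat_lit 118) (nat_lit 5) (nat_lit 119) (nat_lit 4) (nat_lit 481) (nat_lit 360) (nat_lit 179)) (XT.lf (nat_lit 0) (nat_lit 14204583944) (nat_lit 152) (nat_lit 30341157137) (nat_lit 76) (nat_lit 20524462098) (nat_lit 115) (nat_lit 5) (nat_lit 117) (nat_lit 5) (nat_lit 116) (nat_lit 4) (nat_lit 482) (nat_lit 360) (nat_lit 178)))))) (XT.nd (nat_lit 624) (nat_lit 152) (nat_lit 0) (XT.nd (nat_lit 312) (nat_lit 228) (nat_lit 0) (XT.nd (nat_lit 156) (nat_lit 228) (nat_lit 0) (XT.nd (nat_lit 78) (nat_lit 0) (nat_lit 0) (XT.lf (nat_lit 0) (nat_lit 12823644133)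 (nat_lit 76) (nat_lit 22648320305) (nat_lit 152) (nat_lit 30873160525) (nat_lit 114) (nat_lit 5) (nat_lit 115) (nat_lit 5) (nat_lit 116) (nat_lit 4) (nat_lit 483) (nat_lit 360) (nat_lit 177)) (XT.lf (nat_lit 0) (nat_lit 57679824316) (nat_lit 152) (nat_lit 9757719941) (nat_lit 0) (nat_lit 211676404) (nat_lit 114) (nat_lit 5) (nat_lit 116) (nat_lit 4) (nat_lit 114) (nat_lit 4) (nat_lit 484) (nat_lit 360) (nat_lit 176))) (XT.nd (nat_lit 78) (nat_lit 76) (nat_lit 0) (XT.lf (nat_lit 0) (nat_lit 11903754047) (nat_lit 152) (nat_lit 33310831062) (nat_lit 76) (nat_lit 23757483658) (nat_lit 112) (nat_lit 5) (nat_lit 114) (nat_lit 5) (nat_lit 113) (nat_lit 4) (nat_lit 485) (nat_lit 360) (nat_lit 175)) (XT.lf (nat_lit 0) (nat_lit 12442762314) (nat_lit 76) (nat_lit 22003200850) (nat_lit 152) (nat_lit 35879280768) (nat_lit 111) (nat_lit 5) (nat_lit 112) (nat_lit 5) (nat_lit 113) (nat_lit 4) (nat_lit 486) (nat_lit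 360) (nat_lit 174)))) (XT.nd (nat_lit 156) (nat_lit 76) (nat_lit 0) (XT.nd (nat_lit 78) (nat_lit 152) (nat_lit 0) (XT.lf (nat_lit 0) (nat_lit 58016581055) (nat_lit 152) (nat_lit 11490266129) (nat_lit 0) (nat_lit 2201602894) (nat_lit 111) (nat_lit 5) (nat_lit 113) (nat_lit 4) (nat_lit 111) (nat_lit 4) (nat_lit 487) (nat_lit 360) (nat_lit 173)) (XT.lf (nat_lit 0) (nat_lit 9553729378) (nat_lit 152) (nat_lit 36427396912) (nat_lit 76) (nat_lit 27132244287) (nat_lit 109) (nat_lit 5) (nat_lit 111) (nat_lit 5) (nat_lit 110) (nat_lit 4) (nat_lit 488) (nat_lit 360) (nat_lit 172))) (XT.nd (nat_lit 78) (nat_lit 0) (nat_lit 0) (XT.lf (nat_lit 0) (nat_lit 12073796840) (nat_lit 76) (nat_lit 21375249845) (nat_lit 152) (nat_lit 41100498796) (nat_lit 108) (nat_lit 5) (nat_lit 109) (nat_lit 5) (nat_lit 110) (nat_lit 4) (nat_lit 489) (nat_lit 360) (nat_lit 171)) (XT.lf (nat_lit 0) (nat_lit 58465173936) (nat_lit 152) (nat_lit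 13293994396) (nat_lit 0) (nat_lit 4257518786) (nat_lit 108) (nat_lit 5) (nat_lit 110) (nat_lit 4) (nat_lit 108) (nat_lit 4) (nat_lit 490) (nat_lit 360) (nat_lit 170))))) (XT.nd (nat_lit 43212) (nat_lit 0) (nat_lit 22952) (XT.nd (nat_lit 43056) (nat_lit 0) (nat_lit 23940) (XT.nd (nat_lit 42978) (nat_lit 0) (nat_lit 23940) (XT.lf (nat_lit 0) (nat_lit 7149008903) (nat_lit 152) (nat_lit 39700932816) (nat_lit 76) (nat_lit 30658691466) (nat_lit 106) (nat_lit 5) (nat_lit 108) (nat_lit 5) (nat_lit 107) (nat_lit 4) (nat_lit 491) (nat_lit 360) (nat_lit 169)) (XT.lf (nat_lit 0) (nat_lit 781124108) (nat_lit 0) (nat_lit 781124108) (nat_lit 988) (nat_lit 2593852952) (nat_lit 421) (nat_lit 5) (nat_lit 421) (nat_lit 3) (nat_lit 434) (nat_lit 3) (nat_lit 361) (nat_lit 361) (nat_lit 298))) (XT.nd (nat_lit 78) (nat_lit 0) (nat_lit 0) (XT.lf (nat_lit 0) (nat_lit 4286784878) (nat_lit 988) (nat_lit 2597846716) (nat_lit 1064)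 (nat_lit 1518791146) (nat_lit 421) (nat_lit 5) (nat_lit 434) (nat_lit 3) (nat_lit 435) (nat_lit 5) (nat_lit 362) (nat_lit 361) (nat_lit 297)) (XT.lf (nat_lit 76) (nat_lit 1673032726) (nat_lit 0) (nat_lit 3799715061) (nat_lit 1064) (nat_lit 3024967797) (nat_lit 422) (nat_lit 5) (nat_lit 421) (nat_lit 5) (nat_lit 435) (nat_lit 5) (nat_lit 363) (nat_lit 361) (nat_lit 296)))) (XT.nd (nat_lit 156) (nat_lit 988) (nat_lit 0) (XT.nd (nat_lit 78) (nat_lit 0) (nat_lit 76) (XT.lf (nat_lit 76) (nat_lit 6102546786) (nat_lit 0) (nat_lit 576258083) (nat_lit 1064) (nat_lit 1916496884) (nat_lit 422) (nat_lit 5) (nat_lit 421) (nat_lit 5) (nat_lit 435) (nat_lit 5) (nat_lit 364) (nat_lit 361) (nat_lit 295)) (XT.lf (nat_lit 76) (nat_lit 1957477374) (nat_lit 0) (nat_lit 5968433107) (nat_lit 1064) (nat_lit 769759022) (nat_lit 423) (nat_lit 5) (nat_lit 422) (nat_lit 5) (nat_lit 436) (nat_lit 5) (nat_lit 365) (nat_lit 361)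 (nat_lit 294))) (XT.nd (nat_lit 78) (nat_lit 0) (nat_lit 76) (XT.lf (nat_lit 0) (nat_lit 394715666) (nat_lit 1064) (nat_lit 2239922600) (nat_lit 1140) (nat_lit 6164550520) (nat_lit 408) (nat_lit 5) (nat_lit 422) (nat_lit 5) (nat_lit 423) (nat_lit 5) (nat_lit 366) (nat_lit 361) (nat_lit 293)) (XT.lf (nat_lit 0) (nat_lit 1571340758) (nat_lit 1064) (nat_lit 6504829188) (nat_lit 1140) (nat_lit 829634433) (nat_lit 409) (nat_lit 5) (nat_lit 423) (nat_lit 5) (nat_lit 424) (nat_lit 5) (nat_lit 367) (nat_lit 361) (nat_lit 292))))))))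
noncomputable def xc148 : XT := (XT.nd (nat_lit 2340) (nat_lit 6764) (nat_lit 0) (XT.nd (nat_lit 1170) (nat_lit 5016) (nat_lit 0) (XT.nd (nat_lit 546) (nat_lit 3116) (nat_lit 0) (XT.nd (nat_lit 234) (nat_lit 988) (nat_lit 0) (XT.nd (nat_lit 78) (nat_lit 0) (nat_lit 0) (XT.lf (nat_lit 0) (nat_lit 2794629267) (nat_lit 1064) (nat_lit 1838611781) (nat_lit 1140) (nat_lit 4382036452) (nat_lit 409) (nat_lit 5) (nat_lit 423) (nat_lit 5) (nat_lit 424) (nat_lit 5) (nat_lit 368) (nat_lit 361) (nat_lit 291)) (XT.nd (nat_lit 78) (nat_lit 0) (nat_lit 76) (XT.lf (nat_lit 76) (nat_lit 3002513489) (nat_lit 0) (nat_lit 1044495387) (nat_lit 1140) (nat_lit 5081254166) (nat_lit 410) (nat_lit 5) (nat_lit 409) (nat_lit 5) (nat_lit 424) (nat_lit 5) (nat_lit 369) (nat_lit 361) (nat_lit 290)) (XT.lf (nat_lit 0) (nat_lit 5345686499) (nat_lit 1064) (nat_lit 1267817215) (nat_lit 1140) (nat_lit 2630872637) (nat_lit 410) (nat_lit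 5) (nat_lit 424) (nat_lit 5) (nat_lit 425) (nat_lit 5) (nat_lit 370) (nat_lit 361) (nat_lit 289)))) (XT.nd (nat_lit 156) (nat_lit 1064) (nat_lit 0) (XT.nd (nat_lit 78) (nat_lit 0) (nat_lit 76) (XT.lf (nat_lit 76) (nat_lit 3775275256) (nat_lit 0) (nat_lit 2920200035) (nat_lit 1140) (nat_lit 2668133243) (nat_lit 411) (nat_lit 5) (nat_lit 410) (nat_lit 5) (nat_lit 425) (nat_lit 5) (nat_lit 371) (nat_lit 361) (nat_lit 288)) (XT.lf (nat_lit 0) (nat_lit 8073575837) (nat_lit 1064) (nat_lit 523786186) (nat_lit 1140) (nat_lit 889421118) (nat_lit 411) (nat_lit 5) (nat_lit 425) (nat_lit 5) (nat_lit 426) (nat_lit 5) (nat_lit 372) (nat_lit 361) (nat_lit 287))) (XT.nd (nat_lit 78) (nat_lit 1140) (nat_lit 0) (XT.lf (nat_lit 76) (nat_lit 4732067114) (nat_lit 0) (nat_lit 4802723796) (nat_lit 1140) (nat_lit 77608929) (nat_lit 412) (nat_lit 5) (nat_lit 411) (nat_lit 5) (nat_lit 426) (nat_lit 5) (nat_lit 373) (nat_lit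 361) (nat_lit 286)) (XT.lf (nat_lit 76) (nat_lit 385231452) (nat_lit 0) (nat_lit 864317403) (nat_lit 1216) (nat_lit 8492557215) (nat_lit 397) (nat_lit 5) (nat_lit 396) (nat_lit 5) (nat_lit 412) (nat_lit 5) (nat_lit 374) (nat_lit 361) (nat_lit 285))))) (XT.nd (nat_lit 312) (nat_lit 2128) (nat_lit 0) (XT.nd (nat_lit 156) (nat_lit 1064) (nat_lit 0) (XT.nd (nat_lit 78) (nat_lit 0) (nat_lit 0) (XT.lf (nat_lit 0) (nat_lit 2663969418) (nat_lit 1140) (nat_lit 4022600853) (nat_lit 1216) (nat_lit 3187639927) (nat_lit 397) (nat_lit 5) (nat_lit 412) (nat_lit 5) (nat_lit 413) (nat_lit 5) (nat_lit 375) (nat_lit 361) (nat_lit 284)) (XT.lf (nat_lit 76) (nat_lit 1467272092) (nat_lit 0) (nat_lit 2645680769) (nat_lit 1216) (nat_lit 5897560681) (nat_lit 398) (nat_lit 5) (nat_lit 397) (nat_lit 5) (nat_lit 413) (nat_lit 5) (nat_lit 376) (nat_lit 361) (nat_lit 283))) (XT.nd (nat_lit 78) (nat_lit 1140) (nat_lit 0) (XT.lf (nat_lit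 0) (nat_lit 5631183622) (nat_lit 1140) (nat_lit 2985579052) (nat_lit 76) (nat_lit 1533369980) (nat_lit 398) (nat_lit 5) (nat_lit 413) (nat_lit 5) (nat_lit 399) (nat_lit 5) (nat_lit 377) (nat_lit 361) (nat_lit 282)) (XT.lf (nat_lit 0) (nat_lit 2741638783) (nat_lit 1140) (nat_lit 4476918624) (nat_lit 1216) (nat_lit 3074675047) (nat_lit 383) (nat_lit 5) (nat_lit 398) (nat_lit 5) (nat_lit 399) (nat_lit 5) (nat_lit 378) (nat_lit 361) (nat_lit 281)))) (XT.nd (nat_lit 156) (nat_lit 836) (nat_lit 0) (XT.nd (nat_lit 78) (nat_lit 1292) (nat_lit 0) (XT.lf (nat_lit 0) (nat_lit 8677635760) (nat_lit 1140) (nat_lit 177722371) (nat_lit 1216) (nat_lit 1585212946) (nat_lit 383) (nat_lit 5) (nat_lit 398) (nat_lit 5) (nat_lit 399) (nat_lit 5) (nat_lit 379) (nat_lit 361) (nat_lit 280)) (XT.lf (nat_lit 0) (nat_lit 4372917) (nat_lit 1292) (nat_lit 6374349989) (nat_lit 76) (nat_lit 4211988377) (nat_lit 366) (nat_lit 5) (nat_lit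 383) (nat_lit 5) (nat_lit 367) (nat_lit 5) (nat_lit 380) (nat_lit 361) (nat_lit 279))) (XT.nd (nat_lit 78) (nat_lit 836) (nat_lit 0) (XT.lf (nat_lit 0) (nat_lit 1602345968) (nat_lit 1292) (nat_lit 375975810) (nat_lit 76) (nat_lit 8766786237) (nat_lit 366) (nat_lit 5) (nat_lit 383) (nat_lit 5) (nat_lit 367) (nat_lit 5) (nat_lit 381) (nat_lit 361) (nat_lit 278)) (XT.lf (nat_lit 0) (nat_lit 3303658741) (nat_lit 912) (nat_lit 5034992720) (nat_lit 76) (nat_lit 2563823174) (nat_lit 355) (nat_lit 5) (nat_lit 367) (nat_lit 5) (nat_lit 356) (nat_lit 5) (nat_lit 382) (nat_lit 361) (nat_lit 277)))))) (XT.nd (nat_lit 546) (nat_lit 2584) (nat_lit 0) (XT.nd (nat_lit 234) (nat_lit 1216) (nat_lit 0) (XT.nd (nat_lit 78) (nat_lit 608) (nat_lit 0) (XT.lf (nat_lit 0) (nat_lit 1221167117) (nat_lit 608) (nat_lit 3844178729) (nat_lit 684) (nat_lit 5998936357) (nat_lit 347) (nat_lit 5) (nat_lit 355) (nat_lit 5) (nat_lit 356)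 (nat_lit 5) (nat_lit 383) (nat_lit 361) (nat_lit 276)) (XT.nd (nat_lit 78) (nat_lit 608) (nat_lit 0) (XT.lf (nat_lit 0) (nat_lit 6913480745) (nat_lit 684) (nat_lit 3494312835) (nat_lit 76) (nat_lit 822142503) (nat_lit 347) (nat_lit 5) (nat_lit 356) (nat_lit 5) (nat_lit 348) (nat_lit 5) (nat_lit 384) (nat_lit 361) (nat_lit 275)) (XT.lf (nat_lit 0) (nat_lit 3041913350) (nat_lit 608) (nat_lit 5817888145) (nat_lit 684) (nat_lit 2539475831) (nat_lit 339) (nat_lit 5) (nat_lit 347) (nat_lit 5) (nat_lit 348) (nat_lit 5) (nat_lit 385) (nat_lit 361) (nat_lit 274)))) (XT.nd (nat_lit 156) (nat_lit 608) (nat_lit 0) (XT.nd (nat_lit 78) (nat_lit 608) (nat_lit 0) (XT.lf (nat_lit 0) (nat_lit 9821757269) (nat_lit 608) (nat_lit 1053963889) (nat_lit 684) (nat_lit 697641368) (nat_lit 339) (nat_lit 5) (nat_lit 347) (nat_lit 5) (nat_lit 348) (nat_lit 5) (nat_lit 386) (nat_lit 361) (nat_lit 273)) (XT.lf (nat_lit 0) (nat_lit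 1239256420) (nat_lit 608) (nat_lit 6672415699) (nat_lit 76) (nat_lit 3838755854) (nat_lit 331) (nat_lit 5) (nat_lit 339) (nat_lit 5) (nat_lit 332) (nat_lit 5) (nat_lit 387) (nat_lit 361) (nat_lit 272))) (XT.nd (nat_lit 78) (nat_lit 0) (nat_lit 0) (XT.lf (nat_lit 0) (nat_lit 177778457) (nat_lit 608) (nat_lit 3049317010) (nat_lit 684) (nat_lit 8705297009) (nat_lit 323) (nat_lit 5) (nat_lit 331) (nat_lit 5) (nat_lit 332) (nat_lit 5) (nat_lit 388) (nat_lit 361) (nat_lit 271)) (XT.lf (nat_lit 0) (nat_lit 5338724020) (nat_lit 684) (nat_lit 4791787705) (nat_lit 76) (nat_lit 1987379560) (nat_lit 323) (nat_lit 5) (nat_lit 332) (nat_lit 5) (nat_lit 324) (nat_lit 5) (nat_lit 389) (nat_lit 361) (nat_lit 270))))) (XT.nd (nat_lit 312) (nat_lit 1444) (nat_lit 0) (XT.nd (nat_lit 156) (nat_lit 608) (nat_lit 0) (XT.nd (nat_lit 78) (nat_lit 0) (nat_lit 0) (XT.lf (nat_lit 0) (nat_lit 2371986868) (nat_lit 532) (nat_lit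 5172647269) (nat_lit 608) (nat_lit 4763392939) (nat_lit 316) (nat_lit 5) (nat_lit 323) (nat_lit 5) (nat_lit 324) (nat_lit 5) (nat_lit 390) (nat_lit 361) (nat_lit 269)) (XT.lf (nat_lit 0) (nat_lit 9825105951) (nat_lit 532) (nat_lit 18357503) (nat_lit 608) (nat_lit 2659601231) (nat_lit 316) (nat_lit 5) (nat_lit 323) (nat_lit 5) (nat_lit 324) (nat_lit 5) (nat_lit 391) (nat_lit 361) (nat_lit 268))) (XT.nd (nat_lit 78) (nat_lit 76) (nat_lit 0) (XT.lf (nat_lit 0) (nat_lit 4817298933) (nat_lit 532) (nat_lit 7470086279) (nat_lit 608) (nat_lit 414284383) (nat_lit 309) (nat_lit 5) (nat_lit 316) (nat_lit 5) (nat_lit 317) (nat_lit 5) (nat_lit 392) (nat_lit 361) (nat_lit 267)) (XT.lf (nat_lit 0) (nat_lit 1867986300) (nat_lit 608) (nat_lit 355705062) (nat_lit 76) (nat_lit 10681794670) (nat_lit 308) (nat_lit 5) (nat_lit 316) (nat_lit 5) (nat_lit 309) (nat_lit 5) (nat_lit 393) (nat_lit 361) (nat_lit 266)))) (XT.nd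 (nat_lit 156) (nat_lit 456) (nat_lit 0) (XT.nd (nat_lit 78) (nat_lit 532) (nat_lit 0) (XT.lf (nat_lit 0) (nat_lit 4293719501) (nat_lit 532) (nat_lit 5626803138) (nat_lit 76) (nat_lit 3192271637) (nat_lit 302) (nat_lit 5) (nat_lit 309) (nat_lit 5) (nat_lit 303) (nat_lit 5) (nat_lit 394) (nat_lit 361) (nat_lit 265)) (XT.lf (nat_lit 0) (nat_lit 2242177839) (nat_lit 532) (nat_lit 4577337899) (nat_lit 608) (nat_lit 6505987297) (nat_lit 295) (nat_lit 5) (nat_lit 302) (nat_lit 5) (nat_lit 303) (nat_lit 5) (nat_lit 395) (nat_lit 361) (nat_lit 264))) (XT.nd (nat_lit 78) (nat_lit 456) (nat_lit 0) (XT.lf (nat_lit 0) (nat_lit 9467784014) (nat_lit 608) (nat_lit 3113639760) (nat_lit 76) (nat_lit 961768338) (nat_lit 295) (nat_lit 5) (nat_lit 303) (nat_lit 5) (nat_lit 296) (nat_lit 5) (nat_lit 396) (nat_lit 361) (nat_lit 263)) (XT.lf (nat_lit 0) (nat_lit 5126692937) (nat_lit 456) (nat_lit 7144392227) (nat_lit 532)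 (nat_lit 1494059154) (nat_lit 289) (nat_lit 5) (nat_lit 295) (nat_lit 5) (nat_lit 296) (nat_lit 5) (nat_lit 397) (nat_lit 361) (nat_lit 262))))))) (XT.nd (nat_lit 1170) (nat_lit 2964) (nat_lit 0) (XT.nd (nat_lit 546) (nat_lit 1976) (nat_lit 0) (XT.nd (nat_lit 234) (nat_lit 912) (nat_lit 0) (XT.nd (nat_lit 78) (nat_lit 836) (nat_lit 0) (XT.lf (nat_lit 0) (nat_lit 1154887293) (nat_lit 532) (nat_lit 349568847) (nat_lit 76) (nat_lit 12488576512) (nat_lit 288) (nat_lit 5) (nat_lit 295) (nat_lit 5) (nat_lit 289) (nat_lit 5) (nat_lit 398) (nat_lit 361) (nat_lit 261)) (XT.nd (nat_lit 78) (nat_lit 380) (nat_lit 0) (XT.lf (nat_lit 0) (nat_lit 3957137478) (nat_lit 532) (nat_lit 5954974816) (nat_lit 76) (nat_lit 4312085629) (nat_lit 282) (nat_lit 5) (nat_lit 289) (nat_lit 5) (nat_lit 283) (nat_lit 5) (nat_lit 399) (nat_lit 361) (nat_lit 260)) (XT.lf (nat_lit 0) (nat_lit 2706527412) (nat_lit 380) (nat_lit 4163362490)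 (nat_lit 456) (nat_lit 7591615208) (nat_lit 277) (nat_lit 5) (nat_lit 282) (nat_lit 5) (nat_lit 283) (nat_lit 5) (nat_lit 400) (nat_lit 361) (nat_lit 259)))) (XT.nd (nat_lit 156) (nat_lit 456) (nat_lit 0) (XT.nd (nat_lit 78) (nat_lit 456) (nat_lit 0) (XT.lf (nat_lit 0) (nat_lit 9929868691) (nat_lit 456) (nat_lit 2994842967) (nat_lit 76) (nat_lit 1779424541) (nat_lit 277) (nat_lit 5) (nat_lit 283) (nat_lit 5) (nat_lit 278) (nat_lit 5) (nat_lit 401) (nat_lit 361) (nat_lit 258)) (XT.lf (nat_lit 0) (nat_lit 6083083670) (nat_lit 456) (nat_lit 7080994158) (nat_lit 532) (nat_lit 1787495464) (nat_lit 271) (nat_lit 5) (nat_lit 277) (nat_lit 5) (nat_lit 278) (nat_lit 5) (nat_lit 402) (nat_lit 361) (nat_lit 257))) (XT.nd (nat_lit 78) (nat_lit 0) (nat_lit 0) (XT.lf (nat_lit 0) (nat_lit 258963322) (nat_lit 380) (nat_lit 1020652443) (nat_lit 456) (nat_lit 13925969446) (nat_lit 265) (nat_lit 5) (nat_lit 270) (nat_lit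 5) (nat_lit 271) (nat_lit 5) (nat_lit 403) (nat_lit 361) (nat_lit 256)) (XT.lf (nat_lit 0) (nat_lit 4526533562) (nat_lit 456) (nat_lit 5714117738) (nat_lit 76) (nat_lit 5222323645) (nat_lit 265) (nat_lit 5) (nat_lit 271) (nat_lit 5) (nat_lit 266) (nat_lit 5) (nat_lit 404) (nat_lit 361) (nat_lit 255))))) (XT.nd (nat_lit 312) (nat_lit 760) (nat_lit 0) (XT.nd (nat_lit 156) (nat_lit 836) (nat_lit 0) (XT.nd (nat_lit 78) (nat_lit 0) (nat_lit 0) (XT.lf (nat_lit 0) (nat_lit 3837968877) (nat_lit 380) (nat_lit 4063467843) (nat_lit 456) (nat_lit 7825732316) (nat_lit 260) (nat_lit 5) (nat_lit 265) (nat_lit 5) (nat_lit 266) (nat_lit 5) (nat_lit 405) (nat_lit 361) (nat_lit 254)) (XT.lf (nat_lit 0) (nat_lit 11441750119) (nat_lit 456) (nat_lit 2248868101) (nat_lit 76) (nat_lit 2306745835) (nat_lit 260) (nat_lit 5) (nat_lit 266) (nat_lit 5) (nat_lit 261) (nat_lit 5) (nat_lit 406) (nat_lit 361) (nat_lit 253))) (XT.nd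 (nat_lit 78) (nat_lit 456) (nat_lit 0) (XT.lf (nat_lit 0) (nat_lit 7770329752) (nat_lit 380) (nat_lit 7417131567) (nat_lit 456) (nat_lit 1085227953) (nat_lit 255) (nat_lit 5) (nat_lit 260) (nat_lit 5) (nat_lit 261) (nat_lit 5) (nat_lit 407) (nat_lit 361) (nat_lit 252)) (XT.lf (nat_lit 0) (nat_lit 1565161826) (nat_lit 380) (nat_lit 897873460) (nat_lit 456) (nat_lit 14091850900) (nat_lit 249) (nat_lit 5) (nat_lit 254) (nat_lit 5) (nat_lit 255) (nat_lit 5) (nat_lit 408) (nat_lit 361) (nat_lit 251)))) (XT.nd (nat_lit 156) (nat_lit 456) (nat_lit 0) (XT.nd (nat_lit 78) (nat_lit 304) (nat_lit 0) (XT.lf (nat_lit 0) (nat_lit 6223106599) (nat_lit 456) (nat_lit 4823510350) (nat_lit 76) (nat_lit 5794794547) (nat_lit 249) (nat_lit 5) (nat_lit 255) (nat_lit 5) (nat_lit 250) (nat_lit 5) (nat_lit 409) (nat_lit 361) (nat_lit 250)) (XT.lf (nat_lit 0) (nat_lit 5729214552) (nat_lit 304) (nat_lit 4415726838) (nat_lit 380)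 (nat_lit 6990122338) (nat_lit 245) (nat_lit 5) (nat_lit 249) (nat_lit 5) (nat_lit 250) (nat_lit 5) (nat_lit 410) (nat_lit 361) (nat_lit 249))) (XT.nd (nat_lit 78) (nat_lit 456) (nat_lit 0) (XT.lf (nat_lit 0) (nat_lit 14241997792) (nat_lit 380) (nat_lit 783908938) (nat_lit 76) (nat_lit 2409891798) (nat_lit 245) (nat_lit 5) (nat_lit 250) (nat_lit 5) (nat_lit 246) (nat_lit 5) (nat_lit 411) (nat_lit 361) (nat_lit 248)) (XT.lf (nat_lit 0) (nat_lit 831964892) (nat_lit 456) (nat_lit 7456970400) (nat_lit 76) (nat_lit 9452527458) (nat_lit 239) (nat_lit 5) (nat_lit 245) (nat_lit 5) (nat_lit 240) (nat_lit 5) (nat_lit 412) (nat_lit 361) (nat_lit 247)))))) (XT.nd (nat_lit 624) (nat_lit 1444) (nat_lit 0) (XT.nd (nat_lit 312) (nat_lit 608) (nat_lit 0) (XT.nd (nat_lit 156) (nat_lit 608) (nat_lit 0) (XT.nd (nat_lit 78) (nat_lit 0) (nat_lit 0) (XT.lf (nat_lit 0) (nat_lit 3663741158) (nat_lit 304) (nat_lit 1279464847)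 (nat_lit 380) (nat_lit 13111275398) (nat_lit 235) (nat_lit 5) (nat_lit 239) (nat_lit 5) (nat_lit 240) (nat_lit 5) (nat_lit 413) (nat_lit 361) (nat_lit 246)) (XT.lf (nat_lit 0) (nat_lit 9296767350) (nat_lit 380) (nat_lit 3182703937) (nat_lit 76) (nat_lit 5893849840) (nat_lit 235) (nat_lit 5) (nat_lit 240) (nat_lit 5) (nat_lit 236) (nat_lit 5) (nat_lit 414) (nat_lit 361) (nat_lit 245))) (XT.nd (nat_lit 78) (nat_lit 304) (nat_lit 0) (XT.lf (nat_lit 0) (nat_lit 8494112790) (nat_lit 304) (nat_lit 5367388861) (nat_lit 380) (nat_lit 4837807407) (nat_lit 231) (nat_lit 5) (nat_lit 235) (nat_lit 5) (nat_lit 236) (nat_lit 5) (nat_lit 415) (nat_lit 361) (nat_lit 244)) (XT.lf (nat_lit 0) (nat_lit 1542643014) (nat_lit 304) (nat_lit 17073030349) (nat_lit 380) (nat_lit 417828402) (nat_lit 227) (nat_lit 5) (nat_lit 231) (nat_lit 5) (nat_lit 232) (nat_lit 5) (nat_lit 416) (nat_lit 361) (nat_lit 243)))) (XT.nd (nat_lit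 156) (nat_lit 228) (nat_lit 0) (XT.nd (nat_lit 78) (nat_lit 304) (nat_lit 0) (XT.lf (nat_lit 0) (nat_lit 4197735424) (nat_lit 380) (nat_lit 5637173173) (nat_lit 76) (nat_lit 9537309206) (nat_lit 226) (nat_lit 5) (nat_lit 231) (nat_lit 5) (nat_lit 227) (nat_lit 5) (nat_lit 417) (nat_lit 361) (nat_lit 242)) (XT.lf (nat_lit 0) (nat_lit 6678155335) (nat_lit 304) (nat_lit 2316256008) (nat_lit 380) (nat_lit 10725028577) (nat_lit 222) (nat_lit 5) (nat_lit 226) (nat_lit 5) (nat_lit 227) (nat_lit 5) (nat_lit 418) (nat_lit 361) (nat_lit 241))) (XT.nd (nat_lit 78) (nat_lit 228) (nat_lit 0) (XT.lf (nat_lit 0) (nat_lit 14031625104) (nat_lit 380) (nat_lit 669880902) (nat_lit 76) (nat_lit 5372673568) (nat_lit 222) (nat_lit 5) (nat_lit 227) (nat_lit 5) (nat_lit 223) (nat_lit 5) (nat_lit 419) (nat_lit 361) (nat_lit 240)) (XT.lf (nat_lit 0) (nat_lit 12269473961) (nat_lit 228) (nat_lit 7078708393) (nat_lit 304) (nat_lit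 1087532251) (nat_lit 219) (nat_lit 5) (nat_lit 222) (nat_lit 5) (nat_lit 223) (nat_lit 5) (nat_lit 420) (nat_lit 361) (nat_lit 239))))) (XT.nd (nat_lit 312) (nat_lit 532) (nat_lit 0) (XT.nd (nat_lit 156) (nat_lit 532) (nat_lit 0) (XT.nd (nat_lit 78) (nat_lit 0) (nat_lit 0) (XT.lf (nat_lit 0) (nat_lit 3986796704) (nat_lit 380) (nat_lit 15975122220) (nat_lit 76) (nat_lit 843547832) (nat_lit 214) (nat_lit 5) (nat_lit 219) (nat_lit 5) (nat_lit 215) (nat_lit 5) (nat_lit 421) (nat_lit 361) (nat_lit 238)) (XT.lf (nat_lit 0) (nat_lit 9332382992) (nat_lit 380) (nat_lit 2901127963) (nat_lit 76) (nat_lit 8948250914) (nat_lit 214) (nat_lit 5) (nat_lit 219) (nat_lit 5) (nat_lit 215) (nat_lit 5) (nat_lit 422) (nat_lit 361) (nat_lit 237))) (XT.nd (nat_lit 78) (nat_lit 304) (nat_lit 0) (XT.lf (nat_lit 0) (nat_lit 10755699381) (nat_lit 228) (nat_lit 4173911420) (nat_lit 304) (nat_lit 6636996816) (nat_lit 211) (nat_lit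 5) (nat_lit 214) (nat_lit 5) (nat_lit 215) (nat_lit 5) (nat_lit 423) (nat_lit 361) (nat_lit 236)) (XT.lf (nat_lit 0) (nat_lit 2917170480) (nat_lit 304) (nat_lit 17862872673) (nat_lit 380) (nat_lit 1180396952) (nat_lit 207) (nat_lit 5) (nat_lit 211) (nat_lit 5) (nat_lit 212) (nat_lit 5) (nat_lit 424) (nat_lit 361) (nat_lit 235)))) (XT.nd (nat_lit 156) (nat_lit 228) (nat_lit 0) (XT.nd (nat_lit 78) (nat_lit 228) (nat_lit 0) (XT.lf (nat_lit 0) (nat_lit 4492870924) (nat_lit 380) (nat_lit 5188612070) (nat_lit 76) (nat_lit 12679135949) (nat_lit 206) (nat_lit 5) (nat_lit 211) (nat_lit 5) (nat_lit 207) (nat_lit 5) (nat_lit 425) (nat_lit 361) (nat_lit 234)) (XT.lf (nat_lit 0) (nat_lit 9231280867) (nat_lit 228) (nat_lit 1158449203) (nat_lit 304) (nat_lit 12380408922) (nat_lit 203) (nat_lit 5) (nat_lit 206) (nat_lit 5) (nat_lit 207) (nat_lit 5) (nat_lit 426) (nat_lit 361) (nat_lit 233))) (XT.nd (nat_lit 78) (nat_lit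 0) (nat_lit 0) (XT.lf (nat_lit 0) (nat_lit 925099308) (nat_lit 228) (nat_lit 15661923619) (nat_lit 304) (nat_lit 6601215879) (nat_lit 200) (nat_lit 5) (nat_lit 203) (nat_lit 5) (nat_lit 204) (nat_lit 5) (nat_lit 427) (nat_lit 361) (nat_lit 232)) (XT.lf (nat_lit 0) (nat_lit 16070053973) (nat_lit 228) (nat_lit 7036880350) (nat_lit 304) (nat_lit 507846296) (nat_lit 200) (nat_lit 5) (nat_lit 203) (nat_lit 5) (nat_lit 204) (nat_lit 5) (nat_lit 428) (nat_lit 361) (nat_lit 231))))))))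
noncomputable def xc149 : XT := (XT.nd (nat_lit 2340) (nat_lit 2812) (nat_lit 0) (XT.nd (nat_lit 1170) (nat_lit 1748) (nat_lit 0) (XT.nd (nat_lit 546) (nat_lit 1140) (nat_lit 0) (XT.nd (nat_lit 234) (nat_lit 684) (nat_lit 0) (XT.nd (nat_lit 78) (nat_lit 228) (nat_lit 0) (XT.lf (nat_lit 0) (nat_lit 5737511602) (nat_lit 304) (nat_lit 16378091076) (nat_lit 76) (nat_lit 1934400110) (nat_lit 196) (nat_lit 5) (nat_lit 200) (nat_lit 5) (nat_lit 197) (nat_lit 5) (nat_lit 429) (nat_lit 361) (nat_lit 230)) (XT.nd (nat_lit 78) (nat_lit 228) (nat_lit 0) (XT.lf (nat_lit 0) (nat_lit 12295564482) (nat_lit 304) (nat_lit 1090253922) (nat_lit 76) (nat_lit 11108246127) (nat_lit 196) (nat_lit 5) (nat_lit 200) (nat_lit 5) (nat_lit 197) (nat_lit 5) (nat_lit 430) (nat_lit 361) (nat_lit 229)) (XT.lf (nat_lit 0) (nat_lit 14929575278) (nat_lit 228) (nat_lit 4253546463) (nat_lit 304) (nat_lit 5764343504) (nat_lit 193) (nat_lit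 5) (nat_lit 196) (nat_lit 5) (nat_lit 197) (nat_lit 5) (nat_lit 431) (nat_lit 361) (nat_lit 228)))) (XT.nd (nat_lit 156) (nat_lit 380) (nat_lit 0) (XT.nd (nat_lit 78) (nat_lit 0) (nat_lit 0) (XT.lf (nat_lit 0) (nat_lit 955582322) (nat_lit 304) (nat_lit 19331230874) (nat_lit 76) (nat_lit 5124118509) (nat_lit 189) (nat_lit 5) (nat_lit 193) (nat_lit 5) (nat_lit 190) (nat_lit 5) (nat_lit 432) (nat_lit 361) (nat_lit 227)) (XT.lf (nat_lit 0) (nat_lit 7894883651) (nat_lit 304) (nat_lit 3137960309) (nat_lit 76) (nat_lit 14849736959) (nat_lit 189) (nat_lit 5) (nat_lit 193) (nat_lit 5) (nat_lit 190) (nat_lit 5) (nat_lit 433) (nat_lit 361) (nat_lit 226))) (XT.nd (nat_lit 78) (nat_lit 152) (nat_lit 0) (XT.lf (nat_lit 0) (nat_lit 13792699605) (nat_lit 228) (nat_lit 1371916592) (nat_lit 304) (nat_lit 11200095847) (nat_lit 186) (nat_lit 5) (nat_lit 189) (nat_lit 5) (nat_lit 190) (nat_lit 5) (nat_lit 434) (nat_lit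 361) (nat_lit 225)) (XT.lf (nat_lit 0) (nat_lit 4421122389) (nat_lit 152) (nat_lit 18378015983) (nat_lit 228) (nat_lit 4057767802) (nat_lit 184) (nat_lit 5) (nat_lit 186) (nat_lit 5) (nat_lit 187) (nat_lit 5) (nat_lit 435) (nat_lit 361) (nat_lit 224))))) (XT.nd (nat_lit 312) (nat_lit 684) (nat_lit 0) (XT.nd (nat_lit 156) (nat_lit 152) (nat_lit 0) (XT.nd (nat_lit 78) (nat_lit 228) (nat_lit 0) (XT.lf (nat_lit 0) (nat_lit 3366015065) (nat_lit 228) (nat_lit 5242492793) (nat_lit 76) (nat_lit 18750460247) (nat_lit 183) (nat_lit 5) (nat_lit 186) (nat_lit 5) (nat_lit 184) (nat_lit 5) (nat_lit 436) (nat_lit 361) (nat_lit 223)) (XT.lf (nat_lit 0) (nat_lit 11058186872) (nat_lit 304) (nat_lit 15230791247) (nat_lit 76) (nat_lit 1582091520) (nat_lit 180) (nat_lit 5) (nat_lit 184) (nat_lit 5) (nat_lit 181) (nat_lit 5) (nat_lit 437) (nat_lit 361) (nat_lit 222))) (XT.nd (nat_lit 78) (nat_lit 0) (nat_lit 0) (XT.lf (nat_lit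 0) (nat_lit 2720183033) (nat_lit 152) (nat_lit 16415904424) (nat_lit 228) (nat_lit 9257797853) (nat_lit 178) (nat_lit 5) (nat_lit 180) (nat_lit 5) (nat_lit 181) (nat_lit 5) (nat_lit 438) (nat_lit 361) (nat_lit 221)) (XT.lf (nat_lit 0) (nat_lit 21504878131) (nat_lit 152) (nat_lit 6095491941) (nat_lit 228) (nat_lit 1327694029) (nat_lit 178) (nat_lit 5) (nat_lit 180) (nat_lit 5) (nat_lit 181) (nat_lit 5) (nat_lit 439) (nat_lit 361) (nat_lit 220)))) (XT.nd (nat_lit 156) (nat_lit 228) (nat_lit 0) (XT.nd (nat_lit 78) (nat_lit 152) (nat_lit 0) (XT.lf (nat_lit 0) (nat_lit 6853244669) (nat_lit 304) (nat_lit 18001414728) (nat_lit 76) (nat_lit 4617243933) (nat_lit 174) (nat_lit 5) (nat_lit 178) (nat_lit 5) (nat_lit 175) (nat_lit 5) (nat_lit 440) (nat_lit 361) (nat_lit 219)) (XT.lf (nat_lit 0) (nat_lit 981475200) (nat_lit 152) (nat_lit 14407424135) (nat_lit 228) (nat_lit 14638684842) (nat_lit 172) (nat_lit 5) (nat_lit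 174) (nat_lit 5) (nat_lit 175) (nat_lit 5) (nat_lit 441) (nat_lit 361) (nat_lit 218))) (XT.nd (nat_lit 78) (nat_lit 228) (nat_lit 0) (XT.lf (nat_lit 0) (nat_lit 20886257248) (nat_lit 152) (nat_lit 3466748285) (nat_lit 228) (nat_lit 6241758461) (nat_lit 172) (nat_lit 5) (nat_lit 174) (nat_lit 5) (nat_lit 175) (nat_lit 5) (nat_lit 442) (nat_lit 361) (nat_lit 217)) (XT.lf (nat_lit 0) (nat_lit 2526742088) (nat_lit 228) (nat_lit 20879519276) (nat_lit 76) (nat_lit 7767004579) (nat_lit 169) (nat_lit 5) (nat_lit 172) (nat_lit 5) (nat_lit 170) (nat_lit 5) (nat_lit 443) (nat_lit 361) (nat_lit 216)))))) (XT.nd (nat_lit 546) (nat_lit 988) (nat_lit 0) (XT.nd (nat_lit 234) (nat_lit 456) (nat_lit 0) (XT.nd (nat_lit 78) (nat_lit 304) (nat_lit 0) (XT.lf (nat_lit 0) (nat_lit 11557007979) (nat_lit 228) (nat_lit 784544853) (nat_lit 76) (nat_lit 19421991226) (nat_lit 169) (nat_lit 5) (nat_lit 172) (nat_lit 5) (nat_lit 170)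 (nat_lit 5) (nat_lit 444) (nat_lit 361) (nat_lit 215)) (XT.nd (nat_lit 78) (nat_lit 152) (nat_lit 0) (XT.lf (nat_lit 0) (nat_lit 20293401327) (nat_lit 152) (nat_lit 750951849) (nat_lit 228) (nat_lit 11321592201) (nat_lit 167) (nat_lit 5) (nat_lit 169) (nat_lit 5) (nat_lit 170) (nat_lit 5) (nat_lit 445) (nat_lit 361) (nat_lit 214)) (XT.lf (nat_lit 0) (nat_lit 9087380081) (nat_lit 152) (nat_lit 21922973048) (nat_lit 228) (nat_lit 1970244575) (nat_lit 165) (nat_lit 5) (nat_lit 167) (nat_lit 5) (nat_lit 168) (nat_lit 5) (nat_lit 446) (nat_lit 361) (nat_lit 213)))) (XT.nd (nat_lit 156) (nat_lit 228) (nat_lit 0) (XT.nd (nat_lit 78) (nat_lit 152) (nat_lit 0) (XT.lf (nat_lit 0) (nat_lit 7633848636) (nat_lit 228) (nat_lit 2578681960) (nat_lit 76) (nat_lit 23395298210) (nat_lit 164) (nat_lit 5) (nat_lit 167) (nat_lit 5) (nat_lit 165) (nat_lit 5) (nat_lit 447) (nat_lit 361) (nat_lit 212)) (XT.lf (nat_lit 0) (nat_lit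 17687273374) (nat_lit 228) (nat_lit 14542420527) (nat_lit 76) (nat_lit 2017573458) (nat_lit 162) (nat_lit 5) (nat_lit 165) (nat_lit 5) (nat_lit 163) (nat_lit 5) (nat_lit 448) (nat_lit 361) (nat_lit 211))) (XT.nd (nat_lit 78) (nat_lit 76) (nat_lit 0) (XT.lf (nat_lit 0) (nat_lit 7840754365) (nat_lit 152) (nat_lit 20395782851) (nat_lit 228) (nat_lit 6663524761) (nat_lit 160) (nat_lit 5) (nat_lit 162) (nat_lit 5) (nat_lit 163) (nat_lit 5) (nat_lit 449) (nat_lit 361) (nat_lit 210)) (XT.lf (nat_lit 0) (nat_lit 3600734856) (nat_lit 228) (nat_lit 4425416737) (nat_lit 76) (nat_lit 27541077628) (nat_lit 159) (nat_lit 5) (nat_lit 162) (nat_lit 5) (nat_lit 160) (nat_lit 5) (nat_lit 450) (nat_lit 361) (nat_lit 209))))) (XT.nd (nat_lit 312) (nat_lit 456) (nat_lit 0) (XT.nd (nat_lit 156) (nat_lit 228) (nat_lit 0) (XT.nd (nat_lit 78) (nat_lit 152) (nat_lit 0) (XT.lf (nat_lit 0) (nat_lit 14262822287) (nat_lit 228) (nat_lit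 17114156108) (nat_lit 76) (nat_lit 4868738912) (nat_lit 157) (nat_lit 5) (nat_lit 160) (nat_lit 5) (nat_lit 158) (nat_lit 5) (nat_lit 451) (nat_lit 361) (nat_lit 208)) (XT.lf (nat_lit 0) (nat_lit 6576051602) (nat_lit 152) (nat_lit 18848284596) (nat_lit 228) (nat_lit 11514836923) (nat_lit 155) (nat_lit 5) (nat_lit 157) (nat_lit 5) (nat_lit 158) (nat_lit 5) (nat_lit 452) (nat_lit 361) (nat_lit 207))) (XT.nd (nat_lit 78) (nat_lit 228) (nat_lit 0) (XT.lf (nat_lit 0) (nat_lit 31312829748) (nat_lit 152) (nat_lit 5772535083) (nat_lit 228) (nat_lit 563127699) (nat_lit 155) (nat_lit 5) (nat_lit 157) (nat_lit 5) (nat_lit 158) (nat_lit 5) (nat_lit 453) (nat_lit 361) (nat_lit 206)) (XT.lf (nat_lit 0) (nat_lit 10756079060) (nat_lit 228) (nat_lit 19788542809) (nat_lit 76) (nat_lit 7823936779) (nat_lit 152) (nat_lit 5) (nat_lit 155) (nat_lit 5) (nat_lit 153) (nat_lit 5) (nat_lit 454) (nat_lit 361) (nat_lit 205))))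 (XT.nd (nat_lit 156) (nat_lit 304) (nat_lit 0) (XT.nd (nat_lit 78) (nat_lit 0) (nat_lit 0) (XT.lf (nat_lit 0) (nat_lit 5289882447) (nat_lit 152) (nat_lit 17278313966) (nat_lit 228) (nat_lit 16536923491) (nat_lit 150) (nat_lit 5) (nat_lit 152) (nat_lit 5) (nat_lit 153) (nat_lit 5) (nat_lit 455) (nat_lit 361) (nat_lit 204)) (XT.lf (nat_lit 0) (nat_lit 31511738708) (nat_lit 152) (nat_lit 3414894015) (nat_lit 228) (nat_lit 4931386612) (nat_lit 150) (nat_lit 5) (nat_lit 152) (nat_lit 5) (nat_lit 153) (nat_lit 5) (nat_lit 456) (nat_lit 361) (nat_lit 203))) (XT.nd (nat_lit 78) (nat_lit 152) (nat_lit 0) (XT.lf (nat_lit 0) (nat_lit 7158896427) (nat_lit 152) (nat_lit 22573945661) (nat_lit 76) (nat_lit 10890430253) (nat_lit 148) (nat_lit 5) (nat_lit 150) (nat_lit 5) (nat_lit 149) (nat_lit 5) (nat_lit 457) (nat_lit 361) (nat_lit 202)) (XT.lf (nat_lit 0) (nat_lit 3978785122) (nat_lit 152) (nat_lit 15683469168) (nat_lit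 228) (nat_lit 21743279409) (nat_lit 146) (nat_lit 5) (nat_lit 148) (nat_lit 5) (nat_lit 149) (nat_lit 5) (nat_lit 458) (nat_lit 361) (nat_lit 201))))))) (XT.nd (nat_lit 1170) (nat_lit 1444) (nat_lit 0) (XT.nd (nat_lit 546) (nat_lit 760) (nat_lit 0) (XT.nd (nat_lit 234) (nat_lit 304) (nat_lit 0) (XT.nd (nat_lit 78) (nat_lit 304) (nat_lit 0) (XT.lf (nat_lit 0) (nat_lit 31776659333) (nat_lit 152) (nat_lit 984403253) (nat_lit 228) (nat_lit 9443589822) (nat_lit 146) (nat_lit 5) (nat_lit 148) (nat_lit 5) (nat_lit 149) (nat_lit 5) (nat_lit 459) (nat_lit 361) (nat_lit 200)) (XT.nd (nat_lit 78) (nat_lit 152) (nat_lit 0) (XT.lf (nat_lit 0) (nat_lit 3462661871) (nat_lit 152) (nat_lit 25479117160) (nat_lit 76) (nat_lit 14076020466) (nat_lit 144) (nat_lit 5) (nat_lit 146) (nat_lit 5) (nat_lit 145) (nat_lit 5) (nat_lit 460) (nat_lit 361) (nat_lit 199)) (XT.lf (nat_lit 0) (nat_lit 2639209593) (nat_lit 152) (nat_lit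 14061114348) (nat_lit 228) (nat_lit 27148191139) (nat_lit 142) (nat_lit 5) (nat_lit 144) (nat_lit 5) (nat_lit 145) (nat_lit 5) (nat_lit 461) (nat_lit 361) (nat_lit 198)))) (XT.nd (nat_lit 156) (nat_lit 228) (nat_lit 0) (XT.nd (nat_lit 78) (nat_lit 76) (nat_lit 0) (XT.lf (nat_lit 0) (nat_lit 30599711886) (nat_lit 228) (nat_lit 12601729342) (nat_lit 76) (nat_lit 1494773024) (nat_lit 142) (nat_lit 5) (nat_lit 145) (nat_lit 5) (nat_lit 143) (nat_lit 4) (nat_lit 462) (nat_lit 361) (nat_lit 197)) (XT.lf (nat_lit 0) (nat_lit 17043887171) (nat_lit 76) (nat_lit 28168055530) (nat_lit 152) (nat_lit 348525861) (nat_lit 141) (nat_lit 5) (nat_lit 142) (nat_lit 5) (nat_lit 143) (nat_lit 4) (nat_lit 463) (nat_lit 361) (nat_lit 196))) (XT.nd (nat_lit 78) (nat_lit 0) (nat_lit 0) (XT.lf (nat_lit 0) (nat_lit 1267501957) (nat_lit 152) (nat_lit 12408381034) (nat_lit 228) (nat_lit 32766779077) (nat_lit 138) (nat_lit 5) (nat_lit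 140) (nat_lit 5) (nat_lit 141) (nat_lit 5) (nat_lit 464) (nat_lit 361) (nat_lit 195)) (XT.lf (nat_lit 0) (nat_lit 28434426544) (nat_lit 228) (nat_lit 14869658999) (nat_lit 76) (nat_lit 4037520090) (nat_lit 138) (nat_lit 5) (nat_lit 141) (nat_lit 5) (nat_lit 139) (nat_lit 4) (nat_lit 465) (nat_lit 361) (nat_lit 194))))) (XT.nd (nat_lit 312) (nat_lit 380) (nat_lit 0) (XT.nd (nat_lit 156) (nat_lit 228) (nat_lit 0) (XT.nd (nat_lit 78) (nat_lit 76) (nat_lit 0) (XT.lf (nat_lit 0) (nat_lit 16531552759) (nat_lit 76) (nat_lit 27378984343) (nat_lit 152) (nat_lit 4348736082) (nat_lit 137) (nat_lit 5) (nat_lit 138) (nat_lit 5) (nat_lit 139) (nat_lit 4) (nat_lit 466) (nat_lit 361) (nat_lit 193)) (XT.lf (nat_lit 0) (nat_lit 10583403502) (nat_lit 152) (nat_lit 137377013) (nat_lit 76) (nat_lit 38476279214) (nat_lit 136) (nat_lit 5) (nat_lit 138) (nat_lit 5) (nat_lit 137) (nat_lit 5) (nat_lit 467) (nat_lit 361) (nat_lit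 192))) (XT.nd (nat_lit 78) (nat_lit 76) (nat_lit 0) (XT.lf (nat_lit 0) (nat_lit 26251848901) (nat_lit 228) (nat_lit 17229231805) (nat_lit 76) (nat_lit 6669335055) (nat_lit 134) (nat_lit 5) (nat_lit 137) (nat_lit 5) (nat_lit 135) (nat_lit 4) (nat_lit 468) (nat_lit 361) (nat_lit 191)) (XT.lf (nat_lit 0) (nat_lit 16035914937) (nat_lit 76) (nat_lit 26609399031) (nat_lit 152) (nat_lit 8479409516) (nat_lit 133) (nat_lit 5) (nat_lit 134) (nat_lit 5) (nat_lit 135) (nat_lit 4) (nat_lit 469) (nat_lit 361) (nat_lit 190)))) (XT.nd (nat_lit 156) (nat_lit 152) (nat_lit 0) (XT.nd (nat_lit 78) (nat_lit 152) (nat_lit 0) (XT.lf (nat_lit 0) (nat_lit 7426860541) (nat_lit 152) (nat_lit 1556559186) (nat_lit 76) (nat_lit 43137636524) (nat_lit 132) (nat_lit 5) (nat_lit 134) (nat_lit 5) (nat_lit 133) (nat_lit 5) (nat_lit 470) (nat_lit 361) (nat_lit 189)) (XT.lf (nat_lit 0) (nat_lit 24047897692) (nat_lit 228) (nat_lit 19687691363)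 (nat_lit 76) (nat_lit 9396931107) (nat_lit 130) (nat_lit 5) (nat_lit 133) (nat_lit 5) (nat_lit 131) (nat_lit 4) (nat_lit 471) (nat_lit 361) (nat_lit 188))) (XT.nd (nat_lit 78) (nat_lit 76) (nat_lit 0) (XT.lf (nat_lit 0) (nat_lit 15556289547) (nat_lit 76) (nat_lit 25859121982) (nat_lit 152) (nat_lit 12751481094) (nat_lit 129) (nat_lit 5) (nat_lit 130) (nat_lit 5) (nat_lit 131) (nat_lit 4) (nat_lit 472) (nat_lit 361) (nat_lit 187)) (XT.lf (nat_lit 0) (nat_lit 4186474839) (nat_lit 152) (nat_lit 3018757713) (nat_lit 76) (nat_lit 48020061341) (nat_lit 128) (nat_lit 5) (nat_lit 130) (nat_lit 5) (nat_lit 129) (nat_lit 5) (nat_lit 473) (nat_lit 361) (nat_lit 186)))))) (XT.nd (nat_lit 624) (nat_lit 608) (nat_lit 0) (XT.nd (nat_lit 312) (nat_lit 380) (nat_lit 0) (XT.nd (nat_lit 156) (nat_lit 228) (nat_lit 0) (XT.nd (nat_lit 78) (nat_lit 76) (nat_lit 0) (XT.lf (nat_lit 0) (nat_lit 21818296850) (nat_lit 228) (nat_lit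 22252639536) (nat_lit 76) (nat_lit 12227462659) (nat_lit 126) (nat_lit 5) (nat_lit 129) (nat_lit 5) (nat_lit 127) (nat_lit 4) (nat_lit 474) (nat_lit 361) (nat_lit 185)) (XT.lf (nat_lit 0) (nat_lit 15092034420) (nat_lit 76) (nat_lit 25127937272) (nat_lit 152) (nat_lit 17176498714) (nat_lit 125) (nat_lit 5) (nat_lit 126) (nat_lit 5) (nat_lit 127) (nat_lit 4) (nat_lit 475) (nat_lit 361) (nat_lit 184))) (XT.nd (nat_lit 78) (nat_lit 152) (nat_lit 0) (XT.lf (nat_lit 0) (nat_lit 854242086) (nat_lit 152) (nat_lit 4528115434) (nat_lit 76) (nat_lit 53138320860) (nat_lit 124) (nat_lit 5) (nat_lit 126) (nat_lit 5) (nat_lit 125) (nat_lit 5) (nat_lit 476) (nat_lit 361) (nat_lit 183)) (XT.lf (nat_lit 0) (nat_lit 19558565920) (nat_lit 228) (nat_lit 24932064523) (nat_lit 76) (nat_lit 15168543476) (nat_lit 122) (nat_lit 5) (nat_lit 125) (nat_lit 5) (nat_lit 123) (nat_lit 4) (nat_lit 477) (nat_lit 361) (nat_lit 182))))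 (XT.nd (nat_lit 156) (nat_lit 304) (nat_lit 0) (XT.nd (nat_lit 78) (nat_lit 0) (nat_lit 0) (XT.lf (nat_lit 0) (nat_lit 14642545696) (nat_lit 76) (nat_lit 24415596632) (nat_lit 152) (nat_lit 21766658312) (nat_lit 121) (nat_lit 5) (nat_lit 122) (nat_lit 5) (nat_lit 123) (nat_lit 4) (nat_lit 478) (nat_lit 361) (nat_lit 181)) (XT.lf (nat_lit 0) (nat_lit 55903792745) (nat_lit 76) (nat_lit 3484644839) (nat_lit 152) (nat_lit 2629586632) (nat_lit 121) (nat_lit 5) (nat_lit 122) (nat_lit 5) (nat_lit 123) (nat_lit 4) (nat_lit 479) (nat_lit 361) (nat_lit 180))) (XT.nd (nat_lit 78) (nat_lit 76) (nat_lit 0) (XT.lf (nat_lit 0) (nat_lit 17264009398) (nat_lit 228) (nat_lit 27734370034) (nat_lit 76) (nat_lit 18228267033) (nat_lit 118) (nat_lit 5) (nat_lit 121) (nat_lit 5) (nat_lit 119) (nat_lit 4) (nat_lit 480) (nat_lit 361) (nat_lit 179)) (XT.lf (nat_lit 0) (nat_lit 14207254517) (nat_lit 76) (nat_lit 23721824701) (nat_lit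 152) (nat_lit 26534841559) (nat_lit 117) (nat_lit 5) (nat_lit 118) (nat_lit 5) (nat_lit 119) (nat_lit 4) (nat_lit 481) (nat_lit 361) (nat_lit 178))))) (XT.nd (nat_lit 312) (nat_lit 380) (nat_lit 0) (XT.nd (nat_lit 156) (nat_lit 76) (nat_lit 0) (XT.nd (nat_lit 78) (nat_lit 152) (nat_lit 0) (XT.lf (nat_lit 0) (nat_lit 57964295538) (nat_lit 76) (nat_lit 1524025841) (nat_lit 152) (nat_lit 6241765332) (nat_lit 117) (nat_lit 5) (nat_lit 118) (nat_lit 5) (nat_lit 119) (nat_lit 4) (nat_lit 482) (nat_lit 361) (nat_lit 177)) (XT.lf (nat_lit 0) (nat_lit 14929704976) (nat_lit 152) (nat_lit 30668405689) (nat_lit 76) (nat_lit 21415229104) (nat_lit 115) (nat_lit 5) (nat_lit 117) (nat_lit 5) (nat_lit 116) (nat_lit 4) (nat_lit 483) (nat_lit 361) (nat_lit 176))) (XT.nd (nat_lit 78) (nat_lit 0) (nat_lit 0) (XT.lf (nat_lit 0) (nat_lit 13785624069) (nat_lit 76) (nat_lit 23046323636) (nat_lit 152) (nat_lit 31494656277) (nat_lit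 114) (nat_lit 5) (nat_lit 115) (nat_lit 5) (nat_lit 116) (nat_lit 4) (nat_lit 484) (nat_lit 361) (nat_lit 175)) (XT.lf (nat_lit 0) (nat_lit 59700053771) (nat_lit 152) (nat_lit 9484005027) (nat_lit 0) (nat_lit 485943440) (nat_lit 114) (nat_lit 5) (nat_lit 116) (nat_lit 4) (nat_lit 114) (nat_lit 4) (nat_lit 485) (nat_lit 361) (nat_lit 174)))) (XT.nd (nat_lit 156) (nat_lit 152) (nat_lit 0) (XT.nd (nat_lit 78) (nat_lit 76) (nat_lit 0) (XT.lf (nat_lit 0) (nat_lit 12550490705) (nat_lit 152) (nat_lit 33743498792) (nat_lit 76) (nat_lit 24738552611) (nat_lit 112) (nat_lit 5) (nat_lit 114) (nat_lit 5) (nat_lit 113) (nat_lit 4) (nat_lit 486) (nat_lit 361) (nat_lit 173)) (XT.lf (nat_lit 0) (nat_lit 13377146922) (nat_lit 76) (nat_lit 22388777176) (nat_lit 152) (nat_lit 36660479691) (nat_lit 111) (nat_lit 5) (nat_lit 112) (nat_lit 5) (nat_lit 113) (nat_lit 4) (nat_lit 487) (nat_lit 361) (nat_lit 172))) (XT.nd (nat_lit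 78) (nat_lit 152) (nat_lit 0) (XT.lf (nat_lit 0) (nat_lit 60037875467) (nat_lit 152) (nat_lit 11284430085) (nat_lit 0) (nat_lit 2528974119) (nat_lit 111) (nat_lit 5) (nat_lit 113) (nat_lit 4) (nat_lit 111) (nat_lit 4) (nat_lit 488) (nat_lit 361) (nat_lit 171)) (XT.lf (nat_lit 0) (nat_lit 10120951046) (nat_lit 152) (nat_lit 36969487597) (nat_lit 76) (nat_lit 28207914758) (nat_lit 109) (nat_lit 5) (nat_lit 111) (nat_lit 5) (nat_lit 110) (nat_lit 4) (nat_lit 489) (nat_lit 361) (nat_lit 170))))))))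
noncomputable def xc150 : XT := (XT.nd (nat_lit 45318) (nat_lit 0) (nat_lit 8436) (XT.nd (nat_lit 44148) (nat_lit 0) (nat_lit 16340) (XT.nd (nat_lit 43524) (nat_lit 0) (nat_lit 21888) (XT.nd (nat_lit 43212) (nat_lit 0) (nat_lit 22724) (XT.nd (nat_lit 78) (nat_lit 0) (nat_lit 0) (XT.lf (nat_lit 0) (nat_lit 12981342642) (nat_lit 76) (nat_lit 21748854193) (nat_lit 152) (nat_lit 42047504648) (nat_lit 108) (nat_lit 5) (nat_lit 109) (nat_lit 5) (nat_lit 110) (nat_lit 4) (nat_lit 490) (nat_lit 361) (nat_lit 169)) (XT.nd (nat_lit 43056) (nat_lit 0) (nat_lit 23788) (XT.lf (nat_lit 0) (nat_lit 60491218082) (nat_lit 152) (nat_lit 13157775963) (nat_lit 0) (nat_lit 4640031020) (nat_lit 108) (nat_lit 5) (nat_lit 110) (nat_lit 4) (nat_lit 108) (nat_lit 4) (nat_lit 491) (nat_lit 361) (nat_lit 168)) (XT.lf (nat_lit 0) (nat_lit 1349533788) (nat_lit 0) (nat_lit 1349533788) (nat_lit 988) (nat_lit 1549018068) (nat_lit 421)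 (nat_lit 5) (nat_lit 421) (nat_lit 3) (nat_lit 434) (nat_lit 3) (nat_lit 362) (nat_lit 362) (nat_lit 296)))) (XT.nd (nat_lit 156) (nat_lit 1064) (nat_lit 0) (XT.nd (nat_lit 78) (nat_lit 0) (nat_lit 0) (XT.lf (nat_lit 0) (nat_lit 6521627788) (nat_lit 988) (nat_lit 1543911909) (nat_lit 1064) (nat_lit 526798544) (nat_lit 421) (nat_lit 5) (nat_lit 434) (nat_lit 3) (nat_lit 435) (nat_lit 5) (nat_lit 363) (nat_lit 362) (nat_lit 295)) (XT.lf (nat_lit 76) (nat_lit 2843997148) (nat_lit 0) (nat_lit 4848599218) (nat_lit 1064) (nat_lit 998380700) (nat_lit 422) (nat_lit 5) (nat_lit 421) (nat_lit 5) (nat_lit 435) (nat_lit 5) (nat_lit 364) (nat_lit 362) (nat_lit 294))) (XT.nd (nat_lit 78) (nat_lit 0) (nat_lit 76) (XT.lf (nat_lit 0) (nat_lit 80080593) (nat_lit 1064) (nat_lit 1420319395) (nat_lit 1140) (nat_lit 7292863493) (nat_lit 407) (nat_lit 5) (nat_lit 421) (nat_lit 5) (nat_lit 422) (nat_lit 5) (nat_lit 365) (nat_lit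 362) (nat_lit 293)) (XT.lf (nat_lit 0) (nat_lit 1182031305) (nat_lit 1064) (nat_lit 5748332520) (nat_lit 1140) (nat_lit 1967622054) (nat_lit 408) (nat_lit 5) (nat_lit 422) (nat_lit 5) (nat_lit 423) (nat_lit 5) (nat_lit 366) (nat_lit 362) (nat_lit 292))))) (XT.nd (nat_lit 312) (nat_lit 912) (nat_lit 0) (XT.nd (nat_lit 156) (nat_lit 0) (nat_lit 76) (XT.nd (nat_lit 78) (nat_lit 0) (nat_lit 76) (XT.lf (nat_lit 0) (nat_lit 2308898596) (nat_lit 1064) (nat_lit 1157232902) (nat_lit 1140) (nat_lit 5539962708) (nat_lit 408) (nat_lit 5) (nat_lit 422) (nat_lit 5) (nat_lit 423) (nat_lit 5) (nat_lit 367) (nat_lit 362) (nat_lit 291)) (XT.lf (nat_lit 0) (nat_lit 3469445480) (nat_lit 1064) (nat_lit 5498709727) (nat_lit 1140) (nat_lit 149294368) (nat_lit 409) (nat_lit 5) (nat_lit 423) (nat_lit 5) (nat_lit 424) (nat_lit 5) (nat_lit 368) (nat_lit 362) (nat_lit 290))) (XT.nd (nat_lit 78) (nat_lit 0) (nat_lit 0) (XT.lf (nat_lit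 0) (nat_lit 4675521057) (nat_lit 1064) (nat_lit 727494080) (nat_lit 1140) (nat_lit 3828809101) (nat_lit 409) (nat_lit 5) (nat_lit 423) (nat_lit 5) (nat_lit 424) (nat_lit 5) (nat_lit 369) (nat_lit 362) (nat_lit 289)) (XT.lf (nat_lit 76) (nat_lit 4247430869) (nat_lit 0) (nat_lit 1676800886) (nat_lit 1140) (nat_lit 3425204800) (nat_lit 410) (nat_lit 5) (nat_lit 409) (nat_lit 5) (nat_lit 424) (nat_lit 5) (nat_lit 370) (nat_lit 362) (nat_lit 288)))) (XT.nd (nat_lit 156) (nat_lit 1064) (nat_lit 0) (XT.nd (nat_lit 78) (nat_lit 0) (nat_lit 0) (XT.lf (nat_lit 0) (nat_lit 7205120895) (nat_lit 1064) (nat_lit 127897119) (nat_lit 1140) (nat_lit 2137717714) (nat_lit 410) (nat_lit 5) (nat_lit 424) (nat_lit 5) (nat_lit 425) (nat_lit 5) (nat_lit 371) (nat_lit 362) (nat_lit 287)) (XT.lf (nat_lit 76) (nat_lit 5054939552) (nat_lit 0) (nat_lit 3502188712) (nat_lit 1140) (nat_lit 1037564865) (nat_lit 411) (nat_lit 5) (nat_lit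 410) (nat_lit 5) (nat_lit 425) (nat_lit 5) (nat_lit 372) (nat_lit 362) (nat_lit 286))) (XT.nd (nat_lit 78) (nat_lit 0) (nat_lit 0) (XT.lf (nat_lit 0) (nat_lit 202916958) (nat_lit 1140) (nat_lit 9066177249) (nat_lit 1216) (nat_lit 453808699) (nat_lit 396) (nat_lit 5) (nat_lit 411) (nat_lit 5) (nat_lit 412) (nat_lit 5) (nat_lit 373) (nat_lit 362) (nat_lit 285)) (XT.lf (nat_lit 0) (nat_lit 1509445962) (nat_lit 1140) (nat_lit 3820575838) (nat_lit 1216) (nat_lit 4523138386) (nat_lit 396) (nat_lit 5) (nat_lit 411) (nat_lit 5) (nat_lit 412) (nat_lit 5) (nat_lit 374) (nat_lit 362) (nat_lit 284)))))) (XT.nd (nat_lit 546) (nat_lit 3268) (nat_lit 0) (XT.nd (nat_lit 234) (nat_lit 2280) (nat_lit 0) (XT.nd (nat_lit 78) (nat_lit 0) (nat_lit 76) (XT.lf (nat_lit 76) (nat_lit 1590369227) (nat_lit 0) (nat_lit 1249715540) (nat_lit 1216) (nat_lit 7147693002) (nat_lit 397) (nat_lit 5) (nat_lit 396) (nat_lit 5) (nat_lit 412)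 (nat_lit 5) (nat_lit 375) (nat_lit 362) (nat_lit 283)) (XT.nd (nat_lit 78) (nat_lit 0) (nat_lit 0) (XT.lf (nat_lit 0) (nat_lit 4248348708) (nat_lit 1140) (nat_lit 2935873299) (nat_lit 1216) (nat_lit 2941080691) (nat_lit 397) (nat_lit 5) (nat_lit 412) (nat_lit 5) (nat_lit 413) (nat_lit 5) (nat_lit 376) (nat_lit 362) (nat_lit 282)) (XT.lf (nat_lit 76) (nat_lit 2706858525) (nat_lit 0) (nat_lit 3001616434) (nat_lit 1216) (nat_lit 4558189984) (nat_lit 398) (nat_lit 5) (nat_lit 397) (nat_lit 5) (nat_lit 413) (nat_lit 5) (nat_lit 377) (nat_lit 362) (nat_lit 281)))) (XT.nd (nat_lit 156) (nat_lit 1292) (nat_lit 0) (XT.nd (nat_lit 78) (nat_lit 1140) (nat_lit 0) (XT.lf (nat_lit 0) (nat_lit 7226793885) (nat_lit 1140) (nat_lit 1868941773) (nat_lit 76) (nat_lit 1316100732) (nat_lit 398) (nat_lit 5) (nat_lit 413) (nat_lit 5) (nat_lit 399) (nat_lit 5) (nat_lit 378) (nat_lit 362) (nat_lit 280)) (XT.lf (nat_lit 0) (nat_lit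 4018267061) (nat_lit 1140) (nat_lit 4813449293) (nat_lit 1216) (nat_lit 1728415007) (nat_lit 383) (nat_lit 5) (nat_lit 398) (nat_lit 5) (nat_lit 399) (nat_lit 5) (nat_lit 379) (nat_lit 362) (nat_lit 279))) (XT.nd (nat_lit 78) (nat_lit 1292) (nat_lit 0) (XT.lf (nat_lit 0) (nat_lit 10097556206) (nat_lit 1140) (nat_lit 379387158) (nat_lit 1216) (nat_lit 236167110) (nat_lit 383) (nat_lit 5) (nat_lit 398) (nat_lit 5) (nat_lit 399) (nat_lit 5) (nat_lit 380) (nat_lit 362) (nat_lit 278)) (XT.lf (nat_lit 0) (nat_lit 1343675039) (nat_lit 1292) (nat_lit 5348557826) (nat_lit 76) (nat_lit 4176024628) (nat_lit 366) (nat_lit 5) (nat_lit 383) (nat_lit 5) (nat_lit 367) (nat_lit 5) (nat_lit 381) (nat_lit 362) (nat_lit 277))))) (XT.nd (nat_lit 312) (nat_lit 1824) (nat_lit 0) (XT.nd (nat_lit 156) (nat_lit 608) (nat_lit 0) (XT.nd (nat_lit 78) (nat_lit 0) (nat_lit 0) (XT.lf (nat_lit 0) (nat_lit 810128847) (nat_lit 836) (nat_lit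 2148240910) (nat_lit 912) (nat_lit 8069852897) (nat_lit 355) (nat_lit 5) (nat_lit 366) (nat_lit 5) (nat_lit 367) (nat_lit 5) (nat_lit 382) (nat_lit 362) (nat_lit 276)) (XT.lf (nat_lit 0) (nat_lit 4675316811) (nat_lit 912) (nat_lit 3976849453) (nat_lit 76) (nat_lit 2539206160) (nat_lit 355) (nat_lit 5) (nat_lit 367) (nat_lit 5) (nat_lit 356) (nat_lit 5) (nat_lit 383) (nat_lit 362) (nat_lit 275))) (XT.nd (nat_lit 78) (nat_lit 0) (nat_lit 0) (XT.lf (nat_lit 0) (nat_lit 2455140345) (nat_lit 608) (nat_lit 4009159218) (nat_lit 684) (nat_lit 4894501306) (nat_lit 347) (nat_lit 5) (nat_lit 355) (nat_lit 5) (nat_lit 356) (nat_lit 5) (nat_lit 384) (nat_lit 362) (nat_lit 274)) (XT.lf (nat_lit 0) (nat_lit 8331094902) (nat_lit 684) (nat_lit 2399894327) (nat_lit 76) (nat_lit 799538645) (nat_lit 347) (nat_lit 5) (nat_lit 356) (nat_lit 5) (nat_lit 348) (nat_lit 5) (nat_lit 385) (nat_lit 362) (nat_lit 273)))) (XT.nd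 (nat_lit 156) (nat_lit 1140) (nat_lit 0) (XT.nd (nat_lit 78) (nat_lit 76) (nat_lit 0) (XT.lf (nat_lit 0) (nat_lit 4320661311) (nat_lit 608) (nat_lit 5991310021) (nat_lit 684) (nat_lit 1393693039) (nat_lit 339) (nat_lit 5) (nat_lit 347) (nat_lit 5) (nat_lit 348) (nat_lit 5) (nat_lit 386) (nat_lit 362) (nat_lit 272)) (XT.lf (nat_lit 0) (nat_lit 458676619) (nat_lit 684) (nat_lit 621192153) (nat_lit 76) (nat_lit 10806005091) (nat_lit 338) (nat_lit 5) (nat_lit 347) (nat_lit 5) (nat_lit 339) (nat_lit 5) (nat_lit 387) (nat_lit 362) (nat_lit 271))) (XT.nd (nat_lit 78) (nat_lit 608) (nat_lit 0) (XT.lf (nat_lit 0) (nat_lit 2417203766) (nat_lit 608) (nat_lit 5674078573) (nat_lit 76) (nat_lit 3977435384) (nat_lit 331) (nat_lit 5) (nat_lit 339) (nat_lit 5) (nat_lit 332) (nat_lit 5) (nat_lit 388) (nat_lit 362) (nat_lit 270)) (XT.lf (nat_lit 0) (nat_lit 1369871314) (nat_lit 608) (nat_lit 3072988228) (nat_lit 684)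 (nat_lit 7813936173) (nat_lit 323) (nat_lit 5) (nat_lit 331) (nat_lit 5) (nat_lit 332) (nat_lit 5) (nat_lit 389) (nat_lit 362) (nat_lit 269))))))) (XT.nd (nat_lit 1170) (nat_lit 3496) (nat_lit 0) (XT.nd (nat_lit 546) (nat_lit 2280) (nat_lit 0) (XT.nd (nat_lit 234) (nat_lit 1596) (nat_lit 0) (XT.nd (nat_lit 78) (nat_lit 532) (nat_lit 0) (XT.lf (nat_lit 0) (nat_lit 6585878969) (nat_lit 684) (nat_lit 3751389662) (nat_lit 76) (nat_lit 2111549596) (nat_lit 323) (nat_lit 5) (nat_lit 332) (nat_lit 5) (nat_lit 324) (nat_lit 5) (nat_lit 390) (nat_lit 362) (nat_lit 268)) (XT.nd (nat_lit 78) (nat_lit 0) (nat_lit 0) (XT.lf (nat_lit 0) (nat_lit 3615688819) (nat_lit 532) (nat_lit 5221888769) (nat_lit 608) (nat_lit 3807692168) (nat_lit 316) (nat_lit 5) (nat_lit 323) (nat_lit 5) (nat_lit 324) (nat_lit 5) (nat_lit 391) (nat_lit 362) (nat_lit 267)) (XT.lf (nat_lit 0) (nat_lit 11175112558) (nat_lit 608) (nat_lit 1589647645)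 (nat_lit 76) (nat_lit 82306067) (nat_lit 316) (nat_lit 5) (nat_lit 324) (nat_lit 5) (nat_lit 317) (nat_lit 5) (nat_lit 392) (nat_lit 362) (nat_lit 266)))) (XT.nd (nat_lit 156) (nat_lit 532) (nat_lit 0) (XT.nd (nat_lit 78) (nat_lit 456) (nat_lit 0) (XT.lf (nat_lit 0) (nat_lit 609146404) (nat_lit 608) (nat_lit 6939337518) (nat_lit 76) (nat_lit 5503532837) (nat_lit 308) (nat_lit 5) (nat_lit 316) (nat_lit 5) (nat_lit 309) (nat_lit 5) (nat_lit 393) (nat_lit 362) (nat_lit 265)) (XT.lf (nat_lit 0) (nat_lit 792250869) (nat_lit 456) (nat_lit 2136995098) (nat_lit 532) (nat_lit 10333248043) (nat_lit 302) (nat_lit 5) (nat_lit 308) (nat_lit 5) (nat_lit 309) (nat_lit 5) (nat_lit 394) (nat_lit 362) (nat_lit 264))) (XT.nd (nat_lit 78) (nat_lit 532) (nat_lit 0) (XT.lf (nat_lit 0) (nat_lit 5403426434) (nat_lit 532) (nat_lit 4635730684) (nat_lit 76) (nat_lit 3437594125) (nat_lit 302) (nat_lit 5) (nat_lit 309) (nat_lit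 5) (nat_lit 303) (nat_lit 5) (nat_lit 395) (nat_lit 362) (nat_lit 263)) (XT.lf (nat_lit 0) (nat_lit 3457948383) (nat_lit 532) (nat_lit 4529518542) (nat_lit 608) (nat_lit 5708900229) (nat_lit 295) (nat_lit 5) (nat_lit 302) (nat_lit 5) (nat_lit 303) (nat_lit 5) (nat_lit 396) (nat_lit 362) (nat_lit 262))))) (XT.nd (nat_lit 312) (nat_lit 1292) (nat_lit 0) (XT.nd (nat_lit 156) (nat_lit 532) (nat_lit 0) (XT.nd (nat_lit 78) (nat_lit 456) (nat_lit 0) (XT.lf (nat_lit 0) (nat_lit 10688851892) (nat_lit 608) (nat_lit 2065663996) (nat_lit 76) (nat_lit 1166860957) (nat_lit 295) (nat_lit 5) (nat_lit 303) (nat_lit 5) (nat_lit 296) (nat_lit 5) (nat_lit 397) (nat_lit 362) (nat_lit 261)) (XT.lf (nat_lit 0) (nat_lit 6410688634) (nat_lit 456) (nat_lit 7149135305) (nat_lit 532) (nat_lit 590656522) (nat_lit 289) (nat_lit 5) (nat_lit 295) (nat_lit 5) (nat_lit 296) (nat_lit 5) (nat_lit 398) (nat_lit 362) (nat_lit 260))) (XT.nd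 (nat_lit 78) (nat_lit 0) (nat_lit 0) (XT.lf (nat_lit 0) (nat_lit 770214703) (nat_lit 456) (nat_lit 1329364860) (nat_lit 532) (nat_lit 12285942699) (nat_lit 282) (nat_lit 5) (nat_lit 288) (nat_lit 5) (nat_lit 289) (nat_lit 5) (nat_lit 399) (nat_lit 362) (nat_lit 259)) (XT.lf (nat_lit 0) (nat_lit 4964907427) (nat_lit 532) (nat_lit 5004797054) (nat_lit 76) (nat_lit 4654547705) (nat_lit 282) (nat_lit 5) (nat_lit 289) (nat_lit 5) (nat_lit 283) (nat_lit 5) (nat_lit 400) (nat_lit 362) (nat_lit 258)))) (XT.nd (nat_lit 156) (nat_lit 912) (nat_lit 0) (XT.nd (nat_lit 78) (nat_lit 0) (nat_lit 0) (XT.lf (nat_lit 0) (nat_lit 3905483310) (nat_lit 380) (nat_lit 4044408878) (nat_lit 456) (nat_lit 6919240908) (nat_lit 277) (nat_lit 5) (nat_lit 282) (nat_lit 5) (nat_lit 283) (nat_lit 5) (nat_lit 401) (nat_lit 362) (nat_lit 257)) (XT.lf (nat_lit 0) (nat_lit 11078492583) (nat_lit 456) (nat_lit 1976306544) (nat_lit 76) (nat_lit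 2064939324) (nat_lit 277) (nat_lit 5) (nat_lit 283) (nat_lit 5) (nat_lit 278) (nat_lit 5) (nat_lit 402) (nat_lit 362) (nat_lit 256))) (XT.nd (nat_lit 78) (nat_lit 456) (nat_lit 0) (XT.lf (nat_lit 0) (nat_lit 7363091405) (nat_lit 456) (nat_lit 7032408097) (nat_lit 532) (nat_lit 979526009) (nat_lit 271) (nat_lit 5) (nat_lit 277) (nat_lit 5) (nat_lit 278) (nat_lit 5) (nat_lit 403) (nat_lit 362) (nat_lit 255)) (XT.lf (nat_lit 0) (nat_lit 1370135471) (nat_lit 380) (nat_lit 778651578) (nat_lit 456) (nat_lit 13488042234) (nat_lit 265) (nat_lit 5) (nat_lit 270) (nat_lit 5) (nat_lit 271) (nat_lit 5) (nat_lit 404) (nat_lit 362) (nat_lit 254)))))) (XT.nd (nat_lit 624) (nat_lit 1596) (nat_lit 0) (XT.nd (nat_lit 312) (nat_lit 1140) (nat_lit 0) (XT.nd (nat_lit 156) (nat_lit 380) (nat_lit 0) (XT.nd (nat_lit 78) (nat_lit 380) (nat_lit 0) (XT.lf (nat_lit 0) (nat_lit 5471459088) (nat_lit 456) (nat_lit 4792622689) (nat_lit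 76) (nat_lit 5638508530) (nat_lit 265) (nat_lit 5) (nat_lit 271) (nat_lit 5) (nat_lit 266) (nat_lit 5) (nat_lit 405) (nat_lit 362) (nat_lit 253)) (XT.lf (nat_lit 0) (nat_lit 5035311636) (nat_lit 380) (nat_lit 3899133629) (nat_lit 456) (nat_lit 7240659878) (nat_lit 260) (nat_lit 5) (nat_lit 265) (nat_lit 5) (nat_lit 266) (nat_lit 5) (nat_lit 406) (nat_lit 362) (nat_lit 252))) (XT.nd (nat_lit 78) (nat_lit 380) (nat_lit 0) (XT.lf (nat_lit 0) (nat_lit 12560455964) (nat_lit 456) (nat_lit 1245138843) (nat_lit 76) (nat_lit 2648426569) (nat_lit 260) (nat_lit 5) (nat_lit 266) (nat_lit 5) (nat_lit 261) (nat_lit 5) (nat_lit 407) (nat_lit 362) (nat_lit 251)) (XT.lf (nat_lit 0) (nat_lit 9064133030) (nat_lit 380) (nat_lit 7342015483) (nat_lit 456) (nat_lit 331829536) (nat_lit 255) (nat_lit 5) (nat_lit 260) (nat_lit 5) (nat_lit 261) (nat_lit 5) (nat_lit 408) (nat_lit 362) (nat_lit 250)))) (XT.nd (nat_lit 156) (nat_lit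 684) (nat_lit 0) (XT.nd (nat_lit 78) (nat_lit 0) (nat_lit 0) (XT.lf (nat_lit 0) (nat_lit 2677597569) (nat_lit 380) (nat_lit 617744071) (nat_lit 456) (nat_lit 13733438673) (nat_lit 249) (nat_lit 5) (nat_lit 254) (nat_lit 5) (nat_lit 255) (nat_lit 5) (nat_lit 409) (nat_lit 362) (nat_lit 249)) (XT.lf (nat_lit 0) (nat_lit 7148991057) (nat_lit 456) (nat_lit 3914544161) (nat_lit 76) (nat_lit 6260942886) (nat_lit 249) (nat_lit 5) (nat_lit 255) (nat_lit 5) (nat_lit 250) (nat_lit 5) (nat_lit 410) (nat_lit 362) (nat_lit 248))) (XT.nd (nat_lit 78) (nat_lit 380) (nat_lit 0) (XT.lf (nat_lit 0) (nat_lit 6944432375) (nat_lit 304) (nat_lit 4232547909) (nat_lit 380) (nat_lit 6450304636) (nat_lit 245) (nat_lit 5) (nat_lit 249) (nat_lit 5) (nat_lit 250) (nat_lit 5) (nat_lit 411) (nat_lit 362) (nat_lit 247)) (XT.lf (nat_lit 0) (nat_lit 228229190) (nat_lit 380) (nat_lit 15152664045) (nat_lit 456) (nat_lit 2556630182) (nat_lit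 240) (nat_lit 5) (nat_lit 245) (nat_lit 5) (nat_lit 246) (nat_lit 5) (nat_lit 412) (nat_lit 362) (nat_lit 246))))) (XT.nd (nat_lit 312) (nat_lit 912) (nat_lit 0) (XT.nd (nat_lit 156) (nat_lit 304) (nat_lit 0) (XT.nd (nat_lit 78) (nat_lit 304) (nat_lit 0) (XT.lf (nat_lit 0) (nat_lit 1562434251) (nat_lit 456) (nat_lit 6645546470) (nat_lit 76) (nat_lit 10044560599) (nat_lit 239) (nat_lit 5) (nat_lit 245) (nat_lit 5) (nat_lit 240) (nat_lit 5) (nat_lit 413) (nat_lit 362) (nat_lit 245)) (XT.lf (nat_lit 0) (nat_lit 4798638073) (nat_lit 304) (nat_lit 987678458) (nat_lit 380) (nat_lit 12788954884) (nat_lit 235) (nat_lit 5) (nat_lit 239) (nat_lit 5) (nat_lit 240) (nat_lit 5) (nat_lit 414) (nat_lit 362) (nat_lit 244))) (XT.nd (nat_lit 78) (nat_lit 304) (nat_lit 0) (XT.lf (nat_lit 0) (nat_lit 10253328763) (nat_lit 380) (nat_lit 2265898345) (nat_lit 76) (nat_lit 6384963900) (nat_lit 235) (nat_lit 5) (nat_lit 240)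 (nat_lit 5) (nat_lit 236) (nat_lit 5) (nat_lit 415) (nat_lit 362) (nat_lit 243)) (XT.lf (nat_lit 0) (nat_lit 9751298504) (nat_lit 304) (nat_lit 5193604287) (nat_lit 380) (nat_lit 4295358856) (nat_lit 231) (nat_lit 5) (nat_lit 235) (nat_lit 5) (nat_lit 236) (nat_lit 5) (nat_lit 416) (nat_lit 362) (nat_lit 242)))) (XT.nd (nat_lit 156) (nat_lit 532) (nat_lit 0) (XT.nd (nat_lit 78) (nat_lit 0) (nat_lit 0) (XT.lf (nat_lit 0) (nat_lit 245516801) (nat_lit 380) (nat_lit 16988984615) (nat_lit 76) (nat_lit 2350105046) (nat_lit 226) (nat_lit 5) (nat_lit 231) (nat_lit 5) (nat_lit 227) (nat_lit 5) (nat_lit 417) (nat_lit 362) (nat_lit 241)) (XT.lf (nat_lit 0) (nat_lit 4971708379) (nat_lit 380) (nat_lit 4813605859) (nat_lit 76) (nat_lit 10148628872) (nat_lit 226) (nat_lit 5) (nat_lit 231) (nat_lit 5) (nat_lit 227) (nat_lit 5) (nat_lit 418) (nat_lit 362) (nat_lit 240))) (XT.nd (nat_lit 78) (nat_lit 228) (nat_lit 0)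 (XT.lf (nat_lit 0) (nat_lit 7861450322) (nat_lit 304) (nat_lit 2041407995) (nat_lit 380) (nat_lit 10389006361) (nat_lit 222) (nat_lit 5) (nat_lit 226) (nat_lit 5) (nat_lit 227) (nat_lit 5) (nat_lit 419) (nat_lit 362) (nat_lit 239)) (XT.lf (nat_lit 0) (nat_lit 285297424) (nat_lit 228) (nat_lit 14793246652) (nat_lit 304) (nat_lit 5579081778) (nat_lit 219) (nat_lit 5) (nat_lit 222) (nat_lit 5) (nat_lit 223) (nat_lit 5) (nat_lit 420) (nat_lit 362) (nat_lit 238))))))))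
noncomputable def xc151 : XT := (XT.nd (nat_lit 2418) (nat_lit 3192) (nat_lit 0) (XT.nd (nat_lit 1170) (nat_lit 2052) (nat_lit 0) (XT.nd (nat_lit 546) (nat_lit 1292) (nat_lit 0) (XT.nd (nat_lit 234) (nat_lit 836) (nat_lit 0) (XT.nd (nat_lit 78) (nat_lit 380) (nat_lit 0) (XT.lf (nat_lit 0) (nat_lit 13597758816) (nat_lit 228) (nat_lit 6945174546) (nat_lit 304) (nat_lit 487423515) (nat_lit 219) (nat_lit 5) (nat_lit 222) (nat_lit 5) (nat_lit 223) (nat_lit 5) (nat_lit 421) (nat_lit 362) (nat_lit 237)) (XT.nd (nat_lit 78) (nat_lit 0) (nat_lit 0) (XT.lf (nat_lit 0) (nat_lit 4721354129) (nat_lit 380) (nat_lit 15476394070) (nat_lit 76) (nat_lit 1213433953) (nat_lit 214) (nat_lit 5) (nat_lit 219) (nat_lit 5) (nat_lit 215) (nat_lit 5) (nat_lit 422) (nat_lit 362) (nat_lit 236)) (XT.lf (nat_lit 0) (nat_lit 10209396738) (nat_lit 380) (nat_lit 2038664893) (nat_lit 76) (nat_lit 9551241826) (nat_lit 214) (nat_lit 5)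 (nat_lit 219) (nat_lit 5) (nat_lit 215) (nat_lit 5) (nat_lit 423) (nat_lit 362) (nat_lit 235)))) (XT.nd (nat_lit 156) (nat_lit 304) (nat_lit 0) (XT.nd (nat_lit 78) (nat_lit 304) (nat_lit 0) (XT.lf (nat_lit 0) (nat_lit 12018558478) (nat_lit 228) (nat_lit 3947630986) (nat_lit 304) (nat_lit 6229755671) (nat_lit 211) (nat_lit 5) (nat_lit 214) (nat_lit 5) (nat_lit 215) (nat_lit 5) (nat_lit 424) (nat_lit 362) (nat_lit 234)) (XT.lf (nat_lit 0) (nat_lit 3949798059) (nat_lit 304) (nat_lit 18037555806) (nat_lit 380) (nat_lit 614382161) (nat_lit 207) (nat_lit 5) (nat_lit 211) (nat_lit 5) (nat_lit 212) (nat_lit 5) (nat_lit 425) (nat_lit 362) (nat_lit 233))) (XT.nd (nat_lit 78) (nat_lit 228) (nat_lit 0) (XT.lf (nat_lit 0) (nat_lit 5200172293) (nat_lit 380) (nat_lit 4415291339) (nat_lit 76) (nat_lit 13398798422) (nat_lit 206) (nat_lit 5) (nat_lit 211) (nat_lit 5) (nat_lit 207) (nat_lit 5) (nat_lit 426) (nat_lit 362)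 (nat_lit 232)) (XT.lf (nat_lit 0) (nat_lit 10428090748) (nat_lit 228) (nat_lit 838013632) (nat_lit 304) (nat_lit 12170198310) (nat_lit 203) (nat_lit 5) (nat_lit 206) (nat_lit 5) (nat_lit 207) (nat_lit 5) (nat_lit 427) (nat_lit 362) (nat_lit 231))))) (XT.nd (nat_lit 312) (nat_lit 760) (nat_lit 0) (XT.nd (nat_lit 156) (nat_lit 228) (nat_lit 0) (XT.nd (nat_lit 78) (nat_lit 76) (nat_lit 0) (XT.lf (nat_lit 0) (nat_lit 1877098963) (nat_lit 228) (nat_lit 15767969272) (nat_lit 304) (nat_lit 6222004696) (nat_lit 200) (nat_lit 5) (nat_lit 203) (nat_lit 5) (nat_lit 204) (nat_lit 5) (nat_lit 428) (nat_lit 362) (nat_lit 230)) (XT.lf (nat_lit 0) (nat_lit 36624045) (nat_lit 304) (nat_lit 6857777297) (nat_lit 76) (nat_lit 17412488586) (nat_lit 199) (nat_lit 5) (nat_lit 203) (nat_lit 5) (nat_lit 200) (nat_lit 5) (nat_lit 429) (nat_lit 362) (nat_lit 229))) (XT.nd (nat_lit 78) (nat_lit 0) (nat_lit 0) (XT.lf (nat_lit 0)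 (nat_lit 6455209657) (nat_lit 304) (nat_lit 15957245025) (nat_lit 76) (nat_lit 2342681008) (nat_lit 196) (nat_lit 5) (nat_lit 200) (nat_lit 5) (nat_lit 197) (nat_lit 5) (nat_lit 430) (nat_lit 362) (nat_lit 228)) (XT.lf (nat_lit 0) (nat_lit 13194113657) (nat_lit 304) (nat_lit 237341362) (nat_lit 76) (nat_lit 11781540982) (nat_lit 196) (nat_lit 5) (nat_lit 200) (nat_lit 5) (nat_lit 197) (nat_lit 5) (nat_lit 431) (nat_lit 362) (nat_lit 227)))) (XT.nd (nat_lit 156) (nat_lit 228) (nat_lit 0) (XT.nd (nat_lit 78) (nat_lit 304) (nat_lit 0) (XT.lf (nat_lit 0) (nat_lit 16254400164) (nat_lit 228) (nat_lit 4026899493) (nat_lit 304) (nat_lit 5398909018) (nat_lit 193) (nat_lit 5) (nat_lit 196) (nat_lit 5) (nat_lit 197) (nat_lit 5) (nat_lit 432) (nat_lit 362) (nat_lit 226)) (XT.lf (nat_lit 0) (nat_lit 1508621111) (nat_lit 304) (nat_lit 19020236701) (nat_lit 76) (nat_lit 5628670705) (nat_lit 189) (nat_lit 5) (nat_lit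 193) (nat_lit 5) (nat_lit 190) (nat_lit 5) (nat_lit 433) (nat_lit 362) (nat_lit 225))) (XT.nd (nat_lit 78) (nat_lit 228) (nat_lit 0) (XT.lf (nat_lit 0) (nat_lit 8640828528) (nat_lit 304) (nat_lit 2367117469) (nat_lit 76) (nat_lit 15635839399) (nat_lit 189) (nat_lit 5) (nat_lit 193) (nat_lit 5) (nat_lit 190) (nat_lit 5) (nat_lit 434) (nat_lit 362) (nat_lit 224)) (XT.lf (nat_lit 0) (nat_lit 15062982031) (nat_lit 228) (nat_lit 1059076128) (nat_lit 304) (nat_lit 11018520143) (nat_lit 186) (nat_lit 5) (nat_lit 189) (nat_lit 5) (nat_lit 190) (nat_lit 5) (nat_lit 435) (nat_lit 362) (nat_lit 223)))))) (XT.nd (nat_lit 624) (nat_lit 988) (nat_lit 0) (XT.nd (nat_lit 312) (nat_lit 456) (nat_lit 0) (XT.nd (nat_lit 156) (nat_lit 380) (nat_lit 0) (XT.nd (nat_lit 78) (nat_lit 76) (nat_lit 0) (XT.lf (nat_lit 0) (nat_lit 5413418250) (nat_lit 152) (nat_lit 18569129056) (nat_lit 228) (nat_lit 3665083009) (nat_lit 184)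 (nat_lit 5) (nat_lit 186) (nat_lit 5) (nat_lit 187) (nat_lit 5) (nat_lit 436) (nat_lit 362) (nat_lit 222)) (XT.lf (nat_lit 0) (nat_lit 3956684529) (nat_lit 228) (nat_lit 4555398320) (nat_lit 76) (nat_lit 19652963628) (nat_lit 183) (nat_lit 5) (nat_lit 186) (nat_lit 5) (nat_lit 184) (nat_lit 5) (nat_lit 437) (nat_lit 362) (nat_lit 221))) (XT.nd (nat_lit 78) (nat_lit 152) (nat_lit 0) (XT.lf (nat_lit 0) (nat_lit 11876785398) (nat_lit 304) (nat_lit 14840509635) (nat_lit 76) (nat_lit 1975301107) (nat_lit 180) (nat_lit 5) (nat_lit 184) (nat_lit 5) (nat_lit 181) (nat_lit 5) (nat_lit 438) (nat_lit 362) (nat_lit 220)) (XT.lf (nat_lit 0) (nat_lit 3640687938) (nat_lit 152) (nat_lit 16550218894) (nat_lit 228) (nat_lit 9040372934) (nat_lit 178) (nat_lit 5) (nat_lit 180) (nat_lit 5) (nat_lit 181) (nat_lit 5) (nat_lit 439) (nat_lit 362) (nat_lit 219)))) (XT.nd (nat_lit 156) (nat_lit 152) (nat_lit 0) (XT.nd (nat_lit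 78) (nat_lit 304) (nat_lit 0) (XT.lf (nat_lit 0) (nat_lit 22964489926) (nat_lit 152) (nat_lit 5930625959) (nat_lit 228) (nat_lit 886788097) (nat_lit 178) (nat_lit 5) (nat_lit 180) (nat_lit 5) (nat_lit 181) (nat_lit 5) (nat_lit 440) (nat_lit 362) (nat_lit 218)) (XT.lf (nat_lit 0) (nat_lit 7527678024) (nat_lit 304) (nat_lit 17715090982) (nat_lit 76) (nat_lit 5099226343) (nat_lit 174) (nat_lit 5) (nat_lit 178) (nat_lit 5) (nat_lit 175) (nat_lit 5) (nat_lit 441) (nat_lit 362) (nat_lit 217))) (XT.nd (nat_lit 78) (nat_lit 0) (nat_lit 0) (XT.lf (nat_lit 0) (nat_lit 1829184015) (nat_lit 152) (nat_lit 14484428557) (nat_lit 228) (nat_lit 14600907742) (nat_lit 172) (nat_lit 5) (nat_lit 174) (nat_lit 5) (nat_lit 175) (nat_lit 5) (nat_lit 442) (nat_lit 362) (nat_lit 216)) (XT.lf (nat_lit 0) (nat_lit 22307276576) (nat_lit 152) (nat_lit 3225878596) (nat_lit 228) (nat_lit 5965964958) (nat_lit 172) (nat_lit 5) (nat_lit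 174) (nat_lit 5) (nat_lit 175) (nat_lit 5) (nat_lit 443) (nat_lit 362) (nat_lit 215))))) (XT.nd (nat_lit 312) (nat_lit 456) (nat_lit 0) (XT.nd (nat_lit 156) (nat_lit 304) (nat_lit 0) (XT.nd (nat_lit 78) (nat_lit 0) (nat_lit 0) (XT.lf (nat_lit 0) (nat_lit 3054316070) (nat_lit 228) (nat_lit 20700198706) (nat_lit 76) (nat_lit 8340395994) (nat_lit 169) (nat_lit 5) (nat_lit 172) (nat_lit 5) (nat_lit 170) (nat_lit 5) (nat_lit 444) (nat_lit 362) (nat_lit 214)) (XT.lf (nat_lit 0) (nat_lit 12342331538) (nat_lit 228) (nat_lit 25842220) (nat_lit 76) (nat_lit 20335118223) (nat_lit 169) (nat_lit 5) (nat_lit 172) (nat_lit 5) (nat_lit 170) (nat_lit 5) (nat_lit 445) (nat_lit 362) (nat_lit 213))) (XT.nd (nat_lit 78) (nat_lit 152) (nat_lit 0) (XT.lf (nat_lit 0) (nat_lit 21676773336) (nat_lit 152) (nat_lit 432194250) (nat_lit 228) (nat_lit 11214957638) (nat_lit 167) (nat_lit 5) (nat_lit 169) (nat_lit 5) (nat_lit 170)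 (nat_lit 5) (nat_lit 446) (nat_lit 362) (nat_lit 212)) (XT.lf (nat_lit 0) (nat_lit 10136600219) (nat_lit 152) (nat_lit 22235377642) (nat_lit 228) (nat_lit 1585098350) (nat_lit 165) (nat_lit 5) (nat_lit 167) (nat_lit 5) (nat_lit 168) (nat_lit 5) (nat_lit 447) (nat_lit 362) (nat_lit 211)))) (XT.nd (nat_lit 156) (nat_lit 228) (nat_lit 0) (XT.nd (nat_lit 78) (nat_lit 152) (nat_lit 0) (XT.lf (nat_lit 0) (nat_lit 8285761741) (nat_lit 228) (nat_lit 1893646571) (nat_lit 76) (nat_lit 24423968429) (nat_lit 164) (nat_lit 5) (nat_lit 167) (nat_lit 5) (nat_lit 165) (nat_lit 5) (nat_lit 448) (nat_lit 362) (nat_lit 210)) (XT.lf (nat_lit 0) (nat_lit 18638968841) (nat_lit 228) (nat_lit 14214476915) (nat_lit 76) (nat_lit 2408607305) (nat_lit 162) (nat_lit 5) (nat_lit 165) (nat_lit 5) (nat_lit 163) (nat_lit 5) (nat_lit 449) (nat_lit 362) (nat_lit 209))) (XT.nd (nat_lit 78) (nat_lit 76) (nat_lit 0) (XT.lf (nat_lit 0) (nat_lit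 8832700908) (nat_lit 152) (nat_lit 20667019398) (nat_lit 228) (nat_lit 6434860922) (nat_lit 160) (nat_lit 5) (nat_lit 162) (nat_lit 5) (nat_lit 163) (nat_lit 5) (nat_lit 450) (nat_lit 362) (nat_lit 208)) (XT.lf (nat_lit 0) (nat_lit 4116724519) (nat_lit 228) (nat_lit 3815376474) (nat_lit 76) (nat_lit 28689906076) (nat_lit 159) (nat_lit 5) (nat_lit 162) (nat_lit 5) (nat_lit 160) (nat_lit 5) (nat_lit 451) (nat_lit 362) (nat_lit 207))))))) (XT.nd (nat_lit 1170) (nat_lit 1596) (nat_lit 0) (XT.nd (nat_lit 546) (nat_lit 760) (nat_lit 0) (XT.nd (nat_lit 234) (nat_lit 532) (nat_lit 0) (XT.nd (nat_lit 78) (nat_lit 152) (nat_lit 0) (XT.lf (nat_lit 0) (nat_lit 15097057188) (nat_lit 228) (nat_lit 16883160643) (nat_lit 76) (nat_lit 5340680488) (nat_lit 157) (nat_lit 5) (nat_lit 160) (nat_lit 5) (nat_lit 158) (nat_lit 5) (nat_lit 452) (nat_lit 362) (nat_lit 206)) (XT.nd (nat_lit 78) (nat_lit 0) (nat_lit 0) (XT.lf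 (nat_lit 0) (nat_lit 7510455062) (nat_lit 152) (nat_lit 19078211678) (nat_lit 228) (nat_lit 11446633561) (nat_lit 155) (nat_lit 5) (nat_lit 157) (nat_lit 5) (nat_lit 158) (nat_lit 5) (nat_lit 453) (nat_lit 362) (nat_lit 205)) (XT.lf (nat_lit 0) (nat_lit 32967866982) (nat_lit 152) (nat_lit 5619962149) (nat_lit 228) (nat_lit 178421073) (nat_lit 155) (nat_lit 5) (nat_lit 157) (nat_lit 5) (nat_lit 158) (nat_lit 5) (nat_lit 454) (nat_lit 362) (nat_lit 204)))) (XT.nd (nat_lit 156) (nat_lit 152) (nat_lit 0) (XT.nd (nat_lit 78) (nat_lit 152) (nat_lit 0) (XT.lf (nat_lit 0) (nat_lit 11471088193) (nat_lit 228) (nat_lit 19657273055) (nat_lit 76) (nat_lit 8379484357) (nat_lit 152) (nat_lit 5) (nat_lit 155) (nat_lit 5) (nat_lit 153) (nat_lit 5) (nat_lit 455) (nat_lit 362) (nat_lit 203)) (XT.lf (nat_lit 0) (nat_lit 6166397840) (nat_lit 152) (nat_lit 17466644347) (nat_lit 228) (nat_lit 16633597317) (nat_lit 150) (nat_lit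 5) (nat_lit 152) (nat_lit 5) (nat_lit 153) (nat_lit 5) (nat_lit 456) (nat_lit 362) (nat_lit 202))) (XT.nd (nat_lit 78) (nat_lit 152) (nat_lit 0) (XT.lf (nat_lit 0) (nat_lit 33154002442) (nat_lit 152) (nat_lit 3196934002) (nat_lit 228) (nat_lit 4691528328) (nat_lit 150) (nat_lit 5) (nat_lit 152) (nat_lit 5) (nat_lit 153) (nat_lit 5) (nat_lit 457) (nat_lit 362) (nat_lit 201)) (XT.lf (nat_lit 0) (nat_lit 7752619051) (nat_lit 152) (nat_lit 22545408308) (nat_lit 76) (nat_lit 11532574480) (nat_lit 148) (nat_lit 5) (nat_lit 150) (nat_lit 5) (nat_lit 149) (nat_lit 5) (nat_lit 458) (nat_lit 362) (nat_lit 200))))) (XT.nd (nat_lit 312) (nat_lit 304) (nat_lit 0) (XT.nd (nat_lit 156) (nat_lit 304) (nat_lit 0) (XT.nd (nat_lit 78) (nat_lit 0) (nat_lit 0) (XT.lf (nat_lit 0) (nat_lit 4796985225) (nat_lit 152) (nat_lit 15829772525) (nat_lit 228) (nat_lit 22009702886) (nat_lit 146) (nat_lit 5) (nat_lit 148) (nat_lit 5)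 (nat_lit 149) (nat_lit 5) (nat_lit 459) (nat_lit 362) (nat_lit 199)) (XT.lf (nat_lit 0) (nat_lit 33408441200) (nat_lit 152) (nat_lit 699177371) (nat_lit 228) (nat_lit 9352261686) (nat_lit 146) (nat_lit 5) (nat_lit 148) (nat_lit 5) (nat_lit 149) (nat_lit 5) (nat_lit 460) (nat_lit 362) (nat_lit 198))) (XT.nd (nat_lit 78) (nat_lit 152) (nat_lit 0) (XT.lf (nat_lit 0) (nat_lit 3932732662) (nat_lit 152) (nat_lit 25556563693) (nat_lit 76) (nat_lit 14808051398) (nat_lit 144) (nat_lit 5) (nat_lit 146) (nat_lit 5) (nat_lit 145) (nat_lit 5) (nat_lit 461) (nat_lit 362) (nat_lit 197)) (XT.lf (nat_lit 0) (nat_lit 3398578285) (nat_lit 152) (nat_lit 14164818981) (nat_lit 228) (nat_lit 27589711360) (nat_lit 142) (nat_lit 5) (nat_lit 144) (nat_lit 5) (nat_lit 145) (nat_lit 5) (nat_lit 462) (nat_lit 362) (nat_lit 196)))) (XT.nd (nat_lit 156) (nat_lit 152) (nat_lit 0) (XT.nd (nat_lit 78) (nat_lit 152) (nat_lit 0) (XT.lf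 (nat_lit 0) (nat_lit 31872190286) (nat_lit 228) (nat_lit 12311823686) (nat_lit 76) (nat_lit 1842452097) (nat_lit 142) (nat_lit 5) (nat_lit 145) (nat_lit 5) (nat_lit 143) (nat_lit 4) (nat_lit 463) (nat_lit 362) (nat_lit 195)) (XT.lf (nat_lit 0) (nat_lit 2013927) (nat_lit 152) (nat_lit 28700174043) (nat_lit 76) (nat_lit 18214578456) (nat_lit 140) (nat_lit 5) (nat_lit 142) (nat_lit 5) (nat_lit 141) (nat_lit 5) (nat_lit 464) (nat_lit 362) (nat_lit 194))) (XT.nd (nat_lit 78) (nat_lit 0) (nat_lit 0) (XT.lf (nat_lit 0) (nat_lit 1967427584) (nat_lit 152) (nat_lit 12468774626) (nat_lit 228) (nat_lit 33389238438) (nat_lit 138) (nat_lit 5) (nat_lit 140) (nat_lit 5) (nat_lit 141) (nat_lit 5) (nat_lit 465) (nat_lit 362) (nat_lit 193)) (XT.lf (nat_lit 0) (nat_lit 29630217105) (nat_lit 228) (nat_lit 14665841893) (nat_lit 76) (nat_lit 4455512071) (nat_lit 138) (nat_lit 5) (nat_lit 141) (nat_lit 5) (nat_lit 139) (nat_lit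 4) (nat_lit 466) (nat_lit 362) (nat_lit 192)))))) (XT.nd (nat_lit 624) (nat_lit 836) (nat_lit 0) (XT.nd (nat_lit 312) (nat_lit 380) (nat_lit 0) (XT.nd (nat_lit 156) (nat_lit 76) (nat_lit 0) (XT.nd (nat_lit 78) (nat_lit 228) (nat_lit 0) (XT.lf (nat_lit 0) (nat_lit 17671034581) (nat_lit 76) (nat_lit 27895779217) (nat_lit 152) (nat_lit 4130068763) (nat_lit 137) (nat_lit 5) (nat_lit 138) (nat_lit 5) (nat_lit 139) (nat_lit 4) (nat_lit 467) (nat_lit 362) (nat_lit 191)) (XT.lf (nat_lit 0) (nat_lit 499657632) (nat_lit 152) (nat_lit 10738397231) (nat_lit 228) (nat_lit 39424802181) (nat_lit 134) (nat_lit 5) (nat_lit 136) (nat_lit 5) (nat_lit 137) (nat_lit 5) (nat_lit 468) (nat_lit 362) (nat_lit 190))) (XT.nd (nat_lit 78) (nat_lit 76) (nat_lit 0) (XT.lf (nat_lit 0) (nat_lit 27370931095) (nat_lit 228) (nat_lit 17113883408) (nat_lit 76) (nat_lit 7160167930) (nat_lit 134) (nat_lit 5) (nat_lit 137) (nat_lit 5) (nat_lit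 135) (nat_lit 4) (nat_lit 469) (nat_lit 362) (nat_lit 189)) (XT.lf (nat_lit 0) (nat_lit 17143019449) (nat_lit 76) (nat_lit 27109542301) (nat_lit 152) (nat_lit 8396066788) (nat_lit 133) (nat_lit 5) (nat_lit 134) (nat_lit 5) (nat_lit 135) (nat_lit 4) (nat_lit 470) (nat_lit 362) (nat_lit 188)))) (XT.nd (nat_lit 156) (nat_lit 152) (nat_lit 0) (XT.nd (nat_lit 78) (nat_lit 152) (nat_lit 0) (XT.lf (nat_lit 0) (nat_lit 7971156437) (nat_lit 152) (nat_lit 989064413) (nat_lit 76) (nat_lit 44714822386) (nat_lit 132) (nat_lit 5) (nat_lit 134) (nat_lit 5) (nat_lit 133) (nat_lit 5) (nat_lit 471) (nat_lit 362) (nat_lit 187)) (XT.lf (nat_lit 0) (nat_lit 25090096575) (nat_lit 228) (nat_lit 19663402427) (nat_lit 76) (nat_lit 9963373907) (nat_lit 130) (nat_lit 5) (nat_lit 133) (nat_lit 5) (nat_lit 131) (nat_lit 4) (nat_lit 472) (nat_lit 362) (nat_lit 186))) (XT.nd (nat_lit 78) (nat_lit 76) (nat_lit 0) (XT.lf (nat_lit 0)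 (nat_lit 16631869286) (nat_lit 76) (nat_lit 26343276992) (nat_lit 152) (nat_lit 12807234951) (nat_lit 129) (nat_lit 5) (nat_lit 130) (nat_lit 5) (nat_lit 131) (nat_lit 4) (nat_lit 473) (nat_lit 362) (nat_lit 185)) (XT.lf (nat_lit 0) (nat_lit 4623150361) (nat_lit 152) (nat_lit 2511972954) (nat_lit 76) (nat_lit 49737596956) (nat_lit 128) (nat_lit 5) (nat_lit 130) (nat_lit 5) (nat_lit 129) (nat_lit 5) (nat_lit 474) (nat_lit 362) (nat_lit 184))))) (XT.nd (nat_lit 312) (nat_lit 380) (nat_lit 0) (XT.nd (nat_lit 156) (nat_lit 228) (nat_lit 0) (XT.nd (nat_lit 78) (nat_lit 76) (nat_lit 0) (XT.lf (nat_lit 0) (nat_lit 22783280099) (nat_lit 228) (nat_lit 22322224300) (nat_lit 76) (nat_lit 12872533587) (nat_lit 126) (nat_lit 5) (nat_lit 129) (nat_lit 5) (nat_lit 127) (nat_lit 4) (nat_lit 475) (nat_lit 362) (nat_lit 183)) (XT.lf (nat_lit 0) (nat_lit 16136927185) (nat_lit 76) (nat_lit 25596728157) (nat_lit 152) (nat_lit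 17375496641) (nat_lit 125) (nat_lit 5) (nat_lit 126) (nat_lit 5) (nat_lit 127) (nat_lit 4) (nat_lit 476) (nat_lit 362) (nat_lit 182))) (XT.nd (nat_lit 78) (nat_lit 152) (nat_lit 0) (XT.lf (nat_lit 0) (nat_lit 1180961523) (nat_lit 152) (nat_lit 4083081396) (nat_lit 76) (nat_lit 55003223047) (nat_lit 124) (nat_lit 5) (nat_lit 126) (nat_lit 5) (nat_lit 125) (nat_lit 5) (nat_lit 477) (nat_lit 362) (nat_lit 181)) (XT.lf (nat_lit 0) (nat_lit 20445840281) (nat_lit 228) (nat_lit 25098574166) (nat_lit 76) (nat_lit 15895519169) (nat_lit 122) (nat_lit 5) (nat_lit 125) (nat_lit 5) (nat_lit 123) (nat_lit 4) (nat_lit 478) (nat_lit 362) (nat_lit 180)))) (XT.nd (nat_lit 156) (nat_lit 304) (nat_lit 0) (XT.nd (nat_lit 78) (nat_lit 0) (nat_lit 0) (XT.lf (nat_lit 0) (nat_lit 15657573847) (nat_lit 76) (nat_lit 24869611679) (nat_lit 152) (nat_lit 22113440166) (nat_lit 121) (nat_lit 5) (nat_lit 122) (nat_lit 5) (nat_lit 123)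 (nat_lit 4) (nat_lit 479) (nat_lit 362) (nat_lit 179)) (XT.lf (nat_lit 0) (nat_lit 58139888838) (nat_lit 76) (nat_lit 3318841610) (nat_lit 152) (nat_lit 2411175303) (nat_lit 121) (nat_lit 5) (nat_lit 122) (nat_lit 5) (nat_lit 123) (nat_lit 4) (nat_lit 480) (nat_lit 362) (nat_lit 178))) (XT.nd (nat_lit 78) (nat_lit 76) (nat_lit 0) (XT.lf (nat_lit 0) (nat_lit 18072916540) (nat_lit 228) (nat_lit 28001106757) (nat_lit 76) (nat_lit 19040692957) (nat_lit 118) (nat_lit 5) (nat_lit 121) (nat_lit 5) (nat_lit 119) (nat_lit 4) (nat_lit 481) (nat_lit 362) (nat_lit 177)) (XT.lf (nat_lit 0) (nat_lit 15193224429) (nat_lit 76) (nat_lit 24161619362) (nat_lit 152) (nat_lit 27034357844) (nat_lit 117) (nat_lit 5) (nat_lit 118) (nat_lit 5) (nat_lit 119) (nat_lit 4) (nat_lit 482) (nat_lit 362) (nat_lit 176))))))))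
noncomputable def xc152 : XT := (XT.nd (nat_lit 45474) (nat_lit 0) (nat_lit 9576) (XT.nd (nat_lit 44304) (nat_lit 0) (nat_lit 18696) (XT.nd (nat_lit 546) (nat_lit 152) (nat_lit 0) (XT.nd (nat_lit 234) (nat_lit 228) (nat_lit 0) (XT.nd (nat_lit 78) (nat_lit 228) (nat_lit 0) (XT.lf (nat_lit 0) (nat_lit 60246673216) (nat_lit 76) (nat_lit 1305804791) (nat_lit 152) (nat_lit 6141126095) (nat_lit 117) (nat_lit 5) (nat_lit 118) (nat_lit 5) (nat_lit 119) (nat_lit 4) (nat_lit 483) (nat_lit 362) (nat_lit 175)) (XT.nd (nat_lit 78) (nat_lit 76) (nat_lit 0) (XT.lf (nat_lit 0) (nat_lit 15659416762) (nat_lit 152) (nat_lit 31038937489) (nat_lit 76) (nat_lit 22316931093) (nat_lit 115) (nat_lit 5) (nat_lit 117) (nat_lit 5) (nat_lit 116) (nat_lit 4) (nat_lit 484) (nat_lit 362) (nat_lit 174)) (XT.lf (nat_lit 0) (nat_lit 14743325708) (nat_lit 76) (nat_lit 23472423236) (nat_lit 152) (nat_lit 32152287874) (nat_lit 114) (nat_lit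 5) (nat_lit 115) (nat_lit 5) (nat_lit 116) (nat_lit 4) (nat_lit 485) (nat_lit 362) (nat_lit 173)))) (XT.nd (nat_lit 156) (nat_lit 76) (nat_lit 0) (XT.nd (nat_lit 78) (nat_lit 152) (nat_lit 0) (XT.lf (nat_lit 0) (nat_lit 61764252412) (nat_lit 152) (nat_lit 9234595013) (nat_lit 0) (nat_lit 753058971) (nat_lit 114) (nat_lit 5) (nat_lit 116) (nat_lit 4) (nat_lit 114) (nat_lit 4) (nat_lit 486) (nat_lit 362) (nat_lit 172)) (XT.lf (nat_lit 0) (nat_lit 13200003859) (nat_lit 152) (nat_lit 34221674996) (nat_lit 76) (nat_lit 25733649563) (nat_lit 112) (nat_lit 5) (nat_lit 114) (nat_lit 5) (nat_lit 113) (nat_lit 4) (nat_lit 487) (nat_lit 362) (nat_lit 171))) (XT.nd (nat_lit 78) (nat_lit 0) (nat_lit 0) (XT.lf (nat_lit 0) (nat_lit 14307353533) (nat_lit 76) (nat_lit 22801679345) (nat_lit 152) (nat_lit 37482059093) (nat_lit 111) (nat_lit 5) (nat_lit 112) (nat_lit 5) (nat_lit 113) (nat_lit 4) (nat_lit 488) (nat_lit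 362) (nat_lit 170)) (XT.lf (nat_lit 0) (nat_lit 62103689817) (nat_lit 152) (nat_lit 11104022439) (nat_lit 0) (nat_lit 2851165463) (nat_lit 111) (nat_lit 5) (nat_lit 113) (nat_lit 4) (nat_lit 111) (nat_lit 4) (nat_lit 489) (nat_lit 362) (nat_lit 169))))) (XT.nd (nat_lit 43446) (nat_lit 0) (nat_lit 22648) (XT.nd (nat_lit 43290) (nat_lit 0) (nat_lit 22648) (XT.nd (nat_lit 43212) (nat_lit 0) (nat_lit 23712) (XT.lf (nat_lit 0) (nat_lit 10689081214) (nat_lit 152) (nat_lit 37559455228) (nat_lit 76) (nat_lit 29300832512) (nat_lit 109) (nat_lit 5) (nat_lit 111) (nat_lit 5) (nat_lit 110) (nat_lit 4) (nat_lit 490) (nat_lit 362) (nat_lit 168)) (XT.lf (nat_lit 0) (nat_lit 1903711910) (nat_lit 0) (nat_lit 1903711910) (nat_lit 988) (nat_lit 537282868) (nat_lit 421) (nat_lit 5) (nat_lit 421) (nat_lit 3) (nat_lit 434) (nat_lit 3) (nat_lit 363) (nat_lit 363) (nat_lit 294))) (XT.nd (nat_lit 78) (nat_lit 1064) (nat_lit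 0) (XT.lf (nat_lit 0) (nat_lit 8262818748) (nat_lit 0) (nat_lit 444059049) (nat_lit 988) (nat_lit 83542557) (nat_lit 421) (nat_lit 5) (nat_lit 421) (nat_lit 3) (nat_lit 434) (nat_lit 3) (nat_lit 364) (nat_lit 363) (nat_lit 293)) (XT.lf (nat_lit 0) (nat_lit 948581618) (nat_lit 1064) (nat_lit 4917122800) (nat_lit 1140) (nat_lit 3027593090) (nat_lit 407) (nat_lit 5) (nat_lit 421) (nat_lit 5) (nat_lit 422) (nat_lit 5) (nat_lit 365) (nat_lit 363) (nat_lit 292)))) (XT.nd (nat_lit 156) (nat_lit 0) (nat_lit 76) (XT.nd (nat_lit 78) (nat_lit 0) (nat_lit 76) (XT.lf (nat_lit 0) (nat_lit 1982334737) (nat_lit 1064) (nat_lit 399451736) (nat_lit 1140) (nat_lit 6618279362) (nat_lit 407) (nat_lit 5) (nat_lit 421) (nat_lit 5) (nat_lit 422) (nat_lit 5) (nat_lit 366) (nat_lit 363) (nat_lit 291)) (XT.lf (nat_lit 0) (nat_lit 3064425700) (nat_lit 1064) (nat_lit 4804386985) (nat_lit 1140) (nat_lit 1240704767) (nat_lit 408)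 (nat_lit 5) (nat_lit 422) (nat_lit 5) (nat_lit 423) (nat_lit 5) (nat_lit 367) (nat_lit 363) (nat_lit 290))) (XT.nd (nat_lit 78) (nat_lit 0) (nat_lit 0) (XT.lf (nat_lit 0) (nat_lit 4171304831) (nat_lit 1064) (nat_lit 108070753) (nat_lit 1140) (nat_lit 4943107269) (nat_lit 408) (nat_lit 5) (nat_lit 422) (nat_lit 5) (nat_lit 423) (nat_lit 5) (nat_lit 368) (nat_lit 363) (nat_lit 289)) (XT.lf (nat_lit 76) (nat_lit 4802107723) (nat_lit 0) (nat_lit 521142224) (nat_lit 1140) (nat_lit 4015231483) (nat_lit 409) (nat_lit 5) (nat_lit 408) (nat_lit 5) (nat_lit 423) (nat_lit 5) (nat_lit 369) (nat_lit 363) (nat_lit 288)))))) (XT.nd (nat_lit 546) (nat_lit 3040) (nat_lit 0) (XT.nd (nat_lit 234) (nat_lit 1064) (nat_lit 0) (XT.nd (nat_lit 78) (nat_lit 0) (nat_lit 0) (XT.lf (nat_lit 76) (nat_lit 356973983) (nat_lit 0) (nat_lit 6156138882) (nat_lit 1140) (nat_lit 2944746316) (nat_lit 410) (nat_lit 5) (nat_lit 409) (nat_lit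 5) (nat_lit 424) (nat_lit 5) (nat_lit 370) (nat_lit 363) (nat_lit 287)) (XT.nd (nat_lit 78) (nat_lit 0) (nat_lit 76) (XT.lf (nat_lit 76) (nat_lit 5463403117) (nat_lit 0) (nat_lit 2293577376) (nat_lit 1140) (nat_lit 1823288505) (nat_lit 410) (nat_lit 5) (nat_lit 409) (nat_lit 5) (nat_lit 424) (nat_lit 5) (nat_lit 371) (nat_lit 363) (nat_lit 286)) (XT.lf (nat_lit 76) (nat_lit 998077248) (nat_lit 0) (nat_lit 8034321991) (nat_lit 1140) (nat_lit 674124819) (nat_lit 411) (nat_lit 5) (nat_lit 410) (nat_lit 5) (nat_lit 425) (nat_lit 5) (nat_lit 372) (nat_lit 363) (nat_lit 285)))) (XT.nd (nat_lit 156) (nat_lit 0) (nat_lit 76) (XT.nd (nat_lit 78) (nat_lit 0) (nat_lit 76) (XT.lf (nat_lit 0) (nat_lit 533114394) (nat_lit 1140) (nat_lit 3534759657) (nat_lit 1216) (nat_lit 5767539494) (nat_lit 395) (nat_lit 5) (nat_lit 410) (nat_lit 5) (nat_lit 411) (nat_lit 5) (nat_lit 373) (nat_lit 363) (nat_lit 284)) (XT.lf (nat_lit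 0) (nat_lit 1750580484) (nat_lit 1140) (nat_lit 8167872796) (nat_lit 1216) (nat_lit 49889433) (nat_lit 396) (nat_lit 5) (nat_lit 411) (nat_lit 5) (nat_lit 412) (nat_lit 5) (nat_lit 374) (nat_lit 363) (nat_lit 283))) (XT.nd (nat_lit 78) (nat_lit 0) (nat_lit 0) (XT.lf (nat_lit 0) (nat_lit 3051405086) (nat_lit 1140) (nat_lit 2798989453) (nat_lit 1216) (nat_lit 4253460182) (nat_lit 396) (nat_lit 5) (nat_lit 411) (nat_lit 5) (nat_lit 412) (nat_lit 5) (nat_lit 375) (nat_lit 363) (nat_lit 282)) (XT.lf (nat_lit 76) (nat_lit 2763144713) (nat_lit 0) (nat_lit 1626040651) (nat_lit 1216) (nat_lit 5854308795) (nat_lit 397) (nat_lit 5) (nat_lit 396) (nat_lit 5) (nat_lit 412) (nat_lit 5) (nat_lit 376) (nat_lit 363) (nat_lit 281))))) (XT.nd (nat_lit 312) (nat_lit 2128) (nat_lit 0) (XT.nd (nat_lit 156) (nat_lit 1064) (nat_lit 0) (XT.nd (nat_lit 78) (nat_lit 0) (nat_lit 0) (XT.lf (nat_lit 0) (nat_lit 5793897206) (nat_lit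 1140) (nat_lit 1885853938) (nat_lit 1216) (nat_lit 2706767694) (nat_lit 397) (nat_lit 5) (nat_lit 412) (nat_lit 5) (nat_lit 413) (nat_lit 5) (nat_lit 377) (nat_lit 363) (nat_lit 280)) (XT.lf (nat_lit 76) (nat_lit 3915002042) (nat_lit 0) (nat_lit 3352354193) (nat_lit 1216) (nat_lit 3265679847) (nat_lit 398) (nat_lit 5) (nat_lit 397) (nat_lit 5) (nat_lit 413) (nat_lit 5) (nat_lit 378) (nat_lit 363) (nat_lit 279))) (XT.nd (nat_lit 78) (nat_lit 1140) (nat_lit 0) (XT.lf (nat_lit 0) (nat_lit 8788375490) (nat_lit 1140) (nat_lit 788046457) (nat_lit 76) (nat_lit 1107426202) (nat_lit 398) (nat_lit 5) (nat_lit 413) (nat_lit 5) (nat_lit 399) (nat_lit 5) (nat_lit 379) (nat_lit 363) (nat_lit 278)) (XT.lf (nat_lit 0) (nat_lit 5264631940) (nat_lit 1140) (nat_lit 5148467447) (nat_lit 1216) (nat_lit 424342968) (nat_lit 383) (nat_lit 5) (nat_lit 398) (nat_lit 5) (nat_lit 399) (nat_lit 5) (nat_lit 380) (nat_lit 363) (nat_lit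 277)))) (XT.nd (nat_lit 156) (nat_lit 836) (nat_lit 0) (XT.nd (nat_lit 78) (nat_lit 0) (nat_lit 0) (XT.lf (nat_lit 0) (nat_lit 496724684) (nat_lit 1216) (nat_lit 560287960) (nat_lit 1292) (nat_lit 9938695752) (nat_lit 366) (nat_lit 5) (nat_lit 382) (nat_lit 5) (nat_lit 383) (nat_lit 5) (nat_lit 381) (nat_lit 363) (nat_lit 276)) (XT.lf (nat_lit 0) (nat_lit 2646282335) (nat_lit 1292) (nat_lit 4361853978) (nat_lit 76) (nat_lit 4148299994) (nat_lit 366) (nat_lit 5) (nat_lit 383) (nat_lit 5) (nat_lit 367) (nat_lit 5) (nat_lit 382) (nat_lit 363) (nat_lit 275))) (XT.nd (nat_lit 78) (nat_lit 0) (nat_lit 0) (XT.lf (nat_lit 0) (nat_lit 1970346623) (nat_lit 836) (nat_lit 2313224438) (nat_lit 912) (nat_lit 7038404766) (nat_lit 355) (nat_lit 5) (nat_lit 366) (nat_lit 5) (nat_lit 367) (nat_lit 5) (nat_lit 383) (nat_lit 363) (nat_lit 274)) (XT.lf (nat_lit 0) (nat_lit 6015075145) (nat_lit 912) (nat_lit 2956374516)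 (nat_lit 76) (nat_lit 2519678971) (nat_lit 355) (nat_lit 5) (nat_lit 367) (nat_lit 5) (nat_lit 356) (nat_lit 5) (nat_lit 384) (nat_lit 363) (nat_lit 273))))))) (XT.nd (nat_lit 1170) (nat_lit 4028) (nat_lit 0) (XT.nd (nat_lit 546) (nat_lit 2660) (nat_lit 0) (XT.nd (nat_lit 234) (nat_lit 1216) (nat_lit 0) (XT.nd (nat_lit 78) (nat_lit 608) (nat_lit 0) (XT.lf (nat_lit 0) (nat_lit 3657400658) (nat_lit 608) (nat_lit 4176238714) (nat_lit 684) (nat_lit 3830663197) (nat_lit 347) (nat_lit 5) (nat_lit 355) (nat_lit 5) (nat_lit 356) (nat_lit 5) (nat_lit 385) (nat_lit 363) (nat_lit 272)) (XT.nd (nat_lit 78) (nat_lit 608) (nat_lit 0) (XT.lf (nat_lit 0) (nat_lit 9721766494) (nat_lit 684) (nat_lit 1341484998) (nat_lit 76) (nat_lit 778970055) (nat_lit 347) (nat_lit 5) (nat_lit 356) (nat_lit 5) (nat_lit 348) (nat_lit 5) (nat_lit 386) (nat_lit 363) (nat_lit 271)) (XT.lf (nat_lit 0) (nat_lit 5569604896) (nat_lit 608) (nat_lit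 6169998545) (nat_lit 684) (nat_lit 283682672) (nat_lit 339) (nat_lit 5) (nat_lit 347) (nat_lit 5) (nat_lit 348) (nat_lit 5) (nat_lit 387) (nat_lit 363) (nat_lit 270)))) (XT.nd (nat_lit 156) (nat_lit 608) (nat_lit 0) (XT.nd (nat_lit 78) (nat_lit 0) (nat_lit 0) (XT.lf (nat_lit 0) (nat_lit 478044059) (nat_lit 532) (nat_lit 1095439545) (nat_lit 608) (nat_lit 10635935074) (nat_lit 331) (nat_lit 5) (nat_lit 338) (nat_lit 5) (nat_lit 339) (nat_lit 5) (nat_lit 388) (nat_lit 363) (nat_lit 269)) (XT.lf (nat_lit 0) (nat_lit 3565004687) (nat_lit 608) (nat_lit 4714590687) (nat_lit 76) (nat_lit 4118925337) (nat_lit 331) (nat_lit 5) (nat_lit 339) (nat_lit 5) (nat_lit 332) (nat_lit 5) (nat_lit 389) (nat_lit 363) (nat_lit 268))) (XT.nd (nat_lit 78) (nat_lit 0) (nat_lit 0) (XT.lf (nat_lit 0) (nat_lit 2529602107) (nat_lit 608) (nat_lit 3101262055) (nat_lit 684) (nat_lit 6961993859) (nat_lit 323) (nat_lit 5) (nat_lit 331)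 (nat_lit 5) (nat_lit 332) (nat_lit 5) (nat_lit 390) (nat_lit 363) (nat_lit 267)) (XT.lf (nat_lit 0) (nat_lit 7808050709) (nat_lit 684) (nat_lit 2747754827) (nat_lit 76) (nat_lit 2235739376) (nat_lit 323) (nat_lit 5) (nat_lit 332) (nat_lit 5) (nat_lit 324) (nat_lit 5) (nat_lit 391) (nat_lit 363) (nat_lit 266))))) (XT.nd (nat_lit 312) (nat_lit 1064) (nat_lit 0) (XT.nd (nat_lit 156) (nat_lit 1064) (nat_lit 0) (XT.nd (nat_lit 78) (nat_lit 0) (nat_lit 0) (XT.lf (nat_lit 0) (nat_lit 4829393100) (nat_lit 532) (nat_lit 5278688783) (nat_lit 608) (nat_lit 2886384656) (nat_lit 316) (nat_lit 5) (nat_lit 323) (nat_lit 5) (nat_lit 324) (nat_lit 5) (nat_lit 392) (nat_lit 363) (nat_lit 265)) (XT.lf (nat_lit 0) (nat_lit 12487392004) (nat_lit 608) (nat_lit 535943828) (nat_lit 76) (nat_lit 179831643) (nat_lit 316) (nat_lit 5) (nat_lit 324) (nat_lit 5) (nat_lit 317) (nat_lit 5) (nat_lit 393) (nat_lit 363) (nat_lit 264)))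 (XT.nd (nat_lit 78) (nat_lit 456) (nat_lit 0) (XT.lf (nat_lit 0) (nat_lit 1595968834) (nat_lit 608) (nat_lit 6037646365) (nat_lit 76) (nat_lit 5780905621) (nat_lit 308) (nat_lit 5) (nat_lit 316) (nat_lit 5) (nat_lit 309) (nat_lit 5) (nat_lit 394) (nat_lit 363) (nat_lit 263)) (XT.lf (nat_lit 0) (nat_lit 1915008582) (nat_lit 456) (nat_lit 2053016831) (nat_lit 532) (nat_lit 9663816356) (nat_lit 302) (nat_lit 5) (nat_lit 308) (nat_lit 5) (nat_lit 309) (nat_lit 5) (nat_lit 395) (nat_lit 363) (nat_lit 262)))) (XT.nd (nat_lit 156) (nat_lit 532) (nat_lit 0) (XT.nd (nat_lit 78) (nat_lit 532) (nat_lit 0) (XT.lf (nat_lit 0) (nat_lit 6490117169) (nat_lit 532) (nat_lit 3681507716) (nat_lit 76) (nat_lit 3681691257) (nat_lit 302) (nat_lit 5) (nat_lit 309) (nat_lit 5) (nat_lit 303) (nat_lit 5) (nat_lit 396) (nat_lit 363) (nat_lit 261)) (XT.lf (nat_lit 0) (nat_lit 4644263146) (nat_lit 532) (nat_lit 4490892369) (nat_lit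 608) (nat_lit 4944860717) (nat_lit 295) (nat_lit 5) (nat_lit 302) (nat_lit 5) (nat_lit 303) (nat_lit 5) (nat_lit 397) (nat_lit 363) (nat_lit 260))) (XT.nd (nat_lit 78) (nat_lit 532) (nat_lit 0) (XT.lf (nat_lit 0) (nat_lit 11892762202) (nat_lit 608) (nat_lit 1051769124) (nat_lit 76) (nat_lit 1367989482) (nat_lit 295) (nat_lit 5) (nat_lit 303) (nat_lit 5) (nat_lit 296) (nat_lit 5) (nat_lit 398) (nat_lit 363) (nat_lit 259)) (XT.lf (nat_lit 0) (nat_lit 279846730) (nat_lit 532) (nat_lit 6883379290) (nat_lit 76) (nat_lit 7385653757) (nat_lit 288) (nat_lit 5) (nat_lit 295) (nat_lit 5) (nat_lit 289) (nat_lit 5) (nat_lit 399) (nat_lit 363) (nat_lit 258)))))) (XT.nd (nat_lit 624) (nat_lit 1900) (nat_lit 0) (XT.nd (nat_lit 312) (nat_lit 1292) (nat_lit 0) (XT.nd (nat_lit 156) (nat_lit 380) (nat_lit 0) (XT.nd (nat_lit 78) (nat_lit 0) (nat_lit 0) (XT.lf (nat_lit 0) (nat_lit 1865464075) (nat_lit 456) (nat_lit 1158235509)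 (nat_lit 532) (nat_lit 11767554366) (nat_lit 282) (nat_lit 5) (nat_lit 288) (nat_lit 5) (nat_lit 289) (nat_lit 5) (nat_lit 400) (nat_lit 363) (nat_lit 257)) (XT.lf (nat_lit 0) (nat_lit 5951875033) (nat_lit 532) (nat_lit 4090913248) (nat_lit 76) (nat_lit 4995050860) (nat_lit 282) (nat_lit 5) (nat_lit 289) (nat_lit 5) (nat_lit 283) (nat_lit 5) (nat_lit 401) (nat_lit 363) (nat_lit 256))) (XT.nd (nat_lit 78) (nat_lit 0) (nat_lit 0) (XT.lf (nat_lit 0) (nat_lit 5076243883) (nat_lit 380) (nat_lit 3935884903) (nat_lit 456) (nat_lit 6278366108) (nat_lit 277) (nat_lit 5) (nat_lit 282) (nat_lit 5) (nat_lit 283) (nat_lit 5) (nat_lit 402) (nat_lit 363) (nat_lit 255)) (XT.lf (nat_lit 0) (nat_lit 12212739935) (nat_lit 456) (nat_lit 990839672) (nat_lit 76) (nat_lit 2345694220) (nat_lit 277) (nat_lit 5) (nat_lit 283) (nat_lit 5) (nat_lit 278) (nat_lit 5) (nat_lit 403) (nat_lit 363) (nat_lit 254)))) (XT.nd (nat_lit 156)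 (nat_lit 380) (nat_lit 0) (XT.nd (nat_lit 78) (nat_lit 456) (nat_lit 0) (XT.lf (nat_lit 0) (nat_lit 8618497509) (nat_lit 456) (nat_lit 6997347833) (nat_lit 532) (nat_lit 196776509) (nat_lit 271) (nat_lit 5) (nat_lit 277) (nat_lit 5) (nat_lit 278) (nat_lit 5) (nat_lit 404) (nat_lit 363) (nat_lit 253)) (XT.lf (nat_lit 0) (nat_lit 2451302924) (nat_lit 380) (nat_lit 545040216) (nat_lit 456) (nat_lit 13086098248) (nat_lit 265) (nat_lit 5) (nat_lit 270) (nat_lit 5) (nat_lit 271) (nat_lit 5) (nat_lit 405) (nat_lit 363) (nat_lit 252))) (XT.nd (nat_lit 78) (nat_lit 380) (nat_lit 0) (XT.lf (nat_lit 0) (nat_lit 6398285036) (nat_lit 456) (nat_lit 3906220785) (nat_lit 76) (nat_lit 6052281730) (nat_lit 265) (nat_lit 5) (nat_lit 271) (nat_lit 5) (nat_lit 266) (nat_lit 5) (nat_lit 406) (nat_lit 363) (nat_lit 251)) (XT.lf (nat_lit 0) (nat_lit 6206451760) (nat_lit 380) (nat_lit 3746300635) (nat_lit 456) (nat_lit 6685097689)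 (nat_lit 260) (nat_lit 5) (nat_lit 265) (nat_lit 5) (nat_lit 266) (nat_lit 5) (nat_lit 407) (nat_lit 363) (nat_lit 250))))) (XT.nd (nat_lit 312) (nat_lit 1064) (nat_lit 0) (XT.nd (nat_lit 156) (nat_lit 380) (nat_lit 0) (XT.nd (nat_lit 78) (nat_lit 456) (nat_lit 0) (XT.lf (nat_lit 0) (nat_lit 13668208790) (nat_lit 456) (nat_lit 272788700) (nat_lit 76) (nat_lit 2984716352) (nat_lit 260) (nat_lit 5) (nat_lit 266) (nat_lit 5) (nat_lit 261) (nat_lit 5) (nat_lit 408) (nat_lit 363) (nat_lit 249)) (XT.lf (nat_lit 0) (nat_lit 391266809) (nat_lit 456) (nat_lit 6886513261) (nat_lit 76) (nat_lit 9940644430) (nat_lit 254) (nat_lit 5) (nat_lit 260) (nat_lit 5) (nat_lit 255) (nat_lit 5) (nat_lit 409) (nat_lit 363) (nat_lit 248))) (XT.nd (nat_lit 78) (nat_lit 0) (nat_lit 0) (XT.lf (nat_lit 0) (nat_lit 3762243422) (nat_lit 380) (nat_lit 346837621) (nat_lit 456) (nat_lit 13409116304) (nat_lit 249) (nat_lit 5) (nat_lit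 254) (nat_lit 5) (nat_lit 255) (nat_lit 5) (nat_lit 410) (nat_lit 363) (nat_lit 247)) (XT.lf (nat_lit 0) (nat_lit 8060219446) (nat_lit 456) (nat_lit 3038794041) (nat_lit 76) (nat_lit 6724296201) (nat_lit 249) (nat_lit 5) (nat_lit 255) (nat_lit 5) (nat_lit 250) (nat_lit 5) (nat_lit 411) (nat_lit 363) (nat_lit 246)))) (XT.nd (nat_lit 156) (nat_lit 380) (nat_lit 0) (XT.nd (nat_lit 78) (nat_lit 380) (nat_lit 0) (XT.lf (nat_lit 0) (nat_lit 8136214669) (nat_lit 304) (nat_lit 4061993255) (nat_lit 380) (nat_lit 5937317996) (nat_lit 245) (nat_lit 5) (nat_lit 249) (nat_lit 5) (nat_lit 250) (nat_lit 5) (nat_lit 412) (nat_lit 363) (nat_lit 245)) (XT.lf (nat_lit 0) (nat_lit 1226427525) (nat_lit 380) (nat_lit 15294138764) (nat_lit 456) (nat_lit 1934735444) (nat_lit 240) (nat_lit 5) (nat_lit 245) (nat_lit 5) (nat_lit 246) (nat_lit 5) (nat_lit 413) (nat_lit 363) (nat_lit 244))) (XT.nd (nat_lit 78) (nat_lit 304) (nat_lit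 0) (XT.lf (nat_lit 0) (nat_lit 2274318508) (nat_lit 456) (nat_lit 5869200693) (nat_lit 76) (nat_lit 10636648022) (nat_lit 239) (nat_lit 5) (nat_lit 245) (nat_lit 5) (nat_lit 240) (nat_lit 5) (nat_lit 414) (nat_lit 363) (nat_lit 243)) (XT.lf (nat_lit 0) (nat_lit 5908743581) (nat_lit 304) (nat_lit 706091606) (nat_lit 380) (nat_lit 12498046496) (nat_lit 235) (nat_lit 5) (nat_lit 239) (nat_lit 5) (nat_lit 240) (nat_lit 5) (nat_lit 415) (nat_lit 363) (nat_lit 242))))))))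
noncomputable def xc153 : XT := (XT.nd (nat_lit 2340) (nat_lit 3268) (nat_lit 0) (XT.nd (nat_lit 1170) (nat_lit 2280) (nat_lit 0) (XT.nd (nat_lit 546) (nat_lit 1444) (nat_lit 0) (XT.nd (nat_lit 234) (nat_lit 608) (nat_lit 0) (XT.nd (nat_lit 78) (nat_lit 684) (nat_lit 0) (XT.lf (nat_lit 0) (nat_lit 11199686655) (nat_lit 380) (nat_lit 1379697985) (nat_lit 76) (nat_lit 6872769358) (nat_lit 235) (nat_lit 5) (nat_lit 240) (nat_lit 5) (nat_lit 236) (nat_lit 5) (nat_lit 416) (nat_lit 363) (nat_lit 241)) (XT.nd (nat_lit 78) (nat_lit 380) (nat_lit 0) (XT.lf (nat_lit 0) (nat_lit 10988660090) (nat_lit 304) (nat_lit 5033825423) (nat_lit 380) (nat_lit 3776106913) (nat_lit 231) (nat_lit 5) (nat_lit 235) (nat_lit 5) (nat_lit 236) (nat_lit 5) (nat_lit 417) (nat_lit 363) (nat_lit 240)) (XT.lf (nat_lit 0) (nat_lit 882048219) (nat_lit 380) (nat_lit 16534884728) (nat_lit 76) (nat_lit 2736336731) (nat_lit 226) (nat_lit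 5) (nat_lit 231) (nat_lit 5) (nat_lit 227) (nat_lit 5) (nat_lit 418) (nat_lit 363) (nat_lit 239)))) (XT.nd (nat_lit 156) (nat_lit 304) (nat_lit 0) (XT.nd (nat_lit 78) (nat_lit 304) (nat_lit 0) (XT.lf (nat_lit 0) (nat_lit 5731700323) (nat_lit 380) (nat_lit 4022315563) (nat_lit 76) (nat_lit 10759620296) (nat_lit 226) (nat_lit 5) (nat_lit 231) (nat_lit 5) (nat_lit 227) (nat_lit 5) (nat_lit 419) (nat_lit 363) (nat_lit 238)) (XT.lf (nat_lit 0) (nat_lit 9023818789) (nat_lit 304) (nat_lit 1778080819) (nat_lit 380) (nat_lit 10080662344) (nat_lit 222) (nat_lit 5) (nat_lit 226) (nat_lit 5) (nat_lit 227) (nat_lit 5) (nat_lit 420) (nat_lit 363) (nat_lit 237))) (XT.nd (nat_lit 78) (nat_lit 76) (nat_lit 0) (XT.lf (nat_lit 0) (nat_lit 1226089974) (nat_lit 228) (nat_lit 14901223567) (nat_lit 304) (nat_lit 5132148694) (nat_lit 219) (nat_lit 5) (nat_lit 222) (nat_lit 5) (nat_lit 223) (nat_lit 5) (nat_lit 421) (nat_lit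 363) (nat_lit 236)) (XT.lf (nat_lit 0) (nat_lit 92525483) (nat_lit 304) (nat_lit 6734030667) (nat_lit 76) (nat_lit 14817312963) (nat_lit 218) (nat_lit 5) (nat_lit 222) (nat_lit 5) (nat_lit 219) (nat_lit 5) (nat_lit 422) (nat_lit 363) (nat_lit 235))))) (XT.nd (nat_lit 312) (nat_lit 608) (nat_lit 0) (XT.nd (nat_lit 156) (nat_lit 532) (nat_lit 0) (XT.nd (nat_lit 78) (nat_lit 0) (nat_lit 0) (XT.lf (nat_lit 0) (nat_lit 5442647429) (nat_lit 380) (nat_lit 15018844233) (nat_lit 76) (nat_lit 1574636375) (nat_lit 214) (nat_lit 5) (nat_lit 219) (nat_lit 5) (nat_lit 215) (nat_lit 5) (nat_lit 423) (nat_lit 363) (nat_lit 234)) (XT.lf (nat_lit 0) (nat_lit 11078448228) (nat_lit 380) (nat_lit 1204832938) (nat_lit 76) (nat_lit 10153118307) (nat_lit 214) (nat_lit 5) (nat_lit 219) (nat_lit 5) (nat_lit 215) (nat_lit 5) (nat_lit 424) (nat_lit 363) (nat_lit 233))) (XT.nd (nat_lit 78) (nat_lit 304) (nat_lit 0) (XT.lf (nat_lit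 0) (nat_lit 13265332704) (nat_lit 228) (nat_lit 3734739550) (nat_lit 304) (nat_lit 5845104322) (nat_lit 211) (nat_lit 5) (nat_lit 214) (nat_lit 5) (nat_lit 215) (nat_lit 5) (nat_lit 425) (nat_lit 363) (nat_lit 232)) (XT.lf (nat_lit 0) (nat_lit 4959151144) (nat_lit 304) (nat_lit 18238213965) (nat_lit 380) (nat_lit 65911278) (nat_lit 207) (nat_lit 5) (nat_lit 211) (nat_lit 5) (nat_lit 212) (nat_lit 5) (nat_lit 426) (nat_lit 363) (nat_lit 231)))) (XT.nd (nat_lit 156) (nat_lit 304) (nat_lit 0) (XT.nd (nat_lit 78) (nat_lit 228) (nat_lit 0) (XT.lf (nat_lit 0) (nat_lit 5895827987) (nat_lit 380) (nat_lit 3672098186) (nat_lit 76) (nat_lit 14120574227) (nat_lit 206) (nat_lit 5) (nat_lit 211) (nat_lit 5) (nat_lit 207) (nat_lit 5) (nat_lit 427) (nat_lit 363) (nat_lit 230)) (XT.lf (nat_lit 0) (nat_lit 11608000542) (nat_lit 228) (nat_lit 528354297) (nat_lit 304) (nat_lit 11987068912) (nat_lit 203) (nat_lit 5) (nat_lit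 206) (nat_lit 5) (nat_lit 207) (nat_lit 5) (nat_lit 428) (nat_lit 363) (nat_lit 229))) (XT.nd (nat_lit 78) (nat_lit 76) (nat_lit 0) (XT.lf (nat_lit 0) (nat_lit 2804603067) (nat_lit 228) (nat_lit 15898080595) (nat_lit 304) (nat_lit 5864553554) (nat_lit 200) (nat_lit 5) (nat_lit 203) (nat_lit 5) (nat_lit 204) (nat_lit 5) (nat_lit 429) (nat_lit 363) (nat_lit 228)) (XT.lf (nat_lit 0) (nat_lit 555677826) (nat_lit 304) (nat_lit 6207385658) (nat_lit 76) (nat_lit 18257494490) (nat_lit 199) (nat_lit 5) (nat_lit 203) (nat_lit 5) (nat_lit 200) (nat_lit 5) (nat_lit 430) (nat_lit 363) (nat_lit 227)))))) (XT.nd (nat_lit 546) (nat_lit 1140) (nat_lit 0) (XT.nd (nat_lit 234) (nat_lit 684) (nat_lit 0) (XT.nd (nat_lit 78) (nat_lit 228) (nat_lit 0) (XT.lf (nat_lit 0) (nat_lit 7163120549) (nat_lit 304) (nat_lit 15576136961) (nat_lit 76) (nat_lit 2743104613) (nat_lit 196) (nat_lit 5) (nat_lit 200) (nat_lit 5) (nat_lit 197)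 (nat_lit 5) (nat_lit 431) (nat_lit 363) (nat_lit 226)) (XT.nd (nat_lit 78) (nat_lit 0) (nat_lit 0) (XT.lf (nat_lit 0) (nat_lit 602068885) (nat_lit 228) (nat_lit 13492931948) (nat_lit 304) (nat_lit 11859233134) (nat_lit 193) (nat_lit 5) (nat_lit 196) (nat_lit 5) (nat_lit 197) (nat_lit 5) (nat_lit 432) (nat_lit 363) (nat_lit 225)) (XT.lf (nat_lit 0) (nat_lit 17568629988) (nat_lit 228) (nat_lit 3813788706) (nat_lit 304) (nat_lit 5053415839) (nat_lit 193) (nat_lit 5) (nat_lit 196) (nat_lit 5) (nat_lit 197) (nat_lit 5) (nat_lit 433) (nat_lit 363) (nat_lit 224)))) (XT.nd (nat_lit 156) (nat_lit 380) (nat_lit 0) (XT.nd (nat_lit 78) (nat_lit 0) (nat_lit 0) (XT.lf (nat_lit 0) (nat_lit 2048150004) (nat_lit 304) (nat_lit 18751055793) (nat_lit 76) (nat_lit 6128220468) (nat_lit 189) (nat_lit 5) (nat_lit 193) (nat_lit 5) (nat_lit 190) (nat_lit 5) (nat_lit 434) (nat_lit 363) (nat_lit 223)) (XT.lf (nat_lit 0) (nat_lit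 9379927423) (nat_lit 304) (nat_lit 1622802829) (nat_lit 76) (nat_lit 16425972486) (nat_lit 189) (nat_lit 5) (nat_lit 193) (nat_lit 5) (nat_lit 190) (nat_lit 5) (nat_lit 435) (nat_lit 363) (nat_lit 222))) (XT.nd (nat_lit 78) (nat_lit 152) (nat_lit 0) (XT.lf (nat_lit 0) (nat_lit 16322206243) (nat_lit 228) (nat_lit 757171381) (nat_lit 304) (nat_lit 10861208295) (nat_lit 186) (nat_lit 5) (nat_lit 189) (nat_lit 5) (nat_lit 190) (nat_lit 5) (nat_lit 436) (nat_lit 363) (nat_lit 221)) (XT.lf (nat_lit 0) (nat_lit 6386134861) (nat_lit 152) (nat_lit 18786654049) (nat_lit 228) (nat_lit 3290147359) (nat_lit 184) (nat_lit 5) (nat_lit 186) (nat_lit 5) (nat_lit 187) (nat_lit 5) (nat_lit 437) (nat_lit 363) (nat_lit 220))))) (XT.nd (nat_lit 312) (nat_lit 684) (nat_lit 0) (XT.nd (nat_lit 156) (nat_lit 152) (nat_lit 0) (XT.nd (nat_lit 78) (nat_lit 228) (nat_lit 0) (XT.lf (nat_lit 0) (nat_lit 4536963925) (nat_lit 228) (nat_lit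 3896161262) (nat_lit 76) (nat_lit 20563025319) (nat_lit 183) (nat_lit 5) (nat_lit 186) (nat_lit 5) (nat_lit 184) (nat_lit 5) (nat_lit 438) (nat_lit 363) (nat_lit 219)) (XT.lf (nat_lit 0) (nat_lit 12691994531) (nat_lit 304) (nat_lit 14487152627) (nat_lit 76) (nat_lit 2360459699) (nat_lit 180) (nat_lit 5) (nat_lit 184) (nat_lit 5) (nat_lit 181) (nat_lit 5) (nat_lit 439) (nat_lit 363) (nat_lit 218))) (XT.nd (nat_lit 78) (nat_lit 0) (nat_lit 0) (XT.lf (nat_lit 0) (nat_lit 4540651733) (nat_lit 152) (nat_lit 16709122800) (nat_lit 228) (nat_lit 8844849411) (nat_lit 178) (nat_lit 5) (nat_lit 180) (nat_lit 5) (nat_lit 181) (nat_lit 5) (nat_lit 440) (nat_lit 363) (nat_lit 217)) (XT.lf (nat_lit 0) (nat_lit 24421136426) (nat_lit 152) (nat_lit 5780775165) (nat_lit 228) (nat_lit 460251244) (nat_lit 178) (nat_lit 5) (nat_lit 180) (nat_lit 5) (nat_lit 181) (nat_lit 5) (nat_lit 441) (nat_lit 363) (nat_lit 216)))) (XT.nd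 (nat_lit 156) (nat_lit 228) (nat_lit 0) (XT.nd (nat_lit 78) (nat_lit 152) (nat_lit 0) (XT.lf (nat_lit 0) (nat_lit 8195431275) (nat_lit 304) (nat_lit 17467614323) (nat_lit 76) (nat_lit 5575951924) (nat_lit 174) (nat_lit 5) (nat_lit 178) (nat_lit 5) (nat_lit 175) (nat_lit 5) (nat_lit 442) (nat_lit 363) (nat_lit 215)) (XT.lf (nat_lit 0) (nat_lit 2655352361) (nat_lit 152) (nat_lit 14584134096) (nat_lit 228) (nat_lit 14589375502) (nat_lit 172) (nat_lit 5) (nat_lit 174) (nat_lit 5) (nat_lit 175) (nat_lit 5) (nat_lit 443) (nat_lit 363) (nat_lit 214))) (XT.nd (nat_lit 78) (nat_lit 228) (nat_lit 0) (XT.lf (nat_lit 0) (nat_lit 23725322859) (nat_lit 152) (nat_lit 2997579888) (nat_lit 228) (nat_lit 5708478399) (nat_lit 172) (nat_lit 5) (nat_lit 174) (nat_lit 5) (nat_lit 175) (nat_lit 5) (nat_lit 444) (nat_lit 363) (nat_lit 213)) (XT.lf (nat_lit 0) (nat_lit 3571783726) (nat_lit 228) (nat_lit 20561749348) (nat_lit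 76) (nat_lit 8911449874) (nat_lit 169) (nat_lit 5) (nat_lit 172) (nat_lit 5) (nat_lit 170) (nat_lit 5) (nat_lit 445) (nat_lit 363) (nat_lit 212))))))) (XT.nd (nat_lit 1170) (nat_lit 1520) (nat_lit 0) (XT.nd (nat_lit 546) (nat_lit 988) (nat_lit 0) (XT.nd (nat_lit 234) (nat_lit 456) (nat_lit 0) (XT.nd (nat_lit 78) (nat_lit 152) (nat_lit 0) (XT.lf (nat_lit 0) (nat_lit 724862451) (nat_lit 152) (nat_lit 12408141974) (nat_lit 228) (nat_lit 20538774227) (nat_lit 167) (nat_lit 5) (nat_lit 169) (nat_lit 5) (nat_lit 170) (nat_lit 5) (nat_lit 446) (nat_lit 363) (nat_lit 211)) (XT.nd (nat_lit 78) (nat_lit 152) (nat_lit 0) (XT.lf (nat_lit 0) (nat_lit 23057183021) (nat_lit 152) (nat_lit 123465144) (nat_lit 228) (nat_lit 11130742470) (nat_lit 167) (nat_lit 5) (nat_lit 169) (nat_lit 5) (nat_lit 170) (nat_lit 5) (nat_lit 447) (nat_lit 363) (nat_lit 210)) (XT.lf (nat_lit 0) (nat_lit 11172717017) (nat_lit 152) (nat_lit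 22576975121) (nat_lit 228) (nat_lit 1213899710) (nat_lit 165) (nat_lit 5) (nat_lit 167) (nat_lit 5) (nat_lit 168) (nat_lit 5) (nat_lit 448) (nat_lit 363) (nat_lit 209)))) (XT.nd (nat_lit 156) (nat_lit 228) (nat_lit 0) (XT.nd (nat_lit 78) (nat_lit 152) (nat_lit 0) (XT.lf (nat_lit 0) (nat_lit 8932956184) (nat_lit 228) (nat_lit 1231824761) (nat_lit 76) (nat_lit 25464738450) (nat_lit 164) (nat_lit 5) (nat_lit 167) (nat_lit 5) (nat_lit 165) (nat_lit 5) (nat_lit 449) (nat_lit 363) (nat_lit 208)) (XT.lf (nat_lit 0) (nat_lit 19595043615) (nat_lit 228) (nat_lit 13920564133) (nat_lit 76) (nat_lit 2792399734) (nat_lit 162) (nat_lit 5) (nat_lit 165) (nat_lit 5) (nat_lit 163) (nat_lit 5) (nat_lit 450) (nat_lit 363) (nat_lit 207))) (XT.nd (nat_lit 78) (nat_lit 76) (nat_lit 0) (XT.lf (nat_lit 0) (nat_lit 9810966798) (nat_lit 152) (nat_lit 20965946994) (nat_lit 228) (nat_lit 6223938815) (nat_lit 160) (nat_lit 5) (nat_lit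 162) (nat_lit 5) (nat_lit 163) (nat_lit 5) (nat_lit 451) (nat_lit 363) (nat_lit 206)) (XT.lf (nat_lit 0) (nat_lit 4624774861) (nat_lit 228) (nat_lit 3229674921) (nat_lit 76) (nat_lit 29854681040) (nat_lit 159) (nat_lit 5) (nat_lit 162) (nat_lit 5) (nat_lit 160) (nat_lit 5) (nat_lit 452) (nat_lit 363) (nat_lit 205))))) (XT.nd (nat_lit 312) (nat_lit 456) (nat_lit 0) (XT.nd (nat_lit 156) (nat_lit 228) (nat_lit 0) (XT.nd (nat_lit 78) (nat_lit 152) (nat_lit 0) (XT.lf (nat_lit 0) (nat_lit 15932992972) (nat_lit 228) (nat_lit 16687968075) (nat_lit 76) (nat_lit 5808073500) (nat_lit 157) (nat_lit 5) (nat_lit 160) (nat_lit 5) (nat_lit 158) (nat_lit 5) (nat_lit 453) (nat_lit 363) (nat_lit 204)) (XT.lf (nat_lit 0) (nat_lit 8430576813) (nat_lit 152) (nat_lit 19334296877) (nat_lit 228) (nat_lit 11400129212) (nat_lit 155) (nat_lit 5) (nat_lit 157) (nat_lit 5) (nat_lit 158) (nat_lit 5) (nat_lit 454) (nat_lit 363) (nat_lit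 203))) (XT.nd (nat_lit 78) (nat_lit 152) (nat_lit 0) (XT.lf (nat_lit 0) (nat_lit 190972513) (nat_lit 228) (nat_lit 5288610390) (nat_lit 76) (nat_lit 34438573000) (nat_lit 154) (nat_lit 5) (nat_lit 157) (nat_lit 5) (nat_lit 155) (nat_lit 5) (nat_lit 455) (nat_lit 363) (nat_lit 202)) (XT.lf (nat_lit 0) (nat_lit 12185026438) (nat_lit 228) (nat_lit 19563678929) (nat_lit 76) (nat_lit 8933281438) (nat_lit 152) (nat_lit 5) (nat_lit 155) (nat_lit 5) (nat_lit 153) (nat_lit 5) (nat_lit 456) (nat_lit 363) (nat_lit 201)))) (XT.nd (nat_lit 156) (nat_lit 304) (nat_lit 0) (XT.nd (nat_lit 78) (nat_lit 0) (nat_lit 0) (XT.lf (nat_lit 0) (nat_lit 7028002953) (nat_lit 152) (nat_lit 17679569082) (nat_lit 228) (nat_lit 16756100497) (nat_lit 150) (nat_lit 5) (nat_lit 152) (nat_lit 5) (nat_lit 153) (nat_lit 5) (nat_lit 457) (nat_lit 363) (nat_lit 200)) (XT.lf (nat_lit 0) (nat_lit 34805528512) (nat_lit 152) (nat_lit 2990827852)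 (nat_lit 228) (nat_lit 4466735596) (nat_lit 150) (nat_lit 5) (nat_lit 152) (nat_lit 5) (nat_lit 153) (nat_lit 5) (nat_lit 458) (nat_lit 363) (nat_lit 199))) (XT.nd (nat_lit 78) (nat_lit 152) (nat_lit 0) (XT.lf (nat_lit 0) (nat_lit 8342399745) (nat_lit 152) (nat_lit 22556528100) (nat_lit 76) (nat_lit 12175875986) (nat_lit 148) (nat_lit 5) (nat_lit 150) (nat_lit 5) (nat_lit 149) (nat_lit 5) (nat_lit 459) (nat_lit 363) (nat_lit 198)) (XT.lf (nat_lit 0) (nat_lit 5599615254) (nat_lit 152) (nat_lit 15999075429) (nat_lit 228) (nat_lit 22306269866) (nat_lit 146) (nat_lit 5) (nat_lit 148) (nat_lit 5) (nat_lit 149) (nat_lit 5) (nat_lit 460) (nat_lit 363) (nat_lit 197)))))) (XT.nd (nat_lit 624) (nat_lit 836) (nat_lit 0) (XT.nd (nat_lit 312) (nat_lit 380) (nat_lit 0) (XT.nd (nat_lit 156) (nat_lit 152) (nat_lit 0) (XT.nd (nat_lit 78) (nat_lit 152) (nat_lit 0) (XT.lf (nat_lit 0) (nat_lit 35050228875) (nat_lit 152)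 (nat_lit 423463109) (nat_lit 228) (nat_lit 9279699336) (nat_lit 146) (nat_lit 5) (nat_lit 148) (nat_lit 5) (nat_lit 149) (nat_lit 5) (nat_lit 461) (nat_lit 363) (nat_lit 196)) (XT.lf (nat_lit 0) (nat_lit 4395884720) (nat_lit 152) (nat_lit 25675766041) (nat_lit 76) (nat_lit 15544262323) (nat_lit 144) (nat_lit 5) (nat_lit 146) (nat_lit 5) (nat_lit 145) (nat_lit 5) (nat_lit 462) (nat_lit 363) (nat_lit 195))) (XT.nd (nat_lit 78) (nat_lit 0) (nat_lit 0) (XT.lf (nat_lit 0) (nat_lit 4141682210) (nat_lit 152) (nat_lit 14289896647) (nat_lit 228) (nat_lit 28065884637) (nat_lit 142) (nat_lit 5) (nat_lit 144) (nat_lit 5) (nat_lit 145) (nat_lit 5) (nat_lit 463) (nat_lit 363) (nat_lit 194)) (XT.lf (nat_lit 0) (nat_lit 33162494031) (nat_lit 228) (nat_lit 12051564355) (nat_lit 76) (nat_lit 2183177524) (nat_lit 142) (nat_lit 5) (nat_lit 145) (nat_lit 5) (nat_lit 143) (nat_lit 4) (nat_lit 464) (nat_lit 363) (nat_lit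 193)))) (XT.nd (nat_lit 156) (nat_lit 76) (nat_lit 0) (XT.nd (nat_lit 78) (nat_lit 152) (nat_lit 0) (XT.lf (nat_lit 0) (nat_lit 335744380) (nat_lit 152) (nat_lit 28931097221) (nat_lit 76) (nat_lit 19047417716) (nat_lit 140) (nat_lit 5) (nat_lit 142) (nat_lit 5) (nat_lit 141) (nat_lit 5) (nat_lit 465) (nat_lit 363) (nat_lit 192)) (XT.lf (nat_lit 0) (nat_lit 2650355179) (nat_lit 152) (nat_lit 12548881942) (nat_lit 228) (nat_lit 34051068281) (nat_lit 138) (nat_lit 5) (nat_lit 140) (nat_lit 5) (nat_lit 141) (nat_lit 5) (nat_lit 466) (nat_lit 363) (nat_lit 191))) (XT.nd (nat_lit 78) (nat_lit 76) (nat_lit 0) (XT.lf (nat_lit 0) (nat_lit 30842205685) (nat_lit 228) (nat_lit 14493217588) (nat_lit 76) (nat_lit 4869002466) (nat_lit 138) (nat_lit 5) (nat_lit 141) (nat_lit 5) (nat_lit 139) (nat_lit 4) (nat_lit 467) (nat_lit 363) (nat_lit 190)) (XT.lf (nat_lit 0) (nat_lit 18807759303) (nat_lit 76) (nat_lit 28445561768)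 (nat_lit 152) (nat_lit 3924882881) (nat_lit 137) (nat_lit 5) (nat_lit 138) (nat_lit 5) (nat_lit 139) (nat_lit 4) (nat_lit 468) (nat_lit 363) (nat_lit 189))))) (XT.nd (nat_lit 312) (nat_lit 456) (nat_lit 0) (XT.nd (nat_lit 156) (nat_lit 152) (nat_lit 0) (XT.nd (nat_lit 78) (nat_lit 0) (nat_lit 0) (XT.lf (nat_lit 0) (nat_lit 1121652782) (nat_lit 152) (nat_lit 10772646842) (nat_lit 228) (nat_lit 40278870038) (nat_lit 134) (nat_lit 5) (nat_lit 136) (nat_lit 5) (nat_lit 137) (nat_lit 5) (nat_lit 469) (nat_lit 363) (nat_lit 188)) (XT.lf (nat_lit 0) (nat_lit 28504554764) (nat_lit 228) (nat_lit 17031366880) (nat_lit 76) (nat_lit 7649035390) (nat_lit 134) (nat_lit 5) (nat_lit 137) (nat_lit 5) (nat_lit 135) (nat_lit 4) (nat_lit 470) (nat_lit 363) (nat_lit 187))) (XT.nd (nat_lit 78) (nat_lit 76) (nat_lit 0) (XT.lf (nat_lit 0) (nat_lit 18247400582) (nat_lit 76) (nat_lit 27641804251) (nat_lit 152) (nat_lit 8329610575)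 (nat_lit 133) (nat_lit 5) (nat_lit 134) (nat_lit 5) (nat_lit 135) (nat_lit 4) (nat_lit 471) (nat_lit 363) (nat_lit 186)) (XT.lf (nat_lit 0) (nat_lit 8513326365) (nat_lit 152) (nat_lit 439801904) (nat_lit 76) (nat_lit 46323075208) (nat_lit 132) (nat_lit 5) (nat_lit 134) (nat_lit 5) (nat_lit 133) (nat_lit 5) (nat_lit 472) (nat_lit 363) (nat_lit 185)))) (XT.nd (nat_lit 156) (nat_lit 228) (nat_lit 0) (XT.nd (nat_lit 78) (nat_lit 76) (nat_lit 0) (XT.lf (nat_lit 0) (nat_lit 26145148375) (nat_lit 228) (nat_lit 19673683727) (nat_lit 76) (nat_lit 10530476526) (nat_lit 130) (nat_lit 5) (nat_lit 133) (nat_lit 5) (nat_lit 131) (nat_lit 4) (nat_lit 473) (nat_lit 363) (nat_lit 184)) (XT.lf (nat_lit 0) (nat_lit 17704763581) (nat_lit 76) (nat_lit 26858696756) (nat_lit 152) (nat_lit 12883420539) (nat_lit 129) (nat_lit 5) (nat_lit 130) (nat_lit 5) (nat_lit 131) (nat_lit 4) (nat_lit 474) (nat_lit 363) (nat_lit 183)))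 (XT.nd (nat_lit 78) (nat_lit 152) (nat_lit 0) (XT.lf (nat_lit 0) (nat_lit 5055068810) (nat_lit 152) (nat_lit 2024274843) (nat_lit 76) (nat_lit 51490761507) (nat_lit 128) (nat_lit 5) (nat_lit 130) (nat_lit 5) (nat_lit 129) (nat_lit 5) (nat_lit 475) (nat_lit 363) (nat_lit 182)) (XT.lf (nat_lit 0) (nat_lit 23759392644) (nat_lit 228) (nat_lit 22428223932) (nat_lit 76) (nat_lit 13520984124) (nat_lit 126) (nat_lit 5) (nat_lit 129) (nat_lit 5) (nat_lit 127) (nat_lit 4) (nat_lit 476) (nat_lit 363) (nat_lit 181))))))))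
noncomputable def xc154 : XT := (XT.nd (nat_lit 45552) (nat_lit 0) (nat_lit 10868) (XT.nd (nat_lit 44382) (nat_lit 0) (nat_lit 21584) (XT.nd (nat_lit 546) (nat_lit 456) (nat_lit 0) (XT.nd (nat_lit 234) (nat_lit 380) (nat_lit 0) (XT.nd (nat_lit 78) (nat_lit 228) (nat_lit 0) (XT.lf (nat_lit 0) (nat_lit 17179175949) (nat_lit 76) (nat_lit 26095945646) (nat_lit 152) (nat_lit 17598621250) (nat_lit 125) (nat_lit 5) (nat_lit 126) (nat_lit 5) (nat_lit 127) (nat_lit 4) (nat_lit 477) (nat_lit 363) (nat_lit 180)) (XT.nd (nat_lit 78) (nat_lit 152) (nat_lit 0) (XT.lf (nat_lit 0) (nat_lit 1500198621) (nat_lit 152) (nat_lit 3658041081) (nat_lit 76) (nat_lit 56908529995) (nat_lit 124) (nat_lit 5) (nat_lit 126) (nat_lit 5) (nat_lit 125) (nat_lit 5) (nat_lit 478) (nat_lit 363) (nat_lit 179)) (XT.lf (nat_lit 0) (nat_lit 21342481946) (nat_lit 228) (nat_lit 25303456839) (nat_lit 76) (nat_lit 16628694847) (nat_lit 122) (nat_lit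 5) (nat_lit 125) (nat_lit 5) (nat_lit 123) (nat_lit 4) (nat_lit 479) (nat_lit 363) (nat_lit 178)))) (XT.nd (nat_lit 156) (nat_lit 304) (nat_lit 0) (XT.nd (nat_lit 78) (nat_lit 0) (nat_lit 0) (XT.lf (nat_lit 0) (nat_lit 16670002335) (nat_lit 76) (nat_lit 25353231511) (nat_lit 152) (nat_lit 22488203635) (nat_lit 121) (nat_lit 5) (nat_lit 122) (nat_lit 5) (nat_lit 123) (nat_lit 4) (nat_lit 480) (nat_lit 363) (nat_lit 177)) (XT.lf (nat_lit 0) (nat_lit 60410979943) (nat_lit 76) (nat_lit 3163583053) (nat_lit 152) (nat_lit 2203277809) (nat_lit 121) (nat_lit 5) (nat_lit 122) (nat_lit 5) (nat_lit 123) (nat_lit 4) (nat_lit 481) (nat_lit 363) (nat_lit 176))) (XT.nd (nat_lit 78) (nat_lit 76) (nat_lit 0) (XT.lf (nat_lit 0) (nat_lit 18889387061) (nat_lit 228) (nat_lit 28308295791) (nat_lit 76) (nat_lit 19862246399) (nat_lit 118) (nat_lit 5) (nat_lit 121) (nat_lit 5) (nat_lit 119) (nat_lit 4) (nat_lit 482) (nat_lit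 363) (nat_lit 175)) (XT.lf (nat_lit 0) (nat_lit 16176641368) (nat_lit 76) (nat_lit 24630213743) (nat_lit 152) (nat_lit 27565881593) (nat_lit 117) (nat_lit 5) (nat_lit 118) (nat_lit 5) (nat_lit 119) (nat_lit 4) (nat_lit 483) (nat_lit 363) (nat_lit 174))))) (XT.nd (nat_lit 312) (nat_lit 228) (nat_lit 0) (XT.nd (nat_lit 156) (nat_lit 76) (nat_lit 0) (XT.nd (nat_lit 78) (nat_lit 152) (nat_lit 0) (XT.lf (nat_lit 0) (nat_lit 62566326040) (nat_lit 76) (nat_lit 1096188449) (nat_lit 152) (nat_lit 6053993872) (nat_lit 117) (nat_lit 5) (nat_lit 118) (nat_lit 5) (nat_lit 119) (nat_lit 4) (nat_lit 484) (nat_lit 363) (nat_lit 173)) (XT.lf (nat_lit 0) (nat_lit 16394842244) (nat_lit 152) (nat_lit 31452129959) (nat_lit 76) (nat_lit 23230802411) (nat_lit 115) (nat_lit 5) (nat_lit 117) (nat_lit 5) (nat_lit 116) (nat_lit 4) (nat_lit 485) (nat_lit 363) (nat_lit 172))) (XT.nd (nat_lit 78) (nat_lit 0) (nat_lit 0) (XT.lf (nat_lit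 0) (nat_lit 15698522940) (nat_lit 76) (nat_lit 23926534561) (nat_lit 152) (nat_lit 32846135338) (nat_lit 114) (nat_lit 5) (nat_lit 115) (nat_lit 5) (nat_lit 116) (nat_lit 4) (nat_lit 486) (nat_lit 363) (nat_lit 171)) (XT.lf (nat_lit 0) (nat_lit 63874694385) (nat_lit 152) (nat_lit 9008352473) (nat_lit 0) (nat_lit 1013691297) (nat_lit 114) (nat_lit 5) (nat_lit 116) (nat_lit 4) (nat_lit 114) (nat_lit 4) (nat_lit 487) (nat_lit 363) (nat_lit 170)))) (XT.nd (nat_lit 156) (nat_lit 0) (nat_lit 0) (XT.nd (nat_lit 78) (nat_lit 76) (nat_lit 0) (XT.lf (nat_lit 0) (nat_lit 13853331181) (nat_lit 152) (nat_lit 34744857662) (nat_lit 76) (nat_lit 26744079612) (nat_lit 112) (nat_lit 5) (nat_lit 114) (nat_lit 5) (nat_lit 113) (nat_lit 4) (nat_lit 488) (nat_lit 363) (nat_lit 169)) (XT.lf (nat_lit 0) (nat_lit 15235105766) (nat_lit 76) (nat_lit 23241822528) (nat_lit 152) (nat_lit 38344257703) (nat_lit 111) (nat_lit 5) (nat_lit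 112) (nat_lit 5) (nat_lit 113) (nat_lit 4) (nat_lit 489) (nat_lit 363) (nat_lit 168))) (XT.nd (nat_lit 43290) (nat_lit 0) (nat_lit 22420) (XT.lf (nat_lit 0) (nat_lit 64216284992) (nat_lit 152) (nat_lit 10947991874) (nat_lit 0) (nat_lit 3168882650) (nat_lit 111) (nat_lit 5) (nat_lit 113) (nat_lit 4) (nat_lit 111) (nat_lit 4) (nat_lit 490) (nat_lit 363) (nat_lit 167)) (XT.lf (nat_lit 0) (nat_lit 435393857) (nat_lit 1140) (nat_lit 2005236865) (nat_lit 1140) (nat_lit 2005236865) (nat_lit 406) (nat_lit 3) (nat_lit 421) (nat_lit 3) (nat_lit 421) (nat_lit 5) (nat_lit 364) (nat_lit 364) (nat_lit 292)))))) (XT.nd (nat_lit 546) (nat_lit 836) (nat_lit 0) (XT.nd (nat_lit 234) (nat_lit 0) (nat_lit 152) (XT.nd (nat_lit 78) (nat_lit 0) (nat_lit 76) (XT.lf (nat_lit 76) (nat_lit 444059049) (nat_lit 0) (nat_lit 1374861861) (nat_lit 1140) (nat_lit 7178138150) (nat_lit 407) (nat_lit 5) (nat_lit 406) (nat_lit 3) (nat_lit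 421) (nat_lit 5) (nat_lit 365) (nat_lit 364) (nat_lit 291)) (XT.nd (nat_lit 78) (nat_lit 0) (nat_lit 0) (XT.lf (nat_lit 0) (nat_lit 2821555305) (nat_lit 1064) (nat_lit 4032134308) (nat_lit 1140) (nat_lit 2251071334) (nat_lit 407) (nat_lit 5) (nat_lit 421) (nat_lit 5) (nat_lit 422) (nat_lit 5) (nat_lit 366) (nat_lit 364) (nat_lit 290)) (XT.lf (nat_lit 76) (nat_lit 602755948) (nat_lit 0) (nat_lit 3235635353) (nat_lit 1140) (nat_lit 5377778912) (nat_lit 408) (nat_lit 5) (nat_lit 407) (nat_lit 5) (nat_lit 422) (nat_lit 5) (nat_lit 367) (nat_lit 364) (nat_lit 289)))) (XT.nd (nat_lit 156) (nat_lit 0) (nat_lit 0) (XT.nd (nat_lit 78) (nat_lit 0) (nat_lit 0) (XT.lf (nat_lit 0) (nat_lit 4897270391) (nat_lit 1064) (nat_lit 3896208753) (nat_lit 1140) (nat_lit 537096473) (nat_lit 408) (nat_lit 5) (nat_lit 422) (nat_lit 5) (nat_lit 423) (nat_lit 5) (nat_lit 368) (nat_lit 364) (nat_lit 288)) (XT.lf (nat_lit 76) (nat_lit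 928464857) (nat_lit 0) (nat_lit 5067109839) (nat_lit 1140) (nat_lit 3452608722) (nat_lit 409) (nat_lit 5) (nat_lit 408) (nat_lit 5) (nat_lit 423) (nat_lit 5) (nat_lit 369) (nat_lit 364) (nat_lit 287))) (XT.nd (nat_lit 78) (nat_lit 0) (nat_lit 76) (XT.lf (nat_lit 76) (nat_lit 5957814719) (nat_lit 0) (nat_lit 1175833719) (nat_lit 1140) (nat_lit 2435466405) (nat_lit 409) (nat_lit 5) (nat_lit 408) (nat_lit 5) (nat_lit 423) (nat_lit 5) (nat_lit 370) (nat_lit 364) (nat_lit 286)) (XT.lf (nat_lit 76) (nat_lit 1424527204) (nat_lit 0) (nat_lit 6890796314) (nat_lit 1140) (nat_lit 1378066920) (nat_lit 410) (nat_lit 5) (nat_lit 409) (nat_lit 5) (nat_lit 424) (nat_lit 5) (nat_lit 371) (nat_lit 364) (nat_lit 285))))) (XT.nd (nat_lit 312) (nat_lit 0) (nat_lit 76) (XT.nd (nat_lit 156) (nat_lit 0) (nat_lit 0) (XT.nd (nat_lit 78) (nat_lit 1064) (nat_lit 0) (XT.lf (nat_lit 76) (nat_lit 6653367348) (nat_lit 0) (nat_lit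 2896339325) (nat_lit 1140) (nat_lit 271169892) (nat_lit 410) (nat_lit 5) (nat_lit 409) (nat_lit 5) (nat_lit 424) (nat_lit 5) (nat_lit 372) (nat_lit 364) (nat_lit 284)) (XT.lf (nat_lit 0) (nat_lit 854105705) (nat_lit 1140) (nat_lit 7865051335) (nat_lit 1216) (nat_lit 1232715824) (nat_lit 395) (nat_lit 5) (nat_lit 410) (nat_lit 5) (nat_lit 411) (nat_lit 5) (nat_lit 373) (nat_lit 364) (nat_lit 283))) (XT.nd (nat_lit 78) (nat_lit 0) (nat_lit 0) (XT.lf (nat_lit 0) (nat_lit 2039306883) (nat_lit 1140) (nat_lit 2574807906) (nat_lit 1216) (nat_lit 5471655191) (nat_lit 395) (nat_lit 5) (nat_lit 410) (nat_lit 5) (nat_lit 411) (nat_lit 5) (nat_lit 374) (nat_lit 364) (nat_lit 282)) (XT.lf (nat_lit 76) (nat_lit 2910546528) (nat_lit 0) (nat_lit 348989317) (nat_lit 1216) (nat_lit 6964164012) (nat_lit 396) (nat_lit 5) (nat_lit 395) (nat_lit 5) (nat_lit 411) (nat_lit 5) (nat_lit 375) (nat_lit 364) (nat_lit 281)))) (XT.nd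 (nat_lit 156) (nat_lit 0) (nat_lit 76) (XT.nd (nat_lit 78) (nat_lit 0) (nat_lit 0) (XT.lf (nat_lit 0) (nat_lit 4553707673) (nat_lit 1140) (nat_lit 1811978214) (nat_lit 1216) (nat_lit 3998961662) (nat_lit 396) (nat_lit 5) (nat_lit 411) (nat_lit 5) (nat_lit 412) (nat_lit 5) (nat_lit 376) (nat_lit 364) (nat_lit 280)) (XT.lf (nat_lit 76) (nat_lit 3906520164) (nat_lit 0) (nat_lit 1994205079) (nat_lit 1216) (nat_lit 4608677812) (nat_lit 397) (nat_lit 5) (nat_lit 396) (nat_lit 5) (nat_lit 412) (nat_lit 5) (nat_lit 377) (nat_lit 364) (nat_lit 279))) (XT.nd (nat_lit 78) (nat_lit 0) (nat_lit 0) (XT.lf (nat_lit 0) (nat_lit 7304407531) (nat_lit 1140) (nat_lit 869665337) (nat_lit 1216) (nat_lit 2483940733) (nat_lit 397) (nat_lit 5) (nat_lit 412) (nat_lit 5) (nat_lit 413) (nat_lit 5) (nat_lit 378) (nat_lit 364) (nat_lit 278)) (XT.lf (nat_lit 76) (nat_lit 5094699026) (nat_lit 0) (nat_lit 3698649454) (nat_lit 1216)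 (nat_lit 2016439537) (nat_lit 398) (nat_lit 5) (nat_lit 397) (nat_lit 5) (nat_lit 413) (nat_lit 5) (nat_lit 379) (nat_lit 364) (nat_lit 277))))))) (XT.nd (nat_lit 1170) (nat_lit 4104) (nat_lit 0) (XT.nd (nat_lit 546) (nat_lit 2964) (nat_lit 0) (XT.nd (nat_lit 234) (nat_lit 1444) (nat_lit 0) (XT.nd (nat_lit 78) (nat_lit 1292) (nat_lit 0) (XT.lf (nat_lit 0) (nat_lit 265184053) (nat_lit 1140) (nat_lit 10056973853) (nat_lit 1216) (nat_lit 644101751) (nat_lit 383) (nat_lit 5) (nat_lit 398) (nat_lit 5) (nat_lit 399) (nat_lit 5) (nat_lit 380) (nat_lit 364) (nat_lit 276)) (XT.nd (nat_lit 78) (nat_lit 1216) (nat_lit 0) (XT.lf (nat_lit 0) (nat_lit 824604375) (nat_lit 1216) (nat_lit 4649662822) (nat_lit 76) (nat_lit 5650830009) (nat_lit 382) (nat_lit 5) (nat_lit 398) (nat_lit 5) (nat_lit 383) (nat_lit 5) (nat_lit 381) (nat_lit 364) (nat_lit 275)) (XT.lf (nat_lit 0) (nat_lit 1587108578) (nat_lit 1216) (nat_lit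 728601919) (nat_lit 1292) (nat_lit 8973059527) (nat_lit 366) (nat_lit 5) (nat_lit 382) (nat_lit 5) (nat_lit 383) (nat_lit 5) (nat_lit 382) (nat_lit 364) (nat_lit 274)))) (XT.nd (nat_lit 156) (nat_lit 608) (nat_lit 0) (XT.nd (nat_lit 78) (nat_lit 836) (nat_lit 0) (XT.lf (nat_lit 0) (nat_lit 3915506836) (nat_lit 1292) (nat_lit 3411400724) (nat_lit 76) (nat_lit 4128526755) (nat_lit 366) (nat_lit 5) (nat_lit 383) (nat_lit 5) (nat_lit 367) (nat_lit 5) (nat_lit 383) (nat_lit 364) (nat_lit 273)) (XT.lf (nat_lit 0) (nat_lit 3100164827) (nat_lit 836) (nat_lit 2477386276) (nat_lit 912) (nat_lit 6049119811) (nat_lit 355) (nat_lit 5) (nat_lit 366) (nat_lit 5) (nat_lit 367) (nat_lit 5) (nat_lit 384) (nat_lit 364) (nat_lit 272))) (XT.nd (nat_lit 78) (nat_lit 608) (nat_lit 0) (XT.lf (nat_lit 0) (nat_lit 7326170089) (nat_lit 912) (nat_lit 1970713389) (nat_lit 76) (nat_lit 2505059732) (nat_lit 355) (nat_lit 5) (nat_lit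 367) (nat_lit 5) (nat_lit 356) (nat_lit 5) (nat_lit 385) (nat_lit 364) (nat_lit 271)) (XT.lf (nat_lit 0) (nat_lit 4830942174) (nat_lit 608) (nat_lit 4345643813) (nat_lit 684) (nat_lit 2804407537) (nat_lit 347) (nat_lit 5) (nat_lit 355) (nat_lit 5) (nat_lit 356) (nat_lit 5) (nat_lit 386) (nat_lit 364) (nat_lit 270))))) (XT.nd (nat_lit 312) (nat_lit 1748) (nat_lit 0) (XT.nd (nat_lit 156) (nat_lit 532) (nat_lit 0) (XT.nd (nat_lit 78) (nat_lit 684) (nat_lit 0) (XT.lf (nat_lit 0) (nat_lit 11088675163) (nat_lit 684) (nat_lit 316213327) (nat_lit 76) (nat_lit 760342033) (nat_lit 347) (nat_lit 5) (nat_lit 356) (nat_lit 5) (nat_lit 348) (nat_lit 5) (nat_lit 387) (nat_lit 364) (nat_lit 269)) (XT.lf (nat_lit 0) (nat_lit 778024544) (nat_lit 684) (nat_lit 5568226977) (nat_lit 76) (nat_lit 6005881959) (nat_lit 338) (nat_lit 5) (nat_lit 347) (nat_lit 5) (nat_lit 339) (nat_lit 5) (nat_lit 388) (nat_lit 364) (nat_lit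 268))) (XT.nd (nat_lit 78) (nat_lit 0) (nat_lit 0) (XT.lf (nat_lit 0) (nat_lit 1558089790) (nat_lit 532) (nat_lit 1106353163) (nat_lit 608) (nat_lit 9879945640) (nat_lit 331) (nat_lit 5) (nat_lit 338) (nat_lit 5) (nat_lit 339) (nat_lit 5) (nat_lit 389) (nat_lit 364) (nat_lit 267)) (XT.lf (nat_lit 0) (nat_lit 4685513889) (nat_lit 608) (nat_lit 3791168153) (nat_lit 76) (nat_lit 4263387518) (nat_lit 331) (nat_lit 5) (nat_lit 339) (nat_lit 5) (nat_lit 332) (nat_lit 5) (nat_lit 390) (nat_lit 364) (nat_lit 266)))) (XT.nd (nat_lit 156) (nat_lit 1140) (nat_lit 0) (XT.nd (nat_lit 78) (nat_lit 0) (nat_lit 0) (XT.lf (nat_lit 0) (nat_lit 3659910618) (nat_lit 608) (nat_lit 3134053127) (nat_lit 684) (nat_lit 6146854807) (nat_lit 323) (nat_lit 5) (nat_lit 331) (nat_lit 5) (nat_lit 332) (nat_lit 5) (nat_lit 391) (nat_lit 364) (nat_lit 265)) (XT.lf (nat_lit 0) (nat_lit 9008071635) (nat_lit 684) (nat_lit 1778084046)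 (nat_lit 76) (nat_lit 2360162196) (nat_lit 323) (nat_lit 5) (nat_lit 332) (nat_lit 5) (nat_lit 324) (nat_lit 5) (nat_lit 392) (nat_lit 364) (nat_lit 264))) (XT.nd (nat_lit 78) (nat_lit 608) (nat_lit 0) (XT.lf (nat_lit 0) (nat_lit 6016063580) (nat_lit 532) (nat_lit 5342924978) (nat_lit 608) (nat_lit 1996882051) (nat_lit 316) (nat_lit 5) (nat_lit 323) (nat_lit 5) (nat_lit 324) (nat_lit 5) (nat_lit 393) (nat_lit 364) (nat_lit 263)) (XT.lf (nat_lit 0) (nat_lit 212009976) (nat_lit 608) (nat_lit 13077747927) (nat_lit 76) (nat_lit 281671033) (nat_lit 308) (nat_lit 5) (nat_lit 316) (nat_lit 5) (nat_lit 309) (nat_lit 5) (nat_lit 394) (nat_lit 364) (nat_lit 262)))))) (XT.nd (nat_lit 624) (nat_lit 2128) (nat_lit 0) (XT.nd (nat_lit 312) (nat_lit 988) (nat_lit 0) (XT.nd (nat_lit 156) (nat_lit 532) (nat_lit 0) (XT.nd (nat_lit 78) (nat_lit 456) (nat_lit 0) (XT.lf (nat_lit 0) (nat_lit 2556797317) (nat_lit 608) (nat_lit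 5172615630) (nat_lit 76) (nat_lit 6060155015) (nat_lit 308) (nat_lit 5) (nat_lit 316) (nat_lit 5) (nat_lit 309) (nat_lit 5) (nat_lit 395) (nat_lit 364) (nat_lit 261)) (XT.lf (nat_lit 0) (nat_lit 3008362494) (nat_lit 456) (nat_lit 1975020080) (nat_lit 532) (nat_lit 9030524957) (nat_lit 302) (nat_lit 5) (nat_lit 308) (nat_lit 5) (nat_lit 309) (nat_lit 5) (nat_lit 396) (nat_lit 364) (nat_lit 260))) (XT.nd (nat_lit 78) (nat_lit 532) (nat_lit 0) (XT.lf (nat_lit 0) (nat_lit 7556333495) (nat_lit 532) (nat_lit 2761417658) (nat_lit 76) (nat_lit 3925019089) (nat_lit 302) (nat_lit 5) (nat_lit 309) (nat_lit 5) (nat_lit 303) (nat_lit 5) (nat_lit 397) (nat_lit 364) (nat_lit 259)) (XT.lf (nat_lit 0) (nat_lit 5804023042) (nat_lit 532) (nat_lit 4461125098) (nat_lit 608) (nat_lit 4211590440) (nat_lit 295) (nat_lit 5) (nat_lit 302) (nat_lit 5) (nat_lit 303) (nat_lit 5) (nat_lit 398) (nat_lit 364) (nat_lit 258)))) (XT.nd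 (nat_lit 156) (nat_lit 456) (nat_lit 0) (XT.nd (nat_lit 78) (nat_lit 532) (nat_lit 0) (XT.lf (nat_lit 0) (nat_lit 13082087959) (nat_lit 608) (nat_lit 69216447) (nat_lit 76) (nat_lit 1565615740) (nat_lit 295) (nat_lit 5) (nat_lit 303) (nat_lit 5) (nat_lit 296) (nat_lit 5) (nat_lit 399) (nat_lit 364) (nat_lit 257)) (XT.lf (nat_lit 0) (nat_lit 1114287317) (nat_lit 532) (nat_lit 6069277212) (nat_lit 76) (nat_lit 7777000285) (nat_lit 288) (nat_lit 5) (nat_lit 295) (nat_lit 5) (nat_lit 289) (nat_lit 5) (nat_lit 400) (nat_lit 364) (nat_lit 256))) (XT.nd (nat_lit 78) (nat_lit 0) (nat_lit 0) (XT.lf (nat_lit 0) (nat_lit 2932025538) (nat_lit 456) (nat_lit 994085133) (nat_lit 532) (nat_lit 11284529896) (nat_lit 282) (nat_lit 5) (nat_lit 288) (nat_lit 5) (nat_lit 289) (nat_lit 5) (nat_lit 401) (nat_lit 364) (nat_lit 255)) (XT.lf (nat_lit 0) (nat_lit 6920345868) (nat_lit 532) (nat_lit 3210692471) (nat_lit 76) (nat_lit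 5334238538) (nat_lit 282) (nat_lit 5) (nat_lit 289) (nat_lit 5) (nat_lit 283) (nat_lit 5) (nat_lit 402) (nat_lit 364) (nat_lit 254))))) (XT.nd (nat_lit 312) (nat_lit 836) (nat_lit 0) (XT.nd (nat_lit 156) (nat_lit 912) (nat_lit 0) (XT.nd (nat_lit 78) (nat_lit 0) (nat_lit 0) (XT.lf (nat_lit 0) (nat_lit 6221646549) (nat_lit 380) (nat_lit 3837299897) (nat_lit 456) (nat_lit 5666969682) (nat_lit 277) (nat_lit 5) (nat_lit 282) (nat_lit 5) (nat_lit 283) (nat_lit 5) (nat_lit 403) (nat_lit 364) (nat_lit 253)) (XT.lf (nat_lit 0) (nat_lit 13334982793) (nat_lit 456) (nat_lit 35782066) (nat_lit 76) (nat_lit 2622311363) (nat_lit 277) (nat_lit 5) (nat_lit 283) (nat_lit 5) (nat_lit 278) (nat_lit 5) (nat_lit 404) (nat_lit 364) (nat_lit 252))) (XT.nd (nat_lit 78) (nat_lit 380) (nat_lit 0) (XT.lf (nat_lit 0) (nat_lit 551852638) (nat_lit 532) (nat_lit 6417933765) (nat_lit 76) (nat_lit 9294755228) (nat_lit 270) (nat_lit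 5) (nat_lit 277) (nat_lit 5) (nat_lit 271) (nat_lit 5) (nat_lit 405) (nat_lit 364) (nat_lit 251)) (XT.lf (nat_lit 0) (nat_lit 3505201507) (nat_lit 380) (nat_lit 319171694) (nat_lit 456) (nat_lit 12718397235) (nat_lit 265) (nat_lit 5) (nat_lit 270) (nat_lit 5) (nat_lit 271) (nat_lit 5) (nat_lit 406) (nat_lit 364) (nat_lit 250)))) (XT.nd (nat_lit 156) (nat_lit 456) (nat_lit 0) (XT.nd (nat_lit 78) (nat_lit 380) (nat_lit 0) (XT.lf (nat_lit 0) (nat_lit 7309134686) (nat_lit 456) (nat_lit 3052363405) (nat_lit 76) (nat_lit 6464426055) (nat_lit 265) (nat_lit 5) (nat_lit 271) (nat_lit 5) (nat_lit 266) (nat_lit 5) (nat_lit 407) (nat_lit 364) (nat_lit 249)) (XT.lf (nat_lit 0) (nat_lit 7354169278) (nat_lit 380) (nat_lit 3604370677) (nat_lit 456) (nat_lit 6157229482) (nat_lit 260) (nat_lit 5) (nat_lit 265) (nat_lit 5) (nat_lit 266) (nat_lit 5) (nat_lit 408) (nat_lit 364) (nat_lit 248))) (XT.nd (nat_lit 78) (nat_lit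 76) (nat_lit 0) (XT.lf (nat_lit 0) (nat_lit 684120442) (nat_lit 380) (nat_lit 14089691045) (nat_lit 456) (nat_lit 2638807077) (nat_lit 255) (nat_lit 5) (nat_lit 260) (nat_lit 5) (nat_lit 261) (nat_lit 5) (nat_lit 409) (nat_lit 364) (nat_lit 247)) (XT.lf (nat_lit 0) (nat_lit 1087689315) (nat_lit 456) (nat_lit 6137069760) (nat_lit 76) (nat_lit 10489677627) (nat_lit 254) (nat_lit 5) (nat_lit 260) (nat_lit 5) (nat_lit 255) (nat_lit 5) (nat_lit 410) (nat_lit 364) (nat_lit 246))))))))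
noncomputable def xc155 : XT := (XT.nd (nat_lit 2340) (nat_lit 3496) (nat_lit 0) (XT.nd (nat_lit 1170) (nat_lit 2584) (nat_lit 0) (XT.nd (nat_lit 546) (nat_lit 1596) (nat_lit 0) (XT.nd (nat_lit 234) (nat_lit 760) (nat_lit 0) (XT.nd (nat_lit 78) (nat_lit 304) (nat_lit 0) (XT.lf (nat_lit 0) (nat_lit 4821776694) (nat_lit 380) (nat_lit 84418947) (nat_lit 456) (nat_lit 13117332362) (nat_lit 249) (nat_lit 5) (nat_lit 254) (nat_lit 5) (nat_lit 255) (nat_lit 5) (nat_lit 411) (nat_lit 364) (nat_lit 245)) (XT.nd (nat_lit 78) (nat_lit 304) (nat_lit 0) (XT.lf (nat_lit 0) (nat_lit 8958787889) (nat_lit 456) (nat_lit 2193784382) (nat_lit 76) (nat_lit 7185733851) (nat_lit 249) (nat_lit 5) (nat_lit 255) (nat_lit 5) (nat_lit 250) (nat_lit 5) (nat_lit 412) (nat_lit 364) (nat_lit 244)) (XT.lf (nat_lit 0) (nat_lit 9307296418) (nat_lit 304) (nat_lit 3903401464) (nat_lit 380) (nat_lit 5449497504) (nat_lit 245) (nat_lit 5)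 (nat_lit 249) (nat_lit 5) (nat_lit 250) (nat_lit 5) (nat_lit 413) (nat_lit 364) (nat_lit 243)))) (XT.nd (nat_lit 156) (nat_lit 304) (nat_lit 0) (XT.nd (nat_lit 78) (nat_lit 76) (nat_lit 0) (XT.lf (nat_lit 0) (nat_lit 2197664179) (nat_lit 380) (nat_lit 15457831245) (nat_lit 456) (nat_lit 1334285996) (nat_lit 240) (nat_lit 5) (nat_lit 245) (nat_lit 5) (nat_lit 246) (nat_lit 5) (nat_lit 414) (nat_lit 364) (nat_lit 242)) (XT.lf (nat_lit 0) (nat_lit 2969384927) (nat_lit 456) (nat_lit 5125574412) (nat_lit 76) (nat_lit 11229807794) (nat_lit 239) (nat_lit 5) (nat_lit 245) (nat_lit 5) (nat_lit 240) (nat_lit 5) (nat_lit 415) (nat_lit 364) (nat_lit 241))) (XT.nd (nat_lit 78) (nat_lit 0) (nat_lit 0) (XT.lf (nat_lit 0) (nat_lit 6996691500) (nat_lit 304) (nat_lit 433922289) (nat_lit 380) (nat_lit 12237134338) (nat_lit 235) (nat_lit 5) (nat_lit 239) (nat_lit 5) (nat_lit 240) (nat_lit 5) (nat_lit 416) (nat_lit 364)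 (nat_lit 240)) (XT.lf (nat_lit 0) (nat_lit 12137767960) (nat_lit 380) (nat_lit 521685294) (nat_lit 76) (nat_lit 7358202642) (nat_lit 235) (nat_lit 5) (nat_lit 240) (nat_lit 5) (nat_lit 236) (nat_lit 5) (nat_lit 417) (nat_lit 364) (nat_lit 239))))) (XT.nd (nat_lit 312) (nat_lit 608) (nat_lit 0) (XT.nd (nat_lit 156) (nat_lit 304) (nat_lit 0) (XT.nd (nat_lit 78) (nat_lit 380) (nat_lit 0) (XT.lf (nat_lit 0) (nat_lit 12208905840) (nat_lit 304) (nat_lit 4887369178) (nat_lit 380) (nat_lit 3278481733) (nat_lit 231) (nat_lit 5) (nat_lit 235) (nat_lit 5) (nat_lit 236) (nat_lit 5) (nat_lit 418) (nat_lit 364) (nat_lit 238)) (XT.lf (nat_lit 0) (nat_lit 1501558883) (nat_lit 380) (nat_lit 16122486151) (nat_lit 76) (nat_lit 3116031258) (nat_lit 226) (nat_lit 5) (nat_lit 231) (nat_lit 5) (nat_lit 227) (nat_lit 5) (nat_lit 419) (nat_lit 364) (nat_lit 237))) (XT.nd (nat_lit 78) (nat_lit 304) (nat_lit 0) (XT.lf (nat_lit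 0) (nat_lit 6479427272) (nat_lit 380) (nat_lit 3260999478) (nat_lit 76) (nat_lit 11371345239) (nat_lit 226) (nat_lit 5) (nat_lit 231) (nat_lit 5) (nat_lit 227) (nat_lit 5) (nat_lit 420) (nat_lit 364) (nat_lit 236)) (XT.lf (nat_lit 0) (nat_lit 10167871987) (nat_lit 304) (nat_lit 1525485441) (nat_lit 380) (nat_lit 9798659358) (nat_lit 222) (nat_lit 5) (nat_lit 226) (nat_lit 5) (nat_lit 227) (nat_lit 5) (nat_lit 421) (nat_lit 364) (nat_lit 235)))) (XT.nd (nat_lit 156) (nat_lit 304) (nat_lit 0) (XT.nd (nat_lit 78) (nat_lit 76) (nat_lit 0) (XT.lf (nat_lit 0) (nat_lit 2141592278) (nat_lit 228) (nat_lit 15031717259) (nat_lit 304) (nat_lit 4707071268) (nat_lit 219) (nat_lit 5) (nat_lit 222) (nat_lit 5) (nat_lit 223) (nat_lit 5) (nat_lit 422) (nat_lit 364) (nat_lit 234)) (XT.lf (nat_lit 0) (nat_lit 646507746) (nat_lit 304) (nat_lit 6071955668) (nat_lit 76) (nat_lit 15558185578) (nat_lit 218) (nat_lit 5) (nat_lit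 222) (nat_lit 5) (nat_lit 219) (nat_lit 5) (nat_lit 423) (nat_lit 364) (nat_lit 233))) (XT.nd (nat_lit 78) (nat_lit 0) (nat_lit 0) (XT.lf (nat_lit 0) (nat_lit 6152305093) (nat_lit 380) (nat_lit 14600485383) (nat_lit 76) (nat_lit 1928030054) (nat_lit 214) (nat_lit 5) (nat_lit 219) (nat_lit 5) (nat_lit 215) (nat_lit 5) (nat_lit 424) (nat_lit 364) (nat_lit 232)) (XT.lf (nat_lit 0) (nat_lit 11941265987) (nat_lit 380) (nat_lit 397362220) (nat_lit 76) (nat_lit 10754949321) (nat_lit 214) (nat_lit 5) (nat_lit 219) (nat_lit 5) (nat_lit 215) (nat_lit 5) (nat_lit 425) (nat_lit 364) (nat_lit 231)))))) (XT.nd (nat_lit 546) (nat_lit 1216) (nat_lit 0) (XT.nd (nat_lit 234) (nat_lit 760) (nat_lit 0) (XT.nd (nat_lit 78) (nat_lit 380) (nat_lit 0) (XT.lf (nat_lit 0) (nat_lit 14498637649) (nat_lit 228) (nat_lit 3534480514) (nat_lit 304) (nat_lit 5481722398) (nat_lit 211) (nat_lit 5) (nat_lit 214) (nat_lit 5) (nat_lit 215)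 (nat_lit 5) (nat_lit 426) (nat_lit 364) (nat_lit 230)) (XT.nd (nat_lit 78) (nat_lit 0) (nat_lit 0) (XT.lf (nat_lit 0) (nat_lit 457368682) (nat_lit 380) (nat_lit 18002448945) (nat_lit 76) (nat_lit 5485658653) (nat_lit 206) (nat_lit 5) (nat_lit 211) (nat_lit 5) (nat_lit 207) (nat_lit 5) (nat_lit 427) (nat_lit 364) (nat_lit 229)) (XT.lf (nat_lit 0) (nat_lit 6581375204) (nat_lit 380) (nat_lit 2956875239) (nat_lit 76) (nat_lit 14845644798) (nat_lit 206) (nat_lit 5) (nat_lit 211) (nat_lit 5) (nat_lit 207) (nat_lit 5) (nat_lit 428) (nat_lit 364) (nat_lit 228)))) (XT.nd (nat_lit 156) (nat_lit 304) (nat_lit 0) (XT.nd (nat_lit 78) (nat_lit 228) (nat_lit 0) (XT.lf (nat_lit 0) (nat_lit 12773534432) (nat_lit 228) (nat_lit 228624058) (nat_lit 304) (nat_lit 11829916584) (nat_lit 203) (nat_lit 5) (nat_lit 206) (nat_lit 5) (nat_lit 207) (nat_lit 5) (nat_lit 429) (nat_lit 364) (nat_lit 227)) (XT.lf (nat_lit 0) (nat_lit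 3709922360) (nat_lit 228) (nat_lit 16051780714) (nat_lit 304) (nat_lit 5527613092) (nat_lit 200) (nat_lit 5) (nat_lit 203) (nat_lit 5) (nat_lit 204) (nat_lit 5) (nat_lit 430) (nat_lit 364) (nat_lit 226))) (XT.nd (nat_lit 78) (nat_lit 228) (nat_lit 0) (XT.lf (nat_lit 0) (nat_lit 1060570481) (nat_lit 304) (nat_lit 5586627344) (nat_lit 76) (nat_lit 19109330218) (nat_lit 199) (nat_lit 5) (nat_lit 203) (nat_lit 5) (nat_lit 200) (nat_lit 5) (nat_lit 431) (nat_lit 364) (nat_lit 225)) (XT.lf (nat_lit 0) (nat_lit 7862748450) (nat_lit 304) (nat_lit 15232953151) (nat_lit 76) (nat_lit 3136589358) (nat_lit 196) (nat_lit 5) (nat_lit 200) (nat_lit 5) (nat_lit 197) (nat_lit 5) (nat_lit 432) (nat_lit 364) (nat_lit 224))))) (XT.nd (nat_lit 312) (nat_lit 684) (nat_lit 0) (XT.nd (nat_lit 156) (nat_lit 304) (nat_lit 0) (XT.nd (nat_lit 78) (nat_lit 0) (nat_lit 0) (XT.lf (nat_lit 0) (nat_lit 1422653107) (nat_lit 228) (nat_lit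 13573527895) (nat_lit 304) (nat_lit 11722330080) (nat_lit 193) (nat_lit 5) (nat_lit 196) (nat_lit 5) (nat_lit 197) (nat_lit 5) (nat_lit 433) (nat_lit 364) (nat_lit 223)) (XT.lf (nat_lit 0) (nat_lit 18874836612) (nat_lit 228) (nat_lit 3613452842) (nat_lit 304) (nat_lit 4726688170) (nat_lit 193) (nat_lit 5) (nat_lit 196) (nat_lit 5) (nat_lit 197) (nat_lit 5) (nat_lit 434) (nat_lit 364) (nat_lit 222))) (XT.nd (nat_lit 78) (nat_lit 0) (nat_lit 0) (XT.lf (nat_lit 0) (nat_lit 2575491629) (nat_lit 304) (nat_lit 18522006724) (nat_lit 76) (nat_lit 6623773786) (nat_lit 189) (nat_lit 5) (nat_lit 193) (nat_lit 5) (nat_lit 190) (nat_lit 5) (nat_lit 435) (nat_lit 364) (nat_lit 221)) (XT.lf (nat_lit 0) (nat_lit 10113652551) (nat_lit 304) (nat_lit 902961921) (nat_lit 76) (nat_lit 17221379528) (nat_lit 189) (nat_lit 5) (nat_lit 193) (nat_lit 5) (nat_lit 190) (nat_lit 5) (nat_lit 436) (nat_lit 364) (nat_lit 220)))) (XT.nd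 (nat_lit 156) (nat_lit 304) (nat_lit 0) (XT.nd (nat_lit 78) (nat_lit 152) (nat_lit 0) (XT.lf (nat_lit 0) (nat_lit 17572862864) (nat_lit 228) (nat_lit 465363919) (nat_lit 304) (nat_lit 10727182679) (nat_lit 186) (nat_lit 5) (nat_lit 189) (nat_lit 5) (nat_lit 190) (nat_lit 5) (nat_lit 437) (nat_lit 364) (nat_lit 219)) (XT.lf (nat_lit 0) (nat_lit 7341517628) (nat_lit 152) (nat_lit 19030196286) (nat_lit 228) (nat_lit 2931798203) (nat_lit 184) (nat_lit 5) (nat_lit 186) (nat_lit 5) (nat_lit 187) (nat_lit 5) (nat_lit 438) (nat_lit 364) (nat_lit 218))) (XT.nd (nat_lit 78) (nat_lit 228) (nat_lit 0) (XT.lf (nat_lit 0) (nat_lit 5108155188) (nat_lit 228) (nat_lit 3262834951) (nat_lit 76) (nat_lit 21481992411) (nat_lit 183) (nat_lit 5) (nat_lit 186) (nat_lit 5) (nat_lit 184) (nat_lit 5) (nat_lit 439) (nat_lit 364) (nat_lit 217)) (XT.lf (nat_lit 0) (nat_lit 13505316881) (nat_lit 304) (nat_lit 14169036226) (nat_lit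 76) (nat_lit 2738465081) (nat_lit 180) (nat_lit 5) (nat_lit 184) (nat_lit 5) (nat_lit 181) (nat_lit 5) (nat_lit 440) (nat_lit 364) (nat_lit 216))))))) (XT.nd (nat_lit 1170) (nat_lit 1596) (nat_lit 0) (XT.nd (nat_lit 546) (nat_lit 912) (nat_lit 0) (XT.nd (nat_lit 234) (nat_lit 532) (nat_lit 0) (XT.nd (nat_lit 78) (nat_lit 304) (nat_lit 0) (XT.lf (nat_lit 0) (nat_lit 5422222549) (nat_lit 152) (nat_lit 16892173598) (nat_lit 228) (nat_lit 8670252664) (nat_lit 178) (nat_lit 5) (nat_lit 180) (nat_lit 5) (nat_lit 181) (nat_lit 5) (nat_lit 441) (nat_lit 364) (nat_lit 215)) (XT.nd (nat_lit 78) (nat_lit 304) (nat_lit 0) (XT.lf (nat_lit 0) (nat_lit 25877412523) (nat_lit 152) (nat_lit 5645244161) (nat_lit 228) (nat_lit 46930404) (nat_lit 178) (nat_lit 5) (nat_lit 180) (nat_lit 5) (nat_lit 181) (nat_lit 5) (nat_lit 442) (nat_lit 364) (nat_lit 214)) (XT.lf (nat_lit 0) (nat_lit 8857848940) (nat_lit 304) (nat_lit 17257427098)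 (nat_lit 76) (nat_lit 6048394768) (nat_lit 174) (nat_lit 5) (nat_lit 178) (nat_lit 5) (nat_lit 175) (nat_lit 5) (nat_lit 443) (nat_lit 364) (nat_lit 213)))) (XT.nd (nat_lit 156) (nat_lit 380) (nat_lit 0) (XT.nd (nat_lit 78) (nat_lit 0) (nat_lit 0) (XT.lf (nat_lit 0) (nat_lit 3462030394) (nat_lit 152) (nat_lit 14706051258) (nat_lit 228) (nat_lit 14603303847) (nat_lit 172) (nat_lit 5) (nat_lit 174) (nat_lit 5) (nat_lit 175) (nat_lit 5) (nat_lit 444) (nat_lit 364) (nat_lit 212)) (XT.lf (nat_lit 0) (nat_lit 25142924741) (nat_lit 152) (nat_lit 2781092857) (nat_lit 228) (nat_lit 5468322149) (nat_lit 172) (nat_lit 5) (nat_lit 174) (nat_lit 5) (nat_lit 175) (nat_lit 5) (nat_lit 445) (nat_lit 364) (nat_lit 211))) (XT.nd (nat_lit 78) (nat_lit 152) (nat_lit 0) (XT.lf (nat_lit 0) (nat_lit 4080330559) (nat_lit 228) (nat_lit 20462742351) (nat_lit 76) (nat_lit 9481217726) (nat_lit 169) (nat_lit 5) (nat_lit 172) (nat_lit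 5) (nat_lit 170) (nat_lit 5) (nat_lit 446) (nat_lit 364) (nat_lit 210)) (XT.lf (nat_lit 0) (nat_lit 1455449572) (nat_lit 152) (nat_lit 12468061055) (nat_lit 228) (nat_lit 20746525902) (nat_lit 167) (nat_lit 5) (nat_lit 169) (nat_lit 5) (nat_lit 170) (nat_lit 5) (nat_lit 447) (nat_lit 364) (nat_lit 209))))) (XT.nd (nat_lit 312) (nat_lit 532) (nat_lit 0) (XT.nd (nat_lit 156) (nat_lit 228) (nat_lit 0) (XT.nd (nat_lit 78) (nat_lit 152) (nat_lit 0) (XT.lf (nat_lit 0) (nat_lit 24262727056) (nat_lit 228) (nat_lit 10893781835) (nat_lit 76) (nat_lit 172623679) (nat_lit 167) (nat_lit 5) (nat_lit 170) (nat_lit 5) (nat_lit 168) (nat_lit 5) (nat_lit 448) (nat_lit 364) (nat_lit 208)) (XT.lf (nat_lit 0) (nat_lit 12197896446) (nat_lit 152) (nat_lit 22947503482) (nat_lit 228) (nat_lit 855603166) (nat_lit 165) (nat_lit 5) (nat_lit 167) (nat_lit 5) (nat_lit 168) (nat_lit 5) (nat_lit 449) (nat_lit 364) (nat_lit 207)))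 (XT.nd (nat_lit 78) (nat_lit 152) (nat_lit 0) (XT.lf (nat_lit 0) (nat_lit 9576683950) (nat_lit 228) (nat_lit 591400668) (nat_lit 76) (nat_lit 26519048187) (nat_lit 164) (nat_lit 5) (nat_lit 167) (nat_lit 5) (nat_lit 165) (nat_lit 5) (nat_lit 450) (nat_lit 364) (nat_lit 206)) (XT.lf (nat_lit 0) (nat_lit 20557016620) (nat_lit 228) (nat_lit 13659184837) (nat_lit 76) (nat_lit 3169822599) (nat_lit 162) (nat_lit 5) (nat_lit 165) (nat_lit 5) (nat_lit 163) (nat_lit 5) (nat_lit 451) (nat_lit 364) (nat_lit 205)))) (XT.nd (nat_lit 156) (nat_lit 304) (nat_lit 0) (XT.nd (nat_lit 78) (nat_lit 76) (nat_lit 0) (XT.lf (nat_lit 0) (nat_lit 10777635197) (nat_lit 152) (nat_lit 21292273896) (nat_lit 228) (nat_lit 6029878457) (nat_lit 160) (nat_lit 5) (nat_lit 162) (nat_lit 5) (nat_lit 163) (nat_lit 5) (nat_lit 452) (nat_lit 364) (nat_lit 204)) (XT.lf (nat_lit 0) (nat_lit 5125992051) (nat_lit 228) (nat_lit 2666594532) (nat_lit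 76) (nat_lit 31036943945) (nat_lit 159) (nat_lit 5) (nat_lit 162) (nat_lit 5) (nat_lit 160) (nat_lit 5) (nat_lit 453) (nat_lit 364) (nat_lit 203))) (XT.nd (nat_lit 78) (nat_lit 152) (nat_lit 0) (XT.lf (nat_lit 0) (nat_lit 16772019680) (nat_lit 228) (nat_lit 16527199457) (nat_lit 76) (nat_lit 6271855339) (nat_lit 157) (nat_lit 5) (nat_lit 160) (nat_lit 5) (nat_lit 158) (nat_lit 5) (nat_lit 454) (nat_lit 364) (nat_lit 202)) (XT.lf (nat_lit 0) (nat_lit 9338417389) (nat_lit 152) (nat_lit 19616219316) (nat_lit 228) (nat_lit 11374611780) (nat_lit 155) (nat_lit 5) (nat_lit 157) (nat_lit 5) (nat_lit 158) (nat_lit 5) (nat_lit 455) (nat_lit 364) (nat_lit 201)))))) (XT.nd (nat_lit 624) (nat_lit 760) (nat_lit 0) (XT.nd (nat_lit 312) (nat_lit 456) (nat_lit 0) (XT.nd (nat_lit 156) (nat_lit 152) (nat_lit 0) (XT.nd (nat_lit 78) (nat_lit 152) (nat_lit 0) (XT.lf (nat_lit 0) (nat_lit 546555711) (nat_lit 228) (nat_lit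 4804458085) (nat_lit 76) (nat_lit 35754191164) (nat_lit 154) (nat_lit 5) (nat_lit 157) (nat_lit 5) (nat_lit 155) (nat_lit 5) (nat_lit 456) (nat_lit 364) (nat_lit 200)) (XT.lf (nat_lit 0) (nat_lit 12899154476) (nat_lit 228) (nat_lit 19506501902) (nat_lit 76) (nat_lit 9486332714) (nat_lit 152) (nat_lit 5) (nat_lit 155) (nat_lit 5) (nat_lit 153) (nat_lit 5) (nat_lit 457) (nat_lit 364) (nat_lit 199))) (XT.nd (nat_lit 78) (nat_lit 0) (nat_lit 0) (XT.lf (nat_lit 0) (nat_lit 7876615854) (nat_lit 152) (nat_lit 17916738514) (nat_lit 228) (nat_lit 16903891685) (nat_lit 150) (nat_lit 5) (nat_lit 152) (nat_lit 5) (nat_lit 153) (nat_lit 5) (nat_lit 458) (nat_lit 364) (nat_lit 198)) (XT.lf (nat_lit 0) (nat_lit 36468891273) (nat_lit 152) (nat_lit 2795875367) (nat_lit 228) (nat_lit 4256182491) (nat_lit 150) (nat_lit 5) (nat_lit 152) (nat_lit 5) (nat_lit 153) (nat_lit 5) (nat_lit 459) (nat_lit 364) (nat_lit 197))))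 (XT.nd (nat_lit 156) (nat_lit 152) (nat_lit 0) (XT.nd (nat_lit 78) (nat_lit 152) (nat_lit 0) (XT.lf (nat_lit 0) (nat_lit 8929368997) (nat_lit 152) (nat_lit 22606169124) (nat_lit 76) (nat_lit 12821408907) (nat_lit 148) (nat_lit 5) (nat_lit 150) (nat_lit 5) (nat_lit 149) (nat_lit 5) (nat_lit 460) (nat_lit 364) (nat_lit 196)) (XT.lf (nat_lit 0) (nat_lit 6388510934) (nat_lit 152) (nat_lit 16190999553) (nat_lit 228) (nat_lit 22632613106) (nat_lit 146) (nat_lit 5) (nat_lit 148) (nat_lit 5) (nat_lit 149) (nat_lit 5) (nat_lit 461) (nat_lit 364) (nat_lit 195))) (XT.nd (nat_lit 78) (nat_lit 152) (nat_lit 0) (XT.lf (nat_lit 0) (nat_lit 36704558288) (nat_lit 152) (nat_lit 156508614) (nat_lit 228) (nat_lit 9225231233) (nat_lit 146) (nat_lit 5) (nat_lit 148) (nat_lit 5) (nat_lit 149) (nat_lit 5) (nat_lit 462) (nat_lit 364) (nat_lit 194)) (XT.lf (nat_lit 0) (nat_lit 4853117164) (nat_lit 152) (nat_lit 25835713296)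 (nat_lit 76) (nat_lit 16285799338) (nat_lit 144) (nat_lit 5) (nat_lit 146) (nat_lit 5) (nat_lit 145) (nat_lit 5) (nat_lit 463) (nat_lit 364) (nat_lit 193))))) (XT.nd (nat_lit 312) (nat_lit 304) (nat_lit 0) (XT.nd (nat_lit 156) (nat_lit 304) (nat_lit 0) (XT.nd (nat_lit 78) (nat_lit 0) (nat_lit 0) (XT.lf (nat_lit 0) (nat_lit 4870274817) (nat_lit 152) (nat_lit 14435940230) (nat_lit 228) (nat_lit 28576521687) (nat_lit 142) (nat_lit 5) (nat_lit 144) (nat_lit 5) (nat_lit 145) (nat_lit 5) (nat_lit 464) (nat_lit 364) (nat_lit 192)) (XT.lf (nat_lit 0) (nat_lit 34472325998) (nat_lit 228) (nat_lit 11819639665) (nat_lit 76) (nat_lit 2517738609) (nat_lit 142) (nat_lit 5) (nat_lit 145) (nat_lit 5) (nat_lit 143) (nat_lit 4) (nat_lit 465) (nat_lit 364) (nat_lit 191))) (XT.nd (nat_lit 78) (nat_lit 152) (nat_lit 0) (XT.lf (nat_lit 0) (nat_lit 660332722) (nat_lit 152) (nat_lit 29205117382) (nat_lit 76) (nat_lit 19888801513)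 (nat_lit 140) (nat_lit 5) (nat_lit 142) (nat_lit 5) (nat_lit 141) (nat_lit 5) (nat_lit 466) (nat_lit 364) (nat_lit 190)) (XT.lf (nat_lit 0) (nat_lit 3317955916) (nat_lit 152) (nat_lit 12648266749) (nat_lit 228) (nat_lit 34752261646) (nat_lit 138) (nat_lit 5) (nat_lit 140) (nat_lit 5) (nat_lit 141) (nat_lit 5) (nat_lit 467) (nat_lit 364) (nat_lit 189)))) (XT.nd (nat_lit 156) (nat_lit 228) (nat_lit 0) (XT.nd (nat_lit 78) (nat_lit 76) (nat_lit 0) (XT.lf (nat_lit 0) (nat_lit 32072007690) (nat_lit 228) (nat_lit 14350580274) (nat_lit 76) (nat_lit 5278834472) (nat_lit 138) (nat_lit 5) (nat_lit 141) (nat_lit 5) (nat_lit 139) (nat_lit 4) (nat_lit 468) (nat_lit 364) (nat_lit 188)) (XT.lf (nat_lit 0) (nat_lit 19943764807) (nat_lit 76) (nat_lit 29028317984) (nat_lit 152) (nat_lit 3732432417) (nat_lit 137) (nat_lit 5) (nat_lit 138) (nat_lit 5) (nat_lit 139) (nat_lit 4) (nat_lit 469) (nat_lit 364) (nat_lit 187)))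 (XT.nd (nat_lit 78) (nat_lit 0) (nat_lit 0) (XT.lf (nat_lit 0) (nat_lit 1727463192) (nat_lit 152) (nat_lit 10824450712) (nat_lit 228) (nat_lit 41177427289) (nat_lit 134) (nat_lit 5) (nat_lit 136) (nat_lit 5) (nat_lit 137) (nat_lit 5) (nat_lit 470) (nat_lit 364) (nat_lit 186)) (XT.lf (nat_lit 0) (nat_lit 29654248609) (nat_lit 228) (nat_lit 16980583850) (nat_lit 76) (nat_lit 8136836569) (nat_lit 134) (nat_lit 5) (nat_lit 137) (nat_lit 5) (nat_lit 135) (nat_lit 4) (nat_lit 471) (nat_lit 364) (nat_lit 185))))))))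
noncomputable def xc156 : XT := (XT.nd (nat_lit 45630) (nat_lit 0) (nat_lit 12084) (XT.nd (nat_lit 1170) (nat_lit 304) (nat_lit 0) (XT.nd (nat_lit 546) (nat_lit 760) (nat_lit 0) (XT.nd (nat_lit 234) (nat_lit 380) (nat_lit 0) (XT.nd (nat_lit 78) (nat_lit 228) (nat_lit 0) (XT.lf (nat_lit 0) (nat_lit 19351039537) (nat_lit 76) (nat_lit 28206166004) (nat_lit 152) (nat_lit 8279434591) (nat_lit 133) (nat_lit 5) (nat_lit 134) (nat_lit 5) (nat_lit 135) (nat_lit 4) (nat_lit 472) (nat_lit 364) (nat_lit 184)) (XT.nd (nat_lit 78) (nat_lit 0) (nat_lit 0) (XT.lf (nat_lit 0) (nat_lit 94550291) (nat_lit 152) (nat_lit 8960724512) (nat_lit 228) (nat_lit 47870618318) (nat_lit 130) (nat_lit 5) (nat_lit 132) (nat_lit 5) (nat_lit 133) (nat_lit 5) (nat_lit 473) (nat_lit 364) (nat_lit 183)) (XT.lf (nat_lit 0) (nat_lit 27214495666) (nat_lit 228) (nat_lit 19717546070) (nat_lit 76) (nat_lit 11099196366) (nat_lit 130) (nat_lit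 5) (nat_lit 133) (nat_lit 5) (nat_lit 131) (nat_lit 4) (nat_lit 474) (nat_lit 364) (nat_lit 182)))) (XT.nd (nat_lit 156) (nat_lit 228) (nat_lit 0) (XT.nd (nat_lit 78) (nat_lit 76) (nat_lit 0) (XT.lf (nat_lit 0) (nat_lit 18776898302) (nat_lit 76) (nat_lit 27405358266) (nat_lit 152) (nat_lit 12979573961) (nat_lit 129) (nat_lit 5) (nat_lit 130) (nat_lit 5) (nat_lit 131) (nat_lit 4) (nat_lit 475) (nat_lit 364) (nat_lit 181)) (XT.lf (nat_lit 0) (nat_lit 5483112559) (nat_lit 152) (nat_lit 1554267581) (nat_lit 76) (nat_lit 53281536425) (nat_lit 128) (nat_lit 5) (nat_lit 130) (nat_lit 5) (nat_lit 129) (nat_lit 5) (nat_lit 476) (nat_lit 364) (nat_lit 180))) (XT.nd (nat_lit 78) (nat_lit 76) (nat_lit 0) (XT.lf (nat_lit 0) (nat_lit 24747991317) (nat_lit 228) (nat_lit 22569760351) (nat_lit 76) (nat_lit 14173832546) (nat_lit 126) (nat_lit 5) (nat_lit 129) (nat_lit 5) (nat_lit 127) (nat_lit 4) (nat_lit 477) (nat_lit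 364) (nat_lit 179)) (XT.lf (nat_lit 0) (nat_lit 18220652602) (nat_lit 76) (nat_lit 26625563241) (nat_lit 152) (nat_lit 17845554069) (nat_lit 125) (nat_lit 5) (nat_lit 126) (nat_lit 5) (nat_lit 127) (nat_lit 4) (nat_lit 478) (nat_lit 364) (nat_lit 178))))) (XT.nd (nat_lit 312) (nat_lit 456) (nat_lit 0) (XT.nd (nat_lit 156) (nat_lit 76) (nat_lit 0) (XT.nd (nat_lit 78) (nat_lit 152) (nat_lit 0) (XT.lf (nat_lit 0) (nat_lit 1812721077) (nat_lit 152) (nat_lit 3251680177) (nat_lit 76) (nat_lit 58856346039) (nat_lit 124) (nat_lit 5) (nat_lit 126) (nat_lit 5) (nat_lit 125) (nat_lit 5) (nat_lit 479) (nat_lit 364) (nat_lit 177)) (XT.lf (nat_lit 0) (nat_lit 22249762207) (nat_lit 228) (nat_lit 25545947713) (nat_lit 76) (nat_lit 17369152546) (nat_lit 122) (nat_lit 5) (nat_lit 125) (nat_lit 5) (nat_lit 123) (nat_lit 4) (nat_lit 480) (nat_lit 364) (nat_lit 176))) (XT.nd (nat_lit 78) (nat_lit 0) (nat_lit 0) (XT.lf (nat_lit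 0) (nat_lit 17681650404) (nat_lit 76) (nat_lit 25866426703) (nat_lit 152) (nat_lit 22890779109) (nat_lit 121) (nat_lit 5) (nat_lit 122) (nat_lit 5) (nat_lit 123) (nat_lit 4) (nat_lit 481) (nat_lit 364) (nat_lit 175)) (XT.lf (nat_lit 0) (nat_lit 62719957884) (nat_lit 76) (nat_lit 3018294668) (nat_lit 152) (nat_lit 2005229896) (nat_lit 121) (nat_lit 5) (nat_lit 122) (nat_lit 5) (nat_lit 123) (nat_lit 4) (nat_lit 482) (nat_lit 364) (nat_lit 174)))) (XT.nd (nat_lit 156) (nat_lit 152) (nat_lit 0) (XT.nd (nat_lit 78) (nat_lit 76) (nat_lit 0) (XT.lf (nat_lit 0) (nat_lit 19714606729) (nat_lit 228) (nat_lit 28655287931) (nat_lit 76) (nat_lit 20694076326) (nat_lit 118) (nat_lit 5) (nat_lit 121) (nat_lit 5) (nat_lit 119) (nat_lit 4) (nat_lit 483) (nat_lit 364) (nat_lit 173)) (XT.lf (nat_lit 0) (nat_lit 17159273257) (nat_lit 76) (nat_lit 25127575995) (nat_lit 152) (nat_lit 28129395898) (nat_lit 117) (nat_lit 5)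 (nat_lit 118) (nat_lit 5) (nat_lit 119) (nat_lit 4) (nat_lit 484) (nat_lit 364) (nat_lit 172))) (XT.nd (nat_lit 78) (nat_lit 152) (nat_lit 0) (XT.lf (nat_lit 0) (nat_lit 64926163052) (nat_lit 76) (nat_lit 894565209) (nat_lit 152) (nat_lit 5979825200) (nat_lit 117) (nat_lit 5) (nat_lit 118) (nat_lit 5) (nat_lit 119) (nat_lit 4) (nat_lit 485) (nat_lit 364) (nat_lit 171)) (XT.lf (nat_lit 0) (nat_lit 17137081497) (nat_lit 152) (nat_lit 31907452125) (nat_lit 76) (nat_lit 24158062411) (nat_lit 115) (nat_lit 5) (nat_lit 117) (nat_lit 5) (nat_lit 116) (nat_lit 4) (nat_lit 486) (nat_lit 364) (nat_lit 170)))))) (XT.nd (nat_lit 43836) (nat_lit 0) (nat_lit 21508) (XT.nd (nat_lit 234) (nat_lit 76) (nat_lit 0) (XT.nd (nat_lit 78) (nat_lit 152) (nat_lit 0) (XT.lf (nat_lit 0) (nat_lit 16652933678) (nat_lit 76) (nat_lit 24408623772) (nat_lit 152) (nat_lit 33576338728) (nat_lit 114) (nat_lit 5) (nat_lit 115) (nat_lit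 5) (nat_lit 116) (nat_lit 4) (nat_lit 487) (nat_lit 364) (nat_lit 169)) (XT.nd (nat_lit 78) (nat_lit 152) (nat_lit 0) (XT.lf (nat_lit 0) (nat_lit 66033667237) (nat_lit 152) (nat_lit 8804213011) (nat_lit 0) (nat_lit 1268478092) (nat_lit 114) (nat_lit 5) (nat_lit 116) (nat_lit 4) (nat_lit 114) (nat_lit 4) (nat_lit 488) (nat_lit 364) (nat_lit 168)) (XT.lf (nat_lit 0) (nat_lit 14511486688) (nat_lit 152) (nat_lit 35312636907) (nat_lit 76) (nat_lit 27771136247) (nat_lit 112) (nat_lit 5) (nat_lit 114) (nat_lit 5) (nat_lit 113) (nat_lit 4) (nat_lit 489) (nat_lit 364) (nat_lit 167)))) (XT.nd (nat_lit 43446) (nat_lit 0) (nat_lit 22420) (XT.nd (nat_lit 43368) (nat_lit 0) (nat_lit 22420) (XT.lf (nat_lit 0) (nat_lit 16162072812) (nat_lit 76) (nat_lit 23709171277) (nat_lit 152) (nat_lit 39247377250) (nat_lit 111) (nat_lit 5) (nat_lit 112) (nat_lit 5) (nat_lit 113) (nat_lit 4) (nat_lit 490) (nat_lit 364) (nat_lit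 166)) (XT.lf (nat_lit 0) (nat_lit 1370311040) (nat_lit 1140) (nat_lit 1590638457) (nat_lit 1140) (nat_lit 1590638457) (nat_lit 406) (nat_lit 3) (nat_lit 421) (nat_lit 3) (nat_lit 421) (nat_lit 5) (nat_lit 365) (nat_lit 365) (nat_lit 290))) (XT.nd (nat_lit 78) (nat_lit 0) (nat_lit 76) (XT.lf (nat_lit 76) (nat_lit 1397582916) (nat_lit 0) (nat_lit 2274953840) (nat_lit 1140) (nat_lit 5540462630) (nat_lit 407) (nat_lit 5) (nat_lit 406) (nat_lit 3) (nat_lit 421) (nat_lit 5) (nat_lit 366) (nat_lit 365) (nat_lit 289)) (XT.lf (nat_lit 0) (nat_lit 4644835425) (nat_lit 1064) (nat_lit 3179866010) (nat_lit 1140) (nat_lit 1501043336) (nat_lit 407) (nat_lit 5) (nat_lit 421) (nat_lit 5) (nat_lit 422) (nat_lit 5) (nat_lit 367) (nat_lit 365) (nat_lit 288))))) (XT.nd (nat_lit 312) (nat_lit 988) (nat_lit 0) (XT.nd (nat_lit 156) (nat_lit 0) (nat_lit 76) (XT.nd (nat_lit 78) (nat_lit 0) (nat_lit 0) (XT.lf (nat_lit 76) (nat_lit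 1584529460) (nat_lit 0) (nat_lit 4066270817) (nat_lit 1140) (nat_lit 3790937325) (nat_lit 408) (nat_lit 5) (nat_lit 407) (nat_lit 5) (nat_lit 422) (nat_lit 5) (nat_lit 368) (nat_lit 365) (nat_lit 287)) (XT.lf (nat_lit 76) (nat_lit 6538606369) (nat_lit 0) (nat_lit 147981072) (nat_lit 1140) (nat_lit 2874633477) (nat_lit 408) (nat_lit 5) (nat_lit 407) (nat_lit 5) (nat_lit 422) (nat_lit 5) (nat_lit 369) (nat_lit 365) (nat_lit 286))) (XT.nd (nat_lit 78) (nat_lit 0) (nat_lit 0) (XT.lf (nat_lit 76) (nat_lit 1938497215) (nat_lit 0) (nat_lit 5839567045) (nat_lit 1140) (nat_lit 1905485991) (nat_lit 409) (nat_lit 5) (nat_lit 408) (nat_lit 5) (nat_lit 423) (nat_lit 5) (nat_lit 370) (nat_lit 365) (nat_lit 285)) (XT.lf (nat_lit 76) (nat_lit 7090120435) (nat_lit 0) (nat_lit 1813481459) (nat_lit 1140) (nat_lit 905908074) (nat_lit 409) (nat_lit 5) (nat_lit 408) (nat_lit 5) (nat_lit 423) (nat_lit 5) (nat_lit 371) (nat_lit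 365) (nat_lit 284)))) (XT.nd (nat_lit 156) (nat_lit 0) (nat_lit 76) (XT.nd (nat_lit 78) (nat_lit 0) (nat_lit 0) (XT.lf (nat_lit 0) (nat_lit 137864071) (nat_lit 1140) (nat_lit 7476666526) (nat_lit 1216) (nat_lit 2324183624) (nat_lit 394) (nat_lit 5) (nat_lit 409) (nat_lit 5) (nat_lit 410) (nat_lit 5) (nat_lit 372) (nat_lit 365) (nat_lit 283)) (XT.lf (nat_lit 0) (nat_lit 1211169741) (nat_lit 1140) (nat_lit 2263132771) (nat_lit 1216) (nat_lit 6596730162) (nat_lit 394) (nat_lit 5) (nat_lit 409) (nat_lit 5) (nat_lit 410) (nat_lit 5) (nat_lit 373) (nat_lit 365) (nat_lit 282))) (XT.nd (nat_lit 78) (nat_lit 0) (nat_lit 0) (XT.lf (nat_lit 0) (nat_lit 2326524077) (nat_lit 1140) (nat_lit 7066056719) (nat_lit 1216) (nat_lit 814444399) (nat_lit 395) (nat_lit 5) (nat_lit 410) (nat_lit 5) (nat_lit 411) (nat_lit 5) (nat_lit 374) (nat_lit 365) (nat_lit 281)) (XT.lf (nat_lit 0) (nat_lit 3505141624) (nat_lit 1140) (nat_lit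 1647250050) (nat_lit 1216) (nat_lit 5193811740) (nat_lit 395) (nat_lit 5) (nat_lit 410) (nat_lit 5) (nat_lit 411) (nat_lit 5) (nat_lit 375) (nat_lit 365) (nat_lit 280))))))) (XT.nd (nat_lit 1170) (nat_lit 4636) (nat_lit 0) (XT.nd (nat_lit 546) (nat_lit 3876) (nat_lit 0) (XT.nd (nat_lit 234) (nat_lit 988) (nat_lit 0) (XT.nd (nat_lit 78) (nat_lit 0) (nat_lit 76) (XT.lf (nat_lit 76) (nat_lit 3992814016) (nat_lit 0) (nat_lit 737815220) (nat_lit 1216) (nat_lit 5758582397) (nat_lit 396) (nat_lit 5) (nat_lit 395) (nat_lit 5) (nat_lit 411) (nat_lit 5) (nat_lit 376) (nat_lit 365) (nat_lit 279)) (XT.nd (nat_lit 78) (nat_lit 0) (nat_lit 0) (XT.lf (nat_lit 0) (nat_lit 6020095917) (nat_lit 1140) (nat_lit 856835324) (nat_lit 1216) (nat_lit 3758762424) (nat_lit 396) (nat_lit 5) (nat_lit 411) (nat_lit 5) (nat_lit 412) (nat_lit 5) (nat_lit 377) (nat_lit 365) (nat_lit 278)) (XT.lf (nat_lit 76) (nat_lit 5023320925) (nat_lit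 0) (nat_lit 2355080537) (nat_lit 1216) (nat_lit 3407264052) (nat_lit 397) (nat_lit 5) (nat_lit 396) (nat_lit 5) (nat_lit 412) (nat_lit 5) (nat_lit 378) (nat_lit 365) (nat_lit 277)))) (XT.nd (nat_lit 156) (nat_lit 1140) (nat_lit 0) (XT.nd (nat_lit 78) (nat_lit 0) (nat_lit 0) (XT.lf (nat_lit 76) (nat_lit 117725108) (nat_lit 0) (nat_lit 8666908034) (nat_lit 1216) (nat_lit 2155288066) (nat_lit 398) (nat_lit 5) (nat_lit 397) (nat_lit 5) (nat_lit 413) (nat_lit 5) (nat_lit 379) (nat_lit 365) (nat_lit 276)) (XT.lf (nat_lit 76) (nat_lit 6248809601) (nat_lit 0) (nat_lit 4041227973) (nat_lit 1216) (nat_lit 807057424) (nat_lit 398) (nat_lit 5) (nat_lit 397) (nat_lit 5) (nat_lit 413) (nat_lit 5) (nat_lit 380) (nat_lit 365) (nat_lit 275))) (XT.nd (nat_lit 78) (nat_lit 0) (nat_lit 0) (XT.lf (nat_lit 0) (nat_lit 566170284) (nat_lit 1216) (nat_lit 9961235006) (nat_lit 76) (nat_lit 731533997) (nat_lit 382) (nat_lit 5)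 (nat_lit 398) (nat_lit 5) (nat_lit 383) (nat_lit 5) (nat_lit 381) (nat_lit 365) (nat_lit 274)) (XT.lf (nat_lit 0) (nat_lit 2030555400) (nat_lit 1216) (nat_lit 3765370549) (nat_lit 76) (nat_lit 5627487786) (nat_lit 382) (nat_lit 5) (nat_lit 398) (nat_lit 5) (nat_lit 383) (nat_lit 5) (nat_lit 382) (nat_lit 365) (nat_lit 273))))) (XT.nd (nat_lit 312) (nat_lit 1824) (nat_lit 0) (XT.nd (nat_lit 156) (nat_lit 836) (nat_lit 0) (XT.nd (nat_lit 78) (nat_lit 0) (nat_lit 0) (XT.lf (nat_lit 0) (nat_lit 2648466913) (nat_lit 1216) (nat_lit 893268272) (nat_lit 1292) (nat_lit 8051001339) (nat_lit 366) (nat_lit 5) (nat_lit 382) (nat_lit 5) (nat_lit 383) (nat_lit 5) (nat_lit 383) (nat_lit 365) (nat_lit 272)) (XT.lf (nat_lit 0) (nat_lit 5154506616) (nat_lit 1292) (nat_lit 2494505426) (nat_lit 76) (nat_lit 4116439265) (nat_lit 366) (nat_lit 5) (nat_lit 383) (nat_lit 5) (nat_lit 367) (nat_lit 5) (nat_lit 384) (nat_lit 365)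 (nat_lit 271))) (XT.nd (nat_lit 78) (nat_lit 0) (nat_lit 0) (XT.lf (nat_lit 0) (nat_lit 4202414569) (nat_lit 836) (nat_lit 2641033065) (nat_lit 912) (nat_lit 5099066308) (nat_lit 355) (nat_lit 5) (nat_lit 366) (nat_lit 5) (nat_lit 367) (nat_lit 5) (nat_lit 385) (nat_lit 365) (nat_lit 270)) (XT.lf (nat_lit 0) (nat_lit 8611694366) (nat_lit 912) (nat_lit 1017154649) (nat_lit 76) (nat_lit 2495180316) (nat_lit 355) (nat_lit 5) (nat_lit 367) (nat_lit 5) (nat_lit 356) (nat_lit 5) (nat_lit 386) (nat_lit 365) (nat_lit 269)))) (XT.nd (nat_lit 156) (nat_lit 608) (nat_lit 0) (XT.nd (nat_lit 78) (nat_lit 608) (nat_lit 0) (XT.lf (nat_lit 0) (nat_lit 5978622344) (nat_lit 608) (nat_lit 4517598515) (nat_lit 684) (nat_lit 1812872352) (nat_lit 347) (nat_lit 5) (nat_lit 355) (nat_lit 5) (nat_lit 356) (nat_lit 5) (nat_lit 387) (nat_lit 365) (nat_lit 268)) (XT.lf (nat_lit 0) (nat_lit 692157998) (nat_lit 608) (nat_lit 11749362465)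 (nat_lit 684) (nat_lit 58061424) (nat_lit 339) (nat_lit 5) (nat_lit 347) (nat_lit 5) (nat_lit 348) (nat_lit 5) (nat_lit 388) (nat_lit 365) (nat_lit 267))) (XT.nd (nat_lit 78) (nat_lit 532) (nat_lit 0) (XT.lf (nat_lit 0) (nat_lit 1804773667) (nat_lit 684) (nat_lit 4720799342) (nat_lit 76) (nat_lit 6167022224) (nat_lit 338) (nat_lit 5) (nat_lit 347) (nat_lit 5) (nat_lit 339) (nat_lit 5) (nat_lit 389) (nat_lit 365) (nat_lit 266)) (XT.lf (nat_lit 0) (nat_lit 2609361100) (nat_lit 532) (nat_lit 1118854184) (nat_lit 608) (nat_lit 9162989795) (nat_lit 331) (nat_lit 5) (nat_lit 338) (nat_lit 5) (nat_lit 339) (nat_lit 5) (nat_lit 390) (nat_lit 365) (nat_lit 265)))))) (XT.nd (nat_lit 624) (nat_lit 2432) (nat_lit 0) (XT.nd (nat_lit 312) (nat_lit 1064) (nat_lit 0) (XT.nd (nat_lit 156) (nat_lit 532) (nat_lit 0) (XT.nd (nat_lit 78) (nat_lit 608) (nat_lit 0) (XT.lf (nat_lit 0) (nat_lit 5781455930) (nat_lit 608) (nat_lit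 2901170278) (nat_lit 76) (nat_lit 4410984140) (nat_lit 331) (nat_lit 5) (nat_lit 339) (nat_lit 5) (nat_lit 332) (nat_lit 5) (nat_lit 391) (nat_lit 365) (nat_lit 264)) (XT.lf (nat_lit 0) (nat_lit 4763600337) (nat_lit 608) (nat_lit 3171286343) (nat_lit 684) (nat_lit 5366043307) (nat_lit 323) (nat_lit 5) (nat_lit 331) (nat_lit 5) (nat_lit 332) (nat_lit 5) (nat_lit 392) (nat_lit 365) (nat_lit 263))) (XT.nd (nat_lit 78) (nat_lit 532) (nat_lit 0) (XT.lf (nat_lit 0) (nat_lit 10188653500) (nat_lit 684) (nat_lit 839718183) (nat_lit 76) (nat_lit 2485025540) (nat_lit 323) (nat_lit 5) (nat_lit 332) (nat_lit 5) (nat_lit 324) (nat_lit 5) (nat_lit 393) (nat_lit 365) (nat_lit 262)) (XT.lf (nat_lit 0) (nat_lit 7178531241) (nat_lit 532) (nat_lit 5414491389) (nat_lit 608) (nat_lit 1136726165) (nat_lit 316) (nat_lit 5) (nat_lit 323) (nat_lit 5) (nat_lit 324) (nat_lit 5) (nat_lit 394) (nat_lit 365) (nat_lit 261)))) (XT.nd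 (nat_lit 156) (nat_lit 456) (nat_lit 0) (XT.nd (nat_lit 78) (nat_lit 0) (nat_lit 0) (XT.lf (nat_lit 0) (nat_lit 1104728934) (nat_lit 608) (nat_lit 12454390922) (nat_lit 76) (nat_lit 392861189) (nat_lit 308) (nat_lit 5) (nat_lit 316) (nat_lit 5) (nat_lit 309) (nat_lit 5) (nat_lit 395) (nat_lit 365) (nat_lit 260)) (XT.lf (nat_lit 0) (nat_lit 3494043623) (nat_lit 608) (nat_lit 4341687844) (nat_lit 76) (nat_lit 6341707262) (nat_lit 308) (nat_lit 5) (nat_lit 316) (nat_lit 5) (nat_lit 309) (nat_lit 5) (nat_lit 396) (nat_lit 365) (nat_lit 259))) (XT.nd (nat_lit 78) (nat_lit 0) (nat_lit 0) (XT.lf (nat_lit 0) (nat_lit 4075051916) (nat_lit 456) (nat_lit 1902696306) (nat_lit 532) (nat_lit 8431230610) (nat_lit 302) (nat_lit 5) (nat_lit 308) (nat_lit 5) (nat_lit 309) (nat_lit 5) (nat_lit 397) (nat_lit 365) (nat_lit 258)) (XT.lf (nat_lit 0) (nat_lit 8604507911) (nat_lit 532) (nat_lit 1872881840) (nat_lit 76) (nat_lit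 4168019066) (nat_lit 302) (nat_lit 5) (nat_lit 309) (nat_lit 5) (nat_lit 303) (nat_lit 5) (nat_lit 398) (nat_lit 365) (nat_lit 257))))) (XT.nd (nat_lit 312) (nat_lit 912) (nat_lit 0) (XT.nd (nat_lit 156) (nat_lit 532) (nat_lit 0) (XT.nd (nat_lit 78) (nat_lit 456) (nat_lit 0) (XT.lf (nat_lit 0) (nat_lit 6939998764) (nat_lit 532) (nat_lit 4439907440) (nat_lit 608) (nat_lit 3506930424) (nat_lit 295) (nat_lit 5) (nat_lit 302) (nat_lit 5) (nat_lit 303) (nat_lit 5) (nat_lit 399) (nat_lit 365) (nat_lit 256)) (XT.lf (nat_lit 0) (nat_lit 902204246) (nat_lit 456) (nat_lit 13365770413) (nat_lit 532) (nat_lit 866650369) (nat_lit 289) (nat_lit 5) (nat_lit 295) (nat_lit 5) (nat_lit 296) (nat_lit 5) (nat_lit 400) (nat_lit 365) (nat_lit 255))) (XT.nd (nat_lit 78) (nat_lit 456) (nat_lit 0) (XT.lf (nat_lit 0) (nat_lit 1926342749) (nat_lit 532) (nat_lit 5289338885) (nat_lit 76) (nat_lit 8170341321) (nat_lit 288) (nat_lit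 5) (nat_lit 295) (nat_lit 5) (nat_lit 289) (nat_lit 5) (nat_lit 401) (nat_lit 365) (nat_lit 254)) (XT.lf (nat_lit 0) (nat_lit 3972571412) (nat_lit 456) (nat_lit 836427771) (nat_lit 532) (nat_lit 10835007445) (nat_lit 282) (nat_lit 5) (nat_lit 288) (nat_lit 5) (nat_lit 289) (nat_lit 5) (nat_lit 402) (nat_lit 365) (nat_lit 253)))) (XT.nd (nat_lit 156) (nat_lit 532) (nat_lit 0) (XT.nd (nat_lit 78) (nat_lit 380) (nat_lit 0) (XT.lf (nat_lit 0) (nat_lit 7872526501) (nat_lit 532) (nat_lit 2361638399) (nat_lit 76) (nat_lit 5672733177) (nat_lit 282) (nat_lit 5) (nat_lit 289) (nat_lit 5) (nat_lit 283) (nat_lit 5) (nat_lit 403) (nat_lit 365) (nat_lit 252)) (XT.lf (nat_lit 0) (nat_lit 7344402411) (nat_lit 380) (nat_lit 3748194600) (nat_lit 456) (nat_lit 5083140135) (nat_lit 277) (nat_lit 5) (nat_lit 282) (nat_lit 5) (nat_lit 283) (nat_lit 5) (nat_lit 404) (nat_lit 365) (nat_lit 251))) (XT.nd (nat_lit 78) (nat_lit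 76) (nat_lit 0) (XT.lf (nat_lit 0) (nat_lit 909137248) (nat_lit 456) (nat_lit 13547105377) (nat_lit 532) (nat_lit 1994989574) (nat_lit 271) (nat_lit 5) (nat_lit 277) (nat_lit 5) (nat_lit 278) (nat_lit 5) (nat_lit 405) (nat_lit 365) (nat_lit 250)) (XT.lf (nat_lit 0) (nat_lit 1275899433) (nat_lit 532) (nat_lit 5677239593) (nat_lit 76) (nat_lit 9778114118) (nat_lit 270) (nat_lit 5) (nat_lit 277) (nat_lit 5) (nat_lit 271) (nat_lit 5) (nat_lit 406) (nat_lit 365) (nat_lit 249))))))))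
noncomputable def xc157 : XT := (XT.nd (nat_lit 2340) (nat_lit 3724) (nat_lit 0) (XT.nd (nat_lit 1170) (nat_lit 2812) (nat_lit 0) (XT.nd (nat_lit 546) (nat_lit 1748) (nat_lit 0) (XT.nd (nat_lit 234) (nat_lit 836) (nat_lit 0) (XT.nd (nat_lit 78) (nat_lit 380) (nat_lit 0) (XT.lf (nat_lit 0) (nat_lit 4534440402) (nat_lit 380) (nat_lit 100431520) (nat_lit 456) (nat_lit 12383308602) (nat_lit 265) (nat_lit 5) (nat_lit 270) (nat_lit 5) (nat_lit 271) (nat_lit 5) (nat_lit 407) (nat_lit 365) (nat_lit 248)) (XT.nd (nat_lit 78) (nat_lit 380) (nat_lit 0) (XT.lf (nat_lit 0) (nat_lit 8206041961) (nat_lit 456) (nat_lit 2228632201) (nat_lit 76) (nat_lit 6875698711) (nat_lit 265) (nat_lit 5) (nat_lit 271) (nat_lit 5) (nat_lit 266) (nat_lit 5) (nat_lit 408) (nat_lit 365) (nat_lit 247)) (XT.lf (nat_lit 0) (nat_lit 8481122912) (nat_lit 380) (nat_lit 3472781770) (nat_lit 456) (nat_lit 5655339582) (nat_lit 260) (nat_lit 5)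 (nat_lit 265) (nat_lit 5) (nat_lit 266) (nat_lit 5) (nat_lit 409) (nat_lit 365) (nat_lit 246)))) (XT.nd (nat_lit 156) (nat_lit 380) (nat_lit 0) (XT.nd (nat_lit 78) (nat_lit 76) (nat_lit 0) (XT.lf (nat_lit 0) (nat_lit 1619607488) (nat_lit 380) (nat_lit 14255643498) (nat_lit 456) (nat_lit 2039999382) (nat_lit 255) (nat_lit 5) (nat_lit 260) (nat_lit 5) (nat_lit 261) (nat_lit 5) (nat_lit 410) (nat_lit 365) (nat_lit 245)) (XT.lf (nat_lit 0) (nat_lit 1765700804) (nat_lit 456) (nat_lit 5420023497) (nat_lit 76) (nat_lit 11040784077) (nat_lit 254) (nat_lit 5) (nat_lit 260) (nat_lit 5) (nat_lit 255) (nat_lit 5) (nat_lit 411) (nat_lit 365) (nat_lit 244))) (XT.nd (nat_lit 78) (nat_lit 0) (nat_lit 0) (XT.lf (nat_lit 0) (nat_lit 5690178554) (nat_lit 456) (nat_lit 12688061726) (nat_lit 76) (nat_lit 166889652) (nat_lit 249) (nat_lit 5) (nat_lit 255) (nat_lit 5) (nat_lit 250) (nat_lit 5) (nat_lit 412) (nat_lit 365)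 (nat_lit 243)) (XT.lf (nat_lit 0) (nat_lit 9846612569) (nat_lit 456) (nat_lit 1377164621) (nat_lit 76) (nat_lit 7646106286) (nat_lit 249) (nat_lit 5) (nat_lit 255) (nat_lit 5) (nat_lit 250) (nat_lit 5) (nat_lit 413) (nat_lit 365) (nat_lit 242))))) (XT.nd (nat_lit 312) (nat_lit 684) (nat_lit 0) (XT.nd (nat_lit 156) (nat_lit 380) (nat_lit 0) (XT.nd (nat_lit 78) (nat_lit 380) (nat_lit 0) (XT.lf (nat_lit 0) (nat_lit 10460297297) (nat_lit 304) (nat_lit 3756150987) (nat_lit 380) (nat_lit 4985270080) (nat_lit 245) (nat_lit 5) (nat_lit 249) (nat_lit 5) (nat_lit 250) (nat_lit 5) (nat_lit 414) (nat_lit 365) (nat_lit 241)) (XT.lf (nat_lit 0) (nat_lit 3144397035) (nat_lit 380) (nat_lit 15643376266) (nat_lit 456) (nat_lit 753623171) (nat_lit 240) (nat_lit 5) (nat_lit 245) (nat_lit 5) (nat_lit 246) (nat_lit 5) (nat_lit 415) (nat_lit 365) (nat_lit 240))) (XT.nd (nat_lit 78) (nat_lit 304) (nat_lit 0) (XT.lf (nat_lit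 0) (nat_lit 3649320339) (nat_lit 456) (nat_lit 4412434018) (nat_lit 76) (nat_lit 11825030175) (nat_lit 239) (nat_lit 5) (nat_lit 245) (nat_lit 5) (nat_lit 240) (nat_lit 5) (nat_lit 416) (nat_lit 365) (nat_lit 239)) (XT.lf (nat_lit 0) (nat_lit 8065000777) (nat_lit 304) (nat_lit 170427501) (nat_lit 380) (nat_lit 12004895410) (nat_lit 235) (nat_lit 5) (nat_lit 239) (nat_lit 5) (nat_lit 240) (nat_lit 5) (nat_lit 417) (nat_lit 365) (nat_lit 238)))) (XT.nd (nat_lit 156) (nat_lit 380) (nat_lit 0) (XT.nd (nat_lit 78) (nat_lit 0) (nat_lit 0) (XT.lf (nat_lit 0) (nat_lit 316616660) (nat_lit 304) (nat_lit 12755856087) (nat_lit 380) (nat_lit 7528595674) (nat_lit 231) (nat_lit 5) (nat_lit 235) (nat_lit 5) (nat_lit 236) (nat_lit 5) (nat_lit 418) (nat_lit 365) (nat_lit 237)) (XT.lf (nat_lit 0) (nat_lit 13414635686) (nat_lit 304) (nat_lit 4753595299) (nat_lit 380) (nat_lit 2800996438) (nat_lit 231) (nat_lit 5) (nat_lit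 235) (nat_lit 5) (nat_lit 236) (nat_lit 5) (nat_lit 419) (nat_lit 365) (nat_lit 236))) (XT.nd (nat_lit 78) (nat_lit 0) (nat_lit 0) (XT.lf (nat_lit 0) (nat_lit 2105611415) (nat_lit 380) (nat_lit 15749864084) (nat_lit 76) (nat_lit 3490032909) (nat_lit 226) (nat_lit 5) (nat_lit 231) (nat_lit 5) (nat_lit 227) (nat_lit 5) (nat_lit 420) (nat_lit 365) (nat_lit 235)) (XT.lf (nat_lit 0) (nat_lit 7216534135) (nat_lit 380) (nat_lit 2527473490) (nat_lit 76) (nat_lit 11984835803) (nat_lit 226) (nat_lit 5) (nat_lit 231) (nat_lit 5) (nat_lit 227) (nat_lit 5) (nat_lit 421) (nat_lit 365) (nat_lit 234)))))) (XT.nd (nat_lit 546) (nat_lit 1292) (nat_lit 0) (XT.nd (nat_lit 234) (nat_lit 912) (nat_lit 0) (XT.nd (nat_lit 78) (nat_lit 304) (nat_lit 0) (XT.lf (nat_lit 0) (nat_lit 11296113571) (nat_lit 304) (nat_lit 1282874282) (nat_lit 380) (nat_lit 9541744546) (nat_lit 222) (nat_lit 5) (nat_lit 226) (nat_lit 5) (nat_lit 227)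 (nat_lit 5) (nat_lit 422) (nat_lit 365) (nat_lit 233)) (XT.nd (nat_lit 78) (nat_lit 76) (nat_lit 0) (XT.lf (nat_lit 0) (nat_lit 3034117550) (nat_lit 228) (nat_lit 15184296626) (nat_lit 304) (nat_lit 4302480893) (nat_lit 219) (nat_lit 5) (nat_lit 222) (nat_lit 5) (nat_lit 223) (nat_lit 5) (nat_lit 423) (nat_lit 365) (nat_lit 232)) (XT.lf (nat_lit 0) (nat_lit 1185467970) (nat_lit 304) (nat_lit 5439621059) (nat_lit 76) (nat_lit 16304272483) (nat_lit 218) (nat_lit 5) (nat_lit 222) (nat_lit 5) (nat_lit 219) (nat_lit 5) (nat_lit 424) (nat_lit 365) (nat_lit 231)))) (XT.nd (nat_lit 156) (nat_lit 380) (nat_lit 0) (XT.nd (nat_lit 78) (nat_lit 228) (nat_lit 0) (XT.lf (nat_lit 0) (nat_lit 6851888141) (nat_lit 380) (nat_lit 14219455570) (nat_lit 76) (nat_lit 2274451019) (nat_lit 214) (nat_lit 5) (nat_lit 219) (nat_lit 5) (nat_lit 215) (nat_lit 5) (nat_lit 425) (nat_lit 365) (nat_lit 230)) (XT.lf (nat_lit 0) (nat_lit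 393585904) (nat_lit 228) (nat_lit 12409714941) (nat_lit 304) (nat_lit 10967970102) (nat_lit 211) (nat_lit 5) (nat_lit 214) (nat_lit 5) (nat_lit 215) (nat_lit 5) (nat_lit 426) (nat_lit 365) (nat_lit 229))) (XT.nd (nat_lit 78) (nat_lit 380) (nat_lit 0) (XT.lf (nat_lit 0) (nat_lit 15720989523) (nat_lit 228) (nat_lit 3346141076) (nat_lit 304) (nat_lit 5138364612) (nat_lit 211) (nat_lit 5) (nat_lit 214) (nat_lit 5) (nat_lit 215) (nat_lit 5) (nat_lit 427) (nat_lit 365) (nat_lit 228)) (XT.lf (nat_lit 0) (nat_lit 964946419) (nat_lit 380) (nat_lit 17741176887) (nat_lit 76) (nat_lit 5942901562) (nat_lit 206) (nat_lit 5) (nat_lit 211) (nat_lit 5) (nat_lit 207) (nat_lit 5) (nat_lit 428) (nat_lit 365) (nat_lit 227))))) (XT.nd (nat_lit 312) (nat_lit 760) (nat_lit 0) (XT.nd (nat_lit 156) (nat_lit 304) (nat_lit 0) (XT.nd (nat_lit 78) (nat_lit 228) (nat_lit 0) (XT.lf (nat_lit 0) (nat_lit 7258288961) (nat_lit 380) (nat_lit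 2267576131) (nat_lit 76) (nat_lit 15575162831) (nat_lit 206) (nat_lit 5) (nat_lit 211) (nat_lit 5) (nat_lit 207) (nat_lit 5) (nat_lit 429) (nat_lit 365) (nat_lit 226)) (XT.lf (nat_lit 0) (nat_lit 13865731685) (nat_lit 304) (nat_lit 11636327434) (nat_lit 76) (nat_lit 60772954) (nat_lit 203) (nat_lit 5) (nat_lit 207) (nat_lit 5) (nat_lit 204) (nat_lit 5) (nat_lit 430) (nat_lit 365) (nat_lit 225))) (XT.nd (nat_lit 78) (nat_lit 76) (nat_lit 0) (XT.lf (nat_lit 0) (nat_lit 4595262071) (nat_lit 228) (nat_lit 16228647267) (nat_lit 304) (nat_lit 5210005658) (nat_lit 200) (nat_lit 5) (nat_lit 203) (nat_lit 5) (nat_lit 204) (nat_lit 5) (nat_lit 431) (nat_lit 365) (nat_lit 224)) (XT.lf (nat_lit 0) (nat_lit 1552583957) (nat_lit 304) (nat_lit 4993570228) (nat_lit 76) (nat_lit 19969263809) (nat_lit 199) (nat_lit 5) (nat_lit 203) (nat_lit 5) (nat_lit 200) (nat_lit 5) (nat_lit 432) (nat_lit 365) (nat_lit 223)))) (XT.nd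 (nat_lit 156) (nat_lit 304) (nat_lit 0) (XT.nd (nat_lit 78) (nat_lit 228) (nat_lit 0) (XT.lf (nat_lit 0) (nat_lit 8555539456) (nat_lit 304) (nat_lit 14925998000) (nat_lit 76) (nat_lit 3524014974) (nat_lit 196) (nat_lit 5) (nat_lit 200) (nat_lit 5) (nat_lit 197) (nat_lit 5) (nat_lit 433) (nat_lit 365) (nat_lit 222)) (XT.lf (nat_lit 0) (nat_lit 2221786801) (nat_lit 228) (nat_lit 13675151669) (nat_lit 304) (nat_lit 11609601785) (nat_lit 193) (nat_lit 5) (nat_lit 196) (nat_lit 5) (nat_lit 197) (nat_lit 5) (nat_lit 434) (nat_lit 365) (nat_lit 221))) (XT.nd (nat_lit 78) (nat_lit 304) (nat_lit 0) (XT.lf (nat_lit 0) (nat_lit 20175503167) (nat_lit 228) (nat_lit 3425174812) (nat_lit 304) (nat_lit 4417616779) (nat_lit 193) (nat_lit 5) (nat_lit 196) (nat_lit 5) (nat_lit 197) (nat_lit 5) (nat_lit 435) (nat_lit 365) (nat_lit 220)) (XT.lf (nat_lit 0) (nat_lit 3091909102) (nat_lit 304) (nat_lit 18331526157) (nat_lit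 76) (nat_lit 7116300463) (nat_lit 189) (nat_lit 5) (nat_lit 193) (nat_lit 5) (nat_lit 190) (nat_lit 5) (nat_lit 436) (nat_lit 365) (nat_lit 219))))))) (XT.nd (nat_lit 1170) (nat_lit 1672) (nat_lit 0) (XT.nd (nat_lit 546) (nat_lit 1140) (nat_lit 0) (XT.nd (nat_lit 234) (nat_lit 532) (nat_lit 0) (XT.nd (nat_lit 78) (nat_lit 380) (nat_lit 0) (XT.lf (nat_lit 0) (nat_lit 10843423996) (nat_lit 304) (nat_lit 205642265) (nat_lit 76) (nat_lit 18023276704) (nat_lit 189) (nat_lit 5) (nat_lit 193) (nat_lit 5) (nat_lit 190) (nat_lit 5) (nat_lit 437) (nat_lit 365) (nat_lit 218)) (XT.nd (nat_lit 78) (nat_lit 152) (nat_lit 0) (XT.lf (nat_lit 0) (nat_lit 18817355219) (nat_lit 228) (nat_lit 182857116) (nat_lit 304) (nat_lit 10615534247) (nat_lit 186) (nat_lit 5) (nat_lit 189) (nat_lit 5) (nat_lit 190) (nat_lit 5) (nat_lit 438) (nat_lit 365) (nat_lit 217)) (XT.lf (nat_lit 0) (nat_lit 8281716708) (nat_lit 152) (nat_lit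 19299417393) (nat_lit 228) (nat_lit 2588935317) (nat_lit 184) (nat_lit 5) (nat_lit 186) (nat_lit 5) (nat_lit 187) (nat_lit 5) (nat_lit 439) (nat_lit 365) (nat_lit 216)))) (XT.nd (nat_lit 156) (nat_lit 228) (nat_lit 0) (XT.nd (nat_lit 78) (nat_lit 228) (nat_lit 0) (XT.lf (nat_lit 0) (nat_lit 5671506682) (nat_lit 228) (nat_lit 2653574040) (nat_lit 76) (nat_lit 22411188099) (nat_lit 183) (nat_lit 5) (nat_lit 186) (nat_lit 5) (nat_lit 184) (nat_lit 5) (nat_lit 440) (nat_lit 365) (nat_lit 215)) (XT.lf (nat_lit 0) (nat_lit 14318208043) (nat_lit 304) (nat_lit 13884586171) (nat_lit 76) (nat_lit 3110176570) (nat_lit 180) (nat_lit 5) (nat_lit 184) (nat_lit 5) (nat_lit 181) (nat_lit 5) (nat_lit 441) (nat_lit 365) (nat_lit 214))) (XT.nd (nat_lit 78) (nat_lit 76) (nat_lit 0) (XT.lf (nat_lit 0) (nat_lit 6287454278) (nat_lit 152) (nat_lit 17098983215) (nat_lit 228) (nat_lit 8515672499) (nat_lit 178) (nat_lit 5) (nat_lit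 180) (nat_lit 5) (nat_lit 181) (nat_lit 5) (nat_lit 442) (nat_lit 365) (nat_lit 213)) (XT.lf (nat_lit 0) (nat_lit 347358038) (nat_lit 228) (nat_lit 5172516791) (nat_lit 76) (nat_lit 26984971217) (nat_lit 177) (nat_lit 5) (nat_lit 180) (nat_lit 5) (nat_lit 178) (nat_lit 5) (nat_lit 443) (nat_lit 365) (nat_lit 212))))) (XT.nd (nat_lit 312) (nat_lit 532) (nat_lit 0) (XT.nd (nat_lit 156) (nat_lit 228) (nat_lit 0) (XT.nd (nat_lit 78) (nat_lit 152) (nat_lit 0) (XT.lf (nat_lit 0) (nat_lit 9516227190) (nat_lit 304) (nat_lit 17083081238) (nat_lit 76) (nat_lit 6517493219) (nat_lit 174) (nat_lit 5) (nat_lit 178) (nat_lit 5) (nat_lit 175) (nat_lit 5) (nat_lit 444) (nat_lit 365) (nat_lit 211)) (XT.lf (nat_lit 0) (nat_lit 4251174992) (nat_lit 152) (nat_lit 14849743061) (nat_lit 228) (nat_lit 14641975194) (nat_lit 172) (nat_lit 5) (nat_lit 174) (nat_lit 5) (nat_lit 175) (nat_lit 5) (nat_lit 445) (nat_lit 365) (nat_lit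 210))) (XT.nd (nat_lit 78) (nat_lit 228) (nat_lit 0) (XT.lf (nat_lit 0) (nat_lit 26562536450) (nat_lit 152) (nat_lit 2575700656) (nat_lit 228) (nat_lit 5244577864) (nat_lit 172) (nat_lit 5) (nat_lit 174) (nat_lit 5) (nat_lit 175) (nat_lit 5) (nat_lit 446) (nat_lit 365) (nat_lit 209)) (XT.lf (nat_lit 0) (nat_lit 4581092178) (nat_lit 228) (nat_lit 20401858407) (nat_lit 76) (nat_lit 10050718220) (nat_lit 169) (nat_lit 5) (nat_lit 172) (nat_lit 5) (nat_lit 170) (nat_lit 5) (nat_lit 447) (nat_lit 365) (nat_lit 208)))) (XT.nd (nat_lit 156) (nat_lit 380) (nat_lit 0) (XT.nd (nat_lit 78) (nat_lit 0) (nat_lit 0) (XT.lf (nat_lit 0) (nat_lit 2167263919) (nat_lit 152) (nat_lit 12547706452) (nat_lit 228) (nat_lit 20983954622) (nat_lit 167) (nat_lit 5) (nat_lit 169) (nat_lit 5) (nat_lit 170) (nat_lit 5) (nat_lit 448) (nat_lit 365) (nat_lit 207)) (XT.lf (nat_lit 0) (nat_lit 25356224735) (nat_lit 228) (nat_lit 10563766577)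 (nat_lit 76) (nat_lit 458046759) (nat_lit 167) (nat_lit 5) (nat_lit 170) (nat_lit 5) (nat_lit 168) (nat_lit 5) (nat_lit 449) (nat_lit 365) (nat_lit 206))) (XT.nd (nat_lit 78) (nat_lit 228) (nat_lit 0) (XT.lf (nat_lit 0) (nat_lit 13214222555) (nat_lit 152) (nat_lit 23346758171) (nat_lit 228) (nat_lit 509215896) (nat_lit 165) (nat_lit 5) (nat_lit 167) (nat_lit 5) (nat_lit 168) (nat_lit 5) (nat_lit 450) (nat_lit 365) (nat_lit 205)) (XT.lf (nat_lit 0) (nat_lit 29935990) (nat_lit 152) (nat_lit 10188506362) (nat_lit 228) (nat_lit 27558670700) (nat_lit 162) (nat_lit 5) (nat_lit 164) (nat_lit 5) (nat_lit 165) (nat_lit 5) (nat_lit 451) (nat_lit 365) (nat_lit 204)))))) (XT.nd (nat_lit 624) (nat_lit 760) (nat_lit 0) (XT.nd (nat_lit 312) (nat_lit 532) (nat_lit 0) (XT.nd (nat_lit 156) (nat_lit 228) (nat_lit 0) (XT.nd (nat_lit 78) (nat_lit 152) (nat_lit 0) (XT.lf (nat_lit 0) (nat_lit 21526372700) (nat_lit 228) (nat_lit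 13428941323) (nat_lit 76) (nat_lit 3541711388) (nat_lit 162) (nat_lit 5) (nat_lit 165) (nat_lit 5) (nat_lit 163) (nat_lit 5) (nat_lit 452) (nat_lit 365) (nat_lit 203)) (XT.lf (nat_lit 0) (nat_lit 11734708615) (nat_lit 152) (nat_lit 21645764039) (nat_lit 228) (nat_lit 5851854533) (nat_lit 160) (nat_lit 5) (nat_lit 162) (nat_lit 5) (nat_lit 163) (nat_lit 5) (nat_lit 453) (nat_lit 365) (nat_lit 202))) (XT.nd (nat_lit 78) (nat_lit 152) (nat_lit 0) (XT.lf (nat_lit 0) (nat_lit 5621438269) (nat_lit 228) (nat_lit 2124506747) (nat_lit 76) (nat_lit 32238221435) (nat_lit 159) (nat_lit 5) (nat_lit 162) (nat_lit 5) (nat_lit 160) (nat_lit 5) (nat_lit 454) (nat_lit 365) (nat_lit 201)) (XT.lf (nat_lit 0) (nat_lit 17615492193) (nat_lit 228) (nat_lit 16399575286) (nat_lit 76) (nat_lit 6732929873) (nat_lit 157) (nat_lit 5) (nat_lit 160) (nat_lit 5) (nat_lit 158) (nat_lit 5) (nat_lit 455) (nat_lit 365) (nat_lit 200))))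 (XT.nd (nat_lit 156) (nat_lit 304) (nat_lit 0) (XT.nd (nat_lit 78) (nat_lit 76) (nat_lit 0) (XT.lf (nat_lit 0) (nat_lit 10235897907) (nat_lit 152) (nat_lit 19923711958) (nat_lit 228) (nat_lit 11369426052) (nat_lit 155) (nat_lit 5) (nat_lit 157) (nat_lit 5) (nat_lit 158) (nat_lit 5) (nat_lit 456) (nat_lit 365) (nat_lit 199)) (XT.lf (nat_lit 0) (nat_lit 892723353) (nat_lit 228) (nat_lit 4342681169) (nat_lit 76) (nat_lit 37093063458) (nat_lit 154) (nat_lit 5) (nat_lit 157) (nat_lit 5) (nat_lit 155) (nat_lit 5) (nat_lit 457) (nat_lit 365) (nat_lit 198))) (XT.nd (nat_lit 78) (nat_lit 152) (nat_lit 0) (XT.lf (nat_lit 0) (nat_lit 13614696595) (nat_lit 228) (nat_lit 19484582815) (nat_lit 76) (nat_lit 10039612330) (nat_lit 152) (nat_lit 5) (nat_lit 155) (nat_lit 5) (nat_lit 153) (nat_lit 5) (nat_lit 458) (nat_lit 365) (nat_lit 197)) (XT.lf (nat_lit 0) (nat_lit 8714076375) (nat_lit 152) (nat_lit 18177854920)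 (nat_lit 228) (nat_lit 17076488851) (nat_lit 150) (nat_lit 5) (nat_lit 152) (nat_lit 5) (nat_lit 153) (nat_lit 5) (nat_lit 459) (nat_lit 365) (nat_lit 196))))) (XT.nd (nat_lit 312) (nat_lit 456) (nat_lit 0) (XT.nd (nat_lit 156) (nat_lit 152) (nat_lit 0) (XT.nd (nat_lit 78) (nat_lit 152) (nat_lit 0) (XT.lf (nat_lit 0) (nat_lit 38146610482) (nat_lit 152) (nat_lit 2611415949) (nat_lit 228) (nat_lit 4059091670) (nat_lit 150) (nat_lit 5) (nat_lit 152) (nat_lit 5) (nat_lit 153) (nat_lit 5) (nat_lit 460) (nat_lit 365) (nat_lit 195)) (XT.lf (nat_lit 0) (nat_lit 9514619526) (nat_lit 152) (nat_lit 22693294891) (nat_lit 76) (nat_lit 13470219939) (nat_lit 148) (nat_lit 5) (nat_lit 150) (nat_lit 5) (nat_lit 149) (nat_lit 5) (nat_lit 461) (nat_lit 365) (nat_lit 194))) (XT.nd (nat_lit 78) (nat_lit 0) (nat_lit 0) (XT.lf (nat_lit 0) (nat_lit 7165430870) (nat_lit 152) (nat_lit 16405216541) (nat_lit 228) (nat_lit 22988427341)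 (nat_lit 146) (nat_lit 5) (nat_lit 148) (nat_lit 5) (nat_lit 149) (nat_lit 5) (nat_lit 462) (nat_lit 365) (nat_lit 193)) (XT.lf (nat_lit 0) (nat_lit 38272496464) (nat_lit 228) (nat_lit 9086819922) (nat_lit 76) (nat_lit 100402767) (nat_lit 146) (nat_lit 5) (nat_lit 149) (nat_lit 5) (nat_lit 147) (nat_lit 4) (nat_lit 463) (nat_lit 365) (nat_lit 192)))) (XT.nd (nat_lit 156) (nat_lit 152) (nat_lit 0) (XT.nd (nat_lit 78) (nat_lit 152) (nat_lit 0) (XT.lf (nat_lit 0) (nat_lit 5305389823) (nat_lit 152) (nat_lit 26035494163) (nat_lit 76) (nat_lit 17033784333) (nat_lit 144) (nat_lit 5) (nat_lit 146) (nat_lit 5) (nat_lit 145) (nat_lit 5) (nat_lit 464) (nat_lit 365) (nat_lit 191)) (XT.lf (nat_lit 0) (nat_lit 5586033490) (nat_lit 152) (nat_lit 14602590577) (nat_lit 228) (nat_lit 29121498091) (nat_lit 142) (nat_lit 5) (nat_lit 144) (nat_lit 5) (nat_lit 145) (nat_lit 5) (nat_lit 465) (nat_lit 365) (nat_lit 190)))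 (XT.nd (nat_lit 78) (nat_lit 152) (nat_lit 0) (XT.lf (nat_lit 0) (nat_lit 35803373096) (nat_lit 228) (nat_lit 11614824934) (nat_lit 76) (nat_lit 2846891051) (nat_lit 142) (nat_lit 5) (nat_lit 145) (nat_lit 5) (nat_lit 143) (nat_lit 4) (nat_lit 466) (nat_lit 365) (nat_lit 189)) (XT.lf (nat_lit 0) (nat_lit 976604208) (nat_lit 152) (nat_lit 29521451169) (nat_lit 76) (nat_lit 20739929943) (nat_lit 140) (nat_lit 5) (nat_lit 142) (nat_lit 5) (nat_lit 141) (nat_lit 5) (nat_lit 467) (nat_lit 365) (nat_lit 188))))))))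
noncomputable def xc158 : XT := (XT.nd (nat_lit 45708) (nat_lit 0) (nat_lit 12920) (XT.nd (nat_lit 1170) (nat_lit 684) (nat_lit 0) (XT.nd (nat_lit 546) (nat_lit 684) (nat_lit 0) (XT.nd (nat_lit 234) (nat_lit 532) (nat_lit 0) (XT.nd (nat_lit 78) (nat_lit 76) (nat_lit 0) (XT.lf (nat_lit 0) (nat_lit 3971825899) (nat_lit 152) (nat_lit 12766538721) (nat_lit 228) (nat_lit 35492879562) (nat_lit 138) (nat_lit 5) (nat_lit 140) (nat_lit 5) (nat_lit 141) (nat_lit 5) (nat_lit 468) (nat_lit 365) (nat_lit 187)) (XT.nd (nat_lit 78) (nat_lit 76) (nat_lit 0) (XT.lf (nat_lit 0) (nat_lit 33321222153) (nat_lit 228) (nat_lit 14236810906) (nat_lit 76) (nat_lit 5685820424) (nat_lit 138) (nat_lit 5) (nat_lit 141) (nat_lit 5) (nat_lit 139) (nat_lit 4) (nat_lit 469) (nat_lit 365) (nat_lit 186)) (XT.lf (nat_lit 0) (nat_lit 21081028383) (nat_lit 76) (nat_lit 29644091044) (nat_lit 152) (nat_lit 3552015013) (nat_lit 137) (nat_lit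 5) (nat_lit 138) (nat_lit 5) (nat_lit 139) (nat_lit 4) (nat_lit 470) (nat_lit 365) (nat_lit 185)))) (XT.nd (nat_lit 156) (nat_lit 304) (nat_lit 0) (XT.nd (nat_lit 78) (nat_lit 0) (nat_lit 0) (XT.lf (nat_lit 0) (nat_lit 2318603542) (nat_lit 152) (nat_lit 10893386764) (nat_lit 228) (nat_lit 42120725554) (nat_lit 134) (nat_lit 5) (nat_lit 136) (nat_lit 5) (nat_lit 137) (nat_lit 5) (nat_lit 471) (nat_lit 365) (nat_lit 184)) (XT.lf (nat_lit 0) (nat_lit 30821524481) (nat_lit 228) (nat_lit 16960522587) (nat_lit 76) (nat_lit 8624442579) (nat_lit 134) (nat_lit 5) (nat_lit 137) (nat_lit 5) (nat_lit 135) (nat_lit 4) (nat_lit 472) (nat_lit 365) (nat_lit 183))) (XT.nd (nat_lit 78) (nat_lit 228) (nat_lit 0) (XT.lf (nat_lit 0) (nat_lit 20455858534) (nat_lit 76) (nat_lit 28802664517) (nat_lit 152) (nat_lit 8244978246) (nat_lit 133) (nat_lit 5) (nat_lit 134) (nat_lit 5) (nat_lit 135) (nat_lit 4) (nat_lit 473) (nat_lit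 365) (nat_lit 182)) (XT.lf (nat_lit 0) (nat_lit 621999638) (nat_lit 152) (nat_lit 8979219189) (nat_lit 228) (nat_lit 49024222514) (nat_lit 130) (nat_lit 5) (nat_lit 132) (nat_lit 5) (nat_lit 133) (nat_lit 5) (nat_lit 474) (nat_lit 365) (nat_lit 181))))) (XT.nd (nat_lit 312) (nat_lit 380) (nat_lit 0) (XT.nd (nat_lit 156) (nat_lit 228) (nat_lit 0) (XT.nd (nat_lit 78) (nat_lit 76) (nat_lit 0) (XT.lf (nat_lit 0) (nat_lit 28299563621) (nat_lit 228) (nat_lit 19794086903) (nat_lit 76) (nat_lit 11670465729) (nat_lit 130) (nat_lit 5) (nat_lit 133) (nat_lit 5) (nat_lit 131) (nat_lit 4) (nat_lit 475) (nat_lit 365) (nat_lit 180)) (XT.lf (nat_lit 0) (nat_lit 19850141923) (nat_lit 76) (nat_lit 27983292987) (nat_lit 152) (nat_lit 13095279218) (nat_lit 129) (nat_lit 5) (nat_lit 130) (nat_lit 5) (nat_lit 131) (nat_lit 4) (nat_lit 476) (nat_lit 365) (nat_lit 179))) (XT.nd (nat_lit 78) (nat_lit 152) (nat_lit 0) (XT.lf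 (nat_lit 0) (nat_lit 5908131608) (nat_lit 152) (nat_lit 1100626490) (nat_lit 76) (nat_lit 55111910194) (nat_lit 128) (nat_lit 5) (nat_lit 130) (nat_lit 5) (nat_lit 129) (nat_lit 5) (nat_lit 477) (nat_lit 365) (nat_lit 178)) (XT.lf (nat_lit 0) (nat_lit 25750414932) (nat_lit 228) (nat_lit 22746042248) (nat_lit 76) (nat_lit 14832075045) (nat_lit 126) (nat_lit 5) (nat_lit 129) (nat_lit 5) (nat_lit 127) (nat_lit 4) (nat_lit 478) (nat_lit 365) (nat_lit 177)))) (XT.nd (nat_lit 156) (nat_lit 228) (nat_lit 0) (XT.nd (nat_lit 78) (nat_lit 76) (nat_lit 0) (XT.lf (nat_lit 0) (nat_lit 19263173183) (nat_lit 76) (nat_lit 27185607569) (nat_lit 152) (nat_lit 18116026905) (nat_lit 125) (nat_lit 5) (nat_lit 126) (nat_lit 5) (nat_lit 127) (nat_lit 4) (nat_lit 479) (nat_lit 365) (nat_lit 176)) (XT.lf (nat_lit 0) (nat_lit 2119262665) (nat_lit 152) (nat_lit 2862754820) (nat_lit 76) (nat_lit 60848787428) (nat_lit 124) (nat_lit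 5) (nat_lit 126) (nat_lit 5) (nat_lit 125) (nat_lit 5) (nat_lit 480) (nat_lit 365) (nat_lit 175))) (XT.nd (nat_lit 78) (nat_lit 76) (nat_lit 0) (XT.lf (nat_lit 0) (nat_lit 23168933650) (nat_lit 228) (nat_lit 25825369003) (nat_lit 76) (nat_lit 18117955329) (nat_lit 122) (nat_lit 5) (nat_lit 125) (nat_lit 5) (nat_lit 123) (nat_lit 4) (nat_lit 481) (nat_lit 365) (nat_lit 174)) (XT.lf (nat_lit 0) (nat_lit 18694282968) (nat_lit 76) (nat_lit 26409219625) (nat_lit 152) (nat_lit 23321049816) (nat_lit 121) (nat_lit 5) (nat_lit 122) (nat_lit 5) (nat_lit 123) (nat_lit 4) (nat_lit 482) (nat_lit 365) (nat_lit 173)))))) (XT.nd (nat_lit 546) (nat_lit 152) (nat_lit 0) (XT.nd (nat_lit 234) (nat_lit 228) (nat_lit 0) (XT.nd (nat_lit 78) (nat_lit 304) (nat_lit 0) (XT.lf (nat_lit 0) (nat_lit 65069695505) (nat_lit 76) (nat_lit 2882435858) (nat_lit 152) (nat_lit 1816403622) (nat_lit 121) (nat_lit 5) (nat_lit 122) (nat_lit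 5) (nat_lit 123) (nat_lit 4) (nat_lit 483) (nat_lit 365) (nat_lit 172)) (XT.nd (nat_lit 78) (nat_lit 76) (nat_lit 0) (XT.lf (nat_lit 0) (nat_lit 20549741845) (nat_lit 228) (nat_lit 29041521427) (nat_lit 76) (nat_lit 21537315936) (nat_lit 118) (nat_lit 5) (nat_lit 121) (nat_lit 5) (nat_lit 119) (nat_lit 4) (nat_lit 484) (nat_lit 365) (nat_lit 171)) (XT.lf (nat_lit 0) (nat_lit 18142835174) (nat_lit 76) (nat_lit 25653724738) (nat_lit 152) (nat_lit 28724939438) (nat_lit 117) (nat_lit 5) (nat_lit 118) (nat_lit 5) (nat_lit 119) (nat_lit 4) (nat_lit 485) (nat_lit 365) (nat_lit 170)))) (XT.nd (nat_lit 156) (nat_lit 76) (nat_lit 0) (XT.nd (nat_lit 78) (nat_lit 152) (nat_lit 0) (XT.lf (nat_lit 0) (nat_lit 67329077768) (nat_lit 76) (nat_lit 700355042) (nat_lit 152) (nat_lit 5918114774) (nat_lit 117) (nat_lit 5) (nat_lit 118) (nat_lit 5) (nat_lit 119) (nat_lit 4) (nat_lit 486) (nat_lit 365) (nat_lit 169)) (XT.lf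 (nat_lit 0) (nat_lit 17887214289) (nat_lit 152) (nat_lit 32404461029) (nat_lit 76) (nat_lit 25099917986) (nat_lit 115) (nat_lit 5) (nat_lit 117) (nat_lit 5) (nat_lit 116) (nat_lit 4) (nat_lit 487) (nat_lit 365) (nat_lit 168))) (XT.nd (nat_lit 78) (nat_lit 0) (nat_lit 0) (XT.lf (nat_lit 0) (nat_lit 17608224440) (nat_lit 76) (nat_lit 24918706194) (nat_lit 152) (nat_lit 34343096635) (nat_lit 114) (nat_lit 5) (nat_lit 115) (nat_lit 5) (nat_lit 116) (nat_lit 4) (nat_lit 488) (nat_lit 365) (nat_lit 167)) (XT.lf (nat_lit 0) (nat_lit 68243475463) (nat_lit 152) (nat_lit 8621181294) (nat_lit 0) (nat_lit 1518028387) (nat_lit 114) (nat_lit 5) (nat_lit 116) (nat_lit 4) (nat_lit 114) (nat_lit 4) (nat_lit 489) (nat_lit 365) (nat_lit 166))))) (XT.nd (nat_lit 43680) (nat_lit 0) (nat_lit 21356) (XT.nd (nat_lit 43524) (nat_lit 0) (nat_lit 22344) (XT.nd (nat_lit 43446) (nat_lit 0) (nat_lit 22344) (XT.lf (nat_lit 0) (nat_lit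 15175463178) (nat_lit 152) (nat_lit 35924691586) (nat_lit 76) (nat_lit 28816103916) (nat_lit 112) (nat_lit 5) (nat_lit 114) (nat_lit 5) (nat_lit 113) (nat_lit 4) (nat_lit 490) (nat_lit 365) (nat_lit 165)) (XT.lf (nat_lit 0) (nat_lit 2280357468) (nat_lit 1140) (nat_lit 1190855005) (nat_lit 1140) (nat_lit 1190855005) (nat_lit 406) (nat_lit 3) (nat_lit 421) (nat_lit 3) (nat_lit 421) (nat_lit 5) (nat_lit 366) (nat_lit 366) (nat_lit 288))) (XT.nd (nat_lit 78) (nat_lit 0) (nat_lit 76) (XT.lf (nat_lit 76) (nat_lit 2325741053) (nat_lit 0) (nat_lit 3152747297) (nat_lit 1140) (nat_lit 3960027753) (nat_lit 407) (nat_lit 5) (nat_lit 406) (nat_lit 3) (nat_lit 421) (nat_lit 5) (nat_lit 367) (nat_lit 366) (nat_lit 287)) (XT.lf (nat_lit 0) (nat_lit 6423009275) (nat_lit 1064) (nat_lit 2357897181) (nat_lit 1140) (nat_lit 775445796) (nat_lit 407) (nat_lit 5) (nat_lit 421) (nat_lit 5) (nat_lit 422) (nat_lit 5) (nat_lit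 368) (nat_lit 366) (nat_lit 286)))) (XT.nd (nat_lit 156) (nat_lit 1064) (nat_lit 0) (XT.nd (nat_lit 78) (nat_lit 0) (nat_lit 0) (XT.lf (nat_lit 76) (nat_lit 2540436382) (nat_lit 0) (nat_lit 4879715632) (nat_lit 1140) (nat_lit 2256842885) (nat_lit 408) (nat_lit 5) (nat_lit 407) (nat_lit 5) (nat_lit 422) (nat_lit 5) (nat_lit 369) (nat_lit 366) (nat_lit 285)) (XT.lf (nat_lit 76) (nat_lit 7616678189) (nat_lit 0) (nat_lit 823737679) (nat_lit 1140) (nat_lit 1361044753) (nat_lit 408) (nat_lit 5) (nat_lit 407) (nat_lit 5) (nat_lit 422) (nat_lit 5) (nat_lit 370) (nat_lit 366) (nat_lit 284))) (XT.nd (nat_lit 78) (nat_lit 1140) (nat_lit 0) (XT.lf (nat_lit 76) (nat_lit 2922449485) (nat_lit 0) (nat_lit 6599581948) (nat_lit 1140) (nat_lit 406706568) (nat_lit 409) (nat_lit 5) (nat_lit 408) (nat_lit 5) (nat_lit 423) (nat_lit 5) (nat_lit 371) (nat_lit 366) (nat_lit 283)) (XT.lf (nat_lit 0) (nat_lit 566270045) (nat_lit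 1140) (nat_lit 1863691711) (nat_lit 1216) (nat_lit 7629668169) (nat_lit 393) (nat_lit 5) (nat_lit 408) (nat_lit 5) (nat_lit 409) (nat_lit 5) (nat_lit 372) (nat_lit 366) (nat_lit 282))))))) (XT.nd (nat_lit 1170) (nat_lit 5548) (nat_lit 0) (XT.nd (nat_lit 546) (nat_lit 2964) (nat_lit 0) (XT.nd (nat_lit 234) (nat_lit 0) (nat_lit 76) (XT.nd (nat_lit 78) (nat_lit 0) (nat_lit 0) (XT.lf (nat_lit 0) (nat_lit 1583771337) (nat_lit 1140) (nat_lit 6733280238) (nat_lit 1216) (nat_lit 1876570932) (nat_lit 394) (nat_lit 5) (nat_lit 409) (nat_lit 5) (nat_lit 410) (nat_lit 5) (nat_lit 373) (nat_lit 366) (nat_lit 281)) (XT.nd (nat_lit 78) (nat_lit 0) (nat_lit 76) (XT.lf (nat_lit 0) (nat_lit 2647282837) (nat_lit 1140) (nat_lit 1391525507) (nat_lit 1216) (nat_lit 6292361969) (nat_lit 394) (nat_lit 5) (nat_lit 409) (nat_lit 5) (nat_lit 410) (nat_lit 5) (nat_lit 374) (nat_lit 366) (nat_lit 280)) (XT.lf (nat_lit 0) (nat_lit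 3760063037) (nat_lit 1140) (nat_lit 6302502407) (nat_lit 1216) (nat_lit 409758209) (nat_lit 395) (nat_lit 5) (nat_lit 410) (nat_lit 5) (nat_lit 411) (nat_lit 5) (nat_lit 375) (nat_lit 366) (nat_lit 279)))) (XT.nd (nat_lit 156) (nat_lit 0) (nat_lit 76) (XT.nd (nat_lit 78) (nat_lit 0) (nat_lit 0) (XT.lf (nat_lit 0) (nat_lit 4934318433) (nat_lit 1140) (nat_lit 749545208) (nat_lit 1216) (nat_lit 4933005197) (nat_lit 395) (nat_lit 5) (nat_lit 410) (nat_lit 5) (nat_lit 411) (nat_lit 5) (nat_lit 376) (nat_lit 366) (nat_lit 278)) (XT.lf (nat_lit 76) (nat_lit 5050435266) (nat_lit 0) (nat_lit 1116586705) (nat_lit 1216) (nat_lit 4598031795) (nat_lit 396) (nat_lit 5) (nat_lit 395) (nat_lit 5) (nat_lit 411) (nat_lit 5) (nat_lit 377) (nat_lit 366) (nat_lit 277))) (XT.nd (nat_lit 78) (nat_lit 0) (nat_lit 0) (XT.lf (nat_lit 76) (nat_lit 70385773) (nat_lit 0) (nat_lit 7384431986) (nat_lit 1216) (nat_lit 3462323147)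 (nat_lit 397) (nat_lit 5) (nat_lit 396) (nat_lit 5) (nat_lit 412) (nat_lit 5) (nat_lit 378) (nat_lit 366) (nat_lit 276)) (XT.lf (nat_lit 76) (nat_lit 6116244283) (nat_lit 0) (nat_lit 2709500797) (nat_lit 1216) (nat_lit 2246710652) (nat_lit 397) (nat_lit 5) (nat_lit 396) (nat_lit 5) (nat_lit 412) (nat_lit 5) (nat_lit 379) (nat_lit 366) (nat_lit 275))))) (XT.nd (nat_lit 312) (nat_lit 1976) (nat_lit 0) (XT.nd (nat_lit 156) (nat_lit 0) (nat_lit 76) (XT.nd (nat_lit 78) (nat_lit 1216) (nat_lit 0) (XT.lf (nat_lit 76) (nat_lit 1093363273) (nat_lit 0) (nat_lit 9151788125) (nat_lit 1216) (nat_lit 987058068) (nat_lit 398) (nat_lit 5) (nat_lit 397) (nat_lit 5) (nat_lit 413) (nat_lit 5) (nat_lit 380) (nat_lit 366) (nat_lit 274)) (XT.lf (nat_lit 0) (nat_lit 358573793) (nat_lit 1216) (nat_lit 4018593283) (nat_lit 1292) (nat_lit 7017871836) (nat_lit 381) (nat_lit 5) (nat_lit 397) (nat_lit 5) (nat_lit 398) (nat_lit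 5) (nat_lit 381) (nat_lit 366) (nat_lit 273))) (XT.nd (nat_lit 78) (nat_lit 0) (nat_lit 0) (XT.lf (nat_lit 0) (nat_lit 1729964027) (nat_lit 1216) (nat_lit 9266108796) (nat_lit 76) (nat_lit 566230383) (nat_lit 382) (nat_lit 5) (nat_lit 398) (nat_lit 5) (nat_lit 383) (nat_lit 5) (nat_lit 382) (nat_lit 366) (nat_lit 272)) (XT.lf (nat_lit 0) (nat_lit 3204878504) (nat_lit 1216) (nat_lit 2913318792) (nat_lit 76) (nat_lit 5614516658) (nat_lit 382) (nat_lit 5) (nat_lit 398) (nat_lit 5) (nat_lit 383) (nat_lit 5) (nat_lit 383) (nat_lit 366) (nat_lit 271)))) (XT.nd (nat_lit 156) (nat_lit 836) (nat_lit 0) (XT.nd (nat_lit 78) (nat_lit 0) (nat_lit 0) (XT.lf (nat_lit 0) (nat_lit 3683472883) (nat_lit 1216) (nat_lit 1054676835) (nat_lit 1292) (nat_lit 7169664027) (nat_lit 366) (nat_lit 5) (nat_lit 382) (nat_lit 5) (nat_lit 383) (nat_lit 5) (nat_lit 384) (nat_lit 366) (nat_lit 270)) (XT.lf (nat_lit 0) (nat_lit 6366295717)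 (nat_lit 1292) (nat_lit 1608611661) (nat_lit 76) (nat_lit 4111792852) (nat_lit 366) (nat_lit 5) (nat_lit 383) (nat_lit 5) (nat_lit 367) (nat_lit 5) (nat_lit 385) (nat_lit 366) (nat_lit 269))) (XT.nd (nat_lit 78) (nat_lit 0) (nat_lit 0) (XT.lf (nat_lit 0) (nat_lit 5279797024) (nat_lit 836) (nat_lit 2804461625) (nat_lit 912) (nat_lit 4185465484) (nat_lit 355) (nat_lit 5) (nat_lit 366) (nat_lit 5) (nat_lit 367) (nat_lit 5) (nat_lit 386) (nat_lit 366) (nat_lit 268)) (XT.lf (nat_lit 0) (nat_lit 9874606583) (nat_lit 912) (nat_lit 93121130) (nat_lit 76) (nat_lit 2489885656) (nat_lit 355) (nat_lit 5) (nat_lit 367) (nat_lit 5) (nat_lit 356) (nat_lit 5) (nat_lit 387) (nat_lit 366) (nat_lit 267)))))) (XT.nd (nat_lit 624) (nat_lit 2584) (nat_lit 0) (XT.nd (nat_lit 312) (nat_lit 1140) (nat_lit 0) (XT.nd (nat_lit 156) (nat_lit 532) (nat_lit 0) (XT.nd (nat_lit 78) (nat_lit 684) (nat_lit 0) (XT.lf (nat_lit 0) (nat_lit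 7103170857) (nat_lit 608) (nat_lit 4692324686) (nat_lit 684) (nat_lit 853338822) (nat_lit 347) (nat_lit 5) (nat_lit 355) (nat_lit 5) (nat_lit 356) (nat_lit 5) (nat_lit 388) (nat_lit 366) (nat_lit 266)) (XT.lf (nat_lit 0) (nat_lit 915546608) (nat_lit 684) (nat_lit 11176145096) (nat_lit 76) (nat_lit 753669399) (nat_lit 338) (nat_lit 5) (nat_lit 347) (nat_lit 5) (nat_lit 339) (nat_lit 5) (nat_lit 389) (nat_lit 366) (nat_lit 265))) (XT.nd (nat_lit 78) (nat_lit 532) (nat_lit 0) (XT.lf (nat_lit 0) (nat_lit 2804725517) (nat_lit 684) (nat_lit 3906183861) (nat_lit 76) (nat_lit 6334089453) (nat_lit 338) (nat_lit 5) (nat_lit 347) (nat_lit 5) (nat_lit 339) (nat_lit 5) (nat_lit 390) (nat_lit 366) (nat_lit 264)) (XT.lf (nat_lit 0) (nat_lit 3634506498) (nat_lit 532) (nat_lit 1132917902) (nat_lit 608) (nat_lit 8482695953) (nat_lit 331) (nat_lit 5) (nat_lit 338) (nat_lit 5) (nat_lit 339) (nat_lit 5) (nat_lit 391) (nat_lit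 366) (nat_lit 263)))) (XT.nd (nat_lit 156) (nat_lit 532) (nat_lit 0) (XT.nd (nat_lit 78) (nat_lit 608) (nat_lit 0) (XT.lf (nat_lit 0) (nat_lit 6855433707) (nat_lit 608) (nat_lit 2042090843) (nat_lit 76) (nat_lit 4561878086) (nat_lit 331) (nat_lit 5) (nat_lit 339) (nat_lit 5) (nat_lit 332) (nat_lit 5) (nat_lit 392) (nat_lit 366) (nat_lit 262)) (XT.lf (nat_lit 0) (nat_lit 5843347258) (nat_lit 608) (nat_lit 3212896441) (nat_lit 684) (nat_lit 4617214876) (nat_lit 323) (nat_lit 5) (nat_lit 331) (nat_lit 5) (nat_lit 332) (nat_lit 5) (nat_lit 393) (nat_lit 366) (nat_lit 261))) (XT.nd (nat_lit 78) (nat_lit 0) (nat_lit 0) (XT.lf (nat_lit 0) (nat_lit 71261098) (nat_lit 532) (nat_lit 11281819504) (nat_lit 608) (nat_lit 2539955512) (nat_lit 316) (nat_lit 5) (nat_lit 323) (nat_lit 5) (nat_lit 324) (nat_lit 5) (nat_lit 394) (nat_lit 366) (nat_lit 260)) (XT.lf (nat_lit 0) (nat_lit 8319502933) (nat_lit 532) (nat_lit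 5493297759) (nat_lit 608) (nat_lit 303580945) (nat_lit 316) (nat_lit 5) (nat_lit 323) (nat_lit 5) (nat_lit 324) (nat_lit 5) (nat_lit 395) (nat_lit 366) (nat_lit 259))))) (XT.nd (nat_lit 312) (nat_lit 1520) (nat_lit 0) (XT.nd (nat_lit 156) (nat_lit 456) (nat_lit 0) (XT.nd (nat_lit 78) (nat_lit 0) (nat_lit 0) (XT.lf (nat_lit 0) (nat_lit 1973348848) (nat_lit 608) (nat_lit 11870637936) (nat_lit 76) (nat_lit 501489351) (nat_lit 308) (nat_lit 5) (nat_lit 316) (nat_lit 5) (nat_lit 309) (nat_lit 5) (nat_lit 396) (nat_lit 366) (nat_lit 258)) (XT.lf (nat_lit 0) (nat_lit 4410008665) (nat_lit 608) (nat_lit 3542438757) (nat_lit 76) (nat_lit 6625980157) (nat_lit 308) (nat_lit 5) (nat_lit 316) (nat_lit 5) (nat_lit 309) (nat_lit 5) (nat_lit 397) (nat_lit 366) (nat_lit 257))) (XT.nd (nat_lit 78) (nat_lit 0) (nat_lit 0) (XT.lf (nat_lit 0) (nat_lit 5117690453) (nat_lit 456) (nat_lit 1835755725) (nat_lit 532) (nat_lit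 7863911053) (nat_lit 302) (nat_lit 5) (nat_lit 308) (nat_lit 5) (nat_lit 309) (nat_lit 5) (nat_lit 398) (nat_lit 366) (nat_lit 256)) (XT.lf (nat_lit 0) (nat_lit 9636970994) (nat_lit 532) (nat_lit 1013451038) (nat_lit 76) (nat_lit 4411119214) (nat_lit 302) (nat_lit 5) (nat_lit 309) (nat_lit 5) (nat_lit 303) (nat_lit 5) (nat_lit 399) (nat_lit 366) (nat_lit 255)))) (XT.nd (nat_lit 156) (nat_lit 532) (nat_lit 0) (XT.nd (nat_lit 78) (nat_lit 456) (nat_lit 0) (XT.lf (nat_lit 0) (nat_lit 8054839345) (nat_lit 532) (nat_lit 4426953837) (nat_lit 608) (nat_lit 2828833852) (nat_lit 295) (nat_lit 5) (nat_lit 302) (nat_lit 5) (nat_lit 303) (nat_lit 5) (nat_lit 400) (nat_lit 366) (nat_lit 254)) (XT.lf (nat_lit 0) (nat_lit 1848222259) (nat_lit 456) (nat_lit 13596328742) (nat_lit 532) (nat_lit 121656664) (nat_lit 289) (nat_lit 5) (nat_lit 295) (nat_lit 5) (nat_lit 296) (nat_lit 5) (nat_lit 401) (nat_lit 366) (nat_lit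 253))) (XT.nd (nat_lit 78) (nat_lit 456) (nat_lit 0) (XT.lf (nat_lit 0) (nat_lit 2718063479) (nat_lit 532) (nat_lit 4541226099) (nat_lit 76) (nat_lit 8566296151) (nat_lit 288) (nat_lit 5) (nat_lit 295) (nat_lit 5) (nat_lit 289) (nat_lit 5) (nat_lit 402) (nat_lit 366) (nat_lit 252)) (XT.lf (nat_lit 0) (nat_lit 4989651380) (nat_lit 456) (nat_lit 684802803) (nat_lit 532) (nat_lit 10417237093) (nat_lit 282) (nat_lit 5) (nat_lit 288) (nat_lit 5) (nat_lit 289) (nat_lit 5) (nat_lit 403) (nat_lit 366) (nat_lit 251))))))))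
noncomputable def xc159 : XT := (XT.nd (nat_lit 2418) (nat_lit 3952) (nat_lit 0) (XT.nd (nat_lit 1170) (nat_lit 2964) (nat_lit 0) (XT.nd (nat_lit 546) (nat_lit 1900) (nat_lit 0) (XT.nd (nat_lit 234) (nat_lit 836) (nat_lit 0) (XT.nd (nat_lit 78) (nat_lit 836) (nat_lit 0) (XT.lf (nat_lit 0) (nat_lit 8810531173) (nat_lit 532) (nat_lit 1541381088) (nat_lit 76) (nat_lit 6011137891) (nat_lit 282) (nat_lit 5) (nat_lit 289) (nat_lit 5) (nat_lit 283) (nat_lit 5) (nat_lit 404) (nat_lit 366) (nat_lit 250)) (XT.nd (nat_lit 78) (nat_lit 456) (nat_lit 0) (XT.lf (nat_lit 0) (nat_lit 8447104608) (nat_lit 380) (nat_lit 3668139455) (nat_lit 456) (nat_lit 4525069124) (nat_lit 277) (nat_lit 5) (nat_lit 282) (nat_lit 5) (nat_lit 283) (nat_lit 5) (nat_lit 405) (nat_lit 366) (nat_lit 249)) (XT.lf (nat_lit 0) (nat_lit 1828791678) (nat_lit 456) (nat_lit 13741288737) (nat_lit 532) (nat_lit 1354284234) (nat_lit 271) (nat_lit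 5) (nat_lit 277) (nat_lit 5) (nat_lit 278) (nat_lit 5) (nat_lit 406) (nat_lit 366) (nat_lit 248)))) (XT.nd (nat_lit 156) (nat_lit 380) (nat_lit 0) (XT.nd (nat_lit 78) (nat_lit 380) (nat_lit 0) (XT.lf (nat_lit 0) (nat_lit 1981054741) (nat_lit 532) (nat_lit 4967895941) (nat_lit 76) (nat_lit 10264233707) (nat_lit 270) (nat_lit 5) (nat_lit 277) (nat_lit 5) (nat_lit 271) (nat_lit 5) (nat_lit 407) (nat_lit 366) (nat_lit 247)) (XT.lf (nat_lit 0) (nat_lit 5430820052) (nat_lit 456) (nat_lit 11968615133) (nat_lit 76) (nat_lit 109583695) (nat_lit 265) (nat_lit 5) (nat_lit 271) (nat_lit 5) (nat_lit 266) (nat_lit 5) (nat_lit 408) (nat_lit 366) (nat_lit 246))) (XT.nd (nat_lit 78) (nat_lit 380) (nat_lit 0) (XT.lf (nat_lit 0) (nat_lit 9090957534) (nat_lit 456) (nat_lit 1432731147) (nat_lit 76) (nat_lit 7286833349) (nat_lit 265) (nat_lit 5) (nat_lit 271) (nat_lit 5) (nat_lit 266) (nat_lit 5) (nat_lit 409) (nat_lit 366)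 (nat_lit 245)) (XT.lf (nat_lit 0) (nat_lit 9589858188) (nat_lit 380) (nat_lit 3351006106) (nat_lit 456) (nat_lit 5177807024) (nat_lit 260) (nat_lit 5) (nat_lit 265) (nat_lit 5) (nat_lit 266) (nat_lit 5) (nat_lit 410) (nat_lit 366) (nat_lit 244))))) (XT.nd (nat_lit 312) (nat_lit 1064) (nat_lit 0) (XT.nd (nat_lit 156) (nat_lit 380) (nat_lit 0) (XT.nd (nat_lit 78) (nat_lit 76) (nat_lit 0) (XT.lf (nat_lit 0) (nat_lit 2530636501) (nat_lit 380) (nat_lit 14441312352) (nat_lit 456) (nat_lit 1462145816) (nat_lit 255) (nat_lit 5) (nat_lit 260) (nat_lit 5) (nat_lit 261) (nat_lit 5) (nat_lit 411) (nat_lit 366) (nat_lit 243)) (XT.lf (nat_lit 0) (nat_lit 2427005139) (nat_lit 456) (nat_lit 4733196023) (nat_lit 76) (nat_lit 11594852468) (nat_lit 254) (nat_lit 5) (nat_lit 260) (nat_lit 5) (nat_lit 255) (nat_lit 5) (nat_lit 412) (nat_lit 366) (nat_lit 242))) (XT.nd (nat_lit 78) (nat_lit 0) (nat_lit 0) (XT.lf (nat_lit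 0) (nat_lit 6461914049) (nat_lit 456) (nat_lit 12211972226) (nat_lit 76) (nat_lit 409566651) (nat_lit 249) (nat_lit 5) (nat_lit 255) (nat_lit 5) (nat_lit 250) (nat_lit 5) (nat_lit 413) (nat_lit 366) (nat_lit 241)) (XT.lf (nat_lit 0) (nat_lit 10725535352) (nat_lit 456) (nat_lit 586701548) (nat_lit 76) (nat_lit 8106237348) (nat_lit 249) (nat_lit 5) (nat_lit 255) (nat_lit 5) (nat_lit 250) (nat_lit 5) (nat_lit 414) (nat_lit 366) (nat_lit 240)))) (XT.nd (nat_lit 156) (nat_lit 380) (nat_lit 0) (XT.nd (nat_lit 78) (nat_lit 380) (nat_lit 0) (XT.lf (nat_lit 0) (nat_lit 11597729541) (nat_lit 304) (nat_lit 3619657912) (nat_lit 380) (nat_lit 4543149090) (nat_lit 245) (nat_lit 5) (nat_lit 249) (nat_lit 5) (nat_lit 250) (nat_lit 5) (nat_lit 415) (nat_lit 366) (nat_lit 239)) (XT.lf (nat_lit 0) (nat_lit 4068970186) (nat_lit 380) (nat_lit 15850456877) (nat_lit 456) (nat_lit 191170688) (nat_lit 240) (nat_lit 5) (nat_lit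 245) (nat_lit 5) (nat_lit 246) (nat_lit 5) (nat_lit 416) (nat_lit 366) (nat_lit 238))) (XT.nd (nat_lit 78) (nat_lit 304) (nat_lit 0) (XT.lf (nat_lit 0) (nat_lit 4315736384) (nat_lit 456) (nat_lit 3727663456) (nat_lit 76) (nat_lit 12423280135) (nat_lit 239) (nat_lit 5) (nat_lit 245) (nat_lit 5) (nat_lit 240) (nat_lit 5) (nat_lit 417) (nat_lit 366) (nat_lit 237)) (XT.lf (nat_lit 0) (nat_lit 9031802014) (nat_lit 380) (nat_lit 11715813467) (nat_lit 76) (nat_lit 83438591) (nat_lit 235) (nat_lit 5) (nat_lit 240) (nat_lit 5) (nat_lit 236) (nat_lit 5) (nat_lit 418) (nat_lit 366) (nat_lit 236)))))) (XT.nd (nat_lit 624) (nat_lit 1368) (nat_lit 0) (XT.nd (nat_lit 312) (nat_lit 912) (nat_lit 0) (XT.nd (nat_lit 156) (nat_lit 380) (nat_lit 0) (XT.nd (nat_lit 78) (nat_lit 0) (nat_lit 0) (XT.lf (nat_lit 0) (nat_lit 1141127461) (nat_lit 304) (nat_lit 12866303658) (nat_lit 380) (nat_lit 7195385828) (nat_lit 231) (nat_lit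 5) (nat_lit 235) (nat_lit 5) (nat_lit 236) (nat_lit 5) (nat_lit 419) (nat_lit 366) (nat_lit 235)) (XT.lf (nat_lit 0) (nat_lit 14608348836) (nat_lit 304) (nat_lit 4631904020) (nat_lit 380) (nat_lit 2342242141) (nat_lit 231) (nat_lit 5) (nat_lit 235) (nat_lit 5) (nat_lit 236) (nat_lit 5) (nat_lit 420) (nat_lit 366) (nat_lit 234))) (XT.nd (nat_lit 78) (nat_lit 0) (nat_lit 0) (XT.lf (nat_lit 0) (nat_lit 2695696306) (nat_lit 380) (nat_lit 15415218285) (nat_lit 76) (nat_lit 3859151573) (nat_lit 226) (nat_lit 5) (nat_lit 231) (nat_lit 5) (nat_lit 227) (nat_lit 5) (nat_lit 421) (nat_lit 366) (nat_lit 233)) (XT.lf (nat_lit 0) (nat_lit 7944599623) (nat_lit 380) (nat_lit 1819664955) (nat_lit 76) (nat_lit 12601097069) (nat_lit 226) (nat_lit 5) (nat_lit 231) (nat_lit 5) (nat_lit 227) (nat_lit 5) (nat_lit 422) (nat_lit 366) (nat_lit 232)))) (XT.nd (nat_lit 156) (nat_lit 380) (nat_lit 0) (XT.nd (nat_lit 78) (nat_lit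 228) (nat_lit 0) (XT.lf (nat_lit 0) (nat_lit 12410947043) (nat_lit 304) (nat_lit 1049538735) (nat_lit 380) (nat_lit 9308744744) (nat_lit 222) (nat_lit 5) (nat_lit 226) (nat_lit 5) (nat_lit 227) (nat_lit 5) (nat_lit 423) (nat_lit 366) (nat_lit 231)) (XT.lf (nat_lit 0) (nat_lit 3905872063) (nat_lit 228) (nat_lit 15358581155) (nat_lit 304) (nat_lit 3917084103) (nat_lit 219) (nat_lit 5) (nat_lit 222) (nat_lit 5) (nat_lit 223) (nat_lit 5) (nat_lit 424) (nat_lit 366) (nat_lit 230))) (XT.nd (nat_lit 78) (nat_lit 304) (nat_lit 0) (XT.lf (nat_lit 0) (nat_lit 1710771843) (nat_lit 304) (nat_lit 4835071659) (nat_lit 76) (nat_lit 17056706660) (nat_lit 218) (nat_lit 5) (nat_lit 222) (nat_lit 5) (nat_lit 219) (nat_lit 5) (nat_lit 425) (nat_lit 366) (nat_lit 229)) (XT.lf (nat_lit 0) (nat_lit 7542894776) (nat_lit 380) (nat_lit 13874011361) (nat_lit 76) (nat_lit 2614698936) (nat_lit 214) (nat_lit 5) (nat_lit 219) (nat_lit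 5) (nat_lit 215) (nat_lit 5) (nat_lit 426) (nat_lit 366) (nat_lit 228))))) (XT.nd (nat_lit 312) (nat_lit 760) (nat_lit 0) (XT.nd (nat_lit 156) (nat_lit 380) (nat_lit 0) (XT.nd (nat_lit 78) (nat_lit 0) (nat_lit 0) (XT.lf (nat_lit 0) (nat_lit 1169852457) (nat_lit 228) (nat_lit 12496206531) (nat_lit 304) (nat_lit 10803990314) (nat_lit 211) (nat_lit 5) (nat_lit 214) (nat_lit 5) (nat_lit 215) (nat_lit 5) (nat_lit 427) (nat_lit 366) (nat_lit 227)) (XT.lf (nat_lit 0) (nat_lit 16934812389) (nat_lit 228) (nat_lit 3169049718) (nat_lit 304) (nat_lit 4813856432) (nat_lit 211) (nat_lit 5) (nat_lit 214) (nat_lit 5) (nat_lit 215) (nat_lit 5) (nat_lit 428) (nat_lit 366) (nat_lit 226))) (XT.nd (nat_lit 78) (nat_lit 0) (nat_lit 0) (XT.lf (nat_lit 0) (nat_lit 1459402095) (nat_lit 380) (nat_lit 17518067179) (nat_lit 76) (nat_lit 6397061123) (nat_lit 206) (nat_lit 5) (nat_lit 211) (nat_lit 5) (nat_lit 207) (nat_lit 5) (nat_lit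 429) (nat_lit 366) (nat_lit 225)) (XT.lf (nat_lit 0) (nat_lit 7927986449) (nat_lit 380) (nat_lit 1602258740) (nat_lit 76) (nat_lit 16310255108) (nat_lit 206) (nat_lit 5) (nat_lit 211) (nat_lit 5) (nat_lit 207) (nat_lit 5) (nat_lit 430) (nat_lit 366) (nat_lit 224)))) (XT.nd (nat_lit 156) (nat_lit 304) (nat_lit 0) (XT.nd (nat_lit 78) (nat_lit 228) (nat_lit 0) (XT.lf (nat_lit 0) (nat_lit 14730164418) (nat_lit 304) (nat_lit 11248584546) (nat_lit 76) (nat_lit 337514247) (nat_lit 203) (nat_lit 5) (nat_lit 207) (nat_lit 5) (nat_lit 204) (nat_lit 5) (nat_lit 431) (nat_lit 366) (nat_lit 223)) (XT.lf (nat_lit 0) (nat_lit 5462728794) (nat_lit 228) (nat_lit 16428310089) (nat_lit 304) (nat_lit 4910621195) (nat_lit 200) (nat_lit 5) (nat_lit 203) (nat_lit 5) (nat_lit 204) (nat_lit 5) (nat_lit 432) (nat_lit 366) (nat_lit 222))) (XT.nd (nat_lit 78) (nat_lit 228) (nat_lit 0) (XT.lf (nat_lit 0) (nat_lit 2032940684) (nat_lit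 304) (nat_lit 4426386161) (nat_lit 76) (nat_lit 20838540313) (nat_lit 199) (nat_lit 5) (nat_lit 203) (nat_lit 5) (nat_lit 200) (nat_lit 5) (nat_lit 433) (nat_lit 366) (nat_lit 221)) (XT.lf (nat_lit 0) (nat_lit 9242885773) (nat_lit 304) (nat_lit 14653687691) (nat_lit 76) (nat_lit 3906225135) (nat_lit 196) (nat_lit 5) (nat_lit 200) (nat_lit 5) (nat_lit 197) (nat_lit 5) (nat_lit 434) (nat_lit 366) (nat_lit 220))))))) (XT.nd (nat_lit 1170) (nat_lit 1748) (nat_lit 0) (XT.nd (nat_lit 546) (nat_lit 1216) (nat_lit 0) (XT.nd (nat_lit 234) (nat_lit 456) (nat_lit 0) (XT.nd (nat_lit 78) (nat_lit 304) (nat_lit 0) (XT.lf (nat_lit 0) (nat_lit 3001470945) (nat_lit 228) (nat_lit 13797365815) (nat_lit 304) (nat_lit 11520149997) (nat_lit 193) (nat_lit 5) (nat_lit 196) (nat_lit 5) (nat_lit 197) (nat_lit 5) (nat_lit 435) (nat_lit 366) (nat_lit 219)) (XT.nd (nat_lit 78) (nat_lit 304) (nat_lit 0) (XT.lf (nat_lit 0) (nat_lit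 21473030922) (nat_lit 228) (nat_lit 3248279179) (nat_lit 304) (nat_lit 4125155145) (nat_lit 193) (nat_lit 5) (nat_lit 196) (nat_lit 5) (nat_lit 197) (nat_lit 5) (nat_lit 436) (nat_lit 366) (nat_lit 218)) (XT.lf (nat_lit 0) (nat_lit 3598609937) (nat_lit 304) (nat_lit 18178162705) (nat_lit 76) (nat_lit 7606736846) (nat_lit 189) (nat_lit 5) (nat_lit 193) (nat_lit 5) (nat_lit 190) (nat_lit 5) (nat_lit 437) (nat_lit 366) (nat_lit 217)))) (XT.nd (nat_lit 156) (nat_lit 228) (nat_lit 0) (XT.nd (nat_lit 78) (nat_lit 0) (nat_lit 0) (XT.lf (nat_lit 0) (nat_lit 480387050) (nat_lit 228) (nat_lit 11094844392) (nat_lit 304) (nat_lit 18357086669) (nat_lit 186) (nat_lit 5) (nat_lit 189) (nat_lit 5) (nat_lit 190) (nat_lit 5) (nat_lit 438) (nat_lit 366) (nat_lit 216)) (XT.lf (nat_lit 0) (nat_lit 19967775361) (nat_lit 304) (nat_lit 10435188306) (nat_lit 76) (nat_lit 89328614) (nat_lit 186) (nat_lit 5) (nat_lit 190) (nat_lit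 5) (nat_lit 187) (nat_lit 5) (nat_lit 439) (nat_lit 366) (nat_lit 215))) (XT.nd (nat_lit 78) (nat_lit 76) (nat_lit 0) (XT.lf (nat_lit 0) (nat_lit 9208793480) (nat_lit 152) (nat_lit 19594033074) (nat_lit 228) (nat_lit 2260517194) (nat_lit 184) (nat_lit 5) (nat_lit 186) (nat_lit 5) (nat_lit 187) (nat_lit 5) (nat_lit 440) (nat_lit 366) (nat_lit 214)) (XT.lf (nat_lit 0) (nat_lit 6228216911) (nat_lit 228) (nat_lit 2066628373) (nat_lit 76) (nat_lit 23351914652) (nat_lit 183) (nat_lit 5) (nat_lit 186) (nat_lit 5) (nat_lit 184) (nat_lit 5) (nat_lit 441) (nat_lit 366) (nat_lit 213))))) (XT.nd (nat_lit 312) (nat_lit 532) (nat_lit 0) (XT.nd (nat_lit 156) (nat_lit 304) (nat_lit 0) (XT.nd (nat_lit 78) (nat_lit 152) (nat_lit 0) (XT.lf (nat_lit 0) (nat_lit 15132080475) (nat_lit 304) (nat_lit 13632332030) (nat_lit 76) (nat_lit 3476417617) (nat_lit 180) (nat_lit 5) (nat_lit 184) (nat_lit 5) (nat_lit 181) (nat_lit 5)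 (nat_lit 442) (nat_lit 366) (nat_lit 212)) (XT.lf (nat_lit 0) (nat_lit 7138312851) (nat_lit 152) (nat_lit 17329215798) (nat_lit 228) (nat_lit 8380259701) (nat_lit 178) (nat_lit 5) (nat_lit 180) (nat_lit 5) (nat_lit 181) (nat_lit 5) (nat_lit 443) (nat_lit 366) (nat_lit 211))) (XT.nd (nat_lit 78) (nat_lit 228) (nat_lit 0) (XT.lf (nat_lit 0) (nat_lit 729871438) (nat_lit 228) (nat_lit 4677340373) (nat_lit 76) (nat_lit 28061616837) (nat_lit 177) (nat_lit 5) (nat_lit 180) (nat_lit 5) (nat_lit 178) (nat_lit 5) (nat_lit 444) (nat_lit 366) (nat_lit 210)) (XT.lf (nat_lit 0) (nat_lit 10171817486) (nat_lit 304) (nat_lit 16943232576) (nat_lit 76) (nat_lit 6984152531) (nat_lit 174) (nat_lit 5) (nat_lit 178) (nat_lit 5) (nat_lit 175) (nat_lit 5) (nat_lit 445) (nat_lit 366) (nat_lit 209)))) (XT.nd (nat_lit 156) (nat_lit 380) (nat_lit 0) (XT.nd (nat_lit 78) (nat_lit 0) (nat_lit 0) (XT.lf (nat_lit 0) (nat_lit 5024655841)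 (nat_lit 152) (nat_lit 15014822745) (nat_lit 228) (nat_lit 14704735469) (nat_lit 172) (nat_lit 5) (nat_lit 174) (nat_lit 5) (nat_lit 175) (nat_lit 5) (nat_lit 446) (nat_lit 366) (nat_lit 208)) (XT.lf (nat_lit 0) (nat_lit 27986544193) (nat_lit 152) (nat_lit 2380726426) (nat_lit 228) (nat_lit 5036382208) (nat_lit 172) (nat_lit 5) (nat_lit 174) (nat_lit 5) (nat_lit 175) (nat_lit 5) (nat_lit 447) (nat_lit 366) (nat_lit 207))) (XT.nd (nat_lit 78) (nat_lit 152) (nat_lit 0) (XT.lf (nat_lit 0) (nat_lit 5075157710) (nat_lit 228) (nat_lit 20377882285) (nat_lit 76) (nat_lit 10620939890) (nat_lit 169) (nat_lit 5) (nat_lit 172) (nat_lit 5) (nat_lit 170) (nat_lit 5) (nat_lit 448) (nat_lit 366) (nat_lit 206)) (XT.lf (nat_lit 0) (nat_lit 2862078103) (nat_lit 152) (nat_lit 12646640770) (nat_lit 228) (nat_lit 21250604887) (nat_lit 167) (nat_lit 5) (nat_lit 169) (nat_lit 5) (nat_lit 170) (nat_lit 5) (nat_lit 449) (nat_lit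 366) (nat_lit 205)))))) (XT.nd (nat_lit 624) (nat_lit 836) (nat_lit 0) (XT.nd (nat_lit 312) (nat_lit 532) (nat_lit 0) (XT.nd (nat_lit 156) (nat_lit 228) (nat_lit 0) (XT.nd (nat_lit 78) (nat_lit 152) (nat_lit 0) (XT.lf (nat_lit 0) (nat_lit 26461539498) (nat_lit 228) (nat_lit 10261555518) (nat_lit 76) (nat_lit 735945358) (nat_lit 167) (nat_lit 5) (nat_lit 170) (nat_lit 5) (nat_lit 168) (nat_lit 5) (nat_lit 450) (nat_lit 366) (nat_lit 204)) (XT.lf (nat_lit 0) (nat_lit 14223703445) (nat_lit 152) (nat_lit 23774590067) (nat_lit 228) (nat_lit 173794509) (nat_lit 165) (nat_lit 5) (nat_lit 167) (nat_lit 5) (nat_lit 168) (nat_lit 5) (nat_lit 451) (nat_lit 366) (nat_lit 203))) (XT.nd (nat_lit 78) (nat_lit 0) (nat_lit 0) (XT.lf (nat_lit 0) (nat_lit 644654235) (nat_lit 152) (nat_lit 10220081110) (nat_lit 228) (nat_lit 28035498908) (nat_lit 162) (nat_lit 5) (nat_lit 164) (nat_lit 5) (nat_lit 165) (nat_lit 5) (nat_lit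 452) (nat_lit 366) (nat_lit 202)) (XT.lf (nat_lit 0) (nat_lit 22504566163) (nat_lit 228) (nat_lit 13228530215) (nat_lit 76) (nat_lit 3908867726) (nat_lit 162) (nat_lit 5) (nat_lit 165) (nat_lit 5) (nat_lit 163) (nat_lit 5) (nat_lit 453) (nat_lit 366) (nat_lit 201)))) (XT.nd (nat_lit 156) (nat_lit 304) (nat_lit 0) (XT.nd (nat_lit 78) (nat_lit 76) (nat_lit 0) (XT.lf (nat_lit 0) (nat_lit 12684114717) (nat_lit 152) (nat_lit 22026235015) (nat_lit 228) (nat_lit 5689093384) (nat_lit 160) (nat_lit 5) (nat_lit 162) (nat_lit 5) (nat_lit 163) (nat_lit 5) (nat_lit 454) (nat_lit 366) (nat_lit 200)) (XT.lf (nat_lit 0) (nat_lit 6112134821) (nat_lit 228) (nat_lit 1601866588) (nat_lit 76) (nat_lit 33460028433) (nat_lit 159) (nat_lit 5) (nat_lit 162) (nat_lit 5) (nat_lit 160) (nat_lit 5) (nat_lit 455) (nat_lit 366) (nat_lit 199))) (XT.nd (nat_lit 78) (nat_lit 152) (nat_lit 0) (XT.lf (nat_lit 0) (nat_lit 18464733586)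 (nat_lit 228) (nat_lit 16303910405) (nat_lit 76) (nat_lit 7192169984) (nat_lit 157) (nat_lit 5) (nat_lit 160) (nat_lit 5) (nat_lit 158) (nat_lit 5) (nat_lit 456) (nat_lit 366) (nat_lit 198)) (XT.lf (nat_lit 0) (nat_lit 11124865688) (nat_lit 152) (nat_lit 20256559581) (nat_lit 228) (nat_lit 11383970912) (nat_lit 155) (nat_lit 5) (nat_lit 157) (nat_lit 5) (nat_lit 158) (nat_lit 5) (nat_lit 457) (nat_lit 366) (nat_lit 197))))) (XT.nd (nat_lit 312) (nat_lit 456) (nat_lit 0) (XT.nd (nat_lit 156) (nat_lit 152) (nat_lit 0) (XT.nd (nat_lit 78) (nat_lit 152) (nat_lit 0) (XT.lf (nat_lit 0) (nat_lit 1230345822) (nat_lit 228) (nat_lit 3901832696) (nat_lit 76) (nat_lit 38456818278) (nat_lit 154) (nat_lit 5) (nat_lit 157) (nat_lit 5) (nat_lit 155) (nat_lit 5) (nat_lit 458) (nat_lit 366) (nat_lit 196)) (XT.lf (nat_lit 0) (nat_lit 14332843861) (nat_lit 228) (nat_lit 19496856991) (nat_lit 76) (nat_lit 10594066450) (nat_lit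 152) (nat_lit 5) (nat_lit 155) (nat_lit 5) (nat_lit 153) (nat_lit 5) (nat_lit 459) (nat_lit 366) (nat_lit 195))) (XT.nd (nat_lit 78) (nat_lit 0) (nat_lit 0) (XT.lf (nat_lit 0) (nat_lit 9542151550) (nat_lit 152) (nat_lit 18462670492) (nat_lit 228) (nat_lit 17273466724) (nat_lit 150) (nat_lit 5) (nat_lit 152) (nat_lit 5) (nat_lit 153) (nat_lit 5) (nat_lit 460) (nat_lit 366) (nat_lit 194)) (XT.lf (nat_lit 0) (nat_lit 39841157227) (nat_lit 152) (nat_lit 2436826315) (nat_lit 228) (nat_lit 3874731613) (nat_lit 150) (nat_lit 5) (nat_lit 152) (nat_lit 5) (nat_lit 153) (nat_lit 5) (nat_lit 461) (nat_lit 366) (nat_lit 193)))) (XT.nd (nat_lit 156) (nat_lit 152) (nat_lit 0) (XT.nd (nat_lit 78) (nat_lit 152) (nat_lit 0) (XT.lf (nat_lit 0) (nat_lit 10099209265) (nat_lit 152) (nat_lit 22816963653) (nat_lit 76) (nat_lit 14123330933) (nat_lit 148) (nat_lit 5) (nat_lit 150) (nat_lit 5) (nat_lit 149) (nat_lit 5) (nat_lit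 462) (nat_lit 366) (nat_lit 192)) (XT.lf (nat_lit 0) (nat_lit 7932061822) (nat_lit 152) (nat_lit 16641445996) (nat_lit 228) (nat_lit 23373466948) (nat_lit 146) (nat_lit 5) (nat_lit 148) (nat_lit 5) (nat_lit 149) (nat_lit 5) (nat_lit 463) (nat_lit 366) (nat_lit 191))) (XT.nd (nat_lit 78) (nat_lit 152) (nat_lit 0) (XT.lf (nat_lit 0) (nat_lit 39710187000) (nat_lit 228) (nat_lit 8817599153) (nat_lit 76) (nat_lit 347039105) (nat_lit 146) (nat_lit 5) (nat_lit 149) (nat_lit 5) (nat_lit 147) (nat_lit 4) (nat_lit 464) (nat_lit 366) (nat_lit 190)) (XT.lf (nat_lit 0) (nat_lit 5753626023) (nat_lit 152) (nat_lit 26274292485) (nat_lit 76) (nat_lit 17789317625) (nat_lit 144) (nat_lit 5) (nat_lit 146) (nat_lit 5) (nat_lit 145) (nat_lit 5) (nat_lit 465) (nat_lit 366) (nat_lit 189))))))))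
noncomputable def xc160 : XT := (XT.nd (nat_lit 45786) (nat_lit 0) (nat_lit 13224) (XT.nd (nat_lit 1170) (nat_lit 836) (nat_lit 0) (XT.nd (nat_lit 546) (nat_lit 684) (nat_lit 0) (XT.nd (nat_lit 234) (nat_lit 456) (nat_lit 0) (XT.nd (nat_lit 78) (nat_lit 152) (nat_lit 0) (XT.lf (nat_lit 0) (nat_lit 6290564659) (nat_lit 152) (nat_lit 14789534484) (nat_lit 228) (nat_lit 29700752190) (nat_lit 142) (nat_lit 5) (nat_lit 144) (nat_lit 5) (nat_lit 145) (nat_lit 5) (nat_lit 466) (nat_lit 366) (nat_lit 188)) (XT.nd (nat_lit 78) (nat_lit 152) (nat_lit 0) (XT.lf (nat_lit 0) (nat_lit 37157309634) (nat_lit 228) (nat_lit 11435977835) (nat_lit 76) (nat_lit 3171359225) (nat_lit 142) (nat_lit 5) (nat_lit 145) (nat_lit 5) (nat_lit 143) (nat_lit 4) (nat_lit 467) (nat_lit 366) (nat_lit 187)) (XT.lf (nat_lit 0) (nat_lit 1285345735) (nat_lit 152) (nat_lit 29879410913) (nat_lit 76) (nat_lit 21601984929) (nat_lit 140) (nat_lit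 5) (nat_lit 142) (nat_lit 5) (nat_lit 141) (nat_lit 5) (nat_lit 468) (nat_lit 366) (nat_lit 186)))) (XT.nd (nat_lit 156) (nat_lit 304) (nat_lit 0) (XT.nd (nat_lit 78) (nat_lit 0) (nat_lit 0) (XT.lf (nat_lit 0) (nat_lit 4613491097) (nat_lit 152) (nat_lit 12903351425) (nat_lit 228) (nat_lit 36273049177) (nat_lit 138) (nat_lit 5) (nat_lit 140) (nat_lit 5) (nat_lit 141) (nat_lit 5) (nat_lit 469) (nat_lit 366) (nat_lit 185)) (XT.lf (nat_lit 0) (nat_lit 34591434962) (nat_lit 228) (nat_lit 14150872744) (nat_lit 76) (nat_lit 6090744097) (nat_lit 138) (nat_lit 5) (nat_lit 141) (nat_lit 5) (nat_lit 139) (nat_lit 4) (nat_lit 470) (nat_lit 366) (nat_lit 184))) (XT.nd (nat_lit 78) (nat_lit 228) (nat_lit 0) (XT.lf (nat_lit 0) (nat_lit 22221471896) (nat_lit 76) (nat_lit 30292979729) (nat_lit 152) (nat_lit 3382969490) (nat_lit 137) (nat_lit 5) (nat_lit 138) (nat_lit 5) (nat_lit 139) (nat_lit 4) (nat_lit 471) (nat_lit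 366) (nat_lit 183)) (XT.lf (nat_lit 0) (nat_lit 2896519131) (nat_lit 152) (nat_lit 10979074719) (nat_lit 228) (nat_lit 43109086170) (nat_lit 134) (nat_lit 5) (nat_lit 136) (nat_lit 5) (nat_lit 137) (nat_lit 5) (nat_lit 472) (nat_lit 366) (nat_lit 182))))) (XT.nd (nat_lit 312) (nat_lit 380) (nat_lit 0) (XT.nd (nat_lit 156) (nat_lit 228) (nat_lit 0) (XT.nd (nat_lit 78) (nat_lit 76) (nat_lit 0) (XT.lf (nat_lit 0) (nat_lit 32007880475) (nat_lit 228) (nat_lit 16970253734) (nat_lit 76) (nat_lit 9112698820) (nat_lit 134) (nat_lit 5) (nat_lit 137) (nat_lit 5) (nat_lit 135) (nat_lit 4) (nat_lit 473) (nat_lit 366) (nat_lit 181)) (XT.lf (nat_lit 0) (nat_lit 21563725835) (nat_lit 76) (nat_lit 29431391009) (nat_lit 152) (nat_lit 8225724349) (nat_lit 133) (nat_lit 5) (nat_lit 134) (nat_lit 5) (nat_lit 135) (nat_lit 4) (nat_lit 474) (nat_lit 366) (nat_lit 180))) (XT.nd (nat_lit 78) (nat_lit 0) (nat_lit 0) (XT.lf (nat_lit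 0) (nat_lit 1135157543) (nat_lit 152) (nat_lit 9012638503) (nat_lit 228) (nat_lit 50228652315) (nat_lit 130) (nat_lit 5) (nat_lit 132) (nat_lit 5) (nat_lit 133) (nat_lit 5) (nat_lit 475) (nat_lit 366) (nat_lit 179)) (XT.lf (nat_lit 0) (nat_lit 29401762976) (nat_lit 228) (nat_lit 19902486239) (nat_lit 76) (nat_lit 12245194152) (nat_lit 130) (nat_lit 5) (nat_lit 133) (nat_lit 5) (nat_lit 131) (nat_lit 4) (nat_lit 476) (nat_lit 366) (nat_lit 178)))) (XT.nd (nat_lit 156) (nat_lit 228) (nat_lit 0) (XT.nd (nat_lit 78) (nat_lit 76) (nat_lit 0) (XT.lf (nat_lit 0) (nat_lit 20926310400) (nat_lit 76) (nat_lit 28592585322) (nat_lit 152) (nat_lit 13230166096) (nat_lit 129) (nat_lit 5) (nat_lit 130) (nat_lit 5) (nat_lit 131) (nat_lit 4) (nat_lit 477) (nat_lit 366) (nat_lit 177)) (XT.lf (nat_lit 0) (nat_lit 6330945989) (nat_lit 152) (nat_lit 662093660) (nat_lit 76) (nat_lit 56983881579) (nat_lit 128) (nat_lit 5) (nat_lit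 130) (nat_lit 5) (nat_lit 129) (nat_lit 5) (nat_lit 478) (nat_lit 366) (nat_lit 176))) (XT.nd (nat_lit 78) (nat_lit 76) (nat_lit 0) (XT.lf (nat_lit 0) (nat_lit 26767987118) (nat_lit 228) (nat_lit 22956361196) (nat_lit 76) (nat_lit 15496688086) (nat_lit 126) (nat_lit 5) (nat_lit 129) (nat_lit 5) (nat_lit 127) (nat_lit 4) (nat_lit 479) (nat_lit 366) (nat_lit 175)) (XT.lf (nat_lit 0) (nat_lit 20308502636) (nat_lit 76) (nat_lit 27776156878) (nat_lit 152) (nat_lit 18409819912) (nat_lit 125) (nat_lit 5) (nat_lit 126) (nat_lit 5) (nat_lit 127) (nat_lit 4) (nat_lit 480) (nat_lit 366) (nat_lit 174)))))) (XT.nd (nat_lit 546) (nat_lit 228) (nat_lit 0) (XT.nd (nat_lit 234) (nat_lit 304) (nat_lit 0) (XT.nd (nat_lit 78) (nat_lit 228) (nat_lit 0) (XT.lf (nat_lit 0) (nat_lit 2420525488) (nat_lit 152) (nat_lit 2490087401) (nat_lit 76) (nat_lit 62887985624) (nat_lit 124) (nat_lit 5) (nat_lit 126) (nat_lit 5) (nat_lit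 125) (nat_lit 5) (nat_lit 481) (nat_lit 366) (nat_lit 173)) (XT.nd (nat_lit 78) (nat_lit 76) (nat_lit 0) (XT.lf (nat_lit 0) (nat_lit 24101232857) (nat_lit 228) (nat_lit 26141126264) (nat_lit 76) (nat_lit 18876149665) (nat_lit 122) (nat_lit 5) (nat_lit 125) (nat_lit 5) (nat_lit 123) (nat_lit 4) (nat_lit 482) (nat_lit 366) (nat_lit 172)) (XT.lf (nat_lit 0) (nat_lit 19709615229) (nat_lit 76) (nat_lit 26981682961) (nat_lit 152) (nat_lit 23778950076) (nat_lit 121) (nat_lit 5) (nat_lit 122) (nat_lit 5) (nat_lit 123) (nat_lit 4) (nat_lit 483) (nat_lit 366) (nat_lit 171)))) (XT.nd (nat_lit 156) (nat_lit 76) (nat_lit 0) (XT.nd (nat_lit 78) (nat_lit 228) (nat_lit 0) (XT.lf (nat_lit 0) (nat_lit 67463052168) (nat_lit 76) (nat_lit 2755498009) (nat_lit 152) (nat_lit 1636205211) (nat_lit 121) (nat_lit 5) (nat_lit 122) (nat_lit 5) (nat_lit 123) (nat_lit 4) (nat_lit 484) (nat_lit 366) (nat_lit 170)) (XT.lf (nat_lit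 0) (nat_lit 21395941816) (nat_lit 228) (nat_lit 29466518468) (nat_lit 76) (nat_lit 22393085070) (nat_lit 118) (nat_lit 5) (nat_lit 121) (nat_lit 5) (nat_lit 119) (nat_lit 4) (nat_lit 485) (nat_lit 366) (nat_lit 169))) (XT.nd (nat_lit 78) (nat_lit 0) (nat_lit 0) (XT.lf (nat_lit 0) (nat_lit 19128993845) (nat_lit 76) (nat_lit 26208727622) (nat_lit 152) (nat_lit 29352604920) (nat_lit 117) (nat_lit 5) (nat_lit 118) (nat_lit 5) (nat_lit 119) (nat_lit 4) (nat_lit 486) (nat_lit 366) (nat_lit 168)) (XT.lf (nat_lit 0) (nat_lit 69777953612) (nat_lit 76) (nat_lit 513007579) (nat_lit 152) (nat_lit 5868393459) (nat_lit 117) (nat_lit 5) (nat_lit 118) (nat_lit 5) (nat_lit 119) (nat_lit 4) (nat_lit 487) (nat_lit 366) (nat_lit 167))))) (XT.nd (nat_lit 43758) (nat_lit 0) (nat_lit 21128) (XT.nd (nat_lit 156) (nat_lit 0) (nat_lit 0) (XT.nd (nat_lit 78) (nat_lit 76) (nat_lit 0) (XT.lf (nat_lit 0) (nat_lit 18646302531) (nat_lit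 152) (nat_lit 32942798404) (nat_lit 76) (nat_lit 26057566014) (nat_lit 115) (nat_lit 5) (nat_lit 117) (nat_lit 5) (nat_lit 116) (nat_lit 4) (nat_lit 488) (nat_lit 366) (nat_lit 166)) (XT.lf (nat_lit 0) (nat_lit 18566014722) (nat_lit 76) (nat_lit 25456844918) (nat_lit 152) (nat_lit 35146664815) (nat_lit 114) (nat_lit 5) (nat_lit 115) (nat_lit 5) (nat_lit 116) (nat_lit 4) (nat_lit 489) (nat_lit 366) (nat_lit 165))) (XT.nd (nat_lit 43524) (nat_lit 0) (nat_lit 22192) (XT.lf (nat_lit 0) (nat_lit 70506443983) (nat_lit 152) (nat_lit 8458327330) (nat_lit 0) (nat_lit 1762924457) (nat_lit 114) (nat_lit 5) (nat_lit 116) (nat_lit 4) (nat_lit 114) (nat_lit 4) (nat_lit 490) (nat_lit 366) (nat_lit 164)) (XT.lf (nat_lit 0) (nat_lit 3167824746) (nat_lit 1140) (nat_lit 804766530) (nat_lit 1140) (nat_lit 804766530) (nat_lit 406) (nat_lit 3) (nat_lit 421) (nat_lit 3) (nat_lit 421) (nat_lit 5) (nat_lit 367) (nat_lit 367)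 (nat_lit 286)))) (XT.nd (nat_lit 156) (nat_lit 1064) (nat_lit 0) (XT.nd (nat_lit 78) (nat_lit 0) (nat_lit 76) (XT.lf (nat_lit 76) (nat_lit 3230870670) (nat_lit 0) (nat_lit 4010403372) (nat_lit 1140) (nat_lit 2432444613) (nat_lit 407) (nat_lit 5) (nat_lit 406) (nat_lit 3) (nat_lit 421) (nat_lit 5) (nat_lit 368) (nat_lit 367) (nat_lit 285)) (XT.lf (nat_lit 0) (nat_lit 8160452864) (nat_lit 1064) (nat_lit 1563929779) (nat_lit 1140) (nat_lit 72317577) (nat_lit 407) (nat_lit 5) (nat_lit 421) (nat_lit 5) (nat_lit 422) (nat_lit 5) (nat_lit 369) (nat_lit 367) (nat_lit 284))) (XT.nd (nat_lit 78) (nat_lit 1140) (nat_lit 0) (XT.lf (nat_lit 76) (nat_lit 3472876297) (nat_lit 0) (nat_lit 5677871349) (nat_lit 1140) (nat_lit 771317368) (nat_lit 408) (nat_lit 5) (nat_lit 407) (nat_lit 5) (nat_lit 422) (nat_lit 5) (nat_lit 370) (nat_lit 367) (nat_lit 283)) (XT.lf (nat_lit 0) (nat_lit 104044290) (nat_lit 1140) (nat_lit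 1376135699) (nat_lit 1216) (nat_lit 8571371779) (nat_lit 392) (nat_lit 5) (nat_lit 407) (nat_lit 5) (nat_lit 408) (nat_lit 5) (nat_lit 371) (nat_lit 367) (nat_lit 282))))))) (XT.nd (nat_lit 1170) (nat_lit 5928) (nat_lit 0) (XT.nd (nat_lit 546) (nat_lit 2052) (nat_lit 0) (XT.nd (nat_lit 234) (nat_lit 0) (nat_lit 76) (XT.nd (nat_lit 78) (nat_lit 0) (nat_lit 0) (XT.lf (nat_lit 0) (nat_lit 1027273921) (nat_lit 1140) (nat_lit 6311178411) (nat_lit 1216) (nat_lit 2845128394) (nat_lit 393) (nat_lit 5) (nat_lit 408) (nat_lit 5) (nat_lit 409) (nat_lit 5) (nat_lit 372) (nat_lit 367) (nat_lit 281)) (XT.nd (nat_lit 78) (nat_lit 0) (nat_lit 76) (XT.lf (nat_lit 0) (nat_lit 1979381726) (nat_lit 1140) (nat_lit 1044581139) (nat_lit 1216) (nat_lit 7295572250) (nat_lit 393) (nat_lit 5) (nat_lit 408) (nat_lit 5) (nat_lit 409) (nat_lit 5) (nat_lit 373) (nat_lit 367) (nat_lit 280)) (XT.lf (nat_lit 0) (nat_lit 2990292248)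 (nat_lit 1140) (nat_lit 6023141512) (nat_lit 1216) (nat_lit 1445227189) (nat_lit 394) (nat_lit 5) (nat_lit 409) (nat_lit 5) (nat_lit 410) (nat_lit 5) (nat_lit 374) (nat_lit 367) (nat_lit 279)))) (XT.nd (nat_lit 156) (nat_lit 0) (nat_lit 76) (XT.nd (nat_lit 78) (nat_lit 0) (nat_lit 76) (XT.lf (nat_lit 0) (nat_lit 4046126342) (nat_lit 1140) (nat_lit 547701241) (nat_lit 1216) (nat_lit 6007695089) (nat_lit 394) (nat_lit 5) (nat_lit 409) (nat_lit 5) (nat_lit 410) (nat_lit 5) (nat_lit 375) (nat_lit 367) (nat_lit 278)) (XT.lf (nat_lit 0) (nat_lit 5158323724) (nat_lit 1140) (nat_lit 5572041225) (nat_lit 1216) (nat_lit 17564649) (nat_lit 395) (nat_lit 5) (nat_lit 410) (nat_lit 5) (nat_lit 411) (nat_lit 5) (nat_lit 376) (nat_lit 367) (nat_lit 277))) (XT.nd (nat_lit 78) (nat_lit 0) (nat_lit 0) (XT.lf (nat_lit 76) (nat_lit 123124686) (nat_lit 0) (nat_lit 6208425099) (nat_lit 1216) (nat_lit 4566349065) (nat_lit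 396) (nat_lit 5) (nat_lit 395) (nat_lit 5) (nat_lit 411) (nat_lit 5) (nat_lit 377) (nat_lit 367) (nat_lit 276)) (XT.lf (nat_lit 76) (nat_lit 6085949483) (nat_lit 0) (nat_lit 1486248910) (nat_lit 1216) (nat_lit 3479202012) (nat_lit 396) (nat_lit 5) (nat_lit 395) (nat_lit 5) (nat_lit 411) (nat_lit 5) (nat_lit 378) (nat_lit 367) (nat_lit 275))))) (XT.nd (nat_lit 312) (nat_lit 1140) (nat_lit 0) (XT.nd (nat_lit 156) (nat_lit 1140) (nat_lit 0) (XT.nd (nat_lit 78) (nat_lit 0) (nat_lit 0) (XT.lf (nat_lit 76) (nat_lit 987277667) (nat_lit 0) (nat_lit 7881467706) (nat_lit 1216) (nat_lit 2340201268) (nat_lit 397) (nat_lit 5) (nat_lit 396) (nat_lit 5) (nat_lit 412) (nat_lit 5) (nat_lit 379) (nat_lit 367) (nat_lit 274)) (XT.lf (nat_lit 76) (nat_lit 7187867845) (nat_lit 0) (nat_lit 3058264230) (nat_lit 1216) (nat_lit 1123828889) (nat_lit 397) (nat_lit 5) (nat_lit 396) (nat_lit 5) (nat_lit 412) (nat_lit 5) (nat_lit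 380) (nat_lit 367) (nat_lit 273))) (XT.nd (nat_lit 78) (nat_lit 0) (nat_lit 0) (XT.lf (nat_lit 0) (nat_lit 142607803) (nat_lit 1216) (nat_lit 9494258136) (nat_lit 1292) (nat_lit 1898419835) (nat_lit 381) (nat_lit 5) (nat_lit 397) (nat_lit 5) (nat_lit 398) (nat_lit 5) (nat_lit 381) (nat_lit 367) (nat_lit 272)) (XT.lf (nat_lit 0) (nat_lit 1475582195) (nat_lit 1216) (nat_lit 3227519439) (nat_lit 1292) (nat_lit 7000600910) (nat_lit 381) (nat_lit 5) (nat_lit 397) (nat_lit 5) (nat_lit 398) (nat_lit 5) (nat_lit 382) (nat_lit 367) (nat_lit 271)))) (XT.nd (nat_lit 156) (nat_lit 1216) (nat_lit 0) (XT.nd (nat_lit 78) (nat_lit 0) (nat_lit 0) (XT.lf (nat_lit 0) (nat_lit 2862840076) (nat_lit 1216) (nat_lit 8607186358) (nat_lit 76) (nat_lit 406716555) (nat_lit 382) (nat_lit 5) (nat_lit 398) (nat_lit 5) (nat_lit 383) (nat_lit 5) (nat_lit 383) (nat_lit 367) (nat_lit 270)) (XT.lf (nat_lit 0) (nat_lit 4350517217) (nat_lit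 1216) (nat_lit 2091101168) (nat_lit 76) (nat_lit 5611592217) (nat_lit 382) (nat_lit 5) (nat_lit 398) (nat_lit 5) (nat_lit 383) (nat_lit 5) (nat_lit 384) (nat_lit 367) (nat_lit 269))) (XT.nd (nat_lit 78) (nat_lit 0) (nat_lit 0) (XT.lf (nat_lit 0) (nat_lit 4694676441) (nat_lit 1216) (nat_lit 1213200461) (nat_lit 1292) (nat_lit 6326343775) (nat_lit 366) (nat_lit 5) (nat_lit 382) (nat_lit 5) (nat_lit 383) (nat_lit 5) (nat_lit 385) (nat_lit 367) (nat_lit 268)) (XT.lf (nat_lit 0) (nat_lit 7553753532) (nat_lit 1292) (nat_lit 751290853) (nat_lit 76) (nat_lit 4114362783) (nat_lit 366) (nat_lit 5) (nat_lit 383) (nat_lit 5) (nat_lit 367) (nat_lit 5) (nat_lit 386) (nat_lit 367) (nat_lit 267)))))) (XT.nd (nat_lit 624) (nat_lit 2660) (nat_lit 0) (XT.nd (nat_lit 312) (nat_lit 1140) (nat_lit 0) (XT.nd (nat_lit 156) (nat_lit 684) (nat_lit 0) (XT.nd (nat_lit 78) (nat_lit 608) (nat_lit 0) (XT.lf (nat_lit 0) (nat_lit 6334891865)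 (nat_lit 836) (nat_lit 2967959758) (nat_lit 912) (nat_lit 3305682278) (nat_lit 355) (nat_lit 5) (nat_lit 366) (nat_lit 5) (nat_lit 367) (nat_lit 5) (nat_lit 387) (nat_lit 367) (nat_lit 266)) (XT.lf (nat_lit 0) (nat_lit 819836385) (nat_lit 608) (nat_lit 10305784617) (nat_lit 684) (nat_lit 1677077483) (nat_lit 347) (nat_lit 5) (nat_lit 355) (nat_lit 5) (nat_lit 356) (nat_lit 5) (nat_lit 388) (nat_lit 367) (nat_lit 265))) (XT.nd (nat_lit 78) (nat_lit 608) (nat_lit 0) (XT.lf (nat_lit 0) (nat_lit 75279368) (nat_lit 684) (nat_lit 4794002963) (nat_lit 76) (nat_lit 8131158521) (nat_lit 346) (nat_lit 5) (nat_lit 355) (nat_lit 5) (nat_lit 347) (nat_lit 5) (nat_lit 389) (nat_lit 367) (nat_lit 264)) (XT.lf (nat_lit 0) (nat_lit 1861273822) (nat_lit 684) (nat_lit 10583041622) (nat_lit 76) (nat_lit 758858668) (nat_lit 338) (nat_lit 5) (nat_lit 347) (nat_lit 5) (nat_lit 339) (nat_lit 5) (nat_lit 390) (nat_lit 367)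 (nat_lit 263)))) (XT.nd (nat_lit 156) (nat_lit 608) (nat_lit 0) (XT.nd (nat_lit 78) (nat_lit 532) (nat_lit 0) (XT.lf (nat_lit 0) (nat_lit 3780382637) (nat_lit 684) (nat_lit 3122021973) (nat_lit 76) (nat_lit 6507198726) (nat_lit 338) (nat_lit 5) (nat_lit 347) (nat_lit 5) (nat_lit 339) (nat_lit 5) (nat_lit 391) (nat_lit 367) (nat_lit 262)) (XT.lf (nat_lit 0) (nat_lit 4636052358) (nat_lit 532) (nat_lit 1148523021) (nat_lit 608) (nat_lit 7836824737) (nat_lit 331) (nat_lit 5) (nat_lit 338) (nat_lit 5) (nat_lit 339) (nat_lit 5) (nat_lit 392) (nat_lit 367) (nat_lit 261))) (XT.nd (nat_lit 78) (nat_lit 608) (nat_lit 0) (XT.lf (nat_lit 0) (nat_lit 7909936475) (nat_lit 608) (nat_lit 1211549870) (nat_lit 76) (nat_lit 4716233177) (nat_lit 331) (nat_lit 5) (nat_lit 339) (nat_lit 5) (nat_lit 332) (nat_lit 5) (nat_lit 393) (nat_lit 367) (nat_lit 260)) (XT.lf (nat_lit 0) (nat_lit 6901708201) (nat_lit 608) (nat_lit 3258827597)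 (nat_lit 684) (nat_lit 3898148391) (nat_lit 323) (nat_lit 5) (nat_lit 331) (nat_lit 5) (nat_lit 332) (nat_lit 5) (nat_lit 394) (nat_lit 367) (nat_lit 259))))) (XT.nd (nat_lit 312) (nat_lit 1520) (nat_lit 0) (XT.nd (nat_lit 156) (nat_lit 532) (nat_lit 0) (XT.nd (nat_lit 78) (nat_lit 76) (nat_lit 0) (XT.lf (nat_lit 0) (nat_lit 972055004) (nat_lit 532) (nat_lit 11539081496) (nat_lit 608) (nat_lit 1774166794) (nat_lit 316) (nat_lit 5) (nat_lit 323) (nat_lit 5) (nat_lit 324) (nat_lit 5) (nat_lit 395) (nat_lit 367) (nat_lit 258)) (XT.lf (nat_lit 0) (nat_lit 494925124) (nat_lit 608) (nat_lit 5079346034) (nat_lit 76) (nat_lit 8941646747) (nat_lit 315) (nat_lit 5) (nat_lit 323) (nat_lit 5) (nat_lit 316) (nat_lit 5) (nat_lit 396) (nat_lit 367) (nat_lit 257))) (XT.nd (nat_lit 78) (nat_lit 0) (nat_lit 0) (XT.lf (nat_lit 0) (nat_lit 2820067501) (nat_lit 608) (nat_lit 11324330159) (nat_lit 76) (nat_lit 607817213)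 (nat_lit 308) (nat_lit 5) (nat_lit 316) (nat_lit 5) (nat_lit 309) (nat_lit 5) (nat_lit 397) (nat_lit 367) (nat_lit 256)) (XT.lf (nat_lit 0) (nat_lit 5306889690) (nat_lit 608) (nat_lit 2772569284) (nat_lit 76) (nat_lit 6913384010) (nat_lit 308) (nat_lit 5) (nat_lit 316) (nat_lit 5) (nat_lit 309) (nat_lit 5) (nat_lit 398) (nat_lit 367) (nat_lit 255)))) (XT.nd (nat_lit 156) (nat_lit 1064) (nat_lit 0) (XT.nd (nat_lit 78) (nat_lit 0) (nat_lit 0) (XT.lf (nat_lit 0) (nat_lit 6138774168) (nat_lit 456) (nat_lit 1773926268) (nat_lit 532) (nat_lit 7326657986) (nat_lit 302) (nat_lit 5) (nat_lit 308) (nat_lit 5) (nat_lit 309) (nat_lit 5) (nat_lit 399) (nat_lit 367) (nat_lit 254)) (XT.lf (nat_lit 0) (nat_lit 10655958383) (nat_lit 532) (nat_lit 180797489) (nat_lit 76) (nat_lit 4654735264) (nat_lit 302) (nat_lit 5) (nat_lit 309) (nat_lit 5) (nat_lit 303) (nat_lit 5) (nat_lit 400) (nat_lit 367) (nat_lit 253))) (XT.nd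 (nat_lit 78) (nat_lit 532) (nat_lit 0) (XT.lf (nat_lit 0) (nat_lit 9151080262) (nat_lit 532) (nat_lit 4422001281) (nat_lit 608) (nat_lit 2175359264) (nat_lit 295) (nat_lit 5) (nat_lit 302) (nat_lit 5) (nat_lit 303) (nat_lit 5) (nat_lit 401) (nat_lit 367) (nat_lit 252)) (XT.lf (nat_lit 0) (nat_lit 589692647) (nat_lit 532) (nat_lit 13247938940) (nat_lit 76) (nat_lit 2174221829) (nat_lit 288) (nat_lit 5) (nat_lit 295) (nat_lit 5) (nat_lit 289) (nat_lit 5) (nat_lit 402) (nat_lit 367) (nat_lit 251))))))))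
noncomputable def xc161 : XT := (XT.nd (nat_lit 2340) (nat_lit 4180) (nat_lit 0) (XT.nd (nat_lit 1170) (nat_lit 2736) (nat_lit 0) (XT.nd (nat_lit 546) (nat_lit 1976) (nat_lit 0) (XT.nd (nat_lit 234) (nat_lit 1292) (nat_lit 0) (XT.nd (nat_lit 78) (nat_lit 456) (nat_lit 0) (XT.lf (nat_lit 0) (nat_lit 3491405221) (nat_lit 532) (nat_lit 3822723555) (nat_lit 76) (nat_lit 8965470530) (nat_lit 288) (nat_lit 5) (nat_lit 295) (nat_lit 5) (nat_lit 289) (nat_lit 5) (nat_lit 403) (nat_lit 367) (nat_lit 250)) (XT.nd (nat_lit 78) (nat_lit 0) (nat_lit 0) (XT.lf (nat_lit 0) (nat_lit 5985700451) (nat_lit 456) (nat_lit 538773411) (nat_lit 532) (nat_lit 10029574571) (nat_lit 282) (nat_lit 5) (nat_lit 288) (nat_lit 5) (nat_lit 289) (nat_lit 5) (nat_lit 404) (nat_lit 367) (nat_lit 249)) (XT.lf (nat_lit 0) (nat_lit 9736388137) (nat_lit 532) (nat_lit 747669214) (nat_lit 76) (nat_lit 6350038074) (nat_lit 282) (nat_lit 5) (nat_lit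 289) (nat_lit 5) (nat_lit 283) (nat_lit 5) (nat_lit 405) (nat_lit 367) (nat_lit 248)))) (XT.nd (nat_lit 156) (nat_lit 456) (nat_lit 0) (XT.nd (nat_lit 78) (nat_lit 456) (nat_lit 0) (XT.lf (nat_lit 0) (nat_lit 9532236216) (nat_lit 380) (nat_lit 3596732998) (nat_lit 456) (nat_lit 3991045332) (nat_lit 277) (nat_lit 5) (nat_lit 282) (nat_lit 5) (nat_lit 283) (nat_lit 5) (nat_lit 406) (nat_lit 367) (nat_lit 247)) (XT.lf (nat_lit 0) (nat_lit 2724809461) (nat_lit 456) (nat_lit 13953480457) (nat_lit 532) (nat_lit 734572458) (nat_lit 271) (nat_lit 5) (nat_lit 277) (nat_lit 5) (nat_lit 278) (nat_lit 5) (nat_lit 407) (nat_lit 367) (nat_lit 246))) (XT.nd (nat_lit 78) (nat_lit 380) (nat_lit 0) (XT.lf (nat_lit 0) (nat_lit 2669083165) (nat_lit 532) (nat_lit 4287768110) (nat_lit 76) (nat_lit 10753870742) (nat_lit 270) (nat_lit 5) (nat_lit 277) (nat_lit 5) (nat_lit 271) (nat_lit 5) (nat_lit 408) (nat_lit 367) (nat_lit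 245)) (XT.lf (nat_lit 0) (nat_lit 6213875056) (nat_lit 456) (nat_lit 11490042499) (nat_lit 76) (nat_lit 311767979) (nat_lit 265) (nat_lit 5) (nat_lit 271) (nat_lit 5) (nat_lit 266) (nat_lit 5) (nat_lit 409) (nat_lit 367) (nat_lit 244))))) (XT.nd (nat_lit 312) (nat_lit 1140) (nat_lit 0) (XT.nd (nat_lit 156) (nat_lit 456) (nat_lit 0) (XT.nd (nat_lit 78) (nat_lit 380) (nat_lit 0) (XT.lf (nat_lit 0) (nat_lit 9965754612) (nat_lit 456) (nat_lit 662479015) (nat_lit 76) (nat_lit 7698542013) (nat_lit 265) (nat_lit 5) (nat_lit 271) (nat_lit 5) (nat_lit 266) (nat_lit 5) (nat_lit 410) (nat_lit 367) (nat_lit 243)) (XT.lf (nat_lit 0) (nat_lit 10682815117) (nat_lit 380) (nat_lit 3238548150) (nat_lit 456) (nat_lit 4723100000) (nat_lit 260) (nat_lit 5) (nat_lit 265) (nat_lit 5) (nat_lit 266) (nat_lit 5) (nat_lit 411) (nat_lit 367) (nat_lit 242))) (XT.nd (nat_lit 78) (nat_lit 76) (nat_lit 0) (XT.lf (nat_lit 0) (nat_lit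 3419488755) (nat_lit 380) (nat_lit 14646443087) (nat_lit 456) (nat_lit 903640932) (nat_lit 255) (nat_lit 5) (nat_lit 260) (nat_lit 5) (nat_lit 261) (nat_lit 5) (nat_lit 412) (nat_lit 367) (nat_lit 241)) (XT.lf (nat_lit 0) (nat_lit 3073227784) (nat_lit 456) (nat_lit 4074524376) (nat_lit 76) (nat_lit 12152750704) (nat_lit 254) (nat_lit 5) (nat_lit 260) (nat_lit 5) (nat_lit 255) (nat_lit 5) (nat_lit 413) (nat_lit 367) (nat_lit 240)))) (XT.nd (nat_lit 156) (nat_lit 456) (nat_lit 0) (XT.nd (nat_lit 78) (nat_lit 304) (nat_lit 0) (XT.lf (nat_lit 0) (nat_lit 7222300020) (nat_lit 456) (nat_lit 11770779925) (nat_lit 76) (nat_lit 645880712) (nat_lit 249) (nat_lit 5) (nat_lit 255) (nat_lit 5) (nat_lit 250) (nat_lit 5) (nat_lit 414) (nat_lit 367) (nat_lit 239)) (XT.lf (nat_lit 0) (nat_lit 183304895) (nat_lit 304) (nat_lit 11415786274) (nat_lit 380) (nat_lit 8385383613) (nat_lit 245) (nat_lit 5) (nat_lit 249) (nat_lit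 5) (nat_lit 250) (nat_lit 5) (nat_lit 415) (nat_lit 367) (nat_lit 238))) (XT.nd (nat_lit 78) (nat_lit 456) (nat_lit 0) (XT.lf (nat_lit 0) (nat_lit 12722005405) (nat_lit 304) (nat_lit 3493373859) (nat_lit 380) (nat_lit 4121729270) (nat_lit 245) (nat_lit 5) (nat_lit 249) (nat_lit 5) (nat_lit 250) (nat_lit 5) (nat_lit 416) (nat_lit 367) (nat_lit 237)) (XT.lf (nat_lit 0) (nat_lit 347651518) (nat_lit 456) (nat_lit 15727640328) (nat_lit 76) (nat_lit 4622459170) (nat_lit 239) (nat_lit 5) (nat_lit 245) (nat_lit 5) (nat_lit 240) (nat_lit 5) (nat_lit 417) (nat_lit 367) (nat_lit 236)))))) (XT.nd (nat_lit 546) (nat_lit 1444) (nat_lit 0) (XT.nd (nat_lit 234) (nat_lit 684) (nat_lit 0) (XT.nd (nat_lit 78) (nat_lit 608) (nat_lit 0) (XT.lf (nat_lit 0) (nat_lit 4970174481) (nat_lit 456) (nat_lit 3069257161) (nat_lit 76) (nat_lit 13025499752) (nat_lit 239) (nat_lit 5) (nat_lit 245) (nat_lit 5) (nat_lit 240) (nat_lit 5)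 (nat_lit 418) (nat_lit 367) (nat_lit 235)) (XT.nd (nat_lit 78) (nat_lit 304) (nat_lit 0) (XT.lf (nat_lit 0) (nat_lit 9822124805) (nat_lit 380) (nat_lit 11291454400) (nat_lit 76) (nat_lit 326825428) (nat_lit 235) (nat_lit 5) (nat_lit 240) (nat_lit 5) (nat_lit 236) (nat_lit 5) (nat_lit 419) (nat_lit 367) (nat_lit 234)) (XT.lf (nat_lit 0) (nat_lit 1943588546) (nat_lit 304) (nat_lit 12995691664) (nat_lit 380) (nat_lit 6884272461) (nat_lit 231) (nat_lit 5) (nat_lit 235) (nat_lit 5) (nat_lit 236) (nat_lit 5) (nat_lit 420) (nat_lit 367) (nat_lit 233)))) (XT.nd (nat_lit 156) (nat_lit 304) (nat_lit 0) (XT.nd (nat_lit 78) (nat_lit 380) (nat_lit 0) (XT.lf (nat_lit 0) (nat_lit 15792451011) (nat_lit 304) (nat_lit 4521733855) (nat_lit 380) (nat_lit 1900883248) (nat_lit 231) (nat_lit 5) (nat_lit 235) (nat_lit 5) (nat_lit 236) (nat_lit 5) (nat_lit 421) (nat_lit 367) (nat_lit 232)) (XT.lf (nat_lit 0) (nat_lit 3273236578)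 (nat_lit 380) (nat_lit 15116866349) (nat_lit 76) (nat_lit 4224165141) (nat_lit 226) (nat_lit 5) (nat_lit 231) (nat_lit 5) (nat_lit 227) (nat_lit 5) (nat_lit 422) (nat_lit 367) (nat_lit 231))) (XT.nd (nat_lit 78) (nat_lit 304) (nat_lit 0) (XT.lf (nat_lit 0) (nat_lit 8665140896) (nat_lit 380) (nat_lit 1135605890) (nat_lit 76) (nat_lit 13221109612) (nat_lit 226) (nat_lit 5) (nat_lit 231) (nat_lit 5) (nat_lit 227) (nat_lit 5) (nat_lit 423) (nat_lit 367) (nat_lit 230)) (XT.lf (nat_lit 0) (nat_lit 13514682812) (nat_lit 304) (nat_lit 824806803) (nat_lit 380) (nat_lit 9098562145) (nat_lit 222) (nat_lit 5) (nat_lit 226) (nat_lit 5) (nat_lit 227) (nat_lit 5) (nat_lit 424) (nat_lit 367) (nat_lit 229))))) (XT.nd (nat_lit 312) (nat_lit 608) (nat_lit 0) (XT.nd (nat_lit 156) (nat_lit 532) (nat_lit 0) (XT.nd (nat_lit 78) (nat_lit 76) (nat_lit 0) (XT.lf (nat_lit 0) (nat_lit 4758962060) (nat_lit 228) (nat_lit 15554238798)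 (nat_lit 304) (nat_lit 3549658163) (nat_lit 219) (nat_lit 5) (nat_lit 222) (nat_lit 5) (nat_lit 223) (nat_lit 5) (nat_lit 425) (nat_lit 367) (nat_lit 228)) (XT.lf (nat_lit 0) (nat_lit 2223721764) (nat_lit 304) (nat_lit 4256457080) (nat_lit 76) (nat_lit 17816599021) (nat_lit 218) (nat_lit 5) (nat_lit 222) (nat_lit 5) (nat_lit 219) (nat_lit 5) (nat_lit 426) (nat_lit 367) (nat_lit 227))) (XT.nd (nat_lit 78) (nat_lit 228) (nat_lit 0) (XT.lf (nat_lit 0) (nat_lit 8226764794) (nat_lit 380) (nat_lit 13562521383) (nat_lit 76) (nat_lit 2949539552) (nat_lit 214) (nat_lit 5) (nat_lit 219) (nat_lit 5) (nat_lit 215) (nat_lit 5) (nat_lit 427) (nat_lit 367) (nat_lit 226)) (XT.lf (nat_lit 0) (nat_lit 1925523934) (nat_lit 228) (nat_lit 12601698950) (nat_lit 304) (nat_lit 10663392434) (nat_lit 211) (nat_lit 5) (nat_lit 214) (nat_lit 5) (nat_lit 215) (nat_lit 5) (nat_lit 428) (nat_lit 367) (nat_lit 225)))) (XT.nd (nat_lit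 156) (nat_lit 228) (nat_lit 0) (XT.nd (nat_lit 78) (nat_lit 380) (nat_lit 0) (XT.lf (nat_lit 0) (nat_lit 18142445017) (nat_lit 228) (nat_lit 3002573853) (nat_lit 304) (nat_lit 4507089999) (nat_lit 211) (nat_lit 5) (nat_lit 214) (nat_lit 5) (nat_lit 215) (nat_lit 5) (nat_lit 429) (nat_lit 367) (nat_lit 224)) (XT.lf (nat_lit 0) (nat_lit 1941969419) (nat_lit 380) (nat_lit 17331624073) (nat_lit 76) (nat_lit 6849009259) (nat_lit 206) (nat_lit 5) (nat_lit 211) (nat_lit 5) (nat_lit 207) (nat_lit 5) (nat_lit 430) (nat_lit 367) (nat_lit 223))) (XT.nd (nat_lit 78) (nat_lit 228) (nat_lit 0) (XT.lf (nat_lit 0) (nat_lit 8591831150) (nat_lit 380) (nat_lit 959078812) (nat_lit 76) (nat_lit 17052025191) (nat_lit 206) (nat_lit 5) (nat_lit 211) (nat_lit 5) (nat_lit 207) (nat_lit 5) (nat_lit 431) (nat_lit 367) (nat_lit 222)) (XT.lf (nat_lit 0) (nat_lit 15594786649) (nat_lit 304) (nat_lit 10891506584) (nat_lit 76) (nat_lit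 606776355) (nat_lit 203) (nat_lit 5) (nat_lit 207) (nat_lit 5) (nat_lit 204) (nat_lit 5) (nat_lit 432) (nat_lit 367) (nat_lit 221))))))) (XT.nd (nat_lit 1170) (nat_lit 1824) (nat_lit 0) (XT.nd (nat_lit 546) (nat_lit 1064) (nat_lit 0) (XT.nd (nat_lit 234) (nat_lit 760) (nat_lit 0) (XT.nd (nat_lit 78) (nat_lit 304) (nat_lit 0) (XT.lf (nat_lit 0) (nat_lit 6314336985) (nat_lit 228) (nat_lit 16650449055) (nat_lit 304) (nat_lit 4628413360) (nat_lit 200) (nat_lit 5) (nat_lit 203) (nat_lit 5) (nat_lit 204) (nat_lit 5) (nat_lit 433) (nat_lit 367) (nat_lit 220)) (XT.nd (nat_lit 78) (nat_lit 228) (nat_lit 0) (XT.lf (nat_lit 0) (nat_lit 2502807411) (nat_lit 304) (nat_lit 3883344798) (nat_lit 76) (nat_lit 21718384608) (nat_lit 199) (nat_lit 5) (nat_lit 203) (nat_lit 5) (nat_lit 200) (nat_lit 5) (nat_lit 434) (nat_lit 367) (nat_lit 219)) (XT.lf (nat_lit 0) (nat_lit 9926129678) (nat_lit 304) (nat_lit 14414544199)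 (nat_lit 76) (nat_lit 4284029960) (nat_lit 196) (nat_lit 5) (nat_lit 200) (nat_lit 5) (nat_lit 197) (nat_lit 5) (nat_lit 435) (nat_lit 367) (nat_lit 218)))) (XT.nd (nat_lit 156) (nat_lit 532) (nat_lit 0) (XT.nd (nat_lit 78) (nat_lit 0) (nat_lit 0) (XT.lf (nat_lit 0) (nat_lit 3763614744) (nat_lit 228) (nat_lit 13939781084) (nat_lit 304) (nat_lit 11453142713) (nat_lit 193) (nat_lit 5) (nat_lit 196) (nat_lit 5) (nat_lit 197) (nat_lit 5) (nat_lit 436) (nat_lit 367) (nat_lit 217)) (XT.lf (nat_lit 0) (nat_lit 22769745802) (nat_lit 228) (nat_lit 3082129782) (nat_lit 304) (nat_lit 3848315834) (nat_lit 193) (nat_lit 5) (nat_lit 196) (nat_lit 5) (nat_lit 197) (nat_lit 5) (nat_lit 437) (nat_lit 367) (nat_lit 216))) (XT.nd (nat_lit 78) (nat_lit 228) (nat_lit 0) (XT.lf (nat_lit 0) (nat_lit 4096749742) (nat_lit 304) (nat_lit 18060571176) (nat_lit 76) (nat_lit 8095988408) (nat_lit 189) (nat_lit 5) (nat_lit 193) (nat_lit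 5) (nat_lit 190) (nat_lit 5) (nat_lit 438) (nat_lit 367) (nat_lit 215)) (XT.lf (nat_lit 0) (nat_lit 1151235694) (nat_lit 228) (nat_lit 11156379763) (nat_lit 304) (nat_lit 18511118385) (nat_lit 186) (nat_lit 5) (nat_lit 189) (nat_lit 5) (nat_lit 190) (nat_lit 5) (nat_lit 439) (nat_lit 367) (nat_lit 214))))) (XT.nd (nat_lit 312) (nat_lit 608) (nat_lit 0) (XT.nd (nat_lit 156) (nat_lit 304) (nat_lit 0) (XT.nd (nat_lit 78) (nat_lit 152) (nat_lit 0) (XT.lf (nat_lit 0) (nat_lit 20943250437) (nat_lit 304) (nat_lit 10102241190) (nat_lit 76) (nat_lit 350276169) (nat_lit 186) (nat_lit 5) (nat_lit 190) (nat_lit 5) (nat_lit 187) (nat_lit 5) (nat_lit 440) (nat_lit 367) (nat_lit 213)) (XT.lf (nat_lit 0) (nat_lit 10124726689) (nat_lit 152) (nat_lit 19913811046) (nat_lit 228) (nat_lit 1945557534) (nat_lit 184) (nat_lit 5) (nat_lit 186) (nat_lit 5) (nat_lit 187) (nat_lit 5) (nat_lit 441) (nat_lit 367) (nat_lit 212)))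 (XT.nd (nat_lit 78) (nat_lit 228) (nat_lit 0) (XT.lf (nat_lit 0) (nat_lit 6779438033) (nat_lit 228) (nat_lit 1500337198) (nat_lit 76) (nat_lit 24305456264) (nat_lit 183) (nat_lit 5) (nat_lit 186) (nat_lit 5) (nat_lit 184) (nat_lit 5) (nat_lit 442) (nat_lit 367) (nat_lit 211)) (XT.lf (nat_lit 0) (nat_lit 15948307184) (nat_lit 304) (nat_lit 13410901645) (nat_lit 76) (nat_lit 3837978266) (nat_lit 180) (nat_lit 5) (nat_lit 184) (nat_lit 5) (nat_lit 181) (nat_lit 5) (nat_lit 443) (nat_lit 367) (nat_lit 210)))) (XT.nd (nat_lit 156) (nat_lit 380) (nat_lit 0) (XT.nd (nat_lit 78) (nat_lit 76) (nat_lit 0) (XT.lf (nat_lit 0) (nat_lit 7976682186) (nat_lit 152) (nat_lit 17582585615) (nat_lit 228) (nat_lit 8263222801) (nat_lit 178) (nat_lit 5) (nat_lit 180) (nat_lit 5) (nat_lit 181) (nat_lit 5) (nat_lit 444) (nat_lit 367) (nat_lit 209)) (XT.lf (nat_lit 0) (nat_lit 1102500598) (nat_lit 228) (nat_lit 4204641524) (nat_lit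 76) (nat_lit 29155229396) (nat_lit 177) (nat_lit 5) (nat_lit 180) (nat_lit 5) (nat_lit 178) (nat_lit 5) (nat_lit 445) (nat_lit 367) (nat_lit 208))) (XT.nd (nat_lit 78) (nat_lit 152) (nat_lit 0) (XT.lf (nat_lit 0) (nat_lit 10825830036) (nat_lit 304) (nat_lit 16836635501) (nat_lit 76) (nat_lit 7449247392) (nat_lit 174) (nat_lit 5) (nat_lit 178) (nat_lit 5) (nat_lit 175) (nat_lit 5) (nat_lit 446) (nat_lit 367) (nat_lit 207)) (XT.lf (nat_lit 0) (nat_lit 5784261195) (nat_lit 152) (nat_lit 15200951650) (nat_lit 228) (nat_lit 14790991134) (nat_lit 172) (nat_lit 5) (nat_lit 174) (nat_lit 5) (nat_lit 175) (nat_lit 5) (nat_lit 447) (nat_lit 367) (nat_lit 206)))))) (XT.nd (nat_lit 624) (nat_lit 912) (nat_lit 0) (XT.nd (nat_lit 312) (nat_lit 532) (nat_lit 0) (XT.nd (nat_lit 156) (nat_lit 152) (nat_lit 0) (XT.nd (nat_lit 78) (nat_lit 228) (nat_lit 0) (XT.lf (nat_lit 0) (nat_lit 29417272246) (nat_lit 152) (nat_lit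 2195530960) (nat_lit 228) (nat_lit 4842923773) (nat_lit 172) (nat_lit 5) (nat_lit 174) (nat_lit 5) (nat_lit 175) (nat_lit 5) (nat_lit 448) (nat_lit 367) (nat_lit 205)) (XT.lf (nat_lit 0) (nat_lit 5563573028) (nat_lit 228) (nat_lit 20389697712) (nat_lit 76) (nat_lit 11192843724) (nat_lit 169) (nat_lit 5) (nat_lit 172) (nat_lit 5) (nat_lit 170) (nat_lit 5) (nat_lit 449) (nat_lit 367) (nat_lit 204))) (XT.nd (nat_lit 78) (nat_lit 0) (nat_lit 0) (XT.lf (nat_lit 0) (nat_lit 3541583831) (nat_lit 152) (nat_lit 12764472574) (nat_lit 228) (nat_lit 21546084790) (nat_lit 167) (nat_lit 5) (nat_lit 169) (nat_lit 5) (nat_lit 170) (nat_lit 5) (nat_lit 450) (nat_lit 367) (nat_lit 203)) (XT.lf (nat_lit 0) (nat_lit 27580230645) (nat_lit 228) (nat_lit 9985818379) (nat_lit 76) (nat_lit 1007017211) (nat_lit 167) (nat_lit 5) (nat_lit 170) (nat_lit 5) (nat_lit 168) (nat_lit 5) (nat_lit 451) (nat_lit 367) (nat_lit 202)))) (XT.nd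 (nat_lit 156) (nat_lit 152) (nat_lit 0) (XT.nd (nat_lit 78) (nat_lit 152) (nat_lit 0) (XT.lf (nat_lit 0) (nat_lit 148600584) (nat_lit 228) (nat_lit 24080802441) (nat_lit 76) (nat_lit 15078175783) (nat_lit 164) (nat_lit 5) (nat_lit 167) (nat_lit 5) (nat_lit 165) (nat_lit 5) (nat_lit 452) (nat_lit 367) (nat_lit 201)) (XT.lf (nat_lit 0) (nat_lit 1242578238) (nat_lit 152) (nat_lit 10268336438) (nat_lit 228) (nat_lit 28546719485) (nat_lit 162) (nat_lit 5) (nat_lit 164) (nat_lit 5) (nat_lit 165) (nat_lit 5) (nat_lit 453) (nat_lit 367) (nat_lit 200))) (XT.nd (nat_lit 78) (nat_lit 152) (nat_lit 0) (XT.lf (nat_lit 0) (nat_lit 23493024179) (nat_lit 228) (nat_lit 13056737477) (nat_lit 76) (nat_lit 4272061740) (nat_lit 162) (nat_lit 5) (nat_lit 165) (nat_lit 5) (nat_lit 163) (nat_lit 5) (nat_lit 454) (nat_lit 367) (nat_lit 199)) (XT.lf (nat_lit 0) (nat_lit 13627711817) (nat_lit 152) (nat_lit 22433556192) (nat_lit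 228) (nat_lit 5540870167) (nat_lit 160) (nat_lit 5) (nat_lit 162) (nat_lit 5) (nat_lit 163) (nat_lit 5) (nat_lit 455) (nat_lit 367) (nat_lit 198))))) (XT.nd (nat_lit 312) (nat_lit 456) (nat_lit 0) (XT.nd (nat_lit 156) (nat_lit 228) (nat_lit 0) (XT.nd (nat_lit 78) (nat_lit 152) (nat_lit 0) (XT.lf (nat_lit 0) (nat_lit 6599065087) (nat_lit 228) (nat_lit 1097207568) (nat_lit 76) (nat_lit 34703871096) (nat_lit 159) (nat_lit 5) (nat_lit 162) (nat_lit 5) (nat_lit 160) (nat_lit 5) (nat_lit 456) (nat_lit 367) (nat_lit 197)) (XT.lf (nat_lit 0) (nat_lit 19321038329) (nat_lit 228) (nat_lit 16239109214) (nat_lit 76) (nat_lit 7650419968) (nat_lit 157) (nat_lit 5) (nat_lit 160) (nat_lit 5) (nat_lit 158) (nat_lit 5) (nat_lit 457) (nat_lit 367) (nat_lit 196))) (XT.nd (nat_lit 78) (nat_lit 76) (nat_lit 0) (XT.lf (nat_lit 0) (nat_lit 12007099588) (nat_lit 152) (nat_lit 20614596895) (nat_lit 228) (nat_lit 11417696730)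 (nat_lit 155) (nat_lit 5) (nat_lit 157) (nat_lit 5) (nat_lit 158) (nat_lit 5) (nat_lit 458) (nat_lit 367) (nat_lit 195)) (XT.lf (nat_lit 0) (nat_lit 1560253433) (nat_lit 228) (nat_lit 3480543905) (nat_lit 76) (nat_lit 39847079446) (nat_lit 154) (nat_lit 5) (nat_lit 157) (nat_lit 5) (nat_lit 155) (nat_lit 5) (nat_lit 459) (nat_lit 367) (nat_lit 194)))) (XT.nd (nat_lit 156) (nat_lit 152) (nat_lit 0) (XT.nd (nat_lit 78) (nat_lit 152) (nat_lit 0) (XT.lf (nat_lit 0) (nat_lit 15054757131) (nat_lit 228) (nat_lit 19542349647) (nat_lit 76) (nat_lit 11150615703) (nat_lit 152) (nat_lit 5) (nat_lit 155) (nat_lit 5) (nat_lit 153) (nat_lit 5) (nat_lit 460) (nat_lit 367) (nat_lit 193)) (XT.lf (nat_lit 0) (nat_lit 10362540786) (nat_lit 152) (nat_lit 18770985449) (nat_lit 228) (nat_lit 17494454408) (nat_lit 150) (nat_lit 5) (nat_lit 152) (nat_lit 5) (nat_lit 153) (nat_lit 5) (nat_lit 461) (nat_lit 367) (nat_lit 192)))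 (XT.nd (nat_lit 78) (nat_lit 152) (nat_lit 0) (XT.lf (nat_lit 0) (nat_lit 41554959605) (nat_lit 152) (nat_lit 2271518330) (nat_lit 228) (nat_lit 3702414029) (nat_lit 150) (nat_lit 5) (nat_lit 152) (nat_lit 5) (nat_lit 153) (nat_lit 5) (nat_lit 462) (nat_lit 367) (nat_lit 191)) (XT.lf (nat_lit 0) (nat_lit 10684164197) (nat_lit 152) (nat_lit 22976324023) (nat_lit 76) (nat_lit 14781741386) (nat_lit 148) (nat_lit 5) (nat_lit 150) (nat_lit 5) (nat_lit 149) (nat_lit 5) (nat_lit 463) (nat_lit 367) (nat_lit 190))))))))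
noncomputable def xc162 : XT := (XT.nd (nat_lit 45864) (nat_lit 0) (nat_lit 13756) (XT.nd (nat_lit 1170) (nat_lit 1140) (nat_lit 0) (XT.nd (nat_lit 546) (nat_lit 684) (nat_lit 0) (XT.nd (nat_lit 234) (nat_lit 456) (nat_lit 0) (XT.nd (nat_lit 78) (nat_lit 152) (nat_lit 0) (XT.lf (nat_lit 0) (nat_lit 8690023700) (nat_lit 152) (nat_lit 16899453594) (nat_lit 228) (nat_lit 23787543787) (nat_lit 146) (nat_lit 5) (nat_lit 148) (nat_lit 5) (nat_lit 149) (nat_lit 5) (nat_lit 464) (nat_lit 367) (nat_lit 189)) (XT.nd (nat_lit 78) (nat_lit 152) (nat_lit 0) (XT.lf (nat_lit 0) (nat_lit 41174388870) (nat_lit 228) (nat_lit 8571404754) (nat_lit 76) (nat_lit 587089504) (nat_lit 146) (nat_lit 5) (nat_lit 149) (nat_lit 5) (nat_lit 147) (nat_lit 4) (nat_lit 465) (nat_lit 367) (nat_lit 188)) (XT.lf (nat_lit 0) (nat_lit 6198715251) (nat_lit 152) (nat_lit 26551383073) (nat_lit 76) (nat_lit 18553480480) (nat_lit 144) (nat_lit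 5) (nat_lit 146) (nat_lit 5) (nat_lit 145) (nat_lit 5) (nat_lit 466) (nat_lit 367) (nat_lit 187)))) (XT.nd (nat_lit 156) (nat_lit 304) (nat_lit 0) (XT.nd (nat_lit 78) (nat_lit 0) (nat_lit 0) (XT.lf (nat_lit 0) (nat_lit 6985408627) (nat_lit 152) (nat_lit 14996502816) (nat_lit 228) (nat_lit 30314283150) (nat_lit 142) (nat_lit 5) (nat_lit 144) (nat_lit 5) (nat_lit 145) (nat_lit 5) (nat_lit 467) (nat_lit 367) (nat_lit 186)) (XT.lf (nat_lit 0) (nat_lit 38535800574) (nat_lit 228) (nat_lit 11282034031) (nat_lit 76) (nat_lit 3491838339) (nat_lit 142) (nat_lit 5) (nat_lit 145) (nat_lit 5) (nat_lit 143) (nat_lit 4) (nat_lit 468) (nat_lit 367) (nat_lit 185))) (XT.nd (nat_lit 78) (nat_lit 152) (nat_lit 0) (XT.lf (nat_lit 0) (nat_lit 1587308314) (nat_lit 152) (nat_lit 30278400657) (nat_lit 76) (nat_lit 22476132787) (nat_lit 140) (nat_lit 5) (nat_lit 142) (nat_lit 5) (nat_lit 141) (nat_lit 5) (nat_lit 469) (nat_lit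 367) (nat_lit 184)) (XT.lf (nat_lit 0) (nat_lit 5244412015) (nat_lit 152) (nat_lit 13058400448) (nat_lit 228) (nat_lit 37092962047) (nat_lit 138) (nat_lit 5) (nat_lit 140) (nat_lit 5) (nat_lit 141) (nat_lit 5) (nat_lit 470) (nat_lit 367) (nat_lit 183))))) (XT.nd (nat_lit 312) (nat_lit 380) (nat_lit 0) (XT.nd (nat_lit 156) (nat_lit 228) (nat_lit 0) (XT.nd (nat_lit 78) (nat_lit 76) (nat_lit 0) (XT.lf (nat_lit 0) (nat_lit 35884221978) (nat_lit 228) (nat_lit 14091807175) (nat_lit 76) (nat_lit 6494362885) (nat_lit 138) (nat_lit 5) (nat_lit 141) (nat_lit 5) (nat_lit 139) (nat_lit 4) (nat_lit 471) (nat_lit 367) (nat_lit 182)) (XT.lf (nat_lit 0) (nat_lit 23366966708) (nat_lit 76) (nat_lit 30975136973) (nat_lit 152) (nat_lit 3224673512) (nat_lit 137) (nat_lit 5) (nat_lit 138) (nat_lit 5) (nat_lit 139) (nat_lit 4) (nat_lit 472) (nat_lit 367) (nat_lit 181))) (XT.nd (nat_lit 78) (nat_lit 0) (nat_lit 0) (XT.lf (nat_lit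 0) (nat_lit 3462590390) (nat_lit 152) (nat_lit 11081174222) (nat_lit 228) (nat_lit 44142898721) (nat_lit 134) (nat_lit 5) (nat_lit 136) (nat_lit 5) (nat_lit 137) (nat_lit 5) (nat_lit 473) (nat_lit 367) (nat_lit 180)) (XT.lf (nat_lit 0) (nat_lit 33214803909) (nat_lit 228) (nat_lit 17008926309) (nat_lit 76) (nat_lit 9602427191) (nat_lit 134) (nat_lit 5) (nat_lit 137) (nat_lit 5) (nat_lit 135) (nat_lit 4) (nat_lit 474) (nat_lit 367) (nat_lit 179)))) (XT.nd (nat_lit 156) (nat_lit 76) (nat_lit 0) (XT.nd (nat_lit 78) (nat_lit 228) (nat_lit 0) (XT.lf (nat_lit 0) (nat_lit 22676460539) (nat_lit 76) (nat_lit 30092489546) (nat_lit 152) (nat_lit 8221196952) (nat_lit 133) (nat_lit 5) (nat_lit 134) (nat_lit 5) (nat_lit 135) (nat_lit 4) (nat_lit 475) (nat_lit 367) (nat_lit 178)) (XT.lf (nat_lit 0) (nat_lit 1635323982) (nat_lit 152) (nat_lit 9060605309) (nat_lit 228) (nat_lit 51484501540) (nat_lit 130) (nat_lit 5)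 (nat_lit 132) (nat_lit 5) (nat_lit 133) (nat_lit 5) (nat_lit 476) (nat_lit 367) (nat_lit 177))) (XT.nd (nat_lit 78) (nat_lit 76) (nat_lit 0) (XT.lf (nat_lit 0) (nat_lit 30522492882) (nat_lit 228) (nat_lit 20042002836) (nat_lit 76) (nat_lit 12824270640) (nat_lit 130) (nat_lit 5) (nat_lit 133) (nat_lit 5) (nat_lit 131) (nat_lit 4) (nat_lit 477) (nat_lit 367) (nat_lit 176)) (XT.lf (nat_lit 0) (nat_lit 22007171840) (nat_lit 76) (nat_lit 29233371219) (nat_lit 152) (nat_lit 13383908200) (nat_lit 129) (nat_lit 5) (nat_lit 130) (nat_lit 5) (nat_lit 131) (nat_lit 4) (nat_lit 478) (nat_lit 367) (nat_lit 175)))))) (XT.nd (nat_lit 546) (nat_lit 532) (nat_lit 0) (XT.nd (nat_lit 234) (nat_lit 304) (nat_lit 0) (XT.nd (nat_lit 78) (nat_lit 228) (nat_lit 0) (XT.lf (nat_lit 0) (nat_lit 6752348053) (nat_lit 152) (nat_lit 237473838) (nat_lit 76) (nat_lit 58899462763) (nat_lit 128) (nat_lit 5) (nat_lit 130) (nat_lit 5)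 (nat_lit 129) (nat_lit 5) (nat_lit 479) (nat_lit 367) (nat_lit 174)) (XT.nd (nat_lit 78) (nat_lit 76) (nat_lit 0) (XT.lf (nat_lit 0) (nat_lit 27802019038) (nat_lit 228) (nat_lit 23200088021) (nat_lit 76) (nat_lit 16168630664) (nat_lit 126) (nat_lit 5) (nat_lit 129) (nat_lit 5) (nat_lit 127) (nat_lit 4) (nat_lit 480) (nat_lit 367) (nat_lit 173)) (XT.lf (nat_lit 0) (nat_lit 21358359334) (nat_lit 76) (nat_lit 28397339673) (nat_lit 152) (nat_lit 18726759811) (nat_lit 125) (nat_lit 5) (nat_lit 126) (nat_lit 5) (nat_lit 127) (nat_lit 4) (nat_lit 481) (nat_lit 367) (nat_lit 172)))) (XT.nd (nat_lit 156) (nat_lit 76) (nat_lit 0) (XT.nd (nat_lit 78) (nat_lit 152) (nat_lit 0) (XT.lf (nat_lit 0) (nat_lit 2717182108) (nat_lit 152) (nat_lit 2132562609) (nat_lit 76) (nat_lit 64976090526) (nat_lit 124) (nat_lit 5) (nat_lit 126) (nat_lit 5) (nat_lit 125) (nat_lit 5) (nat_lit 482) (nat_lit 367) (nat_lit 171)) (XT.lf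 (nat_lit 0) (nat_lit 25047882999) (nat_lit 228) (nat_lit 26492704939) (nat_lit 76) (nat_lit 19644767717) (nat_lit 122) (nat_lit 5) (nat_lit 125) (nat_lit 5) (nat_lit 123) (nat_lit 4) (nat_lit 483) (nat_lit 367) (nat_lit 170))) (XT.nd (nat_lit 78) (nat_lit 0) (nat_lit 0) (XT.lf (nat_lit 0) (nat_lit 20729317082) (nat_lit 76) (nat_lit 27583938377) (nat_lit 152) (nat_lit 24264463705) (nat_lit 121) (nat_lit 5) (nat_lit 122) (nat_lit 5) (nat_lit 123) (nat_lit 4) (nat_lit 484) (nat_lit 367) (nat_lit 169)) (XT.lf (nat_lit 0) (nat_lit 69902879069) (nat_lit 76) (nat_lit 2637002684) (nat_lit 152) (nat_lit 1464073044) (nat_lit 121) (nat_lit 5) (nat_lit 122) (nat_lit 5) (nat_lit 123) (nat_lit 4) (nat_lit 485) (nat_lit 367) (nat_lit 168))))) (XT.nd (nat_lit 312) (nat_lit 76) (nat_lit 0) (XT.nd (nat_lit 156) (nat_lit 152) (nat_lit 0) (XT.nd (nat_lit 78) (nat_lit 76) (nat_lit 0) (XT.lf (nat_lit 0) (nat_lit 22254341622)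 (nat_lit 228) (nat_lit 29929881915) (nat_lit 76) (nat_lit 23262492531) (nat_lit 118) (nat_lit 5) (nat_lit 121) (nat_lit 5) (nat_lit 119) (nat_lit 4) (nat_lit 486) (nat_lit 367) (nat_lit 167)) (XT.lf (nat_lit 0) (nat_lit 20119371923) (nat_lit 76) (nat_lit 26792700019) (nat_lit 152) (nat_lit 30012537671) (nat_lit 117) (nat_lit 5) (nat_lit 118) (nat_lit 5) (nat_lit 119) (nat_lit 4) (nat_lit 487) (nat_lit 367) (nat_lit 166))) (XT.nd (nat_lit 78) (nat_lit 152) (nat_lit 0) (XT.lf (nat_lit 0) (nat_lit 72275669175) (nat_lit 76) (nat_lit 332000300) (nat_lit 152) (nat_lit 5830226432) (nat_lit 117) (nat_lit 5) (nat_lit 118) (nat_lit 5) (nat_lit 119) (nat_lit 4) (nat_lit 488) (nat_lit 367) (nat_lit 165)) (XT.lf (nat_lit 0) (nat_lit 19415392628) (nat_lit 152) (nat_lit 33522187592) (nat_lit 76) (nat_lit 27032195707) (nat_lit 115) (nat_lit 5) (nat_lit 117) (nat_lit 5) (nat_lit 116) (nat_lit 4) (nat_lit 489) (nat_lit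 367) (nat_lit 164)))) (XT.nd (nat_lit 43680) (nat_lit 0) (nat_lit 22192) (XT.nd (nat_lit 43602) (nat_lit 0) (nat_lit 22192) (XT.lf (nat_lit 0) (nat_lit 19527881156) (nat_lit 76) (nat_lit 26023149509) (nat_lit 152) (nat_lit 35987354966) (nat_lit 114) (nat_lit 5) (nat_lit 115) (nat_lit 5) (nat_lit 116) (nat_lit 4) (nat_lit 490) (nat_lit 367) (nat_lit 163)) (XT.lf (nat_lit 0) (nat_lit 4034898845) (nat_lit 1140) (nat_lit 431309258) (nat_lit 1140) (nat_lit 431309258) (nat_lit 406) (nat_lit 3) (nat_lit 421) (nat_lit 3) (nat_lit 421) (nat_lit 5) (nat_lit 368) (nat_lit 368) (nat_lit 284))) (XT.nd (nat_lit 78) (nat_lit 0) (nat_lit 0) (XT.lf (nat_lit 76) (nat_lit 4115201243) (nat_lit 0) (nat_lit 4849985579) (nat_lit 1140) (nat_lit 953543155) (nat_lit 407) (nat_lit 5) (nat_lit 406) (nat_lit 3) (nat_lit 421) (nat_lit 5) (nat_lit 369) (nat_lit 368) (nat_lit 283)) (XT.lf (nat_lit 76) (nat_lit 9244976072) (nat_lit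 0) (nat_lit 622350947) (nat_lit 1140) (nat_lit 179412390) (nat_lit 407) (nat_lit 5) (nat_lit 406) (nat_lit 3) (nat_lit 421) (nat_lit 5) (nat_lit 370) (nat_lit 368) (nat_lit 282))))))) (XT.nd (nat_lit 1170) (nat_lit 6536) (nat_lit 0) (XT.nd (nat_lit 546) (nat_lit 836) (nat_lit 0) (XT.nd (nat_lit 234) (nat_lit 0) (nat_lit 76) (XT.nd (nat_lit 78) (nat_lit 0) (nat_lit 0) (XT.lf (nat_lit 0) (nat_lit 656545568) (nat_lit 1140) (nat_lit 5799382412) (nat_lit 1216) (nat_lit 3720963096) (nat_lit 392) (nat_lit 5) (nat_lit 407) (nat_lit 5) (nat_lit 408) (nat_lit 5) (nat_lit 371) (nat_lit 368) (nat_lit 281)) (XT.nd (nat_lit 78) (nat_lit 0) (nat_lit 76) (XT.lf (nat_lit 0) (nat_lit 1500854689) (nat_lit 1140) (nat_lit 606113788) (nat_lit 1216) (nat_lit 8204319172) (nat_lit 392) (nat_lit 5) (nat_lit 407) (nat_lit 5) (nat_lit 408) (nat_lit 5) (nat_lit 372) (nat_lit 368) (nat_lit 280)) (XT.lf (nat_lit 0) (nat_lit 2413551925)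 (nat_lit 1140) (nat_lit 5650978498) (nat_lit 1216) (nat_lit 2383893931) (nat_lit 393) (nat_lit 5) (nat_lit 408) (nat_lit 5) (nat_lit 409) (nat_lit 5) (nat_lit 373) (nat_lit 368) (nat_lit 279)))) (XT.nd (nat_lit 156) (nat_lit 0) (nat_lit 76) (XT.nd (nat_lit 78) (nat_lit 0) (nat_lit 76) (XT.lf (nat_lit 0) (nat_lit 3354743553) (nat_lit 1140) (nat_lit 251127053) (nat_lit 1216) (nat_lit 6983771150) (nat_lit 393) (nat_lit 5) (nat_lit 408) (nat_lit 5) (nat_lit 409) (nat_lit 5) (nat_lit 374) (nat_lit 368) (nat_lit 278)) (XT.lf (nat_lit 0) (nat_lit 4360996181) (nat_lit 1140) (nat_lit 5344059028) (nat_lit 1216) (nat_lit 1028935715) (nat_lit 394) (nat_lit 5) (nat_lit 409) (nat_lit 5) (nat_lit 410) (nat_lit 5) (nat_lit 375) (nat_lit 368) (nat_lit 277))) (XT.nd (nat_lit 78) (nat_lit 0) (nat_lit 0) (XT.lf (nat_lit 76) (nat_lit 275987928) (nat_lit 0) (nat_lit 5137859794) (nat_lit 1216) (nat_lit 5468330502) (nat_lit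 395) (nat_lit 5) (nat_lit 394) (nat_lit 5) (nat_lit 410) (nat_lit 5) (nat_lit 376) (nat_lit 368) (nat_lit 276)) (XT.lf (nat_lit 76) (nat_lit 6157898731) (nat_lit 0) (nat_lit 370403453) (nat_lit 1216) (nat_lit 4505608441) (nat_lit 395) (nat_lit 5) (nat_lit 394) (nat_lit 5) (nat_lit 410) (nat_lit 5) (nat_lit 377) (nat_lit 368) (nat_lit 275))))) (XT.nd (nat_lit 312) (nat_lit 1064) (nat_lit 0) (XT.nd (nat_lit 156) (nat_lit 0) (nat_lit 76) (XT.nd (nat_lit 78) (nat_lit 0) (nat_lit 0) (XT.lf (nat_lit 76) (nat_lit 985071979) (nat_lit 0) (nat_lit 6721051254) (nat_lit 1216) (nat_lit 3483173774) (nat_lit 396) (nat_lit 5) (nat_lit 395) (nat_lit 5) (nat_lit 411) (nat_lit 5) (nat_lit 378) (nat_lit 368) (nat_lit 274)) (XT.lf (nat_lit 76) (nat_lit 7101783844) (nat_lit 0) (nat_lit 1847703758) (nat_lit 1216) (nat_lit 2398951118) (nat_lit 396) (nat_lit 5) (nat_lit 395) (nat_lit 5) (nat_lit 411) (nat_lit 5) (nat_lit 379)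 (nat_lit 368) (nat_lit 273))) (XT.nd (nat_lit 78) (nat_lit 0) (nat_lit 0) (XT.lf (nat_lit 76) (nat_lit 1879164185) (nat_lit 0) (nat_lit 8377599513) (nat_lit 1216) (nat_lit 1254792663) (nat_lit 397) (nat_lit 5) (nat_lit 396) (nat_lit 5) (nat_lit 412) (nat_lit 5) (nat_lit 380) (nat_lit 368) (nat_lit 272)) (XT.lf (nat_lit 76) (nat_lit 8240657461) (nat_lit 0) (nat_lit 3402136210) (nat_lit 1216) (nat_lit 35587793) (nat_lit 397) (nat_lit 5) (nat_lit 396) (nat_lit 5) (nat_lit 412) (nat_lit 5) (nat_lit 381) (nat_lit 368) (nat_lit 271)))) (XT.nd (nat_lit 156) (nat_lit 0) (nat_lit 76) (XT.nd (nat_lit 78) (nat_lit 0) (nat_lit 0) (XT.lf (nat_lit 0) (nat_lit 1220916316) (nat_lit 1216) (nat_lit 8894006615) (nat_lit 1292) (nat_lit 1734200507) (nat_lit 381) (nat_lit 5) (nat_lit 397) (nat_lit 5) (nat_lit 398) (nat_lit 5) (nat_lit 382) (nat_lit 368) (nat_lit 270)) (XT.lf (nat_lit 0) (nat_lit 2562597505) (nat_lit 1216)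 (nat_lit 2465044765) (nat_lit 1292) (nat_lit 6995888915) (nat_lit 381) (nat_lit 5) (nat_lit 397) (nat_lit 5) (nat_lit 398) (nat_lit 5) (nat_lit 383) (nat_lit 368) (nat_lit 269))) (XT.nd (nat_lit 78) (nat_lit 0) (nat_lit 0) (XT.lf (nat_lit 0) (nat_lit 3967649897) (nat_lit 1216) (nat_lit 7982278466) (nat_lit 76) (nat_lit 252549177) (nat_lit 382) (nat_lit 5) (nat_lit 398) (nat_lit 5) (nat_lit 383) (nat_lit 5) (nat_lit 384) (nat_lit 368) (nat_lit 268)) (XT.lf (nat_lit 0) (nat_lit 5470279936) (nat_lit 1216) (nat_lit 1296432764) (nat_lit 76) (nat_lit 5618416804) (nat_lit 382) (nat_lit 5) (nat_lit 398) (nat_lit 5) (nat_lit 383) (nat_lit 5) (nat_lit 385) (nat_lit 368) (nat_lit 267)))))) (XT.nd (nat_lit 624) (nat_lit 2736) (nat_lit 0) (XT.nd (nat_lit 312) (nat_lit 1216) (nat_lit 0) (XT.nd (nat_lit 156) (nat_lit 608) (nat_lit 0) (XT.nd (nat_lit 78) (nat_lit 836) (nat_lit 0) (XT.lf (nat_lit 0) (nat_lit 5684512277)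 (nat_lit 1216) (nat_lit 1369196173) (nat_lit 1292) (nat_lit 5518480989) (nat_lit 366) (nat_lit 5) (nat_lit 382) (nat_lit 5) (nat_lit 383) (nat_lit 5) (nat_lit 386) (nat_lit 368) (nat_lit 266)) (XT.lf (nat_lit 0) (nat_lit 81353122) (nat_lit 836) (nat_lit 8639062581) (nat_lit 912) (nat_lit 4043372193) (nat_lit 355) (nat_lit 5) (nat_lit 366) (nat_lit 5) (nat_lit 367) (nat_lit 5) (nat_lit 387) (nat_lit 368) (nat_lit 265))) (XT.nd (nat_lit 78) (nat_lit 608) (nat_lit 0) (XT.lf (nat_lit 0) (nat_lit 7370165250) (nat_lit 836) (nat_lit 3131807000) (nat_lit 912) (nat_lit 2457216616) (nat_lit 355) (nat_lit 5) (nat_lit 366) (nat_lit 5) (nat_lit 367) (nat_lit 5) (nat_lit 388) (nat_lit 368) (nat_lit 264)) (XT.lf (nat_lit 0) (nat_lit 1709414078) (nat_lit 608) (nat_lit 10650830075) (nat_lit 684) (nat_lit 799509649) (nat_lit 347) (nat_lit 5) (nat_lit 355) (nat_lit 5) (nat_lit 356) (nat_lit 5) (nat_lit 389) (nat_lit 368)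 (nat_lit 263)))) (XT.nd (nat_lit 156) (nat_lit 532) (nat_lit 0) (XT.nd (nat_lit 78) (nat_lit 608) (nat_lit 0) (XT.lf (nat_lit 0) (nat_lit 960813354) (nat_lit 684) (nat_lit 4080455202) (nat_lit 76) (nat_lit 8322687253) (nat_lit 346) (nat_lit 5) (nat_lit 355) (nat_lit 5) (nat_lit 347) (nat_lit 5) (nat_lit 390) (nat_lit 368) (nat_lit 262)) (XT.lf (nat_lit 0) (nat_lit 2782660925) (nat_lit 684) (nat_lit 10025438304) (nat_lit 76) (nat_lit 765203640) (nat_lit 338) (nat_lit 5) (nat_lit 347) (nat_lit 5) (nat_lit 339) (nat_lit 5) (nat_lit 391) (nat_lit 368) (nat_lit 261))) (XT.nd (nat_lit 78) (nat_lit 532) (nat_lit 0) (XT.lf (nat_lit 0) (nat_lit 4734132843) (nat_lit 684) (nat_lit 2366076256) (nat_lit 76) (nat_lit 6686472175) (nat_lit 338) (nat_lit 5) (nat_lit 347) (nat_lit 5) (nat_lit 339) (nat_lit 5) (nat_lit 392) (nat_lit 368) (nat_lit 260)) (XT.lf (nat_lit 0) (nat_lit 5616410830) (nat_lit 532) (nat_lit 1165651519)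 (nat_lit 608) (nat_lit 7223261278) (nat_lit 331) (nat_lit 5) (nat_lit 338) (nat_lit 5) (nat_lit 339) (nat_lit 5) (nat_lit 393) (nat_lit 368) (nat_lit 259))))) (XT.nd (nat_lit 312) (nat_lit 1520) (nat_lit 0) (XT.nd (nat_lit 156) (nat_lit 608) (nat_lit 0) (XT.nd (nat_lit 78) (nat_lit 608) (nat_lit 0) (XT.lf (nat_lit 0) (nat_lit 8947347452) (nat_lit 608) (nat_lit 407285848) (nat_lit 76) (nat_lit 4874214422) (nat_lit 331) (nat_lit 5) (nat_lit 339) (nat_lit 5) (nat_lit 332) (nat_lit 5) (nat_lit 394) (nat_lit 368) (nat_lit 258)) (XT.lf (nat_lit 0) (nat_lit 7941128685) (nat_lit 608) (nat_lit 3309033052) (nat_lit 684) (nat_lit 3206738681) (nat_lit 323) (nat_lit 5) (nat_lit 331) (nat_lit 5) (nat_lit 332) (nat_lit 5) (nat_lit 395) (nat_lit 368) (nat_lit 257))) (XT.nd (nat_lit 78) (nat_lit 76) (nat_lit 0) (XT.lf (nat_lit 0) (nat_lit 1848286191) (nat_lit 532) (nat_lit 11808722135) (nat_lit 608) (nat_lit 1033737935)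 (nat_lit 316) (nat_lit 5) (nat_lit 323) (nat_lit 5) (nat_lit 324) (nat_lit 5) (nat_lit 396) (nat_lit 368) (nat_lit 256)) (XT.lf (nat_lit 0) (nat_lit 1265274642) (nat_lit 608) (nat_lit 4394292840) (nat_lit 76) (nat_lit 9269162907) (nat_lit 315) (nat_lit 5) (nat_lit 323) (nat_lit 5) (nat_lit 316) (nat_lit 5) (nat_lit 397) (nat_lit 368) (nat_lit 255)))) (XT.nd (nat_lit 156) (nat_lit 988) (nat_lit 0) (XT.nd (nat_lit 78) (nat_lit 0) (nat_lit 0) (XT.lf (nat_lit 0) (nat_lit 3646980948) (nat_lit 608) (nat_lit 10813436146) (nat_lit 76) (nat_lit 712094883) (nat_lit 308) (nat_lit 5) (nat_lit 316) (nat_lit 5) (nat_lit 309) (nat_lit 5) (nat_lit 398) (nat_lit 368) (nat_lit 254)) (XT.lf (nat_lit 0) (nat_lit 6186787082) (nat_lit 608) (nat_lit 2029897899) (nat_lit 76) (nat_lit 7204322572) (nat_lit 308) (nat_lit 5) (nat_lit 316) (nat_lit 5) (nat_lit 309) (nat_lit 5) (nat_lit 399) (nat_lit 368) (nat_lit 253))) (XT.nd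 (nat_lit 78) (nat_lit 532) (nat_lit 0) (XT.lf (nat_lit 0) (nat_lit 7140689304) (nat_lit 456) (nat_lit 1716952587) (nat_lit 532) (nat_lit 6817670471) (nat_lit 302) (nat_lit 5) (nat_lit 308) (nat_lit 5) (nat_lit 309) (nat_lit 5) (nat_lit 400) (nat_lit 368) (nat_lit 252)) (XT.lf (nat_lit 0) (nat_lit 639777014) (nat_lit 532) (nat_lit 11029990310) (nat_lit 608) (nat_lit 4265644641) (nat_lit 295) (nat_lit 5) (nat_lit 302) (nat_lit 5) (nat_lit 303) (nat_lit 5) (nat_lit 401) (nat_lit 368) (nat_lit 251))))))))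
noncomputable def xc163 : XT := (XT.nd (nat_lit 2340) (nat_lit 4256) (nat_lit 0) (XT.nd (nat_lit 1170) (nat_lit 2964) (nat_lit 0) (XT.nd (nat_lit 546) (nat_lit 1976) (nat_lit 0) (XT.nd (nat_lit 234) (nat_lit 1292) (nat_lit 0) (XT.nd (nat_lit 78) (nat_lit 532) (nat_lit 0) (XT.lf (nat_lit 0) (nat_lit 10231151116) (nat_lit 532) (nat_lit 4424808204) (nat_lit 608) (nat_lit 1544664153) (nat_lit 295) (nat_lit 5) (nat_lit 302) (nat_lit 5) (nat_lit 303) (nat_lit 5) (nat_lit 402) (nat_lit 368) (nat_lit 250)) (XT.nd (nat_lit 78) (nat_lit 0) (nat_lit 0) (XT.lf (nat_lit 0) (nat_lit 1279033754) (nat_lit 532) (nat_lit 12815533101) (nat_lit 76) (nat_lit 2377492654) (nat_lit 288) (nat_lit 5) (nat_lit 295) (nat_lit 5) (nat_lit 289) (nat_lit 5) (nat_lit 403) (nat_lit 368) (nat_lit 249)) (XT.lf (nat_lit 0) (nat_lit 4248235075) (nat_lit 532) (nat_lit 3131731468) (nat_lit 76) (nat_lit 9368458112) (nat_lit 288) (nat_lit 5)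 (nat_lit 295) (nat_lit 5) (nat_lit 289) (nat_lit 5) (nat_lit 404) (nat_lit 368) (nat_lit 248)))) (XT.nd (nat_lit 156) (nat_lit 456) (nat_lit 0) (XT.nd (nat_lit 78) (nat_lit 380) (nat_lit 0) (XT.lf (nat_lit 0) (nat_lit 6963046495) (nat_lit 456) (nat_lit 397925135) (nat_lit 532) (nat_lit 9670475348) (nat_lit 282) (nat_lit 5) (nat_lit 288) (nat_lit 5) (nat_lit 289) (nat_lit 5) (nat_lit 405) (nat_lit 368) (nat_lit 247)) (XT.lf (nat_lit 0) (nat_lit 22067883) (nat_lit 380) (nat_lit 10630189895) (nat_lit 456) (nat_lit 6668147170) (nat_lit 277) (nat_lit 5) (nat_lit 282) (nat_lit 5) (nat_lit 283) (nat_lit 5) (nat_lit 406) (nat_lit 368) (nat_lit 246))) (XT.nd (nat_lit 78) (nat_lit 456) (nat_lit 0) (XT.lf (nat_lit 0) (nat_lit 10602177730) (nat_lit 380) (nat_lit 3533600358) (nat_lit 456) (nat_lit 3479448702) (nat_lit 277) (nat_lit 5) (nat_lit 282) (nat_lit 5) (nat_lit 283) (nat_lit 5) (nat_lit 407) (nat_lit 368)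 (nat_lit 245)) (XT.lf (nat_lit 0) (nat_lit 3599422095) (nat_lit 456) (nat_lit 14183521440) (nat_lit 532) (nat_lit 134175564) (nat_lit 271) (nat_lit 5) (nat_lit 277) (nat_lit 5) (nat_lit 278) (nat_lit 5) (nat_lit 408) (nat_lit 368) (nat_lit 244))))) (XT.nd (nat_lit 312) (nat_lit 1140) (nat_lit 0) (XT.nd (nat_lit 156) (nat_lit 380) (nat_lit 0) (XT.nd (nat_lit 78) (nat_lit 380) (nat_lit 0) (XT.lf (nat_lit 0) (nat_lit 3341668414) (nat_lit 532) (nat_lit 3634833891) (nat_lit 76) (nat_lit 11247765990) (nat_lit 270) (nat_lit 5) (nat_lit 277) (nat_lit 5) (nat_lit 271) (nat_lit 5) (nat_lit 409) (nat_lit 368) (nat_lit 243)) (XT.lf (nat_lit 0) (nat_lit 6984823689) (nat_lit 456) (nat_lit 11045196137) (nat_lit 76) (nat_lit 508600303) (nat_lit 265) (nat_lit 5) (nat_lit 271) (nat_lit 5) (nat_lit 266) (nat_lit 5) (nat_lit 410) (nat_lit 368) (nat_lit 242))) (XT.nd (nat_lit 78) (nat_lit 0) (nat_lit 0) (XT.lf (nat_lit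 0) (nat_lit 85873417) (nat_lit 380) (nat_lit 10747186466) (nat_lit 456) (nat_lit 8026469046) (nat_lit 260) (nat_lit 5) (nat_lit 265) (nat_lit 5) (nat_lit 266) (nat_lit 5) (nat_lit 411) (nat_lit 368) (nat_lit 241)) (XT.lf (nat_lit 0) (nat_lit 11762335467) (nat_lit 380) (nat_lit 3134942846) (nat_lit 456) (nat_lit 4289770627) (nat_lit 260) (nat_lit 5) (nat_lit 265) (nat_lit 5) (nat_lit 266) (nat_lit 5) (nat_lit 412) (nat_lit 368) (nat_lit 240)))) (XT.nd (nat_lit 156) (nat_lit 684) (nat_lit 0) (XT.nd (nat_lit 78) (nat_lit 76) (nat_lit 0) (XT.lf (nat_lit 0) (nat_lit 4288340887) (nat_lit 380) (nat_lit 14870822113) (nat_lit 456) (nat_lit 362959360) (nat_lit 255) (nat_lit 5) (nat_lit 260) (nat_lit 5) (nat_lit 261) (nat_lit 5) (nat_lit 413) (nat_lit 368) (nat_lit 239)) (XT.lf (nat_lit 0) (nat_lit 3705920885) (nat_lit 456) (nat_lit 3442054172) (nat_lit 76) (nat_lit 12715328004) (nat_lit 254) (nat_lit 5) (nat_lit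 260) (nat_lit 5) (nat_lit 255) (nat_lit 5) (nat_lit 414) (nat_lit 368) (nat_lit 238))) (XT.nd (nat_lit 78) (nat_lit 304) (nat_lit 0) (XT.lf (nat_lit 0) (nat_lit 7972976514) (nat_lit 456) (nat_lit 11362708613) (nat_lit 76) (nat_lit 876424125) (nat_lit 249) (nat_lit 5) (nat_lit 255) (nat_lit 5) (nat_lit 250) (nat_lit 5) (nat_lit 415) (nat_lit 368) (nat_lit 237)) (XT.lf (nat_lit 0) (nat_lit 942536059) (nat_lit 304) (nat_lit 11530227056) (nat_lit 380) (nat_lit 8095474935) (nat_lit 245) (nat_lit 5) (nat_lit 249) (nat_lit 5) (nat_lit 250) (nat_lit 5) (nat_lit 416) (nat_lit 368) (nat_lit 236)))))) (XT.nd (nat_lit 546) (nat_lit 1520) (nat_lit 0) (XT.nd (nat_lit 234) (nat_lit 988) (nat_lit 0) (XT.nd (nat_lit 78) (nat_lit 456) (nat_lit 0) (XT.lf (nat_lit 0) (nat_lit 13835444224) (nat_lit 304) (nat_lit 3376784001) (nat_lit 380) (nat_lit 3719681938) (nat_lit 245) (nat_lit 5) (nat_lit 249) (nat_lit 5) (nat_lit 250)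 (nat_lit 5) (nat_lit 417) (nat_lit 368) (nat_lit 235)) (XT.nd (nat_lit 78) (nat_lit 0) (nat_lit 0) (XT.lf (nat_lit 0) (nat_lit 867756796) (nat_lit 456) (nat_lit 15451667404) (nat_lit 76) (nat_lit 4983969074) (nat_lit 239) (nat_lit 5) (nat_lit 245) (nat_lit 5) (nat_lit 240) (nat_lit 5) (nat_lit 418) (nat_lit 368) (nat_lit 234)) (XT.lf (nat_lit 0) (nat_lit 5614110524) (nat_lit 456) (nat_lit 2435313387) (nat_lit 76) (nat_lit 13632610501) (nat_lit 239) (nat_lit 5) (nat_lit 245) (nat_lit 5) (nat_lit 240) (nat_lit 5) (nat_lit 419) (nat_lit 368) (nat_lit 233)))) (XT.nd (nat_lit 156) (nat_lit 380) (nat_lit 0) (XT.nd (nat_lit 78) (nat_lit 304) (nat_lit 0) (XT.lf (nat_lit 0) (nat_lit 10606343391) (nat_lit 380) (nat_lit 10898900575) (nat_lit 76) (nat_lit 563686161) (nat_lit 235) (nat_lit 5) (nat_lit 240) (nat_lit 5) (nat_lit 236) (nat_lit 5) (nat_lit 420) (nat_lit 368) (nat_lit 232)) (XT.lf (nat_lit 0) (nat_lit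 2726024077) (nat_lit 304) (nat_lit 13143691263) (nat_lit 380) (nat_lit 6594076211) (nat_lit 231) (nat_lit 5) (nat_lit 235) (nat_lit 5) (nat_lit 236) (nat_lit 5) (nat_lit 421) (nat_lit 368) (nat_lit 231))) (XT.nd (nat_lit 78) (nat_lit 380) (nat_lit 0) (XT.lf (nat_lit 0) (nat_lit 16969261313) (nat_lit 304) (nat_lit 4422559510) (nat_lit 380) (nat_lit 1475653023) (nat_lit 231) (nat_lit 5) (nat_lit 235) (nat_lit 5) (nat_lit 236) (nat_lit 5) (nat_lit 422) (nat_lit 368) (nat_lit 230)) (XT.lf (nat_lit 0) (nat_lit 3839592204) (nat_lit 380) (nat_lit 14853237374) (nat_lit 76) (nat_lit 4585821776) (nat_lit 226) (nat_lit 5) (nat_lit 231) (nat_lit 5) (nat_lit 227) (nat_lit 5) (nat_lit 423) (nat_lit 368) (nat_lit 229))))) (XT.nd (nat_lit 312) (nat_lit 912) (nat_lit 0) (XT.nd (nat_lit 156) (nat_lit 304) (nat_lit 0) (XT.nd (nat_lit 78) (nat_lit 304) (nat_lit 0) (XT.lf (nat_lit 0) (nat_lit 9379617966) (nat_lit 380) (nat_lit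 473426528) (nat_lit 76) (nat_lit 13845831911) (nat_lit 226) (nat_lit 5) (nat_lit 231) (nat_lit 5) (nat_lit 227) (nat_lit 5) (nat_lit 424) (nat_lit 368) (nat_lit 228)) (XT.lf (nat_lit 0) (nat_lit 14609544879) (nat_lit 304) (nat_lit 608040880) (nat_lit 380) (nat_lit 8910170210) (nat_lit 222) (nat_lit 5) (nat_lit 226) (nat_lit 5) (nat_lit 227) (nat_lit 5) (nat_lit 425) (nat_lit 368) (nat_lit 227))) (XT.nd (nat_lit 78) (nat_lit 76) (nat_lit 0) (XT.lf (nat_lit 0) (nat_lit 5595400291) (nat_lit 228) (nat_lit 15770983983) (nat_lit 304) (nat_lit 3199046895) (nat_lit 219) (nat_lit 5) (nat_lit 222) (nat_lit 5) (nat_lit 223) (nat_lit 5) (nat_lit 426) (nat_lit 368) (nat_lit 226)) (XT.lf (nat_lit 0) (nat_lit 2725560917) (nat_lit 304) (nat_lit 3702025494) (nat_lit 76) (nat_lit 18585040964) (nat_lit 218) (nat_lit 5) (nat_lit 222) (nat_lit 5) (nat_lit 219) (nat_lit 5) (nat_lit 427) (nat_lit 368) (nat_lit 225)))) (XT.nd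 (nat_lit 156) (nat_lit 380) (nat_lit 0) (XT.nd (nat_lit 78) (nat_lit 228) (nat_lit 0) (XT.lf (nat_lit 0) (nat_lit 8904883767) (nat_lit 380) (nat_lit 13283460255) (nat_lit 76) (nat_lit 3279706998) (nat_lit 214) (nat_lit 5) (nat_lit 219) (nat_lit 5) (nat_lit 215) (nat_lit 5) (nat_lit 428) (nat_lit 368) (nat_lit 224)) (XT.lf (nat_lit 0) (nat_lit 2662501551) (nat_lit 228) (nat_lit 12725820446) (nat_lit 304) (nat_lit 10545253307) (nat_lit 211) (nat_lit 5) (nat_lit 214) (nat_lit 5) (nat_lit 215) (nat_lit 5) (nat_lit 429) (nat_lit 368) (nat_lit 223))) (XT.nd (nat_lit 78) (nat_lit 380) (nat_lit 0) (XT.lf (nat_lit 0) (nat_lit 19346147395) (nat_lit 228) (nat_lit 2846117600) (nat_lit 304) (nat_lit 4217020272) (nat_lit 211) (nat_lit 5) (nat_lit 214) (nat_lit 5) (nat_lit 215) (nat_lit 5) (nat_lit 430) (nat_lit 368) (nat_lit 222)) (XT.lf (nat_lit 0) (nat_lit 2413825693) (nat_lit 380) (nat_lit 17180458532) (nat_lit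 76) (nat_lit 7299588692) (nat_lit 206) (nat_lit 5) (nat_lit 211) (nat_lit 5) (nat_lit 207) (nat_lit 5) (nat_lit 431) (nat_lit 368) (nat_lit 221))))))) (XT.nd (nat_lit 1170) (nat_lit 2052) (nat_lit 0) (XT.nd (nat_lit 546) (nat_lit 1216) (nat_lit 0) (XT.nd (nat_lit 234) (nat_lit 532) (nat_lit 0) (XT.nd (nat_lit 78) (nat_lit 456) (nat_lit 0) (XT.lf (nat_lit 0) (nat_lit 9251136756) (nat_lit 380) (nat_lit 336283931) (nat_lit 76) (nat_lit 17801556000) (nat_lit 206) (nat_lit 5) (nat_lit 211) (nat_lit 5) (nat_lit 207) (nat_lit 5) (nat_lit 432) (nat_lit 368) (nat_lit 220)) (XT.nd (nat_lit 78) (nat_lit 228) (nat_lit 0) (XT.lf (nat_lit 0) (nat_lit 16461081846) (nat_lit 304) (nat_lit 10563585461) (nat_lit 76) (nat_lit 869240821) (nat_lit 203) (nat_lit 5) (nat_lit 207) (nat_lit 5) (nat_lit 204) (nat_lit 5) (nat_lit 433) (nat_lit 368) (nat_lit 219)) (XT.lf (nat_lit 0) (nat_lit 7152015118) (nat_lit 228) (nat_lit 16894792071)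 (nat_lit 304) (nat_lit 4362395867) (nat_lit 200) (nat_lit 5) (nat_lit 203) (nat_lit 5) (nat_lit 204) (nat_lit 5) (nat_lit 434) (nat_lit 368) (nat_lit 218)))) (XT.nd (nat_lit 156) (nat_lit 228) (nat_lit 0) (XT.nd (nat_lit 78) (nat_lit 228) (nat_lit 0) (XT.lf (nat_lit 0) (nat_lit 2963298841) (nat_lit 304) (nat_lit 3362807771) (nat_lit 76) (nat_lit 22610004093) (nat_lit 199) (nat_lit 5) (nat_lit 203) (nat_lit 5) (nat_lit 200) (nat_lit 5) (nat_lit 435) (nat_lit 368) (nat_lit 217)) (XT.lf (nat_lit 0) (nat_lit 10606567289) (nat_lit 304) (nat_lit 14207189666) (nat_lit 76) (nat_lit 4658208386) (nat_lit 196) (nat_lit 5) (nat_lit 200) (nat_lit 5) (nat_lit 197) (nat_lit 5) (nat_lit 436) (nat_lit 368) (nat_lit 216))) (XT.nd (nat_lit 78) (nat_lit 0) (nat_lit 0) (XT.lf (nat_lit 0) (nat_lit 4510041586) (nat_lit 228) (nat_lit 14102054349) (nat_lit 304) (nat_lit 11407810815) (nat_lit 193) (nat_lit 5) (nat_lit 196) (nat_lit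 5) (nat_lit 197) (nat_lit 5) (nat_lit 437) (nat_lit 368) (nat_lit 215)) (XT.lf (nat_lit 0) (nat_lit 24067904584) (nat_lit 228) (nat_lit 2926127493) (nat_lit 304) (nat_lit 3586167077) (nat_lit 193) (nat_lit 5) (nat_lit 196) (nat_lit 5) (nat_lit 197) (nat_lit 5) (nat_lit 438) (nat_lit 368) (nat_lit 214))))) (XT.nd (nat_lit 312) (nat_lit 532) (nat_lit 0) (XT.nd (nat_lit 156) (nat_lit 152) (nat_lit 0) (XT.nd (nat_lit 78) (nat_lit 228) (nat_lit 0) (XT.lf (nat_lit 0) (nat_lit 4587435727) (nat_lit 304) (nat_lit 17977507164) (nat_lit 76) (nat_lit 8584932210) (nat_lit 189) (nat_lit 5) (nat_lit 193) (nat_lit 5) (nat_lit 190) (nat_lit 5) (nat_lit 439) (nat_lit 368) (nat_lit 213)) (XT.lf (nat_lit 0) (nat_lit 1804527627) (nat_lit 228) (nat_lit 11235335496) (nat_lit 304) (nat_lit 18692542158) (nat_lit 186) (nat_lit 5) (nat_lit 189) (nat_lit 5) (nat_lit 190) (nat_lit 5) (nat_lit 440) (nat_lit 368) (nat_lit 212)))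 (XT.nd (nat_lit 78) (nat_lit 152) (nat_lit 0) (XT.lf (nat_lit 0) (nat_lit 21926380464) (nat_lit 304) (nat_lit 9796388862) (nat_lit 76) (nat_lit 604226527) (nat_lit 186) (nat_lit 5) (nat_lit 190) (nat_lit 5) (nat_lit 187) (nat_lit 5) (nat_lit 441) (nat_lit 368) (nat_lit 211)) (XT.lf (nat_lit 0) (nat_lit 11031418253) (nat_lit 152) (nat_lit 20258569122) (nat_lit 228) (nat_lit 1643121946) (nat_lit 184) (nat_lit 5) (nat_lit 186) (nat_lit 5) (nat_lit 187) (nat_lit 5) (nat_lit 442) (nat_lit 368) (nat_lit 210)))) (XT.nd (nat_lit 156) (nat_lit 228) (nat_lit 0) (XT.nd (nat_lit 78) (nat_lit 228) (nat_lit 0) (XT.lf (nat_lit 0) (nat_lit 7326279194) (nat_lit 228) (nat_lit 953123706) (nat_lit 76) (nat_lit 25273081799) (nat_lit 183) (nat_lit 5) (nat_lit 186) (nat_lit 5) (nat_lit 184) (nat_lit 5) (nat_lit 443) (nat_lit 368) (nat_lit 209)) (XT.lf (nat_lit 0) (nat_lit 16768225243) (nat_lit 304) (nat_lit 13219015908) (nat_lit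 76) (nat_lit 4195617493) (nat_lit 180) (nat_lit 5) (nat_lit 184) (nat_lit 5) (nat_lit 181) (nat_lit 5) (nat_lit 444) (nat_lit 368) (nat_lit 208))) (XT.nd (nat_lit 78) (nat_lit 76) (nat_lit 0) (XT.lf (nat_lit 0) (nat_lit 8804369823) (nat_lit 152) (nat_lit 17858855098) (nat_lit 228) (nat_lit 8163825027) (nat_lit 178) (nat_lit 5) (nat_lit 180) (nat_lit 5) (nat_lit 181) (nat_lit 5) (nat_lit 445) (nat_lit 368) (nat_lit 207)) (XT.lf (nat_lit 0) (nat_lit 1466175123) (nat_lit 228) (nat_lit 3752951511) (nat_lit 76) (nat_lit 30267198044) (nat_lit 177) (nat_lit 5) (nat_lit 180) (nat_lit 5) (nat_lit 178) (nat_lit 5) (nat_lit 446) (nat_lit 368) (nat_lit 206)))))) (XT.nd (nat_lit 624) (nat_lit 912) (nat_lit 0) (XT.nd (nat_lit 312) (nat_lit 532) (nat_lit 0) (XT.nd (nat_lit 156) (nat_lit 228) (nat_lit 0) (XT.nd (nat_lit 78) (nat_lit 152) (nat_lit 0) (XT.lf (nat_lit 0) (nat_lit 11479437086) (nat_lit 304) (nat_lit 16762137948)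 (nat_lit 76) (nat_lit 7913624319) (nat_lit 174) (nat_lit 5) (nat_lit 178) (nat_lit 5) (nat_lit 175) (nat_lit 5) (nat_lit 447) (nat_lit 368) (nat_lit 205)) (XT.lf (nat_lit 0) (nat_lit 6531703329) (nat_lit 152) (nat_lit 15407837230) (nat_lit 228) (nat_lit 14900206400) (nat_lit 172) (nat_lit 5) (nat_lit 174) (nat_lit 5) (nat_lit 175) (nat_lit 5) (nat_lit 448) (nat_lit 368) (nat_lit 204))) (XT.nd (nat_lit 78) (nat_lit 228) (nat_lit 0) (XT.lf (nat_lit 0) (nat_lit 30856988761) (nat_lit 152) (nat_lit 2019510510) (nat_lit 228) (nat_lit 4663440158) (nat_lit 172) (nat_lit 5) (nat_lit 174) (nat_lit 5) (nat_lit 175) (nat_lit 5) (nat_lit 449) (nat_lit 368) (nat_lit 203)) (XT.lf (nat_lit 0) (nat_lit 6047343813) (nat_lit 228) (nat_lit 20436282561) (nat_lit 76) (nat_lit 11767365616) (nat_lit 169) (nat_lit 5) (nat_lit 172) (nat_lit 5) (nat_lit 170) (nat_lit 5) (nat_lit 450) (nat_lit 368) (nat_lit 202)))) (XT.nd (nat_lit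 156) (nat_lit 380) (nat_lit 0) (XT.nd (nat_lit 78) (nat_lit 0) (nat_lit 0) (XT.lf (nat_lit 0) (nat_lit 4207397172) (nat_lit 152) (nat_lit 12900854371) (nat_lit 228) (nat_lit 21870063484) (nat_lit 167) (nat_lit 5) (nat_lit 169) (nat_lit 5) (nat_lit 170) (nat_lit 5) (nat_lit 451) (nat_lit 368) (nat_lit 201)) (XT.lf (nat_lit 0) (nat_lit 28713835098) (nat_lit 228) (nat_lit 9735309225) (nat_lit 76) (nat_lit 1271927974) (nat_lit 167) (nat_lit 5) (nat_lit 170) (nat_lit 5) (nat_lit 168) (nat_lit 5) (nat_lit 452) (nat_lit 368) (nat_lit 200))) (XT.nd (nat_lit 78) (nat_lit 152) (nat_lit 0) (XT.lf (nat_lit 0) (nat_lit 458568859) (nat_lit 228) (nat_lit 24252455533) (nat_lit 76) (nat_lit 15766616474) (nat_lit 164) (nat_lit 5) (nat_lit 167) (nat_lit 5) (nat_lit 165) (nat_lit 5) (nat_lit 453) (nat_lit 368) (nat_lit 199)) (XT.lf (nat_lit 0) (nat_lit 1825226851) (nat_lit 152) (nat_lit 10332869608) (nat_lit 228) (nat_lit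 29092211097) (nat_lit 162) (nat_lit 5) (nat_lit 164) (nat_lit 5) (nat_lit 165) (nat_lit 5) (nat_lit 454) (nat_lit 368) (nat_lit 198))))) (XT.nd (nat_lit 312) (nat_lit 532) (nat_lit 0) (XT.nd (nat_lit 156) (nat_lit 228) (nat_lit 0) (XT.nd (nat_lit 78) (nat_lit 152) (nat_lit 0) (XT.lf (nat_lit 0) (nat_lit 24493150027) (nat_lit 228) (nat_lit 12912433715) (nat_lit 76) (nat_lit 4632034302) (nat_lit 162) (nat_lit 5) (nat_lit 165) (nat_lit 5) (nat_lit 163) (nat_lit 5) (nat_lit 455) (nat_lit 368) (nat_lit 197)) (XT.lf (nat_lit 0) (nat_lit 14567294098) (nat_lit 152) (nat_lit 22867646982) (nat_lit 228) (nat_lit 5406506190) (nat_lit 160) (nat_lit 5) (nat_lit 162) (nat_lit 5) (nat_lit 163) (nat_lit 5) (nat_lit 456) (nat_lit 368) (nat_lit 196))) (XT.nd (nat_lit 78) (nat_lit 152) (nat_lit 0) (XT.lf (nat_lit 0) (nat_lit 7083177318) (nat_lit 228) (nat_lit 609136881) (nat_lit 76) (nat_lit 35971249656) (nat_lit 159)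 (nat_lit 5) (nat_lit 162) (nat_lit 5) (nat_lit 160) (nat_lit 5) (nat_lit 457) (nat_lit 368) (nat_lit 195)) (XT.lf (nat_lit 0) (nat_lit 20185675357) (nat_lit 228) (nat_lit 16204161176) (nat_lit 76) (nat_lit 8108497828) (nat_lit 157) (nat_lit 5) (nat_lit 160) (nat_lit 5) (nat_lit 158) (nat_lit 5) (nat_lit 458) (nat_lit 368) (nat_lit 194)))) (XT.nd (nat_lit 156) (nat_lit 304) (nat_lit 0) (XT.nd (nat_lit 78) (nat_lit 76) (nat_lit 0) (XT.lf (nat_lit 0) (nat_lit 12884315054) (nat_lit 152) (nat_lit 20997706804) (nat_lit 228) (nat_lit 11470102917) (nat_lit 155) (nat_lit 5) (nat_lit 157) (nat_lit 5) (nat_lit 158) (nat_lit 5) (nat_lit 459) (nat_lit 368) (nat_lit 193)) (XT.lf (nat_lit 0) (nat_lit 1883239032) (nat_lit 228) (nat_lit 3077519584) (nat_lit 76) (nat_lit 41265469130) (nat_lit 154) (nat_lit 5) (nat_lit 157) (nat_lit 5) (nat_lit 155) (nat_lit 5) (nat_lit 460) (nat_lit 368) (nat_lit 192))) (XT.nd (nat_lit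 78) (nat_lit 152) (nat_lit 0) (XT.lf (nat_lit 0) (nat_lit 15781569941) (nat_lit 228) (nat_lit 19620171599) (nat_lit 76) (nat_lit 11710157513) (nat_lit 152) (nat_lit 5) (nat_lit 155) (nat_lit 5) (nat_lit 153) (nat_lit 5) (nat_lit 461) (nat_lit 368) (nat_lit 191)) (XT.lf (nat_lit 0) (nat_lit 11176880758) (nat_lit 152) (nat_lit 19102646299) (nat_lit 228) (nat_lit 17739133154) (nat_lit 150) (nat_lit 5) (nat_lit 152) (nat_lit 5) (nat_lit 153) (nat_lit 5) (nat_lit 462) (nat_lit 368) (nat_lit 190))))))))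
noncomputable def xc164 : XT := (XT.nd (nat_lit 46020) (nat_lit 0) (nat_lit 13528) (XT.nd (nat_lit 1170) (nat_lit 988) (nat_lit 0) (XT.nd (nat_lit 546) (nat_lit 912) (nat_lit 0) (XT.nd (nat_lit 234) (nat_lit 304) (nat_lit 0) (XT.nd (nat_lit 78) (nat_lit 304) (nat_lit 0) (XT.lf (nat_lit 0) (nat_lit 43290408148) (nat_lit 152) (nat_lit 2114936974) (nat_lit 228) (nat_lit 3541491415) (nat_lit 150) (nat_lit 5) (nat_lit 152) (nat_lit 5) (nat_lit 153) (nat_lit 5) (nat_lit 463) (nat_lit 368) (nat_lit 189)) (XT.nd (nat_lit 78) (nat_lit 152) (nat_lit 0) (XT.lf (nat_lit 0) (nat_lit 11270481049) (nat_lit 152) (nat_lit 23170610880) (nat_lit 76) (nat_lit 15446430809) (nat_lit 148) (nat_lit 5) (nat_lit 150) (nat_lit 5) (nat_lit 149) (nat_lit 5) (nat_lit 464) (nat_lit 368) (nat_lit 188)) (XT.lf (nat_lit 0) (nat_lit 9440874306) (nat_lit 152) (nat_lit 17179049341) (nat_lit 228) (nat_lit 24230525206) (nat_lit 146) (nat_lit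 5) (nat_lit 148) (nat_lit 5) (nat_lit 149) (nat_lit 5) (nat_lit 465) (nat_lit 368) (nat_lit 187)))) (XT.nd (nat_lit 156) (nat_lit 152) (nat_lit 0) (XT.nd (nat_lit 78) (nat_lit 152) (nat_lit 0) (XT.lf (nat_lit 0) (nat_lit 42666851434) (nat_lit 228) (nat_lit 8347142076) (nat_lit 76) (nat_lit 821159185) (nat_lit 146) (nat_lit 5) (nat_lit 149) (nat_lit 5) (nat_lit 147) (nat_lit 4) (nat_lit 466) (nat_lit 368) (nat_lit 186)) (XT.lf (nat_lit 0) (nat_lit 6641515663) (nat_lit 152) (nat_lit 26866127801) (nat_lit 76) (nat_lit 19327337535) (nat_lit 144) (nat_lit 5) (nat_lit 146) (nat_lit 5) (nat_lit 145) (nat_lit 5) (nat_lit 467) (nat_lit 368) (nat_lit 185))) (XT.nd (nat_lit 78) (nat_lit 0) (nat_lit 0) (XT.lf (nat_lit 0) (nat_lit 7672044153) (nat_lit 152) (nat_lit 15223268762) (nat_lit 228) (nat_lit 30962149193) (nat_lit 142) (nat_lit 5) (nat_lit 144) (nat_lit 5) (nat_lit 145) (nat_lit 5) (nat_lit 468) (nat_lit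 368) (nat_lit 184)) (XT.lf (nat_lit 0) (nat_lit 39940504671) (nat_lit 228) (nat_lit 11152003075) (nat_lit 76) (nat_lit 3808996485) (nat_lit 142) (nat_lit 5) (nat_lit 145) (nat_lit 5) (nat_lit 143) (nat_lit 4) (nat_lit 469) (nat_lit 368) (nat_lit 183))))) (XT.nd (nat_lit 312) (nat_lit 532) (nat_lit 0) (XT.nd (nat_lit 156) (nat_lit 76) (nat_lit 0) (XT.nd (nat_lit 78) (nat_lit 152) (nat_lit 0) (XT.lf (nat_lit 0) (nat_lit 1883209407) (nat_lit 152) (nat_lit 30717912463) (nat_lit 76) (nat_lit 23363526686) (nat_lit 140) (nat_lit 5) (nat_lit 142) (nat_lit 5) (nat_lit 141) (nat_lit 5) (nat_lit 470) (nat_lit 368) (nat_lit 182)) (XT.lf (nat_lit 0) (nat_lit 5865988117) (nat_lit 152) (nat_lit 13231421648) (nat_lit 228) (nat_lit 37952872593) (nat_lit 138) (nat_lit 5) (nat_lit 140) (nat_lit 5) (nat_lit 141) (nat_lit 5) (nat_lit 471) (nat_lit 368) (nat_lit 181))) (XT.nd (nat_lit 78) (nat_lit 76) (nat_lit 0) (XT.lf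 (nat_lit 0) (nat_lit 37201152037) (nat_lit 228) (nat_lit 14058729784) (nat_lit 76) (nat_lit 6897409876) (nat_lit 138) (nat_lit 5) (nat_lit 141) (nat_lit 5) (nat_lit 139) (nat_lit 4) (nat_lit 472) (nat_lit 368) (nat_lit 180)) (XT.lf (nat_lit 0) (nat_lit 24519338379) (nat_lit 76) (nat_lit 31690768546) (nat_lit 152) (nat_lit 3076541380) (nat_lit 137) (nat_lit 5) (nat_lit 138) (nat_lit 5) (nat_lit 139) (nat_lit 4) (nat_lit 473) (nat_lit 368) (nat_lit 179)))) (XT.nd (nat_lit 156) (nat_lit 304) (nat_lit 0) (XT.nd (nat_lit 78) (nat_lit 0) (nat_lit 0) (XT.lf (nat_lit 0) (nat_lit 4018137141) (nat_lit 152) (nat_lit 11199383094) (nat_lit 228) (nat_lit 45222619716) (nat_lit 134) (nat_lit 5) (nat_lit 136) (nat_lit 5) (nat_lit 137) (nat_lit 5) (nat_lit 474) (nat_lit 368) (nat_lit 178)) (XT.lf (nat_lit 0) (nat_lit 34443774202) (nat_lit 228) (nat_lit 17075763957) (nat_lit 76) (nat_lit 10094428187) (nat_lit 134) (nat_lit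 5) (nat_lit 137) (nat_lit 5) (nat_lit 135) (nat_lit 4) (nat_lit 475) (nat_lit 368) (nat_lit 177))) (XT.nd (nat_lit 78) (nat_lit 228) (nat_lit 0) (XT.lf (nat_lit 0) (nat_lit 23795837142) (nat_lit 76) (nat_lit 30786155746) (nat_lit 152) (nat_lit 8230959330) (nat_lit 133) (nat_lit 5) (nat_lit 134) (nat_lit 5) (nat_lit 135) (nat_lit 4) (nat_lit 476) (nat_lit 368) (nat_lit 176)) (XT.lf (nat_lit 0) (nat_lit 2123738695) (nat_lit 152) (nat_lit 9122778498) (nat_lit 228) (nat_lit 52792435263) (nat_lit 130) (nat_lit 5) (nat_lit 132) (nat_lit 5) (nat_lit 133) (nat_lit 5) (nat_lit 477) (nat_lit 368) (nat_lit 175)))))) (XT.nd (nat_lit 546) (nat_lit 380) (nat_lit 0) (XT.nd (nat_lit 234) (nat_lit 304) (nat_lit 0) (XT.nd (nat_lit 78) (nat_lit 304) (nat_lit 0) (XT.lf (nat_lit 0) (nat_lit 31663143648) (nat_lit 228) (nat_lit 20211970631) (nat_lit 76) (nat_lit 13408565790) (nat_lit 130) (nat_lit 5) (nat_lit 133) (nat_lit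 5) (nat_lit 131) (nat_lit 4) (nat_lit 478) (nat_lit 368) (nat_lit 174)) (XT.nd (nat_lit 78) (nat_lit 228) (nat_lit 0) (XT.lf (nat_lit 0) (nat_lit 23094450929) (nat_lit 76) (nat_lit 29905836902) (nat_lit 152) (nat_lit 13556221111) (nat_lit 129) (nat_lit 5) (nat_lit 130) (nat_lit 5) (nat_lit 131) (nat_lit 4) (nat_lit 479) (nat_lit 368) (nat_lit 173)) (XT.lf (nat_lit 0) (nat_lit 177839751) (nat_lit 152) (nat_lit 6996974396) (nat_lit 228) (nat_lit 60684552177) (nat_lit 126) (nat_lit 5) (nat_lit 128) (nat_lit 5) (nat_lit 129) (nat_lit 5) (nat_lit 480) (nat_lit 368) (nat_lit 172)))) (XT.nd (nat_lit 156) (nat_lit 228) (nat_lit 0) (XT.nd (nat_lit 78) (nat_lit 76) (nat_lit 0) (XT.lf (nat_lit 0) (nat_lit 28853812012) (nat_lit 228) (nat_lit 23476669405) (nat_lit 76) (nat_lit 16848846465) (nat_lit 126) (nat_lit 5) (nat_lit 129) (nat_lit 5) (nat_lit 127) (nat_lit 4) (nat_lit 481) (nat_lit 368) (nat_lit 171)) (XT.lf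 (nat_lit 0) (nat_lit 22414419397) (nat_lit 76) (nat_lit 29049333469) (nat_lit 152) (nat_lit 19066718229) (nat_lit 125) (nat_lit 5) (nat_lit 126) (nat_lit 5) (nat_lit 127) (nat_lit 4) (nat_lit 482) (nat_lit 368) (nat_lit 170))) (XT.nd (nat_lit 78) (nat_lit 152) (nat_lit 0) (XT.lf (nat_lit 0) (nat_lit 3009877564) (nat_lit 152) (nat_lit 1789123695) (nat_lit 76) (nat_lit 67115273641) (nat_lit 124) (nat_lit 5) (nat_lit 126) (nat_lit 5) (nat_lit 125) (nat_lit 5) (nat_lit 483) (nat_lit 368) (nat_lit 169)) (XT.lf (nat_lit 0) (nat_lit 26010096335) (nat_lit 228) (nat_lit 26879667148) (nat_lit 76) (nat_lit 20424829537) (nat_lit 122) (nat_lit 5) (nat_lit 125) (nat_lit 5) (nat_lit 123) (nat_lit 4) (nat_lit 484) (nat_lit 368) (nat_lit 168))))) (XT.nd (nat_lit 312) (nat_lit 0) (nat_lit 0) (XT.nd (nat_lit 156) (nat_lit 304) (nat_lit 0) (XT.nd (nat_lit 78) (nat_lit 0) (nat_lit 0) (XT.lf (nat_lit 0) (nat_lit 21755017309)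 (nat_lit 76) (nat_lit 28216155300) (nat_lit 152) (nat_lit 24777622545) (nat_lit 121) (nat_lit 5) (nat_lit 122) (nat_lit 5) (nat_lit 123) (nat_lit 4) (nat_lit 485) (nat_lit 368) (nat_lit 167)) (XT.lf (nat_lit 0) (nat_lit 72392024388) (nat_lit 76) (nat_lit 2526499922) (nat_lit 152) (nat_lit 1299475749) (nat_lit 121) (nat_lit 5) (nat_lit 122) (nat_lit 5) (nat_lit 123) (nat_lit 4) (nat_lit 486) (nat_lit 368) (nat_lit 166))) (XT.nd (nat_lit 78) (nat_lit 76) (nat_lit 0) (XT.lf (nat_lit 0) (nat_lit 23126064200) (nat_lit 228) (nat_lit 30431292269) (nat_lit 76) (nat_lit 24146638311) (nat_lit 118) (nat_lit 5) (nat_lit 121) (nat_lit 5) (nat_lit 119) (nat_lit 4) (nat_lit 487) (nat_lit 368) (nat_lit 165)) (XT.lf (nat_lit 0) (nat_lit 21115552066) (nat_lit 76) (nat_lit 27405803829) (nat_lit 152) (nat_lit 30704934354) (nat_lit 117) (nat_lit 5) (nat_lit 118) (nat_lit 5) (nat_lit 119) (nat_lit 4) (nat_lit 488) (nat_lit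 368) (nat_lit 164)))) (XT.nd (nat_lit 43836) (nat_lit 0) (nat_lit 20824) (XT.nd (nat_lit 43758) (nat_lit 0) (nat_lit 21964) (XT.lf (nat_lit 0) (nat_lit 74825103313) (nat_lit 76) (nat_lit 156836823) (nat_lit 152) (nat_lit 5803211431) (nat_lit 117) (nat_lit 5) (nat_lit 118) (nat_lit 5) (nat_lit 119) (nat_lit 4) (nat_lit 489) (nat_lit 368) (nat_lit 163)) (XT.lf (nat_lit 0) (nat_lit 4883666949) (nat_lit 1140) (nat_lit 69472149) (nat_lit 1140) (nat_lit 69472149) (nat_lit 406) (nat_lit 3) (nat_lit 421) (nat_lit 3) (nat_lit 421) (nat_lit 5) (nat_lit 369) (nat_lit 369) (nat_lit 282))) (XT.nd (nat_lit 78) (nat_lit 0) (nat_lit 0) (XT.lf (nat_lit 0) (nat_lit 471262340) (nat_lit 1140) (nat_lit 5197445040) (nat_lit 1216) (nat_lit 4504840331) (nat_lit 391) (nat_lit 5) (nat_lit 406) (nat_lit 3) (nat_lit 407) (nat_lit 5) (nat_lit 370) (nat_lit 369) (nat_lit 281)) (XT.lf (nat_lit 0) (nat_lit 1211283595) (nat_lit 1140)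 (nat_lit 75740329) (nat_lit 1216) (nat_lit 9019396787) (nat_lit 391) (nat_lit 5) (nat_lit 406) (nat_lit 3) (nat_lit 407) (nat_lit 5) (nat_lit 371) (nat_lit 369) (nat_lit 280))))))) (XT.nd (nat_lit 1170) (nat_lit 6460) (nat_lit 0) (XT.nd (nat_lit 546) (nat_lit 912) (nat_lit 0) (XT.nd (nat_lit 234) (nat_lit 0) (nat_lit 76) (XT.nd (nat_lit 78) (nat_lit 0) (nat_lit 0) (XT.lf (nat_lit 0) (nat_lit 2029338119) (nat_lit 1140) (nat_lit 5185688174) (nat_lit 1216) (nat_lit 3226578630) (nat_lit 392) (nat_lit 5) (nat_lit 407) (nat_lit 5) (nat_lit 408) (nat_lit 5) (nat_lit 372) (nat_lit 369) (nat_lit 279)) (XT.nd (nat_lit 78) (nat_lit 0) (nat_lit 76) (XT.lf (nat_lit 76) (nat_lit 143231458) (nat_lit 0) (nat_lit 2717711316) (nat_lit 1216) (nat_lit 7720231632) (nat_lit 393) (nat_lit 5) (nat_lit 392) (nat_lit 5) (nat_lit 408) (nat_lit 5) (nat_lit 373) (nat_lit 369) (nat_lit 278)) (XT.lf (nat_lit 0) (nat_lit 3763609333)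 (nat_lit 1140) (nat_lit 5019739387) (nat_lit 1216) (nat_lit 1940198840) (nat_lit 393) (nat_lit 5) (nat_lit 408) (nat_lit 5) (nat_lit 409) (nat_lit 5) (nat_lit 374) (nat_lit 369) (nat_lit 277)))) (XT.nd (nat_lit 156) (nat_lit 0) (nat_lit 76) (XT.nd (nat_lit 78) (nat_lit 0) (nat_lit 76) (XT.lf (nat_lit 76) (nat_lit 529109070) (nat_lit 0) (nat_lit 4171800627) (nat_lit 1216) (nat_lit 6169055597) (nat_lit 394) (nat_lit 5) (nat_lit 393) (nat_lit 5) (nat_lit 409) (nat_lit 5) (nat_lit 375) (nat_lit 369) (nat_lit 276)) (XT.lf (nat_lit 0) (nat_lit 5699286869) (nat_lit 1140) (nat_lit 4693958770) (nat_lit 1216) (nat_lit 626541188) (nat_lit 394) (nat_lit 5) (nat_lit 409) (nat_lit 5) (nat_lit 410) (nat_lit 5) (nat_lit 376) (nat_lit 369) (nat_lit 275))) (XT.nd (nat_lit 78) (nat_lit 0) (nat_lit 0) (XT.lf (nat_lit 76) (nat_lit 1086744281) (nat_lit 0) (nat_lit 5669524812) (nat_lit 1216) (nat_lit 4416974301) (nat_lit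 395) (nat_lit 5) (nat_lit 394) (nat_lit 5) (nat_lit 410) (nat_lit 5) (nat_lit 377) (nat_lit 369) (nat_lit 274)) (XT.lf (nat_lit 76) (nat_lit 7121739299) (nat_lit 0) (nat_lit 748048783) (nat_lit 1216) (nat_lit 3460770756) (nat_lit 395) (nat_lit 5) (nat_lit 394) (nat_lit 5) (nat_lit 410) (nat_lit 5) (nat_lit 378) (nat_lit 369) (nat_lit 273))))) (XT.nd (nat_lit 312) (nat_lit 0) (nat_lit 76) (XT.nd (nat_lit 156) (nat_lit 1140) (nat_lit 0) (XT.nd (nat_lit 78) (nat_lit 0) (nat_lit 0) (XT.lf (nat_lit 76) (nat_lit 1823610426) (nat_lit 0) (nat_lit 7230321025) (nat_lit 1216) (nat_lit 2437545730) (nat_lit 396) (nat_lit 5) (nat_lit 395) (nat_lit 5) (nat_lit 411) (nat_lit 5) (nat_lit 379) (nat_lit 369) (nat_lit 272)) (XT.lf (nat_lit 76) (nat_lit 8100260939) (nat_lit 0) (nat_lit 2201812768) (nat_lit 1216) (nat_lit 1354295131) (nat_lit 396) (nat_lit 5) (nat_lit 395) (nat_lit 5) (nat_lit 411) (nat_lit 5) (nat_lit 380)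 (nat_lit 369) (nat_lit 271))) (XT.nd (nat_lit 78) (nat_lit 1216) (nat_lit 0) (XT.lf (nat_lit 76) (nat_lit 2748309578) (nat_lit 0) (nat_lit 8873708133) (nat_lit 1216) (nat_lit 203158808) (nat_lit 397) (nat_lit 5) (nat_lit 396) (nat_lit 5) (nat_lit 412) (nat_lit 5) (nat_lit 381) (nat_lit 369) (nat_lit 270)) (XT.lf (nat_lit 0) (nat_lit 1000974322) (nat_lit 1216) (nat_lit 2730769198) (nat_lit 1292) (nat_lit 8265892524) (nat_lit 380) (nat_lit 5) (nat_lit 396) (nat_lit 5) (nat_lit 397) (nat_lit 5) (nat_lit 382) (nat_lit 369) (nat_lit 269)))) (XT.nd (nat_lit 156) (nat_lit 0) (nat_lit 76) (XT.nd (nat_lit 78) (nat_lit 0) (nat_lit 0) (XT.lf (nat_lit 0) (nat_lit 2269920354) (nat_lit 1216) (nat_lit 8326554720) (nat_lit 1292) (nat_lit 1577750772) (nat_lit 381) (nat_lit 5) (nat_lit 397) (nat_lit 5) (nat_lit 398) (nat_lit 5) (nat_lit 383) (nat_lit 369) (nat_lit 268)) (XT.lf (nat_lit 0) (nat_lit 3622365283) (nat_lit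 1216) (nat_lit 1729023201) (nat_lit 1292) (nat_lit 7003361941) (nat_lit 381) (nat_lit 5) (nat_lit 397) (nat_lit 5) (nat_lit 398) (nat_lit 5) (nat_lit 384) (nat_lit 369) (nat_lit 267))) (XT.nd (nat_lit 78) (nat_lit 0) (nat_lit 0) (XT.lf (nat_lit 0) (nat_lit 5047113571) (nat_lit 1216) (nat_lit 7389318238) (nat_lit 76) (nat_lit 103307032) (nat_lit 382) (nat_lit 5) (nat_lit 398) (nat_lit 5) (nat_lit 383) (nat_lit 5) (nat_lit 385) (nat_lit 369) (nat_lit 266)) (XT.lf (nat_lit 0) (nat_lit 6566848700) (nat_lit 1216) (nat_lit 527142658) (nat_lit 76) (nat_lit 5634718220) (nat_lit 382) (nat_lit 5) (nat_lit 398) (nat_lit 5) (nat_lit 383) (nat_lit 5) (nat_lit 386) (nat_lit 369) (nat_lit 265)))))) (XT.nd (nat_lit 624) (nat_lit 2736) (nat_lit 0) (XT.nd (nat_lit 312) (nat_lit 1140) (nat_lit 0) (XT.nd (nat_lit 156) (nat_lit 684) (nat_lit 0) (XT.nd (nat_lit 78) (nat_lit 836) (nat_lit 0) (XT.lf (nat_lit 0) (nat_lit 6655307371)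 (nat_lit 1216) (nat_lit 1523006246) (nat_lit 1292) (nat_lit 4743651688) (nat_lit 366) (nat_lit 5) (nat_lit 382) (nat_lit 5) (nat_lit 383) (nat_lit 5) (nat_lit 387) (nat_lit 369) (nat_lit 264)) (XT.lf (nat_lit 0) (nat_lit 904402093) (nat_lit 836) (nat_lit 8970864021) (nat_lit 912) (nat_lit 3244638281) (nat_lit 355) (nat_lit 5) (nat_lit 366) (nat_lit 5) (nat_lit 367) (nat_lit 5) (nat_lit 388) (nat_lit 369) (nat_lit 263))) (XT.nd (nat_lit 78) (nat_lit 684) (nat_lit 0) (XT.lf (nat_lit 0) (nat_lit 8387977370) (nat_lit 836) (nat_lit 3296275348) (nat_lit 912) (nat_lit 1637695174) (nat_lit 355) (nat_lit 5) (nat_lit 366) (nat_lit 5) (nat_lit 367) (nat_lit 5) (nat_lit 389) (nat_lit 369) (nat_lit 262)) (XT.lf (nat_lit 0) (nat_lit 50123544) (nat_lit 684) (nat_lit 10953538009) (nat_lit 76) (nat_lit 2525395868) (nat_lit 346) (nat_lit 5) (nat_lit 355) (nat_lit 5) (nat_lit 347) (nat_lit 5) (nat_lit 390) (nat_lit 369)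 (nat_lit 261)))) (XT.nd (nat_lit 156) (nat_lit 532) (nat_lit 0) (XT.nd (nat_lit 78) (nat_lit 608) (nat_lit 0) (XT.lf (nat_lit 0) (nat_lit 1822209727) (nat_lit 684) (nat_lit 3394717430) (nat_lit 76) (nat_lit 8522970167) (nat_lit 346) (nat_lit 5) (nat_lit 355) (nat_lit 5) (nat_lit 347) (nat_lit 5) (nat_lit 391) (nat_lit 369) (nat_lit 260)) (XT.lf (nat_lit 0) (nat_lit 3682003594) (nat_lit 684) (nat_lit 9501340894) (nat_lit 76) (nat_lit 772681582) (nat_lit 338) (nat_lit 5) (nat_lit 347) (nat_lit 5) (nat_lit 339) (nat_lit 5) (nat_lit 392) (nat_lit 369) (nat_lit 259))) (XT.nd (nat_lit 78) (nat_lit 532) (nat_lit 0) (XT.lf (nat_lit 0) (nat_lit 5668256674) (nat_lit 684) (nat_lit 1636223049) (nat_lit 76) (nat_lit 6872038994) (nat_lit 338) (nat_lit 5) (nat_lit 347) (nat_lit 5) (nat_lit 339) (nat_lit 5) (nat_lit 393) (nat_lit 369) (nat_lit 258)) (XT.lf (nat_lit 0) (nat_lit 6577887321) (nat_lit 532) (nat_lit 1184288524)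 (nat_lit 608) (nat_lit 6640007943) (nat_lit 331) (nat_lit 5) (nat_lit 338) (nat_lit 5) (nat_lit 339) (nat_lit 5) (nat_lit 394) (nat_lit 369) (nat_lit 257))))) (XT.nd (nat_lit 312) (nat_lit 1520) (nat_lit 0) (XT.nd (nat_lit 156) (nat_lit 608) (nat_lit 0) (XT.nd (nat_lit 78) (nat_lit 0) (nat_lit 0) (XT.lf (nat_lit 0) (nat_lit 380272089) (nat_lit 608) (nat_lit 9593334324) (nat_lit 684) (nat_lit 4659371584) (nat_lit 323) (nat_lit 5) (nat_lit 331) (nat_lit 5) (nat_lit 332) (nat_lit 5) (nat_lit 395) (nat_lit 369) (nat_lit 256)) (XT.lf (nat_lit 0) (nat_lit 8963950385) (nat_lit 608) (nat_lit 3363474774) (nat_lit 684) (nat_lit 2540989515) (nat_lit 323) (nat_lit 5) (nat_lit 331) (nat_lit 5) (nat_lit 332) (nat_lit 5) (nat_lit 396) (nat_lit 369) (nat_lit 255))) (XT.nd (nat_lit 78) (nat_lit 76) (nat_lit 0) (XT.lf (nat_lit 0) (nat_lit 2702179058) (nat_lit 532) (nat_lit 12090845231) (nat_lit 608) (nat_lit 316655188)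 (nat_lit 316) (nat_lit 5) (nat_lit 323) (nat_lit 5) (nat_lit 324) (nat_lit 5) (nat_lit 397) (nat_lit 369) (nat_lit 254)) (XT.lf (nat_lit 0) (nat_lit 2015365754) (nat_lit 608) (nat_lit 3736760162) (nat_lit 76) (nat_lit 9603102398) (nat_lit 315) (nat_lit 5) (nat_lit 323) (nat_lit 5) (nat_lit 316) (nat_lit 5) (nat_lit 398) (nat_lit 369) (nat_lit 253)))) (XT.nd (nat_lit 156) (nat_lit 988) (nat_lit 0) (XT.nd (nat_lit 78) (nat_lit 0) (nat_lit 0) (XT.lf (nat_lit 0) (nat_lit 4456090086) (nat_lit 608) (nat_lit 10336044605) (nat_lit 76) (nat_lit 814561653) (nat_lit 308) (nat_lit 5) (nat_lit 316) (nat_lit 5) (nat_lit 309) (nat_lit 5) (nat_lit 399) (nat_lit 369) (nat_lit 252)) (XT.lf (nat_lit 0) (nat_lit 7051710801) (nat_lit 608) (nat_lit 1312353452) (nat_lit 76) (nat_lit 7499193923) (nat_lit 308) (nat_lit 5) (nat_lit 316) (nat_lit 5) (nat_lit 309) (nat_lit 5) (nat_lit 400) (nat_lit 369) (nat_lit 251))) (XT.nd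 (nat_lit 78) (nat_lit 532) (nat_lit 0) (XT.lf (nat_lit 0) (nat_lit 8125719589) (nat_lit 456) (nat_lit 1664595136) (nat_lit 532) (nat_lit 6335248700) (nat_lit 302) (nat_lit 5) (nat_lit 308) (nat_lit 5) (nat_lit 309) (nat_lit 5) (nat_lit 401) (nat_lit 369) (nat_lit 250)) (XT.lf (nat_lit 0) (nat_lit 1441046485) (nat_lit 532) (nat_lit 11234819033) (nat_lit 608) (nat_lit 3717928650) (nat_lit 295) (nat_lit 5) (nat_lit 302) (nat_lit 5) (nat_lit 303) (nat_lit 5) (nat_lit 402) (nat_lit 369) (nat_lit 249))))))))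
noncomputable def xc165 : XT := (XT.nd (nat_lit 2340) (nat_lit 4256) (nat_lit 0) (XT.nd (nat_lit 1170) (nat_lit 2964) (nat_lit 0) (XT.nd (nat_lit 546) (nat_lit 1900) (nat_lit 0) (XT.nd (nat_lit 234) (nat_lit 1368) (nat_lit 0) (XT.nd (nat_lit 78) (nat_lit 532) (nat_lit 0) (XT.lf (nat_lit 0) (nat_lit 11297382893) (nat_lit 532) (nat_lit 4435153434) (nat_lit 608) (nat_lit 934998903) (nat_lit 295) (nat_lit 5) (nat_lit 302) (nat_lit 5) (nat_lit 303) (nat_lit 5) (nat_lit 403) (nat_lit 369) (nat_lit 248)) (XT.nd (nat_lit 78) (nat_lit 0) (nat_lit 0) (XT.lf (nat_lit 0) (nat_lit 1950499618) (nat_lit 532) (nat_lit 12417791528) (nat_lit 76) (nat_lit 2578937303) (nat_lit 288) (nat_lit 5) (nat_lit 295) (nat_lit 5) (nat_lit 289) (nat_lit 5) (nat_lit 404) (nat_lit 369) (nat_lit 247)) (XT.lf (nat_lit 0) (nat_lit 4990337323) (nat_lit 532) (nat_lit 2466258590) (nat_lit 76) (nat_lit 9775841825) (nat_lit 288) (nat_lit 5)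 (nat_lit 295) (nat_lit 5) (nat_lit 289) (nat_lit 5) (nat_lit 405) (nat_lit 369) (nat_lit 246)))) (XT.nd (nat_lit 156) (nat_lit 532) (nat_lit 0) (XT.nd (nat_lit 78) (nat_lit 380) (nat_lit 0) (XT.lf (nat_lit 0) (nat_lit 7923917371) (nat_lit 456) (nat_lit 261864513) (nat_lit 532) (nat_lit 9338489072) (nat_lit 282) (nat_lit 5) (nat_lit 288) (nat_lit 5) (nat_lit 289) (nat_lit 5) (nat_lit 406) (nat_lit 369) (nat_lit 245)) (XT.lf (nat_lit 0) (nat_lit 783870140) (nat_lit 380) (nat_lit 10783042553) (nat_lit 456) (nat_lit 6255251789) (nat_lit 277) (nat_lit 5) (nat_lit 282) (nat_lit 5) (nat_lit 283) (nat_lit 5) (nat_lit 407) (nat_lit 369) (nat_lit 244))) (XT.nd (nat_lit 78) (nat_lit 532) (nat_lit 0) (XT.lf (nat_lit 0) (nat_lit 11659214150) (nat_lit 380) (nat_lit 3478391825) (nat_lit 456) (nat_lit 2988744982) (nat_lit 277) (nat_lit 5) (nat_lit 282) (nat_lit 5) (nat_lit 283) (nat_lit 5) (nat_lit 408) (nat_lit 369)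 (nat_lit 243)) (XT.lf (nat_lit 0) (nat_lit 439751065) (nat_lit 532) (nat_lit 13987096277) (nat_lit 76) (nat_lit 4010567532) (nat_lit 270) (nat_lit 5) (nat_lit 277) (nat_lit 5) (nat_lit 271) (nat_lit 5) (nat_lit 409) (nat_lit 369) (nat_lit 242))))) (XT.nd (nat_lit 312) (nat_lit 1140) (nat_lit 0) (XT.nd (nat_lit 156) (nat_lit 380) (nat_lit 0) (XT.nd (nat_lit 78) (nat_lit 380) (nat_lit 0) (XT.lf (nat_lit 0) (nat_lit 4000418565) (nat_lit 532) (nat_lit 3007176803) (nat_lit 76) (nat_lit 11746645973) (nat_lit 270) (nat_lit 5) (nat_lit 277) (nat_lit 5) (nat_lit 271) (nat_lit 5) (nat_lit 410) (nat_lit 369) (nat_lit 241)) (XT.lf (nat_lit 0) (nat_lit 7745346230) (nat_lit 456) (nat_lit 10632327648) (nat_lit 76) (nat_lit 700575520) (nat_lit 265) (nat_lit 5) (nat_lit 271) (nat_lit 5) (nat_lit 266) (nat_lit 5) (nat_lit 411) (nat_lit 369) (nat_lit 240))) (XT.nd (nat_lit 78) (nat_lit 0) (nat_lit 0) (XT.lf (nat_lit 0)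 (nat_lit 825377675) (nat_lit 380) (nat_lit 10874687741) (nat_lit 456) (nat_lit 7708988970) (nat_lit 260) (nat_lit 5) (nat_lit 265) (nat_lit 5) (nat_lit 266) (nat_lit 5) (nat_lit 412) (nat_lit 369) (nat_lit 239)) (XT.lf (nat_lit 0) (nat_lit 12830669663) (nat_lit 380) (nat_lit 3039753928) (nat_lit 456) (nat_lit 3876450010) (nat_lit 260) (nat_lit 5) (nat_lit 265) (nat_lit 5) (nat_lit 266) (nat_lit 5) (nat_lit 413) (nat_lit 369) (nat_lit 238)))) (XT.nd (nat_lit 156) (nat_lit 684) (nat_lit 0) (XT.nd (nat_lit 78) (nat_lit 0) (nat_lit 0) (XT.lf (nat_lit 0) (nat_lit 158200640) (nat_lit 456) (nat_lit 14954477051) (nat_lit 76) (nat_lit 4979473540) (nat_lit 254) (nat_lit 5) (nat_lit 260) (nat_lit 5) (nat_lit 255) (nat_lit 5) (nat_lit 414) (nat_lit 369) (nat_lit 237)) (XT.lf (nat_lit 0) (nat_lit 4326568083) (nat_lit 456) (nat_lit 2833933070) (nat_lit 76) (nat_lit 13283416914) (nat_lit 254) (nat_lit 5) (nat_lit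 260) (nat_lit 5) (nat_lit 255) (nat_lit 5) (nat_lit 415) (nat_lit 369) (nat_lit 236))) (XT.nd (nat_lit 78) (nat_lit 304) (nat_lit 0) (XT.lf (nat_lit 0) (nat_lit 8715519088) (nat_lit 456) (nat_lit 10986090852) (nat_lit 76) (nat_lit 1101761992) (nat_lit 249) (nat_lit 5) (nat_lit 255) (nat_lit 5) (nat_lit 250) (nat_lit 5) (nat_lit 416) (nat_lit 369) (nat_lit 235)) (XT.lf (nat_lit 0) (nat_lit 1681276856) (nat_lit 304) (nat_lit 11661191077) (nat_lit 380) (nat_lit 7827951600) (nat_lit 245) (nat_lit 5) (nat_lit 249) (nat_lit 5) (nat_lit 250) (nat_lit 5) (nat_lit 417) (nat_lit 369) (nat_lit 234)))))) (XT.nd (nat_lit 546) (nat_lit 1520) (nat_lit 0) (XT.nd (nat_lit 234) (nat_lit 988) (nat_lit 0) (XT.nd (nat_lit 78) (nat_lit 456) (nat_lit 0) (XT.lf (nat_lit 0) (nat_lit 14940279119) (nat_lit 304) (nat_lit 3269405200) (nat_lit 380) (nat_lit 3335750471) (nat_lit 245) (nat_lit 5) (nat_lit 249) (nat_lit 5) (nat_lit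 250) (nat_lit 5) (nat_lit 418) (nat_lit 369) (nat_lit 233)) (XT.nd (nat_lit 78) (nat_lit 0) (nat_lit 0) (XT.lf (nat_lit 0) (nat_lit 1374207761) (nat_lit 456) (nat_lit 15210342194) (nat_lit 76) (nat_lit 5343532570) (nat_lit 239) (nat_lit 5) (nat_lit 245) (nat_lit 5) (nat_lit 240) (nat_lit 5) (nat_lit 419) (nat_lit 369) (nat_lit 232)) (XT.lf (nat_lit 0) (nat_lit 6248959336) (nat_lit 456) (nat_lit 1824027902) (nat_lit 76) (nat_lit 14245515441) (nat_lit 239) (nat_lit 5) (nat_lit 245) (nat_lit 5) (nat_lit 240) (nat_lit 5) (nat_lit 420) (nat_lit 369) (nat_lit 231)))) (XT.nd (nat_lit 156) (nat_lit 380) (nat_lit 0) (XT.nd (nat_lit 78) (nat_lit 304) (nat_lit 0) (XT.lf (nat_lit 0) (nat_lit 11385986084) (nat_lit 380) (nat_lit 10536549601) (nat_lit 76) (nat_lit 794618774) (nat_lit 235) (nat_lit 5) (nat_lit 240) (nat_lit 5) (nat_lit 236) (nat_lit 5) (nat_lit 421) (nat_lit 369) (nat_lit 230)) (XT.lf (nat_lit 0) (nat_lit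 3490364771) (nat_lit 304) (nat_lit 13310015243) (nat_lit 380) (nat_lit 6323688087) (nat_lit 231) (nat_lit 5) (nat_lit 235) (nat_lit 5) (nat_lit 236) (nat_lit 5) (nat_lit 422) (nat_lit 369) (nat_lit 229))) (XT.nd (nat_lit 78) (nat_lit 380) (nat_lit 0) (XT.lf (nat_lit 0) (nat_lit 18141018736) (nat_lit 304) (nat_lit 4333889929) (nat_lit 380) (nat_lit 1065349399) (nat_lit 231) (nat_lit 5) (nat_lit 235) (nat_lit 5) (nat_lit 236) (nat_lit 5) (nat_lit 423) (nat_lit 369) (nat_lit 228)) (XT.lf (nat_lit 0) (nat_lit 4396064283) (nat_lit 380) (nat_lit 14622866011) (nat_lit 76) (nat_lit 4944842071) (nat_lit 226) (nat_lit 5) (nat_lit 231) (nat_lit 5) (nat_lit 227) (nat_lit 5) (nat_lit 424) (nat_lit 369) (nat_lit 227))))) (XT.nd (nat_lit 312) (nat_lit 912) (nat_lit 0) (XT.nd (nat_lit 156) (nat_lit 304) (nat_lit 0) (XT.nd (nat_lit 78) (nat_lit 0) (nat_lit 0) (XT.lf (nat_lit 0) (nat_lit 172007238) (nat_lit 304) (nat_lit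 9919084077) (nat_lit 380) (nat_lit 14305848837) (nat_lit 222) (nat_lit 5) (nat_lit 226) (nat_lit 5) (nat_lit 227) (nat_lit 5) (nat_lit 425) (nat_lit 369) (nat_lit 226)) (XT.lf (nat_lit 0) (nat_lit 15697677189) (nat_lit 304) (nat_lit 398635648) (nat_lit 380) (nat_lit 8742609826) (nat_lit 222) (nat_lit 5) (nat_lit 226) (nat_lit 5) (nat_lit 227) (nat_lit 5) (nat_lit 426) (nat_lit 369) (nat_lit 225))) (XT.nd (nat_lit 78) (nat_lit 76) (nat_lit 0) (XT.lf (nat_lit 0) (nat_lit 6417112210) (nat_lit 228) (nat_lit 16008575771) (nat_lit 304) (nat_lit 2864156758) (nat_lit 219) (nat_lit 5) (nat_lit 222) (nat_lit 5) (nat_lit 223) (nat_lit 5) (nat_lit 427) (nat_lit 369) (nat_lit 224)) (XT.lf (nat_lit 0) (nat_lit 3217477146) (nat_lit 304) (nat_lit 3170117744) (nat_lit 76) (nat_lit 19363106825) (nat_lit 218) (nat_lit 5) (nat_lit 222) (nat_lit 5) (nat_lit 219) (nat_lit 5) (nat_lit 428) (nat_lit 369) (nat_lit 223)))) (XT.nd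 (nat_lit 156) (nat_lit 380) (nat_lit 0) (XT.nd (nat_lit 78) (nat_lit 228) (nat_lit 0) (XT.lf (nat_lit 0) (nat_lit 9578587005) (nat_lit 380) (nat_lit 13035402871) (nat_lit 76) (nat_lit 3605905974) (nat_lit 214) (nat_lit 5) (nat_lit 219) (nat_lit 5) (nat_lit 215) (nat_lit 5) (nat_lit 429) (nat_lit 369) (nat_lit 222)) (XT.lf (nat_lit 0) (nat_lit 3382598955) (nat_lit 228) (nat_lit 12868242177) (nat_lit 304) (nat_lit 10448715347) (nat_lit 211) (nat_lit 5) (nat_lit 214) (nat_lit 5) (nat_lit 215) (nat_lit 5) (nat_lit 430) (nat_lit 369) (nat_lit 221))) (XT.nd (nat_lit 78) (nat_lit 380) (nat_lit 0) (XT.lf (nat_lit 0) (nat_lit 20548106921) (nat_lit 228) (nat_lit 2699119689) (nat_lit 304) (nat_lit 3942661405) (nat_lit 211) (nat_lit 5) (nat_lit 214) (nat_lit 5) (nat_lit 215) (nat_lit 5) (nat_lit 431) (nat_lit 369) (nat_lit 220)) (XT.lf (nat_lit 0) (nat_lit 2876095485) (nat_lit 380) (nat_lit 17063282730) (nat_lit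 76) (nat_lit 7749615240) (nat_lit 206) (nat_lit 5) (nat_lit 211) (nat_lit 5) (nat_lit 207) (nat_lit 5) (nat_lit 432) (nat_lit 369) (nat_lit 219))))))) (XT.nd (nat_lit 1170) (nat_lit 2052) (nat_lit 0) (XT.nd (nat_lit 546) (nat_lit 1216) (nat_lit 0) (XT.nd (nat_lit 234) (nat_lit 532) (nat_lit 0) (XT.nd (nat_lit 78) (nat_lit 228) (nat_lit 0) (XT.lf (nat_lit 0) (nat_lit 273121759) (nat_lit 228) (nat_lit 9636674533) (nat_lit 304) (nat_lit 18289415932) (nat_lit 203) (nat_lit 5) (nat_lit 206) (nat_lit 5) (nat_lit 207) (nat_lit 5) (nat_lit 433) (nat_lit 369) (nat_lit 218)) (XT.nd (nat_lit 78) (nat_lit 228) (nat_lit 0) (XT.lf (nat_lit 0) (nat_lit 17330493146) (nat_lit 304) (nat_lit 10263407230) (nat_lit 76) (nat_lit 1125557631) (nat_lit 203) (nat_lit 5) (nat_lit 207) (nat_lit 5) (nat_lit 204) (nat_lit 5) (nat_lit 434) (nat_lit 369) (nat_lit 217)) (XT.lf (nat_lit 0) (nat_lit 7977611506) (nat_lit 228) (nat_lit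 17161113206) (nat_lit 304) (nat_lit 4111639037) (nat_lit 200) (nat_lit 5) (nat_lit 203) (nat_lit 5) (nat_lit 204) (nat_lit 5) (nat_lit 435) (nat_lit 369) (nat_lit 216)))) (XT.nd (nat_lit 156) (nat_lit 228) (nat_lit 0) (XT.nd (nat_lit 78) (nat_lit 228) (nat_lit 0) (XT.lf (nat_lit 0) (nat_lit 3415481064) (nat_lit 304) (nat_lit 2863223183) (nat_lit 76) (nat_lit 23514591281) (nat_lit 199) (nat_lit 5) (nat_lit 203) (nat_lit 5) (nat_lit 200) (nat_lit 5) (nat_lit 436) (nat_lit 369) (nat_lit 215)) (XT.lf (nat_lit 0) (nat_lit 11285452139) (nat_lit 304) (nat_lit 14030341109) (nat_lit 76) (nat_lit 5029510419) (nat_lit 196) (nat_lit 5) (nat_lit 200) (nat_lit 5) (nat_lit 197) (nat_lit 5) (nat_lit 437) (nat_lit 369) (nat_lit 214))) (XT.nd (nat_lit 78) (nat_lit 0) (nat_lit 0) (XT.lf (nat_lit 0) (nat_lit 5242494686) (nat_lit 228) (nat_lit 14283886677) (nat_lit 304) (nat_lit 11383444914) (nat_lit 193) (nat_lit 5) (nat_lit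 196) (nat_lit 5) (nat_lit 197) (nat_lit 5) (nat_lit 438) (nat_lit 369) (nat_lit 213)) (XT.lf (nat_lit 0) (nat_lit 25369700801) (nat_lit 228) (nat_lit 2779708112) (nat_lit 304) (nat_lit 3337829540) (nat_lit 193) (nat_lit 5) (nat_lit 196) (nat_lit 5) (nat_lit 197) (nat_lit 5) (nat_lit 439) (nat_lit 369) (nat_lit 212))))) (XT.nd (nat_lit 312) (nat_lit 532) (nat_lit 0) (XT.nd (nat_lit 156) (nat_lit 152) (nat_lit 0) (XT.nd (nat_lit 78) (nat_lit 228) (nat_lit 0) (XT.lf (nat_lit 0) (nat_lit 5071730015) (nat_lit 304) (nat_lit 17927821966) (nat_lit 76) (nat_lit 9074419238) (nat_lit 189) (nat_lit 5) (nat_lit 193) (nat_lit 5) (nat_lit 190) (nat_lit 5) (nat_lit 440) (nat_lit 369) (nat_lit 211)) (XT.lf (nat_lit 0) (nat_lit 2441899257) (nat_lit 228) (nat_lit 11331340175) (nat_lit 304) (nat_lit 18900872595) (nat_lit 186) (nat_lit 5) (nat_lit 189) (nat_lit 5) (nat_lit 190) (nat_lit 5) (nat_lit 441) (nat_lit 369) (nat_lit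 210))) (XT.nd (nat_lit 78) (nat_lit 152) (nat_lit 0) (XT.lf (nat_lit 0) (nat_lit 22918635555) (nat_lit 304) (nat_lit 9516315439) (nat_lit 76) (nat_lit 851820825) (nat_lit 186) (nat_lit 5) (nat_lit 190) (nat_lit 5) (nat_lit 187) (nat_lit 5) (nat_lit 442) (nat_lit 369) (nat_lit 209)) (XT.lf (nat_lit 0) (nat_lit 11930698782) (nat_lit 152) (nat_lit 20628173444) (nat_lit 228) (nat_lit 1352324819) (nat_lit 184) (nat_lit 5) (nat_lit 186) (nat_lit 5) (nat_lit 187) (nat_lit 5) (nat_lit 443) (nat_lit 369) (nat_lit 208)))) (XT.nd (nat_lit 156) (nat_lit 228) (nat_lit 0) (XT.nd (nat_lit 78) (nat_lit 228) (nat_lit 0) (XT.lf (nat_lit 0) (nat_lit 7869809696) (nat_lit 228) (nat_lit 423489867) (nat_lit 76) (nat_lit 26256047414) (nat_lit 183) (nat_lit 5) (nat_lit 186) (nat_lit 5) (nat_lit 184) (nat_lit 5) (nat_lit 444) (nat_lit 369) (nat_lit 207)) (XT.lf (nat_lit 0) (nat_lit 17593139134) (nat_lit 304) (nat_lit 13055483844)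 (nat_lit 76) (nat_lit 4550065411) (nat_lit 180) (nat_lit 5) (nat_lit 184) (nat_lit 5) (nat_lit 181) (nat_lit 5) (nat_lit 445) (nat_lit 369) (nat_lit 206))) (XT.nd (nat_lit 78) (nat_lit 76) (nat_lit 0) (XT.lf (nat_lit 0) (nat_lit 9623112258) (nat_lit 152) (nat_lit 18157833037) (nat_lit 228) (nat_lit 8081381442) (nat_lit 178) (nat_lit 5) (nat_lit 180) (nat_lit 5) (nat_lit 181) (nat_lit 5) (nat_lit 446) (nat_lit 369) (nat_lit 205)) (XT.lf (nat_lit 0) (nat_lit 1821782120) (nat_lit 228) (nat_lit 3320880560) (nat_lit 76) (nat_lit 31398903085) (nat_lit 177) (nat_lit 5) (nat_lit 180) (nat_lit 5) (nat_lit 178) (nat_lit 5) (nat_lit 447) (nat_lit 369) (nat_lit 204)))))) (XT.nd (nat_lit 624) (nat_lit 912) (nat_lit 0) (XT.nd (nat_lit 312) (nat_lit 532) (nat_lit 0) (XT.nd (nat_lit 156) (nat_lit 228) (nat_lit 0) (XT.nd (nat_lit 78) (nat_lit 152) (nat_lit 0) (XT.lf (nat_lit 0) (nat_lit 12133776036) (nat_lit 304) (nat_lit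 16718676685) (nat_lit 76) (nat_lit 8378103937) (nat_lit 174) (nat_lit 5) (nat_lit 178) (nat_lit 5) (nat_lit 175) (nat_lit 5) (nat_lit 448) (nat_lit 369) (nat_lit 203)) (XT.lf (nat_lit 0) (nat_lit 7268623698) (nat_lit 152) (nat_lit 15635231202) (nat_lit 228) (nat_lit 15031900623) (nat_lit 172) (nat_lit 5) (nat_lit 174) (nat_lit 5) (nat_lit 175) (nat_lit 5) (nat_lit 449) (nat_lit 369) (nat_lit 202))) (XT.nd (nat_lit 78) (nat_lit 228) (nat_lit 0) (XT.lf (nat_lit 0) (nat_lit 32307911307) (nat_lit 152) (nat_lit 1852094714) (nat_lit 228) (nat_lit 4497215237) (nat_lit 172) (nat_lit 5) (nat_lit 174) (nat_lit 5) (nat_lit 175) (nat_lit 5) (nat_lit 450) (nat_lit 369) (nat_lit 201)) (XT.lf (nat_lit 0) (nat_lit 6527438455) (nat_lit 228) (nat_lit 20516704357) (nat_lit 76) (nat_lit 12345418708) (nat_lit 169) (nat_lit 5) (nat_lit 172) (nat_lit 5) (nat_lit 170) (nat_lit 5) (nat_lit 451) (nat_lit 369) (nat_lit 200))))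 (XT.nd (nat_lit 156) (nat_lit 380) (nat_lit 0) (XT.nd (nat_lit 78) (nat_lit 0) (nat_lit 0) (XT.lf (nat_lit 0) (nat_lit 4861063546) (nat_lit 152) (nat_lit 13055480738) (nat_lit 228) (nat_lit 22222268838) (nat_lit 167) (nat_lit 5) (nat_lit 169) (nat_lit 5) (nat_lit 170) (nat_lit 5) (nat_lit 452) (nat_lit 369) (nat_lit 199)) (XT.lf (nat_lit 0) (nat_lit 29863870692) (nat_lit 228) (nat_lit 9508861851) (nat_lit 76) (nat_lit 1531313306) (nat_lit 167) (nat_lit 5) (nat_lit 170) (nat_lit 5) (nat_lit 168) (nat_lit 5) (nat_lit 453) (nat_lit 369) (nat_lit 198))) (XT.nd (nat_lit 78) (nat_lit 152) (nat_lit 0) (XT.lf (nat_lit 0) (nat_lit 760298643) (nat_lit 228) (nat_lit 24460874725) (nat_lit 76) (nat_lit 16462157542) (nat_lit 164) (nat_lit 5) (nat_lit 167) (nat_lit 5) (nat_lit 165) (nat_lit 5) (nat_lit 454) (nat_lit 369) (nat_lit 197)) (XT.lf (nat_lit 0) (nat_lit 2394048381) (nat_lit 152) (nat_lit 10413317640) (nat_lit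 228) (nat_lit 29671914962) (nat_lit 162) (nat_lit 5) (nat_lit 164) (nat_lit 5) (nat_lit 165) (nat_lit 5) (nat_lit 455) (nat_lit 369) (nat_lit 196))))) (XT.nd (nat_lit 312) (nat_lit 532) (nat_lit 0) (XT.nd (nat_lit 156) (nat_lit 228) (nat_lit 0) (XT.nd (nat_lit 78) (nat_lit 152) (nat_lit 0) (XT.lf (nat_lit 0) (nat_lit 25506326206) (nat_lit 228) (nat_lit 12794569771) (nat_lit 76) (nat_lit 4989499159) (nat_lit 162) (nat_lit 5) (nat_lit 165) (nat_lit 5) (nat_lit 163) (nat_lit 5) (nat_lit 456) (nat_lit 369) (nat_lit 195)) (XT.lf (nat_lit 0) (nat_lit 15504596573) (nat_lit 152) (nat_lit 23328475246) (nat_lit 228) (nat_lit 5285366395) (nat_lit 160) (nat_lit 5) (nat_lit 162) (nat_lit 5) (nat_lit 163) (nat_lit 5) (nat_lit 457) (nat_lit 369) (nat_lit 194))) (XT.nd (nat_lit 78) (nat_lit 152) (nat_lit 0) (XT.lf (nat_lit 0) (nat_lit 7565387294) (nat_lit 228) (nat_lit 136330853) (nat_lit 76) (nat_lit 37263661184)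 (nat_lit 159) (nat_lit 5) (nat_lit 162) (nat_lit 5) (nat_lit 160) (nat_lit 5) (nat_lit 458) (nat_lit 369) (nat_lit 193)) (XT.lf (nat_lit 0) (nat_lit 21059890992) (nat_lit 228) (nat_lit 16198136596) (nat_lit 76) (nat_lit 8567197442) (nat_lit 157) (nat_lit 5) (nat_lit 160) (nat_lit 5) (nat_lit 158) (nat_lit 5) (nat_lit 459) (nat_lit 369) (nat_lit 192)))) (XT.nd (nat_lit 156) (nat_lit 304) (nat_lit 0) (XT.nd (nat_lit 78) (nat_lit 76) (nat_lit 0) (XT.lf (nat_lit 0) (nat_lit 13758168927) (nat_lit 152) (nat_lit 21405818799) (nat_lit 228) (nat_lit 11540735636) (nat_lit 155) (nat_lit 5) (nat_lit 157) (nat_lit 5) (nat_lit 158) (nat_lit 5) (nat_lit 460) (nat_lit 369) (nat_lit 191)) (XT.lf (nat_lit 0) (nat_lit 2200060453) (nat_lit 228) (nat_lit 2691533703) (nat_lit 76) (nat_lit 42713610696) (nat_lit 154) (nat_lit 5) (nat_lit 157) (nat_lit 5) (nat_lit 155) (nat_lit 5) (nat_lit 461) (nat_lit 369) (nat_lit 190)))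 (XT.nd (nat_lit 78) (nat_lit 152) (nat_lit 0) (XT.lf (nat_lit 0) (nat_lit 16514391247) (nat_lit 228) (nat_lit 19729515236) (nat_lit 76) (nat_lit 12273568317) (nat_lit 152) (nat_lit 5) (nat_lit 155) (nat_lit 5) (nat_lit 153) (nat_lit 5) (nat_lit 462) (nat_lit 369) (nat_lit 189)) (XT.lf (nat_lit 0) (nat_lit 11986750050) (nat_lit 152) (nat_lit 19457544226) (nat_lit 228) (nat_lit 18007234300) (nat_lit 150) (nat_lit 5) (nat_lit 152) (nat_lit 5) (nat_lit 153) (nat_lit 5) (nat_lit 463) (nat_lit 369) (nat_lit 188))))))))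
noncomputable def xc166 : XT := (XT.nd (nat_lit 46098) (nat_lit 0) (nat_lit 13528) (XT.nd (nat_lit 1170) (nat_lit 988) (nat_lit 0) (XT.nd (nat_lit 546) (nat_lit 912) (nat_lit 0) (XT.nd (nat_lit 234) (nat_lit 304) (nat_lit 0) (XT.nd (nat_lit 78) (nat_lit 304) (nat_lit 0) (XT.lf (nat_lit 0) (nat_lit 45049861042) (nat_lit 152) (nat_lit 1966558420) (nat_lit 228) (nat_lit 3391354751) (nat_lit 150) (nat_lit 5) (nat_lit 152) (nat_lit 5) (nat_lit 153) (nat_lit 5) (nat_lit 464) (nat_lit 369) (nat_lit 187)) (XT.nd (nat_lit 78) (nat_lit 152) (nat_lit 0) (XT.lf (nat_lit 0) (nat_lit 11859129862) (nat_lit 152) (nat_lit 23399141531) (nat_lit 76) (nat_lit 16118360995) (nat_lit 148) (nat_lit 5) (nat_lit 150) (nat_lit 5) (nat_lit 149) (nat_lit 5) (nat_lit 465) (nat_lit 369) (nat_lit 186)) (XT.lf (nat_lit 0) (nat_lit 10186113821) (nat_lit 152) (nat_lit 17480085953) (nat_lit 228) (nat_lit 24702332192) (nat_lit 146) (nat_lit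 5) (nat_lit 148) (nat_lit 5) (nat_lit 149) (nat_lit 5) (nat_lit 466) (nat_lit 369) (nat_lit 185)))) (XT.nd (nat_lit 156) (nat_lit 152) (nat_lit 0) (XT.nd (nat_lit 78) (nat_lit 152) (nat_lit 0) (XT.lf (nat_lit 0) (nat_lit 44189321769) (nat_lit 228) (nat_lit 8143786124) (nat_lit 76) (nat_lit 1049825439) (nat_lit 146) (nat_lit 5) (nat_lit 149) (nat_lit 5) (nat_lit 147) (nat_lit 4) (nat_lit 467) (nat_lit 369) (nat_lit 184)) (XT.lf (nat_lit 0) (nat_lit 7082856480) (nat_lit 152) (nat_lit 27217971976) (nat_lit 76) (nat_lit 20111939112) (nat_lit 144) (nat_lit 5) (nat_lit 146) (nat_lit 5) (nat_lit 145) (nat_lit 5) (nat_lit 468) (nat_lit 369) (nat_lit 183))) (XT.nd (nat_lit 78) (nat_lit 0) (nat_lit 0) (XT.lf (nat_lit 0) (nat_lit 8351892786) (nat_lit 152) (nat_lit 15469646212) (nat_lit 228) (nat_lit 31644465971) (nat_lit 142) (nat_lit 5) (nat_lit 144) (nat_lit 5) (nat_lit 145) (nat_lit 5) (nat_lit 469) (nat_lit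 369) (nat_lit 182)) (XT.lf (nat_lit 0) (nat_lit 41373077507) (nat_lit 228) (nat_lit 11044964546) (nat_lit 76) (nat_lit 4123476573) (nat_lit 142) (nat_lit 5) (nat_lit 145) (nat_lit 5) (nat_lit 143) (nat_lit 4) (nat_lit 470) (nat_lit 369) (nat_lit 181))))) (XT.nd (nat_lit 312) (nat_lit 532) (nat_lit 0) (XT.nd (nat_lit 156) (nat_lit 76) (nat_lit 0) (XT.nd (nat_lit 78) (nat_lit 152) (nat_lit 0) (XT.lf (nat_lit 0) (nat_lit 2173735138) (nat_lit 152) (nat_lit 31197522969) (nat_lit 76) (nat_lit 24265309022) (nat_lit 140) (nat_lit 5) (nat_lit 142) (nat_lit 5) (nat_lit 141) (nat_lit 5) (nat_lit 471) (nat_lit 369) (nat_lit 180)) (XT.lf (nat_lit 0) (nat_lit 6479562012) (nat_lit 152) (nat_lit 13422189527) (nat_lit 228) (nat_lit 38853096705) (nat_lit 138) (nat_lit 5) (nat_lit 140) (nat_lit 5) (nat_lit 141) (nat_lit 5) (nat_lit 472) (nat_lit 369) (nat_lit 179))) (XT.nd (nat_lit 78) (nat_lit 76) (nat_lit 0) (XT.lf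 (nat_lit 0) (nat_lit 38543789860) (nat_lit 228) (nat_lit 14050826670) (nat_lit 76) (nat_lit 7300595821) (nat_lit 138) (nat_lit 5) (nat_lit 141) (nat_lit 5) (nat_lit 139) (nat_lit 4) (nat_lit 473) (nat_lit 369) (nat_lit 178)) (XT.lf (nat_lit 0) (nat_lit 25680371136) (nat_lit 76) (nat_lit 32440131874) (nat_lit 152) (nat_lit 2938021958) (nat_lit 137) (nat_lit 5) (nat_lit 138) (nat_lit 5) (nat_lit 139) (nat_lit 4) (nat_lit 474) (nat_lit 369) (nat_lit 177)))) (XT.nd (nat_lit 156) (nat_lit 304) (nat_lit 0) (XT.nd (nat_lit 78) (nat_lit 0) (nat_lit 0) (XT.lf (nat_lit 0) (nat_lit 4564422645) (nat_lit 152) (nat_lit 11333435703) (nat_lit 228) (nat_lit 46348771428) (nat_lit 134) (nat_lit 5) (nat_lit 136) (nat_lit 5) (nat_lit 137) (nat_lit 5) (nat_lit 475) (nat_lit 369) (nat_lit 176)) (XT.lf (nat_lit 0) (nat_lit 35696265650) (nat_lit 228) (nat_lit 17170061438) (nat_lit 76) (nat_lit 10589482902) (nat_lit 134) (nat_lit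 5) (nat_lit 137) (nat_lit 5) (nat_lit 135) (nat_lit 4) (nat_lit 476) (nat_lit 369) (nat_lit 175))) (XT.nd (nat_lit 78) (nat_lit 228) (nat_lit 0) (XT.lf (nat_lit 0) (nat_lit 24923589895) (nat_lit 76) (nat_lit 31512635615) (nat_lit 152) (nat_lit 8254612090) (nat_lit 133) (nat_lit 5) (nat_lit 134) (nat_lit 5) (nat_lit 135) (nat_lit 4) (nat_lit 477) (nat_lit 369) (nat_lit 174)) (XT.lf (nat_lit 0) (nat_lit 2601585075) (nat_lit 152) (nat_lit 9198851362) (nat_lit 228) (nat_lit 54153188881) (nat_lit 130) (nat_lit 5) (nat_lit 132) (nat_lit 5) (nat_lit 133) (nat_lit 5) (nat_lit 478) (nat_lit 369) (nat_lit 173)))))) (XT.nd (nat_lit 546) (nat_lit 380) (nat_lit 0) (XT.nd (nat_lit 234) (nat_lit 304) (nat_lit 0) (XT.nd (nat_lit 78) (nat_lit 304) (nat_lit 0) (XT.lf (nat_lit 0) (nat_lit 32825099395) (nat_lit 228) (nat_lit 20411795402) (nat_lit 76) (nat_lit 13998933831) (nat_lit 130) (nat_lit 5) (nat_lit 133) (nat_lit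 5) (nat_lit 131) (nat_lit 4) (nat_lit 479) (nat_lit 369) (nat_lit 172)) (XT.nd (nat_lit 78) (nat_lit 228) (nat_lit 0) (XT.lf (nat_lit 0) (nat_lit 24189833174) (nat_lit 76) (nat_lit 30610217728) (nat_lit 152) (nat_lit 13746860675) (nat_lit 129) (nat_lit 5) (nat_lit 130) (nat_lit 5) (nat_lit 131) (nat_lit 4) (nat_lit 480) (nat_lit 369) (nat_lit 171)) (XT.lf (nat_lit 0) (nat_lit 585951629) (nat_lit 152) (nat_lit 7013640050) (nat_lit 228) (nat_lit 62289269642) (nat_lit 126) (nat_lit 5) (nat_lit 128) (nat_lit 5) (nat_lit 129) (nat_lit 5) (nat_lit 481) (nat_lit 369) (nat_lit 170)))) (XT.nd (nat_lit 156) (nat_lit 228) (nat_lit 0) (XT.nd (nat_lit 78) (nat_lit 76) (nat_lit 0) (XT.lf (nat_lit 0) (nat_lit 29924660044) (nat_lit 228) (nat_lit 23785624727) (nat_lit 76) (nat_lit 17538265937) (nat_lit 126) (nat_lit 5) (nat_lit 129) (nat_lit 5) (nat_lit 127) (nat_lit 4) (nat_lit 482) (nat_lit 369) (nat_lit 169)) (XT.lf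 (nat_lit 0) (nat_lit 23478320810) (nat_lit 76) (nat_lit 29732363672) (nat_lit 152) (nat_lit 19429610175) (nat_lit 125) (nat_lit 5) (nat_lit 126) (nat_lit 5) (nat_lit 127) (nat_lit 4) (nat_lit 483) (nat_lit 369) (nat_lit 168))) (XT.nd (nat_lit 78) (nat_lit 152) (nat_lit 0) (XT.lf (nat_lit 0) (nat_lit 3299231289) (nat_lit 152) (nat_lit 1458768947) (nat_lit 76) (nat_lit 69307731189) (nat_lit 124) (nat_lit 5) (nat_lit 126) (nat_lit 5) (nat_lit 125) (nat_lit 5) (nat_lit 484) (nat_lit 369) (nat_lit 167)) (XT.lf (nat_lit 0) (nat_lit 26989076618) (nat_lit 228) (nat_lit 27301648699) (nat_lit 76) (nat_lit 21217345172) (nat_lit 122) (nat_lit 5) (nat_lit 125) (nat_lit 5) (nat_lit 123) (nat_lit 4) (nat_lit 485) (nat_lit 369) (nat_lit 166))))) (XT.nd (nat_lit 44070) (nat_lit 0) (nat_lit 20824) (XT.nd (nat_lit 156) (nat_lit 304) (nat_lit 0) (XT.nd (nat_lit 78) (nat_lit 0) (nat_lit 0) (XT.lf (nat_lit 0) (nat_lit 22788307582)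 (nat_lit 76) (nat_lit 28878549821) (nat_lit 152) (nat_lit 25318505118) (nat_lit 121) (nat_lit 5) (nat_lit 122) (nat_lit 5) (nat_lit 123) (nat_lit 4) (nat_lit 486) (nat_lit 369) (nat_lit 165)) (XT.lf (nat_lit 0) (nat_lit 74933338278) (nat_lit 76) (nat_lit 2423566630) (nat_lit 152) (nat_lit 1141910407) (nat_lit 121) (nat_lit 5) (nat_lit 122) (nat_lit 5) (nat_lit 123) (nat_lit 4) (nat_lit 487) (nat_lit 369) (nat_lit 164))) (XT.nd (nat_lit 78) (nat_lit 76) (nat_lit 0) (XT.lf (nat_lit 0) (nat_lit 24012222721) (nat_lit 228) (nat_lit 30970504858) (nat_lit 76) (nat_lit 25046615747) (nat_lit 118) (nat_lit 5) (nat_lit 121) (nat_lit 5) (nat_lit 119) (nat_lit 4) (nat_lit 488) (nat_lit 369) (nat_lit 163)) (XT.lf (nat_lit 0) (nat_lit 22119080825) (nat_lit 76) (nat_lit 28048246404) (nat_lit 152) (nat_lit 31430041807) (nat_lit 117) (nat_lit 5) (nat_lit 118) (nat_lit 5) (nat_lit 119) (nat_lit 4) (nat_lit 489) (nat_lit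 369) (nat_lit 162)))) (XT.nd (nat_lit 156) (nat_lit 0) (nat_lit 0) (XT.nd (nat_lit 78) (nat_lit 0) (nat_lit 0) (XT.lf (nat_lit 0) (nat_lit 278944548) (nat_lit 0) (nat_lit 278944548) (nat_lit 1140) (nat_lit 4594495487) (nat_lit 391) (nat_lit 5) (nat_lit 391) (nat_lit 3) (nat_lit 406) (nat_lit 3) (nat_lit 370) (nat_lit 370) (nat_lit 280)) (XT.lf (nat_lit 0) (nat_lit 1837315110) (nat_lit 1140) (nat_lit 4626863976) (nat_lit 1216) (nat_lit 3974017610) (nat_lit 391) (nat_lit 5) (nat_lit 406) (nat_lit 3) (nat_lit 407) (nat_lit 5) (nat_lit 371) (nat_lit 370) (nat_lit 279))) (XT.nd (nat_lit 78) (nat_lit 0) (nat_lit 76) (XT.lf (nat_lit 76) (nat_lit 639816681) (nat_lit 0) (nat_lit 1926494469) (nat_lit 1216) (nat_lit 8009741513) (nat_lit 392) (nat_lit 5) (nat_lit 391) (nat_lit 5) (nat_lit 407) (nat_lit 5) (nat_lit 372) (nat_lit 370) (nat_lit 278)) (XT.lf (nat_lit 0) (nat_lit 3365641191) (nat_lit 1140) (nat_lit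 4598798917) (nat_lit 1216) (nat_lit 2752150275) (nat_lit 392) (nat_lit 5) (nat_lit 407) (nat_lit 5) (nat_lit 408) (nat_lit 5) (nat_lit 373) (nat_lit 370) (nat_lit 277))))))) (XT.nd (nat_lit 1170) (nat_lit 5396) (nat_lit 0) (XT.nd (nat_lit 546) (nat_lit 1976) (nat_lit 0) (XT.nd (nat_lit 234) (nat_lit 0) (nat_lit 152) (XT.nd (nat_lit 78) (nat_lit 0) (nat_lit 76) (XT.lf (nat_lit 76) (nat_lit 882709285) (nat_lit 0) (nat_lit 3309403467) (nat_lit 1216) (nat_lit 6669136634) (nat_lit 393) (nat_lit 5) (nat_lit 392) (nat_lit 5) (nat_lit 408) (nat_lit 5) (nat_lit 374) (nat_lit 370) (nat_lit 276)) (XT.nd (nat_lit 78) (nat_lit 0) (nat_lit 0) (XT.lf (nat_lit 0) (nat_lit 5080826077) (nat_lit 1140) (nat_lit 4415530489) (nat_lit 1216) (nat_lit 1512768167) (nat_lit 393) (nat_lit 5) (nat_lit 408) (nat_lit 5) (nat_lit 409) (nat_lit 5) (nat_lit 375) (nat_lit 370) (nat_lit 275)) (XT.lf (nat_lit 76) (nat_lit 1292383412) (nat_lit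 0) (nat_lit 4725969571) (nat_lit 1216) (nat_lit 5142418790) (nat_lit 394) (nat_lit 5) (nat_lit 393) (nat_lit 5) (nat_lit 409) (nat_lit 5) (nat_lit 376) (nat_lit 370) (nat_lit 274)))) (XT.nd (nat_lit 156) (nat_lit 0) (nat_lit 0) (XT.nd (nat_lit 78) (nat_lit 0) (nat_lit 0) (XT.lf (nat_lit 0) (nat_lit 7008413088) (nat_lit 1140) (nat_lit 4070877045) (nat_lit 1216) (nat_lit 236945871) (nat_lit 394) (nat_lit 5) (nat_lit 409) (nat_lit 5) (nat_lit 410) (nat_lit 5) (nat_lit 377) (nat_lit 370) (nat_lit 273)) (XT.lf (nat_lit 76) (nat_lit 1875757877) (nat_lit 0) (nat_lit 6195468059) (nat_lit 1216) (nat_lit 3403846696) (nat_lit 395) (nat_lit 5) (nat_lit 394) (nat_lit 5) (nat_lit 410) (nat_lit 5) (nat_lit 378) (nat_lit 370) (nat_lit 272))) (XT.nd (nat_lit 78) (nat_lit 0) (nat_lit 76) (XT.lf (nat_lit 76) (nat_lit 8069771350) (nat_lit 0) (nat_lit 1115982967) (nat_lit 1216) (nat_lit 2452325108) (nat_lit 395) (nat_lit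 5) (nat_lit 394) (nat_lit 5) (nat_lit 410) (nat_lit 5) (nat_lit 379) (nat_lit 370) (nat_lit 271)) (XT.lf (nat_lit 76) (nat_lit 2640865904) (nat_lit 0) (nat_lit 7737209197) (nat_lit 1216) (nat_lit 1426570625) (nat_lit 396) (nat_lit 5) (nat_lit 395) (nat_lit 5) (nat_lit 411) (nat_lit 5) (nat_lit 380) (nat_lit 370) (nat_lit 270))))) (XT.nd (nat_lit 312) (nat_lit 1064) (nat_lit 0) (XT.nd (nat_lit 156) (nat_lit 0) (nat_lit 0) (XT.nd (nat_lit 78) (nat_lit 1140) (nat_lit 0) (XT.lf (nat_lit 76) (nat_lit 9083605821) (nat_lit 0) (nat_lit 2549399715) (nat_lit 1216) (nat_lit 342398279) (nat_lit 396) (nat_lit 5) (nat_lit 395) (nat_lit 5) (nat_lit 411) (nat_lit 5) (nat_lit 381) (nat_lit 370) (nat_lit 269)) (XT.lf (nat_lit 0) (nat_lit 801542795) (nat_lit 1216) (nat_lit 8561011796) (nat_lit 1292) (nat_lit 2787236176) (nat_lit 380) (nat_lit 5) (nat_lit 396) (nat_lit 5) (nat_lit 397) (nat_lit 5) (nat_lit 382) (nat_lit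 370) (nat_lit 268))) (XT.nd (nat_lit 78) (nat_lit 0) (nat_lit 76) (XT.lf (nat_lit 0) (nat_lit 2008394890) (nat_lit 1216) (nat_lit 2049440156) (nat_lit 1292) (nat_lit 8270408340) (nat_lit 380) (nat_lit 5) (nat_lit 396) (nat_lit 5) (nat_lit 397) (nat_lit 5) (nat_lit 383) (nat_lit 370) (nat_lit 267)) (XT.lf (nat_lit 0) (nat_lit 3292279957) (nat_lit 1216) (nat_lit 7789969898) (nat_lit 1292) (nat_lit 1428574905) (nat_lit 381) (nat_lit 5) (nat_lit 397) (nat_lit 5) (nat_lit 398) (nat_lit 5) (nat_lit 384) (nat_lit 370) (nat_lit 266)))) (XT.nd (nat_lit 156) (nat_lit 1140) (nat_lit 0) (XT.nd (nat_lit 78) (nat_lit 0) (nat_lit 0) (XT.lf (nat_lit 0) (nat_lit 4657504195) (nat_lit 1216) (nat_lit 1017416749) (nat_lit 1292) (nat_lit 7022677955) (nat_lit 381) (nat_lit 5) (nat_lit 397) (nat_lit 5) (nat_lit 398) (nat_lit 5) (nat_lit 385) (nat_lit 370) (nat_lit 265)) (XT.lf (nat_lit 76) (nat_lit 6061999795) (nat_lit 0)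 (nat_lit 42234494) (nat_lit 1292) (nat_lit 6784525499) (nat_lit 382) (nat_lit 5) (nat_lit 381) (nat_lit 5) (nat_lit 398) (nat_lit 5) (nat_lit 386) (nat_lit 370) (nat_lit 264))) (XT.nd (nat_lit 78) (nat_lit 0) (nat_lit 0) (XT.lf (nat_lit 0) (nat_lit 223188344) (nat_lit 1216) (nat_lit 7421744567) (nat_lit 1292) (nat_lit 5439205593) (nat_lit 366) (nat_lit 5) (nat_lit 382) (nat_lit 5) (nat_lit 383) (nat_lit 5) (nat_lit 387) (nat_lit 370) (nat_lit 263)) (XT.lf (nat_lit 0) (nat_lit 7609288136) (nat_lit 1216) (nat_lit 1674959217) (nat_lit 1292) (nat_lit 3999559382) (nat_lit 366) (nat_lit 5) (nat_lit 382) (nat_lit 5) (nat_lit 383) (nat_lit 5) (nat_lit 388) (nat_lit 370) (nat_lit 262)))))) (XT.nd (nat_lit 624) (nat_lit 2128) (nat_lit 0) (XT.nd (nat_lit 312) (nat_lit 1748) (nat_lit 0) (XT.nd (nat_lit 156) (nat_lit 684) (nat_lit 0) (XT.nd (nat_lit 78) (nat_lit 0) (nat_lit 0) (XT.lf (nat_lit 0) (nat_lit 1705036256)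 (nat_lit 836) (nat_lit 9308450270) (nat_lit 912) (nat_lit 2474756129) (nat_lit 355) (nat_lit 5) (nat_lit 366) (nat_lit 5) (nat_lit 367) (nat_lit 5) (nat_lit 389) (nat_lit 370) (nat_lit 261)) (XT.lf (nat_lit 0) (nat_lit 9390589603) (nat_lit 836) (nat_lit 3461629947) (nat_lit 912) (nat_lit 844863602) (nat_lit 355) (nat_lit 5) (nat_lit 366) (nat_lit 5) (nat_lit 367) (nat_lit 5) (nat_lit 390) (nat_lit 370) (nat_lit 260))) (XT.nd (nat_lit 78) (nat_lit 0) (nat_lit 0) (XT.lf (nat_lit 0) (nat_lit 859949554) (nat_lit 684) (nat_lit 10497531112) (nat_lit 76) (nat_lit 2553198809) (nat_lit 346) (nat_lit 5) (nat_lit 355) (nat_lit 5) (nat_lit 347) (nat_lit 5) (nat_lit 391) (nat_lit 370) (nat_lit 259)) (XT.lf (nat_lit 0) (nat_lit 2661654954) (nat_lit 684) (nat_lit 2734798722) (nat_lit 76) (nat_lit 8732097199) (nat_lit 346) (nat_lit 5) (nat_lit 355) (nat_lit 5) (nat_lit 347) (nat_lit 5) (nat_lit 392) (nat_lit 370) (nat_lit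 258)))) (XT.nd (nat_lit 156) (nat_lit 1140) (nat_lit 0) (XT.nd (nat_lit 78) (nat_lit 0) (nat_lit 0) (XT.lf (nat_lit 0) (nat_lit 4561492678) (nat_lit 684) (nat_lit 9008870932) (nat_lit 76) (nat_lit 781272373) (nat_lit 338) (nat_lit 5) (nat_lit 347) (nat_lit 5) (nat_lit 339) (nat_lit 5) (nat_lit 393) (nat_lit 370) (nat_lit 257)) (XT.lf (nat_lit 0) (nat_lit 6584934448) (nat_lit 684) (nat_lit 930445480) (nat_lit 76) (nat_lit 7064035448) (nat_lit 338) (nat_lit 5) (nat_lit 347) (nat_lit 5) (nat_lit 339) (nat_lit 5) (nat_lit 394) (nat_lit 370) (nat_lit 256))) (XT.nd (nat_lit 78) (nat_lit 608) (nat_lit 0) (XT.lf (nat_lit 0) (nat_lit 7522687572) (nat_lit 532) (nat_lit 1204422194) (nat_lit 608) (nat_lit 6085177477) (nat_lit 331) (nat_lit 5) (nat_lit 338) (nat_lit 5) (nat_lit 339) (nat_lit 5) (nat_lit 395) (nat_lit 370) (nat_lit 255)) (XT.lf (nat_lit 0) (nat_lit 1153416018) (nat_lit 608) (nat_lit 9837610791) (nat_lit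 684) (nat_lit 4059394162) (nat_lit 323) (nat_lit 5) (nat_lit 331) (nat_lit 5) (nat_lit 332) (nat_lit 5) (nat_lit 396) (nat_lit 370) (nat_lit 254))))) (XT.nd (nat_lit 312) (nat_lit 988) (nat_lit 0) (XT.nd (nat_lit 156) (nat_lit 532) (nat_lit 0) (XT.nd (nat_lit 78) (nat_lit 608) (nat_lit 0) (XT.lf (nat_lit 0) (nat_lit 9972418183) (nat_lit 608) (nat_lit 3422123131) (nat_lit 684) (nat_lit 1899006997) (nat_lit 323) (nat_lit 5) (nat_lit 331) (nat_lit 5) (nat_lit 332) (nat_lit 5) (nat_lit 397) (nat_lit 370) (nat_lit 253)) (XT.lf (nat_lit 0) (nat_lit 371600749) (nat_lit 608) (nat_lit 12010219880) (nat_lit 76) (nat_lit 3160501553) (nat_lit 315) (nat_lit 5) (nat_lit 323) (nat_lit 5) (nat_lit 316) (nat_lit 5) (nat_lit 398) (nat_lit 370) (nat_lit 252))) (XT.nd (nat_lit 78) (nat_lit 532) (nat_lit 0) (XT.lf (nat_lit 0) (nat_lit 2747080259) (nat_lit 608) (nat_lit 3104814082) (nat_lit 76) (nat_lit 9943853217) (nat_lit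 315) (nat_lit 5) (nat_lit 323) (nat_lit 5) (nat_lit 316) (nat_lit 5) (nat_lit 399) (nat_lit 370) (nat_lit 251)) (XT.lf (nat_lit 0) (nat_lit 5249306873) (nat_lit 608) (nat_lit 9890357609) (nat_lit 76) (nat_lit 915446730) (nat_lit 308) (nat_lit 5) (nat_lit 316) (nat_lit 5) (nat_lit 309) (nat_lit 5) (nat_lit 400) (nat_lit 370) (nat_lit 250)))) (XT.nd (nat_lit 156) (nat_lit 532) (nat_lit 0) (XT.nd (nat_lit 78) (nat_lit 456) (nat_lit 0) (XT.lf (nat_lit 0) (nat_lit 7903586479) (nat_lit 608) (nat_lit 617968391) (nat_lit 76) (nat_lit 7798391321) (nat_lit 308) (nat_lit 5) (nat_lit 316) (nat_lit 5) (nat_lit 309) (nat_lit 5) (nat_lit 401) (nat_lit 370) (nat_lit 249)) (XT.lf (nat_lit 0) (nat_lit 9096053157) (nat_lit 456) (nat_lit 1616629297) (nat_lit 532) (nat_lit 5877788124) (nat_lit 302) (nat_lit 5) (nat_lit 308) (nat_lit 5) (nat_lit 309) (nat_lit 5) (nat_lit 402) (nat_lit 370) (nat_lit 248))) (XT.nd (nat_lit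 78) (nat_lit 0) (nat_lit 0) (XT.lf (nat_lit 0) (nat_lit 2221459669) (nat_lit 532) (nat_lit 11453029608) (nat_lit 608) (nat_lit 3192568282) (nat_lit 295) (nat_lit 5) (nat_lit 302) (nat_lit 5) (nat_lit 303) (nat_lit 5) (nat_lit 403) (nat_lit 370) (nat_lit 247)) (XT.lf (nat_lit 0) (nat_lit 12352014855) (nat_lit 532) (nat_lit 4452835226) (nat_lit 608) (nat_lit 344701076) (nat_lit 295) (nat_lit 5) (nat_lit 302) (nat_lit 5) (nat_lit 303) (nat_lit 5) (nat_lit 404) (nat_lit 370) (nat_lit 246))))))))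
noncomputable def xc167 : XT := (XT.nd (nat_lit 2418) (nat_lit 4180) (nat_lit 0) (XT.nd (nat_lit 1170) (nat_lit 3192) (nat_lit 0) (XT.nd (nat_lit 546) (nat_lit 1900) (nat_lit 0) (XT.nd (nat_lit 234) (nat_lit 912) (nat_lit 0) (XT.nd (nat_lit 78) (nat_lit 456) (nat_lit 0) (XT.lf (nat_lit 0) (nat_lit 2605767224) (nat_lit 532) (nat_lit 12053019622) (nat_lit 76) (nat_lit 2778955878) (nat_lit 288) (nat_lit 5) (nat_lit 295) (nat_lit 5) (nat_lit 289) (nat_lit 5) (nat_lit 405) (nat_lit 370) (nat_lit 245)) (XT.nd (nat_lit 78) (nat_lit 456) (nat_lit 0) (XT.lf (nat_lit 0) (nat_lit 5719418916) (nat_lit 532) (nat_lit 1824415618) (nat_lit 76) (nat_lit 10188195193) (nat_lit 288) (nat_lit 5) (nat_lit 295) (nat_lit 5) (nat_lit 289) (nat_lit 5) (nat_lit 406) (nat_lit 370) (nat_lit 244)) (XT.lf (nat_lit 0) (nat_lit 8870447674) (nat_lit 456) (nat_lit 130217784) (nat_lit 532) (nat_lit 9032254323) (nat_lit 282) (nat_lit 5)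 (nat_lit 288) (nat_lit 5) (nat_lit 289) (nat_lit 5) (nat_lit 407) (nat_lit 370) (nat_lit 243)))) (XT.nd (nat_lit 156) (nat_lit 532) (nat_lit 0) (XT.nd (nat_lit 78) (nat_lit 0) (nat_lit 0) (XT.lf (nat_lit 0) (nat_lit 1524833903) (nat_lit 380) (nat_lit 10950012914) (nat_lit 456) (nat_lit 5865154797) (nat_lit 277) (nat_lit 5) (nat_lit 282) (nat_lit 5) (nat_lit 283) (nat_lit 5) (nat_lit 408) (nat_lit 370) (nat_lit 242)) (XT.lf (nat_lit 0) (nat_lit 12705541699) (nat_lit 380) (nat_lit 3430781526) (nat_lit 456) (nat_lit 2517480589) (nat_lit 277) (nat_lit 5) (nat_lit 282) (nat_lit 5) (nat_lit 283) (nat_lit 5) (nat_lit 409) (nat_lit 370) (nat_lit 241))) (XT.nd (nat_lit 78) (nat_lit 0) (nat_lit 0) (XT.lf (nat_lit 0) (nat_lit 995176703) (nat_lit 532) (nat_lit 13691464403) (nat_lit 76) (nat_lit 4287629221) (nat_lit 270) (nat_lit 5) (nat_lit 277) (nat_lit 5) (nat_lit 271) (nat_lit 5) (nat_lit 410) (nat_lit 370)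 (nat_lit 240)) (XT.lf (nat_lit 0) (nat_lit 4646871031) (nat_lit 532) (nat_lit 2402979717) (nat_lit 76) (nat_lit 12251224637) (nat_lit 270) (nat_lit 5) (nat_lit 277) (nat_lit 5) (nat_lit 271) (nat_lit 5) (nat_lit 411) (nat_lit 370) (nat_lit 239))))) (XT.nd (nat_lit 312) (nat_lit 684) (nat_lit 0) (XT.nd (nat_lit 156) (nat_lit 456) (nat_lit 0) (XT.nd (nat_lit 78) (nat_lit 380) (nat_lit 0) (XT.lf (nat_lit 0) (nat_lit 8497056066) (nat_lit 456) (nat_lit 10249794629) (nat_lit 76) (nat_lit 888165702) (nat_lit 265) (nat_lit 5) (nat_lit 271) (nat_lit 5) (nat_lit 266) (nat_lit 5) (nat_lit 412) (nat_lit 370) (nat_lit 238)) (XT.lf (nat_lit 0) (nat_lit 1544764375) (nat_lit 380) (nat_lit 11017202933) (nat_lit 456) (nat_lit 7414031711) (nat_lit 260) (nat_lit 5) (nat_lit 265) (nat_lit 5) (nat_lit 266) (nat_lit 5) (nat_lit 413) (nat_lit 370) (nat_lit 237))) (XT.nd (nat_lit 78) (nat_lit 456) (nat_lit 0) (XT.lf (nat_lit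 0) (nat_lit 13889983316) (nat_lit 380) (nat_lit 2952572332) (nat_lit 456) (nat_lit 3481843580) (nat_lit 260) (nat_lit 5) (nat_lit 265) (nat_lit 5) (nat_lit 266) (nat_lit 5) (nat_lit 414) (nat_lit 370) (nat_lit 236)) (XT.lf (nat_lit 0) (nat_lit 657577310) (nat_lit 456) (nat_lit 14712448521) (nat_lit 76) (nat_lit 5310051017) (nat_lit 254) (nat_lit 5) (nat_lit 260) (nat_lit 5) (nat_lit 255) (nat_lit 5) (nat_lit 415) (nat_lit 370) (nat_lit 235)))) (XT.nd (nat_lit 156) (nat_lit 304) (nat_lit 0) (XT.nd (nat_lit 78) (nat_lit 380) (nat_lit 0) (XT.lf (nat_lit 0) (nat_lit 4936589059) (nat_lit 456) (nat_lit 2248404613) (nat_lit 76) (nat_lit 13857835219) (nat_lit 254) (nat_lit 5) (nat_lit 260) (nat_lit 5) (nat_lit 255) (nat_lit 5) (nat_lit 416) (nat_lit 370) (nat_lit 234)) (XT.lf (nat_lit 0) (nat_lit 9451443402) (nat_lit 456) (nat_lit 10639361937) (nat_lit 76) (nat_lit 1322433989) (nat_lit 249) (nat_lit 5) (nat_lit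 255) (nat_lit 5) (nat_lit 250) (nat_lit 5) (nat_lit 417) (nat_lit 370) (nat_lit 233))) (XT.nd (nat_lit 78) (nat_lit 0) (nat_lit 0) (XT.lf (nat_lit 0) (nat_lit 2401396296) (nat_lit 304) (nat_lit 11808422614) (nat_lit 380) (nat_lit 7581700900) (nat_lit 245) (nat_lit 5) (nat_lit 249) (nat_lit 5) (nat_lit 250) (nat_lit 5) (nat_lit 418) (nat_lit 370) (nat_lit 232)) (XT.lf (nat_lit 0) (nat_lit 16038663351) (nat_lit 304) (nat_lit 3170784254) (nat_lit 380) (nat_lit 2968746046) (nat_lit 245) (nat_lit 5) (nat_lit 249) (nat_lit 5) (nat_lit 250) (nat_lit 5) (nat_lit 419) (nat_lit 370) (nat_lit 231)))))) (XT.nd (nat_lit 624) (nat_lit 1444) (nat_lit 0) (XT.nd (nat_lit 312) (nat_lit 684) (nat_lit 0) (XT.nd (nat_lit 156) (nat_lit 608) (nat_lit 0) (XT.nd (nat_lit 78) (nat_lit 0) (nat_lit 0) (XT.lf (nat_lit 0) (nat_lit 1868274282) (nat_lit 456) (nat_lit 15002239949) (nat_lit 76) (nat_lit 5701825561) (nat_lit 239) (nat_lit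 5) (nat_lit 245) (nat_lit 5) (nat_lit 240) (nat_lit 5) (nat_lit 420) (nat_lit 370) (nat_lit 230)) (XT.lf (nat_lit 0) (nat_lit 6876078880) (nat_lit 456) (nat_lit 1233688050) (nat_lit 76) (nat_lit 14865101306) (nat_lit 239) (nat_lit 5) (nat_lit 245) (nat_lit 5) (nat_lit 240) (nat_lit 5) (nat_lit 421) (nat_lit 370) (nat_lit 229))) (XT.nd (nat_lit 78) (nat_lit 304) (nat_lit 0) (XT.lf (nat_lit 0) (nat_lit 12162528802) (nat_lit 380) (nat_lit 10202897770) (nat_lit 76) (nat_lit 1020193626) (nat_lit 235) (nat_lit 5) (nat_lit 240) (nat_lit 5) (nat_lit 236) (nat_lit 5) (nat_lit 422) (nat_lit 370) (nat_lit 228)) (XT.lf (nat_lit 0) (nat_lit 4238453951) (nat_lit 304) (nat_lit 13494416315) (nat_lit 380) (nat_lit 6072065512) (nat_lit 231) (nat_lit 5) (nat_lit 235) (nat_lit 5) (nat_lit 236) (nat_lit 5) (nat_lit 423) (nat_lit 370) (nat_lit 227)))) (XT.nd (nat_lit 156) (nat_lit 304) (nat_lit 0) (XT.nd (nat_lit 78) (nat_lit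 380) (nat_lit 0) (XT.lf (nat_lit 0) (nat_lit 19309888363) (nat_lit 304) (nat_lit 4255266447) (nat_lit 380) (nat_lit 668831029) (nat_lit 231) (nat_lit 5) (nat_lit 235) (nat_lit 5) (nat_lit 236) (nat_lit 5) (nat_lit 424) (nat_lit 370) (nat_lit 226)) (XT.lf (nat_lit 0) (nat_lit 4943899001) (nat_lit 380) (nat_lit 14424386863) (nat_lit 76) (nat_lit 5301921089) (nat_lit 226) (nat_lit 5) (nat_lit 231) (nat_lit 5) (nat_lit 227) (nat_lit 5) (nat_lit 425) (nat_lit 370) (nat_lit 225))) (XT.nd (nat_lit 78) (nat_lit 0) (nat_lit 0) (XT.lf (nat_lit 0) (nat_lit 808085867) (nat_lit 304) (nat_lit 9995640621) (nat_lit 380) (nat_lit 14312824796) (nat_lit 222) (nat_lit 5) (nat_lit 226) (nat_lit 5) (nat_lit 227) (nat_lit 5) (nat_lit 426) (nat_lit 370) (nat_lit 224)) (XT.lf (nat_lit 0) (nat_lit 16781149651) (nat_lit 304) (nat_lit 196016098) (nat_lit 380) (nat_lit 8594985688) (nat_lit 222) (nat_lit 5) (nat_lit 226) (nat_lit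 5) (nat_lit 227) (nat_lit 5) (nat_lit 427) (nat_lit 370) (nat_lit 223))))) (XT.nd (nat_lit 312) (nat_lit 608) (nat_lit 0) (XT.nd (nat_lit 156) (nat_lit 532) (nat_lit 0) (XT.nd (nat_lit 78) (nat_lit 76) (nat_lit 0) (XT.lf (nat_lit 0) (nat_lit 7225941827) (nat_lit 228) (nat_lit 16266816142) (nat_lit 304) (nat_lit 2543953132) (nat_lit 219) (nat_lit 5) (nat_lit 222) (nat_lit 5) (nat_lit 223) (nat_lit 5) (nat_lit 428) (nat_lit 370) (nat_lit 222)) (XT.lf (nat_lit 0) (nat_lit 3700606608) (nat_lit 304) (nat_lit 2659161784) (nat_lit 76) (nat_lit 20151856219) (nat_lit 218) (nat_lit 5) (nat_lit 222) (nat_lit 5) (nat_lit 219) (nat_lit 5) (nat_lit 429) (nat_lit 370) (nat_lit 221))) (XT.nd (nat_lit 78) (nat_lit 228) (nat_lit 0) (XT.lf (nat_lit 0) (nat_lit 10249163320) (nat_lit 380) (nat_lit 12817019022) (nat_lit 76) (nat_lit 3928813822) (nat_lit 214) (nat_lit 5) (nat_lit 219) (nat_lit 5) (nat_lit 215) (nat_lit 5)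 (nat_lit 430) (nat_lit 370) (nat_lit 220)) (XT.lf (nat_lit 0) (nat_lit 4087547898) (nat_lit 228) (nat_lit 13028676395) (nat_lit 304) (nat_lit 10372983142) (nat_lit 211) (nat_lit 5) (nat_lit 214) (nat_lit 5) (nat_lit 215) (nat_lit 5) (nat_lit 431) (nat_lit 370) (nat_lit 219)))) (XT.nd (nat_lit 156) (nat_lit 228) (nat_lit 0) (XT.nd (nat_lit 78) (nat_lit 380) (nat_lit 0) (XT.lf (nat_lit 0) (nat_lit 21750444280) (nat_lit 228) (nat_lit 2561051487) (nat_lit 304) (nat_lit 3683083320) (nat_lit 211) (nat_lit 5) (nat_lit 214) (nat_lit 5) (nat_lit 215) (nat_lit 5) (nat_lit 432) (nat_lit 370) (nat_lit 218)) (XT.lf (nat_lit 0) (nat_lit 3329854098) (nat_lit 380) (nat_lit 16978904882) (nat_lit 76) (nat_lit 8199880006) (nat_lit 206) (nat_lit 5) (nat_lit 211) (nat_lit 5) (nat_lit 207) (nat_lit 5) (nat_lit 433) (nat_lit 370) (nat_lit 217))) (XT.nd (nat_lit 78) (nat_lit 0) (nat_lit 0) (XT.lf (nat_lit 0) (nat_lit 871745896)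 (nat_lit 228) (nat_lit 9697792435) (nat_lit 304) (nat_lit 18464776816) (nat_lit 203) (nat_lit 5) (nat_lit 206) (nat_lit 5) (nat_lit 207) (nat_lit 5) (nat_lit 434) (nat_lit 370) (nat_lit 216)) (XT.lf (nat_lit 0) (nat_lit 18204427024) (nat_lit 304) (nat_lit 9989646901) (nat_lit 76) (nat_lit 1376347250) (nat_lit 203) (nat_lit 5) (nat_lit 207) (nat_lit 5) (nat_lit 204) (nat_lit 5) (nat_lit 435) (nat_lit 370) (nat_lit 215))))))) (XT.nd (nat_lit 1170) (nat_lit 1824) (nat_lit 0) (XT.nd (nat_lit 546) (nat_lit 1064) (nat_lit 0) (XT.nd (nat_lit 234) (nat_lit 760) (nat_lit 0) (XT.nd (nat_lit 78) (nat_lit 304) (nat_lit 0) (XT.lf (nat_lit 0) (nat_lit 8792899823) (nat_lit 228) (nat_lit 17449230957) (nat_lit 304) (nat_lit 3875266551) (nat_lit 200) (nat_lit 5) (nat_lit 203) (nat_lit 5) (nat_lit 204) (nat_lit 5) (nat_lit 436) (nat_lit 370) (nat_lit 214)) (XT.nd (nat_lit 78) (nat_lit 228) (nat_lit 0) (XT.lf (nat_lit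 0) (nat_lit 3860374809) (nat_lit 304) (nat_lit 2383120425) (nat_lit 76) (nat_lit 24433326282) (nat_lit 199) (nat_lit 5) (nat_lit 203) (nat_lit 5) (nat_lit 200) (nat_lit 5) (nat_lit 437) (nat_lit 370) (nat_lit 213)) (XT.lf (nat_lit 0) (nat_lit 11963998577) (nat_lit 304) (nat_lit 13882805450) (nat_lit 76) (nat_lit 5398659263) (nat_lit 196) (nat_lit 5) (nat_lit 200) (nat_lit 5) (nat_lit 197) (nat_lit 5) (nat_lit 438) (nat_lit 370) (nat_lit 212)))) (XT.nd (nat_lit 156) (nat_lit 532) (nat_lit 0) (XT.nd (nat_lit 78) (nat_lit 0) (nat_lit 0) (XT.lf (nat_lit 0) (nat_lit 5962642420) (nat_lit 228) (nat_lit 14485021523) (nat_lit 304) (nat_lit 11379392388) (nat_lit 193) (nat_lit 5) (nat_lit 196) (nat_lit 5) (nat_lit 197) (nat_lit 5) (nat_lit 439) (nat_lit 370) (nat_lit 211)) (XT.lf (nat_lit 0) (nat_lit 26677270362) (nat_lit 228) (nat_lit 2642340370) (nat_lit 304) (nat_lit 3102473287) (nat_lit 193) (nat_lit 5) (nat_lit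 196) (nat_lit 5) (nat_lit 197) (nat_lit 5) (nat_lit 440) (nat_lit 370) (nat_lit 210))) (XT.nd (nat_lit 78) (nat_lit 228) (nat_lit 0) (XT.lf (nat_lit 0) (nat_lit 5550652785) (nat_lit 304) (nat_lit 17910457818) (nat_lit 76) (nat_lit 9565276625) (nat_lit 189) (nat_lit 5) (nat_lit 193) (nat_lit 5) (nat_lit 190) (nat_lit 5) (nat_lit 441) (nat_lit 370) (nat_lit 209)) (XT.lf (nat_lit 0) (nat_lit 3064911916) (nat_lit 228) (nat_lit 11444062559) (nat_lit 304) (nat_lit 19135684778) (nat_lit 186) (nat_lit 5) (nat_lit 189) (nat_lit 5) (nat_lit 190) (nat_lit 5) (nat_lit 442) (nat_lit 370) (nat_lit 208))))) (XT.nd (nat_lit 312) (nat_lit 608) (nat_lit 0) (XT.nd (nat_lit 156) (nat_lit 304) (nat_lit 0) (XT.nd (nat_lit 78) (nat_lit 152) (nat_lit 0) (XT.lf (nat_lit 0) (nat_lit 23921458715) (nat_lit 304) (nat_lit 9260787756) (nat_lit 76) (nat_lit 1093670579) (nat_lit 186) (nat_lit 5) (nat_lit 190) (nat_lit 5) (nat_lit 187)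 (nat_lit 5) (nat_lit 443) (nat_lit 370) (nat_lit 207)) (XT.lf (nat_lit 0) (nat_lit 12824332801) (nat_lit 152) (nat_lit 21022536837) (nat_lit 228) (nat_lit 1072326381) (nat_lit 184) (nat_lit 5) (nat_lit 186) (nat_lit 5) (nat_lit 187) (nat_lit 5) (nat_lit 444) (nat_lit 370) (nat_lit 206))) (XT.nd (nat_lit 78) (nat_lit 0) (nat_lit 0) (XT.lf (nat_lit 0) (nat_lit 91779388) (nat_lit 228) (nat_lit 8320164841) (nat_lit 304) (nat_lit 27164701950) (nat_lit 180) (nat_lit 5) (nat_lit 183) (nat_lit 5) (nat_lit 184) (nat_lit 5) (nat_lit 445) (nat_lit 370) (nat_lit 205)) (XT.lf (nat_lit 0) (nat_lit 18424323952) (nat_lit 304) (nat_lit 12919197995) (nat_lit 76) (nat_lit 4902025374) (nat_lit 180) (nat_lit 5) (nat_lit 184) (nat_lit 5) (nat_lit 181) (nat_lit 5) (nat_lit 446) (nat_lit 370) (nat_lit 204)))) (XT.nd (nat_lit 156) (nat_lit 380) (nat_lit 0) (XT.nd (nat_lit 78) (nat_lit 76) (nat_lit 0) (XT.lf (nat_lit 0) (nat_lit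 10434580006) (nat_lit 152) (nat_lit 18479372898) (nat_lit 228) (nat_lit 8015256258) (nat_lit 178) (nat_lit 5) (nat_lit 180) (nat_lit 5) (nat_lit 181) (nat_lit 5) (nat_lit 447) (nat_lit 370) (nat_lit 203)) (XT.lf (nat_lit 0) (nat_lit 2170168964) (nat_lit 228) (nat_lit 2907113165) (nat_lit 76) (nat_lit 32551718609) (nat_lit 177) (nat_lit 5) (nat_lit 180) (nat_lit 5) (nat_lit 178) (nat_lit 5) (nat_lit 448) (nat_lit 370) (nat_lit 202))) (XT.nd (nat_lit 78) (nat_lit 152) (nat_lit 0) (XT.lf (nat_lit 0) (nat_lit 12789952422) (nat_lit 304) (nat_lit 16705272898) (nat_lit 76) (nat_lit 8843483145) (nat_lit 174) (nat_lit 5) (nat_lit 178) (nat_lit 5) (nat_lit 175) (nat_lit 5) (nat_lit 449) (nat_lit 370) (nat_lit 201)) (XT.lf (nat_lit 0) (nat_lit 7996597830) (nat_lit 152) (nat_lit 15882927836) (nat_lit 228) (nat_lit 15185645870) (nat_lit 172) (nat_lit 5) (nat_lit 174) (nat_lit 5) (nat_lit 175) (nat_lit 5) (nat_lit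 450) (nat_lit 370) (nat_lit 200)))))) (XT.nd (nat_lit 624) (nat_lit 912) (nat_lit 0) (XT.nd (nat_lit 312) (nat_lit 532) (nat_lit 0) (XT.nd (nat_lit 156) (nat_lit 152) (nat_lit 0) (XT.nd (nat_lit 78) (nat_lit 228) (nat_lit 0) (XT.lf (nat_lit 0) (nat_lit 33772212161) (nat_lit 152) (nat_lit 1692744641) (nat_lit 228) (nat_lit 4343576576) (nat_lit 172) (nat_lit 5) (nat_lit 174) (nat_lit 5) (nat_lit 175) (nat_lit 5) (nat_lit 451) (nat_lit 370) (nat_lit 199)) (XT.lf (nat_lit 0) (nat_lit 7004790808) (nat_lit 228) (nat_lit 20630116054) (nat_lit 76) (nat_lit 12927895628) (nat_lit 169) (nat_lit 5) (nat_lit 172) (nat_lit 5) (nat_lit 170) (nat_lit 5) (nat_lit 452) (nat_lit 370) (nat_lit 198))) (XT.nd (nat_lit 78) (nat_lit 0) (nat_lit 0) (XT.lf (nat_lit 0) (nat_lit 5504062441) (nat_lit 152) (nat_lit 13228086564) (nat_lit 228) (nat_lit 22602485259) (nat_lit 167) (nat_lit 5) (nat_lit 169) (nat_lit 5) (nat_lit 170)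 (nat_lit 5) (nat_lit 453) (nat_lit 370) (nat_lit 197)) (XT.lf (nat_lit 0) (nat_lit 31031839355) (nat_lit 228) (nat_lit 9305385458) (nat_lit 76) (nat_lit 1785780835) (nat_lit 167) (nat_lit 5) (nat_lit 170) (nat_lit 5) (nat_lit 168) (nat_lit 5) (nat_lit 454) (nat_lit 370) (nat_lit 196)))) (XT.nd (nat_lit 156) (nat_lit 152) (nat_lit 0) (XT.nd (nat_lit 78) (nat_lit 152) (nat_lit 0) (XT.lf (nat_lit 0) (nat_lit 1054549509) (nat_lit 228) (nat_lit 24705348083) (nat_lit 76) (nat_lit 17165789988) (nat_lit 164) (nat_lit 5) (nat_lit 167) (nat_lit 5) (nat_lit 165) (nat_lit 5) (nat_lit 455) (nat_lit 370) (nat_lit 195)) (XT.lf (nat_lit 0) (nat_lit 2950425139) (nat_lit 152) (nat_lit 10509355536) (nat_lit 228) (nat_lit 30285832927) (nat_lit 162) (nat_lit 5) (nat_lit 164) (nat_lit 5) (nat_lit 165) (nat_lit 5) (nat_lit 456) (nat_lit 370) (nat_lit 194))) (XT.nd (nat_lit 78) (nat_lit 152) (nat_lit 0) (XT.lf (nat_lit 0)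 (nat_lit 26533917423) (nat_lit 228) (nat_lit 12702172577) (nat_lit 76) (nat_lit 5345144947) (nat_lit 162) (nat_lit 5) (nat_lit 165) (nat_lit 5) (nat_lit 163) (nat_lit 5) (nat_lit 457) (nat_lit 370) (nat_lit 193)) (XT.lf (nat_lit 0) (nat_lit 16441299794) (nat_lit 152) (nat_lit 23816055825) (nat_lit 228) (nat_lit 5176856992) (nat_lit 160) (nat_lit 5) (nat_lit 162) (nat_lit 5) (nat_lit 163) (nat_lit 5) (nat_lit 458) (nat_lit 370) (nat_lit 192))))) (XT.nd (nat_lit 312) (nat_lit 456) (nat_lit 0) (XT.nd (nat_lit 156) (nat_lit 228) (nat_lit 0) (XT.nd (nat_lit 78) (nat_lit 0) (nat_lit 0) (XT.lf (nat_lit 0) (nat_lit 328887118) (nat_lit 152) (nat_lit 7720855189) (nat_lit 228) (nat_lit 38256876601) (nat_lit 157) (nat_lit 5) (nat_lit 159) (nat_lit 5) (nat_lit 160) (nat_lit 5) (nat_lit 459) (nat_lit 370) (nat_lit 191)) (XT.lf (nat_lit 0) (nat_lit 21944911753) (nat_lit 228) (nat_lit 16220182668) (nat_lit 76) (nat_lit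 9027290639) (nat_lit 157) (nat_lit 5) (nat_lit 160) (nat_lit 5) (nat_lit 158) (nat_lit 5) (nat_lit 460) (nat_lit 370) (nat_lit 190))) (XT.nd (nat_lit 78) (nat_lit 76) (nat_lit 0) (XT.lf (nat_lit 0) (nat_lit 14630264001) (nat_lit 152) (nat_lit 21838907485) (nat_lit 228) (nat_lit 11629185654) (nat_lit 155) (nat_lit 5) (nat_lit 157) (nat_lit 5) (nat_lit 158) (nat_lit 5) (nat_lit 461) (nat_lit 370) (nat_lit 189)) (XT.lf (nat_lit 0) (nat_lit 2511442839) (nat_lit 228) (nat_lit 2321425280) (nat_lit 76) (nat_lit 44193131461) (nat_lit 154) (nat_lit 5) (nat_lit 157) (nat_lit 5) (nat_lit 155) (nat_lit 5) (nat_lit 462) (nat_lit 370) (nat_lit 188)))) (XT.nd (nat_lit 156) (nat_lit 152) (nat_lit 0) (XT.nd (nat_lit 78) (nat_lit 152) (nat_lit 0) (XT.lf (nat_lit 0) (nat_lit 17254308050) (nat_lit 228) (nat_lit 19869650752) (nat_lit 76) (nat_lit 12841705688) (nat_lit 152) (nat_lit 5) (nat_lit 155) (nat_lit 5) (nat_lit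 153) (nat_lit 5) (nat_lit 463) (nat_lit 370) (nat_lit 187)) (XT.lf (nat_lit 0) (nat_lit 12793673571) (nat_lit 152) (nat_lit 19835613599) (nat_lit 228) (nat_lit 18298537342) (nat_lit 150) (nat_lit 5) (nat_lit 152) (nat_lit 5) (nat_lit 153) (nat_lit 5) (nat_lit 464) (nat_lit 370) (nat_lit 186))) (XT.nd (nat_lit 78) (nat_lit 152) (nat_lit 0) (XT.lf (nat_lit 0) (nat_lit 46835649125) (nat_lit 152) (nat_lit 1825888228) (nat_lit 228) (nat_lit 3251431328) (nat_lit 150) (nat_lit 5) (nat_lit 152) (nat_lit 5) (nat_lit 153) (nat_lit 5) (nat_lit 465) (nat_lit 370) (nat_lit 185)) (XT.lf (nat_lit 0) (nat_lit 12451056441) (nat_lit 152) (nat_lit 23661312143) (nat_lit 76) (nat_lit 16798478195) (nat_lit 148) (nat_lit 5) (nat_lit 150) (nat_lit 5) (nat_lit 149) (nat_lit 5) (nat_lit 466) (nat_lit 370) (nat_lit 184))))))))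
noncomputable def xc168 : XT := (XT.nd (nat_lit 46176) (nat_lit 0) (nat_lit 12464) (XT.nd (nat_lit 1170) (nat_lit 836) (nat_lit 0) (XT.nd (nat_lit 546) (nat_lit 684) (nat_lit 0) (XT.nd (nat_lit 234) (nat_lit 456) (nat_lit 0) (XT.nd (nat_lit 78) (nat_lit 152) (nat_lit 0) (XT.lf (nat_lit 0) (nat_lit 10927189070) (nat_lit 152) (nat_lit 17802457362) (nat_lit 228) (nat_lit 25202937674) (nat_lit 146) (nat_lit 5) (nat_lit 148) (nat_lit 5) (nat_lit 149) (nat_lit 5) (nat_lit 467) (nat_lit 370) (nat_lit 183)) (XT.nd (nat_lit 78) (nat_lit 152) (nat_lit 0) (XT.lf (nat_lit 0) (nat_lit 45743547744) (nat_lit 228) (nat_lit 7960377760) (nat_lit 76) (nat_lit 1273639438) (nat_lit 146) (nat_lit 5) (nat_lit 149) (nat_lit 5) (nat_lit 147) (nat_lit 4) (nat_lit 468) (nat_lit 370) (nat_lit 182)) (XT.lf (nat_lit 0) (nat_lit 7523540259) (nat_lit 152) (nat_lit 27606440951) (nat_lit 76) (nat_lit 20908323443) (nat_lit 144) (nat_lit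 5) (nat_lit 146) (nat_lit 5) (nat_lit 145) (nat_lit 5) (nat_lit 469) (nat_lit 370) (nat_lit 181)))) (XT.nd (nat_lit 156) (nat_lit 304) (nat_lit 0) (XT.nd (nat_lit 78) (nat_lit 0) (nat_lit 0) (XT.lf (nat_lit 0) (nat_lit 9026322988) (nat_lit 152) (nat_lit 15735488249) (nat_lit 228) (nat_lit 32361405099) (nat_lit 142) (nat_lit 5) (nat_lit 144) (nat_lit 5) (nat_lit 145) (nat_lit 5) (nat_lit 470) (nat_lit 370) (nat_lit 180)) (XT.lf (nat_lit 0) (nat_lit 42835174438) (nat_lit 228) (nat_lit 10960064429) (nat_lit 76) (nat_lit 4435898181) (nat_lit 142) (nat_lit 5) (nat_lit 145) (nat_lit 5) (nat_lit 143) (nat_lit 4) (nat_lit 471) (nat_lit 370) (nat_lit 179))) (XT.nd (nat_lit 78) (nat_lit 152) (nat_lit 0) (XT.lf (nat_lit 0) (nat_lit 2459542394) (nat_lit 152) (nat_lit 31716890201) (nat_lit 76) (nat_lit 25182613693) (nat_lit 140) (nat_lit 5) (nat_lit 142) (nat_lit 5) (nat_lit 141) (nat_lit 5) (nat_lit 472) (nat_lit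 370) (nat_lit 178)) (XT.lf (nat_lit 0) (nat_lit 7086423424) (nat_lit 152) (nat_lit 13630515718) (nat_lit 228) (nat_lit 39794010499) (nat_lit 138) (nat_lit 5) (nat_lit 140) (nat_lit 5) (nat_lit 141) (nat_lit 5) (nat_lit 473) (nat_lit 370) (nat_lit 177))))) (XT.nd (nat_lit 312) (nat_lit 380) (nat_lit 0) (XT.nd (nat_lit 156) (nat_lit 228) (nat_lit 0) (XT.nd (nat_lit 78) (nat_lit 76) (nat_lit 0) (XT.lf (nat_lit 0) (nat_lit 39913698863) (nat_lit 228) (nat_lit 14067350991) (nat_lit 76) (nat_lit 7704611007) (nat_lit 138) (nat_lit 5) (nat_lit 141) (nat_lit 5) (nat_lit 139) (nat_lit 4) (nat_lit 474) (nat_lit 370) (nat_lit 176)) (XT.lf (nat_lit 0) (nat_lit 26851812155) (nat_lit 76) (nat_lit 33223534974) (nat_lit 152) (nat_lit 2808596717) (nat_lit 137) (nat_lit 5) (nat_lit 138) (nat_lit 5) (nat_lit 139) (nat_lit 4) (nat_lit 475) (nat_lit 370) (nat_lit 175))) (XT.nd (nat_lit 78) (nat_lit 0) (nat_lit 0) (XT.lf (nat_lit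 0) (nat_lit 5102657416) (nat_lit 152) (nat_lit 11483101433) (nat_lit 228) (nat_lit 47521940877) (nat_lit 134) (nat_lit 5) (nat_lit 136) (nat_lit 5) (nat_lit 137) (nat_lit 5) (nat_lit 476) (nat_lit 370) (nat_lit 174)) (XT.lf (nat_lit 0) (nat_lit 36973750115) (nat_lit 228) (nat_lit 17291181344) (nat_lit 76) (nat_lit 11088354936) (nat_lit 134) (nat_lit 5) (nat_lit 137) (nat_lit 5) (nat_lit 135) (nat_lit 4) (nat_lit 477) (nat_lit 370) (nat_lit 173)))) (XT.nd (nat_lit 156) (nat_lit 76) (nat_lit 0) (XT.nd (nat_lit 78) (nat_lit 228) (nat_lit 0) (XT.lf (nat_lit 0) (nat_lit 26061416961) (nat_lit 76) (nat_lit 32272224502) (nat_lit 152) (nat_lit 8291791389) (nat_lit 133) (nat_lit 5) (nat_lit 134) (nat_lit 5) (nat_lit 135) (nat_lit 4) (nat_lit 478) (nat_lit 370) (nat_lit 172)) (XT.lf (nat_lit 0) (nat_lit 3069993849) (nat_lit 152) (nat_lit 9288550061) (nat_lit 228) (nat_lit 55567567336) (nat_lit 130) (nat_lit 5)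 (nat_lit 132) (nat_lit 5) (nat_lit 133) (nat_lit 5) (nat_lit 479) (nat_lit 370) (nat_lit 171))) (XT.nd (nat_lit 78) (nat_lit 76) (nat_lit 0) (XT.lf (nat_lit 0) (nat_lit 34009740620) (nat_lit 228) (nat_lit 20640951651) (nat_lit 76) (nat_lit 14596214568) (nat_lit 130) (nat_lit 5) (nat_lit 133) (nat_lit 5) (nat_lit 131) (nat_lit 4) (nat_lit 480) (nat_lit 370) (nat_lit 170)) (XT.lf (nat_lit 0) (nat_lit 25294968943) (nat_lit 76) (nat_lit 31346797158) (nat_lit 152) (nat_lit 13955621413) (nat_lit 129) (nat_lit 5) (nat_lit 130) (nat_lit 5) (nat_lit 131) (nat_lit 4) (nat_lit 481) (nat_lit 370) (nat_lit 169)))))) (XT.nd (nat_lit 546) (nat_lit 228) (nat_lit 0) (XT.nd (nat_lit 234) (nat_lit 304) (nat_lit 0) (XT.nd (nat_lit 78) (nat_lit 76) (nat_lit 0) (XT.lf (nat_lit 0) (nat_lit 983185834) (nat_lit 152) (nat_lit 7041898644) (nat_lit 228) (nat_lit 63954517530) (nat_lit 126) (nat_lit 5) (nat_lit 128) (nat_lit 5)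 (nat_lit 129) (nat_lit 5) (nat_lit 482) (nat_lit 370) (nat_lit 168)) (XT.nd (nat_lit 78) (nat_lit 76) (nat_lit 0) (XT.lf (nat_lit 0) (nat_lit 31015852266) (nat_lit 228) (nat_lit 24126543115) (nat_lit 76) (nat_lit 18237808277) (nat_lit 126) (nat_lit 5) (nat_lit 129) (nat_lit 5) (nat_lit 127) (nat_lit 4) (nat_lit 483) (nat_lit 370) (nat_lit 167)) (XT.lf (nat_lit 0) (nat_lit 24551667354) (nat_lit 76) (nat_lit 30446702571) (nat_lit 152) (nat_lit 19815392626) (nat_lit 125) (nat_lit 5) (nat_lit 126) (nat_lit 5) (nat_lit 127) (nat_lit 4) (nat_lit 484) (nat_lit 370) (nat_lit 166)))) (XT.nd (nat_lit 156) (nat_lit 76) (nat_lit 0) (XT.nd (nat_lit 78) (nat_lit 152) (nat_lit 0) (XT.lf (nat_lit 0) (nat_lit 3585838917) (nat_lit 152) (nat_lit 1140548361) (nat_lit 76) (nat_lit 71555687170) (nat_lit 124) (nat_lit 5) (nat_lit 126) (nat_lit 5) (nat_lit 125) (nat_lit 5) (nat_lit 485) (nat_lit 370) (nat_lit 165)) (XT.lf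 (nat_lit 0) (nat_lit 27986021414) (nat_lit 228) (nat_lit 27758356314) (nat_lit 76) (nat_lit 22023316700) (nat_lit 122) (nat_lit 5) (nat_lit 125) (nat_lit 5) (nat_lit 123) (nat_lit 4) (nat_lit 486) (nat_lit 370) (nat_lit 164))) (XT.nd (nat_lit 78) (nat_lit 0) (nat_lit 0) (XT.lf (nat_lit 0) (nat_lit 23830746284) (nat_lit 76) (nat_lit 29571383704) (nat_lit 152) (nat_lit 25887235403) (nat_lit 121) (nat_lit 5) (nat_lit 122) (nat_lit 5) (nat_lit 123) (nat_lit 4) (nat_lit 487) (nat_lit 370) (nat_lit 163)) (XT.lf (nat_lit 0) (nat_lit 77529677722) (nat_lit 76) (nat_lit 2327805074) (nat_lit 152) (nat_lit 990900856) (nat_lit 121) (nat_lit 5) (nat_lit 122) (nat_lit 5) (nat_lit 123) (nat_lit 4) (nat_lit 488) (nat_lit 370) (nat_lit 162))))) (XT.nd (nat_lit 44148) (nat_lit 0) (nat_lit 20824) (XT.nd (nat_lit 43992) (nat_lit 0) (nat_lit 20748) (XT.nd (nat_lit 43914) (nat_lit 0) (nat_lit 20748) (XT.lf (nat_lit 0) (nat_lit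 24913922794) (nat_lit 228) (nat_lit 31547347236) (nat_lit 76) (nat_lit 25963513594) (nat_lit 118) (nat_lit 5) (nat_lit 121) (nat_lit 5) (nat_lit 119) (nat_lit 4) (nat_lit 489) (nat_lit 370) (nat_lit 161)) (XT.lf (nat_lit 0) (nat_lit 617032301) (nat_lit 0) (nat_lit 617032301) (nat_lit 1140) (nat_lit 4053108353) (nat_lit 391) (nat_lit 5) (nat_lit 391) (nat_lit 3) (nat_lit 406) (nat_lit 3) (nat_lit 371) (nat_lit 371) (nat_lit 278))) (XT.nd (nat_lit 78) (nat_lit 0) (nat_lit 0) (XT.lf (nat_lit 0) (nat_lit 3166744017) (nat_lit 1140) (nat_lit 4080869805) (nat_lit 1216) (nat_lit 3465499491) (nat_lit 391) (nat_lit 5) (nat_lit 406) (nat_lit 3) (nat_lit 407) (nat_lit 5) (nat_lit 372) (nat_lit 371) (nat_lit 277)) (XT.lf (nat_lit 76) (nat_lit 1337097545) (nat_lit 0) (nat_lit 2549914764) (nat_lit 1216) (nat_lit 6969010578) (nat_lit 392) (nat_lit 5) (nat_lit 391) (nat_lit 5) (nat_lit 407) (nat_lit 5) (nat_lit 373)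 (nat_lit 371) (nat_lit 276)))) (XT.nd (nat_lit 156) (nat_lit 0) (nat_lit 76) (XT.nd (nat_lit 78) (nat_lit 0) (nat_lit 0) (XT.lf (nat_lit 0) (nat_lit 4668818862) (nat_lit 1140) (nat_lit 4036923218) (nat_lit 1216) (nat_lit 2296279762) (nat_lit 392) (nat_lit 5) (nat_lit 407) (nat_lit 5) (nat_lit 408) (nat_lit 5) (nat_lit 374) (nat_lit 371) (nat_lit 275)) (XT.lf (nat_lit 76) (nat_lit 1602169058) (nat_lit 0) (nat_lit 3889561066) (nat_lit 1216) (nat_lit 5660141125) (nat_lit 393) (nat_lit 5) (nat_lit 392) (nat_lit 5) (nat_lit 408) (nat_lit 5) (nat_lit 375) (nat_lit 371) (nat_lit 274))) (XT.nd (nat_lit 78) (nat_lit 0) (nat_lit 0) (XT.lf (nat_lit 0) (nat_lit 6368427091) (nat_lit 1140) (nat_lit 3836523993) (nat_lit 1216) (nat_lit 1100392103) (nat_lit 393) (nat_lit 5) (nat_lit 408) (nat_lit 5) (nat_lit 409) (nat_lit 5) (nat_lit 376) (nat_lit 371) (nat_lit 273)) (XT.lf (nat_lit 76) (nat_lit 2035652105) (nat_lit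 0) (nat_lit 5272136372) (nat_lit 1216) (nat_lit 4154539902) (nat_lit 394) (nat_lit 5) (nat_lit 393) (nat_lit 5) (nat_lit 409) (nat_lit 5) (nat_lit 377) (nat_lit 371) (nat_lit 272))))))) (XT.nd (nat_lit 1170) (nat_lit 4864) (nat_lit 0) (XT.nd (nat_lit 546) (nat_lit 2508) (nat_lit 0) (XT.nd (nat_lit 234) (nat_lit 1064) (nat_lit 0) (XT.nd (nat_lit 78) (nat_lit 0) (nat_lit 76) (XT.lf (nat_lit 76) (nat_lit 8149162052) (nat_lit 0) (nat_lit 143698025) (nat_lit 1216) (nat_lit 3330637169) (nat_lit 394) (nat_lit 5) (nat_lit 393) (nat_lit 5) (nat_lit 409) (nat_lit 5) (nat_lit 378) (nat_lit 371) (nat_lit 271)) (XT.nd (nat_lit 78) (nat_lit 0) (nat_lit 0) (XT.lf (nat_lit 76) (nat_lit 2645020780) (nat_lit 0) (nat_lit 6716761926) (nat_lit 1216) (nat_lit 2426089505) (nat_lit 395) (nat_lit 5) (nat_lit 394) (nat_lit 5) (nat_lit 410) (nat_lit 5) (nat_lit 379) (nat_lit 371) (nat_lit 270)) (XT.lf (nat_lit 76) (nat_lit 9004087953)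 (nat_lit 0) (nat_lit 1475122481) (nat_lit 1216) (nat_lit 1477474869) (nat_lit 395) (nat_lit 5) (nat_lit 394) (nat_lit 5) (nat_lit 410) (nat_lit 5) (nat_lit 380) (nat_lit 371) (nat_lit 269)))) (XT.nd (nat_lit 156) (nat_lit 0) (nat_lit 76) (XT.nd (nat_lit 78) (nat_lit 1216) (nat_lit 0) (XT.lf (nat_lit 76) (nat_lit 3438865719) (nat_lit 0) (nat_lit 8242658059) (nat_lit 1216) (nat_lit 447498127) (nat_lit 396) (nat_lit 5) (nat_lit 395) (nat_lit 5) (nat_lit 411) (nat_lit 5) (nat_lit 381) (nat_lit 371) (nat_lit 268)) (XT.lf (nat_lit 0) (nat_lit 626958493) (nat_lit 1216) (nat_lit 2257963604) (nat_lit 1292) (nat_lit 9420663129) (nat_lit 379) (nat_lit 5) (nat_lit 395) (nat_lit 5) (nat_lit 396) (nat_lit 5) (nat_lit 382) (nat_lit 371) (nat_lit 267))) (XT.nd (nat_lit 78) (nat_lit 0) (nat_lit 0) (XT.lf (nat_lit 0) (nat_lit 1774512708) (nat_lit 1216) (nat_lit 8076820676) (nat_lit 1292) (nat_lit 2634483396) (nat_lit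 380) (nat_lit 5) (nat_lit 396) (nat_lit 5) (nat_lit 397) (nat_lit 5) (nat_lit 383) (nat_lit 371) (nat_lit 266)) (XT.lf (nat_lit 0) (nat_lit 2989931813) (nat_lit 1216) (nat_lit 1391485037) (nat_lit 1292) (nat_lit 8289035285) (nat_lit 380) (nat_lit 5) (nat_lit 396) (nat_lit 5) (nat_lit 397) (nat_lit 5) (nat_lit 384) (nat_lit 371) (nat_lit 265))))) (XT.nd (nat_lit 312) (nat_lit 1520) (nat_lit 0) (XT.nd (nat_lit 156) (nat_lit 1140) (nat_lit 0) (XT.nd (nat_lit 78) (nat_lit 0) (nat_lit 0) (XT.lf (nat_lit 0) (nat_lit 4290531806) (nat_lit 1216) (nat_lit 7282429045) (nat_lit 1292) (nat_lit 1286204149) (nat_lit 381) (nat_lit 5) (nat_lit 397) (nat_lit 5) (nat_lit 398) (nat_lit 5) (nat_lit 385) (nat_lit 371) (nat_lit 264)) (XT.lf (nat_lit 0) (nat_lit 5670514224) (nat_lit 1216) (nat_lit 328288814) (nat_lit 1292) (nat_lit 7053525280) (nat_lit 381) (nat_lit 5) (nat_lit 397) (nat_lit 5) (nat_lit 398) (nat_lit 5) (nat_lit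 386) (nat_lit 371) (nat_lit 263))) (XT.nd (nat_lit 78) (nat_lit 1140) (nat_lit 0) (XT.lf (nat_lit 76) (nat_lit 6956454829) (nat_lit 0) (nat_lit 185605808) (nat_lit 1292) (nat_lit 6107720964) (nat_lit 382) (nat_lit 5) (nat_lit 381) (nat_lit 5) (nat_lit 398) (nat_lit 5) (nat_lit 387) (nat_lit 371) (nat_lit 262)) (XT.lf (nat_lit 0) (nat_lit 962235007) (nat_lit 1216) (nat_lit 7747564655) (nat_lit 1292) (nat_lit 4741797434) (nat_lit 366) (nat_lit 5) (nat_lit 382) (nat_lit 5) (nat_lit 383) (nat_lit 5) (nat_lit 388) (nat_lit 371) (nat_lit 261)))) (XT.nd (nat_lit 156) (nat_lit 684) (nat_lit 0) (XT.nd (nat_lit 78) (nat_lit 836) (nat_lit 0) (XT.lf (nat_lit 0) (nat_lit 8548587181) (nat_lit 1216) (nat_lit 1825370858) (nat_lit 1292) (nat_lit 3284027400) (nat_lit 366) (nat_lit 5) (nat_lit 382) (nat_lit 5) (nat_lit 383) (nat_lit 5) (nat_lit 389) (nat_lit 371) (nat_lit 260)) (XT.lf (nat_lit 0) (nat_lit 2485287258)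 (nat_lit 836) (nat_lit 9652234204) (nat_lit 912) (nat_lit 1731559562) (nat_lit 355) (nat_lit 5) (nat_lit 366) (nat_lit 5) (nat_lit 367) (nat_lit 5) (nat_lit 390) (nat_lit 371) (nat_lit 259))) (XT.nd (nat_lit 78) (nat_lit 684) (nat_lit 0) (XT.lf (nat_lit 0) (nat_lit 10380171286) (nat_lit 836) (nat_lit 3628129744) (nat_lit 912) (nat_lit 76579169) (nat_lit 355) (nat_lit 5) (nat_lit 366) (nat_lit 5) (nat_lit 367) (nat_lit 5) (nat_lit 391) (nat_lit 371) (nat_lit 258)) (XT.lf (nat_lit 0) (nat_lit 1647669337) (nat_lit 684) (nat_lit 10072884007) (nat_lit 76) (nat_lit 2584588877) (nat_lit 346) (nat_lit 5) (nat_lit 355) (nat_lit 5) (nat_lit 347) (nat_lit 5) (nat_lit 392) (nat_lit 371) (nat_lit 257)))))) (XT.nd (nat_lit 624) (nat_lit 2508) (nat_lit 0) (XT.nd (nat_lit 312) (nat_lit 1216) (nat_lit 0) (XT.nd (nat_lit 156) (nat_lit 532) (nat_lit 0) (XT.nd (nat_lit 78) (nat_lit 608) (nat_lit 0) (XT.lf (nat_lit 0) (nat_lit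 3481234017) (nat_lit 684) (nat_lit 2098810607) (nat_lit 76) (nat_lit 8950170895) (nat_lit 346) (nat_lit 5) (nat_lit 355) (nat_lit 5) (nat_lit 347) (nat_lit 5) (nat_lit 393) (nat_lit 371) (nat_lit 256)) (XT.lf (nat_lit 0) (nat_lit 5423221026) (nat_lit 684) (nat_lit 8546259137) (nat_lit 76) (nat_lit 790958393) (nat_lit 338) (nat_lit 5) (nat_lit 347) (nat_lit 5) (nat_lit 339) (nat_lit 5) (nat_lit 394) (nat_lit 371) (nat_lit 255))) (XT.nd (nat_lit 78) (nat_lit 532) (nat_lit 0) (XT.lf (nat_lit 0) (nat_lit 7486252936) (nat_lit 684) (nat_lit 246826880) (nat_lit 76) (nat_lit 7262604908) (nat_lit 338) (nat_lit 5) (nat_lit 347) (nat_lit 5) (nat_lit 339) (nat_lit 5) (nat_lit 395) (nat_lit 371) (nat_lit 254)) (XT.lf (nat_lit 0) (nat_lit 8452924360) (nat_lit 532) (nat_lit 1226043609) (nat_lit 608) (nat_lit 5556986544) (nat_lit 331) (nat_lit 5) (nat_lit 338) (nat_lit 5) (nat_lit 339) (nat_lit 5) (nat_lit 396) (nat_lit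 371) (nat_lit 253)))) (XT.nd (nat_lit 156) (nat_lit 608) (nat_lit 0) (XT.nd (nat_lit 78) (nat_lit 0) (nat_lit 0) (XT.lf (nat_lit 0) (nat_lit 1906027515) (nat_lit 608) (nat_lit 10091713982) (nat_lit 684) (nat_lit 3483882586) (nat_lit 323) (nat_lit 5) (nat_lit 331) (nat_lit 5) (nat_lit 332) (nat_lit 5) (nat_lit 397) (nat_lit 371) (nat_lit 252)) (XT.lf (nat_lit 0) (nat_lit 10968686862) (nat_lit 608) (nat_lit 3484956600) (nat_lit 684) (nat_lit 1278993323) (nat_lit 323) (nat_lit 5) (nat_lit 331) (nat_lit 5) (nat_lit 332) (nat_lit 5) (nat_lit 398) (nat_lit 371) (nat_lit 251))) (XT.nd (nat_lit 78) (nat_lit 0) (nat_lit 0) (XT.lf (nat_lit 0) (nat_lit 1034451231) (nat_lit 608) (nat_lit 11648148918) (nat_lit 76) (nat_lit 3306440626) (nat_lit 315) (nat_lit 5) (nat_lit 323) (nat_lit 5) (nat_lit 316) (nat_lit 5) (nat_lit 399) (nat_lit 371) (nat_lit 250)) (XT.lf (nat_lit 0) (nat_lit 3462213501) (nat_lit 608) (nat_lit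 2496621069) (nat_lit 76) (nat_lit 10291803790) (nat_lit 315) (nat_lit 5) (nat_lit 323) (nat_lit 5) (nat_lit 316) (nat_lit 5) (nat_lit 400) (nat_lit 371) (nat_lit 249))))) (XT.nd (nat_lit 312) (nat_lit 988) (nat_lit 0) (XT.nd (nat_lit 156) (nat_lit 532) (nat_lit 0) (XT.nd (nat_lit 78) (nat_lit 456) (nat_lit 0) (XT.lf (nat_lit 0) (nat_lit 6028460209) (nat_lit 608) (nat_lit 9474684198) (nat_lit 76) (nat_lit 1014969918) (nat_lit 308) (nat_lit 5) (nat_lit 316) (nat_lit 5) (nat_lit 309) (nat_lit 5) (nat_lit 401) (nat_lit 371) (nat_lit 248)) (XT.lf (nat_lit 0) (nat_lit 56224791) (nat_lit 456) (nat_lit 8688576865) (nat_lit 532) (nat_lit 8046619693) (nat_lit 302) (nat_lit 5) (nat_lit 308) (nat_lit 5) (nat_lit 309) (nat_lit 5) (nat_lit 402) (nat_lit 371) (nat_lit 247))) (XT.nd (nat_lit 78) (nat_lit 532) (nat_lit 0) (XT.lf (nat_lit 0) (nat_lit 10053789103) (nat_lit 456) (nat_lit 1572844556) (nat_lit 532) (nat_lit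 5443773916) (nat_lit 302) (nat_lit 5) (nat_lit 308) (nat_lit 5) (nat_lit 309) (nat_lit 5) (nat_lit 403) (nat_lit 371) (nat_lit 246)) (XT.lf (nat_lit 0) (nat_lit 2982967999) (nat_lit 532) (nat_lit 11684608058) (nat_lit 608) (nat_lit 2688007667) (nat_lit 295) (nat_lit 5) (nat_lit 302) (nat_lit 5) (nat_lit 303) (nat_lit 5) (nat_lit 404) (nat_lit 371) (nat_lit 245)))) (XT.nd (nat_lit 156) (nat_lit 456) (nat_lit 0) (XT.nd (nat_lit 78) (nat_lit 456) (nat_lit 0) (XT.lf (nat_lit 0) (nat_lit 223364598) (nat_lit 608) (nat_lit 4252050199) (nat_lit 76) (nat_lit 13171580924) (nat_lit 294) (nat_lit 5) (nat_lit 302) (nat_lit 5) (nat_lit 295) (nat_lit 5) (nat_lit 405) (nat_lit 371) (nat_lit 244)) (XT.lf (nat_lit 0) (nat_lit 3246436816) (nat_lit 532) (nat_lit 11719628919) (nat_lit 76) (nat_lit 2977934373) (nat_lit 288) (nat_lit 5) (nat_lit 295) (nat_lit 5) (nat_lit 289) (nat_lit 5) (nat_lit 406) (nat_lit 371) (nat_lit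 243))) (XT.nd (nat_lit 78) (nat_lit 456) (nat_lit 0) (XT.lf (nat_lit 0) (nat_lit 6437114664) (nat_lit 532) (nat_lit 1204408968) (nat_lit 76) (nat_lit 10606083591) (nat_lit 288) (nat_lit 5) (nat_lit 295) (nat_lit 5) (nat_lit 289) (nat_lit 5) (nat_lit 407) (nat_lit 371) (nat_lit 242)) (XT.lf (nat_lit 0) (nat_lit 9804685133) (nat_lit 456) (nat_lit 2629677) (nat_lit 532) (nat_lit 8750493683) (nat_lit 282) (nat_lit 5) (nat_lit 288) (nat_lit 5) (nat_lit 289) (nat_lit 5) (nat_lit 408) (nat_lit 371) (nat_lit 241))))))))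
noncomputable def xc169 : XT := (XT.nd (nat_lit 2340) (nat_lit 4028) (nat_lit 0) (XT.nd (nat_lit 1170) (nat_lit 2736) (nat_lit 0) (XT.nd (nat_lit 546) (nat_lit 1900) (nat_lit 0) (XT.nd (nat_lit 234) (nat_lit 760) (nat_lit 0) (XT.nd (nat_lit 78) (nat_lit 532) (nat_lit 0) (XT.lf (nat_lit 0) (nat_lit 2246842148) (nat_lit 380) (nat_lit 11130977326) (nat_lit 456) (nat_lit 5496520371) (nat_lit 277) (nat_lit 5) (nat_lit 282) (nat_lit 5) (nat_lit 283) (nat_lit 5) (nat_lit 409) (nat_lit 371) (nat_lit 240)) (XT.nd (nat_lit 78) (nat_lit 532) (nat_lit 0) (XT.lf (nat_lit 0) (nat_lit 13743274191) (nat_lit 380) (nat_lit 3390466161) (nat_lit 456) (nat_lit 2064277753) (nat_lit 277) (nat_lit 5) (nat_lit 282) (nat_lit 5) (nat_lit 283) (nat_lit 5) (nat_lit 410) (nat_lit 371) (nat_lit 239)) (XT.lf (nat_lit 0) (nat_lit 1536138711) (nat_lit 532) (nat_lit 13428021549) (nat_lit 76) (nat_lit 4564004976) (nat_lit 270) (nat_lit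 5) (nat_lit 277) (nat_lit 5) (nat_lit 271) (nat_lit 5) (nat_lit 411) (nat_lit 371) (nat_lit 238)))) (XT.nd (nat_lit 156) (nat_lit 380) (nat_lit 0) (XT.nd (nat_lit 78) (nat_lit 380) (nat_lit 0) (XT.lf (nat_lit 0) (nat_lit 5282497265) (nat_lit 532) (nat_lit 1820518830) (nat_lit 76) (nat_lit 12762204947) (nat_lit 270) (nat_lit 5) (nat_lit 277) (nat_lit 5) (nat_lit 271) (nat_lit 5) (nat_lit 412) (nat_lit 371) (nat_lit 237)) (XT.lf (nat_lit 0) (nat_lit 9241504414) (nat_lit 456) (nat_lit 9896054752) (nat_lit 76) (nat_lit 1071821622) (nat_lit 265) (nat_lit 5) (nat_lit 271) (nat_lit 5) (nat_lit 266) (nat_lit 5) (nat_lit 413) (nat_lit 371) (nat_lit 236))) (XT.nd (nat_lit 78) (nat_lit 0) (nat_lit 0) (XT.lf (nat_lit 0) (nat_lit 2245858339) (nat_lit 380) (nat_lit 11174540173) (nat_lit 456) (nat_lit 7140433312) (nat_lit 260) (nat_lit 5) (nat_lit 265) (nat_lit 5) (nat_lit 266) (nat_lit 5) (nat_lit 414) (nat_lit 371)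 (nat_lit 235)) (XT.lf (nat_lit 0) (nat_lit 14942363429) (nat_lit 380) (nat_lit 2873014698) (nat_lit 456) (nat_lit 3104726703) (nat_lit 260) (nat_lit 5) (nat_lit 265) (nat_lit 5) (nat_lit 266) (nat_lit 5) (nat_lit 415) (nat_lit 371) (nat_lit 234))))) (XT.nd (nat_lit 312) (nat_lit 760) (nat_lit 0) (XT.nd (nat_lit 156) (nat_lit 684) (nat_lit 0) (XT.nd (nat_lit 78) (nat_lit 0) (nat_lit 0) (XT.lf (nat_lit 0) (nat_lit 1143541458) (nat_lit 456) (nat_lit 14502806007) (nat_lit 76) (nat_lit 5640144584) (nat_lit 254) (nat_lit 5) (nat_lit 260) (nat_lit 5) (nat_lit 255) (nat_lit 5) (nat_lit 416) (nat_lit 371) (nat_lit 233)) (XT.lf (nat_lit 0) (nat_lit 5537343846) (nat_lit 456) (nat_lit 1683802412) (nat_lit 76) (nat_lit 14439387786) (nat_lit 254) (nat_lit 5) (nat_lit 260) (nat_lit 5) (nat_lit 255) (nat_lit 5) (nat_lit 417) (nat_lit 371) (nat_lit 232))) (XT.nd (nat_lit 78) (nat_lit 304) (nat_lit 0) (XT.lf (nat_lit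 0) (nat_lit 10182209572) (nat_lit 456) (nat_lit 10321054209) (nat_lit 76) (nat_lit 1538956039) (nat_lit 249) (nat_lit 5) (nat_lit 255) (nat_lit 5) (nat_lit 250) (nat_lit 5) (nat_lit 418) (nat_lit 371) (nat_lit 231)) (XT.lf (nat_lit 0) (nat_lit 3104676883) (nat_lit 304) (nat_lit 11971701407) (nat_lit 380) (nat_lit 7355679171) (nat_lit 245) (nat_lit 5) (nat_lit 249) (nat_lit 5) (nat_lit 250) (nat_lit 5) (nat_lit 419) (nat_lit 371) (nat_lit 230)))) (XT.nd (nat_lit 156) (nat_lit 304) (nat_lit 0) (XT.nd (nat_lit 78) (nat_lit 456) (nat_lit 0) (XT.lf (nat_lit 0) (nat_lit 17132676356) (nat_lit 304) (nat_lit 3080496242) (nat_lit 380) (nat_lit 2617543615) (nat_lit 245) (nat_lit 5) (nat_lit 249) (nat_lit 5) (nat_lit 250) (nat_lit 5) (nat_lit 420) (nat_lit 371) (nat_lit 229)) (XT.lf (nat_lit 0) (nat_lit 2351167913) (nat_lit 456) (nat_lit 14826034633) (nat_lit 76) (nat_lit 6059502078) (nat_lit 239) (nat_lit 5) (nat_lit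 245) (nat_lit 5) (nat_lit 240) (nat_lit 5) (nat_lit 421) (nat_lit 371) (nat_lit 228))) (XT.nd (nat_lit 78) (nat_lit 304) (nat_lit 0) (XT.lf (nat_lit 0) (nat_lit 7496774259) (nat_lit 456) (nat_lit 662667124) (nat_lit 76) (nat_lit 15492240510) (nat_lit 239) (nat_lit 5) (nat_lit 245) (nat_lit 5) (nat_lit 240) (nat_lit 5) (nat_lit 422) (nat_lit 371) (nat_lit 227)) (XT.lf (nat_lit 0) (nat_lit 12937399139) (nat_lit 380) (nat_lit 9896534596) (nat_lit 76) (nat_lit 1240955235) (nat_lit 235) (nat_lit 5) (nat_lit 240) (nat_lit 5) (nat_lit 236) (nat_lit 5) (nat_lit 423) (nat_lit 371) (nat_lit 226)))))) (XT.nd (nat_lit 546) (nat_lit 1444) (nat_lit 0) (XT.nd (nat_lit 234) (nat_lit 608) (nat_lit 0) (XT.nd (nat_lit 78) (nat_lit 380) (nat_lit 0) (XT.lf (nat_lit 0) (nat_lit 4972053264) (nat_lit 304) (nat_lit 13696685523) (nat_lit 380) (nat_lit 5838228592) (nat_lit 231) (nat_lit 5) (nat_lit 235) (nat_lit 5) (nat_lit 236)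 (nat_lit 5) (nat_lit 424) (nat_lit 371) (nat_lit 225)) (XT.nd (nat_lit 78) (nat_lit 380) (nat_lit 0) (XT.lf (nat_lit 0) (nat_lit 20477967242) (nat_lit 304) (nat_lit 4186261061) (nat_lit 380) (nat_lit 285013547) (nat_lit 231) (nat_lit 5) (nat_lit 235) (nat_lit 5) (nat_lit 236) (nat_lit 5) (nat_lit 425) (nat_lit 371) (nat_lit 224)) (XT.lf (nat_lit 0) (nat_lit 5484291368) (nat_lit 380) (nat_lit 14256529226) (nat_lit 76) (nat_lit 5657730306) (nat_lit 226) (nat_lit 5) (nat_lit 231) (nat_lit 5) (nat_lit 227) (nat_lit 5) (nat_lit 426) (nat_lit 371) (nat_lit 223)))) (XT.nd (nat_lit 156) (nat_lit 304) (nat_lit 0) (XT.nd (nat_lit 78) (nat_lit 0) (nat_lit 0) (XT.lf (nat_lit 0) (nat_lit 1427029556) (nat_lit 304) (nat_lit 10087181083) (nat_lit 380) (nat_lit 14344246013) (nat_lit 222) (nat_lit 5) (nat_lit 226) (nat_lit 5) (nat_lit 227) (nat_lit 5) (nat_lit 427) (nat_lit 371) (nat_lit 222)) (XT.lf (nat_lit 0) (nat_lit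 17861603017) (nat_lit 380) (nat_lit 8466102057) (nat_lit 76) (nat_lit 357238) (nat_lit 222) (nat_lit 5) (nat_lit 227) (nat_lit 5) (nat_lit 223) (nat_lit 5) (nat_lit 428) (nat_lit 371) (nat_lit 221))) (XT.nd (nat_lit 78) (nat_lit 76) (nat_lit 0) (XT.lf (nat_lit 0) (nat_lit 8023657258) (nat_lit 228) (nat_lit 16545548403) (nat_lit 304) (nat_lit 2237456824) (nat_lit 219) (nat_lit 5) (nat_lit 222) (nat_lit 5) (nat_lit 223) (nat_lit 5) (nat_lit 429) (nat_lit 371) (nat_lit 220)) (XT.lf (nat_lit 0) (nat_lit 4176037237) (nat_lit 304) (nat_lit 2167667439) (nat_lit 76) (nat_lit 20952336300) (nat_lit 218) (nat_lit 5) (nat_lit 222) (nat_lit 5) (nat_lit 219) (nat_lit 5) (nat_lit 430) (nat_lit 371) (nat_lit 219))))) (XT.nd (nat_lit 312) (nat_lit 532) (nat_lit 0) (XT.nd (nat_lit 156) (nat_lit 380) (nat_lit 0) (XT.nd (nat_lit 78) (nat_lit 228) (nat_lit 0) (XT.lf (nat_lit 0) (nat_lit 10917858604) (nat_lit 380) (nat_lit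 12627068347) (nat_lit 76) (nat_lit 4249082486) (nat_lit 214) (nat_lit 5) (nat_lit 219) (nat_lit 5) (nat_lit 215) (nat_lit 5) (nat_lit 431) (nat_lit 371) (nat_lit 218)) (XT.lf (nat_lit 0) (nat_lit 4779003608) (nat_lit 228) (nat_lit 13206874752) (nat_lit 304) (nat_lit 10317320279) (nat_lit 211) (nat_lit 5) (nat_lit 214) (nat_lit 5) (nat_lit 215) (nat_lit 5) (nat_lit 432) (nat_lit 371) (nat_lit 217))) (XT.nd (nat_lit 78) (nat_lit 380) (nat_lit 0) (XT.lf (nat_lit 0) (nat_lit 22955219037) (nat_lit 228) (nat_lit 2431415133) (nat_lit 304) (nat_lit 3437408482) (nat_lit 211) (nat_lit 5) (nat_lit 214) (nat_lit 5) (nat_lit 215) (nat_lit 5) (nat_lit 433) (nat_lit 371) (nat_lit 216)) (XT.lf (nat_lit 0) (nat_lit 3776130857) (nat_lit 380) (nat_lit 16926224399) (nat_lit 76) (nat_lit 8651151465) (nat_lit 206) (nat_lit 5) (nat_lit 211) (nat_lit 5) (nat_lit 207) (nat_lit 5) (nat_lit 434) (nat_lit 371) (nat_lit 215))))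 (XT.nd (nat_lit 156) (nat_lit 304) (nat_lit 0) (XT.nd (nat_lit 78) (nat_lit 0) (nat_lit 0) (XT.lf (nat_lit 0) (nat_lit 1454435631) (nat_lit 228) (nat_lit 9773830993) (nat_lit 304) (nat_lit 18666828713) (nat_lit 203) (nat_lit 5) (nat_lit 206) (nat_lit 5) (nat_lit 207) (nat_lit 5) (nat_lit 435) (nat_lit 371) (nat_lit 214)) (XT.lf (nat_lit 0) (nat_lit 19084256774) (nat_lit 304) (nat_lit 9741063571) (nat_lit 76) (nat_lit 1622202557) (nat_lit 203) (nat_lit 5) (nat_lit 207) (nat_lit 5) (nat_lit 204) (nat_lit 5) (nat_lit 436) (nat_lit 371) (nat_lit 213))) (XT.nd (nat_lit 78) (nat_lit 76) (nat_lit 0) (XT.lf (nat_lit 0) (nat_lit 9599584331) (nat_lit 228) (nat_lit 17759006646) (nat_lit 304) (nat_lit 3652452386) (nat_lit 200) (nat_lit 5) (nat_lit 203) (nat_lit 5) (nat_lit 204) (nat_lit 5) (nat_lit 437) (nat_lit 371) (nat_lit 212)) (XT.lf (nat_lit 0) (nat_lit 4298958522) (nat_lit 304) (nat_lit 1921105268) (nat_lit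 76) (nat_lit 25367379197) (nat_lit 199) (nat_lit 5) (nat_lit 203) (nat_lit 5) (nat_lit 200) (nat_lit 5) (nat_lit 438) (nat_lit 371) (nat_lit 211))))))) (XT.nd (nat_lit 1170) (nat_lit 1748) (nat_lit 0) (XT.nd (nat_lit 546) (nat_lit 1140) (nat_lit 0) (XT.nd (nat_lit 234) (nat_lit 684) (nat_lit 0) (XT.nd (nat_lit 78) (nat_lit 228) (nat_lit 0) (XT.lf (nat_lit 0) (nat_lit 12643385001) (nat_lit 304) (nat_lit 13763474842) (nat_lit 76) (nat_lit 5766353353) (nat_lit 196) (nat_lit 5) (nat_lit 200) (nat_lit 5) (nat_lit 197) (nat_lit 5) (nat_lit 439) (nat_lit 371) (nat_lit 210)) (XT.nd (nat_lit 78) (nat_lit 0) (nat_lit 0) (XT.lf (nat_lit 0) (nat_lit 6672083379) (nat_lit 228) (nat_lit 14705243058) (nat_lit 304) (nat_lit 11395054607) (nat_lit 193) (nat_lit 5) (nat_lit 196) (nat_lit 5) (nat_lit 197) (nat_lit 5) (nat_lit 440) (nat_lit 371) (nat_lit 209)) (XT.lf (nat_lit 0) (nat_lit 27992696906) (nat_lit 228) (nat_lit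 2513524066) (nat_lit 304) (nat_lit 2879314910) (nat_lit 193) (nat_lit 5) (nat_lit 196) (nat_lit 5) (nat_lit 197) (nat_lit 5) (nat_lit 441) (nat_lit 371) (nat_lit 208)))) (XT.nd (nat_lit 156) (nat_lit 152) (nat_lit 0) (XT.nd (nat_lit 78) (nat_lit 228) (nat_lit 0) (XT.lf (nat_lit 0) (nat_lit 6025185254) (nat_lit 304) (nat_lit 17924443429) (nat_lit 76) (nat_lit 10058309776) (nat_lit 189) (nat_lit 5) (nat_lit 193) (nat_lit 5) (nat_lit 190) (nat_lit 5) (nat_lit 442) (nat_lit 371) (nat_lit 207)) (XT.lf (nat_lit 0) (nat_lit 3675056729) (nat_lit 228) (nat_lit 11573209847) (nat_lit 304) (nat_lit 19396611769) (nat_lit 186) (nat_lit 5) (nat_lit 189) (nat_lit 5) (nat_lit 190) (nat_lit 5) (nat_lit 443) (nat_lit 371) (nat_lit 206))) (XT.nd (nat_lit 78) (nat_lit 152) (nat_lit 0) (XT.lf (nat_lit 0) (nat_lit 24936269121) (nat_lit 304) (nat_lit 9028650841) (nat_lit 76) (nat_lit 1330359601) (nat_lit 186) (nat_lit 5) (nat_lit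 190) (nat_lit 5) (nat_lit 187) (nat_lit 5) (nat_lit 444) (nat_lit 371) (nat_lit 205)) (XT.lf (nat_lit 0) (nat_lit 13714023719) (nat_lit 152) (nat_lit 21441617306) (nat_lit 228) (nat_lit 802329914) (nat_lit 184) (nat_lit 5) (nat_lit 186) (nat_lit 5) (nat_lit 187) (nat_lit 5) (nat_lit 445) (nat_lit 371) (nat_lit 204))))) (XT.nd (nat_lit 312) (nat_lit 608) (nat_lit 0) (XT.nd (nat_lit 156) (nat_lit 228) (nat_lit 0) (XT.nd (nat_lit 78) (nat_lit 0) (nat_lit 0) (XT.lf (nat_lit 0) (nat_lit 600381652) (nat_lit 228) (nat_lit 8356424118) (nat_lit 304) (nat_lit 27678364698) (nat_lit 180) (nat_lit 5) (nat_lit 183) (nat_lit 5) (nat_lit 184) (nat_lit 5) (nat_lit 446) (nat_lit 371) (nat_lit 203)) (XT.lf (nat_lit 0) (nat_lit 19263028451) (nat_lit 304) (nat_lit 12809130081) (nat_lit 76) (nat_lit 5252175966) (nat_lit 180) (nat_lit 5) (nat_lit 184) (nat_lit 5) (nat_lit 181) (nat_lit 5) (nat_lit 447) (nat_lit 371) (nat_lit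 202))) (XT.nd (nat_lit 78) (nat_lit 76) (nat_lit 0) (XT.lf (nat_lit 0) (nat_lit 11240382399) (nat_lit 152) (nat_lit 18823371269) (nat_lit 228) (nat_lit 7964860304) (nat_lit 178) (nat_lit 5) (nat_lit 180) (nat_lit 5) (nat_lit 181) (nat_lit 5) (nat_lit 448) (nat_lit 371) (nat_lit 201)) (XT.lf (nat_lit 0) (nat_lit 2512145915) (nat_lit 228) (nat_lit 2510403652) (nat_lit 76) (nat_lit 33727015035) (nat_lit 177) (nat_lit 5) (nat_lit 180) (nat_lit 5) (nat_lit 178) (nat_lit 5) (nat_lit 449) (nat_lit 371) (nat_lit 200)))) (XT.nd (nat_lit 156) (nat_lit 228) (nat_lit 0) (XT.nd (nat_lit 78) (nat_lit 152) (nat_lit 0) (XT.lf (nat_lit 0) (nat_lit 13449042742) (nat_lit 304) (nat_lit 16721028042) (nat_lit 76) (nat_lit 9310537183) (nat_lit 174) (nat_lit 5) (nat_lit 178) (nat_lit 5) (nat_lit 175) (nat_lit 5) (nat_lit 450) (nat_lit 371) (nat_lit 199)) (XT.lf (nat_lit 0) (nat_lit 8717139954) (nat_lit 152) (nat_lit 16150762356)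 (nat_lit 228) (nat_lit 15361064645) (nat_lit 172) (nat_lit 5) (nat_lit 174) (nat_lit 5) (nat_lit 175) (nat_lit 5) (nat_lit 451) (nat_lit 371) (nat_lit 198))) (XT.nd (nat_lit 78) (nat_lit 228) (nat_lit 0) (XT.lf (nat_lit 0) (nat_lit 35252023370) (nat_lit 152) (nat_lit 1540950946) (nat_lit 228) (nat_lit 4201892999) (nat_lit 172) (nat_lit 5) (nat_lit 174) (nat_lit 5) (nat_lit 175) (nat_lit 5) (nat_lit 452) (nat_lit 371) (nat_lit 197)) (XT.lf (nat_lit 0) (nat_lit 7480302804) (nat_lit 228) (nat_lit 20775752089) (nat_lit 76) (nat_lit 13515670624) (nat_lit 169) (nat_lit 5) (nat_lit 172) (nat_lit 5) (nat_lit 170) (nat_lit 5) (nat_lit 453) (nat_lit 371) (nat_lit 196)))))) (XT.nd (nat_lit 624) (nat_lit 836) (nat_lit 0) (XT.nd (nat_lit 312) (nat_lit 380) (nat_lit 0) (XT.nd (nat_lit 156) (nat_lit 380) (nat_lit 0) (XT.nd (nat_lit 78) (nat_lit 0) (nat_lit 0) (XT.lf (nat_lit 0) (nat_lit 6137811884) (nat_lit 152) (nat_lit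 13418445425) (nat_lit 228) (nat_lit 23010551668) (nat_lit 167) (nat_lit 5) (nat_lit 169) (nat_lit 5) (nat_lit 170) (nat_lit 5) (nat_lit 454) (nat_lit 371) (nat_lit 195)) (XT.lf (nat_lit 0) (nat_lit 32219230149) (nat_lit 228) (nat_lit 9123860578) (nat_lit 76) (nat_lit 2035912023) (nat_lit 167) (nat_lit 5) (nat_lit 170) (nat_lit 5) (nat_lit 168) (nat_lit 5) (nat_lit 455) (nat_lit 371) (nat_lit 194))) (XT.nd (nat_lit 78) (nat_lit 152) (nat_lit 0) (XT.lf (nat_lit 0) (nat_lit 1342046025) (nat_lit 228) (nat_lit 24985246499) (nat_lit 76) (nat_lit 17878489882) (nat_lit 164) (nat_lit 5) (nat_lit 167) (nat_lit 5) (nat_lit 165) (nat_lit 5) (nat_lit 456) (nat_lit 371) (nat_lit 193)) (XT.lf (nat_lit 0) (nat_lit 3495677742) (nat_lit 152) (nat_lit 10620694613) (nat_lit 228) (nat_lit 30934025708) (nat_lit 162) (nat_lit 5) (nat_lit 164) (nat_lit 5) (nat_lit 165) (nat_lit 5) (nat_lit 457) (nat_lit 371) (nat_lit 192))))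 (XT.nd (nat_lit 156) (nat_lit 228) (nat_lit 0) (XT.nd (nat_lit 78) (nat_lit 152) (nat_lit 0) (XT.lf (nat_lit 0) (nat_lit 27577273461) (nat_lit 228) (nat_lit 12634341263) (nat_lit 76) (nat_lit 5699637116) (nat_lit 162) (nat_lit 5) (nat_lit 165) (nat_lit 5) (nat_lit 163) (nat_lit 5) (nat_lit 458) (nat_lit 371) (nat_lit 191)) (XT.lf (nat_lit 0) (nat_lit 17379034333) (nat_lit 152) (nat_lit 24330449199) (nat_lit 228) (nat_lit 5080423240) (nat_lit 160) (nat_lit 5) (nat_lit 162) (nat_lit 5) (nat_lit 163) (nat_lit 5) (nat_lit 459) (nat_lit 371) (nat_lit 190))) (XT.nd (nat_lit 78) (nat_lit 0) (nat_lit 0) (XT.lf (nat_lit 0) (nat_lit 783755661) (nat_lit 152) (nat_lit 7751394525) (nat_lit 228) (nat_lit 39153349822) (nat_lit 157) (nat_lit 5) (nat_lit 159) (nat_lit 5) (nat_lit 160) (nat_lit 5) (nat_lit 460) (nat_lit 371) (nat_lit 189)) (XT.lf (nat_lit 0) (nat_lit 22841947042) (nat_lit 228) (nat_lit 16269519767) (nat_lit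 76) (nat_lit 9489529165) (nat_lit 157) (nat_lit 5) (nat_lit 160) (nat_lit 5) (nat_lit 158) (nat_lit 5) (nat_lit 461) (nat_lit 371) (nat_lit 188))))) (XT.nd (nat_lit 312) (nat_lit 304) (nat_lit 0) (XT.nd (nat_lit 156) (nat_lit 304) (nat_lit 0) (XT.nd (nat_lit 78) (nat_lit 76) (nat_lit 0) (XT.lf (nat_lit 0) (nat_lit 15502153357) (nat_lit 152) (nat_lit 22296991215) (nat_lit 228) (nat_lit 11735086343) (nat_lit 155) (nat_lit 5) (nat_lit 157) (nat_lit 5) (nat_lit 158) (nat_lit 5) (nat_lit 462) (nat_lit 371) (nat_lit 187)) (XT.lf (nat_lit 0) (nat_lit 2818080848) (nat_lit 228) (nat_lit 1966094493) (nat_lit 76) (nat_lit 45705665384) (nat_lit 154) (nat_lit 5) (nat_lit 157) (nat_lit 5) (nat_lit 155) (nat_lit 5) (nat_lit 463) (nat_lit 371) (nat_lit 186))) (XT.nd (nat_lit 78) (nat_lit 152) (nat_lit 0) (XT.lf (nat_lit 0) (nat_lit 18002387915) (nat_lit 228) (nat_lit 20039922629) (nat_lit 76) (nat_lit 13415410362)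 (nat_lit 152) (nat_lit 5) (nat_lit 155) (nat_lit 5) (nat_lit 153) (nat_lit 5) (nat_lit 464) (nat_lit 371) (nat_lit 185)) (XT.lf (nat_lit 0) (nat_lit 13599126741) (nat_lit 152) (nat_lit 20236830603) (nat_lit 228) (nat_lit 18612868156) (nat_lit 150) (nat_lit 5) (nat_lit 152) (nat_lit 5) (nat_lit 153) (nat_lit 5) (nat_lit 465) (nat_lit 371) (nat_lit 184)))) (XT.nd (nat_lit 156) (nat_lit 152) (nat_lit 0) (XT.nd (nat_lit 78) (nat_lit 152) (nat_lit 0) (XT.lf (nat_lit 0) (nat_lit 48650080699) (nat_lit 152) (nat_lit 1692459629) (nat_lit 228) (nat_lit 3121182708) (nat_lit 150) (nat_lit 5) (nat_lit 152) (nat_lit 5) (nat_lit 153) (nat_lit 5) (nat_lit 466) (nat_lit 371) (nat_lit 183)) (XT.lf (nat_lit 0) (nat_lit 13047184688) (nat_lit 152) (nat_lit 23956594402) (nat_lit 76) (nat_lit 17487715197) (nat_lit 148) (nat_lit 5) (nat_lit 150) (nat_lit 5) (nat_lit 149) (nat_lit 5) (nat_lit 467) (nat_lit 371) (nat_lit 182)))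 (XT.nd (nat_lit 78) (nat_lit 0) (nat_lit 0) (XT.lf (nat_lit 0) (nat_lit 11665497562) (nat_lit 152) (nat_lit 18146097329) (nat_lit 228) (nat_lit 25732364965) (nat_lit 146) (nat_lit 5) (nat_lit 148) (nat_lit 5) (nat_lit 149) (nat_lit 5) (nat_lit 468) (nat_lit 371) (nat_lit 181)) (XT.lf (nat_lit 0) (nat_lit 47331281003) (nat_lit 228) (nat_lit 7796020135) (nat_lit 76) (nat_lit 1493127947) (nat_lit 146) (nat_lit 5) (nat_lit 149) (nat_lit 5) (nat_lit 147) (nat_lit 4) (nat_lit 469) (nat_lit 371) (nat_lit 180))))))))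
noncomputable def xc170 : XT := (XT.nd (nat_lit 46254) (nat_lit 0) (nat_lit 11324) (XT.nd (nat_lit 1170) (nat_lit 380) (nat_lit 0) (XT.nd (nat_lit 546) (nat_lit 836) (nat_lit 0) (XT.nd (nat_lit 234) (nat_lit 380) (nat_lit 0) (XT.nd (nat_lit 78) (nat_lit 152) (nat_lit 0) (XT.lf (nat_lit 0) (nat_lit 7964345048) (nat_lit 152) (nat_lit 28031136975) (nat_lit 76) (nat_lit 21717518813) (nat_lit 144) (nat_lit 5) (nat_lit 146) (nat_lit 5) (nat_lit 145) (nat_lit 5) (nat_lit 470) (nat_lit 371) (nat_lit 179)) (XT.nd (nat_lit 78) (nat_lit 0) (nat_lit 0) (XT.lf (nat_lit 0) (nat_lit 9696654027) (nat_lit 152) (nat_lit 16020685757) (nat_lit 228) (nat_lit 33113192816) (nat_lit 142) (nat_lit 5) (nat_lit 144) (nat_lit 5) (nat_lit 145) (nat_lit 5) (nat_lit 471) (nat_lit 371) (nat_lit 178)) (XT.lf (nat_lit 0) (nat_lit 44328453448) (nat_lit 228) (nat_lit 10896511707) (nat_lit 76) (nat_lit 4746859291) (nat_lit 142) (nat_lit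 5) (nat_lit 145) (nat_lit 5) (nat_lit 143) (nat_lit 4) (nat_lit 472) (nat_lit 371) (nat_lit 177)))) (XT.nd (nat_lit 156) (nat_lit 76) (nat_lit 0) (XT.nd (nat_lit 78) (nat_lit 152) (nat_lit 0) (XT.lf (nat_lit 0) (nat_lit 2741260800) (nat_lit 152) (nat_lit 32275750609) (nat_lit 76) (nat_lit 26116568303) (nat_lit 140) (nat_lit 5) (nat_lit 142) (nat_lit 5) (nat_lit 141) (nat_lit 5) (nat_lit 473) (nat_lit 371) (nat_lit 176)) (XT.lf (nat_lit 0) (nat_lit 7687812951) (nat_lit 152) (nat_lit 13856247576) (nat_lit 228) (nat_lit 40776049206) (nat_lit 138) (nat_lit 5) (nat_lit 140) (nat_lit 5) (nat_lit 141) (nat_lit 5) (nat_lit 474) (nat_lit 371) (nat_lit 175))) (XT.nd (nat_lit 78) (nat_lit 76) (nat_lit 0) (XT.lf (nat_lit 0) (nat_lit 41312443891) (nat_lit 228) (nat_lit 14107619727) (nat_lit 76) (nat_lit 8110127047) (nat_lit 138) (nat_lit 5) (nat_lit 141) (nat_lit 5) (nat_lit 139) (nat_lit 4) (nat_lit 475) (nat_lit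 371) (nat_lit 174)) (XT.lf (nat_lit 0) (nat_lit 28035375649) (nat_lit 76) (nat_lit 34041335512) (nat_lit 152) (nat_lit 2687777891) (nat_lit 137) (nat_lit 5) (nat_lit 138) (nat_lit 5) (nat_lit 139) (nat_lit 4) (nat_lit 476) (nat_lit 371) (nat_lit 173))))) (XT.nd (nat_lit 312) (nat_lit 304) (nat_lit 0) (XT.nd (nat_lit 156) (nat_lit 304) (nat_lit 0) (XT.nd (nat_lit 78) (nat_lit 0) (nat_lit 0) (XT.lf (nat_lit 0) (nat_lit 5634002848) (nat_lit 152) (nat_lit 11648183278) (nat_lit 228) (nat_lit 48742778957) (nat_lit 134) (nat_lit 5) (nat_lit 136) (nat_lit 5) (nat_lit 137) (nat_lit 5) (nat_lit 477) (nat_lit 371) (nat_lit 172)) (XT.lf (nat_lit 0) (nat_lit 38277699629) (nat_lit 228) (nat_lit 17438551022) (nat_lit 76) (nat_lit 11591792224) (nat_lit 134) (nat_lit 5) (nat_lit 137) (nat_lit 5) (nat_lit 135) (nat_lit 4) (nat_lit 478) (nat_lit 371) (nat_lit 171))) (XT.nd (nat_lit 78) (nat_lit 228) (nat_lit 0) (XT.lf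 (nat_lit 0) (nat_lit 27210984392) (nat_lit 76) (nat_lit 33065266172) (nat_lit 152) (nat_lit 8342167279) (nat_lit 133) (nat_lit 5) (nat_lit 134) (nat_lit 5) (nat_lit 135) (nat_lit 4) (nat_lit 479) (nat_lit 371) (nat_lit 170)) (XT.lf (nat_lit 0) (nat_lit 3530046554) (nat_lit 152) (nat_lit 9391632201) (nat_lit 228) (nat_lit 57036444473) (nat_lit 130) (nat_lit 5) (nat_lit 132) (nat_lit 5) (nat_lit 133) (nat_lit 5) (nat_lit 480) (nat_lit 371) (nat_lit 169)))) (XT.nd (nat_lit 156) (nat_lit 228) (nat_lit 0) (XT.nd (nat_lit 78) (nat_lit 76) (nat_lit 0) (XT.lf (nat_lit 0) (nat_lit 35218446680) (nat_lit 228) (nat_lit 20898979698) (nat_lit 76) (nat_lit 15201235252) (nat_lit 130) (nat_lit 5) (nat_lit 133) (nat_lit 5) (nat_lit 131) (nat_lit 4) (nat_lit 481) (nat_lit 371) (nat_lit 168)) (XT.lf (nat_lit 0) (nat_lit 26411477332) (nat_lit 76) (nat_lit 32115905851) (nat_lit 152) (nat_lit 14182335033) (nat_lit 129) (nat_lit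 5) (nat_lit 130) (nat_lit 5) (nat_lit 131) (nat_lit 4) (nat_lit 482) (nat_lit 371) (nat_lit 167))) (XT.nd (nat_lit 78) (nat_lit 0) (nat_lit 0) (XT.lf (nat_lit 0) (nat_lit 1370543277) (nat_lit 152) (nat_lit 7081461187) (nat_lit 228) (nat_lit 65681400581) (nat_lit 126) (nat_lit 5) (nat_lit 128) (nat_lit 5) (nat_lit 129) (nat_lit 5) (nat_lit 483) (nat_lit 371) (nat_lit 166)) (XT.lf (nat_lit 0) (nat_lit 32128675293) (nat_lit 228) (nat_lit 24499080709) (nat_lit 76) (nat_lit 18948383341) (nat_lit 126) (nat_lit 5) (nat_lit 129) (nat_lit 5) (nat_lit 127) (nat_lit 4) (nat_lit 484) (nat_lit 371) (nat_lit 165)))))) (XT.nd (nat_lit 44460) (nat_lit 0) (nat_lit 20520) (XT.nd (nat_lit 234) (nat_lit 76) (nat_lit 0) (XT.nd (nat_lit 78) (nat_lit 228) (nat_lit 0) (XT.lf (nat_lit 0) (nat_lit 25636032361) (nat_lit 76) (nat_lit 31192668441) (nat_lit 152) (nat_lit 20224063232) (nat_lit 125) (nat_lit 5) (nat_lit 126) (nat_lit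 5) (nat_lit 127) (nat_lit 4) (nat_lit 485) (nat_lit 371) (nat_lit 164)) (XT.nd (nat_lit 78) (nat_lit 152) (nat_lit 0) (XT.lf (nat_lit 0) (nat_lit 3870274004) (nat_lit 152) (nat_lit 833560500) (nat_lit 76) (nat_lit 73861396380) (nat_lit 124) (nat_lit 5) (nat_lit 126) (nat_lit 5) (nat_lit 125) (nat_lit 5) (nat_lit 486) (nat_lit 371) (nat_lit 163)) (XT.lf (nat_lit 0) (nat_lit 29002124347) (nat_lit 228) (nat_lit 28249565062) (nat_lit 76) (nat_lit 22843740183) (nat_lit 122) (nat_lit 5) (nat_lit 125) (nat_lit 5) (nat_lit 123) (nat_lit 4) (nat_lit 487) (nat_lit 371) (nat_lit 162)))) (XT.nd (nat_lit 44070) (nat_lit 0) (nat_lit 20520) (XT.nd (nat_lit 78) (nat_lit 0) (nat_lit 0) (XT.lf (nat_lit 0) (nat_lit 24883862163) (nat_lit 76) (nat_lit 30294963511) (nat_lit 152) (nat_lit 26483981724) (nat_lit 121) (nat_lit 5) (nat_lit 122) (nat_lit 5) (nat_lit 123) (nat_lit 4) (nat_lit 488) (nat_lit 371) (nat_lit 161)) (XT.lf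 (nat_lit 0) (nat_lit 80183911249) (nat_lit 76) (nat_lit 2238841455) (nat_lit 152) (nat_lit 845996094) (nat_lit 121) (nat_lit 5) (nat_lit 122) (nat_lit 5) (nat_lit 123) (nat_lit 4) (nat_lit 489) (nat_lit 371) (nat_lit 160))) (XT.nd (nat_lit 78) (nat_lit 0) (nat_lit 0) (XT.lf (nat_lit 0) (nat_lit 946335443) (nat_lit 0) (nat_lit 946335443) (nat_lit 1140) (nat_lit 3534469726) (nat_lit 391) (nat_lit 5) (nat_lit 391) (nat_lit 3) (nat_lit 406) (nat_lit 3) (nat_lit 372) (nat_lit 372) (nat_lit 276)) (XT.lf (nat_lit 0) (nat_lit 4462905216) (nat_lit 1140) (nat_lit 3557806135) (nat_lit 1216) (nat_lit 2977760595) (nat_lit 391) (nat_lit 5) (nat_lit 406) (nat_lit 3) (nat_lit 407) (nat_lit 5) (nat_lit 373) (nat_lit 372) (nat_lit 275))))) (XT.nd (nat_lit 312) (nat_lit 0) (nat_lit 152) (XT.nd (nat_lit 156) (nat_lit 0) (nat_lit 76) (XT.nd (nat_lit 78) (nat_lit 0) (nat_lit 76) (XT.lf (nat_lit 76) (nat_lit 2016371904) (nat_lit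 0) (nat_lit 3159568453) (nat_lit 1216) (nat_lit 5970593686) (nat_lit 392) (nat_lit 5) (nat_lit 391) (nat_lit 5) (nat_lit 407) (nat_lit 5) (nat_lit 374) (nat_lit 372) (nat_lit 274)) (XT.lf (nat_lit 0) (nat_lit 5942080180) (nat_lit 1140) (nat_lit 3498364907) (nat_lit 1216) (nat_lit 1857641507) (nat_lit 392) (nat_lit 5) (nat_lit 407) (nat_lit 5) (nat_lit 408) (nat_lit 5) (nat_lit 375) (nat_lit 372) (nat_lit 273))) (XT.nd (nat_lit 78) (nat_lit 0) (nat_lit 76) (XT.lf (nat_lit 76) (nat_lit 2303432822) (nat_lit 0) (nat_lit 4459519172) (nat_lit 1216) (nat_lit 4690281293) (nat_lit 393) (nat_lit 5) (nat_lit 392) (nat_lit 5) (nat_lit 408) (nat_lit 5) (nat_lit 376) (nat_lit 372) (nat_lit 272)) (XT.lf (nat_lit 0) (nat_lit 7629492376) (nat_lit 1140) (nat_lit 3280988730) (nat_lit 1216) (nat_lit 701922004) (nat_lit 393) (nat_lit 5) (nat_lit 408) (nat_lit 5) (nat_lit 409) (nat_lit 5) (nat_lit 377) (nat_lit 372) (nat_lit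 271)))) (XT.nd (nat_lit 156) (nat_lit 0) (nat_lit 76) (XT.nd (nat_lit 78) (nat_lit 0) (nat_lit 0) (XT.lf (nat_lit 76) (nat_lit 2760777838) (nat_lit 0) (nat_lit 5811474668) (nat_lit 1216) (nat_lit 3202588813) (nat_lit 394) (nat_lit 5) (nat_lit 393) (nat_lit 5) (nat_lit 409) (nat_lit 5) (nat_lit 378) (nat_lit 372) (nat_lit 270)) (XT.lf (nat_lit 76) (nat_lit 9038351642) (nat_lit 0) (nat_lit 518081009) (nat_lit 1216) (nat_lit 2385325909) (nat_lit 394) (nat_lit 5) (nat_lit 393) (nat_lit 5) (nat_lit 409) (nat_lit 5) (nat_lit 379) (nat_lit 372) (nat_lit 269))) (XT.nd (nat_lit 78) (nat_lit 0) (nat_lit 0) (XT.lf (nat_lit 76) (nat_lit 3396433018) (nat_lit 0) (nat_lit 7234439565) (nat_lit 1216) (nat_lit 1480988702) (nat_lit 395) (nat_lit 5) (nat_lit 394) (nat_lit 5) (nat_lit 410) (nat_lit 5) (nat_lit 380) (nat_lit 372) (nat_lit 268)) (XT.lf (nat_lit 76) (nat_lit 9926697596) (nat_lit 0) (nat_lit 1826341963) (nat_lit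 1216) (nat_lit 533562719) (nat_lit 395) (nat_lit 5) (nat_lit 394) (nat_lit 5) (nat_lit 410) (nat_lit 5) (nat_lit 381) (nat_lit 372) (nat_lit 267))))))) (XT.nd (nat_lit 1170) (nat_lit 4636) (nat_lit 0) (XT.nd (nat_lit 546) (nat_lit 3648) (nat_lit 0) (XT.nd (nat_lit 234) (nat_lit 0) (nat_lit 76) (XT.nd (nat_lit 78) (nat_lit 0) (nat_lit 0) (XT.lf (nat_lit 0) (nat_lit 492485620) (nat_lit 1216) (nat_lit 8250121219) (nat_lit 1292) (nat_lit 3722086211) (nat_lit 379) (nat_lit 5) (nat_lit 395) (nat_lit 5) (nat_lit 396) (nat_lit 5) (nat_lit 382) (nat_lit 372) (nat_lit 266)) (XT.nd (nat_lit 78) (nat_lit 0) (nat_lit 76) (XT.lf (nat_lit 0) (nat_lit 1562674453) (nat_lit 1216) (nat_lit 1649674378) (nat_lit 1292) (nat_lit 9434896735) (nat_lit 379) (nat_lit 5) (nat_lit 395) (nat_lit 5) (nat_lit 396) (nat_lit 5) (nat_lit 383) (nat_lit 372) (nat_lit 265)) (XT.lf (nat_lit 0) (nat_lit 2722199620) (nat_lit 1216) (nat_lit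 7620641487) (nat_lit 1292) (nat_lit 2490716631) (nat_lit 380) (nat_lit 5) (nat_lit 396) (nat_lit 5) (nat_lit 397) (nat_lit 5) (nat_lit 384) (nat_lit 372) (nat_lit 264)))) (XT.nd (nat_lit 156) (nat_lit 0) (nat_lit 76) (XT.nd (nat_lit 78) (nat_lit 0) (nat_lit 76) (XT.lf (nat_lit 0) (nat_lit 3948029312) (nat_lit 1216) (nat_lit 755089967) (nat_lit 1292) (nat_lit 8321394433) (nat_lit 380) (nat_lit 5) (nat_lit 396) (nat_lit 5) (nat_lit 397) (nat_lit 5) (nat_lit 385) (nat_lit 372) (nat_lit 263)) (XT.lf (nat_lit 0) (nat_lit 5267097181) (nat_lit 1216) (nat_lit 6802212172) (nat_lit 1292) (nat_lit 1150195114) (nat_lit 381) (nat_lit 5) (nat_lit 397) (nat_lit 5) (nat_lit 398) (nat_lit 5) (nat_lit 386) (nat_lit 372) (nat_lit 262))) (XT.nd (nat_lit 78) (nat_lit 0) (nat_lit 0) (XT.lf (nat_lit 76) (nat_lit 346972766) (nat_lit 0) (nat_lit 6320146976) (nat_lit 1292) (nat_lit 6751983723) (nat_lit 382) (nat_lit 5) (nat_lit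 381) (nat_lit 5) (nat_lit 398) (nat_lit 5) (nat_lit 387) (nat_lit 372) (nat_lit 261)) (XT.lf (nat_lit 76) (nat_lit 7836837644) (nat_lit 0) (nat_lit 325120895) (nat_lit 1292) (nat_lit 5461147428) (nat_lit 382) (nat_lit 5) (nat_lit 381) (nat_lit 5) (nat_lit 398) (nat_lit 5) (nat_lit 388) (nat_lit 372) (nat_lit 260))))) (XT.nd (nat_lit 312) (nat_lit 1748) (nat_lit 0) (XT.nd (nat_lit 156) (nat_lit 912) (nat_lit 0) (XT.nd (nat_lit 78) (nat_lit 0) (nat_lit 0) (XT.lf (nat_lit 0) (nat_lit 1681413126) (nat_lit 1216) (nat_lit 8077237094) (nat_lit 1292) (nat_lit 4072868090) (nat_lit 366) (nat_lit 5) (nat_lit 382) (nat_lit 5) (nat_lit 383) (nat_lit 5) (nat_lit 389) (nat_lit 372) (nat_lit 259)) (XT.lf (nat_lit 0) (nat_lit 9475249718) (nat_lit 1216) (nat_lit 1974545091) (nat_lit 1292) (nat_lit 2594991653) (nat_lit 366) (nat_lit 5) (nat_lit 382) (nat_lit 5) (nat_lit 383) (nat_lit 5) (nat_lit 390) (nat_lit 372) (nat_lit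 258))) (XT.nd (nat_lit 78) (nat_lit 76) (nat_lit 0) (XT.lf (nat_lit 0) (nat_lit 3247092473) (nat_lit 836) (nat_lit 10002627345) (nat_lit 912) (nat_lit 1012991455) (nat_lit 355) (nat_lit 5) (nat_lit 366) (nat_lit 5) (nat_lit 367) (nat_lit 5) (nat_lit 391) (nat_lit 372) (nat_lit 257)) (XT.lf (nat_lit 0) (nat_lit 656137739) (nat_lit 912) (nat_lit 3133264672) (nat_lit 76) (nat_lit 10696042687) (nat_lit 354) (nat_lit 5) (nat_lit 366) (nat_lit 5) (nat_lit 355) (nat_lit 5) (nat_lit 392) (nat_lit 372) (nat_lit 256)))) (XT.nd (nat_lit 156) (nat_lit 1140) (nat_lit 0) (XT.nd (nat_lit 78) (nat_lit 0) (nat_lit 0) (XT.lf (nat_lit 0) (nat_lit 2415283314) (nat_lit 684) (nat_lit 9677952006) (nat_lit 76) (nat_lit 2619515650) (nat_lit 346) (nat_lit 5) (nat_lit 355) (nat_lit 5) (nat_lit 347) (nat_lit 5) (nat_lit 393) (nat_lit 372) (nat_lit 255)) (XT.lf (nat_lit 0) (nat_lit 4282936957) (nat_lit 684) (nat_lit 1484960828)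 (nat_lit 76) (nat_lit 9177306223) (nat_lit 346) (nat_lit 5) (nat_lit 355) (nat_lit 5) (nat_lit 347) (nat_lit 5) (nat_lit 394) (nat_lit 372) (nat_lit 254))) (XT.nd (nat_lit 78) (nat_lit 532) (nat_lit 0) (XT.lf (nat_lit 0) (nat_lit 6269189942) (nat_lit 684) (nat_lit 8111839178) (nat_lit 76) (nat_lit 801724423) (nat_lit 338) (nat_lit 5) (nat_lit 347) (nat_lit 5) (nat_lit 339) (nat_lit 5) (nat_lit 395) (nat_lit 372) (nat_lit 253)) (XT.lf (nat_lit 0) (nat_lit 424743711) (nat_lit 532) (nat_lit 7953550859) (nat_lit 608) (nat_lit 7047237074) (nat_lit 331) (nat_lit 5) (nat_lit 338) (nat_lit 5) (nat_lit 339) (nat_lit 5) (nat_lit 396) (nat_lit 372) (nat_lit 252)))))) (XT.nd (nat_lit 624) (nat_lit 2432) (nat_lit 0) (XT.nd (nat_lit 312) (nat_lit 988) (nat_lit 0) (XT.nd (nat_lit 156) (nat_lit 608) (nat_lit 0) (XT.nd (nat_lit 78) (nat_lit 608) (nat_lit 0) (XT.lf (nat_lit 0) (nat_lit 9370623845) (nat_lit 532) (nat_lit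 1249146672) (nat_lit 608) (nat_lit 5053749625) (nat_lit 331) (nat_lit 5) (nat_lit 338) (nat_lit 5) (nat_lit 339) (nat_lit 5) (nat_lit 397) (nat_lit 372) (nat_lit 251)) (XT.lf (nat_lit 0) (nat_lit 2640000703) (nat_lit 608) (nat_lit 10355795280) (nat_lit 684) (nat_lit 2931133156) (nat_lit 323) (nat_lit 5) (nat_lit 331) (nat_lit 5) (nat_lit 332) (nat_lit 5) (nat_lit 398) (nat_lit 372) (nat_lit 250))) (XT.nd (nat_lit 78) (nat_lit 608) (nat_lit 0) (XT.lf (nat_lit 0) (nat_lit 11954827431) (nat_lit 608) (nat_lit 3551961490) (nat_lit 684) (nat_lit 679240882) (nat_lit 323) (nat_lit 5) (nat_lit 331) (nat_lit 5) (nat_lit 332) (nat_lit 5) (nat_lit 399) (nat_lit 372) (nat_lit 249)) (XT.lf (nat_lit 0) (nat_lit 1679776839) (nat_lit 608) (nat_lit 11316683254) (nat_lit 76) (nat_lit 3453823143) (nat_lit 315) (nat_lit 5) (nat_lit 323) (nat_lit 5) (nat_lit 316) (nat_lit 5) (nat_lit 400) (nat_lit 372) (nat_lit 248)))) (XT.nd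 (nat_lit 156) (nat_lit 456) (nat_lit 0) (XT.nd (nat_lit 78) (nat_lit 532) (nat_lit 0) (XT.lf (nat_lit 0) (nat_lit 4162479975) (nat_lit 608) (nat_lit 1910441903) (nat_lit 76) (nat_lit 10647343630) (nat_lit 315) (nat_lit 5) (nat_lit 323) (nat_lit 5) (nat_lit 316) (nat_lit 5) (nat_lit 401) (nat_lit 372) (nat_lit 247)) (XT.lf (nat_lit 0) (nat_lit 6795301507) (nat_lit 608) (nat_lit 9087434348) (nat_lit 76) (nat_lit 1113342276) (nat_lit 308) (nat_lit 5) (nat_lit 316) (nat_lit 5) (nat_lit 309) (nat_lit 5) (nat_lit 402) (nat_lit 372) (nat_lit 246))) (XT.nd (nat_lit 78) (nat_lit 0) (nat_lit 0) (XT.lf (nat_lit 0) (nat_lit 722818672) (nat_lit 456) (nat_lit 8859638422) (nat_lit 532) (nat_lit 7695447554) (nat_lit 302) (nat_lit 5) (nat_lit 308) (nat_lit 5) (nat_lit 309) (nat_lit 5) (nat_lit 403) (nat_lit 372) (nat_lit 245)) (XT.lf (nat_lit 0) (nat_lit 11000943686) (nat_lit 456) (nat_lit 1533043729) (nat_lit 532)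 (nat_lit 5031775745) (nat_lit 302) (nat_lit 5) (nat_lit 308) (nat_lit 5) (nat_lit 309) (nat_lit 5) (nat_lit 404) (nat_lit 372) (nat_lit 244))))) (XT.nd (nat_lit 312) (nat_lit 1368) (nat_lit 0) (XT.nd (nat_lit 156) (nat_lit 456) (nat_lit 0) (XT.nd (nat_lit 78) (nat_lit 76) (nat_lit 0) (XT.lf (nat_lit 0) (nat_lit 3727433511) (nat_lit 532) (nat_lit 11929563834) (nat_lit 608) (nat_lit 2202772071) (nat_lit 295) (nat_lit 5) (nat_lit 302) (nat_lit 5) (nat_lit 303) (nat_lit 5) (nat_lit 405) (nat_lit 372) (nat_lit 243)) (XT.lf (nat_lit 0) (nat_lit 768738886) (nat_lit 608) (nat_lit 3732991562) (nat_lit 76) (nat_lit 13658514945) (nat_lit 294) (nat_lit 5) (nat_lit 302) (nat_lit 5) (nat_lit 295) (nat_lit 5) (nat_lit 406) (nat_lit 372) (nat_lit 242))) (XT.nd (nat_lit 78) (nat_lit 0) (nat_lit 0) (XT.lf (nat_lit 0) (nat_lit 3874036892) (nat_lit 532) (nat_lit 11416131264) (nat_lit 76) (nat_lit 3176245746) (nat_lit 288)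 (nat_lit 5) (nat_lit 295) (nat_lit 5) (nat_lit 289) (nat_lit 5) (nat_lit 407) (nat_lit 372) (nat_lit 241)) (XT.lf (nat_lit 0) (nat_lit 7144992153) (nat_lit 532) (nat_lit 604534905) (nat_lit 76) (nat_lit 11030065460) (nat_lit 288) (nat_lit 5) (nat_lit 295) (nat_lit 5) (nat_lit 289) (nat_lit 5) (nat_lit 408) (nat_lit 372) (nat_lit 240)))) (XT.nd (nat_lit 156) (nat_lit 532) (nat_lit 0) (XT.nd (nat_lit 78) (nat_lit 380) (nat_lit 0) (XT.lf (nat_lit 0) (nat_lit 10608524332) (nat_lit 532) (nat_lit 8371936757) (nat_lit 76) (nat_lit 118871957) (nat_lit 282) (nat_lit 5) (nat_lit 289) (nat_lit 5) (nat_lit 283) (nat_lit 5) (nat_lit 409) (nat_lit 372) (nat_lit 239)) (XT.lf (nat_lit 0) (nat_lit 2951690364) (nat_lit 380) (nat_lit 11325839840) (nat_lit 456) (nat_lit 5148088552) (nat_lit 277) (nat_lit 5) (nat_lit 282) (nat_lit 5) (nat_lit 283) (nat_lit 5) (nat_lit 410) (nat_lit 372) (nat_lit 238))) (XT.nd (nat_lit 78)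 (nat_lit 532) (nat_lit 0) (XT.lf (nat_lit 0) (nat_lit 14774449069) (nat_lit 380) (nat_lit 3357163829) (nat_lit 456) (nat_lit 1627829940) (nat_lit 277) (nat_lit 5) (nat_lit 282) (nat_lit 5) (nat_lit 283) (nat_lit 5) (nat_lit 411) (nat_lit 372) (nat_lit 237)) (XT.lf (nat_lit 0) (nat_lit 2063989964) (nat_lit 532) (nat_lit 13195376488) (nat_lit 76) (nat_lit 4840190728) (nat_lit 270) (nat_lit 5) (nat_lit 277) (nat_lit 5) (nat_lit 271) (nat_lit 5) (nat_lit 412) (nat_lit 372) (nat_lit 236))))))))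
noncomputable def xc171 : XT := (XT.nd (nat_lit 2340) (nat_lit 3876) (nat_lit 0) (XT.nd (nat_lit 1170) (nat_lit 2508) (nat_lit 0) (XT.nd (nat_lit 546) (nat_lit 1748) (nat_lit 0) (XT.nd (nat_lit 234) (nat_lit 836) (nat_lit 0) (XT.nd (nat_lit 78) (nat_lit 760) (nat_lit 0) (XT.lf (nat_lit 0) (nat_lit 5908707223) (nat_lit 532) (nat_lit 1258157981) (nat_lit 76) (nat_lit 13280280419) (nat_lit 270) (nat_lit 5) (nat_lit 277) (nat_lit 5) (nat_lit 271) (nat_lit 5) (nat_lit 413) (nat_lit 372) (nat_lit 235)) (XT.nd (nat_lit 78) (nat_lit 380) (nat_lit 0) (XT.lf (nat_lit 0) (nat_lit 9980184806) (nat_lit 456) (nat_lit 9569660199) (nat_lit 76) (nat_lit 1251974150) (nat_lit 265) (nat_lit 5) (nat_lit 271) (nat_lit 5) (nat_lit 266) (nat_lit 5) (nat_lit 414) (nat_lit 372) (nat_lit 234)) (XT.lf (nat_lit 0) (nat_lit 2930399734) (nat_lit 380) (nat_lit 11346538705) (nat_lit 456) (nat_lit 6887100502) (nat_lit 260) (nat_lit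 5) (nat_lit 265) (nat_lit 5) (nat_lit 266) (nat_lit 5) (nat_lit 415) (nat_lit 372) (nat_lit 233)))) (XT.nd (nat_lit 156) (nat_lit 380) (nat_lit 0) (XT.nd (nat_lit 78) (nat_lit 456) (nat_lit 0) (XT.lf (nat_lit 0) (nat_lit 15989824278) (nat_lit 380) (nat_lit 2800721961) (nat_lit 456) (nat_lit 2743940534) (nat_lit 260) (nat_lit 5) (nat_lit 265) (nat_lit 5) (nat_lit 266) (nat_lit 5) (nat_lit 416) (nat_lit 372) (nat_lit 232)) (XT.lf (nat_lit 0) (nat_lit 1617320629) (nat_lit 456) (nat_lit 14324245197) (nat_lit 76) (nat_lit 5970336796) (nat_lit 254) (nat_lit 5) (nat_lit 260) (nat_lit 5) (nat_lit 255) (nat_lit 5) (nat_lit 417) (nat_lit 372) (nat_lit 231))) (XT.nd (nat_lit 78) (nat_lit 380) (nat_lit 0) (XT.lf (nat_lit 0) (nat_lit 6130136906) (nat_lit 456) (nat_lit 1138544650) (nat_lit 76) (nat_lit 15028868327) (nat_lit 254) (nat_lit 5) (nat_lit 260) (nat_lit 5) (nat_lit 255) (nat_lit 5) (nat_lit 418) (nat_lit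 372) (nat_lit 230)) (XT.lf (nat_lit 0) (nat_lit 10909226306) (nat_lit 456) (nat_lit 10029791702) (nat_lit 76) (nat_lit 1751821894) (nat_lit 249) (nat_lit 5) (nat_lit 255) (nat_lit 5) (nat_lit 250) (nat_lit 5) (nat_lit 419) (nat_lit 372) (nat_lit 229))))) (XT.nd (nat_lit 312) (nat_lit 988) (nat_lit 0) (XT.nd (nat_lit 156) (nat_lit 456) (nat_lit 0) (XT.nd (nat_lit 78) (nat_lit 0) (nat_lit 0) (XT.lf (nat_lit 0) (nat_lit 3792820203) (nat_lit 304) (nat_lit 12150841246) (nat_lit 380) (nat_lit 7148907980) (nat_lit 245) (nat_lit 5) (nat_lit 249) (nat_lit 5) (nat_lit 250) (nat_lit 5) (nat_lit 420) (nat_lit 372) (nat_lit 228)) (XT.lf (nat_lit 0) (nat_lit 18224329476) (nat_lit 304) (nat_lit 2998142971) (nat_lit 380) (nat_lit 2281078112) (nat_lit 245) (nat_lit 5) (nat_lit 249) (nat_lit 5) (nat_lit 250) (nat_lit 5) (nat_lit 421) (nat_lit 372) (nat_lit 227))) (XT.nd (nat_lit 78) (nat_lit 0) (nat_lit 0) (XT.lf (nat_lit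 0) (nat_lit 2824045680) (nat_lit 456) (nat_lit 14680493762) (nat_lit 76) (nat_lit 6417196038) (nat_lit 239) (nat_lit 5) (nat_lit 245) (nat_lit 5) (nat_lit 240) (nat_lit 5) (nat_lit 422) (nat_lit 372) (nat_lit 226)) (XT.lf (nat_lit 0) (nat_lit 8112301497) (nat_lit 456) (nat_lit 109419069) (nat_lit 76) (nat_lit 16127793064) (nat_lit 239) (nat_lit 5) (nat_lit 245) (nat_lit 5) (nat_lit 240) (nat_lit 5) (nat_lit 423) (nat_lit 372) (nat_lit 225)))) (XT.nd (nat_lit 156) (nat_lit 380) (nat_lit 0) (XT.nd (nat_lit 78) (nat_lit 304) (nat_lit 0) (XT.lf (nat_lit 0) (nat_lit 13711980225) (nat_lit 380) (nat_lit 9616137669) (nat_lit 76) (nat_lit 1457423972) (nat_lit 235) (nat_lit 5) (nat_lit 240) (nat_lit 5) (nat_lit 236) (nat_lit 5) (nat_lit 424) (nat_lit 372) (nat_lit 224)) (XT.lf (nat_lit 0) (nat_lit 5692848092) (nat_lit 304) (nat_lit 13916650769) (nat_lit 380) (nat_lit 5621256602) (nat_lit 231) (nat_lit 5) (nat_lit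 235) (nat_lit 5) (nat_lit 236) (nat_lit 5) (nat_lit 425) (nat_lit 372) (nat_lit 223))) (XT.nd (nat_lit 78) (nat_lit 304) (nat_lit 0) (XT.lf (nat_lit 0) (nat_lit 85433658) (nat_lit 380) (nat_lit 4040178424) (nat_lit 76) (nat_lit 21560993607) (nat_lit 230) (nat_lit 5) (nat_lit 235) (nat_lit 5) (nat_lit 231) (nat_lit 5) (nat_lit 426) (nat_lit 372) (nat_lit 222)) (XT.lf (nat_lit 0) (nat_lit 6018388774) (nat_lit 380) (nat_lit 14118112139) (nat_lit 76) (nat_lit 6012919453) (nat_lit 226) (nat_lit 5) (nat_lit 231) (nat_lit 5) (nat_lit 227) (nat_lit 5) (nat_lit 427) (nat_lit 372) (nat_lit 221)))))) (XT.nd (nat_lit 546) (nat_lit 1368) (nat_lit 0) (XT.nd (nat_lit 234) (nat_lit 608) (nat_lit 0) (XT.nd (nat_lit 78) (nat_lit 228) (nat_lit 0) (XT.lf (nat_lit 0) (nat_lit 2030403279) (nat_lit 304) (nat_lit 10193426681) (nat_lit 380) (nat_lit 14399454601) (nat_lit 222) (nat_lit 5) (nat_lit 226) (nat_lit 5) (nat_lit 227)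 (nat_lit 5) (nat_lit 428) (nat_lit 372) (nat_lit 220)) (XT.nd (nat_lit 78) (nat_lit 228) (nat_lit 0) (XT.lf (nat_lit 0) (nat_lit 18752869194) (nat_lit 380) (nat_lit 8167074439) (nat_lit 76) (nat_lit 187298005) (nat_lit 222) (nat_lit 5) (nat_lit 227) (nat_lit 5) (nat_lit 223) (nat_lit 5) (nat_lit 429) (nat_lit 372) (nat_lit 219)) (XT.lf (nat_lit 0) (nat_lit 8811955982) (nat_lit 228) (nat_lit 16844655713) (nat_lit 304) (nat_lit 1943740769) (nat_lit 219) (nat_lit 5) (nat_lit 222) (nat_lit 5) (nat_lit 223) (nat_lit 5) (nat_lit 430) (nat_lit 372) (nat_lit 218)))) (XT.nd (nat_lit 156) (nat_lit 228) (nat_lit 0) (XT.nd (nat_lit 78) (nat_lit 304) (nat_lit 0) (XT.lf (nat_lit 0) (nat_lit 4644812021) (nat_lit 304) (nat_lit 1694221453) (nat_lit 76) (nat_lit 21765583922) (nat_lit 218) (nat_lit 5) (nat_lit 222) (nat_lit 5) (nat_lit 219) (nat_lit 5) (nat_lit 431) (nat_lit 372) (nat_lit 217)) (XT.lf (nat_lit 0) (nat_lit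 11585879218) (nat_lit 380) (nat_lit 12464395578) (nat_lit 76) (nat_lit 4567340378) (nat_lit 214) (nat_lit 5) (nat_lit 219) (nat_lit 5) (nat_lit 215) (nat_lit 5) (nat_lit 432) (nat_lit 372) (nat_lit 216))) (XT.nd (nat_lit 78) (nat_lit 0) (nat_lit 0) (XT.lf (nat_lit 0) (nat_lit 5458549861) (nat_lit 228) (nat_lit 13402626724) (nat_lit 304) (nat_lit 10281046357) (nat_lit 211) (nat_lit 5) (nat_lit 214) (nat_lit 5) (nat_lit 215) (nat_lit 5) (nat_lit 433) (nat_lit 372) (nat_lit 215)) (XT.lf (nat_lit 0) (nat_lit 24164434972) (nat_lit 228) (nat_lit 2309741790) (nat_lit 304) (nat_lit 3204808862) (nat_lit 211) (nat_lit 5) (nat_lit 214) (nat_lit 5) (nat_lit 215) (nat_lit 5) (nat_lit 434) (nat_lit 372) (nat_lit 214))))) (XT.nd (nat_lit 312) (nat_lit 532) (nat_lit 0) (XT.nd (nat_lit 156) (nat_lit 228) (nat_lit 0) (XT.nd (nat_lit 78) (nat_lit 228) (nat_lit 0) (XT.lf (nat_lit 0) (nat_lit 4215912226) (nat_lit 380) (nat_lit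 16904227335) (nat_lit 76) (nat_lit 9104177439) (nat_lit 206) (nat_lit 5) (nat_lit 211) (nat_lit 5) (nat_lit 207) (nat_lit 5) (nat_lit 435) (nat_lit 372) (nat_lit 213)) (XT.lf (nat_lit 0) (nat_lit 2022658538) (nat_lit 228) (nat_lit 9864486572) (nat_lit 304) (nat_lit 18895142173) (nat_lit 203) (nat_lit 5) (nat_lit 206) (nat_lit 5) (nat_lit 207) (nat_lit 5) (nat_lit 436) (nat_lit 372) (nat_lit 212))) (XT.nd (nat_lit 78) (nat_lit 228) (nat_lit 0) (XT.lf (nat_lit 0) (nat_lit 19971325847) (nat_lit 304) (nat_lit 9516495840) (nat_lit 76) (nat_lit 1863690661) (nat_lit 203) (nat_lit 5) (nat_lit 207) (nat_lit 5) (nat_lit 204) (nat_lit 5) (nat_lit 437) (nat_lit 372) (nat_lit 211)) (XT.lf (nat_lit 0) (nat_lit 10399304837) (nat_lit 228) (nat_lit 18090342932) (nat_lit 304) (nat_lit 3442417924) (nat_lit 200) (nat_lit 5) (nat_lit 203) (nat_lit 5) (nat_lit 204) (nat_lit 5) (nat_lit 438) (nat_lit 372) (nat_lit 210))))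 (XT.nd (nat_lit 156) (nat_lit 228) (nat_lit 0) (XT.nd (nat_lit 78) (nat_lit 228) (nat_lit 0) (XT.lf (nat_lit 0) (nat_lit 4732171287) (nat_lit 304) (nat_lit 1475855243) (nat_lit 76) (nat_lit 26317912427) (nat_lit 199) (nat_lit 5) (nat_lit 203) (nat_lit 5) (nat_lit 200) (nat_lit 5) (nat_lit 439) (nat_lit 372) (nat_lit 209)) (XT.lf (nat_lit 0) (nat_lit 13324756931) (nat_lit 304) (nat_lit 13671322274) (nat_lit 76) (nat_lit 6133268274) (nat_lit 196) (nat_lit 5) (nat_lit 200) (nat_lit 5) (nat_lit 197) (nat_lit 5) (nat_lit 440) (nat_lit 372) (nat_lit 208))) (XT.nd (nat_lit 78) (nat_lit 0) (nat_lit 0) (XT.lf (nat_lit 0) (nat_lit 7372351155) (nat_lit 228) (nat_lit 14944374606) (nat_lit 304) (nat_lit 11429884328) (nat_lit 193) (nat_lit 5) (nat_lit 196) (nat_lit 5) (nat_lit 197) (nat_lit 5) (nat_lit 441) (nat_lit 372) (nat_lit 207)) (XT.lf (nat_lit 0) (nat_lit 29318016916) (nat_lit 228) (nat_lit 2392788289) (nat_lit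 304) (nat_lit 2667614826) (nat_lit 193) (nat_lit 5) (nat_lit 196) (nat_lit 5) (nat_lit 197) (nat_lit 5) (nat_lit 442) (nat_lit 372) (nat_lit 206))))))) (XT.nd (nat_lit 1170) (nat_lit 1672) (nat_lit 0) (XT.nd (nat_lit 546) (nat_lit 1064) (nat_lit 0) (XT.nd (nat_lit 234) (nat_lit 608) (nat_lit 0) (XT.nd (nat_lit 78) (nat_lit 228) (nat_lit 0) (XT.lf (nat_lit 0) (nat_lit 6496272497) (nat_lit 304) (nat_lit 17968889784) (nat_lit 76) (nat_lit 10554304382) (nat_lit 189) (nat_lit 5) (nat_lit 193) (nat_lit 5) (nat_lit 190) (nat_lit 5) (nat_lit 443) (nat_lit 372) (nat_lit 205)) (XT.nd (nat_lit 78) (nat_lit 0) (nat_lit 0) (XT.lf (nat_lit 0) (nat_lit 4273759232) (nat_lit 228) (nat_lit 11718526052) (nat_lit 304) (nat_lit 19683342290) (nat_lit 186) (nat_lit 5) (nat_lit 189) (nat_lit 5) (nat_lit 190) (nat_lit 5) (nat_lit 444) (nat_lit 372) (nat_lit 204)) (XT.lf (nat_lit 0) (nat_lit 25964465259) (nat_lit 304) (nat_lit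 8818823640) (nat_lit 76) (nat_lit 1562445809) (nat_lit 186) (nat_lit 5) (nat_lit 190) (nat_lit 5) (nat_lit 187) (nat_lit 5) (nat_lit 445) (nat_lit 372) (nat_lit 203)))) (XT.nd (nat_lit 156) (nat_lit 152) (nat_lit 0) (XT.nd (nat_lit 78) (nat_lit 304) (nat_lit 0) (XT.lf (nat_lit 0) (nat_lit 14601418542) (nat_lit 152) (nat_lit 21885416645) (nat_lit 228) (nat_lit 541579133) (nat_lit 184) (nat_lit 5) (nat_lit 186) (nat_lit 5) (nat_lit 187) (nat_lit 5) (nat_lit 446) (nat_lit 372) (nat_lit 202)) (XT.lf (nat_lit 0) (nat_lit 1095204188) (nat_lit 228) (nat_lit 8406018088) (nat_lit 304) (nat_lit 28224731936) (nat_lit 180) (nat_lit 5) (nat_lit 183) (nat_lit 5) (nat_lit 184) (nat_lit 5) (nat_lit 447) (nat_lit 372) (nat_lit 201))) (XT.nd (nat_lit 78) (nat_lit 152) (nat_lit 0) (XT.lf (nat_lit 0) (nat_lit 20110477962) (nat_lit 304) (nat_lit 12724326923) (nat_lit 76) (nat_lit 5601172888) (nat_lit 180) (nat_lit 5) (nat_lit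 184) (nat_lit 5) (nat_lit 181) (nat_lit 5) (nat_lit 448) (nat_lit 372) (nat_lit 200)) (XT.lf (nat_lit 0) (nat_lit 12042072137) (nat_lit 152) (nat_lit 19189766425) (nat_lit 228) (nat_lit 7929648661) (nat_lit 178) (nat_lit 5) (nat_lit 180) (nat_lit 5) (nat_lit 181) (nat_lit 5) (nat_lit 449) (nat_lit 372) (nat_lit 199))))) (XT.nd (nat_lit 312) (nat_lit 608) (nat_lit 0) (XT.nd (nat_lit 156) (nat_lit 152) (nat_lit 0) (XT.nd (nat_lit 78) (nat_lit 228) (nat_lit 0) (XT.lf (nat_lit 0) (nat_lit 2848488597) (nat_lit 228) (nat_lit 2129572009) (nat_lit 76) (nat_lit 34926161586) (nat_lit 177) (nat_lit 5) (nat_lit 180) (nat_lit 5) (nat_lit 178) (nat_lit 5) (nat_lit 450) (nat_lit 372) (nat_lit 198)) (XT.lf (nat_lit 0) (nat_lit 14112097158) (nat_lit 304) (nat_lit 16765119961) (nat_lit 76) (nat_lit 9780021592) (nat_lit 174) (nat_lit 5) (nat_lit 178) (nat_lit 5) (nat_lit 175) (nat_lit 5) (nat_lit 451) (nat_lit 372) (nat_lit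 197))) (XT.nd (nat_lit 78) (nat_lit 0) (nat_lit 0) (XT.lf (nat_lit 0) (nat_lit 9431707399) (nat_lit 152) (nat_lit 16438609466) (nat_lit 228) (nat_lit 15557827775) (nat_lit 172) (nat_lit 5) (nat_lit 174) (nat_lit 5) (nat_lit 175) (nat_lit 5) (nat_lit 452) (nat_lit 372) (nat_lit 196)) (XT.lf (nat_lit 0) (nat_lit 36749441592) (nat_lit 152) (nat_lit 1396232133) (nat_lit 228) (nat_lit 4071572303) (nat_lit 172) (nat_lit 5) (nat_lit 174) (nat_lit 5) (nat_lit 175) (nat_lit 5) (nat_lit 453) (nat_lit 372) (nat_lit 195)))) (XT.nd (nat_lit 156) (nat_lit 228) (nat_lit 0) (XT.nd (nat_lit 78) (nat_lit 152) (nat_lit 0) (XT.lf (nat_lit 0) (nat_lit 7954846936) (nat_lit 228) (nat_lit 20952924692) (nat_lit 76) (nat_lit 14109601604) (nat_lit 169) (nat_lit 5) (nat_lit 172) (nat_lit 5) (nat_lit 170) (nat_lit 5) (nat_lit 454) (nat_lit 372) (nat_lit 194)) (XT.lf (nat_lit 0) (nat_lit 6763672671) (nat_lit 152) (nat_lit 13626368062)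 (nat_lit 228) (nat_lit 23446359642) (nat_lit 167) (nat_lit 5) (nat_lit 169) (nat_lit 5) (nat_lit 170) (nat_lit 5) (nat_lit 455) (nat_lit 372) (nat_lit 193))) (XT.nd (nat_lit 78) (nat_lit 228) (nat_lit 0) (XT.lf (nat_lit 0) (nat_lit 33427522213) (nat_lit 228) (nat_lit 8963335238) (nat_lit 76) (nat_lit 2282263926) (nat_lit 167) (nat_lit 5) (nat_lit 170) (nat_lit 5) (nat_lit 168) (nat_lit 5) (nat_lit 456) (nat_lit 372) (nat_lit 192)) (XT.lf (nat_lit 0) (nat_lit 1623480024) (nat_lit 228) (nat_lit 25300020195) (nat_lit 76) (nat_lit 18601220481) (nat_lit 164) (nat_lit 5) (nat_lit 167) (nat_lit 5) (nat_lit 165) (nat_lit 5) (nat_lit 457) (nat_lit 372) (nat_lit 191)))))) (XT.nd (nat_lit 624) (nat_lit 760) (nat_lit 0) (XT.nd (nat_lit 312) (nat_lit 380) (nat_lit 0) (XT.nd (nat_lit 156) (nat_lit 380) (nat_lit 0) (XT.nd (nat_lit 78) (nat_lit 0) (nat_lit 0) (XT.lf (nat_lit 0) (nat_lit 4031069188) (nat_lit 152) (nat_lit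 10747080943) (nat_lit 228) (nat_lit 31616611276) (nat_lit 162) (nat_lit 5) (nat_lit 164) (nat_lit 5) (nat_lit 165) (nat_lit 5) (nat_lit 458) (nat_lit 372) (nat_lit 190)) (XT.lf (nat_lit 0) (nat_lit 28637731938) (nat_lit 228) (nat_lit 12590243505) (nat_lit 76) (nat_lit 6053619744) (nat_lit 162) (nat_lit 5) (nat_lit 165) (nat_lit 5) (nat_lit 163) (nat_lit 5) (nat_lit 459) (nat_lit 372) (nat_lit 189))) (XT.nd (nat_lit 78) (nat_lit 228) (nat_lit 0) (XT.lf (nat_lit 0) (nat_lit 18319385045) (nat_lit 152) (nat_lit 24871760261) (nat_lit 228) (nat_lit 4995547351) (nat_lit 160) (nat_lit 5) (nat_lit 162) (nat_lit 5) (nat_lit 163) (nat_lit 5) (nat_lit 460) (nat_lit 372) (nat_lit 188)) (XT.lf (nat_lit 0) (nat_lit 1226725328) (nat_lit 152) (nat_lit 7794393219) (nat_lit 228) (nat_lit 40091139046) (nat_lit 157) (nat_lit 5) (nat_lit 159) (nat_lit 5) (nat_lit 160) (nat_lit 5) (nat_lit 461) (nat_lit 372) (nat_lit 187))))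 (XT.nd (nat_lit 156) (nat_lit 228) (nat_lit 0) (XT.nd (nat_lit 78) (nat_lit 152) (nat_lit 0) (XT.lf (nat_lit 0) (nat_lit 23752191725) (nat_lit 228) (nat_lit 16345437973) (nat_lit 76) (nat_lit 9954646568) (nat_lit 157) (nat_lit 5) (nat_lit 160) (nat_lit 5) (nat_lit 158) (nat_lit 5) (nat_lit 462) (nat_lit 372) (nat_lit 186)) (XT.lf (nat_lit 0) (nat_lit 16375344488) (nat_lit 152) (nat_lit 22780130857) (nat_lit 228) (nat_lit 11858111805) (nat_lit 155) (nat_lit 5) (nat_lit 157) (nat_lit 5) (nat_lit 158) (nat_lit 5) (nat_lit 463) (nat_lit 372) (nat_lit 185))) (XT.nd (nat_lit 78) (nat_lit 152) (nat_lit 0) (XT.lf (nat_lit 0) (nat_lit 3120640734) (nat_lit 228) (nat_lit 1624499003) (nat_lit 76) (nat_lit 47252855686) (nat_lit 154) (nat_lit 5) (nat_lit 157) (nat_lit 5) (nat_lit 155) (nat_lit 5) (nat_lit 464) (nat_lit 372) (nat_lit 184)) (XT.lf (nat_lit 0) (nat_lit 18759681368) (nat_lit 228) (nat_lit 20239746338)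 (nat_lit 76) (nat_lit 13995508175) (nat_lit 152) (nat_lit 5) (nat_lit 155) (nat_lit 5) (nat_lit 153) (nat_lit 5) (nat_lit 465) (nat_lit 372) (nat_lit 183))))) (XT.nd (nat_lit 312) (nat_lit 304) (nat_lit 0) (XT.nd (nat_lit 156) (nat_lit 304) (nat_lit 0) (XT.nd (nat_lit 78) (nat_lit 0) (nat_lit 0) (XT.lf (nat_lit 0) (nat_lit 14404539475) (nat_lit 152) (nat_lit 20661211982) (nat_lit 228) (nat_lit 18950097347) (nat_lit 150) (nat_lit 5) (nat_lit 152) (nat_lit 5) (nat_lit 153) (nat_lit 5) (nat_lit 466) (nat_lit 372) (nat_lit 182)) (XT.lf (nat_lit 0) (nat_lit 50495446160) (nat_lit 152) (nat_lit 1565831923) (nat_lit 228) (nat_lit 3000102798) (nat_lit 150) (nat_lit 5) (nat_lit 152) (nat_lit 5) (nat_lit 153) (nat_lit 5) (nat_lit 467) (nat_lit 372) (nat_lit 181))) (XT.nd (nat_lit 78) (nat_lit 152) (nat_lit 0) (XT.lf (nat_lit 0) (nat_lit 13648418829) (nat_lit 152) (nat_lit 24284532402) (nat_lit 76) (nat_lit 18186993326)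 (nat_lit 148) (nat_lit 5) (nat_lit 150) (nat_lit 5) (nat_lit 149) (nat_lit 5) (nat_lit 468) (nat_lit 372) (nat_lit 180)) (XT.lf (nat_lit 0) (nat_lit 12402391342) (nat_lit 152) (nat_lit 18510978171) (nat_lit 228) (nat_lit 26290686335) (nat_lit 146) (nat_lit 5) (nat_lit 148) (nat_lit 5) (nat_lit 149) (nat_lit 5) (nat_lit 469) (nat_lit 372) (nat_lit 179)))) (XT.nd (nat_lit 156) (nat_lit 152) (nat_lit 0) (XT.nd (nat_lit 78) (nat_lit 152) (nat_lit 0) (XT.lf (nat_lit 0) (nat_lit 48954279880) (nat_lit 228) (nat_lit 7649875328) (nat_lit 76) (nat_lit 1708794937) (nat_lit 146) (nat_lit 5) (nat_lit 149) (nat_lit 5) (nat_lit 147) (nat_lit 4) (nat_lit 470) (nat_lit 372) (nat_lit 178)) (XT.lf (nat_lit 0) (nat_lit 8406026442) (nat_lit 152) (nat_lit 28491736269) (nat_lit 76) (nat_lit 22540545618) (nat_lit 144) (nat_lit 5) (nat_lit 146) (nat_lit 5) (nat_lit 145) (nat_lit 5) (nat_lit 471) (nat_lit 372) (nat_lit 177)))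 (XT.nd (nat_lit 78) (nat_lit 0) (nat_lit 0) (XT.lf (nat_lit 0) (nat_lit 10364159690) (nat_lit 152) (nat_lit 16325166127) (nat_lit 228) (nat_lit 33900108786) (nat_lit 142) (nat_lit 5) (nat_lit 144) (nat_lit 5) (nat_lit 145) (nat_lit 5) (nat_lit 472) (nat_lit 372) (nat_lit 176)) (XT.lf (nat_lit 0) (nat_lit 45854577933) (nat_lit 228) (nat_lit 10853575165) (nat_lit 76) (nat_lit 5056937955) (nat_lit 142) (nat_lit 5) (nat_lit 145) (nat_lit 5) (nat_lit 143) (nat_lit 4) (nat_lit 473) (nat_lit 372) (nat_lit 175))))))))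
noncomputable def xc172 : XT := (XT.nd (nat_lit 46332) (nat_lit 0) (nat_lit 10564) (XT.nd (nat_lit 1170) (nat_lit 76) (nat_lit 0) (XT.nd (nat_lit 546) (nat_lit 836) (nat_lit 0) (XT.nd (nat_lit 234) (nat_lit 380) (nat_lit 0) (XT.nd (nat_lit 78) (nat_lit 152) (nat_lit 0) (XT.lf (nat_lit 0) (nat_lit 3019494603) (nat_lit 152) (nat_lit 32873916333) (nat_lit 76) (nat_lit 27068296288) (nat_lit 140) (nat_lit 5) (nat_lit 142) (nat_lit 5) (nat_lit 141) (nat_lit 5) (nat_lit 474) (nat_lit 372) (nat_lit 174)) (XT.nd (nat_lit 78) (nat_lit 0) (nat_lit 0) (XT.lf (nat_lit 0) (nat_lit 8284925636) (nat_lit 152) (nat_lit 14099266879) (nat_lit 228) (nat_lit 41799706204) (nat_lit 138) (nat_lit 5) (nat_lit 140) (nat_lit 5) (nat_lit 141) (nat_lit 5) (nat_lit 475) (nat_lit 372) (nat_lit 173)) (XT.lf (nat_lit 0) (nat_lit 42741593872) (nat_lit 228) (nat_lit 14171010639) (nat_lit 76) (nat_lit 8517798574) (nat_lit 138) (nat_lit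 5) (nat_lit 141) (nat_lit 5) (nat_lit 139) (nat_lit 4) (nat_lit 476) (nat_lit 372) (nat_lit 172)))) (XT.nd (nat_lit 156) (nat_lit 76) (nat_lit 0) (XT.nd (nat_lit 78) (nat_lit 228) (nat_lit 0) (XT.lf (nat_lit 0) (nat_lit 29232746778) (nat_lit 76) (nat_lit 34893939975) (nat_lit 152) (nat_lit 2575106744) (nat_lit 137) (nat_lit 5) (nat_lit 138) (nat_lit 5) (nat_lit 139) (nat_lit 4) (nat_lit 477) (nat_lit 372) (nat_lit 171)) (XT.lf (nat_lit 0) (nat_lit 6159574645) (nat_lit 152) (nat_lit 11828516514) (nat_lit 228) (nat_lit 50011999693) (nat_lit 134) (nat_lit 5) (nat_lit 136) (nat_lit 5) (nat_lit 137) (nat_lit 5) (nat_lit 478) (nat_lit 372) (nat_lit 170))) (XT.nd (nat_lit 78) (nat_lit 76) (nat_lit 0) (XT.lf (nat_lit 0) (nat_lit 39609588928) (nat_lit 228) (nat_lit 17611659704) (nat_lit 76) (nat_lit 12100528780) (nat_lit 134) (nat_lit 5) (nat_lit 137) (nat_lit 5) (nat_lit 135) (nat_lit 4) (nat_lit 479) (nat_lit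 372) (nat_lit 169)) (XT.lf (nat_lit 0) (nat_lit 28373929930) (nat_lit 76) (nat_lit 33892151987) (nat_lit 152) (nat_lit 8405442145) (nat_lit 133) (nat_lit 5) (nat_lit 134) (nat_lit 5) (nat_lit 135) (nat_lit 4) (nat_lit 480) (nat_lit 372) (nat_lit 168))))) (XT.nd (nat_lit 312) (nat_lit 304) (nat_lit 0) (XT.nd (nat_lit 156) (nat_lit 304) (nat_lit 0) (XT.nd (nat_lit 78) (nat_lit 0) (nat_lit 0) (XT.lf (nat_lit 0) (nat_lit 3982778840) (nat_lit 152) (nat_lit 9507885492) (nat_lit 228) (nat_lit 58560762537) (nat_lit 130) (nat_lit 5) (nat_lit 132) (nat_lit 5) (nat_lit 133) (nat_lit 5) (nat_lit 481) (nat_lit 372) (nat_lit 167)) (XT.lf (nat_lit 0) (nat_lit 36452598196) (nat_lit 228) (nat_lit 21185482973) (nat_lit 76) (nat_lit 15814812366) (nat_lit 130) (nat_lit 5) (nat_lit 133) (nat_lit 5) (nat_lit 131) (nat_lit 4) (nat_lit 482) (nat_lit 372) (nat_lit 166))) (XT.nd (nat_lit 78) (nat_lit 228) (nat_lit 0) (XT.lf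 (nat_lit 0) (nat_lit 27540949865) (nat_lit 76) (nat_lit 32917920851) (nat_lit 152) (nat_lit 14426869065) (nat_lit 129) (nat_lit 5) (nat_lit 130) (nat_lit 5) (nat_lit 131) (nat_lit 4) (nat_lit 483) (nat_lit 372) (nat_lit 165)) (XT.lf (nat_lit 0) (nat_lit 1748978709) (nat_lit 152) (nat_lit 7132066568) (nat_lit 228) (nat_lit 67471097500) (nat_lit 126) (nat_lit 5) (nat_lit 128) (nat_lit 5) (nat_lit 129) (nat_lit 5) (nat_lit 484) (nat_lit 372) (nat_lit 164)))) (XT.nd (nat_lit 156) (nat_lit 228) (nat_lit 0) (XT.nd (nat_lit 78) (nat_lit 76) (nat_lit 0) (XT.lf (nat_lit 0) (nat_lit 33264415521) (nat_lit 228) (nat_lit 24902958118) (nat_lit 76) (nat_lit 19670893486) (nat_lit 126) (nat_lit 5) (nat_lit 129) (nat_lit 5) (nat_lit 127) (nat_lit 4) (nat_lit 485) (nat_lit 372) (nat_lit 163)) (XT.lf (nat_lit 0) (nat_lit 26732962315) (nat_lit 76) (nat_lit 31970624752) (nat_lit 152) (nat_lit 20655659130) (nat_lit 125) (nat_lit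 5) (nat_lit 126) (nat_lit 5) (nat_lit 127) (nat_lit 4) (nat_lit 486) (nat_lit 372) (nat_lit 162))) (XT.nd (nat_lit 78) (nat_lit 152) (nat_lit 0) (XT.lf (nat_lit 0) (nat_lit 4153089661) (nat_lit 152) (nat_lit 536949526) (nat_lit 76) (nat_lit 76227147400) (nat_lit 124) (nat_lit 5) (nat_lit 126) (nat_lit 5) (nat_lit 125) (nat_lit 5) (nat_lit 487) (nat_lit 372) (nat_lit 161)) (XT.lf (nat_lit 0) (nat_lit 30038577266) (nat_lit 228) (nat_lit 28775115977) (nat_lit 76) (nat_lit 23679607561) (nat_lit 122) (nat_lit 5) (nat_lit 125) (nat_lit 5) (nat_lit 123) (nat_lit 4) (nat_lit 488) (nat_lit 372) (nat_lit 160)))))) (XT.nd (nat_lit 44538) (nat_lit 0) (nat_lit 19532) (XT.nd (nat_lit 44226) (nat_lit 0) (nat_lit 20520) (XT.nd (nat_lit 44070) (nat_lit 0) (nat_lit 20520) (XT.lf (nat_lit 0) (nat_lit 25949157829) (nat_lit 76) (nat_lit 31049639824) (nat_lit 152) (nat_lit 27108955751) (nat_lit 121) (nat_lit 5) (nat_lit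 122) (nat_lit 5) (nat_lit 123) (nat_lit 4) (nat_lit 489) (nat_lit 372) (nat_lit 159)) (XT.nd (nat_lit 78) (nat_lit 0) (nat_lit 0) (XT.lf (nat_lit 0) (nat_lit 1267676938) (nat_lit 0) (nat_lit 1267676938) (nat_lit 1140) (nat_lit 3037023870) (nat_lit 391) (nat_lit 5) (nat_lit 391) (nat_lit 3) (nat_lit 406) (nat_lit 3) (nat_lit 373) (nat_lit 373) (nat_lit 274)) (XT.lf (nat_lit 0) (nat_lit 5728999818) (nat_lit 1140) (nat_lit 3056104309) (nat_lit 1216) (nat_lit 2509355756) (nat_lit 391) (nat_lit 5) (nat_lit 406) (nat_lit 3) (nat_lit 407) (nat_lit 5) (nat_lit 374) (nat_lit 373) (nat_lit 273)))) (XT.nd (nat_lit 156) (nat_lit 0) (nat_lit 76) (XT.nd (nat_lit 78) (nat_lit 0) (nat_lit 76) (XT.lf (nat_lit 76) (nat_lit 2679334013) (nat_lit 0) (nat_lit 3756906404) (nat_lit 1216) (nat_lit 5011538993) (nat_lit 392) (nat_lit 5) (nat_lit 391) (nat_lit 5) (nat_lit 407) (nat_lit 5) (nat_lit 375) (nat_lit 373) (nat_lit 272))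 (XT.lf (nat_lit 0) (nat_lit 7188489208) (nat_lit 1140) (nat_lit 2981517375) (nat_lit 1216) (nat_lit 1434978210) (nat_lit 392) (nat_lit 5) (nat_lit 407) (nat_lit 5) (nat_lit 408) (nat_lit 5) (nat_lit 376) (nat_lit 373) (nat_lit 271))) (XT.nd (nat_lit 78) (nat_lit 0) (nat_lit 76) (XT.lf (nat_lit 76) (nat_lit 2988238223) (nat_lit 0) (nat_lit 5020556396) (nat_lit 1216) (nat_lit 3756747045) (nat_lit 393) (nat_lit 5) (nat_lit 392) (nat_lit 5) (nat_lit 408) (nat_lit 5) (nat_lit 377) (nat_lit 373) (nat_lit 270)) (XT.lf (nat_lit 0) (nat_lit 8866966526) (nat_lit 1140) (nat_lit 2747284370) (nat_lit 1216) (nat_lit 316266625) (nat_lit 393) (nat_lit 5) (nat_lit 408) (nat_lit 5) (nat_lit 409) (nat_lit 5) (nat_lit 378) (nat_lit 373) (nat_lit 269))))) (XT.nd (nat_lit 312) (nat_lit 0) (nat_lit 76) (XT.nd (nat_lit 156) (nat_lit 1140) (nat_lit 0) (XT.nd (nat_lit 78) (nat_lit 0) (nat_lit 0) (XT.lf (nat_lit 76) (nat_lit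 3469537802) (nat_lit 0) (nat_lit 6345112155) (nat_lit 1216) (nat_lit 2283879706) (nat_lit 394) (nat_lit 5) (nat_lit 393) (nat_lit 5) (nat_lit 409) (nat_lit 5) (nat_lit 379) (nat_lit 373) (nat_lit 268)) (XT.lf (nat_lit 76) (nat_lit 9917207656) (nat_lit 0) (nat_lit 882451833) (nat_lit 1216) (nat_lit 1471655811) (nat_lit 394) (nat_lit 5) (nat_lit 393) (nat_lit 5) (nat_lit 409) (nat_lit 5) (nat_lit 380) (nat_lit 373) (nat_lit 267))) (XT.nd (nat_lit 78) (nat_lit 1216) (nat_lit 0) (XT.lf (nat_lit 76) (nat_lit 4131808537) (nat_lit 0) (nat_lit 7749497808) (nat_lit 1216) (nat_lit 565965552) (nat_lit 395) (nat_lit 5) (nat_lit 394) (nat_lit 5) (nat_lit 410) (nat_lit 5) (nat_lit 381) (nat_lit 373) (nat_lit 266)) (XT.lf (nat_lit 0) (nat_lit 374484997) (nat_lit 1216) (nat_lit 1792210374) (nat_lit 1292) (nat_lit 10461263544) (nat_lit 378) (nat_lit 5) (nat_lit 394) (nat_lit 5) (nat_lit 395) (nat_lit 5) (nat_lit 382)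 (nat_lit 373) (nat_lit 265)))) (XT.nd (nat_lit 156) (nat_lit 0) (nat_lit 76) (XT.nd (nat_lit 78) (nat_lit 0) (nat_lit 0) (XT.lf (nat_lit 0) (nat_lit 1397461359) (nat_lit 1216) (nat_lit 7841286861) (nat_lit 1292) (nat_lit 3573179586) (nat_lit 379) (nat_lit 5) (nat_lit 395) (nat_lit 5) (nat_lit 396) (nat_lit 5) (nat_lit 383) (nat_lit 373) (nat_lit 264)) (XT.lf (nat_lit 0) (nat_lit 2473827668) (nat_lit 1216) (nat_lit 1061943255) (nat_lit 1292) (nat_lit 9464963820) (nat_lit 379) (nat_lit 5) (nat_lit 395) (nat_lit 5) (nat_lit 396) (nat_lit 5) (nat_lit 384) (nat_lit 373) (nat_lit 263))) (XT.nd (nat_lit 78) (nat_lit 0) (nat_lit 0) (XT.lf (nat_lit 0) (nat_lit 3646971963) (nat_lit 1216) (nat_lit 7190872751) (nat_lit 1292) (nat_lit 2355426567) (nat_lit 380) (nat_lit 5) (nat_lit 396) (nat_lit 5) (nat_lit 397) (nat_lit 5) (nat_lit 385) (nat_lit 373) (nat_lit 262)) (XT.lf (nat_lit 0) (nat_lit 4885020050) (nat_lit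 1216) (nat_lit 138531034) (nat_lit 1292) (nat_lit 8367141545) (nat_lit 380) (nat_lit 5) (nat_lit 396) (nat_lit 5) (nat_lit 397) (nat_lit 5) (nat_lit 386) (nat_lit 373) (nat_lit 261))))))) (XT.nd (nat_lit 1170) (nat_lit 4180) (nat_lit 0) (XT.nd (nat_lit 546) (nat_lit 2964) (nat_lit 0) (XT.nd (nat_lit 234) (nat_lit 2052) (nat_lit 0) (XT.nd (nat_lit 78) (nat_lit 0) (nat_lit 0) (XT.lf (nat_lit 0) (nat_lit 6224289492) (nat_lit 1216) (nat_lit 6347696442) (nat_lit 1292) (nat_lit 1020128285) (nat_lit 381) (nat_lit 5) (nat_lit 397) (nat_lit 5) (nat_lit 398) (nat_lit 5) (nat_lit 387) (nat_lit 373) (nat_lit 260)) (XT.nd (nat_lit 78) (nat_lit 0) (nat_lit 0) (XT.lf (nat_lit 76) (nat_lit 1009507357) (nat_lit 0) (nat_lit 6639796932) (nat_lit 1292) (nat_lit 6148907152) (nat_lit 382) (nat_lit 5) (nat_lit 381) (nat_lit 5) (nat_lit 398) (nat_lit 5) (nat_lit 388) (nat_lit 373) (nat_lit 259)) (XT.lf (nat_lit 76) (nat_lit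 8705074237) (nat_lit 0) (nat_lit 461132334) (nat_lit 1292) (nat_lit 4842810896) (nat_lit 382) (nat_lit 5) (nat_lit 381) (nat_lit 5) (nat_lit 398) (nat_lit 5) (nat_lit 389) (nat_lit 373) (nat_lit 258)))) (XT.nd (nat_lit 156) (nat_lit 912) (nat_lit 0) (XT.nd (nat_lit 78) (nat_lit 0) (nat_lit 0) (XT.lf (nat_lit 0) (nat_lit 2382539910) (nat_lit 1216) (nat_lit 8411217418) (nat_lit 1292) (nat_lit 3430436105) (nat_lit 366) (nat_lit 5) (nat_lit 382) (nat_lit 5) (nat_lit 383) (nat_lit 5) (nat_lit 390) (nat_lit 373) (nat_lit 257)) (XT.lf (nat_lit 0) (nat_lit 10391239627) (nat_lit 1216) (nat_lit 2122774852) (nat_lit 1292) (nat_lit 1930493802) (nat_lit 366) (nat_lit 5) (nat_lit 382) (nat_lit 5) (nat_lit 383) (nat_lit 5) (nat_lit 391) (nat_lit 373) (nat_lit 256))) (XT.nd (nat_lit 78) (nat_lit 76) (nat_lit 0) (XT.lf (nat_lit 0) (nat_lit 3992301078) (nat_lit 836) (nat_lit 10360040612) (nat_lit 912) (nat_lit 317097013)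 (nat_lit 355) (nat_lit 5) (nat_lit 366) (nat_lit 5) (nat_lit 367) (nat_lit 5) (nat_lit 392) (nat_lit 373) (nat_lit 255)) (XT.lf (nat_lit 0) (nat_lit 1367192518) (nat_lit 912) (nat_lit 2584574990) (nat_lit 76) (nat_lit 10947499824) (nat_lit 354) (nat_lit 5) (nat_lit 366) (nat_lit 5) (nat_lit 355) (nat_lit 5) (nat_lit 393) (nat_lit 373) (nat_lit 254))))) (XT.nd (nat_lit 312) (nat_lit 1216) (nat_lit 0) (XT.nd (nat_lit 156) (nat_lit 1140) (nat_lit 0) (XT.nd (nat_lit 78) (nat_lit 0) (nat_lit 0) (XT.lf (nat_lit 0) (nat_lit 3164699016) (nat_lit 684) (nat_lit 9311189500) (nat_lit 76) (nat_lit 2657936266) (nat_lit 346) (nat_lit 5) (nat_lit 355) (nat_lit 5) (nat_lit 347) (nat_lit 5) (nat_lit 394) (nat_lit 373) (nat_lit 253)) (XT.lf (nat_lit 0) (nat_lit 5068665069) (nat_lit 684) (nat_lit 891547453) (nat_lit 76) (nat_lit 9413630406) (nat_lit 346) (nat_lit 5) (nat_lit 355) (nat_lit 5) (nat_lit 347) (nat_lit 5) (nat_lit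 395) (nat_lit 373) (nat_lit 252))) (XT.nd (nat_lit 78) (nat_lit 532) (nat_lit 0) (XT.lf (nat_lit 0) (nat_lit 7101315301) (nat_lit 684) (nat_lit 7704041811) (nat_lit 76) (nat_lit 813557548) (nat_lit 338) (nat_lit 5) (nat_lit 347) (nat_lit 5) (nat_lit 339) (nat_lit 5) (nat_lit 396) (nat_lit 373) (nat_lit 251)) (XT.lf (nat_lit 0) (nat_lit 1082254716) (nat_lit 532) (nat_lit 8178877535) (nat_lit 608) (nat_lit 6608220677) (nat_lit 331) (nat_lit 5) (nat_lit 338) (nat_lit 5) (nat_lit 339) (nat_lit 5) (nat_lit 397) (nat_lit 373) (nat_lit 250)))) (XT.nd (nat_lit 156) (nat_lit 608) (nat_lit 0) (XT.nd (nat_lit 78) (nat_lit 608) (nat_lit 0) (XT.lf (nat_lit 0) (nat_lit 10277731584) (nat_lit 532) (nat_lit 1273728014) (nat_lit 608) (nat_lit 4573873270) (nat_lit 331) (nat_lit 5) (nat_lit 338) (nat_lit 5) (nat_lit 339) (nat_lit 5) (nat_lit 398) (nat_lit 373) (nat_lit 249)) (XT.lf (nat_lit 0) (nat_lit 3357142435) (nat_lit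 608) (nat_lit 10630018840) (nat_lit 684) (nat_lit 2399530995) (nat_lit 323) (nat_lit 5) (nat_lit 331) (nat_lit 5) (nat_lit 332) (nat_lit 5) (nat_lit 399) (nat_lit 373) (nat_lit 248))) (XT.nd (nat_lit 78) (nat_lit 608) (nat_lit 0) (XT.lf (nat_lit 0) (nat_lit 12932833139) (nat_lit 608) (nat_lit 3623131696) (nat_lit 684) (nat_lit 98126695) (nat_lit 323) (nat_lit 5) (nat_lit 331) (nat_lit 5) (nat_lit 332) (nat_lit 5) (nat_lit 400) (nat_lit 373) (nat_lit 247)) (XT.lf (nat_lit 0) (nat_lit 2309199338) (nat_lit 608) (nat_lit 11014360647) (nat_lit 76) (nat_lit 3602860872) (nat_lit 315) (nat_lit 5) (nat_lit 323) (nat_lit 5) (nat_lit 316) (nat_lit 5) (nat_lit 401) (nat_lit 373) (nat_lit 246)))))) (XT.nd (nat_lit 624) (nat_lit 2128) (nat_lit 0) (XT.nd (nat_lit 312) (nat_lit 1064) (nat_lit 0) (XT.nd (nat_lit 156) (nat_lit 456) (nat_lit 0) (XT.nd (nat_lit 78) (nat_lit 532) (nat_lit 0) (XT.lf (nat_lit 0) (nat_lit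 4849518640) (nat_lit 608) (nat_lit 1344625932) (nat_lit 76) (nat_lit 11010863973) (nat_lit 315) (nat_lit 5) (nat_lit 323) (nat_lit 5) (nat_lit 316) (nat_lit 5) (nat_lit 402) (nat_lit 373) (nat_lit 245)) (XT.lf (nat_lit 0) (nat_lit 7551509964) (nat_lit 608) (nat_lit 8727113297) (nat_lit 76) (nat_lit 1210766731) (nat_lit 308) (nat_lit 5) (nat_lit 316) (nat_lit 5) (nat_lit 309) (nat_lit 5) (nat_lit 403) (nat_lit 373) (nat_lit 244))) (XT.nd (nat_lit 78) (nat_lit 0) (nat_lit 0) (XT.lf (nat_lit 0) (nat_lit 1371241979) (nat_lit 456) (nat_lit 9040974989) (nat_lit 532) (nat_lit 7367756234) (nat_lit 302) (nat_lit 5) (nat_lit 308) (nat_lit 5) (nat_lit 309) (nat_lit 5) (nat_lit 404) (nat_lit 373) (nat_lit 243)) (XT.lf (nat_lit 0) (nat_lit 11939456217) (nat_lit 456) (nat_lit 1497042239) (nat_lit 532) (nat_lit 4640442856) (nat_lit 302) (nat_lit 5) (nat_lit 308) (nat_lit 5) (nat_lit 309) (nat_lit 5) (nat_lit 405)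 (nat_lit 373) (nat_lit 242)))) (XT.nd (nat_lit 156) (nat_lit 456) (nat_lit 0) (XT.nd (nat_lit 78) (nat_lit 76) (nat_lit 0) (XT.lf (nat_lit 0) (nat_lit 4456634659) (nat_lit 532) (nat_lit 12187929148) (nat_lit 608) (nat_lit 1735462994) (nat_lit 295) (nat_lit 5) (nat_lit 302) (nat_lit 5) (nat_lit 303) (nat_lit 5) (nat_lit 406) (nat_lit 373) (nat_lit 241)) (XT.lf (nat_lit 0) (nat_lit 1299552349) (nat_lit 608) (nat_lit 3235479807) (nat_lit 76) (nat_lit 14154788060) (nat_lit 294) (nat_lit 5) (nat_lit 302) (nat_lit 5) (nat_lit 295) (nat_lit 5) (nat_lit 407) (nat_lit 373) (nat_lit 240))) (XT.nd (nat_lit 78) (nat_lit 0) (nat_lit 0) (XT.lf (nat_lit 0) (nat_lit 4490028921) (nat_lit 532) (nat_lit 11141133326) (nat_lit 76) (nat_lit 3374250945) (nat_lit 288) (nat_lit 5) (nat_lit 295) (nat_lit 5) (nat_lit 289) (nat_lit 5) (nat_lit 408) (nat_lit 373) (nat_lit 239)) (XT.lf (nat_lit 0) (nat_lit 7844556405) (nat_lit 532)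 (nat_lit 23173985) (nat_lit 76) (nat_lit 11460693469) (nat_lit 288) (nat_lit 5) (nat_lit 295) (nat_lit 5) (nat_lit 289) (nat_lit 5) (nat_lit 409) (nat_lit 373) (nat_lit 238))))) (XT.nd (nat_lit 312) (nat_lit 760) (nat_lit 0) (XT.nd (nat_lit 156) (nat_lit 532) (nat_lit 0) (XT.nd (nat_lit 78) (nat_lit 380) (nat_lit 0) (XT.lf (nat_lit 0) (nat_lit 11404691376) (nat_lit 532) (nat_lit 8016294719) (nat_lit 76) (nat_lit 236989601) (nat_lit 282) (nat_lit 5) (nat_lit 289) (nat_lit 5) (nat_lit 283) (nat_lit 5) (nat_lit 410) (nat_lit 373) (nat_lit 237)) (XT.lf (nat_lit 0) (nat_lit 3641092194) (nat_lit 380) (nat_lit 11534531232) (nat_lit 456) (nat_lit 4818670873) (nat_lit 277) (nat_lit 5) (nat_lit 282) (nat_lit 5) (nat_lit 283) (nat_lit 5) (nat_lit 411) (nat_lit 373) (nat_lit 236))) (XT.nd (nat_lit 78) (nat_lit 532) (nat_lit 0) (XT.lf (nat_lit 0) (nat_lit 15801033142) (nat_lit 380) (nat_lit 3330612916) (nat_lit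 456) (nat_lit 1206897522) (nat_lit 277) (nat_lit 5) (nat_lit 282) (nat_lit 5) (nat_lit 283) (nat_lit 5) (nat_lit 412) (nat_lit 373) (nat_lit 235)) (XT.lf (nat_lit 0) (nat_lit 2580021352) (nat_lit 532) (nat_lit 12992231555) (nat_lit 76) (nat_lit 5116667638) (nat_lit 270) (nat_lit 5) (nat_lit 277) (nat_lit 5) (nat_lit 271) (nat_lit 5) (nat_lit 413) (nat_lit 373) (nat_lit 234)))) (XT.nd (nat_lit 156) (nat_lit 380) (nat_lit 0) (XT.nd (nat_lit 78) (nat_lit 380) (nat_lit 0) (XT.lf (nat_lit 0) (nat_lit 6526853575) (nat_lit 532) (nat_lit 714343276) (nat_lit 76) (nat_lit 13806136586) (nat_lit 270) (nat_lit 5) (nat_lit 277) (nat_lit 5) (nat_lit 271) (nat_lit 5) (nat_lit 414) (nat_lit 373) (nat_lit 233)) (XT.lf (nat_lit 0) (nat_lit 10714537337) (nat_lit 456) (nat_lit 9269252413) (nat_lit 76) (nat_lit 1429035569) (nat_lit 265) (nat_lit 5) (nat_lit 271) (nat_lit 5) (nat_lit 266) (nat_lit 5) (nat_lit 415) (nat_lit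 373) (nat_lit 232))) (XT.nd (nat_lit 78) (nat_lit 0) (nat_lit 0) (XT.lf (nat_lit 0) (nat_lit 3600049537) (nat_lit 380) (nat_lit 11533067702) (nat_lit 456) (nat_lit 6653006749) (nat_lit 260) (nat_lit 5) (nat_lit 265) (nat_lit 5) (nat_lit 266) (nat_lit 5) (nat_lit 416) (nat_lit 373) (nat_lit 231)) (XT.lf (nat_lit 0) (nat_lit 17034312999) (nat_lit 380) (nat_lit 2735358024) (nat_lit 456) (nat_lit 2398388101) (nat_lit 260) (nat_lit 5) (nat_lit 265) (nat_lit 5) (nat_lit 266) (nat_lit 5) (nat_lit 417) (nat_lit 373) (nat_lit 230))))))))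
noncomputable def xc173 : XT := (XT.nd (nat_lit 2340) (nat_lit 3572) (nat_lit 0) (XT.nd (nat_lit 1170) (nat_lit 2584) (nat_lit 0) (XT.nd (nat_lit 546) (nat_lit 1292) (nat_lit 0) (XT.nd (nat_lit 234) (nat_lit 1064) (nat_lit 0) (XT.nd (nat_lit 78) (nat_lit 380) (nat_lit 0) (XT.lf (nat_lit 0) (nat_lit 2080085632) (nat_lit 456) (nat_lit 14175553296) (nat_lit 76) (nat_lit 6301193412) (nat_lit 254) (nat_lit 5) (nat_lit 260) (nat_lit 5) (nat_lit 255) (nat_lit 5) (nat_lit 418) (nat_lit 373) (nat_lit 229)) (XT.nd (nat_lit 78) (nat_lit 380) (nat_lit 0) (XT.lf (nat_lit 0) (nat_lit 6716220997) (nat_lit 456) (nat_lit 611128896) (nat_lit 76) (nat_lit 15627061088) (nat_lit 254) (nat_lit 5) (nat_lit 260) (nat_lit 5) (nat_lit 255) (nat_lit 5) (nat_lit 419) (nat_lit 373) (nat_lit 228)) (XT.lf (nat_lit 0) (nat_lit 11633854822) (nat_lit 456) (nat_lit 9764285102) (nat_lit 76) (nat_lit 1961504624) (nat_lit 249) (nat_lit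 5) (nat_lit 255) (nat_lit 5) (nat_lit 250) (nat_lit 5) (nat_lit 420) (nat_lit 373) (nat_lit 227)))) (XT.nd (nat_lit 156) (nat_lit 760) (nat_lit 0) (XT.nd (nat_lit 78) (nat_lit 0) (nat_lit 0) (XT.lf (nat_lit 0) (nat_lit 4467452216) (nat_lit 304) (nat_lit 12345688660) (nat_lit 380) (nat_lit 6960470549) (nat_lit 245) (nat_lit 5) (nat_lit 249) (nat_lit 5) (nat_lit 250) (nat_lit 5) (nat_lit 421) (nat_lit 373) (nat_lit 226)) (XT.lf (nat_lit 0) (nat_lit 19315571406) (nat_lit 304) (nat_lit 2923351509) (nat_lit 380) (nat_lit 1958340872) (nat_lit 245) (nat_lit 5) (nat_lit 249) (nat_lit 5) (nat_lit 250) (nat_lit 5) (nat_lit 422) (nat_lit 373) (nat_lit 225))) (XT.nd (nat_lit 78) (nat_lit 304) (nat_lit 0) (XT.lf (nat_lit 0) (nat_lit 3288013662) (nat_lit 456) (nat_lit 14564473557) (nat_lit 76) (nat_lit 6775522927) (nat_lit 239) (nat_lit 5) (nat_lit 245) (nat_lit 5) (nat_lit 240) (nat_lit 5) (nat_lit 423) (nat_lit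 373) (nat_lit 224)) (XT.lf (nat_lit 0) (nat_lit 436035146) (nat_lit 304) (nat_lit 8292027426) (nat_lit 380) (nat_lit 16340764706) (nat_lit 235) (nat_lit 5) (nat_lit 239) (nat_lit 5) (nat_lit 240) (nat_lit 5) (nat_lit 424) (nat_lit 373) (nat_lit 223))))) (XT.nd (nat_lit 312) (nat_lit 608) (nat_lit 0) (XT.nd (nat_lit 156) (nat_lit 380) (nat_lit 0) (XT.nd (nat_lit 78) (nat_lit 304) (nat_lit 0) (XT.lf (nat_lit 0) (nat_lit 14487614411) (nat_lit 380) (nat_lit 9360467811) (nat_lit 76) (nat_lit 1670097657) (nat_lit 235) (nat_lit 5) (nat_lit 240) (nat_lit 5) (nat_lit 236) (nat_lit 5) (nat_lit 425) (nat_lit 373) (nat_lit 222)) (XT.lf (nat_lit 0) (nat_lit 6402452679) (nat_lit 304) (nat_lit 14154175440) (nat_lit 380) (nat_lit 5420284679) (nat_lit 231) (nat_lit 5) (nat_lit 235) (nat_lit 5) (nat_lit 236) (nat_lit 5) (nat_lit 426) (nat_lit 373) (nat_lit 221))) (XT.nd (nat_lit 78) (nat_lit 304) (nat_lit 0) (XT.lf (nat_lit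 0) (nat_lit 439838616) (nat_lit 380) (nat_lit 3631256049) (nat_lit 76) (nat_lit 22375553936) (nat_lit 230) (nat_lit 5) (nat_lit 235) (nat_lit 5) (nat_lit 231) (nat_lit 5) (nat_lit 427) (nat_lit 373) (nat_lit 220)) (XT.lf (nat_lit 0) (nat_lit 6547294349) (nat_lit 380) (nat_lit 14008039740) (nat_lit 76) (nat_lit 6368118271) (nat_lit 226) (nat_lit 5) (nat_lit 231) (nat_lit 5) (nat_lit 227) (nat_lit 5) (nat_lit 428) (nat_lit 373) (nat_lit 219)))) (XT.nd (nat_lit 156) (nat_lit 304) (nat_lit 0) (XT.nd (nat_lit 78) (nat_lit 0) (nat_lit 0) (XT.lf (nat_lit 0) (nat_lit 2619699614) (nat_lit 304) (nat_lit 10314132079) (nat_lit 380) (nat_lit 14477852800) (nat_lit 222) (nat_lit 5) (nat_lit 226) (nat_lit 5) (nat_lit 227) (nat_lit 5) (nat_lit 429) (nat_lit 373) (nat_lit 218)) (XT.lf (nat_lit 0) (nat_lit 19650470905) (nat_lit 380) (nat_lit 7890821068) (nat_lit 76) (nat_lit 369116446) (nat_lit 222) (nat_lit 5) (nat_lit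 227) (nat_lit 5) (nat_lit 223) (nat_lit 5) (nat_lit 430) (nat_lit 373) (nat_lit 217))) (XT.nd (nat_lit 78) (nat_lit 76) (nat_lit 0) (XT.lf (nat_lit 0) (nat_lit 9592469819) (nat_lit 228) (nat_lit 17164059724) (nat_lit 304) (nat_lit 1661926910) (nat_lit 219) (nat_lit 5) (nat_lit 222) (nat_lit 5) (nat_lit 223) (nat_lit 5) (nat_lit 431) (nat_lit 373) (nat_lit 216)) (XT.lf (nat_lit 0) (nat_lit 5107932107) (nat_lit 304) (nat_lit 1237482813) (nat_lit 76) (nat_lit 22592627726) (nat_lit 218) (nat_lit 5) (nat_lit 222) (nat_lit 5) (nat_lit 219) (nat_lit 5) (nat_lit 432) (nat_lit 373) (nat_lit 215)))))) (XT.nd (nat_lit 546) (nat_lit 1216) (nat_lit 0) (XT.nd (nat_lit 234) (nat_lit 836) (nat_lit 0) (XT.nd (nat_lit 78) (nat_lit 228) (nat_lit 0) (XT.lf (nat_lit 0) (nat_lit 12254395227) (nat_lit 380) (nat_lit 12327926069) (nat_lit 76) (nat_lit 4884194144) (nat_lit 214) (nat_lit 5) (nat_lit 219) (nat_lit 5) (nat_lit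 215) (nat_lit 5) (nat_lit 433) (nat_lit 373) (nat_lit 214)) (XT.nd (nat_lit 78) (nat_lit 0) (nat_lit 0) (XT.lf (nat_lit 0) (nat_lit 6127703797) (nat_lit 228) (nat_lit 13615758151) (nat_lit 304) (nat_lit 10263534180) (nat_lit 211) (nat_lit 5) (nat_lit 214) (nat_lit 5) (nat_lit 215) (nat_lit 5) (nat_lit 434) (nat_lit 373) (nat_lit 213)) (XT.lf (nat_lit 0) (nat_lit 25380045149) (nat_lit 228) (nat_lit 2195589990) (nat_lit 304) (nat_lit 2984503063) (nat_lit 211) (nat_lit 5) (nat_lit 214) (nat_lit 5) (nat_lit 215) (nat_lit 5) (nat_lit 435) (nat_lit 373) (nat_lit 212)))) (XT.nd (nat_lit 156) (nat_lit 228) (nat_lit 0) (XT.nd (nat_lit 78) (nat_lit 228) (nat_lit 0) (XT.lf (nat_lit 0) (nat_lit 4650144746) (nat_lit 380) (nat_lit 16911982116) (nat_lit 76) (nat_lit 9559686993) (nat_lit 206) (nat_lit 5) (nat_lit 211) (nat_lit 5) (nat_lit 207) (nat_lit 5) (nat_lit 436) (nat_lit 373) (nat_lit 211)) (XT.lf (nat_lit 0)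 (nat_lit 2577814528) (nat_lit 228) (nat_lit 9969489554) (nat_lit 304) (nat_lit 19149345480) (nat_lit 203) (nat_lit 5) (nat_lit 206) (nat_lit 5) (nat_lit 207) (nat_lit 5) (nat_lit 437) (nat_lit 373) (nat_lit 210))) (XT.nd (nat_lit 78) (nat_lit 228) (nat_lit 0) (XT.lf (nat_lit 0) (nat_lit 20866951031) (nat_lit 304) (nat_lit 9314857490) (nat_lit 76) (nat_lit 2101354635) (nat_lit 203) (nat_lit 5) (nat_lit 207) (nat_lit 5) (nat_lit 204) (nat_lit 5) (nat_lit 438) (nat_lit 373) (nat_lit 209)) (XT.lf (nat_lit 0) (nat_lit 11193641391) (nat_lit 228) (nat_lit 18443182436) (nat_lit 304) (nat_lit 3244429237) (nat_lit 200) (nat_lit 5) (nat_lit 203) (nat_lit 5) (nat_lit 204) (nat_lit 5) (nat_lit 439) (nat_lit 373) (nat_lit 208))))) (XT.nd (nat_lit 312) (nat_lit 684) (nat_lit 0) (XT.nd (nat_lit 156) (nat_lit 228) (nat_lit 0) (XT.nd (nat_lit 78) (nat_lit 228) (nat_lit 0) (XT.lf (nat_lit 0) (nat_lit 5160915583) (nat_lit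 304) (nat_lit 1046115268) (nat_lit 76) (nat_lit 27286082899) (nat_lit 199) (nat_lit 5) (nat_lit 203) (nat_lit 5) (nat_lit 200) (nat_lit 5) (nat_lit 440) (nat_lit 373) (nat_lit 207)) (XT.lf (nat_lit 0) (nat_lit 14009229943) (nat_lit 304) (nat_lit 13605397457) (nat_lit 76) (nat_lit 6500058594) (nat_lit 196) (nat_lit 5) (nat_lit 200) (nat_lit 5) (nat_lit 197) (nat_lit 5) (nat_lit 441) (nat_lit 373) (nat_lit 206))) (XT.nd (nat_lit 78) (nat_lit 0) (nat_lit 0) (XT.lf (nat_lit 0) (nat_lit 8064918876) (nat_lit 228) (nat_lit 15202277205) (nat_lit 304) (nat_lit 11483383254) (nat_lit 193) (nat_lit 5) (nat_lit 196) (nat_lit 5) (nat_lit 197) (nat_lit 5) (nat_lit 442) (nat_lit 373) (nat_lit 205)) (XT.lf (nat_lit 0) (nat_lit 30655224594) (nat_lit 228) (nat_lit 2279689764) (nat_lit 304) (nat_lit 2466674724) (nat_lit 193) (nat_lit 5) (nat_lit 196) (nat_lit 5) (nat_lit 197) (nat_lit 5) (nat_lit 443) (nat_lit 373) (nat_lit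 204)))) (XT.nd (nat_lit 156) (nat_lit 152) (nat_lit 0) (XT.nd (nat_lit 78) (nat_lit 228) (nat_lit 0) (XT.lf (nat_lit 0) (nat_lit 6964826130) (nat_lit 304) (nat_lit 18042986218) (nat_lit 76) (nat_lit 11054028350) (nat_lit 189) (nat_lit 5) (nat_lit 193) (nat_lit 5) (nat_lit 190) (nat_lit 5) (nat_lit 444) (nat_lit 373) (nat_lit 203)) (XT.lf (nat_lit 0) (nat_lit 4862383737) (nat_lit 228) (nat_lit 11879790485) (nat_lit 304) (nat_lit 19995618568) (nat_lit 186) (nat_lit 5) (nat_lit 189) (nat_lit 5) (nat_lit 190) (nat_lit 5) (nat_lit 445) (nat_lit 373) (nat_lit 202))) (XT.nd (nat_lit 78) (nat_lit 152) (nat_lit 0) (XT.lf (nat_lit 0) (nat_lit 27007427931) (nat_lit 304) (nat_lit 8630295007) (nat_lit 76) (nat_lit 1790462949) (nat_lit 186) (nat_lit 5) (nat_lit 190) (nat_lit 5) (nat_lit 187) (nat_lit 5) (nat_lit 446) (nat_lit 373) (nat_lit 201)) (XT.lf (nat_lit 0) (nat_lit 15488112349) (nat_lit 152) (nat_lit 22353979162)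 (nat_lit 228) (nat_lit 289355700) (nat_lit 184) (nat_lit 5) (nat_lit 186) (nat_lit 5) (nat_lit 187) (nat_lit 5) (nat_lit 447) (nat_lit 373) (nat_lit 200))))))) (XT.nd (nat_lit 1170) (nat_lit 1520) (nat_lit 0) (XT.nd (nat_lit 546) (nat_lit 1140) (nat_lit 0) (XT.nd (nat_lit 234) (nat_lit 456) (nat_lit 0) (XT.nd (nat_lit 78) (nat_lit 152) (nat_lit 0) (XT.lf (nat_lit 0) (nat_lit 1577500494) (nat_lit 228) (nat_lit 8468643768) (nat_lit 304) (nat_lit 28803792017) (nat_lit 180) (nat_lit 5) (nat_lit 183) (nat_lit 5) (nat_lit 184) (nat_lit 5) (nat_lit 448) (nat_lit 373) (nat_lit 199)) (XT.nd (nat_lit 78) (nat_lit 152) (nat_lit 0) (XT.lf (nat_lit 0) (nat_lit 20967877189) (nat_lit 304) (nat_lit 12663906612) (nat_lit 76) (nat_lit 5949650759) (nat_lit 180) (nat_lit 5) (nat_lit 184) (nat_lit 5) (nat_lit 181) (nat_lit 5) (nat_lit 449) (nat_lit 373) (nat_lit 198)) (XT.lf (nat_lit 0) (nat_lit 12841149614) (nat_lit 152)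 (nat_lit 19578537010) (nat_lit 228) (nat_lit 7909118428) (nat_lit 178) (nat_lit 5) (nat_lit 180) (nat_lit 5) (nat_lit 181) (nat_lit 5) (nat_lit 450) (nat_lit 373) (nat_lit 197)))) (XT.nd (nat_lit 156) (nat_lit 152) (nat_lit 0) (XT.nd (nat_lit 78) (nat_lit 228) (nat_lit 0) (XT.lf (nat_lit 0) (nat_lit 3179940336) (nat_lit 228) (nat_lit 1763499934) (nat_lit 76) (nat_lit 36150528675) (nat_lit 177) (nat_lit 5) (nat_lit 180) (nat_lit 5) (nat_lit 178) (nat_lit 5) (nat_lit 451) (nat_lit 373) (nat_lit 196)) (XT.lf (nat_lit 0) (nat_lit 14780142073) (nat_lit 304) (nat_lit 16836799243) (nat_lit 76) (nat_lit 10252674096) (nat_lit 174) (nat_lit 5) (nat_lit 178) (nat_lit 5) (nat_lit 175) (nat_lit 5) (nat_lit 452) (nat_lit 373) (nat_lit 195))) (XT.nd (nat_lit 78) (nat_lit 0) (nat_lit 0) (XT.lf (nat_lit 0) (nat_lit 10141704758) (nat_lit 152) (nat_lit 16746381982) (nat_lit 228) (nat_lit 15775652428) (nat_lit 172) (nat_lit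 5) (nat_lit 174) (nat_lit 5) (nat_lit 175) (nat_lit 5) (nat_lit 453) (nat_lit 373) (nat_lit 194)) (XT.lf (nat_lit 0) (nat_lit 38266532740) (nat_lit 152) (nat_lit 1258132915) (nat_lit 228) (nat_lit 3952059103) (nat_lit 172) (nat_lit 5) (nat_lit 174) (nat_lit 5) (nat_lit 175) (nat_lit 5) (nat_lit 454) (nat_lit 373) (nat_lit 193))))) (XT.nd (nat_lit 312) (nat_lit 532) (nat_lit 0) (XT.nd (nat_lit 156) (nat_lit 228) (nat_lit 0) (XT.nd (nat_lit 78) (nat_lit 152) (nat_lit 0) (XT.lf (nat_lit 0) (nat_lit 8429268616) (nat_lit 228) (nat_lit 21161020436) (nat_lit 76) (nat_lit 14710532088) (nat_lit 169) (nat_lit 5) (nat_lit 172) (nat_lit 5) (nat_lit 170) (nat_lit 5) (nat_lit 455) (nat_lit 373) (nat_lit 192)) (XT.lf (nat_lit 0) (nat_lit 7382952377) (nat_lit 152) (nat_lit 13851700979) (nat_lit 228) (nat_lit 23909851688) (nat_lit 167) (nat_lit 5) (nat_lit 169) (nat_lit 5) (nat_lit 170) (nat_lit 5) (nat_lit 456) (nat_lit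 373) (nat_lit 191))) (XT.nd (nat_lit 78) (nat_lit 228) (nat_lit 0) (XT.lf (nat_lit 0) (nat_lit 34658187600) (nat_lit 228) (nat_lit 8822921357) (nat_lit 76) (nat_lit 2525370869) (nat_lit 167) (nat_lit 5) (nat_lit 170) (nat_lit 5) (nat_lit 168) (nat_lit 5) (nat_lit 457) (nat_lit 373) (nat_lit 190)) (XT.lf (nat_lit 0) (nat_lit 1899512747) (nat_lit 228) (nat_lit 25649195465) (nat_lit 76) (nat_lit 19334934259) (nat_lit 164) (nat_lit 5) (nat_lit 167) (nat_lit 5) (nat_lit 165) (nat_lit 5) (nat_lit 458) (nat_lit 373) (nat_lit 189)))) (XT.nd (nat_lit 156) (nat_lit 380) (nat_lit 0) (XT.nd (nat_lit 78) (nat_lit 0) (nat_lit 0) (XT.lf (nat_lit 0) (nat_lit 4557808704) (nat_lit 152) (nat_lit 10888293910) (nat_lit 228) (nat_lit 32333763395) (nat_lit 162) (nat_lit 5) (nat_lit 164) (nat_lit 5) (nat_lit 165) (nat_lit 5) (nat_lit 459) (nat_lit 373) (nat_lit 188)) (XT.lf (nat_lit 0) (nat_lit 29716620963) (nat_lit 228) (nat_lit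 12569112092) (nat_lit 76) (nat_lit 6407717276) (nat_lit 162) (nat_lit 5) (nat_lit 165) (nat_lit 5) (nat_lit 163) (nat_lit 5) (nat_lit 460) (nat_lit 373) (nat_lit 187))) (XT.nd (nat_lit 78) (nat_lit 228) (nat_lit 0) (XT.lf (nat_lit 0) (nat_lit 19263895131) (nat_lit 152) (nat_lit 25440137204) (nat_lit 228) (nat_lit 4921746521) (nat_lit 160) (nat_lit 5) (nat_lit 162) (nat_lit 5) (nat_lit 163) (nat_lit 5) (nat_lit 461) (nat_lit 373) (nat_lit 186)) (XT.lf (nat_lit 0) (nat_lit 1658905539) (nat_lit 152) (nat_lit 7849562424) (nat_lit 228) (nat_lit 41070655882) (nat_lit 157) (nat_lit 5) (nat_lit 159) (nat_lit 5) (nat_lit 160) (nat_lit 5) (nat_lit 462) (nat_lit 373) (nat_lit 185)))))) (XT.nd (nat_lit 624) (nat_lit 684) (nat_lit 0) (XT.nd (nat_lit 312) (nat_lit 456) (nat_lit 0) (XT.nd (nat_lit 156) (nat_lit 228) (nat_lit 0) (XT.nd (nat_lit 78) (nat_lit 152) (nat_lit 0) (XT.lf (nat_lit 0) (nat_lit 24676828616)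 (nat_lit 228) (nat_lit 16447293819) (nat_lit 76) (nat_lit 10423359984) (nat_lit 157) (nat_lit 5) (nat_lit 160) (nat_lit 5) (nat_lit 158) (nat_lit 5) (nat_lit 463) (nat_lit 373) (nat_lit 184)) (XT.lf (nat_lit 0) (nat_lit 17251303221) (nat_lit 152) (nat_lit 23288428651) (nat_lit 228) (nat_lit 11997975124) (nat_lit 155) (nat_lit 5) (nat_lit 157) (nat_lit 5) (nat_lit 158) (nat_lit 5) (nat_lit 464) (nat_lit 373) (nat_lit 183))) (XT.nd (nat_lit 78) (nat_lit 152) (nat_lit 0) (XT.lf (nat_lit 0) (nat_lit 3419762323) (nat_lit 228) (nat_lit 1295650483) (nat_lit 76) (nat_lit 48836357410) (nat_lit 154) (nat_lit 5) (nat_lit 157) (nat_lit 5) (nat_lit 155) (nat_lit 5) (nat_lit 465) (nat_lit 373) (nat_lit 182)) (XT.lf (nat_lit 0) (nat_lit 19527224203) (nat_lit 228) (nat_lit 20468605265) (nat_lit 76) (nat_lit 14582811917) (nat_lit 152) (nat_lit 5) (nat_lit 155) (nat_lit 5) (nat_lit 153) (nat_lit 5) (nat_lit 466) (nat_lit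 373) (nat_lit 181)))) (XT.nd (nat_lit 156) (nat_lit 304) (nat_lit 0) (XT.nd (nat_lit 78) (nat_lit 0) (nat_lit 0) (XT.lf (nat_lit 0) (nat_lit 15211299970) (nat_lit 152) (nat_lit 21108813880) (nat_lit 228) (nat_lit 19310138721) (nat_lit 150) (nat_lit 5) (nat_lit 152) (nat_lit 5) (nat_lit 153) (nat_lit 5) (nat_lit 467) (nat_lit 373) (nat_lit 180)) (XT.lf (nat_lit 0) (nat_lit 52374022469) (nat_lit 152) (nat_lit 1445588957) (nat_lit 228) (nat_lit 2887716031) (nat_lit 150) (nat_lit 5) (nat_lit 152) (nat_lit 5) (nat_lit 153) (nat_lit 5) (nat_lit 468) (nat_lit 373) (nat_lit 179))) (XT.nd (nat_lit 78) (nat_lit 152) (nat_lit 0) (XT.lf (nat_lit 0) (nat_lit 14255645548) (nat_lit 152) (nat_lit 24644739755) (nat_lit 76) (nat_lit 18897224366) (nat_lit 148) (nat_lit 5) (nat_lit 150) (nat_lit 5) (nat_lit 149) (nat_lit 5) (nat_lit 469) (nat_lit 373) (nat_lit 178)) (XT.lf (nat_lit 0) (nat_lit 13139180637) (nat_lit 152)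 (nat_lit 18897109593) (nat_lit 228) (nat_lit 26878021706) (nat_lit 146) (nat_lit 5) (nat_lit 148) (nat_lit 5) (nat_lit 149) (nat_lit 5) (nat_lit 470) (nat_lit 373) (nat_lit 177))))) (XT.nd (nat_lit 312) (nat_lit 380) (nat_lit 0) (XT.nd (nat_lit 156) (nat_lit 152) (nat_lit 0) (XT.nd (nat_lit 78) (nat_lit 152) (nat_lit 0) (XT.lf (nat_lit 0) (nat_lit 50614312222) (nat_lit 228) (nat_lit 7521161191) (nat_lit 76) (nat_lit 1921123118) (nat_lit 146) (nat_lit 5) (nat_lit 149) (nat_lit 5) (nat_lit 147) (nat_lit 4) (nat_lit 471) (nat_lit 373) (nat_lit 176)) (XT.lf (nat_lit 0) (nat_lit 8849319538) (nat_lit 152) (nat_lit 28987986317) (nat_lit 76) (nat_lit 23378418355) (nat_lit 144) (nat_lit 5) (nat_lit 146) (nat_lit 5) (nat_lit 145) (nat_lit 5) (nat_lit 472) (nat_lit 373) (nat_lit 175))) (XT.nd (nat_lit 78) (nat_lit 0) (nat_lit 0) (XT.lf (nat_lit 0) (nat_lit 11030071795) (nat_lit 152) (nat_lit 16648892077) (nat_lit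 228) (nat_lit 34722485020) (nat_lit 142) (nat_lit 5) (nat_lit 144) (nat_lit 5) (nat_lit 145) (nat_lit 5) (nat_lit 473) (nat_lit 373) (nat_lit 174)) (XT.lf (nat_lit 0) (nat_lit 47415219400) (nat_lit 228) (nat_lit 10830580391) (nat_lit 76) (nat_lit 5366693870) (nat_lit 142) (nat_lit 5) (nat_lit 145) (nat_lit 5) (nat_lit 143) (nat_lit 4) (nat_lit 474) (nat_lit 373) (nat_lit 173)))) (XT.nd (nat_lit 156) (nat_lit 76) (nat_lit 0) (XT.nd (nat_lit 78) (nat_lit 152) (nat_lit 0) (XT.lf (nat_lit 0) (nat_lit 3294824450) (nat_lit 152) (nat_lit 33511272672) (nat_lit 76) (nat_lit 28038918968) (nat_lit 140) (nat_lit 5) (nat_lit 142) (nat_lit 5) (nat_lit 141) (nat_lit 5) (nat_lit 475) (nat_lit 373) (nat_lit 172)) (XT.lf (nat_lit 0) (nat_lit 8878914348) (nat_lit 152) (nat_lit 14359488618) (nat_lit 228) (nat_lit 42865532175) (nat_lit 138) (nat_lit 5) (nat_lit 140) (nat_lit 5) (nat_lit 141) (nat_lit 5) (nat_lit 476) (nat_lit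 373) (nat_lit 171))) (XT.nd (nat_lit 78) (nat_lit 76) (nat_lit 0) (XT.lf (nat_lit 0) (nat_lit 44202724395) (nat_lit 228) (nat_lit 14256959434) (nat_lit 76) (nat_lit 8928264868) (nat_lit 138) (nat_lit 5) (nat_lit 141) (nat_lit 5) (nat_lit 139) (nat_lit 4) (nat_lit 477) (nat_lit 373) (nat_lit 170)) (XT.lf (nat_lit 0) (nat_lit 30445585397) (nat_lit 76) (nat_lit 35781802946) (nat_lit 152) (nat_lit 2470151930) (nat_lit 137) (nat_lit 5) (nat_lit 138) (nat_lit 5) (nat_lit 139) (nat_lit 4) (nat_lit 478) (nat_lit 373) (nat_lit 169))))))))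
noncomputable def xc174 : XT := (XT.nd (nat_lit 46410) (nat_lit 0) (nat_lit 9348) (XT.nd (nat_lit 45240) (nat_lit 0) (nat_lit 18544) (XT.nd (nat_lit 546) (nat_lit 304) (nat_lit 0) (XT.nd (nat_lit 234) (nat_lit 532) (nat_lit 0) (XT.nd (nat_lit 78) (nat_lit 76) (nat_lit 0) (XT.lf (nat_lit 0) (nat_lit 6680446068) (nat_lit 152) (nat_lit 12023967483) (nat_lit 228) (nat_lit 51330379636) (nat_lit 134) (nat_lit 5) (nat_lit 136) (nat_lit 5) (nat_lit 137) (nat_lit 5) (nat_lit 479) (nat_lit 373) (nat_lit 168)) (XT.nd (nat_lit 78) (nat_lit 76) (nat_lit 0) (XT.lf (nat_lit 0) (nat_lit 40970897909) (nat_lit 228) (nat_lit 17810055826) (nat_lit 76) (nat_lit 12615286362) (nat_lit 134) (nat_lit 5) (nat_lit 137) (nat_lit 5) (nat_lit 135) (nat_lit 4) (nat_lit 480) (nat_lit 373) (nat_lit 167)) (XT.lf (nat_lit 0) (nat_lit 29551866658) (nat_lit 76) (nat_lit 34753320195) (nat_lit 152) (nat_lit 8481349257) (nat_lit 133) (nat_lit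 5) (nat_lit 134) (nat_lit 5) (nat_lit 135) (nat_lit 4) (nat_lit 481) (nat_lit 373) (nat_lit 166)))) (XT.nd (nat_lit 156) (nat_lit 304) (nat_lit 0) (XT.nd (nat_lit 78) (nat_lit 0) (nat_lit 0) (XT.lf (nat_lit 0) (nat_lit 4429183582) (nat_lit 152) (nat_lit 9637126510) (nat_lit 228) (nat_lit 60141531808) (nat_lit 130) (nat_lit 5) (nat_lit 132) (nat_lit 5) (nat_lit 133) (nat_lit 5) (nat_lit 482) (nat_lit 373) (nat_lit 165)) (XT.lf (nat_lit 0) (nat_lit 37713579399) (nat_lit 228) (nat_lit 21500125494) (nat_lit 76) (nat_lit 16437753351) (nat_lit 130) (nat_lit 5) (nat_lit 133) (nat_lit 5) (nat_lit 131) (nat_lit 4) (nat_lit 483) (nat_lit 373) (nat_lit 164))) (XT.nd (nat_lit 78) (nat_lit 228) (nat_lit 0) (XT.lf (nat_lit 0) (nat_lit 28684954036) (nat_lit 76) (nat_lit 33753264891) (nat_lit 152) (nat_lit 14689125586) (nat_lit 129) (nat_lit 5) (nat_lit 130) (nat_lit 5) (nat_lit 131) (nat_lit 4) (nat_lit 484) (nat_lit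 373) (nat_lit 163)) (XT.lf (nat_lit 0) (nat_lit 2119403705) (nat_lit 152) (nat_lit 7193480299) (nat_lit 228) (nat_lit 69324860835) (nat_lit 126) (nat_lit 5) (nat_lit 128) (nat_lit 5) (nat_lit 129) (nat_lit 5) (nat_lit 485) (nat_lit 373) (nat_lit 162))))) (XT.nd (nat_lit 44382) (nat_lit 0) (nat_lit 20444) (XT.nd (nat_lit 156) (nat_lit 228) (nat_lit 0) (XT.nd (nat_lit 78) (nat_lit 76) (nat_lit 0) (XT.lf (nat_lit 0) (nat_lit 34424361343) (nat_lit 228) (nat_lit 25337958057) (nat_lit 76) (nat_lit 20406235338) (nat_lit 126) (nat_lit 5) (nat_lit 129) (nat_lit 5) (nat_lit 127) (nat_lit 4) (nat_lit 486) (nat_lit 373) (nat_lit 161)) (XT.lf (nat_lit 0) (nat_lit 27843980295) (nat_lit 76) (nat_lit 32780979482) (nat_lit 152) (nat_lit 21110255854) (nat_lit 125) (nat_lit 5) (nat_lit 126) (nat_lit 5) (nat_lit 127) (nat_lit 4) (nat_lit 487) (nat_lit 373) (nat_lit 160))) (XT.nd (nat_lit 78) (nat_lit 152) (nat_lit 0) (XT.lf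 (nat_lit 0) (nat_lit 4434820099) (nat_lit 152) (nat_lit 249902400) (nat_lit 76) (nat_lit 78655265554) (nat_lit 124) (nat_lit 5) (nat_lit 126) (nat_lit 5) (nat_lit 125) (nat_lit 5) (nat_lit 488) (nat_lit 373) (nat_lit 159)) (XT.lf (nat_lit 0) (nat_lit 31096572353) (nat_lit 228) (nat_lit 29334913866) (nat_lit 76) (nat_lit 24531908477) (nat_lit 122) (nat_lit 5) (nat_lit 125) (nat_lit 5) (nat_lit 123) (nat_lit 4) (nat_lit 489) (nat_lit 373) (nat_lit 158)))) (XT.nd (nat_lit 156) (nat_lit 0) (nat_lit 0) (XT.nd (nat_lit 78) (nat_lit 0) (nat_lit 0) (XT.lf (nat_lit 0) (nat_lit 1581842067) (nat_lit 0) (nat_lit 1581842067) (nat_lit 1140) (nat_lit 2559296855) (nat_lit 391) (nat_lit 5) (nat_lit 391) (nat_lit 3) (nat_lit 406) (nat_lit 3) (nat_lit 374) (nat_lit 374) (nat_lit 272)) (XT.lf (nat_lit 0) (nat_lit 6968083918) (nat_lit 1140) (nat_lit 2574278143) (nat_lit 1216) (nat_lit 2058915194) (nat_lit 391) (nat_lit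 5) (nat_lit 406) (nat_lit 3) (nat_lit 407) (nat_lit 5) (nat_lit 375) (nat_lit 374) (nat_lit 271))) (XT.nd (nat_lit 78) (nat_lit 0) (nat_lit 76) (XT.lf (nat_lit 76) (nat_lit 3327600688) (nat_lit 0) (nat_lit 4343316015) (nat_lit 1216) (nat_lit 4089048416) (nat_lit 392) (nat_lit 5) (nat_lit 391) (nat_lit 5) (nat_lit 407) (nat_lit 5) (nat_lit 376) (nat_lit 374) (nat_lit 270)) (XT.lf (nat_lit 0) (nat_lit 8410974522) (nat_lit 1140) (nat_lit 2484858193) (nat_lit 1216) (nat_lit 1027096703) (nat_lit 392) (nat_lit 5) (nat_lit 407) (nat_lit 5) (nat_lit 408) (nat_lit 5) (nat_lit 377) (nat_lit 374) (nat_lit 269)))))) (XT.nd (nat_lit 546) (nat_lit 912) (nat_lit 0) (XT.nd (nat_lit 234) (nat_lit 1064) (nat_lit 0) (XT.nd (nat_lit 78) (nat_lit 0) (nat_lit 0) (XT.lf (nat_lit 76) (nat_lit 3658243948) (nat_lit 0) (nat_lit 5573898744) (nat_lit 1216) (nat_lit 2856872695) (nat_lit 393) (nat_lit 5) (nat_lit 392) (nat_lit 5)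 (nat_lit 408) (nat_lit 5) (nat_lit 378) (nat_lit 374) (nat_lit 268)) (XT.nd (nat_lit 78) (nat_lit 0) (nat_lit 76) (XT.lf (nat_lit 76) (nat_lit 10025474560) (nat_lit 0) (nat_lit 58758003) (nat_lit 1216) (nat_lit 2175662773) (nat_lit 393) (nat_lit 5) (nat_lit 392) (nat_lit 5) (nat_lit 408) (nat_lit 5) (nat_lit 379) (nat_lit 374) (nat_lit 267)) (XT.lf (nat_lit 76) (nat_lit 4163629242) (nat_lit 0) (nat_lit 6874133863) (nat_lit 1216) (nat_lit 1395862238) (nat_lit 394) (nat_lit 5) (nat_lit 393) (nat_lit 5) (nat_lit 409) (nat_lit 5) (nat_lit 380) (nat_lit 374) (nat_lit 266)))) (XT.nd (nat_lit 156) (nat_lit 0) (nat_lit 0) (XT.nd (nat_lit 78) (nat_lit 1140) (nat_lit 0) (XT.lf (nat_lit 76) (nat_lit 10787544571) (nat_lit 0) (nat_lit 1237729606) (nat_lit 1216) (nat_lit 587131836) (nat_lit 394) (nat_lit 5) (nat_lit 393) (nat_lit 5) (nat_lit 409) (nat_lit 5) (nat_lit 381) (nat_lit 374) (nat_lit 265)) (XT.lf (nat_lit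 0) (nat_lit 315159484) (nat_lit 1216) (nat_lit 7944557963) (nat_lit 1292) (nat_lit 4534538856) (nat_lit 378) (nat_lit 5) (nat_lit 394) (nat_lit 5) (nat_lit 395) (nat_lit 5) (nat_lit 382) (nat_lit 374) (nat_lit 264))) (XT.nd (nat_lit 78) (nat_lit 0) (nat_lit 76) (XT.lf (nat_lit 0) (nat_lit 1246621155) (nat_lit 1216) (nat_lit 1249116803) (nat_lit 1292) (nat_lit 10485232676) (nat_lit 378) (nat_lit 5) (nat_lit 394) (nat_lit 5) (nat_lit 395) (nat_lit 5) (nat_lit 383) (nat_lit 374) (nat_lit 263)) (XT.lf (nat_lit 0) (nat_lit 2278485182) (nat_lit 1216) (nat_lit 7457863958) (nat_lit 1292) (nat_lit 3434763501) (nat_lit 379) (nat_lit 5) (nat_lit 395) (nat_lit 5) (nat_lit 396) (nat_lit 5) (nat_lit 384) (nat_lit 374) (nat_lit 262))))) (XT.nd (nat_lit 312) (nat_lit 988) (nat_lit 0) (XT.nd (nat_lit 156) (nat_lit 0) (nat_lit 76) (XT.nd (nat_lit 78) (nat_lit 0) (nat_lit 76) (XT.lf (nat_lit 0) (nat_lit 3362702675) (nat_lit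 1216) (nat_lit 493159312) (nat_lit 1292) (nat_lit 9510454994) (nat_lit 379) (nat_lit 5) (nat_lit 395) (nat_lit 5) (nat_lit 396) (nat_lit 5) (nat_lit 385) (nat_lit 374) (nat_lit 261)) (XT.lf (nat_lit 0) (nat_lit 4551089722) (nat_lit 1216) (nat_lit 6786005115) (nat_lit 1292) (nat_lit 2228133324) (nat_lit 380) (nat_lit 5) (nat_lit 396) (nat_lit 5) (nat_lit 397) (nat_lit 5) (nat_lit 386) (nat_lit 374) (nat_lit 260))) (XT.nd (nat_lit 78) (nat_lit 0) (nat_lit 76) (XT.lf (nat_lit 76) (nat_lit 468982849) (nat_lit 0) (nat_lit 5338657700) (nat_lit 1292) (nat_lit 7961490762) (nat_lit 381) (nat_lit 5) (nat_lit 380) (nat_lit 5) (nat_lit 397) (nat_lit 5) (nat_lit 387) (nat_lit 374) (nat_lit 259)) (XT.lf (nat_lit 0) (nat_lit 7164321406) (nat_lit 1216) (nat_lit 5917350547) (nat_lit 1292) (nat_lit 895606597) (nat_lit 381) (nat_lit 5) (nat_lit 397) (nat_lit 5) (nat_lit 398) (nat_lit 5) (nat_lit 388) (nat_lit 374) (nat_lit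 258)))) (XT.nd (nat_lit 156) (nat_lit 1140) (nat_lit 0) (XT.nd (nat_lit 78) (nat_lit 0) (nat_lit 0) (XT.lf (nat_lit 76) (nat_lit 1654483319) (nat_lit 0) (nat_lit 6961571240) (nat_lit 1292) (nat_lit 5573985091) (nat_lit 382) (nat_lit 5) (nat_lit 381) (nat_lit 5) (nat_lit 398) (nat_lit 5) (nat_lit 389) (nat_lit 374) (nat_lit 257)) (XT.lf (nat_lit 76) (nat_lit 9563013592) (nat_lit 0) (nat_lit 593976401) (nat_lit 1292) (nat_lit 4250824082) (nat_lit 382) (nat_lit 5) (nat_lit 381) (nat_lit 5) (nat_lit 398) (nat_lit 5) (nat_lit 390) (nat_lit 374) (nat_lit 256))) (XT.nd (nat_lit 78) (nat_lit 0) (nat_lit 0) (XT.lf (nat_lit 0) (nat_lit 3067348551) (nat_lit 1216) (nat_lit 8749955307) (nat_lit 1292) (nat_lit 2812623363) (nat_lit 366) (nat_lit 5) (nat_lit 382) (nat_lit 5) (nat_lit 383) (nat_lit 5) (nat_lit 391) (nat_lit 374) (nat_lit 255)) (XT.lf (nat_lit 0) (nat_lit 11298445208) (nat_lit 1216) (nat_lit 2270342920)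 (nat_lit 1292) (nat_lit 1288674805) (nat_lit 366) (nat_lit 5) (nat_lit 382) (nat_lit 5) (nat_lit 383) (nat_lit 5) (nat_lit 392) (nat_lit 374) (nat_lit 254))))))) (XT.nd (nat_lit 1170) (nat_lit 3800) (nat_lit 0) (XT.nd (nat_lit 546) (nat_lit 2736) (nat_lit 0) (XT.nd (nat_lit 234) (nat_lit 1140) (nat_lit 0) (XT.nd (nat_lit 78) (nat_lit 608) (nat_lit 0) (XT.lf (nat_lit 0) (nat_lit 350997050) (nat_lit 912) (nat_lit 10370343614) (nat_lit 76) (nat_lit 4368138379) (nat_lit 354) (nat_lit 5) (nat_lit 366) (nat_lit 5) (nat_lit 355) (nat_lit 5) (nat_lit 393) (nat_lit 374) (nat_lit 253)) (XT.nd (nat_lit 78) (nat_lit 608) (nat_lit 0) (XT.lf (nat_lit 0) (nat_lit 2059891437) (nat_lit 912) (nat_lit 2056317516) (nat_lit 76) (nat_lit 11210485905) (nat_lit 354) (nat_lit 5) (nat_lit 366) (nat_lit 5) (nat_lit 355) (nat_lit 5) (nat_lit 394) (nat_lit 374) (nat_lit 252)) (XT.lf (nat_lit 0) (nat_lit 3897737077) (nat_lit 684)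 (nat_lit 8971144409) (nat_lit 76) (nat_lit 2699815128) (nat_lit 346) (nat_lit 5) (nat_lit 355) (nat_lit 5) (nat_lit 347) (nat_lit 5) (nat_lit 395) (nat_lit 374) (nat_lit 251)))) (XT.nd (nat_lit 156) (nat_lit 532) (nat_lit 0) (XT.nd (nat_lit 78) (nat_lit 608) (nat_lit 0) (XT.lf (nat_lit 0) (nat_lit 5840236759) (nat_lit 684) (nat_lit 316953316) (nat_lit 76) (nat_lit 9659282788) (nat_lit 346) (nat_lit 5) (nat_lit 355) (nat_lit 5) (nat_lit 347) (nat_lit 5) (nat_lit 396) (nat_lit 374) (nat_lit 250)) (XT.lf (nat_lit 0) (nat_lit 7921433336) (nat_lit 684) (nat_lit 7321389343) (nat_lit 76) (nat_lit 826447064) (nat_lit 338) (nat_lit 5) (nat_lit 347) (nat_lit 5) (nat_lit 339) (nat_lit 5) (nat_lit 397) (nat_lit 374) (nat_lit 249))) (XT.nd (nat_lit 78) (nat_lit 0) (nat_lit 0) (XT.lf (nat_lit 0) (nat_lit 1722478691) (nat_lit 532) (nat_lit 8411726329) (nat_lit 608) (nat_lit 6193371332) (nat_lit 331) (nat_lit 5) (nat_lit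 338) (nat_lit 5) (nat_lit 339) (nat_lit 5) (nat_lit 398) (nat_lit 374) (nat_lit 248)) (XT.lf (nat_lit 0) (nat_lit 11176118224) (nat_lit 532) (nat_lit 1299786910) (nat_lit 608) (nat_lit 4115850667) (nat_lit 331) (nat_lit 5) (nat_lit 338) (nat_lit 5) (nat_lit 339) (nat_lit 5) (nat_lit 399) (nat_lit 374) (nat_lit 247))))) (XT.nd (nat_lit 312) (nat_lit 1520) (nat_lit 0) (XT.nd (nat_lit 156) (nat_lit 532) (nat_lit 0) (XT.nd (nat_lit 78) (nat_lit 76) (nat_lit 0) (XT.lf (nat_lit 0) (nat_lit 4059177956) (nat_lit 608) (nat_lit 10914561502) (nat_lit 684) (nat_lit 1887544680) (nat_lit 323) (nat_lit 5) (nat_lit 331) (nat_lit 5) (nat_lit 332) (nat_lit 5) (nat_lit 400) (nat_lit 374) (nat_lit 246)) (XT.lf (nat_lit 0) (nat_lit 456801600) (nat_lit 684) (nat_lit 3237054058) (nat_lit 76) (nat_lit 13443210768) (nat_lit 322) (nat_lit 5) (nat_lit 331) (nat_lit 5) (nat_lit 323) (nat_lit 5) (nat_lit 401) (nat_lit 374) (nat_lit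 245))) (XT.nd (nat_lit 78) (nat_lit 0) (nat_lit 0) (XT.lf (nat_lit 0) (nat_lit 2924265868) (nat_lit 608) (nat_lit 10739811634) (nat_lit 76) (nat_lit 3753762265) (nat_lit 315) (nat_lit 5) (nat_lit 323) (nat_lit 5) (nat_lit 316) (nat_lit 5) (nat_lit 402) (nat_lit 374) (nat_lit 244)) (XT.lf (nat_lit 0) (nat_lit 5524897937) (nat_lit 608) (nat_lit 797605649) (nat_lit 76) (nat_lit 11382758404) (nat_lit 315) (nat_lit 5) (nat_lit 323) (nat_lit 5) (nat_lit 316) (nat_lit 5) (nat_lit 403) (nat_lit 374) (nat_lit 243)))) (XT.nd (nat_lit 156) (nat_lit 532) (nat_lit 0) (XT.nd (nat_lit 78) (nat_lit 456) (nat_lit 0) (XT.lf (nat_lit 0) (nat_lit 8298697559) (nat_lit 608) (nat_lit 8392316194) (nat_lit 76) (nat_lit 1307438669) (nat_lit 308) (nat_lit 5) (nat_lit 316) (nat_lit 5) (nat_lit 309) (nat_lit 5) (nat_lit 404) (nat_lit 374) (nat_lit 242)) (XT.lf (nat_lit 0) (nat_lit 2003140618) (nat_lit 456) (nat_lit 9232599577)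 (nat_lit 532) (nat_lit 7062297502) (nat_lit 302) (nat_lit 5) (nat_lit 308) (nat_lit 5) (nat_lit 309) (nat_lit 5) (nat_lit 405) (nat_lit 374) (nat_lit 241))) (XT.nd (nat_lit 78) (nat_lit 532) (nat_lit 0) (XT.lf (nat_lit 0) (nat_lit 12871194640) (nat_lit 456) (nat_lit 1464667427) (nat_lit 532) (nat_lit 4268499424) (nat_lit 302) (nat_lit 5) (nat_lit 308) (nat_lit 5) (nat_lit 309) (nat_lit 5) (nat_lit 406) (nat_lit 374) (nat_lit 240)) (XT.lf (nat_lit 0) (nat_lit 5172271811) (nat_lit 532) (nat_lit 12459758369) (nat_lit 608) (nat_lit 1284753542) (nat_lit 295) (nat_lit 5) (nat_lit 302) (nat_lit 5) (nat_lit 303) (nat_lit 5) (nat_lit 407) (nat_lit 374) (nat_lit 239)))))) (XT.nd (nat_lit 624) (nat_lit 1900) (nat_lit 0) (XT.nd (nat_lit 312) (nat_lit 912) (nat_lit 0) (XT.nd (nat_lit 156) (nat_lit 456) (nat_lit 0) (XT.nd (nat_lit 78) (nat_lit 456) (nat_lit 0) (XT.lf (nat_lit 0) (nat_lit 1817143214) (nat_lit 608)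 (nat_lit 2758030578) (nat_lit 76) (nat_lit 14660982901) (nat_lit 294) (nat_lit 5) (nat_lit 302) (nat_lit 5) (nat_lit 295) (nat_lit 5) (nat_lit 408) (nat_lit 374) (nat_lit 238)) (XT.lf (nat_lit 0) (nat_lit 5095811815) (nat_lit 532) (nat_lit 10893331435) (nat_lit 76) (nat_lit 3572299877) (nat_lit 288) (nat_lit 5) (nat_lit 295) (nat_lit 5) (nat_lit 289) (nat_lit 5) (nat_lit 409) (nat_lit 374) (nat_lit 237))) (XT.nd (nat_lit 78) (nat_lit 0) (nat_lit 0) (XT.lf (nat_lit 0) (nat_lit 551985407) (nat_lit 456) (nat_lit 7990574903) (nat_lit 532) (nat_lit 11351836250) (nat_lit 282) (nat_lit 5) (nat_lit 288) (nat_lit 5) (nat_lit 289) (nat_lit 5) (nat_lit 410) (nat_lit 374) (nat_lit 236)) (XT.lf (nat_lit 0) (nat_lit 12197309368) (nat_lit 532) (nat_lit 7684816232) (nat_lit 76) (nat_lit 352075051) (nat_lit 282) (nat_lit 5) (nat_lit 289) (nat_lit 5) (nat_lit 283) (nat_lit 5) (nat_lit 411) (nat_lit 374) (nat_lit 235))))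 (XT.nd (nat_lit 156) (nat_lit 532) (nat_lit 0) (XT.nd (nat_lit 78) (nat_lit 0) (nat_lit 0) (XT.lf (nat_lit 0) (nat_lit 4316684766) (nat_lit 380) (nat_lit 11757008113) (nat_lit 456) (nat_lit 4507146226) (nat_lit 277) (nat_lit 5) (nat_lit 282) (nat_lit 5) (nat_lit 283) (nat_lit 5) (nat_lit 412) (nat_lit 374) (nat_lit 234)) (XT.lf (nat_lit 0) (nat_lit 16824928026) (nat_lit 380) (nat_lit 3310571055) (nat_lit 456) (nat_lit 800303698) (nat_lit 277) (nat_lit 5) (nat_lit 282) (nat_lit 5) (nat_lit 283) (nat_lit 5) (nat_lit 413) (nat_lit 374) (nat_lit 233))) (XT.nd (nat_lit 78) (nat_lit 0) (nat_lit 0) (XT.lf (nat_lit 0) (nat_lit 3085465813) (nat_lit 532) (nat_lit 12817377682) (nat_lit 76) (nat_lit 5393903352) (nat_lit 270) (nat_lit 5) (nat_lit 277) (nat_lit 5) (nat_lit 271) (nat_lit 5) (nat_lit 414) (nat_lit 374) (nat_lit 232)) (XT.lf (nat_lit 0) (nat_lit 7138235707) (nat_lit 532) (nat_lit 187598021) (nat_lit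 76) (nat_lit 14340452416) (nat_lit 270) (nat_lit 5) (nat_lit 277) (nat_lit 5) (nat_lit 271) (nat_lit 5) (nat_lit 415) (nat_lit 374) (nat_lit 231))))) (XT.nd (nat_lit 312) (nat_lit 684) (nat_lit 0) (XT.nd (nat_lit 156) (nat_lit 456) (nat_lit 0) (XT.nd (nat_lit 78) (nat_lit 380) (nat_lit 0) (XT.lf (nat_lit 0) (nat_lit 11445952708) (nat_lit 456) (nat_lit 8993557158) (nat_lit 76) (nat_lit 1603400835) (nat_lit 265) (nat_lit 5) (nat_lit 271) (nat_lit 5) (nat_lit 266) (nat_lit 5) (nat_lit 416) (nat_lit 374) (nat_lit 230)) (XT.lf (nat_lit 0) (nat_lit 4256394705) (nat_lit 380) (nat_lit 11734025174) (nat_lit 456) (nat_lit 6437188555) (nat_lit 260) (nat_lit 5) (nat_lit 265) (nat_lit 5) (nat_lit 266) (nat_lit 5) (nat_lit 417) (nat_lit 374) (nat_lit 229))) (XT.nd (nat_lit 78) (nat_lit 456) (nat_lit 0) (XT.lf (nat_lit 0) (nat_lit 18077714895) (nat_lit 380) (nat_lit 2676608514) (nat_lit 456) (nat_lit 2067030622) (nat_lit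 260) (nat_lit 5) (nat_lit 265) (nat_lit 5) (nat_lit 266) (nat_lit 5) (nat_lit 418) (nat_lit 374) (nat_lit 228)) (XT.lf (nat_lit 0) (nat_lit 2532954204) (nat_lit 456) (nat_lit 14055604270) (nat_lit 76) (nat_lit 6633264856) (nat_lit 254) (nat_lit 5) (nat_lit 260) (nat_lit 5) (nat_lit 255) (nat_lit 5) (nat_lit 419) (nat_lit 374) (nat_lit 227)))) (XT.nd (nat_lit 156) (nat_lit 304) (nat_lit 0) (XT.nd (nat_lit 78) (nat_lit 380) (nat_lit 0) (XT.lf (nat_lit 0) (nat_lit 7296800834) (nat_lit 456) (nat_lit 100127204) (nat_lit 76) (nat_lit 16234742475) (nat_lit 254) (nat_lit 5) (nat_lit 260) (nat_lit 5) (nat_lit 255) (nat_lit 5) (nat_lit 420) (nat_lit 374) (nat_lit 226)) (XT.lf (nat_lit 0) (nat_lit 12357412578) (nat_lit 456) (nat_lit 9523327000) (nat_lit 76) (nat_lit 2168458043) (nat_lit 249) (nat_lit 5) (nat_lit 255) (nat_lit 5) (nat_lit 250) (nat_lit 5) (nat_lit 421) (nat_lit 374) (nat_lit 225))) (XT.nd (nat_lit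 78) (nat_lit 0) (nat_lit 0) (XT.lf (nat_lit 0) (nat_lit 5130128254) (nat_lit 304) (nat_lit 12556121698) (nat_lit 380) (nat_lit 6789508371) (nat_lit 245) (nat_lit 5) (nat_lit 249) (nat_lit 5) (nat_lit 250) (nat_lit 5) (nat_lit 422) (nat_lit 374) (nat_lit 224)) (XT.lf (nat_lit 0) (nat_lit 20408293375) (nat_lit 304) (nat_lit 2855772809) (nat_lit 380) (nat_lit 1648376249) (nat_lit 245) (nat_lit 5) (nat_lit 249) (nat_lit 5) (nat_lit 250) (nat_lit 5) (nat_lit 423) (nat_lit 374) (nat_lit 223))))))))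
noncomputable def xc175 : XT := (XT.nd (nat_lit 2418) (nat_lit 3268) (nat_lit 0) (XT.nd (nat_lit 1170) (nat_lit 2356) (nat_lit 0) (XT.nd (nat_lit 546) (nat_lit 1444) (nat_lit 0) (XT.nd (nat_lit 234) (nat_lit 988) (nat_lit 0) (XT.nd (nat_lit 78) (nat_lit 304) (nat_lit 0) (XT.lf (nat_lit 0) (nat_lit 3744130377) (nat_lit 456) (nat_lit 14476914393) (nat_lit 76) (nat_lit 7135081392) (nat_lit 239) (nat_lit 5) (nat_lit 245) (nat_lit 5) (nat_lit 240) (nat_lit 5) (nat_lit 424) (nat_lit 374) (nat_lit 222)) (XT.nd (nat_lit 78) (nat_lit 0) (nat_lit 0) (XT.lf (nat_lit 0) (nat_lit 968467480) (nat_lit 304) (nat_lit 8373493665) (nat_lit 380) (nat_lit 16468369251) (nat_lit 235) (nat_lit 5) (nat_lit 239) (nat_lit 5) (nat_lit 240) (nat_lit 5) (nat_lit 425) (nat_lit 374) (nat_lit 221)) (XT.lf (nat_lit 0) (nat_lit 15265606759) (nat_lit 380) (nat_lit 9128364523) (nat_lit 76) (nat_lit 1879453076) (nat_lit 235) (nat_lit 5)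 (nat_lit 240) (nat_lit 5) (nat_lit 236) (nat_lit 5) (nat_lit 426) (nat_lit 374) (nat_lit 220)))) (XT.nd (nat_lit 156) (nat_lit 608) (nat_lit 0) (XT.nd (nat_lit 78) (nat_lit 76) (nat_lit 0) (XT.lf (nat_lit 0) (nat_lit 7102414981) (nat_lit 304) (nat_lit 14409157144) (nat_lit 380) (nat_lit 5234500702) (nat_lit 231) (nat_lit 5) (nat_lit 235) (nat_lit 5) (nat_lit 236) (nat_lit 5) (nat_lit 427) (nat_lit 374) (nat_lit 219)) (XT.lf (nat_lit 0) (nat_lit 784678555) (nat_lit 380) (nat_lit 3240497503) (nat_lit 76) (nat_lit 23204922657) (nat_lit 230) (nat_lit 5) (nat_lit 235) (nat_lit 5) (nat_lit 231) (nat_lit 5) (nat_lit 428) (nat_lit 374) (nat_lit 218))) (XT.nd (nat_lit 78) (nat_lit 304) (nat_lit 0) (XT.lf (nat_lit 0) (nat_lit 7072070152) (nat_lit 380) (nat_lit 13925296896) (nat_lit 76) (nat_lit 6723938173) (nat_lit 226) (nat_lit 5) (nat_lit 231) (nat_lit 5) (nat_lit 227) (nat_lit 5) (nat_lit 429) (nat_lit 374)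 (nat_lit 217)) (XT.lf (nat_lit 0) (nat_lit 3196343423) (nat_lit 304) (nat_lit 10449083987) (nat_lit 380) (nat_lit 14578900196) (nat_lit 222) (nat_lit 5) (nat_lit 226) (nat_lit 5) (nat_lit 227) (nat_lit 5) (nat_lit 430) (nat_lit 374) (nat_lit 216))))) (XT.nd (nat_lit 312) (nat_lit 836) (nat_lit 0) (XT.nd (nat_lit 156) (nat_lit 380) (nat_lit 0) (XT.nd (nat_lit 78) (nat_lit 228) (nat_lit 0) (XT.lf (nat_lit 0) (nat_lit 20555769399) (nat_lit 380) (nat_lit 7636202874) (nat_lit 76) (nat_lit 546274867) (nat_lit 222) (nat_lit 5) (nat_lit 227) (nat_lit 5) (nat_lit 223) (nat_lit 5) (nat_lit 431) (nat_lit 374) (nat_lit 215)) (XT.lf (nat_lit 0) (nat_lit 10366769653) (nat_lit 228) (nat_lit 17503719323) (nat_lit 304) (nat_lit 1391183264) (nat_lit 219) (nat_lit 5) (nat_lit 222) (nat_lit 5) (nat_lit 223) (nat_lit 5) (nat_lit 432) (nat_lit 374) (nat_lit 214))) (XT.nd (nat_lit 78) (nat_lit 304) (nat_lit 0) (XT.lf (nat_lit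 0) (nat_lit 5566359744) (nat_lit 304) (nat_lit 796178338) (nat_lit 76) (nat_lit 23434490154) (nat_lit 218) (nat_lit 5) (nat_lit 222) (nat_lit 5) (nat_lit 219) (nat_lit 5) (nat_lit 433) (nat_lit 374) (nat_lit 213)) (XT.lf (nat_lit 0) (nat_lit 12924543469) (nat_lit 380) (nat_lit 12216661603) (nat_lit 76) (nat_lit 5200230341) (nat_lit 214) (nat_lit 5) (nat_lit 219) (nat_lit 5) (nat_lit 215) (nat_lit 5) (nat_lit 434) (nat_lit 374) (nat_lit 212)))) (XT.nd (nat_lit 156) (nat_lit 608) (nat_lit 0) (XT.nd (nat_lit 78) (nat_lit 0) (nat_lit 0) (XT.lf (nat_lit 0) (nat_lit 6787920472) (nat_lit 228) (nat_lit 13846129872) (nat_lit 304) (nat_lit 10264207132) (nat_lit 211) (nat_lit 5) (nat_lit 214) (nat_lit 5) (nat_lit 215) (nat_lit 5) (nat_lit 435) (nat_lit 374) (nat_lit 211)) (XT.lf (nat_lit 0) (nat_lit 26603956756) (nat_lit 228) (nat_lit 2088544076) (nat_lit 304) (nat_lit 2775753617) (nat_lit 211) (nat_lit 5) (nat_lit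 214) (nat_lit 5) (nat_lit 215) (nat_lit 5) (nat_lit 436) (nat_lit 374) (nat_lit 210))) (XT.nd (nat_lit 78) (nat_lit 228) (nat_lit 0) (XT.lf (nat_lit 0) (nat_lit 5079737837) (nat_lit 380) (nat_lit 16948635538) (nat_lit 76) (nat_lit 10018392233) (nat_lit 206) (nat_lit 5) (nat_lit 211) (nat_lit 5) (nat_lit 207) (nat_lit 5) (nat_lit 437) (nat_lit 374) (nat_lit 209)) (XT.lf (nat_lit 0) (nat_lit 3121240240) (nat_lit 228) (nat_lit 10088602881) (nat_lit 304) (nat_lit 19429122331) (nat_lit 203) (nat_lit 5) (nat_lit 206) (nat_lit 5) (nat_lit 207) (nat_lit 5) (nat_lit 438) (nat_lit 374) (nat_lit 208)))))) (XT.nd (nat_lit 624) (nat_lit 1064) (nat_lit 0) (XT.nd (nat_lit 312) (nat_lit 760) (nat_lit 0) (XT.nd (nat_lit 156) (nat_lit 304) (nat_lit 0) (XT.nd (nat_lit 78) (nat_lit 228) (nat_lit 0) (XT.lf (nat_lit 0) (nat_lit 21772425495) (nat_lit 304) (nat_lit 9135133430) (nat_lit 76) (nat_lit 2335715148) (nat_lit 203)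 (nat_lit 5) (nat_lit 207) (nat_lit 5) (nat_lit 204) (nat_lit 5) (nat_lit 439) (nat_lit 374) (nat_lit 207)) (XT.lf (nat_lit 0) (nat_lit 11984118753) (nat_lit 228) (nat_lit 18817506486) (nat_lit 304) (nat_lit 3057794517) (nat_lit 200) (nat_lit 5) (nat_lit 203) (nat_lit 5) (nat_lit 204) (nat_lit 5) (nat_lit 440) (nat_lit 374) (nat_lit 206))) (XT.nd (nat_lit 78) (nat_lit 228) (nat_lit 0) (XT.lf (nat_lit 0) (nat_lit 5586059912) (nat_lit 304) (nat_lit 630693531) (nat_lit 76) (nat_lit 28273044214) (nat_lit 199) (nat_lit 5) (nat_lit 203) (nat_lit 5) (nat_lit 200) (nat_lit 5) (nat_lit 441) (nat_lit 374) (nat_lit 205)) (XT.lf (nat_lit 0) (nat_lit 14697892462) (nat_lit 304) (nat_lit 13564822945) (nat_lit 76) (nat_lit 6867359599) (nat_lit 196) (nat_lit 5) (nat_lit 200) (nat_lit 5) (nat_lit 197) (nat_lit 5) (nat_lit 442) (nat_lit 374) (nat_lit 204)))) (XT.nd (nat_lit 156) (nat_lit 532) (nat_lit 0) (XT.nd (nat_lit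 78) (nat_lit 0) (nat_lit 0) (XT.lf (nat_lit 0) (nat_lit 8751203502) (nat_lit 228) (nat_lit 15478848265) (nat_lit 304) (nat_lit 11555099755) (nat_lit 193) (nat_lit 5) (nat_lit 196) (nat_lit 5) (nat_lit 197) (nat_lit 5) (nat_lit 443) (nat_lit 374) (nat_lit 203)) (XT.lf (nat_lit 0) (nat_lit 32006276536) (nat_lit 228) (nat_lit 2173811276) (nat_lit 304) (nat_lit 2275835162) (nat_lit 193) (nat_lit 5) (nat_lit 196) (nat_lit 5) (nat_lit 197) (nat_lit 5) (nat_lit 444) (nat_lit 374) (nat_lit 202))) (XT.nd (nat_lit 78) (nat_lit 228) (nat_lit 0) (XT.lf (nat_lit 0) (nat_lit 7431726856) (nat_lit 304) (nat_lit 18145996740) (nat_lit 76) (nat_lit 11558233644) (nat_lit 189) (nat_lit 5) (nat_lit 193) (nat_lit 5) (nat_lit 190) (nat_lit 5) (nat_lit 445) (nat_lit 374) (nat_lit 201)) (XT.lf (nat_lit 0) (nat_lit 5442237460) (nat_lit 228) (nat_lit 12056816353) (nat_lit 304) (nat_lit 20333234329) (nat_lit 186) (nat_lit 5) (nat_lit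 189) (nat_lit 5) (nat_lit 190) (nat_lit 5) (nat_lit 446) (nat_lit 374) (nat_lit 200))))) (XT.nd (nat_lit 312) (nat_lit 608) (nat_lit 0) (XT.nd (nat_lit 156) (nat_lit 304) (nat_lit 0) (XT.nd (nat_lit 78) (nat_lit 152) (nat_lit 0) (XT.lf (nat_lit 0) (nat_lit 28066523156) (nat_lit 304) (nat_lit 8462119927) (nat_lit 76) (nat_lit 2014922210) (nat_lit 186) (nat_lit 5) (nat_lit 190) (nat_lit 5) (nat_lit 187) (nat_lit 5) (nat_lit 447) (nat_lit 374) (nat_lit 199)) (XT.lf (nat_lit 0) (nat_lit 16375652552) (nat_lit 152) (nat_lit 22847390523) (nat_lit 228) (nat_lit 44976888) (nat_lit 184) (nat_lit 5) (nat_lit 186) (nat_lit 5) (nat_lit 187) (nat_lit 5) (nat_lit 448) (nat_lit 374) (nat_lit 198))) (XT.nd (nat_lit 78) (nat_lit 0) (nat_lit 0) (XT.lf (nat_lit 0) (nat_lit 2048465983) (nat_lit 228) (nat_lit 8544029443) (nat_lit 304) (nat_lit 29415589936) (nat_lit 180) (nat_lit 5) (nat_lit 183) (nat_lit 5) (nat_lit 184)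 (nat_lit 5) (nat_lit 449) (nat_lit 374) (nat_lit 197)) (XT.lf (nat_lit 0) (nat_lit 21836412880) (nat_lit 304) (nat_lit 12627054917) (nat_lit 76) (nat_lit 6298224817) (nat_lit 180) (nat_lit 5) (nat_lit 184) (nat_lit 5) (nat_lit 181) (nat_lit 5) (nat_lit 450) (nat_lit 374) (nat_lit 196)))) (XT.nd (nat_lit 156) (nat_lit 380) (nat_lit 0) (XT.nd (nat_lit 78) (nat_lit 76) (nat_lit 0) (XT.lf (nat_lit 0) (nat_lit 13639067026) (nat_lit 152) (nat_lit 19989700824) (nat_lit 228) (nat_lit 7902806635) (nat_lit 178) (nat_lit 5) (nat_lit 180) (nat_lit 5) (nat_lit 181) (nat_lit 5) (nat_lit 451) (nat_lit 374) (nat_lit 195)) (XT.lf (nat_lit 0) (nat_lit 3507214389) (nat_lit 228) (nat_lit 1411127116) (nat_lit 76) (nat_lit 37401490234) (nat_lit 177) (nat_lit 5) (nat_lit 180) (nat_lit 5) (nat_lit 178) (nat_lit 5) (nat_lit 452) (nat_lit 374) (nat_lit 194))) (XT.nd (nat_lit 78) (nat_lit 152) (nat_lit 0) (XT.lf (nat_lit 0) (nat_lit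 15454182588) (nat_lit 304) (nat_lit 16935385814) (nat_lit 76) (nat_lit 10729216385) (nat_lit 174) (nat_lit 5) (nat_lit 178) (nat_lit 5) (nat_lit 175) (nat_lit 5) (nat_lit 453) (nat_lit 374) (nat_lit 193)) (XT.lf (nat_lit 0) (nat_lit 10848487843) (nat_lit 152) (nat_lit 17074029575) (nat_lit 228) (nat_lit 16014300283) (nat_lit 172) (nat_lit 5) (nat_lit 174) (nat_lit 5) (nat_lit 175) (nat_lit 5) (nat_lit 454) (nat_lit 374) (nat_lit 192))))))) (XT.nd (nat_lit 1170) (nat_lit 1596) (nat_lit 0) (XT.nd (nat_lit 546) (nat_lit 912) (nat_lit 0) (XT.nd (nat_lit 234) (nat_lit 380) (nat_lit 0) (XT.nd (nat_lit 78) (nat_lit 380) (nat_lit 0) (XT.lf (nat_lit 0) (nat_lit 39805336433) (nat_lit 152) (nat_lit 1126222663) (nat_lit 228) (nat_lit 3842832801) (nat_lit 172) (nat_lit 5) (nat_lit 174) (nat_lit 5) (nat_lit 175) (nat_lit 5) (nat_lit 455) (nat_lit 374) (nat_lit 191)) (XT.nd (nat_lit 78) (nat_lit 152) (nat_lit 0) (XT.lf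 (nat_lit 0) (nat_lit 8904388424) (nat_lit 228) (nat_lit 21399497013) (nat_lit 76) (nat_lit 15319293085) (nat_lit 169) (nat_lit 5) (nat_lit 172) (nat_lit 5) (nat_lit 170) (nat_lit 5) (nat_lit 456) (nat_lit 374) (nat_lit 190)) (XT.lf (nat_lit 0) (nat_lit 7996909161) (nat_lit 152) (nat_lit 14094325130) (nat_lit 228) (nat_lit 24401019665) (nat_lit 167) (nat_lit 5) (nat_lit 169) (nat_lit 5) (nat_lit 170) (nat_lit 5) (nat_lit 457) (nat_lit 374) (nat_lit 189)))) (XT.nd (nat_lit 156) (nat_lit 152) (nat_lit 0) (XT.nd (nat_lit 78) (nat_lit 228) (nat_lit 0) (XT.lf (nat_lit 0) (nat_lit 35912694017) (nat_lit 228) (nat_lit 8701791354) (nat_lit 76) (nat_lit 2765746027) (nat_lit 167) (nat_lit 5) (nat_lit 170) (nat_lit 5) (nat_lit 168) (nat_lit 5) (nat_lit 458) (nat_lit 374) (nat_lit 188)) (XT.lf (nat_lit 0) (nat_lit 2170776877) (nat_lit 228) (nat_lit 26032371644) (nat_lit 76) (nat_lit 20080574861) (nat_lit 164) (nat_lit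 5) (nat_lit 167) (nat_lit 5) (nat_lit 165) (nat_lit 5) (nat_lit 459) (nat_lit 374) (nat_lit 187))) (XT.nd (nat_lit 78) (nat_lit 0) (nat_lit 0) (XT.lf (nat_lit 0) (nat_lit 5077055399) (nat_lit 152) (nat_lit 11044144856) (nat_lit 228) (nat_lit 33085710298) (nat_lit 162) (nat_lit 5) (nat_lit 164) (nat_lit 5) (nat_lit 165) (nat_lit 5) (nat_lit 460) (nat_lit 374) (nat_lit 186)) (XT.lf (nat_lit 0) (nat_lit 30815261705) (nat_lit 228) (nat_lit 12570241710) (nat_lit 76) (nat_lit 6762536162) (nat_lit 162) (nat_lit 5) (nat_lit 165) (nat_lit 5) (nat_lit 163) (nat_lit 5) (nat_lit 461) (nat_lit 374) (nat_lit 185))))) (XT.nd (nat_lit 312) (nat_lit 380) (nat_lit 0) (XT.nd (nat_lit 156) (nat_lit 152) (nat_lit 0) (XT.nd (nat_lit 78) (nat_lit 228) (nat_lit 0) (XT.lf (nat_lit 0) (nat_lit 20214070007) (nat_lit 152) (nat_lit 26035770518) (nat_lit 228) (nat_lit 4858571081) (nat_lit 160) (nat_lit 5) (nat_lit 162) (nat_lit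 5) (nat_lit 163) (nat_lit 5) (nat_lit 462) (nat_lit 374) (nat_lit 184)) (XT.lf (nat_lit 0) (nat_lit 2081354815) (nat_lit 152) (nat_lit 7916642670) (nat_lit 228) (nat_lit 42092371811) (nat_lit 157) (nat_lit 5) (nat_lit 159) (nat_lit 5) (nat_lit 160) (nat_lit 5) (nat_lit 463) (nat_lit 374) (nat_lit 183))) (XT.nd (nat_lit 78) (nat_lit 152) (nat_lit 0) (XT.lf (nat_lit 0) (nat_lit 25617030863) (nat_lit 228) (nat_lit 16574507248) (nat_lit 76) (nat_lit 10896371859) (nat_lit 157) (nat_lit 5) (nat_lit 160) (nat_lit 5) (nat_lit 158) (nat_lit 5) (nat_lit 464) (nat_lit 374) (nat_lit 182)) (XT.lf (nat_lit 0) (nat_lit 18131457454) (nat_lit 152) (nat_lit 23822027187) (nat_lit 228) (nat_lit 12154426741) (nat_lit 155) (nat_lit 5) (nat_lit 157) (nat_lit 5) (nat_lit 158) (nat_lit 5) (nat_lit 465) (nat_lit 374) (nat_lit 181)))) (XT.nd (nat_lit 156) (nat_lit 152) (nat_lit 0) (XT.nd (nat_lit 78) (nat_lit 152) (nat_lit 0)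 (XT.lf (nat_lit 0) (nat_lit 3716060882) (nat_lit 228) (nat_lit 978611344) (nat_lit 76) (nat_lit 50457839925) (nat_lit 154) (nat_lit 5) (nat_lit 157) (nat_lit 5) (nat_lit 155) (nat_lit 5) (nat_lit 466) (nat_lit 374) (nat_lit 180)) (XT.lf (nat_lit 0) (nat_lit 20306039698) (nat_lit 228) (nat_lit 20726047849) (nat_lit 76) (nat_lit 15178123117) (nat_lit 152) (nat_lit 5) (nat_lit 155) (nat_lit 5) (nat_lit 153) (nat_lit 5) (nat_lit 467) (nat_lit 374) (nat_lit 179))) (XT.nd (nat_lit 78) (nat_lit 0) (nat_lit 0) (XT.lf (nat_lit 0) (nat_lit 16020758313) (nat_lit 152) (nat_lit 21579730798) (nat_lit 228) (nat_lit 19692947883) (nat_lit 150) (nat_lit 5) (nat_lit 152) (nat_lit 5) (nat_lit 153) (nat_lit 5) (nat_lit 468) (nat_lit 374) (nat_lit 178)) (XT.lf (nat_lit 0) (nat_lit 54288077457) (nat_lit 152) (nat_lit 1331337695) (nat_lit 228) (nat_lit 2783575667) (nat_lit 150) (nat_lit 5) (nat_lit 152) (nat_lit 5) (nat_lit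 153) (nat_lit 5) (nat_lit 469) (nat_lit 374) (nat_lit 177)))))) (XT.nd (nat_lit 624) (nat_lit 684) (nat_lit 0) (XT.nd (nat_lit 312) (nat_lit 456) (nat_lit 0) (XT.nd (nat_lit 156) (nat_lit 152) (nat_lit 0) (XT.nd (nat_lit 78) (nat_lit 152) (nat_lit 0) (XT.lf (nat_lit 0) (nat_lit 14869736023) (nat_lit 152) (nat_lit 25036896897) (nat_lit 76) (nat_lit 19619312405) (nat_lit 148) (nat_lit 5) (nat_lit 150) (nat_lit 5) (nat_lit 149) (nat_lit 5) (nat_lit 470) (nat_lit 374) (nat_lit 176)) (XT.lf (nat_lit 0) (nat_lit 13877137331) (nat_lit 152) (nat_lit 19304537610) (nat_lit 228) (nat_lit 27494537473) (nat_lit 146) (nat_lit 5) (nat_lit 148) (nat_lit 5) (nat_lit 149) (nat_lit 5) (nat_lit 471) (nat_lit 374) (nat_lit 175))) (XT.nd (nat_lit 78) (nat_lit 152) (nat_lit 0) (XT.lf (nat_lit 0) (nat_lit 52313158165) (nat_lit 228) (nat_lit 7409148371) (nat_lit 76) (nat_lit 2130575393) (nat_lit 146) (nat_lit 5) (nat_lit 149)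 (nat_lit 5) (nat_lit 147) (nat_lit 4) (nat_lit 472) (nat_lit 374) (nat_lit 174)) (XT.lf (nat_lit 0) (nat_lit 9294940799) (nat_lit 152) (nat_lit 29519703350) (nat_lit 76) (nat_lit 24232147537) (nat_lit 144) (nat_lit 5) (nat_lit 146) (nat_lit 5) (nat_lit 145) (nat_lit 5) (nat_lit 473) (nat_lit 374) (nat_lit 173)))) (XT.nd (nat_lit 156) (nat_lit 304) (nat_lit 0) (XT.nd (nat_lit 78) (nat_lit 0) (nat_lit 0) (XT.lf (nat_lit 0) (nat_lit 11695583540) (nat_lit 152) (nat_lit 16991860552) (nat_lit 228) (nat_lit 35580704930) (nat_lit 142) (nat_lit 5) (nat_lit 144) (nat_lit 5) (nat_lit 145) (nat_lit 5) (nat_lit 474) (nat_lit 374) (nat_lit 172)) (XT.lf (nat_lit 0) (nat_lit 49012060117) (nat_lit 228) (nat_lit 10826906956) (nat_lit 76) (nat_lit 5676669873) (nat_lit 142) (nat_lit 5) (nat_lit 145) (nat_lit 5) (nat_lit 143) (nat_lit 4) (nat_lit 475) (nat_lit 374) (nat_lit 171))) (XT.nd (nat_lit 78) (nat_lit 152) (nat_lit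 0) (XT.lf (nat_lit 0) (nat_lit 3567809073) (nat_lit 152) (nat_lit 34187775759) (nat_lit 76) (nat_lit 29029557544) (nat_lit 140) (nat_lit 5) (nat_lit 142) (nat_lit 5) (nat_lit 141) (nat_lit 5) (nat_lit 476) (nat_lit 374) (nat_lit 170)) (XT.lf (nat_lit 0) (nat_lit 9470892998) (nat_lit 152) (nat_lit 14636859885) (nat_lit 228) (nat_lit 43974134378) (nat_lit 138) (nat_lit 5) (nat_lit 140) (nat_lit 5) (nat_lit 141) (nat_lit 5) (nat_lit 477) (nat_lit 374) (nat_lit 169))))) (XT.nd (nat_lit 312) (nat_lit 380) (nat_lit 0) (XT.nd (nat_lit 156) (nat_lit 228) (nat_lit 0) (XT.nd (nat_lit 78) (nat_lit 76) (nat_lit 0) (XT.lf (nat_lit 0) (nat_lit 45697420235) (nat_lit 228) (nat_lit 14364957099) (nat_lit 76) (nat_lit 9342151400) (nat_lit 138) (nat_lit 5) (nat_lit 141) (nat_lit 5) (nat_lit 139) (nat_lit 4) (nat_lit 478) (nat_lit 374) (nat_lit 168)) (XT.lf (nat_lit 0) (nat_lit 31675529654) (nat_lit 76) (nat_lit 36705426485)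 (nat_lit 152) (nat_lit 2372507957) (nat_lit 137) (nat_lit 5) (nat_lit 138) (nat_lit 5) (nat_lit 139) (nat_lit 4) (nat_lit 479) (nat_lit 374) (nat_lit 167))) (XT.nd (nat_lit 78) (nat_lit 0) (nat_lit 0) (XT.lf (nat_lit 0) (nat_lit 7197651027) (nat_lit 152) (nat_lit 12234432454) (nat_lit 228) (nat_lit 52698757377) (nat_lit 134) (nat_lit 5) (nat_lit 136) (nat_lit 5) (nat_lit 137) (nat_lit 5) (nat_lit 480) (nat_lit 374) (nat_lit 166)) (XT.lf (nat_lit 0) (nat_lit 42363114027) (nat_lit 228) (nat_lit 18033344521) (nat_lit 76) (nat_lit 13136776075) (nat_lit 134) (nat_lit 5) (nat_lit 137) (nat_lit 5) (nat_lit 135) (nat_lit 4) (nat_lit 481) (nat_lit 374) (nat_lit 165)))) (XT.nd (nat_lit 156) (nat_lit 76) (nat_lit 0) (XT.nd (nat_lit 78) (nat_lit 228) (nat_lit 0) (XT.lf (nat_lit 0) (nat_lit 30746386490) (nat_lit 76) (nat_lit 35649255316) (nat_lit 152) (nat_lit 8569651407) (nat_lit 133) (nat_lit 5) (nat_lit 134)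 (nat_lit 5) (nat_lit 135) (nat_lit 4) (nat_lit 482) (nat_lit 374) (nat_lit 164)) (XT.lf (nat_lit 0) (nat_lit 4870213842) (nat_lit 152) (nat_lit 9779199541) (nat_lit 228) (nat_lit 61779830354) (nat_lit 130) (nat_lit 5) (nat_lit 132) (nat_lit 5) (nat_lit 133) (nat_lit 5) (nat_lit 483) (nat_lit 374) (nat_lit 163))) (XT.nd (nat_lit 78) (nat_lit 76) (nat_lit 0) (XT.lf (nat_lit 0) (nat_lit 39002780406) (nat_lit 228) (nat_lit 21842629524) (nat_lit 76) (nat_lit 17070858252) (nat_lit 130) (nat_lit 5) (nat_lit 133) (nat_lit 5) (nat_lit 131) (nat_lit 4) (nat_lit 484) (nat_lit 374) (nat_lit 162)) (XT.lf (nat_lit 0) (nat_lit 29845036708) (nat_lit 76) (nat_lit 34622405786) (nat_lit 152) (nat_lit 14969040045) (nat_lit 129) (nat_lit 5) (nat_lit 130) (nat_lit 5) (nat_lit 131) (nat_lit 4) (nat_lit 485) (nat_lit 374) (nat_lit 161))))))))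
noncomputable def xc176 : XT := (XT.nd (nat_lit 46566) (nat_lit 0) (nat_lit 7372) (XT.nd (nat_lit 45396) (nat_lit 0) (nat_lit 15048) (XT.nd (nat_lit 44772) (nat_lit 0) (nat_lit 19152) (XT.nd (nat_lit 44460) (nat_lit 0) (nat_lit 20216) (XT.nd (nat_lit 78) (nat_lit 76) (nat_lit 0) (XT.lf (nat_lit 0) (nat_lit 2482689497) (nat_lit 152) (nat_lit 7265493337) (nat_lit 228) (nat_lit 71244016981) (nat_lit 126) (nat_lit 5) (nat_lit 128) (nat_lit 5) (nat_lit 129) (nat_lit 5) (nat_lit 486) (nat_lit 374) (nat_lit 160)) (XT.nd (nat_lit 78) (nat_lit 76) (nat_lit 0) (XT.lf (nat_lit 0) (nat_lit 35609805310) (nat_lit 228) (nat_lit 25803923168) (nat_lit 76) (nat_lit 21155301508) (nat_lit 126) (nat_lit 5) (nat_lit 129) (nat_lit 5) (nat_lit 127) (nat_lit 4) (nat_lit 487) (nat_lit 374) (nat_lit 159)) (XT.lf (nat_lit 0) (nat_lit 28970589279) (nat_lit 76) (nat_lit 33624184516) (nat_lit 152) (nat_lit 21587966348) (nat_lit 125)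 (nat_lit 5) (nat_lit 126) (nat_lit 5) (nat_lit 127) (nat_lit 4) (nat_lit 488) (nat_lit 374) (nat_lit 158)))) (XT.nd (nat_lit 156) (nat_lit 0) (nat_lit 0) (XT.nd (nat_lit 78) (nat_lit 0) (nat_lit 0) (XT.lf (nat_lit 0) (nat_lit 1889580881) (nat_lit 0) (nat_lit 1889580881) (nat_lit 1140) (nat_lit 2099891643) (nat_lit 391) (nat_lit 5) (nat_lit 391) (nat_lit 3) (nat_lit 406) (nat_lit 3) (nat_lit 375) (nat_lit 375) (nat_lit 270)) (XT.lf (nat_lit 0) (nat_lit 8183078086) (nat_lit 1140) (nat_lit 2110918973) (nat_lit 1216) (nat_lit 1625139965) (nat_lit 391) (nat_lit 5) (nat_lit 406) (nat_lit 3) (nat_lit 407) (nat_lit 5) (nat_lit 376) (nat_lit 375) (nat_lit 269))) (XT.nd (nat_lit 78) (nat_lit 0) (nat_lit 76) (XT.lf (nat_lit 76) (nat_lit 3962716346) (nat_lit 0) (nat_lit 4920125458) (nat_lit 1216) (nat_lit 3200468341) (nat_lit 392) (nat_lit 5) (nat_lit 391) (nat_lit 5) (nat_lit 407) (nat_lit 5) (nat_lit 377) (nat_lit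 375) (nat_lit 268)) (XT.lf (nat_lit 0) (nat_lit 9612338197) (nat_lit 1140) (nat_lit 2006944044) (nat_lit 1216) (nat_lit 632864026) (nat_lit 392) (nat_lit 5) (nat_lit 407) (nat_lit 5) (nat_lit 408) (nat_lit 5) (nat_lit 378) (nat_lit 375) (nat_lit 267))))) (XT.nd (nat_lit 312) (nat_lit 0) (nat_lit 76) (XT.nd (nat_lit 156) (nat_lit 1140) (nat_lit 0) (XT.nd (nat_lit 78) (nat_lit 0) (nat_lit 0) (XT.lf (nat_lit 76) (nat_lit 4315034888) (nat_lit 0) (nat_lit 6120723262) (nat_lit 1216) (nat_lit 1988128162) (nat_lit 393) (nat_lit 5) (nat_lit 392) (nat_lit 5) (nat_lit 408) (nat_lit 5) (nat_lit 379) (nat_lit 375) (nat_lit 266)) (XT.lf (nat_lit 76) (nat_lit 10857349109) (nat_lit 0) (nat_lit 429071768) (nat_lit 1216) (nat_lit 1314281479) (nat_lit 393) (nat_lit 5) (nat_lit 392) (nat_lit 5) (nat_lit 408) (nat_lit 5) (nat_lit 380) (nat_lit 375) (nat_lit 265))) (XT.nd (nat_lit 78) (nat_lit 1216) (nat_lit 0) (XT.lf (nat_lit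 76) (nat_lit 4844674707) (nat_lit 0) (nat_lit 7399585275) (nat_lit 1216) (nat_lit 536113203) (nat_lit 394) (nat_lit 5) (nat_lit 393) (nat_lit 5) (nat_lit 409) (nat_lit 5) (nat_lit 381) (nat_lit 375) (nat_lit 264)) (XT.lf (nat_lit 0) (nat_lit 265337456) (nat_lit 1216) (nat_lit 1316774160) (nat_lit 1292) (nat_lit 11383092499) (nat_lit 377) (nat_lit 5) (nat_lit 393) (nat_lit 5) (nat_lit 394) (nat_lit 5) (nat_lit 382) (nat_lit 375) (nat_lit 263)))) (XT.nd (nat_lit 156) (nat_lit 0) (nat_lit 76) (XT.nd (nat_lit 78) (nat_lit 0) (nat_lit 0) (XT.lf (nat_lit 0) (nat_lit 1160441073) (nat_lit 1216) (nat_lit 7603419088) (nat_lit 1292) (nat_lit 4389149027) (nat_lit 378) (nat_lit 5) (nat_lit 394) (nat_lit 5) (nat_lit 395) (nat_lit 5) (nat_lit 383) (nat_lit 375) (nat_lit 262)) (XT.lf (nat_lit 0) (nat_lit 2095502124) (nat_lit 1216) (nat_lit 723992624) (nat_lit 1292) (nat_lit 10526560536) (nat_lit 378) (nat_lit 5) (nat_lit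 394) (nat_lit 5) (nat_lit 395) (nat_lit 5) (nat_lit 384) (nat_lit 375) (nat_lit 261))) (XT.nd (nat_lit 78) (nat_lit 0) (nat_lit 0) (XT.lf (nat_lit 0) (nat_lit 3137771947) (nat_lit 1216) (nat_lit 7098452070) (nat_lit 1292) (nat_lit 3306294037) (nat_lit 379) (nat_lit 5) (nat_lit 395) (nat_lit 5) (nat_lit 396) (nat_lit 5) (nat_lit 385) (nat_lit 375) (nat_lit 260)) (XT.lf (nat_lit 76) (nat_lit 59367297) (nat_lit 0) (nat_lit 4172682482) (nat_lit 1292) (nat_lit 9512202730) (nat_lit 380) (nat_lit 5) (nat_lit 379) (nat_lit 5) (nat_lit 396) (nat_lit 5) (nat_lit 386) (nat_lit 375) (nat_lit 259)))))) (XT.nd (nat_lit 546) (nat_lit 3268) (nat_lit 0) (XT.nd (nat_lit 234) (nat_lit 1064) (nat_lit 0) (XT.nd (nat_lit 78) (nat_lit 0) (nat_lit 0) (XT.lf (nat_lit 0) (nat_lit 5436711489) (nat_lit 1216) (nat_lit 6404616075) (nat_lit 1292) (nat_lit 2108384770) (nat_lit 380) (nat_lit 5) (nat_lit 396) (nat_lit 5) (nat_lit 397)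 (nat_lit 5) (nat_lit 387) (nat_lit 375) (nat_lit 258)) (XT.nd (nat_lit 78) (nat_lit 0) (nat_lit 76) (XT.lf (nat_lit 76) (nat_lit 1062286536) (nat_lit 0) (nat_lit 5652422130) (nat_lit 1292) (nat_lit 7445511417) (nat_lit 381) (nat_lit 5) (nat_lit 380) (nat_lit 5) (nat_lit 397) (nat_lit 5) (nat_lit 388) (nat_lit 375) (nat_lit 257)) (XT.lf (nat_lit 0) (nat_lit 8089311590) (nat_lit 1216) (nat_lit 5509729402) (nat_lit 1292) (nat_lit 776254098) (nat_lit 381) (nat_lit 5) (nat_lit 397) (nat_lit 5) (nat_lit 398) (nat_lit 5) (nat_lit 389) (nat_lit 375) (nat_lit 256)))) (XT.nd (nat_lit 156) (nat_lit 1140) (nat_lit 0) (XT.nd (nat_lit 78) (nat_lit 0) (nat_lit 0) (XT.lf (nat_lit 76) (nat_lit 2283522797) (nat_lit 0) (nat_lit 7285962160) (nat_lit 1292) (nat_lit 5025407419) (nat_lit 382) (nat_lit 5) (nat_lit 381) (nat_lit 5) (nat_lit 398) (nat_lit 5) (nat_lit 390) (nat_lit 375) (nat_lit 255)) (XT.lf (nat_lit 76) (nat_lit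 10412433105) (nat_lit 0) (nat_lit 723974124) (nat_lit 1292) (nat_lit 3683400042) (nat_lit 382) (nat_lit 5) (nat_lit 381) (nat_lit 5) (nat_lit 398) (nat_lit 5) (nat_lit 391) (nat_lit 375) (nat_lit 254))) (XT.nd (nat_lit 78) (nat_lit 0) (nat_lit 0) (XT.lf (nat_lit 0) (nat_lit 3737493660) (nat_lit 1216) (nat_lit 9093895542) (nat_lit 1292) (nat_lit 2217648849) (nat_lit 366) (nat_lit 5) (nat_lit 382) (nat_lit 5) (nat_lit 383) (nat_lit 5) (nat_lit 392) (nat_lit 375) (nat_lit 253)) (XT.lf (nat_lit 0) (nat_lit 12198684634) (nat_lit 1216) (nat_lit 2417522698) (nat_lit 1292) (nat_lit 667768821) (nat_lit 366) (nat_lit 5) (nat_lit 382) (nat_lit 5) (nat_lit 383) (nat_lit 5) (nat_lit 393) (nat_lit 375) (nat_lit 252))))) (XT.nd (nat_lit 312) (nat_lit 1140) (nat_lit 0) (XT.nd (nat_lit 156) (nat_lit 1216) (nat_lit 0) (XT.nd (nat_lit 78) (nat_lit 0) (nat_lit 0) (XT.lf (nat_lit 0) (nat_lit 994229042) (nat_lit 912) (nat_lit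 10093303705) (nat_lit 76) (nat_lit 4435649604) (nat_lit 354) (nat_lit 5) (nat_lit 366) (nat_lit 5) (nat_lit 355) (nat_lit 5) (nat_lit 394) (nat_lit 375) (nat_lit 251)) (XT.lf (nat_lit 0) (nat_lit 2735962045) (nat_lit 912) (nat_lit 1546987412) (nat_lit 76) (nat_lit 11485118030) (nat_lit 354) (nat_lit 5) (nat_lit 366) (nat_lit 5) (nat_lit 355) (nat_lit 5) (nat_lit 395) (nat_lit 375) (nat_lit 250))) (XT.nd (nat_lit 78) (nat_lit 608) (nat_lit 0) (XT.lf (nat_lit 0) (nat_lit 4616136897) (nat_lit 684) (nat_lit 8656452955) (nat_lit 76) (nat_lit 2745123630) (nat_lit 346) (nat_lit 5) (nat_lit 355) (nat_lit 5) (nat_lit 347) (nat_lit 5) (nat_lit 396) (nat_lit 375) (nat_lit 249)) (XT.lf (nat_lit 0) (nat_lit 245142855) (nat_lit 608) (nat_lit 6356606700) (nat_lit 684) (nat_lit 9671628323) (nat_lit 338) (nat_lit 5) (nat_lit 346) (nat_lit 5) (nat_lit 347) (nat_lit 5) (nat_lit 397) (nat_lit 375) (nat_lit 248)))) (XT.nd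 (nat_lit 156) (nat_lit 608) (nat_lit 0) (XT.nd (nat_lit 78) (nat_lit 532) (nat_lit 0) (XT.lf (nat_lit 0) (nat_lit 8731306118) (nat_lit 684) (nat_lit 6962490423) (nat_lit 76) (nat_lit 840384401) (nat_lit 338) (nat_lit 5) (nat_lit 347) (nat_lit 5) (nat_lit 339) (nat_lit 5) (nat_lit 398) (nat_lit 375) (nat_lit 247)) (XT.lf (nat_lit 0) (nat_lit 2347021685) (nat_lit 532) (nat_lit 8652279144) (nat_lit 608) (nat_lit 5801270724) (nat_lit 331) (nat_lit 5) (nat_lit 338) (nat_lit 5) (nat_lit 339) (nat_lit 5) (nat_lit 399) (nat_lit 375) (nat_lit 246))) (XT.nd (nat_lit 78) (nat_lit 608) (nat_lit 0) (XT.lf (nat_lit 0) (nat_lit 12067584910) (nat_lit 532) (nat_lit 1327325202) (nat_lit 608) (nat_lit 3678256529) (nat_lit 331) (nat_lit 5) (nat_lit 338) (nat_lit 5) (nat_lit 339) (nat_lit 5) (nat_lit 400) (nat_lit 375) (nat_lit 245)) (XT.lf (nat_lit 0) (nat_lit 4747756243) (nat_lit 608) (nat_lit 11209612729) (nat_lit 684)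 (nat_lit 1393721170) (nat_lit 323) (nat_lit 5) (nat_lit 331) (nat_lit 5) (nat_lit 332) (nat_lit 5) (nat_lit 401) (nat_lit 375) (nat_lit 244))))))) (XT.nd (nat_lit 1170) (nat_lit 3268) (nat_lit 0) (XT.nd (nat_lit 546) (nat_lit 2280) (nat_lit 0) (XT.nd (nat_lit 234) (nat_lit 1520) (nat_lit 0) (XT.nd (nat_lit 78) (nat_lit 532) (nat_lit 0) (XT.lf (nat_lit 0) (nat_lit 994494571) (nat_lit 684) (nat_lit 2773443149) (nat_lit 76) (nat_lit 13867521032) (nat_lit 322) (nat_lit 5) (nat_lit 331) (nat_lit 5) (nat_lit 323) (nat_lit 5) (nat_lit 402) (nat_lit 375) (nat_lit 243)) (XT.nd (nat_lit 78) (nat_lit 0) (nat_lit 0) (XT.lf (nat_lit 0) (nat_lit 3526453783) (nat_lit 608) (nat_lit 10491754467) (nat_lit 76) (nat_lit 3906732911) (nat_lit 315) (nat_lit 5) (nat_lit 323) (nat_lit 5) (nat_lit 316) (nat_lit 5) (nat_lit 403) (nat_lit 375) (nat_lit 242)) (XT.lf (nat_lit 0) (nat_lit 6190120544) (nat_lit 608) (nat_lit 267891571)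 (nat_lit 76) (nat_lit 11763423465) (nat_lit 315) (nat_lit 5) (nat_lit 323) (nat_lit 5) (nat_lit 316) (nat_lit 5) (nat_lit 404) (nat_lit 375) (nat_lit 241)))) (XT.nd (nat_lit 156) (nat_lit 532) (nat_lit 0) (XT.nd (nat_lit 78) (nat_lit 456) (nat_lit 0) (XT.lf (nat_lit 0) (nat_lit 9038413785) (nat_lit 608) (nat_lit 8081723062) (nat_lit 76) (nat_lit 1403546490) (nat_lit 308) (nat_lit 5) (nat_lit 316) (nat_lit 5) (nat_lit 309) (nat_lit 5) (nat_lit 405) (nat_lit 375) (nat_lit 240)) (XT.lf (nat_lit 0) (nat_lit 2620084095) (nat_lit 456) (nat_lit 9434542536) (nat_lit 532) (nat_lit 6777897770) (nat_lit 302) (nat_lit 5) (nat_lit 308) (nat_lit 5) (nat_lit 309) (nat_lit 5) (nat_lit 406) (nat_lit 375) (nat_lit 239))) (XT.nd (nat_lit 78) (nat_lit 532) (nat_lit 0) (XT.lf (nat_lit 0) (nat_lit 13797960828) (nat_lit 456) (nat_lit 1435757908) (nat_lit 532) (nat_lit 3914740176) (nat_lit 302) (nat_lit 5) (nat_lit 308) (nat_lit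 5) (nat_lit 309) (nat_lit 5) (nat_lit 407) (nat_lit 375) (nat_lit 238)) (XT.lf (nat_lit 0) (nat_lit 5875972450) (nat_lit 532) (nat_lit 12745127466) (nat_lit 608) (nat_lit 849384052) (nat_lit 295) (nat_lit 5) (nat_lit 302) (nat_lit 5) (nat_lit 303) (nat_lit 5) (nat_lit 408) (nat_lit 375) (nat_lit 237))))) (XT.nd (nat_lit 312) (nat_lit 1292) (nat_lit 0) (XT.nd (nat_lit 156) (nat_lit 456) (nat_lit 0) (XT.nd (nat_lit 78) (nat_lit 456) (nat_lit 0) (XT.lf (nat_lit 0) (nat_lit 2322787960) (nat_lit 608) (nat_lit 2299237306) (nat_lit 76) (nat_lit 15177682214) (nat_lit 294) (nat_lit 5) (nat_lit 302) (nat_lit 5) (nat_lit 295) (nat_lit 5) (nat_lit 409) (nat_lit 375) (nat_lit 236)) (XT.lf (nat_lit 0) (nat_lit 5692726161) (nat_lit 532) (nat_lit 10671506729) (nat_lit 76) (nat_lit 3770732331) (nat_lit 288) (nat_lit 5) (nat_lit 295) (nat_lit 5) (nat_lit 289) (nat_lit 5) (nat_lit 410) (nat_lit 375) (nat_lit 235))) (XT.nd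 (nat_lit 78) (nat_lit 0) (nat_lit 0) (XT.lf (nat_lit 0) (nat_lit 1111790945) (nat_lit 456) (nat_lit 8123374974) (nat_lit 532) (nat_lit 11242972673) (nat_lit 282) (nat_lit 5) (nat_lit 288) (nat_lit 5) (nat_lit 289) (nat_lit 5) (nat_lit 411) (nat_lit 375) (nat_lit 234)) (XT.lf (nat_lit 0) (nat_lit 12987846662) (nat_lit 532) (nat_lit 7376226654) (nat_lit 76) (nat_lit 464414814) (nat_lit 282) (nat_lit 5) (nat_lit 289) (nat_lit 5) (nat_lit 283) (nat_lit 5) (nat_lit 412) (nat_lit 375) (nat_lit 233)))) (XT.nd (nat_lit 156) (nat_lit 912) (nat_lit 0) (XT.nd (nat_lit 78) (nat_lit 0) (nat_lit 0) (XT.lf (nat_lit 0) (nat_lit 4980033746) (nat_lit 380) (nat_lit 11993252095) (nat_lit 456) (nat_lit 4212456972) (nat_lit 277) (nat_lit 5) (nat_lit 282) (nat_lit 5) (nat_lit 283) (nat_lit 5) (nat_lit 413) (nat_lit 375) (nat_lit 232)) (XT.lf (nat_lit 0) (nat_lit 17847975320) (nat_lit 380) (nat_lit 3296814146) (nat_lit 456)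 (nat_lit 406930633) (nat_lit 277) (nat_lit 5) (nat_lit 282) (nat_lit 5) (nat_lit 283) (nat_lit 5) (nat_lit 414) (nat_lit 375) (nat_lit 231))) (XT.nd (nat_lit 78) (nat_lit 380) (nat_lit 0) (XT.lf (nat_lit 0) (nat_lit 3581502142) (nat_lit 532) (nat_lit 12669689738) (nat_lit 76) (nat_lit 5672353202) (nat_lit 270) (nat_lit 5) (nat_lit 277) (nat_lit 5) (nat_lit 271) (nat_lit 5) (nat_lit 415) (nat_lit 375) (nat_lit 230)) (XT.lf (nat_lit 0) (nat_lit 329919999) (nat_lit 380) (nat_lit 7417354905) (nat_lit 456) (nat_lit 14557153062) (nat_lit 265) (nat_lit 5) (nat_lit 270) (nat_lit 5) (nat_lit 271) (nat_lit 5) (nat_lit 416) (nat_lit 375) (nat_lit 229)))))) (XT.nd (nat_lit 624) (nat_lit 1748) (nat_lit 0) (XT.nd (nat_lit 312) (nat_lit 684) (nat_lit 0) (XT.nd (nat_lit 156) (nat_lit 456) (nat_lit 0) (XT.nd (nat_lit 78) (nat_lit 380) (nat_lit 0) (XT.lf (nat_lit 0) (nat_lit 12175776054) (nat_lit 456) (nat_lit 8741379872)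 (nat_lit 76) (nat_lit 1775448753) (nat_lit 265) (nat_lit 5) (nat_lit 271) (nat_lit 5) (nat_lit 266) (nat_lit 5) (nat_lit 417) (nat_lit 375) (nat_lit 228)) (XT.lf (nat_lit 0) (nat_lit 4900953057) (nat_lit 380) (nat_lit 11949336948) (nat_lit 456) (nat_lit 6238741957) (nat_lit 260) (nat_lit 5) (nat_lit 265) (nat_lit 5) (nat_lit 266) (nat_lit 5) (nat_lit 418) (nat_lit 375) (nat_lit 227))) (XT.nd (nat_lit 78) (nat_lit 456) (nat_lit 0) (XT.lf (nat_lit 0) (nat_lit 19121858489) (nat_lit 380) (nat_lit 2624179602) (nat_lit 456) (nat_lit 1748884011) (nat_lit 260) (nat_lit 5) (nat_lit 265) (nat_lit 5) (nat_lit 266) (nat_lit 5) (nat_lit 419) (nat_lit 375) (nat_lit 226)) (XT.lf (nat_lit 0) (nat_lit 2976994488) (nat_lit 456) (nat_lit 13963354380) (nat_lit 76) (nat_lit 6967087612) (nat_lit 254) (nat_lit 5) (nat_lit 260) (nat_lit 5) (nat_lit 255) (nat_lit 5) (nat_lit 420) (nat_lit 375) (nat_lit 225)))) (XT.nd (nat_lit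 156) (nat_lit 304) (nat_lit 0) (XT.nd (nat_lit 78) (nat_lit 0) (nat_lit 0) (XT.lf (nat_lit 0) (nat_lit 403696076) (nat_lit 380) (nat_lit 7473221064) (nat_lit 456) (nat_lit 16452867121) (nat_lit 249) (nat_lit 5) (nat_lit 254) (nat_lit 5) (nat_lit 255) (nat_lit 5) (nat_lit 421) (nat_lit 375) (nat_lit 224)) (XT.lf (nat_lit 0) (nat_lit 13081176818) (nat_lit 456) (nat_lit 9305787434) (nat_lit 76) (nat_lit 2373118042) (nat_lit 249) (nat_lit 5) (nat_lit 255) (nat_lit 5) (nat_lit 250) (nat_lit 5) (nat_lit 422) (nat_lit 375) (nat_lit 223))) (XT.nd (nat_lit 78) (nat_lit 0) (nat_lit 0) (XT.lf (nat_lit 0) (nat_lit 5782337759) (nat_lit 304) (nat_lit 12782048800) (nat_lit 380) (nat_lit 6635218040) (nat_lit 245) (nat_lit 5) (nat_lit 249) (nat_lit 5) (nat_lit 250) (nat_lit 5) (nat_lit 423) (nat_lit 375) (nat_lit 222)) (XT.lf (nat_lit 0) (nat_lit 21504334077) (nat_lit 304) (nat_lit 2795080413) (nat_lit 380) (nat_lit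 1350278428) (nat_lit 245) (nat_lit 5) (nat_lit 249) (nat_lit 5) (nat_lit 250) (nat_lit 5) (nat_lit 424) (nat_lit 375) (nat_lit 221))))) (XT.nd (nat_lit 312) (nat_lit 684) (nat_lit 0) (XT.nd (nat_lit 156) (nat_lit 304) (nat_lit 0) (XT.nd (nat_lit 78) (nat_lit 304) (nat_lit 0) (XT.lf (nat_lit 0) (nat_lit 4193409991) (nat_lit 456) (nat_lit 14416836519) (nat_lit 76) (nat_lit 7496454767) (nat_lit 239) (nat_lit 5) (nat_lit 245) (nat_lit 5) (nat_lit 240) (nat_lit 5) (nat_lit 425) (nat_lit 375) (nat_lit 220)) (XT.lf (nat_lit 0) (nat_lit 1487059896) (nat_lit 304) (nat_lit 8467007284) (nat_lit 380) (nat_lit 16620617711) (nat_lit 235) (nat_lit 5) (nat_lit 239) (nat_lit 5) (nat_lit 240) (nat_lit 5) (nat_lit 426) (nat_lit 375) (nat_lit 219))) (XT.nd (nat_lit 78) (nat_lit 304) (nat_lit 0) (XT.lf (nat_lit 0) (nat_lit 16047228385) (nat_lit 380) (nat_lit 8918741689) (nat_lit 76) (nat_lit 2085947413) (nat_lit 235) (nat_lit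 5) (nat_lit 240) (nat_lit 5) (nat_lit 236) (nat_lit 5) (nat_lit 427) (nat_lit 375) (nat_lit 218)) (XT.lf (nat_lit 0) (nat_lit 7794221262) (nat_lit 304) (nat_lit 14681526534) (nat_lit 380) (nat_lit 5063142362) (nat_lit 231) (nat_lit 5) (nat_lit 235) (nat_lit 5) (nat_lit 236) (nat_lit 5) (nat_lit 428) (nat_lit 375) (nat_lit 217)))) (XT.nd (nat_lit 156) (nat_lit 304) (nat_lit 0) (XT.nd (nat_lit 78) (nat_lit 304) (nat_lit 0) (XT.lf (nat_lit 0) (nat_lit 1120825926) (nat_lit 380) (nat_lit 2866700808) (nat_lit 76) (nat_lit 24050096733) (nat_lit 230) (nat_lit 5) (nat_lit 235) (nat_lit 5) (nat_lit 231) (nat_lit 5) (nat_lit 429) (nat_lit 375) (nat_lit 216)) (XT.lf (nat_lit 0) (nat_lit 7593740196) (nat_lit 380) (nat_lit 13868945108) (nat_lit 76) (nat_lit 7080973836) (nat_lit 226) (nat_lit 5) (nat_lit 231) (nat_lit 5) (nat_lit 227) (nat_lit 5) (nat_lit 430) (nat_lit 375) (nat_lit 215))) (XT.nd (nat_lit 78) (nat_lit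 0) (nat_lit 0) (XT.lf (nat_lit 0) (nat_lit 3761696276) (nat_lit 304) (nat_lit 10598099862) (nat_lit 380) (nat_lit 14702111118) (nat_lit 222) (nat_lit 5) (nat_lit 226) (nat_lit 5) (nat_lit 227) (nat_lit 5) (nat_lit 431) (nat_lit 375) (nat_lit 214)) (XT.lf (nat_lit 0) (nat_lit 21470099533) (nat_lit 380) (nat_lit 7402151223) (nat_lit 76) (nat_lit 719214087) (nat_lit 222) (nat_lit 5) (nat_lit 227) (nat_lit 5) (nat_lit 223) (nat_lit 5) (nat_lit 432) (nat_lit 375) (nat_lit 213))))))))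
noncomputable def xc177 : XT := (XT.nd (nat_lit 2340) (nat_lit 2736) (nat_lit 0) (XT.nd (nat_lit 1170) (nat_lit 1824) (nat_lit 0) (XT.nd (nat_lit 546) (nat_lit 1292) (nat_lit 0) (XT.nd (nat_lit 234) (nat_lit 836) (nat_lit 0) (XT.nd (nat_lit 78) (nat_lit 380) (nat_lit 0) (XT.lf (nat_lit 0) (nat_lit 11136369914) (nat_lit 228) (nat_lit 17863629477) (nat_lit 304) (nat_lit 1130721144) (nat_lit 219) (nat_lit 5) (nat_lit 222) (nat_lit 5) (nat_lit 223) (nat_lit 5) (nat_lit 433) (nat_lit 375) (nat_lit 212)) (XT.nd (nat_lit 78) (nat_lit 304) (nat_lit 0) (XT.lf (nat_lit 0) (nat_lit 6021021075) (nat_lit 304) (nat_lit 369098508) (nat_lit 76) (nat_lit 24292189384) (nat_lit 218) (nat_lit 5) (nat_lit 222) (nat_lit 5) (nat_lit 219) (nat_lit 5) (nat_lit 434) (nat_lit 375) (nat_lit 211)) (XT.lf (nat_lit 0) (nat_lit 13597430480) (nat_lit 380) (nat_lit 12129676439) (nat_lit 76) (nat_lit 5516017035) (nat_lit 214) (nat_lit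 5) (nat_lit 219) (nat_lit 5) (nat_lit 215) (nat_lit 5) (nat_lit 435) (nat_lit 375) (nat_lit 210)))) (XT.nd (nat_lit 156) (nat_lit 608) (nat_lit 0) (XT.nd (nat_lit 78) (nat_lit 0) (nat_lit 0) (XT.lf (nat_lit 0) (nat_lit 7440597166) (nat_lit 228) (nat_lit 14093636473) (nat_lit 304) (nat_lit 10282536708) (nat_lit 211) (nat_lit 5) (nat_lit 214) (nat_lit 5) (nat_lit 215) (nat_lit 5) (nat_lit 436) (nat_lit 375) (nat_lit 209)) (XT.lf (nat_lit 0) (nat_lit 27838035731) (nat_lit 228) (nat_lit 1988212732) (nat_lit 304) (nat_lit 2577864441) (nat_lit 211) (nat_lit 5) (nat_lit 214) (nat_lit 5) (nat_lit 215) (nat_lit 5) (nat_lit 437) (nat_lit 375) (nat_lit 208))) (XT.nd (nat_lit 78) (nat_lit 228) (nat_lit 0) (XT.lf (nat_lit 0) (nat_lit 5505566440) (nat_lit 380) (nat_lit 17013409015) (nat_lit 76) (nat_lit 10480990027) (nat_lit 206) (nat_lit 5) (nat_lit 211) (nat_lit 5) (nat_lit 207) (nat_lit 5) (nat_lit 438) (nat_lit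 375) (nat_lit 207)) (XT.lf (nat_lit 0) (nat_lit 3654213178) (nat_lit 228) (nat_lit 10221620700) (nat_lit 304) (nat_lit 19734209674) (nat_lit 203) (nat_lit 5) (nat_lit 206) (nat_lit 5) (nat_lit 207) (nat_lit 5) (nat_lit 439) (nat_lit 375) (nat_lit 206))))) (XT.nd (nat_lit 312) (nat_lit 760) (nat_lit 0) (XT.nd (nat_lit 156) (nat_lit 304) (nat_lit 0) (XT.nd (nat_lit 78) (nat_lit 228) (nat_lit 0) (XT.lf (nat_lit 0) (nat_lit 22689021706) (nat_lit 304) (nat_lit 8976375872) (nat_lit 76) (nat_lit 2567272014) (nat_lit 203) (nat_lit 5) (nat_lit 207) (nat_lit 5) (nat_lit 204) (nat_lit 5) (nat_lit 440) (nat_lit 375) (nat_lit 205)) (XT.lf (nat_lit 0) (nat_lit 12772210626) (nat_lit 228) (nat_lit 19213333948) (nat_lit 304) (nat_lit 2881861656) (nat_lit 200) (nat_lit 5) (nat_lit 203) (nat_lit 5) (nat_lit 204) (nat_lit 5) (nat_lit 441) (nat_lit 375) (nat_lit 204))) (XT.nd (nat_lit 78) (nat_lit 228) (nat_lit 0) (XT.lf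 (nat_lit 0) (nat_lit 6008441277) (nat_lit 304) (nat_lit 228457587) (nat_lit 76) (nat_lit 29279948735) (nat_lit 199) (nat_lit 5) (nat_lit 203) (nat_lit 5) (nat_lit 200) (nat_lit 5) (nat_lit 442) (nat_lit 375) (nat_lit 203)) (XT.lf (nat_lit 0) (nat_lit 15391808424) (nat_lit 304) (nat_lit 13548790504) (nat_lit 76) (nat_lit 7235788952) (nat_lit 196) (nat_lit 5) (nat_lit 200) (nat_lit 5) (nat_lit 197) (nat_lit 5) (nat_lit 443) (nat_lit 375) (nat_lit 202)))) (XT.nd (nat_lit 156) (nat_lit 532) (nat_lit 0) (XT.nd (nat_lit 78) (nat_lit 0) (nat_lit 0) (XT.lf (nat_lit 0) (nat_lit 9432569902) (nat_lit 228) (nat_lit 15774020333) (nat_lit 304) (nat_lit 11644626725) (nat_lit 193) (nat_lit 5) (nat_lit 196) (nat_lit 5) (nat_lit 197) (nat_lit 5) (nat_lit 444) (nat_lit 375) (nat_lit 201)) (XT.lf (nat_lit 0) (nat_lit 33373096186) (nat_lit 228) (nat_lit 2074760197) (nat_lit 304) (nat_lit 2094473302) (nat_lit 193) (nat_lit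 5) (nat_lit 196) (nat_lit 5) (nat_lit 197) (nat_lit 5) (nat_lit 445) (nat_lit 375) (nat_lit 200))) (XT.nd (nat_lit 78) (nat_lit 228) (nat_lit 0) (XT.lf (nat_lit 0) (nat_lit 7897826878) (nat_lit 304) (nat_lit 18277256589) (nat_lit 76) (nat_lit 12067658045) (nat_lit 189) (nat_lit 5) (nat_lit 193) (nat_lit 5) (nat_lit 190) (nat_lit 5) (nat_lit 446) (nat_lit 375) (nat_lit 199)) (XT.lf (nat_lit 0) (nat_lit 6014574440) (nat_lit 228) (nat_lit 12249449446) (nat_lit 304) (nat_lit 20696032946) (nat_lit 186) (nat_lit 5) (nat_lit 189) (nat_lit 5) (nat_lit 190) (nat_lit 5) (nat_lit 447) (nat_lit 375) (nat_lit 198)))))) (XT.nd (nat_lit 546) (nat_lit 912) (nat_lit 0) (XT.nd (nat_lit 234) (nat_lit 456) (nat_lit 0) (XT.nd (nat_lit 78) (nat_lit 456) (nat_lit 0) (XT.lf (nat_lit 0) (nat_lit 29143104944) (nat_lit 304) (nat_lit 8313415959) (nat_lit 76) (nat_lit 2236313766) (nat_lit 186) (nat_lit 5) (nat_lit 190) (nat_lit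 5) (nat_lit 187) (nat_lit 5) (nat_lit 448) (nat_lit 375) (nat_lit 197)) (XT.nd (nat_lit 78) (nat_lit 228) (nat_lit 0) (XT.lf (nat_lit 0) (nat_lit 188455995) (nat_lit 228) (nat_lit 23175417659) (nat_lit 76) (nat_lit 17075183922) (nat_lit 183) (nat_lit 5) (nat_lit 186) (nat_lit 5) (nat_lit 184) (nat_lit 5) (nat_lit 449) (nat_lit 375) (nat_lit 196)) (XT.lf (nat_lit 0) (nat_lit 2509241742) (nat_lit 228) (nat_lit 8631933286) (nat_lit 304) (nat_lit 30060225753) (nat_lit 180) (nat_lit 5) (nat_lit 183) (nat_lit 5) (nat_lit 184) (nat_lit 5) (nat_lit 450) (nat_lit 375) (nat_lit 195)))) (XT.nd (nat_lit 156) (nat_lit 304) (nat_lit 0) (XT.nd (nat_lit 78) (nat_lit 152) (nat_lit 0) (XT.lf (nat_lit 0) (nat_lit 22717256399) (nat_lit 304) (nat_lit 12613021911) (nat_lit 76) (nat_lit 6647492549) (nat_lit 180) (nat_lit 5) (nat_lit 184) (nat_lit 5) (nat_lit 181) (nat_lit 5) (nat_lit 451) (nat_lit 375) (nat_lit 194)) (XT.lf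 (nat_lit 0) (nat_lit 14437232272) (nat_lit 152) (nat_lit 20423313710) (nat_lit 228) (nat_lit 7910288284) (nat_lit 178) (nat_lit 5) (nat_lit 180) (nat_lit 5) (nat_lit 181) (nat_lit 5) (nat_lit 452) (nat_lit 375) (nat_lit 193))) (XT.nd (nat_lit 78) (nat_lit 228) (nat_lit 0) (XT.lf (nat_lit 0) (nat_lit 3830996042) (nat_lit 228) (nat_lit 1071447717) (nat_lit 76) (nat_lit 38680425975) (nat_lit 177) (nat_lit 5) (nat_lit 180) (nat_lit 5) (nat_lit 178) (nat_lit 5) (nat_lit 453) (nat_lit 375) (nat_lit 192)) (XT.lf (nat_lit 0) (nat_lit 16135204854) (nat_lit 304) (nat_lit 17060265744) (nat_lit 76) (nat_lit 11210355829) (nat_lit 174) (nat_lit 5) (nat_lit 178) (nat_lit 5) (nat_lit 175) (nat_lit 5) (nat_lit 454) (nat_lit 375) (nat_lit 191))))) (XT.nd (nat_lit 312) (nat_lit 380) (nat_lit 0) (XT.nd (nat_lit 156) (nat_lit 380) (nat_lit 0) (XT.nd (nat_lit 78) (nat_lit 0) (nat_lit 0) (XT.lf (nat_lit 0) (nat_lit 11553367440)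 (nat_lit 152) (nat_lit 17421537608) (nat_lit 228) (nat_lit 16273575821) (nat_lit 172) (nat_lit 5) (nat_lit 174) (nat_lit 5) (nat_lit 175) (nat_lit 5) (nat_lit 455) (nat_lit 375) (nat_lit 190)) (XT.lf (nat_lit 0) (nat_lit 41367870275) (nat_lit 152) (nat_lit 1000093951) (nat_lit 228) (nat_lit 3743405677) (nat_lit 172) (nat_lit 5) (nat_lit 174) (nat_lit 5) (nat_lit 175) (nat_lit 5) (nat_lit 456) (nat_lit 375) (nat_lit 189))) (XT.nd (nat_lit 78) (nat_lit 152) (nat_lit 0) (XT.lf (nat_lit 0) (nat_lit 9381004241) (nat_lit 228) (nat_lit 21667880231) (nat_lit 76) (nat_lit 15936704881) (nat_lit 169) (nat_lit 5) (nat_lit 172) (nat_lit 5) (nat_lit 170) (nat_lit 5) (nat_lit 457) (nat_lit 375) (nat_lit 188)) (XT.lf (nat_lit 0) (nat_lit 8606755367) (nat_lit 152) (nat_lit 14354154715) (nat_lit 228) (nat_lit 24919903330) (nat_lit 167) (nat_lit 5) (nat_lit 169) (nat_lit 5) (nat_lit 170) (nat_lit 5) (nat_lit 458) (nat_lit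 375) (nat_lit 187)))) (XT.nd (nat_lit 156) (nat_lit 152) (nat_lit 0) (XT.nd (nat_lit 78) (nat_lit 228) (nat_lit 0) (XT.lf (nat_lit 0) (nat_lit 37192507479) (nat_lit 228) (nat_lit 8599174962) (nat_lit 76) (nat_lit 3003882920) (nat_lit 167) (nat_lit 5) (nat_lit 170) (nat_lit 5) (nat_lit 168) (nat_lit 5) (nat_lit 459) (nat_lit 375) (nat_lit 186)) (XT.lf (nat_lit 0) (nat_lit 2437878455) (nat_lit 228) (nat_lit 26449218291) (nat_lit 76) (nat_lit 20839078991) (nat_lit 164) (nat_lit 5) (nat_lit 167) (nat_lit 5) (nat_lit 165) (nat_lit 5) (nat_lit 460) (nat_lit 375) (nat_lit 185))) (XT.nd (nat_lit 78) (nat_lit 0) (nat_lit 0) (XT.lf (nat_lit 0) (nat_lit 5589921716) (nat_lit 152) (nat_lit 11214475828) (nat_lit 228) (nat_lit 33872733488) (nat_lit 162) (nat_lit 5) (nat_lit 164) (nat_lit 5) (nat_lit 165) (nat_lit 5) (nat_lit 461) (nat_lit 375) (nat_lit 184)) (XT.lf (nat_lit 0) (nat_lit 31934970864) (nat_lit 228) (nat_lit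 12592985926) (nat_lit 76) (nat_lit 7118666435) (nat_lit 162) (nat_lit 5) (nat_lit 165) (nat_lit 5) (nat_lit 163) (nat_lit 5) (nat_lit 462) (nat_lit 375) (nat_lit 183))))))) (XT.nd (nat_lit 1170) (nat_lit 1064) (nat_lit 0) (XT.nd (nat_lit 546) (nat_lit 760) (nat_lit 0) (XT.nd (nat_lit 234) (nat_lit 532) (nat_lit 0) (XT.nd (nat_lit 78) (nat_lit 228) (nat_lit 0) (XT.lf (nat_lit 0) (nat_lit 21171380995) (nat_lit 152) (nat_lit 26658892081) (nat_lit 228) (nat_lit 4805602758) (nat_lit 160) (nat_lit 5) (nat_lit 162) (nat_lit 5) (nat_lit 163) (nat_lit 5) (nat_lit 463) (nat_lit 375) (nat_lit 182)) (XT.nd (nat_lit 78) (nat_lit 0) (nat_lit 0) (XT.lf (nat_lit 0) (nat_lit 2495084091) (nat_lit 152) (nat_lit 7995402552) (nat_lit 228) (nat_lit 43156817254) (nat_lit 157) (nat_lit 5) (nat_lit 159) (nat_lit 5) (nat_lit 160) (nat_lit 5) (nat_lit 464) (nat_lit 375) (nat_lit 181)) (XT.lf (nat_lit 0) (nat_lit 26573964249)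 (nat_lit 228) (nat_lit 16726558767) (nat_lit 76) (nat_lit 11374371578) (nat_lit 157) (nat_lit 5) (nat_lit 160) (nat_lit 5) (nat_lit 158) (nat_lit 5) (nat_lit 465) (nat_lit 375) (nat_lit 180)))) (XT.nd (nat_lit 156) (nat_lit 304) (nat_lit 0) (XT.nd (nat_lit 78) (nat_lit 76) (nat_lit 0) (XT.lf (nat_lit 0) (nat_lit 19017200722) (nat_lit 152) (nat_lit 24381108473) (nat_lit 228) (nat_lit 12327252928) (nat_lit 155) (nat_lit 5) (nat_lit 157) (nat_lit 5) (nat_lit 158) (nat_lit 5) (nat_lit 466) (nat_lit 375) (nat_lit 179)) (XT.lf (nat_lit 0) (nat_lit 4010128900) (nat_lit 228) (nat_lit 672491644) (nat_lit 76) (nat_lit 52118989387) (nat_lit 154) (nat_lit 5) (nat_lit 157) (nat_lit 5) (nat_lit 155) (nat_lit 5) (nat_lit 467) (nat_lit 375) (nat_lit 178))) (XT.nd (nat_lit 78) (nat_lit 152) (nat_lit 0) (XT.lf (nat_lit 0) (nat_lit 21097140739) (nat_lit 228) (nat_lit 21011684903) (nat_lit 76) (nat_lit 15782233746) (nat_lit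 152) (nat_lit 5) (nat_lit 155) (nat_lit 5) (nat_lit 153) (nat_lit 5) (nat_lit 468) (nat_lit 375) (nat_lit 177)) (XT.lf (nat_lit 0) (nat_lit 16834229910) (nat_lit 152) (nat_lit 22074094634) (nat_lit 228) (nat_lit 20098520936) (nat_lit 150) (nat_lit 5) (nat_lit 152) (nat_lit 5) (nat_lit 153) (nat_lit 5) (nat_lit 469) (nat_lit 375) (nat_lit 176))))) (XT.nd (nat_lit 312) (nat_lit 456) (nat_lit 0) (XT.nd (nat_lit 156) (nat_lit 152) (nat_lit 0) (XT.nd (nat_lit 78) (nat_lit 152) (nat_lit 0) (XT.lf (nat_lit 0) (nat_lit 56239874002) (nat_lit 152) (nat_lit 1222706867) (nat_lit 228) (nat_lit 2687262177) (nat_lit 150) (nat_lit 5) (nat_lit 152) (nat_lit 5) (nat_lit 153) (nat_lit 5) (nat_lit 470) (nat_lit 375) (nat_lit 175)) (XT.lf (nat_lit 0) (nat_lit 15491547879) (nat_lit 152) (nat_lit 25460748597) (nat_lit 76) (nat_lit 20354155617) (nat_lit 148) (nat_lit 5) (nat_lit 150) (nat_lit 5) (nat_lit 149) (nat_lit 5) (nat_lit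 471) (nat_lit 375) (nat_lit 174))) (XT.nd (nat_lit 78) (nat_lit 0) (nat_lit 0) (XT.lf (nat_lit 0) (nat_lit 14617498274) (nat_lit 152) (nat_lit 19733343574) (nat_lit 228) (nat_lit 28140445438) (nat_lit 146) (nat_lit 5) (nat_lit 148) (nat_lit 5) (nat_lit 149) (nat_lit 5) (nat_lit 472) (nat_lit 375) (nat_lit 173)) (XT.lf (nat_lit 0) (nat_lit 54052612837) (nat_lit 228) (nat_lit 7313157524) (nat_lit 76) (nat_lit 2337596228) (nat_lit 146) (nat_lit 5) (nat_lit 149) (nat_lit 5) (nat_lit 147) (nat_lit 4) (nat_lit 473) (nat_lit 375) (nat_lit 172)))) (XT.nd (nat_lit 156) (nat_lit 152) (nat_lit 0) (XT.nd (nat_lit 78) (nat_lit 152) (nat_lit 0) (XT.lf (nat_lit 0) (nat_lit 9743589829) (nat_lit 152) (nat_lit 30086770031) (nat_lit 76) (nat_lit 25102741552) (nat_lit 144) (nat_lit 5) (nat_lit 146) (nat_lit 5) (nat_lit 145) (nat_lit 5) (nat_lit 474) (nat_lit 375) (nat_lit 171)) (XT.lf (nat_lit 0) (nat_lit 12361852677)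 (nat_lit 152) (nat_lit 17354101722) (nat_lit 228) (nat_lit 36475202483) (nat_lit 142) (nat_lit 5) (nat_lit 144) (nat_lit 5) (nat_lit 145) (nat_lit 5) (nat_lit 475) (nat_lit 375) (nat_lit 170))) (XT.nd (nat_lit 78) (nat_lit 152) (nat_lit 0) (XT.lf (nat_lit 0) (nat_lit 50646795694) (nat_lit 228) (nat_lit 10841985777) (nat_lit 76) (nat_lit 5987393371) (nat_lit 142) (nat_lit 5) (nat_lit 145) (nat_lit 5) (nat_lit 143) (nat_lit 4) (nat_lit 476) (nat_lit 375) (nat_lit 169)) (XT.lf (nat_lit 0) (nat_lit 3838986892) (nat_lit 152) (nat_lit 34903450419) (nat_lit 76) (nat_lit 30041335031) (nat_lit 140) (nat_lit 5) (nat_lit 142) (nat_lit 5) (nat_lit 141) (nat_lit 5) (nat_lit 477) (nat_lit 375) (nat_lit 168)))))) (XT.nd (nat_lit 624) (nat_lit 304) (nat_lit 0) (XT.nd (nat_lit 312) (nat_lit 304) (nat_lit 0) (XT.nd (nat_lit 156) (nat_lit 304) (nat_lit 0) (XT.nd (nat_lit 78) (nat_lit 0) (nat_lit 0) (XT.lf (nat_lit 0)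 (nat_lit 10061939591) (nat_lit 152) (nat_lit 14931358846) (nat_lit 228) (nat_lit 45126176052) (nat_lit 138) (nat_lit 5) (nat_lit 140) (nat_lit 5) (nat_lit 141) (nat_lit 5) (nat_lit 478) (nat_lit 375) (nat_lit 167)) (XT.lf (nat_lit 0) (nat_lit 47227277810) (nat_lit 228) (nat_lit 14494547421) (nat_lit 76) (nat_lit 9760071317) (nat_lit 138) (nat_lit 5) (nat_lit 141) (nat_lit 5) (nat_lit 139) (nat_lit 4) (nat_lit 479) (nat_lit 375) (nat_lit 166))) (XT.nd (nat_lit 78) (nat_lit 228) (nat_lit 0) (XT.lf (nat_lit 0) (nat_lit 32924199441) (nat_lit 76) (nat_lit 37665359618) (nat_lit 152) (nat_lit 2281793734) (nat_lit 137) (nat_lit 5) (nat_lit 138) (nat_lit 5) (nat_lit 139) (nat_lit 4) (nat_lit 480) (nat_lit 375) (nat_lit 165)) (XT.lf (nat_lit 0) (nat_lit 7712187003) (nat_lit 152) (nat_lit 12459836570) (nat_lit 228) (nat_lit 54118033183) (nat_lit 134) (nat_lit 5) (nat_lit 136) (nat_lit 5) (nat_lit 137) (nat_lit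 5) (nat_lit 481) (nat_lit 375) (nat_lit 164)))) (XT.nd (nat_lit 156) (nat_lit 228) (nat_lit 0) (XT.nd (nat_lit 78) (nat_lit 76) (nat_lit 0) (XT.lf (nat_lit 0) (nat_lit 43787734643) (nat_lit 228) (nat_lit 18281185295) (nat_lit 76) (nat_lit 13665699909) (nat_lit 134) (nat_lit 5) (nat_lit 137) (nat_lit 5) (nat_lit 135) (nat_lit 4) (nat_lit 482) (nat_lit 375) (nat_lit 163)) (XT.lf (nat_lit 0) (nat_lit 31959063534) (nat_lit 76) (nat_lit 36580487631) (nat_lit 152) (nat_lit 8670139641) (nat_lit 133) (nat_lit 5) (nat_lit 134) (nat_lit 5) (nat_lit 135) (nat_lit 4) (nat_lit 483) (nat_lit 375) (nat_lit 162))) (XT.nd (nat_lit 78) (nat_lit 0) (nat_lit 0) (XT.lf (nat_lit 0) (nat_lit 5306785667) (nat_lit 152) (nat_lit 9933975504) (nat_lit 228) (nat_lit 63476803917) (nat_lit 130) (nat_lit 5) (nat_lit 132) (nat_lit 5) (nat_lit 133) (nat_lit 5) (nat_lit 484) (nat_lit 375) (nat_lit 161)) (XT.lf (nat_lit 0) (nat_lit 40321599444)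 (nat_lit 228) (nat_lit 22212773397) (nat_lit 76) (nat_lit 17714921317) (nat_lit 130) (nat_lit 5) (nat_lit 133) (nat_lit 5) (nat_lit 131) (nat_lit 4) (nat_lit 485) (nat_lit 375) (nat_lit 160))))) (XT.nd (nat_lit 44616) (nat_lit 0) (nat_lit 20140) (XT.nd (nat_lit 156) (nat_lit 0) (nat_lit 0) (XT.nd (nat_lit 78) (nat_lit 228) (nat_lit 0) (XT.lf (nat_lit 0) (nat_lit 31022727380) (nat_lit 76) (nat_lit 35525855929) (nat_lit 152) (nat_lit 15266580179) (nat_lit 129) (nat_lit 5) (nat_lit 130) (nat_lit 5) (nat_lit 131) (nat_lit 4) (nat_lit 486) (nat_lit 375) (nat_lit 159)) (XT.lf (nat_lit 0) (nat_lit 2839669645) (nat_lit 152) (nat_lit 7347920979) (nat_lit 228) (nat_lit 73229966315) (nat_lit 126) (nat_lit 5) (nat_lit 128) (nat_lit 5) (nat_lit 129) (nat_lit 5) (nat_lit 487) (nat_lit 375) (nat_lit 158))) (XT.nd (nat_lit 44382) (nat_lit 0) (nat_lit 20140) (XT.lf (nat_lit 0) (nat_lit 36822046238) (nat_lit 228) (nat_lit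 26300754002) (nat_lit 76) (nat_lit 21918982243) (nat_lit 126) (nat_lit 5) (nat_lit 129) (nat_lit 5) (nat_lit 127) (nat_lit 4) (nat_lit 488) (nat_lit 375) (nat_lit 157)) (XT.lf (nat_lit 0) (nat_lit 2191610519) (nat_lit 0) (nat_lit 2191610519) (nat_lit 1140) (nat_lit 1657483437) (nat_lit 391) (nat_lit 5) (nat_lit 391) (nat_lit 3) (nat_lit 406) (nat_lit 3) (nat_lit 376) (nat_lit 376) (nat_lit 268)))) (XT.nd (nat_lit 156) (nat_lit 0) (nat_lit 76) (XT.nd (nat_lit 78) (nat_lit 0) (nat_lit 0) (XT.lf (nat_lit 0) (nat_lit 9376776339) (nat_lit 1140) (nat_lit 1664690962) (nat_lit 1216) (nat_lit 1206797656) (nat_lit 391) (nat_lit 5) (nat_lit 406) (nat_lit 3) (nat_lit 407) (nat_lit 5) (nat_lit 377) (nat_lit 376) (nat_lit 267)) (XT.lf (nat_lit 76) (nat_lit 4586157773) (nat_lit 0) (nat_lit 5488607686) (nat_lit 1216) (nat_lit 2343280838) (nat_lit 392) (nat_lit 5) (nat_lit 391) (nat_lit 5) (nat_lit 407) (nat_lit 5)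 (nat_lit 378) (nat_lit 376) (nat_lit 266))) (XT.nd (nat_lit 78) (nat_lit 0) (nat_lit 0) (XT.lf (nat_lit 0) (nat_lit 10795264324) (nat_lit 1140) (nat_lit 1546405928) (nat_lit 1216) (nat_lit 251203724) (nat_lit 392) (nat_lit 5) (nat_lit 407) (nat_lit 5) (nat_lit 408) (nat_lit 5) (nat_lit 379) (nat_lit 376) (nat_lit 265)) (XT.lf (nat_lit 76) (nat_lit 4960127015) (nat_lit 0) (nat_lit 6662161490) (nat_lit 1216) (nat_lit 1148110669) (nat_lit 393) (nat_lit 5) (nat_lit 392) (nat_lit 5) (nat_lit 408) (nat_lit 5) (nat_lit 380) (nat_lit 376) (nat_lit 264))))))))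
noncomputable def xc178 : XT := (XT.nd (nat_lit 2340) (nat_lit 6916) (nat_lit 0) (XT.nd (nat_lit 1170) (nat_lit 4560) (nat_lit 0) (XT.nd (nat_lit 546) (nat_lit 1748) (nat_lit 0) (XT.nd (nat_lit 234) (nat_lit 0) (nat_lit 76) (XT.nd (nat_lit 78) (nat_lit 1140) (nat_lit 0) (XT.lf (nat_lit 76) (nat_lit 11683691990) (nat_lit 0) (nat_lit 789338610) (nat_lit 1216) (nat_lit 480252313) (nat_lit 393) (nat_lit 5) (nat_lit 392) (nat_lit 5) (nat_lit 408) (nat_lit 5) (nat_lit 381) (nat_lit 376) (nat_lit 263)) (XT.nd (nat_lit 78) (nat_lit 0) (nat_lit 0) (XT.lf (nat_lit 0) (nat_lit 291862705) (nat_lit 1216) (nat_lit 7627665323) (nat_lit 1292) (nat_lit 5219417074) (nat_lit 377) (nat_lit 5) (nat_lit 393) (nat_lit 5) (nat_lit 394) (nat_lit 5) (nat_lit 382) (nat_lit 376) (nat_lit 262)) (XT.lf (nat_lit 0) (nat_lit 1082311133) (nat_lit 1216) (nat_lit 831232669) (nat_lit 1292) (nat_lit 11416346029) (nat_lit 377) (nat_lit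 5) (nat_lit 393) (nat_lit 5) (nat_lit 394) (nat_lit 5) (nat_lit 383) (nat_lit 376) (nat_lit 261)))) (XT.nd (nat_lit 156) (nat_lit 0) (nat_lit 76) (XT.nd (nat_lit 78) (nat_lit 0) (nat_lit 0) (XT.lf (nat_lit 0) (nat_lit 1983101231) (nat_lit 1216) (nat_lit 7285310317) (nat_lit 1292) (nat_lit 4255552507) (nat_lit 378) (nat_lit 5) (nat_lit 394) (nat_lit 5) (nat_lit 395) (nat_lit 5) (nat_lit 384) (nat_lit 376) (nat_lit 260)) (XT.lf (nat_lit 0) (nat_lit 2923267116) (nat_lit 1216) (nat_lit 215410128) (nat_lit 1292) (nat_lit 10584812701) (nat_lit 378) (nat_lit 5) (nat_lit 394) (nat_lit 5) (nat_lit 395) (nat_lit 5) (nat_lit 385) (nat_lit 376) (nat_lit 259))) (XT.nd (nat_lit 78) (nat_lit 0) (nat_lit 0) (XT.lf (nat_lit 0) (nat_lit 3977434571) (nat_lit 1216) (nat_lit 6761732894) (nat_lit 1292) (nat_lit 3187260246) (nat_lit 379) (nat_lit 5) (nat_lit 395) (nat_lit 5) (nat_lit 396) (nat_lit 5) (nat_lit 386) (nat_lit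 376) (nat_lit 258)) (XT.lf (nat_lit 76) (nat_lit 605432106) (nat_lit 0) (nat_lit 4482626171) (nat_lit 1292) (nat_lit 9046650398) (nat_lit 380) (nat_lit 5) (nat_lit 379) (nat_lit 5) (nat_lit 396) (nat_lit 5) (nat_lit 387) (nat_lit 376) (nat_lit 257))))) (XT.nd (nat_lit 312) (nat_lit 1976) (nat_lit 0) (XT.nd (nat_lit 156) (nat_lit 0) (nat_lit 76) (XT.nd (nat_lit 78) (nat_lit 0) (nat_lit 0) (XT.lf (nat_lit 0) (nat_lit 6305901131) (nat_lit 1216) (nat_lit 6045364988) (nat_lit 1292) (nat_lit 1995754935) (nat_lit 380) (nat_lit 5) (nat_lit 396) (nat_lit 5) (nat_lit 397) (nat_lit 5) (nat_lit 388) (nat_lit 376) (nat_lit 256)) (XT.lf (nat_lit 76) (nat_lit 1640138921) (nat_lit 0) (nat_lit 5966781954) (nat_lit 1292) (nat_lit 6957382682) (nat_lit 381) (nat_lit 5) (nat_lit 380) (nat_lit 5) (nat_lit 397) (nat_lit 5) (nat_lit 389) (nat_lit 376) (nat_lit 255))) (XT.nd (nat_lit 78) (nat_lit 0) (nat_lit 0) (XT.lf (nat_lit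 0) (nat_lit 9001291100) (nat_lit 1216) (nat_lit 5123469148) (nat_lit 1292) (nat_lit 661714690) (nat_lit 381) (nat_lit 5) (nat_lit 397) (nat_lit 5) (nat_lit 398) (nat_lit 5) (nat_lit 390) (nat_lit 376) (nat_lit 254)) (XT.lf (nat_lit 76) (nat_lit 2898173244) (nat_lit 0) (nat_lit 7613452123) (nat_lit 1292) (nat_lit 4501462105) (nat_lit 382) (nat_lit 5) (nat_lit 381) (nat_lit 5) (nat_lit 398) (nat_lit 5) (nat_lit 391) (nat_lit 376) (nat_lit 253)))) (XT.nd (nat_lit 156) (nat_lit 912) (nat_lit 0) (XT.nd (nat_lit 78) (nat_lit 1140) (nat_lit 0) (XT.lf (nat_lit 76) (nat_lit 11255043731) (nat_lit 0) (nat_lit 851432278) (nat_lit 1292) (nat_lit 3138846183) (nat_lit 382) (nat_lit 5) (nat_lit 381) (nat_lit 5) (nat_lit 398) (nat_lit 5) (nat_lit 392) (nat_lit 376) (nat_lit 252)) (XT.lf (nat_lit 0) (nat_lit 4394556403) (nat_lit 1216) (nat_lit 9443478904) (nat_lit 1292) (nat_lit 1643822753) (nat_lit 366) (nat_lit 5)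 (nat_lit 382) (nat_lit 5) (nat_lit 383) (nat_lit 5) (nat_lit 393) (nat_lit 376) (nat_lit 251))) (XT.nd (nat_lit 78) (nat_lit 912) (nat_lit 0) (XT.lf (nat_lit 0) (nat_lit 13093711127) (nat_lit 1216) (nat_lit 2564578957) (nat_lit 1292) (nat_lit 66097458) (nat_lit 366) (nat_lit 5) (nat_lit 382) (nat_lit 5) (nat_lit 383) (nat_lit 5) (nat_lit 394) (nat_lit 376) (nat_lit 250)) (XT.lf (nat_lit 0) (nat_lit 1620438306) (nat_lit 912) (nat_lit 9841714827) (nat_lit 76) (nat_lit 4508833217) (nat_lit 354) (nat_lit 5) (nat_lit 366) (nat_lit 5) (nat_lit 355) (nat_lit 5) (nat_lit 395) (nat_lit 376) (nat_lit 249)))))) (XT.nd (nat_lit 546) (nat_lit 2204) (nat_lit 0) (XT.nd (nat_lit 234) (nat_lit 1140) (nat_lit 0) (XT.nd (nat_lit 78) (nat_lit 1216) (nat_lit 0) (XT.lf (nat_lit 0) (nat_lit 3397052938) (nat_lit 912) (nat_lit 1055156269) (nat_lit 76) (nat_lit 11771529944) (nat_lit 354) (nat_lit 5) (nat_lit 366) (nat_lit 5)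 (nat_lit 355) (nat_lit 5) (nat_lit 396) (nat_lit 376) (nat_lit 248)) (XT.nd (nat_lit 78) (nat_lit 608) (nat_lit 0) (XT.lf (nat_lit 0) (nat_lit 5321562004) (nat_lit 684) (nat_lit 8365834745) (nat_lit 76) (nat_lit 2793839906) (nat_lit 346) (nat_lit 5) (nat_lit 355) (nat_lit 5) (nat_lit 347) (nat_lit 5) (nat_lit 397) (nat_lit 376) (nat_lit 247)) (XT.lf (nat_lit 0) (nat_lit 797413725) (nat_lit 608) (nat_lit 6558054544) (nat_lit 684) (nat_lit 9389440959) (nat_lit 338) (nat_lit 5) (nat_lit 346) (nat_lit 5) (nat_lit 347) (nat_lit 5) (nat_lit 398) (nat_lit 376) (nat_lit 246)))) (XT.nd (nat_lit 156) (nat_lit 608) (nat_lit 0) (XT.nd (nat_lit 78) (nat_lit 532) (nat_lit 0) (XT.lf (nat_lit 0) (nat_lit 9532626752) (nat_lit 684) (nat_lit 6626035133) (nat_lit 76) (nat_lit 855363041) (nat_lit 338) (nat_lit 5) (nat_lit 347) (nat_lit 5) (nat_lit 339) (nat_lit 5) (nat_lit 399) (nat_lit 376) (nat_lit 245)) (XT.lf (nat_lit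 0) (nat_lit 2957415966) (nat_lit 532) (nat_lit 8900725853) (nat_lit 608) (nat_lit 5430581021) (nat_lit 331) (nat_lit 5) (nat_lit 338) (nat_lit 5) (nat_lit 339) (nat_lit 5) (nat_lit 400) (nat_lit 376) (nat_lit 244))) (XT.nd (nat_lit 78) (nat_lit 608) (nat_lit 0) (XT.lf (nat_lit 0) (nat_lit 12953868409) (nat_lit 532) (nat_lit 1356347225) (nat_lit 608) (nat_lit 3259742260) (nat_lit 331) (nat_lit 5) (nat_lit 338) (nat_lit 5) (nat_lit 339) (nat_lit 5) (nat_lit 401) (nat_lit 376) (nat_lit 243)) (XT.lf (nat_lit 0) (nat_lit 5424455071) (nat_lit 608) (nat_lit 11515374560) (nat_lit 684) (nat_lit 916681029) (nat_lit 323) (nat_lit 5) (nat_lit 331) (nat_lit 5) (nat_lit 332) (nat_lit 5) (nat_lit 402) (nat_lit 376) (nat_lit 242))))) (XT.nd (nat_lit 312) (nat_lit 1064) (nat_lit 0) (XT.nd (nat_lit 156) (nat_lit 532) (nat_lit 0) (XT.nd (nat_lit 78) (nat_lit 532) (nat_lit 0) (XT.lf (nat_lit 0) (nat_lit 1518239224) (nat_lit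 684) (nat_lit 2328111679) (nat_lit 76) (nat_lit 14303354318) (nat_lit 322) (nat_lit 5) (nat_lit 331) (nat_lit 5) (nat_lit 323) (nat_lit 5) (nat_lit 403) (nat_lit 376) (nat_lit 241)) (XT.lf (nat_lit 0) (nat_lit 4117175230) (nat_lit 608) (nat_lit 10268990356) (nat_lit 76) (nat_lit 4061975976) (nat_lit 315) (nat_lit 5) (nat_lit 323) (nat_lit 5) (nat_lit 316) (nat_lit 5) (nat_lit 404) (nat_lit 376) (nat_lit 240))) (XT.nd (nat_lit 78) (nat_lit 0) (nat_lit 0) (XT.lf (nat_lit 0) (nat_lit 250827140) (nat_lit 532) (nat_lit 6598211845) (nat_lit 608) (nat_lit 11904843217) (nat_lit 308) (nat_lit 5) (nat_lit 315) (nat_lit 5) (nat_lit 316) (nat_lit 5) (nat_lit 405) (nat_lit 376) (nat_lit 239)) (XT.lf (nat_lit 0) (nat_lit 9772150135) (nat_lit 608) (nat_lit 7794094050) (nat_lit 76) (nat_lit 1499272133) (nat_lit 308) (nat_lit 5) (nat_lit 316) (nat_lit 5) (nat_lit 309) (nat_lit 5) (nat_lit 406) (nat_lit 376) (nat_lit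 238)))) (XT.nd (nat_lit 156) (nat_lit 608) (nat_lit 0) (XT.nd (nat_lit 78) (nat_lit 0) (nat_lit 0) (XT.lf (nat_lit 0) (nat_lit 3223570452) (nat_lit 456) (nat_lit 9646851101) (nat_lit 532) (nat_lit 6513453896) (nat_lit 302) (nat_lit 5) (nat_lit 308) (nat_lit 5) (nat_lit 309) (nat_lit 5) (nat_lit 407) (nat_lit 376) (nat_lit 237)) (XT.lf (nat_lit 0) (nat_lit 14721495608) (nat_lit 456) (nat_lit 1410162964) (nat_lit 532) (nat_lit 3578026258) (nat_lit 302) (nat_lit 5) (nat_lit 308) (nat_lit 5) (nat_lit 309) (nat_lit 5) (nat_lit 408) (nat_lit 376) (nat_lit 236))) (XT.nd (nat_lit 78) (nat_lit 76) (nat_lit 0) (XT.lf (nat_lit 0) (nat_lit 6569296099) (nat_lit 532) (nat_lit 13044133517) (nat_lit 608) (nat_lit 428157971) (nat_lit 295) (nat_lit 5) (nat_lit 302) (nat_lit 5) (nat_lit 303) (nat_lit 5) (nat_lit 409) (nat_lit 376) (nat_lit 235)) (XT.lf (nat_lit 0) (nat_lit 2817705316) (nat_lit 608) (nat_lit 1857766512)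 (nat_lit 76) (nat_lit 15705469865) (nat_lit 294) (nat_lit 5) (nat_lit 302) (nat_lit 5) (nat_lit 295) (nat_lit 5) (nat_lit 410) (nat_lit 376) (nat_lit 234))))))) (XT.nd (nat_lit 1170) (nat_lit 3192) (nat_lit 0) (XT.nd (nat_lit 546) (nat_lit 1520) (nat_lit 0) (XT.nd (nat_lit 234) (nat_lit 1292) (nat_lit 0) (XT.nd (nat_lit 78) (nat_lit 456) (nat_lit 0) (XT.lf (nat_lit 0) (nat_lit 6282058225) (nat_lit 532) (nat_lit 10474520581) (nat_lit 76) (nat_lit 3969878864) (nat_lit 288) (nat_lit 5) (nat_lit 295) (nat_lit 5) (nat_lit 289) (nat_lit 5) (nat_lit 411) (nat_lit 376) (nat_lit 233)) (XT.nd (nat_lit 78) (nat_lit 0) (nat_lit 0) (XT.lf (nat_lit 0) (nat_lit 1657206108) (nat_lit 456) (nat_lit 8266296530) (nat_lit 532) (nat_lit 11156641659) (nat_lit 282) (nat_lit 5) (nat_lit 288) (nat_lit 5) (nat_lit 289) (nat_lit 5) (nat_lit 412) (nat_lit 376) (nat_lit 232)) (XT.lf (nat_lit 0) (nat_lit 13777725264) (nat_lit 532)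 (nat_lit 7089327889) (nat_lit 76) (nat_lit 574282325) (nat_lit 282) (nat_lit 5) (nat_lit 289) (nat_lit 5) (nat_lit 283) (nat_lit 5) (nat_lit 413) (nat_lit 376) (nat_lit 231)))) (XT.nd (nat_lit 156) (nat_lit 912) (nat_lit 0) (XT.nd (nat_lit 78) (nat_lit 0) (nat_lit 0) (XT.lf (nat_lit 0) (nat_lit 5632638111) (nat_lit 380) (nat_lit 12243269037) (nat_lit 456) (nat_lit 3933605268) (nat_lit 277) (nat_lit 5) (nat_lit 282) (nat_lit 5) (nat_lit 283) (nat_lit 5) (nat_lit 414) (nat_lit 376) (nat_lit 230)) (XT.lf (nat_lit 0) (nat_lit 18871961524) (nat_lit 380) (nat_lit 3289135444) (nat_lit 456) (nat_lit 25715820) (nat_lit 277) (nat_lit 5) (nat_lit 282) (nat_lit 5) (nat_lit 283) (nat_lit 5) (nat_lit 415) (nat_lit 376) (nat_lit 229))) (XT.nd (nat_lit 78) (nat_lit 380) (nat_lit 0) (XT.lf (nat_lit 0) (nat_lit 4069258596) (nat_lit 532) (nat_lit 12548122145) (nat_lit 76) (nat_lit 5952461351) (nat_lit 270) (nat_lit 5)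 (nat_lit 277) (nat_lit 5) (nat_lit 271) (nat_lit 5) (nat_lit 416) (nat_lit 376) (nat_lit 228)) (XT.lf (nat_lit 0) (nat_lit 836557666) (nat_lit 380) (nat_lit 7517144814) (nat_lit 456) (nat_lit 14608638045) (nat_lit 265) (nat_lit 5) (nat_lit 270) (nat_lit 5) (nat_lit 271) (nat_lit 5) (nat_lit 417) (nat_lit 376) (nat_lit 227))))) (XT.nd (nat_lit 312) (nat_lit 684) (nat_lit 0) (XT.nd (nat_lit 156) (nat_lit 456) (nat_lit 0) (XT.nd (nat_lit 78) (nat_lit 380) (nat_lit 0) (XT.lf (nat_lit 0) (nat_lit 12905310591) (nat_lit 456) (nat_lit 8511601284) (nat_lit 76) (nat_lit 1945543108) (nat_lit 265) (nat_lit 5) (nat_lit 271) (nat_lit 5) (nat_lit 266) (nat_lit 5) (nat_lit 418) (nat_lit 376) (nat_lit 226)) (XT.lf (nat_lit 0) (nat_lit 5535177908) (nat_lit 380) (nat_lit 12178955729) (nat_lit 456) (nat_lit 6056819236) (nat_lit 260) (nat_lit 5) (nat_lit 265) (nat_lit 5) (nat_lit 266) (nat_lit 5) (nat_lit 419) (nat_lit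 376) (nat_lit 225))) (XT.nd (nat_lit 78) (nat_lit 456) (nat_lit 0) (XT.lf (nat_lit 0) (nat_lit 20168520320) (nat_lit 380) (nat_lit 2577796906) (nat_lit 456) (nat_lit 1443015600) (nat_lit 260) (nat_lit 5) (nat_lit 265) (nat_lit 5) (nat_lit 266) (nat_lit 5) (nat_lit 420) (nat_lit 376) (nat_lit 224)) (XT.lf (nat_lit 0) (nat_lit 3413228310) (nat_lit 456) (nat_lit 13897837990) (nat_lit 76) (nat_lit 7303185555) (nat_lit 254) (nat_lit 5) (nat_lit 260) (nat_lit 5) (nat_lit 255) (nat_lit 5) (nat_lit 421) (nat_lit 376) (nat_lit 223)))) (XT.nd (nat_lit 156) (nat_lit 304) (nat_lit 0) (XT.nd (nat_lit 78) (nat_lit 0) (nat_lit 0) (XT.lf (nat_lit 0) (nat_lit 895474793) (nat_lit 380) (nat_lit 7559180126) (nat_lit 456) (nat_lit 16594779961) (nat_lit 249) (nat_lit 5) (nat_lit 254) (nat_lit 5) (nat_lit 255) (nat_lit 5) (nat_lit 422) (nat_lit 376) (nat_lit 222)) (XT.lf (nat_lit 0) (nat_lit 13806387937) (nat_lit 456) (nat_lit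 9110609679) (nat_lit 76) (nat_lit 2575903871) (nat_lit 249) (nat_lit 5) (nat_lit 255) (nat_lit 5) (nat_lit 250) (nat_lit 5) (nat_lit 423) (nat_lit 376) (nat_lit 221))) (XT.nd (nat_lit 78) (nat_lit 0) (nat_lit 0) (XT.lf (nat_lit 0) (nat_lit 6425508766) (nat_lit 304) (nat_lit 13023407758) (nat_lit 380) (nat_lit 6496848263) (nat_lit 245) (nat_lit 5) (nat_lit 249) (nat_lit 5) (nat_lit 250) (nat_lit 5) (nat_lit 424) (nat_lit 376) (nat_lit 220)) (XT.lf (nat_lit 0) (nat_lit 22605484365) (nat_lit 304) (nat_lit 2740969227) (nat_lit 380) (nat_lit 1063188413) (nat_lit 245) (nat_lit 5) (nat_lit 249) (nat_lit 5) (nat_lit 250) (nat_lit 5) (nat_lit 425) (nat_lit 376) (nat_lit 219)))))) (XT.nd (nat_lit 624) (nat_lit 1444) (nat_lit 0) (XT.nd (nat_lit 312) (nat_lit 684) (nat_lit 0) (XT.nd (nat_lit 156) (nat_lit 304) (nat_lit 0) (XT.nd (nat_lit 78) (nat_lit 304) (nat_lit 0) (XT.lf (nat_lit 0) (nat_lit 4636825357) (nat_lit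 456) (nat_lit 14383336047) (nat_lit 76) (nat_lit 7860212518) (nat_lit 239) (nat_lit 5) (nat_lit 245) (nat_lit 5) (nat_lit 240) (nat_lit 5) (nat_lit 426) (nat_lit 376) (nat_lit 218)) (XT.lf (nat_lit 0) (nat_lit 1993108577) (nat_lit 304) (nat_lit 8572378432) (nat_lit 380) (nat_lit 16797054494) (nat_lit 235) (nat_lit 5) (nat_lit 239) (nat_lit 5) (nat_lit 240) (nat_lit 5) (nat_lit 427) (nat_lit 376) (nat_lit 217))) (XT.nd (nat_lit 78) (nat_lit 304) (nat_lit 0) (XT.lf (nat_lit 0) (nat_lit 16833719628) (nat_lit 380) (nat_lit 8730583541) (nat_lit 76) (nat_lit 2290019609) (nat_lit 235) (nat_lit 5) (nat_lit 240) (nat_lit 5) (nat_lit 236) (nat_lit 5) (nat_lit 428) (nat_lit 376) (nat_lit 216)) (XT.lf (nat_lit 0) (nat_lit 8479300451) (nat_lit 304) (nat_lit 14971246225) (nat_lit 380) (nat_lit 4905494393) (nat_lit 231) (nat_lit 5) (nat_lit 235) (nat_lit 5) (nat_lit 236) (nat_lit 5) (nat_lit 429) (nat_lit 376) (nat_lit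 215)))) (XT.nd (nat_lit 156) (nat_lit 304) (nat_lit 0) (XT.nd (nat_lit 78) (nat_lit 304) (nat_lit 0) (XT.lf (nat_lit 0) (nat_lit 1449112796) (nat_lit 380) (nat_lit 2508728207) (nat_lit 76) (nat_lit 24912071306) (nat_lit 230) (nat_lit 5) (nat_lit 235) (nat_lit 5) (nat_lit 231) (nat_lit 5) (nat_lit 430) (nat_lit 376) (nat_lit 214)) (XT.lf (nat_lit 0) (nat_lit 8113293319) (nat_lit 380) (nat_lit 13838118660) (nat_lit 76) (nat_lit 7439804708) (nat_lit 226) (nat_lit 5) (nat_lit 231) (nat_lit 5) (nat_lit 227) (nat_lit 5) (nat_lit 431) (nat_lit 376) (nat_lit 213))) (XT.nd (nat_lit 78) (nat_lit 0) (nat_lit 0) (XT.lf (nat_lit 0) (nat_lit 4317060644) (nat_lit 304) (nat_lit 10761026697) (nat_lit 380) (nat_lit 14847052213) (nat_lit 222) (nat_lit 5) (nat_lit 226) (nat_lit 5) (nat_lit 227) (nat_lit 5) (nat_lit 432) (nat_lit 376) (nat_lit 212)) (XT.lf (nat_lit 0) (nat_lit 22394772838) (nat_lit 380) (nat_lit 7187664022)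 (nat_lit 76) (nat_lit 888354818) (nat_lit 222) (nat_lit 5) (nat_lit 227) (nat_lit 5) (nat_lit 223) (nat_lit 5) (nat_lit 433) (nat_lit 376) (nat_lit 211))))) (XT.nd (nat_lit 312) (nat_lit 608) (nat_lit 0) (XT.nd (nat_lit 156) (nat_lit 228) (nat_lit 0) (XT.nd (nat_lit 78) (nat_lit 380) (nat_lit 0) (XT.lf (nat_lit 0) (nat_lit 11902732830) (nat_lit 228) (nat_lit 18243820174) (nat_lit 304) (nat_lit 879792540) (nat_lit 219) (nat_lit 5) (nat_lit 222) (nat_lit 5) (nat_lit 223) (nat_lit 5) (nat_lit 434) (nat_lit 376) (nat_lit 210)) (XT.lf (nat_lit 0) (nat_lit 45800197) (nat_lit 304) (nat_lit 6427448841) (nat_lit 380) (nat_lit 25121381277) (nat_lit 214) (nat_lit 5) (nat_lit 218) (nat_lit 5) (nat_lit 219) (nat_lit 5) (nat_lit 435) (nat_lit 376) (nat_lit 209))) (XT.nd (nat_lit 78) (nat_lit 228) (nat_lit 0) (XT.lf (nat_lit 0) (nat_lit 14274135284) (nat_lit 380) (nat_lit 12066113615) (nat_lit 76) (nat_lit 5832105317)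 (nat_lit 214) (nat_lit 5) (nat_lit 219) (nat_lit 5) (nat_lit 215) (nat_lit 5) (nat_lit 436) (nat_lit 376) (nat_lit 208)) (XT.lf (nat_lit 0) (nat_lit 8087077481) (nat_lit 228) (nat_lit 14358205115) (nat_lit 304) (nat_lit 10318040202) (nat_lit 211) (nat_lit 5) (nat_lit 214) (nat_lit 5) (nat_lit 215) (nat_lit 5) (nat_lit 437) (nat_lit 376) (nat_lit 207)))) (XT.nd (nat_lit 156) (nat_lit 228) (nat_lit 0) (XT.nd (nat_lit 78) (nat_lit 380) (nat_lit 0) (XT.lf (nat_lit 0) (nat_lit 29084111171) (nat_lit 228) (nat_lit 1894227608) (nat_lit 304) (nat_lit 2390178426) (nat_lit 211) (nat_lit 5) (nat_lit 214) (nat_lit 5) (nat_lit 215) (nat_lit 5) (nat_lit 438) (nat_lit 376) (nat_lit 206)) (XT.lf (nat_lit 0) (nat_lit 5928473530) (nat_lit 380) (nat_lit 17105595065) (nat_lit 76) (nat_lit 10948163650) (nat_lit 206) (nat_lit 5) (nat_lit 211) (nat_lit 5) (nat_lit 207) (nat_lit 5) (nat_lit 439) (nat_lit 376) (nat_lit 205)))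 (XT.nd (nat_lit 78) (nat_lit 0) (nat_lit 0) (XT.lf (nat_lit 0) (nat_lit 4177955635) (nat_lit 228) (nat_lit 10368367099) (nat_lit 304) (nat_lit 20064395709) (nat_lit 203) (nat_lit 5) (nat_lit 206) (nat_lit 5) (nat_lit 207) (nat_lit 5) (nat_lit 440) (nat_lit 376) (nat_lit 204)) (XT.lf (nat_lit 0) (nat_lit 23617994219) (nat_lit 304) (nat_lit 8837700741) (nat_lit 76) (nat_lit 2796505664) (nat_lit 203) (nat_lit 5) (nat_lit 207) (nat_lit 5) (nat_lit 204) (nat_lit 5) (nat_lit 441) (nat_lit 376) (nat_lit 203))))))))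
noncomputable def xc179 : XT := (XT.nd (nat_lit 2340) (nat_lit 1824) (nat_lit 0) (XT.nd (nat_lit 1170) (nat_lit 1672) (nat_lit 0) (XT.nd (nat_lit 546) (nat_lit 1064) (nat_lit 0) (XT.nd (nat_lit 234) (nat_lit 760) (nat_lit 0) (XT.nd (nat_lit 78) (nat_lit 304) (nat_lit 0) (XT.lf (nat_lit 0) (nat_lit 13559343681) (nat_lit 228) (nat_lit 19630720175) (nat_lit 304) (nat_lit 2716015973) (nat_lit 200) (nat_lit 5) (nat_lit 203) (nat_lit 5) (nat_lit 204) (nat_lit 5) (nat_lit 442) (nat_lit 376) (nat_lit 202)) (XT.nd (nat_lit 78) (nat_lit 0) (nat_lit 0) (XT.lf (nat_lit 0) (nat_lit 164886849) (nat_lit 228) (nat_lit 6265565689) (nat_lit 304) (nat_lit 30144647748) (nat_lit 196) (nat_lit 5) (nat_lit 199) (nat_lit 5) (nat_lit 200) (nat_lit 5) (nat_lit 443) (nat_lit 376) (nat_lit 201)) (XT.lf (nat_lit 0) (nat_lit 16092019824) (nat_lit 304) (nat_lit 13556557707) (nat_lit 76) (nat_lit 7605948271) (nat_lit 196) (nat_lit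 5) (nat_lit 200) (nat_lit 5) (nat_lit 197) (nat_lit 5) (nat_lit 444) (nat_lit 376) (nat_lit 200)))) (XT.nd (nat_lit 156) (nat_lit 532) (nat_lit 0) (XT.nd (nat_lit 78) (nat_lit 0) (nat_lit 0) (XT.lf (nat_lit 0) (nat_lit 10110334721) (nat_lit 228) (nat_lit 16087759956) (nat_lit 304) (nat_lit 11751599590) (nat_lit 193) (nat_lit 5) (nat_lit 196) (nat_lit 5) (nat_lit 197) (nat_lit 5) (nat_lit 445) (nat_lit 376) (nat_lit 199)) (XT.lf (nat_lit 0) (nat_lit 34757578122) (nat_lit 228) (nat_lit 1982167093) (nat_lit 304) (nat_lit 1922000766) (nat_lit 193) (nat_lit 5) (nat_lit 196) (nat_lit 5) (nat_lit 197) (nat_lit 5) (nat_lit 446) (nat_lit 376) (nat_lit 198))) (XT.nd (nat_lit 78) (nat_lit 228) (nat_lit 0) (XT.lf (nat_lit 0) (nat_lit 8363952198) (nat_lit 304) (nat_lit 18436169015) (nat_lit 76) (nat_lit 12583026829) (nat_lit 189) (nat_lit 5) (nat_lit 193) (nat_lit 5) (nat_lit 190) (nat_lit 5) (nat_lit 447) (nat_lit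 376) (nat_lit 197)) (XT.lf (nat_lit 0) (nat_lit 6580599247) (nat_lit 228) (nat_lit 12457566921) (nat_lit 304) (nat_lit 21083905723) (nat_lit 186) (nat_lit 5) (nat_lit 189) (nat_lit 5) (nat_lit 190) (nat_lit 5) (nat_lit 448) (nat_lit 376) (nat_lit 196))))) (XT.nd (nat_lit 312) (nat_lit 608) (nat_lit 0) (XT.nd (nat_lit 156) (nat_lit 228) (nat_lit 0) (XT.nd (nat_lit 78) (nat_lit 228) (nat_lit 0) (XT.lf (nat_lit 0) (nat_lit 30238517984) (nat_lit 304) (nat_lit 8183359898) (nat_lit 76) (nat_lit 2455108230) (nat_lit 186) (nat_lit 5) (nat_lit 190) (nat_lit 5) (nat_lit 187) (nat_lit 5) (nat_lit 449) (nat_lit 376) (nat_lit 195)) (XT.lf (nat_lit 0) (nat_lit 414562309) (nat_lit 228) (nat_lit 23490554390) (nat_lit 76) (nat_lit 17740499025) (nat_lit 183) (nat_lit 5) (nat_lit 186) (nat_lit 5) (nat_lit 184) (nat_lit 5) (nat_lit 450) (nat_lit 376) (nat_lit 194))) (XT.nd (nat_lit 78) (nat_lit 0) (nat_lit 0) (XT.lf (nat_lit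 0) (nat_lit 2960918069) (nat_lit 228) (nat_lit 8732142072) (nat_lit 304) (nat_lit 30737853168) (nat_lit 180) (nat_lit 5) (nat_lit 183) (nat_lit 5) (nat_lit 184) (nat_lit 5) (nat_lit 451) (nat_lit 376) (nat_lit 193)) (XT.lf (nat_lit 0) (nat_lit 23611566184) (nat_lit 304) (nat_lit 12621118805) (nat_lit 76) (nat_lit 6998035233) (nat_lit 180) (nat_lit 5) (nat_lit 184) (nat_lit 5) (nat_lit 181) (nat_lit 5) (nat_lit 452) (nat_lit 376) (nat_lit 192)))) (XT.nd (nat_lit 156) (nat_lit 380) (nat_lit 0) (XT.nd (nat_lit 78) (nat_lit 76) (nat_lit 0) (XT.lf (nat_lit 0) (nat_lit 15237012673) (nat_lit 152) (nat_lit 20879468548) (nat_lit 228) (nat_lit 7931174508) (nat_lit 178) (nat_lit 5) (nat_lit 180) (nat_lit 5) (nat_lit 181) (nat_lit 5) (nat_lit 453) (nat_lit 376) (nat_lit 191)) (XT.lf (nat_lit 0) (nat_lit 4151944606) (nat_lit 228) (nat_lit 743507058) (nat_lit 76) (nat_lit 39988723602) (nat_lit 177) (nat_lit 5) (nat_lit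 180) (nat_lit 5) (nat_lit 178) (nat_lit 5) (nat_lit 454) (nat_lit 376) (nat_lit 190))) (XT.nd (nat_lit 78) (nat_lit 152) (nat_lit 0) (XT.lf (nat_lit 0) (nat_lit 16824178323) (nat_lit 304) (nat_lit 17210888266) (nat_lit 76) (nat_lit 11696787111) (nat_lit 174) (nat_lit 5) (nat_lit 178) (nat_lit 5) (nat_lit 175) (nat_lit 5) (nat_lit 455) (nat_lit 376) (nat_lit 189)) (XT.lf (nat_lit 0) (nat_lit 12257612879) (nat_lit 152) (nat_lit 17788926075) (nat_lit 228) (nat_lit 16553324738) (nat_lit 172) (nat_lit 5) (nat_lit 174) (nat_lit 5) (nat_lit 175) (nat_lit 5) (nat_lit 456) (nat_lit 376) (nat_lit 188)))))) (XT.nd (nat_lit 546) (nat_lit 912) (nat_lit 0) (XT.nd (nat_lit 234) (nat_lit 380) (nat_lit 0) (XT.nd (nat_lit 78) (nat_lit 380) (nat_lit 0) (XT.lf (nat_lit 0) (nat_lit 42956133972) (nat_lit 152) (nat_lit 879361175) (nat_lit 228) (nat_lit 3653321093) (nat_lit 172) (nat_lit 5) (nat_lit 174) (nat_lit 5) (nat_lit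 175) (nat_lit 5) (nat_lit 457) (nat_lit 376) (nat_lit 187)) (XT.nd (nat_lit 78) (nat_lit 152) (nat_lit 0) (XT.lf (nat_lit 0) (nat_lit 9859893284) (nat_lit 228) (nat_lit 21965761210) (nat_lit 76) (nat_lit 16563578771) (nat_lit 169) (nat_lit 5) (nat_lit 172) (nat_lit 5) (nat_lit 170) (nat_lit 5) (nat_lit 458) (nat_lit 376) (nat_lit 186)) (XT.lf (nat_lit 0) (nat_lit 9213660951) (nat_lit 152) (nat_lit 14631136065) (nat_lit 228) (nat_lit 25466589009) (nat_lit 167) (nat_lit 5) (nat_lit 169) (nat_lit 5) (nat_lit 170) (nat_lit 5) (nat_lit 459) (nat_lit 376) (nat_lit 185)))) (XT.nd (nat_lit 156) (nat_lit 152) (nat_lit 0) (XT.nd (nat_lit 78) (nat_lit 228) (nat_lit 0) (XT.lf (nat_lit 0) (nat_lit 38499094882) (nat_lit 228) (nat_lit 8514356232) (nat_lit 76) (nat_lit 3240256842) (nat_lit 167) (nat_lit 5) (nat_lit 170) (nat_lit 5) (nat_lit 168) (nat_lit 5) (nat_lit 460) (nat_lit 376) (nat_lit 184)) (XT.lf (nat_lit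 0) (nat_lit 2701398700) (nat_lit 228) (nat_lit 26899472572) (nat_lit 76) (nat_lit 21611378219) (nat_lit 164) (nat_lit 5) (nat_lit 167) (nat_lit 5) (nat_lit 165) (nat_lit 5) (nat_lit 461) (nat_lit 376) (nat_lit 183))) (XT.nd (nat_lit 78) (nat_lit 0) (nat_lit 0) (XT.lf (nat_lit 0) (nat_lit 6097476710) (nat_lit 152) (nat_lit 11399158406) (nat_lit 228) (nat_lit 34695166676) (nat_lit 162) (nat_lit 5) (nat_lit 164) (nat_lit 5) (nat_lit 165) (nat_lit 5) (nat_lit 462) (nat_lit 376) (nat_lit 182)) (XT.lf (nat_lit 0) (nat_lit 33077063074) (nat_lit 228) (nat_lit 12636754356) (nat_lit 76) (nat_lit 7476683199) (nat_lit 162) (nat_lit 5) (nat_lit 165) (nat_lit 5) (nat_lit 163) (nat_lit 5) (nat_lit 463) (nat_lit 376) (nat_lit 181))))) (XT.nd (nat_lit 312) (nat_lit 380) (nat_lit 0) (XT.nd (nat_lit 156) (nat_lit 152) (nat_lit 0) (XT.nd (nat_lit 78) (nat_lit 228) (nat_lit 0) (XT.lf (nat_lit 0) (nat_lit 22137268855) (nat_lit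 152) (nat_lit 27309774357) (nat_lit 228) (nat_lit 4762453039) (nat_lit 160) (nat_lit 5) (nat_lit 162) (nat_lit 5) (nat_lit 163) (nat_lit 5) (nat_lit 464) (nat_lit 376) (nat_lit 180)) (XT.lf (nat_lit 0) (nat_lit 2901059841) (nat_lit 152) (nat_lit 8085637522) (nat_lit 228) (nat_lit 44264580768) (nat_lit 157) (nat_lit 5) (nat_lit 159) (nat_lit 5) (nat_lit 160) (nat_lit 5) (nat_lit 465) (nat_lit 376) (nat_lit 179))) (XT.nd (nat_lit 78) (nat_lit 152) (nat_lit 0) (XT.lf (nat_lit 0) (nat_lit 27548789418) (nat_lit 228) (nat_lit 16902986789) (nat_lit 76) (nat_lit 11858037039) (nat_lit 157) (nat_lit 5) (nat_lit 160) (nat_lit 5) (nat_lit 158) (nat_lit 5) (nat_lit 466) (nat_lit 376) (nat_lit 178)) (XT.lf (nat_lit 0) (nat_lit 19909895595) (nat_lit 152) (nat_lit 24965893099) (nat_lit 228) (nat_lit 12516274386) (nat_lit 155) (nat_lit 5) (nat_lit 157) (nat_lit 5) (nat_lit 158) (nat_lit 5) (nat_lit 467) (nat_lit 376)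 (nat_lit 177)))) (XT.nd (nat_lit 156) (nat_lit 152) (nat_lit 0) (XT.nd (nat_lit 78) (nat_lit 152) (nat_lit 0) (XT.lf (nat_lit 0) (nat_lit 4302537763) (nat_lit 228) (nat_lit 376446164) (nat_lit 76) (nat_lit 53821511151) (nat_lit 154) (nat_lit 5) (nat_lit 157) (nat_lit 5) (nat_lit 155) (nat_lit 5) (nat_lit 468) (nat_lit 376) (nat_lit 176)) (XT.lf (nat_lit 0) (nat_lit 21901531868) (nat_lit 228) (nat_lit 21325187131) (nat_lit 76) (nat_lit 16395927864) (nat_lit 152) (nat_lit 5) (nat_lit 155) (nat_lit 5) (nat_lit 153) (nat_lit 5) (nat_lit 469) (nat_lit 376) (nat_lit 175))) (XT.nd (nat_lit 78) (nat_lit 0) (nat_lit 0) (XT.lf (nat_lit 0) (nat_lit 17652998770) (nat_lit 152) (nat_lit 22592073824) (nat_lit 228) (nat_lit 20526893301) (nat_lit 150) (nat_lit 5) (nat_lit 152) (nat_lit 5) (nat_lit 153) (nat_lit 5) (nat_lit 470) (nat_lit 376) (nat_lit 174)) (XT.lf (nat_lit 0) (nat_lit 58231674070) (nat_lit 152) (nat_lit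 1119345695) (nat_lit 228) (nat_lit 2598381729) (nat_lit 150) (nat_lit 5) (nat_lit 152) (nat_lit 5) (nat_lit 153) (nat_lit 5) (nat_lit 471) (nat_lit 376) (nat_lit 173))))))) (XT.nd (nat_lit 1170) (nat_lit 304) (nat_lit 0) (XT.nd (nat_lit 546) (nat_lit 760) (nat_lit 0) (XT.nd (nat_lit 234) (nat_lit 456) (nat_lit 0) (XT.nd (nat_lit 78) (nat_lit 152) (nat_lit 0) (XT.lf (nat_lit 0) (nat_lit 16121927056) (nat_lit 152) (nat_lit 25916101635) (nat_lit 76) (nat_lit 21102647982) (nat_lit 148) (nat_lit 5) (nat_lit 150) (nat_lit 5) (nat_lit 149) (nat_lit 5) (nat_lit 472) (nat_lit 376) (nat_lit 172)) (XT.nd (nat_lit 78) (nat_lit 0) (nat_lit 0) (XT.lf (nat_lit 0) (nat_lit 15361468432) (nat_lit 152) (nat_lit 20183643284) (nat_lit 228) (nat_lit 28816001851) (nat_lit 146) (nat_lit 5) (nat_lit 148) (nat_lit 5) (nat_lit 149) (nat_lit 5) (nat_lit 473) (nat_lit 376) (nat_lit 171)) (XT.lf (nat_lit 0) (nat_lit 55834489014)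 (nat_lit 228) (nat_lit 7232556681) (nat_lit 76) (nat_lit 2542612958) (nat_lit 146) (nat_lit 5) (nat_lit 149) (nat_lit 5) (nat_lit 147) (nat_lit 4) (nat_lit 474) (nat_lit 376) (nat_lit 170)))) (XT.nd (nat_lit 156) (nat_lit 152) (nat_lit 0) (XT.nd (nat_lit 78) (nat_lit 152) (nat_lit 0) (XT.lf (nat_lit 0) (nat_lit 10195951069) (nat_lit 152) (nat_lit 30689133317) (nat_lit 76) (nat_lit 25991208462) (nat_lit 144) (nat_lit 5) (nat_lit 146) (nat_lit 5) (nat_lit 145) (nat_lit 5) (nat_lit 475) (nat_lit 376) (nat_lit 169)) (XT.lf (nat_lit 0) (nat_lit 13030004544) (nat_lit 152) (nat_lit 17735678072) (nat_lit 228) (nat_lit 37406461485) (nat_lit 142) (nat_lit 5) (nat_lit 144) (nat_lit 5) (nat_lit 145) (nat_lit 5) (nat_lit 476) (nat_lit 376) (nat_lit 168))) (XT.nd (nat_lit 78) (nat_lit 152) (nat_lit 0) (XT.lf (nat_lit 0) (nat_lit 52321137610) (nat_lit 228) (nat_lit 10875296638) (nat_lit 76) (nat_lit 6299377697) (nat_lit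 142) (nat_lit 5) (nat_lit 145) (nat_lit 5) (nat_lit 143) (nat_lit 4) (nat_lit 477) (nat_lit 376) (nat_lit 167)) (XT.lf (nat_lit 0) (nat_lit 4108877535) (nat_lit 152) (nat_lit 35658388210) (nat_lit 76) (nat_lit 31075378136) (nat_lit 140) (nat_lit 5) (nat_lit 142) (nat_lit 5) (nat_lit 141) (nat_lit 5) (nat_lit 478) (nat_lit 376) (nat_lit 166))))) (XT.nd (nat_lit 312) (nat_lit 304) (nat_lit 0) (XT.nd (nat_lit 156) (nat_lit 304) (nat_lit 0) (XT.nd (nat_lit 78) (nat_lit 0) (nat_lit 0) (XT.lf (nat_lit 0) (nat_lit 10653099131) (nat_lit 152) (nat_lit 15242993800) (nat_lit 228) (nat_lit 46322375928) (nat_lit 138) (nat_lit 5) (nat_lit 140) (nat_lit 5) (nat_lit 141) (nat_lit 5) (nat_lit 479) (nat_lit 376) (nat_lit 165)) (XT.lf (nat_lit 0) (nat_lit 48793907595) (nat_lit 228) (nat_lit 14645324656) (nat_lit 76) (nat_lit 10182626849) (nat_lit 138) (nat_lit 5) (nat_lit 141) (nat_lit 5) (nat_lit 139) (nat_lit 4) (nat_lit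 480) (nat_lit 376) (nat_lit 164))) (XT.nd (nat_lit 78) (nat_lit 228) (nat_lit 0) (XT.lf (nat_lit 0) (nat_lit 34193199717) (nat_lit 76) (nat_lit 38662197904) (nat_lit 152) (nat_lit 2197651201) (nat_lit 137) (nat_lit 5) (nat_lit 138) (nat_lit 5) (nat_lit 139) (nat_lit 4) (nat_lit 481) (nat_lit 376) (nat_lit 163)) (XT.lf (nat_lit 0) (nat_lit 8225017826) (nat_lit 152) (nat_lit 12700132886) (nat_lit 228) (nat_lit 55589168753) (nat_lit 134) (nat_lit 5) (nat_lit 136) (nat_lit 5) (nat_lit 137) (nat_lit 5) (nat_lit 482) (nat_lit 376) (nat_lit 162)))) (XT.nd (nat_lit 156) (nat_lit 228) (nat_lit 0) (XT.nd (nat_lit 78) (nat_lit 76) (nat_lit 0) (XT.lf (nat_lit 0) (nat_lit 45246269307) (nat_lit 228) (nat_lit 18553289849) (nat_lit 76) (nat_lit 14202752206) (nat_lit 134) (nat_lit 5) (nat_lit 137) (nat_lit 5) (nat_lit 135) (nat_lit 4) (nat_lit 483) (nat_lit 376) (nat_lit 161)) (XT.lf (nat_lit 0) (nat_lit 33191457316)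 (nat_lit 76) (nat_lit 37547592765) (nat_lit 152) (nat_lit 8782632077) (nat_lit 133) (nat_lit 5) (nat_lit 134) (nat_lit 5) (nat_lit 135) (nat_lit 4) (nat_lit 484) (nat_lit 376) (nat_lit 160))) (XT.nd (nat_lit 78) (nat_lit 0) (nat_lit 0) (XT.lf (nat_lit 0) (nat_lit 5739780743) (nat_lit 152) (nat_lit 10101350955) (nat_lit 228) (nat_lit 65233665912) (nat_lit 130) (nat_lit 5) (nat_lit 132) (nat_lit 5) (nat_lit 133) (nat_lit 5) (nat_lit 485) (nat_lit 376) (nat_lit 159)) (XT.lf (nat_lit 0) (nat_lit 41671445020) (nat_lit 228) (nat_lit 22610389503) (nat_lit 76) (nat_lit 18370732532) (nat_lit 130) (nat_lit 5) (nat_lit 133) (nat_lit 5) (nat_lit 131) (nat_lit 4) (nat_lit 486) (nat_lit 376) (nat_lit 158)))))) (XT.nd (nat_lit 45006) (nat_lit 0) (nat_lit 19076) (XT.nd (nat_lit 44694) (nat_lit 0) (nat_lit 19000) (XT.nd (nat_lit 44538) (nat_lit 0) (nat_lit 20140) (XT.nd (nat_lit 78) (nat_lit 228) (nat_lit 0) (XT.lf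 (nat_lit 0) (nat_lit 32219541326) (nat_lit 76) (nat_lit 36464171875) (nat_lit 152) (nat_lit 15581745020) (nat_lit 129) (nat_lit 5) (nat_lit 130) (nat_lit 5) (nat_lit 131) (nat_lit 4) (nat_lit 487) (nat_lit 376) (nat_lit 157)) (XT.lf (nat_lit 0) (nat_lit 3191142573) (nat_lit 152) (nat_lit 7440601838) (nat_lit 228) (nat_lit 75284183455) (nat_lit 126) (nat_lit 5) (nat_lit 128) (nat_lit 5) (nat_lit 129) (nat_lit 5) (nat_lit 488) (nat_lit 376) (nat_lit 156))) (XT.nd (nat_lit 78) (nat_lit 0) (nat_lit 0) (XT.lf (nat_lit 0) (nat_lit 2488617400) (nat_lit 0) (nat_lit 2488617400) (nat_lit 1140) (nat_lit 1230815296) (nat_lit 391) (nat_lit 5) (nat_lit 391) (nat_lit 3) (nat_lit 406) (nat_lit 3) (nat_lit 377) (nat_lit 377) (nat_lit 266)) (XT.lf (nat_lit 0) (nat_lit 10551854641) (nat_lit 1140) (nat_lit 1234326685) (nat_lit 1216) (nat_lit 802718329) (nat_lit 391) (nat_lit 5) (nat_lit 406) (nat_lit 3) (nat_lit 407) (nat_lit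 5) (nat_lit 378) (nat_lit 377) (nat_lit 265)))) (XT.nd (nat_lit 156) (nat_lit 1140) (nat_lit 0) (XT.nd (nat_lit 78) (nat_lit 0) (nat_lit 0) (XT.lf (nat_lit 76) (nat_lit 5199338639) (nat_lit 0) (nat_lit 6049984235) (nat_lit 1216) (nat_lit 1515095378) (nat_lit 392) (nat_lit 5) (nat_lit 391) (nat_lit 5) (nat_lit 407) (nat_lit 5) (nat_lit 379) (nat_lit 377) (nat_lit 264)) (XT.lf (nat_lit 76) (nat_lit 11842218673) (nat_lit 0) (nat_lit 121274149) (nat_lit 1216) (nat_lit 981836256) (nat_lit 392) (nat_lit 5) (nat_lit 391) (nat_lit 5) (nat_lit 407) (nat_lit 5) (nat_lit 380) (nat_lit 377) (nat_lit 263))) (XT.nd (nat_lit 78) (nat_lit 1216) (nat_lit 0) (XT.lf (nat_lit 76) (nat_lit 5594971998) (nat_lit 0) (nat_lit 7199302731) (nat_lit 1216) (nat_lit 334536893) (nat_lit 393) (nat_lit 5) (nat_lit 392) (nat_lit 5) (nat_lit 408) (nat_lit 5) (nat_lit 381) (nat_lit 377) (nat_lit 262)) (XT.lf (nat_lit 0) (nat_lit 322244390)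 (nat_lit 1216) (nat_lit 814973153) (nat_lit 1292) (nat_lit 12180588956) (nat_lit 376) (nat_lit 5) (nat_lit 392) (nat_lit 5) (nat_lit 393) (nat_lit 5) (nat_lit 382) (nat_lit 377) (nat_lit 261))))) (XT.nd (nat_lit 312) (nat_lit 0) (nat_lit 152) (XT.nd (nat_lit 156) (nat_lit 0) (nat_lit 76) (XT.nd (nat_lit 78) (nat_lit 0) (nat_lit 0) (XT.lf (nat_lit 0) (nat_lit 1086068638) (nat_lit 1216) (nat_lit 7346743132) (nat_lit 1292) (nat_lit 5076738184) (nat_lit 377) (nat_lit 5) (nat_lit 393) (nat_lit 5) (nat_lit 394) (nat_lit 5) (nat_lit 383) (nat_lit 377) (nat_lit 260)) (XT.lf (nat_lit 0) (nat_lit 1877353333) (nat_lit 1216) (nat_lit 361264648) (nat_lit 1292) (nat_lit 11468291359) (nat_lit 377) (nat_lit 5) (nat_lit 393) (nat_lit 5) (nat_lit 394) (nat_lit 5) (nat_lit 384) (nat_lit 377) (nat_lit 259))) (XT.nd (nat_lit 78) (nat_lit 0) (nat_lit 0) (XT.lf (nat_lit 0) (nat_lit 2785215558) (nat_lit 1216) (nat_lit 6989013049)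 (nat_lit 1292) (nat_lit 4133175732) (nat_lit 378) (nat_lit 5) (nat_lit 394) (nat_lit 5) (nat_lit 395) (nat_lit 5) (nat_lit 385) (nat_lit 377) (nat_lit 258)) (XT.lf (nat_lit 76) (nat_lit 283520835) (nat_lit 0) (nat_lit 3451161212) (nat_lit 1292) (nat_lit 10378801087) (nat_lit 379) (nat_lit 5) (nat_lit 378) (nat_lit 5) (nat_lit 395) (nat_lit 5) (nat_lit 386) (nat_lit 377) (nat_lit 257)))) (XT.nd (nat_lit 156) (nat_lit 0) (nat_lit 76) (XT.nd (nat_lit 78) (nat_lit 0) (nat_lit 0) (XT.lf (nat_lit 0) (nat_lit 4799490633) (nat_lit 1216) (nat_lit 6446465607) (nat_lit 1292) (nat_lit 3077182312) (nat_lit 379) (nat_lit 5) (nat_lit 395) (nat_lit 5) (nat_lit 396) (nat_lit 5) (nat_lit 387) (nat_lit 377) (nat_lit 256)) (XT.lf (nat_lit 76) (nat_lit 1136634742) (nat_lit 0) (nat_lit 4791262007) (nat_lit 1292) (nat_lit 8610237285) (nat_lit 380) (nat_lit 5) (nat_lit 379) (nat_lit 5) (nat_lit 396) (nat_lit 5) (nat_lit 388)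 (nat_lit 377) (nat_lit 255))) (XT.nd (nat_lit 78) (nat_lit 0) (nat_lit 0) (XT.lf (nat_lit 0) (nat_lit 7160634107) (nat_lit 1216) (nat_lit 5706988385) (nat_lit 1292) (nat_lit 1889842516) (nat_lit 380) (nat_lit 5) (nat_lit 396) (nat_lit 5) (nat_lit 397) (nat_lit 5) (nat_lit 389) (nat_lit 377) (nat_lit 254)) (XT.lf (nat_lit 76) (nat_lit 2203985175) (nat_lit 0) (nat_lit 6282261198) (nat_lit 1292) (nat_lit 6495452755) (nat_lit 381) (nat_lit 5) (nat_lit 380) (nat_lit 5) (nat_lit 397) (nat_lit 5) (nat_lit 390) (nat_lit 377) (nat_lit 253))))))))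
noncomputable def xc180 : XT := (XT.nd (nat_lit 2340) (nat_lit 5852) (nat_lit 0) (XT.nd (nat_lit 1170) (nat_lit 4180) (nat_lit 0) (XT.nd (nat_lit 546) (nat_lit 2964) (nat_lit 0) (XT.nd (nat_lit 234) (nat_lit 2052) (nat_lit 0) (XT.nd (nat_lit 78) (nat_lit 0) (nat_lit 0) (XT.lf (nat_lit 0) (nat_lit 9902209428) (nat_lit 1216) (nat_lit 4757282435) (nat_lit 1292) (nat_lit 551650936) (nat_lit 381) (nat_lit 5) (nat_lit 397) (nat_lit 5) (nat_lit 398) (nat_lit 5) (nat_lit 391) (nat_lit 377) (nat_lit 252)) (XT.nd (nat_lit 78) (nat_lit 0) (nat_lit 0) (XT.lf (nat_lit 76) (nat_lit 3499912260) (nat_lit 0) (nat_lit 7944514842) (nat_lit 1292) (nat_lit 4000529405) (nat_lit 382) (nat_lit 5) (nat_lit 381) (nat_lit 5) (nat_lit 398) (nat_lit 5) (nat_lit 392) (nat_lit 377) (nat_lit 251)) (XT.lf (nat_lit 76) (nat_lit 12092494867) (nat_lit 0) (nat_lit 976644329) (nat_lit 1292) (nat_lit 2615558595) (nat_lit 382) (nat_lit 5)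 (nat_lit 381) (nat_lit 5) (nat_lit 398) (nat_lit 5) (nat_lit 393) (nat_lit 377) (nat_lit 250)))) (XT.nd (nat_lit 156) (nat_lit 836) (nat_lit 0) (XT.nd (nat_lit 78) (nat_lit 76) (nat_lit 0) (XT.lf (nat_lit 0) (nat_lit 5040049361) (nat_lit 1216) (nat_lit 9799143056) (nat_lit 1292) (nat_lit 1089540904) (nat_lit 366) (nat_lit 5) (nat_lit 382) (nat_lit 5) (nat_lit 383) (nat_lit 5) (nat_lit 394) (nat_lit 377) (nat_lit 249)) (XT.lf (nat_lit 0) (nat_lit 507828878) (nat_lit 1292) (nat_lit 2198811590) (nat_lit 76) (nat_lit 13472260911) (nat_lit 365) (nat_lit 5) (nat_lit 382) (nat_lit 5) (nat_lit 366) (nat_lit 5) (nat_lit 395) (nat_lit 377) (nat_lit 248))) (XT.nd (nat_lit 78) (nat_lit 0) (nat_lit 0) (XT.lf (nat_lit 0) (nat_lit 2231199059) (nat_lit 912) (nat_lit 9614402422) (nat_lit 76) (nat_lit 4587650032) (nat_lit 354) (nat_lit 5) (nat_lit 366) (nat_lit 5) (nat_lit 355) (nat_lit 5) (nat_lit 396) (nat_lit 377)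 (nat_lit 247)) (XT.lf (nat_lit 0) (nat_lit 4044738899) (nat_lit 912) (nat_lit 579467413) (nat_lit 76) (nat_lit 12069871782) (nat_lit 354) (nat_lit 5) (nat_lit 366) (nat_lit 5) (nat_lit 355) (nat_lit 5) (nat_lit 397) (nat_lit 377) (nat_lit 246))))) (XT.nd (nat_lit 312) (nat_lit 1216) (nat_lit 0) (XT.nd (nat_lit 156) (nat_lit 532) (nat_lit 0) (XT.nd (nat_lit 78) (nat_lit 608) (nat_lit 0) (XT.lf (nat_lit 0) (nat_lit 6015605132) (nat_lit 684) (nat_lit 8098088138) (nat_lit 76) (nat_lit 2845948597) (nat_lit 346) (nat_lit 5) (nat_lit 355) (nat_lit 5) (nat_lit 347) (nat_lit 5) (nat_lit 398) (nat_lit 377) (nat_lit 245)) (XT.lf (nat_lit 0) (nat_lit 1334972280) (nat_lit 608) (nat_lit 6764928749) (nat_lit 684) (nat_lit 9131642414) (nat_lit 338) (nat_lit 5) (nat_lit 346) (nat_lit 5) (nat_lit 347) (nat_lit 5) (nat_lit 399) (nat_lit 377) (nat_lit 244))) (XT.nd (nat_lit 78) (nat_lit 532) (nat_lit 0) (XT.lf (nat_lit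 0) (nat_lit 10327024305) (nat_lit 684) (nat_lit 6310790357) (nat_lit 76) (nat_lit 871378450) (nat_lit 338) (nat_lit 5) (nat_lit 347) (nat_lit 5) (nat_lit 339) (nat_lit 5) (nat_lit 400) (nat_lit 377) (nat_lit 243)) (XT.lf (nat_lit 0) (nat_lit 3555124807) (nat_lit 532) (nat_lit 9157264392) (nat_lit 608) (nat_lit 5080040234) (nat_lit 331) (nat_lit 5) (nat_lit 338) (nat_lit 5) (nat_lit 339) (nat_lit 5) (nat_lit 401) (nat_lit 377) (nat_lit 242)))) (XT.nd (nat_lit 156) (nat_lit 608) (nat_lit 0) (XT.nd (nat_lit 78) (nat_lit 608) (nat_lit 0) (XT.lf (nat_lit 0) (nat_lit 13836645977) (nat_lit 532) (nat_lit 1386859742) (nat_lit 608) (nat_lit 2859031403) (nat_lit 331) (nat_lit 5) (nat_lit 338) (nat_lit 5) (nat_lit 339) (nat_lit 5) (nat_lit 402) (nat_lit 377) (nat_lit 241)) (XT.lf (nat_lit 0) (nat_lit 6090785801) (nat_lit 608) (nat_lit 11832061594) (nat_lit 684) (nat_lit 455113897) (nat_lit 323) (nat_lit 5) (nat_lit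 331) (nat_lit 5) (nat_lit 332) (nat_lit 5) (nat_lit 403) (nat_lit 377) (nat_lit 240))) (XT.nd (nat_lit 78) (nat_lit 532) (nat_lit 0) (XT.lf (nat_lit 0) (nat_lit 2029343772) (nat_lit 684) (nat_lit 1899760323) (nat_lit 76) (nat_lit 14751125561) (nat_lit 322) (nat_lit 5) (nat_lit 331) (nat_lit 5) (nat_lit 323) (nat_lit 5) (nat_lit 404) (nat_lit 377) (nat_lit 239)) (XT.lf (nat_lit 0) (nat_lit 4697781479) (nat_lit 608) (nat_lit 10070398981) (nat_lit 76) (nat_lit 4219692618) (nat_lit 315) (nat_lit 5) (nat_lit 323) (nat_lit 5) (nat_lit 316) (nat_lit 5) (nat_lit 405) (nat_lit 377) (nat_lit 238)))))) (XT.nd (nat_lit 546) (nat_lit 2128) (nat_lit 0) (XT.nd (nat_lit 234) (nat_lit 1064) (nat_lit 0) (XT.nd (nat_lit 78) (nat_lit 456) (nat_lit 0) (XT.lf (nat_lit 0) (nat_lit 760045774) (nat_lit 532) (nat_lit 6743064631) (nat_lit 608) (nat_lit 11799930255) (nat_lit 308) (nat_lit 5) (nat_lit 315) (nat_lit 5) (nat_lit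 316) (nat_lit 5) (nat_lit 406) (nat_lit 377) (nat_lit 237)) (XT.nd (nat_lit 78) (nat_lit 456) (nat_lit 0) (XT.lf (nat_lit 0) (nat_lit 10501344366) (nat_lit 608) (nat_lit 7528264969) (nat_lit 76) (nat_lit 1594791581) (nat_lit 308) (nat_lit 5) (nat_lit 316) (nat_lit 5) (nat_lit 309) (nat_lit 5) (nat_lit 407) (nat_lit 377) (nat_lit 236)) (XT.lf (nat_lit 0) (nat_lit 3815030920) (nat_lit 456) (nat_lit 9869588983) (nat_lit 532) (nat_lit 6267929238) (nat_lit 302) (nat_lit 5) (nat_lit 308) (nat_lit 5) (nat_lit 309) (nat_lit 5) (nat_lit 408) (nat_lit 377) (nat_lit 235)))) (XT.nd (nat_lit 156) (nat_lit 532) (nat_lit 0) (XT.nd (nat_lit 78) (nat_lit 532) (nat_lit 0) (XT.lf (nat_lit 0) (nat_lit 15643483539) (nat_lit 456) (nat_lit 1387741978) (nat_lit 532) (nat_lit 3257281343) (nat_lit 302) (nat_lit 5) (nat_lit 308) (nat_lit 5) (nat_lit 309) (nat_lit 5) (nat_lit 409) (nat_lit 377) (nat_lit 234)) (XT.lf (nat_lit 0)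 (nat_lit 7253738989) (nat_lit 532) (nat_lit 13356894251) (nat_lit 608) (nat_lit 19937952) (nat_lit 295) (nat_lit 5) (nat_lit 302) (nat_lit 5) (nat_lit 303) (nat_lit 5) (nat_lit 410) (nat_lit 377) (nat_lit 233))) (XT.nd (nat_lit 78) (nat_lit 456) (nat_lit 0) (XT.lf (nat_lit 0) (nat_lit 3303060037) (nat_lit 608) (nat_lit 1432353394) (nat_lit 76) (nat_lit 16244931806) (nat_lit 294) (nat_lit 5) (nat_lit 302) (nat_lit 5) (nat_lit 295) (nat_lit 5) (nat_lit 411) (nat_lit 377) (nat_lit 232)) (XT.lf (nat_lit 0) (nat_lit 6865043752) (nat_lit 532) (nat_lit 10301310303) (nat_lit 76) (nat_lit 4170061630) (nat_lit 288) (nat_lit 5) (nat_lit 295) (nat_lit 5) (nat_lit 289) (nat_lit 5) (nat_lit 412) (nat_lit 377) (nat_lit 231))))) (XT.nd (nat_lit 312) (nat_lit 1216) (nat_lit 0) (XT.nd (nat_lit 156) (nat_lit 456) (nat_lit 0) (XT.nd (nat_lit 78) (nat_lit 0) (nat_lit 0) (XT.lf (nat_lit 0) (nat_lit 2189589305) (nat_lit 456)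 (nat_lit 8419290900) (nat_lit 532) (nat_lit 11092038246) (nat_lit 282) (nat_lit 5) (nat_lit 288) (nat_lit 5) (nat_lit 289) (nat_lit 5) (nat_lit 413) (nat_lit 377) (nat_lit 230)) (XT.lf (nat_lit 0) (nat_lit 14568324627) (nat_lit 532) (nat_lit 6822994092) (nat_lit 76) (nat_lit 681938795) (nat_lit 282) (nat_lit 5) (nat_lit 289) (nat_lit 5) (nat_lit 283) (nat_lit 5) (nat_lit 414) (nat_lit 377) (nat_lit 229))) (XT.nd (nat_lit 78) (nat_lit 76) (nat_lit 0) (XT.lf (nat_lit 0) (nat_lit 6275934676) (nat_lit 380) (nat_lit 12507088344) (nat_lit 456) (nat_lit 3669649609) (nat_lit 277) (nat_lit 5) (nat_lit 282) (nat_lit 5) (nat_lit 283) (nat_lit 5) (nat_lit 415) (nat_lit 377) (nat_lit 228)) (XT.lf (nat_lit 0) (nat_lit 337631826) (nat_lit 456) (nat_lit 2946303441) (nat_lit 76) (nat_lit 19557581475) (nat_lit 276) (nat_lit 5) (nat_lit 282) (nat_lit 5) (nat_lit 277) (nat_lit 5) (nat_lit 416) (nat_lit 377) (nat_lit 227))))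 (XT.nd (nat_lit 156) (nat_lit 380) (nat_lit 0) (XT.nd (nat_lit 78) (nat_lit 380) (nat_lit 0) (XT.lf (nat_lit 0) (nat_lit 4549816315) (nat_lit 532) (nat_lit 12451704761) (nat_lit 76) (nat_lit 6234661880) (nat_lit 270) (nat_lit 5) (nat_lit 277) (nat_lit 5) (nat_lit 271) (nat_lit 5) (nat_lit 417) (nat_lit 377) (nat_lit 226)) (XT.lf (nat_lit 0) (nat_lit 1329879550) (nat_lit 380) (nat_lit 7626973667) (nat_lit 456) (nat_lit 14683781333) (nat_lit 265) (nat_lit 5) (nat_lit 270) (nat_lit 5) (nat_lit 271) (nat_lit 5) (nat_lit 418) (nat_lit 377) (nat_lit 225))) (XT.nd (nat_lit 78) (nat_lit 380) (nat_lit 0) (XT.lf (nat_lit 0) (nat_lit 13635821077) (nat_lit 456) (nat_lit 8303173298) (nat_lit 76) (nat_lit 2114033723) (nat_lit 265) (nat_lit 5) (nat_lit 271) (nat_lit 5) (nat_lit 266) (nat_lit 5) (nat_lit 419) (nat_lit 377) (nat_lit 224)) (XT.lf (nat_lit 0) (nat_lit 6160462446) (nat_lit 380) (nat_lit 12422860241) (nat_lit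 456) (nat_lit 5890625821) (nat_lit 260) (nat_lit 5) (nat_lit 265) (nat_lit 5) (nat_lit 266) (nat_lit 5) (nat_lit 420) (nat_lit 377) (nat_lit 223))))))) (XT.nd (nat_lit 1170) (nat_lit 2736) (nat_lit 0) (XT.nd (nat_lit 546) (nat_lit 1520) (nat_lit 0) (XT.nd (nat_lit 234) (nat_lit 760) (nat_lit 0) (XT.nd (nat_lit 78) (nat_lit 836) (nat_lit 0) (XT.lf (nat_lit 0) (nat_lit 21219429522) (nat_lit 380) (nat_lit 2537204444) (nat_lit 456) (nat_lit 1148541027) (nat_lit 260) (nat_lit 5) (nat_lit 265) (nat_lit 5) (nat_lit 266) (nat_lit 5) (nat_lit 421) (nat_lit 377) (nat_lit 222)) (XT.nd (nat_lit 78) (nat_lit 380) (nat_lit 0) (XT.lf (nat_lit 0) (nat_lit 3842634290) (nat_lit 456) (nat_lit 13858163627) (nat_lit 76) (nat_lit 7642071220) (nat_lit 254) (nat_lit 5) (nat_lit 260) (nat_lit 5) (nat_lit 255) (nat_lit 5) (nat_lit 422) (nat_lit 377) (nat_lit 221)) (XT.lf (nat_lit 0) (nat_lit 1374471976) (nat_lit 380) (nat_lit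 7655653362) (nat_lit 456) (nat_lit 16761137665) (nat_lit 249) (nat_lit 5) (nat_lit 254) (nat_lit 5) (nat_lit 255) (nat_lit 5) (nat_lit 423) (nat_lit 377) (nat_lit 220)))) (XT.nd (nat_lit 156) (nat_lit 456) (nat_lit 0) (XT.nd (nat_lit 78) (nat_lit 304) (nat_lit 0) (XT.lf (nat_lit 0) (nat_lit 14534252697) (nat_lit 456) (nat_lit 8936806302) (nat_lit 76) (nat_lit 2777219340) (nat_lit 249) (nat_lit 5) (nat_lit 255) (nat_lit 5) (nat_lit 250) (nat_lit 5) (nat_lit 424) (nat_lit 377) (nat_lit 219)) (XT.lf (nat_lit 0) (nat_lit 7061012151) (nat_lit 304) (nat_lit 13280164750) (nat_lit 380) (nat_lit 6373697043) (nat_lit 245) (nat_lit 5) (nat_lit 249) (nat_lit 5) (nat_lit 250) (nat_lit 5) (nat_lit 425) (nat_lit 377) (nat_lit 218))) (XT.nd (nat_lit 78) (nat_lit 456) (nat_lit 0) (XT.lf (nat_lit 0) (nat_lit 23713491733) (nat_lit 304) (nat_lit 2693154381) (nat_lit 380) (nat_lit 786291185) (nat_lit 245) (nat_lit 5) (nat_lit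 249) (nat_lit 5) (nat_lit 250) (nat_lit 5) (nat_lit 426) (nat_lit 377) (nat_lit 217)) (XT.lf (nat_lit 0) (nat_lit 5075310895) (nat_lit 456) (nat_lit 14375581187) (nat_lit 76) (nat_lit 8226911634) (nat_lit 239) (nat_lit 5) (nat_lit 245) (nat_lit 5) (nat_lit 240) (nat_lit 5) (nat_lit 427) (nat_lit 377) (nat_lit 216))))) (XT.nd (nat_lit 312) (nat_lit 836) (nat_lit 0) (XT.nd (nat_lit 156) (nat_lit 380) (nat_lit 0) (XT.nd (nat_lit 78) (nat_lit 0) (nat_lit 0) (XT.lf (nat_lit 0) (nat_lit 2487850355) (nat_lit 304) (nat_lit 8689443205) (nat_lit 380) (nat_lit 16997278931) (nat_lit 235) (nat_lit 5) (nat_lit 239) (nat_lit 5) (nat_lit 240) (nat_lit 5) (nat_lit 428) (nat_lit 377) (nat_lit 215)) (XT.lf (nat_lit 0) (nat_lit 17626293091) (nat_lit 380) (nat_lit 8562940865) (nat_lit 76) (nat_lit 2492091650) (nat_lit 235) (nat_lit 5) (nat_lit 240) (nat_lit 5) (nat_lit 236) (nat_lit 5) (nat_lit 429) (nat_lit 377) (nat_lit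 214))) (XT.nd (nat_lit 78) (nat_lit 76) (nat_lit 0) (XT.lf (nat_lit 0) (nat_lit 9159028273) (nat_lit 304) (nat_lit 15278309801) (nat_lit 380) (nat_lit 4760885977) (nat_lit 231) (nat_lit 5) (nat_lit 235) (nat_lit 5) (nat_lit 236) (nat_lit 5) (nat_lit 430) (nat_lit 377) (nat_lit 213)) (XT.lf (nat_lit 0) (nat_lit 1770333463) (nat_lit 380) (nat_lit 2165502329) (nat_lit 76) (nat_lit 25791841467) (nat_lit 230) (nat_lit 5) (nat_lit 235) (nat_lit 5) (nat_lit 231) (nat_lit 5) (nat_lit 431) (nat_lit 377) (nat_lit 212)))) (XT.nd (nat_lit 156) (nat_lit 228) (nat_lit 0) (XT.nd (nat_lit 78) (nat_lit 304) (nat_lit 0) (XT.lf (nat_lit 0) (nat_lit 8631685914) (nat_lit 380) (nat_lit 13832021008) (nat_lit 76) (nat_lit 7800996452) (nat_lit 226) (nat_lit 5) (nat_lit 231) (nat_lit 5) (nat_lit 227) (nat_lit 5) (nat_lit 432) (nat_lit 377) (nat_lit 211)) (XT.lf (nat_lit 0) (nat_lit 4863683859) (nat_lit 304) (nat_lit 10937739899)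 (nat_lit 380) (nat_lit 15013340169) (nat_lit 222) (nat_lit 5) (nat_lit 226) (nat_lit 5) (nat_lit 227) (nat_lit 5) (nat_lit 433) (nat_lit 377) (nat_lit 210))) (XT.nd (nat_lit 78) (nat_lit 228) (nat_lit 0) (XT.lf (nat_lit 0) (nat_lit 23331080459) (nat_lit 380) (nat_lit 6991802062) (nat_lit 76) (nat_lit 1054098975) (nat_lit 222) (nat_lit 5) (nat_lit 227) (nat_lit 5) (nat_lit 223) (nat_lit 5) (nat_lit 434) (nat_lit 377) (nat_lit 209)) (XT.lf (nat_lit 0) (nat_lit 12667272462) (nat_lit 228) (nat_lit 18644355452) (nat_lit 304) (nat_lit 637687646) (nat_lit 219) (nat_lit 5) (nat_lit 222) (nat_lit 5) (nat_lit 223) (nat_lit 5) (nat_lit 435) (nat_lit 377) (nat_lit 208)))))) (XT.nd (nat_lit 624) (nat_lit 1292) (nat_lit 0) (XT.nd (nat_lit 312) (nat_lit 836) (nat_lit 0) (XT.nd (nat_lit 156) (nat_lit 228) (nat_lit 0) (XT.nd (nat_lit 78) (nat_lit 0) (nat_lit 0) (XT.lf (nat_lit 0) (nat_lit 455825177) (nat_lit 304) (nat_lit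 6471141083) (nat_lit 380) (nat_lit 25607717373) (nat_lit 214) (nat_lit 5) (nat_lit 218) (nat_lit 5) (nat_lit 219) (nat_lit 5) (nat_lit 436) (nat_lit 377) (nat_lit 207)) (XT.lf (nat_lit 0) (nat_lit 14955712052) (nat_lit 380) (nat_lit 12025181464) (nat_lit 76) (nat_lit 6149030745) (nat_lit 214) (nat_lit 5) (nat_lit 219) (nat_lit 5) (nat_lit 215) (nat_lit 5) (nat_lit 437) (nat_lit 377) (nat_lit 206))) (XT.nd (nat_lit 78) (nat_lit 0) (nat_lit 0) (XT.lf (nat_lit 0) (nat_lit 8728655212) (nat_lit 228) (nat_lit 14639794466) (nat_lit 304) (nat_lit 10370278546) (nat_lit 211) (nat_lit 5) (nat_lit 214) (nat_lit 5) (nat_lit 215) (nat_lit 5) (nat_lit 438) (nat_lit 377) (nat_lit 205)) (XT.lf (nat_lit 0) (nat_lit 30343979562) (nat_lit 228) (nat_lit 1806242006) (nat_lit 304) (nat_lit 2212075175) (nat_lit 211) (nat_lit 5) (nat_lit 214) (nat_lit 5) (nat_lit 215) (nat_lit 5) (nat_lit 439) (nat_lit 377) (nat_lit 204))))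 (XT.nd (nat_lit 156) (nat_lit 228) (nat_lit 0) (XT.nd (nat_lit 78) (nat_lit 228) (nat_lit 0) (XT.lf (nat_lit 0) (nat_lit 6349272496) (nat_lit 380) (nat_lit 17224554018) (nat_lit 76) (nat_lit 11420584355) (nat_lit 206) (nat_lit 5) (nat_lit 211) (nat_lit 5) (nat_lit 207) (nat_lit 5) (nat_lit 440) (nat_lit 377) (nat_lit 203)) (XT.lf (nat_lit 0) (nat_lit 4693638410) (nat_lit 228) (nat_lit 10528694932) (nat_lit 304) (nat_lit 20419518027) (nat_lit 203) (nat_lit 5) (nat_lit 206) (nat_lit 5) (nat_lit 207) (nat_lit 5) (nat_lit 441) (nat_lit 377) (nat_lit 202))) (XT.nd (nat_lit 78) (nat_lit 228) (nat_lit 0) (XT.lf (nat_lit 0) (nat_lit 24560582365) (nat_lit 304) (nat_lit 8718284297) (nat_lit 76) (nat_lit 3023878531) (nat_lit 203) (nat_lit 5) (nat_lit 207) (nat_lit 5) (nat_lit 204) (nat_lit 5) (nat_lit 442) (nat_lit 377) (nat_lit 201)) (XT.lf (nat_lit 0) (nat_lit 14346901385) (nat_lit 228) (nat_lit 20069756031)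 (nat_lit 304) (nat_lit 2559678060) (nat_lit 200) (nat_lit 5) (nat_lit 203) (nat_lit 5) (nat_lit 204) (nat_lit 5) (nat_lit 443) (nat_lit 377) (nat_lit 200))))) (XT.nd (nat_lit 312) (nat_lit 760) (nat_lit 0) (XT.nd (nat_lit 156) (nat_lit 228) (nat_lit 0) (XT.nd (nat_lit 78) (nat_lit 0) (nat_lit 0) (XT.lf (nat_lit 0) (nat_lit 551472933) (nat_lit 228) (nat_lit 6301947850) (nat_lit 304) (nat_lit 30812030873) (nat_lit 196) (nat_lit 5) (nat_lit 199) (nat_lit 5) (nat_lit 200) (nat_lit 5) (nat_lit 444) (nat_lit 377) (nat_lit 199)) (XT.lf (nat_lit 0) (nat_lit 16799549151) (nat_lit 304) (nat_lit 13587444738) (nat_lit 76) (nat_lit 7978424626) (nat_lit 196) (nat_lit 5) (nat_lit 200) (nat_lit 5) (nat_lit 197) (nat_lit 5) (nat_lit 445) (nat_lit 377) (nat_lit 198))) (XT.nd (nat_lit 78) (nat_lit 0) (nat_lit 0) (XT.lf (nat_lit 0) (nat_lit 10785770055) (nat_lit 228) (nat_lit 16420066628) (nat_lit 304) (nat_lit 11875694437)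 (nat_lit 193) (nat_lit 5) (nat_lit 196) (nat_lit 5) (nat_lit 197) (nat_lit 5) (nat_lit 446) (nat_lit 377) (nat_lit 197)) (XT.lf (nat_lit 0) (nat_lit 36161592157) (nat_lit 228) (nat_lit 1895684410) (nat_lit 304) (nat_lit 1757861624) (nat_lit 193) (nat_lit 5) (nat_lit 196) (nat_lit 5) (nat_lit 197) (nat_lit 5) (nat_lit 447) (nat_lit 377) (nat_lit 196)))) (XT.nd (nat_lit 156) (nat_lit 228) (nat_lit 0) (XT.nd (nat_lit 78) (nat_lit 228) (nat_lit 0) (XT.lf (nat_lit 0) (nat_lit 8830904804) (nat_lit 304) (nat_lit 18622202269) (nat_lit 76) (nat_lit 13105054389) (nat_lit 189) (nat_lit 5) (nat_lit 193) (nat_lit 5) (nat_lit 190) (nat_lit 5) (nat_lit 448) (nat_lit 377) (nat_lit 195)) (XT.lf (nat_lit 0) (nat_lit 7141470494) (nat_lit 228) (nat_lit 12681076182) (nat_lit 304) (nat_lit 21496790307) (nat_lit 186) (nat_lit 5) (nat_lit 189) (nat_lit 5) (nat_lit 190) (nat_lit 5) (nat_lit 449) (nat_lit 377) (nat_lit 194)))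 (XT.nd (nat_lit 78) (nat_lit 228) (nat_lit 0) (XT.lf (nat_lit 0) (nat_lit 31354100230) (nat_lit 304) (nat_lit 8071184627) (nat_lit 76) (nat_lit 2671758039) (nat_lit 186) (nat_lit 5) (nat_lit 190) (nat_lit 5) (nat_lit 187) (nat_lit 5) (nat_lit 450) (nat_lit 377) (nat_lit 193)) (XT.lf (nat_lit 0) (nat_lit 634796930) (nat_lit 228) (nat_lit 23836965999) (nat_lit 76) (nat_lit 18416987335) (nat_lit 183) (nat_lit 5) (nat_lit 186) (nat_lit 5) (nat_lit 184) (nat_lit 5) (nat_lit 451) (nat_lit 377) (nat_lit 192))))))))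
noncomputable def xc181 : XT := (XT.nd (nat_lit 2340) (nat_lit 684) (nat_lit 0) (XT.nd (nat_lit 1170) (nat_lit 1444) (nat_lit 0) (XT.nd (nat_lit 546) (nat_lit 1140) (nat_lit 0) (XT.nd (nat_lit 234) (nat_lit 456) (nat_lit 0) (XT.nd (nat_lit 78) (nat_lit 152) (nat_lit 0) (XT.lf (nat_lit 0) (nat_lit 3404537839) (nat_lit 228) (nat_lit 8844469975) (nat_lit 304) (nat_lit 31448678218) (nat_lit 180) (nat_lit 5) (nat_lit 183) (nat_lit 5) (nat_lit 184) (nat_lit 5) (nat_lit 452) (nat_lit 377) (nat_lit 191)) (XT.nd (nat_lit 78) (nat_lit 152) (nat_lit 0) (XT.lf (nat_lit 0) (nat_lit 24520490127) (nat_lit 304) (nat_lit 12650714983) (nat_lit 76) (nat_lit 7350419411) (nat_lit 180) (nat_lit 5) (nat_lit 184) (nat_lit 5) (nat_lit 181) (nat_lit 5) (nat_lit 453) (nat_lit 377) (nat_lit 190)) (XT.lf (nat_lit 0) (nat_lit 16039738505) (nat_lit 152) (nat_lit 21358294330) (nat_lit 228) (nat_lit 7965110851) (nat_lit 178) (nat_lit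 5) (nat_lit 180) (nat_lit 5) (nat_lit 181) (nat_lit 5) (nat_lit 454) (nat_lit 377) (nat_lit 189)))) (XT.nd (nat_lit 156) (nat_lit 152) (nat_lit 0) (XT.nd (nat_lit 78) (nat_lit 228) (nat_lit 0) (XT.lf (nat_lit 0) (nat_lit 4470695312) (nat_lit 228) (nat_lit 426398479) (nat_lit 76) (nat_lit 41327780962) (nat_lit 177) (nat_lit 5) (nat_lit 180) (nat_lit 5) (nat_lit 178) (nat_lit 5) (nat_lit 455) (nat_lit 377) (nat_lit 188)) (XT.lf (nat_lit 0) (nat_lit 17522057904) (nat_lit 304) (nat_lit 17386762986) (nat_lit 76) (nat_lit 12189193795) (nat_lit 174) (nat_lit 5) (nat_lit 178) (nat_lit 5) (nat_lit 175) (nat_lit 5) (nat_lit 456) (nat_lit 377) (nat_lit 187))) (XT.nd (nat_lit 78) (nat_lit 0) (nat_lit 0) (XT.lf (nat_lit 0) (nat_lit 12962455430) (nat_lit 152) (nat_lit 18176248620) (nat_lit 228) (nat_lit 16853432486) (nat_lit 172) (nat_lit 5) (nat_lit 174) (nat_lit 5) (nat_lit 175) (nat_lit 5) (nat_lit 457) (nat_lit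 377) (nat_lit 186)) (XT.lf (nat_lit 0) (nat_lit 44572113296) (nat_lit 152) (nat_lit 763659256) (nat_lit 228) (nat_lit 3572151799) (nat_lit 172) (nat_lit 5) (nat_lit 174) (nat_lit 5) (nat_lit 175) (nat_lit 5) (nat_lit 458) (nat_lit 377) (nat_lit 185))))) (XT.nd (nat_lit 312) (nat_lit 532) (nat_lit 0) (XT.nd (nat_lit 156) (nat_lit 228) (nat_lit 0) (XT.nd (nat_lit 78) (nat_lit 152) (nat_lit 0) (XT.lf (nat_lit 0) (nat_lit 10341814049) (nat_lit 228) (nat_lit 22292793781) (nat_lit 76) (nat_lit 17200718714) (nat_lit 169) (nat_lit 5) (nat_lit 172) (nat_lit 5) (nat_lit 170) (nat_lit 5) (nat_lit 459) (nat_lit 377) (nat_lit 184)) (XT.lf (nat_lit 0) (nat_lit 9818756728) (nat_lit 152) (nat_lit 14925246609) (nat_lit 228) (nat_lit 26041208397) (nat_lit 167) (nat_lit 5) (nat_lit 169) (nat_lit 5) (nat_lit 170) (nat_lit 5) (nat_lit 460) (nat_lit 377) (nat_lit 183))) (XT.nd (nat_lit 78) (nat_lit 228) (nat_lit 0) (XT.lf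 (nat_lit 0) (nat_lit 39833926508) (nat_lit 228) (nat_lit 8446670716) (nat_lit 76) (nat_lit 3475326207) (nat_lit 167) (nat_lit 5) (nat_lit 170) (nat_lit 5) (nat_lit 168) (nat_lit 5) (nat_lit 461) (nat_lit 377) (nat_lit 182)) (XT.lf (nat_lit 0) (nat_lit 2961895739) (nat_lit 228) (nat_lit 27382936845) (nat_lit 76) (nat_lit 22398400741) (nat_lit 164) (nat_lit 5) (nat_lit 167) (nat_lit 5) (nat_lit 165) (nat_lit 5) (nat_lit 462) (nat_lit 377) (nat_lit 181)))) (XT.nd (nat_lit 156) (nat_lit 380) (nat_lit 0) (XT.nd (nat_lit 78) (nat_lit 0) (nat_lit 0) (XT.lf (nat_lit 0) (nat_lit 6600749152) (nat_lit 152) (nat_lit 11598092631) (nat_lit 228) (nat_lit 35553394835) (nat_lit 162) (nat_lit 5) (nat_lit 164) (nat_lit 5) (nat_lit 165) (nat_lit 5) (nat_lit 463) (nat_lit 377) (nat_lit 180)) (XT.lf (nat_lit 0) (nat_lit 34242853225) (nat_lit 228) (nat_lit 12701010020) (nat_lit 76) (nat_lit 7837148056) (nat_lit 162) (nat_lit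 5) (nat_lit 165) (nat_lit 5) (nat_lit 163) (nat_lit 5) (nat_lit 464) (nat_lit 377) (nat_lit 179))) (XT.nd (nat_lit 78) (nat_lit 228) (nat_lit 0) (XT.lf (nat_lit 0) (nat_lit 23113147153) (nat_lit 152) (nat_lit 27988729679) (nat_lit 228) (nat_lit 4728761637) (nat_lit 160) (nat_lit 5) (nat_lit 162) (nat_lit 5) (nat_lit 163) (nat_lit 5) (nat_lit 465) (nat_lit 377) (nat_lit 178)) (XT.lf (nat_lit 0) (nat_lit 3300207036) (nat_lit 152) (nat_lit 8187168748) (nat_lit 228) (nat_lit 45416308365) (nat_lit 157) (nat_lit 5) (nat_lit 159) (nat_lit 5) (nat_lit 160) (nat_lit 5) (nat_lit 466) (nat_lit 377) (nat_lit 177)))))) (XT.nd (nat_lit 546) (nat_lit 760) (nat_lit 0) (XT.nd (nat_lit 234) (nat_lit 456) (nat_lit 0) (XT.nd (nat_lit 78) (nat_lit 228) (nat_lit 0) (XT.lf (nat_lit 0) (nat_lit 28542664016) (nat_lit 228) (nat_lit 17103385148) (nat_lit 76) (nat_lit 12348036152) (nat_lit 157) (nat_lit 5) (nat_lit 160) (nat_lit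 5) (nat_lit 158) (nat_lit 5) (nat_lit 467) (nat_lit 377) (nat_lit 176)) (XT.nd (nat_lit 78) (nat_lit 76) (nat_lit 0) (XT.lf (nat_lit 0) (nat_lit 20810876931) (nat_lit 152) (nat_lit 25576639494) (nat_lit 228) (nat_lit 12721344925) (nat_lit 155) (nat_lit 5) (nat_lit 157) (nat_lit 5) (nat_lit 158) (nat_lit 5) (nat_lit 468) (nat_lit 377) (nat_lit 175)) (XT.lf (nat_lit 0) (nat_lit 4593839362) (nat_lit 228) (nat_lit 89671655) (nat_lit 76) (nat_lit 55567132150) (nat_lit 154) (nat_lit 5) (nat_lit 157) (nat_lit 5) (nat_lit 155) (nat_lit 5) (nat_lit 469) (nat_lit 377) (nat_lit 174)))) (XT.nd (nat_lit 156) (nat_lit 152) (nat_lit 0) (XT.nd (nat_lit 78) (nat_lit 152) (nat_lit 0) (XT.lf (nat_lit 0) (nat_lit 22720211254) (nat_lit 228) (nat_lit 21666282815) (nat_lit 76) (nat_lit 17019983195) (nat_lit 152) (nat_lit 5) (nat_lit 155) (nat_lit 5) (nat_lit 153) (nat_lit 5) (nat_lit 470) (nat_lit 377) (nat_lit 173)) (XT.lf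 (nat_lit 0) (nat_lit 18478320624) (nat_lit 152) (nat_lit 23133872564) (nat_lit 228) (nat_lit 20978138631) (nat_lit 150) (nat_lit 5) (nat_lit 152) (nat_lit 5) (nat_lit 153) (nat_lit 5) (nat_lit 471) (nat_lit 377) (nat_lit 172))) (XT.nd (nat_lit 78) (nat_lit 152) (nat_lit 0) (XT.lf (nat_lit 0) (nat_lit 60265742632) (nat_lit 152) (nat_lit 1020922693) (nat_lit 228) (nat_lit 2516564764) (nat_lit 150) (nat_lit 5) (nat_lit 152) (nat_lit 5) (nat_lit 153) (nat_lit 5) (nat_lit 472) (nat_lit 377) (nat_lit 171)) (XT.lf (nat_lit 0) (nat_lit 16761709611) (nat_lit 152) (nat_lit 26402822671) (nat_lit 76) (nat_lit 21865680949) (nat_lit 148) (nat_lit 5) (nat_lit 150) (nat_lit 5) (nat_lit 149) (nat_lit 5) (nat_lit 473) (nat_lit 377) (nat_lit 170))))) (XT.nd (nat_lit 312) (nat_lit 304) (nat_lit 0) (XT.nd (nat_lit 156) (nat_lit 304) (nat_lit 0) (XT.nd (nat_lit 78) (nat_lit 0) (nat_lit 0) (XT.lf (nat_lit 0) (nat_lit 16110223891)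 (nat_lit 152) (nat_lit 20655586179) (nat_lit 228) (nat_lit 29521506554) (nat_lit 146) (nat_lit 5) (nat_lit 148) (nat_lit 5) (nat_lit 149) (nat_lit 5) (nat_lit 474) (nat_lit 377) (nat_lit 169)) (XT.lf (nat_lit 0) (nat_lit 57660619727) (nat_lit 228) (nat_lit 7166758786) (nat_lit 76) (nat_lit 2746037019) (nat_lit 146) (nat_lit 5) (nat_lit 149) (nat_lit 5) (nat_lit 147) (nat_lit 4) (nat_lit 475) (nat_lit 377) (nat_lit 168))) (XT.nd (nat_lit 78) (nat_lit 152) (nat_lit 0) (XT.lf (nat_lit 0) (nat_lit 10652695418) (nat_lit 152) (nat_lit 31326802496) (nat_lit 76) (nat_lit 26898557746) (nat_lit 144) (nat_lit 5) (nat_lit 146) (nat_lit 5) (nat_lit 145) (nat_lit 5) (nat_lit 476) (nat_lit 377) (nat_lit 167)) (XT.lf (nat_lit 0) (nat_lit 13701134945) (nat_lit 152) (nat_lit 18136683561) (nat_lit 228) (nat_lit 38375014956) (nat_lit 142) (nat_lit 5) (nat_lit 144) (nat_lit 5) (nat_lit 145) (nat_lit 5) (nat_lit 477) (nat_lit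 377) (nat_lit 166)))) (XT.nd (nat_lit 156) (nat_lit 152) (nat_lit 0) (XT.nd (nat_lit 78) (nat_lit 152) (nat_lit 0) (XT.lf (nat_lit 0) (nat_lit 54036815707) (nat_lit 228) (nat_lit 10926365877) (nat_lit 76) (nat_lit 6613123402) (nat_lit 142) (nat_lit 5) (nat_lit 145) (nat_lit 5) (nat_lit 143) (nat_lit 4) (nat_lit 478) (nat_lit 377) (nat_lit 165)) (XT.lf (nat_lit 0) (nat_lit 4377983276) (nat_lit 152) (nat_lit 36452745643) (nat_lit 76) (nat_lit 32132819095) (nat_lit 140) (nat_lit 5) (nat_lit 142) (nat_lit 5) (nat_lit 141) (nat_lit 5) (nat_lit 479) (nat_lit 377) (nat_lit 164))) (XT.nd (nat_lit 78) (nat_lit 0) (nat_lit 0) (XT.lf (nat_lit 0) (nat_lit 11245386375) (nat_lit 152) (nat_lit 15571802313) (nat_lit 228) (nat_lit 47563507847) (nat_lit 138) (nat_lit 5) (nat_lit 140) (nat_lit 5) (nat_lit 141) (nat_lit 5) (nat_lit 480) (nat_lit 377) (nat_lit 163)) (XT.lf (nat_lit 0) (nat_lit 50398936484) (nat_lit 228)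 (nat_lit 14816931368) (nat_lit 76) (nat_lit 10610410671) (nat_lit 138) (nat_lit 5) (nat_lit 141) (nat_lit 5) (nat_lit 139) (nat_lit 4) (nat_lit 481) (nat_lit 377) (nat_lit 162))))))) (XT.nd (nat_lit 45630) (nat_lit 0) (nat_lit 15884) (XT.nd (nat_lit 45006) (nat_lit 0) (nat_lit 18772) (XT.nd (nat_lit 234) (nat_lit 380) (nat_lit 0) (XT.nd (nat_lit 78) (nat_lit 228) (nat_lit 0) (XT.lf (nat_lit 0) (nat_lit 35484123707) (nat_lit 76) (nat_lit 39696583116) (nat_lit 152) (nat_lit 2119744046) (nat_lit 137) (nat_lit 5) (nat_lit 138) (nat_lit 5) (nat_lit 139) (nat_lit 4) (nat_lit 482) (nat_lit 377) (nat_lit 161)) (XT.nd (nat_lit 78) (nat_lit 0) (nat_lit 0) (XT.lf (nat_lit 0) (nat_lit 8737076319) (nat_lit 152) (nat_lit 12955301468) (nat_lit 228) (nat_lit 57113187086) (nat_lit 134) (nat_lit 5) (nat_lit 136) (nat_lit 5) (nat_lit 137) (nat_lit 5) (nat_lit 483) (nat_lit 377) (nat_lit 160)) (XT.lf (nat_lit 0) (nat_lit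 46740242008) (nat_lit 228) (nat_lit 18849420071) (nat_lit 76) (nat_lit 14748621086) (nat_lit 134) (nat_lit 5) (nat_lit 137) (nat_lit 5) (nat_lit 135) (nat_lit 4) (nat_lit 484) (nat_lit 377) (nat_lit 159)))) (XT.nd (nat_lit 156) (nat_lit 76) (nat_lit 0) (XT.nd (nat_lit 78) (nat_lit 228) (nat_lit 0) (XT.lf (nat_lit 0) (nat_lit 34445115897) (nat_lit 76) (nat_lit 38551191351) (nat_lit 152) (nat_lit 8906972806) (nat_lit 133) (nat_lit 5) (nat_lit 134) (nat_lit 5) (nat_lit 135) (nat_lit 4) (nat_lit 485) (nat_lit 377) (nat_lit 158)) (XT.lf (nat_lit 0) (nat_lit 6170048919) (nat_lit 152) (nat_lit 10281247158) (nat_lit 228) (nat_lit 67051697547) (nat_lit 130) (nat_lit 5) (nat_lit 132) (nat_lit 5) (nat_lit 133) (nat_lit 5) (nat_lit 486) (nat_lit 377) (nat_lit 157))) (XT.nd (nat_lit 78) (nat_lit 76) (nat_lit 0) (XT.lf (nat_lit 0) (nat_lit 43053738048) (nat_lit 228) (nat_lit 23035362423) (nat_lit 76) (nat_lit 19039079106)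 (nat_lit 130) (nat_lit 5) (nat_lit 133) (nat_lit 5) (nat_lit 131) (nat_lit 4) (nat_lit 487) (nat_lit 377) (nat_lit 156)) (XT.lf (nat_lit 0) (nat_lit 33436982618) (nat_lit 76) (nat_lit 37437954009) (nat_lit 152) (nat_lit 15914563981) (nat_lit 129) (nat_lit 5) (nat_lit 130) (nat_lit 5) (nat_lit 131) (nat_lit 4) (nat_lit 488) (nat_lit 377) (nat_lit 155))))) (XT.nd (nat_lit 312) (nat_lit 1140) (nat_lit 0) (XT.nd (nat_lit 156) (nat_lit 0) (nat_lit 0) (XT.nd (nat_lit 78) (nat_lit 0) (nat_lit 0) (XT.lf (nat_lit 0) (nat_lit 2781259299) (nat_lit 0) (nat_lit 2781259299) (nat_lit 1140) (nat_lit 818693997) (nat_lit 391) (nat_lit 5) (nat_lit 391) (nat_lit 3) (nat_lit 406) (nat_lit 3) (nat_lit 378) (nat_lit 378) (nat_lit 264)) (XT.lf (nat_lit 0) (nat_lit 11710878950) (nat_lit 1140) (nat_lit 818622953) (nat_lit 1216) (nat_lit 411790681) (nat_lit 391) (nat_lit 5) (nat_lit 406) (nat_lit 3) (nat_lit 407) (nat_lit 5)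 (nat_lit 379) (nat_lit 378) (nat_lit 263))) (XT.nd (nat_lit 78) (nat_lit 0) (nat_lit 0) (XT.lf (nat_lit 76) (nat_lit 5803613767) (nat_lit 0) (nat_lit 6605428826) (nat_lit 1216) (nat_lit 713641005) (nat_lit 392) (nat_lit 5) (nat_lit 391) (nat_lit 5) (nat_lit 407) (nat_lit 5) (nat_lit 380) (nat_lit 378) (nat_lit 262)) (XT.lf (nat_lit 76) (nat_lit 12632723068) (nat_lit 0) (nat_lit 487965833) (nat_lit 1216) (nat_lit 189051311) (nat_lit 392) (nat_lit 5) (nat_lit 391) (nat_lit 5) (nat_lit 407) (nat_lit 5) (nat_lit 381) (nat_lit 378) (nat_lit 261)))) (XT.nd (nat_lit 156) (nat_lit 0) (nat_lit 76) (XT.nd (nat_lit 78) (nat_lit 0) (nat_lit 0) (XT.lf (nat_lit 0) (nat_lit 445890353) (nat_lit 1216) (nat_lit 7282804193) (nat_lit 1292) (nat_lit 5770568608) (nat_lit 376) (nat_lit 5) (nat_lit 392) (nat_lit 5) (nat_lit 393) (nat_lit 5) (nat_lit 382) (nat_lit 378) (nat_lit 260)) (XT.lf (nat_lit 0) (nat_lit 1092823852)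 (nat_lit 1216) (nat_lit 379482179) (nat_lit 1292) (nat_lit 12222207300) (nat_lit 376) (nat_lit 5) (nat_lit 392) (nat_lit 5) (nat_lit 393) (nat_lit 5) (nat_lit 383) (nat_lit 378) (nat_lit 259))) (XT.nd (nat_lit 78) (nat_lit 0) (nat_lit 0) (XT.lf (nat_lit 0) (nat_lit 1859012703) (nat_lit 1216) (nat_lit 7086655133) (nat_lit 1292) (nat_lit 4946957756) (nat_lit 377) (nat_lit 5) (nat_lit 393) (nat_lit 5) (nat_lit 394) (nat_lit 5) (nat_lit 384) (nat_lit 378) (nat_lit 258)) (XT.lf (nat_lit 76) (nat_lit 96271443) (nat_lit 0) (nat_lit 2557125973) (nat_lit 1292) (nat_lit 11443127500) (nat_lit 378) (nat_lit 5) (nat_lit 377) (nat_lit 5) (nat_lit 394) (nat_lit 5) (nat_lit 385) (nat_lit 378) (nat_lit 257)))))) (XT.nd (nat_lit 624) (nat_lit 3040) (nat_lit 0) (XT.nd (nat_lit 312) (nat_lit 0) (nat_lit 152) (XT.nd (nat_lit 156) (nat_lit 0) (nat_lit 76) (XT.nd (nat_lit 78) (nat_lit 0) (nat_lit 0) (XT.lf (nat_lit 0) (nat_lit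 3568763814) (nat_lit 1216) (nat_lit 6713381737) (nat_lit 1292) (nat_lit 4021481164) (nat_lit 378) (nat_lit 5) (nat_lit 394) (nat_lit 5) (nat_lit 395) (nat_lit 5) (nat_lit 386) (nat_lit 378) (nat_lit 256)) (XT.lf (nat_lit 76) (nat_lit 772570304) (nat_lit 0) (nat_lit 3758375165) (nat_lit 1292) (nat_lit 9985415470) (nat_lit 379) (nat_lit 5) (nat_lit 378) (nat_lit 5) (nat_lit 395) (nat_lit 5) (nat_lit 387) (nat_lit 378) (nat_lit 255))) (XT.nd (nat_lit 78) (nat_lit 0) (nat_lit 0) (XT.lf (nat_lit 0) (nat_lit 5605868626) (nat_lit 1216) (nat_lit 6151482468) (nat_lit 1292) (nat_lit 2975609817) (nat_lit 379) (nat_lit 5) (nat_lit 395) (nat_lit 5) (nat_lit 396) (nat_lit 5) (nat_lit 388) (nat_lit 378) (nat_lit 254)) (XT.lf (nat_lit 76) (nat_lit 1654322881) (nat_lit 0) (nat_lit 5099159591) (nat_lit 1292) (nat_lit 8201363118) (nat_lit 380) (nat_lit 5) (nat_lit 379) (nat_lit 5) (nat_lit 396) (nat_lit 5) (nat_lit 389)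 (nat_lit 378) (nat_lit 253)))) (XT.nd (nat_lit 156) (nat_lit 0) (nat_lit 76) (XT.nd (nat_lit 78) (nat_lit 0) (nat_lit 0) (XT.lf (nat_lit 0) (nat_lit 8002803437) (nat_lit 1216) (nat_lit 5388295546) (nat_lit 1292) (nat_lit 1790269465) (nat_lit 380) (nat_lit 5) (nat_lit 396) (nat_lit 5) (nat_lit 397) (nat_lit 5) (nat_lit 390) (nat_lit 378) (nat_lit 252)) (XT.lf (nat_lit 76) (nat_lit 2755204255) (nat_lit 0) (nat_lit 6599370551) (nat_lit 1292) (nat_lit 6058163064) (nat_lit 381) (nat_lit 5) (nat_lit 380) (nat_lit 5) (nat_lit 397) (nat_lit 5) (nat_lit 391) (nat_lit 378) (nat_lit 251))) (XT.nd (nat_lit 78) (nat_lit 0) (nat_lit 0) (XT.lf (nat_lit 0) (nat_lit 10793940236) (nat_lit 1216) (nat_lit 4409953979) (nat_lit 1292) (nat_lit 445742932) (nat_lit 381) (nat_lit 5) (nat_lit 397) (nat_lit 5) (nat_lit 398) (nat_lit 5) (nat_lit 392) (nat_lit 378) (nat_lit 250)) (XT.lf (nat_lit 76) (nat_lit 4090152175) (nat_lit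 0) (nat_lit 8279616387) (nat_lit 1292) (nat_lit 3521076381) (nat_lit 382) (nat_lit 5) (nat_lit 381) (nat_lit 5) (nat_lit 398) (nat_lit 5) (nat_lit 393) (nat_lit 378) (nat_lit 249))))) (XT.nd (nat_lit 312) (nat_lit 1216) (nat_lit 0) (XT.nd (nat_lit 156) (nat_lit 912) (nat_lit 0) (XT.nd (nat_lit 78) (nat_lit 1140) (nat_lit 0) (XT.lf (nat_lit 76) (nat_lit 12926378983) (nat_lit 0) (nat_lit 1099891328) (nat_lit 1292) (nat_lit 2112016705) (nat_lit 382) (nat_lit 5) (nat_lit 381) (nat_lit 5) (nat_lit 398) (nat_lit 5) (nat_lit 394) (nat_lit 378) (nat_lit 248)) (XT.lf (nat_lit 0) (nat_lit 5675421136) (nat_lit 1216) (nat_lit 10161323385) (nat_lit 1292) (nat_lit 553279509) (nat_lit 366) (nat_lit 5) (nat_lit 382) (nat_lit 5) (nat_lit 383) (nat_lit 5) (nat_lit 395) (nat_lit 378) (nat_lit 247))) (XT.nd (nat_lit 78) (nat_lit 836) (nat_lit 0) (XT.lf (nat_lit 0) (nat_lit 1064661224) (nat_lit 1292) (nat_lit 1783928838)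 (nat_lit 76) (nat_lit 13799430433) (nat_lit 365) (nat_lit 5) (nat_lit 382) (nat_lit 5) (nat_lit 366) (nat_lit 5) (nat_lit 396) (nat_lit 378) (nat_lit 246)) (XT.lf (nat_lit 0) (nat_lit 2828013063) (nat_lit 912) (nat_lit 9410267946) (nat_lit 76) (nat_lit 4672071708) (nat_lit 354) (nat_lit 5) (nat_lit 366) (nat_lit 5) (nat_lit 355) (nat_lit 5) (nat_lit 397) (nat_lit 378) (nat_lit 245)))) (XT.nd (nat_lit 156) (nat_lit 608) (nat_lit 0) (XT.nd (nat_lit 78) (nat_lit 608) (nat_lit 0) (XT.lf (nat_lit 0) (nat_lit 4680525757) (nat_lit 912) (nat_lit 118631486) (nat_lit 76) (nat_lit 12380309853) (nat_lit 354) (nat_lit 5) (nat_lit 366) (nat_lit 5) (nat_lit 355) (nat_lit 5) (nat_lit 398) (nat_lit 378) (nat_lit 244)) (XT.lf (nat_lit 0) (nat_lit 6699793021) (nat_lit 684) (nat_lit 7852085878) (nat_lit 76) (nat_lit 2901440632) (nat_lit 346) (nat_lit 5) (nat_lit 355) (nat_lit 5) (nat_lit 347) (nat_lit 5) (nat_lit 399)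 (nat_lit 378) (nat_lit 243))) (XT.nd (nat_lit 78) (nat_lit 0) (nat_lit 0) (XT.lf (nat_lit 0) (nat_lit 1859172775) (nat_lit 608) (nat_lit 6977427530) (nat_lit 684) (nat_lit 8897078373) (nat_lit 338) (nat_lit 5) (nat_lit 346) (nat_lit 5) (nat_lit 347) (nat_lit 5) (nat_lit 400) (nat_lit 378) (nat_lit 242)) (XT.lf (nat_lit 0) (nat_lit 11116068467) (nat_lit 684) (nat_lit 6015595423) (nat_lit 76) (nat_lit 888428012) (nat_lit 338) (nat_lit 5) (nat_lit 347) (nat_lit 5) (nat_lit 339) (nat_lit 5) (nat_lit 401) (nat_lit 378) (nat_lit 241))))))))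
noncomputable def xc182 : XT := (XT.nd (nat_lit 2340) (nat_lit 4864) (nat_lit 0) (XT.nd (nat_lit 1170) (nat_lit 3496) (nat_lit 0) (XT.nd (nat_lit 546) (nat_lit 2356) (nat_lit 0) (XT.nd (nat_lit 234) (nat_lit 1140) (nat_lit 0) (XT.nd (nat_lit 78) (nat_lit 608) (nat_lit 0) (XT.lf (nat_lit 0) (nat_lit 4141547012) (nat_lit 532) (nat_lit 9422100868) (nat_lit 608) (nat_lit 4748457824) (nat_lit 331) (nat_lit 5) (nat_lit 338) (nat_lit 5) (nat_lit 339) (nat_lit 5) (nat_lit 402) (nat_lit 378) (nat_lit 240)) (XT.nd (nat_lit 78) (nat_lit 608) (nat_lit 0) (XT.lf (nat_lit 0) (nat_lit 14717539979) (nat_lit 532) (nat_lit 1418871888) (nat_lit 608) (nat_lit 2474915339) (nat_lit 331) (nat_lit 5) (nat_lit 338) (nat_lit 5) (nat_lit 339) (nat_lit 5) (nat_lit 403) (nat_lit 378) (nat_lit 239)) (XT.lf (nat_lit 0) (nat_lit 6748197921) (nat_lit 608) (nat_lit 12159900997) (nat_lit 684) (nat_lit 7774231) (nat_lit 323) (nat_lit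 5) (nat_lit 331) (nat_lit 5) (nat_lit 332) (nat_lit 5) (nat_lit 404) (nat_lit 378) (nat_lit 238)))) (XT.nd (nat_lit 156) (nat_lit 532) (nat_lit 0) (XT.nd (nat_lit 78) (nat_lit 532) (nat_lit 0) (XT.lf (nat_lit 0) (nat_lit 2529056559) (nat_lit 684) (nat_lit 1487156840) (nat_lit 76) (nat_lit 15211258173) (nat_lit 322) (nat_lit 5) (nat_lit 331) (nat_lit 5) (nat_lit 323) (nat_lit 5) (nat_lit 405) (nat_lit 378) (nat_lit 237)) (XT.lf (nat_lit 0) (nat_lit 5269567023) (nat_lit 608) (nat_lit 9894934284) (nat_lit 76) (nat_lit 4380082401) (nat_lit 315) (nat_lit 5) (nat_lit 323) (nat_lit 5) (nat_lit 316) (nat_lit 5) (nat_lit 406) (nat_lit 378) (nat_lit 236))) (XT.nd (nat_lit 78) (nat_lit 0) (nat_lit 0) (XT.lf (nat_lit 0) (nat_lit 1255741690) (nat_lit 532) (nat_lit 6895310789) (nat_lit 608) (nat_lit 11718393939) (nat_lit 308) (nat_lit 5) (nat_lit 315) (nat_lit 5) (nat_lit 316) (nat_lit 5) (nat_lit 407) (nat_lit 378)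 (nat_lit 235)) (XT.lf (nat_lit 0) (nat_lit 11227384533) (nat_lit 608) (nat_lit 7283143079) (nat_lit 76) (nat_lit 1690275337) (nat_lit 308) (nat_lit 5) (nat_lit 316) (nat_lit 5) (nat_lit 309) (nat_lit 5) (nat_lit 408) (nat_lit 378) (nat_lit 234))))) (XT.nd (nat_lit 312) (nat_lit 1292) (nat_lit 0) (XT.nd (nat_lit 156) (nat_lit 608) (nat_lit 0) (XT.nd (nat_lit 78) (nat_lit 0) (nat_lit 0) (XT.lf (nat_lit 0) (nat_lit 4395834336) (nat_lit 456) (nat_lit 10102835998) (nat_lit 532) (nat_lit 6040349928) (nat_lit 302) (nat_lit 5) (nat_lit 308) (nat_lit 5) (nat_lit 309) (nat_lit 5) (nat_lit 409) (nat_lit 378) (nat_lit 233)) (XT.lf (nat_lit 0) (nat_lit 16565557451) (nat_lit 456) (nat_lit 1368363893) (nat_lit 532) (nat_lit 2951487950) (nat_lit 302) (nat_lit 5) (nat_lit 308) (nat_lit 5) (nat_lit 309) (nat_lit 5) (nat_lit 410) (nat_lit 378) (nat_lit 232))) (XT.nd (nat_lit 78) (nat_lit 0) (nat_lit 0) (XT.lf (nat_lit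 0) (nat_lit 369013731) (nat_lit 608) (nat_lit 13310807615) (nat_lit 76) (nat_lit 7557998432) (nat_lit 294) (nat_lit 5) (nat_lit 302) (nat_lit 5) (nat_lit 295) (nat_lit 5) (nat_lit 411) (nat_lit 378) (nat_lit 231)) (XT.lf (nat_lit 0) (nat_lit 3779966488) (nat_lit 608) (nat_lit 1021797637) (nat_lit 76) (nat_lit 16796657030) (nat_lit 294) (nat_lit 5) (nat_lit 302) (nat_lit 5) (nat_lit 295) (nat_lit 5) (nat_lit 412) (nat_lit 378) (nat_lit 230)))) (XT.nd (nat_lit 156) (nat_lit 380) (nat_lit 0) (XT.nd (nat_lit 78) (nat_lit 456) (nat_lit 0) (XT.lf (nat_lit 0) (nat_lit 7442871567) (nat_lit 532) (nat_lit 10150885106) (nat_lit 76) (nat_lit 4371595189) (nat_lit 288) (nat_lit 5) (nat_lit 295) (nat_lit 5) (nat_lit 289) (nat_lit 5) (nat_lit 413) (nat_lit 378) (nat_lit 229)) (XT.lf (nat_lit 0) (nat_lit 2710236937) (nat_lit 456) (nat_lit 8582328175) (nat_lit 532) (nat_lit 11048418338) (nat_lit 282) (nat_lit 5) (nat_lit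 288) (nat_lit 5) (nat_lit 289) (nat_lit 5) (nat_lit 414) (nat_lit 378) (nat_lit 228))) (XT.nd (nat_lit 78) (nat_lit 380) (nat_lit 0) (XT.lf (nat_lit 0) (nat_lit 15360985267) (nat_lit 532) (nat_lit 6576167623) (nat_lit 76) (nat_lit 787634022) (nat_lit 282) (nat_lit 5) (nat_lit 289) (nat_lit 5) (nat_lit 283) (nat_lit 5) (nat_lit 415) (nat_lit 378) (nat_lit 227)) (XT.lf (nat_lit 0) (nat_lit 6911302378) (nat_lit 380) (nat_lit 12784762334) (nat_lit 456) (nat_lit 3419701566) (nat_lit 277) (nat_lit 5) (nat_lit 282) (nat_lit 5) (nat_lit 283) (nat_lit 5) (nat_lit 416) (nat_lit 378) (nat_lit 226)))))) (XT.nd (nat_lit 546) (nat_lit 1748) (nat_lit 0) (XT.nd (nat_lit 234) (nat_lit 836) (nat_lit 0) (XT.nd (nat_lit 78) (nat_lit 836) (nat_lit 0) (XT.lf (nat_lit 0) (nat_lit 690490783) (nat_lit 456) (nat_lit 2593803913) (nat_lit 76) (nat_lit 20232185648) (nat_lit 276) (nat_lit 5) (nat_lit 282) (nat_lit 5) (nat_lit 277)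 (nat_lit 5) (nat_lit 417) (nat_lit 378) (nat_lit 225)) (XT.nd (nat_lit 78) (nat_lit 380) (nat_lit 0) (XT.lf (nat_lit 0) (nat_lit 5024212549) (nat_lit 532) (nat_lit 12379539015) (nat_lit 76) (nat_lit 6519379828) (nat_lit 270) (nat_lit 5) (nat_lit 277) (nat_lit 5) (nat_lit 271) (nat_lit 5) (nat_lit 418) (nat_lit 378) (nat_lit 224)) (XT.lf (nat_lit 0) (nat_lit 1811123053) (nat_lit 380) (nat_lit 7746738206) (nat_lit 456) (nat_lit 14782023255) (nat_lit 265) (nat_lit 5) (nat_lit 270) (nat_lit 5) (nat_lit 271) (nat_lit 5) (nat_lit 419) (nat_lit 378) (nat_lit 223)))) (XT.nd (nat_lit 156) (nat_lit 456) (nat_lit 0) (XT.nd (nat_lit 78) (nat_lit 380) (nat_lit 0) (XT.lf (nat_lit 0) (nat_lit 14368537116) (nat_lit 456) (nat_lit 8115115113) (nat_lit 76) (nat_lit 2281257469) (nat_lit 265) (nat_lit 5) (nat_lit 271) (nat_lit 5) (nat_lit 266) (nat_lit 5) (nat_lit 420) (nat_lit 378) (nat_lit 222)) (XT.lf (nat_lit 0) (nat_lit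 6778143885) (nat_lit 380) (nat_lit 12681054428) (nat_lit 456) (nat_lit 5739417372) (nat_lit 260) (nat_lit 5) (nat_lit 265) (nat_lit 5) (nat_lit 266) (nat_lit 5) (nat_lit 421) (nat_lit 378) (nat_lit 221))) (XT.nd (nat_lit 78) (nat_lit 456) (nat_lit 0) (XT.lf (nat_lit 0) (nat_lit 22276272181) (nat_lit 380) (nat_lit 2502163665) (nat_lit 456) (nat_lit 864621312) (nat_lit 260) (nat_lit 5) (nat_lit 265) (nat_lit 5) (nat_lit 266) (nat_lit 5) (nat_lit 422) (nat_lit 378) (nat_lit 220)) (XT.lf (nat_lit 0) (nat_lit 4266150788) (nat_lit 456) (nat_lit 13843510286) (nat_lit 76) (nat_lit 7984247013) (nat_lit 254) (nat_lit 5) (nat_lit 260) (nat_lit 5) (nat_lit 255) (nat_lit 5) (nat_lit 423) (nat_lit 378) (nat_lit 219))))) (XT.nd (nat_lit 312) (nat_lit 1064) (nat_lit 0) (XT.nd (nat_lit 156) (nat_lit 304) (nat_lit 0) (XT.nd (nat_lit 78) (nat_lit 0) (nat_lit 0) (XT.lf (nat_lit 0) (nat_lit 1841884794) (nat_lit 380) (nat_lit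 7762500673) (nat_lit 456) (nat_lit 16951514736) (nat_lit 249) (nat_lit 5) (nat_lit 254) (nat_lit 5) (nat_lit 255) (nat_lit 5) (nat_lit 424) (nat_lit 378) (nat_lit 218)) (XT.lf (nat_lit 0) (nat_lit 15265947280) (nat_lit 456) (nat_lit 8783455436) (nat_lit 76) (nat_lit 2977453963) (nat_lit 249) (nat_lit 5) (nat_lit 255) (nat_lit 5) (nat_lit 250) (nat_lit 5) (nat_lit 425) (nat_lit 378) (nat_lit 217))) (XT.nd (nat_lit 78) (nat_lit 0) (nat_lit 0) (XT.lf (nat_lit 0) (nat_lit 7690165658) (nat_lit 304) (nat_lit 13552313456) (nat_lit 380) (nat_lit 6265109040) (nat_lit 245) (nat_lit 5) (nat_lit 249) (nat_lit 5) (nat_lit 250) (nat_lit 5) (nat_lit 426) (nat_lit 378) (nat_lit 216)) (XT.lf (nat_lit 0) (nat_lit 24830064585) (nat_lit 304) (nat_lit 2651370142) (nat_lit 380) (nat_lit 518813013) (nat_lit 245) (nat_lit 5) (nat_lit 249) (nat_lit 5) (nat_lit 250) (nat_lit 5) (nat_lit 427) (nat_lit 378) (nat_lit 215)))) (XT.nd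 (nat_lit 156) (nat_lit 304) (nat_lit 0) (XT.nd (nat_lit 78) (nat_lit 304) (nat_lit 0) (XT.lf (nat_lit 0) (nat_lit 5509765318) (nat_lit 456) (nat_lit 14392808713) (nat_lit 76) (nat_lit 8597097945) (nat_lit 239) (nat_lit 5) (nat_lit 245) (nat_lit 5) (nat_lit 240) (nat_lit 5) (nat_lit 428) (nat_lit 378) (nat_lit 214)) (XT.lf (nat_lit 0) (nat_lit 2972466561) (nat_lit 304) (nat_lit 8818062612) (nat_lit 380) (nat_lit 17220942988) (nat_lit 235) (nat_lit 5) (nat_lit 239) (nat_lit 5) (nat_lit 240) (nat_lit 5) (nat_lit 429) (nat_lit 378) (nat_lit 213))) (XT.nd (nat_lit 78) (nat_lit 304) (nat_lit 0) (XT.lf (nat_lit 0) (nat_lit 18426136530) (nat_lit 380) (nat_lit 8414927420) (nat_lit 76) (nat_lit 2692569785) (nat_lit 235) (nat_lit 5) (nat_lit 240) (nat_lit 5) (nat_lit 236) (nat_lit 5) (nat_lit 430) (nat_lit 378) (nat_lit 212)) (XT.lf (nat_lit 0) (nat_lit 9834731167) (nat_lit 304) (nat_lit 15602740903) (nat_lit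 380) (nat_lit 4628688286) (nat_lit 231) (nat_lit 5) (nat_lit 235) (nat_lit 5) (nat_lit 236) (nat_lit 5) (nat_lit 431) (nat_lit 378) (nat_lit 211))))))) (XT.nd (nat_lit 1170) (nat_lit 2204) (nat_lit 0) (XT.nd (nat_lit 546) (nat_lit 1368) (nat_lit 0) (XT.nd (nat_lit 234) (nat_lit 608) (nat_lit 0) (XT.nd (nat_lit 78) (nat_lit 608) (nat_lit 0) (XT.lf (nat_lit 0) (nat_lit 2085246919) (nat_lit 380) (nat_lit 1836002583) (nat_lit 76) (nat_lit 26690403971) (nat_lit 230) (nat_lit 5) (nat_lit 235) (nat_lit 5) (nat_lit 231) (nat_lit 5) (nat_lit 432) (nat_lit 378) (nat_lit 210)) (XT.nd (nat_lit 78) (nat_lit 304) (nat_lit 0) (XT.lf (nat_lit 0) (nat_lit 9149844517) (nat_lit 380) (nat_lit 13849921396) (nat_lit 76) (nat_lit 8165102321) (nat_lit 226) (nat_lit 5) (nat_lit 231) (nat_lit 5) (nat_lit 227) (nat_lit 5) (nat_lit 433) (nat_lit 378) (nat_lit 209)) (XT.lf (nat_lit 0) (nat_lit 5402761870) (nat_lit 304) (nat_lit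 11128142245) (nat_lit 380) (nat_lit 15200639600) (nat_lit 222) (nat_lit 5) (nat_lit 226) (nat_lit 5) (nat_lit 227) (nat_lit 5) (nat_lit 434) (nat_lit 378) (nat_lit 208)))) (XT.nd (nat_lit 156) (nat_lit 380) (nat_lit 0) (XT.nd (nat_lit 78) (nat_lit 228) (nat_lit 0) (XT.lf (nat_lit 0) (nat_lit 24280295968) (nat_lit 380) (nat_lit 6813685559) (nat_lit 76) (nat_lit 1216830920) (nat_lit 222) (nat_lit 5) (nat_lit 227) (nat_lit 5) (nat_lit 223) (nat_lit 5) (nat_lit 435) (nat_lit 378) (nat_lit 207)) (XT.lf (nat_lit 0) (nat_lit 13431358547) (nat_lit 228) (nat_lit 19065332522) (nat_lit 304) (nat_lit 403732528) (nat_lit 219) (nat_lit 5) (nat_lit 222) (nat_lit 5) (nat_lit 223) (nat_lit 5) (nat_lit 436) (nat_lit 378) (nat_lit 206))) (XT.nd (nat_lit 78) (nat_lit 0) (nat_lit 0) (XT.lf (nat_lit 0) (nat_lit 854692669) (nat_lit 304) (nat_lit 6524704834) (nat_lit 380) (nat_lit 26123987971) (nat_lit 214) (nat_lit 5) (nat_lit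 218) (nat_lit 5) (nat_lit 219) (nat_lit 5) (nat_lit 437) (nat_lit 378) (nat_lit 205)) (XT.lf (nat_lit 0) (nat_lit 15643192641) (nat_lit 380) (nat_lit 12006150350) (nat_lit 76) (nat_lit 6467314721) (nat_lit 214) (nat_lit 5) (nat_lit 219) (nat_lit 5) (nat_lit 215) (nat_lit 5) (nat_lit 438) (nat_lit 378) (nat_lit 204))))) (XT.nd (nat_lit 312) (nat_lit 532) (nat_lit 0) (XT.nd (nat_lit 156) (nat_lit 608) (nat_lit 0) (XT.nd (nat_lit 78) (nat_lit 0) (nat_lit 0) (XT.lf (nat_lit 0) (nat_lit 9366578029) (nat_lit 228) (nat_lit 14938393708) (nat_lit 304) (nat_lit 10438854277) (nat_lit 211) (nat_lit 5) (nat_lit 214) (nat_lit 5) (nat_lit 215) (nat_lit 5) (nat_lit 439) (nat_lit 378) (nat_lit 203)) (XT.lf (nat_lit 0) (nat_lit 31619408813) (nat_lit 228) (nat_lit 1723929662) (nat_lit 304) (nat_lit 2042968862) (nat_lit 211) (nat_lit 5) (nat_lit 214) (nat_lit 5) (nat_lit 215) (nat_lit 5) (nat_lit 440) (nat_lit 378) (nat_lit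 202))) (XT.nd (nat_lit 78) (nat_lit 228) (nat_lit 0) (XT.lf (nat_lit 0) (nat_lit 6768749408) (nat_lit 380) (nat_lit 17369710943) (nat_lit 76) (nat_lit 11898912882) (nat_lit 206) (nat_lit 5) (nat_lit 211) (nat_lit 5) (nat_lit 207) (nat_lit 5) (nat_lit 441) (nat_lit 378) (nat_lit 201)) (XT.lf (nat_lit 0) (nat_lit 5202384319) (nat_lit 228) (nat_lit 10702484727) (nat_lit 304) (nat_lit 20799461893) (nat_lit 203) (nat_lit 5) (nat_lit 206) (nat_lit 5) (nat_lit 207) (nat_lit 5) (nat_lit 442) (nat_lit 378) (nat_lit 200)))) (XT.nd (nat_lit 156) (nat_lit 304) (nat_lit 0) (XT.nd (nat_lit 78) (nat_lit 228) (nat_lit 0) (XT.lf (nat_lit 0) (nat_lit 25518012824) (nat_lit 304) (nat_lit 8617359957) (nat_lit 76) (nat_lit 3249836377) (nat_lit 203) (nat_lit 5) (nat_lit 207) (nat_lit 5) (nat_lit 204) (nat_lit 5) (nat_lit 443) (nat_lit 378) (nat_lit 199)) (XT.lf (nat_lit 0) (nat_lit 15136227639) (nat_lit 228) (nat_lit 20530567017)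 (nat_lit 304) (nat_lit 2412301758) (nat_lit 200) (nat_lit 5) (nat_lit 203) (nat_lit 5) (nat_lit 204) (nat_lit 5) (nat_lit 444) (nat_lit 378) (nat_lit 198))) (XT.nd (nat_lit 78) (nat_lit 0) (nat_lit 0) (XT.lf (nat_lit 0) (nat_lit 927748931) (nat_lit 228) (nat_lit 6348123064) (nat_lit 304) (nat_lit 31513037753) (nat_lit 196) (nat_lit 5) (nat_lit 199) (nat_lit 5) (nat_lit 200) (nat_lit 5) (nat_lit 445) (nat_lit 378) (nat_lit 197)) (XT.lf (nat_lit 0) (nat_lit 17515401712) (nat_lit 304) (nat_lit 13640831393) (nat_lit 76) (nat_lit 8353791982) (nat_lit 196) (nat_lit 5) (nat_lit 200) (nat_lit 5) (nat_lit 197) (nat_lit 5) (nat_lit 446) (nat_lit 378) (nat_lit 196)))))) (XT.nd (nat_lit 624) (nat_lit 988) (nat_lit 0) (XT.nd (nat_lit 312) (nat_lit 456) (nat_lit 0) (XT.nd (nat_lit 156) (nat_lit 532) (nat_lit 0) (XT.nd (nat_lit 78) (nat_lit 0) (nat_lit 0) (XT.lf (nat_lit 0) (nat_lit 11460106934) (nat_lit 228) (nat_lit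 16770971835) (nat_lit 304) (nat_lit 12016626274) (nat_lit 193) (nat_lit 5) (nat_lit 196) (nat_lit 5) (nat_lit 197) (nat_lit 5) (nat_lit 447) (nat_lit 378) (nat_lit 195)) (XT.lf (nat_lit 0) (nat_lit 37586987279) (nat_lit 228) (nat_lit 1814985242) (nat_lit 304) (nat_lit 1601530486) (nat_lit 193) (nat_lit 5) (nat_lit 196) (nat_lit 5) (nat_lit 197) (nat_lit 5) (nat_lit 448) (nat_lit 378) (nat_lit 194))) (XT.nd (nat_lit 78) (nat_lit 228) (nat_lit 0) (XT.lf (nat_lit 0) (nat_lit 9299464751) (nat_lit 304) (nat_lit 18834886796) (nat_lit 76) (nat_lit 13634445775) (nat_lit 189) (nat_lit 5) (nat_lit 193) (nat_lit 5) (nat_lit 190) (nat_lit 5) (nat_lit 449) (nat_lit 378) (nat_lit 193)) (XT.lf (nat_lit 0) (nat_lit 7698304173) (nat_lit 228) (nat_lit 12919913833) (nat_lit 304) (nat_lit 21934669237) (nat_lit 186) (nat_lit 5) (nat_lit 189) (nat_lit 5) (nat_lit 190) (nat_lit 5) (nat_lit 450) (nat_lit 378) (nat_lit 192))))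 (XT.nd (nat_lit 156) (nat_lit 228) (nat_lit 0) (XT.nd (nat_lit 78) (nat_lit 228) (nat_lit 0) (XT.lf (nat_lit 0) (nat_lit 32491185397) (nat_lit 304) (nat_lit 7976176167) (nat_lit 76) (nat_lit 2886698753) (nat_lit 186) (nat_lit 5) (nat_lit 190) (nat_lit 5) (nat_lit 187) (nat_lit 5) (nat_lit 451) (nat_lit 378) (nat_lit 191)) (XT.lf (nat_lit 0) (nat_lit 849710148) (nat_lit 228) (nat_lit 24214338130) (nat_lit 76) (nat_lit 19105488414) (nat_lit 183) (nat_lit 5) (nat_lit 186) (nat_lit 5) (nat_lit 184) (nat_lit 5) (nat_lit 452) (nat_lit 378) (nat_lit 190))) (XT.nd (nat_lit 78) (nat_lit 0) (nat_lit 0) (XT.lf (nat_lit 0) (nat_lit 3841099677) (nat_lit 228) (nat_lit 8968757455) (nat_lit 304) (nat_lit 32192958109) (nat_lit 180) (nat_lit 5) (nat_lit 183) (nat_lit 5) (nat_lit 184) (nat_lit 5) (nat_lit 453) (nat_lit 378) (nat_lit 189)) (XT.lf (nat_lit 0) (nat_lit 25445167850) (nat_lit 304) (nat_lit 12701235220) (nat_lit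 76) (nat_lit 7705198296) (nat_lit 180) (nat_lit 5) (nat_lit 184) (nat_lit 5) (nat_lit 181) (nat_lit 5) (nat_lit 454) (nat_lit 378) (nat_lit 188))))) (XT.nd (nat_lit 312) (nat_lit 380) (nat_lit 0) (XT.nd (nat_lit 156) (nat_lit 380) (nat_lit 0) (XT.nd (nat_lit 78) (nat_lit 76) (nat_lit 0) (XT.lf (nat_lit 0) (nat_lit 16846706370) (nat_lit 152) (nat_lit 21859955334) (nat_lit 228) (nat_lit 8011775656) (nat_lit 178) (nat_lit 5) (nat_lit 180) (nat_lit 5) (nat_lit 181) (nat_lit 5) (nat_lit 455) (nat_lit 378) (nat_lit 187)) (XT.lf (nat_lit 0) (nat_lit 4787861103) (nat_lit 228) (nat_lit 119260383) (nat_lit 76) (nat_lit 42699008162) (nat_lit 177) (nat_lit 5) (nat_lit 180) (nat_lit 5) (nat_lit 178) (nat_lit 5) (nat_lit 456) (nat_lit 378) (nat_lit 186))) (XT.nd (nat_lit 78) (nat_lit 152) (nat_lit 0) (XT.lf (nat_lit 0) (nat_lit 18229786028) (nat_lit 304) (nat_lit 17587457281) (nat_lit 76) (nat_lit 12688249824) (nat_lit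 174) (nat_lit 5) (nat_lit 178) (nat_lit 5) (nat_lit 175) (nat_lit 5) (nat_lit 457) (nat_lit 378) (nat_lit 185)) (XT.lf (nat_lit 0) (nat_lit 13669091525) (nat_lit 152) (nat_lit 18583591656) (nat_lit 228) (nat_lit 17173822910) (nat_lit 172) (nat_lit 5) (nat_lit 174) (nat_lit 5) (nat_lit 175) (nat_lit 5) (nat_lit 458) (nat_lit 378) (nat_lit 184)))) (XT.nd (nat_lit 156) (nat_lit 152) (nat_lit 0) (XT.nd (nat_lit 78) (nat_lit 228) (nat_lit 0) (XT.lf (nat_lit 0) (nat_lit 46217783910) (nat_lit 152) (nat_lit 652642411) (nat_lit 228) (nat_lit 3499498343) (nat_lit 172) (nat_lit 5) (nat_lit 174) (nat_lit 5) (nat_lit 175) (nat_lit 5) (nat_lit 459) (nat_lit 378) (nat_lit 183)) (XT.lf (nat_lit 0) (nat_lit 10827508160) (nat_lit 228) (nat_lit 22648692059) (nat_lit 76) (nat_lit 17848922931) (nat_lit 169) (nat_lit 5) (nat_lit 172) (nat_lit 5) (nat_lit 170) (nat_lit 5) (nat_lit 460) (nat_lit 378) (nat_lit 182))) (XT.nd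 (nat_lit 78) (nat_lit 0) (nat_lit 0) (XT.lf (nat_lit 0) (nat_lit 10423137461) (nat_lit 152) (nat_lit 15236493932) (nat_lit 228) (nat_lit 26643937454) (nat_lit 167) (nat_lit 5) (nat_lit 169) (nat_lit 5) (nat_lit 170) (nat_lit 5) (nat_lit 461) (nat_lit 378) (nat_lit 181)) (XT.lf (nat_lit 0) (nat_lit 41198478454) (nat_lit 228) (nat_lit 8395502827) (nat_lit 76) (nat_lit 3709533830) (nat_lit 167) (nat_lit 5) (nat_lit 170) (nat_lit 5) (nat_lit 168) (nat_lit 5) (nat_lit 462) (nat_lit 378) (nat_lit 180))))))))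
noncomputable def xc183 : XT := (XT.nd (nat_lit 46956) (nat_lit 0) (nat_lit 12008) (XT.nd (nat_lit 1170) (nat_lit 1064) (nat_lit 0) (XT.nd (nat_lit 546) (nat_lit 836) (nat_lit 0) (XT.nd (nat_lit 234) (nat_lit 532) (nat_lit 0) (XT.nd (nat_lit 78) (nat_lit 152) (nat_lit 0) (XT.lf (nat_lit 0) (nat_lit 3219906233) (nat_lit 228) (nat_lit 27899476412) (nat_lit 76) (nat_lit 23201073071) (nat_lit 164) (nat_lit 5) (nat_lit 167) (nat_lit 5) (nat_lit 165) (nat_lit 5) (nat_lit 463) (nat_lit 378) (nat_lit 179)) (XT.nd (nat_lit 78) (nat_lit 0) (nat_lit 0) (XT.lf (nat_lit 0) (nat_lit 7100730474) (nat_lit 152) (nat_lit 11811205993) (nat_lit 228) (nat_lit 36447853367) (nat_lit 162) (nat_lit 5) (nat_lit 164) (nat_lit 5) (nat_lit 165) (nat_lit 5) (nat_lit 464) (nat_lit 378) (nat_lit 178)) (XT.lf (nat_lit 0) (nat_lit 35433658718) (nat_lit 228) (nat_lit 12785266857) (nat_lit 76) (nat_lit 8200610467) (nat_lit 162) (nat_lit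 5) (nat_lit 165) (nat_lit 5) (nat_lit 163) (nat_lit 5) (nat_lit 465) (nat_lit 378) (nat_lit 177)))) (XT.nd (nat_lit 156) (nat_lit 152) (nat_lit 0) (XT.nd (nat_lit 78) (nat_lit 228) (nat_lit 0) (XT.lf (nat_lit 0) (nat_lit 24100405487) (nat_lit 152) (nat_lit 28696109630) (nat_lit 228) (nat_lit 4704195046) (nat_lit 160) (nat_lit 5) (nat_lit 162) (nat_lit 5) (nat_lit 163) (nat_lit 5) (nat_lit 466) (nat_lit 378) (nat_lit 176)) (XT.lf (nat_lit 0) (nat_lit 3693411946) (nat_lit 152) (nat_lit 8299842064) (nat_lit 228) (nat_lit 46612702955) (nat_lit 157) (nat_lit 5) (nat_lit 159) (nat_lit 5) (nat_lit 160) (nat_lit 5) (nat_lit 467) (nat_lit 378) (nat_lit 175))) (XT.nd (nat_lit 78) (nat_lit 152) (nat_lit 0) (XT.lf (nat_lit 0) (nat_lit 29556744781) (nat_lit 228) (nat_lit 17327400789) (nat_lit 76) (nat_lit 12845028279) (nat_lit 157) (nat_lit 5) (nat_lit 160) (nat_lit 5) (nat_lit 158) (nat_lit 5) (nat_lit 468) (nat_lit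 378) (nat_lit 174)) (XT.lf (nat_lit 0) (nat_lit 21721454976) (nat_lit 152) (nat_lit 26213643272) (nat_lit 228) (nat_lit 12942350253) (nat_lit 155) (nat_lit 5) (nat_lit 157) (nat_lit 5) (nat_lit 158) (nat_lit 5) (nat_lit 469) (nat_lit 378) (nat_lit 173))))) (XT.nd (nat_lit 312) (nat_lit 456) (nat_lit 0) (XT.nd (nat_lit 156) (nat_lit 152) (nat_lit 0) (XT.nd (nat_lit 78) (nat_lit 0) (nat_lit 0) (XT.lf (nat_lit 0) (nat_lit 192349198) (nat_lit 152) (nat_lit 4694067383) (nat_lit 228) (nat_lit 57167103020) (nat_lit 152) (nat_lit 5) (nat_lit 154) (nat_lit 5) (nat_lit 155) (nat_lit 5) (nat_lit 470) (nat_lit 378) (nat_lit 172)) (XT.lf (nat_lit 0) (nat_lit 23554172603) (nat_lit 228) (nat_lit 22034755672) (nat_lit 76) (nat_lit 17655172658) (nat_lit 152) (nat_lit 5) (nat_lit 155) (nat_lit 5) (nat_lit 153) (nat_lit 5) (nat_lit 471) (nat_lit 378) (nat_lit 171))) (XT.nd (nat_lit 78) (nat_lit 0) (nat_lit 0) (XT.lf (nat_lit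 0) (nat_lit 19311425913) (nat_lit 152) (nat_lit 23699730127) (nat_lit 228) (nat_lit 21452367823) (nat_lit 150) (nat_lit 5) (nat_lit 152) (nat_lit 5) (nat_lit 153) (nat_lit 5) (nat_lit 472) (nat_lit 378) (nat_lit 170)) (XT.lf (nat_lit 0) (nat_lit 62344351484) (nat_lit 152) (nat_lit 927124534) (nat_lit 228) (nat_lit 2441464651) (nat_lit 150) (nat_lit 5) (nat_lit 152) (nat_lit 5) (nat_lit 153) (nat_lit 5) (nat_lit 473) (nat_lit 378) (nat_lit 169)))) (XT.nd (nat_lit 156) (nat_lit 152) (nat_lit 0) (XT.nd (nat_lit 78) (nat_lit 152) (nat_lit 0) (XT.lf (nat_lit 0) (nat_lit 17411723445) (nat_lit 152) (nat_lit 26920836267) (nat_lit 76) (nat_lit 22644145040) (nat_lit 148) (nat_lit 5) (nat_lit 150) (nat_lit 5) (nat_lit 149) (nat_lit 5) (nat_lit 474) (nat_lit 378) (nat_lit 168)) (XT.lf (nat_lit 0) (nat_lit 16864914720) (nat_lit 152) (nat_lit 21149354618) (nat_lit 228) (nat_lit 30257302235) (nat_lit 146) (nat_lit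 5) (nat_lit 148) (nat_lit 5) (nat_lit 149) (nat_lit 5) (nat_lit 475) (nat_lit 378) (nat_lit 167))) (XT.nd (nat_lit 78) (nat_lit 152) (nat_lit 0) (XT.lf (nat_lit 0) (nat_lit 59532860830) (nat_lit 228) (nat_lit 7115219373) (nat_lit 76) (nat_lit 2948265120) (nat_lit 146) (nat_lit 5) (nat_lit 149) (nat_lit 5) (nat_lit 147) (nat_lit 4) (nat_lit 476) (nat_lit 378) (nat_lit 166)) (XT.lf (nat_lit 0) (nat_lit 11114481783) (nat_lit 152) (nat_lit 31999847384) (nat_lit 76) (nat_lit 27825801998) (nat_lit 144) (nat_lit 5) (nat_lit 146) (nat_lit 5) (nat_lit 145) (nat_lit 5) (nat_lit 477) (nat_lit 378) (nat_lit 165)))))) (XT.nd (nat_lit 624) (nat_lit 304) (nat_lit 0) (XT.nd (nat_lit 312) (nat_lit 304) (nat_lit 0) (XT.nd (nat_lit 156) (nat_lit 304) (nat_lit 0) (XT.nd (nat_lit 78) (nat_lit 0) (nat_lit 0) (XT.lf (nat_lit 0) (nat_lit 14376312894) (nat_lit 152) (nat_lit 18557242874) (nat_lit 228) (nat_lit 39381444617) (nat_lit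 142) (nat_lit 5) (nat_lit 144) (nat_lit 5) (nat_lit 145) (nat_lit 5) (nat_lit 478) (nat_lit 378) (nat_lit 164)) (XT.lf (nat_lit 0) (nat_lit 55795580625) (nat_lit 228) (nat_lit 10994764204) (nat_lit 76) (nat_lit 6929119492) (nat_lit 142) (nat_lit 5) (nat_lit 145) (nat_lit 5) (nat_lit 143) (nat_lit 4) (nat_lit 479) (nat_lit 378) (nat_lit 163))) (XT.nd (nat_lit 78) (nat_lit 152) (nat_lit 0) (XT.lf (nat_lit 0) (nat_lit 4646790411) (nat_lit 152) (nat_lit 37286742553) (nat_lit 76) (nat_lit 33214797462) (nat_lit 140) (nat_lit 5) (nat_lit 142) (nat_lit 5) (nat_lit 141) (nat_lit 5) (nat_lit 480) (nat_lit 378) (nat_lit 162)) (XT.lf (nat_lit 0) (nat_lit 11839788470) (nat_lit 152) (nat_lit 15917850434) (nat_lit 228) (nat_lit 48850400490) (nat_lit 138) (nat_lit 5) (nat_lit 140) (nat_lit 5) (nat_lit 141) (nat_lit 5) (nat_lit 481) (nat_lit 378) (nat_lit 161)))) (XT.nd (nat_lit 156) (nat_lit 228) (nat_lit 0) (XT.nd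 (nat_lit 78) (nat_lit 76) (nat_lit 0) (XT.lf (nat_lit 0) (nat_lit 52044010112) (nat_lit 228) (nat_lit 15009056401) (nat_lit 76) (nat_lit 11044007200) (nat_lit 138) (nat_lit 5) (nat_lit 141) (nat_lit 5) (nat_lit 139) (nat_lit 4) (nat_lit 482) (nat_lit 378) (nat_lit 160)) (XT.lf (nat_lit 0) (nat_lit 36798555984) (nat_lit 76) (nat_lit 40769202991) (nat_lit 152) (nat_lit 2047756492) (nat_lit 137) (nat_lit 5) (nat_lit 138) (nat_lit 5) (nat_lit 139) (nat_lit 4) (nat_lit 483) (nat_lit 378) (nat_lit 159))) (XT.nd (nat_lit 78) (nat_lit 0) (nat_lit 0) (XT.lf (nat_lit 0) (nat_lit 9249266805) (nat_lit 152) (nat_lit 13225348574) (nat_lit 228) (nat_lit 58691172452) (nat_lit 134) (nat_lit 5) (nat_lit 136) (nat_lit 5) (nat_lit 137) (nat_lit 5) (nat_lit 484) (nat_lit 378) (nat_lit 158)) (XT.lf (nat_lit 0) (nat_lit 48271193374) (nat_lit 228) (nat_lit 19169386155) (nat_lit 76) (nat_lit 15303989808) (nat_lit 134) (nat_lit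 5) (nat_lit 137) (nat_lit 5) (nat_lit 135) (nat_lit 4) (nat_lit 485) (nat_lit 378) (nat_lit 157))))) (XT.nd (nat_lit 44850) (nat_lit 0) (nat_lit 18620) (XT.nd (nat_lit 156) (nat_lit 0) (nat_lit 0) (XT.nd (nat_lit 78) (nat_lit 228) (nat_lit 0) (XT.lf (nat_lit 0) (nat_lit 35721578867) (nat_lit 76) (nat_lit 39591948793) (nat_lit 152) (nat_lit 9043030859) (nat_lit 133) (nat_lit 5) (nat_lit 134) (nat_lit 5) (nat_lit 135) (nat_lit 4) (nat_lit 486) (nat_lit 378) (nat_lit 156)) (XT.lf (nat_lit 0) (nat_lit 6598410594) (nat_lit 152) (nat_lit 10473609236) (nat_lit 228) (nat_lit 68932248058) (nat_lit 130) (nat_lit 5) (nat_lit 132) (nat_lit 5) (nat_lit 133) (nat_lit 5) (nat_lit 487) (nat_lit 378) (nat_lit 155))) (XT.nd (nat_lit 44616) (nat_lit 0) (nat_lit 19836) (XT.lf (nat_lit 0) (nat_lit 44469913934) (nat_lit 228) (nat_lit 23487627212) (nat_lit 76) (nat_lit 19720746906) (nat_lit 130) (nat_lit 5) (nat_lit 133)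 (nat_lit 5) (nat_lit 131) (nat_lit 4) (nat_lit 488) (nat_lit 378) (nat_lit 154)) (XT.lf (nat_lit 0) (nat_lit 3070167318) (nat_lit 0) (nat_lit 3070167318) (nat_lit 1140) (nat_lit 419986123) (nat_lit 391) (nat_lit 5) (nat_lit 391) (nat_lit 3) (nat_lit 406) (nat_lit 3) (nat_lit 379) (nat_lit 379) (nat_lit 262)))) (XT.nd (nat_lit 156) (nat_lit 0) (nat_lit 0) (XT.nd (nat_lit 78) (nat_lit 1216) (nat_lit 0) (XT.lf (nat_lit 0) (nat_lit 12856312841) (nat_lit 1140) (nat_lit 416436865) (nat_lit 1216) (nat_lit 32958430) (nat_lit 391) (nat_lit 5) (nat_lit 406) (nat_lit 3) (nat_lit 407) (nat_lit 5) (nat_lit 380) (nat_lit 379) (nat_lit 261)) (XT.lf (nat_lit 0) (nat_lit 62006997) (nat_lit 1216) (nat_lit 7093437632) (nat_lit 1292) (nat_lit 6337650038) (nat_lit 375) (nat_lit 5) (nat_lit 391) (nat_lit 5) (nat_lit 392) (nat_lit 5) (nat_lit 381) (nat_lit 379) (nat_lit 260))) (XT.nd (nat_lit 78) (nat_lit 0) (nat_lit 76)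 (XT.lf (nat_lit 0) (nat_lit 568993161) (nat_lit 1216) (nat_lit 270078638) (nat_lit 1292) (nat_lit 12847219285) (nat_lit 375) (nat_lit 5) (nat_lit 391) (nat_lit 5) (nat_lit 392) (nat_lit 5) (nat_lit 382) (nat_lit 379) (nat_lit 259)) (XT.lf (nat_lit 0) (nat_lit 1198016704) (nat_lit 1216) (nat_lit 7054744466) (nat_lit 1292) (nat_lit 5629317389) (nat_lit 376) (nat_lit 5) (nat_lit 392) (nat_lit 5) (nat_lit 393) (nat_lit 5) (nat_lit 383) (nat_lit 379) (nat_lit 258))))))) (XT.nd (nat_lit 1170) (nat_lit 5016) (nat_lit 0) (XT.nd (nat_lit 546) (nat_lit 1672) (nat_lit 0) (XT.nd (nat_lit 234) (nat_lit 0) (nat_lit 152) (XT.nd (nat_lit 78) (nat_lit 0) (nat_lit 76) (XT.lf (nat_lit 76) (nat_lit 43520314) (nat_lit 0) (nat_lit 1799739257) (nat_lit 1292) (nat_lit 12240559629) (nat_lit 377) (nat_lit 5) (nat_lit 376) (nat_lit 5) (nat_lit 393) (nat_lit 5) (nat_lit 384) (nat_lit 379) (nat_lit 257)) (XT.nd (nat_lit 78) (nat_lit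 0) (nat_lit 0) (XT.lf (nat_lit 0) (nat_lit 2612645282) (nat_lit 1216) (nat_lit 6846346603) (nat_lit 1292) (nat_lit 4829476608) (nat_lit 377) (nat_lit 5) (nat_lit 393) (nat_lit 5) (nat_lit 394) (nat_lit 5) (nat_lit 385) (nat_lit 379) (nat_lit 256)) (XT.lf (nat_lit 76) (nat_lit 547627495) (nat_lit 0) (nat_lit 2867218907) (nat_lit 1292) (nat_lit 11084118850) (nat_lit 378) (nat_lit 5) (nat_lit 377) (nat_lit 5) (nat_lit 394) (nat_lit 5) (nat_lit 386) (nat_lit 379) (nat_lit 255)))) (XT.nd (nat_lit 156) (nat_lit 0) (nat_lit 76) (XT.nd (nat_lit 78) (nat_lit 0) (nat_lit 0) (XT.lf (nat_lit 0) (nat_lit 4335636126) (nat_lit 1216) (nat_lit 6457339788) (nat_lit 1292) (nat_lit 3919965321) (nat_lit 378) (nat_lit 5) (nat_lit 394) (nat_lit 5) (nat_lit 395) (nat_lit 5) (nat_lit 387) (nat_lit 379) (nat_lit 254)) (XT.lf (nat_lit 76) (nat_lit 1248706075) (nat_lit 0) (nat_lit 4063113522) (nat_lit 1292) (nat_lit 9620683798)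 (nat_lit 379) (nat_lit 5) (nat_lit 378) (nat_lit 5) (nat_lit 395) (nat_lit 5) (nat_lit 388) (nat_lit 379) (nat_lit 253))) (XT.nd (nat_lit 78) (nat_lit 0) (nat_lit 0) (XT.lf (nat_lit 0) (nat_lit 6398413876) (nat_lit 1216) (nat_lit 5875684678) (nat_lit 1292) (nat_lit 2882120109) (nat_lit 379) (nat_lit 5) (nat_lit 395) (nat_lit 5) (nat_lit 396) (nat_lit 5) (nat_lit 389) (nat_lit 379) (nat_lit 252)) (XT.lf (nat_lit 76) (nat_lit 2159781672) (nat_lit 0) (nat_lit 5406870662) (nat_lit 1292) (nat_lit 7818521662) (nat_lit 380) (nat_lit 5) (nat_lit 379) (nat_lit 5) (nat_lit 396) (nat_lit 5) (nat_lit 390) (nat_lit 379) (nat_lit 251))))) (XT.nd (nat_lit 312) (nat_lit 1976) (nat_lit 0) (XT.nd (nat_lit 156) (nat_lit 0) (nat_lit 76) (XT.nd (nat_lit 78) (nat_lit 0) (nat_lit 0) (XT.lf (nat_lit 0) (nat_lit 8834225374) (nat_lit 1216) (nat_lit 5088164329) (nat_lit 1292) (nat_lit 1696679664) (nat_lit 380) (nat_lit 5) (nat_lit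 396) (nat_lit 5) (nat_lit 397) (nat_lit 5) (nat_lit 391) (nat_lit 379) (nat_lit 250)) (XT.lf (nat_lit 76) (nat_lit 3295113210) (nat_lit 0) (nat_lit 6918608635) (nat_lit 1292) (nat_lit 5644042867) (nat_lit 381) (nat_lit 5) (nat_lit 380) (nat_lit 5) (nat_lit 397) (nat_lit 5) (nat_lit 392) (nat_lit 379) (nat_lit 249))) (XT.nd (nat_lit 78) (nat_lit 0) (nat_lit 0) (XT.lf (nat_lit 0) (nat_lit 11678286791) (nat_lit 1216) (nat_lit 4080336367) (nat_lit 1292) (nat_lit 343687252) (nat_lit 381) (nat_lit 5) (nat_lit 397) (nat_lit 5) (nat_lit 398) (nat_lit 5) (nat_lit 393) (nat_lit 379) (nat_lit 248)) (XT.lf (nat_lit 76) (nat_lit 4670244381) (nat_lit 0) (nat_lit 8619216208) (nat_lit 1292) (nat_lit 3061651733) (nat_lit 382) (nat_lit 5) (nat_lit 381) (nat_lit 5) (nat_lit 398) (nat_lit 5) (nat_lit 394) (nat_lit 379) (nat_lit 247)))) (XT.nd (nat_lit 156) (nat_lit 912) (nat_lit 0) (XT.nd (nat_lit 78) (nat_lit 1140) (nat_lit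 0) (XT.lf (nat_lit 76) (nat_lit 13758236023) (nat_lit 0) (nat_lit 1221442757) (nat_lit 1292) (nat_lit 1626778236) (nat_lit 382) (nat_lit 5) (nat_lit 381) (nat_lit 5) (nat_lit 398) (nat_lit 5) (nat_lit 395) (nat_lit 379) (nat_lit 246)) (XT.lf (nat_lit 0) (nat_lit 6302060710) (nat_lit 1216) (nat_lit 10530453818) (nat_lit 1292) (nat_lit 33590193) (nat_lit 366) (nat_lit 5) (nat_lit 382) (nat_lit 5) (nat_lit 383) (nat_lit 5) (nat_lit 396) (nat_lit 379) (nat_lit 245))) (XT.nd (nat_lit 78) (nat_lit 836) (nat_lit 0) (XT.lf (nat_lit 0) (nat_lit 1607108630) (nat_lit 1292) (nat_lit 1384202195) (nat_lit 76) (nat_lit 14140835058) (nat_lit 365) (nat_lit 5) (nat_lit 382) (nat_lit 5) (nat_lit 366) (nat_lit 5) (nat_lit 397) (nat_lit 379) (nat_lit 244)) (XT.lf (nat_lit 0) (nat_lit 3412314320) (nat_lit 912) (nat_lit 9228284772) (nat_lit 76) (nat_lit 4762080381) (nat_lit 354) (nat_lit 5) (nat_lit 366) (nat_lit 5) (nat_lit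 355) (nat_lit 5) (nat_lit 398) (nat_lit 379) (nat_lit 243)))))) (XT.nd (nat_lit 624) (nat_lit 2584) (nat_lit 0) (XT.nd (nat_lit 312) (nat_lit 1216) (nat_lit 0) (XT.nd (nat_lit 156) (nat_lit 608) (nat_lit 0) (XT.nd (nat_lit 78) (nat_lit 0) (nat_lit 0) (XT.lf (nat_lit 0) (nat_lit 335117078) (nat_lit 608) (nat_lit 4973959263) (nat_lit 684) (nat_lit 12371130724) (nat_lit 346) (nat_lit 5) (nat_lit 354) (nat_lit 5) (nat_lit 355) (nat_lit 5) (nat_lit 399) (nat_lit 379) (nat_lit 242)) (XT.lf (nat_lit 0) (nat_lit 7375590974) (nat_lit 684) (nat_lit 7626770987) (nat_lit 76) (nat_lit 2960313031) (nat_lit 346) (nat_lit 5) (nat_lit 355) (nat_lit 5) (nat_lit 347) (nat_lit 5) (nat_lit 400) (nat_lit 379) (nat_lit 241))) (XT.nd (nat_lit 78) (nat_lit 0) (nat_lit 0) (XT.lf (nat_lit 0) (nat_lit 2371307019) (nat_lit 608) (nat_lit 7195753013) (nat_lit 684) (nat_lit 8684668156) (nat_lit 338) (nat_lit 5) (nat_lit 346) (nat_lit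 5) (nat_lit 347) (nat_lit 5) (nat_lit 401) (nat_lit 379) (nat_lit 240)) (XT.lf (nat_lit 0) (nat_lit 11901273995) (nat_lit 684) (nat_lit 5739357993) (nat_lit 76) (nat_lit 906510966) (nat_lit 338) (nat_lit 5) (nat_lit 347) (nat_lit 5) (nat_lit 339) (nat_lit 5) (nat_lit 402) (nat_lit 379) (nat_lit 239)))) (XT.nd (nat_lit 156) (nat_lit 684) (nat_lit 0) (XT.nd (nat_lit 78) (nat_lit 0) (nat_lit 0) (XT.lf (nat_lit 0) (nat_lit 4718021212) (nat_lit 532) (nat_lit 9695449674) (nat_lit 608) (nat_lit 4434710582) (nat_lit 331) (nat_lit 5) (nat_lit 338) (nat_lit 5) (nat_lit 339) (nat_lit 5) (nat_lit 403) (nat_lit 379) (nat_lit 238)) (XT.lf (nat_lit 0) (nat_lit 15598122285) (nat_lit 532) (nat_lit 1452395113) (nat_lit 608) (nat_lit 2106249229) (nat_lit 331) (nat_lit 5) (nat_lit 338) (nat_lit 5) (nat_lit 339) (nat_lit 5) (nat_lit 404) (nat_lit 379) (nat_lit 237))) (XT.nd (nat_lit 78) (nat_lit 0) (nat_lit 0) (XT.lf (nat_lit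 0) (nat_lit 418199741) (nat_lit 684) (nat_lit 12076709782) (nat_lit 76) (nat_lit 6975660601) (nat_lit 322) (nat_lit 5) (nat_lit 331) (nat_lit 5) (nat_lit 323) (nat_lit 5) (nat_lit 405) (nat_lit 379) (nat_lit 236)) (XT.lf (nat_lit 0) (nat_lit 3018569950) (nat_lit 684) (nat_lit 1089132001) (nat_lit 76) (nat_lit 15684184517) (nat_lit 322) (nat_lit 5) (nat_lit 331) (nat_lit 5) (nat_lit 323) (nat_lit 5) (nat_lit 406) (nat_lit 379) (nat_lit 235))))) (XT.nd (nat_lit 312) (nat_lit 1064) (nat_lit 0) (XT.nd (nat_lit 156) (nat_lit 456) (nat_lit 0) (XT.nd (nat_lit 78) (nat_lit 532) (nat_lit 0) (XT.lf (nat_lit 0) (nat_lit 5833773461) (nat_lit 608) (nat_lit 9741620500) (nat_lit 76) (nat_lit 4543343676) (nat_lit 315) (nat_lit 5) (nat_lit 323) (nat_lit 5) (nat_lit 316) (nat_lit 5) (nat_lit 407) (nat_lit 379) (nat_lit 234)) (XT.lf (nat_lit 0) (nat_lit 1739162402) (nat_lit 532) (nat_lit 7054997164) (nat_lit 608) (nat_lit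 11659412980) (nat_lit 308) (nat_lit 5) (nat_lit 315) (nat_lit 5) (nat_lit 316) (nat_lit 5) (nat_lit 408) (nat_lit 379) (nat_lit 233))) (XT.nd (nat_lit 78) (nat_lit 456) (nat_lit 0) (XT.lf (nat_lit 0) (nat_lit 11951612834) (nat_lit 608) (nat_lit 7057703127) (nat_lit 76) (nat_lit 1785888873) (nat_lit 308) (nat_lit 5) (nat_lit 316) (nat_lit 5) (nat_lit 309) (nat_lit 5) (nat_lit 409) (nat_lit 379) (nat_lit 232)) (XT.lf (nat_lit 0) (nat_lit 4967291313) (nat_lit 456) (nat_lit 10346687733) (nat_lit 532) (nat_lit 5829801364) (nat_lit 302) (nat_lit 5) (nat_lit 308) (nat_lit 5) (nat_lit 309) (nat_lit 5) (nat_lit 410) (nat_lit 379) (nat_lit 231)))) (XT.nd (nat_lit 156) (nat_lit 456) (nat_lit 0) (XT.nd (nat_lit 78) (nat_lit 608) (nat_lit 0) (XT.lf (nat_lit 0) (nat_lit 17489302765) (nat_lit 456) (nat_lit 1351906708) (nat_lit 532) (nat_lit 2659683985) (nat_lit 302) (nat_lit 5) (nat_lit 308) (nat_lit 5) (nat_lit 309)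 (nat_lit 5) (nat_lit 411) (nat_lit 379) (nat_lit 230)) (XT.lf (nat_lit 0) (nat_lit 746894482) (nat_lit 608) (nat_lit 13269814990) (nat_lit 76) (nat_lit 7847240588) (nat_lit 294) (nat_lit 5) (nat_lit 302) (nat_lit 5) (nat_lit 295) (nat_lit 5) (nat_lit 412) (nat_lit 379) (nat_lit 229))) (XT.nd (nat_lit 78) (nat_lit 456) (nat_lit 0) (XT.lf (nat_lit 0) (nat_lit 4249492026) (nat_lit 608) (nat_lit 624959476) (nat_lit 76) (nat_lit 17361238492) (nat_lit 294) (nat_lit 5) (nat_lit 302) (nat_lit 5) (nat_lit 295) (nat_lit 5) (nat_lit 413) (nat_lit 379) (nat_lit 228)) (XT.lf (nat_lit 0) (nat_lit 8016686983) (nat_lit 532) (nat_lit 10022322295) (nat_lit 76) (nat_lit 4574787261) (nat_lit 288) (nat_lit 5) (nat_lit 295) (nat_lit 5) (nat_lit 289) (nat_lit 5) (nat_lit 414) (nat_lit 379) (nat_lit 227))))))))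
noncomputable def xc184 : XT := (XT.nd (nat_lit 2340) (nat_lit 4180) (nat_lit 0) (XT.nd (nat_lit 1170) (nat_lit 2736) (nat_lit 0) (XT.nd (nat_lit 546) (nat_lit 1976) (nat_lit 0) (XT.nd (nat_lit 234) (nat_lit 912) (nat_lit 0) (XT.nd (nat_lit 78) (nat_lit 380) (nat_lit 0) (XT.lf (nat_lit 0) (nat_lit 3220387435) (nat_lit 456) (nat_lit 8755396614) (nat_lit 532) (nat_lit 11025095645) (nat_lit 282) (nat_lit 5) (nat_lit 288) (nat_lit 5) (nat_lit 289) (nat_lit 5) (nat_lit 415) (nat_lit 379) (nat_lit 226)) (XT.nd (nat_lit 78) (nat_lit 380) (nat_lit 0) (XT.lf (nat_lit 0) (nat_lit 16157012205) (nat_lit 532) (nat_lit 6347855242) (nat_lit 76) (nat_lit 891607151) (nat_lit 282) (nat_lit 5) (nat_lit 289) (nat_lit 5) (nat_lit 283) (nat_lit 5) (nat_lit 416) (nat_lit 379) (nat_lit 225)) (XT.lf (nat_lit 0) (nat_lit 7540066335) (nat_lit 380) (nat_lit 13076365662) (nat_lit 456) (nat_lit 3182922708) (nat_lit 277) (nat_lit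 5) (nat_lit 282) (nat_lit 5) (nat_lit 283) (nat_lit 5) (nat_lit 417) (nat_lit 379) (nat_lit 224)))) (XT.nd (nat_lit 156) (nat_lit 380) (nat_lit 0) (XT.nd (nat_lit 78) (nat_lit 456) (nat_lit 0) (XT.lf (nat_lit 0) (nat_lit 1034261405) (nat_lit 456) (nat_lit 2256038210) (nat_lit 76) (nat_lit 20921983463) (nat_lit 276) (nat_lit 5) (nat_lit 282) (nat_lit 5) (nat_lit 277) (nat_lit 5) (nat_lit 418) (nat_lit 379) (nat_lit 223)) (XT.lf (nat_lit 0) (nat_lit 5493443728) (nat_lit 532) (nat_lit 12330794270) (nat_lit 76) (nat_lit 6807032193) (nat_lit 270) (nat_lit 5) (nat_lit 277) (nat_lit 5) (nat_lit 271) (nat_lit 5) (nat_lit 419) (nat_lit 379) (nat_lit 222))) (XT.nd (nat_lit 78) (nat_lit 0) (nat_lit 0) (XT.lf (nat_lit 0) (nat_lit 2281468730) (nat_lit 380) (nat_lit 7876355292) (nat_lit 456) (nat_lit 14902860219) (nat_lit 265) (nat_lit 5) (nat_lit 270) (nat_lit 5) (nat_lit 271) (nat_lit 5) (nat_lit 420) (nat_lit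 379) (nat_lit 221)) (XT.lf (nat_lit 0) (nat_lit 15104656295) (nat_lit 456) (nat_lit 7946509576) (nat_lit 76) (nat_lit 2447539226) (nat_lit 265) (nat_lit 5) (nat_lit 271) (nat_lit 5) (nat_lit 266) (nat_lit 5) (nat_lit 421) (nat_lit 379) (nat_lit 220))))) (XT.nd (nat_lit 312) (nat_lit 760) (nat_lit 0) (XT.nd (nat_lit 156) (nat_lit 836) (nat_lit 0) (XT.nd (nat_lit 78) (nat_lit 0) (nat_lit 0) (XT.lf (nat_lit 0) (nat_lit 7389507399) (nat_lit 380) (nat_lit 12953566729) (nat_lit 456) (nat_lit 5602497033) (nat_lit 260) (nat_lit 5) (nat_lit 265) (nat_lit 5) (nat_lit 266) (nat_lit 5) (nat_lit 422) (nat_lit 379) (nat_lit 219)) (XT.lf (nat_lit 0) (nat_lit 23340695489) (nat_lit 380) (nat_lit 2472452523) (nat_lit 456) (nat_lit 590460087) (nat_lit 260) (nat_lit 5) (nat_lit 265) (nat_lit 5) (nat_lit 266) (nat_lit 5) (nat_lit 423) (nat_lit 379) (nat_lit 218))) (XT.nd (nat_lit 78) (nat_lit 380) (nat_lit 0) (XT.lf (nat_lit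 0) (nat_lit 4684678689) (nat_lit 456) (nat_lit 13853123966) (nat_lit 76) (nat_lit 8330206373) (nat_lit 254) (nat_lit 5) (nat_lit 260) (nat_lit 5) (nat_lit 255) (nat_lit 5) (nat_lit 424) (nat_lit 379) (nat_lit 217)) (XT.lf (nat_lit 0) (nat_lit 2298855598) (nat_lit 380) (nat_lit 7879603905) (nat_lit 456) (nat_lit 17165539432) (nat_lit 249) (nat_lit 5) (nat_lit 254) (nat_lit 5) (nat_lit 255) (nat_lit 5) (nat_lit 425) (nat_lit 379) (nat_lit 216)))) (XT.nd (nat_lit 156) (nat_lit 456) (nat_lit 0) (XT.nd (nat_lit 78) (nat_lit 304) (nat_lit 0) (XT.lf (nat_lit 0) (nat_lit 16002620205) (nat_lit 456) (nat_lit 8649697288) (nat_lit 76) (nat_lit 3176984052) (nat_lit 249) (nat_lit 5) (nat_lit 255) (nat_lit 5) (nat_lit 250) (nat_lit 5) (nat_lit 426) (nat_lit 379) (nat_lit 215)) (XT.lf (nat_lit 0) (nat_lit 8314237715) (nat_lit 304) (nat_lit 13839874248) (nat_lit 380) (nat_lit 6170473082) (nat_lit 245) (nat_lit 5) (nat_lit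 249) (nat_lit 5) (nat_lit 250) (nat_lit 5) (nat_lit 427) (nat_lit 379) (nat_lit 214))) (XT.nd (nat_lit 78) (nat_lit 456) (nat_lit 0) (XT.lf (nat_lit 0) (nat_lit 25956876315) (nat_lit 304) (nat_lit 2615368905) (nat_lit 380) (nat_lit 260018928) (nat_lit 245) (nat_lit 5) (nat_lit 249) (nat_lit 5) (nat_lit 250) (nat_lit 5) (nat_lit 428) (nat_lit 379) (nat_lit 213)) (XT.lf (nat_lit 0) (nat_lit 5941054220) (nat_lit 456) (nat_lit 14434320648) (nat_lit 76) (nat_lit 8971307388) (nat_lit 239) (nat_lit 5) (nat_lit 245) (nat_lit 5) (nat_lit 240) (nat_lit 5) (nat_lit 429) (nat_lit 379) (nat_lit 212)))))) (XT.nd (nat_lit 546) (nat_lit 1444) (nat_lit 0) (XT.nd (nat_lit 234) (nat_lit 684) (nat_lit 0) (XT.nd (nat_lit 78) (nat_lit 304) (nat_lit 0) (XT.lf (nat_lit 0) (nat_lit 3448086685) (nat_lit 304) (nat_lit 8958121609) (nat_lit 380) (nat_lit 17467749135) (nat_lit 235) (nat_lit 5) (nat_lit 239) (nat_lit 5) (nat_lit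 240) (nat_lit 5) (nat_lit 430) (nat_lit 379) (nat_lit 211)) (XT.nd (nat_lit 78) (nat_lit 304) (nat_lit 0) (XT.lf (nat_lit 0) (nat_lit 19234415626) (nat_lit 380) (nat_lit 8285716584) (nat_lit 76) (nat_lit 2891845686) (nat_lit 235) (nat_lit 5) (nat_lit 240) (nat_lit 5) (nat_lit 236) (nat_lit 5) (nat_lit 431) (nat_lit 379) (nat_lit 210)) (XT.lf (nat_lit 0) (nat_lit 10507690010) (nat_lit 304) (nat_lit 15944592391) (nat_lit 380) (nat_lit 4508312182) (nat_lit 231) (nat_lit 5) (nat_lit 235) (nat_lit 5) (nat_lit 236) (nat_lit 5) (nat_lit 432) (nat_lit 379) (nat_lit 209)))) (XT.nd (nat_lit 156) (nat_lit 304) (nat_lit 0) (XT.nd (nat_lit 78) (nat_lit 304) (nat_lit 0) (XT.lf (nat_lit 0) (nat_lit 2394579190) (nat_lit 380) (nat_lit 1519261738) (nat_lit 76) (nat_lit 27608758903) (nat_lit 230) (nat_lit 5) (nat_lit 235) (nat_lit 5) (nat_lit 231) (nat_lit 5) (nat_lit 433) (nat_lit 379) (nat_lit 208)) (XT.lf (nat_lit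 0) (nat_lit 9668668278) (nat_lit 380) (nat_lit 13891151677) (nat_lit 76) (nat_lit 8532664473) (nat_lit 226) (nat_lit 5) (nat_lit 231) (nat_lit 5) (nat_lit 227) (nat_lit 5) (nat_lit 434) (nat_lit 379) (nat_lit 207))) (XT.nd (nat_lit 78) (nat_lit 0) (nat_lit 0) (XT.lf (nat_lit 0) (nat_lit 5935442799) (nat_lit 304) (nat_lit 11332162919) (nat_lit 380) (nat_lit 15408661075) (nat_lit 222) (nat_lit 5) (nat_lit 226) (nat_lit 5) (nat_lit 227) (nat_lit 5) (nat_lit 435) (nat_lit 379) (nat_lit 206)) (XT.lf (nat_lit 0) (nat_lit 25243678073) (nat_lit 380) (nat_lit 6652490919) (nat_lit 76) (nat_lit 1376918632) (nat_lit 222) (nat_lit 5) (nat_lit 227) (nat_lit 5) (nat_lit 223) (nat_lit 5) (nat_lit 436) (nat_lit 379) (nat_lit 205))))) (XT.nd (nat_lit 312) (nat_lit 608) (nat_lit 0) (XT.nd (nat_lit 156) (nat_lit 228) (nat_lit 0) (XT.nd (nat_lit 78) (nat_lit 380) (nat_lit 0) (XT.lf (nat_lit 0) (nat_lit 14196320146) (nat_lit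 228) (nat_lit 19506880967) (nat_lit 304) (nat_lit 177286913) (nat_lit 219) (nat_lit 5) (nat_lit 222) (nat_lit 5) (nat_lit 223) (nat_lit 5) (nat_lit 437) (nat_lit 379) (nat_lit 204)) (XT.lf (nat_lit 0) (nat_lit 1243414547) (nat_lit 304) (nat_lit 6587944818) (nat_lit 380) (nat_lit 26670210276) (nat_lit 214) (nat_lit 5) (nat_lit 218) (nat_lit 5) (nat_lit 219) (nat_lit 5) (nat_lit 438) (nat_lit 379) (nat_lit 203))) (XT.nd (nat_lit 78) (nat_lit 228) (nat_lit 0) (XT.lf (nat_lit 0) (nat_lit 16337589021) (nat_lit 380) (nat_lit 12008349605) (nat_lit 76) (nat_lit 6787465799) (nat_lit 214) (nat_lit 5) (nat_lit 219) (nat_lit 5) (nat_lit 215) (nat_lit 5) (nat_lit 439) (nat_lit 379) (nat_lit 202)) (XT.lf (nat_lit 0) (nat_lit 10002050966) (nat_lit 228) (nat_lit 15254021632) (nat_lit 304) (nat_lit 10523409645) (nat_lit 211) (nat_lit 5) (nat_lit 214) (nat_lit 5) (nat_lit 215) (nat_lit 5) (nat_lit 440) (nat_lit 379)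 (nat_lit 201)))) (XT.nd (nat_lit 156) (nat_lit 228) (nat_lit 0) (XT.nd (nat_lit 78) (nat_lit 380) (nat_lit 0) (XT.lf (nat_lit 0) (nat_lit 32912142142) (nat_lit 228) (nat_lit 1646983584) (nat_lit 304) (nat_lit 1882306219) (nat_lit 211) (nat_lit 5) (nat_lit 214) (nat_lit 5) (nat_lit 215) (nat_lit 5) (nat_lit 441) (nat_lit 379) (nat_lit 200)) (XT.lf (nat_lit 0) (nat_lit 7187665163) (nat_lit 380) (nat_lit 17540552770) (nat_lit 76) (nat_lit 12383800898) (nat_lit 206) (nat_lit 5) (nat_lit 211) (nat_lit 5) (nat_lit 207) (nat_lit 5) (nat_lit 442) (nat_lit 379) (nat_lit 199))) (XT.nd (nat_lit 78) (nat_lit 0) (nat_lit 0) (XT.lf (nat_lit 0) (nat_lit 5705271531) (nat_lit 228) (nat_lit 10889643675) (nat_lit 304) (nat_lit 21204158658) (nat_lit 203) (nat_lit 5) (nat_lit 206) (nat_lit 5) (nat_lit 207) (nat_lit 5) (nat_lit 443) (nat_lit 379) (nat_lit 198)) (XT.lf (nat_lit 0) (nat_lit 26491502109) (nat_lit 304) (nat_lit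 8534215313) (nat_lit 76) (nat_lit 3474809544) (nat_lit 203) (nat_lit 5) (nat_lit 207) (nat_lit 5) (nat_lit 204) (nat_lit 5) (nat_lit 444) (nat_lit 379) (nat_lit 197))))))) (XT.nd (nat_lit 1170) (nat_lit 1824) (nat_lit 0) (XT.nd (nat_lit 546) (nat_lit 1064) (nat_lit 0) (XT.nd (nat_lit 234) (nat_lit 760) (nat_lit 0) (XT.nd (nat_lit 78) (nat_lit 304) (nat_lit 0) (XT.lf (nat_lit 0) (nat_lit 15928630250) (nat_lit 228) (nat_lit 21013312480) (nat_lit 304) (nat_lit 2273372249) (nat_lit 200) (nat_lit 5) (nat_lit 203) (nat_lit 5) (nat_lit 204) (nat_lit 5) (nat_lit 445) (nat_lit 379) (nat_lit 196)) (XT.nd (nat_lit 78) (nat_lit 0) (nat_lit 0) (XT.lf (nat_lit 0) (nat_lit 1294663132) (nat_lit 228) (nat_lit 6403885615) (nat_lit 304) (nat_lit 32247896275) (nat_lit 196) (nat_lit 5) (nat_lit 199) (nat_lit 5) (nat_lit 200) (nat_lit 5) (nat_lit 446) (nat_lit 379) (nat_lit 195)) (XT.lf (nat_lit 0) (nat_lit 18240567871)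 (nat_lit 304) (nat_lit 13716154283) (nat_lit 76) (nat_lit 8732612563) (nat_lit 196) (nat_lit 5) (nat_lit 200) (nat_lit 5) (nat_lit 197) (nat_lit 5) (nat_lit 447) (nat_lit 379) (nat_lit 194)))) (XT.nd (nat_lit 156) (nat_lit 532) (nat_lit 0) (XT.nd (nat_lit 78) (nat_lit 0) (nat_lit 0) (XT.lf (nat_lit 0) (nat_lit 12134538645) (nat_lit 228) (nat_lit 17140538174) (nat_lit 304) (nat_lit 12174147406) (nat_lit 193) (nat_lit 5) (nat_lit 196) (nat_lit 5) (nat_lit 197) (nat_lit 5) (nat_lit 448) (nat_lit 379) (nat_lit 193)) (XT.lf (nat_lit 0) (nat_lit 39035595443) (nat_lit 228) (nat_lit 1739762162) (nat_lit 304) (nat_lit 1452510715) (nat_lit 193) (nat_lit 5) (nat_lit 196) (nat_lit 5) (nat_lit 197) (nat_lit 5) (nat_lit 449) (nat_lit 379) (nat_lit 192))) (XT.nd (nat_lit 78) (nat_lit 228) (nat_lit 0) (XT.lf (nat_lit 0) (nat_lit 9770392140) (nat_lit 304) (nat_lit 19073812615) (nat_lit 76) (nat_lit 14171898183) (nat_lit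 189) (nat_lit 5) (nat_lit 193) (nat_lit 5) (nat_lit 190) (nat_lit 5) (nat_lit 450) (nat_lit 379) (nat_lit 191)) (XT.lf (nat_lit 0) (nat_lit 8252176821) (nat_lit 228) (nat_lit 13174044725) (nat_lit 304) (nat_lit 22397568605) (nat_lit 186) (nat_lit 5) (nat_lit 189) (nat_lit 5) (nat_lit 190) (nat_lit 5) (nat_lit 451) (nat_lit 379) (nat_lit 190))))) (XT.nd (nat_lit 312) (nat_lit 608) (nat_lit 0) (XT.nd (nat_lit 156) (nat_lit 228) (nat_lit 0) (XT.nd (nat_lit 78) (nat_lit 228) (nat_lit 0) (XT.lf (nat_lit 0) (nat_lit 33651105387) (nat_lit 304) (nat_lit 7897670898) (nat_lit 76) (nat_lit 3100350308) (nat_lit 186) (nat_lit 5) (nat_lit 190) (nat_lit 5) (nat_lit 187) (nat_lit 5) (nat_lit 452) (nat_lit 379) (nat_lit 189)) (XT.lf (nat_lit 0) (nat_lit 1059827063) (nat_lit 228) (nat_lit 24622418903) (nat_lit 76) (nat_lit 19806838060) (nat_lit 183) (nat_lit 5) (nat_lit 186) (nat_lit 5) (nat_lit 184) (nat_lit 5) (nat_lit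 453) (nat_lit 379) (nat_lit 188))) (XT.nd (nat_lit 78) (nat_lit 0) (nat_lit 0) (XT.lf (nat_lit 0) (nat_lit 4271560967) (nat_lit 228) (nat_lit 9104870211) (nat_lit 304) (nat_lit 32971000169) (nat_lit 180) (nat_lit 5) (nat_lit 183) (nat_lit 5) (nat_lit 184) (nat_lit 5) (nat_lit 454) (nat_lit 379) (nat_lit 187)) (XT.lf (nat_lit 0) (nat_lit 26386732913) (nat_lit 304) (nat_lit 12772157079) (nat_lit 76) (nat_lit 8062913113) (nat_lit 180) (nat_lit 5) (nat_lit 184) (nat_lit 5) (nat_lit 181) (nat_lit 5) (nat_lit 455) (nat_lit 379) (nat_lit 186)))) (XT.nd (nat_lit 156) (nat_lit 152) (nat_lit 0) (XT.nd (nat_lit 78) (nat_lit 304) (nat_lit 0) (XT.lf (nat_lit 0) (nat_lit 17659182414) (nat_lit 152) (nat_lit 22384650378) (nat_lit 228) (nat_lit 8070878552) (nat_lit 178) (nat_lit 5) (nat_lit 180) (nat_lit 5) (nat_lit 181) (nat_lit 5) (nat_lit 456) (nat_lit 379) (nat_lit 185)) (XT.lf (nat_lit 0) (nat_lit 182283571) (nat_lit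 228) (nat_lit 4923502990) (nat_lit 304) (nat_lit 43923298288) (nat_lit 174) (nat_lit 5) (nat_lit 177) (nat_lit 5) (nat_lit 178) (nat_lit 5) (nat_lit 457) (nat_lit 379) (nat_lit 184))) (XT.nd (nat_lit 78) (nat_lit 152) (nat_lit 0) (XT.lf (nat_lit 0) (nat_lit 18948294641) (nat_lit 304) (nat_lit 17812593871) (nat_lit 76) (nat_lit 13194620964) (nat_lit 174) (nat_lit 5) (nat_lit 178) (nat_lit 5) (nat_lit 175) (nat_lit 5) (nat_lit 458) (nat_lit 379) (nat_lit 183)) (XT.lf (nat_lit 0) (nat_lit 14378685839) (nat_lit 152) (nat_lit 19011073558) (nat_lit 228) (nat_lit 17514457005) (nat_lit 172) (nat_lit 5) (nat_lit 174) (nat_lit 5) (nat_lit 175) (nat_lit 5) (nat_lit 459) (nat_lit 379) (nat_lit 182)))))) (XT.nd (nat_lit 624) (nat_lit 912) (nat_lit 0) (XT.nd (nat_lit 312) (nat_lit 532) (nat_lit 0) (XT.nd (nat_lit 156) (nat_lit 152) (nat_lit 0) (XT.nd (nat_lit 78) (nat_lit 228) (nat_lit 0) (XT.lf (nat_lit 0) (nat_lit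 47895115067) (nat_lit 152) (nat_lit 545982996) (nat_lit 228) (nat_lit 3434987573) (nat_lit 172) (nat_lit 5) (nat_lit 174) (nat_lit 5) (nat_lit 175) (nat_lit 5) (nat_lit 460) (nat_lit 379) (nat_lit 181)) (XT.lf (nat_lit 0) (nat_lit 11317702139) (nat_lit 228) (nat_lit 23033228194) (nat_lit 76) (nat_lit 18508985450) (nat_lit 169) (nat_lit 5) (nat_lit 172) (nat_lit 5) (nat_lit 170) (nat_lit 5) (nat_lit 461) (nat_lit 379) (nat_lit 180))) (XT.nd (nat_lit 78) (nat_lit 0) (nat_lit 0) (XT.lf (nat_lit 0) (nat_lit 11027864793) (nat_lit 152) (nat_lit 15564914912) (nat_lit 228) (nat_lit 27274995426) (nat_lit 167) (nat_lit 5) (nat_lit 169) (nat_lit 5) (nat_lit 170) (nat_lit 5) (nat_lit 462) (nat_lit 379) (nat_lit 179)) (XT.lf (nat_lit 0) (nat_lit 42594235003) (nat_lit 228) (nat_lit 8360283351) (nat_lit 76) (nat_lit 3943308144) (nat_lit 167) (nat_lit 5) (nat_lit 170) (nat_lit 5) (nat_lit 168) (nat_lit 5) (nat_lit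 463) (nat_lit 379) (nat_lit 178)))) (XT.nd (nat_lit 156) (nat_lit 152) (nat_lit 0) (XT.nd (nat_lit 78) (nat_lit 152) (nat_lit 0) (XT.lf (nat_lit 0) (nat_lit 3475946932) (nat_lit 228) (nat_lit 28449017459) (nat_lit 76) (nat_lit 24020321690) (nat_lit 164) (nat_lit 5) (nat_lit 167) (nat_lit 5) (nat_lit 165) (nat_lit 5) (nat_lit 464) (nat_lit 379) (nat_lit 177)) (XT.lf (nat_lit 0) (nat_lit 7598377562) (nat_lit 152) (nat_lit 12038452517) (nat_lit 228) (nat_lit 37379027385) (nat_lit 162) (nat_lit 5) (nat_lit 164) (nat_lit 5) (nat_lit 165) (nat_lit 5) (nat_lit 465) (nat_lit 379) (nat_lit 176))) (XT.nd (nat_lit 78) (nat_lit 152) (nat_lit 0) (XT.lf (nat_lit 0) (nat_lit 36650801665) (nat_lit 228) (nat_lit 12889087411) (nat_lit 76) (nat_lit 8567609053) (nat_lit 162) (nat_lit 5) (nat_lit 165) (nat_lit 5) (nat_lit 163) (nat_lit 5) (nat_lit 466) (nat_lit 379) (nat_lit 175)) (XT.lf (nat_lit 0) (nat_lit 25100412580)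 (nat_lit 152) (nat_lit 29432304505) (nat_lit 228) (nat_lit 4688445188) (nat_lit 160) (nat_lit 5) (nat_lit 162) (nat_lit 5) (nat_lit 163) (nat_lit 5) (nat_lit 467) (nat_lit 379) (nat_lit 174))))) (XT.nd (nat_lit 312) (nat_lit 304) (nat_lit 0) (XT.nd (nat_lit 156) (nat_lit 380) (nat_lit 0) (XT.nd (nat_lit 78) (nat_lit 0) (nat_lit 0) (XT.lf (nat_lit 0) (nat_lit 4081524795) (nat_lit 152) (nat_lit 8423526980) (nat_lit 228) (nat_lit 47854523896) (nat_lit 157) (nat_lit 5) (nat_lit 159) (nat_lit 5) (nat_lit 160) (nat_lit 5) (nat_lit 468) (nat_lit 379) (nat_lit 173)) (XT.lf (nat_lit 0) (nat_lit 30592189555) (nat_lit 228) (nat_lit 17574731614) (nat_lit 76) (nat_lit 13349665623) (nat_lit 157) (nat_lit 5) (nat_lit 160) (nat_lit 5) (nat_lit 158) (nat_lit 5) (nat_lit 469) (nat_lit 379) (nat_lit 172))) (XT.nd (nat_lit 78) (nat_lit 228) (nat_lit 0) (XT.lf (nat_lit 0) (nat_lit 22642918342) (nat_lit 152) (nat_lit 26877236653)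 (nat_lit 228) (nat_lit 13179206847) (nat_lit 155) (nat_lit 5) (nat_lit 157) (nat_lit 5) (nat_lit 158) (nat_lit 5) (nat_lit 470) (nat_lit 379) (nat_lit 171)) (XT.lf (nat_lit 0) (nat_lit 468219763) (nat_lit 152) (nat_lit 4711520908) (nat_lit 228) (nat_lit 58730982570) (nat_lit 152) (nat_lit 5) (nat_lit 154) (nat_lit 5) (nat_lit 155) (nat_lit 5) (nat_lit 471) (nat_lit 379) (nat_lit 170)))) (XT.nd (nat_lit 156) (nat_lit 152) (nat_lit 0) (XT.nd (nat_lit 78) (nat_lit 152) (nat_lit 0) (XT.lf (nat_lit 0) (nat_lit 24404406990) (nat_lit 228) (nat_lit 22430442864) (nat_lit 76) (nat_lit 18302265830) (nat_lit 152) (nat_lit 5) (nat_lit 155) (nat_lit 5) (nat_lit 153) (nat_lit 5) (nat_lit 472) (nat_lit 379) (nat_lit 169)) (XT.lf (nat_lit 0) (nat_lit 20153522645) (nat_lit 152) (nat_lit 24289920245) (nat_lit 228) (nat_lit 21949728123) (nat_lit 150) (nat_lit 5) (nat_lit 152) (nat_lit 5) (nat_lit 153) (nat_lit 5) (nat_lit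 473) (nat_lit 379) (nat_lit 168))) (XT.nd (nat_lit 78) (nat_lit 152) (nat_lit 0) (XT.lf (nat_lit 0) (nat_lit 64469782956) (nat_lit 152) (nat_lit 837654983) (nat_lit 228) (nat_lit 2372756422) (nat_lit 150) (nat_lit 5) (nat_lit 152) (nat_lit 5) (nat_lit 153) (nat_lit 5) (nat_lit 474) (nat_lit 379) (nat_lit 167)) (XT.lf (nat_lit 0) (nat_lit 18072789961) (nat_lit 152) (nat_lit 27470123072) (nat_lit 76) (nat_lit 23438931417) (nat_lit 148) (nat_lit 5) (nat_lit 150) (nat_lit 5) (nat_lit 149) (nat_lit 5) (nat_lit 475) (nat_lit 379) (nat_lit 166))))))))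
noncomputable def xc185 : XT := (XT.nd (nat_lit 47034) (nat_lit 0) (nat_lit 8512) (XT.nd (nat_lit 45864) (nat_lit 0) (nat_lit 17632) (XT.nd (nat_lit 546) (nat_lit 380) (nat_lit 0) (XT.nd (nat_lit 234) (nat_lit 456) (nat_lit 0) (XT.nd (nat_lit 78) (nat_lit 152) (nat_lit 0) (XT.lf (nat_lit 0) (nat_lit 17626667716) (nat_lit 152) (nat_lit 21665163237) (nat_lit 228) (nat_lit 31023773761) (nat_lit 146) (nat_lit 5) (nat_lit 148) (nat_lit 5) (nat_lit 149) (nat_lit 5) (nat_lit 476) (nat_lit 379) (nat_lit 165)) (XT.nd (nat_lit 78) (nat_lit 152) (nat_lit 0) (XT.lf (nat_lit 0) (nat_lit 61453093532) (nat_lit 228) (nat_lit 7077434388) (nat_lit 76) (nat_lit 3149680356) (nat_lit 146) (nat_lit 5) (nat_lit 149) (nat_lit 5) (nat_lit 147) (nat_lit 4) (nat_lit 477) (nat_lit 379) (nat_lit 164)) (XT.lf (nat_lit 0) (nat_lit 11581958560) (nat_lit 152) (nat_lit 32708396688) (nat_lit 76) (nat_lit 28773958582) (nat_lit 144) (nat_lit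 5) (nat_lit 146) (nat_lit 5) (nat_lit 145) (nat_lit 5) (nat_lit 478) (nat_lit 379) (nat_lit 163)))) (XT.nd (nat_lit 156) (nat_lit 304) (nat_lit 0) (XT.nd (nat_lit 78) (nat_lit 0) (nat_lit 0) (XT.lf (nat_lit 0) (nat_lit 15056583240) (nat_lit 152) (nat_lit 18997510737) (nat_lit 228) (nat_lit 40426380473) (nat_lit 142) (nat_lit 5) (nat_lit 144) (nat_lit 5) (nat_lit 145) (nat_lit 5) (nat_lit 479) (nat_lit 379) (nat_lit 162)) (XT.lf (nat_lit 0) (nat_lit 57599206217) (nat_lit 228) (nat_lit 11080104681) (nat_lit 76) (nat_lit 7247844607) (nat_lit 142) (nat_lit 5) (nat_lit 145) (nat_lit 5) (nat_lit 143) (nat_lit 4) (nat_lit 480) (nat_lit 379) (nat_lit 161))) (XT.nd (nat_lit 78) (nat_lit 152) (nat_lit 0) (XT.lf (nat_lit 0) (nat_lit 4915770555) (nat_lit 152) (nat_lit 38160660638) (nat_lit 76) (nat_lit 34322461853) (nat_lit 140) (nat_lit 5) (nat_lit 142) (nat_lit 5) (nat_lit 141) (nat_lit 5) (nat_lit 481) (nat_lit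 379) (nat_lit 160)) (XT.lf (nat_lit 0) (nat_lit 12437267451) (nat_lit 152) (nat_lit 16281231976) (nat_lit 228) (nat_lit 50183937208) (nat_lit 138) (nat_lit 5) (nat_lit 140) (nat_lit 5) (nat_lit 141) (nat_lit 5) (nat_lit 482) (nat_lit 379) (nat_lit 159))))) (XT.nd (nat_lit 312) (nat_lit 76) (nat_lit 0) (XT.nd (nat_lit 156) (nat_lit 228) (nat_lit 0) (XT.nd (nat_lit 78) (nat_lit 76) (nat_lit 0) (XT.lf (nat_lit 0) (nat_lit 53730795147) (nat_lit 228) (nat_lit 15221432996) (nat_lit 76) (nat_lit 11483993840) (nat_lit 138) (nat_lit 5) (nat_lit 141) (nat_lit 5) (nat_lit 139) (nat_lit 4) (nat_lit 483) (nat_lit 379) (nat_lit 158)) (XT.lf (nat_lit 0) (nat_lit 38138075456) (nat_lit 76) (nat_lit 41880791081) (nat_lit 152) (nat_lit 1981392150) (nat_lit 137) (nat_lit 5) (nat_lit 138) (nat_lit 5) (nat_lit 139) (nat_lit 4) (nat_lit 484) (nat_lit 379) (nat_lit 157))) (XT.nd (nat_lit 78) (nat_lit 0) (nat_lit 0) (XT.lf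 (nat_lit 0) (nat_lit 9762467494) (nat_lit 152) (nat_lit 13510305904) (nat_lit 228) (nat_lit 60324270482) (nat_lit 134) (nat_lit 5) (nat_lit 136) (nat_lit 5) (nat_lit 137) (nat_lit 5) (nat_lit 485) (nat_lit 379) (nat_lit 156)) (XT.lf (nat_lit 0) (nat_lit 49840682843) (nat_lit 228) (nat_lit 19513044874) (nat_lit 76) (nat_lit 15869538090) (nat_lit 134) (nat_lit 5) (nat_lit 137) (nat_lit 5) (nat_lit 135) (nat_lit 4) (nat_lit 486) (nat_lit 379) (nat_lit 155)))) (XT.nd (nat_lit 44850) (nat_lit 0) (nat_lit 18316) (XT.nd (nat_lit 44772) (nat_lit 0) (nat_lit 19608) (XT.lf (nat_lit 0) (nat_lit 37022380247) (nat_lit 76) (nat_lit 40670575106) (nat_lit 152) (nat_lit 9190699266) (nat_lit 133) (nat_lit 5) (nat_lit 134) (nat_lit 5) (nat_lit 135) (nat_lit 4) (nat_lit 487) (nat_lit 379) (nat_lit 154)) (XT.lf (nat_lit 0) (nat_lit 3355947745) (nat_lit 0) (nat_lit 3355947745) (nat_lit 1140) (nat_lit 33614368) (nat_lit 391)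 (nat_lit 5) (nat_lit 391) (nat_lit 3) (nat_lit 406) (nat_lit 3) (nat_lit 380) (nat_lit 380) (nat_lit 260))) (XT.nd (nat_lit 78) (nat_lit 0) (nat_lit 76) (XT.lf (nat_lit 0) (nat_lit 305403544) (nat_lit 1292) (nat_lit 32958430) (nat_lit 1292) (nat_lit 13343873441) (nat_lit 374) (nat_lit 3) (nat_lit 391) (nat_lit 3) (nat_lit 391) (nat_lit 5) (nat_lit 381) (nat_lit 380) (nat_lit 259)) (XT.lf (nat_lit 0) (nat_lit 801649991) (nat_lit 1216) (nat_lit 6893253164) (nat_lit 1292) (nat_lit 6180850869) (nat_lit 375) (nat_lit 5) (nat_lit 391) (nat_lit 5) (nat_lit 392) (nat_lit 5) (nat_lit 382) (nat_lit 380) (nat_lit 258)))))) (XT.nd (nat_lit 546) (nat_lit 760) (nat_lit 0) (XT.nd (nat_lit 234) (nat_lit 0) (nat_lit 152) (XT.nd (nat_lit 78) (nat_lit 0) (nat_lit 76) (XT.lf (nat_lit 76) (nat_lit 125221354) (nat_lit 0) (nat_lit 1178339271) (nat_lit 1292) (nat_lit 12771794261) (nat_lit 376) (nat_lit 5) (nat_lit 375) (nat_lit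 5) (nat_lit 392) (nat_lit 5) (nat_lit 383) (nat_lit 380) (nat_lit 257)) (XT.nd (nat_lit 78) (nat_lit 0) (nat_lit 0) (XT.lf (nat_lit 0) (nat_lit 1930299594) (nat_lit 1216) (nat_lit 6845476391) (nat_lit 1292) (nat_lit 5501874660) (nat_lit 376) (nat_lit 5) (nat_lit 392) (nat_lit 5) (nat_lit 393) (nat_lit 5) (nat_lit 384) (nat_lit 380) (nat_lit 256)) (XT.lf (nat_lit 76) (nat_lit 461609760) (nat_lit 0) (nat_lit 2117014551) (nat_lit 1292) (nat_lit 11907307457) (nat_lit 377) (nat_lit 5) (nat_lit 376) (nat_lit 5) (nat_lit 393) (nat_lit 5) (nat_lit 385) (nat_lit 380) (nat_lit 255)))) (XT.nd (nat_lit 156) (nat_lit 0) (nat_lit 76) (XT.nd (nat_lit 78) (nat_lit 0) (nat_lit 0) (XT.lf (nat_lit 0) (nat_lit 3348826694) (nat_lit 1216) (nat_lit 6624827600) (nat_lit 1292) (nat_lit 4723734194) (nat_lit 377) (nat_lit 5) (nat_lit 393) (nat_lit 5) (nat_lit 394) (nat_lit 5) (nat_lit 386) (nat_lit 380) (nat_lit 254)) (XT.lf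 (nat_lit 76) (nat_lit 986780335) (nat_lit 0) (nat_lit 3173217711) (nat_lit 1292) (nat_lit 10754654977) (nat_lit 378) (nat_lit 5) (nat_lit 377) (nat_lit 5) (nat_lit 394) (nat_lit 5) (nat_lit 387) (nat_lit 380) (nat_lit 253))) (XT.nd (nat_lit 78) (nat_lit 0) (nat_lit 0) (XT.lf (nat_lit 0) (nat_lit 5087638849) (nat_lit 1216) (nat_lit 6219875703) (nat_lit 1292) (nat_lit 3828156911) (nat_lit 378) (nat_lit 5) (nat_lit 394) (nat_lit 5) (nat_lit 395) (nat_lit 5) (nat_lit 388) (nat_lit 380) (nat_lit 252)) (XT.lf (nat_lit 76) (nat_lit 1713124239) (nat_lit 0) (nat_lit 4365973185) (nat_lit 1292) (nat_lit 9283143376) (nat_lit 379) (nat_lit 5) (nat_lit 378) (nat_lit 5) (nat_lit 395) (nat_lit 5) (nat_lit 389) (nat_lit 380) (nat_lit 251))))) (XT.nd (nat_lit 312) (nat_lit 1064) (nat_lit 0) (XT.nd (nat_lit 156) (nat_lit 0) (nat_lit 76) (XT.nd (nat_lit 78) (nat_lit 0) (nat_lit 0) (XT.lf (nat_lit 0) (nat_lit 7178894137)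 (nat_lit 1216) (nat_lit 5618038483) (nat_lit 1292) (nat_lit 2796316767) (nat_lit 379) (nat_lit 5) (nat_lit 395) (nat_lit 5) (nat_lit 396) (nat_lit 5) (nat_lit 390) (nat_lit 380) (nat_lit 250)) (XT.lf (nat_lit 76) (nat_lit 2654237771) (nat_lit 0) (nat_lit 5714930570) (nat_lit 1292) (nat_lit 7460295382) (nat_lit 380) (nat_lit 5) (nat_lit 379) (nat_lit 5) (nat_lit 396) (nat_lit 5) (nat_lit 391) (nat_lit 380) (nat_lit 249))) (XT.nd (nat_lit 78) (nat_lit 0) (nat_lit 0) (XT.lf (nat_lit 0) (nat_lit 9656644758) (nat_lit 1216) (nat_lit 4805537241) (nat_lit 1292) (nat_lit 1608737670) (nat_lit 380) (nat_lit 5) (nat_lit 396) (nat_lit 5) (nat_lit 397) (nat_lit 5) (nat_lit 392) (nat_lit 380) (nat_lit 248)) (XT.lf (nat_lit 76) (nat_lit 3824971252) (nat_lit 0) (nat_lit 7240463216) (nat_lit 1292) (nat_lit 5251704158) (nat_lit 381) (nat_lit 5) (nat_lit 380) (nat_lit 5) (nat_lit 397) (nat_lit 5) (nat_lit 393) (nat_lit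 380) (nat_lit 247)))) (XT.nd (nat_lit 156) (nat_lit 1216) (nat_lit 0) (XT.nd (nat_lit 78) (nat_lit 0) (nat_lit 0) (XT.lf (nat_lit 0) (nat_lit 12556987124) (nat_lit 1216) (nat_lit 3767346109) (nat_lit 1292) (nat_lit 245195939) (nat_lit 381) (nat_lit 5) (nat_lit 397) (nat_lit 5) (nat_lit 398) (nat_lit 5) (nat_lit 394) (nat_lit 380) (nat_lit 246)) (XT.lf (nat_lit 76) (nat_lit 5241483431) (nat_lit 0) (nat_lit 8963768121) (nat_lit 1292) (nat_lit 2620880926) (nat_lit 382) (nat_lit 5) (nat_lit 381) (nat_lit 5) (nat_lit 398) (nat_lit 5) (nat_lit 395) (nat_lit 380) (nat_lit 245))) (XT.nd (nat_lit 78) (nat_lit 1216) (nat_lit 0) (XT.lf (nat_lit 76) (nat_lit 14589557588) (nat_lit 0) (nat_lit 1341557328) (nat_lit 1292) (nat_lit 1158474438) (nat_lit 382) (nat_lit 5) (nat_lit 381) (nat_lit 5) (nat_lit 398) (nat_lit 5) (nat_lit 396) (nat_lit 380) (nat_lit 244)) (XT.lf (nat_lit 0) (nat_lit 461715647) (nat_lit 1292)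 (nat_lit 10440589543) (nat_lit 76) (nat_lit 6454923497) (nat_lit 365) (nat_lit 5) (nat_lit 382) (nat_lit 5) (nat_lit 366) (nat_lit 5) (nat_lit 397) (nat_lit 380) (nat_lit 243))))))) (XT.nd (nat_lit 1170) (nat_lit 4332) (nat_lit 0) (XT.nd (nat_lit 546) (nat_lit 2204) (nat_lit 0) (XT.nd (nat_lit 234) (nat_lit 1140) (nat_lit 0) (XT.nd (nat_lit 78) (nat_lit 1444) (nat_lit 0) (XT.lf (nat_lit 0) (nat_lit 2136524236) (nat_lit 1292) (nat_lit 998501841) (nat_lit 76) (nat_lit 14496648113) (nat_lit 365) (nat_lit 5) (nat_lit 382) (nat_lit 5) (nat_lit 366) (nat_lit 5) (nat_lit 398) (nat_lit 380) (nat_lit 242)) (XT.nd (nat_lit 78) (nat_lit 608) (nat_lit 0) (XT.lf (nat_lit 0) (nat_lit 3985473518) (nat_lit 912) (nat_lit 9067494317) (nat_lit 76) (nat_lit 4857668329) (nat_lit 354) (nat_lit 5) (nat_lit 366) (nat_lit 5) (nat_lit 355) (nat_lit 5) (nat_lit 399) (nat_lit 380) (nat_lit 241)) (XT.lf (nat_lit 0) (nat_lit 778519009)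 (nat_lit 608) (nat_lit 5151072677) (nat_lit 684) (nat_lit 12267184299) (nat_lit 346) (nat_lit 5) (nat_lit 354) (nat_lit 5) (nat_lit 355) (nat_lit 5) (nat_lit 400) (nat_lit 380) (nat_lit 240)))) (XT.nd (nat_lit 156) (nat_lit 532) (nat_lit 0) (XT.nd (nat_lit 78) (nat_lit 608) (nat_lit 0) (XT.lf (nat_lit 0) (nat_lit 8044407164) (nat_lit 684) (nat_lit 7421152902) (nat_lit 76) (nat_lit 3022568722) (nat_lit 346) (nat_lit 5) (nat_lit 355) (nat_lit 5) (nat_lit 347) (nat_lit 5) (nat_lit 401) (nat_lit 380) (nat_lit 239)) (XT.lf (nat_lit 0) (nat_lit 2872608413) (nat_lit 608) (nat_lit 7420111471) (nat_lit 684) (nat_lit 8493400708) (nat_lit 338) (nat_lit 5) (nat_lit 346) (nat_lit 5) (nat_lit 347) (nat_lit 5) (nat_lit 402) (nat_lit 380) (nat_lit 238))) (XT.nd (nat_lit 78) (nat_lit 532) (nat_lit 0) (XT.lf (nat_lit 0) (nat_lit 12684104914) (nat_lit 684) (nat_lit 5481050193) (nat_lit 76) (nat_lit 925628356) (nat_lit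 338) (nat_lit 5) (nat_lit 347) (nat_lit 5) (nat_lit 339) (nat_lit 5) (nat_lit 403) (nat_lit 380) (nat_lit 237)) (XT.lf (nat_lit 0) (nat_lit 5285829913) (nat_lit 532) (nat_lit 9977533619) (nat_lit 608) (nat_lit 4137738725) (nat_lit 331) (nat_lit 5) (nat_lit 338) (nat_lit 5) (nat_lit 339) (nat_lit 5) (nat_lit 404) (nat_lit 380) (nat_lit 236))))) (XT.nd (nat_lit 312) (nat_lit 988) (nat_lit 0) (XT.nd (nat_lit 156) (nat_lit 532) (nat_lit 0) (XT.nd (nat_lit 78) (nat_lit 684) (nat_lit 0) (XT.lf (nat_lit 0) (nat_lit 16479918443) (nat_lit 532) (nat_lit 1487443136) (nat_lit 608) (nat_lit 1751948187) (nat_lit 331) (nat_lit 5) (nat_lit 338) (nat_lit 5) (nat_lit 339) (nat_lit 5) (nat_lit 405) (nat_lit 380) (nat_lit 235)) (XT.lf (nat_lit 0) (nat_lit 832339611) (nat_lit 684) (nat_lit 12009263945) (nat_lit 76) (nat_lit 7201035855) (nat_lit 322) (nat_lit 5) (nat_lit 331) (nat_lit 5) (nat_lit 323) (nat_lit 5) (nat_lit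 406) (nat_lit 380) (nat_lit 234))) (XT.nd (nat_lit 78) (nat_lit 532) (nat_lit 0) (XT.lf (nat_lit 0) (nat_lit 3499024018) (nat_lit 684) (nat_lit 704575737) (nat_lit 76) (nat_lit 16170346398) (nat_lit 322) (nat_lit 5) (nat_lit 331) (nat_lit 5) (nat_lit 323) (nat_lit 5) (nat_lit 407) (nat_lit 380) (nat_lit 233)) (XT.lf (nat_lit 0) (nat_lit 6391593174) (nat_lit 608) (nat_lit 9609548432) (nat_lit 76) (nat_lit 4709673963) (nat_lit 315) (nat_lit 5) (nat_lit 323) (nat_lit 5) (nat_lit 316) (nat_lit 5) (nat_lit 408) (nat_lit 380) (nat_lit 232)))) (XT.nd (nat_lit 156) (nat_lit 456) (nat_lit 0) (XT.nd (nat_lit 78) (nat_lit 0) (nat_lit 0) (XT.lf (nat_lit 0) (nat_lit 2211497950) (nat_lit 532) (nat_lit 7222182050) (nat_lit 608) (nat_lit 11622228852) (nat_lit 308) (nat_lit 5) (nat_lit 315) (nat_lit 5) (nat_lit 316) (nat_lit 5) (nat_lit 409) (nat_lit 380) (nat_lit 231)) (XT.lf (nat_lit 0) (nat_lit 12675329250) (nat_lit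 608) (nat_lit 6850983619) (nat_lit 76) (nat_lit 1881793069) (nat_lit 308) (nat_lit 5) (nat_lit 316) (nat_lit 5) (nat_lit 309) (nat_lit 5) (nat_lit 410) (nat_lit 380) (nat_lit 230))) (XT.nd (nat_lit 78) (nat_lit 0) (nat_lit 0) (XT.lf (nat_lit 0) (nat_lit 5530658198) (nat_lit 456) (nat_lit 10601255257) (nat_lit 532) (nat_lit 5635424917) (nat_lit 302) (nat_lit 5) (nat_lit 308) (nat_lit 5) (nat_lit 309) (nat_lit 5) (nat_lit 411) (nat_lit 380) (nat_lit 229)) (XT.lf (nat_lit 0) (nat_lit 18416261600) (nat_lit 456) (nat_lit 1338257009) (nat_lit 532) (nat_lit 2380959468) (nat_lit 302) (nat_lit 5) (nat_lit 308) (nat_lit 5) (nat_lit 309) (nat_lit 5) (nat_lit 412) (nat_lit 380) (nat_lit 228)))))) (XT.nd (nat_lit 624) (nat_lit 1900) (nat_lit 0) (XT.nd (nat_lit 312) (nat_lit 912) (nat_lit 0) (XT.nd (nat_lit 156) (nat_lit 912) (nat_lit 0) (XT.nd (nat_lit 78) (nat_lit 0) (nat_lit 0) (XT.lf (nat_lit 0) (nat_lit 1115055242)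 (nat_lit 608) (nat_lit 13252868575) (nat_lit 76) (nat_lit 8141572127) (nat_lit 294) (nat_lit 5) (nat_lit 302) (nat_lit 5) (nat_lit 295) (nat_lit 5) (nat_lit 413) (nat_lit 380) (nat_lit 227)) (XT.lf (nat_lit 0) (nat_lit 4712660210) (nat_lit 608) (nat_lit 240755964) (nat_lit 76) (nat_lit 17939274016) (nat_lit 294) (nat_lit 5) (nat_lit 302) (nat_lit 5) (nat_lit 295) (nat_lit 5) (nat_lit 414) (nat_lit 380) (nat_lit 226))) (XT.nd (nat_lit 78) (nat_lit 456) (nat_lit 0) (XT.lf (nat_lit 0) (nat_lit 8587595048) (nat_lit 532) (nat_lit 9914763701) (nat_lit 76) (nat_lit 4779939463) (nat_lit 288) (nat_lit 5) (nat_lit 295) (nat_lit 5) (nat_lit 289) (nat_lit 5) (nat_lit 415) (nat_lit 380) (nat_lit 225)) (XT.lf (nat_lit 0) (nat_lit 3721225083) (nat_lit 456) (nat_lit 8938502093) (nat_lit 532) (nat_lit 11021438821) (nat_lit 282) (nat_lit 5) (nat_lit 288) (nat_lit 5) (nat_lit 289) (nat_lit 5) (nat_lit 416) (nat_lit 380)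 (nat_lit 224)))) (XT.nd (nat_lit 156) (nat_lit 532) (nat_lit 0) (XT.nd (nat_lit 78) (nat_lit 380) (nat_lit 0) (XT.lf (nat_lit 0) (nat_lit 16957678251) (nat_lit 532) (nat_lit 6137124523) (nat_lit 76) (nat_lit 994087392) (nat_lit 282) (nat_lit 5) (nat_lit 289) (nat_lit 5) (nat_lit 283) (nat_lit 5) (nat_lit 417) (nat_lit 380) (nat_lit 223)) (XT.lf (nat_lit 0) (nat_lit 8163501699) (nat_lit 380) (nat_lit 13381994796) (nat_lit 456) (nat_lit 2958521706) (nat_lit 277) (nat_lit 5) (nat_lit 282) (nat_lit 5) (nat_lit 283) (nat_lit 5) (nat_lit 418) (nat_lit 380) (nat_lit 222))) (XT.nd (nat_lit 78) (nat_lit 456) (nat_lit 0) (XT.lf (nat_lit 0) (nat_lit 1369800415) (nat_lit 456) (nat_lit 1931995518) (nat_lit 76) (nat_lit 21627720303) (nat_lit 276) (nat_lit 5) (nat_lit 282) (nat_lit 5) (nat_lit 277) (nat_lit 5) (nat_lit 419) (nat_lit 380) (nat_lit 221)) (XT.lf (nat_lit 0) (nat_lit 5958468364) (nat_lit 532) (nat_lit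 12304704415) (nat_lit 76) (nat_lit 7098028878) (nat_lit 270) (nat_lit 5) (nat_lit 277) (nat_lit 5) (nat_lit 271) (nat_lit 5) (nat_lit 420) (nat_lit 380) (nat_lit 220))))) (XT.nd (nat_lit 312) (nat_lit 1140) (nat_lit 0) (XT.nd (nat_lit 156) (nat_lit 380) (nat_lit 0) (XT.nd (nat_lit 78) (nat_lit 0) (nat_lit 0) (XT.lf (nat_lit 0) (nat_lit 2742043988) (nat_lit 380) (nat_lit 8015761173) (nat_lit 456) (nat_lit 15045842215) (nat_lit 265) (nat_lit 5) (nat_lit 270) (nat_lit 5) (nat_lit 271) (nat_lit 5) (nat_lit 421) (nat_lit 380) (nat_lit 219)) (XT.lf (nat_lit 0) (nat_lit 15845347182) (nat_lit 456) (nat_lit 7796499744) (nat_lit 76) (nat_lit 2613192788) (nat_lit 265) (nat_lit 5) (nat_lit 271) (nat_lit 5) (nat_lit 266) (nat_lit 5) (nat_lit 422) (nat_lit 380) (nat_lit 218))) (XT.nd (nat_lit 78) (nat_lit 0) (nat_lit 0) (XT.lf (nat_lit 0) (nat_lit 7995789846) (nat_lit 380) (nat_lit 13240449409) (nat_lit 456) (nat_lit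 5479212852) (nat_lit 260) (nat_lit 5) (nat_lit 265) (nat_lit 5) (nat_lit 266) (nat_lit 5) (nat_lit 423) (nat_lit 380) (nat_lit 217)) (XT.lf (nat_lit 0) (nat_lit 24414311718) (nat_lit 380) (nat_lit 2447864622) (nat_lit 456) (nat_lit 325300986) (nat_lit 260) (nat_lit 5) (nat_lit 265) (nat_lit 5) (nat_lit 266) (nat_lit 5) (nat_lit 424) (nat_lit 380) (nat_lit 216)))) (XT.nd (nat_lit 156) (nat_lit 304) (nat_lit 0) (XT.nd (nat_lit 78) (nat_lit 380) (nat_lit 0) (XT.lf (nat_lit 0) (nat_lit 5099084049) (nat_lit 456) (nat_lit 13886314415) (nat_lit 76) (nat_lit 8680434886) (nat_lit 254) (nat_lit 5) (nat_lit 260) (nat_lit 5) (nat_lit 255) (nat_lit 5) (nat_lit 425) (nat_lit 380) (nat_lit 215)) (XT.lf (nat_lit 0) (nat_lit 2746475484) (nat_lit 380) (nat_lit 8006866009) (nat_lit 456) (nat_lit 17402891564) (nat_lit 249) (nat_lit 5) (nat_lit 254) (nat_lit 5) (nat_lit 255) (nat_lit 5) (nat_lit 426) (nat_lit 380) (nat_lit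 214))) (XT.nd (nat_lit 78) (nat_lit 304) (nat_lit 0) (XT.lf (nat_lit 0) (nat_lit 16745395112) (nat_lit 456) (nat_lit 8534730849) (nat_lit 76) (nat_lit 3376173741) (nat_lit 249) (nat_lit 5) (nat_lit 255) (nat_lit 5) (nat_lit 250) (nat_lit 5) (nat_lit 427) (nat_lit 380) (nat_lit 213)) (XT.lf (nat_lit 0) (nat_lit 8934451054) (nat_lit 304) (nat_lit 14142893445) (nat_lit 380) (nat_lit 6089219822) (nat_lit 245) (nat_lit 5) (nat_lit 249) (nat_lit 5) (nat_lit 250) (nat_lit 5) (nat_lit 428) (nat_lit 380) (nat_lit 212))))))))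
noncomputable def xc186 : XT := (XT.nd (nat_lit 2340) (nat_lit 3040) (nat_lit 0) (XT.nd (nat_lit 1170) (nat_lit 2432) (nat_lit 0) (XT.nd (nat_lit 546) (nat_lit 1520) (nat_lit 0) (XT.nd (nat_lit 234) (nat_lit 684) (nat_lit 0) (XT.nd (nat_lit 78) (nat_lit 760) (nat_lit 0) (XT.lf (nat_lit 0) (nat_lit 27095569214) (nat_lit 304) (nat_lit 2584920234) (nat_lit 380) (nat_lit 9210319) (nat_lit 245) (nat_lit 5) (nat_lit 249) (nat_lit 5) (nat_lit 250) (nat_lit 5) (nat_lit 429) (nat_lit 380) (nat_lit 211)) (XT.nd (nat_lit 78) (nat_lit 304) (nat_lit 0) (XT.lf (nat_lit 0) (nat_lit 6370012535) (nat_lit 456) (nat_lit 14499481170) (nat_lit 76) (nat_lit 9350067219) (nat_lit 239) (nat_lit 5) (nat_lit 245) (nat_lit 5) (nat_lit 240) (nat_lit 5) (nat_lit 430) (nat_lit 380) (nat_lit 210)) (XT.lf (nat_lit 0) (nat_lit 3915791824) (nat_lit 304) (nat_lit 9109528202) (nat_lit 380) (nat_lit 17737448362) (nat_lit 235) (nat_lit 5)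 (nat_lit 239) (nat_lit 5) (nat_lit 240) (nat_lit 5) (nat_lit 431) (nat_lit 380) (nat_lit 209)))) (XT.nd (nat_lit 156) (nat_lit 380) (nat_lit 0) (XT.nd (nat_lit 78) (nat_lit 304) (nat_lit 0) (XT.lf (nat_lit 0) (nat_lit 20052276637) (nat_lit 380) (nat_lit 8174538191) (nat_lit 76) (nat_lit 3090297549) (nat_lit 235) (nat_lit 5) (nat_lit 240) (nat_lit 5) (nat_lit 236) (nat_lit 5) (nat_lit 432) (nat_lit 380) (nat_lit 208)) (XT.lf (nat_lit 0) (nat_lit 11179143640) (nat_lit 304) (nat_lit 16303945583) (nat_lit 380) (nat_lit 4399206046) (nat_lit 231) (nat_lit 5) (nat_lit 235) (nat_lit 5) (nat_lit 236) (nat_lit 5) (nat_lit 433) (nat_lit 380) (nat_lit 207))) (XT.nd (nat_lit 78) (nat_lit 304) (nat_lit 0) (XT.lf (nat_lit 0) (nat_lit 2699025543) (nat_lit 380) (nat_lit 1214362710) (nat_lit 76) (nat_lit 28547911305) (nat_lit 230) (nat_lit 5) (nat_lit 235) (nat_lit 5) (nat_lit 231) (nat_lit 5) (nat_lit 434) (nat_lit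 380) (nat_lit 206)) (XT.lf (nat_lit 0) (nat_lit 10189031300) (nat_lit 380) (nat_lit 13955103345) (nat_lit 76) (nat_lit 8904215227) (nat_lit 226) (nat_lit 5) (nat_lit 231) (nat_lit 5) (nat_lit 227) (nat_lit 5) (nat_lit 435) (nat_lit 380) (nat_lit 205))))) (XT.nd (nat_lit 312) (nat_lit 608) (nat_lit 0) (XT.nd (nat_lit 156) (nat_lit 608) (nat_lit 0) (XT.nd (nat_lit 78) (nat_lit 0) (nat_lit 0) (XT.lf (nat_lit 0) (nat_lit 6462830310) (nat_lit 304) (nat_lit 11549756618) (nat_lit 380) (nat_lit 15637159278) (nat_lit 222) (nat_lit 5) (nat_lit 226) (nat_lit 5) (nat_lit 227) (nat_lit 5) (nat_lit 436) (nat_lit 380) (nat_lit 204)) (XT.lf (nat_lit 0) (nat_lit 26222473216) (nat_lit 380) (nat_lit 6507447674) (nat_lit 76) (nat_lit 1534714818) (nat_lit 222) (nat_lit 5) (nat_lit 227) (nat_lit 5) (nat_lit 223) (nat_lit 5) (nat_lit 437) (nat_lit 380) (nat_lit 203))) (XT.nd (nat_lit 78) (nat_lit 304) (nat_lit 0) (XT.lf (nat_lit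 0) (nat_lit 41433284) (nat_lit 304) (nat_lit 19927310341) (nat_lit 76) (nat_lit 14921597436) (nat_lit 218) (nat_lit 5) (nat_lit 222) (nat_lit 5) (nat_lit 219) (nat_lit 5) (nat_lit 438) (nat_lit 380) (nat_lit 202)) (XT.lf (nat_lit 0) (nat_lit 1622955740) (nat_lit 304) (nat_lit 6660688110) (nat_lit 380) (nat_lit 27246452568) (nat_lit 214) (nat_lit 5) (nat_lit 218) (nat_lit 5) (nat_lit 219) (nat_lit 5) (nat_lit 439) (nat_lit 380) (nat_lit 201)))) (XT.nd (nat_lit 156) (nat_lit 380) (nat_lit 0) (XT.nd (nat_lit 78) (nat_lit 228) (nat_lit 0) (XT.lf (nat_lit 0) (nat_lit 17039895598) (nat_lit 380) (nat_lit 12031164656) (nat_lit 76) (nat_lit 7109980938) (nat_lit 214) (nat_lit 5) (nat_lit 219) (nat_lit 5) (nat_lit 215) (nat_lit 5) (nat_lit 440) (nat_lit 380) (nat_lit 200)) (XT.lf (nat_lit 0) (nat_lit 10636239743) (nat_lit 228) (nat_lit 15586725806) (nat_lit 304) (nat_lit 10623624838) (nat_lit 211) (nat_lit 5)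 (nat_lit 214) (nat_lit 5) (nat_lit 215) (nat_lit 5) (nat_lit 441) (nat_lit 380) (nat_lit 199))) (XT.nd (nat_lit 78) (nat_lit 380) (nat_lit 0) (XT.lf (nat_lit 0) (nat_lit 34223901792) (nat_lit 228) (nat_lit 1575114961) (nat_lit 304) (nat_lit 1729564632) (nat_lit 211) (nat_lit 5) (nat_lit 214) (nat_lit 5) (nat_lit 215) (nat_lit 5) (nat_lit 442) (nat_lit 380) (nat_lit 198)) (XT.lf (nat_lit 0) (nat_lit 7606757530) (nat_lit 380) (nat_lit 17736625607) (nat_lit 76) (nat_lit 12875892388) (nat_lit 206) (nat_lit 5) (nat_lit 211) (nat_lit 5) (nat_lit 207) (nat_lit 5) (nat_lit 443) (nat_lit 380) (nat_lit 197)))))) (XT.nd (nat_lit 546) (nat_lit 1444) (nat_lit 0) (XT.nd (nat_lit 234) (nat_lit 532) (nat_lit 0) (XT.nd (nat_lit 78) (nat_lit 228) (nat_lit 0) (XT.lf (nat_lit 0) (nat_lit 6203336721) (nat_lit 228) (nat_lit 11090104695) (nat_lit 304) (nat_lit 21633584302) (nat_lit 203) (nat_lit 5) (nat_lit 206) (nat_lit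 5) (nat_lit 207) (nat_lit 5) (nat_lit 444) (nat_lit 380) (nat_lit 196)) (XT.nd (nat_lit 78) (nat_lit 228) (nat_lit 0) (XT.lf (nat_lit 0) (nat_lit 27482258956) (nat_lit 304) (nat_lit 8468189323) (nat_lit 76) (nat_lit 3699214143) (nat_lit 203) (nat_lit 5) (nat_lit 207) (nat_lit 5) (nat_lit 204) (nat_lit 5) (nat_lit 445) (nat_lit 380) (nat_lit 195)) (XT.lf (nat_lit 0) (nat_lit 16725384230) (nat_lit 228) (nat_lit 21518184899) (nat_lit 304) (nat_lit 2142404256) (nat_lit 200) (nat_lit 5) (nat_lit 203) (nat_lit 5) (nat_lit 204) (nat_lit 5) (nat_lit 446) (nat_lit 380) (nat_lit 194)))) (XT.nd (nat_lit 156) (nat_lit 228) (nat_lit 0) (XT.nd (nat_lit 78) (nat_lit 0) (nat_lit 0) (XT.lf (nat_lit 0) (nat_lit 1653120080) (nat_lit 228) (nat_lit 6469052292) (nat_lit 304) (nat_lit 33016885986) (nat_lit 196) (nat_lit 5) (nat_lit 199) (nat_lit 5) (nat_lit 200) (nat_lit 5) (nat_lit 447) (nat_lit 380) (nat_lit 193)) (XT.lf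 (nat_lit 0) (nat_lit 18976025181) (nat_lit 304) (nat_lit 13812904204) (nat_lit 76) (nat_lit 9115438165) (nat_lit 196) (nat_lit 5) (nat_lit 200) (nat_lit 5) (nat_lit 197) (nat_lit 5) (nat_lit 448) (nat_lit 380) (nat_lit 192))) (XT.nd (nat_lit 78) (nat_lit 0) (nat_lit 0) (XT.lf (nat_lit 0) (nat_lit 12810223878) (nat_lit 228) (nat_lit 17528858555) (nat_lit 304) (nat_lit 12348045919) (nat_lit 193) (nat_lit 5) (nat_lit 196) (nat_lit 5) (nat_lit 197) (nat_lit 5) (nat_lit 449) (nat_lit 380) (nat_lit 191)) (XT.lf (nat_lit 0) (nat_lit 40509235223) (nat_lit 228) (nat_lit 1669726130) (nat_lit 304) (nat_lit 1310332727) (nat_lit 193) (nat_lit 5) (nat_lit 196) (nat_lit 5) (nat_lit 197) (nat_lit 5) (nat_lit 450) (nat_lit 380) (nat_lit 190))))) (XT.nd (nat_lit 312) (nat_lit 684) (nat_lit 0) (XT.nd (nat_lit 156) (nat_lit 228) (nat_lit 0) (XT.nd (nat_lit 78) (nat_lit 228) (nat_lit 0) (XT.lf (nat_lit 0) (nat_lit 10244429012)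 (nat_lit 304) (nat_lit 19338626876) (nat_lit 76) (nat_lit 14718102385) (nat_lit 189) (nat_lit 5) (nat_lit 193) (nat_lit 5) (nat_lit 190) (nat_lit 5) (nat_lit 451) (nat_lit 380) (nat_lit 189)) (XT.lf (nat_lit 0) (nat_lit 8804128516) (nat_lit 228) (nat_lit 13443461068) (nat_lit 304) (nat_lit 22885556829) (nat_lit 186) (nat_lit 5) (nat_lit 189) (nat_lit 5) (nat_lit 190) (nat_lit 5) (nat_lit 452) (nat_lit 380) (nat_lit 188))) (XT.nd (nat_lit 78) (nat_lit 228) (nat_lit 0) (XT.lf (nat_lit 0) (nat_lit 34835192633) (nat_lit 304) (nat_lit 7835052949) (nat_lit 76) (nat_lit 3313118187) (nat_lit 186) (nat_lit 5) (nat_lit 190) (nat_lit 5) (nat_lit 187) (nat_lit 5) (nat_lit 453) (nat_lit 380) (nat_lit 187)) (XT.lf (nat_lit 0) (nat_lit 1265649220) (nat_lit 228) (nat_lit 25061016654) (nat_lit 76) (nat_lit 20521869851) (nat_lit 183) (nat_lit 5) (nat_lit 186) (nat_lit 5) (nat_lit 184) (nat_lit 5) (nat_lit 454) (nat_lit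 380) (nat_lit 186)))) (XT.nd (nat_lit 156) (nat_lit 456) (nat_lit 0) (XT.nd (nat_lit 78) (nat_lit 0) (nat_lit 0) (XT.lf (nat_lit 0) (nat_lit 4696840702) (nat_lit 228) (nat_lit 9252698223) (nat_lit 304) (nat_lit 33783160919) (nat_lit 180) (nat_lit 5) (nat_lit 183) (nat_lit 5) (nat_lit 184) (nat_lit 5) (nat_lit 455) (nat_lit 380) (nat_lit 185)) (XT.lf (nat_lit 0) (nat_lit 27346314944) (nat_lit 304) (nat_lit 12863008475) (nat_lit 76) (nat_lit 8424094378) (nat_lit 180) (nat_lit 5) (nat_lit 184) (nat_lit 5) (nat_lit 181) (nat_lit 5) (nat_lit 456) (nat_lit 380) (nat_lit 184))) (XT.nd (nat_lit 78) (nat_lit 304) (nat_lit 0) (XT.lf (nat_lit 0) (nat_lit 18478405385) (nat_lit 152) (nat_lit 22932612157) (nat_lit 228) (nat_lit 8142159048) (nat_lit 178) (nat_lit 5) (nat_lit 180) (nat_lit 5) (nat_lit 181) (nat_lit 5) (nat_lit 457) (nat_lit 380) (nat_lit 183)) (XT.lf (nat_lit 0) (nat_lit 477662990) (nat_lit 228) (nat_lit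 4946717019) (nat_lit 304) (nat_lit 45070614789) (nat_lit 174) (nat_lit 5) (nat_lit 177) (nat_lit 5) (nat_lit 178) (nat_lit 5) (nat_lit 458) (nat_lit 380) (nat_lit 182))))))) (XT.nd (nat_lit 1170) (nat_lit 1368) (nat_lit 0) (XT.nd (nat_lit 546) (nat_lit 912) (nat_lit 0) (XT.nd (nat_lit 234) (nat_lit 608) (nat_lit 0) (XT.nd (nat_lit 78) (nat_lit 152) (nat_lit 0) (XT.lf (nat_lit 0) (nat_lit 19678507108) (nat_lit 304) (nat_lit 18061848558) (nat_lit 76) (nat_lit 13708966187) (nat_lit 174) (nat_lit 5) (nat_lit 178) (nat_lit 5) (nat_lit 175) (nat_lit 5) (nat_lit 459) (nat_lit 380) (nat_lit 181)) (XT.nd (nat_lit 78) (nat_lit 0) (nat_lit 0) (XT.lf (nat_lit 0) (nat_lit 15092374219) (nat_lit 152) (nat_lit 19458843933) (nat_lit 228) (nat_lit 17875331763) (nat_lit 172) (nat_lit 5) (nat_lit 174) (nat_lit 5) (nat_lit 175) (nat_lit 5) (nat_lit 460) (nat_lit 380) (nat_lit 180)) (XT.lf (nat_lit 0) (nat_lit 49606073184)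 (nat_lit 152) (nat_lit 443370416) (nat_lit 228) (nat_lit 3378271227) (nat_lit 172) (nat_lit 5) (nat_lit 174) (nat_lit 5) (nat_lit 175) (nat_lit 5) (nat_lit 461) (nat_lit 380) (nat_lit 179)))) (XT.nd (nat_lit 156) (nat_lit 228) (nat_lit 0) (XT.nd (nat_lit 78) (nat_lit 152) (nat_lit 0) (XT.lf (nat_lit 0) (nat_lit 11813109095) (nat_lit 228) (nat_lit 23446230294) (nat_lit 76) (nat_lit 19181697591) (nat_lit 169) (nat_lit 5) (nat_lit 172) (nat_lit 5) (nat_lit 170) (nat_lit 5) (nat_lit 462) (nat_lit 380) (nat_lit 178)) (XT.lf (nat_lit 0) (nat_lit 11633970045) (nat_lit 152) (nat_lit 15910574926) (nat_lit 228) (nat_lit 27934643958) (nat_lit 167) (nat_lit 5) (nat_lit 169) (nat_lit 5) (nat_lit 170) (nat_lit 5) (nat_lit 463) (nat_lit 380) (nat_lit 177))) (XT.nd (nat_lit 78) (nat_lit 228) (nat_lit 0) (XT.lf (nat_lit 0) (nat_lit 44022690950) (nat_lit 228) (nat_lit 8340487118) (nat_lit 76) (nat_lit 4177064358) (nat_lit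 167) (nat_lit 5) (nat_lit 170) (nat_lit 5) (nat_lit 168) (nat_lit 5) (nat_lit 464) (nat_lit 380) (nat_lit 176)) (XT.lf (nat_lit 0) (nat_lit 3730516142) (nat_lit 228) (nat_lit 29031545156) (nat_lit 76) (nat_lit 24857074642) (nat_lit 164) (nat_lit 5) (nat_lit 167) (nat_lit 5) (nat_lit 165) (nat_lit 5) (nat_lit 465) (nat_lit 380) (nat_lit 175))))) (XT.nd (nat_lit 312) (nat_lit 380) (nat_lit 0) (XT.nd (nat_lit 156) (nat_lit 380) (nat_lit 0) (XT.nd (nat_lit 78) (nat_lit 0) (nat_lit 0) (XT.lf (nat_lit 0) (nat_lit 8094615413) (nat_lit 152) (nat_lit 12279811902) (nat_lit 228) (nat_lit 38347451102) (nat_lit 162) (nat_lit 5) (nat_lit 164) (nat_lit 5) (nat_lit 165) (nat_lit 5) (nat_lit 466) (nat_lit 380) (nat_lit 174)) (XT.lf (nat_lit 0) (nat_lit 37895611025) (nat_lit 228) (nat_lit 13012080655) (nat_lit 76) (nat_lit 8938672833) (nat_lit 162) (nat_lit 5) (nat_lit 165) (nat_lit 5) (nat_lit 163) (nat_lit 5) (nat_lit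 467) (nat_lit 380) (nat_lit 173))) (XT.nd (nat_lit 78) (nat_lit 228) (nat_lit 0) (XT.lf (nat_lit 0) (nat_lit 26114519244) (nat_lit 152) (nat_lit 30197742851) (nat_lit 228) (nat_lit 4681228141) (nat_lit 160) (nat_lit 5) (nat_lit 162) (nat_lit 5) (nat_lit 163) (nat_lit 5) (nat_lit 468) (nat_lit 380) (nat_lit 172)) (XT.lf (nat_lit 0) (nat_lit 4465362272) (nat_lit 152) (nat_lit 8558115769) (nat_lit 228) (nat_lit 49142586658) (nat_lit 157) (nat_lit 5) (nat_lit 159) (nat_lit 5) (nat_lit 160) (nat_lit 5) (nat_lit 469) (nat_lit 380) (nat_lit 171)))) (XT.nd (nat_lit 156) (nat_lit 228) (nat_lit 0) (XT.nd (nat_lit 78) (nat_lit 152) (nat_lit 0) (XT.lf (nat_lit 0) (nat_lit 31650159248) (nat_lit 228) (nat_lit 17845124474) (nat_lit 76) (nat_lit 13862594555) (nat_lit 157) (nat_lit 5) (nat_lit 160) (nat_lit 5) (nat_lit 158) (nat_lit 5) (nat_lit 470) (nat_lit 380) (nat_lit 170)) (XT.lf (nat_lit 0) (nat_lit 23576536853)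 (nat_lit 152) (nat_lit 27567787971) (nat_lit 228) (nat_lit 13431860918) (nat_lit 155) (nat_lit 5) (nat_lit 157) (nat_lit 5) (nat_lit 158) (nat_lit 5) (nat_lit 471) (nat_lit 380) (nat_lit 169))) (XT.nd (nat_lit 78) (nat_lit 0) (nat_lit 0) (XT.lf (nat_lit 0) (nat_lit 736861594) (nat_lit 152) (nat_lit 4736579895) (nat_lit 228) (nat_lit 60350454191) (nat_lit 152) (nat_lit 5) (nat_lit 154) (nat_lit 5) (nat_lit 155) (nat_lit 5) (nat_lit 472) (nat_lit 380) (nat_lit 168)) (XT.lf (nat_lit 0) (nat_lit 25271904654) (nat_lit 228) (nat_lit 22853233161) (nat_lit 76) (nat_lit 18962030377) (nat_lit 152) (nat_lit 5) (nat_lit 155) (nat_lit 5) (nat_lit 153) (nat_lit 5) (nat_lit 473) (nat_lit 380) (nat_lit 167)))))) (XT.nd (nat_lit 624) (nat_lit 608) (nat_lit 0) (XT.nd (nat_lit 312) (nat_lit 304) (nat_lit 0) (XT.nd (nat_lit 156) (nat_lit 304) (nat_lit 0) (XT.nd (nat_lit 78) (nat_lit 0) (nat_lit 0) (XT.lf (nat_lit 0) (nat_lit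 21005799127) (nat_lit 152) (nat_lit 24904750583) (nat_lit 228) (nat_lit 22470402327) (nat_lit 150) (nat_lit 5) (nat_lit 152) (nat_lit 5) (nat_lit 153) (nat_lit 5) (nat_lit 474) (nat_lit 380) (nat_lit 166)) (XT.lf (nat_lit 0) (nat_lit 66644333534) (nat_lit 152) (nat_lit 752233886) (nat_lit 228) (nat_lit 2310135581) (nat_lit 150) (nat_lit 5) (nat_lit 152) (nat_lit 5) (nat_lit 153) (nat_lit 5) (nat_lit 475) (nat_lit 380) (nat_lit 165))) (XT.nd (nat_lit 78) (nat_lit 152) (nat_lit 0) (XT.lf (nat_lit 0) (nat_lit 18745725675) (nat_lit 152) (nat_lit 28050718155) (nat_lit 76) (nat_lit 24250933393) (nat_lit 148) (nat_lit 5) (nat_lit 150) (nat_lit 5) (nat_lit 149) (nat_lit 5) (nat_lit 476) (nat_lit 380) (nat_lit 164)) (XT.lf (nat_lit 0) (nat_lit 18396589017) (nat_lit 152) (nat_lit 22203258374) (nat_lit 228) (nat_lit 31821347619) (nat_lit 146) (nat_lit 5) (nat_lit 148) (nat_lit 5) (nat_lit 149) (nat_lit 5) (nat_lit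 477) (nat_lit 380) (nat_lit 163)))) (XT.nd (nat_lit 156) (nat_lit 152) (nat_lit 0) (XT.nd (nat_lit 78) (nat_lit 152) (nat_lit 0) (XT.lf (nat_lit 0) (nat_lit 63423226895) (nat_lit 228) (nat_lit 7052938148) (nat_lit 76) (nat_lit 3350653265) (nat_lit 146) (nat_lit 5) (nat_lit 149) (nat_lit 5) (nat_lit 147) (nat_lit 4) (nat_lit 478) (nat_lit 380) (nat_lit 162)) (XT.lf (nat_lit 0) (nat_lit 12055765064) (nat_lit 152) (nat_lit 33452636506) (nat_lit 76) (nat_lit 29744051243) (nat_lit 144) (nat_lit 5) (nat_lit 146) (nat_lit 5) (nat_lit 145) (nat_lit 5) (nat_lit 479) (nat_lit 380) (nat_lit 161))) (XT.nd (nat_lit 78) (nat_lit 0) (nat_lit 0) (XT.lf (nat_lit 0) (nat_lit 15742969172) (nat_lit 152) (nat_lit 19457671308) (nat_lit 228) (nat_lit 41510500493) (nat_lit 142) (nat_lit 5) (nat_lit 144) (nat_lit 5) (nat_lit 145) (nat_lit 5) (nat_lit 480) (nat_lit 380) (nat_lit 160)) (XT.lf (nat_lit 0) (nat_lit 59449491928)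 (nat_lit 228) (nat_lit 11182040812) (nat_lit 76) (nat_lit 7569768144) (nat_lit 142) (nat_lit 5) (nat_lit 145) (nat_lit 5) (nat_lit 143) (nat_lit 4) (nat_lit 481) (nat_lit 380) (nat_lit 159))))) (XT.nd (nat_lit 312) (nat_lit 228) (nat_lit 0) (XT.nd (nat_lit 156) (nat_lit 76) (nat_lit 0) (XT.nd (nat_lit 78) (nat_lit 152) (nat_lit 0) (XT.lf (nat_lit 0) (nat_lit 5185381886) (nat_lit 152) (nat_lit 39074842139) (nat_lit 76) (nat_lit 35456971665) (nat_lit 140) (nat_lit 5) (nat_lit 142) (nat_lit 5) (nat_lit 141) (nat_lit 5) (nat_lit 482) (nat_lit 380) (nat_lit 158)) (XT.lf (nat_lit 0) (nat_lit 13038762633) (nat_lit 152) (nat_lit 16662067869) (nat_lit 228) (nat_lit 51565055950) (nat_lit 138) (nat_lit 5) (nat_lit 140) (nat_lit 5) (nat_lit 141) (nat_lit 5) (nat_lit 483) (nat_lit 380) (nat_lit 157))) (XT.nd (nat_lit 78) (nat_lit 76) (nat_lit 0) (XT.lf (nat_lit 0) (nat_lit 55460981545) (nat_lit 228) (nat_lit 15453837040)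 (nat_lit 76) (nat_lit 11930942181) (nat_lit 138) (nat_lit 5) (nat_lit 141) (nat_lit 5) (nat_lit 139) (nat_lit 4) (nat_lit 484) (nat_lit 380) (nat_lit 156)) (XT.lf (nat_lit 0) (nat_lit 39504258244) (nat_lit 76) (nat_lit 43032126681) (nat_lit 152) (nat_lit 1920372951) (nat_lit 137) (nat_lit 5) (nat_lit 138) (nat_lit 5) (nat_lit 139) (nat_lit 4) (nat_lit 485) (nat_lit 380) (nat_lit 155)))) (XT.nd (nat_lit 44928) (nat_lit 0) (nat_lit 18240) (XT.nd (nat_lit 78) (nat_lit 0) (nat_lit 0) (XT.lf (nat_lit 0) (nat_lit 10277532757) (nat_lit 152) (nat_lit 13810229910) (nat_lit 228) (nat_lit 62013688347) (nat_lit 134) (nat_lit 5) (nat_lit 136) (nat_lit 5) (nat_lit 137) (nat_lit 5) (nat_lit 486) (nat_lit 380) (nat_lit 154)) (XT.lf (nat_lit 0) (nat_lit 51450290798) (nat_lit 228) (nat_lit 19880297974) (nat_lit 76) (nat_lit 16445943385) (nat_lit 134) (nat_lit 5) (nat_lit 137) (nat_lit 5) (nat_lit 135) (nat_lit 4) (nat_lit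 487) (nat_lit 380) (nat_lit 153))) (XT.nd (nat_lit 78) (nat_lit 0) (nat_lit 0) (XT.lf (nat_lit 0) (nat_lit 334783112) (nat_lit 1292) (nat_lit 3301020058) (nat_lit 1292) (nat_lit 3301020058) (nat_lit 374) (nat_lit 3) (nat_lit 391) (nat_lit 3) (nat_lit 391) (nat_lit 5) (nat_lit 381) (nat_lit 381) (nat_lit 258)) (XT.lf (nat_lit 76) (nat_lit 341445952) (nat_lit 0) (nat_lit 692383043) (nat_lit 1292) (nat_lit 13037295582) (nat_lit 375) (nat_lit 5) (nat_lit 374) (nat_lit 3) (nat_lit 391) (nat_lit 5) (nat_lit 382) (nat_lit 381) (nat_lit 257))))))))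
noncomputable def xc187 : XT := (XT.nd (nat_lit 2418) (nat_lit 7296) (nat_lit 0) (XT.nd (nat_lit 1170) (nat_lit 5548) (nat_lit 0) (XT.nd (nat_lit 546) (nat_lit 0) (nat_lit 228) (XT.nd (nat_lit 234) (nat_lit 0) (nat_lit 76) (XT.nd (nat_lit 78) (nat_lit 0) (nat_lit 0) (XT.lf (nat_lit 0) (nat_lit 1521130525) (nat_lit 1216) (nat_lit 6710770338) (nat_lit 1292) (nat_lit 6039262850) (nat_lit 375) (nat_lit 5) (nat_lit 391) (nat_lit 5) (nat_lit 392) (nat_lit 5) (nat_lit 383) (nat_lit 381) (nat_lit 256)) (XT.nd (nat_lit 78) (nat_lit 0) (nat_lit 76) (XT.lf (nat_lit 76) (nat_lit 514441940) (nat_lit 0) (nat_lit 1507106580) (nat_lit 1292) (nat_lit 12455700580) (nat_lit 376) (nat_lit 5) (nat_lit 375) (nat_lit 5) (nat_lit 392) (nat_lit 5) (nat_lit 384) (nat_lit 381) (nat_lit 255)) (XT.lf (nat_lit 0) (nat_lit 2644578069) (nat_lit 1216) (nat_lit 6654092253) (nat_lit 1292) (nat_lit 5387618757) (nat_lit 376) (nat_lit 5)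 (nat_lit 392) (nat_lit 5) (nat_lit 393) (nat_lit 5) (nat_lit 385) (nat_lit 381) (nat_lit 254)))) (XT.nd (nat_lit 156) (nat_lit 0) (nat_lit 76) (XT.nd (nat_lit 78) (nat_lit 0) (nat_lit 76) (XT.lf (nat_lit 76) (nat_lit 868316792) (nat_lit 0) (nat_lit 2428694576) (nat_lit 1292) (nat_lit 11604267503) (nat_lit 377) (nat_lit 5) (nat_lit 376) (nat_lit 5) (nat_lit 393) (nat_lit 5) (nat_lit 386) (nat_lit 381) (nat_lit 253)) (XT.lf (nat_lit 0) (nat_lit 4069333019) (nat_lit 1216) (nat_lit 6421169373) (nat_lit 1292) (nat_lit 4629206505) (nat_lit 377) (nat_lit 5) (nat_lit 393) (nat_lit 5) (nat_lit 394) (nat_lit 5) (nat_lit 387) (nat_lit 381) (nat_lit 252))) (XT.nd (nat_lit 78) (nat_lit 0) (nat_lit 76) (XT.lf (nat_lit 76) (nat_lit 1414841672) (nat_lit 0) (nat_lit 3475768598) (nat_lit 1292) (nat_lit 10453307974) (nat_lit 378) (nat_lit 5) (nat_lit 377) (nat_lit 5) (nat_lit 394) (nat_lit 5) (nat_lit 388) (nat_lit 381)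 (nat_lit 251)) (XT.lf (nat_lit 0) (nat_lit 5826500118) (nat_lit 1216) (nat_lit 6000039438) (nat_lit 1292) (nat_lit 3745615088) (nat_lit 378) (nat_lit 5) (nat_lit 394) (nat_lit 5) (nat_lit 395) (nat_lit 5) (nat_lit 389) (nat_lit 381) (nat_lit 250))))) (XT.nd (nat_lit 312) (nat_lit 0) (nat_lit 152) (XT.nd (nat_lit 156) (nat_lit 0) (nat_lit 76) (XT.nd (nat_lit 78) (nat_lit 0) (nat_lit 76) (XT.lf (nat_lit 76) (nat_lit 2166965870) (nat_lit 0) (nat_lit 4667530434) (nat_lit 1292) (nat_lit 8971420941) (nat_lit 379) (nat_lit 5) (nat_lit 378) (nat_lit 5) (nat_lit 395) (nat_lit 5) (nat_lit 390) (nat_lit 381) (nat_lit 249)) (XT.lf (nat_lit 0) (nat_lit 7949004900) (nat_lit 1216) (nat_lit 5377571499) (nat_lit 1292) (nat_lit 2717828152) (nat_lit 379) (nat_lit 5) (nat_lit 395) (nat_lit 5) (nat_lit 396) (nat_lit 5) (nat_lit 391) (nat_lit 381) (nat_lit 248))) (XT.nd (nat_lit 78) (nat_lit 0) (nat_lit 76) (XT.lf (nat_lit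 76) (nat_lit 3138863160) (nat_lit 0) (nat_lit 6023859671) (nat_lit 1292) (nat_lit 7125350420) (nat_lit 380) (nat_lit 5) (nat_lit 379) (nat_lit 5) (nat_lit 396) (nat_lit 5) (nat_lit 392) (nat_lit 381) (nat_lit 247)) (XT.lf (nat_lit 0) (nat_lit 10471740107) (nat_lit 1216) (nat_lit 4539417736) (nat_lit 1292) (nat_lit 1526127537) (nat_lit 380) (nat_lit 5) (nat_lit 396) (nat_lit 5) (nat_lit 397) (nat_lit 5) (nat_lit 393) (nat_lit 381) (nat_lit 246)))) (XT.nd (nat_lit 156) (nat_lit 0) (nat_lit 76) (XT.nd (nat_lit 78) (nat_lit 0) (nat_lit 76) (XT.lf (nat_lit 76) (nat_lit 4345983604) (nat_lit 0) (nat_lit 7565412357) (nat_lit 1292) (nat_lit 4879836868) (nat_lit 381) (nat_lit 5) (nat_lit 380) (nat_lit 5) (nat_lit 397) (nat_lit 5) (nat_lit 394) (nat_lit 381) (nat_lit 245)) (XT.lf (nat_lit 0) (nat_lit 13431718915) (nat_lit 1216) (nat_lit 3469959904) (nat_lit 1292) (nat_lit 149995562) (nat_lit 381) (nat_lit 5) (nat_lit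 397) (nat_lit 5) (nat_lit 398) (nat_lit 5) (nat_lit 395) (nat_lit 381) (nat_lit 244))) (XT.nd (nat_lit 78) (nat_lit 0) (nat_lit 0) (XT.lf (nat_lit 76) (nat_lit 5805110928) (nat_lit 0) (nat_lit 9313721250) (nat_lit 1292) (nat_lit 2197461582) (nat_lit 382) (nat_lit 5) (nat_lit 381) (nat_lit 5) (nat_lit 398) (nat_lit 5) (nat_lit 396) (nat_lit 381) (nat_lit 243)) (XT.lf (nat_lit 76) (nat_lit 15421790912) (nat_lit 0) (nat_lit 1460483742) (nat_lit 1292) (nat_lit 705805592) (nat_lit 382) (nat_lit 5) (nat_lit 381) (nat_lit 5) (nat_lit 398) (nat_lit 5) (nat_lit 397) (nat_lit 381) (nat_lit 242)))))) (XT.nd (nat_lit 624) (nat_lit 2204) (nat_lit 0) (XT.nd (nat_lit 312) (nat_lit 1140) (nat_lit 0) (XT.nd (nat_lit 156) (nat_lit 1444) (nat_lit 0) (XT.nd (nat_lit 78) (nat_lit 0) (nat_lit 0) (XT.lf (nat_lit 0) (nat_lit 942753860) (nat_lit 1292) (nat_lit 10339024298) (nat_lit 76) (nat_lit 6582151788) (nat_lit 365) (nat_lit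 5) (nat_lit 382) (nat_lit 5) (nat_lit 366) (nat_lit 5) (nat_lit 398) (nat_lit 381) (nat_lit 241)) (XT.lf (nat_lit 0) (nat_lit 2654199326) (nat_lit 1292) (nat_lit 625755020) (nat_lit 76) (nat_lit 14867062688) (nat_lit 365) (nat_lit 5) (nat_lit 382) (nat_lit 5) (nat_lit 366) (nat_lit 5) (nat_lit 399) (nat_lit 381) (nat_lit 240))) (XT.nd (nat_lit 78) (nat_lit 608) (nat_lit 0) (XT.lf (nat_lit 0) (nat_lit 4548802233) (nat_lit 912) (nat_lit 8927002418) (nat_lit 76) (nat_lit 4958837663) (nat_lit 354) (nat_lit 5) (nat_lit 366) (nat_lit 5) (nat_lit 355) (nat_lit 5) (nat_lit 400) (nat_lit 381) (nat_lit 239)) (XT.lf (nat_lit 0) (nat_lit 1210347027) (nat_lit 608) (nat_lit 5331898227) (nat_lit 684) (nat_lit 12187391037) (nat_lit 346) (nat_lit 5) (nat_lit 354) (nat_lit 5) (nat_lit 355) (nat_lit 5) (nat_lit 401) (nat_lit 381) (nat_lit 238)))) (XT.nd (nat_lit 156) (nat_lit 532) (nat_lit 0) (XT.nd (nat_lit 78) (nat_lit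 608) (nat_lit 0) (XT.lf (nat_lit 0) (nat_lit 8707596728) (nat_lit 684) (nat_lit 7234303829) (nat_lit 76) (nat_lit 3088216375) (nat_lit 346) (nat_lit 5) (nat_lit 355) (nat_lit 5) (nat_lit 347) (nat_lit 5) (nat_lit 402) (nat_lit 381) (nat_lit 237)) (XT.lf (nat_lit 0) (nat_lit 3364255780) (nat_lit 608) (nat_lit 7650713559) (nat_lit 684) (nat_lit 8322330835) (nat_lit 338) (nat_lit 5) (nat_lit 346) (nat_lit 5) (nat_lit 347) (nat_lit 5) (nat_lit 403) (nat_lit 381) (nat_lit 236))) (XT.nd (nat_lit 78) (nat_lit 532) (nat_lit 0) (XT.lf (nat_lit 0) (nat_lit 13465978517) (nat_lit 684) (nat_lit 5239704962) (nat_lit 76) (nat_lit 945782974) (nat_lit 338) (nat_lit 5) (nat_lit 347) (nat_lit 5) (nat_lit 339) (nat_lit 5) (nat_lit 404) (nat_lit 381) (nat_lit 235)) (XT.lf (nat_lit 0) (nat_lit 5846203344) (nat_lit 532) (nat_lit 10268584064) (nat_lit 608) (nat_lit 3856542228) (nat_lit 331) (nat_lit 5) (nat_lit 338) (nat_lit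 5) (nat_lit 339) (nat_lit 5) (nat_lit 405) (nat_lit 381) (nat_lit 234))))) (XT.nd (nat_lit 312) (nat_lit 988) (nat_lit 0) (XT.nd (nat_lit 156) (nat_lit 532) (nat_lit 0) (XT.nd (nat_lit 78) (nat_lit 684) (nat_lit 0) (XT.lf (nat_lit 0) (nat_lit 17364411660) (nat_lit 532) (nat_lit 1524031903) (nat_lit 608) (nat_lit 1410983663) (nat_lit 331) (nat_lit 5) (nat_lit 338) (nat_lit 5) (nat_lit 339) (nat_lit 5) (nat_lit 406) (nat_lit 381) (nat_lit 233)) (XT.lf (nat_lit 0) (nat_lit 1235850546) (nat_lit 684) (nat_lit 11964463977) (nat_lit 76) (nat_lit 7432247848) (nat_lit 322) (nat_lit 5) (nat_lit 331) (nat_lit 5) (nat_lit 323) (nat_lit 5) (nat_lit 407) (nat_lit 381) (nat_lit 232))) (XT.nd (nat_lit 78) (nat_lit 532) (nat_lit 0) (XT.lf (nat_lit 0) (nat_lit 3971510026) (nat_lit 684) (nat_lit 332433507) (nat_lit 76) (nat_lit 16670195545) (nat_lit 322) (nat_lit 5) (nat_lit 331) (nat_lit 5) (nat_lit 323) (nat_lit 5)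 (nat_lit 408) (nat_lit 381) (nat_lit 231)) (XT.lf (nat_lit 0) (nat_lit 6944172820) (nat_lit 608) (nat_lit 9497871946) (nat_lit 76) (nat_lit 4879270316) (nat_lit 315) (nat_lit 5) (nat_lit 323) (nat_lit 5) (nat_lit 316) (nat_lit 5) (nat_lit 409) (nat_lit 381) (nat_lit 230)))) (XT.nd (nat_lit 156) (nat_lit 456) (nat_lit 0) (XT.nd (nat_lit 78) (nat_lit 0) (nat_lit 0) (XT.lf (nat_lit 0) (nat_lit 2673884623) (nat_lit 532) (nat_lit 7396934957) (nat_lit 608) (nat_lit 11606142662) (nat_lit 308) (nat_lit 5) (nat_lit 315) (nat_lit 5) (nat_lit 316) (nat_lit 5) (nat_lit 410) (nat_lit 381) (nat_lit 229)) (XT.lf (nat_lit 0) (nat_lit 13399795020) (nat_lit 608) (nat_lit 6662083301) (nat_lit 76) (nat_lit 1978144618) (nat_lit 308) (nat_lit 5) (nat_lit 316) (nat_lit 5) (nat_lit 309) (nat_lit 5) (nat_lit 411) (nat_lit 381) (nat_lit 228))) (XT.nd (nat_lit 78) (nat_lit 0) (nat_lit 0) (XT.lf (nat_lit 0) (nat_lit 6087140811)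 (nat_lit 456) (nat_lit 10866664856) (nat_lit 532) (nat_lit 5456414813) (nat_lit 302) (nat_lit 5) (nat_lit 308) (nat_lit 5) (nat_lit 309) (nat_lit 5) (nat_lit 412) (nat_lit 381) (nat_lit 227)) (XT.lf (nat_lit 0) (nat_lit 19347936698) (nat_lit 456) (nat_lit 1327309516) (nat_lit 532) (nat_lit 2114453444) (nat_lit 302) (nat_lit 5) (nat_lit 308) (nat_lit 5) (nat_lit 309) (nat_lit 5) (nat_lit 413) (nat_lit 381) (nat_lit 226))))))) (XT.nd (nat_lit 1170) (nat_lit 3268) (nat_lit 0) (XT.nd (nat_lit 546) (nat_lit 2052) (nat_lit 0) (XT.nd (nat_lit 234) (nat_lit 912) (nat_lit 0) (XT.nd (nat_lit 78) (nat_lit 456) (nat_lit 0) (XT.lf (nat_lit 0) (nat_lit 1474413135) (nat_lit 608) (nat_lit 13259238812) (nat_lit 76) (nat_lit 8441351689) (nat_lit 294) (nat_lit 5) (nat_lit 302) (nat_lit 5) (nat_lit 295) (nat_lit 5) (nat_lit 414) (nat_lit 381) (nat_lit 225)) (XT.nd (nat_lit 78) (nat_lit 0) (nat_lit 0) (XT.lf (nat_lit 0)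 (nat_lit 134466466) (nat_lit 456) (nat_lit 5037279944) (nat_lit 532) (nat_lit 18398193294) (nat_lit 288) (nat_lit 5) (nat_lit 294) (nat_lit 5) (nat_lit 295) (nat_lit 5) (nat_lit 415) (nat_lit 381) (nat_lit 224)) (XT.lf (nat_lit 0) (nat_lit 9156663615) (nat_lit 532) (nat_lit 9827412321) (nat_lit 76) (nat_lit 4987348001) (nat_lit 288) (nat_lit 5) (nat_lit 295) (nat_lit 5) (nat_lit 289) (nat_lit 5) (nat_lit 416) (nat_lit 381) (nat_lit 223)))) (XT.nd (nat_lit 156) (nat_lit 456) (nat_lit 0) (XT.nd (nat_lit 78) (nat_lit 0) (nat_lit 0) (XT.lf (nat_lit 0) (nat_lit 4213883634) (nat_lit 456) (nat_lit 9131667600) (nat_lit 532) (nat_lit 11036868776) (nat_lit 282) (nat_lit 5) (nat_lit 288) (nat_lit 5) (nat_lit 289) (nat_lit 5) (nat_lit 417) (nat_lit 381) (nat_lit 222)) (XT.lf (nat_lit 0) (nat_lit 17764227130) (nat_lit 532) (nat_lit 5943100472) (nat_lit 76) (nat_lit 1095294713) (nat_lit 282) (nat_lit 5) (nat_lit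 289) (nat_lit 5) (nat_lit 283) (nat_lit 5) (nat_lit 418) (nat_lit 381) (nat_lit 221))) (XT.nd (nat_lit 78) (nat_lit 76) (nat_lit 0) (XT.lf (nat_lit 0) (nat_lit 8782837302) (nat_lit 380) (nat_lit 13701767547) (nat_lit 456) (nat_lit 2745751593) (nat_lit 277) (nat_lit 5) (nat_lit 282) (nat_lit 5) (nat_lit 283) (nat_lit 5) (nat_lit 419) (nat_lit 381) (nat_lit 220)) (XT.lf (nat_lit 0) (nat_lit 1697925408) (nat_lit 456) (nat_lit 1620718096) (nat_lit 76) (nat_lit 22350147289) (nat_lit 276) (nat_lit 5) (nat_lit 282) (nat_lit 5) (nat_lit 277) (nat_lit 5) (nat_lit 420) (nat_lit 381) (nat_lit 219))))) (XT.nd (nat_lit 312) (nat_lit 836) (nat_lit 0) (XT.nd (nat_lit 156) (nat_lit 380) (nat_lit 0) (XT.nd (nat_lit 78) (nat_lit 380) (nat_lit 0) (XT.lf (nat_lit 0) (nat_lit 6420209806) (nat_lit 532) (nat_lit 12300564670) (nat_lit 76) (nat_lit 7392773609) (nat_lit 270) (nat_lit 5) (nat_lit 277) (nat_lit 5) (nat_lit 271)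 (nat_lit 5) (nat_lit 421) (nat_lit 381) (nat_lit 218)) (XT.lf (nat_lit 0) (nat_lit 3193926568) (nat_lit 380) (nat_lit 8164910813) (nat_lit 456) (nat_lit 15210570474) (nat_lit 265) (nat_lit 5) (nat_lit 270) (nat_lit 5) (nat_lit 271) (nat_lit 5) (nat_lit 422) (nat_lit 381) (nat_lit 217))) (XT.nd (nat_lit 78) (nat_lit 380) (nat_lit 0) (XT.lf (nat_lit 0) (nat_lit 16591752180) (nat_lit 456) (nat_lit 7664285660) (nat_lit 76) (nat_lit 2778521727) (nat_lit 265) (nat_lit 5) (nat_lit 271) (nat_lit 5) (nat_lit 266) (nat_lit 5) (nat_lit 423) (nat_lit 381) (nat_lit 216)) (XT.lf (nat_lit 0) (nat_lit 8598183313) (nat_lit 380) (nat_lit 13541777962) (nat_lit 456) (nat_lit 5368955350) (nat_lit 260) (nat_lit 5) (nat_lit 265) (nat_lit 5) (nat_lit 266) (nat_lit 5) (nat_lit 424) (nat_lit 381) (nat_lit 215)))) (XT.nd (nat_lit 156) (nat_lit 380) (nat_lit 0) (XT.nd (nat_lit 78) (nat_lit 456) (nat_lit 0) (XT.lf (nat_lit 0) (nat_lit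 25498702013) (nat_lit 380) (nat_lit 2428208396) (nat_lit 456) (nat_lit 68425173) (nat_lit 260) (nat_lit 5) (nat_lit 265) (nat_lit 5) (nat_lit 266) (nat_lit 5) (nat_lit 425) (nat_lit 381) (nat_lit 214)) (XT.lf (nat_lit 0) (nat_lit 5510200598) (nat_lit 456) (nat_lit 13942452089) (nat_lit 76) (nat_lit 9035411342) (nat_lit 254) (nat_lit 5) (nat_lit 260) (nat_lit 5) (nat_lit 255) (nat_lit 5) (nat_lit 426) (nat_lit 381) (nat_lit 213))) (XT.nd (nat_lit 78) (nat_lit 0) (nat_lit 0) (XT.lf (nat_lit 0) (nat_lit 3185787666) (nat_lit 380) (nat_lit 8144210255) (nat_lit 456) (nat_lit 17663300442) (nat_lit 249) (nat_lit 5) (nat_lit 254) (nat_lit 5) (nat_lit 255) (nat_lit 5) (nat_lit 427) (nat_lit 381) (nat_lit 212)) (XT.lf (nat_lit 0) (nat_lit 17495373425) (nat_lit 456) (nat_lit 8437810801) (nat_lit 76) (nat_lit 3575375973) (nat_lit 249) (nat_lit 5) (nat_lit 255) (nat_lit 5) (nat_lit 250) (nat_lit 5) (nat_lit 428)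 (nat_lit 381) (nat_lit 211)))))) (XT.nd (nat_lit 624) (nat_lit 1520) (nat_lit 0) (XT.nd (nat_lit 312) (nat_lit 684) (nat_lit 0) (XT.nd (nat_lit 156) (nat_lit 684) (nat_lit 0) (XT.nd (nat_lit 78) (nat_lit 76) (nat_lit 0) (XT.lf (nat_lit 0) (nat_lit 9551986148) (nat_lit 304) (nat_lit 14461442639) (nat_lit 380) (nat_lit 6020819546) (nat_lit 245) (nat_lit 5) (nat_lit 249) (nat_lit 5) (nat_lit 250) (nat_lit 5) (nat_lit 429) (nat_lit 381) (nat_lit 210)) (XT.lf (nat_lit 0) (nat_lit 229705728) (nat_lit 380) (nat_lit 2327784661) (nat_lit 76) (nat_lit 28015732890) (nat_lit 244) (nat_lit 5) (nat_lit 249) (nat_lit 5) (nat_lit 245) (nat_lit 5) (nat_lit 430) (nat_lit 381) (nat_lit 209))) (XT.nd (nat_lit 78) (nat_lit 304) (nat_lit 0) (XT.lf (nat_lit 0) (nat_lit 6797446861) (nat_lit 456) (nat_lit 14587713698) (nat_lit 76) (nat_lit 9733897174) (nat_lit 239) (nat_lit 5) (nat_lit 245) (nat_lit 5) (nat_lit 240) (nat_lit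 5) (nat_lit 431) (nat_lit 381) (nat_lit 208)) (XT.lf (nat_lit 0) (nat_lit 4376617957) (nat_lit 304) (nat_lit 9272212620) (nat_lit 380) (nat_lit 18029838334) (nat_lit 235) (nat_lit 5) (nat_lit 239) (nat_lit 5) (nat_lit 240) (nat_lit 5) (nat_lit 432) (nat_lit 381) (nat_lit 207)))) (XT.nd (nat_lit 156) (nat_lit 380) (nat_lit 0) (XT.nd (nat_lit 78) (nat_lit 304) (nat_lit 0) (XT.lf (nat_lit 0) (nat_lit 20880848935) (nat_lit 380) (nat_lit 8080675562) (nat_lit 76) (nat_lit 3288291131) (nat_lit 235) (nat_lit 5) (nat_lit 240) (nat_lit 5) (nat_lit 236) (nat_lit 5) (nat_lit 433) (nat_lit 381) (nat_lit 206)) (XT.lf (nat_lit 0) (nat_lit 11850292227) (nat_lit 304) (nat_lit 16680909573) (nat_lit 380) (nat_lit 4300853730) (nat_lit 231) (nat_lit 5) (nat_lit 235) (nat_lit 5) (nat_lit 236) (nat_lit 5) (nat_lit 434) (nat_lit 381) (nat_lit 205))) (XT.nd (nat_lit 78) (nat_lit 304) (nat_lit 0) (XT.lf (nat_lit 0) (nat_lit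 2999252579) (nat_lit 380) (nat_lit 920435518) (nat_lit 76) (nat_lit 29508872759) (nat_lit 230) (nat_lit 5) (nat_lit 235) (nat_lit 5) (nat_lit 231) (nat_lit 5) (nat_lit 435) (nat_lit 381) (nat_lit 204)) (XT.lf (nat_lit 0) (nat_lit 10711784881) (nat_lit 380) (nat_lit 14041224743) (nat_lit 76) (nat_lit 9280278266) (nat_lit 226) (nat_lit 5) (nat_lit 231) (nat_lit 5) (nat_lit 227) (nat_lit 5) (nat_lit 436) (nat_lit 381) (nat_lit 203))))) (XT.nd (nat_lit 312) (nat_lit 608) (nat_lit 0) (XT.nd (nat_lit 156) (nat_lit 608) (nat_lit 0) (XT.nd (nat_lit 78) (nat_lit 0) (nat_lit 0) (XT.lf (nat_lit 0) (nat_lit 6985986807) (nat_lit 304) (nat_lit 11780902735) (nat_lit 380) (nat_lit 15885931300) (nat_lit 222) (nat_lit 5) (nat_lit 226) (nat_lit 5) (nat_lit 227) (nat_lit 5) (nat_lit 437) (nat_lit 381) (nat_lit 202)) (XT.lf (nat_lit 0) (nat_lit 27217918081) (nat_lit 380) (nat_lit 6377835614) (nat_lit 76) (nat_lit 1690557966)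 (nat_lit 222) (nat_lit 5) (nat_lit 227) (nat_lit 5) (nat_lit 223) (nat_lit 5) (nat_lit 438) (nat_lit 381) (nat_lit 201))) (XT.nd (nat_lit 78) (nat_lit 304) (nat_lit 0) (XT.lf (nat_lit 0) (nat_lit 250495600) (nat_lit 304) (nat_lit 20199342810) (nat_lit 76) (nat_lit 15480978303) (nat_lit 218) (nat_lit 5) (nat_lit 222) (nat_lit 5) (nat_lit 219) (nat_lit 5) (nat_lit 439) (nat_lit 381) (nat_lit 200)) (XT.lf (nat_lit 0) (nat_lit 1994237265) (nat_lit 304) (nat_lit 6742783188) (nat_lit 380) (nat_lit 27852832839) (nat_lit 214) (nat_lit 5) (nat_lit 218) (nat_lit 5) (nat_lit 219) (nat_lit 5) (nat_lit 440) (nat_lit 381) (nat_lit 199)))) (XT.nd (nat_lit 156) (nat_lit 380) (nat_lit 0) (XT.nd (nat_lit 78) (nat_lit 228) (nat_lit 0) (XT.lf (nat_lit 0) (nat_lit 17751091434) (nat_lit 380) (nat_lit 12074034332) (nat_lit 76) (nat_lit 7435346692) (nat_lit 214) (nat_lit 5) (nat_lit 219) (nat_lit 5) (nat_lit 215) (nat_lit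 5) (nat_lit 441) (nat_lit 381) (nat_lit 198)) (XT.lf (nat_lit 0) (nat_lit 11270273911) (nat_lit 228) (nat_lit 15936581823) (nat_lit 304) (nat_lit 10739216328) (nat_lit 211) (nat_lit 5) (nat_lit 214) (nat_lit 5) (nat_lit 215) (nat_lit 5) (nat_lit 442) (nat_lit 381) (nat_lit 197))) (XT.nd (nat_lit 78) (nat_lit 380) (nat_lit 0) (XT.lf (nat_lit 0) (nat_lit 35556392609) (nat_lit 228) (nat_lit 1508052141) (nat_lit 304) (nat_lit 1584250352) (nat_lit 211) (nat_lit 5) (nat_lit 214) (nat_lit 5) (nat_lit 215) (nat_lit 5) (nat_lit 443) (nat_lit 381) (nat_lit 196)) (XT.lf (nat_lit 0) (nat_lit 8026743093) (nat_lit 380) (nat_lit 17957532230) (nat_lit 76) (nat_lit 13375824982) (nat_lit 206) (nat_lit 5) (nat_lit 211) (nat_lit 5) (nat_lit 207) (nat_lit 5) (nat_lit 444) (nat_lit 381) (nat_lit 195))))))))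
noncomputable def xc188 : XT := (XT.nd (nat_lit 2340) (nat_lit 1368) (nat_lit 0) (XT.nd (nat_lit 1170) (nat_lit 1672) (nat_lit 0) (XT.nd (nat_lit 546) (nat_lit 1444) (nat_lit 0) (XT.nd (nat_lit 234) (nat_lit 532) (nat_lit 0) (XT.nd (nat_lit 78) (nat_lit 228) (nat_lit 0) (XT.lf (nat_lit 0) (nat_lit 6697578064) (nat_lit 228) (nat_lit 11303825565) (nat_lit 304) (nat_lit 22087758091) (nat_lit 203) (nat_lit 5) (nat_lit 206) (nat_lit 5) (nat_lit 207) (nat_lit 5) (nat_lit 445) (nat_lit 381) (nat_lit 194)) (XT.nd (nat_lit 78) (nat_lit 228) (nat_lit 0) (XT.lf (nat_lit 0) (nat_lit 28491486629) (nat_lit 304) (nat_lit 8418669682) (nat_lit 76) (nat_lit 3923453187) (nat_lit 203) (nat_lit 5) (nat_lit 207) (nat_lit 5) (nat_lit 204) (nat_lit 5) (nat_lit 446) (nat_lit 381) (nat_lit 193)) (XT.lf (nat_lit 0) (nat_lit 17527734947) (nat_lit 228) (nat_lit 22045409251) (nat_lit 304) (nat_lit 2018940349) (nat_lit 200) (nat_lit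 5) (nat_lit 203) (nat_lit 5) (nat_lit 204) (nat_lit 5) (nat_lit 447) (nat_lit 381) (nat_lit 192)))) (XT.nd (nat_lit 156) (nat_lit 228) (nat_lit 0) (XT.nd (nat_lit 78) (nat_lit 0) (nat_lit 0) (XT.lf (nat_lit 0) (nat_lit 2003983411) (nat_lit 228) (nat_lit 6543461412) (nat_lit 304) (nat_lit 33820337068) (nat_lit 196) (nat_lit 5) (nat_lit 199) (nat_lit 5) (nat_lit 200) (nat_lit 5) (nat_lit 448) (nat_lit 381) (nat_lit 191)) (XT.lf (nat_lit 0) (nat_lit 19722740449) (nat_lit 304) (nat_lit 13930623682) (nat_lit 76) (nat_lit 9502811410) (nat_lit 196) (nat_lit 5) (nat_lit 200) (nat_lit 5) (nat_lit 197) (nat_lit 5) (nat_lit 449) (nat_lit 381) (nat_lit 190))) (XT.nd (nat_lit 78) (nat_lit 0) (nat_lit 0) (XT.lf (nat_lit 0) (nat_lit 13488289736) (nat_lit 228) (nat_lit 17936055479) (nat_lit 304) (nat_lit 12538144278) (nat_lit 193) (nat_lit 5) (nat_lit 196) (nat_lit 5) (nat_lit 197) (nat_lit 5) (nat_lit 450) (nat_lit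 381) (nat_lit 189)) (XT.lf (nat_lit 0) (nat_lit 42009715330) (nat_lit 228) (nat_lit 1604605455) (nat_lit 304) (nat_lit 1174552399) (nat_lit 193) (nat_lit 5) (nat_lit 196) (nat_lit 5) (nat_lit 197) (nat_lit 5) (nat_lit 451) (nat_lit 381) (nat_lit 188))))) (XT.nd (nat_lit 312) (nat_lit 684) (nat_lit 0) (XT.nd (nat_lit 156) (nat_lit 228) (nat_lit 0) (XT.nd (nat_lit 78) (nat_lit 228) (nat_lit 0) (XT.lf (nat_lit 0) (nat_lit 10722301149) (nat_lit 304) (nat_lit 19629031589) (nat_lit 76) (nat_lit 15273744106) (nat_lit 189) (nat_lit 5) (nat_lit 193) (nat_lit 5) (nat_lit 190) (nat_lit 5) (nat_lit 452) (nat_lit 381) (nat_lit 187)) (XT.lf (nat_lit 0) (nat_lit 9355165739) (nat_lit 228) (nat_lit 13728181624) (nat_lit 304) (nat_lit 23398743541) (nat_lit 186) (nat_lit 5) (nat_lit 189) (nat_lit 5) (nat_lit 190) (nat_lit 5) (nat_lit 453) (nat_lit 381) (nat_lit 186))) (XT.nd (nat_lit 78) (nat_lit 228) (nat_lit 0) (XT.lf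 (nat_lit 0) (nat_lit 36044782378) (nat_lit 304) (nat_lit 7787751747) (nat_lit 76) (nat_lit 3525394538) (nat_lit 186) (nat_lit 5) (nat_lit 190) (nat_lit 5) (nat_lit 187) (nat_lit 5) (nat_lit 454) (nat_lit 381) (nat_lit 185)) (XT.lf (nat_lit 0) (nat_lit 1467656160) (nat_lit 228) (nat_lit 25529997860) (nat_lit 76) (nat_lit 21251416653) (nat_lit 183) (nat_lit 5) (nat_lit 186) (nat_lit 5) (nat_lit 184) (nat_lit 5) (nat_lit 455) (nat_lit 381) (nat_lit 184)))) (XT.nd (nat_lit 156) (nat_lit 456) (nat_lit 0) (XT.nd (nat_lit 78) (nat_lit 0) (nat_lit 0) (XT.lf (nat_lit 0) (nat_lit 5117822184) (nat_lit 228) (nat_lit 9412154846) (nat_lit 304) (nat_lit 34629845251) (nat_lit 180) (nat_lit 5) (nat_lit 183) (nat_lit 5) (nat_lit 184) (nat_lit 5) (nat_lit 456) (nat_lit 381) (nat_lit 183)) (XT.lf (nat_lit 0) (nat_lit 28325041695) (nat_lit 304) (nat_lit 12973365393) (nat_lit 76) (nat_lit 8789263124) (nat_lit 180) (nat_lit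 5) (nat_lit 184) (nat_lit 5) (nat_lit 181) (nat_lit 5) (nat_lit 457) (nat_lit 381) (nat_lit 182))) (XT.nd (nat_lit 78) (nat_lit 304) (nat_lit 0) (XT.lf (nat_lit 0) (nat_lit 19305589576) (nat_lit 152) (nat_lit 23504106657) (nat_lit 228) (nat_lit 8225385210) (nat_lit 178) (nat_lit 5) (nat_lit 180) (nat_lit 5) (nat_lit 181) (nat_lit 5) (nat_lit 458) (nat_lit 381) (nat_lit 181)) (XT.lf (nat_lit 0) (nat_lit 765261720) (nat_lit 228) (nat_lit 4977773765) (nat_lit 304) (nat_lit 46262131435) (nat_lit 174) (nat_lit 5) (nat_lit 177) (nat_lit 5) (nat_lit 178) (nat_lit 5) (nat_lit 459) (nat_lit 381) (nat_lit 180)))))) (XT.nd (nat_lit 546) (nat_lit 912) (nat_lit 0) (XT.nd (nat_lit 234) (nat_lit 608) (nat_lit 0) (XT.nd (nat_lit 78) (nat_lit 152) (nat_lit 0) (XT.lf (nat_lit 0) (nat_lit 20421340055) (nat_lit 304) (nat_lit 18334948119) (nat_lit 76) (nat_lit 14231939003) (nat_lit 174) (nat_lit 5) (nat_lit 178) (nat_lit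 5) (nat_lit 175) (nat_lit 5) (nat_lit 460) (nat_lit 381) (nat_lit 179)) (XT.nd (nat_lit 78) (nat_lit 0) (nat_lit 0) (XT.lf (nat_lit 0) (nat_lit 15811266480) (nat_lit 152) (nat_lit 19927082969) (nat_lit 228) (nat_lit 18256479121) (nat_lit 172) (nat_lit 5) (nat_lit 174) (nat_lit 5) (nat_lit 175) (nat_lit 5) (nat_lit 461) (nat_lit 381) (nat_lit 178)) (XT.lf (nat_lit 0) (nat_lit 51352625315) (nat_lit 152) (nat_lit 344510090) (nat_lit 228) (nat_lit 3329024612) (nat_lit 172) (nat_lit 5) (nat_lit 174) (nat_lit 5) (nat_lit 175) (nat_lit 5) (nat_lit 462) (nat_lit 381) (nat_lit 177)))) (XT.nd (nat_lit 156) (nat_lit 228) (nat_lit 0) (XT.nd (nat_lit 78) (nat_lit 152) (nat_lit 0) (XT.lf (nat_lit 0) (nat_lit 12314430345) (nat_lit 228) (nat_lit 23887580492) (nat_lit 76) (nat_lit 19867849412) (nat_lit 169) (nat_lit 5) (nat_lit 172) (nat_lit 5) (nat_lit 170) (nat_lit 5) (nat_lit 463) (nat_lit 381) (nat_lit 176)) (XT.lf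 (nat_lit 0) (nat_lit 12242456869) (nat_lit 152) (nat_lit 16273567136) (nat_lit 228) (nat_lit 28623186312) (nat_lit 167) (nat_lit 5) (nat_lit 169) (nat_lit 5) (nat_lit 170) (nat_lit 5) (nat_lit 464) (nat_lit 381) (nat_lit 175))) (XT.nd (nat_lit 78) (nat_lit 228) (nat_lit 0) (XT.lf (nat_lit 0) (nat_lit 45485353860) (nat_lit 228) (nat_lit 8335630818) (nat_lit 76) (nat_lit 4411205556) (nat_lit 167) (nat_lit 5) (nat_lit 170) (nat_lit 5) (nat_lit 168) (nat_lit 5) (nat_lit 465) (nat_lit 381) (nat_lit 174)) (XT.lf (nat_lit 0) (nat_lit 3984095122) (nat_lit 228) (nat_lit 29647101911) (nat_lit 76) (nat_lit 25712263081) (nat_lit 164) (nat_lit 5) (nat_lit 167) (nat_lit 5) (nat_lit 165) (nat_lit 5) (nat_lit 466) (nat_lit 381) (nat_lit 173))))) (XT.nd (nat_lit 312) (nat_lit 380) (nat_lit 0) (XT.nd (nat_lit 156) (nat_lit 380) (nat_lit 0) (XT.nd (nat_lit 78) (nat_lit 0) (nat_lit 0) (XT.lf (nat_lit 0) (nat_lit 8590339656)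 (nat_lit 152) (nat_lit 12535288746) (nat_lit 228) (nat_lit 39353707320) (nat_lit 162) (nat_lit 5) (nat_lit 164) (nat_lit 5) (nat_lit 165) (nat_lit 5) (nat_lit 467) (nat_lit 381) (nat_lit 172)) (XT.lf (nat_lit 0) (nat_lit 39169424695) (nat_lit 228) (nat_lit 13153899971) (nat_lit 76) (nat_lit 9314322422) (nat_lit 162) (nat_lit 5) (nat_lit 165) (nat_lit 5) (nat_lit 163) (nat_lit 5) (nat_lit 468) (nat_lit 381) (nat_lit 171))) (XT.nd (nat_lit 78) (nat_lit 228) (nat_lit 0) (XT.lf (nat_lit 0) (nat_lit 27144061227) (nat_lit 152) (nat_lit 30992891096) (nat_lit 228) (nat_lit 4682282949) (nat_lit 160) (nat_lit 5) (nat_lit 162) (nat_lit 5) (nat_lit 163) (nat_lit 5) (nat_lit 469) (nat_lit 381) (nat_lit 170)) (XT.lf (nat_lit 0) (nat_lit 4845709919) (nat_lit 152) (nat_lit 8703522622) (nat_lit 228) (nat_lit 50477762594) (nat_lit 157) (nat_lit 5) (nat_lit 159) (nat_lit 5) (nat_lit 160) (nat_lit 5) (nat_lit 470) (nat_lit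 381) (nat_lit 169)))) (XT.nd (nat_lit 156) (nat_lit 228) (nat_lit 0) (XT.nd (nat_lit 78) (nat_lit 152) (nat_lit 0) (XT.lf (nat_lit 0) (nat_lit 32731819748) (nat_lit 228) (nat_lit 18138373307) (nat_lit 76) (nat_lit 14384456897) (nat_lit 157) (nat_lit 5) (nat_lit 160) (nat_lit 5) (nat_lit 158) (nat_lit 5) (nat_lit 471) (nat_lit 381) (nat_lit 168)) (XT.lf (nat_lit 0) (nat_lit 24523564282) (nat_lit 152) (nat_lit 28285701258) (nat_lit 228) (nat_lit 13700287445) (nat_lit 155) (nat_lit 5) (nat_lit 157) (nat_lit 5) (nat_lit 158) (nat_lit 5) (nat_lit 472) (nat_lit 381) (nat_lit 167))) (XT.nd (nat_lit 78) (nat_lit 0) (nat_lit 0) (XT.lf (nat_lit 0) (nat_lit 998947873) (nat_lit 152) (nat_lit 4769065981) (nat_lit 228) (nat_lit 62026687623) (nat_lit 152) (nat_lit 5) (nat_lit 154) (nat_lit 5) (nat_lit 155) (nat_lit 5) (nat_lit 473) (nat_lit 381) (nat_lit 166)) (XT.lf (nat_lit 0) (nat_lit 26157656716) (nat_lit 228)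 (nat_lit 23303065250) (nat_lit 76) (nat_lit 19635233424) (nat_lit 152) (nat_lit 5) (nat_lit 155) (nat_lit 5) (nat_lit 153) (nat_lit 5) (nat_lit 474) (nat_lit 381) (nat_lit 165))))))) (XT.nd (nat_lit 46020) (nat_lit 0) (nat_lit 17556) (XT.nd (nat_lit 546) (nat_lit 608) (nat_lit 0) (XT.nd (nat_lit 234) (nat_lit 456) (nat_lit 0) (XT.nd (nat_lit 78) (nat_lit 152) (nat_lit 0) (XT.lf (nat_lit 0) (nat_lit 21869426587) (nat_lit 152) (nat_lit 25544562279) (nat_lit 228) (nat_lit 23014608054) (nat_lit 150) (nat_lit 5) (nat_lit 152) (nat_lit 5) (nat_lit 153) (nat_lit 5) (nat_lit 475) (nat_lit 381) (nat_lit 164)) (XT.nd (nat_lit 78) (nat_lit 152) (nat_lit 0) (XT.lf (nat_lit 0) (nat_lit 68870317410) (nat_lit 152) (nat_lit 670596221) (nat_lit 228) (nat_lit 2253316985) (nat_lit 150) (nat_lit 5) (nat_lit 152) (nat_lit 5) (nat_lit 153) (nat_lit 5) (nat_lit 476) (nat_lit 381) (nat_lit 163)) (XT.lf (nat_lit 0) (nat_lit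 19431343759) (nat_lit 152) (nat_lit 28662709482) (nat_lit 76) (nat_lit 25081047909) (nat_lit 148) (nat_lit 5) (nat_lit 150) (nat_lit 5) (nat_lit 149) (nat_lit 5) (nat_lit 477) (nat_lit 381) (nat_lit 162)))) (XT.nd (nat_lit 156) (nat_lit 304) (nat_lit 0) (XT.nd (nat_lit 78) (nat_lit 0) (nat_lit 0) (XT.lf (nat_lit 0) (nat_lit 19175766610) (nat_lit 152) (nat_lit 22763917573) (nat_lit 228) (nat_lit 32650491437) (nat_lit 146) (nat_lit 5) (nat_lit 148) (nat_lit 5) (nat_lit 149) (nat_lit 5) (nat_lit 478) (nat_lit 381) (nat_lit 161)) (XT.lf (nat_lit 0) (nat_lit 65445200313) (nat_lit 228) (nat_lit 7041301416) (nat_lit 76) (nat_lit 3551542830) (nat_lit 146) (nat_lit 5) (nat_lit 149) (nat_lit 5) (nat_lit 147) (nat_lit 4) (nat_lit 479) (nat_lit 381) (nat_lit 160))) (XT.nd (nat_lit 78) (nat_lit 152) (nat_lit 0) (XT.lf (nat_lit 0) (nat_lit 12536532884) (nat_lit 152) (nat_lit 34232808982) (nat_lit 76) (nat_lit 30737111685)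 (nat_lit 144) (nat_lit 5) (nat_lit 146) (nat_lit 5) (nat_lit 145) (nat_lit 5) (nat_lit 480) (nat_lit 381) (nat_lit 159)) (XT.lf (nat_lit 0) (nat_lit 16436474605) (nat_lit 152) (nat_lit 19937937643) (nat_lit 228) (nat_lit 42634530377) (nat_lit 142) (nat_lit 5) (nat_lit 144) (nat_lit 5) (nat_lit 145) (nat_lit 5) (nat_lit 481) (nat_lit 381) (nat_lit 158))))) (XT.nd (nat_lit 312) (nat_lit 304) (nat_lit 0) (XT.nd (nat_lit 156) (nat_lit 152) (nat_lit 0) (XT.nd (nat_lit 78) (nat_lit 152) (nat_lit 0) (XT.lf (nat_lit 0) (nat_lit 61348265143) (nat_lit 228) (nat_lit 11300264777) (nat_lit 76) (nat_lit 7895351338) (nat_lit 142) (nat_lit 5) (nat_lit 145) (nat_lit 5) (nat_lit 143) (nat_lit 4) (nat_lit 482) (nat_lit 381) (nat_lit 157)) (XT.lf (nat_lit 0) (nat_lit 5456070324) (nat_lit 152) (nat_lit 40029688668) (nat_lit 76) (nat_lit 36619498760) (nat_lit 140) (nat_lit 5) (nat_lit 142) (nat_lit 5) (nat_lit 141) (nat_lit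 5) (nat_lit 483) (nat_lit 381) (nat_lit 156))) (XT.nd (nat_lit 78) (nat_lit 0) (nat_lit 0) (XT.lf (nat_lit 0) (nat_lit 13645192887) (nat_lit 152) (nat_lit 17060505580) (nat_lit 228) (nat_lit 52994749287) (nat_lit 138) (nat_lit 5) (nat_lit 140) (nat_lit 5) (nat_lit 141) (nat_lit 5) (nat_lit 484) (nat_lit 381) (nat_lit 155)) (XT.lf (nat_lit 0) (nat_lit 57236284780) (nat_lit 228) (nat_lit 15706085439) (nat_lit 76) (nat_lit 12385419156) (nat_lit 138) (nat_lit 5) (nat_lit 141) (nat_lit 5) (nat_lit 139) (nat_lit 4) (nat_lit 485) (nat_lit 381) (nat_lit 154)))) (XT.nd (nat_lit 45006) (nat_lit 0) (nat_lit 18240) (XT.nd (nat_lit 78) (nat_lit 228) (nat_lit 0) (XT.lf (nat_lit 0) (nat_lit 40898680481) (nat_lit 76) (nat_lit 44224034838) (nat_lit 152) (nat_lit 1864438127) (nat_lit 137) (nat_lit 5) (nat_lit 138) (nat_lit 5) (nat_lit 139) (nat_lit 4) (nat_lit 486) (nat_lit 381) (nat_lit 153)) (XT.lf (nat_lit 0) (nat_lit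 10795295292) (nat_lit 152) (nat_lit 14125201177) (nat_lit 228) (nat_lit 63760695048) (nat_lit 134) (nat_lit 5) (nat_lit 136) (nat_lit 5) (nat_lit 137) (nat_lit 5) (nat_lit 487) (nat_lit 381) (nat_lit 152))) (XT.nd (nat_lit 78) (nat_lit 0) (nat_lit 0) (XT.lf (nat_lit 0) (nat_lit 692390274) (nat_lit 1292) (nat_lit 3221055371) (nat_lit 1292) (nat_lit 3221055371) (nat_lit 374) (nat_lit 3) (nat_lit 391) (nat_lit 3) (nat_lit 391) (nat_lit 5) (nat_lit 382) (nat_lit 382) (nat_lit 256)) (XT.lf (nat_lit 76) (nat_lit 706170198) (nat_lit 0) (nat_lit 1036962065) (nat_lit 1292) (nat_lit 12729777400) (nat_lit 375) (nat_lit 5) (nat_lit 374) (nat_lit 3) (nat_lit 391) (nat_lit 5) (nat_lit 383) (nat_lit 382) (nat_lit 255)))))) (XT.nd (nat_lit 624) (nat_lit 760) (nat_lit 0) (XT.nd (nat_lit 312) (nat_lit 0) (nat_lit 152) (XT.nd (nat_lit 156) (nat_lit 0) (nat_lit 76) (XT.nd (nat_lit 78) (nat_lit 0) (nat_lit 0) (XT.lf (nat_lit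 0) (nat_lit 2222274889) (nat_lit 1216) (nat_lit 6545159317) (nat_lit 1292) (nat_lit 5912199105) (nat_lit 375) (nat_lit 5) (nat_lit 391) (nat_lit 5) (nat_lit 392) (nat_lit 5) (nat_lit 384) (nat_lit 382) (nat_lit 254)) (XT.lf (nat_lit 76) (nat_lit 893211936) (nat_lit 0) (nat_lit 1828893566) (nat_lit 1292) (nat_lit 12170263756) (nat_lit 376) (nat_lit 5) (nat_lit 375) (nat_lit 5) (nat_lit 392) (nat_lit 5) (nat_lit 385) (nat_lit 382) (nat_lit 253))) (XT.nd (nat_lit 78) (nat_lit 0) (nat_lit 0) (XT.lf (nat_lit 0) (nat_lit 3342606605) (nat_lit 1216) (nat_lit 6479741574) (nat_lit 1292) (nat_lit 5285968838) (nat_lit 376) (nat_lit 5) (nat_lit 392) (nat_lit 5) (nat_lit 393) (nat_lit 5) (nat_lit 386) (nat_lit 382) (nat_lit 252)) (XT.lf (nat_lit 76) (nat_lit 1264673337) (nat_lit 0) (nat_lit 2735479053) (nat_lit 1292) (nat_lit 11330037928) (nat_lit 377) (nat_lit 5) (nat_lit 376) (nat_lit 5) (nat_lit 393) (nat_lit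 5) (nat_lit 387) (nat_lit 382) (nat_lit 251)))) (XT.nd (nat_lit 156) (nat_lit 0) (nat_lit 76) (XT.nd (nat_lit 78) (nat_lit 0) (nat_lit 0) (XT.lf (nat_lit 0) (nat_lit 4775861614) (nat_lit 1216) (nat_lit 6234500980) (nat_lit 1292) (nat_lit 4545404112) (nat_lit 377) (nat_lit 5) (nat_lit 393) (nat_lit 5) (nat_lit 394) (nat_lit 5) (nat_lit 388) (nat_lit 382) (nat_lit 250)) (XT.lf (nat_lit 76) (nat_lit 1832871734) (nat_lit 0) (nat_lit 3775493024) (nat_lit 1292) (nat_lit 10178739947) (nat_lit 378) (nat_lit 5) (nat_lit 377) (nat_lit 5) (nat_lit 394) (nat_lit 5) (nat_lit 389) (nat_lit 382) (nat_lit 249))) (XT.nd (nat_lit 78) (nat_lit 0) (nat_lit 0) (XT.lf (nat_lit 0) (nat_lit 6553875104) (nat_lit 1216) (nat_lit 5796938974) (nat_lit 1292) (nat_lit 3671927805) (nat_lit 378) (nat_lit 5) (nat_lit 394) (nat_lit 5) (nat_lit 395) (nat_lit 5) (nat_lit 390) (nat_lit 382) (nat_lit 248)) (XT.lf (nat_lit 76) (nat_lit 2611320594)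 (nat_lit 0) (nat_lit 4968342523) (nat_lit 1292) (nat_lit 8684227688) (nat_lit 379) (nat_lit 5) (nat_lit 378) (nat_lit 5) (nat_lit 395) (nat_lit 5) (nat_lit 391) (nat_lit 382) (nat_lit 247))))) (XT.nd (nat_lit 312) (nat_lit 1064) (nat_lit 0) (XT.nd (nat_lit 156) (nat_lit 0) (nat_lit 76) (XT.nd (nat_lit 78) (nat_lit 0) (nat_lit 0) (XT.lf (nat_lit 0) (nat_lit 8710374414) (nat_lit 1216) (nat_lit 5153369245) (nat_lit 1292) (nat_lit 2646306047) (nat_lit 379) (nat_lit 5) (nat_lit 395) (nat_lit 5) (nat_lit 396) (nat_lit 5) (nat_lit 392) (nat_lit 382) (nat_lit 246)) (XT.lf (nat_lit 76) (nat_lit 3614778754) (nat_lit 0) (nat_lit 6334164663) (nat_lit 1292) (nat_lit 6812431866) (nat_lit 380) (nat_lit 5) (nat_lit 379) (nat_lit 5) (nat_lit 396) (nat_lit 5) (nat_lit 393) (nat_lit 382) (nat_lit 245))) (XT.nd (nat_lit 78) (nat_lit 0) (nat_lit 0) (XT.lf (nat_lit 0) (nat_lit 11281128436) (nat_lit 1216) (nat_lit 4288866718)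 (nat_lit 1292) (nat_lit 1448551704) (nat_lit 380) (nat_lit 5) (nat_lit 396) (nat_lit 5) (nat_lit 397) (nat_lit 5) (nat_lit 394) (nat_lit 382) (nat_lit 244)) (XT.lf (nat_lit 76) (nat_lit 4859305157) (nat_lit 0) (nat_lit 7893925529) (nat_lit 1292) (nat_lit 4527204343) (nat_lit 381) (nat_lit 5) (nat_lit 380) (nat_lit 5) (nat_lit 397) (nat_lit 5) (nat_lit 395) (nat_lit 382) (nat_lit 243)))) (XT.nd (nat_lit 156) (nat_lit 1216) (nat_lit 0) (XT.nd (nat_lit 78) (nat_lit 0) (nat_lit 0) (XT.lf (nat_lit 0) (nat_lit 14304104150) (nat_lit 1216) (nat_lit 3187211130) (nat_lit 1292) (nat_lit 57826323) (nat_lit 381) (nat_lit 5) (nat_lit 397) (nat_lit 5) (nat_lit 398) (nat_lit 5) (nat_lit 396) (nat_lit 382) (nat_lit 242)) (XT.lf (nat_lit 76) (nat_lit 6362319204) (nat_lit 0) (nat_lit 9669520940) (nat_lit 1292) (nat_lit 1790159138) (nat_lit 382) (nat_lit 5) (nat_lit 381) (nat_lit 5) (nat_lit 398) (nat_lit 5) (nat_lit 397)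 (nat_lit 382) (nat_lit 241))) (XT.nd (nat_lit 78) (nat_lit 1216) (nat_lit 0) (XT.lf (nat_lit 76) (nat_lit 16256342647) (nat_lit 0) (nat_lit 1578461412) (nat_lit 1292) (nat_lit 267536759) (nat_lit 382) (nat_lit 5) (nat_lit 381) (nat_lit 5) (nat_lit 398) (nat_lit 5) (nat_lit 398) (nat_lit 382) (nat_lit 240)) (XT.lf (nat_lit 0) (nat_lit 1411404790) (nat_lit 1292) (nat_lit 10258222332) (nat_lit 76) (nat_lit 6717009673) (nat_lit 365) (nat_lit 5) (nat_lit 382) (nat_lit 5) (nat_lit 366) (nat_lit 5) (nat_lit 399) (nat_lit 382) (nat_lit 239))))))))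
noncomputable def xc189 : XT := (XT.nd (nat_lit 2340) (nat_lit 5700) (nat_lit 0) (XT.nd (nat_lit 1170) (nat_lit 4028) (nat_lit 0) (XT.nd (nat_lit 546) (nat_lit 2204) (nat_lit 0) (XT.nd (nat_lit 234) (nat_lit 1140) (nat_lit 0) (XT.nd (nat_lit 78) (nat_lit 1444) (nat_lit 0) (XT.lf (nat_lit 0) (nat_lit 3161367358) (nat_lit 1292) (nat_lit 264942531) (nat_lit 76) (nat_lit 15252291395) (nat_lit 365) (nat_lit 5) (nat_lit 382) (nat_lit 5) (nat_lit 366) (nat_lit 5) (nat_lit 400) (nat_lit 382) (nat_lit 238)) (XT.nd (nat_lit 78) (nat_lit 608) (nat_lit 0) (XT.lf (nat_lit 0) (nat_lit 5103556912) (nat_lit 912) (nat_lit 8805975909) (nat_lit 76) (nat_lit 5065600044) (nat_lit 354) (nat_lit 5) (nat_lit 366) (nat_lit 5) (nat_lit 355) (nat_lit 5) (nat_lit 401) (nat_lit 382) (nat_lit 237)) (XT.lf (nat_lit 0) (nat_lit 1631681896) (nat_lit 608) (nat_lit 5516639196) (nat_lit 684) (nat_lit 12130910033) (nat_lit 346) (nat_lit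 5) (nat_lit 354) (nat_lit 5) (nat_lit 355) (nat_lit 5) (nat_lit 402) (nat_lit 382) (nat_lit 236)))) (XT.nd (nat_lit 156) (nat_lit 532) (nat_lit 0) (XT.nd (nat_lit 78) (nat_lit 608) (nat_lit 0) (XT.lf (nat_lit 0) (nat_lit 9366465640) (nat_lit 684) (nat_lit 7065355321) (nat_lit 76) (nat_lit 3157270248) (nat_lit 346) (nat_lit 5) (nat_lit 355) (nat_lit 5) (nat_lit 347) (nat_lit 5) (nat_lit 403) (nat_lit 382) (nat_lit 235)) (XT.lf (nat_lit 0) (nat_lit 3847376982) (nat_lit 608) (nat_lit 7887774549) (nat_lit 684) (nat_lit 8170575655) (nat_lit 338) (nat_lit 5) (nat_lit 346) (nat_lit 5) (nat_lit 347) (nat_lit 5) (nat_lit 404) (nat_lit 382) (nat_lit 234))) (XT.nd (nat_lit 78) (nat_lit 532) (nat_lit 0) (XT.lf (nat_lit 0) (nat_lit 14248269170) (nat_lit 684) (nat_lit 5014412619) (nat_lit 76) (nat_lit 966979318) (nat_lit 338) (nat_lit 5) (nat_lit 347) (nat_lit 5) (nat_lit 339) (nat_lit 5) (nat_lit 405) (nat_lit 382)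 (nat_lit 233)) (XT.lf (nat_lit 0) (nat_lit 6400323098) (nat_lit 532) (nat_lit 10568841074) (nat_lit 608) (nat_lit 3590177359) (nat_lit 331) (nat_lit 5) (nat_lit 338) (nat_lit 5) (nat_lit 339) (nat_lit 5) (nat_lit 406) (nat_lit 382) (nat_lit 232))))) (XT.nd (nat_lit 312) (nat_lit 988) (nat_lit 0) (XT.nd (nat_lit 156) (nat_lit 532) (nat_lit 0) (XT.nd (nat_lit 78) (nat_lit 684) (nat_lit 0) (XT.lf (nat_lit 0) (nat_lit 18253046587) (nat_lit 532) (nat_lit 1562179547) (nat_lit 608) (nat_lit 1082380031) (nat_lit 331) (nat_lit 5) (nat_lit 338) (nat_lit 5) (nat_lit 339) (nat_lit 5) (nat_lit 407) (nat_lit 382) (nat_lit 231)) (XT.lf (nat_lit 0) (nat_lit 1629737022) (nat_lit 684) (nat_lit 11941573137) (nat_lit 76) (nat_lit 7669524755) (nat_lit 322) (nat_lit 5) (nat_lit 331) (nat_lit 5) (nat_lit 323) (nat_lit 5) (nat_lit 408) (nat_lit 382) (nat_lit 230))) (XT.nd (nat_lit 78) (nat_lit 0) (nat_lit 0) (XT.lf (nat_lit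 0) (nat_lit 28860304) (nat_lit 532) (nat_lit 4408490852) (nat_lit 608) (nat_lit 17155611220) (nat_lit 315) (nat_lit 5) (nat_lit 322) (nat_lit 5) (nat_lit 323) (nat_lit 5) (nat_lit 409) (nat_lit 382) (nat_lit 229)) (XT.lf (nat_lit 0) (nat_lit 7492616631) (nat_lit 608) (nat_lit 9405804674) (nat_lit 76) (nat_lit 5052329671) (nat_lit 315) (nat_lit 5) (nat_lit 323) (nat_lit 5) (nat_lit 316) (nat_lit 5) (nat_lit 410) (nat_lit 382) (nat_lit 228)))) (XT.nd (nat_lit 156) (nat_lit 456) (nat_lit 0) (XT.nd (nat_lit 78) (nat_lit 0) (nat_lit 0) (XT.lf (nat_lit 0) (nat_lit 3127408480) (nat_lit 532) (nat_lit 7579336404) (nat_lit 608) (nat_lit 11610512204) (nat_lit 308) (nat_lit 5) (nat_lit 315) (nat_lit 5) (nat_lit 316) (nat_lit 5) (nat_lit 411) (nat_lit 382) (nat_lit 227)) (XT.lf (nat_lit 0) (nat_lit 14126235937) (nat_lit 608) (nat_lit 6490157860) (nat_lit 76) (nat_lit 2075096418) (nat_lit 308) (nat_lit 5) (nat_lit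 316) (nat_lit 5) (nat_lit 309) (nat_lit 5) (nat_lit 412) (nat_lit 382) (nat_lit 226))) (XT.nd (nat_lit 78) (nat_lit 0) (nat_lit 0) (XT.lf (nat_lit 0) (nat_lit 6637897996) (nat_lit 456) (nat_lit 11143057808) (nat_lit 532) (nat_lit 5292015211) (nat_lit 302) (nat_lit 5) (nat_lit 308) (nat_lit 5) (nat_lit 309) (nat_lit 5) (nat_lit 413) (nat_lit 382) (nat_lit 225)) (XT.lf (nat_lit 0) (nat_lit 20285795149) (nat_lit 456) (nat_lit 1318966672) (nat_lit 532) (nat_lit 1859351081) (nat_lit 302) (nat_lit 5) (nat_lit 308) (nat_lit 5) (nat_lit 309) (nat_lit 5) (nat_lit 414) (nat_lit 382) (nat_lit 224)))))) (XT.nd (nat_lit 546) (nat_lit 2052) (nat_lit 0) (XT.nd (nat_lit 234) (nat_lit 912) (nat_lit 0) (XT.nd (nat_lit 78) (nat_lit 456) (nat_lit 0) (XT.lf (nat_lit 0) (nat_lit 1825843414) (nat_lit 608) (nat_lit 13288257543) (nat_lit 76) (nat_lit 8746936851) (nat_lit 294) (nat_lit 5) (nat_lit 302) (nat_lit 5) (nat_lit 295)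 (nat_lit 5) (nat_lit 415) (nat_lit 382) (nat_lit 223)) (XT.nd (nat_lit 78) (nat_lit 0) (nat_lit 0) (XT.lf (nat_lit 0) (nat_lit 503643614) (nat_lit 456) (nat_lit 5125015541) (nat_lit 532) (nat_lit 18639325929) (nat_lit 288) (nat_lit 5) (nat_lit 294) (nat_lit 5) (nat_lit 295) (nat_lit 5) (nat_lit 416) (nat_lit 382) (nat_lit 222)) (XT.lf (nat_lit 0) (nat_lit 9724926268) (nat_lit 532) (nat_lit 9759529166) (nat_lit 76) (nat_lit 5197304338) (nat_lit 288) (nat_lit 5) (nat_lit 295) (nat_lit 5) (nat_lit 289) (nat_lit 5) (nat_lit 417) (nat_lit 382) (nat_lit 221)))) (XT.nd (nat_lit 156) (nat_lit 456) (nat_lit 0) (XT.nd (nat_lit 78) (nat_lit 0) (nat_lit 0) (XT.lf (nat_lit 0) (nat_lit 4699449730) (nat_lit 456) (nat_lit 9334932779) (nat_lit 532) (nat_lit 11070856159) (nat_lit 282) (nat_lit 5) (nat_lit 288) (nat_lit 5) (nat_lit 289) (nat_lit 5) (nat_lit 418) (nat_lit 382) (nat_lit 220)) (XT.lf (nat_lit 0) (nat_lit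 18577876473) (nat_lit 532) (nat_lit 5764962357) (nat_lit 76) (nat_lit 1195440479) (nat_lit 282) (nat_lit 5) (nat_lit 289) (nat_lit 5) (nat_lit 283) (nat_lit 5) (nat_lit 419) (nat_lit 382) (nat_lit 219))) (XT.nd (nat_lit 78) (nat_lit 76) (nat_lit 0) (XT.lf (nat_lit 0) (nat_lit 9399259128) (nat_lit 380) (nat_lit 14035822655) (nat_lit 456) (nat_lit 2543907189) (nat_lit 277) (nat_lit 5) (nat_lit 282) (nat_lit 5) (nat_lit 283) (nat_lit 5) (nat_lit 420) (nat_lit 382) (nat_lit 218)) (XT.lf (nat_lit 0) (nat_lit 2019417399) (nat_lit 456) (nat_lit 1321298081) (nat_lit 76) (nat_lit 23090022409) (nat_lit 276) (nat_lit 5) (nat_lit 282) (nat_lit 5) (nat_lit 277) (nat_lit 5) (nat_lit 421) (nat_lit 382) (nat_lit 217))))) (XT.nd (nat_lit 312) (nat_lit 836) (nat_lit 0) (XT.nd (nat_lit 156) (nat_lit 380) (nat_lit 0) (XT.nd (nat_lit 78) (nat_lit 380) (nat_lit 0) (XT.lf (nat_lit 0) (nat_lit 6879558858) (nat_lit 532) (nat_lit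 12317728582) (nat_lit 76) (nat_lit 7691664805) (nat_lit 270) (nat_lit 5) (nat_lit 277) (nat_lit 5) (nat_lit 271) (nat_lit 5) (nat_lit 422) (nat_lit 382) (nat_lit 216)) (XT.lf (nat_lit 0) (nat_lit 3638147854) (nat_lit 380) (nat_lit 8323777268) (nat_lit 456) (nat_lit 15396695291) (nat_lit 265) (nat_lit 5) (nat_lit 270) (nat_lit 5) (nat_lit 271) (nat_lit 5) (nat_lit 423) (nat_lit 382) (nat_lit 215))) (XT.nd (nat_lit 78) (nat_lit 380) (nat_lit 0) (XT.lf (nat_lit 0) (nat_lit 17344990261) (nat_lit 456) (nat_lit 7549121312) (nat_lit 76) (nat_lit 2943820216) (nat_lit 265) (nat_lit 5) (nat_lit 271) (nat_lit 5) (nat_lit 266) (nat_lit 5) (nat_lit 424) (nat_lit 382) (nat_lit 214)) (XT.lf (nat_lit 0) (nat_lit 9197838466) (nat_lit 380) (nat_lit 13857650558) (nat_lit 456) (nat_lit 5271155232) (nat_lit 260) (nat_lit 5) (nat_lit 265) (nat_lit 5) (nat_lit 266) (nat_lit 5) (nat_lit 425) (nat_lit 382) (nat_lit 213))))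 (XT.nd (nat_lit 156) (nat_lit 380) (nat_lit 0) (XT.nd (nat_lit 78) (nat_lit 380) (nat_lit 0) (XT.lf (nat_lit 0) (nat_lit 177321928) (nat_lit 456) (nat_lit 2234193822) (nat_lit 76) (nat_lit 26416307486) (nat_lit 259) (nat_lit 5) (nat_lit 265) (nat_lit 5) (nat_lit 260) (nat_lit 5) (nat_lit 426) (nat_lit 382) (nat_lit 212)) (XT.lf (nat_lit 0) (nat_lit 5918832120) (nat_lit 456) (nat_lit 14020965299) (nat_lit 76) (nat_lit 9395608765) (nat_lit 254) (nat_lit 5) (nat_lit 260) (nat_lit 5) (nat_lit 255) (nat_lit 5) (nat_lit 427) (nat_lit 382) (nat_lit 211))) (XT.nd (nat_lit 78) (nat_lit 0) (nat_lit 0) (XT.lf (nat_lit 0) (nat_lit 3617790664) (nat_lit 380) (nat_lit 8291579512) (nat_lit 456) (nat_lit 17946542967) (nat_lit 249) (nat_lit 5) (nat_lit 254) (nat_lit 5) (nat_lit 255) (nat_lit 5) (nat_lit 428) (nat_lit 382) (nat_lit 210)) (XT.lf (nat_lit 0) (nat_lit 18253636889) (nat_lit 456) (nat_lit 8358244612) (nat_lit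 76) (nat_lit 3774933436) (nat_lit 249) (nat_lit 5) (nat_lit 255) (nat_lit 5) (nat_lit 250) (nat_lit 5) (nat_lit 429) (nat_lit 382) (nat_lit 209))))))) (XT.nd (nat_lit 1170) (nat_lit 2812) (nat_lit 0) (XT.nd (nat_lit 546) (nat_lit 1444) (nat_lit 0) (XT.nd (nat_lit 234) (nat_lit 684) (nat_lit 0) (XT.nd (nat_lit 78) (nat_lit 456) (nat_lit 0) (XT.lf (nat_lit 0) (nat_lit 10167984475) (nat_lit 304) (nat_lit 14795618079) (nat_lit 380) (nat_lit 5964780101) (nat_lit 245) (nat_lit 5) (nat_lit 249) (nat_lit 5) (nat_lit 250) (nat_lit 5) (nat_lit 430) (nat_lit 382) (nat_lit 208)) (XT.nd (nat_lit 78) (nat_lit 380) (nat_lit 0) (XT.lf (nat_lit 0) (nat_lit 461884146) (nat_lit 380) (nat_lit 2073291104) (nat_lit 76) (nat_lit 28948486110) (nat_lit 244) (nat_lit 5) (nat_lit 249) (nat_lit 5) (nat_lit 245) (nat_lit 5) (nat_lit 431) (nat_lit 382) (nat_lit 207)) (XT.lf (nat_lit 0) (nat_lit 7224137681) (nat_lit 456) (nat_lit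 14698498180) (nat_lit 76) (nat_lit 10123310581) (nat_lit 239) (nat_lit 5) (nat_lit 245) (nat_lit 5) (nat_lit 240) (nat_lit 5) (nat_lit 432) (nat_lit 382) (nat_lit 206)))) (XT.nd (nat_lit 156) (nat_lit 380) (nat_lit 0) (XT.nd (nat_lit 78) (nat_lit 0) (nat_lit 0) (XT.lf (nat_lit 0) (nat_lit 4831559042) (nat_lit 304) (nat_lit 9446126545) (nat_lit 380) (nat_lit 18344761688) (nat_lit 235) (nat_lit 5) (nat_lit 239) (nat_lit 5) (nat_lit 240) (nat_lit 5) (nat_lit 433) (nat_lit 382) (nat_lit 205)) (XT.lf (nat_lit 0) (nat_lit 21721247444) (nat_lit 380) (nat_lit 8003462711) (nat_lit 76) (nat_lit 3486180752) (nat_lit 235) (nat_lit 5) (nat_lit 240) (nat_lit 5) (nat_lit 236) (nat_lit 5) (nat_lit 434) (nat_lit 382) (nat_lit 204))) (XT.nd (nat_lit 78) (nat_lit 76) (nat_lit 0) (XT.lf (nat_lit 0) (nat_lit 12522300454) (nat_lit 304) (nat_lit 17075620603) (nat_lit 380) (nat_lit 4212772644) (nat_lit 231) (nat_lit 5) (nat_lit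 235) (nat_lit 5) (nat_lit 236) (nat_lit 5) (nat_lit 435) (nat_lit 382) (nat_lit 203)) (XT.lf (nat_lit 0) (nat_lit 3295900219) (nat_lit 380) (nat_lit 636654415) (nat_lit 76) (nat_lit 30492662946) (nat_lit 230) (nat_lit 5) (nat_lit 235) (nat_lit 5) (nat_lit 231) (nat_lit 5) (nat_lit 436) (nat_lit 382) (nat_lit 202))))) (XT.nd (nat_lit 312) (nat_lit 532) (nat_lit 0) (XT.nd (nat_lit 156) (nat_lit 304) (nat_lit 0) (XT.nd (nat_lit 78) (nat_lit 304) (nat_lit 0) (XT.lf (nat_lit 0) (nat_lit 11237759637) (nat_lit 380) (nat_lit 14149018463) (nat_lit 76) (nat_lit 9661369790) (nat_lit 226) (nat_lit 5) (nat_lit 231) (nat_lit 5) (nat_lit 227) (nat_lit 5) (nat_lit 437) (nat_lit 382) (nat_lit 201)) (XT.lf (nat_lit 0) (nat_lit 7505936462) (nat_lit 304) (nat_lit 12025604601) (nat_lit 380) (nat_lit 16154815059) (nat_lit 222) (nat_lit 5) (nat_lit 226) (nat_lit 5) (nat_lit 227) (nat_lit 5) (nat_lit 438) (nat_lit 382) (nat_lit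 200))) (XT.nd (nat_lit 78) (nat_lit 304) (nat_lit 0) (XT.lf (nat_lit 0) (nat_lit 28231242000) (nat_lit 380) (nat_lit 6262982077) (nat_lit 76) (nat_lit 1844773342) (nat_lit 222) (nat_lit 5) (nat_lit 227) (nat_lit 5) (nat_lit 223) (nat_lit 5) (nat_lit 439) (nat_lit 382) (nat_lit 199)) (XT.lf (nat_lit 0) (nat_lit 453900106) (nat_lit 304) (nat_lit 20498237750) (nat_lit 76) (nat_lit 16050726669) (nat_lit 218) (nat_lit 5) (nat_lit 222) (nat_lit 5) (nat_lit 219) (nat_lit 5) (nat_lit 440) (nat_lit 382) (nat_lit 198)))) (XT.nd (nat_lit 156) (nat_lit 228) (nat_lit 0) (XT.nd (nat_lit 78) (nat_lit 0) (nat_lit 0) (XT.lf (nat_lit 0) (nat_lit 2358139086) (nat_lit 304) (nat_lit 6834099048) (nat_lit 380) (nat_lit 28489517545) (nat_lit 214) (nat_lit 5) (nat_lit 218) (nat_lit 5) (nat_lit 219) (nat_lit 5) (nat_lit 441) (nat_lit 382) (nat_lit 197)) (XT.lf (nat_lit 0) (nat_lit 18472142387) (nat_lit 380) (nat_lit 12136448346)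 (nat_lit 76) (nat_lit 7764040353) (nat_lit 214) (nat_lit 5) (nat_lit 219) (nat_lit 5) (nat_lit 215) (nat_lit 5) (nat_lit 442) (nat_lit 382) (nat_lit 196))) (XT.nd (nat_lit 78) (nat_lit 0) (nat_lit 0) (XT.lf (nat_lit 0) (nat_lit 11905249860) (nat_lit 228) (nat_lit 16303692609) (nat_lit 304) (nat_lit 10869935324) (nat_lit 211) (nat_lit 5) (nat_lit 214) (nat_lit 5) (nat_lit 215) (nat_lit 5) (nat_lit 443) (nat_lit 382) (nat_lit 195)) (XT.lf (nat_lit 0) (nat_lit 36911305486) (nat_lit 228) (nat_lit 1445539657) (nat_lit 304) (nat_lit 1445896801) (nat_lit 211) (nat_lit 5) (nat_lit 214) (nat_lit 5) (nat_lit 215) (nat_lit 5) (nat_lit 444) (nat_lit 382) (nat_lit 194)))))) (XT.nd (nat_lit 624) (nat_lit 1444) (nat_lit 0) (XT.nd (nat_lit 312) (nat_lit 532) (nat_lit 0) (XT.nd (nat_lit 156) (nat_lit 228) (nat_lit 0) (XT.nd (nat_lit 78) (nat_lit 228) (nat_lit 0) (XT.lf (nat_lit 0) (nat_lit 8448319103) (nat_lit 380)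 (nat_lit 18202929754) (nat_lit 76) (nat_lit 13884231246) (nat_lit 206) (nat_lit 5) (nat_lit 211) (nat_lit 5) (nat_lit 207) (nat_lit 5) (nat_lit 445) (nat_lit 382) (nat_lit 193)) (XT.lf (nat_lit 0) (nat_lit 7188958080) (nat_lit 228) (nat_lit 11530788131) (nat_lit 304) (nat_lit 22566741347) (nat_lit 203) (nat_lit 5) (nat_lit 206) (nat_lit 5) (nat_lit 207) (nat_lit 5) (nat_lit 446) (nat_lit 382) (nat_lit 192))) (XT.nd (nat_lit 78) (nat_lit 228) (nat_lit 0) (XT.lf (nat_lit 0) (nat_lit 29520385158) (nat_lit 304) (nat_lit 8385090343) (nat_lit 76) (nat_lit 4147917664) (nat_lit 203) (nat_lit 5) (nat_lit 207) (nat_lit 5) (nat_lit 204) (nat_lit 5) (nat_lit 447) (nat_lit 382) (nat_lit 191)) (XT.lf (nat_lit 0) (nat_lit 18336901137) (nat_lit 228) (nat_lit 22595242454) (nat_lit 304) (nat_lit 1902549341) (nat_lit 200) (nat_lit 5) (nat_lit 203) (nat_lit 5) (nat_lit 204) (nat_lit 5) (nat_lit 448) (nat_lit 382) (nat_lit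 190)))) (XT.nd (nat_lit 156) (nat_lit 228) (nat_lit 0) (XT.nd (nat_lit 78) (nat_lit 0) (nat_lit 0) (XT.lf (nat_lit 0) (nat_lit 2348078526) (nat_lit 228) (nat_lit 6626971920) (nat_lit 304) (nat_lit 34658629433) (nat_lit 196) (nat_lit 5) (nat_lit 199) (nat_lit 5) (nat_lit 200) (nat_lit 5) (nat_lit 449) (nat_lit 382) (nat_lit 189)) (XT.lf (nat_lit 0) (nat_lit 20481671708) (nat_lit 304) (nat_lit 14068904681) (nat_lit 76) (nat_lit 9895266947) (nat_lit 196) (nat_lit 5) (nat_lit 200) (nat_lit 5) (nat_lit 197) (nat_lit 5) (nat_lit 450) (nat_lit 382) (nat_lit 188))) (XT.nd (nat_lit 78) (nat_lit 0) (nat_lit 0) (XT.lf (nat_lit 0) (nat_lit 14169834593) (nat_lit 228) (nat_lit 18362280388) (nat_lit 304) (nat_lit 12744298015) (nat_lit 193) (nat_lit 5) (nat_lit 196) (nat_lit 5) (nat_lit 197) (nat_lit 5) (nat_lit 451) (nat_lit 382) (nat_lit 187)) (XT.lf (nat_lit 0) (nat_lit 43538838018) (nat_lit 228) (nat_lit 1544144827)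 (nat_lit 304) (nat_lit 1044749562) (nat_lit 193) (nat_lit 5) (nat_lit 196) (nat_lit 5) (nat_lit 197) (nat_lit 5) (nat_lit 452) (nat_lit 382) (nat_lit 186))))) (XT.nd (nat_lit 312) (nat_lit 684) (nat_lit 0) (XT.nd (nat_lit 156) (nat_lit 228) (nat_lit 0) (XT.nd (nat_lit 78) (nat_lit 228) (nat_lit 0) (XT.lf (nat_lit 0) (nat_lit 11204719798) (nat_lit 304) (nat_lit 19944781513) (nat_lit 76) (nat_lit 15839505349) (nat_lit 189) (nat_lit 5) (nat_lit 193) (nat_lit 5) (nat_lit 190) (nat_lit 5) (nat_lit 453) (nat_lit 382) (nat_lit 185)) (XT.lf (nat_lit 0) (nat_lit 9906264077) (nat_lit 228) (nat_lit 14028250961) (nat_lit 304) (nat_lit 23937278575) (nat_lit 186) (nat_lit 5) (nat_lit 189) (nat_lit 5) (nat_lit 190) (nat_lit 5) (nat_lit 454) (nat_lit 382) (nat_lit 184))) (XT.nd (nat_lit 78) (nat_lit 228) (nat_lit 0) (XT.lf (nat_lit 0) (nat_lit 37281214893) (nat_lit 304) (nat_lit 7755239713) (nat_lit 76) (nat_lit 3737559245)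 (nat_lit 186) (nat_lit 5) (nat_lit 190) (nat_lit 5) (nat_lit 187) (nat_lit 5) (nat_lit 455) (nat_lit 382) (nat_lit 183)) (XT.lf (nat_lit 0) (nat_lit 1666306887) (nat_lit 228) (nat_lit 26029285209) (nat_lit 76) (nat_lit 21996312066) (nat_lit 183) (nat_lit 5) (nat_lit 186) (nat_lit 5) (nat_lit 184) (nat_lit 5) (nat_lit 456) (nat_lit 382) (nat_lit 182)))) (XT.nd (nat_lit 156) (nat_lit 456) (nat_lit 0) (XT.nd (nat_lit 78) (nat_lit 0) (nat_lit 0) (XT.lf (nat_lit 0) (nat_lit 5535355588) (nat_lit 228) (nat_lit 9583175988) (nat_lit 304) (nat_lit 35511505717) (nat_lit 180) (nat_lit 5) (nat_lit 183) (nat_lit 5) (nat_lit 184) (nat_lit 5) (nat_lit 457) (nat_lit 382) (nat_lit 181)) (XT.lf (nat_lit 0) (nat_lit 29324041039) (nat_lit 304) (nat_lit 13102849760) (nat_lit 76) (nat_lit 9158932078) (nat_lit 180) (nat_lit 5) (nat_lit 184) (nat_lit 5) (nat_lit 181) (nat_lit 5) (nat_lit 458) (nat_lit 382) (nat_lit 180))) (XT.nd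 (nat_lit 78) (nat_lit 304) (nat_lit 0) (XT.lf (nat_lit 0) (nat_lit 20141927617) (nat_lit 152) (nat_lit 24099432643) (nat_lit 228) (nat_lit 8320352433) (nat_lit 178) (nat_lit 5) (nat_lit 180) (nat_lit 5) (nat_lit 181) (nat_lit 5) (nat_lit 459) (nat_lit 382) (nat_lit 179)) (XT.lf (nat_lit 0) (nat_lit 1045801662) (nat_lit 228) (nat_lit 5016498283) (nat_lit 304) (nat_lit 47498612780) (nat_lit 174) (nat_lit 5) (nat_lit 177) (nat_lit 5) (nat_lit 178) (nat_lit 5) (nat_lit 460) (nat_lit 382) (nat_lit 178))))))))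
noncomputable def xc190 : XT := (XT.nd (nat_lit 47268) (nat_lit 0) (nat_lit 11932) (XT.nd (nat_lit 1170) (nat_lit 1140) (nat_lit 0) (XT.nd (nat_lit 546) (nat_lit 912) (nat_lit 0) (XT.nd (nat_lit 234) (nat_lit 608) (nat_lit 0) (XT.nd (nat_lit 78) (nat_lit 152) (nat_lit 0) (XT.lf (nat_lit 0) (nat_lit 21177705144) (nat_lit 304) (nat_lit 18631668354) (nat_lit 76) (nat_lit 14764188747) (nat_lit 174) (nat_lit 5) (nat_lit 178) (nat_lit 5) (nat_lit 175) (nat_lit 5) (nat_lit 461) (nat_lit 382) (nat_lit 177)) (XT.nd (nat_lit 78) (nat_lit 0) (nat_lit 0) (XT.lf (nat_lit 0) (nat_lit 16536449072) (nat_lit 152) (nat_lit 20416000858) (nat_lit 228) (nat_lit 18657964997) (nat_lit 172) (nat_lit 5) (nat_lit 174) (nat_lit 5) (nat_lit 175) (nat_lit 5) (nat_lit 462) (nat_lit 382) (nat_lit 176)) (XT.lf (nat_lit 0) (nat_lit 53136742519) (nat_lit 152) (nat_lit 249122480) (nat_lit 228) (nat_lit 3286945352) (nat_lit 172) (nat_lit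 5) (nat_lit 174) (nat_lit 5) (nat_lit 175) (nat_lit 5) (nat_lit 463) (nat_lit 382) (nat_lit 175)))) (XT.nd (nat_lit 156) (nat_lit 228) (nat_lit 0) (XT.nd (nat_lit 78) (nat_lit 152) (nat_lit 0) (XT.lf (nat_lit 0) (nat_lit 12822356967) (nat_lit 228) (nat_lit 24357213176) (nat_lit 76) (nat_lit 20568231104) (nat_lit 169) (nat_lit 5) (nat_lit 172) (nat_lit 5) (nat_lit 170) (nat_lit 5) (nat_lit 464) (nat_lit 382) (nat_lit 174)) (XT.lf (nat_lit 0) (nat_lit 12854303790) (nat_lit 152) (nat_lit 16654011836) (nat_lit 228) (nat_lit 29340966673) (nat_lit 167) (nat_lit 5) (nat_lit 169) (nat_lit 5) (nat_lit 170) (nat_lit 5) (nat_lit 465) (nat_lit 382) (nat_lit 173))) (XT.nd (nat_lit 78) (nat_lit 228) (nat_lit 0) (XT.lf (nat_lit 0) (nat_lit 46983746299) (nat_lit 228) (nat_lit 8345270942) (nat_lit 76) (nat_lit 4646123744) (nat_lit 167) (nat_lit 5) (nat_lit 170) (nat_lit 5) (nat_lit 168) (nat_lit 5) (nat_lit 466) (nat_lit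 382) (nat_lit 172)) (XT.lf (nat_lit 0) (nat_lit 4237149407) (nat_lit 228) (nat_lit 30295785775) (nat_lit 76) (nat_lit 26586822792) (nat_lit 164) (nat_lit 5) (nat_lit 167) (nat_lit 5) (nat_lit 165) (nat_lit 5) (nat_lit 467) (nat_lit 382) (nat_lit 171))))) (XT.nd (nat_lit 312) (nat_lit 380) (nat_lit 0) (XT.nd (nat_lit 156) (nat_lit 380) (nat_lit 0) (XT.nd (nat_lit 78) (nat_lit 0) (nat_lit 0) (XT.lf (nat_lit 0) (nat_lit 9086418948) (nat_lit 152) (nat_lit 12804911822) (nat_lit 228) (nat_lit 40398427018) (nat_lit 162) (nat_lit 5) (nat_lit 164) (nat_lit 5) (nat_lit 165) (nat_lit 5) (nat_lit 468) (nat_lit 382) (nat_lit 170)) (XT.lf (nat_lit 0) (nat_lit 40473591552) (nat_lit 228) (nat_lit 13314241258) (nat_lit 76) (nat_lit 9695071167) (nat_lit 162) (nat_lit 5) (nat_lit 165) (nat_lit 5) (nat_lit 163) (nat_lit 5) (nat_lit 469) (nat_lit 382) (nat_lit 169))) (XT.nd (nat_lit 78) (nat_lit 228) (nat_lit 0) (XT.lf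 (nat_lit 0) (nat_lit 28190361956) (nat_lit 152) (nat_lit 31818253245) (nat_lit 228) (nat_lit 4691370501) (nat_lit 160) (nat_lit 5) (nat_lit 162) (nat_lit 5) (nat_lit 163) (nat_lit 5) (nat_lit 470) (nat_lit 382) (nat_lit 168)) (XT.lf (nat_lit 0) (nat_lit 5223324387) (nat_lit 152) (nat_lit 8859682859) (nat_lit 228) (nat_lit 51860978812) (nat_lit 157) (nat_lit 5) (nat_lit 159) (nat_lit 5) (nat_lit 160) (nat_lit 5) (nat_lit 471) (nat_lit 382) (nat_lit 167)))) (XT.nd (nat_lit 156) (nat_lit 228) (nat_lit 0) (XT.nd (nat_lit 78) (nat_lit 152) (nat_lit 0) (XT.lf (nat_lit 0) (nat_lit 33838343784) (nat_lit 228) (nat_lit 18454317417) (nat_lit 76) (nat_lit 14915891166) (nat_lit 157) (nat_lit 5) (nat_lit 160) (nat_lit 5) (nat_lit 158) (nat_lit 5) (nat_lit 472) (nat_lit 382) (nat_lit 166)) (XT.lf (nat_lit 0) (nat_lit 25485240975) (nat_lit 152) (nat_lit 29031415898) (nat_lit 228) (nat_lit 13984489301) (nat_lit 155)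 (nat_lit 5) (nat_lit 157) (nat_lit 5) (nat_lit 158) (nat_lit 5) (nat_lit 473) (nat_lit 382) (nat_lit 165))) (XT.nd (nat_lit 78) (nat_lit 0) (nat_lit 0) (XT.lf (nat_lit 0) (nat_lit 1255120881) (nat_lit 152) (nat_lit 4808818787) (nat_lit 228) (nat_lit 63760916291) (nat_lit 152) (nat_lit 5) (nat_lit 154) (nat_lit 5) (nat_lit 155) (nat_lit 5) (nat_lit 474) (nat_lit 382) (nat_lit 164)) (XT.lf (nat_lit 0) (nat_lit 27062656870) (nat_lit 228) (nat_lit 23779926171) (nat_lit 76) (nat_lit 20322642897) (nat_lit 152) (nat_lit 5) (nat_lit 155) (nat_lit 5) (nat_lit 153) (nat_lit 5) (nat_lit 475) (nat_lit 382) (nat_lit 163)))))) (XT.nd (nat_lit 546) (nat_lit 380) (nat_lit 0) (XT.nd (nat_lit 234) (nat_lit 456) (nat_lit 0) (XT.nd (nat_lit 78) (nat_lit 152) (nat_lit 0) (XT.lf (nat_lit 0) (nat_lit 22745561685) (nat_lit 152) (nat_lit 26209729554) (nat_lit 228) (nat_lit 23582597108) (nat_lit 150) (nat_lit 5) (nat_lit 152)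 (nat_lit 5) (nat_lit 153) (nat_lit 5) (nat_lit 476) (nat_lit 382) (nat_lit 162)) (XT.nd (nat_lit 78) (nat_lit 152) (nat_lit 0) (XT.lf (nat_lit 0) (nat_lit 71150069942) (nat_lit 152) (nat_lit 592491201) (nat_lit 228) (nat_lit 2202033788) (nat_lit 150) (nat_lit 5) (nat_lit 152) (nat_lit 5) (nat_lit 153) (nat_lit 5) (nat_lit 477) (nat_lit 382) (nat_lit 161)) (XT.lf (nat_lit 0) (nat_lit 20130455544) (nat_lit 152) (nat_lit 29306236521) (nat_lit 76) (nat_lit 25930176975) (nat_lit 148) (nat_lit 5) (nat_lit 150) (nat_lit 5) (nat_lit 149) (nat_lit 5) (nat_lit 478) (nat_lit 382) (nat_lit 160)))) (XT.nd (nat_lit 156) (nat_lit 304) (nat_lit 0) (XT.nd (nat_lit 78) (nat_lit 0) (nat_lit 0) (XT.lf (nat_lit 0) (nat_lit 19965272733) (nat_lit 152) (nat_lit 23347449152) (nat_lit 228) (nat_lit 33511713588) (nat_lit 146) (nat_lit 5) (nat_lit 148) (nat_lit 5) (nat_lit 149) (nat_lit 5) (nat_lit 479) (nat_lit 382) (nat_lit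 159)) (XT.lf (nat_lit 0) (nat_lit 67520985968) (nat_lit 228) (nat_lit 7042129602) (nat_lit 76) (nat_lit 3752697436) (nat_lit 146) (nat_lit 5) (nat_lit 149) (nat_lit 5) (nat_lit 147) (nat_lit 4) (nat_lit 480) (nat_lit 382) (nat_lit 158))) (XT.nd (nat_lit 78) (nat_lit 152) (nat_lit 0) (XT.lf (nat_lit 0) (nat_lit 13024887207) (nat_lit 152) (nat_lit 35049211086) (nat_lit 76) (nat_lit 31754181114) (nat_lit 144) (nat_lit 5) (nat_lit 146) (nat_lit 5) (nat_lit 145) (nat_lit 5) (nat_lit 481) (nat_lit 382) (nat_lit 157)) (XT.lf (nat_lit 0) (nat_lit 17138086478) (nat_lit 152) (nat_lit 20438551213) (nat_lit 228) (nat_lit 43799243421) (nat_lit 142) (nat_lit 5) (nat_lit 144) (nat_lit 5) (nat_lit 145) (nat_lit 5) (nat_lit 482) (nat_lit 382) (nat_lit 156))))) (XT.nd (nat_lit 312) (nat_lit 76) (nat_lit 0) (XT.nd (nat_lit 156) (nat_lit 152) (nat_lit 0) (XT.nd (nat_lit 78) (nat_lit 152) (nat_lit 0) (XT.lf (nat_lit 0)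 (nat_lit 63297383525) (nat_lit 228) (nat_lit 11434505768) (nat_lit 76) (nat_lit 8225048289) (nat_lit 142) (nat_lit 5) (nat_lit 145) (nat_lit 5) (nat_lit 143) (nat_lit 4) (nat_lit 483) (nat_lit 382) (nat_lit 155)) (XT.lf (nat_lit 0) (nat_lit 5728270656) (nat_lit 152) (nat_lit 41025660170) (nat_lit 76) (nat_lit 37811229113) (nat_lit 140) (nat_lit 5) (nat_lit 142) (nat_lit 5) (nat_lit 141) (nat_lit 5) (nat_lit 484) (nat_lit 382) (nat_lit 154))) (XT.nd (nat_lit 78) (nat_lit 0) (nat_lit 0) (XT.lf (nat_lit 0) (nat_lit 14257458820) (nat_lit 152) (nat_lit 17476718594) (nat_lit 228) (nat_lit 54474064533) (nat_lit 138) (nat_lit 5) (nat_lit 140) (nat_lit 5) (nat_lit 141) (nat_lit 5) (nat_lit 485) (nat_lit 382) (nat_lit 153)) (XT.lf (nat_lit 0) (nat_lit 59058448061) (nat_lit 228) (nat_lit 15978034604) (nat_lit 76) (nat_lit 12847988150) (nat_lit 138) (nat_lit 5) (nat_lit 141) (nat_lit 5) (nat_lit 139) (nat_lit 4)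 (nat_lit 486) (nat_lit 382) (nat_lit 152)))) (XT.nd (nat_lit 45084) (nat_lit 0) (nat_lit 18012) (XT.nd (nat_lit 45006) (nat_lit 0) (nat_lit 18012) (XT.lf (nat_lit 0) (nat_lit 42322921026) (nat_lit 76) (nat_lit 45457386439) (nat_lit 152) (nat_lit 1813343265) (nat_lit 137) (nat_lit 5) (nat_lit 138) (nat_lit 5) (nat_lit 139) (nat_lit 4) (nat_lit 487) (nat_lit 382) (nat_lit 151)) (XT.lf (nat_lit 0) (nat_lit 1040774075) (nat_lit 1292) (nat_lit 3148966804) (nat_lit 1292) (nat_lit 3148966804) (nat_lit 374) (nat_lit 3) (nat_lit 391) (nat_lit 3) (nat_lit 391) (nat_lit 5) (nat_lit 383) (nat_lit 383) (nat_lit 254))) (XT.nd (nat_lit 78) (nat_lit 0) (nat_lit 76) (XT.lf (nat_lit 76) (nat_lit 1061487520) (nat_lit 0) (nat_lit 1373290580) (nat_lit 1292) (nat_lit 12453138297) (nat_lit 375) (nat_lit 5) (nat_lit 374) (nat_lit 3) (nat_lit 391) (nat_lit 5) (nat_lit 384) (nat_lit 383) (nat_lit 253)) (XT.lf (nat_lit 0) (nat_lit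 2906824602) (nat_lit 1216) (nat_lit 6395643485) (nat_lit 1292) (nat_lit 5799017779) (nat_lit 375) (nat_lit 5) (nat_lit 391) (nat_lit 5) (nat_lit 392) (nat_lit 5) (nat_lit 385) (nat_lit 383) (nat_lit 252))))))) (XT.nd (nat_lit 1170) (nat_lit 5320) (nat_lit 0) (XT.nd (nat_lit 546) (nat_lit 836) (nat_lit 0) (XT.nd (nat_lit 234) (nat_lit 0) (nat_lit 152) (XT.nd (nat_lit 78) (nat_lit 0) (nat_lit 76) (XT.lf (nat_lit 76) (nat_lit 1262488017) (nat_lit 0) (nat_lit 2144457693) (nat_lit 1292) (nat_lit 11914099314) (nat_lit 376) (nat_lit 5) (nat_lit 375) (nat_lit 5) (nat_lit 392) (nat_lit 5) (nat_lit 386) (nat_lit 383) (nat_lit 251)) (XT.nd (nat_lit 78) (nat_lit 0) (nat_lit 0) (XT.lf (nat_lit 0) (nat_lit 4026060591) (nat_lit 1216) (nat_lit 6321627980) (nat_lit 1292) (nat_lit 5196382682) (nat_lit 376) (nat_lit 5) (nat_lit 392) (nat_lit 5) (nat_lit 393) (nat_lit 5) (nat_lit 387) (nat_lit 383) (nat_lit 250)) (XT.lf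 (nat_lit 76) (nat_lit 1651663438) (nat_lit 0) (nat_lit 3038038889) (nat_lit 1292) (nat_lit 11083307338) (nat_lit 377) (nat_lit 5) (nat_lit 376) (nat_lit 5) (nat_lit 393) (nat_lit 5) (nat_lit 388) (nat_lit 383) (nat_lit 249)))) (XT.nd (nat_lit 156) (nat_lit 0) (nat_lit 76) (XT.nd (nat_lit 78) (nat_lit 0) (nat_lit 0) (XT.lf (nat_lit 0) (nat_lit 5470036326) (nat_lit 1216) (nat_lit 6064006107) (nat_lit 1292) (nat_lit 4471870308) (nat_lit 377) (nat_lit 5) (nat_lit 393) (nat_lit 5) (nat_lit 394) (nat_lit 5) (nat_lit 389) (nat_lit 383) (nat_lit 248)) (XT.lf (nat_lit 76) (nat_lit 2241882594) (nat_lit 0) (nat_lit 4072989475) (nat_lit 1292) (nat_lit 9929698087) (nat_lit 378) (nat_lit 5) (nat_lit 377) (nat_lit 5) (nat_lit 394) (nat_lit 5) (nat_lit 390) (nat_lit 383) (nat_lit 247))) (XT.nd (nat_lit 78) (nat_lit 0) (nat_lit 0) (XT.lf (nat_lit 0) (nat_lit 7271350988) (nat_lit 1216) (nat_lit 5609737099) (nat_lit 1292)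 (nat_lit 3606710264) (nat_lit 378) (nat_lit 5) (nat_lit 394) (nat_lit 5) (nat_lit 395) (nat_lit 5) (nat_lit 391) (nat_lit 383) (nat_lit 246)) (XT.lf (nat_lit 76) (nat_lit 3047229962) (nat_lit 0) (nat_lit 5268949190) (nat_lit 1292) (nat_lit 8420354593) (nat_lit 379) (nat_lit 5) (nat_lit 378) (nat_lit 5) (nat_lit 395) (nat_lit 5) (nat_lit 392) (nat_lit 383) (nat_lit 245))))) (XT.nd (nat_lit 312) (nat_lit 1140) (nat_lit 0) (XT.nd (nat_lit 156) (nat_lit 0) (nat_lit 76) (XT.nd (nat_lit 78) (nat_lit 0) (nat_lit 0) (XT.lf (nat_lit 0) (nat_lit 9464568451) (nat_lit 1216) (nat_lit 4944571888) (nat_lit 1292) (nat_lit 2581424374) (nat_lit 379) (nat_lit 5) (nat_lit 395) (nat_lit 5) (nat_lit 396) (nat_lit 5) (nat_lit 393) (nat_lit 383) (nat_lit 244)) (XT.lf (nat_lit 76) (nat_lit 4083057821) (nat_lit 0) (nat_lit 6646339854) (nat_lit 1292) (nat_lit 6520359287) (nat_lit 380) (nat_lit 5) (nat_lit 379) (nat_lit 5) (nat_lit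 396) (nat_lit 5) (nat_lit 394) (nat_lit 383) (nat_lit 243))) (XT.nd (nat_lit 78) (nat_lit 0) (nat_lit 0) (XT.lf (nat_lit 0) (nat_lit 12086369835) (nat_lit 1216) (nat_lit 4052999257) (nat_lit 1292) (nat_lit 1375729944) (nat_lit 380) (nat_lit 5) (nat_lit 396) (nat_lit 5) (nat_lit 397) (nat_lit 5) (nat_lit 395) (nat_lit 383) (nat_lit 242)) (XT.lf (nat_lit 76) (nat_lit 5366043916) (nat_lit 0) (nat_lit 8226464665) (nat_lit 1292) (nat_lit 4192639070) (nat_lit 381) (nat_lit 5) (nat_lit 380) (nat_lit 5) (nat_lit 397) (nat_lit 5) (nat_lit 396) (nat_lit 383) (nat_lit 241)))) (XT.nd (nat_lit 156) (nat_lit 1216) (nat_lit 0) (XT.nd (nat_lit 78) (nat_lit 0) (nat_lit 76) (XT.lf (nat_lit 76) (nat_lit 15143836056) (nat_lit 0) (nat_lit 32186873) (nat_lit 1292) (nat_lit 2886309052) (nat_lit 381) (nat_lit 5) (nat_lit 380) (nat_lit 5) (nat_lit 397) (nat_lit 5) (nat_lit 397) (nat_lit 383) (nat_lit 240)) (XT.lf (nat_lit 76)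 (nat_lit 6914254807) (nat_lit 0) (nat_lit 10031609634) (nat_lit 1292) (nat_lit 1397802747) (nat_lit 382) (nat_lit 5) (nat_lit 381) (nat_lit 5) (nat_lit 398) (nat_lit 5) (nat_lit 398) (nat_lit 383) (nat_lit 239))) (XT.nd (nat_lit 78) (nat_lit 0) (nat_lit 76) (XT.lf (nat_lit 0) (nat_lit 154432716) (nat_lit 1292) (nat_lit 1539728959) (nat_lit 1368) (nat_lit 16938590283) (nat_lit 364) (nat_lit 5) (nat_lit 381) (nat_lit 5) (nat_lit 382) (nat_lit 5) (nat_lit 399) (nat_lit 383) (nat_lit 238)) (XT.lf (nat_lit 0) (nat_lit 1868836304) (nat_lit 1292) (nat_lit 10197439739) (nat_lit 76) (nat_lit 6859507173) (nat_lit 365) (nat_lit 5) (nat_lit 382) (nat_lit 5) (nat_lit 366) (nat_lit 5) (nat_lit 400) (nat_lit 383) (nat_lit 237)))))) (XT.nd (nat_lit 624) (nat_lit 2812) (nat_lit 0) (XT.nd (nat_lit 312) (nat_lit 1140) (nat_lit 0) (XT.nd (nat_lit 156) (nat_lit 608) (nat_lit 0) (XT.nd (nat_lit 78) (nat_lit 0) (nat_lit 0)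 (XT.lf (nat_lit 0) (nat_lit 86594361) (nat_lit 836) (nat_lit 3573445805) (nat_lit 912) (nat_lit 15566804203) (nat_lit 354) (nat_lit 5) (nat_lit 365) (nat_lit 5) (nat_lit 366) (nat_lit 5) (nat_lit 401) (nat_lit 383) (nat_lit 236)) (XT.lf (nat_lit 0) (nat_lit 5650942638) (nat_lit 912) (nat_lit 8703639415) (nat_lit 76) (nat_lit 5177976426) (nat_lit 354) (nat_lit 5) (nat_lit 366) (nat_lit 5) (nat_lit 355) (nat_lit 5) (nat_lit 402) (nat_lit 383) (nat_lit 235))) (XT.nd (nat_lit 78) (nat_lit 0) (nat_lit 0) (XT.lf (nat_lit 0) (nat_lit 2043554832) (nat_lit 608) (nat_lit 5705499690) (nat_lit 684) (nat_lit 12096965023) (nat_lit 346) (nat_lit 5) (nat_lit 354) (nat_lit 5) (nat_lit 355) (nat_lit 5) (nat_lit 403) (nat_lit 383) (nat_lit 234)) (XT.lf (nat_lit 0) (nat_lit 10022274400) (nat_lit 684) (nat_lit 6913495052) (nat_lit 76) (nat_lit 3229750050) (nat_lit 346) (nat_lit 5) (nat_lit 355) (nat_lit 5) (nat_lit 347)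 (nat_lit 5) (nat_lit 404) (nat_lit 383) (nat_lit 233)))) (XT.nd (nat_lit 156) (nat_lit 532) (nat_lit 0) (XT.nd (nat_lit 78) (nat_lit 0) (nat_lit 0) (XT.lf (nat_lit 0) (nat_lit 4323052348) (nat_lit 608) (nat_lit 8131514566) (nat_lit 684) (nat_lit 8037311263) (nat_lit 338) (nat_lit 5) (nat_lit 346) (nat_lit 5) (nat_lit 347) (nat_lit 5) (nat_lit 405) (nat_lit 383) (nat_lit 232)) (XT.lf (nat_lit 0) (nat_lit 15032311927) (nat_lit 684) (nat_lit 4804317622) (nat_lit 76) (nat_lit 989223551) (nat_lit 338) (nat_lit 5) (nat_lit 347) (nat_lit 5) (nat_lit 339) (nat_lit 5) (nat_lit 406) (nat_lit 383) (nat_lit 231))) (XT.nd (nat_lit 78) (nat_lit 0) (nat_lit 0) (XT.lf (nat_lit 0) (nat_lit 6949325584) (nat_lit 532) (nat_lit 10878553575) (nat_lit 608) (nat_lit 3337753416) (nat_lit 331) (nat_lit 5) (nat_lit 338) (nat_lit 5) (nat_lit 339) (nat_lit 5) (nat_lit 407) (nat_lit 383) (nat_lit 230)) (XT.lf (nat_lit 0) (nat_lit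 19147232929) (nat_lit 532) (nat_lit 1601906359) (nat_lit 608) (nat_lit 765211370) (nat_lit 331) (nat_lit 5) (nat_lit 338) (nat_lit 5) (nat_lit 339) (nat_lit 5) (nat_lit 408) (nat_lit 383) (nat_lit 229))))) (XT.nd (nat_lit 312) (nat_lit 1064) (nat_lit 0) (XT.nd (nat_lit 156) (nat_lit 532) (nat_lit 0) (XT.nd (nat_lit 78) (nat_lit 532) (nat_lit 0) (XT.lf (nat_lit 0) (nat_lit 2014957683) (nat_lit 684) (nat_lit 11939913875) (nat_lit 76) (nat_lit 7913098547) (nat_lit 322) (nat_lit 5) (nat_lit 331) (nat_lit 5) (nat_lit 323) (nat_lit 5) (nat_lit 409) (nat_lit 383) (nat_lit 228)) (XT.lf (nat_lit 0) (nat_lit 386104075) (nat_lit 532) (nat_lit 4514325913) (nat_lit 608) (nat_lit 17330422511) (nat_lit 315) (nat_lit 5) (nat_lit 322) (nat_lit 5) (nat_lit 323) (nat_lit 5) (nat_lit 410) (nat_lit 383) (nat_lit 227))) (XT.nd (nat_lit 78) (nat_lit 532) (nat_lit 0) (XT.lf (nat_lit 0) (nat_lit 8037989555) (nat_lit 608) (nat_lit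 9332616922) (nat_lit 76) (nat_lit 5229049195) (nat_lit 315) (nat_lit 5) (nat_lit 323) (nat_lit 5) (nat_lit 316) (nat_lit 5) (nat_lit 411) (nat_lit 383) (nat_lit 226)) (XT.lf (nat_lit 0) (nat_lit 3573108686) (nat_lit 532) (nat_lit 7769477735) (nat_lit 608) (nat_lit 11634749205) (nat_lit 308) (nat_lit 5) (nat_lit 315) (nat_lit 5) (nat_lit 316) (nat_lit 5) (nat_lit 412) (nat_lit 383) (nat_lit 225)))) (XT.nd (nat_lit 156) (nat_lit 608) (nat_lit 0) (XT.nd (nat_lit 78) (nat_lit 456) (nat_lit 0) (XT.lf (nat_lit 0) (nat_lit 14855845493) (nat_lit 608) (nat_lit 6334416804) (nat_lit 76) (nat_lit 2172797951) (nat_lit 308) (nat_lit 5) (nat_lit 316) (nat_lit 5) (nat_lit 309) (nat_lit 5) (nat_lit 413) (nat_lit 383) (nat_lit 224)) (XT.lf (nat_lit 0) (nat_lit 7184044984) (nat_lit 456) (nat_lit 11430590193) (nat_lit 532) (nat_lit 5141517447) (nat_lit 302) (nat_lit 5) (nat_lit 308) (nat_lit 5) (nat_lit 309) (nat_lit 5)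 (nat_lit 414) (nat_lit 383) (nat_lit 223))) (XT.nd (nat_lit 78) (nat_lit 608) (nat_lit 0) (XT.lf (nat_lit 0) (nat_lit 21231271963) (nat_lit 456) (nat_lit 1313138245) (nat_lit 532) (nat_lit 1614880914) (nat_lit 302) (nat_lit 5) (nat_lit 308) (nat_lit 5) (nat_lit 309) (nat_lit 5) (nat_lit 415) (nat_lit 383) (nat_lit 222)) (XT.lf (nat_lit 0) (nat_lit 2170182186) (nat_lit 608) (nat_lit 13339315080) (nat_lit 76) (nat_lit 9058684773) (nat_lit 294) (nat_lit 5) (nat_lit 302) (nat_lit 5) (nat_lit 295) (nat_lit 5) (nat_lit 416) (nat_lit 383) (nat_lit 221))))))))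
noncomputable def xc191 : XT := (XT.nd (nat_lit 2418) (nat_lit 4028) (nat_lit 0) (XT.nd (nat_lit 1170) (nat_lit 3192) (nat_lit 0) (XT.nd (nat_lit 546) (nat_lit 1900) (nat_lit 0) (XT.nd (nat_lit 234) (nat_lit 912) (nat_lit 0) (XT.nd (nat_lit 78) (nat_lit 456) (nat_lit 0) (XT.lf (nat_lit 0) (nat_lit 862935365) (nat_lit 456) (nat_lit 5219021639) (nat_lit 532) (nat_lit 18905534491) (nat_lit 288) (nat_lit 5) (nat_lit 294) (nat_lit 5) (nat_lit 295) (nat_lit 5) (nat_lit 417) (nat_lit 383) (nat_lit 220)) (XT.nd (nat_lit 78) (nat_lit 456) (nat_lit 0) (XT.lf (nat_lit 0) (nat_lit 10293385099) (nat_lit 532) (nat_lit 9710430298) (nat_lit 76) (nat_lit 5410095838) (nat_lit 288) (nat_lit 5) (nat_lit 295) (nat_lit 5) (nat_lit 289) (nat_lit 5) (nat_lit 418) (nat_lit 383) (nat_lit 219)) (XT.lf (nat_lit 0) (nat_lit 5178966155) (nat_lit 456) (nat_lit 9548353513) (nat_lit 532) (nat_lit 11122918990) (nat_lit 282) (nat_lit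 5) (nat_lit 288) (nat_lit 5) (nat_lit 289) (nat_lit 5) (nat_lit 419) (nat_lit 383) (nat_lit 218)))) (XT.nd (nat_lit 156) (nat_lit 532) (nat_lit 0) (XT.nd (nat_lit 78) (nat_lit 380) (nat_lit 0) (XT.lf (nat_lit 0) (nat_lit 19399820674) (nat_lit 532) (nat_lit 5601940702) (nat_lit 76) (nat_lit 1294728074) (nat_lit 282) (nat_lit 5) (nat_lit 289) (nat_lit 5) (nat_lit 283) (nat_lit 5) (nat_lit 420) (nat_lit 383) (nat_lit 217)) (XT.lf (nat_lit 0) (nat_lit 10013913599) (nat_lit 380) (nat_lit 14384319411) (nat_lit 456) (nat_lit 2352322669) (nat_lit 277) (nat_lit 5) (nat_lit 282) (nat_lit 5) (nat_lit 283) (nat_lit 5) (nat_lit 421) (nat_lit 383) (nat_lit 216))) (XT.nd (nat_lit 78) (nat_lit 456) (nat_lit 0) (XT.lf (nat_lit 0) (nat_lit 2335023230) (nat_lit 456) (nat_lit 1032874476) (nat_lit 76) (nat_lit 23848111621) (nat_lit 276) (nat_lit 5) (nat_lit 282) (nat_lit 5) (nat_lit 277) (nat_lit 5) (nat_lit 422) (nat_lit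 383) (nat_lit 215)) (XT.lf (nat_lit 0) (nat_lit 7337376256) (nat_lit 532) (nat_lit 12355605214) (nat_lit 76) (nat_lit 7995096423) (nat_lit 270) (nat_lit 5) (nat_lit 277) (nat_lit 5) (nat_lit 271) (nat_lit 5) (nat_lit 423) (nat_lit 383) (nat_lit 214))))) (XT.nd (nat_lit 312) (nat_lit 1064) (nat_lit 0) (XT.nd (nat_lit 156) (nat_lit 456) (nat_lit 0) (XT.nd (nat_lit 78) (nat_lit 0) (nat_lit 0) (XT.lf (nat_lit 0) (nat_lit 4075695992) (nat_lit 380) (nat_lit 8492351110) (nat_lit 456) (nat_lit 15603913996) (nat_lit 265) (nat_lit 5) (nat_lit 270) (nat_lit 5) (nat_lit 271) (nat_lit 5) (nat_lit 424) (nat_lit 383) (nat_lit 213)) (XT.lf (nat_lit 0) (nat_lit 18106159570) (nat_lit 456) (nat_lit 7450311779) (nat_lit 76) (nat_lit 3109373806) (nat_lit 265) (nat_lit 5) (nat_lit 271) (nat_lit 5) (nat_lit 266) (nat_lit 5) (nat_lit 425) (nat_lit 383) (nat_lit 212))) (XT.nd (nat_lit 78) (nat_lit 76) (nat_lit 0) (XT.lf (nat_lit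 0) (nat_lit 9795867742) (nat_lit 380) (nat_lit 14188187557) (nat_lit 456) (nat_lit 5185281237) (nat_lit 260) (nat_lit 5) (nat_lit 265) (nat_lit 5) (nat_lit 266) (nat_lit 5) (nat_lit 426) (nat_lit 383) (nat_lit 211)) (XT.lf (nat_lit 0) (nat_lit 414920386) (nat_lit 456) (nat_lit 1983884094) (nat_lit 76) (nat_lit 27286885090) (nat_lit 259) (nat_lit 5) (nat_lit 265) (nat_lit 5) (nat_lit 260) (nat_lit 5) (nat_lit 427) (nat_lit 383) (nat_lit 210)))) (XT.nd (nat_lit 156) (nat_lit 304) (nat_lit 0) (XT.nd (nat_lit 78) (nat_lit 380) (nat_lit 0) (XT.lf (nat_lit 0) (nat_lit 6325754709) (nat_lit 456) (nat_lit 14121337540) (nat_lit 76) (nat_lit 9761495392) (nat_lit 254) (nat_lit 5) (nat_lit 260) (nat_lit 5) (nat_lit 255) (nat_lit 5) (nat_lit 428) (nat_lit 383) (nat_lit 209)) (XT.lf (nat_lit 0) (nat_lit 4043441331) (nat_lit 380) (nat_lit 8448935579) (nat_lit 456) (nat_lit 18252441860) (nat_lit 249) (nat_lit 5) (nat_lit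 254) (nat_lit 5) (nat_lit 255) (nat_lit 5) (nat_lit 429) (nat_lit 383) (nat_lit 208))) (XT.nd (nat_lit 78) (nat_lit 304) (nat_lit 0) (XT.lf (nat_lit 0) (nat_lit 19021250012) (nat_lit 456) (nat_lit 8295389809) (nat_lit 76) (nat_lit 3975179444) (nat_lit 249) (nat_lit 5) (nat_lit 255) (nat_lit 5) (nat_lit 250) (nat_lit 5) (nat_lit 430) (nat_lit 383) (nat_lit 207)) (XT.lf (nat_lit 0) (nat_lit 10783551620) (nat_lit 304) (nat_lit 15145540125) (nat_lit 380) (nat_lit 5920644957) (nat_lit 245) (nat_lit 5) (nat_lit 249) (nat_lit 5) (nat_lit 250) (nat_lit 5) (nat_lit 431) (nat_lit 383) (nat_lit 206)))))) (XT.nd (nat_lit 624) (nat_lit 1444) (nat_lit 0) (XT.nd (nat_lit 312) (nat_lit 988) (nat_lit 0) (XT.nd (nat_lit 156) (nat_lit 304) (nat_lit 0) (XT.nd (nat_lit 78) (nat_lit 380) (nat_lit 0) (XT.lf (nat_lit 0) (nat_lit 688095506) (nat_lit 380) (nat_lit 1829780442) (nat_lit 76) (nat_lit 29903924607) (nat_lit 244)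 (nat_lit 5) (nat_lit 249) (nat_lit 5) (nat_lit 245) (nat_lit 5) (nat_lit 432) (nat_lit 383) (nat_lit 205)) (XT.lf (nat_lit 0) (nat_lit 7650841466) (nat_lit 456) (nat_lit 14831368548) (nat_lit 76) (nat_lit 10518815433) (nat_lit 239) (nat_lit 5) (nat_lit 245) (nat_lit 5) (nat_lit 240) (nat_lit 5) (nat_lit 433) (nat_lit 383) (nat_lit 204))) (XT.nd (nat_lit 78) (nat_lit 0) (nat_lit 0) (XT.lf (nat_lit 0) (nat_lit 5281569955) (nat_lit 304) (nat_lit 9631242405) (nat_lit 380) (nat_lit 18682104447) (nat_lit 235) (nat_lit 5) (nat_lit 239) (nat_lit 5) (nat_lit 240) (nat_lit 5) (nat_lit 434) (nat_lit 383) (nat_lit 203)) (XT.lf (nat_lit 0) (nat_lit 22574574980) (nat_lit 380) (nat_lit 7942281723) (nat_lit 76) (nat_lit 3684310227) (nat_lit 235) (nat_lit 5) (nat_lit 240) (nat_lit 5) (nat_lit 236) (nat_lit 5) (nat_lit 435) (nat_lit 383) (nat_lit 202)))) (XT.nd (nat_lit 156) (nat_lit 608) (nat_lit 0) (XT.nd (nat_lit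 78) (nat_lit 76) (nat_lit 0) (XT.lf (nat_lit 0) (nat_lit 13196300564) (nat_lit 304) (nat_lit 17488241509) (nat_lit 380) (nat_lit 4134511937) (nat_lit 231) (nat_lit 5) (nat_lit 235) (nat_lit 5) (nat_lit 236) (nat_lit 5) (nat_lit 436) (nat_lit 383) (nat_lit 201)) (XT.lf (nat_lit 0) (nat_lit 3589583582) (nat_lit 380) (nat_lit 362235178) (nat_lit 76) (nat_lit 31500311157) (nat_lit 230) (nat_lit 5) (nat_lit 235) (nat_lit 5) (nat_lit 231) (nat_lit 5) (nat_lit 437) (nat_lit 383) (nat_lit 200))) (XT.nd (nat_lit 78) (nat_lit 304) (nat_lit 0) (XT.lf (nat_lit 0) (nat_lit 11767767541) (nat_lit 380) (nat_lit 14278038907) (nat_lit 76) (nat_lit 10047999626) (nat_lit 226) (nat_lit 5) (nat_lit 231) (nat_lit 5) (nat_lit 227) (nat_lit 5) (nat_lit 438) (nat_lit 383) (nat_lit 199)) (XT.lf (nat_lit 0) (nat_lit 8023668097) (nat_lit 304) (nat_lit 12283888795) (nat_lit 380) (nat_lit 16443687826) (nat_lit 222) (nat_lit 5) (nat_lit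 226) (nat_lit 5) (nat_lit 227) (nat_lit 5) (nat_lit 439) (nat_lit 383) (nat_lit 198))))) (XT.nd (nat_lit 312) (nat_lit 836) (nat_lit 0) (XT.nd (nat_lit 156) (nat_lit 304) (nat_lit 0) (XT.nd (nat_lit 78) (nat_lit 304) (nat_lit 0) (XT.lf (nat_lit 0) (nat_lit 29263669294) (nat_lit 380) (nat_lit 6162259413) (nat_lit 76) (nat_lit 1997673933) (nat_lit 222) (nat_lit 5) (nat_lit 227) (nat_lit 5) (nat_lit 223) (nat_lit 5) (nat_lit 440) (nat_lit 383) (nat_lit 197)) (XT.lf (nat_lit 0) (nat_lit 652161881) (nat_lit 304) (nat_lit 20823727494) (nat_lit 76) (nat_lit 16631521743) (nat_lit 218) (nat_lit 5) (nat_lit 222) (nat_lit 5) (nat_lit 219) (nat_lit 5) (nat_lit 441) (nat_lit 383) (nat_lit 196))) (XT.nd (nat_lit 78) (nat_lit 0) (nat_lit 0) (XT.lf (nat_lit 0) (nat_lit 2715502830) (nat_lit 304) (nat_lit 6934524379) (nat_lit 380) (nat_lit 29156720482) (nat_lit 214) (nat_lit 5) (nat_lit 218) (nat_lit 5) (nat_lit 219)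 (nat_lit 5) (nat_lit 442) (nat_lit 383) (nat_lit 195)) (XT.lf (nat_lit 0) (nat_lit 19204003151) (nat_lit 380) (nat_lit 12217944930) (nat_lit 76) (nat_lit 8096531042) (nat_lit 214) (nat_lit 5) (nat_lit 219) (nat_lit 5) (nat_lit 215) (nat_lit 5) (nat_lit 443) (nat_lit 383) (nat_lit 194)))) (XT.nd (nat_lit 156) (nat_lit 608) (nat_lit 0) (XT.nd (nat_lit 78) (nat_lit 0) (nat_lit 0) (XT.lf (nat_lit 0) (nat_lit 12542233665) (nat_lit 228) (nat_lit 16688187806) (nat_lit 304) (nat_lit 11015566333) (nat_lit 211) (nat_lit 5) (nat_lit 214) (nat_lit 5) (nat_lit 215) (nat_lit 5) (nat_lit 444) (nat_lit 383) (nat_lit 193)) (XT.lf (nat_lit 0) (nat_lit 38290320679) (nat_lit 228) (nat_lit 1387337322) (nat_lit 304) (nat_lit 1314062976) (nat_lit 211) (nat_lit 5) (nat_lit 214) (nat_lit 5) (nat_lit 215) (nat_lit 5) (nat_lit 445) (nat_lit 383) (nat_lit 192))) (XT.nd (nat_lit 78) (nat_lit 228) (nat_lit 0) (XT.lf (nat_lit 0)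 (nat_lit 8872165243) (nat_lit 380) (nat_lit 18472527456) (nat_lit 76) (nat_lit 14401739909) (nat_lit 206) (nat_lit 5) (nat_lit 211) (nat_lit 5) (nat_lit 207) (nat_lit 5) (nat_lit 446) (nat_lit 383) (nat_lit 191)) (XT.lf (nat_lit 0) (nat_lit 7678406324) (nat_lit 228) (nat_lit 11770997569) (nat_lit 304) (nat_lit 23070636332) (nat_lit 203) (nat_lit 5) (nat_lit 206) (nat_lit 5) (nat_lit 207) (nat_lit 5) (nat_lit 447) (nat_lit 383) (nat_lit 190))))))) (XT.nd (nat_lit 1170) (nat_lit 1824) (nat_lit 0) (XT.nd (nat_lit 546) (nat_lit 1140) (nat_lit 0) (XT.nd (nat_lit 234) (nat_lit 532) (nat_lit 0) (XT.nd (nat_lit 78) (nat_lit 532) (nat_lit 0) (XT.lf (nat_lit 0) (nat_lit 30570153495) (nat_lit 304) (nat_lit 8366929198) (nat_lit 76) (nat_lit 4372987564) (nat_lit 203) (nat_lit 5) (nat_lit 207) (nat_lit 5) (nat_lit 204) (nat_lit 5) (nat_lit 448) (nat_lit 383) (nat_lit 189)) (XT.nd (nat_lit 78) (nat_lit 304) (nat_lit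 0) (XT.lf (nat_lit 0) (nat_lit 19154077773) (nat_lit 228) (nat_lit 23167972879) (nat_lit 304) (nat_lit 1792824785) (nat_lit 200) (nat_lit 5) (nat_lit 203) (nat_lit 5) (nat_lit 204) (nat_lit 5) (nat_lit 449) (nat_lit 383) (nat_lit 188)) (XT.lf (nat_lit 0) (nat_lit 2686195133) (nat_lit 228) (nat_lit 6719462542) (nat_lit 304) (nat_lit 35532191929) (nat_lit 196) (nat_lit 5) (nat_lit 199) (nat_lit 5) (nat_lit 200) (nat_lit 5) (nat_lit 450) (nat_lit 383) (nat_lit 187)))) (XT.nd (nat_lit 156) (nat_lit 304) (nat_lit 0) (XT.nd (nat_lit 78) (nat_lit 228) (nat_lit 0) (XT.lf (nat_lit 0) (nat_lit 21253770125) (nat_lit 304) (nat_lit 14227386458) (nat_lit 76) (nat_lit 10293332604) (nat_lit 196) (nat_lit 5) (nat_lit 200) (nat_lit 5) (nat_lit 197) (nat_lit 5) (nat_lit 451) (nat_lit 383) (nat_lit 186)) (XT.lf (nat_lit 0) (nat_lit 14855930824) (nat_lit 228) (nat_lit 18807713079) (nat_lit 304) (nat_lit 12966394519) (nat_lit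 193) (nat_lit 5) (nat_lit 196) (nat_lit 5) (nat_lit 197) (nat_lit 5) (nat_lit 452) (nat_lit 383) (nat_lit 185))) (XT.nd (nat_lit 78) (nat_lit 304) (nat_lit 0) (XT.lf (nat_lit 0) (nat_lit 45098402375) (nat_lit 228) (nat_lit 1488104394) (nat_lit 304) (nat_lit 920526577) (nat_lit 193) (nat_lit 5) (nat_lit 196) (nat_lit 5) (nat_lit 197) (nat_lit 5) (nat_lit 453) (nat_lit 383) (nat_lit 184)) (XT.lf (nat_lit 0) (nat_lit 11692383322) (nat_lit 304) (nat_lit 20285682200) (nat_lit 76) (nat_lit 16416065681) (nat_lit 189) (nat_lit 5) (nat_lit 193) (nat_lit 5) (nat_lit 190) (nat_lit 5) (nat_lit 454) (nat_lit 383) (nat_lit 183))))) (XT.nd (nat_lit 312) (nat_lit 456) (nat_lit 0) (XT.nd (nat_lit 156) (nat_lit 456) (nat_lit 0) (XT.nd (nat_lit 78) (nat_lit 0) (nat_lit 0) (XT.lf (nat_lit 0) (nat_lit 10458370810) (nat_lit 228) (nat_lit 14343738784) (nat_lit 304) (nat_lit 24501351055) (nat_lit 186) (nat_lit 5) (nat_lit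 189) (nat_lit 5) (nat_lit 190) (nat_lit 5) (nat_lit 455) (nat_lit 383) (nat_lit 182)) (XT.lf (nat_lit 0) (nat_lit 38545837638) (nat_lit 304) (nat_lit 7737030107) (nat_lit 76) (nat_lit 3949980934) (nat_lit 186) (nat_lit 5) (nat_lit 190) (nat_lit 5) (nat_lit 187) (nat_lit 5) (nat_lit 456) (nat_lit 383) (nat_lit 181))) (XT.nd (nat_lit 78) (nat_lit 228) (nat_lit 0) (XT.lf (nat_lit 0) (nat_lit 1862041255) (nat_lit 228) (nat_lit 26558855831) (nat_lit 76) (nat_lit 22757391845) (nat_lit 183) (nat_lit 5) (nat_lit 186) (nat_lit 5) (nat_lit 184) (nat_lit 5) (nat_lit 457) (nat_lit 383) (nat_lit 180)) (XT.lf (nat_lit 0) (nat_lit 5950260386) (nat_lit 228) (nat_lit 9765719336) (nat_lit 304) (nat_lit 36428641924) (nat_lit 180) (nat_lit 5) (nat_lit 183) (nat_lit 5) (nat_lit 184) (nat_lit 5) (nat_lit 458) (nat_lit 383) (nat_lit 179)))) (XT.nd (nat_lit 156) (nat_lit 304) (nat_lit 0) (XT.nd (nat_lit 78) (nat_lit 152) (nat_lit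 0) (XT.lf (nat_lit 0) (nat_lit 30344442912) (nat_lit 304) (nat_lit 13251127452) (nat_lit 76) (nat_lit 9533606779) (nat_lit 180) (nat_lit 5) (nat_lit 184) (nat_lit 5) (nat_lit 181) (nat_lit 5) (nat_lit 459) (nat_lit 383) (nat_lit 178)) (XT.lf (nat_lit 0) (nat_lit 20988593170) (nat_lit 152) (nat_lit 24718921217) (nat_lit 228) (nat_lit 8426882287) (nat_lit 178) (nat_lit 5) (nat_lit 180) (nat_lit 5) (nat_lit 181) (nat_lit 5) (nat_lit 460) (nat_lit 383) (nat_lit 177))) (XT.nd (nat_lit 78) (nat_lit 0) (nat_lit 0) (XT.lf (nat_lit 0) (nat_lit 1319971537) (nat_lit 228) (nat_lit 5062733929) (nat_lit 304) (nat_lit 48780878546) (nat_lit 174) (nat_lit 5) (nat_lit 177) (nat_lit 5) (nat_lit 178) (nat_lit 5) (nat_lit 461) (nat_lit 383) (nat_lit 176)) (XT.lf (nat_lit 0) (nat_lit 21948510789) (nat_lit 304) (nat_lit 18951832272) (nat_lit 76) (nat_lit 15306361816) (nat_lit 174) (nat_lit 5) (nat_lit 178) (nat_lit 5) (nat_lit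 175) (nat_lit 5) (nat_lit 462) (nat_lit 383) (nat_lit 175)))))) (XT.nd (nat_lit 624) (nat_lit 912) (nat_lit 0) (XT.nd (nat_lit 312) (nat_lit 380) (nat_lit 0) (XT.nd (nat_lit 156) (nat_lit 380) (nat_lit 0) (XT.nd (nat_lit 78) (nat_lit 0) (nat_lit 0) (XT.lf (nat_lit 0) (nat_lit 17268987636) (nat_lit 152) (nat_lit 20925837279) (nat_lit 228) (nat_lit 19079888415) (nat_lit 172) (nat_lit 5) (nat_lit 174) (nat_lit 5) (nat_lit 175) (nat_lit 5) (nat_lit 463) (nat_lit 383) (nat_lit 174)) (XT.lf (nat_lit 0) (nat_lit 54960403137) (nat_lit 152) (nat_lit 156942169) (nat_lit 228) (nat_lit 3251752226) (nat_lit 172) (nat_lit 5) (nat_lit 174) (nat_lit 5) (nat_lit 175) (nat_lit 5) (nat_lit 464) (nat_lit 383) (nat_lit 173))) (XT.nd (nat_lit 78) (nat_lit 152) (nat_lit 0) (XT.lf (nat_lit 0) (nat_lit 13337571281) (nat_lit 228) (nat_lit 24855113348) (nat_lit 76) (nat_lit 21283634347) (nat_lit 169) (nat_lit 5) (nat_lit 172)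 (nat_lit 5) (nat_lit 170) (nat_lit 5) (nat_lit 465) (nat_lit 383) (nat_lit 172)) (XT.lf (nat_lit 0) (nat_lit 13470466615) (nat_lit 152) (nat_lit 17052055875) (nat_lit 228) (nat_lit 30088369556) (nat_lit 167) (nat_lit 5) (nat_lit 169) (nat_lit 5) (nat_lit 170) (nat_lit 5) (nat_lit 466) (nat_lit 383) (nat_lit 171)))) (XT.nd (nat_lit 156) (nat_lit 152) (nat_lit 0) (XT.nd (nat_lit 78) (nat_lit 228) (nat_lit 0) (XT.lf (nat_lit 0) (nat_lit 48519408017) (nat_lit 228) (nat_lit 8369001867) (nat_lit 76) (nat_lit 4882200851) (nat_lit 167) (nat_lit 5) (nat_lit 170) (nat_lit 5) (nat_lit 168) (nat_lit 5) (nat_lit 467) (nat_lit 383) (nat_lit 170)) (XT.lf (nat_lit 0) (nat_lit 4490130070) (nat_lit 228) (nat_lit 30977748997) (nat_lit 76) (nat_lit 27481695661) (nat_lit 164) (nat_lit 5) (nat_lit 167) (nat_lit 5) (nat_lit 165) (nat_lit 5) (nat_lit 468) (nat_lit 383) (nat_lit 169))) (XT.nd (nat_lit 78) (nat_lit 0) (nat_lit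 0) (XT.lf (nat_lit 0) (nat_lit 9583697257) (nat_lit 152) (nat_lit 13088733428) (nat_lit 228) (nat_lit 41482289037) (nat_lit 162) (nat_lit 5) (nat_lit 164) (nat_lit 5) (nat_lit 165) (nat_lit 5) (nat_lit 469) (nat_lit 383) (nat_lit 168)) (XT.lf (nat_lit 0) (nat_lit 41809473459) (nat_lit 228) (nat_lit 13492841167) (nat_lit 76) (nat_lit 10081426246) (nat_lit 162) (nat_lit 5) (nat_lit 165) (nat_lit 5) (nat_lit 163) (nat_lit 5) (nat_lit 470) (nat_lit 383) (nat_lit 167))))) (XT.nd (nat_lit 312) (nat_lit 380) (nat_lit 0) (XT.nd (nat_lit 156) (nat_lit 152) (nat_lit 0) (XT.nd (nat_lit 78) (nat_lit 228) (nat_lit 0) (XT.lf (nat_lit 0) (nat_lit 29254735169) (nat_lit 152) (nat_lit 32674370657) (nat_lit 228) (nat_lit 4708272482) (nat_lit 160) (nat_lit 5) (nat_lit 162) (nat_lit 5) (nat_lit 163) (nat_lit 5) (nat_lit 471) (nat_lit 383) (nat_lit 166)) (XT.lf (nat_lit 0) (nat_lit 5598935580) (nat_lit 152) (nat_lit 9026552200)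 (nat_lit 228) (nat_lit 53293218150) (nat_lit 157) (nat_lit 5) (nat_lit 159) (nat_lit 5) (nat_lit 160) (nat_lit 5) (nat_lit 472) (nat_lit 383) (nat_lit 165))) (XT.nd (nat_lit 78) (nat_lit 152) (nat_lit 0) (XT.lf (nat_lit 0) (nat_lit 34970912746) (nat_lit 228) (nat_lit 18792839871) (nat_lit 76) (nat_lit 15457533762) (nat_lit 157) (nat_lit 5) (nat_lit 160) (nat_lit 5) (nat_lit 158) (nat_lit 5) (nat_lit 473) (nat_lit 383) (nat_lit 164)) (XT.lf (nat_lit 0) (nat_lit 26462796380) (nat_lit 152) (nat_lit 29805406355) (nat_lit 228) (nat_lit 14284496439) (nat_lit 155) (nat_lit 5) (nat_lit 157) (nat_lit 5) (nat_lit 158) (nat_lit 5) (nat_lit 474) (nat_lit 383) (nat_lit 163)))) (XT.nd (nat_lit 156) (nat_lit 152) (nat_lit 0) (XT.nd (nat_lit 78) (nat_lit 0) (nat_lit 0) (XT.lf (nat_lit 0) (nat_lit 1505994012) (nat_lit 152) (nat_lit 4855695120) (nat_lit 228) (nat_lit 65554437568) (nat_lit 152) (nat_lit 5) (nat_lit 154)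 (nat_lit 5) (nat_lit 155) (nat_lit 5) (nat_lit 475) (nat_lit 383) (nat_lit 162)) (XT.lf (nat_lit 0) (nat_lit 27987903012) (nat_lit 228) (nat_lit 24283849891) (nat_lit 76) (nat_lit 21025028820) (nat_lit 152) (nat_lit 5) (nat_lit 155) (nat_lit 5) (nat_lit 153) (nat_lit 5) (nat_lit 476) (nat_lit 383) (nat_lit 161))) (XT.nd (nat_lit 78) (nat_lit 0) (nat_lit 0) (XT.lf (nat_lit 0) (nat_lit 23635348933) (nat_lit 152) (nat_lit 26900659395) (nat_lit 228) (nat_lit 24174654917) (nat_lit 150) (nat_lit 5) (nat_lit 152) (nat_lit 5) (nat_lit 153) (nat_lit 5) (nat_lit 477) (nat_lit 383) (nat_lit 160)) (XT.lf (nat_lit 0) (nat_lit 73485951067) (nat_lit 152) (nat_lit 517681427) (nat_lit 228) (nat_lit 2156036449) (nat_lit 150) (nat_lit 5) (nat_lit 152) (nat_lit 5) (nat_lit 153) (nat_lit 5) (nat_lit 478) (nat_lit 383) (nat_lit 159))))))))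
noncomputable def xc192 : XT := (XT.nd (nat_lit 47424) (nat_lit 0) (nat_lit 7372) (XT.nd (nat_lit 46254) (nat_lit 0) (nat_lit 15808) (XT.nd (nat_lit 546) (nat_lit 152) (nat_lit 0) (XT.nd (nat_lit 234) (nat_lit 456) (nat_lit 0) (XT.nd (nat_lit 78) (nat_lit 152) (nat_lit 0) (XT.lf (nat_lit 0) (nat_lit 20843871965) (nat_lit 152) (nat_lit 29981488991) (nat_lit 76) (nat_lit 26799229074) (nat_lit 148) (nat_lit 5) (nat_lit 150) (nat_lit 5) (nat_lit 149) (nat_lit 5) (nat_lit 479) (nat_lit 383) (nat_lit 158)) (XT.nd (nat_lit 78) (nat_lit 0) (nat_lit 0) (XT.lf (nat_lit 0) (nat_lit 20766166182) (nat_lit 152) (nat_lit 23954191839) (nat_lit 228) (nat_lit 34405562883) (nat_lit 146) (nat_lit 5) (nat_lit 148) (nat_lit 5) (nat_lit 149) (nat_lit 5) (nat_lit 480) (nat_lit 383) (nat_lit 157)) (XT.lf (nat_lit 0) (nat_lit 69652591271) (nat_lit 228) (nat_lit 7055061079) (nat_lit 76) (nat_lit 3954455775) (nat_lit 146) (nat_lit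 5) (nat_lit 149) (nat_lit 5) (nat_lit 147) (nat_lit 4) (nat_lit 481) (nat_lit 383) (nat_lit 156)))) (XT.nd (nat_lit 156) (nat_lit 152) (nat_lit 0) (XT.nd (nat_lit 78) (nat_lit 152) (nat_lit 0) (XT.lf (nat_lit 0) (nat_lit 13521448072) (nat_lit 152) (nat_lit 35902193531) (nat_lit 76) (nat_lit 32796311759) (nat_lit 144) (nat_lit 5) (nat_lit 146) (nat_lit 5) (nat_lit 145) (nat_lit 5) (nat_lit 482) (nat_lit 383) (nat_lit 155)) (XT.lf (nat_lit 0) (nat_lit 17848776941) (nat_lit 152) (nat_lit 20959781499) (nat_lit 228) (nat_lit 45005460457) (nat_lit 142) (nat_lit 5) (nat_lit 144) (nat_lit 5) (nat_lit 145) (nat_lit 5) (nat_lit 483) (nat_lit 383) (nat_lit 154))) (XT.nd (nat_lit 78) (nat_lit 152) (nat_lit 0) (XT.lf (nat_lit 0) (nat_lit 65298737332) (nat_lit 228) (nat_lit 11584528450) (nat_lit 76) (nat_lit 8559306960) (nat_lit 142) (nat_lit 5) (nat_lit 145) (nat_lit 5) (nat_lit 143) (nat_lit 4) (nat_lit 484) (nat_lit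 383) (nat_lit 153)) (XT.lf (nat_lit 0) (nat_lit 6002407607) (nat_lit 152) (nat_lit 42063274014) (nat_lit 76) (nat_lit 39033364450) (nat_lit 140) (nat_lit 5) (nat_lit 142) (nat_lit 5) (nat_lit 141) (nat_lit 5) (nat_lit 485) (nat_lit 383) (nat_lit 152))))) (XT.nd (nat_lit 45396) (nat_lit 0) (nat_lit 18012) (XT.nd (nat_lit 45240) (nat_lit 0) (nat_lit 17936) (XT.nd (nat_lit 45162) (nat_lit 0) (nat_lit 17936) (XT.lf (nat_lit 0) (nat_lit 14876444860) (nat_lit 152) (nat_lit 17910905952) (nat_lit 228) (nat_lit 56004103951) (nat_lit 138) (nat_lit 5) (nat_lit 140) (nat_lit 5) (nat_lit 141) (nat_lit 5) (nat_lit 486) (nat_lit 383) (nat_lit 151)) (XT.lf (nat_lit 0) (nat_lit 1380803116) (nat_lit 1292) (nat_lit 3084400812) (nat_lit 1292) (nat_lit 3084400812) (nat_lit 374) (nat_lit 3) (nat_lit 391) (nat_lit 3) (nat_lit 391) (nat_lit 5) (nat_lit 384) (nat_lit 384) (nat_lit 252))) (XT.nd (nat_lit 78) (nat_lit 0) (nat_lit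 76) (XT.lf (nat_lit 76) (nat_lit 1408283805) (nat_lit 0) (nat_lit 1702188094) (nat_lit 1292) (nat_lit 12206002476) (nat_lit 375) (nat_lit 5) (nat_lit 374) (nat_lit 3) (nat_lit 391) (nat_lit 5) (nat_lit 385) (nat_lit 384) (nat_lit 251)) (XT.lf (nat_lit 0) (nat_lit 3576441883) (nat_lit 1216) (nat_lit 6261496567) (nat_lit 1292) (nat_lit 5699119617) (nat_lit 375) (nat_lit 5) (nat_lit 391) (nat_lit 5) (nat_lit 392) (nat_lit 5) (nat_lit 386) (nat_lit 384) (nat_lit 250)))) (XT.nd (nat_lit 156) (nat_lit 0) (nat_lit 76) (XT.nd (nat_lit 78) (nat_lit 0) (nat_lit 76) (XT.lf (nat_lit 76) (nat_lit 1623182644) (nat_lit 0) (nat_lit 2454523652) (nat_lit 1292) (nat_lit 11685913513) (nat_lit 376) (nat_lit 5) (nat_lit 375) (nat_lit 5) (nat_lit 392) (nat_lit 5) (nat_lit 387) (nat_lit 384) (nat_lit 249)) (XT.lf (nat_lit 0) (nat_lit 4696541521) (nat_lit 1216) (nat_lit 6179006255) (nat_lit 1292) (nat_lit 5118354641) (nat_lit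 376) (nat_lit 5) (nat_lit 392) (nat_lit 5) (nat_lit 393) (nat_lit 5) (nat_lit 388) (nat_lit 384) (nat_lit 248))) (XT.nd (nat_lit 78) (nat_lit 0) (nat_lit 76) (XT.lf (nat_lit 76) (nat_lit 2030226351) (nat_lit 0) (nat_lit 3337018179) (nat_lit 1292) (nat_lit 10862849892) (nat_lit 377) (nat_lit 5) (nat_lit 376) (nat_lit 5) (nat_lit 393) (nat_lit 5) (nat_lit 389) (nat_lit 384) (nat_lit 247)) (XT.lf (nat_lit 0) (nat_lit 6153412430) (nat_lit 1216) (nat_lit 5908920066) (nat_lit 1292) (nat_lit 4408179376) (nat_lit 377) (nat_lit 5) (nat_lit 393) (nat_lit 5) (nat_lit 394) (nat_lit 5) (nat_lit 390) (nat_lit 384) (nat_lit 246)))))) (XT.nd (nat_lit 546) (nat_lit 2356) (nat_lit 0) (XT.nd (nat_lit 234) (nat_lit 0) (nat_lit 152) (XT.nd (nat_lit 78) (nat_lit 0) (nat_lit 76) (XT.lf (nat_lit 76) (nat_lit 2642841313) (nat_lit 0) (nat_lit 4368835168) (nat_lit 1292) (nat_lit 9705010032) (nat_lit 378) (nat_lit 5) (nat_lit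 377) (nat_lit 5) (nat_lit 394) (nat_lit 5) (nat_lit 391) (nat_lit 384) (nat_lit 245)) (XT.nd (nat_lit 78) (nat_lit 0) (nat_lit 0) (XT.lf (nat_lit 0) (nat_lit 7980451675) (nat_lit 1216) (nat_lit 5437648361) (nat_lit 1292) (nat_lit 3549603460) (nat_lit 378) (nat_lit 5) (nat_lit 394) (nat_lit 5) (nat_lit 395) (nat_lit 5) (nat_lit 392) (nat_lit 384) (nat_lit 244)) (XT.lf (nat_lit 76) (nat_lit 3475690645) (nat_lit 0) (nat_lit 5569874100) (nat_lit 1292) (nat_lit 8178668006) (nat_lit 379) (nat_lit 5) (nat_lit 378) (nat_lit 5) (nat_lit 395) (nat_lit 5) (nat_lit 393) (nat_lit 384) (nat_lit 243)))) (XT.nd (nat_lit 156) (nat_lit 0) (nat_lit 76) (XT.nd (nat_lit 78) (nat_lit 0) (nat_lit 0) (XT.lf (nat_lit 0) (nat_lit 10213094820) (nat_lit 1216) (nat_lit 4750371167) (nat_lit 1292) (nat_lit 2522877988) (nat_lit 379) (nat_lit 5) (nat_lit 395) (nat_lit 5) (nat_lit 396) (nat_lit 5) (nat_lit 394) (nat_lit 384) (nat_lit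 242)) (XT.lf (nat_lit 76) (nat_lit 4544729218) (nat_lit 0) (nat_lit 6960868377) (nat_lit 1292) (nat_lit 6248022536) (nat_lit 380) (nat_lit 5) (nat_lit 379) (nat_lit 5) (nat_lit 396) (nat_lit 5) (nat_lit 395) (nat_lit 384) (nat_lit 241))) (XT.nd (nat_lit 78) (nat_lit 0) (nat_lit 0) (XT.lf (nat_lit 0) (nat_lit 12888971814) (nat_lit 1216) (nat_lit 3830981485) (nat_lit 1292) (nat_lit 1307398383) (nat_lit 380) (nat_lit 5) (nat_lit 396) (nat_lit 5) (nat_lit 397) (nat_lit 5) (nat_lit 396) (nat_lit 384) (nat_lit 240)) (XT.lf (nat_lit 76) (nat_lit 5867264281) (nat_lit 0) (nat_lit 8563485177) (nat_lit 1292) (nat_lit 3875038655) (nat_lit 381) (nat_lit 5) (nat_lit 380) (nat_lit 5) (nat_lit 397) (nat_lit 5) (nat_lit 397) (nat_lit 384) (nat_lit 239))))) (XT.nd (nat_lit 312) (nat_lit 1368) (nat_lit 0) (XT.nd (nat_lit 156) (nat_lit 1216) (nat_lit 0) (XT.nd (nat_lit 78) (nat_lit 0) (nat_lit 76) (XT.lf (nat_lit 76) (nat_lit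 15928480309) (nat_lit 0) (nat_lit 120751092) (nat_lit 1292) (nat_lit 2542432705) (nat_lit 381) (nat_lit 5) (nat_lit 380) (nat_lit 5) (nat_lit 397) (nat_lit 5) (nat_lit 398) (nat_lit 384) (nat_lit 238)) (XT.lf (nat_lit 76) (nat_lit 7462021812) (nat_lit 0) (nat_lit 10400427718) (nat_lit 1292) (nat_lit 1019281399) (nat_lit 382) (nat_lit 5) (nat_lit 381) (nat_lit 5) (nat_lit 398) (nat_lit 5) (nat_lit 399) (nat_lit 384) (nat_lit 237))) (XT.nd (nat_lit 78) (nat_lit 0) (nat_lit 76) (XT.lf (nat_lit 0) (nat_lit 559309222) (nat_lit 1292) (nat_lit 1247528634) (nat_lit 1368) (nat_lit 17372889355) (nat_lit 364) (nat_lit 5) (nat_lit 381) (nat_lit 5) (nat_lit 382) (nat_lit 5) (nat_lit 400) (nat_lit 384) (nat_lit 236)) (XT.lf (nat_lit 0) (nat_lit 2316162937) (nat_lit 1292) (nat_lit 10155988756) (nat_lit 76) (nat_lit 7009667175) (nat_lit 365) (nat_lit 5) (nat_lit 382) (nat_lit 5) (nat_lit 366) (nat_lit 5) (nat_lit 401)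 (nat_lit 384) (nat_lit 235)))) (XT.nd (nat_lit 156) (nat_lit 608) (nat_lit 0) (XT.nd (nat_lit 78) (nat_lit 0) (nat_lit 0) (XT.lf (nat_lit 0) (nat_lit 433160738) (nat_lit 836) (nat_lit 3719852645) (nat_lit 912) (nat_lit 15639141157) (nat_lit 354) (nat_lit 5) (nat_lit 365) (nat_lit 5) (nat_lit 366) (nat_lit 5) (nat_lit 402) (nat_lit 384) (nat_lit 234)) (XT.lf (nat_lit 0) (nat_lit 6192116708) (nat_lit 912) (nat_lit 8619272332) (nat_lit 76) (nat_lit 5295996821) (nat_lit 354) (nat_lit 5) (nat_lit 366) (nat_lit 5) (nat_lit 355) (nat_lit 5) (nat_lit 403) (nat_lit 384) (nat_lit 233))) (XT.nd (nat_lit 78) (nat_lit 0) (nat_lit 0) (XT.lf (nat_lit 0) (nat_lit 2446950721) (nat_lit 608) (nat_lit 5898684963) (nat_lit 684) (nat_lit 12084841161) (nat_lit 346) (nat_lit 5) (nat_lit 354) (nat_lit 5) (nat_lit 355) (nat_lit 5) (nat_lit 404) (nat_lit 384) (nat_lit 232)) (XT.lf (nat_lit 0) (nat_lit 10676241520) (nat_lit 684)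 (nat_lit 6777963785) (nat_lit 76) (nat_lit 3305680816) (nat_lit 346) (nat_lit 5) (nat_lit 355) (nat_lit 5) (nat_lit 347) (nat_lit 5) (nat_lit 405) (nat_lit 384) (nat_lit 231))))))) (XT.nd (nat_lit 1170) (nat_lit 3572) (nat_lit 0) (XT.nd (nat_lit 546) (nat_lit 2508) (nat_lit 0) (XT.nd (nat_lit 234) (nat_lit 1216) (nat_lit 0) (XT.nd (nat_lit 78) (nat_lit 532) (nat_lit 0) (XT.lf (nat_lit 0) (nat_lit 4792317918) (nat_lit 608) (nat_lit 8382158825) (nat_lit 684) (nat_lit 7921769594) (nat_lit 338) (nat_lit 5) (nat_lit 346) (nat_lit 5) (nat_lit 347) (nat_lit 5) (nat_lit 406) (nat_lit 384) (nat_lit 230)) (XT.nd (nat_lit 78) (nat_lit 532) (nat_lit 0) (XT.lf (nat_lit 0) (nat_lit 15819405973) (nat_lit 684) (nat_lit 4608615522) (nat_lit 76) (nat_lit 1012523457) (nat_lit 338) (nat_lit 5) (nat_lit 347) (nat_lit 5) (nat_lit 339) (nat_lit 5) (nat_lit 407) (nat_lit 384) (nat_lit 229)) (XT.lf (nat_lit 0) (nat_lit 7494305298)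 (nat_lit 532) (nat_lit 11197979528) (nat_lit 608) (nat_lit 3098429648) (nat_lit 331) (nat_lit 5) (nat_lit 338) (nat_lit 5) (nat_lit 339) (nat_lit 5) (nat_lit 408) (nat_lit 384) (nat_lit 228)))) (XT.nd (nat_lit 156) (nat_lit 532) (nat_lit 0) (XT.nd (nat_lit 78) (nat_lit 684) (nat_lit 0) (XT.lf (nat_lit 0) (nat_lit 20048348894) (nat_lit 532) (nat_lit 1643234760) (nat_lit 608) (nat_lit 458598419) (nat_lit 331) (nat_lit 5) (nat_lit 338) (nat_lit 5) (nat_lit 339) (nat_lit 5) (nat_lit 409) (nat_lit 384) (nat_lit 227)) (XT.lf (nat_lit 0) (nat_lit 2392428330) (nat_lit 684) (nat_lit 11958864938) (nat_lit 76) (nat_lit 8163205283) (nat_lit 322) (nat_lit 5) (nat_lit 331) (nat_lit 5) (nat_lit 323) (nat_lit 5) (nat_lit 410) (nat_lit 384) (nat_lit 226))) (XT.nd (nat_lit 78) (nat_lit 0) (nat_lit 0) (XT.lf (nat_lit 0) (nat_lit 733607606) (nat_lit 532) (nat_lit 4624852622) (nat_lit 608) (nat_lit 17529987326) (nat_lit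 315) (nat_lit 5) (nat_lit 322) (nat_lit 5) (nat_lit 323) (nat_lit 5) (nat_lit 411) (nat_lit 384) (nat_lit 225)) (XT.lf (nat_lit 0) (nat_lit 8581320236) (nat_lit 608) (nat_lit 9277632765) (nat_lit 76) (nat_lit 5409626612) (nat_lit 315) (nat_lit 5) (nat_lit 323) (nat_lit 5) (nat_lit 316) (nat_lit 5) (nat_lit 412) (nat_lit 384) (nat_lit 224))))) (XT.nd (nat_lit 312) (nat_lit 1520) (nat_lit 0) (XT.nd (nat_lit 156) (nat_lit 456) (nat_lit 0) (XT.nd (nat_lit 78) (nat_lit 0) (nat_lit 0) (XT.lf (nat_lit 0) (nat_lit 4011980664) (nat_lit 532) (nat_lit 7967460963) (nat_lit 608) (nat_lit 11678316739) (nat_lit 308) (nat_lit 5) (nat_lit 315) (nat_lit 5) (nat_lit 316) (nat_lit 5) (nat_lit 413) (nat_lit 384) (nat_lit 223)) (XT.lf (nat_lit 0) (nat_lit 15589787874) (nat_lit 608) (nat_lit 6194120539) (nat_lit 76) (nat_lit 2271395632) (nat_lit 308) (nat_lit 5) (nat_lit 316) (nat_lit 5) (nat_lit 309) (nat_lit 5) (nat_lit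 414) (nat_lit 384) (nat_lit 222))) (XT.nd (nat_lit 78) (nat_lit 0) (nat_lit 0) (XT.lf (nat_lit 0) (nat_lit 7726656586) (nat_lit 456) (nat_lit 11729432728) (nat_lit 532) (nat_lit 5004257437) (nat_lit 302) (nat_lit 5) (nat_lit 308) (nat_lit 5) (nat_lit 309) (nat_lit 5) (nat_lit 415) (nat_lit 384) (nat_lit 221)) (XT.lf (nat_lit 0) (nat_lit 22185773473) (nat_lit 456) (nat_lit 1309740965) (nat_lit 532) (nat_lit 1380312260) (nat_lit 302) (nat_lit 5) (nat_lit 308) (nat_lit 5) (nat_lit 309) (nat_lit 5) (nat_lit 416) (nat_lit 384) (nat_lit 220)))) (XT.nd (nat_lit 156) (nat_lit 456) (nat_lit 0) (XT.nd (nat_lit 78) (nat_lit 456) (nat_lit 0) (XT.lf (nat_lit 0) (nat_lit 2508228993) (nat_lit 608) (nat_lit 13411857441) (nat_lit 76) (nat_lit 9376952825) (nat_lit 294) (nat_lit 5) (nat_lit 302) (nat_lit 5) (nat_lit 295) (nat_lit 5) (nat_lit 417) (nat_lit 384) (nat_lit 219)) (XT.lf (nat_lit 0) (nat_lit 1213248389) (nat_lit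 456) (nat_lit 5319277490) (nat_lit 532) (nat_lit 19196547056) (nat_lit 288) (nat_lit 5) (nat_lit 294) (nat_lit 5) (nat_lit 295) (nat_lit 5) (nat_lit 418) (nat_lit 384) (nat_lit 218))) (XT.nd (nat_lit 78) (nat_lit 456) (nat_lit 0) (XT.lf (nat_lit 0) (nat_lit 10863013348) (nat_lit 532) (nat_lit 9679484046) (nat_lit 76) (nat_lit 5626006377) (nat_lit 288) (nat_lit 5) (nat_lit 295) (nat_lit 5) (nat_lit 289) (nat_lit 5) (nat_lit 419) (nat_lit 384) (nat_lit 217)) (XT.lf (nat_lit 0) (nat_lit 5653434896) (nat_lit 456) (nat_lit 9772001545) (nat_lit 532) (nat_lit 11192620460) (nat_lit 282) (nat_lit 5) (nat_lit 288) (nat_lit 5) (nat_lit 289) (nat_lit 5) (nat_lit 420) (nat_lit 384) (nat_lit 216)))))) (XT.nd (nat_lit 624) (nat_lit 1824) (nat_lit 0) (XT.nd (nat_lit 312) (nat_lit 836) (nat_lit 0) (XT.nd (nat_lit 156) (nat_lit 532) (nat_lit 0) (XT.nd (nat_lit 78) (nat_lit 380) (nat_lit 0) (XT.lf (nat_lit 0) (nat_lit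 20231233626) (nat_lit 532) (nat_lit 5453314481) (nat_lit 76) (nat_lit 1393353478) (nat_lit 282) (nat_lit 5) (nat_lit 289) (nat_lit 5) (nat_lit 283) (nat_lit 5) (nat_lit 421) (nat_lit 384) (nat_lit 215)) (XT.lf (nat_lit 0) (nat_lit 10627910700) (nat_lit 380) (nat_lit 14747437340) (nat_lit 456) (nat_lit 2170369268) (nat_lit 277) (nat_lit 5) (nat_lit 282) (nat_lit 5) (nat_lit 283) (nat_lit 5) (nat_lit 422) (nat_lit 384) (nat_lit 214))) (XT.nd (nat_lit 78) (nat_lit 456) (nat_lit 0) (XT.lf (nat_lit 0) (nat_lit 2645457855) (nat_lit 456) (nat_lit 754630295) (nat_lit 76) (nat_lit 24625189939) (nat_lit 276) (nat_lit 5) (nat_lit 282) (nat_lit 5) (nat_lit 277) (nat_lit 5) (nat_lit 423) (nat_lit 384) (nat_lit 213)) (XT.lf (nat_lit 0) (nat_lit 7794495028) (nat_lit 532) (nat_lit 12413656513) (nat_lit 76) (nat_lit 8303458764) (nat_lit 270) (nat_lit 5) (nat_lit 277) (nat_lit 5) (nat_lit 271) (nat_lit 5) (nat_lit 424)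 (nat_lit 384) (nat_lit 212)))) (XT.nd (nat_lit 156) (nat_lit 456) (nat_lit 0) (XT.nd (nat_lit 78) (nat_lit 0) (nat_lit 0) (XT.lf (nat_lit 0) (nat_lit 4507518859) (nat_lit 380) (nat_lit 8670639905) (nat_lit 456) (nat_lit 15831969060) (nat_lit 265) (nat_lit 5) (nat_lit 270) (nat_lit 5) (nat_lit 271) (nat_lit 5) (nat_lit 425) (nat_lit 384) (nat_lit 211)) (XT.lf (nat_lit 0) (nat_lit 18876339928) (nat_lit 456) (nat_lit 7367210545) (nat_lit 76) (nat_lit 3275460169) (nat_lit 265) (nat_lit 5) (nat_lit 271) (nat_lit 5) (nat_lit 266) (nat_lit 5) (nat_lit 426) (nat_lit 384) (nat_lit 210))) (XT.nd (nat_lit 78) (nat_lit 76) (nat_lit 0) (XT.lf (nat_lit 0) (nat_lit 10393348376) (nat_lit 380) (nat_lit 14533531065) (nat_lit 456) (nat_lit 5110838117) (nat_lit 260) (nat_lit 5) (nat_lit 265) (nat_lit 5) (nat_lit 266) (nat_lit 5) (nat_lit 427) (nat_lit 384) (nat_lit 209)) (XT.lf (nat_lit 0) (nat_lit 646313045) (nat_lit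 456) (nat_lit 1744281432) (nat_lit 76) (nat_lit 28179097429) (nat_lit 259) (nat_lit 5) (nat_lit 265) (nat_lit 5) (nat_lit 260) (nat_lit 5) (nat_lit 428) (nat_lit 384) (nat_lit 208))))) (XT.nd (nat_lit 312) (nat_lit 760) (nat_lit 0) (XT.nd (nat_lit 156) (nat_lit 304) (nat_lit 0) (XT.nd (nat_lit 78) (nat_lit 380) (nat_lit 0) (XT.lf (nat_lit 0) (nat_lit 6731718909) (nat_lit 456) (nat_lit 14243104994) (nat_lit 76) (nat_lit 10133535621) (nat_lit 254) (nat_lit 5) (nat_lit 260) (nat_lit 5) (nat_lit 255) (nat_lit 5) (nat_lit 429) (nat_lit 384) (nat_lit 207)) (XT.lf (nat_lit 0) (nat_lit 4463657707) (nat_lit 380) (nat_lit 8616258564) (nat_lit 456) (nat_lit 18580864020) (nat_lit 249) (nat_lit 5) (nat_lit 254) (nat_lit 5) (nat_lit 255) (nat_lit 5) (nat_lit 430) (nat_lit 384) (nat_lit 206))) (XT.nd (nat_lit 78) (nat_lit 304) (nat_lit 0) (XT.lf (nat_lit 0) (nat_lit 19799262399) (nat_lit 456) (nat_lit 8248651407)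 (nat_lit 76) (nat_lit 4176438790) (nat_lit 249) (nat_lit 5) (nat_lit 255) (nat_lit 5) (nat_lit 250) (nat_lit 5) (nat_lit 431) (nat_lit 384) (nat_lit 205)) (XT.lf (nat_lit 0) (nat_lit 11399760224) (nat_lit 304) (nat_lit 15511352745) (nat_lit 380) (nat_lit 5887991379) (nat_lit 245) (nat_lit 5) (nat_lit 249) (nat_lit 5) (nat_lit 250) (nat_lit 5) (nat_lit 432) (nat_lit 384) (nat_lit 204)))) (XT.nd (nat_lit 156) (nat_lit 304) (nat_lit 0) (XT.nd (nat_lit 78) (nat_lit 380) (nat_lit 0) (XT.lf (nat_lit 0) (nat_lit 908903172) (nat_lit 380) (nat_lit 1596513430) (nat_lit 76) (nat_lit 30883033027) (nat_lit 244) (nat_lit 5) (nat_lit 249) (nat_lit 5) (nat_lit 245) (nat_lit 5) (nat_lit 433) (nat_lit 384) (nat_lit 203)) (XT.lf (nat_lit 0) (nat_lit 8078292672) (nat_lit 456) (nat_lit 14985910341) (nat_lit 76) (nat_lit 10920915417) (nat_lit 239) (nat_lit 5) (nat_lit 245) (nat_lit 5) (nat_lit 240) (nat_lit 5) (nat_lit 434)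 (nat_lit 384) (nat_lit 202))) (XT.nd (nat_lit 78) (nat_lit 0) (nat_lit 0) (XT.lf (nat_lit 0) (nat_lit 5727569265) (nat_lit 304) (nat_lit 9827552722) (nat_lit 380) (nat_lit 19041794567) (nat_lit 235) (nat_lit 5) (nat_lit 239) (nat_lit 5) (nat_lit 240) (nat_lit 5) (nat_lit 435) (nat_lit 384) (nat_lit 201)) (XT.lf (nat_lit 0) (nat_lit 23441924505) (nat_lit 380) (nat_lit 7896560289) (nat_lit 76) (nat_lit 3883013776) (nat_lit 235) (nat_lit 5) (nat_lit 240) (nat_lit 5) (nat_lit 236) (nat_lit 5) (nat_lit 436) (nat_lit 384) (nat_lit 200))))))))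
noncomputable def xc193 : XT := (XT.nd (nat_lit 2340) (nat_lit 2204) (nat_lit 0) (XT.nd (nat_lit 1170) (nat_lit 2052) (nat_lit 0) (XT.nd (nat_lit 546) (nat_lit 1368) (nat_lit 0) (XT.nd (nat_lit 234) (nat_lit 912) (nat_lit 0) (XT.nd (nat_lit 78) (nat_lit 380) (nat_lit 0) (XT.lf (nat_lit 0) (nat_lit 13873395251) (nat_lit 304) (nat_lit 17918961229) (nat_lit 380) (nat_lit 4065650806) (nat_lit 231) (nat_lit 5) (nat_lit 235) (nat_lit 5) (nat_lit 236) (nat_lit 5) (nat_lit 437) (nat_lit 384) (nat_lit 199)) (XT.nd (nat_lit 78) (nat_lit 304) (nat_lit 0) (XT.lf (nat_lit 0) (nat_lit 3880894764) (nat_lit 380) (nat_lit 96432548) (nat_lit 76) (nat_lit 32532857793) (nat_lit 230) (nat_lit 5) (nat_lit 235) (nat_lit 5) (nat_lit 231) (nat_lit 5) (nat_lit 438) (nat_lit 384) (nat_lit 198)) (XT.lf (nat_lit 0) (nat_lit 12302603861) (nat_lit 380) (nat_lit 14427890008) (nat_lit 76) (nat_lit 10440672287) (nat_lit 226) (nat_lit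 5) (nat_lit 231) (nat_lit 5) (nat_lit 227) (nat_lit 5) (nat_lit 439) (nat_lit 384) (nat_lit 197)))) (XT.nd (nat_lit 156) (nat_lit 608) (nat_lit 0) (XT.nd (nat_lit 78) (nat_lit 0) (nat_lit 0) (XT.lf (nat_lit 0) (nat_lit 8540137911) (nat_lit 304) (nat_lit 12555804512) (nat_lit 380) (nat_lit 16752464872) (nat_lit 222) (nat_lit 5) (nat_lit 226) (nat_lit 5) (nat_lit 227) (nat_lit 5) (nat_lit 440) (nat_lit 384) (nat_lit 196)) (XT.lf (nat_lit 0) (nat_lit 30316421521) (nat_lit 380) (nat_lit 6075082586) (nat_lit 76) (nat_lit 2149561349) (nat_lit 222) (nat_lit 5) (nat_lit 227) (nat_lit 5) (nat_lit 223) (nat_lit 5) (nat_lit 441) (nat_lit 384) (nat_lit 195))) (XT.nd (nat_lit 78) (nat_lit 304) (nat_lit 0) (XT.lf (nat_lit 0) (nat_lit 845772144) (nat_lit 304) (nat_lit 21175597968) (nat_lit 76) (nat_lit 17224041977) (nat_lit 218) (nat_lit 5) (nat_lit 222) (nat_lit 5) (nat_lit 219) (nat_lit 5) (nat_lit 442) (nat_lit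 384) (nat_lit 194)) (XT.lf (nat_lit 0) (nat_lit 3067134351) (nat_lit 304) (nat_lit 7043966803) (nat_lit 380) (nat_lit 29854701774) (nat_lit 214) (nat_lit 5) (nat_lit 218) (nat_lit 5) (nat_lit 219) (nat_lit 5) (nat_lit 443) (nat_lit 384) (nat_lit 193))))) (XT.nd (nat_lit 312) (nat_lit 760) (nat_lit 0) (XT.nd (nat_lit 156) (nat_lit 380) (nat_lit 0) (XT.nd (nat_lit 78) (nat_lit 228) (nat_lit 0) (XT.lf (nat_lit 0) (nat_lit 19947619233) (nat_lit 380) (nat_lit 12318108627) (nat_lit 76) (nat_lit 8433280757) (nat_lit 214) (nat_lit 5) (nat_lit 219) (nat_lit 5) (nat_lit 215) (nat_lit 5) (nat_lit 444) (nat_lit 384) (nat_lit 192)) (XT.lf (nat_lit 0) (nat_lit 13182263809) (nat_lit 228) (nat_lit 17090223222) (nat_lit 304) (nat_lit 11175925820) (nat_lit 211) (nat_lit 5) (nat_lit 214) (nat_lit 5) (nat_lit 215) (nat_lit 5) (nat_lit 445) (nat_lit 384) (nat_lit 191))) (XT.nd (nat_lit 78) (nat_lit 380) (nat_lit 0) (XT.lf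 (nat_lit 0) (nat_lit 39695111012) (nat_lit 228) (nat_lit 1333219366) (nat_lit 304) (nat_lit 1188331949) (nat_lit 211) (nat_lit 5) (nat_lit 214) (nat_lit 5) (nat_lit 215) (nat_lit 5) (nat_lit 446) (nat_lit 384) (nat_lit 190)) (XT.lf (nat_lit 0) (nat_lit 9298945307) (nat_lit 380) (nat_lit 18766084758) (nat_lit 76) (nat_lit 14928977069) (nat_lit 206) (nat_lit 5) (nat_lit 211) (nat_lit 5) (nat_lit 207) (nat_lit 5) (nat_lit 447) (nat_lit 384) (nat_lit 189)))) (XT.nd (nat_lit 156) (nat_lit 532) (nat_lit 0) (XT.nd (nat_lit 78) (nat_lit 0) (nat_lit 0) (XT.lf (nat_lit 0) (nat_lit 8166821953) (nat_lit 228) (nat_lit 12024481717) (nat_lit 304) (nat_lit 23599585232) (nat_lit 203) (nat_lit 5) (nat_lit 206) (nat_lit 5) (nat_lit 207) (nat_lit 5) (nat_lit 448) (nat_lit 384) (nat_lit 188)) (XT.lf (nat_lit 0) (nat_lit 31641991611) (nat_lit 304) (nat_lit 8363705897) (nat_lit 76) (nat_lit 4599032851) (nat_lit 203) (nat_lit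 5) (nat_lit 207) (nat_lit 5) (nat_lit 204) (nat_lit 5) (nat_lit 449) (nat_lit 384) (nat_lit 187))) (XT.nd (nat_lit 78) (nat_lit 304) (nat_lit 0) (XT.lf (nat_lit 0) (nat_lit 19980438821) (nat_lit 228) (nat_lit 23763919927) (nat_lit 304) (nat_lit 1689383555) (nat_lit 200) (nat_lit 5) (nat_lit 203) (nat_lit 5) (nat_lit 204) (nat_lit 5) (nat_lit 450) (nat_lit 384) (nat_lit 186)) (XT.lf (nat_lit 0) (nat_lit 3019089641) (nat_lit 228) (nat_lit 6820831001) (nat_lit 304) (nat_lit 36441501653) (nat_lit 196) (nat_lit 5) (nat_lit 199) (nat_lit 5) (nat_lit 200) (nat_lit 5) (nat_lit 451) (nat_lit 384) (nat_lit 185)))))) (XT.nd (nat_lit 546) (nat_lit 1064) (nat_lit 0) (XT.nd (nat_lit 234) (nat_lit 760) (nat_lit 0) (XT.nd (nat_lit 78) (nat_lit 228) (nat_lit 0) (XT.lf (nat_lit 0) (nat_lit 22039981840) (nat_lit 304) (nat_lit 14405753567) (nat_lit 76) (nat_lit 10697530498) (nat_lit 196) (nat_lit 5) (nat_lit 200) (nat_lit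 5) (nat_lit 197) (nat_lit 5) (nat_lit 452) (nat_lit 384) (nat_lit 184)) (XT.nd (nat_lit 78) (nat_lit 0) (nat_lit 0) (XT.lf (nat_lit 0) (nat_lit 15547627405) (nat_lit 228) (nat_lit 19272561193) (nat_lit 304) (nat_lit 13204351915) (nat_lit 193) (nat_lit 5) (nat_lit 196) (nat_lit 5) (nat_lit 197) (nat_lit 5) (nat_lit 453) (nat_lit 384) (nat_lit 183)) (XT.lf (nat_lit 0) (nat_lit 46690207511) (nat_lit 228) (nat_lit 1436258906) (nat_lit 304) (nat_lit 801506996) (nat_lit 193) (nat_lit 5) (nat_lit 196) (nat_lit 5) (nat_lit 197) (nat_lit 5) (nat_lit 454) (nat_lit 384) (nat_lit 182)))) (XT.nd (nat_lit 156) (nat_lit 228) (nat_lit 0) (XT.nd (nat_lit 78) (nat_lit 228) (nat_lit 0) (XT.lf (nat_lit 0) (nat_lit 12185978772) (nat_lit 304) (nat_lit 20651588174) (nat_lit 76) (nat_lit 17004103474) (nat_lit 189) (nat_lit 5) (nat_lit 193) (nat_lit 5) (nat_lit 190) (nat_lit 5) (nat_lit 455) (nat_lit 384) (nat_lit 181)) (XT.lf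 (nat_lit 0) (nat_lit 11012407362) (nat_lit 228) (nat_lit 14674739320) (nat_lit 304) (nat_lit 25091188572) (nat_lit 186) (nat_lit 5) (nat_lit 189) (nat_lit 5) (nat_lit 190) (nat_lit 5) (nat_lit 456) (nat_lit 384) (nat_lit 180))) (XT.nd (nat_lit 78) (nat_lit 228) (nat_lit 0) (XT.lf (nat_lit 0) (nat_lit 39840007373) (nat_lit 304) (nat_lit 7732674993) (nat_lit 76) (nat_lit 4163017934) (nat_lit 186) (nat_lit 5) (nat_lit 190) (nat_lit 5) (nat_lit 187) (nat_lit 5) (nat_lit 457) (nat_lit 384) (nat_lit 179)) (XT.lf (nat_lit 0) (nat_lit 2055281286) (nat_lit 228) (nat_lit 27118739676) (nat_lit 76) (nat_lit 23535495274) (nat_lit 183) (nat_lit 5) (nat_lit 186) (nat_lit 5) (nat_lit 184) (nat_lit 5) (nat_lit 458) (nat_lit 384) (nat_lit 178))))) (XT.nd (nat_lit 312) (nat_lit 380) (nat_lit 0) (XT.nd (nat_lit 156) (nat_lit 456) (nat_lit 0) (XT.nd (nat_lit 78) (nat_lit 0) (nat_lit 0) (XT.lf (nat_lit 0) (nat_lit 6363327657)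 (nat_lit 228) (nat_lit 9959763654) (nat_lit 304) (nat_lit 37381800017) (nat_lit 180) (nat_lit 5) (nat_lit 183) (nat_lit 5) (nat_lit 184) (nat_lit 5) (nat_lit 459) (nat_lit 384) (nat_lit 177)) (XT.lf (nat_lit 0) (nat_lit 31387381197) (nat_lit 304) (nat_lit 13417906445) (nat_lit 76) (nat_lit 9913786666) (nat_lit 180) (nat_lit 5) (nat_lit 184) (nat_lit 5) (nat_lit 181) (nat_lit 5) (nat_lit 460) (nat_lit 384) (nat_lit 176))) (XT.nd (nat_lit 78) (nat_lit 304) (nat_lit 0) (XT.lf (nat_lit 0) (nat_lit 21846743494) (nat_lit 152) (nat_lit 25362935451) (nat_lit 228) (nat_lit 8544821456) (nat_lit 178) (nat_lit 5) (nat_lit 180) (nat_lit 5) (nat_lit 181) (nat_lit 5) (nat_lit 461) (nat_lit 384) (nat_lit 175)) (XT.lf (nat_lit 0) (nat_lit 1588429035) (nat_lit 228) (nat_lit 5116341554) (nat_lit 304) (nat_lit 50109803425) (nat_lit 174) (nat_lit 5) (nat_lit 177) (nat_lit 5) (nat_lit 178) (nat_lit 5) (nat_lit 462) (nat_lit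 384) (nat_lit 174)))) (XT.nd (nat_lit 156) (nat_lit 228) (nat_lit 0) (XT.nd (nat_lit 78) (nat_lit 152) (nat_lit 0) (XT.lf (nat_lit 0) (nat_lit 22734663814) (nat_lit 304) (nat_lit 19295308409) (nat_lit 76) (nat_lit 15859102870) (nat_lit 174) (nat_lit 5) (nat_lit 178) (nat_lit 5) (nat_lit 175) (nat_lit 5) (nat_lit 463) (nat_lit 384) (nat_lit 173)) (XT.lf (nat_lit 0) (nat_lit 18009929442) (nat_lit 152) (nat_lit 21456860955) (nat_lit 228) (nat_lit 19522380711) (nat_lit 172) (nat_lit 5) (nat_lit 174) (nat_lit 5) (nat_lit 175) (nat_lit 5) (nat_lit 464) (nat_lit 384) (nat_lit 172))) (XT.nd (nat_lit 78) (nat_lit 228) (nat_lit 0) (XT.lf (nat_lit 0) (nat_lit 56825595985) (nat_lit 152) (nat_lit 67716995) (nat_lit 228) (nat_lit 3223184058) (nat_lit 172) (nat_lit 5) (nat_lit 174) (nat_lit 5) (nat_lit 175) (nat_lit 5) (nat_lit 465) (nat_lit 384) (nat_lit 171)) (XT.lf (nat_lit 0) (nat_lit 13860748288) (nat_lit 228)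 (nat_lit 25381315128) (nat_lit 76) (nat_lit 22014853633) (nat_lit 169) (nat_lit 5) (nat_lit 172) (nat_lit 5) (nat_lit 170) (nat_lit 5) (nat_lit 466) (nat_lit 384) (nat_lit 170))))))) (XT.nd (nat_lit 1170) (nat_lit 456) (nat_lit 0) (XT.nd (nat_lit 546) (nat_lit 836) (nat_lit 0) (XT.nd (nat_lit 234) (nat_lit 532) (nat_lit 0) (XT.nd (nat_lit 78) (nat_lit 228) (nat_lit 0) (XT.lf (nat_lit 0) (nat_lit 14091880746) (nat_lit 152) (nat_lit 17467872132) (nat_lit 228) (nat_lit 30865819288) (nat_lit 167) (nat_lit 5) (nat_lit 169) (nat_lit 5) (nat_lit 170) (nat_lit 5) (nat_lit 467) (nat_lit 384) (nat_lit 169)) (XT.nd (nat_lit 78) (nat_lit 228) (nat_lit 0) (XT.lf (nat_lit 0) (nat_lit 50093898100) (nat_lit 228) (nat_lit 8406454048) (nat_lit 76) (nat_lit 5119809675) (nat_lit 167) (nat_lit 5) (nat_lit 170) (nat_lit 5) (nat_lit 168) (nat_lit 5) (nat_lit 468) (nat_lit 384) (nat_lit 168)) (XT.lf (nat_lit 0) (nat_lit 4743474919)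 (nat_lit 228) (nat_lit 31693196697) (nat_lit 76) (nat_lit 28397831125) (nat_lit 164) (nat_lit 5) (nat_lit 167) (nat_lit 5) (nat_lit 165) (nat_lit 5) (nat_lit 469) (nat_lit 384) (nat_lit 167)))) (XT.nd (nat_lit 156) (nat_lit 380) (nat_lit 0) (XT.nd (nat_lit 78) (nat_lit 0) (nat_lit 0) (XT.lf (nat_lit 0) (nat_lit 10082996035) (nat_lit 152) (nat_lit 13386828791) (nat_lit 228) (nat_lit 42606019851) (nat_lit 162) (nat_lit 5) (nat_lit 164) (nat_lit 5) (nat_lit 165) (nat_lit 5) (nat_lit 470) (nat_lit 384) (nat_lit 166)) (XT.lf (nat_lit 0) (nat_lit 43178447228) (nat_lit 228) (nat_lit 13689475466) (nat_lit 76) (nat_lit 10473889717) (nat_lit 162) (nat_lit 5) (nat_lit 165) (nat_lit 5) (nat_lit 163) (nat_lit 5) (nat_lit 471) (nat_lit 384) (nat_lit 165))) (XT.nd (nat_lit 78) (nat_lit 228) (nat_lit 0) (XT.lf (nat_lit 0) (nat_lit 30338487465) (nat_lit 152) (nat_lit 33561821886) (nat_lit 228) (nat_lit 4732790395) (nat_lit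 160) (nat_lit 5) (nat_lit 162) (nat_lit 5) (nat_lit 163) (nat_lit 5) (nat_lit 472) (nat_lit 384) (nat_lit 164)) (XT.lf (nat_lit 0) (nat_lit 5973248695) (nat_lit 152) (nat_lit 9204106100) (nat_lit 228) (nat_lit 54775519242) (nat_lit 157) (nat_lit 5) (nat_lit 159) (nat_lit 5) (nat_lit 160) (nat_lit 5) (nat_lit 473) (nat_lit 384) (nat_lit 163))))) (XT.nd (nat_lit 312) (nat_lit 456) (nat_lit 0) (XT.nd (nat_lit 156) (nat_lit 228) (nat_lit 0) (XT.nd (nat_lit 78) (nat_lit 152) (nat_lit 0) (XT.lf (nat_lit 0) (nat_lit 36130718466) (nat_lit 228) (nat_lit 19153866025) (nat_lit 76) (nat_lit 16010020131) (nat_lit 157) (nat_lit 5) (nat_lit 160) (nat_lit 5) (nat_lit 158) (nat_lit 5) (nat_lit 474) (nat_lit 384) (nat_lit 162)) (XT.lf (nat_lit 0) (nat_lit 27457451480) (nat_lit 152) (nat_lit 30608181969) (nat_lit 228) (nat_lit 14600365161) (nat_lit 155) (nat_lit 5) (nat_lit 157) (nat_lit 5) (nat_lit 158) (nat_lit 5) (nat_lit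 475) (nat_lit 384) (nat_lit 161))) (XT.nd (nat_lit 78) (nat_lit 0) (nat_lit 0) (XT.lf (nat_lit 0) (nat_lit 1752153665) (nat_lit 152) (nat_lit 4909568226) (nat_lit 228) (nat_lit 67408613147) (nat_lit 152) (nat_lit 5) (nat_lit 154) (nat_lit 5) (nat_lit 155) (nat_lit 5) (nat_lit 476) (nat_lit 384) (nat_lit 160)) (XT.lf (nat_lit 0) (nat_lit 28934398841) (nat_lit 228) (nat_lit 24814915991) (nat_lit 76) (nat_lit 21743164581) (nat_lit 152) (nat_lit 5) (nat_lit 155) (nat_lit 5) (nat_lit 153) (nat_lit 5) (nat_lit 477) (nat_lit 384) (nat_lit 159)))) (XT.nd (nat_lit 156) (nat_lit 304) (nat_lit 0) (XT.nd (nat_lit 78) (nat_lit 0) (nat_lit 0) (XT.lf (nat_lit 0) (nat_lit 24539923020) (nat_lit 152) (nat_lit 27617791303) (nat_lit 228) (nat_lit 24791100048) (nat_lit 150) (nat_lit 5) (nat_lit 152) (nat_lit 5) (nat_lit 153) (nat_lit 5) (nat_lit 478) (nat_lit 384) (nat_lit 158)) (XT.lf (nat_lit 0) (nat_lit 75880348647)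 (nat_lit 152) (nat_lit 445942090) (nat_lit 228) (nat_lit 2115091797) (nat_lit 150) (nat_lit 5) (nat_lit 152) (nat_lit 5) (nat_lit 153) (nat_lit 5) (nat_lit 479) (nat_lit 384) (nat_lit 157))) (XT.nd (nat_lit 78) (nat_lit 152) (nat_lit 0) (XT.lf (nat_lit 0) (nat_lit 21572404972) (nat_lit 152) (nat_lit 30688705716) (nat_lit 76) (nat_lit 27689120537) (nat_lit 148) (nat_lit 5) (nat_lit 150) (nat_lit 5) (nat_lit 149) (nat_lit 5) (nat_lit 480) (nat_lit 384) (nat_lit 156)) (XT.lf (nat_lit 0) (nat_lit 21579494524) (nat_lit 152) (nat_lit 24584514466) (nat_lit 228) (nat_lit 35332628333) (nat_lit 146) (nat_lit 5) (nat_lit 148) (nat_lit 5) (nat_lit 149) (nat_lit 5) (nat_lit 481) (nat_lit 384) (nat_lit 155)))))) (XT.nd (nat_lit 45786) (nat_lit 0) (nat_lit 17860) (XT.nd (nat_lit 312) (nat_lit 152) (nat_lit 0) (XT.nd (nat_lit 156) (nat_lit 152) (nat_lit 0) (XT.nd (nat_lit 78) (nat_lit 152) (nat_lit 0) (XT.lf (nat_lit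 0) (nat_lit 71842061293) (nat_lit 228) (nat_lit 7079765591) (nat_lit 76) (nat_lit 4157147716) (nat_lit 146) (nat_lit 5) (nat_lit 149) (nat_lit 5) (nat_lit 147) (nat_lit 4) (nat_lit 482) (nat_lit 384) (nat_lit 154)) (XT.lf (nat_lit 0) (nat_lit 14026831592) (nat_lit 152) (nat_lit 36792159811) (nat_lit 76) (nat_lit 33864568358) (nat_lit 144) (nat_lit 5) (nat_lit 146) (nat_lit 5) (nat_lit 145) (nat_lit 5) (nat_lit 483) (nat_lit 384) (nat_lit 153))) (XT.nd (nat_lit 78) (nat_lit 0) (nat_lit 0) (XT.lf (nat_lit 0) (nat_lit 18569505467) (nat_lit 152) (nat_lit 21501925636) (nat_lit 228) (nat_lit 46254049884) (nat_lit 142) (nat_lit 5) (nat_lit 144) (nat_lit 5) (nat_lit 145) (nat_lit 5) (nat_lit 484) (nat_lit 384) (nat_lit 152)) (XT.lf (nat_lit 0) (nat_lit 67354251719) (nat_lit 228) (nat_lit 11750131519) (nat_lit 76) (nat_lit 8898570117) (nat_lit 142) (nat_lit 5) (nat_lit 145) (nat_lit 5) (nat_lit 143) (nat_lit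 4) (nat_lit 485) (nat_lit 384) (nat_lit 151)))) (XT.nd (nat_lit 45318) (nat_lit 0) (nat_lit 17784) (XT.nd (nat_lit 45240) (nat_lit 0) (nat_lit 17784) (XT.lf (nat_lit 0) (nat_lit 6278896870) (nat_lit 152) (nat_lit 43143104216) (nat_lit 76) (nat_lit 40287123856) (nat_lit 140) (nat_lit 5) (nat_lit 142) (nat_lit 5) (nat_lit 141) (nat_lit 5) (nat_lit 486) (nat_lit 384) (nat_lit 150)) (XT.lf (nat_lit 0) (nat_lit 1713306310) (nat_lit 1292) (nat_lit 3027027099) (nat_lit 1292) (nat_lit 3027027099) (nat_lit 374) (nat_lit 3) (nat_lit 391) (nat_lit 3) (nat_lit 391) (nat_lit 5) (nat_lit 385) (nat_lit 385) (nat_lit 250))) (XT.nd (nat_lit 78) (nat_lit 0) (nat_lit 76) (XT.lf (nat_lit 76) (nat_lit 1747404465) (nat_lit 0) (nat_lit 2024437445) (nat_lit 1292) (nat_lit 11987085021) (nat_lit 375) (nat_lit 5) (nat_lit 374) (nat_lit 3) (nat_lit 391) (nat_lit 5) (nat_lit 386) (nat_lit 385) (nat_lit 249)) (XT.lf (nat_lit 0)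 (nat_lit 4232714820) (nat_lit 1216) (nat_lit 6142039905) (nat_lit 1292) (nat_lit 5611945693) (nat_lit 375) (nat_lit 5) (nat_lit 391) (nat_lit 5) (nat_lit 392) (nat_lit 5) (nat_lit 387) (nat_lit 385) (nat_lit 248))))) (XT.nd (nat_lit 312) (nat_lit 0) (nat_lit 152) (XT.nd (nat_lit 156) (nat_lit 0) (nat_lit 76) (XT.nd (nat_lit 78) (nat_lit 0) (nat_lit 76) (XT.lf (nat_lit 76) (nat_lit 1976166921) (nat_lit 0) (nat_lit 2759785555) (nat_lit 1292) (nat_lit 11484498478) (nat_lit 376) (nat_lit 5) (nat_lit 375) (nat_lit 5) (nat_lit 392) (nat_lit 5) (nat_lit 388) (nat_lit 385) (nat_lit 247)) (XT.lf (nat_lit 0) (nat_lit 5355581901) (nat_lit 1216) (nat_lit 6051179569) (nat_lit 1292) (nat_lit 5051413696) (nat_lit 376) (nat_lit 5) (nat_lit 392) (nat_lit 5) (nat_lit 393) (nat_lit 5) (nat_lit 389) (nat_lit 385) (nat_lit 246))) (XT.nd (nat_lit 78) (nat_lit 0) (nat_lit 76) (XT.lf (nat_lit 76) (nat_lit 2401259458) (nat_lit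 0) (nat_lit 3633036090) (nat_lit 1292) (nat_lit 10667520697) (nat_lit 377) (nat_lit 5) (nat_lit 376) (nat_lit 5) (nat_lit 393) (nat_lit 5) (nat_lit 390) (nat_lit 385) (nat_lit 245)) (XT.lf (nat_lit 0) (nat_lit 6827481308) (nat_lit 1216) (nat_lit 5768526980) (nat_lit 1292) (nat_lit 4353934945) (nat_lit 377) (nat_lit 5) (nat_lit 393) (nat_lit 5) (nat_lit 394) (nat_lit 5) (nat_lit 391) (nat_lit 385) (nat_lit 244)))) (XT.nd (nat_lit 156) (nat_lit 0) (nat_lit 76) (XT.nd (nat_lit 78) (nat_lit 0) (nat_lit 76) (XT.lf (nat_lit 76) (nat_lit 3036672920) (nat_lit 0) (nat_lit 4663587667) (nat_lit 1292) (nat_lit 9503579508) (nat_lit 378) (nat_lit 5) (nat_lit 377) (nat_lit 5) (nat_lit 394) (nat_lit 5) (nat_lit 392) (nat_lit 385) (nat_lit 243)) (XT.lf (nat_lit 0) (nat_lit 8682642262) (nat_lit 1216) (nat_lit 5279936214) (nat_lit 1292) (nat_lit 3500272815) (nat_lit 378) (nat_lit 5) (nat_lit 394) (nat_lit 5) (nat_lit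 395) (nat_lit 5) (nat_lit 393) (nat_lit 385) (nat_lit 242))) (XT.nd (nat_lit 78) (nat_lit 0) (nat_lit 76) (XT.lf (nat_lit 76) (nat_lit 3897657456) (nat_lit 0) (nat_lit 5871626214) (nat_lit 1292) (nat_lit 7958105505) (nat_lit 379) (nat_lit 5) (nat_lit 378) (nat_lit 5) (nat_lit 395) (nat_lit 5) (nat_lit 394) (nat_lit 385) (nat_lit 241)) (XT.lf (nat_lit 0) (nat_lit 10957407652) (nat_lit 1216) (nat_lit 4570007500) (nat_lit 1292) (nat_lit 2470381542) (nat_lit 379) (nat_lit 5) (nat_lit 395) (nat_lit 5) (nat_lit 396) (nat_lit 5) (nat_lit 395) (nat_lit 385) (nat_lit 240))))))))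
noncomputable def xc194 : XT := (XT.nd (nat_lit 2340) (nat_lit 6156) (nat_lit 0) (XT.nd (nat_lit 1170) (nat_lit 4636) (nat_lit 0) (XT.nd (nat_lit 546) (nat_lit 2508) (nat_lit 0) (XT.nd (nat_lit 234) (nat_lit 1140) (nat_lit 0) (XT.nd (nat_lit 78) (nat_lit 0) (nat_lit 76) (XT.lf (nat_lit 76) (nat_lit 5000780457) (nat_lit 0) (nat_lit 7278223344) (nat_lit 1292) (nat_lit 5994377785) (nat_lit 380) (nat_lit 5) (nat_lit 379) (nat_lit 5) (nat_lit 396) (nat_lit 5) (nat_lit 396) (nat_lit 385) (nat_lit 239)) (XT.nd (nat_lit 78) (nat_lit 0) (nat_lit 0) (XT.lf (nat_lit 0) (nat_lit 13690393427) (nat_lit 1216) (nat_lit 3622027670) (nat_lit 1292) (nat_lit 1243308562) (nat_lit 380) (nat_lit 5) (nat_lit 396) (nat_lit 5) (nat_lit 397) (nat_lit 5) (nat_lit 397) (nat_lit 385) (nat_lit 238)) (XT.lf (nat_lit 76) (nat_lit 6363990143) (nat_lit 0) (nat_lit 8905436929) (nat_lit 1292) (nat_lit 3573362029) (nat_lit 381) (nat_lit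 5) (nat_lit 380) (nat_lit 5) (nat_lit 397) (nat_lit 5) (nat_lit 398) (nat_lit 385) (nat_lit 237)))) (XT.nd (nat_lit 156) (nat_lit 1216) (nat_lit 0) (XT.nd (nat_lit 78) (nat_lit 0) (nat_lit 76) (XT.lf (nat_lit 76) (nat_lit 16717701644) (nat_lit 0) (nat_lit 206943719) (nat_lit 1292) (nat_lit 2212950556) (nat_lit 381) (nat_lit 5) (nat_lit 380) (nat_lit 5) (nat_lit 397) (nat_lit 5) (nat_lit 399) (nat_lit 385) (nat_lit 236)) (XT.lf (nat_lit 76) (nat_lit 8006684954) (nat_lit 0) (nat_lit 10776414341) (nat_lit 1292) (nat_lit 653540273) (nat_lit 382) (nat_lit 5) (nat_lit 381) (nat_lit 5) (nat_lit 398) (nat_lit 5) (nat_lit 400) (nat_lit 385) (nat_lit 235))) (XT.nd (nat_lit 78) (nat_lit 0) (nat_lit 76) (XT.lf (nat_lit 0) (nat_lit 953356407) (nat_lit 1292) (nat_lit 965987396) (nat_lit 1368) (nat_lit 17824457187) (nat_lit 364) (nat_lit 5) (nat_lit 381) (nat_lit 5) (nat_lit 382) (nat_lit 5) (nat_lit 401) (nat_lit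 385) (nat_lit 234)) (XT.lf (nat_lit 0) (nat_lit 2754449355) (nat_lit 1292) (nat_lit 10133234942) (nat_lit 76) (nat_lit 7167525091) (nat_lit 365) (nat_lit 5) (nat_lit 382) (nat_lit 5) (nat_lit 366) (nat_lit 5) (nat_lit 402) (nat_lit 385) (nat_lit 233))))) (XT.nd (nat_lit 312) (nat_lit 1140) (nat_lit 0) (XT.nd (nat_lit 156) (nat_lit 608) (nat_lit 0) (XT.nd (nat_lit 78) (nat_lit 0) (nat_lit 0) (XT.lf (nat_lit 0) (nat_lit 770378905) (nat_lit 836) (nat_lit 3868401250) (nat_lit 912) (nat_lit 15736303730) (nat_lit 354) (nat_lit 5) (nat_lit 365) (nat_lit 5) (nat_lit 366) (nat_lit 5) (nat_lit 403) (nat_lit 385) (nat_lit 232)) (XT.lf (nat_lit 0) (nat_lit 6728192011) (nat_lit 912) (nat_lit 8552205986) (nat_lit 76) (nat_lit 5419700085) (nat_lit 354) (nat_lit 5) (nat_lit 366) (nat_lit 5) (nat_lit 355) (nat_lit 5) (nat_lit 404) (nat_lit 385) (nat_lit 231))) (XT.nd (nat_lit 78) (nat_lit 0) (nat_lit 0) (XT.lf (nat_lit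 0) (nat_lit 2842811164) (nat_lit 608) (nat_lit 6096401741) (nat_lit 684) (nat_lit 12093882001) (nat_lit 346) (nat_lit 5) (nat_lit 354) (nat_lit 5) (nat_lit 355) (nat_lit 5) (nat_lit 405) (nat_lit 385) (nat_lit 230)) (XT.lf (nat_lit 0) (nat_lit 11329546852) (nat_lit 684) (nat_lit 6658052516) (nat_lit 76) (nat_lit 3385092794) (nat_lit 346) (nat_lit 5) (nat_lit 355) (nat_lit 5) (nat_lit 347) (nat_lit 5) (nat_lit 406) (nat_lit 385) (nat_lit 229)))) (XT.nd (nat_lit 156) (nat_lit 532) (nat_lit 0) (XT.nd (nat_lit 78) (nat_lit 0) (nat_lit 0) (XT.lf (nat_lit 0) (nat_lit 5256168519) (nat_lit 608) (nat_lit 8639937872) (nat_lit 684) (nat_lit 7823235476) (nat_lit 338) (nat_lit 5) (nat_lit 346) (nat_lit 5) (nat_lit 347) (nat_lit 5) (nat_lit 407) (nat_lit 385) (nat_lit 228)) (XT.lf (nat_lit 0) (nat_lit 16610817908) (nat_lit 684) (nat_lit 4426550085) (nat_lit 76) (nat_lit 1036888416) (nat_lit 338) (nat_lit 5) (nat_lit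 347) (nat_lit 5) (nat_lit 339) (nat_lit 5) (nat_lit 408) (nat_lit 385) (nat_lit 227))) (XT.nd (nat_lit 78) (nat_lit 0) (nat_lit 0) (XT.lf (nat_lit 0) (nat_lit 8036317929) (nat_lit 532) (nat_lit 11527386108) (nat_lit 608) (nat_lit 2871412351) (nat_lit 331) (nat_lit 5) (nat_lit 338) (nat_lit 5) (nat_lit 339) (nat_lit 5) (nat_lit 409) (nat_lit 385) (nat_lit 226)) (XT.lf (nat_lit 0) (nat_lit 20957744480) (nat_lit 532) (nat_lit 1686189272) (nat_lit 608) (nat_lit 161705705) (nat_lit 331) (nat_lit 5) (nat_lit 338) (nat_lit 5) (nat_lit 339) (nat_lit 5) (nat_lit 410) (nat_lit 385) (nat_lit 225)))))) (XT.nd (nat_lit 546) (nat_lit 2432) (nat_lit 0) (XT.nd (nat_lit 234) (nat_lit 988) (nat_lit 0) (XT.nd (nat_lit 78) (nat_lit 532) (nat_lit 0) (XT.lf (nat_lit 0) (nat_lit 2763024740) (nat_lit 684) (nat_lit 11997858662) (nat_lit 76) (nat_lit 8420085398) (nat_lit 322) (nat_lit 5) (nat_lit 331) (nat_lit 5) (nat_lit 323)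 (nat_lit 5) (nat_lit 411) (nat_lit 385) (nat_lit 224)) (XT.nd (nat_lit 78) (nat_lit 0) (nat_lit 0) (XT.lf (nat_lit 0) (nat_lit 1072253037) (nat_lit 532) (nat_lit 4740124670) (nat_lit 608) (nat_lit 17753928363) (nat_lit 315) (nat_lit 5) (nat_lit 322) (nat_lit 5) (nat_lit 323) (nat_lit 5) (nat_lit 412) (nat_lit 385) (nat_lit 223)) (XT.lf (nat_lit 0) (nat_lit 9123603838) (nat_lit 608) (nat_lit 9240227310) (nat_lit 76) (nat_lit 5594260534) (nat_lit 315) (nat_lit 5) (nat_lit 323) (nat_lit 5) (nat_lit 316) (nat_lit 5) (nat_lit 413) (nat_lit 385) (nat_lit 222)))) (XT.nd (nat_lit 156) (nat_lit 456) (nat_lit 0) (XT.nd (nat_lit 78) (nat_lit 0) (nat_lit 0) (XT.lf (nat_lit 0) (nat_lit 4444979086) (nat_lit 532) (nat_lit 8173398634) (nat_lit 608) (nat_lit 11740726811) (nat_lit 308) (nat_lit 5) (nat_lit 315) (nat_lit 5) (nat_lit 316) (nat_lit 5) (nat_lit 414) (nat_lit 385) (nat_lit 221)) (XT.lf (nat_lit 0) (nat_lit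 16329200820) (nat_lit 608) (nat_lit 6068577608) (nat_lit 76) (nat_lit 2371033159) (nat_lit 308) (nat_lit 5) (nat_lit 316) (nat_lit 5) (nat_lit 309) (nat_lit 5) (nat_lit 415) (nat_lit 385) (nat_lit 220))) (XT.nd (nat_lit 78) (nat_lit 0) (nat_lit 0) (XT.lf (nat_lit 0) (nat_lit 8266770217) (nat_lit 456) (nat_lit 12039770633) (nat_lit 532) (nat_lit 4879613237) (nat_lit 302) (nat_lit 5) (nat_lit 308) (nat_lit 5) (nat_lit 309) (nat_lit 5) (nat_lit 416) (nat_lit 385) (nat_lit 219)) (XT.lf (nat_lit 0) (nat_lit 23150680594) (nat_lit 456) (nat_lit 1308698168) (nat_lit 532) (nat_lit 1154952770) (nat_lit 302) (nat_lit 5) (nat_lit 308) (nat_lit 5) (nat_lit 309) (nat_lit 5) (nat_lit 417) (nat_lit 385) (nat_lit 218))))) (XT.nd (nat_lit 312) (nat_lit 912) (nat_lit 0) (XT.nd (nat_lit 156) (nat_lit 456) (nat_lit 0) (XT.nd (nat_lit 78) (nat_lit 456) (nat_lit 0) (XT.lf (nat_lit 0) (nat_lit 2840749255) (nat_lit 608) (nat_lit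 13505383783) (nat_lit 76) (nat_lit 9702099198) (nat_lit 294) (nat_lit 5) (nat_lit 302) (nat_lit 5) (nat_lit 295) (nat_lit 5) (nat_lit 418) (nat_lit 385) (nat_lit 217)) (XT.lf (nat_lit 0) (nat_lit 1555447483) (nat_lit 456) (nat_lit 5425773717) (nat_lit 532) (nat_lit 19512142337) (nat_lit 288) (nat_lit 5) (nat_lit 294) (nat_lit 5) (nat_lit 295) (nat_lit 5) (nat_lit 419) (nat_lit 385) (nat_lit 216))) (XT.nd (nat_lit 78) (nat_lit 456) (nat_lit 0) (XT.lf (nat_lit 0) (nat_lit 11434757925) (nat_lit 532) (nat_lit 9666108401) (nat_lit 76) (nat_lit 5845316932) (nat_lit 288) (nat_lit 5) (nat_lit 295) (nat_lit 5) (nat_lit 289) (nat_lit 5) (nat_lit 420) (nat_lit 385) (nat_lit 215)) (XT.lf (nat_lit 0) (nat_lit 6123820069) (nat_lit 456) (nat_lit 10005964144) (nat_lit 532) (nat_lit 11279566856) (nat_lit 282) (nat_lit 5) (nat_lit 288) (nat_lit 5) (nat_lit 289) (nat_lit 5) (nat_lit 421) (nat_lit 385) (nat_lit 214))))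 (XT.nd (nat_lit 156) (nat_lit 532) (nat_lit 0) (XT.nd (nat_lit 78) (nat_lit 380) (nat_lit 0) (XT.lf (nat_lit 0) (nat_lit 21073271333) (nat_lit 532) (nat_lit 5318408455) (nat_lit 76) (nat_lit 1491505822) (nat_lit 282) (nat_lit 5) (nat_lit 289) (nat_lit 5) (nat_lit 283) (nat_lit 5) (nat_lit 422) (nat_lit 385) (nat_lit 213)) (XT.lf (nat_lit 0) (nat_lit 11242326957) (nat_lit 380) (nat_lit 15125375915) (nat_lit 456) (nat_lit 1997453123) (nat_lit 277) (nat_lit 5) (nat_lit 282) (nat_lit 5) (nat_lit 283) (nat_lit 5) (nat_lit 423) (nat_lit 385) (nat_lit 212))) (XT.nd (nat_lit 78) (nat_lit 456) (nat_lit 0) (XT.lf (nat_lit 0) (nat_lit 2951406498) (nat_lit 456) (nat_lit 485789879) (nat_lit 76) (nat_lit 25422042508) (nat_lit 276) (nat_lit 5) (nat_lit 282) (nat_lit 5) (nat_lit 277) (nat_lit 5) (nat_lit 424) (nat_lit 385) (nat_lit 211)) (XT.lf (nat_lit 0) (nat_lit 8251722739) (nat_lit 532) (nat_lit 12491394836) (nat_lit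 76) (nat_lit 8617139253) (nat_lit 270) (nat_lit 5) (nat_lit 277) (nat_lit 5) (nat_lit 271) (nat_lit 5) (nat_lit 425) (nat_lit 385) (nat_lit 210))))))) (XT.nd (nat_lit 1170) (nat_lit 2812) (nat_lit 0) (XT.nd (nat_lit 546) (nat_lit 1748) (nat_lit 0) (XT.nd (nat_lit 234) (nat_lit 836) (nat_lit 0) (XT.nd (nat_lit 78) (nat_lit 380) (nat_lit 0) (XT.lf (nat_lit 0) (nat_lit 4934526862) (nat_lit 380) (nat_lit 8858667729) (nat_lit 456) (nat_lit 16080646336) (nat_lit 265) (nat_lit 5) (nat_lit 270) (nat_lit 5) (nat_lit 271) (nat_lit 5) (nat_lit 426) (nat_lit 385) (nat_lit 209)) (XT.nd (nat_lit 78) (nat_lit 380) (nat_lit 0) (XT.lf (nat_lit 0) (nat_lit 19656595222) (nat_lit 456) (nat_lit 7299216976) (nat_lit 76) (nat_lit 3442349811) (nat_lit 265) (nat_lit 5) (nat_lit 271) (nat_lit 5) (nat_lit 266) (nat_lit 5) (nat_lit 427) (nat_lit 385) (nat_lit 208)) (XT.lf (nat_lit 0) (nat_lit 10991325282) (nat_lit 380) (nat_lit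 14893844549) (nat_lit 456) (nat_lit 5047364734) (nat_lit 260) (nat_lit 5) (nat_lit 265) (nat_lit 5) (nat_lit 266) (nat_lit 5) (nat_lit 428) (nat_lit 385) (nat_lit 207)))) (XT.nd (nat_lit 156) (nat_lit 380) (nat_lit 0) (XT.nd (nat_lit 78) (nat_lit 380) (nat_lit 0) (XT.lf (nat_lit 0) (nat_lit 872079142) (nat_lit 456) (nat_lit 1514661355) (nat_lit 76) (nat_lit 29093850865) (nat_lit 259) (nat_lit 5) (nat_lit 265) (nat_lit 5) (nat_lit 260) (nat_lit 5) (nat_lit 429) (nat_lit 385) (nat_lit 206)) (XT.lf (nat_lit 0) (nat_lit 7137451756) (nat_lit 456) (nat_lit 14385854197) (nat_lit 76) (nat_lit 10512190918) (nat_lit 254) (nat_lit 5) (nat_lit 260) (nat_lit 5) (nat_lit 255) (nat_lit 5) (nat_lit 430) (nat_lit 385) (nat_lit 205))) (XT.nd (nat_lit 78) (nat_lit 0) (nat_lit 0) (XT.lf (nat_lit 0) (nat_lit 4879321738) (nat_lit 380) (nat_lit 8793546318) (nat_lit 456) (nat_lit 18931719015) (nat_lit 249) (nat_lit 5) (nat_lit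 254) (nat_lit 5) (nat_lit 255) (nat_lit 5) (nat_lit 431) (nat_lit 385) (nat_lit 204)) (XT.lf (nat_lit 0) (nat_lit 20588710990) (nat_lit 456) (nat_lit 8217479508) (nat_lit 76) (nat_lit 4379028554) (nat_lit 249) (nat_lit 5) (nat_lit 255) (nat_lit 5) (nat_lit 250) (nat_lit 5) (nat_lit 432) (nat_lit 385) (nat_lit 203))))) (XT.nd (nat_lit 312) (nat_lit 684) (nat_lit 0) (XT.nd (nat_lit 156) (nat_lit 684) (nat_lit 0) (XT.nd (nat_lit 78) (nat_lit 76) (nat_lit 0) (XT.lf (nat_lit 0) (nat_lit 12017652792) (nat_lit 304) (nat_lit 15893223081) (nat_lit 380) (nat_lit 5866428721) (nat_lit 245) (nat_lit 5) (nat_lit 249) (nat_lit 5) (nat_lit 250) (nat_lit 5) (nat_lit 433) (nat_lit 385) (nat_lit 202)) (XT.lf (nat_lit 0) (nat_lit 1124844789) (nat_lit 380) (nat_lit 1372789995) (nat_lit 76) (nat_lit 31886808098) (nat_lit 244) (nat_lit 5) (nat_lit 249) (nat_lit 5) (nat_lit 245) (nat_lit 5) (nat_lit 434) (nat_lit 385) (nat_lit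 201))) (XT.nd (nat_lit 78) (nat_lit 304) (nat_lit 0) (XT.lf (nat_lit 0) (nat_lit 8507205655) (nat_lit 456) (nat_lit 15161758494) (nat_lit 76) (nat_lit 11330110908) (nat_lit 239) (nat_lit 5) (nat_lit 245) (nat_lit 5) (nat_lit 240) (nat_lit 5) (nat_lit 435) (nat_lit 385) (nat_lit 200)) (XT.lf (nat_lit 0) (nat_lit 6170441880) (nat_lit 304) (nat_lit 10035069515) (nat_lit 380) (nat_lit 19423800582) (nat_lit 235) (nat_lit 5) (nat_lit 239) (nat_lit 5) (nat_lit 240) (nat_lit 5) (nat_lit 436) (nat_lit 385) (nat_lit 199)))) (XT.nd (nat_lit 156) (nat_lit 380) (nat_lit 0) (XT.nd (nat_lit 78) (nat_lit 304) (nat_lit 0) (XT.lf (nat_lit 0) (nat_lit 24324381293) (nat_lit 380) (nat_lit 7865769393) (nat_lit 76) (nat_lit 4082616869) (nat_lit 235) (nat_lit 5) (nat_lit 240) (nat_lit 5) (nat_lit 236) (nat_lit 5) (nat_lit 437) (nat_lit 385) (nat_lit 198)) (XT.lf (nat_lit 0) (nat_lit 14554660424) (nat_lit 304) (nat_lit 18367994364)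 (nat_lit 380) (nat_lit 4005796888) (nat_lit 231) (nat_lit 5) (nat_lit 235) (nat_lit 5) (nat_lit 236) (nat_lit 5) (nat_lit 438) (nat_lit 385) (nat_lit 197))) (XT.nd (nat_lit 78) (nat_lit 0) (nat_lit 0) (XT.lf (nat_lit 0) (nat_lit 164675603) (nat_lit 304) (nat_lit 4007311890) (nat_lit 380) (nat_lit 33428263188) (nat_lit 226) (nat_lit 5) (nat_lit 230) (nat_lit 5) (nat_lit 231) (nat_lit 5) (nat_lit 439) (nat_lit 385) (nat_lit 196)) (XT.lf (nat_lit 0) (nat_lit 12843049019) (nat_lit 380) (nat_lit 14598223112) (nat_lit 76) (nat_lit 10839887999) (nat_lit 226) (nat_lit 5) (nat_lit 231) (nat_lit 5) (nat_lit 227) (nat_lit 5) (nat_lit 440) (nat_lit 385) (nat_lit 195)))))) (XT.nd (nat_lit 624) (nat_lit 1292) (nat_lit 0) (XT.nd (nat_lit 312) (nat_lit 608) (nat_lit 0) (XT.nd (nat_lit 156) (nat_lit 608) (nat_lit 0) (XT.nd (nat_lit 78) (nat_lit 0) (nat_lit 0) (XT.lf (nat_lit 0) (nat_lit 9056272080) (nat_lit 304) (nat_lit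 12841422991) (nat_lit 380) (nat_lit 17081098211) (nat_lit 222) (nat_lit 5) (nat_lit 226) (nat_lit 5) (nat_lit 227) (nat_lit 5) (nat_lit 441) (nat_lit 385) (nat_lit 194)) (XT.lf (nat_lit 0) (nat_lit 31390719659) (nat_lit 380) (nat_lit 6000906927) (nat_lit 76) (nat_lit 2300726668) (nat_lit 222) (nat_lit 5) (nat_lit 227) (nat_lit 5) (nat_lit 223) (nat_lit 5) (nat_lit 442) (nat_lit 385) (nat_lit 193))) (XT.nd (nat_lit 78) (nat_lit 304) (nat_lit 0) (XT.lf (nat_lit 0) (nat_lit 1035199797) (nat_lit 304) (nat_lit 21553686766) (nat_lit 76) (nat_lit 17828966254) (nat_lit 218) (nat_lit 5) (nat_lit 222) (nat_lit 5) (nat_lit 219) (nat_lit 5) (nat_lit 443) (nat_lit 385) (nat_lit 192)) (XT.lf (nat_lit 0) (nat_lit 3413806158) (nat_lit 304) (nat_lit 7162352159) (nat_lit 380) (nat_lit 30583766975) (nat_lit 214) (nat_lit 5) (nat_lit 218) (nat_lit 5) (nat_lit 219) (nat_lit 5) (nat_lit 444) (nat_lit 385) (nat_lit 191))))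 (XT.nd (nat_lit 156) (nat_lit 380) (nat_lit 0) (XT.nd (nat_lit 78) (nat_lit 228) (nat_lit 0) (XT.lf (nat_lit 0) (nat_lit 20703928843) (nat_lit 380) (nat_lit 12436568230) (nat_lit 76) (nat_lit 8774745372) (nat_lit 214) (nat_lit 5) (nat_lit 219) (nat_lit 5) (nat_lit 215) (nat_lit 5) (nat_lit 445) (nat_lit 385) (nat_lit 190)) (XT.lf (nat_lit 0) (nat_lit 13826353775) (nat_lit 228) (nat_lit 17509980331) (nat_lit 304) (nat_lit 11350860957) (nat_lit 211) (nat_lit 5) (nat_lit 214) (nat_lit 5) (nat_lit 215) (nat_lit 5) (nat_lit 446) (nat_lit 385) (nat_lit 189))) (XT.nd (nat_lit 78) (nat_lit 380) (nat_lit 0) (XT.lf (nat_lit 0) (nat_lit 41127344975) (nat_lit 228) (nat_lit 1282973628) (nat_lit 304) (nat_lit 1068309445) (nat_lit 211) (nat_lit 5) (nat_lit 214) (nat_lit 5) (nat_lit 215) (nat_lit 5) (nat_lit 447) (nat_lit 385) (nat_lit 188)) (XT.lf (nat_lit 0) (nat_lit 9729308809) (nat_lit 380) (nat_lit 19083409347)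 (nat_lit 76) (nat_lit 15466567337) (nat_lit 206) (nat_lit 5) (nat_lit 211) (nat_lit 5) (nat_lit 207) (nat_lit 5) (nat_lit 448) (nat_lit 385) (nat_lit 187))))) (XT.nd (nat_lit 312) (nat_lit 532) (nat_lit 0) (XT.nd (nat_lit 156) (nat_lit 532) (nat_lit 0) (XT.nd (nat_lit 78) (nat_lit 0) (nat_lit 0) (XT.lf (nat_lit 0) (nat_lit 8655076153) (nat_lit 228) (nat_lit 12291290466) (nat_lit 304) (nat_lit 24153769235) (nat_lit 203) (nat_lit 5) (nat_lit 206) (nat_lit 5) (nat_lit 207) (nat_lit 5) (nat_lit 449) (nat_lit 385) (nat_lit 186)) (XT.lf (nat_lit 0) (nat_lit 32737102534) (nat_lit 304) (nat_lit 8374979806) (nat_lit 76) (nat_lit 4826414394) (nat_lit 203) (nat_lit 5) (nat_lit 207) (nat_lit 5) (nat_lit 204) (nat_lit 5) (nat_lit 450) (nat_lit 385) (nat_lit 185))) (XT.nd (nat_lit 78) (nat_lit 304) (nat_lit 0) (XT.lf (nat_lit 0) (nat_lit 20817139868) (nat_lit 228) (nat_lit 24383433681) (nat_lit 304) (nat_lit 1591864502)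 (nat_lit 200) (nat_lit 5) (nat_lit 203) (nat_lit 5) (nat_lit 204) (nat_lit 5) (nat_lit 451) (nat_lit 385) (nat_lit 184)) (XT.lf (nat_lit 0) (nat_lit 3347487436) (nat_lit 228) (nat_lit 6930993289) (nat_lit 304) (nat_lit 37387083366) (nat_lit 196) (nat_lit 5) (nat_lit 199) (nat_lit 5) (nat_lit 200) (nat_lit 5) (nat_lit 452) (nat_lit 385) (nat_lit 183)))) (XT.nd (nat_lit 156) (nat_lit 304) (nat_lit 0) (XT.nd (nat_lit 78) (nat_lit 228) (nat_lit 0) (XT.lf (nat_lit 0) (nat_lit 22841249738) (nat_lit 304) (nat_lit 14603733993) (nat_lit 76) (nat_lit 11108378098) (nat_lit 196) (nat_lit 5) (nat_lit 200) (nat_lit 5) (nat_lit 197) (nat_lit 5) (nat_lit 453) (nat_lit 385) (nat_lit 182)) (XT.lf (nat_lit 0) (nat_lit 16245952406) (nat_lit 228) (nat_lit 19757059756) (nat_lit 304) (nat_lit 13458118028) (nat_lit 193) (nat_lit 5) (nat_lit 196) (nat_lit 5) (nat_lit 197) (nat_lit 5) (nat_lit 454) (nat_lit 385) (nat_lit 181)))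 (XT.nd (nat_lit 78) (nat_lit 304) (nat_lit 0) (XT.lf (nat_lit 0) (nat_lit 48316055657) (nat_lit 228) (nat_lit 1388396894) (nat_lit 304) (nat_lit 687334299) (nat_lit 193) (nat_lit 5) (nat_lit 196) (nat_lit 5) (nat_lit 197) (nat_lit 5) (nat_lit 455) (nat_lit 385) (nat_lit 180)) (XT.lf (nat_lit 0) (nat_lit 12686183407) (nat_lit 304) (nat_lit 21042401262) (nat_lit 76) (nat_lit 17604297105) (nat_lit 189) (nat_lit 5) (nat_lit 193) (nat_lit 5) (nat_lit 190) (nat_lit 5) (nat_lit 456) (nat_lit 385) (nat_lit 179))))))))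
noncomputable def xc195 : XT := (XT.nd (nat_lit 47580) (nat_lit 0) (nat_lit 12616) (XT.nd (nat_lit 1170) (nat_lit 1520) (nat_lit 0) (XT.nd (nat_lit 546) (nat_lit 912) (nat_lit 0) (XT.nd (nat_lit 234) (nat_lit 684) (nat_lit 0) (XT.nd (nat_lit 78) (nat_lit 228) (nat_lit 0) (XT.lf (nat_lit 0) (nat_lit 11569271644) (nat_lit 228) (nat_lit 15021370766) (nat_lit 304) (nat_lit 25707056462) (nat_lit 186) (nat_lit 5) (nat_lit 189) (nat_lit 5) (nat_lit 190) (nat_lit 5) (nat_lit 457) (nat_lit 385) (nat_lit 178)) (XT.nd (nat_lit 78) (nat_lit 228) (nat_lit 0) (XT.lf (nat_lit 0) (nat_lit 41165092227) (nat_lit 304) (nat_lit 7741763342) (nat_lit 76) (nat_lit 4377019202) (nat_lit 186) (nat_lit 5) (nat_lit 190) (nat_lit 5) (nat_lit 187) (nat_lit 5) (nat_lit 458) (nat_lit 385) (nat_lit 177)) (XT.lf (nat_lit 0) (nat_lit 2246432413) (nat_lit 228) (nat_lit 27709018022) (nat_lit 76) (nat_lit 24331466507) (nat_lit 183) (nat_lit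 5) (nat_lit 186) (nat_lit 5) (nat_lit 184) (nat_lit 5) (nat_lit 459) (nat_lit 385) (nat_lit 176)))) (XT.nd (nat_lit 156) (nat_lit 456) (nat_lit 0) (XT.nd (nat_lit 78) (nat_lit 0) (nat_lit 0) (XT.lf (nat_lit 0) (nat_lit 6775322274) (nat_lit 228) (nat_lit 10165308132) (nat_lit 304) (nat_lit 38371572272) (nat_lit 180) (nat_lit 5) (nat_lit 183) (nat_lit 5) (nat_lit 184) (nat_lit 5) (nat_lit 460) (nat_lit 385) (nat_lit 175)) (XT.lf (nat_lit 0) (nat_lit 32453995561) (nat_lit 304) (nat_lit 13602935078) (nat_lit 76) (nat_lit 10299966110) (nat_lit 180) (nat_lit 5) (nat_lit 184) (nat_lit 5) (nat_lit 181) (nat_lit 5) (nat_lit 461) (nat_lit 385) (nat_lit 174))) (XT.nd (nat_lit 78) (nat_lit 304) (nat_lit 0) (XT.lf (nat_lit 0) (nat_lit 22717521922) (nat_lit 152) (nat_lit 26031870076) (nat_lit 228) (nat_lit 8674040734) (nat_lit 178) (nat_lit 5) (nat_lit 180) (nat_lit 5) (nat_lit 181) (nat_lit 5) (nat_lit 462) (nat_lit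 385) (nat_lit 173)) (XT.lf (nat_lit 0) (nat_lit 1851802851) (nat_lit 228) (nat_lit 5177198760) (nat_lit 304) (nat_lit 51486316986) (nat_lit 174) (nat_lit 5) (nat_lit 177) (nat_lit 5) (nat_lit 178) (nat_lit 5) (nat_lit 463) (nat_lit 385) (nat_lit 172))))) (XT.nd (nat_lit 312) (nat_lit 532) (nat_lit 0) (XT.nd (nat_lit 156) (nat_lit 228) (nat_lit 0) (XT.nd (nat_lit 78) (nat_lit 152) (nat_lit 0) (XT.lf (nat_lit 0) (nat_lit 23537071059) (nat_lit 304) (nat_lit 19662009275) (nat_lit 76) (nat_lit 16423055991) (nat_lit 174) (nat_lit 5) (nat_lit 178) (nat_lit 5) (nat_lit 175) (nat_lit 5) (nat_lit 464) (nat_lit 385) (nat_lit 171)) (XT.lf (nat_lit 0) (nat_lit 18760305727) (nat_lit 152) (nat_lit 22009369271) (nat_lit 228) (nat_lit 19985604818) (nat_lit 172) (nat_lit 5) (nat_lit 174) (nat_lit 5) (nat_lit 175) (nat_lit 5) (nat_lit 465) (nat_lit 385) (nat_lit 170))) (XT.nd (nat_lit 78) (nat_lit 228) (nat_lit 0) (XT.lf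 (nat_lit 0) (nat_lit 58715711355) (nat_lit 228) (nat_lit 3182386569) (nat_lit 76) (nat_lit 18426055) (nat_lit 172) (nat_lit 5) (nat_lit 175) (nat_lit 5) (nat_lit 173) (nat_lit 5) (nat_lit 466) (nat_lit 385) (nat_lit 169)) (XT.lf (nat_lit 0) (nat_lit 14392557039) (nat_lit 228) (nat_lit 25935900383) (nat_lit 76) (nat_lit 22762687549) (nat_lit 169) (nat_lit 5) (nat_lit 172) (nat_lit 5) (nat_lit 170) (nat_lit 5) (nat_lit 467) (nat_lit 385) (nat_lit 168)))) (XT.nd (nat_lit 156) (nat_lit 380) (nat_lit 0) (XT.nd (nat_lit 78) (nat_lit 0) (nat_lit 0) (XT.lf (nat_lit 0) (nat_lit 14719463386) (nat_lit 152) (nat_lit 17901659054) (nat_lit 228) (nat_lit 31673779582) (nat_lit 167) (nat_lit 5) (nat_lit 169) (nat_lit 5) (nat_lit 170) (nat_lit 5) (nat_lit 468) (nat_lit 385) (nat_lit 167)) (XT.lf (nat_lit 0) (nat_lit 51708797088) (nat_lit 228) (nat_lit 8457292335) (nat_lit 76) (nat_lit 5359314793) (nat_lit 167) (nat_lit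 5) (nat_lit 170) (nat_lit 5) (nat_lit 168) (nat_lit 5) (nat_lit 469) (nat_lit 385) (nat_lit 166))) (XT.nd (nat_lit 78) (nat_lit 152) (nat_lit 0) (XT.lf (nat_lit 0) (nat_lit 4997609638) (nat_lit 228) (nat_lit 32442385689) (nat_lit 76) (nat_lit 29336187582) (nat_lit 164) (nat_lit 5) (nat_lit 167) (nat_lit 5) (nat_lit 165) (nat_lit 5) (nat_lit 470) (nat_lit 385) (nat_lit 165)) (XT.lf (nat_lit 0) (nat_lit 10585116287) (nat_lit 152) (nat_lit 13699295527) (nat_lit 228) (nat_lit 43770393437) (nat_lit 162) (nat_lit 5) (nat_lit 164) (nat_lit 5) (nat_lit 165) (nat_lit 5) (nat_lit 471) (nat_lit 385) (nat_lit 164)))))) (XT.nd (nat_lit 546) (nat_lit 760) (nat_lit 0) (XT.nd (nat_lit 234) (nat_lit 380) (nat_lit 0) (XT.nd (nat_lit 78) (nat_lit 380) (nat_lit 0) (XT.lf (nat_lit 0) (nat_lit 44581906560) (nat_lit 228) (nat_lit 13903957509) (nat_lit 76) (nat_lit 10872959537) (nat_lit 162) (nat_lit 5) (nat_lit 165) (nat_lit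 5) (nat_lit 163) (nat_lit 5) (nat_lit 472) (nat_lit 385) (nat_lit 163)) (XT.nd (nat_lit 78) (nat_lit 228) (nat_lit 0) (XT.lf (nat_lit 0) (nat_lit 31442920758) (nat_lit 152) (nat_lit 34481222598) (nat_lit 228) (nat_lit 4764744641) (nat_lit 160) (nat_lit 5) (nat_lit 162) (nat_lit 5) (nat_lit 163) (nat_lit 5) (nat_lit 473) (nat_lit 385) (nat_lit 162)) (XT.lf (nat_lit 0) (nat_lit 6346946155) (nat_lit 152) (nat_lit 9392339127) (nat_lit 228) (nat_lit 56308976681) (nat_lit 157) (nat_lit 5) (nat_lit 159) (nat_lit 5) (nat_lit 160) (nat_lit 5) (nat_lit 474) (nat_lit 385) (nat_lit 161)))) (XT.nd (nat_lit 156) (nat_lit 228) (nat_lit 0) (XT.nd (nat_lit 78) (nat_lit 152) (nat_lit 0) (XT.lf (nat_lit 0) (nat_lit 37318964968) (nat_lit 228) (nat_lit 19537362161) (nat_lit 76) (nat_lit 16573985882) (nat_lit 157) (nat_lit 5) (nat_lit 160) (nat_lit 5) (nat_lit 158) (nat_lit 5) (nat_lit 475) (nat_lit 385) (nat_lit 160)) (XT.lf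 (nat_lit 0) (nat_lit 28470421145) (nat_lit 152) (nat_lit 31440286815) (nat_lit 228) (nat_lit 14932177444) (nat_lit 155) (nat_lit 5) (nat_lit 157) (nat_lit 5) (nat_lit 158) (nat_lit 5) (nat_lit 476) (nat_lit 385) (nat_lit 159))) (XT.nd (nat_lit 78) (nat_lit 0) (nat_lit 0) (XT.lf (nat_lit 0) (nat_lit 1994161043) (nat_lit 152) (nat_lit 4970327092) (nat_lit 228) (nat_lit 69324869517) (nat_lit 152) (nat_lit 5) (nat_lit 154) (nat_lit 5) (nat_lit 155) (nat_lit 5) (nat_lit 477) (nat_lit 385) (nat_lit 158)) (XT.lf (nat_lit 0) (nat_lit 29903155417) (nat_lit 228) (nat_lit 25373248476) (nat_lit 76) (nat_lit 22477828163) (nat_lit 152) (nat_lit 5) (nat_lit 155) (nat_lit 5) (nat_lit 153) (nat_lit 5) (nat_lit 478) (nat_lit 385) (nat_lit 157))))) (XT.nd (nat_lit 312) (nat_lit 304) (nat_lit 0) (XT.nd (nat_lit 156) (nat_lit 304) (nat_lit 0) (XT.nd (nat_lit 78) (nat_lit 0) (nat_lit 0) (XT.lf (nat_lit 0) (nat_lit 25460411048)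 (nat_lit 152) (nat_lit 28361597100) (nat_lit 228) (nat_lit 25432283782) (nat_lit 150) (nat_lit 5) (nat_lit 152) (nat_lit 5) (nat_lit 153) (nat_lit 5) (nat_lit 479) (nat_lit 385) (nat_lit 156)) (XT.lf (nat_lit 0) (nat_lit 78335681763) (nat_lit 152) (nat_lit 377060215) (nat_lit 228) (nat_lit 2078982156) (nat_lit 150) (nat_lit 5) (nat_lit 152) (nat_lit 5) (nat_lit 153) (nat_lit 5) (nat_lit 480) (nat_lit 385) (nat_lit 155))) (XT.nd (nat_lit 78) (nat_lit 152) (nat_lit 0) (XT.lf (nat_lit 0) (nat_lit 22316868899) (nat_lit 152) (nat_lit 31428173614) (nat_lit 76) (nat_lit 28600776895) (nat_lit 148) (nat_lit 5) (nat_lit 150) (nat_lit 5) (nat_lit 149) (nat_lit 5) (nat_lit 481) (nat_lit 385) (nat_lit 154)) (XT.lf (nat_lit 0) (nat_lit 22406296229) (nat_lit 152) (nat_lit 25238815733) (nat_lit 228) (nat_lit 36293539000) (nat_lit 146) (nat_lit 5) (nat_lit 148) (nat_lit 5) (nat_lit 149) (nat_lit 5) (nat_lit 482) (nat_lit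 385) (nat_lit 153)))) (XT.nd (nat_lit 156) (nat_lit 152) (nat_lit 0) (XT.nd (nat_lit 78) (nat_lit 152) (nat_lit 0) (XT.lf (nat_lit 0) (nat_lit 74091481190) (nat_lit 228) (nat_lit 7115942779) (nat_lit 76) (nat_lit 4361095126) (nat_lit 146) (nat_lit 5) (nat_lit 149) (nat_lit 5) (nat_lit 147) (nat_lit 4) (nat_lit 483) (nat_lit 385) (nat_lit 152)) (XT.lf (nat_lit 0) (nat_lit 14541651129) (nat_lit 152) (nat_lit 37719565357) (nat_lit 76) (nat_lit 34960029630) (nat_lit 144) (nat_lit 5) (nat_lit 146) (nat_lit 5) (nat_lit 145) (nat_lit 5) (nat_lit 484) (nat_lit 385) (nat_lit 151))) (XT.nd (nat_lit 78) (nat_lit 0) (nat_lit 0) (XT.lf (nat_lit 0) (nat_lit 19301220867) (nat_lit 152) (nat_lit 22065308122) (nat_lit 228) (nat_lit 47545927779) (nat_lit 142) (nat_lit 5) (nat_lit 144) (nat_lit 5) (nat_lit 145) (nat_lit 5) (nat_lit 485) (nat_lit 385) (nat_lit 150)) (XT.lf (nat_lit 0) (nat_lit 69465889044) (nat_lit 228)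 (nat_lit 11931146365) (nat_lit 76) (nat_lit 9243276254) (nat_lit 142) (nat_lit 5) (nat_lit 145) (nat_lit 5) (nat_lit 143) (nat_lit 4) (nat_lit 486) (nat_lit 385) (nat_lit 149))))))) (XT.nd (nat_lit 1170) (nat_lit 5016) (nat_lit 0) (XT.nd (nat_lit 546) (nat_lit 0) (nat_lit 228) (XT.nd (nat_lit 234) (nat_lit 0) (nat_lit 76) (XT.nd (nat_lit 78) (nat_lit 0) (nat_lit 0) (XT.lf (nat_lit 0) (nat_lit 2039075469) (nat_lit 1292) (nat_lit 2976537378) (nat_lit 1292) (nat_lit 2976537378) (nat_lit 374) (nat_lit 3) (nat_lit 391) (nat_lit 3) (nat_lit 391) (nat_lit 5) (nat_lit 386) (nat_lit 386) (nat_lit 248)) (XT.nd (nat_lit 78) (nat_lit 0) (nat_lit 76) (XT.lf (nat_lit 76) (nat_lit 2079657069) (nat_lit 0) (nat_lit 2340787223) (nat_lit 1292) (nat_lit 11795187033) (nat_lit 375) (nat_lit 5) (nat_lit 374) (nat_lit 3) (nat_lit 391) (nat_lit 5) (nat_lit 387) (nat_lit 386) (nat_lit 247)) (XT.lf (nat_lit 0) (nat_lit 4877162266)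 (nat_lit 1216) (nat_lit 6036639911) (nat_lit 1292) (nat_lit 5536975274) (nat_lit 375) (nat_lit 5) (nat_lit 391) (nat_lit 5) (nat_lit 392) (nat_lit 5) (nat_lit 388) (nat_lit 386) (nat_lit 246)))) (XT.nd (nat_lit 156) (nat_lit 0) (nat_lit 76) (XT.nd (nat_lit 78) (nat_lit 0) (nat_lit 76) (XT.lf (nat_lit 76) (nat_lit 2322273305) (nat_lit 0) (nat_lit 3060909023) (nat_lit 1292) (nat_lit 11308727616) (nat_lit 376) (nat_lit 5) (nat_lit 375) (nat_lit 5) (nat_lit 392) (nat_lit 5) (nat_lit 389) (nat_lit 386) (nat_lit 245)) (XT.lf (nat_lit 0) (nat_lit 6004649899) (nat_lit 1216) (nat_lit 5937496863) (nat_lit 1292) (nat_lit 4995121642) (nat_lit 376) (nat_lit 5) (nat_lit 392) (nat_lit 5) (nat_lit 393) (nat_lit 5) (nat_lit 390) (nat_lit 386) (nat_lit 244))) (XT.nd (nat_lit 78) (nat_lit 0) (nat_lit 76) (XT.lf (nat_lit 76) (nat_lit 2765621039) (nat_lit 0) (nat_lit 3926688653) (nat_lit 1292) (nat_lit 10496251481) (nat_lit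 377) (nat_lit 5) (nat_lit 376) (nat_lit 5) (nat_lit 393) (nat_lit 5) (nat_lit 391) (nat_lit 386) (nat_lit 243)) (XT.lf (nat_lit 0) (nat_lit 7493674872) (nat_lit 1216) (nat_lit 5642157125) (nat_lit 1292) (nat_lit 4308768459) (nat_lit 377) (nat_lit 5) (nat_lit 393) (nat_lit 5) (nat_lit 394) (nat_lit 5) (nat_lit 392) (nat_lit 386) (nat_lit 242))))) (XT.nd (nat_lit 312) (nat_lit 0) (nat_lit 152) (XT.nd (nat_lit 156) (nat_lit 0) (nat_lit 76) (XT.nd (nat_lit 78) (nat_lit 0) (nat_lit 76) (XT.lf (nat_lit 76) (nat_lit 3424263227) (nat_lit 0) (nat_lit 4957786412) (nat_lit 1292) (nat_lit 9324382222) (nat_lit 378) (nat_lit 5) (nat_lit 377) (nat_lit 5) (nat_lit 394) (nat_lit 5) (nat_lit 393) (nat_lit 386) (nat_lit 241)) (XT.lf (nat_lit 0) (nat_lit 9379333271) (nat_lit 1216) (nat_lit 5135910323) (nat_lit 1292) (nat_lit 3458406883) (nat_lit 378) (nat_lit 5) (nat_lit 394) (nat_lit 5) (nat_lit 395) (nat_lit 5) (nat_lit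 394) (nat_lit 386) (nat_lit 240))) (XT.nd (nat_lit 78) (nat_lit 0) (nat_lit 76) (XT.lf (nat_lit 76) (nat_lit 4314046216) (nat_lit 0) (nat_lit 6174701092) (nat_lit 1292) (nat_lit 7757671988) (nat_lit 379) (nat_lit 5) (nat_lit 378) (nat_lit 5) (nat_lit 395) (nat_lit 5) (nat_lit 395) (nat_lit 386) (nat_lit 239)) (XT.lf (nat_lit 0) (nat_lit 11698911471) (nat_lit 1216) (nat_lit 4402767258) (nat_lit 1292) (nat_lit 2423668418) (nat_lit 379) (nat_lit 5) (nat_lit 395) (nat_lit 5) (nat_lit 396) (nat_lit 5) (nat_lit 396) (nat_lit 386) (nat_lit 238)))) (XT.nd (nat_lit 156) (nat_lit 0) (nat_lit 76) (XT.nd (nat_lit 78) (nat_lit 0) (nat_lit 76) (XT.lf (nat_lit 76) (nat_lit 5452160608) (nat_lit 0) (nat_lit 7598868957) (nat_lit 1292) (nat_lit 5758443799) (nat_lit 380) (nat_lit 5) (nat_lit 379) (nat_lit 5) (nat_lit 396) (nat_lit 5) (nat_lit 397) (nat_lit 386) (nat_lit 237)) (XT.lf (nat_lit 0) (nat_lit 14492049201) (nat_lit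 1216) (nat_lit 3425397464) (nat_lit 1292) (nat_lit 1183226564) (nat_lit 380) (nat_lit 5) (nat_lit 396) (nat_lit 5) (nat_lit 397) (nat_lit 5) (nat_lit 398) (nat_lit 386) (nat_lit 236))) (XT.nd (nat_lit 78) (nat_lit 0) (nat_lit 0) (XT.lf (nat_lit 76) (nat_lit 6857207833) (nat_lit 0) (nat_lit 9252765178) (nat_lit 1292) (nat_lit 3286625870) (nat_lit 381) (nat_lit 5) (nat_lit 380) (nat_lit 5) (nat_lit 397) (nat_lit 5) (nat_lit 399) (nat_lit 386) (nat_lit 235)) (XT.lf (nat_lit 76) (nat_lit 17512725884) (nat_lit 0) (nat_lit 290982264) (nat_lit 1292) (nat_lit 1896875946) (nat_lit 381) (nat_lit 5) (nat_lit 380) (nat_lit 5) (nat_lit 397) (nat_lit 5) (nat_lit 400) (nat_lit 386) (nat_lit 234)))))) (XT.nd (nat_lit 624) (nat_lit 2280) (nat_lit 0) (XT.nd (nat_lit 312) (nat_lit 1216) (nat_lit 0) (XT.nd (nat_lit 156) (nat_lit 760) (nat_lit 0) (XT.nd (nat_lit 78) (nat_lit 1292) (nat_lit 0) (XT.lf (nat_lit 76) (nat_lit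 8549272616) (nat_lit 0) (nat_lit 11160008206) (nat_lit 1292) (nat_lit 299577277) (nat_lit 382) (nat_lit 5) (nat_lit 381) (nat_lit 5) (nat_lit 398) (nat_lit 5) (nat_lit 401) (nat_lit 386) (nat_lit 233)) (XT.lf (nat_lit 0) (nat_lit 1337568287) (nat_lit 1292) (nat_lit 694309936) (nat_lit 1368) (nat_lit 18293568461) (nat_lit 364) (nat_lit 5) (nat_lit 381) (nat_lit 5) (nat_lit 382) (nat_lit 5) (nat_lit 402) (nat_lit 386) (nat_lit 232))) (XT.nd (nat_lit 78) (nat_lit 836) (nat_lit 0) (XT.lf (nat_lit 0) (nat_lit 3184713649) (nat_lit 1292) (nat_lit 10128594535) (nat_lit 76) (nat_lit 7333128561) (nat_lit 365) (nat_lit 5) (nat_lit 382) (nat_lit 5) (nat_lit 366) (nat_lit 5) (nat_lit 403) (nat_lit 386) (nat_lit 231)) (XT.lf (nat_lit 0) (nat_lit 1099101870) (nat_lit 836) (nat_lit 4019285059) (nat_lit 912) (nat_lit 15857736171) (nat_lit 354) (nat_lit 5) (nat_lit 365) (nat_lit 5) (nat_lit 366) (nat_lit 5) (nat_lit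 404) (nat_lit 386) (nat_lit 230)))) (XT.nd (nat_lit 156) (nat_lit 608) (nat_lit 0) (XT.nd (nat_lit 78) (nat_lit 608) (nat_lit 0) (XT.lf (nat_lit 0) (nat_lit 7260240242) (nat_lit 912) (nat_lit 8501820978) (nat_lit 76) (nat_lit 5549133730) (nat_lit 354) (nat_lit 5) (nat_lit 366) (nat_lit 5) (nat_lit 355) (nat_lit 5) (nat_lit 405) (nat_lit 386) (nat_lit 229)) (XT.lf (nat_lit 0) (nat_lit 3232037362) (nat_lit 608) (nat_lit 6298858529) (nat_lit 684) (nat_lit 12123486664) (nat_lit 346) (nat_lit 5) (nat_lit 354) (nat_lit 5) (nat_lit 355) (nat_lit 5) (nat_lit 406) (nat_lit 386) (nat_lit 228))) (XT.nd (nat_lit 78) (nat_lit 608) (nat_lit 0) (XT.lf (nat_lit 0) (nat_lit 11983334743) (nat_lit 684) (nat_lit 6553099792) (nat_lit 76) (nat_lit 3468021347) (nat_lit 346) (nat_lit 5) (nat_lit 355) (nat_lit 5) (nat_lit 347) (nat_lit 5) (nat_lit 407) (nat_lit 386) (nat_lit 227)) (XT.lf (nat_lit 0) (nat_lit 5715560675) (nat_lit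 608) (nat_lit 8905087825) (nat_lit 684) (nat_lit 7741043856) (nat_lit 338) (nat_lit 5) (nat_lit 346) (nat_lit 5) (nat_lit 347) (nat_lit 5) (nat_lit 408) (nat_lit 386) (nat_lit 226))))) (XT.nd (nat_lit 312) (nat_lit 1064) (nat_lit 0) (XT.nd (nat_lit 156) (nat_lit 684) (nat_lit 0) (XT.nd (nat_lit 78) (nat_lit 532) (nat_lit 0) (XT.lf (nat_lit 0) (nat_lit 17407784877) (nat_lit 684) (nat_lit 4257410586) (nat_lit 76) (nat_lit 1062329364) (nat_lit 338) (nat_lit 5) (nat_lit 347) (nat_lit 5) (nat_lit 339) (nat_lit 5) (nat_lit 409) (nat_lit 386) (nat_lit 225)) (XT.lf (nat_lit 0) (nat_lit 8576383311) (nat_lit 532) (nat_lit 11867049895) (nat_lit 608) (nat_lit 2655952132) (nat_lit 331) (nat_lit 5) (nat_lit 338) (nat_lit 5) (nat_lit 339) (nat_lit 5) (nat_lit 410) (nat_lit 386) (nat_lit 224))) (XT.nd (nat_lit 78) (nat_lit 608) (nat_lit 0) (XT.lf (nat_lit 0) (nat_lit 123797360) (nat_lit 608) (nat_lit 1605749036) (nat_lit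 76) (nat_lit 21751697153) (nat_lit 330) (nat_lit 5) (nat_lit 338) (nat_lit 5) (nat_lit 331) (nat_lit 5) (nat_lit 411) (nat_lit 386) (nat_lit 223)) (XT.lf (nat_lit 0) (nat_lit 3127585349) (nat_lit 684) (nat_lit 12056378431) (nat_lit 76) (nat_lit 8683983989) (nat_lit 322) (nat_lit 5) (nat_lit 331) (nat_lit 5) (nat_lit 323) (nat_lit 5) (nat_lit 412) (nat_lit 386) (nat_lit 222)))) (XT.nd (nat_lit 156) (nat_lit 532) (nat_lit 0) (XT.nd (nat_lit 78) (nat_lit 0) (nat_lit 0) (XT.lf (nat_lit 0) (nat_lit 1402881560) (nat_lit 532) (nat_lit 4860202357) (nat_lit 608) (nat_lit 18001921289) (nat_lit 315) (nat_lit 5) (nat_lit 322) (nat_lit 5) (nat_lit 323) (nat_lit 5) (nat_lit 413) (nat_lit 386) (nat_lit 221)) (XT.lf (nat_lit 0) (nat_lit 9665804737) (nat_lit 608) (nat_lit 9219824140) (nat_lit 76) (nat_lit 5783150771) (nat_lit 315) (nat_lit 5) (nat_lit 323) (nat_lit 5) (nat_lit 316) (nat_lit 5) (nat_lit 414) (nat_lit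 386) (nat_lit 220))) (XT.nd (nat_lit 78) (nat_lit 0) (nat_lit 0) (XT.lf (nat_lit 0) (nat_lit 4873020703) (nat_lit 532) (nat_lit 8387413717) (nat_lit 608) (nat_lit 11821538086) (nat_lit 308) (nat_lit 5) (nat_lit 315) (nat_lit 5) (nat_lit 316) (nat_lit 5) (nat_lit 415) (nat_lit 386) (nat_lit 219)) (XT.lf (nat_lit 0) (nat_lit 17075198355) (nat_lit 608) (nat_lit 5957142103) (nat_lit 76) (nat_lit 2471851831) (nat_lit 308) (nat_lit 5) (nat_lit 316) (nat_lit 5) (nat_lit 309) (nat_lit 5) (nat_lit 416) (nat_lit 386) (nat_lit 218))))))))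
noncomputable def xc196 : XT := (XT.nd (nat_lit 2340) (nat_lit 4484) (nat_lit 0) (XT.nd (nat_lit 1170) (nat_lit 3040) (nat_lit 0) (XT.nd (nat_lit 546) (nat_lit 2128) (nat_lit 0) (XT.nd (nat_lit 234) (nat_lit 912) (nat_lit 0) (XT.nd (nat_lit 78) (nat_lit 608) (nat_lit 0) (XT.lf (nat_lit 0) (nat_lit 8805388776) (nat_lit 456) (nat_lit 12361803534) (nat_lit 532) (nat_lit 4767002743) (nat_lit 302) (nat_lit 5) (nat_lit 308) (nat_lit 5) (nat_lit 309) (nat_lit 5) (nat_lit 417) (nat_lit 386) (nat_lit 217)) (XT.nd (nat_lit 78) (nat_lit 608) (nat_lit 0) (XT.lf (nat_lit 0) (nat_lit 24127351936) (nat_lit 456) (nat_lit 1309939483) (nat_lit 532) (nat_lit 938146120) (nat_lit 302) (nat_lit 5) (nat_lit 308) (nat_lit 5) (nat_lit 309) (nat_lit 5) (nat_lit 418) (nat_lit 386) (nat_lit 216)) (XT.lf (nat_lit 0) (nat_lit 3168476579) (nat_lit 608) (nat_lit 13619443984) (nat_lit 76) (nat_lit 10034483494) (nat_lit 294) (nat_lit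 5) (nat_lit 302) (nat_lit 5) (nat_lit 295) (nat_lit 5) (nat_lit 419) (nat_lit 386) (nat_lit 215)))) (XT.nd (nat_lit 156) (nat_lit 456) (nat_lit 0) (XT.nd (nat_lit 78) (nat_lit 0) (nat_lit 0) (XT.lf (nat_lit 0) (nat_lit 1890358285) (nat_lit 456) (nat_lit 5538511960) (nat_lit 532) (nat_lit 19852147825) (nat_lit 288) (nat_lit 5) (nat_lit 294) (nat_lit 5) (nat_lit 295) (nat_lit 5) (nat_lit 420) (nat_lit 386) (nat_lit 214)) (XT.lf (nat_lit 0) (nat_lit 12009541805) (nat_lit 532) (nat_lit 9669768563) (nat_lit 76) (nat_lit 6068306155) (nat_lit 288) (nat_lit 5) (nat_lit 295) (nat_lit 5) (nat_lit 289) (nat_lit 5) (nat_lit 421) (nat_lit 386) (nat_lit 213))) (XT.nd (nat_lit 78) (nat_lit 0) (nat_lit 0) (XT.lf (nat_lit 0) (nat_lit 6591050672) (nat_lit 456) (nat_lit 10250343796) (nat_lit 532) (nat_lit 11383405631) (nat_lit 282) (nat_lit 5) (nat_lit 288) (nat_lit 5) (nat_lit 289) (nat_lit 5) (nat_lit 422) (nat_lit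 386) (nat_lit 212)) (XT.lf (nat_lit 0) (nat_lit 21927074430) (nat_lit 532) (nat_lit 5196590683) (nat_lit 76) (nat_lit 1589367917) (nat_lit 282) (nat_lit 5) (nat_lit 289) (nat_lit 5) (nat_lit 283) (nat_lit 5) (nat_lit 423) (nat_lit 386) (nat_lit 211))))) (XT.nd (nat_lit 312) (nat_lit 836) (nat_lit 0) (XT.nd (nat_lit 156) (nat_lit 836) (nat_lit 0) (XT.nd (nat_lit 78) (nat_lit 76) (nat_lit 0) (XT.lf (nat_lit 0) (nat_lit 11858208261) (nat_lit 380) (nat_lit 15518354325) (nat_lit 456) (nat_lit 1833013231) (nat_lit 277) (nat_lit 5) (nat_lit 282) (nat_lit 5) (nat_lit 283) (nat_lit 5) (nat_lit 424) (nat_lit 386) (nat_lit 210)) (XT.lf (nat_lit 0) (nat_lit 3253526699) (nat_lit 456) (nat_lit 225616357) (nat_lit 76) (nat_lit 26239465655) (nat_lit 276) (nat_lit 5) (nat_lit 282) (nat_lit 5) (nat_lit 277) (nat_lit 5) (nat_lit 425) (nat_lit 386) (nat_lit 209))) (XT.nd (nat_lit 78) (nat_lit 380) (nat_lit 0) (XT.lf (nat_lit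 0) (nat_lit 8709843617) (nat_lit 532) (nat_lit 12588380652) (nat_lit 76) (nat_lit 8936523188) (nat_lit 270) (nat_lit 5) (nat_lit 277) (nat_lit 5) (nat_lit 271) (nat_lit 5) (nat_lit 426) (nat_lit 386) (nat_lit 208)) (XT.lf (nat_lit 0) (nat_lit 5357595599) (nat_lit 380) (nat_lit 9056474727) (nat_lit 456) (nat_lit 16349773432) (nat_lit 265) (nat_lit 5) (nat_lit 270) (nat_lit 5) (nat_lit 271) (nat_lit 5) (nat_lit 427) (nat_lit 386) (nat_lit 207)))) (XT.nd (nat_lit 156) (nat_lit 456) (nat_lit 0) (XT.nd (nat_lit 78) (nat_lit 380) (nat_lit 0) (XT.lf (nat_lit 0) (nat_lit 20447975704) (nat_lit 456) (nat_lit 7245773949) (nat_lit 76) (nat_lit 3610306737) (nat_lit 265) (nat_lit 5) (nat_lit 271) (nat_lit 5) (nat_lit 266) (nat_lit 5) (nat_lit 428) (nat_lit 386) (nat_lit 206)) (XT.lf (nat_lit 0) (nat_lit 11590813797) (nat_lit 380) (nat_lit 15269312493) (nat_lit 456) (nat_lit 4994432271) (nat_lit 260) (nat_lit 5) (nat_lit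 265) (nat_lit 5) (nat_lit 266) (nat_lit 5) (nat_lit 429) (nat_lit 386) (nat_lit 205))) (XT.nd (nat_lit 78) (nat_lit 380) (nat_lit 0) (XT.lf (nat_lit 0) (nat_lit 1092771355) (nat_lit 456) (nat_lit 1294337674) (nat_lit 76) (nat_lit 30032064178) (nat_lit 259) (nat_lit 5) (nat_lit 265) (nat_lit 5) (nat_lit 260) (nat_lit 5) (nat_lit 430) (nat_lit 386) (nat_lit 204)) (XT.lf (nat_lit 0) (nat_lit 7543658709) (nat_lit 456) (nat_lit 14549219864) (nat_lit 76) (nat_lit 10897920703) (nat_lit 254) (nat_lit 5) (nat_lit 260) (nat_lit 5) (nat_lit 255) (nat_lit 5) (nat_lit 431) (nat_lit 386) (nat_lit 203)))))) (XT.nd (nat_lit 546) (nat_lit 1596) (nat_lit 0) (XT.nd (nat_lit 234) (nat_lit 760) (nat_lit 0) (XT.nd (nat_lit 78) (nat_lit 304) (nat_lit 0) (XT.lf (nat_lit 0) (nat_lit 5291281841) (nat_lit 380) (nat_lit 8980813917) (nat_lit 456) (nat_lit 19304957676) (nat_lit 249) (nat_lit 5) (nat_lit 254) (nat_lit 5) (nat_lit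 255) (nat_lit 5) (nat_lit 432) (nat_lit 386) (nat_lit 202)) (XT.nd (nat_lit 78) (nat_lit 304) (nat_lit 0) (XT.lf (nat_lit 0) (nat_lit 21390622220) (nat_lit 456) (nat_lit 8201367037) (nat_lit 76) (nat_lit 4583258870) (nat_lit 249) (nat_lit 5) (nat_lit 255) (nat_lit 5) (nat_lit 250) (nat_lit 5) (nat_lit 433) (nat_lit 386) (nat_lit 201)) (XT.lf (nat_lit 0) (nat_lit 12638244361) (nat_lit 304) (nat_lit 16291341061) (nat_lit 380) (nat_lit 5855596811) (nat_lit 245) (nat_lit 5) (nat_lit 249) (nat_lit 5) (nat_lit 250) (nat_lit 5) (nat_lit 434) (nat_lit 386) (nat_lit 200)))) (XT.nd (nat_lit 156) (nat_lit 304) (nat_lit 0) (XT.nd (nat_lit 78) (nat_lit 380) (nat_lit 0) (XT.lf (nat_lit 0) (nat_lit 1336433965) (nat_lit 380) (nat_lit 1157946889) (nat_lit 76) (nat_lit 32916259999) (nat_lit 244) (nat_lit 5) (nat_lit 249) (nat_lit 5) (nat_lit 245) (nat_lit 5) (nat_lit 435) (nat_lit 386) (nat_lit 199)) (XT.lf (nat_lit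 0) (nat_lit 8938276479) (nat_lit 456) (nat_lit 15358595265) (nat_lit 76) (nat_lit 11746899926) (nat_lit 239) (nat_lit 5) (nat_lit 245) (nat_lit 5) (nat_lit 240) (nat_lit 5) (nat_lit 436) (nat_lit 386) (nat_lit 198))) (XT.nd (nat_lit 78) (nat_lit 0) (nat_lit 0) (XT.lf (nat_lit 0) (nat_lit 6611041552) (nat_lit 304) (nat_lit 10253823751) (nat_lit 380) (nat_lit 19828130377) (nat_lit 235) (nat_lit 5) (nat_lit 239) (nat_lit 5) (nat_lit 240) (nat_lit 5) (nat_lit 437) (nat_lit 386) (nat_lit 197)) (XT.lf (nat_lit 0) (nat_lit 25223025026) (nat_lit 380) (nat_lit 7849421140) (nat_lit 76) (nat_lit 4283437048) (nat_lit 235) (nat_lit 5) (nat_lit 240) (nat_lit 5) (nat_lit 236) (nat_lit 5) (nat_lit 438) (nat_lit 386) (nat_lit 196))))) (XT.nd (nat_lit 312) (nat_lit 608) (nat_lit 0) (XT.nd (nat_lit 156) (nat_lit 304) (nat_lit 0) (XT.nd (nat_lit 78) (nat_lit 380) (nat_lit 0) (XT.lf (nat_lit 0) (nat_lit 15241147833) (nat_lit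 304) (nat_lit 18835580806) (nat_lit 380) (nat_lit 3954584762) (nat_lit 231) (nat_lit 5) (nat_lit 235) (nat_lit 5) (nat_lit 236) (nat_lit 5) (nat_lit 439) (nat_lit 386) (nat_lit 195)) (XT.lf (nat_lit 0) (nat_lit 420325552) (nat_lit 304) (nat_lit 4042378797) (nat_lit 380) (nat_lit 34260587135) (nat_lit 226) (nat_lit 5) (nat_lit 230) (nat_lit 5) (nat_lit 231) (nat_lit 5) (nat_lit 440) (nat_lit 386) (nat_lit 194))) (XT.nd (nat_lit 78) (nat_lit 304) (nat_lit 0) (XT.lf (nat_lit 0) (nat_lit 13389870362) (nat_lit 380) (nat_lit 14788734989) (nat_lit 76) (nat_lit 11246143686) (nat_lit 226) (nat_lit 5) (nat_lit 231) (nat_lit 5) (nat_lit 227) (nat_lit 5) (nat_lit 441) (nat_lit 386) (nat_lit 193)) (XT.lf (nat_lit 0) (nat_lit 9572969227) (nat_lit 304) (nat_lit 13140836991) (nat_lit 380) (nat_lit 17429575454) (nat_lit 222) (nat_lit 5) (nat_lit 226) (nat_lit 5) (nat_lit 227) (nat_lit 5) (nat_lit 442) (nat_lit 386)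 (nat_lit 192)))) (XT.nd (nat_lit 156) (nat_lit 304) (nat_lit 0) (XT.nd (nat_lit 78) (nat_lit 304) (nat_lit 0) (XT.lf (nat_lit 0) (nat_lit 32487786232) (nat_lit 380) (nat_lit 5939226022) (nat_lit 76) (nat_lit 2451451248) (nat_lit 222) (nat_lit 5) (nat_lit 227) (nat_lit 5) (nat_lit 223) (nat_lit 5) (nat_lit 443) (nat_lit 386) (nat_lit 191)) (XT.lf (nat_lit 0) (nat_lit 1220892880) (nat_lit 304) (nat_lit 21957881363) (nat_lit 76) (nat_lit 18446975046) (nat_lit 218) (nat_lit 5) (nat_lit 222) (nat_lit 5) (nat_lit 219) (nat_lit 5) (nat_lit 444) (nat_lit 386) (nat_lit 190))) (XT.nd (nat_lit 78) (nat_lit 0) (nat_lit 0) (XT.lf (nat_lit 0) (nat_lit 3756259721) (nat_lit 304) (nat_lit 7289623847) (nat_lit 380) (nat_lit 31344266268) (nat_lit 214) (nat_lit 5) (nat_lit 218) (nat_lit 5) (nat_lit 219) (nat_lit 5) (nat_lit 445) (nat_lit 386) (nat_lit 189)) (XT.lf (nat_lit 0) (nat_lit 21473864724) (nat_lit 380) (nat_lit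 12572994850) (nat_lit 76) (nat_lit 9121375604) (nat_lit 214) (nat_lit 5) (nat_lit 219) (nat_lit 5) (nat_lit 215) (nat_lit 5) (nat_lit 446) (nat_lit 386) (nat_lit 188))))))) (XT.nd (nat_lit 1170) (nat_lit 1900) (nat_lit 0) (XT.nd (nat_lit 546) (nat_lit 1216) (nat_lit 0) (XT.nd (nat_lit 234) (nat_lit 760) (nat_lit 0) (XT.nd (nat_lit 78) (nat_lit 380) (nat_lit 0) (XT.lf (nat_lit 0) (nat_lit 14475494517) (nat_lit 228) (nat_lit 17947665839) (nat_lit 304) (nat_lit 11540248472) (nat_lit 211) (nat_lit 5) (nat_lit 214) (nat_lit 5) (nat_lit 215) (nat_lit 5) (nat_lit 447) (nat_lit 386) (nat_lit 187)) (XT.nd (nat_lit 78) (nat_lit 380) (nat_lit 0) (XT.lf (nat_lit 0) (nat_lit 42588689721) (nat_lit 228) (nat_lit 1236400796) (nat_lit 304) (nat_lit 953622501) (nat_lit 211) (nat_lit 5) (nat_lit 214) (nat_lit 5) (nat_lit 215) (nat_lit 5) (nat_lit 448) (nat_lit 386) (nat_lit 186)) (XT.lf (nat_lit 0) (nat_lit 10163892515)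 (nat_lit 380) (nat_lit 19424355446) (nat_lit 76) (nat_lit 16015134964) (nat_lit 206) (nat_lit 5) (nat_lit 211) (nat_lit 5) (nat_lit 207) (nat_lit 5) (nat_lit 449) (nat_lit 386) (nat_lit 185)))) (XT.nd (nat_lit 156) (nat_lit 532) (nat_lit 0) (XT.nd (nat_lit 78) (nat_lit 0) (nat_lit 0) (XT.lf (nat_lit 0) (nat_lit 9144014461) (nat_lit 228) (nat_lit 12571495197) (nat_lit 304) (nat_lit 24733407711) (nat_lit 203) (nat_lit 5) (nat_lit 206) (nat_lit 5) (nat_lit 207) (nat_lit 5) (nat_lit 450) (nat_lit 386) (nat_lit 184)) (XT.lf (nat_lit 0) (nat_lit 33856694331) (nat_lit 304) (nat_lit 8400348092) (nat_lit 76) (nat_lit 5055484852) (nat_lit 203) (nat_lit 5) (nat_lit 207) (nat_lit 5) (nat_lit 204) (nat_lit 5) (nat_lit 451) (nat_lit 386) (nat_lit 183))) (XT.nd (nat_lit 78) (nat_lit 304) (nat_lit 0) (XT.lf (nat_lit 0) (nat_lit 21665320651) (nat_lit 228) (nat_lit 25026894610) (nat_lit 304) (nat_lit 1499927195) (nat_lit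 200) (nat_lit 5) (nat_lit 203) (nat_lit 5) (nat_lit 204) (nat_lit 5) (nat_lit 452) (nat_lit 386) (nat_lit 182)) (XT.lf (nat_lit 0) (nat_lit 3672085030) (nat_lit 228) (nat_lit 7049882988) (nat_lit 304) (nat_lit 38369509009) (nat_lit 196) (nat_lit 5) (nat_lit 199) (nat_lit 5) (nat_lit 200) (nat_lit 5) (nat_lit 453) (nat_lit 386) (nat_lit 181))))) (XT.nd (nat_lit 312) (nat_lit 684) (nat_lit 0) (XT.nd (nat_lit 156) (nat_lit 304) (nat_lit 0) (XT.nd (nat_lit 78) (nat_lit 228) (nat_lit 0) (XT.lf (nat_lit 0) (nat_lit 23658515171) (nat_lit 304) (nat_lit 14821097421) (nat_lit 76) (nat_lit 11526389254) (nat_lit 196) (nat_lit 5) (nat_lit 200) (nat_lit 5) (nat_lit 197) (nat_lit 5) (nat_lit 454) (nat_lit 386) (nat_lit 180)) (XT.lf (nat_lit 0) (nat_lit 16951915368) (nat_lit 228) (nat_lit 20261470793) (nat_lit 304) (nat_lit 13727669426) (nat_lit 193) (nat_lit 5) (nat_lit 196) (nat_lit 5) (nat_lit 197) (nat_lit 5) (nat_lit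 455) (nat_lit 386) (nat_lit 179))) (XT.nd (nat_lit 78) (nat_lit 304) (nat_lit 0) (XT.lf (nat_lit 0) (nat_lit 49977755181) (nat_lit 228) (nat_lit 1344319912) (nat_lit 304) (nat_lit 577670694) (nat_lit 193) (nat_lit 5) (nat_lit 196) (nat_lit 5) (nat_lit 197) (nat_lit 5) (nat_lit 456) (nat_lit 386) (nat_lit 178)) (XT.lf (nat_lit 0) (nat_lit 13193666139) (nat_lit 304) (nat_lit 21458069042) (nat_lit 76) (nat_lit 18217326129) (nat_lit 189) (nat_lit 5) (nat_lit 193) (nat_lit 5) (nat_lit 190) (nat_lit 5) (nat_lit 457) (nat_lit 386) (nat_lit 177)))) (XT.nd (nat_lit 156) (nat_lit 456) (nat_lit 0) (XT.nd (nat_lit 78) (nat_lit 0) (nat_lit 0) (XT.lf (nat_lit 0) (nat_lit 12129840284) (nat_lit 228) (nat_lit 15383774794) (nat_lit 304) (nat_lit 26349257158) (nat_lit 186) (nat_lit 5) (nat_lit 189) (nat_lit 5) (nat_lit 190) (nat_lit 5) (nat_lit 458) (nat_lit 386) (nat_lit 176)) (XT.lf (nat_lit 0) (nat_lit 42522473716)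 (nat_lit 304) (nat_lit 7763919249) (nat_lit 76) (nat_lit 4592325187) (nat_lit 186) (nat_lit 5) (nat_lit 190) (nat_lit 5) (nat_lit 187) (nat_lit 5) (nat_lit 459) (nat_lit 386) (nat_lit 175))) (XT.nd (nat_lit 78) (nat_lit 228) (nat_lit 0) (XT.lf (nat_lit 0) (nat_lit 2435884664) (nat_lit 228) (nat_lit 28329822125) (nat_lit 76) (nat_lit 25146155884) (nat_lit 183) (nat_lit 5) (nat_lit 186) (nat_lit 5) (nat_lit 184) (nat_lit 5) (nat_lit 460) (nat_lit 386) (nat_lit 174)) (XT.lf (nat_lit 0) (nat_lit 7186984983) (nat_lit 228) (nat_lit 10382371786) (nat_lit 304) (nat_lit 39398596765) (nat_lit 180) (nat_lit 5) (nat_lit 183) (nat_lit 5) (nat_lit 184) (nat_lit 5) (nat_lit 461) (nat_lit 386) (nat_lit 173)))))) (XT.nd (nat_lit 624) (nat_lit 912) (nat_lit 0) (XT.nd (nat_lit 312) (nat_lit 532) (nat_lit 0) (XT.nd (nat_lit 156) (nat_lit 304) (nat_lit 0) (XT.nd (nat_lit 78) (nat_lit 152) (nat_lit 0) (XT.lf (nat_lit 0)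 (nat_lit 33545433251) (nat_lit 304) (nat_lit 13806000452) (nat_lit 76) (nat_lit 10692635414) (nat_lit 180) (nat_lit 5) (nat_lit 184) (nat_lit 5) (nat_lit 181) (nat_lit 5) (nat_lit 462) (nat_lit 386) (nat_lit 172)) (XT.lf (nat_lit 0) (nat_lit 23602060232) (nat_lit 152) (nat_lit 26726151244) (nat_lit 228) (nat_lit 8814434107) (nat_lit 178) (nat_lit 5) (nat_lit 180) (nat_lit 5) (nat_lit 181) (nat_lit 5) (nat_lit 463) (nat_lit 386) (nat_lit 171))) (XT.nd (nat_lit 78) (nat_lit 0) (nat_lit 0) (XT.lf (nat_lit 0) (nat_lit 2110694618) (nat_lit 228) (nat_lit 5245199197) (nat_lit 304) (nat_lit 52911403675) (nat_lit 174) (nat_lit 5) (nat_lit 177) (nat_lit 5) (nat_lit 178) (nat_lit 5) (nat_lit 464) (nat_lit 386) (nat_lit 170)) (XT.lf (nat_lit 0) (nat_lit 24356640945) (nat_lit 304) (nat_lit 20051889927) (nat_lit 76) (nat_lit 16998865811) (nat_lit 174) (nat_lit 5) (nat_lit 178) (nat_lit 5) (nat_lit 175) (nat_lit 5)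 (nat_lit 465) (nat_lit 386) (nat_lit 169)))) (XT.nd (nat_lit 156) (nat_lit 380) (nat_lit 0) (XT.nd (nat_lit 78) (nat_lit 0) (nat_lit 0) (XT.lf (nat_lit 0) (nat_lit 19521133941) (nat_lit 152) (nat_lit 22583687945) (nat_lit 228) (nat_lit 20469754624) (nat_lit 172) (nat_lit 5) (nat_lit 174) (nat_lit 5) (nat_lit 175) (nat_lit 5) (nat_lit 466) (nat_lit 386) (nat_lit 168)) (XT.lf (nat_lit 0) (nat_lit 60586777805) (nat_lit 228) (nat_lit 3083145139) (nat_lit 76) (nat_lit 100808902) (nat_lit 172) (nat_lit 5) (nat_lit 175) (nat_lit 5) (nat_lit 173) (nat_lit 5) (nat_lit 467) (nat_lit 386) (nat_lit 167))) (XT.nd (nat_lit 78) (nat_lit 152) (nat_lit 0) (XT.lf (nat_lit 0) (nat_lit 14933661965) (nat_lit 228) (nat_lit 26518997473) (nat_lit 76) (nat_lit 23527940036) (nat_lit 169) (nat_lit 5) (nat_lit 172) (nat_lit 5) (nat_lit 170) (nat_lit 5) (nat_lit 468) (nat_lit 386) (nat_lit 166)) (XT.lf (nat_lit 0) (nat_lit 15354115641)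 (nat_lit 152) (nat_lit 18353640261) (nat_lit 228) (nat_lit 32512753187) (nat_lit 167) (nat_lit 5) (nat_lit 169) (nat_lit 5) (nat_lit 170) (nat_lit 5) (nat_lit 469) (nat_lit 386) (nat_lit 165))))) (XT.nd (nat_lit 312) (nat_lit 532) (nat_lit 0) (XT.nd (nat_lit 156) (nat_lit 152) (nat_lit 0) (XT.nd (nat_lit 78) (nat_lit 228) (nat_lit 0) (XT.lf (nat_lit 0) (nat_lit 53365709078) (nat_lit 228) (nat_lit 8521214390) (nat_lit 76) (nat_lit 5601073433) (nat_lit 167) (nat_lit 5) (nat_lit 170) (nat_lit 5) (nat_lit 168) (nat_lit 5) (nat_lit 470) (nat_lit 386) (nat_lit 164)) (XT.lf (nat_lit 0) (nat_lit 5252948872) (nat_lit 228) (nat_lit 33225623413) (nat_lit 76) (nat_lit 30297733783) (nat_lit 164) (nat_lit 5) (nat_lit 167) (nat_lit 5) (nat_lit 165) (nat_lit 5) (nat_lit 471) (nat_lit 386) (nat_lit 163))) (XT.nd (nat_lit 78) (nat_lit 0) (nat_lit 0) (XT.lf (nat_lit 0) (nat_lit 11090840546) (nat_lit 152) (nat_lit 14026253158)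 (nat_lit 228) (nat_lit 44976231218) (nat_lit 162) (nat_lit 5) (nat_lit 164) (nat_lit 5) (nat_lit 165) (nat_lit 5) (nat_lit 472) (nat_lit 386) (nat_lit 162)) (XT.lf (nat_lit 0) (nat_lit 46021263951) (nat_lit 228) (nat_lit 14136136824) (nat_lit 76) (nat_lit 11279130534) (nat_lit 162) (nat_lit 5) (nat_lit 165) (nat_lit 5) (nat_lit 163) (nat_lit 5) (nat_lit 473) (nat_lit 386) (nat_lit 161)))) (XT.nd (nat_lit 156) (nat_lit 152) (nat_lit 0) (XT.nd (nat_lit 78) (nat_lit 228) (nat_lit 0) (XT.lf (nat_lit 0) (nat_lit 32569334660) (nat_lit 152) (nat_lit 35433225545) (nat_lit 228) (nat_lit 4803973655) (nat_lit 160) (nat_lit 5) (nat_lit 162) (nat_lit 5) (nat_lit 163) (nat_lit 5) (nat_lit 474) (nat_lit 386) (nat_lit 160)) (XT.lf (nat_lit 0) (nat_lit 6720689442) (nat_lit 152) (nat_lit 9591264399) (nat_lit 228) (nat_lit 57894741280) (nat_lit 157) (nat_lit 5) (nat_lit 159) (nat_lit 5) (nat_lit 160) (nat_lit 5) (nat_lit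 475) (nat_lit 386) (nat_lit 159))) (XT.nd (nat_lit 78) (nat_lit 152) (nat_lit 0) (XT.lf (nat_lit 0) (nat_lit 38536870186) (nat_lit 228) (nat_lit 19943334242) (nat_lit 76) (nat_lit 17150067885) (nat_lit 157) (nat_lit 5) (nat_lit 160) (nat_lit 5) (nat_lit 158) (nat_lit 5) (nat_lit 476) (nat_lit 386) (nat_lit 158)) (XT.lf (nat_lit 0) (nat_lit 29502916398) (nat_lit 152) (nat_lit 32302299629) (nat_lit 228) (nat_lit 15280040333) (nat_lit 155) (nat_lit 5) (nat_lit 157) (nat_lit 5) (nat_lit 158) (nat_lit 5) (nat_lit 477) (nat_lit 386) (nat_lit 157))))))))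
noncomputable def xc197 : XT := (XT.nd (nat_lit 47658) (nat_lit 0) (nat_lit 7068) (XT.nd (nat_lit 46488) (nat_lit 0) (nat_lit 15504) (XT.nd (nat_lit 546) (nat_lit 304) (nat_lit 0) (XT.nd (nat_lit 234) (nat_lit 304) (nat_lit 0) (XT.nd (nat_lit 78) (nat_lit 152) (nat_lit 0) (XT.lf (nat_lit 0) (nat_lit 2232553852) (nat_lit 152) (nat_lit 5037875795) (nat_lit 228) (nat_lit 71304698528) (nat_lit 152) (nat_lit 5) (nat_lit 154) (nat_lit 5) (nat_lit 155) (nat_lit 5) (nat_lit 478) (nat_lit 386) (nat_lit 156)) (XT.nd (nat_lit 78) (nat_lit 152) (nat_lit 0) (XT.lf (nat_lit 0) (nat_lit 30895192685) (nat_lit 228) (nat_lit 25959014699) (nat_lit 76) (nat_lit 23229803357) (nat_lit 152) (nat_lit 5) (nat_lit 155) (nat_lit 5) (nat_lit 153) (nat_lit 5) (nat_lit 479) (nat_lit 386) (nat_lit 155)) (XT.lf (nat_lit 0) (nat_lit 26397934697) (nat_lit 152) (nat_lit 29132580802) (nat_lit 228) (nat_lit 26098589776) (nat_lit 150) (nat_lit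 5) (nat_lit 152) (nat_lit 5) (nat_lit 153) (nat_lit 5) (nat_lit 480) (nat_lit 386) (nat_lit 154)))) (XT.nd (nat_lit 156) (nat_lit 152) (nat_lit 0) (XT.nd (nat_lit 78) (nat_lit 152) (nat_lit 0) (XT.lf (nat_lit 0) (nat_lit 80854403981) (nat_lit 152) (nat_lit 310833952) (nat_lit 228) (nat_lit 2047504514) (nat_lit 150) (nat_lit 5) (nat_lit 152) (nat_lit 5) (nat_lit 153) (nat_lit 5) (nat_lit 481) (nat_lit 386) (nat_lit 153)) (XT.lf (nat_lit 0) (nat_lit 23078081799) (nat_lit 152) (nat_lit 32200226784) (nat_lit 76) (nat_lit 29535134202) (nat_lit 148) (nat_lit 5) (nat_lit 150) (nat_lit 5) (nat_lit 149) (nat_lit 5) (nat_lit 482) (nat_lit 386) (nat_lit 152))) (XT.nd (nat_lit 78) (nat_lit 0) (nat_lit 0) (XT.lf (nat_lit 0) (nat_lit 23247602722) (nat_lit 152) (nat_lit 25917524020) (nat_lit 228) (nat_lit 37288963906) (nat_lit 146) (nat_lit 5) (nat_lit 148) (nat_lit 5) (nat_lit 149) (nat_lit 5) (nat_lit 483) (nat_lit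 386) (nat_lit 151)) (XT.lf (nat_lit 0) (nat_lit 76402978627) (nat_lit 228) (nat_lit 7163320790) (nat_lit 76) (nat_lit 4566612662) (nat_lit 146) (nat_lit 5) (nat_lit 149) (nat_lit 5) (nat_lit 147) (nat_lit 4) (nat_lit 484) (nat_lit 386) (nat_lit 150))))) (XT.nd (nat_lit 45630) (nat_lit 0) (nat_lit 17708) (XT.nd (nat_lit 45474) (nat_lit 0) (nat_lit 17632) (XT.nd (nat_lit 78) (nat_lit 152) (nat_lit 0) (XT.lf (nat_lit 0) (nat_lit 15066518430) (nat_lit 152) (nat_lit 38684916812) (nat_lit 76) (nat_lit 36083789724) (nat_lit 144) (nat_lit 5) (nat_lit 146) (nat_lit 5) (nat_lit 145) (nat_lit 5) (nat_lit 485) (nat_lit 386) (nat_lit 149)) (XT.lf (nat_lit 0) (nat_lit 20044863239) (nat_lit 152) (nat_lit 22650280578) (nat_lit 228) (nat_lit 48882058085) (nat_lit 142) (nat_lit 5) (nat_lit 144) (nat_lit 5) (nat_lit 145) (nat_lit 5) (nat_lit 486) (nat_lit 386) (nat_lit 148))) (XT.nd (nat_lit 78) (nat_lit 0) (nat_lit 0)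 (XT.lf (nat_lit 0) (nat_lit 2358867744) (nat_lit 1292) (nat_lit 2932644193) (nat_lit 1292) (nat_lit 2932644193) (nat_lit 374) (nat_lit 3) (nat_lit 391) (nat_lit 3) (nat_lit 391) (nat_lit 5) (nat_lit 387) (nat_lit 387) (nat_lit 246)) (XT.lf (nat_lit 76) (nat_lit 2405813838) (nat_lit 0) (nat_lit 2651954052) (nat_lit 1292) (nat_lit 11629191067) (nat_lit 375) (nat_lit 5) (nat_lit 374) (nat_lit 3) (nat_lit 391) (nat_lit 5) (nat_lit 388) (nat_lit 387) (nat_lit 245)))) (XT.nd (nat_lit 156) (nat_lit 0) (nat_lit 76) (XT.nd (nat_lit 78) (nat_lit 0) (nat_lit 0) (XT.lf (nat_lit 0) (nat_lit 5511238469) (nat_lit 1216) (nat_lit 5944705653) (nat_lit 1292) (nat_lit 5473723812) (nat_lit 375) (nat_lit 5) (nat_lit 391) (nat_lit 5) (nat_lit 392) (nat_lit 5) (nat_lit 389) (nat_lit 387) (nat_lit 244)) (XT.lf (nat_lit 76) (nat_lit 2662298160) (nat_lit 0) (nat_lit 3358533166) (nat_lit 1292) (nat_lit 11157551310) (nat_lit 376)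 (nat_lit 5) (nat_lit 375) (nat_lit 5) (nat_lit 392) (nat_lit 5) (nat_lit 390) (nat_lit 387) (nat_lit 243))) (XT.nd (nat_lit 78) (nat_lit 0) (nat_lit 0) (XT.lf (nat_lit 0) (nat_lit 6645153748) (nat_lit 1216) (nat_lit 5837350403) (nat_lit 1292) (nat_lit 4949071375) (nat_lit 376) (nat_lit 5) (nat_lit 392) (nat_lit 5) (nat_lit 393) (nat_lit 5) (nat_lit 391) (nat_lit 387) (nat_lit 242)) (XT.lf (nat_lit 76) (nat_lit 3124132886) (nat_lit 0) (nat_lit 4218550469) (nat_lit 1292) (nat_lit 10348046523) (nat_lit 377) (nat_lit 5) (nat_lit 376) (nat_lit 5) (nat_lit 393) (nat_lit 5) (nat_lit 392) (nat_lit 387) (nat_lit 241)))))) (XT.nd (nat_lit 546) (nat_lit 2356) (nat_lit 0) (XT.nd (nat_lit 234) (nat_lit 0) (nat_lit 76) (XT.nd (nat_lit 78) (nat_lit 0) (nat_lit 0) (XT.lf (nat_lit 0) (nat_lit 8153369769) (nat_lit 1216) (nat_lit 5529184432) (nat_lit 1292) (nat_lit 4272337730) (nat_lit 377) (nat_lit 5) (nat_lit 393) (nat_lit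 5) (nat_lit 394) (nat_lit 5) (nat_lit 393) (nat_lit 387) (nat_lit 240)) (XT.nd (nat_lit 78) (nat_lit 0) (nat_lit 76) (XT.lf (nat_lit 76) (nat_lit 3806461497) (nat_lit 0) (nat_lit 5251954177) (nat_lit 1292) (nat_lit 9166462006) (nat_lit 378) (nat_lit 5) (nat_lit 377) (nat_lit 5) (nat_lit 394) (nat_lit 5) (nat_lit 394) (nat_lit 387) (nat_lit 239)) (XT.lf (nat_lit 0) (nat_lit 10071884671) (nat_lit 1216) (nat_lit 5004924029) (nat_lit 1292) (nat_lit 3423716149) (nat_lit 378) (nat_lit 5) (nat_lit 394) (nat_lit 5) (nat_lit 395) (nat_lit 5) (nat_lit 395) (nat_lit 387) (nat_lit 238)))) (XT.nd (nat_lit 156) (nat_lit 0) (nat_lit 76) (XT.nd (nat_lit 78) (nat_lit 0) (nat_lit 76) (XT.lf (nat_lit 76) (nat_lit 4725736465) (nat_lit 0) (nat_lit 6479582140) (nat_lit 1292) (nat_lit 7576436004) (nat_lit 379) (nat_lit 5) (nat_lit 378) (nat_lit 5) (nat_lit 395) (nat_lit 5) (nat_lit 396) (nat_lit 387) (nat_lit 237)) (XT.lf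 (nat_lit 0) (nat_lit 12438965053) (nat_lit 1216) (nat_lit 4247980196) (nat_lit 1292) (nat_lit 2382489726) (nat_lit 379) (nat_lit 5) (nat_lit 395) (nat_lit 5) (nat_lit 396) (nat_lit 5) (nat_lit 397) (nat_lit 387) (nat_lit 236))) (XT.nd (nat_lit 78) (nat_lit 0) (nat_lit 76) (XT.lf (nat_lit 76) (nat_lit 5899783055) (nat_lit 0) (nat_lit 7923261562) (nat_lit 1292) (nat_lit 5539298424) (nat_lit 380) (nat_lit 5) (nat_lit 379) (nat_lit 5) (nat_lit 396) (nat_lit 5) (nat_lit 398) (nat_lit 387) (nat_lit 235)) (XT.lf (nat_lit 0) (nat_lit 15295312864) (nat_lit 1216) (nat_lit 3240393307) (nat_lit 1292) (nat_lit 1126932189) (nat_lit 380) (nat_lit 5) (nat_lit 396) (nat_lit 5) (nat_lit 397) (nat_lit 5) (nat_lit 399) (nat_lit 387) (nat_lit 234))))) (XT.nd (nat_lit 312) (nat_lit 1368) (nat_lit 0) (XT.nd (nat_lit 156) (nat_lit 1216) (nat_lit 0) (XT.nd (nat_lit 78) (nat_lit 0) (nat_lit 0) (XT.lf (nat_lit 76) (nat_lit 7347868913)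 (nat_lit 0) (nat_lit 9605911466) (nat_lit 1292) (nat_lit 3013901222) (nat_lit 381) (nat_lit 5) (nat_lit 380) (nat_lit 5) (nat_lit 397) (nat_lit 5) (nat_lit 400) (nat_lit 387) (nat_lit 233)) (XT.lf (nat_lit 76) (nat_lit 18314753141) (nat_lit 0) (nat_lit 373074192) (nat_lit 1292) (nat_lit 1593274046) (nat_lit 381) (nat_lit 5) (nat_lit 380) (nat_lit 5) (nat_lit 397) (nat_lit 5) (nat_lit 401) (nat_lit 387) (nat_lit 232))) (XT.nd (nat_lit 78) (nat_lit 0) (nat_lit 0) (XT.lf (nat_lit 0) (nat_lit 42710190) (nat_lit 1292) (nat_lit 11508506857) (nat_lit 1368) (nat_lit 9047638171) (nat_lit 364) (nat_lit 5) (nat_lit 381) (nat_lit 5) (nat_lit 382) (nat_lit 5) (nat_lit 402) (nat_lit 387) (nat_lit 231)) (XT.lf (nat_lit 0) (nat_lit 1712892986) (nat_lit 1292) (nat_lit 431741099) (nat_lit 1368) (nat_lit 18780520070) (nat_lit 364) (nat_lit 5) (nat_lit 381) (nat_lit 5) (nat_lit 382) (nat_lit 5) (nat_lit 403) (nat_lit 387)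 (nat_lit 230)))) (XT.nd (nat_lit 156) (nat_lit 608) (nat_lit 0) (XT.nd (nat_lit 78) (nat_lit 836) (nat_lit 0) (XT.lf (nat_lit 0) (nat_lit 3607930441) (nat_lit 1292) (nat_lit 10141531968) (nat_lit 76) (nat_lit 7506537177) (nat_lit 365) (nat_lit 5) (nat_lit 382) (nat_lit 5) (nat_lit 366) (nat_lit 5) (nat_lit 404) (nat_lit 387) (nat_lit 229)) (XT.lf (nat_lit 0) (nat_lit 1420143168) (nat_lit 836) (nat_lit 4172695897) (nat_lit 912) (nat_lit 16002940712) (nat_lit 354) (nat_lit 5) (nat_lit 365) (nat_lit 5) (nat_lit 366) (nat_lit 5) (nat_lit 405) (nat_lit 387) (nat_lit 228))) (XT.nd (nat_lit 78) (nat_lit 608) (nat_lit 0) (XT.lf (nat_lit 0) (nat_lit 7789294948) (nat_lit 912) (nat_lit 8467544673) (nat_lit 76) (nat_lit 5684353753) (nat_lit 354) (nat_lit 5) (nat_lit 366) (nat_lit 5) (nat_lit 355) (nat_lit 5) (nat_lit 406) (nat_lit 387) (nat_lit 227)) (XT.lf (nat_lit 0) (nat_lit 3615492839) (nat_lit 608) (nat_lit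 6506265925) (nat_lit 684) (nat_lit 12173107188) (nat_lit 346) (nat_lit 5) (nat_lit 354) (nat_lit 5) (nat_lit 355) (nat_lit 5) (nat_lit 407) (nat_lit 387) (nat_lit 226))))))) (XT.nd (nat_lit 1170) (nat_lit 4028) (nat_lit 0) (XT.nd (nat_lit 546) (nat_lit 2052) (nat_lit 0) (XT.nd (nat_lit 234) (nat_lit 1748) (nat_lit 0) (XT.nd (nat_lit 78) (nat_lit 608) (nat_lit 0) (XT.lf (nat_lit 0) (nat_lit 12638717042) (nat_lit 684) (nat_lit 6462489185) (nat_lit 76) (nat_lit 3554506864) (nat_lit 346) (nat_lit 5) (nat_lit 355) (nat_lit 5) (nat_lit 347) (nat_lit 5) (nat_lit 408) (nat_lit 387) (nat_lit 225)) (XT.nd (nat_lit 78) (nat_lit 0) (nat_lit 0) (XT.lf (nat_lit 0) (nat_lit 6171415374) (nat_lit 608) (nat_lit 9177850618) (nat_lit 684) (nat_lit 7674577193) (nat_lit 338) (nat_lit 5) (nat_lit 346) (nat_lit 5) (nat_lit 347) (nat_lit 5) (nat_lit 409) (nat_lit 387) (nat_lit 224)) (XT.lf (nat_lit 0) (nat_lit 18211517558)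 (nat_lit 684) (nat_lit 4100529265) (nat_lit 76) (nat_lit 1088858775) (nat_lit 338) (nat_lit 5) (nat_lit 347) (nat_lit 5) (nat_lit 339) (nat_lit 5) (nat_lit 410) (nat_lit 387) (nat_lit 223)))) (XT.nd (nat_lit 156) (nat_lit 1140) (nat_lit 0) (XT.nd (nat_lit 78) (nat_lit 76) (nat_lit 0) (XT.lf (nat_lit 0) (nat_lit 9115488218) (nat_lit 532) (nat_lit 12217257078) (nat_lit 608) (nat_lit 2451341330) (nat_lit 331) (nat_lit 5) (nat_lit 338) (nat_lit 5) (nat_lit 339) (nat_lit 5) (nat_lit 411) (nat_lit 387) (nat_lit 222)) (XT.lf (nat_lit 0) (nat_lit 398134443) (nat_lit 608) (nat_lit 1374930326) (nat_lit 76) (nat_lit 22404497392) (nat_lit 330) (nat_lit 5) (nat_lit 338) (nat_lit 5) (nat_lit 331) (nat_lit 5) (nat_lit 412) (nat_lit 387) (nat_lit 221))) (XT.nd (nat_lit 78) (nat_lit 532) (nat_lit 0) (XT.lf (nat_lit 0) (nat_lit 3486913773) (nat_lit 684) (nat_lit 12133956304) (nat_lit 76) (nat_lit 8955151099) (nat_lit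 322) (nat_lit 5) (nat_lit 331) (nat_lit 5) (nat_lit 323) (nat_lit 5) (nat_lit 413) (nat_lit 387) (nat_lit 220)) (XT.lf (nat_lit 0) (nat_lit 1726296060) (nat_lit 532) (nat_lit 4985152500) (nat_lit 608) (nat_lit 18273692638) (nat_lit 315) (nat_lit 5) (nat_lit 322) (nat_lit 5) (nat_lit 323) (nat_lit 5) (nat_lit 414) (nat_lit 387) (nat_lit 219))))) (XT.nd (nat_lit 312) (nat_lit 1064) (nat_lit 0) (XT.nd (nat_lit 156) (nat_lit 456) (nat_lit 0) (XT.nd (nat_lit 78) (nat_lit 532) (nat_lit 0) (XT.lf (nat_lit 0) (nat_lit 10208859079) (nat_lit 608) (nat_lit 9215892905) (nat_lit 76) (nat_lit 5976498647) (nat_lit 315) (nat_lit 5) (nat_lit 323) (nat_lit 5) (nat_lit 316) (nat_lit 5) (nat_lit 415) (nat_lit 387) (nat_lit 218)) (XT.lf (nat_lit 0) (nat_lit 5296987028) (nat_lit 532) (nat_lit 8609639506) (nat_lit 608) (nat_lit 11920353774) (nat_lit 308) (nat_lit 5) (nat_lit 315) (nat_lit 5) (nat_lit 316) (nat_lit 5) (nat_lit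 416) (nat_lit 387) (nat_lit 217))) (XT.nd (nat_lit 78) (nat_lit 456) (nat_lit 0) (XT.lf (nat_lit 0) (nat_lit 17828873393) (nat_lit 608) (nat_lit 5859211223) (nat_lit 76) (nat_lit 2573990870) (nat_lit 308) (nat_lit 5) (nat_lit 316) (nat_lit 5) (nat_lit 309) (nat_lit 5) (nat_lit 417) (nat_lit 387) (nat_lit 216)) (XT.lf (nat_lit 0) (nat_lit 9343483376) (nat_lit 456) (nat_lit 12695745378) (nat_lit 532) (nat_lit 4665881531) (nat_lit 302) (nat_lit 5) (nat_lit 308) (nat_lit 5) (nat_lit 309) (nat_lit 5) (nat_lit 418) (nat_lit 387) (nat_lit 215)))) (XT.nd (nat_lit 156) (nat_lit 456) (nat_lit 0) (XT.nd (nat_lit 78) (nat_lit 608) (nat_lit 0) (XT.lf (nat_lit 0) (nat_lit 25117126802) (nat_lit 456) (nat_lit 1313400520) (nat_lit 532) (nat_lit 729269829) (nat_lit 302) (nat_lit 5) (nat_lit 308) (nat_lit 5) (nat_lit 309) (nat_lit 5) (nat_lit 419) (nat_lit 387) (nat_lit 214)) (XT.lf (nat_lit 0) (nat_lit 3492114953) (nat_lit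 608) (nat_lit 13753636398) (nat_lit 76) (nat_lit 10374467305) (nat_lit 294) (nat_lit 5) (nat_lit 302) (nat_lit 5) (nat_lit 295) (nat_lit 5) (nat_lit 420) (nat_lit 387) (nat_lit 213))) (XT.nd (nat_lit 78) (nat_lit 0) (nat_lit 0) (XT.lf (nat_lit 0) (nat_lit 2218769833) (nat_lit 456) (nat_lit 5657504562) (nat_lit 532) (nat_lit 20216438077) (nat_lit 288) (nat_lit 5) (nat_lit 294) (nat_lit 5) (nat_lit 295) (nat_lit 5) (nat_lit 421) (nat_lit 387) (nat_lit 212)) (XT.lf (nat_lit 0) (nat_lit 12588266311) (nat_lit 532) (nat_lit 9689974646) (nat_lit 76) (nat_lit 6295250913) (nat_lit 288) (nat_lit 5) (nat_lit 295) (nat_lit 5) (nat_lit 289) (nat_lit 5) (nat_lit 422) (nat_lit 387) (nat_lit 211)))))) (XT.nd (nat_lit 624) (nat_lit 1900) (nat_lit 0) (XT.nd (nat_lit 312) (nat_lit 760) (nat_lit 0) (XT.nd (nat_lit 156) (nat_lit 912) (nat_lit 0) (XT.nd (nat_lit 78) (nat_lit 0) (nat_lit 0) (XT.lf (nat_lit 0) (nat_lit 7056023215)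 (nat_lit 456) (nat_lit 10505257944) (nat_lit 532) (nat_lit 11503823597) (nat_lit 282) (nat_lit 5) (nat_lit 288) (nat_lit 5) (nat_lit 289) (nat_lit 5) (nat_lit 423) (nat_lit 387) (nat_lit 210)) (XT.lf (nat_lit 0) (nat_lit 22793770589) (nat_lit 532) (nat_lit 5087270169) (nat_lit 76) (nat_lit 1687116746) (nat_lit 282) (nat_lit 5) (nat_lit 289) (nat_lit 5) (nat_lit 283) (nat_lit 5) (nat_lit 424) (nat_lit 387) (nat_lit 209))) (XT.nd (nat_lit 78) (nat_lit 532) (nat_lit 0) (XT.lf (nat_lit 0) (nat_lit 12476572565) (nat_lit 380) (nat_lit 15926611271) (nat_lit 456) (nat_lit 1676519523) (nat_lit 277) (nat_lit 5) (nat_lit 282) (nat_lit 5) (nat_lit 283) (nat_lit 5) (nat_lit 425) (nat_lit 387) (nat_lit 208)) (XT.lf (nat_lit 0) (nat_lit 27119965) (nat_lit 456) (nat_lit 3525590984) (nat_lit 532) (nat_lit 27051408670) (nat_lit 270) (nat_lit 5) (nat_lit 276) (nat_lit 5) (nat_lit 277) (nat_lit 5) (nat_lit 426) (nat_lit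 387) (nat_lit 207)))) (XT.nd (nat_lit 156) (nat_lit 380) (nat_lit 0) (XT.nd (nat_lit 78) (nat_lit 380) (nat_lit 0) (XT.lf (nat_lit 0) (nat_lit 9169620589) (nat_lit 532) (nat_lit 12704220374) (nat_lit 76) (nat_lit 9261994468) (nat_lit 270) (nat_lit 5) (nat_lit 277) (nat_lit 5) (nat_lit 271) (nat_lit 5) (nat_lit 427) (nat_lit 387) (nat_lit 206)) (XT.lf (nat_lit 0) (nat_lit 5777568383) (nat_lit 380) (nat_lit 9264116717) (nat_lit 456) (nat_lit 16639218191) (nat_lit 265) (nat_lit 5) (nat_lit 270) (nat_lit 5) (nat_lit 271) (nat_lit 5) (nat_lit 428) (nat_lit 387) (nat_lit 205))) (XT.nd (nat_lit 78) (nat_lit 380) (nat_lit 0) (XT.lf (nat_lit 0) (nat_lit 21251520192) (nat_lit 456) (nat_lit 7206365628) (nat_lit 76) (nat_lit 3779589106) (nat_lit 265) (nat_lit 5) (nat_lit 271) (nat_lit 5) (nat_lit 266) (nat_lit 5) (nat_lit 429) (nat_lit 387) (nat_lit 204)) (XT.lf (nat_lit 0) (nat_lit 12192802285) (nat_lit 380) (nat_lit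 15660140107) (nat_lit 456) (nat_lit 4951642556) (nat_lit 260) (nat_lit 5) (nat_lit 265) (nat_lit 5) (nat_lit 266) (nat_lit 5) (nat_lit 430) (nat_lit 387) (nat_lit 203))))) (XT.nd (nat_lit 312) (nat_lit 1064) (nat_lit 0) (XT.nd (nat_lit 156) (nat_lit 380) (nat_lit 0) (XT.nd (nat_lit 78) (nat_lit 380) (nat_lit 0) (XT.lf (nat_lit 0) (nat_lit 1308917525) (nat_lit 456) (nat_lit 1082660196) (nat_lit 76) (nat_lit 30994669791) (nat_lit 259) (nat_lit 5) (nat_lit 265) (nat_lit 5) (nat_lit 260) (nat_lit 5) (nat_lit 431) (nat_lit 387) (nat_lit 202)) (XT.lf (nat_lit 0) (nat_lit 7951025497) (nat_lit 456) (nat_lit 14732882849) (nat_lit 76) (nat_lit 11291183197) (nat_lit 254) (nat_lit 5) (nat_lit 260) (nat_lit 5) (nat_lit 255) (nat_lit 5) (nat_lit 432) (nat_lit 387) (nat_lit 201))) (XT.nd (nat_lit 78) (nat_lit 0) (nat_lit 0) (XT.lf (nat_lit 0) (nat_lit 5700355342) (nat_lit 380) (nat_lit 9178093183) (nat_lit 456) (nat_lit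 19700570814) (nat_lit 249) (nat_lit 5) (nat_lit 254) (nat_lit 5) (nat_lit 255) (nat_lit 5) (nat_lit 433) (nat_lit 387) (nat_lit 200)) (XT.lf (nat_lit 0) (nat_lit 22206014089) (nat_lit 456) (nat_lit 8199847621) (nat_lit 76) (nat_lit 4789433664) (nat_lit 249) (nat_lit 5) (nat_lit 255) (nat_lit 5) (nat_lit 250) (nat_lit 5) (nat_lit 434) (nat_lit 387) (nat_lit 199)))) (XT.nd (nat_lit 156) (nat_lit 684) (nat_lit 0) (XT.nd (nat_lit 78) (nat_lit 76) (nat_lit 0) (XT.lf (nat_lit 0) (nat_lit 13262525056) (nat_lit 304) (nat_lit 16705919061) (nat_lit 380) (nat_lit 5855164450) (nat_lit 245) (nat_lit 5) (nat_lit 249) (nat_lit 5) (nat_lit 250) (nat_lit 5) (nat_lit 435) (nat_lit 387) (nat_lit 198)) (XT.lf (nat_lit 0) (nat_lit 1544161853) (nat_lit 380) (nat_lit 951355476) (nat_lit 76) (nat_lit 33972413704) (nat_lit 244) (nat_lit 5) (nat_lit 249) (nat_lit 5) (nat_lit 245) (nat_lit 5) (nat_lit 436) (nat_lit 387) (nat_lit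 197))) (XT.nd (nat_lit 78) (nat_lit 304) (nat_lit 0) (XT.lf (nat_lit 0) (nat_lit 9372184651) (nat_lit 456) (nat_lit 15576148312) (nat_lit 76) (nat_lit 12171779060) (nat_lit 239) (nat_lit 5) (nat_lit 245) (nat_lit 5) (nat_lit 240) (nat_lit 5) (nat_lit 437) (nat_lit 387) (nat_lit 196)) (XT.lf (nat_lit 0) (nat_lit 7050193249) (nat_lit 304) (nat_lit 10483864847) (nat_lit 380) (nat_lit 20254830049) (nat_lit 235) (nat_lit 5) (nat_lit 239) (nat_lit 5) (nat_lit 240) (nat_lit 5) (nat_lit 438) (nat_lit 387) (nat_lit 195))))))))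
noncomputable def xc198 : XT := (XT.nd (nat_lit 2340) (nat_lit 2128) (nat_lit 0) (XT.nd (nat_lit 1170) (nat_lit 2128) (nat_lit 0) (XT.nd (nat_lit 546) (nat_lit 1368) (nat_lit 0) (XT.nd (nat_lit 234) (nat_lit 608) (nat_lit 0) (XT.nd (nat_lit 78) (nat_lit 684) (nat_lit 0) (XT.lf (nat_lit 0) (nat_lit 26138931814) (nat_lit 380) (nat_lit 7847066716) (nat_lit 76) (nat_lit 4485784699) (nat_lit 235) (nat_lit 5) (nat_lit 240) (nat_lit 5) (nat_lit 236) (nat_lit 5) (nat_lit 439) (nat_lit 387) (nat_lit 194)) (XT.nd (nat_lit 78) (nat_lit 380) (nat_lit 0) (XT.lf (nat_lit 0) (nat_lit 15933887590) (nat_lit 304) (nat_lit 19321985406) (nat_lit 380) (nat_lit 3911674531) (nat_lit 231) (nat_lit 5) (nat_lit 235) (nat_lit 5) (nat_lit 236) (nat_lit 5) (nat_lit 440) (nat_lit 387) (nat_lit 193)) (XT.lf (nat_lit 0) (nat_lit 669253239) (nat_lit 304) (nat_lit 4083385809) (nat_lit 380) (nat_lit 35127669574) (nat_lit 226) (nat_lit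 5) (nat_lit 230) (nat_lit 5) (nat_lit 231) (nat_lit 5) (nat_lit 441) (nat_lit 387) (nat_lit 192)))) (XT.nd (nat_lit 156) (nat_lit 304) (nat_lit 0) (XT.nd (nat_lit 78) (nat_lit 304) (nat_lit 0) (XT.lf (nat_lit 0) (nat_lit 13943823869) (nat_lit 380) (nat_lit 14999165994) (nat_lit 76) (nat_lit 11659933924) (nat_lit 226) (nat_lit 5) (nat_lit 231) (nat_lit 5) (nat_lit 227) (nat_lit 5) (nat_lit 442) (nat_lit 387) (nat_lit 191)) (XT.lf (nat_lit 0) (nat_lit 10091102770) (nat_lit 304) (nat_lit 13454160329) (nat_lit 380) (nat_lit 17797918742) (nat_lit 222) (nat_lit 5) (nat_lit 226) (nat_lit 5) (nat_lit 227) (nat_lit 5) (nat_lit 443) (nat_lit 387) (nat_lit 190))) (XT.nd (nat_lit 78) (nat_lit 304) (nat_lit 0) (XT.lf (nat_lit 0) (nat_lit 33608847365) (nat_lit 380) (nat_lit 5889569725) (nat_lit 76) (nat_lit 2602007491) (nat_lit 222) (nat_lit 5) (nat_lit 227) (nat_lit 5) (nat_lit 223) (nat_lit 5) (nat_lit 444) (nat_lit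 387) (nat_lit 189)) (XT.lf (nat_lit 0) (nat_lit 1403279954) (nat_lit 304) (nat_lit 22388117468) (nat_lit 76) (nat_lit 19078751536) (nat_lit 218) (nat_lit 5) (nat_lit 222) (nat_lit 5) (nat_lit 219) (nat_lit 5) (nat_lit 445) (nat_lit 387) (nat_lit 188))))) (XT.nd (nat_lit 312) (nat_lit 836) (nat_lit 0) (XT.nd (nat_lit 156) (nat_lit 228) (nat_lit 0) (XT.nd (nat_lit 78) (nat_lit 0) (nat_lit 0) (XT.lf (nat_lit 0) (nat_lit 4095207649) (nat_lit 304) (nat_lit 7425742220) (nat_lit 380) (nat_lit 32136593768) (nat_lit 214) (nat_lit 5) (nat_lit 218) (nat_lit 5) (nat_lit 219) (nat_lit 5) (nat_lit 446) (nat_lit 387) (nat_lit 187)) (XT.lf (nat_lit 0) (nat_lit 22258355918) (nat_lit 380) (nat_lit 12727100119) (nat_lit 76) (nat_lit 9473617938) (nat_lit 214) (nat_lit 5) (nat_lit 219) (nat_lit 5) (nat_lit 215) (nat_lit 5) (nat_lit 447) (nat_lit 387) (nat_lit 186))) (XT.nd (nat_lit 78) (nat_lit 0) (nat_lit 0) (XT.lf (nat_lit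 0) (nat_lit 15130656825) (nat_lit 228) (nat_lit 18403511309) (nat_lit 304) (nat_lit 11743993570) (nat_lit 211) (nat_lit 5) (nat_lit 214) (nat_lit 5) (nat_lit 215) (nat_lit 5) (nat_lit 448) (nat_lit 387) (nat_lit 185)) (XT.lf (nat_lit 0) (nat_lit 44080813978) (nat_lit 228) (nat_lit 1193313689) (nat_lit 304) (nat_lit 843918209) (nat_lit 211) (nat_lit 5) (nat_lit 214) (nat_lit 5) (nat_lit 215) (nat_lit 5) (nat_lit 449) (nat_lit 387) (nat_lit 184)))) (XT.nd (nat_lit 156) (nat_lit 228) (nat_lit 0) (XT.nd (nat_lit 78) (nat_lit 228) (nat_lit 0) (XT.lf (nat_lit 0) (nat_lit 10603321914) (nat_lit 380) (nat_lit 19788822200) (nat_lit 76) (nat_lit 16575304920) (nat_lit 206) (nat_lit 5) (nat_lit 211) (nat_lit 5) (nat_lit 207) (nat_lit 5) (nat_lit 450) (nat_lit 387) (nat_lit 183)) (XT.lf (nat_lit 0) (nat_lit 9634458962) (nat_lit 228) (nat_lit 12865188282) (nat_lit 304) (nat_lit 25338757477) (nat_lit 203) (nat_lit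 5) (nat_lit 206) (nat_lit 5) (nat_lit 207) (nat_lit 5) (nat_lit 451) (nat_lit 387) (nat_lit 182))) (XT.nd (nat_lit 78) (nat_lit 228) (nat_lit 0) (XT.lf (nat_lit 0) (nat_lit 35001982041) (nat_lit 304) (nat_lit 8439443927) (nat_lit 76) (nat_lit 5286589520) (nat_lit 203) (nat_lit 5) (nat_lit 207) (nat_lit 5) (nat_lit 204) (nat_lit 5) (nat_lit 452) (nat_lit 387) (nat_lit 181)) (XT.lf (nat_lit 0) (nat_lit 22526107481) (nat_lit 228) (nat_lit 25694713343) (nat_lit 304) (nat_lit 1413250733) (nat_lit 200) (nat_lit 5) (nat_lit 203) (nat_lit 5) (nat_lit 204) (nat_lit 5) (nat_lit 453) (nat_lit 387) (nat_lit 180)))))) (XT.nd (nat_lit 546) (nat_lit 1064) (nat_lit 0) (XT.nd (nat_lit 234) (nat_lit 532) (nat_lit 0) (XT.nd (nat_lit 78) (nat_lit 228) (nat_lit 0) (XT.lf (nat_lit 0) (nat_lit 3993552106) (nat_lit 228) (nat_lit 7177450643) (nat_lit 304) (nat_lit 39389397317) (nat_lit 196) (nat_lit 5) (nat_lit 199) (nat_lit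 5) (nat_lit 200) (nat_lit 5) (nat_lit 454) (nat_lit 387) (nat_lit 179)) (XT.nd (nat_lit 78) (nat_lit 228) (nat_lit 0) (XT.lf (nat_lit 0) (nat_lit 24492719623) (nat_lit 304) (nat_lit 15057653625) (nat_lit 76) (nat_lit 11952075184) (nat_lit 196) (nat_lit 5) (nat_lit 200) (nat_lit 5) (nat_lit 197) (nat_lit 5) (nat_lit 455) (nat_lit 387) (nat_lit 178)) (XT.lf (nat_lit 0) (nat_lit 17666509581) (nat_lit 228) (nat_lit 20786082986) (nat_lit 304) (nat_lit 14013010544) (nat_lit 193) (nat_lit 5) (nat_lit 196) (nat_lit 5) (nat_lit 197) (nat_lit 5) (nat_lit 456) (nat_lit 387) (nat_lit 177)))) (XT.nd (nat_lit 156) (nat_lit 228) (nat_lit 0) (XT.nd (nat_lit 78) (nat_lit 304) (nat_lit 0) (XT.lf (nat_lit 0) (nat_lit 51677123518) (nat_lit 228) (nat_lit 1303841809) (nat_lit 304) (nat_lit 472195994) (nat_lit 193) (nat_lit 5) (nat_lit 196) (nat_lit 5) (nat_lit 197) (nat_lit 5) (nat_lit 457) (nat_lit 387) (nat_lit 176)) (XT.lf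 (nat_lit 0) (nat_lit 13709088934) (nat_lit 304) (nat_lit 21898583422) (nat_lit 76) (nat_lit 18843872409) (nat_lit 189) (nat_lit 5) (nat_lit 193) (nat_lit 5) (nat_lit 190) (nat_lit 5) (nat_lit 458) (nat_lit 387) (nat_lit 175))) (XT.nd (nat_lit 78) (nat_lit 0) (nat_lit 0) (XT.lf (nat_lit 0) (nat_lit 12694970756) (nat_lit 228) (nat_lit 15762116113) (nat_lit 304) (nat_lit 27018129634) (nat_lit 186) (nat_lit 5) (nat_lit 189) (nat_lit 5) (nat_lit 190) (nat_lit 5) (nat_lit 459) (nat_lit 387) (nat_lit 174)) (XT.lf (nat_lit 0) (nat_lit 43913548741) (nat_lit 304) (nat_lit 7798800259) (nat_lit 76) (nat_lit 4809268671) (nat_lit 186) (nat_lit 5) (nat_lit 190) (nat_lit 5) (nat_lit 187) (nat_lit 5) (nat_lit 460) (nat_lit 387) (nat_lit 173))))) (XT.nd (nat_lit 312) (nat_lit 456) (nat_lit 0) (XT.nd (nat_lit 156) (nat_lit 152) (nat_lit 0) (XT.nd (nat_lit 78) (nat_lit 228) (nat_lit 0) (XT.lf (nat_lit 0) (nat_lit 2624013780)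 (nat_lit 228) (nat_lit 28981331985) (nat_lit 76) (nat_lit 25980421210) (nat_lit 183) (nat_lit 5) (nat_lit 186) (nat_lit 5) (nat_lit 184) (nat_lit 5) (nat_lit 461) (nat_lit 387) (nat_lit 172)) (XT.lf (nat_lit 0) (nat_lit 7599034388) (nat_lit 228) (nat_lit 10610992916) (nat_lit 304) (nat_lit 40463557143) (nat_lit 180) (nat_lit 5) (nat_lit 183) (nat_lit 5) (nat_lit 184) (nat_lit 5) (nat_lit 462) (nat_lit 387) (nat_lit 171))) (XT.nd (nat_lit 78) (nat_lit 152) (nat_lit 0) (XT.lf (nat_lit 0) (nat_lit 34662850846) (nat_lit 304) (nat_lit 14026926927) (nat_lit 76) (nat_lit 11092281779) (nat_lit 180) (nat_lit 5) (nat_lit 184) (nat_lit 5) (nat_lit 181) (nat_lit 5) (nat_lit 463) (nat_lit 387) (nat_lit 170)) (XT.lf (nat_lit 0) (nat_lit 24501480934) (nat_lit 152) (nat_lit 27446236342) (nat_lit 228) (nat_lit 8965917890) (nat_lit 178) (nat_lit 5) (nat_lit 180) (nat_lit 5) (nat_lit 181) (nat_lit 5) (nat_lit 464) (nat_lit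 387) (nat_lit 169)))) (XT.nd (nat_lit 156) (nat_lit 152) (nat_lit 0) (XT.nd (nat_lit 78) (nat_lit 0) (nat_lit 0) (XT.lf (nat_lit 0) (nat_lit 2365680723) (nat_lit 228) (nat_lit 5320251917) (nat_lit 304) (nat_lit 54386102915) (nat_lit 174) (nat_lit 5) (nat_lit 177) (nat_lit 5) (nat_lit 178) (nat_lit 5) (nat_lit 465) (nat_lit 387) (nat_lit 168)) (XT.lf (nat_lit 0) (nat_lit 25194284987) (nat_lit 304) (nat_lit 20464946647) (nat_lit 76) (nat_lit 17587178605) (nat_lit 174) (nat_lit 5) (nat_lit 178) (nat_lit 5) (nat_lit 175) (nat_lit 5) (nat_lit 466) (nat_lit 387) (nat_lit 167))) (XT.nd (nat_lit 78) (nat_lit 0) (nat_lit 0) (XT.lf (nat_lit 0) (nat_lit 20293419898) (nat_lit 152) (nat_lit 23180170774) (nat_lit 228) (nat_lit 20975054410) (nat_lit 172) (nat_lit 5) (nat_lit 174) (nat_lit 5) (nat_lit 175) (nat_lit 5) (nat_lit 467) (nat_lit 387) (nat_lit 166)) (XT.lf (nat_lit 0) (nat_lit 62507685040) (nat_lit 228)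 (nat_lit 2992103790) (nat_lit 76) (nat_lit 180965853) (nat_lit 172) (nat_lit 5) (nat_lit 175) (nat_lit 5) (nat_lit 173) (nat_lit 5) (nat_lit 468) (nat_lit 387) (nat_lit 165))))))) (XT.nd (nat_lit 1170) (nat_lit 304) (nat_lit 0) (XT.nd (nat_lit 546) (nat_lit 912) (nat_lit 0) (XT.nd (nat_lit 234) (nat_lit 532) (nat_lit 0) (XT.nd (nat_lit 78) (nat_lit 152) (nat_lit 0) (XT.lf (nat_lit 0) (nat_lit 15484724151) (nat_lit 228) (nat_lit 27130780120) (nat_lit 76) (nat_lit 24311421617) (nat_lit 169) (nat_lit 5) (nat_lit 172) (nat_lit 5) (nat_lit 170) (nat_lit 5) (nat_lit 469) (nat_lit 387) (nat_lit 164)) (XT.nd (nat_lit 78) (nat_lit 0) (nat_lit 0) (XT.lf (nat_lit 0) (nat_lit 15996724551) (nat_lit 152) (nat_lit 18824064187) (nat_lit 228) (nat_lit 33383281619) (nat_lit 167) (nat_lit 5) (nat_lit 169) (nat_lit 5) (nat_lit 170) (nat_lit 5) (nat_lit 470) (nat_lit 387) (nat_lit 163)) (XT.lf (nat_lit 0) (nat_lit 55066263795)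 (nat_lit 228) (nat_lit 8597949214) (nat_lit 76) (nat_lit 5845436294) (nat_lit 167) (nat_lit 5) (nat_lit 170) (nat_lit 5) (nat_lit 168) (nat_lit 5) (nat_lit 471) (nat_lit 387) (nat_lit 162)))) (XT.nd (nat_lit 156) (nat_lit 152) (nat_lit 0) (XT.nd (nat_lit 78) (nat_lit 152) (nat_lit 0) (XT.lf (nat_lit 0) (nat_lit 5509897264) (nat_lit 228) (nat_lit 34043266988) (nat_lit 76) (nat_lit 31283450201) (nat_lit 164) (nat_lit 5) (nat_lit 167) (nat_lit 5) (nat_lit 165) (nat_lit 5) (nat_lit 472) (nat_lit 387) (nat_lit 161)) (XT.lf (nat_lit 0) (nat_lit 11600934761) (nat_lit 152) (nat_lit 14367842680) (nat_lit 228) (nat_lit 46224402101) (nat_lit 162) (nat_lit 5) (nat_lit 164) (nat_lit 5) (nat_lit 165) (nat_lit 5) (nat_lit 473) (nat_lit 387) (nat_lit 160))) (XT.nd (nat_lit 78) (nat_lit 152) (nat_lit 0) (XT.lf (nat_lit 0) (nat_lit 47497952575) (nat_lit 228) (nat_lit 14385897797) (nat_lit 76) (nat_lit 11692895356) (nat_lit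 162) (nat_lit 5) (nat_lit 165) (nat_lit 5) (nat_lit 163) (nat_lit 5) (nat_lit 474) (nat_lit 387) (nat_lit 159)) (XT.lf (nat_lit 0) (nat_lit 33719028782) (nat_lit 152) (nat_lit 36418520614) (nat_lit 228) (nat_lit 4850333109) (nat_lit 160) (nat_lit 5) (nat_lit 162) (nat_lit 5) (nat_lit 163) (nat_lit 5) (nat_lit 475) (nat_lit 387) (nat_lit 158))))) (XT.nd (nat_lit 312) (nat_lit 304) (nat_lit 0) (XT.nd (nat_lit 156) (nat_lit 380) (nat_lit 0) (XT.nd (nat_lit 78) (nat_lit 0) (nat_lit 0) (XT.lf (nat_lit 0) (nat_lit 7095120855) (nat_lit 152) (nat_lit 9800913066) (nat_lit 228) (nat_lit 59534020410) (nat_lit 157) (nat_lit 5) (nat_lit 159) (nat_lit 5) (nat_lit 160) (nat_lit 5) (nat_lit 476) (nat_lit 387) (nat_lit 157)) (XT.lf (nat_lit 0) (nat_lit 39785667656) (nat_lit 228) (nat_lit 20371826763) (nat_lit 76) (nat_lit 17738905322) (nat_lit 157) (nat_lit 5) (nat_lit 160) (nat_lit 5) (nat_lit 158) (nat_lit 5) (nat_lit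 477) (nat_lit 387) (nat_lit 156))) (XT.nd (nat_lit 78) (nat_lit 228) (nat_lit 0) (XT.lf (nat_lit 0) (nat_lit 30556146617) (nat_lit 152) (nat_lit 33194833799) (nat_lit 228) (nat_lit 15644085399) (nat_lit 155) (nat_lit 5) (nat_lit 157) (nat_lit 5) (nat_lit 158) (nat_lit 5) (nat_lit 478) (nat_lit 387) (nat_lit 155)) (XT.lf (nat_lit 0) (nat_lit 2467847913) (nat_lit 152) (nat_lit 5112132901) (nat_lit 228) (nat_lit 73349658059) (nat_lit 152) (nat_lit 5) (nat_lit 154) (nat_lit 5) (nat_lit 155) (nat_lit 5) (nat_lit 479) (nat_lit 387) (nat_lit 154)))) (XT.nd (nat_lit 156) (nat_lit 152) (nat_lit 0) (XT.nd (nat_lit 78) (nat_lit 152) (nat_lit 0) (XT.lf (nat_lit 0) (nat_lit 31911540977) (nat_lit 228) (nat_lit 26572424378) (nat_lit 76) (nat_lit 23999880932) (nat_lit 152) (nat_lit 5) (nat_lit 155) (nat_lit 5) (nat_lit 153) (nat_lit 5) (nat_lit 480) (nat_lit 387) (nat_lit 153)) (XT.lf (nat_lit 0) (nat_lit 27353612316)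 (nat_lit 152) (nat_lit 29931278547) (nat_lit 228) (nat_lit 26790433774) (nat_lit 150) (nat_lit 5) (nat_lit 152) (nat_lit 5) (nat_lit 153) (nat_lit 5) (nat_lit 481) (nat_lit 387) (nat_lit 152))) (XT.nd (nat_lit 78) (nat_lit 152) (nat_lit 0) (XT.lf (nat_lit 0) (nat_lit 83439006565) (nat_lit 152) (nat_lit 247071904) (nat_lit 228) (nat_lit 2020469751) (nat_lit 150) (nat_lit 5) (nat_lit 152) (nat_lit 5) (nat_lit 153) (nat_lit 5) (nat_lit 482) (nat_lit 387) (nat_lit 151)) (XT.lf (nat_lit 0) (nat_lit 23856866738) (nat_lit 152) (nat_lit 33005245710) (nat_lit 76) (nat_lit 30493140346) (nat_lit 148) (nat_lit 5) (nat_lit 150) (nat_lit 5) (nat_lit 149) (nat_lit 5) (nat_lit 483) (nat_lit 387) (nat_lit 150)))))) (XT.nd (nat_lit 46020) (nat_lit 0) (nat_lit 17632) (XT.nd (nat_lit 45708) (nat_lit 0) (nat_lit 17480) (XT.nd (nat_lit 156) (nat_lit 152) (nat_lit 0) (XT.nd (nat_lit 78) (nat_lit 0) (nat_lit 0) (XT.lf (nat_lit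 0) (nat_lit 24104440369) (nat_lit 152) (nat_lit 26621097261) (nat_lit 228) (nat_lit 38319612025) (nat_lit 146) (nat_lit 5) (nat_lit 148) (nat_lit 5) (nat_lit 149) (nat_lit 5) (nat_lit 484) (nat_lit 387) (nat_lit 149)) (XT.lf (nat_lit 0) (nat_lit 78778726201) (nat_lit 228) (nat_lit 7221654976) (nat_lit 76) (nat_lit 4774008518) (nat_lit 146) (nat_lit 5) (nat_lit 149) (nat_lit 5) (nat_lit 147) (nat_lit 4) (nat_lit 485) (nat_lit 387) (nat_lit 148))) (XT.nd (nat_lit 45474) (nat_lit 0) (nat_lit 17480) (XT.lf (nat_lit 0) (nat_lit 15602044728) (nat_lit 152) (nat_lit 39688771408) (nat_lit 76) (nat_lit 37236959657) (nat_lit 144) (nat_lit 5) (nat_lit 146) (nat_lit 5) (nat_lit 145) (nat_lit 5) (nat_lit 486) (nat_lit 387) (nat_lit 147)) (XT.lf (nat_lit 0) (nat_lit 2673407941) (nat_lit 1292) (nat_lit 2895079825) (nat_lit 1292) (nat_lit 2895079825) (nat_lit 374) (nat_lit 3) (nat_lit 391) (nat_lit 3) (nat_lit 391)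 (nat_lit 5) (nat_lit 388) (nat_lit 388) (nat_lit 244)))) (XT.nd (nat_lit 156) (nat_lit 0) (nat_lit 76) (XT.nd (nat_lit 78) (nat_lit 0) (nat_lit 76) (XT.lf (nat_lit 76) (nat_lit 2726614001) (nat_lit 0) (nat_lit 2958624761) (nat_lit 1292) (nat_lit 11488056829) (nat_lit 375) (nat_lit 5) (nat_lit 374) (nat_lit 3) (nat_lit 391) (nat_lit 5) (nat_lit 389) (nat_lit 388) (nat_lit 243)) (XT.lf (nat_lit 0) (nat_lit 6136337463) (nat_lit 1216) (nat_lit 5865686606) (nat_lit 1292) (nat_lit 5421741048) (nat_lit 375) (nat_lit 5) (nat_lit 391) (nat_lit 5) (nat_lit 392) (nat_lit 5) (nat_lit 390) (nat_lit 388) (nat_lit 242))) (XT.nd (nat_lit 78) (nat_lit 0) (nat_lit 76) (XT.lf (nat_lit 76) (nat_lit 2997004183) (nat_lit 0) (nat_lit 3653272452) (nat_lit 1292) (nat_lit 11029992870) (nat_lit 376) (nat_lit 5) (nat_lit 375) (nat_lit 5) (nat_lit 392) (nat_lit 5) (nat_lit 391) (nat_lit 388) (nat_lit 241)) (XT.lf (nat_lit 0) (nat_lit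 7278445916) (nat_lit 1216) (nat_lit 5750173464) (nat_lit 1292) (nat_lit 4912885285) (nat_lit 376) (nat_lit 5) (nat_lit 392) (nat_lit 5) (nat_lit 393) (nat_lit 5) (nat_lit 392) (nat_lit 388) (nat_lit 240))))) (XT.nd (nat_lit 312) (nat_lit 0) (nat_lit 152) (XT.nd (nat_lit 156) (nat_lit 0) (nat_lit 76) (XT.nd (nat_lit 78) (nat_lit 0) (nat_lit 76) (XT.lf (nat_lit 76) (nat_lit 3477582780) (nat_lit 0) (nat_lit 4509176317) (nat_lit 1292) (nat_lit 10221978820) (nat_lit 377) (nat_lit 5) (nat_lit 376) (nat_lit 5) (nat_lit 393) (nat_lit 5) (nat_lit 393) (nat_lit 388) (nat_lit 239)) (XT.lf (nat_lit 0) (nat_lit 8807891354) (nat_lit 1216) (nat_lit 5429024140) (nat_lit 1292) (nat_lit 4244325581) (nat_lit 377) (nat_lit 5) (nat_lit 393) (nat_lit 5) (nat_lit 394) (nat_lit 5) (nat_lit 394) (nat_lit 388) (nat_lit 238))) (XT.nd (nat_lit 78) (nat_lit 0) (nat_lit 76) (XT.lf (nat_lit 76) (nat_lit 4184082972) (nat_lit 0) (nat_lit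 5546598460) (nat_lit 1292) (nat_lit 9028927179) (nat_lit 378) (nat_lit 5) (nat_lit 377) (nat_lit 5) (nat_lit 394) (nat_lit 5) (nat_lit 395) (nat_lit 388) (nat_lit 237)) (XT.lf (nat_lit 0) (nat_lit 10761609694) (nat_lit 1216) (nat_lit 4886371963) (nat_lit 1292) (nat_lit 3395931884) (nat_lit 378) (nat_lit 5) (nat_lit 394) (nat_lit 5) (nat_lit 395) (nat_lit 5) (nat_lit 396) (nat_lit 388) (nat_lit 236)))) (XT.nd (nat_lit 156) (nat_lit 0) (nat_lit 76) (XT.nd (nat_lit 78) (nat_lit 0) (nat_lit 76) (XT.lf (nat_lit 76) (nat_lit 5133574034) (nat_lit 0) (nat_lit 6786741792) (nat_lit 1292) (nat_lit 7413526290) (nat_lit 379) (nat_lit 5) (nat_lit 378) (nat_lit 5) (nat_lit 395) (nat_lit 5) (nat_lit 397) (nat_lit 388) (nat_lit 235)) (XT.lf (nat_lit 0) (nat_lit 13178885100) (nat_lit 1216) (nat_lit 4105017038) (nat_lit 1292) (nat_lit 2346613353) (nat_lit 379) (nat_lit 5) (nat_lit 395) (nat_lit 5) (nat_lit 396) (nat_lit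 5) (nat_lit 398) (nat_lit 388) (nat_lit 234))) (XT.nd (nat_lit 78) (nat_lit 0) (nat_lit 76) (XT.lf (nat_lit 76) (nat_lit 6344528104) (nat_lit 0) (nat_lit 8251850668) (nat_lit 1292) (nat_lit 5336075276) (nat_lit 380) (nat_lit 5) (nat_lit 379) (nat_lit 5) (nat_lit 396) (nat_lit 5) (nat_lit 399) (nat_lit 388) (nat_lit 233)) (XT.lf (nat_lit 0) (nat_lit 16101520905) (nat_lit 1216) (nat_lit 3066357975) (nat_lit 1292) (nat_lit 1074218171) (nat_lit 380) (nat_lit 5) (nat_lit 396) (nat_lit 5) (nat_lit 397) (nat_lit 5) (nat_lit 400) (nat_lit 388) (nat_lit 232))))))))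
noncomputable def xc199 : XT := (XT.nd (nat_lit 2418) (nat_lit 5852) (nat_lit 0) (XT.nd (nat_lit 1170) (nat_lit 4180) (nat_lit 0) (XT.nd (nat_lit 546) (nat_lit 2964) (nat_lit 0) (XT.nd (nat_lit 234) (nat_lit 760) (nat_lit 0) (XT.nd (nat_lit 78) (nat_lit 1216) (nat_lit 0) (XT.lf (nat_lit 76) (nat_lit 7836892826) (nat_lit 0) (nat_lit 9965314499) (nat_lit 1292) (nat_lit 2754310319) (nat_lit 381) (nat_lit 5) (nat_lit 380) (nat_lit 5) (nat_lit 397) (nat_lit 5) (nat_lit 401) (nat_lit 388) (nat_lit 231)) (XT.nd (nat_lit 78) (nat_lit 1216) (nat_lit 0) (XT.lf (nat_lit 76) (nat_lit 19124960634) (nat_lit 0) (nat_lit 453417572) (nat_lit 1292) (nat_lit 1301258733) (nat_lit 381) (nat_lit 5) (nat_lit 380) (nat_lit 5) (nat_lit 397) (nat_lit 5) (nat_lit 402) (nat_lit 388) (nat_lit 230)) (XT.lf (nat_lit 0) (nat_lit 369426108) (nat_lit 1292) (nat_lit 11578618243) (nat_lit 1368) (nat_lit 9259013486) (nat_lit 364) (nat_lit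 5) (nat_lit 381) (nat_lit 5) (nat_lit 382) (nat_lit 5) (nat_lit 403) (nat_lit 388) (nat_lit 229)))) (XT.nd (nat_lit 156) (nat_lit 760) (nat_lit 0) (XT.nd (nat_lit 78) (nat_lit 0) (nat_lit 76) (XT.lf (nat_lit 0) (nat_lit 2080235710) (nat_lit 1292) (nat_lit 177563409) (nat_lit 1368) (nat_lit 19285630983) (nat_lit 364) (nat_lit 5) (nat_lit 381) (nat_lit 5) (nat_lit 382) (nat_lit 5) (nat_lit 404) (nat_lit 388) (nat_lit 228)) (XT.lf (nat_lit 0) (nat_lit 4025033829) (nat_lit 1292) (nat_lit 10171557545) (nat_lit 76) (nat_lit 7687822235) (nat_lit 365) (nat_lit 5) (nat_lit 382) (nat_lit 5) (nat_lit 366) (nat_lit 5) (nat_lit 405) (nat_lit 388) (nat_lit 227))) (XT.nd (nat_lit 78) (nat_lit 0) (nat_lit 0) (XT.lf (nat_lit 0) (nat_lit 1734279410) (nat_lit 836) (nat_lit 4328824351) (nat_lit 912) (nat_lit 16171475023) (nat_lit 354) (nat_lit 5) (nat_lit 365) (nat_lit 5) (nat_lit 366) (nat_lit 5) (nat_lit 406) (nat_lit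 388) (nat_lit 226)) (XT.lf (nat_lit 0) (nat_lit 8316354416) (nat_lit 912) (nat_lit 8448848859) (nat_lit 76) (nat_lit 5825424483) (nat_lit 354) (nat_lit 5) (nat_lit 366) (nat_lit 5) (nat_lit 355) (nat_lit 5) (nat_lit 407) (nat_lit 388) (nat_lit 225))))) (XT.nd (nat_lit 312) (nat_lit 1748) (nat_lit 0) (XT.nd (nat_lit 156) (nat_lit 608) (nat_lit 0) (XT.nd (nat_lit 78) (nat_lit 0) (nat_lit 0) (XT.lf (nat_lit 0) (nat_lit 3994006032) (nat_lit 608) (nat_lit 6718836918) (nat_lit 684) (nat_lit 12242246038) (nat_lit 346) (nat_lit 5) (nat_lit 354) (nat_lit 5) (nat_lit 355) (nat_lit 5) (nat_lit 408) (nat_lit 388) (nat_lit 224)) (XT.lf (nat_lit 0) (nat_lit 13296775958) (nat_lit 684) (nat_lit 6385646922) (nat_lit 76) (nat_lit 3644594682) (nat_lit 346) (nat_lit 5) (nat_lit 355) (nat_lit 5) (nat_lit 347) (nat_lit 5) (nat_lit 409) (nat_lit 388) (nat_lit 223))) (XT.nd (nat_lit 78) (nat_lit 0) (nat_lit 0) (XT.lf (nat_lit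 0) (nat_lit 6624620687) (nat_lit 608) (nat_lit 9458474248) (nat_lit 684) (nat_lit 7623263017) (nat_lit 338) (nat_lit 5) (nat_lit 346) (nat_lit 5) (nat_lit 347) (nat_lit 5) (nat_lit 410) (nat_lit 388) (nat_lit 222)) (XT.lf (nat_lit 0) (nat_lit 19023203018) (nat_lit 684) (nat_lit 3955278917) (nat_lit 76) (nat_lit 1116490634) (nat_lit 338) (nat_lit 5) (nat_lit 347) (nat_lit 5) (nat_lit 339) (nat_lit 5) (nat_lit 411) (nat_lit 388) (nat_lit 221)))) (XT.nd (nat_lit 156) (nat_lit 1140) (nat_lit 0) (XT.nd (nat_lit 78) (nat_lit 76) (nat_lit 0) (XT.lf (nat_lit 0) (nat_lit 9654589029) (nat_lit 532) (nat_lit 12578303668) (nat_lit 608) (nat_lit 2256911576) (nat_lit 331) (nat_lit 5) (nat_lit 338) (nat_lit 5) (nat_lit 339) (nat_lit 5) (nat_lit 412) (nat_lit 388) (nat_lit 220)) (XT.lf (nat_lit 0) (nat_lit 665166761) (nat_lit 608) (nat_lit 1153202289) (nat_lit 76) (nat_lit 23076867326) (nat_lit 330) (nat_lit 5) (nat_lit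 338) (nat_lit 5) (nat_lit 331) (nat_lit 5) (nat_lit 413) (nat_lit 388) (nat_lit 219))) (XT.nd (nat_lit 78) (nat_lit 532) (nat_lit 0) (XT.lf (nat_lit 0) (nat_lit 3841781214) (nat_lit 684) (nat_lit 12230170789) (nat_lit 76) (nat_lit 9233842007) (nat_lit 322) (nat_lit 5) (nat_lit 331) (nat_lit 5) (nat_lit 323) (nat_lit 5) (nat_lit 414) (nat_lit 388) (nat_lit 218)) (XT.lf (nat_lit 0) (nat_lit 2043263614) (nat_lit 532) (nat_lit 5115048363) (nat_lit 608) (nat_lit 18569017858) (nat_lit 315) (nat_lit 5) (nat_lit 322) (nat_lit 5) (nat_lit 323) (nat_lit 5) (nat_lit 415) (nat_lit 388) (nat_lit 217)))))) (XT.nd (nat_lit 624) (nat_lit 2128) (nat_lit 0) (XT.nd (nat_lit 312) (nat_lit 1064) (nat_lit 0) (XT.nd (nat_lit 156) (nat_lit 456) (nat_lit 0) (XT.nd (nat_lit 78) (nat_lit 532) (nat_lit 0) (XT.lf (nat_lit 0) (nat_lit 10753677213) (nat_lit 608) (nat_lit 9227947071) (nat_lit 76) (nat_lit 6174507296) (nat_lit 315)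 (nat_lit 5) (nat_lit 323) (nat_lit 5) (nat_lit 316) (nat_lit 5) (nat_lit 416) (nat_lit 388) (nat_lit 216)) (XT.lf (nat_lit 0) (nat_lit 5717726882) (nat_lit 532) (nat_lit 8840219556) (nat_lit 608) (nat_lit 12036819648) (nat_lit 308) (nat_lit 5) (nat_lit 315) (nat_lit 5) (nat_lit 316) (nat_lit 5) (nat_lit 417) (nat_lit 388) (nat_lit 215))) (XT.nd (nat_lit 78) (nat_lit 456) (nat_lit 0) (XT.lf (nat_lit 0) (nat_lit 18591300239) (nat_lit 608) (nat_lit 5774222978) (nat_lit 76) (nat_lit 2677587713) (nat_lit 308) (nat_lit 5) (nat_lit 316) (nat_lit 5) (nat_lit 309) (nat_lit 5) (nat_lit 418) (nat_lit 388) (nat_lit 214)) (XT.lf (nat_lit 0) (nat_lit 9881995943) (nat_lit 456) (nat_lit 13041824392) (nat_lit 532) (nat_lit 4575740817) (nat_lit 302) (nat_lit 5) (nat_lit 308) (nat_lit 5) (nat_lit 309) (nat_lit 5) (nat_lit 419) (nat_lit 388) (nat_lit 213)))) (XT.nd (nat_lit 156) (nat_lit 456) (nat_lit 0) (XT.nd (nat_lit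 78) (nat_lit 608) (nat_lit 0) (XT.lf (nat_lit 0) (nat_lit 26121328048) (nat_lit 456) (nat_lit 1319022587) (nat_lit 532) (nat_lit 527733205) (nat_lit 302) (nat_lit 5) (nat_lit 308) (nat_lit 5) (nat_lit 309) (nat_lit 5) (nat_lit 420) (nat_lit 388) (nat_lit 212)) (XT.lf (nat_lit 0) (nat_lit 3812340817) (nat_lit 608) (nat_lit 13907605745) (nat_lit 76) (nat_lit 10722414782) (nat_lit 294) (nat_lit 5) (nat_lit 302) (nat_lit 5) (nat_lit 295) (nat_lit 5) (nat_lit 421) (nat_lit 388) (nat_lit 211))) (XT.nd (nat_lit 78) (nat_lit 0) (nat_lit 0) (XT.lf (nat_lit 0) (nat_lit 2541436989) (nat_lit 456) (nat_lit 5782774278) (nat_lit 532) (nat_lit 20604933120) (nat_lit 288) (nat_lit 5) (nat_lit 294) (nat_lit 5) (nat_lit 295) (nat_lit 5) (nat_lit 422) (nat_lit 388) (nat_lit 210)) (XT.lf (nat_lit 0) (nat_lit 13171813303) (nat_lit 532) (nat_lit 9726279529) (nat_lit 76) (nat_lit 6526426825) (nat_lit 288) (nat_lit 5) (nat_lit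 295) (nat_lit 5) (nat_lit 289) (nat_lit 5) (nat_lit 423) (nat_lit 388) (nat_lit 209))))) (XT.nd (nat_lit 312) (nat_lit 760) (nat_lit 0) (XT.nd (nat_lit 156) (nat_lit 912) (nat_lit 0) (XT.nd (nat_lit 78) (nat_lit 0) (nat_lit 0) (XT.lf (nat_lit 0) (nat_lit 7519604206) (nat_lit 456) (nat_lit 10770838751) (nat_lit 532) (nat_lit 11640545240) (nat_lit 282) (nat_lit 5) (nat_lit 288) (nat_lit 5) (nat_lit 289) (nat_lit 5) (nat_lit 424) (nat_lit 388) (nat_lit 208)) (XT.lf (nat_lit 0) (nat_lit 23674476840) (nat_lit 532) (nat_lit 4989894651) (nat_lit 76) (nat_lit 1784923944) (nat_lit 282) (nat_lit 5) (nat_lit 289) (nat_lit 5) (nat_lit 283) (nat_lit 5) (nat_lit 425) (nat_lit 388) (nat_lit 207))) (XT.nd (nat_lit 78) (nat_lit 532) (nat_lit 0) (XT.lf (nat_lit 0) (nat_lit 13098412448) (nat_lit 380) (nat_lit 16350404818) (nat_lit 456) (nat_lit 1527471057) (nat_lit 277) (nat_lit 5) (nat_lit 282) (nat_lit 5) (nat_lit 283)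 (nat_lit 5) (nat_lit 426) (nat_lit 388) (nat_lit 206)) (XT.lf (nat_lit 0) (nat_lit 276901164) (nat_lit 456) (nat_lit 3574545635) (nat_lit 532) (nat_lit 27665031773) (nat_lit 270) (nat_lit 5) (nat_lit 276) (nat_lit 5) (nat_lit 277) (nat_lit 5) (nat_lit 427) (nat_lit 388) (nat_lit 205)))) (XT.nd (nat_lit 156) (nat_lit 380) (nat_lit 0) (XT.nd (nat_lit 78) (nat_lit 380) (nat_lit 0) (XT.lf (nat_lit 0) (nat_lit 9631797210) (nat_lit 532) (nat_lit 12838564351) (nat_lit 76) (nat_lit 9593936293) (nat_lit 270) (nat_lit 5) (nat_lit 277) (nat_lit 5) (nat_lit 271) (nat_lit 5) (nat_lit 428) (nat_lit 388) (nat_lit 204)) (XT.lf (nat_lit 0) (nat_lit 6195258631) (nat_lit 380) (nat_lit 9481664828) (nat_lit 456) (nat_lit 16948887296) (nat_lit 265) (nat_lit 5) (nat_lit 270) (nat_lit 5) (nat_lit 271) (nat_lit 5) (nat_lit 429) (nat_lit 388) (nat_lit 203))) (XT.nd (nat_lit 78) (nat_lit 380) (nat_lit 0) (XT.lf (nat_lit 0) (nat_lit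 22068258198) (nat_lit 456) (nat_lit 7180515368) (nat_lit 76) (nat_lit 3950449836) (nat_lit 265) (nat_lit 5) (nat_lit 271) (nat_lit 5) (nat_lit 266) (nat_lit 5) (nat_lit 430) (nat_lit 388) (nat_lit 202)) (XT.lf (nat_lit 0) (nat_lit 12798254630) (nat_lit 380) (nat_lit 16066553076) (nat_lit 456) (nat_lit 4918626480) (nat_lit 260) (nat_lit 5) (nat_lit 265) (nat_lit 5) (nat_lit 266) (nat_lit 5) (nat_lit 431) (nat_lit 388) (nat_lit 201))))))) (XT.nd (nat_lit 1170) (nat_lit 2660) (nat_lit 0) (XT.nd (nat_lit 546) (nat_lit 1596) (nat_lit 0) (XT.nd (nat_lit 234) (nat_lit 760) (nat_lit 0) (XT.nd (nat_lit 78) (nat_lit 760) (nat_lit 0) (XT.lf (nat_lit 0) (nat_lit 1521022293) (nat_lit 456) (nat_lit 879012556) (nat_lit 76) (nat_lit 31982614972) (nat_lit 259) (nat_lit 5) (nat_lit 265) (nat_lit 5) (nat_lit 260) (nat_lit 5) (nat_lit 432) (nat_lit 388) (nat_lit 200)) (XT.nd (nat_lit 78) (nat_lit 380) (nat_lit 0) (XT.lf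 (nat_lit 0) (nat_lit 8360219875) (nat_lit 456) (nat_lit 14936568259) (nat_lit 76) (nat_lit 11692436247) (nat_lit 254) (nat_lit 5) (nat_lit 260) (nat_lit 5) (nat_lit 255) (nat_lit 5) (nat_lit 433) (nat_lit 388) (nat_lit 199)) (XT.lf (nat_lit 0) (nat_lit 6107330792) (nat_lit 380) (nat_lit 9385432255) (nat_lit 456) (nat_lit 20118588041) (nat_lit 249) (nat_lit 5) (nat_lit 254) (nat_lit 5) (nat_lit 255) (nat_lit 5) (nat_lit 434) (nat_lit 388) (nat_lit 198)))) (XT.nd (nat_lit 156) (nat_lit 456) (nat_lit 0) (XT.nd (nat_lit 78) (nat_lit 304) (nat_lit 0) (XT.lf (nat_lit 0) (nat_lit 23035898162) (nat_lit 456) (nat_lit 8212493604) (nat_lit 76) (nat_lit 4997851360) (nat_lit 249) (nat_lit 5) (nat_lit 255) (nat_lit 5) (nat_lit 250) (nat_lit 5) (nat_lit 435) (nat_lit 388) (nat_lit 197)) (XT.lf (nat_lit 0) (nat_lit 13891462513) (nat_lit 304) (nat_lit 17137191616) (nat_lit 380) (nat_lit 5864827993) (nat_lit 245) (nat_lit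 5) (nat_lit 249) (nat_lit 5) (nat_lit 250) (nat_lit 5) (nat_lit 436) (nat_lit 388) (nat_lit 196))) (XT.nd (nat_lit 78) (nat_lit 380) (nat_lit 0) (XT.lf (nat_lit 0) (nat_lit 1748498650) (nat_lit 380) (nat_lit 752419640) (nat_lit 76) (nat_lit 35056310316) (nat_lit 244) (nat_lit 5) (nat_lit 249) (nat_lit 5) (nat_lit 245) (nat_lit 5) (nat_lit 437) (nat_lit 388) (nat_lit 195)) (XT.lf (nat_lit 0) (nat_lit 9809594773) (nat_lit 456) (nat_lit 15814188902) (nat_lit 76) (nat_lit 12605244372) (nat_lit 239) (nat_lit 5) (nat_lit 245) (nat_lit 5) (nat_lit 240) (nat_lit 5) (nat_lit 438) (nat_lit 388) (nat_lit 194))))) (XT.nd (nat_lit 312) (nat_lit 608) (nat_lit 0) (XT.nd (nat_lit 156) (nat_lit 684) (nat_lit 0) (XT.nd (nat_lit 78) (nat_lit 0) (nat_lit 0) (XT.lf (nat_lit 0) (nat_lit 7488695417) (nat_lit 304) (nat_lit 10725260219) (nat_lit 380) (nat_lit 20703982880) (nat_lit 235) (nat_lit 5) (nat_lit 239) (nat_lit 5)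 (nat_lit 240) (nat_lit 5) (nat_lit 439) (nat_lit 388) (nat_lit 193)) (XT.lf (nat_lit 0) (nat_lit 27073176154) (nat_lit 380) (nat_lit 7858294480) (nat_lit 76) (nat_lit 4689963800) (nat_lit 235) (nat_lit 5) (nat_lit 240) (nat_lit 5) (nat_lit 236) (nat_lit 5) (nat_lit 440) (nat_lit 388) (nat_lit 192))) (XT.nd (nat_lit 78) (nat_lit 380) (nat_lit 0) (XT.lf (nat_lit 0) (nat_lit 16633890571) (nat_lit 304) (nat_lit 19827497712) (nat_lit 380) (nat_lit 3876750497) (nat_lit 231) (nat_lit 5) (nat_lit 235) (nat_lit 5) (nat_lit 236) (nat_lit 5) (nat_lit 441) (nat_lit 388) (nat_lit 191)) (XT.lf (nat_lit 0) (nat_lit 912083140) (nat_lit 304) (nat_lit 4130230535) (nat_lit 380) (nat_lit 36029991342) (nat_lit 226) (nat_lit 5) (nat_lit 230) (nat_lit 5) (nat_lit 231) (nat_lit 5) (nat_lit 442) (nat_lit 388) (nat_lit 190)))) (XT.nd (nat_lit 156) (nat_lit 304) (nat_lit 0) (XT.nd (nat_lit 78) (nat_lit 304) (nat_lit 0) (XT.lf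 (nat_lit 0) (nat_lit 14505655785) (nat_lit 380) (nat_lit 15229298344) (nat_lit 76) (nat_lit 12081751855) (nat_lit 226) (nat_lit 5) (nat_lit 231) (nat_lit 5) (nat_lit 227) (nat_lit 5) (nat_lit 443) (nat_lit 388) (nat_lit 189)) (XT.lf (nat_lit 0) (nat_lit 10611523163) (nat_lit 304) (nat_lit 13781527460) (nat_lit 380) (nat_lit 18186183785) (nat_lit 222) (nat_lit 5) (nat_lit 226) (nat_lit 5) (nat_lit 227) (nat_lit 5) (nat_lit 444) (nat_lit 388) (nat_lit 188))) (XT.nd (nat_lit 78) (nat_lit 304) (nat_lit 0) (XT.lf (nat_lit 0) (nat_lit 34755134792) (nat_lit 380) (nat_lit 5851502290) (nat_lit 76) (nat_lit 2752659577) (nat_lit 222) (nat_lit 5) (nat_lit 227) (nat_lit 5) (nat_lit 223) (nat_lit 5) (nat_lit 445) (nat_lit 388) (nat_lit 187)) (XT.lf (nat_lit 0) (nat_lit 1582771404) (nat_lit 304) (nat_lit 22844377511) (nat_lit 76) (nat_lit 19724982721) (nat_lit 218) (nat_lit 5) (nat_lit 222) (nat_lit 5) (nat_lit 219)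 (nat_lit 5) (nat_lit 446) (nat_lit 388) (nat_lit 186)))))) (XT.nd (nat_lit 624) (nat_lit 1292) (nat_lit 0) (XT.nd (nat_lit 312) (nat_lit 836) (nat_lit 0) (XT.nd (nat_lit 156) (nat_lit 228) (nat_lit 0) (XT.nd (nat_lit 78) (nat_lit 0) (nat_lit 0) (XT.lf (nat_lit 0) (nat_lit 4431335758) (nat_lit 304) (nat_lit 7570684019) (nat_lit 380) (nat_lit 32961186928) (nat_lit 214) (nat_lit 5) (nat_lit 218) (nat_lit 5) (nat_lit 219) (nat_lit 5) (nat_lit 447) (nat_lit 388) (nat_lit 185)) (XT.lf (nat_lit 0) (nat_lit 23058329475) (nat_lit 380) (nat_lit 12898634514) (nat_lit 76) (nat_lit 9831915520) (nat_lit 214) (nat_lit 5) (nat_lit 219) (nat_lit 5) (nat_lit 215) (nat_lit 5) (nat_lit 448) (nat_lit 388) (nat_lit 184))) (XT.nd (nat_lit 78) (nat_lit 0) (nat_lit 0) (XT.lf (nat_lit 0) (nat_lit 15792793584) (nat_lit 228) (nat_lit 18877772832) (nat_lit 304) (nat_lit 11962028943) (nat_lit 211) (nat_lit 5) (nat_lit 214) (nat_lit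 5) (nat_lit 215) (nat_lit 5) (nat_lit 449) (nat_lit 388) (nat_lit 183)) (XT.lf (nat_lit 0) (nat_lit 45605390877) (nat_lit 228) (nat_lit 1153536579) (nat_lit 304) (nat_lit 738862518) (nat_lit 211) (nat_lit 5) (nat_lit 214) (nat_lit 5) (nat_lit 215) (nat_lit 5) (nat_lit 450) (nat_lit 388) (nat_lit 182)))) (XT.nd (nat_lit 156) (nat_lit 228) (nat_lit 0) (XT.nd (nat_lit 78) (nat_lit 228) (nat_lit 0) (XT.lf (nat_lit 0) (nat_lit 11048212620) (nat_lit 380) (nat_lit 20176752198) (nat_lit 76) (nat_lit 17147703956) (nat_lit 206) (nat_lit 5) (nat_lit 211) (nat_lit 5) (nat_lit 207) (nat_lit 5) (nat_lit 451) (nat_lit 388) (nat_lit 181)) (XT.lf (nat_lit 0) (nat_lit 10127210392) (nat_lit 228) (nat_lit 13172482633) (nat_lit 304) (nat_lit 25970112146) (nat_lit 203) (nat_lit 5) (nat_lit 206) (nat_lit 5) (nat_lit 207) (nat_lit 5) (nat_lit 452) (nat_lit 388) (nat_lit 180))) (XT.nd (nat_lit 78) (nat_lit 228) (nat_lit 0)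 (XT.lf (nat_lit 0) (nat_lit 36174189565) (nat_lit 304) (nat_lit 8491934806) (nat_lit 76) (nat_lit 5520067139) (nat_lit 203) (nat_lit 5) (nat_lit 207) (nat_lit 5) (nat_lit 204) (nat_lit 5) (nat_lit 453) (nat_lit 388) (nat_lit 179)) (XT.lf (nat_lit 0) (nat_lit 23400615572) (nat_lit 228) (nat_lit 26387330495) (nat_lit 304) (nat_lit 1331532620) (nat_lit 200) (nat_lit 5) (nat_lit 203) (nat_lit 5) (nat_lit 204) (nat_lit 5) (nat_lit 454) (nat_lit 388) (nat_lit 178))))) (XT.nd (nat_lit 312) (nat_lit 760) (nat_lit 0) (XT.nd (nat_lit 156) (nat_lit 228) (nat_lit 0) (XT.nd (nat_lit 78) (nat_lit 0) (nat_lit 0) (XT.lf (nat_lit 0) (nat_lit 4312533451) (nat_lit 228) (nat_lit 7313663187) (nat_lit 304) (nat_lit 40447413516) (nat_lit 196) (nat_lit 5) (nat_lit 199) (nat_lit 5) (nat_lit 200) (nat_lit 5) (nat_lit 455) (nat_lit 388) (nat_lit 177)) (XT.lf (nat_lit 0) (nat_lit 25344806328) (nat_lit 304) (nat_lit 15313250969)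 (nat_lit 76) (nat_lit 12385945435) (nat_lit 196) (nat_lit 5) (nat_lit 200) (nat_lit 5) (nat_lit 197) (nat_lit 5) (nat_lit 456) (nat_lit 388) (nat_lit 176))) (XT.nd (nat_lit 78) (nat_lit 0) (nat_lit 0) (XT.lf (nat_lit 0) (nat_lit 18390714268) (nat_lit 228) (nat_lit 21331211397) (nat_lit 304) (nat_lit 14314172880) (nat_lit 193) (nat_lit 5) (nat_lit 196) (nat_lit 5) (nat_lit 197) (nat_lit 5) (nat_lit 457) (nat_lit 388) (nat_lit 175)) (XT.lf (nat_lit 0) (nat_lit 53415990039) (nat_lit 228) (nat_lit 1266788055) (nat_lit 304) (nat_lit 370606553) (nat_lit 193) (nat_lit 5) (nat_lit 196) (nat_lit 5) (nat_lit 197) (nat_lit 5) (nat_lit 458) (nat_lit 388) (nat_lit 174)))) (XT.nd (nat_lit 156) (nat_lit 228) (nat_lit 0) (XT.nd (nat_lit 78) (nat_lit 228) (nat_lit 0) (XT.lf (nat_lit 0) (nat_lit 14233108148) (nat_lit 304) (nat_lit 22363979335) (nat_lit 76) (nat_lit 19484621230) (nat_lit 189) (nat_lit 5) (nat_lit 193)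 (nat_lit 5) (nat_lit 190) (nat_lit 5) (nat_lit 459) (nat_lit 388) (nat_lit 173)) (XT.lf (nat_lit 0) (nat_lit 13265503414) (nat_lit 228) (nat_lit 16156582081) (nat_lit 304) (nat_lit 27714048923) (nat_lit 186) (nat_lit 5) (nat_lit 189) (nat_lit 5) (nat_lit 190) (nat_lit 5) (nat_lit 460) (nat_lit 388) (nat_lit 172))) (XT.nd (nat_lit 78) (nat_lit 228) (nat_lit 0) (XT.lf (nat_lit 0) (nat_lit 45339731538) (nat_lit 304) (nat_lit 7846095810) (nat_lit 76) (nat_lit 5028175564) (nat_lit 186) (nat_lit 5) (nat_lit 190) (nat_lit 5) (nat_lit 187) (nat_lit 5) (nat_lit 461) (nat_lit 388) (nat_lit 171)) (XT.lf (nat_lit 0) (nat_lit 2811182282) (nat_lit 228) (nat_lit 29663775240) (nat_lit 76) (nat_lit 26835129020) (nat_lit 183) (nat_lit 5) (nat_lit 186) (nat_lit 5) (nat_lit 184) (nat_lit 5) (nat_lit 462) (nat_lit 388) (nat_lit 170))))))))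
noncomputable def xc200 : XT := (XT.nd (nat_lit 47892) (nat_lit 0) (nat_lit 10336) (XT.nd (nat_lit 1170) (nat_lit 836) (nat_lit 0) (XT.nd (nat_lit 546) (nat_lit 1140) (nat_lit 0) (XT.nd (nat_lit 234) (nat_lit 456) (nat_lit 0) (XT.nd (nat_lit 78) (nat_lit 152) (nat_lit 0) (XT.lf (nat_lit 0) (nat_lit 8012168823) (nat_lit 228) (nat_lit 10851228610) (nat_lit 304) (nat_lit 41567182468) (nat_lit 180) (nat_lit 5) (nat_lit 183) (nat_lit 5) (nat_lit 184) (nat_lit 5) (nat_lit 463) (nat_lit 388) (nat_lit 169)) (XT.nd (nat_lit 78) (nat_lit 152) (nat_lit 0) (XT.lf (nat_lit 0) (nat_lit 35807415981) (nat_lit 304) (nat_lit 14265574740) (nat_lit 76) (nat_lit 11499390229) (nat_lit 180) (nat_lit 5) (nat_lit 184) (nat_lit 5) (nat_lit 181) (nat_lit 5) (nat_lit 464) (nat_lit 388) (nat_lit 168)) (XT.lf (nat_lit 0) (nat_lit 25416899475) (nat_lit 152) (nat_lit 28192613875) (nat_lit 228) (nat_lit 9128429935) (nat_lit 178) (nat_lit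 5) (nat_lit 180) (nat_lit 5) (nat_lit 181) (nat_lit 5) (nat_lit 465) (nat_lit 388) (nat_lit 167)))) (XT.nd (nat_lit 156) (nat_lit 152) (nat_lit 0) (XT.nd (nat_lit 78) (nat_lit 0) (nat_lit 0) (XT.lf (nat_lit 0) (nat_lit 2617314040) (nat_lit 228) (nat_lit 5402280761) (nat_lit 304) (nat_lit 55911509294) (nat_lit 174) (nat_lit 5) (nat_lit 177) (nat_lit 5) (nat_lit 178) (nat_lit 5) (nat_lit 466) (nat_lit 388) (nat_lit 166)) (XT.lf (nat_lit 0) (nat_lit 26050919282) (nat_lit 304) (nat_lit 20901215738) (nat_lit 76) (nat_lit 18188643355) (nat_lit 174) (nat_lit 5) (nat_lit 178) (nat_lit 5) (nat_lit 175) (nat_lit 5) (nat_lit 467) (nat_lit 388) (nat_lit 165))) (XT.nd (nat_lit 78) (nat_lit 0) (nat_lit 0) (XT.lf (nat_lit 0) (nat_lit 21078159849) (nat_lit 152) (nat_lit 23799199416) (nat_lit 228) (nat_lit 21501758343) (nat_lit 172) (nat_lit 5) (nat_lit 174) (nat_lit 5) (nat_lit 175) (nat_lit 5) (nat_lit 468) (nat_lit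 388) (nat_lit 164)) (XT.lf (nat_lit 0) (nat_lit 64480289426) (nat_lit 228) (nat_lit 2908866901) (nat_lit 76) (nat_lit 259099782) (nat_lit 172) (nat_lit 5) (nat_lit 175) (nat_lit 5) (nat_lit 173) (nat_lit 5) (nat_lit 469) (nat_lit 388) (nat_lit 163))))) (XT.nd (nat_lit 312) (nat_lit 532) (nat_lit 0) (XT.nd (nat_lit 156) (nat_lit 228) (nat_lit 0) (XT.nd (nat_lit 78) (nat_lit 152) (nat_lit 0) (XT.lf (nat_lit 0) (nat_lit 16046402578) (nat_lit 228) (nat_lit 27771466389) (nat_lit 76) (nat_lit 25113950597) (nat_lit 169) (nat_lit 5) (nat_lit 172) (nat_lit 5) (nat_lit 170) (nat_lit 5) (nat_lit 470) (nat_lit 388) (nat_lit 162)) (XT.lf (nat_lit 0) (nat_lit 16648165019) (nat_lit 152) (nat_lit 19313203794) (nat_lit 228) (nat_lit 34285944962) (nat_lit 167) (nat_lit 5) (nat_lit 169) (nat_lit 5) (nat_lit 170) (nat_lit 5) (nat_lit 471) (nat_lit 388) (nat_lit 161))) (XT.nd (nat_lit 78) (nat_lit 228) (nat_lit 0) (XT.lf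 (nat_lit 0) (nat_lit 56812118658) (nat_lit 228) (nat_lit 8687255767) (nat_lit 76) (nat_lit 6092748349) (nat_lit 167) (nat_lit 5) (nat_lit 170) (nat_lit 5) (nat_lit 168) (nat_lit 5) (nat_lit 472) (nat_lit 388) (nat_lit 160)) (XT.lf (nat_lit 0) (nat_lit 5768850441) (nat_lit 228) (nat_lit 34895722385) (nat_lit 76) (nat_lit 32294330372) (nat_lit 164) (nat_lit 5) (nat_lit 167) (nat_lit 5) (nat_lit 165) (nat_lit 5) (nat_lit 473) (nat_lit 388) (nat_lit 159)))) (XT.nd (nat_lit 156) (nat_lit 380) (nat_lit 0) (XT.nd (nat_lit 78) (nat_lit 0) (nat_lit 0) (XT.lf (nat_lit 0) (nat_lit 12116150096) (nat_lit 152) (nat_lit 14724226182) (nat_lit 228) (nat_lit 47515822585) (nat_lit 162) (nat_lit 5) (nat_lit 164) (nat_lit 5) (nat_lit 165) (nat_lit 5) (nat_lit 474) (nat_lit 388) (nat_lit 158)) (XT.lf (nat_lit 0) (nat_lit 49013428154) (nat_lit 228) (nat_lit 14653158459) (nat_lit 76) (nat_lit 12114745375) (nat_lit 162) (nat_lit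 5) (nat_lit 165) (nat_lit 5) (nat_lit 163) (nat_lit 5) (nat_lit 475) (nat_lit 388) (nat_lit 157))) (XT.nd (nat_lit 78) (nat_lit 228) (nat_lit 0) (XT.lf (nat_lit 0) (nat_lit 34893304972) (nat_lit 152) (nat_lit 37437834930) (nat_lit 228) (nat_lit 4903695156) (nat_lit 160) (nat_lit 5) (nat_lit 162) (nat_lit 5) (nat_lit 163) (nat_lit 5) (nat_lit 476) (nat_lit 388) (nat_lit 156)) (XT.lf (nat_lit 0) (nat_lit 7470865167) (nat_lit 152) (nat_lit 10021333836) (nat_lit 228) (nat_lit 61228078436) (nat_lit 157) (nat_lit 5) (nat_lit 159) (nat_lit 5) (nat_lit 160) (nat_lit 5) (nat_lit 477) (nat_lit 388) (nat_lit 155)))))) (XT.nd (nat_lit 546) (nat_lit 152) (nat_lit 0) (XT.nd (nat_lit 234) (nat_lit 304) (nat_lit 0) (XT.nd (nat_lit 78) (nat_lit 380) (nat_lit 0) (XT.lf (nat_lit 0) (nat_lit 41066608188) (nat_lit 228) (nat_lit 20822921706) (nat_lit 76) (nat_lit 18341140726) (nat_lit 157) (nat_lit 5) (nat_lit 160) (nat_lit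 5) (nat_lit 158) (nat_lit 5) (nat_lit 478) (nat_lit 388) (nat_lit 154)) (XT.nd (nat_lit 78) (nat_lit 228) (nat_lit 0) (XT.lf (nat_lit 0) (nat_lit 31631321662) (nat_lit 152) (nat_lit 34118537405) (nat_lit 228) (nat_lit 16024468245) (nat_lit 155) (nat_lit 5) (nat_lit 157) (nat_lit 5) (nat_lit 158) (nat_lit 5) (nat_lit 479) (nat_lit 388) (nat_lit 153)) (XT.lf (nat_lit 0) (nat_lit 2700538687) (nat_lit 152) (nat_lit 5193030898) (nat_lit 228) (nat_lit 75461372774) (nat_lit 152) (nat_lit 5) (nat_lit 154) (nat_lit 5) (nat_lit 155) (nat_lit 5) (nat_lit 480) (nat_lit 388) (nat_lit 152)))) (XT.nd (nat_lit 156) (nat_lit 152) (nat_lit 0) (XT.nd (nat_lit 78) (nat_lit 152) (nat_lit 0) (XT.lf (nat_lit 0) (nat_lit 32953242482) (nat_lit 228) (nat_lit 27213728732) (nat_lit 76) (nat_lit 24788859804) (nat_lit 152) (nat_lit 5) (nat_lit 155) (nat_lit 5) (nat_lit 153) (nat_lit 5) (nat_lit 481) (nat_lit 388) (nat_lit 151))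 (XT.lf (nat_lit 0) (nat_lit 28328560941) (nat_lit 152) (nat_lit 30758258586) (nat_lit 228) (nat_lit 27508263390) (nat_lit 150) (nat_lit 5) (nat_lit 152) (nat_lit 5) (nat_lit 153) (nat_lit 5) (nat_lit 482) (nat_lit 388) (nat_lit 150))) (XT.nd (nat_lit 78) (nat_lit 152) (nat_lit 0) (XT.lf (nat_lit 0) (nat_lit 86092021670) (nat_lit 152) (nat_lit 185592490) (nat_lit 228) (nat_lit 1997701905) (nat_lit 150) (nat_lit 5) (nat_lit 152) (nat_lit 5) (nat_lit 153) (nat_lit 5) (nat_lit 483) (nat_lit 388) (nat_lit 149)) (XT.lf (nat_lit 0) (nat_lit 24654053074) (nat_lit 152) (nat_lit 33843656567) (nat_lit 76) (nat_lit 31475756327) (nat_lit 148) (nat_lit 5) (nat_lit 150) (nat_lit 5) (nat_lit 149) (nat_lit 5) (nat_lit 484) (nat_lit 388) (nat_lit 148))))) (XT.nd (nat_lit 45864) (nat_lit 0) (nat_lit 17404) (XT.nd (nat_lit 45708) (nat_lit 0) (nat_lit 17328) (XT.nd (nat_lit 45630) (nat_lit 0) (nat_lit 17328) (XT.lf (nat_lit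 0) (nat_lit 24977832383) (nat_lit 152) (nat_lit 27350022875) (nat_lit 228) (nat_lit 39386232342) (nat_lit 146) (nat_lit 5) (nat_lit 148) (nat_lit 5) (nat_lit 149) (nat_lit 5) (nat_lit 485) (nat_lit 388) (nat_lit 147)) (XT.lf (nat_lit 0) (nat_lit 2983390710) (nat_lit 1292) (nat_lit 2863595246) (nat_lit 1292) (nat_lit 2863595246) (nat_lit 374) (nat_lit 3) (nat_lit 391) (nat_lit 3) (nat_lit 391) (nat_lit 5) (nat_lit 389) (nat_lit 389) (nat_lit 242))) (XT.nd (nat_lit 78) (nat_lit 0) (nat_lit 76) (XT.lf (nat_lit 76) (nat_lit 3042766035) (nat_lit 0) (nat_lit 3261458427) (nat_lit 1292) (nat_lit 11370817140) (nat_lit 375) (nat_lit 5) (nat_lit 374) (nat_lit 3) (nat_lit 391) (nat_lit 5) (nat_lit 390) (nat_lit 389) (nat_lit 241)) (XT.lf (nat_lit 0) (nat_lit 6753797216) (nat_lit 1216) (nat_lit 5799070516) (nat_lit 1292) (nat_lit 5380609250) (nat_lit 375) (nat_lit 5) (nat_lit 391) (nat_lit 5) (nat_lit 392) (nat_lit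 5) (nat_lit 391) (nat_lit 389) (nat_lit 240)))) (XT.nd (nat_lit 156) (nat_lit 0) (nat_lit 76) (XT.nd (nat_lit 78) (nat_lit 0) (nat_lit 76) (XT.lf (nat_lit 76) (nat_lit 3327122695) (nat_lit 0) (nat_lit 3945718481) (nat_lit 1292) (nat_lit 10925144726) (nat_lit 376) (nat_lit 5) (nat_lit 375) (nat_lit 5) (nat_lit 392) (nat_lit 5) (nat_lit 392) (nat_lit 389) (nat_lit 239)) (XT.lf (nat_lit 0) (nat_lit 7905827058) (nat_lit 1216) (nat_lit 5675438163) (nat_lit 1292) (nat_lit 4886213751) (nat_lit 376) (nat_lit 5) (nat_lit 392) (nat_lit 5) (nat_lit 393) (nat_lit 5) (nat_lit 393) (nat_lit 389) (nat_lit 238))) (XT.nd (nat_lit 78) (nat_lit 0) (nat_lit 76) (XT.lf (nat_lit 76) (nat_lit 3826726841) (nat_lit 0) (nat_lit 4799102689) (nat_lit 1292) (nat_lit 10117186493) (nat_lit 377) (nat_lit 5) (nat_lit 376) (nat_lit 5) (nat_lit 393) (nat_lit 5) (nat_lit 394) (nat_lit 389) (nat_lit 237)) (XT.lf (nat_lit 0) (nat_lit 9458517473)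 (nat_lit 1216) (nat_lit 5341130584) (nat_lit 1292) (nat_lit 4224438568) (nat_lit 377) (nat_lit 5) (nat_lit 393) (nat_lit 5) (nat_lit 394) (nat_lit 5) (nat_lit 395) (nat_lit 389) (nat_lit 236))))))) (XT.nd (nat_lit 1170) (nat_lit 4864) (nat_lit 0) (XT.nd (nat_lit 546) (nat_lit 2356) (nat_lit 0) (XT.nd (nat_lit 234) (nat_lit 0) (nat_lit 152) (XT.nd (nat_lit 78) (nat_lit 0) (nat_lit 76) (XT.lf (nat_lit 76) (nat_lit 4557911269) (nat_lit 0) (nat_lit 5842212793) (nat_lit 1292) (nat_lit 8910947143) (nat_lit 378) (nat_lit 5) (nat_lit 377) (nat_lit 5) (nat_lit 394) (nat_lit 5) (nat_lit 396) (nat_lit 389) (nat_lit 235)) (XT.nd (nat_lit 78) (nat_lit 0) (nat_lit 0) (XT.lf (nat_lit 0) (nat_lit 11449778450) (nat_lit 1216) (nat_lit 4779687802) (nat_lit 1292) (nat_lit 3374805080) (nat_lit 378) (nat_lit 5) (nat_lit 394) (nat_lit 5) (nat_lit 395) (nat_lit 5) (nat_lit 397) (nat_lit 389) (nat_lit 234)) (XT.lf (nat_lit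 76) (nat_lit 5538373484) (nat_lit 0) (nat_lit 7096642650) (nat_lit 1292) (nat_lit 7268128522) (nat_lit 379) (nat_lit 5) (nat_lit 378) (nat_lit 5) (nat_lit 395) (nat_lit 5) (nat_lit 398) (nat_lit 389) (nat_lit 233)))) (XT.nd (nat_lit 156) (nat_lit 0) (nat_lit 76) (XT.nd (nat_lit 78) (nat_lit 0) (nat_lit 0) (XT.lf (nat_lit 0) (nat_lit 13919949735) (nat_lit 1216) (nat_lit 3973287199) (nat_lit 1292) (nat_lit 2315823079) (nat_lit 379) (nat_lit 5) (nat_lit 395) (nat_lit 5) (nat_lit 396) (nat_lit 5) (nat_lit 399) (nat_lit 389) (nat_lit 232)) (XT.lf (nat_lit 76) (nat_lit 6787245471) (nat_lit 0) (nat_lit 8585079916) (nat_lit 1292) (nat_lit 5147960625) (nat_lit 380) (nat_lit 5) (nat_lit 379) (nat_lit 5) (nat_lit 396) (nat_lit 5) (nat_lit 400) (nat_lit 389) (nat_lit 231))) (XT.nd (nat_lit 78) (nat_lit 0) (nat_lit 0) (XT.lf (nat_lit 0) (nat_lit 16911975953) (nat_lit 1216) (nat_lit 2902672278) (nat_lit 1292) (nat_lit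 1024889449) (nat_lit 380) (nat_lit 5) (nat_lit 396) (nat_lit 5) (nat_lit 397) (nat_lit 5) (nat_lit 401) (nat_lit 389) (nat_lit 230)) (XT.lf (nat_lit 76) (nat_lit 8325169415) (nat_lit 0) (nat_lit 10331410977) (nat_lit 1292) (nat_lit 2507023576) (nat_lit 381) (nat_lit 5) (nat_lit 380) (nat_lit 5) (nat_lit 397) (nat_lit 5) (nat_lit 402) (nat_lit 389) (nat_lit 229))))) (XT.nd (nat_lit 312) (nat_lit 1368) (nat_lit 0) (XT.nd (nat_lit 156) (nat_lit 0) (nat_lit 0) (XT.nd (nat_lit 78) (nat_lit 1216) (nat_lit 0) (XT.lf (nat_lit 76) (nat_lit 19944505379) (nat_lit 0) (nat_lit 532201694) (nat_lit 1292) (nat_lit 1019989648) (nat_lit 381) (nat_lit 5) (nat_lit 380) (nat_lit 5) (nat_lit 397) (nat_lit 5) (nat_lit 403) (nat_lit 389) (nat_lit 228)) (XT.lf (nat_lit 0) (nat_lit 687262225) (nat_lit 1292) (nat_lit 11666627351) (nat_lit 1368) (nat_lit 9480177396) (nat_lit 364) (nat_lit 5) (nat_lit 381) (nat_lit 5) (nat_lit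 382) (nat_lit 5) (nat_lit 404) (nat_lit 389) (nat_lit 227))) (XT.nd (nat_lit 78) (nat_lit 0) (nat_lit 76) (XT.lf (nat_lit 76) (nat_lit 70276610) (nat_lit 0) (nat_lit 2370860484) (nat_lit 1368) (nat_lit 19739641082) (nat_lit 365) (nat_lit 5) (nat_lit 364) (nat_lit 5) (nat_lit 382) (nat_lit 5) (nat_lit 405) (nat_lit 389) (nat_lit 226)) (XT.lf (nat_lit 0) (nat_lit 4436920177) (nat_lit 1292) (nat_lit 10218225262) (nat_lit 76) (nat_lit 7877066518) (nat_lit 365) (nat_lit 5) (nat_lit 382) (nat_lit 5) (nat_lit 366) (nat_lit 5) (nat_lit 406) (nat_lit 389) (nat_lit 225)))) (XT.nd (nat_lit 156) (nat_lit 608) (nat_lit 0) (XT.nd (nat_lit 78) (nat_lit 0) (nat_lit 0) (XT.lf (nat_lit 0) (nat_lit 2042252694) (nat_lit 836) (nat_lit 4487860142) (nat_lit 912) (nat_lit 16362949833) (nat_lit 354) (nat_lit 5) (nat_lit 365) (nat_lit 5) (nat_lit 366) (nat_lit 5) (nat_lit 407) (nat_lit 389) (nat_lit 224)) (XT.lf (nat_lit 0)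 (nat_lit 8842384419) (nat_lit 912) (nat_lit 8445247537) (nat_lit 76) (nat_lit 5972418452) (nat_lit 354) (nat_lit 5) (nat_lit 366) (nat_lit 5) (nat_lit 355) (nat_lit 5) (nat_lit 408) (nat_lit 389) (nat_lit 223))) (XT.nd (nat_lit 78) (nat_lit 0) (nat_lit 0) (XT.lf (nat_lit 0) (nat_lit 4368372738) (nat_lit 608) (nat_lit 6936787184) (nat_lit 684) (nat_lit 12330453785) (nat_lit 346) (nat_lit 5) (nat_lit 354) (nat_lit 5) (nat_lit 355) (nat_lit 5) (nat_lit 409) (nat_lit 389) (nat_lit 222)) (XT.lf (nat_lit 0) (nat_lit 13958566789) (nat_lit 684) (nat_lit 6322039650) (nat_lit 76) (nat_lit 3738335022) (nat_lit 346) (nat_lit 5) (nat_lit 355) (nat_lit 5) (nat_lit 347) (nat_lit 5) (nat_lit 410) (nat_lit 389) (nat_lit 221)))))) (XT.nd (nat_lit 624) (nat_lit 1976) (nat_lit 0) (XT.nd (nat_lit 312) (nat_lit 1672) (nat_lit 0) (XT.nd (nat_lit 156) (nat_lit 608) (nat_lit 0) (XT.nd (nat_lit 78) (nat_lit 0) (nat_lit 0) (XT.lf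 (nat_lit 0) (nat_lit 7076034254) (nat_lit 608) (nat_lit 9747213029) (nat_lit 684) (nat_lit 7586571623) (nat_lit 338) (nat_lit 5) (nat_lit 346) (nat_lit 5) (nat_lit 347) (nat_lit 5) (nat_lit 411) (nat_lit 389) (nat_lit 220)) (XT.lf (nat_lit 0) (nat_lit 19844007444) (nat_lit 684) (nat_lit 3821070637) (nat_lit 76) (nat_lit 1145240415) (nat_lit 338) (nat_lit 5) (nat_lit 347) (nat_lit 5) (nat_lit 339) (nat_lit 5) (nat_lit 412) (nat_lit 389) (nat_lit 219))) (XT.nd (nat_lit 78) (nat_lit 76) (nat_lit 0) (XT.lf (nat_lit 0) (nat_lit 10194614263) (nat_lit 532) (nat_lit 12950495720) (nat_lit 608) (nat_lit 2072031503) (nat_lit 331) (nat_lit 5) (nat_lit 338) (nat_lit 5) (nat_lit 339) (nat_lit 5) (nat_lit 413) (nat_lit 389) (nat_lit 218)) (XT.lf (nat_lit 0) (nat_lit 925566939) (nat_lit 608) (nat_lit 939918307) (nat_lit 76) (nat_lit 23769394867) (nat_lit 330) (nat_lit 5) (nat_lit 338) (nat_lit 5) (nat_lit 331) (nat_lit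 5) (nat_lit 414) (nat_lit 389) (nat_lit 217)))) (XT.nd (nat_lit 156) (nat_lit 532) (nat_lit 0) (XT.nd (nat_lit 78) (nat_lit 532) (nat_lit 0) (XT.lf (nat_lit 0) (nat_lit 4192928729) (nat_lit 684) (nat_lit 12344644766) (nat_lit 76) (nat_lit 9520317513) (nat_lit 322) (nat_lit 5) (nat_lit 331) (nat_lit 5) (nat_lit 323) (nat_lit 5) (nat_lit 415) (nat_lit 389) (nat_lit 216)) (XT.lf (nat_lit 0) (nat_lit 2354517855) (nat_lit 532) (nat_lit 5249969593) (nat_lit 608) (nat_lit 18887719500) (nat_lit 315) (nat_lit 5) (nat_lit 322) (nat_lit 5) (nat_lit 323) (nat_lit 5) (nat_lit 416) (nat_lit 389) (nat_lit 215))) (XT.nd (nat_lit 78) (nat_lit 532) (nat_lit 0) (XT.lf (nat_lit 0) (nat_lit 11301146009) (nat_lit 608) (nat_lit 9255541803) (nat_lit 76) (nat_lit 6377381961) (nat_lit 315) (nat_lit 5) (nat_lit 323) (nat_lit 5) (nat_lit 316) (nat_lit 5) (nat_lit 417) (nat_lit 389) (nat_lit 214)) (XT.lf (nat_lit 0) (nat_lit 6136058804)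 (nat_lit 532) (nat_lit 9079307624) (nat_lit 608) (nat_lit 12170622192) (nat_lit 308) (nat_lit 5) (nat_lit 315) (nat_lit 5) (nat_lit 316) (nat_lit 5) (nat_lit 418) (nat_lit 389) (nat_lit 213))))) (XT.nd (nat_lit 312) (nat_lit 912) (nat_lit 0) (XT.nd (nat_lit 156) (nat_lit 608) (nat_lit 0) (XT.nd (nat_lit 78) (nat_lit 456) (nat_lit 0) (XT.lf (nat_lit 0) (nat_lit 19363536979) (nat_lit 608) (nat_lit 5701654040) (nat_lit 76) (nat_lit 2782778307) (nat_lit 308) (nat_lit 5) (nat_lit 316) (nat_lit 5) (nat_lit 309) (nat_lit 5) (nat_lit 419) (nat_lit 389) (nat_lit 212)) (XT.lf (nat_lit 0) (nat_lit 10421841687) (nat_lit 456) (nat_lit 13400283057) (nat_lit 532) (nat_lit 4496105548) (nat_lit 302) (nat_lit 5) (nat_lit 308) (nat_lit 5) (nat_lit 309) (nat_lit 5) (nat_lit 420) (nat_lit 389) (nat_lit 211))) (XT.nd (nat_lit 78) (nat_lit 608) (nat_lit 0) (XT.lf (nat_lit 0) (nat_lit 27141264847) (nat_lit 456) (nat_lit 1326752424)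 (nat_lit 532) (nat_lit 332975402) (nat_lit 302) (nat_lit 5) (nat_lit 308) (nat_lit 5) (nat_lit 309) (nat_lit 5) (nat_lit 421) (nat_lit 389) (nat_lit 210)) (XT.lf (nat_lit 0) (nat_lit 4129805033) (nat_lit 608) (nat_lit 14081041152) (nat_lit 76) (nat_lit 11078693180) (nat_lit 294) (nat_lit 5) (nat_lit 302) (nat_lit 5) (nat_lit 295) (nat_lit 5) (nat_lit 422) (nat_lit 389) (nat_lit 209)))) (XT.nd (nat_lit 156) (nat_lit 456) (nat_lit 0) (XT.nd (nat_lit 78) (nat_lit 0) (nat_lit 0) (XT.lf (nat_lit 0) (nat_lit 2859082739) (nat_lit 456) (nat_lit 5914354008) (nat_lit 532) (nat_lit 21017596997) (nat_lit 288) (nat_lit 5) (nat_lit 294) (nat_lit 5) (nat_lit 295) (nat_lit 5) (nat_lit 423) (nat_lit 389) (nat_lit 208)) (XT.lf (nat_lit 0) (nat_lit 13761047259) (nat_lit 532) (nat_lit 9778276834) (nat_lit 76) (nat_lit 6762108766) (nat_lit 288) (nat_lit 5) (nat_lit 295) (nat_lit 5) (nat_lit 289) (nat_lit 5) (nat_lit 424)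 (nat_lit 389) (nat_lit 207))) (XT.nd (nat_lit 78) (nat_lit 0) (nat_lit 0) (XT.lf (nat_lit 0) (nat_lit 7982632520) (nat_lit 456) (nat_lit 11047232902) (nat_lit 532) (nat_lit 11793331147) (nat_lit 282) (nat_lit 5) (nat_lit 288) (nat_lit 5) (nat_lit 289) (nat_lit 5) (nat_lit 425) (nat_lit 389) (nat_lit 206)) (XT.lf (nat_lit 0) (nat_lit 24570301808) (nat_lit 532) (nat_lit 4903948524) (nat_lit 76) (nat_lit 1882956246) (nat_lit 282) (nat_lit 5) (nat_lit 289) (nat_lit 5) (nat_lit 283) (nat_lit 5) (nat_lit 426) (nat_lit 389) (nat_lit 205))))))))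
noncomputable def xc201 : XT := (XT.nd (nat_lit 2340) (nat_lit 3648) (nat_lit 0) (XT.nd (nat_lit 1170) (nat_lit 2964) (nat_lit 0) (XT.nd (nat_lit 546) (nat_lit 1824) (nat_lit 0) (XT.nd (nat_lit 234) (nat_lit 836) (nat_lit 0) (XT.nd (nat_lit 78) (nat_lit 532) (nat_lit 0) (XT.lf (nat_lit 0) (nat_lit 13724697563) (nat_lit 380) (nat_lit 16790012268) (nat_lit 456) (nat_lit 1385394301) (nat_lit 277) (nat_lit 5) (nat_lit 282) (nat_lit 5) (nat_lit 283) (nat_lit 5) (nat_lit 427) (nat_lit 389) (nat_lit 204)) (XT.nd (nat_lit 78) (nat_lit 0) (nat_lit 0) (XT.lf (nat_lit 0) (nat_lit 519884040) (nat_lit 456) (nat_lit 3628230229) (nat_lit 532) (nat_lit 28308424939) (nat_lit 270) (nat_lit 5) (nat_lit 276) (nat_lit 5) (nat_lit 277) (nat_lit 5) (nat_lit 428) (nat_lit 389) (nat_lit 203)) (XT.lf (nat_lit 0) (nat_lit 10097099513) (nat_lit 532) (nat_lit 12991104980) (nat_lit 76) (nat_lit 9932731846) (nat_lit 270) (nat_lit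 5) (nat_lit 277) (nat_lit 5) (nat_lit 271) (nat_lit 5) (nat_lit 429) (nat_lit 389) (nat_lit 202)))) (XT.nd (nat_lit 156) (nat_lit 456) (nat_lit 0) (XT.nd (nat_lit 78) (nat_lit 0) (nat_lit 0) (XT.lf (nat_lit 0) (nat_lit 6611452140) (nat_lit 380) (nat_lit 9709205177) (nat_lit 456) (nat_lit 17278724976) (nat_lit 265) (nat_lit 5) (nat_lit 270) (nat_lit 5) (nat_lit 271) (nat_lit 5) (nat_lit 430) (nat_lit 389) (nat_lit 201)) (XT.lf (nat_lit 0) (nat_lit 22899211967) (nat_lit 456) (nat_lit 7167783756) (nat_lit 76) (nat_lit 4123137200) (nat_lit 265) (nat_lit 5) (nat_lit 271) (nat_lit 5) (nat_lit 266) (nat_lit 5) (nat_lit 431) (nat_lit 389) (nat_lit 200))) (XT.nd (nat_lit 78) (nat_lit 76) (nat_lit 0) (XT.lf (nat_lit 0) (nat_lit 13408112605) (nat_lit 380) (nat_lit 16488797351) (nat_lit 456) (nat_lit 4895042515) (nat_lit 260) (nat_lit 5) (nat_lit 265) (nat_lit 5) (nat_lit 266) (nat_lit 5) (nat_lit 432) (nat_lit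 389) (nat_lit 199)) (XT.lf (nat_lit 0) (nat_lit 1729568639) (nat_lit 456) (nat_lit 682810167) (nat_lit 76) (nat_lit 32996863039) (nat_lit 259) (nat_lit 5) (nat_lit 265) (nat_lit 5) (nat_lit 260) (nat_lit 5) (nat_lit 433) (nat_lit 389) (nat_lit 198))))) (XT.nd (nat_lit 312) (nat_lit 760) (nat_lit 0) (XT.nd (nat_lit 156) (nat_lit 304) (nat_lit 0) (XT.nd (nat_lit 78) (nat_lit 380) (nat_lit 0) (XT.lf (nat_lit 0) (nat_lit 8771893295) (nat_lit 456) (nat_lit 15160043688) (nat_lit 76) (nat_lit 12102138125) (nat_lit 254) (nat_lit 5) (nat_lit 260) (nat_lit 5) (nat_lit 255) (nat_lit 5) (nat_lit 434) (nat_lit 389) (nat_lit 197)) (XT.lf (nat_lit 0) (nat_lit 6512970162) (nat_lit 380) (nat_lit 9602895190) (nat_lit 456) (nat_lit 20559076686) (nat_lit 249) (nat_lit 5) (nat_lit 254) (nat_lit 5) (nat_lit 255) (nat_lit 5) (nat_lit 435) (nat_lit 389) (nat_lit 196))) (XT.nd (nat_lit 78) (nat_lit 304) (nat_lit 0) (XT.lf (nat_lit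 0) (nat_lit 23881281498) (nat_lit 456) (nat_lit 8238914180) (nat_lit 76) (nat_lit 5208805551) (nat_lit 249) (nat_lit 5) (nat_lit 255) (nat_lit 5) (nat_lit 250) (nat_lit 5) (nat_lit 436) (nat_lit 389) (nat_lit 195)) (XT.lf (nat_lit 0) (nat_lit 14526004207) (nat_lit 304) (nat_lit 17585415182) (nat_lit 380) (nat_lit 5884310028) (nat_lit 245) (nat_lit 5) (nat_lit 249) (nat_lit 5) (nat_lit 250) (nat_lit 5) (nat_lit 437) (nat_lit 389) (nat_lit 194)))) (XT.nd (nat_lit 156) (nat_lit 304) (nat_lit 0) (XT.nd (nat_lit 78) (nat_lit 380) (nat_lit 0) (XT.lf (nat_lit 0) (nat_lit 1949895019) (nat_lit 380) (nat_lit 560573810) (nat_lit 76) (nat_lit 36169008392) (nat_lit 244) (nat_lit 5) (nat_lit 249) (nat_lit 5) (nat_lit 245) (nat_lit 5) (nat_lit 438) (nat_lit 389) (nat_lit 193)) (XT.lf (nat_lit 0) (nat_lit 10251158121) (nat_lit 456) (nat_lit 16072530245) (nat_lit 76) (nat_lit 13047792258) (nat_lit 239) (nat_lit 5) (nat_lit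 245) (nat_lit 5) (nat_lit 240) (nat_lit 5) (nat_lit 439) (nat_lit 389) (nat_lit 192))) (XT.nd (nat_lit 78) (nat_lit 0) (nat_lit 0) (XT.lf (nat_lit 0) (nat_lit 7927322130) (nat_lit 304) (nat_lit 10978094872) (nat_lit 380) (nat_lit 21175708388) (nat_lit 235) (nat_lit 5) (nat_lit 239) (nat_lit 5) (nat_lit 240) (nat_lit 5) (nat_lit 440) (nat_lit 389) (nat_lit 191)) (XT.lf (nat_lit 0) (nat_lit 28026832826) (nat_lit 380) (nat_lit 7882728169) (nat_lit 76) (nat_lit 4896272631) (nat_lit 235) (nat_lit 5) (nat_lit 240) (nat_lit 5) (nat_lit 236) (nat_lit 5) (nat_lit 441) (nat_lit 389) (nat_lit 190)))))) (XT.nd (nat_lit 546) (nat_lit 1368) (nat_lit 0) (XT.nd (nat_lit 234) (nat_lit 912) (nat_lit 0) (XT.nd (nat_lit 78) (nat_lit 380) (nat_lit 0) (XT.lf (nat_lit 0) (nat_lit 17342150717) (nat_lit 304) (nat_lit 20352431743) (nat_lit 380) (nat_lit 3849519907) (nat_lit 231) (nat_lit 5) (nat_lit 235) (nat_lit 5) (nat_lit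 236) (nat_lit 5) (nat_lit 442) (nat_lit 389) (nat_lit 189)) (XT.nd (nat_lit 78) (nat_lit 0) (nat_lit 0) (XT.lf (nat_lit 0) (nat_lit 1149411045) (nat_lit 304) (nat_lit 4182823614) (nat_lit 380) (nat_lit 36968079960) (nat_lit 226) (nat_lit 5) (nat_lit 230) (nat_lit 5) (nat_lit 231) (nat_lit 5) (nat_lit 443) (nat_lit 389) (nat_lit 188)) (XT.lf (nat_lit 0) (nat_lit 15076104184) (nat_lit 380) (nat_lit 15478954531) (nat_lit 76) (nat_lit 12512090087) (nat_lit 226) (nat_lit 5) (nat_lit 231) (nat_lit 5) (nat_lit 227) (nat_lit 5) (nat_lit 444) (nat_lit 389) (nat_lit 187)))) (XT.nd (nat_lit 156) (nat_lit 608) (nat_lit 0) (XT.nd (nat_lit 78) (nat_lit 0) (nat_lit 0) (XT.lf (nat_lit 0) (nat_lit 11135060025) (nat_lit 304) (nat_lit 14123093107) (nat_lit 380) (nat_lit 18594458978) (nat_lit 222) (nat_lit 5) (nat_lit 226) (nat_lit 5) (nat_lit 227) (nat_lit 5) (nat_lit 445) (nat_lit 389) (nat_lit 186)) (XT.lf (nat_lit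 0) (nat_lit 35927887813) (nat_lit 380) (nat_lit 5824620620) (nat_lit 76) (nat_lit 2903664155) (nat_lit 222) (nat_lit 5) (nat_lit 227) (nat_lit 5) (nat_lit 223) (nat_lit 5) (nat_lit 446) (nat_lit 389) (nat_lit 185))) (XT.nd (nat_lit 78) (nat_lit 304) (nat_lit 0) (XT.lf (nat_lit 0) (nat_lit 1759760674) (nat_lit 304) (nat_lit 23326689248) (nat_lit 76) (nat_lit 20386360480) (nat_lit 218) (nat_lit 5) (nat_lit 222) (nat_lit 5) (nat_lit 219) (nat_lit 5) (nat_lit 447) (nat_lit 389) (nat_lit 184)) (XT.lf (nat_lit 0) (nat_lit 4765305031) (nat_lit 304) (nat_lit 7724441860) (nat_lit 380) (nat_lit 33818526019) (nat_lit 214) (nat_lit 5) (nat_lit 218) (nat_lit 5) (nat_lit 219) (nat_lit 5) (nat_lit 448) (nat_lit 389) (nat_lit 183))))) (XT.nd (nat_lit 312) (nat_lit 760) (nat_lit 0) (XT.nd (nat_lit 156) (nat_lit 380) (nat_lit 0) (XT.nd (nat_lit 78) (nat_lit 228) (nat_lit 0) (XT.lf (nat_lit 0) (nat_lit 23874712104) (nat_lit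 380) (nat_lit 13087385793) (nat_lit 76) (nat_lit 10196709014) (nat_lit 214) (nat_lit 5) (nat_lit 219) (nat_lit 5) (nat_lit 215) (nat_lit 5) (nat_lit 449) (nat_lit 389) (nat_lit 182)) (XT.lf (nat_lit 0) (nat_lit 16462841934) (nat_lit 228) (nat_lit 19370730753) (nat_lit 304) (nat_lit 12194313853) (nat_lit 211) (nat_lit 5) (nat_lit 214) (nat_lit 5) (nat_lit 215) (nat_lit 5) (nat_lit 450) (nat_lit 389) (nat_lit 181))) (XT.nd (nat_lit 78) (nat_lit 380) (nat_lit 0) (XT.lf (nat_lit 0) (nat_lit 47164100703) (nat_lit 228) (nat_lit 1116904556) (nat_lit 304) (nat_lit 638139114) (nat_lit 211) (nat_lit 5) (nat_lit 214) (nat_lit 5) (nat_lit 215) (nat_lit 5) (nat_lit 451) (nat_lit 389) (nat_lit 180)) (XT.lf (nat_lit 0) (nat_lit 11499171722) (nat_lit 380) (nat_lit 20588130107) (nat_lit 76) (nat_lit 17732961626) (nat_lit 206) (nat_lit 5) (nat_lit 211) (nat_lit 5) (nat_lit 207) (nat_lit 5) (nat_lit 452) (nat_lit 389)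 (nat_lit 179)))) (XT.nd (nat_lit 156) (nat_lit 532) (nat_lit 0) (XT.nd (nat_lit 78) (nat_lit 0) (nat_lit 0) (XT.lf (nat_lit 0) (nat_lit 10623050138) (nat_lit 228) (nat_lit 13493511295) (nat_lit 304) (nat_lit 26627801565) (nat_lit 203) (nat_lit 5) (nat_lit 206) (nat_lit 5) (nat_lit 207) (nat_lit 5) (nat_lit 453) (nat_lit 389) (nat_lit 178)) (XT.lf (nat_lit 0) (nat_lit 37374551516) (nat_lit 304) (nat_lit 8557520978) (nat_lit 76) (nat_lit 5756250673) (nat_lit 203) (nat_lit 5) (nat_lit 207) (nat_lit 5) (nat_lit 204) (nat_lit 5) (nat_lit 454) (nat_lit 389) (nat_lit 177))) (XT.nd (nat_lit 78) (nat_lit 304) (nat_lit 0) (XT.lf (nat_lit 0) (nat_lit 24289951284) (nat_lit 228) (nat_lit 27105216553) (nat_lit 304) (nat_lit 1254487708) (nat_lit 200) (nat_lit 5) (nat_lit 203) (nat_lit 5) (nat_lit 204) (nat_lit 5) (nat_lit 455) (nat_lit 389) (nat_lit 176)) (XT.lf (nat_lit 0) (nat_lit 4629650789) (nat_lit 228) (nat_lit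 7458503401) (nat_lit 304) (nat_lit 41544269120) (nat_lit 196) (nat_lit 5) (nat_lit 199) (nat_lit 5) (nat_lit 200) (nat_lit 5) (nat_lit 456) (nat_lit 389) (nat_lit 175))))))) (XT.nd (nat_lit 1170) (nat_lit 1596) (nat_lit 0) (XT.nd (nat_lit 546) (nat_lit 1064) (nat_lit 0) (XT.nd (nat_lit 234) (nat_lit 760) (nat_lit 0) (XT.nd (nat_lit 78) (nat_lit 228) (nat_lit 0) (XT.lf (nat_lit 0) (nat_lit 26215721839) (nat_lit 304) (nat_lit 15587775028) (nat_lit 76) (nat_lit 12828508807) (nat_lit 196) (nat_lit 5) (nat_lit 200) (nat_lit 5) (nat_lit 197) (nat_lit 5) (nat_lit 457) (nat_lit 389) (nat_lit 174)) (XT.nd (nat_lit 78) (nat_lit 0) (nat_lit 0) (XT.lf (nat_lit 0) (nat_lit 19125496681) (nat_lit 228) (nat_lit 21897197246) (nat_lit 304) (nat_lit 14631214259) (nat_lit 193) (nat_lit 5) (nat_lit 196) (nat_lit 5) (nat_lit 197) (nat_lit 5) (nat_lit 458) (nat_lit 389) (nat_lit 173)) (XT.lf (nat_lit 0) (nat_lit 55196198852)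 (nat_lit 228) (nat_lit 1232995102) (nat_lit 304) (nat_lit 272614257) (nat_lit 193) (nat_lit 5) (nat_lit 196) (nat_lit 5) (nat_lit 197) (nat_lit 5) (nat_lit 459) (nat_lit 389) (nat_lit 172)))) (XT.nd (nat_lit 156) (nat_lit 228) (nat_lit 0) (XT.nd (nat_lit 78) (nat_lit 228) (nat_lit 0) (XT.lf (nat_lit 0) (nat_lit 14766375825) (nat_lit 304) (nat_lit 22854333543) (nat_lit 76) (nat_lit 20140262373) (nat_lit 189) (nat_lit 5) (nat_lit 193) (nat_lit 5) (nat_lit 190) (nat_lit 5) (nat_lit 460) (nat_lit 389) (nat_lit 171)) (XT.lf (nat_lit 0) (nat_lit 13842263441) (nat_lit 228) (nat_lit 16567382365) (nat_lit 304) (nat_lit 28437425711) (nat_lit 186) (nat_lit 5) (nat_lit 189) (nat_lit 5) (nat_lit 190) (nat_lit 5) (nat_lit 461) (nat_lit 389) (nat_lit 170))) (XT.nd (nat_lit 78) (nat_lit 228) (nat_lit 0) (XT.lf (nat_lit 0) (nat_lit 46802455613) (nat_lit 304) (nat_lit 7905525759) (nat_lit 76) (nat_lit 5249365664) (nat_lit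 186) (nat_lit 5) (nat_lit 190) (nat_lit 5) (nat_lit 187) (nat_lit 5) (nat_lit 462) (nat_lit 389) (nat_lit 169)) (XT.lf (nat_lit 0) (nat_lit 2997740474) (nat_lit 228) (nat_lit 30377426169) (nat_lit 76) (nat_lit 27711155814) (nat_lit 183) (nat_lit 5) (nat_lit 186) (nat_lit 5) (nat_lit 184) (nat_lit 5) (nat_lit 463) (nat_lit 389) (nat_lit 168))))) (XT.nd (nat_lit 312) (nat_lit 380) (nat_lit 0) (XT.nd (nat_lit 156) (nat_lit 456) (nat_lit 0) (XT.nd (nat_lit 78) (nat_lit 0) (nat_lit 0) (XT.lf (nat_lit 0) (nat_lit 8427068154) (nat_lit 228) (nat_lit 11103154295) (nat_lit 304) (nat_lit 42710247156) (nat_lit 180) (nat_lit 5) (nat_lit 183) (nat_lit 5) (nat_lit 184) (nat_lit 5) (nat_lit 464) (nat_lit 389) (nat_lit 167)) (XT.lf (nat_lit 0) (nat_lit 36980309032) (nat_lit 304) (nat_lit 14521838717) (nat_lit 76) (nat_lit 11914444513) (nat_lit 180) (nat_lit 5) (nat_lit 184) (nat_lit 5) (nat_lit 181) (nat_lit 5) (nat_lit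 465) (nat_lit 389) (nat_lit 166))) (XT.nd (nat_lit 78) (nat_lit 304) (nat_lit 0) (XT.lf (nat_lit 0) (nat_lit 26349426359) (nat_lit 152) (nat_lit 28965803398) (nat_lit 228) (nat_lit 9301928896) (nat_lit 178) (nat_lit 5) (nat_lit 180) (nat_lit 5) (nat_lit 181) (nat_lit 5) (nat_lit 466) (nat_lit 389) (nat_lit 165)) (XT.lf (nat_lit 0) (nat_lit 2866125568) (nat_lit 228) (nat_lit 5491223806) (nat_lit 304) (nat_lit 57488772842) (nat_lit 174) (nat_lit 5) (nat_lit 177) (nat_lit 5) (nat_lit 178) (nat_lit 5) (nat_lit 467) (nat_lit 389) (nat_lit 164)))) (XT.nd (nat_lit 156) (nat_lit 228) (nat_lit 0) (XT.nd (nat_lit 78) (nat_lit 152) (nat_lit 0) (XT.lf (nat_lit 0) (nat_lit 26927465942) (nat_lit 304) (nat_lit 21360772421) (nat_lit 76) (nat_lit 18803912789) (nat_lit 174) (nat_lit 5) (nat_lit 178) (nat_lit 5) (nat_lit 175) (nat_lit 5) (nat_lit 468) (nat_lit 389) (nat_lit 163)) (XT.lf (nat_lit 0) (nat_lit 21876342475)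 (nat_lit 152) (nat_lit 24441183239) (nat_lit 228) (nat_lit 22050150053) (nat_lit 172) (nat_lit 5) (nat_lit 174) (nat_lit 5) (nat_lit 175) (nat_lit 5) (nat_lit 469) (nat_lit 389) (nat_lit 162))) (XT.nd (nat_lit 78) (nat_lit 228) (nat_lit 0) (XT.lf (nat_lit 0) (nat_lit 66506482287) (nat_lit 228) (nat_lit 2833063814) (nat_lit 76) (nat_lit 335404167) (nat_lit 172) (nat_lit 5) (nat_lit 175) (nat_lit 5) (nat_lit 173) (nat_lit 5) (nat_lit 470) (nat_lit 389) (nat_lit 161)) (XT.lf (nat_lit 0) (nat_lit 16619355314) (nat_lit 228) (nat_lit 28441317766) (nat_lit 76) (nat_lit 25936354252) (nat_lit 169) (nat_lit 5) (nat_lit 172) (nat_lit 5) (nat_lit 170) (nat_lit 5) (nat_lit 471) (nat_lit 389) (nat_lit 160)))))) (XT.nd (nat_lit 624) (nat_lit 684) (nat_lit 0) (XT.nd (nat_lit 312) (nat_lit 380) (nat_lit 0) (XT.nd (nat_lit 156) (nat_lit 380) (nat_lit 0) (XT.nd (nat_lit 78) (nat_lit 0) (nat_lit 0) (XT.lf (nat_lit 0) (nat_lit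 17309301677) (nat_lit 152) (nat_lit 19821356323) (nat_lit 228) (nat_lit 35221361745) (nat_lit 167) (nat_lit 5) (nat_lit 169) (nat_lit 5) (nat_lit 170) (nat_lit 5) (nat_lit 472) (nat_lit 389) (nat_lit 159)) (XT.lf (nat_lit 0) (nat_lit 58604960819) (nat_lit 228) (nat_lit 8788921680) (nat_lit 76) (nat_lit 6343349601) (nat_lit 167) (nat_lit 5) (nat_lit 170) (nat_lit 5) (nat_lit 168) (nat_lit 5) (nat_lit 473) (nat_lit 389) (nat_lit 158))) (XT.nd (nat_lit 78) (nat_lit 152) (nat_lit 0) (XT.lf (nat_lit 0) (nat_lit 6030195961) (nat_lit 228) (nat_lit 35783443702) (nat_lit 76) (nat_lit 33331382232) (nat_lit 164) (nat_lit 5) (nat_lit 167) (nat_lit 5) (nat_lit 165) (nat_lit 5) (nat_lit 474) (nat_lit 389) (nat_lit 157)) (XT.lf (nat_lit 0) (nat_lit 12637224657) (nat_lit 152) (nat_lit 15095586506) (nat_lit 228) (nat_lit 48851456958) (nat_lit 162) (nat_lit 5) (nat_lit 164) (nat_lit 5) (nat_lit 165) (nat_lit 5) (nat_lit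 475) (nat_lit 389) (nat_lit 156)))) (XT.nd (nat_lit 156) (nat_lit 228) (nat_lit 0) (XT.nd (nat_lit 78) (nat_lit 152) (nat_lit 0) (XT.lf (nat_lit 0) (nat_lit 50569170806) (nat_lit 228) (nat_lit 14937869368) (nat_lit 76) (nat_lit 12545171579) (nat_lit 162) (nat_lit 5) (nat_lit 165) (nat_lit 5) (nat_lit 163) (nat_lit 5) (nat_lit 476) (nat_lit 389) (nat_lit 155)) (XT.lf (nat_lit 0) (nat_lit 36093469498) (nat_lit 152) (nat_lit 38491933026) (nat_lit 228) (nat_lit 4963947734) (nat_lit 160) (nat_lit 5) (nat_lit 162) (nat_lit 5) (nat_lit 163) (nat_lit 5) (nat_lit 477) (nat_lit 389) (nat_lit 154))) (XT.nd (nat_lit 78) (nat_lit 0) (nat_lit 0) (XT.lf (nat_lit 0) (nat_lit 7848531217) (nat_lit 152) (nat_lit 10252592551) (nat_lit 228) (nat_lit 62978237231) (nat_lit 157) (nat_lit 5) (nat_lit 159) (nat_lit 5) (nat_lit 160) (nat_lit 5) (nat_lit 478) (nat_lit 389) (nat_lit 153)) (XT.lf (nat_lit 0) (nat_lit 42380961511)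 (nat_lit 228) (nat_lit 21296737587) (nat_lit 76) (nat_lit 18957420988) (nat_lit 157) (nat_lit 5) (nat_lit 160) (nat_lit 5) (nat_lit 158) (nat_lit 5) (nat_lit 479) (nat_lit 389) (nat_lit 152))))) (XT.nd (nat_lit 312) (nat_lit 152) (nat_lit 0) (XT.nd (nat_lit 156) (nat_lit 152) (nat_lit 0) (XT.nd (nat_lit 78) (nat_lit 228) (nat_lit 0) (XT.lf (nat_lit 0) (nat_lit 32729653947) (nat_lit 152) (nat_lit 35074093331) (nat_lit 228) (nat_lit 16421368080) (nat_lit 155) (nat_lit 5) (nat_lit 157) (nat_lit 5) (nat_lit 158) (nat_lit 5) (nat_lit 480) (nat_lit 389) (nat_lit 151)) (XT.lf (nat_lit 0) (nat_lit 2931102718) (nat_lit 152) (nat_lit 5280515680) (nat_lit 228) (nat_lit 77641534980) (nat_lit 152) (nat_lit 5) (nat_lit 154) (nat_lit 5) (nat_lit 155) (nat_lit 5) (nat_lit 481) (nat_lit 389) (nat_lit 150))) (XT.nd (nat_lit 78) (nat_lit 152) (nat_lit 0) (XT.lf (nat_lit 0) (nat_lit 34021352694) (nat_lit 228) (nat_lit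 27883219699) (nat_lit 76) (nat_lit 25597548167) (nat_lit 152) (nat_lit 5) (nat_lit 155) (nat_lit 5) (nat_lit 153) (nat_lit 5) (nat_lit 482) (nat_lit 389) (nat_lit 149)) (XT.lf (nat_lit 0) (nat_lit 29323898263) (nat_lit 152) (nat_lit 31614121324) (nat_lit 228) (nat_lit 28252557954) (nat_lit 150) (nat_lit 5) (nat_lit 152) (nat_lit 5) (nat_lit 153) (nat_lit 5) (nat_lit 483) (nat_lit 389) (nat_lit 148)))) (XT.nd (nat_lit 45786) (nat_lit 0) (nat_lit 17176) (XT.nd (nat_lit 78) (nat_lit 152) (nat_lit 0) (XT.lf (nat_lit 0) (nat_lit 88816025518) (nat_lit 152) (nat_lit 126223353) (nat_lit 228) (nat_lit 1979037488) (nat_lit 150) (nat_lit 5) (nat_lit 152) (nat_lit 5) (nat_lit 153) (nat_lit 5) (nat_lit 484) (nat_lit 389) (nat_lit 147)) (XT.lf (nat_lit 0) (nat_lit 25470477694) (nat_lit 152) (nat_lit 34715930621) (nat_lit 76) (nat_lit 32483957541) (nat_lit 148) (nat_lit 5) (nat_lit 150) (nat_lit 5) (nat_lit 149) (nat_lit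 5) (nat_lit 485) (nat_lit 389) (nat_lit 146))) (XT.nd (nat_lit 78) (nat_lit 0) (nat_lit 0) (XT.lf (nat_lit 0) (nat_lit 3289482619) (nat_lit 1292) (nat_lit 2837959157) (nat_lit 1292) (nat_lit 2837959157) (nat_lit 374) (nat_lit 3) (nat_lit 391) (nat_lit 3) (nat_lit 391) (nat_lit 5) (nat_lit 390) (nat_lit 390) (nat_lit 240)) (XT.lf (nat_lit 76) (nat_lit 3354949773) (nat_lit 0) (nat_lit 3561088328) (nat_lit 1292) (nat_lit 11276574143) (nat_lit 375) (nat_lit 5) (nat_lit 374) (nat_lit 3) (nat_lit 391) (nat_lit 5) (nat_lit 391) (nat_lit 390) (nat_lit 239))))))))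
noncomputable def xc202 : XT := (XT.nd (nat_lit 2340) (nat_lit 6916) (nat_lit 0) (XT.nd (nat_lit 1170) (nat_lit 4712) (nat_lit 0) (XT.nd (nat_lit 546) (nat_lit 836) (nat_lit 0) (XT.nd (nat_lit 234) (nat_lit 0) (nat_lit 76) (XT.nd (nat_lit 78) (nat_lit 0) (nat_lit 0) (XT.lf (nat_lit 0) (nat_lit 7364903572) (nat_lit 1216) (nat_lit 5744381412) (nat_lit 1292) (nat_lit 5349941534) (nat_lit 375) (nat_lit 5) (nat_lit 391) (nat_lit 5) (nat_lit 392) (nat_lit 5) (nat_lit 392) (nat_lit 390) (nat_lit 238)) (XT.nd (nat_lit 78) (nat_lit 0) (nat_lit 76) (XT.lf (nat_lit 76) (nat_lit 3653355819) (nat_lit 0) (nat_lit 4236441676) (nat_lit 1292) (nat_lit 10842164852) (nat_lit 376) (nat_lit 5) (nat_lit 375) (nat_lit 5) (nat_lit 392) (nat_lit 5) (nat_lit 393) (nat_lit 390) (nat_lit 237)) (XT.lf (nat_lit 0) (nat_lit 8528549767) (nat_lit 1216) (nat_lit 5612653420) (nat_lit 1292) (nat_lit 4868733718) (nat_lit 376) (nat_lit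 5) (nat_lit 392) (nat_lit 5) (nat_lit 393) (nat_lit 5) (nat_lit 394) (nat_lit 390) (nat_lit 236)))) (XT.nd (nat_lit 156) (nat_lit 0) (nat_lit 76) (XT.nd (nat_lit 78) (nat_lit 0) (nat_lit 76) (XT.lf (nat_lit 76) (nat_lit 4172291752) (nat_lit 0) (nat_lit 5088849248) (nat_lit 1292) (nat_lit 10032869408) (nat_lit 377) (nat_lit 5) (nat_lit 376) (nat_lit 5) (nat_lit 393) (nat_lit 5) (nat_lit 395) (nat_lit 390) (nat_lit 235)) (XT.lf (nat_lit 0) (nat_lit 10106482045) (nat_lit 1216) (nat_lit 5264995117) (nat_lit 1292) (nat_lit 4212405791) (nat_lit 377) (nat_lit 5) (nat_lit 393) (nat_lit 5) (nat_lit 394) (nat_lit 5) (nat_lit 396) (nat_lit 390) (nat_lit 234))) (XT.nd (nat_lit 78) (nat_lit 0) (nat_lit 76) (XT.lf (nat_lit 76) (nat_lit 4928700645) (nat_lit 0) (nat_lit 6139278008) (nat_lit 1292) (nat_lit 8811749162) (nat_lit 378) (nat_lit 5) (nat_lit 377) (nat_lit 5) (nat_lit 394) (nat_lit 5) (nat_lit 397) (nat_lit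 390) (nat_lit 233)) (XT.lf (nat_lit 0) (nat_lit 12137621380) (nat_lit 1216) (nat_lit 4684342156) (nat_lit 1292) (nat_lit 3360105450) (nat_lit 378) (nat_lit 5) (nat_lit 394) (nat_lit 5) (nat_lit 395) (nat_lit 5) (nat_lit 398) (nat_lit 390) (nat_lit 232))))) (XT.nd (nat_lit 312) (nat_lit 1064) (nat_lit 0) (XT.nd (nat_lit 156) (nat_lit 0) (nat_lit 76) (XT.nd (nat_lit 78) (nat_lit 0) (nat_lit 76) (XT.lf (nat_lit 76) (nat_lit 5940920417) (nat_lit 0) (nat_lit 7409738558) (nat_lit 1292) (nat_lit 7139482249) (nat_lit 379) (nat_lit 5) (nat_lit 378) (nat_lit 5) (nat_lit 395) (nat_lit 5) (nat_lit 399) (nat_lit 390) (nat_lit 231)) (XT.lf (nat_lit 0) (nat_lit 14663401826) (nat_lit 1216) (nat_lit 3852236640) (nat_lit 1292) (nat_lit 2289917740) (nat_lit 379) (nat_lit 5) (nat_lit 395) (nat_lit 5) (nat_lit 396) (nat_lit 5) (nat_lit 400) (nat_lit 390) (nat_lit 230))) (XT.nd (nat_lit 78) (nat_lit 0) (nat_lit 76) (XT.lf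 (nat_lit 76) (nat_lit 7228756626) (nat_lit 0) (nat_lit 8923388020) (nat_lit 1292) (nat_lit 4974190461) (nat_lit 380) (nat_lit 5) (nat_lit 379) (nat_lit 5) (nat_lit 396) (nat_lit 5) (nat_lit 401) (nat_lit 390) (nat_lit 229)) (XT.lf (nat_lit 0) (nat_lit 17727950013) (nat_lit 1216) (nat_lit 2748752884) (nat_lit 1292) (nat_lit 978762471) (nat_lit 380) (nat_lit 5) (nat_lit 396) (nat_lit 5) (nat_lit 397) (nat_lit 5) (nat_lit 402) (nat_lit 390) (nat_lit 228)))) (XT.nd (nat_lit 156) (nat_lit 1216) (nat_lit 0) (XT.nd (nat_lit 78) (nat_lit 0) (nat_lit 0) (XT.lf (nat_lit 76) (nat_lit 8813561319) (nat_lit 0) (nat_lit 10704636408) (nat_lit 1292) (nat_lit 2271256761) (nat_lit 381) (nat_lit 5) (nat_lit 380) (nat_lit 5) (nat_lit 397) (nat_lit 5) (nat_lit 403) (nat_lit 390) (nat_lit 227)) (XT.lf (nat_lit 76) (nat_lit 20774526776) (nat_lit 0) (nat_lit 609607650) (nat_lit 1292) (nat_lit 748669413) (nat_lit 381) (nat_lit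 5) (nat_lit 380) (nat_lit 5) (nat_lit 397) (nat_lit 5) (nat_lit 404) (nat_lit 390) (nat_lit 226))) (XT.nd (nat_lit 78) (nat_lit 0) (nat_lit 0) (XT.lf (nat_lit 0) (nat_lit 997024530) (nat_lit 1292) (nat_lit 11772164450) (nat_lit 1368) (nat_lit 9711225667) (nat_lit 364) (nat_lit 5) (nat_lit 381) (nat_lit 5) (nat_lit 382) (nat_lit 5) (nat_lit 405) (nat_lit 390) (nat_lit 225)) (XT.lf (nat_lit 76) (nat_lit 314449945) (nat_lit 0) (nat_lit 2482970894) (nat_lit 1368) (nat_lit 20040289193) (nat_lit 365) (nat_lit 5) (nat_lit 364) (nat_lit 5) (nat_lit 382) (nat_lit 5) (nat_lit 406) (nat_lit 390) (nat_lit 224)))))) (XT.nd (nat_lit 546) (nat_lit 2736) (nat_lit 0) (XT.nd (nat_lit 234) (nat_lit 1216) (nat_lit 0) (XT.nd (nat_lit 78) (nat_lit 836) (nat_lit 0) (XT.lf (nat_lit 0) (nat_lit 4844450757) (nat_lit 1292) (nat_lit 10281130762) (nat_lit 76) (nat_lit 8074364108) (nat_lit 365) (nat_lit 5) (nat_lit 382) (nat_lit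 5) (nat_lit 366) (nat_lit 5) (nat_lit 407) (nat_lit 390) (nat_lit 223)) (XT.nd (nat_lit 78) (nat_lit 0) (nat_lit 0) (XT.lf (nat_lit 0) (nat_lit 2344772893) (nat_lit 836) (nat_lit 4649992469) (nat_lit 912) (nat_lit 16577026714) (nat_lit 354) (nat_lit 5) (nat_lit 365) (nat_lit 5) (nat_lit 366) (nat_lit 5) (nat_lit 408) (nat_lit 390) (nat_lit 222)) (XT.lf (nat_lit 0) (nat_lit 9368320832) (nat_lit 912) (nat_lit 8456294861) (nat_lit 76) (nat_lit 6125416282) (nat_lit 354) (nat_lit 5) (nat_lit 366) (nat_lit 5) (nat_lit 355) (nat_lit 5) (nat_lit 409) (nat_lit 390) (nat_lit 221)))) (XT.nd (nat_lit 156) (nat_lit 608) (nat_lit 0) (XT.nd (nat_lit 78) (nat_lit 0) (nat_lit 0) (XT.lf (nat_lit 0) (nat_lit 4739358433) (nat_lit 608) (nat_lit 7160335383) (nat_lit 684) (nat_lit 12437326930) (nat_lit 346) (nat_lit 5) (nat_lit 354) (nat_lit 5) (nat_lit 355) (nat_lit 5) (nat_lit 410) (nat_lit 390) (nat_lit 220)) (XT.lf (nat_lit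 0) (nat_lit 14625120524) (nat_lit 684) (nat_lit 6271172346) (nat_lit 76) (nat_lit 3835782933) (nat_lit 346) (nat_lit 5) (nat_lit 355) (nat_lit 5) (nat_lit 347) (nat_lit 5) (nat_lit 411) (nat_lit 390) (nat_lit 219))) (XT.nd (nat_lit 78) (nat_lit 0) (nat_lit 0) (XT.lf (nat_lit 0) (nat_lit 7526485653) (nat_lit 608) (nat_lit 10044327839) (nat_lit 684) (nat_lit 7564013917) (nat_lit 338) (nat_lit 5) (nat_lit 346) (nat_lit 5) (nat_lit 347) (nat_lit 5) (nat_lit 412) (nat_lit 390) (nat_lit 218)) (XT.lf (nat_lit 0) (nat_lit 20675078760) (nat_lit 684) (nat_lit 3697351689) (nat_lit 76) (nat_lit 1175125068) (nat_lit 338) (nat_lit 5) (nat_lit 347) (nat_lit 5) (nat_lit 339) (nat_lit 5) (nat_lit 413) (nat_lit 390) (nat_lit 217))))) (XT.nd (nat_lit 312) (nat_lit 988) (nat_lit 0) (XT.nd (nat_lit 156) (nat_lit 1140) (nat_lit 0) (XT.nd (nat_lit 78) (nat_lit 76) (nat_lit 0) (XT.lf (nat_lit 0) (nat_lit 10736466982) (nat_lit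 532) (nat_lit 13334149571) (nat_lit 608) (nat_lit 1896104580) (nat_lit 331) (nat_lit 5) (nat_lit 338) (nat_lit 5) (nat_lit 339) (nat_lit 5) (nat_lit 414) (nat_lit 390) (nat_lit 216)) (XT.lf (nat_lit 0) (nat_lit 1179976584) (nat_lit 608) (nat_lit 734465134) (nat_lit 76) (nat_lit 24482685518) (nat_lit 330) (nat_lit 5) (nat_lit 338) (nat_lit 5) (nat_lit 331) (nat_lit 5) (nat_lit 415) (nat_lit 390) (nat_lit 215))) (XT.nd (nat_lit 78) (nat_lit 532) (nat_lit 0) (XT.lf (nat_lit 0) (nat_lit 4541069384) (nat_lit 684) (nat_lit 12477043542) (nat_lit 76) (nat_lit 9814844228) (nat_lit 322) (nat_lit 5) (nat_lit 331) (nat_lit 5) (nat_lit 323) (nat_lit 5) (nat_lit 416) (nat_lit 390) (nat_lit 214)) (XT.lf (nat_lit 0) (nat_lit 2660761206) (nat_lit 532) (nat_lit 5390002169) (nat_lit 608) (nat_lit 19229665541) (nat_lit 315) (nat_lit 5) (nat_lit 322) (nat_lit 5) (nat_lit 323) (nat_lit 5) (nat_lit 417) (nat_lit 390) (nat_lit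 213)))) (XT.nd (nat_lit 156) (nat_lit 456) (nat_lit 0) (XT.nd (nat_lit 78) (nat_lit 532) (nat_lit 0) (XT.lf (nat_lit 0) (nat_lit 11852131072) (nat_lit 608) (nat_lit 9298271983) (nat_lit 76) (nat_lit 6585330291) (nat_lit 315) (nat_lit 5) (nat_lit 323) (nat_lit 5) (nat_lit 316) (nat_lit 5) (nat_lit 418) (nat_lit 390) (nat_lit 212)) (XT.lf (nat_lit 0) (nat_lit 6552773347) (nat_lit 532) (nat_lit 9327067645) (nat_lit 608) (nat_lit 12321486880) (nat_lit 308) (nat_lit 5) (nat_lit 315) (nat_lit 5) (nat_lit 316) (nat_lit 5) (nat_lit 419) (nat_lit 390) (nat_lit 211))) (XT.nd (nat_lit 78) (nat_lit 456) (nat_lit 0) (XT.lf (nat_lit 0) (nat_lit 20146627774) (nat_lit 608) (nat_lit 5641017709) (nat_lit 76) (nat_lit 2889697384) (nat_lit 308) (nat_lit 5) (nat_lit 316) (nat_lit 5) (nat_lit 309) (nat_lit 5) (nat_lit 420) (nat_lit 390) (nat_lit 210)) (XT.lf (nat_lit 0) (nat_lit 10963911460) (nat_lit 456) (nat_lit 13771378111)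 (nat_lit 532) (nat_lit 4426532598) (nat_lit 302) (nat_lit 5) (nat_lit 308) (nat_lit 5) (nat_lit 309) (nat_lit 5) (nat_lit 421) (nat_lit 390) (nat_lit 209))))))) (XT.nd (nat_lit 1170) (nat_lit 2888) (nat_lit 0) (XT.nd (nat_lit 546) (nat_lit 2128) (nat_lit 0) (XT.nd (nat_lit 234) (nat_lit 836) (nat_lit 0) (XT.nd (nat_lit 78) (nat_lit 1064) (nat_lit 0) (XT.lf (nat_lit 0) (nat_lit 28178235338) (nat_lit 456) (nat_lit 1336541950) (nat_lit 532) (nat_lit 144463580) (nat_lit 302) (nat_lit 5) (nat_lit 308) (nat_lit 5) (nat_lit 309) (nat_lit 5) (nat_lit 422) (nat_lit 390) (nat_lit 208)) (XT.nd (nat_lit 78) (nat_lit 456) (nat_lit 0) (XT.lf (nat_lit 0) (nat_lit 4445134750) (nat_lit 608) (nat_lit 14273674323) (nat_lit 76) (nat_lit 11443673407) (nat_lit 294) (nat_lit 5) (nat_lit 302) (nat_lit 5) (nat_lit 295) (nat_lit 5) (nat_lit 423) (nat_lit 390) (nat_lit 207)) (XT.lf (nat_lit 0) (nat_lit 3172400363) (nat_lit 456)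 (nat_lit 6052286562) (nat_lit 532) (nat_lit 21454436419) (nat_lit 288) (nat_lit 5) (nat_lit 294) (nat_lit 5) (nat_lit 295) (nat_lit 5) (nat_lit 424) (nat_lit 390) (nat_lit 206)))) (XT.nd (nat_lit 156) (nat_lit 380) (nat_lit 0) (XT.nd (nat_lit 78) (nat_lit 456) (nat_lit 0) (XT.lf (nat_lit 0) (nat_lit 14356817274) (nat_lit 532) (nat_lit 9845599048) (nat_lit 76) (nat_lit 7002571365) (nat_lit 288) (nat_lit 5) (nat_lit 295) (nat_lit 5) (nat_lit 289) (nat_lit 5) (nat_lit 425) (nat_lit 390) (nat_lit 205)) (XT.lf (nat_lit 0) (nat_lit 8445921645) (nat_lit 456) (nat_lit 11334601428) (nat_lit 532) (nat_lit 11961976542) (nat_lit 282) (nat_lit 5) (nat_lit 288) (nat_lit 5) (nat_lit 289) (nat_lit 5) (nat_lit 426) (nat_lit 390) (nat_lit 204))) (XT.nd (nat_lit 78) (nat_lit 380) (nat_lit 0) (XT.lf (nat_lit 0) (nat_lit 25482347861) (nat_lit 532) (nat_lit 4828950883) (nat_lit 76) (nat_lit 1981375921) (nat_lit 282) (nat_lit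 5) (nat_lit 289) (nat_lit 5) (nat_lit 283) (nat_lit 5) (nat_lit 427) (nat_lit 390) (nat_lit 203)) (XT.lf (nat_lit 0) (nat_lit 14356376977) (nat_lit 380) (nat_lit 17245730078) (nat_lit 456) (nat_lit 1249841522) (nat_lit 277) (nat_lit 5) (nat_lit 282) (nat_lit 5) (nat_lit 283) (nat_lit 5) (nat_lit 428) (nat_lit 390) (nat_lit 202))))) (XT.nd (nat_lit 312) (nat_lit 1216) (nat_lit 0) (XT.nd (nat_lit 156) (nat_lit 380) (nat_lit 0) (XT.nd (nat_lit 78) (nat_lit 0) (nat_lit 0) (XT.lf (nat_lit 0) (nat_lit 756685049) (nat_lit 456) (nat_lit 3686599451) (nat_lit 532) (nat_lit 28981829080) (nat_lit 270) (nat_lit 5) (nat_lit 276) (nat_lit 5) (nat_lit 277) (nat_lit 5) (nat_lit 429) (nat_lit 390) (nat_lit 201)) (XT.lf (nat_lit 0) (nat_lit 10566237766) (nat_lit 532) (nat_lit 13161574955) (nat_lit 76) (nat_lit 10278764950) (nat_lit 270) (nat_lit 5) (nat_lit 277) (nat_lit 5) (nat_lit 271) (nat_lit 5) (nat_lit 430) (nat_lit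 390) (nat_lit 200))) (XT.nd (nat_lit 78) (nat_lit 0) (nat_lit 0) (XT.lf (nat_lit 0) (nat_lit 7026909240) (nat_lit 380) (nat_lit 9946838580) (nat_lit 456) (nat_lit 17628711819) (nat_lit 265) (nat_lit 5) (nat_lit 270) (nat_lit 5) (nat_lit 271) (nat_lit 5) (nat_lit 431) (nat_lit 390) (nat_lit 199)) (XT.lf (nat_lit 0) (nat_lit 23745398452) (nat_lit 456) (nat_lit 7167766772) (nat_lit 76) (nat_lit 4297895383) (nat_lit 265) (nat_lit 5) (nat_lit 271) (nat_lit 5) (nat_lit 266) (nat_lit 5) (nat_lit 432) (nat_lit 390) (nat_lit 198)))) (XT.nd (nat_lit 156) (nat_lit 760) (nat_lit 0) (XT.nd (nat_lit 78) (nat_lit 76) (nat_lit 0) (XT.lf (nat_lit 0) (nat_lit 14023298142) (nat_lit 380) (nat_lit 16927138981) (nat_lit 456) (nat_lit 4880575326) (nat_lit 260) (nat_lit 5) (nat_lit 265) (nat_lit 5) (nat_lit 266) (nat_lit 5) (nat_lit 433) (nat_lit 390) (nat_lit 197)) (XT.lf (nat_lit 0) (nat_lit 1935019349) (nat_lit 456) (nat_lit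 493498294) (nat_lit 76) (nat_lit 34038394548) (nat_lit 259) (nat_lit 5) (nat_lit 265) (nat_lit 5) (nat_lit 260) (nat_lit 5) (nat_lit 434) (nat_lit 390) (nat_lit 196))) (XT.nd (nat_lit 78) (nat_lit 380) (nat_lit 0) (XT.lf (nat_lit 0) (nat_lit 9186682504) (nat_lit 456) (nat_lit 15403117580) (nat_lit 76) (nat_lit 12520748305) (nat_lit 254) (nat_lit 5) (nat_lit 260) (nat_lit 5) (nat_lit 255) (nat_lit 5) (nat_lit 435) (nat_lit 390) (nat_lit 195)) (XT.lf (nat_lit 0) (nat_lit 6918010927) (nat_lit 380) (nat_lit 9830561618) (nat_lit 456) (nat_lit 21022140817) (nat_lit 249) (nat_lit 5) (nat_lit 254) (nat_lit 5) (nat_lit 255) (nat_lit 5) (nat_lit 436) (nat_lit 390) (nat_lit 194)))))) (XT.nd (nat_lit 624) (nat_lit 1140) (nat_lit 0) (XT.nd (nat_lit 312) (nat_lit 988) (nat_lit 0) (XT.nd (nat_lit 156) (nat_lit 456) (nat_lit 0) (XT.nd (nat_lit 78) (nat_lit 304) (nat_lit 0) (XT.lf (nat_lit 0) (nat_lit 24743168516) (nat_lit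 456) (nat_lit 8278753645) (nat_lit 76) (nat_lit 5422585648) (nat_lit 249) (nat_lit 5) (nat_lit 255) (nat_lit 5) (nat_lit 250) (nat_lit 5) (nat_lit 437) (nat_lit 390) (nat_lit 193)) (XT.lf (nat_lit 0) (nat_lit 15167079666) (nat_lit 304) (nat_lit 18050867935) (nat_lit 380) (nat_lit 5913358129) (nat_lit 245) (nat_lit 5) (nat_lit 249) (nat_lit 5) (nat_lit 250) (nat_lit 5) (nat_lit 438) (nat_lit 390) (nat_lit 192))) (XT.nd (nat_lit 78) (nat_lit 380) (nat_lit 0) (XT.lf (nat_lit 0) (nat_lit 2148783433) (nat_lit 380) (nat_lit 375281100) (nat_lit 76) (nat_lit 37311585258) (nat_lit 244) (nat_lit 5) (nat_lit 249) (nat_lit 5) (nat_lit 245) (nat_lit 5) (nat_lit 439) (nat_lit 390) (nat_lit 191)) (XT.lf (nat_lit 0) (nat_lit 10697514152) (nat_lit 456) (nat_lit 16351025952) (nat_lit 76) (nat_lit 13499920299) (nat_lit 239) (nat_lit 5) (nat_lit 245) (nat_lit 5) (nat_lit 240) (nat_lit 5) (nat_lit 440) (nat_lit 390) (nat_lit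 190)))) (XT.nd (nat_lit 156) (nat_lit 684) (nat_lit 0) (XT.nd (nat_lit 78) (nat_lit 0) (nat_lit 0) (XT.lf (nat_lit 0) (nat_lit 8366825130) (nat_lit 304) (nat_lit 11242471036) (nat_lit 380) (nat_lit 21670161487) (nat_lit 235) (nat_lit 5) (nat_lit 239) (nat_lit 5) (nat_lit 240) (nat_lit 5) (nat_lit 441) (nat_lit 390) (nat_lit 189)) (XT.lf (nat_lit 0) (nat_lit 29000978735) (nat_lit 380) (nat_lit 7920025222) (nat_lit 76) (nat_lit 5105004450) (nat_lit 235) (nat_lit 5) (nat_lit 240) (nat_lit 5) (nat_lit 236) (nat_lit 5) (nat_lit 442) (nat_lit 390) (nat_lit 188))) (XT.nd (nat_lit 78) (nat_lit 380) (nat_lit 0) (XT.lf (nat_lit 0) (nat_lit 18059647238) (nat_lit 304) (nat_lit 20897125819) (nat_lit 380) (nat_lit 3829711788) (nat_lit 231) (nat_lit 5) (nat_lit 235) (nat_lit 5) (nat_lit 236) (nat_lit 5) (nat_lit 443) (nat_lit 390) (nat_lit 187)) (XT.lf (nat_lit 0) (nat_lit 1381805914) (nat_lit 304) (nat_lit 4241088192)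 (nat_lit 380) (nat_lit 37942509180) (nat_lit 226) (nat_lit 5) (nat_lit 230) (nat_lit 5) (nat_lit 231) (nat_lit 5) (nat_lit 444) (nat_lit 390) (nat_lit 186))))) (XT.nd (nat_lit 312) (nat_lit 532) (nat_lit 0) (XT.nd (nat_lit 156) (nat_lit 304) (nat_lit 0) (XT.nd (nat_lit 78) (nat_lit 304) (nat_lit 0) (XT.lf (nat_lit 0) (nat_lit 15655900482) (nat_lit 380) (nat_lit 15747995839) (nat_lit 76) (nat_lit 12951441551) (nat_lit 226) (nat_lit 5) (nat_lit 231) (nat_lit 5) (nat_lit 227) (nat_lit 5) (nat_lit 445) (nat_lit 390) (nat_lit 185)) (XT.lf (nat_lit 0) (nat_lit 11662524181) (nat_lit 304) (nat_lit 14479031941) (nat_lit 380) (nat_lit 19022864600) (nat_lit 222) (nat_lit 5) (nat_lit 226) (nat_lit 5) (nat_lit 227) (nat_lit 5) (nat_lit 446) (nat_lit 390) (nat_lit 184))) (XT.nd (nat_lit 78) (nat_lit 304) (nat_lit 0) (XT.lf (nat_lit 0) (nat_lit 37128355212) (nat_lit 380) (nat_lit 5808552623) (nat_lit 76) (nat_lit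 3055271009) (nat_lit 222) (nat_lit 5) (nat_lit 227) (nat_lit 5) (nat_lit 223) (nat_lit 5) (nat_lit 447) (nat_lit 390) (nat_lit 183)) (XT.lf (nat_lit 0) (nat_lit 1934625441) (nat_lit 304) (nat_lit 23835124491) (nat_lit 76) (nat_lit 21063582623) (nat_lit 218) (nat_lit 5) (nat_lit 222) (nat_lit 5) (nat_lit 219) (nat_lit 5) (nat_lit 448) (nat_lit 390) (nat_lit 182)))) (XT.nd (nat_lit 156) (nat_lit 228) (nat_lit 0) (XT.nd (nat_lit 78) (nat_lit 0) (nat_lit 0) (XT.lf (nat_lit 0) (nat_lit 5097753484) (nat_lit 304) (nat_lit 7887023753) (nat_lit 380) (nat_lit 34709133722) (nat_lit 214) (nat_lit 5) (nat_lit 218) (nat_lit 5) (nat_lit 219) (nat_lit 5) (nat_lit 449) (nat_lit 390) (nat_lit 181)) (XT.lf (nat_lit 0) (nat_lit 24708431783) (nat_lit 380) (nat_lit 13293177546) (nat_lit 76) (nat_lit 10568437440) (nat_lit 214) (nat_lit 5) (nat_lit 219) (nat_lit 5) (nat_lit 215) (nat_lit 5) (nat_lit 450) (nat_lit 390) (nat_lit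 180))) (XT.nd (nat_lit 78) (nat_lit 0) (nat_lit 0) (XT.lf (nat_lit 0) (nat_lit 17141725348) (nat_lit 228) (nat_lit 19882689453) (nat_lit 304) (nat_lit 12440833288) (nat_lit 211) (nat_lit 5) (nat_lit 214) (nat_lit 5) (nat_lit 215) (nat_lit 5) (nat_lit 451) (nat_lit 390) (nat_lit 179)) (XT.lf (nat_lit 0) (nat_lit 48758633584) (nat_lit 228) (nat_lit 1083262933) (nat_lit 304) (nat_lit 541448354) (nat_lit 211) (nat_lit 5) (nat_lit 214) (nat_lit 5) (nat_lit 215) (nat_lit 5) (nat_lit 452) (nat_lit 390) (nat_lit 178))))))))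
noncomputable def xc203 : XT := (XT.nd (nat_lit 2340) (nat_lit 152) (nat_lit 0) (XT.nd (nat_lit 1170) (nat_lit 1976) (nat_lit 0) (XT.nd (nat_lit 546) (nat_lit 1140) (nat_lit 0) (XT.nd (nat_lit 234) (nat_lit 760) (nat_lit 0) (XT.nd (nat_lit 78) (nat_lit 228) (nat_lit 0) (XT.lf (nat_lit 0) (nat_lit 11956799078) (nat_lit 380) (nat_lit 21022981423) (nat_lit 76) (nat_lit 18331711292) (nat_lit 206) (nat_lit 5) (nat_lit 211) (nat_lit 5) (nat_lit 207) (nat_lit 5) (nat_lit 453) (nat_lit 390) (nat_lit 177)) (XT.nd (nat_lit 78) (nat_lit 0) (nat_lit 0) (XT.lf (nat_lit 0) (nat_lit 11122742146) (nat_lit 228) (nat_lit 13828427090) (nat_lit 304) (nat_lit 27312191324) (nat_lit 203) (nat_lit 5) (nat_lit 206) (nat_lit 5) (nat_lit 207) (nat_lit 5) (nat_lit 454) (nat_lit 390) (nat_lit 176)) (XT.lf (nat_lit 0) (nat_lit 38604315033) (nat_lit 304) (nat_lit 8635933975) (nat_lit 76) (nat_lit 5995468045) (nat_lit 203) (nat_lit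 5) (nat_lit 207) (nat_lit 5) (nat_lit 204) (nat_lit 5) (nat_lit 455) (nat_lit 390) (nat_lit 175)))) (XT.nd (nat_lit 156) (nat_lit 228) (nat_lit 0) (XT.nd (nat_lit 78) (nat_lit 304) (nat_lit 0) (XT.lf (nat_lit 0) (nat_lit 25195214292) (nat_lit 228) (nat_lit 27848871817) (nat_lit 304) (nat_lit 1181847204) (nat_lit 200) (nat_lit 5) (nat_lit 203) (nat_lit 5) (nat_lit 204) (nat_lit 5) (nat_lit 456) (nat_lit 390) (nat_lit 174)) (XT.lf (nat_lit 0) (nat_lit 4945504526) (nat_lit 228) (nat_lit 7611969426) (nat_lit 304) (nat_lit 42680721803) (nat_lit 196) (nat_lit 5) (nat_lit 199) (nat_lit 5) (nat_lit 200) (nat_lit 5) (nat_lit 457) (nat_lit 390) (nat_lit 173))) (XT.nd (nat_lit 78) (nat_lit 228) (nat_lit 0) (XT.lf (nat_lit 0) (nat_lit 27106417570) (nat_lit 304) (nat_lit 15881147302) (nat_lit 76) (nat_lit 13280274250) (nat_lit 196) (nat_lit 5) (nat_lit 200) (nat_lit 5) (nat_lit 197) (nat_lit 5) (nat_lit 458) (nat_lit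 390) (nat_lit 172)) (XT.lf (nat_lit 0) (nat_lit 19871814118) (nat_lit 228) (nat_lit 22484407731) (nat_lit 304) (nat_lit 14964218170) (nat_lit 193) (nat_lit 5) (nat_lit 196) (nat_lit 5) (nat_lit 197) (nat_lit 5) (nat_lit 459) (nat_lit 390) (nat_lit 171))))) (XT.nd (nat_lit 312) (nat_lit 608) (nat_lit 0) (XT.nd (nat_lit 156) (nat_lit 228) (nat_lit 0) (XT.nd (nat_lit 78) (nat_lit 304) (nat_lit 0) (XT.lf (nat_lit 0) (nat_lit 57019611551) (nat_lit 228) (nat_lit 1202309778) (nat_lit 304) (nat_lit 177945581) (nat_lit 193) (nat_lit 5) (nat_lit 196) (nat_lit 5) (nat_lit 197) (nat_lit 5) (nat_lit 460) (nat_lit 390) (nat_lit 170)) (XT.lf (nat_lit 0) (nat_lit 15309540945) (nat_lit 304) (nat_lit 23369763557) (nat_lit 76) (nat_lit 20811491175) (nat_lit 189) (nat_lit 5) (nat_lit 193) (nat_lit 5) (nat_lit 190) (nat_lit 5) (nat_lit 461) (nat_lit 390) (nat_lit 169))) (XT.nd (nat_lit 78) (nat_lit 0) (nat_lit 0) (XT.lf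 (nat_lit 0) (nat_lit 14426062709) (nat_lit 228) (nat_lit 16994748659) (nat_lit 304) (nat_lit 29188706009) (nat_lit 186) (nat_lit 5) (nat_lit 189) (nat_lit 5) (nat_lit 190) (nat_lit 5) (nat_lit 462) (nat_lit 390) (nat_lit 168)) (XT.lf (nat_lit 0) (nat_lit 48303175645) (nat_lit 304) (nat_lit 7976839025) (nat_lit 76) (nat_lit 5473153385) (nat_lit 186) (nat_lit 5) (nat_lit 190) (nat_lit 5) (nat_lit 187) (nat_lit 5) (nat_lit 463) (nat_lit 390) (nat_lit 167)))) (XT.nd (nat_lit 156) (nat_lit 152) (nat_lit 0) (XT.nd (nat_lit 78) (nat_lit 228) (nat_lit 0) (XT.lf (nat_lit 0) (nat_lit 3184027410) (nat_lit 228) (nat_lit 31122604804) (nat_lit 76) (nat_lit 28609389275) (nat_lit 183) (nat_lit 5) (nat_lit 186) (nat_lit 5) (nat_lit 184) (nat_lit 5) (nat_lit 464) (nat_lit 390) (nat_lit 166)) (XT.lf (nat_lit 0) (nat_lit 8844395484) (nat_lit 228) (nat_lit 11366863333) (nat_lit 304) (nat_lit 43893570985) (nat_lit 180) (nat_lit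 5) (nat_lit 183) (nat_lit 5) (nat_lit 184) (nat_lit 5) (nat_lit 465) (nat_lit 390) (nat_lit 165))) (XT.nd (nat_lit 78) (nat_lit 152) (nat_lit 0) (XT.lf (nat_lit 0) (nat_lit 38182724781) (nat_lit 304) (nat_lit 14795647083) (nat_lit 76) (nat_lit 12337927972) (nat_lit 180) (nat_lit 5) (nat_lit 184) (nat_lit 5) (nat_lit 181) (nat_lit 5) (nat_lit 466) (nat_lit 390) (nat_lit 164)) (XT.lf (nat_lit 0) (nat_lit 27300169212) (nat_lit 152) (nat_lit 29766355506) (nat_lit 228) (nat_lit 9486393552) (nat_lit 178) (nat_lit 5) (nat_lit 180) (nat_lit 5) (nat_lit 181) (nat_lit 5) (nat_lit 467) (nat_lit 390) (nat_lit 163)))))) (XT.nd (nat_lit 546) (nat_lit 1140) (nat_lit 0) (XT.nd (nat_lit 234) (nat_lit 380) (nat_lit 0) (XT.nd (nat_lit 78) (nat_lit 152) (nat_lit 0) (XT.lf (nat_lit 0) (nat_lit 3112625978) (nat_lit 228) (nat_lit 5587032838) (nat_lit 304) (nat_lit 59119099398) (nat_lit 174) (nat_lit 5) (nat_lit 177) (nat_lit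 5) (nat_lit 178) (nat_lit 5) (nat_lit 468) (nat_lit 390) (nat_lit 162)) (XT.nd (nat_lit 78) (nat_lit 152) (nat_lit 0) (XT.lf (nat_lit 0) (nat_lit 27824854519) (nat_lit 304) (nat_lit 21843729830) (nat_lit 76) (nat_lit 19433644401) (nat_lit 174) (nat_lit 5) (nat_lit 178) (nat_lit 5) (nat_lit 175) (nat_lit 5) (nat_lit 469) (nat_lit 390) (nat_lit 161)) (XT.lf (nat_lit 0) (nat_lit 22688950809) (nat_lit 152) (nat_lit 25106559221) (nat_lit 228) (nat_lit 22620542252) (nat_lit 172) (nat_lit 5) (nat_lit 174) (nat_lit 5) (nat_lit 175) (nat_lit 5) (nat_lit 470) (nat_lit 390) (nat_lit 160)))) (XT.nd (nat_lit 156) (nat_lit 152) (nat_lit 0) (XT.nd (nat_lit 78) (nat_lit 228) (nat_lit 0) (XT.lf (nat_lit 0) (nat_lit 68588192147) (nat_lit 228) (nat_lit 2764347466) (nat_lit 76) (nat_lit 410063701) (nat_lit 172) (nat_lit 5) (nat_lit 175) (nat_lit 5) (nat_lit 173) (nat_lit 5) (nat_lit 471) (nat_lit 390) (nat_lit 159)) (XT.lf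 (nat_lit 0) (nat_lit 17204240675) (nat_lit 228) (nat_lit 29140638348) (nat_lit 76) (nat_lit 26779469987) (nat_lit 169) (nat_lit 5) (nat_lit 172) (nat_lit 5) (nat_lit 170) (nat_lit 5) (nat_lit 472) (nat_lit 390) (nat_lit 158))) (XT.nd (nat_lit 78) (nat_lit 0) (nat_lit 0) (XT.lf (nat_lit 0) (nat_lit 17980990669) (nat_lit 152) (nat_lit 20348843102) (nat_lit 228) (nat_lit 36190188886) (nat_lit 167) (nat_lit 5) (nat_lit 169) (nat_lit 5) (nat_lit 170) (nat_lit 5) (nat_lit 473) (nat_lit 390) (nat_lit 157)) (XT.lf (nat_lit 0) (nat_lit 60446509211) (nat_lit 228) (nat_lit 8902762051) (nat_lit 76) (nat_lit 6597575814) (nat_lit 167) (nat_lit 5) (nat_lit 170) (nat_lit 5) (nat_lit 168) (nat_lit 5) (nat_lit 474) (nat_lit 390) (nat_lit 156))))) (XT.nd (nat_lit 312) (nat_lit 608) (nat_lit 0) (XT.nd (nat_lit 156) (nat_lit 152) (nat_lit 0) (XT.nd (nat_lit 78) (nat_lit 152) (nat_lit 0) (XT.lf (nat_lit 0) (nat_lit 6294314213)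 (nat_lit 228) (nat_lit 36706932539) (nat_lit 76) (nat_lit 34395629428) (nat_lit 164) (nat_lit 5) (nat_lit 167) (nat_lit 5) (nat_lit 165) (nat_lit 5) (nat_lit 475) (nat_lit 390) (nat_lit 155)) (XT.lf (nat_lit 0) (nat_lit 13164885140) (nat_lit 152) (nat_lit 15482126963) (nat_lit 228) (nat_lit 50232317563) (nat_lit 162) (nat_lit 5) (nat_lit 164) (nat_lit 5) (nat_lit 165) (nat_lit 5) (nat_lit 476) (nat_lit 390) (nat_lit 154))) (XT.nd (nat_lit 78) (nat_lit 152) (nat_lit 0) (XT.lf (nat_lit 0) (nat_lit 52166686884) (nat_lit 228) (nat_lit 15240012571) (nat_lit 76) (nat_lit 12984665423) (nat_lit 162) (nat_lit 5) (nat_lit 165) (nat_lit 5) (nat_lit 163) (nat_lit 5) (nat_lit 477) (nat_lit 390) (nat_lit 153)) (XT.lf (nat_lit 0) (nat_lit 37320835158) (nat_lit 152) (nat_lit 39581617069) (nat_lit 228) (nat_lit 5030993910) (nat_lit 160) (nat_lit 5) (nat_lit 162) (nat_lit 5) (nat_lit 163) (nat_lit 5) (nat_lit 478) (nat_lit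 390) (nat_lit 152)))) (XT.nd (nat_lit 156) (nat_lit 380) (nat_lit 0) (XT.nd (nat_lit 78) (nat_lit 0) (nat_lit 0) (XT.lf (nat_lit 0) (nat_lit 8228713418) (nat_lit 152) (nat_lit 10494771797) (nat_lit 228) (nat_lit 64785876781) (nat_lit 157) (nat_lit 5) (nat_lit 159) (nat_lit 5) (nat_lit 160) (nat_lit 5) (nat_lit 479) (nat_lit 390) (nat_lit 151)) (XT.lf (nat_lit 0) (nat_lit 43730017915) (nat_lit 228) (nat_lit 21793428601) (nat_lit 76) (nat_lit 19588398345) (nat_lit 157) (nat_lit 5) (nat_lit 160) (nat_lit 5) (nat_lit 158) (nat_lit 5) (nat_lit 480) (nat_lit 390) (nat_lit 150))) (XT.nd (nat_lit 78) (nat_lit 228) (nat_lit 0) (XT.lf (nat_lit 0) (nat_lit 33852360452) (nat_lit 152) (nat_lit 36062219425) (nat_lit 228) (nat_lit 16834987337) (nat_lit 155) (nat_lit 5) (nat_lit 157) (nat_lit 5) (nat_lit 158) (nat_lit 5) (nat_lit 481) (nat_lit 390) (nat_lit 149)) (XT.lf (nat_lit 0) (nat_lit 3159999010) (nat_lit 152)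 (nat_lit 5374546057) (nat_lit 228) (nat_lit 79891905568) (nat_lit 152) (nat_lit 5) (nat_lit 154) (nat_lit 5) (nat_lit 155) (nat_lit 5) (nat_lit 482) (nat_lit 390) (nat_lit 148))))))) (XT.nd (nat_lit 46878) (nat_lit 0) (nat_lit 12540) (XT.nd (nat_lit 46254) (nat_lit 0) (nat_lit 17176) (XT.nd (nat_lit 45942) (nat_lit 0) (nat_lit 17024) (XT.nd (nat_lit 78) (nat_lit 152) (nat_lit 0) (XT.lf (nat_lit 0) (nat_lit 35116941844) (nat_lit 228) (nat_lit 28581229256) (nat_lit 76) (nat_lit 26426764620) (nat_lit 152) (nat_lit 5) (nat_lit 155) (nat_lit 5) (nat_lit 153) (nat_lit 5) (nat_lit 483) (nat_lit 390) (nat_lit 147)) (XT.nd (nat_lit 78) (nat_lit 0) (nat_lit 0) (XT.lf (nat_lit 0) (nat_lit 30340744530) (nat_lit 152) (nat_lit 32499499417) (nat_lit 228) (nat_lit 29023828407) (nat_lit 150) (nat_lit 5) (nat_lit 152) (nat_lit 5) (nat_lit 153) (nat_lit 5) (nat_lit 484) (nat_lit 390) (nat_lit 146)) (XT.lf (nat_lit 0)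 (nat_lit 91613641545) (nat_lit 152) (nat_lit 68800785) (nat_lit 228) (nat_lit 1964324840) (nat_lit 150) (nat_lit 5) (nat_lit 152) (nat_lit 5) (nat_lit 153) (nat_lit 5) (nat_lit 485) (nat_lit 390) (nat_lit 145)))) (XT.nd (nat_lit 156) (nat_lit 0) (nat_lit 76) (XT.nd (nat_lit 78) (nat_lit 0) (nat_lit 0) (XT.lf (nat_lit 0) (nat_lit 3592324122) (nat_lit 1292) (nat_lit 2817957064) (nat_lit 1292) (nat_lit 2817957064) (nat_lit 374) (nat_lit 3) (nat_lit 391) (nat_lit 3) (nat_lit 391) (nat_lit 5) (nat_lit 391) (nat_lit 391) (nat_lit 238)) (XT.lf (nat_lit 76) (nat_lit 3663818416) (nat_lit 0) (nat_lit 3858123775) (nat_lit 1292) (nat_lit 11204495731) (nat_lit 375) (nat_lit 5) (nat_lit 374) (nat_lit 3) (nat_lit 391) (nat_lit 5) (nat_lit 392) (nat_lit 391) (nat_lit 237))) (XT.nd (nat_lit 78) (nat_lit 0) (nat_lit 0) (XT.lf (nat_lit 0) (nat_lit 7970893982) (nat_lit 1216) (nat_lit 5701177724) (nat_lit 1292) (nat_lit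 5329380309) (nat_lit 375) (nat_lit 5) (nat_lit 391) (nat_lit 5) (nat_lit 392) (nat_lit 5) (nat_lit 393) (nat_lit 391) (nat_lit 236)) (XT.lf (nat_lit 76) (nat_lit 3976378534) (nat_lit 0) (nat_lit 4525992878) (nat_lit 1292) (nat_lit 10780273406) (nat_lit 376) (nat_lit 5) (nat_lit 375) (nat_lit 5) (nat_lit 392) (nat_lit 5) (nat_lit 394) (nat_lit 391) (nat_lit 235))))) (XT.nd (nat_lit 312) (nat_lit 0) (nat_lit 152) (XT.nd (nat_lit 156) (nat_lit 0) (nat_lit 76) (XT.nd (nat_lit 78) (nat_lit 0) (nat_lit 0) (XT.lf (nat_lit 0) (nat_lit 9147822131) (nat_lit 1216) (nat_lit 5561363036) (nat_lit 1292) (nat_lit 4860147369) (nat_lit 376) (nat_lit 5) (nat_lit 392) (nat_lit 5) (nat_lit 393) (nat_lit 5) (nat_lit 395) (nat_lit 391) (nat_lit 234)) (XT.lf (nat_lit 76) (nat_lit 4514976863) (nat_lit 0) (nat_lit 5378920209) (nat_lit 1292) (nat_lit 9968285992) (nat_lit 377) (nat_lit 5) (nat_lit 376) (nat_lit 5) (nat_lit 393)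 (nat_lit 5) (nat_lit 396) (nat_lit 391) (nat_lit 233))) (XT.nd (nat_lit 78) (nat_lit 0) (nat_lit 0) (XT.lf (nat_lit 0) (nat_lit 10752978465) (nat_lit 1216) (nat_lit 5200144155) (nat_lit 1292) (nat_lit 4207977763) (nat_lit 377) (nat_lit 5) (nat_lit 393) (nat_lit 5) (nat_lit 394) (nat_lit 5) (nat_lit 397) (nat_lit 391) (nat_lit 232)) (XT.lf (nat_lit 76) (nat_lit 5297178157) (nat_lit 0) (nat_lit 6438263428) (nat_lit 1292) (nat_lit 8730615357) (nat_lit 378) (nat_lit 5) (nat_lit 377) (nat_lit 5) (nat_lit 394) (nat_lit 5) (nat_lit 398) (nat_lit 391) (nat_lit 231)))) (XT.nd (nat_lit 156) (nat_lit 0) (nat_lit 76) (XT.nd (nat_lit 78) (nat_lit 0) (nat_lit 0) (XT.lf (nat_lit 0) (nat_lit 12826332524) (nat_lit 1216) (nat_lit 4599840579) (nat_lit 1292) (nat_lit 3351620477) (nat_lit 378) (nat_lit 5) (nat_lit 394) (nat_lit 5) (nat_lit 395) (nat_lit 5) (nat_lit 399) (nat_lit 391) (nat_lit 230)) (XT.lf (nat_lit 76) (nat_lit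 6341973676) (nat_lit 0) (nat_lit 7726475647) (nat_lit 1292) (nat_lit 7026878020) (nat_lit 379) (nat_lit 5) (nat_lit 378) (nat_lit 5) (nat_lit 395) (nat_lit 5) (nat_lit 400) (nat_lit 391) (nat_lit 229))) (XT.nd (nat_lit 78) (nat_lit 0) (nat_lit 0) (XT.lf (nat_lit 0) (nat_lit 15410452149) (nat_lit 1216) (nat_lit 3741345849) (nat_lit 1292) (nat_lit 2268710446) (nat_lit 379) (nat_lit 5) (nat_lit 395) (nat_lit 5) (nat_lit 396) (nat_lit 5) (nat_lit 401) (nat_lit 391) (nat_lit 228)) (XT.lf (nat_lit 76) (nat_lit 7669857039) (nat_lit 0) (nat_lit 9267209659) (nat_lit 1292) (nat_lit 4814047731) (nat_lit 380) (nat_lit 5) (nat_lit 379) (nat_lit 5) (nat_lit 396) (nat_lit 5) (nat_lit 402) (nat_lit 391) (nat_lit 227)))))) (XT.nd (nat_lit 624) (nat_lit 2964) (nat_lit 0) (XT.nd (nat_lit 312) (nat_lit 760) (nat_lit 0) (XT.nd (nat_lit 156) (nat_lit 1216) (nat_lit 0) (XT.nd (nat_lit 78) (nat_lit 0) (nat_lit 0) (XT.lf (nat_lit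 0) (nat_lit 18550687543) (nat_lit 1216) (nat_lit 2604050269) (nat_lit 1292) (nat_lit 935664546) (nat_lit 380) (nat_lit 5) (nat_lit 396) (nat_lit 5) (nat_lit 397) (nat_lit 5) (nat_lit 403) (nat_lit 391) (nat_lit 226)) (XT.lf (nat_lit 76) (nat_lit 9302906251) (nat_lit 0) (nat_lit 11085425894) (nat_lit 1292) (nat_lit 2046268325) (nat_lit 381) (nat_lit 5) (nat_lit 380) (nat_lit 5) (nat_lit 397) (nat_lit 5) (nat_lit 404) (nat_lit 391) (nat_lit 225))) (XT.nd (nat_lit 78) (nat_lit 1216) (nat_lit 0) (XT.lf (nat_lit 76) (nat_lit 21616149076) (nat_lit 0) (nat_lit 685808882) (nat_lit 1292) (nat_lit 486541010) (nat_lit 381) (nat_lit 5) (nat_lit 380) (nat_lit 5) (nat_lit 397) (nat_lit 5) (nat_lit 405) (nat_lit 391) (nat_lit 224)) (XT.lf (nat_lit 0) (nat_lit 1299481630) (nat_lit 1292) (nat_lit 11894900766) (nat_lit 1368) (nat_lit 9952268300) (nat_lit 364) (nat_lit 5) (nat_lit 381) (nat_lit 5) (nat_lit 382) (nat_lit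 5) (nat_lit 406) (nat_lit 391) (nat_lit 223)))) (XT.nd (nat_lit 156) (nat_lit 760) (nat_lit 0) (XT.nd (nat_lit 78) (nat_lit 0) (nat_lit 76) (XT.lf (nat_lit 76) (nat_lit 552052957) (nat_lit 0) (nat_lit 2596091932) (nat_lit 1368) (nat_lit 20366692401) (nat_lit 365) (nat_lit 5) (nat_lit 364) (nat_lit 5) (nat_lit 382) (nat_lit 5) (nat_lit 407) (nat_lit 391) (nat_lit 222)) (XT.lf (nat_lit 0) (nat_lit 5248454252) (nat_lit 1292) (nat_lit 10359909432) (nat_lit 76) (nat_lit 8279820212) (nat_lit 365) (nat_lit 5) (nat_lit 382) (nat_lit 5) (nat_lit 366) (nat_lit 5) (nat_lit 408) (nat_lit 391) (nat_lit 221))) (XT.nd (nat_lit 78) (nat_lit 0) (nat_lit 0) (XT.lf (nat_lit 0) (nat_lit 2642519810) (nat_lit 836) (nat_lit 4815410352) (nat_lit 912) (nat_lit 16813416020) (nat_lit 354) (nat_lit 5) (nat_lit 365) (nat_lit 5) (nat_lit 366) (nat_lit 5) (nat_lit 409) (nat_lit 391) (nat_lit 220)) (XT.lf (nat_lit 0) (nat_lit 9895072106)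 (nat_lit 912) (nat_lit 8481583196) (nat_lit 76) (nat_lit 6284506582) (nat_lit 354) (nat_lit 5) (nat_lit 366) (nat_lit 5) (nat_lit 355) (nat_lit 5) (nat_lit 410) (nat_lit 391) (nat_lit 219))))) (XT.nd (nat_lit 312) (nat_lit 1748) (nat_lit 0) (XT.nd (nat_lit 156) (nat_lit 608) (nat_lit 0) (XT.nd (nat_lit 78) (nat_lit 0) (nat_lit 0) (XT.lf (nat_lit 0) (nat_lit 5107700477) (nat_lit 608) (nat_lit 7389703445) (nat_lit 684) (nat_lit 12562505867) (nat_lit 346) (nat_lit 5) (nat_lit 354) (nat_lit 5) (nat_lit 355) (nat_lit 5) (nat_lit 411) (nat_lit 391) (nat_lit 218)) (XT.lf (nat_lit 0) (nat_lit 15297446325) (nat_lit 684) (nat_lit 6232586342) (nat_lit 76) (nat_lit 3936998244) (nat_lit 346) (nat_lit 5) (nat_lit 355) (nat_lit 5) (nat_lit 347) (nat_lit 5) (nat_lit 412) (nat_lit 391) (nat_lit 217))) (XT.nd (nat_lit 78) (nat_lit 0) (nat_lit 0) (XT.lf (nat_lit 0) (nat_lit 7976778641) (nat_lit 608) (nat_lit 10350086384)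 (nat_lit 684) (nat_lit 7555139393) (nat_lit 338) (nat_lit 5) (nat_lit 346) (nat_lit 5) (nat_lit 347) (nat_lit 5) (nat_lit 413) (nat_lit 391) (nat_lit 216)) (XT.lf (nat_lit 0) (nat_lit 21517549140) (nat_lit 684) (nat_lit 3583603499) (nat_lit 76) (nat_lit 1206163004) (nat_lit 338) (nat_lit 5) (nat_lit 347) (nat_lit 5) (nat_lit 339) (nat_lit 5) (nat_lit 414) (nat_lit 391) (nat_lit 215)))) (XT.nd (nat_lit 156) (nat_lit 1140) (nat_lit 0) (XT.nd (nat_lit 78) (nat_lit 76) (nat_lit 0) (XT.lf (nat_lit 0) (nat_lit 11281027098) (nat_lit 532) (nat_lit 13729592079) (nat_lit 608) (nat_lit 1728567066) (nat_lit 331) (nat_lit 5) (nat_lit 338) (nat_lit 5) (nat_lit 339) (nat_lit 5) (nat_lit 415) (nat_lit 391) (nat_lit 214)) (XT.lf (nat_lit 0) (nat_lit 1429008305) (nat_lit 608) (nat_lit 536260873) (nat_lit 76) (nat_lit 25217362903) (nat_lit 330) (nat_lit 5) (nat_lit 338) (nat_lit 5) (nat_lit 331) (nat_lit 5) (nat_lit 416)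 (nat_lit 391) (nat_lit 213))) (XT.nd (nat_lit 78) (nat_lit 532) (nat_lit 0) (XT.lf (nat_lit 0) (nat_lit 4886890299) (nat_lit 684) (nat_lit 12627073044) (nat_lit 76) (nat_lit 10117694861) (nat_lit 322) (nat_lit 5) (nat_lit 331) (nat_lit 5) (nat_lit 323) (nat_lit 5) (nat_lit 417) (nat_lit 391) (nat_lit 212)) (XT.lf (nat_lit 0) (nat_lit 2962667006) (nat_lit 532) (nat_lit 5535238373) (nat_lit 608) (nat_lit 19594767833) (nat_lit 315) (nat_lit 5) (nat_lit 322) (nat_lit 5) (nat_lit 323) (nat_lit 5) (nat_lit 418) (nat_lit 391) (nat_lit 211))))))))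
noncomputable def xc204 : XT := (XT.nd (nat_lit 2340) (nat_lit 4712) (nat_lit 0) (XT.nd (nat_lit 1170) (nat_lit 3268) (nat_lit 0) (XT.nd (nat_lit 546) (nat_lit 1748) (nat_lit 0) (XT.nd (nat_lit 234) (nat_lit 1520) (nat_lit 0) (XT.nd (nat_lit 78) (nat_lit 532) (nat_lit 0) (XT.lf (nat_lit 0) (nat_lit 12407478851) (nat_lit 608) (nat_lit 9355770360) (nat_lit 76) (nat_lit 6798562619) (nat_lit 315) (nat_lit 5) (nat_lit 323) (nat_lit 5) (nat_lit 316) (nat_lit 5) (nat_lit 419) (nat_lit 391) (nat_lit 210)) (XT.nd (nat_lit 78) (nat_lit 0) (nat_lit 0) (XT.lf (nat_lit 0) (nat_lit 6968635253) (nat_lit 532) (nat_lit 9583673709) (nat_lit 608) (nat_lit 12489176563) (nat_lit 308) (nat_lit 5) (nat_lit 315) (nat_lit 5) (nat_lit 316) (nat_lit 5) (nat_lit 420) (nat_lit 391) (nat_lit 209)) (XT.lf (nat_lit 0) (nat_lit 20941605064) (nat_lit 608) (nat_lit 5591862009) (nat_lit 76) (nat_lit 2998478726) (nat_lit 308) (nat_lit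 5) (nat_lit 316) (nat_lit 5) (nat_lit 309) (nat_lit 5) (nat_lit 421) (nat_lit 391) (nat_lit 208)))) (XT.nd (nat_lit 156) (nat_lit 988) (nat_lit 0) (XT.nd (nat_lit 78) (nat_lit 76) (nat_lit 0) (XT.lf (nat_lit 0) (nat_lit 11509073993) (nat_lit 456) (nat_lit 14155380574) (nat_lit 532) (nat_lit 4366609077) (nat_lit 302) (nat_lit 5) (nat_lit 308) (nat_lit 5) (nat_lit 309) (nat_lit 5) (nat_lit 422) (nat_lit 391) (nat_lit 207)) (XT.lf (nat_lit 0) (nat_lit 37561278) (nat_lit 532) (nat_lit 1310407459) (nat_lit 76) (nat_lit 29195588611) (nat_lit 301) (nat_lit 5) (nat_lit 308) (nat_lit 5) (nat_lit 302) (nat_lit 5) (nat_lit 423) (nat_lit 391) (nat_lit 206))) (XT.nd (nat_lit 78) (nat_lit 456) (nat_lit 0) (XT.lf (nat_lit 0) (nat_lit 4758935173) (nat_lit 608) (nat_lit 14485277838) (nat_lit 76) (nat_lit 11817730551) (nat_lit 294) (nat_lit 5) (nat_lit 302) (nat_lit 5) (nat_lit 295) (nat_lit 5) (nat_lit 424) (nat_lit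 391) (nat_lit 205)) (XT.lf (nat_lit 0) (nat_lit 3482055493) (nat_lit 456) (nat_lit 6196624443) (nat_lit 532) (nat_lit 21915499536) (nat_lit 288) (nat_lit 5) (nat_lit 294) (nat_lit 5) (nat_lit 295) (nat_lit 5) (nat_lit 425) (nat_lit 391) (nat_lit 204))))) (XT.nd (nat_lit 312) (nat_lit 912) (nat_lit 0) (XT.nd (nat_lit 156) (nat_lit 380) (nat_lit 0) (XT.nd (nat_lit 78) (nat_lit 456) (nat_lit 0) (XT.lf (nat_lit 0) (nat_lit 14959958966) (nat_lit 532) (nat_lit 9927915750) (nat_lit 76) (nat_lit 7248089487) (nat_lit 288) (nat_lit 5) (nat_lit 295) (nat_lit 5) (nat_lit 289) (nat_lit 5) (nat_lit 426) (nat_lit 391) (nat_lit 203)) (XT.lf (nat_lit 0) (nat_lit 8910261825) (nat_lit 456) (nat_lit 11633119572) (nat_lit 532) (nat_lit 12146309927) (nat_lit 282) (nat_lit 5) (nat_lit 288) (nat_lit 5) (nat_lit 289) (nat_lit 5) (nat_lit 427) (nat_lit 391) (nat_lit 202))) (XT.nd (nat_lit 78) (nat_lit 380) (nat_lit 0) (XT.lf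 (nat_lit 0) (nat_lit 26411713197) (nat_lit 532) (nat_lit 4764453686) (nat_lit 76) (nat_lit 2080341176) (nat_lit 282) (nat_lit 5) (nat_lit 289) (nat_lit 5) (nat_lit 283) (nat_lit 5) (nat_lit 428) (nat_lit 391) (nat_lit 201)) (XT.lf (nat_lit 0) (nat_lit 14994381405) (nat_lit 380) (nat_lit 17717873818) (nat_lit 456) (nat_lit 1120389263) (nat_lit 277) (nat_lit 5) (nat_lit 282) (nat_lit 5) (nat_lit 283) (nat_lit 5) (nat_lit 429) (nat_lit 391) (nat_lit 200)))) (XT.nd (nat_lit 156) (nat_lit 380) (nat_lit 0) (XT.nd (nat_lit 78) (nat_lit 0) (nat_lit 0) (XT.lf (nat_lit 0) (nat_lit 987892046) (nat_lit 456) (nat_lit 3749617375) (nat_lit 532) (nat_lit 29685529774) (nat_lit 270) (nat_lit 5) (nat_lit 276) (nat_lit 5) (nat_lit 277) (nat_lit 5) (nat_lit 430) (nat_lit 391) (nat_lit 199)) (XT.lf (nat_lit 0) (nat_lit 11039908156) (nat_lit 532) (nat_lit 13349745632) (nat_lit 76) (nat_lit 10632420715) (nat_lit 270) (nat_lit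 5) (nat_lit 277) (nat_lit 5) (nat_lit 271) (nat_lit 5) (nat_lit 431) (nat_lit 391) (nat_lit 198))) (XT.nd (nat_lit 78) (nat_lit 0) (nat_lit 0) (XT.lf (nat_lit 0) (nat_lit 7442366847) (nat_lit 380) (nat_lit 10194680298) (nat_lit 456) (nat_lit 17998863675) (nat_lit 265) (nat_lit 5) (nat_lit 270) (nat_lit 5) (nat_lit 271) (nat_lit 5) (nat_lit 432) (nat_lit 391) (nat_lit 197)) (XT.lf (nat_lit 0) (nat_lit 24607831220) (nat_lit 456) (nat_lit 7180094056) (nat_lit 76) (nat_lit 4474965025) (nat_lit 265) (nat_lit 5) (nat_lit 271) (nat_lit 5) (nat_lit 266) (nat_lit 5) (nat_lit 433) (nat_lit 391) (nat_lit 196)))))) (XT.nd (nat_lit 546) (nat_lit 1672) (nat_lit 0) (XT.nd (nat_lit 234) (nat_lit 760) (nat_lit 0) (XT.nd (nat_lit 78) (nat_lit 456) (nat_lit 0) (XT.lf (nat_lit 0) (nat_lit 14644715494) (nat_lit 380) (nat_lit 17381863990) (nat_lit 456) (nat_lit 4874934461) (nat_lit 260) (nat_lit 5) (nat_lit 265) (nat_lit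 5) (nat_lit 266) (nat_lit 5) (nat_lit 434) (nat_lit 391) (nat_lit 195)) (XT.nd (nat_lit 78) (nat_lit 380) (nat_lit 0) (XT.lf (nat_lit 0) (nat_lit 2137818398) (nat_lit 456) (nat_lit 310550224) (nat_lit 76) (nat_lit 35108208481) (nat_lit 259) (nat_lit 5) (nat_lit 265) (nat_lit 5) (nat_lit 260) (nat_lit 5) (nat_lit 435) (nat_lit 391) (nat_lit 194)) (XT.lf (nat_lit 0) (nat_lit 9605211068) (nat_lit 456) (nat_lit 15665637708) (nat_lit 76) (nat_lit 12948728221) (nat_lit 254) (nat_lit 5) (nat_lit 260) (nat_lit 5) (nat_lit 255) (nat_lit 5) (nat_lit 436) (nat_lit 391) (nat_lit 193)))) (XT.nd (nat_lit 156) (nat_lit 380) (nat_lit 0) (XT.nd (nat_lit 78) (nat_lit 0) (nat_lit 0) (XT.lf (nat_lit 0) (nat_lit 7323168052) (nat_lit 380) (nat_lit 10068526418) (nat_lit 456) (nat_lit 21507920351) (nat_lit 249) (nat_lit 5) (nat_lit 254) (nat_lit 5) (nat_lit 255) (nat_lit 5) (nat_lit 437) (nat_lit 391) (nat_lit 192)) (XT.lf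 (nat_lit 0) (nat_lit 25622562801) (nat_lit 456) (nat_lit 8331689768) (nat_lit 76) (nat_lit 5639477497) (nat_lit 249) (nat_lit 5) (nat_lit 255) (nat_lit 5) (nat_lit 250) (nat_lit 5) (nat_lit 438) (nat_lit 391) (nat_lit 191))) (XT.nd (nat_lit 78) (nat_lit 76) (nat_lit 0) (XT.lf (nat_lit 0) (nat_lit 15815602597) (nat_lit 304) (nat_lit 18533849623) (nat_lit 380) (nat_lit 5951743697) (nat_lit 245) (nat_lit 5) (nat_lit 249) (nat_lit 5) (nat_lit 250) (nat_lit 5) (nat_lit 439) (nat_lit 391) (nat_lit 190)) (XT.lf (nat_lit 0) (nat_lit 2345579450) (nat_lit 380) (nat_lit 196031545) (nat_lit 76) (nat_lit 38485138315) (nat_lit 244) (nat_lit 5) (nat_lit 249) (nat_lit 5) (nat_lit 245) (nat_lit 5) (nat_lit 440) (nat_lit 391) (nat_lit 189))))) (XT.nd (nat_lit 312) (nat_lit 684) (nat_lit 0) (XT.nd (nat_lit 156) (nat_lit 304) (nat_lit 0) (XT.nd (nat_lit 78) (nat_lit 304) (nat_lit 0) (XT.lf (nat_lit 0) (nat_lit 11149291955)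 (nat_lit 456) (nat_lit 16649568607) (nat_lit 76) (nat_lit 13962128082) (nat_lit 239) (nat_lit 5) (nat_lit 245) (nat_lit 5) (nat_lit 240) (nat_lit 5) (nat_lit 441) (nat_lit 391) (nat_lit 188)) (XT.lf (nat_lit 0) (nat_lit 8807935771) (nat_lit 304) (nat_lit 11518507838) (nat_lit 380) (nat_lit 22187531717) (nat_lit 235) (nat_lit 5) (nat_lit 239) (nat_lit 5) (nat_lit 240) (nat_lit 5) (nat_lit 442) (nat_lit 391) (nat_lit 187))) (XT.nd (nat_lit 78) (nat_lit 304) (nat_lit 0) (XT.lf (nat_lit 0) (nat_lit 29996694708) (nat_lit 380) (nat_lit 7969875208) (nat_lit 76) (nat_lit 5316448145) (nat_lit 235) (nat_lit 5) (nat_lit 240) (nat_lit 5) (nat_lit 236) (nat_lit 5) (nat_lit 443) (nat_lit 391) (nat_lit 186)) (XT.lf (nat_lit 0) (nat_lit 18787346732) (nat_lit 304) (nat_lit 21461942434) (nat_lit 380) (nat_lit 3817075837) (nat_lit 231) (nat_lit 5) (nat_lit 235) (nat_lit 5) (nat_lit 236) (nat_lit 5) (nat_lit 444) (nat_lit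 391) (nat_lit 185)))) (XT.nd (nat_lit 156) (nat_lit 304) (nat_lit 0) (XT.nd (nat_lit 78) (nat_lit 0) (nat_lit 0) (XT.lf (nat_lit 0) (nat_lit 1609811640) (nat_lit 304) (nat_lit 4304959418) (nat_lit 380) (nat_lit 38953898623) (nat_lit 226) (nat_lit 5) (nat_lit 230) (nat_lit 5) (nat_lit 231) (nat_lit 5) (nat_lit 445) (nat_lit 391) (nat_lit 184)) (XT.lf (nat_lit 0) (nat_lit 16245770892) (nat_lit 380) (nat_lit 16036320973) (nat_lit 76) (nat_lit 13400300341) (nat_lit 226) (nat_lit 5) (nat_lit 231) (nat_lit 5) (nat_lit 227) (nat_lit 5) (nat_lit 446) (nat_lit 391) (nat_lit 183))) (XT.nd (nat_lit 78) (nat_lit 0) (nat_lit 0) (XT.lf (nat_lit 0) (nat_lit 12194709601) (nat_lit 304) (nat_lit 14849538293) (nat_lit 380) (nat_lit 19471552097) (nat_lit 222) (nat_lit 5) (nat_lit 226) (nat_lit 5) (nat_lit 227) (nat_lit 5) (nat_lit 447) (nat_lit 391) (nat_lit 182)) (XT.lf (nat_lit 0) (nat_lit 38357797126) (nat_lit 380)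 (nat_lit 5802955666) (nat_lit 76) (nat_lit 3207723680) (nat_lit 222) (nat_lit 5) (nat_lit 227) (nat_lit 5) (nat_lit 223) (nat_lit 5) (nat_lit 448) (nat_lit 391) (nat_lit 181))))))) (XT.nd (nat_lit 1170) (nat_lit 1976) (nat_lit 0) (XT.nd (nat_lit 546) (nat_lit 1292) (nat_lit 0) (XT.nd (nat_lit 234) (nat_lit 836) (nat_lit 0) (XT.nd (nat_lit 78) (nat_lit 304) (nat_lit 0) (XT.lf (nat_lit 0) (nat_lit 2107728721) (nat_lit 304) (nat_lit 24369797951) (nat_lit 76) (nat_lit 21757353924) (nat_lit 218) (nat_lit 5) (nat_lit 222) (nat_lit 5) (nat_lit 219) (nat_lit 5) (nat_lit 449) (nat_lit 391) (nat_lit 180)) (XT.nd (nat_lit 78) (nat_lit 0) (nat_lit 0) (XT.lf (nat_lit 0) (nat_lit 5429297929) (nat_lit 304) (nat_lit 8058452675) (nat_lit 380) (nat_lit 35633574782) (nat_lit 214) (nat_lit 5) (nat_lit 218) (nat_lit 5) (nat_lit 219) (nat_lit 5) (nat_lit 450) (nat_lit 391) (nat_lit 179)) (XT.lf (nat_lit 0) (nat_lit 25560419316)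 (nat_lit 380) (nat_lit 13515867848) (nat_lit 76) (nat_lit 10947538971) (nat_lit 214) (nat_lit 5) (nat_lit 219) (nat_lit 5) (nat_lit 215) (nat_lit 5) (nat_lit 451) (nat_lit 391) (nat_lit 178)))) (XT.nd (nat_lit 156) (nat_lit 608) (nat_lit 0) (XT.nd (nat_lit 78) (nat_lit 0) (nat_lit 0) (XT.lf (nat_lit 0) (nat_lit 17830355613) (nat_lit 228) (nat_lit 20413977165) (nat_lit 304) (nat_lit 12701597187) (nat_lit 211) (nat_lit 5) (nat_lit 214) (nat_lit 5) (nat_lit 215) (nat_lit 5) (nat_lit 452) (nat_lit 391) (nat_lit 177)) (XT.lf (nat_lit 0) (nat_lit 50390692111) (nat_lit 228) (nat_lit 1052466674) (nat_lit 304) (nat_lit 448506272) (nat_lit 211) (nat_lit 5) (nat_lit 214) (nat_lit 5) (nat_lit 215) (nat_lit 5) (nat_lit 453) (nat_lit 391) (nat_lit 176))) (XT.nd (nat_lit 78) (nat_lit 228) (nat_lit 0) (XT.lf (nat_lit 0) (nat_lit 12421688558) (nat_lit 380) (nat_lit 21481371320) (nat_lit 76) (nat_lit 18944591104) (nat_lit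 206) (nat_lit 5) (nat_lit 211) (nat_lit 5) (nat_lit 207) (nat_lit 5) (nat_lit 454) (nat_lit 391) (nat_lit 175)) (XT.lf (nat_lit 0) (nat_lit 11627034745) (nat_lit 228) (nat_lit 14177402304) (nat_lit 304) (nat_lit 28023682345) (nat_lit 203) (nat_lit 5) (nat_lit 206) (nat_lit 5) (nat_lit 207) (nat_lit 5) (nat_lit 455) (nat_lit 391) (nat_lit 174))))) (XT.nd (nat_lit 312) (nat_lit 760) (nat_lit 0) (XT.nd (nat_lit 156) (nat_lit 304) (nat_lit 0) (XT.nd (nat_lit 78) (nat_lit 228) (nat_lit 0) (XT.lf (nat_lit 0) (nat_lit 39864741564) (nat_lit 304) (nat_lit 8726935236) (nat_lit 76) (nat_lit 6238042853) (nat_lit 203) (nat_lit 5) (nat_lit 207) (nat_lit 5) (nat_lit 204) (nat_lit 5) (nat_lit 456) (nat_lit 391) (nat_lit 173)) (XT.lf (nat_lit 0) (nat_lit 26117499668) (nat_lit 228) (nat_lit 28618826395) (nat_lit 304) (nat_lit 1113357730) (nat_lit 200) (nat_lit 5) (nat_lit 203) (nat_lit 5) (nat_lit 204) (nat_lit 5) (nat_lit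 457) (nat_lit 391) (nat_lit 172))) (XT.nd (nat_lit 78) (nat_lit 0) (nat_lit 0) (XT.lf (nat_lit 0) (nat_lit 5260675406) (nat_lit 228) (nat_lit 7774074312) (nat_lit 304) (nat_lit 43857575363) (nat_lit 196) (nat_lit 5) (nat_lit 199) (nat_lit 5) (nat_lit 200) (nat_lit 5) (nat_lit 458) (nat_lit 391) (nat_lit 171)) (XT.lf (nat_lit 0) (nat_lit 28017851285) (nat_lit 304) (nat_lit 16193324037) (nat_lit 76) (nat_lit 13741751738) (nat_lit 196) (nat_lit 5) (nat_lit 200) (nat_lit 5) (nat_lit 197) (nat_lit 5) (nat_lit 459) (nat_lit 391) (nat_lit 170)))) (XT.nd (nat_lit 156) (nat_lit 532) (nat_lit 0) (XT.nd (nat_lit 78) (nat_lit 0) (nat_lit 0) (XT.lf (nat_lit 0) (nat_lit 20630615855) (nat_lit 228) (nat_lit 23093235908) (nat_lit 304) (nat_lit 15313293158) (nat_lit 193) (nat_lit 5) (nat_lit 196) (nat_lit 5) (nat_lit 197) (nat_lit 5) (nat_lit 460) (nat_lit 391) (nat_lit 169)) (XT.lf (nat_lit 0) (nat_lit 58888109912)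 (nat_lit 228) (nat_lit 1174588727) (nat_lit 304) (nat_lit 86340690) (nat_lit 193) (nat_lit 5) (nat_lit 196) (nat_lit 5) (nat_lit 197) (nat_lit 5) (nat_lit 461) (nat_lit 391) (nat_lit 168))) (XT.nd (nat_lit 78) (nat_lit 228) (nat_lit 0) (XT.lf (nat_lit 0) (nat_lit 15863250630) (nat_lit 304) (nat_lit 23910426648) (nat_lit 76) (nat_lit 21499009566) (nat_lit 189) (nat_lit 5) (nat_lit 193) (nat_lit 5) (nat_lit 190) (nat_lit 5) (nat_lit 462) (nat_lit 391) (nat_lit 167)) (XT.lf (nat_lit 0) (nat_lit 15017701565) (nat_lit 228) (nat_lit 17438934433) (nat_lit 304) (nat_lit 29968370891) (nat_lit 186) (nat_lit 5) (nat_lit 189) (nat_lit 5) (nat_lit 190) (nat_lit 5) (nat_lit 463) (nat_lit 391) (nat_lit 166)))))) (XT.nd (nat_lit 624) (nat_lit 912) (nat_lit 0) (XT.nd (nat_lit 312) (nat_lit 608) (nat_lit 0) (XT.nd (nat_lit 156) (nat_lit 228) (nat_lit 0) (XT.nd (nat_lit 78) (nat_lit 228) (nat_lit 0) (XT.lf (nat_lit 0)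 (nat_lit 49843369383) (nat_lit 304) (nat_lit 8059812302) (nat_lit 76) (nat_lit 5699848460) (nat_lit 186) (nat_lit 5) (nat_lit 190) (nat_lit 5) (nat_lit 187) (nat_lit 5) (nat_lit 464) (nat_lit 391) (nat_lit 165)) (XT.lf (nat_lit 0) (nat_lit 3370371799) (nat_lit 228) (nat_lit 31899676152) (nat_lit 76) (nat_lit 29530729475) (nat_lit 183) (nat_lit 5) (nat_lit 186) (nat_lit 5) (nat_lit 184) (nat_lit 5) (nat_lit 465) (nat_lit 391) (nat_lit 164))) (XT.nd (nat_lit 78) (nat_lit 0) (nat_lit 0) (XT.lf (nat_lit 0) (nat_lit 9264798784) (nat_lit 228) (nat_lit 11642466659) (nat_lit 304) (nat_lit 45118019187) (nat_lit 180) (nat_lit 5) (nat_lit 183) (nat_lit 5) (nat_lit 184) (nat_lit 5) (nat_lit 466) (nat_lit 391) (nat_lit 163)) (XT.lf (nat_lit 0) (nat_lit 39415874049) (nat_lit 304) (nat_lit 15086960368) (nat_lit 76) (nat_lit 12770324388) (nat_lit 180) (nat_lit 5) (nat_lit 184) (nat_lit 5) (nat_lit 181) (nat_lit 5)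 (nat_lit 467) (nat_lit 391) (nat_lit 162)))) (XT.nd (nat_lit 156) (nat_lit 152) (nat_lit 0) (XT.nd (nat_lit 78) (nat_lit 304) (nat_lit 0) (XT.lf (nat_lit 0) (nat_lit 28270234768) (nat_lit 152) (nat_lit 30594851880) (nat_lit 228) (nat_lit 9681822185) (nat_lit 178) (nat_lit 5) (nat_lit 180) (nat_lit 5) (nat_lit 181) (nat_lit 5) (nat_lit 468) (nat_lit 391) (nat_lit 161)) (XT.lf (nat_lit 0) (nat_lit 3357307089) (nat_lit 228) (nat_lit 5689672873) (nat_lit 304) (nat_lit 60803751058) (nat_lit 174) (nat_lit 5) (nat_lit 177) (nat_lit 5) (nat_lit 178) (nat_lit 5) (nat_lit 469) (nat_lit 391) (nat_lit 160))) (XT.nd (nat_lit 78) (nat_lit 152) (nat_lit 0) (XT.lf (nat_lit 0) (nat_lit 28744023379) (nat_lit 304) (nat_lit 22350238102) (nat_lit 76) (nat_lit 20078501435) (nat_lit 174) (nat_lit 5) (nat_lit 178) (nat_lit 5) (nat_lit 175) (nat_lit 5) (nat_lit 470) (nat_lit 391) (nat_lit 159)) (XT.lf (nat_lit 0) (nat_lit 23516964098)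 (nat_lit 152) (nat_lit 25795791897) (nat_lit 228) (nat_lit 23213276437) (nat_lit 172) (nat_lit 5) (nat_lit 174) (nat_lit 5) (nat_lit 175) (nat_lit 5) (nat_lit 471) (nat_lit 391) (nat_lit 158))))) (XT.nd (nat_lit 312) (nat_lit 532) (nat_lit 0) (XT.nd (nat_lit 156) (nat_lit 152) (nat_lit 0) (XT.nd (nat_lit 78) (nat_lit 228) (nat_lit 0) (XT.lf (nat_lit 0) (nat_lit 70727386965) (nat_lit 228) (nat_lit 2702393112) (nat_lit 76) (nat_lit 483254865) (nat_lit 172) (nat_lit 5) (nat_lit 175) (nat_lit 5) (nat_lit 173) (nat_lit 5) (nat_lit 472) (nat_lit 391) (nat_lit 157)) (XT.lf (nat_lit 0) (nat_lit 17801718354) (nat_lit 228) (nat_lit 29869774125) (nat_lit 76) (nat_lit 27644146487) (nat_lit 169) (nat_lit 5) (nat_lit 172) (nat_lit 5) (nat_lit 170) (nat_lit 5) (nat_lit 473) (nat_lit 391) (nat_lit 156))) (XT.nd (nat_lit 78) (nat_lit 0) (nat_lit 0) (XT.lf (nat_lit 0) (nat_lit 18664081376) (nat_lit 152) (nat_lit 20896009393)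 (nat_lit 228) (nat_lit 37193121707) (nat_lit 167) (nat_lit 5) (nat_lit 169) (nat_lit 5) (nat_lit 170) (nat_lit 5) (nat_lit 474) (nat_lit 391) (nat_lit 155)) (XT.lf (nat_lit 0) (nat_lit 62338516579) (nat_lit 228) (nat_lit 9028618331) (nat_lit 76) (nat_lit 6855759215) (nat_lit 167) (nat_lit 5) (nat_lit 170) (nat_lit 5) (nat_lit 168) (nat_lit 5) (nat_lit 475) (nat_lit 391) (nat_lit 154)))) (XT.nd (nat_lit 156) (nat_lit 152) (nat_lit 0) (XT.nd (nat_lit 78) (nat_lit 152) (nat_lit 0) (XT.lf (nat_lit 0) (nat_lit 6561579282) (nat_lit 228) (nat_lit 37666737485) (nat_lit 76) (nat_lit 35488112629) (nat_lit 164) (nat_lit 5) (nat_lit 167) (nat_lit 5) (nat_lit 165) (nat_lit 5) (nat_lit 476) (nat_lit 391) (nat_lit 153)) (XT.lf (nat_lit 0) (nat_lit 13699848420) (nat_lit 152) (nat_lit 15884071082) (nat_lit 228) (nat_lit 51659465143) (nat_lit 162) (nat_lit 5) (nat_lit 164) (nat_lit 5) (nat_lit 165) (nat_lit 5) (nat_lit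 477) (nat_lit 391) (nat_lit 152))) (XT.nd (nat_lit 78) (nat_lit 152) (nat_lit 0) (XT.lf (nat_lit 0) (nat_lit 53807510805) (nat_lit 228) (nat_lit 15559600658) (nat_lit 76) (nat_lit 13433719663) (nat_lit 162) (nat_lit 5) (nat_lit 165) (nat_lit 5) (nat_lit 163) (nat_lit 5) (nat_lit 478) (nat_lit 391) (nat_lit 151)) (XT.lf (nat_lit 0) (nat_lit 38576723363) (nat_lit 152) (nat_lit 40707727143) (nat_lit 228) (nat_lit 5104751273) (nat_lit 160) (nat_lit 5) (nat_lit 162) (nat_lit 5) (nat_lit 163) (nat_lit 5) (nat_lit 479) (nat_lit 391) (nat_lit 150))))))))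
noncomputable def xc205 : XT := (XT.nd (nat_lit 48126) (nat_lit 0) (nat_lit 5776) (XT.nd (nat_lit 46956) (nat_lit 0) (nat_lit 14288) (XT.nd (nat_lit 46332) (nat_lit 0) (nat_lit 17024) (XT.nd (nat_lit 234) (nat_lit 380) (nat_lit 0) (XT.nd (nat_lit 78) (nat_lit 152) (nat_lit 0) (XT.lf (nat_lit 0) (nat_lit 8611993206) (nat_lit 152) (nat_lit 10747970564) (nat_lit 228) (nat_lit 66652435866) (nat_lit 157) (nat_lit 5) (nat_lit 159) (nat_lit 5) (nat_lit 160) (nat_lit 5) (nat_lit 480) (nat_lit 391) (nat_lit 149)) (XT.nd (nat_lit 78) (nat_lit 152) (nat_lit 0) (XT.lf (nat_lit 0) (nat_lit 45115089872) (nat_lit 228) (nat_lit 22313183846) (nat_lit 76) (nat_lit 20234731347) (nat_lit 157) (nat_lit 5) (nat_lit 160) (nat_lit 5) (nat_lit 158) (nat_lit 5) (nat_lit 481) (nat_lit 391) (nat_lit 148)) (XT.lf (nat_lit 0) (nat_lit 35000664687) (nat_lit 152) (nat_lit 37083668714) (nat_lit 228) (nat_lit 17265551345) (nat_lit 155)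 (nat_lit 5) (nat_lit 157) (nat_lit 5) (nat_lit 158) (nat_lit 5) (nat_lit 482) (nat_lit 391) (nat_lit 147)))) (XT.nd (nat_lit 156) (nat_lit 152) (nat_lit 0) (XT.nd (nat_lit 78) (nat_lit 0) (nat_lit 0) (XT.lf (nat_lit 0) (nat_lit 3387670326) (nat_lit 152) (nat_lit 5475093313) (nat_lit 228) (nat_lit 82214315048) (nat_lit 152) (nat_lit 5) (nat_lit 154) (nat_lit 5) (nat_lit 155) (nat_lit 5) (nat_lit 483) (nat_lit 391) (nat_lit 146)) (XT.lf (nat_lit 0) (nat_lit 36241096314) (nat_lit 228) (nat_lit 29308128821) (nat_lit 76) (nat_lit 27277339269) (nat_lit 152) (nat_lit 5) (nat_lit 155) (nat_lit 5) (nat_lit 153) (nat_lit 5) (nat_lit 484) (nat_lit 391) (nat_lit 145))) (XT.nd (nat_lit 45864) (nat_lit 0) (nat_lit 17024) (XT.lf (nat_lit 0) (nat_lit 31380224400) (nat_lit 152) (nat_lit 33415057926) (nat_lit 228) (nat_lit 29822617266) (nat_lit 150) (nat_lit 5) (nat_lit 152) (nat_lit 5) (nat_lit 153) (nat_lit 5) (nat_lit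 485) (nat_lit 391) (nat_lit 144)) (XT.lf (nat_lit 0) (nat_lit 3892531422) (nat_lit 1292) (nat_lit 2803390424) (nat_lit 1292) (nat_lit 2803390424) (nat_lit 374) (nat_lit 3) (nat_lit 391) (nat_lit 3) (nat_lit 391) (nat_lit 5) (nat_lit 392) (nat_lit 392) (nat_lit 236))))) (XT.nd (nat_lit 312) (nat_lit 0) (nat_lit 152) (XT.nd (nat_lit 156) (nat_lit 0) (nat_lit 76) (XT.nd (nat_lit 78) (nat_lit 0) (nat_lit 76) (XT.lf (nat_lit 76) (nat_lit 3970000430) (nat_lit 0) (nat_lit 4153151866) (nat_lit 1292) (nat_lit 11153812208) (nat_lit 375) (nat_lit 5) (nat_lit 374) (nat_lit 3) (nat_lit 391) (nat_lit 5) (nat_lit 393) (nat_lit 392) (nat_lit 235)) (XT.lf (nat_lit 0) (nat_lit 8572961043) (nat_lit 1216) (nat_lit 5669050524) (nat_lit 1292) (nat_lit 5318595801) (nat_lit 375) (nat_lit 5) (nat_lit 391) (nat_lit 5) (nat_lit 392) (nat_lit 5) (nat_lit 394) (nat_lit 392) (nat_lit 234))) (XT.nd (nat_lit 78) (nat_lit 0) (nat_lit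 76) (XT.lf (nat_lit 76) (nat_lit 4296840633) (nat_lit 0) (nat_lit 4814904864) (nat_lit 1292) (nat_lit 10738749577) (nat_lit 376) (nat_lit 5) (nat_lit 375) (nat_lit 5) (nat_lit 392) (nat_lit 5) (nat_lit 395) (nat_lit 392) (nat_lit 233)) (XT.lf (nat_lit 0) (nat_lit 9764811108) (nat_lit 1216) (nat_lit 5521143897) (nat_lit 1292) (nat_lit 4860180877) (nat_lit 376) (nat_lit 5) (nat_lit 392) (nat_lit 5) (nat_lit 393) (nat_lit 5) (nat_lit 396) (nat_lit 392) (nat_lit 232)))) (XT.nd (nat_lit 156) (nat_lit 0) (nat_lit 76) (XT.nd (nat_lit 78) (nat_lit 0) (nat_lit 76) (XT.lf (nat_lit 76) (nat_lit 4855456199) (nat_lit 0) (nat_lit 5669805663) (nat_lit 1292) (nat_lit 9922750258) (nat_lit 377) (nat_lit 5) (nat_lit 376) (nat_lit 5) (nat_lit 393) (nat_lit 5) (nat_lit 397) (nat_lit 392) (nat_lit 231)) (XT.lf (nat_lit 0) (nat_lit 11399162841) (nat_lit 1216) (nat_lit 5146137343) (nat_lit 1292) (nat_lit 4210925360) (nat_lit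 377) (nat_lit 5) (nat_lit 393) (nat_lit 5) (nat_lit 394) (nat_lit 5) (nat_lit 398) (nat_lit 392) (nat_lit 230))) (XT.nd (nat_lit 78) (nat_lit 0) (nat_lit 76) (XT.lf (nat_lit 76) (nat_lit 5664045706) (nat_lit 0) (nat_lit 6739628014) (nat_lit 1292) (nat_lit 8666879863) (nat_lit 378) (nat_lit 5) (nat_lit 377) (nat_lit 5) (nat_lit 394) (nat_lit 5) (nat_lit 399) (nat_lit 392) (nat_lit 229)) (XT.lf (nat_lit 0) (nat_lit 13517072638) (nat_lit 1216) (nat_lit 4525721704) (nat_lit 1292) (nat_lit 3349154542) (nat_lit 378) (nat_lit 5) (nat_lit 394) (nat_lit 5) (nat_lit 395) (nat_lit 5) (nat_lit 400) (nat_lit 392) (nat_lit 228)))))) (XT.nd (nat_lit 546) (nat_lit 1976) (nat_lit 0) (XT.nd (nat_lit 234) (nat_lit 1064) (nat_lit 0) (XT.nd (nat_lit 78) (nat_lit 0) (nat_lit 76) (XT.lf (nat_lit 76) (nat_lit 6742267430) (nat_lit 0) (nat_lit 8047293324) (nat_lit 1292) (nat_lit 6929654672) (nat_lit 379) (nat_lit 5) (nat_lit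 378) (nat_lit 5) (nat_lit 395) (nat_lit 5) (nat_lit 401) (nat_lit 392) (nat_lit 227)) (XT.nd (nat_lit 78) (nat_lit 0) (nat_lit 0) (XT.lf (nat_lit 0) (nat_lit 16162282415) (nat_lit 1216) (nat_lit 3640127944) (nat_lit 1292) (nat_lit 2252027837) (nat_lit 379) (nat_lit 5) (nat_lit 395) (nat_lit 5) (nat_lit 396) (nat_lit 5) (nat_lit 402) (nat_lit 392) (nat_lit 226)) (XT.lf (nat_lit 76) (nat_lit 8111318303) (nat_lit 0) (nat_lit 9616976347) (nat_lit 1292) (nat_lit 4666859733) (nat_lit 380) (nat_lit 5) (nat_lit 379) (nat_lit 5) (nat_lit 396) (nat_lit 5) (nat_lit 403) (nat_lit 392) (nat_lit 225)))) (XT.nd (nat_lit 156) (nat_lit 1216) (nat_lit 0) (XT.nd (nat_lit 78) (nat_lit 0) (nat_lit 0) (XT.lf (nat_lit 0) (nat_lit 19381408405) (nat_lit 1216) (nat_lit 2468046787) (nat_lit 1292) (nat_lit 895433230) (nat_lit 380) (nat_lit 5) (nat_lit 396) (nat_lit 5) (nat_lit 397) (nat_lit 5) (nat_lit 404) (nat_lit 392) (nat_lit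 224)) (XT.lf (nat_lit 76) (nat_lit 9794019164) (nat_lit 0) (nat_lit 11474214887) (nat_lit 1292) (nat_lit 1831356874) (nat_lit 381) (nat_lit 5) (nat_lit 380) (nat_lit 5) (nat_lit 397) (nat_lit 5) (nat_lit 405) (nat_lit 392) (nat_lit 223))) (XT.nd (nat_lit 78) (nat_lit 1216) (nat_lit 0) (XT.lf (nat_lit 76) (nat_lit 22470483767) (nat_lit 0) (nat_lit 760971709) (nat_lit 1292) (nat_lit 232885299) (nat_lit 381) (nat_lit 5) (nat_lit 380) (nat_lit 5) (nat_lit 397) (nat_lit 5) (nat_lit 406) (nat_lit 392) (nat_lit 222)) (XT.lf (nat_lit 0) (nat_lit 1595367167) (nat_lit 1292) (nat_lit 12034546716) (nat_lit 1368) (nat_lit 10203429301) (nat_lit 364) (nat_lit 5) (nat_lit 381) (nat_lit 5) (nat_lit 382) (nat_lit 5) (nat_lit 407) (nat_lit 392) (nat_lit 221))))) (XT.nd (nat_lit 312) (nat_lit 1216) (nat_lit 0) (XT.nd (nat_lit 156) (nat_lit 760) (nat_lit 0) (XT.nd (nat_lit 78) (nat_lit 0) (nat_lit 76) (XT.lf (nat_lit 76)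 (nat_lit 783686196) (nat_lit 0) (nat_lit 2710388972) (nat_lit 1368) (nat_lit 20718662663) (nat_lit 365) (nat_lit 5) (nat_lit 364) (nat_lit 5) (nat_lit 382) (nat_lit 5) (nat_lit 408) (nat_lit 392) (nat_lit 220)) (XT.lf (nat_lit 0) (nat_lit 5649729138) (nat_lit 1292) (nat_lit 10454234614) (nat_lit 76) (nat_lit 8493551024) (nat_lit 365) (nat_lit 5) (nat_lit 382) (nat_lit 5) (nat_lit 366) (nat_lit 5) (nat_lit 409) (nat_lit 392) (nat_lit 219))) (XT.nd (nat_lit 78) (nat_lit 0) (nat_lit 0) (XT.lf (nat_lit 0) (nat_lit 2936145231) (nat_lit 836) (nat_lit 4984302966) (nat_lit 912) (nat_lit 17071874967) (nat_lit 354) (nat_lit 5) (nat_lit 365) (nat_lit 5) (nat_lit 366) (nat_lit 5) (nat_lit 410) (nat_lit 392) (nat_lit 218)) (XT.lf (nat_lit 0) (nat_lit 10423521639) (nat_lit 912) (nat_lit 8520741304) (nat_lit 76) (nat_lit 6449785876) (nat_lit 354) (nat_lit 5) (nat_lit 366) (nat_lit 5) (nat_lit 355) (nat_lit 5) (nat_lit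 411) (nat_lit 392) (nat_lit 217)))) (XT.nd (nat_lit 156) (nat_lit 608) (nat_lit 0) (XT.nd (nat_lit 78) (nat_lit 0) (nat_lit 0) (XT.lf (nat_lit 0) (nat_lit 5474110198) (nat_lit 608) (nat_lit 7625116861) (nat_lit 684) (nat_lit 12705672993) (nat_lit 346) (nat_lit 5) (nat_lit 354) (nat_lit 5) (nat_lit 355) (nat_lit 5) (nat_lit 412) (nat_lit 392) (nat_lit 216)) (XT.lf (nat_lit 0) (nat_lit 15976533902) (nat_lit 684) (nat_lit 6205857481) (nat_lit 76) (nat_lit 4042045531) (nat_lit 346) (nat_lit 5) (nat_lit 355) (nat_lit 5) (nat_lit 347) (nat_lit 5) (nat_lit 413) (nat_lit 392) (nat_lit 215))) (XT.nd (nat_lit 78) (nat_lit 0) (nat_lit 0) (XT.lf (nat_lit 0) (nat_lit 8427693290) (nat_lit 608) (nat_lit 10664763460) (nat_lit 684) (nat_lit 7559534227) (nat_lit 338) (nat_lit 5) (nat_lit 346) (nat_lit 5) (nat_lit 347) (nat_lit 5) (nat_lit 414) (nat_lit 392) (nat_lit 214)) (XT.lf (nat_lit 0) (nat_lit 22372537407) (nat_lit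 684) (nat_lit 3479339768) (nat_lit 76) (nat_lit 1238374083) (nat_lit 338) (nat_lit 5) (nat_lit 347) (nat_lit 5) (nat_lit 339) (nat_lit 5) (nat_lit 415) (nat_lit 392) (nat_lit 213))))))) (XT.nd (nat_lit 1170) (nat_lit 3876) (nat_lit 0) (XT.nd (nat_lit 546) (nat_lit 2356) (nat_lit 0) (XT.nd (nat_lit 234) (nat_lit 1064) (nat_lit 0) (XT.nd (nat_lit 78) (nat_lit 684) (nat_lit 0) (XT.lf (nat_lit 0) (nat_lit 11829153552) (nat_lit 532) (nat_lit 14137160887) (nat_lit 608) (nat_lit 1568886091) (nat_lit 331) (nat_lit 5) (nat_lit 338) (nat_lit 5) (nat_lit 339) (nat_lit 5) (nat_lit 416) (nat_lit 392) (nat_lit 212)) (XT.nd (nat_lit 78) (nat_lit 608) (nat_lit 0) (XT.lf (nat_lit 0) (nat_lit 1673247602) (nat_lit 608) (nat_lit 344753059) (nat_lit 76) (nat_lit 25974069311) (nat_lit 330) (nat_lit 5) (nat_lit 338) (nat_lit 5) (nat_lit 331) (nat_lit 5) (nat_lit 417) (nat_lit 392) (nat_lit 211)) (XT.lf (nat_lit 0) (nat_lit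 5231054585) (nat_lit 684) (nat_lit 12794478124) (nat_lit 76) (nat_lit 10429148514) (nat_lit 322) (nat_lit 5) (nat_lit 331) (nat_lit 5) (nat_lit 323) (nat_lit 5) (nat_lit 418) (nat_lit 392) (nat_lit 210)))) (XT.nd (nat_lit 156) (nat_lit 532) (nat_lit 0) (XT.nd (nat_lit 78) (nat_lit 0) (nat_lit 0) (XT.lf (nat_lit 0) (nat_lit 3260881509) (nat_lit 532) (nat_lit 5685776755) (nat_lit 608) (nat_lit 19982980672) (nat_lit 315) (nat_lit 5) (nat_lit 322) (nat_lit 5) (nat_lit 323) (nat_lit 5) (nat_lit 419) (nat_lit 392) (nat_lit 209)) (XT.lf (nat_lit 0) (nat_lit 12968018654) (nat_lit 608) (nat_lit 9427705812) (nat_lit 76) (nat_lit 7017292257) (nat_lit 315) (nat_lit 5) (nat_lit 323) (nat_lit 5) (nat_lit 316) (nat_lit 5) (nat_lit 420) (nat_lit 392) (nat_lit 208))) (XT.nd (nat_lit 78) (nat_lit 0) (nat_lit 0) (XT.lf (nat_lit 0) (nat_lit 7384385522) (nat_lit 532) (nat_lit 9849310073) (nat_lit 608) (nat_lit 12673489975)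 (nat_lit 308) (nat_lit 5) (nat_lit 315) (nat_lit 5) (nat_lit 316) (nat_lit 5) (nat_lit 421) (nat_lit 392) (nat_lit 207)) (XT.lf (nat_lit 0) (nat_lit 21749491690) (nat_lit 608) (nat_lit 5553767901) (nat_lit 76) (nat_lit 3109255427) (nat_lit 308) (nat_lit 5) (nat_lit 316) (nat_lit 5) (nat_lit 309) (nat_lit 5) (nat_lit 422) (nat_lit 392) (nat_lit 206))))) (XT.nd (nat_lit 312) (nat_lit 836) (nat_lit 0) (XT.nd (nat_lit 156) (nat_lit 988) (nat_lit 0) (XT.nd (nat_lit 78) (nat_lit 76) (nat_lit 0) (XT.lf (nat_lit 0) (nat_lit 12058178045) (nat_lit 456) (nat_lit 14552575801) (nat_lit 532) (nat_lit 4315950738) (nat_lit 302) (nat_lit 5) (nat_lit 308) (nat_lit 5) (nat_lit 309) (nat_lit 5) (nat_lit 423) (nat_lit 392) (nat_lit 205)) (XT.lf (nat_lit 0) (nat_lit 211612229) (nat_lit 532) (nat_lit 1148383172) (nat_lit 76) (nat_lit 30094680944) (nat_lit 301) (nat_lit 5) (nat_lit 308) (nat_lit 5) (nat_lit 302) (nat_lit 5)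 (nat_lit 424) (nat_lit 392) (nat_lit 204))) (XT.nd (nat_lit 78) (nat_lit 456) (nat_lit 0) (XT.lf (nat_lit 0) (nat_lit 5071791249) (nat_lit 608) (nat_lit 14715663569) (nat_lit 76) (nat_lit 12201244410) (nat_lit 294) (nat_lit 5) (nat_lit 302) (nat_lit 5) (nat_lit 295) (nat_lit 5) (nat_lit 425) (nat_lit 392) (nat_lit 203)) (XT.lf (nat_lit 0) (nat_lit 3788688069) (nat_lit 456) (nat_lit 6347429657) (nat_lit 532) (nat_lit 22400874809) (nat_lit 288) (nat_lit 5) (nat_lit 294) (nat_lit 5) (nat_lit 295) (nat_lit 5) (nat_lit 426) (nat_lit 392) (nat_lit 202)))) (XT.nd (nat_lit 156) (nat_lit 380) (nat_lit 0) (XT.nd (nat_lit 78) (nat_lit 456) (nat_lit 0) (XT.lf (nat_lit 0) (nat_lit 15571296309) (nat_lit 532) (nat_lit 10024931968) (nat_lit 76) (nat_lit 7498938695) (nat_lit 288) (nat_lit 5) (nat_lit 295) (nat_lit 5) (nat_lit 289) (nat_lit 5) (nat_lit 427) (nat_lit 392) (nat_lit 201)) (XT.lf (nat_lit 0) (nat_lit 9376422099)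 (nat_lit 456) (nat_lit 11942976672) (nat_lit 532) (nat_lit 12346191815) (nat_lit 282) (nat_lit 5) (nat_lit 288) (nat_lit 5) (nat_lit 289) (nat_lit 5) (nat_lit 428) (nat_lit 392) (nat_lit 200))) (XT.nd (nat_lit 78) (nat_lit 380) (nat_lit 0) (XT.lf (nat_lit 0) (nat_lit 27359493851) (nat_lit 532) (nat_lit 4710040022) (nat_lit 76) (nat_lit 2180006550) (nat_lit 282) (nat_lit 5) (nat_lit 289) (nat_lit 5) (nat_lit 283) (nat_lit 5) (nat_lit 429) (nat_lit 392) (nat_lit 199)) (XT.lf (nat_lit 0) (nat_lit 15639625345) (nat_lit 380) (nat_lit 18206778152) (nat_lit 456) (nat_lit 996636906) (nat_lit 277) (nat_lit 5) (nat_lit 282) (nat_lit 5) (nat_lit 283) (nat_lit 5) (nat_lit 430) (nat_lit 392) (nat_lit 198)))))) (XT.nd (nat_lit 624) (nat_lit 1748) (nat_lit 0) (XT.nd (nat_lit 312) (nat_lit 1216) (nat_lit 0) (XT.nd (nat_lit 156) (nat_lit 380) (nat_lit 0) (XT.nd (nat_lit 78) (nat_lit 0) (nat_lit 0) (XT.lf (nat_lit 0)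 (nat_lit 1214066130) (nat_lit 456) (nat_lit 3817257128) (nat_lit 532) (nat_lit 30419856457) (nat_lit 270) (nat_lit 5) (nat_lit 276) (nat_lit 5) (nat_lit 277) (nat_lit 5) (nat_lit 431) (nat_lit 392) (nat_lit 197)) (XT.lf (nat_lit 0) (nat_lit 11518794398) (nat_lit 532) (nat_lit 13555425510) (nat_lit 76) (nat_lit 10994086160) (nat_lit 270) (nat_lit 5) (nat_lit 277) (nat_lit 5) (nat_lit 271) (nat_lit 5) (nat_lit 432) (nat_lit 392) (nat_lit 196))) (XT.nd (nat_lit 78) (nat_lit 0) (nat_lit 0) (XT.lf (nat_lit 0) (nat_lit 7858540417) (nat_lit 380) (nat_lit 10452859817) (nat_lit 456) (nat_lit 18389230661) (nat_lit 265) (nat_lit 5) (nat_lit 270) (nat_lit 5) (nat_lit 271) (nat_lit 5) (nat_lit 433) (nat_lit 392) (nat_lit 195)) (XT.lf (nat_lit 0) (nat_lit 25487522291) (nat_lit 456) (nat_lit 7204427296) (nat_lit 76) (nat_lit 4654583738) (nat_lit 265) (nat_lit 5) (nat_lit 271) (nat_lit 5) (nat_lit 266) (nat_lit 5)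 (nat_lit 434) (nat_lit 392) (nat_lit 194)))) (XT.nd (nat_lit 156) (nat_lit 760) (nat_lit 0) (XT.nd (nat_lit 78) (nat_lit 76) (nat_lit 0) (XT.lf (nat_lit 0) (nat_lit 15273253309) (nat_lit 380) (nat_lit 17853278284) (nat_lit 456) (nat_lit 4877853128) (nat_lit 260) (nat_lit 5) (nat_lit 265) (nat_lit 5) (nat_lit 266) (nat_lit 5) (nat_lit 435) (nat_lit 392) (nat_lit 193)) (XT.lf (nat_lit 0) (nat_lit 2338392265) (nat_lit 456) (nat_lit 133465544) (nat_lit 76) (nat_lit 36207323428) (nat_lit 259) (nat_lit 5) (nat_lit 265) (nat_lit 5) (nat_lit 260) (nat_lit 5) (nat_lit 436) (nat_lit 392) (nat_lit 192))) (XT.nd (nat_lit 78) (nat_lit 380) (nat_lit 0) (XT.lf (nat_lit 0) (nat_lit 10028090832) (nat_lit 456) (nat_lit 15947489770) (nat_lit 76) (nat_lit 13386542002) (nat_lit 254) (nat_lit 5) (nat_lit 260) (nat_lit 5) (nat_lit 255) (nat_lit 5) (nat_lit 437) (nat_lit 392) (nat_lit 191)) (XT.lf (nat_lit 0) (nat_lit 7729135878)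 (nat_lit 380) (nat_lit 10316899443) (nat_lit 456) (nat_lit 22016590244) (nat_lit 249) (nat_lit 5) (nat_lit 254) (nat_lit 5) (nat_lit 255) (nat_lit 5) (nat_lit 438) (nat_lit 392) (nat_lit 190))))) (XT.nd (nat_lit 312) (nat_lit 988) (nat_lit 0) (XT.nd (nat_lit 156) (nat_lit 456) (nat_lit 0) (XT.nd (nat_lit 78) (nat_lit 304) (nat_lit 0) (XT.lf (nat_lit 0) (nat_lit 26520468858) (nat_lit 456) (nat_lit 8397432254) (nat_lit 76) (nat_lit 5859763981) (nat_lit 249) (nat_lit 5) (nat_lit 255) (nat_lit 5) (nat_lit 250) (nat_lit 5) (nat_lit 439) (nat_lit 392) (nat_lit 189)) (XT.lf (nat_lit 0) (nat_lit 16472472919) (nat_lit 304) (nat_lit 19034681446) (nat_lit 380) (nat_lit 5999260872) (nat_lit 245) (nat_lit 5) (nat_lit 249) (nat_lit 5) (nat_lit 250) (nat_lit 5) (nat_lit 440) (nat_lit 392) (nat_lit 188))) (XT.nd (nat_lit 78) (nat_lit 380) (nat_lit 0) (XT.lf (nat_lit 0) (nat_lit 2540682919) (nat_lit 380) (nat_lit 22340441)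 (nat_lit 76) (nat_lit 39690786346) (nat_lit 244) (nat_lit 5) (nat_lit 249) (nat_lit 5) (nat_lit 245) (nat_lit 5) (nat_lit 441) (nat_lit 392) (nat_lit 187)) (XT.lf (nat_lit 0) (nat_lit 11607111630) (nat_lit 456) (nat_lit 16968088445) (nat_lit 76) (nat_lit 14434918001) (nat_lit 239) (nat_lit 5) (nat_lit 245) (nat_lit 5) (nat_lit 240) (nat_lit 5) (nat_lit 442) (nat_lit 392) (nat_lit 186)))) (XT.nd (nat_lit 156) (nat_lit 684) (nat_lit 0) (XT.nd (nat_lit 78) (nat_lit 0) (nat_lit 0) (XT.lf (nat_lit 0) (nat_lit 9251366875) (nat_lit 304) (nat_lit 11806341017) (nat_lit 380) (nat_lit 22728042564) (nat_lit 235) (nat_lit 5) (nat_lit 239) (nat_lit 5) (nat_lit 240) (nat_lit 5) (nat_lit 443) (nat_lit 392) (nat_lit 185)) (XT.lf (nat_lit 0) (nat_lit 31015067233) (nat_lit 380) (nat_lit 8031998357) (nat_lit 76) (nat_lit 5530888861) (nat_lit 235) (nat_lit 5) (nat_lit 240) (nat_lit 5) (nat_lit 236) (nat_lit 5) (nat_lit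 444) (nat_lit 392) (nat_lit 184))) (XT.nd (nat_lit 78) (nat_lit 380) (nat_lit 0) (XT.lf (nat_lit 0) (nat_lit 19526205211) (nat_lit 304) (nat_lit 22047268178) (nat_lit 380) (nat_lit 3811381397) (nat_lit 231) (nat_lit 5) (nat_lit 235) (nat_lit 5) (nat_lit 236) (nat_lit 5) (nat_lit 445) (nat_lit 392) (nat_lit 183)) (XT.lf (nat_lit 0) (nat_lit 1833948715) (nat_lit 304) (nat_lit 4374383986) (nat_lit 380) (nat_lit 40002913516) (nat_lit 226) (nat_lit 5) (nat_lit 230) (nat_lit 5) (nat_lit 231) (nat_lit 5) (nat_lit 446) (nat_lit 392) (nat_lit 182))))))))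
noncomputable def xc206 : XT := (XT.nd (nat_lit 2340) (nat_lit 1140) (nat_lit 0) (XT.nd (nat_lit 1170) (nat_lit 1976) (nat_lit 0) (XT.nd (nat_lit 546) (nat_lit 1368) (nat_lit 0) (XT.nd (nat_lit 234) (nat_lit 836) (nat_lit 0) (XT.nd (nat_lit 78) (nat_lit 304) (nat_lit 0) (XT.lf (nat_lit 0) (nat_lit 16846437821) (nat_lit 380) (nat_lit 16343864800) (nat_lit 76) (nat_lit 13859162537) (nat_lit 226) (nat_lit 5) (nat_lit 231) (nat_lit 5) (nat_lit 227) (nat_lit 5) (nat_lit 447) (nat_lit 392) (nat_lit 181)) (XT.nd (nat_lit 78) (nat_lit 0) (nat_lit 0) (XT.lf (nat_lit 0) (nat_lit 12732395261) (nat_lit 304) (nat_lit 15234825926) (nat_lit 380) (nat_lit 19940703428) (nat_lit 222) (nat_lit 5) (nat_lit 226) (nat_lit 5) (nat_lit 227) (nat_lit 5) (nat_lit 448) (nat_lit 392) (nat_lit 180)) (XT.lf (nat_lit 0) (nat_lit 39617486885) (nat_lit 380) (nat_lit 5807515129) (nat_lit 76) (nat_lit 3361260076) (nat_lit 222) (nat_lit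 5) (nat_lit 227) (nat_lit 5) (nat_lit 223) (nat_lit 5) (nat_lit 449) (nat_lit 392) (nat_lit 179)))) (XT.nd (nat_lit 156) (nat_lit 228) (nat_lit 0) (XT.nd (nat_lit 78) (nat_lit 304) (nat_lit 0) (XT.lf (nat_lit 0) (nat_lit 2279419926) (nat_lit 304) (nat_lit 24930866180) (nat_lit 76) (nat_lit 22468387128) (nat_lit 218) (nat_lit 5) (nat_lit 222) (nat_lit 5) (nat_lit 219) (nat_lit 5) (nat_lit 450) (nat_lit 392) (nat_lit 178)) (XT.lf (nat_lit 0) (nat_lit 5760535658) (nat_lit 304) (nat_lit 8238766165) (nat_lit 380) (nat_lit 36592455764) (nat_lit 214) (nat_lit 5) (nat_lit 218) (nat_lit 5) (nat_lit 219) (nat_lit 5) (nat_lit 451) (nat_lit 392) (nat_lit 177))) (XT.nd (nat_lit 78) (nat_lit 228) (nat_lit 0) (XT.lf (nat_lit 0) (nat_lit 26431609857) (nat_lit 380) (nat_lit 13755348008) (nat_lit 76) (nat_lit 11334451715) (nat_lit 214) (nat_lit 5) (nat_lit 219) (nat_lit 5) (nat_lit 215) (nat_lit 5) (nat_lit 452) (nat_lit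 392) (nat_lit 176)) (XT.lf (nat_lit 0) (nat_lit 18529634746) (nat_lit 228) (nat_lit 20964945853) (nat_lit 304) (nat_lit 12976639730) (nat_lit 211) (nat_lit 5) (nat_lit 214) (nat_lit 5) (nat_lit 215) (nat_lit 5) (nat_lit 453) (nat_lit 392) (nat_lit 175))))) (XT.nd (nat_lit 312) (nat_lit 760) (nat_lit 0) (XT.nd (nat_lit 156) (nat_lit 228) (nat_lit 0) (XT.nd (nat_lit 78) (nat_lit 380) (nat_lit 0) (XT.lf (nat_lit 0) (nat_lit 52061993908) (nat_lit 228) (nat_lit 1024379871) (nat_lit 304) (nat_lit 359043622) (nat_lit 211) (nat_lit 5) (nat_lit 214) (nat_lit 5) (nat_lit 215) (nat_lit 5) (nat_lit 454) (nat_lit 392) (nat_lit 174)) (XT.lf (nat_lit 0) (nat_lit 12894429239) (nat_lit 380) (nat_lit 21963403613) (nat_lit 76) (nat_lit 19572244959) (nat_lit 206) (nat_lit 5) (nat_lit 211) (nat_lit 5) (nat_lit 207) (nat_lit 5) (nat_lit 455) (nat_lit 392) (nat_lit 173))) (XT.nd (nat_lit 78) (nat_lit 0) (nat_lit 0) (XT.lf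 (nat_lit 0) (nat_lit 12136662391) (nat_lit 228) (nat_lit 14540628419) (nat_lit 304) (nat_lit 28762710547) (nat_lit 203) (nat_lit 5) (nat_lit 206) (nat_lit 5) (nat_lit 207) (nat_lit 5) (nat_lit 456) (nat_lit 392) (nat_lit 172)) (XT.lf (nat_lit 0) (nat_lit 41157108619) (nat_lit 304) (nat_lit 8830314829) (nat_lit 76) (nat_lit 6484295050) (nat_lit 203) (nat_lit 5) (nat_lit 207) (nat_lit 5) (nat_lit 204) (nat_lit 5) (nat_lit 457) (nat_lit 392) (nat_lit 171)))) (XT.nd (nat_lit 156) (nat_lit 228) (nat_lit 0) (XT.nd (nat_lit 78) (nat_lit 304) (nat_lit 0) (XT.lf (nat_lit 0) (nat_lit 27057899902) (nat_lit 228) (nat_lit 29415640243) (nat_lit 304) (nat_lit 1048780433) (nat_lit 200) (nat_lit 5) (nat_lit 203) (nat_lit 5) (nat_lit 204) (nat_lit 5) (nat_lit 458) (nat_lit 392) (nat_lit 170)) (XT.lf (nat_lit 0) (nat_lit 5575726080) (nat_lit 228) (nat_lit 7944845607) (nat_lit 304) (nat_lit 45075679763) (nat_lit 196) (nat_lit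 5) (nat_lit 199) (nat_lit 5) (nat_lit 200) (nat_lit 5) (nat_lit 459) (nat_lit 392) (nat_lit 169))) (XT.nd (nat_lit 78) (nat_lit 228) (nat_lit 0) (XT.lf (nat_lit 0) (nat_lit 28950988565) (nat_lit 304) (nat_lit 16524295137) (nat_lit 76) (nat_lit 14213453117) (nat_lit 196) (nat_lit 5) (nat_lit 200) (nat_lit 5) (nat_lit 197) (nat_lit 5) (nat_lit 460) (nat_lit 392) (nat_lit 168)) (XT.lf (nat_lit 0) (nat_lit 21402845024) (nat_lit 228) (nat_lit 23724100612) (nat_lit 304) (nat_lit 15678572284) (nat_lit 193) (nat_lit 5) (nat_lit 196) (nat_lit 5) (nat_lit 197) (nat_lit 5) (nat_lit 461) (nat_lit 392) (nat_lit 167)))))) (XT.nd (nat_lit 546) (nat_lit 988) (nat_lit 0) (XT.nd (nat_lit 234) (nat_lit 456) (nat_lit 0) (XT.nd (nat_lit 78) (nat_lit 456) (nat_lit 0) (XT.lf (nat_lit 0) (nat_lit 2399650) (nat_lit 304) (nat_lit 1147273988) (nat_lit 76) (nat_lit 60801174660) (nat_lit 192) (nat_lit 5) (nat_lit 196) (nat_lit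 5) (nat_lit 193) (nat_lit 5) (nat_lit 462) (nat_lit 392) (nat_lit 166)) (XT.nd (nat_lit 78) (nat_lit 228) (nat_lit 0) (XT.lf (nat_lit 0) (nat_lit 16428151313) (nat_lit 304) (nat_lit 24476518959) (nat_lit 76) (nat_lit 22203527082) (nat_lit 189) (nat_lit 5) (nat_lit 193) (nat_lit 5) (nat_lit 190) (nat_lit 5) (nat_lit 463) (nat_lit 392) (nat_lit 165)) (XT.lf (nat_lit 0) (nat_lit 15617970547) (nat_lit 228) (nat_lit 17900214743) (nat_lit 304) (nat_lit 30776936300) (nat_lit 186) (nat_lit 5) (nat_lit 189) (nat_lit 5) (nat_lit 190) (nat_lit 5) (nat_lit 464) (nat_lit 392) (nat_lit 164)))) (XT.nd (nat_lit 156) (nat_lit 228) (nat_lit 0) (XT.nd (nat_lit 78) (nat_lit 228) (nat_lit 0) (XT.lf (nat_lit 0) (nat_lit 51424539507) (nat_lit 304) (nat_lit 8154248866) (nat_lit 76) (nat_lit 5929756603) (nat_lit 186) (nat_lit 5) (nat_lit 190) (nat_lit 5) (nat_lit 187) (nat_lit 5) (nat_lit 465) (nat_lit 392) (nat_lit 163)) (XT.lf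 (nat_lit 0) (nat_lit 3557092875) (nat_lit 228) (nat_lit 32709049512) (nat_lit 76) (nat_lit 30476090065) (nat_lit 183) (nat_lit 5) (nat_lit 186) (nat_lit 5) (nat_lit 184) (nat_lit 5) (nat_lit 466) (nat_lit 392) (nat_lit 162))) (XT.nd (nat_lit 78) (nat_lit 0) (nat_lit 0) (XT.lf (nat_lit 0) (nat_lit 9688912448) (nat_lit 228) (nat_lit 11930092460) (nat_lit 304) (nat_lit 46384502616) (nat_lit 180) (nat_lit 5) (nat_lit 183) (nat_lit 5) (nat_lit 184) (nat_lit 5) (nat_lit 467) (nat_lit 392) (nat_lit 161)) (XT.lf (nat_lit 0) (nat_lit 40680985321) (nat_lit 304) (nat_lit 15395770397) (nat_lit 76) (nat_lit 13212118800) (nat_lit 180) (nat_lit 5) (nat_lit 184) (nat_lit 5) (nat_lit 181) (nat_lit 5) (nat_lit 468) (nat_lit 392) (nat_lit 160))))) (XT.nd (nat_lit 312) (nat_lit 380) (nat_lit 0) (XT.nd (nat_lit 156) (nat_lit 152) (nat_lit 0) (XT.nd (nat_lit 78) (nat_lit 304) (nat_lit 0) (XT.lf (nat_lit 0) (nat_lit 29260730801)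 (nat_lit 152) (nat_lit 31451905381) (nat_lit 228) (nat_lit 9888232008) (nat_lit 178) (nat_lit 5) (nat_lit 180) (nat_lit 5) (nat_lit 181) (nat_lit 5) (nat_lit 469) (nat_lit 392) (nat_lit 159)) (XT.lf (nat_lit 0) (nat_lit 3600643260) (nat_lit 228) (nat_lit 5799121706) (nat_lit 304) (nat_lit 62544046716) (nat_lit 174) (nat_lit 5) (nat_lit 177) (nat_lit 5) (nat_lit 178) (nat_lit 5) (nat_lit 470) (nat_lit 392) (nat_lit 158))) (XT.nd (nat_lit 78) (nat_lit 152) (nat_lit 0) (XT.lf (nat_lit 0) (nat_lit 29685921066) (nat_lit 304) (nat_lit 22880483558) (nat_lit 76) (nat_lit 20739153870) (nat_lit 174) (nat_lit 5) (nat_lit 178) (nat_lit 5) (nat_lit 175) (nat_lit 5) (nat_lit 471) (nat_lit 392) (nat_lit 157)) (XT.lf (nat_lit 0) (nat_lit 24361359593) (nat_lit 152) (nat_lit 26509373354) (nat_lit 228) (nat_lit 23828722630) (nat_lit 172) (nat_lit 5) (nat_lit 174) (nat_lit 5) (nat_lit 175) (nat_lit 5) (nat_lit 472) (nat_lit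 392) (nat_lit 156)))) (XT.nd (nat_lit 156) (nat_lit 152) (nat_lit 0) (XT.nd (nat_lit 78) (nat_lit 228) (nat_lit 0) (XT.lf (nat_lit 0) (nat_lit 72926076378) (nat_lit 228) (nat_lit 2646897105) (nat_lit 76) (nat_lit 555146472) (nat_lit 172) (nat_lit 5) (nat_lit 175) (nat_lit 5) (nat_lit 173) (nat_lit 5) (nat_lit 473) (nat_lit 392) (nat_lit 155)) (XT.lf (nat_lit 0) (nat_lit 18412450515) (nat_lit 228) (nat_lit 30629112354) (nat_lit 76) (nat_lit 28531244848) (nat_lit 169) (nat_lit 5) (nat_lit 172) (nat_lit 5) (nat_lit 170) (nat_lit 5) (nat_lit 474) (nat_lit 392) (nat_lit 154))) (XT.nd (nat_lit 78) (nat_lit 0) (nat_lit 0) (XT.lf (nat_lit 0) (nat_lit 19359418076) (nat_lit 152) (nat_lit 21463224295) (nat_lit 228) (nat_lit 38230894014) (nat_lit 167) (nat_lit 5) (nat_lit 169) (nat_lit 5) (nat_lit 170) (nat_lit 5) (nat_lit 475) (nat_lit 392) (nat_lit 153)) (XT.lf (nat_lit 0) (nat_lit 64282771512) (nat_lit 228)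 (nat_lit 9166357284) (nat_lit 76) (nat_lit 7118229169) (nat_lit 167) (nat_lit 5) (nat_lit 170) (nat_lit 5) (nat_lit 168) (nat_lit 5) (nat_lit 476) (nat_lit 392) (nat_lit 152))))))) (XT.nd (nat_lit 47112) (nat_lit 0) (nat_lit 14136) (XT.nd (nat_lit 546) (nat_lit 228) (nat_lit 0) (XT.nd (nat_lit 234) (nat_lit 532) (nat_lit 0) (XT.nd (nat_lit 78) (nat_lit 152) (nat_lit 0) (XT.lf (nat_lit 0) (nat_lit 6832359777) (nat_lit 228) (nat_lit 38663453693) (nat_lit 76) (nat_lit 36609890815) (nat_lit 164) (nat_lit 5) (nat_lit 167) (nat_lit 5) (nat_lit 165) (nat_lit 5) (nat_lit 477) (nat_lit 392) (nat_lit 151)) (XT.nd (nat_lit 78) (nat_lit 0) (nat_lit 0) (XT.lf (nat_lit 0) (nat_lit 14242823065) (nat_lit 152) (nat_lit 16301662411) (nat_lit 228) (nat_lit 53134009257) (nat_lit 162) (nat_lit 5) (nat_lit 164) (nat_lit 5) (nat_lit 165) (nat_lit 5) (nat_lit 478) (nat_lit 392) (nat_lit 150)) (XT.lf (nat_lit 0) (nat_lit 55493206874)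 (nat_lit 228) (nat_lit 15896675896) (nat_lit 76) (nat_lit 13892829167) (nat_lit 162) (nat_lit 5) (nat_lit 165) (nat_lit 5) (nat_lit 163) (nat_lit 5) (nat_lit 479) (nat_lit 392) (nat_lit 149)))) (XT.nd (nat_lit 156) (nat_lit 152) (nat_lit 0) (XT.nd (nat_lit 78) (nat_lit 228) (nat_lit 0) (XT.lf (nat_lit 0) (nat_lit 39862466152) (nat_lit 152) (nat_lit 41871141597) (nat_lit 228) (nat_lit 5185151372) (nat_lit 160) (nat_lit 5) (nat_lit 162) (nat_lit 5) (nat_lit 163) (nat_lit 5) (nat_lit 480) (nat_lit 392) (nat_lit 148)) (XT.lf (nat_lit 0) (nat_lit 8998940415) (nat_lit 152) (nat_lit 11012303934) (nat_lit 228) (nat_lit 68579412827) (nat_lit 157) (nat_lit 5) (nat_lit 159) (nat_lit 5) (nat_lit 160) (nat_lit 5) (nat_lit 481) (nat_lit 392) (nat_lit 147))) (XT.nd (nat_lit 78) (nat_lit 152) (nat_lit 0) (XT.lf (nat_lit 0) (nat_lit 46537513649) (nat_lit 228) (nat_lit 22856226629) (nat_lit 76) (nat_lit 20897085806)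 (nat_lit 157) (nat_lit 5) (nat_lit 160) (nat_lit 5) (nat_lit 158) (nat_lit 5) (nat_lit 482) (nat_lit 392) (nat_lit 146)) (XT.lf (nat_lit 0) (nat_lit 36175798607) (nat_lit 152) (nat_lit 38139229682) (nat_lit 228) (nat_lit 17713308052) (nat_lit 155) (nat_lit 5) (nat_lit 157) (nat_lit 5) (nat_lit 158) (nat_lit 5) (nat_lit 483) (nat_lit 392) (nat_lit 145))))) (XT.nd (nat_lit 46254) (nat_lit 0) (nat_lit 16948) (XT.nd (nat_lit 46098) (nat_lit 0) (nat_lit 16872) (XT.nd (nat_lit 46020) (nat_lit 0) (nat_lit 16872) (XT.lf (nat_lit 0) (nat_lit 3614544423) (nat_lit 152) (nat_lit 5582140791) (nat_lit 228) (nat_lit 84610664674) (nat_lit 152) (nat_lit 5) (nat_lit 154) (nat_lit 5) (nat_lit 155) (nat_lit 5) (nat_lit 484) (nat_lit 392) (nat_lit 144)) (XT.lf (nat_lit 0) (nat_lit 4190698238) (nat_lit 1292) (nat_lit 2794075837) (nat_lit 1292) (nat_lit 2794075837) (nat_lit 374) (nat_lit 3) (nat_lit 391) (nat_lit 3) (nat_lit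 391) (nat_lit 5) (nat_lit 393) (nat_lit 393) (nat_lit 234))) (XT.nd (nat_lit 78) (nat_lit 0) (nat_lit 76) (XT.lf (nat_lit 76) (nat_lit 4274101350) (nat_lit 0) (nat_lit 4446739144) (nat_lit 1292) (nat_lit 11123813137) (nat_lit 375) (nat_lit 5) (nat_lit 374) (nat_lit 3) (nat_lit 391) (nat_lit 5) (nat_lit 394) (nat_lit 393) (nat_lit 233)) (XT.lf (nat_lit 0) (nat_lit 9172255861) (nat_lit 1216) (nat_lit 5647621868) (nat_lit 1292) (nat_lit 5317284680) (nat_lit 375) (nat_lit 5) (nat_lit 391) (nat_lit 5) (nat_lit 392) (nat_lit 5) (nat_lit 395) (nat_lit 393) (nat_lit 232)))) (XT.nd (nat_lit 156) (nat_lit 0) (nat_lit 76) (XT.nd (nat_lit 78) (nat_lit 0) (nat_lit 76) (XT.lf (nat_lit 76) (nat_lit 4615368571) (nat_lit 0) (nat_lit 5103693796) (nat_lit 1292) (nat_lit 10716928624) (nat_lit 376) (nat_lit 5) (nat_lit 375) (nat_lit 5) (nat_lit 392) (nat_lit 5) (nat_lit 396) (nat_lit 393) (nat_lit 231)) (XT.lf (nat_lit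 0) (nat_lit 10380645735) (nat_lit 1216) (nat_lit 5491604277) (nat_lit 1292) (nat_lit 4868583238) (nat_lit 376) (nat_lit 5) (nat_lit 392) (nat_lit 5) (nat_lit 393) (nat_lit 5) (nat_lit 397) (nat_lit 393) (nat_lit 230))) (XT.nd (nat_lit 78) (nat_lit 0) (nat_lit 76) (XT.lf (nat_lit 76) (nat_lit 5194380352) (nat_lit 0) (nat_lit 5961982826) (nat_lit 1292) (nat_lit 9895629002) (nat_lit 377) (nat_lit 5) (nat_lit 376) (nat_lit 5) (nat_lit 393) (nat_lit 5) (nat_lit 398) (nat_lit 393) (nat_lit 229)) (XT.lf (nat_lit 0) (nat_lit 12046157070) (nat_lit 1216) (nat_lit 5102565824) (nat_lit 1292) (nat_lit 4221038835) (nat_lit 377) (nat_lit 5) (nat_lit 393) (nat_lit 5) (nat_lit 394) (nat_lit 5) (nat_lit 399) (nat_lit 393) (nat_lit 228)))))) (XT.nd (nat_lit 624) (nat_lit 1900) (nat_lit 0) (XT.nd (nat_lit 312) (nat_lit 1064) (nat_lit 0) (XT.nd (nat_lit 156) (nat_lit 0) (nat_lit 76) (XT.nd (nat_lit 78) (nat_lit 0) (nat_lit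 76) (XT.lf (nat_lit 76) (nat_lit 6029981974) (nat_lit 0) (nat_lit 7043821458) (nat_lit 1292) (nat_lit 8619926174) (nat_lit 378) (nat_lit 5) (nat_lit 377) (nat_lit 5) (nat_lit 394) (nat_lit 5) (nat_lit 400) (nat_lit 393) (nat_lit 227)) (XT.lf (nat_lit 0) (nat_lit 14210972166) (nat_lit 1216) (nat_lit 4461555478) (nat_lit 1292) (nat_lit 3352528085) (nat_lit 378) (nat_lit 5) (nat_lit 394) (nat_lit 5) (nat_lit 395) (nat_lit 5) (nat_lit 401) (nat_lit 393) (nat_lit 226))) (XT.nd (nat_lit 78) (nat_lit 0) (nat_lit 76) (XT.lf (nat_lit 76) (nat_lit 7142513154) (nat_lit 0) (nat_lit 8372625223) (nat_lit 1292) (nat_lit 6847196788) (nat_lit 379) (nat_lit 5) (nat_lit 378) (nat_lit 5) (nat_lit 395) (nat_lit 5) (nat_lit 402) (nat_lit 393) (nat_lit 225)) (XT.lf (nat_lit 0) (nat_lit 16920048146) (nat_lit 1216) (nat_lit 3548126880) (nat_lit 1292) (nat_lit 2239709398) (nat_lit 379) (nat_lit 5) (nat_lit 395) (nat_lit 5) (nat_lit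 396) (nat_lit 5) (nat_lit 403) (nat_lit 393) (nat_lit 224)))) (XT.nd (nat_lit 156) (nat_lit 1216) (nat_lit 0) (XT.nd (nat_lit 78) (nat_lit 0) (nat_lit 76) (XT.lf (nat_lit 76) (nat_lit 8553890157) (nat_lit 0) (nat_lit 9973117270) (nat_lit 1292) (nat_lit 4531995669) (nat_lit 380) (nat_lit 5) (nat_lit 379) (nat_lit 5) (nat_lit 396) (nat_lit 5) (nat_lit 404) (nat_lit 393) (nat_lit 223)) (XT.lf (nat_lit 0) (nat_lit 20221310677) (nat_lit 1216) (nat_lit 2340254851) (nat_lit 1292) (nat_lit 857915745) (nat_lit 380) (nat_lit 5) (nat_lit 396) (nat_lit 5) (nat_lit 397) (nat_lit 5) (nat_lit 405) (nat_lit 393) (nat_lit 222))) (XT.nd (nat_lit 78) (nat_lit 1292) (nat_lit 0) (XT.lf (nat_lit 76) (nat_lit 10287694320) (nat_lit 0) (nat_lit 11871439935) (nat_lit 1292) (nat_lit 1625858802) (nat_lit 381) (nat_lit 5) (nat_lit 380) (nat_lit 5) (nat_lit 397) (nat_lit 5) (nat_lit 406) (nat_lit 393) (nat_lit 221)) (XT.lf (nat_lit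 0) (nat_lit 12728012) (nat_lit 1292) (nat_lit 822399273) (nat_lit 1368) (nat_lit 23325775314) (nat_lit 363) (nat_lit 5) (nat_lit 380) (nat_lit 5) (nat_lit 381) (nat_lit 5) (nat_lit 407) (nat_lit 393) (nat_lit 220))))) (XT.nd (nat_lit 312) (nat_lit 1216) (nat_lit 0) (XT.nd (nat_lit 156) (nat_lit 760) (nat_lit 0) (XT.nd (nat_lit 78) (nat_lit 0) (nat_lit 0) (XT.lf (nat_lit 0) (nat_lit 1885382097) (nat_lit 1292) (nat_lit 12190850275) (nat_lit 1368) (nat_lit 10464846491) (nat_lit 364) (nat_lit 5) (nat_lit 381) (nat_lit 5) (nat_lit 382) (nat_lit 5) (nat_lit 408) (nat_lit 393) (nat_lit 219)) (XT.lf (nat_lit 76) (nat_lit 1009922440) (nat_lit 0) (nat_lit 2826024595) (nat_lit 1368) (nat_lit 21096061443) (nat_lit 365) (nat_lit 5) (nat_lit 364) (nat_lit 5) (nat_lit 382) (nat_lit 5) (nat_lit 409) (nat_lit 393) (nat_lit 218))) (XT.nd (nat_lit 78) (nat_lit 836) (nat_lit 0) (XT.lf (nat_lit 0) (nat_lit 6049045933) (nat_lit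 1292) (nat_lit 10563815935) (nat_lit 76) (nat_lit 8715683604) (nat_lit 365) (nat_lit 5) (nat_lit 382) (nat_lit 5) (nat_lit 366) (nat_lit 5) (nat_lit 410) (nat_lit 393) (nat_lit 217)) (XT.lf (nat_lit 0) (nat_lit 3226274857) (nat_lit 836) (nat_lit 5156859960) (nat_lit 912) (nat_lit 17352205848) (nat_lit 354) (nat_lit 5) (nat_lit 365) (nat_lit 5) (nat_lit 366) (nat_lit 5) (nat_lit 411) (nat_lit 393) (nat_lit 216)))) (XT.nd (nat_lit 156) (nat_lit 608) (nat_lit 0) (XT.nd (nat_lit 78) (nat_lit 608) (nat_lit 0) (XT.lf (nat_lit 0) (nat_lit 10954530022) (nat_lit 912) (nat_lit 8573432648) (nat_lit 76) (nat_lit 6621358533) (nat_lit 354) (nat_lit 5) (nat_lit 366) (nat_lit 5) (nat_lit 355) (nat_lit 5) (nat_lit 412) (nat_lit 393) (nat_lit 215)) (XT.lf (nat_lit 0) (nat_lit 5839274881) (nat_lit 608) (nat_lit 7866804962) (nat_lit 684) (nat_lit 12866550931) (nat_lit 346) (nat_lit 5) (nat_lit 354) (nat_lit 5) (nat_lit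 355) (nat_lit 5) (nat_lit 413) (nat_lit 393) (nat_lit 214))) (XT.nd (nat_lit 78) (nat_lit 608) (nat_lit 0) (XT.lf (nat_lit 0) (nat_lit 16663355780) (nat_lit 684) (nat_lit 6190594379) (nat_lit 76) (nat_lit 4150994086) (nat_lit 346) (nat_lit 5) (nat_lit 355) (nat_lit 5) (nat_lit 347) (nat_lit 5) (nat_lit 414) (nat_lit 393) (nat_lit 213)) (XT.lf (nat_lit 0) (nat_lit 8879988025) (nat_lit 608) (nat_lit 10988641216) (nat_lit 684) (nat_lit 7576819501) (nat_lit 338) (nat_lit 5) (nat_lit 346) (nat_lit 5) (nat_lit 347) (nat_lit 5) (nat_lit 415) (nat_lit 393) (nat_lit 212))))))))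
noncomputable def xc207 : XT := (XT.nd (nat_lit 2418) (nat_lit 4864) (nat_lit 0) (XT.nd (nat_lit 1170) (nat_lit 3876) (nat_lit 0) (XT.nd (nat_lit 546) (nat_lit 1976) (nat_lit 0) (XT.nd (nat_lit 234) (nat_lit 1672) (nat_lit 0) (XT.nd (nat_lit 78) (nat_lit 608) (nat_lit 0) (XT.lf (nat_lit 0) (nat_lit 23241151358) (nat_lit 684) (nat_lit 3384104695) (nat_lit 76) (nat_lit 1271779608) (nat_lit 338) (nat_lit 5) (nat_lit 347) (nat_lit 5) (nat_lit 339) (nat_lit 5) (nat_lit 416) (nat_lit 393) (nat_lit 211)) (XT.nd (nat_lit 78) (nat_lit 76) (nat_lit 0) (XT.lf (nat_lit 0) (nat_lit 12381686413) (nat_lit 532) (nat_lit 14557204684) (nat_lit 608) (nat_lit 1416557832) (nat_lit 331) (nat_lit 5) (nat_lit 338) (nat_lit 5) (nat_lit 339) (nat_lit 5) (nat_lit 417) (nat_lit 393) (nat_lit 210)) (XT.lf (nat_lit 0) (nat_lit 1913254671) (nat_lit 608) (nat_lit 159416849) (nat_lit 76) (nat_lit 26753466262) (nat_lit 330) (nat_lit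 5) (nat_lit 338) (nat_lit 5) (nat_lit 331) (nat_lit 5) (nat_lit 418) (nat_lit 393) (nat_lit 209)))) (XT.nd (nat_lit 156) (nat_lit 532) (nat_lit 0) (XT.nd (nat_lit 78) (nat_lit 532) (nat_lit 0) (XT.lf (nat_lit 0) (nat_lit 5574203186) (nat_lit 684) (nat_lit 12979040989) (nat_lit 76) (nat_lit 10749490975) (nat_lit 322) (nat_lit 5) (nat_lit 331) (nat_lit 5) (nat_lit 323) (nat_lit 5) (nat_lit 419) (nat_lit 393) (nat_lit 208)) (XT.lf (nat_lit 0) (nat_lit 3556025790) (nat_lit 532) (nat_lit 5841722130) (nat_lit 608) (nat_lit 20394299486) (nat_lit 315) (nat_lit 5) (nat_lit 322) (nat_lit 5) (nat_lit 323) (nat_lit 5) (nat_lit 420) (nat_lit 393) (nat_lit 207))) (XT.nd (nat_lit 78) (nat_lit 532) (nat_lit 0) (XT.lf (nat_lit 0) (nat_lit 13534564574) (nat_lit 608) (nat_lit 9513781723) (nat_lit 76) (nat_lit 7241735767) (nat_lit 315) (nat_lit 5) (nat_lit 323) (nat_lit 5) (nat_lit 316) (nat_lit 5) (nat_lit 421) (nat_lit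 393) (nat_lit 206)) (XT.lf (nat_lit 0) (nat_lit 7800743378) (nat_lit 532) (nat_lit 10124171176) (nat_lit 608) (nat_lit 12874260341) (nat_lit 308) (nat_lit 5) (nat_lit 315) (nat_lit 5) (nat_lit 316) (nat_lit 5) (nat_lit 422) (nat_lit 393) (nat_lit 205))))) (XT.nd (nat_lit 312) (nat_lit 912) (nat_lit 0) (XT.nd (nat_lit 156) (nat_lit 608) (nat_lit 0) (XT.nd (nat_lit 78) (nat_lit 456) (nat_lit 0) (XT.lf (nat_lit 0) (nat_lit 22571302932) (nat_lit 608) (nat_lit 5526347600) (nat_lit 76) (nat_lit 3222160142) (nat_lit 308) (nat_lit 5) (nat_lit 316) (nat_lit 5) (nat_lit 309) (nat_lit 5) (nat_lit 423) (nat_lit 393) (nat_lit 204)) (XT.lf (nat_lit 0) (nat_lit 12612054436) (nat_lit 456) (nat_lit 14963263557) (nat_lit 532) (nat_lit 4274200482) (nat_lit 302) (nat_lit 5) (nat_lit 308) (nat_lit 5) (nat_lit 309) (nat_lit 5) (nat_lit 424) (nat_lit 393) (nat_lit 203))) (XT.nd (nat_lit 78) (nat_lit 532) (nat_lit 0) (XT.lf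 (nat_lit 0) (nat_lit 380958157) (nat_lit 532) (nat_lit 993055696) (nat_lit 76) (nat_lit 31019412855) (nat_lit 301) (nat_lit 5) (nat_lit 308) (nat_lit 5) (nat_lit 302) (nat_lit 5) (nat_lit 425) (nat_lit 393) (nat_lit 202)) (XT.lf (nat_lit 0) (nat_lit 5384269258) (nat_lit 608) (nat_lit 14964681216) (nat_lit 76) (nat_lit 12594600003) (nat_lit 294) (nat_lit 5) (nat_lit 302) (nat_lit 5) (nat_lit 295) (nat_lit 5) (nat_lit 426) (nat_lit 393) (nat_lit 201)))) (XT.nd (nat_lit 156) (nat_lit 456) (nat_lit 0) (XT.nd (nat_lit 78) (nat_lit 0) (nat_lit 0) (XT.lf (nat_lit 0) (nat_lit 4092914185) (nat_lit 456) (nat_lit 6504773538) (nat_lit 532) (nat_lit 22910689994) (nat_lit 288) (nat_lit 5) (nat_lit 294) (nat_lit 5) (nat_lit 295) (nat_lit 5) (nat_lit 427) (nat_lit 393) (nat_lit 200)) (XT.lf (nat_lit 0) (nat_lit 16191643393) (nat_lit 532) (nat_lit 10136386634) (nat_lit 76) (nat_lit 7755395708) (nat_lit 288) (nat_lit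 5) (nat_lit 295) (nat_lit 5) (nat_lit 289) (nat_lit 5) (nat_lit 428) (nat_lit 393) (nat_lit 199))) (XT.nd (nat_lit 78) (nat_lit 0) (nat_lit 0) (XT.lf (nat_lit 0) (nat_lit 9845152239) (nat_lit 456) (nat_lit 12264376079) (nat_lit 532) (nat_lit 12561513558) (nat_lit 282) (nat_lit 5) (nat_lit 288) (nat_lit 5) (nat_lit 289) (nat_lit 5) (nat_lit 429) (nat_lit 393) (nat_lit 198)) (XT.lf (nat_lit 0) (nat_lit 28326785649) (nat_lit 532) (nat_lit 4665322488) (nat_lit 76) (nat_lit 2280523288) (nat_lit 282) (nat_lit 5) (nat_lit 289) (nat_lit 5) (nat_lit 283) (nat_lit 5) (nat_lit 430) (nat_lit 393) (nat_lit 197)))))) (XT.nd (nat_lit 624) (nat_lit 1748) (nat_lit 0) (XT.nd (nat_lit 312) (nat_lit 836) (nat_lit 0) (XT.nd (nat_lit 156) (nat_lit 380) (nat_lit 0) (XT.nd (nat_lit 78) (nat_lit 532) (nat_lit 0) (XT.lf (nat_lit 0) (nat_lit 16293009126) (nat_lit 380) (nat_lit 18712796860) (nat_lit 456) (nat_lit 878205317) (nat_lit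 277) (nat_lit 5) (nat_lit 282) (nat_lit 5) (nat_lit 283) (nat_lit 5) (nat_lit 431) (nat_lit 393) (nat_lit 196)) (XT.lf (nat_lit 0) (nat_lit 1435743390) (nat_lit 456) (nat_lit 3889500575) (nat_lit 532) (nat_lit 31185181710) (nat_lit 270) (nat_lit 5) (nat_lit 276) (nat_lit 5) (nat_lit 277) (nat_lit 5) (nat_lit 432) (nat_lit 393) (nat_lit 195))) (XT.nd (nat_lit 78) (nat_lit 380) (nat_lit 0) (XT.lf (nat_lit 0) (nat_lit 12003569275) (nat_lit 532) (nat_lit 13778458819) (nat_lit 76) (nat_lit 11364150825) (nat_lit 270) (nat_lit 5) (nat_lit 277) (nat_lit 5) (nat_lit 271) (nat_lit 5) (nat_lit 433) (nat_lit 393) (nat_lit 194)) (XT.lf (nat_lit 0) (nat_lit 8276125798) (nat_lit 380) (nat_lit 10721520651) (nat_lit 456) (nat_lit 18799896248) (nat_lit 265) (nat_lit 5) (nat_lit 270) (nat_lit 5) (nat_lit 271) (nat_lit 5) (nat_lit 434) (nat_lit 393) (nat_lit 193)))) (XT.nd (nat_lit 156) (nat_lit 456) (nat_lit 0) (XT.nd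 (nat_lit 78) (nat_lit 380) (nat_lit 0) (XT.lf (nat_lit 0) (nat_lit 26385483934) (nat_lit 456) (nat_lit 7240458709) (nat_lit 76) (nat_lit 4836986603) (nat_lit 265) (nat_lit 5) (nat_lit 271) (nat_lit 5) (nat_lit 266) (nat_lit 5) (nat_lit 435) (nat_lit 393) (nat_lit 192)) (XT.lf (nat_lit 0) (nat_lit 15909786614) (nat_lit 380) (nat_lit 18341707601) (nat_lit 456) (nat_lit 4889087048) (nat_lit 260) (nat_lit 5) (nat_lit 265) (nat_lit 5) (nat_lit 266) (nat_lit 5) (nat_lit 436) (nat_lit 393) (nat_lit 191))) (XT.nd (nat_lit 78) (nat_lit 0) (nat_lit 0) (XT.lf (nat_lit 0) (nat_lit 38992366) (nat_lit 380) (nat_lit 2498533624) (nat_lit 456) (nat_lit 37298161224) (nat_lit 254) (nat_lit 5) (nat_lit 259) (nat_lit 5) (nat_lit 260) (nat_lit 5) (nat_lit 437) (nat_lit 393) (nat_lit 190)) (XT.lf (nat_lit 0) (nat_lit 10455923313) (nat_lit 456) (nat_lit 16248596083) (nat_lit 76) (nat_lit 13834657194) (nat_lit 254) (nat_lit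 5) (nat_lit 260) (nat_lit 5) (nat_lit 255) (nat_lit 5) (nat_lit 438) (nat_lit 393) (nat_lit 189))))) (XT.nd (nat_lit 312) (nat_lit 608) (nat_lit 0) (XT.nd (nat_lit 156) (nat_lit 760) (nat_lit 0) (XT.nd (nat_lit 78) (nat_lit 0) (nat_lit 0) (XT.lf (nat_lit 0) (nat_lit 8136589919) (nat_lit 380) (nat_lit 10575805269) (nat_lit 456) (nat_lit 22548359780) (nat_lit 249) (nat_lit 5) (nat_lit 254) (nat_lit 5) (nat_lit 255) (nat_lit 5) (nat_lit 439) (nat_lit 393) (nat_lit 188)) (XT.lf (nat_lit 0) (nat_lit 27437893814) (nat_lit 456) (nat_lit 8475721319) (nat_lit 76) (nat_lit 6083725586) (nat_lit 249) (nat_lit 5) (nat_lit 255) (nat_lit 5) (nat_lit 250) (nat_lit 5) (nat_lit 440) (nat_lit 393) (nat_lit 187))) (XT.nd (nat_lit 78) (nat_lit 456) (nat_lit 0) (XT.lf (nat_lit 0) (nat_lit 17138578716) (nat_lit 304) (nat_lit 19553705991) (nat_lit 380) (nat_lit 6055725516) (nat_lit 245) (nat_lit 5) (nat_lit 249) (nat_lit 5)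 (nat_lit 250) (nat_lit 5) (nat_lit 441) (nat_lit 393) (nat_lit 186)) (XT.lf (nat_lit 0) (nat_lit 149163951) (nat_lit 380) (nat_lit 2586749035) (nat_lit 456) (nat_lit 40781940724) (nat_lit 239) (nat_lit 5) (nat_lit 244) (nat_lit 5) (nat_lit 245) (nat_lit 5) (nat_lit 442) (nat_lit 393) (nat_lit 185)))) (XT.nd (nat_lit 156) (nat_lit 304) (nat_lit 0) (XT.nd (nat_lit 78) (nat_lit 304) (nat_lit 0) (XT.lf (nat_lit 0) (nat_lit 12071585622) (nat_lit 456) (nat_lit 17306552138) (nat_lit 76) (nat_lit 14918796039) (nat_lit 239) (nat_lit 5) (nat_lit 245) (nat_lit 5) (nat_lit 240) (nat_lit 5) (nat_lit 443) (nat_lit 393) (nat_lit 184)) (XT.lf (nat_lit 0) (nat_lit 9697814500) (nat_lit 304) (nat_lit 12106122674) (nat_lit 380) (nat_lit 23291950855) (nat_lit 235) (nat_lit 5) (nat_lit 239) (nat_lit 5) (nat_lit 240) (nat_lit 5) (nat_lit 444) (nat_lit 393) (nat_lit 183))) (XT.nd (nat_lit 78) (nat_lit 304) (nat_lit 0) (XT.lf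 (nat_lit 0) (nat_lit 32057190176) (nat_lit 380) (nat_lit 8106144180) (nat_lit 76) (nat_lit 5748608602) (nat_lit 235) (nat_lit 5) (nat_lit 240) (nat_lit 5) (nat_lit 236) (nat_lit 5) (nat_lit 445) (nat_lit 393) (nat_lit 182)) (XT.lf (nat_lit 0) (nat_lit 20277170062) (nat_lit 304) (nat_lit 22653513702) (nat_lit 380) (nat_lit 3812416481) (nat_lit 231) (nat_lit 5) (nat_lit 235) (nat_lit 5) (nat_lit 236) (nat_lit 5) (nat_lit 446) (nat_lit 393) (nat_lit 181))))))) (XT.nd (nat_lit 1170) (nat_lit 2204) (nat_lit 0) (XT.nd (nat_lit 546) (nat_lit 1368) (nat_lit 0) (XT.nd (nat_lit 234) (nat_lit 608) (nat_lit 0) (XT.nd (nat_lit 78) (nat_lit 304) (nat_lit 0) (XT.lf (nat_lit 0) (nat_lit 2054715811) (nat_lit 304) (nat_lit 4449319704) (nat_lit 380) (nat_lit 41090264503) (nat_lit 226) (nat_lit 5) (nat_lit 230) (nat_lit 5) (nat_lit 231) (nat_lit 5) (nat_lit 447) (nat_lit 393) (nat_lit 180)) (XT.nd (nat_lit 78) (nat_lit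 304) (nat_lit 0) (XT.lf (nat_lit 0) (nat_lit 17458621230) (nat_lit 380) (nat_lit 16670597182) (nat_lit 76) (nat_lit 14328526992) (nat_lit 226) (nat_lit 5) (nat_lit 231) (nat_lit 5) (nat_lit 227) (nat_lit 5) (nat_lit 448) (nat_lit 393) (nat_lit 179)) (XT.lf (nat_lit 0) (nat_lit 13276346921) (nat_lit 304) (nat_lit 15635127829) (nat_lit 380) (nat_lit 20430530495) (nat_lit 222) (nat_lit 5) (nat_lit 226) (nat_lit 5) (nat_lit 227) (nat_lit 5) (nat_lit 449) (nat_lit 393) (nat_lit 178)))) (XT.nd (nat_lit 156) (nat_lit 304) (nat_lit 0) (XT.nd (nat_lit 78) (nat_lit 304) (nat_lit 0) (XT.lf (nat_lit 0) (nat_lit 40908712826) (nat_lit 380) (nat_lit 5821943046) (nat_lit 76) (nat_lit 3516113040) (nat_lit 222) (nat_lit 5) (nat_lit 227) (nat_lit 5) (nat_lit 223) (nat_lit 5) (nat_lit 450) (nat_lit 393) (nat_lit 177)) (XT.lf (nat_lit 0) (nat_lit 2450035857) (nat_lit 304) (nat_lit 25518526627) (nat_lit 76) (nat_lit 23197403946)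 (nat_lit 218) (nat_lit 5) (nat_lit 222) (nat_lit 5) (nat_lit 219) (nat_lit 5) (nat_lit 451) (nat_lit 393) (nat_lit 176))) (XT.nd (nat_lit 78) (nat_lit 0) (nat_lit 0) (XT.lf (nat_lit 0) (nat_lit 6092046035) (nat_lit 304) (nat_lit 8428015973) (nat_lit 380) (nat_lit 37586424872) (nat_lit 214) (nat_lit 5) (nat_lit 218) (nat_lit 5) (nat_lit 219) (nat_lit 5) (nat_lit 452) (nat_lit 393) (nat_lit 175)) (XT.lf (nat_lit 0) (nat_lit 27322944393) (nat_lit 380) (nat_lit 14011541415) (nat_lit 76) (nat_lit 11729614473) (nat_lit 214) (nat_lit 5) (nat_lit 219) (nat_lit 5) (nat_lit 215) (nat_lit 5) (nat_lit 453) (nat_lit 393) (nat_lit 174))))) (XT.nd (nat_lit 312) (nat_lit 532) (nat_lit 0) (XT.nd (nat_lit 156) (nat_lit 608) (nat_lit 0) (XT.nd (nat_lit 78) (nat_lit 0) (nat_lit 0) (XT.lf (nat_lit 0) (nat_lit 19240456832) (nat_lit 228) (nat_lit 21535971118) (nat_lit 304) (nat_lit 13266018692) (nat_lit 211) (nat_lit 5) (nat_lit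 214) (nat_lit 5) (nat_lit 215) (nat_lit 5) (nat_lit 454) (nat_lit 393) (nat_lit 173)) (XT.lf (nat_lit 0) (nat_lit 53774274155) (nat_lit 228) (nat_lit 998875237) (nat_lit 304) (nat_lit 272804999) (nat_lit 211) (nat_lit 5) (nat_lit 214) (nat_lit 5) (nat_lit 215) (nat_lit 5) (nat_lit 455) (nat_lit 393) (nat_lit 172))) (XT.nd (nat_lit 78) (nat_lit 228) (nat_lit 0) (XT.lf (nat_lit 0) (nat_lit 13375606564) (nat_lit 380) (nat_lit 22469219806) (nat_lit 76) (nat_lit 20215323441) (nat_lit 206) (nat_lit 5) (nat_lit 211) (nat_lit 5) (nat_lit 207) (nat_lit 5) (nat_lit 456) (nat_lit 393) (nat_lit 171)) (XT.lf (nat_lit 0) (nat_lit 12652347335) (nat_lit 228) (nat_lit 14918315878) (nat_lit 304) (nat_lit 29529746574) (nat_lit 203) (nat_lit 5) (nat_lit 206) (nat_lit 5) (nat_lit 207) (nat_lit 5) (nat_lit 457) (nat_lit 393) (nat_lit 170)))) (XT.nd (nat_lit 156) (nat_lit 304) (nat_lit 0) (XT.nd (nat_lit 78) (nat_lit 228)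 (nat_lit 0) (XT.lf (nat_lit 0) (nat_lit 42482711508) (nat_lit 304) (nat_lit 8945890251) (nat_lit 76) (nat_lit 6734541605) (nat_lit 203) (nat_lit 5) (nat_lit 207) (nat_lit 5) (nat_lit 204) (nat_lit 5) (nat_lit 458) (nat_lit 393) (nat_lit 169)) (XT.lf (nat_lit 0) (nat_lit 28017506863) (nat_lit 228) (nat_lit 30239903262) (nat_lit 304) (nat_lit 987890156) (nat_lit 200) (nat_lit 5) (nat_lit 203) (nat_lit 5) (nat_lit 204) (nat_lit 5) (nat_lit 459) (nat_lit 393) (nat_lit 168))) (XT.nd (nat_lit 78) (nat_lit 0) (nat_lit 0) (XT.lf (nat_lit 0) (nat_lit 5891202605) (nat_lit 228) (nat_lit 8124324979) (nat_lit 304) (nat_lit 46335931246) (nat_lit 196) (nat_lit 5) (nat_lit 199) (nat_lit 5) (nat_lit 200) (nat_lit 5) (nat_lit 460) (nat_lit 393) (nat_lit 167)) (XT.lf (nat_lit 0) (nat_lit 29906804245) (nat_lit 304) (nat_lit 16874083167) (nat_lit 76) (nat_lit 14695892932) (nat_lit 196) (nat_lit 5) (nat_lit 200) (nat_lit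 5) (nat_lit 197) (nat_lit 5) (nat_lit 461) (nat_lit 393) (nat_lit 166)))))) (XT.nd (nat_lit 624) (nat_lit 988) (nat_lit 0) (XT.nd (nat_lit 312) (nat_lit 456) (nat_lit 0) (XT.nd (nat_lit 156) (nat_lit 456) (nat_lit 0) (XT.nd (nat_lit 78) (nat_lit 76) (nat_lit 0) (XT.lf (nat_lit 0) (nat_lit 22189440407) (nat_lit 228) (nat_lit 24377446428) (nat_lit 304) (nat_lit 16060212637) (nat_lit 193) (nat_lit 5) (nat_lit 196) (nat_lit 5) (nat_lit 197) (nat_lit 5) (nat_lit 462) (nat_lit 393) (nat_lit 165)) (XT.lf (nat_lit 0) (nat_lit 86923708) (nat_lit 304) (nat_lit 1039710443) (nat_lit 76) (nat_lit 62680206033) (nat_lit 192) (nat_lit 5) (nat_lit 196) (nat_lit 5) (nat_lit 193) (nat_lit 5) (nat_lit 463) (nat_lit 393) (nat_lit 164))) (XT.nd (nat_lit 78) (nat_lit 228) (nat_lit 0) (XT.lf (nat_lit 0) (nat_lit 17004889871) (nat_lit 304) (nat_lit 25068274714) (nat_lit 76) (nat_lit 22925761870) (nat_lit 189) (nat_lit 5) (nat_lit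 193) (nat_lit 5) (nat_lit 190) (nat_lit 5) (nat_lit 464) (nat_lit 393) (nat_lit 163)) (XT.lf (nat_lit 0) (nat_lit 16227652028) (nat_lit 228) (nat_lit 18378886071) (nat_lit 304) (nat_lit 31614952921) (nat_lit 186) (nat_lit 5) (nat_lit 189) (nat_lit 5) (nat_lit 190) (nat_lit 5) (nat_lit 465) (nat_lit 393) (nat_lit 162)))) (XT.nd (nat_lit 156) (nat_lit 228) (nat_lit 0) (XT.nd (nat_lit 78) (nat_lit 228) (nat_lit 0) (XT.lf (nat_lit 0) (nat_lit 53048215501) (nat_lit 304) (nat_lit 8259977469) (nat_lit 76) (nat_lit 6163180162) (nat_lit 186) (nat_lit 5) (nat_lit 190) (nat_lit 5) (nat_lit 187) (nat_lit 5) (nat_lit 466) (nat_lit 393) (nat_lit 161)) (XT.lf (nat_lit 0) (nat_lit 3744501224) (nat_lit 228) (nat_lit 33551177887) (nat_lit 76) (nat_lit 31446399448) (nat_lit 183) (nat_lit 5) (nat_lit 186) (nat_lit 5) (nat_lit 184) (nat_lit 5) (nat_lit 467) (nat_lit 393) (nat_lit 160))) (XT.nd (nat_lit 78) (nat_lit 0) (nat_lit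 0) (XT.lf (nat_lit 0) (nat_lit 10117358783) (nat_lit 228) (nat_lit 12229885894) (nat_lit 304) (nat_lit 47693977984) (nat_lit 180) (nat_lit 5) (nat_lit 183) (nat_lit 5) (nat_lit 184) (nat_lit 5) (nat_lit 468) (nat_lit 393) (nat_lit 159)) (XT.lf (nat_lit 0) (nat_lit 41979306342) (nat_lit 304) (nat_lit 15722099365) (nat_lit 76) (nat_lit 13663798303) (nat_lit 180) (nat_lit 5) (nat_lit 184) (nat_lit 5) (nat_lit 181) (nat_lit 5) (nat_lit 469) (nat_lit 393) (nat_lit 158))))) (XT.nd (nat_lit 312) (nat_lit 380) (nat_lit 0) (XT.nd (nat_lit 156) (nat_lit 152) (nat_lit 0) (XT.nd (nat_lit 78) (nat_lit 304) (nat_lit 0) (XT.lf (nat_lit 0) (nat_lit 30272768004) (nat_lit 152) (nat_lit 32338160200) (nat_lit 228) (nat_lit 10105658644) (nat_lit 178) (nat_lit 5) (nat_lit 180) (nat_lit 5) (nat_lit 181) (nat_lit 5) (nat_lit 470) (nat_lit 393) (nat_lit 157)) (XT.lf (nat_lit 0) (nat_lit 3843092719) (nat_lit 228) (nat_lit 5915369509)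 (nat_lit 304) (nat_lit 64341362675) (nat_lit 174) (nat_lit 5) (nat_lit 177) (nat_lit 5) (nat_lit 178) (nat_lit 5) (nat_lit 471) (nat_lit 393) (nat_lit 156))) (XT.nd (nat_lit 78) (nat_lit 152) (nat_lit 0) (XT.lf (nat_lit 0) (nat_lit 30651507639) (nat_lit 304) (nat_lit 23434687973) (nat_lit 76) (nat_lit 21416279369) (nat_lit 174) (nat_lit 5) (nat_lit 178) (nat_lit 5) (nat_lit 175) (nat_lit 5) (nat_lit 472) (nat_lit 393) (nat_lit 155)) (XT.lf (nat_lit 0) (nat_lit 25223114295) (nat_lit 152) (nat_lit 27247823279) (nat_lit 228) (nat_lit 24467279190) (nat_lit 172) (nat_lit 5) (nat_lit 174) (nat_lit 5) (nat_lit 175) (nat_lit 5) (nat_lit 473) (nat_lit 393) (nat_lit 154)))) (XT.nd (nat_lit 156) (nat_lit 152) (nat_lit 0) (XT.nd (nat_lit 78) (nat_lit 228) (nat_lit 0) (XT.lf (nat_lit 0) (nat_lit 75186313947) (nat_lit 228) (nat_lit 2597575769) (nat_lit 76) (nat_lit 625900180) (nat_lit 172) (nat_lit 5) (nat_lit 175)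 (nat_lit 5) (nat_lit 173) (nat_lit 5) (nat_lit 474) (nat_lit 393) (nat_lit 153)) (XT.lf (nat_lit 0) (nat_lit 19037102859) (nat_lit 228) (nat_lit 31419081027) (nat_lit 76) (nat_lit 29441639698) (nat_lit 169) (nat_lit 5) (nat_lit 172) (nat_lit 5) (nat_lit 170) (nat_lit 5) (nat_lit 475) (nat_lit 393) (nat_lit 152))) (XT.nd (nat_lit 78) (nat_lit 0) (nat_lit 0) (XT.lf (nat_lit 0) (nat_lit 20067841545) (nat_lit 152) (nat_lit 22050880680) (nat_lit 228) (nat_lit 39304278233) (nat_lit 167) (nat_lit 5) (nat_lit 169) (nat_lit 5) (nat_lit 170) (nat_lit 5) (nat_lit 476) (nat_lit 393) (nat_lit 151)) (XT.lf (nat_lit 0) (nat_lit 66281100483) (nat_lit 228) (nat_lit 9315870015) (nat_lit 76) (nat_lit 7385312833) (nat_lit 167) (nat_lit 5) (nat_lit 170) (nat_lit 5) (nat_lit 168) (nat_lit 5) (nat_lit 477) (nat_lit 393) (nat_lit 150))))))))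
noncomputable def xc208 : XT := (XT.nd (nat_lit 48360) (nat_lit 0) (nat_lit 5776) (XT.nd (nat_lit 47190) (nat_lit 0) (nat_lit 13908) (XT.nd (nat_lit 46566) (nat_lit 0) (nat_lit 16644) (XT.nd (nat_lit 234) (nat_lit 532) (nat_lit 0) (XT.nd (nat_lit 78) (nat_lit 152) (nat_lit 0) (XT.lf (nat_lit 0) (nat_lit 7107019622) (nat_lit 228) (nat_lit 39697722543) (nat_lit 76) (nat_lit 37762042576) (nat_lit 164) (nat_lit 5) (nat_lit 167) (nat_lit 5) (nat_lit 165) (nat_lit 5) (nat_lit 478) (nat_lit 393) (nat_lit 149)) (XT.nd (nat_lit 78) (nat_lit 0) (nat_lit 0) (XT.lf (nat_lit 0) (nat_lit 14794510804) (nat_lit 152) (nat_lit 16735164349) (nat_lit 228) (nat_lit 54657108769) (nat_lit 162) (nat_lit 5) (nat_lit 164) (nat_lit 5) (nat_lit 165) (nat_lit 5) (nat_lit 479) (nat_lit 393) (nat_lit 148)) (XT.lf (nat_lit 0) (nat_lit 57225371113) (nat_lit 228) (nat_lit 16251309435) (nat_lit 76) (nat_lit 14362491706) (nat_lit 162)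 (nat_lit 5) (nat_lit 165) (nat_lit 5) (nat_lit 163) (nat_lit 5) (nat_lit 480) (nat_lit 393) (nat_lit 147)))) (XT.nd (nat_lit 156) (nat_lit 152) (nat_lit 0) (XT.nd (nat_lit 78) (nat_lit 228) (nat_lit 0) (XT.lf (nat_lit 0) (nat_lit 41179408180) (nat_lit 152) (nat_lit 43072777438) (nat_lit 228) (nat_lit 5272139187) (nat_lit 160) (nat_lit 5) (nat_lit 162) (nat_lit 5) (nat_lit 163) (nat_lit 5) (nat_lit 481) (nat_lit 393) (nat_lit 146)) (XT.lf (nat_lit 0) (nat_lit 9390114596) (nat_lit 152) (nat_lit 11287902813) (nat_lit 228) (nat_lit 70568366410) (nat_lit 157) (nat_lit 5) (nat_lit 159) (nat_lit 5) (nat_lit 160) (nat_lit 5) (nat_lit 482) (nat_lit 393) (nat_lit 145))) (XT.nd (nat_lit 78) (nat_lit 152) (nat_lit 0) (XT.lf (nat_lit 0) (nat_lit 47998650917) (nat_lit 228) (nat_lit 23422813860) (nat_lit 76) (nat_lit 21576135734) (nat_lit 157) (nat_lit 5) (nat_lit 160) (nat_lit 5) (nat_lit 158) (nat_lit 5) (nat_lit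 483) (nat_lit 393) (nat_lit 144)) (XT.lf (nat_lit 0) (nat_lit 37379004491) (nat_lit 152) (nat_lit 39229726590) (nat_lit 228) (nat_lit 18178527793) (nat_lit 155) (nat_lit 5) (nat_lit 157) (nat_lit 5) (nat_lit 158) (nat_lit 5) (nat_lit 484) (nat_lit 393) (nat_lit 143))))) (XT.nd (nat_lit 312) (nat_lit 0) (nat_lit 152) (XT.nd (nat_lit 156) (nat_lit 0) (nat_lit 76) (XT.nd (nat_lit 78) (nat_lit 0) (nat_lit 0) (XT.lf (nat_lit 0) (nat_lit 4487397479) (nat_lit 1292) (nat_lit 2789844291) (nat_lit 1292) (nat_lit 2789844291) (nat_lit 374) (nat_lit 3) (nat_lit 391) (nat_lit 3) (nat_lit 391) (nat_lit 5) (nat_lit 394) (nat_lit 394) (nat_lit 232)) (XT.lf (nat_lit 76) (nat_lit 4576705488) (nat_lit 0) (nat_lit 4739433166) (nat_lit 1292) (nat_lit 11113844398) (nat_lit 375) (nat_lit 5) (nat_lit 374) (nat_lit 3) (nat_lit 391) (nat_lit 5) (nat_lit 395) (nat_lit 394) (nat_lit 231))) (XT.nd (nat_lit 78) (nat_lit 0) (nat_lit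 0) (XT.lf (nat_lit 0) (nat_lit 9769891241) (nat_lit 1216) (nat_lit 5636543246) (nat_lit 1292) (nat_lit 5325168764) (nat_lit 375) (nat_lit 5) (nat_lit 391) (nat_lit 5) (nat_lit 392) (nat_lit 5) (nat_lit 396) (nat_lit 394) (nat_lit 230)) (XT.lf (nat_lit 76) (nat_lit 4932567227) (nat_lit 0) (nat_lit 5392860587) (nat_lit 1292) (nat_lit 10714199100) (nat_lit 376) (nat_lit 5) (nat_lit 375) (nat_lit 5) (nat_lit 392) (nat_lit 5) (nat_lit 397) (nat_lit 394) (nat_lit 229)))) (XT.nd (nat_lit 156) (nat_lit 0) (nat_lit 76) (XT.nd (nat_lit 78) (nat_lit 0) (nat_lit 0) (XT.lf (nat_lit 0) (nat_lit 10996420178) (nat_lit 1216) (nat_lit 5472382250) (nat_lit 1292) (nat_lit 4885125168) (nat_lit 376) (nat_lit 5) (nat_lit 392) (nat_lit 5) (nat_lit 393) (nat_lit 5) (nat_lit 398) (nat_lit 394) (nat_lit 228)) (XT.lf (nat_lit 76) (nat_lit 5532378289) (nat_lit 0) (nat_lit 6255917240) (nat_lit 1292) (nat_lit 9886339172) (nat_lit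 377) (nat_lit 5) (nat_lit 376) (nat_lit 5) (nat_lit 393) (nat_lit 5) (nat_lit 399) (nat_lit 394) (nat_lit 227))) (XT.nd (nat_lit 78) (nat_lit 0) (nat_lit 0) (XT.lf (nat_lit 0) (nat_lit 12695051767) (nat_lit 1216) (nat_lit 5069050624) (nat_lit 1292) (nat_lit 4238126890) (nat_lit 377) (nat_lit 5) (nat_lit 393) (nat_lit 5) (nat_lit 394) (nat_lit 5) (nat_lit 400) (nat_lit 394) (nat_lit 226)) (XT.lf (nat_lit 76) (nat_lit 6395644274) (nat_lit 0) (nat_lit 7351285223) (nat_lit 1292) (nat_lit 8589184638) (nat_lit 378) (nat_lit 5) (nat_lit 377) (nat_lit 5) (nat_lit 394) (nat_lit 5) (nat_lit 401) (nat_lit 394) (nat_lit 225)))))) (XT.nd (nat_lit 546) (nat_lit 1900) (nat_lit 0) (XT.nd (nat_lit 234) (nat_lit 1140) (nat_lit 0) (XT.nd (nat_lit 78) (nat_lit 0) (nat_lit 0) (XT.lf (nat_lit 0) (nat_lit 14909134067) (nat_lit 1216) (nat_lit 4406941518) (nat_lit 1292) (nat_lit 3361576834) (nat_lit 378) (nat_lit 5) (nat_lit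 394) (nat_lit 5) (nat_lit 395) (nat_lit 5) (nat_lit 402) (nat_lit 394) (nat_lit 224)) (XT.nd (nat_lit 78) (nat_lit 0) (nat_lit 76) (XT.lf (nat_lit 76) (nat_lit 7543401519) (nat_lit 0) (nat_lit 8702900124) (nat_lit 1292) (nat_lit 6778932303) (nat_lit 379) (nat_lit 5) (nat_lit 378) (nat_lit 5) (nat_lit 395) (nat_lit 5) (nat_lit 403) (nat_lit 394) (nat_lit 223)) (XT.lf (nat_lit 0) (nat_lit 17684881430) (nat_lit 1216) (nat_lit 3464915769) (nat_lit 1292) (nat_lit 2231606803) (nat_lit 379) (nat_lit 5) (nat_lit 395) (nat_lit 5) (nat_lit 396) (nat_lit 5) (nat_lit 404) (nat_lit 394) (nat_lit 222)))) (XT.nd (nat_lit 156) (nat_lit 1216) (nat_lit 0) (XT.nd (nat_lit 78) (nat_lit 0) (nat_lit 76) (XT.lf (nat_lit 76) (nat_lit 8998302418) (nat_lit 0) (nat_lit 10336060088) (nat_lit 1292) (nat_lit 4408864338) (nat_lit 380) (nat_lit 5) (nat_lit 379) (nat_lit 5) (nat_lit 396) (nat_lit 5) (nat_lit 405) (nat_lit 394) (nat_lit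 221)) (XT.lf (nat_lit 0) (nat_lit 21071573355) (nat_lit 1216) (nat_lit 2220215216) (nat_lit 1292) (nat_lit 822968439) (nat_lit 380) (nat_lit 5) (nat_lit 396) (nat_lit 5) (nat_lit 397) (nat_lit 5) (nat_lit 406) (nat_lit 394) (nat_lit 220))) (XT.nd (nat_lit 78) (nat_lit 1292) (nat_lit 0) (XT.lf (nat_lit 76) (nat_lit 10784707261) (nat_lit 0) (nat_lit 12277539399) (nat_lit 1292) (nat_lit 1429146039) (nat_lit 381) (nat_lit 5) (nat_lit 380) (nat_lit 5) (nat_lit 397) (nat_lit 5) (nat_lit 407) (nat_lit 394) (nat_lit 219)) (XT.lf (nat_lit 0) (nat_lit 246797388) (nat_lit 1292) (nat_lit 659525158) (nat_lit 1368) (nat_lit 23972396505) (nat_lit 363) (nat_lit 5) (nat_lit 380) (nat_lit 5) (nat_lit 381) (nat_lit 5) (nat_lit 408) (nat_lit 394) (nat_lit 218))))) (XT.nd (nat_lit 312) (nat_lit 1216) (nat_lit 0) (XT.nd (nat_lit 156) (nat_lit 760) (nat_lit 0) (XT.nd (nat_lit 78) (nat_lit 0) (nat_lit 0) (XT.lf (nat_lit 0)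 (nat_lit 2170196849) (nat_lit 1292) (nat_lit 12363595444) (nat_lit 1368) (nat_lit 10736671337) (nat_lit 364) (nat_lit 5) (nat_lit 381) (nat_lit 5) (nat_lit 382) (nat_lit 5) (nat_lit 409) (nat_lit 394) (nat_lit 217)) (XT.lf (nat_lit 76) (nat_lit 1231308489) (nat_lit 0) (nat_lit 2943158951) (nat_lit 1368) (nat_lit 21498798033) (nat_lit 365) (nat_lit 5) (nat_lit 364) (nat_lit 5) (nat_lit 382) (nat_lit 5) (nat_lit 410) (nat_lit 394) (nat_lit 216))) (XT.nd (nat_lit 78) (nat_lit 836) (nat_lit 0) (XT.lf (nat_lit 0) (nat_lit 6447149341) (nat_lit 1292) (nat_lit 10688397754) (nat_lit 76) (nat_lit 8946355780) (nat_lit 365) (nat_lit 5) (nat_lit 382) (nat_lit 5) (nat_lit 366) (nat_lit 5) (nat_lit 411) (nat_lit 394) (nat_lit 215)) (XT.lf (nat_lit 0) (nat_lit 3513510147) (nat_lit 836) (nat_lit 5333271767) (nat_lit 912) (nat_lit 17654254379) (nat_lit 354) (nat_lit 5) (nat_lit 365) (nat_lit 5) (nat_lit 366) (nat_lit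 5) (nat_lit 412) (nat_lit 394) (nat_lit 214)))) (XT.nd (nat_lit 156) (nat_lit 608) (nat_lit 0) (XT.nd (nat_lit 78) (nat_lit 608) (nat_lit 0) (XT.lf (nat_lit 0) (nat_lit 11488937186) (nat_lit 912) (nat_lit 8639353795) (nat_lit 76) (nat_lit 6799336720) (nat_lit 354) (nat_lit 5) (nat_lit 366) (nat_lit 5) (nat_lit 355) (nat_lit 5) (nat_lit 413) (nat_lit 394) (nat_lit 213)) (XT.lf (nat_lit 0) (nat_lit 6203859648) (nat_lit 608) (nat_lit 8115001208) (nat_lit 684) (nat_lit 13044900884) (nat_lit 346) (nat_lit 5) (nat_lit 354) (nat_lit 5) (nat_lit 355) (nat_lit 5) (nat_lit 414) (nat_lit 394) (nat_lit 212))) (XT.nd (nat_lit 78) (nat_lit 608) (nat_lit 0) (XT.lf (nat_lit 0) (nat_lit 17358869482) (nat_lit 684) (nat_lit 6186436796) (nat_lit 76) (nat_lit 4263917904) (nat_lit 346) (nat_lit 5) (nat_lit 355) (nat_lit 5) (nat_lit 347) (nat_lit 5) (nat_lit 415) (nat_lit 394) (nat_lit 211)) (XT.lf (nat_lit 0) (nat_lit 9334401556)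 (nat_lit 608) (nat_lit 11322009428) (nat_lit 684) (nat_lit 7606649535) (nat_lit 338) (nat_lit 5) (nat_lit 346) (nat_lit 5) (nat_lit 347) (nat_lit 5) (nat_lit 416) (nat_lit 394) (nat_lit 210))))))) (XT.nd (nat_lit 1170) (nat_lit 3876) (nat_lit 0) (XT.nd (nat_lit 546) (nat_lit 1976) (nat_lit 0) (XT.nd (nat_lit 234) (nat_lit 1064) (nat_lit 0) (XT.nd (nat_lit 78) (nat_lit 1216) (nat_lit 0) (XT.lf (nat_lit 0) (nat_lit 24124489989) (nat_lit 684) (nat_lit 3297471303) (nat_lit 76) (nat_lit 1306402317) (nat_lit 338) (nat_lit 5) (nat_lit 347) (nat_lit 5) (nat_lit 339) (nat_lit 5) (nat_lit 417) (nat_lit 394) (nat_lit 209)) (XT.nd (nat_lit 78) (nat_lit 684) (nat_lit 0) (XT.lf (nat_lit 0) (nat_lit 12939448867) (nat_lit 532) (nat_lit 14990083490) (nat_lit 608) (nat_lit 1271105805) (nat_lit 331) (nat_lit 5) (nat_lit 338) (nat_lit 5) (nat_lit 339) (nat_lit 5) (nat_lit 418) (nat_lit 394) (nat_lit 208)) (XT.lf (nat_lit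 0) (nat_lit 20649630) (nat_lit 608) (nat_lit 2129114969) (nat_lit 684) (nat_lit 27535783948) (nat_lit 322) (nat_lit 5) (nat_lit 330) (nat_lit 5) (nat_lit 331) (nat_lit 5) (nat_lit 419) (nat_lit 394) (nat_lit 207)))) (XT.nd (nat_lit 156) (nat_lit 532) (nat_lit 0) (XT.nd (nat_lit 78) (nat_lit 532) (nat_lit 0) (XT.lf (nat_lit 0) (nat_lit 5916956630) (nat_lit 684) (nat_lit 13180579738) (nat_lit 76) (nat_lit 11079015016) (nat_lit 322) (nat_lit 5) (nat_lit 331) (nat_lit 5) (nat_lit 323) (nat_lit 5) (nat_lit 420) (nat_lit 394) (nat_lit 206)) (XT.lf (nat_lit 0) (nat_lit 3848697550) (nat_lit 532) (nat_lit 6003185569) (nat_lit 608) (nat_lit 20828759628) (nat_lit 315) (nat_lit 5) (nat_lit 322) (nat_lit 5) (nat_lit 323) (nat_lit 5) (nat_lit 421) (nat_lit 394) (nat_lit 205))) (XT.nd (nat_lit 78) (nat_lit 532) (nat_lit 0) (XT.lf (nat_lit 0) (nat_lit 14107917337) (nat_lit 608) (nat_lit 9613734469) (nat_lit 76) (nat_lit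 7472113245) (nat_lit 315) (nat_lit 5) (nat_lit 323) (nat_lit 5) (nat_lit 316) (nat_lit 5) (nat_lit 422) (nat_lit 394) (nat_lit 204)) (XT.lf (nat_lit 0) (nat_lit 8218408143) (nat_lit 532) (nat_lit 10408461681) (nat_lit 608) (nat_lit 13091354083) (nat_lit 308) (nat_lit 5) (nat_lit 315) (nat_lit 5) (nat_lit 316) (nat_lit 5) (nat_lit 423) (nat_lit 394) (nat_lit 203))))) (XT.nd (nat_lit 312) (nat_lit 912) (nat_lit 0) (XT.nd (nat_lit 156) (nat_lit 608) (nat_lit 0) (XT.nd (nat_lit 78) (nat_lit 456) (nat_lit 0) (XT.lf (nat_lit 0) (nat_lit 23408048477) (nat_lit 608) (nat_lit 5509242997) (nat_lit 76) (nat_lit 3337325326) (nat_lit 308) (nat_lit 5) (nat_lit 316) (nat_lit 5) (nat_lit 309) (nat_lit 5) (nat_lit 424) (nat_lit 394) (nat_lit 202)) (XT.lf (nat_lit 0) (nat_lit 13171518011) (nat_lit 456) (nat_lit 15387758111) (nat_lit 532) (nat_lit 4241026951) (nat_lit 302) (nat_lit 5) (nat_lit 308) (nat_lit 5) (nat_lit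 309) (nat_lit 5) (nat_lit 425) (nat_lit 394) (nat_lit 201))) (XT.nd (nat_lit 78) (nat_lit 532) (nat_lit 0) (XT.lf (nat_lit 0) (nat_lit 546027737) (nat_lit 532) (nat_lit 843962485) (nat_lit 76) (nat_lit 31970630063) (nat_lit 301) (nat_lit 5) (nat_lit 308) (nat_lit 5) (nat_lit 302) (nat_lit 5) (nat_lit 426) (nat_lit 394) (nat_lit 200)) (XT.lf (nat_lit 0) (nat_lit 5696918339) (nat_lit 608) (nat_lit 15232216939) (nat_lit 76) (nat_lit 12998188083) (nat_lit 294) (nat_lit 5) (nat_lit 302) (nat_lit 5) (nat_lit 295) (nat_lit 5) (nat_lit 427) (nat_lit 394) (nat_lit 199)))) (XT.nd (nat_lit 156) (nat_lit 456) (nat_lit 0) (XT.nd (nat_lit 78) (nat_lit 0) (nat_lit 0) (XT.lf (nat_lit 0) (nat_lit 4395327846) (nat_lit 456) (nat_lit 6668736606) (nat_lit 532) (nat_lit 23445111213) (nat_lit 288) (nat_lit 5) (nat_lit 294) (nat_lit 5) (nat_lit 295) (nat_lit 5) (nat_lit 428) (nat_lit 394) (nat_lit 198)) (XT.lf (nat_lit 0)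 (nat_lit 16821806113) (nat_lit 532) (nat_lit 10262051149) (nat_lit 76) (nat_lit 8017738843) (nat_lit 288) (nat_lit 5) (nat_lit 295) (nat_lit 5) (nat_lit 289) (nat_lit 5) (nat_lit 429) (nat_lit 394) (nat_lit 197))) (XT.nd (nat_lit 78) (nat_lit 0) (nat_lit 0) (XT.lf (nat_lit 0) (nat_lit 10317184604) (nat_lit 456) (nat_lit 12597535100) (nat_lit 532) (nat_lit 12792196262) (nat_lit 282) (nat_lit 5) (nat_lit 288) (nat_lit 5) (nat_lit 289) (nat_lit 5) (nat_lit 430) (nat_lit 394) (nat_lit 196)) (XT.lf (nat_lit 0) (nat_lit 29314686101) (nat_lit 532) (nat_lit 4629941666) (nat_lit 76) (nat_lit 2382039695) (nat_lit 282) (nat_lit 5) (nat_lit 289) (nat_lit 5) (nat_lit 283) (nat_lit 5) (nat_lit 431) (nat_lit 394) (nat_lit 195)))))) (XT.nd (nat_lit 624) (nat_lit 1748) (nat_lit 0) (XT.nd (nat_lit 312) (nat_lit 836) (nat_lit 0) (XT.nd (nat_lit 156) (nat_lit 380) (nat_lit 0) (XT.nd (nat_lit 78) (nat_lit 532) (nat_lit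 0) (XT.lf (nat_lit 0) (nat_lit 16955420873) (nat_lit 380) (nat_lit 19236302892) (nat_lit 456) (nat_lit 764735569) (nat_lit 277) (nat_lit 5) (nat_lit 282) (nat_lit 5) (nat_lit 283) (nat_lit 5) (nat_lit 432) (nat_lit 394) (nat_lit 194)) (XT.lf (nat_lit 0) (nat_lit 1653436558) (nat_lit 456) (nat_lit 3966338042) (nat_lit 532) (nat_lit 31981920647) (nat_lit 270) (nat_lit 5) (nat_lit 276) (nat_lit 5) (nat_lit 277) (nat_lit 5) (nat_lit 433) (nat_lit 394) (nat_lit 193))) (XT.nd (nat_lit 78) (nat_lit 380) (nat_lit 0) (XT.lf (nat_lit 0) (nat_lit 12494896115) (nat_lit 532) (nat_lit 14018724209) (nat_lit 76) (nat_lit 11743007370) (nat_lit 270) (nat_lit 5) (nat_lit 277) (nat_lit 5) (nat_lit 271) (nat_lit 5) (nat_lit 434) (nat_lit 394) (nat_lit 192)) (XT.lf (nat_lit 0) (nat_lit 8695801001) (nat_lit 380) (nat_lit 11000820186) (nat_lit 456) (nat_lit 19230976429) (nat_lit 265) (nat_lit 5) (nat_lit 270) (nat_lit 5) (nat_lit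 271) (nat_lit 5) (nat_lit 435) (nat_lit 394) (nat_lit 191)))) (XT.nd (nat_lit 156) (nat_lit 456) (nat_lit 0) (XT.nd (nat_lit 78) (nat_lit 380) (nat_lit 0) (XT.lf (nat_lit 0) (nat_lit 27302730397) (nat_lit 456) (nat_lit 7287909622) (nat_lit 76) (nat_lit 5022406647) (nat_lit 265) (nat_lit 5) (nat_lit 271) (nat_lit 5) (nat_lit 266) (nat_lit 5) (nat_lit 436) (nat_lit 394) (nat_lit 190)) (XT.lf (nat_lit 0) (nat_lit 16555178720) (nat_lit 380) (nat_lit 18847497493) (nat_lit 456) (nat_lit 4908413374) (nat_lit 260) (nat_lit 5) (nat_lit 265) (nat_lit 5) (nat_lit 266) (nat_lit 5) (nat_lit 437) (nat_lit 394) (nat_lit 189))) (XT.nd (nat_lit 78) (nat_lit 0) (nat_lit 0) (XT.lf (nat_lit 0) (nat_lit 209073242) (nat_lit 380) (nat_lit 2527426770) (nat_lit 456) (nat_lit 38290572373) (nat_lit 254) (nat_lit 5) (nat_lit 259) (nat_lit 5) (nat_lit 260) (nat_lit 5) (nat_lit 438) (nat_lit 394) (nat_lit 188)) (XT.lf (nat_lit 0)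 (nat_lit 10889301037) (nat_lit 456) (nat_lit 16568914386) (nat_lit 76) (nat_lit 14293545464) (nat_lit 254) (nat_lit 5) (nat_lit 260) (nat_lit 5) (nat_lit 255) (nat_lit 5) (nat_lit 439) (nat_lit 394) (nat_lit 187))))) (XT.nd (nat_lit 312) (nat_lit 608) (nat_lit 0) (XT.nd (nat_lit 156) (nat_lit 760) (nat_lit 0) (XT.nd (nat_lit 78) (nat_lit 0) (nat_lit 0) (XT.lf (nat_lit 0) (nat_lit 8546188573) (nat_lit 380) (nat_lit 10845382984) (nat_lit 456) (nat_lit 23103471925) (nat_lit 249) (nat_lit 5) (nat_lit 254) (nat_lit 5) (nat_lit 255) (nat_lit 5) (nat_lit 440) (nat_lit 394) (nat_lit 186)) (XT.lf (nat_lit 0) (nat_lit 28375849075) (nat_lit 456) (nat_lit 8566326352) (nat_lit 76) (nat_lit 6311640960) (nat_lit 249) (nat_lit 5) (nat_lit 255) (nat_lit 5) (nat_lit 250) (nat_lit 5) (nat_lit 441) (nat_lit 394) (nat_lit 185))) (XT.nd (nat_lit 78) (nat_lit 456) (nat_lit 0) (XT.lf (nat_lit 0) (nat_lit 17814798109) (nat_lit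 304) (nat_lit 20091287199) (nat_lit 380) (nat_lit 6120974260) (nat_lit 245) (nat_lit 5) (nat_lit 249) (nat_lit 5) (nat_lit 250) (nat_lit 5) (nat_lit 442) (nat_lit 394) (nat_lit 184)) (XT.lf (nat_lit 0) (nat_lit 316361617) (nat_lit 380) (nat_lit 2614019345) (nat_lit 456) (nat_lit 41889636641) (nat_lit 239) (nat_lit 5) (nat_lit 244) (nat_lit 5) (nat_lit 245) (nat_lit 5) (nat_lit 443) (nat_lit 394) (nat_lit 183)))) (XT.nd (nat_lit 156) (nat_lit 304) (nat_lit 0) (XT.nd (nat_lit 78) (nat_lit 304) (nat_lit 0) (XT.lf (nat_lit 0) (nat_lit 12543319997) (nat_lit 456) (nat_lit 17664961671) (nat_lit 76) (nat_lit 15414272541) (nat_lit 239) (nat_lit 5) (nat_lit 245) (nat_lit 5) (nat_lit 240) (nat_lit 5) (nat_lit 444) (nat_lit 394) (nat_lit 182)) (XT.lf (nat_lit 0) (nat_lit 10147959622) (nat_lit 304) (nat_lit 12418021055) (nat_lit 380) (nat_lit 23879546230) (nat_lit 235) (nat_lit 5) (nat_lit 239) (nat_lit 5) (nat_lit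 240) (nat_lit 5) (nat_lit 445) (nat_lit 394) (nat_lit 181))) (XT.nd (nat_lit 78) (nat_lit 304) (nat_lit 0) (XT.lf (nat_lit 0) (nat_lit 33124166438) (nat_lit 380) (nat_lit 8192090192) (nat_lit 76) (nat_lit 5969886800) (nat_lit 235) (nat_lit 5) (nat_lit 240) (nat_lit 5) (nat_lit 236) (nat_lit 5) (nat_lit 446) (nat_lit 394) (nat_lit 180)) (XT.lf (nat_lit 0) (nat_lit 21041181926) (nat_lit 304) (nat_lit 23281113719) (nat_lit 380) (nat_lit 3819986866) (nat_lit 231) (nat_lit 5) (nat_lit 235) (nat_lit 5) (nat_lit 236) (nat_lit 5) (nat_lit 447) (nat_lit 394) (nat_lit 179))))))))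
noncomputable def xc209 : XT := (XT.nd (nat_lit 2340) (nat_lit 760) (nat_lit 0) (XT.nd (nat_lit 1170) (nat_lit 2204) (nat_lit 0) (XT.nd (nat_lit 546) (nat_lit 1368) (nat_lit 0) (XT.nd (nat_lit 234) (nat_lit 608) (nat_lit 0) (XT.nd (nat_lit 78) (nat_lit 304) (nat_lit 0) (XT.lf (nat_lit 0) (nat_lit 2272591270) (nat_lit 304) (nat_lit 4529735104) (nat_lit 380) (nat_lit 42216707551) (nat_lit 226) (nat_lit 5) (nat_lit 230) (nat_lit 5) (nat_lit 231) (nat_lit 5) (nat_lit 448) (nat_lit 394) (nat_lit 178)) (XT.nd (nat_lit 78) (nat_lit 304) (nat_lit 0) (XT.lf (nat_lit 0) (nat_lit 18083039943) (nat_lit 380) (nat_lit 17016521900) (nat_lit 76) (nat_lit 14808896121) (nat_lit 226) (nat_lit 5) (nat_lit 231) (nat_lit 5) (nat_lit 227) (nat_lit 5) (nat_lit 449) (nat_lit 394) (nat_lit 177)) (XT.lf (nat_lit 0) (nat_lit 13827318828) (nat_lit 304) (nat_lit 16050696062) (nat_lit 380) (nat_lit 20941274636) (nat_lit 222) (nat_lit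 5) (nat_lit 226) (nat_lit 5) (nat_lit 227) (nat_lit 5) (nat_lit 450) (nat_lit 394) (nat_lit 176)))) (XT.nd (nat_lit 156) (nat_lit 304) (nat_lit 0) (XT.nd (nat_lit 78) (nat_lit 304) (nat_lit 0) (XT.lf (nat_lit 0) (nat_lit 42232780069) (nat_lit 380) (nat_lit 5845976833) (nat_lit 76) (nat_lit 3672510902) (nat_lit 222) (nat_lit 5) (nat_lit 227) (nat_lit 5) (nat_lit 223) (nat_lit 5) (nat_lit 451) (nat_lit 394) (nat_lit 175)) (XT.lf (nat_lit 0) (nat_lit 2619901655) (nat_lit 304) (nat_lit 26133016786) (nat_lit 76) (nat_lit 23945136042) (nat_lit 218) (nat_lit 5) (nat_lit 222) (nat_lit 5) (nat_lit 219) (nat_lit 5) (nat_lit 452) (nat_lit 394) (nat_lit 174))) (XT.nd (nat_lit 78) (nat_lit 0) (nat_lit 0) (XT.lf (nat_lit 0) (nat_lit 6424392021) (nat_lit 304) (nat_lit 8626267729) (nat_lit 380) (nat_lit 38616171861) (nat_lit 214) (nat_lit 5) (nat_lit 218) (nat_lit 5) (nat_lit 219) (nat_lit 5) (nat_lit 453) (nat_lit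 394) (nat_lit 173)) (XT.lf (nat_lit 0) (nat_lit 28235371192) (nat_lit 380) (nat_lit 14284402472) (nat_lit 76) (nat_lit 12133467471) (nat_lit 214) (nat_lit 5) (nat_lit 219) (nat_lit 5) (nat_lit 215) (nat_lit 5) (nat_lit 454) (nat_lit 394) (nat_lit 172))))) (XT.nd (nat_lit 312) (nat_lit 532) (nat_lit 0) (XT.nd (nat_lit 156) (nat_lit 608) (nat_lit 0) (XT.nd (nat_lit 78) (nat_lit 0) (nat_lit 0) (XT.lf (nat_lit 0) (nat_lit 19963709789) (nat_lit 228) (nat_lit 22127452164) (nat_lit 304) (nat_lit 13569814852) (nat_lit 211) (nat_lit 5) (nat_lit 214) (nat_lit 5) (nat_lit 215) (nat_lit 5) (nat_lit 455) (nat_lit 394) (nat_lit 171)) (XT.lf (nat_lit 0) (nat_lit 55529288062) (nat_lit 228) (nat_lit 975833643) (nat_lit 304) (nat_lit 189547983) (nat_lit 211) (nat_lit 5) (nat_lit 214) (nat_lit 5) (nat_lit 215) (nat_lit 5) (nat_lit 456) (nat_lit 394) (nat_lit 170))) (XT.nd (nat_lit 78) (nat_lit 228) (nat_lit 0) (XT.lf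 (nat_lit 0) (nat_lit 13865803451) (nat_lit 380) (nat_lit 22998998244) (nat_lit 76) (nat_lit 20874484750) (nat_lit 206) (nat_lit 5) (nat_lit 211) (nat_lit 5) (nat_lit 207) (nat_lit 5) (nat_lit 457) (nat_lit 394) (nat_lit 169)) (XT.lf (nat_lit 0) (nat_lit 13174801224) (nat_lit 228) (nat_lit 15310693903) (nat_lit 304) (nat_lit 30325295593) (nat_lit 203) (nat_lit 5) (nat_lit 206) (nat_lit 5) (nat_lit 207) (nat_lit 5) (nat_lit 458) (nat_lit 394) (nat_lit 168)))) (XT.nd (nat_lit 156) (nat_lit 304) (nat_lit 0) (XT.nd (nat_lit 78) (nat_lit 228) (nat_lit 0) (XT.lf (nat_lit 0) (nat_lit 43842865047) (nat_lit 304) (nat_lit 9073505320) (nat_lit 76) (nat_lit 6989097132) (nat_lit 203) (nat_lit 5) (nat_lit 207) (nat_lit 5) (nat_lit 204) (nat_lit 5) (nat_lit 459) (nat_lit 394) (nat_lit 167)) (XT.lf (nat_lit 0) (nat_lit 28997413691) (nat_lit 228) (nat_lit 31092235446) (nat_lit 304) (nat_lit 930474651) (nat_lit 200) (nat_lit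 5) (nat_lit 203) (nat_lit 5) (nat_lit 204) (nat_lit 5) (nat_lit 460) (nat_lit 394) (nat_lit 166))) (XT.nd (nat_lit 78) (nat_lit 0) (nat_lit 0) (XT.lf (nat_lit 0) (nat_lit 6207635868) (nat_lit 228) (nat_lit 8312567882) (nat_lit 304) (nat_lit 47639272535) (nat_lit 196) (nat_lit 5) (nat_lit 199) (nat_lit 5) (nat_lit 200) (nat_lit 5) (nat_lit 461) (nat_lit 394) (nat_lit 165)) (XT.lf (nat_lit 0) (nat_lit 30886283820) (nat_lit 304) (nat_lit 17242742437) (nat_lit 76) (nat_lit 15189589233) (nat_lit 196) (nat_lit 5) (nat_lit 200) (nat_lit 5) (nat_lit 197) (nat_lit 5) (nat_lit 462) (nat_lit 394) (nat_lit 164)))))) (XT.nd (nat_lit 546) (nat_lit 988) (nat_lit 0) (XT.nd (nat_lit 234) (nat_lit 684) (nat_lit 0) (XT.nd (nat_lit 78) (nat_lit 304) (nat_lit 0) (XT.lf (nat_lit 0) (nat_lit 22991338185) (nat_lit 228) (nat_lit 25053743709) (nat_lit 304) (nat_lit 16458394909) (nat_lit 193) (nat_lit 5) (nat_lit 196) (nat_lit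 5) (nat_lit 197) (nat_lit 5) (nat_lit 463) (nat_lit 394) (nat_lit 163)) (XT.nd (nat_lit 78) (nat_lit 228) (nat_lit 0) (XT.lf (nat_lit 0) (nat_lit 169135594) (nat_lit 304) (nat_lit 937070327) (nat_lit 76) (nat_lit 64612451344) (nat_lit 192) (nat_lit 5) (nat_lit 196) (nat_lit 5) (nat_lit 193) (nat_lit 5) (nat_lit 464) (nat_lit 394) (nat_lit 162)) (XT.lf (nat_lit 0) (nat_lit 17594114726) (nat_lit 304) (nat_lit 25685965510) (nat_lit 76) (nat_lit 23666441668) (nat_lit 189) (nat_lit 5) (nat_lit 193) (nat_lit 5) (nat_lit 190) (nat_lit 5) (nat_lit 465) (nat_lit 394) (nat_lit 161)))) (XT.nd (nat_lit 156) (nat_lit 456) (nat_lit 0) (XT.nd (nat_lit 78) (nat_lit 0) (nat_lit 0) (XT.lf (nat_lit 0) (nat_lit 16847521805) (nat_lit 228) (nat_lit 18875266213) (nat_lit 304) (nat_lit 32483006120) (nat_lit 186) (nat_lit 5) (nat_lit 189) (nat_lit 5) (nat_lit 190) (nat_lit 5) (nat_lit 466) (nat_lit 394) (nat_lit 160)) (XT.lf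 (nat_lit 0) (nat_lit 54715955499) (nat_lit 304) (nat_lit 8376851293) (nat_lit 76) (nat_lit 6400418729) (nat_lit 186) (nat_lit 5) (nat_lit 190) (nat_lit 5) (nat_lit 187) (nat_lit 5) (nat_lit 467) (nat_lit 394) (nat_lit 159))) (XT.nd (nat_lit 78) (nat_lit 228) (nat_lit 0) (XT.lf (nat_lit 0) (nat_lit 3932899567) (nat_lit 228) (nat_lit 34426557498) (nat_lit 76) (nat_lit 32442601951) (nat_lit 183) (nat_lit 5) (nat_lit 186) (nat_lit 5) (nat_lit 184) (nat_lit 5) (nat_lit 468) (nat_lit 394) (nat_lit 158)) (XT.lf (nat_lit 0) (nat_lit 10550749432) (nat_lit 228) (nat_lit 12542008845) (nat_lit 304) (nat_lit 49047448176) (nat_lit 180) (nat_lit 5) (nat_lit 183) (nat_lit 5) (nat_lit 184) (nat_lit 5) (nat_lit 469) (nat_lit 394) (nat_lit 157))))) (XT.nd (nat_lit 312) (nat_lit 532) (nat_lit 0) (XT.nd (nat_lit 156) (nat_lit 304) (nat_lit 0) (XT.nd (nat_lit 78) (nat_lit 152) (nat_lit 0) (XT.lf (nat_lit 0) (nat_lit 43312105704)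 (nat_lit 304) (nat_lit 16065998991) (nat_lit 76) (nat_lit 14125852830) (nat_lit 180) (nat_lit 5) (nat_lit 184) (nat_lit 5) (nat_lit 181) (nat_lit 5) (nat_lit 470) (nat_lit 394) (nat_lit 156)) (XT.lf (nat_lit 0) (nat_lit 31307461818) (nat_lit 152) (nat_lit 33254292052) (nat_lit 228) (nat_lit 10334155649) (nat_lit 178) (nat_lit 5) (nat_lit 180) (nat_lit 5) (nat_lit 181) (nat_lit 5) (nat_lit 471) (nat_lit 394) (nat_lit 155))) (XT.nd (nat_lit 78) (nat_lit 0) (nat_lit 0) (XT.lf (nat_lit 0) (nat_lit 4085098821) (nat_lit 228) (nat_lit 6038418446) (nat_lit 304) (nat_lit 66197133348) (nat_lit 174) (nat_lit 5) (nat_lit 177) (nat_lit 5) (nat_lit 178) (nat_lit 5) (nat_lit 472) (nat_lit 394) (nat_lit 154)) (XT.lf (nat_lit 0) (nat_lit 31641755989) (nat_lit 304) (nat_lit 24013107920) (nat_lit 76) (nat_lit 22110564227) (nat_lit 174) (nat_lit 5) (nat_lit 178) (nat_lit 5) (nat_lit 175) (nat_lit 5) (nat_lit 473) (nat_lit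 394) (nat_lit 153)))) (XT.nd (nat_lit 156) (nat_lit 380) (nat_lit 0) (XT.nd (nat_lit 78) (nat_lit 0) (nat_lit 0) (XT.lf (nat_lit 0) (nat_lit 26103206644) (nat_lit 152) (nat_lit 28011689050) (nat_lit 228) (nat_lit 25129372673) (nat_lit 172) (nat_lit 5) (nat_lit 174) (nat_lit 5) (nat_lit 175) (nat_lit 5) (nat_lit 474) (nat_lit 394) (nat_lit 152)) (XT.lf (nat_lit 0) (nat_lit 77510199414) (nat_lit 228) (nat_lit 2554164321) (nat_lit 76) (nat_lit 695670976) (nat_lit 172) (nat_lit 5) (nat_lit 175) (nat_lit 5) (nat_lit 173) (nat_lit 5) (nat_lit 475) (nat_lit 394) (nat_lit 151))) (XT.nd (nat_lit 78) (nat_lit 152) (nat_lit 0) (XT.lf (nat_lit 0) (nat_lit 19676345674) (nat_lit 228) (nat_lit 32240148417) (nat_lit 76) (nat_lit 30376220309) (nat_lit 169) (nat_lit 5) (nat_lit 172) (nat_lit 5) (nat_lit 170) (nat_lit 5) (nat_lit 476) (nat_lit 394) (nat_lit 150)) (XT.lf (nat_lit 0) (nat_lit 20790190607) (nat_lit 152)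 (nat_lit 22659395183) (nat_lit 228) (nat_lit 40414085626) (nat_lit 167) (nat_lit 5) (nat_lit 169) (nat_lit 5) (nat_lit 170) (nat_lit 5) (nat_lit 477) (nat_lit 394) (nat_lit 149))))))) (XT.nd (nat_lit 47268) (nat_lit 0) (nat_lit 13756) (XT.nd (nat_lit 46644) (nat_lit 0) (nat_lit 16492) (XT.nd (nat_lit 234) (nat_lit 380) (nat_lit 0) (XT.nd (nat_lit 78) (nat_lit 380) (nat_lit 0) (XT.lf (nat_lit 0) (nat_lit 68335369886) (nat_lit 228) (nat_lit 9477071077) (nat_lit 76) (nat_lit 7657335775) (nat_lit 167) (nat_lit 5) (nat_lit 170) (nat_lit 5) (nat_lit 168) (nat_lit 5) (nat_lit 478) (nat_lit 394) (nat_lit 148)) (XT.nd (nat_lit 78) (nat_lit 152) (nat_lit 0) (XT.lf (nat_lit 0) (nat_lit 7385918827) (nat_lit 228) (nat_lit 40770231408) (nat_lit 76) (nat_lit 38945667390) (nat_lit 164) (nat_lit 5) (nat_lit 167) (nat_lit 5) (nat_lit 165) (nat_lit 5) (nat_lit 479) (nat_lit 394) (nat_lit 147)) (XT.lf (nat_lit 0) (nat_lit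 15355607931) (nat_lit 152) (nat_lit 17184860024) (nat_lit 228) (nat_lit 56229972408) (nat_lit 162) (nat_lit 5) (nat_lit 164) (nat_lit 5) (nat_lit 165) (nat_lit 5) (nat_lit 480) (nat_lit 394) (nat_lit 146)))) (XT.nd (nat_lit 156) (nat_lit 228) (nat_lit 0) (XT.nd (nat_lit 78) (nat_lit 152) (nat_lit 0) (XT.lf (nat_lit 0) (nat_lit 59005633078) (nat_lit 228) (nat_lit 16623600592) (nat_lit 76) (nat_lit 14843208727) (nat_lit 162) (nat_lit 5) (nat_lit 165) (nat_lit 5) (nat_lit 163) (nat_lit 5) (nat_lit 481) (nat_lit 394) (nat_lit 145)) (XT.lf (nat_lit 0) (nat_lit 42528908669) (nat_lit 152) (nat_lit 44313590786) (nat_lit 228) (nat_lit 5365672648) (nat_lit 160) (nat_lit 5) (nat_lit 162) (nat_lit 5) (nat_lit 163) (nat_lit 5) (nat_lit 482) (nat_lit 394) (nat_lit 144))) (XT.nd (nat_lit 78) (nat_lit 0) (nat_lit 0) (XT.lf (nat_lit 0) (nat_lit 9786066284) (nat_lit 152) (nat_lit 11574913694) (nat_lit 228) (nat_lit 72620916695)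 (nat_lit 157) (nat_lit 5) (nat_lit 159) (nat_lit 5) (nat_lit 160) (nat_lit 5) (nat_lit 483) (nat_lit 394) (nat_lit 143)) (XT.lf (nat_lit 0) (nat_lit 49499890356) (nat_lit 228) (nat_lit 24013235509) (nat_lit 76) (nat_lit 22272564263) (nat_lit 157) (nat_lit 5) (nat_lit 160) (nat_lit 5) (nat_lit 158) (nat_lit 5) (nat_lit 484) (nat_lit 394) (nat_lit 142))))) (XT.nd (nat_lit 312) (nat_lit 0) (nat_lit 152) (XT.nd (nat_lit 156) (nat_lit 0) (nat_lit 76) (XT.nd (nat_lit 78) (nat_lit 0) (nat_lit 0) (XT.lf (nat_lit 0) (nat_lit 4783182844) (nat_lit 1292) (nat_lit 2790540448) (nat_lit 1292) (nat_lit 2790540448) (nat_lit 374) (nat_lit 3) (nat_lit 391) (nat_lit 3) (nat_lit 391) (nat_lit 5) (nat_lit 395) (nat_lit 395) (nat_lit 230)) (XT.lf (nat_lit 76) (nat_lit 4878377561) (nat_lit 0) (nat_lit 5031764006) (nat_lit 1292) (nat_lit 11123305413) (nat_lit 375) (nat_lit 5) (nat_lit 374) (nat_lit 3) (nat_lit 391) (nat_lit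 5) (nat_lit 396) (nat_lit 395) (nat_lit 229))) (XT.nd (nat_lit 78) (nat_lit 0) (nat_lit 0) (XT.lf (nat_lit 0) (nat_lit 10366944717) (nat_lit 1216) (nat_lit 5635494121) (nat_lit 1292) (nat_lit 5341993808) (nat_lit 375) (nat_lit 5) (nat_lit 391) (nat_lit 5) (nat_lit 392) (nat_lit 5) (nat_lit 397) (nat_lit 395) (nat_lit 228)) (XT.lf (nat_lit 76) (nat_lit 5249021573) (nat_lit 0) (nat_lit 5682892211) (nat_lit 1292) (nat_lit 10730000242) (nat_lit 376) (nat_lit 5) (nat_lit 375) (nat_lit 5) (nat_lit 392) (nat_lit 5) (nat_lit 398) (nat_lit 395) (nat_lit 227)))) (XT.nd (nat_lit 156) (nat_lit 0) (nat_lit 76) (XT.nd (nat_lit 78) (nat_lit 0) (nat_lit 0) (XT.lf (nat_lit 0) (nat_lit 11613196627) (nat_lit 1216) (nat_lit 5463144202) (nat_lit 1292) (nat_lit 4909598079) (nat_lit 376) (nat_lit 5) (nat_lit 392) (nat_lit 5) (nat_lit 393) (nat_lit 5) (nat_lit 399) (nat_lit 395) (nat_lit 226)) (XT.lf (nat_lit 76) (nat_lit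 5870059060) (nat_lit 0) (nat_lit 6552063915) (nat_lit 1292) (nat_lit 9894345410) (nat_lit 377) (nat_lit 5) (nat_lit 376) (nat_lit 5) (nat_lit 393) (nat_lit 5) (nat_lit 400) (nat_lit 395) (nat_lit 225))) (XT.nd (nat_lit 78) (nat_lit 0) (nat_lit 0) (XT.lf (nat_lit 0) (nat_lit 13346909057) (nat_lit 1216) (nat_lit 5045241122) (nat_lit 1292) (nat_lit 4262015810) (nat_lit 377) (nat_lit 5) (nat_lit 393) (nat_lit 5) (nat_lit 394) (nat_lit 5) (nat_lit 401) (nat_lit 395) (nat_lit 224)) (XT.lf (nat_lit 76) (nat_lit 6761670299) (nat_lit 0) (nat_lit 7662453549) (nat_lit 1292) (nat_lit 8574130118) (nat_lit 378) (nat_lit 5) (nat_lit 377) (nat_lit 5) (nat_lit 394) (nat_lit 5) (nat_lit 402) (nat_lit 395) (nat_lit 223)))))) (XT.nd (nat_lit 624) (nat_lit 1900) (nat_lit 0) (XT.nd (nat_lit 312) (nat_lit 1140) (nat_lit 0) (XT.nd (nat_lit 156) (nat_lit 0) (nat_lit 76) (XT.nd (nat_lit 78) (nat_lit 0) (nat_lit 0) (XT.lf (nat_lit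 0) (nat_lit 15612636513) (nat_lit 1216) (nat_lit 4361507550) (nat_lit 1292) (nat_lit 3376151075) (nat_lit 378) (nat_lit 5) (nat_lit 394) (nat_lit 5) (nat_lit 395) (nat_lit 5) (nat_lit 403) (nat_lit 395) (nat_lit 222)) (XT.lf (nat_lit 76) (nat_lit 7945604188) (nat_lit 0) (nat_lit 9038542829) (nat_lit 1292) (nat_lit 6724330257) (nat_lit 379) (nat_lit 5) (nat_lit 378) (nat_lit 5) (nat_lit 395) (nat_lit 5) (nat_lit 404) (nat_lit 395) (nat_lit 221))) (XT.nd (nat_lit 78) (nat_lit 0) (nat_lit 0) (XT.lf (nat_lit 0) (nat_lit 18457893553) (nat_lit 1216) (nat_lit 3390095293) (nat_lit 1292) (nat_lit 2227583307) (nat_lit 379) (nat_lit 5) (nat_lit 395) (nat_lit 5) (nat_lit 396) (nat_lit 5) (nat_lit 405) (nat_lit 395) (nat_lit 220)) (XT.lf (nat_lit 76) (nat_lit 9445266813) (nat_lit 0) (nat_lit 10706231721) (nat_lit 1292) (nat_lit 4296911962) (nat_lit 380) (nat_lit 5) (nat_lit 379) (nat_lit 5) (nat_lit 396) (nat_lit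 5) (nat_lit 406) (nat_lit 395) (nat_lit 219)))) (XT.nd (nat_lit 156) (nat_lit 1292) (nat_lit 0) (XT.nd (nat_lit 78) (nat_lit 0) (nat_lit 0) (XT.lf (nat_lit 0) (nat_lit 21933358936) (nat_lit 1216) (nat_lit 2107495365) (nat_lit 1292) (nat_lit 790456269) (nat_lit 380) (nat_lit 5) (nat_lit 396) (nat_lit 5) (nat_lit 397) (nat_lit 5) (nat_lit 407) (nat_lit 395) (nat_lit 218)) (XT.lf (nat_lit 76) (nat_lit 11285816685) (nat_lit 0) (nat_lit 12692954152) (nat_lit 1292) (nat_lit 1240623939) (nat_lit 381) (nat_lit 5) (nat_lit 380) (nat_lit 5) (nat_lit 397) (nat_lit 5) (nat_lit 408) (nat_lit 395) (nat_lit 217))) (XT.nd (nat_lit 78) (nat_lit 0) (nat_lit 76) (XT.lf (nat_lit 0) (nat_lit 474474225) (nat_lit 1292) (nat_lit 502530732) (nat_lit 1368) (nat_lit 24641467478) (nat_lit 363) (nat_lit 5) (nat_lit 380) (nat_lit 5) (nat_lit 381) (nat_lit 5) (nat_lit 409) (nat_lit 395) (nat_lit 216)) (XT.lf (nat_lit 0) (nat_lit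 2450453371) (nat_lit 1292) (nat_lit 12552600828) (nat_lit 1368) (nat_lit 11019068821) (nat_lit 364) (nat_lit 5) (nat_lit 381) (nat_lit 5) (nat_lit 382) (nat_lit 5) (nat_lit 410) (nat_lit 395) (nat_lit 215))))) (XT.nd (nat_lit 312) (nat_lit 1216) (nat_lit 0) (XT.nd (nat_lit 156) (nat_lit 760) (nat_lit 0) (XT.nd (nat_lit 78) (nat_lit 0) (nat_lit 76) (XT.lf (nat_lit 76) (nat_lit 1448366865) (nat_lit 0) (nat_lit 3061950107) (nat_lit 1368) (nat_lit 21926828000) (nat_lit 365) (nat_lit 5) (nat_lit 364) (nat_lit 5) (nat_lit 382) (nat_lit 5) (nat_lit 411) (nat_lit 395) (nat_lit 214)) (XT.lf (nat_lit 0) (nat_lit 6844760286) (nat_lit 1292) (nat_lit 10827757710) (nat_lit 76) (nat_lit 9185716071) (nat_lit 365) (nat_lit 5) (nat_lit 382) (nat_lit 5) (nat_lit 366) (nat_lit 5) (nat_lit 412) (nat_lit 395) (nat_lit 213))) (XT.nd (nat_lit 78) (nat_lit 0) (nat_lit 0) (XT.lf (nat_lit 0) (nat_lit 3798430056) (nat_lit 836)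 (nat_lit 5513729915) (nat_lit 912) (nat_lit 17977908173) (nat_lit 354) (nat_lit 5) (nat_lit 365) (nat_lit 5) (nat_lit 366) (nat_lit 5) (nat_lit 413) (nat_lit 395) (nat_lit 212)) (XT.lf (nat_lit 0) (nat_lit 12027564452) (nat_lit 912) (nat_lit 8718232936) (nat_lit 76) (nat_lit 6983840369) (nat_lit 354) (nat_lit 5) (nat_lit 366) (nat_lit 5) (nat_lit 355) (nat_lit 5) (nat_lit 414) (nat_lit 395) (nat_lit 211)))) (XT.nd (nat_lit 156) (nat_lit 608) (nat_lit 0) (XT.nd (nat_lit 78) (nat_lit 0) (nat_lit 0) (XT.lf (nat_lit 0) (nat_lit 6568509248) (nat_lit 608) (nat_lit 8369943465) (nat_lit 684) (nat_lit 13240521098) (nat_lit 346) (nat_lit 5) (nat_lit 354) (nat_lit 5) (nat_lit 355) (nat_lit 5) (nat_lit 415) (nat_lit 395) (nat_lit 210)) (XT.lf (nat_lit 0) (nat_lit 18064019607) (nat_lit 684) (nat_lit 6193054111) (nat_lit 76) (nat_lit 4380895669) (nat_lit 346) (nat_lit 5) (nat_lit 355) (nat_lit 5) (nat_lit 347) (nat_lit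 5) (nat_lit 416) (nat_lit 395) (nat_lit 209))) (XT.nd (nat_lit 78) (nat_lit 0) (nat_lit 0) (XT.lf (nat_lit 0) (nat_lit 9791654727) (nat_lit 608) (nat_lit 11665165776) (nat_lit 684) (nat_lit 7648710316) (nat_lit 338) (nat_lit 5) (nat_lit 346) (nat_lit 5) (nat_lit 347) (nat_lit 5) (nat_lit 417) (nat_lit 395) (nat_lit 208)) (XT.lf (nat_lit 0) (nat_lit 25023645643) (nat_lit 684) (nat_lit 3219039863) (nat_lit 76) (nat_lit 1342266382) (nat_lit 338) (nat_lit 5) (nat_lit 347) (nat_lit 5) (nat_lit 339) (nat_lit 5) (nat_lit 418) (nat_lit 395) (nat_lit 207))))))))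
noncomputable def xc210 : XT := (XT.nd (nat_lit 2340) (nat_lit 4864) (nat_lit 0) (XT.nd (nat_lit 1170) (nat_lit 3496) (nat_lit 0) (XT.nd (nat_lit 546) (nat_lit 2356) (nat_lit 0) (XT.nd (nat_lit 234) (nat_lit 1064) (nat_lit 0) (XT.nd (nat_lit 78) (nat_lit 684) (nat_lit 0) (XT.lf (nat_lit 0) (nat_lit 13503249131) (nat_lit 532) (nat_lit 15436168938) (nat_lit 608) (nat_lit 1132079244) (nat_lit 331) (nat_lit 5) (nat_lit 338) (nat_lit 5) (nat_lit 339) (nat_lit 5) (nat_lit 419) (nat_lit 395) (nat_lit 206)) (XT.nd (nat_lit 78) (nat_lit 0) (nat_lit 0) (XT.lf (nat_lit 0) (nat_lit 198587317) (nat_lit 608) (nat_lit 2186018119) (nat_lit 684) (nat_lit 28186399131) (nat_lit 322) (nat_lit 5) (nat_lit 330) (nat_lit 5) (nat_lit 331) (nat_lit 5) (nat_lit 420) (nat_lit 395) (nat_lit 205)) (XT.lf (nat_lit 0) (nat_lit 6259916690) (nat_lit 684) (nat_lit 13398947003) (nat_lit 76) (nat_lit 11418020693) (nat_lit 322) (nat_lit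 5) (nat_lit 331) (nat_lit 5) (nat_lit 323) (nat_lit 5) (nat_lit 421) (nat_lit 395) (nat_lit 204)))) (XT.nd (nat_lit 156) (nat_lit 532) (nat_lit 0) (XT.nd (nat_lit 78) (nat_lit 0) (nat_lit 0) (XT.lf (nat_lit 0) (nat_lit 4139472818) (nat_lit 532) (nat_lit 6170284411) (nat_lit 608) (nat_lit 21286435270) (nat_lit 315) (nat_lit 5) (nat_lit 322) (nat_lit 5) (nat_lit 323) (nat_lit 5) (nat_lit 422) (nat_lit 395) (nat_lit 203)) (XT.lf (nat_lit 0) (nat_lit 14688866071) (nat_lit 608) (nat_lit 9727332000) (nat_lit 76) (nat_lit 7708648595) (nat_lit 315) (nat_lit 5) (nat_lit 323) (nat_lit 5) (nat_lit 316) (nat_lit 5) (nat_lit 423) (nat_lit 395) (nat_lit 202))) (XT.nd (nat_lit 78) (nat_lit 0) (nat_lit 0) (XT.lf (nat_lit 0) (nat_lit 8638061023) (nat_lit 532) (nat_lit 10702396528) (nat_lit 608) (nat_lit 13324669624) (nat_lit 308) (nat_lit 5) (nat_lit 315) (nat_lit 5) (nat_lit 316) (nat_lit 5) (nat_lit 424) (nat_lit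 395) (nat_lit 201)) (XT.lf (nat_lit 0) (nat_lit 24260734325) (nat_lit 608) (nat_lit 5502124180) (nat_lit 76) (nat_lit 3454883468) (nat_lit 308) (nat_lit 5) (nat_lit 316) (nat_lit 5) (nat_lit 309) (nat_lit 5) (nat_lit 425) (nat_lit 395) (nat_lit 200))))) (XT.nd (nat_lit 312) (nat_lit 836) (nat_lit 0) (XT.nd (nat_lit 156) (nat_lit 988) (nat_lit 0) (XT.nd (nat_lit 78) (nat_lit 76) (nat_lit 0) (XT.lf (nat_lit 0) (nat_lit 13737369501) (nat_lit 456) (nat_lit 15826388353) (nat_lit 532) (nat_lit 4216123207) (nat_lit 302) (nat_lit 5) (nat_lit 308) (nat_lit 5) (nat_lit 309) (nat_lit 5) (nat_lit 426) (nat_lit 395) (nat_lit 199)) (XT.lf (nat_lit 0) (nat_lit 707229791) (nat_lit 532) (nat_lit 700665201) (nat_lit 76) (nat_lit 32949199264) (nat_lit 301) (nat_lit 5) (nat_lit 308) (nat_lit 5) (nat_lit 302) (nat_lit 5) (nat_lit 427) (nat_lit 395) (nat_lit 198))) (XT.nd (nat_lit 78) (nat_lit 456) (nat_lit 0) (XT.lf (nat_lit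 0) (nat_lit 6010271929) (nat_lit 608) (nat_lit 15518192106) (nat_lit 76) (nat_lit 13412405646) (nat_lit 294) (nat_lit 5) (nat_lit 302) (nat_lit 5) (nat_lit 295) (nat_lit 5) (nat_lit 428) (nat_lit 395) (nat_lit 197)) (XT.lf (nat_lit 0) (nat_lit 4696502637) (nat_lit 456) (nat_lit 6839408433) (nat_lit 532) (nat_lit 24004342125) (nat_lit 288) (nat_lit 5) (nat_lit 294) (nat_lit 5) (nat_lit 295) (nat_lit 5) (nat_lit 429) (nat_lit 395) (nat_lit 196)))) (XT.nd (nat_lit 156) (nat_lit 380) (nat_lit 0) (XT.nd (nat_lit 78) (nat_lit 456) (nat_lit 0) (XT.lf (nat_lit 0) (nat_lit 17462583793) (nat_lit 532) (nat_lit 10401728044) (nat_lit 76) (nat_lit 8286248446) (nat_lit 288) (nat_lit 5) (nat_lit 295) (nat_lit 5) (nat_lit 289) (nat_lit 5) (nat_lit 430) (nat_lit 395) (nat_lit 195)) (XT.lf (nat_lit 0) (nat_lit 10793235913) (nat_lit 456) (nat_lit 12942684961) (nat_lit 532) (nat_lit 13038189784) (nat_lit 282) (nat_lit 5)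 (nat_lit 288) (nat_lit 5) (nat_lit 289) (nat_lit 5) (nat_lit 431) (nat_lit 395) (nat_lit 194))) (XT.nd (nat_lit 78) (nat_lit 380) (nat_lit 0) (XT.lf (nat_lit 0) (nat_lit 30324296241) (nat_lit 532) (nat_lit 4603564680) (nat_lit 76) (nat_lit 2484701478) (nat_lit 282) (nat_lit 5) (nat_lit 289) (nat_lit 5) (nat_lit 283) (nat_lit 5) (nat_lit 432) (nat_lit 395) (nat_lit 193)) (XT.lf (nat_lit 0) (nat_lit 17627738389) (nat_lit 380) (nat_lit 19777688450) (nat_lit 456) (nat_lit 655887734) (nat_lit 277) (nat_lit 5) (nat_lit 282) (nat_lit 5) (nat_lit 283) (nat_lit 5) (nat_lit 433) (nat_lit 395) (nat_lit 192)))))) (XT.nd (nat_lit 546) (nat_lit 1748) (nat_lit 0) (XT.nd (nat_lit 234) (nat_lit 836) (nat_lit 0) (XT.nd (nat_lit 78) (nat_lit 380) (nat_lit 0) (XT.lf (nat_lit 0) (nat_lit 1867636568) (nat_lit 456) (nat_lit 4047768045) (nat_lit 532) (nat_lit 32810530388) (nat_lit 270) (nat_lit 5) (nat_lit 276) (nat_lit 5)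 (nat_lit 277) (nat_lit 5) (nat_lit 434) (nat_lit 395) (nat_lit 191)) (XT.nd (nat_lit 78) (nat_lit 380) (nat_lit 0) (XT.lf (nat_lit 0) (nat_lit 12993430208) (nat_lit 532) (nat_lit 14276133541) (nat_lit 76) (nat_lit 12131052159) (nat_lit 270) (nat_lit 5) (nat_lit 277) (nat_lit 5) (nat_lit 271) (nat_lit 5) (nat_lit 435) (nat_lit 395) (nat_lit 190)) (XT.lf (nat_lit 0) (nat_lit 9118227892) (nat_lit 380) (nat_lit 11290929546) (nat_lit 456) (nat_lit 19682618978) (nat_lit 265) (nat_lit 5) (nat_lit 270) (nat_lit 5) (nat_lit 271) (nat_lit 5) (nat_lit 436) (nat_lit 395) (nat_lit 189)))) (XT.nd (nat_lit 156) (nat_lit 456) (nat_lit 0) (XT.nd (nat_lit 78) (nat_lit 380) (nat_lit 0) (XT.lf (nat_lit 0) (nat_lit 28240279595) (nat_lit 456) (nat_lit 7346529144) (nat_lit 76) (nat_lit 5211075308) (nat_lit 265) (nat_lit 5) (nat_lit 271) (nat_lit 5) (nat_lit 266) (nat_lit 5) (nat_lit 437) (nat_lit 395) (nat_lit 188)) (XT.lf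 (nat_lit 0) (nat_lit 17210283046) (nat_lit 380) (nat_lit 19371013344) (nat_lit 456) (nat_lit 4935629687) (nat_lit 260) (nat_lit 5) (nat_lit 265) (nat_lit 5) (nat_lit 266) (nat_lit 5) (nat_lit 438) (nat_lit 395) (nat_lit 187))) (XT.nd (nat_lit 78) (nat_lit 0) (nat_lit 0) (XT.lf (nat_lit 0) (nat_lit 374560355) (nat_lit 380) (nat_lit 2559830906) (nat_lit 456) (nat_lit 39320019407) (nat_lit 254) (nat_lit 5) (nat_lit 259) (nat_lit 5) (nat_lit 260) (nat_lit 5) (nat_lit 439) (nat_lit 395) (nat_lit 186)) (XT.lf (nat_lit 0) (nat_lit 11328808822) (nat_lit 456) (nat_lit 16908436734) (nat_lit 76) (nat_lit 14763683296) (nat_lit 254) (nat_lit 5) (nat_lit 260) (nat_lit 5) (nat_lit 255) (nat_lit 5) (nat_lit 440) (nat_lit 395) (nat_lit 185))))) (XT.nd (nat_lit 312) (nat_lit 608) (nat_lit 0) (XT.nd (nat_lit 156) (nat_lit 760) (nat_lit 0) (XT.nd (nat_lit 78) (nat_lit 0) (nat_lit 0) (XT.lf (nat_lit 0) (nat_lit 8958574754)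 (nat_lit 380) (nat_lit 11125786000) (nat_lit 456) (nat_lit 23682202770) (nat_lit 249) (nat_lit 5) (nat_lit 254) (nat_lit 5) (nat_lit 255) (nat_lit 5) (nat_lit 441) (nat_lit 395) (nat_lit 184)) (XT.lf (nat_lit 0) (nat_lit 29335351945) (nat_lit 456) (nat_lit 8669044669) (nat_lit 76) (nat_lit 6543787443) (nat_lit 249) (nat_lit 5) (nat_lit 255) (nat_lit 5) (nat_lit 250) (nat_lit 5) (nat_lit 442) (nat_lit 395) (nat_lit 183))) (XT.nd (nat_lit 78) (nat_lit 456) (nat_lit 0) (XT.lf (nat_lit 0) (nat_lit 18502001061) (nat_lit 304) (nat_lit 20647810364) (nat_lit 380) (nat_lit 6194863624) (nat_lit 245) (nat_lit 5) (nat_lit 249) (nat_lit 5) (nat_lit 250) (nat_lit 5) (nat_lit 443) (nat_lit 395) (nat_lit 182)) (XT.lf (nat_lit 0) (nat_lit 479234262) (nat_lit 380) (nat_lit 2644997037) (nat_lit 456) (nat_lit 43037208665) (nat_lit 239) (nat_lit 5) (nat_lit 244) (nat_lit 5) (nat_lit 245) (nat_lit 5) (nat_lit 444) (nat_lit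 395) (nat_lit 181)))) (XT.nd (nat_lit 156) (nat_lit 304) (nat_lit 0) (XT.nd (nat_lit 78) (nat_lit 304) (nat_lit 0) (XT.lf (nat_lit 0) (nat_lit 13022915673) (nat_lit 456) (nat_lit 18043353323) (nat_lit 76) (nat_lit 15921862957) (nat_lit 239) (nat_lit 5) (nat_lit 245) (nat_lit 5) (nat_lit 240) (nat_lit 5) (nat_lit 445) (nat_lit 395) (nat_lit 180)) (XT.lf (nat_lit 0) (nat_lit 10602469754) (nat_lit 304) (nat_lit 12742220374) (nat_lit 380) (nat_lit 24491150687) (nat_lit 235) (nat_lit 5) (nat_lit 239) (nat_lit 5) (nat_lit 240) (nat_lit 5) (nat_lit 446) (nat_lit 395) (nat_lit 179))) (XT.nd (nat_lit 78) (nat_lit 304) (nat_lit 0) (XT.lf (nat_lit 0) (nat_lit 34217109602) (nat_lit 380) (nat_lit 8289640706) (nat_lit 76) (nat_lit 6195000879) (nat_lit 235) (nat_lit 5) (nat_lit 240) (nat_lit 5) (nat_lit 236) (nat_lit 5) (nat_lit 447) (nat_lit 395) (nat_lit 178)) (XT.lf (nat_lit 0) (nat_lit 21819176514) (nat_lit 304)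 (nat_lit 23930527060) (nat_lit 380) (nat_lit 3833915241) (nat_lit 231) (nat_lit 5) (nat_lit 235) (nat_lit 5) (nat_lit 236) (nat_lit 5) (nat_lit 448) (nat_lit 395) (nat_lit 177))))))) (XT.nd (nat_lit 1170) (nat_lit 2204) (nat_lit 0) (XT.nd (nat_lit 546) (nat_lit 1368) (nat_lit 0) (XT.nd (nat_lit 234) (nat_lit 608) (nat_lit 0) (XT.nd (nat_lit 78) (nat_lit 304) (nat_lit 0) (XT.lf (nat_lit 0) (nat_lit 2488034523) (nat_lit 304) (nat_lit 4615609067) (nat_lit 380) (nat_lit 43383043930) (nat_lit 226) (nat_lit 5) (nat_lit 230) (nat_lit 5) (nat_lit 231) (nat_lit 5) (nat_lit 449) (nat_lit 395) (nat_lit 176)) (XT.nd (nat_lit 78) (nat_lit 304) (nat_lit 0) (XT.lf (nat_lit 0) (nat_lit 18720412918) (nat_lit 380) (nat_lit 17381675680) (nat_lit 76) (nat_lit 15300776652) (nat_lit 226) (nat_lit 5) (nat_lit 231) (nat_lit 5) (nat_lit 227) (nat_lit 5) (nat_lit 450) (nat_lit 395) (nat_lit 175)) (XT.lf (nat_lit 0) (nat_lit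 14386055349) (nat_lit 304) (nat_lit 16481801634) (nat_lit 380) (nat_lit 21473206179) (nat_lit 222) (nat_lit 5) (nat_lit 226) (nat_lit 5) (nat_lit 227) (nat_lit 5) (nat_lit 451) (nat_lit 395) (nat_lit 174)))) (XT.nd (nat_lit 156) (nat_lit 304) (nat_lit 0) (XT.nd (nat_lit 78) (nat_lit 304) (nat_lit 0) (XT.lf (nat_lit 0) (nat_lit 43591012277) (nat_lit 380) (nat_lit 5879378097) (nat_lit 76) (nat_lit 3830678001) (nat_lit 222) (nat_lit 5) (nat_lit 227) (nat_lit 5) (nat_lit 223) (nat_lit 5) (nat_lit 452) (nat_lit 395) (nat_lit 173)) (XT.lf (nat_lit 0) (nat_lit 2789331697) (nat_lit 304) (nat_lit 26774613435) (nat_lit 76) (nat_lit 24712325996) (nat_lit 218) (nat_lit 5) (nat_lit 222) (nat_lit 5) (nat_lit 219) (nat_lit 5) (nat_lit 453) (nat_lit 395) (nat_lit 172))) (XT.nd (nat_lit 78) (nat_lit 0) (nat_lit 0) (XT.lf (nat_lit 0) (nat_lit 6758121618) (nat_lit 304) (nat_lit 8833600653) (nat_lit 380) (nat_lit 39682428006)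 (nat_lit 214) (nat_lit 5) (nat_lit 218) (nat_lit 5) (nat_lit 219) (nat_lit 5) (nat_lit 454) (nat_lit 395) (nat_lit 171)) (XT.lf (nat_lit 0) (nat_lit 29169847227) (nat_lit 380) (nat_lit 14573915614) (nat_lit 76) (nat_lit 12546453081) (nat_lit 214) (nat_lit 5) (nat_lit 219) (nat_lit 5) (nat_lit 215) (nat_lit 5) (nat_lit 455) (nat_lit 395) (nat_lit 170))))) (XT.nd (nat_lit 312) (nat_lit 532) (nat_lit 0) (XT.nd (nat_lit 156) (nat_lit 608) (nat_lit 0) (XT.nd (nat_lit 78) (nat_lit 0) (nat_lit 0) (XT.lf (nat_lit 0) (nat_lit 20700277084) (nat_lit 228) (nat_lit 22739811796) (nat_lit 304) (nat_lit 13888131467) (nat_lit 211) (nat_lit 5) (nat_lit 214) (nat_lit 5) (nat_lit 215) (nat_lit 5) (nat_lit 456) (nat_lit 395) (nat_lit 169)) (XT.lf (nat_lit 0) (nat_lit 57328813308) (nat_lit 228) (nat_lit 955143668) (nat_lit 304) (nat_lit 109042354) (nat_lit 211) (nat_lit 5) (nat_lit 214) (nat_lit 5) (nat_lit 215) (nat_lit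 5) (nat_lit 457) (nat_lit 395) (nat_lit 168))) (XT.nd (nat_lit 78) (nat_lit 228) (nat_lit 0) (XT.lf (nat_lit 0) (nat_lit 14365601374) (nat_lit 380) (nat_lit 23552953339) (nat_lit 76) (nat_lit 21550395611) (nat_lit 206) (nat_lit 5) (nat_lit 211) (nat_lit 5) (nat_lit 207) (nat_lit 5) (nat_lit 458) (nat_lit 395) (nat_lit 167)) (XT.lf (nat_lit 0) (nat_lit 13704726634) (nat_lit 228) (nat_lit 15718010336) (nat_lit 304) (nat_lit 31149897162) (nat_lit 203) (nat_lit 5) (nat_lit 206) (nat_lit 5) (nat_lit 207) (nat_lit 5) (nat_lit 459) (nat_lit 395) (nat_lit 166)))) (XT.nd (nat_lit 156) (nat_lit 304) (nat_lit 0) (XT.nd (nat_lit 78) (nat_lit 228) (nat_lit 0) (XT.lf (nat_lit 0) (nat_lit 45238905258) (nat_lit 304) (nat_lit 9213029135) (nat_lit 76) (nat_lit 7248274504) (nat_lit 203) (nat_lit 5) (nat_lit 207) (nat_lit 5) (nat_lit 204) (nat_lit 5) (nat_lit 460) (nat_lit 395) (nat_lit 165)) (XT.lf (nat_lit 0) (nat_lit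 29998716649) (nat_lit 228) (nat_lit 31973287066) (nat_lit 304) (nat_lit 876333834) (nat_lit 200) (nat_lit 5) (nat_lit 203) (nat_lit 5) (nat_lit 204) (nat_lit 5) (nat_lit 461) (nat_lit 395) (nat_lit 164))) (XT.nd (nat_lit 78) (nat_lit 0) (nat_lit 0) (XT.lf (nat_lit 0) (nat_lit 6525542938) (nat_lit 228) (nat_lit 8509643244) (nat_lit 304) (nat_lit 48986693102) (nat_lit 196) (nat_lit 5) (nat_lit 199) (nat_lit 5) (nat_lit 200) (nat_lit 5) (nat_lit 462) (nat_lit 395) (nat_lit 163)) (XT.lf (nat_lit 0) (nat_lit 31890424835) (nat_lit 304) (nat_lit 17630358178) (nat_lit 76) (nat_lit 15695064367) (nat_lit 196) (nat_lit 5) (nat_lit 200) (nat_lit 5) (nat_lit 197) (nat_lit 5) (nat_lit 463) (nat_lit 395) (nat_lit 162)))))) (XT.nd (nat_lit 624) (nat_lit 988) (nat_lit 0) (XT.nd (nat_lit 312) (nat_lit 456) (nat_lit 0) (XT.nd (nat_lit 156) (nat_lit 456) (nat_lit 0) (XT.nd (nat_lit 78) (nat_lit 76) (nat_lit 0) (XT.lf (nat_lit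 0) (nat_lit 23809473622) (nat_lit 228) (nat_lit 25753488632) (nat_lit 304) (nat_lit 16873323016) (nat_lit 193) (nat_lit 5) (nat_lit 196) (nat_lit 5) (nat_lit 197) (nat_lit 5) (nat_lit 464) (nat_lit 395) (nat_lit 161)) (XT.lf (nat_lit 0) (nat_lit 249244230) (nat_lit 304) (nat_lit 839033479) (nat_lit 76) (nat_lit 66599688237) (nat_lit 192) (nat_lit 5) (nat_lit 196) (nat_lit 5) (nat_lit 193) (nat_lit 5) (nat_lit 465) (nat_lit 395) (nat_lit 160))) (XT.nd (nat_lit 78) (nat_lit 228) (nat_lit 0) (XT.lf (nat_lit 0) (nat_lit 18196476917) (nat_lit 304) (nat_lit 26329899697) (nat_lit 76) (nat_lit 24426304785) (nat_lit 189) (nat_lit 5) (nat_lit 193) (nat_lit 5) (nat_lit 190) (nat_lit 5) (nat_lit 466) (nat_lit 395) (nat_lit 159)) (XT.lf (nat_lit 0) (nat_lit 17478350622) (nat_lit 228) (nat_lit 19389694206) (nat_lit 304) (nat_lit 33381715940) (nat_lit 186) (nat_lit 5) (nat_lit 189) (nat_lit 5) (nat_lit 190) (nat_lit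 5) (nat_lit 467) (nat_lit 395) (nat_lit 158)))) (XT.nd (nat_lit 156) (nat_lit 228) (nat_lit 0) (XT.nd (nat_lit 78) (nat_lit 228) (nat_lit 0) (XT.lf (nat_lit 0) (nat_lit 56429348135) (nat_lit 304) (nat_lit 8504746990) (nat_lit 76) (nat_lit 6641769741) (nat_lit 186) (nat_lit 5) (nat_lit 190) (nat_lit 5) (nat_lit 187) (nat_lit 5) (nat_lit 468) (nat_lit 395) (nat_lit 157)) (XT.lf (nat_lit 0) (nat_lit 4122583516) (nat_lit 228) (nat_lit 35335727372) (nat_lit 76) (nat_lit 33465658990) (nat_lit 183) (nat_lit 5) (nat_lit 186) (nat_lit 5) (nat_lit 184) (nat_lit 5) (nat_lit 469) (nat_lit 395) (nat_lit 156))) (XT.nd (nat_lit 78) (nat_lit 0) (nat_lit 0) (XT.lf (nat_lit 0) (nat_lit 10989686738) (nat_lit 228) (nat_lit 12866639715) (nat_lit 304) (nat_lit 50445962632) (nat_lit 180) (nat_lit 5) (nat_lit 183) (nat_lit 5) (nat_lit 184) (nat_lit 5) (nat_lit 470) (nat_lit 395) (nat_lit 155)) (XT.lf (nat_lit 0) (nat_lit 44680674429)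 (nat_lit 304) (nat_lit 16427549745) (nat_lit 76) (nat_lit 14598775910) (nat_lit 180) (nat_lit 5) (nat_lit 184) (nat_lit 5) (nat_lit 181) (nat_lit 5) (nat_lit 471) (nat_lit 395) (nat_lit 154))))) (XT.nd (nat_lit 312) (nat_lit 380) (nat_lit 0) (XT.nd (nat_lit 156) (nat_lit 152) (nat_lit 0) (XT.nd (nat_lit 78) (nat_lit 304) (nat_lit 0) (XT.lf (nat_lit 0) (nat_lit 32365934210) (nat_lit 152) (nat_lit 34201008424) (nat_lit 228) (nat_lit 10573794086) (nat_lit 178) (nat_lit 5) (nat_lit 180) (nat_lit 5) (nat_lit 181) (nat_lit 5) (nat_lit 472) (nat_lit 395) (nat_lit 153)) (XT.lf (nat_lit 0) (nat_lit 4327091243) (nat_lit 228) (nat_lit 6168282331) (nat_lit 304) (nat_lit 68112852036) (nat_lit 174) (nat_lit 5) (nat_lit 177) (nat_lit 5) (nat_lit 178) (nat_lit 5) (nat_lit 473) (nat_lit 395) (nat_lit 152))) (XT.nd (nat_lit 78) (nat_lit 152) (nat_lit 0) (XT.lf (nat_lit 0) (nat_lit 32657653141) (nat_lit 304) (nat_lit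 24616034204) (nat_lit 76) (nat_lit 22822704301) (nat_lit 174) (nat_lit 5) (nat_lit 178) (nat_lit 5) (nat_lit 175) (nat_lit 5) (nat_lit 474) (nat_lit 395) (nat_lit 151)) (XT.lf (nat_lit 0) (nat_lit 27002618161) (nat_lit 152) (nat_lit 28801545869) (nat_lit 228) (nat_lit 25815457744) (nat_lit 172) (nat_lit 5) (nat_lit 174) (nat_lit 5) (nat_lit 175) (nat_lit 5) (nat_lit 475) (nat_lit 395) (nat_lit 150)))) (XT.nd (nat_lit 156) (nat_lit 152) (nat_lit 0) (XT.nd (nat_lit 78) (nat_lit 228) (nat_lit 0) (XT.lf (nat_lit 0) (nat_lit 79899880973) (nat_lit 228) (nat_lit 2516415868) (nat_lit 76) (nat_lit 764607644) (nat_lit 172) (nat_lit 5) (nat_lit 175) (nat_lit 5) (nat_lit 173) (nat_lit 5) (nat_lit 476) (nat_lit 395) (nat_lit 149)) (XT.lf (nat_lit 0) (nat_lit 20330854847) (nat_lit 228) (nat_lit 33092822715) (nat_lit 76) (nat_lit 31335891706) (nat_lit 169) (nat_lit 5) (nat_lit 172) (nat_lit 5) (nat_lit 170) (nat_lit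 5) (nat_lit 477) (nat_lit 395) (nat_lit 148))) (XT.nd (nat_lit 78) (nat_lit 0) (nat_lit 0) (XT.lf (nat_lit 0) (nat_lit 21527303635) (nat_lit 152) (nat_lit 23289208222) (nat_lit 228) (nat_lit 41561166546) (nat_lit 167) (nat_lit 5) (nat_lit 169) (nat_lit 5) (nat_lit 170) (nat_lit 5) (nat_lit 478) (nat_lit 395) (nat_lit 147)) (XT.lf (nat_lit 0) (nat_lit 70447488093) (nat_lit 228) (nat_lit 9649897643) (nat_lit 76) (nat_lit 7934622591) (nat_lit 167) (nat_lit 5) (nat_lit 170) (nat_lit 5) (nat_lit 168) (nat_lit 5) (nat_lit 479) (nat_lit 395) (nat_lit 146))))))))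
noncomputable def xc211 : XT := (XT.nd (nat_lit 48516) (nat_lit 0) (nat_lit 5244) (XT.nd (nat_lit 47346) (nat_lit 0) (nat_lit 13224) (XT.nd (nat_lit 46722) (nat_lit 0) (nat_lit 16568) (XT.nd (nat_lit 234) (nat_lit 380) (nat_lit 0) (XT.nd (nat_lit 78) (nat_lit 152) (nat_lit 0) (XT.lf (nat_lit 0) (nat_lit 7669414212) (nat_lit 228) (nat_lit 41881713494) (nat_lit 76) (nat_lit 40161886914) (nat_lit 164) (nat_lit 5) (nat_lit 167) (nat_lit 5) (nat_lit 165) (nat_lit 5) (nat_lit 480) (nat_lit 395) (nat_lit 145)) (XT.nd (nat_lit 78) (nat_lit 0) (nat_lit 0) (XT.lf (nat_lit 0) (nat_lit 15926806665) (nat_lit 152) (nat_lit 17651052204) (nat_lit 228) (nat_lit 57853859398) (nat_lit 162) (nat_lit 5) (nat_lit 164) (nat_lit 5) (nat_lit 165) (nat_lit 5) (nat_lit 481) (nat_lit 395) (nat_lit 144)) (XT.lf (nat_lit 0) (nat_lit 60835657694) (nat_lit 228) (nat_lit 17013676197) (nat_lit 76) (nat_lit 15335486108) (nat_lit 162)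 (nat_lit 5) (nat_lit 165) (nat_lit 5) (nat_lit 163) (nat_lit 5) (nat_lit 482) (nat_lit 395) (nat_lit 143)))) (XT.nd (nat_lit 46332) (nat_lit 0) (nat_lit 16492) (XT.nd (nat_lit 78) (nat_lit 228) (nat_lit 0) (XT.lf (nat_lit 0) (nat_lit 43912343318) (nat_lit 152) (nat_lit 45594577380) (nat_lit 228) (nat_lit 5465722179) (nat_lit 160) (nat_lit 5) (nat_lit 162) (nat_lit 5) (nat_lit 163) (nat_lit 5) (nat_lit 483) (nat_lit 395) (nat_lit 142)) (XT.lf (nat_lit 0) (nat_lit 10187338206) (nat_lit 152) (nat_lit 11873498456) (nat_lit 228) (nat_lit 74738746092) (nat_lit 157) (nat_lit 5) (nat_lit 159) (nat_lit 5) (nat_lit 160) (nat_lit 5) (nat_lit 484) (nat_lit 395) (nat_lit 141))) (XT.nd (nat_lit 78) (nat_lit 0) (nat_lit 0) (XT.lf (nat_lit 0) (nat_lit 5078590329) (nat_lit 1292) (nat_lit 2796021981) (nat_lit 1292) (nat_lit 2796021981) (nat_lit 374) (nat_lit 3) (nat_lit 391) (nat_lit 3) (nat_lit 391) (nat_lit 5) (nat_lit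 396) (nat_lit 396) (nat_lit 228)) (XT.lf (nat_lit 76) (nat_lit 5179664235) (nat_lit 0) (nat_lit 5324245670) (nat_lit 1292) (nat_lit 11151646562) (nat_lit 375) (nat_lit 5) (nat_lit 374) (nat_lit 3) (nat_lit 391) (nat_lit 5) (nat_lit 397) (nat_lit 396) (nat_lit 227))))) (XT.nd (nat_lit 312) (nat_lit 0) (nat_lit 152) (XT.nd (nat_lit 156) (nat_lit 0) (nat_lit 76) (XT.nd (nat_lit 78) (nat_lit 0) (nat_lit 0) (XT.lf (nat_lit 0) (nat_lit 10964461436) (nat_lit 1216) (nat_lit 5644180566) (nat_lit 1292) (nat_lit 5367528372) (nat_lit 375) (nat_lit 5) (nat_lit 391) (nat_lit 5) (nat_lit 392) (nat_lit 5) (nat_lit 398) (nat_lit 396) (nat_lit 226)) (XT.lf (nat_lit 76) (nat_lit 5565298262) (nat_lit 0) (nat_lit 5974262951) (nat_lit 1292) (nat_lit 10763819534) (nat_lit 376) (nat_lit 5) (nat_lit 375) (nat_lit 5) (nat_lit 392) (nat_lit 5) (nat_lit 399) (nat_lit 396) (nat_lit 225))) (XT.nd (nat_lit 78) (nat_lit 0) (nat_lit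 0) (XT.lf (nat_lit 0) (nat_lit 12232008064) (nat_lit 1216) (nat_lit 5463583428) (nat_lit 1292) (nat_lit 4941813117) (nat_lit 376) (nat_lit 5) (nat_lit 392) (nat_lit 5) (nat_lit 393) (nat_lit 5) (nat_lit 400) (nat_lit 396) (nat_lit 224)) (XT.lf (nat_lit 76) (nat_lit 6208013431) (nat_lit 0) (nat_lit 6850868417) (nat_lit 1292) (nat_lit 9919157733) (nat_lit 377) (nat_lit 5) (nat_lit 376) (nat_lit 5) (nat_lit 393) (nat_lit 5) (nat_lit 401) (nat_lit 396) (nat_lit 223)))) (XT.nd (nat_lit 156) (nat_lit 0) (nat_lit 76) (XT.nd (nat_lit 78) (nat_lit 0) (nat_lit 0) (XT.lf (nat_lit 0) (nat_lit 14002765227) (nat_lit 1216) (nat_lit 5030813625) (nat_lit 1292) (nat_lit 4292548650) (nat_lit 377) (nat_lit 5) (nat_lit 393) (nat_lit 5) (nat_lit 394) (nat_lit 5) (nat_lit 402) (nat_lit 396) (nat_lit 222)) (XT.lf (nat_lit 76) (nat_lit 7128679798) (nat_lit 0) (nat_lit 7977754404) (nat_lit 1292) (nat_lit 8574279782) (nat_lit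 378) (nat_lit 5) (nat_lit 377) (nat_lit 5) (nat_lit 394) (nat_lit 5) (nat_lit 403) (nat_lit 396) (nat_lit 221))) (XT.nd (nat_lit 78) (nat_lit 0) (nat_lit 0) (XT.lf (nat_lit 0) (nat_lit 16322535474) (nat_lit 1216) (nat_lit 4324907953) (nat_lit 1292) (nat_lit 3396114971) (nat_lit 378) (nat_lit 5) (nat_lit 394) (nat_lit 5) (nat_lit 395) (nat_lit 5) (nat_lit 404) (nat_lit 396) (nat_lit 220)) (XT.lf (nat_lit 76) (nat_lit 8349775522) (nat_lit 0) (nat_lit 9379975014) (nat_lit 1292) (nat_lit 6682898684) (nat_lit 379) (nat_lit 5) (nat_lit 378) (nat_lit 5) (nat_lit 395) (nat_lit 5) (nat_lit 405) (nat_lit 396) (nat_lit 219)))))) (XT.nd (nat_lit 546) (nat_lit 2432) (nat_lit 0) (XT.nd (nat_lit 234) (nat_lit 1216) (nat_lit 0) (XT.nd (nat_lit 78) (nat_lit 0) (nat_lit 0) (XT.lf (nat_lit 0) (nat_lit 19240177517) (nat_lit 1216) (nat_lit 3323292214) (nat_lit 1292) (nat_lit 2227513171) (nat_lit 379) (nat_lit 5) (nat_lit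 395) (nat_lit 5) (nat_lit 396) (nat_lit 5) (nat_lit 406) (nat_lit 396) (nat_lit 218)) (XT.nd (nat_lit 78) (nat_lit 0) (nat_lit 76) (XT.lf (nat_lit 76) (nat_lit 9895478736) (nat_lit 0) (nat_lit 11084059100) (nat_lit 1292) (nat_lit 4195620144) (nat_lit 380) (nat_lit 5) (nat_lit 379) (nat_lit 5) (nat_lit 396) (nat_lit 5) (nat_lit 407) (nat_lit 396) (nat_lit 217)) (XT.lf (nat_lit 0) (nat_lit 22807815902) (nat_lit 1216) (nat_lit 2001687981) (nat_lit 1292) (nat_lit 760252317) (nat_lit 380) (nat_lit 5) (nat_lit 396) (nat_lit 5) (nat_lit 397) (nat_lit 5) (nat_lit 408) (nat_lit 396) (nat_lit 216)))) (XT.nd (nat_lit 156) (nat_lit 0) (nat_lit 76) (XT.nd (nat_lit 78) (nat_lit 1292) (nat_lit 0) (XT.lf (nat_lit 76) (nat_lit 11791766252) (nat_lit 0) (nat_lit 13118128271) (nat_lit 1292) (nat_lit 1059729280) (nat_lit 381) (nat_lit 5) (nat_lit 380) (nat_lit 5) (nat_lit 397) (nat_lit 5) (nat_lit 409) (nat_lit 396) (nat_lit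 215)) (XT.lf (nat_lit 0) (nat_lit 696336800) (nat_lit 1292) (nat_lit 350974379) (nat_lit 1368) (nat_lit 25333486578) (nat_lit 363) (nat_lit 5) (nat_lit 380) (nat_lit 5) (nat_lit 381) (nat_lit 5) (nat_lit 410) (nat_lit 396) (nat_lit 214))) (XT.nd (nat_lit 78) (nat_lit 0) (nat_lit 0) (XT.lf (nat_lit 0) (nat_lit 2726767064) (nat_lit 1292) (nat_lit 12757718321) (nat_lit 1368) (nat_lit 11312217324) (nat_lit 364) (nat_lit 5) (nat_lit 381) (nat_lit 5) (nat_lit 382) (nat_lit 5) (nat_lit 411) (nat_lit 396) (nat_lit 213)) (XT.lf (nat_lit 76) (nat_lit 1661597418) (nat_lit 0) (nat_lit 3182554381) (nat_lit 1368) (nat_lit 22380151763) (nat_lit 365) (nat_lit 5) (nat_lit 364) (nat_lit 5) (nat_lit 382) (nat_lit 5) (nat_lit 412) (nat_lit 396) (nat_lit 212))))) (XT.nd (nat_lit 312) (nat_lit 1140) (nat_lit 0) (XT.nd (nat_lit 156) (nat_lit 608) (nat_lit 0) (XT.nd (nat_lit 78) (nat_lit 836) (nat_lit 0) (XT.lf (nat_lit 0)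 (nat_lit 7242577848) (nat_lit 1292) (nat_lit 10981705365) (nat_lit 76) (nat_lit 9433923634) (nat_lit 365) (nat_lit 5) (nat_lit 382) (nat_lit 5) (nat_lit 366) (nat_lit 5) (nat_lit 413) (nat_lit 396) (nat_lit 211)) (XT.lf (nat_lit 0) (nat_lit 4081592690) (nat_lit 836) (nat_lit 5698427320) (nat_lit 912) (nat_lit 18323095321) (nat_lit 354) (nat_lit 5) (nat_lit 365) (nat_lit 5) (nat_lit 366) (nat_lit 5) (nat_lit 414) (nat_lit 396) (nat_lit 210))) (XT.nd (nat_lit 78) (nat_lit 608) (nat_lit 0) (XT.lf (nat_lit 0) (nat_lit 12571216488) (nat_lit 912) (nat_lit 8809828494) (nat_lit 76) (nat_lit 7174997155) (nat_lit 354) (nat_lit 5) (nat_lit 366) (nat_lit 5) (nat_lit 355) (nat_lit 5) (nat_lit 415) (nat_lit 396) (nat_lit 209)) (XT.lf (nat_lit 0) (nat_lit 6933849766) (nat_lit 608) (nat_lit 8631874289) (nat_lit 684) (nat_lit 13453245438) (nat_lit 346) (nat_lit 5) (nat_lit 354) (nat_lit 5) (nat_lit 355) (nat_lit 5)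 (nat_lit 416) (nat_lit 396) (nat_lit 208)))) (XT.nd (nat_lit 156) (nat_lit 532) (nat_lit 0) (XT.nd (nat_lit 78) (nat_lit 608) (nat_lit 0) (XT.lf (nat_lit 0) (nat_lit 18779739837) (nat_lit 684) (nat_lit 6210143888) (nat_lit 76) (nat_lit 4502010754) (nat_lit 346) (nat_lit 5) (nat_lit 355) (nat_lit 5) (nat_lit 347) (nat_lit 5) (nat_lit 417) (nat_lit 396) (nat_lit 207)) (XT.lf (nat_lit 0) (nat_lit 10252452276) (nat_lit 608) (nat_lit 12018416126) (nat_lit 684) (nat_lit 7702718044) (nat_lit 338) (nat_lit 5) (nat_lit 346) (nat_lit 5) (nat_lit 347) (nat_lit 5) (nat_lit 418) (nat_lit 396) (nat_lit 206))) (XT.nd (nat_lit 78) (nat_lit 532) (nat_lit 0) (XT.lf (nat_lit 0) (nat_lit 25939706086) (nat_lit 684) (nat_lit 3148436416) (nat_lit 76) (nat_lit 1379397410) (nat_lit 338) (nat_lit 5) (nat_lit 347) (nat_lit 5) (nat_lit 339) (nat_lit 5) (nat_lit 419) (nat_lit 396) (nat_lit 205)) (XT.lf (nat_lit 0) (nat_lit 14073882281)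 (nat_lit 532) (nat_lit 15895844584) (nat_lit 608) (nat_lit 999051581) (nat_lit 331) (nat_lit 5) (nat_lit 338) (nat_lit 5) (nat_lit 339) (nat_lit 5) (nat_lit 420) (nat_lit 396) (nat_lit 204))))))) (XT.nd (nat_lit 1170) (nat_lit 3344) (nat_lit 0) (XT.nd (nat_lit 546) (nat_lit 2432) (nat_lit 0) (XT.nd (nat_lit 234) (nat_lit 988) (nat_lit 0) (XT.nd (nat_lit 78) (nat_lit 532) (nat_lit 0) (XT.lf (nat_lit 0) (nat_lit 371684343) (nat_lit 608) (nat_lit 2245028488) (nat_lit 684) (nat_lit 28866604796) (nat_lit 322) (nat_lit 5) (nat_lit 330) (nat_lit 5) (nat_lit 331) (nat_lit 5) (nat_lit 421) (nat_lit 396) (nat_lit 203)) (XT.nd (nat_lit 78) (nat_lit 532) (nat_lit 0) (XT.lf (nat_lit 0) (nat_lit 6603667966) (nat_lit 684) (nat_lit 13634028687) (nat_lit 76) (nat_lit 11766815651) (nat_lit 322) (nat_lit 5) (nat_lit 331) (nat_lit 5) (nat_lit 323) (nat_lit 5) (nat_lit 422) (nat_lit 396) (nat_lit 202)) (XT.lf (nat_lit 0)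 (nat_lit 4428907584) (nat_lit 532) (nat_lit 6343142284) (nat_lit 608) (nat_lit 21767438409) (nat_lit 315) (nat_lit 5) (nat_lit 322) (nat_lit 5) (nat_lit 323) (nat_lit 5) (nat_lit 423) (nat_lit 396) (nat_lit 201)))) (XT.nd (nat_lit 156) (nat_lit 456) (nat_lit 0) (XT.nd (nat_lit 78) (nat_lit 532) (nat_lit 0) (XT.lf (nat_lit 0) (nat_lit 15278189998) (nat_lit 608) (nat_lit 9854372524) (nat_lit 76) (nat_lit 7951569805) (nat_lit 315) (nat_lit 5) (nat_lit 323) (nat_lit 5) (nat_lit 316) (nat_lit 5) (nat_lit 424) (nat_lit 396) (nat_lit 200)) (XT.lf (nat_lit 0) (nat_lit 9060366804) (nat_lit 532) (nat_lit 11006201007) (nat_lit 608) (nat_lit 13574136283) (nat_lit 308) (nat_lit 5) (nat_lit 315) (nat_lit 5) (nat_lit 316) (nat_lit 5) (nat_lit 425) (nat_lit 396) (nat_lit 199))) (XT.nd (nat_lit 78) (nat_lit 456) (nat_lit 0) (XT.lf (nat_lit 0) (nat_lit 25130364625) (nat_lit 608) (nat_lit 5504688039) (nat_lit 76) (nat_lit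 3574967319) (nat_lit 308) (nat_lit 5) (nat_lit 316) (nat_lit 5) (nat_lit 309) (nat_lit 5) (nat_lit 426) (nat_lit 396) (nat_lit 198)) (XT.lf (nat_lit 0) (nat_lit 14310397316) (nat_lit 456) (nat_lit 16279497940) (nat_lit 532) (nat_lit 4199205497) (nat_lit 302) (nat_lit 5) (nat_lit 308) (nat_lit 5) (nat_lit 309) (nat_lit 5) (nat_lit 427) (nat_lit 396) (nat_lit 197))))) (XT.nd (nat_lit 312) (nat_lit 1368) (nat_lit 0) (XT.nd (nat_lit 156) (nat_lit 456) (nat_lit 0) (XT.nd (nat_lit 78) (nat_lit 532) (nat_lit 0) (XT.lf (nat_lit 0) (nat_lit 864954576) (nat_lit 532) (nat_lit 562748257) (nat_lit 76) (nat_lit 33956009015) (nat_lit 301) (nat_lit 5) (nat_lit 308) (nat_lit 5) (nat_lit 302) (nat_lit 5) (nat_lit 428) (nat_lit 396) (nat_lit 196)) (XT.lf (nat_lit 0) (nat_lit 6324849141) (nat_lit 608) (nat_lit 15822562131) (nat_lit 76) (nat_lit 13837656428) (nat_lit 294) (nat_lit 5) (nat_lit 302) (nat_lit 5) (nat_lit 295)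 (nat_lit 5) (nat_lit 429) (nat_lit 396) (nat_lit 195))) (XT.nd (nat_lit 78) (nat_lit 0) (nat_lit 0) (XT.lf (nat_lit 0) (nat_lit 4996993300) (nat_lit 456) (nat_lit 7016887538) (nat_lit 532) (nat_lit 24588623180) (nat_lit 288) (nat_lit 5) (nat_lit 294) (nat_lit 5) (nat_lit 295) (nat_lit 5) (nat_lit 430) (nat_lit 396) (nat_lit 194)) (XT.lf (nat_lit 0) (nat_lit 18114770758) (nat_lit 532) (nat_lit 10555249733) (nat_lit 76) (nat_lit 8561207317) (nat_lit 288) (nat_lit 5) (nat_lit 295) (nat_lit 5) (nat_lit 289) (nat_lit 5) (nat_lit 431) (nat_lit 396) (nat_lit 193)))) (XT.nd (nat_lit 156) (nat_lit 912) (nat_lit 0) (XT.nd (nat_lit 78) (nat_lit 0) (nat_lit 0) (XT.lf (nat_lit 0) (nat_lit 11274008926) (nat_lit 456) (nat_lit 13300070806) (nat_lit 532) (nat_lit 13299471809) (nat_lit 282) (nat_lit 5) (nat_lit 288) (nat_lit 5) (nat_lit 289) (nat_lit 5) (nat_lit 432) (nat_lit 396) (nat_lit 192)) (XT.lf (nat_lit 0) (nat_lit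 31356722420) (nat_lit 532) (nat_lit 4585883859) (nat_lit 76) (nat_lit 2588652073) (nat_lit 282) (nat_lit 5) (nat_lit 289) (nat_lit 5) (nat_lit 283) (nat_lit 5) (nat_lit 433) (nat_lit 396) (nat_lit 191))) (XT.nd (nat_lit 78) (nat_lit 532) (nat_lit 0) (XT.lf (nat_lit 0) (nat_lit 18310830971) (nat_lit 380) (nat_lit 20337365103) (nat_lit 456) (nat_lit 551339744) (nat_lit 277) (nat_lit 5) (nat_lit 282) (nat_lit 5) (nat_lit 283) (nat_lit 5) (nat_lit 434) (nat_lit 396) (nat_lit 190)) (XT.lf (nat_lit 0) (nat_lit 2078814042) (nat_lit 456) (nat_lit 4133797054) (nat_lit 532) (nat_lit 33671509624) (nat_lit 270) (nat_lit 5) (nat_lit 276) (nat_lit 5) (nat_lit 277) (nat_lit 5) (nat_lit 435) (nat_lit 396) (nat_lit 189)))))) (XT.nd (nat_lit 624) (nat_lit 1748) (nat_lit 0) (XT.nd (nat_lit 312) (nat_lit 836) (nat_lit 0) (XT.nd (nat_lit 156) (nat_lit 380) (nat_lit 0) (XT.nd (nat_lit 78) (nat_lit 380) (nat_lit 0) (XT.lf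 (nat_lit 0) (nat_lit 13499820173) (nat_lit 532) (nat_lit 14550630768) (nat_lit 76) (nat_lit 12528685832) (nat_lit 270) (nat_lit 5) (nat_lit 277) (nat_lit 5) (nat_lit 271) (nat_lit 5) (nat_lit 436) (nat_lit 396) (nat_lit 188)) (XT.lf (nat_lit 0) (nat_lit 9544053795) (nat_lit 380) (nat_lit 11592033485) (nat_lit 456) (nat_lit 20155002776) (nat_lit 265) (nat_lit 5) (nat_lit 270) (nat_lit 5) (nat_lit 271) (nat_lit 5) (nat_lit 437) (nat_lit 396) (nat_lit 187))) (XT.nd (nat_lit 78) (nat_lit 380) (nat_lit 0) (XT.lf (nat_lit 0) (nat_lit 29199154762) (nat_lit 456) (nat_lit 7416092927) (nat_lit 76) (nat_lit 5403222876) (nat_lit 265) (nat_lit 5) (nat_lit 271) (nat_lit 5) (nat_lit 266) (nat_lit 5) (nat_lit 438) (nat_lit 396) (nat_lit 186)) (XT.lf (nat_lit 0) (nat_lit 17875944883) (nat_lit 380) (nat_lit 19912640423) (nat_lit 456) (nat_lit 4970553052) (nat_lit 260) (nat_lit 5) (nat_lit 265) (nat_lit 5) (nat_lit 266)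 (nat_lit 5) (nat_lit 439) (nat_lit 396) (nat_lit 185)))) (XT.nd (nat_lit 156) (nat_lit 380) (nat_lit 0) (XT.nd (nat_lit 78) (nat_lit 0) (nat_lit 0) (XT.lf (nat_lit 0) (nat_lit 535872494) (nat_lit 380) (nat_lit 2595699576) (nat_lit 456) (nat_lit 40387196446) (nat_lit 254) (nat_lit 5) (nat_lit 259) (nat_lit 5) (nat_lit 260) (nat_lit 5) (nat_lit 440) (nat_lit 396) (nat_lit 184)) (XT.lf (nat_lit 0) (nat_lit 11775025008) (nat_lit 456) (nat_lit 17267188484) (nat_lit 76) (nat_lit 15245552667) (nat_lit 254) (nat_lit 5) (nat_lit 260) (nat_lit 5) (nat_lit 255) (nat_lit 5) (nat_lit 441) (nat_lit 396) (nat_lit 183))) (XT.nd (nat_lit 78) (nat_lit 0) (nat_lit 0) (XT.lf (nat_lit 0) (nat_lit 9374377453) (nat_lit 380) (nat_lit 11417181908) (nat_lit 456) (nat_lit 24284861036) (nat_lit 249) (nat_lit 5) (nat_lit 254) (nat_lit 5) (nat_lit 255) (nat_lit 5) (nat_lit 442) (nat_lit 396) (nat_lit 182)) (XT.lf (nat_lit 0) (nat_lit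 30317427206) (nat_lit 456) (nat_lit 8783700350) (nat_lit 76) (nat_lit 6780441582) (nat_lit 249) (nat_lit 5) (nat_lit 255) (nat_lit 5) (nat_lit 250) (nat_lit 5) (nat_lit 443) (nat_lit 396) (nat_lit 181))))) (XT.nd (nat_lit 312) (nat_lit 684) (nat_lit 0) (XT.nd (nat_lit 156) (nat_lit 304) (nat_lit 0) (XT.nd (nat_lit 78) (nat_lit 456) (nat_lit 0) (XT.lf (nat_lit 0) (nat_lit 19201051108) (nat_lit 304) (nat_lit 21223682179) (nat_lit 380) (nat_lit 6277269187) (nat_lit 245) (nat_lit 5) (nat_lit 249) (nat_lit 5) (nat_lit 250) (nat_lit 5) (nat_lit 444) (nat_lit 396) (nat_lit 180)) (XT.lf (nat_lit 0) (nat_lit 638188344) (nat_lit 380) (nat_lit 2679627476) (nat_lit 456) (nat_lit 44225471617) (nat_lit 239) (nat_lit 5) (nat_lit 244) (nat_lit 5) (nat_lit 245) (nat_lit 5) (nat_lit 445) (nat_lit 396) (nat_lit 179))) (XT.nd (nat_lit 78) (nat_lit 304) (nat_lit 0) (XT.lf (nat_lit 0) (nat_lit 13510969601) (nat_lit 456)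 (nat_lit 18441796729) (nat_lit 76) (nat_lit 16442088588) (nat_lit 239) (nat_lit 5) (nat_lit 245) (nat_lit 5) (nat_lit 240) (nat_lit 5) (nat_lit 446) (nat_lit 396) (nat_lit 178)) (XT.lf (nat_lit 0) (nat_lit 11062000480) (nat_lit 304) (nat_lit 13078920661) (nat_lit 380) (nat_lit 25127118188) (nat_lit 235) (nat_lit 5) (nat_lit 239) (nat_lit 5) (nat_lit 240) (nat_lit 5) (nat_lit 447) (nat_lit 396) (nat_lit 177)))) (XT.nd (nat_lit 156) (nat_lit 380) (nat_lit 0) (XT.nd (nat_lit 78) (nat_lit 304) (nat_lit 0) (XT.lf (nat_lit 0) (nat_lit 35337145532) (nat_lit 380) (nat_lit 8398625722) (nat_lit 76) (nat_lit 6424226790) (nat_lit 235) (nat_lit 5) (nat_lit 240) (nat_lit 5) (nat_lit 236) (nat_lit 5) (nat_lit 448) (nat_lit 396) (nat_lit 176)) (XT.lf (nat_lit 0) (nat_lit 22612086366) (nat_lit 304) (nat_lit 24602236753) (nat_lit 380) (nat_lit 3854040407) (nat_lit 231) (nat_lit 5) (nat_lit 235) (nat_lit 5) (nat_lit 236)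 (nat_lit 5) (nat_lit 449) (nat_lit 396) (nat_lit 175))) (XT.nd (nat_lit 78) (nat_lit 0) (nat_lit 0) (XT.lf (nat_lit 0) (nat_lit 2701487430) (nat_lit 304) (nat_lit 4706930492) (nat_lit 380) (nat_lit 44590120272) (nat_lit 226) (nat_lit 5) (nat_lit 230) (nat_lit 5) (nat_lit 231) (nat_lit 5) (nat_lit 450) (nat_lit 396) (nat_lit 174)) (XT.lf (nat_lit 0) (nat_lit 19371460479) (nat_lit 380) (nat_lit 17766127292) (nat_lit 76) (nat_lit 15804680381) (nat_lit 226) (nat_lit 5) (nat_lit 231) (nat_lit 5) (nat_lit 227) (nat_lit 5) (nat_lit 451) (nat_lit 396) (nat_lit 173))))))))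
noncomputable def xc212 : XT := (XT.nd (nat_lit 2340) (nat_lit 152) (nat_lit 0) (XT.nd (nat_lit 1170) (nat_lit 2128) (nat_lit 0) (XT.nd (nat_lit 546) (nat_lit 1444) (nat_lit 0) (XT.nd (nat_lit 234) (nat_lit 532) (nat_lit 0) (XT.nd (nat_lit 78) (nat_lit 304) (nat_lit 0) (XT.lf (nat_lit 0) (nat_lit 14953292544) (nat_lit 304) (nat_lit 16928734419) (nat_lit 380) (nat_lit 22026624066) (nat_lit 222) (nat_lit 5) (nat_lit 226) (nat_lit 5) (nat_lit 227) (nat_lit 5) (nat_lit 452) (nat_lit 396) (nat_lit 172)) (XT.nd (nat_lit 78) (nat_lit 304) (nat_lit 0) (XT.lf (nat_lit 0) (nat_lit 44984753396) (nat_lit 380) (nat_lit 5921931518) (nat_lit 76) (nat_lit 3990835189) (nat_lit 222) (nat_lit 5) (nat_lit 227) (nat_lit 5) (nat_lit 223) (nat_lit 5) (nat_lit 453) (nat_lit 396) (nat_lit 171)) (XT.lf (nat_lit 0) (nat_lit 2958630455) (nat_lit 304) (nat_lit 27443631973) (nat_lit 76) (nat_lit 25499728269) (nat_lit 218) (nat_lit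 5) (nat_lit 222) (nat_lit 5) (nat_lit 219) (nat_lit 5) (nat_lit 454) (nat_lit 396) (nat_lit 170)))) (XT.nd (nat_lit 156) (nat_lit 228) (nat_lit 0) (XT.nd (nat_lit 78) (nat_lit 0) (nat_lit 0) (XT.lf (nat_lit 0) (nat_lit 7093769251) (nat_lit 304) (nat_lit 9050107298) (nat_lit 380) (nat_lit 40785966158) (nat_lit 214) (nat_lit 5) (nat_lit 218) (nat_lit 5) (nat_lit 219) (nat_lit 5) (nat_lit 455) (nat_lit 396) (nat_lit 169)) (XT.lf (nat_lit 0) (nat_lit 30127339571) (nat_lit 380) (nat_lit 14880094405) (nat_lit 76) (nat_lit 12969016516) (nat_lit 214) (nat_lit 5) (nat_lit 219) (nat_lit 5) (nat_lit 215) (nat_lit 5) (nat_lit 456) (nat_lit 396) (nat_lit 168))) (XT.nd (nat_lit 78) (nat_lit 0) (nat_lit 0) (XT.lf (nat_lit 0) (nat_lit 21451039381) (nat_lit 228) (nat_lit 23373496457) (nat_lit 304) (nat_lit 14221093791) (nat_lit 211) (nat_lit 5) (nat_lit 214) (nat_lit 5) (nat_lit 215) (nat_lit 5) (nat_lit 457) (nat_lit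 396) (nat_lit 167)) (XT.lf (nat_lit 0) (nat_lit 59174652449) (nat_lit 228) (nat_lit 936701189) (nat_lit 304) (nat_lit 31069334) (nat_lit 211) (nat_lit 5) (nat_lit 214) (nat_lit 5) (nat_lit 215) (nat_lit 5) (nat_lit 458) (nat_lit 396) (nat_lit 166))))) (XT.nd (nat_lit 312) (nat_lit 608) (nat_lit 0) (XT.nd (nat_lit 156) (nat_lit 228) (nat_lit 0) (XT.nd (nat_lit 78) (nat_lit 228) (nat_lit 0) (XT.lf (nat_lit 0) (nat_lit 14875581405) (nat_lit 380) (nat_lit 24131334895) (nat_lit 76) (nat_lit 22243732173) (nat_lit 206) (nat_lit 5) (nat_lit 211) (nat_lit 5) (nat_lit 207) (nat_lit 5) (nat_lit 459) (nat_lit 396) (nat_lit 165)) (XT.lf (nat_lit 0) (nat_lit 14242818545) (nat_lit 228) (nat_lit 16140531526) (nat_lit 304) (nat_lit 32004125155) (nat_lit 203) (nat_lit 5) (nat_lit 206) (nat_lit 5) (nat_lit 207) (nat_lit 5) (nat_lit 460) (nat_lit 396) (nat_lit 164))) (XT.nd (nat_lit 78) (nat_lit 228) (nat_lit 0) (XT.lf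 (nat_lit 0) (nat_lit 46672191050) (nat_lit 304) (nat_lit 9364355116) (nat_lit 76) (nat_lit 7512385439) (nat_lit 203) (nat_lit 5) (nat_lit 207) (nat_lit 5) (nat_lit 204) (nat_lit 5) (nat_lit 461) (nat_lit 396) (nat_lit 163)) (XT.lf (nat_lit 0) (nat_lit 31022516915) (nat_lit 228) (nat_lit 32883738912) (nat_lit 304) (nat_lit 825279089) (nat_lit 200) (nat_lit 5) (nat_lit 203) (nat_lit 5) (nat_lit 204) (nat_lit 5) (nat_lit 462) (nat_lit 396) (nat_lit 162)))) (XT.nd (nat_lit 156) (nat_lit 304) (nat_lit 0) (XT.nd (nat_lit 78) (nat_lit 0) (nat_lit 0) (XT.lf (nat_lit 0) (nat_lit 6845428365) (nat_lit 228) (nat_lit 8715633197) (nat_lit 304) (nat_lit 50379229507) (nat_lit 196) (nat_lit 5) (nat_lit 199) (nat_lit 5) (nat_lit 200) (nat_lit 5) (nat_lit 463) (nat_lit 396) (nat_lit 161)) (XT.lf (nat_lit 0) (nat_lit 32920238250) (nat_lit 304) (nat_lit 18037045780) (nat_lit 76) (nat_lit 16212845751) (nat_lit 196) (nat_lit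 5) (nat_lit 200) (nat_lit 5) (nat_lit 197) (nat_lit 5) (nat_lit 464) (nat_lit 396) (nat_lit 160))) (XT.nd (nat_lit 78) (nat_lit 76) (nat_lit 0) (XT.lf (nat_lit 0) (nat_lit 24644782708) (nat_lit 228) (nat_lit 26477203304) (nat_lit 304) (nat_lit 17305223770) (nat_lit 193) (nat_lit 5) (nat_lit 196) (nat_lit 5) (nat_lit 197) (nat_lit 5) (nat_lit 465) (nat_lit 396) (nat_lit 159)) (XT.lf (nat_lit 0) (nat_lit 327448835) (nat_lit 304) (nat_lit 745296991) (nat_lit 76) (nat_lit 68643737280) (nat_lit 192) (nat_lit 5) (nat_lit 196) (nat_lit 5) (nat_lit 193) (nat_lit 5) (nat_lit 466) (nat_lit 396) (nat_lit 158)))))) (XT.nd (nat_lit 546) (nat_lit 1064) (nat_lit 0) (XT.nd (nat_lit 234) (nat_lit 608) (nat_lit 0) (XT.nd (nat_lit 78) (nat_lit 228) (nat_lit 0) (XT.lf (nat_lit 0) (nat_lit 18812631144) (nat_lit 304) (nat_lit 27000421838) (nat_lit 76) (nat_lit 25206101061) (nat_lit 189) (nat_lit 5) (nat_lit 193) (nat_lit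 5) (nat_lit 190) (nat_lit 5) (nat_lit 467) (nat_lit 396) (nat_lit 157)) (XT.nd (nat_lit 78) (nat_lit 0) (nat_lit 0) (XT.lf (nat_lit 0) (nat_lit 18120905649) (nat_lit 228) (nat_lit 19922530292) (nat_lit 304) (nat_lit 34311737157) (nat_lit 186) (nat_lit 5) (nat_lit 189) (nat_lit 5) (nat_lit 190) (nat_lit 5) (nat_lit 468) (nat_lit 396) (nat_lit 156)) (XT.lf (nat_lit 0) (nat_lit 58190014395) (nat_lit 304) (nat_lit 8643563789) (nat_lit 76) (nat_lit 6887529054) (nat_lit 186) (nat_lit 5) (nat_lit 190) (nat_lit 5) (nat_lit 187) (nat_lit 5) (nat_lit 469) (nat_lit 396) (nat_lit 155)))) (XT.nd (nat_lit 156) (nat_lit 152) (nat_lit 0) (XT.nd (nat_lit 78) (nat_lit 228) (nat_lit 0) (XT.lf (nat_lit 0) (nat_lit 4313842285) (nat_lit 228) (nat_lit 36279269029) (nat_lit 76) (nat_lit 34516550222) (nat_lit 183) (nat_lit 5) (nat_lit 186) (nat_lit 5) (nat_lit 184) (nat_lit 5) (nat_lit 470) (nat_lit 396) (nat_lit 154)) (XT.lf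 (nat_lit 0) (nat_lit 11434765051) (nat_lit 228) (nat_lit 13203973249) (nat_lit 304) (nat_lit 51890617795) (nat_lit 180) (nat_lit 5) (nat_lit 183) (nat_lit 5) (nat_lit 184) (nat_lit 5) (nat_lit 471) (nat_lit 396) (nat_lit 153))) (XT.nd (nat_lit 78) (nat_lit 152) (nat_lit 0) (XT.lf (nat_lit 0) (nat_lit 46086327534) (nat_lit 304) (nat_lit 16806860151) (nat_lit 76) (nat_lit 15083065416) (nat_lit 180) (nat_lit 5) (nat_lit 184) (nat_lit 5) (nat_lit 181) (nat_lit 5) (nat_lit 472) (nat_lit 396) (nat_lit 152)) (XT.lf (nat_lit 0) (nat_lit 33449315420) (nat_lit 152) (nat_lit 35179048867) (nat_lit 228) (nat_lit 10824662134) (nat_lit 178) (nat_lit 5) (nat_lit 180) (nat_lit 5) (nat_lit 181) (nat_lit 5) (nat_lit 473) (nat_lit 396) (nat_lit 151))))) (XT.nd (nat_lit 312) (nat_lit 608) (nat_lit 0) (XT.nd (nat_lit 156) (nat_lit 152) (nat_lit 0) (XT.nd (nat_lit 78) (nat_lit 0) (nat_lit 0) (XT.lf (nat_lit 0) (nat_lit 4569487124)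 (nat_lit 228) (nat_lit 6304986311) (nat_lit 304) (nat_lit 70090071783) (nat_lit 174) (nat_lit 5) (nat_lit 177) (nat_lit 5) (nat_lit 178) (nat_lit 5) (nat_lit 474) (nat_lit 396) (nat_lit 150)) (XT.lf (nat_lit 0) (nat_lit 33700201543) (nat_lit 304) (nat_lit 25243791359) (nat_lit 76) (nat_lit 23553405929) (nat_lit 174) (nat_lit 5) (nat_lit 178) (nat_lit 5) (nat_lit 175) (nat_lit 5) (nat_lit 475) (nat_lit 396) (nat_lit 149))) (XT.nd (nat_lit 78) (nat_lit 0) (nat_lit 0) (XT.lf (nat_lit 0) (nat_lit 27922335049) (nat_lit 152) (nat_lit 29617996947) (nat_lit 228) (nat_lit 26526017141) (nat_lit 172) (nat_lit 5) (nat_lit 174) (nat_lit 5) (nat_lit 175) (nat_lit 5) (nat_lit 476) (nat_lit 396) (nat_lit 148)) (XT.lf (nat_lit 0) (nat_lit 82357557556) (nat_lit 228) (nat_lit 2484100462) (nat_lit 76) (nat_lit 832853197) (nat_lit 172) (nat_lit 5) (nat_lit 175) (nat_lit 5) (nat_lit 173) (nat_lit 5) (nat_lit 477) (nat_lit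 396) (nat_lit 147)))) (XT.nd (nat_lit 156) (nat_lit 228) (nat_lit 0) (XT.nd (nat_lit 78) (nat_lit 152) (nat_lit 0) (XT.lf (nat_lit 0) (nat_lit 21001312874) (nat_lit 228) (nat_lit 33977651741) (nat_lit 76) (nat_lit 32321575759) (nat_lit 169) (nat_lit 5) (nat_lit 172) (nat_lit 5) (nat_lit 170) (nat_lit 5) (nat_lit 478) (nat_lit 396) (nat_lit 146)) (XT.lf (nat_lit 0) (nat_lit 22280020010) (nat_lit 152) (nat_lit 23940784066) (nat_lit 228) (nat_lit 42746410772) (nat_lit 167) (nat_lit 5) (nat_lit 169) (nat_lit 5) (nat_lit 170) (nat_lit 5) (nat_lit 479) (nat_lit 396) (nat_lit 145))) (XT.nd (nat_lit 78) (nat_lit 228) (nat_lit 0) (XT.lf (nat_lit 0) (nat_lit 72619407515) (nat_lit 228) (nat_lit 9834308733) (nat_lit 76) (nat_lit 8217497486) (nat_lit 167) (nat_lit 5) (nat_lit 170) (nat_lit 5) (nat_lit 168) (nat_lit 5) (nat_lit 480) (nat_lit 396) (nat_lit 144)) (XT.lf (nat_lit 0) (nat_lit 7957860123) (nat_lit 228)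 (nat_lit 43032947765) (nat_lit 76) (nat_lit 41411846266) (nat_lit 164) (nat_lit 5) (nat_lit 167) (nat_lit 5) (nat_lit 165) (nat_lit 5) (nat_lit 481) (nat_lit 396) (nat_lit 143))))))) (XT.nd (nat_lit 47502) (nat_lit 0) (nat_lit 11628) (XT.nd (nat_lit 46878) (nat_lit 0) (nat_lit 16264) (XT.nd (nat_lit 46566) (nat_lit 0) (nat_lit 16112) (XT.nd (nat_lit 78) (nat_lit 0) (nat_lit 0) (XT.lf (nat_lit 0) (nat_lit 16508796458) (nat_lit 152) (nat_lit 18134063250) (nat_lit 228) (nat_lit 59530080155) (nat_lit 162) (nat_lit 5) (nat_lit 164) (nat_lit 5) (nat_lit 165) (nat_lit 5) (nat_lit 482) (nat_lit 396) (nat_lit 142)) (XT.nd (nat_lit 46410) (nat_lit 0) (nat_lit 16112) (XT.lf (nat_lit 0) (nat_lit 62717147092) (nat_lit 228) (nat_lit 17421690015) (nat_lit 76) (nat_lit 15839834903) (nat_lit 162) (nat_lit 5) (nat_lit 165) (nat_lit 5) (nat_lit 163) (nat_lit 5) (nat_lit 483) (nat_lit 396) (nat_lit 141)) (XT.lf (nat_lit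 0) (nat_lit 5374139669) (nat_lit 1292) (nat_lit 2806158951) (nat_lit 1292) (nat_lit 2806158951) (nat_lit 374) (nat_lit 3) (nat_lit 391) (nat_lit 3) (nat_lit 391) (nat_lit 5) (nat_lit 397) (nat_lit 397) (nat_lit 226)))) (XT.nd (nat_lit 156) (nat_lit 0) (nat_lit 76) (XT.nd (nat_lit 78) (nat_lit 0) (nat_lit 76) (XT.lf (nat_lit 76) (nat_lit 5481095586) (nat_lit 0) (nat_lit 5617377455) (nat_lit 1292) (nat_lit 11198366745) (nat_lit 375) (nat_lit 5) (nat_lit 374) (nat_lit 3) (nat_lit 391) (nat_lit 5) (nat_lit 398) (nat_lit 397) (nat_lit 225)) (XT.lf (nat_lit 0) (nat_lit 11563456905) (nat_lit 1216) (nat_lit 5662333979) (nat_lit 1292) (nat_lit 5401562753) (nat_lit 375) (nat_lit 5) (nat_lit 391) (nat_lit 5) (nat_lit 392) (nat_lit 5) (nat_lit 399) (nat_lit 397) (nat_lit 224))) (XT.nd (nat_lit 78) (nat_lit 0) (nat_lit 76) (XT.lf (nat_lit 76) (nat_lit 5881947136) (nat_lit 0) (nat_lit 6267435578) (nat_lit 1292) (nat_lit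 10815190416) (nat_lit 376) (nat_lit 5) (nat_lit 375) (nat_lit 5) (nat_lit 392) (nat_lit 5) (nat_lit 400) (nat_lit 397) (nat_lit 223)) (XT.lf (nat_lit 0) (nat_lit 12853860886) (nat_lit 1216) (nat_lit 5473418823) (nat_lit 1292) (nat_lit 4981600262) (nat_lit 376) (nat_lit 5) (nat_lit 392) (nat_lit 5) (nat_lit 393) (nat_lit 5) (nat_lit 401) (nat_lit 397) (nat_lit 222))))) (XT.nd (nat_lit 312) (nat_lit 0) (nat_lit 152) (XT.nd (nat_lit 156) (nat_lit 0) (nat_lit 76) (XT.nd (nat_lit 78) (nat_lit 0) (nat_lit 76) (XT.lf (nat_lit 76) (nat_lit 6546815431) (nat_lit 0) (nat_lit 7152767912) (nat_lit 1292) (nat_lit 9960329374) (nat_lit 377) (nat_lit 5) (nat_lit 376) (nat_lit 5) (nat_lit 393) (nat_lit 5) (nat_lit 402) (nat_lit 397) (nat_lit 221)) (XT.lf (nat_lit 0) (nat_lit 14663633270) (nat_lit 1216) (nat_lit 5025470024) (nat_lit 1292) (nat_lit 4329584479) (nat_lit 377) (nat_lit 5) (nat_lit 393) (nat_lit 5) (nat_lit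 394) (nat_lit 5) (nat_lit 403) (nat_lit 397) (nat_lit 220))) (XT.nd (nat_lit 78) (nat_lit 0) (nat_lit 76) (XT.lf (nat_lit 76) (nat_lit 7497276162) (nat_lit 0) (nat_lit 8297610412) (nat_lit 1292) (nat_lit 8589191050) (nat_lit 378) (nat_lit 5) (nat_lit 377) (nat_lit 5) (nat_lit 394) (nat_lit 5) (nat_lit 404) (nat_lit 397) (nat_lit 219)) (XT.lf (nat_lit 0) (nat_lit 17039867174) (nat_lit 1216) (nat_lit 4296822386) (nat_lit 1292) (nat_lit 3421345920) (nat_lit 378) (nat_lit 5) (nat_lit 394) (nat_lit 5) (nat_lit 395) (nat_lit 5) (nat_lit 405) (nat_lit 397) (nat_lit 218)))) (XT.nd (nat_lit 156) (nat_lit 0) (nat_lit 76) (XT.nd (nat_lit 78) (nat_lit 0) (nat_lit 76) (XT.lf (nat_lit 76) (nat_lit 8756554213) (nat_lit 0) (nat_lit 9727616039) (nat_lit 1292) (nat_lit 6654182628) (nat_lit 379) (nat_lit 5) (nat_lit 378) (nat_lit 5) (nat_lit 395) (nat_lit 5) (nat_lit 406) (nat_lit 397) (nat_lit 217)) (XT.lf (nat_lit 0)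 (nat_lit 20032810459) (nat_lit 1216) (nat_lit 3264157972) (nat_lit 1292) (nat_lit 2231281130) (nat_lit 379) (nat_lit 5) (nat_lit 395) (nat_lit 5) (nat_lit 396) (nat_lit 5) (nat_lit 407) (nat_lit 397) (nat_lit 216))) (XT.nd (nat_lit 78) (nat_lit 0) (nat_lit 76) (XT.lf (nat_lit 76) (nat_lit 10349618919) (nat_lit 0) (nat_lit 11469969908) (nat_lit 1292) (nat_lit 4104503946) (nat_lit 380) (nat_lit 5) (nat_lit 379) (nat_lit 5) (nat_lit 396) (nat_lit 5) (nat_lit 408) (nat_lit 397) (nat_lit 215)) (XT.lf (nat_lit 0) (nat_lit 23696081106) (nat_lit 1216) (nat_lit 1902409519) (nat_lit 1292) (nat_lit 732237340) (nat_lit 380) (nat_lit 5) (nat_lit 396) (nat_lit 5) (nat_lit 397) (nat_lit 5) (nat_lit 409) (nat_lit 397) (nat_lit 214)))))) (XT.nd (nat_lit 624) (nat_lit 2356) (nat_lit 0) (XT.nd (nat_lit 312) (nat_lit 1292) (nat_lit 0) (XT.nd (nat_lit 156) (nat_lit 0) (nat_lit 76) (XT.nd (nat_lit 78) (nat_lit 1292) (nat_lit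 0) (XT.lf (nat_lit 76) (nat_lit 12303286291) (nat_lit 0) (nat_lit 13553509705) (nat_lit 1292) (nat_lit 885928382) (nat_lit 381) (nat_lit 5) (nat_lit 380) (nat_lit 5) (nat_lit 397) (nat_lit 5) (nat_lit 410) (nat_lit 397) (nat_lit 213)) (XT.lf (nat_lit 0) (nat_lit 912936536) (nat_lit 1292) (nat_lit 204436710) (nat_lit 1368) (nat_lit 26048977155) (nat_lit 363) (nat_lit 5) (nat_lit 380) (nat_lit 5) (nat_lit 381) (nat_lit 5) (nat_lit 411) (nat_lit 397) (nat_lit 212))) (XT.nd (nat_lit 78) (nat_lit 0) (nat_lit 0) (XT.lf (nat_lit 0) (nat_lit 2999728612) (nat_lit 1292) (nat_lit 12978831874) (nat_lit 1368) (nat_lit 11616308548) (nat_lit 364) (nat_lit 5) (nat_lit 381) (nat_lit 5) (nat_lit 382) (nat_lit 5) (nat_lit 412) (nat_lit 397) (nat_lit 211)) (XT.lf (nat_lit 76) (nat_lit 1871478846) (nat_lit 0) (nat_lit 3305126658) (nat_lit 1368) (nat_lit 22858813289) (nat_lit 365) (nat_lit 5) (nat_lit 364) (nat_lit 5) (nat_lit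 382) (nat_lit 5) (nat_lit 413) (nat_lit 397) (nat_lit 210)))) (XT.nd (nat_lit 156) (nat_lit 608) (nat_lit 0) (XT.nd (nat_lit 78) (nat_lit 836) (nat_lit 0) (XT.lf (nat_lit 0) (nat_lit 7641281098) (nat_lit 1292) (nat_lit 11150080952) (nat_lit 76) (nat_lit 9691148224) (nat_lit 365) (nat_lit 5) (nat_lit 382) (nat_lit 5) (nat_lit 366) (nat_lit 5) (nat_lit 414) (nat_lit 397) (nat_lit 209)) (XT.lf (nat_lit 0) (nat_lit 4363536872) (nat_lit 836) (nat_lit 5887558580) (nat_lit 912) (nat_lit 18689783094) (nat_lit 354) (nat_lit 5) (nat_lit 365) (nat_lit 5) (nat_lit 366) (nat_lit 5) (nat_lit 415) (nat_lit 397) (nat_lit 208))) (XT.nd (nat_lit 78) (nat_lit 608) (nat_lit 0) (XT.lf (nat_lit 0) (nat_lit 13120683176) (nat_lit 912) (nat_lit 8913927826) (nat_lit 76) (nat_lit 7372942494) (nat_lit 354) (nat_lit 5) (nat_lit 366) (nat_lit 5) (nat_lit 355) (nat_lit 5) (nat_lit 416) (nat_lit 397) (nat_lit 207)) (XT.lf (nat_lit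 0) (nat_lit 7300490238) (nat_lit 608) (nat_lit 8901041206) (nat_lit 684) (nat_lit 13682942063) (nat_lit 346) (nat_lit 5) (nat_lit 354) (nat_lit 5) (nat_lit 355) (nat_lit 5) (nat_lit 417) (nat_lit 397) (nat_lit 206))))) (XT.nd (nat_lit 312) (nat_lit 1216) (nat_lit 0) (XT.nd (nat_lit 156) (nat_lit 532) (nat_lit 0) (XT.nd (nat_lit 78) (nat_lit 608) (nat_lit 0) (XT.lf (nat_lit 0) (nat_lit 19506954863) (nat_lit 684) (nat_lit 6237430535) (nat_lit 76) (nat_lit 4627351230) (nat_lit 346) (nat_lit 5) (nat_lit 355) (nat_lit 5) (nat_lit 347) (nat_lit 5) (nat_lit 418) (nat_lit 397) (nat_lit 205)) (XT.lf (nat_lit 0) (nat_lit 10717484517) (nat_lit 608) (nat_lit 12382074818) (nat_lit 684) (nat_lit 7768417757) (nat_lit 338) (nat_lit 5) (nat_lit 346) (nat_lit 5) (nat_lit 347) (nat_lit 5) (nat_lit 419) (nat_lit 397) (nat_lit 204))) (XT.nd (nat_lit 78) (nat_lit 532) (nat_lit 0) (XT.lf (nat_lit 0) (nat_lit 26873756515)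 (nat_lit 684) (nat_lit 3085311374) (nat_lit 76) (nat_lit 1417822444) (nat_lit 338) (nat_lit 5) (nat_lit 347) (nat_lit 5) (nat_lit 339) (nat_lit 5) (nat_lit 420) (nat_lit 397) (nat_lit 203)) (XT.lf (nat_lit 0) (nat_lit 14652132000) (nat_lit 532) (nat_lit 16369506213) (nat_lit 608) (nat_lit 871618999) (nat_lit 331) (nat_lit 5) (nat_lit 338) (nat_lit 5) (nat_lit 339) (nat_lit 5) (nat_lit 421) (nat_lit 397) (nat_lit 202)))) (XT.nd (nat_lit 156) (nat_lit 532) (nat_lit 0) (XT.nd (nat_lit 78) (nat_lit 0) (nat_lit 0) (XT.lf (nat_lit 0) (nat_lit 540379795) (nat_lit 608) (nat_lit 2306186322) (nat_lit 684) (nat_lit 29576710481) (nat_lit 322) (nat_lit 5) (nat_lit 330) (nat_lit 5) (nat_lit 331) (nat_lit 5) (nat_lit 422) (nat_lit 397) (nat_lit 201)) (XT.lf (nat_lit 0) (nat_lit 6948779396) (nat_lit 684) (nat_lit 13885742802) (nat_lit 76) (nat_lit 12125715433) (nat_lit 322) (nat_lit 5) (nat_lit 331) (nat_lit 5) (nat_lit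 323) (nat_lit 5) (nat_lit 423) (nat_lit 397) (nat_lit 200))) (XT.nd (nat_lit 78) (nat_lit 0) (nat_lit 0) (XT.lf (nat_lit 0) (nat_lit 4717539334) (nat_lit 532) (nat_lit 6521889131) (nat_lit 608) (nat_lit 22271917947) (nat_lit 315) (nat_lit 5) (nat_lit 322) (nat_lit 5) (nat_lit 323) (nat_lit 5) (nat_lit 424) (nat_lit 397) (nat_lit 199)) (XT.lf (nat_lit 0) (nat_lit 15876660068) (nat_lit 608) (nat_lit 9994683278) (nat_lit 76) (nat_lit 8201109219) (nat_lit 315) (nat_lit 5) (nat_lit 323) (nat_lit 5) (nat_lit 316) (nat_lit 5) (nat_lit 425) (nat_lit 397) (nat_lit 198))))))))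
noncomputable def xc213 : XT := (XT.nd (nat_lit 2340) (nat_lit 4256) (nat_lit 0) (XT.nd (nat_lit 1170) (nat_lit 3192) (nat_lit 0) (XT.nd (nat_lit 546) (nat_lit 2128) (nat_lit 0) (XT.nd (nat_lit 234) (nat_lit 1064) (nat_lit 0) (XT.nd (nat_lit 78) (nat_lit 456) (nat_lit 0) (XT.lf (nat_lit 0) (nat_lit 9485975481) (nat_lit 532) (nat_lit 11320110840) (nat_lit 608) (nat_lit 13839713252) (nat_lit 308) (nat_lit 5) (nat_lit 315) (nat_lit 5) (nat_lit 316) (nat_lit 5) (nat_lit 426) (nat_lit 397) (nat_lit 197)) (XT.nd (nat_lit 78) (nat_lit 456) (nat_lit 0) (XT.lf (nat_lit 0) (nat_lit 26017943460) (nat_lit 608) (nat_lit 5516656972) (nat_lit 76) (nat_lit 3697710115) (nat_lit 308) (nat_lit 5) (nat_lit 316) (nat_lit 5) (nat_lit 309) (nat_lit 5) (nat_lit 427) (nat_lit 397) (nat_lit 196)) (XT.lf (nat_lit 0) (nat_lit 14891379261) (nat_lit 456) (nat_lit 16747445453) (nat_lit 532) (nat_lit 4190012083) (nat_lit 302) (nat_lit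 5) (nat_lit 308) (nat_lit 5) (nat_lit 309) (nat_lit 5) (nat_lit 428) (nat_lit 397) (nat_lit 195)))) (XT.nd (nat_lit 156) (nat_lit 456) (nat_lit 0) (XT.nd (nat_lit 78) (nat_lit 532) (nat_lit 0) (XT.lf (nat_lit 0) (nat_lit 1019574994) (nat_lit 532) (nat_lit 429817432) (nat_lit 76) (nat_lit 34991970624) (nat_lit 301) (nat_lit 5) (nat_lit 308) (nat_lit 5) (nat_lit 302) (nat_lit 5) (nat_lit 429) (nat_lit 397) (nat_lit 194)) (XT.lf (nat_lit 0) (nat_lit 6641156076) (nat_lit 608) (nat_lit 16145315404) (nat_lit 76) (nat_lit 14274351408) (nat_lit 294) (nat_lit 5) (nat_lit 302) (nat_lit 5) (nat_lit 295) (nat_lit 5) (nat_lit 430) (nat_lit 397) (nat_lit 193))) (XT.nd (nat_lit 78) (nat_lit 0) (nat_lit 0) (XT.lf (nat_lit 0) (nat_lit 5297337244) (nat_lit 456) (nat_lit 7201281289) (nat_lit 532) (nat_lit 25198230968) (nat_lit 288) (nat_lit 5) (nat_lit 294) (nat_lit 5) (nat_lit 295) (nat_lit 5) (nat_lit 431) (nat_lit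 397) (nat_lit 192)) (XT.lf (nat_lit 0) (nat_lit 18779157845) (nat_lit 532) (nat_lit 10722477351) (nat_lit 76) (nat_lit 8842901128) (nat_lit 288) (nat_lit 5) (nat_lit 295) (nat_lit 5) (nat_lit 289) (nat_lit 5) (nat_lit 432) (nat_lit 397) (nat_lit 191))))) (XT.nd (nat_lit 312) (nat_lit 760) (nat_lit 0) (XT.nd (nat_lit 156) (nat_lit 912) (nat_lit 0) (XT.nd (nat_lit 78) (nat_lit 0) (nat_lit 0) (XT.lf (nat_lit 0) (nat_lit 11760194068) (nat_lit 456) (nat_lit 13669951708) (nat_lit 532) (nat_lit 13576047001) (nat_lit 282) (nat_lit 5) (nat_lit 288) (nat_lit 5) (nat_lit 289) (nat_lit 5) (nat_lit 433) (nat_lit 397) (nat_lit 190)) (XT.lf (nat_lit 0) (nat_lit 32413078058) (nat_lit 532) (nat_lit 4576615469) (nat_lit 76) (nat_lit 2694032958) (nat_lit 282) (nat_lit 5) (nat_lit 289) (nat_lit 5) (nat_lit 283) (nat_lit 5) (nat_lit 434) (nat_lit 397) (nat_lit 189))) (XT.nd (nat_lit 78) (nat_lit 532) (nat_lit 0) (XT.lf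 (nat_lit 0) (nat_lit 19005561150) (nat_lit 380) (nat_lit 20915763933) (nat_lit 456) (nat_lit 450786315) (nat_lit 277) (nat_lit 5) (nat_lit 282) (nat_lit 5) (nat_lit 283) (nat_lit 5) (nat_lit 435) (nat_lit 397) (nat_lit 188)) (XT.lf (nat_lit 0) (nat_lit 2287420689) (nat_lit 456) (nat_lit 4224439270) (nat_lit 532) (nat_lit 34565398267) (nat_lit 270) (nat_lit 5) (nat_lit 276) (nat_lit 5) (nat_lit 277) (nat_lit 5) (nat_lit 436) (nat_lit 397) (nat_lit 187)))) (XT.nd (nat_lit 156) (nat_lit 380) (nat_lit 0) (XT.nd (nat_lit 78) (nat_lit 380) (nat_lit 0) (XT.lf (nat_lit 0) (nat_lit 14014709263) (nat_lit 532) (nat_lit 14842190902) (nat_lit 76) (nat_lit 12936313877) (nat_lit 270) (nat_lit 5) (nat_lit 277) (nat_lit 5) (nat_lit 271) (nat_lit 5) (nat_lit 437) (nat_lit 397) (nat_lit 186)) (XT.lf (nat_lit 0) (nat_lit 9973913033) (nat_lit 380) (nat_lit 11904330311) (nat_lit 456) (nat_lit 20648337210) (nat_lit 265) (nat_lit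 5) (nat_lit 270) (nat_lit 5) (nat_lit 271) (nat_lit 5) (nat_lit 438) (nat_lit 397) (nat_lit 185))) (XT.nd (nat_lit 78) (nat_lit 380) (nat_lit 0) (XT.lf (nat_lit 0) (nat_lit 30180386054) (nat_lit 456) (nat_lit 7496402002) (nat_lit 76) (nat_lit 5599078926) (nat_lit 265) (nat_lit 5) (nat_lit 271) (nat_lit 5) (nat_lit 266) (nat_lit 5) (nat_lit 439) (nat_lit 397) (nat_lit 184)) (XT.lf (nat_lit 0) (nat_lit 18553003083) (nat_lit 380) (nat_lit 20472783967) (nat_lit 456) (nat_lit 5013019134) (nat_lit 260) (nat_lit 5) (nat_lit 265) (nat_lit 5) (nat_lit 266) (nat_lit 5) (nat_lit 440) (nat_lit 397) (nat_lit 183)))))) (XT.nd (nat_lit 546) (nat_lit 1596) (nat_lit 0) (XT.nd (nat_lit 234) (nat_lit 760) (nat_lit 0) (XT.nd (nat_lit 78) (nat_lit 380) (nat_lit 0) (XT.lf (nat_lit 0) (nat_lit 693409059) (nat_lit 380) (nat_lit 2634993640) (nat_lit 456) (nat_lit 41492842368) (nat_lit 254) (nat_lit 5) (nat_lit 259) (nat_lit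 5) (nat_lit 260) (nat_lit 5) (nat_lit 441) (nat_lit 397) (nat_lit 182)) (XT.nd (nat_lit 78) (nat_lit 380) (nat_lit 0) (XT.lf (nat_lit 0) (nat_lit 12228522644) (nat_lit 456) (nat_lit 17645227372) (nat_lit 76) (nat_lit 15739641721) (nat_lit 254) (nat_lit 5) (nat_lit 260) (nat_lit 5) (nat_lit 255) (nat_lit 5) (nat_lit 442) (nat_lit 397) (nat_lit 181)) (XT.lf (nat_lit 0) (nat_lit 9794213222) (nat_lit 380) (nat_lit 11719752344) (nat_lit 456) (nat_lit 24911787660) (nat_lit 249) (nat_lit 5) (nat_lit 254) (nat_lit 5) (nat_lit 255) (nat_lit 5) (nat_lit 443) (nat_lit 397) (nat_lit 180)))) (XT.nd (nat_lit 156) (nat_lit 456) (nat_lit 0) (XT.nd (nat_lit 78) (nat_lit 304) (nat_lit 0) (XT.lf (nat_lit 0) (nat_lit 31323108663) (nat_lit 456) (nat_lit 8910143154) (nat_lit 76) (nat_lit 7021879635) (nat_lit 249) (nat_lit 5) (nat_lit 255) (nat_lit 5) (nat_lit 250) (nat_lit 5) (nat_lit 444) (nat_lit 397) (nat_lit 179)) (XT.lf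 (nat_lit 0) (nat_lit 19912807042) (nat_lit 304) (nat_lit 21819330815) (nat_lit 380) (nat_lit 6368084815) (nat_lit 245) (nat_lit 5) (nat_lit 249) (nat_lit 5) (nat_lit 250) (nat_lit 5) (nat_lit 445) (nat_lit 397) (nat_lit 178))) (XT.nd (nat_lit 78) (nat_lit 0) (nat_lit 0) (XT.lf (nat_lit 0) (nat_lit 793611734) (nat_lit 380) (nat_lit 2717863908) (nat_lit 456) (nat_lit 45455286657) (nat_lit 239) (nat_lit 5) (nat_lit 244) (nat_lit 5) (nat_lit 245) (nat_lit 5) (nat_lit 446) (nat_lit 397) (nat_lit 177)) (XT.lf (nat_lit 0) (nat_lit 14008075914) (nat_lit 456) (nat_lit 18860394024) (nat_lit 76) (nat_lit 16975477310) (nat_lit 239) (nat_lit 5) (nat_lit 245) (nat_lit 5) (nat_lit 240) (nat_lit 5) (nat_lit 447) (nat_lit 397) (nat_lit 176))))) (XT.nd (nat_lit 312) (nat_lit 608) (nat_lit 0) (XT.nd (nat_lit 156) (nat_lit 684) (nat_lit 0) (XT.nd (nat_lit 78) (nat_lit 0) (nat_lit 0) (XT.lf (nat_lit 0) (nat_lit 11527196938)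 (nat_lit 304) (nat_lit 13428337650) (nat_lit 380) (nat_lit 25787834346) (nat_lit 235) (nat_lit 5) (nat_lit 239) (nat_lit 5) (nat_lit 240) (nat_lit 5) (nat_lit 448) (nat_lit 397) (nat_lit 175)) (XT.lf (nat_lit 0) (nat_lit 36485413958) (nat_lit 380) (nat_lit 8518899881) (nat_lit 76) (nat_lit 6657839525) (nat_lit 235) (nat_lit 5) (nat_lit 240) (nat_lit 5) (nat_lit 236) (nat_lit 5) (nat_lit 449) (nat_lit 397) (nat_lit 174))) (XT.nd (nat_lit 78) (nat_lit 380) (nat_lit 0) (XT.lf (nat_lit 0) (nat_lit 23420842544) (nat_lit 304) (nat_lit 25296750157) (nat_lit 380) (nat_lit 3880216534) (nat_lit 231) (nat_lit 5) (nat_lit 235) (nat_lit 5) (nat_lit 236) (nat_lit 5) (nat_lit 450) (nat_lit 397) (nat_lit 173)) (XT.lf (nat_lit 0) (nat_lit 2913375556) (nat_lit 304) (nat_lit 4803697982) (nat_lit 380) (nat_lit 45838828711) (nat_lit 226) (nat_lit 5) (nat_lit 230) (nat_lit 5) (nat_lit 231) (nat_lit 5) (nat_lit 451) (nat_lit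 397) (nat_lit 172)))) (XT.nd (nat_lit 156) (nat_lit 304) (nat_lit 0) (XT.nd (nat_lit 78) (nat_lit 304) (nat_lit 0) (XT.lf (nat_lit 0) (nat_lit 20036905522) (nat_lit 380) (nat_lit 18169976736) (nat_lit 76) (nat_lit 16321124901) (nat_lit 226) (nat_lit 5) (nat_lit 231) (nat_lit 5) (nat_lit 227) (nat_lit 5) (nat_lit 452) (nat_lit 397) (nat_lit 171)) (XT.lf (nat_lit 0) (nat_lit 15529759672) (nat_lit 304) (nat_lit 17391803102) (nat_lit 380) (nat_lit 22601855536) (nat_lit 222) (nat_lit 5) (nat_lit 226) (nat_lit 5) (nat_lit 227) (nat_lit 5) (nat_lit 453) (nat_lit 397) (nat_lit 170))) (XT.nd (nat_lit 78) (nat_lit 304) (nat_lit 0) (XT.lf (nat_lit 0) (nat_lit 46415369379) (nat_lit 380) (nat_lit 5973443813) (nat_lit 76) (nat_lit 4153200313) (nat_lit 222) (nat_lit 5) (nat_lit 227) (nat_lit 5) (nat_lit 223) (nat_lit 5) (nat_lit 454) (nat_lit 397) (nat_lit 169)) (XT.lf (nat_lit 0) (nat_lit 3128093306) (nat_lit 304)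 (nat_lit 28140425836) (nat_lit 76) (nat_lit 26308110158) (nat_lit 218) (nat_lit 5) (nat_lit 222) (nat_lit 5) (nat_lit 219) (nat_lit 5) (nat_lit 455) (nat_lit 397) (nat_lit 168))))))) (XT.nd (nat_lit 1170) (nat_lit 1824) (nat_lit 0) (XT.nd (nat_lit 546) (nat_lit 1292) (nat_lit 0) (XT.nd (nat_lit 234) (nat_lit 608) (nat_lit 0) (XT.nd (nat_lit 78) (nat_lit 228) (nat_lit 0) (XT.lf (nat_lit 0) (nat_lit 7431857080) (nat_lit 304) (nat_lit 9275893320) (nat_lit 380) (nat_lit 41927600862) (nat_lit 214) (nat_lit 5) (nat_lit 218) (nat_lit 5) (nat_lit 219) (nat_lit 5) (nat_lit 456) (nat_lit 397) (nat_lit 167)) (XT.nd (nat_lit 78) (nat_lit 228) (nat_lit 0) (XT.lf (nat_lit 0) (nat_lit 31108826765) (nat_lit 380) (nat_lit 15202980716) (nat_lit 76) (nat_lit 13401606516) (nat_lit 214) (nat_lit 5) (nat_lit 219) (nat_lit 5) (nat_lit 215) (nat_lit 5) (nat_lit 457) (nat_lit 397) (nat_lit 166)) (XT.lf (nat_lit 0) (nat_lit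 22216876137) (nat_lit 228) (nat_lit 24028976312) (nat_lit 304) (nat_lit 14568848653) (nat_lit 211) (nat_lit 5) (nat_lit 214) (nat_lit 5) (nat_lit 215) (nat_lit 5) (nat_lit 458) (nat_lit 397) (nat_lit 165)))) (XT.nd (nat_lit 156) (nat_lit 228) (nat_lit 0) (XT.nd (nat_lit 78) (nat_lit 304) (nat_lit 0) (XT.lf (nat_lit 0) (nat_lit 43709222) (nat_lit 304) (nat_lit 876258384) (nat_lit 76) (nat_lit 61024484698) (nat_lit 210) (nat_lit 5) (nat_lit 214) (nat_lit 5) (nat_lit 211) (nat_lit 5) (nat_lit 459) (nat_lit 397) (nat_lit 164)) (XT.lf (nat_lit 0) (nat_lit 15396325226) (nat_lit 380) (nat_lit 24734427507) (nat_lit 76) (nat_lit 22955180904) (nat_lit 206) (nat_lit 5) (nat_lit 211) (nat_lit 5) (nat_lit 207) (nat_lit 5) (nat_lit 460) (nat_lit 397) (nat_lit 163))) (XT.nd (nat_lit 78) (nat_lit 0) (nat_lit 0) (XT.lf (nat_lit 0) (nat_lit 14789765757) (nat_lit 228) (nat_lit 16578542250) (nat_lit 304) (nat_lit 32888587753)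 (nat_lit 203) (nat_lit 5) (nat_lit 206) (nat_lit 5) (nat_lit 207) (nat_lit 5) (nat_lit 461) (nat_lit 397) (nat_lit 162)) (XT.lf (nat_lit 0) (nat_lit 48144105895) (nat_lit 304) (nat_lit 9527400113) (nat_lit 76) (nat_lit 7781741071) (nat_lit 203) (nat_lit 5) (nat_lit 207) (nat_lit 5) (nat_lit 204) (nat_lit 5) (nat_lit 462) (nat_lit 397) (nat_lit 161))))) (XT.nd (nat_lit 312) (nat_lit 532) (nat_lit 0) (XT.nd (nat_lit 156) (nat_lit 228) (nat_lit 0) (XT.nd (nat_lit 78) (nat_lit 304) (nat_lit 0) (XT.lf (nat_lit 0) (nat_lit 32069922337) (nat_lit 228) (nat_lit 33824302578) (nat_lit 304) (nat_lit 777132606) (nat_lit 200) (nat_lit 5) (nat_lit 203) (nat_lit 5) (nat_lit 204) (nat_lit 5) (nat_lit 463) (nat_lit 397) (nat_lit 160)) (XT.lf (nat_lit 0) (nat_lit 7167785409) (nat_lit 228) (nat_lit 8930632832) (nat_lit 304) (nat_lit 51817965815) (nat_lit 196) (nat_lit 5) (nat_lit 199) (nat_lit 5) (nat_lit 200) (nat_lit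 5) (nat_lit 464) (nat_lit 397) (nat_lit 159))) (XT.nd (nat_lit 78) (nat_lit 228) (nat_lit 0) (XT.lf (nat_lit 0) (nat_lit 33976749790) (nat_lit 304) (nat_lit 18462950119) (nat_lit 76) (nat_lit 16743466634) (nat_lit 196) (nat_lit 5) (nat_lit 200) (nat_lit 5) (nat_lit 197) (nat_lit 5) (nat_lit 465) (nat_lit 397) (nat_lit 158)) (XT.lf (nat_lit 0) (nat_lit 25498203743) (nat_lit 228) (nat_lit 27225435900) (nat_lit 304) (nat_lit 17754346610) (nat_lit 193) (nat_lit 5) (nat_lit 196) (nat_lit 5) (nat_lit 197) (nat_lit 5) (nat_lit 466) (nat_lit 397) (nat_lit 157)))) (XT.nd (nat_lit 156) (nat_lit 228) (nat_lit 0) (XT.nd (nat_lit 78) (nat_lit 228) (nat_lit 0) (XT.lf (nat_lit 0) (nat_lit 403939543) (nat_lit 304) (nat_lit 655574185) (nat_lit 76) (nat_lit 70746463854) (nat_lit 192) (nat_lit 5) (nat_lit 196) (nat_lit 5) (nat_lit 193) (nat_lit 5) (nat_lit 467) (nat_lit 397) (nat_lit 156)) (XT.lf (nat_lit 0) (nat_lit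 19443236791) (nat_lit 304) (nat_lit 27697912248) (nat_lit 76) (nat_lit 26006592824) (nat_lit 189) (nat_lit 5) (nat_lit 193) (nat_lit 5) (nat_lit 190) (nat_lit 5) (nat_lit 468) (nat_lit 397) (nat_lit 155))) (XT.nd (nat_lit 78) (nat_lit 0) (nat_lit 0) (XT.lf (nat_lit 0) (nat_lit 18775951904) (nat_lit 228) (nat_lit 20474155923) (nat_lit 304) (nat_lit 35273759399) (nat_lit 186) (nat_lit 5) (nat_lit 189) (nat_lit 5) (nat_lit 190) (nat_lit 5) (nat_lit 469) (nat_lit 397) (nat_lit 154)) (XT.lf (nat_lit 0) (nat_lit 59999609459) (nat_lit 304) (nat_lit 8793222657) (nat_lit 76) (nat_lit 7137991500) (nat_lit 186) (nat_lit 5) (nat_lit 190) (nat_lit 5) (nat_lit 187) (nat_lit 5) (nat_lit 470) (nat_lit 397) (nat_lit 153)))))) (XT.nd (nat_lit 624) (nat_lit 760) (nat_lit 0) (XT.nd (nat_lit 312) (nat_lit 456) (nat_lit 0) (XT.nd (nat_lit 156) (nat_lit 152) (nat_lit 0) (XT.nd (nat_lit 78) (nat_lit 228) (nat_lit 0) (XT.lf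 (nat_lit 0) (nat_lit 4506959376) (nat_lit 228) (nat_lit 37257806244) (nat_lit 76) (nat_lit 35596274708) (nat_lit 183) (nat_lit 5) (nat_lit 186) (nat_lit 5) (nat_lit 184) (nat_lit 5) (nat_lit 471) (nat_lit 397) (nat_lit 152)) (XT.lf (nat_lit 0) (nat_lit 11886571987) (nat_lit 228) (nat_lit 13554220397) (nat_lit 304) (nat_lit 53382557636) (nat_lit 180) (nat_lit 5) (nat_lit 183) (nat_lit 5) (nat_lit 184) (nat_lit 5) (nat_lit 472) (nat_lit 397) (nat_lit 151))) (XT.nd (nat_lit 78) (nat_lit 152) (nat_lit 0) (XT.lf (nat_lit 0) (nat_lit 47530405598) (nat_lit 304) (nat_lit 17204066157) (nat_lit 76) (nat_lit 15579224291) (nat_lit 180) (nat_lit 5) (nat_lit 184) (nat_lit 5) (nat_lit 181) (nat_lit 5) (nat_lit 473) (nat_lit 397) (nat_lit 150)) (XT.lf (nat_lit 0) (nat_lit 34558745663) (nat_lit 152) (nat_lit 36189185334) (nat_lit 228) (nat_lit 11086864742) (nat_lit 178) (nat_lit 5) (nat_lit 180) (nat_lit 5) (nat_lit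 181) (nat_lit 5) (nat_lit 474) (nat_lit 397) (nat_lit 149)))) (XT.nd (nat_lit 156) (nat_lit 152) (nat_lit 0) (XT.nd (nat_lit 78) (nat_lit 0) (nat_lit 0) (XT.lf (nat_lit 0) (nat_lit 4812692149) (nat_lit 228) (nat_lit 6448566583) (nat_lit 304) (nat_lit 72130406311) (nat_lit 174) (nat_lit 5) (nat_lit 177) (nat_lit 5) (nat_lit 178) (nat_lit 5) (nat_lit 475) (nat_lit 397) (nat_lit 148)) (XT.lf (nat_lit 0) (nat_lit 34770420340) (nat_lit 304) (nat_lit 25896737232) (nat_lit 76) (nat_lit 24303386842) (nat_lit 174) (nat_lit 5) (nat_lit 178) (nat_lit 5) (nat_lit 175) (nat_lit 5) (nat_lit 476) (nat_lit 397) (nat_lit 147))) (XT.nd (nat_lit 78) (nat_lit 0) (nat_lit 0) (XT.lf (nat_lit 0) (nat_lit 28863349753) (nat_lit 152) (nat_lit 30461673722) (nat_lit 228) (nat_lit 27261561690) (nat_lit 172) (nat_lit 5) (nat_lit 174) (nat_lit 5) (nat_lit 175) (nat_lit 5) (nat_lit 477) (nat_lit 397) (nat_lit 146)) (XT.lf (nat_lit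 0) (nat_lit 84885481149) (nat_lit 228) (nat_lit 2457004207) (nat_lit 76) (nat_lit 900545290) (nat_lit 172) (nat_lit 5) (nat_lit 175) (nat_lit 5) (nat_lit 173) (nat_lit 5) (nat_lit 478) (nat_lit 397) (nat_lit 145))))) (XT.nd (nat_lit 312) (nat_lit 152) (nat_lit 0) (XT.nd (nat_lit 156) (nat_lit 228) (nat_lit 0) (XT.nd (nat_lit 78) (nat_lit 152) (nat_lit 0) (XT.lf (nat_lit 0) (nat_lit 21688409836) (nat_lit 228) (nat_lit 34895222734) (nat_lit 76) (nat_lit 33334212288) (nat_lit 169) (nat_lit 5) (nat_lit 172) (nat_lit 5) (nat_lit 170) (nat_lit 5) (nat_lit 479) (nat_lit 397) (nat_lit 144)) (XT.lf (nat_lit 0) (nat_lit 23049181537) (nat_lit 152) (nat_lit 24614610942) (nat_lit 228) (nat_lit 43970747888) (nat_lit 167) (nat_lit 5) (nat_lit 169) (nat_lit 5) (nat_lit 170) (nat_lit 5) (nat_lit 480) (nat_lit 397) (nat_lit 143))) (XT.nd (nat_lit 78) (nat_lit 228) (nat_lit 0) (XT.lf (nat_lit 0) (nat_lit 74853126680)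 (nat_lit 228) (nat_lit 10030284512) (nat_lit 76) (nat_lit 8506284845) (nat_lit 167) (nat_lit 5) (nat_lit 170) (nat_lit 5) (nat_lit 168) (nat_lit 5) (nat_lit 481) (nat_lit 397) (nat_lit 142)) (XT.lf (nat_lit 0) (nat_lit 8251609109) (nat_lit 228) (nat_lit 44224758958) (nat_lit 76) (nat_lit 42696715317) (nat_lit 164) (nat_lit 5) (nat_lit 167) (nat_lit 5) (nat_lit 165) (nat_lit 5) (nat_lit 482) (nat_lit 397) (nat_lit 141)))) (XT.nd (nat_lit 46566) (nat_lit 0) (nat_lit 16112) (XT.nd (nat_lit 46488) (nat_lit 0) (nat_lit 16112) (XT.lf (nat_lit 0) (nat_lit 17102265266) (nat_lit 152) (nat_lit 18634235095) (nat_lit 228) (nat_lit 61259997053) (nat_lit 162) (nat_lit 5) (nat_lit 164) (nat_lit 5) (nat_lit 165) (nat_lit 5) (nat_lit 483) (nat_lit 397) (nat_lit 140)) (XT.lf (nat_lit 0) (nat_lit 5670335703) (nat_lit 1292) (nat_lit 2820833220) (nat_lit 1292) (nat_lit 2820833220) (nat_lit 374) (nat_lit 3) (nat_lit 391)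 (nat_lit 3) (nat_lit 391) (nat_lit 5) (nat_lit 398) (nat_lit 398) (nat_lit 224))) (XT.nd (nat_lit 78) (nat_lit 0) (nat_lit 76) (XT.lf (nat_lit 76) (nat_lit 5783186502) (nat_lit 0) (nat_lit 5911645235) (nat_lit 1292) (nat_lit 11263011108) (nat_lit 375) (nat_lit 5) (nat_lit 374) (nat_lit 3) (nat_lit 391) (nat_lit 5) (nat_lit 399) (nat_lit 398) (nat_lit 223)) (XT.lf (nat_lit 0) (nat_lit 12164919595) (nat_lit 1216) (nat_lit 5689709886) (nat_lit 1292) (nat_lit 5443907995) (nat_lit 375) (nat_lit 5) (nat_lit 391) (nat_lit 5) (nat_lit 392) (nat_lit 5) (nat_lit 400) (nat_lit 398) (nat_lit 222))))))))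
noncomputable def xc214 : XT := (XT.nd (nat_lit 2340) (nat_lit 7220) (nat_lit 0) (XT.nd (nat_lit 1170) (nat_lit 4712) (nat_lit 0) (XT.nd (nat_lit 546) (nat_lit 912) (nat_lit 0) (XT.nd (nat_lit 234) (nat_lit 0) (nat_lit 152) (XT.nd (nat_lit 78) (nat_lit 0) (nat_lit 76) (XT.lf (nat_lit 76) (nat_lit 6199502661) (nat_lit 0) (nat_lit 6562862490) (nat_lit 1292) (nat_lit 10883690144) (nat_lit 376) (nat_lit 5) (nat_lit 375) (nat_lit 5) (nat_lit 392) (nat_lit 5) (nat_lit 401) (nat_lit 398) (nat_lit 221)) (XT.nd (nat_lit 78) (nat_lit 0) (nat_lit 0) (XT.lf (nat_lit 0) (nat_lit 13479737416) (nat_lit 1216) (nat_lit 5492393648) (nat_lit 1292) (nat_lit 5028807484) (nat_lit 376) (nat_lit 5) (nat_lit 392) (nat_lit 5) (nat_lit 393) (nat_lit 5) (nat_lit 402) (nat_lit 398) (nat_lit 220)) (XT.lf (nat_lit 76) (nat_lit 6887023832) (nat_lit 0) (nat_lit 7458192162) (nat_lit 1292) (nat_lit 10017454751) (nat_lit 377) (nat_lit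 5) (nat_lit 376) (nat_lit 5) (nat_lit 393) (nat_lit 5) (nat_lit 403) (nat_lit 398) (nat_lit 219)))) (XT.nd (nat_lit 156) (nat_lit 0) (nat_lit 76) (XT.nd (nat_lit 78) (nat_lit 0) (nat_lit 0) (XT.lf (nat_lit 0) (nat_lit 15330505306) (nat_lit 1216) (nat_lit 5028936539) (nat_lit 1292) (nat_lit 4372997671) (nat_lit 377) (nat_lit 5) (nat_lit 393) (nat_lit 5) (nat_lit 394) (nat_lit 5) (nat_lit 404) (nat_lit 398) (nat_lit 218)) (XT.lf (nat_lit 76) (nat_lit 7868047939) (nat_lit 0) (nat_lit 8622439729) (nat_lit 1292) (nat_lit 8618459650) (nat_lit 378) (nat_lit 5) (nat_lit 377) (nat_lit 5) (nat_lit 394) (nat_lit 5) (nat_lit 405) (nat_lit 398) (nat_lit 217))) (XT.nd (nat_lit 78) (nat_lit 0) (nat_lit 0) (XT.lf (nat_lit 0) (nat_lit 17765650461) (nat_lit 1216) (nat_lit 4276954500) (nat_lit 1292) (nat_lit 3451733965) (nat_lit 378) (nat_lit 5) (nat_lit 394) (nat_lit 5) (nat_lit 395) (nat_lit 5) (nat_lit 406) (nat_lit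 398) (nat_lit 216)) (XT.lf (nat_lit 76) (nat_lit 9166564842) (nat_lit 0) (nat_lit 10081883747) (nat_lit 1292) (nat_lit 6637762281) (nat_lit 379) (nat_lit 5) (nat_lit 378) (nat_lit 5) (nat_lit 395) (nat_lit 5) (nat_lit 407) (nat_lit 398) (nat_lit 215))))) (XT.nd (nat_lit 312) (nat_lit 1216) (nat_lit 0) (XT.nd (nat_lit 156) (nat_lit 0) (nat_lit 76) (XT.nd (nat_lit 78) (nat_lit 0) (nat_lit 0) (XT.lf (nat_lit 0) (nat_lit 20836855962) (nat_lit 1216) (nat_lit 3212367368) (nat_lit 1292) (nat_lit 2238781882) (nat_lit 379) (nat_lit 5) (nat_lit 395) (nat_lit 5) (nat_lit 396) (nat_lit 5) (nat_lit 408) (nat_lit 398) (nat_lit 214)) (XT.lf (nat_lit 76) (nat_lit 10808355033) (nat_lit 0) (nat_lit 11864393291) (nat_lit 1292) (nat_lit 4023110077) (nat_lit 380) (nat_lit 5) (nat_lit 379) (nat_lit 5) (nat_lit 396) (nat_lit 5) (nat_lit 409) (nat_lit 398) (nat_lit 213))) (XT.nd (nat_lit 78) (nat_lit 0) (nat_lit 0) (XT.lf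 (nat_lit 0) (nat_lit 24599282068) (nat_lit 1216) (nat_lit 1809298844) (nat_lit 1292) (nat_lit 706299336) (nat_lit 380) (nat_lit 5) (nat_lit 396) (nat_lit 5) (nat_lit 397) (nat_lit 5) (nat_lit 410) (nat_lit 398) (nat_lit 212)) (XT.lf (nat_lit 76) (nat_lit 12821095458) (nat_lit 0) (nat_lit 13999550933) (nat_lit 1292) (nat_lit 718715323) (nat_lit 381) (nat_lit 5) (nat_lit 380) (nat_lit 5) (nat_lit 397) (nat_lit 5) (nat_lit 411) (nat_lit 398) (nat_lit 211)))) (XT.nd (nat_lit 156) (nat_lit 0) (nat_lit 76) (XT.nd (nat_lit 78) (nat_lit 0) (nat_lit 76) (XT.lf (nat_lit 0) (nat_lit 1124799731) (nat_lit 1292) (nat_lit 62519193) (nat_lit 1368) (nat_lit 26788487736) (nat_lit 363) (nat_lit 5) (nat_lit 380) (nat_lit 5) (nat_lit 381) (nat_lit 5) (nat_lit 412) (nat_lit 398) (nat_lit 210)) (XT.lf (nat_lit 0) (nat_lit 3269905725) (nat_lit 1292) (nat_lit 13215856368) (nat_lit 1368) (nat_lit 11931547455) (nat_lit 364) (nat_lit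 5) (nat_lit 381) (nat_lit 5) (nat_lit 382) (nat_lit 5) (nat_lit 413) (nat_lit 398) (nat_lit 209))) (XT.nd (nat_lit 78) (nat_lit 0) (nat_lit 76) (XT.lf (nat_lit 76) (nat_lit 2078470140) (nat_lit 0) (nat_lit 3429820702) (nat_lit 1368) (nat_lit 23362898900) (nat_lit 365) (nat_lit 5) (nat_lit 364) (nat_lit 5) (nat_lit 382) (nat_lit 5) (nat_lit 414) (nat_lit 398) (nat_lit 208)) (XT.lf (nat_lit 0) (nat_lit 8041530856) (nat_lit 1292) (nat_lit 11332754204) (nat_lit 76) (nat_lit 9957570183) (nat_lit 365) (nat_lit 5) (nat_lit 382) (nat_lit 5) (nat_lit 366) (nat_lit 5) (nat_lit 415) (nat_lit 398) (nat_lit 207)))))) (XT.nd (nat_lit 546) (nat_lit 2280) (nat_lit 0) (XT.nd (nat_lit 234) (nat_lit 1140) (nat_lit 0) (XT.nd (nat_lit 78) (nat_lit 608) (nat_lit 0) (XT.lf (nat_lit 0) (nat_lit 4644783633) (nat_lit 836) (nat_lit 6081320260) (nat_lit 912) (nat_lit 19077976740) (nat_lit 354) (nat_lit 5) (nat_lit 365) (nat_lit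 5) (nat_lit 366) (nat_lit 5) (nat_lit 416) (nat_lit 398) (nat_lit 206)) (XT.nd (nat_lit 78) (nat_lit 608) (nat_lit 0) (XT.lf (nat_lit 0) (nat_lit 13676741407) (nat_lit 912) (nat_lit 9030346016) (nat_lit 76) (nat_lit 7577819546) (nat_lit 354) (nat_lit 5) (nat_lit 366) (nat_lit 5) (nat_lit 355) (nat_lit 5) (nat_lit 417) (nat_lit 398) (nat_lit 205)) (XT.lf (nat_lit 0) (nat_lit 7669024201) (nat_lit 608) (nat_lit 9177696996) (nat_lit 684) (nat_lit 13929512201) (nat_lit 346) (nat_lit 5) (nat_lit 354) (nat_lit 5) (nat_lit 355) (nat_lit 5) (nat_lit 418) (nat_lit 398) (nat_lit 204)))) (XT.nd (nat_lit 156) (nat_lit 532) (nat_lit 0) (XT.nd (nat_lit 78) (nat_lit 608) (nat_lit 0) (XT.lf (nat_lit 0) (nat_lit 20246582240) (nat_lit 684) (nat_lit 6274664046) (nat_lit 76) (nat_lit 4757009879) (nat_lit 346) (nat_lit 5) (nat_lit 355) (nat_lit 5) (nat_lit 347) (nat_lit 5) (nat_lit 419) (nat_lit 398) (nat_lit 203)) (XT.lf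 (nat_lit 0) (nat_lit 11187428954) (nat_lit 608) (nat_lit 12756464962) (nat_lit 684) (nat_lit 7845582055) (nat_lit 338) (nat_lit 5) (nat_lit 346) (nat_lit 5) (nat_lit 347) (nat_lit 5) (nat_lit 420) (nat_lit 398) (nat_lit 202))) (XT.nd (nat_lit 78) (nat_lit 532) (nat_lit 0) (XT.lf (nat_lit 0) (nat_lit 27826881497) (nat_lit 684) (nat_lit 3029338210) (nat_lit 76) (nat_lit 1457569967) (nat_lit 338) (nat_lit 5) (nat_lit 347) (nat_lit 5) (nat_lit 339) (nat_lit 5) (nat_lit 421) (nat_lit 398) (nat_lit 201)) (XT.lf (nat_lit 0) (nat_lit 15238772264) (nat_lit 532) (nat_lit 16857562172) (nat_lit 608) (nat_lit 749399081) (nat_lit 331) (nat_lit 5) (nat_lit 338) (nat_lit 5) (nat_lit 339) (nat_lit 5) (nat_lit 422) (nat_lit 398) (nat_lit 200))))) (XT.nd (nat_lit 312) (nat_lit 1064) (nat_lit 0) (XT.nd (nat_lit 156) (nat_lit 532) (nat_lit 0) (XT.nd (nat_lit 78) (nat_lit 0) (nat_lit 0) (XT.lf (nat_lit 0) (nat_lit 705092388)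 (nat_lit 608) (nat_lit 2369534396) (nat_lit 684) (nat_lit 30317068202) (nat_lit 322) (nat_lit 5) (nat_lit 330) (nat_lit 5) (nat_lit 331) (nat_lit 5) (nat_lit 423) (nat_lit 398) (nat_lit 199)) (XT.lf (nat_lit 0) (nat_lit 7295805687) (nat_lit 684) (nat_lit 14154038392) (nat_lit 76) (nat_lit 12495043794) (nat_lit 322) (nat_lit 5) (nat_lit 331) (nat_lit 5) (nat_lit 323) (nat_lit 5) (nat_lit 424) (nat_lit 398) (nat_lit 198))) (XT.nd (nat_lit 78) (nat_lit 0) (nat_lit 0) (XT.lf (nat_lit 0) (nat_lit 5005888516) (nat_lit 532) (nat_lit 6706661253) (nat_lit 608) (nat_lit 22800058883) (nat_lit 315) (nat_lit 5) (nat_lit 322) (nat_lit 5) (nat_lit 323) (nat_lit 5) (nat_lit 425) (nat_lit 398) (nat_lit 197)) (XT.lf (nat_lit 0) (nat_lit 16485040529) (nat_lit 608) (nat_lit 10148119382) (nat_lit 76) (nat_lit 8457503812) (nat_lit 315) (nat_lit 5) (nat_lit 323) (nat_lit 5) (nat_lit 316) (nat_lit 5) (nat_lit 426) (nat_lit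 398) (nat_lit 196)))) (XT.nd (nat_lit 156) (nat_lit 532) (nat_lit 0) (XT.nd (nat_lit 78) (nat_lit 0) (nat_lit 0) (XT.lf (nat_lit 0) (nat_lit 9915523802) (nat_lit 532) (nat_lit 11644372288) (nat_lit 608) (nat_lit 14121388654) (nat_lit 308) (nat_lit 5) (nat_lit 315) (nat_lit 5) (nat_lit 316) (nat_lit 5) (nat_lit 427) (nat_lit 398) (nat_lit 195)) (XT.lf (nat_lit 0) (nat_lit 26924476575) (nat_lit 608) (nat_lit 5537777655) (nat_lit 76) (nat_lit 3823245789) (nat_lit 308) (nat_lit 5) (nat_lit 316) (nat_lit 5) (nat_lit 309) (nat_lit 5) (nat_lit 428) (nat_lit 398) (nat_lit 194))) (XT.nd (nat_lit 78) (nat_lit 76) (nat_lit 0) (XT.lf (nat_lit 0) (nat_lit 15481084184) (nat_lit 456) (nat_lit 17230604584) (nat_lit 532) (nat_lit 4188302154) (nat_lit 302) (nat_lit 5) (nat_lit 308) (nat_lit 5) (nat_lit 309) (nat_lit 5) (nat_lit 429) (nat_lit 398) (nat_lit 193)) (XT.lf (nat_lit 0) (nat_lit 1171447737) (nat_lit 532) (nat_lit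 301498577) (nat_lit 76) (nat_lit 36058019062) (nat_lit 301) (nat_lit 5) (nat_lit 308) (nat_lit 5) (nat_lit 302) (nat_lit 5) (nat_lit 430) (nat_lit 398) (nat_lit 192))))))) (XT.nd (nat_lit 1170) (nat_lit 3268) (nat_lit 0) (XT.nd (nat_lit 546) (nat_lit 1596) (nat_lit 0) (XT.nd (nat_lit 234) (nat_lit 1368) (nat_lit 0) (XT.nd (nat_lit 78) (nat_lit 456) (nat_lit 0) (XT.lf (nat_lit 0) (nat_lit 6959687073) (nat_lit 608) (nat_lit 16486472310) (nat_lit 76) (nat_lit 14722909301) (nat_lit 294) (nat_lit 5) (nat_lit 302) (nat_lit 5) (nat_lit 295) (nat_lit 5) (nat_lit 431) (nat_lit 398) (nat_lit 191)) (XT.nd (nat_lit 78) (nat_lit 0) (nat_lit 0) (XT.lf (nat_lit 0) (nat_lit 5598055971) (nat_lit 456) (nat_lit 7392705839) (nat_lit 532) (nat_lit 25833477635) (nat_lit 288) (nat_lit 5) (nat_lit 294) (nat_lit 5) (nat_lit 295) (nat_lit 5) (nat_lit 432) (nat_lit 398) (nat_lit 190)) (XT.lf (nat_lit 0) (nat_lit 19456533866)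 (nat_lit 532) (nat_lit 10903299684) (nat_lit 76) (nat_lit 9131618825) (nat_lit 288) (nat_lit 5) (nat_lit 295) (nat_lit 5) (nat_lit 289) (nat_lit 5) (nat_lit 433) (nat_lit 398) (nat_lit 189)))) (XT.nd (nat_lit 156) (nat_lit 912) (nat_lit 0) (XT.nd (nat_lit 78) (nat_lit 0) (nat_lit 0) (XT.lf (nat_lit 0) (nat_lit 12252470976) (nat_lit 456) (nat_lit 14052600715) (nat_lit 532) (nat_lit 13867946223) (nat_lit 282) (nat_lit 5) (nat_lit 288) (nat_lit 5) (nat_lit 289) (nat_lit 5) (nat_lit 434) (nat_lit 398) (nat_lit 188)) (XT.lf (nat_lit 0) (nat_lit 33494485354) (nat_lit 532) (nat_lit 4575498525) (nat_lit 76) (nat_lit 2800983952) (nat_lit 282) (nat_lit 5) (nat_lit 289) (nat_lit 5) (nat_lit 283) (nat_lit 5) (nat_lit 435) (nat_lit 398) (nat_lit 187))) (XT.nd (nat_lit 78) (nat_lit 532) (nat_lit 0) (XT.lf (nat_lit 0) (nat_lit 19712786379) (nat_lit 380) (nat_lit 21513335708) (nat_lit 456) (nat_lit 353937936) (nat_lit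 277) (nat_lit 5) (nat_lit 282) (nat_lit 5) (nat_lit 283) (nat_lit 5) (nat_lit 436) (nat_lit 398) (nat_lit 186)) (XT.lf (nat_lit 0) (nat_lit 2493890634) (nat_lit 456) (nat_lit 4319716424) (nat_lit 532) (nat_lit 35492777177) (nat_lit 270) (nat_lit 5) (nat_lit 276) (nat_lit 5) (nat_lit 277) (nat_lit 5) (nat_lit 437) (nat_lit 398) (nat_lit 185))))) (XT.nd (nat_lit 312) (nat_lit 836) (nat_lit 0) (XT.nd (nat_lit 156) (nat_lit 380) (nat_lit 0) (XT.nd (nat_lit 78) (nat_lit 380) (nat_lit 0) (XT.lf (nat_lit 0) (nat_lit 14538736632) (nat_lit 532) (nat_lit 15150819068) (nat_lit 76) (nat_lit 13354347181) (nat_lit 270) (nat_lit 5) (nat_lit 277) (nat_lit 5) (nat_lit 271) (nat_lit 5) (nat_lit 438) (nat_lit 398) (nat_lit 184)) (XT.lf (nat_lit 0) (nat_lit 10408428401) (nat_lit 380) (nat_lit 12228031831) (nat_lit 456) (nat_lit 21162861651) (nat_lit 265) (nat_lit 5) (nat_lit 270) (nat_lit 5) (nat_lit 271) (nat_lit 5) (nat_lit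 439) (nat_lit 398) (nat_lit 183))) (XT.nd (nat_lit 78) (nat_lit 380) (nat_lit 0) (XT.lf (nat_lit 0) (nat_lit 31185012123) (nat_lit 456) (nat_lit 7587281702) (nat_lit 76) (nat_lit 5798872733) (nat_lit 265) (nat_lit 5) (nat_lit 271) (nat_lit 5) (nat_lit 266) (nat_lit 5) (nat_lit 440) (nat_lit 398) (nat_lit 182)) (XT.lf (nat_lit 0) (nat_lit 19242291689) (nat_lit 380) (nat_lit 21051869296) (nat_lit 456) (nat_lit 5062881375) (nat_lit 260) (nat_lit 5) (nat_lit 265) (nat_lit 5) (nat_lit 266) (nat_lit 5) (nat_lit 441) (nat_lit 398) (nat_lit 181)))) (XT.nd (nat_lit 156) (nat_lit 380) (nat_lit 0) (XT.nd (nat_lit 78) (nat_lit 0) (nat_lit 0) (XT.lf (nat_lit 0) (nat_lit 847551316) (nat_lit 380) (nat_lit 2677681000) (nat_lit 456) (nat_lit 42637740777) (nat_lit 254) (nat_lit 5) (nat_lit 259) (nat_lit 5) (nat_lit 260) (nat_lit 5) (nat_lit 442) (nat_lit 398) (nat_lit 180)) (XT.lf (nat_lit 0) (nat_lit 12689870628) (nat_lit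 456) (nat_lit 18042642665) (nat_lit 76) (nat_lit 16246445427) (nat_lit 254) (nat_lit 5) (nat_lit 260) (nat_lit 5) (nat_lit 255) (nat_lit 5) (nat_lit 443) (nat_lit 398) (nat_lit 179))) (XT.nd (nat_lit 78) (nat_lit 0) (nat_lit 0) (XT.lf (nat_lit 0) (nat_lit 10218687602) (nat_lit 380) (nat_lit 12033692901) (nat_lit 456) (nat_lit 25563355441) (nat_lit 249) (nat_lit 5) (nat_lit 254) (nat_lit 5) (nat_lit 255) (nat_lit 5) (nat_lit 444) (nat_lit 398) (nat_lit 178)) (XT.lf (nat_lit 0) (nat_lit 32353440665) (nat_lit 456) (nat_lit 9048247519) (nat_lit 76) (nat_lit 7268378050) (nat_lit 249) (nat_lit 5) (nat_lit 255) (nat_lit 5) (nat_lit 250) (nat_lit 5) (nat_lit 445) (nat_lit 398) (nat_lit 177)))))) (XT.nd (nat_lit 624) (nat_lit 1520) (nat_lit 0) (XT.nd (nat_lit 312) (nat_lit 684) (nat_lit 0) (XT.nd (nat_lit 156) (nat_lit 304) (nat_lit 0) (XT.nd (nat_lit 78) (nat_lit 456) (nat_lit 0) (XT.lf (nat_lit 0) (nat_lit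 20638124517) (nat_lit 304) (nat_lit 22435206026) (nat_lit 380) (nat_lit 6467221952) (nat_lit 245) (nat_lit 5) (nat_lit 249) (nat_lit 5) (nat_lit 250) (nat_lit 5) (nat_lit 446) (nat_lit 398) (nat_lit 176)) (XT.lf (nat_lit 0) (nat_lit 945874925) (nat_lit 380) (nat_lit 2759667153) (nat_lit 456) (nat_lit 46727561425) (nat_lit 239) (nat_lit 5) (nat_lit 244) (nat_lit 5) (nat_lit 245) (nat_lit 5) (nat_lit 447) (nat_lit 398) (nat_lit 175))) (XT.nd (nat_lit 78) (nat_lit 304) (nat_lit 0) (XT.lf (nat_lit 0) (nat_lit 14514827029) (nat_lit 456) (nat_lit 19299279077) (nat_lit 76) (nat_lit 17522564294) (nat_lit 239) (nat_lit 5) (nat_lit 245) (nat_lit 5) (nat_lit 240) (nat_lit 5) (nat_lit 448) (nat_lit 398) (nat_lit 174)) (XT.lf (nat_lit 0) (nat_lit 11998695233) (nat_lit 304) (nat_lit 13790702691) (nat_lit 380) (nat_lit 26473716159) (nat_lit 235) (nat_lit 5) (nat_lit 239) (nat_lit 5) (nat_lit 240) (nat_lit 5) (nat_lit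 449) (nat_lit 398) (nat_lit 173)))) (XT.nd (nat_lit 156) (nat_lit 380) (nat_lit 0) (XT.nd (nat_lit 78) (nat_lit 304) (nat_lit 0) (XT.lf (nat_lit 0) (nat_lit 37663070033) (nat_lit 380) (nat_lit 8650341500) (nat_lit 76) (nat_lit 6896113622) (nat_lit 235) (nat_lit 5) (nat_lit 240) (nat_lit 5) (nat_lit 236) (nat_lit 5) (nat_lit 450) (nat_lit 398) (nat_lit 172)) (XT.lf (nat_lit 0) (nat_lit 24246376282) (nat_lit 304) (nat_lit 26014599124) (nat_lit 380) (nat_lit 3912312459) (nat_lit 231) (nat_lit 5) (nat_lit 235) (nat_lit 5) (nat_lit 236) (nat_lit 5) (nat_lit 451) (nat_lit 398) (nat_lit 171))) (XT.nd (nat_lit 78) (nat_lit 0) (nat_lit 0) (XT.lf (nat_lit 0) (nat_lit 3124109372) (nat_lit 304) (nat_lit 4905919558) (nat_lit 380) (nat_lit 47130107089) (nat_lit 226) (nat_lit 5) (nat_lit 230) (nat_lit 5) (nat_lit 231) (nat_lit 5) (nat_lit 452) (nat_lit 398) (nat_lit 170)) (XT.lf (nat_lit 0) (nat_lit 20717474682) (nat_lit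 380) (nat_lit 18593354505) (nat_lit 76) (nat_lit 16850634329) (nat_lit 226) (nat_lit 5) (nat_lit 231) (nat_lit 5) (nat_lit 227) (nat_lit 5) (nat_lit 453) (nat_lit 398) (nat_lit 169))))) (XT.nd (nat_lit 312) (nat_lit 608) (nat_lit 0) (XT.nd (nat_lit 156) (nat_lit 608) (nat_lit 0) (XT.nd (nat_lit 78) (nat_lit 0) (nat_lit 0) (XT.lf (nat_lit 0) (nat_lit 16116180647) (nat_lit 304) (nat_lit 17871335167) (nat_lit 380) (nat_lit 23199255860) (nat_lit 222) (nat_lit 5) (nat_lit 226) (nat_lit 5) (nat_lit 227) (nat_lit 5) (nat_lit 454) (nat_lit 398) (nat_lit 168)) (XT.lf (nat_lit 0) (nat_lit 47884249899) (nat_lit 380) (nat_lit 6033742752) (nat_lit 76) (nat_lit 4317988676) (nat_lit 222) (nat_lit 5) (nat_lit 227) (nat_lit 5) (nat_lit 223) (nat_lit 5) (nat_lit 455) (nat_lit 398) (nat_lit 167))) (XT.nd (nat_lit 78) (nat_lit 304) (nat_lit 0) (XT.lf (nat_lit 0) (nat_lit 3298007306) (nat_lit 304) (nat_lit 28865385999)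 (nat_lit 76) (nat_lit 27138252737) (nat_lit 218) (nat_lit 5) (nat_lit 222) (nat_lit 5) (nat_lit 219) (nat_lit 5) (nat_lit 456) (nat_lit 398) (nat_lit 166)) (XT.lf (nat_lit 0) (nat_lit 7772896261) (nat_lit 304) (nat_lit 9511077277) (nat_lit 380) (nat_lit 43108188543) (nat_lit 214) (nat_lit 5) (nat_lit 218) (nat_lit 5) (nat_lit 219) (nat_lit 5) (nat_lit 457) (nat_lit 398) (nat_lit 165)))) (XT.nd (nat_lit 156) (nat_lit 380) (nat_lit 0) (XT.nd (nat_lit 78) (nat_lit 228) (nat_lit 0) (XT.lf (nat_lit 0) (nat_lit 32115300170) (nat_lit 380) (nat_lit 15542643970) (nat_lit 76) (nat_lit 13844676018) (nat_lit 214) (nat_lit 5) (nat_lit 219) (nat_lit 5) (nat_lit 215) (nat_lit 5) (nat_lit 458) (nat_lit 398) (nat_lit 164)) (XT.lf (nat_lit 0) (nat_lit 22998667156) (nat_lit 228) (nat_lit 24706745368) (nat_lit 304) (nat_lit 14931564077) (nat_lit 211) (nat_lit 5) (nat_lit 214) (nat_lit 5) (nat_lit 215) (nat_lit 5) (nat_lit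 459) (nat_lit 398) (nat_lit 163))) (XT.nd (nat_lit 78) (nat_lit 304) (nat_lit 0) (XT.lf (nat_lit 0) (nat_lit 115796420) (nat_lit 304) (nat_lit 789210629) (nat_lit 76) (nat_lit 62895655547) (nat_lit 210) (nat_lit 5) (nat_lit 214) (nat_lit 5) (nat_lit 211) (nat_lit 5) (nat_lit 460) (nat_lit 398) (nat_lit 162)) (XT.lf (nat_lit 0) (nat_lit 15928416112) (nat_lit 380) (nat_lit 25362550035) (nat_lit 76) (nat_lit 23685439465) (nat_lit 206) (nat_lit 5) (nat_lit 211) (nat_lit 5) (nat_lit 207) (nat_lit 5) (nat_lit 461) (nat_lit 398) (nat_lit 161))))))))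
noncomputable def xc215 : XT := (XT.nd (nat_lit 48906) (nat_lit 0) (nat_lit 8056) (XT.nd (nat_lit 1170) (nat_lit 760) (nat_lit 0) (XT.nd (nat_lit 546) (nat_lit 1368) (nat_lit 0) (XT.nd (nat_lit 234) (nat_lit 608) (nat_lit 0) (XT.nd (nat_lit 78) (nat_lit 228) (nat_lit 0) (XT.lf (nat_lit 0) (nat_lit 15346252260) (nat_lit 228) (nat_lit 17032345664) (nat_lit 304) (nat_lit 33803927489) (nat_lit 203) (nat_lit 5) (nat_lit 206) (nat_lit 5) (nat_lit 207) (nat_lit 5) (nat_lit 462) (nat_lit 398) (nat_lit 160)) (XT.nd (nat_lit 78) (nat_lit 228) (nat_lit 0) (XT.lf (nat_lit 0) (nat_lit 49656059492) (nat_lit 304) (nat_lit 9702103579) (nat_lit 76) (nat_lit 8056652507) (nat_lit 203) (nat_lit 5) (nat_lit 207) (nat_lit 5) (nat_lit 204) (nat_lit 5) (nat_lit 463) (nat_lit 398) (nat_lit 159)) (XT.lf (nat_lit 0) (nat_lit 33142049147) (nat_lit 228) (nat_lit 34795720785) (nat_lit 304) (nat_lit 731726766) (nat_lit 200) (nat_lit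 5) (nat_lit 203) (nat_lit 5) (nat_lit 204) (nat_lit 5) (nat_lit 464) (nat_lit 398) (nat_lit 158)))) (XT.nd (nat_lit 156) (nat_lit 304) (nat_lit 0) (XT.nd (nat_lit 78) (nat_lit 0) (nat_lit 0) (XT.lf (nat_lit 0) (nat_lit 7493097218) (nat_lit 228) (nat_lit 9154749988) (nat_lit 304) (nat_lit 53304034078) (nat_lit 196) (nat_lit 5) (nat_lit 199) (nat_lit 5) (nat_lit 200) (nat_lit 5) (nat_lit 465) (nat_lit 398) (nat_lit 157)) (XT.lf (nat_lit 0) (nat_lit 35061001282) (nat_lit 304) (nat_lit 18908244943) (nat_lit 76) (nat_lit 17287466844) (nat_lit 196) (nat_lit 5) (nat_lit 200) (nat_lit 5) (nat_lit 197) (nat_lit 5) (nat_lit 466) (nat_lit 398) (nat_lit 156))) (XT.nd (nat_lit 78) (nat_lit 76) (nat_lit 0) (XT.lf (nat_lit 0) (nat_lit 26370678891) (nat_lit 228) (nat_lit 27998760857) (nat_lit 304) (nat_lit 18220963366) (nat_lit 193) (nat_lit 5) (nat_lit 196) (nat_lit 5) (nat_lit 197) (nat_lit 5) (nat_lit 467) (nat_lit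 398) (nat_lit 155)) (XT.lf (nat_lit 0) (nat_lit 478897999) (nat_lit 304) (nat_lit 569593644) (nat_lit 76) (nat_lit 72909780058) (nat_lit 192) (nat_lit 5) (nat_lit 196) (nat_lit 5) (nat_lit 193) (nat_lit 5) (nat_lit 468) (nat_lit 398) (nat_lit 154))))) (XT.nd (nat_lit 312) (nat_lit 684) (nat_lit 0) (XT.nd (nat_lit 156) (nat_lit 228) (nat_lit 0) (XT.nd (nat_lit 78) (nat_lit 228) (nat_lit 0) (XT.lf (nat_lit 0) (nat_lit 20088958924) (nat_lit 304) (nat_lit 28422786607) (nat_lit 76) (nat_lit 26828555837) (nat_lit 189) (nat_lit 5) (nat_lit 193) (nat_lit 5) (nat_lit 190) (nat_lit 5) (nat_lit 469) (nat_lit 398) (nat_lit 153)) (XT.lf (nat_lit 0) (nat_lit 19444253636) (nat_lit 228) (nat_lit 21044973797) (nat_lit 304) (nat_lit 36268507319) (nat_lit 186) (nat_lit 5) (nat_lit 189) (nat_lit 5) (nat_lit 190) (nat_lit 5) (nat_lit 470) (nat_lit 398) (nat_lit 152))) (XT.nd (nat_lit 78) (nat_lit 228) (nat_lit 0) (XT.lf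 (nat_lit 0) (nat_lit 61859824562) (nat_lit 304) (nat_lit 8953665537) (nat_lit 76) (nat_lit 7393451420) (nat_lit 186) (nat_lit 5) (nat_lit 190) (nat_lit 5) (nat_lit 187) (nat_lit 5) (nat_lit 471) (nat_lit 398) (nat_lit 151)) (XT.lf (nat_lit 0) (nat_lit 4702213234) (nat_lit 228) (nat_lit 38272004890) (nat_lit 76) (nat_lit 36705852061) (nat_lit 183) (nat_lit 5) (nat_lit 186) (nat_lit 5) (nat_lit 184) (nat_lit 5) (nat_lit 472) (nat_lit 398) (nat_lit 150)))) (XT.nd (nat_lit 156) (nat_lit 456) (nat_lit 0) (XT.nd (nat_lit 78) (nat_lit 0) (nat_lit 0) (XT.lf (nat_lit 0) (nat_lit 12345689634) (nat_lit 228) (nat_lit 13917608203) (nat_lit 304) (nat_lit 54922974233) (nat_lit 180) (nat_lit 5) (nat_lit 183) (nat_lit 5) (nat_lit 184) (nat_lit 5) (nat_lit 473) (nat_lit 398) (nat_lit 149)) (XT.lf (nat_lit 0) (nat_lit 49014276328) (nat_lit 304) (nat_lit 17619330569) (nat_lit 76) (nat_lit 16087761274) (nat_lit 180) (nat_lit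 5) (nat_lit 184) (nat_lit 5) (nat_lit 181) (nat_lit 5) (nat_lit 474) (nat_lit 398) (nat_lit 148))) (XT.nd (nat_lit 78) (nat_lit 304) (nat_lit 0) (XT.lf (nat_lit 0) (nat_lit 35695376806) (nat_lit 152) (nat_lit 37232222570) (nat_lit 228) (nat_lit 11360523323) (nat_lit 178) (nat_lit 5) (nat_lit 180) (nat_lit 5) (nat_lit 181) (nat_lit 5) (nat_lit 475) (nat_lit 398) (nat_lit 147)) (XT.lf (nat_lit 0) (nat_lit 5057101579) (nat_lit 228) (nat_lit 6599070128) (nat_lit 304) (nat_lit 74235531031) (nat_lit 174) (nat_lit 5) (nat_lit 177) (nat_lit 5) (nat_lit 178) (nat_lit 5) (nat_lit 476) (nat_lit 398) (nat_lit 146)))))) (XT.nd (nat_lit 47112) (nat_lit 0) (nat_lit 15960) (XT.nd (nat_lit 312) (nat_lit 380) (nat_lit 0) (XT.nd (nat_lit 156) (nat_lit 228) (nat_lit 0) (XT.nd (nat_lit 78) (nat_lit 152) (nat_lit 0) (XT.lf (nat_lit 0) (nat_lit 35869346646) (nat_lit 304) (nat_lit 26575262625) (nat_lit 76) (nat_lit 25073377064)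 (nat_lit 174) (nat_lit 5) (nat_lit 178) (nat_lit 5) (nat_lit 175) (nat_lit 5) (nat_lit 477) (nat_lit 398) (nat_lit 145)) (XT.lf (nat_lit 0) (nat_lit 29826662493) (nat_lit 152) (nat_lit 31333236127) (nat_lit 228) (nat_lit 28022630367) (nat_lit 172) (nat_lit 5) (nat_lit 174) (nat_lit 5) (nat_lit 175) (nat_lit 5) (nat_lit 478) (nat_lit 398) (nat_lit 144))) (XT.nd (nat_lit 78) (nat_lit 228) (nat_lit 0) (XT.lf (nat_lit 0) (nat_lit 87485959114) (nat_lit 228) (nat_lit 2434928427) (nat_lit 76) (nat_lit 967816618) (nat_lit 172) (nat_lit 5) (nat_lit 175) (nat_lit 5) (nat_lit 173) (nat_lit 5) (nat_lit 479) (nat_lit 398) (nat_lit 143)) (XT.lf (nat_lit 0) (nat_lit 22392844368) (nat_lit 228) (nat_lit 35846162215) (nat_lit 76) (nat_lit 34374760154) (nat_lit 169) (nat_lit 5) (nat_lit 172) (nat_lit 5) (nat_lit 170) (nat_lit 5) (nat_lit 480) (nat_lit 398) (nat_lit 142)))) (XT.nd (nat_lit 156) (nat_lit 228) (nat_lit 0)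 (XT.nd (nat_lit 78) (nat_lit 0) (nat_lit 0) (XT.lf (nat_lit 0) (nat_lit 23835633820) (nat_lit 152) (nat_lit 25311201173) (nat_lit 228) (nat_lit 45235147723) (nat_lit 167) (nat_lit 5) (nat_lit 169) (nat_lit 5) (nat_lit 170) (nat_lit 5) (nat_lit 481) (nat_lit 398) (nat_lit 141)) (XT.lf (nat_lit 0) (nat_lit 77150692334) (nat_lit 228) (nat_lit 10237825641) (nat_lit 76) (nat_lit 8801309789) (nat_lit 167) (nat_lit 5) (nat_lit 170) (nat_lit 5) (nat_lit 168) (nat_lit 5) (nat_lit 482) (nat_lit 398) (nat_lit 140))) (XT.nd (nat_lit 46566) (nat_lit 0) (nat_lit 15960) (XT.lf (nat_lit 0) (nat_lit 8551012582) (nat_lit 228) (nat_lit 45458017666) (nat_lit 76) (nat_lit 44017689981) (nat_lit 164) (nat_lit 5) (nat_lit 167) (nat_lit 5) (nat_lit 165) (nat_lit 5) (nat_lit 483) (nat_lit 398) (nat_lit 139)) (XT.lf (nat_lit 0) (nat_lit 5967669683) (nat_lit 1292) (nat_lit 2839937904) (nat_lit 1292) (nat_lit 2839937904) (nat_lit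 374) (nat_lit 3) (nat_lit 391) (nat_lit 3) (nat_lit 391) (nat_lit 5) (nat_lit 399) (nat_lit 399) (nat_lit 222))))) (XT.nd (nat_lit 312) (nat_lit 0) (nat_lit 152) (XT.nd (nat_lit 156) (nat_lit 0) (nat_lit 76) (XT.nd (nat_lit 78) (nat_lit 0) (nat_lit 76) (XT.lf (nat_lit 76) (nat_lit 6086438011) (nat_lit 0) (nat_lit 6207522686) (nat_lit 1292) (nat_lit 11345168912) (nat_lit 375) (nat_lit 5) (nat_lit 374) (nat_lit 3) (nat_lit 391) (nat_lit 5) (nat_lit 400) (nat_lit 399) (nat_lit 221)) (XT.lf (nat_lit 0) (nat_lit 12769813439) (nat_lit 1216) (nat_lit 5726086815) (nat_lit 1292) (nat_lit 5494394958) (nat_lit 375) (nat_lit 5) (nat_lit 391) (nat_lit 5) (nat_lit 392) (nat_lit 5) (nat_lit 401) (nat_lit 399) (nat_lit 220))) (XT.nd (nat_lit 78) (nat_lit 0) (nat_lit 76) (XT.lf (nat_lit 76) (nat_lit 6518485301) (nat_lit 0) (nat_lit 6860986789) (nat_lit 1292) (nat_lit 10968937785) (nat_lit 376) (nat_lit 5) (nat_lit 375)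 (nat_lit 5) (nat_lit 392) (nat_lit 5) (nat_lit 402) (nat_lit 399) (nat_lit 219)) (XT.lf (nat_lit 0) (nat_lit 14110598294) (nat_lit 1216) (nat_lit 5520274385) (nat_lit 1292) (nat_lit 5083299963) (nat_lit 376) (nat_lit 5) (nat_lit 392) (nat_lit 5) (nat_lit 393) (nat_lit 5) (nat_lit 403) (nat_lit 399) (nat_lit 218)))) (XT.nd (nat_lit 156) (nat_lit 0) (nat_lit 76) (XT.nd (nat_lit 78) (nat_lit 0) (nat_lit 76) (XT.lf (nat_lit 76) (nat_lit 7229183550) (nat_lit 0) (nat_lit 7767564481) (nat_lit 1292) (nat_lit 10090167568) (nat_lit 377) (nat_lit 5) (nat_lit 376) (nat_lit 5) (nat_lit 393) (nat_lit 5) (nat_lit 404) (nat_lit 399) (nat_lit 217)) (XT.lf (nat_lit 0) (nat_lit 16004354895) (nat_lit 1216) (nat_lit 5040962533) (nat_lit 1292) (nat_lit 4422677239) (nat_lit 377) (nat_lit 5) (nat_lit 393) (nat_lit 5) (nat_lit 394) (nat_lit 5) (nat_lit 405) (nat_lit 399) (nat_lit 216))) (XT.nd (nat_lit 78) (nat_lit 0) (nat_lit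 76) (XT.lf (nat_lit 76) (nat_lit 8241570282) (nat_lit 0) (nat_lit 8952656898) (nat_lit 1292) (nat_lit 8661717812) (nat_lit 378) (nat_lit 5) (nat_lit 377) (nat_lit 5) (nat_lit 394) (nat_lit 5) (nat_lit 406) (nat_lit 399) (nat_lit 215)) (XT.lf (nat_lit 0) (nat_lit 18500889059) (nat_lit 1216) (nat_lit 4265030732) (nat_lit 1292) (nat_lit 3487181231) (nat_lit 378) (nat_lit 5) (nat_lit 394) (nat_lit 5) (nat_lit 395) (nat_lit 5) (nat_lit 407) (nat_lit 399) (nat_lit 214))))))) (XT.nd (nat_lit 1170) (nat_lit 5168) (nat_lit 0) (XT.nd (nat_lit 546) (nat_lit 1900) (nat_lit 0) (XT.nd (nat_lit 234) (nat_lit 1140) (nat_lit 0) (XT.nd (nat_lit 78) (nat_lit 0) (nat_lit 76) (XT.lf (nat_lit 76) (nat_lit 9580419363) (nat_lit 0) (nat_lit 10443195219) (nat_lit 1292) (nat_lit 6633251237) (nat_lit 379) (nat_lit 5) (nat_lit 378) (nat_lit 5) (nat_lit 395) (nat_lit 5) (nat_lit 408) (nat_lit 399) (nat_lit 213)) (XT.nd (nat_lit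 78) (nat_lit 0) (nat_lit 0) (XT.lf (nat_lit 0) (nat_lit 21653366287) (nat_lit 1216) (nat_lit 3167617319) (nat_lit 1292) (nat_lit 2249919622) (nat_lit 379) (nat_lit 5) (nat_lit 395) (nat_lit 5) (nat_lit 396) (nat_lit 5) (nat_lit 409) (nat_lit 399) (nat_lit 212)) (XT.lf (nat_lit 76) (nat_lit 11272343214) (nat_lit 0) (nat_lit 12267760556) (nat_lit 1292) (nat_lit 3951015193) (nat_lit 380) (nat_lit 5) (nat_lit 379) (nat_lit 5) (nat_lit 396) (nat_lit 5) (nat_lit 410) (nat_lit 399) (nat_lit 211)))) (XT.nd (nat_lit 156) (nat_lit 1292) (nat_lit 0) (XT.nd (nat_lit 78) (nat_lit 0) (nat_lit 0) (XT.lf (nat_lit 0) (nat_lit 25518539188) (nat_lit 1216) (nat_lit 1722015966) (nat_lit 1292) (nat_lit 682333142) (nat_lit 380) (nat_lit 5) (nat_lit 396) (nat_lit 5) (nat_lit 397) (nat_lit 5) (nat_lit 411) (nat_lit 399) (nat_lit 210)) (XT.lf (nat_lit 76) (nat_lit 13345902304) (nat_lit 0) (nat_lit 14456709614) (nat_lit 1292)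 (nat_lit 557610263) (nat_lit 381) (nat_lit 5) (nat_lit 380) (nat_lit 5) (nat_lit 397) (nat_lit 5) (nat_lit 412) (nat_lit 399) (nat_lit 209))) (XT.nd (nat_lit 78) (nat_lit 0) (nat_lit 76) (XT.lf (nat_lit 76) (nat_lit 76652911) (nat_lit 0) (nat_lit 1256513120) (nat_lit 1368) (nat_lit 27476676160) (nat_lit 364) (nat_lit 5) (nat_lit 363) (nat_lit 5) (nat_lit 381) (nat_lit 5) (nat_lit 413) (nat_lit 399) (nat_lit 208)) (XT.lf (nat_lit 0) (nat_lit 3537844780) (nat_lit 1292) (nat_lit 13468736562) (nat_lit 1368) (nat_lit 12258152235) (nat_lit 364) (nat_lit 5) (nat_lit 381) (nat_lit 5) (nat_lit 382) (nat_lit 5) (nat_lit 414) (nat_lit 399) (nat_lit 207))))) (XT.nd (nat_lit 312) (nat_lit 1216) (nat_lit 0) (XT.nd (nat_lit 156) (nat_lit 760) (nat_lit 0) (XT.nd (nat_lit 78) (nat_lit 0) (nat_lit 76) (XT.lf (nat_lit 76) (nat_lit 2283011942) (nat_lit 0) (nat_lit 3556789454) (nat_lit 1368) (nat_lit 23892536184) (nat_lit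 365) (nat_lit 5) (nat_lit 364) (nat_lit 5) (nat_lit 382) (nat_lit 5) (nat_lit 415) (nat_lit 399) (nat_lit 206)) (XT.lf (nat_lit 0) (nat_lit 8443971357) (nat_lit 1292) (nat_lit 11529623270) (nat_lit 76) (nat_lit 10233380437) (nat_lit 365) (nat_lit 5) (nat_lit 382) (nat_lit 5) (nat_lit 366) (nat_lit 5) (nat_lit 416) (nat_lit 399) (nat_lit 205))) (XT.nd (nat_lit 78) (nat_lit 0) (nat_lit 0) (XT.lf (nat_lit 0) (nat_lit 4925837629) (nat_lit 836) (nat_lit 6279911177) (nat_lit 912) (nat_lit 19487718393) (nat_lit 354) (nat_lit 5) (nat_lit 365) (nat_lit 5) (nat_lit 366) (nat_lit 5) (nat_lit 417) (nat_lit 399) (nat_lit 204)) (XT.lf (nat_lit 0) (nat_lit 14240156794) (nat_lit 912) (nat_lit 9158924749) (nat_lit 76) (nat_lit 7789779240) (nat_lit 354) (nat_lit 5) (nat_lit 366) (nat_lit 5) (nat_lit 355) (nat_lit 5) (nat_lit 418) (nat_lit 399) (nat_lit 203)))) (XT.nd (nat_lit 156) (nat_lit 608) (nat_lit 0) (XT.nd (nat_lit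 78) (nat_lit 0) (nat_lit 0) (XT.lf (nat_lit 0) (nat_lit 8040031166) (nat_lit 608) (nat_lit 9462099971) (nat_lit 684) (nat_lit 14192889014) (nat_lit 346) (nat_lit 5) (nat_lit 354) (nat_lit 5) (nat_lit 355) (nat_lit 5) (nat_lit 419) (nat_lit 399) (nat_lit 202)) (XT.lf (nat_lit 0) (nat_lit 20999534171) (nat_lit 684) (nat_lit 6321618827) (nat_lit 76) (nat_lit 4891084218) (nat_lit 346) (nat_lit 5) (nat_lit 355) (nat_lit 5) (nat_lit 347) (nat_lit 5) (nat_lit 420) (nat_lit 399) (nat_lit 201))) (XT.nd (nat_lit 78) (nat_lit 0) (nat_lit 0) (XT.lf (nat_lit 0) (nat_lit 11662951814) (nat_lit 608) (nat_lit 13141918737) (nat_lit 684) (nat_lit 7934009904) (nat_lit 338) (nat_lit 5) (nat_lit 346) (nat_lit 5) (nat_lit 347) (nat_lit 5) (nat_lit 421) (nat_lit 399) (nat_lit 200)) (XT.lf (nat_lit 0) (nat_lit 28800166863) (nat_lit 684) (nat_lit 2980212225) (nat_lit 76) (nat_lit 1498669908) (nat_lit 338) (nat_lit 5) (nat_lit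 347) (nat_lit 5) (nat_lit 339) (nat_lit 5) (nat_lit 422) (nat_lit 399) (nat_lit 199)))))) (XT.nd (nat_lit 624) (nat_lit 2432) (nat_lit 0) (XT.nd (nat_lit 312) (nat_lit 988) (nat_lit 0) (XT.nd (nat_lit 156) (nat_lit 532) (nat_lit 0) (XT.nd (nat_lit 78) (nat_lit 684) (nat_lit 0) (XT.lf (nat_lit 0) (nat_lit 15834568955) (nat_lit 532) (nat_lit 17360433699) (nat_lit 608) (nat_lit 632029523) (nat_lit 331) (nat_lit 5) (nat_lit 338) (nat_lit 5) (nat_lit 339) (nat_lit 5) (nat_lit 423) (nat_lit 399) (nat_lit 198)) (XT.lf (nat_lit 0) (nat_lit 866221782) (nat_lit 608) (nat_lit 2435118010) (nat_lit 684) (nat_lit 31088071818) (nat_lit 322) (nat_lit 5) (nat_lit 330) (nat_lit 5) (nat_lit 331) (nat_lit 5) (nat_lit 424) (nat_lit 399) (nat_lit 197))) (XT.nd (nat_lit 78) (nat_lit 532) (nat_lit 0) (XT.lf (nat_lit 0) (nat_lit 7645288690) (nat_lit 684) (nat_lit 14438894538) (nat_lit 76) (nat_lit 12875133016) (nat_lit 322)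 (nat_lit 5) (nat_lit 331) (nat_lit 5) (nat_lit 323) (nat_lit 5) (nat_lit 425) (nat_lit 399) (nat_lit 196)) (XT.lf (nat_lit 0) (nat_lit 5294459932) (nat_lit 532) (nat_lit 6897601356) (nat_lit 608) (nat_lit 23352081572) (nat_lit 315) (nat_lit 5) (nat_lit 322) (nat_lit 5) (nat_lit 323) (nat_lit 5) (nat_lit 426) (nat_lit 399) (nat_lit 195)))) (XT.nd (nat_lit 156) (nat_lit 456) (nat_lit 0) (XT.nd (nat_lit 78) (nat_lit 532) (nat_lit 0) (XT.lf (nat_lit 0) (nat_lit 17104090433) (nat_lit 608) (nat_lit 10314562781) (nat_lit 76) (nat_lit 8720995460) (nat_lit 315) (nat_lit 5) (nat_lit 323) (nat_lit 5) (nat_lit 316) (nat_lit 5) (nat_lit 427) (nat_lit 399) (nat_lit 194)) (XT.lf (nat_lit 0) (nat_lit 10349636756) (nat_lit 532) (nat_lit 11979242267) (nat_lit 608) (nat_lit 14419178682) (nat_lit 308) (nat_lit 5) (nat_lit 315) (nat_lit 5) (nat_lit 316) (nat_lit 5) (nat_lit 428) (nat_lit 399) (nat_lit 193))) (XT.nd (nat_lit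 78) (nat_lit 456) (nat_lit 0) (XT.lf (nat_lit 0) (nat_lit 27850973066) (nat_lit 608) (nat_lit 5567819905) (nat_lit 76) (nat_lit 3951709182) (nat_lit 308) (nat_lit 5) (nat_lit 316) (nat_lit 5) (nat_lit 309) (nat_lit 5) (nat_lit 429) (nat_lit 399) (nat_lit 192)) (XT.lf (nat_lit 0) (nat_lit 16080273563) (nat_lit 456) (nat_lit 17729364335) (nat_lit 532) (nat_lit 4193854798) (nat_lit 302) (nat_lit 5) (nat_lit 308) (nat_lit 5) (nat_lit 309) (nat_lit 5) (nat_lit 430) (nat_lit 399) (nat_lit 191))))) (XT.nd (nat_lit 312) (nat_lit 1368) (nat_lit 0) (XT.nd (nat_lit 156) (nat_lit 456) (nat_lit 0) (XT.nd (nat_lit 78) (nat_lit 532) (nat_lit 0) (XT.lf (nat_lit 0) (nat_lit 1320914379) (nat_lit 532) (nat_lit 177436382) (nat_lit 76) (nat_lit 37155113880) (nat_lit 301) (nat_lit 5) (nat_lit 308) (nat_lit 5) (nat_lit 302) (nat_lit 5) (nat_lit 431) (nat_lit 399) (nat_lit 190)) (XT.lf (nat_lit 0) (nat_lit 7280925904) (nat_lit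 608) (nat_lit 16846084336) (nat_lit 76) (nat_lit 15183757058) (nat_lit 294) (nat_lit 5) (nat_lit 302) (nat_lit 5) (nat_lit 295) (nat_lit 5) (nat_lit 432) (nat_lit 399) (nat_lit 189))) (XT.nd (nat_lit 78) (nat_lit 0) (nat_lit 0) (XT.lf (nat_lit 0) (nat_lit 5899656439) (nat_lit 456) (nat_lit 7591286063) (nat_lit 532) (nat_lit 26494710391) (nat_lit 288) (nat_lit 5) (nat_lit 294) (nat_lit 5) (nat_lit 295) (nat_lit 5) (nat_lit 433) (nat_lit 399) (nat_lit 188)) (XT.lf (nat_lit 0) (nat_lit 20147687027) (nat_lit 532) (nat_lit 11097632167) (nat_lit 76) (nat_lit 9427653037) (nat_lit 288) (nat_lit 5) (nat_lit 295) (nat_lit 5) (nat_lit 289) (nat_lit 5) (nat_lit 434) (nat_lit 399) (nat_lit 187)))) (XT.nd (nat_lit 156) (nat_lit 912) (nat_lit 0) (XT.nd (nat_lit 78) (nat_lit 0) (nat_lit 0) (XT.lf (nat_lit 0) (nat_lit 12751509980) (nat_lit 456) (nat_lit 14448304908) (nat_lit 532) (nat_lit 14175225832) (nat_lit 282)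 (nat_lit 5) (nat_lit 288) (nat_lit 5) (nat_lit 289) (nat_lit 5) (nat_lit 435) (nat_lit 399) (nat_lit 186)) (XT.lf (nat_lit 0) (nat_lit 34602076964) (nat_lit 532) (nat_lit 4582293683) (nat_lit 76) (nat_lit 2909643506) (nat_lit 282) (nat_lit 5) (nat_lit 289) (nat_lit 5) (nat_lit 283) (nat_lit 5) (nat_lit 436) (nat_lit 399) (nat_lit 185))) (XT.nd (nat_lit 78) (nat_lit 532) (nat_lit 0) (XT.lf (nat_lit 0) (nat_lit 20433360652) (nat_lit 380) (nat_lit 22130551083) (nat_lit 456) (nat_lit 260519909) (nat_lit 277) (nat_lit 5) (nat_lit 282) (nat_lit 5) (nat_lit 283) (nat_lit 5) (nat_lit 437) (nat_lit 399) (nat_lit 184)) (XT.lf (nat_lit 0) (nat_lit 2698641676) (nat_lit 456) (nat_lit 4419657597) (nat_lit 532) (nat_lit 36454267968) (nat_lit 270) (nat_lit 5) (nat_lit 276) (nat_lit 5) (nat_lit 277) (nat_lit 5) (nat_lit 438) (nat_lit 399) (nat_lit 183))))))))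
noncomputable def xc216 : XT := (XT.nd (nat_lit 2340) (nat_lit 1976) (nat_lit 0) (XT.nd (nat_lit 1170) (nat_lit 2508) (nat_lit 0) (XT.nd (nat_lit 546) (nat_lit 1748) (nat_lit 0) (XT.nd (nat_lit 234) (nat_lit 1216) (nat_lit 0) (XT.nd (nat_lit 78) (nat_lit 380) (nat_lit 0) (XT.lf (nat_lit 0) (nat_lit 15072538557) (nat_lit 532) (nat_lit 15476549634) (nat_lit 76) (nat_lit 13783202582) (nat_lit 270) (nat_lit 5) (nat_lit 277) (nat_lit 5) (nat_lit 271) (nat_lit 5) (nat_lit 439) (nat_lit 399) (nat_lit 182)) (XT.nd (nat_lit 78) (nat_lit 0) (nat_lit 0) (XT.lf (nat_lit 0) (nat_lit 10848212573) (nat_lit 380) (nat_lit 12563363322) (nat_lit 456) (nat_lit 21698844988) (nat_lit 265) (nat_lit 5) (nat_lit 270) (nat_lit 5) (nat_lit 271) (nat_lit 5) (nat_lit 440) (nat_lit 399) (nat_lit 181)) (XT.lf (nat_lit 0) (nat_lit 32214081656) (nat_lit 456) (nat_lit 7688580650) (nat_lit 76) (nat_lit 6002833672) (nat_lit 265) (nat_lit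 5) (nat_lit 271) (nat_lit 5) (nat_lit 266) (nat_lit 5) (nat_lit 441) (nat_lit 399) (nat_lit 180)))) (XT.nd (nat_lit 156) (nat_lit 380) (nat_lit 0) (XT.nd (nat_lit 78) (nat_lit 456) (nat_lit 0) (XT.lf (nat_lit 0) (nat_lit 19944641515) (nat_lit 380) (nat_lit 21650341965) (nat_lit 456) (nat_lit 5120010220) (nat_lit 260) (nat_lit 5) (nat_lit 265) (nat_lit 5) (nat_lit 266) (nat_lit 5) (nat_lit 442) (nat_lit 399) (nat_lit 179)) (XT.lf (nat_lit 0) (nat_lit 998663581) (nat_lit 380) (nat_lit 2723736334) (nat_lit 456) (nat_lit 43822720053) (nat_lit 254) (nat_lit 5) (nat_lit 259) (nat_lit 5) (nat_lit 260) (nat_lit 5) (nat_lit 443) (nat_lit 399) (nat_lit 178))) (XT.nd (nat_lit 78) (nat_lit 380) (nat_lit 0) (XT.lf (nat_lit 0) (nat_lit 13159634807) (nat_lit 456) (nat_lit 18459554401) (nat_lit 76) (nat_lit 16766466232) (nat_lit 254) (nat_lit 5) (nat_lit 260) (nat_lit 5) (nat_lit 255) (nat_lit 5) (nat_lit 444) (nat_lit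 399) (nat_lit 177)) (XT.lf (nat_lit 0) (nat_lit 10648396484) (nat_lit 380) (nat_lit 12359213055) (nat_lit 456) (nat_lit 26239968754) (nat_lit 249) (nat_lit 5) (nat_lit 254) (nat_lit 5) (nat_lit 255) (nat_lit 5) (nat_lit 445) (nat_lit 399) (nat_lit 176))))) (XT.nd (nat_lit 312) (nat_lit 988) (nat_lit 0) (XT.nd (nat_lit 156) (nat_lit 456) (nat_lit 0) (XT.nd (nat_lit 78) (nat_lit 304) (nat_lit 0) (XT.lf (nat_lit 0) (nat_lit 33409479592) (nat_lit 456) (nat_lit 9197911619) (nat_lit 76) (nat_lit 7520213939) (nat_lit 249) (nat_lit 5) (nat_lit 255) (nat_lit 5) (nat_lit 250) (nat_lit 5) (nat_lit 446) (nat_lit 399) (nat_lit 175)) (XT.lf (nat_lit 0) (nat_lit 21377857624) (nat_lit 304) (nat_lit 23071779303) (nat_lit 380) (nat_lit 6574608949) (nat_lit 245) (nat_lit 5) (nat_lit 249) (nat_lit 5) (nat_lit 250) (nat_lit 5) (nat_lit 447) (nat_lit 399) (nat_lit 174))) (XT.nd (nat_lit 78) (nat_lit 0) (nat_lit 0) (XT.lf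 (nat_lit 0) (nat_lit 1095332179) (nat_lit 380) (nat_lit 2805005313) (nat_lit 456) (nat_lit 48043250241) (nat_lit 239) (nat_lit 5) (nat_lit 244) (nat_lit 5) (nat_lit 245) (nat_lit 5) (nat_lit 448) (nat_lit 399) (nat_lit 173)) (XT.lf (nat_lit 0) (nat_lit 15031814716) (nat_lit 456) (nat_lit 19758616798) (nat_lit 76) (nat_lit 18083892712) (nat_lit 239) (nat_lit 5) (nat_lit 245) (nat_lit 5) (nat_lit 240) (nat_lit 5) (nat_lit 449) (nat_lit 399) (nat_lit 172)))) (XT.nd (nat_lit 156) (nat_lit 684) (nat_lit 0) (XT.nd (nat_lit 78) (nat_lit 0) (nat_lit 0) (XT.lf (nat_lit 0) (nat_lit 12477123794) (nat_lit 304) (nat_lit 14166262693) (nat_lit 380) (nat_lit 27185211820) (nat_lit 235) (nat_lit 5) (nat_lit 239) (nat_lit 5) (nat_lit 240) (nat_lit 5) (nat_lit 450) (nat_lit 399) (nat_lit 171)) (XT.lf (nat_lit 0) (nat_lit 38871285874) (nat_lit 380) (nat_lit 8792851673) (nat_lit 76) (nat_lit 7139323651) (nat_lit 235) (nat_lit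 5) (nat_lit 240) (nat_lit 5) (nat_lit 236) (nat_lit 5) (nat_lit 451) (nat_lit 399) (nat_lit 170))) (XT.nd (nat_lit 78) (nat_lit 380) (nat_lit 0) (XT.lf (nat_lit 0) (nat_lit 25089620584) (nat_lit 304) (nat_lit 26756340201) (nat_lit 380) (nat_lit 3950211033) (nat_lit 231) (nat_lit 5) (nat_lit 235) (nat_lit 5) (nat_lit 236) (nat_lit 5) (nat_lit 452) (nat_lit 399) (nat_lit 169)) (XT.lf (nat_lit 0) (nat_lit 3334085411) (nat_lit 304) (nat_lit 5013612403) (nat_lit 380) (nat_lit 48464939247) (nat_lit 226) (nat_lit 5) (nat_lit 230) (nat_lit 5) (nat_lit 231) (nat_lit 5) (nat_lit 453) (nat_lit 399) (nat_lit 168)))))) (XT.nd (nat_lit 546) (nat_lit 1368) (nat_lit 0) (XT.nd (nat_lit 234) (nat_lit 836) (nat_lit 0) (XT.nd (nat_lit 78) (nat_lit 304) (nat_lit 0) (XT.lf (nat_lit 0) (nat_lit 21413899472) (nat_lit 380) (nat_lit 19036420920) (nat_lit 76) (nat_lit 17393740011) (nat_lit 226) (nat_lit 5) (nat_lit 231) (nat_lit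 5) (nat_lit 227) (nat_lit 5) (nat_lit 454) (nat_lit 399) (nat_lit 167)) (XT.nd (nat_lit 78) (nat_lit 0) (nat_lit 0) (XT.lf (nat_lit 0) (nat_lit 16713275441) (nat_lit 304) (nat_lit 18367676911) (nat_lit 380) (nat_lit 23819208140) (nat_lit 222) (nat_lit 5) (nat_lit 226) (nat_lit 5) (nat_lit 227) (nat_lit 5) (nat_lit 455) (nat_lit 399) (nat_lit 166)) (XT.lf (nat_lit 0) (nat_lit 49392810046) (nat_lit 380) (nat_lit 6102676258) (nat_lit 76) (nat_lit 4485413484) (nat_lit 222) (nat_lit 5) (nat_lit 227) (nat_lit 5) (nat_lit 223) (nat_lit 5) (nat_lit 456) (nat_lit 399) (nat_lit 165)))) (XT.nd (nat_lit 156) (nat_lit 228) (nat_lit 0) (XT.nd (nat_lit 78) (nat_lit 304) (nat_lit 0) (XT.lf (nat_lit 0) (nat_lit 3468651929) (nat_lit 304) (nat_lit 29618940556) (nat_lit 76) (nat_lit 27990951808) (nat_lit 218) (nat_lit 5) (nat_lit 222) (nat_lit 5) (nat_lit 219) (nat_lit 5) (nat_lit 457) (nat_lit 399) (nat_lit 164)) (XT.lf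 (nat_lit 0) (nat_lit 8117388143) (nat_lit 304) (nat_lit 9755790458) (nat_lit 380) (nat_lit 44328627767) (nat_lit 214) (nat_lit 5) (nat_lit 218) (nat_lit 5) (nat_lit 219) (nat_lit 5) (nat_lit 458) (nat_lit 399) (nat_lit 163))) (XT.nd (nat_lit 78) (nat_lit 228) (nat_lit 0) (XT.lf (nat_lit 0) (nat_lit 33147765304) (nat_lit 380) (nat_lit 15899180460) (nat_lit 76) (nat_lit 14298682815) (nat_lit 214) (nat_lit 5) (nat_lit 219) (nat_lit 5) (nat_lit 215) (nat_lit 5) (nat_lit 459) (nat_lit 399) (nat_lit 162)) (XT.lf (nat_lit 0) (nat_lit 23797294090) (nat_lit 228) (nat_lit 25407321624) (nat_lit 304) (nat_lit 15309428960) (nat_lit 211) (nat_lit 5) (nat_lit 214) (nat_lit 5) (nat_lit 215) (nat_lit 5) (nat_lit 460) (nat_lit 399) (nat_lit 161))))) (XT.nd (nat_lit 312) (nat_lit 760) (nat_lit 0) (XT.nd (nat_lit 156) (nat_lit 228) (nat_lit 0) (XT.nd (nat_lit 78) (nat_lit 304) (nat_lit 0) (XT.lf (nat_lit 0) (nat_lit 185983406)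 (nat_lit 304) (nat_lit 706057363) (nat_lit 76) (nat_lit 64820640312) (nat_lit 210) (nat_lit 5) (nat_lit 214) (nat_lit 5) (nat_lit 211) (nat_lit 5) (nat_lit 461) (nat_lit 399) (nat_lit 160)) (XT.lf (nat_lit 0) (nat_lit 16472439892) (nat_lit 380) (nat_lit 26016055156) (nat_lit 76) (nat_lit 24435217593) (nat_lit 206) (nat_lit 5) (nat_lit 211) (nat_lit 5) (nat_lit 207) (nat_lit 5) (nat_lit 462) (nat_lit 399) (nat_lit 159))) (XT.nd (nat_lit 78) (nat_lit 0) (nat_lit 0) (XT.lf (nat_lit 0) (nat_lit 15912958547) (nat_lit 228) (nat_lit 17502263293) (nat_lit 304) (nat_lit 34750821355) (nat_lit 203) (nat_lit 5) (nat_lit 206) (nat_lit 5) (nat_lit 207) (nat_lit 5) (nat_lit 463) (nat_lit 399) (nat_lit 158)) (XT.lf (nat_lit 0) (nat_lit 51209489435) (nat_lit 304) (nat_lit 9888426807) (nat_lit 76) (nat_lit 8337431359) (nat_lit 203) (nat_lit 5) (nat_lit 207) (nat_lit 5) (nat_lit 204) (nat_lit 5) (nat_lit 464) (nat_lit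 399) (nat_lit 157)))) (XT.nd (nat_lit 156) (nat_lit 228) (nat_lit 0) (XT.nd (nat_lit 78) (nat_lit 304) (nat_lit 0) (XT.lf (nat_lit 0) (nat_lit 34240023639) (nat_lit 228) (nat_lit 35798767760) (nat_lit 304) (nat_lit 688903550) (nat_lit 200) (nat_lit 5) (nat_lit 203) (nat_lit 5) (nat_lit 204) (nat_lit 5) (nat_lit 465) (nat_lit 399) (nat_lit 156)) (XT.lf (nat_lit 0) (nat_lit 7821837960) (nat_lit 228) (nat_lit 9388105063) (nat_lit 304) (nat_lit 54838614889) (nat_lit 196) (nat_lit 5) (nat_lit 199) (nat_lit 5) (nat_lit 200) (nat_lit 5) (nat_lit 466) (nat_lit 399) (nat_lit 155))) (XT.nd (nat_lit 78) (nat_lit 228) (nat_lit 0) (XT.lf (nat_lit 0) (nat_lit 36174051981) (nat_lit 304) (nat_lit 19373132333) (nat_lit 76) (nat_lit 17845393528) (nat_lit 196) (nat_lit 5) (nat_lit 200) (nat_lit 5) (nat_lit 197) (nat_lit 5) (nat_lit 467) (nat_lit 399) (nat_lit 154)) (XT.lf (nat_lit 0) (nat_lit 27263155687) (nat_lit 228)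 (nat_lit 28797779087) (nat_lit 304) (nat_lit 18705368078) (nat_lit 193) (nat_lit 5) (nat_lit 196) (nat_lit 5) (nat_lit 197) (nat_lit 5) (nat_lit 468) (nat_lit 399) (nat_lit 153))))))) (XT.nd (nat_lit 47736) (nat_lit 0) (nat_lit 14896) (XT.nd (nat_lit 546) (nat_lit 988) (nat_lit 0) (XT.nd (nat_lit 234) (nat_lit 456) (nat_lit 0) (XT.nd (nat_lit 78) (nat_lit 456) (nat_lit 0) (XT.lf (nat_lit 0) (nat_lit 552497921) (nat_lit 304) (nat_lit 487098301) (nat_lit 76) (nat_lit 75135646641) (nat_lit 192) (nat_lit 5) (nat_lit 196) (nat_lit 5) (nat_lit 193) (nat_lit 5) (nat_lit 469) (nat_lit 399) (nat_lit 152)) (XT.nd (nat_lit 78) (nat_lit 228) (nat_lit 0) (XT.lf (nat_lit 0) (nat_lit 20750469268) (nat_lit 304) (nat_lit 29175495648) (nat_lit 76) (nat_lit 27672780246) (nat_lit 189) (nat_lit 5) (nat_lit 193) (nat_lit 5) (nat_lit 190) (nat_lit 5) (nat_lit 470) (nat_lit 399) (nat_lit 151)) (XT.lf (nat_lit 0) (nat_lit 20126575660)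 (nat_lit 228) (nat_lit 21635407935) (nat_lit 304) (nat_lit 37296740819) (nat_lit 186) (nat_lit 5) (nat_lit 189) (nat_lit 5) (nat_lit 190) (nat_lit 5) (nat_lit 471) (nat_lit 399) (nat_lit 150)))) (XT.nd (nat_lit 156) (nat_lit 228) (nat_lit 0) (XT.nd (nat_lit 78) (nat_lit 228) (nat_lit 0) (XT.lf (nat_lit 0) (nat_lit 63772388853) (nat_lit 304) (nat_lit 9124854635) (nat_lit 76) (nat_lit 7654203191) (nat_lit 186) (nat_lit 5) (nat_lit 190) (nat_lit 5) (nat_lit 187) (nat_lit 5) (nat_lit 472) (nat_lit 399) (nat_lit 149)) (XT.lf (nat_lit 0) (nat_lit 4899877875) (nat_lit 228) (nat_lit 39322572859) (nat_lit 76) (nat_lit 37846323610) (nat_lit 183) (nat_lit 5) (nat_lit 186) (nat_lit 5) (nat_lit 184) (nat_lit 5) (nat_lit 473) (nat_lit 399) (nat_lit 148))) (XT.nd (nat_lit 78) (nat_lit 0) (nat_lit 0) (XT.lf (nat_lit 0) (nat_lit 12812695715) (nat_lit 228) (nat_lit 14294379727) (nat_lit 304) (nat_lit 56513108431) (nat_lit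 180) (nat_lit 5) (nat_lit 183) (nat_lit 5) (nat_lit 184) (nat_lit 5) (nat_lit 474) (nat_lit 399) (nat_lit 147)) (XT.lf (nat_lit 0) (nat_lit 50539336121) (nat_lit 304) (nat_lit 18052842551) (nat_lit 76) (nat_lit 16609191599) (nat_lit 180) (nat_lit 5) (nat_lit 184) (nat_lit 5) (nat_lit 181) (nat_lit 5) (nat_lit 475) (nat_lit 399) (nat_lit 146))))) (XT.nd (nat_lit 312) (nat_lit 380) (nat_lit 0) (XT.nd (nat_lit 156) (nat_lit 152) (nat_lit 0) (XT.nd (nat_lit 78) (nat_lit 304) (nat_lit 0) (XT.lf (nat_lit 0) (nat_lit 36860374006) (nat_lit 152) (nat_lit 38308998537) (nat_lit 228) (nat_lit 11645775481) (nat_lit 178) (nat_lit 5) (nat_lit 180) (nat_lit 5) (nat_lit 181) (nat_lit 5) (nat_lit 476) (nat_lit 399) (nat_lit 145)) (XT.lf (nat_lit 0) (nat_lit 5303101237) (nat_lit 228) (nat_lit 6756554483) (nat_lit 304) (nat_lit 76407184134) (nat_lit 174) (nat_lit 5) (nat_lit 177) (nat_lit 5) (nat_lit 178) (nat_lit 5) (nat_lit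 477) (nat_lit 399) (nat_lit 144))) (XT.nd (nat_lit 78) (nat_lit 152) (nat_lit 0) (XT.lf (nat_lit 0) (nat_lit 36998036808) (nat_lit 304) (nat_lit 27279791005) (nat_lit 76) (nat_lit 25864119820) (nat_lit 174) (nat_lit 5) (nat_lit 178) (nat_lit 5) (nat_lit 175) (nat_lit 5) (nat_lit 478) (nat_lit 399) (nat_lit 143)) (XT.lf (nat_lit 0) (nat_lit 30813282754) (nat_lit 152) (nat_lit 32233372898) (nat_lit 228) (nat_lit 28809790403) (nat_lit 172) (nat_lit 5) (nat_lit 174) (nat_lit 5) (nat_lit 175) (nat_lit 5) (nat_lit 479) (nat_lit 399) (nat_lit 142)))) (XT.nd (nat_lit 156) (nat_lit 152) (nat_lit 0) (XT.nd (nat_lit 78) (nat_lit 228) (nat_lit 0) (XT.lf (nat_lit 0) (nat_lit 90161356562) (nat_lit 228) (nat_lit 2417688875) (nat_lit 76) (nat_lit 1034795287) (nat_lit 172) (nat_lit 5) (nat_lit 175) (nat_lit 5) (nat_lit 173) (nat_lit 5) (nat_lit 480) (nat_lit 399) (nat_lit 141)) (XT.lf (nat_lit 0) (nat_lit 23115324615)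 (nat_lit 228) (nat_lit 36831135919) (nat_lit 76) (nat_lit 35444198357) (nat_lit 169) (nat_lit 5) (nat_lit 172) (nat_lit 5) (nat_lit 170) (nat_lit 5) (nat_lit 481) (nat_lit 399) (nat_lit 140))) (XT.nd (nat_lit 78) (nat_lit 0) (nat_lit 0) (XT.lf (nat_lit 0) (nat_lit 24640227612) (nat_lit 152) (nat_lit 26031091363) (nat_lit 228) (nat_lit 46540620854) (nat_lit 167) (nat_lit 5) (nat_lit 169) (nat_lit 5) (nat_lit 170) (nat_lit 5) (nat_lit 482) (nat_lit 399) (nat_lit 139)) (XT.lf (nat_lit 0) (nat_lit 79514201560) (nat_lit 228) (nat_lit 10456952674) (nat_lit 76) (nat_lit 9102898708) (nat_lit 167) (nat_lit 5) (nat_lit 170) (nat_lit 5) (nat_lit 168) (nat_lit 5) (nat_lit 483) (nat_lit 399) (nat_lit 138)))))) (XT.nd (nat_lit 624) (nat_lit 836) (nat_lit 0) (XT.nd (nat_lit 312) (nat_lit 0) (nat_lit 152) (XT.nd (nat_lit 156) (nat_lit 0) (nat_lit 76) (XT.nd (nat_lit 78) (nat_lit 0) (nat_lit 0) (XT.lf (nat_lit 0) (nat_lit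 6266620509) (nat_lit 1292) (nat_lit 2863376862) (nat_lit 1292) (nat_lit 2863376862) (nat_lit 374) (nat_lit 3) (nat_lit 391) (nat_lit 3) (nat_lit 391) (nat_lit 5) (nat_lit 400) (nat_lit 400) (nat_lit 220)) (XT.lf (nat_lit 76) (nat_lit 6391338545) (nat_lit 0) (nat_lit 6505472464) (nat_lit 1292) (nat_lit 11444471544) (nat_lit 375) (nat_lit 5) (nat_lit 374) (nat_lit 3) (nat_lit 391) (nat_lit 5) (nat_lit 401) (nat_lit 400) (nat_lit 219))) (XT.nd (nat_lit 78) (nat_lit 0) (nat_lit 0) (XT.lf (nat_lit 0) (nat_lit 13379080202) (nat_lit 1216) (nat_lit 5771265247) (nat_lit 1292) (nat_lit 5552873450) (nat_lit 375) (nat_lit 5) (nat_lit 391) (nat_lit 5) (nat_lit 392) (nat_lit 5) (nat_lit 402) (nat_lit 400) (nat_lit 218)) (XT.lf (nat_lit 76) (nat_lit 6839402816) (nat_lit 0) (nat_lit 7162243317) (nat_lit 1292) (nat_lit 11070592342) (nat_lit 376) (nat_lit 5) (nat_lit 375) (nat_lit 5) (nat_lit 392) (nat_lit 5) (nat_lit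 403) (nat_lit 400) (nat_lit 217)))) (XT.nd (nat_lit 156) (nat_lit 0) (nat_lit 76) (XT.nd (nat_lit 78) (nat_lit 0) (nat_lit 0) (XT.lf (nat_lit 0) (nat_lit 14747384766) (nat_lit 1216) (nat_lit 5556849651) (nat_lit 1292) (nat_lit 5144959349) (nat_lit 376) (nat_lit 5) (nat_lit 392) (nat_lit 5) (nat_lit 393) (nat_lit 5) (nat_lit 404) (nat_lit 400) (nat_lit 216)) (XT.lf (nat_lit 76) (nat_lit 7573826993) (nat_lit 0) (nat_lit 8081302656) (nat_lit 1292) (nat_lit 10178139044) (nat_lit 377) (nat_lit 5) (nat_lit 376) (nat_lit 5) (nat_lit 393) (nat_lit 5) (nat_lit 405) (nat_lit 400) (nat_lit 215))) (XT.nd (nat_lit 78) (nat_lit 0) (nat_lit 0) (XT.lf (nat_lit 0) (nat_lit 16686139262) (nat_lit 1216) (nat_lit 5061319412) (nat_lit 1292) (nat_lit 4478526223) (nat_lit 377) (nat_lit 5) (nat_lit 393) (nat_lit 5) (nat_lit 394) (nat_lit 5) (nat_lit 406) (nat_lit 400) (nat_lit 214)) (XT.lf (nat_lit 76) (nat_lit 8618406329)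 (nat_lit 0) (nat_lit 9288673664) (nat_lit 1292) (nat_lit 8718632568) (nat_lit 378) (nat_lit 5) (nat_lit 377) (nat_lit 5) (nat_lit 394) (nat_lit 5) (nat_lit 407) (nat_lit 400) (nat_lit 213))))) (XT.nd (nat_lit 312) (nat_lit 1140) (nat_lit 0) (XT.nd (nat_lit 156) (nat_lit 0) (nat_lit 76) (XT.nd (nat_lit 78) (nat_lit 0) (nat_lit 0) (XT.lf (nat_lit 0) (nat_lit 19246573743) (nat_lit 1216) (nat_lit 4260799163) (nat_lit 1292) (nat_lit 3527601406) (nat_lit 378) (nat_lit 5) (nat_lit 394) (nat_lit 5) (nat_lit 395) (nat_lit 5) (nat_lit 408) (nat_lit 400) (nat_lit 212)) (XT.lf (nat_lit 76) (nat_lit 9998718528) (nat_lit 0) (nat_lit 10811967520) (nat_lit 1292) (nat_lit 6640294856) (nat_lit 379) (nat_lit 5) (nat_lit 378) (nat_lit 5) (nat_lit 395) (nat_lit 5) (nat_lit 409) (nat_lit 400) (nat_lit 211))) (XT.nd (nat_lit 78) (nat_lit 0) (nat_lit 0) (XT.lf (nat_lit 0) (nat_lit 22483384513) (nat_lit 1216) (nat_lit 3129625695)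 (nat_lit 1292) (nat_lit 2264607600) (nat_lit 379) (nat_lit 5) (nat_lit 395) (nat_lit 5) (nat_lit 396) (nat_lit 5) (nat_lit 410) (nat_lit 400) (nat_lit 210)) (XT.lf (nat_lit 76) (nat_lit 11742229535) (nat_lit 0) (nat_lit 12680505850) (nat_lit 1292) (nat_lit 3887824293) (nat_lit 380) (nat_lit 5) (nat_lit 379) (nat_lit 5) (nat_lit 396) (nat_lit 5) (nat_lit 411) (nat_lit 400) (nat_lit 209)))) (XT.nd (nat_lit 156) (nat_lit 1292) (nat_lit 0) (XT.nd (nat_lit 78) (nat_lit 0) (nat_lit 0) (XT.lf (nat_lit 0) (nat_lit 26454967885) (nat_lit 1216) (nat_lit 1640240831) (nat_lit 1292) (nat_lit 660240054) (nat_lit 380) (nat_lit 5) (nat_lit 396) (nat_lit 5) (nat_lit 397) (nat_lit 5) (nat_lit 412) (nat_lit 400) (nat_lit 208)) (XT.lf (nat_lit 76) (nat_lit 13878406795) (nat_lit 0) (nat_lit 14925449221) (nat_lit 1292) (nat_lit 402157857) (nat_lit 381) (nat_lit 5) (nat_lit 380) (nat_lit 5) (nat_lit 397) (nat_lit 5) (nat_lit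 413) (nat_lit 400) (nat_lit 207))) (XT.nd (nat_lit 78) (nat_lit 0) (nat_lit 76) (XT.lf (nat_lit 76) (nat_lit 213111480) (nat_lit 0) (nat_lit 1325242886) (nat_lit 1368) (nat_lit 28130827290) (nat_lit 364) (nat_lit 5) (nat_lit 363) (nat_lit 5) (nat_lit 381) (nat_lit 5) (nat_lit 414) (nat_lit 400) (nat_lit 206)) (XT.lf (nat_lit 0) (nat_lit 3804072388) (nat_lit 1292) (nat_lit 13737446132) (nat_lit 1368) (nat_lit 12596354297) (nat_lit 364) (nat_lit 5) (nat_lit 381) (nat_lit 5) (nat_lit 382) (nat_lit 5) (nat_lit 415) (nat_lit 400) (nat_lit 205))))))))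
noncomputable def xc217 : XT := (XT.nd (nat_lit 2340) (nat_lit 5624) (nat_lit 0) (XT.nd (nat_lit 1170) (nat_lit 4104) (nat_lit 0) (XT.nd (nat_lit 546) (nat_lit 2280) (nat_lit 0) (XT.nd (nat_lit 234) (nat_lit 1216) (nat_lit 0) (XT.nd (nat_lit 78) (nat_lit 760) (nat_lit 0) (XT.lf (nat_lit 76) (nat_lit 2485527842) (nat_lit 0) (nat_lit 3686185314) (nat_lit 1368) (nat_lit 24447893019) (nat_lit 365) (nat_lit 5) (nat_lit 364) (nat_lit 5) (nat_lit 382) (nat_lit 5) (nat_lit 416) (nat_lit 400) (nat_lit 204)) (XT.nd (nat_lit 78) (nat_lit 836) (nat_lit 0) (XT.lf (nat_lit 0) (nat_lit 8849231845) (nat_lit 1292) (nat_lit 11740613711) (nat_lit 76) (nat_lit 10518780519) (nat_lit 365) (nat_lit 5) (nat_lit 382) (nat_lit 5) (nat_lit 366) (nat_lit 5) (nat_lit 417) (nat_lit 400) (nat_lit 203)) (XT.lf (nat_lit 0) (nat_lit 5207188483) (nat_lit 836) (nat_lit 6483532670) (nat_lit 912) (nat_lit 19919086066) (nat_lit 354) (nat_lit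 5) (nat_lit 365) (nat_lit 5) (nat_lit 366) (nat_lit 5) (nat_lit 418) (nat_lit 400) (nat_lit 202)))) (XT.nd (nat_lit 156) (nat_lit 608) (nat_lit 0) (XT.nd (nat_lit 78) (nat_lit 608) (nat_lit 0) (XT.lf (nat_lit 0) (nat_lit 14811685322) (nat_lit 912) (nat_lit 9299531263) (nat_lit 76) (nat_lit 8008980307) (nat_lit 354) (nat_lit 5) (nat_lit 366) (nat_lit 5) (nat_lit 355) (nat_lit 5) (nat_lit 419) (nat_lit 400) (nat_lit 201)) (XT.lf (nat_lit 0) (nat_lit 8414078023) (nat_lit 608) (nat_lit 9754514262) (nat_lit 684) (nat_lit 14473036554) (nat_lit 346) (nat_lit 5) (nat_lit 354) (nat_lit 5) (nat_lit 355) (nat_lit 5) (nat_lit 420) (nat_lit 400) (nat_lit 200))) (XT.nd (nat_lit 78) (nat_lit 608) (nat_lit 0) (XT.lf (nat_lit 0) (nat_lit 21766719239) (nat_lit 684) (nat_lit 6378092596) (nat_lit 76) (nat_lit 5029676526) (nat_lit 346) (nat_lit 5) (nat_lit 355) (nat_lit 5) (nat_lit 347) (nat_lit 5) (nat_lit 421) (nat_lit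 400) (nat_lit 199)) (XT.lf (nat_lit 0) (nat_lit 12144709529) (nat_lit 608) (nat_lit 13538777700) (nat_lit 684) (nat_lit 8033525524) (nat_lit 338) (nat_lit 5) (nat_lit 346) (nat_lit 5) (nat_lit 347) (nat_lit 5) (nat_lit 422) (nat_lit 400) (nat_lit 198))))) (XT.nd (nat_lit 312) (nat_lit 1064) (nat_lit 0) (XT.nd (nat_lit 156) (nat_lit 684) (nat_lit 0) (XT.nd (nat_lit 78) (nat_lit 532) (nat_lit 0) (XT.lf (nat_lit 0) (nat_lit 29794701534) (nat_lit 684) (nat_lit 2937649385) (nat_lit 76) (nat_lit 1541153658) (nat_lit 338) (nat_lit 5) (nat_lit 347) (nat_lit 5) (nat_lit 339) (nat_lit 5) (nat_lit 423) (nat_lit 400) (nat_lit 197)) (XT.lf (nat_lit 0) (nat_lit 16440281414) (nat_lit 532) (nat_lit 17878555281) (nat_lit 608) (nat_lit 519166928) (nat_lit 331) (nat_lit 5) (nat_lit 338) (nat_lit 5) (nat_lit 339) (nat_lit 5) (nat_lit 424) (nat_lit 400) (nat_lit 196))) (XT.nd (nat_lit 78) (nat_lit 0) (nat_lit 0) (XT.lf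 (nat_lit 0) (nat_lit 1024149827) (nat_lit 608) (nat_lit 2502984993) (nat_lit 684) (nat_lit 31890156493) (nat_lit 322) (nat_lit 5) (nat_lit 330) (nat_lit 5) (nat_lit 331) (nat_lit 5) (nat_lit 425) (nat_lit 400) (nat_lit 195)) (XT.lf (nat_lit 0) (nat_lit 7997758701) (nat_lit 684) (nat_lit 14740319451) (nat_lit 76) (nat_lit 13266324238) (nat_lit 322) (nat_lit 5) (nat_lit 331) (nat_lit 5) (nat_lit 323) (nat_lit 5) (nat_lit 426) (nat_lit 400) (nat_lit 194)))) (XT.nd (nat_lit 156) (nat_lit 532) (nat_lit 0) (XT.nd (nat_lit 78) (nat_lit 0) (nat_lit 0) (XT.lf (nat_lit 0) (nat_lit 5583744065) (nat_lit 532) (nat_lit 7094858614) (nat_lit 608) (nat_lit 23928241081) (nat_lit 315) (nat_lit 5) (nat_lit 322) (nat_lit 5) (nat_lit 323) (nat_lit 5) (nat_lit 427) (nat_lit 400) (nat_lit 193)) (XT.lf (nat_lit 0) (nat_lit 17734565101) (nat_lit 608) (nat_lit 10493921256) (nat_lit 76) (nat_lit 8991831219) (nat_lit 315) (nat_lit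 5) (nat_lit 323) (nat_lit 5) (nat_lit 316) (nat_lit 5) (nat_lit 428) (nat_lit 400) (nat_lit 192))) (XT.nd (nat_lit 78) (nat_lit 0) (nat_lit 0) (XT.lf (nat_lit 0) (nat_lit 10788928988) (nat_lit 532) (nat_lit 12324988476) (nat_lit 608) (nat_lit 14733126810) (nat_lit 308) (nat_lit 5) (nat_lit 315) (nat_lit 5) (nat_lit 316) (nat_lit 5) (nat_lit 429) (nat_lit 400) (nat_lit 191)) (XT.lf (nat_lit 0) (nat_lit 28798447016) (nat_lit 608) (nat_lit 5606575608) (nat_lit 76) (nat_lit 4083236252) (nat_lit 308) (nat_lit 5) (nat_lit 316) (nat_lit 5) (nat_lit 309) (nat_lit 5) (nat_lit 430) (nat_lit 400) (nat_lit 190)))))) (XT.nd (nat_lit 546) (nat_lit 2128) (nat_lit 0) (XT.nd (nat_lit 234) (nat_lit 912) (nat_lit 0) (XT.nd (nat_lit 78) (nat_lit 608) (nat_lit 0) (XT.lf (nat_lit 0) (nat_lit 16689703028) (nat_lit 456) (nat_lit 18244129244) (nat_lit 532) (nat_lit 4206468048) (nat_lit 302) (nat_lit 5) (nat_lit 308) (nat_lit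 5) (nat_lit 309) (nat_lit 5) (nat_lit 431) (nat_lit 400) (nat_lit 189)) (XT.nd (nat_lit 78) (nat_lit 532) (nat_lit 0) (XT.lf (nat_lit 0) (nat_lit 1468302401) (nat_lit 532) (nat_lit 57293217) (nat_lit 76) (nat_lit 38284240146) (nat_lit 301) (nat_lit 5) (nat_lit 308) (nat_lit 5) (nat_lit 302) (nat_lit 5) (nat_lit 432) (nat_lit 400) (nat_lit 188)) (XT.lf (nat_lit 0) (nat_lit 7605346913) (nat_lit 608) (nat_lit 17224233249) (nat_lit 76) (nat_lit 15657330358) (nat_lit 294) (nat_lit 5) (nat_lit 302) (nat_lit 5) (nat_lit 295) (nat_lit 5) (nat_lit 433) (nat_lit 400) (nat_lit 187)))) (XT.nd (nat_lit 156) (nat_lit 456) (nat_lit 0) (XT.nd (nat_lit 78) (nat_lit 0) (nat_lit 0) (XT.lf (nat_lit 0) (nat_lit 6202632360) (nat_lit 456) (nat_lit 7797155523) (nat_lit 532) (nat_lit 27182311083) (nat_lit 288) (nat_lit 5) (nat_lit 294) (nat_lit 5) (nat_lit 295) (nat_lit 5) (nat_lit 434) (nat_lit 400) (nat_lit 186)) (XT.lf (nat_lit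 0) (nat_lit 20853406303) (nat_lit 532) (nat_lit 11305415966) (nat_lit 76) (nat_lit 9731300469) (nat_lit 288) (nat_lit 5) (nat_lit 295) (nat_lit 5) (nat_lit 289) (nat_lit 5) (nat_lit 435) (nat_lit 400) (nat_lit 185))) (XT.nd (nat_lit 78) (nat_lit 0) (nat_lit 0) (XT.lf (nat_lit 0) (nat_lit 13257973533) (nat_lit 456) (nat_lit 14857365491) (nat_lit 532) (nat_lit 14497967028) (nat_lit 282) (nat_lit 5) (nat_lit 288) (nat_lit 5) (nat_lit 289) (nat_lit 5) (nat_lit 436) (nat_lit 400) (nat_lit 184)) (XT.lf (nat_lit 0) (nat_lit 35736997648) (nat_lit 532) (nat_lit 4596782197) (nat_lit 76) (nat_lit 3020148982) (nat_lit 282) (nat_lit 5) (nat_lit 289) (nat_lit 5) (nat_lit 283) (nat_lit 5) (nat_lit 437) (nat_lit 400) (nat_lit 183))))) (XT.nd (nat_lit 312) (nat_lit 836) (nat_lit 0) (XT.nd (nat_lit 156) (nat_lit 380) (nat_lit 0) (XT.nd (nat_lit 78) (nat_lit 532) (nat_lit 0) (XT.lf (nat_lit 0) (nat_lit 21168136080) (nat_lit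 380) (nat_lit 22767900837) (nat_lit 456) (nat_lit 170271442) (nat_lit 277) (nat_lit 5) (nat_lit 282) (nat_lit 5) (nat_lit 283) (nat_lit 5) (nat_lit 438) (nat_lit 400) (nat_lit 182)) (XT.lf (nat_lit 0) (nat_lit 2902076488) (nat_lit 456) (nat_lit 4524299054) (nat_lit 532) (nat_lit 37450532897) (nat_lit 270) (nat_lit 5) (nat_lit 276) (nat_lit 5) (nat_lit 277) (nat_lit 5) (nat_lit 439) (nat_lit 400) (nat_lit 181))) (XT.nd (nat_lit 78) (nat_lit 380) (nat_lit 0) (XT.lf (nat_lit 0) (nat_lit 15616749614) (nat_lit 532) (nat_lit 15819445419) (nat_lit 76) (nat_lit 14223303416) (nat_lit 270) (nat_lit 5) (nat_lit 277) (nat_lit 5) (nat_lit 271) (nat_lit 5) (nat_lit 440) (nat_lit 400) (nat_lit 180)) (XT.lf (nat_lit 0) (nat_lit 11293869451) (nat_lit 380) (nat_lit 12910563530) (nat_lit 456) (nat_lit 22256585235) (nat_lit 265) (nat_lit 5) (nat_lit 270) (nat_lit 5) (nat_lit 271) (nat_lit 5) (nat_lit 441) (nat_lit 400)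 (nat_lit 179)))) (XT.nd (nat_lit 156) (nat_lit 456) (nat_lit 0) (XT.nd (nat_lit 78) (nat_lit 380) (nat_lit 0) (XT.lf (nat_lit 0) (nat_lit 33268654893) (nat_lit 456) (nat_lit 7800169824) (nat_lit 76) (nat_lit 6211191618) (nat_lit 265) (nat_lit 5) (nat_lit 271) (nat_lit 5) (nat_lit 266) (nat_lit 5) (nat_lit 442) (nat_lit 400) (nat_lit 178)) (XT.lf (nat_lit 0) (nat_lit 20660881671) (nat_lit 380) (nat_lit 22268667938) (nat_lit 456) (nat_lit 5184292404) (nat_lit 260) (nat_lit 5) (nat_lit 265) (nat_lit 5) (nat_lit 266) (nat_lit 5) (nat_lit 443) (nat_lit 400) (nat_lit 177))) (XT.nd (nat_lit 78) (nat_lit 0) (nat_lit 0) (XT.lf (nat_lit 0) (nat_lit 1147094338) (nat_lit 380) (nat_lit 2773140858) (nat_lit 456) (nat_lit 45048653472) (nat_lit 254) (nat_lit 5) (nat_lit 259) (nat_lit 5) (nat_lit 260) (nat_lit 5) (nat_lit 444) (nat_lit 400) (nat_lit 176)) (XT.lf (nat_lit 0) (nat_lit 13638379040) (nat_lit 456) (nat_lit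 18896112695) (nat_lit 76) (nat_lit 17300214713) (nat_lit 254) (nat_lit 5) (nat_lit 260) (nat_lit 5) (nat_lit 255) (nat_lit 5) (nat_lit 445) (nat_lit 400) (nat_lit 175))))))) (XT.nd (nat_lit 1170) (nat_lit 2584) (nat_lit 0) (XT.nd (nat_lit 546) (nat_lit 1596) (nat_lit 0) (XT.nd (nat_lit 234) (nat_lit 760) (nat_lit 0) (XT.nd (nat_lit 78) (nat_lit 304) (nat_lit 0) (XT.lf (nat_lit 0) (nat_lit 11083927420) (nat_lit 380) (nat_lit 12696536120) (nat_lit 456) (nat_lit 26942063331) (nat_lit 249) (nat_lit 5) (nat_lit 254) (nat_lit 5) (nat_lit 255) (nat_lit 5) (nat_lit 446) (nat_lit 400) (nat_lit 174)) (XT.nd (nat_lit 78) (nat_lit 304) (nat_lit 0) (XT.lf (nat_lit 0) (nat_lit 34492295328) (nat_lit 456) (nat_lit 9359056503) (nat_lit 76) (nat_lit 7777665533) (nat_lit 249) (nat_lit 5) (nat_lit 255) (nat_lit 5) (nat_lit 250) (nat_lit 5) (nat_lit 447) (nat_lit 400) (nat_lit 173)) (XT.lf (nat_lit 0) (nat_lit 22132860401)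 (nat_lit 304) (nat_lit 23729544046) (nat_lit 380) (nat_lit 6690190453) (nat_lit 245) (nat_lit 5) (nat_lit 249) (nat_lit 5) (nat_lit 250) (nat_lit 5) (nat_lit 448) (nat_lit 400) (nat_lit 172)))) (XT.nd (nat_lit 156) (nat_lit 304) (nat_lit 0) (XT.nd (nat_lit 78) (nat_lit 0) (nat_lit 0) (XT.lf (nat_lit 0) (nat_lit 1242322606) (nat_lit 380) (nat_lit 2853853508) (nat_lit 456) (nat_lit 49403354396) (nat_lit 239) (nat_lit 5) (nat_lit 244) (nat_lit 5) (nat_lit 245) (nat_lit 5) (nat_lit 449) (nat_lit 400) (nat_lit 171)) (XT.lf (nat_lit 0) (nat_lit 15559631139) (nat_lit 456) (nat_lit 20238602514) (nat_lit 76) (nat_lit 18660014442) (nat_lit 239) (nat_lit 5) (nat_lit 245) (nat_lit 5) (nat_lit 240) (nat_lit 5) (nat_lit 450) (nat_lit 400) (nat_lit 170))) (XT.nd (nat_lit 78) (nat_lit 0) (nat_lit 0) (XT.lf (nat_lit 0) (nat_lit 12963104681) (nat_lit 304) (nat_lit 14555280097) (nat_lit 380) (nat_lit 27922800578) (nat_lit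 235) (nat_lit 5) (nat_lit 239) (nat_lit 5) (nat_lit 240) (nat_lit 5) (nat_lit 451) (nat_lit 400) (nat_lit 169)) (XT.lf (nat_lit 0) (nat_lit 40111252087) (nat_lit 380) (nat_lit 8946353433) (nat_lit 76) (nat_lit 7387744684) (nat_lit 235) (nat_lit 5) (nat_lit 240) (nat_lit 5) (nat_lit 236) (nat_lit 5) (nat_lit 452) (nat_lit 400) (nat_lit 168))))) (XT.nd (nat_lit 312) (nat_lit 608) (nat_lit 0) (XT.nd (nat_lit 156) (nat_lit 304) (nat_lit 0) (XT.nd (nat_lit 78) (nat_lit 380) (nat_lit 0) (XT.lf (nat_lit 0) (nat_lit 25951511777) (nat_lit 304) (nat_lit 27522554870) (nat_lit 380) (nat_lit 3993808513) (nat_lit 231) (nat_lit 5) (nat_lit 235) (nat_lit 5) (nat_lit 236) (nat_lit 5) (nat_lit 453) (nat_lit 400) (nat_lit 167)) (XT.lf (nat_lit 0) (nat_lit 3543687347) (nat_lit 304) (nat_lit 5126802618) (nat_lit 380) (nat_lit 49844355370) (nat_lit 226) (nat_lit 5) (nat_lit 230) (nat_lit 5) (nat_lit 231) (nat_lit 5) (nat_lit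 454) (nat_lit 400) (nat_lit 166))) (XT.nd (nat_lit 78) (nat_lit 304) (nat_lit 0) (XT.lf (nat_lit 0) (nat_lit 22126917409) (nat_lit 380) (nat_lit 19499365542) (nat_lit 76) (nat_lit 17950981237) (nat_lit 226) (nat_lit 5) (nat_lit 231) (nat_lit 5) (nat_lit 227) (nat_lit 5) (nat_lit 455) (nat_lit 400) (nat_lit 165)) (XT.lf (nat_lit 0) (nat_lit 17321761436) (nat_lit 304) (nat_lit 18881193494) (nat_lit 380) (nat_lit 24462123158) (nat_lit 222) (nat_lit 5) (nat_lit 226) (nat_lit 5) (nat_lit 227) (nat_lit 5) (nat_lit 456) (nat_lit 400) (nat_lit 164)))) (XT.nd (nat_lit 156) (nat_lit 304) (nat_lit 0) (XT.nd (nat_lit 78) (nat_lit 304) (nat_lit 0) (XT.lf (nat_lit 0) (nat_lit 50942492028) (nat_lit 380) (nat_lit 6180111549) (nat_lit 76) (nat_lit 4655686274) (nat_lit 222) (nat_lit 5) (nat_lit 227) (nat_lit 5) (nat_lit 223) (nat_lit 5) (nat_lit 457) (nat_lit 400) (nat_lit 163)) (XT.lf (nat_lit 0) (nat_lit 3640299763)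 (nat_lit 304) (nat_lit 30401554371) (nat_lit 76) (nat_lit 28867018837) (nat_lit 218) (nat_lit 5) (nat_lit 222) (nat_lit 5) (nat_lit 219) (nat_lit 5) (nat_lit 458) (nat_lit 400) (nat_lit 162))) (XT.nd (nat_lit 78) (nat_lit 0) (nat_lit 0) (XT.lf (nat_lit 0) (nat_lit 8465825419) (nat_lit 304) (nat_lit 10010176739) (nat_lit 380) (nat_lit 45589859554) (nat_lit 214) (nat_lit 5) (nat_lit 218) (nat_lit 5) (nat_lit 219) (nat_lit 5) (nat_lit 459) (nat_lit 400) (nat_lit 161)) (XT.lf (nat_lit 0) (nat_lit 34207243158) (nat_lit 380) (nat_lit 16272712732) (nat_lit 76) (nat_lit 14764090199) (nat_lit 214) (nat_lit 5) (nat_lit 219) (nat_lit 5) (nat_lit 215) (nat_lit 5) (nat_lit 460) (nat_lit 400) (nat_lit 160)))))) (XT.nd (nat_lit 624) (nat_lit 1216) (nat_lit 0) (XT.nd (nat_lit 312) (nat_lit 532) (nat_lit 0) (XT.nd (nat_lit 156) (nat_lit 532) (nat_lit 0) (XT.nd (nat_lit 78) (nat_lit 76) (nat_lit 0) (XT.lf (nat_lit 0)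 (nat_lit 24613641906) (nat_lit 228) (nat_lit 26131247274) (nat_lit 304) (nat_lit 15702652785) (nat_lit 211) (nat_lit 5) (nat_lit 214) (nat_lit 5) (nat_lit 215) (nat_lit 5) (nat_lit 461) (nat_lit 400) (nat_lit 159)) (XT.lf (nat_lit 0) (nat_lit 254446397) (nat_lit 304) (nat_lit 626541955) (nat_lit 76) (nat_lit 66801186657) (nat_lit 210) (nat_lit 5) (nat_lit 214) (nat_lit 5) (nat_lit 211) (nat_lit 5) (nat_lit 462) (nat_lit 400) (nat_lit 158))) (XT.nd (nat_lit 78) (nat_lit 228) (nat_lit 0) (XT.lf (nat_lit 0) (nat_lit 17028985883) (nat_lit 380) (nat_lit 26695328986) (nat_lit 76) (nat_lit 25205237967) (nat_lit 206) (nat_lit 5) (nat_lit 211) (nat_lit 5) (nat_lit 207) (nat_lit 5) (nat_lit 463) (nat_lit 400) (nat_lit 157)) (XT.lf (nat_lit 0) (nat_lit 16490562894) (nat_lit 228) (nat_lit 17988635046) (nat_lit 304) (nat_lit 35729980968) (nat_lit 203) (nat_lit 5) (nat_lit 206) (nat_lit 5) (nat_lit 207) (nat_lit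 5) (nat_lit 464) (nat_lit 400) (nat_lit 156)))) (XT.nd (nat_lit 156) (nat_lit 304) (nat_lit 0) (XT.nd (nat_lit 78) (nat_lit 228) (nat_lit 0) (XT.lf (nat_lit 0) (nat_lit 52805862871) (nat_lit 304) (nat_lit 10086352230) (nat_lit 76) (nat_lit 8624390265) (nat_lit 203) (nat_lit 5) (nat_lit 207) (nat_lit 5) (nat_lit 204) (nat_lit 5) (nat_lit 465) (nat_lit 400) (nat_lit 155)) (XT.lf (nat_lit 0) (nat_lit 35364983814) (nat_lit 228) (nat_lit 36834249646) (nat_lit 304) (nat_lit 648513988) (nat_lit 200) (nat_lit 5) (nat_lit 203) (nat_lit 5) (nat_lit 204) (nat_lit 5) (nat_lit 466) (nat_lit 400) (nat_lit 154))) (XT.nd (nat_lit 78) (nat_lit 0) (nat_lit 0) (XT.lf (nat_lit 0) (nat_lit 8154473893) (nat_lit 228) (nat_lit 9630830857) (nat_lit 304) (nat_lit 56422937996) (nat_lit 196) (nat_lit 5) (nat_lit 199) (nat_lit 5) (nat_lit 200) (nat_lit 5) (nat_lit 467) (nat_lit 400) (nat_lit 153)) (XT.lf (nat_lit 0) (nat_lit 37316979884)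 (nat_lit 304) (nat_lit 19857842226) (nat_lit 76) (nat_lit 18417801877) (nat_lit 196) (nat_lit 5) (nat_lit 200) (nat_lit 5) (nat_lit 197) (nat_lit 5) (nat_lit 468) (nat_lit 400) (nat_lit 152))))) (XT.nd (nat_lit 312) (nat_lit 456) (nat_lit 0) (XT.nd (nat_lit 156) (nat_lit 456) (nat_lit 0) (XT.nd (nat_lit 78) (nat_lit 76) (nat_lit 0) (XT.lf (nat_lit 0) (nat_lit 28176588513) (nat_lit 228) (nat_lit 29623118252) (nat_lit 304) (nat_lit 19207876854) (nat_lit 193) (nat_lit 5) (nat_lit 196) (nat_lit 5) (nat_lit 197) (nat_lit 5) (nat_lit 469) (nat_lit 400) (nat_lit 151)) (XT.lf (nat_lit 0) (nat_lit 624905625) (nat_lit 304) (nat_lit 407844578) (nat_lit 76) (nat_lit 77426074963) (nat_lit 192) (nat_lit 5) (nat_lit 196) (nat_lit 5) (nat_lit 193) (nat_lit 5) (nat_lit 470) (nat_lit 400) (nat_lit 150))) (XT.nd (nat_lit 78) (nat_lit 228) (nat_lit 0) (XT.lf (nat_lit 0) (nat_lit 21428447176) (nat_lit 304) (nat_lit 29956524908)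 (nat_lit 76) (nat_lit 28540071518) (nat_lit 189) (nat_lit 5) (nat_lit 193) (nat_lit 5) (nat_lit 190) (nat_lit 5) (nat_lit 471) (nat_lit 400) (nat_lit 149)) (XT.lf (nat_lit 0) (nat_lit 20823684660) (nat_lit 228) (nat_lit 22245903790) (nat_lit 304) (nat_lit 38359255336) (nat_lit 186) (nat_lit 5) (nat_lit 189) (nat_lit 5) (nat_lit 190) (nat_lit 5) (nat_lit 472) (nat_lit 400) (nat_lit 148)))) (XT.nd (nat_lit 156) (nat_lit 228) (nat_lit 0) (XT.nd (nat_lit 78) (nat_lit 228) (nat_lit 0) (XT.lf (nat_lit 0) (nat_lit 65739071267) (nat_lit 304) (nat_lit 9306771763) (nat_lit 76) (nat_lit 7920541728) (nat_lit 186) (nat_lit 5) (nat_lit 190) (nat_lit 5) (nat_lit 187) (nat_lit 5) (nat_lit 473) (nat_lit 400) (nat_lit 147)) (XT.lf (nat_lit 0) (nat_lit 5100223484) (nat_lit 228) (nat_lit 40410260058) (nat_lit 76) (nat_lit 39018753554) (nat_lit 183) (nat_lit 5) (nat_lit 186) (nat_lit 5) (nat_lit 184) (nat_lit 5) (nat_lit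 474) (nat_lit 400) (nat_lit 146))) (XT.nd (nat_lit 78) (nat_lit 0) (nat_lit 0) (XT.lf (nat_lit 0) (nat_lit 13288164711) (nat_lit 228) (nat_lit 14684794000) (nat_lit 304) (nat_lit 58154250548) (nat_lit 180) (nat_lit 5) (nat_lit 183) (nat_lit 5) (nat_lit 184) (nat_lit 5) (nat_lit 475) (nat_lit 400) (nat_lit 145)) (XT.lf (nat_lit 0) (nat_lit 52107011636) (nat_lit 304) (nat_lit 18504817181) (nat_lit 76) (nat_lit 17144037699) (nat_lit 180) (nat_lit 5) (nat_lit 184) (nat_lit 5) (nat_lit 181) (nat_lit 5) (nat_lit 476) (nat_lit 400) (nat_lit 144))))))))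
noncomputable def xc218 : XT := (XT.nd (nat_lit 49062) (nat_lit 0) (nat_lit 4332) (XT.nd (nat_lit 47892) (nat_lit 0) (nat_lit 12844) (XT.nd (nat_lit 47268) (nat_lit 0) (nat_lit 15580) (XT.nd (nat_lit 234) (nat_lit 380) (nat_lit 0) (XT.nd (nat_lit 78) (nat_lit 304) (nat_lit 0) (XT.lf (nat_lit 0) (nat_lit 38054917337) (nat_lit 152) (nat_lit 39420384894) (nat_lit 228) (nat_lit 11942774778) (nat_lit 178) (nat_lit 5) (nat_lit 180) (nat_lit 5) (nat_lit 181) (nat_lit 5) (nat_lit 477) (nat_lit 400) (nat_lit 143)) (XT.nd (nat_lit 78) (nat_lit 0) (nat_lit 0) (XT.lf (nat_lit 0) (nat_lit 5551068447) (nat_lit 228) (nat_lit 6921087532) (nat_lit 304) (nat_lit 78647167753) (nat_lit 174) (nat_lit 5) (nat_lit 177) (nat_lit 5) (nat_lit 178) (nat_lit 5) (nat_lit 478) (nat_lit 400) (nat_lit 142)) (XT.lf (nat_lit 0) (nat_lit 38157567659) (nat_lit 304) (nat_lit 28010778289) (nat_lit 76) (nat_lit 26676372421) (nat_lit 174)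 (nat_lit 5) (nat_lit 178) (nat_lit 5) (nat_lit 175) (nat_lit 5) (nat_lit 479) (nat_lit 400) (nat_lit 141)))) (XT.nd (nat_lit 156) (nat_lit 228) (nat_lit 0) (XT.nd (nat_lit 78) (nat_lit 0) (nat_lit 0) (XT.lf (nat_lit 0) (nat_lit 31824230756) (nat_lit 152) (nat_lit 33162801917) (nat_lit 228) (nat_lit 29623637443) (nat_lit 172) (nat_lit 5) (nat_lit 174) (nat_lit 5) (nat_lit 175) (nat_lit 5) (nat_lit 480) (nat_lit 400) (nat_lit 140)) (XT.lf (nat_lit 0) (nat_lit 92914098733) (nat_lit 228) (nat_lit 2405115004) (nat_lit 76) (nat_lit 1101605164) (nat_lit 172) (nat_lit 5) (nat_lit 175) (nat_lit 5) (nat_lit 173) (nat_lit 5) (nat_lit 481) (nat_lit 400) (nat_lit 139))) (XT.nd (nat_lit 46800) (nat_lit 0) (nat_lit 15580) (XT.lf (nat_lit 0) (nat_lit 23856569175) (nat_lit 228) (nat_lit 37850848806) (nat_lit 76) (nat_lit 36543527133) (nat_lit 169) (nat_lit 5) (nat_lit 172) (nat_lit 5) (nat_lit 170) (nat_lit 5) (nat_lit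 482) (nat_lit 400) (nat_lit 138)) (XT.lf (nat_lit 0) (nat_lit 6567655919) (nat_lit 1292) (nat_lit 2891064219) (nat_lit 1292) (nat_lit 2891064219) (nat_lit 374) (nat_lit 3) (nat_lit 391) (nat_lit 3) (nat_lit 391) (nat_lit 5) (nat_lit 401) (nat_lit 401) (nat_lit 218))))) (XT.nd (nat_lit 312) (nat_lit 0) (nat_lit 152) (XT.nd (nat_lit 156) (nat_lit 0) (nat_lit 76) (XT.nd (nat_lit 78) (nat_lit 0) (nat_lit 76) (XT.lf (nat_lit 76) (nat_lit 6698365150) (nat_lit 0) (nat_lit 6805947315) (nat_lit 1292) (nat_lit 11560590651) (nat_lit 375) (nat_lit 5) (nat_lit 374) (nat_lit 3) (nat_lit 391) (nat_lit 5) (nat_lit 402) (nat_lit 401) (nat_lit 217)) (XT.lf (nat_lit 0) (nat_lit 13993641749) (nat_lit 1216) (nat_lit 5825066628) (nat_lit 1292) (nat_lit 5619211414) (nat_lit 375) (nat_lit 5) (nat_lit 391) (nat_lit 5) (nat_lit 392) (nat_lit 5) (nat_lit 403) (nat_lit 401) (nat_lit 216))) (XT.nd (nat_lit 78) (nat_lit 0) (nat_lit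 76) (XT.lf (nat_lit 76) (nat_lit 7162751509) (nat_lit 0) (nat_lit 7467059646) (nat_lit 1292) (nat_lit 11188351004) (nat_lit 376) (nat_lit 5) (nat_lit 375) (nat_lit 5) (nat_lit 392) (nat_lit 5) (nat_lit 404) (nat_lit 401) (nat_lit 215)) (XT.lf (nat_lit 0) (nat_lit 15391020865) (nat_lit 1216) (nat_lit 5601929195) (nat_lit 1292) (nat_lit 5213683082) (nat_lit 376) (nat_lit 5) (nat_lit 392) (nat_lit 5) (nat_lit 393) (nat_lit 5) (nat_lit 405) (nat_lit 401) (nat_lit 214)))) (XT.nd (nat_lit 156) (nat_lit 0) (nat_lit 76) (XT.nd (nat_lit 78) (nat_lit 0) (nat_lit 76) (XT.lf (nat_lit 76) (nat_lit 7921475337) (nat_lit 0) (nat_lit 8399819821) (nat_lit 1292) (nat_lit 10281076247) (nat_lit 377) (nat_lit 5) (nat_lit 376) (nat_lit 5) (nat_lit 393) (nat_lit 5) (nat_lit 406) (nat_lit 401) (nat_lit 213)) (XT.lf (nat_lit 0) (nat_lit 17376801410) (nat_lit 1216) (nat_lit 5089799585) (nat_lit 1292) (nat_lit 4540461109) (nat_lit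 377) (nat_lit 5) (nat_lit 393) (nat_lit 5) (nat_lit 394) (nat_lit 5) (nat_lit 407) (nat_lit 401) (nat_lit 212))) (XT.nd (nat_lit 78) (nat_lit 0) (nat_lit 76) (XT.lf (nat_lit 76) (nat_lit 8999108523) (nat_lit 0) (nat_lit 9630899770) (nat_lit 1292) (nat_lit 8788904168) (nat_lit 378) (nat_lit 5) (nat_lit 377) (nat_lit 5) (nat_lit 394) (nat_lit 5) (nat_lit 408) (nat_lit 401) (nat_lit 211)) (XT.lf (nat_lit 0) (nat_lit 20003684416) (nat_lit 1216) (nat_lit 4264028464) (nat_lit 1292) (nat_lit 3572919258) (nat_lit 378) (nat_lit 5) (nat_lit 394) (nat_lit 5) (nat_lit 395) (nat_lit 5) (nat_lit 409) (nat_lit 401) (nat_lit 210)))))) (XT.nd (nat_lit 546) (nat_lit 1900) (nat_lit 0) (XT.nd (nat_lit 234) (nat_lit 1140) (nat_lit 0) (XT.nd (nat_lit 78) (nat_lit 0) (nat_lit 76) (XT.lf (nat_lit 76) (nat_lit 10422053241) (nat_lit 0) (nat_lit 11188618415) (nat_lit 1292) (nat_lit 6658568724) (nat_lit 379) (nat_lit 5) (nat_lit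 378) (nat_lit 5) (nat_lit 395) (nat_lit 5) (nat_lit 410) (nat_lit 401) (nat_lit 209)) (XT.nd (nat_lit 78) (nat_lit 0) (nat_lit 0) (XT.lf (nat_lit 0) (nat_lit 23327946598) (nat_lit 1216) (nat_lit 3098130223) (nat_lit 1292) (nat_lit 2282767706) (nat_lit 379) (nat_lit 5) (nat_lit 395) (nat_lit 5) (nat_lit 396) (nat_lit 5) (nat_lit 411) (nat_lit 401) (nat_lit 208)) (XT.lf (nat_lit 76) (nat_lit 12218651406) (nat_lit 0) (nat_lit 13103066823) (nat_lit 1292) (nat_lit 3833169215) (nat_lit 380) (nat_lit 5) (nat_lit 379) (nat_lit 5) (nat_lit 396) (nat_lit 5) (nat_lit 412) (nat_lit 401) (nat_lit 207)))) (XT.nd (nat_lit 156) (nat_lit 1292) (nat_lit 0) (XT.nd (nat_lit 78) (nat_lit 0) (nat_lit 0) (XT.lf (nat_lit 0) (nat_lit 27409680661) (nat_lit 1216) (nat_lit 1563672191) (nat_lit 1292) (nat_lit 639927468) (nat_lit 380) (nat_lit 5) (nat_lit 396) (nat_lit 5) (nat_lit 397) (nat_lit 5) (nat_lit 413) (nat_lit 401) (nat_lit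 206)) (XT.lf (nat_lit 76) (nat_lit 14419301767) (nat_lit 0) (nat_lit 15406239674) (nat_lit 1292) (nat_lit 251925757) (nat_lit 381) (nat_lit 5) (nat_lit 380) (nat_lit 5) (nat_lit 397) (nat_lit 5) (nat_lit 414) (nat_lit 401) (nat_lit 205))) (XT.nd (nat_lit 78) (nat_lit 0) (nat_lit 76) (XT.lf (nat_lit 76) (nat_lit 345962531) (nat_lit 0) (nat_lit 1394253045) (nat_lit 1368) (nat_lit 28814370212) (nat_lit 364) (nat_lit 5) (nat_lit 363) (nat_lit 5) (nat_lit 381) (nat_lit 5) (nat_lit 415) (nat_lit 401) (nat_lit 204)) (XT.lf (nat_lit 0) (nat_lit 4069096874) (nat_lit 1292) (nat_lit 14021986777) (nat_lit 1368) (nat_lit 12946398281) (nat_lit 364) (nat_lit 5) (nat_lit 381) (nat_lit 5) (nat_lit 382) (nat_lit 5) (nat_lit 416) (nat_lit 401) (nat_lit 203))))) (XT.nd (nat_lit 312) (nat_lit 1216) (nat_lit 0) (XT.nd (nat_lit 156) (nat_lit 760) (nat_lit 0) (XT.nd (nat_lit 78) (nat_lit 0) (nat_lit 76) (XT.lf (nat_lit 76)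 (nat_lit 2686425605) (nat_lit 0) (nat_lit 3818160426) (nat_lit 1368) (nat_lit 25029176685) (nat_lit 365) (nat_lit 5) (nat_lit 364) (nat_lit 5) (nat_lit 382) (nat_lit 5) (nat_lit 417) (nat_lit 401) (nat_lit 202)) (XT.lf (nat_lit 0) (nat_lit 9257928092) (nat_lit 1292) (nat_lit 11965677577) (nat_lit 76) (nat_lit 10813982609) (nat_lit 365) (nat_lit 5) (nat_lit 382) (nat_lit 5) (nat_lit 366) (nat_lit 5) (nat_lit 418) (nat_lit 401) (nat_lit 201))) (XT.nd (nat_lit 78) (nat_lit 0) (nat_lit 0) (XT.lf (nat_lit 0) (nat_lit 5489312069) (nat_lit 836) (nat_lit 6692388879) (nat_lit 912) (nat_lit 20372192743) (nat_lit 354) (nat_lit 5) (nat_lit 365) (nat_lit 5) (nat_lit 366) (nat_lit 5) (nat_lit 419) (nat_lit 401) (nat_lit 200)) (XT.lf (nat_lit 0) (nat_lit 15392074928) (nat_lit 912) (nat_lit 9452057375) (nat_lit 76) (nat_lit 8235589324) (nat_lit 354) (nat_lit 5) (nat_lit 366) (nat_lit 5) (nat_lit 355) (nat_lit 5) (nat_lit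 420) (nat_lit 401) (nat_lit 199)))) (XT.nd (nat_lit 156) (nat_lit 608) (nat_lit 0) (XT.nd (nat_lit 78) (nat_lit 0) (nat_lit 0) (XT.lf (nat_lit 0) (nat_lit 8791720387) (nat_lit 608) (nat_lit 10055210102) (nat_lit 684) (nat_lit 14769948802) (nat_lit 346) (nat_lit 5) (nat_lit 354) (nat_lit 5) (nat_lit 355) (nat_lit 5) (nat_lit 421) (nat_lit 401) (nat_lit 198)) (XT.lf (nat_lit 0) (nat_lit 22549044072) (nat_lit 684) (nat_lit 6443905357) (nat_lit 76) (nat_lit 5172893886) (nat_lit 346) (nat_lit 5) (nat_lit 355) (nat_lit 5) (nat_lit 347) (nat_lit 5) (nat_lit 422) (nat_lit 401) (nat_lit 197))) (XT.nd (nat_lit 78) (nat_lit 0) (nat_lit 0) (XT.lf (nat_lit 0) (nat_lit 12633350146) (nat_lit 608) (nat_lit 13947393100) (nat_lit 684) (nat_lit 8143977347) (nat_lit 338) (nat_lit 5) (nat_lit 346) (nat_lit 5) (nat_lit 347) (nat_lit 5) (nat_lit 423) (nat_lit 401) (nat_lit 196)) (XT.lf (nat_lit 0) (nat_lit 30811579308) (nat_lit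 684) (nat_lit 2901385232) (nat_lit 76) (nat_lit 1585054073) (nat_lit 338) (nat_lit 5) (nat_lit 347) (nat_lit 5) (nat_lit 339) (nat_lit 5) (nat_lit 424) (nat_lit 401) (nat_lit 195))))))) (XT.nd (nat_lit 1170) (nat_lit 3876) (nat_lit 0) (XT.nd (nat_lit 546) (nat_lit 2356) (nat_lit 0) (XT.nd (nat_lit 234) (nat_lit 1064) (nat_lit 0) (XT.nd (nat_lit 78) (nat_lit 684) (nat_lit 0) (XT.lf (nat_lit 0) (nat_lit 17056663946) (nat_lit 532) (nat_lit 18412375008) (nat_lit 608) (nat_lit 410485663) (nat_lit 331) (nat_lit 5) (nat_lit 338) (nat_lit 5) (nat_lit 339) (nat_lit 5) (nat_lit 425) (nat_lit 401) (nat_lit 194)) (XT.nd (nat_lit 78) (nat_lit 0) (nat_lit 0) (XT.lf (nat_lit 0) (nat_lit 1179241738) (nat_lit 608) (nat_lit 2573185716) (nat_lit 684) (nat_lit 32723798241) (nat_lit 322) (nat_lit 5) (nat_lit 330) (nat_lit 5) (nat_lit 331) (nat_lit 5) (nat_lit 426) (nat_lit 401) (nat_lit 193)) (XT.lf (nat_lit 0) (nat_lit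 8353735718) (nat_lit 684) (nat_lit 15058349638) (nat_lit 76) (nat_lit 13668967780) (nat_lit 322) (nat_lit 5) (nat_lit 331) (nat_lit 5) (nat_lit 323) (nat_lit 5) (nat_lit 427) (nat_lit 401) (nat_lit 192)))) (XT.nd (nat_lit 156) (nat_lit 532) (nat_lit 0) (XT.nd (nat_lit 78) (nat_lit 0) (nat_lit 0) (XT.lf (nat_lit 0) (nat_lit 5874218339) (nat_lit 532) (nat_lit 7298588731) (nat_lit 608) (nat_lit 24528826613) (nat_lit 315) (nat_lit 5) (nat_lit 322) (nat_lit 5) (nat_lit 323) (nat_lit 5) (nat_lit 428) (nat_lit 401) (nat_lit 191)) (XT.lf (nat_lit 0) (nat_lit 18377217526) (nat_lit 608) (nat_lit 10686127519) (nat_lit 76) (nat_lit 9270263594) (nat_lit 315) (nat_lit 5) (nat_lit 323) (nat_lit 5) (nat_lit 316) (nat_lit 5) (nat_lit 429) (nat_lit 401) (nat_lit 190))) (XT.nd (nat_lit 78) (nat_lit 0) (nat_lit 0) (XT.lf (nat_lit 0) (nat_lit 11234006161) (nat_lit 532) (nat_lit 12681889550) (nat_lit 608) (nat_lit 15063303070)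 (nat_lit 308) (nat_lit 5) (nat_lit 315) (nat_lit 5) (nat_lit 316) (nat_lit 5) (nat_lit 430) (nat_lit 401) (nat_lit 189)) (XT.lf (nat_lit 0) (nat_lit 29767919098) (nat_lit 608) (nat_lit 5653857715) (nat_lit 76) (nat_lit 4217964269) (nat_lit 308) (nat_lit 5) (nat_lit 316) (nat_lit 5) (nat_lit 309) (nat_lit 5) (nat_lit 431) (nat_lit 401) (nat_lit 188))))) (XT.nd (nat_lit 312) (nat_lit 836) (nat_lit 0) (XT.nd (nat_lit 156) (nat_lit 456) (nat_lit 0) (XT.nd (nat_lit 78) (nat_lit 608) (nat_lit 0) (XT.lf (nat_lit 0) (nat_lit 17310123838) (nat_lit 456) (nat_lit 18775319629) (nat_lit 532) (nat_lit 4225957976) (nat_lit 302) (nat_lit 5) (nat_lit 308) (nat_lit 5) (nat_lit 309) (nat_lit 5) (nat_lit 432) (nat_lit 401) (nat_lit 187)) (XT.lf (nat_lit 0) (nat_lit 60431197) (nat_lit 532) (nat_lit 1554075868) (nat_lit 608) (nat_lit 39386559103) (nat_lit 294) (nat_lit 5) (nat_lit 301) (nat_lit 5) (nat_lit 302) (nat_lit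 5) (nat_lit 433) (nat_lit 401) (nat_lit 186))) (XT.nd (nat_lit 78) (nat_lit 456) (nat_lit 0) (XT.lf (nat_lit 0) (nat_lit 7933416106) (nat_lit 608) (nat_lit 17621030361) (nat_lit 76) (nat_lit 16144074105) (nat_lit 294) (nat_lit 5) (nat_lit 302) (nat_lit 5) (nat_lit 295) (nat_lit 5) (nat_lit 434) (nat_lit 401) (nat_lit 185)) (XT.lf (nat_lit 0) (nat_lit 6507465434) (nat_lit 456) (nat_lit 8010456444) (nat_lit 532) (nat_lit 27896695846) (nat_lit 288) (nat_lit 5) (nat_lit 294) (nat_lit 5) (nat_lit 295) (nat_lit 5) (nat_lit 435) (nat_lit 401) (nat_lit 184)))) (XT.nd (nat_lit 156) (nat_lit 380) (nat_lit 0) (XT.nd (nat_lit 78) (nat_lit 456) (nat_lit 0) (XT.lf (nat_lit 0) (nat_lit 21574482774) (nat_lit 532) (nat_lit 11526617122) (nat_lit 76) (nat_lit 10042862295) (nat_lit 288) (nat_lit 5) (nat_lit 295) (nat_lit 5) (nat_lit 289) (nat_lit 5) (nat_lit 436) (nat_lit 401) (nat_lit 183)) (XT.lf (nat_lit 0) (nat_lit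 13772517578) (nat_lit 456) (nat_lit 15280097894) (nat_lit 532) (nat_lit 14836275274) (nat_lit 282) (nat_lit 5) (nat_lit 288) (nat_lit 5) (nat_lit 289) (nat_lit 5) (nat_lit 437) (nat_lit 401) (nat_lit 182))) (XT.nd (nat_lit 78) (nat_lit 380) (nat_lit 0) (XT.lf (nat_lit 0) (nat_lit 36900405886) (nat_lit 532) (nat_lit 4618764938) (nat_lit 76) (nat_lit 3132636919) (nat_lit 282) (nat_lit 5) (nat_lit 289) (nat_lit 5) (nat_lit 283) (nat_lit 5) (nat_lit 438) (nat_lit 401) (nat_lit 181)) (XT.lf (nat_lit 0) (nat_lit 21917964409) (nat_lit 380) (nat_lit 23425896125) (nat_lit 456) (nat_lit 82944800) (nat_lit 277) (nat_lit 5) (nat_lit 282) (nat_lit 5) (nat_lit 283) (nat_lit 5) (nat_lit 439) (nat_lit 401) (nat_lit 180)))))) (XT.nd (nat_lit 624) (nat_lit 1748) (nat_lit 0) (XT.nd (nat_lit 312) (nat_lit 1216) (nat_lit 0) (XT.nd (nat_lit 156) (nat_lit 380) (nat_lit 0) (XT.nd (nat_lit 78) (nat_lit 0) (nat_lit 0) (XT.lf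 (nat_lit 0) (nat_lit 3104583747) (nat_lit 456) (nat_lit 4633684101) (nat_lit 532) (nat_lit 38482274814) (nat_lit 270) (nat_lit 5) (nat_lit 276) (nat_lit 5) (nat_lit 277) (nat_lit 5) (nat_lit 440) (nat_lit 401) (nat_lit 179)) (XT.lf (nat_lit 0) (nat_lit 16172003823) (nat_lit 532) (nat_lit 16179596975) (nat_lit 76) (nat_lit 14675080052) (nat_lit 270) (nat_lit 5) (nat_lit 277) (nat_lit 5) (nat_lit 271) (nat_lit 5) (nat_lit 441) (nat_lit 401) (nat_lit 178))) (XT.nd (nat_lit 78) (nat_lit 0) (nat_lit 0) (XT.lf (nat_lit 0) (nat_lit 11745995461) (nat_lit 380) (nat_lit 13269884686) (nat_lit 456) (nat_lit 22836409190) (nat_lit 265) (nat_lit 5) (nat_lit 270) (nat_lit 5) (nat_lit 271) (nat_lit 5) (nat_lit 442) (nat_lit 401) (nat_lit 177)) (XT.lf (nat_lit 0) (nat_lit 34349805111) (nat_lit 456) (nat_lit 7921941676) (nat_lit 76) (nat_lit 6424177320) (nat_lit 265) (nat_lit 5) (nat_lit 271) (nat_lit 5) (nat_lit 266)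 (nat_lit 5) (nat_lit 443) (nat_lit 401) (nat_lit 176)))) (XT.nd (nat_lit 156) (nat_lit 380) (nat_lit 0) (XT.nd (nat_lit 78) (nat_lit 456) (nat_lit 0) (XT.lf (nat_lit 0) (nat_lit 21391841037) (nat_lit 380) (nat_lit 22907333795) (nat_lit 456) (nat_lit 5255630279) (nat_lit 260) (nat_lit 5) (nat_lit 265) (nat_lit 5) (nat_lit 266) (nat_lit 5) (nat_lit 444) (nat_lit 401) (nat_lit 175)) (XT.lf (nat_lit 0) (nat_lit 1293177307) (nat_lit 380) (nat_lit 2825882105) (nat_lit 456) (nat_lit 46316459402) (nat_lit 254) (nat_lit 5) (nat_lit 259) (nat_lit 5) (nat_lit 260) (nat_lit 5) (nat_lit 445) (nat_lit 401) (nat_lit 174))) (XT.nd (nat_lit 78) (nat_lit 380) (nat_lit 0) (XT.lf (nat_lit 0) (nat_lit 14126666229) (nat_lit 456) (nat_lit 19352497123) (nat_lit 76) (nat_lit 17848210214) (nat_lit 254) (nat_lit 5) (nat_lit 260) (nat_lit 5) (nat_lit 255) (nat_lit 5) (nat_lit 446) (nat_lit 401) (nat_lit 173)) (XT.lf (nat_lit 0)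 (nat_lit 11525860872) (nat_lit 380) (nat_lit 13045899236) (nat_lit 456) (nat_lit 27670106090) (nat_lit 249) (nat_lit 5) (nat_lit 254) (nat_lit 5) (nat_lit 255) (nat_lit 5) (nat_lit 447) (nat_lit 401) (nat_lit 172))))) (XT.nd (nat_lit 312) (nat_lit 988) (nat_lit 0) (XT.nd (nat_lit 156) (nat_lit 456) (nat_lit 0) (XT.nd (nat_lit 78) (nat_lit 304) (nat_lit 0) (XT.lf (nat_lit 0) (nat_lit 35602972708) (nat_lit 456) (nat_lit 9531625290) (nat_lit 76) (nat_lit 8041012631) (nat_lit 249) (nat_lit 5) (nat_lit 255) (nat_lit 5) (nat_lit 250) (nat_lit 5) (nat_lit 448) (nat_lit 401) (nat_lit 171)) (XT.lf (nat_lit 0) (nat_lit 22903988308) (nat_lit 304) (nat_lit 24409015780) (nat_lit 380) (nat_lit 6813926834) (nat_lit 245) (nat_lit 5) (nat_lit 249) (nat_lit 5) (nat_lit 250) (nat_lit 5) (nat_lit 449) (nat_lit 401) (nat_lit 170))) (XT.nd (nat_lit 78) (nat_lit 0) (nat_lit 0) (XT.lf (nat_lit 0) (nat_lit 1387171190) (nat_lit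 380) (nat_lit 2906193626) (nat_lit 456) (nat_lit 50808922507) (nat_lit 239) (nat_lit 5) (nat_lit 244) (nat_lit 5) (nat_lit 245) (nat_lit 5) (nat_lit 450) (nat_lit 401) (nat_lit 169)) (XT.lf (nat_lit 0) (nat_lit 16098869862) (nat_lit 456) (nat_lit 20739461420) (nat_lit 76) (nat_lit 19251490761) (nat_lit 239) (nat_lit 5) (nat_lit 245) (nat_lit 5) (nat_lit 240) (nat_lit 5) (nat_lit 451) (nat_lit 401) (nat_lit 168)))) (XT.nd (nat_lit 156) (nat_lit 684) (nat_lit 0) (XT.nd (nat_lit 78) (nat_lit 0) (nat_lit 0) (XT.lf (nat_lit 0) (nat_lit 13457254842) (nat_lit 304) (nat_lit 14958032875) (nat_lit 380) (nat_lit 28686992658) (nat_lit 235) (nat_lit 5) (nat_lit 239) (nat_lit 5) (nat_lit 240) (nat_lit 5) (nat_lit 452) (nat_lit 401) (nat_lit 167)) (XT.lf (nat_lit 0) (nat_lit 41384179278) (nat_lit 380) (nat_lit 9110790987) (nat_lit 76) (nat_lit 7641652756) (nat_lit 235) (nat_lit 5) (nat_lit 240) (nat_lit 5) (nat_lit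 236) (nat_lit 5) (nat_lit 453) (nat_lit 401) (nat_lit 166))) (XT.nd (nat_lit 78) (nat_lit 380) (nat_lit 0) (XT.lf (nat_lit 0) (nat_lit 26832991032) (nat_lit 304) (nat_lit 28313849825) (nat_lit 380) (nat_lit 4043013992) (nat_lit 231) (nat_lit 5) (nat_lit 235) (nat_lit 5) (nat_lit 236) (nat_lit 5) (nat_lit 454) (nat_lit 401) (nat_lit 165)) (XT.lf (nat_lit 0) (nat_lit 3753287036) (nat_lit 304) (nat_lit 5245525015) (nat_lit 380) (nat_lit 51269432423) (nat_lit 226) (nat_lit 5) (nat_lit 230) (nat_lit 5) (nat_lit 231) (nat_lit 5) (nat_lit 455) (nat_lit 401) (nat_lit 164))))))))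
noncomputable def xc219 : XT := (XT.nd (nat_lit 49140) (nat_lit 0) (nat_lit 9272) (XT.nd (nat_lit 1170) (nat_lit 1596) (nat_lit 0) (XT.nd (nat_lit 546) (nat_lit 1368) (nat_lit 0) (XT.nd (nat_lit 234) (nat_lit 836) (nat_lit 0) (XT.nd (nat_lit 78) (nat_lit 304) (nat_lit 0) (XT.lf (nat_lit 0) (nat_lit 22857273100) (nat_lit 380) (nat_lit 19982406640) (nat_lit 76) (nat_lit 18522905929) (nat_lit 226) (nat_lit 5) (nat_lit 231) (nat_lit 5) (nat_lit 227) (nat_lit 5) (nat_lit 456) (nat_lit 401) (nat_lit 163)) (XT.nd (nat_lit 78) (nat_lit 0) (nat_lit 0) (XT.lf (nat_lit 0) (nat_lit 17942354736) (nat_lit 304) (nat_lit 19412269015) (nat_lit 380) (nat_lit 25128439274) (nat_lit 222) (nat_lit 5) (nat_lit 226) (nat_lit 5) (nat_lit 227) (nat_lit 5) (nat_lit 457) (nat_lit 401) (nat_lit 162)) (XT.lf (nat_lit 0) (nat_lit 52534766865) (nat_lit 380) (nat_lit 6265934353) (nat_lit 76) (nat_lit 4829017326) (nat_lit 222) (nat_lit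 5) (nat_lit 227) (nat_lit 5) (nat_lit 223) (nat_lit 5) (nat_lit 458) (nat_lit 401) (nat_lit 161)))) (XT.nd (nat_lit 156) (nat_lit 228) (nat_lit 0) (XT.nd (nat_lit 78) (nat_lit 304) (nat_lit 0) (XT.lf (nat_lit 0) (nat_lit 3813217190) (nat_lit 304) (nat_lit 31213728818) (nat_lit 76) (nat_lit 29767281901) (nat_lit 218) (nat_lit 5) (nat_lit 222) (nat_lit 5) (nat_lit 219) (nat_lit 5) (nat_lit 459) (nat_lit 401) (nat_lit 160)) (XT.lf (nat_lit 0) (nat_lit 8818693228) (nat_lit 304) (nat_lit 10274392464) (nat_lit 380) (nat_lit 46892867768) (nat_lit 214) (nat_lit 5) (nat_lit 218) (nat_lit 5) (nat_lit 219) (nat_lit 5) (nat_lit 460) (nat_lit 401) (nat_lit 159))) (XT.nd (nat_lit 78) (nat_lit 228) (nat_lit 0) (XT.lf (nat_lit 0) (nat_lit 35294771505) (nat_lit 380) (nat_lit 16663389032) (nat_lit 76) (nat_lit 15241367604) (nat_lit 214) (nat_lit 5) (nat_lit 219) (nat_lit 5) (nat_lit 215) (nat_lit 5) (nat_lit 461) (nat_lit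 401) (nat_lit 158)) (XT.lf (nat_lit 0) (nat_lit 25448600313) (nat_lit 228) (nat_lit 26879088924) (nat_lit 304) (nat_lit 16111465385) (nat_lit 211) (nat_lit 5) (nat_lit 214) (nat_lit 5) (nat_lit 215) (nat_lit 5) (nat_lit 462) (nat_lit 401) (nat_lit 157))))) (XT.nd (nat_lit 312) (nat_lit 760) (nat_lit 0) (XT.nd (nat_lit 156) (nat_lit 228) (nat_lit 0) (XT.nd (nat_lit 78) (nat_lit 304) (nat_lit 0) (XT.lf (nat_lit 0) (nat_lit 321353508) (nat_lit 304) (nat_lit 550421511) (nat_lit 76) (nat_lit 68839087028) (nat_lit 210) (nat_lit 5) (nat_lit 214) (nat_lit 5) (nat_lit 211) (nat_lit 5) (nat_lit 463) (nat_lit 401) (nat_lit 156)) (XT.lf (nat_lit 0) (nat_lit 17598647801) (nat_lit 380) (nat_lit 27400790775) (nat_lit 76) (nat_lit 25996237076) (nat_lit 206) (nat_lit 5) (nat_lit 211) (nat_lit 5) (nat_lit 207) (nat_lit 5) (nat_lit 464) (nat_lit 401) (nat_lit 155))) (XT.nd (nat_lit 78) (nat_lit 0) (nat_lit 0) (XT.lf (nat_lit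 0) (nat_lit 17079742587) (nat_lit 228) (nat_lit 18491819268) (nat_lit 304) (nat_lit 36742152781) (nat_lit 203) (nat_lit 5) (nat_lit 206) (nat_lit 5) (nat_lit 207) (nat_lit 5) (nat_lit 465) (nat_lit 401) (nat_lit 154)) (XT.lf (nat_lit 0) (nat_lit 54446678170) (nat_lit 304) (nat_lit 10295882772) (nat_lit 76) (nat_lit 8917843404) (nat_lit 203) (nat_lit 5) (nat_lit 207) (nat_lit 5) (nat_lit 204) (nat_lit 5) (nat_lit 466) (nat_lit 401) (nat_lit 153)))) (XT.nd (nat_lit 156) (nat_lit 228) (nat_lit 0) (XT.nd (nat_lit 78) (nat_lit 304) (nat_lit 0) (XT.lf (nat_lit 0) (nat_lit 36518081001) (nat_lit 228) (nat_lit 37903004963) (nat_lit 304) (nat_lit 610417642) (nat_lit 200) (nat_lit 5) (nat_lit 203) (nat_lit 5) (nat_lit 204) (nat_lit 5) (nat_lit 467) (nat_lit 401) (nat_lit 152)) (XT.lf (nat_lit 0) (nat_lit 8491464406) (nat_lit 228) (nat_lit 9883072441) (nat_lit 304) (nat_lit 58058282993) (nat_lit 196) (nat_lit 5)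 (nat_lit 199) (nat_lit 5) (nat_lit 200) (nat_lit 5) (nat_lit 468) (nat_lit 401) (nat_lit 151))) (XT.nd (nat_lit 78) (nat_lit 228) (nat_lit 0) (XT.lf (nat_lit 0) (nat_lit 38490883044) (nat_lit 304) (nat_lit 20362631995) (nat_lit 76) (nat_lit 19005255854) (nat_lit 196) (nat_lit 5) (nat_lit 200) (nat_lit 5) (nat_lit 197) (nat_lit 5) (nat_lit 469) (nat_lit 401) (nat_lit 150)) (XT.lf (nat_lit 0) (nat_lit 29111940043) (nat_lit 228) (nat_lit 30475433057) (nat_lit 304) (nat_lit 19728827774) (nat_lit 193) (nat_lit 5) (nat_lit 196) (nat_lit 5) (nat_lit 197) (nat_lit 5) (nat_lit 470) (nat_lit 401) (nat_lit 149)))))) (XT.nd (nat_lit 546) (nat_lit 608) (nat_lit 0) (XT.nd (nat_lit 234) (nat_lit 456) (nat_lit 0) (XT.nd (nat_lit 78) (nat_lit 456) (nat_lit 0) (XT.lf (nat_lit 0) (nat_lit 696280531) (nat_lit 304) (nat_lit 331601574) (nat_lit 76) (nat_lit 79783128984) (nat_lit 192) (nat_lit 5) (nat_lit 196) (nat_lit 5)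 (nat_lit 193) (nat_lit 5) (nat_lit 471) (nat_lit 401) (nat_lit 148)) (XT.nd (nat_lit 78) (nat_lit 228) (nat_lit 0) (XT.lf (nat_lit 0) (nat_lit 22123580570) (nat_lit 304) (nat_lit 30766394556) (nat_lit 76) (nat_lit 29431251385) (nat_lit 189) (nat_lit 5) (nat_lit 193) (nat_lit 5) (nat_lit 190) (nat_lit 5) (nat_lit 472) (nat_lit 401) (nat_lit 147)) (XT.lf (nat_lit 0) (nat_lit 21536350455) (nat_lit 228) (nat_lit 22876928389) (nat_lit 304) (nat_lit 39456882173) (nat_lit 186) (nat_lit 5) (nat_lit 189) (nat_lit 5) (nat_lit 190) (nat_lit 5) (nat_lit 473) (nat_lit 401) (nat_lit 146)))) (XT.nd (nat_lit 156) (nat_lit 228) (nat_lit 0) (XT.nd (nat_lit 78) (nat_lit 228) (nat_lit 0) (XT.lf (nat_lit 0) (nat_lit 67761682418) (nat_lit 304) (nat_lit 9499417736) (nat_lit 76) (nat_lit 8192762976) (nat_lit 186) (nat_lit 5) (nat_lit 190) (nat_lit 5) (nat_lit 187) (nat_lit 5) (nat_lit 474) (nat_lit 401) (nat_lit 145)) (XT.lf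 (nat_lit 0) (nat_lit 5303516995) (nat_lit 228) (nat_lit 41535858474) (nat_lit 76) (nat_lit 40224230136) (nat_lit 183) (nat_lit 5) (nat_lit 186) (nat_lit 5) (nat_lit 184) (nat_lit 5) (nat_lit 475) (nat_lit 401) (nat_lit 144))) (XT.nd (nat_lit 78) (nat_lit 0) (nat_lit 0) (XT.lf (nat_lit 0) (nat_lit 13772668946) (nat_lit 228) (nat_lit 15089126000) (nat_lit 304) (nat_lit 59847741166) (nat_lit 180) (nat_lit 5) (nat_lit 183) (nat_lit 5) (nat_lit 184) (nat_lit 5) (nat_lit 476) (nat_lit 401) (nat_lit 143)) (XT.lf (nat_lit 0) (nat_lit 53718761368) (nat_lit 304) (nat_lit 18975495068) (nat_lit 76) (nat_lit 17692829895) (nat_lit 180) (nat_lit 5) (nat_lit 184) (nat_lit 5) (nat_lit 181) (nat_lit 5) (nat_lit 477) (nat_lit 401) (nat_lit 142))))) (XT.nd (nat_lit 312) (nat_lit 0) (nat_lit 0) (XT.nd (nat_lit 156) (nat_lit 152) (nat_lit 0) (XT.nd (nat_lit 78) (nat_lit 304) (nat_lit 0) (XT.lf (nat_lit 0) (nat_lit 39280203382)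 (nat_lit 152) (nat_lit 40567287515) (nat_lit 228) (nat_lit 12251690534) (nat_lit 178) (nat_lit 5) (nat_lit 180) (nat_lit 5) (nat_lit 181) (nat_lit 5) (nat_lit 478) (nat_lit 401) (nat_lit 141)) (XT.lf (nat_lit 0) (nat_lit 5801372933) (nat_lit 228) (nat_lit 7092747317) (nat_lit 304) (nat_lit 80957349206) (nat_lit 174) (nat_lit 5) (nat_lit 177) (nat_lit 5) (nat_lit 178) (nat_lit 5) (nat_lit 479) (nat_lit 401) (nat_lit 140))) (XT.nd (nat_lit 78) (nat_lit 152) (nat_lit 0) (XT.lf (nat_lit 0) (nat_lit 39349037781) (nat_lit 304) (nat_lit 28768712679) (nat_lit 76) (nat_lit 27510907167) (nat_lit 174) (nat_lit 5) (nat_lit 178) (nat_lit 5) (nat_lit 175) (nat_lit 5) (nat_lit 480) (nat_lit 401) (nat_lit 139)) (XT.lf (nat_lit 0) (nat_lit 32860538902) (nat_lit 152) (nat_lit 34122270603) (nat_lit 228) (nat_lit 30464795739) (nat_lit 172) (nat_lit 5) (nat_lit 174) (nat_lit 5) (nat_lit 175) (nat_lit 5) (nat_lit 481) (nat_lit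 401) (nat_lit 138)))) (XT.nd (nat_lit 46956) (nat_lit 0) (nat_lit 15352) (XT.nd (nat_lit 46878) (nat_lit 0) (nat_lit 15352) (XT.lf (nat_lit 0) (nat_lit 95746673429) (nat_lit 228) (nat_lit 2397049265) (nat_lit 76) (nat_lit 1168366223) (nat_lit 172) (nat_lit 5) (nat_lit 175) (nat_lit 5) (nat_lit 173) (nat_lit 5) (nat_lit 482) (nat_lit 401) (nat_lit 137)) (XT.lf (nat_lit 0) (nat_lit 6871233617) (nat_lit 1292) (nat_lit 2922923915) (nat_lit 1292) (nat_lit 2922923915) (nat_lit 374) (nat_lit 3) (nat_lit 391) (nat_lit 3) (nat_lit 391) (nat_lit 5) (nat_lit 402) (nat_lit 402) (nat_lit 216))) (XT.nd (nat_lit 78) (nat_lit 0) (nat_lit 76) (XT.lf (nat_lit 76) (nat_lit 7007984639) (nat_lit 0) (nat_lit 7109391148) (nat_lit 1292) (nat_lit 11693236404) (nat_lit 375) (nat_lit 5) (nat_lit 374) (nat_lit 3) (nat_lit 391) (nat_lit 5) (nat_lit 403) (nat_lit 402) (nat_lit 215)) (XT.lf (nat_lit 0) (nat_lit 14614402214) (nat_lit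 1216) (nat_lit 5887332459) (nat_lit 1292) (nat_lit 5693294176) (nat_lit 375) (nat_lit 5) (nat_lit 391) (nat_lit 5) (nat_lit 392) (nat_lit 5) (nat_lit 404) (nat_lit 402) (nat_lit 214))))))) (XT.nd (nat_lit 1170) (nat_lit 5244) (nat_lit 0) (XT.nd (nat_lit 546) (nat_lit 912) (nat_lit 0) (XT.nd (nat_lit 234) (nat_lit 0) (nat_lit 152) (XT.nd (nat_lit 78) (nat_lit 0) (nat_lit 76) (XT.lf (nat_lit 76) (nat_lit 7489017417) (nat_lit 0) (nat_lit 7775857022) (nat_lit 1292) (nat_lit 11321947517) (nat_lit 376) (nat_lit 5) (nat_lit 375) (nat_lit 5) (nat_lit 392) (nat_lit 5) (nat_lit 405) (nat_lit 402) (nat_lit 213)) (XT.nd (nat_lit 78) (nat_lit 0) (nat_lit 0) (XT.lf (nat_lit 0) (nat_lit 16042415509) (nat_lit 1216) (nat_lit 5655342953) (nat_lit 1292) (nat_lit 5289383754) (nat_lit 376) (nat_lit 5) (nat_lit 392) (nat_lit 5) (nat_lit 393) (nat_lit 5) (nat_lit 406) (nat_lit 402) (nat_lit 212)) (XT.lf (nat_lit 76) (nat_lit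 8272639754) (nat_lit 0) (nat_lit 8723525307) (nat_lit 1292) (nat_lit 10398720555) (nat_lit 377) (nat_lit 5) (nat_lit 376) (nat_lit 5) (nat_lit 393) (nat_lit 5) (nat_lit 407) (nat_lit 402) (nat_lit 211)))) (XT.nd (nat_lit 156) (nat_lit 0) (nat_lit 76) (XT.nd (nat_lit 78) (nat_lit 0) (nat_lit 0) (XT.lf (nat_lit 0) (nat_lit 18077272170) (nat_lit 1216) (nat_lit 5126215498) (nat_lit 1292) (nat_lit 4608411298) (nat_lit 377) (nat_lit 5) (nat_lit 393) (nat_lit 5) (nat_lit 394) (nat_lit 5) (nat_lit 408) (nat_lit 402) (nat_lit 210)) (XT.lf (nat_lit 76) (nat_lit 9384219872) (nat_lit 0) (nat_lit 9979743717) (nat_lit 1292) (nat_lit 8872264595) (nat_lit 378) (nat_lit 5) (nat_lit 377) (nat_lit 5) (nat_lit 394) (nat_lit 5) (nat_lit 409) (nat_lit 402) (nat_lit 209))) (XT.nd (nat_lit 78) (nat_lit 0) (nat_lit 0) (XT.lf (nat_lit 0) (nat_lit 20773192123) (nat_lit 1216) (nat_lit 4274506887) (nat_lit 1292) (nat_lit 3623070177)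 (nat_lit 378) (nat_lit 5) (nat_lit 394) (nat_lit 5) (nat_lit 395) (nat_lit 5) (nat_lit 410) (nat_lit 402) (nat_lit 208)) (XT.lf (nat_lit 76) (nat_lit 10851005873) (nat_lit 0) (nat_lit 11573567069) (nat_lit 1292) (nat_lit 6687777215) (nat_lit 379) (nat_lit 5) (nat_lit 378) (nat_lit 5) (nat_lit 395) (nat_lit 5) (nat_lit 411) (nat_lit 402) (nat_lit 207))))) (XT.nd (nat_lit 312) (nat_lit 1216) (nat_lit 0) (XT.nd (nat_lit 156) (nat_lit 0) (nat_lit 76) (XT.nd (nat_lit 78) (nat_lit 0) (nat_lit 0) (XT.lf (nat_lit 0) (nat_lit 24188083374) (nat_lit 1216) (nat_lit 3072887455) (nat_lit 1292) (nat_lit 2304330082) (nat_lit 379) (nat_lit 5) (nat_lit 395) (nat_lit 5) (nat_lit 396) (nat_lit 5) (nat_lit 412) (nat_lit 402) (nat_lit 206)) (XT.lf (nat_lit 76) (nat_lit 12702238930) (nat_lit 0) (nat_lit 13535885284) (nat_lit 1292) (nat_lit 3786707221) (nat_lit 380) (nat_lit 5) (nat_lit 379) (nat_lit 5) (nat_lit 396) (nat_lit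 5) (nat_lit 413) (nat_lit 402) (nat_lit 205))) (XT.nd (nat_lit 78) (nat_lit 0) (nat_lit 0) (XT.lf (nat_lit 0) (nat_lit 28383789103) (nat_lit 1216) (nat_lit 1492026542) (nat_lit 1292) (nat_lit 621308544) (nat_lit 380) (nat_lit 5) (nat_lit 396) (nat_lit 5) (nat_lit 397) (nat_lit 5) (nat_lit 414) (nat_lit 402) (nat_lit 204)) (XT.lf (nat_lit 76) (nat_lit 14969274323) (nat_lit 0) (nat_lit 15899557957) (nat_lit 1292) (nat_lit 106503195) (nat_lit 381) (nat_lit 5) (nat_lit 380) (nat_lit 5) (nat_lit 397) (nat_lit 5) (nat_lit 415) (nat_lit 402) (nat_lit 203)))) (XT.nd (nat_lit 156) (nat_lit 0) (nat_lit 76) (XT.nd (nat_lit 78) (nat_lit 0) (nat_lit 76) (XT.lf (nat_lit 76) (nat_lit 475539925) (nat_lit 0) (nat_lit 1463654274) (nat_lit 1368) (nat_lit 29527625998) (nat_lit 364) (nat_lit 5) (nat_lit 363) (nat_lit 5) (nat_lit 381) (nat_lit 5) (nat_lit 416) (nat_lit 402) (nat_lit 202)) (XT.lf (nat_lit 0) (nat_lit 4333409684)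 (nat_lit 1292) (nat_lit 14322387412) (nat_lit 1368) (nat_lit 13308542097) (nat_lit 364) (nat_lit 5) (nat_lit 381) (nat_lit 5) (nat_lit 382) (nat_lit 5) (nat_lit 417) (nat_lit 402) (nat_lit 201))) (XT.nd (nat_lit 78) (nat_lit 0) (nat_lit 76) (XT.lf (nat_lit 76) (nat_lit 2886098332) (nat_lit 0) (nat_lit 3952866944) (nat_lit 1368) (nat_lit 25636633072) (nat_lit 365) (nat_lit 5) (nat_lit 364) (nat_lit 5) (nat_lit 382) (nat_lit 5) (nat_lit 418) (nat_lit 402) (nat_lit 200)) (XT.lf (nat_lit 0) (nat_lit 9670663854) (nat_lit 1292) (nat_lit 12204792550) (nat_lit 76) (nat_lit 11119209585) (nat_lit 365) (nat_lit 5) (nat_lit 382) (nat_lit 5) (nat_lit 366) (nat_lit 5) (nat_lit 419) (nat_lit 402) (nat_lit 199)))))) (XT.nd (nat_lit 624) (nat_lit 2128) (nat_lit 0) (XT.nd (nat_lit 312) (nat_lit 1824) (nat_lit 0) (XT.nd (nat_lit 156) (nat_lit 608) (nat_lit 0) (XT.nd (nat_lit 78) (nat_lit 0) (nat_lit 0) (XT.lf (nat_lit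 0) (nat_lit 5772671733) (nat_lit 836) (nat_lit 6906687012) (nat_lit 912) (nat_lit 20847185553) (nat_lit 354) (nat_lit 5) (nat_lit 365) (nat_lit 5) (nat_lit 366) (nat_lit 5) (nat_lit 420) (nat_lit 402) (nat_lit 198)) (XT.lf (nat_lit 0) (nat_lit 15982067024) (nat_lit 912) (nat_lit 9616418583) (nat_lit 76) (nat_lit 8469780774) (nat_lit 354) (nat_lit 5) (nat_lit 366) (nat_lit 5) (nat_lit 355) (nat_lit 5) (nat_lit 421) (nat_lit 402) (nat_lit 197))) (XT.nd (nat_lit 78) (nat_lit 0) (nat_lit 0) (XT.lf (nat_lit 0) (nat_lit 9173503880) (nat_lit 608) (nat_lit 10364464117) (nat_lit 684) (nat_lit 15083648786) (nat_lit 346) (nat_lit 5) (nat_lit 354) (nat_lit 5) (nat_lit 355) (nat_lit 5) (nat_lit 422) (nat_lit 402) (nat_lit 196)) (XT.lf (nat_lit 0) (nat_lit 23347414966) (nat_lit 684) (nat_lit 6518898437) (nat_lit 76) (nat_lit 5320848224) (nat_lit 346) (nat_lit 5) (nat_lit 355) (nat_lit 5) (nat_lit 347) (nat_lit 5)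 (nat_lit 423) (nat_lit 402) (nat_lit 195)))) (XT.nd (nat_lit 156) (nat_lit 1216) (nat_lit 0) (XT.nd (nat_lit 78) (nat_lit 0) (nat_lit 0) (XT.lf (nat_lit 0) (nat_lit 13129514691) (nat_lit 608) (nat_lit 14368126204) (nat_lit 684) (nat_lit 8265237056) (nat_lit 338) (nat_lit 5) (nat_lit 346) (nat_lit 5) (nat_lit 347) (nat_lit 5) (nat_lit 424) (nat_lit 402) (nat_lit 194)) (XT.lf (nat_lit 0) (nat_lit 31851900603) (nat_lit 684) (nat_lit 2871173858) (nat_lit 76) (nat_lit 1630405492) (nat_lit 338) (nat_lit 5) (nat_lit 347) (nat_lit 5) (nat_lit 339) (nat_lit 5) (nat_lit 425) (nat_lit 402) (nat_lit 193))) (XT.nd (nat_lit 78) (nat_lit 684) (nat_lit 0) (XT.lf (nat_lit 0) (nat_lit 17684467257) (nat_lit 532) (nat_lit 18962354958) (nat_lit 608) (nat_lit 305676778) (nat_lit 331) (nat_lit 5) (nat_lit 338) (nat_lit 5) (nat_lit 339) (nat_lit 5) (nat_lit 426) (nat_lit 402) (nat_lit 192)) (XT.lf (nat_lit 0) (nat_lit 1331847207)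 (nat_lit 608) (nat_lit 2645773099) (nat_lit 684) (nat_lit 33589513559) (nat_lit 322) (nat_lit 5) (nat_lit 330) (nat_lit 5) (nat_lit 331) (nat_lit 5) (nat_lit 427) (nat_lit 402) (nat_lit 191))))) (XT.nd (nat_lit 312) (nat_lit 1064) (nat_lit 0) (XT.nd (nat_lit 156) (nat_lit 532) (nat_lit 0) (XT.nd (nat_lit 78) (nat_lit 532) (nat_lit 0) (XT.lf (nat_lit 0) (nat_lit 8713730630) (nat_lit 684) (nat_lit 15393049135) (nat_lit 76) (nat_lit 14083423479) (nat_lit 322) (nat_lit 5) (nat_lit 331) (nat_lit 5) (nat_lit 323) (nat_lit 5) (nat_lit 428) (nat_lit 402) (nat_lit 190)) (XT.lf (nat_lit 0) (nat_lit 6166348322) (nat_lit 532) (nat_lit 7508954027) (nat_lit 608) (nat_lit 25154161013) (nat_lit 315) (nat_lit 5) (nat_lit 322) (nat_lit 5) (nat_lit 323) (nat_lit 5) (nat_lit 429) (nat_lit 402) (nat_lit 189))) (XT.nd (nat_lit 78) (nat_lit 532) (nat_lit 0) (XT.lf (nat_lit 0) (nat_lit 19032799743) (nat_lit 608) (nat_lit 10891138364)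 (nat_lit 76) (nat_lit 9556550821) (nat_lit 315) (nat_lit 5) (nat_lit 323) (nat_lit 5) (nat_lit 316) (nat_lit 5) (nat_lit 430) (nat_lit 402) (nat_lit 188)) (XT.lf (nat_lit 0) (nat_lit 11685466258) (nat_lit 532) (nat_lit 13050235218) (nat_lit 608) (nat_lit 15409803402) (nat_lit 308) (nat_lit 5) (nat_lit 315) (nat_lit 5) (nat_lit 316) (nat_lit 5) (nat_lit 431) (nat_lit 402) (nat_lit 187)))) (XT.nd (nat_lit 156) (nat_lit 608) (nat_lit 0) (XT.nd (nat_lit 78) (nat_lit 456) (nat_lit 0) (XT.lf (nat_lit 0) (nat_lit 30760418138) (nat_lit 608) (nat_lit 5709499310) (nat_lit 76) (nat_lit 4356032022) (nat_lit 308) (nat_lit 5) (nat_lit 316) (nat_lit 5) (nat_lit 309) (nat_lit 5) (nat_lit 432) (nat_lit 402) (nat_lit 186)) (XT.lf (nat_lit 0) (nat_lit 17942284296) (nat_lit 456) (nat_lit 19323371855) (nat_lit 532) (nat_lit 4252157854) (nat_lit 302) (nat_lit 5) (nat_lit 308) (nat_lit 5) (nat_lit 309) (nat_lit 5) (nat_lit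 433) (nat_lit 402) (nat_lit 185))) (XT.nd (nat_lit 78) (nat_lit 0) (nat_lit 0) (XT.lf (nat_lit 0) (nat_lit 175937851) (nat_lit 532) (nat_lit 1583841208) (nat_lit 608) (nat_lit 40468413990) (nat_lit 294) (nat_lit 5) (nat_lit 301) (nat_lit 5) (nat_lit 302) (nat_lit 5) (nat_lit 434) (nat_lit 402) (nat_lit 184)) (XT.lf (nat_lit 0) (nat_lit 8265592202) (nat_lit 608) (nat_lit 18036615852) (nat_lit 76) (nat_lit 16644442927) (nat_lit 294) (nat_lit 5) (nat_lit 302) (nat_lit 5) (nat_lit 295) (nat_lit 5) (nat_lit 435) (nat_lit 402) (nat_lit 183))))))))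
noncomputable def xc220 : XT := (XT.nd (nat_lit 2340) (nat_lit 2584) (nat_lit 0) (XT.nd (nat_lit 1170) (nat_lit 2964) (nat_lit 0) (XT.nd (nat_lit 546) (nat_lit 1900) (nat_lit 0) (XT.nd (nat_lit 234) (nat_lit 912) (nat_lit 0) (XT.nd (nat_lit 78) (nat_lit 456) (nat_lit 0) (XT.lf (nat_lit 0) (nat_lit 6814626528) (nat_lit 456) (nat_lit 8231339706) (nat_lit 532) (nat_lit 28638314820) (nat_lit 288) (nat_lit 5) (nat_lit 294) (nat_lit 5) (nat_lit 295) (nat_lit 5) (nat_lit 436) (nat_lit 402) (nat_lit 182)) (XT.nd (nat_lit 78) (nat_lit 456) (nat_lit 0) (XT.lf (nat_lit 0) (nat_lit 22311710925) (nat_lit 532) (nat_lit 11761225777) (nat_lit 76) (nat_lit 10362644546) (nat_lit 288) (nat_lit 5) (nat_lit 295) (nat_lit 5) (nat_lit 289) (nat_lit 5) (nat_lit 437) (nat_lit 402) (nat_lit 181)) (XT.lf (nat_lit 0) (nat_lit 14295792868) (nat_lit 456) (nat_lit 15716831907) (nat_lit 532) (nat_lit 15190279768) (nat_lit 282) (nat_lit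 5) (nat_lit 288) (nat_lit 5) (nat_lit 289) (nat_lit 5) (nat_lit 438) (nat_lit 402) (nat_lit 180)))) (XT.nd (nat_lit 156) (nat_lit 456) (nat_lit 0) (XT.nd (nat_lit 78) (nat_lit 456) (nat_lit 0) (XT.lf (nat_lit 0) (nat_lit 38093475474) (nat_lit 532) (nat_lit 4648061485) (nat_lit 76) (nat_lit 3247243294) (nat_lit 282) (nat_lit 5) (nat_lit 289) (nat_lit 5) (nat_lit 283) (nat_lit 5) (nat_lit 439) (nat_lit 402) (nat_lit 179)) (XT.lf (nat_lit 0) (nat_lit 1662421) (nat_lit 456) (nat_lit 24103389562) (nat_lit 76) (nat_lit 22682019295) (nat_lit 276) (nat_lit 5) (nat_lit 282) (nat_lit 5) (nat_lit 277) (nat_lit 5) (nat_lit 440) (nat_lit 402) (nat_lit 178))) (XT.nd (nat_lit 78) (nat_lit 0) (nat_lit 0) (XT.lf (nat_lit 0) (nat_lit 3306539209) (nat_lit 456) (nat_lit 4747862948) (nat_lit 532) (nat_lit 39550237196) (nat_lit 270) (nat_lit 5) (nat_lit 276) (nat_lit 5) (nat_lit 277) (nat_lit 5) (nat_lit 441) (nat_lit 402)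 (nat_lit 177)) (XT.lf (nat_lit 0) (nat_lit 16738935755) (nat_lit 532) (nat_lit 16557121932) (nat_lit 76) (nat_lit 15138970435) (nat_lit 270) (nat_lit 5) (nat_lit 277) (nat_lit 5) (nat_lit 271) (nat_lit 5) (nat_lit 442) (nat_lit 402) (nat_lit 176))))) (XT.nd (nat_lit 312) (nat_lit 684) (nat_lit 0) (XT.nd (nat_lit 156) (nat_lit 836) (nat_lit 0) (XT.nd (nat_lit 78) (nat_lit 0) (nat_lit 0) (XT.lf (nat_lit 0) (nat_lit 12205180797) (nat_lit 380) (nat_lit 13641592547) (nat_lit 456) (nat_lit 23438672169) (nat_lit 265) (nat_lit 5) (nat_lit 270) (nat_lit 5) (nat_lit 271) (nat_lit 5) (nat_lit 443) (nat_lit 402) (nat_lit 175)) (XT.lf (nat_lit 0) (nat_lit 35458620097) (nat_lit 456) (nat_lit 8053809332) (nat_lit 76) (nat_lit 6642022777) (nat_lit 265) (nat_lit 5) (nat_lit 271) (nat_lit 5) (nat_lit 266) (nat_lit 5) (nat_lit 444) (nat_lit 402) (nat_lit 174))) (XT.nd (nat_lit 78) (nat_lit 456) (nat_lit 0) (XT.lf (nat_lit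 0) (nat_lit 22138349700) (nat_lit 380) (nat_lit 23566846974) (nat_lit 456) (nat_lit 5333941192) (nat_lit 260) (nat_lit 5) (nat_lit 265) (nat_lit 5) (nat_lit 266) (nat_lit 5) (nat_lit 445) (nat_lit 402) (nat_lit 173)) (XT.lf (nat_lit 0) (nat_lit 1437232442) (nat_lit 380) (nat_lit 2881953714) (nat_lit 456) (nat_lit 47627101573) (nat_lit 254) (nat_lit 5) (nat_lit 259) (nat_lit 5) (nat_lit 260) (nat_lit 5) (nat_lit 446) (nat_lit 402) (nat_lit 172)))) (XT.nd (nat_lit 156) (nat_lit 304) (nat_lit 0) (XT.nd (nat_lit 78) (nat_lit 380) (nat_lit 0) (XT.lf (nat_lit 0) (nat_lit 14625059314) (nat_lit 456) (nat_lit 19828916177) (nat_lit 76) (nat_lit 18410981490) (nat_lit 254) (nat_lit 5) (nat_lit 260) (nat_lit 5) (nat_lit 255) (nat_lit 5) (nat_lit 447) (nat_lit 402) (nat_lit 171)) (XT.lf (nat_lit 0) (nat_lit 11974771422) (nat_lit 380) (nat_lit 13407553366) (nat_lit 456) (nat_lit 28424595039) (nat_lit 249) (nat_lit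 5) (nat_lit 254) (nat_lit 5) (nat_lit 255) (nat_lit 5) (nat_lit 448) (nat_lit 402) (nat_lit 170))) (XT.nd (nat_lit 78) (nat_lit 304) (nat_lit 0) (XT.lf (nat_lit 0) (nat_lit 36742612949) (nat_lit 456) (nat_lit 9715582431) (nat_lit 76) (nat_lit 8310537036) (nat_lit 249) (nat_lit 5) (nat_lit 255) (nat_lit 5) (nat_lit 250) (nat_lit 5) (nat_lit 449) (nat_lit 402) (nat_lit 169)) (XT.lf (nat_lit 0) (nat_lit 23692099657) (nat_lit 304) (nat_lit 25110732396) (nat_lit 380) (nat_lit 6945793661) (nat_lit 245) (nat_lit 5) (nat_lit 249) (nat_lit 5) (nat_lit 250) (nat_lit 5) (nat_lit 450) (nat_lit 402) (nat_lit 168)))))) (XT.nd (nat_lit 546) (nat_lit 1520) (nat_lit 0) (XT.nd (nat_lit 234) (nat_lit 684) (nat_lit 0) (XT.nd (nat_lit 78) (nat_lit 304) (nat_lit 0) (XT.lf (nat_lit 0) (nat_lit 1530189763) (nat_lit 380) (nat_lit 2962014096) (nat_lit 456) (nat_lit 52261050941) (nat_lit 239) (nat_lit 5) (nat_lit 244) (nat_lit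 5) (nat_lit 245) (nat_lit 5) (nat_lit 451) (nat_lit 402) (nat_lit 167)) (XT.nd (nat_lit 78) (nat_lit 304) (nat_lit 0) (XT.lf (nat_lit 0) (nat_lit 16650126833) (nat_lit 456) (nat_lit 21261448101) (nat_lit 76) (nat_lit 19858893045) (nat_lit 239) (nat_lit 5) (nat_lit 245) (nat_lit 5) (nat_lit 240) (nat_lit 5) (nat_lit 452) (nat_lit 402) (nat_lit 166)) (XT.lf (nat_lit 0) (nat_lit 13960187324) (nat_lit 304) (nat_lit 15374814559) (nat_lit 380) (nat_lit 29478329238) (nat_lit 235) (nat_lit 5) (nat_lit 239) (nat_lit 5) (nat_lit 240) (nat_lit 5) (nat_lit 453) (nat_lit 402) (nat_lit 165)))) (XT.nd (nat_lit 156) (nat_lit 380) (nat_lit 0) (XT.nd (nat_lit 78) (nat_lit 304) (nat_lit 0) (XT.lf (nat_lit 0) (nat_lit 42691299556) (nat_lit 380) (nat_lit 9286128998) (nat_lit 76) (nat_lit 7901325311) (nat_lit 235) (nat_lit 5) (nat_lit 240) (nat_lit 5) (nat_lit 236) (nat_lit 5) (nat_lit 454) (nat_lit 402) (nat_lit 164)) (XT.lf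 (nat_lit 0) (nat_lit 27735005838) (nat_lit 304) (nat_lit 29130857278) (nat_lit 380) (nat_lit 4097748869) (nat_lit 231) (nat_lit 5) (nat_lit 235) (nat_lit 5) (nat_lit 236) (nat_lit 5) (nat_lit 455) (nat_lit 402) (nat_lit 163))) (XT.nd (nat_lit 78) (nat_lit 0) (nat_lit 0) (XT.lf (nat_lit 0) (nat_lit 3963245501) (nat_lit 304) (nat_lit 5369822916) (nat_lit 380) (nat_lit 52741294631) (nat_lit 226) (nat_lit 5) (nat_lit 230) (nat_lit 5) (nat_lit 231) (nat_lit 5) (nat_lit 456) (nat_lit 402) (nat_lit 162)) (XT.lf (nat_lit 0) (nat_lit 23605719324) (nat_lit 380) (nat_lit 20485790736) (nat_lit 76) (nat_lit 19110071337) (nat_lit 226) (nat_lit 5) (nat_lit 231) (nat_lit 5) (nat_lit 227) (nat_lit 5) (nat_lit 457) (nat_lit 402) (nat_lit 161))))) (XT.nd (nat_lit 312) (nat_lit 608) (nat_lit 0) (XT.nd (nat_lit 156) (nat_lit 608) (nat_lit 0) (XT.nd (nat_lit 78) (nat_lit 0) (nat_lit 0) (XT.lf (nat_lit 0) (nat_lit 18575771441)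 (nat_lit 304) (nat_lit 19961306627) (nat_lit 380) (nat_lit 25818622380) (nat_lit 222) (nat_lit 5) (nat_lit 226) (nat_lit 5) (nat_lit 227) (nat_lit 5) (nat_lit 458) (nat_lit 402) (nat_lit 160)) (XT.lf (nat_lit 0) (nat_lit 54171136081) (nat_lit 380) (nat_lit 6360048172) (nat_lit 76) (nat_lit 5005616061) (nat_lit 222) (nat_lit 5) (nat_lit 227) (nat_lit 5) (nat_lit 223) (nat_lit 5) (nat_lit 459) (nat_lit 402) (nat_lit 159))) (XT.nd (nat_lit 78) (nat_lit 304) (nat_lit 0) (XT.lf (nat_lit 0) (nat_lit 3987665014) (nat_lit 304) (nat_lit 32056001569) (nat_lit 76) (nat_lit 30692586623) (nat_lit 218) (nat_lit 5) (nat_lit 222) (nat_lit 5) (nat_lit 219) (nat_lit 5) (nat_lit 460) (nat_lit 402) (nat_lit 158)) (XT.lf (nat_lit 0) (nat_lit 9176470205) (nat_lit 304) (nat_lit 10548606350) (nat_lit 380) (nat_lit 48238679560) (nat_lit 214) (nat_lit 5) (nat_lit 218) (nat_lit 5) (nat_lit 219) (nat_lit 5) (nat_lit 461) (nat_lit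 402) (nat_lit 157)))) (XT.nd (nat_lit 156) (nat_lit 380) (nat_lit 0) (XT.nd (nat_lit 78) (nat_lit 228) (nat_lit 0) (XT.lf (nat_lit 0) (nat_lit 36411406197) (nat_lit 380) (nat_lit 17071382812) (nat_lit 76) (nat_lit 15730991230) (nat_lit 214) (nat_lit 5) (nat_lit 219) (nat_lit 5) (nat_lit 215) (nat_lit 5) (nat_lit 462) (nat_lit 402) (nat_lit 156)) (XT.lf (nat_lit 0) (nat_lit 26303065156) (nat_lit 228) (nat_lit 27651437869) (nat_lit 304) (nat_lit 16536116742) (nat_lit 211) (nat_lit 5) (nat_lit 214) (nat_lit 5) (nat_lit 215) (nat_lit 5) (nat_lit 463) (nat_lit 402) (nat_lit 155))) (XT.nd (nat_lit 78) (nat_lit 304) (nat_lit 0) (XT.lf (nat_lit 0) (nat_lit 386865279) (nat_lit 304) (nat_lit 477466062) (nat_lit 76) (nat_lit 70936180433) (nat_lit 210) (nat_lit 5) (nat_lit 214) (nat_lit 5) (nat_lit 211) (nat_lit 5) (nat_lit 464) (nat_lit 402) (nat_lit 154)) (XT.lf (nat_lit 0) (nat_lit 18182024654) (nat_lit 380)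 (nat_lit 28132892658) (nat_lit 76) (nat_lit 26808966087) (nat_lit 206) (nat_lit 5) (nat_lit 211) (nat_lit 5) (nat_lit 207) (nat_lit 5) (nat_lit 465) (nat_lit 402) (nat_lit 153))))))) (XT.nd (nat_lit 1170) (nat_lit 152) (nat_lit 0) (XT.nd (nat_lit 546) (nat_lit 1368) (nat_lit 0) (XT.nd (nat_lit 234) (nat_lit 608) (nat_lit 0) (XT.nd (nat_lit 78) (nat_lit 228) (nat_lit 0) (XT.lf (nat_lit 0) (nat_lit 17681175118) (nat_lit 228) (nat_lit 19012192822) (nat_lit 304) (nat_lit 37788118358) (nat_lit 203) (nat_lit 5) (nat_lit 206) (nat_lit 5) (nat_lit 207) (nat_lit 5) (nat_lit 466) (nat_lit 402) (nat_lit 152)) (XT.nd (nat_lit 78) (nat_lit 228) (nat_lit 0) (XT.lf (nat_lit 0) (nat_lit 56133466593) (nat_lit 304) (nat_lit 10517041255) (nat_lit 76) (nat_lit 9218106985) (nat_lit 203) (nat_lit 5) (nat_lit 207) (nat_lit 5) (nat_lit 204) (nat_lit 5) (nat_lit 467) (nat_lit 402) (nat_lit 151)) (XT.lf (nat_lit 0) (nat_lit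 37700481450) (nat_lit 228) (nat_lit 39005905112) (nat_lit 304) (nat_lit 574482112) (nat_lit 200) (nat_lit 5) (nat_lit 203) (nat_lit 5) (nat_lit 204) (nat_lit 5) (nat_lit 468) (nat_lit 402) (nat_lit 150)))) (XT.nd (nat_lit 156) (nat_lit 304) (nat_lit 0) (XT.nd (nat_lit 78) (nat_lit 0) (nat_lit 0) (XT.lf (nat_lit 0) (nat_lit 8833263005) (nat_lit 228) (nat_lit 10144987046) (nat_lit 304) (nat_lit 59745980072) (nat_lit 196) (nat_lit 5) (nat_lit 199) (nat_lit 5) (nat_lit 200) (nat_lit 5) (nat_lit 469) (nat_lit 402) (nat_lit 149)) (XT.lf (nat_lit 0) (nat_lit 39696880874) (nat_lit 304) (nat_lit 20887786102) (nat_lit 76) (nat_lit 19608328904) (nat_lit 196) (nat_lit 5) (nat_lit 200) (nat_lit 5) (nat_lit 197) (nat_lit 5) (nat_lit 470) (nat_lit 402) (nat_lit 148))) (XT.nd (nat_lit 78) (nat_lit 76) (nat_lit 0) (XT.lf (nat_lit 0) (nat_lit 30070182658) (nat_lit 228) (nat_lit 31355405596) (nat_lit 304) (nat_lit 20268580828)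 (nat_lit 193) (nat_lit 5) (nat_lit 196) (nat_lit 5) (nat_lit 197) (nat_lit 5) (nat_lit 471) (nat_lit 402) (nat_lit 147)) (XT.lf (nat_lit 0) (nat_lit 766775636) (nat_lit 304) (nat_lit 258150299) (nat_lit 76) (nat_lit 82208927286) (nat_lit 192) (nat_lit 5) (nat_lit 196) (nat_lit 5) (nat_lit 193) (nat_lit 5) (nat_lit 472) (nat_lit 402) (nat_lit 146))))) (XT.nd (nat_lit 312) (nat_lit 684) (nat_lit 0) (XT.nd (nat_lit 156) (nat_lit 228) (nat_lit 0) (XT.nd (nat_lit 78) (nat_lit 228) (nat_lit 0) (XT.lf (nat_lit 0) (nat_lit 22836566881) (nat_lit 304) (nat_lit 31605659275) (nat_lit 76) (nat_lit 30347158783) (nat_lit 189) (nat_lit 5) (nat_lit 193) (nat_lit 5) (nat_lit 190) (nat_lit 5) (nat_lit 473) (nat_lit 402) (nat_lit 145)) (XT.lf (nat_lit 0) (nat_lit 22265347233) (nat_lit 228) (nat_lit 23528970509) (nat_lit 304) (nat_lit 40590488890) (nat_lit 186) (nat_lit 5) (nat_lit 189) (nat_lit 5) (nat_lit 190) (nat_lit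 5) (nat_lit 474) (nat_lit 402) (nat_lit 144))) (XT.nd (nat_lit 78) (nat_lit 228) (nat_lit 0) (XT.lf (nat_lit 0) (nat_lit 69842076498) (nat_lit 304) (nat_lit 9702811825) (nat_lit 76) (nat_lit 8471164393) (nat_lit 186) (nat_lit 5) (nat_lit 190) (nat_lit 5) (nat_lit 187) (nat_lit 5) (nat_lit 475) (nat_lit 402) (nat_lit 143)) (XT.lf (nat_lit 0) (nat_lit 5510022643) (nat_lit 228) (nat_lit 42700202315) (nat_lit 76) (nat_lit 41463866810) (nat_lit 183) (nat_lit 5) (nat_lit 186) (nat_lit 5) (nat_lit 184) (nat_lit 5) (nat_lit 476) (nat_lit 402) (nat_lit 142)))) (XT.nd (nat_lit 156) (nat_lit 456) (nat_lit 0) (XT.nd (nat_lit 78) (nat_lit 0) (nat_lit 0) (XT.lf (nat_lit 0) (nat_lit 14266779633) (nat_lit 228) (nat_lit 15507666667) (nat_lit 304) (nat_lit 61594971969) (nat_lit 180) (nat_lit 5) (nat_lit 183) (nat_lit 5) (nat_lit 184) (nat_lit 5) (nat_lit 477) (nat_lit 402) (nat_lit 141)) (XT.lf (nat_lit 0) (nat_lit 55376077233)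 (nat_lit 304) (nat_lit 19465142021) (nat_lit 76) (nat_lit 18256107076) (nat_lit 180) (nat_lit 5) (nat_lit 184) (nat_lit 5) (nat_lit 181) (nat_lit 5) (nat_lit 478) (nat_lit 402) (nat_lit 140))) (XT.nd (nat_lit 78) (nat_lit 304) (nat_lit 0) (XT.lf (nat_lit 0) (nat_lit 40537446815) (nat_lit 152) (nat_lit 41750647053) (nat_lit 228) (nat_lit 12572707659) (nat_lit 178) (nat_lit 5) (nat_lit 180) (nat_lit 5) (nat_lit 181) (nat_lit 5) (nat_lit 479) (nat_lit 402) (nat_lit 139)) (XT.lf (nat_lit 0) (nat_lit 6054377673) (nat_lit 228) (nat_lit 7271621885) (nat_lit 304) (nat_lit 83339662311) (nat_lit 174) (nat_lit 5) (nat_lit 177) (nat_lit 5) (nat_lit 178) (nat_lit 5) (nat_lit 480) (nat_lit 402) (nat_lit 138)))))) (XT.nd (nat_lit 47502) (nat_lit 0) (nat_lit 14516) (XT.nd (nat_lit 47190) (nat_lit 0) (nat_lit 15428) (XT.nd (nat_lit 47034) (nat_lit 0) (nat_lit 15352) (XT.nd (nat_lit 78) (nat_lit 152) (nat_lit 0) (XT.lf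 (nat_lit 0) (nat_lit 40573568762) (nat_lit 304) (nat_lit 29554114565) (nat_lit 76) (nat_lit 28368512234) (nat_lit 174) (nat_lit 5) (nat_lit 178) (nat_lit 5) (nat_lit 175) (nat_lit 5) (nat_lit 481) (nat_lit 402) (nat_lit 137)) (XT.lf (nat_lit 0) (nat_lit 33923253197) (nat_lit 152) (nat_lit 35112556336) (nat_lit 228) (nat_lit 31333918396) (nat_lit 172) (nat_lit 5) (nat_lit 174) (nat_lit 5) (nat_lit 175) (nat_lit 5) (nat_lit 482) (nat_lit 402) (nat_lit 136))) (XT.nd (nat_lit 78) (nat_lit 0) (nat_lit 0) (XT.lf (nat_lit 0) (nat_lit 7177802354) (nat_lit 1292) (nat_lit 2958889292) (nat_lit 1292) (nat_lit 2958889292) (nat_lit 374) (nat_lit 3) (nat_lit 391) (nat_lit 3) (nat_lit 391) (nat_lit 5) (nat_lit 403) (nat_lit 403) (nat_lit 214)) (XT.lf (nat_lit 76) (nat_lit 7320654695) (nat_lit 0) (nat_lit 7416240056) (nat_lit 1292) (nat_lit 11842155876) (nat_lit 375) (nat_lit 5) (nat_lit 374) (nat_lit 3) (nat_lit 391)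 (nat_lit 5) (nat_lit 404) (nat_lit 403) (nat_lit 213)))) (XT.nd (nat_lit 156) (nat_lit 0) (nat_lit 76) (XT.nd (nat_lit 78) (nat_lit 0) (nat_lit 0) (XT.lf (nat_lit 0) (nat_lit 15242250070) (nat_lit 1216) (nat_lit 5957923431) (nat_lit 1292) (nat_lit 5775023739) (nat_lit 375) (nat_lit 5) (nat_lit 391) (nat_lit 5) (nat_lit 392) (nat_lit 5) (nat_lit 405) (nat_lit 403) (nat_lit 212)) (XT.lf (nat_lit 76) (nat_lit 7818677442) (nat_lit 0) (nat_lit 8089051279) (nat_lit 1292) (nat_lit 11471150652) (nat_lit 376) (nat_lit 5) (nat_lit 375) (nat_lit 5) (nat_lit 392) (nat_lit 5) (nat_lit 406) (nat_lit 403) (nat_lit 211))) (XT.nd (nat_lit 78) (nat_lit 0) (nat_lit 0) (XT.lf (nat_lit 0) (nat_lit 16702464501) (nat_lit 1216) (nat_lit 5716940164) (nat_lit 1292) (nat_lit 5371988521) (nat_lit 376) (nat_lit 5) (nat_lit 392) (nat_lit 5) (nat_lit 393) (nat_lit 5) (nat_lit 407) (nat_lit 403) (nat_lit 210)) (XT.lf (nat_lit 76)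 (nat_lit 8627822581) (nat_lit 0) (nat_lit 9052825460) (nat_lit 1292) (nat_lit 10530846203) (nat_lit 377) (nat_lit 5) (nat_lit 376) (nat_lit 5) (nat_lit 393) (nat_lit 5) (nat_lit 408) (nat_lit 403) (nat_lit 209))))) (XT.nd (nat_lit 312) (nat_lit 1064) (nat_lit 0) (XT.nd (nat_lit 156) (nat_lit 0) (nat_lit 76) (XT.nd (nat_lit 78) (nat_lit 0) (nat_lit 0) (XT.lf (nat_lit 0) (nat_lit 18788472151) (nat_lit 1216) (nat_lit 5170398725) (nat_lit 1292) (nat_lit 4682318605) (nat_lit 377) (nat_lit 5) (nat_lit 393) (nat_lit 5) (nat_lit 394) (nat_lit 5) (nat_lit 409) (nat_lit 403) (nat_lit 208)) (XT.lf (nat_lit 76) (nat_lit 9774275164) (nat_lit 0) (nat_lit 10335613504) (nat_lit 1292) (nat_lit 8968476176) (nat_lit 378) (nat_lit 5) (nat_lit 377) (nat_lit 5) (nat_lit 394) (nat_lit 5) (nat_lit 410) (nat_lit 403) (nat_lit 207))) (XT.nd (nat_lit 78) (nat_lit 0) (nat_lit 0) (XT.lf (nat_lit 0) (nat_lit 21556060969) (nat_lit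 1216) (nat_lit 4292041340) (nat_lit 1292) (nat_lit 3677999761) (nat_lit 378) (nat_lit 5) (nat_lit 394) (nat_lit 5) (nat_lit 395) (nat_lit 5) (nat_lit 411) (nat_lit 403) (nat_lit 206)) (XT.lf (nat_lit 76) (nat_lit 11286151502) (nat_lit 0) (nat_lit 11967234730) (nat_lit 1292) (nat_lit 6727652147) (nat_lit 379) (nat_lit 5) (nat_lit 378) (nat_lit 5) (nat_lit 395) (nat_lit 5) (nat_lit 412) (nat_lit 403) (nat_lit 205)))) (XT.nd (nat_lit 156) (nat_lit 1216) (nat_lit 0) (XT.nd (nat_lit 78) (nat_lit 0) (nat_lit 0) (XT.lf (nat_lit 0) (nat_lit 25064822470) (nat_lit 1216) (nat_lit 3053671803) (nat_lit 1292) (nat_lit 2329232767) (nat_lit 379) (nat_lit 5) (nat_lit 395) (nat_lit 5) (nat_lit 396) (nat_lit 5) (nat_lit 413) (nat_lit 403) (nat_lit 204)) (XT.lf (nat_lit 76) (nat_lit 13193616195) (nat_lit 0) (nat_lit 13979407837) (nat_lit 1292) (nat_lit 3748119663) (nat_lit 380) (nat_lit 5) (nat_lit 379) (nat_lit 5) (nat_lit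 396) (nat_lit 5) (nat_lit 414) (nat_lit 403) (nat_lit 203))) (XT.nd (nat_lit 78) (nat_lit 1292) (nat_lit 0) (XT.lf (nat_lit 0) (nat_lit 29378405823) (nat_lit 1216) (nat_lit 1425037111) (nat_lit 1292) (nat_lit 604301889) (nat_lit 380) (nat_lit 5) (nat_lit 396) (nat_lit 5) (nat_lit 397) (nat_lit 5) (nat_lit 415) (nat_lit 403) (nat_lit 202)) (XT.lf (nat_lit 0) (nat_lit 33827119) (nat_lit 1292) (nat_lit 16371720030) (nat_lit 1368) (nat_lit 15494838482) (nat_lit 363) (nat_lit 5) (nat_lit 380) (nat_lit 5) (nat_lit 381) (nat_lit 5) (nat_lit 416) (nat_lit 403) (nat_lit 201))))))))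
noncomputable def xc221 : XT := (XT.nd (nat_lit 2340) (nat_lit 5852) (nat_lit 0) (XT.nd (nat_lit 1170) (nat_lit 4180) (nat_lit 0) (XT.nd (nat_lit 546) (nat_lit 2356) (nat_lit 0) (XT.nd (nat_lit 234) (nat_lit 1292) (nat_lit 0) (XT.nd (nat_lit 78) (nat_lit 0) (nat_lit 76) (XT.lf (nat_lit 76) (nat_lit 602162157) (nat_lit 0) (nat_lit 1533554701) (nat_lit 1368) (nat_lit 30270957540) (nat_lit 364) (nat_lit 5) (nat_lit 363) (nat_lit 5) (nat_lit 381) (nat_lit 5) (nat_lit 417) (nat_lit 403) (nat_lit 200)) (XT.nd (nat_lit 78) (nat_lit 0) (nat_lit 0) (XT.lf (nat_lit 0) (nat_lit 4597486725) (nat_lit 1292) (nat_lit 14638703424) (nat_lit 1368) (nat_lit 13683056977) (nat_lit 364) (nat_lit 5) (nat_lit 381) (nat_lit 5) (nat_lit 382) (nat_lit 5) (nat_lit 418) (nat_lit 403) (nat_lit 199)) (XT.lf (nat_lit 76) (nat_lit 3084925563) (nat_lit 0) (nat_lit 4090457293) (nat_lit 1368) (nat_lit 26270545984) (nat_lit 365) (nat_lit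 5) (nat_lit 364) (nat_lit 5) (nat_lit 382) (nat_lit 5) (nat_lit 419) (nat_lit 403) (nat_lit 198)))) (XT.nd (nat_lit 156) (nat_lit 608) (nat_lit 0) (XT.nd (nat_lit 78) (nat_lit 836) (nat_lit 0) (XT.lf (nat_lit 0) (nat_lit 10088032256) (nat_lit 1292) (nat_lit 12457961160) (nat_lit 76) (nat_lit 11434695098) (nat_lit 365) (nat_lit 5) (nat_lit 382) (nat_lit 5) (nat_lit 366) (nat_lit 5) (nat_lit 420) (nat_lit 403) (nat_lit 197)) (XT.lf (nat_lit 0) (nat_lit 6057719452) (nat_lit 836) (nat_lit 7126637615) (nat_lit 912) (nat_lit 21344245034) (nat_lit 354) (nat_lit 5) (nat_lit 365) (nat_lit 5) (nat_lit 366) (nat_lit 5) (nat_lit 421) (nat_lit 403) (nat_lit 196))) (XT.nd (nat_lit 78) (nat_lit 608) (nat_lit 0) (XT.lf (nat_lit 0) (nat_lit 16582397966) (nat_lit 912) (nat_lit 9792553223) (nat_lit 76) (nat_lit 8711737116) (nat_lit 354) (nat_lit 5) (nat_lit 366) (nat_lit 5) (nat_lit 355) (nat_lit 5) (nat_lit 422) (nat_lit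 403) (nat_lit 195)) (XT.lf (nat_lit 0) (nat_lit 9559965365) (nat_lit 608) (nat_lit 10682559612) (nat_lit 684) (nat_lit 15414187770) (nat_lit 346) (nat_lit 5) (nat_lit 354) (nat_lit 5) (nat_lit 355) (nat_lit 5) (nat_lit 423) (nat_lit 403) (nat_lit 194))))) (XT.nd (nat_lit 312) (nat_lit 1216) (nat_lit 0) (XT.nd (nat_lit 156) (nat_lit 532) (nat_lit 0) (XT.nd (nat_lit 78) (nat_lit 608) (nat_lit 0) (XT.lf (nat_lit 0) (nat_lit 24162739453) (nat_lit 684) (nat_lit 6602933596) (nat_lit 76) (nat_lit 5473656366) (nat_lit 346) (nat_lit 5) (nat_lit 355) (nat_lit 5) (nat_lit 347) (nat_lit 5) (nat_lit 424) (nat_lit 403) (nat_lit 193)) (XT.lf (nat_lit 0) (nat_lit 13633838477) (nat_lit 608) (nat_lit 14801348622) (nat_lit 684) (nat_lit 8397198680) (nat_lit 338) (nat_lit 5) (nat_lit 346) (nat_lit 5) (nat_lit 347) (nat_lit 5) (nat_lit 425) (nat_lit 403) (nat_lit 192))) (XT.nd (nat_lit 78) (nat_lit 532) (nat_lit 0) (XT.lf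 (nat_lit 0) (nat_lit 32916774160) (nat_lit 684) (nat_lit 2846786941) (nat_lit 76) (nat_lit 1677243755) (nat_lit 338) (nat_lit 5) (nat_lit 347) (nat_lit 5) (nat_lit 339) (nat_lit 5) (nat_lit 426) (nat_lit 403) (nat_lit 191)) (XT.lf (nat_lit 0) (nat_lit 18324439857) (nat_lit 532) (nat_lit 19528971577) (nat_lit 608) (nat_lit 204446992) (nat_lit 331) (nat_lit 5) (nat_lit 338) (nat_lit 5) (nat_lit 339) (nat_lit 5) (nat_lit 427) (nat_lit 403) (nat_lit 190)))) (XT.nd (nat_lit 156) (nat_lit 532) (nat_lit 0) (XT.nd (nat_lit 78) (nat_lit 0) (nat_lit 0) (XT.lf (nat_lit 0) (nat_lit 1482301462) (nat_lit 608) (nat_lit 2720802632) (nat_lit 684) (nat_lit 34487859132) (nat_lit 322) (nat_lit 5) (nat_lit 330) (nat_lit 5) (nat_lit 331) (nat_lit 5) (nat_lit 428) (nat_lit 403) (nat_lit 189)) (XT.lf (nat_lit 0) (nat_lit 9078246366) (nat_lit 684) (nat_lit 15744508823) (nat_lit 76) (nat_lit 14510061038) (nat_lit 322) (nat_lit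 5) (nat_lit 331) (nat_lit 5) (nat_lit 323) (nat_lit 5) (nat_lit 429) (nat_lit 403) (nat_lit 188))) (XT.nd (nat_lit 78) (nat_lit 0) (nat_lit 0) (XT.lf (nat_lit 0) (nat_lit 6460588874) (nat_lit 532) (nat_lit 7726123519) (nat_lit 608) (nat_lit 25804600341) (nat_lit 315) (nat_lit 5) (nat_lit 322) (nat_lit 5) (nat_lit 323) (nat_lit 5) (nat_lit 430) (nat_lit 403) (nat_lit 187)) (XT.lf (nat_lit 0) (nat_lit 19702064150) (nat_lit 608) (nat_lit 11108933896) (nat_lit 76) (nat_lit 9850957137) (nat_lit 315) (nat_lit 5) (nat_lit 323) (nat_lit 5) (nat_lit 316) (nat_lit 5) (nat_lit 431) (nat_lit 403) (nat_lit 186)))))) (XT.nd (nat_lit 546) (nat_lit 2128) (nat_lit 0) (XT.nd (nat_lit 234) (nat_lit 1064) (nat_lit 0) (XT.nd (nat_lit 78) (nat_lit 456) (nat_lit 0) (XT.lf (nat_lit 0) (nat_lit 12143900839) (nat_lit 532) (nat_lit 13430326477) (nat_lit 608) (nat_lit 15772749064) (nat_lit 308) (nat_lit 5) (nat_lit 315) (nat_lit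 5) (nat_lit 316) (nat_lit 5) (nat_lit 432) (nat_lit 403) (nat_lit 185)) (XT.nd (nat_lit 78) (nat_lit 456) (nat_lit 0) (XT.lf (nat_lit 0) (nat_lit 31776982655) (nat_lit 608) (nat_lit 5773352734) (nat_lit 76) (nat_lit 4497580006) (nat_lit 308) (nat_lit 5) (nat_lit 316) (nat_lit 5) (nat_lit 309) (nat_lit 5) (nat_lit 433) (nat_lit 403) (nat_lit 184)) (XT.lf (nat_lit 0) (nat_lit 18586931129) (nat_lit 456) (nat_lit 19888738612) (nat_lit 532) (nat_lit 4284917366) (nat_lit 302) (nat_lit 5) (nat_lit 308) (nat_lit 5) (nat_lit 309) (nat_lit 5) (nat_lit 434) (nat_lit 403) (nat_lit 183)))) (XT.nd (nat_lit 156) (nat_lit 456) (nat_lit 0) (XT.nd (nat_lit 78) (nat_lit 0) (nat_lit 0) (XT.lf (nat_lit 0) (nat_lit 288383221) (nat_lit 532) (nat_lit 1615467165) (nat_lit 608) (nat_lit 41588450117) (nat_lit 294) (nat_lit 5) (nat_lit 301) (nat_lit 5) (nat_lit 302) (nat_lit 5) (nat_lit 435) (nat_lit 403) (nat_lit 182)) (XT.lf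 (nat_lit 0) (nat_lit 8602327631) (nat_lit 608) (nat_lit 18471158177) (nat_lit 76) (nat_lit 17158901673) (nat_lit 294) (nat_lit 5) (nat_lit 302) (nat_lit 5) (nat_lit 295) (nat_lit 5) (nat_lit 436) (nat_lit 403) (nat_lit 181))) (XT.nd (nat_lit 78) (nat_lit 0) (nat_lit 0) (XT.lf (nat_lit 0) (nat_lit 7124576806) (nat_lit 456) (nat_lit 8459964853) (nat_lit 532) (nat_lit 29407651934) (nat_lit 288) (nat_lit 5) (nat_lit 294) (nat_lit 5) (nat_lit 295) (nat_lit 5) (nat_lit 437) (nat_lit 403) (nat_lit 180)) (XT.lf (nat_lit 0) (nat_lit 23065889916) (nat_lit 532) (nat_lit 12009255443) (nat_lit 76) (nat_lit 10690958497) (nat_lit 288) (nat_lit 5) (nat_lit 295) (nat_lit 5) (nat_lit 289) (nat_lit 5) (nat_lit 438) (nat_lit 403) (nat_lit 179))))) (XT.nd (nat_lit 312) (nat_lit 760) (nat_lit 0) (XT.nd (nat_lit 156) (nat_lit 912) (nat_lit 0) (XT.nd (nat_lit 78) (nat_lit 0) (nat_lit 0) (XT.lf (nat_lit 0) (nat_lit 14828446240)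 (nat_lit 456) (nat_lit 16167911825) (nat_lit 532) (nat_lit 15560132977) (nat_lit 282) (nat_lit 5) (nat_lit 288) (nat_lit 5) (nat_lit 289) (nat_lit 5) (nat_lit 439) (nat_lit 403) (nat_lit 178)) (XT.lf (nat_lit 0) (nat_lit 39317397102) (nat_lit 532) (nat_lit 4684509266) (nat_lit 76) (nat_lit 3364103770) (nat_lit 282) (nat_lit 5) (nat_lit 289) (nat_lit 5) (nat_lit 283) (nat_lit 5) (nat_lit 440) (nat_lit 403) (nat_lit 177))) (XT.nd (nat_lit 78) (nat_lit 456) (nat_lit 0) (XT.lf (nat_lit 0) (nat_lit 82236808) (nat_lit 456) (nat_lit 24722904336) (nat_lit 76) (nat_lit 23383126537) (nat_lit 276) (nat_lit 5) (nat_lit 282) (nat_lit 5) (nat_lit 277) (nat_lit 5) (nat_lit 441) (nat_lit 403) (nat_lit 176)) (XT.lf (nat_lit 0) (nat_lit 3508306740) (nat_lit 456) (nat_lit 4866892600) (nat_lit 532) (nat_lit 40655204240) (nat_lit 270) (nat_lit 5) (nat_lit 276) (nat_lit 5) (nat_lit 277) (nat_lit 5) (nat_lit 442) (nat_lit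 403) (nat_lit 175)))) (XT.nd (nat_lit 156) (nat_lit 380) (nat_lit 0) (XT.nd (nat_lit 78) (nat_lit 380) (nat_lit 0) (XT.lf (nat_lit 0) (nat_lit 17318181608) (nat_lit 532) (nat_lit 16952164412) (nat_lit 76) (nat_lit 15615420612) (nat_lit 270) (nat_lit 5) (nat_lit 277) (nat_lit 5) (nat_lit 271) (nat_lit 5) (nat_lit 443) (nat_lit 403) (nat_lit 174)) (XT.lf (nat_lit 0) (nat_lit 12672010623) (nat_lit 380) (nat_lit 14025966462) (nat_lit 456) (nat_lit 24063757778) (nat_lit 265) (nat_lit 5) (nat_lit 270) (nat_lit 5) (nat_lit 271) (nat_lit 5) (nat_lit 444) (nat_lit 403) (nat_lit 173))) (XT.nd (nat_lit 78) (nat_lit 380) (nat_lit 0) (XT.lf (nat_lit 0) (nat_lit 36596203596) (nat_lit 456) (nat_lit 8195705830) (nat_lit 76) (nat_lit 6864961599) (nat_lit 265) (nat_lit 5) (nat_lit 271) (nat_lit 5) (nat_lit 266) (nat_lit 5) (nat_lit 445) (nat_lit 403) (nat_lit 172)) (XT.lf (nat_lit 0) (nat_lit 22901240348) (nat_lit 380)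 (nat_lit 24247736034) (nat_lit 456) (nat_lit 5419156906) (nat_lit 260) (nat_lit 5) (nat_lit 265) (nat_lit 5) (nat_lit 266) (nat_lit 5) (nat_lit 446) (nat_lit 403) (nat_lit 171))))))) (XT.nd (nat_lit 1170) (nat_lit 2660) (nat_lit 0) (XT.nd (nat_lit 546) (nat_lit 1596) (nat_lit 0) (XT.nd (nat_lit 234) (nat_lit 760) (nat_lit 0) (XT.nd (nat_lit 78) (nat_lit 380) (nat_lit 0) (XT.lf (nat_lit 0) (nat_lit 1579566887) (nat_lit 380) (nat_lit 2941355248) (nat_lit 456) (nat_lit 48981589414) (nat_lit 254) (nat_lit 5) (nat_lit 259) (nat_lit 5) (nat_lit 260) (nat_lit 5) (nat_lit 447) (nat_lit 403) (nat_lit 170)) (XT.nd (nat_lit 78) (nat_lit 380) (nat_lit 0) (XT.lf (nat_lit 0) (nat_lit 15134122242) (nat_lit 456) (nat_lit 20325606774) (nat_lit 76) (nat_lit 18989067339) (nat_lit 254) (nat_lit 5) (nat_lit 260) (nat_lit 5) (nat_lit 255) (nat_lit 5) (nat_lit 448) (nat_lit 403) (nat_lit 169)) (XT.lf (nat_lit 0) (nat_lit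 12431228934) (nat_lit 380) (nat_lit 13781763333) (nat_lit 456) (nat_lit 29206059222) (nat_lit 249) (nat_lit 5) (nat_lit 254) (nat_lit 5) (nat_lit 255) (nat_lit 5) (nat_lit 449) (nat_lit 403) (nat_lit 168)))) (XT.nd (nat_lit 156) (nat_lit 456) (nat_lit 0) (XT.nd (nat_lit 78) (nat_lit 304) (nat_lit 0) (XT.lf (nat_lit 0) (nat_lit 37912335074) (nat_lit 456) (nat_lit 9910913022) (nat_lit 76) (nat_lit 8586522981) (nat_lit 249) (nat_lit 5) (nat_lit 255) (nat_lit 5) (nat_lit 250) (nat_lit 5) (nat_lit 450) (nat_lit 403) (nat_lit 167)) (XT.lf (nat_lit 0) (nat_lit 24498057011) (nat_lit 304) (nat_lit 25835254426) (nat_lit 380) (nat_lit 7085781216) (nat_lit 245) (nat_lit 5) (nat_lit 249) (nat_lit 5) (nat_lit 250) (nat_lit 5) (nat_lit 451) (nat_lit 403) (nat_lit 166))) (XT.nd (nat_lit 78) (nat_lit 0) (nat_lit 0) (XT.lf (nat_lit 0) (nat_lit 1671677920) (nat_lit 380) (nat_lit 3021309680) (nat_lit 456) (nat_lit 53760884316)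 (nat_lit 239) (nat_lit 5) (nat_lit 244) (nat_lit 5) (nat_lit 245) (nat_lit 5) (nat_lit 452) (nat_lit 403) (nat_lit 165)) (XT.lf (nat_lit 0) (nat_lit 17214001337) (nat_lit 456) (nat_lit 21804846109) (nat_lit 76) (nat_lit 20482803451) (nat_lit 239) (nat_lit 5) (nat_lit 245) (nat_lit 5) (nat_lit 240) (nat_lit 5) (nat_lit 453) (nat_lit 403) (nat_lit 164))))) (XT.nd (nat_lit 312) (nat_lit 608) (nat_lit 0) (XT.nd (nat_lit 156) (nat_lit 684) (nat_lit 0) (XT.nd (nat_lit 78) (nat_lit 0) (nat_lit 0) (XT.lf (nat_lit 0) (nat_lit 14472512443) (nat_lit 304) (nat_lit 15805934288) (nat_lit 380) (nat_lit 30297382480) (nat_lit 235) (nat_lit 5) (nat_lit 239) (nat_lit 5) (nat_lit 240) (nat_lit 5) (nat_lit 454) (nat_lit 403) (nat_lit 163)) (XT.lf (nat_lit 0) (nat_lit 44033868027) (nat_lit 380) (nat_lit 9472351930) (nat_lit 76) (nat_lit 8167041640) (nat_lit 235) (nat_lit 5) (nat_lit 240) (nat_lit 5) (nat_lit 236) (nat_lit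 5) (nat_lit 455) (nat_lit 403) (nat_lit 162))) (XT.nd (nat_lit 78) (nat_lit 380) (nat_lit 0) (XT.lf (nat_lit 0) (nat_lit 28658511451) (nat_lit 304) (nat_lit 29974235308) (nat_lit 380) (nat_lit 4157946351) (nat_lit 231) (nat_lit 5) (nat_lit 235) (nat_lit 5) (nat_lit 236) (nat_lit 5) (nat_lit 456) (nat_lit 403) (nat_lit 161)) (XT.lf (nat_lit 0) (nat_lit 4173913866) (nat_lit 304) (nat_lit 5499747983) (nat_lit 380) (nat_lit 54261114049) (nat_lit 226) (nat_lit 5) (nat_lit 230) (nat_lit 5) (nat_lit 231) (nat_lit 5) (nat_lit 457) (nat_lit 403) (nat_lit 160)))) (XT.nd (nat_lit 156) (nat_lit 304) (nat_lit 0) (XT.nd (nat_lit 78) (nat_lit 304) (nat_lit 0) (XT.lf (nat_lit 0) (nat_lit 24373018090) (nat_lit 380) (nat_lit 21009792206) (nat_lit 76) (nat_lit 19713044728) (nat_lit 226) (nat_lit 5) (nat_lit 231) (nat_lit 5) (nat_lit 227) (nat_lit 5) (nat_lit 458) (nat_lit 403) (nat_lit 159)) (XT.lf (nat_lit 0) (nat_lit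 19222728873) (nat_lit 304) (nat_lit 20528728671) (nat_lit 380) (nat_lit 26533165902) (nat_lit 222) (nat_lit 5) (nat_lit 226) (nat_lit 5) (nat_lit 227) (nat_lit 5) (nat_lit 459) (nat_lit 403) (nat_lit 158))) (XT.nd (nat_lit 78) (nat_lit 304) (nat_lit 0) (XT.lf (nat_lit 0) (nat_lit 55853133403) (nat_lit 380) (nat_lit 6462373596) (nat_lit 76) (nat_lit 5185691428) (nat_lit 222) (nat_lit 5) (nat_lit 227) (nat_lit 5) (nat_lit 223) (nat_lit 5) (nat_lit 460) (nat_lit 403) (nat_lit 157)) (XT.lf (nat_lit 0) (nat_lit 4163899082) (nat_lit 304) (nat_lit 32928946474) (nat_lit 76) (nat_lit 31643797123) (nat_lit 218) (nat_lit 5) (nat_lit 222) (nat_lit 5) (nat_lit 219) (nat_lit 5) (nat_lit 461) (nat_lit 403) (nat_lit 156)))))) (XT.nd (nat_lit 624) (nat_lit 1292) (nat_lit 0) (XT.nd (nat_lit 312) (nat_lit 760) (nat_lit 0) (XT.nd (nat_lit 156) (nat_lit 304) (nat_lit 0) (XT.nd (nat_lit 78) (nat_lit 0) (nat_lit 0) (XT.lf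 (nat_lit 0) (nat_lit 9539629501) (nat_lit 304) (nat_lit 10832999419) (nat_lit 380) (nat_lit 49628365877) (nat_lit 214) (nat_lit 5) (nat_lit 218) (nat_lit 5) (nat_lit 219) (nat_lit 5) (nat_lit 462) (nat_lit 403) (nat_lit 155)) (XT.lf (nat_lit 0) (nat_lit 37558222458) (nat_lit 380) (nat_lit 17496892293) (nat_lit 76) (nat_lit 16233444672) (nat_lit 214) (nat_lit 5) (nat_lit 219) (nat_lit 5) (nat_lit 215) (nat_lit 5) (nat_lit 463) (nat_lit 403) (nat_lit 154))) (XT.nd (nat_lit 78) (nat_lit 76) (nat_lit 0) (XT.lf (nat_lit 0) (nat_lit 27177939780) (nat_lit 228) (nat_lit 28448910384) (nat_lit 304) (nat_lit 16976876835) (nat_lit 211) (nat_lit 5) (nat_lit 214) (nat_lit 5) (nat_lit 215) (nat_lit 5) (nat_lit 464) (nat_lit 403) (nat_lit 153)) (XT.lf (nat_lit 0) (nat_lit 451135169) (nat_lit 304) (nat_lit 407457783) (nat_lit 76) (nat_lit 73094354257) (nat_lit 210) (nat_lit 5) (nat_lit 214) (nat_lit 5) (nat_lit 211)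 (nat_lit 5) (nat_lit 465) (nat_lit 403) (nat_lit 152)))) (XT.nd (nat_lit 156) (nat_lit 228) (nat_lit 0) (XT.nd (nat_lit 78) (nat_lit 228) (nat_lit 0) (XT.lf (nat_lit 0) (nat_lit 18779721627) (nat_lit 380) (nat_lit 28892119478) (nat_lit 76) (nat_lit 27644191708) (nat_lit 206) (nat_lit 5) (nat_lit 211) (nat_lit 5) (nat_lit 207) (nat_lit 5) (nat_lit 466) (nat_lit 403) (nat_lit 151)) (XT.lf (nat_lit 0) (nat_lit 18295539351) (nat_lit 228) (nat_lit 19550151194) (nat_lit 304) (nat_lit 38868694696) (nat_lit 203) (nat_lit 5) (nat_lit 206) (nat_lit 5) (nat_lit 207) (nat_lit 5) (nat_lit 467) (nat_lit 403) (nat_lit 150))) (XT.nd (nat_lit 78) (nat_lit 228) (nat_lit 0) (XT.lf (nat_lit 0) (nat_lit 57867793976) (nat_lit 304) (nat_lit 10749869865) (nat_lit 76) (nat_lit 9525499736) (nat_lit 203) (nat_lit 5) (nat_lit 207) (nat_lit 5) (nat_lit 204) (nat_lit 5) (nat_lit 468) (nat_lit 403) (nat_lit 149)) (XT.lf (nat_lit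 0) (nat_lit 38913367907) (nat_lit 228) (nat_lit 40143854910) (nat_lit 304) (nat_lit 540582577) (nat_lit 200) (nat_lit 5) (nat_lit 203) (nat_lit 5) (nat_lit 204) (nat_lit 5) (nat_lit 469) (nat_lit 403) (nat_lit 148))))) (XT.nd (nat_lit 312) (nat_lit 684) (nat_lit 0) (XT.nd (nat_lit 156) (nat_lit 304) (nat_lit 0) (XT.nd (nat_lit 78) (nat_lit 0) (nat_lit 0) (XT.lf (nat_lit 0) (nat_lit 9180318268) (nat_lit 228) (nat_lit 10416743983) (nat_lit 304) (nat_lit 61487410835) (nat_lit 196) (nat_lit 5) (nat_lit 199) (nat_lit 5) (nat_lit 200) (nat_lit 5) (nat_lit 470) (nat_lit 403) (nat_lit 147)) (XT.lf (nat_lit 0) (nat_lit 40936115455) (nat_lit 304) (nat_lit 21433615789) (nat_lit 76) (nat_lit 20227604668) (nat_lit 196) (nat_lit 5) (nat_lit 200) (nat_lit 5) (nat_lit 197) (nat_lit 5) (nat_lit 471) (nat_lit 403) (nat_lit 146))) (XT.nd (nat_lit 78) (nat_lit 76) (nat_lit 0) (XT.lf (nat_lit 0) (nat_lit 31052299838) (nat_lit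 228) (nat_lit 32263745722) (nat_lit 304) (nat_lit 20827517904) (nat_lit 193) (nat_lit 5) (nat_lit 196) (nat_lit 5) (nat_lit 197) (nat_lit 5) (nat_lit 472) (nat_lit 403) (nat_lit 145)) (XT.lf (nat_lit 0) (nat_lit 836537968) (nat_lit 304) (nat_lit 187282947) (nat_lit 76) (nat_lit 84705645130) (nat_lit 192) (nat_lit 5) (nat_lit 196) (nat_lit 5) (nat_lit 193) (nat_lit 5) (nat_lit 473) (nat_lit 403) (nat_lit 144)))) (XT.nd (nat_lit 156) (nat_lit 228) (nat_lit 0) (XT.nd (nat_lit 78) (nat_lit 228) (nat_lit 0) (XT.lf (nat_lit 0) (nat_lit 23568113971) (nat_lit 304) (nat_lit 32474908214) (nat_lit 76) (nat_lit 31288650799) (nat_lit 189) (nat_lit 5) (nat_lit 193) (nat_lit 5) (nat_lit 190) (nat_lit 5) (nat_lit 474) (nat_lit 403) (nat_lit 143)) (XT.lf (nat_lit 0) (nat_lit 23011454755) (nat_lit 228) (nat_lit 24202540886) (nat_lit 304) (nat_lit 41760979739) (nat_lit 186) (nat_lit 5) (nat_lit 189) (nat_lit 5) (nat_lit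 190) (nat_lit 5) (nat_lit 475) (nat_lit 403) (nat_lit 142))) (XT.nd (nat_lit 78) (nat_lit 228) (nat_lit 0) (XT.lf (nat_lit 0) (nat_lit 71982153202) (nat_lit 304) (nat_lit 9916991246) (nat_lit 76) (nat_lit 8756045416) (nat_lit 186) (nat_lit 5) (nat_lit 190) (nat_lit 5) (nat_lit 187) (nat_lit 5) (nat_lit 476) (nat_lit 403) (nat_lit 141)) (XT.lf (nat_lit 0) (nat_lit 5720002499) (nat_lit 228) (nat_lit 43904168219) (nat_lit 76) (nat_lit 42738803429) (nat_lit 183) (nat_lit 5) (nat_lit 186) (nat_lit 5) (nat_lit 184) (nat_lit 5) (nat_lit 477) (nat_lit 403) (nat_lit 140))))))))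
noncomputable def xc222 : XT := (XT.nd (nat_lit 49452) (nat_lit 0) (nat_lit 3648) (XT.nd (nat_lit 48282) (nat_lit 0) (nat_lit 11248) (XT.nd (nat_lit 47658) (nat_lit 0) (nat_lit 15352) (XT.nd (nat_lit 47346) (nat_lit 0) (nat_lit 15200) (XT.nd (nat_lit 156) (nat_lit 456) (nat_lit 0) (XT.lf (nat_lit 0) (nat_lit 14771067893) (nat_lit 228) (nat_lit 15940722935) (nat_lit 304) (nat_lit 63397386656) (nat_lit 180) (nat_lit 5) (nat_lit 183) (nat_lit 5) (nat_lit 184) (nat_lit 5) (nat_lit 478) (nat_lit 403) (nat_lit 139)) (XT.nd (nat_lit 78) (nat_lit 304) (nat_lit 0) (XT.lf (nat_lit 0) (nat_lit 41827881966) (nat_lit 152) (nat_lit 42971439547) (nat_lit 228) (nat_lit 12906026516) (nat_lit 178) (nat_lit 5) (nat_lit 180) (nat_lit 5) (nat_lit 181) (nat_lit 5) (nat_lit 480) (nat_lit 403) (nat_lit 137)) (XT.lf (nat_lit 0) (nat_lit 6310439724) (nat_lit 228) (nat_lit 7457809139) (nat_lit 304) (nat_lit 85796108783) (nat_lit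 174) (nat_lit 5) (nat_lit 177) (nat_lit 5) (nat_lit 178) (nat_lit 5) (nat_lit 481) (nat_lit 403) (nat_lit 136)))) (XT.nd (nat_lit 156) (nat_lit 0) (nat_lit 76) (XT.nd (nat_lit 78) (nat_lit 0) (nat_lit 0) (XT.lf (nat_lit 0) (nat_lit 7487802960) (nat_lit 1292) (nat_lit 2998902705) (nat_lit 1292) (nat_lit 2998902705) (nat_lit 374) (nat_lit 3) (nat_lit 391) (nat_lit 3) (nat_lit 391) (nat_lit 5) (nat_lit 404) (nat_lit 404) (nat_lit 212)) (XT.lf (nat_lit 76) (nat_lit 7636824921) (nat_lit 0) (nat_lit 7726923291) (nat_lit 1292) (nat_lit 12007131534) (nat_lit 375) (nat_lit 5) (nat_lit 374) (nat_lit 3) (nat_lit 391) (nat_lit 5) (nat_lit 405) (nat_lit 404) (nat_lit 211))) (XT.nd (nat_lit 78) (nat_lit 0) (nat_lit 0) (XT.lf (nat_lit 0) (nat_lit 15878060122) (nat_lit 1216) (nat_lit 6036718630) (nat_lit 1292) (nat_lit 5864318129) (nat_lit 375) (nat_lit 5) (nat_lit 391) (nat_lit 5) (nat_lit 392) (nat_lit 5) (nat_lit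 406) (nat_lit 404) (nat_lit 210)) (XT.lf (nat_lit 76) (nat_lit 8152200440) (nat_lit 0) (nat_lit 8407053713) (nat_lit 1292) (nat_lit 11635762794) (nat_lit 376) (nat_lit 5) (nat_lit 375) (nat_lit 5) (nat_lit 392) (nat_lit 5) (nat_lit 407) (nat_lit 404) (nat_lit 209))))) (XT.nd (nat_lit 312) (nat_lit 0) (nat_lit 152) (XT.nd (nat_lit 156) (nat_lit 0) (nat_lit 76) (XT.nd (nat_lit 78) (nat_lit 0) (nat_lit 0) (XT.lf (nat_lit 0) (nat_lit 17372052460) (nat_lit 1216) (nat_lit 5786588555) (nat_lit 1292) (nat_lit 5461438547) (nat_lit 376) (nat_lit 5) (nat_lit 392) (nat_lit 5) (nat_lit 393) (nat_lit 5) (nat_lit 408) (nat_lit 404) (nat_lit 208)) (XT.lf (nat_lit 76) (nat_lit 8987518447) (nat_lit 0) (nat_lit 9388124422) (nat_lit 1292) (nat_lit 10677258940) (nat_lit 377) (nat_lit 5) (nat_lit 376) (nat_lit 5) (nat_lit 393) (nat_lit 5) (nat_lit 409) (nat_lit 404) (nat_lit 207))) (XT.nd (nat_lit 78) (nat_lit 0) (nat_lit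 0) (XT.lf (nat_lit 0) (nat_lit 19511313623) (nat_lit 1216) (nat_lit 5222199124) (nat_lit 1292) (nat_lit 4762136799) (nat_lit 377) (nat_lit 5) (nat_lit 393) (nat_lit 5) (nat_lit 394) (nat_lit 5) (nat_lit 410) (nat_lit 404) (nat_lit 206)) (XT.lf (nat_lit 76) (nat_lit 10169802124) (nat_lit 0) (nat_lit 10698917347) (nat_lit 1292) (nat_lit 9077330295) (nat_lit 378) (nat_lit 5) (nat_lit 377) (nat_lit 5) (nat_lit 394) (nat_lit 5) (nat_lit 411) (nat_lit 404) (nat_lit 205)))) (XT.nd (nat_lit 156) (nat_lit 0) (nat_lit 76) (XT.nd (nat_lit 78) (nat_lit 0) (nat_lit 0) (XT.lf (nat_lit 0) (nat_lit 22353249993) (nat_lit 1216) (nat_lit 4316456502) (nat_lit 1292) (nat_lit 3737663421) (nat_lit 378) (nat_lit 5) (nat_lit 394) (nat_lit 5) (nat_lit 395) (nat_lit 5) (nat_lit 412) (nat_lit 404) (nat_lit 204)) (XT.lf (nat_lit 76) (nat_lit 11728059125) (nat_lit 0) (nat_lit 12370045389) (nat_lit 1292) (nat_lit 6777951516) (nat_lit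 379) (nat_lit 5) (nat_lit 378) (nat_lit 5) (nat_lit 395) (nat_lit 5) (nat_lit 413) (nat_lit 404) (nat_lit 203))) (XT.nd (nat_lit 78) (nat_lit 0) (nat_lit 0) (XT.lf (nat_lit 0) (nat_lit 25959190177) (nat_lit 1216) (nat_lit 3040274628) (nat_lit 1292) (nat_lit 2357421356) (nat_lit 379) (nat_lit 5) (nat_lit 395) (nat_lit 5) (nat_lit 396) (nat_lit 5) (nat_lit 414) (nat_lit 404) (nat_lit 202)) (XT.lf (nat_lit 76) (nat_lit 13693402527) (nat_lit 0) (nat_lit 14434086514) (nat_lit 1292) (nat_lit 3717110736) (nat_lit 380) (nat_lit 5) (nat_lit 379) (nat_lit 5) (nat_lit 396) (nat_lit 5) (nat_lit 415) (nat_lit 404) (nat_lit 201)))))) (XT.nd (nat_lit 546) (nat_lit 2432) (nat_lit 0) (XT.nd (nat_lit 234) (nat_lit 684) (nat_lit 0) (XT.nd (nat_lit 78) (nat_lit 1292) (nat_lit 0) (XT.lf (nat_lit 0) (nat_lit 30394646344) (nat_lit 1216) (nat_lit 1362452918) (nat_lit 1292) (nat_lit 588831255) (nat_lit 380) (nat_lit 5) (nat_lit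 396) (nat_lit 5) (nat_lit 397) (nat_lit 5) (nat_lit 416) (nat_lit 404) (nat_lit 200)) (XT.nd (nat_lit 78) (nat_lit 0) (nat_lit 0) (XT.lf (nat_lit 0) (nat_lit 168110669) (nat_lit 1292) (nat_lit 16755916714) (nat_lit 1368) (nat_lit 15929371754) (nat_lit 363) (nat_lit 5) (nat_lit 380) (nat_lit 5) (nat_lit 381) (nat_lit 5) (nat_lit 417) (nat_lit 404) (nat_lit 199)) (XT.lf (nat_lit 76) (nat_lit 726133361) (nat_lit 0) (nat_lit 1604060162) (nat_lit 1368) (nat_lit 31044768952) (nat_lit 364) (nat_lit 5) (nat_lit 363) (nat_lit 5) (nat_lit 381) (nat_lit 5) (nat_lit 418) (nat_lit 404) (nat_lit 198)))) (XT.nd (nat_lit 156) (nat_lit 760) (nat_lit 0) (XT.nd (nat_lit 78) (nat_lit 0) (nat_lit 0) (XT.lf (nat_lit 0) (nat_lit 4861789639) (nat_lit 1292) (nat_lit 14971015991) (nat_lit 1368) (nat_lit 14070227560) (nat_lit 364) (nat_lit 5) (nat_lit 381) (nat_lit 5) (nat_lit 382) (nat_lit 5) (nat_lit 419) (nat_lit 404) (nat_lit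 197)) (XT.lf (nat_lit 76) (nat_lit 3283274330) (nat_lit 0) (nat_lit 4231084426) (nat_lit 1368) (nat_lit 26931236516) (nat_lit 365) (nat_lit 5) (nat_lit 364) (nat_lit 5) (nat_lit 382) (nat_lit 5) (nat_lit 420) (nat_lit 404) (nat_lit 196))) (XT.nd (nat_lit 78) (nat_lit 836) (nat_lit 0) (XT.lf (nat_lit 0) (nat_lit 10510617126) (nat_lit 1292) (nat_lit 12725210065) (nat_lit 76) (nat_lit 11760683661) (nat_lit 365) (nat_lit 5) (nat_lit 382) (nat_lit 5) (nat_lit 366) (nat_lit 5) (nat_lit 421) (nat_lit 404) (nat_lit 195)) (XT.lf (nat_lit 0) (nat_lit 6344896946) (nat_lit 836) (nat_lit 7352454834) (nat_lit 912) (nat_lit 21863584464) (nat_lit 354) (nat_lit 5) (nat_lit 365) (nat_lit 5) (nat_lit 366) (nat_lit 5) (nat_lit 422) (nat_lit 404) (nat_lit 194))))) (XT.nd (nat_lit 312) (nat_lit 1216) (nat_lit 0) (XT.nd (nat_lit 156) (nat_lit 608) (nat_lit 0) (XT.nd (nat_lit 78) (nat_lit 608) (nat_lit 0) (XT.lf (nat_lit 0)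 (nat_lit 17193800464) (nat_lit 912) (nat_lit 9980421707) (nat_lit 76) (nat_lit 8961648866) (nat_lit 354) (nat_lit 5) (nat_lit 366) (nat_lit 5) (nat_lit 355) (nat_lit 5) (nat_lit 423) (nat_lit 404) (nat_lit 193)) (XT.lf (nat_lit 0) (nat_lit 9951634124) (nat_lit 608) (nat_lit 11009786869) (nat_lit 684) (nat_lit 15761644529) (nat_lit 346) (nat_lit 5) (nat_lit 354) (nat_lit 5) (nat_lit 355) (nat_lit 5) (nat_lit 424) (nat_lit 404) (nat_lit 192))) (XT.nd (nat_lit 78) (nat_lit 608) (nat_lit 0) (XT.lf (nat_lit 0) (nat_lit 24995927827) (nat_lit 684) (nat_lit 6695892191) (nat_lit 76) (nat_lit 5631440093) (nat_lit 346) (nat_lit 5) (nat_lit 355) (nat_lit 5) (nat_lit 347) (nat_lit 5) (nat_lit 425) (nat_lit 404) (nat_lit 191)) (XT.lf (nat_lit 0) (nat_lit 14146952364) (nat_lit 608) (nat_lit 15247442651) (nat_lit 684) (nat_lit 8539777769) (nat_lit 338) (nat_lit 5) (nat_lit 346) (nat_lit 5) (nat_lit 347) (nat_lit 5)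 (nat_lit 426) (nat_lit 404) (nat_lit 190)))) (XT.nd (nat_lit 156) (nat_lit 684) (nat_lit 0) (XT.nd (nat_lit 78) (nat_lit 532) (nat_lit 0) (XT.lf (nat_lit 0) (nat_lit 34007318708) (nat_lit 684) (nat_lit 2828012838) (nat_lit 76) (nat_lit 1725606216) (nat_lit 338) (nat_lit 5) (nat_lit 347) (nat_lit 5) (nat_lit 339) (nat_lit 5) (nat_lit 427) (nat_lit 404) (nat_lit 189)) (XT.lf (nat_lit 0) (nat_lit 18977329414) (nat_lit 532) (nat_lit 20112716085) (nat_lit 608) (nat_lit 106517729) (nat_lit 331) (nat_lit 5) (nat_lit 338) (nat_lit 5) (nat_lit 339) (nat_lit 5) (nat_lit 428) (nat_lit 404) (nat_lit 188))) (XT.nd (nat_lit 78) (nat_lit 0) (nat_lit 0) (XT.lf (nat_lit 0) (nat_lit 1630926259) (nat_lit 608) (nat_lit 2798332395) (nat_lit 684) (nat_lit 35419431625) (nat_lit 322) (nat_lit 5) (nat_lit 330) (nat_lit 5) (nat_lit 331) (nat_lit 5) (nat_lit 429) (nat_lit 404) (nat_lit 187)) (XT.lf (nat_lit 0) (nat_lit 9447778994)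 (nat_lit 684) (nat_lit 16112845797) (nat_lit 76) (nat_lit 14949260365) (nat_lit 322) (nat_lit 5) (nat_lit 331) (nat_lit 5) (nat_lit 323) (nat_lit 5) (nat_lit 430) (nat_lit 404) (nat_lit 186))))))) (XT.nd (nat_lit 1170) (nat_lit 3268) (nat_lit 0) (XT.nd (nat_lit 546) (nat_lit 2204) (nat_lit 0) (XT.nd (nat_lit 234) (nat_lit 1064) (nat_lit 0) (XT.nd (nat_lit 78) (nat_lit 532) (nat_lit 0) (XT.lf (nat_lit 0) (nat_lit 6757385239) (nat_lit 532) (nat_lit 7950273018) (nat_lit 608) (nat_lit 26480533523) (nat_lit 315) (nat_lit 5) (nat_lit 322) (nat_lit 5) (nat_lit 323) (nat_lit 5) (nat_lit 431) (nat_lit 404) (nat_lit 185)) (XT.nd (nat_lit 78) (nat_lit 532) (nat_lit 0) (XT.lf (nat_lit 0) (nat_lit 20385764791) (nat_lit 608) (nat_lit 11339516816) (nat_lit 76) (nat_lit 10153753070) (nat_lit 315) (nat_lit 5) (nat_lit 323) (nat_lit 5) (nat_lit 316) (nat_lit 5) (nat_lit 432) (nat_lit 404) (nat_lit 184)) (XT.lf (nat_lit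 0) (nat_lit 12609896244) (nat_lit 532) (nat_lit 13822475788) (nat_lit 608) (nat_lit 16152286103) (nat_lit 308) (nat_lit 5) (nat_lit 315) (nat_lit 5) (nat_lit 316) (nat_lit 5) (nat_lit 433) (nat_lit 404) (nat_lit 183)))) (XT.nd (nat_lit 156) (nat_lit 608) (nat_lit 0) (XT.nd (nat_lit 78) (nat_lit 456) (nat_lit 0) (XT.lf (nat_lit 0) (nat_lit 32818662360) (nat_lit 608) (nat_lit 5845288772) (nat_lit 76) (nat_lit 4642750618) (nat_lit 308) (nat_lit 5) (nat_lit 316) (nat_lit 5) (nat_lit 309) (nat_lit 5) (nat_lit 434) (nat_lit 404) (nat_lit 182)) (XT.lf (nat_lit 0) (nat_lit 19244810817) (nat_lit 456) (nat_lit 20471889226) (nat_lit 532) (nat_lit 4324101872) (nat_lit 302) (nat_lit 5) (nat_lit 308) (nat_lit 5) (nat_lit 309) (nat_lit 5) (nat_lit 435) (nat_lit 404) (nat_lit 181))) (XT.nd (nat_lit 78) (nat_lit 0) (nat_lit 0) (XT.lf (nat_lit 0) (nat_lit 398050113) (nat_lit 532) (nat_lit 1648954011) (nat_lit 608) (nat_lit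 42747484247) (nat_lit 294) (nat_lit 5) (nat_lit 301) (nat_lit 5) (nat_lit 302) (nat_lit 5) (nat_lit 436) (nat_lit 404) (nat_lit 180)) (XT.lf (nat_lit 0) (nat_lit 8944069495) (nat_lit 608) (nat_lit 18924853530) (nat_lit 76) (nat_lit 17687925919) (nat_lit 294) (nat_lit 5) (nat_lit 302) (nat_lit 5) (nat_lit 295) (nat_lit 5) (nat_lit 437) (nat_lit 404) (nat_lit 179))))) (XT.nd (nat_lit 312) (nat_lit 1292) (nat_lit 0) (XT.nd (nat_lit 156) (nat_lit 456) (nat_lit 0) (XT.nd (nat_lit 78) (nat_lit 0) (nat_lit 0) (XT.lf (nat_lit 0) (nat_lit 7437768802) (nat_lit 456) (nat_lit 8696500112) (nat_lit 532) (nat_lit 30205224757) (nat_lit 288) (nat_lit 5) (nat_lit 294) (nat_lit 5) (nat_lit 295) (nat_lit 5) (nat_lit 438) (nat_lit 404) (nat_lit 178)) (XT.lf (nat_lit 0) (nat_lit 23837824821) (nat_lit 532) (nat_lit 12270742356) (nat_lit 76) (nat_lit 11028121048) (nat_lit 288) (nat_lit 5) (nat_lit 295) (nat_lit 5) (nat_lit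 289) (nat_lit 5) (nat_lit 439) (nat_lit 404) (nat_lit 177))) (XT.nd (nat_lit 78) (nat_lit 0) (nat_lit 0) (XT.lf (nat_lit 0) (nat_lit 15371121841) (nat_lit 456) (nat_lit 16633696621) (nat_lit 532) (nat_lit 15946010222) (nat_lit 282) (nat_lit 5) (nat_lit 288) (nat_lit 5) (nat_lit 289) (nat_lit 5) (nat_lit 440) (nat_lit 404) (nat_lit 176)) (XT.lf (nat_lit 0) (nat_lit 40573379911) (nat_lit 532) (nat_lit 4727962762) (nat_lit 76) (nat_lit 3483353943) (nat_lit 282) (nat_lit 5) (nat_lit 289) (nat_lit 5) (nat_lit 283) (nat_lit 5) (nat_lit 441) (nat_lit 404) (nat_lit 175)))) (XT.nd (nat_lit 156) (nat_lit 380) (nat_lit 0) (XT.nd (nat_lit 78) (nat_lit 456) (nat_lit 0) (XT.lf (nat_lit 0) (nat_lit 160605990) (nat_lit 456) (nat_lit 25366950866) (nat_lit 76) (nat_lit 24104081793) (nat_lit 276) (nat_lit 5) (nat_lit 282) (nat_lit 5) (nat_lit 277) (nat_lit 5) (nat_lit 442) (nat_lit 404) (nat_lit 174)) (XT.lf (nat_lit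 0) (nat_lit 3710239282) (nat_lit 456) (nat_lit 4990836756) (nat_lit 532) (nat_lit 41798001029) (nat_lit 270) (nat_lit 5) (nat_lit 276) (nat_lit 5) (nat_lit 277) (nat_lit 5) (nat_lit 443) (nat_lit 404) (nat_lit 173))) (XT.nd (nat_lit 78) (nat_lit 380) (nat_lit 0) (XT.lf (nat_lit 0) (nat_lit 17910380256) (nat_lit 532) (nat_lit 17364894508) (nat_lit 76) (nat_lit 16104885271) (nat_lit 270) (nat_lit 5) (nat_lit 277) (nat_lit 5) (nat_lit 271) (nat_lit 5) (nat_lit 444) (nat_lit 404) (nat_lit 172)) (XT.lf (nat_lit 0) (nat_lit 13147066221) (nat_lit 380) (nat_lit 14423299456) (nat_lit 456) (nat_lit 24712077754) (nat_lit 265) (nat_lit 5) (nat_lit 270) (nat_lit 5) (nat_lit 271) (nat_lit 5) (nat_lit 445) (nat_lit 404) (nat_lit 171)))))) (XT.nd (nat_lit 624) (nat_lit 1292) (nat_lit 0) (XT.nd (nat_lit 312) (nat_lit 1140) (nat_lit 0) (XT.nd (nat_lit 156) (nat_lit 456) (nat_lit 0) (XT.nd (nat_lit 78) (nat_lit 380) (nat_lit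 0) (XT.lf (nat_lit 0) (nat_lit 37763676749) (nat_lit 456) (nat_lit 8347583432) (nat_lit 76) (nat_lit 7093229364) (nat_lit 265) (nat_lit 5) (nat_lit 271) (nat_lit 5) (nat_lit 266) (nat_lit 5) (nat_lit 446) (nat_lit 404) (nat_lit 170)) (XT.lf (nat_lit 0) (nat_lit 23681349626) (nat_lit 380) (nat_lit 24950550951) (nat_lit 456) (nat_lit 5511223063) (nat_lit 260) (nat_lit 5) (nat_lit 265) (nat_lit 5) (nat_lit 266) (nat_lit 5) (nat_lit 447) (nat_lit 404) (nat_lit 169))) (XT.nd (nat_lit 78) (nat_lit 0) (nat_lit 0) (XT.lf (nat_lit 0) (nat_lit 1720475877) (nat_lit 380) (nat_lit 3004092015) (nat_lit 456) (nat_lit 50380978461) (nat_lit 254) (nat_lit 5) (nat_lit 259) (nat_lit 5) (nat_lit 260) (nat_lit 5) (nat_lit 448) (nat_lit 404) (nat_lit 168)) (XT.lf (nat_lit 0) (nat_lit 15654420911) (nat_lit 456) (nat_lit 20842833845) (nat_lit 76) (nat_lit 19583017241) (nat_lit 254) (nat_lit 5) (nat_lit 260) (nat_lit 5) (nat_lit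 255) (nat_lit 5) (nat_lit 449) (nat_lit 404) (nat_lit 167)))) (XT.nd (nat_lit 156) (nat_lit 760) (nat_lit 0) (XT.nd (nat_lit 78) (nat_lit 0) (nat_lit 0) (XT.lf (nat_lit 0) (nat_lit 12895799669) (nat_lit 380) (nat_lit 14168807868) (nat_lit 456) (nat_lit 30015058732) (nat_lit 249) (nat_lit 5) (nat_lit 254) (nat_lit 5) (nat_lit 255) (nat_lit 5) (nat_lit 450) (nat_lit 404) (nat_lit 166)) (XT.lf (nat_lit 0) (nat_lit 39113277316) (nat_lit 456) (nat_lit 10117622181) (nat_lit 76) (nat_lit 8869257546) (nat_lit 249) (nat_lit 5) (nat_lit 255) (nat_lit 5) (nat_lit 250) (nat_lit 5) (nat_lit 451) (nat_lit 404) (nat_lit 165))) (XT.nd (nat_lit 78) (nat_lit 456) (nat_lit 0) (XT.lf (nat_lit 0) (nat_lit 25322728538) (nat_lit 304) (nat_lit 26583165352) (nat_lit 380) (nat_lit 7233894049) (nat_lit 245) (nat_lit 5) (nat_lit 249) (nat_lit 5) (nat_lit 250) (nat_lit 5) (nat_lit 452) (nat_lit 404) (nat_lit 164)) (XT.lf (nat_lit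 0) (nat_lit 1811923898) (nat_lit 380) (nat_lit 3084081273) (nat_lit 456) (nat_lit 55309616064) (nat_lit 239) (nat_lit 5) (nat_lit 244) (nat_lit 5) (nat_lit 245) (nat_lit 5) (nat_lit 453) (nat_lit 404) (nat_lit 163))))) (XT.nd (nat_lit 312) (nat_lit 684) (nat_lit 0) (XT.nd (nat_lit 156) (nat_lit 304) (nat_lit 0) (XT.nd (nat_lit 78) (nat_lit 304) (nat_lit 0) (XT.lf (nat_lit 0) (nat_lit 17791096935) (nat_lit 456) (nat_lit 22369967612) (nat_lit 76) (nat_lit 21123815610) (nat_lit 239) (nat_lit 5) (nat_lit 245) (nat_lit 5) (nat_lit 240) (nat_lit 5) (nat_lit 454) (nat_lit 404) (nat_lit 162)) (XT.lf (nat_lit 0) (nat_lit 14994838914) (nat_lit 304) (nat_lit 16251716890) (nat_lit 380) (nat_lit 31144755613) (nat_lit 235) (nat_lit 5) (nat_lit 239) (nat_lit 5) (nat_lit 240) (nat_lit 5) (nat_lit 455) (nat_lit 404) (nat_lit 161))) (XT.nd (nat_lit 78) (nat_lit 304) (nat_lit 0) (XT.lf (nat_lit 0) (nat_lit 45413164286)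 (nat_lit 380) (nat_lit 9669463446) (nat_lit 76) (nat_lit 8439083307) (nat_lit 235) (nat_lit 5) (nat_lit 240) (nat_lit 5) (nat_lit 236) (nat_lit 5) (nat_lit 456) (nat_lit 404) (nat_lit 160)) (XT.lf (nat_lit 0) (nat_lit 29604472317) (nat_lit 304) (nat_lit 30844668242) (nat_lit 380) (nat_lit 4223551004) (nat_lit 231) (nat_lit 5) (nat_lit 235) (nat_lit 5) (nat_lit 236) (nat_lit 5) (nat_lit 457) (nat_lit 404) (nat_lit 159)))) (XT.nd (nat_lit 156) (nat_lit 304) (nat_lit 0) (XT.nd (nat_lit 78) (nat_lit 0) (nat_lit 0) (XT.lf (nat_lit 0) (nat_lit 4385634252) (nat_lit 304) (nat_lit 5635360066) (nat_lit 380) (nat_lit 55830111179) (nat_lit 226) (nat_lit 5) (nat_lit 230) (nat_lit 5) (nat_lit 231) (nat_lit 5) (nat_lit 458) (nat_lit 404) (nat_lit 158)) (XT.lf (nat_lit 0) (nat_lit 25159941676) (nat_lit 380) (nat_lit 21554712938) (nat_lit 76) (nat_lit 20332404069) (nat_lit 226) (nat_lit 5) (nat_lit 231) (nat_lit 5)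 (nat_lit 227) (nat_lit 5) (nat_lit 459) (nat_lit 404) (nat_lit 157))) (XT.nd (nat_lit 78) (nat_lit 0) (nat_lit 0) (XT.lf (nat_lit 0) (nat_lit 19883946784) (nat_lit 304) (nat_lit 21114976851) (nat_lit 380) (nat_lit 27272590845) (nat_lit 222) (nat_lit 5) (nat_lit 226) (nat_lit 5) (nat_lit 227) (nat_lit 5) (nat_lit 460) (nat_lit 404) (nat_lit 156)) (XT.lf (nat_lit 0) (nat_lit 57582326461) (nat_lit 380) (nat_lit 6572847668) (nat_lit 76) (nat_lit 5369452279) (nat_lit 222) (nat_lit 5) (nat_lit 227) (nat_lit 5) (nat_lit 223) (nat_lit 5) (nat_lit 461) (nat_lit 404) (nat_lit 155))))))))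
noncomputable def xc223 : XT := (XT.nd (nat_lit 49608) (nat_lit 0) (nat_lit 6612) (XT.nd (nat_lit 1170) (nat_lit 608) (nat_lit 0) (XT.nd (nat_lit 546) (nat_lit 1292) (nat_lit 0) (XT.nd (nat_lit 234) (nat_lit 836) (nat_lit 0) (XT.nd (nat_lit 78) (nat_lit 304) (nat_lit 0) (XT.lf (nat_lit 0) (nat_lit 4342170865) (nat_lit 304) (nat_lit 33833173486) (nat_lit 76) (nat_lit 32621796965) (nat_lit 218) (nat_lit 5) (nat_lit 222) (nat_lit 5) (nat_lit 219) (nat_lit 5) (nat_lit 462) (nat_lit 404) (nat_lit 154)) (XT.nd (nat_lit 78) (nat_lit 0) (nat_lit 0) (XT.lf (nat_lit 0) (nat_lit 9908639755) (nat_lit 304) (nat_lit 11127764948) (nat_lit 380) (nat_lit 51063042030) (nat_lit 214) (nat_lit 5) (nat_lit 218) (nat_lit 5) (nat_lit 219) (nat_lit 5) (nat_lit 463) (nat_lit 404) (nat_lit 153)) (XT.lf (nat_lit 0) (nat_lit 38736316173) (nat_lit 380) (nat_lit 17940140091) (nat_lit 76) (nat_lit 16749219532) (nat_lit 214) (nat_lit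 5) (nat_lit 219) (nat_lit 5) (nat_lit 215) (nat_lit 5) (nat_lit 464) (nat_lit 404) (nat_lit 152)))) (XT.nd (nat_lit 156) (nat_lit 532) (nat_lit 0) (XT.nd (nat_lit 78) (nat_lit 76) (nat_lit 0) (XT.lf (nat_lit 0) (nat_lit 28074136367) (nat_lit 228) (nat_lit 29272148058) (nat_lit 304) (nat_lit 17434035521) (nat_lit 211) (nat_lit 5) (nat_lit 214) (nat_lit 5) (nat_lit 215) (nat_lit 5) (nat_lit 465) (nat_lit 404) (nat_lit 151)) (XT.lf (nat_lit 0) (nat_lit 514310031) (nat_lit 304) (nat_lit 340190273) (nat_lit 76) (nat_lit 75315546097) (nat_lit 210) (nat_lit 5) (nat_lit 214) (nat_lit 5) (nat_lit 211) (nat_lit 5) (nat_lit 466) (nat_lit 404) (nat_lit 150))) (XT.nd (nat_lit 78) (nat_lit 228) (nat_lit 0) (XT.lf (nat_lit 0) (nat_lit 19392350936) (nat_lit 380) (nat_lit 29678988672) (nat_lit 76) (nat_lit 28502697061) (nat_lit 206) (nat_lit 5) (nat_lit 211) (nat_lit 5) (nat_lit 207) (nat_lit 5) (nat_lit 467) (nat_lit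 404) (nat_lit 149)) (XT.lf (nat_lit 0) (nat_lit 18923516644) (nat_lit 228) (nat_lit 20106108634) (nat_lit 304) (nat_lit 39984734599) (nat_lit 203) (nat_lit 5) (nat_lit 206) (nat_lit 5) (nat_lit 207) (nat_lit 5) (nat_lit 468) (nat_lit 404) (nat_lit 148))))) (XT.nd (nat_lit 312) (nat_lit 760) (nat_lit 0) (XT.nd (nat_lit 156) (nat_lit 304) (nat_lit 0) (XT.nd (nat_lit 78) (nat_lit 228) (nat_lit 0) (XT.lf (nat_lit 0) (nat_lit 59651262411) (nat_lit 304) (nat_lit 10994429655) (nat_lit 76) (nat_lit 9840343379) (nat_lit 203) (nat_lit 5) (nat_lit 207) (nat_lit 5) (nat_lit 204) (nat_lit 5) (nat_lit 469) (nat_lit 404) (nat_lit 147)) (XT.lf (nat_lit 0) (nat_lit 40157941170) (nat_lit 228) (nat_lit 41317793185) (nat_lit 304) (nat_lit 508601356) (nat_lit 200) (nat_lit 5) (nat_lit 203) (nat_lit 5) (nat_lit 204) (nat_lit 5) (nat_lit 470) (nat_lit 404) (nat_lit 146))) (XT.nd (nat_lit 78) (nat_lit 0) (nat_lit 0) (XT.lf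 (nat_lit 0) (nat_lit 9533074760) (nat_lit 228) (nat_lit 10698524581) (nat_lit 304) (nat_lit 63284009181) (nat_lit 196) (nat_lit 5) (nat_lit 199) (nat_lit 5) (nat_lit 200) (nat_lit 5) (nat_lit 471) (nat_lit 404) (nat_lit 145)) (XT.lf (nat_lit 0) (nat_lit 42209752839) (nat_lit 304) (nat_lit 22000458841) (nat_lit 76) (nat_lit 20863677692) (nat_lit 196) (nat_lit 5) (nat_lit 200) (nat_lit 5) (nat_lit 197) (nat_lit 5) (nat_lit 472) (nat_lit 404) (nat_lit 144)))) (XT.nd (nat_lit 156) (nat_lit 456) (nat_lit 0) (XT.nd (nat_lit 78) (nat_lit 76) (nat_lit 0) (XT.lf (nat_lit 0) (nat_lit 32059287536) (nat_lit 228) (nat_lit 33201191470) (nat_lit 304) (nat_lit 21406042800) (nat_lit 193) (nat_lit 5) (nat_lit 196) (nat_lit 5) (nat_lit 197) (nat_lit 5) (nat_lit 473) (nat_lit 404) (nat_lit 143)) (XT.lf (nat_lit 0) (nat_lit 905709008) (nat_lit 304) (nat_lit 118802218) (nat_lit 76) (nat_lit 87275516554) (nat_lit 192) (nat_lit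 5) (nat_lit 196) (nat_lit 5) (nat_lit 193) (nat_lit 5) (nat_lit 474) (nat_lit 404) (nat_lit 142))) (XT.nd (nat_lit 78) (nat_lit 228) (nat_lit 0) (XT.lf (nat_lit 0) (nat_lit 24318941050) (nat_lit 304) (nat_lit 33374765001) (nat_lit 76) (nat_lit 32256603614) (nat_lit 189) (nat_lit 5) (nat_lit 193) (nat_lit 5) (nat_lit 190) (nat_lit 5) (nat_lit 475) (nat_lit 404) (nat_lit 141)) (XT.lf (nat_lit 0) (nat_lit 23775459539) (nat_lit 228) (nat_lit 24898172454) (nat_lit 304) (nat_lit 42969296154) (nat_lit 186) (nat_lit 5) (nat_lit 189) (nat_lit 5) (nat_lit 190) (nat_lit 5) (nat_lit 476) (nat_lit 404) (nat_lit 140)))))) (XT.nd (nat_lit 47814) (nat_lit 0) (nat_lit 15048) (XT.nd (nat_lit 47502) (nat_lit 0) (nat_lit 14896) (XT.nd (nat_lit 234) (nat_lit 380) (nat_lit 0) (XT.nd (nat_lit 78) (nat_lit 228) (nat_lit 0) (XT.lf (nat_lit 0) (nat_lit 74183859677) (nat_lit 304) (nat_lit 10142010709) (nat_lit 76) (nat_lit 9047707918)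 (nat_lit 186) (nat_lit 5) (nat_lit 190) (nat_lit 5) (nat_lit 187) (nat_lit 5) (nat_lit 477) (nat_lit 404) (nat_lit 139)) (XT.lf (nat_lit 0) (nat_lit 5933716983) (nat_lit 228) (nat_lit 45148675520) (nat_lit 76) (nat_lit 44050207436) (nat_lit 183) (nat_lit 5) (nat_lit 186) (nat_lit 5) (nat_lit 184) (nat_lit 5) (nat_lit 478) (nat_lit 404) (nat_lit 138))) (XT.nd (nat_lit 78) (nat_lit 152) (nat_lit 0) (XT.lf (nat_lit 0) (nat_lit 58833551717) (nat_lit 304) (nat_lit 20502530767) (nat_lit 76) (nat_lit 19428318878) (nat_lit 180) (nat_lit 5) (nat_lit 184) (nat_lit 5) (nat_lit 181) (nat_lit 5) (nat_lit 480) (nat_lit 404) (nat_lit 136)) (XT.lf (nat_lit 0) (nat_lit 43152764372) (nat_lit 152) (nat_lit 44230677070) (nat_lit 228) (nat_lit 13251862818) (nat_lit 178) (nat_lit 5) (nat_lit 180) (nat_lit 5) (nat_lit 181) (nat_lit 5) (nat_lit 481) (nat_lit 404) (nat_lit 135)))) (XT.nd (nat_lit 156) (nat_lit 0) (nat_lit 76)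 (XT.nd (nat_lit 78) (nat_lit 0) (nat_lit 0) (XT.lf (nat_lit 0) (nat_lit 7801669339) (nat_lit 1292) (nat_lit 3042915157) (nat_lit 1292) (nat_lit 3042915157) (nat_lit 374) (nat_lit 3) (nat_lit 391) (nat_lit 3) (nat_lit 391) (nat_lit 5) (nat_lit 405) (nat_lit 405) (nat_lit 210)) (XT.lf (nat_lit 76) (nat_lit 7956937856) (nat_lit 0) (nat_lit 8041864211) (nat_lit 1292) (nat_lit 12187979830) (nat_lit 375) (nat_lit 5) (nat_lit 374) (nat_lit 3) (nat_lit 391) (nat_lit 5) (nat_lit 406) (nat_lit 405) (nat_lit 209))) (XT.nd (nat_lit 78) (nat_lit 0) (nat_lit 0) (XT.lf (nat_lit 0) (nat_lit 16522695402) (nat_lit 1216) (nat_lit 6123614794) (nat_lit 1292) (nat_lit 5961110787) (nat_lit 375) (nat_lit 5) (nat_lit 391) (nat_lit 5) (nat_lit 392) (nat_lit 5) (nat_lit 407) (nat_lit 405) (nat_lit 208)) (XT.lf (nat_lit 76) (nat_lit 8490048266) (nat_lit 0) (nat_lit 8730271919) (nat_lit 1292) (nat_lit 11815618619) (nat_lit 376)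 (nat_lit 5) (nat_lit 375) (nat_lit 5) (nat_lit 392) (nat_lit 5) (nat_lit 408) (nat_lit 405) (nat_lit 207))))) (XT.nd (nat_lit 312) (nat_lit 0) (nat_lit 152) (XT.nd (nat_lit 156) (nat_lit 0) (nat_lit 76) (XT.nd (nat_lit 78) (nat_lit 0) (nat_lit 0) (XT.lf (nat_lit 0) (nat_lit 18052054662) (nat_lit 1216) (nat_lit 5864173567) (nat_lit 1292) (nat_lit 5557688500) (nat_lit 376) (nat_lit 5) (nat_lit 392) (nat_lit 5) (nat_lit 393) (nat_lit 5) (nat_lit 409) (nat_lit 405) (nat_lit 206)) (XT.lf (nat_lit 76) (nat_lit 9352215345) (nat_lit 0) (nat_lit 9729824898) (nat_lit 1292) (nat_lit 10837794779) (nat_lit 377) (nat_lit 5) (nat_lit 376) (nat_lit 5) (nat_lit 393) (nat_lit 5) (nat_lit 410) (nat_lit 405) (nat_lit 205))) (XT.nd (nat_lit 78) (nat_lit 0) (nat_lit 0) (XT.lf (nat_lit 0) (nat_lit 20246702337) (nat_lit 1216) (nat_lit 5281484041) (nat_lit 1292) (nat_lit 4847831175) (nat_lit 377) (nat_lit 5) (nat_lit 393) (nat_lit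 5) (nat_lit 394) (nat_lit 5) (nat_lit 411) (nat_lit 405) (nat_lit 204)) (XT.lf (nat_lit 76) (nat_lit 10571322528) (nat_lit 0) (nat_lit 11070064373) (nat_lit 1292) (nat_lit 9198646182) (nat_lit 378) (nat_lit 5) (nat_lit 377) (nat_lit 5) (nat_lit 394) (nat_lit 5) (nat_lit 412) (nat_lit 405) (nat_lit 203)))) (XT.nd (nat_lit 156) (nat_lit 0) (nat_lit 76) (XT.nd (nat_lit 78) (nat_lit 0) (nat_lit 0) (XT.lf (nat_lit 0) (nat_lit 23165714959) (nat_lit 1216) (nat_lit 4347594010) (nat_lit 1292) (nat_lit 3802026021) (nat_lit 378) (nat_lit 5) (nat_lit 394) (nat_lit 5) (nat_lit 395) (nat_lit 5) (nat_lit 413) (nat_lit 405) (nat_lit 202)) (XT.lf (nat_lit 76) (nat_lit 12177292809) (nat_lit 0) (nat_lit 12782426435) (nat_lit 1292) (nat_lit 6838458319) (nat_lit 379) (nat_lit 5) (nat_lit 378) (nat_lit 5) (nat_lit 395) (nat_lit 5) (nat_lit 414) (nat_lit 405) (nat_lit 201))) (XT.nd (nat_lit 78) (nat_lit 0) (nat_lit 0) (XT.lf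 (nat_lit 0) (nat_lit 26872213251) (nat_lit 1216) (nat_lit 3032503387) (nat_lit 1292) (nat_lit 2388848687) (nat_lit 379) (nat_lit 5) (nat_lit 395) (nat_lit 5) (nat_lit 396) (nat_lit 5) (nat_lit 415) (nat_lit 405) (nat_lit 200)) (XT.lf (nat_lit 76) (nat_lit 14202213695) (nat_lit 0) (nat_lit 14900379391) (nat_lit 1292) (nat_lit 3693406303) (nat_lit 380) (nat_lit 5) (nat_lit 379) (nat_lit 5) (nat_lit 396) (nat_lit 5) (nat_lit 416) (nat_lit 405) (nat_lit 199))))))) (XT.nd (nat_lit 1170) (nat_lit 4332) (nat_lit 0) (XT.nd (nat_lit 546) (nat_lit 2432) (nat_lit 0) (XT.nd (nat_lit 234) (nat_lit 684) (nat_lit 0) (XT.nd (nat_lit 78) (nat_lit 1292) (nat_lit 0) (XT.lf (nat_lit 0) (nat_lit 31433630938) (nat_lit 1216) (nat_lit 1304037877) (nat_lit 1292) (nat_lit 574825262) (nat_lit 380) (nat_lit 5) (nat_lit 396) (nat_lit 5) (nat_lit 397) (nat_lit 5) (nat_lit 417) (nat_lit 405) (nat_lit 198)) (XT.nd (nat_lit 78) (nat_lit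 0) (nat_lit 0) (XT.lf (nat_lit 0) (nat_lit 298772555) (nat_lit 1292) (nat_lit 17157778949) (nat_lit 1368) (nat_lit 16378681051) (nat_lit 363) (nat_lit 5) (nat_lit 380) (nat_lit 5) (nat_lit 381) (nat_lit 5) (nat_lit 418) (nat_lit 405) (nat_lit 197)) (XT.lf (nat_lit 76) (nat_lit 847744243) (nat_lit 0) (nat_lit 1675274455) (nat_lit 1368) (nat_lit 31849505070) (nat_lit 364) (nat_lit 5) (nat_lit 363) (nat_lit 5) (nat_lit 381) (nat_lit 5) (nat_lit 419) (nat_lit 405) (nat_lit 196)))) (XT.nd (nat_lit 156) (nat_lit 760) (nat_lit 0) (XT.nd (nat_lit 78) (nat_lit 0) (nat_lit 0) (XT.lf (nat_lit 0) (nat_lit 5126767008) (nat_lit 1292) (nat_lit 15319431479) (nat_lit 1368) (nat_lit 14470351988) (nat_lit 364) (nat_lit 5) (nat_lit 381) (nat_lit 5) (nat_lit 382) (nat_lit 5) (nat_lit 420) (nat_lit 405) (nat_lit 195)) (XT.lf (nat_lit 76) (nat_lit 3481500151) (nat_lit 0) (nat_lit 4374902069) (nat_lit 1368) (nat_lit 27619062530)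 (nat_lit 365) (nat_lit 5) (nat_lit 364) (nat_lit 5) (nat_lit 382) (nat_lit 5) (nat_lit 421) (nat_lit 405) (nat_lit 194))) (XT.nd (nat_lit 78) (nat_lit 836) (nat_lit 0) (XT.lf (nat_lit 0) (nat_lit 10938994272) (nat_lit 1292) (nat_lit 13006589395) (nat_lit 76) (nat_lit 12097430752) (nat_lit 365) (nat_lit 5) (nat_lit 382) (nat_lit 5) (nat_lit 366) (nat_lit 5) (nat_lit 422) (nat_lit 405) (nat_lit 193)) (XT.lf (nat_lit 0) (nat_lit 6634636739) (nat_lit 836) (nat_lit 7584356682) (nat_lit 912) (nat_lit 22405449278) (nat_lit 354) (nat_lit 5) (nat_lit 365) (nat_lit 5) (nat_lit 366) (nat_lit 5) (nat_lit 423) (nat_lit 405) (nat_lit 192))))) (XT.nd (nat_lit 312) (nat_lit 1216) (nat_lit 0) (XT.nd (nat_lit 156) (nat_lit 608) (nat_lit 0) (XT.nd (nat_lit 78) (nat_lit 608) (nat_lit 0) (XT.lf (nat_lit 0) (nat_lit 17817004957) (nat_lit 912) (nat_lit 10180005805) (nat_lit 76) (nat_lit 9219714692) (nat_lit 354) (nat_lit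 5) (nat_lit 366) (nat_lit 5) (nat_lit 355) (nat_lit 5) (nat_lit 424) (nat_lit 405) (nat_lit 191)) (XT.lf (nat_lit 0) (nat_lit 10349032990) (nat_lit 608) (nat_lit 11346443439) (nat_lit 684) (nat_lit 16126124675) (nat_lit 346) (nat_lit 5) (nat_lit 354) (nat_lit 5) (nat_lit 355) (nat_lit 5) (nat_lit 425) (nat_lit 405) (nat_lit 190))) (XT.nd (nat_lit 78) (nat_lit 608) (nat_lit 0) (XT.lf (nat_lit 0) (nat_lit 25847894635) (nat_lit 684) (nat_lit 6797674402) (nat_lit 76) (nat_lit 5794326209) (nat_lit 346) (nat_lit 5) (nat_lit 355) (nat_lit 5) (nat_lit 347) (nat_lit 5) (nat_lit 426) (nat_lit 405) (nat_lit 189)) (XT.lf (nat_lit 0) (nat_lit 14669483974) (nat_lit 608) (nat_lit 15706801617) (nat_lit 684) (nat_lit 8692910615) (nat_lit 338) (nat_lit 5) (nat_lit 346) (nat_lit 5) (nat_lit 347) (nat_lit 5) (nat_lit 427) (nat_lit 405) (nat_lit 188)))) (XT.nd (nat_lit 156) (nat_lit 684) (nat_lit 0) (XT.nd (nat_lit 78)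 (nat_lit 532) (nat_lit 0) (XT.lf (nat_lit 0) (nat_lit 35124664598) (nat_lit 684) (nat_lit 2814655740) (nat_lit 76) (nat_lit 1775531767) (nat_lit 338) (nat_lit 5) (nat_lit 347) (nat_lit 5) (nat_lit 339) (nat_lit 5) (nat_lit 428) (nat_lit 405) (nat_lit 187)) (XT.lf (nat_lit 0) (nat_lit 19643884059) (nat_lit 532) (nat_lit 20714094891) (nat_lit 608) (nat_lit 11624212) (nat_lit 331) (nat_lit 5) (nat_lit 338) (nat_lit 5) (nat_lit 339) (nat_lit 5) (nat_lit 429) (nat_lit 405) (nat_lit 186))) (XT.nd (nat_lit 78) (nat_lit 0) (nat_lit 0) (XT.lf (nat_lit 0) (nat_lit 1778030833) (nat_lit 608) (nat_lit 2878423082) (nat_lit 684) (nat_lit 36384867548) (nat_lit 322) (nat_lit 5) (nat_lit 330) (nat_lit 5) (nat_lit 331) (nat_lit 5) (nat_lit 430) (nat_lit 405) (nat_lit 185)) (XT.lf (nat_lit 0) (nat_lit 9822818771) (nat_lit 684) (nat_lit 16498202808) (nat_lit 76) (nat_lit 15401411940) (nat_lit 322) (nat_lit 5) (nat_lit 331)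 (nat_lit 5) (nat_lit 323) (nat_lit 5) (nat_lit 431) (nat_lit 405) (nat_lit 184)))))) (XT.nd (nat_lit 624) (nat_lit 1748) (nat_lit 0) (XT.nd (nat_lit 312) (nat_lit 1520) (nat_lit 0) (XT.nd (nat_lit 156) (nat_lit 532) (nat_lit 0) (XT.nd (nat_lit 78) (nat_lit 0) (nat_lit 0) (XT.lf (nat_lit 0) (nat_lit 7057174097) (nat_lit 532) (nat_lit 8181585238) (nat_lit 608) (nat_lit 27182382060) (nat_lit 315) (nat_lit 5) (nat_lit 322) (nat_lit 5) (nat_lit 323) (nat_lit 5) (nat_lit 432) (nat_lit 405) (nat_lit 183)) (XT.lf (nat_lit 0) (nat_lit 21084658609) (nat_lit 608) (nat_lit 11582911769) (nat_lit 76) (nat_lit 10465215713) (nat_lit 315) (nat_lit 5) (nat_lit 323) (nat_lit 5) (nat_lit 316) (nat_lit 5) (nat_lit 433) (nat_lit 405) (nat_lit 182))) (XT.nd (nat_lit 78) (nat_lit 0) (nat_lit 0) (XT.lf (nat_lit 0) (nat_lit 13084034756) (nat_lit 532) (nat_lit 14227007274) (nat_lit 608) (nat_lit 16548584884) (nat_lit 308) (nat_lit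 5) (nat_lit 315) (nat_lit 5) (nat_lit 316) (nat_lit 5) (nat_lit 434) (nat_lit 405) (nat_lit 181)) (XT.lf (nat_lit 0) (nat_lit 33886519644) (nat_lit 608) (nat_lit 5925195891) (nat_lit 76) (nat_lit 4791688345) (nat_lit 308) (nat_lit 5) (nat_lit 316) (nat_lit 5) (nat_lit 309) (nat_lit 5) (nat_lit 435) (nat_lit 405) (nat_lit 180)))) (XT.nd (nat_lit 156) (nat_lit 456) (nat_lit 0) (XT.nd (nat_lit 78) (nat_lit 608) (nat_lit 0) (XT.lf (nat_lit 0) (nat_lit 19916670887) (nat_lit 456) (nat_lit 21073309975) (nat_lit 532) (nat_lit 4369591715) (nat_lit 302) (nat_lit 5) (nat_lit 308) (nat_lit 5) (nat_lit 309) (nat_lit 5) (nat_lit 436) (nat_lit 405) (nat_lit 179)) (XT.lf (nat_lit 0) (nat_lit 505208316) (nat_lit 532) (nat_lit 1684305213) (nat_lit 608) (nat_lit 43946376515) (nat_lit 294) (nat_lit 5) (nat_lit 301) (nat_lit 5) (nat_lit 302) (nat_lit 5) (nat_lit 437) (nat_lit 405) (nat_lit 178))) (XT.nd (nat_lit 78) (nat_lit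 456) (nat_lit 0) (XT.lf (nat_lit 0) (nat_lit 9291260498) (nat_lit 608) (nat_lit 19397925377) (nat_lit 76) (nat_lit 18232002470) (nat_lit 294) (nat_lit 5) (nat_lit 302) (nat_lit 5) (nat_lit 295) (nat_lit 5) (nat_lit 438) (nat_lit 405) (nat_lit 177)) (XT.lf (nat_lit 0) (nat_lit 7754647452) (nat_lit 456) (nat_lit 8941122435) (nat_lit 532) (nat_lit 31031584407) (nat_lit 288) (nat_lit 5) (nat_lit 294) (nat_lit 5) (nat_lit 295) (nat_lit 5) (nat_lit 439) (nat_lit 405) (nat_lit 176))))) (XT.nd (nat_lit 312) (nat_lit 836) (nat_lit 0) (XT.nd (nat_lit 156) (nat_lit 456) (nat_lit 0) (XT.nd (nat_lit 78) (nat_lit 456) (nat_lit 0) (XT.lf (nat_lit 0) (nat_lit 24628327846) (nat_lit 532) (nat_lit 12545744870) (nat_lit 76) (nat_lit 11374455108) (nat_lit 288) (nat_lit 5) (nat_lit 295) (nat_lit 5) (nat_lit 289) (nat_lit 5) (nat_lit 440) (nat_lit 405) (nat_lit 175)) (XT.lf (nat_lit 0) (nat_lit 15924462314) (nat_lit 456)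 (nat_lit 17114560137) (nat_lit 532) (nat_lit 16348109310) (nat_lit 282) (nat_lit 5) (nat_lit 288) (nat_lit 5) (nat_lit 289) (nat_lit 5) (nat_lit 441) (nat_lit 405) (nat_lit 174))) (XT.nd (nat_lit 78) (nat_lit 456) (nat_lit 0) (XT.lf (nat_lit 0) (nat_lit 41862653036) (nat_lit 532) (nat_lit 4778292754) (nat_lit 76) (nat_lit 3605129573) (nat_lit 282) (nat_lit 5) (nat_lit 289) (nat_lit 5) (nat_lit 283) (nat_lit 5) (nat_lit 442) (nat_lit 405) (nat_lit 173)) (XT.lf (nat_lit 0) (nat_lit 236969157) (nat_lit 456) (nat_lit 26035923761) (nat_lit 76) (nat_lit 24845548540) (nat_lit 276) (nat_lit 5) (nat_lit 282) (nat_lit 5) (nat_lit 277) (nat_lit 5) (nat_lit 443) (nat_lit 405) (nat_lit 172)))) (XT.nd (nat_lit 156) (nat_lit 380) (nat_lit 0) (XT.nd (nat_lit 78) (nat_lit 0) (nat_lit 0) (XT.lf (nat_lit 0) (nat_lit 3912679781) (nat_lit 456) (nat_lit 5119765721) (nat_lit 532) (nat_lit 42979493762) (nat_lit 270) (nat_lit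 5) (nat_lit 276) (nat_lit 5) (nat_lit 277) (nat_lit 5) (nat_lit 444) (nat_lit 405) (nat_lit 171)) (XT.lf (nat_lit 0) (nat_lit 18516174274) (nat_lit 532) (nat_lit 17795507818) (nat_lit 76) (nat_lit 16607828266) (nat_lit 270) (nat_lit 5) (nat_lit 277) (nat_lit 5) (nat_lit 271) (nat_lit 5) (nat_lit 445) (nat_lit 405) (nat_lit 170))) (XT.nd (nat_lit 78) (nat_lit 0) (nat_lit 0) (XT.lf (nat_lit 0) (nat_lit 13630926109) (nat_lit 380) (nat_lit 14833898336) (nat_lit 456) (nat_lit 25384071854) (nat_lit 265) (nat_lit 5) (nat_lit 270) (nat_lit 5) (nat_lit 271) (nat_lit 5) (nat_lit 446) (nat_lit 405) (nat_lit 169)) (XT.lf (nat_lit 0) (nat_lit 38962179515) (nat_lit 456) (nat_lit 8509412978) (nat_lit 76) (nat_lit 7327063964) (nat_lit 265) (nat_lit 5) (nat_lit 271) (nat_lit 5) (nat_lit 266) (nat_lit 5) (nat_lit 447) (nat_lit 405) (nat_lit 168))))))))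
noncomputable def xc224 : XT := (XT.nd (nat_lit 2340) (nat_lit 456) (nat_lit 0) (XT.nd (nat_lit 1170) (nat_lit 2736) (nat_lit 0) (XT.nd (nat_lit 546) (nat_lit 1292) (nat_lit 0) (XT.nd (nat_lit 234) (nat_lit 1140) (nat_lit 0) (XT.nd (nat_lit 78) (nat_lit 456) (nat_lit 0) (XT.lf (nat_lit 0) (nat_lit 24479519465) (nat_lit 380) (nat_lit 25675863442) (nat_lit 456) (nat_lit 5610098683) (nat_lit 260) (nat_lit 5) (nat_lit 265) (nat_lit 5) (nat_lit 266) (nat_lit 5) (nat_lit 448) (nat_lit 405) (nat_lit 167)) (XT.nd (nat_lit 78) (nat_lit 0) (nat_lit 0) (XT.lf (nat_lit 0) (nat_lit 1860243592) (nat_lit 380) (nat_lit 3070174912) (nat_lit 456) (nat_lit 51826370832) (nat_lit 254) (nat_lit 5) (nat_lit 259) (nat_lit 5) (nat_lit 260) (nat_lit 5) (nat_lit 449) (nat_lit 405) (nat_lit 166)) (XT.lf (nat_lit 0) (nat_lit 16186524083) (nat_lit 456) (nat_lit 21380889967) (nat_lit 76) (nat_lit 20193391990) (nat_lit 254) (nat_lit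 5) (nat_lit 260) (nat_lit 5) (nat_lit 255) (nat_lit 5) (nat_lit 450) (nat_lit 405) (nat_lit 165)))) (XT.nd (nat_lit 156) (nat_lit 760) (nat_lit 0) (XT.nd (nat_lit 78) (nat_lit 0) (nat_lit 0) (XT.lf (nat_lit 0) (nat_lit 13369047367) (nat_lit 380) (nat_lit 14568979688) (nat_lit 456) (nat_lit 30852184763) (nat_lit 249) (nat_lit 5) (nat_lit 254) (nat_lit 5) (nat_lit 255) (nat_lit 5) (nat_lit 451) (nat_lit 405) (nat_lit 164)) (XT.lf (nat_lit 0) (nat_lit 40346598522) (nat_lit 456) (nat_lit 10335734472) (nat_lit 76) (nat_lit 9159031074) (nat_lit 249) (nat_lit 5) (nat_lit 255) (nat_lit 5) (nat_lit 250) (nat_lit 5) (nat_lit 452) (nat_lit 405) (nat_lit 163))) (XT.nd (nat_lit 78) (nat_lit 456) (nat_lit 0) (XT.lf (nat_lit 0) (nat_lit 26166989354) (nat_lit 304) (nat_lit 27355071938) (nat_lit 380) (nat_lit 7390150569) (nat_lit 245) (nat_lit 5) (nat_lit 249) (nat_lit 5) (nat_lit 250) (nat_lit 5) (nat_lit 453) (nat_lit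 405) (nat_lit 162)) (XT.lf (nat_lit 0) (nat_lit 1951205396) (nat_lit 380) (nat_lit 3150335734) (nat_lit 456) (nat_lit 56908489067) (nat_lit 239) (nat_lit 5) (nat_lit 244) (nat_lit 5) (nat_lit 245) (nat_lit 5) (nat_lit 454) (nat_lit 405) (nat_lit 161))))) (XT.nd (nat_lit 312) (nat_lit 684) (nat_lit 0) (XT.nd (nat_lit 156) (nat_lit 304) (nat_lit 0) (XT.nd (nat_lit 78) (nat_lit 304) (nat_lit 0) (XT.lf (nat_lit 0) (nat_lit 18382022375) (nat_lit 456) (nat_lit 22957153095) (nat_lit 76) (nat_lit 21782535316) (nat_lit 239) (nat_lit 5) (nat_lit 245) (nat_lit 5) (nat_lit 240) (nat_lit 5) (nat_lit 455) (nat_lit 405) (nat_lit 160)) (XT.lf (nat_lit 0) (nat_lit 15527774945) (nat_lit 304) (nat_lit 16712502983) (nat_lit 380) (nat_lit 32021083067) (nat_lit 235) (nat_lit 5) (nat_lit 239) (nat_lit 5) (nat_lit 240) (nat_lit 5) (nat_lit 456) (nat_lit 405) (nat_lit 159))) (XT.nd (nat_lit 78) (nat_lit 304) (nat_lit 0) (XT.lf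 (nat_lit 0) (nat_lit 46830493910) (nat_lit 380) (nat_lit 9877485852) (nat_lit 76) (nat_lit 8717734566) (nat_lit 235) (nat_lit 5) (nat_lit 240) (nat_lit 5) (nat_lit 236) (nat_lit 5) (nat_lit 457) (nat_lit 405) (nat_lit 158)) (XT.lf (nat_lit 0) (nat_lit 30573863459) (nat_lit 304) (nat_lit 31742867065) (nat_lit 380) (nat_lit 4294518314) (nat_lit 231) (nat_lit 5) (nat_lit 235) (nat_lit 5) (nat_lit 236) (nat_lit 5) (nat_lit 458) (nat_lit 405) (nat_lit 157)))) (XT.nd (nat_lit 156) (nat_lit 304) (nat_lit 0) (XT.nd (nat_lit 78) (nat_lit 0) (nat_lit 0) (XT.lf (nat_lit 0) (nat_lit 4598740624) (nat_lit 304) (nat_lit 5776727065) (nat_lit 380) (nat_lit 57449555667) (nat_lit 226) (nat_lit 5) (nat_lit 230) (nat_lit 5) (nat_lit 231) (nat_lit 5) (nat_lit 459) (nat_lit 405) (nat_lit 156)) (XT.lf (nat_lit 0) (nat_lit 25967273665) (nat_lit 380) (nat_lit 22120882053) (nat_lit 76) (nat_lit 20968738714) (nat_lit 226) (nat_lit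 5) (nat_lit 231) (nat_lit 5) (nat_lit 227) (nat_lit 5) (nat_lit 460) (nat_lit 405) (nat_lit 155))) (XT.nd (nat_lit 78) (nat_lit 0) (nat_lit 0) (XT.lf (nat_lit 0) (nat_lit 20560148517) (nat_lit 304) (nat_lit 21720512422) (nat_lit 380) (nat_lit 28037445888) (nat_lit 222) (nat_lit 5) (nat_lit 226) (nat_lit 5) (nat_lit 227) (nat_lit 5) (nat_lit 461) (nat_lit 405) (nat_lit 154)) (XT.lf (nat_lit 0) (nat_lit 59360318506) (nat_lit 380) (nat_lit 6691423298) (nat_lit 76) (nat_lit 5557107728) (nat_lit 222) (nat_lit 5) (nat_lit 227) (nat_lit 5) (nat_lit 223) (nat_lit 5) (nat_lit 462) (nat_lit 405) (nat_lit 153)))))) (XT.nd (nat_lit 546) (nat_lit 1292) (nat_lit 0) (XT.nd (nat_lit 234) (nat_lit 836) (nat_lit 0) (XT.nd (nat_lit 78) (nat_lit 304) (nat_lit 0) (XT.lf (nat_lit 0) (nat_lit 4522728017) (nat_lit 304) (nat_lit 34769328665) (nat_lit 76) (nat_lit 33627490112) (nat_lit 218) (nat_lit 5) (nat_lit 222) (nat_lit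 5) (nat_lit 219) (nat_lit 5) (nat_lit 463) (nat_lit 405) (nat_lit 152)) (XT.nd (nat_lit 78) (nat_lit 0) (nat_lit 0) (XT.lf (nat_lit 0) (nat_lit 10283966032) (nat_lit 304) (nat_lit 11433108451) (nat_lit 380) (nat_lit 52543868324) (nat_lit 214) (nat_lit 5) (nat_lit 218) (nat_lit 5) (nat_lit 219) (nat_lit 5) (nat_lit 464) (nat_lit 405) (nat_lit 151)) (XT.lf (nat_lit 0) (nat_lit 39946805169) (nat_lit 380) (nat_lit 18401372881) (nat_lit 76) (nat_lit 17278816034) (nat_lit 214) (nat_lit 5) (nat_lit 219) (nat_lit 5) (nat_lit 215) (nat_lit 5) (nat_lit 465) (nat_lit 405) (nat_lit 150)))) (XT.nd (nat_lit 156) (nat_lit 532) (nat_lit 0) (XT.nd (nat_lit 78) (nat_lit 76) (nat_lit 0) (XT.lf (nat_lit 0) (nat_lit 28992577248) (nat_lit 228) (nat_lit 30121818168) (nat_lit 304) (nat_lit 17907902455) (nat_lit 211) (nat_lit 5) (nat_lit 214) (nat_lit 5) (nat_lit 215) (nat_lit 5) (nat_lit 466) (nat_lit 405) (nat_lit 149)) (XT.lf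 (nat_lit 0) (nat_lit 576530554) (nat_lit 304) (nat_lit 275467860) (nat_lit 76) (nat_lit 77601745643) (nat_lit 210) (nat_lit 5) (nat_lit 214) (nat_lit 5) (nat_lit 211) (nat_lit 5) (nat_lit 467) (nat_lit 405) (nat_lit 148))) (XT.nd (nat_lit 78) (nat_lit 228) (nat_lit 0) (XT.lf (nat_lit 0) (nat_lit 20020532681) (nat_lit 380) (nat_lit 30494050206) (nat_lit 76) (nat_lit 29385282546) (nat_lit 206) (nat_lit 5) (nat_lit 211) (nat_lit 5) (nat_lit 207) (nat_lit 5) (nat_lit 468) (nat_lit 405) (nat_lit 147)) (XT.lf (nat_lit 0) (nat_lit 19565791955) (nat_lit 228) (nat_lit 20680498327) (nat_lit 304) (nat_lit 41137127105) (nat_lit 203) (nat_lit 5) (nat_lit 206) (nat_lit 5) (nat_lit 207) (nat_lit 5) (nat_lit 469) (nat_lit 405) (nat_lit 146))))) (XT.nd (nat_lit 312) (nat_lit 760) (nat_lit 0) (XT.nd (nat_lit 156) (nat_lit 304) (nat_lit 0) (XT.nd (nat_lit 78) (nat_lit 228) (nat_lit 0) (XT.lf (nat_lit 0) (nat_lit 61485511959)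 (nat_lit 304) (nat_lit 11250800101) (nat_lit 76) (nat_lit 10162963099) (nat_lit 203) (nat_lit 5) (nat_lit 207) (nat_lit 5) (nat_lit 204) (nat_lit 5) (nat_lit 470) (nat_lit 405) (nat_lit 145)) (XT.lf (nat_lit 0) (nat_lit 41435421628) (nat_lit 228) (nat_lit 42528693393) (nat_lit 304) (nat_lit 478427501) (nat_lit 200) (nat_lit 5) (nat_lit 203) (nat_lit 5) (nat_lit 204) (nat_lit 5) (nat_lit 471) (nat_lit 405) (nat_lit 144))) (XT.nd (nat_lit 78) (nat_lit 0) (nat_lit 0) (XT.lf (nat_lit 0) (nat_lit 9891973916) (nat_lit 228) (nat_lit 10990522149) (nat_lit 304) (nat_lit 65137262250) (nat_lit 196) (nat_lit 5) (nat_lit 199) (nat_lit 5) (nat_lit 200) (nat_lit 5) (nat_lit 472) (nat_lit 405) (nat_lit 143)) (XT.lf (nat_lit 0) (nat_lit 43518984364) (nat_lit 304) (nat_lit 22588679391) (nat_lit 76) (nat_lit 21517154130) (nat_lit 196) (nat_lit 5) (nat_lit 200) (nat_lit 5) (nat_lit 197) (nat_lit 5) (nat_lit 473) (nat_lit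 405) (nat_lit 142)))) (XT.nd (nat_lit 156) (nat_lit 456) (nat_lit 0) (XT.nd (nat_lit 78) (nat_lit 76) (nat_lit 0) (XT.lf (nat_lit 0) (nat_lit 33092155522) (nat_lit 228) (nat_lit 34168509499) (nat_lit 304) (nat_lit 22004581290) (nat_lit 193) (nat_lit 5) (nat_lit 196) (nat_lit 5) (nat_lit 197) (nat_lit 5) (nat_lit 474) (nat_lit 405) (nat_lit 141)) (XT.lf (nat_lit 0) (nat_lit 974425100) (nat_lit 304) (nat_lit 52520665) (nat_lit 76) (nat_lit 89920836504) (nat_lit 192) (nat_lit 5) (nat_lit 196) (nat_lit 5) (nat_lit 193) (nat_lit 5) (nat_lit 475) (nat_lit 405) (nat_lit 140))) (XT.nd (nat_lit 78) (nat_lit 228) (nat_lit 0) (XT.lf (nat_lit 0) (nat_lit 25089779579) (nat_lit 304) (nat_lit 34305887808) (nat_lit 76) (nat_lit 33251913459) (nat_lit 189) (nat_lit 5) (nat_lit 193) (nat_lit 5) (nat_lit 190) (nat_lit 5) (nat_lit 476) (nat_lit 405) (nat_lit 139)) (XT.lf (nat_lit 0) (nat_lit 24558156016) (nat_lit 228) (nat_lit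 25616420617) (nat_lit 304) (nat_lit 44216417288) (nat_lit 186) (nat_lit 5) (nat_lit 189) (nat_lit 5) (nat_lit 190) (nat_lit 5) (nat_lit 477) (nat_lit 405) (nat_lit 138))))))) (XT.nd (nat_lit 48438) (nat_lit 0) (nat_lit 10260) (XT.nd (nat_lit 47814) (nat_lit 0) (nat_lit 14896) (XT.nd (nat_lit 47502) (nat_lit 0) (nat_lit 14744) (XT.nd (nat_lit 156) (nat_lit 456) (nat_lit 0) (XT.lf (nat_lit 0) (nat_lit 76449192490) (nat_lit 304) (nat_lit 10377941993) (nat_lit 76) (nat_lit 9346456659) (nat_lit 186) (nat_lit 5) (nat_lit 190) (nat_lit 5) (nat_lit 187) (nat_lit 5) (nat_lit 478) (nat_lit 405) (nat_lit 137)) (XT.nd (nat_lit 78) (nat_lit 0) (nat_lit 0) (XT.lf (nat_lit 0) (nat_lit 15812467028) (nat_lit 228) (nat_lit 16851690383) (nat_lit 304) (nat_lit 67173808426) (nat_lit 180) (nat_lit 5) (nat_lit 183) (nat_lit 5) (nat_lit 184) (nat_lit 5) (nat_lit 480) (nat_lit 405) (nat_lit 135)) (XT.lf (nat_lit 0) (nat_lit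 60636875706) (nat_lit 304) (nat_lit 21050927953) (nat_lit 76) (nat_lit 20038380221) (nat_lit 180) (nat_lit 5) (nat_lit 184) (nat_lit 5) (nat_lit 181) (nat_lit 5) (nat_lit 481) (nat_lit 405) (nat_lit 134)))) (XT.nd (nat_lit 156) (nat_lit 0) (nat_lit 76) (XT.nd (nat_lit 78) (nat_lit 0) (nat_lit 0) (XT.lf (nat_lit 0) (nat_lit 8119829410) (nat_lit 1292) (nat_lit 3090885966) (nat_lit 1292) (nat_lit 3090885966) (nat_lit 374) (nat_lit 3) (nat_lit 391) (nat_lit 3) (nat_lit 391) (nat_lit 5) (nat_lit 406) (nat_lit 406) (nat_lit 208)) (XT.lf (nat_lit 76) (nat_lit 8281429936) (nat_lit 0) (nat_lit 8361481171) (nat_lit 1292) (nat_lit 12384549897) (nat_lit 375) (nat_lit 5) (nat_lit 374) (nat_lit 3) (nat_lit 391) (nat_lit 5) (nat_lit 407) (nat_lit 406) (nat_lit 207))) (XT.nd (nat_lit 78) (nat_lit 0) (nat_lit 0) (XT.lf (nat_lit 0) (nat_lit 17177009006) (nat_lit 1216) (nat_lit 6218525618) (nat_lit 1292) (nat_lit 6065350006)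 (nat_lit 375) (nat_lit 5) (nat_lit 391) (nat_lit 5) (nat_lit 392) (nat_lit 5) (nat_lit 408) (nat_lit 406) (nat_lit 206)) (XT.lf (nat_lit 76) (nat_lit 8832676769) (nat_lit 0) (nat_lit 9059110601) (nat_lit 1292) (nat_lit 12010583870) (nat_lit 376) (nat_lit 5) (nat_lit 375) (nat_lit 5) (nat_lit 392) (nat_lit 5) (nat_lit 409) (nat_lit 406) (nat_lit 205))))) (XT.nd (nat_lit 312) (nat_lit 0) (nat_lit 152) (XT.nd (nat_lit 156) (nat_lit 0) (nat_lit 76) (XT.nd (nat_lit 78) (nat_lit 0) (nat_lit 0) (XT.lf (nat_lit 0) (nat_lit 18743338829) (nat_lit 1216) (nat_lit 5949597649) (nat_lit 1292) (nat_lit 5660706078) (nat_lit 376) (nat_lit 5) (nat_lit 392) (nat_lit 5) (nat_lit 393) (nat_lit 5) (nat_lit 410) (nat_lit 406) (nat_lit 204)) (XT.lf (nat_lit 76) (nat_lit 9722395665) (nat_lit 0) (nat_lit 10078328885) (nat_lit 1292) (nat_lit 11012318829) (nat_lit 377) (nat_lit 5) (nat_lit 376) (nat_lit 5) (nat_lit 393) (nat_lit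 5) (nat_lit 411) (nat_lit 406) (nat_lit 203))) (XT.nd (nat_lit 78) (nat_lit 0) (nat_lit 0) (XT.lf (nat_lit 0) (nat_lit 20995539269) (nat_lit 1216) (nat_lit 5348137576) (nat_lit 1292) (nat_lit 4939378159) (nat_lit 377) (nat_lit 5) (nat_lit 393) (nat_lit 5) (nat_lit 394) (nat_lit 5) (nat_lit 412) (nat_lit 406) (nat_lit 202)) (XT.lf (nat_lit 76) (nat_lit 10979353278) (nat_lit 0) (nat_lit 11449465301) (nat_lit 1292) (nat_lit 9332269794) (nat_lit 378) (nat_lit 5) (nat_lit 377) (nat_lit 5) (nat_lit 394) (nat_lit 5) (nat_lit 413) (nat_lit 406) (nat_lit 201)))) (XT.nd (nat_lit 156) (nat_lit 0) (nat_lit 76) (XT.nd (nat_lit 78) (nat_lit 0) (nat_lit 0) (XT.lf (nat_lit 0) (nat_lit 23994410101) (nat_lit 1216) (nat_lit 4385311691) (nat_lit 1292) (nat_lit 3871061536) (nat_lit 378) (nat_lit 5) (nat_lit 394) (nat_lit 5) (nat_lit 395) (nat_lit 5) (nat_lit 414) (nat_lit 406) (nat_lit 200)) (XT.lf (nat_lit 76) (nat_lit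 12634412809) (nat_lit 0) (nat_lit 13204809290) (nat_lit 1292) (nat_lit 6908979453) (nat_lit 379) (nat_lit 5) (nat_lit 378) (nat_lit 5) (nat_lit 395) (nat_lit 5) (nat_lit 415) (nat_lit 406) (nat_lit 199))) (XT.nd (nat_lit 78) (nat_lit 0) (nat_lit 0) (XT.lf (nat_lit 0) (nat_lit 27804920668) (nat_lit 1216) (nat_lit 3030180837) (nat_lit 1292) (nat_lit 2423474549) (nat_lit 379) (nat_lit 5) (nat_lit 395) (nat_lit 5) (nat_lit 396) (nat_lit 5) (nat_lit 416) (nat_lit 406) (nat_lit 198)) (XT.lf (nat_lit 76) (nat_lit 14720663075) (nat_lit 0) (nat_lit 15378751204) (nat_lit 1292) (nat_lit 3676752790) (nat_lit 380) (nat_lit 5) (nat_lit 379) (nat_lit 5) (nat_lit 396) (nat_lit 5) (nat_lit 417) (nat_lit 406) (nat_lit 197)))))) (XT.nd (nat_lit 624) (nat_lit 2964) (nat_lit 0) (XT.nd (nat_lit 312) (nat_lit 684) (nat_lit 0) (XT.nd (nat_lit 156) (nat_lit 0) (nat_lit 0) (XT.nd (nat_lit 78) (nat_lit 1292) (nat_lit 0) (XT.lf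 (nat_lit 0) (nat_lit 32496486415) (nat_lit 1216) (nat_lit 1249569958) (nat_lit 1292) (nat_lit 562217130) (nat_lit 380) (nat_lit 5) (nat_lit 396) (nat_lit 5) (nat_lit 397) (nat_lit 5) (nat_lit 418) (nat_lit 406) (nat_lit 196)) (XT.lf (nat_lit 0) (nat_lit 426143277) (nat_lit 1292) (nat_lit 17577484260) (nat_lit 1368) (nat_lit 16843109768) (nat_lit 363) (nat_lit 5) (nat_lit 380) (nat_lit 5) (nat_lit 381) (nat_lit 5) (nat_lit 419) (nat_lit 406) (nat_lit 195))) (XT.nd (nat_lit 78) (nat_lit 0) (nat_lit 76) (XT.lf (nat_lit 76) (nat_lit 967272981) (nat_lit 0) (nat_lit 1747299573) (nat_lit 1368) (nat_lit 32685651029) (nat_lit 364) (nat_lit 5) (nat_lit 363) (nat_lit 5) (nat_lit 381) (nat_lit 5) (nat_lit 420) (nat_lit 406) (nat_lit 194)) (XT.lf (nat_lit 0) (nat_lit 5392855512) (nat_lit 1292) (nat_lit 15684080884) (nat_lit 1368) (nat_lit 14883742029) (nat_lit 364) (nat_lit 5) (nat_lit 381) (nat_lit 5) (nat_lit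 382) (nat_lit 5) (nat_lit 421) (nat_lit 406) (nat_lit 193)))) (XT.nd (nat_lit 156) (nat_lit 760) (nat_lit 0) (XT.nd (nat_lit 78) (nat_lit 0) (nat_lit 76) (XT.lf (nat_lit 76) (nat_lit 3679947974) (nat_lit 0) (nat_lit 4522064967) (nat_lit 1368) (nat_lit 28334418192) (nat_lit 365) (nat_lit 5) (nat_lit 364) (nat_lit 5) (nat_lit 382) (nat_lit 5) (nat_lit 422) (nat_lit 406) (nat_lit 192)) (XT.lf (nat_lit 0) (nat_lit 11373732704) (nat_lit 1292) (nat_lit 13302172154) (nat_lit 76) (nat_lit 12445202936) (nat_lit 365) (nat_lit 5) (nat_lit 382) (nat_lit 5) (nat_lit 366) (nat_lit 5) (nat_lit 423) (nat_lit 406) (nat_lit 191))) (XT.nd (nat_lit 78) (nat_lit 0) (nat_lit 0) (XT.lf (nat_lit 0) (nat_lit 6927363167) (nat_lit 836) (nat_lit 7822565300) (nat_lit 912) (nat_lit 22970116555) (nat_lit 354) (nat_lit 5) (nat_lit 365) (nat_lit 5) (nat_lit 366) (nat_lit 5) (nat_lit 424) (nat_lit 406) (nat_lit 190)) (XT.lf (nat_lit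 0) (nat_lit 18452740932) (nat_lit 912) (nat_lit 10391307992) (nat_lit 76) (nat_lit 9486141518) (nat_lit 354) (nat_lit 5) (nat_lit 366) (nat_lit 5) (nat_lit 355) (nat_lit 5) (nat_lit 425) (nat_lit 406) (nat_lit 189))))) (XT.nd (nat_lit 312) (nat_lit 1748) (nat_lit 0) (XT.nd (nat_lit 156) (nat_lit 608) (nat_lit 0) (XT.nd (nat_lit 78) (nat_lit 0) (nat_lit 0) (XT.lf (nat_lit 0) (nat_lit 10752679437) (nat_lit 608) (nat_lit 11692834446) (nat_lit 684) (nat_lit 16507760059) (nat_lit 346) (nat_lit 5) (nat_lit 354) (nat_lit 5) (nat_lit 355) (nat_lit 5) (nat_lit 426) (nat_lit 406) (nat_lit 188)) (XT.lf (nat_lit 0) (nat_lit 26719560122) (nat_lit 684) (nat_lit 6908198512) (nat_lit 76) (nat_lit 5962446610) (nat_lit 346) (nat_lit 5) (nat_lit 355) (nat_lit 5) (nat_lit 347) (nat_lit 5) (nat_lit 427) (nat_lit 406) (nat_lit 187))) (XT.nd (nat_lit 78) (nat_lit 0) (nat_lit 0) (XT.lf (nat_lit 0) (nat_lit 15202058869) (nat_lit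 608) (nat_lit 16179830236) (nat_lit 684) (nat_lit 8856553539) (nat_lit 338) (nat_lit 5) (nat_lit 346) (nat_lit 5) (nat_lit 347) (nat_lit 5) (nat_lit 428) (nat_lit 406) (nat_lit 186)) (XT.lf (nat_lit 0) (nat_lit 36269955416) (nat_lit 684) (nat_lit 2806534866) (nat_lit 76) (nat_lit 1827060860) (nat_lit 338) (nat_lit 5) (nat_lit 347) (nat_lit 5) (nat_lit 339) (nat_lit 5) (nat_lit 429) (nat_lit 406) (nat_lit 185)))) (XT.nd (nat_lit 156) (nat_lit 532) (nat_lit 0) (XT.nd (nat_lit 78) (nat_lit 608) (nat_lit 0) (XT.lf (nat_lit 0) (nat_lit 78914838) (nat_lit 608) (nat_lit 21253918300) (nat_lit 76) (nat_lit 20245141948) (nat_lit 330) (nat_lit 5) (nat_lit 338) (nat_lit 5) (nat_lit 331) (nat_lit 5) (nat_lit 430) (nat_lit 406) (nat_lit 184)) (XT.lf (nat_lit 0) (nat_lit 1923912796) (nat_lit 608) (nat_lit 2961138027) (nat_lit 684) (nat_lit 37384843185) (nat_lit 322) (nat_lit 5) (nat_lit 330) (nat_lit 5) (nat_lit 331)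 (nat_lit 5) (nat_lit 431) (nat_lit 406) (nat_lit 183))) (XT.nd (nat_lit 78) (nat_lit 532) (nat_lit 0) (XT.lf (nat_lit 0) (nat_lit 10203851159) (nat_lit 684) (nat_lit 16900747759) (nat_lit 76) (nat_lit 15866917173) (nat_lit 322) (nat_lit 5) (nat_lit 331) (nat_lit 5) (nat_lit 323) (nat_lit 5) (nat_lit 432) (nat_lit 406) (nat_lit 182)) (XT.lf (nat_lit 0) (nat_lit 7360384561) (nat_lit 532) (nat_lit 8420249902) (nat_lit 608) (nat_lit 27910599804) (nat_lit 315) (nat_lit 5) (nat_lit 322) (nat_lit 5) (nat_lit 323) (nat_lit 5) (nat_lit 433) (nat_lit 406) (nat_lit 181))))))))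
noncomputable def xc225 : XT := (XT.nd (nat_lit 2340) (nat_lit 3192) (nat_lit 0) (XT.nd (nat_lit 1170) (nat_lit 3268) (nat_lit 0) (XT.nd (nat_lit 546) (nat_lit 1748) (nat_lit 0) (XT.nd (nat_lit 234) (nat_lit 1520) (nat_lit 0) (XT.nd (nat_lit 78) (nat_lit 532) (nat_lit 0) (XT.lf (nat_lit 0) (nat_lit 21799506667) (nat_lit 608) (nat_lit 11839164744) (nat_lit 76) (nat_lit 10785629014) (nat_lit 315) (nat_lit 5) (nat_lit 323) (nat_lit 5) (nat_lit 316) (nat_lit 5) (nat_lit 434) (nat_lit 406) (nat_lit 180)) (XT.nd (nat_lit 78) (nat_lit 0) (nat_lit 0) (XT.lf (nat_lit 0) (nat_lit 13566895722) (nat_lit 532) (nat_lit 14644256942) (nat_lit 608) (nat_lit 16961839676) (nat_lit 308) (nat_lit 5) (nat_lit 315) (nat_lit 5) (nat_lit 316) (nat_lit 5) (nat_lit 435) (nat_lit 406) (nat_lit 179)) (XT.lf (nat_lit 0) (nat_lit 34981631035) (nat_lit 608) (nat_lit 6012979532) (nat_lit 76) (nat_lit 4944539956) (nat_lit 308) (nat_lit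 5) (nat_lit 316) (nat_lit 5) (nat_lit 309) (nat_lit 5) (nat_lit 436) (nat_lit 406) (nat_lit 178)))) (XT.nd (nat_lit 156) (nat_lit 456) (nat_lit 0) (XT.nd (nat_lit 78) (nat_lit 608) (nat_lit 0) (XT.lf (nat_lit 0) (nat_lit 20603261169) (nat_lit 456) (nat_lit 21693504441) (nat_lit 532) (nat_lit 4421281585) (nat_lit 302) (nat_lit 5) (nat_lit 308) (nat_lit 5) (nat_lit 309) (nat_lit 5) (nat_lit 437) (nat_lit 406) (nat_lit 177)) (XT.lf (nat_lit 0) (nat_lit 610115437) (nat_lit 532) (nat_lit 1721527348) (nat_lit 608) (nat_lit 45186030645) (nat_lit 294) (nat_lit 5) (nat_lit 301) (nat_lit 5) (nat_lit 302) (nat_lit 5) (nat_lit 438) (nat_lit 406) (nat_lit 176))) (XT.nd (nat_lit 78) (nat_lit 456) (nat_lit 0) (XT.lf (nat_lit 0) (nat_lit 9644339833) (nat_lit 608) (nat_lit 19890624039) (nat_lit 76) (nat_lit 18791629877) (nat_lit 294) (nat_lit 5) (nat_lit 302) (nat_lit 5) (nat_lit 295) (nat_lit 5) (nat_lit 439) (nat_lit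 406) (nat_lit 175)) (XT.lf (nat_lit 0) (nat_lit 8075651081) (nat_lit 456) (nat_lit 9194017546) (nat_lit 532) (nat_lit 31887315527) (nat_lit 288) (nat_lit 5) (nat_lit 294) (nat_lit 5) (nat_lit 295) (nat_lit 5) (nat_lit 440) (nat_lit 406) (nat_lit 174))))) (XT.nd (nat_lit 312) (nat_lit 836) (nat_lit 0) (XT.nd (nat_lit 156) (nat_lit 456) (nat_lit 0) (XT.nd (nat_lit 78) (nat_lit 456) (nat_lit 0) (XT.lf (nat_lit 0) (nat_lit 25438219513) (nat_lit 532) (nat_lit 12834342914) (nat_lit 76) (nat_lit 11730289976) (nat_lit 288) (nat_lit 5) (nat_lit 295) (nat_lit 5) (nat_lit 289) (nat_lit 5) (nat_lit 441) (nat_lit 406) (nat_lit 173)) (XT.lf (nat_lit 0) (nat_lit 16489109953) (nat_lit 456) (nat_lit 17610891293) (nat_lit 532) (nat_lit 16766650224) (nat_lit 282) (nat_lit 5) (nat_lit 288) (nat_lit 5) (nat_lit 289) (nat_lit 5) (nat_lit 442) (nat_lit 406) (nat_lit 172))) (XT.nd (nat_lit 78) (nat_lit 456) (nat_lit 0) (XT.lf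 (nat_lit 0) (nat_lit 43186467142) (nat_lit 532) (nat_lit 4835385631) (nat_lit 76) (nat_lit 3729566816) (nat_lit 282) (nat_lit 5) (nat_lit 289) (nat_lit 5) (nat_lit 283) (nat_lit 5) (nat_lit 443) (nat_lit 406) (nat_lit 171)) (XT.lf (nat_lit 0) (nat_lit 311516245) (nat_lit 456) (nat_lit 26730249066) (nat_lit 76) (nat_lit 25608206252) (nat_lit 276) (nat_lit 5) (nat_lit 282) (nat_lit 5) (nat_lit 277) (nat_lit 5) (nat_lit 444) (nat_lit 406) (nat_lit 170)))) (XT.nd (nat_lit 156) (nat_lit 380) (nat_lit 0) (XT.nd (nat_lit 78) (nat_lit 0) (nat_lit 0) (XT.lf (nat_lit 0) (nat_lit 4115962069) (nat_lit 456) (nat_lit 5253756338) (nat_lit 532) (nat_lit 44200590048) (nat_lit 270) (nat_lit 5) (nat_lit 276) (nat_lit 5) (nat_lit 277) (nat_lit 5) (nat_lit 445) (nat_lit 406) (nat_lit 169)) (XT.lf (nat_lit 0) (nat_lit 19136210929) (nat_lit 532) (nat_lit 18244225042) (nat_lit 76) (nat_lit 17124723155) (nat_lit 270) (nat_lit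 5) (nat_lit 277) (nat_lit 5) (nat_lit 271) (nat_lit 5) (nat_lit 446) (nat_lit 406) (nat_lit 168))) (XT.nd (nat_lit 78) (nat_lit 0) (nat_lit 0) (XT.lf (nat_lit 0) (nat_lit 14124167119) (nat_lit 380) (nat_lit 15258083819) (nat_lit 456) (nat_lit 26080207798) (nat_lit 265) (nat_lit 5) (nat_lit 270) (nat_lit 5) (nat_lit 271) (nat_lit 5) (nat_lit 447) (nat_lit 406) (nat_lit 167)) (XT.lf (nat_lit 0) (nat_lit 40192872089) (nat_lit 456) (nat_lit 8681183295) (nat_lit 76) (nat_lit 7566705952) (nat_lit 265) (nat_lit 5) (nat_lit 271) (nat_lit 5) (nat_lit 266) (nat_lit 5) (nat_lit 448) (nat_lit 406) (nat_lit 166)))))) (XT.nd (nat_lit 546) (nat_lit 1292) (nat_lit 0) (XT.nd (nat_lit 234) (nat_lit 1140) (nat_lit 0) (XT.nd (nat_lit 78) (nat_lit 456) (nat_lit 0) (XT.lf (nat_lit 0) (nat_lit 25296598375) (nat_lit 380) (nat_lit 26424267314) (nat_lit 456) (nat_lit 5715755710) (nat_lit 260) (nat_lit 5) (nat_lit 265) (nat_lit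 5) (nat_lit 266) (nat_lit 5) (nat_lit 449) (nat_lit 406) (nat_lit 165)) (XT.nd (nat_lit 78) (nat_lit 0) (nat_lit 0) (XT.lf (nat_lit 0) (nat_lit 1999143970) (nat_lit 380) (nat_lit 3139620283) (nat_lit 456) (nat_lit 53318915767) (nat_lit 254) (nat_lit 5) (nat_lit 259) (nat_lit 5) (nat_lit 260) (nat_lit 5) (nat_lit 450) (nat_lit 406) (nat_lit 164)) (XT.lf (nat_lit 0) (nat_lit 16731004286) (nat_lit 456) (nat_lit 21940095068) (nat_lit 76) (nat_lit 20820764333) (nat_lit 254) (nat_lit 5) (nat_lit 260) (nat_lit 5) (nat_lit 255) (nat_lit 5) (nat_lit 451) (nat_lit 406) (nat_lit 163)))) (XT.nd (nat_lit 156) (nat_lit 760) (nat_lit 0) (XT.nd (nat_lit 78) (nat_lit 0) (nat_lit 0) (XT.lf (nat_lit 0) (nat_lit 13851534292) (nat_lit 380) (nat_lit 14982585589) (nat_lit 456) (nat_lit 31718059732) (nat_lit 249) (nat_lit 5) (nat_lit 254) (nat_lit 5) (nat_lit 255) (nat_lit 5) (nat_lit 452) (nat_lit 406) (nat_lit 162)) (XT.lf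 (nat_lit 0) (nat_lit 41613479545) (nat_lit 456) (nat_lit 10565293381) (nat_lit 76) (nat_lit 9456137572) (nat_lit 249) (nat_lit 5) (nat_lit 255) (nat_lit 5) (nat_lit 250) (nat_lit 5) (nat_lit 453) (nat_lit 406) (nat_lit 161))) (XT.nd (nat_lit 78) (nat_lit 456) (nat_lit 0) (XT.lf (nat_lit 0) (nat_lit 27031722815) (nat_lit 304) (nat_lit 28151604598) (nat_lit 380) (nat_lit 7554582674) (nat_lit 245) (nat_lit 5) (nat_lit 249) (nat_lit 5) (nat_lit 250) (nat_lit 5) (nat_lit 454) (nat_lit 406) (nat_lit 160)) (XT.lf (nat_lit 0) (nat_lit 2089790368) (nat_lit 380) (nat_lit 3220085718) (nat_lit 456) (nat_lit 58558796356) (nat_lit 239) (nat_lit 5) (nat_lit 244) (nat_lit 5) (nat_lit 245) (nat_lit 5) (nat_lit 455) (nat_lit 406) (nat_lit 159))))) (XT.nd (nat_lit 312) (nat_lit 684) (nat_lit 0) (XT.nd (nat_lit 156) (nat_lit 304) (nat_lit 0) (XT.nd (nat_lit 78) (nat_lit 304) (nat_lit 0) (XT.lf (nat_lit 0) (nat_lit 18987392494)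 (nat_lit 456) (nat_lit 23566771123) (nat_lit 76) (nat_lit 22459581209) (nat_lit 239) (nat_lit 5) (nat_lit 245) (nat_lit 5) (nat_lit 240) (nat_lit 5) (nat_lit 456) (nat_lit 406) (nat_lit 158)) (XT.lf (nat_lit 0) (nat_lit 16071929302) (nat_lit 304) (nat_lit 17188649104) (nat_lit 380) (nat_lit 32927030656) (nat_lit 235) (nat_lit 5) (nat_lit 239) (nat_lit 5) (nat_lit 240) (nat_lit 5) (nat_lit 457) (nat_lit 406) (nat_lit 157))) (XT.nd (nat_lit 78) (nat_lit 304) (nat_lit 0) (XT.lf (nat_lit 0) (nat_lit 48287189947) (nat_lit 380) (nat_lit 10096459596) (nat_lit 76) (nat_lit 9003282779) (nat_lit 235) (nat_lit 5) (nat_lit 240) (nat_lit 5) (nat_lit 236) (nat_lit 5) (nat_lit 458) (nat_lit 406) (nat_lit 156)) (XT.lf (nat_lit 0) (nat_lit 31567671852) (nat_lit 304) (nat_lit 32669569869) (nat_lit 380) (nat_lit 4370814302) (nat_lit 231) (nat_lit 5) (nat_lit 235) (nat_lit 5) (nat_lit 236) (nat_lit 5) (nat_lit 459) (nat_lit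 406) (nat_lit 155)))) (XT.nd (nat_lit 156) (nat_lit 304) (nat_lit 0) (XT.nd (nat_lit 78) (nat_lit 0) (nat_lit 0) (XT.lf (nat_lit 0) (nat_lit 4813559611) (nat_lit 304) (nat_lit 5923924810) (nat_lit 380) (nat_lit 59120767054) (nat_lit 226) (nat_lit 5) (nat_lit 230) (nat_lit 5) (nat_lit 231) (nat_lit 5) (nat_lit 460) (nat_lit 406) (nat_lit 154)) (XT.lf (nat_lit 0) (nat_lit 26795809963) (nat_lit 380) (nat_lit 22708655679) (nat_lit 76) (nat_lit 21622650081) (nat_lit 226) (nat_lit 5) (nat_lit 231) (nat_lit 5) (nat_lit 227) (nat_lit 5) (nat_lit 461) (nat_lit 406) (nat_lit 153))) (XT.nd (nat_lit 78) (nat_lit 0) (nat_lit 0) (XT.lf (nat_lit 0) (nat_lit 21252062152) (nat_lit 304) (nat_lit 22345816422) (nat_lit 380) (nat_lit 28828307522) (nat_lit 222) (nat_lit 5) (nat_lit 226) (nat_lit 5) (nat_lit 227) (nat_lit 5) (nat_lit 462) (nat_lit 406) (nat_lit 152)) (XT.lf (nat_lit 0) (nat_lit 61188750129) (nat_lit 380)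 (nat_lit 6818068722) (nat_lit 76) (nat_lit 5748867506) (nat_lit 222) (nat_lit 5) (nat_lit 227) (nat_lit 5) (nat_lit 223) (nat_lit 5) (nat_lit 463) (nat_lit 406) (nat_lit 151))))))) (XT.nd (nat_lit 1248) (nat_lit 456) (nat_lit 0) (XT.nd (nat_lit 546) (nat_lit 1292) (nat_lit 0) (XT.nd (nat_lit 234) (nat_lit 836) (nat_lit 0) (XT.nd (nat_lit 78) (nat_lit 304) (nat_lit 0) (XT.lf (nat_lit 0) (nat_lit 4705814915) (nat_lit 304) (nat_lit 35738094240) (nat_lit 76) (nat_lit 34661801891) (nat_lit 218) (nat_lit 5) (nat_lit 222) (nat_lit 5) (nat_lit 219) (nat_lit 5) (nat_lit 464) (nat_lit 406) (nat_lit 150)) (XT.nd (nat_lit 78) (nat_lit 0) (nat_lit 0) (XT.lf (nat_lit 0) (nat_lit 10666070726) (nat_lit 304) (nat_lit 11749247670) (nat_lit 380) (nat_lit 54072050744) (nat_lit 214) (nat_lit 5) (nat_lit 218) (nat_lit 5) (nat_lit 219) (nat_lit 5) (nat_lit 465) (nat_lit 406) (nat_lit 149)) (XT.lf (nat_lit 0) (nat_lit 41190830504)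 (nat_lit 380) (nat_lit 18880861129) (nat_lit 76) (nat_lit 17822743638) (nat_lit 214) (nat_lit 5) (nat_lit 219) (nat_lit 5) (nat_lit 215) (nat_lit 5) (nat_lit 466) (nat_lit 406) (nat_lit 148)))) (XT.nd (nat_lit 156) (nat_lit 532) (nat_lit 0) (XT.nd (nat_lit 78) (nat_lit 76) (nat_lit 0) (XT.lf (nat_lit 0) (nat_lit 29934196201) (nat_lit 228) (nat_lit 30998614072) (nat_lit 304) (nat_lit 18398807045) (nat_lit 211) (nat_lit 5) (nat_lit 214) (nat_lit 5) (nat_lit 215) (nat_lit 5) (nat_lit 467) (nat_lit 406) (nat_lit 147)) (XT.lf (nat_lit 0) (nat_lit 637931684) (nat_lit 304) (nat_lit 213104955) (nat_lit 76) (nat_lit 79954996583) (nat_lit 210) (nat_lit 5) (nat_lit 214) (nat_lit 5) (nat_lit 211) (nat_lit 5) (nat_lit 468) (nat_lit 406) (nat_lit 146))) (XT.nd (nat_lit 78) (nat_lit 228) (nat_lit 0) (XT.lf (nat_lit 0) (nat_lit 20664895684) (nat_lit 380) (nat_lit 31337886581) (nat_lit 76) (nat_lit 30292766720) (nat_lit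 206) (nat_lit 5) (nat_lit 211) (nat_lit 5) (nat_lit 207) (nat_lit 5) (nat_lit 469) (nat_lit 406) (nat_lit 145)) (XT.lf (nat_lit 0) (nat_lit 20223054912) (nat_lit 228) (nat_lit 21273772578) (nat_lit 304) (nat_lit 42326797963) (nat_lit 203) (nat_lit 5) (nat_lit 206) (nat_lit 5) (nat_lit 207) (nat_lit 5) (nat_lit 470) (nat_lit 406) (nat_lit 144))))) (XT.nd (nat_lit 312) (nat_lit 760) (nat_lit 0) (XT.nd (nat_lit 156) (nat_lit 304) (nat_lit 0) (XT.nd (nat_lit 78) (nat_lit 228) (nat_lit 0) (XT.lf (nat_lit 0) (nat_lit 63372222360) (nat_lit 304) (nat_lit 11519078705) (nat_lit 76) (nat_lit 10493687997) (nat_lit 203) (nat_lit 5) (nat_lit 207) (nat_lit 5) (nat_lit 204) (nat_lit 5) (nat_lit 471) (nat_lit 406) (nat_lit 143)) (XT.lf (nat_lit 0) (nat_lit 42747050800) (nat_lit 228) (nat_lit 43777564292) (nat_lit 304) (nat_lit 449956408) (nat_lit 200) (nat_lit 5) (nat_lit 203) (nat_lit 5) (nat_lit 204) (nat_lit 5) (nat_lit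 472) (nat_lit 406) (nat_lit 142))) (XT.nd (nat_lit 78) (nat_lit 0) (nat_lit 0) (XT.lf (nat_lit 0) (nat_lit 10257454891) (nat_lit 228) (nat_lit 11292941962) (nat_lit 304) (nat_lit 67048711434) (nat_lit 196) (nat_lit 5) (nat_lit 199) (nat_lit 5) (nat_lit 200) (nat_lit 5) (nat_lit 473) (nat_lit 406) (nat_lit 141)) (XT.lf (nat_lit 0) (nat_lit 44865027963) (nat_lit 304) (nat_lit 23198667782) (nat_lit 76) (nat_lit 22188652454) (nat_lit 196) (nat_lit 5) (nat_lit 200) (nat_lit 5) (nat_lit 197) (nat_lit 5) (nat_lit 474) (nat_lit 406) (nat_lit 140)))) (XT.nd (nat_lit 156) (nat_lit 228) (nat_lit 0) (XT.nd (nat_lit 78) (nat_lit 304) (nat_lit 0) (XT.lf (nat_lit 0) (nat_lit 34151928727) (nat_lit 228) (nat_lit 35166495583) (nat_lit 304) (nat_lit 22623581209) (nat_lit 193) (nat_lit 5) (nat_lit 196) (nat_lit 5) (nat_lit 197) (nat_lit 5) (nat_lit 475) (nat_lit 406) (nat_lit 139)) (XT.lf (nat_lit 0) (nat_lit 11973557)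 (nat_lit 228) (nat_lit 1030959372) (nat_lit 304) (nat_lit 92632104556) (nat_lit 189) (nat_lit 5) (nat_lit 192) (nat_lit 5) (nat_lit 193) (nat_lit 5) (nat_lit 476) (nat_lit 406) (nat_lit 138))) (XT.nd (nat_lit 78) (nat_lit 228) (nat_lit 0) (XT.lf (nat_lit 0) (nat_lit 25881374181) (nat_lit 304) (nat_lit 35268969482) (nat_lit 76) (nat_lit 34275497572) (nat_lit 189) (nat_lit 5) (nat_lit 193) (nat_lit 5) (nat_lit 190) (nat_lit 5) (nat_lit 477) (nat_lit 406) (nat_lit 137)) (XT.lf (nat_lit 0) (nat_lit 25360347667) (nat_lit 228) (nat_lit 26357863550) (nat_lit 304) (nat_lit 45503360603) (nat_lit 186) (nat_lit 5) (nat_lit 189) (nat_lit 5) (nat_lit 190) (nat_lit 5) (nat_lit 478) (nat_lit 406) (nat_lit 136)))))) (XT.nd (nat_lit 47892) (nat_lit 0) (nat_lit 13908) (XT.nd (nat_lit 47580) (nat_lit 0) (nat_lit 14820) (XT.nd (nat_lit 47424) (nat_lit 0) (nat_lit 14744) (XT.nd (nat_lit 78) (nat_lit 228) (nat_lit 0) (XT.lf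 (nat_lit 0) (nat_lit 6373386229) (nat_lit 228) (nat_lit 47763207267) (nat_lit 76) (nat_lit 46787232602) (nat_lit 183) (nat_lit 5) (nat_lit 186) (nat_lit 5) (nat_lit 184) (nat_lit 5) (nat_lit 480) (nat_lit 406) (nat_lit 134)) (XT.lf (nat_lit 0) (nat_lit 16350728417) (nat_lit 228) (nat_lit 17330296100) (nat_lit 304) (nat_lit 69150972023) (nat_lit 180) (nat_lit 5) (nat_lit 183) (nat_lit 5) (nat_lit 184) (nat_lit 5) (nat_lit 481) (nat_lit 406) (nat_lit 133))) (XT.nd (nat_lit 78) (nat_lit 0) (nat_lit 0) (XT.lf (nat_lit 0) (nat_lit 8442706026) (nat_lit 1292) (nat_lit 3142782452) (nat_lit 1292) (nat_lit 3142782452) (nat_lit 374) (nat_lit 3) (nat_lit 391) (nat_lit 3) (nat_lit 391) (nat_lit 5) (nat_lit 407) (nat_lit 407) (nat_lit 206)) (XT.lf (nat_lit 76) (nat_lit 8610732430) (nat_lit 0) (nat_lit 8686188397) (nat_lit 1292) (nat_lit 12596722336) (nat_lit 375) (nat_lit 5) (nat_lit 374) (nat_lit 3) (nat_lit 391)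 (nat_lit 5) (nat_lit 408) (nat_lit 407) (nat_lit 205)))) (XT.nd (nat_lit 156) (nat_lit 0) (nat_lit 76) (XT.nd (nat_lit 78) (nat_lit 0) (nat_lit 0) (XT.lf (nat_lit 0) (nat_lit 17841845851) (nat_lit 1216) (nat_lit 6321381114) (nat_lit 1292) (nat_lit 6176998408) (nat_lit 375) (nat_lit 5) (nat_lit 391) (nat_lit 5) (nat_lit 392) (nat_lit 5) (nat_lit 409) (nat_lit 407) (nat_lit 204)) (XT.lf (nat_lit 76) (nat_lit 9180536754) (nat_lit 0) (nat_lit 9393972358) (nat_lit 1292) (nat_lit 12220554222) (nat_lit 376) (nat_lit 5) (nat_lit 375) (nat_lit 5) (nat_lit 392) (nat_lit 5) (nat_lit 410) (nat_lit 407) (nat_lit 203))) (XT.nd (nat_lit 78) (nat_lit 0) (nat_lit 0) (XT.lf (nat_lit 0) (nat_lit 19446766836) (nat_lit 1216) (nat_lit 6042779587) (nat_lit 1292) (nat_lit 5770471574) (nat_lit 376) (nat_lit 5) (nat_lit 392) (nat_lit 5) (nat_lit 393) (nat_lit 5) (nat_lit 411) (nat_lit 407) (nat_lit 202)) (XT.lf (nat_lit 76)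 (nat_lit 10098537192) (nat_lit 0) (nat_lit 10434038389) (nat_lit 1292) (nat_lit 11200724220) (nat_lit 377) (nat_lit 5) (nat_lit 376) (nat_lit 5) (nat_lit 393) (nat_lit 5) (nat_lit 412) (nat_lit 407) (nat_lit 201))))) (XT.nd (nat_lit 312) (nat_lit 1064) (nat_lit 0) (XT.nd (nat_lit 156) (nat_lit 0) (nat_lit 76) (XT.nd (nat_lit 78) (nat_lit 0) (nat_lit 0) (XT.lf (nat_lit 0) (nat_lit 21758722311) (nat_lit 1216) (nat_lit 5422059896) (nat_lit 1292) (nat_lit 5036764941) (nat_lit 377) (nat_lit 5) (nat_lit 393) (nat_lit 5) (nat_lit 394) (nat_lit 5) (nat_lit 413) (nat_lit 407) (nat_lit 200)) (XT.lf (nat_lit 76) (nat_lit 11394407431) (nat_lit 0) (nat_lit 11837533101) (nat_lit 1292) (nat_lit 9478072771) (nat_lit 378) (nat_lit 5) (nat_lit 377) (nat_lit 5) (nat_lit 394) (nat_lit 5) (nat_lit 414) (nat_lit 407) (nat_lit 199))) (XT.nd (nat_lit 78) (nat_lit 0) (nat_lit 0) (XT.lf (nat_lit 0) (nat_lit 24840289811) (nat_lit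 1216) (nat_lit 4429482844) (nat_lit 1292) (nat_lit 3944752752) (nat_lit 378) (nat_lit 5) (nat_lit 394) (nat_lit 5) (nat_lit 395) (nat_lit 5) (nat_lit 415) (nat_lit 407) (nat_lit 198)) (XT.lf (nat_lit 76) (nat_lit 13099976644) (nat_lit 0) (nat_lit 13637630033) (nat_lit 1292) (nat_lit 6989344683) (nat_lit 379) (nat_lit 5) (nat_lit 378) (nat_lit 5) (nat_lit 395) (nat_lit 5) (nat_lit 416) (nat_lit 407) (nat_lit 197)))) (XT.nd (nat_lit 156) (nat_lit 1216) (nat_lit 0) (XT.nd (nat_lit 78) (nat_lit 0) (nat_lit 0) (XT.lf (nat_lit 0) (nat_lit 28758345336) (nat_lit 1216) (nat_lit 3033144277) (nat_lit 1292) (nat_lit 2461265412) (nat_lit 379) (nat_lit 5) (nat_lit 395) (nat_lit 5) (nat_lit 396) (nat_lit 5) (nat_lit 417) (nat_lit 407) (nat_lit 196)) (XT.lf (nat_lit 76) (nat_lit 15249362776) (nat_lit 0) (nat_lit 15869673955) (nat_lit 1292) (nat_lit 3666916149) (nat_lit 380) (nat_lit 5) (nat_lit 379) (nat_lit 5) (nat_lit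 396) (nat_lit 5) (nat_lit 418) (nat_lit 407) (nat_lit 195))) (XT.nd (nat_lit 78) (nat_lit 1292) (nat_lit 0) (XT.lf (nat_lit 0) (nat_lit 33584347874) (nat_lit 1216) (nat_lit 1198840396) (nat_lit 1292) (nat_lit 550944433) (nat_lit 380) (nat_lit 5) (nat_lit 396) (nat_lit 5) (nat_lit 397) (nat_lit 5) (nat_lit 419) (nat_lit 407) (nat_lit 194)) (XT.lf (nat_lit 0) (nat_lit 550538044) (nat_lit 1292) (nat_lit 18015235729) (nat_lit 1368) (nat_lit 17323017337) (nat_lit 363) (nat_lit 5) (nat_lit 380) (nat_lit 5) (nat_lit 381) (nat_lit 5) (nat_lit 420) (nat_lit 407) (nat_lit 193))))))))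
noncomputable def xc226 : XT := (XT.nd (nat_lit 2340) (nat_lit 5624) (nat_lit 0) (XT.nd (nat_lit 1170) (nat_lit 4180) (nat_lit 0) (XT.nd (nat_lit 546) (nat_lit 2356) (nat_lit 0) (XT.nd (nat_lit 234) (nat_lit 1292) (nat_lit 0) (XT.nd (nat_lit 78) (nat_lit 0) (nat_lit 76) (XT.lf (nat_lit 76) (nat_lit 1084986062) (nat_lit 0) (nat_lit 1820235937) (nat_lit 1368) (nat_lit 33553731924) (nat_lit 364) (nat_lit 5) (nat_lit 363) (nat_lit 5) (nat_lit 381) (nat_lit 5) (nat_lit 421) (nat_lit 407) (nat_lit 192)) (XT.nd (nat_lit 78) (nat_lit 0) (nat_lit 0) (XT.lf (nat_lit 0) (nat_lit 5660481024) (nat_lit 1292) (nat_lit 16065119344) (nat_lit 1368) (nat_lit 15310723214) (nat_lit 364) (nat_lit 5) (nat_lit 381) (nat_lit 5) (nat_lit 382) (nat_lit 5) (nat_lit 422) (nat_lit 407) (nat_lit 191)) (XT.lf (nat_lit 76) (nat_lit 3878953085) (nat_lit 0) (nat_lit 4672729119) (nat_lit 1368) (nat_lit 29077733597) (nat_lit 365) (nat_lit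 5) (nat_lit 364) (nat_lit 5) (nat_lit 382) (nat_lit 5) (nat_lit 423) (nat_lit 407) (nat_lit 190)))) (XT.nd (nat_lit 156) (nat_lit 608) (nat_lit 0) (XT.nd (nat_lit 78) (nat_lit 836) (nat_lit 0) (XT.lf (nat_lit 0) (nat_lit 11815395815) (nat_lit 1292) (nat_lit 13612053679) (nat_lit 76) (nat_lit 12804278000) (nat_lit 365) (nat_lit 5) (nat_lit 382) (nat_lit 5) (nat_lit 366) (nat_lit 5) (nat_lit 424) (nat_lit 407) (nat_lit 189)) (XT.lf (nat_lit 0) (nat_lit 7223493352) (nat_lit 836) (nat_lit 8067307221) (nat_lit 912) (nat_lit 23557894572) (nat_lit 354) (nat_lit 5) (nat_lit 365) (nat_lit 5) (nat_lit 366) (nat_lit 5) (nat_lit 425) (nat_lit 407) (nat_lit 188))) (XT.nd (nat_lit 78) (nat_lit 608) (nat_lit 0) (XT.lf (nat_lit 0) (nat_lit 19101738210) (nat_lit 912) (nat_lit 10614350855) (nat_lit 76) (nat_lit 9761144639) (nat_lit 354) (nat_lit 5) (nat_lit 366) (nat_lit 5) (nat_lit 355) (nat_lit 5) (nat_lit 426) (nat_lit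 407) (nat_lit 187)) (XT.lf (nat_lit 0) (nat_lit 11163086625) (nat_lit 608) (nat_lit 12049272890) (nat_lit 684) (nat_lit 16906708239) (nat_lit 346) (nat_lit 5) (nat_lit 354) (nat_lit 5) (nat_lit 355) (nat_lit 5) (nat_lit 427) (nat_lit 407) (nat_lit 186))))) (XT.nd (nat_lit 312) (nat_lit 1140) (nat_lit 0) (XT.nd (nat_lit 156) (nat_lit 608) (nat_lit 0) (XT.nd (nat_lit 78) (nat_lit 608) (nat_lit 0) (XT.lf (nat_lit 0) (nat_lit 27611851655) (nat_lit 684) (nat_lit 7027400239) (nat_lit 76) (nat_lit 6135938365) (nat_lit 346) (nat_lit 5) (nat_lit 355) (nat_lit 5) (nat_lit 347) (nat_lit 5) (nat_lit 428) (nat_lit 407) (nat_lit 185)) (XT.lf (nat_lit 0) (nat_lit 15745301685) (nat_lit 608) (nat_lit 16666944975) (nat_lit 684) (nat_lit 9030682237) (nat_lit 338) (nat_lit 5) (nat_lit 346) (nat_lit 5) (nat_lit 347) (nat_lit 5) (nat_lit 429) (nat_lit 407) (nat_lit 184))) (XT.nd (nat_lit 78) (nat_lit 608) (nat_lit 0) (XT.lf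 (nat_lit 0) (nat_lit 37444349564) (nat_lit 684) (nat_lit 2803483719) (nat_lit 76) (nat_lit 1880235528) (nat_lit 338) (nat_lit 5) (nat_lit 347) (nat_lit 5) (nat_lit 339) (nat_lit 5) (nat_lit 430) (nat_lit 407) (nat_lit 183)) (XT.lf (nat_lit 0) (nat_lit 166732506) (nat_lit 608) (nat_lit 21803443394) (nat_lit 76) (nat_lit 20852574931) (nat_lit 330) (nat_lit 5) (nat_lit 338) (nat_lit 5) (nat_lit 331) (nat_lit 5) (nat_lit 431) (nat_lit 407) (nat_lit 182)))) (XT.nd (nat_lit 156) (nat_lit 532) (nat_lit 0) (XT.nd (nat_lit 78) (nat_lit 0) (nat_lit 0) (XT.lf (nat_lit 0) (nat_lit 2068858983) (nat_lit 608) (nat_lit 3046543243) (nat_lit 684) (nat_lit 38420074606) (nat_lit 322) (nat_lit 5) (nat_lit 330) (nat_lit 5) (nat_lit 331) (nat_lit 5) (nat_lit 432) (nat_lit 407) (nat_lit 181)) (XT.lf (nat_lit 0) (nat_lit 10591357799) (nat_lit 684) (nat_lit 17320673261) (nat_lit 76) (nat_lit 16346188780) (nat_lit 322) (nat_lit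 5) (nat_lit 331) (nat_lit 5) (nat_lit 323) (nat_lit 5) (nat_lit 433) (nat_lit 407) (nat_lit 180))) (XT.nd (nat_lit 78) (nat_lit 0) (nat_lit 0) (XT.lf (nat_lit 0) (nat_lit 7667439137) (nat_lit 532) (nat_lit 8666463871) (nat_lit 608) (nat_lit 28665672800) (nat_lit 315) (nat_lit 5) (nat_lit 322) (nat_lit 5) (nat_lit 323) (nat_lit 5) (nat_lit 434) (nat_lit 407) (nat_lit 179)) (XT.lf (nat_lit 0) (nat_lit 22531075334) (nat_lit 608) (nat_lit 12108342535) (nat_lit 76) (nat_lit 11115284065) (nat_lit 315) (nat_lit 5) (nat_lit 323) (nat_lit 5) (nat_lit 316) (nat_lit 5) (nat_lit 435) (nat_lit 407) (nat_lit 178)))))) (XT.nd (nat_lit 546) (nat_lit 2128) (nat_lit 0) (XT.nd (nat_lit 234) (nat_lit 1064) (nat_lit 0) (XT.nd (nat_lit 78) (nat_lit 456) (nat_lit 0) (XT.lf (nat_lit 0) (nat_lit 14059056636) (nat_lit 532) (nat_lit 15074572914) (nat_lit 608) (nat_lit 17392268290) (nat_lit 308) (nat_lit 5) (nat_lit 315) (nat_lit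 5) (nat_lit 316) (nat_lit 5) (nat_lit 436) (nat_lit 407) (nat_lit 177)) (XT.nd (nat_lit 78) (nat_lit 456) (nat_lit 0) (XT.lf (nat_lit 0) (nat_lit 36105088639) (nat_lit 608) (nat_lit 6108561456) (nat_lit 76) (nat_lit 5101454684) (nat_lit 308) (nat_lit 5) (nat_lit 316) (nat_lit 5) (nat_lit 309) (nat_lit 5) (nat_lit 437) (nat_lit 407) (nat_lit 176)) (XT.lf (nat_lit 0) (nat_lit 21305335020) (nat_lit 456) (nat_lit 22332993868) (nat_lit 532) (nat_lit 4479079914) (nat_lit 302) (nat_lit 5) (nat_lit 308) (nat_lit 5) (nat_lit 309) (nat_lit 5) (nat_lit 438) (nat_lit 407) (nat_lit 175)))) (XT.nd (nat_lit 156) (nat_lit 456) (nat_lit 0) (XT.nd (nat_lit 78) (nat_lit 0) (nat_lit 0) (XT.lf (nat_lit 0) (nat_lit 713017704) (nat_lit 532) (nat_lit 1760630025) (nat_lit 608) (nat_lit 46467394234) (nat_lit 294) (nat_lit 5) (nat_lit 301) (nat_lit 5) (nat_lit 302) (nat_lit 5) (nat_lit 439) (nat_lit 407) (nat_lit 174)) (XT.lf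 (nat_lit 0) (nat_lit 10003744040) (nat_lit 608) (nat_lit 20403226352) (nat_lit 76) (nat_lit 19367318950) (nat_lit 294) (nat_lit 5) (nat_lit 302) (nat_lit 5) (nat_lit 295) (nat_lit 5) (nat_lit 440) (nat_lit 407) (nat_lit 173))) (XT.nd (nat_lit 78) (nat_lit 0) (nat_lit 0) (XT.lf (nat_lit 0) (nat_lit 8401212352) (nat_lit 456) (nat_lit 9455380007) (nat_lit 532) (nat_lit 32773036310) (nat_lit 288) (nat_lit 5) (nat_lit 294) (nat_lit 5) (nat_lit 295) (nat_lit 5) (nat_lit 441) (nat_lit 407) (nat_lit 172)) (XT.lf (nat_lit 0) (nat_lit 26268329839) (nat_lit 532) (nat_lit 13136637503) (nat_lit 76) (nat_lit 12095961720) (nat_lit 288) (nat_lit 5) (nat_lit 295) (nat_lit 5) (nat_lit 289) (nat_lit 5) (nat_lit 442) (nat_lit 407) (nat_lit 171))))) (XT.nd (nat_lit 312) (nat_lit 760) (nat_lit 0) (XT.nd (nat_lit 156) (nat_lit 912) (nat_lit 0) (XT.nd (nat_lit 78) (nat_lit 0) (nat_lit 0) (XT.lf (nat_lit 0) (nat_lit 17065707816)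 (nat_lit 456) (nat_lit 18123094317) (nat_lit 532) (nat_lit 17201874856) (nat_lit 282) (nat_lit 5) (nat_lit 288) (nat_lit 5) (nat_lit 289) (nat_lit 5) (nat_lit 443) (nat_lit 407) (nat_lit 170)) (XT.lf (nat_lit 0) (nat_lit 44546095953) (nat_lit 532) (nat_lit 4899142735) (nat_lit 76) (nat_lit 3856802444) (nat_lit 282) (nat_lit 5) (nat_lit 289) (nat_lit 5) (nat_lit 283) (nat_lit 5) (nat_lit 444) (nat_lit 407) (nat_lit 169))) (XT.nd (nat_lit 78) (nat_lit 456) (nat_lit 0) (XT.lf (nat_lit 0) (nat_lit 384428527) (nat_lit 456) (nat_lit 27450384072) (nat_lit 76) (nat_lit 26392751106) (nat_lit 276) (nat_lit 5) (nat_lit 282) (nat_lit 5) (nat_lit 277) (nat_lit 5) (nat_lit 445) (nat_lit 407) (nat_lit 168)) (XT.lf (nat_lit 0) (nat_lit 4320411706) (nat_lit 456) (nat_lit 5392891929) (nat_lit 532) (nat_lit 45462239263) (nat_lit 270) (nat_lit 5) (nat_lit 276) (nat_lit 5) (nat_lit 277) (nat_lit 5) (nat_lit 446) (nat_lit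 407) (nat_lit 167)))) (XT.nd (nat_lit 156) (nat_lit 380) (nat_lit 0) (XT.nd (nat_lit 78) (nat_lit 380) (nat_lit 0) (XT.lf (nat_lit 0) (nat_lit 19771143169) (nat_lit 532) (nat_lit 18711291626) (nat_lit 76) (nat_lit 17656053727) (nat_lit 270) (nat_lit 5) (nat_lit 277) (nat_lit 5) (nat_lit 271) (nat_lit 5) (nat_lit 447) (nat_lit 407) (nat_lit 166)) (XT.lf (nat_lit 0) (nat_lit 14627365435) (nat_lit 380) (nat_lit 15696190678) (nat_lit 456) (nat_lit 26800981256) (nat_lit 265) (nat_lit 5) (nat_lit 270) (nat_lit 5) (nat_lit 271) (nat_lit 5) (nat_lit 448) (nat_lit 407) (nat_lit 165))) (XT.nd (nat_lit 78) (nat_lit 380) (nat_lit 0) (XT.lf (nat_lit 0) (nat_lit 41456936306) (nat_lit 456) (nat_lit 8862900656) (nat_lit 76) (nat_lit 7812398871) (nat_lit 265) (nat_lit 5) (nat_lit 271) (nat_lit 5) (nat_lit 266) (nat_lit 5) (nat_lit 449) (nat_lit 407) (nat_lit 164)) (XT.lf (nat_lit 0) (nat_lit 26133442717) (nat_lit 380)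 (nat_lit 27196378846) (nat_lit 456) (nat_lit 5828178580) (nat_lit 260) (nat_lit 5) (nat_lit 265) (nat_lit 5) (nat_lit 266) (nat_lit 5) (nat_lit 450) (nat_lit 407) (nat_lit 163))))))) (XT.nd (nat_lit 1170) (nat_lit 2432) (nat_lit 0) (XT.nd (nat_lit 546) (nat_lit 1596) (nat_lit 0) (XT.nd (nat_lit 234) (nat_lit 760) (nat_lit 0) (XT.nd (nat_lit 78) (nat_lit 380) (nat_lit 0) (XT.lf (nat_lit 0) (nat_lit 2137441478) (nat_lit 380) (nat_lit 3212449785) (nat_lit 456) (nat_lit 54859810236) (nat_lit 254) (nat_lit 5) (nat_lit 259) (nat_lit 5) (nat_lit 260) (nat_lit 5) (nat_lit 451) (nat_lit 407) (nat_lit 162)) (XT.nd (nat_lit 78) (nat_lit 380) (nat_lit 0) (XT.lf (nat_lit 0) (nat_lit 17288438685) (nat_lit 456) (nat_lit 22520796178) (nat_lit 76) (nat_lit 21465719606) (nat_lit 254) (nat_lit 5) (nat_lit 260) (nat_lit 5) (nat_lit 255) (nat_lit 5) (nat_lit 452) (nat_lit 407) (nat_lit 161)) (XT.lf (nat_lit 0) (nat_lit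 14343822241) (nat_lit 380) (nat_lit 15409946567) (nat_lit 456) (nat_lit 32613337433) (nat_lit 249) (nat_lit 5) (nat_lit 254) (nat_lit 5) (nat_lit 255) (nat_lit 5) (nat_lit 453) (nat_lit 407) (nat_lit 160)))) (XT.nd (nat_lit 156) (nat_lit 456) (nat_lit 0) (XT.nd (nat_lit 78) (nat_lit 304) (nat_lit 0) (XT.lf (nat_lit 0) (nat_lit 42915124639) (nat_lit 456) (nat_lit 10806360840) (nat_lit 76) (nat_lit 9760875112) (nat_lit 249) (nat_lit 5) (nat_lit 255) (nat_lit 5) (nat_lit 250) (nat_lit 5) (nat_lit 454) (nat_lit 407) (nat_lit 159)) (XT.lf (nat_lit 0) (nat_lit 27917821809) (nat_lit 304) (nat_lit 28973417797) (nat_lit 380) (nat_lit 7727235413) (nat_lit 245) (nat_lit 5) (nat_lit 249) (nat_lit 5) (nat_lit 250) (nat_lit 5) (nat_lit 455) (nat_lit 407) (nat_lit 158))) (XT.nd (nat_lit 78) (nat_lit 0) (nat_lit 0) (XT.lf (nat_lit 0) (nat_lit 2227937759) (nat_lit 380) (nat_lit 3293349533) (nat_lit 456) (nat_lit 60261881876)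 (nat_lit 239) (nat_lit 5) (nat_lit 244) (nat_lit 5) (nat_lit 245) (nat_lit 5) (nat_lit 456) (nat_lit 407) (nat_lit 157)) (XT.lf (nat_lit 0) (nat_lit 19607829093) (nat_lit 456) (nat_lit 24199218158) (nat_lit 76) (nat_lit 23155585475) (nat_lit 239) (nat_lit 5) (nat_lit 245) (nat_lit 5) (nat_lit 240) (nat_lit 5) (nat_lit 457) (nat_lit 407) (nat_lit 156))))) (XT.nd (nat_lit 312) (nat_lit 608) (nat_lit 0) (XT.nd (nat_lit 156) (nat_lit 684) (nat_lit 0) (XT.nd (nat_lit 78) (nat_lit 0) (nat_lit 0) (XT.lf (nat_lit 0) (nat_lit 16627912337) (nat_lit 304) (nat_lit 17680527854) (nat_lit 380) (nat_lit 33863295809) (nat_lit 235) (nat_lit 5) (nat_lit 239) (nat_lit 5) (nat_lit 240) (nat_lit 5) (nat_lit 458) (nat_lit 407) (nat_lit 155)) (XT.lf (nat_lit 0) (nat_lit 49784614410) (nat_lit 380) (nat_lit 10326442807) (nat_lit 76) (nat_lit 9296018811) (nat_lit 235) (nat_lit 5) (nat_lit 240) (nat_lit 5) (nat_lit 236) (nat_lit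 5) (nat_lit 459) (nat_lit 407) (nat_lit 154))) (XT.nd (nat_lit 78) (nat_lit 380) (nat_lit 0) (XT.lf (nat_lit 0) (nat_lit 32586897776) (nat_lit 304) (nat_lit 33625542338) (nat_lit 380) (nat_lit 4452415156) (nat_lit 231) (nat_lit 5) (nat_lit 235) (nat_lit 5) (nat_lit 236) (nat_lit 5) (nat_lit 460) (nat_lit 407) (nat_lit 153)) (XT.lf (nat_lit 0) (nat_lit 5030411274) (nat_lit 304) (nat_lit 6077036969) (nat_lit 380) (nat_lit 60845115598) (nat_lit 226) (nat_lit 5) (nat_lit 230) (nat_lit 5) (nat_lit 231) (nat_lit 5) (nat_lit 461) (nat_lit 407) (nat_lit 152)))) (XT.nd (nat_lit 156) (nat_lit 304) (nat_lit 0) (XT.nd (nat_lit 78) (nat_lit 304) (nat_lit 0) (XT.lf (nat_lit 0) (nat_lit 27646359808) (nat_lit 380) (nat_lit 23318416777) (nat_lit 76) (nat_lit 22294752343) (nat_lit 226) (nat_lit 5) (nat_lit 231) (nat_lit 5) (nat_lit 227) (nat_lit 5) (nat_lit 462) (nat_lit 407) (nat_lit 151)) (XT.lf (nat_lit 0) (nat_lit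 21960421623) (nat_lit 304) (nat_lit 22991389924) (nat_lit 380) (nat_lit 29645780235) (nat_lit 222) (nat_lit 5) (nat_lit 226) (nat_lit 5) (nat_lit 227) (nat_lit 5) (nat_lit 463) (nat_lit 407) (nat_lit 150))) (XT.nd (nat_lit 78) (nat_lit 304) (nat_lit 0) (XT.lf (nat_lit 0) (nat_lit 63069300998) (nat_lit 380) (nat_lit 6952766995) (nat_lit 76) (nat_lit 5944942303) (nat_lit 222) (nat_lit 5) (nat_lit 227) (nat_lit 5) (nat_lit 223) (nat_lit 5) (nat_lit 464) (nat_lit 407) (nat_lit 149)) (XT.lf (nat_lit 0) (nat_lit 4891673175) (nat_lit 304) (nat_lit 36740188726) (nat_lit 76) (nat_lit 35725679961) (nat_lit 218) (nat_lit 5) (nat_lit 222) (nat_lit 5) (nat_lit 219) (nat_lit 5) (nat_lit 465) (nat_lit 407) (nat_lit 148)))))) (XT.nd (nat_lit 624) (nat_lit 1064) (nat_lit 0) (XT.nd (nat_lit 312) (nat_lit 760) (nat_lit 0) (XT.nd (nat_lit 156) (nat_lit 304) (nat_lit 0) (XT.nd (nat_lit 78) (nat_lit 0) (nat_lit 0) (XT.lf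 (nat_lit 0) (nat_lit 11055414440) (nat_lit 304) (nat_lit 12076412597) (nat_lit 380) (nat_lit 55648841705) (nat_lit 214) (nat_lit 5) (nat_lit 218) (nat_lit 5) (nat_lit 219) (nat_lit 5) (nat_lit 466) (nat_lit 407) (nat_lit 147)) (XT.lf (nat_lit 0) (nat_lit 42469557758) (nat_lit 380) (nat_lit 19378898860) (nat_lit 76) (nat_lit 18381521641) (nat_lit 214) (nat_lit 5) (nat_lit 219) (nat_lit 5) (nat_lit 215) (nat_lit 5) (nat_lit 467) (nat_lit 407) (nat_lit 146))) (XT.nd (nat_lit 78) (nat_lit 76) (nat_lit 0) (XT.lf (nat_lit 0) (nat_lit 30899939718) (nat_lit 228) (nat_lit 31903255649) (nat_lit 304) (nat_lit 18907098446) (nat_lit 211) (nat_lit 5) (nat_lit 214) (nat_lit 5) (nat_lit 215) (nat_lit 5) (nat_lit 468) (nat_lit 407) (nat_lit 145)) (XT.lf (nat_lit 0) (nat_lit 698643029) (nat_lit 304) (nat_lit 152925439) (nat_lit 76) (nat_lit 82377398550) (nat_lit 210) (nat_lit 5) (nat_lit 214) (nat_lit 5) (nat_lit 211)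 (nat_lit 5) (nat_lit 469) (nat_lit 407) (nat_lit 144)))) (XT.nd (nat_lit 156) (nat_lit 228) (nat_lit 0) (XT.nd (nat_lit 78) (nat_lit 228) (nat_lit 0) (XT.lf (nat_lit 0) (nat_lit 21326078319) (nat_lit 380) (nat_lit 32211112883) (nat_lit 76) (nat_lit 31225987178) (nat_lit 206) (nat_lit 5) (nat_lit 211) (nat_lit 5) (nat_lit 207) (nat_lit 5) (nat_lit 470) (nat_lit 407) (nat_lit 143)) (XT.lf (nat_lit 0) (nat_lit 20896000871) (nat_lit 228) (nat_lit 21886403044) (nat_lit 304) (nat_lit 43554710154) (nat_lit 203) (nat_lit 5) (nat_lit 206) (nat_lit 5) (nat_lit 207) (nat_lit 5) (nat_lit 471) (nat_lit 407) (nat_lit 142))) (XT.nd (nat_lit 78) (nat_lit 228) (nat_lit 0) (XT.lf (nat_lit 0) (nat_lit 65313114776) (nat_lit 304) (nat_lit 11799380636) (nat_lit 76) (nat_lit 10832851550) (nat_lit 203) (nat_lit 5) (nat_lit 207) (nat_lit 5) (nat_lit 204) (nat_lit 5) (nat_lit 472) (nat_lit 407) (nat_lit 141)) (XT.lf (nat_lit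 0) (nat_lit 44094092847) (nat_lit 228) (nat_lit 45065450650) (nat_lit 304) (nat_lit 423089449) (nat_lit 200) (nat_lit 5) (nat_lit 203) (nat_lit 5) (nat_lit 204) (nat_lit 5) (nat_lit 473) (nat_lit 407) (nat_lit 140))))) (XT.nd (nat_lit 468) (nat_lit 0) (nat_lit 0) (XT.nd (nat_lit 156) (nat_lit 760) (nat_lit 0) (XT.nd (nat_lit 78) (nat_lit 0) (nat_lit 0) (XT.lf (nat_lit 0) (nat_lit 10629955386) (nat_lit 228) (nat_lit 11606001262) (nat_lit 304) (nat_lit 69019953451) (nat_lit 196) (nat_lit 5) (nat_lit 199) (nat_lit 5) (nat_lit 200) (nat_lit 5) (nat_lit 474) (nat_lit 407) (nat_lit 139)) (XT.lf (nat_lit 0) (nat_lit 46249129493) (nat_lit 304) (nat_lit 23830840473) (nat_lit 76) (nat_lit 22878804158) (nat_lit 196) (nat_lit 5) (nat_lit 200) (nat_lit 5) (nat_lit 197) (nat_lit 5) (nat_lit 475) (nat_lit 407) (nat_lit 138))) (XT.nd (nat_lit 234) (nat_lit 532) (nat_lit 0) (XT.lf (nat_lit 0) (nat_lit 35239648565) (nat_lit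 228) (nat_lit 36195975132) (nat_lit 304) (nat_lit 23263512588) (nat_lit 193) (nat_lit 5) (nat_lit 196) (nat_lit 5) (nat_lit 197) (nat_lit 5) (nat_lit 476) (nat_lit 407) (nat_lit 137)) (XT.lf (nat_lit 0) (nat_lit 26182848144) (nat_lit 228) (nat_lit 27123102534) (nat_lit 304) (nat_lit 46831182503) (nat_lit 186) (nat_lit 5) (nat_lit 189) (nat_lit 5) (nat_lit 190) (nat_lit 5) (nat_lit 479) (nat_lit 407) (nat_lit 134)))) (XT.nd (nat_lit 47580) (nat_lit 0) (nat_lit 14288) (XT.nd (nat_lit 47502) (nat_lit 0) (nat_lit 14288) (XT.lf (nat_lit 0) (nat_lit 81178982525) (nat_lit 304) (nat_lit 10882910325) (nat_lit 76) (nat_lit 9966448966) (nat_lit 186) (nat_lit 5) (nat_lit 190) (nat_lit 5) (nat_lit 187) (nat_lit 5) (nat_lit 480) (nat_lit 407) (nat_lit 133)) (XT.lf (nat_lit 0) (nat_lit 8770717844) (nat_lit 1292) (nat_lit 3198579648) (nat_lit 1292) (nat_lit 3198579648) (nat_lit 374) (nat_lit 3) (nat_lit 391) (nat_lit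 3) (nat_lit 391) (nat_lit 5) (nat_lit 408) (nat_lit 408) (nat_lit 204))) (XT.nd (nat_lit 78) (nat_lit 0) (nat_lit 76) (XT.lf (nat_lit 76) (nat_lit 8945272327) (nat_lit 0) (nat_lit 9016396812) (nat_lit 1292) (nat_lit 12824408098) (nat_lit 375) (nat_lit 5) (nat_lit 374) (nat_lit 3) (nat_lit 391) (nat_lit 5) (nat_lit 409) (nat_lit 408) (nat_lit 203)) (XT.lf (nat_lit 0) (nat_lit 18518044363) (nat_lit 1216) (nat_lit 6432127012) (nat_lit 1292) (nat_lit 6296032465) (nat_lit 375) (nat_lit 5) (nat_lit 391) (nat_lit 5) (nat_lit 392) (nat_lit 5) (nat_lit 410) (nat_lit 408) (nat_lit 202))))))))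
noncomputable def xc227 : XT := (XT.nd (nat_lit 2340) (nat_lit 6688) (nat_lit 0) (XT.nd (nat_lit 1170) (nat_lit 5244) (nat_lit 0) (XT.nd (nat_lit 546) (nat_lit 912) (nat_lit 0) (XT.nd (nat_lit 234) (nat_lit 0) (nat_lit 152) (XT.nd (nat_lit 78) (nat_lit 0) (nat_lit 76) (XT.lf (nat_lit 76) (nat_lit 9534074906) (nat_lit 0) (nat_lit 9735258433) (nat_lit 1292) (nat_lit 12445454226) (nat_lit 376) (nat_lit 5) (nat_lit 375) (nat_lit 5) (nat_lit 392) (nat_lit 5) (nat_lit 411) (nat_lit 408) (nat_lit 201)) (XT.nd (nat_lit 78) (nat_lit 0) (nat_lit 0) (XT.lf (nat_lit 0) (nat_lit 20163196367) (nat_lit 1216) (nat_lit 6143653897) (nat_lit 1292) (nat_lit 5886977478) (nat_lit 376) (nat_lit 5) (nat_lit 392) (nat_lit 5) (nat_lit 393) (nat_lit 5) (nat_lit 412) (nat_lit 408) (nat_lit 200)) (XT.lf (nat_lit 76) (nat_lit 10481114062) (nat_lit 0) (nat_lit 10797356118) (nat_lit 1292) (nat_lit 11402931096) (nat_lit 377) (nat_lit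 5) (nat_lit 376) (nat_lit 5) (nat_lit 393) (nat_lit 5) (nat_lit 413) (nat_lit 408) (nat_lit 199)))) (XT.nd (nat_lit 156) (nat_lit 0) (nat_lit 76) (XT.nd (nat_lit 78) (nat_lit 0) (nat_lit 0) (XT.lf (nat_lit 0) (nat_lit 22537147912) (nat_lit 1216) (nat_lit 5503166590) (nat_lit 1292) (nat_lit 5139989143) (nat_lit 377) (nat_lit 5) (nat_lit 393) (nat_lit 5) (nat_lit 394) (nat_lit 5) (nat_lit 414) (nat_lit 408) (nat_lit 198)) (XT.lf (nat_lit 76) (nat_lit 11816995196) (nat_lit 0) (nat_lit 12234683640) (nat_lit 1292) (nat_lit 9635951463) (nat_lit 378) (nat_lit 5) (nat_lit 377) (nat_lit 5) (nat_lit 394) (nat_lit 5) (nat_lit 415) (nat_lit 408) (nat_lit 197))) (XT.nd (nat_lit 78) (nat_lit 0) (nat_lit 0) (XT.lf (nat_lit 0) (nat_lit 25704310274) (nat_lit 1216) (nat_lit 4479995572) (nat_lit 1292) (nat_lit 4023090970) (nat_lit 378) (nat_lit 5) (nat_lit 394) (nat_lit 5) (nat_lit 395) (nat_lit 5) (nat_lit 416) (nat_lit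 408) (nat_lit 196)) (XT.lf (nat_lit 76) (nat_lit 13574540135) (nat_lit 0) (nat_lit 14081330020) (nat_lit 1292) (nat_lit 7079405688) (nat_lit 379) (nat_lit 5) (nat_lit 378) (nat_lit 5) (nat_lit 395) (nat_lit 5) (nat_lit 417) (nat_lit 408) (nat_lit 195))))) (XT.nd (nat_lit 312) (nat_lit 0) (nat_lit 0) (XT.nd (nat_lit 156) (nat_lit 1216) (nat_lit 0) (XT.nd (nat_lit 78) (nat_lit 0) (nat_lit 0) (XT.lf (nat_lit 0) (nat_lit 29733525753) (nat_lit 1216) (nat_lit 3041244849) (nat_lit 1292) (nat_lit 2502194171) (nat_lit 379) (nat_lit 5) (nat_lit 395) (nat_lit 5) (nat_lit 396) (nat_lit 5) (nat_lit 418) (nat_lit 408) (nat_lit 194)) (XT.lf (nat_lit 76) (nat_lit 15788924731) (nat_lit 0) (nat_lit 16373627511) (nat_lit 1292) (nat_lit 3663680893) (nat_lit 380) (nat_lit 5) (nat_lit 379) (nat_lit 5) (nat_lit 396) (nat_lit 5) (nat_lit 419) (nat_lit 408) (nat_lit 193))) (XT.nd (nat_lit 78) (nat_lit 1292) (nat_lit 0) (XT.lf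 (nat_lit 0) (nat_lit 34698360416) (nat_lit 1216) (nat_lit 1151652944) (nat_lit 1292) (nat_lit 540948860) (nat_lit 380) (nat_lit 5) (nat_lit 396) (nat_lit 5) (nat_lit 397) (nat_lit 5) (nat_lit 420) (nat_lit 408) (nat_lit 192)) (XT.lf (nat_lit 0) (nat_lit 672257757) (nat_lit 1292) (nat_lit 18471261602) (nat_lit 1368) (nat_lit 17818779378) (nat_lit 363) (nat_lit 5) (nat_lit 380) (nat_lit 5) (nat_lit 381) (nat_lit 5) (nat_lit 421) (nat_lit 408) (nat_lit 191)))) (XT.nd (nat_lit 156) (nat_lit 0) (nat_lit 76) (XT.nd (nat_lit 78) (nat_lit 0) (nat_lit 76) (XT.lf (nat_lit 76) (nat_lit 1201139086) (nat_lit 0) (nat_lit 1894182610) (nat_lit 1368) (nat_lit 34454312553) (nat_lit 364) (nat_lit 5) (nat_lit 363) (nat_lit 5) (nat_lit 381) (nat_lit 5) (nat_lit 422) (nat_lit 408) (nat_lit 190)) (XT.lf (nat_lit 0) (nat_lit 5930059662) (nat_lit 1292) (nat_lit 16462725704) (nat_lit 1368) (nat_lit 15751634998) (nat_lit 364)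 (nat_lit 5) (nat_lit 381) (nat_lit 5) (nat_lit 382) (nat_lit 5) (nat_lit 423) (nat_lit 408) (nat_lit 189))) (XT.nd (nat_lit 78) (nat_lit 0) (nat_lit 76) (XT.lf (nat_lit 76) (nat_lit 4078841965) (nat_lit 0) (nat_lit 4827052006) (nat_lit 1368) (nat_lit 29849474465) (nat_lit 365) (nat_lit 5) (nat_lit 364) (nat_lit 5) (nat_lit 382) (nat_lit 5) (nat_lit 424) (nat_lit 408) (nat_lit 188)) (XT.lf (nat_lit 0) (nat_lit 12264542514) (nat_lit 1292) (nat_lit 13936351155) (nat_lit 76) (nat_lit 13174945105) (nat_lit 365) (nat_lit 5) (nat_lit 382) (nat_lit 5) (nat_lit 366) (nat_lit 5) (nat_lit 425) (nat_lit 408) (nat_lit 187)))))) (XT.nd (nat_lit 546) (nat_lit 2736) (nat_lit 0) (XT.nd (nat_lit 234) (nat_lit 1216) (nat_lit 0) (XT.nd (nat_lit 78) (nat_lit 608) (nat_lit 0) (XT.lf (nat_lit 0) (nat_lit 7523438129) (nat_lit 836) (nat_lit 8318813629) (nat_lit 912) (nat_lit 24169122427) (nat_lit 354) (nat_lit 5) (nat_lit 365)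 (nat_lit 5) (nat_lit 366) (nat_lit 5) (nat_lit 426) (nat_lit 408) (nat_lit 186)) (XT.nd (nat_lit 78) (nat_lit 608) (nat_lit 0) (XT.lf (nat_lit 0) (nat_lit 19764728192) (nat_lit 912) (nat_lit 10849176539) (nat_lit 76) (nat_lit 10044947850) (nat_lit 354) (nat_lit 5) (nat_lit 366) (nat_lit 5) (nat_lit 355) (nat_lit 5) (nat_lit 427) (nat_lit 408) (nat_lit 185)) (XT.lf (nat_lit 0) (nat_lit 11580764411) (nat_lit 608) (nat_lit 12416079959) (nat_lit 684) (nat_lit 17323151995) (nat_lit 346) (nat_lit 5) (nat_lit 354) (nat_lit 5) (nat_lit 355) (nat_lit 5) (nat_lit 428) (nat_lit 408) (nat_lit 184)))) (XT.nd (nat_lit 156) (nat_lit 608) (nat_lit 0) (XT.nd (nat_lit 78) (nat_lit 608) (nat_lit 0) (XT.lf (nat_lit 0) (nat_lit 28525705112) (nat_lit 684) (nat_lit 7155232116) (nat_lit 76) (nat_lit 6314943801) (nat_lit 346) (nat_lit 5) (nat_lit 355) (nat_lit 5) (nat_lit 347) (nat_lit 5) (nat_lit 429) (nat_lit 408) (nat_lit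 183)) (XT.lf (nat_lit 0) (nat_lit 16299837236) (nat_lit 608) (nat_lit 17168574431) (nat_lit 684) (nat_lit 9215291168) (nat_lit 338) (nat_lit 5) (nat_lit 346) (nat_lit 5) (nat_lit 347) (nat_lit 5) (nat_lit 430) (nat_lit 408) (nat_lit 182))) (XT.nd (nat_lit 78) (nat_lit 608) (nat_lit 0) (XT.lf (nat_lit 0) (nat_lit 38649021823) (nat_lit 684) (nat_lit 2805349384) (nat_lit 76) (nat_lit 1935099416) (nat_lit 338) (nat_lit 5) (nat_lit 347) (nat_lit 5) (nat_lit 339) (nat_lit 5) (nat_lit 431) (nat_lit 408) (nat_lit 181)) (XT.lf (nat_lit 0) (nat_lit 252279512) (nat_lit 608) (nat_lit 22374511108) (nat_lit 76) (nat_lit 21478226385) (nat_lit 330) (nat_lit 5) (nat_lit 338) (nat_lit 5) (nat_lit 331) (nat_lit 5) (nat_lit 432) (nat_lit 408) (nat_lit 180))))) (XT.nd (nat_lit 312) (nat_lit 1596) (nat_lit 0) (XT.nd (nat_lit 156) (nat_lit 532) (nat_lit 0) (XT.nd (nat_lit 78) (nat_lit 0) (nat_lit 0) (XT.lf (nat_lit 0) (nat_lit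 2213146265) (nat_lit 608) (nat_lit 3134707450) (nat_lit 684) (nat_lit 39491317739) (nat_lit 322) (nat_lit 5) (nat_lit 330) (nat_lit 5) (nat_lit 331) (nat_lit 5) (nat_lit 433) (nat_lit 408) (nat_lit 179)) (XT.lf (nat_lit 0) (nat_lit 10985817457) (nat_lit 684) (nat_lit 17758196248) (nat_lit 76) (nat_lit 16839651162) (nat_lit 322) (nat_lit 5) (nat_lit 331) (nat_lit 5) (nat_lit 323) (nat_lit 5) (nat_lit 434) (nat_lit 408) (nat_lit 178))) (XT.nd (nat_lit 78) (nat_lit 0) (nat_lit 0) (XT.lf (nat_lit 0) (nat_lit 7978754647) (nat_lit 532) (nat_lit 8920431275) (nat_lit 608) (nat_lit 29448119186) (nat_lit 315) (nat_lit 5) (nat_lit 322) (nat_lit 5) (nat_lit 323) (nat_lit 5) (nat_lit 435) (nat_lit 408) (nat_lit 177)) (XT.lf (nat_lit 0) (nat_lit 23280137452) (nat_lit 608) (nat_lit 12390532247) (nat_lit 76) (nat_lit 11454479396) (nat_lit 315) (nat_lit 5) (nat_lit 323) (nat_lit 5) (nat_lit 316) (nat_lit 5) (nat_lit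 436) (nat_lit 408) (nat_lit 176)))) (XT.nd (nat_lit 156) (nat_lit 1064) (nat_lit 0) (XT.nd (nat_lit 78) (nat_lit 0) (nat_lit 0) (XT.lf (nat_lit 0) (nat_lit 14561094187) (nat_lit 532) (nat_lit 15518315677) (nat_lit 608) (nat_lit 17840111769) (nat_lit 308) (nat_lit 5) (nat_lit 315) (nat_lit 5) (nat_lit 316) (nat_lit 5) (nat_lit 437) (nat_lit 408) (nat_lit 175)) (XT.lf (nat_lit 0) (nat_lit 37258001570) (nat_lit 608) (nat_lit 6211879134) (nat_lit 76) (nat_lit 5262584410) (nat_lit 308) (nat_lit 5) (nat_lit 316) (nat_lit 5) (nat_lit 309) (nat_lit 5) (nat_lit 438) (nat_lit 408) (nat_lit 174))) (XT.nd (nat_lit 78) (nat_lit 608) (nat_lit 0) (XT.lf (nat_lit 0) (nat_lit 22023650519) (nat_lit 456) (nat_lit 22992317546) (nat_lit 532) (nat_lit 4542908322) (nat_lit 302) (nat_lit 5) (nat_lit 308) (nat_lit 5) (nat_lit 309) (nat_lit 5) (nat_lit 439) (nat_lit 408) (nat_lit 173)) (XT.lf (nat_lit 0) (nat_lit 814150722)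 (nat_lit 532) (nat_lit 1801625810) (nat_lit 608) (nat_lit 47791459110) (nat_lit 294) (nat_lit 5) (nat_lit 301) (nat_lit 5) (nat_lit 302) (nat_lit 5) (nat_lit 440) (nat_lit 408) (nat_lit 172))))))) (XT.nd (nat_lit 1170) (nat_lit 3268) (nat_lit 0) (XT.nd (nat_lit 546) (nat_lit 1596) (nat_lit 0) (XT.nd (nat_lit 234) (nat_lit 1368) (nat_lit 0) (XT.nd (nat_lit 78) (nat_lit 456) (nat_lit 0) (XT.lf (nat_lit 0) (nat_lit 10369907839) (nat_lit 608) (nat_lit 20936035359) (nat_lit 76) (nat_lit 19959593280) (nat_lit 294) (nat_lit 5) (nat_lit 302) (nat_lit 5) (nat_lit 295) (nat_lit 5) (nat_lit 441) (nat_lit 408) (nat_lit 171)) (XT.nd (nat_lit 78) (nat_lit 0) (nat_lit 0) (XT.lf (nat_lit 0) (nat_lit 8731759174) (nat_lit 456) (nat_lit 9725413293) (nat_lit 532) (nat_lit 33689398590) (nat_lit 288) (nat_lit 5) (nat_lit 294) (nat_lit 5) (nat_lit 295) (nat_lit 5) (nat_lit 442) (nat_lit 408) (nat_lit 170)) (XT.lf (nat_lit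 0) (nat_lit 27119499482) (nat_lit 532) (nat_lit 13452750298) (nat_lit 76) (nat_lit 12471813562) (nat_lit 288) (nat_lit 5) (nat_lit 295) (nat_lit 5) (nat_lit 289) (nat_lit 5) (nat_lit 443) (nat_lit 408) (nat_lit 169)))) (XT.nd (nat_lit 156) (nat_lit 912) (nat_lit 0) (XT.nd (nat_lit 78) (nat_lit 0) (nat_lit 0) (XT.lf (nat_lit 0) (nat_lit 17654900809) (nat_lit 456) (nat_lit 18651589000) (nat_lit 532) (nat_lit 17654046782) (nat_lit 282) (nat_lit 5) (nat_lit 288) (nat_lit 5) (nat_lit 289) (nat_lit 5) (nat_lit 444) (nat_lit 408) (nat_lit 168)) (XT.lf (nat_lit 0) (nat_lit 45942837769) (nat_lit 532) (nat_lit 4969479762) (nat_lit 76) (nat_lit 3986974068) (nat_lit 282) (nat_lit 5) (nat_lit 289) (nat_lit 5) (nat_lit 283) (nat_lit 5) (nat_lit 445) (nat_lit 408) (nat_lit 167))) (XT.nd (nat_lit 78) (nat_lit 456) (nat_lit 0) (XT.lf (nat_lit 0) (nat_lit 455879184) (nat_lit 456) (nat_lit 28196817203) (nat_lit 76) (nat_lit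 27199896695) (nat_lit 276) (nat_lit 5) (nat_lit 282) (nat_lit 5) (nat_lit 277) (nat_lit 5) (nat_lit 446) (nat_lit 408) (nat_lit 166)) (XT.lf (nat_lit 0) (nat_lit 4526346778) (nat_lit 456) (nat_lit 5537262249) (nat_lit 532) (nat_lit 46765432970) (nat_lit 270) (nat_lit 5) (nat_lit 276) (nat_lit 5) (nat_lit 277) (nat_lit 5) (nat_lit 447) (nat_lit 408) (nat_lit 165))))) (XT.nd (nat_lit 312) (nat_lit 836) (nat_lit 0) (XT.nd (nat_lit 156) (nat_lit 380) (nat_lit 0) (XT.nd (nat_lit 78) (nat_lit 380) (nat_lit 0) (XT.lf (nat_lit 0) (nat_lit 20421630571) (nat_lit 532) (nat_lit 19196977470) (nat_lit 76) (nat_lit 18202314544) (nat_lit 270) (nat_lit 5) (nat_lit 277) (nat_lit 5) (nat_lit 271) (nat_lit 5) (nat_lit 448) (nat_lit 408) (nat_lit 164)) (XT.lf (nat_lit 0) (nat_lit 15141097608) (nat_lit 380) (nat_lit 16148567909) (nat_lit 456) (nat_lit 27546915891) (nat_lit 265) (nat_lit 5) (nat_lit 270) (nat_lit 5) (nat_lit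 271) (nat_lit 5) (nat_lit 449) (nat_lit 408) (nat_lit 163))) (XT.nd (nat_lit 78) (nat_lit 380) (nat_lit 0) (XT.lf (nat_lit 0) (nat_lit 42755577052) (nat_lit 456) (nat_lit 9054588281) (nat_lit 76) (nat_lit 8064389596) (nat_lit 265) (nat_lit 5) (nat_lit 271) (nat_lit 5) (nat_lit 266) (nat_lit 5) (nat_lit 450) (nat_lit 408) (nat_lit 162)) (XT.lf (nat_lit 0) (nat_lit 26990917949) (nat_lit 380) (nat_lit 27992837195) (nat_lit 456) (nat_lit 5947363836) (nat_lit 260) (nat_lit 5) (nat_lit 265) (nat_lit 5) (nat_lit 266) (nat_lit 5) (nat_lit 451) (nat_lit 408) (nat_lit 161)))) (XT.nd (nat_lit 156) (nat_lit 380) (nat_lit 0) (XT.nd (nat_lit 78) (nat_lit 0) (nat_lit 0) (XT.lf (nat_lit 0) (nat_lit 2275391839) (nat_lit 380) (nat_lit 3288690272) (nat_lit 456) (nat_lit 56450299610) (nat_lit 254) (nat_lit 5) (nat_lit 259) (nat_lit 5) (nat_lit 260) (nat_lit 5) (nat_lit 452) (nat_lit 408) (nat_lit 160)) (XT.lf (nat_lit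 0) (nat_lit 17859409944) (nat_lit 456) (nat_lit 23123367239) (nat_lit 76) (nat_lit 22128856378) (nat_lit 254) (nat_lit 5) (nat_lit 260) (nat_lit 5) (nat_lit 255) (nat_lit 5) (nat_lit 453) (nat_lit 408) (nat_lit 159))) (XT.nd (nat_lit 78) (nat_lit 0) (nat_lit 0) (XT.lf (nat_lit 0) (nat_lit 14846473529) (nat_lit 380) (nat_lit 15851397957) (nat_lit 456) (nat_lit 33538703253) (nat_lit 249) (nat_lit 5) (nat_lit 254) (nat_lit 5) (nat_lit 255) (nat_lit 5) (nat_lit 454) (nat_lit 408) (nat_lit 158)) (XT.lf (nat_lit 0) (nat_lit 44252762852) (nat_lit 456) (nat_lit 11059016797) (nat_lit 76) (nat_lit 10073546226) (nat_lit 249) (nat_lit 5) (nat_lit 255) (nat_lit 5) (nat_lit 250) (nat_lit 5) (nat_lit 455) (nat_lit 408) (nat_lit 157)))))) (XT.nd (nat_lit 624) (nat_lit 1520) (nat_lit 0) (XT.nd (nat_lit 312) (nat_lit 684) (nat_lit 0) (XT.nd (nat_lit 156) (nat_lit 304) (nat_lit 0) (XT.nd (nat_lit 78) (nat_lit 456) (nat_lit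 0) (XT.lf (nat_lit 0) (nat_lit 28826190010) (nat_lit 304) (nat_lit 29821190470) (nat_lit 380) (nat_lit 7908166680) (nat_lit 245) (nat_lit 5) (nat_lit 249) (nat_lit 5) (nat_lit 250) (nat_lit 5) (nat_lit 456) (nat_lit 408) (nat_lit 156)) (XT.lf (nat_lit 0) (nat_lit 2365898222) (nat_lit 380) (nat_lit 3370151001) (nat_lit 456) (nat_lit 62019141320) (nat_lit 239) (nat_lit 5) (nat_lit 244) (nat_lit 5) (nat_lit 245) (nat_lit 5) (nat_lit 457) (nat_lit 408) (nat_lit 155))) (XT.nd (nat_lit 78) (nat_lit 304) (nat_lit 0) (XT.lf (nat_lit 0) (nat_lit 20243961812) (nat_lit 456) (nat_lit 24854918429) (nat_lit 76) (nat_lit 23871194532) (nat_lit 239) (nat_lit 5) (nat_lit 245) (nat_lit 5) (nat_lit 240) (nat_lit 5) (nat_lit 458) (nat_lit 408) (nat_lit 154)) (XT.lf (nat_lit 0) (nat_lit 17196336997) (nat_lit 304) (nat_lit 18188528078) (nat_lit 380) (nat_lit 34830607854) (nat_lit 235) (nat_lit 5) (nat_lit 239) (nat_lit 5)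 (nat_lit 240) (nat_lit 5) (nat_lit 459) (nat_lit 408) (nat_lit 153)))) (XT.nd (nat_lit 156) (nat_lit 380) (nat_lit 0) (XT.nd (nat_lit 78) (nat_lit 304) (nat_lit 0) (XT.lf (nat_lit 0) (nat_lit 51324159785) (nat_lit 380) (nat_lit 10567510880) (nat_lit 76) (nat_lit 9596237436) (nat_lit 235) (nat_lit 5) (nat_lit 240) (nat_lit 5) (nat_lit 236) (nat_lit 5) (nat_lit 460) (nat_lit 408) (nat_lit 152)) (XT.lf (nat_lit 0) (nat_lit 33632556144) (nat_lit 304) (nat_lit 34611578260) (nat_lit 380) (nat_lit 4539306892) (nat_lit 231) (nat_lit 5) (nat_lit 235) (nat_lit 5) (nat_lit 236) (nat_lit 5) (nat_lit 461) (nat_lit 408) (nat_lit 151))) (XT.nd (nat_lit 78) (nat_lit 0) (nat_lit 0) (XT.lf (nat_lit 0) (nat_lit 5249609855) (nat_lit 304) (nat_lit 6236154953) (nat_lit 380) (nat_lit 62624023154) (nat_lit 226) (nat_lit 5) (nat_lit 230) (nat_lit 5) (nat_lit 231) (nat_lit 5) (nat_lit 462) (nat_lit 408) (nat_lit 150)) (XT.lf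 (nat_lit 0) (nat_lit 28519746782) (nat_lit 380) (nat_lit 23950575018) (nat_lit 76) (nat_lit 22985673110) (nat_lit 226) (nat_lit 5) (nat_lit 231) (nat_lit 5) (nat_lit 227) (nat_lit 5) (nat_lit 463) (nat_lit 408) (nat_lit 149))))) (XT.nd (nat_lit 312) (nat_lit 608) (nat_lit 0) (XT.nd (nat_lit 156) (nat_lit 608) (nat_lit 0) (XT.nd (nat_lit 78) (nat_lit 0) (nat_lit 0) (XT.lf (nat_lit 0) (nat_lit 22685967806) (nat_lit 304) (nat_lit 23657754308) (nat_lit 380) (nat_lit 30490496734) (nat_lit 222) (nat_lit 5) (nat_lit 226) (nat_lit 5) (nat_lit 227) (nat_lit 5) (nat_lit 464) (nat_lit 408) (nat_lit 148)) (XT.lf (nat_lit 0) (nat_lit 65003691618) (nat_lit 380) (nat_lit 7095515536) (nat_lit 76) (nat_lit 6145544103) (nat_lit 222) (nat_lit 5) (nat_lit 227) (nat_lit 5) (nat_lit 223) (nat_lit 5) (nat_lit 465) (nat_lit 408) (nat_lit 147))) (XT.nd (nat_lit 78) (nat_lit 304) (nat_lit 0) (XT.lf (nat_lit 0) (nat_lit 5080542150)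 (nat_lit 304) (nat_lit 37776367109) (nat_lit 76) (nat_lit 36820095297) (nat_lit 218) (nat_lit 5) (nat_lit 222) (nat_lit 5) (nat_lit 219) (nat_lit 5) (nat_lit 466) (nat_lit 408) (nat_lit 146)) (XT.lf (nat_lit 0) (nat_lit 11452456827) (nat_lit 304) (nat_lit 12414845512) (nat_lit 380) (nat_lit 57275540850) (nat_lit 214) (nat_lit 5) (nat_lit 218) (nat_lit 5) (nat_lit 219) (nat_lit 5) (nat_lit 467) (nat_lit 408) (nat_lit 145)))) (XT.nd (nat_lit 156) (nat_lit 380) (nat_lit 0) (XT.nd (nat_lit 78) (nat_lit 228) (nat_lit 0) (XT.lf (nat_lit 0) (nat_lit 43784178319) (nat_lit 380) (nat_lit 19895803480) (nat_lit 76) (nat_lit 18955679793) (nat_lit 214) (nat_lit 5) (nat_lit 219) (nat_lit 5) (nat_lit 215) (nat_lit 5) (nat_lit 468) (nat_lit 408) (nat_lit 144)) (XT.lf (nat_lit 0) (nat_lit 31890768272) (nat_lit 228) (nat_lit 32836489764) (nat_lit 304) (nat_lit 19433145587) (nat_lit 211) (nat_lit 5) (nat_lit 214) (nat_lit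 5) (nat_lit 215) (nat_lit 5) (nat_lit 469) (nat_lit 408) (nat_lit 143))) (XT.nd (nat_lit 78) (nat_lit 304) (nat_lit 0) (XT.lf (nat_lit 0) (nat_lit 758789231) (nat_lit 304) (nat_lit 94762080) (nat_lit 76) (nat_lit 84871109109) (nat_lit 210) (nat_lit 5) (nat_lit 214) (nat_lit 5) (nat_lit 211) (nat_lit 5) (nat_lit 470) (nat_lit 408) (nat_lit 142)) (XT.lf (nat_lit 0) (nat_lit 22004729332) (nat_lit 380) (nat_lit 33114376900) (nat_lit 76) (nat_lit 32185801440) (nat_lit 206) (nat_lit 5) (nat_lit 211) (nat_lit 5) (nat_lit 207) (nat_lit 5) (nat_lit 471) (nat_lit 408) (nat_lit 141))))))))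
noncomputable def xc228 : XT := (XT.nd (nat_lit 49998) (nat_lit 0) (nat_lit 3420) (XT.nd (nat_lit 48828) (nat_lit 0) (nat_lit 11552) (XT.nd (nat_lit 48204) (nat_lit 0) (nat_lit 14288) (XT.nd (nat_lit 234) (nat_lit 1064) (nat_lit 0) (XT.nd (nat_lit 78) (nat_lit 228) (nat_lit 0) (XT.lf (nat_lit 0) (nat_lit 21585331939) (nat_lit 228) (nat_lit 22518880977) (nat_lit 304) (nat_lit 44821864468) (nat_lit 203) (nat_lit 5) (nat_lit 206) (nat_lit 5) (nat_lit 207) (nat_lit 5) (nat_lit 472) (nat_lit 408) (nat_lit 140)) (XT.nd (nat_lit 78) (nat_lit 228) (nat_lit 0) (XT.lf (nat_lit 0) (nat_lit 67309953543) (nat_lit 304) (nat_lit 12091838416) (nat_lit 76) (nat_lit 11180792053) (nat_lit 203) (nat_lit 5) (nat_lit 207) (nat_lit 5) (nat_lit 204) (nat_lit 5) (nat_lit 473) (nat_lit 408) (nat_lit 139)) (XT.lf (nat_lit 0) (nat_lit 45477836100) (nat_lit 228) (nat_lit 46393433991) (nat_lit 304) (nat_lit 397733636) (nat_lit 200)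 (nat_lit 5) (nat_lit 203) (nat_lit 5) (nat_lit 204) (nat_lit 5) (nat_lit 474) (nat_lit 408) (nat_lit 138)))) (XT.nd (nat_lit 312) (nat_lit 760) (nat_lit 0) (XT.nd (nat_lit 78) (nat_lit 0) (nat_lit 0) (XT.lf (nat_lit 0) (nat_lit 11009912439) (nat_lit 228) (nat_lit 11929929289) (nat_lit 304) (nat_lit 71052641482) (nat_lit 196) (nat_lit 5) (nat_lit 199) (nat_lit 5) (nat_lit 200) (nat_lit 5) (nat_lit 475) (nat_lit 408) (nat_lit 137)) (XT.lf (nat_lit 0) (nat_lit 47672564064) (nat_lit 304) (nat_lit 24485640000) (nat_lit 76) (nat_lit 23588254464) (nat_lit 196) (nat_lit 5) (nat_lit 200) (nat_lit 5) (nat_lit 197) (nat_lit 5) (nat_lit 476) (nat_lit 408) (nat_lit 136))) (XT.nd (nat_lit 78) (nat_lit 228) (nat_lit 0) (XT.lf (nat_lit 0) (nat_lit 27529881262) (nat_lit 304) (nat_lit 37293955343) (nat_lit 76) (nat_lit 36411268419) (nat_lit 189) (nat_lit 5) (nat_lit 193) (nat_lit 5) (nat_lit 190) (nat_lit 5) (nat_lit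 479) (nat_lit 408) (nat_lit 133)) (XT.lf (nat_lit 0) (nat_lit 27026482373) (nat_lit 228) (nat_lit 27912762316) (nat_lit 304) (nat_lit 48200979023) (nat_lit 186) (nat_lit 5) (nat_lit 189) (nat_lit 5) (nat_lit 190) (nat_lit 5) (nat_lit 480) (nat_lit 408) (nat_lit 132))))) (XT.nd (nat_lit 312) (nat_lit 0) (nat_lit 152) (XT.nd (nat_lit 156) (nat_lit 0) (nat_lit 76) (XT.nd (nat_lit 78) (nat_lit 0) (nat_lit 0) (XT.lf (nat_lit 0) (nat_lit 9104280173) (nat_lit 1292) (nat_lit 3258260028) (nat_lit 1292) (nat_lit 3258260028) (nat_lit 374) (nat_lit 3) (nat_lit 391) (nat_lit 3) (nat_lit 391) (nat_lit 5) (nat_lit 409) (nat_lit 409) (nat_lit 202)) (XT.lf (nat_lit 76) (nat_lit 9285473200) (nat_lit 0) (nat_lit 9352514849) (nat_lit 1292) (nat_lit 13067547440) (nat_lit 375) (nat_lit 5) (nat_lit 374) (nat_lit 3) (nat_lit 391) (nat_lit 5) (nat_lit 410) (nat_lit 409) (nat_lit 201))) (XT.nd (nat_lit 78) (nat_lit 0) (nat_lit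 0) (XT.lf (nat_lit 0) (nat_lit 19206438118) (nat_lit 1216) (nat_lit 6550724214) (nat_lit 1292) (nat_lit 6422442050) (nat_lit 375) (nat_lit 5) (nat_lit 391) (nat_lit 5) (nat_lit 392) (nat_lit 5) (nat_lit 411) (nat_lit 409) (nat_lit 200)) (XT.lf (nat_lit 76) (nat_lit 9893734678) (nat_lit 0) (nat_lit 10083369447) (nat_lit 1292) (nat_lit 12685236344) (nat_lit 376) (nat_lit 5) (nat_lit 375) (nat_lit 5) (nat_lit 392) (nat_lit 5) (nat_lit 412) (nat_lit 409) (nat_lit 199)))) (XT.nd (nat_lit 156) (nat_lit 0) (nat_lit 76) (XT.nd (nat_lit 78) (nat_lit 0) (nat_lit 0) (XT.lf (nat_lit 0) (nat_lit 20893482517) (nat_lit 1216) (nat_lit 6252170246) (nat_lit 1292) (nat_lit 6010228103) (nat_lit 376) (nat_lit 5) (nat_lit 392) (nat_lit 5) (nat_lit 393) (nat_lit 5) (nat_lit 413) (nat_lit 409) (nat_lit 198)) (XT.lf (nat_lit 76) (nat_lit 10870597681) (nat_lit 0) (nat_lit 11168686149) (nat_lit 1292) (nat_lit 11618885698) (nat_lit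 377) (nat_lit 5) (nat_lit 376) (nat_lit 5) (nat_lit 393) (nat_lit 5) (nat_lit 414) (nat_lit 409) (nat_lit 197))) (XT.nd (nat_lit 78) (nat_lit 0) (nat_lit 0) (XT.lf (nat_lit 0) (nat_lit 23331712656) (nat_lit 1216) (nat_lit 5591388083) (nat_lit 1292) (nat_lit 5249058506) (nat_lit 377) (nat_lit 5) (nat_lit 393) (nat_lit 5) (nat_lit 394) (nat_lit 5) (nat_lit 415) (nat_lit 409) (nat_lit 196)) (XT.lf (nat_lit 76) (nat_lit 12247624896) (nat_lit 0) (nat_lit 12641336314) (nat_lit 1292) (nat_lit 9805826038) (nat_lit 378) (nat_lit 5) (nat_lit 377) (nat_lit 5) (nat_lit 394) (nat_lit 5) (nat_lit 416) (nat_lit 409) (nat_lit 195)))))) (XT.nd (nat_lit 546) (nat_lit 1900) (nat_lit 0) (XT.nd (nat_lit 234) (nat_lit 1140) (nat_lit 0) (XT.nd (nat_lit 78) (nat_lit 0) (nat_lit 0) (XT.lf (nat_lit 0) (nat_lit 26587431071) (nat_lit 1216) (nat_lit 4536752157) (nat_lit 1292) (nat_lit 4106075748) (nat_lit 378) (nat_lit 5) (nat_lit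 394) (nat_lit 5) (nat_lit 395) (nat_lit 5) (nat_lit 417) (nat_lit 409) (nat_lit 194)) (XT.nd (nat_lit 78) (nat_lit 0) (nat_lit 76) (XT.lf (nat_lit 76) (nat_lit 14058658412) (nat_lit 0) (nat_lit 14536356485) (nat_lit 1292) (nat_lit 7179035162) (nat_lit 379) (nat_lit 5) (nat_lit 378) (nat_lit 5) (nat_lit 395) (nat_lit 5) (nat_lit 418) (nat_lit 409) (nat_lit 193)) (XT.lf (nat_lit 0) (nat_lit 30731507638) (nat_lit 1216) (nat_lit 3054346880) (nat_lit 1292) (nat_lit 2546239915) (nat_lit 379) (nat_lit 5) (nat_lit 395) (nat_lit 5) (nat_lit 396) (nat_lit 5) (nat_lit 419) (nat_lit 409) (nat_lit 192)))) (XT.nd (nat_lit 156) (nat_lit 1216) (nat_lit 0) (XT.nd (nat_lit 78) (nat_lit 0) (nat_lit 76) (XT.lf (nat_lit 76) (nat_lit 16339961756) (nat_lit 0) (nat_lit 16891100204) (nat_lit 1292) (nat_lit 3666849175) (nat_lit 380) (nat_lit 5) (nat_lit 379) (nat_lit 5) (nat_lit 396) (nat_lit 5) (nat_lit 420) (nat_lit 409) (nat_lit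 191)) (XT.lf (nat_lit 0) (nat_lit 35839680826) (nat_lit 1216) (nat_lit 1107823172) (nat_lit 1292) (nat_lit 532176000) (nat_lit 380) (nat_lit 5) (nat_lit 396) (nat_lit 5) (nat_lit 397) (nat_lit 5) (nat_lit 421) (nat_lit 409) (nat_lit 190))) (XT.nd (nat_lit 78) (nat_lit 0) (nat_lit 0) (XT.lf (nat_lit 0) (nat_lit 791589945) (nat_lit 1292) (nat_lit 18945814948) (nat_lit 1368) (nat_lit 18330787872) (nat_lit 363) (nat_lit 5) (nat_lit 380) (nat_lit 5) (nat_lit 381) (nat_lit 5) (nat_lit 422) (nat_lit 409) (nat_lit 189)) (XT.lf (nat_lit 76) (nat_lit 1315977521) (nat_lit 0) (nat_lit 1969237511) (nat_lit 1368) (nat_lit 35387997234) (nat_lit 364) (nat_lit 5) (nat_lit 363) (nat_lit 5) (nat_lit 381) (nat_lit 5) (nat_lit 423) (nat_lit 409) (nat_lit 188))))) (XT.nd (nat_lit 312) (nat_lit 1216) (nat_lit 0) (XT.nd (nat_lit 156) (nat_lit 760) (nat_lit 0) (XT.nd (nat_lit 78) (nat_lit 0) (nat_lit 0) (XT.lf (nat_lit 0) (nat_lit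 6201998785) (nat_lit 1292) (nat_lit 16877102130) (nat_lit 1368) (nat_lit 16206830940) (nat_lit 364) (nat_lit 5) (nat_lit 381) (nat_lit 5) (nat_lit 382) (nat_lit 5) (nat_lit 424) (nat_lit 409) (nat_lit 187)) (XT.lf (nat_lit 76) (nat_lit 4279933104) (nat_lit 0) (nat_lit 4985192829) (nat_lit 1368) (nat_lit 30650141901) (nat_lit 365) (nat_lit 5) (nat_lit 364) (nat_lit 5) (nat_lit 382) (nat_lit 5) (nat_lit 425) (nat_lit 409) (nat_lit 186))) (XT.nd (nat_lit 78) (nat_lit 836) (nat_lit 0) (XT.lf (nat_lit 0) (nat_lit 12721728317) (nat_lit 1292) (nat_lit 14275203181) (nat_lit 76) (nat_lit 13557504953) (nat_lit 365) (nat_lit 5) (nat_lit 382) (nat_lit 5) (nat_lit 366) (nat_lit 5) (nat_lit 426) (nat_lit 409) (nat_lit 185)) (XT.lf (nat_lit 0) (nat_lit 7827602933) (nat_lit 836) (nat_lit 8577320626) (nat_lit 912) (nat_lit 24804169723) (nat_lit 354) (nat_lit 5) (nat_lit 365) (nat_lit 5) (nat_lit 366) (nat_lit 5) (nat_lit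 427) (nat_lit 409) (nat_lit 184)))) (XT.nd (nat_lit 156) (nat_lit 608) (nat_lit 0) (XT.nd (nat_lit 78) (nat_lit 608) (nat_lit 0) (XT.lf (nat_lit 0) (nat_lit 20442445074) (nat_lit 912) (nat_lit 11095846252) (nat_lit 76) (nat_lit 10337783580) (nat_lit 354) (nat_lit 5) (nat_lit 366) (nat_lit 5) (nat_lit 355) (nat_lit 5) (nat_lit 428) (nat_lit 409) (nat_lit 183)) (XT.lf (nat_lit 0) (nat_lit 12006220322) (nat_lit 608) (nat_lit 12793585340) (nat_lit 684) (nat_lit 17757298915) (nat_lit 346) (nat_lit 5) (nat_lit 354) (nat_lit 5) (nat_lit 355) (nat_lit 5) (nat_lit 429) (nat_lit 409) (nat_lit 182))) (XT.nd (nat_lit 78) (nat_lit 608) (nat_lit 0) (XT.lf (nat_lit 0) (nat_lit 29462066243) (nat_lit 684) (nat_lit 7291662923) (nat_lit 76) (nat_lit 6499610595) (nat_lit 346) (nat_lit 5) (nat_lit 355) (nat_lit 5) (nat_lit 347) (nat_lit 5) (nat_lit 430) (nat_lit 409) (nat_lit 181)) (XT.lf (nat_lit 0) (nat_lit 16866291587)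 (nat_lit 608) (nat_lit 17685159713) (nat_lit 684) (nat_lit 9410393002) (nat_lit 338) (nat_lit 5) (nat_lit 346) (nat_lit 5) (nat_lit 347) (nat_lit 5) (nat_lit 431) (nat_lit 409) (nat_lit 180))))))) (XT.nd (nat_lit 1170) (nat_lit 3876) (nat_lit 0) (XT.nd (nat_lit 546) (nat_lit 1976) (nat_lit 0) (XT.nd (nat_lit 234) (nat_lit 1064) (nat_lit 0) (XT.nd (nat_lit 78) (nat_lit 1216) (nat_lit 0) (XT.lf (nat_lit 0) (nat_lit 39885164898) (nat_lit 684) (nat_lit 2811991865) (nat_lit 76) (nat_lit 1991697805) (nat_lit 338) (nat_lit 5) (nat_lit 347) (nat_lit 5) (nat_lit 339) (nat_lit 5) (nat_lit 432) (nat_lit 409) (nat_lit 179)) (XT.nd (nat_lit 78) (nat_lit 608) (nat_lit 0) (XT.lf (nat_lit 0) (nat_lit 335769314) (nat_lit 608) (nat_lit 22967477436) (nat_lit 76) (nat_lit 22122643123) (nat_lit 330) (nat_lit 5) (nat_lit 338) (nat_lit 5) (nat_lit 331) (nat_lit 5) (nat_lit 433) (nat_lit 409) (nat_lit 178)) (XT.lf (nat_lit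 0) (nat_lit 2357042315) (nat_lit 608) (nat_lit 3225702118) (nat_lit 684) (nat_lit 40599368512) (nat_lit 322) (nat_lit 5) (nat_lit 330) (nat_lit 5) (nat_lit 331) (nat_lit 5) (nat_lit 434) (nat_lit 409) (nat_lit 177)))) (XT.nd (nat_lit 156) (nat_lit 532) (nat_lit 0) (XT.nd (nat_lit 78) (nat_lit 532) (nat_lit 0) (XT.lf (nat_lit 0) (nat_lit 11387706924) (nat_lit 684) (nat_lit 18213557640) (nat_lit 76) (nat_lit 17347740801) (nat_lit 322) (nat_lit 5) (nat_lit 331) (nat_lit 5) (nat_lit 323) (nat_lit 5) (nat_lit 435) (nat_lit 409) (nat_lit 176)) (XT.lf (nat_lit 0) (nat_lit 8294743110) (nat_lit 532) (nat_lit 9182363647) (nat_lit 608) (nat_lit 30258489147) (nat_lit 315) (nat_lit 5) (nat_lit 322) (nat_lit 5) (nat_lit 323) (nat_lit 5) (nat_lit 436) (nat_lit 409) (nat_lit 175))) (XT.nd (nat_lit 78) (nat_lit 532) (nat_lit 0) (XT.lf (nat_lit 0) (nat_lit 24047473481) (nat_lit 608) (nat_lit 12685840859) (nat_lit 76)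 (nat_lit 11803521271) (nat_lit 315) (nat_lit 5) (nat_lit 323) (nat_lit 5) (nat_lit 316) (nat_lit 5) (nat_lit 437) (nat_lit 409) (nat_lit 174)) (XT.lf (nat_lit 0) (nat_lit 15073585277) (nat_lit 532) (nat_lit 15975858337) (nat_lit 608) (nat_lit 18305634126) (nat_lit 308) (nat_lit 5) (nat_lit 315) (nat_lit 5) (nat_lit 316) (nat_lit 5) (nat_lit 438) (nat_lit 409) (nat_lit 173))))) (XT.nd (nat_lit 312) (nat_lit 912) (nat_lit 0) (XT.nd (nat_lit 156) (nat_lit 608) (nat_lit 0) (XT.nd (nat_lit 78) (nat_lit 456) (nat_lit 0) (XT.lf (nat_lit 0) (nat_lit 38441497364) (nat_lit 608) (nat_lit 6322885177) (nat_lit 76) (nat_lit 5428083853) (nat_lit 308) (nat_lit 5) (nat_lit 316) (nat_lit 5) (nat_lit 309) (nat_lit 5) (nat_lit 439) (nat_lit 409) (nat_lit 172)) (XT.lf (nat_lit 0) (nat_lit 22758971637) (nat_lit 456) (nat_lit 23672033214) (nat_lit 532) (nat_lit 4612701096) (nat_lit 302) (nat_lit 5) (nat_lit 308) (nat_lit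 5) (nat_lit 309) (nat_lit 5) (nat_lit 440) (nat_lit 409) (nat_lit 171))) (XT.nd (nat_lit 78) (nat_lit 0) (nat_lit 0) (XT.lf (nat_lit 0) (nat_lit 913740185) (nat_lit 532) (nat_lit 1844530163) (nat_lit 608) (nat_lit 49159261746) (nat_lit 294) (nat_lit 5) (nat_lit 301) (nat_lit 5) (nat_lit 302) (nat_lit 5) (nat_lit 441) (nat_lit 409) (nat_lit 170)) (XT.lf (nat_lit 0) (nat_lit 10743264926) (nat_lit 608) (nat_lit 21489380080) (nat_lit 76) (nat_lit 20568989770) (nat_lit 294) (nat_lit 5) (nat_lit 302) (nat_lit 5) (nat_lit 295) (nat_lit 5) (nat_lit 442) (nat_lit 409) (nat_lit 169)))) (XT.nd (nat_lit 156) (nat_lit 456) (nat_lit 0) (XT.nd (nat_lit 78) (nat_lit 0) (nat_lit 0) (XT.lf (nat_lit 0) (nat_lit 9067715580) (nat_lit 456) (nat_lit 10004329888) (nat_lit 532) (nat_lit 34637087987) (nat_lit 288) (nat_lit 5) (nat_lit 294) (nat_lit 5) (nat_lit 295) (nat_lit 5) (nat_lit 443) (nat_lit 409) (nat_lit 168)) (XT.lf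 (nat_lit 0) (nat_lit 27992580883) (nat_lit 532) (nat_lit 13782823211) (nat_lit 76) (nat_lit 12858196257) (nat_lit 288) (nat_lit 5) (nat_lit 295) (nat_lit 5) (nat_lit 289) (nat_lit 5) (nat_lit 444) (nat_lit 409) (nat_lit 167))) (XT.nd (nat_lit 78) (nat_lit 0) (nat_lit 0) (XT.lf (nat_lit 0) (nat_lit 18257336747) (nat_lit 456) (nat_lit 19196810958) (nat_lit 532) (nat_lit 18123451088) (nat_lit 282) (nat_lit 5) (nat_lit 288) (nat_lit 5) (nat_lit 289) (nat_lit 5) (nat_lit 445) (nat_lit 409) (nat_lit 166)) (XT.lf (nat_lit 0) (nat_lit 47378016989) (nat_lit 532) (nat_lit 5046326192) (nat_lit 76) (nat_lit 4120220343) (nat_lit 282) (nat_lit 5) (nat_lit 289) (nat_lit 5) (nat_lit 283) (nat_lit 5) (nat_lit 446) (nat_lit 409) (nat_lit 165)))))) (XT.nd (nat_lit 624) (nat_lit 1748) (nat_lit 0) (XT.nd (nat_lit 312) (nat_lit 836) (nat_lit 0) (XT.nd (nat_lit 156) (nat_lit 380) (nat_lit 0) (XT.nd (nat_lit 78) (nat_lit 456)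 (nat_lit 0) (XT.lf (nat_lit 0) (nat_lit 526033834) (nat_lit 456) (nat_lit 28970067942) (nat_lit 76) (nat_lit 28030374750) (nat_lit 276) (nat_lit 5) (nat_lit 282) (nat_lit 5) (nat_lit 277) (nat_lit 5) (nat_lit 447) (nat_lit 409) (nat_lit 164)) (XT.lf (nat_lit 0) (nat_lit 4734078666) (nat_lit 456) (nat_lit 5686963454) (nat_lit 532) (nat_lit 48111205393) (nat_lit 270) (nat_lit 5) (nat_lit 276) (nat_lit 5) (nat_lit 277) (nat_lit 5) (nat_lit 448) (nat_lit 409) (nat_lit 163))) (XT.nd (nat_lit 78) (nat_lit 380) (nat_lit 0) (XT.lf (nat_lit 0) (nat_lit 21088340292) (nat_lit 532) (nat_lit 19701576676) (nat_lit 76) (nat_lit 18764011470) (nat_lit 270) (nat_lit 5) (nat_lit 277) (nat_lit 5) (nat_lit 271) (nat_lit 5) (nat_lit 449) (nat_lit 409) (nat_lit 162)) (XT.lf (nat_lit 0) (nat_lit 15665941536) (nat_lit 380) (nat_lit 16615578920) (nat_lit 456) (nat_lit 28318563445) (nat_lit 265) (nat_lit 5) (nat_lit 270) (nat_lit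 5) (nat_lit 271) (nat_lit 5) (nat_lit 450) (nat_lit 409) (nat_lit 161)))) (XT.nd (nat_lit 156) (nat_lit 456) (nat_lit 0) (XT.nd (nat_lit 78) (nat_lit 380) (nat_lit 0) (XT.lf (nat_lit 0) (nat_lit 44090023660) (nat_lit 456) (nat_lit 9256285884) (nat_lit 76) (nat_lit 8322928654) (nat_lit 265) (nat_lit 5) (nat_lit 271) (nat_lit 5) (nat_lit 266) (nat_lit 5) (nat_lit 451) (nat_lit 409) (nat_lit 160)) (XT.lf (nat_lit 0) (nat_lit 27869899846) (nat_lit 380) (nat_lit 28814304829) (nat_lit 456) (nat_lit 6073319768) (nat_lit 260) (nat_lit 5) (nat_lit 265) (nat_lit 5) (nat_lit 266) (nat_lit 5) (nat_lit 452) (nat_lit 409) (nat_lit 159))) (XT.nd (nat_lit 78) (nat_lit 0) (nat_lit 0) (XT.lf (nat_lit 0) (nat_lit 2413242733) (nat_lit 380) (nat_lit 3368373690) (nat_lit 456) (nat_lit 58091678394) (nat_lit 254) (nat_lit 5) (nat_lit 259) (nat_lit 5) (nat_lit 260) (nat_lit 5) (nat_lit 453) (nat_lit 409) (nat_lit 158)) (XT.lf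 (nat_lit 0) (nat_lit 18444507067) (nat_lit 456) (nat_lit 23748208962) (nat_lit 76) (nat_lit 22810787093) (nat_lit 254) (nat_lit 5) (nat_lit 260) (nat_lit 5) (nat_lit 255) (nat_lit 5) (nat_lit 454) (nat_lit 409) (nat_lit 157))))) (XT.nd (nat_lit 312) (nat_lit 608) (nat_lit 0) (XT.nd (nat_lit 156) (nat_lit 760) (nat_lit 0) (XT.nd (nat_lit 78) (nat_lit 0) (nat_lit 0) (XT.lf (nat_lit 0) (nat_lit 15360051938) (nat_lit 380) (nat_lit 16307289593) (nat_lit 456) (nat_lit 34494874435) (nat_lit 249) (nat_lit 5) (nat_lit 254) (nat_lit 5) (nat_lit 255) (nat_lit 5) (nat_lit 455) (nat_lit 409) (nat_lit 156)) (XT.lf (nat_lit 0) (nat_lit 45627649417) (nat_lit 456) (nat_lit 11323358826) (nat_lit 76) (nat_lit 10394458298) (nat_lit 249) (nat_lit 5) (nat_lit 255) (nat_lit 5) (nat_lit 250) (nat_lit 5) (nat_lit 456) (nat_lit 409) (nat_lit 155))) (XT.nd (nat_lit 78) (nat_lit 456) (nat_lit 0) (XT.lf (nat_lit 0) (nat_lit 29757743121)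 (nat_lit 304) (nat_lit 30695626484) (nat_lit 380) (nat_lit 8097446937) (nat_lit 245) (nat_lit 5) (nat_lit 249) (nat_lit 5) (nat_lit 250) (nat_lit 5) (nat_lit 457) (nat_lit 409) (nat_lit 154)) (XT.lf (nat_lit 0) (nat_lit 2503914786) (nat_lit 380) (nat_lit 3450519348) (nat_lit 456) (nat_lit 63832023023) (nat_lit 239) (nat_lit 5) (nat_lit 244) (nat_lit 5) (nat_lit 245) (nat_lit 5) (nat_lit 458) (nat_lit 409) (nat_lit 153)))) (XT.nd (nat_lit 156) (nat_lit 304) (nat_lit 0) (XT.nd (nat_lit 78) (nat_lit 304) (nat_lit 0) (XT.lf (nat_lit 0) (nat_lit 20896428979) (nat_lit 456) (nat_lit 25534323854) (nat_lit 76) (nat_lit 24607069733) (nat_lit 239) (nat_lit 5) (nat_lit 245) (nat_lit 5) (nat_lit 240) (nat_lit 5) (nat_lit 459) (nat_lit 409) (nat_lit 152)) (XT.lf (nat_lit 0) (nat_lit 17777819803) (nat_lit 304) (nat_lit 18713055056) (nat_lit 380) (nat_lit 35829728344) (nat_lit 235) (nat_lit 5) (nat_lit 239) (nat_lit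 5) (nat_lit 240) (nat_lit 5) (nat_lit 460) (nat_lit 409) (nat_lit 151))) (XT.nd (nat_lit 78) (nat_lit 304) (nat_lit 0) (XT.lf (nat_lit 0) (nat_lit 52907250535) (nat_lit 380) (nat_lit 10819756103) (nat_lit 76) (nat_lit 9904237728) (nat_lit 235) (nat_lit 5) (nat_lit 240) (nat_lit 5) (nat_lit 236) (nat_lit 5) (nat_lit 461) (nat_lit 409) (nat_lit 150)) (XT.lf (nat_lit 0) (nat_lit 34705677833) (nat_lit 304) (nat_lit 35628500074) (nat_lit 380) (nat_lit 4631485044) (nat_lit 231) (nat_lit 5) (nat_lit 235) (nat_lit 5) (nat_lit 236) (nat_lit 5) (nat_lit 462) (nat_lit 409) (nat_lit 149))))))))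
noncomputable def xc229 : XT := (XT.nd (nat_lit 50076) (nat_lit 0) (nat_lit 4940) (XT.nd (nat_lit 1326) (nat_lit 0) (nat_lit 0) (XT.nd (nat_lit 546) (nat_lit 1900) (nat_lit 0) (XT.nd (nat_lit 234) (nat_lit 608) (nat_lit 0) (XT.nd (nat_lit 78) (nat_lit 304) (nat_lit 0) (XT.lf (nat_lit 0) (nat_lit 5471464484) (nat_lit 304) (nat_lit 6401377858) (nat_lit 380) (nat_lit 64458964123) (nat_lit 226) (nat_lit 5) (nat_lit 230) (nat_lit 5) (nat_lit 231) (nat_lit 5) (nat_lit 463) (nat_lit 409) (nat_lit 148)) (XT.nd (nat_lit 78) (nat_lit 304) (nat_lit 0) (XT.lf (nat_lit 0) (nat_lit 29416809804) (nat_lit 380) (nat_lit 24605566713) (nat_lit 76) (nat_lit 23696054122) (nat_lit 226) (nat_lit 5) (nat_lit 231) (nat_lit 5) (nat_lit 227) (nat_lit 5) (nat_lit 464) (nat_lit 409) (nat_lit 147)) (XT.lf (nat_lit 0) (nat_lit 23429449596) (nat_lit 304) (nat_lit 24345451578) (nat_lit 380) (nat_lit 31363118218) (nat_lit 222) (nat_lit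 5) (nat_lit 226) (nat_lit 5) (nat_lit 227) (nat_lit 5) (nat_lit 465) (nat_lit 409) (nat_lit 146)))) (XT.nd (nat_lit 156) (nat_lit 304) (nat_lit 0) (XT.nd (nat_lit 78) (nat_lit 304) (nat_lit 0) (XT.lf (nat_lit 0) (nat_lit 66993685099) (nat_lit 380) (nat_lit 7246325700) (nat_lit 76) (nat_lit 6350886514) (nat_lit 222) (nat_lit 5) (nat_lit 227) (nat_lit 5) (nat_lit 223) (nat_lit 5) (nat_lit 466) (nat_lit 409) (nat_lit 145)) (XT.lf (nat_lit 0) (nat_lit 5272659404) (nat_lit 304) (nat_lit 38847421078) (nat_lit 76) (nat_lit 37946043180) (nat_lit 218) (nat_lit 5) (nat_lit 222) (nat_lit 5) (nat_lit 219) (nat_lit 5) (nat_lit 467) (nat_lit 409) (nat_lit 144))) (XT.nd (nat_lit 78) (nat_lit 0) (nat_lit 0) (XT.lf (nat_lit 0) (nat_lit 11857657409) (nat_lit 304) (nat_lit 12764801046) (nat_lit 380) (nat_lit 58953495919) (nat_lit 214) (nat_lit 5) (nat_lit 218) (nat_lit 5) (nat_lit 219) (nat_lit 5) (nat_lit 468) (nat_lit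 409) (nat_lit 143)) (XT.lf (nat_lit 0) (nat_lit 45135910689) (nat_lit 380) (nat_lit 20431915641) (nat_lit 76) (nat_lit 19545758900) (nat_lit 214) (nat_lit 5) (nat_lit 219) (nat_lit 5) (nat_lit 215) (nat_lit 5) (nat_lit 469) (nat_lit 409) (nat_lit 142))))) (XT.nd (nat_lit 312) (nat_lit 1064) (nat_lit 0) (XT.nd (nat_lit 156) (nat_lit 532) (nat_lit 0) (XT.nd (nat_lit 78) (nat_lit 76) (nat_lit 0) (XT.lf (nat_lit 0) (nat_lit 32907657558) (nat_lit 228) (nat_lit 33799090768) (nat_lit 304) (nat_lit 19977337229) (nat_lit 211) (nat_lit 5) (nat_lit 214) (nat_lit 5) (nat_lit 215) (nat_lit 5) (nat_lit 470) (nat_lit 409) (nat_lit 141)) (XT.lf (nat_lit 0) (nat_lit 818490330) (nat_lit 304) (nat_lit 38455992) (nat_lit 76) (nat_lit 87438345788) (nat_lit 210) (nat_lit 5) (nat_lit 214) (nat_lit 5) (nat_lit 211) (nat_lit 5) (nat_lit 471) (nat_lit 409) (nat_lit 140))) (XT.nd (nat_lit 78) (nat_lit 228) (nat_lit 0) (XT.lf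 (nat_lit 0) (nat_lit 22701508655) (nat_lit 380) (nat_lit 34048359277) (nat_lit 76) (nat_lit 33173087847) (nat_lit 206) (nat_lit 5) (nat_lit 211) (nat_lit 5) (nat_lit 207) (nat_lit 5) (nat_lit 472) (nat_lit 409) (nat_lit 139)) (XT.lf (nat_lit 0) (nat_lit 22291757995) (nat_lit 228) (nat_lit 23171717499) (nat_lit 304) (nat_lit 46129300126) (nat_lit 203) (nat_lit 5) (nat_lit 206) (nat_lit 5) (nat_lit 207) (nat_lit 5) (nat_lit 473) (nat_lit 409) (nat_lit 138)))) (XT.nd (nat_lit 156) (nat_lit 836) (nat_lit 0) (XT.nd (nat_lit 78) (nat_lit 228) (nat_lit 0) (XT.lf (nat_lit 0) (nat_lit 69364547959) (nat_lit 304) (nat_lit 12396601637) (nat_lit 76) (nat_lit 11537853062) (nat_lit 203) (nat_lit 5) (nat_lit 207) (nat_lit 5) (nat_lit 204) (nat_lit 5) (nat_lit 474) (nat_lit 409) (nat_lit 137)) (XT.lf (nat_lit 0) (nat_lit 46899594566) (nat_lit 228) (nat_lit 47762633392) (nat_lit 304) (nat_lit 373801287) (nat_lit 200)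 (nat_lit 5) (nat_lit 203) (nat_lit 5) (nat_lit 204) (nat_lit 5) (nat_lit 475) (nat_lit 409) (nat_lit 136))) (XT.nd (nat_lit 234) (nat_lit 532) (nat_lit 0) (XT.lf (nat_lit 0) (nat_lit 11397763202) (nat_lit 228) (nat_lit 12264967322) (nat_lit 304) (nat_lit 73148486376) (nat_lit 196) (nat_lit 5) (nat_lit 199) (nat_lit 5) (nat_lit 200) (nat_lit 5) (nat_lit 476) (nat_lit 409) (nat_lit 135)) (XT.lf (nat_lit 0) (nat_lit 197912928) (nat_lit 228) (nat_lit 1051297505) (nat_lit 304) (nat_lit 101108745168) (nat_lit 189) (nat_lit 5) (nat_lit 192) (nat_lit 5) (nat_lit 193) (nat_lit 5) (nat_lit 479) (nat_lit 409) (nat_lit 132)))))) (XT.nd (nat_lit 48126) (nat_lit 0) (nat_lit 13224) (XT.nd (nat_lit 47814) (nat_lit 0) (nat_lit 14136) (XT.nd (nat_lit 47658) (nat_lit 0) (nat_lit 14060) (XT.lf (nat_lit 0) (nat_lit 28388356854) (nat_lit 304) (nat_lit 38357420515) (nat_lit 76) (nat_lit 37525403431) (nat_lit 189) (nat_lit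 5) (nat_lit 193) (nat_lit 5) (nat_lit 190) (nat_lit 5) (nat_lit 480) (nat_lit 409) (nat_lit 131)) (XT.nd (nat_lit 78) (nat_lit 0) (nat_lit 0) (XT.lf (nat_lit 0) (nat_lit 9443805782) (nat_lit 1292) (nat_lit 3321813269) (nat_lit 1292) (nat_lit 3321813269) (nat_lit 374) (nat_lit 3) (nat_lit 391) (nat_lit 3) (nat_lit 391) (nat_lit 5) (nat_lit 410) (nat_lit 410) (nat_lit 200)) (XT.lf (nat_lit 76) (nat_lit 9631756034) (nat_lit 0) (nat_lit 9694949218) (nat_lit 1292) (nat_lit 13326108974) (nat_lit 375) (nat_lit 5) (nat_lit 374) (nat_lit 3) (nat_lit 391) (nat_lit 5) (nat_lit 411) (nat_lit 410) (nat_lit 199)))) (XT.nd (nat_lit 156) (nat_lit 0) (nat_lit 76) (XT.nd (nat_lit 78) (nat_lit 0) (nat_lit 0) (XT.lf (nat_lit 0) (nat_lit 19907857414) (nat_lit 1216) (nat_lit 6677148279) (nat_lit 1292) (nat_lit 6556230036) (nat_lit 375) (nat_lit 5) (nat_lit 391) (nat_lit 5) (nat_lit 392) (nat_lit 5) (nat_lit 412) (nat_lit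 410) (nat_lit 198)) (XT.lf (nat_lit 76) (nat_lit 10259957147) (nat_lit 0) (nat_lit 10438706105) (nat_lit 1292) (nat_lit 12939880050) (nat_lit 376) (nat_lit 5) (nat_lit 375) (nat_lit 5) (nat_lit 392) (nat_lit 5) (nat_lit 413) (nat_lit 410) (nat_lit 197))) (XT.nd (nat_lit 78) (nat_lit 0) (nat_lit 0) (XT.lf (nat_lit 0) (nat_lit 21638479338) (nat_lit 1216) (nat_lit 6368292929) (nat_lit 1292) (nat_lit 6140239255) (nat_lit 376) (nat_lit 5) (nat_lit 392) (nat_lit 5) (nat_lit 393) (nat_lit 5) (nat_lit 414) (nat_lit 410) (nat_lit 196)) (XT.lf (nat_lit 76) (nat_lit 11267457620) (nat_lit 0) (nat_lit 11548434590) (nat_lit 1292) (nat_lit 11848559508) (nat_lit 377) (nat_lit 5) (nat_lit 376) (nat_lit 5) (nat_lit 393) (nat_lit 5) (nat_lit 415) (nat_lit 410) (nat_lit 195))))) (XT.nd (nat_lit 312) (nat_lit 1064) (nat_lit 0) (XT.nd (nat_lit 156) (nat_lit 0) (nat_lit 76) (XT.nd (nat_lit 78) (nat_lit 0) (nat_lit 0) (XT.lf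 (nat_lit 0) (nat_lit 24143314811) (nat_lit 1216) (nat_lit 5686669073) (nat_lit 1292) (nat_lit 5363990615) (nat_lit 377) (nat_lit 5) (nat_lit 393) (nat_lit 5) (nat_lit 394) (nat_lit 5) (nat_lit 416) (nat_lit 410) (nat_lit 194)) (XT.lf (nat_lit 76) (nat_lit 12686803896) (nat_lit 0) (nat_lit 13057914668) (nat_lit 1292) (nat_lit 9987639645) (nat_lit 378) (nat_lit 5) (nat_lit 377) (nat_lit 5) (nat_lit 394) (nat_lit 5) (nat_lit 417) (nat_lit 410) (nat_lit 193))) (XT.nd (nat_lit 78) (nat_lit 0) (nat_lit 0) (XT.lf (nat_lit 0) (nat_lit 27490616721) (nat_lit 1216) (nat_lit 4599668482) (nat_lit 1292) (nat_lit 4193714661) (nat_lit 378) (nat_lit 5) (nat_lit 394) (nat_lit 5) (nat_lit 395) (nat_lit 5) (nat_lit 418) (nat_lit 410) (nat_lit 192)) (XT.lf (nat_lit 76) (nat_lit 14552886892) (nat_lit 0) (nat_lit 15003163141) (nat_lit 1292) (nat_lit 7288125986) (nat_lit 379) (nat_lit 5) (nat_lit 378) (nat_lit 5) (nat_lit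 395) (nat_lit 5) (nat_lit 419) (nat_lit 410) (nat_lit 191)))) (XT.nd (nat_lit 156) (nat_lit 1216) (nat_lit 0) (XT.nd (nat_lit 78) (nat_lit 0) (nat_lit 0) (XT.lf (nat_lit 0) (nat_lit 31753345517) (nat_lit 1216) (nat_lit 3072327258) (nat_lit 1292) (nat_lit 2593387712) (nat_lit 379) (nat_lit 5) (nat_lit 395) (nat_lit 5) (nat_lit 396) (nat_lit 5) (nat_lit 420) (nat_lit 410) (nat_lit 190)) (XT.lf (nat_lit 76) (nat_lit 16903088577) (nat_lit 0) (nat_lit 17422589424) (nat_lit 1292) (nat_lit 3676239941) (nat_lit 380) (nat_lit 5) (nat_lit 379) (nat_lit 5) (nat_lit 396) (nat_lit 5) (nat_lit 421) (nat_lit 410) (nat_lit 189))) (XT.nd (nat_lit 78) (nat_lit 1292) (nat_lit 0) (XT.lf (nat_lit 0) (nat_lit 37009479223) (nat_lit 1216) (nat_lit 1067177803) (nat_lit 1292) (nat_lit 524575134) (nat_lit 380) (nat_lit 5) (nat_lit 396) (nat_lit 5) (nat_lit 397) (nat_lit 5) (nat_lit 422) (nat_lit 410) (nat_lit 188)) (XT.lf (nat_lit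 0) (nat_lit 908809654) (nat_lit 1292) (nat_lit 19439173370) (nat_lit 1368) (nat_lit 18859451365) (nat_lit 363) (nat_lit 5) (nat_lit 380) (nat_lit 5) (nat_lit 381) (nat_lit 5) (nat_lit 423) (nat_lit 410) (nat_lit 187))))))) (XT.nd (nat_lit 1170) (nat_lit 4636) (nat_lit 0) (XT.nd (nat_lit 546) (nat_lit 2356) (nat_lit 0) (XT.nd (nat_lit 234) (nat_lit 1292) (nat_lit 0) (XT.nd (nat_lit 78) (nat_lit 0) (nat_lit 76) (XT.lf (nat_lit 76) (nat_lit 1429737421) (nat_lit 0) (nat_lit 2045497616) (nat_lit 1368) (nat_lit 36355429690) (nat_lit 364) (nat_lit 5) (nat_lit 363) (nat_lit 5) (nat_lit 381) (nat_lit 5) (nat_lit 424) (nat_lit 410) (nat_lit 186)) (XT.nd (nat_lit 78) (nat_lit 0) (nat_lit 0) (XT.lf (nat_lit 0) (nat_lit 6476697953) (nat_lit 1292) (nat_lit 17308473782) (nat_lit 1368) (nat_lit 16676678899) (nat_lit 364) (nat_lit 5) (nat_lit 381) (nat_lit 5) (nat_lit 382) (nat_lit 5) (nat_lit 425) (nat_lit 410) (nat_lit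 185)) (XT.lf (nat_lit 76) (nat_lit 4482537791) (nat_lit 0) (nat_lit 5147312722) (nat_lit 1368) (nat_lit 31480272233) (nat_lit 365) (nat_lit 5) (nat_lit 364) (nat_lit 5) (nat_lit 382) (nat_lit 5) (nat_lit 426) (nat_lit 410) (nat_lit 184)))) (XT.nd (nat_lit 156) (nat_lit 608) (nat_lit 0) (XT.nd (nat_lit 78) (nat_lit 836) (nat_lit 0) (XT.lf (nat_lit 0) (nat_lit 13187506407) (nat_lit 1292) (nat_lit 14628769382) (nat_lit 76) (nat_lit 13952269968) (nat_lit 365) (nat_lit 5) (nat_lit 382) (nat_lit 5) (nat_lit 366) (nat_lit 5) (nat_lit 427) (nat_lit 410) (nat_lit 183)) (XT.lf (nat_lit 0) (nat_lit 8136388662) (nat_lit 836) (nat_lit 8843069492) (nat_lit 912) (nat_lit 25463436321) (nat_lit 354) (nat_lit 5) (nat_lit 365) (nat_lit 5) (nat_lit 366) (nat_lit 5) (nat_lit 428) (nat_lit 410) (nat_lit 182))) (XT.nd (nat_lit 78) (nat_lit 608) (nat_lit 0) (XT.lf (nat_lit 0) (nat_lit 21135627028) (nat_lit 912) (nat_lit 11354439821)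 (nat_lit 76) (nat_lit 10639893047) (nat_lit 354) (nat_lit 5) (nat_lit 366) (nat_lit 5) (nat_lit 355) (nat_lit 5) (nat_lit 429) (nat_lit 410) (nat_lit 181)) (XT.lf (nat_lit 0) (nat_lit 12439960498) (nat_lit 608) (nat_lit 13182127543) (nat_lit 684) (nat_lit 18209381027) (nat_lit 346) (nat_lit 5) (nat_lit 354) (nat_lit 5) (nat_lit 355) (nat_lit 5) (nat_lit 430) (nat_lit 410) (nat_lit 180))))) (XT.nd (nat_lit 312) (nat_lit 1140) (nat_lit 0) (XT.nd (nat_lit 156) (nat_lit 608) (nat_lit 0) (XT.nd (nat_lit 78) (nat_lit 608) (nat_lit 0) (XT.lf (nat_lit 0) (nat_lit 30421892013) (nat_lit 684) (nat_lit 7436677156) (nat_lit 76) (nat_lit 6690091871) (nat_lit 346) (nat_lit 5) (nat_lit 355) (nat_lit 5) (nat_lit 347) (nat_lit 5) (nat_lit 431) (nat_lit 410) (nat_lit 179)) (XT.lf (nat_lit 0) (nat_lit 17445293091) (nat_lit 608) (nat_lit 18217154837) (nat_lit 684) (nat_lit 9616018111) (nat_lit 338) (nat_lit 5) (nat_lit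 346) (nat_lit 5) (nat_lit 347) (nat_lit 5) (nat_lit 432) (nat_lit 410) (nat_lit 178))) (XT.nd (nat_lit 78) (nat_lit 608) (nat_lit 0) (XT.lf (nat_lit 0) (nat_lit 41153990956) (nat_lit 684) (nat_lit 2823283471) (nat_lit 76) (nat_lit 2050077646) (nat_lit 338) (nat_lit 5) (nat_lit 347) (nat_lit 5) (nat_lit 339) (nat_lit 5) (nat_lit 433) (nat_lit 410) (nat_lit 177)) (XT.lf (nat_lit 0) (nat_lit 417405610) (nat_lit 608) (nat_lit 23582725715) (nat_lit 76) (nat_lit 22786388348) (nat_lit 330) (nat_lit 5) (nat_lit 338) (nat_lit 5) (nat_lit 331) (nat_lit 5) (nat_lit 434) (nat_lit 410) (nat_lit 176)))) (XT.nd (nat_lit 156) (nat_lit 532) (nat_lit 0) (XT.nd (nat_lit 78) (nat_lit 0) (nat_lit 0) (XT.lf (nat_lit 0) (nat_lit 2500806334) (nat_lit 608) (nat_lit 3319601510) (nat_lit 684) (nat_lit 41745063056) (nat_lit 322) (nat_lit 5) (nat_lit 330) (nat_lit 5) (nat_lit 331) (nat_lit 5) (nat_lit 435) (nat_lit 410) (nat_lit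 175)) (XT.lf (nat_lit 0) (nat_lit 11797501902) (nat_lit 684) (nat_lit 18687022061) (nat_lit 76) (nat_lit 17870906650) (nat_lit 322) (nat_lit 5) (nat_lit 331) (nat_lit 5) (nat_lit 323) (nat_lit 5) (nat_lit 436) (nat_lit 410) (nat_lit 174))) (XT.nd (nat_lit 78) (nat_lit 0) (nat_lit 0) (XT.lf (nat_lit 0) (nat_lit 8615812591) (nat_lit 532) (nat_lit 9452480078) (nat_lit 608) (nat_lit 31097364931) (nat_lit 315) (nat_lit 5) (nat_lit 322) (nat_lit 5) (nat_lit 323) (nat_lit 5) (nat_lit 437) (nat_lit 410) (nat_lit 173)) (XT.lf (nat_lit 0) (nat_lit 24833872617) (nat_lit 608) (nat_lit 12994394825) (nat_lit 76) (nat_lit 12162723990) (nat_lit 315) (nat_lit 5) (nat_lit 323) (nat_lit 5) (nat_lit 316) (nat_lit 5) (nat_lit 438) (nat_lit 410) (nat_lit 172)))))) (XT.nd (nat_lit 624) (nat_lit 2128) (nat_lit 0) (XT.nd (nat_lit 312) (nat_lit 912) (nat_lit 0) (XT.nd (nat_lit 156) (nat_lit 1064) (nat_lit 0) (XT.nd (nat_lit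 78) (nat_lit 0) (nat_lit 0) (XT.lf (nat_lit 0) (nat_lit 15597108005) (nat_lit 532) (nat_lit 16447586900) (nat_lit 608) (nat_lit 18789122127) (nat_lit 308) (nat_lit 5) (nat_lit 315) (nat_lit 5) (nat_lit 316) (nat_lit 5) (nat_lit 439) (nat_lit 410) (nat_lit 171)) (XT.lf (nat_lit 0) (nat_lit 39656723384) (nat_lit 608) (nat_lit 6441546818) (nat_lit 76) (nat_lit 5598110751) (nat_lit 308) (nat_lit 5) (nat_lit 316) (nat_lit 5) (nat_lit 309) (nat_lit 5) (nat_lit 440) (nat_lit 410) (nat_lit 170))) (XT.nd (nat_lit 78) (nat_lit 608) (nat_lit 0) (XT.lf (nat_lit 0) (nat_lit 23512069377) (nat_lit 456) (nat_lit 24372717484) (nat_lit 532) (nat_lit 4688404708) (nat_lit 302) (nat_lit 5) (nat_lit 308) (nat_lit 5) (nat_lit 309) (nat_lit 5) (nat_lit 441) (nat_lit 410) (nat_lit 169)) (XT.lf (nat_lit 0) (nat_lit 1012002557) (nat_lit 532) (nat_lit 1889361383) (nat_lit 608) (nat_lit 50571883753) (nat_lit 294) (nat_lit 5) (nat_lit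 301) (nat_lit 5) (nat_lit 302) (nat_lit 5) (nat_lit 442) (nat_lit 410) (nat_lit 168)))) (XT.nd (nat_lit 156) (nat_lit 456) (nat_lit 0) (XT.nd (nat_lit 78) (nat_lit 456) (nat_lit 0) (XT.lf (nat_lit 0) (nat_lit 11124248756) (nat_lit 608) (nat_lit 22063615314) (nat_lit 76) (nat_lit 21196059173) (nat_lit 294) (nat_lit 5) (nat_lit 302) (nat_lit 5) (nat_lit 295) (nat_lit 5) (nat_lit 443) (nat_lit 410) (nat_lit 167)) (XT.lf (nat_lit 0) (nat_lit 9409502568) (nat_lit 456) (nat_lit 10292351383) (nat_lit 532) (nat_lit 35616824095) (nat_lit 288) (nat_lit 5) (nat_lit 294) (nat_lit 5) (nat_lit 295) (nat_lit 5) (nat_lit 444) (nat_lit 410) (nat_lit 166))) (XT.nd (nat_lit 78) (nat_lit 456) (nat_lit 0) (XT.lf (nat_lit 0) (nat_lit 28888439388) (nat_lit 532) (nat_lit 14127018063) (nat_lit 76) (nat_lit 13255468478) (nat_lit 288) (nat_lit 5) (nat_lit 295) (nat_lit 5) (nat_lit 289) (nat_lit 5) (nat_lit 445) (nat_lit 410)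 (nat_lit 165)) (XT.lf (nat_lit 0) (nat_lit 18873667382) (nat_lit 456) (nat_lit 19759211930) (nat_lit 532) (nat_lit 18610394230) (nat_lit 282) (nat_lit 5) (nat_lit 288) (nat_lit 5) (nat_lit 289) (nat_lit 5) (nat_lit 446) (nat_lit 410) (nat_lit 164))))) (XT.nd (nat_lit 312) (nat_lit 1216) (nat_lit 0) (XT.nd (nat_lit 156) (nat_lit 456) (nat_lit 0) (XT.nd (nat_lit 78) (nat_lit 456) (nat_lit 0) (XT.lf (nat_lit 0) (nat_lit 48852985633) (nat_lit 532) (nat_lit 5129624769) (nat_lit 76) (nat_lit 4256681184) (nat_lit 282) (nat_lit 5) (nat_lit 289) (nat_lit 5) (nat_lit 283) (nat_lit 5) (nat_lit 447) (nat_lit 410) (nat_lit 163)) (XT.lf (nat_lit 0) (nat_lit 595051039) (nat_lit 456) (nat_lit 29770686828) (nat_lit 76) (nat_lit 28884935870) (nat_lit 276) (nat_lit 5) (nat_lit 282) (nat_lit 5) (nat_lit 277) (nat_lit 5) (nat_lit 448) (nat_lit 410) (nat_lit 162))) (XT.nd (nat_lit 78) (nat_lit 0) (nat_lit 0) (XT.lf (nat_lit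 0) (nat_lit 4943912775) (nat_lit 456) (nat_lit 5842098078) (nat_lit 532) (nat_lit 49500633961) (nat_lit 270) (nat_lit 5) (nat_lit 276) (nat_lit 5) (nat_lit 277) (nat_lit 5) (nat_lit 449) (nat_lit 410) (nat_lit 161)) (XT.lf (nat_lit 0) (nat_lit 21771947994) (nat_lit 532) (nat_lit 20225407350) (nat_lit 76) (nat_lit 19341662223) (nat_lit 270) (nat_lit 5) (nat_lit 277) (nat_lit 5) (nat_lit 271) (nat_lit 5) (nat_lit 450) (nat_lit 410) (nat_lit 160)))) (XT.nd (nat_lit 156) (nat_lit 836) (nat_lit 0) (XT.nd (nat_lit 78) (nat_lit 0) (nat_lit 0) (XT.lf (nat_lit 0) (nat_lit 16202477421) (nat_lit 380) (nat_lit 17097601735) (nat_lit 456) (nat_lit 29116503869) (nat_lit 265) (nat_lit 5) (nat_lit 270) (nat_lit 5) (nat_lit 271) (nat_lit 5) (nat_lit 451) (nat_lit 410) (nat_lit 159)) (XT.lf (nat_lit 0) (nat_lit 45461531323) (nat_lit 456) (nat_lit 9468049259) (nat_lit 76) (nat_lit 8588270553) (nat_lit 265) (nat_lit 5)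 (nat_lit 271) (nat_lit 5) (nat_lit 266) (nat_lit 5) (nat_lit 452) (nat_lit 410) (nat_lit 158))) (XT.nd (nat_lit 78) (nat_lit 456) (nat_lit 0) (XT.lf (nat_lit 0) (nat_lit 28771275717) (nat_lit 380) (nat_lit 29661467991) (nat_lit 456) (nat_lit 6206066082) (nat_lit 260) (nat_lit 5) (nat_lit 265) (nat_lit 5) (nat_lit 266) (nat_lit 5) (nat_lit 453) (nat_lit 410) (nat_lit 157)) (XT.lf (nat_lit 0) (nat_lit 2551234452) (nat_lit 380) (nat_lit 3451536985) (nat_lit 456) (nat_lit 59785291029) (nat_lit 254) (nat_lit 5) (nat_lit 259) (nat_lit 5) (nat_lit 260) (nat_lit 5) (nat_lit 454) (nat_lit 410) (nat_lit 156))))))))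
noncomputable def xc230 : XT := (XT.nd (nat_lit 50232) (nat_lit 0) (nat_lit 6764) (XT.nd (nat_lit 1170) (nat_lit 1596) (nat_lit 0) (XT.nd (nat_lit 546) (nat_lit 1596) (nat_lit 0) (XT.nd (nat_lit 234) (nat_lit 1064) (nat_lit 0) (XT.nd (nat_lit 78) (nat_lit 380) (nat_lit 0) (XT.lf (nat_lit 0) (nat_lit 19044326232) (nat_lit 456) (nat_lit 24395748743) (nat_lit 76) (nat_lit 23512138724) (nat_lit 254) (nat_lit 5) (nat_lit 260) (nat_lit 5) (nat_lit 255) (nat_lit 5) (nat_lit 455) (nat_lit 410) (nat_lit 155)) (XT.nd (nat_lit 78) (nat_lit 0) (nat_lit 0) (XT.lf (nat_lit 0) (nat_lit 15885123647) (nat_lit 380) (nat_lit 16777985985) (nat_lit 456) (nat_lit 35482600377) (nat_lit 249) (nat_lit 5) (nat_lit 254) (nat_lit 5) (nat_lit 255) (nat_lit 5) (nat_lit 456) (nat_lit 410) (nat_lit 154)) (XT.lf (nat_lit 0) (nat_lit 47041067155) (nat_lit 456) (nat_lit 11599501786) (nat_lit 76) (nat_lit 10723923948) (nat_lit 249) (nat_lit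 5) (nat_lit 255) (nat_lit 5) (nat_lit 250) (nat_lit 5) (nat_lit 457) (nat_lit 410) (nat_lit 153)))) (XT.nd (nat_lit 156) (nat_lit 304) (nat_lit 0) (XT.nd (nat_lit 78) (nat_lit 456) (nat_lit 0) (XT.lf (nat_lit 0) (nat_lit 30713410104) (nat_lit 304) (nat_lit 31597455125) (nat_lit 380) (nat_lit 8295158974) (nat_lit 245) (nat_lit 5) (nat_lit 249) (nat_lit 5) (nat_lit 250) (nat_lit 5) (nat_lit 458) (nat_lit 410) (nat_lit 152)) (XT.lf (nat_lit 0) (nat_lit 2642223499) (nat_lit 380) (nat_lit 3534489086) (nat_lit 456) (nat_lit 65702028923) (nat_lit 239) (nat_lit 5) (nat_lit 244) (nat_lit 5) (nat_lit 245) (nat_lit 5) (nat_lit 459) (nat_lit 410) (nat_lit 151))) (XT.nd (nat_lit 78) (nat_lit 304) (nat_lit 0) (XT.lf (nat_lit 0) (nat_lit 21565878464) (nat_lit 456) (nat_lit 26237914011) (nat_lit 76) (nat_lit 25363888070) (nat_lit 239) (nat_lit 5) (nat_lit 245) (nat_lit 5) (nat_lit 240) (nat_lit 5) (nat_lit 460) (nat_lit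 410) (nat_lit 150)) (XT.lf (nat_lit 0) (nat_lit 18372981803) (nat_lit 304) (nat_lit 19254530727) (nat_lit 380) (nat_lit 36861451426) (nat_lit 235) (nat_lit 5) (nat_lit 239) (nat_lit 5) (nat_lit 240) (nat_lit 5) (nat_lit 461) (nat_lit 410) (nat_lit 149))))) (XT.nd (nat_lit 312) (nat_lit 912) (nat_lit 0) (XT.nd (nat_lit 156) (nat_lit 380) (nat_lit 0) (XT.nd (nat_lit 78) (nat_lit 304) (nat_lit 0) (XT.lf (nat_lit 0) (nat_lit 54535344624) (nat_lit 380) (nat_lit 11083287325) (nat_lit 76) (nat_lit 10220323451) (nat_lit 235) (nat_lit 5) (nat_lit 240) (nat_lit 5) (nat_lit 236) (nat_lit 5) (nat_lit 462) (nat_lit 410) (nat_lit 148)) (XT.lf (nat_lit 0) (nat_lit 35807310987) (nat_lit 304) (nat_lit 36677159456) (nat_lit 380) (nat_lit 4728954381) (nat_lit 231) (nat_lit 5) (nat_lit 235) (nat_lit 5) (nat_lit 236) (nat_lit 5) (nat_lit 463) (nat_lit 410) (nat_lit 147))) (XT.nd (nat_lit 78) (nat_lit 0) (nat_lit 0) (XT.lf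 (nat_lit 0) (nat_lit 5696279860) (nat_lit 304) (nat_lit 6572812402) (nat_lit 380) (nat_lit 66351466455) (nat_lit 226) (nat_lit 5) (nat_lit 230) (nat_lit 5) (nat_lit 231) (nat_lit 5) (nat_lit 464) (nat_lit 410) (nat_lit 146)) (XT.lf (nat_lit 0) (nat_lit 30338404133) (nat_lit 380) (nat_lit 25283854786) (nat_lit 76) (nat_lit 24426551938) (nat_lit 226) (nat_lit 5) (nat_lit 231) (nat_lit 5) (nat_lit 227) (nat_lit 5) (nat_lit 465) (nat_lit 410) (nat_lit 145)))) (XT.nd (nat_lit 156) (nat_lit 608) (nat_lit 0) (XT.nd (nat_lit 78) (nat_lit 0) (nat_lit 0) (XT.lf (nat_lit 0) (nat_lit 24191624964) (nat_lit 304) (nat_lit 25055044685) (nat_lit 380) (nat_lit 32264334681) (nat_lit 222) (nat_lit 5) (nat_lit 226) (nat_lit 5) (nat_lit 227) (nat_lit 5) (nat_lit 466) (nat_lit 410) (nat_lit 144)) (XT.lf (nat_lit 0) (nat_lit 69041088951) (nat_lit 380) (nat_lit 7405222398) (nat_lit 76) (nat_lit 6561185084) (nat_lit 222) (nat_lit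 5) (nat_lit 227) (nat_lit 5) (nat_lit 223) (nat_lit 5) (nat_lit 467) (nat_lit 410) (nat_lit 143))) (XT.nd (nat_lit 78) (nat_lit 304) (nat_lit 0) (XT.lf (nat_lit 0) (nat_lit 5468261177) (nat_lit 304) (nat_lit 39954179328) (nat_lit 76) (nat_lit 39104544209) (nat_lit 218) (nat_lit 5) (nat_lit 222) (nat_lit 5) (nat_lit 219) (nat_lit 5) (nat_lit 468) (nat_lit 410) (nat_lit 142)) (XT.lf (nat_lit 0) (nat_lit 12271476373) (nat_lit 304) (nat_lit 13126546254) (nat_lit 380) (nat_lit 60684103665) (nat_lit 214) (nat_lit 5) (nat_lit 218) (nat_lit 5) (nat_lit 219) (nat_lit 5) (nat_lit 469) (nat_lit 410) (nat_lit 141)))))) (XT.nd (nat_lit 702) (nat_lit 532) (nat_lit 0) (XT.nd (nat_lit 234) (nat_lit 456) (nat_lit 0) (XT.nd (nat_lit 78) (nat_lit 608) (nat_lit 0) (XT.lf (nat_lit 0) (nat_lit 46526001791) (nat_lit 380) (nat_lit 20987599150) (nat_lit 76) (nat_lit 20152311432) (nat_lit 214) (nat_lit 5) (nat_lit 219) (nat_lit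 5) (nat_lit 215) (nat_lit 5) (nat_lit 470) (nat_lit 410) (nat_lit 140)) (XT.nd (nat_lit 78) (nat_lit 380) (nat_lit 0) (XT.lf (nat_lit 0) (nat_lit 33951599735) (nat_lit 228) (nat_lit 34791861032) (nat_lit 304) (nat_lit 20540082055) (nat_lit 211) (nat_lit 5) (nat_lit 214) (nat_lit 5) (nat_lit 215) (nat_lit 5) (nat_lit 471) (nat_lit 410) (nat_lit 139)) (XT.lf (nat_lit 0) (nat_lit 16465182) (nat_lit 304) (nat_lit 861555195) (nat_lit 380) (nat_lit 90065081237) (nat_lit 206) (nat_lit 5) (nat_lit 210) (nat_lit 5) (nat_lit 211) (nat_lit 5) (nat_lit 472) (nat_lit 410) (nat_lit 138)))) (XT.nd (nat_lit 156) (nat_lit 228) (nat_lit 0) (XT.nd (nat_lit 78) (nat_lit 228) (nat_lit 0) (XT.lf (nat_lit 0) (nat_lit 23417088219) (nat_lit 380) (nat_lit 35013773737) (nat_lit 76) (nat_lit 34188746468) (nat_lit 206) (nat_lit 5) (nat_lit 211) (nat_lit 5) (nat_lit 207) (nat_lit 5) (nat_lit 473) (nat_lit 410) (nat_lit 137)) (XT.lf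 (nat_lit 0) (nat_lit 23015997678) (nat_lit 228) (nat_lit 23845443906) (nat_lit 304) (nat_lit 47478095450) (nat_lit 203) (nat_lit 5) (nat_lit 206) (nat_lit 5) (nat_lit 207) (nat_lit 5) (nat_lit 474) (nat_lit 410) (nat_lit 136))) (XT.nd (nat_lit 78) (nat_lit 228) (nat_lit 0) (XT.lf (nat_lit 0) (nat_lit 71478754083) (nat_lit 304) (nat_lit 12713836728) (nat_lit 76) (nat_lit 11904383835) (nat_lit 203) (nat_lit 5) (nat_lit 207) (nat_lit 5) (nat_lit 204) (nat_lit 5) (nat_lit 475) (nat_lit 410) (nat_lit 135)) (XT.lf (nat_lit 0) (nat_lit 48360709449) (nat_lit 228) (nat_lit 49174206316) (nat_lit 304) (nat_lit 351209729) (nat_lit 200) (nat_lit 5) (nat_lit 203) (nat_lit 5) (nat_lit 204) (nat_lit 5) (nat_lit 476) (nat_lit 410) (nat_lit 134))))) (XT.nd (nat_lit 48048) (nat_lit 0) (nat_lit 13832) (XT.nd (nat_lit 47892) (nat_lit 0) (nat_lit 13756) (XT.nd (nat_lit 47814) (nat_lit 0) (nat_lit 13756) (XT.lf (nat_lit 0)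 (nat_lit 38681176749) (nat_lit 228) (nat_lit 39482085193) (nat_lit 304) (nat_lit 25313932339) (nat_lit 193) (nat_lit 5) (nat_lit 196) (nat_lit 5) (nat_lit 197) (nat_lit 5) (nat_lit 479) (nat_lit 410) (nat_lit 131)) (XT.lf (nat_lit 0) (nat_lit 9789705688) (nat_lit 1292) (nat_lit 3389236015) (nat_lit 1292) (nat_lit 3389236015) (nat_lit 374) (nat_lit 3) (nat_lit 391) (nat_lit 3) (nat_lit 391) (nat_lit 5) (nat_lit 411) (nat_lit 411) (nat_lit 198))) (XT.nd (nat_lit 78) (nat_lit 0) (nat_lit 76) (XT.lf (nat_lit 76) (nat_lit 9984540027) (nat_lit 0) (nat_lit 10044105664) (nat_lit 1292) (nat_lit 13600088785) (nat_lit 375) (nat_lit 5) (nat_lit 374) (nat_lit 3) (nat_lit 391) (nat_lit 5) (nat_lit 412) (nat_lit 411) (nat_lit 197)) (XT.lf (nat_lit 0) (nat_lit 20623130795) (nat_lit 1216) (nat_lit 6811388959) (nat_lit 1292) (nat_lit 6697411918) (nat_lit 375) (nat_lit 5) (nat_lit 391) (nat_lit 5) (nat_lit 392) (nat_lit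 5) (nat_lit 413) (nat_lit 411) (nat_lit 196)))) (XT.nd (nat_lit 156) (nat_lit 0) (nat_lit 76) (XT.nd (nat_lit 78) (nat_lit 0) (nat_lit 76) (XT.lf (nat_lit 76) (nat_lit 10633181848) (nat_lit 0) (nat_lit 10801669885) (nat_lit 1292) (nat_lit 13209391011) (nat_lit 376) (nat_lit 5) (nat_lit 375) (nat_lit 5) (nat_lit 392) (nat_lit 5) (nat_lit 414) (nat_lit 411) (nat_lit 195)) (XT.lf (nat_lit 0) (nat_lit 22399041339) (nat_lit 1216) (nat_lit 6492000380) (nat_lit 1292) (nat_lit 6277037920) (nat_lit 376) (nat_lit 5) (nat_lit 392) (nat_lit 5) (nat_lit 393) (nat_lit 5) (nat_lit 415) (nat_lit 411) (nat_lit 194))) (XT.nd (nat_lit 78) (nat_lit 0) (nat_lit 76) (XT.lf (nat_lit 76) (nat_lit 11672162476) (nat_lit 0) (nat_lit 11937010219) (nat_lit 1292) (nat_lit 12091948463) (nat_lit 377) (nat_lit 5) (nat_lit 376) (nat_lit 5) (nat_lit 393) (nat_lit 5) (nat_lit 416) (nat_lit 411) (nat_lit 193)) (XT.lf (nat_lit 0) (nat_lit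 24972855819) (nat_lit 1216) (nat_lit 5788968031) (nat_lit 1292) (nat_lit 5484812637) (nat_lit 377) (nat_lit 5) (nat_lit 393) (nat_lit 5) (nat_lit 394) (nat_lit 5) (nat_lit 417) (nat_lit 411) (nat_lit 192))))))) (XT.nd (nat_lit 1170) (nat_lit 4864) (nat_lit 0) (XT.nd (nat_lit 546) (nat_lit 1292) (nat_lit 0) (XT.nd (nat_lit 234) (nat_lit 1064) (nat_lit 0) (XT.nd (nat_lit 78) (nat_lit 0) (nat_lit 76) (XT.lf (nat_lit 76) (nat_lit 13135039509) (nat_lit 0) (nat_lit 13484847004) (nat_lit 1292) (nat_lit 10181357652) (nat_lit 378) (nat_lit 5) (nat_lit 377) (nat_lit 5) (nat_lit 394) (nat_lit 5) (nat_lit 418) (nat_lit 411) (nat_lit 191)) (XT.nd (nat_lit 78) (nat_lit 0) (nat_lit 0) (XT.lf (nat_lit 0) (nat_lit 28414838209) (nat_lit 1216) (nat_lit 4668673486) (nat_lit 1292) (nat_lit 4286023075) (nat_lit 378) (nat_lit 5) (nat_lit 394) (nat_lit 5) (nat_lit 395) (nat_lit 5) (nat_lit 419) (nat_lit 411) (nat_lit 190))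 (XT.lf (nat_lit 76) (nat_lit 15057782225) (nat_lit 0) (nat_lit 15482210776) (nat_lit 1292) (nat_lit 7406590456) (nat_lit 379) (nat_lit 5) (nat_lit 378) (nat_lit 5) (nat_lit 395) (nat_lit 5) (nat_lit 420) (nat_lit 411) (nat_lit 189)))) (XT.nd (nat_lit 156) (nat_lit 1216) (nat_lit 0) (XT.nd (nat_lit 78) (nat_lit 0) (nat_lit 0) (XT.lf (nat_lit 0) (nat_lit 32800104285) (nat_lit 1216) (nat_lit 3095074860) (nat_lit 1292) (nat_lit 2643628404) (nat_lit 379) (nat_lit 5) (nat_lit 395) (nat_lit 5) (nat_lit 396) (nat_lit 5) (nat_lit 421) (nat_lit 411) (nat_lit 188)) (XT.lf (nat_lit 76) (nat_lit 17478922840) (nat_lit 0) (nat_lit 17968602213) (nat_lit 1292) (nat_lit 3691688127) (nat_lit 380) (nat_lit 5) (nat_lit 379) (nat_lit 5) (nat_lit 396) (nat_lit 5) (nat_lit 422) (nat_lit 411) (nat_lit 187))) (XT.nd (nat_lit 78) (nat_lit 1292) (nat_lit 0) (XT.lf (nat_lit 0) (nat_lit 38208940688) (nat_lit 1216) (nat_lit 1029554090)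 (nat_lit 1292) (nat_lit 518099034) (nat_lit 380) (nat_lit 5) (nat_lit 396) (nat_lit 5) (nat_lit 397) (nat_lit 5) (nat_lit 423) (nat_lit 411) (nat_lit 186)) (XT.lf (nat_lit 0) (nat_lit 1024180278) (nat_lit 1292) (nat_lit 19951638771) (nat_lit 1368) (nat_lit 19405195181) (nat_lit 363) (nat_lit 5) (nat_lit 380) (nat_lit 5) (nat_lit 381) (nat_lit 5) (nat_lit 424) (nat_lit 411) (nat_lit 185))))) (XT.nd (nat_lit 312) (nat_lit 1292) (nat_lit 0) (XT.nd (nat_lit 156) (nat_lit 0) (nat_lit 76) (XT.nd (nat_lit 78) (nat_lit 0) (nat_lit 76) (XT.lf (nat_lit 76) (nat_lit 1542646110) (nat_lit 0) (nat_lit 2123059151) (nat_lit 1368) (nat_lit 37357293013) (nat_lit 364) (nat_lit 5) (nat_lit 363) (nat_lit 5) (nat_lit 381) (nat_lit 5) (nat_lit 425) (nat_lit 411) (nat_lit 184)) (XT.lf (nat_lit 0) (nat_lit 6754549844) (nat_lit 1292) (nat_lit 17757088526) (nat_lit 1368) (nat_lit 17161561254) (nat_lit 364) (nat_lit 5) (nat_lit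 381) (nat_lit 5) (nat_lit 382) (nat_lit 5) (nat_lit 426) (nat_lit 411) (nat_lit 183))) (XT.nd (nat_lit 78) (nat_lit 0) (nat_lit 76) (XT.lf (nat_lit 76) (nat_lit 4686960850) (nat_lit 0) (nat_lit 5313574980) (nat_lit 1368) (nat_lit 32340436904) (nat_lit 365) (nat_lit 5) (nat_lit 364) (nat_lit 5) (nat_lit 382) (nat_lit 5) (nat_lit 427) (nat_lit 411) (nat_lit 182)) (XT.lf (nat_lit 0) (nat_lit 13662428649) (nat_lit 1292) (nat_lit 14997230075) (nat_lit 76) (nat_lit 14359564495) (nat_lit 365) (nat_lit 5) (nat_lit 382) (nat_lit 5) (nat_lit 366) (nat_lit 5) (nat_lit 428) (nat_lit 411) (nat_lit 181)))) (XT.nd (nat_lit 156) (nat_lit 608) (nat_lit 0) (XT.nd (nat_lit 78) (nat_lit 0) (nat_lit 0) (XT.lf (nat_lit 0) (nat_lit 8450192491) (nat_lit 836) (nat_lit 9116306950) (nat_lit 912) (nat_lit 26147352142) (nat_lit 354) (nat_lit 5) (nat_lit 365) (nat_lit 5) (nat_lit 366) (nat_lit 5) (nat_lit 429) (nat_lit 411) (nat_lit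 180)) (XT.lf (nat_lit 0) (nat_lit 21845017360) (nat_lit 912) (nat_lit 11625055276) (nat_lit 76) (nat_lit 10951526411) (nat_lit 354) (nat_lit 5) (nat_lit 366) (nat_lit 5) (nat_lit 355) (nat_lit 5) (nat_lit 430) (nat_lit 411) (nat_lit 179))) (XT.nd (nat_lit 78) (nat_lit 0) (nat_lit 0) (XT.lf (nat_lit 0) (nat_lit 12882490603) (nat_lit 608) (nat_lit 13582054224) (nat_lit 684) (nat_lit 18679654488) (nat_lit 346) (nat_lit 5) (nat_lit 354) (nat_lit 5) (nat_lit 355) (nat_lit 5) (nat_lit 431) (nat_lit 411) (nat_lit 178)) (XT.lf (nat_lit 0) (nat_lit 31406151925) (nat_lit 684) (nat_lit 7590274544) (nat_lit 76) (nat_lit 6886546309) (nat_lit 346) (nat_lit 5) (nat_lit 355) (nat_lit 5) (nat_lit 347) (nat_lit 5) (nat_lit 432) (nat_lit 411) (nat_lit 177)))))) (XT.nd (nat_lit 624) (nat_lit 1976) (nat_lit 0) (XT.nd (nat_lit 312) (nat_lit 1064) (nat_lit 0) (XT.nd (nat_lit 156) (nat_lit 1216) (nat_lit 0) (XT.nd (nat_lit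 78) (nat_lit 0) (nat_lit 0) (XT.lf (nat_lit 0) (nat_lit 18037473409) (nat_lit 608) (nat_lit 18765027133) (nat_lit 684) (nat_lit 9832214101) (nat_lit 338) (nat_lit 5) (nat_lit 346) (nat_lit 5) (nat_lit 347) (nat_lit 5) (nat_lit 433) (nat_lit 411) (nat_lit 176)) (XT.lf (nat_lit 0) (nat_lit 42456733138) (nat_lit 684) (nat_lit 2839108236) (nat_lit 76) (nat_lit 2110287588) (nat_lit 338) (nat_lit 5) (nat_lit 347) (nat_lit 5) (nat_lit 339) (nat_lit 5) (nat_lit 434) (nat_lit 411) (nat_lit 175))) (XT.nd (nat_lit 78) (nat_lit 608) (nat_lit 0) (XT.lf (nat_lit 0) (nat_lit 497382973) (nat_lit 608) (nat_lit 24220666490) (nat_lit 76) (nat_lit 23470042145) (nat_lit 330) (nat_lit 5) (nat_lit 338) (nat_lit 5) (nat_lit 331) (nat_lit 5) (nat_lit 435) (nat_lit 411) (nat_lit 174)) (XT.lf (nat_lit 0) (nat_lit 2644689747) (nat_lit 608) (nat_lit 3416482731) (nat_lit 684) (nat_lit 42929277978) (nat_lit 322) (nat_lit 5) (nat_lit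 330) (nat_lit 5) (nat_lit 331) (nat_lit 5) (nat_lit 436) (nat_lit 411) (nat_lit 173)))) (XT.nd (nat_lit 156) (nat_lit 532) (nat_lit 0) (XT.nd (nat_lit 78) (nat_lit 532) (nat_lit 0) (XT.lf (nat_lit 0) (nat_lit 12215677849) (nat_lit 684) (nat_lit 19178877602) (nat_lit 76) (nat_lit 18409610554) (nat_lit 322) (nat_lit 5) (nat_lit 331) (nat_lit 5) (nat_lit 323) (nat_lit 5) (nat_lit 437) (nat_lit 411) (nat_lit 172)) (XT.lf (nat_lit 0) (nat_lit 8942368020) (nat_lit 532) (nat_lit 9731007371) (nat_lit 608) (nat_lit 31965360918) (nat_lit 315) (nat_lit 5) (nat_lit 322) (nat_lit 5) (nat_lit 323) (nat_lit 5) (nat_lit 438) (nat_lit 411) (nat_lit 171))) (XT.nd (nat_lit 78) (nat_lit 532) (nat_lit 0) (XT.lf (nat_lit 0) (nat_lit 25640133901) (nat_lit 608) (nat_lit 13316339724) (nat_lit 76) (nat_lit 12532410198) (nat_lit 315) (nat_lit 5) (nat_lit 323) (nat_lit 5) (nat_lit 316) (nat_lit 5) (nat_lit 439) (nat_lit 411) (nat_lit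 170)) (XT.lf (nat_lit 0) (nat_lit 16132242632) (nat_lit 532) (nat_lit 16933900560) (nat_lit 608) (nat_lit 19290885127) (nat_lit 308) (nat_lit 5) (nat_lit 315) (nat_lit 5) (nat_lit 316) (nat_lit 5) (nat_lit 440) (nat_lit 411) (nat_lit 169))))) (XT.nd (nat_lit 312) (nat_lit 912) (nat_lit 0) (XT.nd (nat_lit 156) (nat_lit 608) (nat_lit 0) (XT.nd (nat_lit 78) (nat_lit 456) (nat_lit 0) (XT.lf (nat_lit 0) (nat_lit 40904848215) (nat_lit 608) (nat_lit 6567845430) (nat_lit 76) (nat_lit 5772826044) (nat_lit 308) (nat_lit 5) (nat_lit 316) (nat_lit 5) (nat_lit 309) (nat_lit 5) (nat_lit 441) (nat_lit 411) (nat_lit 168)) (XT.lf (nat_lit 0) (nat_lit 24283722900) (nat_lit 456) (nat_lit 25094966285) (nat_lit 532) (nat_lit 4769977368) (nat_lit 302) (nat_lit 5) (nat_lit 308) (nat_lit 5) (nat_lit 309) (nat_lit 5) (nat_lit 442) (nat_lit 411) (nat_lit 167))) (XT.nd (nat_lit 78) (nat_lit 0) (nat_lit 0) (XT.lf (nat_lit 0) (nat_lit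 1109145711) (nat_lit 532) (nat_lit 1936140551) (nat_lit 608) (nat_lit 52030452420) (nat_lit 294) (nat_lit 5) (nat_lit 301) (nat_lit 5) (nat_lit 302) (nat_lit 5) (nat_lit 443) (nat_lit 411) (nat_lit 166)) (XT.lf (nat_lit 0) (nat_lit 11513293291) (nat_lit 608) (nat_lit 22659121503) (nat_lit 76) (nat_lit 21841366634) (nat_lit 294) (nat_lit 5) (nat_lit 302) (nat_lit 5) (nat_lit 295) (nat_lit 5) (nat_lit 444) (nat_lit 411) (nat_lit 165)))) (XT.nd (nat_lit 156) (nat_lit 456) (nat_lit 0) (XT.nd (nat_lit 78) (nat_lit 0) (nat_lit 0) (XT.lf (nat_lit 0) (nat_lit 9757538912) (nat_lit 456) (nat_lit 10589708593) (nat_lit 532) (nat_lit 36629360743) (nat_lit 288) (nat_lit 5) (nat_lit 294) (nat_lit 5) (nat_lit 295) (nat_lit 5) (nat_lit 445) (nat_lit 411) (nat_lit 164)) (XT.lf (nat_lit 0) (nat_lit 29807954364) (nat_lit 532) (nat_lit 14485516281) (nat_lit 76) (nat_lit 13663997208) (nat_lit 288) (nat_lit 5) (nat_lit 295)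 (nat_lit 5) (nat_lit 289) (nat_lit 5) (nat_lit 446) (nat_lit 411) (nat_lit 163))) (XT.nd (nat_lit 78) (nat_lit 0) (nat_lit 0) (XT.lf (nat_lit 0) (nat_lit 19504549410) (nat_lit 456) (nat_lit 20339260079) (nat_lit 532) (nat_lit 19115203945) (nat_lit 282) (nat_lit 5) (nat_lit 288) (nat_lit 5) (nat_lit 289) (nat_lit 5) (nat_lit 447) (nat_lit 411) (nat_lit 162)) (XT.lf (nat_lit 0) (nat_lit 50369124861) (nat_lit 532) (nat_lit 5219331017) (nat_lit 76) (nat_lit 4396497965) (nat_lit 282) (nat_lit 5) (nat_lit 289) (nat_lit 5) (nat_lit 283) (nat_lit 5) (nat_lit 448) (nat_lit 411) (nat_lit 161))))))))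
noncomputable def xc231 : XT := (XT.nd (nat_lit 50466) (nat_lit 0) (nat_lit 7448) (XT.nd (nat_lit 1170) (nat_lit 2964) (nat_lit 0) (XT.nd (nat_lit 546) (nat_lit 1444) (nat_lit 0) (XT.nd (nat_lit 234) (nat_lit 1216) (nat_lit 0) (XT.nd (nat_lit 78) (nat_lit 456) (nat_lit 0) (XT.lf (nat_lit 0) (nat_lit 663082785) (nat_lit 456) (nat_lit 30599255494) (nat_lit 76) (nat_lit 29764350264) (nat_lit 276) (nat_lit 5) (nat_lit 282) (nat_lit 5) (nat_lit 277) (nat_lit 5) (nat_lit 449) (nat_lit 411) (nat_lit 160)) (XT.nd (nat_lit 78) (nat_lit 0) (nat_lit 0) (XT.lf (nat_lit 0) (nat_lit 5156149235) (nat_lit 456) (nat_lit 6002775027) (nat_lit 532) (nat_lit 50934839903) (nat_lit 270) (nat_lit 5) (nat_lit 276) (nat_lit 5) (nat_lit 277) (nat_lit 5) (nat_lit 450) (nat_lit 411) (nat_lit 159)) (XT.lf (nat_lit 0) (nat_lit 22473138758) (nat_lit 532) (nat_lit 20768811454) (nat_lit 76) (nat_lit 19935796912) (nat_lit 270) (nat_lit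 5) (nat_lit 277) (nat_lit 5) (nat_lit 271) (nat_lit 5) (nat_lit 451) (nat_lit 411) (nat_lit 158)))) (XT.nd (nat_lit 156) (nat_lit 836) (nat_lit 0) (XT.nd (nat_lit 78) (nat_lit 0) (nat_lit 0) (XT.lf (nat_lit 0) (nat_lit 16751288703) (nat_lit 380) (nat_lit 17595029219) (nat_lit 456) (nat_lit 29941345502) (nat_lit 265) (nat_lit 5) (nat_lit 270) (nat_lit 5) (nat_lit 271) (nat_lit 5) (nat_lit 452) (nat_lit 411) (nat_lit 157)) (XT.lf (nat_lit 0) (nat_lit 46871382497) (nat_lit 456) (nat_lit 9689949912) (nat_lit 76) (nat_lit 8860674103) (nat_lit 265) (nat_lit 5) (nat_lit 271) (nat_lit 5) (nat_lit 266) (nat_lit 5) (nat_lit 453) (nat_lit 411) (nat_lit 156))) (XT.nd (nat_lit 78) (nat_lit 456) (nat_lit 0) (XT.lf (nat_lit 0) (nat_lit 29695945590) (nat_lit 380) (nat_lit 30535037185) (nat_lit 456) (nat_lit 6345633606) (nat_lit 260) (nat_lit 5) (nat_lit 265) (nat_lit 5) (nat_lit 266) (nat_lit 5) (nat_lit 454) (nat_lit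 411) (nat_lit 155)) (XT.lf (nat_lit 0) (nat_lit 2689600534) (nat_lit 380) (nat_lit 3538222018) (nat_lit 456) (nat_lit 61532532748) (nat_lit 254) (nat_lit 5) (nat_lit 259) (nat_lit 5) (nat_lit 260) (nat_lit 5) (nat_lit 455) (nat_lit 411) (nat_lit 154))))) (XT.nd (nat_lit 312) (nat_lit 760) (nat_lit 0) (XT.nd (nat_lit 156) (nat_lit 304) (nat_lit 0) (XT.nd (nat_lit 78) (nat_lit 380) (nat_lit 0) (XT.lf (nat_lit 0) (nat_lit 19659471602) (nat_lit 456) (nat_lit 25066440614) (nat_lit 76) (nat_lit 24233553425) (nat_lit 254) (nat_lit 5) (nat_lit 260) (nat_lit 5) (nat_lit 255) (nat_lit 5) (nat_lit 456) (nat_lit 411) (nat_lit 153)) (XT.lf (nat_lit 0) (nat_lit 16422258137) (nat_lit 380) (nat_lit 17263866525) (nat_lit 456) (nat_lit 36502662995) (nat_lit 249) (nat_lit 5) (nat_lit 254) (nat_lit 5) (nat_lit 255) (nat_lit 5) (nat_lit 457) (nat_lit 411) (nat_lit 152))) (XT.nd (nat_lit 78) (nat_lit 304) (nat_lit 0) (XT.lf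 (nat_lit 0) (nat_lit 48494327876) (nat_lit 456) (nat_lit 11887577514) (nat_lit 76) (nat_lit 11062261425) (nat_lit 249) (nat_lit 5) (nat_lit 255) (nat_lit 5) (nat_lit 250) (nat_lit 5) (nat_lit 458) (nat_lit 411) (nat_lit 151)) (XT.lf (nat_lit 0) (nat_lit 31694134387) (nat_lit 304) (nat_lit 32527431607) (nat_lit 380) (nat_lit 8501397691) (nat_lit 245) (nat_lit 5) (nat_lit 249) (nat_lit 5) (nat_lit 250) (nat_lit 5) (nat_lit 459) (nat_lit 411) (nat_lit 150)))) (XT.nd (nat_lit 156) (nat_lit 304) (nat_lit 0) (XT.nd (nat_lit 78) (nat_lit 0) (nat_lit 0) (XT.lf (nat_lit 0) (nat_lit 2781054036) (nat_lit 380) (nat_lit 3622099928) (nat_lit 456) (nat_lit 67630715590) (nat_lit 239) (nat_lit 5) (nat_lit 244) (nat_lit 5) (nat_lit 245) (nat_lit 5) (nat_lit 460) (nat_lit 411) (nat_lit 149)) (XT.lf (nat_lit 0) (nat_lit 22252968510) (nat_lit 456) (nat_lit 26966196159) (nat_lit 76) (nat_lit 26142342882) (nat_lit 239) (nat_lit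 5) (nat_lit 245) (nat_lit 5) (nat_lit 240) (nat_lit 5) (nat_lit 461) (nat_lit 411) (nat_lit 148))) (XT.nd (nat_lit 78) (nat_lit 0) (nat_lit 0) (XT.lf (nat_lit 0) (nat_lit 18982449517) (nat_lit 304) (nat_lit 19813393927) (nat_lit 380) (nat_lit 37926604265) (nat_lit 235) (nat_lit 5) (nat_lit 239) (nat_lit 5) (nat_lit 240) (nat_lit 5) (nat_lit 462) (nat_lit 411) (nat_lit 147)) (XT.lf (nat_lit 0) (nat_lit 56209935053) (nat_lit 380) (nat_lit 11358229662) (nat_lit 76) (nat_lit 10544803444) (nat_lit 235) (nat_lit 5) (nat_lit 240) (nat_lit 5) (nat_lit 236) (nat_lit 5) (nat_lit 463) (nat_lit 411) (nat_lit 146)))))) (XT.nd (nat_lit 624) (nat_lit 1368) (nat_lit 0) (XT.nd (nat_lit 312) (nat_lit 608) (nat_lit 0) (XT.nd (nat_lit 156) (nat_lit 304) (nat_lit 0) (XT.nd (nat_lit 78) (nat_lit 380) (nat_lit 0) (XT.lf (nat_lit 0) (nat_lit 36938522322) (nat_lit 304) (nat_lit 37758437931) (nat_lit 380) (nat_lit 4831728645)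 (nat_lit 231) (nat_lit 5) (nat_lit 235) (nat_lit 5) (nat_lit 236) (nat_lit 5) (nat_lit 464) (nat_lit 411) (nat_lit 145)) (XT.lf (nat_lit 0) (nat_lit 5924356909) (nat_lit 304) (nat_lit 6750572898) (nat_lit 380) (nat_lit 68303112729) (nat_lit 226) (nat_lit 5) (nat_lit 230) (nat_lit 5) (nat_lit 231) (nat_lit 5) (nat_lit 465) (nat_lit 411) (nat_lit 144))) (XT.nd (nat_lit 78) (nat_lit 304) (nat_lit 0) (XT.lf (nat_lit 0) (nat_lit 31285402365) (nat_lit 380) (nat_lit 25985928796) (nat_lit 76) (nat_lit 25177838639) (nat_lit 226) (nat_lit 5) (nat_lit 231) (nat_lit 5) (nat_lit 227) (nat_lit 5) (nat_lit 466) (nat_lit 411) (nat_lit 143)) (XT.lf (nat_lit 0) (nat_lit 24973261997) (nat_lit 304) (nat_lit 25787117894) (nat_lit 380) (nat_lit 33194865265) (nat_lit 222) (nat_lit 5) (nat_lit 226) (nat_lit 5) (nat_lit 227) (nat_lit 5) (nat_lit 467) (nat_lit 411) (nat_lit 142)))) (XT.nd (nat_lit 156) (nat_lit 304) (nat_lit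 0) (XT.nd (nat_lit 78) (nat_lit 304) (nat_lit 0) (XT.lf (nat_lit 0) (nat_lit 71147756910) (nat_lit 380) (nat_lit 7572243738) (nat_lit 76) (nat_lit 6776657619) (nat_lit 222) (nat_lit 5) (nat_lit 227) (nat_lit 5) (nat_lit 223) (nat_lit 5) (nat_lit 468) (nat_lit 411) (nat_lit 141)) (XT.lf (nat_lit 0) (nat_lit 5667582827) (nat_lit 304) (nat_lit 41097507900) (nat_lit 76) (nat_lit 40296645313) (nat_lit 218) (nat_lit 5) (nat_lit 222) (nat_lit 5) (nat_lit 219) (nat_lit 5) (nat_lit 469) (nat_lit 411) (nat_lit 140))) (XT.nd (nat_lit 78) (nat_lit 0) (nat_lit 0) (XT.lf (nat_lit 0) (nat_lit 12694375346) (nat_lit 304) (nat_lit 13500360718) (nat_lit 380) (nat_lit 62468810835) (nat_lit 214) (nat_lit 5) (nat_lit 218) (nat_lit 5) (nat_lit 219) (nat_lit 5) (nat_lit 470) (nat_lit 411) (nat_lit 139)) (XT.lf (nat_lit 0) (nat_lit 47955728288) (nat_lit 380) (nat_lit 21563240925) (nat_lit 76) (nat_lit 20775902138) (nat_lit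 214) (nat_lit 5) (nat_lit 219) (nat_lit 5) (nat_lit 215) (nat_lit 5) (nat_lit 471) (nat_lit 411) (nat_lit 138))))) (XT.nd (nat_lit 546) (nat_lit 532) (nat_lit 0) (XT.nd (nat_lit 156) (nat_lit 228) (nat_lit 0) (XT.nd (nat_lit 78) (nat_lit 380) (nat_lit 0) (XT.lf (nat_lit 0) (nat_lit 35023604651) (nat_lit 228) (nat_lit 35815631512) (nat_lit 304) (nat_lit 21121808798) (nat_lit 211) (nat_lit 5) (nat_lit 214) (nat_lit 5) (nat_lit 215) (nat_lit 5) (nat_lit 472) (nat_lit 411) (nat_lit 137)) (XT.lf (nat_lit 0) (nat_lit 70558123) (nat_lit 304) (nat_lit 867136512) (nat_lit 380) (nat_lit 92732700017) (nat_lit 206) (nat_lit 5) (nat_lit 210) (nat_lit 5) (nat_lit 211) (nat_lit 5) (nat_lit 473) (nat_lit 411) (nat_lit 136))) (XT.nd (nat_lit 78) (nat_lit 228) (nat_lit 0) (XT.lf (nat_lit 0) (nat_lit 24152152759) (nat_lit 380) (nat_lit 36011367345) (nat_lit 76) (nat_lit 35233700016) (nat_lit 206) (nat_lit 5) (nat_lit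 211) (nat_lit 5) (nat_lit 207) (nat_lit 5) (nat_lit 474) (nat_lit 411) (nat_lit 135)) (XT.lf (nat_lit 0) (nat_lit 23758779373) (nat_lit 228) (nat_lit 24540611995) (nat_lit 304) (nat_lit 48869368581) (nat_lit 203) (nat_lit 5) (nat_lit 206) (nat_lit 5) (nat_lit 207) (nat_lit 5) (nat_lit 475) (nat_lit 411) (nat_lit 134)))) (XT.nd (nat_lit 47970) (nat_lit 0) (nat_lit 13528) (XT.nd (nat_lit 47892) (nat_lit 0) (nat_lit 13528) (XT.lf (nat_lit 0) (nat_lit 52192084227) (nat_lit 304) (nat_lit 26590616415) (nat_lit 76) (nat_lit 25839070156) (nat_lit 196) (nat_lit 5) (nat_lit 200) (nat_lit 5) (nat_lit 197) (nat_lit 5) (nat_lit 479) (nat_lit 411) (nat_lit 130)) (XT.lf (nat_lit 0) (nat_lit 10142389914) (nat_lit 1292) (nat_lit 3460531672) (nat_lit 1292) (nat_lit 3460531672) (nat_lit 374) (nat_lit 3) (nat_lit 391) (nat_lit 3) (nat_lit 391) (nat_lit 5) (nat_lit 412) (nat_lit 412) (nat_lit 196))) (XT.nd (nat_lit 78)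 (nat_lit 0) (nat_lit 76) (XT.lf (nat_lit 76) (nat_lit 10344243361) (nat_lit 0) (nat_lit 10400389686) (nat_lit 1292) (nat_lit 13889509624) (nat_lit 375) (nat_lit 5) (nat_lit 374) (nat_lit 3) (nat_lit 391) (nat_lit 5) (nat_lit 413) (nat_lit 412) (nat_lit 195)) (XT.lf (nat_lit 0) (nat_lit 21353086532) (nat_lit 1216) (nat_lit 6953449764) (nat_lit 1292) (nat_lit 6846015471) (nat_lit 375) (nat_lit 5) (nat_lit 391) (nat_lit 5) (nat_lit 392) (nat_lit 5) (nat_lit 414) (nat_lit 412) (nat_lit 194))))))) (XT.nd (nat_lit 1170) (nat_lit 5244) (nat_lit 0) (XT.nd (nat_lit 546) (nat_lit 912) (nat_lit 0) (XT.nd (nat_lit 234) (nat_lit 0) (nat_lit 152) (XT.nd (nat_lit 78) (nat_lit 0) (nat_lit 76) (XT.lf (nat_lit 76) (nat_lit 11013847571) (nat_lit 0) (nat_lit 11172663705) (nat_lit 1292) (nat_lit 13493800331) (nat_lit 376) (nat_lit 5) (nat_lit 375) (nat_lit 5) (nat_lit 392) (nat_lit 5) (nat_lit 415) (nat_lit 412) (nat_lit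 193)) (XT.nd (nat_lit 78) (nat_lit 0) (nat_lit 0) (XT.lf (nat_lit 0) (nat_lit 23176024947) (nat_lit 1216) (nat_lit 6623284722) (nat_lit 1292) (nat_lit 6420661987) (nat_lit 376) (nat_lit 5) (nat_lit 392) (nat_lit 5) (nat_lit 393) (nat_lit 5) (nat_lit 416) (nat_lit 412) (nat_lit 192)) (XT.lf (nat_lit 76) (nat_lit 12085180708) (nat_lit 0) (nat_lit 12334825107) (nat_lit 1292) (nat_lit 12349072238) (nat_lit 377) (nat_lit 5) (nat_lit 376) (nat_lit 5) (nat_lit 393) (nat_lit 5) (nat_lit 417) (nat_lit 412) (nat_lit 191)))) (XT.nd (nat_lit 156) (nat_lit 0) (nat_lit 76) (XT.nd (nat_lit 78) (nat_lit 0) (nat_lit 0) (XT.lf (nat_lit 0) (nat_lit 25821241761) (nat_lit 1216) (nat_lit 5898256722) (nat_lit 1292) (nat_lit 5611561091) (nat_lit 377) (nat_lit 5) (nat_lit 393) (nat_lit 5) (nat_lit 394) (nat_lit 5) (nat_lit 418) (nat_lit 412) (nat_lit 190)) (XT.lf (nat_lit 76) (nat_lit 13592839865) (nat_lit 0) (nat_lit 13922566979)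 (nat_lit 1292) (nat_lit 10386966934) (nat_lit 378) (nat_lit 5) (nat_lit 377) (nat_lit 5) (nat_lit 394) (nat_lit 5) (nat_lit 419) (nat_lit 412) (nat_lit 189))) (XT.nd (nat_lit 78) (nat_lit 0) (nat_lit 0) (XT.lf (nat_lit 0) (nat_lit 29361074463) (nat_lit 1216) (nat_lit 4743708664) (nat_lit 1292) (nat_lit 4383023952) (nat_lit 378) (nat_lit 5) (nat_lit 394) (nat_lit 5) (nat_lit 395) (nat_lit 5) (nat_lit 420) (nat_lit 412) (nat_lit 188)) (XT.lf (nat_lit 76) (nat_lit 15573903218) (nat_lit 0) (nat_lit 15973967833) (nat_lit 1292) (nat_lit 7534359561) (nat_lit 379) (nat_lit 5) (nat_lit 378) (nat_lit 5) (nat_lit 395) (nat_lit 5) (nat_lit 421) (nat_lit 412) (nat_lit 187))))) (XT.nd (nat_lit 312) (nat_lit 0) (nat_lit 0) (XT.nd (nat_lit 156) (nat_lit 1216) (nat_lit 0) (XT.nd (nat_lit 78) (nat_lit 0) (nat_lit 0) (XT.lf (nat_lit 0) (nat_lit 33872860739) (nat_lit 1216) (nat_lit 3122490010) (nat_lit 1292) (nat_lit 2696958427)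 (nat_lit 379) (nat_lit 5) (nat_lit 395) (nat_lit 5) (nat_lit 396) (nat_lit 5) (nat_lit 422) (nat_lit 412) (nat_lit 186)) (XT.lf (nat_lit 76) (nat_lit 18068086081) (nat_lit 0) (nat_lit 18529655855) (nat_lit 1292) (nat_lit 3713043905) (nat_lit 380) (nat_lit 5) (nat_lit 379) (nat_lit 5) (nat_lit 396) (nat_lit 5) (nat_lit 423) (nat_lit 412) (nat_lit 185))) (XT.nd (nat_lit 78) (nat_lit 1292) (nat_lit 0) (XT.lf (nat_lit 0) (nat_lit 39439266866) (nat_lit 1216) (nat_lit 994799233) (nat_lit 1292) (nat_lit 512703789) (nat_lit 380) (nat_lit 5) (nat_lit 396) (nat_lit 5) (nat_lit 397) (nat_lit 5) (nat_lit 424) (nat_lit 412) (nat_lit 184)) (XT.lf (nat_lit 0) (nat_lit 1137954357) (nat_lit 1292) (nat_lit 20483537166) (nat_lit 1368) (nat_lit 19968461673) (nat_lit 363) (nat_lit 5) (nat_lit 380) (nat_lit 5) (nat_lit 381) (nat_lit 5) (nat_lit 425) (nat_lit 412) (nat_lit 183)))) (XT.nd (nat_lit 156) (nat_lit 0) (nat_lit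 76) (XT.nd (nat_lit 78) (nat_lit 0) (nat_lit 76) (XT.lf (nat_lit 76) (nat_lit 1654922823) (nat_lit 0) (nat_lit 2202017781) (nat_lit 1368) (nat_lit 38394309694) (nat_lit 364) (nat_lit 5) (nat_lit 363) (nat_lit 5) (nat_lit 381) (nat_lit 5) (nat_lit 426) (nat_lit 412) (nat_lit 182)) (XT.lf (nat_lit 0) (nat_lit 7035941126) (nat_lit 1292) (nat_lit 18223216707) (nat_lit 1368) (nat_lit 17661875137) (nat_lit 364) (nat_lit 5) (nat_lit 381) (nat_lit 5) (nat_lit 382) (nat_lit 5) (nat_lit 427) (nat_lit 412) (nat_lit 181))) (XT.nd (nat_lit 78) (nat_lit 0) (nat_lit 76) (XT.lf (nat_lit 76) (nat_lit 4893501361) (nat_lit 0) (nat_lit 5484145277) (nat_lit 1368) (nat_lit 33231242436) (nat_lit 365) (nat_lit 5) (nat_lit 364) (nat_lit 5) (nat_lit 382) (nat_lit 5) (nat_lit 428) (nat_lit 412) (nat_lit 180)) (XT.lf (nat_lit 0) (nat_lit 14147046583) (nat_lit 1292) (nat_lit 15380785974) (nat_lit 76) (nat_lit 14779725007) (nat_lit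 365) (nat_lit 5) (nat_lit 382) (nat_lit 5) (nat_lit 366) (nat_lit 5) (nat_lit 429) (nat_lit 412) (nat_lit 179)))))) (XT.nd (nat_lit 624) (nat_lit 2128) (nat_lit 0) (XT.nd (nat_lit 312) (nat_lit 1824) (nat_lit 0) (XT.nd (nat_lit 156) (nat_lit 608) (nat_lit 0) (XT.nd (nat_lit 78) (nat_lit 0) (nat_lit 0) (XT.lf (nat_lit 0) (nat_lit 8769408671) (nat_lit 836) (nat_lit 9397285436) (nat_lit 912) (nat_lit 26856377033) (nat_lit 354) (nat_lit 5) (nat_lit 365) (nat_lit 5) (nat_lit 366) (nat_lit 5) (nat_lit 430) (nat_lit 412) (nat_lit 178)) (XT.lf (nat_lit 0) (nat_lit 22571365639) (nat_lit 912) (nat_lit 11907808500) (nat_lit 76) (nat_lit 11272942947) (nat_lit 354) (nat_lit 5) (nat_lit 366) (nat_lit 5) (nat_lit 355) (nat_lit 5) (nat_lit 431) (nat_lit 412) (nat_lit 177))) (XT.nd (nat_lit 78) (nat_lit 0) (nat_lit 0) (XT.lf (nat_lit 0) (nat_lit 13334316712) (nat_lit 608) (nat_lit 13993722519) (nat_lit 684) (nat_lit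 19168399321) (nat_lit 346) (nat_lit 5) (nat_lit 354) (nat_lit 5) (nat_lit 355) (nat_lit 5) (nat_lit 432) (nat_lit 412) (nat_lit 176)) (XT.lf (nat_lit 0) (nat_lit 32415829320) (nat_lit 684) (nat_lit 7752469605) (nat_lit 76) (nat_lit 7089138250) (nat_lit 346) (nat_lit 5) (nat_lit 355) (nat_lit 5) (nat_lit 347) (nat_lit 5) (nat_lit 433) (nat_lit 412) (nat_lit 175)))) (XT.nd (nat_lit 156) (nat_lit 1216) (nat_lit 0) (XT.nd (nat_lit 78) (nat_lit 0) (nat_lit 0) (XT.lf (nat_lit 0) (nat_lit 18643468500) (nat_lit 608) (nat_lit 19329257664) (nat_lit 684) (nat_lit 10059045401) (nat_lit 338) (nat_lit 5) (nat_lit 346) (nat_lit 5) (nat_lit 347) (nat_lit 5) (nat_lit 434) (nat_lit 412) (nat_lit 174)) (XT.lf (nat_lit 0) (nat_lit 43794647077) (nat_lit 684) (nat_lit 2859361378) (nat_lit 76) (nat_lit 2172378017) (nat_lit 338) (nat_lit 5) (nat_lit 347) (nat_lit 5) (nat_lit 339) (nat_lit 5) (nat_lit 435) (nat_lit 412) (nat_lit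 173))) (XT.nd (nat_lit 78) (nat_lit 608) (nat_lit 0) (XT.lf (nat_lit 0) (nat_lit 575887453) (nat_lit 608) (nat_lit 24881737425) (nat_lit 76) (nat_lit 24174201988) (nat_lit 330) (nat_lit 5) (nat_lit 338) (nat_lit 5) (nat_lit 331) (nat_lit 5) (nat_lit 436) (nat_lit 412) (nat_lit 172)) (XT.lf (nat_lit 0) (nat_lit 2788936861) (nat_lit 608) (nat_lit 3516425770) (nat_lit 684) (nat_lit 44152930689) (nat_lit 322) (nat_lit 5) (nat_lit 330) (nat_lit 5) (nat_lit 331) (nat_lit 5) (nat_lit 437) (nat_lit 412) (nat_lit 171))))) (XT.nd (nat_lit 312) (nat_lit 1064) (nat_lit 0) (XT.nd (nat_lit 156) (nat_lit 532) (nat_lit 0) (XT.nd (nat_lit 78) (nat_lit 532) (nat_lit 0) (XT.lf (nat_lit 0) (nat_lit 12642710811) (nat_lit 684) (nat_lit 19689435633) (nat_lit 76) (nat_lit 18964327661) (nat_lit 322) (nat_lit 5) (nat_lit 331) (nat_lit 5) (nat_lit 323) (nat_lit 5) (nat_lit 438) (nat_lit 412) (nat_lit 170)) (XT.lf (nat_lit 0)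 (nat_lit 9274811981) (nat_lit 532) (nat_lit 10018180207) (nat_lit 608) (nat_lit 32863123744) (nat_lit 315) (nat_lit 5) (nat_lit 322) (nat_lit 5) (nat_lit 323) (nat_lit 5) (nat_lit 439) (nat_lit 412) (nat_lit 169))) (XT.nd (nat_lit 78) (nat_lit 532) (nat_lit 0) (XT.lf (nat_lit 0) (nat_lit 26467067303) (nat_lit 608) (nat_lit 13651839958) (nat_lit 76) (nat_lit 12912911194) (nat_lit 315) (nat_lit 5) (nat_lit 323) (nat_lit 5) (nat_lit 316) (nat_lit 5) (nat_lit 440) (nat_lit 412) (nat_lit 168)) (XT.lf (nat_lit 0) (nat_lit 16679572516) (nat_lit 532) (nat_lit 17435211999) (nat_lit 608) (nat_lit 19811254943) (nat_lit 308) (nat_lit 5) (nat_lit 315) (nat_lit 5) (nat_lit 316) (nat_lit 5) (nat_lit 441) (nat_lit 412) (nat_lit 167)))) (XT.nd (nat_lit 156) (nat_lit 608) (nat_lit 0) (XT.nd (nat_lit 78) (nat_lit 456) (nat_lit 0) (XT.lf (nat_lit 0) (nat_lit 42187063065) (nat_lit 608) (nat_lit 6701776077) (nat_lit 76)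 (nat_lit 5952394056) (nat_lit 308) (nat_lit 5) (nat_lit 316) (nat_lit 5) (nat_lit 309) (nat_lit 5) (nat_lit 442) (nat_lit 412) (nat_lit 166)) (XT.lf (nat_lit 0) (nat_lit 25074720630) (nat_lit 456) (nat_lit 25839395326) (nat_lit 532) (nat_lit 4857388612) (nat_lit 302) (nat_lit 5) (nat_lit 308) (nat_lit 5) (nat_lit 309) (nat_lit 5) (nat_lit 443) (nat_lit 412) (nat_lit 165))) (XT.nd (nat_lit 78) (nat_lit 0) (nat_lit 0) (XT.lf (nat_lit 0) (nat_lit 1205369537) (nat_lit 532) (nat_lit 1984891490) (nat_lit 608) (nat_lit 53536141329) (nat_lit 294) (nat_lit 5) (nat_lit 301) (nat_lit 5) (nat_lit 302) (nat_lit 5) (nat_lit 444) (nat_lit 412) (nat_lit 164)) (XT.lf (nat_lit 0) (nat_lit 11910833736) (nat_lit 608) (nat_lit 23276304640) (nat_lit 76) (nat_lit 22505492246) (nat_lit 294) (nat_lit 5) (nat_lit 302) (nat_lit 5) (nat_lit 295) (nat_lit 5) (nat_lit 445) (nat_lit 412) (nat_lit 163))))))))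
noncomputable def xc232 : XT := (XT.nd (nat_lit 2574) (nat_lit 760) (nat_lit 0) (XT.nd (nat_lit 1170) (nat_lit 2964) (nat_lit 0) (XT.nd (nat_lit 546) (nat_lit 1900) (nat_lit 0) (XT.nd (nat_lit 234) (nat_lit 912) (nat_lit 0) (XT.nd (nat_lit 78) (nat_lit 456) (nat_lit 0) (XT.lf (nat_lit 0) (nat_lit 10112241955) (nat_lit 456) (nat_lit 10896641693) (nat_lit 532) (nat_lit 37675486287) (nat_lit 288) (nat_lit 5) (nat_lit 294) (nat_lit 5) (nat_lit 295) (nat_lit 5) (nat_lit 446) (nat_lit 412) (nat_lit 162)) (XT.nd (nat_lit 78) (nat_lit 456) (nat_lit 0) (XT.lf (nat_lit 0) (nat_lit 30752020307) (nat_lit 532) (nat_lit 14858518640) (nat_lit 76) (nat_lit 14084158122) (nat_lit 288) (nat_lit 5) (nat_lit 295) (nat_lit 5) (nat_lit 289) (nat_lit 5) (nat_lit 447) (nat_lit 412) (nat_lit 161)) (XT.lf (nat_lit 0) (nat_lit 20150645462) (nat_lit 456) (nat_lit 20937440323) (nat_lit 532) (nat_lit 19638229191) (nat_lit 282) (nat_lit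 5) (nat_lit 288) (nat_lit 5) (nat_lit 289) (nat_lit 5) (nat_lit 448) (nat_lit 412) (nat_lit 160)))) (XT.nd (nat_lit 156) (nat_lit 456) (nat_lit 0) (XT.nd (nat_lit 78) (nat_lit 456) (nat_lit 0) (XT.lf (nat_lit 0) (nat_lit 51927846509) (nat_lit 532) (nat_lit 5315412790) (nat_lit 76) (nat_lit 4539813722) (nat_lit 282) (nat_lit 5) (nat_lit 289) (nat_lit 5) (nat_lit 283) (nat_lit 5) (nat_lit 449) (nat_lit 412) (nat_lit 159)) (XT.lf (nat_lit 0) (nat_lit 730274934) (nat_lit 456) (nat_lit 31456386765) (nat_lit 76) (nat_lit 30669408510) (nat_lit 276) (nat_lit 5) (nat_lit 282) (nat_lit 5) (nat_lit 277) (nat_lit 5) (nat_lit 450) (nat_lit 412) (nat_lit 158))) (XT.nd (nat_lit 78) (nat_lit 0) (nat_lit 0) (XT.lf (nat_lit 0) (nat_lit 5371083573) (nat_lit 456) (nat_lit 6169109581) (nat_lit 532) (nat_lit 52414988901) (nat_lit 270) (nat_lit 5) (nat_lit 276) (nat_lit 5) (nat_lit 277) (nat_lit 5) (nat_lit 451) (nat_lit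 412) (nat_lit 157)) (XT.lf (nat_lit 0) (nat_lit 23192607994) (nat_lit 532) (nat_lit 21332154696) (nat_lit 76) (nat_lit 20546958596) (nat_lit 270) (nat_lit 5) (nat_lit 277) (nat_lit 5) (nat_lit 271) (nat_lit 5) (nat_lit 452) (nat_lit 412) (nat_lit 156))))) (XT.nd (nat_lit 312) (nat_lit 684) (nat_lit 0) (XT.nd (nat_lit 156) (nat_lit 836) (nat_lit 0) (XT.nd (nat_lit 78) (nat_lit 0) (nat_lit 0) (XT.lf (nat_lit 0) (nat_lit 17312962965) (nat_lit 380) (nat_lit 18108269324) (nat_lit 456) (nat_lit 30793725294) (nat_lit 265) (nat_lit 5) (nat_lit 270) (nat_lit 5) (nat_lit 271) (nat_lit 5) (nat_lit 453) (nat_lit 412) (nat_lit 155)) (XT.lf (nat_lit 0) (nat_lit 48320888318) (nat_lit 456) (nat_lit 9922074723) (nat_lit 76) (nat_lit 9140402737) (nat_lit 265) (nat_lit 5) (nat_lit 271) (nat_lit 5) (nat_lit 266) (nat_lit 5) (nat_lit 454) (nat_lit 412) (nat_lit 154))) (XT.nd (nat_lit 78) (nat_lit 456) (nat_lit 0) (XT.lf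 (nat_lit 0) (nat_lit 30644823393) (nat_lit 380) (nat_lit 31435747698) (nat_lit 456) (nat_lit 6492064017) (nat_lit 260) (nat_lit 5) (nat_lit 265) (nat_lit 5) (nat_lit 266) (nat_lit 5) (nat_lit 455) (nat_lit 412) (nat_lit 153)) (XT.lf (nat_lit 0) (nat_lit 2828568358) (nat_lit 380) (nat_lit 3628475498) (nat_lit 456) (nat_lit 63334850506) (nat_lit 254) (nat_lit 5) (nat_lit 259) (nat_lit 5) (nat_lit 260) (nat_lit 5) (nat_lit 456) (nat_lit 412) (nat_lit 152)))) (XT.nd (nat_lit 156) (nat_lit 304) (nat_lit 0) (XT.nd (nat_lit 78) (nat_lit 380) (nat_lit 0) (XT.lf (nat_lit 0) (nat_lit 20290556140) (nat_lit 456) (nat_lit 25760765258) (nat_lit 76) (nat_lit 24975689201) (nat_lit 254) (nat_lit 5) (nat_lit 260) (nat_lit 5) (nat_lit 255) (nat_lit 5) (nat_lit 457) (nat_lit 412) (nat_lit 151)) (XT.lf (nat_lit 0) (nat_lit 16972029077) (nat_lit 380) (nat_lit 17765325701) (nat_lit 456) (nat_lit 37555877117) (nat_lit 249)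 (nat_lit 5) (nat_lit 254) (nat_lit 5) (nat_lit 255) (nat_lit 5) (nat_lit 458) (nat_lit 412) (nat_lit 150))) (XT.nd (nat_lit 78) (nat_lit 304) (nat_lit 0) (XT.lf (nat_lit 0) (nat_lit 49988773800) (nat_lit 456) (nat_lit 12187734553) (nat_lit 76) (nat_lit 11409794985) (nat_lit 249) (nat_lit 5) (nat_lit 255) (nat_lit 5) (nat_lit 250) (nat_lit 5) (nat_lit 459) (nat_lit 412) (nat_lit 149)) (XT.lf (nat_lit 0) (nat_lit 32700875074) (nat_lit 304) (nat_lit 33486337625) (nat_lit 380) (nat_lit 8716269904) (nat_lit 245) (nat_lit 5) (nat_lit 249) (nat_lit 5) (nat_lit 250) (nat_lit 5) (nat_lit 460) (nat_lit 412) (nat_lit 148)))))) (XT.nd (nat_lit 546) (nat_lit 1520) (nat_lit 0) (XT.nd (nat_lit 234) (nat_lit 684) (nat_lit 0) (XT.nd (nat_lit 78) (nat_lit 304) (nat_lit 0) (XT.lf (nat_lit 0) (nat_lit 2920630281) (nat_lit 380) (nat_lit 3713396699) (nat_lit 456) (nat_lit 69619695309) (nat_lit 239) (nat_lit 5) (nat_lit 244)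 (nat_lit 5) (nat_lit 245) (nat_lit 5) (nat_lit 461) (nat_lit 412) (nat_lit 147)) (XT.nd (nat_lit 78) (nat_lit 304) (nat_lit 0) (XT.lf (nat_lit 0) (nat_lit 22958368567) (nat_lit 456) (nat_lit 27719705305) (nat_lit 76) (nat_lit 26943144576) (nat_lit 239) (nat_lit 5) (nat_lit 245) (nat_lit 5) (nat_lit 240) (nat_lit 5) (nat_lit 462) (nat_lit 412) (nat_lit 146)) (XT.lf (nat_lit 0) (nat_lit 19606855852) (nat_lit 304) (nat_lit 20390100653) (nat_lit 380) (nat_lit 39026047502) (nat_lit 235) (nat_lit 5) (nat_lit 239) (nat_lit 5) (nat_lit 240) (nat_lit 5) (nat_lit 463) (nat_lit 412) (nat_lit 145)))) (XT.nd (nat_lit 156) (nat_lit 380) (nat_lit 0) (XT.nd (nat_lit 78) (nat_lit 304) (nat_lit 0) (XT.lf (nat_lit 0) (nat_lit 57932551410) (nat_lit 380) (nat_lit 11644724235) (nat_lit 76) (nat_lit 10877992010) (nat_lit 235) (nat_lit 5) (nat_lit 240) (nat_lit 5) (nat_lit 236) (nat_lit 5) (nat_lit 464) (nat_lit 412) (nat_lit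 144)) (XT.lf (nat_lit 0) (nat_lit 38100398423) (nat_lit 304) (nat_lit 38873247522) (nat_lit 380) (nat_lit 4939830313) (nat_lit 231) (nat_lit 5) (nat_lit 235) (nat_lit 5) (nat_lit 236) (nat_lit 5) (nat_lit 465) (nat_lit 412) (nat_lit 143))) (XT.nd (nat_lit 78) (nat_lit 0) (nat_lit 0) (XT.lf (nat_lit 0) (nat_lit 6155993407) (nat_lit 304) (nat_lit 6934781218) (nat_lit 380) (nat_lit 70315541280) (nat_lit 226) (nat_lit 5) (nat_lit 230) (nat_lit 5) (nat_lit 231) (nat_lit 5) (nat_lit 466) (nat_lit 412) (nat_lit 142)) (XT.lf (nat_lit 0) (nat_lit 32258695426) (nat_lit 380) (nat_lit 26712305007) (nat_lit 76) (nat_lit 25950602531) (nat_lit 226) (nat_lit 5) (nat_lit 231) (nat_lit 5) (nat_lit 227) (nat_lit 5) (nat_lit 467) (nat_lit 412) (nat_lit 141))))) (XT.nd (nat_lit 312) (nat_lit 608) (nat_lit 0) (XT.nd (nat_lit 156) (nat_lit 608) (nat_lit 0) (XT.nd (nat_lit 78) (nat_lit 0) (nat_lit 0) (XT.lf (nat_lit 0) (nat_lit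 25775139925) (nat_lit 304) (nat_lit 26542277164) (nat_lit 380) (nat_lit 34155458648) (nat_lit 222) (nat_lit 5) (nat_lit 226) (nat_lit 5) (nat_lit 227) (nat_lit 5) (nat_lit 468) (nat_lit 412) (nat_lit 140)) (XT.lf (nat_lit 0) (nat_lit 73315590777) (nat_lit 380) (nat_lit 7747440712) (nat_lit 76) (nat_lit 6997524491) (nat_lit 222) (nat_lit 5) (nat_lit 227) (nat_lit 5) (nat_lit 223) (nat_lit 5) (nat_lit 469) (nat_lit 412) (nat_lit 139))) (XT.nd (nat_lit 78) (nat_lit 304) (nat_lit 0) (XT.lf (nat_lit 0) (nat_lit 5870859265) (nat_lit 304) (nat_lit 42278310593) (nat_lit 76) (nat_lit 41523420794) (nat_lit 218) (nat_lit 5) (nat_lit 222) (nat_lit 5) (nat_lit 219) (nat_lit 5) (nat_lit 470) (nat_lit 412) (nat_lit 138)) (XT.lf (nat_lit 0) (nat_lit 13126818145) (nat_lit 304) (nat_lit 13886536660) (nat_lit 380) (nat_lit 64309115201) (nat_lit 214) (nat_lit 5) (nat_lit 218) (nat_lit 5) (nat_lit 219) (nat_lit 5) (nat_lit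 471) (nat_lit 412) (nat_lit 137)))) (XT.nd (nat_lit 156) (nat_lit 380) (nat_lit 0) (XT.nd (nat_lit 78) (nat_lit 228) (nat_lit 0) (XT.lf (nat_lit 0) (nat_lit 49426397914) (nat_lit 380) (nat_lit 22159250982) (nat_lit 76) (nat_lit 21417108662) (nat_lit 214) (nat_lit 5) (nat_lit 219) (nat_lit 5) (nat_lit 215) (nat_lit 5) (nat_lit 472) (nat_lit 412) (nat_lit 136)) (XT.lf (nat_lit 0) (nat_lit 36124701068) (nat_lit 228) (nat_lit 36871262347) (nat_lit 304) (nat_lit 21722966390) (nat_lit 211) (nat_lit 5) (nat_lit 214) (nat_lit 5) (nat_lit 215) (nat_lit 5) (nat_lit 473) (nat_lit 412) (nat_lit 135))) (XT.nd (nat_lit 78) (nat_lit 0) (nat_lit 0) (XT.lf (nat_lit 0) (nat_lit 123197052) (nat_lit 304) (nat_lit 874048582) (nat_lit 380) (nat_lit 95482318253) (nat_lit 206) (nat_lit 5) (nat_lit 210) (nat_lit 5) (nat_lit 211) (nat_lit 5) (nat_lit 474) (nat_lit 412) (nat_lit 134)) (XT.lf (nat_lit 0) (nat_lit 24907400623)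 (nat_lit 380) (nat_lit 37041920822) (nat_lit 76) (nat_lit 36308894780) (nat_lit 206) (nat_lit 5) (nat_lit 211) (nat_lit 5) (nat_lit 207) (nat_lit 5) (nat_lit 475) (nat_lit 412) (nat_lit 133))))))) (XT.nd (nat_lit 49062) (nat_lit 0) (nat_lit 8512) (XT.nd (nat_lit 48438) (nat_lit 0) (nat_lit 12692) (XT.nd (nat_lit 48126) (nat_lit 0) (nat_lit 13604) (XT.nd (nat_lit 47970) (nat_lit 0) (nat_lit 13528) (XT.lf (nat_lit 0) (nat_lit 12613066545) (nat_lit 228) (nat_lit 13339336342) (nat_lit 304) (nat_lit 79832962773) (nat_lit 196) (nat_lit 5) (nat_lit 199) (nat_lit 5) (nat_lit 200) (nat_lit 5) (nat_lit 479) (nat_lit 412) (nat_lit 129)) (XT.nd (nat_lit 78) (nat_lit 0) (nat_lit 0) (XT.lf (nat_lit 0) (nat_lit 10502268224) (nat_lit 1292) (nat_lit 3535710217) (nat_lit 1292) (nat_lit 3535710217) (nat_lit 374) (nat_lit 3) (nat_lit 391) (nat_lit 3) (nat_lit 391) (nat_lit 5) (nat_lit 413) (nat_lit 413) (nat_lit 194))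 (XT.lf (nat_lit 76) (nat_lit 10711283955) (nat_lit 0) (nat_lit 10764207252) (nat_lit 1292) (nat_lit 14194420169) (nat_lit 375) (nat_lit 5) (nat_lit 374) (nat_lit 3) (nat_lit 391) (nat_lit 5) (nat_lit 414) (nat_lit 413) (nat_lit 193)))) (XT.nd (nat_lit 156) (nat_lit 0) (nat_lit 76) (XT.nd (nat_lit 78) (nat_lit 0) (nat_lit 0) (XT.lf (nat_lit 0) (nat_lit 22098554059) (nat_lit 1216) (nat_lit 7103347569) (nat_lit 1292) (nat_lit 7002080444) (nat_lit 375) (nat_lit 5) (nat_lit 391) (nat_lit 5) (nat_lit 392) (nat_lit 5) (nat_lit 415) (nat_lit 413) (nat_lit 192)) (XT.lf (nat_lit 76) (nat_lit 11402393140) (nat_lit 0) (nat_lit 11552092578) (nat_lit 1292) (nat_lit 13793163864) (nat_lit 376) (nat_lit 5) (nat_lit 375) (nat_lit 5) (nat_lit 392) (nat_lit 5) (nat_lit 416) (nat_lit 413) (nat_lit 191))) (XT.nd (nat_lit 78) (nat_lit 0) (nat_lit 0) (XT.lf (nat_lit 0) (nat_lit 23970289924) (nat_lit 1216) (nat_lit 6762151358)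 (nat_lit 1292) (nat_lit 6571159997) (nat_lit 376) (nat_lit 5) (nat_lit 392) (nat_lit 5) (nat_lit 393) (nat_lit 5) (nat_lit 417) (nat_lit 413) (nat_lit 190)) (XT.lf (nat_lit 76) (nat_lit 12506981448) (nat_lit 0) (nat_lit 12742295237) (nat_lit 1292) (nat_lit 12619973590) (nat_lit 377) (nat_lit 5) (nat_lit 376) (nat_lit 5) (nat_lit 393) (nat_lit 5) (nat_lit 418) (nat_lit 413) (nat_lit 189))))) (XT.nd (nat_lit 312) (nat_lit 1064) (nat_lit 0) (XT.nd (nat_lit 156) (nat_lit 0) (nat_lit 76) (XT.nd (nat_lit 78) (nat_lit 0) (nat_lit 0) (XT.lf (nat_lit 0) (nat_lit 26689384781) (nat_lit 1216) (nat_lit 6014519768) (nat_lit 1292) (nat_lit 5744281639) (nat_lit 377) (nat_lit 5) (nat_lit 393) (nat_lit 5) (nat_lit 394) (nat_lit 5) (nat_lit 419) (nat_lit 413) (nat_lit 188)) (XT.lf (nat_lit 76) (nat_lit 14060714768) (nat_lit 0) (nat_lit 14371514197) (nat_lit 1292) (nat_lit 10604475228) (nat_lit 378) (nat_lit 5) (nat_lit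 377) (nat_lit 5) (nat_lit 394) (nat_lit 5) (nat_lit 420) (nat_lit 413) (nat_lit 187))) (XT.nd (nat_lit 78) (nat_lit 0) (nat_lit 0) (XT.lf (nat_lit 0) (nat_lit 30330313812) (nat_lit 1216) (nat_lit 4824727601) (nat_lit 1292) (nat_lit 4484747666) (nat_lit 378) (nat_lit 5) (nat_lit 394) (nat_lit 5) (nat_lit 395) (nat_lit 5) (nat_lit 421) (nat_lit 413) (nat_lit 186)) (XT.lf (nat_lit 76) (nat_lit 16101811733) (nat_lit 0) (nat_lit 16478911003) (nat_lit 1292) (nat_lit 7671382328) (nat_lit 379) (nat_lit 5) (nat_lit 378) (nat_lit 5) (nat_lit 395) (nat_lit 5) (nat_lit 422) (nat_lit 413) (nat_lit 185)))) (XT.nd (nat_lit 156) (nat_lit 1216) (nat_lit 0) (XT.nd (nat_lit 78) (nat_lit 0) (nat_lit 0) (XT.lf (nat_lit 0) (nat_lit 34972705083) (nat_lit 1216) (nat_lit 3154483971) (nat_lit 1292) (nat_lit 2753379642) (nat_lit 379) (nat_lit 5) (nat_lit 395) (nat_lit 5) (nat_lit 396) (nat_lit 5) (nat_lit 423) (nat_lit 413) (nat_lit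 184)) (XT.lf (nat_lit 76) (nat_lit 18671204690) (nat_lit 0) (nat_lit 19106278470) (nat_lit 1292) (nat_lit 3740171988) (nat_lit 380) (nat_lit 5) (nat_lit 379) (nat_lit 5) (nat_lit 396) (nat_lit 5) (nat_lit 424) (nat_lit 413) (nat_lit 183))) (XT.nd (nat_lit 78) (nat_lit 1292) (nat_lit 0) (XT.lf (nat_lit 0) (nat_lit 40701677559) (nat_lit 1216) (nat_lit 962769819) (nat_lit 1292) (nat_lit 508348626) (nat_lit 380) (nat_lit 5) (nat_lit 396) (nat_lit 5) (nat_lit 397) (nat_lit 5) (nat_lit 425) (nat_lit 413) (nat_lit 182)) (XT.lf (nat_lit 0) (nat_lit 1250374324) (nat_lit 1292) (nat_lit 21035218540) (nat_lit 1368) (nat_lit 20549710488) (nat_lit 363) (nat_lit 5) (nat_lit 380) (nat_lit 5) (nat_lit 381) (nat_lit 5) (nat_lit 426) (nat_lit 413) (nat_lit 181)))))) (XT.nd (nat_lit 624) (nat_lit 2888) (nat_lit 0) (XT.nd (nat_lit 312) (nat_lit 1292) (nat_lit 0) (XT.nd (nat_lit 156) (nat_lit 0) (nat_lit 76) (XT.nd (nat_lit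 78) (nat_lit 0) (nat_lit 76) (XT.lf (nat_lit 76) (nat_lit 1766779320) (nat_lit 0) (nat_lit 2282468789) (nat_lit 1368) (nat_lit 39467241719) (nat_lit 364) (nat_lit 5) (nat_lit 363) (nat_lit 5) (nat_lit 381) (nat_lit 5) (nat_lit 427) (nat_lit 413) (nat_lit 180)) (XT.lf (nat_lit 0) (nat_lit 7321253299) (nat_lit 1292) (nat_lit 18707150955) (nat_lit 1368) (nat_lit 18178032687) (nat_lit 364) (nat_lit 5) (nat_lit 381) (nat_lit 5) (nat_lit 382) (nat_lit 5) (nat_lit 428) (nat_lit 413) (nat_lit 179))) (XT.nd (nat_lit 78) (nat_lit 0) (nat_lit 76) (XT.lf (nat_lit 76) (nat_lit 5102453339) (nat_lit 0) (nat_lit 5659191878) (nat_lit 1368) (nat_lit 34153330454) (nat_lit 365) (nat_lit 5) (nat_lit 364) (nat_lit 5) (nat_lit 382) (nat_lit 5) (nat_lit 429) (nat_lit 413) (nat_lit 178)) (XT.lf (nat_lit 0) (nat_lit 14641912382) (nat_lit 1292) (nat_lit 15779657942) (nat_lit 76) (nat_lit 15213100334) (nat_lit 365) (nat_lit 5)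 (nat_lit 382) (nat_lit 5) (nat_lit 366) (nat_lit 5) (nat_lit 430) (nat_lit 413) (nat_lit 177)))) (XT.nd (nat_lit 156) (nat_lit 608) (nat_lit 0) (XT.nd (nat_lit 78) (nat_lit 0) (nat_lit 0) (XT.lf (nat_lit 0) (nat_lit 9094429290) (nat_lit 836) (nat_lit 9686263360) (nat_lit 912) (nat_lit 27591000691) (nat_lit 354) (nat_lit 5) (nat_lit 365) (nat_lit 5) (nat_lit 366) (nat_lit 5) (nat_lit 431) (nat_lit 413) (nat_lit 176)) (XT.lf (nat_lit 0) (nat_lit 23315428805) (nat_lit 912) (nat_lit 12202832901) (nat_lit 76) (nat_lit 11604411227) (nat_lit 354) (nat_lit 5) (nat_lit 366) (nat_lit 5) (nat_lit 355) (nat_lit 5) (nat_lit 432) (nat_lit 413) (nat_lit 175))) (XT.nd (nat_lit 78) (nat_lit 0) (nat_lit 0) (XT.lf (nat_lit 0) (nat_lit 13795946167) (nat_lit 608) (nat_lit 14417499384) (nat_lit 684) (nat_lit 19675919204) (nat_lit 346) (nat_lit 5) (nat_lit 354) (nat_lit 5) (nat_lit 355) (nat_lit 5) (nat_lit 433) (nat_lit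 413) (nat_lit 174)) (XT.lf (nat_lit 0) (nat_lit 33451922673) (nat_lit 684) (nat_lit 7923291243) (nat_lit 76) (nat_lit 7298037821) (nat_lit 346) (nat_lit 5) (nat_lit 355) (nat_lit 5) (nat_lit 347) (nat_lit 5) (nat_lit 434) (nat_lit 413) (nat_lit 173))))) (XT.nd (nat_lit 312) (nat_lit 1064) (nat_lit 0) (XT.nd (nat_lit 156) (nat_lit 1216) (nat_lit 0) (XT.nd (nat_lit 78) (nat_lit 0) (nat_lit 0) (XT.lf (nat_lit 0) (nat_lit 19263919589) (nat_lit 608) (nat_lit 19910341650) (nat_lit 684) (nat_lit 10296592874) (nat_lit 338) (nat_lit 5) (nat_lit 346) (nat_lit 5) (nat_lit 347) (nat_lit 5) (nat_lit 435) (nat_lit 413) (nat_lit 172)) (XT.lf (nat_lit 0) (nat_lit 45169012407) (nat_lit 684) (nat_lit 2883948794) (nat_lit 76) (nat_lit 2236401088) (nat_lit 338) (nat_lit 5) (nat_lit 347) (nat_lit 5) (nat_lit 339) (nat_lit 5) (nat_lit 436) (nat_lit 413) (nat_lit 171))) (XT.nd (nat_lit 78) (nat_lit 608) (nat_lit 0) (XT.lf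 (nat_lit 0) (nat_lit 653097144) (nat_lit 608) (nat_lit 25566403272) (nat_lit 76) (nat_lit 24899483264) (nat_lit 330) (nat_lit 5) (nat_lit 338) (nat_lit 5) (nat_lit 331) (nat_lit 5) (nat_lit 437) (nat_lit 413) (nat_lit 170)) (XT.lf (nat_lit 0) (nat_lit 2933785495) (nat_lit 608) (nat_lit 3619513564) (nat_lit 684) (nat_lit 45416979794) (nat_lit 322) (nat_lit 5) (nat_lit 330) (nat_lit 5) (nat_lit 331) (nat_lit 5) (nat_lit 438) (nat_lit 413) (nat_lit 169)))) (XT.nd (nat_lit 156) (nat_lit 532) (nat_lit 0) (XT.nd (nat_lit 78) (nat_lit 532) (nat_lit 0) (XT.lf (nat_lit 0) (nat_lit 13079078220) (nat_lit 684) (nat_lit 20219030668) (nat_lit 76) (nat_lit 19535546859) (nat_lit 322) (nat_lit 5) (nat_lit 331) (nat_lit 5) (nat_lit 323) (nat_lit 5) (nat_lit 439) (nat_lit 413) (nat_lit 168)) (XT.lf (nat_lit 0) (nat_lit 9613545473) (nat_lit 532) (nat_lit 10314241322) (nat_lit 608) (nat_lit 33791332470) (nat_lit 315) (nat_lit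 5) (nat_lit 322) (nat_lit 5) (nat_lit 323) (nat_lit 5) (nat_lit 440) (nat_lit 413) (nat_lit 167))) (XT.nd (nat_lit 78) (nat_lit 532) (nat_lit 0) (XT.lf (nat_lit 0) (nat_lit 27315494805) (nat_lit 608) (nat_lit 14001078485) (nat_lit 76) (nat_lit 13304567255) (nat_lit 315) (nat_lit 5) (nat_lit 323) (nat_lit 5) (nat_lit 316) (nat_lit 5) (nat_lit 441) (nat_lit 413) (nat_lit 166)) (XT.lf (nat_lit 0) (nat_lit 17239685023) (nat_lit 532) (nat_lit 17951947709) (nat_lit 608) (nat_lit 20350585769) (nat_lit 308) (nat_lit 5) (nat_lit 315) (nat_lit 5) (nat_lit 316) (nat_lit 5) (nat_lit 442) (nat_lit 413) (nat_lit 165))))))))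
noncomputable def xc233 : XT := (XT.nd (nat_lit 2340) (nat_lit 1064) (nat_lit 0) (XT.nd (nat_lit 1170) (nat_lit 3040) (nat_lit 0) (XT.nd (nat_lit 546) (nat_lit 2128) (nat_lit 0) (XT.nd (nat_lit 234) (nat_lit 912) (nat_lit 0) (XT.nd (nat_lit 78) (nat_lit 1064) (nat_lit 0) (XT.lf (nat_lit 0) (nat_lit 43504583151) (nat_lit 608) (nat_lit 6843347112) (nat_lit 76) (nat_lit 6136982684) (nat_lit 308) (nat_lit 5) (nat_lit 316) (nat_lit 5) (nat_lit 309) (nat_lit 5) (nat_lit 443) (nat_lit 413) (nat_lit 164)) (XT.nd (nat_lit 78) (nat_lit 608) (nat_lit 0) (XT.lf (nat_lit 0) (nat_lit 25885861336) (nat_lit 456) (nat_lit 26606640577) (nat_lit 532) (nat_lit 4950618917) (nat_lit 302) (nat_lit 5) (nat_lit 308) (nat_lit 5) (nat_lit 309) (nat_lit 5) (nat_lit 444) (nat_lit 413) (nat_lit 163)) (XT.lf (nat_lit 0) (nat_lit 1300866523) (nat_lit 532) (nat_lit 2035640727) (nat_lit 608) (nat_lit 55090171026) (nat_lit 294) (nat_lit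 5) (nat_lit 301) (nat_lit 5) (nat_lit 302) (nat_lit 5) (nat_lit 445) (nat_lit 413) (nat_lit 162)))) (XT.nd (nat_lit 156) (nat_lit 456) (nat_lit 0) (XT.nd (nat_lit 78) (nat_lit 456) (nat_lit 0) (XT.lf (nat_lit 0) (nat_lit 12317307251) (nat_lit 608) (nat_lit 23915596222) (nat_lit 76) (nat_lit 23189031613) (nat_lit 294) (nat_lit 5) (nat_lit 302) (nat_lit 5) (nat_lit 295) (nat_lit 5) (nat_lit 446) (nat_lit 413) (nat_lit 161)) (XT.lf (nat_lit 0) (nat_lit 10474028363) (nat_lit 456) (nat_lit 11213400347) (nat_lit 532) (nat_lit 38756023966) (nat_lit 288) (nat_lit 5) (nat_lit 294) (nat_lit 5) (nat_lit 295) (nat_lit 5) (nat_lit 447) (nat_lit 413) (nat_lit 160))) (XT.nd (nat_lit 78) (nat_lit 456) (nat_lit 0) (XT.lf (nat_lit 0) (nat_lit 31721547937) (nat_lit 532) (nat_lit 15246245045) (nat_lit 76) (nat_lit 14516335989) (nat_lit 288) (nat_lit 5) (nat_lit 295) (nat_lit 5) (nat_lit 289) (nat_lit 5) (nat_lit 448) (nat_lit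 413) (nat_lit 159)) (XT.lf (nat_lit 0) (nat_lit 20812625066) (nat_lit 456) (nat_lit 21554254684) (nat_lit 532) (nat_lit 20179840133) (nat_lit 282) (nat_lit 5) (nat_lit 288) (nat_lit 5) (nat_lit 289) (nat_lit 5) (nat_lit 449) (nat_lit 413) (nat_lit 158))))) (XT.nd (nat_lit 312) (nat_lit 1216) (nat_lit 0) (XT.nd (nat_lit 156) (nat_lit 456) (nat_lit 0) (XT.nd (nat_lit 78) (nat_lit 456) (nat_lit 0) (XT.lf (nat_lit 0) (nat_lit 53530594622) (nat_lit 532) (nat_lit 5417849859) (nat_lit 76) (nat_lit 4686773350) (nat_lit 282) (nat_lit 5) (nat_lit 289) (nat_lit 5) (nat_lit 283) (nat_lit 5) (nat_lit 450) (nat_lit 413) (nat_lit 157)) (XT.lf (nat_lit 0) (nat_lit 796767653) (nat_lit 456) (nat_lit 32342724805) (nat_lit 76) (nat_lit 31600922322) (nat_lit 276) (nat_lit 5) (nat_lit 282) (nat_lit 5) (nat_lit 277) (nat_lit 5) (nat_lit 451) (nat_lit 413) (nat_lit 156))) (XT.nd (nat_lit 78) (nat_lit 0) (nat_lit 0) (XT.lf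 (nat_lit 0) (nat_lit 5589007353) (nat_lit 456) (nat_lit 6341223403) (nat_lit 532) (nat_lit 53942291807) (nat_lit 270) (nat_lit 5) (nat_lit 276) (nat_lit 5) (nat_lit 277) (nat_lit 5) (nat_lit 452) (nat_lit 413) (nat_lit 155)) (XT.lf (nat_lit 0) (nat_lit 23931062331) (nat_lit 532) (nat_lit 21915826471) (nat_lit 76) (nat_lit 21175703839) (nat_lit 270) (nat_lit 5) (nat_lit 277) (nat_lit 5) (nat_lit 271) (nat_lit 5) (nat_lit 453) (nat_lit 413) (nat_lit 154)))) (XT.nd (nat_lit 156) (nat_lit 836) (nat_lit 0) (XT.nd (nat_lit 78) (nat_lit 0) (nat_lit 0) (XT.lf (nat_lit 0) (nat_lit 17888092829) (nat_lit 380) (nat_lit 18637745349) (nat_lit 456) (nat_lit 31674309064) (nat_lit 265) (nat_lit 5) (nat_lit 270) (nat_lit 5) (nat_lit 271) (nat_lit 5) (nat_lit 454) (nat_lit 413) (nat_lit 153)) (XT.lf (nat_lit 0) (nat_lit 49811390023) (nat_lit 456) (nat_lit 10164525646) (nat_lit 76) (nat_lit 9427724830) (nat_lit 265) (nat_lit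 5) (nat_lit 271) (nat_lit 5) (nat_lit 266) (nat_lit 5) (nat_lit 455) (nat_lit 413) (nat_lit 152))) (XT.nd (nat_lit 78) (nat_lit 456) (nat_lit 0) (XT.lf (nat_lit 0) (nat_lit 31618838125) (nat_lit 380) (nat_lit 32364360140) (nat_lit 456) (nat_lit 6645409595) (nat_lit 260) (nat_lit 5) (nat_lit 265) (nat_lit 5) (nat_lit 266) (nat_lit 5) (nat_lit 456) (nat_lit 413) (nat_lit 151)) (XT.lf (nat_lit 0) (nat_lit 2968359717) (nat_lit 380) (nat_lit 3722348915) (nat_lit 456) (nat_lit 65193743956) (nat_lit 254) (nat_lit 5) (nat_lit 259) (nat_lit 5) (nat_lit 260) (nat_lit 5) (nat_lit 457) (nat_lit 413) (nat_lit 150)))))) (XT.nd (nat_lit 546) (nat_lit 1596) (nat_lit 0) (XT.nd (nat_lit 234) (nat_lit 1064) (nat_lit 0) (XT.nd (nat_lit 78) (nat_lit 380) (nat_lit 0) (XT.lf (nat_lit 0) (nat_lit 20938202403) (nat_lit 456) (nat_lit 26479230053) (nat_lit 76) (nat_lit 25739220574) (nat_lit 254) (nat_lit 5) (nat_lit 260) (nat_lit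 5) (nat_lit 255) (nat_lit 5) (nat_lit 458) (nat_lit 413) (nat_lit 149)) (XT.nd (nat_lit 78) (nat_lit 0) (nat_lit 0) (XT.lf (nat_lit 0) (nat_lit 17535015189) (nat_lit 380) (nat_lit 18282773341) (nat_lit 456) (nat_lit 38643090929) (nat_lit 249) (nat_lit 5) (nat_lit 254) (nat_lit 5) (nat_lit 255) (nat_lit 5) (nat_lit 459) (nat_lit 413) (nat_lit 148)) (XT.lf (nat_lit 0) (nat_lit 51525778975) (nat_lit 456) (nat_lit 12500137929) (nat_lit 76) (nat_lit 11766855274) (nat_lit 249) (nat_lit 5) (nat_lit 255) (nat_lit 5) (nat_lit 250) (nat_lit 5) (nat_lit 460) (nat_lit 413) (nat_lit 147)))) (XT.nd (nat_lit 156) (nat_lit 304) (nat_lit 0) (XT.nd (nat_lit 78) (nat_lit 456) (nat_lit 0) (XT.lf (nat_lit 0) (nat_lit 33734608137) (nat_lit 304) (nat_lit 34474981925) (nat_lit 380) (nat_lit 8939894190) (nat_lit 245) (nat_lit 5) (nat_lit 249) (nat_lit 5) (nat_lit 250) (nat_lit 5) (nat_lit 461) (nat_lit 413) (nat_lit 146)) (XT.lf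 (nat_lit 0) (nat_lit 3061170883) (nat_lit 380) (nat_lit 3808429265) (nat_lit 456) (nat_lit 71670637239) (nat_lit 239) (nat_lit 5) (nat_lit 244) (nat_lit 5) (nat_lit 245) (nat_lit 5) (nat_lit 462) (nat_lit 413) (nat_lit 145))) (XT.nd (nat_lit 78) (nat_lit 304) (nat_lit 0) (XT.lf (nat_lit 0) (nat_lit 23682760119) (nat_lit 456) (nat_lit 28499004316) (nat_lit 76) (nat_lit 27767021350) (nat_lit 239) (nat_lit 5) (nat_lit 245) (nat_lit 5) (nat_lit 240) (nat_lit 5) (nat_lit 463) (nat_lit 413) (nat_lit 144)) (XT.lf (nat_lit 0) (nat_lit 20246841007) (nat_lit 304) (nat_lit 20985124353) (nat_lit 380) (nat_lit 40160675763) (nat_lit 235) (nat_lit 5) (nat_lit 239) (nat_lit 5) (nat_lit 240) (nat_lit 5) (nat_lit 464) (nat_lit 413) (nat_lit 143))))) (XT.nd (nat_lit 312) (nat_lit 912) (nat_lit 0) (XT.nd (nat_lit 156) (nat_lit 380) (nat_lit 0) (XT.nd (nat_lit 78) (nat_lit 304) (nat_lit 0) (XT.lf (nat_lit 0) (nat_lit 59704761438)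 (nat_lit 380) (nat_lit 11942927950) (nat_lit 76) (nat_lit 11220209291) (nat_lit 235) (nat_lit 5) (nat_lit 240) (nat_lit 5) (nat_lit 236) (nat_lit 5) (nat_lit 465) (nat_lit 413) (nat_lit 142)) (XT.lf (nat_lit 0) (nat_lit 39294047034) (nat_lit 304) (nat_lit 40022531433) (nat_lit 380) (nat_lit 5053290383) (nat_lit 231) (nat_lit 5) (nat_lit 235) (nat_lit 5) (nat_lit 236) (nat_lit 5) (nat_lit 466) (nat_lit 413) (nat_lit 141))) (XT.nd (nat_lit 78) (nat_lit 0) (nat_lit 0) (XT.lf (nat_lit 0) (nat_lit 6391484587) (nat_lit 304) (nat_lit 7125566792) (nat_lit 380) (nat_lit 72390447398) (nat_lit 226) (nat_lit 5) (nat_lit 230) (nat_lit 5) (nat_lit 231) (nat_lit 5) (nat_lit 467) (nat_lit 413) (nat_lit 140)) (XT.lf (nat_lit 0) (nat_lit 33259193578) (nat_lit 380) (nat_lit 27463526497) (nat_lit 76) (nat_lit 26745548859) (nat_lit 226) (nat_lit 5) (nat_lit 231) (nat_lit 5) (nat_lit 227) (nat_lit 5) (nat_lit 468) (nat_lit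 413) (nat_lit 139)))) (XT.nd (nat_lit 156) (nat_lit 608) (nat_lit 0) (XT.nd (nat_lit 78) (nat_lit 0) (nat_lit 0) (XT.lf (nat_lit 0) (nat_lit 26598050139) (nat_lit 304) (nat_lit 27321150562) (nat_lit 380) (nat_lit 35146893474) (nat_lit 222) (nat_lit 5) (nat_lit 226) (nat_lit 5) (nat_lit 227) (nat_lit 5) (nat_lit 469) (nat_lit 413) (nat_lit 138)) (XT.lf (nat_lit 0) (nat_lit 75546542297) (nat_lit 380) (nat_lit 7930876906) (nat_lit 76) (nat_lit 7224008944) (nat_lit 222) (nat_lit 5) (nat_lit 227) (nat_lit 5) (nat_lit 223) (nat_lit 5) (nat_lit 470) (nat_lit 413) (nat_lit 137))) (XT.nd (nat_lit 78) (nat_lit 304) (nat_lit 0) (XT.lf (nat_lit 0) (nat_lit 6078325371) (nat_lit 304) (nat_lit 43497529414) (nat_lit 76) (nat_lit 42785973378) (nat_lit 218) (nat_lit 5) (nat_lit 222) (nat_lit 5) (nat_lit 219) (nat_lit 5) (nat_lit 471) (nat_lit 413) (nat_lit 136)) (XT.lf (nat_lit 0) (nat_lit 13569271515) (nat_lit 304)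 (nat_lit 14285379079) (nat_lit 380) (nat_lit 66206566658) (nat_lit 214) (nat_lit 5) (nat_lit 218) (nat_lit 5) (nat_lit 219) (nat_lit 5) (nat_lit 472) (nat_lit 413) (nat_lit 135))))))) (XT.nd (nat_lit 49374) (nat_lit 0) (nat_lit 9272) (XT.nd (nat_lit 48750) (nat_lit 0) (nat_lit 13300) (XT.nd (nat_lit 468) (nat_lit 456) (nat_lit 0) (XT.nd (nat_lit 78) (nat_lit 608) (nat_lit 0) (XT.lf (nat_lit 0) (nat_lit 50939350827) (nat_lit 380) (nat_lit 22776062472) (nat_lit 76) (nat_lit 22076522157) (nat_lit 214) (nat_lit 5) (nat_lit 219) (nat_lit 5) (nat_lit 215) (nat_lit 5) (nat_lit 473) (nat_lit 413) (nat_lit 134)) (XT.nd (nat_lit 78) (nat_lit 380) (nat_lit 0) (XT.lf (nat_lit 0) (nat_lit 37255937884) (nat_lit 228) (nat_lit 37959643491) (nat_lit 304) (nat_lit 22344024151) (nat_lit 211) (nat_lit 5) (nat_lit 214) (nat_lit 5) (nat_lit 215) (nat_lit 5) (nat_lit 474) (nat_lit 413) (nat_lit 133)) (XT.lf (nat_lit 0) (nat_lit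 174514968) (nat_lit 304) (nat_lit 882264549) (nat_lit 380) (nat_lit 98316282791) (nat_lit 206) (nat_lit 5) (nat_lit 210) (nat_lit 5) (nat_lit 211) (nat_lit 5) (nat_lit 475) (nat_lit 413) (nat_lit 132)))) (XT.nd (nat_lit 48126) (nat_lit 0) (nat_lit 13224) (XT.nd (nat_lit 48048) (nat_lit 0) (nat_lit 13224) (XT.lf (nat_lit 0) (nat_lit 52994044463) (nat_lit 228) (nat_lit 53675335282) (nat_lit 304) (nat_lit 290722191) (nat_lit 200) (nat_lit 5) (nat_lit 203) (nat_lit 5) (nat_lit 204) (nat_lit 5) (nat_lit 479) (nat_lit 413) (nat_lit 128)) (XT.lf (nat_lit 0) (nat_lit 10869750837) (nat_lit 1292) (nat_lit 3614788022) (nat_lit 1292) (nat_lit 3614788022) (nat_lit 374) (nat_lit 3) (nat_lit 391) (nat_lit 3) (nat_lit 391) (nat_lit 5) (nat_lit 414) (nat_lit 414) (nat_lit 192))) (XT.nd (nat_lit 78) (nat_lit 0) (nat_lit 76) (XT.lf (nat_lit 76) (nat_lit 11086080192) (nat_lit 0) (nat_lit 11135965475) (nat_lit 1292) (nat_lit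 14514894358) (nat_lit 375) (nat_lit 5) (nat_lit 374) (nat_lit 3) (nat_lit 391) (nat_lit 5) (nat_lit 415) (nat_lit 414) (nat_lit 191)) (XT.lf (nat_lit 0) (nat_lit 22860365361) (nat_lit 1216) (nat_lit 7261112255) (nat_lit 1292) (nat_lit 7165658278) (nat_lit 375) (nat_lit 5) (nat_lit 391) (nat_lit 5) (nat_lit 392) (nat_lit 5) (nat_lit 416) (nat_lit 414) (nat_lit 190))))) (XT.nd (nat_lit 312) (nat_lit 0) (nat_lit 152) (XT.nd (nat_lit 156) (nat_lit 0) (nat_lit 76) (XT.nd (nat_lit 78) (nat_lit 0) (nat_lit 76) (XT.lf (nat_lit 76) (nat_lit 11799258168) (nat_lit 0) (nat_lit 11940364246) (nat_lit 1292) (nat_lit 14107561593) (nat_lit 376) (nat_lit 5) (nat_lit 375) (nat_lit 5) (nat_lit 392) (nat_lit 5) (nat_lit 417) (nat_lit 414) (nat_lit 189)) (XT.lf (nat_lit 0) (nat_lit 24782700751) (nat_lit 1216) (nat_lit 6908618590) (nat_lit 1292) (nat_lit 6728590914) (nat_lit 376) (nat_lit 5) (nat_lit 392) (nat_lit 5) (nat_lit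 393) (nat_lit 5) (nat_lit 418) (nat_lit 414) (nat_lit 188))) (XT.nd (nat_lit 78) (nat_lit 0) (nat_lit 76) (XT.lf (nat_lit 76) (nat_lit 12938035286) (nat_lit 0) (nat_lit 13159841101) (nat_lit 1292) (nat_lit 12904717754) (nat_lit 377) (nat_lit 5) (nat_lit 376) (nat_lit 5) (nat_lit 393) (nat_lit 5) (nat_lit 419) (nat_lit 414) (nat_lit 187)) (XT.lf (nat_lit 0) (nat_lit 27578204477) (nat_lit 1216) (nat_lit 6137754253) (nat_lit 1292) (nat_lit 5883028899) (nat_lit 377) (nat_lit 5) (nat_lit 393) (nat_lit 5) (nat_lit 394) (nat_lit 5) (nat_lit 420) (nat_lit 414) (nat_lit 186)))) (XT.nd (nat_lit 156) (nat_lit 0) (nat_lit 76) (XT.nd (nat_lit 78) (nat_lit 0) (nat_lit 76) (XT.lf (nat_lit 76) (nat_lit 14539176524) (nat_lit 0) (nat_lit 14832134794) (nat_lit 1292) (nat_lit 10833910537) (nat_lit 378) (nat_lit 5) (nat_lit 377) (nat_lit 5) (nat_lit 394) (nat_lit 5) (nat_lit 421) (nat_lit 414) (nat_lit 185)) (XT.lf (nat_lit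 0) (nat_lit 31323555411) (nat_lit 1216) (nat_lit 4911695535) (nat_lit 1292) (nat_lit 4591231840) (nat_lit 378) (nat_lit 5) (nat_lit 394) (nat_lit 5) (nat_lit 395) (nat_lit 5) (nat_lit 422) (nat_lit 414) (nat_lit 184))) (XT.nd (nat_lit 78) (nat_lit 0) (nat_lit 76) (XT.lf (nat_lit 76) (nat_lit 16642073568) (nat_lit 0) (nat_lit 16997525797) (nat_lit 1292) (nat_lit 7817625203) (nat_lit 379) (nat_lit 5) (nat_lit 378) (nat_lit 5) (nat_lit 395) (nat_lit 5) (nat_lit 423) (nat_lit 414) (nat_lit 183)) (XT.lf (nat_lit 0) (nat_lit 36100742415) (nat_lit 1216) (nat_lit 3190978478) (nat_lit 1292) (nat_lit 2812899178) (nat_lit 379) (nat_lit 5) (nat_lit 395) (nat_lit 5) (nat_lit 396) (nat_lit 5) (nat_lit 424) (nat_lit 414) (nat_lit 182)))))) (XT.nd (nat_lit 624) (nat_lit 2432) (nat_lit 0) (XT.nd (nat_lit 312) (nat_lit 684) (nat_lit 0) (XT.nd (nat_lit 156) (nat_lit 1216) (nat_lit 0) (XT.nd (nat_lit 78) (nat_lit 0) (nat_lit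 76) (XT.lf (nat_lit 76) (nat_lit 19288910843) (nat_lit 0) (nat_lit 19699009608) (nat_lit 1292) (nat_lit 3772950967) (nat_lit 380) (nat_lit 5) (nat_lit 379) (nat_lit 5) (nat_lit 396) (nat_lit 5) (nat_lit 425) (nat_lit 414) (nat_lit 181)) (XT.lf (nat_lit 0) (nat_lit 41997412293) (nat_lit 1216) (nat_lit 933331308) (nat_lit 1292) (nat_lit 504995750) (nat_lit 380) (nat_lit 5) (nat_lit 396) (nat_lit 5) (nat_lit 397) (nat_lit 5) (nat_lit 426) (nat_lit 414) (nat_lit 180))) (XT.nd (nat_lit 78) (nat_lit 0) (nat_lit 0) (XT.lf (nat_lit 0) (nat_lit 1361673222) (nat_lit 1292) (nat_lit 21607056752) (nat_lit 1368) (nat_lit 21149418848) (nat_lit 363) (nat_lit 5) (nat_lit 380) (nat_lit 5) (nat_lit 381) (nat_lit 5) (nat_lit 427) (nat_lit 414) (nat_lit 179)) (XT.lf (nat_lit 76) (nat_lit 1878420471) (nat_lit 0) (nat_lit 2364507255) (nat_lit 1368) (nat_lit 40576890730) (nat_lit 364) (nat_lit 5) (nat_lit 363) (nat_lit 5)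 (nat_lit 381) (nat_lit 5) (nat_lit 428) (nat_lit 414) (nat_lit 178)))) (XT.nd (nat_lit 156) (nat_lit 760) (nat_lit 0) (XT.nd (nat_lit 78) (nat_lit 0) (nat_lit 0) (XT.lf (nat_lit 0) (nat_lit 7610863505) (nat_lit 1292) (nat_lit 19209206040) (nat_lit 1368) (nat_lit 18710461326) (nat_lit 364) (nat_lit 5) (nat_lit 381) (nat_lit 5) (nat_lit 382) (nat_lit 5) (nat_lit 429) (nat_lit 414) (nat_lit 177)) (XT.lf (nat_lit 76) (nat_lit 5314106388) (nat_lit 0) (nat_lit 5838885857) (nat_lit 1368) (nat_lit 35107377766) (nat_lit 365) (nat_lit 5) (nat_lit 364) (nat_lit 5) (nat_lit 382) (nat_lit 5) (nat_lit 430) (nat_lit 414) (nat_lit 176))) (XT.nd (nat_lit 78) (nat_lit 836) (nat_lit 0) (XT.lf (nat_lit 0) (nat_lit 15147579784) (nat_lit 1292) (nat_lit 16194086788) (nat_lit 76) (nat_lit 15660051904) (nat_lit 365) (nat_lit 5) (nat_lit 382) (nat_lit 5) (nat_lit 366) (nat_lit 5) (nat_lit 431) (nat_lit 414) (nat_lit 175)) (XT.lf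 (nat_lit 0) (nat_lit 9425645013) (nat_lit 836) (nat_lit 9983505387) (nat_lit 912) (nat_lit 28351742634) (nat_lit 354) (nat_lit 5) (nat_lit 365) (nat_lit 5) (nat_lit 366) (nat_lit 5) (nat_lit 432) (nat_lit 414) (nat_lit 174))))) (XT.nd (nat_lit 312) (nat_lit 1216) (nat_lit 0) (XT.nd (nat_lit 156) (nat_lit 608) (nat_lit 0) (XT.nd (nat_lit 78) (nat_lit 608) (nat_lit 0) (XT.lf (nat_lit 0) (nat_lit 24077972257) (nat_lit 912) (nat_lit 12510279134) (nat_lit 76) (nat_lit 11946209312) (nat_lit 354) (nat_lit 5) (nat_lit 366) (nat_lit 5) (nat_lit 355) (nat_lit 5) (nat_lit 433) (nat_lit 414) (nat_lit 173)) (XT.lf (nat_lit 0) (nat_lit 14267888417) (nat_lit 608) (nat_lit 14853761936) (nat_lit 684) (nat_lit 20202541302) (nat_lit 346) (nat_lit 5) (nat_lit 354) (nat_lit 5) (nat_lit 355) (nat_lit 5) (nat_lit 434) (nat_lit 414) (nat_lit 172))) (XT.nd (nat_lit 78) (nat_lit 608) (nat_lit 0) (XT.lf (nat_lit 0) (nat_lit 34515446865)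 (nat_lit 684) (nat_lit 8102782373) (nat_lit 76) (nat_lit 7513421056) (nat_lit 346) (nat_lit 5) (nat_lit 355) (nat_lit 5) (nat_lit 347) (nat_lit 5) (nat_lit 435) (nat_lit 414) (nat_lit 171)) (XT.lf (nat_lit 0) (nat_lit 19899474121) (nat_lit 608) (nat_lit 20508788911) (nat_lit 684) (nat_lit 10544953486) (nat_lit 338) (nat_lit 5) (nat_lit 346) (nat_lit 5) (nat_lit 347) (nat_lit 5) (nat_lit 436) (nat_lit 414) (nat_lit 170)))) (XT.nd (nat_lit 156) (nat_lit 608) (nat_lit 0) (XT.nd (nat_lit 78) (nat_lit 608) (nat_lit 0) (XT.lf (nat_lit 0) (nat_lit 46581134261) (nat_lit 684) (nat_lit 2912786585) (nat_lit 76) (nat_lit 2302410767) (nat_lit 338) (nat_lit 5) (nat_lit 347) (nat_lit 5) (nat_lit 339) (nat_lit 5) (nat_lit 437) (nat_lit 414) (nat_lit 169)) (XT.lf (nat_lit 0) (nat_lit 729182722) (nat_lit 608) (nat_lit 26275155880) (nat_lit 76) (nat_lit 25646519808) (nat_lit 330) (nat_lit 5) (nat_lit 338) (nat_lit 5)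 (nat_lit 331) (nat_lit 5) (nat_lit 438) (nat_lit 414) (nat_lit 168))) (XT.nd (nat_lit 78) (nat_lit 0) (nat_lit 0) (XT.lf (nat_lit 0) (nat_lit 3079467575) (nat_lit 608) (nat_lit 3725832048) (nat_lit 684) (nat_lit 46722425549) (nat_lit 322) (nat_lit 5) (nat_lit 330) (nat_lit 5) (nat_lit 331) (nat_lit 5) (nat_lit 439) (nat_lit 414) (nat_lit 167)) (XT.lf (nat_lit 0) (nat_lit 13525259676) (nat_lit 684) (nat_lit 20768020256) (nat_lit 76) (nat_lit 20123771214) (nat_lit 322) (nat_lit 5) (nat_lit 331) (nat_lit 5) (nat_lit 323) (nat_lit 5) (nat_lit 440) (nat_lit 414) (nat_lit 166))))))))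
noncomputable def xc234 : XT := (XT.nd (nat_lit 2340) (nat_lit 1444) (nat_lit 0) (XT.nd (nat_lit 1170) (nat_lit 3268) (nat_lit 0) (XT.nd (nat_lit 546) (nat_lit 2204) (nat_lit 0) (XT.nd (nat_lit 234) (nat_lit 1064) (nat_lit 0) (XT.nd (nat_lit 78) (nat_lit 532) (nat_lit 0) (XT.lf (nat_lit 0) (nat_lit 9958968647) (nat_lit 532) (nat_lit 10619441687) (nat_lit 608) (nat_lit 34750698811) (nat_lit 315) (nat_lit 5) (nat_lit 322) (nat_lit 5) (nat_lit 323) (nat_lit 5) (nat_lit 441) (nat_lit 414) (nat_lit 165)) (XT.nd (nat_lit 78) (nat_lit 532) (nat_lit 0) (XT.lf (nat_lit 0) (nat_lit 28186251460) (nat_lit 608) (nat_lit 14364256592) (nat_lit 76) (nat_lit 13707727955) (nat_lit 315) (nat_lit 5) (nat_lit 323) (nat_lit 5) (nat_lit 316) (nat_lit 5) (nat_lit 442) (nat_lit 414) (nat_lit 164)) (XT.lf (nat_lit 0) (nat_lit 17813172428) (nat_lit 532) (nat_lit 18484548321) (nat_lit 608) (nat_lit 20909254137) (nat_lit 308) (nat_lit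 5) (nat_lit 315) (nat_lit 5) (nat_lit 316) (nat_lit 5) (nat_lit 443) (nat_lit 414) (nat_lit 163)))) (XT.nd (nat_lit 156) (nat_lit 608) (nat_lit 0) (XT.nd (nat_lit 78) (nat_lit 456) (nat_lit 0) (XT.lf (nat_lit 0) (nat_lit 44858649096) (nat_lit 608) (nat_lit 6992579803) (nat_lit 76) (nat_lit 6326763583) (nat_lit 308) (nat_lit 5) (nat_lit 316) (nat_lit 5) (nat_lit 309) (nat_lit 5) (nat_lit 444) (nat_lit 414) (nat_lit 162)) (XT.lf (nat_lit 0) (nat_lit 26717955216) (nat_lit 456) (nat_lit 27397358779) (nat_lit 532) (nat_lit 5049659350) (nat_lit 302) (nat_lit 5) (nat_lit 308) (nat_lit 5) (nat_lit 309) (nat_lit 5) (nat_lit 445) (nat_lit 414) (nat_lit 161))) (XT.nd (nat_lit 78) (nat_lit 0) (nat_lit 0) (XT.lf (nat_lit 0) (nat_lit 1395822294) (nat_lit 532) (nat_lit 2088417453) (nat_lit 608) (nat_lit 56693809759) (nat_lit 294) (nat_lit 5) (nat_lit 301) (nat_lit 5) (nat_lit 302) (nat_lit 5) (nat_lit 446) (nat_lit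 414) (nat_lit 160)) (XT.lf (nat_lit 0) (nat_lit 12733153646) (nat_lit 608) (nat_lit 24577453253) (nat_lit 76) (nat_lit 23892596424) (nat_lit 294) (nat_lit 5) (nat_lit 302) (nat_lit 5) (nat_lit 295) (nat_lit 5) (nat_lit 447) (nat_lit 414) (nat_lit 159))))) (XT.nd (nat_lit 312) (nat_lit 1292) (nat_lit 0) (XT.nd (nat_lit 156) (nat_lit 456) (nat_lit 0) (XT.nd (nat_lit 78) (nat_lit 0) (nat_lit 0) (XT.lf (nat_lit 0) (nat_lit 10843314866) (nat_lit 456) (nat_lit 11540243873) (nat_lit 532) (nat_lit 39871832303) (nat_lit 288) (nat_lit 5) (nat_lit 294) (nat_lit 5) (nat_lit 295) (nat_lit 5) (nat_lit 448) (nat_lit 414) (nat_lit 158)) (XT.lf (nat_lit 0) (nat_lit 32717465296) (nat_lit 532) (nat_lit 15648934353) (nat_lit 76) (nat_lit 14960925063) (nat_lit 288) (nat_lit 5) (nat_lit 295) (nat_lit 5) (nat_lit 289) (nat_lit 5) (nat_lit 449) (nat_lit 414) (nat_lit 157))) (XT.nd (nat_lit 78) (nat_lit 0) (nat_lit 0) (XT.lf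 (nat_lit 0) (nat_lit 21491165606) (nat_lit 456) (nat_lit 22190222650) (nat_lit 532) (nat_lit 20740428161) (nat_lit 282) (nat_lit 5) (nat_lit 288) (nat_lit 5) (nat_lit 289) (nat_lit 5) (nat_lit 450) (nat_lit 414) (nat_lit 156)) (XT.lf (nat_lit 0) (nat_lit 55178847005) (nat_lit 532) (nat_lit 5526633525) (nat_lit 76) (nat_lit 4837523799) (nat_lit 282) (nat_lit 5) (nat_lit 289) (nat_lit 5) (nat_lit 283) (nat_lit 5) (nat_lit 451) (nat_lit 414) (nat_lit 155)))) (XT.nd (nat_lit 156) (nat_lit 380) (nat_lit 0) (XT.nd (nat_lit 78) (nat_lit 456) (nat_lit 0) (XT.lf (nat_lit 0) (nat_lit 862695823) (nat_lit 456) (nat_lit 33258945317) (nat_lit 76) (nat_lit 32559725331) (nat_lit 276) (nat_lit 5) (nat_lit 282) (nat_lit 5) (nat_lit 277) (nat_lit 5) (nat_lit 452) (nat_lit 414) (nat_lit 154)) (XT.lf (nat_lit 0) (nat_lit 5810208794) (nat_lit 456) (nat_lit 6519244566) (nat_lit 532) (nat_lit 55518005409) (nat_lit 270) (nat_lit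 5) (nat_lit 276) (nat_lit 5) (nat_lit 277) (nat_lit 5) (nat_lit 453) (nat_lit 414) (nat_lit 153))) (XT.nd (nat_lit 78) (nat_lit 380) (nat_lit 0) (XT.lf (nat_lit 0) (nat_lit 24689220517) (nat_lit 532) (nat_lit 22520239839) (nat_lit 76) (nat_lit 21822603275) (nat_lit 270) (nat_lit 5) (nat_lit 277) (nat_lit 5) (nat_lit 271) (nat_lit 5) (nat_lit 454) (nat_lit 414) (nat_lit 152)) (XT.lf (nat_lit 0) (nat_lit 18477276829) (nat_lit 380) (nat_lit 19183896228) (nat_lit 456) (nat_lit 32583791810) (nat_lit 265) (nat_lit 5) (nat_lit 270) (nat_lit 5) (nat_lit 271) (nat_lit 5) (nat_lit 455) (nat_lit 414) (nat_lit 151)))))) (XT.nd (nat_lit 546) (nat_lit 1748) (nat_lit 0) (XT.nd (nat_lit 234) (nat_lit 684) (nat_lit 0) (XT.nd (nat_lit 78) (nat_lit 836) (nat_lit 0) (XT.lf (nat_lit 0) (nat_lit 51344260383) (nat_lit 456) (nat_lit 10417419453) (nat_lit 76) (nat_lit 9722914018) (nat_lit 265) (nat_lit 5) (nat_lit 271) (nat_lit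 5) (nat_lit 266) (nat_lit 5) (nat_lit 456) (nat_lit 414) (nat_lit 150)) (XT.nd (nat_lit 78) (nat_lit 456) (nat_lit 0) (XT.lf (nat_lit 0) (nat_lit 32618935016) (nat_lit 380) (nat_lit 33321661017) (nat_lit 456) (nat_lit 6805733007) (nat_lit 260) (nat_lit 5) (nat_lit 265) (nat_lit 5) (nat_lit 266) (nat_lit 5) (nat_lit 457) (nat_lit 414) (nat_lit 149)) (XT.lf (nat_lit 0) (nat_lit 3109191363) (nat_lit 380) (nat_lit 3819898496) (nat_lit 456) (nat_lit 67110766507) (nat_lit 254) (nat_lit 5) (nat_lit 259) (nat_lit 5) (nat_lit 260) (nat_lit 5) (nat_lit 458) (nat_lit 414) (nat_lit 148)))) (XT.nd (nat_lit 156) (nat_lit 304) (nat_lit 0) (XT.nd (nat_lit 78) (nat_lit 380) (nat_lit 0) (XT.lf (nat_lit 0) (nat_lit 21603043336) (nat_lit 456) (nat_lit 27222369174) (nat_lit 76) (nat_lit 26524839265) (nat_lit 254) (nat_lit 5) (nat_lit 260) (nat_lit 5) (nat_lit 255) (nat_lit 5) (nat_lit 459) (nat_lit 414) (nat_lit 147)) (XT.lf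 (nat_lit 0) (nat_lit 18111801095) (nat_lit 380) (nat_lit 18816634870) (nat_lit 456) (nat_lit 39765186464) (nat_lit 249) (nat_lit 5) (nat_lit 254) (nat_lit 5) (nat_lit 255) (nat_lit 5) (nat_lit 460) (nat_lit 414) (nat_lit 146))) (XT.nd (nat_lit 78) (nat_lit 304) (nat_lit 0) (XT.lf (nat_lit 0) (nat_lit 53106750725) (nat_lit 456) (nat_lit 12824968949) (nat_lit 76) (nat_lit 12133779719) (nat_lit 249) (nat_lit 5) (nat_lit 255) (nat_lit 5) (nat_lit 250) (nat_lit 5) (nat_lit 461) (nat_lit 414) (nat_lit 145)) (XT.lf (nat_lit 0) (nat_lit 34796327606) (nat_lit 304) (nat_lit 35494200909) (nat_lit 380) (nat_lit 9172400742) (nat_lit 245) (nat_lit 5) (nat_lit 249) (nat_lit 5) (nat_lit 250) (nat_lit 5) (nat_lit 462) (nat_lit 414) (nat_lit 144))))) (XT.nd (nat_lit 312) (nat_lit 988) (nat_lit 0) (XT.nd (nat_lit 156) (nat_lit 304) (nat_lit 0) (XT.nd (nat_lit 78) (nat_lit 0) (nat_lit 0) (XT.lf (nat_lit 0) (nat_lit 3202889780)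 (nat_lit 380) (nat_lit 3907252475) (nat_lit 456) (nat_lit 73785268630) (nat_lit 239) (nat_lit 5) (nat_lit 244) (nat_lit 5) (nat_lit 245) (nat_lit 5) (nat_lit 463) (nat_lit 414) (nat_lit 143)) (XT.lf (nat_lit 0) (nat_lit 24426837508) (nat_lit 456) (nat_lit 29304684082) (nat_lit 76) (nat_lit 28614719932) (nat_lit 239) (nat_lit 5) (nat_lit 245) (nat_lit 5) (nat_lit 240) (nat_lit 5) (nat_lit 464) (nat_lit 414) (nat_lit 142))) (XT.nd (nat_lit 78) (nat_lit 0) (nat_lit 0) (XT.lf (nat_lit 0) (nat_lit 20903053363) (nat_lit 304) (nat_lit 21598956224) (nat_lit 380) (nat_lit 41331418212) (nat_lit 235) (nat_lit 5) (nat_lit 239) (nat_lit 5) (nat_lit 240) (nat_lit 5) (nat_lit 465) (nat_lit 414) (nat_lit 141)) (XT.lf (nat_lit 0) (nat_lit 61528172625) (nat_lit 380) (nat_lit 12253013308) (nat_lit 76) (nat_lit 11571781657) (nat_lit 235) (nat_lit 5) (nat_lit 240) (nat_lit 5) (nat_lit 236) (nat_lit 5) (nat_lit 466) (nat_lit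 414) (nat_lit 140)))) (XT.nd (nat_lit 156) (nat_lit 304) (nat_lit 0) (XT.nd (nat_lit 78) (nat_lit 380) (nat_lit 0) (XT.lf (nat_lit 0) (nat_lit 40520598353) (nat_lit 304) (nat_lit 41207264767) (nat_lit 380) (nat_lit 5172148178) (nat_lit 231) (nat_lit 5) (nat_lit 235) (nat_lit 5) (nat_lit 236) (nat_lit 5) (nat_lit 467) (nat_lit 414) (nat_lit 139)) (XT.lf (nat_lit 0) (nat_lit 6631123722) (nat_lit 304) (nat_lit 7323066605) (nat_lit 380) (nat_lit 74529584592) (nat_lit 226) (nat_lit 5) (nat_lit 230) (nat_lit 5) (nat_lit 231) (nat_lit 5) (nat_lit 468) (nat_lit 414) (nat_lit 138))) (XT.nd (nat_lit 78) (nat_lit 304) (nat_lit 0) (XT.lf (nat_lit 0) (nat_lit 34287827420) (nat_lit 380) (nat_lit 28240163313) (nat_lit 76) (nat_lit 27563400528) (nat_lit 226) (nat_lit 5) (nat_lit 231) (nat_lit 5) (nat_lit 227) (nat_lit 5) (nat_lit 469) (nat_lit 414) (nat_lit 137)) (XT.lf (nat_lit 0) (nat_lit 27442797201) (nat_lit 304)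 (nat_lit 28124388702) (nat_lit 380) (nat_lit 36169978822) (nat_lit 222) (nat_lit 5) (nat_lit 226) (nat_lit 5) (nat_lit 227) (nat_lit 5) (nat_lit 470) (nat_lit 414) (nat_lit 136))))))) (XT.nd (nat_lit 49530) (nat_lit 0) (nat_lit 9044) (XT.nd (nat_lit 48906) (nat_lit 0) (nat_lit 13072) (XT.nd (nat_lit 234) (nat_lit 836) (nat_lit 0) (XT.nd (nat_lit 78) (nat_lit 608) (nat_lit 0) (XT.lf (nat_lit 0) (nat_lit 77842615064) (nat_lit 380) (nat_lit 8122628241) (nat_lit 76) (nat_lit 7456337391) (nat_lit 222) (nat_lit 5) (nat_lit 227) (nat_lit 5) (nat_lit 223) (nat_lit 5) (nat_lit 471) (nat_lit 414) (nat_lit 135)) (XT.nd (nat_lit 78) (nat_lit 304) (nat_lit 0) (XT.lf (nat_lit 0) (nat_lit 6290216397) (nat_lit 304) (nat_lit 44756145091) (nat_lit 76) (nat_lit 44085435282) (nat_lit 218) (nat_lit 5) (nat_lit 222) (nat_lit 5) (nat_lit 219) (nat_lit 5) (nat_lit 472) (nat_lit 414) (nat_lit 134)) (XT.lf (nat_lit 0) (nat_lit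 14022205844) (nat_lit 304) (nat_lit 14697205905) (nat_lit 380) (nat_lit 68162768371) (nat_lit 214) (nat_lit 5) (nat_lit 218) (nat_lit 5) (nat_lit 219) (nat_lit 5) (nat_lit 473) (nat_lit 414) (nat_lit 133)))) (XT.nd (nat_lit 48516) (nat_lit 0) (nat_lit 12996) (XT.nd (nat_lit 312) (nat_lit 836) (nat_lit 0) (XT.lf (nat_lit 0) (nat_lit 52495960963) (nat_lit 380) (nat_lit 23414131753) (nat_lit 76) (nat_lit 22754747915) (nat_lit 214) (nat_lit 5) (nat_lit 219) (nat_lit 5) (nat_lit 215) (nat_lit 5) (nat_lit 474) (nat_lit 414) (nat_lit 132)) (XT.lf (nat_lit 0) (nat_lit 26105826902) (nat_lit 228) (nat_lit 26760599414) (nat_lit 304) (nat_lit 53309849918) (nat_lit 203) (nat_lit 5) (nat_lit 206) (nat_lit 5) (nat_lit 207) (nat_lit 5) (nat_lit 478) (nat_lit 414) (nat_lit 128))) (XT.nd (nat_lit 78) (nat_lit 0) (nat_lit 0) (XT.lf (nat_lit 0) (nat_lit 11245249117) (nat_lit 1292) (nat_lit 3697787699) (nat_lit 1292) (nat_lit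 3697787699) (nat_lit 374) (nat_lit 3) (nat_lit 391) (nat_lit 3) (nat_lit 391) (nat_lit 5) (nat_lit 415) (nat_lit 415) (nat_lit 190)) (XT.lf (nat_lit 76) (nat_lit 11469051624) (nat_lit 0) (nat_lit 11516073288) (nat_lit 1292) (nat_lit 14851030777) (nat_lit 375) (nat_lit 5) (nat_lit 374) (nat_lit 3) (nat_lit 391) (nat_lit 5) (nat_lit 416) (nat_lit 415) (nat_lit 189))))) (XT.nd (nat_lit 312) (nat_lit 0) (nat_lit 152) (XT.nd (nat_lit 156) (nat_lit 0) (nat_lit 76) (XT.nd (nat_lit 78) (nat_lit 0) (nat_lit 0) (XT.lf (nat_lit 0) (nat_lit 23639356340) (nat_lit 1216) (nat_lit 7426786380) (nat_lit 1292) (nat_lit 7336811851) (nat_lit 375) (nat_lit 5) (nat_lit 391) (nat_lit 5) (nat_lit 392) (nat_lit 5) (nat_lit 417) (nat_lit 415) (nat_lit 188)) (XT.lf (nat_lit 76) (nat_lit 12204883791) (nat_lit 0) (nat_lit 12337889803) (nat_lit 1292) (nat_lit 14437097058) (nat_lit 376) (nat_lit 5) (nat_lit 375) (nat_lit 5) (nat_lit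 392) (nat_lit 5) (nat_lit 418) (nat_lit 415) (nat_lit 187))) (XT.nd (nat_lit 78) (nat_lit 0) (nat_lit 0) (XT.lf (nat_lit 0) (nat_lit 25614127978) (nat_lit 1216) (nat_lit 7062717274) (nat_lit 1292) (nat_lit 6893023923) (nat_lit 376) (nat_lit 5) (nat_lit 392) (nat_lit 5) (nat_lit 393) (nat_lit 5) (nat_lit 419) (nat_lit 415) (nat_lit 186)) (XT.lf (nat_lit 76) (nat_lit 13378815043) (nat_lit 0) (nat_lit 13587888297) (nat_lit 1292) (nat_lit 13203391906) (nat_lit 377) (nat_lit 5) (nat_lit 376) (nat_lit 5) (nat_lit 393) (nat_lit 5) (nat_lit 420) (nat_lit 415) (nat_lit 185)))) (XT.nd (nat_lit 156) (nat_lit 0) (nat_lit 76) (XT.nd (nat_lit 78) (nat_lit 0) (nat_lit 0) (XT.lf (nat_lit 0) (nat_lit 28488629274) (nat_lit 1216) (nat_lit 6267969351) (nat_lit 1292) (nat_lit 6027866274) (nat_lit 377) (nat_lit 5) (nat_lit 393) (nat_lit 5) (nat_lit 394) (nat_lit 5) (nat_lit 421) (nat_lit 415) (nat_lit 184)) (XT.lf (nat_lit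 76) (nat_lit 15028740746) (nat_lit 0) (nat_lit 15304882013) (nat_lit 1292) (nat_lit 11075320588) (nat_lit 378) (nat_lit 5) (nat_lit 377) (nat_lit 5) (nat_lit 394) (nat_lit 5) (nat_lit 422) (nat_lit 415) (nat_lit 183))) (XT.nd (nat_lit 78) (nat_lit 0) (nat_lit 0) (XT.lf (nat_lit 0) (nat_lit 32341810649) (nat_lit 1216) (nat_lit 5004588965) (nat_lit 1292) (nat_lit 4702521197) (nat_lit 378) (nat_lit 5) (nat_lit 394) (nat_lit 5) (nat_lit 395) (nat_lit 5) (nat_lit 423) (nat_lit 415) (nat_lit 182)) (XT.lf (nat_lit 76) (nat_lit 17195259315) (nat_lit 0) (nat_lit 17530307132) (nat_lit 1292) (nat_lit 7973071486) (nat_lit 379) (nat_lit 5) (nat_lit 378) (nat_lit 5) (nat_lit 395) (nat_lit 5) (nat_lit 424) (nat_lit 415) (nat_lit 181)))))) (XT.nd (nat_lit 624) (nat_lit 3116) (nat_lit 0) (XT.nd (nat_lit 312) (nat_lit 0) (nat_lit 0) (XT.nd (nat_lit 156) (nat_lit 1216) (nat_lit 0) (XT.nd (nat_lit 78) (nat_lit 0) (nat_lit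 0) (XT.lf (nat_lit 0) (nat_lit 37258094200) (nat_lit 1216) (nat_lit 3231905295) (nat_lit 1292) (nat_lit 2875529293) (nat_lit 379) (nat_lit 5) (nat_lit 395) (nat_lit 5) (nat_lit 396) (nat_lit 5) (nat_lit 425) (nat_lit 415) (nat_lit 180)) (XT.lf (nat_lit 76) (nat_lit 19921843426) (nat_lit 0) (nat_lit 20308400845) (nat_lit 1292) (nat_lit 3811272704) (nat_lit 380) (nat_lit 5) (nat_lit 379) (nat_lit 5) (nat_lit 396) (nat_lit 5) (nat_lit 426) (nat_lit 415) (nat_lit 179))) (XT.nd (nat_lit 78) (nat_lit 1292) (nat_lit 0) (XT.lf (nat_lit 0) (nat_lit 43327731878) (nat_lit 1216) (nat_lit 906357541) (nat_lit 1292) (nat_lit 502610196) (nat_lit 380) (nat_lit 5) (nat_lit 396) (nat_lit 5) (nat_lit 397) (nat_lit 5) (nat_lit 427) (nat_lit 415) (nat_lit 178)) (XT.lf (nat_lit 0) (nat_lit 1472075373) (nat_lit 1292) (nat_lit 22199449486) (nat_lit 1368) (nat_lit 21768081870) (nat_lit 363) (nat_lit 5) (nat_lit 380) (nat_lit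 5) (nat_lit 381) (nat_lit 5) (nat_lit 428) (nat_lit 415) (nat_lit 177)))) (XT.nd (nat_lit 156) (nat_lit 0) (nat_lit 76) (XT.nd (nat_lit 78) (nat_lit 0) (nat_lit 76) (XT.lf (nat_lit 76) (nat_lit 1990044810) (nat_lit 0) (nat_lit 2448228224) (nat_lit 1368) (nat_lit 41724098253) (nat_lit 364) (nat_lit 5) (nat_lit 363) (nat_lit 5) (nat_lit 381) (nat_lit 5) (nat_lit 429) (nat_lit 415) (nat_lit 176)) (XT.lf (nat_lit 0) (nat_lit 7905145303) (nat_lit 1292) (nat_lit 19729718772) (nat_lit 1368) (nat_lit 19259604045) (nat_lit 364) (nat_lit 5) (nat_lit 381) (nat_lit 5) (nat_lit 382) (nat_lit 5) (nat_lit 430) (nat_lit 415) (nat_lit 175))) (XT.nd (nat_lit 78) (nat_lit 0) (nat_lit 76) (XT.lf (nat_lit 76) (nat_lit 5528746328) (nat_lit 0) (nat_lit 6023401309) (nat_lit 1368) (nat_lit 36094096505) (nat_lit 365) (nat_lit 5) (nat_lit 364) (nat_lit 5) (nat_lit 382) (nat_lit 5) (nat_lit 431) (nat_lit 415) (nat_lit 174)) (XT.lf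 (nat_lit 0) (nat_lit 15664605001) (nat_lit 1292) (nat_lit 16624333096) (nat_lit 76) (nat_lit 16120953999) (nat_lit 365) (nat_lit 5) (nat_lit 382) (nat_lit 5) (nat_lit 366) (nat_lit 5) (nat_lit 432) (nat_lit 415) (nat_lit 173))))) (XT.nd (nat_lit 312) (nat_lit 1824) (nat_lit 0) (XT.nd (nat_lit 156) (nat_lit 608) (nat_lit 0) (XT.nd (nat_lit 78) (nat_lit 0) (nat_lit 0) (XT.lf (nat_lit 0) (nat_lit 9763445794) (nat_lit 836) (nat_lit 10289282700) (nat_lit 912) (nat_lit 29139152224) (nat_lit 354) (nat_lit 5) (nat_lit 365) (nat_lit 5) (nat_lit 366) (nat_lit 5) (nat_lit 433) (nat_lit 415) (nat_lit 172)) (XT.lf (nat_lit 0) (nat_lit 24859770930) (nat_lit 912) (nat_lit 12830314858) (nat_lit 76) (nat_lit 12298624952) (nat_lit 354) (nat_lit 5) (nat_lit 366) (nat_lit 5) (nat_lit 355) (nat_lit 5) (nat_lit 434) (nat_lit 415) (nat_lit 171))) (XT.nd (nat_lit 78) (nat_lit 0) (nat_lit 0) (XT.lf (nat_lit 0) (nat_lit 14750655831)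 (nat_lit 608) (nat_lit 15302897813) (nat_lit 684) (nat_lit 20748616148) (nat_lit 346) (nat_lit 5) (nat_lit 354) (nat_lit 5) (nat_lit 355) (nat_lit 5) (nat_lit 435) (nat_lit 415) (nat_lit 170)) (XT.lf (nat_lit 0) (nat_lit 35607434459) (nat_lit 684) (nat_lit 8290999592) (nat_lit 76) (nat_lit 7735470025) (nat_lit 346) (nat_lit 5) (nat_lit 355) (nat_lit 5) (nat_lit 347) (nat_lit 5) (nat_lit 436) (nat_lit 415) (nat_lit 169)))) (XT.nd (nat_lit 156) (nat_lit 1216) (nat_lit 0) (XT.nd (nat_lit 78) (nat_lit 0) (nat_lit 0) (XT.lf (nat_lit 0) (nat_lit 20550786693) (nat_lit 608) (nat_lit 21125124321) (nat_lit 684) (nat_lit 10804239997) (nat_lit 338) (nat_lit 5) (nat_lit 346) (nat_lit 5) (nat_lit 347) (nat_lit 5) (nat_lit 437) (nat_lit 415) (nat_lit 168)) (XT.lf (nat_lit 0) (nat_lit 48032344782) (nat_lit 684) (nat_lit 2945800617) (nat_lit 76) (nat_lit 2370462867) (nat_lit 338) (nat_lit 5) (nat_lit 347) (nat_lit 5)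 (nat_lit 339) (nat_lit 5) (nat_lit 438) (nat_lit 415) (nat_lit 167))) (XT.nd (nat_lit 78) (nat_lit 608) (nat_lit 0) (XT.lf (nat_lit 0) (nat_lit 804307958) (nat_lit 608) (nat_lit 27008514251) (nat_lit 76) (nat_lit 26415964461) (nat_lit 330) (nat_lit 5) (nat_lit 338) (nat_lit 5) (nat_lit 331) (nat_lit 5) (nat_lit 439) (nat_lit 415) (nat_lit 166)) (XT.lf (nat_lit 0) (nat_lit 3226209708) (nat_lit 608) (nat_lit 3835470216) (nat_lit 684) (nat_lit 48070310362) (nat_lit 322) (nat_lit 5) (nat_lit 330) (nat_lit 5) (nat_lit 331) (nat_lit 5) (nat_lit 440) (nat_lit 415) (nat_lit 165))))))))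
noncomputable def xc235 : XT := (XT.nd (nat_lit 2340) (nat_lit 1520) (nat_lit 0) (XT.nd (nat_lit 1170) (nat_lit 3344) (nat_lit 0) (XT.nd (nat_lit 546) (nat_lit 1824) (nat_lit 0) (XT.nd (nat_lit 234) (nat_lit 1596) (nat_lit 0) (XT.nd (nat_lit 78) (nat_lit 532) (nat_lit 0) (XT.lf (nat_lit 0) (nat_lit 13981737713) (nat_lit 684) (nat_lit 21336784936) (nat_lit 76) (nat_lit 20729518424) (nat_lit 322) (nat_lit 5) (nat_lit 331) (nat_lit 5) (nat_lit 323) (nat_lit 5) (nat_lit 441) (nat_lit 415) (nat_lit 164)) (XT.nd (nat_lit 78) (nat_lit 0) (nat_lit 0) (XT.lf (nat_lit 0) (nat_lit 10311481517) (nat_lit 532) (nat_lit 10934040703) (nat_lit 608) (nat_lit 35741967413) (nat_lit 315) (nat_lit 5) (nat_lit 322) (nat_lit 5) (nat_lit 323) (nat_lit 5) (nat_lit 442) (nat_lit 415) (nat_lit 163)) (XT.lf (nat_lit 0) (nat_lit 29080186455) (nat_lit 608) (nat_lit 14741593707) (nat_lit 76) (nat_lit 14122752500) (nat_lit 315) (nat_lit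 5) (nat_lit 323) (nat_lit 5) (nat_lit 316) (nat_lit 5) (nat_lit 443) (nat_lit 415) (nat_lit 162)))) (XT.nd (nat_lit 156) (nat_lit 1064) (nat_lit 0) (XT.nd (nat_lit 78) (nat_lit 0) (nat_lit 0) (XT.lf (nat_lit 0) (nat_lit 18400632785) (nat_lit 532) (nat_lit 19033468955) (nat_lit 608) (nat_lit 21487658911) (nat_lit 308) (nat_lit 5) (nat_lit 315) (nat_lit 5) (nat_lit 316) (nat_lit 5) (nat_lit 444) (nat_lit 415) (nat_lit 161)) (XT.lf (nat_lit 0) (nat_lit 46250528328) (nat_lit 608) (nat_lit 7149507991) (nat_lit 76) (nat_lit 6521912346) (nat_lit 308) (nat_lit 5) (nat_lit 316) (nat_lit 5) (nat_lit 309) (nat_lit 5) (nat_lit 445) (nat_lit 415) (nat_lit 160))) (XT.nd (nat_lit 78) (nat_lit 608) (nat_lit 0) (XT.lf (nat_lit 0) (nat_lit 27571824949) (nat_lit 456) (nat_lit 28212227968) (nat_lit 532) (nat_lit 5154511243) (nat_lit 302) (nat_lit 5) (nat_lit 308) (nat_lit 5) (nat_lit 309) (nat_lit 5) (nat_lit 446) (nat_lit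 415) (nat_lit 159)) (XT.lf (nat_lit 0) (nat_lit 1490416141) (nat_lit 532) (nat_lit 2143253504) (nat_lit 608) (nat_lit 58348374265) (nat_lit 294) (nat_lit 5) (nat_lit 301) (nat_lit 5) (nat_lit 302) (nat_lit 5) (nat_lit 447) (nat_lit 415) (nat_lit 158))))) (XT.nd (nat_lit 312) (nat_lit 912) (nat_lit 0) (XT.nd (nat_lit 156) (nat_lit 456) (nat_lit 0) (XT.nd (nat_lit 78) (nat_lit 456) (nat_lit 0) (XT.lf (nat_lit 0) (nat_lit 13158816063) (nat_lit 608) (nat_lit 25262358285) (nat_lit 76) (nat_lit 24616815040) (nat_lit 294) (nat_lit 5) (nat_lit 302) (nat_lit 5) (nat_lit 295) (nat_lit 5) (nat_lit 448) (nat_lit 415) (nat_lit 157)) (XT.lf (nat_lit 0) (nat_lit 11220518970) (nat_lit 456) (nat_lit 11877441401) (nat_lit 532) (nat_lit 41023805557) (nat_lit 288) (nat_lit 5) (nat_lit 294) (nat_lit 5) (nat_lit 295) (nat_lit 5) (nat_lit 449) (nat_lit 415) (nat_lit 156))) (XT.nd (nat_lit 78) (nat_lit 456) (nat_lit 0) (XT.lf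 (nat_lit 0) (nat_lit 33740718844) (nat_lit 532) (nat_lit 16066844232) (nat_lit 76) (nat_lit 15418329490) (nat_lit 288) (nat_lit 5) (nat_lit 295) (nat_lit 5) (nat_lit 289) (nat_lit 5) (nat_lit 450) (nat_lit 415) (nat_lit 155)) (XT.lf (nat_lit 0) (nat_lit 22186953254) (nat_lit 456) (nat_lit 22845881564) (nat_lit 532) (nat_lit 21320405945) (nat_lit 282) (nat_lit 5) (nat_lit 288) (nat_lit 5) (nat_lit 289) (nat_lit 5) (nat_lit 451) (nat_lit 415) (nat_lit 154)))) (XT.nd (nat_lit 156) (nat_lit 456) (nat_lit 0) (XT.nd (nat_lit 78) (nat_lit 456) (nat_lit 0) (XT.lf (nat_lit 0) (nat_lit 56874116783) (nat_lit 532) (nat_lit 5641766277) (nat_lit 76) (nat_lit 4992214268) (nat_lit 282) (nat_lit 5) (nat_lit 289) (nat_lit 5) (nat_lit 283) (nat_lit 5) (nat_lit 452) (nat_lit 415) (nat_lit 153)) (XT.lf (nat_lit 0) (nat_lit 928189423) (nat_lit 456) (nat_lit 34205755779) (nat_lit 76) (nat_lit 33546673881) (nat_lit 276) (nat_lit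 5) (nat_lit 282) (nat_lit 5) (nat_lit 277) (nat_lit 5) (nat_lit 453) (nat_lit 415) (nat_lit 152))) (XT.nd (nat_lit 78) (nat_lit 0) (nat_lit 0) (XT.lf (nat_lit 0) (nat_lit 6034973368) (nat_lit 456) (nat_lit 6703307586) (nat_lit 532) (nat_lit 57143433259) (nat_lit 270) (nat_lit 5) (nat_lit 276) (nat_lit 5) (nat_lit 277) (nat_lit 5) (nat_lit 454) (nat_lit 415) (nat_lit 151)) (XT.lf (nat_lit 0) (nat_lit 25467814293) (nat_lit 532) (nat_lit 23145831552) (nat_lit 76) (nat_lit 22488242180) (nat_lit 270) (nat_lit 5) (nat_lit 277) (nat_lit 5) (nat_lit 271) (nat_lit 5) (nat_lit 455) (nat_lit 415) (nat_lit 150)))))) (XT.nd (nat_lit 546) (nat_lit 1748) (nat_lit 0) (XT.nd (nat_lit 234) (nat_lit 836) (nat_lit 0) (XT.nd (nat_lit 78) (nat_lit 380) (nat_lit 0) (XT.lf (nat_lit 0) (nat_lit 19081120269) (nat_lit 380) (nat_lit 19747176824) (nat_lit 456) (nat_lit 33522898056) (nat_lit 265) (nat_lit 5) (nat_lit 270) (nat_lit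 5) (nat_lit 271) (nat_lit 5) (nat_lit 456) (nat_lit 415) (nat_lit 149)) (XT.nd (nat_lit 78) (nat_lit 380) (nat_lit 0) (XT.lf (nat_lit 0) (nat_lit 52920905152) (nat_lit 456) (nat_lit 10680887496) (nat_lit 76) (nat_lit 10026249514) (nat_lit 265) (nat_lit 5) (nat_lit 271) (nat_lit 5) (nat_lit 266) (nat_lit 5) (nat_lit 457) (nat_lit 415) (nat_lit 148)) (XT.lf (nat_lit 0) (nat_lit 33646076680) (nat_lit 380) (nat_lit 34308463334) (nat_lit 456) (nat_lit 6973107114) (nat_lit 260) (nat_lit 5) (nat_lit 265) (nat_lit 5) (nat_lit 266) (nat_lit 5) (nat_lit 458) (nat_lit 415) (nat_lit 147)))) (XT.nd (nat_lit 156) (nat_lit 380) (nat_lit 0) (XT.nd (nat_lit 78) (nat_lit 0) (nat_lit 0) (XT.lf (nat_lit 0) (nat_lit 3251275525) (nat_lit 380) (nat_lit 3921185162) (nat_lit 456) (nat_lit 69087526426) (nat_lit 254) (nat_lit 5) (nat_lit 259) (nat_lit 5) (nat_lit 260) (nat_lit 5) (nat_lit 459) (nat_lit 415) (nat_lit 146)) (XT.lf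 (nat_lit 0) (nat_lit 22285723062) (nat_lit 456) (nat_lit 27990743726) (nat_lit 76) (nat_lit 27333254887) (nat_lit 254) (nat_lit 5) (nat_lit 260) (nat_lit 5) (nat_lit 255) (nat_lit 5) (nat_lit 460) (nat_lit 415) (nat_lit 145))) (XT.nd (nat_lit 78) (nat_lit 0) (nat_lit 0) (XT.lf (nat_lit 0) (nat_lit 18702978156) (nat_lit 380) (nat_lit 19367351589) (nat_lit 456) (nat_lit 40923080137) (nat_lit 249) (nat_lit 5) (nat_lit 254) (nat_lit 5) (nat_lit 255) (nat_lit 5) (nat_lit 461) (nat_lit 415) (nat_lit 144)) (XT.lf (nat_lit 0) (nat_lit 54733131096) (nat_lit 456) (nat_lit 13162425042) (nat_lit 76) (nat_lit 12510912901) (nat_lit 249) (nat_lit 5) (nat_lit 255) (nat_lit 5) (nat_lit 250) (nat_lit 5) (nat_lit 462) (nat_lit 415) (nat_lit 143))))) (XT.nd (nat_lit 312) (nat_lit 684) (nat_lit 0) (XT.nd (nat_lit 156) (nat_lit 304) (nat_lit 0) (XT.nd (nat_lit 78) (nat_lit 456) (nat_lit 0) (XT.lf (nat_lit 0) (nat_lit 35887046753)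 (nat_lit 304) (nat_lit 36544859274) (nat_lit 380) (nat_lit 9413931259) (nat_lit 245) (nat_lit 5) (nat_lit 249) (nat_lit 5) (nat_lit 250) (nat_lit 5) (nat_lit 463) (nat_lit 415) (nat_lit 142)) (XT.lf (nat_lit 0) (nat_lit 3345996713) (nat_lit 380) (nat_lit 4009926107) (nat_lit 456) (nat_lit 75965376103) (nat_lit 239) (nat_lit 5) (nat_lit 244) (nat_lit 5) (nat_lit 245) (nat_lit 5) (nat_lit 464) (nat_lit 415) (nat_lit 141))) (XT.nd (nat_lit 78) (nat_lit 304) (nat_lit 0) (XT.lf (nat_lit 0) (nat_lit 25191308752) (nat_lit 456) (nat_lit 30137363708) (nat_lit 76) (nat_lit 29487006324) (nat_lit 239) (nat_lit 5) (nat_lit 245) (nat_lit 5) (nat_lit 240) (nat_lit 5) (nat_lit 465) (nat_lit 415) (nat_lit 140)) (XT.lf (nat_lit 0) (nat_lit 21576150360) (nat_lit 304) (nat_lit 22232105550) (nat_lit 380) (nat_lit 42539239141) (nat_lit 235) (nat_lit 5) (nat_lit 239) (nat_lit 5) (nat_lit 240) (nat_lit 5) (nat_lit 466) (nat_lit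 415) (nat_lit 139)))) (XT.nd (nat_lit 156) (nat_lit 380) (nat_lit 0) (XT.nd (nat_lit 78) (nat_lit 304) (nat_lit 0) (XT.lf (nat_lit 0) (nat_lit 63404433813) (nat_lit 380) (nat_lit 12575168246) (nat_lit 76) (nat_lit 11933042078) (nat_lit 235) (nat_lit 5) (nat_lit 240) (nat_lit 5) (nat_lit 236) (nat_lit 5) (nat_lit 467) (nat_lit 415) (nat_lit 138)) (XT.lf (nat_lit 0) (nat_lit 41781206319) (nat_lit 304) (nat_lit 42428455272) (nat_lit 380) (nat_lit 5296451168) (nat_lit 231) (nat_lit 5) (nat_lit 235) (nat_lit 5) (nat_lit 236) (nat_lit 5) (nat_lit 468) (nat_lit 415) (nat_lit 137))) (XT.nd (nat_lit 78) (nat_lit 0) (nat_lit 0) (XT.lf (nat_lit 0) (nat_lit 6875202684) (nat_lit 304) (nat_lit 7527425215) (nat_lit 380) (nat_lit 76734765910) (nat_lit 226) (nat_lit 5) (nat_lit 230) (nat_lit 5) (nat_lit 231) (nat_lit 5) (nat_lit 469) (nat_lit 415) (nat_lit 136)) (XT.lf (nat_lit 0) (nat_lit 35345548900) (nat_lit 380)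 (nat_lit 29042812665) (nat_lit 76) (nat_lit 28404898833) (nat_lit 226) (nat_lit 5) (nat_lit 231) (nat_lit 5) (nat_lit 227) (nat_lit 5) (nat_lit 470) (nat_lit 415) (nat_lit 135))))))) (XT.nd (nat_lit 49608) (nat_lit 0) (nat_lit 8816) (XT.nd (nat_lit 48984) (nat_lit 0) (nat_lit 12844) (XT.nd (nat_lit 234) (nat_lit 912) (nat_lit 0) (XT.nd (nat_lit 78) (nat_lit 304) (nat_lit 0) (XT.lf (nat_lit 0) (nat_lit 28310199845) (nat_lit 304) (nat_lit 28952665205) (nat_lit 380) (nat_lit 37225554710) (nat_lit 222) (nat_lit 5) (nat_lit 226) (nat_lit 5) (nat_lit 227) (nat_lit 5) (nat_lit 471) (nat_lit 415) (nat_lit 134)) (XT.nd (nat_lit 78) (nat_lit 304) (nat_lit 0) (XT.lf (nat_lit 0) (nat_lit 80205866462) (nat_lit 380) (nat_lit 8322782748) (nat_lit 76) (nat_lit 7694739719) (nat_lit 222) (nat_lit 5) (nat_lit 227) (nat_lit 5) (nat_lit 223) (nat_lit 5) (nat_lit 472) (nat_lit 415) (nat_lit 133)) (XT.lf (nat_lit 0) (nat_lit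 6506768364) (nat_lit 304) (nat_lit 46055177633) (nat_lit 76) (nat_lit 45422969311) (nat_lit 218) (nat_lit 5) (nat_lit 222) (nat_lit 5) (nat_lit 219) (nat_lit 5) (nat_lit 473) (nat_lit 415) (nat_lit 132)))) (XT.nd (nat_lit 48594) (nat_lit 0) (nat_lit 12768) (XT.nd (nat_lit 312) (nat_lit 608) (nat_lit 0) (XT.lf (nat_lit 0) (nat_lit 14486095871) (nat_lit 304) (nat_lit 15122348167) (nat_lit 380) (nat_lit 70179377988) (nat_lit 214) (nat_lit 5) (nat_lit 218) (nat_lit 5) (nat_lit 219) (nat_lit 5) (nat_lit 474) (nat_lit 415) (nat_lit 131)) (XT.lf (nat_lit 0) (nat_lit 27301448757) (nat_lit 380) (nat_lit 40339660533) (nat_lit 76) (nat_lit 39725762763) (nat_lit 206) (nat_lit 5) (nat_lit 211) (nat_lit 5) (nat_lit 207) (nat_lit 5) (nat_lit 478) (nat_lit 415) (nat_lit 127))) (XT.nd (nat_lit 78) (nat_lit 0) (nat_lit 0) (XT.lf (nat_lit 0) (nat_lit 11629176254) (nat_lit 1292) (nat_lit 3784737953) (nat_lit 1292) (nat_lit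 3784737953) (nat_lit 374) (nat_lit 3) (nat_lit 391) (nat_lit 3) (nat_lit 391) (nat_lit 5) (nat_lit 416) (nat_lit 416) (nat_lit 188)) (XT.lf (nat_lit 76) (nat_lit 11860619663) (nat_lit 0) (nat_lit 11904942091) (nat_lit 1292) (nat_lit 15202952113) (nat_lit 375) (nat_lit 5) (nat_lit 374) (nat_lit 3) (nat_lit 391) (nat_lit 5) (nat_lit 417) (nat_lit 416) (nat_lit 187))))) (XT.nd (nat_lit 312) (nat_lit 0) (nat_lit 152) (XT.nd (nat_lit 156) (nat_lit 0) (nat_lit 76) (XT.nd (nat_lit 78) (nat_lit 0) (nat_lit 0) (XT.lf (nat_lit 0) (nat_lit 24436368133) (nat_lit 1216) (nat_lit 7600424882) (nat_lit 1292) (nat_lit 7515615259) (nat_lit 375) (nat_lit 5) (nat_lit 391) (nat_lit 5) (nat_lit 392) (nat_lit 5) (nat_lit 418) (nat_lit 416) (nat_lit 186)) (XT.lf (nat_lit 76) (nat_lit 12619713383) (nat_lit 0) (nat_lit 12745084306) (nat_lit 1292) (nat_lit 14781896855) (nat_lit 376) (nat_lit 5) (nat_lit 375) (nat_lit 5) (nat_lit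 392) (nat_lit 5) (nat_lit 419) (nat_lit 416) (nat_lit 185))) (XT.nd (nat_lit 78) (nat_lit 0) (nat_lit 0) (XT.lf (nat_lit 0) (nat_lit 26465449551) (nat_lit 1216) (nat_lit 7224490513) (nat_lit 1292) (nat_lit 7064538255) (nat_lit 376) (nat_lit 5) (nat_lit 392) (nat_lit 5) (nat_lit 393) (nat_lit 5) (nat_lit 420) (nat_lit 416) (nat_lit 184)) (XT.lf (nat_lit 76) (nat_lit 13829796516) (nat_lit 0) (nat_lit 14026868109) (nat_lit 1292) (nat_lit 13516104672) (nat_lit 377) (nat_lit 5) (nat_lit 376) (nat_lit 5) (nat_lit 393) (nat_lit 5) (nat_lit 421) (nat_lit 416) (nat_lit 183)))) (XT.nd (nat_lit 156) (nat_lit 0) (nat_lit 76) (XT.nd (nat_lit 78) (nat_lit 0) (nat_lit 0) (XT.lf (nat_lit 0) (nat_lit 29421597759) (nat_lit 1216) (nat_lit 6405185988) (nat_lit 1292) (nat_lit 6178865810) (nat_lit 377) (nat_lit 5) (nat_lit 393) (nat_lit 5) (nat_lit 394) (nat_lit 5) (nat_lit 422) (nat_lit 416) (nat_lit 182)) (XT.lf (nat_lit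 76) (nat_lit 15529927153) (nat_lit 0) (nat_lit 15790216782) (nat_lit 1292) (nat_lit 11328772339) (nat_lit 378) (nat_lit 5) (nat_lit 377) (nat_lit 5) (nat_lit 394) (nat_lit 5) (nat_lit 423) (nat_lit 416) (nat_lit 181))) (XT.nd (nat_lit 78) (nat_lit 0) (nat_lit 0) (XT.lf (nat_lit 0) (nat_lit 33386104536) (nat_lit 1216) (nat_lit 5103395278) (nat_lit 1292) (nat_lit 4818667436) (nat_lit 378) (nat_lit 5) (nat_lit 394) (nat_lit 5) (nat_lit 395) (nat_lit 5) (nat_lit 424) (nat_lit 416) (nat_lit 180)) (XT.lf (nat_lit 76) (nat_lit 17761945202) (nat_lit 0) (nat_lit 18077759903) (nat_lit 1292) (nat_lit 8137720815) (nat_lit 379) (nat_lit 5) (nat_lit 378) (nat_lit 5) (nat_lit 395) (nat_lit 5) (nat_lit 425) (nat_lit 416) (nat_lit 179)))))) (XT.nd (nat_lit 624) (nat_lit 3116) (nat_lit 0) (XT.nd (nat_lit 312) (nat_lit 0) (nat_lit 0) (XT.nd (nat_lit 156) (nat_lit 1216) (nat_lit 0) (XT.nd (nat_lit 78) (nat_lit 0) (nat_lit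 0) (XT.lf (nat_lit 0) (nat_lit 38445899721) (nat_lit 1216) (nat_lit 3277205806) (nat_lit 1292) (nat_lit 2941287244) (nat_lit 379) (nat_lit 5) (nat_lit 395) (nat_lit 5) (nat_lit 396) (nat_lit 5) (nat_lit 426) (nat_lit 416) (nat_lit 178)) (XT.lf (nat_lit 76) (nat_lit 20570648939) (nat_lit 0) (nat_lit 20935016381) (nat_lit 1292) (nat_lit 3855041752) (nat_lit 380) (nat_lit 5) (nat_lit 379) (nat_lit 5) (nat_lit 396) (nat_lit 5) (nat_lit 427) (nat_lit 416) (nat_lit 177))) (XT.nd (nat_lit 78) (nat_lit 1292) (nat_lit 0) (XT.lf (nat_lit 0) (nat_lit 44693919963) (nat_lit 1216) (nat_lit 881730276) (nat_lit 1292) (nat_lit 501159681) (nat_lit 380) (nat_lit 5) (nat_lit 396) (nat_lit 5) (nat_lit 397) (nat_lit 5) (nat_lit 428) (nat_lit 416) (nat_lit 176)) (XT.lf (nat_lit 0) (nat_lit 1581797021) (nat_lit 1292) (nat_lit 22812818239) (nat_lit 1368) (nat_lit 22406212889) (nat_lit 363) (nat_lit 5) (nat_lit 380) (nat_lit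 5) (nat_lit 381) (nat_lit 5) (nat_lit 429) (nat_lit 416) (nat_lit 175)))) (XT.nd (nat_lit 156) (nat_lit 0) (nat_lit 76) (XT.nd (nat_lit 78) (nat_lit 0) (nat_lit 76) (XT.lf (nat_lit 76) (nat_lit 2101845055) (nat_lit 0) (nat_lit 2533726867) (nat_lit 1368) (nat_lit 42909745983) (nat_lit 364) (nat_lit 5) (nat_lit 363) (nat_lit 5) (nat_lit 381) (nat_lit 5) (nat_lit 430) (nat_lit 416) (nat_lit 174)) (XT.lf (nat_lit 0) (nat_lit 8204469418) (nat_lit 1292) (nat_lit 20269047936) (nat_lit 1368) (nat_lit 19825919717) (nat_lit 364) (nat_lit 5) (nat_lit 381) (nat_lit 5) (nat_lit 382) (nat_lit 5) (nat_lit 431) (nat_lit 416) (nat_lit 173))) (XT.nd (nat_lit 78) (nat_lit 0) (nat_lit 76) (XT.lf (nat_lit 76) (nat_lit 5746655800) (nat_lit 0) (nat_lit 6212915561) (nat_lit 1368) (nat_lit 37114234327) (nat_lit 365) (nat_lit 5) (nat_lit 364) (nat_lit 5) (nat_lit 382) (nat_lit 5) (nat_lit 432) (nat_lit 416) (nat_lit 172)) (XT.lf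 (nat_lit 0) (nat_lit 16193547603) (nat_lit 1292) (nat_lit 17070677100) (nat_lit 76) (nat_lit 16596194023) (nat_lit 365) (nat_lit 5) (nat_lit 382) (nat_lit 5) (nat_lit 366) (nat_lit 5) (nat_lit 433) (nat_lit 416) (nat_lit 171))))) (XT.nd (nat_lit 312) (nat_lit 1824) (nat_lit 0) (XT.nd (nat_lit 156) (nat_lit 608) (nat_lit 0) (XT.nd (nat_lit 78) (nat_lit 0) (nat_lit 0) (XT.lf (nat_lit 0) (nat_lit 10108221569) (nat_lit 836) (nat_lit 10603873285) (nat_lit 912) (nat_lit 29953808750) (nat_lit 354) (nat_lit 5) (nat_lit 365) (nat_lit 5) (nat_lit 366) (nat_lit 5) (nat_lit 434) (nat_lit 416) (nat_lit 170)) (XT.lf (nat_lit 0) (nat_lit 25661610343) (nat_lit 912) (nat_lit 13163124530) (nat_lit 76) (nat_lit 12661955799) (nat_lit 354) (nat_lit 5) (nat_lit 366) (nat_lit 5) (nat_lit 355) (nat_lit 5) (nat_lit 435) (nat_lit 416) (nat_lit 169))) (XT.nd (nat_lit 78) (nat_lit 0) (nat_lit 0) (XT.lf (nat_lit 0) (nat_lit 15244764497)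 (nat_lit 608) (nat_lit 15765305530) (nat_lit 684) (nat_lit 21314517565) (nat_lit 346) (nat_lit 5) (nat_lit 354) (nat_lit 5) (nat_lit 355) (nat_lit 5) (nat_lit 436) (nat_lit 416) (nat_lit 168)) (XT.lf (nat_lit 0) (nat_lit 36728936962) (nat_lit 684) (nat_lit 8488012875) (nat_lit 76) (nat_lit 7964372978) (nat_lit 346) (nat_lit 5) (nat_lit 355) (nat_lit 5) (nat_lit 347) (nat_lit 5) (nat_lit 437) (nat_lit 416) (nat_lit 167)))) (XT.nd (nat_lit 156) (nat_lit 1216) (nat_lit 0) (XT.nd (nat_lit 78) (nat_lit 0) (nat_lit 0) (XT.lf (nat_lit 0) (nat_lit 21218519972) (nat_lit 608) (nat_lit 21759888271) (nat_lit 684) (nat_lit 11074580701) (nat_lit 338) (nat_lit 5) (nat_lit 346) (nat_lit 5) (nat_lit 347) (nat_lit 5) (nat_lit 438) (nat_lit 416) (nat_lit 166)) (XT.lf (nat_lit 0) (nat_lit 49524004629) (nat_lit 684) (nat_lit 2982926105) (nat_lit 76) (nat_lit 2440615096) (nat_lit 338) (nat_lit 5) (nat_lit 347) (nat_lit 5)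 (nat_lit 339) (nat_lit 5) (nat_lit 439) (nat_lit 416) (nat_lit 165))) (XT.nd (nat_lit 78) (nat_lit 608) (nat_lit 0) (XT.lf (nat_lit 0) (nat_lit 878630197) (nat_lit 608) (nat_lit 27767024645) (nat_lit 76) (nat_lit 27208489638) (nat_lit 330) (nat_lit 5) (nat_lit 338) (nat_lit 5) (nat_lit 331) (nat_lit 5) (nat_lit 440) (nat_lit 416) (nat_lit 164)) (XT.lf (nat_lit 0) (nat_lit 3374233728) (nat_lit 608) (nat_lit 3948520191) (nat_lit 684) (nat_lit 49461719369) (nat_lit 322) (nat_lit 5) (nat_lit 330) (nat_lit 5) (nat_lit 331) (nat_lit 5) (nat_lit 441) (nat_lit 416) (nat_lit 163))))))))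
noncomputable def xc236 : XT := (XT.nd (nat_lit 2340) (nat_lit 1520) (nat_lit 0) (XT.nd (nat_lit 1170) (nat_lit 3344) (nat_lit 0) (XT.nd (nat_lit 546) (nat_lit 1824) (nat_lit 0) (XT.nd (nat_lit 234) (nat_lit 1596) (nat_lit 0) (XT.nd (nat_lit 78) (nat_lit 532) (nat_lit 0) (XT.lf (nat_lit 0) (nat_lit 14448998541) (nat_lit 684) (nat_lit 21925728216) (nat_lit 76) (nat_lit 21353321287) (nat_lit 322) (nat_lit 5) (nat_lit 331) (nat_lit 5) (nat_lit 323) (nat_lit 5) (nat_lit 442) (nat_lit 416) (nat_lit 162)) (XT.nd (nat_lit 78) (nat_lit 0) (nat_lit 0) (XT.lf (nat_lit 0) (nat_lit 10671484659) (nat_lit 532) (nat_lit 11258306401) (nat_lit 608) (nat_lit 36765916167) (nat_lit 315) (nat_lit 5) (nat_lit 322) (nat_lit 5) (nat_lit 323) (nat_lit 5) (nat_lit 443) (nat_lit 416) (nat_lit 161)) (XT.lf (nat_lit 0) (nat_lit 29998164159) (nat_lit 608) (nat_lit 15133327256) (nat_lit 76) (nat_lit 14550010065) (nat_lit 315) (nat_lit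 5) (nat_lit 323) (nat_lit 5) (nat_lit 316) (nat_lit 5) (nat_lit 444) (nat_lit 416) (nat_lit 160)))) (XT.nd (nat_lit 156) (nat_lit 1064) (nat_lit 0) (XT.nd (nat_lit 78) (nat_lit 0) (nat_lit 0) (XT.lf (nat_lit 0) (nat_lit 19002670793) (nat_lit 532) (nat_lit 19599179579) (nat_lit 608) (nat_lit 22086221331) (nat_lit 308) (nat_lit 5) (nat_lit 315) (nat_lit 5) (nat_lit 316) (nat_lit 5) (nat_lit 445) (nat_lit 416) (nat_lit 159)) (XT.lf (nat_lit 0) (nat_lit 47681516473) (nat_lit 608) (nat_lit 7314177785) (nat_lit 76) (nat_lit 6722608697) (nat_lit 308) (nat_lit 5) (nat_lit 316) (nat_lit 5) (nat_lit 309) (nat_lit 5) (nat_lit 446) (nat_lit 416) (nat_lit 158))) (XT.nd (nat_lit 78) (nat_lit 608) (nat_lit 0) (XT.lf (nat_lit 0) (nat_lit 28448306756) (nat_lit 456) (nat_lit 29051948022) (nat_lit 532) (nat_lit 5265185898) (nat_lit 302) (nat_lit 5) (nat_lit 308) (nat_lit 5) (nat_lit 309) (nat_lit 5) (nat_lit 447) (nat_lit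 416) (nat_lit 157)) (XT.lf (nat_lit 0) (nat_lit 1584821506) (nat_lit 532) (nat_lit 2200183334) (nat_lit 608) (nat_lit 60055230634) (nat_lit 294) (nat_lit 5) (nat_lit 301) (nat_lit 5) (nat_lit 302) (nat_lit 5) (nat_lit 448) (nat_lit 416) (nat_lit 156))))) (XT.nd (nat_lit 312) (nat_lit 912) (nat_lit 0) (XT.nd (nat_lit 156) (nat_lit 456) (nat_lit 0) (XT.nd (nat_lit 78) (nat_lit 456) (nat_lit 0) (XT.lf (nat_lit 0) (nat_lit 13594741642) (nat_lit 608) (nat_lit 25970819509) (nat_lit 76) (nat_lit 25362333087) (nat_lit 294) (nat_lit 5) (nat_lit 302) (nat_lit 5) (nat_lit 295) (nat_lit 5) (nat_lit 449) (nat_lit 416) (nat_lit 155)) (XT.lf (nat_lit 0) (nat_lit 11606059657) (nat_lit 456) (nat_lit 12225272053) (nat_lit 532) (nat_lit 42212874219) (nat_lit 288) (nat_lit 5) (nat_lit 294) (nat_lit 5) (nat_lit 295) (nat_lit 5) (nat_lit 450) (nat_lit 416) (nat_lit 154))) (XT.nd (nat_lit 78) (nat_lit 456) (nat_lit 0) (XT.lf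 (nat_lit 0) (nat_lit 34792274549) (nat_lit 532) (nat_lit 16500251056) (nat_lit 76) (nat_lit 15888963713) (nat_lit 288) (nat_lit 5) (nat_lit 295) (nat_lit 5) (nat_lit 289) (nat_lit 5) (nat_lit 451) (nat_lit 416) (nat_lit 153)) (XT.lf (nat_lit 0) (nat_lit 22900683898) (nat_lit 456) (nat_lit 23521787028) (nat_lit 532) (nat_lit 21920207527) (nat_lit 282) (nat_lit 5) (nat_lit 288) (nat_lit 5) (nat_lit 289) (nat_lit 5) (nat_lit 452) (nat_lit 416) (nat_lit 152)))) (XT.nd (nat_lit 156) (nat_lit 456) (nat_lit 0) (XT.nd (nat_lit 78) (nat_lit 456) (nat_lit 0) (XT.lf (nat_lit 0) (nat_lit 58617953981) (nat_lit 532) (nat_lit 5763261462) (nat_lit 76) (nat_lit 5150996395) (nat_lit 282) (nat_lit 5) (nat_lit 289) (nat_lit 5) (nat_lit 283) (nat_lit 5) (nat_lit 453) (nat_lit 416) (nat_lit 151)) (XT.lf (nat_lit 0) (nat_lit 993373898) (nat_lit 456) (nat_lit 35183895747) (nat_lit 76) (nat_lit 34562647846) (nat_lit 276) (nat_lit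 5) (nat_lit 282) (nat_lit 5) (nat_lit 277) (nat_lit 5) (nat_lit 454) (nat_lit 416) (nat_lit 150))) (XT.nd (nat_lit 78) (nat_lit 0) (nat_lit 0) (XT.lf (nat_lit 0) (nat_lit 6263584365) (nat_lit 456) (nat_lit 6893553465) (nat_lit 532) (nat_lit 58819926556) (nat_lit 270) (nat_lit 5) (nat_lit 276) (nat_lit 5) (nat_lit 277) (nat_lit 5) (nat_lit 455) (nat_lit 416) (nat_lit 149)) (XT.lf (nat_lit 0) (nat_lit 26267589282) (nat_lit 532) (nat_lit 23793062110) (nat_lit 76) (nat_lit 23173221058) (nat_lit 270) (nat_lit 5) (nat_lit 277) (nat_lit 5) (nat_lit 271) (nat_lit 5) (nat_lit 456) (nat_lit 416) (nat_lit 148)))))) (XT.nd (nat_lit 546) (nat_lit 1748) (nat_lit 0) (XT.nd (nat_lit 234) (nat_lit 836) (nat_lit 0) (XT.nd (nat_lit 78) (nat_lit 380) (nat_lit 0) (XT.lf (nat_lit 0) (nat_lit 19700236066) (nat_lit 380) (nat_lit 20328058250) (nat_lit 456) (nat_lit 34492382238) (nat_lit 265) (nat_lit 5) (nat_lit 270) (nat_lit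 5) (nat_lit 271) (nat_lit 5) (nat_lit 457) (nat_lit 416) (nat_lit 147)) (XT.nd (nat_lit 78) (nat_lit 380) (nat_lit 0) (XT.lf (nat_lit 0) (nat_lit 54542764521) (nat_lit 456) (nat_lit 10955075511) (nat_lit 76) (nat_lit 10338016428) (nat_lit 265) (nat_lit 5) (nat_lit 271) (nat_lit 5) (nat_lit 266) (nat_lit 5) (nat_lit 458) (nat_lit 416) (nat_lit 146)) (XT.lf (nat_lit 0) (nat_lit 34701244271) (nat_lit 380) (nat_lit 35325607221) (nat_lit 456) (nat_lit 7147614792) (nat_lit 260) (nat_lit 5) (nat_lit 265) (nat_lit 5) (nat_lit 266) (nat_lit 5) (nat_lit 459) (nat_lit 416) (nat_lit 145)))) (XT.nd (nat_lit 156) (nat_lit 380) (nat_lit 0) (XT.nd (nat_lit 78) (nat_lit 0) (nat_lit 0) (XT.lf (nat_lit 0) (nat_lit 3394820410) (nat_lit 380) (nat_lit 4026274493) (nat_lit 456) (nat_lit 71125688013) (nat_lit 254) (nat_lit 5) (nat_lit 259) (nat_lit 5) (nat_lit 260) (nat_lit 5) (nat_lit 460) (nat_lit 416) (nat_lit 144)) (XT.lf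 (nat_lit 0) (nat_lit 22986897663) (nat_lit 456) (nat_lit 28784941932) (nat_lit 76) (nat_lit 28165195643) (nat_lit 254) (nat_lit 5) (nat_lit 260) (nat_lit 5) (nat_lit 255) (nat_lit 5) (nat_lit 461) (nat_lit 416) (nat_lit 143))) (XT.nd (nat_lit 78) (nat_lit 0) (nat_lit 0) (XT.lf (nat_lit 0) (nat_lit 19309145291) (nat_lit 380) (nat_lit 19935380971) (nat_lit 456) (nat_lit 42117723317) (nat_lit 249) (nat_lit 5) (nat_lit 254) (nat_lit 5) (nat_lit 255) (nat_lit 5) (nat_lit 462) (nat_lit 416) (nat_lit 142)) (XT.lf (nat_lit 0) (nat_lit 56406398334) (nat_lit 456) (nat_lit 13512719628) (nat_lit 76) (nat_lit 12898606949) (nat_lit 249) (nat_lit 5) (nat_lit 255) (nat_lit 5) (nat_lit 250) (nat_lit 5) (nat_lit 463) (nat_lit 416) (nat_lit 141))))) (XT.nd (nat_lit 312) (nat_lit 684) (nat_lit 0) (XT.nd (nat_lit 156) (nat_lit 304) (nat_lit 0) (XT.nd (nat_lit 78) (nat_lit 456) (nat_lit 0) (XT.lf (nat_lit 0) (nat_lit 37007799280)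 (nat_lit 304) (nat_lit 37627850671) (nat_lit 380) (nat_lit 9664638851) (nat_lit 245) (nat_lit 5) (nat_lit 249) (nat_lit 5) (nat_lit 250) (nat_lit 5) (nat_lit 464) (nat_lit 416) (nat_lit 140)) (XT.lf (nat_lit 0) (nat_lit 3490697699) (nat_lit 380) (nat_lit 4116514830) (nat_lit 456) (nat_lit 78212807001) (nat_lit 239) (nat_lit 5) (nat_lit 244) (nat_lit 5) (nat_lit 245) (nat_lit 5) (nat_lit 465) (nat_lit 416) (nat_lit 139))) (XT.nd (nat_lit 78) (nat_lit 304) (nat_lit 0) (XT.lf (nat_lit 0) (nat_lit 25976896368) (nat_lit 456) (nat_lit 30997690769) (nat_lit 76) (nat_lit 30384666559) (nat_lit 239) (nat_lit 5) (nat_lit 245) (nat_lit 5) (nat_lit 240) (nat_lit 5) (nat_lit 466) (nat_lit 416) (nat_lit 138)) (XT.lf (nat_lit 0) (nat_lit 22266799370) (nat_lit 304) (nat_lit 22885100049) (nat_lit 380) (nat_lit 43785138610) (nat_lit 235) (nat_lit 5) (nat_lit 239) (nat_lit 5) (nat_lit 240) (nat_lit 5) (nat_lit 467) (nat_lit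 416) (nat_lit 137)))) (XT.nd (nat_lit 156) (nat_lit 380) (nat_lit 0) (XT.nd (nat_lit 78) (nat_lit 304) (nat_lit 0) (XT.lf (nat_lit 0) (nat_lit 65335236833) (nat_lit 380) (nat_lit 12909596014) (nat_lit 76) (nat_lit 12304330515) (nat_lit 235) (nat_lit 5) (nat_lit 240) (nat_lit 5) (nat_lit 236) (nat_lit 5) (nat_lit 468) (nat_lit 416) (nat_lit 136)) (XT.lf (nat_lit 0) (nat_lit 43077049913) (nat_lit 304) (nat_lit 43687144128) (nat_lit 380) (nat_lit 5426254822) (nat_lit 231) (nat_lit 5) (nat_lit 235) (nat_lit 5) (nat_lit 236) (nat_lit 5) (nat_lit 469) (nat_lit 416) (nat_lit 135))) (XT.nd (nat_lit 78) (nat_lit 0) (nat_lit 0) (XT.lf (nat_lit 0) (nat_lit 7124012494) (nat_lit 304) (nat_lit 7738794783) (nat_lit 380) (nat_lit 79007865331) (nat_lit 226) (nat_lit 5) (nat_lit 230) (nat_lit 5) (nat_lit 231) (nat_lit 5) (nat_lit 470) (nat_lit 416) (nat_lit 134)) (XT.lf (nat_lit 0) (nat_lit 36433332332) (nat_lit 380)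 (nat_lit 29872099169) (nat_lit 76) (nat_lit 29270804201) (nat_lit 226) (nat_lit 5) (nat_lit 231) (nat_lit 5) (nat_lit 227) (nat_lit 5) (nat_lit 471) (nat_lit 416) (nat_lit 133))))))) (XT.nd (nat_lit 49686) (nat_lit 0) (nat_lit 8816) (XT.nd (nat_lit 49062) (nat_lit 0) (nat_lit 12844) (XT.nd (nat_lit 468) (nat_lit 912) (nat_lit 0) (XT.nd (nat_lit 78) (nat_lit 304) (nat_lit 0) (XT.lf (nat_lit 0) (nat_lit 29201091972) (nat_lit 304) (nat_lit 29806677193) (nat_lit 380) (nat_lit 38314492643) (nat_lit 222) (nat_lit 5) (nat_lit 226) (nat_lit 5) (nat_lit 227) (nat_lit 5) (nat_lit 472) (nat_lit 416) (nat_lit 132)) (XT.nd (nat_lit 78) (nat_lit 304) (nat_lit 0) (XT.lf (nat_lit 0) (nat_lit 82638409640) (nat_lit 380) (nat_lit 8531440366) (nat_lit 76) (nat_lit 7939449576) (nat_lit 222) (nat_lit 5) (nat_lit 227) (nat_lit 5) (nat_lit 223) (nat_lit 5) (nat_lit 473) (nat_lit 416) (nat_lit 131)) (XT.lf (nat_lit 0) (nat_lit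 6728218446) (nat_lit 304) (nat_lit 47395686944) (nat_lit 76) (nat_lit 46799769966) (nat_lit 218) (nat_lit 5) (nat_lit 222) (nat_lit 5) (nat_lit 219) (nat_lit 5) (nat_lit 474) (nat_lit 416) (nat_lit 130)))) (XT.nd (nat_lit 48438) (nat_lit 0) (nat_lit 12768) (XT.nd (nat_lit 48360) (nat_lit 0) (nat_lit 12768) (XT.lf (nat_lit 0) (nat_lit 321782782) (nat_lit 304) (nat_lit 914511914) (nat_lit 380) (nat_lit 107348887866) (nat_lit 206) (nat_lit 5) (nat_lit 210) (nat_lit 5) (nat_lit 211) (nat_lit 5) (nat_lit 478) (nat_lit 416) (nat_lit 126)) (XT.lf (nat_lit 0) (nat_lit 12021947915) (nat_lit 1292) (nat_lit 3875673459) (nat_lit 1292) (nat_lit 3875673459) (nat_lit 374) (nat_lit 3) (nat_lit 391) (nat_lit 3) (nat_lit 391) (nat_lit 5) (nat_lit 417) (nat_lit 417) (nat_lit 186))) (XT.nd (nat_lit 78) (nat_lit 0) (nat_lit 76) (XT.lf (nat_lit 76) (nat_lit 12261208251) (nat_lit 0) (nat_lit 12302986390) (nat_lit 1292) (nat_lit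 15570804662) (nat_lit 375) (nat_lit 5) (nat_lit 374) (nat_lit 3) (nat_lit 391) (nat_lit 5) (nat_lit 418) (nat_lit 417) (nat_lit 185)) (XT.lf (nat_lit 0) (nat_lit 25252248416) (nat_lit 1216) (nat_lit 7782094817) (nat_lit 1292) (nat_lit 7702153613) (nat_lit 375) (nat_lit 5) (nat_lit 391) (nat_lit 5) (nat_lit 392) (nat_lit 5) (nat_lit 419) (nat_lit 417) (nat_lit 184))))) (XT.nd (nat_lit 312) (nat_lit 0) (nat_lit 152) (XT.nd (nat_lit 156) (nat_lit 0) (nat_lit 76) (XT.nd (nat_lit 78) (nat_lit 0) (nat_lit 76) (XT.lf (nat_lit 76) (nat_lit 13044193255) (nat_lit 0) (nat_lit 13162367374) (nat_lit 1292) (nat_lit 15142110181) (nat_lit 376) (nat_lit 5) (nat_lit 375) (nat_lit 5) (nat_lit 392) (nat_lit 5) (nat_lit 420) (nat_lit 417) (nat_lit 183)) (XT.lf (nat_lit 0) (nat_lit 27337552101) (nat_lit 1216) (nat_lit 7393993370) (nat_lit 1292) (nat_lit 7243223025) (nat_lit 376) (nat_lit 5) (nat_lit 392) (nat_lit 5) (nat_lit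 393) (nat_lit 5) (nat_lit 421) (nat_lit 417) (nat_lit 182))) (XT.nd (nat_lit 78) (nat_lit 0) (nat_lit 76) (XT.lf (nat_lit 76) (nat_lit 14291459212) (nat_lit 0) (nat_lit 14477218091) (nat_lit 1292) (nat_lit 13842985691) (nat_lit 377) (nat_lit 5) (nat_lit 376) (nat_lit 5) (nat_lit 393) (nat_lit 5) (nat_lit 422) (nat_lit 417) (nat_lit 181)) (XT.lf (nat_lit 0) (nat_lit 30378060007) (nat_lit 1216) (nat_lit 6549436541) (nat_lit 1292) (nat_lit 6336108066) (nat_lit 377) (nat_lit 5) (nat_lit 393) (nat_lit 5) (nat_lit 394) (nat_lit 5) (nat_lit 423) (nat_lit 417) (nat_lit 180)))) (XT.nd (nat_lit 156) (nat_lit 0) (nat_lit 76) (XT.nd (nat_lit 78) (nat_lit 0) (nat_lit 76) (XT.lf (nat_lit 76) (nat_lit 16043260337) (nat_lit 0) (nat_lit 16288608277) (nat_lit 1292) (nat_lit 11594351536) (nat_lit 378) (nat_lit 5) (nat_lit 377) (nat_lit 5) (nat_lit 394) (nat_lit 5) (nat_lit 424) (nat_lit 417) (nat_lit 179)) (XT.lf (nat_lit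 0) (nat_lit 34457477064) (nat_lit 1216) (nat_lit 5208112410) (nat_lit 1292) (nat_lit 4939729111) (nat_lit 378) (nat_lit 5) (nat_lit 394) (nat_lit 5) (nat_lit 395) (nat_lit 5) (nat_lit 425) (nat_lit 417) (nat_lit 178))) (XT.nd (nat_lit 78) (nat_lit 0) (nat_lit 76) (XT.lf (nat_lit 76) (nat_lit 18342713924) (nat_lit 0) (nat_lit 18640399570) (nat_lit 1292) (nat_lit 8311588687) (nat_lit 379) (nat_lit 5) (nat_lit 378) (nat_lit 5) (nat_lit 395) (nat_lit 5) (nat_lit 426) (nat_lit 417) (nat_lit 177)) (XT.lf (nat_lit 0) (nat_lit 39665317522) (nat_lit 1216) (nat_lit 3326830635) (nat_lit 1292) (nat_lit 3010195173) (nat_lit 379) (nat_lit 5) (nat_lit 395) (nat_lit 5) (nat_lit 396) (nat_lit 5) (nat_lit 427) (nat_lit 417) (nat_lit 176)))))) (XT.nd (nat_lit 624) (nat_lit 2432) (nat_lit 0) (XT.nd (nat_lit 312) (nat_lit 684) (nat_lit 0) (XT.nd (nat_lit 156) (nat_lit 1216) (nat_lit 0) (XT.nd (nat_lit 78) (nat_lit 0) (nat_lit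 76) (XT.lf (nat_lit 76) (nat_lit 21235982386) (nat_lit 0) (nat_lit 21579433646) (nat_lit 1292) (nat_lit 3904174829) (nat_lit 380) (nat_lit 5) (nat_lit 379) (nat_lit 5) (nat_lit 396) (nat_lit 5) (nat_lit 428) (nat_lit 417) (nat_lit 175)) (XT.lf (nat_lit 0) (nat_lit 46097284577) (nat_lit 1216) (nat_lit 859338758) (nat_lit 1292) (nat_lit 500614472) (nat_lit 380) (nat_lit 5) (nat_lit 396) (nat_lit 5) (nat_lit 397) (nat_lit 5) (nat_lit 429) (nat_lit 417) (nat_lit 174))) (XT.nd (nat_lit 78) (nat_lit 0) (nat_lit 0) (XT.lf (nat_lit 0) (nat_lit 1691046942) (nat_lit 1292) (nat_lit 23447608355) (nat_lit 1368) (nat_lit 23064343815) (nat_lit 363) (nat_lit 5) (nat_lit 380) (nat_lit 5) (nat_lit 381) (nat_lit 5) (nat_lit 430) (nat_lit 417) (nat_lit 173)) (XT.lf (nat_lit 76) (nat_lit 2214008617) (nat_lit 0) (nat_lit 2621098646) (nat_lit 1368) (nat_lit 44134756132) (nat_lit 364) (nat_lit 5) (nat_lit 363) (nat_lit 5)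 (nat_lit 381) (nat_lit 5) (nat_lit 431) (nat_lit 417) (nat_lit 172)))) (XT.nd (nat_lit 156) (nat_lit 760) (nat_lit 0) (XT.nd (nat_lit 78) (nat_lit 0) (nat_lit 0) (XT.lf (nat_lit 0) (nat_lit 8509204457) (nat_lit 1292) (nat_lit 20827574272) (nat_lit 1368) (nat_lit 20409883426) (nat_lit 364) (nat_lit 5) (nat_lit 381) (nat_lit 5) (nat_lit 382) (nat_lit 5) (nat_lit 432) (nat_lit 417) (nat_lit 171)) (XT.lf (nat_lit 76) (nat_lit 5968114840) (nat_lit 0) (nat_lit 6407609383) (nat_lit 1368) (nat_lit 38168574664) (nat_lit 365) (nat_lit 5) (nat_lit 364) (nat_lit 5) (nat_lit 382) (nat_lit 5) (nat_lit 433) (nat_lit 417) (nat_lit 170))) (XT.nd (nat_lit 78) (nat_lit 836) (nat_lit 0) (XT.lf (nat_lit 0) (nat_lit 16734971387) (nat_lit 1292) (nat_lit 17533418594) (nat_lit 76) (nat_lit 17086172786) (nat_lit 365) (nat_lit 5) (nat_lit 382) (nat_lit 5) (nat_lit 366) (nat_lit 5) (nat_lit 434) (nat_lit 417) (nat_lit 169)) (XT.lf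 (nat_lit 0) (nat_lit 10460362929) (nat_lit 836) (nat_lit 10927562209) (nat_lit 912) (nat_lit 30796321551) (nat_lit 354) (nat_lit 5) (nat_lit 365) (nat_lit 5) (nat_lit 366) (nat_lit 5) (nat_lit 435) (nat_lit 417) (nat_lit 168))))) (XT.nd (nat_lit 312) (nat_lit 1216) (nat_lit 0) (XT.nd (nat_lit 156) (nat_lit 608) (nat_lit 0) (XT.nd (nat_lit 78) (nat_lit 608) (nat_lit 0) (XT.lf (nat_lit 0) (nat_lit 26484287653) (nat_lit 912) (nat_lit 13508909232) (nat_lit 76) (nat_lit 13036509637) (nat_lit 354) (nat_lit 5) (nat_lit 366) (nat_lit 5) (nat_lit 355) (nat_lit 5) (nat_lit 436) (nat_lit 417) (nat_lit 167)) (XT.lf (nat_lit 0) (nat_lit 15750735004) (nat_lit 608) (nat_lit 16241394853) (nat_lit 684) (nat_lit 21900642631) (nat_lit 346) (nat_lit 5) (nat_lit 354) (nat_lit 5) (nat_lit 355) (nat_lit 5) (nat_lit 437) (nat_lit 417) (nat_lit 166))) (XT.nd (nat_lit 78) (nat_lit 608) (nat_lit 0) (XT.lf (nat_lit 0) (nat_lit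 37881026081) (nat_lit 684) (nat_lit 8693905307) (nat_lit 76) (nat_lit 8200324482) (nat_lit 346) (nat_lit 5) (nat_lit 355) (nat_lit 5) (nat_lit 347) (nat_lit 5) (nat_lit 438) (nat_lit 417) (nat_lit 165)) (XT.lf (nat_lit 0) (nat_lit 21903345605) (nat_lit 608) (nat_lit 22413637149) (nat_lit 684) (nat_lit 11356119192) (nat_lit 338) (nat_lit 5) (nat_lit 346) (nat_lit 5) (nat_lit 347) (nat_lit 5) (nat_lit 439) (nat_lit 417) (nat_lit 164)))) (XT.nd (nat_lit 156) (nat_lit 608) (nat_lit 0) (XT.nd (nat_lit 78) (nat_lit 608) (nat_lit 0) (XT.lf (nat_lit 0) (nat_lit 51057504485) (nat_lit 684) (nat_lit 3024107233) (nat_lit 76) (nat_lit 2512927094) (nat_lit 338) (nat_lit 5) (nat_lit 347) (nat_lit 5) (nat_lit 339) (nat_lit 5) (nat_lit 440) (nat_lit 417) (nat_lit 163)) (XT.lf (nat_lit 0) (nat_lit 952300819) (nat_lit 608) (nat_lit 28551260728) (nat_lit 76) (nat_lit 28024787915) (nat_lit 330) (nat_lit 5) (nat_lit 338)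 (nat_lit 5) (nat_lit 331) (nat_lit 5) (nat_lit 441) (nat_lit 417) (nat_lit 162))) (XT.nd (nat_lit 78) (nat_lit 0) (nat_lit 0) (XT.lf (nat_lit 0) (nat_lit 3523757214) (nat_lit 608) (nat_lit 4065077284) (nat_lit 684) (nat_lit 50897781050) (nat_lit 322) (nat_lit 5) (nat_lit 330) (nat_lit 5) (nat_lit 331) (nat_lit 5) (nat_lit 442) (nat_lit 417) (nat_lit 161)) (XT.lf (nat_lit 0) (nat_lit 14927532779) (nat_lit 684) (nat_lit 22535276604) (nat_lit 76) (nat_lit 21995728174) (nat_lit 322) (nat_lit 5) (nat_lit 331) (nat_lit 5) (nat_lit 323) (nat_lit 5) (nat_lit 443) (nat_lit 417) (nat_lit 160))))))))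
noncomputable def xc237 : XT := (XT.nd (nat_lit 51090) (nat_lit 0) (nat_lit 6536) (XT.nd (nat_lit 1170) (nat_lit 3268) (nat_lit 0) (XT.nd (nat_lit 546) (nat_lit 2204) (nat_lit 0) (XT.nd (nat_lit 234) (nat_lit 1064) (nat_lit 0) (XT.nd (nat_lit 78) (nat_lit 532) (nat_lit 0) (XT.lf (nat_lit 0) (nat_lit 11039379878) (nat_lit 532) (nat_lit 11592515652) (nat_lit 608) (nat_lit 37823356591) (nat_lit 315) (nat_lit 5) (nat_lit 322) (nat_lit 5) (nat_lit 323) (nat_lit 5) (nat_lit 444) (nat_lit 417) (nat_lit 159)) (XT.nd (nat_lit 78) (nat_lit 532) (nat_lit 0) (XT.lf (nat_lit 0) (nat_lit 30941065168) (nat_lit 608) (nat_lit 15539712535) (nat_lit 76) (nat_lit 14989880138) (nat_lit 315) (nat_lit 5) (nat_lit 323) (nat_lit 5) (nat_lit 316) (nat_lit 5) (nat_lit 445) (nat_lit 417) (nat_lit 158)) (XT.lf (nat_lit 0) (nat_lit 19619898646) (nat_lit 532) (nat_lit 20182165387) (nat_lit 608) (nat_lit 22705385077) (nat_lit 308)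 (nat_lit 5) (nat_lit 315) (nat_lit 5) (nat_lit 316) (nat_lit 5) (nat_lit 446) (nat_lit 417) (nat_lit 157)))) (XT.nd (nat_lit 156) (nat_lit 608) (nat_lit 0) (XT.nd (nat_lit 78) (nat_lit 456) (nat_lit 0) (XT.lf (nat_lit 0) (nat_lit 49152938775) (nat_lit 608) (nat_lit 7486647283) (nat_lit 76) (nat_lit 6929036681) (nat_lit 308) (nat_lit 5) (nat_lit 316) (nat_lit 5) (nat_lit 309) (nat_lit 5) (nat_lit 447) (nat_lit 417) (nat_lit 156)) (XT.lf (nat_lit 0) (nat_lit 29348251443) (nat_lit 456) (nat_lit 29917241231) (nat_lit 532) (nat_lit 5381704316) (nat_lit 302) (nat_lit 5) (nat_lit 308) (nat_lit 5) (nat_lit 309) (nat_lit 5) (nat_lit 448) (nat_lit 417) (nat_lit 155))) (XT.nd (nat_lit 78) (nat_lit 0) (nat_lit 0) (XT.lf (nat_lit 0) (nat_lit 1679206458) (nat_lit 532) (nat_lit 2259244000) (nat_lit 608) (nat_lit 61815795216) (nat_lit 294) (nat_lit 5) (nat_lit 301) (nat_lit 5) (nat_lit 302) (nat_lit 5) (nat_lit 449)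 (nat_lit 417) (nat_lit 154)) (XT.lf (nat_lit 0) (nat_lit 14041382173) (nat_lit 608) (nat_lit 26703370877) (nat_lit 76) (nat_lit 26129814066) (nat_lit 294) (nat_lit 5) (nat_lit 302) (nat_lit 5) (nat_lit 295) (nat_lit 5) (nat_lit 450) (nat_lit 417) (nat_lit 153))))) (XT.nd (nat_lit 312) (nat_lit 1292) (nat_lit 0) (XT.nd (nat_lit 156) (nat_lit 456) (nat_lit 0) (XT.nd (nat_lit 78) (nat_lit 0) (nat_lit 0) (XT.lf (nat_lit 0) (nat_lit 12000358063) (nat_lit 456) (nat_lit 12584025134) (nat_lit 532) (nat_lit 43440005564) (nat_lit 288) (nat_lit 5) (nat_lit 294) (nat_lit 5) (nat_lit 295) (nat_lit 5) (nat_lit 451) (nat_lit 417) (nat_lit 152)) (XT.lf (nat_lit 0) (nat_lit 35873118985) (nat_lit 532) (nat_lit 16949449838) (nat_lit 76) (nat_lit 16373252889) (nat_lit 288) (nat_lit 5) (nat_lit 295) (nat_lit 5) (nat_lit 289) (nat_lit 5) (nat_lit 452) (nat_lit 417) (nat_lit 151))) (XT.nd (nat_lit 78) (nat_lit 0) (nat_lit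 0) (XT.lf (nat_lit 0) (nat_lit 23633064060) (nat_lit 456) (nat_lit 24218513329) (nat_lit 532) (nat_lit 22540288448) (nat_lit 282) (nat_lit 5) (nat_lit 288) (nat_lit 5) (nat_lit 289) (nat_lit 5) (nat_lit 453) (nat_lit 417) (nat_lit 150)) (XT.lf (nat_lit 0) (nat_lit 60411947114) (nat_lit 532) (nat_lit 5891142995) (nat_lit 76) (nat_lit 5314024448) (nat_lit 282) (nat_lit 5) (nat_lit 289) (nat_lit 5) (nat_lit 283) (nat_lit 5) (nat_lit 454) (nat_lit 417) (nat_lit 149)))) (XT.nd (nat_lit 156) (nat_lit 380) (nat_lit 0) (XT.nd (nat_lit 78) (nat_lit 456) (nat_lit 0) (XT.lf (nat_lit 0) (nat_lit 1058370508) (nat_lit 456) (nat_lit 36194137188) (nat_lit 76) (nat_lit 35608551458) (nat_lit 276) (nat_lit 5) (nat_lit 282) (nat_lit 5) (nat_lit 277) (nat_lit 5) (nat_lit 455) (nat_lit 417) (nat_lit 148)) (XT.lf (nat_lit 0) (nat_lit 6496323451) (nat_lit 456) (nat_lit 7090129747) (nat_lit 532) (nat_lit 60548885082) (nat_lit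 270) (nat_lit 5) (nat_lit 276) (nat_lit 5) (nat_lit 277) (nat_lit 5) (nat_lit 456) (nat_lit 417) (nat_lit 147))) (XT.nd (nat_lit 78) (nat_lit 380) (nat_lit 0) (XT.lf (nat_lit 0) (nat_lit 27089305866) (nat_lit 532) (nat_lit 24462415864) (nat_lit 76) (nat_lit 23878156225) (nat_lit 270) (nat_lit 5) (nat_lit 277) (nat_lit 5) (nat_lit 271) (nat_lit 5) (nat_lit 457) (nat_lit 417) (nat_lit 146)) (XT.lf (nat_lit 0) (nat_lit 20335245588) (nat_lit 380) (nat_lit 20927028211) (nat_lit 456) (nat_lit 35493029131) (nat_lit 265) (nat_lit 5) (nat_lit 270) (nat_lit 5) (nat_lit 271) (nat_lit 5) (nat_lit 458) (nat_lit 417) (nat_lit 145)))))) (XT.nd (nat_lit 546) (nat_lit 1748) (nat_lit 0) (XT.nd (nat_lit 234) (nat_lit 684) (nat_lit 0) (XT.nd (nat_lit 78) (nat_lit 836) (nat_lit 0) (XT.lf (nat_lit 0) (nat_lit 56211314603) (nat_lit 456) (nat_lit 11240143452) (nat_lit 76) (nat_lit 10658506084) (nat_lit 265) (nat_lit 5) (nat_lit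 271) (nat_lit 5) (nat_lit 266) (nat_lit 5) (nat_lit 459) (nat_lit 417) (nat_lit 144)) (XT.nd (nat_lit 78) (nat_lit 456) (nat_lit 0) (XT.lf (nat_lit 0) (nat_lit 35785438626) (nat_lit 380) (nat_lit 36373960589) (nat_lit 456) (nat_lit 7329348793) (nat_lit 260) (nat_lit 5) (nat_lit 265) (nat_lit 5) (nat_lit 266) (nat_lit 5) (nat_lit 460) (nat_lit 417) (nat_lit 143)) (XT.lf (nat_lit 0) (nat_lit 3540030672) (nat_lit 380) (nat_lit 4135236708) (nat_lit 456) (nat_lit 73226972833) (nat_lit 254) (nat_lit 5) (nat_lit 259) (nat_lit 5) (nat_lit 260) (nat_lit 5) (nat_lit 461) (nat_lit 417) (nat_lit 142)))) (XT.nd (nat_lit 156) (nat_lit 304) (nat_lit 0) (XT.nd (nat_lit 78) (nat_lit 380) (nat_lit 0) (XT.lf (nat_lit 0) (nat_lit 23707235962) (nat_lit 456) (nat_lit 29605579355) (nat_lit 76) (nat_lit 29021409038) (nat_lit 254) (nat_lit 5) (nat_lit 260) (nat_lit 5) (nat_lit 255) (nat_lit 5) (nat_lit 462) (nat_lit 417) (nat_lit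 141)) (XT.lf (nat_lit 0) (nat_lit 19930909791) (nat_lit 380) (nat_lit 20521196981) (nat_lit 456) (nat_lit 43350102953) (nat_lit 249) (nat_lit 5) (nat_lit 254) (nat_lit 5) (nat_lit 255) (nat_lit 5) (nat_lit 463) (nat_lit 417) (nat_lit 140))) (XT.nd (nat_lit 78) (nat_lit 304) (nat_lit 0) (XT.lf (nat_lit 0) (nat_lit 58128068373) (nat_lit 456) (nat_lit 13876082021) (nat_lit 76) (nat_lit 13297221922) (nat_lit 249) (nat_lit 5) (nat_lit 255) (nat_lit 5) (nat_lit 250) (nat_lit 5) (nat_lit 464) (nat_lit 417) (nat_lit 139)) (XT.lf (nat_lit 0) (nat_lit 38159640502) (nat_lit 304) (nat_lit 38744098406) (nat_lit 380) (nat_lit 9924687974) (nat_lit 245) (nat_lit 5) (nat_lit 249) (nat_lit 5) (nat_lit 250) (nat_lit 5) (nat_lit 465) (nat_lit 417) (nat_lit 138))))) (XT.nd (nat_lit 312) (nat_lit 988) (nat_lit 0) (XT.nd (nat_lit 156) (nat_lit 304) (nat_lit 0) (XT.nd (nat_lit 78) (nat_lit 0) (nat_lit 0) (XT.lf (nat_lit 0)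 (nat_lit 3637195503) (nat_lit 380) (nat_lit 4227088171) (nat_lit 456) (nat_lit 80529470798) (nat_lit 239) (nat_lit 5) (nat_lit 244) (nat_lit 5) (nat_lit 245) (nat_lit 5) (nat_lit 466) (nat_lit 417) (nat_lit 137)) (XT.lf (nat_lit 0) (nat_lit 26784338195) (nat_lit 456) (nat_lit 31886341588) (nat_lit 76) (nat_lit 31308507476) (nat_lit 239) (nat_lit 5) (nat_lit 245) (nat_lit 5) (nat_lit 240) (nat_lit 5) (nat_lit 467) (nat_lit 417) (nat_lit 136))) (XT.nd (nat_lit 78) (nat_lit 0) (nat_lit 0) (XT.lf (nat_lit 0) (nat_lit 22975678550) (nat_lit 304) (nat_lit 23558486240) (nat_lit 380) (nat_lit 45070153127) (nat_lit 235) (nat_lit 5) (nat_lit 239) (nat_lit 5) (nat_lit 240) (nat_lit 5) (nat_lit 468) (nat_lit 417) (nat_lit 135)) (XT.lf (nat_lit 0) (nat_lit 67322318168) (nat_lit 380) (nat_lit 13256515075) (nat_lit 76) (nat_lit 12685994292) (nat_lit 235) (nat_lit 5) (nat_lit 240) (nat_lit 5) (nat_lit 236) (nat_lit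 5) (nat_lit 469) (nat_lit 417) (nat_lit 134)))) (XT.nd (nat_lit 156) (nat_lit 304) (nat_lit 0) (XT.nd (nat_lit 78) (nat_lit 380) (nat_lit 0) (XT.lf (nat_lit 0) (nat_lit 44409334457) (nat_lit 304) (nat_lit 44984406768) (nat_lit 380) (nat_lit 5561622464) (nat_lit 231) (nat_lit 5) (nat_lit 235) (nat_lit 5) (nat_lit 236) (nat_lit 5) (nat_lit 470) (nat_lit 417) (nat_lit 133)) (XT.lf (nat_lit 0) (nat_lit 7377843839) (nat_lit 304) (nat_lit 7957335110) (nat_lit 380) (nat_lit 81350819213) (nat_lit 226) (nat_lit 5) (nat_lit 230) (nat_lit 5) (nat_lit 231) (nat_lit 5) (nat_lit 471) (nat_lit 417) (nat_lit 132))) (XT.nd (nat_lit 78) (nat_lit 304) (nat_lit 0) (XT.lf (nat_lit 0) (nat_lit 37552175420) (nat_lit 380) (nat_lit 30728675118) (nat_lit 76) (nat_lit 30161896941) (nat_lit 226) (nat_lit 5) (nat_lit 231) (nat_lit 5) (nat_lit 227) (nat_lit 5) (nat_lit 472) (nat_lit 417) (nat_lit 131)) (XT.lf (nat_lit 0) (nat_lit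 30116323649) (nat_lit 304) (nat_lit 30687145801) (nat_lit 380) (nat_lit 39437696196) (nat_lit 222) (nat_lit 5) (nat_lit 226) (nat_lit 5) (nat_lit 227) (nat_lit 5) (nat_lit 473) (nat_lit 417) (nat_lit 130))))))) (XT.nd (nat_lit 1170) (nat_lit 4180) (nat_lit 0) (XT.nd (nat_lit 546) (nat_lit 836) (nat_lit 0) (XT.nd (nat_lit 234) (nat_lit 0) (nat_lit 76) (XT.nd (nat_lit 78) (nat_lit 0) (nat_lit 0) (XT.lf (nat_lit 0) (nat_lit 12423982895) (nat_lit 1292) (nat_lit 3970634744) (nat_lit 1292) (nat_lit 3970634744) (nat_lit 374) (nat_lit 3) (nat_lit 391) (nat_lit 3) (nat_lit 391) (nat_lit 5) (nat_lit 418) (nat_lit 418) (nat_lit 184)) (XT.nd (nat_lit 78) (nat_lit 0) (nat_lit 76) (XT.lf (nat_lit 76) (nat_lit 12671244515) (nat_lit 0) (nat_lit 12710624418) (nat_lit 1292) (nat_lit 15954757895) (nat_lit 375) (nat_lit 5) (nat_lit 374) (nat_lit 3) (nat_lit 391) (nat_lit 5) (nat_lit 419) (nat_lit 418) (nat_lit 183)) (XT.lf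 (nat_lit 0) (nat_lit 26087852666) (nat_lit 1216) (nat_lit 7971875116) (nat_lit 1292) (nat_lit 7896522865) (nat_lit 375) (nat_lit 5) (nat_lit 391) (nat_lit 5) (nat_lit 392) (nat_lit 5) (nat_lit 420) (nat_lit 418) (nat_lit 182)))) (XT.nd (nat_lit 156) (nat_lit 0) (nat_lit 76) (XT.nd (nat_lit 78) (nat_lit 0) (nat_lit 76) (XT.lf (nat_lit 76) (nat_lit 13478773337) (nat_lit 0) (nat_lit 13590163778) (nat_lit 1292) (nat_lit 15517908429) (nat_lit 376) (nat_lit 5) (nat_lit 375) (nat_lit 5) (nat_lit 392) (nat_lit 5) (nat_lit 421) (nat_lit 418) (nat_lit 181)) (XT.lf (nat_lit 0) (nat_lit 28231332227) (nat_lit 1216) (nat_lit 7571292614) (nat_lit 1292) (nat_lit 7429177104) (nat_lit 376) (nat_lit 5) (nat_lit 392) (nat_lit 5) (nat_lit 393) (nat_lit 5) (nat_lit 422) (nat_lit 418) (nat_lit 180))) (XT.nd (nat_lit 78) (nat_lit 0) (nat_lit 76) (XT.lf (nat_lit 76) (nat_lit 14764287070) (nat_lit 0) (nat_lit 14939382628) (nat_lit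 1292) (nat_lit 14184185224) (nat_lit 377) (nat_lit 5) (nat_lit 376) (nat_lit 5) (nat_lit 393) (nat_lit 5) (nat_lit 423) (nat_lit 418) (nat_lit 179)) (XT.lf (nat_lit 0) (nat_lit 31358978879) (nat_lit 1216) (nat_lit 6700764554) (nat_lit 1292) (nat_lit 6499682007) (nat_lit 377) (nat_lit 5) (nat_lit 393) (nat_lit 5) (nat_lit 394) (nat_lit 5) (nat_lit 424) (nat_lit 418) (nat_lit 178))))) (XT.nd (nat_lit 312) (nat_lit 1064) (nat_lit 0) (XT.nd (nat_lit 156) (nat_lit 0) (nat_lit 76) (XT.nd (nat_lit 78) (nat_lit 0) (nat_lit 76) (XT.lf (nat_lit 76) (nat_lit 16569270533) (nat_lit 0) (nat_lit 16800534497) (nat_lit 1292) (nat_lit 11872162314) (nat_lit 378) (nat_lit 5) (nat_lit 377) (nat_lit 5) (nat_lit 394) (nat_lit 5) (nat_lit 425) (nat_lit 418) (nat_lit 177)) (XT.lf (nat_lit 0) (nat_lit 35556984572) (nat_lit 1216) (nat_lit 5318748537) (nat_lit 1292) (nat_lit 5065771537) (nat_lit 378) (nat_lit 5) (nat_lit 394)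 (nat_lit 5) (nat_lit 395) (nat_lit 5) (nat_lit 426) (nat_lit 418) (nat_lit 176))) (XT.nd (nat_lit 78) (nat_lit 0) (nat_lit 76) (XT.lf (nat_lit 76) (nat_lit 18938155457) (nat_lit 0) (nat_lit 19218752729) (nat_lit 1292) (nat_lit 8494706022) (nat_lit 379) (nat_lit 5) (nat_lit 378) (nat_lit 5) (nat_lit 395) (nat_lit 5) (nat_lit 427) (nat_lit 418) (nat_lit 175)) (XT.lf (nat_lit 0) (nat_lit 40917526844) (nat_lit 1216) (nat_lit 3380739291) (nat_lit 1292) (nat_lit 3082280000) (nat_lit 379) (nat_lit 5) (nat_lit 395) (nat_lit 5) (nat_lit 396) (nat_lit 5) (nat_lit 428) (nat_lit 418) (nat_lit 174)))) (XT.nd (nat_lit 156) (nat_lit 1216) (nat_lit 0) (XT.nd (nat_lit 78) (nat_lit 0) (nat_lit 76) (XT.lf (nat_lit 76) (nat_lit 21918508157) (nat_lit 0) (nat_lit 22242243910) (nat_lit 1292) (nat_lit 3958600314) (nat_lit 380) (nat_lit 5) (nat_lit 379) (nat_lit 5) (nat_lit 396) (nat_lit 5) (nat_lit 429) (nat_lit 418) (nat_lit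 173)) (XT.lf (nat_lit 0) (nat_lit 47539159675) (nat_lit 1216) (nat_lit 839079308) (nat_lit 1292) (nat_lit 500947263) (nat_lit 380) (nat_lit 5) (nat_lit 396) (nat_lit 5) (nat_lit 397) (nat_lit 5) (nat_lit 430) (nat_lit 418) (nat_lit 172))) (XT.nd (nat_lit 78) (nat_lit 0) (nat_lit 0) (XT.lf (nat_lit 0) (nat_lit 1800027017) (nat_lit 1292) (nat_lit 24104289098) (nat_lit 1368) (nat_lit 23743025511) (nat_lit 363) (nat_lit 5) (nat_lit 380) (nat_lit 5) (nat_lit 381) (nat_lit 5) (nat_lit 431) (nat_lit 418) (nat_lit 171)) (XT.lf (nat_lit 76) (nat_lit 2326718075) (nat_lit 0) (nat_lit 2710439471) (nat_lit 1368) (nat_lit 45400091840) (nat_lit 364) (nat_lit 5) (nat_lit 363) (nat_lit 5) (nat_lit 381) (nat_lit 5) (nat_lit 432) (nat_lit 418) (nat_lit 170)))))) (XT.nd (nat_lit 624) (nat_lit 2280) (nat_lit 0) (XT.nd (nat_lit 312) (nat_lit 1216) (nat_lit 0) (XT.nd (nat_lit 156) (nat_lit 760) (nat_lit 0) (XT.nd (nat_lit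 78) (nat_lit 0) (nat_lit 0) (XT.lf (nat_lit 0) (nat_lit 8819717613) (nat_lit 1292) (nat_lit 21405700489) (nat_lit 1368) (nat_lit 21011986806) (nat_lit 364) (nat_lit 5) (nat_lit 381) (nat_lit 5) (nat_lit 382) (nat_lit 5) (nat_lit 433) (nat_lit 418) (nat_lit 169)) (XT.lf (nat_lit 76) (nat_lit 6193401443) (nat_lit 0) (nat_lit 6607667202) (nat_lit 1368) (nat_lit 39257937029) (nat_lit 365) (nat_lit 5) (nat_lit 364) (nat_lit 5) (nat_lit 382) (nat_lit 5) (nat_lit 434) (nat_lit 418) (nat_lit 168))) (XT.nd (nat_lit 78) (nat_lit 836) (nat_lit 0) (XT.lf (nat_lit 0) (nat_lit 17289445220) (nat_lit 1292) (nat_lit 18012876879) (nat_lit 76) (nat_lit 17591304810) (nat_lit 365) (nat_lit 5) (nat_lit 382) (nat_lit 5) (nat_lit 366) (nat_lit 5) (nat_lit 435) (nat_lit 418) (nat_lit 167)) (XT.lf (nat_lit 0) (nat_lit 10820261773) (nat_lit 836) (nat_lit 11260641903) (nat_lit 912) (nat_lit 31667330190) (nat_lit 354) (nat_lit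 5) (nat_lit 365) (nat_lit 5) (nat_lit 366) (nat_lit 5) (nat_lit 436) (nat_lit 418) (nat_lit 166)))) (XT.nd (nat_lit 156) (nat_lit 608) (nat_lit 0) (XT.nd (nat_lit 78) (nat_lit 608) (nat_lit 0) (XT.lf (nat_lit 0) (nat_lit 27328612682) (nat_lit 912) (nat_lit 13867886535) (nat_lit 76) (nat_lit 13422604609) (nat_lit 354) (nat_lit 5) (nat_lit 366) (nat_lit 5) (nat_lit 355) (nat_lit 5) (nat_lit 437) (nat_lit 418) (nat_lit 165)) (XT.lf (nat_lit 0) (nat_lit 16269093205) (nat_lit 608) (nat_lit 16731587171) (nat_lit 684) (nat_lit 22507411688) (nat_lit 346) (nat_lit 5) (nat_lit 354) (nat_lit 5) (nat_lit 355) (nat_lit 5) (nat_lit 438) (nat_lit 418) (nat_lit 164))) (XT.nd (nat_lit 78) (nat_lit 608) (nat_lit 0) (XT.lf (nat_lit 0) (nat_lit 39064794982) (nat_lit 684) (nat_lit 8908772843) (nat_lit 76) (nat_lit 8443525577) (nat_lit 346) (nat_lit 5) (nat_lit 355) (nat_lit 5) (nat_lit 347) (nat_lit 5) (nat_lit 439) (nat_lit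 418) (nat_lit 163)) (XT.lf (nat_lit 0) (nat_lit 22605945109) (nat_lit 608) (nat_lit 23086943831) (nat_lit 684) (nat_lit 11649014163) (nat_lit 338) (nat_lit 5) (nat_lit 346) (nat_lit 5) (nat_lit 347) (nat_lit 5) (nat_lit 440) (nat_lit 418) (nat_lit 162))))) (XT.nd (nat_lit 312) (nat_lit 1064) (nat_lit 0) (XT.nd (nat_lit 156) (nat_lit 608) (nat_lit 0) (XT.nd (nat_lit 78) (nat_lit 608) (nat_lit 0) (XT.lf (nat_lit 0) (nat_lit 52634266587) (nat_lit 684) (nat_lit 3069296794) (nat_lit 76) (nat_lit 2587460487) (nat_lit 338) (nat_lit 5) (nat_lit 347) (nat_lit 5) (nat_lit 339) (nat_lit 5) (nat_lit 441) (nat_lit 418) (nat_lit 161)) (XT.lf (nat_lit 0) (nat_lit 1025465675) (nat_lit 608) (nat_lit 29361823759) (nat_lit 76) (nat_lit 28865572639) (nat_lit 330) (nat_lit 5) (nat_lit 338) (nat_lit 5) (nat_lit 331) (nat_lit 5) (nat_lit 442) (nat_lit 418) (nat_lit 160))) (XT.nd (nat_lit 78) (nat_lit 0) (nat_lit 0) (XT.lf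 (nat_lit 0) (nat_lit 3674993988) (nat_lit 608) (nat_lit 4185240072) (nat_lit 684) (nat_lit 52379667918) (nat_lit 322) (nat_lit 5) (nat_lit 330) (nat_lit 5) (nat_lit 331) (nat_lit 5) (nat_lit 443) (nat_lit 418) (nat_lit 159)) (XT.lf (nat_lit 0) (nat_lit 15417836170) (nat_lit 684) (nat_lit 23165879667) (nat_lit 76) (nat_lit 22657303524) (nat_lit 322) (nat_lit 5) (nat_lit 331) (nat_lit 5) (nat_lit 323) (nat_lit 5) (nat_lit 444) (nat_lit 418) (nat_lit 158)))) (XT.nd (nat_lit 156) (nat_lit 532) (nat_lit 0) (XT.nd (nat_lit 78) (nat_lit 0) (nat_lit 0) (XT.lf (nat_lit 0) (nat_lit 11415570870) (nat_lit 532) (nat_lit 11936954387) (nat_lit 608) (nat_lit 38915134241) (nat_lit 315) (nat_lit 5) (nat_lit 322) (nat_lit 5) (nat_lit 323) (nat_lit 5) (nat_lit 445) (nat_lit 418) (nat_lit 157)) (XT.lf (nat_lit 0) (nat_lit 31909787352) (nat_lit 608) (nat_lit 15961022643) (nat_lit 76) (nat_lit 15442752875) (nat_lit 315) (nat_lit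 5) (nat_lit 323) (nat_lit 5) (nat_lit 316) (nat_lit 5) (nat_lit 446) (nat_lit 418) (nat_lit 156))) (XT.nd (nat_lit 78) (nat_lit 0) (nat_lit 0) (XT.lf (nat_lit 0) (nat_lit 20252936861) (nat_lit 532) (nat_lit 20782927191) (nat_lit 608) (nat_lit 23345616388) (nat_lit 308) (nat_lit 5) (nat_lit 315) (nat_lit 5) (nat_lit 316) (nat_lit 5) (nat_lit 447) (nat_lit 418) (nat_lit 155)) (XT.lf (nat_lit 0) (nat_lit 50666151509) (nat_lit 608) (nat_lit 7666986324) (nat_lit 76) (nat_lit 7141384851) (nat_lit 308) (nat_lit 5) (nat_lit 316) (nat_lit 5) (nat_lit 309) (nat_lit 5) (nat_lit 448) (nat_lit 418) (nat_lit 154))))))))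
noncomputable def xc238 : XT := (XT.nd (nat_lit 51168) (nat_lit 0) (nat_lit 4712) (XT.nd (nat_lit 1170) (nat_lit 2128) (nat_lit 0) (XT.nd (nat_lit 546) (nat_lit 2128) (nat_lit 0) (XT.nd (nat_lit 234) (nat_lit 912) (nat_lit 0) (XT.nd (nat_lit 78) (nat_lit 608) (nat_lit 0) (XT.lf (nat_lit 0) (nat_lit 30272525439) (nat_lit 456) (nat_lit 30808852885) (nat_lit 532) (nat_lit 5504096949) (nat_lit 302) (nat_lit 5) (nat_lit 308) (nat_lit 5) (nat_lit 309) (nat_lit 5) (nat_lit 449) (nat_lit 418) (nat_lit 153)) (XT.nd (nat_lit 78) (nat_lit 0) (nat_lit 0) (XT.lf (nat_lit 0) (nat_lit 1773734133) (nat_lit 532) (nat_lit 2320475147) (nat_lit 608) (nat_lit 63631535605) (nat_lit 294) (nat_lit 5) (nat_lit 301) (nat_lit 5) (nat_lit 302) (nat_lit 5) (nat_lit 450) (nat_lit 418) (nat_lit 152)) (XT.lf (nat_lit 0) (nat_lit 14499194740) (nat_lit 608) (nat_lit 27460572281) (nat_lit 76) (nat_lit 26919939976) (nat_lit 294) (nat_lit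 5) (nat_lit 302) (nat_lit 5) (nat_lit 295) (nat_lit 5) (nat_lit 451) (nat_lit 418) (nat_lit 151)))) (XT.nd (nat_lit 156) (nat_lit 456) (nat_lit 0) (XT.nd (nat_lit 78) (nat_lit 0) (nat_lit 0) (XT.lf (nat_lit 0) (nat_lit 12403838138) (nat_lit 456) (nat_lit 12954000332) (nat_lit 532) (nat_lit 44706204240) (nat_lit 288) (nat_lit 5) (nat_lit 294) (nat_lit 5) (nat_lit 295) (nat_lit 5) (nat_lit 452) (nat_lit 418) (nat_lit 150)) (XT.lf (nat_lit 0) (nat_lit 36984260429) (nat_lit 532) (nat_lit 17414754193) (nat_lit 76) (nat_lit 16871633306) (nat_lit 288) (nat_lit 5) (nat_lit 295) (nat_lit 5) (nat_lit 289) (nat_lit 5) (nat_lit 453) (nat_lit 418) (nat_lit 149))) (XT.nd (nat_lit 78) (nat_lit 0) (nat_lit 0) (XT.lf (nat_lit 0) (nat_lit 24384811797) (nat_lit 456) (nat_lit 24936653883) (nat_lit 532) (nat_lit 23181125903) (nat_lit 282) (nat_lit 5) (nat_lit 288) (nat_lit 5) (nat_lit 289) (nat_lit 5) (nat_lit 454) (nat_lit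 418) (nat_lit 148)) (XT.lf (nat_lit 0) (nat_lit 62257724808) (nat_lit 532) (nat_lit 6025445095) (nat_lit 76) (nat_lit 5481455513) (nat_lit 282) (nat_lit 5) (nat_lit 289) (nat_lit 5) (nat_lit 283) (nat_lit 5) (nat_lit 455) (nat_lit 418) (nat_lit 147))))) (XT.nd (nat_lit 312) (nat_lit 836) (nat_lit 0) (XT.nd (nat_lit 156) (nat_lit 380) (nat_lit 0) (XT.nd (nat_lit 78) (nat_lit 456) (nat_lit 0) (XT.lf (nat_lit 0) (nat_lit 1123296657) (nat_lit 456) (nat_lit 37237284867) (nat_lit 76) (nat_lit 36685314154) (nat_lit 276) (nat_lit 5) (nat_lit 282) (nat_lit 5) (nat_lit 277) (nat_lit 5) (nat_lit 456) (nat_lit 418) (nat_lit 146)) (XT.lf (nat_lit 0) (nat_lit 6733471195) (nat_lit 456) (nat_lit 7293190580) (nat_lit 532) (nat_lit 62331758205) (nat_lit 270) (nat_lit 5) (nat_lit 276) (nat_lit 5) (nat_lit 277) (nat_lit 5) (nat_lit 457) (nat_lit 418) (nat_lit 145))) (XT.nd (nat_lit 78) (nat_lit 380) (nat_lit 0) (XT.lf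 (nat_lit 0) (nat_lit 27933740067) (nat_lit 532) (nat_lit 25154401161) (nat_lit 76) (nat_lit 24603680415) (nat_lit 270) (nat_lit 5) (nat_lit 277) (nat_lit 5) (nat_lit 271) (nat_lit 5) (nat_lit 458) (nat_lit 418) (nat_lit 144)) (XT.lf (nat_lit 0) (nat_lit 20986779477) (nat_lit 380) (nat_lit 21544591356) (nat_lit 456) (nat_lit 36525654322) (nat_lit 265) (nat_lit 5) (nat_lit 270) (nat_lit 5) (nat_lit 271) (nat_lit 5) (nat_lit 459) (nat_lit 418) (nat_lit 143)))) (XT.nd (nat_lit 156) (nat_lit 456) (nat_lit 0) (XT.nd (nat_lit 78) (nat_lit 380) (nat_lit 0) (XT.lf (nat_lit 0) (nat_lit 57928068921) (nat_lit 456) (nat_lit 11536265350) (nat_lit 76) (nat_lit 10988016346) (nat_lit 265) (nat_lit 5) (nat_lit 271) (nat_lit 5) (nat_lit 266) (nat_lit 5) (nat_lit 460) (nat_lit 418) (nat_lit 142)) (XT.lf (nat_lit 0) (nat_lit 36899681422) (nat_lit 380) (nat_lit 37454419816) (nat_lit 456) (nat_lit 7518411608) (nat_lit 260)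 (nat_lit 5) (nat_lit 265) (nat_lit 5) (nat_lit 266) (nat_lit 5) (nat_lit 461) (nat_lit 418) (nat_lit 141))) (XT.nd (nat_lit 78) (nat_lit 0) (nat_lit 0) (XT.lf (nat_lit 0) (nat_lit 3687107877) (nat_lit 380) (nat_lit 4248146651) (nat_lit 456) (nat_lit 75393161018) (nat_lit 254) (nat_lit 5) (nat_lit 259) (nat_lit 5) (nat_lit 260) (nat_lit 5) (nat_lit 462) (nat_lit 418) (nat_lit 140)) (XT.lf (nat_lit 0) (nat_lit 24447420303) (nat_lit 456) (nat_lit 30453299158) (nat_lit 76) (nat_lit 29902662607) (nat_lit 254) (nat_lit 5) (nat_lit 260) (nat_lit 5) (nat_lit 255) (nat_lit 5) (nat_lit 463) (nat_lit 418) (nat_lit 139)))))) (XT.nd (nat_lit 546) (nat_lit 684) (nat_lit 0) (XT.nd (nat_lit 234) (nat_lit 760) (nat_lit 0) (XT.nd (nat_lit 78) (nat_lit 304) (nat_lit 0) (XT.lf (nat_lit 0) (nat_lit 20568888117) (nat_lit 380) (nat_lit 21125290408) (nat_lit 456) (nat_lit 44621242235) (nat_lit 249) (nat_lit 5) (nat_lit 254)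 (nat_lit 5) (nat_lit 255) (nat_lit 5) (nat_lit 464) (nat_lit 418) (nat_lit 138)) (XT.nd (nat_lit 78) (nat_lit 304) (nat_lit 0) (XT.lf (nat_lit 0) (nat_lit 59899696351) (nat_lit 456) (nat_lit 14252757359) (nat_lit 76) (nat_lit 13707126198) (nat_lit 249) (nat_lit 5) (nat_lit 255) (nat_lit 5) (nat_lit 250) (nat_lit 5) (nat_lit 465) (nat_lit 418) (nat_lit 137)) (XT.lf (nat_lit 0) (nat_lit 39343648534) (nat_lit 304) (nat_lit 39894556164) (nat_lit 380) (nat_lit 10194254382) (nat_lit 245) (nat_lit 5) (nat_lit 249) (nat_lit 5) (nat_lit 250) (nat_lit 5) (nat_lit 466) (nat_lit 418) (nat_lit 136)))) (XT.nd (nat_lit 156) (nat_lit 304) (nat_lit 0) (XT.nd (nat_lit 78) (nat_lit 0) (nat_lit 0) (XT.lf (nat_lit 0) (nat_lit 3785690078) (nat_lit 380) (nat_lit 4341720493) (nat_lit 456) (nat_lit 82917340583) (nat_lit 239) (nat_lit 5) (nat_lit 244) (nat_lit 5) (nat_lit 245) (nat_lit 5) (nat_lit 467) (nat_lit 418) (nat_lit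 135)) (XT.lf (nat_lit 0) (nat_lit 27614388217) (nat_lit 456) (nat_lit 32804021567) (nat_lit 76) (nat_lit 32259357497) (nat_lit 239) (nat_lit 5) (nat_lit 245) (nat_lit 5) (nat_lit 240) (nat_lit 5) (nat_lit 468) (nat_lit 418) (nat_lit 134))) (XT.nd (nat_lit 78) (nat_lit 0) (nat_lit 0) (XT.lf (nat_lit 0) (nat_lit 23703477702) (nat_lit 304) (nat_lit 24252829847) (nat_lit 380) (nat_lit 46395356372) (nat_lit 235) (nat_lit 5) (nat_lit 239) (nat_lit 5) (nat_lit 240) (nat_lit 5) (nat_lit 469) (nat_lit 418) (nat_lit 133)) (XT.lf (nat_lit 0) (nat_lit 69367460641) (nat_lit 380) (nat_lit 13616159044) (nat_lit 76) (nat_lit 13078388488) (nat_lit 235) (nat_lit 5) (nat_lit 240) (nat_lit 5) (nat_lit 236) (nat_lit 5) (nat_lit 470) (nat_lit 418) (nat_lit 132))))) (XT.nd (nat_lit 49140) (nat_lit 0) (nat_lit 11248) (XT.nd (nat_lit 156) (nat_lit 0) (nat_lit 0) (XT.nd (nat_lit 78) (nat_lit 380) (nat_lit 0) (XT.lf (nat_lit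 0) (nat_lit 45779292920) (nat_lit 304) (nat_lit 46321353728) (nat_lit 380) (nat_lit 5702625156) (nat_lit 231) (nat_lit 5) (nat_lit 235) (nat_lit 5) (nat_lit 236) (nat_lit 5) (nat_lit 471) (nat_lit 418) (nat_lit 131)) (XT.lf (nat_lit 0) (nat_lit 7636987591) (nat_lit 304) (nat_lit 8183213693) (nat_lit 380) (nat_lit 83765627814) (nat_lit 226) (nat_lit 5) (nat_lit 230) (nat_lit 5) (nat_lit 231) (nat_lit 5) (nat_lit 472) (nat_lit 418) (nat_lit 130))) (XT.nd (nat_lit 48906) (nat_lit 0) (nat_lit 11248) (XT.lf (nat_lit 0) (nat_lit 38703100300) (nat_lit 380) (nat_lit 31613220803) (nat_lit 76) (nat_lit 31078978012) (nat_lit 226) (nat_lit 5) (nat_lit 231) (nat_lit 5) (nat_lit 227) (nat_lit 5) (nat_lit 473) (nat_lit 418) (nat_lit 129)) (XT.lf (nat_lit 0) (nat_lit 12835703741) (nat_lit 1292) (nat_lit 4069668086) (nat_lit 1292) (nat_lit 4069668086) (nat_lit 374) (nat_lit 3) (nat_lit 391) (nat_lit 3) (nat_lit 391)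 (nat_lit 5) (nat_lit 419) (nat_lit 419) (nat_lit 182)))) (XT.nd (nat_lit 156) (nat_lit 0) (nat_lit 76) (XT.nd (nat_lit 78) (nat_lit 0) (nat_lit 76) (XT.lf (nat_lit 76) (nat_lit 13091159413) (nat_lit 0) (nat_lit 13128278749) (nat_lit 1292) (nat_lit 16355004076) (nat_lit 375) (nat_lit 5) (nat_lit 374) (nat_lit 3) (nat_lit 391) (nat_lit 5) (nat_lit 420) (nat_lit 419) (nat_lit 181)) (XT.lf (nat_lit 0) (nat_lit 26944045412) (nat_lit 1216) (nat_lit 8169856382) (nat_lit 1292) (nat_lit 8098829658) (nat_lit 375) (nat_lit 5) (nat_lit 391) (nat_lit 5) (nat_lit 392) (nat_lit 5) (nat_lit 421) (nat_lit 419) (nat_lit 180))) (XT.nd (nat_lit 78) (nat_lit 0) (nat_lit 76) (XT.lf (nat_lit 76) (nat_lit 13923907849) (nat_lit 0) (nat_lit 14028904023) (nat_lit 1292) (nat_lit 15909484839) (nat_lit 376) (nat_lit 5) (nat_lit 375) (nat_lit 5) (nat_lit 392) (nat_lit 5) (nat_lit 422) (nat_lit 419) (nat_lit 179)) (XT.lf (nat_lit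 0) (nat_lit 29147697740) (nat_lit 1216) (nat_lit 7756466498) (nat_lit 1292) (nat_lit 7622508999) (nat_lit 376) (nat_lit 5) (nat_lit 392) (nat_lit 5) (nat_lit 393) (nat_lit 5) (nat_lit 423) (nat_lit 419) (nat_lit 178))))))) (XT.nd (nat_lit 1170) (nat_lit 5016) (nat_lit 0) (XT.nd (nat_lit 546) (nat_lit 1672) (nat_lit 0) (XT.nd (nat_lit 234) (nat_lit 0) (nat_lit 152) (XT.nd (nat_lit 78) (nat_lit 0) (nat_lit 76) (XT.lf (nat_lit 76) (nat_lit 15248769156) (nat_lit 0) (nat_lit 15413813513) (nat_lit 1292) (nat_lit 14539873814) (nat_lit 377) (nat_lit 5) (nat_lit 376) (nat_lit 5) (nat_lit 393) (nat_lit 5) (nat_lit 424) (nat_lit 419) (nat_lit 177)) (XT.nd (nat_lit 78) (nat_lit 0) (nat_lit 0) (XT.lf (nat_lit 0) (nat_lit 32365331309) (nat_lit 1216) (nat_lit 6859224495) (nat_lit 1292) (nat_lit 6669684908) (nat_lit 377) (nat_lit 5) (nat_lit 393) (nat_lit 5) (nat_lit 394) (nat_lit 5) (nat_lit 425) (nat_lit 419) (nat_lit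 176)) (XT.lf (nat_lit 76) (nat_lit 17108494361) (nat_lit 0) (nat_lit 17326482827) (nat_lit 1292) (nat_lit 12162326836) (nat_lit 378) (nat_lit 5) (nat_lit 377) (nat_lit 5) (nat_lit 394) (nat_lit 5) (nat_lit 426) (nat_lit 419) (nat_lit 175)))) (XT.nd (nat_lit 156) (nat_lit 0) (nat_lit 76) (XT.nd (nat_lit 78) (nat_lit 0) (nat_lit 0) (XT.lf (nat_lit 0) (nat_lit 36685701081) (nat_lit 1216) (nat_lit 5435321791) (nat_lit 1292) (nat_lit 5196866705) (nat_lit 378) (nat_lit 5) (nat_lit 394) (nat_lit 5) (nat_lit 395) (nat_lit 5) (nat_lit 427) (nat_lit 419) (nat_lit 174)) (XT.lf (nat_lit 76) (nat_lit 19548867861) (nat_lit 0) (nat_lit 19813357701) (nat_lit 1292) (nat_lit 8687118768) (nat_lit 379) (nat_lit 5) (nat_lit 378) (nat_lit 5) (nat_lit 395) (nat_lit 5) (nat_lit 428) (nat_lit 419) (nat_lit 173))) (XT.nd (nat_lit 78) (nat_lit 0) (nat_lit 0) (XT.lf (nat_lit 0) (nat_lit 42203729053) (nat_lit 1216) (nat_lit 3438899840)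 (nat_lit 1292) (nat_lit 3157573334) (nat_lit 379) (nat_lit 5) (nat_lit 395) (nat_lit 5) (nat_lit 396) (nat_lit 5) (nat_lit 429) (nat_lit 419) (nat_lit 172)) (XT.lf (nat_lit 76) (nat_lit 22618900898) (nat_lit 0) (nat_lit 22924052894) (nat_lit 1292) (nat_lit 4018257786) (nat_lit 380) (nat_lit 5) (nat_lit 379) (nat_lit 5) (nat_lit 396) (nat_lit 5) (nat_lit 430) (nat_lit 419) (nat_lit 171))))) (XT.nd (nat_lit 312) (nat_lit 684) (nat_lit 0) (XT.nd (nat_lit 156) (nat_lit 0) (nat_lit 0) (XT.nd (nat_lit 78) (nat_lit 1292) (nat_lit 0) (XT.lf (nat_lit 0) (nat_lit 49020906678) (nat_lit 1216) (nat_lit 820854935) (nat_lit 1292) (nat_lit 502133053) (nat_lit 380) (nat_lit 5) (nat_lit 396) (nat_lit 5) (nat_lit 397) (nat_lit 5) (nat_lit 431) (nat_lit 419) (nat_lit 170)) (XT.lf (nat_lit 0) (nat_lit 1908932783) (nat_lit 1292) (nat_lit 24783353762) (nat_lit 1368) (nat_lit 24442828182) (nat_lit 363) (nat_lit 5) (nat_lit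 380) (nat_lit 5) (nat_lit 381) (nat_lit 5) (nat_lit 432) (nat_lit 419) (nat_lit 169))) (XT.nd (nat_lit 78) (nat_lit 0) (nat_lit 76) (XT.lf (nat_lit 76) (nat_lit 2440151626) (nat_lit 0) (nat_lit 2801845844) (nat_lit 1368) (nat_lit 46706757641) (nat_lit 364) (nat_lit 5) (nat_lit 363) (nat_lit 5) (nat_lit 381) (nat_lit 5) (nat_lit 433) (nat_lit 419) (nat_lit 168)) (XT.lf (nat_lit 0) (nat_lit 9136375333) (nat_lit 1292) (nat_lit 22003851322) (nat_lit 1368) (nat_lit 21632738415) (nat_lit 364) (nat_lit 5) (nat_lit 381) (nat_lit 5) (nat_lit 382) (nat_lit 5) (nat_lit 434) (nat_lit 419) (nat_lit 167)))) (XT.nd (nat_lit 156) (nat_lit 760) (nat_lit 0) (XT.nd (nat_lit 78) (nat_lit 0) (nat_lit 76) (XT.lf (nat_lit 76) (nat_lit 6422792097) (nat_lit 0) (nat_lit 6813277307) (nat_lit 1368) (nat_lit 40383177378) (nat_lit 365) (nat_lit 5) (nat_lit 364) (nat_lit 5) (nat_lit 382) (nat_lit 5) (nat_lit 435) (nat_lit 419) (nat_lit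 166)) (XT.lf (nat_lit 0) (nat_lit 17857543876) (nat_lit 1292) (nat_lit 18509390745) (nat_lit 76) (nat_lit 18112018637) (nat_lit 365) (nat_lit 5) (nat_lit 382) (nat_lit 5) (nat_lit 366) (nat_lit 5) (nat_lit 436) (nat_lit 419) (nat_lit 165))) (XT.nd (nat_lit 78) (nat_lit 0) (nat_lit 0) (XT.lf (nat_lit 0) (nat_lit 11188311945) (nat_lit 836) (nat_lit 11603412454) (nat_lit 912) (nat_lit 32567504674) (nat_lit 354) (nat_lit 5) (nat_lit 365) (nat_lit 5) (nat_lit 366) (nat_lit 5) (nat_lit 437) (nat_lit 419) (nat_lit 164)) (XT.lf (nat_lit 0) (nat_lit 28195408944) (nat_lit 912) (nat_lit 14240290391) (nat_lit 76) (nat_lit 13820569469) (nat_lit 354) (nat_lit 5) (nat_lit 366) (nat_lit 5) (nat_lit 355) (nat_lit 5) (nat_lit 438) (nat_lit 419) (nat_lit 163)))))) (XT.nd (nat_lit 624) (nat_lit 2052) (nat_lit 0) (XT.nd (nat_lit 312) (nat_lit 1748) (nat_lit 0) (XT.nd (nat_lit 156) (nat_lit 608) (nat_lit 0) (XT.nd (nat_lit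 78) (nat_lit 0) (nat_lit 0) (XT.lf (nat_lit 0) (nat_lit 16800370970) (nat_lit 608) (nat_lit 17236315890) (nat_lit 684) (nat_lit 23135268384) (nat_lit 346) (nat_lit 5) (nat_lit 354) (nat_lit 5) (nat_lit 355) (nat_lit 5) (nat_lit 439) (nat_lit 419) (nat_lit 162)) (XT.lf (nat_lit 0) (nat_lit 40281359548) (nat_lit 684) (nat_lit 9132724102) (nat_lit 76) (nat_lit 8694183932) (nat_lit 346) (nat_lit 5) (nat_lit 355) (nat_lit 5) (nat_lit 347) (nat_lit 5) (nat_lit 440) (nat_lit 419) (nat_lit 161))) (XT.nd (nat_lit 78) (nat_lit 0) (nat_lit 0) (XT.lf (nat_lit 0) (nat_lit 23327010762) (nat_lit 608) (nat_lit 23780398189) (nat_lit 684) (nat_lit 11953439244) (nat_lit 338) (nat_lit 5) (nat_lit 346) (nat_lit 5) (nat_lit 347) (nat_lit 5) (nat_lit 441) (nat_lit 419) (nat_lit 160)) (XT.lf (nat_lit 0) (nat_lit 54255746245) (nat_lit 684) (nat_lit 3118455861) (nat_lit 76) (nat_lit 2664278929) (nat_lit 338) (nat_lit 5) (nat_lit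 347) (nat_lit 5) (nat_lit 339) (nat_lit 5) (nat_lit 442) (nat_lit 419) (nat_lit 159)))) (XT.nd (nat_lit 156) (nat_lit 532) (nat_lit 0) (XT.nd (nat_lit 78) (nat_lit 608) (nat_lit 0) (XT.lf (nat_lit 0) (nat_lit 1098265492) (nat_lit 608) (nat_lit 30199342821) (nat_lit 76) (nat_lit 29731578545) (nat_lit 330) (nat_lit 5) (nat_lit 338) (nat_lit 5) (nat_lit 331) (nat_lit 5) (nat_lit 443) (nat_lit 419) (nat_lit 158)) (XT.lf (nat_lit 0) (nat_lit 3828154599) (nat_lit 608) (nat_lit 4309110470) (nat_lit 684) (nat_lit 53908597248) (nat_lit 322) (nat_lit 5) (nat_lit 330) (nat_lit 5) (nat_lit 331) (nat_lit 5) (nat_lit 444) (nat_lit 419) (nat_lit 157))) (XT.nd (nat_lit 78) (nat_lit 532) (nat_lit 0) (XT.lf (nat_lit 0) (nat_lit 15920410286) (nat_lit 684) (nat_lit 23818010139) (nat_lit 76) (nat_lit 23338628347) (nat_lit 322) (nat_lit 5) (nat_lit 331) (nat_lit 5) (nat_lit 323) (nat_lit 5) (nat_lit 445) (nat_lit 419) (nat_lit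 156)) (XT.lf (nat_lit 0) (nat_lit 11800463857) (nat_lit 532) (nat_lit 12291917827) (nat_lit 608) (nat_lit 40042129180) (nat_lit 315) (nat_lit 5) (nat_lit 322) (nat_lit 5) (nat_lit 323) (nat_lit 5) (nat_lit 446) (nat_lit 419) (nat_lit 155))))) (XT.nd (nat_lit 312) (nat_lit 1064) (nat_lit 0) (XT.nd (nat_lit 156) (nat_lit 456) (nat_lit 0) (XT.nd (nat_lit 78) (nat_lit 532) (nat_lit 0) (XT.lf (nat_lit 0) (nat_lit 32905246898) (nat_lit 608) (nat_lit 16397548422) (nat_lit 76) (nat_lit 15909029459) (nat_lit 315) (nat_lit 5) (nat_lit 323) (nat_lit 5) (nat_lit 316) (nat_lit 5) (nat_lit 447) (nat_lit 419) (nat_lit 154)) (XT.lf (nat_lit 0) (nat_lit 20902415113) (nat_lit 532) (nat_lit 21401981830) (nat_lit 608) (nat_lit 24007404201) (nat_lit 308) (nat_lit 5) (nat_lit 315) (nat_lit 5) (nat_lit 316) (nat_lit 5) (nat_lit 448) (nat_lit 419) (nat_lit 153))) (XT.nd (nat_lit 78) (nat_lit 456) (nat_lit 0) (XT.lf (nat_lit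 0) (nat_lit 52222543417) (nat_lit 608) (nat_lit 7855276262) (nat_lit 76) (nat_lit 7359846464) (nat_lit 308) (nat_lit 5) (nat_lit 316) (nat_lit 5) (nat_lit 309) (nat_lit 5) (nat_lit 449) (nat_lit 419) (nat_lit 152)) (XT.lf (nat_lit 0) (nat_lit 31222011837) (nat_lit 456) (nat_lit 31727551894) (nat_lit 532) (nat_lit 5632403478) (nat_lit 302) (nat_lit 5) (nat_lit 308) (nat_lit 5) (nat_lit 309) (nat_lit 5) (nat_lit 450) (nat_lit 419) (nat_lit 151)))) (XT.nd (nat_lit 156) (nat_lit 456) (nat_lit 0) (XT.nd (nat_lit 78) (nat_lit 0) (nat_lit 0) (XT.lf (nat_lit 0) (nat_lit 1868563163) (nat_lit 532) (nat_lit 2383919006) (nat_lit 608) (nat_lit 65503971664) (nat_lit 294) (nat_lit 5) (nat_lit 301) (nat_lit 5) (nat_lit 302) (nat_lit 5) (nat_lit 451) (nat_lit 419) (nat_lit 150)) (XT.lf (nat_lit 0) (nat_lit 14968642352) (nat_lit 608) (nat_lit 28243009750) (nat_lit 76) (nat_lit 27733411951) (nat_lit 294) (nat_lit 5) (nat_lit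 302) (nat_lit 5) (nat_lit 295) (nat_lit 5) (nat_lit 452) (nat_lit 419) (nat_lit 149))) (XT.nd (nat_lit 78) (nat_lit 0) (nat_lit 0) (XT.lf (nat_lit 0) (nat_lit 12816927298) (nat_lit 456) (nat_lit 13335507932) (nat_lit 532) (nat_lit 46012512913) (nat_lit 288) (nat_lit 5) (nat_lit 294) (nat_lit 5) (nat_lit 295) (nat_lit 5) (nat_lit 453) (nat_lit 419) (nat_lit 148)) (XT.lf (nat_lit 0) (nat_lit 38126729965) (nat_lit 532) (nat_lit 17896496338) (nat_lit 76) (nat_lit 17384552811) (nat_lit 288) (nat_lit 5) (nat_lit 295) (nat_lit 5) (nat_lit 289) (nat_lit 5) (nat_lit 454) (nat_lit 419) (nat_lit 147))))))))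
noncomputable def xc239 : XT := (XT.nd (nat_lit 51324) (nat_lit 0) (nat_lit 2964) (XT.nd (nat_lit 1170) (nat_lit 988) (nat_lit 0) (XT.nd (nat_lit 546) (nat_lit 1976) (nat_lit 0) (XT.nd (nat_lit 234) (nat_lit 836) (nat_lit 0) (XT.nd (nat_lit 78) (nat_lit 456) (nat_lit 0) (XT.lf (nat_lit 0) (nat_lit 25156657608) (nat_lit 456) (nat_lit 25676821700) (nat_lit 532) (nat_lit 23843218932) (nat_lit 282) (nat_lit 5) (nat_lit 288) (nat_lit 5) (nat_lit 289) (nat_lit 5) (nat_lit 455) (nat_lit 419) (nat_lit 146)) (XT.nd (nat_lit 78) (nat_lit 456) (nat_lit 0) (XT.lf (nat_lit 0) (nat_lit 64156957429) (nat_lit 532) (nat_lit 6166212039) (nat_lit 76) (nat_lit 5653449684) (nat_lit 282) (nat_lit 5) (nat_lit 289) (nat_lit 5) (nat_lit 283) (nat_lit 5) (nat_lit 456) (nat_lit 419) (nat_lit 145)) (XT.lf (nat_lit 0) (nat_lit 1188266208) (nat_lit 456) (nat_lit 38314176779) (nat_lit 76) (nat_lit 37793891442) (nat_lit 276) (nat_lit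 5) (nat_lit 282) (nat_lit 5) (nat_lit 277) (nat_lit 5) (nat_lit 457) (nat_lit 419) (nat_lit 144)))) (XT.nd (nat_lit 156) (nat_lit 380) (nat_lit 0) (XT.nd (nat_lit 78) (nat_lit 0) (nat_lit 0) (XT.lf (nat_lit 0) (nat_lit 6975307586) (nat_lit 456) (nat_lit 7502896790) (nat_lit 532) (nat_lit 64170045921) (nat_lit 270) (nat_lit 5) (nat_lit 276) (nat_lit 5) (nat_lit 277) (nat_lit 5) (nat_lit 458) (nat_lit 419) (nat_lit 143)) (XT.lf (nat_lit 0) (nat_lit 28801684426) (nat_lit 532) (nat_lit 25869550512) (nat_lit 76) (nat_lit 25350443390) (nat_lit 270) (nat_lit 5) (nat_lit 277) (nat_lit 5) (nat_lit 271) (nat_lit 5) (nat_lit 459) (nat_lit 419) (nat_lit 142))) (XT.nd (nat_lit 78) (nat_lit 0) (nat_lit 0) (XT.lf (nat_lit 0) (nat_lit 21655478460) (nat_lit 380) (nat_lit 22181269655) (nat_lit 456) (nat_lit 37591104710) (nat_lit 265) (nat_lit 5) (nat_lit 270) (nat_lit 5) (nat_lit 271) (nat_lit 5) (nat_lit 460) (nat_lit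 419) (nat_lit 141)) (XT.lf (nat_lit 0) (nat_lit 59694579930) (nat_lit 456) (nat_lit 11843629203) (nat_lit 76) (nat_lit 11326851935) (nat_lit 265) (nat_lit 5) (nat_lit 271) (nat_lit 5) (nat_lit 266) (nat_lit 5) (nat_lit 461) (nat_lit 419) (nat_lit 140))))) (XT.nd (nat_lit 312) (nat_lit 760) (nat_lit 0) (XT.nd (nat_lit 156) (nat_lit 380) (nat_lit 0) (XT.nd (nat_lit 78) (nat_lit 456) (nat_lit 0) (XT.lf (nat_lit 0) (nat_lit 38045016324) (nat_lit 380) (nat_lit 38567910465) (nat_lit 456) (nat_lit 7714915367) (nat_lit 260) (nat_lit 5) (nat_lit 265) (nat_lit 5) (nat_lit 266) (nat_lit 5) (nat_lit 462) (nat_lit 419) (nat_lit 139)) (XT.lf (nat_lit 0) (nat_lit 3836250932) (nat_lit 380) (nat_lit 4365083786) (nat_lit 456) (nat_lit 77626092618) (nat_lit 254) (nat_lit 5) (nat_lit 259) (nat_lit 5) (nat_lit 260) (nat_lit 5) (nat_lit 463) (nat_lit 419) (nat_lit 138))) (XT.nd (nat_lit 78) (nat_lit 380) (nat_lit 0) (XT.lf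 (nat_lit 0) (nat_lit 25208147335) (nat_lit 456) (nat_lit 31328772411) (nat_lit 76) (nat_lit 30809744651) (nat_lit 254) (nat_lit 5) (nat_lit 260) (nat_lit 5) (nat_lit 255) (nat_lit 5) (nat_lit 464) (nat_lit 419) (nat_lit 137)) (XT.lf (nat_lit 0) (nat_lit 21223706701) (nat_lit 380) (nat_lit 21748169224) (nat_lit 456) (nat_lit 45932201297) (nat_lit 249) (nat_lit 5) (nat_lit 254) (nat_lit 5) (nat_lit 255) (nat_lit 5) (nat_lit 465) (nat_lit 419) (nat_lit 136)))) (XT.nd (nat_lit 156) (nat_lit 456) (nat_lit 0) (XT.nd (nat_lit 78) (nat_lit 304) (nat_lit 0) (XT.lf (nat_lit 0) (nat_lit 61722878142) (nat_lit 456) (nat_lit 14643006568) (nat_lit 76) (nat_lit 14128696868) (nat_lit 249) (nat_lit 5) (nat_lit 255) (nat_lit 5) (nat_lit 250) (nat_lit 5) (nat_lit 466) (nat_lit 419) (nat_lit 135)) (XT.lf (nat_lit 0) (nat_lit 40560925487) (nat_lit 304) (nat_lit 41080208765) (nat_lit 380) (nat_lit 10473525098) (nat_lit 245)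 (nat_lit 5) (nat_lit 249) (nat_lit 5) (nat_lit 250) (nat_lit 5) (nat_lit 467) (nat_lit 419) (nat_lit 134))) (XT.nd (nat_lit 78) (nat_lit 0) (nat_lit 0) (XT.lf (nat_lit 0) (nat_lit 3936378991) (nat_lit 380) (nat_lit 4460490986) (nat_lit 456) (nat_lit 85378454600) (nat_lit 239) (nat_lit 5) (nat_lit 244) (nat_lit 5) (nat_lit 245) (nat_lit 5) (nat_lit 468) (nat_lit 419) (nat_lit 133)) (XT.lf (nat_lit 0) (nat_lit 28467817390) (nat_lit 456) (nat_lit 33751465554) (nat_lit 76) (nat_lit 33238067429) (nat_lit 239) (nat_lit 5) (nat_lit 245) (nat_lit 5) (nat_lit 240) (nat_lit 5) (nat_lit 469) (nat_lit 419) (nat_lit 132)))))) (XT.nd (nat_lit 49530) (nat_lit 0) (nat_lit 11400) (XT.nd (nat_lit 49218) (nat_lit 0) (nat_lit 11248) (XT.nd (nat_lit 156) (nat_lit 684) (nat_lit 0) (XT.nd (nat_lit 78) (nat_lit 0) (nat_lit 0) (XT.lf (nat_lit 0) (nat_lit 24450899118) (nat_lit 304) (nat_lit 24968716202) (nat_lit 380) (nat_lit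 47761859961) (nat_lit 235) (nat_lit 5) (nat_lit 239) (nat_lit 5) (nat_lit 240) (nat_lit 5) (nat_lit 470) (nat_lit 419) (nat_lit 131)) (XT.lf (nat_lit 0) (nat_lit 71472495139) (nat_lit 380) (nat_lit 13988776643) (nat_lit 76) (nat_lit 13481876316) (nat_lit 235) (nat_lit 5) (nat_lit 240) (nat_lit 5) (nat_lit 236) (nat_lit 5) (nat_lit 471) (nat_lit 419) (nat_lit 130))) (XT.nd (nat_lit 78) (nat_lit 380) (nat_lit 0) (XT.lf (nat_lit 0) (nat_lit 47188187241) (nat_lit 304) (nat_lit 47699131542) (nat_lit 380) (nat_lit 5849341593) (nat_lit 231) (nat_lit 5) (nat_lit 235) (nat_lit 5) (nat_lit 236) (nat_lit 5) (nat_lit 472) (nat_lit 419) (nat_lit 129)) (XT.lf (nat_lit 0) (nat_lit 7901735297) (nat_lit 304) (nat_lit 8416605786) (nat_lit 380) (nat_lit 86254356876) (nat_lit 226) (nat_lit 5) (nat_lit 230) (nat_lit 5) (nat_lit 231) (nat_lit 5) (nat_lit 473) (nat_lit 419) (nat_lit 128)))) (XT.nd (nat_lit 156) (nat_lit 0)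 (nat_lit 76) (XT.nd (nat_lit 78) (nat_lit 0) (nat_lit 0) (XT.lf (nat_lit 0) (nat_lit 13257537375) (nat_lit 1292) (nat_lit 4172825430) (nat_lit 1292) (nat_lit 4172825430) (nat_lit 374) (nat_lit 3) (nat_lit 391) (nat_lit 3) (nat_lit 391) (nat_lit 5) (nat_lit 420) (nat_lit 420) (nat_lit 180)) (XT.lf (nat_lit 76) (nat_lit 13521388364) (nat_lit 0) (nat_lit 13556376898) (nat_lit 1292) (nat_lit 16771757925) (nat_lit 375) (nat_lit 5) (nat_lit 374) (nat_lit 3) (nat_lit 391) (nat_lit 5) (nat_lit 421) (nat_lit 420) (nat_lit 179))) (XT.nd (nat_lit 78) (nat_lit 0) (nat_lit 0) (XT.lf (nat_lit 0) (nat_lit 27821701459) (nat_lit 1216) (nat_lit 8376140698) (nat_lit 1292) (nat_lit 8309191198) (nat_lit 375) (nat_lit 5) (nat_lit 391) (nat_lit 5) (nat_lit 392) (nat_lit 5) (nat_lit 422) (nat_lit 420) (nat_lit 178)) (XT.lf (nat_lit 76) (nat_lit 14380055956) (nat_lit 0) (nat_lit 14479024921) (nat_lit 1292) (nat_lit 16317054196)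 (nat_lit 376) (nat_lit 5) (nat_lit 375) (nat_lit 5) (nat_lit 392) (nat_lit 5) (nat_lit 423) (nat_lit 420) (nat_lit 177))))) (XT.nd (nat_lit 312) (nat_lit 0) (nat_lit 152) (XT.nd (nat_lit 156) (nat_lit 0) (nat_lit 76) (XT.nd (nat_lit 78) (nat_lit 0) (nat_lit 0) (XT.lf (nat_lit 0) (nat_lit 30087568908) (nat_lit 1216) (nat_lit 7949604554) (nat_lit 1292) (nat_lit 7823336765) (nat_lit 376) (nat_lit 5) (nat_lit 392) (nat_lit 5) (nat_lit 393) (nat_lit 5) (nat_lit 424) (nat_lit 420) (nat_lit 176)) (XT.lf (nat_lit 76) (nat_lit 15745400366) (nat_lit 0) (nat_lit 15900970502) (nat_lit 1292) (nat_lit 14910241989) (nat_lit 377) (nat_lit 5) (nat_lit 376) (nat_lit 5) (nat_lit 393) (nat_lit 5) (nat_lit 425) (nat_lit 420) (nat_lit 175))) (XT.nd (nat_lit 78) (nat_lit 0) (nat_lit 0) (XT.lf (nat_lit 0) (nat_lit 33398109575) (nat_lit 1216) (nat_lit 7024881524) (nat_lit 1292) (nat_lit 6846222285) (nat_lit 377) (nat_lit 5)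 (nat_lit 393) (nat_lit 5) (nat_lit 394) (nat_lit 5) (nat_lit 426) (nat_lit 420) (nat_lit 174)) (XT.lf (nat_lit 76) (nat_lit 17661475568) (nat_lit 0) (nat_lit 17866950604) (nat_lit 1292) (nat_lit 12464984983) (nat_lit 378) (nat_lit 5) (nat_lit 377) (nat_lit 5) (nat_lit 394) (nat_lit 5) (nat_lit 427) (nat_lit 420) (nat_lit 173)))) (XT.nd (nat_lit 156) (nat_lit 0) (nat_lit 76) (XT.nd (nat_lit 78) (nat_lit 0) (nat_lit 0) (XT.lf (nat_lit 0) (nat_lit 37844719631) (nat_lit 1216) (nat_lit 5557859998) (nat_lit 1292) (nat_lit 5333093210) (nat_lit 378) (nat_lit 5) (nat_lit 394) (nat_lit 5) (nat_lit 395) (nat_lit 5) (nat_lit 428) (nat_lit 420) (nat_lit 172)) (XT.lf (nat_lit 76) (nat_lit 20175458074) (nat_lit 0) (nat_lit 20424765116) (nat_lit 1292) (nat_lit 8888887544) (nat_lit 379) (nat_lit 5) (nat_lit 378) (nat_lit 5) (nat_lit 395) (nat_lit 5) (nat_lit 429) (nat_lit 420) (nat_lit 171))) (XT.nd (nat_lit 78) (nat_lit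 0) (nat_lit 0) (XT.lf (nat_lit 0) (nat_lit 43525149063) (nat_lit 1216) (nat_lit 3501288601) (nat_lit 1292) (nat_lit 3236111386) (nat_lit 379) (nat_lit 5) (nat_lit 395) (nat_lit 5) (nat_lit 396) (nat_lit 5) (nat_lit 430) (nat_lit 420) (nat_lit 170)) (XT.lf (nat_lit 76) (nat_lit 23337846373) (nat_lit 0) (nat_lit 23625481396) (nat_lit 1292) (nat_lit 4083097595) (nat_lit 380) (nat_lit 5) (nat_lit 379) (nat_lit 5) (nat_lit 396) (nat_lit 5) (nat_lit 431) (nat_lit 420) (nat_lit 169))))))) (XT.nd (nat_lit 1170) (nat_lit 4332) (nat_lit 0) (XT.nd (nat_lit 546) (nat_lit 2432) (nat_lit 0) (XT.nd (nat_lit 234) (nat_lit 684) (nat_lit 0) (XT.nd (nat_lit 78) (nat_lit 1292) (nat_lit 0) (XT.lf (nat_lit 0) (nat_lit 50543916018) (nat_lit 1216) (nat_lit 804574983) (nat_lit 1292) (nat_lit 504149041) (nat_lit 380) (nat_lit 5) (nat_lit 396) (nat_lit 5) (nat_lit 397) (nat_lit 5) (nat_lit 432) (nat_lit 420) (nat_lit 168)) (XT.nd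 (nat_lit 78) (nat_lit 0) (nat_lit 0) (XT.lf (nat_lit 0) (nat_lit 2017953952) (nat_lit 1292) (nat_lit 25485319820) (nat_lit 1368) (nat_lit 25164341801) (nat_lit 363) (nat_lit 5) (nat_lit 380) (nat_lit 5) (nat_lit 381) (nat_lit 5) (nat_lit 433) (nat_lit 420) (nat_lit 167)) (XT.lf (nat_lit 76) (nat_lit 2554483529) (nat_lit 0) (nat_lit 2895415019) (nat_lit 1368) (nat_lit 48055799983) (nat_lit 364) (nat_lit 5) (nat_lit 363) (nat_lit 5) (nat_lit 381) (nat_lit 5) (nat_lit 434) (nat_lit 420) (nat_lit 166)))) (XT.nd (nat_lit 156) (nat_lit 760) (nat_lit 0) (XT.nd (nat_lit 78) (nat_lit 0) (nat_lit 0) (XT.lf (nat_lit 0) (nat_lit 9459543972) (nat_lit 1292) (nat_lit 22622473619) (nat_lit 1368) (nat_lit 22272664111) (nat_lit 364) (nat_lit 5) (nat_lit 381) (nat_lit 5) (nat_lit 382) (nat_lit 5) (nat_lit 435) (nat_lit 420) (nat_lit 165)) (XT.lf (nat_lit 76) (nat_lit 6656562307) (nat_lit 0) (nat_lit 7024632068) (nat_lit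 1368) (nat_lit 41545188524) (nat_lit 365) (nat_lit 5) (nat_lit 364) (nat_lit 5) (nat_lit 382) (nat_lit 5) (nat_lit 436) (nat_lit 420) (nat_lit 164))) (XT.nd (nat_lit 78) (nat_lit 836) (nat_lit 0) (XT.lf (nat_lit 0) (nat_lit 18439848852) (nat_lit 1292) (nat_lit 19023318484) (nat_lit 76) (nat_lit 18648757161) (nat_lit 365) (nat_lit 5) (nat_lit 382) (nat_lit 5) (nat_lit 366) (nat_lit 5) (nat_lit 437) (nat_lit 420) (nat_lit 163)) (XT.lf (nat_lit 0) (nat_lit 11564909856) (nat_lit 836) (nat_lit 11956181897) (nat_lit 912) (nat_lit 33497545724) (nat_lit 354) (nat_lit 5) (nat_lit 365) (nat_lit 5) (nat_lit 366) (nat_lit 5) (nat_lit 438) (nat_lit 420) (nat_lit 162))))) (XT.nd (nat_lit 312) (nat_lit 1216) (nat_lit 0) (XT.nd (nat_lit 156) (nat_lit 608) (nat_lit 0) (XT.nd (nat_lit 78) (nat_lit 608) (nat_lit 0) (XT.lf (nat_lit 0) (nat_lit 29085514668) (nat_lit 912) (nat_lit 14626371060) (nat_lit 76) (nat_lit 14230743837)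 (nat_lit 354) (nat_lit 5) (nat_lit 366) (nat_lit 5) (nat_lit 355) (nat_lit 5) (nat_lit 439) (nat_lit 420) (nat_lit 161)) (XT.lf (nat_lit 0) (nat_lit 17345106925) (nat_lit 608) (nat_lit 17756026823) (nat_lit 684) (nat_lit 23784679764) (nat_lit 346) (nat_lit 5) (nat_lit 354) (nat_lit 5) (nat_lit 355) (nat_lit 5) (nat_lit 440) (nat_lit 420) (nat_lit 160))) (XT.nd (nat_lit 78) (nat_lit 608) (nat_lit 0) (XT.lf (nat_lit 0) (nat_lit 41531859639) (nat_lit 684) (nat_lit 9365880181) (nat_lit 76) (nat_lit 8952514011) (nat_lit 346) (nat_lit 5) (nat_lit 355) (nat_lit 5) (nat_lit 347) (nat_lit 5) (nat_lit 441) (nat_lit 420) (nat_lit 159)) (XT.lf (nat_lit 0) (nat_lit 24067246478) (nat_lit 608) (nat_lit 24494607612) (nat_lit 684) (nat_lit 12269582865) (nat_lit 338) (nat_lit 5) (nat_lit 346) (nat_lit 5) (nat_lit 347) (nat_lit 5) (nat_lit 442) (nat_lit 420) (nat_lit 158)))) (XT.nd (nat_lit 156) (nat_lit 608) (nat_lit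 0) (XT.nd (nat_lit 78) (nat_lit 608) (nat_lit 0) (XT.lf (nat_lit 0) (nat_lit 55923433394) (nat_lit 684) (nat_lit 3171553473) (nat_lit 76) (nat_lit 2743448155) (nat_lit 338) (nat_lit 5) (nat_lit 347) (nat_lit 5) (nat_lit 339) (nat_lit 5) (nat_lit 443) (nat_lit 420) (nat_lit 157)) (XT.lf (nat_lit 0) (nat_lit 1170836275) (nat_lit 608) (nat_lit 31064475099) (nat_lit 76) (nat_lit 30623562406) (nat_lit 330) (nat_lit 5) (nat_lit 338) (nat_lit 5) (nat_lit 331) (nat_lit 5) (nat_lit 444) (nat_lit 420) (nat_lit 156))) (XT.nd (nat_lit 78) (nat_lit 0) (nat_lit 0) (XT.lf (nat_lit 0) (nat_lit 3983446773) (nat_lit 608) (nat_lit 4436793810) (nat_lit 684) (nat_lit 55485831877) (nat_lit 322) (nat_lit 5) (nat_lit 330) (nat_lit 5) (nat_lit 331) (nat_lit 5) (nat_lit 445) (nat_lit 420) (nat_lit 155)) (XT.lf (nat_lit 0) (nat_lit 16435763221) (nat_lit 684) (nat_lit 24492164055) (nat_lit 76) (nat_lit 24040300739) (nat_lit 322)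 (nat_lit 5) (nat_lit 331) (nat_lit 5) (nat_lit 323) (nat_lit 5) (nat_lit 446) (nat_lit 420) (nat_lit 154)))))) (XT.nd (nat_lit 624) (nat_lit 1748) (nat_lit 0) (XT.nd (nat_lit 312) (nat_lit 1520) (nat_lit 0) (XT.nd (nat_lit 156) (nat_lit 532) (nat_lit 0) (XT.nd (nat_lit 78) (nat_lit 0) (nat_lit 0) (XT.lf (nat_lit 0) (nat_lit 12194468215) (nat_lit 532) (nat_lit 12657710717) (nat_lit 608) (nat_lit 41205256483) (nat_lit 315) (nat_lit 5) (nat_lit 322) (nat_lit 5) (nat_lit 323) (nat_lit 5) (nat_lit 447) (nat_lit 420) (nat_lit 153)) (XT.lf (nat_lit 0) (nat_lit 33928379349) (nat_lit 608) (nat_lit 16849598449) (nat_lit 76) (nat_lit 16389122473) (nat_lit 315) (nat_lit 5) (nat_lit 323) (nat_lit 5) (nat_lit 316) (nat_lit 5) (nat_lit 448) (nat_lit 420) (nat_lit 152))) (XT.nd (nat_lit 78) (nat_lit 0) (nat_lit 0) (XT.lf (nat_lit 0) (nat_lit 21568973047) (nat_lit 532) (nat_lit 22039862591) (nat_lit 608) (nat_lit 24691260337)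 (nat_lit 308) (nat_lit 5) (nat_lit 315) (nat_lit 5) (nat_lit 316) (nat_lit 5) (nat_lit 449) (nat_lit 420) (nat_lit 151)) (XT.lf (nat_lit 0) (nat_lit 53823537151) (nat_lit 608) (nat_lit 8051609777) (nat_lit 76) (nat_lit 7584619677) (nat_lit 308) (nat_lit 5) (nat_lit 316) (nat_lit 5) (nat_lit 309) (nat_lit 5) (nat_lit 450) (nat_lit 420) (nat_lit 150)))) (XT.nd (nat_lit 156) (nat_lit 456) (nat_lit 0) (XT.nd (nat_lit 78) (nat_lit 608) (nat_lit 0) (XT.lf (nat_lit 0) (nat_lit 32197611428) (nat_lit 456) (nat_lit 32674131418) (nat_lit 532) (nat_lit 5766672614) (nat_lit 302) (nat_lit 5) (nat_lit 308) (nat_lit 5) (nat_lit 309) (nat_lit 5) (nat_lit 451) (nat_lit 420) (nat_lit 149)) (XT.lf (nat_lit 0) (nat_lit 1963848077) (nat_lit 532) (nat_lit 2449620387) (nat_lit 608) (nat_lit 67434676630) (nat_lit 294) (nat_lit 5) (nat_lit 301) (nat_lit 5) (nat_lit 302) (nat_lit 5) (nat_lit 452) (nat_lit 420) (nat_lit 148)))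 (XT.nd (nat_lit 78) (nat_lit 456) (nat_lit 0) (XT.lf (nat_lit 0) (nat_lit 15450194573) (nat_lit 608) (nat_lit 29051295707) (nat_lit 76) (nat_lit 28570950907) (nat_lit 294) (nat_lit 5) (nat_lit 302) (nat_lit 5) (nat_lit 295) (nat_lit 5) (nat_lit 453) (nat_lit 420) (nat_lit 147)) (XT.lf (nat_lit 0) (nat_lit 13240057057) (nat_lit 456) (nat_lit 13728869041) (nat_lit 532) (nat_lit 47360012955) (nat_lit 288) (nat_lit 5) (nat_lit 294) (nat_lit 5) (nat_lit 295) (nat_lit 5) (nat_lit 454) (nat_lit 420) (nat_lit 146))))) (XT.nd (nat_lit 312) (nat_lit 836) (nat_lit 0) (XT.nd (nat_lit 156) (nat_lit 456) (nat_lit 0) (XT.nd (nat_lit 78) (nat_lit 456) (nat_lit 0) (XT.lf (nat_lit 0) (nat_lit 39301582597) (nat_lit 532) (nat_lit 18395027121) (nat_lit 76) (nat_lit 17912471247) (nat_lit 288) (nat_lit 5) (nat_lit 295) (nat_lit 5) (nat_lit 289) (nat_lit 5) (nat_lit 455) (nat_lit 420) (nat_lit 145)) (XT.lf (nat_lit 0) (nat_lit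 25949345324) (nat_lit 456) (nat_lit 26439649870) (nat_lit 532) (nat_lit 24527088648) (nat_lit 282) (nat_lit 5) (nat_lit 288) (nat_lit 5) (nat_lit 289) (nat_lit 5) (nat_lit 456) (nat_lit 420) (nat_lit 144))) (XT.nd (nat_lit 78) (nat_lit 456) (nat_lit 0) (XT.lf (nat_lit 0) (nat_lit 66111358749) (nat_lit 532) (nat_lit 6313497948) (nat_lit 76) (nat_lit 5830170251) (nat_lit 282) (nat_lit 5) (nat_lit 289) (nat_lit 5) (nat_lit 283) (nat_lit 5) (nat_lit 457) (nat_lit 420) (nat_lit 143)) (XT.lf (nat_lit 0) (nat_lit 1253389782) (nat_lit 456) (nat_lit 39425684621) (nat_lit 76) (nat_lit 38935265791) (nat_lit 276) (nat_lit 5) (nat_lit 282) (nat_lit 5) (nat_lit 277) (nat_lit 5) (nat_lit 458) (nat_lit 420) (nat_lit 142)))) (XT.nd (nat_lit 156) (nat_lit 380) (nat_lit 0) (XT.nd (nat_lit 78) (nat_lit 0) (nat_lit 0) (XT.lf (nat_lit 0) (nat_lit 7222112535) (nat_lit 456) (nat_lit 7719415960) (nat_lit 532) (nat_lit 66065299971)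 (nat_lit 270) (nat_lit 5) (nat_lit 276) (nat_lit 5) (nat_lit 277) (nat_lit 5) (nat_lit 459) (nat_lit 420) (nat_lit 141)) (XT.lf (nat_lit 0) (nat_lit 29693948887) (nat_lit 532) (nat_lit 26608420812) (nat_lit 76) (nat_lit 26119112562) (nat_lit 270) (nat_lit 5) (nat_lit 277) (nat_lit 5) (nat_lit 271) (nat_lit 5) (nat_lit 460) (nat_lit 420) (nat_lit 140))) (XT.nd (nat_lit 78) (nat_lit 0) (nat_lit 0) (XT.lf (nat_lit 0) (nat_lit 22341994165) (nat_lit 380) (nat_lit 22837602794) (nat_lit 456) (nat_lit 38690259058) (nat_lit 265) (nat_lit 5) (nat_lit 270) (nat_lit 5) (nat_lit 271) (nat_lit 5) (nat_lit 461) (nat_lit 420) (nat_lit 139)) (XT.lf (nat_lit 0) (nat_lit 61512440554) (nat_lit 456) (nat_lit 12162436894) (nat_lit 76) (nat_lit 11675324755) (nat_lit 265) (nat_lit 5) (nat_lit 271) (nat_lit 5) (nat_lit 266) (nat_lit 5) (nat_lit 462) (nat_lit 420) (nat_lit 138))))))))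
noncomputable def xc240 : XT := (XT.nd (nat_lit 51402) (nat_lit 0) (nat_lit 304) (XT.nd (nat_lit 50232) (nat_lit 0) (nat_lit 9044) (XT.nd (nat_lit 546) (nat_lit 304) (nat_lit 0) (XT.nd (nat_lit 234) (nat_lit 1140) (nat_lit 0) (XT.nd (nat_lit 78) (nat_lit 456) (nat_lit 0) (XT.lf (nat_lit 0) (nat_lit 39222510144) (nat_lit 380) (nat_lit 39715388023) (nat_lit 456) (nat_lit 7918981747) (nat_lit 260) (nat_lit 5) (nat_lit 265) (nat_lit 5) (nat_lit 266) (nat_lit 5) (nat_lit 463) (nat_lit 420) (nat_lit 137)) (XT.nd (nat_lit 78) (nat_lit 0) (nat_lit 0) (XT.lf (nat_lit 0) (nat_lit 3987656510) (nat_lit 380) (nat_lit 4486132194) (nat_lit 456) (nat_lit 79927669034) (nat_lit 254) (nat_lit 5) (nat_lit 259) (nat_lit 5) (nat_lit 260) (nat_lit 5) (nat_lit 464) (nat_lit 420) (nat_lit 136)) (XT.lf (nat_lit 0) (nat_lit 25990128793) (nat_lit 456) (nat_lit 32232698434) (nat_lit 76) (nat_lit 31743464991) (nat_lit 254) (nat_lit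 5) (nat_lit 260) (nat_lit 5) (nat_lit 255) (nat_lit 5) (nat_lit 465) (nat_lit 420) (nat_lit 135)))) (XT.nd (nat_lit 156) (nat_lit 760) (nat_lit 0) (XT.nd (nat_lit 78) (nat_lit 0) (nat_lit 0) (XT.lf (nat_lit 0) (nat_lit 21896002726) (nat_lit 380) (nat_lit 22390358954) (nat_lit 456) (nat_lit 47284077974) (nat_lit 249) (nat_lit 5) (nat_lit 254) (nat_lit 5) (nat_lit 255) (nat_lit 5) (nat_lit 466) (nat_lit 420) (nat_lit 134)) (XT.lf (nat_lit 0) (nat_lit 63599251922) (nat_lit 456) (nat_lit 15047106350) (nat_lit 76) (nat_lit 14562320130) (nat_lit 249) (nat_lit 5) (nat_lit 255) (nat_lit 5) (nat_lit 250) (nat_lit 5) (nat_lit 467) (nat_lit 420) (nat_lit 133))) (XT.nd (nat_lit 78) (nat_lit 456) (nat_lit 0) (XT.lf (nat_lit 0) (nat_lit 41812598663) (nat_lit 304) (nat_lit 42302072957) (nat_lit 380) (nat_lit 10762698411) (nat_lit 245) (nat_lit 5) (nat_lit 249) (nat_lit 5) (nat_lit 250) (nat_lit 5) (nat_lit 468) (nat_lit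 420) (nat_lit 132)) (XT.lf (nat_lit 0) (nat_lit 4089457835) (nat_lit 380) (nat_lit 4583483657) (nat_lit 456) (nat_lit 87914917860) (nat_lit 239) (nat_lit 5) (nat_lit 244) (nat_lit 5) (nat_lit 245) (nat_lit 5) (nat_lit 469) (nat_lit 420) (nat_lit 131))))) (XT.nd (nat_lit 49374) (nat_lit 0) (nat_lit 10564) (XT.nd (nat_lit 156) (nat_lit 0) (nat_lit 0) (XT.nd (nat_lit 78) (nat_lit 304) (nat_lit 0) (XT.lf (nat_lit 0) (nat_lit 29345414478) (nat_lit 456) (nat_lit 34729438251) (nat_lit 76) (nat_lit 34245511279) (nat_lit 239) (nat_lit 5) (nat_lit 245) (nat_lit 5) (nat_lit 240) (nat_lit 5) (nat_lit 470) (nat_lit 420) (nat_lit 130)) (XT.lf (nat_lit 0) (nat_lit 25218658427) (nat_lit 304) (nat_lit 25706750693) (nat_lit 380) (nat_lit 49170814260) (nat_lit 235) (nat_lit 5) (nat_lit 239) (nat_lit 5) (nat_lit 240) (nat_lit 5) (nat_lit 471) (nat_lit 420) (nat_lit 129))) (XT.nd (nat_lit 49140) (nat_lit 0) (nat_lit 10564)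 (XT.lf (nat_lit 0) (nat_lit 73639302360) (nat_lit 380) (nat_lit 14374631692) (nat_lit 76) (nat_lit 13896829518) (nat_lit 235) (nat_lit 5) (nat_lit 240) (nat_lit 5) (nat_lit 236) (nat_lit 5) (nat_lit 472) (nat_lit 420) (nat_lit 128)) (XT.lf (nat_lit 0) (nat_lit 13689915699) (nat_lit 1292) (nat_lit 4280164309) (nat_lit 1292) (nat_lit 4280164309) (nat_lit 374) (nat_lit 3) (nat_lit 391) (nat_lit 3) (nat_lit 391) (nat_lit 5) (nat_lit 421) (nat_lit 421) (nat_lit 178)))) (XT.nd (nat_lit 156) (nat_lit 0) (nat_lit 76) (XT.nd (nat_lit 78) (nat_lit 0) (nat_lit 76) (XT.lf (nat_lit 76) (nat_lit 13962371864) (nat_lit 0) (nat_lit 13995351913) (nat_lit 1292) (nat_lit 17205256338) (nat_lit 375) (nat_lit 5) (nat_lit 374) (nat_lit 3) (nat_lit 391) (nat_lit 5) (nat_lit 422) (nat_lit 421) (nat_lit 177)) (XT.lf (nat_lit 0) (nat_lit 28721707092) (nat_lit 1216) (nat_lit 8590841475) (nat_lit 1292) (nat_lit 8527735151) (nat_lit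 375) (nat_lit 5) (nat_lit 391) (nat_lit 5) (nat_lit 392) (nat_lit 5) (nat_lit 423) (nat_lit 421) (nat_lit 176))) (XT.nd (nat_lit 78) (nat_lit 0) (nat_lit 76) (XT.lf (nat_lit 76) (nat_lit 14847682417) (nat_lit 0) (nat_lit 14940970158) (nat_lit 1292) (nat_lit 16740852572) (nat_lit 376) (nat_lit 5) (nat_lit 375) (nat_lit 5) (nat_lit 392) (nat_lit 5) (nat_lit 424) (nat_lit 421) (nat_lit 175)) (XT.lf (nat_lit 0) (nat_lit 31051879674) (nat_lit 1216) (nat_lit 8150807425) (nat_lit 1292) (nat_lit 8031787923) (nat_lit 376) (nat_lit 5) (nat_lit 392) (nat_lit 5) (nat_lit 393) (nat_lit 5) (nat_lit 425) (nat_lit 421) (nat_lit 174)))))) (XT.nd (nat_lit 546) (nat_lit 1672) (nat_lit 0) (XT.nd (nat_lit 234) (nat_lit 0) (nat_lit 152) (XT.nd (nat_lit 78) (nat_lit 0) (nat_lit 76) (XT.lf (nat_lit 76) (nat_lit 16254682100) (nat_lit 0) (nat_lit 16401321874) (nat_lit 1292) (nat_lit 15295500008) (nat_lit 377) (nat_lit 5) (nat_lit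 376) (nat_lit 5) (nat_lit 393) (nat_lit 5) (nat_lit 426) (nat_lit 421) (nat_lit 173)) (XT.nd (nat_lit 78) (nat_lit 0) (nat_lit 0) (XT.lf (nat_lit 0) (nat_lit 34458322565) (nat_lit 1216) (nat_lit 7197811298) (nat_lit 1292) (nat_lit 7029407831) (nat_lit 377) (nat_lit 5) (nat_lit 393) (nat_lit 5) (nat_lit 394) (nat_lit 5) (nat_lit 427) (nat_lit 421) (nat_lit 172)) (XT.lf (nat_lit 76) (nat_lit 18228765754) (nat_lit 0) (nat_lit 18422445683) (nat_lit 1292) (nat_lit 12780294079) (nat_lit 378) (nat_lit 5) (nat_lit 377) (nat_lit 5) (nat_lit 394) (nat_lit 5) (nat_lit 428) (nat_lit 421) (nat_lit 171)))) (XT.nd (nat_lit 156) (nat_lit 0) (nat_lit 76) (XT.nd (nat_lit 78) (nat_lit 0) (nat_lit 0) (XT.lf (nat_lit 0) (nat_lit 39035153611) (nat_lit 1216) (nat_lit 5686400448) (nat_lit 1292) (nat_lit 5474536193) (nat_lit 378) (nat_lit 5) (nat_lit 394) (nat_lit 5) (nat_lit 395) (nat_lit 5) (nat_lit 429) (nat_lit 421) (nat_lit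 170)) (XT.lf (nat_lit 76) (nat_lit 20818542702) (nat_lit 0) (nat_lit 21053538499) (nat_lit 1292) (nat_lit 9100087316) (nat_lit 379) (nat_lit 5) (nat_lit 378) (nat_lit 5) (nat_lit 395) (nat_lit 5) (nat_lit 430) (nat_lit 421) (nat_lit 169))) (XT.nd (nat_lit 78) (nat_lit 0) (nat_lit 0) (XT.lf (nat_lit 0) (nat_lit 44883036760) (nat_lit 1216) (nat_lit 3567889861) (nat_lit 1292) (nat_lit 3317934904) (nat_lit 379) (nat_lit 5) (nat_lit 395) (nat_lit 5) (nat_lit 396) (nat_lit 5) (nat_lit 431) (nat_lit 421) (nat_lit 168)) (XT.lf (nat_lit 76) (nat_lit 24076042324) (nat_lit 0) (nat_lit 24347165920) (nat_lit 1292) (nat_lit 4153080461) (nat_lit 380) (nat_lit 5) (nat_lit 379) (nat_lit 5) (nat_lit 396) (nat_lit 5) (nat_lit 432) (nat_lit 421) (nat_lit 167))))) (XT.nd (nat_lit 312) (nat_lit 684) (nat_lit 0) (XT.nd (nat_lit 156) (nat_lit 0) (nat_lit 0) (XT.nd (nat_lit 78) (nat_lit 1292) (nat_lit 0) (XT.lf (nat_lit 0)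 (nat_lit 52109608690) (nat_lit 1216) (nat_lit 790154781) (nat_lit 1292) (nat_lit 506974517) (nat_lit 380) (nat_lit 5) (nat_lit 396) (nat_lit 5) (nat_lit 397) (nat_lit 5) (nat_lit 433) (nat_lit 421) (nat_lit 166)) (XT.lf (nat_lit 0) (nat_lit 2127274912) (nat_lit 1292) (nat_lit 26210729113) (nat_lit 1368) (nat_lit 25908176546) (nat_lit 363) (nat_lit 5) (nat_lit 380) (nat_lit 5) (nat_lit 381) (nat_lit 5) (nat_lit 434) (nat_lit 421) (nat_lit 165))) (XT.nd (nat_lit 78) (nat_lit 0) (nat_lit 76) (XT.lf (nat_lit 76) (nat_lit 2669884510) (nat_lit 0) (nat_lit 2991245138) (nat_lit 1368) (nat_lit 49448307814) (nat_lit 364) (nat_lit 5) (nat_lit 363) (nat_lit 5) (nat_lit 381) (nat_lit 5) (nat_lit 435) (nat_lit 421) (nat_lit 164)) (XT.lf (nat_lit 0) (nat_lit 9789590428) (nat_lit 1292) (nat_lit 23262036466) (nat_lit 1368) (nat_lit 22932307455) (nat_lit 364) (nat_lit 5) (nat_lit 381) (nat_lit 5) (nat_lit 382) (nat_lit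 5) (nat_lit 436) (nat_lit 421) (nat_lit 163)))) (XT.nd (nat_lit 156) (nat_lit 760) (nat_lit 0) (XT.nd (nat_lit 78) (nat_lit 0) (nat_lit 76) (XT.lf (nat_lit 76) (nat_lit 6894987093) (nat_lit 0) (nat_lit 7241928144) (nat_lit 1368) (nat_lit 42744900598) (nat_lit 365) (nat_lit 5) (nat_lit 364) (nat_lit 5) (nat_lit 382) (nat_lit 5) (nat_lit 437) (nat_lit 421) (nat_lit 162)) (XT.lf (nat_lit 0) (nat_lit 19036949171) (nat_lit 1292) (nat_lit 19555037942) (nat_lit 76) (nat_lit 19201977972) (nat_lit 365) (nat_lit 5) (nat_lit 382) (nat_lit 5) (nat_lit 366) (nat_lit 5) (nat_lit 438) (nat_lit 421) (nat_lit 161))) (XT.nd (nat_lit 78) (nat_lit 0) (nat_lit 0) (XT.lf (nat_lit 0) (nat_lit 11950455089) (nat_lit 836) (nat_lit 12319266515) (nat_lit 912) (nat_lit 34458185084) (nat_lit 354) (nat_lit 5) (nat_lit 365) (nat_lit 5) (nat_lit 366) (nat_lit 5) (nat_lit 439) (nat_lit 421) (nat_lit 160)) (XT.lf (nat_lit 0) (nat_lit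 29999783809) (nat_lit 912) (nat_lit 15026395068) (nat_lit 76) (nat_lit 14653478465) (nat_lit 354) (nat_lit 5) (nat_lit 366) (nat_lit 5) (nat_lit 355) (nat_lit 5) (nat_lit 440) (nat_lit 421) (nat_lit 159))))))) (XT.nd (nat_lit 1170) (nat_lit 3724) (nat_lit 0) (XT.nd (nat_lit 546) (nat_lit 2584) (nat_lit 0) (XT.nd (nat_lit 234) (nat_lit 1216) (nat_lit 0) (XT.nd (nat_lit 78) (nat_lit 608) (nat_lit 0) (XT.lf (nat_lit 0) (nat_lit 17903847187) (nat_lit 608) (nat_lit 18291178603) (nat_lit 684) (nat_lit 24456136387) (nat_lit 346) (nat_lit 5) (nat_lit 354) (nat_lit 5) (nat_lit 355) (nat_lit 5) (nat_lit 441) (nat_lit 421) (nat_lit 158)) (XT.nd (nat_lit 78) (nat_lit 608) (nat_lit 0) (XT.lf (nat_lit 0) (nat_lit 42817460357) (nat_lit 684) (nat_lit 9608374501) (nat_lit 76) (nat_lit 9218737240) (nat_lit 346) (nat_lit 5) (nat_lit 355) (nat_lit 5) (nat_lit 347) (nat_lit 5) (nat_lit 442) (nat_lit 421) (nat_lit 157))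 (XT.lf (nat_lit 0) (nat_lit 24827368682) (nat_lit 608) (nat_lit 25230197539) (nat_lit 684) (nat_lit 12597648147) (nat_lit 338) (nat_lit 5) (nat_lit 346) (nat_lit 5) (nat_lit 347) (nat_lit 5) (nat_lit 443) (nat_lit 421) (nat_lit 156)))) (XT.nd (nat_lit 156) (nat_lit 608) (nat_lit 0) (XT.nd (nat_lit 78) (nat_lit 608) (nat_lit 0) (XT.lf (nat_lit 0) (nat_lit 57638854146) (nat_lit 684) (nat_lit 3228566358) (nat_lit 76) (nat_lit 2825036036) (nat_lit 338) (nat_lit 5) (nat_lit 347) (nat_lit 5) (nat_lit 339) (nat_lit 5) (nat_lit 444) (nat_lit 421) (nat_lit 155)) (XT.lf (nat_lit 0) (nat_lit 1243309669) (nat_lit 608) (nat_lit 31957906188) (nat_lit 76) (nat_lit 31542303687) (nat_lit 330) (nat_lit 5) (nat_lit 338) (nat_lit 5) (nat_lit 331) (nat_lit 5) (nat_lit 445) (nat_lit 421) (nat_lit 154))) (XT.nd (nat_lit 78) (nat_lit 0) (nat_lit 0) (XT.lf (nat_lit 0) (nat_lit 4141075859) (nat_lit 608) (nat_lit 4568398921)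 (nat_lit 684) (nat_lit 57112681046) (nat_lit 322) (nat_lit 5) (nat_lit 330) (nat_lit 5) (nat_lit 331) (nat_lit 5) (nat_lit 446) (nat_lit 421) (nat_lit 153)) (XT.lf (nat_lit 0) (nat_lit 16964410278) (nat_lit 684) (nat_lit 25188860933) (nat_lit 76) (nat_lit 24762936420) (nat_lit 322) (nat_lit 5) (nat_lit 331) (nat_lit 5) (nat_lit 323) (nat_lit 5) (nat_lit 447) (nat_lit 421) (nat_lit 152))))) (XT.nd (nat_lit 312) (nat_lit 1520) (nat_lit 0) (XT.nd (nat_lit 156) (nat_lit 532) (nat_lit 0) (XT.nd (nat_lit 78) (nat_lit 0) (nat_lit 0) (XT.lf (nat_lit 0) (nat_lit 12597997089) (nat_lit 532) (nat_lit 13034647577) (nat_lit 608) (nat_lit 42405466801) (nat_lit 315) (nat_lit 5) (nat_lit 322) (nat_lit 5) (nat_lit 323) (nat_lit 5) (nat_lit 448) (nat_lit 421) (nat_lit 151)) (XT.lf (nat_lit 0) (nat_lit 34980140659) (nat_lit 608) (nat_lit 17317499047) (nat_lit 76) (nat_lit 16883456275) (nat_lit 315) (nat_lit 5) (nat_lit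 323) (nat_lit 5) (nat_lit 316) (nat_lit 5) (nat_lit 449) (nat_lit 421) (nat_lit 150))) (XT.nd (nat_lit 78) (nat_lit 0) (nat_lit 0) (XT.lf (nat_lit 0) (nat_lit 22253261091) (nat_lit 532) (nat_lit 22697119649) (nat_lit 608) (nat_lit 25397719714) (nat_lit 308) (nat_lit 5) (nat_lit 315) (nat_lit 5) (nat_lit 316) (nat_lit 5) (nat_lit 450) (nat_lit 421) (nat_lit 149)) (XT.lf (nat_lit 0) (nat_lit 55470590736) (nat_lit 608) (nat_lit 8256090701) (nat_lit 76) (nat_lit 7815907742) (nat_lit 308) (nat_lit 5) (nat_lit 316) (nat_lit 5) (nat_lit 309) (nat_lit 5) (nat_lit 451) (nat_lit 421) (nat_lit 148)))) (XT.nd (nat_lit 156) (nat_lit 456) (nat_lit 0) (XT.nd (nat_lit 78) (nat_lit 608) (nat_lit 0) (XT.lf (nat_lit 0) (nat_lit 33200243735) (nat_lit 456) (nat_lit 33649409528) (nat_lit 532) (nat_lit 5906961917) (nat_lit 302) (nat_lit 5) (nat_lit 308) (nat_lit 5) (nat_lit 309) (nat_lit 5) (nat_lit 452) (nat_lit 421) (nat_lit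 147)) (XT.lf (nat_lit 0) (nat_lit 2059739690) (nat_lit 532) (nat_lit 2517626682) (nat_lit 608) (nat_lit 69425278259) (nat_lit 294) (nat_lit 5) (nat_lit 301) (nat_lit 5) (nat_lit 302) (nat_lit 5) (nat_lit 453) (nat_lit 421) (nat_lit 146))) (XT.nd (nat_lit 78) (nat_lit 456) (nat_lit 0) (XT.lf (nat_lit 0) (nat_lit 15944328132) (nat_lit 608) (nat_lit 29886069251) (nat_lit 76) (nat_lit 29433298207) (nat_lit 294) (nat_lit 5) (nat_lit 302) (nat_lit 5) (nat_lit 295) (nat_lit 5) (nat_lit 454) (nat_lit 421) (nat_lit 145)) (XT.lf (nat_lit 0) (nat_lit 13673663652) (nat_lit 456) (nat_lit 14134415828) (nat_lit 532) (nat_lit 48749825177) (nat_lit 288) (nat_lit 5) (nat_lit 294) (nat_lit 5) (nat_lit 295) (nat_lit 5) (nat_lit 455) (nat_lit 421) (nat_lit 144)))))) (XT.nd (nat_lit 624) (nat_lit 1976) (nat_lit 0) (XT.nd (nat_lit 312) (nat_lit 836) (nat_lit 0) (XT.nd (nat_lit 156) (nat_lit 456) (nat_lit 0) (XT.nd (nat_lit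 78) (nat_lit 456) (nat_lit 0) (XT.lf (nat_lit 0) (nat_lit 40509898369) (nat_lit 532) (nat_lit 18910716084) (nat_lit 76) (nat_lit 18455860892) (nat_lit 288) (nat_lit 5) (nat_lit 295) (nat_lit 5) (nat_lit 289) (nat_lit 5) (nat_lit 456) (nat_lit 421) (nat_lit 143)) (XT.lf (nat_lit 0) (nat_lit 26763633006) (nat_lit 456) (nat_lit 27225792065) (nat_lit 532) (nat_lit 25233278485) (nat_lit 282) (nat_lit 5) (nat_lit 288) (nat_lit 5) (nat_lit 289) (nat_lit 5) (nat_lit 457) (nat_lit 421) (nat_lit 142))) (XT.nd (nat_lit 78) (nat_lit 456) (nat_lit 0) (XT.lf (nat_lit 0) (nat_lit 68122687633) (nat_lit 532) (nat_lit 6467366596) (nat_lit 76) (nat_lit 6011783885) (nat_lit 282) (nat_lit 5) (nat_lit 289) (nat_lit 5) (nat_lit 283) (nat_lit 5) (nat_lit 458) (nat_lit 421) (nat_lit 141)) (XT.lf (nat_lit 0) (nat_lit 1318775044) (nat_lit 456) (nat_lit 40572714316) (nat_lit 76) (nat_lit 40110447533) (nat_lit 276) (nat_lit 5)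 (nat_lit 282) (nat_lit 5) (nat_lit 277) (nat_lit 5) (nat_lit 459) (nat_lit 421) (nat_lit 140)))) (XT.nd (nat_lit 156) (nat_lit 380) (nat_lit 0) (XT.nd (nat_lit 78) (nat_lit 0) (nat_lit 0) (XT.lf (nat_lit 0) (nat_lit 7474166354) (nat_lit 456) (nat_lit 7942922528) (nat_lit 532) (nat_lit 68019125001) (nat_lit 270) (nat_lit 5) (nat_lit 276) (nat_lit 5) (nat_lit 277) (nat_lit 5) (nat_lit 460) (nat_lit 421) (nat_lit 139)) (XT.lf (nat_lit 0) (nat_lit 30611361687) (nat_lit 532) (nat_lit 27371593583) (nat_lit 76) (nat_lit 26910373628) (nat_lit 270) (nat_lit 5) (nat_lit 277) (nat_lit 5) (nat_lit 271) (nat_lit 5) (nat_lit 461) (nat_lit 421) (nat_lit 138))) (XT.nd (nat_lit 78) (nat_lit 0) (nat_lit 0) (XT.lf (nat_lit 0) (nat_lit 23046989923) (nat_lit 380) (nat_lit 23514148589) (nat_lit 456) (nat_lit 39824028576) (nat_lit 265) (nat_lit 5) (nat_lit 270) (nat_lit 5) (nat_lit 271) (nat_lit 5) (nat_lit 462) (nat_lit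 421) (nat_lit 137)) (XT.lf (nat_lit 0) (nat_lit 63383285754) (nat_lit 456) (nat_lit 12492904132) (nat_lit 76) (nat_lit 12033754223) (nat_lit 265) (nat_lit 5) (nat_lit 271) (nat_lit 5) (nat_lit 266) (nat_lit 5) (nat_lit 463) (nat_lit 421) (nat_lit 136))))) (XT.nd (nat_lit 312) (nat_lit 760) (nat_lit 0) (XT.nd (nat_lit 156) (nat_lit 380) (nat_lit 0) (XT.nd (nat_lit 78) (nat_lit 456) (nat_lit 0) (XT.lf (nat_lit 0) (nat_lit 40433254004) (nat_lit 380) (nat_lit 40897838676) (nat_lit 456) (nat_lit 8130741904) (nat_lit 260) (nat_lit 5) (nat_lit 265) (nat_lit 5) (nat_lit 266) (nat_lit 5) (nat_lit 464) (nat_lit 421) (nat_lit 135)) (XT.lf (nat_lit 0) (nat_lit 4141519450) (nat_lit 380) (nat_lit 4611380591) (nat_lit 456) (nat_lit 82299854499) (nat_lit 254) (nat_lit 5) (nat_lit 259) (nat_lit 5) (nat_lit 260) (nat_lit 5) (nat_lit 465) (nat_lit 421) (nat_lit 134))) (XT.nd (nat_lit 78) (nat_lit 380) (nat_lit 0) (XT.lf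 (nat_lit 0) (nat_lit 26794092283) (nat_lit 456) (nat_lit 33165805177) (nat_lit 76) (nat_lit 32704655735) (nat_lit 254) (nat_lit 5) (nat_lit 260) (nat_lit 5) (nat_lit 255) (nat_lit 5) (nat_lit 466) (nat_lit 421) (nat_lit 133)) (XT.lf (nat_lit 0) (nat_lit 22586424917) (nat_lit 380) (nat_lit 23052403076) (nat_lit 456) (nat_lit 48678008587) (nat_lit 249) (nat_lit 5) (nat_lit 254) (nat_lit 5) (nat_lit 255) (nat_lit 5) (nat_lit 467) (nat_lit 421) (nat_lit 132)))) (XT.nd (nat_lit 156) (nat_lit 456) (nat_lit 0) (XT.nd (nat_lit 78) (nat_lit 304) (nat_lit 0) (XT.lf (nat_lit 0) (nat_lit 65530499755) (nat_lit 456) (nat_lit 15465349199) (nat_lit 76) (nat_lit 15008391692) (nat_lit 249) (nat_lit 5) (nat_lit 255) (nat_lit 5) (nat_lit 250) (nat_lit 5) (nat_lit 468) (nat_lit 421) (nat_lit 131)) (XT.lf (nat_lit 0) (nat_lit 43099821765) (nat_lit 304) (nat_lit 43561198232) (nat_lit 380) (nat_lit 11061983888) (nat_lit 245)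 (nat_lit 5) (nat_lit 249) (nat_lit 5) (nat_lit 250) (nat_lit 5) (nat_lit 469) (nat_lit 421) (nat_lit 130))) (XT.nd (nat_lit 78) (nat_lit 0) (nat_lit 0) (XT.lf (nat_lit 0) (nat_lit 4245120619) (nat_lit 380) (nat_lit 4710787338) (nat_lit 456) (nat_lit 90528903828) (nat_lit 239) (nat_lit 5) (nat_lit 244) (nat_lit 5) (nat_lit 245) (nat_lit 5) (nat_lit 470) (nat_lit 421) (nat_lit 129)) (XT.lf (nat_lit 0) (nat_lit 30247986891) (nat_lit 456) (nat_lit 35738734661) (nat_lit 76) (nat_lit 35282587077) (nat_lit 239) (nat_lit 5) (nat_lit 245) (nat_lit 5) (nat_lit 240) (nat_lit 5) (nat_lit 471) (nat_lit 421) (nat_lit 128))))))))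
noncomputable def xc241 : XT := (XT.nd (nat_lit 51480) (nat_lit 0) (nat_lit 304) (XT.nd (nat_lit 50310) (nat_lit 0) (nat_lit 6080) (XT.nd (nat_lit 49686) (nat_lit 0) (nat_lit 9728) (XT.nd (nat_lit 49374) (nat_lit 0) (nat_lit 10640) (XT.nd (nat_lit 49218) (nat_lit 0) (nat_lit 10564) (XT.lf (nat_lit 0) (nat_lit 26007485440) (nat_lit 304) (nat_lit 26467559212) (nat_lit 380) (nat_lit 50623409231) (nat_lit 235) (nat_lit 5) (nat_lit 239) (nat_lit 5) (nat_lit 240) (nat_lit 5) (nat_lit 472) (nat_lit 421) (nat_lit 127)) (XT.nd (nat_lit 78) (nat_lit 0) (nat_lit 0) (XT.lf (nat_lit 0) (nat_lit 14133276194) (nat_lit 1292) (nat_lit 4391747780) (nat_lit 1292) (nat_lit 4391747780) (nat_lit 374) (nat_lit 3) (nat_lit 391) (nat_lit 3) (nat_lit 391) (nat_lit 5) (nat_lit 422) (nat_lit 422) (nat_lit 176)) (XT.lf (nat_lit 76) (nat_lit 14414556103) (nat_lit 0) (nat_lit 14445642962) (nat_lit 1292) (nat_lit 17655758147) (nat_lit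 375) (nat_lit 5) (nat_lit 374) (nat_lit 3) (nat_lit 391) (nat_lit 5) (nat_lit 423) (nat_lit 422) (nat_lit 175)))) (XT.nd (nat_lit 156) (nat_lit 0) (nat_lit 76) (XT.nd (nat_lit 78) (nat_lit 0) (nat_lit 0) (XT.lf (nat_lit 0) (nat_lit 29644961273) (nat_lit 1216) (nat_lit 8814083315) (nat_lit 1292) (nat_lit 8754599552) (nat_lit 375) (nat_lit 5) (nat_lit 391) (nat_lit 5) (nat_lit 392) (nat_lit 5) (nat_lit 424) (nat_lit 422) (nat_lit 174)) (XT.lf (nat_lit 76) (nat_lit 15327258222) (nat_lit 0) (nat_lit 15415190865) (nat_lit 1292) (nat_lit 17181137107) (nat_lit 376) (nat_lit 5) (nat_lit 375) (nat_lit 5) (nat_lit 392) (nat_lit 5) (nat_lit 425) (nat_lit 422) (nat_lit 173))) (XT.nd (nat_lit 78) (nat_lit 0) (nat_lit 0) (XT.lf (nat_lit 0) (nat_lit 32041578866) (nat_lit 1216) (nat_lit 8360186709) (nat_lit 1292) (nat_lit 8247999414) (nat_lit 376) (nat_lit 5) (nat_lit 392) (nat_lit 5) (nat_lit 393) (nat_lit 5) (nat_lit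 426) (nat_lit 422) (nat_lit 172)) (XT.lf (nat_lit 76) (nat_lit 16777122944) (nat_lit 0) (nat_lit 16915344995) (nat_lit 1292) (nat_lit 15695877648) (nat_lit 377) (nat_lit 5) (nat_lit 376) (nat_lit 5) (nat_lit 393) (nat_lit 5) (nat_lit 427) (nat_lit 422) (nat_lit 171))))) (XT.nd (nat_lit 312) (nat_lit 1064) (nat_lit 0) (XT.nd (nat_lit 156) (nat_lit 0) (nat_lit 76) (XT.nd (nat_lit 78) (nat_lit 0) (nat_lit 0) (XT.lf (nat_lit 0) (nat_lit 35546997025) (nat_lit 1216) (nat_lit 7378099798) (nat_lit 1292) (nat_lit 7219363379) (nat_lit 377) (nat_lit 5) (nat_lit 393) (nat_lit 5) (nat_lit 394) (nat_lit 5) (nat_lit 428) (nat_lit 422) (nat_lit 170)) (XT.lf (nat_lit 76) (nat_lit 18810925097) (nat_lit 0) (nat_lit 18993487005) (nat_lit 1292) (nat_lit 13108428649) (nat_lit 378) (nat_lit 5) (nat_lit 377) (nat_lit 5) (nat_lit 394) (nat_lit 5) (nat_lit 429) (nat_lit 422) (nat_lit 169))) (XT.nd (nat_lit 78) (nat_lit 0) (nat_lit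 0) (XT.lf (nat_lit 0) (nat_lit 40258138082) (nat_lit 1216) (nat_lit 5820989681) (nat_lit 1292) (nat_lit 5621287301) (nat_lit 378) (nat_lit 5) (nat_lit 394) (nat_lit 5) (nat_lit 395) (nat_lit 5) (nat_lit 430) (nat_lit 422) (nat_lit 168)) (XT.lf (nat_lit 76) (nat_lit 21478748795) (nat_lit 0) (nat_lit 21700254872) (nat_lit 1292) (nat_lit 9320807104) (nat_lit 379) (nat_lit 5) (nat_lit 378) (nat_lit 5) (nat_lit 395) (nat_lit 5) (nat_lit 431) (nat_lit 422) (nat_lit 167)))) (XT.nd (nat_lit 156) (nat_lit 1216) (nat_lit 0) (XT.nd (nat_lit 78) (nat_lit 0) (nat_lit 0) (XT.lf (nat_lit 0) (nat_lit 46278668427) (nat_lit 1216) (nat_lit 3638695624) (nat_lit 1292) (nat_lit 3403089103) (nat_lit 379) (nat_lit 5) (nat_lit 395) (nat_lit 5) (nat_lit 396) (nat_lit 5) (nat_lit 432) (nat_lit 422) (nat_lit 166)) (XT.lf (nat_lit 76) (nat_lit 24834199322) (nat_lit 0) (nat_lit 25089759315) (nat_lit 1292) (nat_lit 4228177105) (nat_lit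 380) (nat_lit 5) (nat_lit 379) (nat_lit 5) (nat_lit 396) (nat_lit 5) (nat_lit 433) (nat_lit 422) (nat_lit 165))) (XT.nd (nat_lit 78) (nat_lit 1292) (nat_lit 0) (XT.lf (nat_lit 0) (nat_lit 53719437804) (nat_lit 1216) (nat_lit 777515328) (nat_lit 1292) (nat_lit 510590769) (nat_lit 380) (nat_lit 5) (nat_lit 396) (nat_lit 5) (nat_lit 397) (nat_lit 5) (nat_lit 434) (nat_lit 422) (nat_lit 164)) (XT.lf (nat_lit 0) (nat_lit 2237075194) (nat_lit 1292) (nat_lit 26960148072) (nat_lit 1368) (nat_lit 26674963260) (nat_lit 363) (nat_lit 5) (nat_lit 380) (nat_lit 5) (nat_lit 381) (nat_lit 5) (nat_lit 435) (nat_lit 422) (nat_lit 163)))))) (XT.nd (nat_lit 546) (nat_lit 2356) (nat_lit 0) (XT.nd (nat_lit 234) (nat_lit 1292) (nat_lit 0) (XT.nd (nat_lit 78) (nat_lit 0) (nat_lit 76) (XT.lf (nat_lit 76) (nat_lit 2786522166) (nat_lit 0) (nat_lit 3089435379) (nat_lit 1368) (nat_lit 50885413220) (nat_lit 364) (nat_lit 5) (nat_lit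 363) (nat_lit 5) (nat_lit 381) (nat_lit 5) (nat_lit 436) (nat_lit 422) (nat_lit 162)) (XT.nd (nat_lit 78) (nat_lit 0) (nat_lit 0) (XT.lf (nat_lit 0) (nat_lit 10126882756) (nat_lit 1292) (nat_lit 23923031351) (nat_lit 1368) (nat_lit 23612230134) (nat_lit 364) (nat_lit 5) (nat_lit 381) (nat_lit 5) (nat_lit 382) (nat_lit 5) (nat_lit 437) (nat_lit 422) (nat_lit 161)) (XT.lf (nat_lit 76) (nat_lit 7138341481) (nat_lit 0) (nat_lit 7465366697) (nat_lit 1368) (nat_lit 43983281567) (nat_lit 365) (nat_lit 5) (nat_lit 364) (nat_lit 5) (nat_lit 382) (nat_lit 5) (nat_lit 438) (nat_lit 422) (nat_lit 160)))) (XT.nd (nat_lit 156) (nat_lit 608) (nat_lit 0) (XT.nd (nat_lit 78) (nat_lit 836) (nat_lit 0) (XT.lf (nat_lit 0) (nat_lit 19649442182) (nat_lit 1292) (nat_lit 20104946602) (nat_lit 76) (nat_lit 19772153718) (nat_lit 365) (nat_lit 5) (nat_lit 382) (nat_lit 5) (nat_lit 366) (nat_lit 5) (nat_lit 439) (nat_lit 422)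 (nat_lit 159)) (XT.lf (nat_lit 0) (nat_lit 12345351000) (nat_lit 836) (nat_lit 12692991142) (nat_lit 912) (nat_lit 35450185880) (nat_lit 354) (nat_lit 5) (nat_lit 365) (nat_lit 5) (nat_lit 366) (nat_lit 5) (nat_lit 440) (nat_lit 422) (nat_lit 158))) (XT.nd (nat_lit 78) (nat_lit 608) (nat_lit 0) (XT.lf (nat_lit 0) (nat_lit 30939087060) (nat_lit 912) (nat_lit 15440645187) (nat_lit 76) (nat_lit 15089135523) (nat_lit 354) (nat_lit 5) (nat_lit 366) (nat_lit 5) (nat_lit 355) (nat_lit 5) (nat_lit 441) (nat_lit 422) (nat_lit 157)) (XT.lf (nat_lit 0) (nat_lit 18477146084) (nat_lit 608) (nat_lit 18842243091) (nat_lit 684) (nat_lit 25150152489) (nat_lit 346) (nat_lit 5) (nat_lit 354) (nat_lit 5) (nat_lit 355) (nat_lit 5) (nat_lit 442) (nat_lit 422) (nat_lit 156))))) (XT.nd (nat_lit 312) (nat_lit 1140) (nat_lit 0) (XT.nd (nat_lit 156) (nat_lit 608) (nat_lit 0) (XT.nd (nat_lit 78) (nat_lit 608) (nat_lit 0) (XT.lf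 (nat_lit 0) (nat_lit 44139353316) (nat_lit 684) (nat_lit 9860352680) (nat_lit 76) (nat_lit 9493082191) (nat_lit 346) (nat_lit 5) (nat_lit 355) (nat_lit 5) (nat_lit 347) (nat_lit 5) (nat_lit 443) (nat_lit 422) (nat_lit 155)) (XT.lf (nat_lit 0) (nat_lit 25608107181) (nat_lit 608) (nat_lit 25987812014) (nat_lit 684) (nat_lit 12937852825) (nat_lit 338) (nat_lit 5) (nat_lit 346) (nat_lit 5) (nat_lit 347) (nat_lit 5) (nat_lit 444) (nat_lit 422) (nat_lit 154))) (XT.nd (nat_lit 78) (nat_lit 608) (nat_lit 0) (XT.lf (nat_lit 0) (nat_lit 59403572368) (nat_lit 684) (nat_lit 3289478661) (nat_lit 76) (nat_lit 2909112630) (nat_lit 338) (nat_lit 5) (nat_lit 347) (nat_lit 5) (nat_lit 339) (nat_lit 5) (nat_lit 445) (nat_lit 422) (nat_lit 153)) (XT.lf (nat_lit 0) (nat_lit 1315813320) (nat_lit 608) (nat_lit 32880350448) (nat_lit 76) (nat_lit 32488605232) (nat_lit 330) (nat_lit 5) (nat_lit 338) (nat_lit 5) (nat_lit 331)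 (nat_lit 5) (nat_lit 446) (nat_lit 422) (nat_lit 152)))) (XT.nd (nat_lit 156) (nat_lit 532) (nat_lit 0) (XT.nd (nat_lit 78) (nat_lit 0) (nat_lit 0) (XT.lf (nat_lit 0) (nat_lit 4301245246) (nat_lit 608) (nat_lit 4704038217) (nat_lit 684) (nat_lit 58790501304) (nat_lit 322) (nat_lit 5) (nat_lit 330) (nat_lit 5) (nat_lit 331) (nat_lit 5) (nat_lit 447) (nat_lit 422) (nat_lit 151)) (XT.lf (nat_lit 0) (nat_lit 17506874645) (nat_lit 684) (nat_lit 25908643979) (nat_lit 76) (nat_lit 25507169275) (nat_lit 322) (nat_lit 5) (nat_lit 331) (nat_lit 5) (nat_lit 323) (nat_lit 5) (nat_lit 448) (nat_lit 422) (nat_lit 150))) (XT.nd (nat_lit 78) (nat_lit 0) (nat_lit 0) (XT.lf (nat_lit 0) (nat_lit 13011467992) (nat_lit 532) (nat_lit 13423052955) (nat_lit 608) (nat_lit 43643746956) (nat_lit 315) (nat_lit 5) (nat_lit 322) (nat_lit 5) (nat_lit 323) (nat_lit 5) (nat_lit 449) (nat_lit 422) (nat_lit 149)) (XT.lf (nat_lit 0) (nat_lit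 36061508240) (nat_lit 608) (nat_lit 17801594330) (nat_lit 76) (nat_lit 17392467389) (nat_lit 315) (nat_lit 5) (nat_lit 323) (nat_lit 5) (nat_lit 316) (nat_lit 5) (nat_lit 450) (nat_lit 422) (nat_lit 148))))))) (XT.nd (nat_lit 1170) (nat_lit 1596) (nat_lit 0) (XT.nd (nat_lit 546) (nat_lit 2128) (nat_lit 0) (XT.nd (nat_lit 234) (nat_lit 1064) (nat_lit 0) (XT.nd (nat_lit 78) (nat_lit 456) (nat_lit 0) (XT.lf (nat_lit 0) (nat_lit 22955941262) (nat_lit 532) (nat_lit 23374320522) (nat_lit 608) (nat_lit 26127340595) (nat_lit 308) (nat_lit 5) (nat_lit 315) (nat_lit 5) (nat_lit 316) (nat_lit 5) (nat_lit 451) (nat_lit 422) (nat_lit 147)) (XT.nd (nat_lit 78) (nat_lit 456) (nat_lit 0) (XT.lf (nat_lit 0) (nat_lit 57165199052) (nat_lit 608) (nat_lit 8468833871) (nat_lit 76) (nat_lit 8053919215) (nat_lit 308) (nat_lit 5) (nat_lit 316) (nat_lit 5) (nat_lit 309) (nat_lit 5) (nat_lit 452) (nat_lit 422) (nat_lit 146))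 (XT.lf (nat_lit 0) (nat_lit 34230848054) (nat_lit 456) (nat_lit 34654229893) (nat_lit 532) (nat_lit 6053337636) (nat_lit 302) (nat_lit 5) (nat_lit 308) (nat_lit 5) (nat_lit 309) (nat_lit 5) (nat_lit 453) (nat_lit 422) (nat_lit 145)))) (XT.nd (nat_lit 156) (nat_lit 456) (nat_lit 0) (XT.nd (nat_lit 78) (nat_lit 0) (nat_lit 0) (XT.lf (nat_lit 0) (nat_lit 2156385468) (nat_lit 532) (nat_lit 2587987873) (nat_lit 608) (nat_lit 71477460049) (nat_lit 294) (nat_lit 5) (nat_lit 301) (nat_lit 5) (nat_lit 302) (nat_lit 5) (nat_lit 454) (nat_lit 422) (nat_lit 144)) (XT.lf (nat_lit 0) (nat_lit 16451527541) (nat_lit 608) (nat_lit 30747996482) (nat_lit 76) (nat_lit 30321216348) (nat_lit 294) (nat_lit 5) (nat_lit 302) (nat_lit 5) (nat_lit 295) (nat_lit 5) (nat_lit 455) (nat_lit 422) (nat_lit 143))) (XT.nd (nat_lit 78) (nat_lit 0) (nat_lit 0) (XT.lf (nat_lit 0) (nat_lit 14118188655) (nat_lit 456) (nat_lit 14552491771)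 (nat_lit 532) (nat_lit 50183110614) (nat_lit 288) (nat_lit 5) (nat_lit 294) (nat_lit 5) (nat_lit 295) (nat_lit 5) (nat_lit 456) (nat_lit 422) (nat_lit 142)) (XT.lf (nat_lit 0) (nat_lit 41752783495) (nat_lit 532) (nat_lit 19443951555) (nat_lit 76) (nat_lit 19015206911) (nat_lit 288) (nat_lit 5) (nat_lit 295) (nat_lit 5) (nat_lit 289) (nat_lit 5) (nat_lit 457) (nat_lit 422) (nat_lit 141))))) (XT.nd (nat_lit 312) (nat_lit 760) (nat_lit 0) (XT.nd (nat_lit 156) (nat_lit 912) (nat_lit 0) (XT.nd (nat_lit 78) (nat_lit 0) (nat_lit 0) (XT.lf (nat_lit 0) (nat_lit 27600293832) (nat_lit 456) (nat_lit 28035923070) (nat_lit 532) (nat_lit 25962354489) (nat_lit 282) (nat_lit 5) (nat_lit 288) (nat_lit 5) (nat_lit 289) (nat_lit 5) (nat_lit 458) (nat_lit 422) (nat_lit 140)) (XT.lf (nat_lit 0) (nat_lit 70192749750) (nat_lit 532) (nat_lit 6627891231) (nat_lit 76) (nat_lit 6198460832) (nat_lit 282) (nat_lit 5) (nat_lit 289)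 (nat_lit 5) (nat_lit 283) (nat_lit 5) (nat_lit 459) (nat_lit 422) (nat_lit 139))) (XT.nd (nat_lit 78) (nat_lit 456) (nat_lit 0) (XT.lf (nat_lit 0) (nat_lit 1384526973) (nat_lit 456) (nat_lit 41756206573) (nat_lit 76) (nat_lit 41320475794) (nat_lit 276) (nat_lit 5) (nat_lit 282) (nat_lit 5) (nat_lit 277) (nat_lit 5) (nat_lit 460) (nat_lit 422) (nat_lit 138)) (XT.lf (nat_lit 0) (nat_lit 7731750232) (nat_lit 456) (nat_lit 8173597884) (nat_lit 532) (nat_lit 70033179788) (nat_lit 270) (nat_lit 5) (nat_lit 276) (nat_lit 5) (nat_lit 277) (nat_lit 5) (nat_lit 461) (nat_lit 422) (nat_lit 137)))) (XT.nd (nat_lit 156) (nat_lit 380) (nat_lit 0) (XT.nd (nat_lit 78) (nat_lit 380) (nat_lit 0) (XT.lf (nat_lit 0) (nat_lit 31554770248) (nat_lit 532) (nat_lit 28159675264) (nat_lit 76) (nat_lit 27724931222) (nat_lit 270) (nat_lit 5) (nat_lit 277) (nat_lit 5) (nat_lit 271) (nat_lit 5) (nat_lit 462) (nat_lit 422) (nat_lit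 136)) (XT.lf (nat_lit 0) (nat_lit 23771141569) (nat_lit 380) (nat_lit 24211483417) (nat_lit 456) (nat_lit 40993357546) (nat_lit 265) (nat_lit 5) (nat_lit 270) (nat_lit 5) (nat_lit 271) (nat_lit 5) (nat_lit 463) (nat_lit 422) (nat_lit 135))) (XT.nd (nat_lit 78) (nat_lit 380) (nat_lit 0) (XT.lf (nat_lit 0) (nat_lit 65308794114) (nat_lit 456) (nat_lit 12835260426) (nat_lit 76) (nat_lit 12402467600) (nat_lit 265) (nat_lit 5) (nat_lit 271) (nat_lit 5) (nat_lit 266) (nat_lit 5) (nat_lit 464) (nat_lit 422) (nat_lit 134)) (XT.lf (nat_lit 0) (nat_lit 41678364506) (nat_lit 380) (nat_lit 42116280117) (nat_lit 456) (nat_lit 8350336425) (nat_lit 260) (nat_lit 5) (nat_lit 265) (nat_lit 5) (nat_lit 266) (nat_lit 5) (nat_lit 465) (nat_lit 422) (nat_lit 133)))))) (XT.nd (nat_lit 49842) (nat_lit 0) (nat_lit 10260) (XT.nd (nat_lit 312) (nat_lit 760) (nat_lit 0) (XT.nd (nat_lit 156) (nat_lit 380) (nat_lit 0) (XT.nd (nat_lit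 78) (nat_lit 0) (nat_lit 0) (XT.lf (nat_lit 0) (nat_lit 4298033150) (nat_lit 380) (nat_lit 4740922339) (nat_lit 456) (nat_lit 84744677633) (nat_lit 254) (nat_lit 5) (nat_lit 259) (nat_lit 5) (nat_lit 260) (nat_lit 5) (nat_lit 466) (nat_lit 422) (nat_lit 132)) (XT.lf (nat_lit 0) (nat_lit 27620782076) (nat_lit 456) (nat_lit 34128849641) (nat_lit 76) (nat_lit 33694172063) (nat_lit 254) (nat_lit 5) (nat_lit 260) (nat_lit 5) (nat_lit 255) (nat_lit 5) (nat_lit 467) (nat_lit 422) (nat_lit 131))) (XT.nd (nat_lit 78) (nat_lit 0) (nat_lit 0) (XT.lf (nat_lit 0) (nat_lit 23295634320) (nat_lit 380) (nat_lit 23734863426) (nat_lit 456) (nat_lit 50115168784) (nat_lit 249) (nat_lit 5) (nat_lit 254) (nat_lit 5) (nat_lit 255) (nat_lit 5) (nat_lit 468) (nat_lit 422) (nat_lit 130)) (XT.lf (nat_lit 0) (nat_lit 67518349215) (nat_lit 456) (nat_lit 15898043447) (nat_lit 76) (nat_lit 15467317170) (nat_lit 249) (nat_lit 5) (nat_lit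 255) (nat_lit 5) (nat_lit 250) (nat_lit 5) (nat_lit 469) (nat_lit 422) (nat_lit 129)))) (XT.nd (nat_lit 156) (nat_lit 0) (nat_lit 0) (XT.nd (nat_lit 78) (nat_lit 456) (nat_lit 0) (XT.lf (nat_lit 0) (nat_lit 44423776114) (nat_lit 304) (nat_lit 44858667685) (nat_lit 380) (nat_lit 11371602406) (nat_lit 245) (nat_lit 5) (nat_lit 249) (nat_lit 5) (nat_lit 250) (nat_lit 5) (nat_lit 470) (nat_lit 422) (nat_lit 128)) (XT.lf (nat_lit 0) (nat_lit 4403560155) (nat_lit 380) (nat_lit 4842495699) (nat_lit 456) (nat_lit 93222656165) (nat_lit 239) (nat_lit 5) (nat_lit 244) (nat_lit 5) (nat_lit 245) (nat_lit 5) (nat_lit 471) (nat_lit 422) (nat_lit 127))) (XT.nd (nat_lit 49296) (nat_lit 0) (nat_lit 10260) (XT.lf (nat_lit 0) (nat_lit 31176361532) (nat_lit 456) (nat_lit 36780180576) (nat_lit 76) (nat_lit 36350217729) (nat_lit 239) (nat_lit 5) (nat_lit 245) (nat_lit 5) (nat_lit 240) (nat_lit 5) (nat_lit 472) (nat_lit 422)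 (nat_lit 126)) (XT.lf (nat_lit 0) (nat_lit 14588062513) (nat_lit 1292) (nat_lit 4507644377) (nat_lit 1292) (nat_lit 4507644377) (nat_lit 374) (nat_lit 3) (nat_lit 391) (nat_lit 3) (nat_lit 391) (nat_lit 5) (nat_lit 423) (nat_lit 423) (nat_lit 174))))) (XT.nd (nat_lit 312) (nat_lit 0) (nat_lit 152) (XT.nd (nat_lit 156) (nat_lit 0) (nat_lit 76) (XT.nd (nat_lit 78) (nat_lit 0) (nat_lit 76) (XT.lf (nat_lit 76) (nat_lit 14878393562) (nat_lit 0) (nat_lit 14907695908) (nat_lit 1292) (nat_lit 18123543926) (nat_lit 375) (nat_lit 5) (nat_lit 374) (nat_lit 3) (nat_lit 391) (nat_lit 5) (nat_lit 424) (nat_lit 423) (nat_lit 173)) (XT.lf (nat_lit 0) (nat_lit 30592376818) (nat_lit 1216) (nat_lit 9046001898) (nat_lit 1292) (nat_lit 8989932747) (nat_lit 375) (nat_lit 5) (nat_lit 391) (nat_lit 5) (nat_lit 392) (nat_lit 5) (nat_lit 425) (nat_lit 423) (nat_lit 172))) (XT.nd (nat_lit 78) (nat_lit 0) (nat_lit 76) (XT.lf (nat_lit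 76) (nat_lit 15819261218) (nat_lit 0) (nat_lit 15902146168) (nat_lit 1292) (nat_lit 17638185849) (nat_lit 376) (nat_lit 5) (nat_lit 375) (nat_lit 5) (nat_lit 392) (nat_lit 5) (nat_lit 426) (nat_lit 423) (nat_lit 171)) (XT.lf (nat_lit 0) (nat_lit 33057631400) (nat_lit 1216) (nat_lit 8577864835) (nat_lit 1292) (nat_lit 8472117549) (nat_lit 376) (nat_lit 5) (nat_lit 392) (nat_lit 5) (nat_lit 393) (nat_lit 5) (nat_lit 427) (nat_lit 423) (nat_lit 170)))) (XT.nd (nat_lit 156) (nat_lit 0) (nat_lit 76) (XT.nd (nat_lit 78) (nat_lit 0) (nat_lit 76) (XT.lf (nat_lit 76) (nat_lit 17313239329) (nat_lit 0) (nat_lit 17443526868) (nat_lit 1292) (nat_lit 16111624031) (nat_lit 377) (nat_lit 5) (nat_lit 376) (nat_lit 5) (nat_lit 393) (nat_lit 5) (nat_lit 428) (nat_lit 423) (nat_lit 169)) (XT.lf (nat_lit 0) (nat_lit 36665178811) (nat_lit 1216) (nat_lit 7565843170) (nat_lit 1292) (nat_lit 7416218870) (nat_lit 377) (nat_lit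 5) (nat_lit 393) (nat_lit 5) (nat_lit 394) (nat_lit 5) (nat_lit 429) (nat_lit 423) (nat_lit 168))) (XT.nd (nat_lit 78) (nat_lit 0) (nat_lit 76) (XT.lf (nat_lit 76) (nat_lit 19408523064) (nat_lit 0) (nat_lit 19580605172) (nat_lit 1292) (nat_lit 13449580225) (nat_lit 378) (nat_lit 5) (nat_lit 377) (nat_lit 5) (nat_lit 394) (nat_lit 5) (nat_lit 430) (nat_lit 423) (nat_lit 167)) (XT.lf (nat_lit 0) (nat_lit 41514831100) (nat_lit 1216) (nat_lit 5961683298) (nat_lit 1292) (nat_lit 5773444651) (nat_lit 378) (nat_lit 5) (nat_lit 394) (nat_lit 5) (nat_lit 395) (nat_lit 5) (nat_lit 431) (nat_lit 423) (nat_lit 166))))))))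
noncomputable def xc242 : XT := (XT.nd (nat_lit 2340) (nat_lit 2356) (nat_lit 0) (XT.nd (nat_lit 1170) (nat_lit 4712) (nat_lit 0) (XT.nd (nat_lit 546) (nat_lit 1900) (nat_lit 0) (XT.nd (nat_lit 234) (nat_lit 1140) (nat_lit 0) (XT.nd (nat_lit 78) (nat_lit 0) (nat_lit 76) (XT.lf (nat_lit 76) (nat_lit 22156714626) (nat_lit 0) (nat_lit 22365505348) (nat_lit 1292) (nat_lit 9551149735) (nat_lit 379) (nat_lit 5) (nat_lit 378) (nat_lit 5) (nat_lit 395) (nat_lit 5) (nat_lit 432) (nat_lit 423) (nat_lit 165)) (XT.nd (nat_lit 78) (nat_lit 0) (nat_lit 0) (XT.lf (nat_lit 0) (nat_lit 47713348175) (nat_lit 1216) (nat_lit 3713705363) (nat_lit 1292) (nat_lit 3491623620) (nat_lit 379) (nat_lit 5) (nat_lit 395) (nat_lit 5) (nat_lit 396) (nat_lit 5) (nat_lit 433) (nat_lit 423) (nat_lit 164)) (XT.lf (nat_lit 76) (nat_lit 25613041617) (nat_lit 0) (nat_lit 25853931420) (nat_lit 1292) (nat_lit 4308367909) (nat_lit 380) (nat_lit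 5) (nat_lit 379) (nat_lit 5) (nat_lit 396) (nat_lit 5) (nat_lit 434) (nat_lit 423) (nat_lit 163)))) (XT.nd (nat_lit 156) (nat_lit 0) (nat_lit 0) (XT.nd (nat_lit 78) (nat_lit 1292) (nat_lit 0) (XT.lf (nat_lit 0) (nat_lit 55374890156) (nat_lit 1216) (nat_lit 766582991) (nat_lit 1292) (nat_lit 514980995) (nat_lit 380) (nat_lit 5) (nat_lit 396) (nat_lit 5) (nat_lit 397) (nat_lit 5) (nat_lit 435) (nat_lit 423) (nat_lit 162)) (XT.lf (nat_lit 0) (nat_lit 2347529929) (nat_lit 1292) (nat_lit 27734167978) (nat_lit 1368) (nat_lit 27465353941) (nat_lit 363) (nat_lit 5) (nat_lit 380) (nat_lit 5) (nat_lit 381) (nat_lit 5) (nat_lit 436) (nat_lit 423) (nat_lit 161))) (XT.nd (nat_lit 78) (nat_lit 0) (nat_lit 76) (XT.lf (nat_lit 76) (nat_lit 2904561342) (nat_lit 0) (nat_lit 3190086098) (nat_lit 1368) (nat_lit 52368292114) (nat_lit 364) (nat_lit 5) (nat_lit 363) (nat_lit 5) (nat_lit 381) (nat_lit 5) (nat_lit 437) (nat_lit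 423) (nat_lit 160)) (XT.lf (nat_lit 0) (nat_lit 10471790771) (nat_lit 1292) (nat_lit 24605972353) (nat_lit 1368) (nat_lit 24313012397) (nat_lit 364) (nat_lit 5) (nat_lit 381) (nat_lit 5) (nat_lit 382) (nat_lit 5) (nat_lit 438) (nat_lit 423) (nat_lit 159))))) (XT.nd (nat_lit 312) (nat_lit 1216) (nat_lit 0) (XT.nd (nat_lit 156) (nat_lit 760) (nat_lit 0) (XT.nd (nat_lit 78) (nat_lit 0) (nat_lit 76) (XT.lf (nat_lit 76) (nat_lit 7386900978) (nat_lit 0) (nat_lit 7695153609) (nat_lit 1368) (nat_lit 45261337796) (nat_lit 365) (nat_lit 5) (nat_lit 364) (nat_lit 5) (nat_lit 382) (nat_lit 5) (nat_lit 439) (nat_lit 423) (nat_lit 158)) (XT.lf (nat_lit 0) (nat_lit 20277934341) (nat_lit 1292) (nat_lit 20673461690) (nat_lit 76) (nat_lit 20359772479) (nat_lit 365) (nat_lit 5) (nat_lit 382) (nat_lit 5) (nat_lit 366) (nat_lit 5) (nat_lit 440) (nat_lit 423) (nat_lit 157))) (XT.nd (nat_lit 78) (nat_lit 0) (nat_lit 0) (XT.lf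 (nat_lit 0) (nat_lit 12750005298) (nat_lit 836) (nat_lit 13077689473) (nat_lit 912) (nat_lit 36474343021) (nat_lit 354) (nat_lit 5) (nat_lit 365) (nat_lit 5) (nat_lit 366) (nat_lit 5) (nat_lit 441) (nat_lit 423) (nat_lit 156)) (XT.lf (nat_lit 0) (nat_lit 31904312869) (nat_lit 912) (nat_lit 15869420454) (nat_lit 76) (nat_lit 15538088883) (nat_lit 354) (nat_lit 5) (nat_lit 366) (nat_lit 5) (nat_lit 355) (nat_lit 5) (nat_lit 442) (nat_lit 423) (nat_lit 155)))) (XT.nd (nat_lit 156) (nat_lit 608) (nat_lit 0) (XT.nd (nat_lit 78) (nat_lit 0) (nat_lit 0) (XT.lf (nat_lit 0) (nat_lit 19065566867) (nat_lit 608) (nat_lit 19409705813) (nat_lit 684) (nat_lit 25867266179) (nat_lit 346) (nat_lit 5) (nat_lit 354) (nat_lit 5) (nat_lit 355) (nat_lit 5) (nat_lit 443) (nat_lit 423) (nat_lit 154)) (XT.lf (nat_lit 0) (nat_lit 45498757921) (nat_lit 684) (nat_lit 10121972426) (nat_lit 76) (nat_lit 9775784766) (nat_lit 346)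 (nat_lit 5) (nat_lit 355) (nat_lit 5) (nat_lit 347) (nat_lit 5) (nat_lit 444) (nat_lit 423) (nat_lit 153))) (XT.nd (nat_lit 78) (nat_lit 0) (nat_lit 0) (XT.lf (nat_lit 0) (nat_lit 26410206027) (nat_lit 608) (nat_lit 26768114249) (nat_lit 684) (nat_lit 13290429200) (nat_lit 338) (nat_lit 5) (nat_lit 346) (nat_lit 5) (nat_lit 347) (nat_lit 5) (nat_lit 445) (nat_lit 423) (nat_lit 152)) (XT.lf (nat_lit 0) (nat_lit 61219191272) (nat_lit 684) (nat_lit 3354281705) (nat_lit 76) (nat_lit 2995750240) (nat_lit 338) (nat_lit 5) (nat_lit 347) (nat_lit 5) (nat_lit 339) (nat_lit 5) (nat_lit 446) (nat_lit 423) (nat_lit 151)))))) (XT.nd (nat_lit 546) (nat_lit 2432) (nat_lit 0) (XT.nd (nat_lit 234) (nat_lit 1064) (nat_lit 0) (XT.nd (nat_lit 78) (nat_lit 608) (nat_lit 0) (XT.lf (nat_lit 0) (nat_lit 1388471206) (nat_lit 608) (nat_lit 33832551399) (nat_lit 76) (nat_lit 33463293960) (nat_lit 330) (nat_lit 5) (nat_lit 338)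 (nat_lit 5) (nat_lit 331) (nat_lit 5) (nat_lit 447) (nat_lit 423) (nat_lit 150)) (XT.nd (nat_lit 78) (nat_lit 0) (nat_lit 0) (XT.lf (nat_lit 0) (nat_lit 4464156779) (nat_lit 608) (nat_lit 4843827785) (nat_lit 684) (nat_lit 60520697469) (nat_lit 322) (nat_lit 5) (nat_lit 330) (nat_lit 5) (nat_lit 331) (nat_lit 5) (nat_lit 448) (nat_lit 423) (nat_lit 149)) (XT.lf (nat_lit 0) (nat_lit 18063688065) (nat_lit 684) (nat_lit 26652080334) (nat_lit 76) (nat_lit 26273651921) (nat_lit 322) (nat_lit 5) (nat_lit 331) (nat_lit 5) (nat_lit 323) (nat_lit 5) (nat_lit 449) (nat_lit 423) (nat_lit 148)))) (XT.nd (nat_lit 156) (nat_lit 532) (nat_lit 0) (XT.nd (nat_lit 78) (nat_lit 0) (nat_lit 0) (XT.lf (nat_lit 0) (nat_lit 13435303398) (nat_lit 532) (nat_lit 13823261701) (nat_lit 608) (nat_lit 44921120586) (nat_lit 315) (nat_lit 5) (nat_lit 322) (nat_lit 5) (nat_lit 323) (nat_lit 5) (nat_lit 450) (nat_lit 423) (nat_lit 147))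 (XT.lf (nat_lit 0) (nat_lit 37173482020) (nat_lit 608) (nat_lit 18302246281) (nat_lit 76) (nat_lit 17916604901) (nat_lit 315) (nat_lit 5) (nat_lit 323) (nat_lit 5) (nat_lit 316) (nat_lit 5) (nat_lit 451) (nat_lit 423) (nat_lit 146))) (XT.nd (nat_lit 78) (nat_lit 0) (nat_lit 0) (XT.lf (nat_lit 0) (nat_lit 23677687968) (nat_lit 532) (nat_lit 24072050547) (nat_lit 608) (nat_lit 26880704869) (nat_lit 308) (nat_lit 5) (nat_lit 315) (nat_lit 5) (nat_lit 316) (nat_lit 5) (nat_lit 452) (nat_lit 423) (nat_lit 145)) (XT.lf (nat_lit 0) (nat_lit 58908895332) (nat_lit 608) (nat_lit 8689965009) (nat_lit 76) (nat_lit 8298868152) (nat_lit 308) (nat_lit 5) (nat_lit 316) (nat_lit 5) (nat_lit 309) (nat_lit 5) (nat_lit 453) (nat_lit 423) (nat_lit 144))))) (XT.nd (nat_lit 312) (nat_lit 912) (nat_lit 0) (XT.nd (nat_lit 156) (nat_lit 456) (nat_lit 0) (XT.nd (nat_lit 78) (nat_lit 608) (nat_lit 0) (XT.lf (nat_lit 0) (nat_lit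 35290384492) (nat_lit 456) (nat_lit 35689462482) (nat_lit 532) (nat_lit 6205874576) (nat_lit 302) (nat_lit 5) (nat_lit 308) (nat_lit 5) (nat_lit 309) (nat_lit 5) (nat_lit 454) (nat_lit 423) (nat_lit 143)) (XT.lf (nat_lit 0) (nat_lit 2253929881) (nat_lit 532) (nat_lit 2660756542) (nat_lit 608) (nat_lit 73592962513) (nat_lit 294) (nat_lit 5) (nat_lit 301) (nat_lit 5) (nat_lit 302) (nat_lit 5) (nat_lit 455) (nat_lit 423) (nat_lit 142))) (XT.nd (nat_lit 78) (nat_lit 456) (nat_lit 0) (XT.lf (nat_lit 0) (nat_lit 16972285702) (nat_lit 608) (nat_lit 31637770859) (nat_lit 76) (nat_lit 31235489651) (nat_lit 294) (nat_lit 5) (nat_lit 302) (nat_lit 5) (nat_lit 295) (nat_lit 5) (nat_lit 456) (nat_lit 423) (nat_lit 141)) (XT.lf (nat_lit 0) (nat_lit 14574079581) (nat_lit 456) (nat_lit 14983451922) (nat_lit 532) (nat_lit 51661071348) (nat_lit 288) (nat_lit 5) (nat_lit 294) (nat_lit 5) (nat_lit 295) (nat_lit 5) (nat_lit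 457) (nat_lit 423) (nat_lit 140)))) (XT.nd (nat_lit 156) (nat_lit 456) (nat_lit 0) (XT.nd (nat_lit 78) (nat_lit 456) (nat_lit 0) (XT.lf (nat_lit 0) (nat_lit 43031371500) (nat_lit 532) (nat_lit 19995140766) (nat_lit 76) (nat_lit 19591007819) (nat_lit 288) (nat_lit 5) (nat_lit 295) (nat_lit 5) (nat_lit 289) (nat_lit 5) (nat_lit 458) (nat_lit 423) (nat_lit 139)) (XT.lf (nat_lit 0) (nat_lit 28460116989) (nat_lit 456) (nat_lit 28870739327) (nat_lit 532) (nat_lit 26714905630) (nat_lit 282) (nat_lit 5) (nat_lit 288) (nat_lit 5) (nat_lit 289) (nat_lit 5) (nat_lit 459) (nat_lit 423) (nat_lit 138))) (XT.nd (nat_lit 78) (nat_lit 456) (nat_lit 0) (XT.lf (nat_lit 0) (nat_lit 72323399325) (nat_lit 532) (nat_lit 6795154433) (nat_lit 76) (nat_lit 6390375096) (nat_lit 282) (nat_lit 5) (nat_lit 289) (nat_lit 5) (nat_lit 283) (nat_lit 5) (nat_lit 460) (nat_lit 423) (nat_lit 137)) (XT.lf (nat_lit 0) (nat_lit 1450748123)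 (nat_lit 456) (nat_lit 42977137493) (nat_lit 76) (nat_lit 42566419444) (nat_lit 276) (nat_lit 5) (nat_lit 282) (nat_lit 5) (nat_lit 277) (nat_lit 5) (nat_lit 461) (nat_lit 423) (nat_lit 136))))))) (XT.nd (nat_lit 50544) (nat_lit 0) (nat_lit 7676) (XT.nd (nat_lit 546) (nat_lit 684) (nat_lit 0) (XT.nd (nat_lit 234) (nat_lit 836) (nat_lit 0) (XT.nd (nat_lit 78) (nat_lit 380) (nat_lit 0) (XT.lf (nat_lit 0) (nat_lit 7995146689) (nat_lit 456) (nat_lit 8411630479) (nat_lit 532) (nat_lit 72109178514) (nat_lit 270) (nat_lit 5) (nat_lit 276) (nat_lit 5) (nat_lit 277) (nat_lit 5) (nat_lit 462) (nat_lit 423) (nat_lit 135)) (XT.nd (nat_lit 78) (nat_lit 380) (nat_lit 0) (XT.lf (nat_lit 0) (nat_lit 32525042076) (nat_lit 532) (nat_lit 28973297527) (nat_lit 76) (nat_lit 28563509571) (nat_lit 270) (nat_lit 5) (nat_lit 277) (nat_lit 5) (nat_lit 271) (nat_lit 5) (nat_lit 463) (nat_lit 423) (nat_lit 134)) (XT.lf (nat_lit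 0) (nat_lit 24515138242) (nat_lit 380) (nat_lit 24930202667) (nat_lit 456) (nat_lit 42199223983) (nat_lit 265) (nat_lit 5) (nat_lit 270) (nat_lit 5) (nat_lit 271) (nat_lit 5) (nat_lit 464) (nat_lit 423) (nat_lit 133)))) (XT.nd (nat_lit 156) (nat_lit 456) (nat_lit 0) (XT.nd (nat_lit 78) (nat_lit 380) (nat_lit 0) (XT.lf (nat_lit 0) (nat_lit 67290689464) (nat_lit 456) (nat_lit 13189749071) (nat_lit 76) (nat_lit 12781800323) (nat_lit 265) (nat_lit 5) (nat_lit 271) (nat_lit 5) (nat_lit 266) (nat_lit 5) (nat_lit 465) (nat_lit 423) (nat_lit 132)) (XT.lf (nat_lit 0) (nat_lit 42958984911) (nat_lit 380) (nat_lit 43371762375) (nat_lit 456) (nat_lit 8577915293) (nat_lit 260) (nat_lit 5) (nat_lit 265) (nat_lit 5) (nat_lit 266) (nat_lit 5) (nat_lit 466) (nat_lit 423) (nat_lit 131))) (XT.nd (nat_lit 78) (nat_lit 0) (nat_lit 0) (XT.lf (nat_lit 0) (nat_lit 4457389939) (nat_lit 380) (nat_lit 4874855477) (nat_lit 456)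 (nat_lit 87264233062) (nat_lit 254) (nat_lit 5) (nat_lit 259) (nat_lit 5) (nat_lit 260) (nat_lit 5) (nat_lit 467) (nat_lit 423) (nat_lit 130)) (XT.lf (nat_lit 0) (nat_lit 28470959902) (nat_lit 456) (nat_lit 35122618334) (nat_lit 76) (nat_lit 34712893027) (nat_lit 254) (nat_lit 5) (nat_lit 260) (nat_lit 5) (nat_lit 255) (nat_lit 5) (nat_lit 468) (nat_lit 423) (nat_lit 129))))) (XT.nd (nat_lit 49686) (nat_lit 0) (nat_lit 9804) (XT.nd (nat_lit 156) (nat_lit 304) (nat_lit 0) (XT.nd (nat_lit 78) (nat_lit 0) (nat_lit 0) (XT.lf (nat_lit 0) (nat_lit 24024305080) (nat_lit 380) (nat_lit 24438320638) (nat_lit 456) (nat_lit 51596774417) (nat_lit 249) (nat_lit 5) (nat_lit 254) (nat_lit 5) (nat_lit 255) (nat_lit 5) (nat_lit 469) (nat_lit 423) (nat_lit 128)) (XT.lf (nat_lit 0) (nat_lit 69564575030) (nat_lit 456) (nat_lit 16345513332) (nat_lit 76) (nat_lit 15939512505) (nat_lit 249) (nat_lit 5) (nat_lit 255) (nat_lit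 5) (nat_lit 250) (nat_lit 5) (nat_lit 470) (nat_lit 423) (nat_lit 127))) (XT.nd (nat_lit 49452) (nat_lit 0) (nat_lit 9804) (XT.lf (nat_lit 0) (nat_lit 45785671881) (nat_lit 304) (nat_lit 46195598896) (nat_lit 380) (nat_lit 11691786204) (nat_lit 245) (nat_lit 5) (nat_lit 249) (nat_lit 5) (nat_lit 250) (nat_lit 5) (nat_lit 471) (nat_lit 423) (nat_lit 126)) (XT.lf (nat_lit 0) (nat_lit 15054725063) (nat_lit 1292) (nat_lit 4627928061) (nat_lit 1292) (nat_lit 4627928061) (nat_lit 374) (nat_lit 3) (nat_lit 391) (nat_lit 3) (nat_lit 391) (nat_lit 5) (nat_lit 424) (nat_lit 424) (nat_lit 172)))) (XT.nd (nat_lit 156) (nat_lit 0) (nat_lit 76) (XT.nd (nat_lit 78) (nat_lit 0) (nat_lit 76) (XT.lf (nat_lit 76) (nat_lit 15354343611) (nat_lit 0) (nat_lit 15381963883) (nat_lit 1292) (nat_lit 18608915844) (nat_lit 375) (nat_lit 5) (nat_lit 374) (nat_lit 3) (nat_lit 391) (nat_lit 5) (nat_lit 425) (nat_lit 424) (nat_lit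 171)) (XT.lf (nat_lit 0) (nat_lit 31564881562) (nat_lit 1216) (nat_lit 9286743897) (nat_lit 1292) (nat_lit 9233893344) (nat_lit 375) (nat_lit 5) (nat_lit 391) (nat_lit 5) (nat_lit 392) (nat_lit 5) (nat_lit 426) (nat_lit 424) (nat_lit 170))) (XT.nd (nat_lit 78) (nat_lit 0) (nat_lit 76) (XT.lf (nat_lit 76) (nat_lit 16324176740) (nat_lit 0) (nat_lit 16402303754) (nat_lit 1292) (nat_lit 18112297611) (nat_lit 376) (nat_lit 5) (nat_lit 375) (nat_lit 5) (nat_lit 392) (nat_lit 5) (nat_lit 427) (nat_lit 424) (nat_lit 169)) (XT.lf (nat_lit 0) (nat_lit 34101019468) (nat_lit 1216) (nat_lit 8803974957) (nat_lit 1292) (nat_lit 8704297998) (nat_lit 376) (nat_lit 5) (nat_lit 392) (nat_lit 5) (nat_lit 393) (nat_lit 5) (nat_lit 428) (nat_lit 424) (nat_lit 168)))))) (XT.nd (nat_lit 624) (nat_lit 2280) (nat_lit 0) (XT.nd (nat_lit 312) (nat_lit 0) (nat_lit 152) (XT.nd (nat_lit 156) (nat_lit 0) (nat_lit 76) (XT.nd (nat_lit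 78) (nat_lit 0) (nat_lit 76) (XT.lf (nat_lit 76) (nat_lit 17863556196) (nat_lit 0) (nat_lit 17986364698) (nat_lit 1292) (nat_lit 16543007490) (nat_lit 377) (nat_lit 5) (nat_lit 376) (nat_lit 5) (nat_lit 393) (nat_lit 5) (nat_lit 429) (nat_lit 424) (nat_lit 167)) (XT.lf (nat_lit 0) (nat_lit 37813934134) (nat_lit 1216) (nat_lit 7761147599) (nat_lit 1292) (nat_lit 7620112346) (nat_lit 377) (nat_lit 5) (nat_lit 393) (nat_lit 5) (nat_lit 394) (nat_lit 5) (nat_lit 430) (nat_lit 424) (nat_lit 166))) (XT.nd (nat_lit 78) (nat_lit 0) (nat_lit 76) (XT.lf (nat_lit 76) (nat_lit 20022139123) (nat_lit 0) (nat_lit 20184343015) (nat_lit 1292) (nat_lit 13803957175) (nat_lit 378) (nat_lit 5) (nat_lit 377) (nat_lit 5) (nat_lit 394) (nat_lit 5) (nat_lit 431) (nat_lit 424) (nat_lit 165)) (XT.lf (nat_lit 0) (nat_lit 42806415044) (nat_lit 1216) (nat_lit 6108545793) (nat_lit 1292) (nat_lit 5931112815) (nat_lit 378) (nat_lit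 5) (nat_lit 394) (nat_lit 5) (nat_lit 395) (nat_lit 5) (nat_lit 432) (nat_lit 424) (nat_lit 164)))) (XT.nd (nat_lit 156) (nat_lit 0) (nat_lit 76) (XT.nd (nat_lit 78) (nat_lit 0) (nat_lit 76) (XT.lf (nat_lit 76) (nat_lit 22853090461) (nat_lit 0) (nat_lit 23049895742) (nat_lit 1292) (nat_lit 9791231609) (nat_lit 379) (nat_lit 5) (nat_lit 378) (nat_lit 5) (nat_lit 395) (nat_lit 5) (nat_lit 433) (nat_lit 424) (nat_lit 163)) (XT.lf (nat_lit 0) (nat_lit 49188409375) (nat_lit 1216) (nat_lit 3792925808) (nat_lit 1292) (nat_lit 3583592467) (nat_lit 379) (nat_lit 5) (nat_lit 395) (nat_lit 5) (nat_lit 396) (nat_lit 5) (nat_lit 434) (nat_lit 424) (nat_lit 162))) (XT.nd (nat_lit 78) (nat_lit 0) (nat_lit 76) (XT.lf (nat_lit 76) (nat_lit 26413307985) (nat_lit 0) (nat_lit 26640369729) (nat_lit 1292) (nat_lit 4393642596) (nat_lit 380) (nat_lit 5) (nat_lit 379) (nat_lit 5) (nat_lit 396) (nat_lit 5) (nat_lit 435) (nat_lit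 424) (nat_lit 161)) (XT.lf (nat_lit 0) (nat_lit 57077487806) (nat_lit 1216) (nat_lit 757289222) (nat_lit 1292) (nat_lit 520130209) (nat_lit 380) (nat_lit 5) (nat_lit 396) (nat_lit 5) (nat_lit 397) (nat_lit 5) (nat_lit 436) (nat_lit 424) (nat_lit 160))))) (XT.nd (nat_lit 312) (nat_lit 1292) (nat_lit 0) (XT.nd (nat_lit 156) (nat_lit 0) (nat_lit 76) (XT.nd (nat_lit 78) (nat_lit 0) (nat_lit 0) (XT.lf (nat_lit 0) (nat_lit 2458810269) (nat_lit 1292) (nat_lit 28533405256) (nat_lit 1368) (nat_lit 28280022244) (nat_lit 363) (nat_lit 5) (nat_lit 380) (nat_lit 5) (nat_lit 381) (nat_lit 5) (nat_lit 437) (nat_lit 424) (nat_lit 159)) (XT.lf (nat_lit 76) (nat_lit 3024164495) (nat_lit 0) (nat_lit 3293298962) (nat_lit 1368) (nat_lit 53898164986) (nat_lit 364) (nat_lit 5) (nat_lit 363) (nat_lit 5) (nat_lit 381) (nat_lit 5) (nat_lit 438) (nat_lit 424) (nat_lit 158))) (XT.nd (nat_lit 78) (nat_lit 0) (nat_lit 0) (XT.lf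 (nat_lit 0) (nat_lit 10824686630) (nat_lit 1292) (nat_lit 25311396374) (nat_lit 1368) (nat_lit 25035253519) (nat_lit 364) (nat_lit 5) (nat_lit 381) (nat_lit 5) (nat_lit 382) (nat_lit 5) (nat_lit 439) (nat_lit 424) (nat_lit 157)) (XT.lf (nat_lit 76) (nat_lit 7640942028) (nat_lit 0) (nat_lit 7931499697) (nat_lit 1368) (nat_lit 46580114665) (nat_lit 365) (nat_lit 5) (nat_lit 364) (nat_lit 5) (nat_lit 382) (nat_lit 5) (nat_lit 440) (nat_lit 424) (nat_lit 156)))) (XT.nd (nat_lit 156) (nat_lit 608) (nat_lit 0) (XT.nd (nat_lit 78) (nat_lit 836) (nat_lit 0) (XT.lf (nat_lit 0) (nat_lit 20923041995) (nat_lit 1292) (nat_lit 21261020324) (nat_lit 76) (nat_lit 20965338157) (nat_lit 365) (nat_lit 5) (nat_lit 382) (nat_lit 5) (nat_lit 366) (nat_lit 5) (nat_lit 441) (nat_lit 424) (nat_lit 155)) (XT.lf (nat_lit 0) (nat_lit 13164830622) (nat_lit 836) (nat_lit 13473704385) (nat_lit 912) (nat_lit 37531483636) (nat_lit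 354) (nat_lit 5) (nat_lit 365) (nat_lit 5) (nat_lit 366) (nat_lit 5) (nat_lit 442) (nat_lit 424) (nat_lit 154))) (XT.nd (nat_lit 78) (nat_lit 608) (nat_lit 0) (XT.lf (nat_lit 0) (nat_lit 32896368448) (nat_lit 912) (nat_lit 16313036212) (nat_lit 76) (nat_lit 16000724428) (nat_lit 354) (nat_lit 5) (nat_lit 366) (nat_lit 5) (nat_lit 355) (nat_lit 5) (nat_lit 443) (nat_lit 424) (nat_lit 153)) (XT.lf (nat_lit 0) (nat_lit 19669682427) (nat_lit 608) (nat_lit 19994066389) (nat_lit 684) (nat_lit 26608039670) (nat_lit 346) (nat_lit 5) (nat_lit 354) (nat_lit 5) (nat_lit 355) (nat_lit 5) (nat_lit 444) (nat_lit 424) (nat_lit 152))))))))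
noncomputable def xc243 : XT := (XT.nd (nat_lit 51792) (nat_lit 0) (nat_lit 3420) (XT.nd (nat_lit 1170) (nat_lit 2964) (nat_lit 0) (XT.nd (nat_lit 546) (nat_lit 2052) (nat_lit 0) (XT.nd (nat_lit 234) (nat_lit 1748) (nat_lit 0) (XT.nd (nat_lit 78) (nat_lit 608) (nat_lit 0) (XT.lf (nat_lit 0) (nat_lit 46896922662) (nat_lit 684) (nat_lit 10393403458) (nat_lit 76) (nat_lit 10067088385) (nat_lit 346) (nat_lit 5) (nat_lit 355) (nat_lit 5) (nat_lit 347) (nat_lit 5) (nat_lit 445) (nat_lit 424) (nat_lit 151)) (XT.nd (nat_lit 78) (nat_lit 0) (nat_lit 0) (XT.lf (nat_lit 0) (nat_lit 27234424386) (nat_lit 608) (nat_lit 27571787212) (nat_lit 684) (nat_lit 13655624110) (nat_lit 338) (nat_lit 5) (nat_lit 346) (nat_lit 5) (nat_lit 347) (nat_lit 5) (nat_lit 446) (nat_lit 424) (nat_lit 150)) (XT.lf (nat_lit 0) (nat_lit 63087355032) (nat_lit 684) (nat_lit 3422973766) (nat_lit 76) (nat_lit 3085023475) (nat_lit 338) (nat_lit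 5) (nat_lit 347) (nat_lit 5) (nat_lit 339) (nat_lit 5) (nat_lit 447) (nat_lit 424) (nat_lit 149)))) (XT.nd (nat_lit 156) (nat_lit 532) (nat_lit 0) (XT.nd (nat_lit 78) (nat_lit 608) (nat_lit 0) (XT.lf (nat_lit 0) (nat_lit 1461403960) (nat_lit 608) (nat_lit 34815282147) (nat_lit 76) (nat_lit 34467221596) (nat_lit 330) (nat_lit 5) (nat_lit 338) (nat_lit 5) (nat_lit 331) (nat_lit 5) (nat_lit 448) (nat_lit 424) (nat_lit 148)) (XT.lf (nat_lit 0) (nat_lit 4630011141) (nat_lit 608) (nat_lit 4987887478) (nat_lit 684) (nat_lit 62304723639) (nat_lit 322) (nat_lit 5) (nat_lit 330) (nat_lit 5) (nat_lit 331) (nat_lit 5) (nat_lit 449) (nat_lit 424) (nat_lit 147))) (XT.nd (nat_lit 78) (nat_lit 532) (nat_lit 0) (XT.lf (nat_lit 0) (nat_lit 18635391506) (nat_lit 684) (nat_lit 27419761357) (nat_lit 76) (nat_lit 27063056283) (nat_lit 322) (nat_lit 5) (nat_lit 331) (nat_lit 5) (nat_lit 323) (nat_lit 5) (nat_lit 450) (nat_lit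 424) (nat_lit 146)) (XT.lf (nat_lit 0) (nat_lit 13869931325) (nat_lit 532) (nat_lit 14235619234) (nat_lit 608) (nat_lit 46238648842) (nat_lit 315) (nat_lit 5) (nat_lit 322) (nat_lit 5) (nat_lit 323) (nat_lit 5) (nat_lit 451) (nat_lit 424) (nat_lit 145))))) (XT.nd (nat_lit 312) (nat_lit 1064) (nat_lit 0) (XT.nd (nat_lit 156) (nat_lit 456) (nat_lit 0) (XT.nd (nat_lit 78) (nat_lit 532) (nat_lit 0) (XT.lf (nat_lit 0) (nat_lit 38317085513) (nat_lit 608) (nat_lit 18819834851) (nat_lit 76) (nat_lit 18456330863) (nat_lit 315) (nat_lit 5) (nat_lit 323) (nat_lit 5) (nat_lit 316) (nat_lit 5) (nat_lit 452) (nat_lit 424) (nat_lit 144)) (XT.lf (nat_lit 0) (nat_lit 24419188810) (nat_lit 532) (nat_lit 24790913364) (nat_lit 608) (nat_lit 27658418367) (nat_lit 308) (nat_lit 5) (nat_lit 315) (nat_lit 5) (nat_lit 316) (nat_lit 5) (nat_lit 453) (nat_lit 424) (nat_lit 143))) (XT.nd (nat_lit 78) (nat_lit 456) (nat_lit 0)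 (XT.lf (nat_lit 0) (nat_lit 60703252689) (nat_lit 608) (nat_lit 8919620620) (nat_lit 76) (nat_lit 8550974323) (nat_lit 308) (nat_lit 5) (nat_lit 316) (nat_lit 5) (nat_lit 309) (nat_lit 5) (nat_lit 454) (nat_lit 424) (nat_lit 142)) (XT.lf (nat_lit 0) (nat_lit 36379835019) (nat_lit 456) (nat_lit 36756004299) (nat_lit 532) (nat_lit 6364655969) (nat_lit 302) (nat_lit 5) (nat_lit 308) (nat_lit 5) (nat_lit 309) (nat_lit 5) (nat_lit 455) (nat_lit 424) (nat_lit 141)))) (XT.nd (nat_lit 156) (nat_lit 456) (nat_lit 0) (XT.nd (nat_lit 78) (nat_lit 0) (nat_lit 0) (XT.lf (nat_lit 0) (nat_lit 2352514738) (nat_lit 532) (nat_lit 2735987885) (nat_lit 608) (nat_lit 75773584513) (nat_lit 294) (nat_lit 5) (nat_lit 301) (nat_lit 5) (nat_lit 302) (nat_lit 5) (nat_lit 456) (nat_lit 424) (nat_lit 140)) (XT.lf (nat_lit 0) (nat_lit 17507104508) (nat_lit 608) (nat_lit 32556113602) (nat_lit 76) (nat_lit 32176924982) (nat_lit 294)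 (nat_lit 5) (nat_lit 302) (nat_lit 5) (nat_lit 295) (nat_lit 5) (nat_lit 457) (nat_lit 424) (nat_lit 139))) (XT.nd (nat_lit 78) (nat_lit 0) (nat_lit 0) (XT.lf (nat_lit 0) (nat_lit 15041790485) (nat_lit 456) (nat_lit 15427663178) (nat_lit 532) (nat_lit 53184951387) (nat_lit 288) (nat_lit 5) (nat_lit 294) (nat_lit 5) (nat_lit 295) (nat_lit 5) (nat_lit 458) (nat_lit 424) (nat_lit 138)) (XT.lf (nat_lit 0) (nat_lit 44346824380) (nat_lit 532) (nat_lit 20564710009) (nat_lit 76) (nat_lit 20183775946) (nat_lit 288) (nat_lit 5) (nat_lit 295) (nat_lit 5) (nat_lit 289) (nat_lit 5) (nat_lit 459) (nat_lit 424) (nat_lit 137)))))) (XT.nd (nat_lit 546) (nat_lit 1216) (nat_lit 0) (XT.nd (nat_lit 234) (nat_lit 836) (nat_lit 0) (XT.nd (nat_lit 78) (nat_lit 456) (nat_lit 0) (XT.lf (nat_lit 0) (nat_lit 29343908567) (nat_lit 456) (nat_lit 29730959503) (nat_lit 532) (nat_lit 27491544152) (nat_lit 282) (nat_lit 5) (nat_lit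 288) (nat_lit 5) (nat_lit 289) (nat_lit 5) (nat_lit 460) (nat_lit 424) (nat_lit 136)) (XT.nd (nat_lit 78) (nat_lit 456) (nat_lit 0) (XT.lf (nat_lit 0) (nat_lit 74516540916) (nat_lit 532) (nat_lit 6969247982) (nat_lit 76) (nat_lit 6587704634) (nat_lit 282) (nat_lit 5) (nat_lit 289) (nat_lit 5) (nat_lit 283) (nat_lit 5) (nat_lit 461) (nat_lit 424) (nat_lit 135)) (XT.lf (nat_lit 0) (nat_lit 1517538868) (nat_lit 456) (nat_lit 44236519224) (nat_lit 76) (nat_lit 43849378071) (nat_lit 276) (nat_lit 5) (nat_lit 282) (nat_lit 5) (nat_lit 277) (nat_lit 5) (nat_lit 462) (nat_lit 424) (nat_lit 134)))) (XT.nd (nat_lit 156) (nat_lit 380) (nat_lit 0) (XT.nd (nat_lit 78) (nat_lit 0) (nat_lit 0) (XT.lf (nat_lit 0) (nat_lit 8264640029) (nat_lit 456) (nat_lit 8657215945) (nat_lit 532) (nat_lit 74248892114) (nat_lit 270) (nat_lit 5) (nat_lit 276) (nat_lit 5) (nat_lit 277) (nat_lit 5) (nat_lit 463) (nat_lit 424) (nat_lit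 133)) (XT.lf (nat_lit 0) (nat_lit 33523065674) (nat_lit 532) (nat_lit 29813117628) (nat_lit 76) (nat_lit 29426853177) (nat_lit 270) (nat_lit 5) (nat_lit 277) (nat_lit 5) (nat_lit 271) (nat_lit 5) (nat_lit 464) (nat_lit 424) (nat_lit 132))) (XT.nd (nat_lit 78) (nat_lit 0) (nat_lit 0) (XT.lf (nat_lit 0) (nat_lit 25279683186) (nat_lit 380) (nat_lit 25670921215) (nat_lit 456) (nat_lit 43442640339) (nat_lit 265) (nat_lit 5) (nat_lit 270) (nat_lit 5) (nat_lit 271) (nat_lit 5) (nat_lit 465) (nat_lit 424) (nat_lit 131)) (XT.lf (nat_lit 0) (nat_lit 69330742533) (nat_lit 456) (nat_lit 13556627170) (nat_lit 76) (nat_lit 13172096350) (nat_lit 265) (nat_lit 5) (nat_lit 271) (nat_lit 5) (nat_lit 266) (nat_lit 5) (nat_lit 466) (nat_lit 424) (nat_lit 130))))) (XT.nd (nat_lit 312) (nat_lit 0) (nat_lit 0) (XT.nd (nat_lit 156) (nat_lit 380) (nat_lit 0) (XT.nd (nat_lit 78) (nat_lit 456) (nat_lit 0) (XT.lf (nat_lit 0) (nat_lit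 44276286337) (nat_lit 380) (nat_lit 44665368686) (nat_lit 456) (nat_lit 8813637873) (nat_lit 260) (nat_lit 5) (nat_lit 265) (nat_lit 5) (nat_lit 266) (nat_lit 5) (nat_lit 467) (nat_lit 424) (nat_lit 129)) (XT.lf (nat_lit 0) (nat_lit 4619781441) (nat_lit 380) (nat_lit 5013282749) (nat_lit 456) (nat_lit 89860683100) (nat_lit 254) (nat_lit 5) (nat_lit 259) (nat_lit 5) (nat_lit 260) (nat_lit 5) (nat_lit 468) (nat_lit 424) (nat_lit 128))) (XT.nd (nat_lit 78) (nat_lit 380) (nat_lit 0) (XT.lf (nat_lit 0) (nat_lit 29345405754) (nat_lit 456) (nat_lit 36147927767) (nat_lit 76) (nat_lit 35761722369) (nat_lit 254) (nat_lit 5) (nat_lit 260) (nat_lit 5) (nat_lit 255) (nat_lit 5) (nat_lit 469) (nat_lit 424) (nat_lit 127)) (XT.lf (nat_lit 0) (nat_lit 24773125221) (nat_lit 380) (nat_lit 25163374593) (nat_lit 456) (nat_lit 53124082466) (nat_lit 249) (nat_lit 5) (nat_lit 254) (nat_lit 5) (nat_lit 255) (nat_lit 5) (nat_lit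 470) (nat_lit 424) (nat_lit 126)))) (XT.nd (nat_lit 49608) (nat_lit 0) (nat_lit 9500) (XT.nd (nat_lit 49530) (nat_lit 0) (nat_lit 9500) (XT.lf (nat_lit 0) (nat_lit 71671000770) (nat_lit 456) (nat_lit 16808099093) (nat_lit 76) (nat_lit 16425404374) (nat_lit 249) (nat_lit 5) (nat_lit 255) (nat_lit 5) (nat_lit 250) (nat_lit 5) (nat_lit 471) (nat_lit 424) (nat_lit 125)) (XT.lf (nat_lit 0) (nat_lit 15533721584) (nat_lit 1292) (nat_lit 4752678197) (nat_lit 1292) (nat_lit 4752678197) (nat_lit 374) (nat_lit 3) (nat_lit 391) (nat_lit 3) (nat_lit 391) (nat_lit 5) (nat_lit 425) (nat_lit 425) (nat_lit 170))) (XT.nd (nat_lit 78) (nat_lit 0) (nat_lit 76) (XT.lf (nat_lit 76) (nat_lit 15842873102) (nat_lit 0) (nat_lit 15868907857) (nat_lit 1292) (nat_lit 19112197552) (nat_lit 375) (nat_lit 5) (nat_lit 374) (nat_lit 3) (nat_lit 391) (nat_lit 5) (nat_lit 426) (nat_lit 425) (nat_lit 169)) (XT.lf (nat_lit 0) (nat_lit 32563419526)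 (nat_lit 1216) (nat_lit 9536466906) (nat_lit 1292) (nat_lit 9486650191) (nat_lit 375) (nat_lit 5) (nat_lit 391) (nat_lit 5) (nat_lit 392) (nat_lit 5) (nat_lit 427) (nat_lit 425) (nat_lit 168))))))) (XT.nd (nat_lit 1170) (nat_lit 5244) (nat_lit 0) (XT.nd (nat_lit 546) (nat_lit 912) (nat_lit 0) (XT.nd (nat_lit 234) (nat_lit 0) (nat_lit 152) (XT.nd (nat_lit 78) (nat_lit 0) (nat_lit 76) (XT.lf (nat_lit 76) (nat_lit 16842498220) (nat_lit 0) (nat_lit 16916140424) (nat_lit 1292) (nat_lit 18603791893) (nat_lit 376) (nat_lit 5) (nat_lit 375) (nat_lit 5) (nat_lit 392) (nat_lit 5) (nat_lit 428) (nat_lit 425) (nat_lit 167)) (XT.nd (nat_lit 78) (nat_lit 0) (nat_lit 0) (XT.lf (nat_lit 0) (nat_lit 35172743734) (nat_lit 1216) (nat_lit 9038660873) (nat_lit 1292) (nat_lit 8944705779) (nat_lit 376) (nat_lit 5) (nat_lit 392) (nat_lit 5) (nat_lit 393) (nat_lit 5) (nat_lit 429) (nat_lit 425) (nat_lit 166)) (XT.lf (nat_lit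 76) (nat_lit 18428607652) (nat_lit 0) (nat_lit 18544366444) (nat_lit 1292) (nat_lit 16990315471) (nat_lit 377) (nat_lit 5) (nat_lit 376) (nat_lit 5) (nat_lit 393) (nat_lit 5) (nat_lit 430) (nat_lit 425) (nat_lit 165)))) (XT.nd (nat_lit 156) (nat_lit 0) (nat_lit 76) (XT.nd (nat_lit 78) (nat_lit 0) (nat_lit 0) (XT.lf (nat_lit 0) (nat_lit 38994350799) (nat_lit 1216) (nat_lit 7964129197) (nat_lit 1292) (nat_lit 7831189945) (nat_lit 377) (nat_lit 5) (nat_lit 393) (nat_lit 5) (nat_lit 394) (nat_lit 5) (nat_lit 431) (nat_lit 425) (nat_lit 164)) (XT.lf (nat_lit 76) (nat_lit 20652363451) (nat_lit 0) (nat_lit 20805256176) (nat_lit 1292) (nat_lit 14171784574) (nat_lit 378) (nat_lit 5) (nat_lit 377) (nat_lit 5) (nat_lit 394) (nat_lit 5) (nat_lit 432) (nat_lit 425) (nat_lit 163))) (XT.nd (nat_lit 78) (nat_lit 0) (nat_lit 0) (XT.lf (nat_lit 0) (nat_lit 44134097937) (nat_lit 1216) (nat_lit 6261650405) (nat_lit 1292)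 (nat_lit 6094402805) (nat_lit 378) (nat_lit 5) (nat_lit 394) (nat_lit 5) (nat_lit 395) (nat_lit 5) (nat_lit 433) (nat_lit 425) (nat_lit 162)) (XT.lf (nat_lit 76) (nat_lit 23568539331) (nat_lit 0) (nat_lit 23754047184) (nat_lit 1292) (nat_lit 10041182509) (nat_lit 379) (nat_lit 5) (nat_lit 378) (nat_lit 5) (nat_lit 395) (nat_lit 5) (nat_lit 434) (nat_lit 425) (nat_lit 161))))) (XT.nd (nat_lit 312) (nat_lit 0) (nat_lit 0) (XT.nd (nat_lit 156) (nat_lit 1216) (nat_lit 0) (XT.nd (nat_lit 78) (nat_lit 0) (nat_lit 0) (XT.lf (nat_lit 0) (nat_lit 50705216105) (nat_lit 1216) (nat_lit 3876370746) (nat_lit 1292) (nat_lit 3679053995) (nat_lit 379) (nat_lit 5) (nat_lit 395) (nat_lit 5) (nat_lit 396) (nat_lit 5) (nat_lit 435) (nat_lit 425) (nat_lit 160)) (XT.lf (nat_lit 76) (nat_lit 27235752583) (nat_lit 0) (nat_lit 27449780053) (nat_lit 1292) (nat_lit 4483999946) (nat_lit 380) (nat_lit 5) (nat_lit 379) (nat_lit 5)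 (nat_lit 396) (nat_lit 5) (nat_lit 436) (nat_lit 425) (nat_lit 159))) (XT.nd (nat_lit 78) (nat_lit 1292) (nat_lit 0) (XT.lf (nat_lit 0) (nat_lit 58828789672) (nat_lit 1216) (nat_lit 749570291) (nat_lit 1292) (nat_lit 526025175) (nat_lit 380) (nat_lit 5) (nat_lit 396) (nat_lit 5) (nat_lit 397) (nat_lit 5) (nat_lit 437) (nat_lit 425) (nat_lit 158)) (XT.lf (nat_lit 0) (nat_lit 2571083808) (nat_lit 1292) (nat_lit 29358501804) (nat_lit 1368) (nat_lit 29119664014) (nat_lit 363) (nat_lit 5) (nat_lit 380) (nat_lit 5) (nat_lit 381) (nat_lit 5) (nat_lit 438) (nat_lit 425) (nat_lit 157)))) (XT.nd (nat_lit 156) (nat_lit 0) (nat_lit 76) (XT.nd (nat_lit 78) (nat_lit 0) (nat_lit 76) (XT.lf (nat_lit 76) (nat_lit 3145492043) (nat_lit 0) (nat_lit 3399177091) (nat_lit 1368) (nat_lit 55476297709) (nat_lit 364) (nat_lit 5) (nat_lit 363) (nat_lit 5) (nat_lit 381) (nat_lit 5) (nat_lit 439) (nat_lit 425) (nat_lit 156)) (XT.lf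 (nat_lit 0) (nat_lit 11185945408) (nat_lit 1292) (nat_lit 26039863396) (nat_lit 1368) (nat_lit 25779572270) (nat_lit 364) (nat_lit 5) (nat_lit 381) (nat_lit 5) (nat_lit 382) (nat_lit 5) (nat_lit 440) (nat_lit 425) (nat_lit 155))) (XT.nd (nat_lit 78) (nat_lit 0) (nat_lit 76) (XT.lf (nat_lit 76) (nat_lit 7900742464) (nat_lit 0) (nat_lit 8174620934) (nat_lit 1368) (nat_lit 47940697231) (nat_lit 365) (nat_lit 5) (nat_lit 364) (nat_lit 5) (nat_lit 382) (nat_lit 5) (nat_lit 441) (nat_lit 425) (nat_lit 154)) (XT.lf (nat_lit 0) (nat_lit 21585392152) (nat_lit 1292) (nat_lit 21868079687) (nat_lit 76) (nat_lit 21589370885) (nat_lit 365) (nat_lit 5) (nat_lit 382) (nat_lit 5) (nat_lit 366) (nat_lit 5) (nat_lit 442) (nat_lit 425) (nat_lit 153)))))) (XT.nd (nat_lit 624) (nat_lit 2128) (nat_lit 0) (XT.nd (nat_lit 312) (nat_lit 1824) (nat_lit 0) (XT.nd (nat_lit 156) (nat_lit 608) (nat_lit 0) (XT.nd (nat_lit 78) (nat_lit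 0) (nat_lit 0) (XT.lf (nat_lit 0) (nat_lit 13590245110) (nat_lit 836) (nat_lit 13881388255) (nat_lit 912) (nat_lit 38622467569) (nat_lit 354) (nat_lit 5) (nat_lit 365) (nat_lit 5) (nat_lit 366) (nat_lit 5) (nat_lit 443) (nat_lit 425) (nat_lit 152)) (XT.lf (nat_lit 0) (nat_lit 33916180787) (nat_lit 912) (nat_lit 16771824172) (nat_lit 76) (nat_lit 16477440362) (nat_lit 354) (nat_lit 5) (nat_lit 366) (nat_lit 5) (nat_lit 355) (nat_lit 5) (nat_lit 444) (nat_lit 425) (nat_lit 151))) (XT.nd (nat_lit 78) (nat_lit 0) (nat_lit 0) (XT.lf (nat_lit 0) (nat_lit 20290075995) (nat_lit 608) (nat_lit 20595838991) (nat_lit 684) (nat_lit 27373059543) (nat_lit 346) (nat_lit 5) (nat_lit 354) (nat_lit 5) (nat_lit 355) (nat_lit 5) (nat_lit 445) (nat_lit 425) (nat_lit 150)) (XT.lf (nat_lit 0) (nat_lit 48335126415) (nat_lit 684) (nat_lit 10674827448) (nat_lit 76) (nat_lit 10367244196) (nat_lit 346) (nat_lit 5) (nat_lit 355)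 (nat_lit 5) (nat_lit 347) (nat_lit 5) (nat_lit 446) (nat_lit 425) (nat_lit 149)))) (XT.nd (nat_lit 156) (nat_lit 1216) (nat_lit 0) (XT.nd (nat_lit 78) (nat_lit 0) (nat_lit 0) (XT.lf (nat_lit 0) (nat_lit 28081537407) (nat_lit 608) (nat_lit 28399534226) (nat_lit 684) (nat_lit 14033698936) (nat_lit 338) (nat_lit 5) (nat_lit 346) (nat_lit 5) (nat_lit 347) (nat_lit 5) (nat_lit 447) (nat_lit 425) (nat_lit 148)) (XT.lf (nat_lit 0) (nat_lit 65009750424) (nat_lit 684) (nat_lit 3495559869) (nat_lit 76) (nat_lit 3177009306) (nat_lit 338) (nat_lit 5) (nat_lit 347) (nat_lit 5) (nat_lit 339) (nat_lit 5) (nat_lit 448) (nat_lit 425) (nat_lit 147))) (XT.nd (nat_lit 78) (nat_lit 608) (nat_lit 0) (XT.lf (nat_lit 0) (nat_lit 1534729177) (nat_lit 608) (nat_lit 35829345858) (nat_lit 76) (nat_lit 35501265407) (nat_lit 330) (nat_lit 5) (nat_lit 338) (nat_lit 5) (nat_lit 331) (nat_lit 5) (nat_lit 449) (nat_lit 425) (nat_lit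 146)) (XT.lf (nat_lit 0) (nat_lit 4799008240) (nat_lit 608) (nat_lit 5136341012) (nat_lit 684) (nat_lit 64144084263) (nat_lit 322) (nat_lit 5) (nat_lit 330) (nat_lit 5) (nat_lit 331) (nat_lit 5) (nat_lit 450) (nat_lit 425) (nat_lit 145))))) (XT.nd (nat_lit 312) (nat_lit 1064) (nat_lit 0) (XT.nd (nat_lit 156) (nat_lit 532) (nat_lit 0) (XT.nd (nat_lit 78) (nat_lit 532) (nat_lit 0) (XT.lf (nat_lit 0) (nat_lit 19222535822) (nat_lit 684) (nat_lit 28212302933) (nat_lit 76) (nat_lit 27876074189) (nat_lit 322) (nat_lit 5) (nat_lit 331) (nat_lit 5) (nat_lit 323) (nat_lit 5) (nat_lit 451) (nat_lit 425) (nat_lit 144)) (XT.lf (nat_lit 0) (nat_lit 14315785909) (nat_lit 532) (nat_lit 14660481836) (nat_lit 608) (nat_lit 47597431116) (nat_lit 315) (nat_lit 5) (nat_lit 322) (nat_lit 5) (nat_lit 323) (nat_lit 5) (nat_lit 452) (nat_lit 425) (nat_lit 143))) (XT.nd (nat_lit 78) (nat_lit 532) (nat_lit 0) (XT.lf (nat_lit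 0) (nat_lit 39493366890) (nat_lit 608) (nat_lit 19354758091) (nat_lit 76) (nat_lit 19012120719) (nat_lit 315) (nat_lit 5) (nat_lit 323) (nat_lit 5) (nat_lit 316) (nat_lit 5) (nat_lit 453) (nat_lit 425) (nat_lit 142)) (XT.lf (nat_lit 0) (nat_lit 25181145380) (nat_lit 532) (nat_lit 25531531424) (nat_lit 608) (nat_lit 28461111206) (nat_lit 308) (nat_lit 5) (nat_lit 315) (nat_lit 5) (nat_lit 316) (nat_lit 5) (nat_lit 454) (nat_lit 425) (nat_lit 141)))) (XT.nd (nat_lit 156) (nat_lit 608) (nat_lit 0) (XT.nd (nat_lit 78) (nat_lit 456) (nat_lit 0) (XT.lf (nat_lit 0) (nat_lit 62549885662) (nat_lit 608) (nat_lit 9157947915) (nat_lit 76) (nat_lit 8810463423) (nat_lit 308) (nat_lit 5) (nat_lit 316) (nat_lit 5) (nat_lit 309) (nat_lit 5) (nat_lit 455) (nat_lit 425) (nat_lit 140)) (XT.lf (nat_lit 0) (nat_lit 37500204518) (nat_lit 456) (nat_lit 37854780143) (nat_lit 532) (nat_lit 6529773381) (nat_lit 302) (nat_lit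 5) (nat_lit 308) (nat_lit 5) (nat_lit 309) (nat_lit 5) (nat_lit 456) (nat_lit 425) (nat_lit 139))) (XT.nd (nat_lit 78) (nat_lit 0) (nat_lit 0) (XT.lf (nat_lit 0) (nat_lit 2452279510) (nat_lit 532) (nat_lit 2813739730) (nat_lit 608) (nat_lit 78021184663) (nat_lit 294) (nat_lit 5) (nat_lit 301) (nat_lit 5) (nat_lit 302) (nat_lit 5) (nat_lit 457) (nat_lit 425) (nat_lit 138)) (XT.lf (nat_lit 0) (nat_lit 18056495449) (nat_lit 608) (nat_lit 33503774122) (nat_lit 76) (nat_lit 33146352479) (nat_lit 294) (nat_lit 5) (nat_lit 302) (nat_lit 5) (nat_lit 295) (nat_lit 5) (nat_lit 458) (nat_lit 425) (nat_lit 137))))))))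
noncomputable def xc244 : XT := (XT.nd (nat_lit 51870) (nat_lit 0) (nat_lit 380) (XT.nd (nat_lit 50700) (nat_lit 0) (nat_lit 8664) (XT.nd (nat_lit 546) (nat_lit 1596) (nat_lit 0) (XT.nd (nat_lit 234) (nat_lit 912) (nat_lit 0) (XT.nd (nat_lit 78) (nat_lit 456) (nat_lit 0) (XT.lf (nat_lit 0) (nat_lit 15521782550) (nat_lit 456) (nat_lit 15885504572) (nat_lit 532) (nat_lit 54756037584) (nat_lit 288) (nat_lit 5) (nat_lit 294) (nat_lit 5) (nat_lit 295) (nat_lit 5) (nat_lit 459) (nat_lit 425) (nat_lit 136)) (XT.nd (nat_lit 78) (nat_lit 456) (nat_lit 0) (XT.lf (nat_lit 0) (nat_lit 45700333774) (nat_lit 532) (nat_lit 21153104810) (nat_lit 76) (nat_lit 20794037921) (nat_lit 288) (nat_lit 5) (nat_lit 295) (nat_lit 5) (nat_lit 289) (nat_lit 5) (nat_lit 460) (nat_lit 425) (nat_lit 135)) (XT.lf (nat_lit 0) (nat_lit 30252492455) (nat_lit 456) (nat_lit 30617325084) (nat_lit 532) (nat_lit 28292905947) (nat_lit 282)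 (nat_lit 5) (nat_lit 288) (nat_lit 5) (nat_lit 289) (nat_lit 5) (nat_lit 461) (nat_lit 425) (nat_lit 134)))) (XT.nd (nat_lit 156) (nat_lit 456) (nat_lit 0) (XT.nd (nat_lit 78) (nat_lit 456) (nat_lit 0) (XT.lf (nat_lit 0) (nat_lit 76774131224) (nat_lit 532) (nat_lit 7150272745) (nat_lit 76) (nat_lit 6790631546) (nat_lit 282) (nat_lit 5) (nat_lit 289) (nat_lit 5) (nat_lit 283) (nat_lit 5) (nat_lit 462) (nat_lit 425) (nat_lit 133)) (XT.lf (nat_lit 0) (nat_lit 1584997639) (nat_lit 456) (nat_lit 45535400649) (nat_lit 76) (nat_lit 45170482981) (nat_lit 276) (nat_lit 5) (nat_lit 282) (nat_lit 5) (nat_lit 277) (nat_lit 5) (nat_lit 463) (nat_lit 425) (nat_lit 132))) (XT.nd (nat_lit 78) (nat_lit 0) (nat_lit 0) (XT.lf (nat_lit 0) (nat_lit 8540516773) (nat_lit 456) (nat_lit 8910557225) (nat_lit 532) (nat_lit 76454149662) (nat_lit 270) (nat_lit 5) (nat_lit 276) (nat_lit 5) (nat_lit 277) (nat_lit 5) (nat_lit 464)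 (nat_lit 425) (nat_lit 131)) (XT.lf (nat_lit 0) (nat_lit 34549751456) (nat_lit 532) (nat_lit 30679818797) (nat_lit 76) (nat_lit 30315727506) (nat_lit 270) (nat_lit 5) (nat_lit 277) (nat_lit 5) (nat_lit 271) (nat_lit 5) (nat_lit 465) (nat_lit 425) (nat_lit 130))))) (XT.nd (nat_lit 312) (nat_lit 380) (nat_lit 0) (XT.nd (nat_lit 156) (nat_lit 836) (nat_lit 0) (XT.nd (nat_lit 78) (nat_lit 0) (nat_lit 0) (XT.lf (nat_lit 0) (nat_lit 26065494548) (nat_lit 380) (nat_lit 26434273914) (nat_lit 456) (nat_lit 44724654243) (nat_lit 265) (nat_lit 5) (nat_lit 270) (nat_lit 5) (nat_lit 271) (nat_lit 5) (nat_lit 466) (nat_lit 425) (nat_lit 129)) (XT.lf (nat_lit 0) (nat_lit 71430772627) (nat_lit 456) (nat_lit 13936165675) (nat_lit 76) (nat_lit 13573708497) (nat_lit 265) (nat_lit 5) (nat_lit 271) (nat_lit 5) (nat_lit 266) (nat_lit 5) (nat_lit 467) (nat_lit 425) (nat_lit 128))) (XT.nd (nat_lit 78) (nat_lit 456) (nat_lit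 0) (XT.lf (nat_lit 0) (nat_lit 45631468960) (nat_lit 380) (nat_lit 45998216390) (nat_lit 456) (nat_lit 9057672913) (nat_lit 260) (nat_lit 5) (nat_lit 265) (nat_lit 5) (nat_lit 266) (nat_lit 5) (nat_lit 468) (nat_lit 425) (nat_lit 127)) (XT.lf (nat_lit 0) (nat_lit 4785398924) (nat_lit 380) (nat_lit 5156311647) (nat_lit 456) (nat_lit 92536259504) (nat_lit 254) (nat_lit 5) (nat_lit 259) (nat_lit 5) (nat_lit 260) (nat_lit 5) (nat_lit 469) (nat_lit 425) (nat_lit 126)))) (XT.nd (nat_lit 49686) (nat_lit 0) (nat_lit 9500) (XT.nd (nat_lit 78) (nat_lit 380) (nat_lit 0) (XT.lf (nat_lit 0) (nat_lit 30244918700) (nat_lit 456) (nat_lit 37205624986) (nat_lit 76) (nat_lit 36841589358) (nat_lit 254) (nat_lit 5) (nat_lit 260) (nat_lit 5) (nat_lit 255) (nat_lit 5) (nat_lit 470) (nat_lit 425) (nat_lit 125)) (XT.lf (nat_lit 0) (nat_lit 25542797428) (nat_lit 380) (nat_lit 25910644890) (nat_lit 456) (nat_lit 54698392004)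 (nat_lit 249) (nat_lit 5) (nat_lit 254) (nat_lit 5) (nat_lit 255) (nat_lit 5) (nat_lit 471) (nat_lit 425) (nat_lit 124))) (XT.nd (nat_lit 78) (nat_lit 0) (nat_lit 0) (XT.lf (nat_lit 0) (nat_lit 16025517724) (nat_lit 1292) (nat_lit 4881979528) (nat_lit 1292) (nat_lit 4881979528) (nat_lit 374) (nat_lit 3) (nat_lit 391) (nat_lit 3) (nat_lit 391) (nat_lit 5) (nat_lit 426) (nat_lit 426) (nat_lit 168)) (XT.lf (nat_lit 76) (nat_lit 16344456950) (nat_lit 0) (nat_lit 16368997203) (nat_lit 1292) (nat_lit 19633734119) (nat_lit 375) (nat_lit 5) (nat_lit 374) (nat_lit 3) (nat_lit 391) (nat_lit 5) (nat_lit 427) (nat_lit 426) (nat_lit 167)))))) (XT.nd (nat_lit 546) (nat_lit 912) (nat_lit 0) (XT.nd (nat_lit 234) (nat_lit 0) (nat_lit 76) (XT.nd (nat_lit 78) (nat_lit 0) (nat_lit 0) (XT.lf (nat_lit 0) (nat_lit 33588952064) (nat_lit 1216) (nat_lit 9795339395) (nat_lit 1292) (nat_lit 9748382364) (nat_lit 375) (nat_lit 5)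 (nat_lit 391) (nat_lit 5) (nat_lit 392) (nat_lit 5) (nat_lit 428) (nat_lit 426) (nat_lit 166)) (XT.nd (nat_lit 78) (nat_lit 0) (nat_lit 76) (XT.lf (nat_lit 76) (nat_lit 17374727807) (nat_lit 0) (nat_lit 17444142647) (nat_lit 1292) (nat_lit 19113008819) (nat_lit 376) (nat_lit 5) (nat_lit 375) (nat_lit 5) (nat_lit 392) (nat_lit 5) (nat_lit 429) (nat_lit 426) (nat_lit 165)) (XT.lf (nat_lit 0) (nat_lit 36273824510) (nat_lit 1216) (nat_lit 9282076960) (nat_lit 1292) (nat_lit 9193515273) (nat_lit 376) (nat_lit 5) (nat_lit 392) (nat_lit 5) (nat_lit 393) (nat_lit 5) (nat_lit 430) (nat_lit 426) (nat_lit 164)))) (XT.nd (nat_lit 156) (nat_lit 0) (nat_lit 76) (XT.nd (nat_lit 78) (nat_lit 0) (nat_lit 76) (XT.lf (nat_lit 76) (nat_lit 19008937624) (nat_lit 0) (nat_lit 19118051387) (nat_lit 1292) (nat_lit 17453854473) (nat_lit 377) (nat_lit 5) (nat_lit 376) (nat_lit 5) (nat_lit 393) (nat_lit 5) (nat_lit 431) (nat_lit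 426) (nat_lit 163)) (XT.lf (nat_lit 0) (nat_lit 40207539454) (nat_lit 1216) (nat_lit 8174913919) (nat_lit 1292) (nat_lit 8049605923) (nat_lit 377) (nat_lit 5) (nat_lit 393) (nat_lit 5) (nat_lit 394) (nat_lit 5) (nat_lit 432) (nat_lit 426) (nat_lit 162))) (XT.nd (nat_lit 78) (nat_lit 0) (nat_lit 76) (XT.lf (nat_lit 76) (nat_lit 21299797636) (nat_lit 0) (nat_lit 21443913692) (nat_lit 1292) (nat_lit 14553304107) (nat_lit 378) (nat_lit 5) (nat_lit 377) (nat_lit 5) (nat_lit 394) (nat_lit 5) (nat_lit 433) (nat_lit 426) (nat_lit 161)) (XT.lf (nat_lit 0) (nat_lit 45499114788) (nat_lit 1216) (nat_lit 6421078990) (nat_lit 1292) (nat_lit 6263432087) (nat_lit 378) (nat_lit 5) (nat_lit 394) (nat_lit 5) (nat_lit 395) (nat_lit 5) (nat_lit 434) (nat_lit 426) (nat_lit 160))))) (XT.nd (nat_lit 312) (nat_lit 1140) (nat_lit 0) (XT.nd (nat_lit 156) (nat_lit 0) (nat_lit 76) (XT.nd (nat_lit 78) (nat_lit 0) (nat_lit 76) (XT.lf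 (nat_lit 76) (nat_lit 24303737802) (nat_lit 0) (nat_lit 24478596745) (nat_lit 1292) (nat_lit 10301145435) (nat_lit 379) (nat_lit 5) (nat_lit 378) (nat_lit 5) (nat_lit 395) (nat_lit 5) (nat_lit 435) (nat_lit 426) (nat_lit 159)) (XT.lf (nat_lit 0) (nat_lit 52265164604) (nat_lit 1216) (nat_lit 3964060835) (nat_lit 1292) (nat_lit 3778070872) (nat_lit 379) (nat_lit 5) (nat_lit 395) (nat_lit 5) (nat_lit 396) (nat_lit 5) (nat_lit 436) (nat_lit 426) (nat_lit 158))) (XT.nd (nat_lit 78) (nat_lit 0) (nat_lit 76) (XT.lf (nat_lit 76) (nat_lit 28081145791) (nat_lit 0) (nat_lit 28282887209) (nat_lit 1292) (nat_lit 4579447527) (nat_lit 380) (nat_lit 5) (nat_lit 379) (nat_lit 5) (nat_lit 396) (nat_lit 5) (nat_lit 437) (nat_lit 426) (nat_lit 157)) (XT.lf (nat_lit 0) (nat_lit 60630393142) (nat_lit 1216) (nat_lit 743367034) (nat_lit 1292) (nat_lit 532654323) (nat_lit 380) (nat_lit 5) (nat_lit 396) (nat_lit 5) (nat_lit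 397) (nat_lit 5) (nat_lit 438) (nat_lit 426) (nat_lit 156)))) (XT.nd (nat_lit 156) (nat_lit 0) (nat_lit 76) (XT.nd (nat_lit 78) (nat_lit 0) (nat_lit 0) (XT.lf (nat_lit 0) (nat_lit 2684514965) (nat_lit 1292) (nat_lit 30210125357) (nat_lit 1368) (nat_lit 29984997833) (nat_lit 363) (nat_lit 5) (nat_lit 380) (nat_lit 5) (nat_lit 381) (nat_lit 5) (nat_lit 439) (nat_lit 426) (nat_lit 155)) (XT.lf (nat_lit 76) (nat_lit 3268702703) (nat_lit 0) (nat_lit 3507825191) (nat_lit 1368) (nat_lit 57104002394) (nat_lit 364) (nat_lit 5) (nat_lit 363) (nat_lit 5) (nat_lit 381) (nat_lit 5) (nat_lit 440) (nat_lit 426) (nat_lit 154))) (XT.nd (nat_lit 78) (nat_lit 0) (nat_lit 0) (XT.lf (nat_lit 0) (nat_lit 11555945657) (nat_lit 1292) (nat_lit 26791956772) (nat_lit 1368) (nat_lit 26546607421) (nat_lit 364) (nat_lit 5) (nat_lit 381) (nat_lit 5) (nat_lit 382) (nat_lit 5) (nat_lit 441) (nat_lit 426) (nat_lit 153)) (XT.lf (nat_lit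 76) (nat_lit 8166581945) (nat_lit 0) (nat_lit 8424738670) (nat_lit 1368) (nat_lit 49344210943) (nat_lit 365) (nat_lit 5) (nat_lit 364) (nat_lit 5) (nat_lit 382) (nat_lit 5) (nat_lit 442) (nat_lit 426) (nat_lit 152))))))) (XT.nd (nat_lit 1170) (nat_lit 3648) (nat_lit 0) (XT.nd (nat_lit 546) (nat_lit 2736) (nat_lit 0) (XT.nd (nat_lit 234) (nat_lit 1216) (nat_lit 0) (XT.nd (nat_lit 78) (nat_lit 836) (nat_lit 0) (XT.lf (nat_lit 0) (nat_lit 22265623251) (nat_lit 1292) (nat_lit 22495117225) (nat_lit 76) (nat_lit 22232407449) (nat_lit 365) (nat_lit 5) (nat_lit 382) (nat_lit 5) (nat_lit 366) (nat_lit 5) (nat_lit 443) (nat_lit 426) (nat_lit 151)) (XT.nd (nat_lit 78) (nat_lit 0) (nat_lit 0) (XT.lf (nat_lit 0) (nat_lit 14026672954) (nat_lit 836) (nat_lit 14301103291) (nat_lit 912) (nat_lit 39748187901) (nat_lit 354) (nat_lit 5) (nat_lit 365) (nat_lit 5) (nat_lit 366) (nat_lit 5) (nat_lit 444) (nat_lit 426) (nat_lit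 150)) (XT.lf (nat_lit 0) (nat_lit 34964697680) (nat_lit 912) (nat_lit 17246132516) (nat_lit 76) (nat_lit 16968647541) (nat_lit 354) (nat_lit 5) (nat_lit 366) (nat_lit 5) (nat_lit 355) (nat_lit 5) (nat_lit 445) (nat_lit 426) (nat_lit 149)))) (XT.nd (nat_lit 156) (nat_lit 608) (nat_lit 0) (XT.nd (nat_lit 78) (nat_lit 0) (nat_lit 0) (XT.lf (nat_lit 0) (nat_lit 20927341849) (nat_lit 608) (nat_lit 21215552798) (nat_lit 684) (nat_lit 28162937052) (nat_lit 346) (nat_lit 5) (nat_lit 354) (nat_lit 5) (nat_lit 355) (nat_lit 5) (nat_lit 446) (nat_lit 426) (nat_lit 148)) (XT.lf (nat_lit 0) (nat_lit 49814679758) (nat_lit 684) (nat_lit 10966437985) (nat_lit 76) (nat_lit 10676511270) (nat_lit 346) (nat_lit 5) (nat_lit 355) (nat_lit 5) (nat_lit 347) (nat_lit 5) (nat_lit 447) (nat_lit 426) (nat_lit 147))) (XT.nd (nat_lit 78) (nat_lit 0) (nat_lit 0) (XT.lf (nat_lit 0) (nat_lit 28952337086) (nat_lit 608) (nat_lit 29252079587)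 (nat_lit 684) (nat_lit 14424929626) (nat_lit 338) (nat_lit 5) (nat_lit 346) (nat_lit 5) (nat_lit 347) (nat_lit 5) (nat_lit 448) (nat_lit 426) (nat_lit 146)) (XT.lf (nat_lit 0) (nat_lit 66988108485) (nat_lit 684) (nat_lit 3572051596) (nat_lit 76) (nat_lit 3271787139) (nat_lit 338) (nat_lit 5) (nat_lit 347) (nat_lit 5) (nat_lit 339) (nat_lit 5) (nat_lit 449) (nat_lit 426) (nat_lit 145))))) (XT.nd (nat_lit 312) (nat_lit 988) (nat_lit 0) (XT.nd (nat_lit 156) (nat_lit 532) (nat_lit 0) (XT.nd (nat_lit 78) (nat_lit 608) (nat_lit 0) (XT.lf (nat_lit 0) (nat_lit 1608561699) (nat_lit 608) (nat_lit 36875576264) (nat_lit 76) (nat_lit 36566328972) (nat_lit 330) (nat_lit 5) (nat_lit 338) (nat_lit 5) (nat_lit 331) (nat_lit 5) (nat_lit 450) (nat_lit 426) (nat_lit 144)) (XT.lf (nat_lit 0) (nat_lit 4971347576) (nat_lit 608) (nat_lit 5289316066) (nat_lit 684) (nat_lit 66040335261) (nat_lit 322) (nat_lit 5) (nat_lit 330)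 (nat_lit 5) (nat_lit 331) (nat_lit 5) (nat_lit 451) (nat_lit 426) (nat_lit 143))) (XT.nd (nat_lit 78) (nat_lit 532) (nat_lit 0) (XT.lf (nat_lit 0) (nat_lit 19825682413) (nat_lit 684) (nat_lit 29030345821) (nat_lit 76) (nat_lit 28713417983) (nat_lit 322) (nat_lit 5) (nat_lit 331) (nat_lit 5) (nat_lit 323) (nat_lit 5) (nat_lit 452) (nat_lit 426) (nat_lit 142)) (XT.lf (nat_lit 0) (nat_lit 14773307979) (nat_lit 532) (nat_lit 15098216949) (nat_lit 608) (nat_lit 48998605825) (nat_lit 315) (nat_lit 5) (nat_lit 322) (nat_lit 5) (nat_lit 323) (nat_lit 5) (nat_lit 453) (nat_lit 426) (nat_lit 141)))) (XT.nd (nat_lit 156) (nat_lit 456) (nat_lit 0) (XT.nd (nat_lit 78) (nat_lit 532) (nat_lit 0) (XT.lf (nat_lit 0) (nat_lit 40703400069) (nat_lit 608) (nat_lit 19907432311) (nat_lit 76) (nat_lit 19584463726) (nat_lit 315) (nat_lit 5) (nat_lit 323) (nat_lit 5) (nat_lit 316) (nat_lit 5) (nat_lit 454) (nat_lit 426) (nat_lit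 140)) (XT.lf (nat_lit 0) (nat_lit 25964274063) (nat_lit 532) (nat_lit 26294546514) (nat_lit 608) (nat_lit 29289438169) (nat_lit 308) (nat_lit 5) (nat_lit 315) (nat_lit 5) (nat_lit 316) (nat_lit 5) (nat_lit 455) (nat_lit 426) (nat_lit 139))) (XT.nd (nat_lit 78) (nat_lit 456) (nat_lit 0) (XT.lf (nat_lit 0) (nat_lit 64450451787) (nat_lit 608) (nat_lit 9405104748) (nat_lit 76) (nat_lit 9077567287) (nat_lit 308) (nat_lit 5) (nat_lit 316) (nat_lit 5) (nat_lit 309) (nat_lit 5) (nat_lit 456) (nat_lit 426) (nat_lit 138)) (XT.lf (nat_lit 0) (nat_lit 38652521850) (nat_lit 456) (nat_lit 38986743383) (nat_lit 532) (nat_lit 6701326619) (nat_lit 302) (nat_lit 5) (nat_lit 308) (nat_lit 5) (nat_lit 309) (nat_lit 5) (nat_lit 457) (nat_lit 426) (nat_lit 137)))))) (XT.nd (nat_lit 624) (nat_lit 1216) (nat_lit 0) (XT.nd (nat_lit 312) (nat_lit 1368) (nat_lit 0) (XT.nd (nat_lit 156) (nat_lit 456) (nat_lit 0) (XT.nd (nat_lit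 78) (nat_lit 0) (nat_lit 0) (XT.lf (nat_lit 0) (nat_lit 2553361639) (nat_lit 532) (nat_lit 2894072563) (nat_lit 608) (nat_lit 80337682786) (nat_lit 294) (nat_lit 5) (nat_lit 301) (nat_lit 5) (nat_lit 302) (nat_lit 5) (nat_lit 458) (nat_lit 426) (nat_lit 136)) (XT.lf (nat_lit 0) (nat_lit 18620980214) (nat_lit 608) (nat_lit 34481530489) (nat_lit 76) (nat_lit 34144626311) (nat_lit 294) (nat_lit 5) (nat_lit 302) (nat_lit 5) (nat_lit 295) (nat_lit 5) (nat_lit 459) (nat_lit 426) (nat_lit 135))) (XT.nd (nat_lit 78) (nat_lit 0) (nat_lit 0) (XT.lf (nat_lit 0) (nat_lit 16014524678) (nat_lit 456) (nat_lit 16357367568) (nat_lit 532) (nat_lit 56375660606) (nat_lit 288) (nat_lit 5) (nat_lit 294) (nat_lit 5) (nat_lit 295) (nat_lit 5) (nat_lit 460) (nat_lit 426) (nat_lit 134)) (XT.lf (nat_lit 0) (nat_lit 47093122146) (nat_lit 532) (nat_lit 21760790142) (nat_lit 76) (nat_lit 21422335161) (nat_lit 288) (nat_lit 5) (nat_lit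 295) (nat_lit 5) (nat_lit 289) (nat_lit 5) (nat_lit 461) (nat_lit 426) (nat_lit 133)))) (XT.nd (nat_lit 156) (nat_lit 912) (nat_lit 0) (XT.nd (nat_lit 78) (nat_lit 0) (nat_lit 0) (XT.lf (nat_lit 0) (nat_lit 31186711240) (nat_lit 456) (nat_lit 31530600983) (nat_lit 532) (nat_lit 29119650963) (nat_lit 282) (nat_lit 5) (nat_lit 288) (nat_lit 5) (nat_lit 289) (nat_lit 5) (nat_lit 462) (nat_lit 426) (nat_lit 132)) (XT.lf (nat_lit 0) (nat_lit 79098180951) (nat_lit 532) (nat_lit 7338338589) (nat_lit 76) (nat_lit 6999342267) (nat_lit 282) (nat_lit 5) (nat_lit 289) (nat_lit 5) (nat_lit 283) (nat_lit 5) (nat_lit 463) (nat_lit 426) (nat_lit 131))) (XT.nd (nat_lit 78) (nat_lit 456) (nat_lit 0) (XT.lf (nat_lit 0) (nat_lit 1653221152) (nat_lit 456) (nat_lit 46874868124) (nat_lit 76) (nat_lit 46530898223) (nat_lit 276) (nat_lit 5) (nat_lit 282) (nat_lit 5) (nat_lit 277) (nat_lit 5) (nat_lit 464) (nat_lit 426) (nat_lit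 130)) (XT.lf (nat_lit 0) (nat_lit 8823066090) (nat_lit 456) (nat_lit 9171864706) (nat_lit 532) (nat_lit 78726839837) (nat_lit 270) (nat_lit 5) (nat_lit 276) (nat_lit 5) (nat_lit 277) (nat_lit 5) (nat_lit 465) (nat_lit 426) (nat_lit 129))))) (XT.nd (nat_lit 312) (nat_lit 456) (nat_lit 0) (XT.nd (nat_lit 156) (nat_lit 380) (nat_lit 0) (XT.nd (nat_lit 78) (nat_lit 380) (nat_lit 0) (XT.lf (nat_lit 0) (nat_lit 35606032682) (nat_lit 532) (nat_lit 31574110656) (nat_lit 76) (nat_lit 31230919694) (nat_lit 270) (nat_lit 5) (nat_lit 277) (nat_lit 5) (nat_lit 271) (nat_lit 5) (nat_lit 466) (nat_lit 426) (nat_lit 128)) (XT.lf (nat_lit 0) (nat_lit 26873306181) (nat_lit 380) (nat_lit 27220916102) (nat_lit 456) (nat_lit 46046349280) (nat_lit 265) (nat_lit 5) (nat_lit 270) (nat_lit 5) (nat_lit 271) (nat_lit 5) (nat_lit 467) (nat_lit 426) (nat_lit 127))) (XT.nd (nat_lit 78) (nat_lit 380) (nat_lit 0) (XT.lf (nat_lit 0)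 (nat_lit 73592649353) (nat_lit 456) (nat_lit 14328649448) (nat_lit 76) (nat_lit 13986998795) (nat_lit 265) (nat_lit 5) (nat_lit 271) (nat_lit 5) (nat_lit 266) (nat_lit 5) (nat_lit 468) (nat_lit 426) (nat_lit 126)) (XT.lf (nat_lit 0) (nat_lit 47025763234) (nat_lit 380) (nat_lit 47371457861) (nat_lit 456) (nat_lit 9310198561) (nat_lit 260) (nat_lit 5) (nat_lit 265) (nat_lit 5) (nat_lit 266) (nat_lit 5) (nat_lit 469) (nat_lit 426) (nat_lit 125)))) (XT.nd (nat_lit 49842) (nat_lit 0) (nat_lit 9120) (XT.nd (nat_lit 49764) (nat_lit 0) (nat_lit 9120) (XT.lf (nat_lit 0) (nat_lit 4954433641) (nat_lit 380) (nat_lit 5304054457) (nat_lit 456) (nat_lit 95293265294) (nat_lit 254) (nat_lit 5) (nat_lit 259) (nat_lit 5) (nat_lit 260) (nat_lit 5) (nat_lit 470) (nat_lit 426) (nat_lit 124)) (XT.lf (nat_lit 0) (nat_lit 16530587614) (nat_lit 1292) (nat_lit 5015922170) (nat_lit 1292) (nat_lit 5015922170) (nat_lit 374) (nat_lit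 3) (nat_lit 391) (nat_lit 3) (nat_lit 391) (nat_lit 5) (nat_lit 427) (nat_lit 427) (nat_lit 166))) (XT.nd (nat_lit 78) (nat_lit 0) (nat_lit 76) (XT.lf (nat_lit 76) (nat_lit 16859578720) (nat_lit 0) (nat_lit 16882710263) (nat_lit 1292) (nat_lit 20173892001) (nat_lit 375) (nat_lit 5) (nat_lit 374) (nat_lit 3) (nat_lit 391) (nat_lit 5) (nat_lit 428) (nat_lit 427) (nat_lit 165)) (XT.lf (nat_lit 0) (nat_lit 34642459020) (nat_lit 1216) (nat_lit 10063540686) (nat_lit 1292) (nat_lit 10019279180) (nat_lit 375) (nat_lit 5) (nat_lit 391) (nat_lit 5) (nat_lit 392) (nat_lit 5) (nat_lit 429) (nat_lit 427) (nat_lit 164))))))))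
noncomputable def xc245 : XT := (XT.nd (nat_lit 2340) (nat_lit 2584) (nat_lit 0) (XT.nd (nat_lit 1170) (nat_lit 5244) (nat_lit 0) (XT.nd (nat_lit 546) (nat_lit 912) (nat_lit 0) (XT.nd (nat_lit 234) (nat_lit 0) (nat_lit 152) (XT.nd (nat_lit 78) (nat_lit 0) (nat_lit 76) (XT.lf (nat_lit 76) (nat_lit 17921376975) (nat_lit 0) (nat_lit 17986807119) (nat_lit 1292) (nat_lit 19640309132) (nat_lit 376) (nat_lit 5) (nat_lit 375) (nat_lit 5) (nat_lit 392) (nat_lit 5) (nat_lit 430) (nat_lit 427) (nat_lit 163)) (XT.nd (nat_lit 78) (nat_lit 0) (nat_lit 0) (XT.lf (nat_lit 0) (nat_lit 37405302951) (nat_lit 1216) (nat_lit 9534388134) (nat_lit 1292) (nat_lit 9450910250) (nat_lit 376) (nat_lit 5) (nat_lit 392) (nat_lit 5) (nat_lit 393) (nat_lit 5) (nat_lit 431) (nat_lit 427) (nat_lit 162)) (XT.lf (nat_lit 76) (nat_lit 19605100504) (nat_lit 0) (nat_lit 19707950691) (nat_lit 1292) (nat_lit 17933950018) (nat_lit 377) (nat_lit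 5) (nat_lit 376) (nat_lit 5) (nat_lit 393) (nat_lit 5) (nat_lit 432) (nat_lit 427) (nat_lit 161)))) (XT.nd (nat_lit 156) (nat_lit 0) (nat_lit 76) (XT.nd (nat_lit 78) (nat_lit 0) (nat_lit 0) (XT.lf (nat_lit 0) (nat_lit 41454634834) (nat_lit 1216) (nat_lit 8393637484) (nat_lit 1292) (nat_lit 8275522680) (nat_lit 377) (nat_lit 5) (nat_lit 393) (nat_lit 5) (nat_lit 394) (nat_lit 5) (nat_lit 433) (nat_lit 427) (nat_lit 160)) (XT.lf (nat_lit 76) (nat_lit 21965055379) (nat_lit 0) (nat_lit 22100898584) (nat_lit 1292) (nat_lit 14948773995) (nat_lit 378) (nat_lit 5) (nat_lit 377) (nat_lit 5) (nat_lit 394) (nat_lit 5) (nat_lit 434) (nat_lit 427) (nat_lit 159))) (XT.nd (nat_lit 78) (nat_lit 0) (nat_lit 0) (XT.lf (nat_lit 0) (nat_lit 46902728926) (nat_lit 1216) (nat_lit 6586921909) (nat_lit 1292) (nat_lit 6438324584) (nat_lit 378) (nat_lit 5) (nat_lit 394) (nat_lit 5) (nat_lit 395) (nat_lit 5) (nat_lit 435) (nat_lit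 427) (nat_lit 158)) (XT.lf (nat_lit 76) (nat_lit 25059376744) (nat_lit 0) (nat_lit 25224198068) (nat_lit 1292) (nat_lit 10571276462) (nat_lit 379) (nat_lit 5) (nat_lit 378) (nat_lit 5) (nat_lit 395) (nat_lit 5) (nat_lit 436) (nat_lit 427) (nat_lit 157))))) (XT.nd (nat_lit 312) (nat_lit 0) (nat_lit 0) (XT.nd (nat_lit 156) (nat_lit 1216) (nat_lit 0) (XT.nd (nat_lit 78) (nat_lit 0) (nat_lit 0) (XT.lf (nat_lit 0) (nat_lit 53869684737) (nat_lit 1216) (nat_lit 4056023443) (nat_lit 1292) (nat_lit 3880710065) (nat_lit 379) (nat_lit 5) (nat_lit 395) (nat_lit 5) (nat_lit 396) (nat_lit 5) (nat_lit 437) (nat_lit 427) (nat_lit 156)) (XT.lf (nat_lit 76) (nat_lit 28950275076) (nat_lit 0) (nat_lit 29140435711) (nat_lit 1292) (nat_lit 4680001451) (nat_lit 380) (nat_lit 5) (nat_lit 379) (nat_lit 5) (nat_lit 396) (nat_lit 5) (nat_lit 438) (nat_lit 427) (nat_lit 155))) (XT.nd (nat_lit 78) (nat_lit 1292) (nat_lit 0) (XT.lf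 (nat_lit 0) (nat_lit 62483935702) (nat_lit 1216) (nat_lit 738624625) (nat_lit 1292) (nat_lit 540007685) (nat_lit 380) (nat_lit 5) (nat_lit 396) (nat_lit 5) (nat_lit 397) (nat_lit 5) (nat_lit 439) (nat_lit 427) (nat_lit 154)) (XT.lf (nat_lit 0) (nat_lit 2799265367) (nat_lit 1292) (nat_lit 31088969884) (nat_lit 1368) (nat_lit 30876765601) (nat_lit 363) (nat_lit 5) (nat_lit 380) (nat_lit 5) (nat_lit 381) (nat_lit 5) (nat_lit 440) (nat_lit 427) (nat_lit 153)))) (XT.nd (nat_lit 156) (nat_lit 0) (nat_lit 76) (XT.nd (nat_lit 78) (nat_lit 0) (nat_lit 76) (XT.lf (nat_lit 76) (nat_lit 3393953810) (nat_lit 0) (nat_lit 3619349688) (nat_lit 1368) (nat_lit 58782638305) (nat_lit 364) (nat_lit 5) (nat_lit 363) (nat_lit 5) (nat_lit 381) (nat_lit 5) (nat_lit 441) (nat_lit 427) (nat_lit 152)) (XT.lf (nat_lit 0) (nat_lit 11935069955) (nat_lit 1292) (nat_lit 27568283553) (nat_lit 1368) (nat_lit 27337018259) (nat_lit 364)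 (nat_lit 5) (nat_lit 381) (nat_lit 5) (nat_lit 382) (nat_lit 5) (nat_lit 442) (nat_lit 427) (nat_lit 151))) (XT.nd (nat_lit 78) (nat_lit 0) (nat_lit 76) (XT.lf (nat_lit 76) (nat_lit 8438742385) (nat_lit 0) (nat_lit 8682079858) (nat_lit 1368) (nat_lit 50791822402) (nat_lit 365) (nat_lit 5) (nat_lit 364) (nat_lit 5) (nat_lit 382) (nat_lit 5) (nat_lit 443) (nat_lit 427) (nat_lit 150)) (XT.lf (nat_lit 0) (nat_lit 22964385930) (nat_lit 1292) (nat_lit 23142630887) (nat_lit 76) (nat_lit 22895001727) (nat_lit 365) (nat_lit 5) (nat_lit 382) (nat_lit 5) (nat_lit 366) (nat_lit 5) (nat_lit 444) (nat_lit 427) (nat_lit 149)))))) (XT.nd (nat_lit 546) (nat_lit 2736) (nat_lit 0) (XT.nd (nat_lit 234) (nat_lit 1216) (nat_lit 0) (XT.nd (nat_lit 78) (nat_lit 608) (nat_lit 0) (XT.lf (nat_lit 0) (nat_lit 14474544959) (nat_lit 836) (nat_lit 14733221873) (nat_lit 912) (nat_lit 40909571519) (nat_lit 354) (nat_lit 5) (nat_lit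 365) (nat_lit 5) (nat_lit 366) (nat_lit 5) (nat_lit 445) (nat_lit 427) (nat_lit 148)) (XT.nd (nat_lit 78) (nat_lit 608) (nat_lit 0) (XT.lf (nat_lit 0) (nat_lit 36042888747) (nat_lit 912) (nat_lit 17736326010) (nat_lit 76) (nat_lit 17474769808) (nat_lit 354) (nat_lit 5) (nat_lit 366) (nat_lit 5) (nat_lit 355) (nat_lit 5) (nat_lit 446) (nat_lit 427) (nat_lit 147)) (XT.lf (nat_lit 0) (nat_lit 21582086012) (nat_lit 608) (nat_lit 21853752474) (nat_lit 684) (nat_lit 28978308454) (nat_lit 346) (nat_lit 5) (nat_lit 354) (nat_lit 5) (nat_lit 355) (nat_lit 5) (nat_lit 447) (nat_lit 427) (nat_lit 146)))) (XT.nd (nat_lit 156) (nat_lit 608) (nat_lit 0) (XT.nd (nat_lit 78) (nat_lit 608) (nat_lit 0) (XT.lf (nat_lit 0) (nat_lit 51336926306) (nat_lit 684) (nat_lit 11268440565) (nat_lit 76) (nat_lit 10995156829) (nat_lit 346) (nat_lit 5) (nat_lit 355) (nat_lit 5) (nat_lit 347) (nat_lit 5) (nat_lit 448) (nat_lit 427)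 (nat_lit 145)) (XT.lf (nat_lit 0) (nat_lit 29847633146) (nat_lit 608) (nat_lit 30130169201) (nat_lit 684) (nat_lit 14829606746) (nat_lit 338) (nat_lit 5) (nat_lit 346) (nat_lit 5) (nat_lit 347) (nat_lit 5) (nat_lit 449) (nat_lit 427) (nat_lit 144))) (XT.nd (nat_lit 78) (nat_lit 608) (nat_lit 0) (XT.lf (nat_lit 0) (nat_lit 69024206211) (nat_lit 684) (nat_lit 3652466920) (nat_lit 76) (nat_lit 3369438871) (nat_lit 338) (nat_lit 5) (nat_lit 347) (nat_lit 5) (nat_lit 339) (nat_lit 5) (nat_lit 450) (nat_lit 427) (nat_lit 143)) (XT.lf (nat_lit 0) (nat_lit 1683013901) (nat_lit 608) (nat_lit 37954838207) (nat_lit 76) (nat_lit 37663342975) (nat_lit 330) (nat_lit 5) (nat_lit 338) (nat_lit 5) (nat_lit 331) (nat_lit 5) (nat_lit 451) (nat_lit 427) (nat_lit 142))))) (XT.nd (nat_lit 312) (nat_lit 1596) (nat_lit 0) (XT.nd (nat_lit 156) (nat_lit 532) (nat_lit 0) (XT.nd (nat_lit 78) (nat_lit 0) (nat_lit 0) (XT.lf (nat_lit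 0) (nat_lit 5147228589) (nat_lit 608) (nat_lit 5446944387) (nat_lit 684) (nat_lit 67995085211) (nat_lit 322) (nat_lit 5) (nat_lit 330) (nat_lit 5) (nat_lit 331) (nat_lit 5) (nat_lit 452) (nat_lit 427) (nat_lit 141)) (XT.lf (nat_lit 0) (nat_lit 20445403885) (nat_lit 684) (nat_lit 29874556036) (nat_lit 76) (nat_lit 29575821152) (nat_lit 322) (nat_lit 5) (nat_lit 331) (nat_lit 5) (nat_lit 323) (nat_lit 5) (nat_lit 453) (nat_lit 427) (nat_lit 140))) (XT.nd (nat_lit 78) (nat_lit 0) (nat_lit 0) (XT.lf (nat_lit 0) (nat_lit 15242945612) (nat_lit 532) (nat_lit 15549203478) (nat_lit 608) (nat_lit 50443351234) (nat_lit 315) (nat_lit 5) (nat_lit 322) (nat_lit 5) (nat_lit 323) (nat_lit 5) (nat_lit 454) (nat_lit 427) (nat_lit 139)) (XT.lf (nat_lit 0) (nat_lit 41948285814) (nat_lit 608) (nat_lit 20478292265) (nat_lit 76) (nat_lit 20173863398) (nat_lit 315) (nat_lit 5) (nat_lit 323) (nat_lit 5) (nat_lit 316) (nat_lit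 5) (nat_lit 455) (nat_lit 427) (nat_lit 138)))) (XT.nd (nat_lit 156) (nat_lit 1064) (nat_lit 0) (XT.nd (nat_lit 78) (nat_lit 0) (nat_lit 0) (XT.lf (nat_lit 0) (nat_lit 26769306839) (nat_lit 532) (nat_lit 27080620301) (nat_lit 608) (nat_lit 30144079111) (nat_lit 308) (nat_lit 5) (nat_lit 315) (nat_lit 5) (nat_lit 316) (nat_lit 5) (nat_lit 456) (nat_lit 427) (nat_lit 137)) (XT.lf (nat_lit 0) (nat_lit 66406653206) (nat_lit 608) (nat_lit 9661259583) (nat_lit 76) (nat_lit 9352524112) (nat_lit 308) (nat_lit 5) (nat_lit 316) (nat_lit 5) (nat_lit 309) (nat_lit 5) (nat_lit 457) (nat_lit 427) (nat_lit 136))) (XT.nd (nat_lit 78) (nat_lit 608) (nat_lit 0) (XT.lf (nat_lit 0) (nat_lit 39837840928) (nat_lit 456) (nat_lit 40152876778) (nat_lit 532) (nat_lit 6879423667) (nat_lit 302) (nat_lit 5) (nat_lit 308) (nat_lit 5) (nat_lit 309) (nat_lit 5) (nat_lit 458) (nat_lit 427) (nat_lit 135)) (XT.lf (nat_lit 0) (nat_lit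 2655896830) (nat_lit 532) (nat_lit 2977049554) (nat_lit 608) (nat_lit 82725061440) (nat_lit 294) (nat_lit 5) (nat_lit 301) (nat_lit 5) (nat_lit 302) (nat_lit 5) (nat_lit 459) (nat_lit 427) (nat_lit 134))))))) (XT.nd (nat_lit 50934) (nat_lit 0) (nat_lit 7144) (XT.nd (nat_lit 546) (nat_lit 760) (nat_lit 0) (XT.nd (nat_lit 234) (nat_lit 1368) (nat_lit 0) (XT.nd (nat_lit 78) (nat_lit 456) (nat_lit 0) (XT.lf (nat_lit 0) (nat_lit 19201091289) (nat_lit 608) (nat_lit 35490189944) (nat_lit 76) (nat_lit 35172625443) (nat_lit 294) (nat_lit 5) (nat_lit 302) (nat_lit 5) (nat_lit 295) (nat_lit 5) (nat_lit 460) (nat_lit 427) (nat_lit 133)) (XT.nd (nat_lit 78) (nat_lit 0) (nat_lit 0) (XT.lf (nat_lit 0) (nat_lit 16520494070) (nat_lit 456) (nat_lit 16843656376) (nat_lit 532) (nat_lit 58045195948) (nat_lit 288) (nat_lit 5) (nat_lit 294) (nat_lit 5) (nat_lit 295) (nat_lit 5) (nat_lit 461) (nat_lit 427) (nat_lit 132)) (XT.lf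 (nat_lit 0) (nat_lit 48526444004) (nat_lit 532) (nat_lit 22388250652) (nat_lit 76) (nat_lit 22069224372) (nat_lit 288) (nat_lit 5) (nat_lit 295) (nat_lit 5) (nat_lit 289) (nat_lit 5) (nat_lit 462) (nat_lit 427) (nat_lit 131)))) (XT.nd (nat_lit 156) (nat_lit 912) (nat_lit 0) (XT.nd (nat_lit 78) (nat_lit 0) (nat_lit 0) (XT.lf (nat_lit 0) (nat_lit 32147427112) (nat_lit 456) (nat_lit 32471576178) (nat_lit 532) (nat_lit 29972463641) (nat_lit 282) (nat_lit 5) (nat_lit 288) (nat_lit 5) (nat_lit 289) (nat_lit 5) (nat_lit 463) (nat_lit 427) (nat_lit 130)) (XT.lf (nat_lit 0) (nat_lit 81490756685) (nat_lit 532) (nat_lit 7533564307) (nat_lit 76) (nat_lit 7214027760) (nat_lit 282) (nat_lit 5) (nat_lit 289) (nat_lit 5) (nat_lit 283) (nat_lit 5) (nat_lit 464) (nat_lit 427) (nat_lit 129))) (XT.nd (nat_lit 78) (nat_lit 456) (nat_lit 0) (XT.lf (nat_lit 0) (nat_lit 1722304623) (nat_lit 456) (nat_lit 48256046259) (nat_lit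 76) (nat_lit 47931821638) (nat_lit 276) (nat_lit 5) (nat_lit 282) (nat_lit 5) (nat_lit 277) (nat_lit 5) (nat_lit 465) (nat_lit 427) (nat_lit 128)) (XT.lf (nat_lit 0) (nat_lit 9112580217) (nat_lit 456) (nat_lit 9441356366) (nat_lit 532) (nat_lit 81068912433) (nat_lit 270) (nat_lit 5) (nat_lit 276) (nat_lit 5) (nat_lit 277) (nat_lit 5) (nat_lit 466) (nat_lit 427) (nat_lit 127))))) (XT.nd (nat_lit 50076) (nat_lit 0) (nat_lit 8664) (XT.nd (nat_lit 156) (nat_lit 380) (nat_lit 0) (XT.nd (nat_lit 78) (nat_lit 380) (nat_lit 0) (XT.lf (nat_lit 0) (nat_lit 36692866393) (nat_lit 532) (nat_lit 32496729673) (nat_lit 76) (nat_lit 32173239276) (nat_lit 270) (nat_lit 5) (nat_lit 277) (nat_lit 5) (nat_lit 271) (nat_lit 5) (nat_lit 467) (nat_lit 427) (nat_lit 126)) (XT.lf (nat_lit 0) (nat_lit 27703868451) (nat_lit 380) (nat_lit 28031524141) (nat_lit 456) (nat_lit 47408845809) (nat_lit 265) (nat_lit 5) (nat_lit 270) (nat_lit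 5) (nat_lit 271) (nat_lit 5) (nat_lit 468) (nat_lit 427) (nat_lit 125))) (XT.nd (nat_lit 78) (nat_lit 380) (nat_lit 0) (XT.lf (nat_lit 0) (nat_lit 75818294370) (nat_lit 456) (nat_lit 14734377348) (nat_lit 76) (nat_lit 14412338840) (nat_lit 265) (nat_lit 5) (nat_lit 271) (nat_lit 5) (nat_lit 266) (nat_lit 5) (nat_lit 469) (nat_lit 427) (nat_lit 124)) (XT.lf (nat_lit 0) (nat_lit 48460431130) (nat_lit 380) (nat_lit 48786281472) (nat_lit 456) (nat_lit 9571402397) (nat_lit 260) (nat_lit 5) (nat_lit 265) (nat_lit 5) (nat_lit 266) (nat_lit 5) (nat_lit 470) (nat_lit 427) (nat_lit 123)))) (XT.nd (nat_lit 156) (nat_lit 0) (nat_lit 76) (XT.nd (nat_lit 78) (nat_lit 0) (nat_lit 0) (XT.lf (nat_lit 0) (nat_lit 17049414431) (nat_lit 1292) (nat_lit 5154601603) (nat_lit 1292) (nat_lit 5154601603) (nat_lit 374) (nat_lit 3) (nat_lit 391) (nat_lit 3) (nat_lit 391) (nat_lit 5) (nat_lit 428) (nat_lit 428) (nat_lit 164)) (XT.lf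 (nat_lit 76) (nat_lit 17388731208) (nat_lit 0) (nat_lit 17410534906) (nat_lit 1292) (nat_lit 20733059047) (nat_lit 375) (nat_lit 5) (nat_lit 374) (nat_lit 3) (nat_lit 391) (nat_lit 5) (nat_lit 429) (nat_lit 428) (nat_lit 163))) (XT.nd (nat_lit 78) (nat_lit 0) (nat_lit 0) (XT.lf (nat_lit 0) (nat_lit 35724939873) (nat_lit 1216) (nat_lit 10341260941) (nat_lit 1292) (nat_lit 10299540226) (nat_lit 375) (nat_lit 5) (nat_lit 391) (nat_lit 5) (nat_lit 392) (nat_lit 5) (nat_lit 430) (nat_lit 428) (nat_lit 162)) (XT.lf (nat_lit 76) (nat_lit 18482967133) (nat_lit 0) (nat_lit 18544641319) (nat_lit 1292) (nat_lit 20186074206) (nat_lit 376) (nat_lit 5) (nat_lit 375) (nat_lit 5) (nat_lit 392) (nat_lit 5) (nat_lit 431) (nat_lit 428) (nat_lit 161)))))) (XT.nd (nat_lit 624) (nat_lit 1672) (nat_lit 0) (XT.nd (nat_lit 312) (nat_lit 0) (nat_lit 152) (XT.nd (nat_lit 156) (nat_lit 0) (nat_lit 76) (XT.nd (nat_lit 78) (nat_lit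 0) (nat_lit 0) (XT.lf (nat_lit 0) (nat_lit 38568242231) (nat_lit 1216) (nat_lit 9795769825) (nat_lit 1292) (nat_lit 9717083913) (nat_lit 376) (nat_lit 5) (nat_lit 392) (nat_lit 5) (nat_lit 393) (nat_lit 5) (nat_lit 432) (nat_lit 428) (nat_lit 160)) (XT.lf (nat_lit 76) (nat_lit 20217661806) (nat_lit 0) (nat_lit 20314607971) (nat_lit 1292) (nat_lit 18430946661) (nat_lit 377) (nat_lit 5) (nat_lit 376) (nat_lit 5) (nat_lit 393) (nat_lit 5) (nat_lit 433) (nat_lit 428) (nat_lit 159))) (XT.nd (nat_lit 78) (nat_lit 0) (nat_lit 0) (XT.lf (nat_lit 0) (nat_lit 42736797017) (nat_lit 1216) (nat_lit 8620445334) (nat_lit 1292) (nat_lit 8509110803) (nat_lit 377) (nat_lit 5) (nat_lit 393) (nat_lit 5) (nat_lit 394) (nat_lit 5) (nat_lit 434) (nat_lit 428) (nat_lit 158)) (XT.lf (nat_lit 76) (nat_lit 22648763204) (nat_lit 0) (nat_lit 22776808454) (nat_lit 1292) (nat_lit 15358468967) (nat_lit 378) (nat_lit 5) (nat_lit 377)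 (nat_lit 5) (nat_lit 394) (nat_lit 5) (nat_lit 435) (nat_lit 428) (nat_lit 157)))) (XT.nd (nat_lit 156) (nat_lit 0) (nat_lit 76) (XT.nd (nat_lit 78) (nat_lit 0) (nat_lit 0) (XT.lf (nat_lit 0) (nat_lit 48346233355) (nat_lit 1216) (nat_lit 6759277941) (nat_lit 1292) (nat_lit 6619210710) (nat_lit 378) (nat_lit 5) (nat_lit 394) (nat_lit 5) (nat_lit 395) (nat_lit 5) (nat_lit 436) (nat_lit 428) (nat_lit 156)) (XT.lf (nat_lit 76) (nat_lit 25836162107) (nat_lit 0) (nat_lit 25991522013) (nat_lit 1292) (nat_lit 10851744630) (nat_lit 379) (nat_lit 5) (nat_lit 378) (nat_lit 5) (nat_lit 395) (nat_lit 5) (nat_lit 437) (nat_lit 428) (nat_lit 155))) (XT.nd (nat_lit 78) (nat_lit 0) (nat_lit 0) (XT.lf (nat_lit 0) (nat_lit 55520241482) (nat_lit 1216) (nat_lit 4152292498) (nat_lit 1292) (nat_lit 3987042825) (nat_lit 379) (nat_lit 5) (nat_lit 395) (nat_lit 5) (nat_lit 396) (nat_lit 5) (nat_lit 438) (nat_lit 428) (nat_lit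 154)) (XT.lf (nat_lit 76) (nat_lit 29843945843) (nat_lit 0) (nat_lit 30023190479) (nat_lit 1292) (nat_lit 4785686158) (nat_lit 380) (nat_lit 5) (nat_lit 379) (nat_lit 5) (nat_lit 396) (nat_lit 5) (nat_lit 439) (nat_lit 428) (nat_lit 153))))) (XT.nd (nat_lit 312) (nat_lit 684) (nat_lit 0) (XT.nd (nat_lit 156) (nat_lit 0) (nat_lit 0) (XT.nd (nat_lit 78) (nat_lit 1292) (nat_lit 0) (XT.lf (nat_lit 0) (nat_lit 64391096591) (nat_lit 1216) (nat_lit 735292345) (nat_lit 1292) (nat_lit 548076831) (nat_lit 380) (nat_lit 5) (nat_lit 396) (nat_lit 5) (nat_lit 397) (nat_lit 5) (nat_lit 440) (nat_lit 428) (nat_lit 152)) (XT.lf (nat_lit 0) (nat_lit 2915494202) (nat_lit 1292) (nat_lit 31995756019) (nat_lit 1368) (nat_lit 31795733130) (nat_lit 363) (nat_lit 5) (nat_lit 380) (nat_lit 5) (nat_lit 381) (nat_lit 5) (nat_lit 441) (nat_lit 428) (nat_lit 151))) (XT.nd (nat_lit 78) (nat_lit 0) (nat_lit 76) (XT.lf (nat_lit 76)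 (nat_lit 3521401631) (nat_lit 0) (nat_lit 3733858864) (nat_lit 1368) (nat_lit 60513612825) (nat_lit 364) (nat_lit 5) (nat_lit 363) (nat_lit 5) (nat_lit 381) (nat_lit 5) (nat_lit 442) (nat_lit 428) (nat_lit 150)) (XT.lf (nat_lit 0) (nat_lit 12323705454) (nat_lit 1292) (nat_lit 28369474842) (nat_lit 1368) (nat_lit 28151485122) (nat_lit 364) (nat_lit 5) (nat_lit 381) (nat_lit 5) (nat_lit 382) (nat_lit 5) (nat_lit 443) (nat_lit 428) (nat_lit 149)))) (XT.nd (nat_lit 156) (nat_lit 760) (nat_lit 0) (XT.nd (nat_lit 78) (nat_lit 0) (nat_lit 76) (XT.lf (nat_lit 76) (nat_lit 8717508372) (nat_lit 0) (nat_lit 8946877278) (nat_lit 1368) (nat_lit 52284740172) (nat_lit 365) (nat_lit 5) (nat_lit 364) (nat_lit 5) (nat_lit 382) (nat_lit 5) (nat_lit 444) (nat_lit 428) (nat_lit 148)) (XT.lf (nat_lit 0) (nat_lit 23682343788) (nat_lit 1292) (nat_lit 23811139378) (nat_lit 76) (nat_lit 23577725145) (nat_lit 365) (nat_lit 5)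 (nat_lit 382) (nat_lit 5) (nat_lit 366) (nat_lit 5) (nat_lit 445) (nat_lit 428) (nat_lit 147))) (XT.nd (nat_lit 78) (nat_lit 0) (nat_lit 0) (XT.lf (nat_lit 0) (nat_lit 14934299092) (nat_lit 836) (nat_lit 15178126893) (nat_lit 912) (nat_lit 42107579733) (nat_lit 354) (nat_lit 5) (nat_lit 365) (nat_lit 5) (nat_lit 366) (nat_lit 5) (nat_lit 446) (nat_lit 428) (nat_lit 146)) (XT.lf (nat_lit 0) (nat_lit 37151746468) (nat_lit 912) (nat_lit 18242786154) (nat_lit 76) (nat_lit 17996244348) (nat_lit 354) (nat_lit 5) (nat_lit 366) (nat_lit 5) (nat_lit 355) (nat_lit 5) (nat_lit 447) (nat_lit 428) (nat_lit 145))))))))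
noncomputable def xc246 : XT := (XT.nd (nat_lit 52260) (nat_lit 0) (nat_lit 836) (XT.nd (nat_lit 1170) (nat_lit 1748) (nat_lit 0) (XT.nd (nat_lit 546) (nat_lit 2584) (nat_lit 0) (XT.nd (nat_lit 234) (nat_lit 1216) (nat_lit 0) (XT.nd (nat_lit 78) (nat_lit 608) (nat_lit 0) (XT.lf (nat_lit 0) (nat_lit 22254926958) (nat_lit 608) (nat_lit 22510998653) (nat_lit 684) (nat_lit 29819835378) (nat_lit 346) (nat_lit 5) (nat_lit 354) (nat_lit 5) (nat_lit 355) (nat_lit 5) (nat_lit 448) (nat_lit 428) (nat_lit 144)) (XT.nd (nat_lit 78) (nat_lit 608) (nat_lit 0) (XT.lf (nat_lit 0) (nat_lit 52903244063) (nat_lit 684) (nat_lit 11581052590) (nat_lit 76) (nat_lit 11323456458) (nat_lit 346) (nat_lit 5) (nat_lit 355) (nat_lit 5) (nat_lit 347) (nat_lit 5) (nat_lit 449) (nat_lit 428) (nat_lit 143)) (XT.lf (nat_lit 0) (nat_lit 30768253909) (nat_lit 608) (nat_lit 31034571239) (nat_lit 684) (nat_lit 15248035556) (nat_lit 338)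 (nat_lit 5) (nat_lit 346) (nat_lit 5) (nat_lit 347) (nat_lit 5) (nat_lit 450) (nat_lit 428) (nat_lit 142)))) (XT.nd (nat_lit 156) (nat_lit 608) (nat_lit 0) (XT.nd (nat_lit 78) (nat_lit 608) (nat_lit 0) (XT.lf (nat_lit 0) (nat_lit 71119868274) (nat_lit 684) (nat_lit 3736830047) (nat_lit 76) (nat_lit 3470048966) (nat_lit 338) (nat_lit 5) (nat_lit 347) (nat_lit 5) (nat_lit 339) (nat_lit 5) (nat_lit 451) (nat_lit 428) (nat_lit 141)) (XT.lf (nat_lit 0) (nat_lit 1758195948) (nat_lit 608) (nat_lit 39068028226) (nat_lit 76) (nat_lit 38793266013) (nat_lit 330) (nat_lit 5) (nat_lit 338) (nat_lit 5) (nat_lit 331) (nat_lit 5) (nat_lit 452) (nat_lit 428) (nat_lit 140))) (XT.nd (nat_lit 78) (nat_lit 0) (nat_lit 0) (XT.lf (nat_lit 0) (nat_lit 5326851014) (nat_lit 608) (nat_lit 5609361900) (nat_lit 684) (nat_lit 70009996577) (nat_lit 322) (nat_lit 5) (nat_lit 330) (nat_lit 5) (nat_lit 331) (nat_lit 5) (nat_lit 453)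 (nat_lit 428) (nat_lit 139)) (XT.lf (nat_lit 0) (nat_lit 21082284713) (nat_lit 684) (nat_lit 30745625255) (nat_lit 76) (nat_lit 30464038976) (nat_lit 322) (nat_lit 5) (nat_lit 331) (nat_lit 5) (nat_lit 323) (nat_lit 5) (nat_lit 454) (nat_lit 428) (nat_lit 138))))) (XT.nd (nat_lit 312) (nat_lit 1520) (nat_lit 0) (XT.nd (nat_lit 156) (nat_lit 532) (nat_lit 0) (XT.nd (nat_lit 78) (nat_lit 0) (nat_lit 0) (XT.lf (nat_lit 0) (nat_lit 15725154702) (nat_lit 532) (nat_lit 16013832114) (nat_lit 608) (nat_lit 51932886320) (nat_lit 315) (nat_lit 5) (nat_lit 322) (nat_lit 5) (nat_lit 323) (nat_lit 5) (nat_lit 455) (nat_lit 428) (nat_lit 137)) (XT.lf (nat_lit 0) (nat_lit 43229152847) (nat_lit 608) (nat_lit 21067791363) (nat_lit 76) (nat_lit 20780837958) (nat_lit 315) (nat_lit 5) (nat_lit 323) (nat_lit 5) (nat_lit 316) (nat_lit 5) (nat_lit 456) (nat_lit 428) (nat_lit 136))) (XT.nd (nat_lit 78) (nat_lit 0) (nat_lit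 0) (XT.lf (nat_lit 0) (nat_lit 27596992090) (nat_lit 532) (nat_lit 27890434886) (nat_lit 608) (nat_lit 31025739401) (nat_lit 308) (nat_lit 5) (nat_lit 315) (nat_lit 5) (nat_lit 316) (nat_lit 5) (nat_lit 457) (nat_lit 428) (nat_lit 135)) (XT.lf (nat_lit 0) (nat_lit 68420238291) (nat_lit 608) (nat_lit 9926591472) (nat_lit 76) (nat_lit 9635578681) (nat_lit 308) (nat_lit 5) (nat_lit 316) (nat_lit 5) (nat_lit 309) (nat_lit 5) (nat_lit 458) (nat_lit 428) (nat_lit 134)))) (XT.nd (nat_lit 156) (nat_lit 456) (nat_lit 0) (XT.nd (nat_lit 78) (nat_lit 608) (nat_lit 0) (XT.lf (nat_lit 0) (nat_lit 41057241800) (nat_lit 456) (nat_lit 41354193303) (nat_lit 532) (nat_lit 7064180634) (nat_lit 302) (nat_lit 5) (nat_lit 308) (nat_lit 5) (nat_lit 309) (nat_lit 5) (nat_lit 459) (nat_lit 428) (nat_lit 133)) (XT.lf (nat_lit 0) (nat_lit 2760019340) (nat_lit 532) (nat_lit 3062736583) (nat_lit 608) (nat_lit 85185367501) (nat_lit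 294) (nat_lit 5) (nat_lit 301) (nat_lit 5) (nat_lit 302) (nat_lit 5) (nat_lit 460) (nat_lit 428) (nat_lit 132))) (XT.nd (nat_lit 78) (nat_lit 456) (nat_lit 0) (XT.lf (nat_lit 0) (nat_lit 19797372559) (nat_lit 608) (nat_lit 36530589430) (nat_lit 76) (nat_lit 36231254431) (nat_lit 294) (nat_lit 5) (nat_lit 302) (nat_lit 5) (nat_lit 295) (nat_lit 5) (nat_lit 461) (nat_lit 428) (nat_lit 131)) (XT.lf (nat_lit 0) (nat_lit 17040176809) (nat_lit 456) (nat_lit 17344788276) (nat_lit 532) (nat_lit 59766064998) (nat_lit 288) (nat_lit 5) (nat_lit 294) (nat_lit 5) (nat_lit 295) (nat_lit 5) (nat_lit 462) (nat_lit 428) (nat_lit 130)))))) (XT.nd (nat_lit 50466) (nat_lit 0) (nat_lit 8284) (XT.nd (nat_lit 234) (nat_lit 1292) (nat_lit 0) (XT.nd (nat_lit 78) (nat_lit 456) (nat_lit 0) (XT.lf (nat_lit 0) (nat_lit 50001587114) (nat_lit 532) (nat_lit 23035990929) (nat_lit 76) (nat_lit 22735278062) (nat_lit 288) (nat_lit 5)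 (nat_lit 295) (nat_lit 5) (nat_lit 289) (nat_lit 5) (nat_lit 463) (nat_lit 428) (nat_lit 129)) (XT.nd (nat_lit 78) (nat_lit 0) (nat_lit 0) (XT.lf (nat_lit 0) (nat_lit 33135522784) (nat_lit 456) (nat_lit 33441064367) (nat_lit 532) (nat_lit 30852053375) (nat_lit 282) (nat_lit 5) (nat_lit 288) (nat_lit 5) (nat_lit 289) (nat_lit 5) (nat_lit 464) (nat_lit 428) (nat_lit 128)) (XT.lf (nat_lit 0) (nat_lit 83953982830) (nat_lit 532) (nat_lit 7736077561) (nat_lit 76) (nat_lit 7434883720) (nat_lit 282) (nat_lit 5) (nat_lit 289) (nat_lit 5) (nat_lit 283) (nat_lit 5) (nat_lit 465) (nat_lit 428) (nat_lit 127)))) (XT.nd (nat_lit 156) (nat_lit 380) (nat_lit 0) (XT.nd (nat_lit 78) (nat_lit 456) (nat_lit 0) (XT.lf (nat_lit 0) (nat_lit 1792341973) (nat_lit 456) (nat_lit 49680098738) (nat_lit 76) (nat_lit 49374485937) (nat_lit 276) (nat_lit 5) (nat_lit 282) (nat_lit 5) (nat_lit 277) (nat_lit 5) (nat_lit 466) (nat_lit 428)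 (nat_lit 126)) (XT.lf (nat_lit 0) (nat_lit 9409354876) (nat_lit 456) (nat_lit 9719257929) (nat_lit 532) (nat_lit 83482379938) (nat_lit 270) (nat_lit 5) (nat_lit 276) (nat_lit 5) (nat_lit 277) (nat_lit 5) (nat_lit 467) (nat_lit 428) (nat_lit 125))) (XT.nd (nat_lit 78) (nat_lit 380) (nat_lit 0) (XT.lf (nat_lit 0) (nat_lit 37811234372) (nat_lit 532) (nat_lit 33448439647) (nat_lit 76) (nat_lit 33143518923) (nat_lit 270) (nat_lit 5) (nat_lit 277) (nat_lit 5) (nat_lit 271) (nat_lit 5) (nat_lit 468) (nat_lit 428) (nat_lit 124)) (XT.lf (nat_lit 0) (nat_lit 28557949048) (nat_lit 380) (nat_lit 28866795961) (nat_lit 456) (nat_lit 48813301824) (nat_lit 265) (nat_lit 5) (nat_lit 270) (nat_lit 5) (nat_lit 271) (nat_lit 5) (nat_lit 469) (nat_lit 428) (nat_lit 123))))) (XT.nd (nat_lit 312) (nat_lit 0) (nat_lit 152) (XT.nd (nat_lit 156) (nat_lit 0) (nat_lit 76) (XT.nd (nat_lit 78) (nat_lit 0) (nat_lit 0) (XT.lf (nat_lit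 0) (nat_lit 17582490971) (nat_lit 1292) (nat_lit 5298118686) (nat_lit 1292) (nat_lit 5298118686) (nat_lit 374) (nat_lit 3) (nat_lit 391) (nat_lit 3) (nat_lit 391) (nat_lit 5) (nat_lit 429) (nat_lit 429) (nat_lit 162)) (XT.lf (nat_lit 76) (nat_lit 17932417016) (nat_lit 0) (nat_lit 17952969093) (nat_lit 1292) (nat_lit 21311644546) (nat_lit 375) (nat_lit 5) (nat_lit 374) (nat_lit 3) (nat_lit 391) (nat_lit 5) (nat_lit 430) (nat_lit 429) (nat_lit 161))) (XT.nd (nat_lit 78) (nat_lit 0) (nat_lit 0) (XT.lf (nat_lit 0) (nat_lit 36837414889) (nat_lit 1216) (nat_lit 10628701176) (nat_lit 1292) (nat_lit 10589375401) (nat_lit 375) (nat_lit 5) (nat_lit 391) (nat_lit 5) (nat_lit 392) (nat_lit 5) (nat_lit 431) (nat_lit 429) (nat_lit 160)) (XT.lf (nat_lit 76) (nat_lit 19060030233) (nat_lit 0) (nat_lit 19118164069) (nat_lit 1292) (nat_lit 20750706107) (nat_lit 376) (nat_lit 5) (nat_lit 375) (nat_lit 5) (nat_lit 392)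 (nat_lit 5) (nat_lit 432) (nat_lit 429) (nat_lit 159)))) (XT.nd (nat_lit 156) (nat_lit 0) (nat_lit 76) (XT.nd (nat_lit 78) (nat_lit 0) (nat_lit 0) (XT.lf (nat_lit 0) (nat_lit 39763728740) (nat_lit 1216) (nat_lit 10066407975) (nat_lit 1292) (nat_lit 9992238956) (nat_lit 376) (nat_lit 5) (nat_lit 392) (nat_lit 5) (nat_lit 393) (nat_lit 5) (nat_lit 433) (nat_lit 429) (nat_lit 158)) (XT.lf (nat_lit 76) (nat_lit 20847198811) (nat_lit 0) (nat_lit 20938579870) (nat_lit 1292) (nat_lit 18945208025) (nat_lit 377) (nat_lit 5) (nat_lit 376) (nat_lit 5) (nat_lit 393) (nat_lit 5) (nat_lit 434) (nat_lit 429) (nat_lit 157))) (XT.nd (nat_lit 78) (nat_lit 0) (nat_lit 0) (XT.lf (nat_lit 0) (nat_lit 44055212679) (nat_lit 1216) (nat_lit 8855492595) (nat_lit 1292) (nat_lit 8750549122) (nat_lit 377) (nat_lit 5) (nat_lit 393) (nat_lit 5) (nat_lit 394) (nat_lit 5) (nat_lit 435) (nat_lit 429) (nat_lit 156)) (XT.lf (nat_lit 76)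 (nat_lit 23351561159) (nat_lit 0) (nat_lit 23472256088) (nat_lit 1292) (nat_lit 15782680244) (nat_lit 378) (nat_lit 5) (nat_lit 377) (nat_lit 5) (nat_lit 394) (nat_lit 5) (nat_lit 436) (nat_lit 429) (nat_lit 155))))))) (XT.nd (nat_lit 1170) (nat_lit 4712) (nat_lit 0) (XT.nd (nat_lit 546) (nat_lit 1900) (nat_lit 0) (XT.nd (nat_lit 234) (nat_lit 1140) (nat_lit 0) (XT.nd (nat_lit 78) (nat_lit 0) (nat_lit 0) (XT.lf (nat_lit 0) (nat_lit 49830952112) (nat_lit 1216) (nat_lit 6938254200) (nat_lit 1292) (nat_lit 6806227401) (nat_lit 378) (nat_lit 5) (nat_lit 394) (nat_lit 5) (nat_lit 395) (nat_lit 5) (nat_lit 437) (nat_lit 429) (nat_lit 154)) (XT.nd (nat_lit 78) (nat_lit 0) (nat_lit 76) (XT.lf (nat_lit 76) (nat_lit 26634815696) (nat_lit 0) (nat_lit 26781257308) (nat_lit 1292) (nat_lit 11142731859) (nat_lit 379) (nat_lit 5) (nat_lit 378) (nat_lit 5) (nat_lit 395) (nat_lit 5) (nat_lit 438) (nat_lit 429) (nat_lit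 153)) (XT.lf (nat_lit 0) (nat_lit 57218336429) (nat_lit 1216) (nat_lit 4252908358) (nat_lit 1292) (nat_lit 4097144692) (nat_lit 379) (nat_lit 5) (nat_lit 395) (nat_lit 5) (nat_lit 396) (nat_lit 5) (nat_lit 439) (nat_lit 429) (nat_lit 152)))) (XT.nd (nat_lit 156) (nat_lit 1216) (nat_lit 0) (XT.nd (nat_lit 78) (nat_lit 0) (nat_lit 76) (XT.lf (nat_lit 76) (nat_lit 30762982301) (nat_lit 0) (nat_lit 30931937562) (nat_lit 1292) (nat_lit 4896534208) (nat_lit 380) (nat_lit 5) (nat_lit 379) (nat_lit 5) (nat_lit 396) (nat_lit 5) (nat_lit 440) (nat_lit 429) (nat_lit 151)) (XT.lf (nat_lit 0) (nat_lit 66353598475) (nat_lit 1216) (nat_lit 733323387) (nat_lit 1292) (nat_lit 556854808) (nat_lit 380) (nat_lit 5) (nat_lit 396) (nat_lit 5) (nat_lit 397) (nat_lit 5) (nat_lit 441) (nat_lit 429) (nat_lit 150))) (XT.nd (nat_lit 78) (nat_lit 0) (nat_lit 0) (XT.lf (nat_lit 0) (nat_lit 3033358571) (nat_lit 1292) (nat_lit 32931231526)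 (nat_lit 1368) (nat_lit 32742690769) (nat_lit 363) (nat_lit 5) (nat_lit 380) (nat_lit 5) (nat_lit 381) (nat_lit 5) (nat_lit 442) (nat_lit 429) (nat_lit 149)) (XT.lf (nat_lit 76) (nat_lit 3651201666) (nat_lit 0) (nat_lit 3851462984) (nat_lit 1368) (nat_lit 62298382479) (nat_lit 364) (nat_lit 5) (nat_lit 363) (nat_lit 5) (nat_lit 381) (nat_lit 5) (nat_lit 443) (nat_lit 429) (nat_lit 148))))) (XT.nd (nat_lit 312) (nat_lit 1216) (nat_lit 0) (XT.nd (nat_lit 156) (nat_lit 760) (nat_lit 0) (XT.nd (nat_lit 78) (nat_lit 0) (nat_lit 0) (XT.lf (nat_lit 0) (nat_lit 12722244405) (nat_lit 1292) (nat_lit 29196186180) (nat_lit 1368) (nat_lit 28990709961) (nat_lit 364) (nat_lit 5) (nat_lit 381) (nat_lit 5) (nat_lit 382) (nat_lit 5) (nat_lit 444) (nat_lit 429) (nat_lit 147)) (XT.lf (nat_lit 76) (nat_lit 9003167580) (nat_lit 0) (nat_lit 9219369773) (nat_lit 1368) (nat_lit 53824215639) (nat_lit 365) (nat_lit 5) (nat_lit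 364) (nat_lit 5) (nat_lit 382) (nat_lit 5) (nat_lit 445) (nat_lit 429) (nat_lit 146))) (XT.nd (nat_lit 78) (nat_lit 836) (nat_lit 0) (XT.lf (nat_lit 0) (nat_lit 24420174155) (nat_lit 1292) (nat_lit 24501182453) (nat_lit 76) (nat_lit 24281167152) (nat_lit 365) (nat_lit 5) (nat_lit 382) (nat_lit 5) (nat_lit 366) (nat_lit 5) (nat_lit 446) (nat_lit 429) (nat_lit 145)) (XT.lf (nat_lit 0) (nat_lit 15406381024) (nat_lit 836) (nat_lit 15636212111) (nat_lit 912) (nat_lit 43343208923) (nat_lit 354) (nat_lit 5) (nat_lit 365) (nat_lit 5) (nat_lit 366) (nat_lit 5) (nat_lit 447) (nat_lit 429) (nat_lit 144)))) (XT.nd (nat_lit 156) (nat_lit 608) (nat_lit 0) (XT.nd (nat_lit 78) (nat_lit 608) (nat_lit 0) (XT.lf (nat_lit 0) (nat_lit 38292287230) (nat_lit 912) (nat_lit 18765911348) (nat_lit 76) (nat_lit 18533522051) (nat_lit 354) (nat_lit 5) (nat_lit 366) (nat_lit 5) (nat_lit 355) (nat_lit 5) (nat_lit 448) (nat_lit 429)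 (nat_lit 143)) (XT.lf (nat_lit 0) (nat_lit 22946496310) (nat_lit 608) (nat_lit 23187868443) (nat_lit 684) (nat_lit 30688205225) (nat_lit 346) (nat_lit 5) (nat_lit 354) (nat_lit 5) (nat_lit 355) (nat_lit 5) (nat_lit 449) (nat_lit 429) (nat_lit 142))) (XT.nd (nat_lit 78) (nat_lit 608) (nat_lit 0) (XT.lf (nat_lit 0) (nat_lit 54515046794) (nat_lit 684) (nat_lit 11904503404) (nat_lit 76) (nat_lit 11661694344) (nat_lit 346) (nat_lit 5) (nat_lit 355) (nat_lit 5) (nat_lit 347) (nat_lit 5) (nat_lit 450) (nat_lit 429) (nat_lit 141)) (XT.lf (nat_lit 0) (nat_lit 31715047184) (nat_lit 608) (nat_lit 31966076810) (nat_lit 684) (nat_lit 15680536109) (nat_lit 338) (nat_lit 5) (nat_lit 346) (nat_lit 5) (nat_lit 347) (nat_lit 5) (nat_lit 451) (nat_lit 429) (nat_lit 140)))))) (XT.nd (nat_lit 624) (nat_lit 2432) (nat_lit 0) (XT.nd (nat_lit 312) (nat_lit 1064) (nat_lit 0) (XT.nd (nat_lit 156) (nat_lit 608) (nat_lit 0) (XT.nd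 (nat_lit 78) (nat_lit 608) (nat_lit 0) (XT.lf (nat_lit 0) (nat_lit 73276968778) (nat_lit 684) (nat_lit 3825171275) (nat_lit 76) (nat_lit 3573704519) (nat_lit 338) (nat_lit 5) (nat_lit 347) (nat_lit 5) (nat_lit 339) (nat_lit 5) (nat_lit 452) (nat_lit 429) (nat_lit 139)) (XT.lf (nat_lit 0) (nat_lit 1834216056) (nat_lit 608) (nat_lit 40216075174) (nat_lit 76) (nat_lit 39957085436) (nat_lit 330) (nat_lit 5) (nat_lit 338) (nat_lit 5) (nat_lit 331) (nat_lit 5) (nat_lit 453) (nat_lit 429) (nat_lit 138))) (XT.nd (nat_lit 78) (nat_lit 0) (nat_lit 0) (XT.lf (nat_lit 0) (nat_lit 5510415209) (nat_lit 608) (nat_lit 5776708814) (nat_lit 684) (nat_lit 72086787010) (nat_lit 322) (nat_lit 5) (nat_lit 330) (nat_lit 5) (nat_lit 331) (nat_lit 5) (nat_lit 454) (nat_lit 429) (nat_lit 137)) (XT.lf (nat_lit 0) (nat_lit 21736921895) (nat_lit 684) (nat_lit 31644271267) (nat_lit 76) (nat_lit 31378849191) (nat_lit 322) (nat_lit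 5) (nat_lit 331) (nat_lit 5) (nat_lit 323) (nat_lit 5) (nat_lit 455) (nat_lit 429) (nat_lit 136)))) (XT.nd (nat_lit 156) (nat_lit 532) (nat_lit 0) (XT.nd (nat_lit 78) (nat_lit 0) (nat_lit 0) (XT.lf (nat_lit 0) (nat_lit 16220399513) (nat_lit 532) (nat_lit 16492505661) (nat_lit 608) (nat_lit 53468471693) (nat_lit 315) (nat_lit 5) (nat_lit 322) (nat_lit 5) (nat_lit 323) (nat_lit 5) (nat_lit 456) (nat_lit 429) (nat_lit 135)) (XT.lf (nat_lit 0) (nat_lit 44547158979) (nat_lit 608) (nat_lit 21676401906) (nat_lit 76) (nat_lit 21405920801) (nat_lit 315) (nat_lit 5) (nat_lit 323) (nat_lit 5) (nat_lit 316) (nat_lit 5) (nat_lit 457) (nat_lit 429) (nat_lit 134))) (XT.nd (nat_lit 78) (nat_lit 0) (nat_lit 0) (XT.lf (nat_lit 0) (nat_lit 28448095411) (nat_lit 532) (nat_lit 28724693390) (nat_lit 608) (nat_lit 31935150397) (nat_lit 308) (nat_lit 5) (nat_lit 315) (nat_lit 5) (nat_lit 316) (nat_lit 5) (nat_lit 458) (nat_lit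 429) (nat_lit 133)) (XT.lf (nat_lit 0) (nat_lit 70493003314) (nat_lit 608) (nat_lit 10201290057) (nat_lit 76) (nat_lit 9926982590) (nat_lit 308) (nat_lit 5) (nat_lit 316) (nat_lit 5) (nat_lit 309) (nat_lit 5) (nat_lit 459) (nat_lit 429) (nat_lit 132))))) (XT.nd (nat_lit 312) (nat_lit 912) (nat_lit 0) (XT.nd (nat_lit 156) (nat_lit 456) (nat_lit 0) (XT.nd (nat_lit 78) (nat_lit 608) (nat_lit 0) (XT.lf (nat_lit 0) (nat_lit 42311831751) (nat_lit 456) (nat_lit 42591737023) (nat_lit 532) (nat_lit 7255721717) (nat_lit 302) (nat_lit 5) (nat_lit 308) (nat_lit 5) (nat_lit 309) (nat_lit 5) (nat_lit 460) (nat_lit 429) (nat_lit 131)) (XT.lf (nat_lit 0) (nat_lit 2865862247) (nat_lit 532) (nat_lit 3151202283) (nat_lit 608) (nat_lit 87720713819) (nat_lit 294) (nat_lit 5) (nat_lit 301) (nat_lit 5) (nat_lit 302) (nat_lit 5) (nat_lit 461) (nat_lit 429) (nat_lit 130))) (XT.nd (nat_lit 78) (nat_lit 456) (nat_lit 0) (XT.lf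 (nat_lit 0) (nat_lit 20410379920) (nat_lit 608) (nat_lit 37603596176) (nat_lit 76) (nat_lit 37321444231) (nat_lit 294) (nat_lit 5) (nat_lit 302) (nat_lit 5) (nat_lit 295) (nat_lit 5) (nat_lit 462) (nat_lit 429) (nat_lit 129)) (XT.lf (nat_lit 0) (nat_lit 17574068432) (nat_lit 456) (nat_lit 17861193955) (nat_lit 532) (nat_lit 61539736147) (nat_lit 288) (nat_lit 5) (nat_lit 294) (nat_lit 5) (nat_lit 295) (nat_lit 5) (nat_lit 463) (nat_lit 429) (nat_lit 128)))) (XT.nd (nat_lit 156) (nat_lit 456) (nat_lit 0) (XT.nd (nat_lit 78) (nat_lit 456) (nat_lit 0) (XT.lf (nat_lit 0) (nat_lit 51519873761) (nat_lit 532) (nat_lit 23704535787) (nat_lit 76) (nat_lit 23421085069) (nat_lit 288) (nat_lit 5) (nat_lit 295) (nat_lit 5) (nat_lit 289) (nat_lit 5) (nat_lit 464) (nat_lit 429) (nat_lit 127)) (XT.lf (nat_lit 0) (nat_lit 34151902407) (nat_lit 456) (nat_lit 34439904653) (nat_lit 532) (nat_lit 31759155013) (nat_lit 282)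 (nat_lit 5) (nat_lit 288) (nat_lit 5) (nat_lit 289) (nat_lit 5) (nat_lit 465) (nat_lit 429) (nat_lit 126))) (XT.nd (nat_lit 78) (nat_lit 456) (nat_lit 0) (XT.lf (nat_lit 0) (nat_lit 86490043587) (nat_lit 532) (nat_lit 7946014846) (nat_lit 76) (nat_lit 7662110763) (nat_lit 282) (nat_lit 5) (nat_lit 289) (nat_lit 5) (nat_lit 283) (nat_lit 5) (nat_lit 466) (nat_lit 429) (nat_lit 125)) (XT.lf (nat_lit 0) (nat_lit 1863426034) (nat_lit 456) (nat_lit 51148229188) (nat_lit 76) (nat_lit 50860159812) (nat_lit 276) (nat_lit 5) (nat_lit 282) (nat_lit 5) (nat_lit 277) (nat_lit 5) (nat_lit 467) (nat_lit 429) (nat_lit 124))))))))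
noncomputable def xc247 : XT := (XT.nd (nat_lit 52416) (nat_lit 0) (nat_lit 0) (XT.nd (nat_lit 51168) (nat_lit 0) (nat_lit 3420) (XT.nd (nat_lit 50544) (nat_lit 0) (nat_lit 8056) (XT.nd (nat_lit 50232) (nat_lit 0) (nat_lit 7904) (XT.nd (nat_lit 78) (nat_lit 0) (nat_lit 0) (XT.lf (nat_lit 0) (nat_lit 9713689676) (nat_lit 456) (nat_lit 10005803027) (nat_lit 532) (nat_lit 85969319177) (nat_lit 270) (nat_lit 5) (nat_lit 276) (nat_lit 5) (nat_lit 277) (nat_lit 5) (nat_lit 468) (nat_lit 429) (nat_lit 123)) (XT.nd (nat_lit 50076) (nat_lit 0) (nat_lit 7904) (XT.lf (nat_lit 0) (nat_lit 38962144112) (nat_lit 532) (nat_lit 34430032232) (nat_lit 76) (nat_lit 34142615204) (nat_lit 270) (nat_lit 5) (nat_lit 277) (nat_lit 5) (nat_lit 271) (nat_lit 5) (nat_lit 469) (nat_lit 429) (nat_lit 122)) (XT.lf (nat_lit 0) (nat_lit 18130320217) (nat_lit 1292) (nat_lit 5446579671) (nat_lit 1292) (nat_lit 5446579671) (nat_lit 374)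 (nat_lit 3) (nat_lit 391) (nat_lit 3) (nat_lit 391) (nat_lit 5) (nat_lit 430) (nat_lit 430) (nat_lit 160)))) (XT.nd (nat_lit 156) (nat_lit 0) (nat_lit 76) (XT.nd (nat_lit 78) (nat_lit 0) (nat_lit 76) (XT.lf (nat_lit 76) (nat_lit 18491149139) (nat_lit 0) (nat_lit 18510521442) (nat_lit 1292) (nat_lit 21910079307) (nat_lit 375) (nat_lit 5) (nat_lit 374) (nat_lit 3) (nat_lit 391) (nat_lit 5) (nat_lit 431) (nat_lit 430) (nat_lit 159)) (XT.lf (nat_lit 0) (nat_lit 37980926269) (nat_lit 1216) (nat_lit 10926073294) (nat_lit 1292) (nat_lit 10889004979) (nat_lit 375) (nat_lit 5) (nat_lit 391) (nat_lit 5) (nat_lit 392) (nat_lit 5) (nat_lit 432) (nat_lit 430) (nat_lit 158))) (XT.nd (nat_lit 78) (nat_lit 0) (nat_lit 76) (XT.lf (nat_lit 76) (nat_lit 19653109382) (nat_lit 0) (nat_lit 19707906098) (nat_lit 1292) (nat_lit 21334627681) (nat_lit 376) (nat_lit 5) (nat_lit 375) (nat_lit 5) (nat_lit 392) (nat_lit 5) (nat_lit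 433) (nat_lit 430) (nat_lit 157)) (XT.lf (nat_lit 0) (nat_lit 40992873274) (nat_lit 1216) (nat_lit 10346499050) (nat_lit 1292) (nat_lit 10276587637) (nat_lit 376) (nat_lit 5) (nat_lit 392) (nat_lit 5) (nat_lit 393) (nat_lit 5) (nat_lit 434) (nat_lit 430) (nat_lit 156))))) (XT.nd (nat_lit 312) (nat_lit 0) (nat_lit 152) (XT.nd (nat_lit 156) (nat_lit 0) (nat_lit 76) (XT.nd (nat_lit 78) (nat_lit 0) (nat_lit 76) (XT.lf (nat_lit 76) (nat_lit 21494301222) (nat_lit 0) (nat_lit 21580436635) (nat_lit 1292) (nat_lit 19477116877) (nat_lit 377) (nat_lit 5) (nat_lit 376) (nat_lit 5) (nat_lit 393) (nat_lit 5) (nat_lit 435) (nat_lit 430) (nat_lit 155)) (XT.lf (nat_lit 0) (nat_lit 45411096368) (nat_lit 1216) (nat_lit 9098944065) (nat_lit 1292) (nat_lit 9000024776) (nat_lit 377) (nat_lit 5) (nat_lit 393) (nat_lit 5) (nat_lit 394) (nat_lit 5) (nat_lit 436) (nat_lit 430) (nat_lit 154))) (XT.nd (nat_lit 78) (nat_lit 0)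 (nat_lit 76) (XT.lf (nat_lit 76) (nat_lit 24074103525) (nat_lit 0) (nat_lit 24187870071) (nat_lit 1292) (nat_lit 16221715565) (nat_lit 378) (nat_lit 5) (nat_lit 377) (nat_lit 5) (nat_lit 394) (nat_lit 5) (nat_lit 437) (nat_lit 430) (nat_lit 153)) (XT.lf (nat_lit 0) (nat_lit 51358241649) (nat_lit 1216) (nat_lit 7123966083) (nat_lit 1292) (nat_lit 6999518163) (nat_lit 378) (nat_lit 5) (nat_lit 394) (nat_lit 5) (nat_lit 395) (nat_lit 5) (nat_lit 438) (nat_lit 430) (nat_lit 152)))) (XT.nd (nat_lit 156) (nat_lit 0) (nat_lit 76) (XT.nd (nat_lit 78) (nat_lit 0) (nat_lit 76) (XT.lf (nat_lit 76) (nat_lit 27456075951) (nat_lit 0) (nat_lit 27594111215) (nat_lit 1292) (nat_lit 11444432883) (nat_lit 379) (nat_lit 5) (nat_lit 378) (nat_lit 5) (nat_lit 395) (nat_lit 5) (nat_lit 439) (nat_lit 430) (nat_lit 151)) (XT.lf (nat_lit 0) (nat_lit 58965509297) (nat_lit 1216) (nat_lit 4357917689) (nat_lit 1292) (nat_lit 4211095495)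 (nat_lit 379) (nat_lit 5) (nat_lit 395) (nat_lit 5) (nat_lit 396) (nat_lit 5) (nat_lit 440) (nat_lit 430) (nat_lit 150))) (XT.nd (nat_lit 78) (nat_lit 0) (nat_lit 76) (XT.lf (nat_lit 76) (nat_lit 31708228338) (nat_lit 0) (nat_lit 31867484876) (nat_lit 1292) (nat_lit 5012586107) (nat_lit 380) (nat_lit 5) (nat_lit 379) (nat_lit 5) (nat_lit 396) (nat_lit 5) (nat_lit 441) (nat_lit 430) (nat_lit 149)) (XT.lf (nat_lit 0) (nat_lit 68373209151) (nat_lit 1216) (nat_lit 732674649) (nat_lit 1292) (nat_lit 566336089) (nat_lit 380) (nat_lit 5) (nat_lit 396) (nat_lit 5) (nat_lit 397) (nat_lit 5) (nat_lit 442) (nat_lit 430) (nat_lit 148)))))) (XT.nd (nat_lit 624) (nat_lit 2356) (nat_lit 0) (XT.nd (nat_lit 312) (nat_lit 1292) (nat_lit 0) (XT.nd (nat_lit 156) (nat_lit 0) (nat_lit 76) (XT.nd (nat_lit 78) (nat_lit 0) (nat_lit 0) (XT.lf (nat_lit 0) (nat_lit 3153013812) (nat_lit 1292) (nat_lit 33896171796) (nat_lit 1368)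 (nat_lit 33718454049) (nat_lit 363) (nat_lit 5) (nat_lit 380) (nat_lit 5) (nat_lit 381) (nat_lit 5) (nat_lit 443) (nat_lit 430) (nat_lit 147)) (XT.lf (nat_lit 76) (nat_lit 3783508934) (nat_lit 0) (nat_lit 3972274434) (nat_lit 1368) (nat_lit 64138454012) (nat_lit 364) (nat_lit 5) (nat_lit 363) (nat_lit 5) (nat_lit 381) (nat_lit 5) (nat_lit 444) (nat_lit 430) (nat_lit 146))) (XT.nd (nat_lit 78) (nat_lit 0) (nat_lit 0) (XT.lf (nat_lit 0) (nat_lit 13131084692) (nat_lit 1292) (nat_lit 30049097963) (nat_lit 1368) (nat_lit 29855416920) (nat_lit 364) (nat_lit 5) (nat_lit 381) (nat_lit 5) (nat_lit 382) (nat_lit 5) (nat_lit 445) (nat_lit 430) (nat_lit 145)) (XT.lf (nat_lit 76) (nat_lit 9296011177) (nat_lit 0) (nat_lit 9499802480) (nat_lit 1368) (nat_lit 55411543920) (nat_lit 365) (nat_lit 5) (nat_lit 364) (nat_lit 5) (nat_lit 382) (nat_lit 5) (nat_lit 446) (nat_lit 430) (nat_lit 144)))) (XT.nd (nat_lit 156) (nat_lit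 608) (nat_lit 0) (XT.nd (nat_lit 78) (nat_lit 836) (nat_lit 0) (XT.lf (nat_lit 0) (nat_lit 25178568854) (nat_lit 1292) (nat_lit 25213321229) (nat_lit 76) (nat_lit 25005935705) (nat_lit 365) (nat_lit 5) (nat_lit 382) (nat_lit 5) (nat_lit 366) (nat_lit 5) (nat_lit 447) (nat_lit 430) (nat_lit 143)) (XT.lf (nat_lit 0) (nat_lit 15891244675) (nat_lit 836) (nat_lit 16107882518) (nat_lit 912) (nat_lit 44617491239) (nat_lit 354) (nat_lit 5) (nat_lit 365) (nat_lit 5) (nat_lit 366) (nat_lit 5) (nat_lit 448) (nat_lit 430) (nat_lit 142))) (XT.nd (nat_lit 78) (nat_lit 608) (nat_lit 0) (XT.lf (nat_lit 0) (nat_lit 39465552375) (nat_lit 912) (nat_lit 19306117089) (nat_lit 76) (nat_lit 19087067887) (nat_lit 354) (nat_lit 5) (nat_lit 366) (nat_lit 5) (nat_lit 355) (nat_lit 5) (nat_lit 449) (nat_lit 430) (nat_lit 141)) (XT.lf (nat_lit 0) (nat_lit 23657439548) (nat_lit 608) (nat_lit 23884955933) (nat_lit 684) (nat_lit 31584131603)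 (nat_lit 346) (nat_lit 5) (nat_lit 354) (nat_lit 5) (nat_lit 355) (nat_lit 5) (nat_lit 450) (nat_lit 430) (nat_lit 140))))) (XT.nd (nat_lit 312) (nat_lit 1140) (nat_lit 0) (XT.nd (nat_lit 156) (nat_lit 608) (nat_lit 0) (XT.nd (nat_lit 78) (nat_lit 608) (nat_lit 0) (XT.lf (nat_lit 0) (nat_lit 56173785415) (nat_lit 684) (nat_lit 12239034336) (nat_lit 76) (nat_lit 12010163510) (nat_lit 346) (nat_lit 5) (nat_lit 355) (nat_lit 5) (nat_lit 347) (nat_lit 5) (nat_lit 451) (nat_lit 430) (nat_lit 139)) (XT.lf (nat_lit 0) (nat_lit 32688881160) (nat_lit 608) (nat_lit 32925500658) (nat_lit 684) (nat_lit 16127443365) (nat_lit 338) (nat_lit 5) (nat_lit 346) (nat_lit 5) (nat_lit 347) (nat_lit 5) (nat_lit 452) (nat_lit 430) (nat_lit 138))) (XT.nd (nat_lit 78) (nat_lit 608) (nat_lit 0) (XT.lf (nat_lit 0) (nat_lit 75497433044) (nat_lit 684) (nat_lit 3917526872) (nat_lit 76) (nat_lit 3680495337) (nat_lit 338) (nat_lit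 5) (nat_lit 347) (nat_lit 5) (nat_lit 339) (nat_lit 5) (nat_lit 453) (nat_lit 430) (nat_lit 137)) (XT.lf (nat_lit 0) (nat_lit 1911180731) (nat_lit 608) (nat_lit 41399940878) (nat_lit 76) (nat_lit 41155818211) (nat_lit 330) (nat_lit 5) (nat_lit 338) (nat_lit 5) (nat_lit 331) (nat_lit 5) (nat_lit 454) (nat_lit 430) (nat_lit 136)))) (XT.nd (nat_lit 156) (nat_lit 532) (nat_lit 0) (XT.nd (nat_lit 78) (nat_lit 0) (nat_lit 0) (XT.lf (nat_lit 0) (nat_lit 5698122486) (nat_lit 608) (nat_lit 5949129748) (nat_lit 684) (nat_lit 74227230696) (nat_lit 322) (nat_lit 5) (nat_lit 330) (nat_lit 5) (nat_lit 331) (nat_lit 5) (nat_lit 455) (nat_lit 430) (nat_lit 135)) (XT.lf (nat_lit 0) (nat_lit 22409925622) (nat_lit 684) (nat_lit 32571238441) (nat_lit 76) (nat_lit 32321052679) (nat_lit 322) (nat_lit 5) (nat_lit 331) (nat_lit 5) (nat_lit 323) (nat_lit 5) (nat_lit 456) (nat_lit 430) (nat_lit 134))) (XT.nd (nat_lit 78) (nat_lit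 0) (nat_lit 0) (XT.lf (nat_lit 0) (nat_lit 16729153237) (nat_lit 532) (nat_lit 16985639379) (nat_lit 608) (nat_lit 55051410549) (nat_lit 315) (nat_lit 5) (nat_lit 322) (nat_lit 5) (nat_lit 323) (nat_lit 5) (nat_lit 457) (nat_lit 430) (nat_lit 133)) (XT.lf (nat_lit 0) (nat_lit 45903492258) (nat_lit 608) (nat_lit 22304615353) (nat_lit 76) (nat_lit 22049660970) (nat_lit 315) (nat_lit 5) (nat_lit 323) (nat_lit 5) (nat_lit 316) (nat_lit 5) (nat_lit 458) (nat_lit 430) (nat_lit 132))))))) (XT.nd (nat_lit 51246) (nat_lit 0) (nat_lit 6384) (XT.nd (nat_lit 546) (nat_lit 1368) (nat_lit 0) (XT.nd (nat_lit 234) (nat_lit 1064) (nat_lit 0) (XT.nd (nat_lit 78) (nat_lit 456) (nat_lit 0) (XT.lf (nat_lit 0) (nat_lit 29323400426) (nat_lit 532) (nat_lit 29584120550) (nat_lit 608) (nat_lit 32873069942) (nat_lit 308) (nat_lit 5) (nat_lit 315) (nat_lit 5) (nat_lit 316) (nat_lit 5) (nat_lit 459) (nat_lit 430) (nat_lit 131))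 (XT.nd (nat_lit 78) (nat_lit 456) (nat_lit 0) (XT.lf (nat_lit 0) (nat_lit 72626794143) (nat_lit 608) (nat_lit 10485555586) (nat_lit 76) (nat_lit 10226994489) (nat_lit 308) (nat_lit 5) (nat_lit 316) (nat_lit 5) (nat_lit 309) (nat_lit 5) (nat_lit 460) (nat_lit 430) (nat_lit 130)) (XT.lf (nat_lit 0) (nat_lit 43602746414) (nat_lit 456) (nat_lit 43866583979) (nat_lit 532) (nat_lit 7454179176) (nat_lit 302) (nat_lit 5) (nat_lit 308) (nat_lit 5) (nat_lit 309) (nat_lit 5) (nat_lit 461) (nat_lit 430) (nat_lit 129)))) (XT.nd (nat_lit 156) (nat_lit 456) (nat_lit 0) (XT.nd (nat_lit 78) (nat_lit 0) (nat_lit 0) (XT.lf (nat_lit 0) (nat_lit 2973557718) (nat_lit 532) (nat_lit 3242518068) (nat_lit 608) (nat_lit 90333280934) (nat_lit 294) (nat_lit 5) (nat_lit 301) (nat_lit 5) (nat_lit 302) (nat_lit 5) (nat_lit 462) (nat_lit 430) (nat_lit 128)) (XT.lf (nat_lit 0) (nat_lit 21040681876) (nat_lit 608) (nat_lit 38710108307)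 (nat_lit 76) (nat_lit 38444153037) (nat_lit 294) (nat_lit 5) (nat_lit 302) (nat_lit 5) (nat_lit 295) (nat_lit 5) (nat_lit 463) (nat_lit 430) (nat_lit 127))) (XT.nd (nat_lit 78) (nat_lit 0) (nat_lit 0) (XT.lf (nat_lit 0) (nat_lit 18122674517) (nat_lit 456) (nat_lit 18393317861) (nat_lit 532) (nat_lit 63367725950) (nat_lit 288) (nat_lit 5) (nat_lit 294) (nat_lit 5) (nat_lit 295) (nat_lit 5) (nat_lit 464) (nat_lit 430) (nat_lit 126)) (XT.lf (nat_lit 0) (nat_lit 53082662012) (nat_lit 532) (nat_lit 24394430585) (nat_lit 76) (nat_lit 24127251097) (nat_lit 288) (nat_lit 5) (nat_lit 295) (nat_lit 5) (nat_lit 289) (nat_lit 5) (nat_lit 465) (nat_lit 430) (nat_lit 125))))) (XT.nd (nat_lit 50388) (nat_lit 0) (nat_lit 7904) (XT.nd (nat_lit 156) (nat_lit 912) (nat_lit 0) (XT.nd (nat_lit 78) (nat_lit 0) (nat_lit 0) (XT.lf (nat_lit 0) (nat_lit 35197492507) (nat_lit 456) (nat_lit 35468962246) (nat_lit 532) (nat_lit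 32694529377) (nat_lit 282) (nat_lit 5) (nat_lit 288) (nat_lit 5) (nat_lit 289) (nat_lit 5) (nat_lit 466) (nat_lit 430) (nat_lit 124)) (XT.lf (nat_lit 0) (nat_lit 89101184966) (nat_lit 532) (nat_lit 8163521466) (nat_lit 76) (nat_lit 7895914639) (nat_lit 282) (nat_lit 5) (nat_lit 289) (nat_lit 5) (nat_lit 283) (nat_lit 5) (nat_lit 467) (nat_lit 430) (nat_lit 123))) (XT.nd (nat_lit 78) (nat_lit 456) (nat_lit 0) (XT.lf (nat_lit 0) (nat_lit 1935648733) (nat_lit 456) (nat_lit 52661682085) (nat_lit 76) (nat_lit 52390149069) (nat_lit 276) (nat_lit 5) (nat_lit 282) (nat_lit 5) (nat_lit 277) (nat_lit 5) (nat_lit 468) (nat_lit 430) (nat_lit 122)) (XT.lf (nat_lit 0) (nat_lit 10025888522) (nat_lit 456) (nat_lit 10301233371) (nat_lit 532) (nat_lit 88531873011) (nat_lit 270) (nat_lit 5) (nat_lit 276) (nat_lit 5) (nat_lit 277) (nat_lit 5) (nat_lit 469) (nat_lit 430) (nat_lit 121)))) (XT.nd (nat_lit 156) (nat_lit 0)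 (nat_lit 76) (XT.nd (nat_lit 78) (nat_lit 0) (nat_lit 0) (XT.lf (nat_lit 0) (nat_lit 18693415908) (nat_lit 1292) (nat_lit 5600096227) (nat_lit 1292) (nat_lit 5600096227) (nat_lit 374) (nat_lit 3) (nat_lit 391) (nat_lit 3) (nat_lit 391) (nat_lit 5) (nat_lit 431) (nat_lit 431) (nat_lit 158)) (XT.lf (nat_lit 76) (nat_lit 19065451538) (nat_lit 0) (nat_lit 19083711792) (nat_lit 1292) (nat_lit 22528815776) (nat_lit 375) (nat_lit 5) (nat_lit 374) (nat_lit 3) (nat_lit 391) (nat_lit 5) (nat_lit 432) (nat_lit 431) (nat_lit 157))) (XT.nd (nat_lit 78) (nat_lit 0) (nat_lit 0) (XT.lf (nat_lit 0) (nat_lit 39156539309) (nat_lit 1216) (nat_lit 11233600127) (nat_lit 1292) (nat_lit 11198659685) (nat_lit 375) (nat_lit 5) (nat_lit 391) (nat_lit 5) (nat_lit 392) (nat_lit 5) (nat_lit 433) (nat_lit 431) (nat_lit 156)) (XT.lf (nat_lit 76) (nat_lit 20262759447) (nat_lit 0) (nat_lit 20314410608) (nat_lit 1292) (nat_lit 21938282678)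 (nat_lit 376) (nat_lit 5) (nat_lit 375) (nat_lit 5) (nat_lit 392) (nat_lit 5) (nat_lit 434) (nat_lit 431) (nat_lit 155)))))) (XT.nd (nat_lit 624) (nat_lit 1672) (nat_lit 0) (XT.nd (nat_lit 312) (nat_lit 0) (nat_lit 152) (XT.nd (nat_lit 156) (nat_lit 0) (nat_lit 76) (XT.nd (nat_lit 78) (nat_lit 0) (nat_lit 0) (XT.lf (nat_lit 0) (nat_lit 42256812241) (nat_lit 1216) (nat_lit 10636250074) (nat_lit 1292) (nat_lit 10570351862) (nat_lit 376) (nat_lit 5) (nat_lit 392) (nat_lit 5) (nat_lit 393) (nat_lit 5) (nat_lit 435) (nat_lit 431) (nat_lit 154)) (XT.lf (nat_lit 76) (nat_lit 22159571815) (nat_lit 0) (nat_lit 22240762702) (nat_lit 1292) (nat_lit 20027075223) (nat_lit 377) (nat_lit 5) (nat_lit 376) (nat_lit 5) (nat_lit 393) (nat_lit 5) (nat_lit 436) (nat_lit 431) (nat_lit 153))) (XT.nd (nat_lit 78) (nat_lit 0) (nat_lit 0) (XT.lf (nat_lit 0) (nat_lit 46805691781) (nat_lit 1216) (nat_lit 9350974213) (nat_lit 1292)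 (nat_lit 9257733296) (nat_lit 377) (nat_lit 5) (nat_lit 393) (nat_lit 5) (nat_lit 394) (nat_lit 5) (nat_lit 437) (nat_lit 431) (nat_lit 152)) (XT.lf (nat_lit 76) (nat_lit 24817059528) (nat_lit 0) (nat_lit 24924295409) (nat_lit 1292) (nat_lit 16675899234) (nat_lit 378) (nat_lit 5) (nat_lit 377) (nat_lit 5) (nat_lit 394) (nat_lit 5) (nat_lit 438) (nat_lit 431) (nat_lit 151)))) (XT.nd (nat_lit 156) (nat_lit 0) (nat_lit 76) (XT.nd (nat_lit 78) (nat_lit 0) (nat_lit 0) (XT.lf (nat_lit 0) (nat_lit 52929492220) (nat_lit 1216) (nat_lit 7316537227) (nat_lit 1292) (nat_lit 7199233126) (nat_lit 378) (nat_lit 5) (nat_lit 394) (nat_lit 5) (nat_lit 395) (nat_lit 5) (nat_lit 439) (nat_lit 431) (nat_lit 150)) (XT.lf (nat_lit 76) (nat_lit 28300698737) (nat_lit 0) (nat_lit 28430810212) (nat_lit 1292) (nat_lit 11757055216) (nat_lit 379) (nat_lit 5) (nat_lit 378) (nat_lit 5) (nat_lit 395) (nat_lit 5) (nat_lit 440) (nat_lit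 431) (nat_lit 149))) (XT.nd (nat_lit 78) (nat_lit 0) (nat_lit 0) (XT.lf (nat_lit 0) (nat_lit 60763339478) (nat_lit 1216) (nat_lit 4467373364) (nat_lit 1292) (nat_lit 4328979365) (nat_lit 379) (nat_lit 5) (nat_lit 395) (nat_lit 5) (nat_lit 396) (nat_lit 5) (nat_lit 441) (nat_lit 431) (nat_lit 148)) (XT.lf (nat_lit 76) (nat_lit 32680548397) (nat_lit 0) (nat_lit 32830662958) (nat_lit 1292) (nat_lit 5133890142) (nat_lit 380) (nat_lit 5) (nat_lit 379) (nat_lit 5) (nat_lit 396) (nat_lit 5) (nat_lit 442) (nat_lit 431) (nat_lit 147))))) (XT.nd (nat_lit 312) (nat_lit 684) (nat_lit 0) (XT.nd (nat_lit 156) (nat_lit 0) (nat_lit 0) (XT.nd (nat_lit 78) (nat_lit 1292) (nat_lit 0) (XT.lf (nat_lit 0) (nat_lit 70451743271) (nat_lit 1216) (nat_lit 733306563) (nat_lit 1292) (nat_lit 576516516) (nat_lit 380) (nat_lit 5) (nat_lit 396) (nat_lit 5) (nat_lit 397) (nat_lit 5) (nat_lit 443) (nat_lit 431) (nat_lit 146)) (XT.lf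 (nat_lit 0) (nat_lit 3274613826) (nat_lit 1292) (nat_lit 34891380377) (nat_lit 1368) (nat_lit 34723864356) (nat_lit 363) (nat_lit 5) (nat_lit 380) (nat_lit 5) (nat_lit 381) (nat_lit 5) (nat_lit 444) (nat_lit 431) (nat_lit 145))) (XT.nd (nat_lit 78) (nat_lit 0) (nat_lit 76) (XT.lf (nat_lit 76) (nat_lit 3918478259) (nat_lit 0) (nat_lit 4096407848) (nat_lit 1368) (nat_lit 66035385517) (nat_lit 364) (nat_lit 5) (nat_lit 363) (nat_lit 5) (nat_lit 381) (nat_lit 5) (nat_lit 445) (nat_lit 431) (nat_lit 144)) (XT.lf (nat_lit 0) (nat_lit 13550630349) (nat_lit 1292) (nat_lit 30928915889) (nat_lit 1368) (nat_lit 30746352930) (nat_lit 364) (nat_lit 5) (nat_lit 381) (nat_lit 5) (nat_lit 382) (nat_lit 5) (nat_lit 446) (nat_lit 431) (nat_lit 143)))) (XT.nd (nat_lit 156) (nat_lit 760) (nat_lit 0) (XT.nd (nat_lit 78) (nat_lit 0) (nat_lit 76) (XT.lf (nat_lit 76) (nat_lit 9596334221) (nat_lit 0) (nat_lit 9788427069) (nat_lit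 1368) (nat_lit 57048064818) (nat_lit 365) (nat_lit 5) (nat_lit 364) (nat_lit 5) (nat_lit 382) (nat_lit 5) (nat_lit 447) (nat_lit 431) (nat_lit 142)) (XT.lf (nat_lit 0) (nat_lit 25958234973) (nat_lit 1292) (nat_lit 25948138532) (nat_lit 76) (nat_lit 25752657786) (nat_lit 365) (nat_lit 5) (nat_lit 382) (nat_lit 5) (nat_lit 366) (nat_lit 5) (nat_lit 448) (nat_lit 431) (nat_lit 141))) (XT.nd (nat_lit 78) (nat_lit 0) (nat_lit 0) (XT.lf (nat_lit 0) (nat_lit 16389352758) (nat_lit 836) (nat_lit 16593554702) (nat_lit 912) (nat_lit 45931495332) (nat_lit 354) (nat_lit 5) (nat_lit 365) (nat_lit 5) (nat_lit 366) (nat_lit 5) (nat_lit 449) (nat_lit 431) (nat_lit 140)) (XT.lf (nat_lit 0) (nat_lit 40672609274) (nat_lit 912) (nat_lit 19863836185) (nat_lit 76) (nat_lit 19657361304) (nat_lit 354) (nat_lit 5) (nat_lit 366) (nat_lit 5) (nat_lit 355) (nat_lit 5) (nat_lit 450) (nat_lit 431) (nat_lit 139))))))))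
noncomputable def xc248 : XT := (XT.nd (nat_lit 52572) (nat_lit 0) (nat_lit 0) (XT.nd (nat_lit 1170) (nat_lit 456) (nat_lit 0) (XT.nd (nat_lit 546) (nat_lit 2584) (nat_lit 0) (XT.nd (nat_lit 234) (nat_lit 1216) (nat_lit 0) (XT.nd (nat_lit 78) (nat_lit 608) (nat_lit 0) (XT.lf (nat_lit 0) (nat_lit 24388416716) (nat_lit 608) (nat_lit 24602872730) (nat_lit 684) (nat_lit 32508354788) (nat_lit 346) (nat_lit 5) (nat_lit 354) (nat_lit 5) (nat_lit 355) (nat_lit 5) (nat_lit 451) (nat_lit 431) (nat_lit 138)) (XT.nd (nat_lit 78) (nat_lit 608) (nat_lit 0) (XT.lf (nat_lit 0) (nat_lit 57880949414) (nat_lit 684) (nat_lit 12584898769) (nat_lit 76) (nat_lit 12369166064) (nat_lit 346) (nat_lit 5) (nat_lit 355) (nat_lit 5) (nat_lit 347) (nat_lit 5) (nat_lit 452) (nat_lit 431) (nat_lit 137)) (XT.lf (nat_lit 0) (nat_lit 33690645304) (nat_lit 608) (nat_lit 33913681875) (nat_lit 684) (nat_lit 16589107342) (nat_lit 338) (nat_lit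 5) (nat_lit 346) (nat_lit 5) (nat_lit 347) (nat_lit 5) (nat_lit 453) (nat_lit 431) (nat_lit 136)))) (XT.nd (nat_lit 156) (nat_lit 608) (nat_lit 0) (XT.nd (nat_lit 78) (nat_lit 608) (nat_lit 0) (XT.lf (nat_lit 0) (nat_lit 77783239440) (nat_lit 684) (nat_lit 4013938962) (nat_lit 76) (nat_lit 3790514007) (nat_lit 338) (nat_lit 5) (nat_lit 347) (nat_lit 5) (nat_lit 339) (nat_lit 5) (nat_lit 454) (nat_lit 431) (nat_lit 135)) (XT.lf (nat_lit 0) (nat_lit 1989195005) (nat_lit 608) (nat_lit 42620620836) (nat_lit 76) (nat_lit 42390511808) (nat_lit 330) (nat_lit 5) (nat_lit 338) (nat_lit 5) (nat_lit 331) (nat_lit 5) (nat_lit 455) (nat_lit 431) (nat_lit 134))) (XT.nd (nat_lit 78) (nat_lit 0) (nat_lit 0) (XT.lf (nat_lit 0) (nat_lit 5890175426) (nat_lit 608) (nat_lit 6126773845) (nat_lit 684) (nat_lit 76433159763) (nat_lit 322) (nat_lit 5) (nat_lit 330) (nat_lit 5) (nat_lit 331) (nat_lit 5) (nat_lit 456) (nat_lit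 431) (nat_lit 133)) (XT.lf (nat_lit 0) (nat_lit 23101919940) (nat_lit 684) (nat_lit 33527298241) (nat_lit 76) (nat_lit 33291474165) (nat_lit 322) (nat_lit 5) (nat_lit 331) (nat_lit 5) (nat_lit 323) (nat_lit 5) (nat_lit 457) (nat_lit 431) (nat_lit 132))))) (XT.nd (nat_lit 312) (nat_lit 1520) (nat_lit 0) (XT.nd (nat_lit 156) (nat_lit 532) (nat_lit 0) (XT.nd (nat_lit 78) (nat_lit 0) (nat_lit 0) (XT.lf (nat_lit 0) (nat_lit 17251898546) (nat_lit 532) (nat_lit 17493661334) (nat_lit 608) (nat_lit 56683049674) (nat_lit 315) (nat_lit 5) (nat_lit 322) (nat_lit 5) (nat_lit 323) (nat_lit 5) (nat_lit 458) (nat_lit 431) (nat_lit 131)) (XT.lf (nat_lit 0) (nat_lit 47299372132) (nat_lit 608) (nat_lit 22952942606) (nat_lit 76) (nat_lit 22712623648) (nat_lit 315) (nat_lit 5) (nat_lit 323) (nat_lit 5) (nat_lit 316) (nat_lit 5) (nat_lit 459) (nat_lit 431) (nat_lit 130))) (XT.nd (nat_lit 78) (nat_lit 0) (nat_lit 0) (XT.lf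 (nat_lit 0) (nat_lit 30223709615) (nat_lit 532) (nat_lit 30469463337) (nat_lit 608) (nat_lit 33840282903) (nat_lit 308) (nat_lit 5) (nat_lit 315) (nat_lit 5) (nat_lit 316) (nat_lit 5) (nat_lit 460) (nat_lit 431) (nat_lit 129)) (XT.lf (nat_lit 0) (nat_lit 74823507977) (nat_lit 608) (nat_lit 10779598949) (nat_lit 76) (nat_lit 10535880318) (nat_lit 308) (nat_lit 5) (nat_lit 316) (nat_lit 5) (nat_lit 309) (nat_lit 5) (nat_lit 461) (nat_lit 431) (nat_lit 128)))) (XT.nd (nat_lit 156) (nat_lit 456) (nat_lit 0) (XT.nd (nat_lit 78) (nat_lit 608) (nat_lit 0) (XT.lf (nat_lit 0) (nat_lit 44931150902) (nat_lit 456) (nat_lit 45179843111) (nat_lit 532) (nat_lit 7659693333) (nat_lit 302) (nat_lit 5) (nat_lit 308) (nat_lit 5) (nat_lit 309) (nat_lit 5) (nat_lit 462) (nat_lit 431) (nat_lit 127)) (XT.lf (nat_lit 0) (nat_lit 3083237259) (nat_lit 532) (nat_lit 3336758184) (nat_lit 608) (nat_lit 93025318857) (nat_lit 294)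 (nat_lit 5) (nat_lit 301) (nat_lit 5) (nat_lit 302) (nat_lit 5) (nat_lit 463) (nat_lit 431) (nat_lit 126))) (XT.nd (nat_lit 78) (nat_lit 456) (nat_lit 0) (XT.lf (nat_lit 0) (nat_lit 21688860159) (nat_lit 608) (nat_lit 39851055486) (nat_lit 76) (nat_lit 39600367137) (nat_lit 294) (nat_lit 5) (nat_lit 302) (nat_lit 5) (nat_lit 295) (nat_lit 5) (nat_lit 464) (nat_lit 431) (nat_lit 125)) (XT.lf (nat_lit 0) (nat_lit 18686511253) (nat_lit 456) (nat_lit 18941618562) (nat_lit 532) (nat_lit 65251600332) (nat_lit 288) (nat_lit 5) (nat_lit 294) (nat_lit 5) (nat_lit 295) (nat_lit 5) (nat_lit 465) (nat_lit 431) (nat_lit 124)))))) (XT.nd (nat_lit 50778) (nat_lit 0) (nat_lit 7144) (XT.nd (nat_lit 50466) (nat_lit 0) (nat_lit 6992) (XT.nd (nat_lit 78) (nat_lit 456) (nat_lit 0) (XT.lf (nat_lit 0) (nat_lit 54691347017) (nat_lit 532) (nat_lit 25106241562) (nat_lit 76) (nat_lit 24854399271) (nat_lit 288) (nat_lit 5) (nat_lit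 295) (nat_lit 5) (nat_lit 289) (nat_lit 5) (nat_lit 466) (nat_lit 431) (nat_lit 123)) (XT.nd (nat_lit 78) (nat_lit 0) (nat_lit 0) (XT.lf (nat_lit 0) (nat_lit 36273242929) (nat_lit 456) (nat_lit 36529129194) (nat_lit 532) (nat_lit 33658963820) (nat_lit 282) (nat_lit 5) (nat_lit 288) (nat_lit 5) (nat_lit 289) (nat_lit 5) (nat_lit 467) (nat_lit 431) (nat_lit 122)) (XT.lf (nat_lit 0) (nat_lit 91789716859) (nat_lit 532) (nat_lit 8388751527) (nat_lit 76) (nat_lit 8136506426) (nat_lit 282) (nat_lit 5) (nat_lit 289) (nat_lit 5) (nat_lit 283) (nat_lit 5) (nat_lit 468) (nat_lit 431) (nat_lit 121)))) (XT.nd (nat_lit 156) (nat_lit 0) (nat_lit 76) (XT.nd (nat_lit 78) (nat_lit 0) (nat_lit 0) (XT.lf (nat_lit 0) (nat_lit 19272303110) (nat_lit 1292) (nat_lit 5758785481) (nat_lit 1292) (nat_lit 5758785481) (nat_lit 374) (nat_lit 3) (nat_lit 391) (nat_lit 3) (nat_lit 391) (nat_lit 5) (nat_lit 432) (nat_lit 432) (nat_lit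 156)) (XT.lf (nat_lit 76) (nat_lit 19655859730) (nat_lit 0) (nat_lit 19673071771) (nat_lit 1292) (nat_lit 23168328179) (nat_lit 375) (nat_lit 5) (nat_lit 374) (nat_lit 3) (nat_lit 391) (nat_lit 5) (nat_lit 433) (nat_lit 432) (nat_lit 155))) (XT.nd (nat_lit 78) (nat_lit 0) (nat_lit 0) (XT.lf (nat_lit 0) (nat_lit 40365343558) (nat_lit 1216) (nat_lit 11551515506) (nat_lit 1292) (nat_lit 11518580789) (nat_lit 375) (nat_lit 5) (nat_lit 391) (nat_lit 5) (nat_lit 392) (nat_lit 5) (nat_lit 434) (nat_lit 432) (nat_lit 154)) (XT.lf (nat_lit 76) (nat_lit 20889547673) (nat_lit 0) (nat_lit 20938233846) (nat_lit 1292) (nat_lit 22562135905) (nat_lit 376) (nat_lit 5) (nat_lit 375) (nat_lit 5) (nat_lit 392) (nat_lit 5) (nat_lit 435) (nat_lit 432) (nat_lit 153))))) (XT.nd (nat_lit 312) (nat_lit 0) (nat_lit 152) (XT.nd (nat_lit 156) (nat_lit 0) (nat_lit 76) (XT.nd (nat_lit 78) (nat_lit 0) (nat_lit 0) (XT.lf (nat_lit 0)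 (nat_lit 43556708868) (nat_lit 1216) (nat_lit 10935878676) (nat_lit 1292) (nat_lit 10873763291) (nat_lit 376) (nat_lit 5) (nat_lit 392) (nat_lit 5) (nat_lit 393) (nat_lit 5) (nat_lit 436) (nat_lit 432) (nat_lit 152)) (XT.lf (nat_lit 76) (nat_lit 22843627096) (nat_lit 0) (nat_lit 22920157294) (nat_lit 1292) (nat_lit 20595504446) (nat_lit 377) (nat_lit 5) (nat_lit 376) (nat_lit 5) (nat_lit 393) (nat_lit 5) (nat_lit 437) (nat_lit 432) (nat_lit 151))) (XT.nd (nat_lit 78) (nat_lit 0) (nat_lit 0) (XT.lf (nat_lit 0) (nat_lit 48240273055) (nat_lit 1216) (nat_lit 9611767203) (nat_lit 1292) (nat_lit 9523878696) (nat_lit 377) (nat_lit 5) (nat_lit 393) (nat_lit 5) (nat_lit 394) (nat_lit 5) (nat_lit 438) (nat_lit 432) (nat_lit 150)) (XT.lf (nat_lit 76) (nat_lit 25581114059) (nat_lit 0) (nat_lit 25682194161) (nat_lit 1292) (nat_lit 17145572198) (nat_lit 378) (nat_lit 5) (nat_lit 377) (nat_lit 5) (nat_lit 394) (nat_lit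 5) (nat_lit 439) (nat_lit 432) (nat_lit 149)))) (XT.nd (nat_lit 156) (nat_lit 0) (nat_lit 76) (XT.nd (nat_lit 78) (nat_lit 0) (nat_lit 0) (XT.lf (nat_lit 0) (nat_lit 54546129292) (nat_lit 1216) (nat_lit 7516099477) (nat_lit 1292) (nat_lit 7405529111) (nat_lit 378) (nat_lit 5) (nat_lit 394) (nat_lit 5) (nat_lit 395) (nat_lit 5) (nat_lit 440) (nat_lit 432) (nat_lit 148)) (XT.lf (nat_lit 76) (nat_lit 29169458135) (nat_lit 0) (nat_lit 29292100680) (nat_lit 1292) (nat_lit 12080819137) (nat_lit 379) (nat_lit 5) (nat_lit 378) (nat_lit 5) (nat_lit 395) (nat_lit 5) (nat_lit 441) (nat_lit 432) (nat_lit 147))) (XT.nd (nat_lit 78) (nat_lit 0) (nat_lit 0) (XT.lf (nat_lit 0) (nat_lit 62613447601) (nat_lit 1216) (nat_lit 4581334376) (nat_lit 1292) (nat_lit 4450884758) (nat_lit 379) (nat_lit 5) (nat_lit 395) (nat_lit 5) (nat_lit 396) (nat_lit 5) (nat_lit 442) (nat_lit 432) (nat_lit 146)) (XT.lf (nat_lit 76) (nat_lit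 33680828370) (nat_lit 0) (nat_lit 33822325741) (nat_lit 1292) (nat_lit 5260502239) (nat_lit 380) (nat_lit 5) (nat_lit 379) (nat_lit 5) (nat_lit 396) (nat_lit 5) (nat_lit 443) (nat_lit 432) (nat_lit 145))))))) (XT.nd (nat_lit 1170) (nat_lit 3040) (nat_lit 0) (XT.nd (nat_lit 546) (nat_lit 2432) (nat_lit 0) (XT.nd (nat_lit 234) (nat_lit 684) (nat_lit 0) (XT.nd (nat_lit 78) (nat_lit 1292) (nat_lit 0) (XT.lf (nat_lit 0) (nat_lit 72591064112) (nat_lit 1216) (nat_lit 735182915) (nat_lit 1292) (nat_lit 587393258) (nat_lit 380) (nat_lit 5) (nat_lit 396) (nat_lit 5) (nat_lit 397) (nat_lit 5) (nat_lit 444) (nat_lit 432) (nat_lit 144)) (XT.nd (nat_lit 78) (nat_lit 0) (nat_lit 0) (XT.lf (nat_lit 0) (nat_lit 3398311379) (nat_lit 1292) (nat_lit 35917689539) (nat_lit 1368) (nat_lit 35759789623) (nat_lit 363) (nat_lit 5) (nat_lit 380) (nat_lit 5) (nat_lit 381) (nat_lit 5) (nat_lit 445) (nat_lit 432) (nat_lit 143)) (XT.lf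 (nat_lit 76) (nat_lit 4056264540) (nat_lit 0) (nat_lit 4223980242) (nat_lit 1368) (nat_lit 67990787629) (nat_lit 364) (nat_lit 5) (nat_lit 363) (nat_lit 5) (nat_lit 381) (nat_lit 5) (nat_lit 446) (nat_lit 432) (nat_lit 142)))) (XT.nd (nat_lit 156) (nat_lit 760) (nat_lit 0) (XT.nd (nat_lit 78) (nat_lit 0) (nat_lit 0) (XT.lf (nat_lit 0) (nat_lit 13981292078) (nat_lit 1292) (nat_lit 31836371440) (nat_lit 1368) (nat_lit 31664288341) (nat_lit 364) (nat_lit 5) (nat_lit 381) (nat_lit 5) (nat_lit 382) (nat_lit 5) (nat_lit 447) (nat_lit 432) (nat_lit 141)) (XT.lf (nat_lit 76) (nat_lit 9904436057) (nat_lit 0) (nat_lit 10085501989) (nat_lit 1368) (nat_lit 58735163827) (nat_lit 365) (nat_lit 5) (nat_lit 364) (nat_lit 5) (nat_lit 382) (nat_lit 5) (nat_lit 448) (nat_lit 432) (nat_lit 140))) (XT.nd (nat_lit 78) (nat_lit 836) (nat_lit 0) (XT.lf (nat_lit 0) (nat_lit 26759895636) (nat_lit 1292) (nat_lit 26706239268)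 (nat_lit 76) (nat_lit 26521979917) (nat_lit 365) (nat_lit 5) (nat_lit 382) (nat_lit 5) (nat_lit 366) (nat_lit 5) (nat_lit 449) (nat_lit 432) (nat_lit 139)) (XT.lf (nat_lit 0) (nat_lit 16901177315) (nat_lit 836) (nat_lit 17093657232) (nat_lit 912) (nat_lit 47286327132) (nat_lit 354) (nat_lit 5) (nat_lit 365) (nat_lit 5) (nat_lit 366) (nat_lit 5) (nat_lit 450) (nat_lit 432) (nat_lit 138))))) (XT.nd (nat_lit 312) (nat_lit 1216) (nat_lit 0) (XT.nd (nat_lit 156) (nat_lit 608) (nat_lit 0) (XT.nd (nat_lit 78) (nat_lit 608) (nat_lit 0) (XT.lf (nat_lit 0) (nat_lit 41914552401) (nat_lit 912) (nat_lit 20439518999) (nat_lit 76) (nat_lit 20244896620) (nat_lit 354) (nat_lit 5) (nat_lit 366) (nat_lit 5) (nat_lit 355) (nat_lit 5) (nat_lit 451) (nat_lit 432) (nat_lit 137)) (XT.lf (nat_lit 0) (nat_lit 25140103134) (nat_lit 608) (nat_lit 25342248495) (nat_lit 684) (nat_lit 33461642227) (nat_lit 346) (nat_lit 5) (nat_lit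 354) (nat_lit 5) (nat_lit 355) (nat_lit 5) (nat_lit 452) (nat_lit 432) (nat_lit 136))) (XT.nd (nat_lit 78) (nat_lit 608) (nat_lit 0) (XT.lf (nat_lit 0) (nat_lit 59638068287) (nat_lit 684) (nat_lit 12942362220) (nat_lit 76) (nat_lit 12739013455) (nat_lit 346) (nat_lit 5) (nat_lit 355) (nat_lit 5) (nat_lit 347) (nat_lit 5) (nat_lit 453) (nat_lit 432) (nat_lit 135)) (XT.lf (nat_lit 0) (nat_lit 34721251278) (nat_lit 608) (nat_lit 34931484637) (nat_lit 684) (nat_lit 17065893274) (nat_lit 338) (nat_lit 5) (nat_lit 346) (nat_lit 5) (nat_lit 347) (nat_lit 5) (nat_lit 454) (nat_lit 432) (nat_lit 134)))) (XT.nd (nat_lit 156) (nat_lit 608) (nat_lit 0) (XT.nd (nat_lit 78) (nat_lit 608) (nat_lit 0) (XT.lf (nat_lit 0) (nat_lit 80136421234) (nat_lit 684) (nat_lit 4114455429) (nat_lit 76) (nat_lit 3903855980) (nat_lit 338) (nat_lit 5) (nat_lit 347) (nat_lit 5) (nat_lit 339) (nat_lit 5) (nat_lit 455) (nat_lit 432) (nat_lit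 133)) (XT.lf (nat_lit 0) (nat_lit 2068362656) (nat_lit 608) (nat_lit 43879144949) (nat_lit 76) (nat_lit 43662245120) (nat_lit 330) (nat_lit 5) (nat_lit 338) (nat_lit 5) (nat_lit 331) (nat_lit 5) (nat_lit 456) (nat_lit 432) (nat_lit 132))) (XT.nd (nat_lit 78) (nat_lit 0) (nat_lit 0) (XT.lf (nat_lit 0) (nat_lit 6086778197) (nat_lit 608) (nat_lit 6309794898) (nat_lit 684) (nat_lit 78706465750) (nat_lit 322) (nat_lit 5) (nat_lit 330) (nat_lit 5) (nat_lit 331) (nat_lit 5) (nat_lit 457) (nat_lit 432) (nat_lit 131)) (XT.lf (nat_lit 0) (nat_lit 23813543426) (nat_lit 684) (nat_lit 34513249762) (nat_lit 76) (nat_lit 34290962953) (nat_lit 322) (nat_lit 5) (nat_lit 331) (nat_lit 5) (nat_lit 323) (nat_lit 5) (nat_lit 458) (nat_lit 432) (nat_lit 130)))))) (XT.nd (nat_lit 624) (nat_lit 456) (nat_lit 0) (XT.nd (nat_lit 312) (nat_lit 1520) (nat_lit 0) (XT.nd (nat_lit 156) (nat_lit 532) (nat_lit 0) (XT.nd (nat_lit 78)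 (nat_lit 0) (nat_lit 0) (XT.lf (nat_lit 0) (nat_lit 17789128151) (nat_lit 532) (nat_lit 18017012765) (nat_lit 608) (nat_lit 58364780499) (nat_lit 315) (nat_lit 5) (nat_lit 322) (nat_lit 5) (nat_lit 323) (nat_lit 5) (nat_lit 459) (nat_lit 432) (nat_lit 129)) (XT.lf (nat_lit 0) (nat_lit 48736050634) (nat_lit 608) (nat_lit 23621914326) (nat_lit 76) (nat_lit 23395390658) (nat_lit 315) (nat_lit 5) (nat_lit 323) (nat_lit 5) (nat_lit 316) (nat_lit 5) (nat_lit 460) (nat_lit 432) (nat_lit 128))) (XT.nd (nat_lit 78) (nat_lit 0) (nat_lit 0) (XT.lf (nat_lit 0) (nat_lit 31149845144) (nat_lit 532) (nat_lit 31381491596) (nat_lit 608) (nat_lit 34837601733) (nat_lit 308) (nat_lit 5) (nat_lit 315) (nat_lit 5) (nat_lit 316) (nat_lit 5) (nat_lit 461) (nat_lit 432) (nat_lit 127)) (XT.lf (nat_lit 0) (nat_lit 77085095119) (nat_lit 608) (nat_lit 11083641735) (nat_lit 76) (nat_lit 10853913550) (nat_lit 308) (nat_lit 5) (nat_lit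 316) (nat_lit 5) (nat_lit 309) (nat_lit 5) (nat_lit 462) (nat_lit 432) (nat_lit 126)))) (XT.nd (nat_lit 156) (nat_lit 456) (nat_lit 0) (XT.nd (nat_lit 78) (nat_lit 608) (nat_lit 0) (XT.lf (nat_lit 0) (nat_lit 46298240953) (nat_lit 456) (nat_lit 46532657212) (nat_lit 532) (nat_lit 7872412572) (nat_lit 302) (nat_lit 5) (nat_lit 308) (nat_lit 5) (nat_lit 309) (nat_lit 5) (nat_lit 463) (nat_lit 432) (nat_lit 125)) (XT.lf (nat_lit 0) (nat_lit 3195031963) (nat_lit 532) (nat_lit 3433999750) (nat_lit 608) (nat_lit 95799148925) (nat_lit 294) (nat_lit 5) (nat_lit 301) (nat_lit 5) (nat_lit 302) (nat_lit 5) (nat_lit 464) (nat_lit 432) (nat_lit 124))) (XT.nd (nat_lit 78) (nat_lit 456) (nat_lit 0) (XT.lf (nat_lit 0) (nat_lit 22355510342) (nat_lit 608) (nat_lit 41027399602) (nat_lit 76) (nat_lit 40791101789) (nat_lit 294) (nat_lit 5) (nat_lit 302) (nat_lit 5) (nat_lit 295) (nat_lit 5) (nat_lit 465) (nat_lit 432) (nat_lit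 123)) (XT.lf (nat_lit 0) (nat_lit 19266106026) (nat_lit 456) (nat_lit 19506569132) (nat_lit 532) (nat_lit 67192975851) (nat_lit 288) (nat_lit 5) (nat_lit 294) (nat_lit 5) (nat_lit 295) (nat_lit 5) (nat_lit 466) (nat_lit 432) (nat_lit 122))))) (XT.nd (nat_lit 50622) (nat_lit 0) (nat_lit 7068) (XT.nd (nat_lit 50466) (nat_lit 0) (nat_lit 6992) (XT.nd (nat_lit 78) (nat_lit 456) (nat_lit 0) (XT.lf (nat_lit 0) (nat_lit 56347362331) (nat_lit 532) (nat_lit 25840556211) (nat_lit 76) (nat_lit 25603170697) (nat_lit 288) (nat_lit 5) (nat_lit 295) (nat_lit 5) (nat_lit 289) (nat_lit 5) (nat_lit 467) (nat_lit 432) (nat_lit 121)) (XT.lf (nat_lit 0) (nat_lit 37380127790) (nat_lit 456) (nat_lit 37621325137) (nat_lit 532) (nat_lit 34653272806) (nat_lit 282) (nat_lit 5) (nat_lit 288) (nat_lit 5) (nat_lit 289) (nat_lit 5) (nat_lit 468) (nat_lit 432) (nat_lit 120))) (XT.nd (nat_lit 78) (nat_lit 0) (nat_lit 0) (XT.lf (nat_lit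 0) (nat_lit 19867518791) (nat_lit 1292) (nat_lit 5922770053) (nat_lit 1292) (nat_lit 5922770053) (nat_lit 374) (nat_lit 3) (nat_lit 391) (nat_lit 3) (nat_lit 391) (nat_lit 5) (nat_lit 433) (nat_lit 433) (nat_lit 154)) (XT.lf (nat_lit 76) (nat_lit 20262921370) (nat_lit 0) (nat_lit 20279145369) (nat_lit 1292) (nat_lit 23829112713) (nat_lit 375) (nat_lit 5) (nat_lit 374) (nat_lit 3) (nat_lit 391) (nat_lit 5) (nat_lit 434) (nat_lit 433) (nat_lit 153)))) (XT.nd (nat_lit 156) (nat_lit 0) (nat_lit 76) (XT.nd (nat_lit 78) (nat_lit 0) (nat_lit 0) (XT.lf (nat_lit 0) (nat_lit 41608453992) (nat_lit 1216) (nat_lit 11880064341) (nat_lit 1292) (nat_lit 11849020211) (nat_lit 375) (nat_lit 5) (nat_lit 391) (nat_lit 5) (nat_lit 392) (nat_lit 5) (nat_lit 435) (nat_lit 433) (nat_lit 152)) (XT.lf (nat_lit 76) (nat_lit 21534054296) (nat_lit 0) (nat_lit 21579945683) (nat_lit 1292) (nat_lit 23206673417) (nat_lit 376) (nat_lit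 5) (nat_lit 375) (nat_lit 5) (nat_lit 392) (nat_lit 5) (nat_lit 436) (nat_lit 433) (nat_lit 151))) (XT.nd (nat_lit 78) (nat_lit 0) (nat_lit 0) (XT.lf (nat_lit 0) (nat_lit 44893754426) (nat_lit 1216) (nat_lit 11245613157) (nat_lit 1292) (nat_lit 11187063448) (nat_lit 376) (nat_lit 5) (nat_lit 392) (nat_lit 5) (nat_lit 393) (nat_lit 5) (nat_lit 437) (nat_lit 433) (nat_lit 150)) (XT.lf (nat_lit 76) (nat_lit 23547097967) (nat_lit 0) (nat_lit 23619235018) (nat_lit 1292) (nat_lit 21182845465) (nat_lit 377) (nat_lit 5) (nat_lit 376) (nat_lit 5) (nat_lit 393) (nat_lit 5) (nat_lit 438) (nat_lit 433) (nat_lit 149))))))))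
noncomputable def xc249 : XT := (XT.nd (nat_lit 52806) (nat_lit 0) (nat_lit 1064) (XT.nd (nat_lit 1170) (nat_lit 4408) (nat_lit 0) (XT.nd (nat_lit 546) (nat_lit 2356) (nat_lit 0) (XT.nd (nat_lit 234) (nat_lit 0) (nat_lit 76) (XT.nd (nat_lit 78) (nat_lit 0) (nat_lit 0) (XT.lf (nat_lit 0) (nat_lit 49716146079) (nat_lit 1216) (nat_lit 9881516922) (nat_lit 1292) (nat_lit 9798673575) (nat_lit 377) (nat_lit 5) (nat_lit 393) (nat_lit 5) (nat_lit 394) (nat_lit 5) (nat_lit 439) (nat_lit 433) (nat_lit 148)) (XT.nd (nat_lit 78) (nat_lit 0) (nat_lit 76) (XT.lf (nat_lit 76) (nat_lit 26366968391) (nat_lit 0) (nat_lit 26462246082) (nat_lit 1292) (nat_lit 17631092146) (nat_lit 378) (nat_lit 5) (nat_lit 377) (nat_lit 5) (nat_lit 394) (nat_lit 5) (nat_lit 440) (nat_lit 433) (nat_lit 147)) (XT.lf (nat_lit 0) (nat_lit 56209614977) (nat_lit 1216) (nat_lit 7722792880) (nat_lit 1292) (nat_lit 7618569706) (nat_lit 378) (nat_lit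 5) (nat_lit 394) (nat_lit 5) (nat_lit 395) (nat_lit 5) (nat_lit 441) (nat_lit 433) (nat_lit 146)))) (XT.nd (nat_lit 156) (nat_lit 0) (nat_lit 76) (XT.nd (nat_lit 78) (nat_lit 0) (nat_lit 76) (XT.lf (nat_lit 76) (nat_lit 30063147249) (nat_lit 0) (nat_lit 30178749610) (nat_lit 1292) (nat_lit 12415957694) (nat_lit 379) (nat_lit 5) (nat_lit 378) (nat_lit 5) (nat_lit 395) (nat_lit 5) (nat_lit 442) (nat_lit 433) (nat_lit 145)) (XT.lf (nat_lit 0) (nat_lit 64517497122) (nat_lit 1216) (nat_lit 4699865755) (nat_lit 1292) (nat_lit 4576904479) (nat_lit 379) (nat_lit 5) (nat_lit 395) (nat_lit 5) (nat_lit 396) (nat_lit 5) (nat_lit 443) (nat_lit 433) (nat_lit 144))) (XT.nd (nat_lit 78) (nat_lit 0) (nat_lit 76) (XT.lf (nat_lit 76) (nat_lit 34709976495) (nat_lit 0) (nat_lit 34843351338) (nat_lit 1292) (nat_lit 5392485835) (nat_lit 380) (nat_lit 5) (nat_lit 379) (nat_lit 5) (nat_lit 396) (nat_lit 5) (nat_lit 444) (nat_lit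 433) (nat_lit 143)) (XT.lf (nat_lit 0) (nat_lit 74793085357) (nat_lit 1216) (nat_lit 738270691) (nat_lit 1292) (nat_lit 598964765) (nat_lit 380) (nat_lit 5) (nat_lit 396) (nat_lit 5) (nat_lit 397) (nat_lit 5) (nat_lit 445) (nat_lit 433) (nat_lit 142))))) (XT.nd (nat_lit 312) (nat_lit 1292) (nat_lit 0) (XT.nd (nat_lit 156) (nat_lit 0) (nat_lit 76) (XT.nd (nat_lit 78) (nat_lit 0) (nat_lit 0) (XT.lf (nat_lit 0) (nat_lit 3524258400) (nat_lit 1292) (nat_lit 36975960871) (nat_lit 1368) (nat_lit 36827125056) (nat_lit 363) (nat_lit 5) (nat_lit 380) (nat_lit 5) (nat_lit 381) (nat_lit 5) (nat_lit 446) (nat_lit 433) (nat_lit 141)) (XT.lf (nat_lit 76) (nat_lit 4197023013) (nat_lit 0) (nat_lit 4355111148) (nat_lit 1368) (nat_lit 70006324761) (nat_lit 364) (nat_lit 5) (nat_lit 363) (nat_lit 5) (nat_lit 381) (nat_lit 5) (nat_lit 447) (nat_lit 433) (nat_lit 140))) (XT.nd (nat_lit 78) (nat_lit 0) (nat_lit 0) (XT.lf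 (nat_lit 0) (nat_lit 14423487762) (nat_lit 1292) (nat_lit 32772222385) (nat_lit 1368) (nat_lit 32610017560) (nat_lit 364) (nat_lit 5) (nat_lit 381) (nat_lit 5) (nat_lit 382) (nat_lit 5) (nat_lit 448) (nat_lit 433) (nat_lit 139)) (XT.lf (nat_lit 76) (nat_lit 10220620707) (nat_lit 0) (nat_lit 10391292715) (nat_lit 1368) (nat_lit 60474273191) (nat_lit 365) (nat_lit 5) (nat_lit 364) (nat_lit 5) (nat_lit 382) (nat_lit 5) (nat_lit 449) (nat_lit 433) (nat_lit 138)))) (XT.nd (nat_lit 156) (nat_lit 608) (nat_lit 0) (XT.nd (nat_lit 78) (nat_lit 836) (nat_lit 0) (XT.lf (nat_lit 0) (nat_lit 27584290784) (nat_lit 1292) (nat_lit 27488250822) (nat_lit 76) (nat_lit 27314568711) (nat_lit 365) (nat_lit 5) (nat_lit 382) (nat_lit 5) (nat_lit 366) (nat_lit 5) (nat_lit 450) (nat_lit 433) (nat_lit 137)) (XT.lf (nat_lit 0) (nat_lit 17427200262) (nat_lit 836) (nat_lit 17608631045) (nat_lit 912) (nat_lit 48683130671) (nat_lit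 354) (nat_lit 5) (nat_lit 365) (nat_lit 5) (nat_lit 366) (nat_lit 5) (nat_lit 451) (nat_lit 433) (nat_lit 136))) (XT.nd (nat_lit 78) (nat_lit 608) (nat_lit 0) (XT.lf (nat_lit 0) (nat_lit 43192504430) (nat_lit 912) (nat_lit 21033633712) (nat_lit 76) (nat_lit 20850183455) (nat_lit 354) (nat_lit 5) (nat_lit 366) (nat_lit 5) (nat_lit 355) (nat_lit 5) (nat_lit 452) (nat_lit 433) (nat_lit 135)) (XT.lf (nat_lit 0) (nat_lit 25913190115) (nat_lit 608) (nat_lit 26103731505) (nat_lit 684) (nat_lit 34444789068) (nat_lit 346) (nat_lit 5) (nat_lit 354) (nat_lit 5) (nat_lit 355) (nat_lit 5) (nat_lit 453) (nat_lit 433) (nat_lit 134)))))) (XT.nd (nat_lit 546) (nat_lit 2052) (nat_lit 0) (XT.nd (nat_lit 234) (nat_lit 1748) (nat_lit 0) (XT.nd (nat_lit 78) (nat_lit 608) (nat_lit 0) (XT.lf (nat_lit 0) (nat_lit 61446713014) (nat_lit 684) (nat_lit 13311702451) (nat_lit 76) (nat_lit 13120026737) (nat_lit 346) (nat_lit 5) (nat_lit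 355) (nat_lit 5) (nat_lit 347) (nat_lit 5) (nat_lit 454) (nat_lit 433) (nat_lit 133)) (XT.nd (nat_lit 78) (nat_lit 0) (nat_lit 0) (XT.lf (nat_lit 0) (nat_lit 35781633858) (nat_lit 608) (nat_lit 35979798962) (nat_lit 684) (nat_lit 17558181800) (nat_lit 338) (nat_lit 5) (nat_lit 346) (nat_lit 5) (nat_lit 347) (nat_lit 5) (nat_lit 455) (nat_lit 433) (nat_lit 132)) (XT.lf (nat_lit 0) (nat_lit 82559068505) (nat_lit 684) (nat_lit 4219129828) (nat_lit 76) (nat_lit 4020619649) (nat_lit 338) (nat_lit 5) (nat_lit 347) (nat_lit 5) (nat_lit 339) (nat_lit 5) (nat_lit 456) (nat_lit 433) (nat_lit 131)))) (XT.nd (nat_lit 156) (nat_lit 532) (nat_lit 0) (XT.nd (nat_lit 78) (nat_lit 608) (nat_lit 0) (XT.lf (nat_lit 0) (nat_lit 2148786427) (nat_lit 608) (nat_lit 45176578292) (nat_lit 76) (nat_lit 44972129401) (nat_lit 330) (nat_lit 5) (nat_lit 338) (nat_lit 5) (nat_lit 331) (nat_lit 5) (nat_lit 457) (nat_lit 433) (nat_lit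 130)) (XT.lf (nat_lit 0) (nat_lit 6288136852) (nat_lit 608) (nat_lit 6498351482) (nat_lit 684) (nat_lit 81049101134) (nat_lit 322) (nat_lit 5) (nat_lit 330) (nat_lit 5) (nat_lit 331) (nat_lit 5) (nat_lit 458) (nat_lit 433) (nat_lit 129))) (XT.nd (nat_lit 78) (nat_lit 532) (nat_lit 0) (XT.lf (nat_lit 0) (nat_lit 24545449858) (nat_lit 684) (nat_lit 35529920300) (nat_lit 76) (nat_lit 35320393663) (nat_lit 322) (nat_lit 5) (nat_lit 331) (nat_lit 5) (nat_lit 323) (nat_lit 5) (nat_lit 459) (nat_lit 433) (nat_lit 128)) (XT.lf (nat_lit 0) (nat_lit 18341345352) (nat_lit 532) (nat_lit 18556148458) (nat_lit 608) (nat_lit 60098040186) (nat_lit 315) (nat_lit 5) (nat_lit 322) (nat_lit 5) (nat_lit 323) (nat_lit 5) (nat_lit 460) (nat_lit 433) (nat_lit 127))))) (XT.nd (nat_lit 312) (nat_lit 1064) (nat_lit 0) (XT.nd (nat_lit 156) (nat_lit 456) (nat_lit 0) (XT.nd (nat_lit 78) (nat_lit 532) (nat_lit 0) (XT.lf (nat_lit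 0) (nat_lit 50214813591) (nat_lit 608) (nat_lit 24312081267) (nat_lit 76) (nat_lit 24098560985) (nat_lit 315) (nat_lit 5) (nat_lit 323) (nat_lit 5) (nat_lit 316) (nat_lit 5) (nat_lit 461) (nat_lit 433) (nat_lit 126)) (XT.lf (nat_lit 0) (nat_lit 32102649707) (nat_lit 532) (nat_lit 32320998706) (nat_lit 608) (nat_lit 35865867068) (nat_lit 308) (nat_lit 5) (nat_lit 315) (nat_lit 5) (nat_lit 316) (nat_lit 5) (nat_lit 462) (nat_lit 433) (nat_lit 125))) (XT.nd (nat_lit 78) (nat_lit 456) (nat_lit 0) (XT.lf (nat_lit 0) (nat_lit 79413560784) (nat_lit 608) (nat_lit 11397916298) (nat_lit 76) (nat_lit 11181375450) (nat_lit 308) (nat_lit 5) (nat_lit 316) (nat_lit 5) (nat_lit 309) (nat_lit 5) (nat_lit 463) (nat_lit 433) (nat_lit 124)) (XT.lf (nat_lit 0) (nat_lit 47705244099) (nat_lit 456) (nat_lit 47926203906) (nat_lit 532) (nat_lit 8092493365) (nat_lit 302) (nat_lit 5) (nat_lit 308) (nat_lit 5) (nat_lit 309) (nat_lit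 5) (nat_lit 464) (nat_lit 433) (nat_lit 123)))) (XT.nd (nat_lit 156) (nat_lit 456) (nat_lit 0) (XT.nd (nat_lit 78) (nat_lit 0) (nat_lit 0) (XT.lf (nat_lit 0) (nat_lit 3309072747) (nat_lit 532) (nat_lit 3534322806) (nat_lit 608) (nat_lit 98657165716) (nat_lit 294) (nat_lit 5) (nat_lit 301) (nat_lit 5) (nat_lit 302) (nat_lit 5) (nat_lit 465) (nat_lit 433) (nat_lit 122)) (XT.lf (nat_lit 0) (nat_lit 23041242462) (nat_lit 608) (nat_lit 42240135485) (nat_lit 76) (nat_lit 42017402134) (nat_lit 294) (nat_lit 5) (nat_lit 302) (nat_lit 5) (nat_lit 295) (nat_lit 5) (nat_lit 466) (nat_lit 433) (nat_lit 121))) (XT.nd (nat_lit 50544) (nat_lit 0) (nat_lit 6536) (XT.lf (nat_lit 0) (nat_lit 19861997997) (nat_lit 456) (nat_lit 20088657536) (nat_lit 532) (nat_lit 69193521002) (nat_lit 288) (nat_lit 5) (nat_lit 294) (nat_lit 5) (nat_lit 295) (nat_lit 5) (nat_lit 467) (nat_lit 433) (nat_lit 120)) (XT.lf (nat_lit 0) (nat_lit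 20479612398) (nat_lit 1292) (nat_lit 6092178112) (nat_lit 1292) (nat_lit 6092178112) (nat_lit 374) (nat_lit 3) (nat_lit 391) (nat_lit 3) (nat_lit 391) (nat_lit 5) (nat_lit 434) (nat_lit 434) (nat_lit 152))))))) (XT.nd (nat_lit 1170) (nat_lit 4636) (nat_lit 0) (XT.nd (nat_lit 546) (nat_lit 836) (nat_lit 0) (XT.nd (nat_lit 234) (nat_lit 0) (nat_lit 152) (XT.nd (nat_lit 78) (nat_lit 0) (nat_lit 76) (XT.lf (nat_lit 76) (nat_lit 20887196841) (nat_lit 0) (nat_lit 20902489516) (nat_lit 1292) (nat_lit 24511687751) (nat_lit 375) (nat_lit 5) (nat_lit 374) (nat_lit 3) (nat_lit 391) (nat_lit 5) (nat_lit 435) (nat_lit 434) (nat_lit 151)) (XT.nd (nat_lit 78) (nat_lit 0) (nat_lit 0) (XT.lf (nat_lit 0) (nat_lit 42887012191) (nat_lit 1216) (nat_lit 12219502721) (nat_lit 1292) (nat_lit 12190240652) (nat_lit 375) (nat_lit 5) (nat_lit 391) (nat_lit 5) (nat_lit 392) (nat_lit 5) (nat_lit 436) (nat_lit 434) (nat_lit 150))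 (XT.lf (nat_lit 76) (nat_lit 22196873165) (nat_lit 0) (nat_lit 22240130199) (nat_lit 1292) (nat_lit 23872402732) (nat_lit 376) (nat_lit 5) (nat_lit 375) (nat_lit 5) (nat_lit 392) (nat_lit 5) (nat_lit 437) (nat_lit 434) (nat_lit 149)))) (XT.nd (nat_lit 156) (nat_lit 0) (nat_lit 76) (XT.nd (nat_lit 78) (nat_lit 0) (nat_lit 0) (XT.lf (nat_lit 0) (nat_lit 46269169465) (nat_lit 1216) (nat_lit 11565692570) (nat_lit 1292) (nat_lit 11510503855) (nat_lit 376) (nat_lit 5) (nat_lit 392) (nat_lit 5) (nat_lit 393) (nat_lit 5) (nat_lit 438) (nat_lit 434) (nat_lit 148)) (XT.lf (nat_lit 76) (nat_lit 24270630387) (nat_lit 0) (nat_lit 24338626477) (nat_lit 1292) (nat_lit 21789558923) (nat_lit 377) (nat_lit 5) (nat_lit 376) (nat_lit 5) (nat_lit 393) (nat_lit 5) (nat_lit 439) (nat_lit 434) (nat_lit 147))) (XT.nd (nat_lit 78) (nat_lit 0) (nat_lit 0) (XT.lf (nat_lit 0) (nat_lit 51234649815) (nat_lit 1216) (nat_lit 10160427039)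 (nat_lit 1292) (nat_lit 10082339239) (nat_lit 377) (nat_lit 5) (nat_lit 393) (nat_lit 5) (nat_lit 394) (nat_lit 5) (nat_lit 440) (nat_lit 434) (nat_lit 146)) (XT.lf (nat_lit 76) (nat_lit 27175340918) (nat_lit 0) (nat_lit 27265149280) (nat_lit 1292) (nat_lit 18132833642) (nat_lit 378) (nat_lit 5) (nat_lit 377) (nat_lit 5) (nat_lit 394) (nat_lit 5) (nat_lit 441) (nat_lit 434) (nat_lit 145))))) (XT.nd (nat_lit 312) (nat_lit 1140) (nat_lit 0) (XT.nd (nat_lit 156) (nat_lit 0) (nat_lit 76) (XT.nd (nat_lit 78) (nat_lit 0) (nat_lit 0) (XT.lf (nat_lit 0) (nat_lit 57921449477) (nat_lit 1216) (nat_lit 7936765684) (nat_lit 1292) (nat_lit 7838525346) (nat_lit 378) (nat_lit 5) (nat_lit 394) (nat_lit 5) (nat_lit 395) (nat_lit 5) (nat_lit 442) (nat_lit 434) (nat_lit 144)) (XT.lf (nat_lit 76) (nat_lit 30982579012) (nat_lit 0) (nat_lit 31091545324) (nat_lit 1292) (nat_lit 12762716736) (nat_lit 379) (nat_lit 5) (nat_lit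 378) (nat_lit 5) (nat_lit 395) (nat_lit 5) (nat_lit 443) (nat_lit 434) (nat_lit 143))) (XT.nd (nat_lit 78) (nat_lit 0) (nat_lit 0) (XT.lf (nat_lit 0) (nat_lit 66477195937) (nat_lit 1216) (nat_lit 4823038509) (nat_lit 1292) (nat_lit 4707135713) (nat_lit 379) (nat_lit 5) (nat_lit 395) (nat_lit 5) (nat_lit 396) (nat_lit 5) (nat_lit 444) (nat_lit 434) (nat_lit 142)) (XT.lf (nat_lit 76) (nat_lit 35768924271) (nat_lit 0) (nat_lit 35894642852) (nat_lit 1292) (nat_lit 5529911771) (nat_lit 380) (nat_lit 5) (nat_lit 379) (nat_lit 5) (nat_lit 396) (nat_lit 5) (nat_lit 445) (nat_lit 434) (nat_lit 141)))) (XT.nd (nat_lit 156) (nat_lit 0) (nat_lit 0) (XT.nd (nat_lit 78) (nat_lit 1292) (nat_lit 0) (XT.lf (nat_lit 0) (nat_lit 77059772934) (nat_lit 1216) (nat_lit 742539924) (nat_lit 1292) (nat_lit 611230729) (nat_lit 380) (nat_lit 5) (nat_lit 396) (nat_lit 5) (nat_lit 397) (nat_lit 5) (nat_lit 446) (nat_lit 434) (nat_lit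 140)) (XT.lf (nat_lit 0) (nat_lit 3652606266) (nat_lit 1292) (nat_lit 38067085909) (nat_lit 1368) (nat_lit 37926793879) (nat_lit 363) (nat_lit 5) (nat_lit 380) (nat_lit 5) (nat_lit 381) (nat_lit 5) (nat_lit 447) (nat_lit 434) (nat_lit 139))) (XT.nd (nat_lit 78) (nat_lit 0) (nat_lit 76) (XT.lf (nat_lit 76) (nat_lit 4340909514) (nat_lit 0) (nat_lit 4489922742) (nat_lit 1368) (nat_lit 72083716411) (nat_lit 364) (nat_lit 5) (nat_lit 363) (nat_lit 5) (nat_lit 381) (nat_lit 5) (nat_lit 448) (nat_lit 434) (nat_lit 138)) (XT.lf (nat_lit 0) (nat_lit 14877642976) (nat_lit 1292) (nat_lit 33737253324) (nat_lit 1368) (nat_lit 33584359720) (nat_lit 364) (nat_lit 5) (nat_lit 381) (nat_lit 5) (nat_lit 382) (nat_lit 5) (nat_lit 449) (nat_lit 434) (nat_lit 137)))))) (XT.nd (nat_lit 624) (nat_lit 2736) (nat_lit 0) (XT.nd (nat_lit 312) (nat_lit 1216) (nat_lit 0) (XT.nd (nat_lit 156) (nat_lit 760) (nat_lit 0) (XT.nd (nat_lit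 78) (nat_lit 0) (nat_lit 76) (XT.lf (nat_lit 76) (nat_lit 10545197259) (nat_lit 0) (nat_lit 10706071995) (nat_lit 1368) (nat_lit 62266873004) (nat_lit 365) (nat_lit 5) (nat_lit 364) (nat_lit 5) (nat_lit 382) (nat_lit 5) (nat_lit 450) (nat_lit 434) (nat_lit 136)) (XT.lf (nat_lit 0) (nat_lit 28432177957) (nat_lit 1292) (nat_lit 28294823482) (nat_lit 76) (nat_lit 28131111435) (nat_lit 365) (nat_lit 5) (nat_lit 382) (nat_lit 5) (nat_lit 366) (nat_lit 5) (nat_lit 451) (nat_lit 434) (nat_lit 135))) (XT.nd (nat_lit 78) (nat_lit 0) (nat_lit 0) (XT.lf (nat_lit 0) (nat_lit 17967913930) (nat_lit 836) (nat_lit 18138929844) (nat_lit 912) (nat_lit 50123088938) (nat_lit 354) (nat_lit 5) (nat_lit 365) (nat_lit 5) (nat_lit 366) (nat_lit 5) (nat_lit 452) (nat_lit 434) (nat_lit 134)) (XT.lf (nat_lit 0) (nat_lit 44507617349) (nat_lit 912) (nat_lit 21646666612) (nat_lit 76) (nat_lit 21473747150) (nat_lit 354) (nat_lit 5)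 (nat_lit 366) (nat_lit 5) (nat_lit 355) (nat_lit 5) (nat_lit 453) (nat_lit 434) (nat_lit 133)))) (XT.nd (nat_lit 156) (nat_lit 608) (nat_lit 0) (XT.nd (nat_lit 78) (nat_lit 0) (nat_lit 0) (XT.lf (nat_lit 0) (nat_lit 26708385693) (nat_lit 608) (nat_lit 26887989228) (nat_lit 684) (nat_lit 35458618717) (nat_lit 346) (nat_lit 5) (nat_lit 354) (nat_lit 5) (nat_lit 355) (nat_lit 5) (nat_lit 454) (nat_lit 434) (nat_lit 132)) (XT.lf (nat_lit 0) (nat_lit 63308497549) (nat_lit 684) (nat_lit 13693209584) (nat_lit 76) (nat_lit 13512536840) (nat_lit 346) (nat_lit 5) (nat_lit 355) (nat_lit 5) (nat_lit 347) (nat_lit 5) (nat_lit 455) (nat_lit 434) (nat_lit 131))) (XT.nd (nat_lit 78) (nat_lit 0) (nat_lit 0) (XT.lf (nat_lit 0) (nat_lit 36872751873) (nat_lit 608) (nat_lit 37059541490) (nat_lit 684) (nat_lit 18066369169) (nat_lit 338) (nat_lit 5) (nat_lit 346) (nat_lit 5) (nat_lit 347) (nat_lit 5) (nat_lit 456) (nat_lit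 434) (nat_lit 130)) (XT.lf (nat_lit 0) (nat_lit 85053330082) (nat_lit 684) (nat_lit 4328021318) (nat_lit 76) (nat_lit 4140906436) (nat_lit 338) (nat_lit 5) (nat_lit 347) (nat_lit 5) (nat_lit 339) (nat_lit 5) (nat_lit 457) (nat_lit 434) (nat_lit 129))))) (XT.nd (nat_lit 312) (nat_lit 988) (nat_lit 0) (XT.nd (nat_lit 156) (nat_lit 532) (nat_lit 0) (XT.nd (nat_lit 78) (nat_lit 608) (nat_lit 0) (XT.lf (nat_lit 0) (nat_lit 2230568233) (nat_lit 608) (nat_lit 46514021926) (nat_lit 76) (nat_lit 46321309238) (nat_lit 330) (nat_lit 5) (nat_lit 338) (nat_lit 5) (nat_lit 331) (nat_lit 5) (nat_lit 458) (nat_lit 434) (nat_lit 128)) (XT.lf (nat_lit 0) (nat_lit 6494459635) (nat_lit 608) (nat_lit 6692607086) (nat_lit 684) (nat_lit 83463080920) (nat_lit 322) (nat_lit 5) (nat_lit 330) (nat_lit 5) (nat_lit 331) (nat_lit 5) (nat_lit 459) (nat_lit 434) (nat_lit 127))) (XT.nd (nat_lit 78) (nat_lit 532) (nat_lit 0) (XT.lf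 (nat_lit 0) (nat_lit 25298308905) (nat_lit 684) (nat_lit 36578165958) (nat_lit 76) (nat_lit 36380667007) (nat_lit 322) (nat_lit 5) (nat_lit 331) (nat_lit 5) (nat_lit 323) (nat_lit 5) (nat_lit 460) (nat_lit 434) (nat_lit 126)) (XT.lf (nat_lit 0) (nat_lit 18909064606) (nat_lit 532) (nat_lit 19111537135) (nat_lit 608) (nat_lit 61884312783) (nat_lit 315) (nat_lit 5) (nat_lit 322) (nat_lit 5) (nat_lit 323) (nat_lit 5) (nat_lit 461) (nat_lit 434) (nat_lit 125)))) (XT.nd (nat_lit 156) (nat_lit 456) (nat_lit 0) (XT.nd (nat_lit 78) (nat_lit 532) (nat_lit 0) (XT.lf (nat_lit 0) (nat_lit 51736981855) (nat_lit 608) (nat_lit 25024014646) (nat_lit 76) (nat_lit 24822751302) (nat_lit 315) (nat_lit 5) (nat_lit 323) (nat_lit 5) (nat_lit 316) (nat_lit 5) (nat_lit 462) (nat_lit 434) (nat_lit 124)) (XT.lf (nat_lit 0) (nat_lit 33082987384) (nat_lit 532) (nat_lit 33288802257) (nat_lit 608) (nat_lit 36925948351) (nat_lit 308)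 (nat_lit 5) (nat_lit 315) (nat_lit 5) (nat_lit 316) (nat_lit 5) (nat_lit 463) (nat_lit 434) (nat_lit 123))) (XT.nd (nat_lit 78) (nat_lit 456) (nat_lit 0) (XT.lf (nat_lit 0) (nat_lit 81810966959) (nat_lit 608) (nat_lit 11722665843) (nat_lit 76) (nat_lit 11518555326) (nat_lit 308) (nat_lit 5) (nat_lit 316) (nat_lit 5) (nat_lit 309) (nat_lit 5) (nat_lit 464) (nat_lit 434) (nat_lit 122)) (XT.lf (nat_lit 0) (nat_lit 49153420857) (nat_lit 456) (nat_lit 49361696667) (nat_lit 532) (nat_lit 8320100306) (nat_lit 302) (nat_lit 5) (nat_lit 308) (nat_lit 5) (nat_lit 309) (nat_lit 5) (nat_lit 465) (nat_lit 434) (nat_lit 121))))))))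
noncomputable def xc250 : XT := (XT.nd (nat_lit 52884) (nat_lit 0) (nat_lit 0) (XT.nd (nat_lit 51714) (nat_lit 0) (nat_lit 1596) (XT.nd (nat_lit 51090) (nat_lit 0) (nat_lit 6232) (XT.nd (nat_lit 50778) (nat_lit 0) (nat_lit 6080) (XT.nd (nat_lit 78) (nat_lit 0) (nat_lit 0) (XT.lf (nat_lit 0) (nat_lit 3425490585) (nat_lit 532) (nat_lit 3637810369) (nat_lit 608) (nat_lit 101601839048) (nat_lit 294) (nat_lit 5) (nat_lit 301) (nat_lit 5) (nat_lit 302) (nat_lit 5) (nat_lit 466) (nat_lit 434) (nat_lit 120)) (XT.nd (nat_lit 50622) (nat_lit 0) (nat_lit 6080) (XT.lf (nat_lit 0) (nat_lit 23746681649) (nat_lit 608) (nat_lit 43490291661) (nat_lit 76) (nat_lit 43280344116) (nat_lit 294) (nat_lit 5) (nat_lit 302) (nat_lit 5) (nat_lit 295) (nat_lit 5) (nat_lit 467) (nat_lit 434) (nat_lit 119)) (XT.lf (nat_lit 0) (nat_lit 21109146442) (nat_lit 1292) (nat_lit 6267143434) (nat_lit 1292) (nat_lit 6267143434) (nat_lit 374)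 (nat_lit 3) (nat_lit 391) (nat_lit 3) (nat_lit 391) (nat_lit 5) (nat_lit 435) (nat_lit 435) (nat_lit 150)))) (XT.nd (nat_lit 156) (nat_lit 0) (nat_lit 76) (XT.nd (nat_lit 78) (nat_lit 0) (nat_lit 76) (XT.lf (nat_lit 76) (nat_lit 21529259847) (nat_lit 0) (nat_lit 21543674660) (nat_lit 1292) (nat_lit 25216594097) (nat_lit 375) (nat_lit 5) (nat_lit 374) (nat_lit 3) (nat_lit 391) (nat_lit 5) (nat_lit 436) (nat_lit 435) (nat_lit 149)) (XT.lf (nat_lit 0) (nat_lit 44202187528) (nat_lit 1216) (nat_lit 12570098030) (nat_lit 1292) (nat_lit 12542515723) (nat_lit 375) (nat_lit 5) (nat_lit 391) (nat_lit 5) (nat_lit 392) (nat_lit 5) (nat_lit 437) (nat_lit 435) (nat_lit 148))) (XT.nd (nat_lit 78) (nat_lit 0) (nat_lit 76) (XT.lf (nat_lit 76) (nat_lit 22878612371) (nat_lit 0) (nat_lit 22919386274) (nat_lit 1292) (nat_lit 24559853080) (nat_lit 376) (nat_lit 5) (nat_lit 375) (nat_lit 5) (nat_lit 392) (nat_lit 5) (nat_lit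 438) (nat_lit 435) (nat_lit 147)) (XT.lf (nat_lit 0) (nat_lit 47684205059) (nat_lit 1216) (nat_lit 11896366825) (nat_lit 1292) (nat_lit 11844346167) (nat_lit 376) (nat_lit 5) (nat_lit 392) (nat_lit 5) (nat_lit 393) (nat_lit 5) (nat_lit 439) (nat_lit 435) (nat_lit 146))))) (XT.nd (nat_lit 312) (nat_lit 0) (nat_lit 152) (XT.nd (nat_lit 156) (nat_lit 0) (nat_lit 76) (XT.nd (nat_lit 78) (nat_lit 0) (nat_lit 76) (XT.lf (nat_lit 76) (nat_lit 25014886051) (nat_lit 0) (nat_lit 25078978888) (nat_lit 1292) (nat_lit 22416125411) (nat_lit 377) (nat_lit 5) (nat_lit 376) (nat_lit 5) (nat_lit 393) (nat_lit 5) (nat_lit 440) (nat_lit 435) (nat_lit 145)) (XT.lf (nat_lit 0) (nat_lit 52797157642) (nat_lit 1216) (nat_lit 10448711063) (nat_lit 1292) (nat_lit 10375105822) (nat_lit 377) (nat_lit 5) (nat_lit 393) (nat_lit 5) (nat_lit 394) (nat_lit 5) (nat_lit 441) (nat_lit 435) (nat_lit 144))) (XT.nd (nat_lit 78) (nat_lit 0)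 (nat_lit 76) (XT.lf (nat_lit 76) (nat_lit 28006967887) (nat_lit 0) (nat_lit 28091620881) (nat_lit 1292) (nat_lit 18651188272) (nat_lit 378) (nat_lit 5) (nat_lit 377) (nat_lit 5) (nat_lit 394) (nat_lit 5) (nat_lit 442) (nat_lit 435) (nat_lit 143)) (XT.lf (nat_lit 0) (nat_lit 59683172565) (nat_lit 1216) (nat_lit 8158174355) (nat_lit 1292) (nat_lit 8065573415) (nat_lit 378) (nat_lit 5) (nat_lit 394) (nat_lit 5) (nat_lit 395) (nat_lit 5) (nat_lit 443) (nat_lit 435) (nat_lit 142)))) (XT.nd (nat_lit 156) (nat_lit 0) (nat_lit 76) (XT.nd (nat_lit 78) (nat_lit 0) (nat_lit 76) (XT.lf (nat_lit 76) (nat_lit 31928587012) (nat_lit 0) (nat_lit 32031298212) (nat_lit 1292) (nat_lit 13121354965) (nat_lit 379) (nat_lit 5) (nat_lit 378) (nat_lit 5) (nat_lit 395) (nat_lit 5) (nat_lit 444) (nat_lit 435) (nat_lit 141)) (XT.lf (nat_lit 0) (nat_lit 68494298035) (nat_lit 1216) (nat_lit 4950929571) (nat_lit 1292) (nat_lit 4841680070)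 (nat_lit 379) (nat_lit 5) (nat_lit 395) (nat_lit 5) (nat_lit 396) (nat_lit 5) (nat_lit 445) (nat_lit 435) (nat_lit 140))) (XT.nd (nat_lit 78) (nat_lit 0) (nat_lit 76) (XT.lf (nat_lit 76) (nat_lit 36858627385) (nat_lit 0) (nat_lit 36977129206) (nat_lit 1292) (nat_lit 5672858197) (nat_lit 380) (nat_lit 5) (nat_lit 379) (nat_lit 5) (nat_lit 396) (nat_lit 5) (nat_lit 446) (nat_lit 435) (nat_lit 139)) (XT.lf (nat_lit 0) (nat_lit 79393146870) (nat_lit 1216) (nat_lit 747963556) (nat_lit 1292) (nat_lit 624192046) (nat_lit 380) (nat_lit 5) (nat_lit 396) (nat_lit 5) (nat_lit 397) (nat_lit 5) (nat_lit 447) (nat_lit 435) (nat_lit 138)))))) (XT.nd (nat_lit 546) (nat_lit 2964) (nat_lit 0) (XT.nd (nat_lit 234) (nat_lit 684) (nat_lit 0) (XT.nd (nat_lit 78) (nat_lit 0) (nat_lit 0) (XT.lf (nat_lit 0) (nat_lit 3783506081) (nat_lit 1292) (nat_lit 39191986799) (nat_lit 1368) (nat_lit 39059748106) (nat_lit 363) (nat_lit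 5) (nat_lit 380) (nat_lit 5) (nat_lit 381) (nat_lit 5) (nat_lit 448) (nat_lit 435) (nat_lit 137)) (XT.nd (nat_lit 78) (nat_lit 0) (nat_lit 76) (XT.lf (nat_lit 76) (nat_lit 4488080724) (nat_lit 0) (nat_lit 4628539984) (nat_lit 1368) (nat_lit 74224738515) (nat_lit 364) (nat_lit 5) (nat_lit 363) (nat_lit 5) (nat_lit 381) (nat_lit 5) (nat_lit 449) (nat_lit 435) (nat_lit 136)) (XT.lf (nat_lit 0) (nat_lit 15344191496) (nat_lit 1292) (nat_lit 34732276257) (nat_lit 1368) (nat_lit 34588159372) (nat_lit 364) (nat_lit 5) (nat_lit 381) (nat_lit 5) (nat_lit 382) (nat_lit 5) (nat_lit 450) (nat_lit 435) (nat_lit 135)))) (XT.nd (nat_lit 156) (nat_lit 760) (nat_lit 0) (XT.nd (nat_lit 78) (nat_lit 0) (nat_lit 76) (XT.lf (nat_lit 76) (nat_lit 10878480249) (nat_lit 0) (nat_lit 11030120117) (nat_lit 1368) (nat_lit 64114492369) (nat_lit 365) (nat_lit 5) (nat_lit 364) (nat_lit 5) (nat_lit 382) (nat_lit 5) (nat_lit 451) (nat_lit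 435) (nat_lit 134)) (XT.lf (nat_lit 0) (nat_lit 29304333087) (nat_lit 1292) (nat_lit 29126630893) (nat_lit 76) (nat_lit 28972316587) (nat_lit 365) (nat_lit 5) (nat_lit 382) (nat_lit 5) (nat_lit 366) (nat_lit 5) (nat_lit 452) (nat_lit 435) (nat_lit 133))) (XT.nd (nat_lit 78) (nat_lit 0) (nat_lit 0) (XT.lf (nat_lit 0) (nat_lit 18523821609) (nat_lit 836) (nat_lit 18685020510) (nat_lit 912) (nat_lit 51607424783) (nat_lit 354) (nat_lit 5) (nat_lit 365) (nat_lit 5) (nat_lit 366) (nat_lit 5) (nat_lit 453) (nat_lit 435) (nat_lit 132)) (XT.lf (nat_lit 0) (nat_lit 45861073587) (nat_lit 912) (nat_lit 22279122402) (nat_lit 76) (nat_lit 22116129224) (nat_lit 354) (nat_lit 5) (nat_lit 366) (nat_lit 5) (nat_lit 355) (nat_lit 5) (nat_lit 454) (nat_lit 435) (nat_lit 131))))) (XT.nd (nat_lit 312) (nat_lit 1748) (nat_lit 0) (XT.nd (nat_lit 156) (nat_lit 608) (nat_lit 0) (XT.nd (nat_lit 78) (nat_lit 0) (nat_lit 0) (XT.lf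 (nat_lit 0) (nat_lit 27526415353) (nat_lit 608) (nat_lit 27695708911) (nat_lit 684) (nat_lit 36503983441) (nat_lit 346) (nat_lit 5) (nat_lit 354) (nat_lit 5) (nat_lit 355) (nat_lit 5) (nat_lit 455) (nat_lit 435) (nat_lit 130)) (XT.lf (nat_lit 0) (nat_lit 65225080352) (nat_lit 684) (nat_lit 14087186247) (nat_lit 76) (nat_lit 13916884857) (nat_lit 346) (nat_lit 5) (nat_lit 355) (nat_lit 5) (nat_lit 347) (nat_lit 5) (nat_lit 456) (nat_lit 435) (nat_lit 129))) (XT.nd (nat_lit 78) (nat_lit 0) (nat_lit 0) (XT.lf (nat_lit 0) (nat_lit 37995589156) (nat_lit 608) (nat_lit 38171656285) (nat_lit 684) (nat_lit 18590867469) (nat_lit 338) (nat_lit 5) (nat_lit 346) (nat_lit 5) (nat_lit 347) (nat_lit 5) (nat_lit 457) (nat_lit 435) (nat_lit 128)) (XT.lf (nat_lit 0) (nat_lit 87621415537) (nat_lit 684) (nat_lit 4441194596) (nat_lit 76) (nat_lit 4264820873) (nat_lit 338) (nat_lit 5) (nat_lit 347) (nat_lit 5) (nat_lit 339)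 (nat_lit 5) (nat_lit 458) (nat_lit 435) (nat_lit 127)))) (XT.nd (nat_lit 156) (nat_lit 532) (nat_lit 0) (XT.nd (nat_lit 78) (nat_lit 608) (nat_lit 0) (XT.lf (nat_lit 0) (nat_lit 2313809356) (nat_lit 608) (nat_lit 47892613746) (nat_lit 76) (nat_lit 47710963555) (nat_lit 330) (nat_lit 5) (nat_lit 338) (nat_lit 5) (nat_lit 331) (nat_lit 5) (nat_lit 459) (nat_lit 435) (nat_lit 126)) (XT.lf (nat_lit 0) (nat_lit 6705957274) (nat_lit 608) (nat_lit 6892730250) (nat_lit 684) (nat_lit 85950484282) (nat_lit 322) (nat_lit 5) (nat_lit 330) (nat_lit 5) (nat_lit 331) (nat_lit 5) (nat_lit 460) (nat_lit 435) (nat_lit 125))) (XT.nd (nat_lit 78) (nat_lit 532) (nat_lit 0) (XT.lf (nat_lit 0) (nat_lit 26072806810) (nat_lit 684) (nat_lit 37658872280) (nat_lit 76) (nat_lit 37472710576) (nat_lit 322) (nat_lit 5) (nat_lit 331) (nat_lit 5) (nat_lit 323) (nat_lit 5) (nat_lit 461) (nat_lit 435) (nat_lit 124)) (XT.lf (nat_lit 0)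 (nat_lit 19492812077) (nat_lit 532) (nat_lit 19683661854) (nat_lit 608) (nat_lit 63725130404) (nat_lit 315) (nat_lit 5) (nat_lit 322) (nat_lit 5) (nat_lit 323) (nat_lit 5) (nat_lit 462) (nat_lit 435) (nat_lit 123))))))) (XT.nd (nat_lit 51792) (nat_lit 0) (nat_lit 2128) (XT.nd (nat_lit 51168) (nat_lit 0) (nat_lit 6156) (XT.nd (nat_lit 234) (nat_lit 1064) (nat_lit 0) (XT.nd (nat_lit 78) (nat_lit 532) (nat_lit 0) (XT.lf (nat_lit 0) (nat_lit 53303912552) (nat_lit 608) (nat_lit 25758306526) (nat_lit 76) (nat_lit 25568596521) (nat_lit 315) (nat_lit 5) (nat_lit 323) (nat_lit 5) (nat_lit 316) (nat_lit 5) (nat_lit 463) (nat_lit 435) (nat_lit 122)) (XT.nd (nat_lit 78) (nat_lit 0) (nat_lit 0) (XT.lf (nat_lit 0) (nat_lit 34091744501) (nat_lit 532) (nat_lit 34285744758) (nat_lit 608) (nat_lit 38018744495) (nat_lit 308) (nat_lit 5) (nat_lit 315) (nat_lit 5) (nat_lit 316) (nat_lit 5) (nat_lit 464) (nat_lit 435) (nat_lit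 121)) (XT.lf (nat_lit 0) (nat_lit 84279434295) (nat_lit 608) (nat_lit 12058144532) (nat_lit 76) (nat_lit 11865750794) (nat_lit 308) (nat_lit 5) (nat_lit 316) (nat_lit 5) (nat_lit 309) (nat_lit 5) (nat_lit 465) (nat_lit 435) (nat_lit 120)))) (XT.nd (nat_lit 50778) (nat_lit 0) (nat_lit 6080) (XT.nd (nat_lit 78) (nat_lit 608) (nat_lit 0) (XT.lf (nat_lit 0) (nat_lit 50644065932) (nat_lit 456) (nat_lit 50840385859) (nat_lit 532) (nat_lit 8555406151) (nat_lit 302) (nat_lit 5) (nat_lit 308) (nat_lit 5) (nat_lit 309) (nat_lit 5) (nat_lit 466) (nat_lit 435) (nat_lit 119)) (XT.lf (nat_lit 0) (nat_lit 3544416727) (nat_lit 532) (nat_lit 3744548487) (nat_lit 608) (nat_lit 104635716031) (nat_lit 294) (nat_lit 5) (nat_lit 301) (nat_lit 5) (nat_lit 302) (nat_lit 5) (nat_lit 467) (nat_lit 435) (nat_lit 118))) (XT.nd (nat_lit 78) (nat_lit 0) (nat_lit 0) (XT.lf (nat_lit 0) (nat_lit 21756697084) (nat_lit 1292) (nat_lit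 6447805469) (nat_lit 1292) (nat_lit 6447805469) (nat_lit 374) (nat_lit 3) (nat_lit 391) (nat_lit 3) (nat_lit 391) (nat_lit 5) (nat_lit 436) (nat_lit 436) (nat_lit 148)) (XT.lf (nat_lit 76) (nat_lit 22189698016) (nat_lit 0) (nat_lit 22203285360) (nat_lit 1292) (nat_lit 25944395261) (nat_lit 375) (nat_lit 5) (nat_lit 374) (nat_lit 3) (nat_lit 391) (nat_lit 5) (nat_lit 437) (nat_lit 436) (nat_lit 147))))) (XT.nd (nat_lit 312) (nat_lit 0) (nat_lit 152) (XT.nd (nat_lit 156) (nat_lit 0) (nat_lit 76) (XT.nd (nat_lit 78) (nat_lit 0) (nat_lit 0) (XT.lf (nat_lit 0) (nat_lit 45555178380) (nat_lit 1216) (nat_lit 12932129077) (nat_lit 1292) (nat_lit 12906130107) (nat_lit 375) (nat_lit 5) (nat_lit 391) (nat_lit 5) (nat_lit 392) (nat_lit 5) (nat_lit 438) (nat_lit 436) (nat_lit 146)) (XT.lf (nat_lit 76) (nat_lit 23579894873) (nat_lit 0) (nat_lit 23618328187) (nat_lit 1292) (nat_lit 25269575683) (nat_lit 376) (nat_lit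 5) (nat_lit 375) (nat_lit 5) (nat_lit 392) (nat_lit 5) (nat_lit 439) (nat_lit 436) (nat_lit 145))) (XT.nd (nat_lit 78) (nat_lit 0) (nat_lit 0) (XT.lf (nat_lit 0) (nat_lit 49140144078) (nat_lit 1216) (nat_lit 12237896794) (nat_lit 1292) (nat_lit 12188862335) (nat_lit 376) (nat_lit 5) (nat_lit 392) (nat_lit 5) (nat_lit 393) (nat_lit 5) (nat_lit 440) (nat_lit 436) (nat_lit 144)) (XT.lf (nat_lit 76) (nat_lit 25780543070) (nat_lit 0) (nat_lit 25840956716) (nat_lit 1292) (nat_lit 23063045707) (nat_lit 377) (nat_lit 5) (nat_lit 376) (nat_lit 5) (nat_lit 393) (nat_lit 5) (nat_lit 441) (nat_lit 436) (nat_lit 143)))) (XT.nd (nat_lit 156) (nat_lit 0) (nat_lit 76) (XT.nd (nat_lit 78) (nat_lit 0) (nat_lit 0) (XT.lf (nat_lit 0) (nat_lit 54405078717) (nat_lit 1216) (nat_lit 10746592427) (nat_lit 1292) (nat_lit 10677212428) (nat_lit 377) (nat_lit 5) (nat_lit 393) (nat_lit 5) (nat_lit 394) (nat_lit 5) (nat_lit 442)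 (nat_lit 436) (nat_lit 142)) (XT.lf (nat_lit 76) (nat_lit 28862604146) (nat_lit 0) (nat_lit 28942397712) (nat_lit 1292) (nat_lit 19186564829) (nat_lit 378) (nat_lit 5) (nat_lit 377) (nat_lit 5) (nat_lit 394) (nat_lit 5) (nat_lit 443) (nat_lit 436) (nat_lit 141))) (XT.nd (nat_lit 78) (nat_lit 0) (nat_lit 0) (XT.lf (nat_lit 0) (nat_lit 61496365078) (nat_lit 1216) (nat_lit 8387183608) (nat_lit 1292) (nat_lit 8299898340) (nat_lit 378) (nat_lit 5) (nat_lit 394) (nat_lit 5) (nat_lit 395) (nat_lit 5) (nat_lit 444) (nat_lit 436) (nat_lit 140)) (XT.lf (nat_lit 76) (nat_lit 32902026326) (nat_lit 0) (nat_lit 32998841484) (nat_lit 1292) (nat_lit 13492144004) (nat_lit 379) (nat_lit 5) (nat_lit 378) (nat_lit 5) (nat_lit 395) (nat_lit 5) (nat_lit 445) (nat_lit 436) (nat_lit 139)))))) (XT.nd (nat_lit 624) (nat_lit 3116) (nat_lit 0) (XT.nd (nat_lit 312) (nat_lit 0) (nat_lit 0) (XT.nd (nat_lit 156) (nat_lit 1216) (nat_lit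 0) (XT.nd (nat_lit 78) (nat_lit 0) (nat_lit 0) (XT.lf (nat_lit 0) (nat_lit 70570605175) (nat_lit 1216) (nat_lit 5083621760) (nat_lit 1292) (nat_lit 4980643627) (nat_lit 379) (nat_lit 5) (nat_lit 395) (nat_lit 5) (nat_lit 396) (nat_lit 5) (nat_lit 446) (nat_lit 436) (nat_lit 138)) (XT.lf (nat_lit 76) (nat_lit 37980066653) (nat_lit 0) (nat_lit 38091765985) (nat_lit 1292) (nat_lit 5821410493) (nat_lit 380) (nat_lit 5) (nat_lit 379) (nat_lit 5) (nat_lit 396) (nat_lit 5) (nat_lit 447) (nat_lit 436) (nat_lit 137))) (XT.nd (nat_lit 78) (nat_lit 1292) (nat_lit 0) (XT.lf (nat_lit 0) (nat_lit 81795283201) (nat_lit 1216) (nat_lit 754517304) (nat_lit 1292) (nat_lit 637850784) (nat_lit 380) (nat_lit 5) (nat_lit 396) (nat_lit 5) (nat_lit 397) (nat_lit 5) (nat_lit 448) (nat_lit 436) (nat_lit 136)) (XT.lf (nat_lit 0) (nat_lit 3917108942) (nat_lit 1292) (nat_lit 40351616997) (nat_lit 1368) (nat_lit 40226969346) (nat_lit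 363) (nat_lit 5) (nat_lit 380) (nat_lit 5) (nat_lit 381) (nat_lit 5) (nat_lit 449) (nat_lit 436) (nat_lit 135)))) (XT.nd (nat_lit 156) (nat_lit 0) (nat_lit 76) (XT.nd (nat_lit 78) (nat_lit 0) (nat_lit 76) (XT.lf (nat_lit 76) (nat_lit 4638694420) (nat_lit 0) (nat_lit 4771090744) (nat_lit 1368) (nat_lit 76431224860) (nat_lit 364) (nat_lit 5) (nat_lit 363) (nat_lit 5) (nat_lit 381) (nat_lit 5) (nat_lit 450) (nat_lit 436) (nat_lit 134)) (XT.lf (nat_lit 0) (nat_lit 15823575805) (nat_lit 1292) (nat_lit 35758131182) (nat_lit 1368) (nat_lit 35622287195) (nat_lit 364) (nat_lit 5) (nat_lit 381) (nat_lit 5) (nat_lit 382) (nat_lit 5) (nat_lit 451) (nat_lit 436) (nat_lit 133))) (XT.nd (nat_lit 78) (nat_lit 0) (nat_lit 76) (XT.lf (nat_lit 76) (nat_lit 11220790045) (nat_lit 0) (nat_lit 11363725165) (nat_lit 1368) (nat_lit 66018710602) (nat_lit 365) (nat_lit 5) (nat_lit 364) (nat_lit 5) (nat_lit 382) (nat_lit 5) (nat_lit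 452) (nat_lit 436) (nat_lit 132)) (XT.lf (nat_lit 0) (nat_lit 30201551298) (nat_lit 1292) (nat_lit 29984370536) (nat_lit 76) (nat_lit 29838914503) (nat_lit 365) (nat_lit 5) (nat_lit 382) (nat_lit 5) (nat_lit 366) (nat_lit 5) (nat_lit 453) (nat_lit 436) (nat_lit 131))))) (XT.nd (nat_lit 312) (nat_lit 1824) (nat_lit 0) (XT.nd (nat_lit 156) (nat_lit 608) (nat_lit 0) (XT.nd (nat_lit 78) (nat_lit 0) (nat_lit 0) (XT.lf (nat_lit 0) (nat_lit 19095438097) (nat_lit 836) (nat_lit 19247383521) (nat_lit 912) (nat_lit 53137401864) (nat_lit 354) (nat_lit 5) (nat_lit 365) (nat_lit 5) (nat_lit 366) (nat_lit 5) (nat_lit 454) (nat_lit 436) (nat_lit 130)) (XT.lf (nat_lit 0) (nat_lit 47254087167) (nat_lit 912) (nat_lit 22931524532) (nat_lit 76) (nat_lit 22777887829) (nat_lit 354) (nat_lit 5) (nat_lit 366) (nat_lit 5) (nat_lit 355) (nat_lit 5) (nat_lit 455) (nat_lit 436) (nat_lit 129))) (XT.nd (nat_lit 78) (nat_lit 0) (nat_lit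 0) (XT.lf (nat_lit 0) (nat_lit 28368022772) (nat_lit 608) (nat_lit 28527598187) (nat_lit 684) (nat_lit 37581764989) (nat_lit 346) (nat_lit 5) (nat_lit 354) (nat_lit 5) (nat_lit 355) (nat_lit 5) (nat_lit 456) (nat_lit 436) (nat_lit 128)) (XT.lf (nat_lit 0) (nat_lit 67198165948) (nat_lit 684) (nat_lit 14493947724) (nat_lit 76) (nat_lit 14333422332) (nat_lit 346) (nat_lit 5) (nat_lit 355) (nat_lit 5) (nat_lit 347) (nat_lit 5) (nat_lit 457) (nat_lit 436) (nat_lit 127)))) (XT.nd (nat_lit 156) (nat_lit 1216) (nat_lit 0) (XT.nd (nat_lit 78) (nat_lit 0) (nat_lit 0) (XT.lf (nat_lit 0) (nat_lit 39151155508) (nat_lit 608) (nat_lit 39317115663) (nat_lit 684) (nat_lit 19132104875) (nat_lit 338) (nat_lit 5) (nat_lit 346) (nat_lit 5) (nat_lit 347) (nat_lit 5) (nat_lit 458) (nat_lit 436) (nat_lit 126)) (XT.lf (nat_lit 0) (nat_lit 90265597216) (nat_lit 684) (nat_lit 4558719846) (nat_lit 76) (nat_lit 4392470696) (nat_lit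 338) (nat_lit 5) (nat_lit 347) (nat_lit 5) (nat_lit 339) (nat_lit 5) (nat_lit 459) (nat_lit 436) (nat_lit 125))) (XT.nd (nat_lit 78) (nat_lit 608) (nat_lit 0) (XT.lf (nat_lit 0) (nat_lit 2398610644) (nat_lit 608) (nat_lit 49313529365) (nat_lit 76) (nat_lit 49142306637) (nat_lit 330) (nat_lit 5) (nat_lit 338) (nat_lit 5) (nat_lit 331) (nat_lit 5) (nat_lit 460) (nat_lit 436) (nat_lit 124)) (XT.lf (nat_lit 0) (nat_lit 6922843268) (nat_lit 608) (nat_lit 7098894712) (nat_lit 684) (nat_lit 88513456285) (nat_lit 322) (nat_lit 5) (nat_lit 330) (nat_lit 5) (nat_lit 331) (nat_lit 5) (nat_lit 461) (nat_lit 436) (nat_lit 123))))))))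
noncomputable def xc251 : XT := (XT.nd (nat_lit 53196) (nat_lit 0) (nat_lit 0) (XT.nd (nat_lit 51948) (nat_lit 0) (nat_lit 1064) (XT.nd (nat_lit 51324) (nat_lit 0) (nat_lit 5092) (XT.nd (nat_lit 234) (nat_lit 532) (nat_lit 0) (XT.nd (nat_lit 78) (nat_lit 532) (nat_lit 0) (XT.lf (nat_lit 0) (nat_lit 26869647098) (nat_lit 684) (nat_lit 38772954918) (nat_lit 76) (nat_lit 38597479658) (nat_lit 322) (nat_lit 5) (nat_lit 331) (nat_lit 5) (nat_lit 323) (nat_lit 5) (nat_lit 462) (nat_lit 436) (nat_lit 122)) (XT.nd (nat_lit 78) (nat_lit 0) (nat_lit 0) (XT.lf (nat_lit 0) (nat_lit 20093126209) (nat_lit 532) (nat_lit 20273020429) (nat_lit 608) (nat_lit 65622074473) (nat_lit 315) (nat_lit 5) (nat_lit 322) (nat_lit 5) (nat_lit 323) (nat_lit 5) (nat_lit 463) (nat_lit 436) (nat_lit 121)) (XT.lf (nat_lit 0) (nat_lit 54917000371) (nat_lit 608) (nat_lit 26515570229) (nat_lit 76) (nat_lit 26336750354) (nat_lit 315) (nat_lit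 5) (nat_lit 323) (nat_lit 5) (nat_lit 316) (nat_lit 5) (nat_lit 464) (nat_lit 436) (nat_lit 120)))) (XT.nd (nat_lit 50934) (nat_lit 0) (nat_lit 5016) (XT.nd (nat_lit 78) (nat_lit 0) (nat_lit 0) (XT.lf (nat_lit 0) (nat_lit 35129830510) (nat_lit 532) (nat_lit 35312694359) (nat_lit 608) (nat_lit 39145184569) (nat_lit 308) (nat_lit 5) (nat_lit 315) (nat_lit 5) (nat_lit 316) (nat_lit 5) (nat_lit 465) (nat_lit 436) (nat_lit 119)) (XT.lf (nat_lit 0) (nat_lit 86821144054) (nat_lit 608) (nat_lit 12404617603) (nat_lit 76) (nat_lit 12223268052) (nat_lit 308) (nat_lit 5) (nat_lit 316) (nat_lit 5) (nat_lit 309) (nat_lit 5) (nat_lit 466) (nat_lit 436) (nat_lit 118))) (XT.nd (nat_lit 78) (nat_lit 0) (nat_lit 0) (XT.lf (nat_lit 0) (nat_lit 22422854730) (nat_lit 1292) (nat_lit 6634309415) (nat_lit 1292) (nat_lit 6634309415) (nat_lit 374) (nat_lit 3) (nat_lit 391) (nat_lit 3) (nat_lit 391) (nat_lit 5) (nat_lit 437) (nat_lit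 437) (nat_lit 146)) (XT.lf (nat_lit 76) (nat_lit 22869113506) (nat_lit 0) (nat_lit 22881920880) (nat_lit 1292) (nat_lit 26695677765) (nat_lit 375) (nat_lit 5) (nat_lit 374) (nat_lit 3) (nat_lit 391) (nat_lit 5) (nat_lit 438) (nat_lit 437) (nat_lit 145))))) (XT.nd (nat_lit 312) (nat_lit 0) (nat_lit 152) (XT.nd (nat_lit 156) (nat_lit 0) (nat_lit 76) (XT.nd (nat_lit 78) (nat_lit 0) (nat_lit 0) (XT.lf (nat_lit 0) (nat_lit 46947213339) (nat_lit 1216) (nat_lit 13305886243) (nat_lit 1292) (nat_lit 13281379720) (nat_lit 375) (nat_lit 5) (nat_lit 391) (nat_lit 5) (nat_lit 392) (nat_lit 5) (nat_lit 439) (nat_lit 437) (nat_lit 144)) (XT.lf (nat_lit 76) (nat_lit 24301359143) (nat_lit 0) (nat_lit 24337586228) (nat_lit 1292) (nat_lit 26002144065) (nat_lit 376) (nat_lit 5) (nat_lit 375) (nat_lit 5) (nat_lit 392) (nat_lit 5) (nat_lit 440) (nat_lit 437) (nat_lit 143))) (XT.nd (nat_lit 78) (nat_lit 0) (nat_lit 0) (XT.lf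 (nat_lit 0) (nat_lit 50638302465) (nat_lit 1216) (nat_lit 12590554448) (nat_lit 1292) (nat_lit 12544334768) (nat_lit 376) (nat_lit 5) (nat_lit 392) (nat_lit 5) (nat_lit 393) (nat_lit 5) (nat_lit 441) (nat_lit 437) (nat_lit 142)) (XT.lf (nat_lit 76) (nat_lit 26568296658) (nat_lit 0) (nat_lit 26625242313) (nat_lit 1292) (nat_lit 23730841061) (nat_lit 377) (nat_lit 5) (nat_lit 376) (nat_lit 5) (nat_lit 393) (nat_lit 5) (nat_lit 442) (nat_lit 437) (nat_lit 141)))) (XT.nd (nat_lit 156) (nat_lit 0) (nat_lit 76) (XT.nd (nat_lit 78) (nat_lit 0) (nat_lit 0) (XT.lf (nat_lit 0) (nat_lit 56059859362) (nat_lit 1216) (nat_lit 11054304586) (nat_lit 1292) (nat_lit 10988907283) (nat_lit 377) (nat_lit 5) (nat_lit 393) (nat_lit 5) (nat_lit 394) (nat_lit 5) (nat_lit 443) (nat_lit 437) (nat_lit 140)) (XT.lf (nat_lit 76) (nat_lit 29743023908) (nat_lit 0) (nat_lit 29818236997) (nat_lit 1292) (nat_lit 19739389514) (nat_lit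 378) (nat_lit 5) (nat_lit 377) (nat_lit 5) (nat_lit 394) (nat_lit 5) (nat_lit 444) (nat_lit 437) (nat_lit 139))) (XT.nd (nat_lit 78) (nat_lit 0) (nat_lit 0) (XT.lf (nat_lit 0) (nat_lit 63362650446) (nat_lit 1216) (nat_lit 8623966447) (nat_lit 1292) (nat_lit 8541691711) (nat_lit 378) (nat_lit 5) (nat_lit 394) (nat_lit 5) (nat_lit 395) (nat_lit 5) (nat_lit 445) (nat_lit 437) (nat_lit 138)) (XT.lf (nat_lit 76) (nat_lit 33903774367) (nat_lit 0) (nat_lit 33995031938) (nat_lit 1292) (nat_lit 13875368491) (nat_lit 379) (nat_lit 5) (nat_lit 378) (nat_lit 5) (nat_lit 395) (nat_lit 5) (nat_lit 446) (nat_lit 437) (nat_lit 137)))))) (XT.nd (nat_lit 624) (nat_lit 3116) (nat_lit 0) (XT.nd (nat_lit 312) (nat_lit 0) (nat_lit 0) (XT.nd (nat_lit 156) (nat_lit 1216) (nat_lit 0) (XT.nd (nat_lit 78) (nat_lit 0) (nat_lit 0) (XT.lf (nat_lit 0) (nat_lit 72707968592) (nat_lit 1216) (nat_lit 5221203748) (nat_lit 1292) (nat_lit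 5124136981) (nat_lit 379) (nat_lit 5) (nat_lit 395) (nat_lit 5) (nat_lit 396) (nat_lit 5) (nat_lit 447) (nat_lit 437) (nat_lit 136)) (XT.lf (nat_lit 76) (nat_lit 39134248978) (nat_lit 0) (nat_lit 39239536311) (nat_lit 1292) (nat_lit 5975661206) (nat_lit 380) (nat_lit 5) (nat_lit 379) (nat_lit 5) (nat_lit 396) (nat_lit 5) (nat_lit 448) (nat_lit 437) (nat_lit 135))) (XT.nd (nat_lit 78) (nat_lit 1292) (nat_lit 0) (XT.lf (nat_lit 0) (nat_lit 84268315913) (nat_lit 1216) (nat_lit 762179536) (nat_lit 1292) (nat_lit 652210152) (nat_lit 380) (nat_lit 5) (nat_lit 396) (nat_lit 5) (nat_lit 397) (nat_lit 5) (nat_lit 449) (nat_lit 437) (nat_lit 134)) (XT.lf (nat_lit 0) (nat_lit 4053566200) (nat_lit 1292) (nat_lit 41546961995) (nat_lit 1368) (nat_lit 41429469629) (nat_lit 363) (nat_lit 5) (nat_lit 380) (nat_lit 5) (nat_lit 381) (nat_lit 5) (nat_lit 450) (nat_lit 437) (nat_lit 133)))) (XT.nd (nat_lit 156) (nat_lit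 0) (nat_lit 76) (XT.nd (nat_lit 78) (nat_lit 0) (nat_lit 76) (XT.lf (nat_lit 76) (nat_lit 4792909711) (nat_lit 0) (nat_lit 4917705944) (nat_lit 1368) (nat_lit 78705068562) (nat_lit 364) (nat_lit 5) (nat_lit 363) (nat_lit 5) (nat_lit 381) (nat_lit 5) (nat_lit 451) (nat_lit 437) (nat_lit 132)) (XT.lf (nat_lit 0) (nat_lit 16316247603) (nat_lit 1292) (nat_lit 36815686727) (nat_lit 1368) (nat_lit 36687640741) (nat_lit 364) (nat_lit 5) (nat_lit 381) (nat_lit 5) (nat_lit 382) (nat_lit 5) (nat_lit 452) (nat_lit 437) (nat_lit 131))) (XT.nd (nat_lit 78) (nat_lit 0) (nat_lit 76) (XT.lf (nat_lit 76) (nat_lit 11572453231) (nat_lit 0) (nat_lit 11707183290) (nat_lit 1368) (nat_lit 67981158490) (nat_lit 365) (nat_lit 5) (nat_lit 364) (nat_lit 5) (nat_lit 382) (nat_lit 5) (nat_lit 453) (nat_lit 437) (nat_lit 130)) (XT.lf (nat_lit 0) (nat_lit 31124647717) (nat_lit 1292) (nat_lit 30868764237) (nat_lit 76) (nat_lit 30731657975)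 (nat_lit 365) (nat_lit 5) (nat_lit 382) (nat_lit 5) (nat_lit 366) (nat_lit 5) (nat_lit 454) (nat_lit 437) (nat_lit 129))))) (XT.nd (nat_lit 312) (nat_lit 1824) (nat_lit 0) (XT.nd (nat_lit 156) (nat_lit 608) (nat_lit 0) (XT.nd (nat_lit 78) (nat_lit 0) (nat_lit 0) (XT.lf (nat_lit 0) (nat_lit 19683290249) (nat_lit 836) (nat_lit 19826513384) (nat_lit 912) (nat_lit 54714325633) (nat_lit 354) (nat_lit 5) (nat_lit 365) (nat_lit 5) (nat_lit 366) (nat_lit 5) (nat_lit 455) (nat_lit 437) (nat_lit 128)) (XT.lf (nat_lit 0) (nat_lit 48687904873) (nat_lit 912) (nat_lit 23604415558) (nat_lit 76) (nat_lit 23459598230) (nat_lit 354) (nat_lit 5) (nat_lit 366) (nat_lit 5) (nat_lit 355) (nat_lit 5) (nat_lit 456) (nat_lit 437) (nat_lit 127))) (XT.nd (nat_lit 78) (nat_lit 0) (nat_lit 0) (XT.lf (nat_lit 0) (nat_lit 29233970570) (nat_lit 608) (nat_lit 29384385703) (nat_lit 684) (nat_lit 38692875252) (nat_lit 346) (nat_lit 5)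 (nat_lit 354) (nat_lit 5) (nat_lit 355) (nat_lit 5) (nat_lit 457) (nat_lit 437) (nat_lit 126)) (XT.lf (nat_lit 0) (nat_lit 69229506521) (nat_lit 684) (nat_lit 14913822137) (nat_lit 76) (nat_lit 14762511559) (nat_lit 346) (nat_lit 5) (nat_lit 355) (nat_lit 5) (nat_lit 347) (nat_lit 5) (nat_lit 458) (nat_lit 437) (nat_lit 125)))) (XT.nd (nat_lit 156) (nat_lit 1216) (nat_lit 0) (XT.nd (nat_lit 78) (nat_lit 0) (nat_lit 0) (XT.lf (nat_lit 0) (nat_lit 40340487682) (nat_lit 608) (nat_lit 40496921046) (nat_lit 684) (nat_lit 19690525917) (nat_lit 338) (nat_lit 5) (nat_lit 346) (nat_lit 5) (nat_lit 347) (nat_lit 5) (nat_lit 459) (nat_lit 437) (nat_lit 124)) (XT.lf (nat_lit 0) (nat_lit 92988212332) (nat_lit 684) (nat_lit 4680672706) (nat_lit 76) (nat_lit 4523966937) (nat_lit 338) (nat_lit 5) (nat_lit 347) (nat_lit 5) (nat_lit 339) (nat_lit 5) (nat_lit 460) (nat_lit 437) (nat_lit 123))) (XT.nd (nat_lit 78) (nat_lit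 608) (nat_lit 0) (XT.lf (nat_lit 0) (nat_lit 2485072694) (nat_lit 608) (nat_lit 50777983041) (nat_lit 76) (nat_lit 50616589199) (nat_lit 330) (nat_lit 5) (nat_lit 338) (nat_lit 5) (nat_lit 331) (nat_lit 5) (nat_lit 461) (nat_lit 437) (nat_lit 122)) (XT.lf (nat_lit 0) (nat_lit 7145334180) (nat_lit 608) (nat_lit 7311279551) (nat_lit 684) (nat_lit 91154209653) (nat_lit 322) (nat_lit 5) (nat_lit 330) (nat_lit 5) (nat_lit 331) (nat_lit 5) (nat_lit 462) (nat_lit 437) (nat_lit 121))))))) (XT.nd (nat_lit 52026) (nat_lit 0) (nat_lit 1064) (XT.nd (nat_lit 51402) (nat_lit 0) (nat_lit 5092) (XT.nd (nat_lit 234) (nat_lit 532) (nat_lit 0) (XT.nd (nat_lit 78) (nat_lit 532) (nat_lit 0) (XT.lf (nat_lit 0) (nat_lit 27689551275) (nat_lit 684) (nat_lit 39921360334) (nat_lit 76) (nat_lit 39755958072) (nat_lit 322) (nat_lit 5) (nat_lit 331) (nat_lit 5) (nat_lit 323) (nat_lit 5) (nat_lit 463) (nat_lit 437) (nat_lit 120))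 (XT.nd (nat_lit 78) (nat_lit 0) (nat_lit 0) (XT.lf (nat_lit 0) (nat_lit 20710558293) (nat_lit 532) (nat_lit 20880125848) (nat_lit 608) (nat_lit 67576777010) (nat_lit 315) (nat_lit 5) (nat_lit 322) (nat_lit 5) (nat_lit 323) (nat_lit 5) (nat_lit 464) (nat_lit 437) (nat_lit 119)) (XT.lf (nat_lit 0) (nat_lit 56577678864) (nat_lit 608) (nat_lit 27296440774) (nat_lit 76) (nat_lit 27127885891) (nat_lit 315) (nat_lit 5) (nat_lit 323) (nat_lit 5) (nat_lit 316) (nat_lit 5) (nat_lit 465) (nat_lit 437) (nat_lit 118)))) (XT.nd (nat_lit 51012) (nat_lit 0) (nat_lit 5016) (XT.nd (nat_lit 50934) (nat_lit 0) (nat_lit 5016) (XT.lf (nat_lit 0) (nat_lit 36198178884) (nat_lit 532) (nat_lit 36370545600) (nat_lit 608) (nat_lit 40306228521) (nat_lit 308) (nat_lit 5) (nat_lit 315) (nat_lit 5) (nat_lit 316) (nat_lit 5) (nat_lit 466) (nat_lit 437) (nat_lit 117)) (XT.lf (nat_lit 0) (nat_lit 23108224634) (nat_lit 1292) (nat_lit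 6826806303) (nat_lit 1292) (nat_lit 6826806303) (nat_lit 374) (nat_lit 3) (nat_lit 391) (nat_lit 3) (nat_lit 391) (nat_lit 5) (nat_lit 438) (nat_lit 438) (nat_lit 144))) (XT.nd (nat_lit 78) (nat_lit 0) (nat_lit 76) (XT.lf (nat_lit 76) (nat_lit 23568123615) (nat_lit 0) (nat_lit 23580195794) (nat_lit 1292) (nat_lit 27471051488) (nat_lit 375) (nat_lit 5) (nat_lit 374) (nat_lit 3) (nat_lit 391) (nat_lit 5) (nat_lit 439) (nat_lit 438) (nat_lit 143)) (XT.lf (nat_lit 0) (nat_lit 48379552453) (nat_lit 1216) (nat_lit 13691671647) (nat_lit 1292) (nat_lit 13668571899) (nat_lit 375) (nat_lit 5) (nat_lit 391) (nat_lit 5) (nat_lit 392) (nat_lit 5) (nat_lit 440) (nat_lit 438) (nat_lit 142))))) (XT.nd (nat_lit 312) (nat_lit 0) (nat_lit 152) (XT.nd (nat_lit 156) (nat_lit 0) (nat_lit 76) (XT.nd (nat_lit 78) (nat_lit 0) (nat_lit 76) (XT.lf (nat_lit 76) (nat_lit 25043659815) (nat_lit 0) (nat_lit 25077807316) (nat_lit 1292)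 (nat_lit 26758154386) (nat_lit 376) (nat_lit 5) (nat_lit 375) (nat_lit 5) (nat_lit 392) (nat_lit 5) (nat_lit 441) (nat_lit 438) (nat_lit 141)) (XT.lf (nat_lit 0) (nat_lit 52180030543) (nat_lit 1216) (nat_lit 12954623000) (nat_lit 1292) (nat_lit 12911056518) (nat_lit 376) (nat_lit 5) (nat_lit 392) (nat_lit 5) (nat_lit 393) (nat_lit 5) (nat_lit 442) (nat_lit 438) (nat_lit 140))) (XT.nd (nat_lit 78) (nat_lit 0) (nat_lit 76) (XT.lf (nat_lit 76) (nat_lit 27378859835) (nat_lit 0) (nat_lit 27432536576) (nat_lit 1292) (nat_lit 24420053484) (nat_lit 377) (nat_lit 5) (nat_lit 376) (nat_lit 5) (nat_lit 393) (nat_lit 5) (nat_lit 443) (nat_lit 438) (nat_lit 139)) (XT.lf (nat_lit 0) (nat_lit 57762984470) (nat_lit 1216) (nat_lit 11372091124) (nat_lit 1292) (nat_lit 11310447894) (nat_lit 377) (nat_lit 5) (nat_lit 393) (nat_lit 5) (nat_lit 394) (nat_lit 5) (nat_lit 444) (nat_lit 438) (nat_lit 138)))) (XT.nd (nat_lit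 156) (nat_lit 0) (nat_lit 76) (XT.nd (nat_lit 78) (nat_lit 0) (nat_lit 76) (XT.lf (nat_lit 76) (nat_lit 30649021513) (nat_lit 0) (nat_lit 30719917063) (nat_lit 1292) (nat_lit 20310106160) (nat_lit 378) (nat_lit 5) (nat_lit 377) (nat_lit 5) (nat_lit 394) (nat_lit 5) (nat_lit 445) (nat_lit 438) (nat_lit 137)) (XT.lf (nat_lit 0) (nat_lit 65283696248) (nat_lit 1216) (nat_lit 8868704228) (nat_lit 1292) (nat_lit 8791152398) (nat_lit 378) (nat_lit 5) (nat_lit 394) (nat_lit 5) (nat_lit 395) (nat_lit 5) (nat_lit 446) (nat_lit 438) (nat_lit 136))) (XT.nd (nat_lit 78) (nat_lit 0) (nat_lit 76) (XT.lf (nat_lit 76) (nat_lit 34934731740) (nat_lit 0) (nat_lit 35020750753) (nat_lit 1292) (nat_lit 14271326186) (nat_lit 379) (nat_lit 5) (nat_lit 378) (nat_lit 5) (nat_lit 395) (nat_lit 5) (nat_lit 447) (nat_lit 438) (nat_lit 135)) (XT.lf (nat_lit 0) (nat_lit 74908290751) (nat_lit 1216) (nat_lit 5363770047) (nat_lit 1292)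 (nat_lit 5272275309) (nat_lit 379) (nat_lit 5) (nat_lit 395) (nat_lit 5) (nat_lit 396) (nat_lit 5) (nat_lit 448) (nat_lit 438) (nat_lit 134)))))) (XT.nd (nat_lit 624) (nat_lit 2432) (nat_lit 0) (XT.nd (nat_lit 312) (nat_lit 684) (nat_lit 0) (XT.nd (nat_lit 156) (nat_lit 1216) (nat_lit 0) (XT.nd (nat_lit 78) (nat_lit 0) (nat_lit 76) (XT.lf (nat_lit 76) (nat_lit 40322208321) (nat_lit 0) (nat_lit 40421451731) (nat_lit 1292) (nat_lit 6135710002) (nat_lit 380) (nat_lit 5) (nat_lit 379) (nat_lit 5) (nat_lit 396) (nat_lit 5) (nat_lit 449) (nat_lit 438) (nat_lit 133)) (XT.lf (nat_lit 0) (nat_lit 86814438927) (nat_lit 1216) (nat_lit 770931164) (nat_lit 1292) (nat_lit 667274472) (nat_lit 380) (nat_lit 5) (nat_lit 396) (nat_lit 5) (nat_lit 397) (nat_lit 5) (nat_lit 450) (nat_lit 438) (nat_lit 132))) (XT.nd (nat_lit 78) (nat_lit 0) (nat_lit 0) (XT.lf (nat_lit 0) (nat_lit 4193029714) (nat_lit 1292) (nat_lit 42779040087)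 (nat_lit 1368) (nat_lit 42668292263) (nat_lit 363) (nat_lit 5) (nat_lit 380) (nat_lit 5) (nat_lit 381) (nat_lit 5) (nat_lit 451) (nat_lit 438) (nat_lit 131)) (XT.lf (nat_lit 76) (nat_lit 4950887273) (nat_lit 0) (nat_lit 5068519692) (nat_lit 1368) (nat_lit 81048223594) (nat_lit 364) (nat_lit 5) (nat_lit 363) (nat_lit 5) (nat_lit 381) (nat_lit 5) (nat_lit 452) (nat_lit 438) (nat_lit 130)))) (XT.nd (nat_lit 156) (nat_lit 760) (nat_lit 0) (XT.nd (nat_lit 78) (nat_lit 0) (nat_lit 0) (XT.lf (nat_lit 0) (nat_lit 16822668318) (nat_lit 1292) (nat_lit 37905840815) (nat_lit 1368) (nat_lit 37785145192) (nat_lit 364) (nat_lit 5) (nat_lit 381) (nat_lit 5) (nat_lit 382) (nat_lit 5) (nat_lit 453) (nat_lit 438) (nat_lit 129)) (XT.lf (nat_lit 76) (nat_lit 11933802984) (nat_lit 0) (nat_lit 12060798986) (nat_lit 1368) (nat_lit 70003519600) (nat_lit 365) (nat_lit 5) (nat_lit 364) (nat_lit 5) (nat_lit 382) (nat_lit 5) (nat_lit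 454) (nat_lit 438) (nat_lit 128))) (XT.nd (nat_lit 78) (nat_lit 836) (nat_lit 0) (XT.lf (nat_lit 0) (nat_lit 32074458297) (nat_lit 1292) (nat_lit 31780558699) (nat_lit 76) (nat_lit 31651322898) (nat_lit 365) (nat_lit 5) (nat_lit 382) (nat_lit 5) (nat_lit 366) (nat_lit 5) (nat_lit 455) (nat_lit 438) (nat_lit 127)) (XT.lf (nat_lit 0) (nat_lit 20287917534) (nat_lit 836) (nat_lit 20422919076) (nat_lit 912) (nat_lit 56339544367) (nat_lit 354) (nat_lit 5) (nat_lit 365) (nat_lit 5) (nat_lit 366) (nat_lit 5) (nat_lit 456) (nat_lit 438) (nat_lit 126))))) (XT.nd (nat_lit 312) (nat_lit 1216) (nat_lit 0) (XT.nd (nat_lit 156) (nat_lit 608) (nat_lit 0) (XT.nd (nat_lit 78) (nat_lit 608) (nat_lit 0) (XT.lf (nat_lit 0) (nat_lit 50163807446) (nat_lit 912) (nat_lit 24298357516) (nat_lit 76) (nat_lit 24161853296) (nat_lit 354) (nat_lit 5) (nat_lit 366) (nat_lit 5) (nat_lit 355) (nat_lit 5) (nat_lit 457) (nat_lit 438) (nat_lit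 125)) (XT.lf (nat_lit 0) (nat_lit 30125041073) (nat_lit 608) (nat_lit 30266821762) (nat_lit 684) (nat_lit 39838256960) (nat_lit 346) (nat_lit 5) (nat_lit 354) (nat_lit 5) (nat_lit 355) (nat_lit 5) (nat_lit 458) (nat_lit 438) (nat_lit 124))) (XT.nd (nat_lit 78) (nat_lit 608) (nat_lit 0) (XT.lf (nat_lit 0) (nat_lit 71320903540) (nat_lit 684) (nat_lit 15347150630) (nat_lit 76) (nat_lit 15204525898) (nat_lit 346) (nat_lit 5) (nat_lit 355) (nat_lit 5) (nat_lit 347) (nat_lit 5) (nat_lit 459) (nat_lit 438) (nat_lit 123)) (XT.lf (nat_lit 0) (nat_lit 41564650384) (nat_lit 608) (nat_lit 41712103833) (nat_lit 684) (nat_lit 20266591771) (nat_lit 338) (nat_lit 5) (nat_lit 346) (nat_lit 5) (nat_lit 347) (nat_lit 5) (nat_lit 460) (nat_lit 438) (nat_lit 122)))) (XT.nd (nat_lit 156) (nat_lit 608) (nat_lit 0) (XT.nd (nat_lit 78) (nat_lit 608) (nat_lit 0) (XT.lf (nat_lit 0) (nat_lit 95791665093) (nat_lit 684) (nat_lit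 4807134233) (nat_lit 76) (nat_lit 4659424017) (nat_lit 338) (nat_lit 5) (nat_lit 347) (nat_lit 5) (nat_lit 339) (nat_lit 5) (nat_lit 461) (nat_lit 438) (nat_lit 121)) (XT.lf (nat_lit 0) (nat_lit 2573296032) (nat_lit 608) (nat_lit 52287228645) (nat_lit 76) (nat_lit 52135099470) (nat_lit 330) (nat_lit 5) (nat_lit 338) (nat_lit 5) (nat_lit 331) (nat_lit 5) (nat_lit 462) (nat_lit 438) (nat_lit 120))) (XT.nd (nat_lit 78) (nat_lit 0) (nat_lit 0) (XT.lf (nat_lit 0) (nat_lit 7373649917) (nat_lit 608) (nat_lit 7530069345) (nat_lit 684) (nat_lit 93875026611) (nat_lit 322) (nat_lit 5) (nat_lit 330) (nat_lit 5) (nat_lit 331) (nat_lit 5) (nat_lit 463) (nat_lit 438) (nat_lit 119)) (XT.lf (nat_lit 0) (nat_lit 28533259553) (nat_lit 684) (nat_lit 41105066531) (nat_lit 76) (nat_lit 40949159036) (nat_lit 322) (nat_lit 5) (nat_lit 331) (nat_lit 5) (nat_lit 323) (nat_lit 5) (nat_lit 464) (nat_lit 438) (nat_lit 118))))))))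
noncomputable def xc252 : XT := (XT.nd (nat_lit 104442) (nat_lit 0) (nat_lit 1140) (XT.nd (nat_lit 52182) (nat_lit 0) (nat_lit 532) (XT.nd (nat_lit 51558) (nat_lit 0) (nat_lit 3648) (XT.nd (nat_lit 51246) (nat_lit 0) (nat_lit 4560) (XT.nd (nat_lit 51090) (nat_lit 0) (nat_lit 4484) (XT.lf (nat_lit 0) (nat_lit 21345673041) (nat_lit 532) (nat_lit 21505506725) (nat_lit 608) (nat_lit 69590921966) (nat_lit 315) (nat_lit 5) (nat_lit 322) (nat_lit 5) (nat_lit 323) (nat_lit 5) (nat_lit 465) (nat_lit 438) (nat_lit 117)) (XT.nd (nat_lit 78) (nat_lit 0) (nat_lit 0) (XT.lf (nat_lit 0) (nat_lit 23813427507) (nat_lit 1292) (nat_lit 7025453083) (nat_lit 1292) (nat_lit 7025453083) (nat_lit 374) (nat_lit 3) (nat_lit 391) (nat_lit 3) (nat_lit 391) (nat_lit 5) (nat_lit 439) (nat_lit 439) (nat_lit 142)) (XT.lf (nat_lit 76) (nat_lit 24287361407) (nat_lit 0) (nat_lit 24298740594) (nat_lit 1292) (nat_lit 28271150032) (nat_lit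 375) (nat_lit 5) (nat_lit 374) (nat_lit 3) (nat_lit 391) (nat_lit 5) (nat_lit 440) (nat_lit 439) (nat_lit 141)))) (XT.nd (nat_lit 156) (nat_lit 0) (nat_lit 76) (XT.nd (nat_lit 78) (nat_lit 0) (nat_lit 0) (XT.lf (nat_lit 0) (nat_lit 49853488479) (nat_lit 1216) (nat_lit 14089799323) (nat_lit 1292) (nat_lit 14068025594) (nat_lit 375) (nat_lit 5) (nat_lit 391) (nat_lit 5) (nat_lit 392) (nat_lit 5) (nat_lit 441) (nat_lit 439) (nat_lit 140)) (XT.lf (nat_lit 76) (nat_lit 25807468334) (nat_lit 0) (nat_lit 25839655629) (nat_lit 1292) (nat_lit 27538225816) (nat_lit 376) (nat_lit 5) (nat_lit 375) (nat_lit 5) (nat_lit 392) (nat_lit 5) (nat_lit 442) (nat_lit 439) (nat_lit 139))) (XT.nd (nat_lit 78) (nat_lit 0) (nat_lit 0) (XT.lf (nat_lit 0) (nat_lit 53766714335) (nat_lit 1216) (nat_lit 13330397065) (nat_lit 1292) (nat_lit 13289331477) (nat_lit 376) (nat_lit 5) (nat_lit 392) (nat_lit 5) (nat_lit 393) (nat_lit 5)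 (nat_lit 443) (nat_lit 439) (nat_lit 138)) (XT.lf (nat_lit 76) (nat_lit 28212964132) (nat_lit 0) (nat_lit 28263559608) (nat_lit 1292) (nat_lit 25131246089) (nat_lit 377) (nat_lit 5) (nat_lit 376) (nat_lit 5) (nat_lit 393) (nat_lit 5) (nat_lit 444) (nat_lit 439) (nat_lit 137))))) (XT.nd (nat_lit 312) (nat_lit 1064) (nat_lit 0) (XT.nd (nat_lit 156) (nat_lit 0) (nat_lit 76) (XT.nd (nat_lit 78) (nat_lit 0) (nat_lit 0) (XT.lf (nat_lit 0) (nat_lit 59515978941) (nat_lit 1216) (nat_lit 11700205880) (nat_lit 1292) (nat_lit 11642101223) (nat_lit 377) (nat_lit 5) (nat_lit 393) (nat_lit 5) (nat_lit 394) (nat_lit 5) (nat_lit 445) (nat_lit 439) (nat_lit 136)) (XT.lf (nat_lit 76) (nat_lit 31581412214) (nat_lit 0) (nat_lit 31648238070) (nat_lit 1292) (nat_lit 20899176487) (nat_lit 378) (nat_lit 5) (nat_lit 377) (nat_lit 5) (nat_lit 394) (nat_lit 5) (nat_lit 446) (nat_lit 439) (nat_lit 135))) (XT.nd (nat_lit 78) (nat_lit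 0) (nat_lit 0) (XT.lf (nat_lit 0) (nat_lit 67261215797) (nat_lit 1216) (nat_lit 9121586720) (nat_lit 1292) (nat_lit 9048486683) (nat_lit 378) (nat_lit 5) (nat_lit 394) (nat_lit 5) (nat_lit 395) (nat_lit 5) (nat_lit 447) (nat_lit 439) (nat_lit 134)) (XT.lf (nat_lit 76) (nat_lit 35995823124) (nat_lit 0) (nat_lit 36076904294) (nat_lit 1292) (nat_lit 14680328108) (nat_lit 379) (nat_lit 5) (nat_lit 378) (nat_lit 5) (nat_lit 395) (nat_lit 5) (nat_lit 448) (nat_lit 439) (nat_lit 133)))) (XT.nd (nat_lit 156) (nat_lit 1216) (nat_lit 0) (XT.nd (nat_lit 78) (nat_lit 0) (nat_lit 0) (XT.lf (nat_lit 0) (nat_lit 77173527126) (nat_lit 1216) (nat_lit 5511421000) (nat_lit 1292) (nat_lit 5425178434) (nat_lit 379) (nat_lit 5) (nat_lit 395) (nat_lit 5) (nat_lit 396) (nat_lit 5) (nat_lit 449) (nat_lit 439) (nat_lit 132)) (XT.lf (nat_lit 76) (nat_lit 41545006698) (nat_lit 0) (nat_lit 41638553130) (nat_lit 1292) (nat_lit 6301663628)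 (nat_lit 380) (nat_lit 5) (nat_lit 379) (nat_lit 5) (nat_lit 396) (nat_lit 5) (nat_lit 450) (nat_lit 439) (nat_lit 131))) (XT.nd (nat_lit 78) (nat_lit 1292) (nat_lit 0) (XT.lf (nat_lit 0) (nat_lit 89435908137) (nat_lit 1216) (nat_lit 780755528) (nat_lit 1292) (nat_lit 683049154) (nat_lit 380) (nat_lit 5) (nat_lit 396) (nat_lit 5) (nat_lit 397) (nat_lit 5) (nat_lit 451) (nat_lit 439) (nat_lit 130)) (XT.lf (nat_lit 0) (nat_lit 4335652095) (nat_lit 1292) (nat_lit 44048903166) (nat_lit 1368) (nat_lit 43944512720) (nat_lit 363) (nat_lit 5) (nat_lit 380) (nat_lit 5) (nat_lit 381) (nat_lit 5) (nat_lit 452) (nat_lit 439) (nat_lit 129)))))) (XT.nd (nat_lit 546) (nat_lit 1824) (nat_lit 0) (XT.nd (nat_lit 234) (nat_lit 1292) (nat_lit 0) (XT.nd (nat_lit 78) (nat_lit 0) (nat_lit 76) (XT.lf (nat_lit 76) (nat_lit 5112789582) (nat_lit 0) (nat_lit 5223669419) (nat_lit 1368) (nat_lit 83462706380) (nat_lit 364) (nat_lit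 5) (nat_lit 363) (nat_lit 5) (nat_lit 381) (nat_lit 5) (nat_lit 453) (nat_lit 439) (nat_lit 128)) (XT.nd (nat_lit 78) (nat_lit 0) (nat_lit 0) (XT.lf (nat_lit 0) (nat_lit 17343309615) (nat_lit 1292) (nat_lit 39029521351) (nat_lit 1368) (nat_lit 38915754151) (nat_lit 364) (nat_lit 5) (nat_lit 381) (nat_lit 5) (nat_lit 382) (nat_lit 5) (nat_lit 454) (nat_lit 439) (nat_lit 127)) (XT.lf (nat_lit 76) (nat_lit 12305179461) (nat_lit 0) (nat_lit 12424885373) (nat_lit 1368) (nat_lit 72087531640) (nat_lit 365) (nat_lit 5) (nat_lit 364) (nat_lit 5) (nat_lit 382) (nat_lit 5) (nat_lit 455) (nat_lit 439) (nat_lit 126)))) (XT.nd (nat_lit 156) (nat_lit 608) (nat_lit 0) (XT.nd (nat_lit 78) (nat_lit 836) (nat_lit 0) (XT.lf (nat_lit 0) (nat_lit 33051840644) (nat_lit 1292) (nat_lit 32720526063) (nat_lit 76) (nat_lit 32598708925) (nat_lit 365) (nat_lit 5) (nat_lit 382) (nat_lit 5) (nat_lit 366) (nat_lit 5) (nat_lit 456)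 (nat_lit 439) (nat_lit 125)) (XT.lf (nat_lit 0) (nat_lit 20909872601) (nat_lit 836) (nat_lit 21037124501) (nat_lit 912) (nat_lit 58014450243) (nat_lit 354) (nat_lit 5) (nat_lit 365) (nat_lit 5) (nat_lit 366) (nat_lit 5) (nat_lit 457) (nat_lit 439) (nat_lit 124))) (XT.nd (nat_lit 78) (nat_lit 608) (nat_lit 0) (XT.lf (nat_lit 0) (nat_lit 51683110798) (nat_lit 912) (nat_lit 25013932327) (nat_lit 76) (nat_lit 24885264007) (nat_lit 354) (nat_lit 5) (nat_lit 366) (nat_lit 5) (nat_lit 355) (nat_lit 5) (nat_lit 458) (nat_lit 439) (nat_lit 123)) (XT.lf (nat_lit 0) (nat_lit 31042037084) (nat_lit 608) (nat_lit 31175678981) (nat_lit 684) (nat_lit 41018884404) (nat_lit 346) (nat_lit 5) (nat_lit 354) (nat_lit 5) (nat_lit 355) (nat_lit 5) (nat_lit 459) (nat_lit 439) (nat_lit 122))))) (XT.nd (nat_lit 312) (nat_lit 608) (nat_lit 0) (XT.nd (nat_lit 156) (nat_lit 608) (nat_lit 0) (XT.nd (nat_lit 78) (nat_lit 608) (nat_lit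 0) (XT.lf (nat_lit 0) (nat_lit 73474209433) (nat_lit 684) (nat_lit 15794287582) (nat_lit 76) (nat_lit 15659850093) (nat_lit 346) (nat_lit 5) (nat_lit 355) (nat_lit 5) (nat_lit 347) (nat_lit 5) (nat_lit 460) (nat_lit 439) (nat_lit 121)) (XT.lf (nat_lit 0) (nat_lit 42824737291) (nat_lit 608) (nat_lit 42963726308) (nat_lit 684) (nat_lit 20860780566) (nat_lit 338) (nat_lit 5) (nat_lit 346) (nat_lit 5) (nat_lit 347) (nat_lit 5) (nat_lit 461) (nat_lit 439) (nat_lit 120))) (XT.nd (nat_lit 78) (nat_lit 608) (nat_lit 0) (XT.lf (nat_lit 0) (nat_lit 98678428892) (nat_lit 684) (nat_lit 4938190891) (nat_lit 76) (nat_lit 4798959845) (nat_lit 338) (nat_lit 5) (nat_lit 347) (nat_lit 5) (nat_lit 339) (nat_lit 5) (nat_lit 462) (nat_lit 439) (nat_lit 119)) (XT.lf (nat_lit 0) (nat_lit 2663381289) (nat_lit 608) (nat_lit 53842560665) (nat_lit 76) (nat_lit 53699164326) (nat_lit 330) (nat_lit 5) (nat_lit 338) (nat_lit 5) (nat_lit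 331) (nat_lit 5) (nat_lit 463) (nat_lit 439) (nat_lit 118)))) (XT.nd (nat_lit 51246) (nat_lit 0) (nat_lit 3952) (XT.nd (nat_lit 78) (nat_lit 0) (nat_lit 0) (XT.lf (nat_lit 0) (nat_lit 7608014011) (nat_lit 608) (nat_lit 7755454324) (nat_lit 684) (nat_lit 96678260789) (nat_lit 322) (nat_lit 5) (nat_lit 330) (nat_lit 5) (nat_lit 331) (nat_lit 5) (nat_lit 464) (nat_lit 439) (nat_lit 117)) (XT.lf (nat_lit 0) (nat_lit 29401531578) (nat_lit 684) (nat_lit 42325083818) (nat_lit 76) (nat_lit 42178126050) (nat_lit 322) (nat_lit 5) (nat_lit 331) (nat_lit 5) (nat_lit 323) (nat_lit 5) (nat_lit 465) (nat_lit 439) (nat_lit 116))) (XT.nd (nat_lit 78) (nat_lit 0) (nat_lit 0) (XT.lf (nat_lit 0) (nat_lit 24539100135) (nat_lit 1292) (nat_lit 7230412727) (nat_lit 1292) (nat_lit 7230412727) (nat_lit 374) (nat_lit 3) (nat_lit 391) (nat_lit 3) (nat_lit 391) (nat_lit 5) (nat_lit 440) (nat_lit 440) (nat_lit 140)) (XT.lf (nat_lit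 76) (nat_lit 25027476343) (nat_lit 0) (nat_lit 25038202318) (nat_lit 1292) (nat_lit 29096631125) (nat_lit 375) (nat_lit 5) (nat_lit 374) (nat_lit 3) (nat_lit 391) (nat_lit 5) (nat_lit 441) (nat_lit 440) (nat_lit 139))))))) (XT.nd (nat_lit 1170) (nat_lit 2508) (nat_lit 0) (XT.nd (nat_lit 546) (nat_lit 912) (nat_lit 0) (XT.nd (nat_lit 234) (nat_lit 0) (nat_lit 76) (XT.nd (nat_lit 78) (nat_lit 0) (nat_lit 0) (XT.lf (nat_lit 0) (nat_lit 51370348155) (nat_lit 1216) (nat_lit 14500595410) (nat_lit 1292) (nat_lit 14480071583) (nat_lit 375) (nat_lit 5) (nat_lit 391) (nat_lit 5) (nat_lit 392) (nat_lit 5) (nat_lit 442) (nat_lit 440) (nat_lit 138)) (XT.nd (nat_lit 78) (nat_lit 0) (nat_lit 76) (XT.lf (nat_lit 76) (nat_lit 26593473630) (nat_lit 0) (nat_lit 26623813243) (nat_lit 1292) (nat_lit 28343000922) (nat_lit 376) (nat_lit 5) (nat_lit 375) (nat_lit 5) (nat_lit 392) (nat_lit 5) (nat_lit 443) (nat_lit 440) (nat_lit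 137)) (XT.lf (nat_lit 0) (nat_lit 55399776917) (nat_lit 1216) (nat_lit 13718182833) (nat_lit 1292) (nat_lit 13679474578) (nat_lit 376) (nat_lit 5) (nat_lit 392) (nat_lit 5) (nat_lit 393) (nat_lit 5) (nat_lit 444) (nat_lit 440) (nat_lit 136)))) (XT.nd (nat_lit 156) (nat_lit 0) (nat_lit 76) (XT.nd (nat_lit 78) (nat_lit 0) (nat_lit 76) (XT.lf (nat_lit 76) (nat_lit 29071360315) (nat_lit 0) (nat_lit 29119051405) (nat_lit 1292) (nat_lit 25865003436) (nat_lit 377) (nat_lit 5) (nat_lit 376) (nat_lit 5) (nat_lit 393) (nat_lit 5) (nat_lit 445) (nat_lit 440) (nat_lit 135)) (XT.lf (nat_lit 0) (nat_lit 61320409140) (nat_lit 1216) (nat_lit 12038913086) (nat_lit 1292) (nat_lit 11984143875) (nat_lit 377) (nat_lit 5) (nat_lit 393) (nat_lit 5) (nat_lit 394) (nat_lit 5) (nat_lit 446) (nat_lit 440) (nat_lit 134))) (XT.nd (nat_lit 78) (nat_lit 0) (nat_lit 76) (XT.lf (nat_lit 76) (nat_lit 32541032973) (nat_lit 0) (nat_lit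 32604022751) (nat_lit 1292) (nat_lit 21507080373) (nat_lit 378) (nat_lit 5) (nat_lit 377) (nat_lit 5) (nat_lit 394) (nat_lit 5) (nat_lit 447) (nat_lit 440) (nat_lit 133)) (XT.lf (nat_lit 0) (nat_lit 69296969757) (nat_lit 1216) (nat_lit 9382812195) (nat_lit 1292) (nat_lit 9313908399) (nat_lit 378) (nat_lit 5) (nat_lit 394) (nat_lit 5) (nat_lit 395) (nat_lit 5) (nat_lit 448) (nat_lit 440) (nat_lit 132))))) (XT.nd (nat_lit 312) (nat_lit 1140) (nat_lit 0) (XT.nd (nat_lit 156) (nat_lit 0) (nat_lit 76) (XT.nd (nat_lit 78) (nat_lit 0) (nat_lit 76) (XT.lf (nat_lit 76) (nat_lit 37087998159) (nat_lit 0) (nat_lit 37164424938) (nat_lit 1292) (nat_lit 15102698679) (nat_lit 379) (nat_lit 5) (nat_lit 378) (nat_lit 5) (nat_lit 395) (nat_lit 5) (nat_lit 449) (nat_lit 440) (nat_lit 131)) (XT.lf (nat_lit 0) (nat_lit 79505688028) (nat_lit 1216) (nat_lit 5664262783) (nat_lit 1292) (nat_lit 5582970894) (nat_lit 379) (nat_lit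 5) (nat_lit 395) (nat_lit 5) (nat_lit 396) (nat_lit 5) (nat_lit 450) (nat_lit 440) (nat_lit 130))) (XT.nd (nat_lit 78) (nat_lit 0) (nat_lit 76) (XT.lf (nat_lit 76) (nat_lit 42803735189) (nat_lit 0) (nat_lit 42891911673) (nat_lit 1292) (nat_lit 6473635891) (nat_lit 380) (nat_lit 5) (nat_lit 379) (nat_lit 5) (nat_lit 396) (nat_lit 5) (nat_lit 451) (nat_lit 440) (nat_lit 129)) (XT.lf (nat_lit 0) (nat_lit 92135043484) (nat_lit 1216) (nat_lit 791638302) (nat_lit 1292) (nat_lit 699540674) (nat_lit 380) (nat_lit 5) (nat_lit 396) (nat_lit 5) (nat_lit 397) (nat_lit 5) (nat_lit 452) (nat_lit 440) (nat_lit 128)))) (XT.nd (nat_lit 156) (nat_lit 0) (nat_lit 76) (XT.nd (nat_lit 78) (nat_lit 0) (nat_lit 0) (XT.lf (nat_lit 0) (nat_lit 4481586951) (nat_lit 1292) (nat_lit 45357637559) (nat_lit 1368) (nat_lit 45259239552) (nat_lit 363) (nat_lit 5) (nat_lit 380) (nat_lit 5) (nat_lit 381) (nat_lit 5) (nat_lit 453) (nat_lit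 440) (nat_lit 127)) (XT.lf (nat_lit 76) (nat_lit 5278781141) (nat_lit 0) (nat_lit 5383296022) (nat_lit 1368) (nat_lit 85950597448) (nat_lit 364) (nat_lit 5) (nat_lit 363) (nat_lit 5) (nat_lit 381) (nat_lit 5) (nat_lit 454) (nat_lit 440) (nat_lit 126))) (XT.nd (nat_lit 78) (nat_lit 0) (nat_lit 0) (XT.lf (nat_lit 0) (nat_lit 17878653910) (nat_lit 1292) (nat_lit 40187686954) (nat_lit 1368) (nat_lit 40080450457) (nat_lit 364) (nat_lit 5) (nat_lit 381) (nat_lit 5) (nat_lit 382) (nat_lit 5) (nat_lit 455) (nat_lit 440) (nat_lit 125)) (XT.lf (nat_lit 76) (nat_lit 12686930176) (nat_lit 0) (nat_lit 12799764479) (nat_lit 1368) (nat_lit 74234987877) (nat_lit 365) (nat_lit 5) (nat_lit 364) (nat_lit 5) (nat_lit 382) (nat_lit 5) (nat_lit 456) (nat_lit 440) (nat_lit 124)))))) (XT.nd (nat_lit 51870) (nat_lit 0) (nat_lit 3344) (XT.nd (nat_lit 312) (nat_lit 1216) (nat_lit 0) (XT.nd (nat_lit 156) (nat_lit 608) (nat_lit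 0) (XT.nd (nat_lit 78) (nat_lit 836) (nat_lit 0) (XT.lf (nat_lit 0) (nat_lit 34057674870) (nat_lit 1292) (nat_lit 33689464499) (nat_lit 76) (nat_lit 33574640163) (nat_lit 365) (nat_lit 5) (nat_lit 382) (nat_lit 5) (nat_lit 366) (nat_lit 5) (nat_lit 457) (nat_lit 440) (nat_lit 123)) (XT.lf (nat_lit 0) (nat_lit 21549721837) (nat_lit 836) (nat_lit 21669668958) (nat_lit 912) (nat_lit 59740480456) (nat_lit 354) (nat_lit 5) (nat_lit 365) (nat_lit 5) (nat_lit 366) (nat_lit 5) (nat_lit 458) (nat_lit 440) (nat_lit 122))) (XT.nd (nat_lit 78) (nat_lit 608) (nat_lit 0) (XT.lf (nat_lit 0) (nat_lit 53247167256) (nat_lit 912) (nat_lit 25751742214) (nat_lit 76) (nat_lit 25630459982) (nat_lit 354) (nat_lit 5) (nat_lit 366) (nat_lit 5) (nat_lit 355) (nat_lit 5) (nat_lit 459) (nat_lit 440) (nat_lit 121)) (XT.lf (nat_lit 0) (nat_lit 31985782670) (nat_lit 608) (nat_lit 32111752976) (nat_lit 684) (nat_lit 42235764193) (nat_lit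 346) (nat_lit 5) (nat_lit 354) (nat_lit 5) (nat_lit 355) (nat_lit 5) (nat_lit 460) (nat_lit 440) (nat_lit 120)))) (XT.nd (nat_lit 156) (nat_lit 608) (nat_lit 0) (XT.nd (nat_lit 78) (nat_lit 608) (nat_lit 0) (XT.lf (nat_lit 0) (nat_lit 75691329283) (nat_lit 684) (nat_lit 16255600829) (nat_lit 76) (nat_lit 16128880601) (nat_lit 346) (nat_lit 5) (nat_lit 355) (nat_lit 5) (nat_lit 347) (nat_lit 5) (nat_lit 461) (nat_lit 440) (nat_lit 119)) (XT.lf (nat_lit 0) (nat_lit 44121872090) (nat_lit 608) (nat_lit 44252882569) (nat_lit 684) (nat_lit 21473587715) (nat_lit 338) (nat_lit 5) (nat_lit 346) (nat_lit 5) (nat_lit 347) (nat_lit 5) (nat_lit 462) (nat_lit 440) (nat_lit 118))) (XT.nd (nat_lit 78) (nat_lit 608) (nat_lit 0) (XT.lf (nat_lit 0) (nat_lit 101651048558) (nat_lit 684) (nat_lit 5073934534) (nat_lit 76) (nat_lit 4942695921) (nat_lit 338) (nat_lit 5) (nat_lit 347) (nat_lit 5) (nat_lit 339) (nat_lit 5) (nat_lit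 463) (nat_lit 440) (nat_lit 117)) (XT.lf (nat_lit 0) (nat_lit 2755429374) (nat_lit 608) (nat_lit 55445315249) (nat_lit 76) (nat_lit 55310150447) (nat_lit 330) (nat_lit 5) (nat_lit 338) (nat_lit 5) (nat_lit 331) (nat_lit 5) (nat_lit 464) (nat_lit 440) (nat_lit 116))))) (XT.nd (nat_lit 312) (nat_lit 0) (nat_lit 152) (XT.nd (nat_lit 156) (nat_lit 0) (nat_lit 76) (XT.nd (nat_lit 78) (nat_lit 0) (nat_lit 0) (XT.lf (nat_lit 0) (nat_lit 25285896009) (nat_lit 1292) (nat_lit 7441854331) (nat_lit 1292) (nat_lit 7441854331) (nat_lit 374) (nat_lit 3) (nat_lit 391) (nat_lit 3) (nat_lit 391) (nat_lit 5) (nat_lit 441) (nat_lit 441) (nat_lit 138)) (XT.lf (nat_lit 76) (nat_lit 25789134919) (nat_lit 0) (nat_lit 25799245179) (nat_lit 1292) (nat_lit 29948177049) (nat_lit 375) (nat_lit 5) (nat_lit 374) (nat_lit 3) (nat_lit 391) (nat_lit 5) (nat_lit 442) (nat_lit 441) (nat_lit 137))) (XT.nd (nat_lit 78) (nat_lit 0) (nat_lit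 0) (XT.lf (nat_lit 0) (nat_lit 52931493496) (nat_lit 1216) (nat_lit 14924398367) (nat_lit 1292) (nat_lit 14905052692) (nat_lit 375) (nat_lit 5) (nat_lit 391) (nat_lit 5) (nat_lit 392) (nat_lit 5) (nat_lit 443) (nat_lit 441) (nat_lit 136)) (XT.lf (nat_lit 76) (nat_lit 27402382794) (nat_lit 0) (nat_lit 27430980789) (nat_lit 1292) (nat_lit 29173146104) (nat_lit 376) (nat_lit 5) (nat_lit 375) (nat_lit 5) (nat_lit 392) (nat_lit 5) (nat_lit 444) (nat_lit 441) (nat_lit 135)))) (XT.nd (nat_lit 156) (nat_lit 0) (nat_lit 76) (XT.nd (nat_lit 78) (nat_lit 0) (nat_lit 0) (XT.lf (nat_lit 0) (nat_lit 57080679785) (nat_lit 1216) (nat_lit 14118298265) (nat_lit 1292) (nat_lit 14081812022) (nat_lit 376) (nat_lit 5) (nat_lit 392) (nat_lit 5) (nat_lit 393) (nat_lit 5) (nat_lit 445) (nat_lit 441) (nat_lit 134)) (XT.lf (nat_lit 76) (nat_lit 29954819119) (nat_lit 0) (nat_lit 29999772544) (nat_lit 1292) (nat_lit 26621931920)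 (nat_lit 377) (nat_lit 5) (nat_lit 376) (nat_lit 5) (nat_lit 393) (nat_lit 5) (nat_lit 446) (nat_lit 441) (nat_lit 133))) (XT.nd (nat_lit 78) (nat_lit 0) (nat_lit 0) (XT.lf (nat_lit 0) (nat_lit 63177884390) (nat_lit 1216) (nat_lit 12388487520) (nat_lit 1292) (nat_lit 12336862285) (nat_lit 377) (nat_lit 5) (nat_lit 393) (nat_lit 5) (nat_lit 394) (nat_lit 5) (nat_lit 447) (nat_lit 441) (nat_lit 132)) (XT.lf (nat_lit 76) (nat_lit 33528743265) (nat_lit 0) (nat_lit 33588117172) (nat_lit 1292) (nat_lit 22134316152) (nat_lit 378) (nat_lit 5) (nat_lit 377) (nat_lit 5) (nat_lit 394) (nat_lit 5) (nat_lit 448) (nat_lit 441) (nat_lit 131))))))))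
noncomputable def xc253 : XT := (XT.nd (nat_lit 53664) (nat_lit 0) (nat_lit 608) (XT.nd (nat_lit 1170) (nat_lit 0) (nat_lit 0) (XT.nd (nat_lit 546) (nat_lit 1900) (nat_lit 0) (XT.nd (nat_lit 234) (nat_lit 1140) (nat_lit 0) (XT.nd (nat_lit 78) (nat_lit 0) (nat_lit 0) (XT.lf (nat_lit 0) (nat_lit 71392767799) (nat_lit 1216) (nat_lit 9652587515) (nat_lit 1292) (nat_lit 9587639079) (nat_lit 378) (nat_lit 5) (nat_lit 394) (nat_lit 5) (nat_lit 395) (nat_lit 5) (nat_lit 449) (nat_lit 441) (nat_lit 130)) (XT.nd (nat_lit 78) (nat_lit 0) (nat_lit 76) (XT.lf (nat_lit 76) (nat_lit 38212232355) (nat_lit 0) (nat_lit 38284271924) (nat_lit 1292) (nat_lit 15538775896) (nat_lit 379) (nat_lit 5) (nat_lit 378) (nat_lit 5) (nat_lit 395) (nat_lit 5) (nat_lit 450) (nat_lit 441) (nat_lit 129)) (XT.lf (nat_lit 0) (nat_lit 81906840466) (nat_lit 1216) (nat_lit 5822407419) (nat_lit 1292) (nat_lit 5745782017) (nat_lit 379) (nat_lit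 5) (nat_lit 395) (nat_lit 5) (nat_lit 396) (nat_lit 5) (nat_lit 451) (nat_lit 441) (nat_lit 128)))) (XT.nd (nat_lit 156) (nat_lit 1216) (nat_lit 0) (XT.nd (nat_lit 78) (nat_lit 0) (nat_lit 76) (XT.lf (nat_lit 76) (nat_lit 44099514969) (nat_lit 0) (nat_lit 44182629762) (nat_lit 1292) (nat_lit 6651747649) (nat_lit 380) (nat_lit 5) (nat_lit 379) (nat_lit 5) (nat_lit 396) (nat_lit 5) (nat_lit 452) (nat_lit 441) (nat_lit 127)) (XT.lf (nat_lit 0) (nat_lit 94914231091) (nat_lit 1216) (nat_lit 803567400) (nat_lit 1292) (nat_lit 716756553) (nat_lit 380) (nat_lit 5) (nat_lit 396) (nat_lit 5) (nat_lit 397) (nat_lit 5) (nat_lit 453) (nat_lit 441) (nat_lit 126))) (XT.nd (nat_lit 78) (nat_lit 0) (nat_lit 0) (XT.lf (nat_lit 0) (nat_lit 4630989120) (nat_lit 1292) (nat_lit 46706364893) (nat_lit 1368) (nat_lit 46613615334) (nat_lit 363) (nat_lit 5) (nat_lit 380) (nat_lit 5) (nat_lit 381) (nat_lit 5) (nat_lit 454) (nat_lit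 441) (nat_lit 125)) (XT.lf (nat_lit 76) (nat_lit 5449028703) (nat_lit 0) (nat_lit 5547544002) (nat_lit 1368) (nat_lit 88514043146) (nat_lit 364) (nat_lit 5) (nat_lit 363) (nat_lit 5) (nat_lit 381) (nat_lit 5) (nat_lit 455) (nat_lit 441) (nat_lit 124))))) (XT.nd (nat_lit 312) (nat_lit 1216) (nat_lit 0) (XT.nd (nat_lit 156) (nat_lit 760) (nat_lit 0) (XT.nd (nat_lit 78) (nat_lit 0) (nat_lit 0) (XT.lf (nat_lit 0) (nat_lit 18429194888) (nat_lit 1292) (nat_lit 41381327708) (nat_lit 1368) (nat_lit 41280247024) (nat_lit 364) (nat_lit 5) (nat_lit 381) (nat_lit 5) (nat_lit 382) (nat_lit 5) (nat_lit 456) (nat_lit 441) (nat_lit 123)) (XT.lf (nat_lit 76) (nat_lit 13079410389) (nat_lit 0) (nat_lit 13185767541) (nat_lit 1368) (nat_lit 76447738604) (nat_lit 365) (nat_lit 5) (nat_lit 364) (nat_lit 5) (nat_lit 382) (nat_lit 5) (nat_lit 457) (nat_lit 441) (nat_lit 122))) (XT.nd (nat_lit 78) (nat_lit 836) (nat_lit 0) (XT.lf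 (nat_lit 0) (nat_lit 35092864449) (nat_lit 1292) (nat_lit 34688198819) (nat_lit 76) (nat_lit 34579965869) (nat_lit 365) (nat_lit 5) (nat_lit 382) (nat_lit 5) (nat_lit 366) (nat_lit 5) (nat_lit 458) (nat_lit 441) (nat_lit 121)) (XT.lf (nat_lit 0) (nat_lit 22208045954) (nat_lit 836) (nat_lit 22321107620) (nat_lit 912) (nat_lit 61519118383) (nat_lit 354) (nat_lit 5) (nat_lit 365) (nat_lit 5) (nat_lit 366) (nat_lit 5) (nat_lit 459) (nat_lit 441) (nat_lit 120)))) (XT.nd (nat_lit 156) (nat_lit 608) (nat_lit 0) (XT.nd (nat_lit 78) (nat_lit 608) (nat_lit 0) (XT.lf (nat_lit 0) (nat_lit 54857366828) (nat_lit 912) (nat_lit 26512410153) (nat_lit 76) (nat_lit 26398090018) (nat_lit 354) (nat_lit 5) (nat_lit 366) (nat_lit 5) (nat_lit 355) (nat_lit 5) (nat_lit 460) (nat_lit 441) (nat_lit 119)) (XT.lf (nat_lit 0) (nat_lit 32957123965) (nat_lit 608) (nat_lit 33075863060) (nat_lit 684) (nat_lit 43489936051) (nat_lit 346)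 (nat_lit 5) (nat_lit 354) (nat_lit 5) (nat_lit 355) (nat_lit 5) (nat_lit 461) (nat_lit 441) (nat_lit 118))) (XT.nd (nat_lit 78) (nat_lit 608) (nat_lit 0) (XT.lf (nat_lit 0) (nat_lit 77974222586) (nat_lit 684) (nat_lit 16731471907) (nat_lit 76) (nat_lit 16612025939) (nat_lit 346) (nat_lit 5) (nat_lit 355) (nat_lit 5) (nat_lit 347) (nat_lit 5) (nat_lit 462) (nat_lit 441) (nat_lit 117)) (XT.lf (nat_lit 0) (nat_lit 45457209543) (nat_lit 608) (nat_lit 45580699485) (nat_lit 684) (nat_lit 22105526266) (nat_lit 338) (nat_lit 5) (nat_lit 346) (nat_lit 5) (nat_lit 347) (nat_lit 5) (nat_lit 463) (nat_lit 441) (nat_lit 116)))))) (XT.nd (nat_lit 51870) (nat_lit 0) (nat_lit 1900) (XT.nd (nat_lit 51558) (nat_lit 0) (nat_lit 2812) (XT.nd (nat_lit 51402) (nat_lit 0) (nat_lit 2736) (XT.lf (nat_lit 0) (nat_lit 104712142649) (nat_lit 684) (nat_lit 5214462418) (nat_lit 76) (nat_lit 5090757437) (nat_lit 338) (nat_lit 5)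 (nat_lit 347) (nat_lit 5) (nat_lit 339) (nat_lit 5) (nat_lit 464) (nat_lit 441) (nat_lit 115)) (XT.nd (nat_lit 78) (nat_lit 0) (nat_lit 0) (XT.lf (nat_lit 0) (nat_lit 26054485962) (nat_lit 1292) (nat_lit 7659953228) (nat_lit 1292) (nat_lit 7659953228) (nat_lit 374) (nat_lit 3) (nat_lit 391) (nat_lit 3) (nat_lit 391) (nat_lit 5) (nat_lit 442) (nat_lit 442) (nat_lit 136)) (XT.lf (nat_lit 76) (nat_lit 26573021320) (nat_lit 0) (nat_lit 26582551210) (nat_lit 1292) (nat_lit 30826495100) (nat_lit 375) (nat_lit 5) (nat_lit 374) (nat_lit 3) (nat_lit 391) (nat_lit 5) (nat_lit 443) (nat_lit 442) (nat_lit 135)))) (XT.nd (nat_lit 156) (nat_lit 0) (nat_lit 76) (XT.nd (nat_lit 78) (nat_lit 0) (nat_lit 0) (XT.lf (nat_lit 0) (nat_lit 54538323113) (nat_lit 1216) (nat_lit 15361559195) (nat_lit 1292) (nat_lit 15343324040) (nat_lit 375) (nat_lit 5) (nat_lit 391) (nat_lit 5) (nat_lit 392) (nat_lit 5) (nat_lit 444) (nat_lit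 442) (nat_lit 134)) (XT.lf (nat_lit 76) (nat_lit 28234921763) (nat_lit 0) (nat_lit 28261878116) (nat_lit 1292) (nat_lit 30029352037) (nat_lit 376) (nat_lit 5) (nat_lit 375) (nat_lit 5) (nat_lit 392) (nat_lit 5) (nat_lit 445) (nat_lit 442) (nat_lit 133))) (XT.nd (nat_lit 78) (nat_lit 0) (nat_lit 0) (XT.lf (nat_lit 0) (nat_lit 58810924252) (nat_lit 1216) (nat_lit 14531073291) (nat_lit 1292) (nat_lit 14496681509) (nat_lit 376) (nat_lit 5) (nat_lit 392) (nat_lit 5) (nat_lit 393) (nat_lit 5) (nat_lit 446) (nat_lit 442) (nat_lit 132)) (XT.lf (nat_lit 76) (nat_lit 30864131987) (nat_lit 0) (nat_lit 30906504902) (nat_lit 1292) (nat_lit 27402660177) (nat_lit 377) (nat_lit 5) (nat_lit 376) (nat_lit 5) (nat_lit 393) (nat_lit 5) (nat_lit 447) (nat_lit 442) (nat_lit 131))))) (XT.nd (nat_lit 312) (nat_lit 1064) (nat_lit 0) (XT.nd (nat_lit 156) (nat_lit 0) (nat_lit 76) (XT.nd (nat_lit 78) (nat_lit 0) (nat_lit 0) (XT.lf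 (nat_lit 0) (nat_lit 65090058490) (nat_lit 1216) (nat_lit 12749214670) (nat_lit 1292) (nat_lit 12700552934) (nat_lit 377) (nat_lit 5) (nat_lit 393) (nat_lit 5) (nat_lit 394) (nat_lit 5) (nat_lit 448) (nat_lit 442) (nat_lit 130)) (XT.lf (nat_lit 76) (nat_lit 34545425906) (nat_lit 0) (nat_lit 34601391508) (nat_lit 1292) (nat_lit 22781400936) (nat_lit 378) (nat_lit 5) (nat_lit 377) (nat_lit 5) (nat_lit 394) (nat_lit 5) (nat_lit 449) (nat_lit 442) (nat_lit 129))) (XT.nd (nat_lit 78) (nat_lit 0) (nat_lit 0) (XT.lf (nat_lit 0) (nat_lit 73550470287) (nat_lit 1216) (nat_lit 9931128242) (nat_lit 1292) (nat_lit 9869908112) (nat_lit 378) (nat_lit 5) (nat_lit 394) (nat_lit 5) (nat_lit 395) (nat_lit 5) (nat_lit 450) (nat_lit 442) (nat_lit 128)) (XT.lf (nat_lit 76) (nat_lit 39369528019) (nat_lit 0) (nat_lit 39437432223) (nat_lit 1292) (nat_lit 15988911513) (nat_lit 379) (nat_lit 5) (nat_lit 378) (nat_lit 5) (nat_lit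 395) (nat_lit 5) (nat_lit 451) (nat_lit 442) (nat_lit 127)))) (XT.nd (nat_lit 156) (nat_lit 1216) (nat_lit 0) (XT.nd (nat_lit 78) (nat_lit 0) (nat_lit 0) (XT.lf (nat_lit 0) (nat_lit 84379110056) (nat_lit 1216) (nat_lit 5985972801) (nat_lit 1292) (nat_lit 5913746011) (nat_lit 379) (nat_lit 5) (nat_lit 395) (nat_lit 5) (nat_lit 396) (nat_lit 5) (nat_lit 452) (nat_lit 442) (nat_lit 126)) (XT.lf (nat_lit 76) (nat_lit 45433498368) (nat_lit 0) (nat_lit 45511842032) (nat_lit 1292) (nat_lit 6836126812) (nat_lit 380) (nat_lit 5) (nat_lit 379) (nat_lit 5) (nat_lit 396) (nat_lit 5) (nat_lit 453) (nat_lit 442) (nat_lit 125))) (XT.nd (nat_lit 78) (nat_lit 1292) (nat_lit 0) (XT.lf (nat_lit 0) (nat_lit 97775925441) (nat_lit 1216) (nat_lit 816532891) (nat_lit 1292) (nat_lit 734705342) (nat_lit 380) (nat_lit 5) (nat_lit 396) (nat_lit 5) (nat_lit 397) (nat_lit 5) (nat_lit 454) (nat_lit 442) (nat_lit 124)) (XT.lf (nat_lit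 0) (nat_lit 4784014901) (nat_lit 1292) (nat_lit 48096242999) (nat_lit 1368) (nat_lit 48008817644) (nat_lit 363) (nat_lit 5) (nat_lit 380) (nat_lit 5) (nat_lit 381) (nat_lit 5) (nat_lit 455) (nat_lit 442) (nat_lit 123))))))) (XT.nd (nat_lit 52650) (nat_lit 0) (nat_lit 0) (XT.nd (nat_lit 546) (nat_lit 0) (nat_lit 0) (XT.nd (nat_lit 234) (nat_lit 1292) (nat_lit 0) (XT.nd (nat_lit 78) (nat_lit 0) (nat_lit 76) (XT.lf (nat_lit 76) (nat_lit 5623701495) (nat_lit 0) (nat_lit 5716561613) (nat_lit 1368) (nat_lit 91155257423) (nat_lit 364) (nat_lit 5) (nat_lit 363) (nat_lit 5) (nat_lit 381) (nat_lit 5) (nat_lit 456) (nat_lit 442) (nat_lit 122)) (XT.nd (nat_lit 78) (nat_lit 0) (nat_lit 0) (XT.lf (nat_lit 0) (nat_lit 18995438028) (nat_lit 1292) (nat_lit 42611465950) (nat_lit 1368) (nat_lit 42516187711) (nat_lit 364) (nat_lit 5) (nat_lit 381) (nat_lit 5) (nat_lit 382) (nat_lit 5) (nat_lit 457) (nat_lit 442) (nat_lit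 121)) (XT.lf (nat_lit 76) (nat_lit 13482983489) (nat_lit 0) (nat_lit 13583235306) (nat_lit 1368) (nat_lit 78727692669) (nat_lit 365) (nat_lit 5) (nat_lit 364) (nat_lit 5) (nat_lit 382) (nat_lit 5) (nat_lit 458) (nat_lit 442) (nat_lit 120)))) (XT.nd (nat_lit 156) (nat_lit 608) (nat_lit 0) (XT.nd (nat_lit 78) (nat_lit 836) (nat_lit 0) (XT.lf (nat_lit 0) (nat_lit 36158337095) (nat_lit 1292) (nat_lit 35717581125) (nat_lit 76) (nat_lit 35615561190) (nat_lit 365) (nat_lit 5) (nat_lit 382) (nat_lit 5) (nat_lit 366) (nat_lit 5) (nat_lit 459) (nat_lit 442) (nat_lit 119)) (XT.lf (nat_lit 0) (nat_lit 22885440563) (nat_lit 836) (nat_lit 22992012027) (nat_lit 912) (nat_lit 63351894794) (nat_lit 354) (nat_lit 5) (nat_lit 365) (nat_lit 5) (nat_lit 366) (nat_lit 5) (nat_lit 460) (nat_lit 442) (nat_lit 118))) (XT.nd (nat_lit 78) (nat_lit 608) (nat_lit 0) (XT.lf (nat_lit 0) (nat_lit 56515138502) (nat_lit 912) (nat_lit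 27296580340) (nat_lit 76) (nat_lit 27188822647) (nat_lit 354) (nat_lit 5) (nat_lit 366) (nat_lit 5) (nat_lit 355) (nat_lit 5) (nat_lit 461) (nat_lit 442) (nat_lit 117)) (XT.lf (nat_lit 0) (nat_lit 33956929977) (nat_lit 608) (nat_lit 34068852962) (nat_lit 684) (nat_lit 44782473639) (nat_lit 346) (nat_lit 5) (nat_lit 354) (nat_lit 5) (nat_lit 355) (nat_lit 5) (nat_lit 462) (nat_lit 442) (nat_lit 116))))) (XT.nd (nat_lit 51792) (nat_lit 0) (nat_lit 2204) (XT.nd (nat_lit 51636) (nat_lit 0) (nat_lit 2128) (XT.nd (nat_lit 51558) (nat_lit 0) (nat_lit 2128) (XT.lf (nat_lit 0) (nat_lit 80324905031) (nat_lit 684) (nat_lit 17222296311) (nat_lit 76) (nat_lit 17109707030) (nat_lit 346) (nat_lit 5) (nat_lit 355) (nat_lit 5) (nat_lit 347) (nat_lit 5) (nat_lit 463) (nat_lit 442) (nat_lit 115)) (XT.lf (nat_lit 0) (nat_lit 26845558824) (nat_lit 1292) (nat_lit 7884891110) (nat_lit 1292) (nat_lit 7884891110) (nat_lit 374)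 (nat_lit 3) (nat_lit 391) (nat_lit 3) (nat_lit 391) (nat_lit 5) (nat_lit 443) (nat_lit 443) (nat_lit 134))) (XT.nd (nat_lit 78) (nat_lit 0) (nat_lit 76) (XT.lf (nat_lit 76) (nat_lit 27379838082) (nat_lit 0) (nat_lit 27388820917) (nat_lit 1292) (nat_lit 31732318081) (nat_lit 375) (nat_lit 5) (nat_lit 374) (nat_lit 3) (nat_lit 391) (nat_lit 5) (nat_lit 444) (nat_lit 443) (nat_lit 133)) (XT.lf (nat_lit 0) (nat_lit 56192273552) (nat_lit 1216) (nat_lit 15812441673) (nat_lit 1292) (nat_lit 15795253291) (nat_lit 375) (nat_lit 5) (nat_lit 391) (nat_lit 5) (nat_lit 392) (nat_lit 5) (nat_lit 445) (nat_lit 443) (nat_lit 132)))) (XT.nd (nat_lit 156) (nat_lit 0) (nat_lit 76) (XT.nd (nat_lit 78) (nat_lit 0) (nat_lit 76) (XT.lf (nat_lit 76) (nat_lit 29091836024) (nat_lit 0) (nat_lit 29117244973) (nat_lit 1292) (nat_lit 30912334163) (nat_lit 376) (nat_lit 5) (nat_lit 375) (nat_lit 5) (nat_lit 392) (nat_lit 5) (nat_lit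 446) (nat_lit 443) (nat_lit 131)) (XT.lf (nat_lit 0) (nat_lit 60592052878) (nat_lit 1216) (nat_lit 14956850036) (nat_lit 1292) (nat_lit 14924432482) (nat_lit 376) (nat_lit 5) (nat_lit 392) (nat_lit 5) (nat_lit 393) (nat_lit 5) (nat_lit 447) (nat_lit 443) (nat_lit 130))) (XT.nd (nat_lit 78) (nat_lit 0) (nat_lit 76) (XT.lf (nat_lit 76) (nat_lit 31800111837) (nat_lit 0) (nat_lit 31840052374) (nat_lit 1292) (nat_lit 28207839520) (nat_lit 377) (nat_lit 5) (nat_lit 376) (nat_lit 5) (nat_lit 393) (nat_lit 5) (nat_lit 448) (nat_lit 443) (nat_lit 129)) (XT.lf (nat_lit 0) (nat_lit 67058631267) (nat_lit 1216) (nat_lit 13121390916) (nat_lit 1292) (nat_lit 13075522563) (nat_lit 377) (nat_lit 5) (nat_lit 393) (nat_lit 5) (nat_lit 394) (nat_lit 5) (nat_lit 449) (nat_lit 443) (nat_lit 128)))))) (XT.nd (nat_lit 624) (nat_lit 1292) (nat_lit 0) (XT.nd (nat_lit 312) (nat_lit 1064) (nat_lit 0) (XT.nd (nat_lit 156) (nat_lit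 0) (nat_lit 76) (XT.nd (nat_lit 78) (nat_lit 0) (nat_lit 76) (XT.lf (nat_lit 76) (nat_lit 35591987895) (nat_lit 0) (nat_lit 35644740843) (nat_lit 1292) (nat_lit 23448870959) (nat_lit 378) (nat_lit 5) (nat_lit 377) (nat_lit 5) (nat_lit 394) (nat_lit 5) (nat_lit 450) (nat_lit 443) (nat_lit 127)) (XT.lf (nat_lit 0) (nat_lit 75771990009) (nat_lit 1216) (nat_lit 10218658754) (nat_lit 1292) (nat_lit 10160952909) (nat_lit 378) (nat_lit 5) (nat_lit 394) (nat_lit 5) (nat_lit 395) (nat_lit 5) (nat_lit 451) (nat_lit 443) (nat_lit 126))) (XT.nd (nat_lit 78) (nat_lit 0) (nat_lit 76) (XT.lf (nat_lit 76) (nat_lit 40560915202) (nat_lit 0) (nat_lit 40624921426) (nat_lit 1292) (nat_lit 16453471252) (nat_lit 379) (nat_lit 5) (nat_lit 378) (nat_lit 5) (nat_lit 395) (nat_lit 5) (nat_lit 452) (nat_lit 443) (nat_lit 125)) (XT.lf (nat_lit 0) (nat_lit 86924682977) (nat_lit 1216) (nat_lit 6155082723) (nat_lit 1292) (nat_lit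 6087002045) (nat_lit 379) (nat_lit 5) (nat_lit 395) (nat_lit 5) (nat_lit 396) (nat_lit 5) (nat_lit 453) (nat_lit 443) (nat_lit 124)))) (XT.nd (nat_lit 156) (nat_lit 1216) (nat_lit 0) (XT.nd (nat_lit 78) (nat_lit 0) (nat_lit 76) (XT.lf (nat_lit 76) (nat_lit 46806869942) (nat_lit 0) (nat_lit 46880716359) (nat_lit 1292) (nat_lit 7026908357) (nat_lit 380) (nat_lit 5) (nat_lit 379) (nat_lit 5) (nat_lit 396) (nat_lit 5) (nat_lit 454) (nat_lit 443) (nat_lit 123)) (XT.lf (nat_lit 0) (nat_lit 100722651613) (nat_lit 1216) (nat_lit 830526916) (nat_lit 1292) (nat_lit 753396603) (nat_lit 380) (nat_lit 5) (nat_lit 396) (nat_lit 5) (nat_lit 397) (nat_lit 5) (nat_lit 455) (nat_lit 443) (nat_lit 122))) (XT.nd (nat_lit 78) (nat_lit 0) (nat_lit 0) (XT.lf (nat_lit 0) (nat_lit 4940822281) (nat_lit 1292) (nat_lit 49528466852) (nat_lit 1368) (nat_lit 49446060070) (nat_lit 363) (nat_lit 5) (nat_lit 380) (nat_lit 5) (nat_lit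 381) (nat_lit 5) (nat_lit 456) (nat_lit 443) (nat_lit 121)) (XT.lf (nat_lit 76) (nat_lit 5802971434) (nat_lit 0) (nat_lit 5890501001) (nat_lit 1368) (nat_lit 93876523669) (nat_lit 364) (nat_lit 5) (nat_lit 363) (nat_lit 5) (nat_lit 381) (nat_lit 5) (nat_lit 457) (nat_lit 443) (nat_lit 120))))) (XT.nd (nat_lit 312) (nat_lit 608) (nat_lit 0) (XT.nd (nat_lit 156) (nat_lit 760) (nat_lit 0) (XT.nd (nat_lit 78) (nat_lit 0) (nat_lit 0) (XT.lf (nat_lit 0) (nat_lit 19577901125) (nat_lit 1292) (nat_lit 43879157098) (nat_lit 1368) (nat_lit 43789348219) (nat_lit 364) (nat_lit 5) (nat_lit 381) (nat_lit 5) (nat_lit 382) (nat_lit 5) (nat_lit 458) (nat_lit 443) (nat_lit 119)) (XT.lf (nat_lit 76) (nat_lit 13898021386) (nat_lit 0) (nat_lit 13992518338) (nat_lit 1368) (nat_lit 81076819054) (nat_lit 365) (nat_lit 5) (nat_lit 364) (nat_lit 5) (nat_lit 382) (nat_lit 5) (nat_lit 459) (nat_lit 443) (nat_lit 118))) (XT.nd (nat_lit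 78) (nat_lit 836) (nat_lit 0) (XT.lf (nat_lit 0) (nat_lit 37255045651) (nat_lit 1292) (nat_lit 36778491481) (nat_lit 76) (nat_lit 36682327907) (nat_lit 365) (nat_lit 5) (nat_lit 382) (nat_lit 5) (nat_lit 366) (nat_lit 5) (nat_lit 460) (nat_lit 443) (nat_lit 117)) (XT.lf (nat_lit 0) (nat_lit 23582516769) (nat_lit 836) (nat_lit 23682970595) (nat_lit 912) (nat_lit 65240389106) (nat_lit 354) (nat_lit 5) (nat_lit 365) (nat_lit 5) (nat_lit 366) (nat_lit 5) (nat_lit 461) (nat_lit 443) (nat_lit 116)))) (XT.nd (nat_lit 51714) (nat_lit 0) (nat_lit 2128) (XT.nd (nat_lit 78) (nat_lit 608) (nat_lit 0) (XT.lf (nat_lit 0) (nat_lit 58221951568) (nat_lit 912) (nat_lit 28104918679) (nat_lit 76) (nat_lit 28003346719) (nat_lit 354) (nat_lit 5) (nat_lit 366) (nat_lit 5) (nat_lit 355) (nat_lit 5) (nat_lit 462) (nat_lit 443) (nat_lit 115)) (XT.lf (nat_lit 0) (nat_lit 34986093427) (nat_lit 608) (nat_lit 35091591575) (nat_lit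 684) (nat_lit 46114485417) (nat_lit 346) (nat_lit 5) (nat_lit 354) (nat_lit 5) (nat_lit 355) (nat_lit 5) (nat_lit 463) (nat_lit 443) (nat_lit 114))) (XT.nd (nat_lit 78) (nat_lit 0) (nat_lit 0) (XT.lf (nat_lit 0) (nat_lit 27659822074) (nat_lit 1292) (nat_lit 8116856152) (nat_lit 1292) (nat_lit 8116856152) (nat_lit 374) (nat_lit 3) (nat_lit 391) (nat_lit 3) (nat_lit 391) (nat_lit 5) (nat_lit 444) (nat_lit 444) (nat_lit 132)) (XT.lf (nat_lit 76) (nat_lit 28210306769) (nat_lit 0) (nat_lit 28218773952) (nat_lit 1292) (nat_lit 32666404814) (nat_lit 375) (nat_lit 5) (nat_lit 374) (nat_lit 3) (nat_lit 391) (nat_lit 5) (nat_lit 445) (nat_lit 444) (nat_lit 131))))))))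
noncomputable def xc254 : XT := (XT.nd (nat_lit 54054) (nat_lit 0) (nat_lit 684) (XT.nd (nat_lit 1170) (nat_lit 684) (nat_lit 0) (XT.nd (nat_lit 546) (nat_lit 912) (nat_lit 0) (XT.nd (nat_lit 234) (nat_lit 0) (nat_lit 76) (XT.nd (nat_lit 78) (nat_lit 0) (nat_lit 0) (XT.lf (nat_lit 0) (nat_lit 57894820669) (nat_lit 1216) (nat_lit 16277422616) (nat_lit 1292) (nat_lit 16261220918) (nat_lit 375) (nat_lit 5) (nat_lit 391) (nat_lit 5) (nat_lit 392) (nat_lit 5) (nat_lit 446) (nat_lit 444) (nat_lit 130)) (XT.nd (nat_lit 78) (nat_lit 0) (nat_lit 76) (XT.lf (nat_lit 76) (nat_lit 29973891330) (nat_lit 0) (nat_lit 29997841701) (nat_lit 1292) (nat_lit 31822833196) (nat_lit 376) (nat_lit 5) (nat_lit 375) (nat_lit 5) (nat_lit 392) (nat_lit 5) (nat_lit 447) (nat_lit 444) (nat_lit 129)) (XT.lf (nat_lit 0) (nat_lit 62425650923) (nat_lit 1216) (nat_lit 15395983047) (nat_lit 1292) (nat_lit 15365426394) (nat_lit 376) (nat_lit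 5) (nat_lit 392) (nat_lit 5) (nat_lit 393) (nat_lit 5) (nat_lit 448) (nat_lit 444) (nat_lit 128)))) (XT.nd (nat_lit 156) (nat_lit 0) (nat_lit 76) (XT.nd (nat_lit 78) (nat_lit 0) (nat_lit 76) (XT.lf (nat_lit 76) (nat_lit 32763593834) (nat_lit 0) (nat_lit 32801241621) (nat_lit 1292) (nat_lit 29038144399) (nat_lit 377) (nat_lit 5) (nat_lit 376) (nat_lit 5) (nat_lit 393) (nat_lit 5) (nat_lit 449) (nat_lit 444) (nat_lit 127)) (XT.lf (nat_lit 0) (nat_lit 69085350166) (nat_lit 1216) (nat_lit 13505323722) (nat_lit 1292) (nat_lit 13462088401) (nat_lit 377) (nat_lit 5) (nat_lit 393) (nat_lit 5) (nat_lit 394) (nat_lit 5) (nat_lit 450) (nat_lit 444) (nat_lit 126))) (XT.nd (nat_lit 78) (nat_lit 0) (nat_lit 76) (XT.lf (nat_lit 76) (nat_lit 36669361268) (nat_lit 0) (nat_lit 36719085980) (nat_lit 1292) (nat_lit 24137281942) (nat_lit 378) (nat_lit 5) (nat_lit 377) (nat_lit 5) (nat_lit 394) (nat_lit 5) (nat_lit 451)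 (nat_lit 444) (nat_lit 125)) (XT.lf (nat_lit 0) (nat_lit 78059293938) (nat_lit 1216) (nat_lit 10515412375) (nat_lit 1292) (nat_lit 10461019082) (nat_lit 378) (nat_lit 5) (nat_lit 394) (nat_lit 5) (nat_lit 395) (nat_lit 5) (nat_lit 452) (nat_lit 444) (nat_lit 124))))) (XT.nd (nat_lit 312) (nat_lit 1140) (nat_lit 0) (XT.nd (nat_lit 156) (nat_lit 0) (nat_lit 76) (XT.nd (nat_lit 78) (nat_lit 0) (nat_lit 76) (XT.lf (nat_lit 76) (nat_lit 41787452661) (nat_lit 0) (nat_lit 41847784666) (nat_lit 1292) (nat_lit 16932835022) (nat_lit 379) (nat_lit 5) (nat_lit 378) (nat_lit 5) (nat_lit 395) (nat_lit 5) (nat_lit 453) (nat_lit 444) (nat_lit 123)) (XT.lf (nat_lit 0) (nat_lit 89545807969) (nat_lit 1216) (nat_lit 6329866921) (nat_lit 1292) (nat_lit 6265694353) (nat_lit 379) (nat_lit 5) (nat_lit 395) (nat_lit 5) (nat_lit 396) (nat_lit 5) (nat_lit 454) (nat_lit 444) (nat_lit 122))) (XT.nd (nat_lit 78) (nat_lit 0) (nat_lit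 76) (XT.lf (nat_lit 76) (nat_lit 48220847576) (nat_lit 0) (nat_lit 48290454907) (nat_lit 1292) (nat_lit 7224234357) (nat_lit 380) (nat_lit 5) (nat_lit 379) (nat_lit 5) (nat_lit 396) (nat_lit 5) (nat_lit 455) (nat_lit 444) (nat_lit 121)) (XT.lf (nat_lit 0) (nat_lit 103757007577) (nat_lit 1216) (nat_lit 845543617) (nat_lit 1292) (nat_lit 772840900) (nat_lit 380) (nat_lit 5) (nat_lit 396) (nat_lit 5) (nat_lit 397) (nat_lit 5) (nat_lit 456) (nat_lit 444) (nat_lit 120)))) (XT.nd (nat_lit 156) (nat_lit 0) (nat_lit 76) (XT.nd (nat_lit 78) (nat_lit 0) (nat_lit 0) (XT.lf (nat_lit 0) (nat_lit 5101571158) (nat_lit 1292) (nat_lit 51004269545) (nat_lit 1368) (nat_lit 50926593249) (nat_lit 363) (nat_lit 5) (nat_lit 380) (nat_lit 5) (nat_lit 381) (nat_lit 5) (nat_lit 457) (nat_lit 444) (nat_lit 119)) (XT.lf (nat_lit 76) (nat_lit 5987013347) (nat_lit 0) (nat_lit 6069518359) (nat_lit 1368) (nat_lit 96680196628) (nat_lit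 364) (nat_lit 5) (nat_lit 363) (nat_lit 5) (nat_lit 381) (nat_lit 5) (nat_lit 458) (nat_lit 444) (nat_lit 118))) (XT.nd (nat_lit 78) (nat_lit 0) (nat_lit 0) (XT.lf (nat_lit 0) (nat_lit 20177114825) (nat_lit 1292) (nat_lit 45185490495) (nat_lit 1368) (nat_lit 45100837014) (nat_lit 364) (nat_lit 5) (nat_lit 381) (nat_lit 5) (nat_lit 382) (nat_lit 5) (nat_lit 459) (nat_lit 444) (nat_lit 117)) (XT.lf (nat_lit 76) (nat_lit 14324904898) (nat_lit 0) (nat_lit 14413977339) (nat_lit 1368) (nat_lit 83497148514) (nat_lit 365) (nat_lit 5) (nat_lit 364) (nat_lit 5) (nat_lit 382) (nat_lit 5) (nat_lit 460) (nat_lit 444) (nat_lit 116)))))) (XT.nd (nat_lit 52260) (nat_lit 0) (nat_lit 1672) (XT.nd (nat_lit 51948) (nat_lit 0) (nat_lit 1520) (XT.nd (nat_lit 78) (nat_lit 836) (nat_lit 0) (XT.lf (nat_lit 0) (nat_lit 38383969000) (nat_lit 1292) (nat_lit 37871838611) (nat_lit 76) (nat_lit 37781195220) (nat_lit 365) (nat_lit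 5) (nat_lit 382) (nat_lit 5) (nat_lit 366) (nat_lit 5) (nat_lit 461) (nat_lit 444) (nat_lit 115)) (XT.nd (nat_lit 51792) (nat_lit 0) (nat_lit 1520) (XT.lf (nat_lit 0) (nat_lit 24299901773) (nat_lit 836) (nat_lit 24394589138) (nat_lit 912) (nat_lit 67186230686) (nat_lit 354) (nat_lit 5) (nat_lit 365) (nat_lit 5) (nat_lit 366) (nat_lit 5) (nat_lit 462) (nat_lit 444) (nat_lit 114)) (XT.lf (nat_lit 0) (nat_lit 28498002528) (nat_lit 1292) (nat_lit 8356043154) (nat_lit 1292) (nat_lit 8356043154) (nat_lit 374) (nat_lit 3) (nat_lit 391) (nat_lit 3) (nat_lit 391) (nat_lit 5) (nat_lit 445) (nat_lit 445) (nat_lit 130)))) (XT.nd (nat_lit 156) (nat_lit 0) (nat_lit 76) (XT.nd (nat_lit 78) (nat_lit 0) (nat_lit 76) (XT.lf (nat_lit 76) (nat_lit 29065168657) (nat_lit 0) (nat_lit 29073149789) (nat_lit 1292) (nat_lit 33629540695) (nat_lit 375) (nat_lit 5) (nat_lit 374) (nat_lit 3) (nat_lit 391) (nat_lit 5) (nat_lit 446)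 (nat_lit 445) (nat_lit 129)) (XT.lf (nat_lit 0) (nat_lit 59647481021) (nat_lit 1216) (nat_lit 16756892146) (nat_lit 1292) (nat_lit 16741620491) (nat_lit 375) (nat_lit 5) (nat_lit 391) (nat_lit 5) (nat_lit 392) (nat_lit 5) (nat_lit 447) (nat_lit 445) (nat_lit 128))) (XT.nd (nat_lit 78) (nat_lit 0) (nat_lit 76) (XT.lf (nat_lit 76) (nat_lit 30881874424) (nat_lit 0) (nat_lit 30904449945) (nat_lit 1292) (nat_lit 32761615664) (nat_lit 376) (nat_lit 5) (nat_lit 375) (nat_lit 5) (nat_lit 392) (nat_lit 5) (nat_lit 448) (nat_lit 445) (nat_lit 127)) (XT.lf (nat_lit 0) (nat_lit 64313347832) (nat_lit 1216) (nat_lit 15848839549) (nat_lit 1292) (nat_lit 15820036973) (nat_lit 376) (nat_lit 5) (nat_lit 392) (nat_lit 5) (nat_lit 393) (nat_lit 5) (nat_lit 449) (nat_lit 445) (nat_lit 126))))) (XT.nd (nat_lit 312) (nat_lit 0) (nat_lit 152) (XT.nd (nat_lit 156) (nat_lit 0) (nat_lit 76) (XT.nd (nat_lit 78) (nat_lit 0) (nat_lit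 76) (XT.lf (nat_lit 76) (nat_lit 33755436178) (nat_lit 0) (nat_lit 33790922828) (nat_lit 1292) (nat_lit 29894272889) (nat_lit 377) (nat_lit 5) (nat_lit 376) (nat_lit 5) (nat_lit 393) (nat_lit 5) (nat_lit 450) (nat_lit 445) (nat_lit 125)) (XT.lf (nat_lit 0) (nat_lit 71172011869) (nat_lit 1216) (nat_lit 13901331845) (nat_lit 1292) (nat_lit 13860578408) (nat_lit 377) (nat_lit 5) (nat_lit 393) (nat_lit 5) (nat_lit 394) (nat_lit 5) (nat_lit 451) (nat_lit 445) (nat_lit 124))) (XT.nd (nat_lit 78) (nat_lit 0) (nat_lit 76) (XT.lf (nat_lit 76) (nat_lit 37778503973) (nat_lit 0) (nat_lit 37825374284) (nat_lit 1292) (nat_lit 24847209480) (nat_lit 378) (nat_lit 5) (nat_lit 377) (nat_lit 5) (nat_lit 394) (nat_lit 5) (nat_lit 452) (nat_lit 445) (nat_lit 123)) (XT.lf (nat_lit 0) (nat_lit 80414405049) (nat_lit 1216) (nat_lit 10821631518) (nat_lit 1292) (nat_lit 10770360622) (nat_lit 378) (nat_lit 5) (nat_lit 394) (nat_lit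 5) (nat_lit 395) (nat_lit 5) (nat_lit 453) (nat_lit 445) (nat_lit 122)))) (XT.nd (nat_lit 156) (nat_lit 0) (nat_lit 76) (XT.nd (nat_lit 78) (nat_lit 0) (nat_lit 76) (XT.lf (nat_lit 76) (nat_lit 43050228850) (nat_lit 0) (nat_lit 43107097551) (nat_lit 1292) (nat_lit 17427397160) (nat_lit 379) (nat_lit 5) (nat_lit 378) (nat_lit 5) (nat_lit 395) (nat_lit 5) (nat_lit 454) (nat_lit 445) (nat_lit 121)) (XT.lf (nat_lit 0) (nat_lit 92244798386) (nat_lit 1216) (nat_lit 6510461124) (nat_lit 1292) (nat_lit 6449972324) (nat_lit 379) (nat_lit 5) (nat_lit 395) (nat_lit 5) (nat_lit 396) (nat_lit 5) (nat_lit 455) (nat_lit 445) (nat_lit 120))) (XT.nd (nat_lit 78) (nat_lit 0) (nat_lit 76) (XT.lf (nat_lit 76) (nat_lit 49676683614) (nat_lit 0) (nat_lit 49742295199) (nat_lit 1292) (nat_lit 7428254015) (nat_lit 380) (nat_lit 5) (nat_lit 379) (nat_lit 5) (nat_lit 396) (nat_lit 5) (nat_lit 456) (nat_lit 445) (nat_lit 119))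 (XT.lf (nat_lit 0) (nat_lit 106881666541) (nat_lit 1216) (nat_lit 861579069) (nat_lit 1292) (nat_lit 793049784) (nat_lit 380) (nat_lit 5) (nat_lit 396) (nat_lit 5) (nat_lit 397) (nat_lit 5) (nat_lit 457) (nat_lit 445) (nat_lit 118))))))) (XT.nd (nat_lit 52962) (nat_lit 0) (nat_lit 0) (XT.nd (nat_lit 52338) (nat_lit 0) (nat_lit 912) (XT.nd (nat_lit 234) (nat_lit 0) (nat_lit 76) (XT.nd (nat_lit 78) (nat_lit 0) (nat_lit 0) (XT.lf (nat_lit 0) (nat_lit 5266423561) (nat_lit 1292) (nat_lit 52524923305) (nat_lit 1368) (nat_lit 52451705947) (nat_lit 363) (nat_lit 5) (nat_lit 380) (nat_lit 5) (nat_lit 381) (nat_lit 5) (nat_lit 458) (nat_lit 445) (nat_lit 117)) (XT.nd (nat_lit 78) (nat_lit 0) (nat_lit 76) (XT.lf (nat_lit 76) (nat_lit 6176005188) (nat_lit 0) (nat_lit 6253774075) (nat_lit 1368) (nat_lit 99568704373) (nat_lit 364) (nat_lit 5) (nat_lit 363) (nat_lit 5) (nat_lit 381) (nat_lit 5) (nat_lit 459) (nat_lit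 445) (nat_lit 116)) (XT.lf (nat_lit 0) (nat_lit 20793623168) (nat_lit 1292) (nat_lit 46531590308) (nat_lit 1368) (nat_lit 46451796282) (nat_lit 364) (nat_lit 5) (nat_lit 381) (nat_lit 5) (nat_lit 382) (nat_lit 5) (nat_lit 460) (nat_lit 445) (nat_lit 115)))) (XT.nd (nat_lit 51948) (nat_lit 0) (nat_lit 760) (XT.nd (nat_lit 78) (nat_lit 0) (nat_lit 76) (XT.lf (nat_lit 76) (nat_lit 14764024154) (nat_lit 0) (nat_lit 14847983473) (nat_lit 1368) (nat_lit 85990775279) (nat_lit 365) (nat_lit 5) (nat_lit 364) (nat_lit 5) (nat_lit 382) (nat_lit 5) (nat_lit 461) (nat_lit 445) (nat_lit 114)) (XT.lf (nat_lit 0) (nat_lit 39546112992) (nat_lit 1292) (nat_lit 38998560633) (nat_lit 76) (nat_lit 38913120543) (nat_lit 365) (nat_lit 5) (nat_lit 382) (nat_lit 5) (nat_lit 366) (nat_lit 5) (nat_lit 462) (nat_lit 445) (nat_lit 113))) (XT.nd (nat_lit 78) (nat_lit 0) (nat_lit 0) (XT.lf (nat_lit 0) (nat_lit 29360847017) (nat_lit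 1292) (nat_lit 8602653677) (nat_lit 1292) (nat_lit 8602653677) (nat_lit 374) (nat_lit 3) (nat_lit 391) (nat_lit 3) (nat_lit 391) (nat_lit 5) (nat_lit 446) (nat_lit 446) (nat_lit 128)) (XT.lf (nat_lit 76) (nat_lit 29945185443) (nat_lit 0) (nat_lit 29952708425) (nat_lit 1292) (nat_lit 34622538272) (nat_lit 375) (nat_lit 5) (nat_lit 374) (nat_lit 3) (nat_lit 391) (nat_lit 5) (nat_lit 447) (nat_lit 446) (nat_lit 127))))) (XT.nd (nat_lit 312) (nat_lit 0) (nat_lit 152) (XT.nd (nat_lit 156) (nat_lit 0) (nat_lit 76) (XT.nd (nat_lit 78) (nat_lit 0) (nat_lit 0) (XT.lf (nat_lit 0) (nat_lit 61451813297) (nat_lit 1216) (nat_lit 17251253967) (nat_lit 1292) (nat_lit 17236858968) (nat_lit 375) (nat_lit 5) (nat_lit 391) (nat_lit 5) (nat_lit 392) (nat_lit 5) (nat_lit 448) (nat_lit 446) (nat_lit 126)) (XT.lf (nat_lit 76) (nat_lit 31816593786) (nat_lit 0) (nat_lit 31837873380) (nat_lit 1292) (nat_lit 33729474476) (nat_lit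 376) (nat_lit 5) (nat_lit 375) (nat_lit 5) (nat_lit 392) (nat_lit 5) (nat_lit 449) (nat_lit 446) (nat_lit 125))) (XT.nd (nat_lit 78) (nat_lit 0) (nat_lit 0) (XT.lf (nat_lit 0) (nat_lit 66256818756) (nat_lit 1216) (nat_lit 16315799703) (nat_lit 1292) (nat_lit 16288650512) (nat_lit 376) (nat_lit 5) (nat_lit 392) (nat_lit 5) (nat_lit 393) (nat_lit 5) (nat_lit 450) (nat_lit 446) (nat_lit 124)) (XT.lf (nat_lit 76) (nat_lit 34776520914) (nat_lit 0) (nat_lit 34809970485) (nat_lit 1292) (nat_lit 30776947205) (nat_lit 377) (nat_lit 5) (nat_lit 376) (nat_lit 5) (nat_lit 393) (nat_lit 5) (nat_lit 451) (nat_lit 446) (nat_lit 123)))) (XT.nd (nat_lit 156) (nat_lit 0) (nat_lit 76) (XT.nd (nat_lit 78) (nat_lit 0) (nat_lit 0) (XT.lf (nat_lit 0) (nat_lit 73320463957) (nat_lit 1216) (nat_lit 14309745550) (nat_lit 1292) (nat_lit 14271331527) (nat_lit 377) (nat_lit 5) (nat_lit 393) (nat_lit 5) (nat_lit 394) (nat_lit 5)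 (nat_lit 452) (nat_lit 446) (nat_lit 122)) (XT.lf (nat_lit 76) (nat_lit 38920400772) (nat_lit 0) (nat_lit 38964580535) (nat_lit 1292) (nat_lit 25579249462) (nat_lit 378) (nat_lit 5) (nat_lit 377) (nat_lit 5) (nat_lit 394) (nat_lit 5) (nat_lit 453) (nat_lit 446) (nat_lit 121))) (XT.nd (nat_lit 78) (nat_lit 0) (nat_lit 0) (XT.lf (nat_lit 0) (nat_lit 82839404165) (nat_lit 1216) (nat_lit 11137567833) (nat_lit 1292) (nat_lit 11089240097) (nat_lit 378) (nat_lit 5) (nat_lit 394) (nat_lit 5) (nat_lit 395) (nat_lit 5) (nat_lit 454) (nat_lit 446) (nat_lit 120)) (XT.lf (nat_lit 76) (nat_lit 44350362927) (nat_lit 0) (nat_lit 44403967132) (nat_lit 1292) (nat_lit 17937566693) (nat_lit 379) (nat_lit 5) (nat_lit 378) (nat_lit 5) (nat_lit 395) (nat_lit 5) (nat_lit 455) (nat_lit 446) (nat_lit 119)))))) (XT.nd (nat_lit 52572) (nat_lit 0) (nat_lit 912) (XT.nd (nat_lit 312) (nat_lit 0) (nat_lit 0) (XT.nd (nat_lit 156) (nat_lit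 1216) (nat_lit 0) (XT.nd (nat_lit 78) (nat_lit 0) (nat_lit 0) (XT.lf (nat_lit 0) (nat_lit 95024034296) (nat_lit 1216) (nat_lit 6697007115) (nat_lit 1292) (nat_lit 6639990620) (nat_lit 379) (nat_lit 5) (nat_lit 395) (nat_lit 5) (nat_lit 396) (nat_lit 5) (nat_lit 456) (nat_lit 446) (nat_lit 118)) (XT.lf (nat_lit 76) (nat_lit 51175666005) (nat_lit 0) (nat_lit 51237511217) (nat_lit 1292) (nat_lit 7639123719) (nat_lit 380) (nat_lit 5) (nat_lit 379) (nat_lit 5) (nat_lit 396) (nat_lit 5) (nat_lit 457) (nat_lit 446) (nat_lit 117))) (XT.nd (nat_lit 78) (nat_lit 1292) (nat_lit 0) (XT.lf (nat_lit 0) (nat_lit 110099379368) (nat_lit 1216) (nat_lit 878631213) (nat_lit 1292) (nat_lit 814035790) (nat_lit 380) (nat_lit 5) (nat_lit 396) (nat_lit 5) (nat_lit 397) (nat_lit 5) (nat_lit 458) (nat_lit 446) (nat_lit 116)) (XT.lf (nat_lit 0) (nat_lit 5435543865) (nat_lit 1292) (nat_lit 54091740543) (nat_lit 1368) (nat_lit 54022726161)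 (nat_lit 363) (nat_lit 5) (nat_lit 380) (nat_lit 5) (nat_lit 381) (nat_lit 5) (nat_lit 459) (nat_lit 446) (nat_lit 115)))) (XT.nd (nat_lit 52104) (nat_lit 0) (nat_lit 836) (XT.nd (nat_lit 78) (nat_lit 0) (nat_lit 76) (XT.lf (nat_lit 76) (nat_lit 6370128251) (nat_lit 0) (nat_lit 6443432886) (nat_lit 1368) (nat_lit 102544550353) (nat_lit 364) (nat_lit 5) (nat_lit 363) (nat_lit 5) (nat_lit 381) (nat_lit 5) (nat_lit 460) (nat_lit 446) (nat_lit 114)) (XT.lf (nat_lit 0) (nat_lit 21427984127) (nat_lit 1292) (nat_lit 47918616439) (nat_lit 1368) (nat_lit 47843402917) (nat_lit 364) (nat_lit 5) (nat_lit 381) (nat_lit 5) (nat_lit 382) (nat_lit 5) (nat_lit 461) (nat_lit 446) (nat_lit 113))) (XT.nd (nat_lit 78) (nat_lit 0) (nat_lit 0) (XT.lf (nat_lit 0) (nat_lit 30249123094) (nat_lit 1292) (nat_lit 8856896193) (nat_lit 1292) (nat_lit 8856896193) (nat_lit 374) (nat_lit 3) (nat_lit 391) (nat_lit 3) (nat_lit 391) (nat_lit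 5) (nat_lit 447) (nat_lit 447) (nat_lit 126)) (XT.lf (nat_lit 76) (nat_lit 30851139956) (nat_lit 0) (nat_lit 30858231089) (nat_lit 1292) (nat_lit 35646237848) (nat_lit 375) (nat_lit 5) (nat_lit 374) (nat_lit 3) (nat_lit 391) (nat_lit 5) (nat_lit 448) (nat_lit 447) (nat_lit 125))))) (XT.nd (nat_lit 312) (nat_lit 0) (nat_lit 152) (XT.nd (nat_lit 156) (nat_lit 0) (nat_lit 76) (XT.nd (nat_lit 78) (nat_lit 0) (nat_lit 0) (XT.lf (nat_lit 0) (nat_lit 63309419769) (nat_lit 1216) (nat_lit 17760925678) (nat_lit 1292) (nat_lit 17747357010) (nat_lit 375) (nat_lit 5) (nat_lit 391) (nat_lit 5) (nat_lit 392) (nat_lit 5) (nat_lit 449) (nat_lit 447) (nat_lit 124)) (XT.lf (nat_lit 76) (nat_lit 32778880391) (nat_lit 0) (nat_lit 32798938450) (nat_lit 1292) (nat_lit 34727229520) (nat_lit 376) (nat_lit 5) (nat_lit 375) (nat_lit 5) (nat_lit 392) (nat_lit 5) (nat_lit 450) (nat_lit 447) (nat_lit 123))) (XT.nd (nat_lit 78) (nat_lit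 0) (nat_lit 0) (XT.lf (nat_lit 0) (nat_lit 68257786103) (nat_lit 1216) (nat_lit 16797256885) (nat_lit 1292) (nat_lit 16771666168) (nat_lit 376) (nat_lit 5) (nat_lit 392) (nat_lit 5) (nat_lit 393) (nat_lit 5) (nat_lit 451) (nat_lit 447) (nat_lit 122)) (XT.lf (nat_lit 76) (nat_lit 35827754755) (nat_lit 0) (nat_lit 35859284183) (nat_lit 1292) (nat_lit 31686914240) (nat_lit 377) (nat_lit 5) (nat_lit 376) (nat_lit 5) (nat_lit 393) (nat_lit 5) (nat_lit 452) (nat_lit 447) (nat_lit 121)))) (XT.nd (nat_lit 156) (nat_lit 0) (nat_lit 76) (XT.nd (nat_lit 78) (nat_lit 0) (nat_lit 0) (XT.lf (nat_lit 0) (nat_lit 75532606607) (nat_lit 1216) (nat_lit 14730906848) (nat_lit 1292) (nat_lit 14694697947) (nat_lit 377) (nat_lit 5) (nat_lit 393) (nat_lit 5) (nat_lit 394) (nat_lit 5) (nat_lit 453) (nat_lit 447) (nat_lit 120)) (XT.lf (nat_lit 76) (nat_lit 40096064147) (nat_lit 0) (nat_lit 40137707811) (nat_lit 1292) (nat_lit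 26334018498) (nat_lit 378) (nat_lit 5) (nat_lit 377) (nat_lit 5) (nat_lit 394) (nat_lit 5) (nat_lit 454) (nat_lit 447) (nat_lit 119))) (XT.nd (nat_lit 78) (nat_lit 0) (nat_lit 0) (XT.lf (nat_lit 0) (nat_lit 85336431859) (nat_lit 1216) (nat_lit 11463482379) (nat_lit 1292) (nat_lit 11417928853) (nat_lit 378) (nat_lit 5) (nat_lit 394) (nat_lit 5) (nat_lit 395) (nat_lit 5) (nat_lit 455) (nat_lit 447) (nat_lit 118)) (XT.lf (nat_lit 76) (nat_lit 45689005789) (nat_lit 0) (nat_lit 45739532894) (nat_lit 1292) (nat_lit 18463767609) (nat_lit 379) (nat_lit 5) (nat_lit 378) (nat_lit 5) (nat_lit 395) (nat_lit 5) (nat_lit 456) (nat_lit 447) (nat_lit 117))))))))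
noncomputable def xc255 : XT := (XT.nd (nat_lit 158886) (nat_lit 0) (nat_lit 836) (XT.nd (nat_lit 53196) (nat_lit 0) (nat_lit 836) (XT.nd (nat_lit 52572) (nat_lit 0) (nat_lit 912) (XT.nd (nat_lit 234) (nat_lit 1216) (nat_lit 0) (XT.nd (nat_lit 78) (nat_lit 0) (nat_lit 0) (XT.lf (nat_lit 0) (nat_lit 97885964635) (nat_lit 1216) (nat_lit 6889652796) (nat_lit 1292) (nat_lit 6835909281) (nat_lit 379) (nat_lit 5) (nat_lit 395) (nat_lit 5) (nat_lit 396) (nat_lit 5) (nat_lit 457) (nat_lit 447) (nat_lit 116)) (XT.nd (nat_lit 78) (nat_lit 0) (nat_lit 76) (XT.lf (nat_lit 76) (nat_lit 52719119493) (nat_lit 0) (nat_lit 52777414537) (nat_lit 1292) (nat_lit 7857007095) (nat_lit 380) (nat_lit 5) (nat_lit 379) (nat_lit 5) (nat_lit 396) (nat_lit 5) (nat_lit 458) (nat_lit 447) (nat_lit 115)) (XT.lf (nat_lit 0) (nat_lit 113412977047) (nat_lit 1216) (nat_lit 896699804) (nat_lit 1292) (nat_lit 835812422) (nat_lit 380) (nat_lit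 5) (nat_lit 396) (nat_lit 5) (nat_lit 397) (nat_lit 5) (nat_lit 459) (nat_lit 447) (nat_lit 114)))) (XT.nd (nat_lit 52182) (nat_lit 0) (nat_lit 836) (XT.nd (nat_lit 78) (nat_lit 0) (nat_lit 0) (XT.lf (nat_lit 0) (nat_lit 5609099009) (nat_lit 1292) (nat_lit 55706074943) (nat_lit 1368) (nat_lit 55641022269) (nat_lit 363) (nat_lit 5) (nat_lit 380) (nat_lit 5) (nat_lit 381) (nat_lit 5) (nat_lit 460) (nat_lit 447) (nat_lit 113)) (XT.lf (nat_lit 76) (nat_lit 6569567387) (nat_lit 0) (nat_lit 6638664036) (nat_lit 1368) (nat_lit 105610315508) (nat_lit 364) (nat_lit 5) (nat_lit 363) (nat_lit 5) (nat_lit 381) (nat_lit 5) (nat_lit 461) (nat_lit 447) (nat_lit 112))) (XT.nd (nat_lit 78) (nat_lit 0) (nat_lit 0) (XT.lf (nat_lit 0) (nat_lit 31163619756) (nat_lit 1292) (nat_lit 9118986250) (nat_lit 1292) (nat_lit 9118986250) (nat_lit 374) (nat_lit 3) (nat_lit 391) (nat_lit 3) (nat_lit 391) (nat_lit 5) (nat_lit 448) (nat_lit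 448) (nat_lit 124)) (XT.lf (nat_lit 76) (nat_lit 31783836894) (nat_lit 0) (nat_lit 31790520967) (nat_lit 1292) (nat_lit 36701508129) (nat_lit 375) (nat_lit 5) (nat_lit 374) (nat_lit 3) (nat_lit 391) (nat_lit 5) (nat_lit 449) (nat_lit 448) (nat_lit 123))))) (XT.nd (nat_lit 312) (nat_lit 0) (nat_lit 152) (XT.nd (nat_lit 156) (nat_lit 0) (nat_lit 76) (XT.nd (nat_lit 78) (nat_lit 0) (nat_lit 0) (XT.lf (nat_lit 0) (nat_lit 65221947789) (nat_lit 1216) (nat_lit 18286339075) (nat_lit 1292) (nat_lit 18273549304) (nat_lit 375) (nat_lit 5) (nat_lit 391) (nat_lit 5) (nat_lit 392) (nat_lit 5) (nat_lit 450) (nat_lit 448) (nat_lit 122)) (XT.lf (nat_lit 76) (nat_lit 33769588486) (nat_lit 0) (nat_lit 33788495130) (nat_lit 1292) (nat_lit 35755728289) (nat_lit 376) (nat_lit 5) (nat_lit 375) (nat_lit 5) (nat_lit 392) (nat_lit 5) (nat_lit 451) (nat_lit 448) (nat_lit 121))) (XT.nd (nat_lit 78) (nat_lit 0) (nat_lit 0) (XT.lf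 (nat_lit 0) (nat_lit 70318021133) (nat_lit 1216) (nat_lit 17293617979) (nat_lit 1292) (nat_lit 17269496275) (nat_lit 376) (nat_lit 5) (nat_lit 392) (nat_lit 5) (nat_lit 393) (nat_lit 5) (nat_lit 452) (nat_lit 448) (nat_lit 120)) (XT.lf (nat_lit 76) (nat_lit 36910069924) (nat_lit 0) (nat_lit 36939789435) (nat_lit 1292) (nat_lit 32624946136) (nat_lit 377) (nat_lit 5) (nat_lit 376) (nat_lit 5) (nat_lit 393) (nat_lit 5) (nat_lit 453) (nat_lit 448) (nat_lit 119)))) (XT.nd (nat_lit 156) (nat_lit 0) (nat_lit 76) (XT.nd (nat_lit 78) (nat_lit 0) (nat_lit 0) (XT.lf (nat_lit 0) (nat_lit 77810394337) (nat_lit 1216) (nat_lit 15165169742) (nat_lit 1292) (nat_lit 15131039380) (nat_lit 377) (nat_lit 5) (nat_lit 393) (nat_lit 5) (nat_lit 394) (nat_lit 5) (nat_lit 454) (nat_lit 448) (nat_lit 118)) (XT.lf (nat_lit 76) (nat_lit 41306535243) (nat_lit 0) (nat_lit 41345788390) (nat_lit 1292) (nat_lit 27112154381) (nat_lit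 378) (nat_lit 5) (nat_lit 377) (nat_lit 5) (nat_lit 394) (nat_lit 5) (nat_lit 455) (nat_lit 448) (nat_lit 117))) (XT.nd (nat_lit 78) (nat_lit 0) (nat_lit 0) (XT.lf (nat_lit 0) (nat_lit 87907690400) (nat_lit 1216) (nat_lit 11799645792) (nat_lit 1292) (nat_lit 11756707224) (nat_lit 378) (nat_lit 5) (nat_lit 394) (nat_lit 5) (nat_lit 395) (nat_lit 5) (nat_lit 456) (nat_lit 448) (nat_lit 116)) (XT.lf (nat_lit 76) (nat_lit 47067341129) (nat_lit 0) (nat_lit 47114967771) (nat_lit 1292) (nat_lit 19006439160) (nat_lit 379) (nat_lit 5) (nat_lit 378) (nat_lit 5) (nat_lit 395) (nat_lit 5) (nat_lit 457) (nat_lit 448) (nat_lit 115)))))) (XT.nd (nat_lit 52806) (nat_lit 0) (nat_lit 0) (XT.nd (nat_lit 52494) (nat_lit 0) (nat_lit 0) (XT.nd (nat_lit 156) (nat_lit 380) (nat_lit 0) (XT.nd (nat_lit 78) (nat_lit 0) (nat_lit 0) (XT.lf (nat_lit 0) (nat_lit 100833109424) (nat_lit 1216) (nat_lit 7088552266) (nat_lit 1292) (nat_lit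 7037893848) (nat_lit 379) (nat_lit 5) (nat_lit 395) (nat_lit 5) (nat_lit 396) (nat_lit 5) (nat_lit 458) (nat_lit 448) (nat_lit 114)) (XT.lf (nat_lit 76) (nat_lit 54308406819) (nat_lit 0) (nat_lit 54363355488) (nat_lit 1292) (nat_lit 8082075084) (nat_lit 380) (nat_lit 5) (nat_lit 379) (nat_lit 5) (nat_lit 396) (nat_lit 5) (nat_lit 459) (nat_lit 448) (nat_lit 113))) (XT.nd (nat_lit 52260) (nat_lit 456) (nat_lit 0) (XT.lf (nat_lit 0) (nat_lit 116825373238) (nat_lit 1216) (nat_lit 915786352) (nat_lit 1292) (nat_lit 858394155) (nat_lit 380) (nat_lit 5) (nat_lit 396) (nat_lit 5) (nat_lit 397) (nat_lit 5) (nat_lit 460) (nat_lit 448) (nat_lit 112)) (XT.lf (nat_lit 0) (nat_lit 32105148170) (nat_lit 1292) (nat_lit 9389146630) (nat_lit 1292) (nat_lit 9389146630) (nat_lit 374) (nat_lit 3) (nat_lit 391) (nat_lit 3) (nat_lit 391) (nat_lit 5) (nat_lit 449) (nat_lit 449) (nat_lit 122)))) (XT.nd (nat_lit 156) (nat_lit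 0) (nat_lit 76) (XT.nd (nat_lit 78) (nat_lit 0) (nat_lit 76) (XT.lf (nat_lit 76) (nat_lit 32744103569) (nat_lit 0) (nat_lit 32750403949) (nat_lit 1292) (nat_lit 37789246883) (nat_lit 375) (nat_lit 5) (nat_lit 374) (nat_lit 3) (nat_lit 391) (nat_lit 5) (nat_lit 450) (nat_lit 449) (nat_lit 121)) (XT.lf (nat_lit 0) (nat_lit 67191091308) (nat_lit 1216) (nat_lit 18827940489) (nat_lit 1292) (nat_lit 18815884904) (nat_lit 375) (nat_lit 5) (nat_lit 391) (nat_lit 5) (nat_lit 392) (nat_lit 5) (nat_lit 451) (nat_lit 449) (nat_lit 120))) (XT.nd (nat_lit 78) (nat_lit 0) (nat_lit 76) (XT.lf (nat_lit 76) (nat_lit 34789596382) (nat_lit 0) (nat_lit 34807417707) (nat_lit 1292) (nat_lit 36815846535) (nat_lit 376) (nat_lit 5) (nat_lit 375) (nat_lit 5) (nat_lit 392) (nat_lit 5) (nat_lit 452) (nat_lit 449) (nat_lit 119)) (XT.lf (nat_lit 0) (nat_lit 72439345579) (nat_lit 1216) (nat_lit 17805303688) (nat_lit 1292) (nat_lit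 17782566667) (nat_lit 376) (nat_lit 5) (nat_lit 392) (nat_lit 5) (nat_lit 393) (nat_lit 5) (nat_lit 453) (nat_lit 449) (nat_lit 118))))) (XT.nd (nat_lit 312) (nat_lit 152) (nat_lit 0) (XT.nd (nat_lit 156) (nat_lit 0) (nat_lit 76) (XT.nd (nat_lit 78) (nat_lit 0) (nat_lit 76) (XT.lf (nat_lit 76) (nat_lit 38024425022) (nat_lit 0) (nat_lit 38052438511) (nat_lit 1292) (nat_lit 33591840876) (nat_lit 377) (nat_lit 5) (nat_lit 376) (nat_lit 5) (nat_lit 393) (nat_lit 5) (nat_lit 454) (nat_lit 449) (nat_lit 117)) (XT.lf (nat_lit 0) (nat_lit 80155837783) (nat_lit 1216) (nat_lit 15612900485) (nat_lit 1292) (nat_lit 15580729346) (nat_lit 377) (nat_lit 5) (nat_lit 393) (nat_lit 5) (nat_lit 394) (nat_lit 5) (nat_lit 455) (nat_lit 449) (nat_lit 116))) (XT.nd (nat_lit 78) (nat_lit 0) (nat_lit 76) (XT.lf (nat_lit 76) (nat_lit 42552884822) (nat_lit 0) (nat_lit 42589884678) (nat_lit 1292) (nat_lit 27914316569) (nat_lit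 378) (nat_lit 5) (nat_lit 377) (nat_lit 5) (nat_lit 394) (nat_lit 5) (nat_lit 456) (nat_lit 449) (nat_lit 115)) (XT.lf (nat_lit 0) (nat_lit 90555445747) (nat_lit 1216) (nat_lit 12146338476) (nat_lit 1292) (nat_lit 12105864757) (nat_lit 378) (nat_lit 5) (nat_lit 394) (nat_lit 5) (nat_lit 395) (nat_lit 5) (nat_lit 457) (nat_lit 449) (nat_lit 114)))) (XT.nd (nat_lit 156) (nat_lit 304) (nat_lit 0) (XT.nd (nat_lit 78) (nat_lit 0) (nat_lit 76) (XT.lf (nat_lit 76) (nat_lit 48486586517) (nat_lit 0) (nat_lit 48531479195) (nat_lit 1292) (nat_lit 19566036164) (nat_lit 379) (nat_lit 5) (nat_lit 378) (nat_lit 5) (nat_lit 395) (nat_lit 5) (nat_lit 458) (nat_lit 449) (nat_lit 113)) (XT.lf (nat_lit 0) (nat_lit 103868062035) (nat_lit 1216) (nat_lit 7293865904) (nat_lit 1292) (nat_lit 7246115486) (nat_lit 379) (nat_lit 5) (nat_lit 395) (nat_lit 5) (nat_lit 396) (nat_lit 5) (nat_lit 459) (nat_lit 449) (nat_lit 112)))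 (XT.nd (nat_lit 52338) (nat_lit 380) (nat_lit 0) (XT.lf (nat_lit 76) (nat_lit 55944929964) (nat_lit 0) (nat_lit 55996724355) (nat_lit 1292) (nat_lit 8314506020) (nat_lit 380) (nat_lit 5) (nat_lit 379) (nat_lit 5) (nat_lit 396) (nat_lit 5) (nat_lit 460) (nat_lit 449) (nat_lit 111)) (XT.lf (nat_lit 0) (nat_lit 33074542431) (nat_lit 1292) (nat_lit 9667607523) (nat_lit 1292) (nat_lit 9667607523) (nat_lit 374) (nat_lit 3) (nat_lit 391) (nat_lit 3) (nat_lit 391) (nat_lit 5) (nat_lit 450) (nat_lit 450) (nat_lit 120))))))) (XT.nd (nat_lit 53586) (nat_lit 0) (nat_lit 0) (XT.nd (nat_lit 546) (nat_lit 0) (nat_lit 0) (XT.nd (nat_lit 234) (nat_lit 0) (nat_lit 152) (XT.nd (nat_lit 78) (nat_lit 0) (nat_lit 76) (XT.lf (nat_lit 76) (nat_lit 33732790678) (nat_lit 0) (nat_lit 33738729390) (nat_lit 1292) (nat_lit 38910381647) (nat_lit 375) (nat_lit 5) (nat_lit 374) (nat_lit 3) (nat_lit 391) (nat_lit 5) (nat_lit 451) (nat_lit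 450) (nat_lit 119)) (XT.nd (nat_lit 78) (nat_lit 0) (nat_lit 0) (XT.lf (nat_lit 0) (nat_lit 69218592437) (nat_lit 1216) (nat_lit 19386191129) (nat_lit 1292) (nat_lit 19374827584) (nat_lit 375) (nat_lit 5) (nat_lit 391) (nat_lit 5) (nat_lit 392) (nat_lit 5) (nat_lit 452) (nat_lit 450) (nat_lit 118)) (XT.lf (nat_lit 76) (nat_lit 35839807264) (nat_lit 0) (nat_lit 35856605572) (nat_lit 1292) (nat_lit 37908488957) (nat_lit 376) (nat_lit 5) (nat_lit 375) (nat_lit 5) (nat_lit 392) (nat_lit 5) (nat_lit 453) (nat_lit 450) (nat_lit 117)))) (XT.nd (nat_lit 156) (nat_lit 0) (nat_lit 76) (XT.nd (nat_lit 78) (nat_lit 0) (nat_lit 0) (XT.lf (nat_lit 0) (nat_lit 74623633320) (nat_lit 1216) (nat_lit 18332748847) (nat_lit 1292) (nat_lit 18311317024) (nat_lit 376) (nat_lit 5) (nat_lit 392) (nat_lit 5) (nat_lit 393) (nat_lit 5) (nat_lit 454) (nat_lit 450) (nat_lit 116)) (XT.lf (nat_lit 76) (nat_lit 39171805901) (nat_lit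 0) (nat_lit 39198211301) (nat_lit 1292) (nat_lit 34588422906) (nat_lit 377) (nat_lit 5) (nat_lit 376) (nat_lit 5) (nat_lit 393) (nat_lit 5) (nat_lit 455) (nat_lit 450) (nat_lit 115))) (XT.nd (nat_lit 78) (nat_lit 0) (nat_lit 0) (XT.lf (nat_lit 0) (nat_lit 82571005532) (nat_lit 1216) (nat_lit 16074477858) (nat_lit 1292) (nat_lit 16044153474) (nat_lit 377) (nat_lit 5) (nat_lit 393) (nat_lit 5) (nat_lit 394) (nat_lit 5) (nat_lit 456) (nat_lit 450) (nat_lit 114)) (XT.lf (nat_lit 76) (nat_lit 43836214247) (nat_lit 0) (nat_lit 43871090160) (nat_lit 1292) (nat_lit 28741186690) (nat_lit 378) (nat_lit 5) (nat_lit 377) (nat_lit 5) (nat_lit 394) (nat_lit 5) (nat_lit 457) (nat_lit 450) (nat_lit 113))))) (XT.nd (nat_lit 52728) (nat_lit 0) (nat_lit 76) (XT.nd (nat_lit 52572) (nat_lit 304) (nat_lit 0) (XT.nd (nat_lit 78) (nat_lit 0) (nat_lit 0) (XT.lf (nat_lit 0) (nat_lit 93282029597) (nat_lit 1216) (nat_lit 12503850800)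 (nat_lit 1292) (nat_lit 12465700438) (nat_lit 378) (nat_lit 5) (nat_lit 394) (nat_lit 5) (nat_lit 395) (nat_lit 5) (nat_lit 458) (nat_lit 450) (nat_lit 112)) (XT.lf (nat_lit 76) (nat_lit 49947994513) (nat_lit 0) (nat_lit 49990310168) (nat_lit 1292) (nat_lit 20143029341) (nat_lit 379) (nat_lit 5) (nat_lit 378) (nat_lit 5) (nat_lit 395) (nat_lit 5) (nat_lit 459) (nat_lit 450) (nat_lit 111))) (XT.nd (nat_lit 78) (nat_lit 0) (nat_lit 0) (XT.lf (nat_lit 0) (nat_lit 34072660330) (nat_lit 1292) (nat_lit 9954606712) (nat_lit 1292) (nat_lit 9954606712) (nat_lit 374) (nat_lit 3) (nat_lit 391) (nat_lit 3) (nat_lit 391) (nat_lit 5) (nat_lit 451) (nat_lit 451) (nat_lit 118)) (XT.lf (nat_lit 76) (nat_lit 34750773079) (nat_lit 0) (nat_lit 34756370885) (nat_lit 1292) (nat_lit 40065870452) (nat_lit 375) (nat_lit 5) (nat_lit 374) (nat_lit 3) (nat_lit 391) (nat_lit 5) (nat_lit 452) (nat_lit 451) (nat_lit 117)))) (XT.nd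 (nat_lit 156) (nat_lit 0) (nat_lit 76) (XT.nd (nat_lit 78) (nat_lit 0) (nat_lit 0) (XT.lf (nat_lit 0) (nat_lit 71306243047) (nat_lit 1216) (nat_lit 19961567442) (nat_lit 1292) (nat_lit 19950856211) (nat_lit 375) (nat_lit 5) (nat_lit 391) (nat_lit 5) (nat_lit 392) (nat_lit 5) (nat_lit 453) (nat_lit 451) (nat_lit 116)) (XT.lf (nat_lit 76) (nat_lit 36921150026) (nat_lit 0) (nat_lit 36936984043) (nat_lit 1292) (nat_lit 39034589913) (nat_lit 376) (nat_lit 5) (nat_lit 375) (nat_lit 5) (nat_lit 392) (nat_lit 5) (nat_lit 454) (nat_lit 451) (nat_lit 115))) (XT.nd (nat_lit 78) (nat_lit 0) (nat_lit 0) (XT.lf (nat_lit 0) (nat_lit 76872812085) (nat_lit 1216) (nat_lit 18876402769) (nat_lit 1292) (nat_lit 18856201221) (nat_lit 376) (nat_lit 5) (nat_lit 392) (nat_lit 5) (nat_lit 393) (nat_lit 5) (nat_lit 455) (nat_lit 451) (nat_lit 114)) (XT.lf (nat_lit 76) (nat_lit 40353226577) (nat_lit 0) (nat_lit 40378116199) (nat_lit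 1292) (nat_lit 35615543784) (nat_lit 377) (nat_lit 5) (nat_lit 376) (nat_lit 5) (nat_lit 393) (nat_lit 5) (nat_lit 456) (nat_lit 451) (nat_lit 113)))))) (XT.nd (nat_lit 53196) (nat_lit 0) (nat_lit 0) (XT.nd (nat_lit 52884) (nat_lit 0) (nat_lit 76) (XT.nd (nat_lit 52728) (nat_lit 228) (nat_lit 0) (XT.nd (nat_lit 78) (nat_lit 0) (nat_lit 0) (XT.lf (nat_lit 0) (nat_lit 85058025995) (nat_lit 1216) (nat_lit 16550293454) (nat_lit 1292) (nat_lit 16521709813) (nat_lit 377) (nat_lit 5) (nat_lit 393) (nat_lit 5) (nat_lit 394) (nat_lit 5) (nat_lit 457) (nat_lit 451) (nat_lit 112)) (XT.lf (nat_lit 76) (nat_lit 45157656486) (nat_lit 0) (nat_lit 45190530379) (nat_lit 1292) (nat_lit 29593469065) (nat_lit 378) (nat_lit 5) (nat_lit 377) (nat_lit 5) (nat_lit 394) (nat_lit 5) (nat_lit 458) (nat_lit 451) (nat_lit 111))) (XT.nd (nat_lit 78) (nat_lit 0) (nat_lit 0) (XT.lf (nat_lit 0) (nat_lit 35100384136) (nat_lit 1292)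 (nat_lit 10250389755) (nat_lit 1292) (nat_lit 10250389755) (nat_lit 374) (nat_lit 3) (nat_lit 391) (nat_lit 3) (nat_lit 391) (nat_lit 5) (nat_lit 452) (nat_lit 452) (nat_lit 116)) (XT.lf (nat_lit 76) (nat_lit 35798950604) (nat_lit 0) (nat_lit 35804227073) (nat_lit 1292) (nat_lit 41256702590) (nat_lit 375) (nat_lit 5) (nat_lit 374) (nat_lit 3) (nat_lit 391) (nat_lit 5) (nat_lit 453) (nat_lit 452) (nat_lit 115)))) (XT.nd (nat_lit 156) (nat_lit 0) (nat_lit 76) (XT.nd (nat_lit 78) (nat_lit 0) (nat_lit 0) (XT.lf (nat_lit 0) (nat_lit 73455886400) (nat_lit 1216) (nat_lit 20554561491) (nat_lit 1292) (nat_lit 20544465128) (nat_lit 375) (nat_lit 5) (nat_lit 391) (nat_lit 5) (nat_lit 392) (nat_lit 5) (nat_lit 454) (nat_lit 452) (nat_lit 114)) (XT.lf (nat_lit 76) (nat_lit 38034580119) (nat_lit 0) (nat_lit 38049505199) (nat_lit 1292) (nat_lit 40195114166) (nat_lit 376) (nat_lit 5) (nat_lit 375) (nat_lit 5) (nat_lit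 392) (nat_lit 5) (nat_lit 455) (nat_lit 452) (nat_lit 113))) (XT.nd (nat_lit 78) (nat_lit 0) (nat_lit 0) (XT.lf (nat_lit 0) (nat_lit 79188865205) (nat_lit 1216) (nat_lit 19436729593) (nat_lit 1292) (nat_lit 19417687696) (nat_lit 376) (nat_lit 5) (nat_lit 392) (nat_lit 5) (nat_lit 393) (nat_lit 5) (nat_lit 456) (nat_lit 452) (nat_lit 112)) (XT.lf (nat_lit 76) (nat_lit 41569730150) (nat_lit 0) (nat_lit 41593191006) (nat_lit 1292) (nat_lit 36674082857) (nat_lit 377) (nat_lit 5) (nat_lit 376) (nat_lit 5) (nat_lit 393) (nat_lit 5) (nat_lit 457) (nat_lit 452) (nat_lit 111))))) (XT.nd (nat_lit 52962) (nat_lit 0) (nat_lit 0) (XT.nd (nat_lit 52806) (nat_lit 0) (nat_lit 0) (XT.nd (nat_lit 52728) (nat_lit 228) (nat_lit 0) (XT.lf (nat_lit 0) (nat_lit 87619089328) (nat_lit 1216) (nat_lit 17040751979) (nat_lit 1292) (nat_lit 17013809156) (nat_lit 377) (nat_lit 5) (nat_lit 393) (nat_lit 5) (nat_lit 394) (nat_lit 5)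 (nat_lit 458) (nat_lit 452) (nat_lit 110)) (XT.lf (nat_lit 0) (nat_lit 36158621408) (nat_lit 1292) (nat_lit 10555210188) (nat_lit 1292) (nat_lit 10555210188) (nat_lit 374) (nat_lit 3) (nat_lit 391) (nat_lit 3) (nat_lit 391) (nat_lit 5) (nat_lit 453) (nat_lit 453) (nat_lit 114))) (XT.nd (nat_lit 78) (nat_lit 0) (nat_lit 76) (XT.lf (nat_lit 76) (nat_lit 36878248873) (nat_lit 0) (nat_lit 36883222451) (nat_lit 1292) (nat_lit 42483899402) (nat_lit 375) (nat_lit 5) (nat_lit 374) (nat_lit 3) (nat_lit 391) (nat_lit 5) (nat_lit 454) (nat_lit 453) (nat_lit 113)) (XT.lf (nat_lit 0) (nat_lit 75669418834) (nat_lit 1216) (nat_lit 21165681345) (nat_lit 1292) (nat_lit 21156164555) (nat_lit 375) (nat_lit 5) (nat_lit 391) (nat_lit 5) (nat_lit 392) (nat_lit 5) (nat_lit 455) (nat_lit 453) (nat_lit 112)))) (XT.nd (nat_lit 53040) (nat_lit 76) (nat_lit 0) (XT.nd (nat_lit 78) (nat_lit 0) (nat_lit 76) (XT.lf (nat_lit 76) (nat_lit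 39181080425) (nat_lit 0) (nat_lit 39195148744) (nat_lit 1292) (nat_lit 41391057661) (nat_lit 376) (nat_lit 5) (nat_lit 375) (nat_lit 5) (nat_lit 392) (nat_lit 5) (nat_lit 456) (nat_lit 453) (nat_lit 111)) (XT.lf (nat_lit 0) (nat_lit 81573833411) (nat_lit 1216) (nat_lit 20014208652) (nat_lit 1292) (nat_lit 19996259838) (nat_lit 376) (nat_lit 5) (nat_lit 392) (nat_lit 5) (nat_lit 393) (nat_lit 5) (nat_lit 457) (nat_lit 453) (nat_lit 110))) (XT.nd (nat_lit 78) (nat_lit 0) (nat_lit 76) (XT.lf (nat_lit 76) (nat_lit 37989620140) (nat_lit 0) (nat_lit 37994308214) (nat_lit 1292) (nat_lit 43748515106) (nat_lit 375) (nat_lit 5) (nat_lit 374) (nat_lit 3) (nat_lit 391) (nat_lit 5) (nat_lit 455) (nat_lit 454) (nat_lit 111)) (XT.lf (nat_lit 0) (nat_lit 77948791475) (nat_lit 1216) (nat_lit 21795451493) (nat_lit 1292) (nat_lit 21786481006) (nat_lit 375) (nat_lit 5) (nat_lit 391) (nat_lit 5) (nat_lit 392) (nat_lit 5)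 (nat_lit 456) (nat_lit 454) (nat_lit 110))))))))
noncomputable def ec0 : XT := (XT.nd (nat_lit 159354) (nat_lit 0) (nat_lit 0) (XT.nd (nat_lit 106158) (nat_lit 0) (nat_lit 0) (XT.nd (nat_lit 53118) (nat_lit 0) (nat_lit 0) (XT.nd (nat_lit 52962) (nat_lit 0) (nat_lit 0) (XT.nd (nat_lit 52884) (nat_lit 0) (nat_lit 0) (XT.lf (nat_lit 1292) (nat_lit 374204359) (nat_lit 76) (nat_lit 326205061) (nat_lit 0) (nat_lit 326205061) (nat_lit 391) (nat_lit 1) (nat_lit 375) (nat_lit 1) (nat_lit 374) (nat_lit 0) (nat_lit 433) (nat_lit 294) (nat_lit 293)) (XT.lf (nat_lit 1292) (nat_lit 98625578) (nat_lit 0) (nat_lit 339317859) (nat_lit 1292) (nat_lit 98625578) (nat_lit 391) (nat_lit 1) (nat_lit 374) (nat_lit 0) (nat_lit 391) (nat_lit 0) (nat_lit 430) (nat_lit 295) (nat_lit 295))) (XT.nd (nat_lit 78) (nat_lit 0) (nat_lit 76) (XT.lf (nat_lit 1292) (nat_lit 385430490) (nat_lit 76) (nat_lit 335991213) (nat_lit 0) (nat_lit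 335991213) (nat_lit 391) (nat_lit 1) (nat_lit 375) (nat_lit 1) (nat_lit 374) (nat_lit 0) (nat_lit 431) (nat_lit 295) (nat_lit 294)) (XT.lf (nat_lit 1292) (nat_lit 186403375) (nat_lit 0) (nat_lit 669227914) (nat_lit 1216) (nat_lit 186403375) (nat_lit 392) (nat_lit 1) (nat_lit 375) (nat_lit 1) (nat_lit 391) (nat_lit 1) (nat_lit 432) (nat_lit 295) (nat_lit 293)))) (XT.nd (nat_lit 52806) (nat_lit 0) (nat_lit 0) (XT.nd (nat_lit 52728) (nat_lit 76) (nat_lit 0) (XT.lf (nat_lit 1292) (nat_lit 353989633) (nat_lit 76) (nat_lit 336461794) (nat_lit 0) (nat_lit 336461794) (nat_lit 392) (nat_lit 1) (nat_lit 376) (nat_lit 1) (nat_lit 375) (nat_lit 1) (nat_lit 433) (nat_lit 295) (nat_lit 292)) (XT.lf (nat_lit 1292) (nat_lit 101584346) (nat_lit 0) (nat_lit 349497395) (nat_lit 1292) (nat_lit 101584346) (nat_lit 391) (nat_lit 1) (nat_lit 374) (nat_lit 0) (nat_lit 391) (nat_lit 0) (nat_lit 428) (nat_lit 296) (nat_lit 296)))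 (XT.nd (nat_lit 78) (nat_lit 0) (nat_lit 76) (XT.lf (nat_lit 1292) (nat_lit 396993405) (nat_lit 76) (nat_lit 346070950) (nat_lit 0) (nat_lit 346070950) (nat_lit 391) (nat_lit 1) (nat_lit 375) (nat_lit 1) (nat_lit 374) (nat_lit 0) (nat_lit 429) (nat_lit 296) (nat_lit 295)) (XT.nd (nat_lit 78) (nat_lit 0) (nat_lit 0) (XT.lf (nat_lit 1292) (nat_lit 191995476) (nat_lit 0) (nat_lit 689304752) (nat_lit 1216) (nat_lit 191995476) (nat_lit 392) (nat_lit 1) (nat_lit 375) (nat_lit 1) (nat_lit 391) (nat_lit 1) (nat_lit 430) (nat_lit 296) (nat_lit 294)) (XT.lf (nat_lit 1292) (nat_lit 364609322) (nat_lit 76) (nat_lit 346555648) (nat_lit 0) (nat_lit 346555648) (nat_lit 392) (nat_lit 1) (nat_lit 376) (nat_lit 1) (nat_lit 375) (nat_lit 1) (nat_lit 431) (nat_lit 296) (nat_lit 293)))))) (XT.nd (nat_lit 52806) (nat_lit 0) (nat_lit 76) (XT.nd (nat_lit 52650) (nat_lit 152) (nat_lit 0) (XT.nd (nat_lit 78) (nat_lit 0) (nat_lit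 0) (XT.lf (nat_lit 1292) (nat_lit 171091106) (nat_lit 0) (nat_lit 700311820) (nat_lit 1216) (nat_lit 171091106) (nat_lit 393) (nat_lit 1) (nat_lit 376) (nat_lit 1) (nat_lit 392) (nat_lit 1) (nat_lit 432) (nat_lit 296) (nat_lit 292)) (XT.lf (nat_lit 1292) (nat_lit 313542516) (nat_lit 76) (nat_lit 356984223) (nat_lit 0) (nat_lit 356984223) (nat_lit 393) (nat_lit 1) (nat_lit 377) (nat_lit 1) (nat_lit 376) (nat_lit 1) (nat_lit 433) (nat_lit 296) (nat_lit 291))) (XT.nd (nat_lit 78) (nat_lit 0) (nat_lit 0) (XT.lf (nat_lit 1292) (nat_lit 104631876) (nat_lit 0) (nat_lit 359982316) (nat_lit 1292) (nat_lit 104631876) (nat_lit 391) (nat_lit 1) (nat_lit 374) (nat_lit 0) (nat_lit 391) (nat_lit 0) (nat_lit 426) (nat_lit 297) (nat_lit 297)) (XT.lf (nat_lit 1292) (nat_lit 408903207) (nat_lit 76) (nat_lit 356453078) (nat_lit 0) (nat_lit 356453078) (nat_lit 391) (nat_lit 1) (nat_lit 375) (nat_lit 1) (nat_lit 374) (nat_lit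 0) (nat_lit 427) (nat_lit 297) (nat_lit 296)))) (XT.nd (nat_lit 156) (nat_lit 0) (nat_lit 76) (XT.nd (nat_lit 78) (nat_lit 0) (nat_lit 0) (XT.lf (nat_lit 1292) (nat_lit 197755340) (nat_lit 0) (nat_lit 709983894) (nat_lit 1216) (nat_lit 197755340) (nat_lit 392) (nat_lit 1) (nat_lit 375) (nat_lit 1) (nat_lit 391) (nat_lit 1) (nat_lit 428) (nat_lit 297) (nat_lit 295)) (XT.lf (nat_lit 1292) (nat_lit 375547602) (nat_lit 76) (nat_lit 356952318) (nat_lit 0) (nat_lit 356952318) (nat_lit 392) (nat_lit 1) (nat_lit 376) (nat_lit 1) (nat_lit 375) (nat_lit 1) (nat_lit 429) (nat_lit 297) (nat_lit 294))) (XT.nd (nat_lit 78) (nat_lit 0) (nat_lit 0) (XT.lf (nat_lit 1292) (nat_lit 176223839) (nat_lit 0) (nat_lit 721321175) (nat_lit 1216) (nat_lit 176223839) (nat_lit 393) (nat_lit 1) (nat_lit 376) (nat_lit 1) (nat_lit 392) (nat_lit 1) (nat_lit 430) (nat_lit 297) (nat_lit 293)) (XT.nd (nat_lit 78) (nat_lit 0) (nat_lit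 76) (XT.lf (nat_lit 1292) (nat_lit 322948792) (nat_lit 76) (nat_lit 367693750) (nat_lit 0) (nat_lit 367693750) (nat_lit 393) (nat_lit 1) (nat_lit 377) (nat_lit 1) (nat_lit 376) (nat_lit 1) (nat_lit 431) (nat_lit 297) (nat_lit 292)) (XT.lf (nat_lit 1292) (nat_lit 145555792) (nat_lit 0) (nat_lit 752148508) (nat_lit 1216) (nat_lit 145555792) (nat_lit 394) (nat_lit 1) (nat_lit 377) (nat_lit 1) (nat_lit 393) (nat_lit 1) (nat_lit 432) (nat_lit 297) (nat_lit 291))))))) (XT.nd (nat_lit 53040) (nat_lit 0) (nat_lit 0) (XT.nd (nat_lit 52650) (nat_lit 0) (nat_lit 76) (XT.nd (nat_lit 52494) (nat_lit 0) (nat_lit 0) (XT.nd (nat_lit 52416) (nat_lit 228) (nat_lit 0) (XT.lf (nat_lit 1292) (nat_lit 252827668) (nat_lit 76) (nat_lit 387790279) (nat_lit 0) (nat_lit 387790279) (nat_lit 394) (nat_lit 1) (nat_lit 378) (nat_lit 1) (nat_lit 377) (nat_lit 1) (nat_lit 433) (nat_lit 297) (nat_lit 290)) (XT.lf (nat_lit 1292) (nat_lit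 107770833) (nat_lit 0) (nat_lit 370781786) (nat_lit 1292) (nat_lit 107770833) (nat_lit 391) (nat_lit 1) (nat_lit 374) (nat_lit 0) (nat_lit 391) (nat_lit 0) (nat_lit 424) (nat_lit 298) (nat_lit 298))) (XT.nd (nat_lit 78) (nat_lit 0) (nat_lit 76) (XT.lf (nat_lit 1292) (nat_lit 421170303) (nat_lit 76) (nat_lit 367146670) (nat_lit 0) (nat_lit 367146670) (nat_lit 391) (nat_lit 1) (nat_lit 375) (nat_lit 1) (nat_lit 374) (nat_lit 0) (nat_lit 425) (nat_lit 298) (nat_lit 297)) (XT.lf (nat_lit 1292) (nat_lit 203688000) (nat_lit 0) (nat_lit 731283411) (nat_lit 1216) (nat_lit 203688000) (nat_lit 392) (nat_lit 1) (nat_lit 375) (nat_lit 1) (nat_lit 391) (nat_lit 1) (nat_lit 426) (nat_lit 298) (nat_lit 296)))) (XT.nd (nat_lit 156) (nat_lit 0) (nat_lit 76) (XT.nd (nat_lit 78) (nat_lit 0) (nat_lit 76) (XT.lf (nat_lit 1292) (nat_lit 386814030) (nat_lit 76) (nat_lit 367660887) (nat_lit 0) (nat_lit 367660887) (nat_lit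 392) (nat_lit 1) (nat_lit 376) (nat_lit 1) (nat_lit 375) (nat_lit 1) (nat_lit 427) (nat_lit 298) (nat_lit 295)) (XT.lf (nat_lit 1292) (nat_lit 181510554) (nat_lit 0) (nat_lit 742960810) (nat_lit 1216) (nat_lit 181510554) (nat_lit 393) (nat_lit 1) (nat_lit 376) (nat_lit 1) (nat_lit 392) (nat_lit 1) (nat_lit 428) (nat_lit 298) (nat_lit 294))) (XT.nd (nat_lit 78) (nat_lit 0) (nat_lit 76) (XT.lf (nat_lit 1292) (nat_lit 332637256) (nat_lit 76) (nat_lit 378724562) (nat_lit 0) (nat_lit 378724562) (nat_lit 393) (nat_lit 1) (nat_lit 377) (nat_lit 1) (nat_lit 376) (nat_lit 1) (nat_lit 429) (nat_lit 298) (nat_lit 293)) (XT.nd (nat_lit 78) (nat_lit 0) (nat_lit 0) (XT.lf (nat_lit 1292) (nat_lit 149922465) (nat_lit 0) (nat_lit 774712963) (nat_lit 1216) (nat_lit 149922465) (nat_lit 394) (nat_lit 1) (nat_lit 377) (nat_lit 1) (nat_lit 393) (nat_lit 1) (nat_lit 430) (nat_lit 298) (nat_lit 292)) (XT.lf (nat_lit 1292)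 (nat_lit 260412498) (nat_lit 76) (nat_lit 399423988) (nat_lit 0) (nat_lit 399423988) (nat_lit 394) (nat_lit 1) (nat_lit 378) (nat_lit 1) (nat_lit 377) (nat_lit 1) (nat_lit 431) (nat_lit 298) (nat_lit 291)))))) (XT.nd (nat_lit 52572) (nat_lit 0) (nat_lit 76) (XT.nd (nat_lit 52338) (nat_lit 304) (nat_lit 0) (XT.nd (nat_lit 78) (nat_lit 0) (nat_lit 0) (XT.lf (nat_lit 1292) (nat_lit 109775120) (nat_lit 0) (nat_lit 824783271) (nat_lit 1216) (nat_lit 109775120) (nat_lit 395) (nat_lit 1) (nat_lit 378) (nat_lit 1) (nat_lit 394) (nat_lit 1) (nat_lit 432) (nat_lit 298) (nat_lit 290)) (XT.lf (nat_lit 1292) (nat_lit 171792035) (nat_lit 76) (nat_lit 428906881) (nat_lit 0) (nat_lit 428906881) (nat_lit 395) (nat_lit 1) (nat_lit 379) (nat_lit 1) (nat_lit 378) (nat_lit 1) (nat_lit 433) (nat_lit 298) (nat_lit 289))) (XT.nd (nat_lit 78) (nat_lit 0) (nat_lit 0) (XT.lf (nat_lit 1292) (nat_lit 111003958) (nat_lit 0) (nat_lit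 381905240) (nat_lit 1292) (nat_lit 111003958) (nat_lit 391) (nat_lit 1) (nat_lit 374) (nat_lit 0) (nat_lit 391) (nat_lit 0) (nat_lit 422) (nat_lit 299) (nat_lit 299)) (XT.nd (nat_lit 78) (nat_lit 0) (nat_lit 76) (XT.lf (nat_lit 1292) (nat_lit 433805413) (nat_lit 76) (nat_lit 378161071) (nat_lit 0) (nat_lit 378161071) (nat_lit 391) (nat_lit 1) (nat_lit 375) (nat_lit 1) (nat_lit 374) (nat_lit 0) (nat_lit 423) (nat_lit 299) (nat_lit 298)) (XT.lf (nat_lit 1292) (nat_lit 209798640) (nat_lit 0) (nat_lit 753221913) (nat_lit 1216) (nat_lit 209798640) (nat_lit 392) (nat_lit 1) (nat_lit 375) (nat_lit 1) (nat_lit 391) (nat_lit 1) (nat_lit 424) (nat_lit 299) (nat_lit 297))))) (XT.nd (nat_lit 156) (nat_lit 0) (nat_lit 76) (XT.nd (nat_lit 78) (nat_lit 0) (nat_lit 76) (XT.lf (nat_lit 1292) (nat_lit 398418451) (nat_lit 76) (nat_lit 378690714) (nat_lit 0) (nat_lit 378690714) (nat_lit 392) (nat_lit 1) (nat_lit 376) (nat_lit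 1) (nat_lit 375) (nat_lit 1) (nat_lit 425) (nat_lit 299) (nat_lit 296)) (XT.lf (nat_lit 1292) (nat_lit 186955871) (nat_lit 0) (nat_lit 765249634) (nat_lit 1216) (nat_lit 186955871) (nat_lit 393) (nat_lit 1) (nat_lit 376) (nat_lit 1) (nat_lit 392) (nat_lit 1) (nat_lit 426) (nat_lit 299) (nat_lit 295))) (XT.nd (nat_lit 78) (nat_lit 0) (nat_lit 76) (XT.lf (nat_lit 1292) (nat_lit 342616373) (nat_lit 76) (nat_lit 390086299) (nat_lit 0) (nat_lit 390086299) (nat_lit 393) (nat_lit 1) (nat_lit 377) (nat_lit 1) (nat_lit 376) (nat_lit 1) (nat_lit 427) (nat_lit 299) (nat_lit 294)) (XT.nd (nat_lit 78) (nat_lit 0) (nat_lit 0) (XT.lf (nat_lit 1292) (nat_lit 154420139) (nat_lit 0) (nat_lit 797954352) (nat_lit 1216) (nat_lit 154420139) (nat_lit 394) (nat_lit 1) (nat_lit 377) (nat_lit 1) (nat_lit 393) (nat_lit 1) (nat_lit 428) (nat_lit 299) (nat_lit 293)) (XT.lf (nat_lit 1292) (nat_lit 268224873) (nat_lit 76) (nat_lit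 411406707) (nat_lit 0) (nat_lit 411406707) (nat_lit 394) (nat_lit 1) (nat_lit 378) (nat_lit 1) (nat_lit 377) (nat_lit 1) (nat_lit 429) (nat_lit 299) (nat_lit 292))))))))
noncomputable def ec1 : XT := (XT.nd (nat_lit 105378) (nat_lit 0) (nat_lit 0) (XT.nd (nat_lit 52728) (nat_lit 836) (nat_lit 0) (XT.nd (nat_lit 52338) (nat_lit 304) (nat_lit 0) (XT.nd (nat_lit 156) (nat_lit 0) (nat_lit 76) (XT.nd (nat_lit 78) (nat_lit 0) (nat_lit 0) (XT.lf (nat_lit 1292) (nat_lit 113068373) (nat_lit 0) (nat_lit 849526770) (nat_lit 1216) (nat_lit 113068373) (nat_lit 395) (nat_lit 1) (nat_lit 378) (nat_lit 1) (nat_lit 394) (nat_lit 1) (nat_lit 430) (nat_lit 299) (nat_lit 291)) (XT.lf (nat_lit 1292) (nat_lit 176945796) (nat_lit 76) (nat_lit 441774088) (nat_lit 0) (nat_lit 441774088) (nat_lit 395) (nat_lit 1) (nat_lit 379) (nat_lit 1) (nat_lit 378) (nat_lit 1) (nat_lit 431) (nat_lit 299) (nat_lit 290))) (XT.nd (nat_lit 78)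 (nat_lit 0) (nat_lit 0) (XT.lf (nat_lit 1292) (nat_lit 63717826) (nat_lit 0) (nat_lit 918279578) (nat_lit 1216) (nat_lit 63717826) (nat_lit 396) (nat_lit 1) (nat_lit 379) (nat_lit 1) (nat_lit 395) (nat_lit 1) (nat_lit 432) (nat_lit 299) (nat_lit 289)) (XT.lf (nat_lit 1292) (nat_lit 70364811) (nat_lit 76) (nat_lit 480369956) (nat_lit 0) (nat_lit 480369956) (nat_lit 396) (nat_lit 1) (nat_lit 380) (nat_lit 1) (nat_lit 379) (nat_lit 1) (nat_lit 433) (nat_lit 299) (nat_lit 288)))) (XT.nd (nat_lit 156) (nat_lit 0) (nat_lit 76) (XT.nd (nat_lit 78) (nat_lit 0) (nat_lit 0) (XT.lf (nat_lit 1292) (nat_lit 114334076) (nat_lit 0) (nat_lit 393362397) (nat_lit 1292) (nat_lit 114334076) (nat_lit 391) (nat_lit 1) (nat_lit 374) (nat_lit 0) (nat_lit 391) (nat_lit 0) (nat_lit 420) (nat_lit 300) (nat_lit 300)) (XT.lf (nat_lit 1292) (nat_lit 446819575) (nat_lit 76) (nat_lit 389505903) (nat_lit 0) (nat_lit 389505903) (nat_lit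 391) (nat_lit 1) (nat_lit 375) (nat_lit 1) (nat_lit 374) (nat_lit 0) (nat_lit 421) (nat_lit 300) (nat_lit 299))) (XT.nd (nat_lit 78) (nat_lit 0) (nat_lit 0) (XT.lf (nat_lit 1292) (nat_lit 216092600) (nat_lit 0) (nat_lit 775818571) (nat_lit 1216) (nat_lit 216092600) (nat_lit 392) (nat_lit 1) (nat_lit 375) (nat_lit 1) (nat_lit 391) (nat_lit 1) (nat_lit 422) (nat_lit 300) (nat_lit 298)) (XT.nd (nat_lit 78) (nat_lit 0) (nat_lit 76) (XT.lf (nat_lit 1292) (nat_lit 410371004) (nat_lit 76) (nat_lit 390051435) (nat_lit 0) (nat_lit 390051435) (nat_lit 392) (nat_lit 1) (nat_lit 376) (nat_lit 1) (nat_lit 375) (nat_lit 1) (nat_lit 423) (nat_lit 300) (nat_lit 297)) (XT.lf (nat_lit 1292) (nat_lit 192564547) (nat_lit 0) (nat_lit 788207123) (nat_lit 1216) (nat_lit 192564547) (nat_lit 393) (nat_lit 1) (nat_lit 376) (nat_lit 1) (nat_lit 392) (nat_lit 1) (nat_lit 424) (nat_lit 300) (nat_lit 296)))))) (XT.nd (nat_lit 390)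 (nat_lit 988) (nat_lit 0) (XT.nd (nat_lit 156) (nat_lit 0) (nat_lit 76) (XT.nd (nat_lit 78) (nat_lit 0) (nat_lit 76) (XT.lf (nat_lit 1292) (nat_lit 352894864) (nat_lit 76) (nat_lit 401788888) (nat_lit 0) (nat_lit 401788888) (nat_lit 393) (nat_lit 1) (nat_lit 377) (nat_lit 1) (nat_lit 376) (nat_lit 1) (nat_lit 425) (nat_lit 300) (nat_lit 295)) (XT.lf (nat_lit 1292) (nat_lit 159052743) (nat_lit 0) (nat_lit 821892983) (nat_lit 1216) (nat_lit 159052743) (nat_lit 394) (nat_lit 1) (nat_lit 377) (nat_lit 1) (nat_lit 393) (nat_lit 1) (nat_lit 426) (nat_lit 300) (nat_lit 294))) (XT.nd (nat_lit 78) (nat_lit 0) (nat_lit 76) (XT.lf (nat_lit 1292) (nat_lit 276271619) (nat_lit 76) (nat_lit 423748909) (nat_lit 0) (nat_lit 423748909) (nat_lit 394) (nat_lit 1) (nat_lit 378) (nat_lit 1) (nat_lit 377) (nat_lit 1) (nat_lit 427) (nat_lit 300) (nat_lit 293)) (XT.nd (nat_lit 78) (nat_lit 0) (nat_lit 0) (XT.lf (nat_lit 1292)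 (nat_lit 116460425) (nat_lit 0) (nat_lit 875012573) (nat_lit 1216) (nat_lit 116460425) (nat_lit 395) (nat_lit 1) (nat_lit 378) (nat_lit 1) (nat_lit 394) (nat_lit 1) (nat_lit 428) (nat_lit 300) (nat_lit 292)) (XT.lf (nat_lit 1292) (nat_lit 182254170) (nat_lit 76) (nat_lit 455027310) (nat_lit 0) (nat_lit 455027310) (nat_lit 395) (nat_lit 1) (nat_lit 379) (nat_lit 1) (nat_lit 378) (nat_lit 1) (nat_lit 429) (nat_lit 300) (nat_lit 291))))) (XT.nd (nat_lit 156) (nat_lit 1216) (nat_lit 0) (XT.nd (nat_lit 78) (nat_lit 0) (nat_lit 0) (XT.lf (nat_lit 1292) (nat_lit 65629361) (nat_lit 0) (nat_lit 945827965) (nat_lit 1216) (nat_lit 65629361) (nat_lit 396) (nat_lit 1) (nat_lit 379) (nat_lit 1) (nat_lit 395) (nat_lit 1) (nat_lit 430) (nat_lit 300) (nat_lit 290)) (XT.lf (nat_lit 1292) (nat_lit 72475755) (nat_lit 76) (nat_lit 494781054) (nat_lit 0) (nat_lit 494781054) (nat_lit 396) (nat_lit 1) (nat_lit 380) (nat_lit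 1) (nat_lit 379) (nat_lit 1) (nat_lit 431) (nat_lit 300) (nat_lit 289))) (XT.nd (nat_lit 78) (nat_lit 1292) (nat_lit 0) (XT.lf (nat_lit 1292) (nat_lit 7343666) (nat_lit 0) (nat_lit 1032719124) (nat_lit 1216) (nat_lit 7343666) (nat_lit 397) (nat_lit 1) (nat_lit 380) (nat_lit 1) (nat_lit 396) (nat_lit 1) (nat_lit 432) (nat_lit 300) (nat_lit 288)) (XT.nd (nat_lit 51948) (nat_lit 0) (nat_lit 836) (XT.lf (nat_lit 1368) (nat_lit 491177299) (nat_lit 0) (nat_lit 50536848) (nat_lit 1292) (nat_lit 491177299) (nat_lit 381) (nat_lit 1) (nat_lit 363) (nat_lit 1) (nat_lit 380) (nat_lit 1) (nat_lit 433) (nat_lit 300) (nat_lit 287)) (XT.lf (nat_lit 1292) (nat_lit 117764099) (nat_lit 0) (nat_lit 405163269) (nat_lit 1292) (nat_lit 117764099) (nat_lit 391) (nat_lit 1) (nat_lit 374) (nat_lit 0) (nat_lit 391) (nat_lit 0) (nat_lit 418) (nat_lit 301) (nat_lit 301))))))) (XT.nd (nat_lit 702) (nat_lit 836) (nat_lit 0) (XT.nd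 (nat_lit 312) (nat_lit 0) (nat_lit 152) (XT.nd (nat_lit 156) (nat_lit 0) (nat_lit 76) (XT.nd (nat_lit 78) (nat_lit 0) (nat_lit 76) (XT.lf (nat_lit 1292) (nat_lit 460224162) (nat_lit 76) (nat_lit 401191080) (nat_lit 0) (nat_lit 401191080) (nat_lit 391) (nat_lit 1) (nat_lit 375) (nat_lit 1) (nat_lit 374) (nat_lit 0) (nat_lit 419) (nat_lit 301) (nat_lit 300)) (XT.lf (nat_lit 1292) (nat_lit 222575378) (nat_lit 0) (nat_lit 799093128) (nat_lit 1216) (nat_lit 222575378) (nat_lit 392) (nat_lit 1) (nat_lit 375) (nat_lit 1) (nat_lit 391) (nat_lit 1) (nat_lit 420) (nat_lit 301) (nat_lit 299))) (XT.nd (nat_lit 78) (nat_lit 0) (nat_lit 76) (XT.lf (nat_lit 1292) (nat_lit 422682134) (nat_lit 76) (nat_lit 401752978) (nat_lit 0) (nat_lit 401752978) (nat_lit 392) (nat_lit 1) (nat_lit 376) (nat_lit 1) (nat_lit 375) (nat_lit 1) (nat_lit 421) (nat_lit 301) (nat_lit 298)) (XT.lf (nat_lit 1292) (nat_lit 198341483) (nat_lit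 0) (nat_lit 811853337) (nat_lit 1216) (nat_lit 198341483) (nat_lit 393) (nat_lit 1) (nat_lit 376) (nat_lit 1) (nat_lit 392) (nat_lit 1) (nat_lit 422) (nat_lit 301) (nat_lit 297)))) (XT.nd (nat_lit 156) (nat_lit 0) (nat_lit 76) (XT.nd (nat_lit 78) (nat_lit 0) (nat_lit 76) (XT.lf (nat_lit 1292) (nat_lit 363481710) (nat_lit 76) (nat_lit 413842555) (nat_lit 0) (nat_lit 413842555) (nat_lit 393) (nat_lit 1) (nat_lit 377) (nat_lit 1) (nat_lit 376) (nat_lit 1) (nat_lit 423) (nat_lit 301) (nat_lit 296)) (XT.lf (nat_lit 1292) (nat_lit 163824326) (nat_lit 0) (nat_lit 846549772) (nat_lit 1216) (nat_lit 163824326) (nat_lit 394) (nat_lit 1) (nat_lit 377) (nat_lit 1) (nat_lit 393) (nat_lit 1) (nat_lit 424) (nat_lit 301) (nat_lit 295))) (XT.nd (nat_lit 78) (nat_lit 0) (nat_lit 76) (XT.lf (nat_lit 1292) (nat_lit 284559767) (nat_lit 76) (nat_lit 436461376) (nat_lit 0) (nat_lit 436461376) (nat_lit 394) (nat_lit 1) (nat_lit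 378) (nat_lit 1) (nat_lit 377) (nat_lit 1) (nat_lit 425) (nat_lit 301) (nat_lit 294)) (XT.nd (nat_lit 78) (nat_lit 0) (nat_lit 0) (XT.lf (nat_lit 1292) (nat_lit 119954237) (nat_lit 0) (nat_lit 901262950) (nat_lit 1216) (nat_lit 119954237) (nat_lit 395) (nat_lit 1) (nat_lit 378) (nat_lit 1) (nat_lit 394) (nat_lit 1) (nat_lit 426) (nat_lit 301) (nat_lit 293)) (XT.lf (nat_lit 1292) (nat_lit 187721795) (nat_lit 76) (nat_lit 468678130) (nat_lit 0) (nat_lit 468678130) (nat_lit 395) (nat_lit 1) (nat_lit 379) (nat_lit 1) (nat_lit 378) (nat_lit 1) (nat_lit 427) (nat_lit 301) (nat_lit 292)))))) (XT.nd (nat_lit 390) (nat_lit 0) (nat_lit 76) (XT.nd (nat_lit 156) (nat_lit 1216) (nat_lit 0) (XT.nd (nat_lit 78) (nat_lit 0) (nat_lit 0) (XT.lf (nat_lit 1292) (nat_lit 67598242) (nat_lit 0) (nat_lit 974202804) (nat_lit 1216) (nat_lit 67598242) (nat_lit 396) (nat_lit 1) (nat_lit 379) (nat_lit 1) (nat_lit 395) (nat_lit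 1) (nat_lit 428) (nat_lit 301) (nat_lit 291)) (XT.lf (nat_lit 1292) (nat_lit 74650028) (nat_lit 76) (nat_lit 509624486) (nat_lit 0) (nat_lit 509624486) (nat_lit 396) (nat_lit 1) (nat_lit 380) (nat_lit 1) (nat_lit 379) (nat_lit 1) (nat_lit 429) (nat_lit 301) (nat_lit 290))) (XT.nd (nat_lit 78) (nat_lit 1292) (nat_lit 0) (XT.lf (nat_lit 1292) (nat_lit 7563976) (nat_lit 0) (nat_lit 1063700697) (nat_lit 1216) (nat_lit 7563976) (nat_lit 397) (nat_lit 1) (nat_lit 380) (nat_lit 1) (nat_lit 396) (nat_lit 1) (nat_lit 430) (nat_lit 301) (nat_lit 289)) (XT.nd (nat_lit 78) (nat_lit 0) (nat_lit 0) (XT.lf (nat_lit 1368) (nat_lit 505912618) (nat_lit 0) (nat_lit 52052953) (nat_lit 1292) (nat_lit 505912618) (nat_lit 381) (nat_lit 1) (nat_lit 363) (nat_lit 1) (nat_lit 380) (nat_lit 1) (nat_lit 431) (nat_lit 301) (nat_lit 288)) (XT.lf (nat_lit 1368) (nat_lit 931711204) (nat_lit 76) (nat_lit 58814300) (nat_lit 0) (nat_lit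 58814300) (nat_lit 381) (nat_lit 1) (nat_lit 364) (nat_lit 1) (nat_lit 363) (nat_lit 1) (nat_lit 432) (nat_lit 301) (nat_lit 287))))) (XT.nd (nat_lit 51870) (nat_lit 0) (nat_lit 760) (XT.nd (nat_lit 51792) (nat_lit 0) (nat_lit 760) (XT.lf (nat_lit 1368) (nat_lit 422352863) (nat_lit 0) (nat_lit 190250454) (nat_lit 1292) (nat_lit 422352863) (nat_lit 382) (nat_lit 1) (nat_lit 364) (nat_lit 1) (nat_lit 381) (nat_lit 1) (nat_lit 433) (nat_lit 301) (nat_lit 286)) (XT.lf (nat_lit 1292) (nat_lit 121297022) (nat_lit 0) (nat_lit 417318167) (nat_lit 1292) (nat_lit 121297022) (nat_lit 391) (nat_lit 1) (nat_lit 374) (nat_lit 0) (nat_lit 391) (nat_lit 0) (nat_lit 416) (nat_lit 302) (nat_lit 302))) (XT.nd (nat_lit 78) (nat_lit 0) (nat_lit 76) (XT.lf (nat_lit 1292) (nat_lit 474030887) (nat_lit 76) (nat_lit 413226812) (nat_lit 0) (nat_lit 413226812) (nat_lit 391) (nat_lit 1) (nat_lit 375) (nat_lit 1) (nat_lit 374) (nat_lit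 0) (nat_lit 417) (nat_lit 302) (nat_lit 301)) (XT.nd (nat_lit 78) (nat_lit 0) (nat_lit 0) (XT.lf (nat_lit 1292) (nat_lit 229252639) (nat_lit 0) (nat_lit 823065922) (nat_lit 1216) (nat_lit 229252639) (nat_lit 392) (nat_lit 1) (nat_lit 375) (nat_lit 1) (nat_lit 391) (nat_lit 1) (nat_lit 418) (nat_lit 302) (nat_lit 300)) (XT.lf (nat_lit 1292) (nat_lit 435362598) (nat_lit 76) (nat_lit 413805568) (nat_lit 0) (nat_lit 413805568) (nat_lit 392) (nat_lit 1) (nat_lit 376) (nat_lit 1) (nat_lit 375) (nat_lit 1) (nat_lit 419) (nat_lit 302) (nat_lit 299))))))))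
noncomputable def ec2 : XT := (XT.nd (nat_lit 52962) (nat_lit 608) (nat_lit 0) (XT.nd (nat_lit 702) (nat_lit 1672) (nat_lit 0) (XT.nd (nat_lit 312) (nat_lit 0) (nat_lit 152) (XT.nd (nat_lit 156) (nat_lit 0) (nat_lit 76) (XT.nd (nat_lit 78) (nat_lit 0) (nat_lit 0) (XT.lf (nat_lit 1292) (nat_lit 204291728) (nat_lit 0) (nat_lit 836208937) (nat_lit 1216) (nat_lit 204291728) (nat_lit 393) (nat_lit 1) (nat_lit 376) (nat_lit 1) (nat_lit 392) (nat_lit 1) (nat_lit 420) (nat_lit 302) (nat_lit 298)) (XT.lf (nat_lit 1292) (nat_lit 374386162) (nat_lit 76) (nat_lit 426257832) (nat_lit 0) (nat_lit 426257832) (nat_lit 393) (nat_lit 1) (nat_lit 377) (nat_lit 1) (nat_lit 376) (nat_lit 1) (nat_lit 421) (nat_lit 302) (nat_lit 297))) (XT.nd (nat_lit 78) (nat_lit 0) (nat_lit 0) (XT.lf (nat_lit 1292) (nat_lit 168739056) (nat_lit 0) (nat_lit 871946265) (nat_lit 1216) (nat_lit 168739056) (nat_lit 394) (nat_lit 1) (nat_lit 377)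 (nat_lit 1) (nat_lit 393) (nat_lit 1) (nat_lit 422) (nat_lit 302) (nat_lit 296)) (XT.lf (nat_lit 1292) (nat_lit 293096560) (nat_lit 76) (nat_lit 449555217) (nat_lit 0) (nat_lit 449555217) (nat_lit 394) (nat_lit 1) (nat_lit 378) (nat_lit 1) (nat_lit 377) (nat_lit 1) (nat_lit 423) (nat_lit 302) (nat_lit 295)))) (XT.nd (nat_lit 156) (nat_lit 0) (nat_lit 76) (XT.nd (nat_lit 78) (nat_lit 0) (nat_lit 0) (XT.lf (nat_lit 1292) (nat_lit 123552865) (nat_lit 0) (nat_lit 928300838) (nat_lit 1216) (nat_lit 123552865) (nat_lit 395) (nat_lit 1) (nat_lit 378) (nat_lit 1) (nat_lit 394) (nat_lit 1) (nat_lit 424) (nat_lit 302) (nat_lit 294)) (XT.lf (nat_lit 1292) (nat_lit 193353449) (nat_lit 76) (nat_lit 482738473) (nat_lit 0) (nat_lit 482738473) (nat_lit 395) (nat_lit 1) (nat_lit 379) (nat_lit 1) (nat_lit 378) (nat_lit 1) (nat_lit 425) (nat_lit 302) (nat_lit 293))) (XT.nd (nat_lit 78) (nat_lit 0) (nat_lit 0) (XT.lf (nat_lit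 1292) (nat_lit 69626189) (nat_lit 0) (nat_lit 1003428889) (nat_lit 1216) (nat_lit 69626189) (nat_lit 396) (nat_lit 1) (nat_lit 379) (nat_lit 1) (nat_lit 395) (nat_lit 1) (nat_lit 426) (nat_lit 302) (nat_lit 292)) (XT.nd (nat_lit 78) (nat_lit 0) (nat_lit 76) (XT.lf (nat_lit 1292) (nat_lit 76889528) (nat_lit 76) (nat_lit 524913220) (nat_lit 0) (nat_lit 524913220) (nat_lit 396) (nat_lit 1) (nat_lit 380) (nat_lit 1) (nat_lit 379) (nat_lit 1) (nat_lit 427) (nat_lit 302) (nat_lit 291)) (XT.lf (nat_lit 1292) (nat_lit 7790895) (nat_lit 0) (nat_lit 1095611718) (nat_lit 1216) (nat_lit 7790895) (nat_lit 397) (nat_lit 1) (nat_lit 380) (nat_lit 1) (nat_lit 396) (nat_lit 1) (nat_lit 428) (nat_lit 302) (nat_lit 290)))))) (XT.nd (nat_lit 390) (nat_lit 684) (nat_lit 0) (XT.nd (nat_lit 156) (nat_lit 0) (nat_lit 76) (XT.nd (nat_lit 78) (nat_lit 0) (nat_lit 0) (XT.lf (nat_lit 1368) (nat_lit 521089996) (nat_lit 0) (nat_lit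 53614542) (nat_lit 1292) (nat_lit 521089996) (nat_lit 381) (nat_lit 1) (nat_lit 363) (nat_lit 1) (nat_lit 380) (nat_lit 1) (nat_lit 429) (nat_lit 302) (nat_lit 289)) (XT.lf (nat_lit 1368) (nat_lit 959662540) (nat_lit 76) (nat_lit 60578729) (nat_lit 0) (nat_lit 60578729) (nat_lit 381) (nat_lit 1) (nat_lit 364) (nat_lit 1) (nat_lit 363) (nat_lit 1) (nat_lit 430) (nat_lit 302) (nat_lit 288))) (XT.nd (nat_lit 78) (nat_lit 0) (nat_lit 0) (XT.lf (nat_lit 1368) (nat_lit 435023449) (nat_lit 0) (nat_lit 195957967) (nat_lit 1292) (nat_lit 435023449) (nat_lit 382) (nat_lit 1) (nat_lit 364) (nat_lit 1) (nat_lit 381) (nat_lit 1) (nat_lit 431) (nat_lit 302) (nat_lit 287)) (XT.nd (nat_lit 78) (nat_lit 0) (nat_lit 76) (XT.lf (nat_lit 1368) (nat_lit 781120263) (nat_lit 76) (nat_lit 135222511) (nat_lit 0) (nat_lit 135222511) (nat_lit 382) (nat_lit 1) (nat_lit 365) (nat_lit 1) (nat_lit 364) (nat_lit 1) (nat_lit 432) (nat_lit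 302) (nat_lit 286)) (XT.lf (nat_lit 76) (nat_lit 343524930) (nat_lit 0) (nat_lit 350271156) (nat_lit 1292) (nat_lit 343524930) (nat_lit 366) (nat_lit 1) (nat_lit 365) (nat_lit 1) (nat_lit 382) (nat_lit 1) (nat_lit 433) (nat_lit 302) (nat_lit 285))))) (XT.nd (nat_lit 51636) (nat_lit 0) (nat_lit 1520) (XT.nd (nat_lit 51558) (nat_lit 0) (nat_lit 1520) (XT.lf (nat_lit 912) (nat_lit 592285343) (nat_lit 0) (nat_lit 215553134) (nat_lit 836) (nat_lit 215553134) (nat_lit 366) (nat_lit 1) (nat_lit 354) (nat_lit 1) (nat_lit 365) (nat_lit 1) (nat_lit 434) (nat_lit 302) (nat_lit 284)) (XT.lf (nat_lit 1292) (nat_lit 124935932) (nat_lit 0) (nat_lit 429837712) (nat_lit 1292) (nat_lit 124935932) (nat_lit 391) (nat_lit 1) (nat_lit 374) (nat_lit 0) (nat_lit 391) (nat_lit 0) (nat_lit 414) (nat_lit 303) (nat_lit 303))) (XT.nd (nat_lit 78) (nat_lit 0) (nat_lit 76) (XT.lf (nat_lit 1292) (nat_lit 488251814) (nat_lit 76) (nat_lit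 425623617) (nat_lit 0) (nat_lit 425623617) (nat_lit 391) (nat_lit 1) (nat_lit 375) (nat_lit 1) (nat_lit 374) (nat_lit 0) (nat_lit 415) (nat_lit 303) (nat_lit 302)) (XT.nd (nat_lit 78) (nat_lit 0) (nat_lit 0) (XT.lf (nat_lit 1292) (nat_lit 236130218) (nat_lit 0) (nat_lit 847757900) (nat_lit 1216) (nat_lit 236130218) (nat_lit 392) (nat_lit 1) (nat_lit 375) (nat_lit 1) (nat_lit 391) (nat_lit 1) (nat_lit 416) (nat_lit 303) (nat_lit 301)) (XT.lf (nat_lit 1292) (nat_lit 448423476) (nat_lit 76) (nat_lit 426219735) (nat_lit 0) (nat_lit 426219735) (nat_lit 392) (nat_lit 1) (nat_lit 376) (nat_lit 1) (nat_lit 375) (nat_lit 1) (nat_lit 417) (nat_lit 303) (nat_lit 300))))))) (XT.nd (nat_lit 702) (nat_lit 2280) (nat_lit 0) (XT.nd (nat_lit 312) (nat_lit 0) (nat_lit 152) (XT.nd (nat_lit 156) (nat_lit 0) (nat_lit 76) (XT.nd (nat_lit 78) (nat_lit 0) (nat_lit 0) (XT.lf (nat_lit 1292) (nat_lit 210420480) (nat_lit 0) (nat_lit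 861295205) (nat_lit 1216) (nat_lit 210420480) (nat_lit 393) (nat_lit 1) (nat_lit 376) (nat_lit 1) (nat_lit 392) (nat_lit 1) (nat_lit 418) (nat_lit 303) (nat_lit 299)) (XT.lf (nat_lit 1292) (nat_lit 385617747) (nat_lit 76) (nat_lit 439045566) (nat_lit 0) (nat_lit 439045566) (nat_lit 393) (nat_lit 1) (nat_lit 377) (nat_lit 1) (nat_lit 376) (nat_lit 1) (nat_lit 419) (nat_lit 303) (nat_lit 298))) (XT.nd (nat_lit 78) (nat_lit 0) (nat_lit 0) (XT.lf (nat_lit 1292) (nat_lit 173801227) (nat_lit 0) (nat_lit 898104653) (nat_lit 1216) (nat_lit 173801227) (nat_lit 394) (nat_lit 1) (nat_lit 377) (nat_lit 1) (nat_lit 393) (nat_lit 1) (nat_lit 420) (nat_lit 303) (nat_lit 297)) (XT.lf (nat_lit 1292) (nat_lit 301889457) (nat_lit 76) (nat_lit 463041874) (nat_lit 0) (nat_lit 463041874) (nat_lit 394) (nat_lit 1) (nat_lit 378) (nat_lit 1) (nat_lit 377) (nat_lit 1) (nat_lit 421) (nat_lit 303) (nat_lit 296)))) (XT.nd (nat_lit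 156) (nat_lit 0) (nat_lit 76) (XT.nd (nat_lit 78) (nat_lit 0) (nat_lit 0) (XT.lf (nat_lit 1292) (nat_lit 127259450) (nat_lit 0) (nat_lit 956149864) (nat_lit 1216) (nat_lit 127259450) (nat_lit 395) (nat_lit 1) (nat_lit 378) (nat_lit 1) (nat_lit 394) (nat_lit 1) (nat_lit 422) (nat_lit 303) (nat_lit 295)) (XT.lf (nat_lit 1292) (nat_lit 199154052) (nat_lit 76) (nat_lit 497220628) (nat_lit 0) (nat_lit 497220628) (nat_lit 395) (nat_lit 1) (nat_lit 379) (nat_lit 1) (nat_lit 378) (nat_lit 1) (nat_lit 423) (nat_lit 303) (nat_lit 294))) (XT.nd (nat_lit 78) (nat_lit 0) (nat_lit 0) (XT.lf (nat_lit 1292) (nat_lit 71714974) (nat_lit 0) (nat_lit 1033531755) (nat_lit 1216) (nat_lit 71714974) (nat_lit 396) (nat_lit 1) (nat_lit 379) (nat_lit 1) (nat_lit 395) (nat_lit 1) (nat_lit 424) (nat_lit 303) (nat_lit 293)) (XT.nd (nat_lit 78) (nat_lit 0) (nat_lit 76) (XT.lf (nat_lit 1292) (nat_lit 79196214) (nat_lit 76) (nat_lit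 540660617) (nat_lit 0) (nat_lit 540660617) (nat_lit 396) (nat_lit 1) (nat_lit 380) (nat_lit 1) (nat_lit 379) (nat_lit 1) (nat_lit 425) (nat_lit 303) (nat_lit 292)) (XT.lf (nat_lit 1292) (nat_lit 8024622) (nat_lit 0) (nat_lit 1128480070) (nat_lit 1216) (nat_lit 8024622) (nat_lit 397) (nat_lit 1) (nat_lit 380) (nat_lit 1) (nat_lit 396) (nat_lit 1) (nat_lit 426) (nat_lit 303) (nat_lit 291)))))) (XT.nd (nat_lit 390) (nat_lit 1292) (nat_lit 0) (XT.nd (nat_lit 156) (nat_lit 0) (nat_lit 76) (XT.nd (nat_lit 78) (nat_lit 0) (nat_lit 0) (XT.lf (nat_lit 1368) (nat_lit 536722696) (nat_lit 0) (nat_lit 55222978) (nat_lit 1292) (nat_lit 536722696) (nat_lit 381) (nat_lit 1) (nat_lit 363) (nat_lit 1) (nat_lit 380) (nat_lit 1) (nat_lit 427) (nat_lit 303) (nat_lit 290)) (XT.lf (nat_lit 1368) (nat_lit 988452416) (nat_lit 76) (nat_lit 62396090) (nat_lit 0) (nat_lit 62396090) (nat_lit 381) (nat_lit 1) (nat_lit 364) (nat_lit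 1) (nat_lit 363) (nat_lit 1) (nat_lit 428) (nat_lit 303) (nat_lit 289))) (XT.nd (nat_lit 78) (nat_lit 0) (nat_lit 0) (XT.lf (nat_lit 1368) (nat_lit 448074152) (nat_lit 0) (nat_lit 201836706) (nat_lit 1292) (nat_lit 448074152) (nat_lit 382) (nat_lit 1) (nat_lit 364) (nat_lit 1) (nat_lit 381) (nat_lit 1) (nat_lit 429) (nat_lit 303) (nat_lit 288)) (XT.nd (nat_lit 78) (nat_lit 0) (nat_lit 76) (XT.lf (nat_lit 1368) (nat_lit 804553871) (nat_lit 76) (nat_lit 139279186) (nat_lit 0) (nat_lit 139279186) (nat_lit 382) (nat_lit 1) (nat_lit 365) (nat_lit 1) (nat_lit 364) (nat_lit 1) (nat_lit 430) (nat_lit 303) (nat_lit 287)) (XT.lf (nat_lit 76) (nat_lit 353830678) (nat_lit 0) (nat_lit 360779291) (nat_lit 1292) (nat_lit 353830678) (nat_lit 366) (nat_lit 1) (nat_lit 365) (nat_lit 1) (nat_lit 382) (nat_lit 1) (nat_lit 431) (nat_lit 303) (nat_lit 286))))) (XT.nd (nat_lit 156) (nat_lit 608) (nat_lit 0) (XT.nd (nat_lit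 78) (nat_lit 0) (nat_lit 0) (XT.lf (nat_lit 912) (nat_lit 610053903) (nat_lit 0) (nat_lit 222019728) (nat_lit 836) (nat_lit 222019728) (nat_lit 366) (nat_lit 1) (nat_lit 354) (nat_lit 1) (nat_lit 365) (nat_lit 1) (nat_lit 432) (nat_lit 303) (nat_lit 285)) (XT.lf (nat_lit 76) (nat_lit 254624623) (nat_lit 0) (nat_lit 530738780) (nat_lit 912) (nat_lit 254624623) (nat_lit 355) (nat_lit 1) (nat_lit 354) (nat_lit 1) (nat_lit 366) (nat_lit 1) (nat_lit 433) (nat_lit 303) (nat_lit 284))) (XT.nd (nat_lit 51402) (nat_lit 0) (nat_lit 2128) (XT.lf (nat_lit 684) (nat_lit 406177327) (nat_lit 0) (nat_lit 309982324) (nat_lit 608) (nat_lit 309982324) (nat_lit 355) (nat_lit 1) (nat_lit 346) (nat_lit 1) (nat_lit 354) (nat_lit 1) (nat_lit 434) (nat_lit 303) (nat_lit 283)) (XT.nd (nat_lit 78) (nat_lit 0) (nat_lit 0) (XT.lf (nat_lit 1292) (nat_lit 128684010) (nat_lit 0) (nat_lit 442732843) (nat_lit 1292) (nat_lit 128684010)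 (nat_lit 391) (nat_lit 1) (nat_lit 374) (nat_lit 0) (nat_lit 391) (nat_lit 0) (nat_lit 412) (nat_lit 304) (nat_lit 304)) (XT.lf (nat_lit 1292) (nat_lit 502899368) (nat_lit 76) (nat_lit 438392325) (nat_lit 0) (nat_lit 438392325) (nat_lit 391) (nat_lit 1) (nat_lit 375) (nat_lit 1) (nat_lit 374) (nat_lit 0) (nat_lit 413) (nat_lit 304) (nat_lit 303))))))))
noncomputable def ec3 : XT := (XT.nd (nat_lit 1482) (nat_lit 608) (nat_lit 0) (XT.nd (nat_lit 702) (nat_lit 2204) (nat_lit 0) (XT.nd (nat_lit 312) (nat_lit 0) (nat_lit 152) (XT.nd (nat_lit 156) (nat_lit 0) (nat_lit 76) (XT.nd (nat_lit 78) (nat_lit 0) (nat_lit 0) (XT.lf (nat_lit 1292) (nat_lit 243214125) (nat_lit 0) (nat_lit 873190637) (nat_lit 1216) (nat_lit 243214125) (nat_lit 392) (nat_lit 1) (nat_lit 375) (nat_lit 1) (nat_lit 391) (nat_lit 1) (nat_lit 414) (nat_lit 304) (nat_lit 302)) (XT.lf (nat_lit 1292) (nat_lit 461876180) (nat_lit 76) (nat_lit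 439006327) (nat_lit 0) (nat_lit 439006327) (nat_lit 392) (nat_lit 1) (nat_lit 376) (nat_lit 1) (nat_lit 375) (nat_lit 1) (nat_lit 415) (nat_lit 304) (nat_lit 301))) (XT.nd (nat_lit 78) (nat_lit 0) (nat_lit 0) (XT.lf (nat_lit 1292) (nat_lit 216733094) (nat_lit 0) (nat_lit 887134062) (nat_lit 1216) (nat_lit 216733094) (nat_lit 393) (nat_lit 1) (nat_lit 376) (nat_lit 1) (nat_lit 392) (nat_lit 1) (nat_lit 416) (nat_lit 304) (nat_lit 300)) (XT.lf (nat_lit 1292) (nat_lit 397186279) (nat_lit 76) (nat_lit 452216933) (nat_lit 0) (nat_lit 452216933) (nat_lit 393) (nat_lit 1) (nat_lit 377) (nat_lit 1) (nat_lit 376) (nat_lit 1) (nat_lit 417) (nat_lit 304) (nat_lit 299)))) (XT.nd (nat_lit 156) (nat_lit 0) (nat_lit 76) (XT.nd (nat_lit 78) (nat_lit 0) (nat_lit 0) (XT.lf (nat_lit 1292) (nat_lit 179015264) (nat_lit 0) (nat_lit 925047793) (nat_lit 1216) (nat_lit 179015264) (nat_lit 394) (nat_lit 1) (nat_lit 377) (nat_lit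 1) (nat_lit 393) (nat_lit 1) (nat_lit 418) (nat_lit 304) (nat_lit 298)) (XT.lf (nat_lit 1292) (nat_lit 310946141) (nat_lit 76) (nat_lit 476933130) (nat_lit 0) (nat_lit 476933130) (nat_lit 394) (nat_lit 1) (nat_lit 378) (nat_lit 1) (nat_lit 377) (nat_lit 1) (nat_lit 419) (nat_lit 304) (nat_lit 297))) (XT.nd (nat_lit 78) (nat_lit 0) (nat_lit 0) (XT.lf (nat_lit 1292) (nat_lit 131077234) (nat_lit 0) (nat_lit 984834359) (nat_lit 1216) (nat_lit 131077234) (nat_lit 395) (nat_lit 1) (nat_lit 378) (nat_lit 1) (nat_lit 394) (nat_lit 1) (nat_lit 420) (nat_lit 304) (nat_lit 296)) (XT.nd (nat_lit 78) (nat_lit 0) (nat_lit 76) (XT.lf (nat_lit 1292) (nat_lit 205128674) (nat_lit 76) (nat_lit 512137246) (nat_lit 0) (nat_lit 512137246) (nat_lit 395) (nat_lit 1) (nat_lit 379) (nat_lit 1) (nat_lit 378) (nat_lit 1) (nat_lit 421) (nat_lit 304) (nat_lit 295)) (XT.lf (nat_lit 1292) (nat_lit 73866424) (nat_lit 0) (nat_lit 1064537708)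 (nat_lit 1216) (nat_lit 73866424) (nat_lit 396) (nat_lit 1) (nat_lit 379) (nat_lit 1) (nat_lit 395) (nat_lit 1) (nat_lit 422) (nat_lit 304) (nat_lit 294)))))) (XT.nd (nat_lit 390) (nat_lit 1292) (nat_lit 0) (XT.nd (nat_lit 156) (nat_lit 1216) (nat_lit 0) (XT.nd (nat_lit 78) (nat_lit 0) (nat_lit 76) (XT.lf (nat_lit 1292) (nat_lit 81572101) (nat_lit 76) (nat_lit 556880436) (nat_lit 0) (nat_lit 556880436) (nat_lit 396) (nat_lit 1) (nat_lit 380) (nat_lit 1) (nat_lit 379) (nat_lit 1) (nat_lit 423) (nat_lit 304) (nat_lit 293)) (XT.lf (nat_lit 1292) (nat_lit 8265360) (nat_lit 0) (nat_lit 1162334472) (nat_lit 1216) (nat_lit 8265360) (nat_lit 397) (nat_lit 1) (nat_lit 380) (nat_lit 1) (nat_lit 396) (nat_lit 1) (nat_lit 424) (nat_lit 304) (nat_lit 292))) (XT.nd (nat_lit 78) (nat_lit 0) (nat_lit 0) (XT.lf (nat_lit 1368) (nat_lit 552824377) (nat_lit 0) (nat_lit 56879668) (nat_lit 1292) (nat_lit 552824377) (nat_lit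 381) (nat_lit 1) (nat_lit 363) (nat_lit 1) (nat_lit 380) (nat_lit 1) (nat_lit 425) (nat_lit 304) (nat_lit 291)) (XT.nd (nat_lit 78) (nat_lit 0) (nat_lit 76) (XT.lf (nat_lit 1368) (nat_lit 1018105988) (nat_lit 76) (nat_lit 64267973) (nat_lit 0) (nat_lit 64267973) (nat_lit 381) (nat_lit 1) (nat_lit 364) (nat_lit 1) (nat_lit 363) (nat_lit 1) (nat_lit 426) (nat_lit 304) (nat_lit 290)) (XT.lf (nat_lit 1368) (nat_lit 461516377) (nat_lit 0) (nat_lit 207891807) (nat_lit 1292) (nat_lit 461516377) (nat_lit 382) (nat_lit 1) (nat_lit 364) (nat_lit 1) (nat_lit 381) (nat_lit 1) (nat_lit 427) (nat_lit 304) (nat_lit 289))))) (XT.nd (nat_lit 156) (nat_lit 1368) (nat_lit 0) (XT.nd (nat_lit 78) (nat_lit 0) (nat_lit 76) (XT.lf (nat_lit 1368) (nat_lit 828690487) (nat_lit 76) (nat_lit 143457562) (nat_lit 0) (nat_lit 143457562) (nat_lit 382) (nat_lit 1) (nat_lit 365) (nat_lit 1) (nat_lit 364) (nat_lit 1) (nat_lit 428) (nat_lit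 304) (nat_lit 288)) (XT.lf (nat_lit 76) (nat_lit 364445599) (nat_lit 0) (nat_lit 371602670) (nat_lit 1292) (nat_lit 364445599) (nat_lit 366) (nat_lit 1) (nat_lit 365) (nat_lit 1) (nat_lit 382) (nat_lit 1) (nat_lit 429) (nat_lit 304) (nat_lit 287))) (XT.nd (nat_lit 78) (nat_lit 608) (nat_lit 0) (XT.lf (nat_lit 912) (nat_lit 628355520) (nat_lit 0) (nat_lit 228680320) (nat_lit 836) (nat_lit 228680320) (nat_lit 366) (nat_lit 1) (nat_lit 354) (nat_lit 1) (nat_lit 365) (nat_lit 1) (nat_lit 430) (nat_lit 304) (nat_lit 286)) (XT.nd (nat_lit 78) (nat_lit 608) (nat_lit 0) (XT.lf (nat_lit 76) (nat_lit 262263362) (nat_lit 0) (nat_lit 546660943) (nat_lit 912) (nat_lit 262263362) (nat_lit 355) (nat_lit 1) (nat_lit 354) (nat_lit 1) (nat_lit 366) (nat_lit 1) (nat_lit 431) (nat_lit 304) (nat_lit 285)) (XT.lf (nat_lit 684) (nat_lit 418362647) (nat_lit 0) (nat_lit 319281794) (nat_lit 608) (nat_lit 319281794) (nat_lit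 355) (nat_lit 1) (nat_lit 346) (nat_lit 1) (nat_lit 354) (nat_lit 1) (nat_lit 432) (nat_lit 304) (nat_lit 284))))))) (XT.nd (nat_lit 51792) (nat_lit 0) (nat_lit 1900) (XT.nd (nat_lit 51402) (nat_lit 0) (nat_lit 2736) (XT.nd (nat_lit 156) (nat_lit 0) (nat_lit 0) (XT.nd (nat_lit 78) (nat_lit 608) (nat_lit 0) (XT.lf (nat_lit 76) (nat_lit 155574261) (nat_lit 0) (nat_lit 731811014) (nat_lit 684) (nat_lit 155574261) (nat_lit 347) (nat_lit 1) (nat_lit 346) (nat_lit 1) (nat_lit 355) (nat_lit 1) (nat_lit 433) (nat_lit 304) (nat_lit 283)) (XT.lf (nat_lit 684) (nat_lit 199882523) (nat_lit 0) (nat_lit 414654072) (nat_lit 608) (nat_lit 414654072) (nat_lit 347) (nat_lit 1) (nat_lit 338) (nat_lit 1) (nat_lit 346) (nat_lit 1) (nat_lit 434) (nat_lit 304) (nat_lit 282))) (XT.nd (nat_lit 51168) (nat_lit 0) (nat_lit 2736) (XT.lf (nat_lit 76) (nat_lit 44939122) (nat_lit 0) (nat_lit 925886946) (nat_lit 684) (nat_lit 44939122)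 (nat_lit 339) (nat_lit 1) (nat_lit 338) (nat_lit 1) (nat_lit 347) (nat_lit 1) (nat_lit 435) (nat_lit 304) (nat_lit 281)) (XT.lf (nat_lit 1292) (nat_lit 132544530) (nat_lit 0) (nat_lit 456014828) (nat_lit 1292) (nat_lit 132544530) (nat_lit 391) (nat_lit 1) (nat_lit 374) (nat_lit 0) (nat_lit 391) (nat_lit 0) (nat_lit 410) (nat_lit 305) (nat_lit 305)))) (XT.nd (nat_lit 156) (nat_lit 0) (nat_lit 76) (XT.nd (nat_lit 78) (nat_lit 0) (nat_lit 76) (XT.lf (nat_lit 1292) (nat_lit 517986349) (nat_lit 76) (nat_lit 451544095) (nat_lit 0) (nat_lit 451544095) (nat_lit 391) (nat_lit 1) (nat_lit 375) (nat_lit 1) (nat_lit 374) (nat_lit 0) (nat_lit 411) (nat_lit 305) (nat_lit 304)) (XT.lf (nat_lit 1292) (nat_lit 250510548) (nat_lit 0) (nat_lit 899386356) (nat_lit 1216) (nat_lit 250510548) (nat_lit 392) (nat_lit 1) (nat_lit 375) (nat_lit 1) (nat_lit 391) (nat_lit 1) (nat_lit 412) (nat_lit 305) (nat_lit 303))) (XT.nd (nat_lit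 78) (nat_lit 0) (nat_lit 76) (XT.lf (nat_lit 1292) (nat_lit 475732466) (nat_lit 76) (nat_lit 452176517) (nat_lit 0) (nat_lit 452176517) (nat_lit 392) (nat_lit 1) (nat_lit 376) (nat_lit 1) (nat_lit 375) (nat_lit 1) (nat_lit 413) (nat_lit 305) (nat_lit 302)) (XT.nd (nat_lit 78) (nat_lit 0) (nat_lit 0) (XT.lf (nat_lit 1292) (nat_lit 223235087) (nat_lit 0) (nat_lit 913748084) (nat_lit 1216) (nat_lit 223235087) (nat_lit 393) (nat_lit 1) (nat_lit 376) (nat_lit 1) (nat_lit 392) (nat_lit 1) (nat_lit 414) (nat_lit 305) (nat_lit 301)) (XT.lf (nat_lit 1292) (nat_lit 409101867) (nat_lit 76) (nat_lit 465783441) (nat_lit 0) (nat_lit 465783441) (nat_lit 393) (nat_lit 1) (nat_lit 377) (nat_lit 1) (nat_lit 376) (nat_lit 1) (nat_lit 415) (nat_lit 305) (nat_lit 300)))))) (XT.nd (nat_lit 390) (nat_lit 1064) (nat_lit 0) (XT.nd (nat_lit 156) (nat_lit 0) (nat_lit 76) (XT.nd (nat_lit 78) (nat_lit 0) (nat_lit 0) (XT.lf (nat_lit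 1292) (nat_lit 184385722) (nat_lit 0) (nat_lit 952799227) (nat_lit 1216) (nat_lit 184385722) (nat_lit 394) (nat_lit 1) (nat_lit 377) (nat_lit 1) (nat_lit 393) (nat_lit 1) (nat_lit 416) (nat_lit 305) (nat_lit 299)) (XT.lf (nat_lit 1292) (nat_lit 320274525) (nat_lit 76) (nat_lit 491241124) (nat_lit 0) (nat_lit 491241124) (nat_lit 394) (nat_lit 1) (nat_lit 378) (nat_lit 1) (nat_lit 377) (nat_lit 1) (nat_lit 417) (nat_lit 305) (nat_lit 298))) (XT.nd (nat_lit 78) (nat_lit 0) (nat_lit 0) (XT.lf (nat_lit 1292) (nat_lit 135009551) (nat_lit 0) (nat_lit 1014379390) (nat_lit 1216) (nat_lit 135009551) (nat_lit 395) (nat_lit 1) (nat_lit 378) (nat_lit 1) (nat_lit 394) (nat_lit 1) (nat_lit 418) (nat_lit 305) (nat_lit 297)) (XT.nd (nat_lit 78) (nat_lit 0) (nat_lit 76) (XT.lf (nat_lit 1292) (nat_lit 211282534) (nat_lit 76) (nat_lit 527501364) (nat_lit 0) (nat_lit 527501364) (nat_lit 395) (nat_lit 1) (nat_lit 379) (nat_lit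 1) (nat_lit 378) (nat_lit 1) (nat_lit 419) (nat_lit 305) (nat_lit 296)) (XT.lf (nat_lit 1292) (nat_lit 76082416) (nat_lit 0) (nat_lit 1096473839) (nat_lit 1216) (nat_lit 76082416) (nat_lit 396) (nat_lit 1) (nat_lit 379) (nat_lit 1) (nat_lit 395) (nat_lit 1) (nat_lit 420) (nat_lit 305) (nat_lit 295))))) (XT.nd (nat_lit 156) (nat_lit 1216) (nat_lit 0) (XT.nd (nat_lit 78) (nat_lit 0) (nat_lit 76) (XT.lf (nat_lit 1292) (nat_lit 84019264) (nat_lit 76) (nat_lit 573586849) (nat_lit 0) (nat_lit 573586849) (nat_lit 396) (nat_lit 1) (nat_lit 380) (nat_lit 1) (nat_lit 379) (nat_lit 1) (nat_lit 421) (nat_lit 305) (nat_lit 294)) (XT.lf (nat_lit 1292) (nat_lit 8513321) (nat_lit 0) (nat_lit 1197204506) (nat_lit 1216) (nat_lit 8513321) (nat_lit 397) (nat_lit 1) (nat_lit 380) (nat_lit 1) (nat_lit 396) (nat_lit 1) (nat_lit 422) (nat_lit 305) (nat_lit 293))) (XT.nd (nat_lit 78) (nat_lit 0) (nat_lit 0) (XT.lf (nat_lit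 1368) (nat_lit 569409109) (nat_lit 0) (nat_lit 58586058) (nat_lit 1292) (nat_lit 569409109) (nat_lit 381) (nat_lit 1) (nat_lit 363) (nat_lit 1) (nat_lit 380) (nat_lit 1) (nat_lit 423) (nat_lit 305) (nat_lit 292)) (XT.nd (nat_lit 78) (nat_lit 0) (nat_lit 76) (XT.lf (nat_lit 1368) (nat_lit 1048649168) (nat_lit 76) (nat_lit 66196012) (nat_lit 0) (nat_lit 66196012) (nat_lit 381) (nat_lit 1) (nat_lit 364) (nat_lit 1) (nat_lit 363) (nat_lit 1) (nat_lit 424) (nat_lit 305) (nat_lit 291)) (XT.lf (nat_lit 1368) (nat_lit 475361868) (nat_lit 0) (nat_lit 214128562) (nat_lit 1292) (nat_lit 475361868) (nat_lit 382) (nat_lit 1) (nat_lit 364) (nat_lit 1) (nat_lit 381) (nat_lit 1) (nat_lit 425) (nat_lit 305) (nat_lit 290))))))))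
noncomputable def ec4 : XT := (XT.nd (nat_lit 52338) (nat_lit 0) (nat_lit 0) (XT.nd (nat_lit 702) (nat_lit 608) (nat_lit 0) (XT.nd (nat_lit 312) (nat_lit 1824) (nat_lit 0) (XT.nd (nat_lit 156) (nat_lit 760) (nat_lit 0) (XT.nd (nat_lit 78) (nat_lit 0) (nat_lit 76) (XT.lf (nat_lit 1368) (nat_lit 853551202) (nat_lit 76) (nat_lit 147761288) (nat_lit 0) (nat_lit 147761288) (nat_lit 382) (nat_lit 1) (nat_lit 365) (nat_lit 1) (nat_lit 364) (nat_lit 1) (nat_lit 426) (nat_lit 305) (nat_lit 289)) (XT.lf (nat_lit 76) (nat_lit 375378967) (nat_lit 0) (nat_lit 382750750) (nat_lit 1292) (nat_lit 375378967) (nat_lit 366) (nat_lit 1) (nat_lit 365) (nat_lit 1) (nat_lit 382) (nat_lit 1) (nat_lit 427) (nat_lit 305) (nat_lit 288))) (XT.nd (nat_lit 78) (nat_lit 0) (nat_lit 0) (XT.lf (nat_lit 912) (nat_lit 647206186) (nat_lit 0) (nat_lit 235540729) (nat_lit 836) (nat_lit 235540729) (nat_lit 366) (nat_lit 1) (nat_lit 354)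 (nat_lit 1) (nat_lit 365) (nat_lit 1) (nat_lit 428) (nat_lit 305) (nat_lit 287)) (XT.lf (nat_lit 76) (nat_lit 270131263) (nat_lit 0) (nat_lit 563060771) (nat_lit 912) (nat_lit 270131263) (nat_lit 355) (nat_lit 1) (nat_lit 354) (nat_lit 1) (nat_lit 366) (nat_lit 1) (nat_lit 429) (nat_lit 305) (nat_lit 286)))) (XT.nd (nat_lit 156) (nat_lit 1216) (nat_lit 0) (XT.nd (nat_lit 78) (nat_lit 0) (nat_lit 0) (XT.lf (nat_lit 684) (nat_lit 430913526) (nat_lit 0) (nat_lit 328860248) (nat_lit 608) (nat_lit 328860248) (nat_lit 355) (nat_lit 1) (nat_lit 346) (nat_lit 1) (nat_lit 354) (nat_lit 1) (nat_lit 430) (nat_lit 305) (nat_lit 285)) (XT.lf (nat_lit 76) (nat_lit 160241489) (nat_lit 0) (nat_lit 753765345) (nat_lit 684) (nat_lit 160241489) (nat_lit 347) (nat_lit 1) (nat_lit 346) (nat_lit 1) (nat_lit 355) (nat_lit 1) (nat_lit 431) (nat_lit 305) (nat_lit 284))) (XT.nd (nat_lit 78) (nat_lit 608) (nat_lit 0) (XT.lf (nat_lit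 684) (nat_lit 205878998) (nat_lit 0) (nat_lit 427093694) (nat_lit 608) (nat_lit 427093694) (nat_lit 347) (nat_lit 1) (nat_lit 338) (nat_lit 1) (nat_lit 346) (nat_lit 1) (nat_lit 432) (nat_lit 305) (nat_lit 283)) (XT.nd (nat_lit 78) (nat_lit 608) (nat_lit 0) (XT.lf (nat_lit 76) (nat_lit 46287296) (nat_lit 0) (nat_lit 953663554) (nat_lit 684) (nat_lit 46287296) (nat_lit 339) (nat_lit 1) (nat_lit 338) (nat_lit 1) (nat_lit 347) (nat_lit 1) (nat_lit 433) (nat_lit 305) (nat_lit 282)) (XT.lf (nat_lit 76) (nat_lit 503137930) (nat_lit 0) (nat_lit 26256766) (nat_lit 608) (nat_lit 503137930) (nat_lit 331) (nat_lit 1) (nat_lit 330) (nat_lit 1) (nat_lit 338) (nat_lit 1) (nat_lit 434) (nat_lit 305) (nat_lit 281)))))) (XT.nd (nat_lit 51246) (nat_lit 0) (nat_lit 4028) (XT.nd (nat_lit 51090) (nat_lit 0) (nat_lit 3952) (XT.nd (nat_lit 51012) (nat_lit 0) (nat_lit 3952) (XT.lf (nat_lit 684) (nat_lit 878170920) (nat_lit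 0) (nat_lit 70497890) (nat_lit 608) (nat_lit 70497890) (nat_lit 331) (nat_lit 1) (nat_lit 322) (nat_lit 1) (nat_lit 330) (nat_lit 1) (nat_lit 435) (nat_lit 305) (nat_lit 280)) (XT.lf (nat_lit 1292) (nat_lit 136520866) (nat_lit 0) (nat_lit 469695273) (nat_lit 1292) (nat_lit 136520866) (nat_lit 391) (nat_lit 1) (nat_lit 374) (nat_lit 0) (nat_lit 391) (nat_lit 0) (nat_lit 408) (nat_lit 306) (nat_lit 306))) (XT.nd (nat_lit 78) (nat_lit 0) (nat_lit 76) (XT.lf (nat_lit 1292) (nat_lit 533525940) (nat_lit 76) (nat_lit 465090418) (nat_lit 0) (nat_lit 465090418) (nat_lit 391) (nat_lit 1) (nat_lit 375) (nat_lit 1) (nat_lit 374) (nat_lit 0) (nat_lit 409) (nat_lit 306) (nat_lit 305)) (XT.lf (nat_lit 1292) (nat_lit 258025865) (nat_lit 0) (nat_lit 926367946) (nat_lit 1216) (nat_lit 258025865) (nat_lit 392) (nat_lit 1) (nat_lit 375) (nat_lit 1) (nat_lit 391) (nat_lit 1) (nat_lit 410) (nat_lit 306) (nat_lit 304))))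 (XT.nd (nat_lit 156) (nat_lit 0) (nat_lit 76) (XT.nd (nat_lit 78) (nat_lit 0) (nat_lit 76) (XT.lf (nat_lit 1292) (nat_lit 490004440) (nat_lit 76) (nat_lit 465741812) (nat_lit 0) (nat_lit 465741812) (nat_lit 392) (nat_lit 1) (nat_lit 376) (nat_lit 1) (nat_lit 375) (nat_lit 1) (nat_lit 411) (nat_lit 306) (nat_lit 303)) (XT.lf (nat_lit 1292) (nat_lit 229932139) (nat_lit 0) (nat_lit 941160526) (nat_lit 1216) (nat_lit 229932139) (nat_lit 393) (nat_lit 1) (nat_lit 376) (nat_lit 1) (nat_lit 392) (nat_lit 1) (nat_lit 412) (nat_lit 306) (nat_lit 302))) (XT.nd (nat_lit 78) (nat_lit 0) (nat_lit 76) (XT.lf (nat_lit 1292) (nat_lit 421374923) (nat_lit 76) (nat_lit 479756945) (nat_lit 0) (nat_lit 479756945) (nat_lit 393) (nat_lit 1) (nat_lit 377) (nat_lit 1) (nat_lit 376) (nat_lit 1) (nat_lit 413) (nat_lit 306) (nat_lit 301)) (XT.nd (nat_lit 78) (nat_lit 0) (nat_lit 0) (XT.lf (nat_lit 1292) (nat_lit 189917294) (nat_lit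 0) (nat_lit 981383204) (nat_lit 1216) (nat_lit 189917294) (nat_lit 394) (nat_lit 1) (nat_lit 377) (nat_lit 1) (nat_lit 393) (nat_lit 1) (nat_lit 414) (nat_lit 306) (nat_lit 300)) (XT.lf (nat_lit 1292) (nat_lit 329882761) (nat_lit 76) (nat_lit 505978358) (nat_lit 0) (nat_lit 505978358) (nat_lit 394) (nat_lit 1) (nat_lit 378) (nat_lit 1) (nat_lit 377) (nat_lit 1) (nat_lit 415) (nat_lit 306) (nat_lit 299))))))) (XT.nd (nat_lit 702) (nat_lit 3116) (nat_lit 0) (XT.nd (nat_lit 312) (nat_lit 1140) (nat_lit 0) (XT.nd (nat_lit 156) (nat_lit 0) (nat_lit 76) (XT.nd (nat_lit 78) (nat_lit 0) (nat_lit 0) (XT.lf (nat_lit 1292) (nat_lit 139059838) (nat_lit 0) (nat_lit 1044810772) (nat_lit 1216) (nat_lit 139059838) (nat_lit 395) (nat_lit 1) (nat_lit 378) (nat_lit 1) (nat_lit 394) (nat_lit 1) (nat_lit 416) (nat_lit 306) (nat_lit 298)) (XT.lf (nat_lit 1292) (nat_lit 217621010) (nat_lit 76) (nat_lit 543326405) (nat_lit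 0) (nat_lit 543326405) (nat_lit 395) (nat_lit 1) (nat_lit 379) (nat_lit 1) (nat_lit 378) (nat_lit 1) (nat_lit 417) (nat_lit 306) (nat_lit 297))) (XT.nd (nat_lit 78) (nat_lit 0) (nat_lit 0) (XT.lf (nat_lit 1292) (nat_lit 78364889) (nat_lit 0) (nat_lit 1129368054) (nat_lit 1216) (nat_lit 78364889) (nat_lit 396) (nat_lit 1) (nat_lit 379) (nat_lit 1) (nat_lit 395) (nat_lit 1) (nat_lit 418) (nat_lit 306) (nat_lit 296)) (XT.lf (nat_lit 1292) (nat_lit 86539842) (nat_lit 76) (nat_lit 590794454) (nat_lit 0) (nat_lit 590794454) (nat_lit 396) (nat_lit 1) (nat_lit 380) (nat_lit 1) (nat_lit 379) (nat_lit 1) (nat_lit 419) (nat_lit 306) (nat_lit 295)))) (XT.nd (nat_lit 156) (nat_lit 0) (nat_lit 0) (XT.nd (nat_lit 78) (nat_lit 1292) (nat_lit 0) (XT.lf (nat_lit 1292) (nat_lit 8768721) (nat_lit 0) (nat_lit 1233120641) (nat_lit 1216) (nat_lit 8768721) (nat_lit 397) (nat_lit 1) (nat_lit 380) (nat_lit 1) (nat_lit 396) (nat_lit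 1) (nat_lit 420) (nat_lit 306) (nat_lit 294)) (XT.lf (nat_lit 1368) (nat_lit 586491382) (nat_lit 0) (nat_lit 60343639) (nat_lit 1292) (nat_lit 586491382) (nat_lit 381) (nat_lit 1) (nat_lit 363) (nat_lit 1) (nat_lit 380) (nat_lit 1) (nat_lit 421) (nat_lit 306) (nat_lit 293))) (XT.nd (nat_lit 78) (nat_lit 0) (nat_lit 76) (XT.lf (nat_lit 1368) (nat_lit 1080108643) (nat_lit 76) (nat_lit 68181893) (nat_lit 0) (nat_lit 68181893) (nat_lit 381) (nat_lit 1) (nat_lit 364) (nat_lit 1) (nat_lit 363) (nat_lit 1) (nat_lit 422) (nat_lit 306) (nat_lit 292)) (XT.nd (nat_lit 78) (nat_lit 0) (nat_lit 0) (XT.lf (nat_lit 1368) (nat_lit 489622724) (nat_lit 0) (nat_lit 220552418) (nat_lit 1292) (nat_lit 489622724) (nat_lit 382) (nat_lit 1) (nat_lit 364) (nat_lit 1) (nat_lit 381) (nat_lit 1) (nat_lit 423) (nat_lit 306) (nat_lit 291)) (XT.lf (nat_lit 1368) (nat_lit 879157738) (nat_lit 76) (nat_lit 152194127) (nat_lit 0) (nat_lit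 152194127) (nat_lit 382) (nat_lit 1) (nat_lit 365) (nat_lit 1) (nat_lit 364) (nat_lit 1) (nat_lit 424) (nat_lit 306) (nat_lit 290)))))) (XT.nd (nat_lit 390) (nat_lit 1824) (nat_lit 0) (XT.nd (nat_lit 156) (nat_lit 608) (nat_lit 0) (XT.nd (nat_lit 78) (nat_lit 836) (nat_lit 0) (XT.lf (nat_lit 76) (nat_lit 386640336) (nat_lit 0) (nat_lit 394233272) (nat_lit 1292) (nat_lit 386640336) (nat_lit 366) (nat_lit 1) (nat_lit 365) (nat_lit 1) (nat_lit 382) (nat_lit 1) (nat_lit 425) (nat_lit 306) (nat_lit 289)) (XT.lf (nat_lit 912) (nat_lit 666622371) (nat_lit 0) (nat_lit 242606951) (nat_lit 836) (nat_lit 242606951) (nat_lit 366) (nat_lit 1) (nat_lit 354) (nat_lit 1) (nat_lit 365) (nat_lit 1) (nat_lit 426) (nat_lit 306) (nat_lit 288))) (XT.nd (nat_lit 78) (nat_lit 608) (nat_lit 0) (XT.lf (nat_lit 76) (nat_lit 278235201) (nat_lit 0) (nat_lit 579952595) (nat_lit 912) (nat_lit 278235201) (nat_lit 355) (nat_lit 1)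 (nat_lit 354) (nat_lit 1) (nat_lit 366) (nat_lit 1) (nat_lit 427) (nat_lit 306) (nat_lit 287)) (XT.nd (nat_lit 78) (nat_lit 0) (nat_lit 0) (XT.lf (nat_lit 684) (nat_lit 443840932) (nat_lit 0) (nat_lit 338726055) (nat_lit 608) (nat_lit 338726055) (nat_lit 355) (nat_lit 1) (nat_lit 346) (nat_lit 1) (nat_lit 354) (nat_lit 1) (nat_lit 428) (nat_lit 306) (nat_lit 286)) (XT.lf (nat_lit 76) (nat_lit 165048734) (nat_lit 0) (nat_lit 776378305) (nat_lit 684) (nat_lit 165048734) (nat_lit 347) (nat_lit 1) (nat_lit 346) (nat_lit 1) (nat_lit 355) (nat_lit 1) (nat_lit 429) (nat_lit 306) (nat_lit 285))))) (XT.nd (nat_lit 156) (nat_lit 1216) (nat_lit 0) (XT.nd (nat_lit 78) (nat_lit 0) (nat_lit 0) (XT.lf (nat_lit 684) (nat_lit 212055368) (nat_lit 0) (nat_lit 439906505) (nat_lit 608) (nat_lit 439906505) (nat_lit 347) (nat_lit 1) (nat_lit 338) (nat_lit 1) (nat_lit 346) (nat_lit 1) (nat_lit 430) (nat_lit 306) (nat_lit 284))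 (XT.lf (nat_lit 76) (nat_lit 47675915) (nat_lit 0) (nat_lit 982273461) (nat_lit 684) (nat_lit 47675915) (nat_lit 339) (nat_lit 1) (nat_lit 338) (nat_lit 1) (nat_lit 347) (nat_lit 1) (nat_lit 431) (nat_lit 306) (nat_lit 283))) (XT.nd (nat_lit 78) (nat_lit 608) (nat_lit 0) (XT.lf (nat_lit 76) (nat_lit 518232068) (nat_lit 0) (nat_lit 27044469) (nat_lit 608) (nat_lit 518232068) (nat_lit 331) (nat_lit 1) (nat_lit 330) (nat_lit 1) (nat_lit 338) (nat_lit 1) (nat_lit 432) (nat_lit 306) (nat_lit 282)) (XT.nd (nat_lit 78) (nat_lit 0) (nat_lit 0) (XT.lf (nat_lit 684) (nat_lit 904516048) (nat_lit 0) (nat_lit 72612827) (nat_lit 608) (nat_lit 72612827) (nat_lit 331) (nat_lit 1) (nat_lit 322) (nat_lit 1) (nat_lit 330) (nat_lit 1) (nat_lit 433) (nat_lit 306) (nat_lit 281)) (XT.lf (nat_lit 76) (nat_lit 383727751) (nat_lit 0) (nat_lit 268659430) (nat_lit 684) (nat_lit 383727751) (nat_lit 323) (nat_lit 1) (nat_lit 322)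 (nat_lit 1) (nat_lit 331) (nat_lit 1) (nat_lit 434) (nat_lit 306) (nat_lit 280))))))))
noncomputable def ec5 : XT := (XT.nd (nat_lit 52260) (nat_lit 532) (nat_lit 0) (XT.nd (nat_lit 51480) (nat_lit 0) (nat_lit 3648) (XT.nd (nat_lit 51090) (nat_lit 0) (nat_lit 4560) (XT.nd (nat_lit 50934) (nat_lit 0) (nat_lit 4484) (XT.nd (nat_lit 50856) (nat_lit 0) (nat_lit 4484) (XT.lf (nat_lit 608) (nat_lit 631753096) (nat_lit 0) (nat_lit 195527623) (nat_lit 532) (nat_lit 195527623) (nat_lit 323) (nat_lit 1) (nat_lit 315) (nat_lit 1) (nat_lit 322) (nat_lit 1) (nat_lit 435) (nat_lit 306) (nat_lit 279)) (XT.lf (nat_lit 1292) (nat_lit 140616492) (nat_lit 0) (nat_lit 483786132) (nat_lit 1292) (nat_lit 140616492) (nat_lit 391) (nat_lit 1) (nat_lit 374) (nat_lit 0) (nat_lit 391) (nat_lit 0) (nat_lit 406) (nat_lit 307) (nat_lit 307))) (XT.nd (nat_lit 78) (nat_lit 0) (nat_lit 76) (XT.lf (nat_lit 1292) (nat_lit 549531718)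 (nat_lit 76) (nat_lit 479043130) (nat_lit 0) (nat_lit 479043130) (nat_lit 391) (nat_lit 1) (nat_lit 375) (nat_lit 1) (nat_lit 374) (nat_lit 0) (nat_lit 407) (nat_lit 307) (nat_lit 306)) (XT.lf (nat_lit 1292) (nat_lit 265766641) (nat_lit 0) (nat_lit 954158985) (nat_lit 1216) (nat_lit 265766641) (nat_lit 392) (nat_lit 1) (nat_lit 375) (nat_lit 1) (nat_lit 391) (nat_lit 1) (nat_lit 408) (nat_lit 307) (nat_lit 305)))) (XT.nd (nat_lit 156) (nat_lit 0) (nat_lit 76) (XT.nd (nat_lit 78) (nat_lit 0) (nat_lit 76) (XT.lf (nat_lit 1292) (nat_lit 504704573) (nat_lit 76) (nat_lit 479714067) (nat_lit 0) (nat_lit 479714067) (nat_lit 392) (nat_lit 1) (nat_lit 376) (nat_lit 1) (nat_lit 375) (nat_lit 1) (nat_lit 409) (nat_lit 307) (nat_lit 304)) (XT.lf (nat_lit 1292) (nat_lit 236830104) (nat_lit 0) (nat_lit 969395342) (nat_lit 1216) (nat_lit 236830104) (nat_lit 393) (nat_lit 1) (nat_lit 376) (nat_lit 1) (nat_lit 392)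 (nat_lit 1) (nat_lit 410) (nat_lit 307) (nat_lit 303))) (XT.nd (nat_lit 78) (nat_lit 0) (nat_lit 76) (XT.lf (nat_lit 1292) (nat_lit 434016171) (nat_lit 76) (nat_lit 494149653) (nat_lit 0) (nat_lit 494149653) (nat_lit 393) (nat_lit 1) (nat_lit 377) (nat_lit 1) (nat_lit 376) (nat_lit 1) (nat_lit 411) (nat_lit 307) (nat_lit 302)) (XT.nd (nat_lit 78) (nat_lit 0) (nat_lit 0) (XT.lf (nat_lit 1292) (nat_lit 195614812) (nat_lit 0) (nat_lit 1010824700) (nat_lit 1216) (nat_lit 195614812) (nat_lit 394) (nat_lit 1) (nat_lit 377) (nat_lit 1) (nat_lit 393) (nat_lit 1) (nat_lit 412) (nat_lit 307) (nat_lit 301)) (XT.lf (nat_lit 1292) (nat_lit 339779244) (nat_lit 76) (nat_lit 521157708) (nat_lit 0) (nat_lit 521157708) (nat_lit 394) (nat_lit 1) (nat_lit 378) (nat_lit 1) (nat_lit 377) (nat_lit 1) (nat_lit 413) (nat_lit 307) (nat_lit 300)))))) (XT.nd (nat_lit 390) (nat_lit 1140) (nat_lit 0) (XT.nd (nat_lit 156) (nat_lit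 0) (nat_lit 76) (XT.nd (nat_lit 78) (nat_lit 0) (nat_lit 0) (XT.lf (nat_lit 1292) (nat_lit 143231633) (nat_lit 0) (nat_lit 1076155095) (nat_lit 1216) (nat_lit 143231633) (nat_lit 395) (nat_lit 1) (nat_lit 378) (nat_lit 1) (nat_lit 394) (nat_lit 1) (nat_lit 414) (nat_lit 307) (nat_lit 299)) (XT.lf (nat_lit 1292) (nat_lit 224149641) (nat_lit 76) (nat_lit 559626197) (nat_lit 0) (nat_lit 559626197) (nat_lit 395) (nat_lit 1) (nat_lit 379) (nat_lit 1) (nat_lit 378) (nat_lit 1) (nat_lit 415) (nat_lit 307) (nat_lit 298))) (XT.nd (nat_lit 78) (nat_lit 0) (nat_lit 0) (XT.lf (nat_lit 1292) (nat_lit 80715836) (nat_lit 0) (nat_lit 1163249096) (nat_lit 1216) (nat_lit 80715836) (nat_lit 396) (nat_lit 1) (nat_lit 379) (nat_lit 1) (nat_lit 395) (nat_lit 1) (nat_lit 416) (nat_lit 307) (nat_lit 297)) (XT.nd (nat_lit 78) (nat_lit 0) (nat_lit 76) (XT.lf (nat_lit 1292) (nat_lit 89136037) (nat_lit 76) (nat_lit 608518288)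 (nat_lit 0) (nat_lit 608518288) (nat_lit 396) (nat_lit 1) (nat_lit 380) (nat_lit 1) (nat_lit 379) (nat_lit 1) (nat_lit 417) (nat_lit 307) (nat_lit 296)) (XT.lf (nat_lit 1292) (nat_lit 9031782) (nat_lit 0) (nat_lit 1270114261) (nat_lit 1216) (nat_lit 9031782) (nat_lit 397) (nat_lit 1) (nat_lit 380) (nat_lit 1) (nat_lit 396) (nat_lit 1) (nat_lit 418) (nat_lit 307) (nat_lit 295))))) (XT.nd (nat_lit 156) (nat_lit 0) (nat_lit 76) (XT.nd (nat_lit 78) (nat_lit 0) (nat_lit 0) (XT.lf (nat_lit 1368) (nat_lit 604086123) (nat_lit 0) (nat_lit 62153949) (nat_lit 1292) (nat_lit 604086123) (nat_lit 381) (nat_lit 1) (nat_lit 363) (nat_lit 1) (nat_lit 380) (nat_lit 1) (nat_lit 419) (nat_lit 307) (nat_lit 294)) (XT.lf (nat_lit 1368) (nat_lit 1112511902) (nat_lit 76) (nat_lit 70227349) (nat_lit 0) (nat_lit 70227349) (nat_lit 381) (nat_lit 1) (nat_lit 364) (nat_lit 1) (nat_lit 363) (nat_lit 1) (nat_lit 420) (nat_lit 307)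 (nat_lit 293))) (XT.nd (nat_lit 78) (nat_lit 0) (nat_lit 0) (XT.lf (nat_lit 1368) (nat_lit 504311406) (nat_lit 0) (nat_lit 227168991) (nat_lit 1292) (nat_lit 504311406) (nat_lit 382) (nat_lit 1) (nat_lit 364) (nat_lit 1) (nat_lit 381) (nat_lit 1) (nat_lit 421) (nat_lit 307) (nat_lit 292)) (XT.nd (nat_lit 78) (nat_lit 0) (nat_lit 76) (XT.lf (nat_lit 1368) (nat_lit 905532470) (nat_lit 76) (nat_lit 156759951) (nat_lit 0) (nat_lit 156759951) (nat_lit 382) (nat_lit 1) (nat_lit 365) (nat_lit 1) (nat_lit 364) (nat_lit 1) (nat_lit 422) (nat_lit 307) (nat_lit 291)) (XT.lf (nat_lit 76) (nat_lit 398239546) (nat_lit 0) (nat_lit 406060270) (nat_lit 1292) (nat_lit 398239546) (nat_lit 366) (nat_lit 1) (nat_lit 365) (nat_lit 1) (nat_lit 382) (nat_lit 1) (nat_lit 423) (nat_lit 307) (nat_lit 290))))))) (XT.nd (nat_lit 702) (nat_lit 1064) (nat_lit 0) (XT.nd (nat_lit 312) (nat_lit 1824) (nat_lit 0) (XT.nd (nat_lit 156)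 (nat_lit 608) (nat_lit 0) (XT.nd (nat_lit 78) (nat_lit 0) (nat_lit 0) (XT.lf (nat_lit 912) (nat_lit 686621042) (nat_lit 0) (nat_lit 249885160) (nat_lit 836) (nat_lit 249885160) (nat_lit 366) (nat_lit 1) (nat_lit 354) (nat_lit 1) (nat_lit 365) (nat_lit 1) (nat_lit 424) (nat_lit 307) (nat_lit 289)) (XT.lf (nat_lit 76) (nat_lit 286582257) (nat_lit 0) (nat_lit 597351172) (nat_lit 912) (nat_lit 286582257) (nat_lit 355) (nat_lit 1) (nat_lit 354) (nat_lit 1) (nat_lit 366) (nat_lit 1) (nat_lit 425) (nat_lit 307) (nat_lit 288))) (XT.nd (nat_lit 78) (nat_lit 0) (nat_lit 0) (XT.lf (nat_lit 684) (nat_lit 457156160) (nat_lit 0) (nat_lit 348887837) (nat_lit 608) (nat_lit 348887837) (nat_lit 355) (nat_lit 1) (nat_lit 346) (nat_lit 1) (nat_lit 354) (nat_lit 1) (nat_lit 426) (nat_lit 307) (nat_lit 287)) (XT.lf (nat_lit 76) (nat_lit 170000196) (nat_lit 0) (nat_lit 799669654) (nat_lit 684) (nat_lit 170000196) (nat_lit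 347) (nat_lit 1) (nat_lit 346) (nat_lit 1) (nat_lit 355) (nat_lit 1) (nat_lit 427) (nat_lit 307) (nat_lit 286)))) (XT.nd (nat_lit 156) (nat_lit 1216) (nat_lit 0) (XT.nd (nat_lit 78) (nat_lit 0) (nat_lit 0) (XT.lf (nat_lit 684) (nat_lit 218417029) (nat_lit 0) (nat_lit 453103700) (nat_lit 608) (nat_lit 453103700) (nat_lit 347) (nat_lit 1) (nat_lit 338) (nat_lit 1) (nat_lit 346) (nat_lit 1) (nat_lit 428) (nat_lit 307) (nat_lit 285)) (XT.lf (nat_lit 76) (nat_lit 49106192) (nat_lit 0) (nat_lit 1011741665) (nat_lit 684) (nat_lit 49106192) (nat_lit 339) (nat_lit 1) (nat_lit 338) (nat_lit 1) (nat_lit 347) (nat_lit 1) (nat_lit 429) (nat_lit 307) (nat_lit 284))) (XT.nd (nat_lit 78) (nat_lit 608) (nat_lit 0) (XT.lf (nat_lit 76) (nat_lit 533779030) (nat_lit 0) (nat_lit 27855803) (nat_lit 608) (nat_lit 533779030) (nat_lit 331) (nat_lit 1) (nat_lit 330) (nat_lit 1) (nat_lit 338) (nat_lit 1) (nat_lit 430) (nat_lit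 307) (nat_lit 283)) (XT.nd (nat_lit 78) (nat_lit 0) (nat_lit 0) (XT.lf (nat_lit 684) (nat_lit 931651529) (nat_lit 0) (nat_lit 74791212) (nat_lit 608) (nat_lit 74791212) (nat_lit 331) (nat_lit 1) (nat_lit 322) (nat_lit 1) (nat_lit 330) (nat_lit 1) (nat_lit 431) (nat_lit 307) (nat_lit 282)) (XT.lf (nat_lit 76) (nat_lit 395239584) (nat_lit 0) (nat_lit 276719213) (nat_lit 684) (nat_lit 395239584) (nat_lit 323) (nat_lit 1) (nat_lit 322) (nat_lit 1) (nat_lit 331) (nat_lit 1) (nat_lit 432) (nat_lit 307) (nat_lit 281)))))) (XT.nd (nat_lit 51012) (nat_lit 0) (nat_lit 5092) (XT.nd (nat_lit 156) (nat_lit 532) (nat_lit 0) (XT.nd (nat_lit 78) (nat_lit 0) (nat_lit 0) (XT.lf (nat_lit 608) (nat_lit 650705689) (nat_lit 0) (nat_lit 201393452) (nat_lit 532) (nat_lit 201393452) (nat_lit 323) (nat_lit 1) (nat_lit 315) (nat_lit 1) (nat_lit 322) (nat_lit 1) (nat_lit 433) (nat_lit 307) (nat_lit 280)) (XT.lf (nat_lit 76) (nat_lit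 254280326) (nat_lit 0) (nat_lit 531437703) (nat_lit 608) (nat_lit 254280326) (nat_lit 316) (nat_lit 1) (nat_lit 315) (nat_lit 1) (nat_lit 323) (nat_lit 1) (nat_lit 434) (nat_lit 307) (nat_lit 279))) (XT.nd (nat_lit 50700) (nat_lit 0) (nat_lit 5016) (XT.lf (nat_lit 608) (nat_lit 365345588) (nat_lit 0) (nat_lit 330699906) (nat_lit 532) (nat_lit 330699906) (nat_lit 316) (nat_lit 1) (nat_lit 308) (nat_lit 1) (nat_lit 315) (nat_lit 1) (nat_lit 435) (nat_lit 307) (nat_lit 278)) (XT.nd (nat_lit 78) (nat_lit 0) (nat_lit 0) (XT.lf (nat_lit 1292) (nat_lit 144834987) (nat_lit 0) (nat_lit 498299715) (nat_lit 1292) (nat_lit 144834987) (nat_lit 391) (nat_lit 1) (nat_lit 374) (nat_lit 0) (nat_lit 391) (nat_lit 0) (nat_lit 404) (nat_lit 308) (nat_lit 308)) (XT.lf (nat_lit 1292) (nat_lit 566017669) (nat_lit 76) (nat_lit 493414424) (nat_lit 0) (nat_lit 493414424) (nat_lit 391) (nat_lit 1) (nat_lit 375) (nat_lit 1) (nat_lit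 374) (nat_lit 0) (nat_lit 405) (nat_lit 308) (nat_lit 307))))) (XT.nd (nat_lit 156) (nat_lit 0) (nat_lit 76) (XT.nd (nat_lit 78) (nat_lit 0) (nat_lit 0) (XT.lf (nat_lit 1292) (nat_lit 273739640) (nat_lit 0) (nat_lit 982783754) (nat_lit 1216) (nat_lit 273739640) (nat_lit 392) (nat_lit 1) (nat_lit 375) (nat_lit 1) (nat_lit 391) (nat_lit 1) (nat_lit 406) (nat_lit 308) (nat_lit 306)) (XT.lf (nat_lit 1292) (nat_lit 519845710) (nat_lit 76) (nat_lit 494105489) (nat_lit 0) (nat_lit 494105489) (nat_lit 392) (nat_lit 1) (nat_lit 376) (nat_lit 1) (nat_lit 375) (nat_lit 1) (nat_lit 407) (nat_lit 308) (nat_lit 305))) (XT.nd (nat_lit 78) (nat_lit 0) (nat_lit 0) (XT.lf (nat_lit 1292) (nat_lit 243935007) (nat_lit 0) (nat_lit 998477202) (nat_lit 1216) (nat_lit 243935007) (nat_lit 393) (nat_lit 1) (nat_lit 376) (nat_lit 1) (nat_lit 392) (nat_lit 1) (nat_lit 408) (nat_lit 308) (nat_lit 304)) (XT.nd (nat_lit 78) (nat_lit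 0) (nat_lit 76) (XT.lf (nat_lit 1292) (nat_lit 447036656) (nat_lit 76) (nat_lit 508974143) (nat_lit 0) (nat_lit 508974143) (nat_lit 393) (nat_lit 1) (nat_lit 377) (nat_lit 1) (nat_lit 376) (nat_lit 1) (nat_lit 409) (nat_lit 308) (nat_lit 303)) (XT.lf (nat_lit 1292) (nat_lit 201483257) (nat_lit 0) (nat_lit 1041149441) (nat_lit 1216) (nat_lit 201483257) (nat_lit 394) (nat_lit 1) (nat_lit 377) (nat_lit 1) (nat_lit 393) (nat_lit 1) (nat_lit 410) (nat_lit 308) (nat_lit 302))))))))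
noncomputable def ec6 : XT := (XT.nd (nat_lit 1482) (nat_lit 1520) (nat_lit 0) (XT.nd (nat_lit 702) (nat_lit 3116) (nat_lit 0) (XT.nd (nat_lit 312) (nat_lit 1064) (nat_lit 0) (XT.nd (nat_lit 156) (nat_lit 0) (nat_lit 76) (XT.nd (nat_lit 78) (nat_lit 0) (nat_lit 76) (XT.lf (nat_lit 1292) (nat_lit 349972621) (nat_lit 76) (nat_lit 536792440) (nat_lit 0) (nat_lit 536792440) (nat_lit 394) (nat_lit 1) (nat_lit 378) (nat_lit 1) (nat_lit 377) (nat_lit 1) (nat_lit 411) (nat_lit 308) (nat_lit 301)) (XT.lf (nat_lit 1292) (nat_lit 147528582) (nat_lit 0) (nat_lit 1108439748) (nat_lit 1216) (nat_lit 147528582) (nat_lit 395) (nat_lit 1) (nat_lit 378) (nat_lit 1) (nat_lit 394) (nat_lit 1) (nat_lit 412) (nat_lit 308) (nat_lit 300))) (XT.nd (nat_lit 78) (nat_lit 0) (nat_lit 76) (XT.lf (nat_lit 1292) (nat_lit 230874130) (nat_lit 76) (nat_lit 576414983) (nat_lit 0) (nat_lit 576414983) (nat_lit 395) (nat_lit 1) (nat_lit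 379) (nat_lit 1) (nat_lit 378) (nat_lit 1) (nat_lit 413) (nat_lit 308) (nat_lit 299)) (XT.lf (nat_lit 1292) (nat_lit 83137311) (nat_lit 0) (nat_lit 1198146569) (nat_lit 1216) (nat_lit 83137311) (nat_lit 396) (nat_lit 1) (nat_lit 379) (nat_lit 1) (nat_lit 395) (nat_lit 1) (nat_lit 414) (nat_lit 308) (nat_lit 298)))) (XT.nd (nat_lit 156) (nat_lit 1216) (nat_lit 0) (XT.nd (nat_lit 78) (nat_lit 0) (nat_lit 76) (XT.lf (nat_lit 1292) (nat_lit 91810118) (nat_lit 76) (nat_lit 626773836) (nat_lit 0) (nat_lit 626773836) (nat_lit 396) (nat_lit 1) (nat_lit 380) (nat_lit 1) (nat_lit 379) (nat_lit 1) (nat_lit 415) (nat_lit 308) (nat_lit 297)) (XT.lf (nat_lit 1292) (nat_lit 9302736) (nat_lit 0) (nat_lit 1308217688) (nat_lit 1216) (nat_lit 9302736) (nat_lit 397) (nat_lit 1) (nat_lit 380) (nat_lit 1) (nat_lit 396) (nat_lit 1) (nat_lit 416) (nat_lit 308) (nat_lit 296))) (XT.nd (nat_lit 78) (nat_lit 0) (nat_lit 0) (XT.lf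 (nat_lit 1368) (nat_lit 622208707) (nat_lit 0) (nat_lit 64018567) (nat_lit 1292) (nat_lit 622208707) (nat_lit 381) (nat_lit 1) (nat_lit 363) (nat_lit 1) (nat_lit 380) (nat_lit 1) (nat_lit 417) (nat_lit 308) (nat_lit 295)) (XT.nd (nat_lit 78) (nat_lit 0) (nat_lit 76) (XT.lf (nat_lit 1368) (nat_lit 1145887259) (nat_lit 76) (nat_lit 72334170) (nat_lit 0) (nat_lit 72334170) (nat_lit 381) (nat_lit 1) (nat_lit 364) (nat_lit 1) (nat_lit 363) (nat_lit 1) (nat_lit 418) (nat_lit 308) (nat_lit 294)) (XT.lf (nat_lit 1368) (nat_lit 519440748) (nat_lit 0) (nat_lit 233984061) (nat_lit 1292) (nat_lit 519440748) (nat_lit 382) (nat_lit 1) (nat_lit 364) (nat_lit 1) (nat_lit 381) (nat_lit 1) (nat_lit 419) (nat_lit 308) (nat_lit 293)))))) (XT.nd (nat_lit 390) (nat_lit 1824) (nat_lit 0) (XT.nd (nat_lit 156) (nat_lit 1368) (nat_lit 0) (XT.nd (nat_lit 78) (nat_lit 0) (nat_lit 76) (XT.lf (nat_lit 1368) (nat_lit 932698444) (nat_lit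 76) (nat_lit 161462749) (nat_lit 0) (nat_lit 161462749) (nat_lit 382) (nat_lit 1) (nat_lit 365) (nat_lit 1) (nat_lit 364) (nat_lit 1) (nat_lit 420) (nat_lit 308) (nat_lit 292)) (XT.lf (nat_lit 76) (nat_lit 410186732) (nat_lit 0) (nat_lit 418242079) (nat_lit 1292) (nat_lit 410186732) (nat_lit 366) (nat_lit 1) (nat_lit 365) (nat_lit 1) (nat_lit 382) (nat_lit 1) (nat_lit 421) (nat_lit 308) (nat_lit 291))) (XT.nd (nat_lit 78) (nat_lit 608) (nat_lit 0) (XT.lf (nat_lit 912) (nat_lit 707219674) (nat_lit 0) (nat_lit 257381715) (nat_lit 836) (nat_lit 257381715) (nat_lit 366) (nat_lit 1) (nat_lit 354) (nat_lit 1) (nat_lit 365) (nat_lit 1) (nat_lit 422) (nat_lit 308) (nat_lit 290)) (XT.nd (nat_lit 78) (nat_lit 608) (nat_lit 0) (XT.lf (nat_lit 76) (nat_lit 295179724) (nat_lit 0) (nat_lit 615271708) (nat_lit 912) (nat_lit 295179724) (nat_lit 355) (nat_lit 1) (nat_lit 354) (nat_lit 1) (nat_lit 366) (nat_lit 1) (nat_lit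 423) (nat_lit 308) (nat_lit 289)) (XT.lf (nat_lit 684) (nat_lit 470870845) (nat_lit 0) (nat_lit 359354472) (nat_lit 608) (nat_lit 359354472) (nat_lit 355) (nat_lit 1) (nat_lit 346) (nat_lit 1) (nat_lit 354) (nat_lit 1) (nat_lit 424) (nat_lit 308) (nat_lit 288))))) (XT.nd (nat_lit 156) (nat_lit 1216) (nat_lit 0) (XT.nd (nat_lit 78) (nat_lit 608) (nat_lit 0) (XT.lf (nat_lit 76) (nat_lit 175100202) (nat_lit 0) (nat_lit 823659744) (nat_lit 684) (nat_lit 175100202) (nat_lit 347) (nat_lit 1) (nat_lit 346) (nat_lit 1) (nat_lit 355) (nat_lit 1) (nat_lit 425) (nat_lit 308) (nat_lit 287)) (XT.lf (nat_lit 684) (nat_lit 224969540) (nat_lit 0) (nat_lit 466696811) (nat_lit 608) (nat_lit 466696811) (nat_lit 347) (nat_lit 1) (nat_lit 338) (nat_lit 1) (nat_lit 346) (nat_lit 1) (nat_lit 426) (nat_lit 308) (nat_lit 286))) (XT.nd (nat_lit 78) (nat_lit 1216) (nat_lit 0) (XT.lf (nat_lit 76) (nat_lit 50579378) (nat_lit 0)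 (nat_lit 1042093915) (nat_lit 684) (nat_lit 50579378) (nat_lit 339) (nat_lit 1) (nat_lit 338) (nat_lit 1) (nat_lit 347) (nat_lit 1) (nat_lit 427) (nat_lit 308) (nat_lit 285)) (XT.nd (nat_lit 78) (nat_lit 608) (nat_lit 0) (XT.lf (nat_lit 76) (nat_lit 549792401) (nat_lit 0) (nat_lit 28691478) (nat_lit 608) (nat_lit 549792401) (nat_lit 331) (nat_lit 1) (nat_lit 330) (nat_lit 1) (nat_lit 338) (nat_lit 1) (nat_lit 428) (nat_lit 308) (nat_lit 284)) (XT.lf (nat_lit 684) (nat_lit 959601075) (nat_lit 0) (nat_lit 77034948) (nat_lit 608) (nat_lit 77034948) (nat_lit 331) (nat_lit 1) (nat_lit 322) (nat_lit 1) (nat_lit 330) (nat_lit 1) (nat_lit 429) (nat_lit 308) (nat_lit 283))))))) (XT.nd (nat_lit 51168) (nat_lit 0) (nat_lit 5548) (XT.nd (nat_lit 312) (nat_lit 456) (nat_lit 0) (XT.nd (nat_lit 156) (nat_lit 532) (nat_lit 0) (XT.nd (nat_lit 78) (nat_lit 532) (nat_lit 0) (XT.lf (nat_lit 76) (nat_lit 407096771) (nat_lit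 0) (nat_lit 285020789) (nat_lit 684) (nat_lit 407096771) (nat_lit 323) (nat_lit 1) (nat_lit 322) (nat_lit 1) (nat_lit 331) (nat_lit 1) (nat_lit 430) (nat_lit 308) (nat_lit 282)) (XT.lf (nat_lit 608) (nat_lit 670226860) (nat_lit 0) (nat_lit 207435256) (nat_lit 532) (nat_lit 207435256) (nat_lit 323) (nat_lit 1) (nat_lit 315) (nat_lit 1) (nat_lit 322) (nat_lit 1) (nat_lit 431) (nat_lit 308) (nat_lit 281))) (XT.nd (nat_lit 78) (nat_lit 532) (nat_lit 0) (XT.lf (nat_lit 76) (nat_lit 261908736) (nat_lit 0) (nat_lit 547380834) (nat_lit 608) (nat_lit 261908736) (nat_lit 316) (nat_lit 1) (nat_lit 315) (nat_lit 1) (nat_lit 323) (nat_lit 1) (nat_lit 432) (nat_lit 308) (nat_lit 280)) (XT.lf (nat_lit 608) (nat_lit 376305956) (nat_lit 0) (nat_lit 340620903) (nat_lit 532) (nat_lit 340620903) (nat_lit 316) (nat_lit 1) (nat_lit 308) (nat_lit 1) (nat_lit 315) (nat_lit 1) (nat_lit 433) (nat_lit 308) (nat_lit 279)))) (XT.nd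 (nat_lit 50622) (nat_lit 0) (nat_lit 5472) (XT.nd (nat_lit 78) (nat_lit 456) (nat_lit 0) (XT.lf (nat_lit 76) (nat_lit 114682545) (nat_lit 0) (nat_lit 814821198) (nat_lit 608) (nat_lit 114682545) (nat_lit 309) (nat_lit 1) (nat_lit 308) (nat_lit 1) (nat_lit 316) (nat_lit 1) (nat_lit 434) (nat_lit 308) (nat_lit 278)) (XT.lf (nat_lit 532) (nat_lit 78715613) (nat_lit 0) (nat_lit 476132849) (nat_lit 456) (nat_lit 476132849) (nat_lit 309) (nat_lit 1) (nat_lit 302) (nat_lit 1) (nat_lit 308) (nat_lit 1) (nat_lit 435) (nat_lit 308) (nat_lit 277))) (XT.nd (nat_lit 78) (nat_lit 0) (nat_lit 0) (XT.lf (nat_lit 1292) (nat_lit 149180037) (nat_lit 0) (nat_lit 513248707) (nat_lit 1292) (nat_lit 149180037) (nat_lit 391) (nat_lit 1) (nat_lit 374) (nat_lit 0) (nat_lit 391) (nat_lit 0) (nat_lit 402) (nat_lit 309) (nat_lit 309)) (XT.nd (nat_lit 78) (nat_lit 0) (nat_lit 76) (XT.lf (nat_lit 1292) (nat_lit 582998200) (nat_lit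 76) (nat_lit 508216857) (nat_lit 0) (nat_lit 508216857) (nat_lit 391) (nat_lit 1) (nat_lit 375) (nat_lit 1) (nat_lit 374) (nat_lit 0) (nat_lit 403) (nat_lit 309) (nat_lit 308)) (XT.lf (nat_lit 1292) (nat_lit 281951829) (nat_lit 0) (nat_lit 1012267267) (nat_lit 1216) (nat_lit 281951829) (nat_lit 392) (nat_lit 1) (nat_lit 375) (nat_lit 1) (nat_lit 391) (nat_lit 1) (nat_lit 404) (nat_lit 309) (nat_lit 307)))))) (XT.nd (nat_lit 390) (nat_lit 0) (nat_lit 228) (XT.nd (nat_lit 156) (nat_lit 0) (nat_lit 76) (XT.nd (nat_lit 78) (nat_lit 0) (nat_lit 76) (XT.lf (nat_lit 1292) (nat_lit 535441082) (nat_lit 76) (nat_lit 508928653) (nat_lit 0) (nat_lit 508928653) (nat_lit 392) (nat_lit 1) (nat_lit 376) (nat_lit 1) (nat_lit 375) (nat_lit 1) (nat_lit 405) (nat_lit 309) (nat_lit 306)) (XT.lf (nat_lit 1292) (nat_lit 251253057) (nat_lit 0) (nat_lit 1028431518) (nat_lit 1216) (nat_lit 251253057) (nat_lit 393) (nat_lit 1)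 (nat_lit 376) (nat_lit 1) (nat_lit 392) (nat_lit 1) (nat_lit 406) (nat_lit 309) (nat_lit 305))) (XT.nd (nat_lit 78) (nat_lit 0) (nat_lit 76) (XT.lf (nat_lit 1292) (nat_lit 460447756) (nat_lit 76) (nat_lit 524243367) (nat_lit 0) (nat_lit 524243367) (nat_lit 393) (nat_lit 1) (nat_lit 377) (nat_lit 1) (nat_lit 376) (nat_lit 1) (nat_lit 407) (nat_lit 309) (nat_lit 304)) (XT.nd (nat_lit 78) (nat_lit 0) (nat_lit 0) (XT.lf (nat_lit 1292) (nat_lit 207527755) (nat_lit 0) (nat_lit 1072383924) (nat_lit 1216) (nat_lit 207527755) (nat_lit 394) (nat_lit 1) (nat_lit 377) (nat_lit 1) (nat_lit 393) (nat_lit 1) (nat_lit 408) (nat_lit 309) (nat_lit 303)) (XT.lf (nat_lit 1292) (nat_lit 360471800) (nat_lit 76) (nat_lit 552896213) (nat_lit 0) (nat_lit 552896213) (nat_lit 394) (nat_lit 1) (nat_lit 378) (nat_lit 1) (nat_lit 377) (nat_lit 1) (nat_lit 409) (nat_lit 309) (nat_lit 302))))) (XT.nd (nat_lit 156) (nat_lit 0) (nat_lit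 76) (XT.nd (nat_lit 78) (nat_lit 0) (nat_lit 0) (XT.lf (nat_lit 1292) (nat_lit 151954439) (nat_lit 0) (nat_lit 1141692941) (nat_lit 1216) (nat_lit 151954439) (nat_lit 395) (nat_lit 1) (nat_lit 378) (nat_lit 1) (nat_lit 394) (nat_lit 1) (nat_lit 410) (nat_lit 309) (nat_lit 301)) (XT.lf (nat_lit 1292) (nat_lit 237800354) (nat_lit 76) (nat_lit 593707432) (nat_lit 0) (nat_lit 593707432) (nat_lit 395) (nat_lit 1) (nat_lit 379) (nat_lit 1) (nat_lit 378) (nat_lit 1) (nat_lit 411) (nat_lit 309) (nat_lit 300))) (XT.nd (nat_lit 78) (nat_lit 0) (nat_lit 0) (XT.lf (nat_lit 1292) (nat_lit 85631430) (nat_lit 0) (nat_lit 1234090966) (nat_lit 1216) (nat_lit 85631430) (nat_lit 396) (nat_lit 1) (nat_lit 379) (nat_lit 1) (nat_lit 395) (nat_lit 1) (nat_lit 412) (nat_lit 309) (nat_lit 299)) (XT.nd (nat_lit 78) (nat_lit 0) (nat_lit 76) (XT.lf (nat_lit 1292) (nat_lit 94564422) (nat_lit 76) (nat_lit 645577052) (nat_lit 0)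 (nat_lit 645577052) (nat_lit 396) (nat_lit 1) (nat_lit 380) (nat_lit 1) (nat_lit 379) (nat_lit 1) (nat_lit 413) (nat_lit 309) (nat_lit 298)) (XT.lf (nat_lit 1292) (nat_lit 9581818) (nat_lit 0) (nat_lit 1347464219) (nat_lit 1216) (nat_lit 9581818) (nat_lit 397) (nat_lit 1) (nat_lit 380) (nat_lit 1) (nat_lit 396) (nat_lit 1) (nat_lit 414) (nat_lit 309) (nat_lit 297))))))))
noncomputable def ec7 : XT := (XT.nd (nat_lit 1482) (nat_lit 608) (nat_lit 0) (XT.nd (nat_lit 702) (nat_lit 3344) (nat_lit 0) (XT.nd (nat_lit 312) (nat_lit 1292) (nat_lit 0) (XT.nd (nat_lit 156) (nat_lit 0) (nat_lit 76) (XT.nd (nat_lit 78) (nat_lit 0) (nat_lit 0) (XT.lf (nat_lit 1368) (nat_lit 640874968) (nat_lit 0) (nat_lit 65939124) (nat_lit 1292) (nat_lit 640874968) (nat_lit 381) (nat_lit 1) (nat_lit 363) (nat_lit 1) (nat_lit 380) (nat_lit 1) (nat_lit 415) (nat_lit 309) (nat_lit 296)) (XT.lf (nat_lit 1368) (nat_lit 1180263877) (nat_lit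 76) (nat_lit 74504195) (nat_lit 0) (nat_lit 74504195) (nat_lit 381) (nat_lit 1) (nat_lit 364) (nat_lit 1) (nat_lit 363) (nat_lit 1) (nat_lit 416) (nat_lit 309) (nat_lit 295))) (XT.nd (nat_lit 78) (nat_lit 0) (nat_lit 0) (XT.lf (nat_lit 1368) (nat_lit 535023970) (nat_lit 0) (nat_lit 241003583) (nat_lit 1292) (nat_lit 535023970) (nat_lit 382) (nat_lit 1) (nat_lit 364) (nat_lit 1) (nat_lit 381) (nat_lit 1) (nat_lit 417) (nat_lit 309) (nat_lit 294)) (XT.lf (nat_lit 1368) (nat_lit 960679398) (nat_lit 76) (nat_lit 166306632) (nat_lit 0) (nat_lit 166306632) (nat_lit 382) (nat_lit 1) (nat_lit 365) (nat_lit 1) (nat_lit 364) (nat_lit 1) (nat_lit 418) (nat_lit 309) (nat_lit 293)))) (XT.nd (nat_lit 156) (nat_lit 608) (nat_lit 0) (XT.nd (nat_lit 78) (nat_lit 836) (nat_lit 0) (XT.lf (nat_lit 76) (nat_lit 422492334) (nat_lit 0) (nat_lit 430789341) (nat_lit 1292) (nat_lit 422492334) (nat_lit 366) (nat_lit 1) (nat_lit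 365) (nat_lit 1) (nat_lit 382) (nat_lit 1) (nat_lit 419) (nat_lit 309) (nat_lit 292)) (XT.lf (nat_lit 912) (nat_lit 728436264) (nat_lit 0) (nat_lit 265103166) (nat_lit 836) (nat_lit 265103166) (nat_lit 366) (nat_lit 1) (nat_lit 354) (nat_lit 1) (nat_lit 365) (nat_lit 1) (nat_lit 420) (nat_lit 309) (nat_lit 291))) (XT.nd (nat_lit 78) (nat_lit 608) (nat_lit 0) (XT.lf (nat_lit 76) (nat_lit 304035116) (nat_lit 0) (nat_lit 633729859) (nat_lit 912) (nat_lit 304035116) (nat_lit 355) (nat_lit 1) (nat_lit 354) (nat_lit 1) (nat_lit 366) (nat_lit 1) (nat_lit 421) (nat_lit 309) (nat_lit 290)) (XT.nd (nat_lit 78) (nat_lit 0) (nat_lit 0) (XT.lf (nat_lit 684) (nat_lit 484996970) (nat_lit 0) (nat_lit 370135106) (nat_lit 608) (nat_lit 370135106) (nat_lit 355) (nat_lit 1) (nat_lit 346) (nat_lit 1) (nat_lit 354) (nat_lit 1) (nat_lit 422) (nat_lit 309) (nat_lit 289)) (XT.lf (nat_lit 76) (nat_lit 180353208) (nat_lit 0)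 (nat_lit 848369536) (nat_lit 684) (nat_lit 180353208) (nat_lit 347) (nat_lit 1) (nat_lit 346) (nat_lit 1) (nat_lit 355) (nat_lit 1) (nat_lit 423) (nat_lit 309) (nat_lit 288)))))) (XT.nd (nat_lit 390) (nat_lit 1520) (nat_lit 0) (XT.nd (nat_lit 156) (nat_lit 1216) (nat_lit 0) (XT.nd (nat_lit 78) (nat_lit 0) (nat_lit 0) (XT.lf (nat_lit 684) (nat_lit 231718626) (nat_lit 0) (nat_lit 480697716) (nat_lit 608) (nat_lit 480697716) (nat_lit 347) (nat_lit 1) (nat_lit 338) (nat_lit 1) (nat_lit 346) (nat_lit 1) (nat_lit 424) (nat_lit 309) (nat_lit 287)) (XT.lf (nat_lit 76) (nat_lit 52096759) (nat_lit 0) (nat_lit 1073356732) (nat_lit 684) (nat_lit 52096759) (nat_lit 339) (nat_lit 1) (nat_lit 338) (nat_lit 1) (nat_lit 347) (nat_lit 1) (nat_lit 425) (nat_lit 309) (nat_lit 286))) (XT.nd (nat_lit 78) (nat_lit 608) (nat_lit 0) (XT.lf (nat_lit 76) (nat_lit 566286173) (nat_lit 0) (nat_lit 29552222) (nat_lit 608) (nat_lit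 566286173) (nat_lit 331) (nat_lit 1) (nat_lit 330) (nat_lit 1) (nat_lit 338) (nat_lit 1) (nat_lit 426) (nat_lit 309) (nat_lit 285)) (XT.nd (nat_lit 78) (nat_lit 0) (nat_lit 0) (XT.lf (nat_lit 684) (nat_lit 988389107) (nat_lit 0) (nat_lit 79345996) (nat_lit 608) (nat_lit 79345996) (nat_lit 331) (nat_lit 1) (nat_lit 322) (nat_lit 1) (nat_lit 330) (nat_lit 1) (nat_lit 427) (nat_lit 309) (nat_lit 284)) (XT.lf (nat_lit 76) (nat_lit 419309674) (nat_lit 0) (nat_lit 293571413) (nat_lit 684) (nat_lit 419309674) (nat_lit 323) (nat_lit 1) (nat_lit 322) (nat_lit 1) (nat_lit 331) (nat_lit 1) (nat_lit 428) (nat_lit 309) (nat_lit 283))))) (XT.nd (nat_lit 156) (nat_lit 988) (nat_lit 0) (XT.nd (nat_lit 78) (nat_lit 0) (nat_lit 0) (XT.lf (nat_lit 608) (nat_lit 690333666) (nat_lit 0) (nat_lit 213658313) (nat_lit 532) (nat_lit 213658313) (nat_lit 323) (nat_lit 1) (nat_lit 315) (nat_lit 1) (nat_lit 322) (nat_lit 1) (nat_lit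 429) (nat_lit 309) (nat_lit 282)) (XT.lf (nat_lit 76) (nat_lit 269765998) (nat_lit 0) (nat_lit 563802259) (nat_lit 608) (nat_lit 269765998) (nat_lit 316) (nat_lit 1) (nat_lit 315) (nat_lit 1) (nat_lit 323) (nat_lit 1) (nat_lit 430) (nat_lit 309) (nat_lit 281))) (XT.nd (nat_lit 78) (nat_lit 456) (nat_lit 0) (XT.lf (nat_lit 608) (nat_lit 387595135) (nat_lit 0) (nat_lit 350839530) (nat_lit 532) (nat_lit 350839530) (nat_lit 316) (nat_lit 1) (nat_lit 308) (nat_lit 1) (nat_lit 315) (nat_lit 1) (nat_lit 431) (nat_lit 309) (nat_lit 280)) (XT.nd (nat_lit 78) (nat_lit 456) (nat_lit 0) (XT.lf (nat_lit 76) (nat_lit 118123021) (nat_lit 0) (nat_lit 839265834) (nat_lit 608) (nat_lit 118123021) (nat_lit 309) (nat_lit 1) (nat_lit 308) (nat_lit 1) (nat_lit 316) (nat_lit 1) (nat_lit 432) (nat_lit 309) (nat_lit 279)) (XT.lf (nat_lit 532) (nat_lit 81077082) (nat_lit 0) (nat_lit 490416834) (nat_lit 456) (nat_lit 490416834)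 (nat_lit 309) (nat_lit 1) (nat_lit 302) (nat_lit 1) (nat_lit 308) (nat_lit 1) (nat_lit 433) (nat_lit 309) (nat_lit 278))))))) (XT.nd (nat_lit 51012) (nat_lit 0) (nat_lit 5244) (XT.nd (nat_lit 50622) (nat_lit 0) (nat_lit 6156) (XT.nd (nat_lit 50466) (nat_lit 0) (nat_lit 6080) (XT.nd (nat_lit 78) (nat_lit 0) (nat_lit 0) (XT.lf (nat_lit 608) (nat_lit 978956412) (nat_lit 0) (nat_lit 34842593) (nat_lit 532) (nat_lit 34842593) (nat_lit 302) (nat_lit 1) (nat_lit 294) (nat_lit 1) (nat_lit 301) (nat_lit 1) (nat_lit 434) (nat_lit 309) (nat_lit 277)) (XT.lf (nat_lit 76) (nat_lit 405761646) (nat_lit 0) (nat_lit 223930623) (nat_lit 608) (nat_lit 405761646) (nat_lit 295) (nat_lit 1) (nat_lit 294) (nat_lit 1) (nat_lit 302) (nat_lit 1) (nat_lit 435) (nat_lit 309) (nat_lit 276))) (XT.nd (nat_lit 78) (nat_lit 0) (nat_lit 0) (XT.lf (nat_lit 1292) (nat_lit 153655438) (nat_lit 0) (nat_lit 528646168) (nat_lit 1292) (nat_lit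 153655438) (nat_lit 391) (nat_lit 1) (nat_lit 374) (nat_lit 0) (nat_lit 391) (nat_lit 0) (nat_lit 400) (nat_lit 310) (nat_lit 310)) (XT.lf (nat_lit 1292) (nat_lit 600488146) (nat_lit 76) (nat_lit 523463363) (nat_lit 0) (nat_lit 523463363) (nat_lit 391) (nat_lit 1) (nat_lit 375) (nat_lit 1) (nat_lit 374) (nat_lit 0) (nat_lit 401) (nat_lit 310) (nat_lit 309)))) (XT.nd (nat_lit 156) (nat_lit 0) (nat_lit 76) (XT.nd (nat_lit 78) (nat_lit 0) (nat_lit 0) (XT.lf (nat_lit 1292) (nat_lit 290410384) (nat_lit 0) (nat_lit 1042635285) (nat_lit 1216) (nat_lit 290410384) (nat_lit 392) (nat_lit 1) (nat_lit 375) (nat_lit 1) (nat_lit 391) (nat_lit 1) (nat_lit 402) (nat_lit 310) (nat_lit 308)) (XT.lf (nat_lit 1292) (nat_lit 551504314) (nat_lit 76) (nat_lit 524196513) (nat_lit 0) (nat_lit 524196513) (nat_lit 392) (nat_lit 1) (nat_lit 376) (nat_lit 1) (nat_lit 375) (nat_lit 1) (nat_lit 403) (nat_lit 310) (nat_lit 307)))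 (XT.nd (nat_lit 78) (nat_lit 0) (nat_lit 0) (XT.lf (nat_lit 1292) (nat_lit 258790649) (nat_lit 0) (nat_lit 1059284464) (nat_lit 1216) (nat_lit 258790649) (nat_lit 393) (nat_lit 1) (nat_lit 376) (nat_lit 1) (nat_lit 392) (nat_lit 1) (nat_lit 404) (nat_lit 310) (nat_lit 306)) (XT.nd (nat_lit 78) (nat_lit 0) (nat_lit 76) (XT.lf (nat_lit 1292) (nat_lit 474261189) (nat_lit 76) (nat_lit 539970668) (nat_lit 0) (nat_lit 539970668) (nat_lit 393) (nat_lit 1) (nat_lit 377) (nat_lit 1) (nat_lit 376) (nat_lit 1) (nat_lit 405) (nat_lit 310) (nat_lit 305)) (XT.lf (nat_lit 1292) (nat_lit 213753587) (nat_lit 0) (nat_lit 1104555442) (nat_lit 1216) (nat_lit 213753587) (nat_lit 394) (nat_lit 1) (nat_lit 377) (nat_lit 1) (nat_lit 393) (nat_lit 1) (nat_lit 406) (nat_lit 310) (nat_lit 304)))))) (XT.nd (nat_lit 390) (nat_lit 1064) (nat_lit 0) (XT.nd (nat_lit 156) (nat_lit 0) (nat_lit 76) (XT.nd (nat_lit 78) (nat_lit 0) (nat_lit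 76) (XT.lf (nat_lit 1292) (nat_lit 371285954) (nat_lit 76) (nat_lit 569483099) (nat_lit 0) (nat_lit 569483099) (nat_lit 394) (nat_lit 1) (nat_lit 378) (nat_lit 1) (nat_lit 377) (nat_lit 1) (nat_lit 407) (nat_lit 310) (nat_lit 303)) (XT.lf (nat_lit 1292) (nat_lit 156513072) (nat_lit 0) (nat_lit 1175943729) (nat_lit 1216) (nat_lit 156513072) (nat_lit 395) (nat_lit 1) (nat_lit 378) (nat_lit 1) (nat_lit 394) (nat_lit 1) (nat_lit 408) (nat_lit 310) (nat_lit 302))) (XT.nd (nat_lit 78) (nat_lit 0) (nat_lit 76) (XT.lf (nat_lit 1292) (nat_lit 244934364) (nat_lit 76) (nat_lit 611518655) (nat_lit 0) (nat_lit 611518655) (nat_lit 395) (nat_lit 1) (nat_lit 379) (nat_lit 1) (nat_lit 378) (nat_lit 1) (nat_lit 409) (nat_lit 310) (nat_lit 301)) (XT.nd (nat_lit 78) (nat_lit 0) (nat_lit 0) (XT.lf (nat_lit 1292) (nat_lit 88200373) (nat_lit 0) (nat_lit 1271113695) (nat_lit 1216) (nat_lit 88200373) (nat_lit 396) (nat_lit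 1) (nat_lit 379) (nat_lit 1) (nat_lit 395) (nat_lit 1) (nat_lit 410) (nat_lit 310) (nat_lit 300)) (XT.lf (nat_lit 1292) (nat_lit 97401354) (nat_lit 76) (nat_lit 664944363) (nat_lit 0) (nat_lit 664944363) (nat_lit 396) (nat_lit 1) (nat_lit 380) (nat_lit 1) (nat_lit 379) (nat_lit 1) (nat_lit 411) (nat_lit 310) (nat_lit 299))))) (XT.nd (nat_lit 156) (nat_lit 0) (nat_lit 0) (XT.nd (nat_lit 78) (nat_lit 1292) (nat_lit 0) (XT.lf (nat_lit 1292) (nat_lit 9869273) (nat_lit 0) (nat_lit 1387888146) (nat_lit 1216) (nat_lit 9869273) (nat_lit 397) (nat_lit 1) (nat_lit 380) (nat_lit 1) (nat_lit 396) (nat_lit 1) (nat_lit 412) (nat_lit 310) (nat_lit 298)) (XT.lf (nat_lit 1368) (nat_lit 660101217) (nat_lit 0) (nat_lit 67917298) (nat_lit 1292) (nat_lit 660101217) (nat_lit 381) (nat_lit 1) (nat_lit 363) (nat_lit 1) (nat_lit 380) (nat_lit 1) (nat_lit 413) (nat_lit 310) (nat_lit 297))) (XT.nd (nat_lit 78) (nat_lit 0) (nat_lit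 76) (XT.lf (nat_lit 1368) (nat_lit 1215671794) (nat_lit 76) (nat_lit 76739321) (nat_lit 0) (nat_lit 76739321) (nat_lit 381) (nat_lit 1) (nat_lit 364) (nat_lit 1) (nat_lit 363) (nat_lit 1) (nat_lit 414) (nat_lit 310) (nat_lit 296)) (XT.nd (nat_lit 78) (nat_lit 0) (nat_lit 0) (XT.lf (nat_lit 1368) (nat_lit 551074689) (nat_lit 0) (nat_lit 248233690) (nat_lit 1292) (nat_lit 551074689) (nat_lit 382) (nat_lit 1) (nat_lit 364) (nat_lit 1) (nat_lit 381) (nat_lit 1) (nat_lit 415) (nat_lit 310) (nat_lit 295)) (XT.lf (nat_lit 1368) (nat_lit 989499780) (nat_lit 76) (nat_lit 171295831) (nat_lit 0) (nat_lit 171295831) (nat_lit 382) (nat_lit 1) (nat_lit 365) (nat_lit 1) (nat_lit 364) (nat_lit 1) (nat_lit 416) (nat_lit 310) (nat_lit 294))))))))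
noncomputable def ec8 : XT := (XT.nd (nat_lit 1404) (nat_lit 0) (nat_lit 0) (XT.nd (nat_lit 702) (nat_lit 2584) (nat_lit 0) (XT.nd (nat_lit 312) (nat_lit 1824) (nat_lit 0) (XT.nd (nat_lit 156) (nat_lit 608) (nat_lit 0) (XT.nd (nat_lit 78) (nat_lit 836) (nat_lit 0) (XT.lf (nat_lit 76) (nat_lit 435167104) (nat_lit 0) (nat_lit 443713021) (nat_lit 1292) (nat_lit 435167104) (nat_lit 366) (nat_lit 1) (nat_lit 365) (nat_lit 1) (nat_lit 382) (nat_lit 1) (nat_lit 417) (nat_lit 310) (nat_lit 293)) (XT.lf (nat_lit 912) (nat_lit 750289352) (nat_lit 0) (nat_lit 273056261) (nat_lit 836) (nat_lit 273056261) (nat_lit 366) (nat_lit 1) (nat_lit 354) (nat_lit 1) (nat_lit 365) (nat_lit 1) (nat_lit 418) (nat_lit 310) (nat_lit 292))) (XT.nd (nat_lit 78) (nat_lit 608) (nat_lit 0) (XT.lf (nat_lit 76) (nat_lit 313156170) (nat_lit 0) (nat_lit 652741755) (nat_lit 912) (nat_lit 313156170) (nat_lit 355) (nat_lit 1) (nat_lit 354)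 (nat_lit 1) (nat_lit 366) (nat_lit 1) (nat_lit 419) (nat_lit 310) (nat_lit 291)) (XT.lf (nat_lit 684) (nat_lit 499546880) (nat_lit 0) (nat_lit 381239159) (nat_lit 608) (nat_lit 381239159) (nat_lit 355) (nat_lit 1) (nat_lit 346) (nat_lit 1) (nat_lit 354) (nat_lit 1) (nat_lit 420) (nat_lit 310) (nat_lit 290)))) (XT.nd (nat_lit 156) (nat_lit 1216) (nat_lit 0) (XT.nd (nat_lit 78) (nat_lit 608) (nat_lit 0) (XT.lf (nat_lit 76) (nat_lit 185763804) (nat_lit 0) (nat_lit 873820622) (nat_lit 684) (nat_lit 185763804) (nat_lit 347) (nat_lit 1) (nat_lit 346) (nat_lit 1) (nat_lit 355) (nat_lit 1) (nat_lit 421) (nat_lit 310) (nat_lit 289)) (XT.lf (nat_lit 684) (nat_lit 238670185) (nat_lit 0) (nat_lit 495118647) (nat_lit 608) (nat_lit 495118647) (nat_lit 347) (nat_lit 1) (nat_lit 338) (nat_lit 1) (nat_lit 346) (nat_lit 1) (nat_lit 422) (nat_lit 310) (nat_lit 288))) (XT.nd (nat_lit 78) (nat_lit 1216) (nat_lit 0) (XT.lf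 (nat_lit 76) (nat_lit 53659662) (nat_lit 0) (nat_lit 1105557434) (nat_lit 684) (nat_lit 53659662) (nat_lit 339) (nat_lit 1) (nat_lit 338) (nat_lit 1) (nat_lit 347) (nat_lit 1) (nat_lit 423) (nat_lit 310) (nat_lit 287)) (XT.nd (nat_lit 78) (nat_lit 608) (nat_lit 0) (XT.lf (nat_lit 76) (nat_lit 583274758) (nat_lit 0) (nat_lit 30438789) (nat_lit 608) (nat_lit 583274758) (nat_lit 331) (nat_lit 1) (nat_lit 330) (nat_lit 1) (nat_lit 338) (nat_lit 1) (nat_lit 424) (nat_lit 310) (nat_lit 286)) (XT.lf (nat_lit 684) (nat_lit 1018040781) (nat_lit 0) (nat_lit 81726376) (nat_lit 608) (nat_lit 81726376) (nat_lit 331) (nat_lit 1) (nat_lit 322) (nat_lit 1) (nat_lit 330) (nat_lit 1) (nat_lit 425) (nat_lit 310) (nat_lit 285)))))) (XT.nd (nat_lit 312) (nat_lit 1520) (nat_lit 0) (XT.nd (nat_lit 156) (nat_lit 532) (nat_lit 0) (XT.nd (nat_lit 78) (nat_lit 532) (nat_lit 0) (XT.lf (nat_lit 76) (nat_lit 431888965) (nat_lit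 0) (nat_lit 302378555) (nat_lit 684) (nat_lit 431888965) (nat_lit 323) (nat_lit 1) (nat_lit 322) (nat_lit 1) (nat_lit 331) (nat_lit 1) (nat_lit 426) (nat_lit 310) (nat_lit 284)) (XT.lf (nat_lit 608) (nat_lit 711043676) (nat_lit 0) (nat_lit 220068063) (nat_lit 532) (nat_lit 220068063) (nat_lit 323) (nat_lit 1) (nat_lit 315) (nat_lit 1) (nat_lit 322) (nat_lit 1) (nat_lit 427) (nat_lit 310) (nat_lit 283))) (XT.nd (nat_lit 78) (nat_lit 532) (nat_lit 0) (XT.lf (nat_lit 76) (nat_lit 277858978) (nat_lit 0) (nat_lit 580716327) (nat_lit 608) (nat_lit 277858978) (nat_lit 316) (nat_lit 1) (nat_lit 315) (nat_lit 1) (nat_lit 323) (nat_lit 1) (nat_lit 428) (nat_lit 310) (nat_lit 282)) (XT.lf (nat_lit 608) (nat_lit 399222989) (nat_lit 0) (nat_lit 361364716) (nat_lit 532) (nat_lit 361364716) (nat_lit 316) (nat_lit 1) (nat_lit 308) (nat_lit 1) (nat_lit 315) (nat_lit 1) (nat_lit 429) (nat_lit 310) (nat_lit 281)))) (XT.nd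 (nat_lit 156) (nat_lit 1064) (nat_lit 0) (XT.nd (nat_lit 78) (nat_lit 456) (nat_lit 0) (XT.lf (nat_lit 76) (nat_lit 121666712) (nat_lit 0) (nat_lit 864443809) (nat_lit 608) (nat_lit 121666712) (nat_lit 309) (nat_lit 1) (nat_lit 308) (nat_lit 1) (nat_lit 316) (nat_lit 1) (nat_lit 430) (nat_lit 310) (nat_lit 280)) (XT.lf (nat_lit 532) (nat_lit 83509394) (nat_lit 0) (nat_lit 505129339) (nat_lit 456) (nat_lit 505129339) (nat_lit 309) (nat_lit 1) (nat_lit 302) (nat_lit 1) (nat_lit 308) (nat_lit 1) (nat_lit 431) (nat_lit 310) (nat_lit 279))) (XT.nd (nat_lit 78) (nat_lit 456) (nat_lit 0) (XT.lf (nat_lit 608) (nat_lit 1008325104) (nat_lit 0) (nat_lit 35887871) (nat_lit 532) (nat_lit 35887871) (nat_lit 302) (nat_lit 1) (nat_lit 294) (nat_lit 1) (nat_lit 301) (nat_lit 1) (nat_lit 432) (nat_lit 310) (nat_lit 278)) (XT.nd (nat_lit 78) (nat_lit 456) (nat_lit 0) (XT.lf (nat_lit 76) (nat_lit 417934495) (nat_lit 0)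 (nat_lit 230648542) (nat_lit 608) (nat_lit 417934495) (nat_lit 295) (nat_lit 1) (nat_lit 294) (nat_lit 1) (nat_lit 302) (nat_lit 1) (nat_lit 433) (nat_lit 310) (nat_lit 277)) (XT.lf (nat_lit 532) (nat_lit 666174612) (nat_lit 0) (nat_lit 193544689) (nat_lit 456) (nat_lit 193544689) (nat_lit 295) (nat_lit 1) (nat_lit 288) (nat_lit 1) (nat_lit 294) (nat_lit 1) (nat_lit 434) (nat_lit 310) (nat_lit 276))))))) (XT.nd (nat_lit 50856) (nat_lit 0) (nat_lit 5700) (XT.nd (nat_lit 50466) (nat_lit 0) (nat_lit 6612) (XT.nd (nat_lit 50310) (nat_lit 0) (nat_lit 6536) (XT.nd (nat_lit 50232) (nat_lit 0) (nat_lit 6536) (XT.lf (nat_lit 76) (nat_lit 247413499) (nat_lit 0) (nat_lit 545377362) (nat_lit 532) (nat_lit 247413499) (nat_lit 289) (nat_lit 1) (nat_lit 288) (nat_lit 1) (nat_lit 295) (nat_lit 1) (nat_lit 435) (nat_lit 310) (nat_lit 275)) (XT.lf (nat_lit 1292) (nat_lit 158265101) (nat_lit 0) (nat_lit 544505553) (nat_lit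 1292) (nat_lit 158265101) (nat_lit 391) (nat_lit 1) (nat_lit 374) (nat_lit 0) (nat_lit 391) (nat_lit 0) (nat_lit 398) (nat_lit 311) (nat_lit 311))) (XT.nd (nat_lit 78) (nat_lit 0) (nat_lit 76) (XT.lf (nat_lit 1292) (nat_lit 618502790) (nat_lit 76) (nat_lit 539167263) (nat_lit 0) (nat_lit 539167263) (nat_lit 391) (nat_lit 1) (nat_lit 375) (nat_lit 1) (nat_lit 374) (nat_lit 0) (nat_lit 399) (nat_lit 311) (nat_lit 310)) (XT.lf (nat_lit 1292) (nat_lit 299122696) (nat_lit 0) (nat_lit 1073914344) (nat_lit 1216) (nat_lit 299122696) (nat_lit 392) (nat_lit 1) (nat_lit 375) (nat_lit 1) (nat_lit 391) (nat_lit 1) (nat_lit 400) (nat_lit 311) (nat_lit 309)))) (XT.nd (nat_lit 156) (nat_lit 0) (nat_lit 76) (XT.nd (nat_lit 78) (nat_lit 0) (nat_lit 76) (XT.lf (nat_lit 1292) (nat_lit 568049444) (nat_lit 76) (nat_lit 539922408) (nat_lit 0) (nat_lit 539922408) (nat_lit 392) (nat_lit 1) (nat_lit 376) (nat_lit 1) (nat_lit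 375) (nat_lit 1) (nat_lit 401) (nat_lit 311) (nat_lit 308)) (XT.lf (nat_lit 1292) (nat_lit 266554368) (nat_lit 0) (nat_lit 1091062998) (nat_lit 1216) (nat_lit 266554368) (nat_lit 393) (nat_lit 1) (nat_lit 376) (nat_lit 1) (nat_lit 392) (nat_lit 1) (nat_lit 402) (nat_lit 311) (nat_lit 307))) (XT.nd (nat_lit 78) (nat_lit 0) (nat_lit 76) (XT.lf (nat_lit 1292) (nat_lit 488489024) (nat_lit 76) (nat_lit 556169788) (nat_lit 0) (nat_lit 556169788) (nat_lit 393) (nat_lit 1) (nat_lit 377) (nat_lit 1) (nat_lit 376) (nat_lit 1) (nat_lit 403) (nat_lit 311) (nat_lit 306)) (XT.nd (nat_lit 78) (nat_lit 0) (nat_lit 0) (XT.lf (nat_lit 1292) (nat_lit 220166195) (nat_lit 0) (nat_lit 1137692105) (nat_lit 1216) (nat_lit 220166195) (nat_lit 394) (nat_lit 1) (nat_lit 377) (nat_lit 1) (nat_lit 393) (nat_lit 1) (nat_lit 404) (nat_lit 311) (nat_lit 305)) (XT.lf (nat_lit 1292) (nat_lit 382424532) (nat_lit 76) (nat_lit 586567592)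 (nat_lit 0) (nat_lit 586567592) (nat_lit 394) (nat_lit 1) (nat_lit 378) (nat_lit 1) (nat_lit 377) (nat_lit 1) (nat_lit 405) (nat_lit 311) (nat_lit 304)))))) (XT.nd (nat_lit 390) (nat_lit 1140) (nat_lit 0) (XT.nd (nat_lit 156) (nat_lit 0) (nat_lit 76) (XT.nd (nat_lit 78) (nat_lit 0) (nat_lit 0) (XT.lf (nat_lit 1292) (nat_lit 161208465) (nat_lit 0) (nat_lit 1211222041) (nat_lit 1216) (nat_lit 161208465) (nat_lit 395) (nat_lit 1) (nat_lit 378) (nat_lit 1) (nat_lit 394) (nat_lit 1) (nat_lit 406) (nat_lit 311) (nat_lit 303)) (XT.lf (nat_lit 1292) (nat_lit 252282395) (nat_lit 76) (nat_lit 629864215) (nat_lit 0) (nat_lit 629864215) (nat_lit 395) (nat_lit 1) (nat_lit 379) (nat_lit 1) (nat_lit 378) (nat_lit 1) (nat_lit 407) (nat_lit 311) (nat_lit 302))) (XT.nd (nat_lit 78) (nat_lit 0) (nat_lit 0) (XT.lf (nat_lit 1292) (nat_lit 90846384) (nat_lit 0) (nat_lit 1309247106) (nat_lit 1216) (nat_lit 90846384) (nat_lit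 396) (nat_lit 1) (nat_lit 379) (nat_lit 1) (nat_lit 395) (nat_lit 1) (nat_lit 408) (nat_lit 311) (nat_lit 301)) (XT.nd (nat_lit 78) (nat_lit 0) (nat_lit 76) (XT.lf (nat_lit 1292) (nat_lit 100323395) (nat_lit 76) (nat_lit 684892694) (nat_lit 0) (nat_lit 684892694) (nat_lit 396) (nat_lit 1) (nat_lit 380) (nat_lit 1) (nat_lit 379) (nat_lit 1) (nat_lit 409) (nat_lit 311) (nat_lit 300)) (XT.lf (nat_lit 1292) (nat_lit 10165351) (nat_lit 0) (nat_lit 1429524790) (nat_lit 1216) (nat_lit 10165351) (nat_lit 397) (nat_lit 1) (nat_lit 380) (nat_lit 1) (nat_lit 396) (nat_lit 1) (nat_lit 410) (nat_lit 311) (nat_lit 299))))) (XT.nd (nat_lit 156) (nat_lit 0) (nat_lit 76) (XT.nd (nat_lit 78) (nat_lit 0) (nat_lit 0) (XT.lf (nat_lit 1368) (nat_lit 679904254) (nat_lit 0) (nat_lit 69954817) (nat_lit 1292) (nat_lit 679904254) (nat_lit 381) (nat_lit 1) (nat_lit 363) (nat_lit 1) (nat_lit 380) (nat_lit 1) (nat_lit 411) (nat_lit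 311) (nat_lit 298)) (XT.lf (nat_lit 1368) (nat_lit 1252141947) (nat_lit 76) (nat_lit 79041501) (nat_lit 0) (nat_lit 79041501) (nat_lit 381) (nat_lit 1) (nat_lit 364) (nat_lit 1) (nat_lit 363) (nat_lit 1) (nat_lit 412) (nat_lit 311) (nat_lit 297))) (XT.nd (nat_lit 78) (nat_lit 0) (nat_lit 0) (XT.lf (nat_lit 1368) (nat_lit 567606930) (nat_lit 0) (nat_lit 255680701) (nat_lit 1292) (nat_lit 567606930) (nat_lit 382) (nat_lit 1) (nat_lit 364) (nat_lit 1) (nat_lit 381) (nat_lit 1) (nat_lit 413) (nat_lit 311) (nat_lit 296)) (XT.nd (nat_lit 78) (nat_lit 0) (nat_lit 76) (XT.lf (nat_lit 1368) (nat_lit 1019184773) (nat_lit 76) (nat_lit 176434706) (nat_lit 0) (nat_lit 176434706) (nat_lit 382) (nat_lit 1) (nat_lit 365) (nat_lit 1) (nat_lit 364) (nat_lit 1) (nat_lit 414) (nat_lit 311) (nat_lit 295)) (XT.lf (nat_lit 76) (nat_lit 448222117) (nat_lit 0) (nat_lit 457024412) (nat_lit 1292) (nat_lit 448222117) (nat_lit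 366) (nat_lit 1) (nat_lit 365) (nat_lit 1) (nat_lit 382) (nat_lit 1) (nat_lit 415) (nat_lit 311) (nat_lit 294))))))))
noncomputable def ec9 : XT := (XT.nd (nat_lit 1482) (nat_lit 0) (nat_lit 0) (XT.nd (nat_lit 702) (nat_lit 3040) (nat_lit 0) (XT.nd (nat_lit 312) (nat_lit 1824) (nat_lit 0) (XT.nd (nat_lit 156) (nat_lit 608) (nat_lit 0) (XT.nd (nat_lit 78) (nat_lit 0) (nat_lit 0) (XT.lf (nat_lit 912) (nat_lit 772798032) (nat_lit 0) (nat_lit 281247949) (nat_lit 836) (nat_lit 281247949) (nat_lit 366) (nat_lit 1) (nat_lit 354) (nat_lit 1) (nat_lit 365) (nat_lit 1) (nat_lit 416) (nat_lit 311) (nat_lit 293)) (XT.lf (nat_lit 76) (nat_lit 322550855) (nat_lit 0) (nat_lit 672324007) (nat_lit 912) (nat_lit 322550855) (nat_lit 355) (nat_lit 1) (nat_lit 354) (nat_lit 1) (nat_lit 366) (nat_lit 1) (nat_lit 417) (nat_lit 311) (nat_lit 292))) (XT.nd (nat_lit 78) (nat_lit 0) (nat_lit 0) (XT.lf (nat_lit 684) (nat_lit 514533286)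 (nat_lit 0) (nat_lit 392676334) (nat_lit 608) (nat_lit 392676334) (nat_lit 355) (nat_lit 1) (nat_lit 346) (nat_lit 1) (nat_lit 354) (nat_lit 1) (nat_lit 418) (nat_lit 311) (nat_lit 291)) (XT.lf (nat_lit 76) (nat_lit 191336718) (nat_lit 0) (nat_lit 900035241) (nat_lit 684) (nat_lit 191336718) (nat_lit 347) (nat_lit 1) (nat_lit 346) (nat_lit 1) (nat_lit 355) (nat_lit 1) (nat_lit 419) (nat_lit 311) (nat_lit 290)))) (XT.nd (nat_lit 156) (nat_lit 1216) (nat_lit 0) (XT.nd (nat_lit 78) (nat_lit 0) (nat_lit 0) (XT.lf (nat_lit 684) (nat_lit 245830291) (nat_lit 0) (nat_lit 509972207) (nat_lit 608) (nat_lit 509972207) (nat_lit 347) (nat_lit 1) (nat_lit 338) (nat_lit 1) (nat_lit 346) (nat_lit 1) (nat_lit 420) (nat_lit 311) (nat_lit 289)) (XT.lf (nat_lit 76) (nat_lit 55269452) (nat_lit 0) (nat_lit 1138724157) (nat_lit 684) (nat_lit 55269452) (nat_lit 339) (nat_lit 1) (nat_lit 338) (nat_lit 1) (nat_lit 347) (nat_lit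 1) (nat_lit 421) (nat_lit 311) (nat_lit 288))) (XT.nd (nat_lit 78) (nat_lit 608) (nat_lit 0) (XT.lf (nat_lit 76) (nat_lit 600773001) (nat_lit 0) (nat_lit 31351952) (nat_lit 608) (nat_lit 600773001) (nat_lit 331) (nat_lit 1) (nat_lit 330) (nat_lit 1) (nat_lit 338) (nat_lit 1) (nat_lit 422) (nat_lit 311) (nat_lit 287)) (XT.nd (nat_lit 78) (nat_lit 0) (nat_lit 0) (XT.lf (nat_lit 684) (nat_lit 1048582004) (nat_lit 0) (nat_lit 84178168) (nat_lit 608) (nat_lit 84178168) (nat_lit 331) (nat_lit 1) (nat_lit 322) (nat_lit 1) (nat_lit 330) (nat_lit 1) (nat_lit 423) (nat_lit 311) (nat_lit 286)) (XT.lf (nat_lit 76) (nat_lit 444845634) (nat_lit 0) (nat_lit 311449912) (nat_lit 684) (nat_lit 444845634) (nat_lit 323) (nat_lit 1) (nat_lit 322) (nat_lit 1) (nat_lit 331) (nat_lit 1) (nat_lit 424) (nat_lit 311) (nat_lit 285)))))) (XT.nd (nat_lit 390) (nat_lit 1520) (nat_lit 0) (XT.nd (nat_lit 156) (nat_lit 988) (nat_lit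 0) (XT.nd (nat_lit 78) (nat_lit 0) (nat_lit 0) (XT.lf (nat_lit 608) (nat_lit 732374986) (nat_lit 0) (nat_lit 226670105) (nat_lit 532) (nat_lit 226670105) (nat_lit 323) (nat_lit 1) (nat_lit 315) (nat_lit 1) (nat_lit 322) (nat_lit 1) (nat_lit 425) (nat_lit 311) (nat_lit 284)) (XT.lf (nat_lit 76) (nat_lit 286194747) (nat_lit 0) (nat_lit 598137817) (nat_lit 608) (nat_lit 286194747) (nat_lit 316) (nat_lit 1) (nat_lit 315) (nat_lit 1) (nat_lit 323) (nat_lit 1) (nat_lit 426) (nat_lit 311) (nat_lit 283))) (XT.nd (nat_lit 78) (nat_lit 456) (nat_lit 0) (XT.lf (nat_lit 608) (nat_lit 411199678) (nat_lit 0) (nat_lit 372205657) (nat_lit 532) (nat_lit 372205657) (nat_lit 316) (nat_lit 1) (nat_lit 308) (nat_lit 1) (nat_lit 315) (nat_lit 1) (nat_lit 427) (nat_lit 311) (nat_lit 282)) (XT.nd (nat_lit 78) (nat_lit 456) (nat_lit 0) (XT.lf (nat_lit 76) (nat_lit 125316713) (nat_lit 0) (nat_lit 890377124) (nat_lit 608) (nat_lit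 125316713) (nat_lit 309) (nat_lit 1) (nat_lit 308) (nat_lit 1) (nat_lit 316) (nat_lit 1) (nat_lit 428) (nat_lit 311) (nat_lit 281)) (XT.lf (nat_lit 532) (nat_lit 86014676) (nat_lit 0) (nat_lit 520283220) (nat_lit 456) (nat_lit 520283220) (nat_lit 309) (nat_lit 1) (nat_lit 302) (nat_lit 1) (nat_lit 308) (nat_lit 1) (nat_lit 429) (nat_lit 311) (nat_lit 280))))) (XT.nd (nat_lit 156) (nat_lit 912) (nat_lit 0) (XT.nd (nat_lit 78) (nat_lit 0) (nat_lit 0) (XT.lf (nat_lit 608) (nat_lit 1038574858) (nat_lit 0) (nat_lit 36964507) (nat_lit 532) (nat_lit 36964507) (nat_lit 302) (nat_lit 1) (nat_lit 294) (nat_lit 1) (nat_lit 301) (nat_lit 1) (nat_lit 430) (nat_lit 311) (nat_lit 279)) (XT.lf (nat_lit 76) (nat_lit 430472530) (nat_lit 0) (nat_lit 237567998) (nat_lit 608) (nat_lit 430472530) (nat_lit 295) (nat_lit 1) (nat_lit 294) (nat_lit 1) (nat_lit 302) (nat_lit 1) (nat_lit 431) (nat_lit 311) (nat_lit 278))) (XT.nd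 (nat_lit 78) (nat_lit 456) (nat_lit 0) (XT.lf (nat_lit 532) (nat_lit 686159850) (nat_lit 0) (nat_lit 199351029) (nat_lit 456) (nat_lit 199351029) (nat_lit 295) (nat_lit 1) (nat_lit 288) (nat_lit 1) (nat_lit 294) (nat_lit 1) (nat_lit 432) (nat_lit 311) (nat_lit 277)) (XT.nd (nat_lit 78) (nat_lit 456) (nat_lit 0) (XT.lf (nat_lit 76) (nat_lit 254835904) (nat_lit 0) (nat_lit 561738683) (nat_lit 532) (nat_lit 254835904) (nat_lit 289) (nat_lit 1) (nat_lit 288) (nat_lit 1) (nat_lit 295) (nat_lit 1) (nat_lit 433) (nat_lit 311) (nat_lit 276)) (XT.lf (nat_lit 532) (nat_lit 332816953) (nat_lit 0) (nat_lit 362686752) (nat_lit 456) (nat_lit 362686752) (nat_lit 289) (nat_lit 1) (nat_lit 282) (nat_lit 1) (nat_lit 288) (nat_lit 1) (nat_lit 434) (nat_lit 311) (nat_lit 275))))))) (XT.nd (nat_lit 50700) (nat_lit 0) (nat_lit 6156) (XT.nd (nat_lit 50310) (nat_lit 0) (nat_lit 7068) (XT.nd (nat_lit 50154) (nat_lit 0) (nat_lit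 6992) (XT.nd (nat_lit 50076) (nat_lit 0) (nat_lit 6992) (XT.lf (nat_lit 76) (nat_lit 78908996) (nat_lit 0) (nat_lit 887441502) (nat_lit 532) (nat_lit 78908996) (nat_lit 283) (nat_lit 1) (nat_lit 282) (nat_lit 1) (nat_lit 289) (nat_lit 1) (nat_lit 435) (nat_lit 311) (nat_lit 274)) (XT.lf (nat_lit 1292) (nat_lit 163013054) (nat_lit 0) (nat_lit 560840720) (nat_lit 1292) (nat_lit 163013054) (nat_lit 391) (nat_lit 1) (nat_lit 374) (nat_lit 0) (nat_lit 391) (nat_lit 0) (nat_lit 396) (nat_lit 312) (nat_lit 312))) (XT.nd (nat_lit 78) (nat_lit 0) (nat_lit 76) (XT.lf (nat_lit 1292) (nat_lit 637057874) (nat_lit 76) (nat_lit 555342281) (nat_lit 0) (nat_lit 555342281) (nat_lit 391) (nat_lit 1) (nat_lit 375) (nat_lit 1) (nat_lit 374) (nat_lit 0) (nat_lit 397) (nat_lit 312) (nat_lit 311)) (XT.lf (nat_lit 1292) (nat_lit 308096377) (nat_lit 0) (nat_lit 1106131774) (nat_lit 1216) (nat_lit 308096377) (nat_lit 392) (nat_lit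 1) (nat_lit 375) (nat_lit 1) (nat_lit 391) (nat_lit 1) (nat_lit 398) (nat_lit 312) (nat_lit 310)))) (XT.nd (nat_lit 156) (nat_lit 0) (nat_lit 76) (XT.nd (nat_lit 78) (nat_lit 0) (nat_lit 76) (XT.lf (nat_lit 1292) (nat_lit 585090927) (nat_lit 76) (nat_lit 556120081) (nat_lit 0) (nat_lit 556120081) (nat_lit 392) (nat_lit 1) (nat_lit 376) (nat_lit 1) (nat_lit 375) (nat_lit 1) (nat_lit 399) (nat_lit 312) (nat_lit 309)) (XT.lf (nat_lit 1292) (nat_lit 274550999) (nat_lit 0) (nat_lit 1123794888) (nat_lit 1216) (nat_lit 274550999) (nat_lit 393) (nat_lit 1) (nat_lit 376) (nat_lit 1) (nat_lit 392) (nat_lit 1) (nat_lit 400) (nat_lit 312) (nat_lit 308))) (XT.nd (nat_lit 78) (nat_lit 0) (nat_lit 76) (XT.lf (nat_lit 1292) (nat_lit 503143695) (nat_lit 76) (nat_lit 572854882) (nat_lit 0) (nat_lit 572854882) (nat_lit 393) (nat_lit 1) (nat_lit 377) (nat_lit 1) (nat_lit 376) (nat_lit 1) (nat_lit 401) (nat_lit 312) (nat_lit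 307)) (XT.nd (nat_lit 78) (nat_lit 0) (nat_lit 0) (XT.lf (nat_lit 1292) (nat_lit 226771181) (nat_lit 0) (nat_lit 1171822868) (nat_lit 1216) (nat_lit 226771181) (nat_lit 394) (nat_lit 1) (nat_lit 377) (nat_lit 1) (nat_lit 393) (nat_lit 1) (nat_lit 402) (nat_lit 312) (nat_lit 306)) (XT.lf (nat_lit 1292) (nat_lit 393897268) (nat_lit 76) (nat_lit 604164620) (nat_lit 0) (nat_lit 604164620) (nat_lit 394) (nat_lit 1) (nat_lit 378) (nat_lit 1) (nat_lit 377) (nat_lit 1) (nat_lit 403) (nat_lit 312) (nat_lit 305)))))) (XT.nd (nat_lit 390) (nat_lit 1140) (nat_lit 0) (XT.nd (nat_lit 156) (nat_lit 0) (nat_lit 76) (XT.nd (nat_lit 78) (nat_lit 0) (nat_lit 0) (XT.lf (nat_lit 1292) (nat_lit 166044719) (nat_lit 0) (nat_lit 1247558702) (nat_lit 1216) (nat_lit 166044719) (nat_lit 395) (nat_lit 1) (nat_lit 378) (nat_lit 1) (nat_lit 394) (nat_lit 1) (nat_lit 404) (nat_lit 312) (nat_lit 304)) (XT.lf (nat_lit 1292) (nat_lit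 259850867) (nat_lit 76) (nat_lit 648760142) (nat_lit 0) (nat_lit 648760142) (nat_lit 395) (nat_lit 1) (nat_lit 379) (nat_lit 1) (nat_lit 378) (nat_lit 1) (nat_lit 405) (nat_lit 312) (nat_lit 303))) (XT.nd (nat_lit 78) (nat_lit 0) (nat_lit 0) (XT.lf (nat_lit 1292) (nat_lit 93571776) (nat_lit 0) (nat_lit 1348524519) (nat_lit 1216) (nat_lit 93571776) (nat_lit 396) (nat_lit 1) (nat_lit 379) (nat_lit 1) (nat_lit 395) (nat_lit 1) (nat_lit 406) (nat_lit 312) (nat_lit 302)) (XT.nd (nat_lit 78) (nat_lit 0) (nat_lit 76) (XT.lf (nat_lit 1292) (nat_lit 103333097) (nat_lit 76) (nat_lit 705439475) (nat_lit 0) (nat_lit 705439475) (nat_lit 396) (nat_lit 1) (nat_lit 380) (nat_lit 1) (nat_lit 379) (nat_lit 1) (nat_lit 407) (nat_lit 312) (nat_lit 301)) (XT.lf (nat_lit 1292) (nat_lit 10470311) (nat_lit 0) (nat_lit 1472410534) (nat_lit 1216) (nat_lit 10470311) (nat_lit 397) (nat_lit 1) (nat_lit 380) (nat_lit 1) (nat_lit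 396) (nat_lit 1) (nat_lit 408) (nat_lit 312) (nat_lit 300))))) (XT.nd (nat_lit 156) (nat_lit 0) (nat_lit 76) (XT.nd (nat_lit 78) (nat_lit 0) (nat_lit 0) (XT.lf (nat_lit 1368) (nat_lit 700301382) (nat_lit 0) (nat_lit 72053461) (nat_lit 1292) (nat_lit 700301382) (nat_lit 381) (nat_lit 1) (nat_lit 363) (nat_lit 1) (nat_lit 380) (nat_lit 1) (nat_lit 409) (nat_lit 312) (nat_lit 299)) (XT.lf (nat_lit 1368) (nat_lit 1289706206) (nat_lit 76) (nat_lit 81412746) (nat_lit 0) (nat_lit 81412746) (nat_lit 381) (nat_lit 1) (nat_lit 364) (nat_lit 1) (nat_lit 363) (nat_lit 1) (nat_lit 410) (nat_lit 312) (nat_lit 298))) (XT.nd (nat_lit 78) (nat_lit 0) (nat_lit 0) (XT.lf (nat_lit 1368) (nat_lit 584635138) (nat_lit 0) (nat_lit 263351122) (nat_lit 1292) (nat_lit 584635138) (nat_lit 382) (nat_lit 1) (nat_lit 364) (nat_lit 1) (nat_lit 381) (nat_lit 1) (nat_lit 411) (nat_lit 312) (nat_lit 297)) (XT.nd (nat_lit 78) (nat_lit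 0) (nat_lit 76) (XT.lf (nat_lit 1368) (nat_lit 1049760316) (nat_lit 76) (nat_lit 181727747) (nat_lit 0) (nat_lit 181727747) (nat_lit 382) (nat_lit 1) (nat_lit 365) (nat_lit 1) (nat_lit 364) (nat_lit 1) (nat_lit 412) (nat_lit 312) (nat_lit 296)) (XT.lf (nat_lit 76) (nat_lit 461668781) (nat_lit 0) (nat_lit 470735144) (nat_lit 1292) (nat_lit 461668781) (nat_lit 366) (nat_lit 1) (nat_lit 365) (nat_lit 1) (nat_lit 382) (nat_lit 1) (nat_lit 413) (nat_lit 312) (nat_lit 295))))))))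
noncomputable def ec10 : XT := (XT.nd (nat_lit 1482) (nat_lit 912) (nat_lit 0) (XT.nd (nat_lit 702) (nat_lit 3040) (nat_lit 0) (XT.nd (nat_lit 312) (nat_lit 1824) (nat_lit 0) (XT.nd (nat_lit 156) (nat_lit 608) (nat_lit 0) (XT.nd (nat_lit 78) (nat_lit 0) (nat_lit 0) (XT.lf (nat_lit 912) (nat_lit 795981973) (nat_lit 0) (nat_lit 289685387) (nat_lit 836) (nat_lit 289685387) (nat_lit 366) (nat_lit 1) (nat_lit 354) (nat_lit 1) (nat_lit 365) (nat_lit 1) (nat_lit 414) (nat_lit 312) (nat_lit 294)) (XT.lf (nat_lit 76) (nat_lit 332227380) (nat_lit 0) (nat_lit 692493728) (nat_lit 912) (nat_lit 332227380) (nat_lit 355) (nat_lit 1) (nat_lit 354) (nat_lit 1) (nat_lit 366) (nat_lit 1) (nat_lit 415) (nat_lit 312) (nat_lit 293))) (XT.nd (nat_lit 78) (nat_lit 0) (nat_lit 0) (XT.lf (nat_lit 684) (nat_lit 529969284) (nat_lit 0) (nat_lit 404456624) (nat_lit 608) (nat_lit 404456624) (nat_lit 355) (nat_lit 1) (nat_lit 346)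 (nat_lit 1) (nat_lit 354) (nat_lit 1) (nat_lit 416) (nat_lit 312) (nat_lit 292)) (XT.lf (nat_lit 76) (nat_lit 197076820) (nat_lit 0) (nat_lit 927036298) (nat_lit 684) (nat_lit 197076820) (nat_lit 347) (nat_lit 1) (nat_lit 346) (nat_lit 1) (nat_lit 355) (nat_lit 1) (nat_lit 417) (nat_lit 312) (nat_lit 291)))) (XT.nd (nat_lit 156) (nat_lit 1216) (nat_lit 0) (XT.nd (nat_lit 78) (nat_lit 0) (nat_lit 0) (XT.lf (nat_lit 684) (nat_lit 253205200) (nat_lit 0) (nat_lit 525271373) (nat_lit 608) (nat_lit 525271373) (nat_lit 347) (nat_lit 1) (nat_lit 338) (nat_lit 1) (nat_lit 346) (nat_lit 1) (nat_lit 418) (nat_lit 312) (nat_lit 290)) (XT.lf (nat_lit 76) (nat_lit 56927536) (nat_lit 0) (nat_lit 1172885882) (nat_lit 684) (nat_lit 56927536) (nat_lit 339) (nat_lit 1) (nat_lit 338) (nat_lit 1) (nat_lit 347) (nat_lit 1) (nat_lit 419) (nat_lit 312) (nat_lit 289))) (XT.nd (nat_lit 78) (nat_lit 608) (nat_lit 0) (XT.lf (nat_lit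 76) (nat_lit 618796191) (nat_lit 0) (nat_lit 32292511) (nat_lit 608) (nat_lit 618796191) (nat_lit 331) (nat_lit 1) (nat_lit 330) (nat_lit 1) (nat_lit 338) (nat_lit 1) (nat_lit 420) (nat_lit 312) (nat_lit 288)) (XT.nd (nat_lit 78) (nat_lit 0) (nat_lit 0) (XT.lf (nat_lit 684) (nat_lit 1080039464) (nat_lit 0) (nat_lit 86703513) (nat_lit 608) (nat_lit 86703513) (nat_lit 331) (nat_lit 1) (nat_lit 322) (nat_lit 1) (nat_lit 330) (nat_lit 1) (nat_lit 421) (nat_lit 312) (nat_lit 287)) (XT.lf (nat_lit 76) (nat_lit 458191003) (nat_lit 0) (nat_lit 320793409) (nat_lit 684) (nat_lit 458191003) (nat_lit 323) (nat_lit 1) (nat_lit 322) (nat_lit 1) (nat_lit 331) (nat_lit 1) (nat_lit 422) (nat_lit 312) (nat_lit 286)))))) (XT.nd (nat_lit 390) (nat_lit 1520) (nat_lit 0) (XT.nd (nat_lit 156) (nat_lit 988) (nat_lit 0) (XT.nd (nat_lit 78) (nat_lit 0) (nat_lit 0) (XT.lf (nat_lit 608) (nat_lit 754346236) (nat_lit 0) (nat_lit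 233470208) (nat_lit 532) (nat_lit 233470208) (nat_lit 323) (nat_lit 1) (nat_lit 315) (nat_lit 1) (nat_lit 322) (nat_lit 1) (nat_lit 423) (nat_lit 312) (nat_lit 285)) (XT.lf (nat_lit 76) (nat_lit 294780589) (nat_lit 0) (nat_lit 616081952) (nat_lit 608) (nat_lit 294780589) (nat_lit 316) (nat_lit 1) (nat_lit 315) (nat_lit 1) (nat_lit 323) (nat_lit 1) (nat_lit 424) (nat_lit 312) (nat_lit 284))) (XT.nd (nat_lit 78) (nat_lit 456) (nat_lit 0) (XT.lf (nat_lit 608) (nat_lit 423535669) (nat_lit 0) (nat_lit 383371827) (nat_lit 532) (nat_lit 383371827) (nat_lit 316) (nat_lit 1) (nat_lit 308) (nat_lit 1) (nat_lit 315) (nat_lit 1) (nat_lit 425) (nat_lit 312) (nat_lit 283)) (XT.nd (nat_lit 78) (nat_lit 456) (nat_lit 0) (XT.lf (nat_lit 76) (nat_lit 129076215) (nat_lit 0) (nat_lit 917088437) (nat_lit 608) (nat_lit 129076215) (nat_lit 309) (nat_lit 1) (nat_lit 308) (nat_lit 1) (nat_lit 316) (nat_lit 1) (nat_lit 426)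 (nat_lit 312) (nat_lit 282)) (XT.lf (nat_lit 532) (nat_lit 88595116) (nat_lit 0) (nat_lit 535891716) (nat_lit 456) (nat_lit 535891716) (nat_lit 309) (nat_lit 1) (nat_lit 302) (nat_lit 1) (nat_lit 308) (nat_lit 1) (nat_lit 427) (nat_lit 312) (nat_lit 281))))) (XT.nd (nat_lit 156) (nat_lit 912) (nat_lit 0) (XT.nd (nat_lit 78) (nat_lit 0) (nat_lit 0) (XT.lf (nat_lit 608) (nat_lit 1069732103) (nat_lit 0) (nat_lit 38073442) (nat_lit 532) (nat_lit 38073442) (nat_lit 302) (nat_lit 1) (nat_lit 294) (nat_lit 1) (nat_lit 301) (nat_lit 1) (nat_lit 428) (nat_lit 312) (nat_lit 280)) (XT.lf (nat_lit 76) (nat_lit 443386706) (nat_lit 0) (nat_lit 244695038) (nat_lit 608) (nat_lit 443386706) (nat_lit 295) (nat_lit 1) (nat_lit 294) (nat_lit 1) (nat_lit 302) (nat_lit 1) (nat_lit 429) (nat_lit 312) (nat_lit 279))) (XT.nd (nat_lit 78) (nat_lit 456) (nat_lit 0) (XT.lf (nat_lit 532) (nat_lit 706744645) (nat_lit 0) (nat_lit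 205331560) (nat_lit 456) (nat_lit 205331560) (nat_lit 295) (nat_lit 1) (nat_lit 288) (nat_lit 1) (nat_lit 294) (nat_lit 1) (nat_lit 430) (nat_lit 312) (nat_lit 278)) (XT.nd (nat_lit 78) (nat_lit 456) (nat_lit 0) (XT.lf (nat_lit 76) (nat_lit 262480981) (nat_lit 0) (nat_lit 578590843) (nat_lit 532) (nat_lit 262480981) (nat_lit 289) (nat_lit 1) (nat_lit 288) (nat_lit 1) (nat_lit 295) (nat_lit 1) (nat_lit 431) (nat_lit 312) (nat_lit 277)) (XT.lf (nat_lit 532) (nat_lit 342801462) (nat_lit 0) (nat_lit 373567354) (nat_lit 456) (nat_lit 373567354) (nat_lit 289) (nat_lit 1) (nat_lit 282) (nat_lit 1) (nat_lit 288) (nat_lit 1) (nat_lit 432) (nat_lit 312) (nat_lit 276))))))) (XT.nd (nat_lit 50544) (nat_lit 0) (nat_lit 7068) (XT.nd (nat_lit 50154) (nat_lit 0) (nat_lit 7904) (XT.nd (nat_lit 156) (nat_lit 456) (nat_lit 0) (XT.nd (nat_lit 78) (nat_lit 456) (nat_lit 0) (XT.lf (nat_lit 76) (nat_lit 81276266) (nat_lit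 0) (nat_lit 914064747) (nat_lit 532) (nat_lit 81276266) (nat_lit 283) (nat_lit 1) (nat_lit 282) (nat_lit 1) (nat_lit 289) (nat_lit 1) (nat_lit 433) (nat_lit 312) (nat_lit 275)) (XT.lf (nat_lit 76) (nat_lit 521214515) (nat_lit 0) (nat_lit 20990101) (nat_lit 456) (nat_lit 521214515) (nat_lit 277) (nat_lit 1) (nat_lit 276) (nat_lit 1) (nat_lit 282) (nat_lit 1) (nat_lit 434) (nat_lit 312) (nat_lit 274))) (XT.nd (nat_lit 49920) (nat_lit 0) (nat_lit 7904) (XT.lf (nat_lit 532) (nat_lit 852668530) (nat_lit 0) (nat_lit 98919695) (nat_lit 456) (nat_lit 98919695) (nat_lit 277) (nat_lit 1) (nat_lit 270) (nat_lit 1) (nat_lit 276) (nat_lit 1) (nat_lit 435) (nat_lit 312) (nat_lit 273)) (XT.lf (nat_lit 1292) (nat_lit 167903446) (nat_lit 0) (nat_lit 577665941) (nat_lit 1292) (nat_lit 167903446) (nat_lit 391) (nat_lit 1) (nat_lit 374) (nat_lit 0) (nat_lit 391) (nat_lit 0) (nat_lit 394) (nat_lit 313) (nat_lit 313))))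 (XT.nd (nat_lit 156) (nat_lit 0) (nat_lit 76) (XT.nd (nat_lit 78) (nat_lit 0) (nat_lit 76) (XT.lf (nat_lit 1292) (nat_lit 656169610) (nat_lit 76) (nat_lit 572002550) (nat_lit 0) (nat_lit 572002550) (nat_lit 391) (nat_lit 1) (nat_lit 375) (nat_lit 1) (nat_lit 374) (nat_lit 0) (nat_lit 395) (nat_lit 313) (nat_lit 312)) (XT.lf (nat_lit 1292) (nat_lit 317339268) (nat_lit 0) (nat_lit 1139315727) (nat_lit 1216) (nat_lit 317339268) (nat_lit 392) (nat_lit 1) (nat_lit 375) (nat_lit 1) (nat_lit 391) (nat_lit 1) (nat_lit 396) (nat_lit 313) (nat_lit 311))) (XT.nd (nat_lit 78) (nat_lit 0) (nat_lit 76) (XT.lf (nat_lit 1292) (nat_lit 602643655) (nat_lit 76) (nat_lit 572803683) (nat_lit 0) (nat_lit 572803683) (nat_lit 392) (nat_lit 1) (nat_lit 376) (nat_lit 1) (nat_lit 375) (nat_lit 1) (nat_lit 397) (nat_lit 313) (nat_lit 310)) (XT.nd (nat_lit 78) (nat_lit 0) (nat_lit 0) (XT.lf (nat_lit 1292) (nat_lit 282787529) (nat_lit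 0) (nat_lit 1157508734) (nat_lit 1216) (nat_lit 282787529) (nat_lit 393) (nat_lit 1) (nat_lit 376) (nat_lit 1) (nat_lit 392) (nat_lit 1) (nat_lit 398) (nat_lit 313) (nat_lit 309)) (XT.lf (nat_lit 1292) (nat_lit 518238006) (nat_lit 76) (nat_lit 590040528) (nat_lit 0) (nat_lit 590040528) (nat_lit 393) (nat_lit 1) (nat_lit 377) (nat_lit 1) (nat_lit 376) (nat_lit 1) (nat_lit 399) (nat_lit 313) (nat_lit 308)))))) (XT.nd (nat_lit 390) (nat_lit 1064) (nat_lit 0) (XT.nd (nat_lit 156) (nat_lit 0) (nat_lit 76) (XT.nd (nat_lit 78) (nat_lit 0) (nat_lit 0) (XT.lf (nat_lit 1292) (nat_lit 233574316) (nat_lit 0) (nat_lit 1206977554) (nat_lit 1216) (nat_lit 233574316) (nat_lit 394) (nat_lit 1) (nat_lit 377) (nat_lit 1) (nat_lit 393) (nat_lit 1) (nat_lit 400) (nat_lit 313) (nat_lit 307)) (XT.lf (nat_lit 1292) (nat_lit 405714186) (nat_lit 76) (nat_lit 622289559) (nat_lit 0) (nat_lit 622289559) (nat_lit 394) (nat_lit 1)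 (nat_lit 378) (nat_lit 1) (nat_lit 377) (nat_lit 1) (nat_lit 401) (nat_lit 313) (nat_lit 306))) (XT.nd (nat_lit 78) (nat_lit 0) (nat_lit 0) (XT.lf (nat_lit 1292) (nat_lit 171026060) (nat_lit 0) (nat_lit 1284985463) (nat_lit 1216) (nat_lit 171026060) (nat_lit 395) (nat_lit 1) (nat_lit 378) (nat_lit 1) (nat_lit 394) (nat_lit 1) (nat_lit 402) (nat_lit 313) (nat_lit 305)) (XT.nd (nat_lit 78) (nat_lit 0) (nat_lit 76) (XT.lf (nat_lit 1292) (nat_lit 267646393) (nat_lit 76) (nat_lit 668222946) (nat_lit 0) (nat_lit 668222946) (nat_lit 395) (nat_lit 1) (nat_lit 379) (nat_lit 1) (nat_lit 378) (nat_lit 1) (nat_lit 403) (nat_lit 313) (nat_lit 304)) (XT.lf (nat_lit 1292) (nat_lit 96378929) (nat_lit 0) (nat_lit 1388980255) (nat_lit 1216) (nat_lit 96378929) (nat_lit 396) (nat_lit 1) (nat_lit 379) (nat_lit 1) (nat_lit 395) (nat_lit 1) (nat_lit 404) (nat_lit 313) (nat_lit 303))))) (XT.nd (nat_lit 156) (nat_lit 1216)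 (nat_lit 0) (XT.nd (nat_lit 78) (nat_lit 0) (nat_lit 76) (XT.lf (nat_lit 1292) (nat_lit 106433090) (nat_lit 76) (nat_lit 726602659) (nat_lit 0) (nat_lit 726602659) (nat_lit 396) (nat_lit 1) (nat_lit 380) (nat_lit 1) (nat_lit 379) (nat_lit 1) (nat_lit 405) (nat_lit 313) (nat_lit 302)) (XT.lf (nat_lit 1292) (nat_lit 10784421) (nat_lit 0) (nat_lit 1516582850) (nat_lit 1216) (nat_lit 10784421) (nat_lit 397) (nat_lit 1) (nat_lit 380) (nat_lit 1) (nat_lit 396) (nat_lit 1) (nat_lit 406) (nat_lit 313) (nat_lit 301))) (XT.nd (nat_lit 78) (nat_lit 0) (nat_lit 0) (XT.lf (nat_lit 1368) (nat_lit 721310423) (nat_lit 0) (nat_lit 74215065) (nat_lit 1292) (nat_lit 721310423) (nat_lit 381) (nat_lit 1) (nat_lit 363) (nat_lit 1) (nat_lit 380) (nat_lit 1) (nat_lit 407) (nat_lit 313) (nat_lit 300)) (XT.nd (nat_lit 78) (nat_lit 0) (nat_lit 76) (XT.lf (nat_lit 1368) (nat_lit 1328397392) (nat_lit 76) (nat_lit 83855128) (nat_lit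 0) (nat_lit 83855128) (nat_lit 381) (nat_lit 1) (nat_lit 364) (nat_lit 1) (nat_lit 363) (nat_lit 1) (nat_lit 408) (nat_lit 313) (nat_lit 299)) (XT.lf (nat_lit 1368) (nat_lit 602174192) (nat_lit 0) (nat_lit 271251656) (nat_lit 1292) (nat_lit 602174192) (nat_lit 382) (nat_lit 1) (nat_lit 364) (nat_lit 1) (nat_lit 381) (nat_lit 1) (nat_lit 409) (nat_lit 313) (nat_lit 298))))))))
noncomputable def ec11 : XT := (XT.nd (nat_lit 1482) (nat_lit 1748) (nat_lit 0) (XT.nd (nat_lit 702) (nat_lit 3192) (nat_lit 0) (XT.nd (nat_lit 312) (nat_lit 1824) (nat_lit 0) (XT.nd (nat_lit 156) (nat_lit 760) (nat_lit 0) (XT.nd (nat_lit 78) (nat_lit 0) (nat_lit 76) (XT.lf (nat_lit 1368) (nat_lit 1081253126) (nat_lit 76) (nat_lit 187179579) (nat_lit 0) (nat_lit 187179579) (nat_lit 382) (nat_lit 1) (nat_lit 365) (nat_lit 1) (nat_lit 364) (nat_lit 1) (nat_lit 410) (nat_lit 313) (nat_lit 297)) (XT.lf (nat_lit 76) (nat_lit 475518844)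 (nat_lit 0) (nat_lit 484857199) (nat_lit 1292) (nat_lit 475518844) (nat_lit 366) (nat_lit 1) (nat_lit 365) (nat_lit 1) (nat_lit 382) (nat_lit 1) (nat_lit 411) (nat_lit 313) (nat_lit 296))) (XT.nd (nat_lit 78) (nat_lit 0) (nat_lit 0) (XT.lf (nat_lit 912) (nat_lit 819861433) (nat_lit 0) (nat_lit 298375949) (nat_lit 836) (nat_lit 298375949) (nat_lit 366) (nat_lit 1) (nat_lit 354) (nat_lit 1) (nat_lit 365) (nat_lit 1) (nat_lit 412) (nat_lit 313) (nat_lit 295)) (XT.lf (nat_lit 76) (nat_lit 342194202) (nat_lit 0) (nat_lit 713268539) (nat_lit 912) (nat_lit 342194202) (nat_lit 355) (nat_lit 1) (nat_lit 354) (nat_lit 1) (nat_lit 366) (nat_lit 1) (nat_lit 413) (nat_lit 313) (nat_lit 294)))) (XT.nd (nat_lit 156) (nat_lit 1216) (nat_lit 0) (XT.nd (nat_lit 78) (nat_lit 0) (nat_lit 0) (XT.lf (nat_lit 684) (nat_lit 545868363) (nat_lit 0) (nat_lit 416590323) (nat_lit 608) (nat_lit 416590323) (nat_lit 355) (nat_lit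 1) (nat_lit 346) (nat_lit 1) (nat_lit 354) (nat_lit 1) (nat_lit 414) (nat_lit 313) (nat_lit 293)) (XT.lf (nat_lit 76) (nat_lit 202989124) (nat_lit 0) (nat_lit 954847387) (nat_lit 684) (nat_lit 202989124) (nat_lit 347) (nat_lit 1) (nat_lit 346) (nat_lit 1) (nat_lit 355) (nat_lit 1) (nat_lit 415) (nat_lit 313) (nat_lit 292))) (XT.nd (nat_lit 78) (nat_lit 608) (nat_lit 0) (XT.lf (nat_lit 684) (nat_lit 260801356) (nat_lit 0) (nat_lit 541029514) (nat_lit 608) (nat_lit 541029514) (nat_lit 347) (nat_lit 1) (nat_lit 338) (nat_lit 1) (nat_lit 346) (nat_lit 1) (nat_lit 416) (nat_lit 313) (nat_lit 291)) (XT.nd (nat_lit 78) (nat_lit 608) (nat_lit 0) (XT.lf (nat_lit 76) (nat_lit 58635362) (nat_lit 0) (nat_lit 1208072458) (nat_lit 684) (nat_lit 58635362) (nat_lit 339) (nat_lit 1) (nat_lit 338) (nat_lit 1) (nat_lit 347) (nat_lit 1) (nat_lit 417) (nat_lit 313) (nat_lit 290)) (XT.lf (nat_lit 76) (nat_lit 637360077)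 (nat_lit 0) (nat_lit 33261286) (nat_lit 608) (nat_lit 637360077) (nat_lit 331) (nat_lit 1) (nat_lit 330) (nat_lit 1) (nat_lit 338) (nat_lit 1) (nat_lit 418) (nat_lit 313) (nat_lit 289)))))) (XT.nd (nat_lit 390) (nat_lit 1520) (nat_lit 0) (XT.nd (nat_lit 156) (nat_lit 1064) (nat_lit 0) (XT.nd (nat_lit 78) (nat_lit 0) (nat_lit 0) (XT.lf (nat_lit 684) (nat_lit 1112440648) (nat_lit 0) (nat_lit 89304618) (nat_lit 608) (nat_lit 89304618) (nat_lit 331) (nat_lit 1) (nat_lit 322) (nat_lit 1) (nat_lit 330) (nat_lit 1) (nat_lit 419) (nat_lit 313) (nat_lit 288)) (XT.lf (nat_lit 76) (nat_lit 471936733) (nat_lit 0) (nat_lit 330417212) (nat_lit 684) (nat_lit 471936733) (nat_lit 323) (nat_lit 1) (nat_lit 322) (nat_lit 1) (nat_lit 331) (nat_lit 1) (nat_lit 420) (nat_lit 313) (nat_lit 287))) (XT.nd (nat_lit 78) (nat_lit 532) (nat_lit 0) (XT.lf (nat_lit 608) (nat_lit 776976623) (nat_lit 0) (nat_lit 240474314) (nat_lit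 532) (nat_lit 240474314) (nat_lit 323) (nat_lit 1) (nat_lit 315) (nat_lit 1) (nat_lit 322) (nat_lit 1) (nat_lit 421) (nat_lit 313) (nat_lit 286)) (XT.nd (nat_lit 78) (nat_lit 532) (nat_lit 0) (XT.lf (nat_lit 76) (nat_lit 303624007) (nat_lit 0) (nat_lit 634564410) (nat_lit 608) (nat_lit 303624007) (nat_lit 316) (nat_lit 1) (nat_lit 315) (nat_lit 1) (nat_lit 323) (nat_lit 1) (nat_lit 422) (nat_lit 313) (nat_lit 285)) (XT.lf (nat_lit 608) (nat_lit 436241739) (nat_lit 0) (nat_lit 394872982) (nat_lit 532) (nat_lit 394872982) (nat_lit 316) (nat_lit 1) (nat_lit 308) (nat_lit 1) (nat_lit 315) (nat_lit 1) (nat_lit 423) (nat_lit 313) (nat_lit 284))))) (XT.nd (nat_lit 156) (nat_lit 1064) (nat_lit 0) (XT.nd (nat_lit 78) (nat_lit 456) (nat_lit 0) (XT.lf (nat_lit 76) (nat_lit 132948501) (nat_lit 0) (nat_lit 944601090) (nat_lit 608) (nat_lit 132948501) (nat_lit 309) (nat_lit 1) (nat_lit 308) (nat_lit 1) (nat_lit 316)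 (nat_lit 1) (nat_lit 424) (nat_lit 313) (nat_lit 283)) (XT.lf (nat_lit 532) (nat_lit 91252970) (nat_lit 0) (nat_lit 551968468) (nat_lit 456) (nat_lit 551968468) (nat_lit 309) (nat_lit 1) (nat_lit 302) (nat_lit 1) (nat_lit 308) (nat_lit 1) (nat_lit 425) (nat_lit 313) (nat_lit 282))) (XT.nd (nat_lit 78) (nat_lit 456) (nat_lit 0) (XT.lf (nat_lit 608) (nat_lit 1101824066) (nat_lit 0) (nat_lit 39215645) (nat_lit 532) (nat_lit 39215645) (nat_lit 302) (nat_lit 1) (nat_lit 294) (nat_lit 1) (nat_lit 301) (nat_lit 1) (nat_lit 426) (nat_lit 313) (nat_lit 281)) (XT.nd (nat_lit 78) (nat_lit 456) (nat_lit 0) (XT.lf (nat_lit 76) (nat_lit 456688307) (nat_lit 0) (nat_lit 252035889) (nat_lit 608) (nat_lit 456688307) (nat_lit 295) (nat_lit 1) (nat_lit 294) (nat_lit 1) (nat_lit 302) (nat_lit 1) (nat_lit 427) (nat_lit 313) (nat_lit 280)) (XT.lf (nat_lit 532) (nat_lit 727946985) (nat_lit 0) (nat_lit 211491507) (nat_lit 456)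 (nat_lit 211491507) (nat_lit 295) (nat_lit 1) (nat_lit 288) (nat_lit 1) (nat_lit 294) (nat_lit 1) (nat_lit 428) (nat_lit 313) (nat_lit 279))))))) (XT.nd (nat_lit 50388) (nat_lit 0) (nat_lit 8360) (XT.nd (nat_lit 312) (nat_lit 836) (nat_lit 0) (XT.nd (nat_lit 156) (nat_lit 456) (nat_lit 0) (XT.nd (nat_lit 78) (nat_lit 456) (nat_lit 0) (XT.lf (nat_lit 76) (nat_lit 270355411) (nat_lit 0) (nat_lit 595948568) (nat_lit 532) (nat_lit 270355411) (nat_lit 289) (nat_lit 1) (nat_lit 288) (nat_lit 1) (nat_lit 295) (nat_lit 1) (nat_lit 429) (nat_lit 313) (nat_lit 278)) (XT.lf (nat_lit 532) (nat_lit 353085506) (nat_lit 0) (nat_lit 384774375) (nat_lit 456) (nat_lit 384774375) (nat_lit 289) (nat_lit 1) (nat_lit 282) (nat_lit 1) (nat_lit 288) (nat_lit 1) (nat_lit 430) (nat_lit 313) (nat_lit 277))) (XT.nd (nat_lit 78) (nat_lit 456) (nat_lit 0) (XT.lf (nat_lit 76) (nat_lit 83714554) (nat_lit 0) (nat_lit 941486690) (nat_lit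 532) (nat_lit 83714554) (nat_lit 283) (nat_lit 1) (nat_lit 282) (nat_lit 1) (nat_lit 289) (nat_lit 1) (nat_lit 431) (nat_lit 313) (nat_lit 276)) (XT.lf (nat_lit 76) (nat_lit 536850951) (nat_lit 0) (nat_lit 21619804) (nat_lit 456) (nat_lit 536850951) (nat_lit 277) (nat_lit 1) (nat_lit 276) (nat_lit 1) (nat_lit 282) (nat_lit 1) (nat_lit 432) (nat_lit 313) (nat_lit 275)))) (XT.nd (nat_lit 156) (nat_lit 380) (nat_lit 0) (XT.nd (nat_lit 78) (nat_lit 0) (nat_lit 0) (XT.lf (nat_lit 532) (nat_lit 878248586) (nat_lit 0) (nat_lit 101887286) (nat_lit 456) (nat_lit 101887286) (nat_lit 277) (nat_lit 1) (nat_lit 270) (nat_lit 1) (nat_lit 276) (nat_lit 1) (nat_lit 433) (nat_lit 313) (nat_lit 274)) (XT.lf (nat_lit 76) (nat_lit 339896277) (nat_lit 0) (nat_lit 389066125) (nat_lit 532) (nat_lit 339896277) (nat_lit 271) (nat_lit 1) (nat_lit 270) (nat_lit 1) (nat_lit 277) (nat_lit 1) (nat_lit 434) (nat_lit 313) (nat_lit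 273))) (XT.nd (nat_lit 49764) (nat_lit 0) (nat_lit 8284) (XT.lf (nat_lit 456) (nat_lit 483302423) (nat_lit 0) (nat_lit 286332055) (nat_lit 380) (nat_lit 286332055) (nat_lit 271) (nat_lit 1) (nat_lit 265) (nat_lit 1) (nat_lit 270) (nat_lit 1) (nat_lit 435) (nat_lit 313) (nat_lit 272)) (XT.nd (nat_lit 78) (nat_lit 0) (nat_lit 0) (XT.lf (nat_lit 1292) (nat_lit 172940549) (nat_lit 0) (nat_lit 594995920) (nat_lit 1292) (nat_lit 172940549) (nat_lit 391) (nat_lit 1) (nat_lit 374) (nat_lit 0) (nat_lit 391) (nat_lit 0) (nat_lit 392) (nat_lit 314) (nat_lit 314)) (XT.lf (nat_lit 1292) (nat_lit 675854698) (nat_lit 76) (nat_lit 589162626) (nat_lit 0) (nat_lit 589162626) (nat_lit 391) (nat_lit 1) (nat_lit 375) (nat_lit 1) (nat_lit 374) (nat_lit 0) (nat_lit 393) (nat_lit 314) (nat_lit 313)))))) (XT.nd (nat_lit 390) (nat_lit 0) (nat_lit 152) (XT.nd (nat_lit 156) (nat_lit 0) (nat_lit 76) (XT.nd (nat_lit 78) (nat_lit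 0) (nat_lit 0) (XT.lf (nat_lit 1292) (nat_lit 326859446) (nat_lit 0) (nat_lit 1173495199) (nat_lit 1216) (nat_lit 326859446) (nat_lit 392) (nat_lit 1) (nat_lit 375) (nat_lit 1) (nat_lit 391) (nat_lit 1) (nat_lit 394) (nat_lit 314) (nat_lit 312)) (XT.lf (nat_lit 1292) (nat_lit 620722964) (nat_lit 76) (nat_lit 589987794) (nat_lit 0) (nat_lit 589987794) (nat_lit 392) (nat_lit 1) (nat_lit 376) (nat_lit 1) (nat_lit 375) (nat_lit 1) (nat_lit 395) (nat_lit 314) (nat_lit 311))) (XT.nd (nat_lit 78) (nat_lit 0) (nat_lit 0) (XT.lf (nat_lit 1292) (nat_lit 291271155) (nat_lit 0) (nat_lit 1192233996) (nat_lit 1216) (nat_lit 291271155) (nat_lit 393) (nat_lit 1) (nat_lit 376) (nat_lit 1) (nat_lit 392) (nat_lit 1) (nat_lit 396) (nat_lit 314) (nat_lit 310)) (XT.nd (nat_lit 78) (nat_lit 0) (nat_lit 76) (XT.lf (nat_lit 1292) (nat_lit 533785146) (nat_lit 76) (nat_lit 607741744) (nat_lit 0) (nat_lit 607741744) (nat_lit 393)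 (nat_lit 1) (nat_lit 377) (nat_lit 1) (nat_lit 376) (nat_lit 1) (nat_lit 397) (nat_lit 314) (nat_lit 309)) (XT.lf (nat_lit 1292) (nat_lit 240581546) (nat_lit 0) (nat_lit 1243186881) (nat_lit 1216) (nat_lit 240581546) (nat_lit 394) (nat_lit 1) (nat_lit 377) (nat_lit 1) (nat_lit 393) (nat_lit 1) (nat_lit 398) (nat_lit 314) (nat_lit 308))))) (XT.nd (nat_lit 156) (nat_lit 0) (nat_lit 76) (XT.nd (nat_lit 78) (nat_lit 0) (nat_lit 76) (XT.lf (nat_lit 1292) (nat_lit 417885612) (nat_lit 76) (nat_lit 640958245) (nat_lit 0) (nat_lit 640958245) (nat_lit 394) (nat_lit 1) (nat_lit 378) (nat_lit 1) (nat_lit 377) (nat_lit 1) (nat_lit 399) (nat_lit 314) (nat_lit 307)) (XT.lf (nat_lit 1292) (nat_lit 176156842) (nat_lit 0) (nat_lit 1323535027) (nat_lit 1216) (nat_lit 176156842) (nat_lit 395) (nat_lit 1) (nat_lit 378) (nat_lit 1) (nat_lit 394) (nat_lit 1) (nat_lit 400) (nat_lit 314) (nat_lit 306))) (XT.nd (nat_lit 78)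 (nat_lit 0) (nat_lit 76) (XT.lf (nat_lit 1292) (nat_lit 275675785) (nat_lit 76) (nat_lit 688269634) (nat_lit 0) (nat_lit 688269634) (nat_lit 395) (nat_lit 1) (nat_lit 379) (nat_lit 1) (nat_lit 378) (nat_lit 1) (nat_lit 401) (nat_lit 314) (nat_lit 305)) (XT.nd (nat_lit 78) (nat_lit 0) (nat_lit 0) (XT.lf (nat_lit 1292) (nat_lit 99270297) (nat_lit 0) (nat_lit 1430649662) (nat_lit 1216) (nat_lit 99270297) (nat_lit 396) (nat_lit 1) (nat_lit 379) (nat_lit 1) (nat_lit 395) (nat_lit 1) (nat_lit 402) (nat_lit 314) (nat_lit 304)) (XT.lf (nat_lit 1292) (nat_lit 109626083) (nat_lit 76) (nat_lit 748400739) (nat_lit 0) (nat_lit 748400739) (nat_lit 396) (nat_lit 1) (nat_lit 380) (nat_lit 1) (nat_lit 379) (nat_lit 1) (nat_lit 403) (nat_lit 314) (nat_lit 303))))))))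
noncomputable def ec12 : XT := (XT.nd (nat_lit 1404) (nat_lit 3648) (nat_lit 0) (XT.nd (nat_lit 702) (nat_lit 2888) (nat_lit 0) (XT.nd (nat_lit 312) (nat_lit 1292) (nat_lit 0) (XT.nd (nat_lit 156) (nat_lit 0) (nat_lit 0) (XT.nd (nat_lit 78) (nat_lit 1292) (nat_lit 0) (XT.lf (nat_lit 1292) (nat_lit 11107953) (nat_lit 0) (nat_lit 1562080335) (nat_lit 1216) (nat_lit 11107953) (nat_lit 397) (nat_lit 1) (nat_lit 380) (nat_lit 1) (nat_lit 396) (nat_lit 1) (nat_lit 404) (nat_lit 314) (nat_lit 302)) (XT.lf (nat_lit 1368) (nat_lit 742949736) (nat_lit 0) (nat_lit 76441517) (nat_lit 1292) (nat_lit 742949736) (nat_lit 381) (nat_lit 1) (nat_lit 363) (nat_lit 1) (nat_lit 380) (nat_lit 1) (nat_lit 405) (nat_lit 314) (nat_lit 301))) (XT.nd (nat_lit 78) (nat_lit 0) (nat_lit 76) (XT.lf (nat_lit 1368) (nat_lit 1368249314) (nat_lit 76) (nat_lit 86370782) (nat_lit 0) (nat_lit 86370782) (nat_lit 381) (nat_lit 1) (nat_lit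 364) (nat_lit 1) (nat_lit 363) (nat_lit 1) (nat_lit 406) (nat_lit 314) (nat_lit 300)) (XT.lf (nat_lit 1368) (nat_lit 620239418) (nat_lit 0) (nat_lit 279389205) (nat_lit 1292) (nat_lit 620239418) (nat_lit 382) (nat_lit 1) (nat_lit 364) (nat_lit 1) (nat_lit 381) (nat_lit 1) (nat_lit 407) (nat_lit 314) (nat_lit 299)))) (XT.nd (nat_lit 156) (nat_lit 1368) (nat_lit 0) (XT.nd (nat_lit 78) (nat_lit 0) (nat_lit 76) (XT.lf (nat_lit 1368) (nat_lit 1113690719) (nat_lit 76) (nat_lit 192794967) (nat_lit 0) (nat_lit 192794967) (nat_lit 382) (nat_lit 1) (nat_lit 365) (nat_lit 1) (nat_lit 364) (nat_lit 1) (nat_lit 408) (nat_lit 314) (nat_lit 298)) (XT.lf (nat_lit 76) (nat_lit 489784409) (nat_lit 0) (nat_lit 499402915) (nat_lit 1292) (nat_lit 489784409) (nat_lit 366) (nat_lit 1) (nat_lit 365) (nat_lit 1) (nat_lit 382) (nat_lit 1) (nat_lit 409) (nat_lit 314) (nat_lit 297))) (XT.nd (nat_lit 78) (nat_lit 608) (nat_lit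 0) (XT.lf (nat_lit 912) (nat_lit 844457276) (nat_lit 0) (nat_lit 307327228) (nat_lit 836) (nat_lit 307327228) (nat_lit 366) (nat_lit 1) (nat_lit 354) (nat_lit 1) (nat_lit 365) (nat_lit 1) (nat_lit 410) (nat_lit 314) (nat_lit 296)) (XT.nd (nat_lit 78) (nat_lit 608) (nat_lit 0) (XT.lf (nat_lit 76) (nat_lit 352460028) (nat_lit 0) (nat_lit 734666596) (nat_lit 912) (nat_lit 352460028) (nat_lit 355) (nat_lit 1) (nat_lit 354) (nat_lit 1) (nat_lit 366) (nat_lit 1) (nat_lit 411) (nat_lit 314) (nat_lit 295)) (XT.lf (nat_lit 684) (nat_lit 562244414) (nat_lit 0) (nat_lit 429088032) (nat_lit 608) (nat_lit 429088032) (nat_lit 355) (nat_lit 1) (nat_lit 346) (nat_lit 1) (nat_lit 354) (nat_lit 1) (nat_lit 412) (nat_lit 314) (nat_lit 294)))))) (XT.nd (nat_lit 312) (nat_lit 1672) (nat_lit 0) (XT.nd (nat_lit 156) (nat_lit 608) (nat_lit 0) (XT.nd (nat_lit 78) (nat_lit 608) (nat_lit 0) (XT.lf (nat_lit 76) (nat_lit 209078798)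 (nat_lit 0) (nat_lit 983492809) (nat_lit 684) (nat_lit 209078798) (nat_lit 347) (nat_lit 1) (nat_lit 346) (nat_lit 1) (nat_lit 355) (nat_lit 1) (nat_lit 413) (nat_lit 314) (nat_lit 293)) (XT.lf (nat_lit 684) (nat_lit 268625396) (nat_lit 0) (nat_lit 557260399) (nat_lit 608) (nat_lit 557260399) (nat_lit 347) (nat_lit 1) (nat_lit 338) (nat_lit 1) (nat_lit 346) (nat_lit 1) (nat_lit 414) (nat_lit 314) (nat_lit 292))) (XT.nd (nat_lit 78) (nat_lit 608) (nat_lit 0) (XT.lf (nat_lit 76) (nat_lit 60394422) (nat_lit 0) (nat_lit 1244314632) (nat_lit 684) (nat_lit 60394422) (nat_lit 339) (nat_lit 1) (nat_lit 338) (nat_lit 1) (nat_lit 347) (nat_lit 1) (nat_lit 415) (nat_lit 314) (nat_lit 291)) (XT.lf (nat_lit 76) (nat_lit 656480879) (nat_lit 0) (nat_lit 34259125) (nat_lit 608) (nat_lit 656480879) (nat_lit 331) (nat_lit 1) (nat_lit 330) (nat_lit 1) (nat_lit 338) (nat_lit 1) (nat_lit 416) (nat_lit 314) (nat_lit 290))))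 (XT.nd (nat_lit 156) (nat_lit 1064) (nat_lit 0) (XT.nd (nat_lit 78) (nat_lit 0) (nat_lit 0) (XT.lf (nat_lit 684) (nat_lit 1145813868) (nat_lit 0) (nat_lit 91983757) (nat_lit 608) (nat_lit 91983757) (nat_lit 331) (nat_lit 1) (nat_lit 322) (nat_lit 1) (nat_lit 330) (nat_lit 1) (nat_lit 417) (nat_lit 314) (nat_lit 289)) (XT.lf (nat_lit 76) (nat_lit 486094835) (nat_lit 0) (nat_lit 340329728) (nat_lit 684) (nat_lit 486094835) (nat_lit 323) (nat_lit 1) (nat_lit 322) (nat_lit 1) (nat_lit 331) (nat_lit 1) (nat_lit 418) (nat_lit 314) (nat_lit 288))) (XT.nd (nat_lit 78) (nat_lit 532) (nat_lit 0) (XT.lf (nat_lit 608) (nat_lit 800285921) (nat_lit 0) (nat_lit 247688544) (nat_lit 532) (nat_lit 247688544) (nat_lit 323) (nat_lit 1) (nat_lit 315) (nat_lit 1) (nat_lit 322) (nat_lit 1) (nat_lit 419) (nat_lit 314) (nat_lit 287)) (XT.nd (nat_lit 78) (nat_lit 532) (nat_lit 0) (XT.lf (nat_lit 76) (nat_lit 312732727) (nat_lit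 0) (nat_lit 653601342) (nat_lit 608) (nat_lit 312732727) (nat_lit 316) (nat_lit 1) (nat_lit 315) (nat_lit 1) (nat_lit 323) (nat_lit 1) (nat_lit 420) (nat_lit 314) (nat_lit 286)) (XT.lf (nat_lit 608) (nat_lit 449328991) (nat_lit 0) (nat_lit 406719171) (nat_lit 532) (nat_lit 406719171) (nat_lit 316) (nat_lit 1) (nat_lit 308) (nat_lit 1) (nat_lit 315) (nat_lit 1) (nat_lit 421) (nat_lit 314) (nat_lit 285))))))) (XT.nd (nat_lit 702) (nat_lit 1216) (nat_lit 0) (XT.nd (nat_lit 312) (nat_lit 1368) (nat_lit 0) (XT.nd (nat_lit 156) (nat_lit 608) (nat_lit 0) (XT.nd (nat_lit 78) (nat_lit 456) (nat_lit 0) (XT.lf (nat_lit 76) (nat_lit 136936956) (nat_lit 0) (nat_lit 972939123) (nat_lit 608) (nat_lit 136936956) (nat_lit 309) (nat_lit 1) (nat_lit 308) (nat_lit 1) (nat_lit 316) (nat_lit 1) (nat_lit 422) (nat_lit 314) (nat_lit 284)) (XT.lf (nat_lit 532) (nat_lit 93990559) (nat_lit 0) (nat_lit 568527522) (nat_lit 456)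 (nat_lit 568527522) (nat_lit 309) (nat_lit 1) (nat_lit 302) (nat_lit 1) (nat_lit 308) (nat_lit 1) (nat_lit 423) (nat_lit 314) (nat_lit 283))) (XT.nd (nat_lit 78) (nat_lit 0) (nat_lit 0) (XT.lf (nat_lit 608) (nat_lit 1134878788) (nat_lit 0) (nat_lit 40392115) (nat_lit 532) (nat_lit 40392115) (nat_lit 302) (nat_lit 1) (nat_lit 294) (nat_lit 1) (nat_lit 301) (nat_lit 1) (nat_lit 424) (nat_lit 314) (nat_lit 282)) (XT.lf (nat_lit 76) (nat_lit 470388957) (nat_lit 0) (nat_lit 259596966) (nat_lit 608) (nat_lit 470388957) (nat_lit 295) (nat_lit 1) (nat_lit 294) (nat_lit 1) (nat_lit 302) (nat_lit 1) (nat_lit 425) (nat_lit 314) (nat_lit 281)))) (XT.nd (nat_lit 156) (nat_lit 912) (nat_lit 0) (XT.nd (nat_lit 78) (nat_lit 0) (nat_lit 0) (XT.lf (nat_lit 532) (nat_lit 749785394) (nat_lit 0) (nat_lit 217836252) (nat_lit 456) (nat_lit 217836252) (nat_lit 295) (nat_lit 1) (nat_lit 288) (nat_lit 1) (nat_lit 294) (nat_lit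 1) (nat_lit 426) (nat_lit 314) (nat_lit 280)) (XT.lf (nat_lit 76) (nat_lit 278466073) (nat_lit 0) (nat_lit 613827026) (nat_lit 532) (nat_lit 278466073) (nat_lit 289) (nat_lit 1) (nat_lit 288) (nat_lit 1) (nat_lit 295) (nat_lit 1) (nat_lit 427) (nat_lit 314) (nat_lit 279))) (XT.nd (nat_lit 78) (nat_lit 456) (nat_lit 0) (XT.lf (nat_lit 532) (nat_lit 363678071) (nat_lit 0) (nat_lit 396317606) (nat_lit 456) (nat_lit 396317606) (nat_lit 289) (nat_lit 1) (nat_lit 282) (nat_lit 1) (nat_lit 288) (nat_lit 1) (nat_lit 428) (nat_lit 314) (nat_lit 278)) (XT.nd (nat_lit 78) (nat_lit 456) (nat_lit 0) (XT.lf (nat_lit 76) (nat_lit 86225991) (nat_lit 0) (nat_lit 969731291) (nat_lit 532) (nat_lit 86225991) (nat_lit 283) (nat_lit 1) (nat_lit 282) (nat_lit 1) (nat_lit 289) (nat_lit 1) (nat_lit 429) (nat_lit 314) (nat_lit 277)) (XT.lf (nat_lit 76) (nat_lit 552956479) (nat_lit 0) (nat_lit 22268399) (nat_lit 456) (nat_lit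 552956479) (nat_lit 277) (nat_lit 1) (nat_lit 276) (nat_lit 1) (nat_lit 282) (nat_lit 1) (nat_lit 430) (nat_lit 314) (nat_lit 276)))))) (XT.nd (nat_lit 49920) (nat_lit 0) (nat_lit 8664) (XT.nd (nat_lit 156) (nat_lit 760) (nat_lit 0) (XT.nd (nat_lit 78) (nat_lit 0) (nat_lit 0) (XT.lf (nat_lit 532) (nat_lit 904596044) (nat_lit 0) (nat_lit 104943905) (nat_lit 456) (nat_lit 104943905) (nat_lit 277) (nat_lit 1) (nat_lit 270) (nat_lit 1) (nat_lit 276) (nat_lit 1) (nat_lit 431) (nat_lit 314) (nat_lit 275)) (XT.lf (nat_lit 76) (nat_lit 350093166) (nat_lit 0) (nat_lit 400738109) (nat_lit 532) (nat_lit 350093166) (nat_lit 271) (nat_lit 1) (nat_lit 270) (nat_lit 1) (nat_lit 277) (nat_lit 1) (nat_lit 432) (nat_lit 314) (nat_lit 274))) (XT.nd (nat_lit 78) (nat_lit 380) (nat_lit 0) (XT.lf (nat_lit 456) (nat_lit 497801495) (nat_lit 0) (nat_lit 294922017) (nat_lit 380) (nat_lit 294922017) (nat_lit 271) (nat_lit 1)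 (nat_lit 265) (nat_lit 1) (nat_lit 270) (nat_lit 1) (nat_lit 433) (nat_lit 314) (nat_lit 273)) (XT.nd (nat_lit 78) (nat_lit 380) (nat_lit 0) (XT.lf (nat_lit 76) (nat_lit 148191317) (nat_lit 0) (nat_lit 778227193) (nat_lit 456) (nat_lit 148191317) (nat_lit 266) (nat_lit 1) (nat_lit 265) (nat_lit 1) (nat_lit 271) (nat_lit 1) (nat_lit 434) (nat_lit 314) (nat_lit 272)) (XT.lf (nat_lit 456) (nat_lit 93200665) (nat_lit 0) (nat_lit 484265459) (nat_lit 380) (nat_lit 484265459) (nat_lit 266) (nat_lit 1) (nat_lit 260) (nat_lit 1) (nat_lit 265) (nat_lit 1) (nat_lit 435) (nat_lit 314) (nat_lit 271))))) (XT.nd (nat_lit 156) (nat_lit 0) (nat_lit 76) (XT.nd (nat_lit 78) (nat_lit 0) (nat_lit 0) (XT.lf (nat_lit 1292) (nat_lit 178128766) (nat_lit 0) (nat_lit 612845797) (nat_lit 1292) (nat_lit 178128766) (nat_lit 391) (nat_lit 1) (nat_lit 374) (nat_lit 0) (nat_lit 391) (nat_lit 0) (nat_lit 390) (nat_lit 315) (nat_lit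 315)) (XT.lf (nat_lit 1292) (nat_lit 696130339) (nat_lit 76) (nat_lit 606837505) (nat_lit 0) (nat_lit 606837505) (nat_lit 391) (nat_lit 1) (nat_lit 375) (nat_lit 1) (nat_lit 374) (nat_lit 0) (nat_lit 391) (nat_lit 315) (nat_lit 314))) (XT.nd (nat_lit 78) (nat_lit 0) (nat_lit 0) (XT.lf (nat_lit 1292) (nat_lit 336665229) (nat_lit 0) (nat_lit 1208700055) (nat_lit 1216) (nat_lit 336665229) (nat_lit 392) (nat_lit 1) (nat_lit 375) (nat_lit 1) (nat_lit 391) (nat_lit 1) (nat_lit 392) (nat_lit 315) (nat_lit 313)) (XT.nd (nat_lit 78) (nat_lit 0) (nat_lit 76) (XT.lf (nat_lit 1292) (nat_lit 639344653) (nat_lit 76) (nat_lit 607687427) (nat_lit 0) (nat_lit 607687427) (nat_lit 392) (nat_lit 1) (nat_lit 376) (nat_lit 1) (nat_lit 375) (nat_lit 1) (nat_lit 393) (nat_lit 315) (nat_lit 312)) (XT.lf (nat_lit 1292) (nat_lit 300009290) (nat_lit 0) (nat_lit 1228001016) (nat_lit 1216) (nat_lit 300009290) (nat_lit 393) (nat_lit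 1) (nat_lit 376) (nat_lit 1) (nat_lit 392) (nat_lit 1) (nat_lit 394) (nat_lit 315) (nat_lit 311))))))))
noncomputable def ec13 : XT := (XT.nd (nat_lit 1482) (nat_lit 5548) (nat_lit 0) (XT.nd (nat_lit 702) (nat_lit 1900) (nat_lit 0) (XT.nd (nat_lit 312) (nat_lit 988) (nat_lit 0) (XT.nd (nat_lit 156) (nat_lit 0) (nat_lit 76) (XT.nd (nat_lit 78) (nat_lit 0) (nat_lit 76) (XT.lf (nat_lit 1292) (nat_lit 549798701) (nat_lit 76) (nat_lit 625973996) (nat_lit 0) (nat_lit 625973996) (nat_lit 393) (nat_lit 1) (nat_lit 377) (nat_lit 1) (nat_lit 376) (nat_lit 1) (nat_lit 395) (nat_lit 315) (nat_lit 310)) (XT.lf (nat_lit 1292) (nat_lit 247798992) (nat_lit 0) (nat_lit 1280482487) (nat_lit 1216) (nat_lit 247798992) (nat_lit 394) (nat_lit 1) (nat_lit 377) (nat_lit 1) (nat_lit 393) (nat_lit 1) (nat_lit 396) (nat_lit 315) (nat_lit 309))) (XT.nd (nat_lit 78) (nat_lit 0) (nat_lit 76) (XT.lf (nat_lit 1292) (nat_lit 430422180)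 (nat_lit 76) (nat_lit 660186993) (nat_lit 0) (nat_lit 660186993) (nat_lit 394) (nat_lit 1) (nat_lit 378) (nat_lit 1) (nat_lit 377) (nat_lit 1) (nat_lit 397) (nat_lit 315) (nat_lit 308)) (XT.lf (nat_lit 1292) (nat_lit 181441547) (nat_lit 0) (nat_lit 1363241078) (nat_lit 1216) (nat_lit 181441547) (nat_lit 395) (nat_lit 1) (nat_lit 378) (nat_lit 1) (nat_lit 394) (nat_lit 1) (nat_lit 398) (nat_lit 315) (nat_lit 307)))) (XT.nd (nat_lit 156) (nat_lit 1140) (nat_lit 0) (XT.nd (nat_lit 78) (nat_lit 0) (nat_lit 76) (XT.lf (nat_lit 1292) (nat_lit 283946059) (nat_lit 76) (nat_lit 708917723) (nat_lit 0) (nat_lit 708917723) (nat_lit 395) (nat_lit 1) (nat_lit 379) (nat_lit 1) (nat_lit 378) (nat_lit 1) (nat_lit 399) (nat_lit 315) (nat_lit 306)) (XT.lf (nat_lit 1292) (nat_lit 102248406) (nat_lit 0) (nat_lit 1473569152) (nat_lit 1216) (nat_lit 102248406) (nat_lit 396) (nat_lit 1) (nat_lit 379) (nat_lit 1) (nat_lit 395)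 (nat_lit 1) (nat_lit 400) (nat_lit 315) (nat_lit 305))) (XT.nd (nat_lit 78) (nat_lit 1216) (nat_lit 0) (XT.lf (nat_lit 1292) (nat_lit 112914865) (nat_lit 76) (nat_lit 770852761) (nat_lit 0) (nat_lit 770852761) (nat_lit 396) (nat_lit 1) (nat_lit 380) (nat_lit 1) (nat_lit 379) (nat_lit 1) (nat_lit 401) (nat_lit 315) (nat_lit 304)) (XT.nd (nat_lit 78) (nat_lit 1292) (nat_lit 0) (XT.lf (nat_lit 1292) (nat_lit 11441192) (nat_lit 0) (nat_lit 1608942745) (nat_lit 1216) (nat_lit 11441192) (nat_lit 397) (nat_lit 1) (nat_lit 380) (nat_lit 1) (nat_lit 396) (nat_lit 1) (nat_lit 402) (nat_lit 315) (nat_lit 303)) (XT.lf (nat_lit 1368) (nat_lit 765238228) (nat_lit 0) (nat_lit 78734763) (nat_lit 1292) (nat_lit 765238228) (nat_lit 381) (nat_lit 1) (nat_lit 363) (nat_lit 1) (nat_lit 380) (nat_lit 1) (nat_lit 403) (nat_lit 315) (nat_lit 302)))))) (XT.nd (nat_lit 390) (nat_lit 1216) (nat_lit 0) (XT.nd (nat_lit 156) (nat_lit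 684) (nat_lit 0) (XT.nd (nat_lit 78) (nat_lit 0) (nat_lit 76) (XT.lf (nat_lit 1368) (nat_lit 1409296793) (nat_lit 76) (nat_lit 88961905) (nat_lit 0) (nat_lit 88961905) (nat_lit 381) (nat_lit 1) (nat_lit 364) (nat_lit 1) (nat_lit 363) (nat_lit 1) (nat_lit 404) (nat_lit 315) (nat_lit 301)) (XT.lf (nat_lit 1368) (nat_lit 638846601) (nat_lit 0) (nat_lit 287770881) (nat_lit 1292) (nat_lit 638846601) (nat_lit 382) (nat_lit 1) (nat_lit 364) (nat_lit 1) (nat_lit 381) (nat_lit 1) (nat_lit 405) (nat_lit 315) (nat_lit 300))) (XT.nd (nat_lit 78) (nat_lit 760) (nat_lit 0) (XT.lf (nat_lit 1368) (nat_lit 1147101441) (nat_lit 76) (nat_lit 198578816) (nat_lit 0) (nat_lit 198578816) (nat_lit 382) (nat_lit 1) (nat_lit 365) (nat_lit 1) (nat_lit 364) (nat_lit 1) (nat_lit 406) (nat_lit 315) (nat_lit 299)) (XT.nd (nat_lit 78) (nat_lit 836) (nat_lit 0) (XT.lf (nat_lit 76) (nat_lit 504477942) (nat_lit 0) (nat_lit 514385002)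 (nat_lit 1292) (nat_lit 504477942) (nat_lit 366) (nat_lit 1) (nat_lit 365) (nat_lit 1) (nat_lit 382) (nat_lit 1) (nat_lit 407) (nat_lit 315) (nat_lit 298)) (XT.lf (nat_lit 912) (nat_lit 869790994) (nat_lit 0) (nat_lit 316547044) (nat_lit 836) (nat_lit 316547044) (nat_lit 366) (nat_lit 1) (nat_lit 354) (nat_lit 1) (nat_lit 365) (nat_lit 1) (nat_lit 408) (nat_lit 315) (nat_lit 297))))) (XT.nd (nat_lit 156) (nat_lit 608) (nat_lit 0) (XT.nd (nat_lit 78) (nat_lit 608) (nat_lit 0) (XT.lf (nat_lit 76) (nat_lit 363033829) (nat_lit 0) (nat_lit 756706594) (nat_lit 912) (nat_lit 363033829) (nat_lit 355) (nat_lit 1) (nat_lit 354) (nat_lit 1) (nat_lit 366) (nat_lit 1) (nat_lit 409) (nat_lit 315) (nat_lit 296)) (XT.lf (nat_lit 684) (nat_lit 579111746) (nat_lit 0) (nat_lit 441960673) (nat_lit 608) (nat_lit 441960673) (nat_lit 355) (nat_lit 1) (nat_lit 346) (nat_lit 1) (nat_lit 354) (nat_lit 1) (nat_lit 410) (nat_lit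 315) (nat_lit 295))) (XT.nd (nat_lit 78) (nat_lit 608) (nat_lit 0) (XT.lf (nat_lit 76) (nat_lit 215351162) (nat_lit 0) (nat_lit 1012997593) (nat_lit 684) (nat_lit 215351162) (nat_lit 347) (nat_lit 1) (nat_lit 346) (nat_lit 1) (nat_lit 355) (nat_lit 1) (nat_lit 411) (nat_lit 315) (nat_lit 294)) (XT.nd (nat_lit 78) (nat_lit 0) (nat_lit 0) (XT.lf (nat_lit 684) (nat_lit 276684158) (nat_lit 0) (nat_lit 573978211) (nat_lit 608) (nat_lit 573978211) (nat_lit 347) (nat_lit 1) (nat_lit 338) (nat_lit 1) (nat_lit 346) (nat_lit 1) (nat_lit 412) (nat_lit 315) (nat_lit 293)) (XT.lf (nat_lit 76) (nat_lit 62206255) (nat_lit 0) (nat_lit 1281644071) (nat_lit 684) (nat_lit 62206255) (nat_lit 339) (nat_lit 1) (nat_lit 338) (nat_lit 1) (nat_lit 347) (nat_lit 1) (nat_lit 413) (nat_lit 315) (nat_lit 292))))))) (XT.nd (nat_lit 702) (nat_lit 2204) (nat_lit 0) (XT.nd (nat_lit 312) (nat_lit 1596) (nat_lit 0) (XT.nd (nat_lit 156)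 (nat_lit 532) (nat_lit 0) (XT.nd (nat_lit 78) (nat_lit 608) (nat_lit 0) (XT.lf (nat_lit 76) (nat_lit 676175306) (nat_lit 0) (nat_lit 35286899) (nat_lit 608) (nat_lit 676175306) (nat_lit 331) (nat_lit 1) (nat_lit 330) (nat_lit 1) (nat_lit 338) (nat_lit 1) (nat_lit 414) (nat_lit 315) (nat_lit 291)) (XT.lf (nat_lit 684) (nat_lit 1180188284) (nat_lit 0) (nat_lit 94743269) (nat_lit 608) (nat_lit 94743269) (nat_lit 331) (nat_lit 1) (nat_lit 322) (nat_lit 1) (nat_lit 330) (nat_lit 1) (nat_lit 415) (nat_lit 315) (nat_lit 290))) (XT.nd (nat_lit 78) (nat_lit 532) (nat_lit 0) (XT.lf (nat_lit 76) (nat_lit 500677680) (nat_lit 0) (nat_lit 350539620) (nat_lit 684) (nat_lit 500677680) (nat_lit 323) (nat_lit 1) (nat_lit 322) (nat_lit 1) (nat_lit 331) (nat_lit 1) (nat_lit 416) (nat_lit 315) (nat_lit 289)) (XT.lf (nat_lit 608) (nat_lit 824294499) (nat_lit 0) (nat_lit 255119200) (nat_lit 532) (nat_lit 255119200) (nat_lit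 323) (nat_lit 1) (nat_lit 315) (nat_lit 1) (nat_lit 322) (nat_lit 1) (nat_lit 417) (nat_lit 315) (nat_lit 288)))) (XT.nd (nat_lit 156) (nat_lit 1064) (nat_lit 0) (XT.nd (nat_lit 78) (nat_lit 532) (nat_lit 0) (XT.lf (nat_lit 76) (nat_lit 322114709) (nat_lit 0) (nat_lit 673209383) (nat_lit 608) (nat_lit 322114709) (nat_lit 316) (nat_lit 1) (nat_lit 315) (nat_lit 1) (nat_lit 323) (nat_lit 1) (nat_lit 418) (nat_lit 315) (nat_lit 287)) (XT.lf (nat_lit 608) (nat_lit 462808861) (nat_lit 0) (nat_lit 418920747) (nat_lit 532) (nat_lit 418920747) (nat_lit 316) (nat_lit 1) (nat_lit 308) (nat_lit 1) (nat_lit 315) (nat_lit 1) (nat_lit 419) (nat_lit 315) (nat_lit 286))) (XT.nd (nat_lit 78) (nat_lit 1064) (nat_lit 0) (XT.lf (nat_lit 76) (nat_lit 141045065) (nat_lit 0) (nat_lit 1002127297) (nat_lit 608) (nat_lit 141045065) (nat_lit 309) (nat_lit 1) (nat_lit 308) (nat_lit 1) (nat_lit 316) (nat_lit 1) (nat_lit 420) (nat_lit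 315) (nat_lit 285)) (XT.nd (nat_lit 78) (nat_lit 608) (nat_lit 0) (XT.lf (nat_lit 532) (nat_lit 96810275) (nat_lit 0) (nat_lit 585583347) (nat_lit 456) (nat_lit 585583347) (nat_lit 309) (nat_lit 1) (nat_lit 302) (nat_lit 1) (nat_lit 308) (nat_lit 1) (nat_lit 421) (nat_lit 315) (nat_lit 284)) (XT.lf (nat_lit 608) (nat_lit 1168925152) (nat_lit 0) (nat_lit 41603878) (nat_lit 532) (nat_lit 41603878) (nat_lit 302) (nat_lit 1) (nat_lit 294) (nat_lit 1) (nat_lit 301) (nat_lit 1) (nat_lit 422) (nat_lit 315) (nat_lit 283)))))) (XT.nd (nat_lit 390) (nat_lit 1292) (nat_lit 0) (XT.nd (nat_lit 156) (nat_lit 456) (nat_lit 0) (XT.nd (nat_lit 78) (nat_lit 456) (nat_lit 0) (XT.lf (nat_lit 76) (nat_lit 484500625) (nat_lit 0) (nat_lit 267384875) (nat_lit 608) (nat_lit 484500625) (nat_lit 295) (nat_lit 1) (nat_lit 294) (nat_lit 1) (nat_lit 302) (nat_lit 1) (nat_lit 423) (nat_lit 315) (nat_lit 282)) (XT.lf (nat_lit 532)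 (nat_lit 772278956) (nat_lit 0) (nat_lit 224371340) (nat_lit 456) (nat_lit 224371340) (nat_lit 295) (nat_lit 1) (nat_lit 288) (nat_lit 1) (nat_lit 294) (nat_lit 1) (nat_lit 424) (nat_lit 315) (nat_lit 281))) (XT.nd (nat_lit 78) (nat_lit 456) (nat_lit 0) (XT.lf (nat_lit 76) (nat_lit 286820055) (nat_lit 0) (nat_lit 632241836) (nat_lit 532) (nat_lit 286820055) (nat_lit 289) (nat_lit 1) (nat_lit 288) (nat_lit 1) (nat_lit 295) (nat_lit 1) (nat_lit 425) (nat_lit 315) (nat_lit 280)) (XT.nd (nat_lit 78) (nat_lit 0) (nat_lit 0) (XT.lf (nat_lit 532) (nat_lit 374588413) (nat_lit 0) (nat_lit 408207134) (nat_lit 456) (nat_lit 408207134) (nat_lit 289) (nat_lit 1) (nat_lit 282) (nat_lit 1) (nat_lit 288) (nat_lit 1) (nat_lit 426) (nat_lit 315) (nat_lit 279)) (XT.lf (nat_lit 76) (nat_lit 88812770) (nat_lit 0) (nat_lit 998823229) (nat_lit 532) (nat_lit 88812770) (nat_lit 283) (nat_lit 1) (nat_lit 282) (nat_lit 1) (nat_lit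 289) (nat_lit 1) (nat_lit 427) (nat_lit 315) (nat_lit 278))))) (XT.nd (nat_lit 156) (nat_lit 380) (nat_lit 0) (XT.nd (nat_lit 78) (nat_lit 456) (nat_lit 0) (XT.lf (nat_lit 76) (nat_lit 569545174) (nat_lit 0) (nat_lit 22936451) (nat_lit 456) (nat_lit 569545174) (nat_lit 277) (nat_lit 1) (nat_lit 276) (nat_lit 1) (nat_lit 282) (nat_lit 1) (nat_lit 428) (nat_lit 315) (nat_lit 277)) (XT.lf (nat_lit 532) (nat_lit 931733925) (nat_lit 0) (nat_lit 108092222) (nat_lit 456) (nat_lit 108092222) (nat_lit 277) (nat_lit 1) (nat_lit 270) (nat_lit 1) (nat_lit 276) (nat_lit 1) (nat_lit 429) (nat_lit 315) (nat_lit 276))) (XT.nd (nat_lit 78) (nat_lit 380) (nat_lit 0) (XT.lf (nat_lit 76) (nat_lit 360595961) (nat_lit 0) (nat_lit 412760252) (nat_lit 532) (nat_lit 360595961) (nat_lit 271) (nat_lit 1) (nat_lit 270) (nat_lit 1) (nat_lit 277) (nat_lit 1) (nat_lit 430) (nat_lit 315) (nat_lit 275)) (XT.nd (nat_lit 78) (nat_lit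 0) (nat_lit 0) (XT.lf (nat_lit 456) (nat_lit 512735540) (nat_lit 0) (nat_lit 303769678) (nat_lit 380) (nat_lit 303769678) (nat_lit 271) (nat_lit 1) (nat_lit 265) (nat_lit 1) (nat_lit 270) (nat_lit 1) (nat_lit 431) (nat_lit 315) (nat_lit 274)) (XT.lf (nat_lit 76) (nat_lit 152637057) (nat_lit 0) (nat_lit 801574009) (nat_lit 456) (nat_lit 152637057) (nat_lit 266) (nat_lit 1) (nat_lit 265) (nat_lit 1) (nat_lit 271) (nat_lit 1) (nat_lit 432) (nat_lit 315) (nat_lit 273))))))))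
noncomputable def ec14 : XT := (XT.nd (nat_lit 50856) (nat_lit 0) (nat_lit 2584) (XT.nd (nat_lit 50076) (nat_lit 0) (nat_lit 8284) (XT.nd (nat_lit 49686) (nat_lit 0) (nat_lit 9120) (XT.nd (nat_lit 156) (nat_lit 0) (nat_lit 0) (XT.nd (nat_lit 78) (nat_lit 456) (nat_lit 0) (XT.lf (nat_lit 456) (nat_lit 95996685) (nat_lit 0) (nat_lit 498793423) (nat_lit 380) (nat_lit 498793423) (nat_lit 266) (nat_lit 1) (nat_lit 260) (nat_lit 1) (nat_lit 265) (nat_lit 1) (nat_lit 433) (nat_lit 315) (nat_lit 272)) (XT.lf (nat_lit 456) (nat_lit 973539330) (nat_lit 0) (nat_lit 53537795) (nat_lit 380) (nat_lit 53537795) (nat_lit 260) (nat_lit 1) (nat_lit 254) (nat_lit 1) (nat_lit 259) (nat_lit 1) (nat_lit 434) (nat_lit 315) (nat_lit 271))) (XT.nd (nat_lit 49452) (nat_lit 0) (nat_lit 9120) (XT.lf (nat_lit 76) (nat_lit 377971848) (nat_lit 0) (nat_lit 311772717) (nat_lit 456) (nat_lit 377971848) (nat_lit 255) (nat_lit 1) (nat_lit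 254) (nat_lit 1) (nat_lit 260) (nat_lit 1) (nat_lit 435) (nat_lit 315) (nat_lit 270)) (XT.lf (nat_lit 1292) (nat_lit 183472629) (nat_lit 0) (nat_lit 631231171) (nat_lit 1292) (nat_lit 183472629) (nat_lit 391) (nat_lit 1) (nat_lit 374) (nat_lit 0) (nat_lit 391) (nat_lit 0) (nat_lit 388) (nat_lit 316) (nat_lit 316)))) (XT.nd (nat_lit 156) (nat_lit 0) (nat_lit 76) (XT.nd (nat_lit 78) (nat_lit 0) (nat_lit 76) (XT.lf (nat_lit 1292) (nat_lit 717014249) (nat_lit 76) (nat_lit 625042630) (nat_lit 0) (nat_lit 625042630) (nat_lit 391) (nat_lit 1) (nat_lit 375) (nat_lit 1) (nat_lit 374) (nat_lit 0) (nat_lit 389) (nat_lit 316) (nat_lit 315)) (XT.lf (nat_lit 1292) (nat_lit 346765186) (nat_lit 0) (nat_lit 1244961057) (nat_lit 1216) (nat_lit 346765186) (nat_lit 392) (nat_lit 1) (nat_lit 375) (nat_lit 1) (nat_lit 391) (nat_lit 1) (nat_lit 390) (nat_lit 316) (nat_lit 314))) (XT.nd (nat_lit 78) (nat_lit 0) (nat_lit 76)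 (XT.lf (nat_lit 1292) (nat_lit 658524993) (nat_lit 76) (nat_lit 625918050) (nat_lit 0) (nat_lit 625918050) (nat_lit 392) (nat_lit 1) (nat_lit 376) (nat_lit 1) (nat_lit 375) (nat_lit 1) (nat_lit 391) (nat_lit 316) (nat_lit 313)) (XT.nd (nat_lit 78) (nat_lit 0) (nat_lit 0) (XT.lf (nat_lit 1292) (nat_lit 309009568) (nat_lit 0) (nat_lit 1264841047) (nat_lit 1216) (nat_lit 309009568) (nat_lit 393) (nat_lit 1) (nat_lit 376) (nat_lit 1) (nat_lit 392) (nat_lit 1) (nat_lit 392) (nat_lit 316) (nat_lit 312)) (XT.lf (nat_lit 1292) (nat_lit 566292662) (nat_lit 76) (nat_lit 644753216) (nat_lit 0) (nat_lit 644753216) (nat_lit 393) (nat_lit 1) (nat_lit 377) (nat_lit 1) (nat_lit 376) (nat_lit 1) (nat_lit 393) (nat_lit 316) (nat_lit 311)))))) (XT.nd (nat_lit 390) (nat_lit 1064) (nat_lit 0) (XT.nd (nat_lit 156) (nat_lit 0) (nat_lit 76) (XT.nd (nat_lit 78) (nat_lit 0) (nat_lit 0) (XT.lf (nat_lit 1292) (nat_lit 255232962)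 (nat_lit 0) (nat_lit 1318896962) (nat_lit 1216) (nat_lit 255232962) (nat_lit 394) (nat_lit 1) (nat_lit 377) (nat_lit 1) (nat_lit 393) (nat_lit 1) (nat_lit 394) (nat_lit 316) (nat_lit 310)) (XT.lf (nat_lit 1292) (nat_lit 443334846) (nat_lit 76) (nat_lit 679992602) (nat_lit 0) (nat_lit 679992602) (nat_lit 394) (nat_lit 1) (nat_lit 378) (nat_lit 1) (nat_lit 377) (nat_lit 1) (nat_lit 395) (nat_lit 316) (nat_lit 309))) (XT.nd (nat_lit 78) (nat_lit 0) (nat_lit 0) (XT.lf (nat_lit 1292) (nat_lit 186884794) (nat_lit 0) (nat_lit 1404138310) (nat_lit 1216) (nat_lit 186884794) (nat_lit 395) (nat_lit 1) (nat_lit 378) (nat_lit 1) (nat_lit 394) (nat_lit 1) (nat_lit 396) (nat_lit 316) (nat_lit 308)) (XT.nd (nat_lit 78) (nat_lit 0) (nat_lit 76) (XT.lf (nat_lit 1292) (nat_lit 292464440) (nat_lit 76) (nat_lit 730185255) (nat_lit 0) (nat_lit 730185255) (nat_lit 395) (nat_lit 1) (nat_lit 379) (nat_lit 1) (nat_lit 378) (nat_lit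 1) (nat_lit 397) (nat_lit 316) (nat_lit 307)) (XT.lf (nat_lit 1292) (nat_lit 105315858) (nat_lit 0) (nat_lit 1517776227) (nat_lit 1216) (nat_lit 105315858) (nat_lit 396) (nat_lit 1) (nat_lit 379) (nat_lit 1) (nat_lit 395) (nat_lit 1) (nat_lit 398) (nat_lit 316) (nat_lit 306))))) (XT.nd (nat_lit 156) (nat_lit 1216) (nat_lit 0) (XT.nd (nat_lit 78) (nat_lit 0) (nat_lit 76) (XT.lf (nat_lit 1292) (nat_lit 116302311) (nat_lit 76) (nat_lit 793978344) (nat_lit 0) (nat_lit 793978344) (nat_lit 396) (nat_lit 1) (nat_lit 380) (nat_lit 1) (nat_lit 379) (nat_lit 1) (nat_lit 399) (nat_lit 316) (nat_lit 305)) (XT.lf (nat_lit 1292) (nat_lit 11784428) (nat_lit 0) (nat_lit 1657211028) (nat_lit 1216) (nat_lit 11784428) (nat_lit 397) (nat_lit 1) (nat_lit 380) (nat_lit 1) (nat_lit 396) (nat_lit 1) (nat_lit 400) (nat_lit 316) (nat_lit 304))) (XT.nd (nat_lit 78) (nat_lit 0) (nat_lit 0) (XT.lf (nat_lit 1368) (nat_lit 788195375)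 (nat_lit 0) (nat_lit 81096805) (nat_lit 1292) (nat_lit 788195375) (nat_lit 381) (nat_lit 1) (nat_lit 363) (nat_lit 1) (nat_lit 380) (nat_lit 1) (nat_lit 401) (nat_lit 316) (nat_lit 303)) (XT.nd (nat_lit 78) (nat_lit 0) (nat_lit 76) (XT.lf (nat_lit 1368) (nat_lit 1451575697) (nat_lit 76) (nat_lit 91630763) (nat_lit 0) (nat_lit 91630763) (nat_lit 381) (nat_lit 1) (nat_lit 364) (nat_lit 1) (nat_lit 363) (nat_lit 1) (nat_lit 402) (nat_lit 316) (nat_lit 302)) (XT.lf (nat_lit 1368) (nat_lit 658011999) (nat_lit 0) (nat_lit 296404008) (nat_lit 1292) (nat_lit 658011999) (nat_lit 382) (nat_lit 1) (nat_lit 364) (nat_lit 1) (nat_lit 381) (nat_lit 1) (nat_lit 403) (nat_lit 316) (nat_lit 301))))))) (XT.nd (nat_lit 702) (nat_lit 3192) (nat_lit 0) (XT.nd (nat_lit 312) (nat_lit 1824) (nat_lit 0) (XT.nd (nat_lit 156) (nat_lit 760) (nat_lit 0) (XT.nd (nat_lit 78) (nat_lit 0) (nat_lit 76) (XT.lf (nat_lit 1368) (nat_lit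 1181514484) (nat_lit 76) (nat_lit 204536180) (nat_lit 0) (nat_lit 204536180) (nat_lit 382) (nat_lit 1) (nat_lit 365) (nat_lit 1) (nat_lit 364) (nat_lit 1) (nat_lit 404) (nat_lit 316) (nat_lit 300)) (XT.lf (nat_lit 76) (nat_lit 519612280) (nat_lit 0) (nat_lit 529816552) (nat_lit 1292) (nat_lit 519612280) (nat_lit 366) (nat_lit 1) (nat_lit 365) (nat_lit 1) (nat_lit 382) (nat_lit 1) (nat_lit 405) (nat_lit 316) (nat_lit 299))) (XT.nd (nat_lit 78) (nat_lit 0) (nat_lit 0) (XT.lf (nat_lit 912) (nat_lit 895884724) (nat_lit 0) (nat_lit 326043456) (nat_lit 836) (nat_lit 326043456) (nat_lit 366) (nat_lit 1) (nat_lit 354) (nat_lit 1) (nat_lit 365) (nat_lit 1) (nat_lit 406) (nat_lit 316) (nat_lit 298)) (XT.lf (nat_lit 76) (nat_lit 373924844) (nat_lit 0) (nat_lit 779407791) (nat_lit 912) (nat_lit 373924844) (nat_lit 355) (nat_lit 1) (nat_lit 354) (nat_lit 1) (nat_lit 366) (nat_lit 1) (nat_lit 407) (nat_lit 316) (nat_lit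 297)))) (XT.nd (nat_lit 156) (nat_lit 1216) (nat_lit 0) (XT.nd (nat_lit 78) (nat_lit 0) (nat_lit 0) (XT.lf (nat_lit 684) (nat_lit 596485099) (nat_lit 0) (nat_lit 455219494) (nat_lit 608) (nat_lit 455219494) (nat_lit 355) (nat_lit 1) (nat_lit 346) (nat_lit 1) (nat_lit 354) (nat_lit 1) (nat_lit 408) (nat_lit 316) (nat_lit 296)) (XT.lf (nat_lit 76) (nat_lit 221811697) (nat_lit 0) (nat_lit 1043387521) (nat_lit 684) (nat_lit 221811697) (nat_lit 347) (nat_lit 1) (nat_lit 346) (nat_lit 1) (nat_lit 355) (nat_lit 1) (nat_lit 409) (nat_lit 316) (nat_lit 295))) (XT.nd (nat_lit 78) (nat_lit 608) (nat_lit 0) (XT.lf (nat_lit 684) (nat_lit 284984683) (nat_lit 0) (nat_lit 591197558) (nat_lit 608) (nat_lit 591197558) (nat_lit 347) (nat_lit 1) (nat_lit 338) (nat_lit 1) (nat_lit 346) (nat_lit 1) (nat_lit 410) (nat_lit 316) (nat_lit 294)) (XT.nd (nat_lit 78) (nat_lit 608) (nat_lit 0) (XT.lf (nat_lit 76) (nat_lit 64072443)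 (nat_lit 0) (nat_lit 1320093393) (nat_lit 684) (nat_lit 64072443) (nat_lit 339) (nat_lit 1) (nat_lit 338) (nat_lit 1) (nat_lit 347) (nat_lit 1) (nat_lit 411) (nat_lit 316) (nat_lit 293)) (XT.lf (nat_lit 76) (nat_lit 696460565) (nat_lit 0) (nat_lit 36345506) (nat_lit 608) (nat_lit 696460565) (nat_lit 331) (nat_lit 1) (nat_lit 330) (nat_lit 1) (nat_lit 338) (nat_lit 1) (nat_lit 412) (nat_lit 316) (nat_lit 292)))))) (XT.nd (nat_lit 390) (nat_lit 1520) (nat_lit 0) (XT.nd (nat_lit 156) (nat_lit 1064) (nat_lit 0) (XT.nd (nat_lit 78) (nat_lit 0) (nat_lit 0) (XT.lf (nat_lit 684) (nat_lit 1215593932) (nat_lit 0) (nat_lit 97585567) (nat_lit 608) (nat_lit 97585567) (nat_lit 331) (nat_lit 1) (nat_lit 322) (nat_lit 1) (nat_lit 330) (nat_lit 1) (nat_lit 413) (nat_lit 316) (nat_lit 291)) (XT.lf (nat_lit 76) (nat_lit 515698010) (nat_lit 0) (nat_lit 361055809) (nat_lit 684) (nat_lit 515698010) (nat_lit 323) (nat_lit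 1) (nat_lit 322) (nat_lit 1) (nat_lit 331) (nat_lit 1) (nat_lit 414) (nat_lit 316) (nat_lit 290))) (XT.nd (nat_lit 78) (nat_lit 532) (nat_lit 0) (XT.lf (nat_lit 608) (nat_lit 849023334) (nat_lit 0) (nat_lit 262772776) (nat_lit 532) (nat_lit 262772776) (nat_lit 323) (nat_lit 1) (nat_lit 315) (nat_lit 1) (nat_lit 322) (nat_lit 1) (nat_lit 415) (nat_lit 316) (nat_lit 289)) (XT.nd (nat_lit 78) (nat_lit 532) (nat_lit 0) (XT.lf (nat_lit 76) (nat_lit 331778150) (nat_lit 0) (nat_lit 693405664) (nat_lit 608) (nat_lit 331778150) (nat_lit 316) (nat_lit 1) (nat_lit 315) (nat_lit 1) (nat_lit 323) (nat_lit 1) (nat_lit 416) (nat_lit 316) (nat_lit 288)) (XT.lf (nat_lit 608) (nat_lit 476693127) (nat_lit 0) (nat_lit 431488369) (nat_lit 532) (nat_lit 431488369) (nat_lit 316) (nat_lit 1) (nat_lit 308) (nat_lit 1) (nat_lit 315) (nat_lit 1) (nat_lit 417) (nat_lit 316) (nat_lit 287))))) (XT.nd (nat_lit 156) (nat_lit 1064)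 (nat_lit 0) (XT.nd (nat_lit 78) (nat_lit 456) (nat_lit 0) (XT.lf (nat_lit 76) (nat_lit 145276417) (nat_lit 0) (nat_lit 1032191116) (nat_lit 608) (nat_lit 145276417) (nat_lit 309) (nat_lit 1) (nat_lit 308) (nat_lit 1) (nat_lit 316) (nat_lit 1) (nat_lit 418) (nat_lit 316) (nat_lit 286)) (XT.lf (nat_lit 532) (nat_lit 99714584) (nat_lit 0) (nat_lit 603150848) (nat_lit 456) (nat_lit 603150848) (nat_lit 309) (nat_lit 1) (nat_lit 302) (nat_lit 1) (nat_lit 308) (nat_lit 1) (nat_lit 419) (nat_lit 316) (nat_lit 285))) (XT.nd (nat_lit 78) (nat_lit 456) (nat_lit 0) (XT.lf (nat_lit 608) (nat_lit 1203992907) (nat_lit 0) (nat_lit 42851994) (nat_lit 532) (nat_lit 42851994) (nat_lit 302) (nat_lit 1) (nat_lit 294) (nat_lit 1) (nat_lit 301) (nat_lit 1) (nat_lit 420) (nat_lit 316) (nat_lit 284)) (XT.nd (nat_lit 78) (nat_lit 456) (nat_lit 0) (XT.lf (nat_lit 76) (nat_lit 499035644) (nat_lit 0) (nat_lit 275406421) (nat_lit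 608) (nat_lit 499035644) (nat_lit 295) (nat_lit 1) (nat_lit 294) (nat_lit 1) (nat_lit 302) (nat_lit 1) (nat_lit 421) (nat_lit 316) (nat_lit 283)) (XT.lf (nat_lit 532) (nat_lit 795447325) (nat_lit 0) (nat_lit 231102480) (nat_lit 456) (nat_lit 231102480) (nat_lit 295) (nat_lit 1) (nat_lit 288) (nat_lit 1) (nat_lit 294) (nat_lit 1) (nat_lit 422) (nat_lit 316) (nat_lit 282))))))))
noncomputable def ec15 : XT := (XT.nd (nat_lit 50700) (nat_lit 0) (nat_lit 6156) (XT.nd (nat_lit 702) (nat_lit 836) (nat_lit 0) (XT.nd (nat_lit 312) (nat_lit 1216) (nat_lit 0) (XT.nd (nat_lit 156) (nat_lit 456) (nat_lit 0) (XT.nd (nat_lit 78) (nat_lit 456) (nat_lit 0) (XT.lf (nat_lit 76) (nat_lit 295424657) (nat_lit 0) (nat_lit 651209091) (nat_lit 532) (nat_lit 295424657) (nat_lit 289) (nat_lit 1) (nat_lit 288) (nat_lit 1) (nat_lit 295) (nat_lit 1) (nat_lit 423) (nat_lit 316) (nat_lit 281)) (XT.lf (nat_lit 532) (nat_lit 385826065)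 (nat_lit 0) (nat_lit 420453348) (nat_lit 456) (nat_lit 420453348) (nat_lit 289) (nat_lit 1) (nat_lit 282) (nat_lit 1) (nat_lit 288) (nat_lit 1) (nat_lit 424) (nat_lit 316) (nat_lit 280))) (XT.nd (nat_lit 78) (nat_lit 456) (nat_lit 0) (XT.lf (nat_lit 76) (nat_lit 91477154) (nat_lit 0) (nat_lit 1028787926) (nat_lit 532) (nat_lit 91477154) (nat_lit 283) (nat_lit 1) (nat_lit 282) (nat_lit 1) (nat_lit 289) (nat_lit 1) (nat_lit 425) (nat_lit 316) (nat_lit 279)) (XT.lf (nat_lit 76) (nat_lit 586631529) (nat_lit 0) (nat_lit 23624544) (nat_lit 456) (nat_lit 586631529) (nat_lit 277) (nat_lit 1) (nat_lit 276) (nat_lit 1) (nat_lit 282) (nat_lit 1) (nat_lit 426) (nat_lit 316) (nat_lit 278)))) (XT.nd (nat_lit 156) (nat_lit 760) (nat_lit 0) (XT.nd (nat_lit 78) (nat_lit 0) (nat_lit 0) (XT.lf (nat_lit 532) (nat_lit 959685943) (nat_lit 0) (nat_lit 111334989) (nat_lit 456) (nat_lit 111334989) (nat_lit 277) (nat_lit 1)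 (nat_lit 270) (nat_lit 1) (nat_lit 276) (nat_lit 1) (nat_lit 427) (nat_lit 316) (nat_lit 277)) (XT.lf (nat_lit 76) (nat_lit 371413839) (nat_lit 0) (nat_lit 425143059) (nat_lit 532) (nat_lit 371413839) (nat_lit 271) (nat_lit 1) (nat_lit 270) (nat_lit 1) (nat_lit 277) (nat_lit 1) (nat_lit 428) (nat_lit 316) (nat_lit 276))) (XT.nd (nat_lit 78) (nat_lit 380) (nat_lit 0) (XT.lf (nat_lit 456) (nat_lit 528117606) (nat_lit 0) (nat_lit 312882768) (nat_lit 380) (nat_lit 312882768) (nat_lit 271) (nat_lit 1) (nat_lit 265) (nat_lit 1) (nat_lit 270) (nat_lit 1) (nat_lit 429) (nat_lit 316) (nat_lit 275)) (XT.nd (nat_lit 78) (nat_lit 380) (nat_lit 0) (XT.lf (nat_lit 76) (nat_lit 157216169) (nat_lit 0) (nat_lit 825621230) (nat_lit 456) (nat_lit 157216169) (nat_lit 266) (nat_lit 1) (nat_lit 265) (nat_lit 1) (nat_lit 271) (nat_lit 1) (nat_lit 430) (nat_lit 316) (nat_lit 274)) (XT.lf (nat_lit 456) (nat_lit 98876586) (nat_lit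 0) (nat_lit 513757226) (nat_lit 380) (nat_lit 513757226) (nat_lit 266) (nat_lit 1) (nat_lit 260) (nat_lit 1) (nat_lit 265) (nat_lit 1) (nat_lit 431) (nat_lit 316) (nat_lit 273)))))) (XT.nd (nat_lit 49608) (nat_lit 0) (nat_lit 9500) (XT.nd (nat_lit 156) (nat_lit 380) (nat_lit 0) (XT.nd (nat_lit 78) (nat_lit 0) (nat_lit 0) (XT.lf (nat_lit 456) (nat_lit 1002745510) (nat_lit 0) (nat_lit 55143929) (nat_lit 380) (nat_lit 55143929) (nat_lit 260) (nat_lit 1) (nat_lit 254) (nat_lit 1) (nat_lit 259) (nat_lit 1) (nat_lit 432) (nat_lit 316) (nat_lit 272)) (XT.lf (nat_lit 76) (nat_lit 389311003) (nat_lit 0) (nat_lit 321125899) (nat_lit 456) (nat_lit 389311003) (nat_lit 255) (nat_lit 1) (nat_lit 254) (nat_lit 1) (nat_lit 260) (nat_lit 1) (nat_lit 433) (nat_lit 316) (nat_lit 271))) (XT.nd (nat_lit 78) (nat_lit 0) (nat_lit 0) (XT.lf (nat_lit 456) (nat_lit 557878079) (nat_lit 0) (nat_lit 264439810) (nat_lit 380) (nat_lit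 264439810) (nat_lit 255) (nat_lit 1) (nat_lit 249) (nat_lit 1) (nat_lit 254) (nat_lit 1) (nat_lit 434) (nat_lit 316) (nat_lit 270)) (XT.nd (nat_lit 49296) (nat_lit 0) (nat_lit 9500) (XT.lf (nat_lit 76) (nat_lit 169020020) (nat_lit 0) (nat_lit 735944927) (nat_lit 456) (nat_lit 169020020) (nat_lit 250) (nat_lit 1) (nat_lit 249) (nat_lit 1) (nat_lit 255) (nat_lit 1) (nat_lit 435) (nat_lit 316) (nat_lit 269)) (XT.lf (nat_lit 1292) (nat_lit 188976808) (nat_lit 0) (nat_lit 650168106) (nat_lit 1292) (nat_lit 188976808) (nat_lit 391) (nat_lit 1) (nat_lit 374) (nat_lit 0) (nat_lit 391) (nat_lit 0) (nat_lit 386) (nat_lit 317) (nat_lit 317))))) (XT.nd (nat_lit 156) (nat_lit 0) (nat_lit 76) (XT.nd (nat_lit 78) (nat_lit 0) (nat_lit 76) (XT.lf (nat_lit 1292) (nat_lit 738524677) (nat_lit 76) (nat_lit 643793909) (nat_lit 0) (nat_lit 643793909) (nat_lit 391) (nat_lit 1) (nat_lit 375) (nat_lit 1) (nat_lit 374) (nat_lit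 0) (nat_lit 387) (nat_lit 317) (nat_lit 316)) (XT.lf (nat_lit 1292) (nat_lit 357168142) (nat_lit 0) (nat_lit 1282309888) (nat_lit 1216) (nat_lit 357168142) (nat_lit 392) (nat_lit 1) (nat_lit 375) (nat_lit 1) (nat_lit 391) (nat_lit 1) (nat_lit 388) (nat_lit 317) (nat_lit 315))) (XT.nd (nat_lit 78) (nat_lit 0) (nat_lit 76) (XT.lf (nat_lit 1292) (nat_lit 678280743) (nat_lit 76) (nat_lit 644695592) (nat_lit 0) (nat_lit 644695592) (nat_lit 392) (nat_lit 1) (nat_lit 376) (nat_lit 1) (nat_lit 375) (nat_lit 1) (nat_lit 389) (nat_lit 317) (nat_lit 314)) (XT.nd (nat_lit 78) (nat_lit 0) (nat_lit 0) (XT.lf (nat_lit 1292) (nat_lit 318279856) (nat_lit 0) (nat_lit 1302786278) (nat_lit 1216) (nat_lit 318279856) (nat_lit 393) (nat_lit 1) (nat_lit 376) (nat_lit 1) (nat_lit 392) (nat_lit 1) (nat_lit 390) (nat_lit 317) (nat_lit 313)) (XT.lf (nat_lit 1292) (nat_lit 583281441) (nat_lit 76) (nat_lit 664095813) (nat_lit 0)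 (nat_lit 664095813) (nat_lit 393) (nat_lit 1) (nat_lit 377) (nat_lit 1) (nat_lit 376) (nat_lit 1) (nat_lit 391) (nat_lit 317) (nat_lit 312))))))) (XT.nd (nat_lit 702) (nat_lit 2508) (nat_lit 0) (XT.nd (nat_lit 312) (nat_lit 1064) (nat_lit 0) (XT.nd (nat_lit 156) (nat_lit 0) (nat_lit 76) (XT.nd (nat_lit 78) (nat_lit 0) (nat_lit 0) (XT.lf (nat_lit 1292) (nat_lit 262889951) (nat_lit 0) (nat_lit 1358463871) (nat_lit 1216) (nat_lit 262889951) (nat_lit 394) (nat_lit 1) (nat_lit 377) (nat_lit 1) (nat_lit 393) (nat_lit 1) (nat_lit 392) (nat_lit 317) (nat_lit 311)) (XT.lf (nat_lit 1292) (nat_lit 456634891) (nat_lit 76) (nat_lit 700392381) (nat_lit 0) (nat_lit 700392381) (nat_lit 394) (nat_lit 1) (nat_lit 378) (nat_lit 1) (nat_lit 377) (nat_lit 1) (nat_lit 393) (nat_lit 317) (nat_lit 310))) (XT.nd (nat_lit 78) (nat_lit 0) (nat_lit 0) (XT.lf (nat_lit 1292) (nat_lit 192491337) (nat_lit 0) (nat_lit 1446262459) (nat_lit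 1216) (nat_lit 192491337) (nat_lit 395) (nat_lit 1) (nat_lit 378) (nat_lit 1) (nat_lit 394) (nat_lit 1) (nat_lit 394) (nat_lit 317) (nat_lit 309)) (XT.lf (nat_lit 1292) (nat_lit 301238374) (nat_lit 76) (nat_lit 752090813) (nat_lit 0) (nat_lit 752090813) (nat_lit 395) (nat_lit 1) (nat_lit 379) (nat_lit 1) (nat_lit 378) (nat_lit 1) (nat_lit 395) (nat_lit 317) (nat_lit 308)))) (XT.nd (nat_lit 156) (nat_lit 1216) (nat_lit 0) (XT.nd (nat_lit 78) (nat_lit 0) (nat_lit 0) (XT.lf (nat_lit 1292) (nat_lit 108475334) (nat_lit 0) (nat_lit 1563309514) (nat_lit 1216) (nat_lit 108475334) (nat_lit 396) (nat_lit 1) (nat_lit 379) (nat_lit 1) (nat_lit 395) (nat_lit 1) (nat_lit 396) (nat_lit 317) (nat_lit 307)) (XT.lf (nat_lit 1292) (nat_lit 119791380) (nat_lit 76) (nat_lit 817797694) (nat_lit 0) (nat_lit 817797694) (nat_lit 396) (nat_lit 1) (nat_lit 380) (nat_lit 1) (nat_lit 379) (nat_lit 1) (nat_lit 397) (nat_lit 317)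 (nat_lit 306))) (XT.nd (nat_lit 78) (nat_lit 1292) (nat_lit 0) (XT.lf (nat_lit 1292) (nat_lit 12137960) (nat_lit 0) (nat_lit 1706927359) (nat_lit 1216) (nat_lit 12137960) (nat_lit 397) (nat_lit 1) (nat_lit 380) (nat_lit 1) (nat_lit 396) (nat_lit 1) (nat_lit 398) (nat_lit 317) (nat_lit 305)) (XT.nd (nat_lit 78) (nat_lit 0) (nat_lit 0) (XT.lf (nat_lit 1368) (nat_lit 811841236) (nat_lit 0) (nat_lit 83529710) (nat_lit 1292) (nat_lit 811841236) (nat_lit 381) (nat_lit 1) (nat_lit 363) (nat_lit 1) (nat_lit 380) (nat_lit 1) (nat_lit 399) (nat_lit 317) (nat_lit 304)) (XT.lf (nat_lit 1368) (nat_lit 1495122968) (nat_lit 76) (nat_lit 94379685) (nat_lit 0) (nat_lit 94379685) (nat_lit 381) (nat_lit 1) (nat_lit 364) (nat_lit 1) (nat_lit 363) (nat_lit 1) (nat_lit 400) (nat_lit 317) (nat_lit 303)))))) (XT.nd (nat_lit 390) (nat_lit 1824) (nat_lit 0) (XT.nd (nat_lit 156) (nat_lit 760) (nat_lit 0) (XT.nd (nat_lit 78) (nat_lit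 0) (nat_lit 0) (XT.lf (nat_lit 1368) (nat_lit 677752359) (nat_lit 0) (nat_lit 305296128) (nat_lit 1292) (nat_lit 677752359) (nat_lit 382) (nat_lit 1) (nat_lit 364) (nat_lit 1) (nat_lit 381) (nat_lit 1) (nat_lit 401) (nat_lit 317) (nat_lit 302)) (XT.lf (nat_lit 1368) (nat_lit 1216959919) (nat_lit 76) (nat_lit 210672266) (nat_lit 0) (nat_lit 210672266) (nat_lit 382) (nat_lit 1) (nat_lit 365) (nat_lit 1) (nat_lit 364) (nat_lit 1) (nat_lit 402) (nat_lit 317) (nat_lit 301))) (XT.nd (nat_lit 78) (nat_lit 836) (nat_lit 0) (XT.lf (nat_lit 76) (nat_lit 535200648) (nat_lit 0) (nat_lit 545711049) (nat_lit 1292) (nat_lit 535200648) (nat_lit 366) (nat_lit 1) (nat_lit 365) (nat_lit 1) (nat_lit 382) (nat_lit 1) (nat_lit 403) (nat_lit 317) (nat_lit 300)) (XT.nd (nat_lit 78) (nat_lit 0) (nat_lit 0) (XT.lf (nat_lit 912) (nat_lit 922761265) (nat_lit 0) (nat_lit 335824759) (nat_lit 836) (nat_lit 335824759) (nat_lit 366)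 (nat_lit 1) (nat_lit 354) (nat_lit 1) (nat_lit 365) (nat_lit 1) (nat_lit 404) (nat_lit 317) (nat_lit 299)) (XT.lf (nat_lit 76) (nat_lit 385142589) (nat_lit 0) (nat_lit 802790025) (nat_lit 912) (nat_lit 385142589) (nat_lit 355) (nat_lit 1) (nat_lit 354) (nat_lit 1) (nat_lit 366) (nat_lit 1) (nat_lit 405) (nat_lit 317) (nat_lit 298))))) (XT.nd (nat_lit 156) (nat_lit 1216) (nat_lit 0) (XT.nd (nat_lit 78) (nat_lit 0) (nat_lit 0) (XT.lf (nat_lit 684) (nat_lit 614379652) (nat_lit 0) (nat_lit 468876078) (nat_lit 608) (nat_lit 468876078) (nat_lit 355) (nat_lit 1) (nat_lit 346) (nat_lit 1) (nat_lit 354) (nat_lit 1) (nat_lit 406) (nat_lit 317) (nat_lit 297)) (XT.lf (nat_lit 76) (nat_lit 228466048) (nat_lit 0) (nat_lit 1074689147) (nat_lit 684) (nat_lit 228466048) (nat_lit 347) (nat_lit 1) (nat_lit 346) (nat_lit 1) (nat_lit 355) (nat_lit 1) (nat_lit 407) (nat_lit 317) (nat_lit 296))) (XT.nd (nat_lit 78) (nat_lit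 608) (nat_lit 0) (XT.lf (nat_lit 684) (nat_lit 293534223) (nat_lit 0) (nat_lit 608933485) (nat_lit 608) (nat_lit 608933485) (nat_lit 347) (nat_lit 1) (nat_lit 338) (nat_lit 1) (nat_lit 346) (nat_lit 1) (nat_lit 408) (nat_lit 317) (nat_lit 295)) (XT.nd (nat_lit 78) (nat_lit 608) (nat_lit 0) (XT.lf (nat_lit 76) (nat_lit 65994616) (nat_lit 0) (nat_lit 1359696195) (nat_lit 684) (nat_lit 65994616) (nat_lit 339) (nat_lit 1) (nat_lit 338) (nat_lit 1) (nat_lit 347) (nat_lit 1) (nat_lit 409) (nat_lit 317) (nat_lit 294)) (XT.lf (nat_lit 76) (nat_lit 717354382) (nat_lit 0) (nat_lit 37435871) (nat_lit 608) (nat_lit 717354382) (nat_lit 331) (nat_lit 1) (nat_lit 330) (nat_lit 1) (nat_lit 338) (nat_lit 1) (nat_lit 410) (nat_lit 317) (nat_lit 293))))))))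
noncomputable def ec16 : XT := (XT.nd (nat_lit 1404) (nat_lit 1976) (nat_lit 0) (XT.nd (nat_lit 702) (nat_lit 2204) (nat_lit 0) (XT.nd (nat_lit 312) (nat_lit 1596) (nat_lit 0) (XT.nd (nat_lit 156) (nat_lit 532) (nat_lit 0) (XT.nd (nat_lit 78) (nat_lit 0) (nat_lit 0) (XT.lf (nat_lit 684) (nat_lit 1252061750) (nat_lit 0) (nat_lit 100513134) (nat_lit 608) (nat_lit 100513134) (nat_lit 331) (nat_lit 1) (nat_lit 322) (nat_lit 1) (nat_lit 330) (nat_lit 1) (nat_lit 411) (nat_lit 317) (nat_lit 292)) (XT.lf (nat_lit 76) (nat_lit 531168950) (nat_lit 0) (nat_lit 371887483) (nat_lit 684) (nat_lit 531168950) (nat_lit 323) (nat_lit 1) (nat_lit 322) (nat_lit 1) (nat_lit 331) (nat_lit 1) (nat_lit 412) (nat_lit 317) (nat_lit 291))) (XT.nd (nat_lit 78) (nat_lit 0) (nat_lit 0) (XT.lf (nat_lit 608) (nat_lit 874494034) (nat_lit 0) (nat_lit 270655959) (nat_lit 532) (nat_lit 270655959) (nat_lit 323) (nat_lit 1) (nat_lit 315)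 (nat_lit 1) (nat_lit 322) (nat_lit 1) (nat_lit 413) (nat_lit 317) (nat_lit 290)) (XT.lf (nat_lit 76) (nat_lit 341731495) (nat_lit 0) (nat_lit 714207834) (nat_lit 608) (nat_lit 341731495) (nat_lit 316) (nat_lit 1) (nat_lit 315) (nat_lit 1) (nat_lit 323) (nat_lit 1) (nat_lit 414) (nat_lit 317) (nat_lit 289)))) (XT.nd (nat_lit 156) (nat_lit 1064) (nat_lit 0) (XT.nd (nat_lit 78) (nat_lit 0) (nat_lit 0) (XT.lf (nat_lit 608) (nat_lit 490993920) (nat_lit 0) (nat_lit 444433020) (nat_lit 532) (nat_lit 444433020) (nat_lit 316) (nat_lit 1) (nat_lit 308) (nat_lit 1) (nat_lit 315) (nat_lit 1) (nat_lit 415) (nat_lit 317) (nat_lit 288)) (XT.lf (nat_lit 76) (nat_lit 149634710) (nat_lit 0) (nat_lit 1063156849) (nat_lit 608) (nat_lit 149634710) (nat_lit 309) (nat_lit 1) (nat_lit 308) (nat_lit 1) (nat_lit 316) (nat_lit 1) (nat_lit 416) (nat_lit 317) (nat_lit 287))) (XT.nd (nat_lit 78) (nat_lit 608) (nat_lit 0) (XT.lf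 (nat_lit 532) (nat_lit 102706021) (nat_lit 0) (nat_lit 621245373) (nat_lit 456) (nat_lit 621245373) (nat_lit 309) (nat_lit 1) (nat_lit 302) (nat_lit 1) (nat_lit 308) (nat_lit 1) (nat_lit 417) (nat_lit 317) (nat_lit 286)) (XT.nd (nat_lit 78) (nat_lit 0) (nat_lit 0) (XT.lf (nat_lit 608) (nat_lit 1240112694) (nat_lit 0) (nat_lit 44137554) (nat_lit 532) (nat_lit 44137554) (nat_lit 302) (nat_lit 1) (nat_lit 294) (nat_lit 1) (nat_lit 301) (nat_lit 1) (nat_lit 418) (nat_lit 317) (nat_lit 285)) (XT.lf (nat_lit 76) (nat_lit 514006713) (nat_lit 0) (nat_lit 283668614) (nat_lit 608) (nat_lit 514006713) (nat_lit 295) (nat_lit 1) (nat_lit 294) (nat_lit 1) (nat_lit 302) (nat_lit 1) (nat_lit 419) (nat_lit 317) (nat_lit 284)))))) (XT.nd (nat_lit 312) (nat_lit 1292) (nat_lit 0) (XT.nd (nat_lit 156) (nat_lit 456) (nat_lit 0) (XT.nd (nat_lit 78) (nat_lit 0) (nat_lit 0) (XT.lf (nat_lit 532) (nat_lit 819310745) (nat_lit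 0) (nat_lit 238035554) (nat_lit 456) (nat_lit 238035554) (nat_lit 295) (nat_lit 1) (nat_lit 288) (nat_lit 1) (nat_lit 294) (nat_lit 1) (nat_lit 420) (nat_lit 317) (nat_lit 283)) (XT.lf (nat_lit 76) (nat_lit 304287396) (nat_lit 0) (nat_lit 670745364) (nat_lit 532) (nat_lit 304287396) (nat_lit 289) (nat_lit 1) (nat_lit 288) (nat_lit 1) (nat_lit 295) (nat_lit 1) (nat_lit 421) (nat_lit 317) (nat_lit 282))) (XT.nd (nat_lit 78) (nat_lit 0) (nat_lit 0) (XT.lf (nat_lit 532) (nat_lit 397400847) (nat_lit 0) (nat_lit 433066949) (nat_lit 456) (nat_lit 433066949) (nat_lit 289) (nat_lit 1) (nat_lit 282) (nat_lit 1) (nat_lit 288) (nat_lit 1) (nat_lit 422) (nat_lit 317) (nat_lit 281)) (XT.lf (nat_lit 76) (nat_lit 94221468) (nat_lit 0) (nat_lit 1059651564) (nat_lit 532) (nat_lit 94221468) (nat_lit 283) (nat_lit 1) (nat_lit 282) (nat_lit 1) (nat_lit 289) (nat_lit 1) (nat_lit 423) (nat_lit 317) (nat_lit 280)))) (XT.nd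 (nat_lit 156) (nat_lit 380) (nat_lit 0) (XT.nd (nat_lit 78) (nat_lit 456) (nat_lit 0) (XT.lf (nat_lit 76) (nat_lit 604230475) (nat_lit 0) (nat_lit 24333280) (nat_lit 456) (nat_lit 604230475) (nat_lit 277) (nat_lit 1) (nat_lit 276) (nat_lit 1) (nat_lit 282) (nat_lit 1) (nat_lit 424) (nat_lit 317) (nat_lit 279)) (XT.lf (nat_lit 532) (nat_lit 988476521) (nat_lit 0) (nat_lit 114675038) (nat_lit 456) (nat_lit 114675038) (nat_lit 277) (nat_lit 1) (nat_lit 270) (nat_lit 1) (nat_lit 276) (nat_lit 1) (nat_lit 425) (nat_lit 317) (nat_lit 278))) (XT.nd (nat_lit 78) (nat_lit 380) (nat_lit 0) (XT.lf (nat_lit 76) (nat_lit 382556255) (nat_lit 0) (nat_lit 437897351) (nat_lit 532) (nat_lit 382556255) (nat_lit 271) (nat_lit 1) (nat_lit 270) (nat_lit 1) (nat_lit 277) (nat_lit 1) (nat_lit 426) (nat_lit 317) (nat_lit 277)) (XT.nd (nat_lit 78) (nat_lit 0) (nat_lit 0) (XT.lf (nat_lit 456) (nat_lit 543961135) (nat_lit 0) (nat_lit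 322269251) (nat_lit 380) (nat_lit 322269251) (nat_lit 271) (nat_lit 1) (nat_lit 265) (nat_lit 1) (nat_lit 270) (nat_lit 1) (nat_lit 427) (nat_lit 317) (nat_lit 276)) (XT.lf (nat_lit 76) (nat_lit 161932654) (nat_lit 0) (nat_lit 850389867) (nat_lit 456) (nat_lit 161932654) (nat_lit 266) (nat_lit 1) (nat_lit 265) (nat_lit 1) (nat_lit 271) (nat_lit 1) (nat_lit 428) (nat_lit 317) (nat_lit 275))))))) (XT.nd (nat_lit 49764) (nat_lit 0) (nat_lit 10336) (XT.nd (nat_lit 312) (nat_lit 760) (nat_lit 0) (XT.nd (nat_lit 156) (nat_lit 380) (nat_lit 0) (XT.nd (nat_lit 78) (nat_lit 456) (nat_lit 0) (XT.lf (nat_lit 456) (nat_lit 101842884) (nat_lit 0) (nat_lit 529169943) (nat_lit 380) (nat_lit 529169943) (nat_lit 266) (nat_lit 1) (nat_lit 260) (nat_lit 1) (nat_lit 265) (nat_lit 1) (nat_lit 429) (nat_lit 317) (nat_lit 274)) (XT.lf (nat_lit 456) (nat_lit 1032827875) (nat_lit 0) (nat_lit 56798247) (nat_lit 380) (nat_lit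 56798247) (nat_lit 260) (nat_lit 1) (nat_lit 254) (nat_lit 1) (nat_lit 259) (nat_lit 1) (nat_lit 430) (nat_lit 317) (nat_lit 273))) (XT.nd (nat_lit 78) (nat_lit 380) (nat_lit 0) (XT.lf (nat_lit 76) (nat_lit 400990333) (nat_lit 0) (nat_lit 330759676) (nat_lit 456) (nat_lit 400990333) (nat_lit 255) (nat_lit 1) (nat_lit 254) (nat_lit 1) (nat_lit 260) (nat_lit 1) (nat_lit 431) (nat_lit 317) (nat_lit 272)) (XT.lf (nat_lit 456) (nat_lit 574614421) (nat_lit 0) (nat_lit 272373004) (nat_lit 380) (nat_lit 272373004) (nat_lit 255) (nat_lit 1) (nat_lit 249) (nat_lit 1) (nat_lit 254) (nat_lit 1) (nat_lit 432) (nat_lit 317) (nat_lit 271)))) (XT.nd (nat_lit 156) (nat_lit 456) (nat_lit 0) (XT.nd (nat_lit 78) (nat_lit 304) (nat_lit 0) (XT.lf (nat_lit 76) (nat_lit 174090620) (nat_lit 0) (nat_lit 758023275) (nat_lit 456) (nat_lit 174090620) (nat_lit 250) (nat_lit 1) (nat_lit 249) (nat_lit 1) (nat_lit 255) (nat_lit 1)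 (nat_lit 433) (nat_lit 317) (nat_lit 270)) (XT.lf (nat_lit 380) (nat_lit 120911602) (nat_lit 0) (nat_lit 486151864) (nat_lit 304) (nat_lit 486151864) (nat_lit 250) (nat_lit 1) (nat_lit 245) (nat_lit 1) (nat_lit 249) (nat_lit 1) (nat_lit 434) (nat_lit 317) (nat_lit 269))) (XT.nd (nat_lit 49140) (nat_lit 0) (nat_lit 10260) (XT.lf (nat_lit 456) (nat_lit 980564983) (nat_lit 0) (nat_lit 49973055) (nat_lit 380) (nat_lit 49973055) (nat_lit 245) (nat_lit 1) (nat_lit 239) (nat_lit 1) (nat_lit 244) (nat_lit 1) (nat_lit 435) (nat_lit 317) (nat_lit 268)) (XT.nd (nat_lit 78) (nat_lit 0) (nat_lit 0) (XT.lf (nat_lit 1292) (nat_lit 194646112) (nat_lit 0) (nat_lit 669673150) (nat_lit 1292) (nat_lit 194646112) (nat_lit 391) (nat_lit 1) (nat_lit 374) (nat_lit 0) (nat_lit 391) (nat_lit 0) (nat_lit 384) (nat_lit 318) (nat_lit 318)) (XT.lf (nat_lit 1292) (nat_lit 760680417) (nat_lit 76) (nat_lit 663107727) (nat_lit 0) (nat_lit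 663107727) (nat_lit 391) (nat_lit 1) (nat_lit 375) (nat_lit 1) (nat_lit 374) (nat_lit 0) (nat_lit 385) (nat_lit 318) (nat_lit 317)))))) (XT.nd (nat_lit 390) (nat_lit 0) (nat_lit 152) (XT.nd (nat_lit 156) (nat_lit 0) (nat_lit 76) (XT.nd (nat_lit 78) (nat_lit 0) (nat_lit 0) (XT.lf (nat_lit 1292) (nat_lit 367883186) (nat_lit 0) (nat_lit 1320779185) (nat_lit 1216) (nat_lit 367883186) (nat_lit 392) (nat_lit 1) (nat_lit 375) (nat_lit 1) (nat_lit 391) (nat_lit 1) (nat_lit 386) (nat_lit 318) (nat_lit 316)) (XT.lf (nat_lit 1292) (nat_lit 698629165) (nat_lit 76) (nat_lit 664036460) (nat_lit 0) (nat_lit 664036460) (nat_lit 392) (nat_lit 1) (nat_lit 376) (nat_lit 1) (nat_lit 375) (nat_lit 1) (nat_lit 387) (nat_lit 318) (nat_lit 315))) (XT.nd (nat_lit 78) (nat_lit 0) (nat_lit 0) (XT.lf (nat_lit 1292) (nat_lit 327828251) (nat_lit 0) (nat_lit 1341869866) (nat_lit 1216) (nat_lit 327828251) (nat_lit 393) (nat_lit 1)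 (nat_lit 376) (nat_lit 1) (nat_lit 392) (nat_lit 1) (nat_lit 388) (nat_lit 318) (nat_lit 314)) (XT.nd (nat_lit 78) (nat_lit 0) (nat_lit 76) (XT.lf (nat_lit 1292) (nat_lit 600779885) (nat_lit 76) (nat_lit 684018687) (nat_lit 0) (nat_lit 684018687) (nat_lit 393) (nat_lit 1) (nat_lit 377) (nat_lit 1) (nat_lit 376) (nat_lit 1) (nat_lit 389) (nat_lit 318) (nat_lit 313)) (XT.lf (nat_lit 1292) (nat_lit 270776649) (nat_lit 0) (nat_lit 1399217787) (nat_lit 1216) (nat_lit 270776649) (nat_lit 394) (nat_lit 1) (nat_lit 377) (nat_lit 1) (nat_lit 393) (nat_lit 1) (nat_lit 390) (nat_lit 318) (nat_lit 312))))) (XT.nd (nat_lit 156) (nat_lit 0) (nat_lit 76) (XT.nd (nat_lit 78) (nat_lit 0) (nat_lit 76) (XT.lf (nat_lit 1292) (nat_lit 470333938) (nat_lit 76) (nat_lit 721404152) (nat_lit 0) (nat_lit 721404152) (nat_lit 394) (nat_lit 1) (nat_lit 378) (nat_lit 1) (nat_lit 377) (nat_lit 1) (nat_lit 391) (nat_lit 318) (nat_lit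 311)) (XT.lf (nat_lit 1292) (nat_lit 198266078) (nat_lit 0) (nat_lit 1489650333) (nat_lit 1216) (nat_lit 198266078) (nat_lit 395) (nat_lit 1) (nat_lit 378) (nat_lit 1) (nat_lit 394) (nat_lit 1) (nat_lit 392) (nat_lit 318) (nat_lit 310))) (XT.nd (nat_lit 78) (nat_lit 0) (nat_lit 76) (XT.lf (nat_lit 1292) (nat_lit 310275525) (nat_lit 76) (nat_lit 774653537) (nat_lit 0) (nat_lit 774653537) (nat_lit 395) (nat_lit 1) (nat_lit 379) (nat_lit 1) (nat_lit 378) (nat_lit 1) (nat_lit 393) (nat_lit 318) (nat_lit 309)) (XT.nd (nat_lit 78) (nat_lit 0) (nat_lit 0) (XT.lf (nat_lit 1292) (nat_lit 111729594) (nat_lit 0) (nat_lit 1610208799) (nat_lit 1216) (nat_lit 111729594) (nat_lit 396) (nat_lit 1) (nat_lit 379) (nat_lit 1) (nat_lit 395) (nat_lit 1) (nat_lit 394) (nat_lit 318) (nat_lit 308)) (XT.lf (nat_lit 1292) (nat_lit 123385122) (nat_lit 76) (nat_lit 842331625) (nat_lit 0) (nat_lit 842331625) (nat_lit 396) (nat_lit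 1) (nat_lit 380) (nat_lit 1) (nat_lit 379) (nat_lit 1) (nat_lit 395) (nat_lit 318) (nat_lit 307))))))))
noncomputable def ec17 : XT := (XT.nd (nat_lit 1482) (nat_lit 5244) (nat_lit 0) (XT.nd (nat_lit 702) (nat_lit 2888) (nat_lit 0) (XT.nd (nat_lit 312) (nat_lit 1292) (nat_lit 0) (XT.nd (nat_lit 156) (nat_lit 0) (nat_lit 0) (XT.nd (nat_lit 78) (nat_lit 1292) (nat_lit 0) (XT.lf (nat_lit 1292) (nat_lit 12502099) (nat_lit 0) (nat_lit 1758135179) (nat_lit 1216) (nat_lit 12502099) (nat_lit 397) (nat_lit 1) (nat_lit 380) (nat_lit 1) (nat_lit 396) (nat_lit 1) (nat_lit 396) (nat_lit 318) (nat_lit 306)) (XT.lf (nat_lit 1368) (nat_lit 836196473) (nat_lit 0) (nat_lit 86035601) (nat_lit 1292) (nat_lit 836196473) (nat_lit 381) (nat_lit 1) (nat_lit 363) (nat_lit 1) (nat_lit 380) (nat_lit 1) (nat_lit 397) (nat_lit 318) (nat_lit 305))) (XT.nd (nat_lit 78) (nat_lit 0) (nat_lit 76) (XT.lf (nat_lit 1368) (nat_lit 1539976657)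 (nat_lit 76) (nat_lit 97211076) (nat_lit 0) (nat_lit 97211076) (nat_lit 381) (nat_lit 1) (nat_lit 364) (nat_lit 1) (nat_lit 363) (nat_lit 1) (nat_lit 398) (nat_lit 318) (nat_lit 304)) (XT.lf (nat_lit 1368) (nat_lit 698084929) (nat_lit 0) (nat_lit 314455012) (nat_lit 1292) (nat_lit 698084929) (nat_lit 382) (nat_lit 1) (nat_lit 364) (nat_lit 1) (nat_lit 381) (nat_lit 1) (nat_lit 399) (nat_lit 318) (nat_lit 303)))) (XT.nd (nat_lit 156) (nat_lit 1368) (nat_lit 0) (XT.nd (nat_lit 78) (nat_lit 0) (nat_lit 76) (XT.lf (nat_lit 1368) (nat_lit 1253468716) (nat_lit 76) (nat_lit 216992434) (nat_lit 0) (nat_lit 216992434) (nat_lit 382) (nat_lit 1) (nat_lit 365) (nat_lit 1) (nat_lit 364) (nat_lit 1) (nat_lit 400) (nat_lit 318) (nat_lit 302)) (XT.lf (nat_lit 76) (nat_lit 551256668) (nat_lit 0) (nat_lit 562082380) (nat_lit 1292) (nat_lit 551256668) (nat_lit 366) (nat_lit 1) (nat_lit 365) (nat_lit 1) (nat_lit 382) (nat_lit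 1) (nat_lit 401) (nat_lit 318) (nat_lit 301))) (XT.nd (nat_lit 78) (nat_lit 608) (nat_lit 0) (XT.lf (nat_lit 912) (nat_lit 950444103) (nat_lit 0) (nat_lit 345899502) (nat_lit 836) (nat_lit 345899502) (nat_lit 366) (nat_lit 1) (nat_lit 354) (nat_lit 1) (nat_lit 365) (nat_lit 1) (nat_lit 402) (nat_lit 318) (nat_lit 300)) (XT.nd (nat_lit 78) (nat_lit 608) (nat_lit 0) (XT.lf (nat_lit 76) (nat_lit 396696867) (nat_lit 0) (nat_lit 826873726) (nat_lit 912) (nat_lit 396696867) (nat_lit 355) (nat_lit 1) (nat_lit 354) (nat_lit 1) (nat_lit 366) (nat_lit 1) (nat_lit 403) (nat_lit 318) (nat_lit 299)) (XT.lf (nat_lit 684) (nat_lit 632811041) (nat_lit 0) (nat_lit 482942361) (nat_lit 608) (nat_lit 482942361) (nat_lit 355) (nat_lit 1) (nat_lit 346) (nat_lit 1) (nat_lit 354) (nat_lit 1) (nat_lit 404) (nat_lit 318) (nat_lit 298)))))) (XT.nd (nat_lit 390) (nat_lit 1064) (nat_lit 0) (XT.nd (nat_lit 156) (nat_lit 1216) (nat_lit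 0) (XT.nd (nat_lit 78) (nat_lit 608) (nat_lit 0) (XT.lf (nat_lit 76) (nat_lit 235320029) (nat_lit 0) (nat_lit 1106929821) (nat_lit 684) (nat_lit 235320029) (nat_lit 347) (nat_lit 1) (nat_lit 346) (nat_lit 1) (nat_lit 355) (nat_lit 1) (nat_lit 405) (nat_lit 318) (nat_lit 297)) (XT.lf (nat_lit 684) (nat_lit 302340250) (nat_lit 0) (nat_lit 627201489) (nat_lit 608) (nat_lit 627201489) (nat_lit 347) (nat_lit 1) (nat_lit 338) (nat_lit 1) (nat_lit 346) (nat_lit 1) (nat_lit 406) (nat_lit 318) (nat_lit 296))) (XT.nd (nat_lit 78) (nat_lit 1216) (nat_lit 0) (XT.lf (nat_lit 76) (nat_lit 67974455) (nat_lit 0) (nat_lit 1400487081) (nat_lit 684) (nat_lit 67974455) (nat_lit 339) (nat_lit 1) (nat_lit 338) (nat_lit 1) (nat_lit 347) (nat_lit 1) (nat_lit 407) (nat_lit 318) (nat_lit 295)) (XT.nd (nat_lit 78) (nat_lit 608) (nat_lit 0) (XT.lf (nat_lit 76) (nat_lit 738875013) (nat_lit 0) (nat_lit 38558947) (nat_lit 608) (nat_lit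 738875013) (nat_lit 331) (nat_lit 1) (nat_lit 330) (nat_lit 1) (nat_lit 338) (nat_lit 1) (nat_lit 408) (nat_lit 318) (nat_lit 294)) (XT.lf (nat_lit 684) (nat_lit 1289623603) (nat_lit 0) (nat_lit 103528529) (nat_lit 608) (nat_lit 103528529) (nat_lit 331) (nat_lit 1) (nat_lit 322) (nat_lit 1) (nat_lit 330) (nat_lit 1) (nat_lit 409) (nat_lit 318) (nat_lit 293))))) (XT.nd (nat_lit 156) (nat_lit 532) (nat_lit 0) (XT.nd (nat_lit 78) (nat_lit 532) (nat_lit 0) (XT.lf (nat_lit 76) (nat_lit 547104019) (nat_lit 0) (nat_lit 383044107) (nat_lit 684) (nat_lit 547104019) (nat_lit 323) (nat_lit 1) (nat_lit 322) (nat_lit 1) (nat_lit 331) (nat_lit 1) (nat_lit 410) (nat_lit 318) (nat_lit 292)) (XT.lf (nat_lit 608) (nat_lit 900728855) (nat_lit 0) (nat_lit 278775638) (nat_lit 532) (nat_lit 278775638) (nat_lit 323) (nat_lit 1) (nat_lit 315) (nat_lit 1) (nat_lit 322) (nat_lit 1) (nat_lit 411) (nat_lit 318) (nat_lit 291)))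 (XT.nd (nat_lit 78) (nat_lit 532) (nat_lit 0) (XT.lf (nat_lit 76) (nat_lit 351983440) (nat_lit 0) (nat_lit 735634069) (nat_lit 608) (nat_lit 351983440) (nat_lit 316) (nat_lit 1) (nat_lit 315) (nat_lit 1) (nat_lit 323) (nat_lit 1) (nat_lit 412) (nat_lit 318) (nat_lit 290)) (XT.nd (nat_lit 78) (nat_lit 0) (nat_lit 0) (XT.lf (nat_lit 608) (nat_lit 505723738) (nat_lit 0) (nat_lit 457766011) (nat_lit 532) (nat_lit 457766011) (nat_lit 316) (nat_lit 1) (nat_lit 308) (nat_lit 1) (nat_lit 315) (nat_lit 1) (nat_lit 413) (nat_lit 318) (nat_lit 289)) (XT.lf (nat_lit 76) (nat_lit 154123751) (nat_lit 0) (nat_lit 1095051555) (nat_lit 608) (nat_lit 154123751) (nat_lit 309) (nat_lit 1) (nat_lit 308) (nat_lit 1) (nat_lit 316) (nat_lit 1) (nat_lit 414) (nat_lit 318) (nat_lit 288))))))) (XT.nd (nat_lit 702) (nat_lit 2356) (nat_lit 0) (XT.nd (nat_lit 312) (nat_lit 1368) (nat_lit 0) (XT.nd (nat_lit 156) (nat_lit 456) (nat_lit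 0) (XT.nd (nat_lit 78) (nat_lit 608) (nat_lit 0) (XT.lf (nat_lit 532) (nat_lit 105787202) (nat_lit 0) (nat_lit 639882734) (nat_lit 456) (nat_lit 639882734) (nat_lit 309) (nat_lit 1) (nat_lit 302) (nat_lit 1) (nat_lit 308) (nat_lit 1) (nat_lit 415) (nat_lit 318) (nat_lit 287)) (XT.lf (nat_lit 608) (nat_lit 1277316075) (nat_lit 0) (nat_lit 45461681) (nat_lit 532) (nat_lit 45461681) (nat_lit 302) (nat_lit 1) (nat_lit 294) (nat_lit 1) (nat_lit 301) (nat_lit 1) (nat_lit 416) (nat_lit 318) (nat_lit 286))) (XT.nd (nat_lit 78) (nat_lit 456) (nat_lit 0) (XT.lf (nat_lit 76) (nat_lit 529426915) (nat_lit 0) (nat_lit 292178672) (nat_lit 608) (nat_lit 529426915) (nat_lit 295) (nat_lit 1) (nat_lit 294) (nat_lit 1) (nat_lit 302) (nat_lit 1) (nat_lit 417) (nat_lit 318) (nat_lit 285)) (XT.lf (nat_lit 532) (nat_lit 843890067) (nat_lit 0) (nat_lit 245176621) (nat_lit 456) (nat_lit 245176621) (nat_lit 295) (nat_lit 1) (nat_lit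 288) (nat_lit 1) (nat_lit 294) (nat_lit 1) (nat_lit 418) (nat_lit 318) (nat_lit 284)))) (XT.nd (nat_lit 156) (nat_lit 912) (nat_lit 0) (XT.nd (nat_lit 78) (nat_lit 456) (nat_lit 0) (XT.lf (nat_lit 76) (nat_lit 313416018) (nat_lit 0) (nat_lit 690867725) (nat_lit 532) (nat_lit 313416018) (nat_lit 289) (nat_lit 1) (nat_lit 288) (nat_lit 1) (nat_lit 295) (nat_lit 1) (nat_lit 419) (nat_lit 318) (nat_lit 283)) (XT.lf (nat_lit 532) (nat_lit 409322873) (nat_lit 0) (nat_lit 446058957) (nat_lit 456) (nat_lit 446058957) (nat_lit 289) (nat_lit 1) (nat_lit 282) (nat_lit 1) (nat_lit 288) (nat_lit 1) (nat_lit 420) (nat_lit 318) (nat_lit 282))) (XT.nd (nat_lit 78) (nat_lit 912) (nat_lit 0) (XT.lf (nat_lit 76) (nat_lit 97048112) (nat_lit 0) (nat_lit 1091441111) (nat_lit 532) (nat_lit 97048112) (nat_lit 283) (nat_lit 1) (nat_lit 282) (nat_lit 1) (nat_lit 289) (nat_lit 1) (nat_lit 421) (nat_lit 318) (nat_lit 281)) (XT.nd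 (nat_lit 78) (nat_lit 456) (nat_lit 0) (XT.lf (nat_lit 76) (nat_lit 622357389) (nat_lit 0) (nat_lit 25063279) (nat_lit 456) (nat_lit 622357389) (nat_lit 277) (nat_lit 1) (nat_lit 276) (nat_lit 1) (nat_lit 282) (nat_lit 1) (nat_lit 422) (nat_lit 318) (nat_lit 280)) (XT.lf (nat_lit 532) (nat_lit 1018130817) (nat_lit 0) (nat_lit 118115289) (nat_lit 456) (nat_lit 118115289) (nat_lit 277) (nat_lit 1) (nat_lit 270) (nat_lit 1) (nat_lit 276) (nat_lit 1) (nat_lit 423) (nat_lit 318) (nat_lit 279)))))) (XT.nd (nat_lit 390) (nat_lit 1140) (nat_lit 0) (XT.nd (nat_lit 156) (nat_lit 836) (nat_lit 0) (XT.nd (nat_lit 78) (nat_lit 380) (nat_lit 0) (XT.lf (nat_lit 76) (nat_lit 394032942) (nat_lit 0) (nat_lit 451034272) (nat_lit 532) (nat_lit 394032942) (nat_lit 271) (nat_lit 1) (nat_lit 270) (nat_lit 1) (nat_lit 277) (nat_lit 1) (nat_lit 424) (nat_lit 318) (nat_lit 278)) (XT.lf (nat_lit 456) (nat_lit 560279969) (nat_lit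 0) (nat_lit 331937329) (nat_lit 380) (nat_lit 331937329) (nat_lit 271) (nat_lit 1) (nat_lit 265) (nat_lit 1) (nat_lit 270) (nat_lit 1) (nat_lit 425) (nat_lit 318) (nat_lit 277))) (XT.nd (nat_lit 78) (nat_lit 836) (nat_lit 0) (XT.lf (nat_lit 76) (nat_lit 166790633) (nat_lit 0) (nat_lit 875901563) (nat_lit 456) (nat_lit 166790633) (nat_lit 266) (nat_lit 1) (nat_lit 265) (nat_lit 1) (nat_lit 271) (nat_lit 1) (nat_lit 426) (nat_lit 318) (nat_lit 276)) (XT.nd (nat_lit 78) (nat_lit 456) (nat_lit 0) (XT.lf (nat_lit 456) (nat_lit 104898170) (nat_lit 0) (nat_lit 545045041) (nat_lit 380) (nat_lit 545045041) (nat_lit 266) (nat_lit 1) (nat_lit 260) (nat_lit 1) (nat_lit 265) (nat_lit 1) (nat_lit 427) (nat_lit 318) (nat_lit 275)) (XT.lf (nat_lit 456) (nat_lit 1063812712) (nat_lit 0) (nat_lit 58502195) (nat_lit 380) (nat_lit 58502195) (nat_lit 260) (nat_lit 1) (nat_lit 254) (nat_lit 1) (nat_lit 259) (nat_lit 1) (nat_lit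 428) (nat_lit 318) (nat_lit 274))))) (XT.nd (nat_lit 156) (nat_lit 760) (nat_lit 0) (XT.nd (nat_lit 78) (nat_lit 380) (nat_lit 0) (XT.lf (nat_lit 76) (nat_lit 413020043) (nat_lit 0) (nat_lit 340682466) (nat_lit 456) (nat_lit 413020043) (nat_lit 255) (nat_lit 1) (nat_lit 254) (nat_lit 1) (nat_lit 260) (nat_lit 1) (nat_lit 429) (nat_lit 318) (nat_lit 273)) (XT.lf (nat_lit 456) (nat_lit 591852854) (nat_lit 0) (nat_lit 280544194) (nat_lit 380) (nat_lit 280544194) (nat_lit 255) (nat_lit 1) (nat_lit 249) (nat_lit 1) (nat_lit 254) (nat_lit 1) (nat_lit 430) (nat_lit 318) (nat_lit 272))) (XT.nd (nat_lit 78) (nat_lit 760) (nat_lit 0) (XT.lf (nat_lit 76) (nat_lit 179313339) (nat_lit 0) (nat_lit 780763973) (nat_lit 456) (nat_lit 179313339) (nat_lit 250) (nat_lit 1) (nat_lit 249) (nat_lit 1) (nat_lit 255) (nat_lit 1) (nat_lit 431) (nat_lit 318) (nat_lit 271)) (XT.nd (nat_lit 78) (nat_lit 456) (nat_lit 0) (XT.lf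 (nat_lit 380) (nat_lit 124538950) (nat_lit 0) (nat_lit 500736420) (nat_lit 304) (nat_lit 500736420) (nat_lit 250) (nat_lit 1) (nat_lit 245) (nat_lit 1) (nat_lit 249) (nat_lit 1) (nat_lit 432) (nat_lit 318) (nat_lit 270)) (XT.lf (nat_lit 456) (nat_lit 1009981933) (nat_lit 0) (nat_lit 51472247) (nat_lit 380) (nat_lit 51472247) (nat_lit 245) (nat_lit 1) (nat_lit 239) (nat_lit 1) (nat_lit 244) (nat_lit 1) (nat_lit 433) (nat_lit 318) (nat_lit 269))))))))
noncomputable def ec18 : XT := (XT.nd (nat_lit 50388) (nat_lit 0) (nat_lit 4028) (XT.nd (nat_lit 49608) (nat_lit 0) (nat_lit 9728) (XT.nd (nat_lit 49218) (nat_lit 0) (nat_lit 10640) (XT.nd (nat_lit 49062) (nat_lit 0) (nat_lit 10564) (XT.nd (nat_lit 78) (nat_lit 304) (nat_lit 0) (XT.lf (nat_lit 76) (nat_lit 384372356) (nat_lit 0) (nat_lit 331151352) (nat_lit 456) (nat_lit 384372356) (nat_lit 240) (nat_lit 1) (nat_lit 239) (nat_lit 1) (nat_lit 245) (nat_lit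 1) (nat_lit 434) (nat_lit 318) (nat_lit 268)) (XT.lf (nat_lit 380) (nat_lit 531287238) (nat_lit 0) (nat_lit 277931714) (nat_lit 304) (nat_lit 277931714) (nat_lit 240) (nat_lit 1) (nat_lit 235) (nat_lit 1) (nat_lit 239) (nat_lit 1) (nat_lit 435) (nat_lit 318) (nat_lit 267))) (XT.nd (nat_lit 78) (nat_lit 0) (nat_lit 0) (XT.lf (nat_lit 1292) (nat_lit 200485495) (nat_lit 0) (nat_lit 689763344) (nat_lit 1292) (nat_lit 200485495) (nat_lit 391) (nat_lit 1) (nat_lit 374) (nat_lit 0) (nat_lit 391) (nat_lit 0) (nat_lit 382) (nat_lit 319) (nat_lit 319)) (XT.lf (nat_lit 1292) (nat_lit 783500830) (nat_lit 76) (nat_lit 683000958) (nat_lit 0) (nat_lit 683000958) (nat_lit 391) (nat_lit 1) (nat_lit 375) (nat_lit 1) (nat_lit 374) (nat_lit 0) (nat_lit 383) (nat_lit 319) (nat_lit 318)))) (XT.nd (nat_lit 156) (nat_lit 0) (nat_lit 76) (XT.nd (nat_lit 78) (nat_lit 0) (nat_lit 0) (XT.lf (nat_lit 1292) (nat_lit 378919682) (nat_lit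 0) (nat_lit 1360402560) (nat_lit 1216) (nat_lit 378919682) (nat_lit 392) (nat_lit 1) (nat_lit 375) (nat_lit 1) (nat_lit 391) (nat_lit 1) (nat_lit 384) (nat_lit 319) (nat_lit 317)) (XT.lf (nat_lit 1292) (nat_lit 719588040) (nat_lit 76) (nat_lit 683957553) (nat_lit 0) (nat_lit 683957553) (nat_lit 392) (nat_lit 1) (nat_lit 376) (nat_lit 1) (nat_lit 375) (nat_lit 1) (nat_lit 385) (nat_lit 319) (nat_lit 316))) (XT.nd (nat_lit 78) (nat_lit 0) (nat_lit 0) (XT.lf (nat_lit 1292) (nat_lit 337663099) (nat_lit 0) (nat_lit 1382125962) (nat_lit 1216) (nat_lit 337663099) (nat_lit 393) (nat_lit 1) (nat_lit 376) (nat_lit 1) (nat_lit 392) (nat_lit 1) (nat_lit 386) (nat_lit 319) (nat_lit 315)) (XT.nd (nat_lit 78) (nat_lit 0) (nat_lit 76) (XT.lf (nat_lit 1292) (nat_lit 618803281) (nat_lit 76) (nat_lit 704539248) (nat_lit 0) (nat_lit 704539248) (nat_lit 393) (nat_lit 1) (nat_lit 377) (nat_lit 1) (nat_lit 376) (nat_lit 1)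 (nat_lit 387) (nat_lit 319) (nat_lit 314)) (XT.lf (nat_lit 1292) (nat_lit 278899949) (nat_lit 0) (nat_lit 1441194320) (nat_lit 1216) (nat_lit 278899949) (nat_lit 394) (nat_lit 1) (nat_lit 377) (nat_lit 1) (nat_lit 393) (nat_lit 1) (nat_lit 388) (nat_lit 319) (nat_lit 313)))))) (XT.nd (nat_lit 390) (nat_lit 1064) (nat_lit 0) (XT.nd (nat_lit 156) (nat_lit 0) (nat_lit 76) (XT.nd (nat_lit 78) (nat_lit 0) (nat_lit 76) (XT.lf (nat_lit 1292) (nat_lit 484443956) (nat_lit 76) (nat_lit 743046277) (nat_lit 0) (nat_lit 743046277) (nat_lit 394) (nat_lit 1) (nat_lit 378) (nat_lit 1) (nat_lit 377) (nat_lit 1) (nat_lit 389) (nat_lit 319) (nat_lit 312)) (XT.lf (nat_lit 1292) (nat_lit 204214060) (nat_lit 0) (nat_lit 1534339843) (nat_lit 1216) (nat_lit 204214060) (nat_lit 395) (nat_lit 1) (nat_lit 378) (nat_lit 1) (nat_lit 394) (nat_lit 1) (nat_lit 390) (nat_lit 319) (nat_lit 311))) (XT.nd (nat_lit 78) (nat_lit 0) (nat_lit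 76) (XT.lf (nat_lit 1292) (nat_lit 319583791) (nat_lit 76) (nat_lit 797893143) (nat_lit 0) (nat_lit 797893143) (nat_lit 395) (nat_lit 1) (nat_lit 379) (nat_lit 1) (nat_lit 378) (nat_lit 1) (nat_lit 391) (nat_lit 319) (nat_lit 310)) (XT.nd (nat_lit 78) (nat_lit 0) (nat_lit 0) (XT.lf (nat_lit 1292) (nat_lit 115081482) (nat_lit 0) (nat_lit 1658515063) (nat_lit 1216) (nat_lit 115081482) (nat_lit 396) (nat_lit 1) (nat_lit 379) (nat_lit 1) (nat_lit 395) (nat_lit 1) (nat_lit 392) (nat_lit 319) (nat_lit 309)) (XT.lf (nat_lit 1292) (nat_lit 127086675) (nat_lit 76) (nat_lit 867601574) (nat_lit 0) (nat_lit 867601574) (nat_lit 396) (nat_lit 1) (nat_lit 380) (nat_lit 1) (nat_lit 379) (nat_lit 1) (nat_lit 393) (nat_lit 319) (nat_lit 308))))) (XT.nd (nat_lit 156) (nat_lit 0) (nat_lit 0) (XT.nd (nat_lit 78) (nat_lit 1292) (nat_lit 0) (XT.lf (nat_lit 1292) (nat_lit 12877162) (nat_lit 0) (nat_lit 1810879235) (nat_lit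 1216) (nat_lit 12877162) (nat_lit 397) (nat_lit 1) (nat_lit 380) (nat_lit 1) (nat_lit 396) (nat_lit 1) (nat_lit 394) (nat_lit 319) (nat_lit 307)) (XT.lf (nat_lit 1368) (nat_lit 861282367) (nat_lit 0) (nat_lit 88616669) (nat_lit 1292) (nat_lit 861282367) (nat_lit 381) (nat_lit 1) (nat_lit 363) (nat_lit 1) (nat_lit 380) (nat_lit 1) (nat_lit 395) (nat_lit 319) (nat_lit 306))) (XT.nd (nat_lit 78) (nat_lit 0) (nat_lit 76) (XT.lf (nat_lit 1368) (nat_lit 1586175957) (nat_lit 76) (nat_lit 100127408) (nat_lit 0) (nat_lit 100127408) (nat_lit 381) (nat_lit 1) (nat_lit 364) (nat_lit 1) (nat_lit 363) (nat_lit 1) (nat_lit 396) (nat_lit 319) (nat_lit 305)) (XT.nd (nat_lit 78) (nat_lit 0) (nat_lit 0) (XT.lf (nat_lit 1368) (nat_lit 719027477) (nat_lit 0) (nat_lit 323888662) (nat_lit 1292) (nat_lit 719027477) (nat_lit 382) (nat_lit 1) (nat_lit 364) (nat_lit 1) (nat_lit 381) (nat_lit 1) (nat_lit 397) (nat_lit 319) (nat_lit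 304)) (XT.lf (nat_lit 1368) (nat_lit 1291072778) (nat_lit 76) (nat_lit 223502207) (nat_lit 0) (nat_lit 223502207) (nat_lit 382) (nat_lit 1) (nat_lit 365) (nat_lit 1) (nat_lit 364) (nat_lit 1) (nat_lit 398) (nat_lit 319) (nat_lit 303))))))) (XT.nd (nat_lit 702) (nat_lit 2584) (nat_lit 0) (XT.nd (nat_lit 312) (nat_lit 1824) (nat_lit 0) (XT.nd (nat_lit 156) (nat_lit 608) (nat_lit 0) (XT.nd (nat_lit 78) (nat_lit 836) (nat_lit 0) (XT.lf (nat_lit 76) (nat_lit 567794368) (nat_lit 0) (nat_lit 578944851) (nat_lit 1292) (nat_lit 567794368) (nat_lit 366) (nat_lit 1) (nat_lit 365) (nat_lit 1) (nat_lit 382) (nat_lit 1) (nat_lit 399) (nat_lit 319) (nat_lit 302)) (XT.lf (nat_lit 912) (nat_lit 978957426) (nat_lit 0) (nat_lit 356276487) (nat_lit 836) (nat_lit 356276487) (nat_lit 366) (nat_lit 1) (nat_lit 354) (nat_lit 1) (nat_lit 365) (nat_lit 1) (nat_lit 400) (nat_lit 319) (nat_lit 301))) (XT.nd (nat_lit 78) (nat_lit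 608) (nat_lit 0) (XT.lf (nat_lit 76) (nat_lit 408597773) (nat_lit 0) (nat_lit 851679938) (nat_lit 912) (nat_lit 408597773) (nat_lit 355) (nat_lit 1) (nat_lit 354) (nat_lit 1) (nat_lit 366) (nat_lit 1) (nat_lit 401) (nat_lit 319) (nat_lit 300)) (XT.lf (nat_lit 684) (nat_lit 651795373) (nat_lit 0) (nat_lit 497430632) (nat_lit 608) (nat_lit 497430632) (nat_lit 355) (nat_lit 1) (nat_lit 346) (nat_lit 1) (nat_lit 354) (nat_lit 1) (nat_lit 402) (nat_lit 319) (nat_lit 299)))) (XT.nd (nat_lit 156) (nat_lit 1216) (nat_lit 0) (XT.nd (nat_lit 78) (nat_lit 608) (nat_lit 0) (XT.lf (nat_lit 76) (nat_lit 242379630) (nat_lit 0) (nat_lit 1140137716) (nat_lit 684) (nat_lit 242379630) (nat_lit 347) (nat_lit 1) (nat_lit 346) (nat_lit 1) (nat_lit 355) (nat_lit 1) (nat_lit 403) (nat_lit 319) (nat_lit 298)) (XT.lf (nat_lit 684) (nat_lit 311410458) (nat_lit 0) (nat_lit 646017534) (nat_lit 608) (nat_lit 646017534) (nat_lit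 347) (nat_lit 1) (nat_lit 338) (nat_lit 1) (nat_lit 346) (nat_lit 1) (nat_lit 404) (nat_lit 319) (nat_lit 297))) (XT.nd (nat_lit 78) (nat_lit 1216) (nat_lit 0) (XT.lf (nat_lit 76) (nat_lit 70013688) (nat_lit 0) (nat_lit 1442501693) (nat_lit 684) (nat_lit 70013688) (nat_lit 339) (nat_lit 1) (nat_lit 338) (nat_lit 1) (nat_lit 347) (nat_lit 1) (nat_lit 405) (nat_lit 319) (nat_lit 296)) (XT.nd (nat_lit 78) (nat_lit 608) (nat_lit 0) (XT.lf (nat_lit 76) (nat_lit 761041264) (nat_lit 0) (nat_lit 39715715) (nat_lit 608) (nat_lit 761041264) (nat_lit 331) (nat_lit 1) (nat_lit 330) (nat_lit 1) (nat_lit 338) (nat_lit 1) (nat_lit 406) (nat_lit 319) (nat_lit 295)) (XT.lf (nat_lit 684) (nat_lit 1328312311) (nat_lit 0) (nat_lit 106634384) (nat_lit 608) (nat_lit 106634384) (nat_lit 331) (nat_lit 1) (nat_lit 322) (nat_lit 1) (nat_lit 330) (nat_lit 1) (nat_lit 407) (nat_lit 319) (nat_lit 294)))))) (XT.nd (nat_lit 390)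 (nat_lit 1520) (nat_lit 0) (XT.nd (nat_lit 156) (nat_lit 532) (nat_lit 0) (XT.nd (nat_lit 78) (nat_lit 532) (nat_lit 0) (XT.lf (nat_lit 76) (nat_lit 563517140) (nat_lit 0) (nat_lit 394535431) (nat_lit 684) (nat_lit 563517140) (nat_lit 323) (nat_lit 1) (nat_lit 322) (nat_lit 1) (nat_lit 331) (nat_lit 1) (nat_lit 408) (nat_lit 319) (nat_lit 293)) (XT.lf (nat_lit 608) (nat_lit 927750721) (nat_lit 0) (nat_lit 287138907) (nat_lit 532) (nat_lit 287138907) (nat_lit 323) (nat_lit 1) (nat_lit 315) (nat_lit 1) (nat_lit 322) (nat_lit 1) (nat_lit 409) (nat_lit 319) (nat_lit 292))) (XT.nd (nat_lit 78) (nat_lit 532) (nat_lit 0) (XT.lf (nat_lit 76) (nat_lit 362542943) (nat_lit 0) (nat_lit 757703091) (nat_lit 608) (nat_lit 362542943) (nat_lit 316) (nat_lit 1) (nat_lit 315) (nat_lit 1) (nat_lit 323) (nat_lit 1) (nat_lit 410) (nat_lit 319) (nat_lit 291)) (XT.nd (nat_lit 78) (nat_lit 0) (nat_lit 0) (XT.lf (nat_lit 608)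 (nat_lit 520895450) (nat_lit 0) (nat_lit 471498991) (nat_lit 532) (nat_lit 471498991) (nat_lit 316) (nat_lit 1) (nat_lit 308) (nat_lit 1) (nat_lit 315) (nat_lit 1) (nat_lit 411) (nat_lit 319) (nat_lit 290)) (XT.lf (nat_lit 76) (nat_lit 158747463) (nat_lit 0) (nat_lit 1127903101) (nat_lit 608) (nat_lit 158747463) (nat_lit 309) (nat_lit 1) (nat_lit 308) (nat_lit 1) (nat_lit 316) (nat_lit 1) (nat_lit 412) (nat_lit 319) (nat_lit 289))))) (XT.nd (nat_lit 156) (nat_lit 456) (nat_lit 0) (XT.nd (nat_lit 78) (nat_lit 608) (nat_lit 0) (XT.lf (nat_lit 532) (nat_lit 108960818) (nat_lit 0) (nat_lit 659079217) (nat_lit 456) (nat_lit 659079217) (nat_lit 309) (nat_lit 1) (nat_lit 302) (nat_lit 1) (nat_lit 308) (nat_lit 1) (nat_lit 413) (nat_lit 319) (nat_lit 288)) (XT.lf (nat_lit 608) (nat_lit 1315635557) (nat_lit 0) (nat_lit 46825531) (nat_lit 532) (nat_lit 46825531) (nat_lit 302) (nat_lit 1) (nat_lit 294) (nat_lit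 1) (nat_lit 301) (nat_lit 1) (nat_lit 414) (nat_lit 319) (nat_lit 287))) (XT.nd (nat_lit 78) (nat_lit 456) (nat_lit 0) (XT.lf (nat_lit 76) (nat_lit 545309722) (nat_lit 0) (nat_lit 300944033) (nat_lit 608) (nat_lit 545309722) (nat_lit 295) (nat_lit 1) (nat_lit 294) (nat_lit 1) (nat_lit 302) (nat_lit 1) (nat_lit 415) (nat_lit 319) (nat_lit 286)) (XT.nd (nat_lit 78) (nat_lit 0) (nat_lit 0) (XT.lf (nat_lit 532) (nat_lit 869206769) (nat_lit 0) (nat_lit 252531920) (nat_lit 456) (nat_lit 252531920) (nat_lit 295) (nat_lit 1) (nat_lit 288) (nat_lit 1) (nat_lit 294) (nat_lit 1) (nat_lit 416) (nat_lit 319) (nat_lit 285)) (XT.lf (nat_lit 76) (nat_lit 322818499) (nat_lit 0) (nat_lit 711593757) (nat_lit 532) (nat_lit 322818499) (nat_lit 289) (nat_lit 1) (nat_lit 288) (nat_lit 1) (nat_lit 295) (nat_lit 1) (nat_lit 417) (nat_lit 319) (nat_lit 284))))))))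
noncomputable def ec19 : XT := (XT.nd (nat_lit 50232) (nat_lit 0) (nat_lit 9348) (XT.nd (nat_lit 702) (nat_lit 1748) (nat_lit 0) (XT.nd (nat_lit 312) (nat_lit 1216) (nat_lit 0) (XT.nd (nat_lit 156) (nat_lit 912) (nat_lit 0) (XT.nd (nat_lit 78) (nat_lit 0) (nat_lit 0) (XT.lf (nat_lit 532) (nat_lit 421602559) (nat_lit 0) (nat_lit 459440726) (nat_lit 456) (nat_lit 459440726) (nat_lit 289) (nat_lit 1) (nat_lit 282) (nat_lit 1) (nat_lit 288) (nat_lit 1) (nat_lit 418) (nat_lit 319) (nat_lit 283)) (XT.lf (nat_lit 76) (nat_lit 99959556) (nat_lit 0) (nat_lit 1124184344) (nat_lit 532) (nat_lit 99959556) (nat_lit 283) (nat_lit 1) (nat_lit 282) (nat_lit 1) (nat_lit 289) (nat_lit 1) (nat_lit 419) (nat_lit 319) (nat_lit 282))) (XT.nd (nat_lit 78) (nat_lit 456) (nat_lit 0) (XT.lf (nat_lit 76) (nat_lit 641028111) (nat_lit 0) (nat_lit 25815177) (nat_lit 456) (nat_lit 641028111) (nat_lit 277) (nat_lit 1) (nat_lit 276)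 (nat_lit 1) (nat_lit 282) (nat_lit 1) (nat_lit 420) (nat_lit 319) (nat_lit 281)) (XT.lf (nat_lit 532) (nat_lit 1048674742) (nat_lit 0) (nat_lit 121658748) (nat_lit 456) (nat_lit 121658748) (nat_lit 277) (nat_lit 1) (nat_lit 270) (nat_lit 1) (nat_lit 276) (nat_lit 1) (nat_lit 421) (nat_lit 319) (nat_lit 280)))) (XT.nd (nat_lit 156) (nat_lit 836) (nat_lit 0) (XT.nd (nat_lit 78) (nat_lit 380) (nat_lit 0) (XT.lf (nat_lit 76) (nat_lit 405853931) (nat_lit 0) (nat_lit 464565300) (nat_lit 532) (nat_lit 405853931) (nat_lit 271) (nat_lit 1) (nat_lit 270) (nat_lit 1) (nat_lit 277) (nat_lit 1) (nat_lit 422) (nat_lit 319) (nat_lit 279)) (XT.lf (nat_lit 456) (nat_lit 577088368) (nat_lit 0) (nat_lit 341895448) (nat_lit 380) (nat_lit 341895448) (nat_lit 271) (nat_lit 1) (nat_lit 265) (nat_lit 1) (nat_lit 270) (nat_lit 1) (nat_lit 423) (nat_lit 319) (nat_lit 278))) (XT.nd (nat_lit 78) (nat_lit 836) (nat_lit 0) (XT.lf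 (nat_lit 76) (nat_lit 171794352) (nat_lit 0) (nat_lit 902178609) (nat_lit 456) (nat_lit 171794352) (nat_lit 266) (nat_lit 1) (nat_lit 265) (nat_lit 1) (nat_lit 271) (nat_lit 1) (nat_lit 424) (nat_lit 319) (nat_lit 277)) (XT.nd (nat_lit 78) (nat_lit 456) (nat_lit 0) (XT.lf (nat_lit 456) (nat_lit 108045115) (nat_lit 0) (nat_lit 561396392) (nat_lit 380) (nat_lit 561396392) (nat_lit 266) (nat_lit 1) (nat_lit 260) (nat_lit 1) (nat_lit 265) (nat_lit 1) (nat_lit 425) (nat_lit 319) (nat_lit 276)) (XT.lf (nat_lit 456) (nat_lit 1095727093) (nat_lit 0) (nat_lit 60257260) (nat_lit 380) (nat_lit 60257260) (nat_lit 260) (nat_lit 1) (nat_lit 254) (nat_lit 1) (nat_lit 259) (nat_lit 1) (nat_lit 426) (nat_lit 319) (nat_lit 275)))))) (XT.nd (nat_lit 390) (nat_lit 608) (nat_lit 0) (XT.nd (nat_lit 156) (nat_lit 760) (nat_lit 0) (XT.nd (nat_lit 78) (nat_lit 380) (nat_lit 0) (XT.lf (nat_lit 76) (nat_lit 425410644) (nat_lit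 0) (nat_lit 350902940) (nat_lit 456) (nat_lit 425410644) (nat_lit 255) (nat_lit 1) (nat_lit 254) (nat_lit 1) (nat_lit 260) (nat_lit 1) (nat_lit 427) (nat_lit 319) (nat_lit 274)) (XT.lf (nat_lit 456) (nat_lit 609608439) (nat_lit 0) (nat_lit 288960520) (nat_lit 380) (nat_lit 288960520) (nat_lit 255) (nat_lit 1) (nat_lit 249) (nat_lit 1) (nat_lit 254) (nat_lit 1) (nat_lit 428) (nat_lit 319) (nat_lit 273))) (XT.nd (nat_lit 78) (nat_lit 760) (nat_lit 0) (XT.lf (nat_lit 76) (nat_lit 184692739) (nat_lit 0) (nat_lit 804186893) (nat_lit 456) (nat_lit 184692739) (nat_lit 250) (nat_lit 1) (nat_lit 249) (nat_lit 1) (nat_lit 255) (nat_lit 1) (nat_lit 429) (nat_lit 319) (nat_lit 272)) (XT.nd (nat_lit 78) (nat_lit 456) (nat_lit 0) (XT.lf (nat_lit 380) (nat_lit 128275119) (nat_lit 0) (nat_lit 515758513) (nat_lit 304) (nat_lit 515758513) (nat_lit 250) (nat_lit 1) (nat_lit 245) (nat_lit 1) (nat_lit 249) (nat_lit 1) (nat_lit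 430) (nat_lit 319) (nat_lit 271)) (XT.lf (nat_lit 456) (nat_lit 1040281391) (nat_lit 0) (nat_lit 53016414) (nat_lit 380) (nat_lit 53016414) (nat_lit 245) (nat_lit 1) (nat_lit 239) (nat_lit 1) (nat_lit 244) (nat_lit 1) (nat_lit 431) (nat_lit 319) (nat_lit 270))))) (XT.nd (nat_lit 156) (nat_lit 304) (nat_lit 0) (XT.nd (nat_lit 78) (nat_lit 304) (nat_lit 0) (XT.lf (nat_lit 76) (nat_lit 395903527) (nat_lit 0) (nat_lit 341085892) (nat_lit 456) (nat_lit 395903527) (nat_lit 240) (nat_lit 1) (nat_lit 239) (nat_lit 1) (nat_lit 245) (nat_lit 1) (nat_lit 432) (nat_lit 319) (nat_lit 269)) (XT.lf (nat_lit 380) (nat_lit 547225855) (nat_lit 0) (nat_lit 286269666) (nat_lit 304) (nat_lit 286269666) (nat_lit 240) (nat_lit 1) (nat_lit 235) (nat_lit 1) (nat_lit 239) (nat_lit 1) (nat_lit 433) (nat_lit 319) (nat_lit 268))) (XT.nd (nat_lit 78) (nat_lit 304) (nat_lit 0) (XT.lf (nat_lit 76) (nat_lit 152175151) (nat_lit 0) (nat_lit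 802511678) (nat_lit 380) (nat_lit 152175151) (nat_lit 236) (nat_lit 1) (nat_lit 235) (nat_lit 1) (nat_lit 240) (nat_lit 1) (nat_lit 434) (nat_lit 319) (nat_lit 267)) (XT.nd (nat_lit 48828) (nat_lit 0) (nat_lit 10868) (XT.lf (nat_lit 380) (nat_lit 60681033) (nat_lit 0) (nat_lit 516712202) (nat_lit 304) (nat_lit 516712202) (nat_lit 236) (nat_lit 1) (nat_lit 231) (nat_lit 1) (nat_lit 235) (nat_lit 1) (nat_lit 435) (nat_lit 319) (nat_lit 266)) (XT.lf (nat_lit 1292) (nat_lit 206500060) (nat_lit 0) (nat_lit 710456244) (nat_lit 1292) (nat_lit 206500060) (nat_lit 391) (nat_lit 1) (nat_lit 374) (nat_lit 0) (nat_lit 391) (nat_lit 0) (nat_lit 380) (nat_lit 320) (nat_lit 320))))))) (XT.nd (nat_lit 702) (nat_lit 1520) (nat_lit 0) (XT.nd (nat_lit 312) (nat_lit 0) (nat_lit 152) (XT.nd (nat_lit 156) (nat_lit 0) (nat_lit 76) (XT.nd (nat_lit 78) (nat_lit 0) (nat_lit 76) (XT.lf (nat_lit 1292) (nat_lit 807005855) (nat_lit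 76) (nat_lit 703490987) (nat_lit 0) (nat_lit 703490987) (nat_lit 391) (nat_lit 1) (nat_lit 375) (nat_lit 1) (nat_lit 374) (nat_lit 0) (nat_lit 381) (nat_lit 320) (nat_lit 319)) (XT.lf (nat_lit 1292) (nat_lit 390287272) (nat_lit 0) (nat_lit 1401214637) (nat_lit 1216) (nat_lit 390287272) (nat_lit 392) (nat_lit 1) (nat_lit 375) (nat_lit 1) (nat_lit 391) (nat_lit 1) (nat_lit 382) (nat_lit 320) (nat_lit 318))) (XT.nd (nat_lit 78) (nat_lit 0) (nat_lit 76) (XT.lf (nat_lit 1292) (nat_lit 741175681) (nat_lit 76) (nat_lit 704476280) (nat_lit 0) (nat_lit 704476280) (nat_lit 392) (nat_lit 1) (nat_lit 376) (nat_lit 1) (nat_lit 375) (nat_lit 1) (nat_lit 383) (nat_lit 320) (nat_lit 317)) (XT.lf (nat_lit 1292) (nat_lit 347792992) (nat_lit 0) (nat_lit 1423589741) (nat_lit 1216) (nat_lit 347792992) (nat_lit 393) (nat_lit 1) (nat_lit 376) (nat_lit 1) (nat_lit 392) (nat_lit 1) (nat_lit 384) (nat_lit 320) (nat_lit 316))))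 (XT.nd (nat_lit 156) (nat_lit 0) (nat_lit 76) (XT.nd (nat_lit 78) (nat_lit 0) (nat_lit 76) (XT.lf (nat_lit 1292) (nat_lit 637367380) (nat_lit 76) (nat_lit 725675425) (nat_lit 0) (nat_lit 725675425) (nat_lit 393) (nat_lit 1) (nat_lit 377) (nat_lit 1) (nat_lit 376) (nat_lit 1) (nat_lit 385) (nat_lit 320) (nat_lit 315)) (XT.lf (nat_lit 1292) (nat_lit 287266947) (nat_lit 0) (nat_lit 1484430150) (nat_lit 1216) (nat_lit 287266947) (nat_lit 394) (nat_lit 1) (nat_lit 377) (nat_lit 1) (nat_lit 393) (nat_lit 1) (nat_lit 386) (nat_lit 320) (nat_lit 314))) (XT.nd (nat_lit 78) (nat_lit 0) (nat_lit 76) (XT.lf (nat_lit 1292) (nat_lit 498977275) (nat_lit 76) (nat_lit 765337665) (nat_lit 0) (nat_lit 765337665) (nat_lit 394) (nat_lit 1) (nat_lit 378) (nat_lit 1) (nat_lit 377) (nat_lit 1) (nat_lit 387) (nat_lit 320) (nat_lit 313)) (XT.nd (nat_lit 78) (nat_lit 0) (nat_lit 0) (XT.lf (nat_lit 1292) (nat_lit 210340482) (nat_lit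 0) (nat_lit 1580370038) (nat_lit 1216) (nat_lit 210340482) (nat_lit 395) (nat_lit 1) (nat_lit 378) (nat_lit 1) (nat_lit 394) (nat_lit 1) (nat_lit 388) (nat_lit 320) (nat_lit 312)) (XT.lf (nat_lit 1292) (nat_lit 329171304) (nat_lit 76) (nat_lit 821829937) (nat_lit 0) (nat_lit 821829937) (nat_lit 395) (nat_lit 1) (nat_lit 379) (nat_lit 1) (nat_lit 378) (nat_lit 1) (nat_lit 389) (nat_lit 320) (nat_lit 311)))))) (XT.nd (nat_lit 390) (nat_lit 684) (nat_lit 0) (XT.nd (nat_lit 156) (nat_lit 1216) (nat_lit 0) (XT.nd (nat_lit 78) (nat_lit 0) (nat_lit 0) (XT.lf (nat_lit 1292) (nat_lit 118533926) (nat_lit 0) (nat_lit 1708270515) (nat_lit 1216) (nat_lit 118533926) (nat_lit 396) (nat_lit 1) (nat_lit 379) (nat_lit 1) (nat_lit 395) (nat_lit 1) (nat_lit 390) (nat_lit 320) (nat_lit 310)) (XT.lf (nat_lit 1292) (nat_lit 130899276) (nat_lit 76) (nat_lit 893629621) (nat_lit 0) (nat_lit 893629621) (nat_lit 396) (nat_lit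 1) (nat_lit 380) (nat_lit 1) (nat_lit 379) (nat_lit 1) (nat_lit 391) (nat_lit 320) (nat_lit 309))) (XT.nd (nat_lit 78) (nat_lit 1292) (nat_lit 0) (XT.lf (nat_lit 1292) (nat_lit 13263477) (nat_lit 0) (nat_lit 1865205612) (nat_lit 1216) (nat_lit 13263477) (nat_lit 397) (nat_lit 1) (nat_lit 380) (nat_lit 1) (nat_lit 396) (nat_lit 1) (nat_lit 392) (nat_lit 320) (nat_lit 308)) (XT.nd (nat_lit 78) (nat_lit 0) (nat_lit 0) (XT.lf (nat_lit 1368) (nat_lit 887120838) (nat_lit 0) (nat_lit 91275169) (nat_lit 1292) (nat_lit 887120838) (nat_lit 381) (nat_lit 1) (nat_lit 363) (nat_lit 1) (nat_lit 380) (nat_lit 1) (nat_lit 393) (nat_lit 320) (nat_lit 307)) (XT.lf (nat_lit 1368) (nat_lit 1633761235) (nat_lit 76) (nat_lit 103131231) (nat_lit 0) (nat_lit 103131231) (nat_lit 381) (nat_lit 1) (nat_lit 364) (nat_lit 1) (nat_lit 363) (nat_lit 1) (nat_lit 394) (nat_lit 320) (nat_lit 306))))) (XT.nd (nat_lit 156) (nat_lit 760)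 (nat_lit 0) (XT.nd (nat_lit 78) (nat_lit 0) (nat_lit 0) (XT.lf (nat_lit 1368) (nat_lit 740598302) (nat_lit 0) (nat_lit 333605322) (nat_lit 1292) (nat_lit 740598302) (nat_lit 382) (nat_lit 1) (nat_lit 364) (nat_lit 1) (nat_lit 381) (nat_lit 1) (nat_lit 395) (nat_lit 320) (nat_lit 305)) (XT.lf (nat_lit 1368) (nat_lit 1329804961) (nat_lit 76) (nat_lit 230207273) (nat_lit 0) (nat_lit 230207273) (nat_lit 382) (nat_lit 1) (nat_lit 365) (nat_lit 1) (nat_lit 364) (nat_lit 1) (nat_lit 396) (nat_lit 320) (nat_lit 304))) (XT.nd (nat_lit 78) (nat_lit 836) (nat_lit 0) (XT.lf (nat_lit 76) (nat_lit 584828199) (nat_lit 0) (nat_lit 596313197) (nat_lit 1292) (nat_lit 584828199) (nat_lit 366) (nat_lit 1) (nat_lit 365) (nat_lit 1) (nat_lit 382) (nat_lit 1) (nat_lit 397) (nat_lit 320) (nat_lit 303)) (XT.nd (nat_lit 78) (nat_lit 0) (nat_lit 0) (XT.lf (nat_lit 912) (nat_lit 1008326149) (nat_lit 0) (nat_lit 366964782) (nat_lit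 836) (nat_lit 366964782) (nat_lit 366) (nat_lit 1) (nat_lit 354) (nat_lit 1) (nat_lit 365) (nat_lit 1) (nat_lit 398) (nat_lit 320) (nat_lit 302)) (XT.lf (nat_lit 76) (nat_lit 420855706) (nat_lit 0) (nat_lit 877230336) (nat_lit 912) (nat_lit 420855706) (nat_lit 355) (nat_lit 1) (nat_lit 354) (nat_lit 1) (nat_lit 366) (nat_lit 1) (nat_lit 399) (nat_lit 320) (nat_lit 301))))))))
noncomputable def ec20 : XT := (XT.nd (nat_lit 1404) (nat_lit 4256) (nat_lit 0) (XT.nd (nat_lit 702) (nat_lit 2508) (nat_lit 0) (XT.nd (nat_lit 312) (nat_lit 1748) (nat_lit 0) (XT.nd (nat_lit 156) (nat_lit 608) (nat_lit 0) (XT.nd (nat_lit 78) (nat_lit 0) (nat_lit 0) (XT.lf (nat_lit 684) (nat_lit 671349234) (nat_lit 0) (nat_lit 512353551) (nat_lit 608) (nat_lit 512353551) (nat_lit 355) (nat_lit 1) (nat_lit 346) (nat_lit 1) (nat_lit 354) (nat_lit 1) (nat_lit 400) (nat_lit 320) (nat_lit 300)) (XT.lf (nat_lit 76) (nat_lit 249651019)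 (nat_lit 0) (nat_lit 1174341847) (nat_lit 684) (nat_lit 249651019) (nat_lit 347) (nat_lit 1) (nat_lit 346) (nat_lit 1) (nat_lit 355) (nat_lit 1) (nat_lit 401) (nat_lit 320) (nat_lit 299))) (XT.nd (nat_lit 78) (nat_lit 0) (nat_lit 0) (XT.lf (nat_lit 684) (nat_lit 320752771) (nat_lit 0) (nat_lit 665398060) (nat_lit 608) (nat_lit 665398060) (nat_lit 347) (nat_lit 1) (nat_lit 338) (nat_lit 1) (nat_lit 346) (nat_lit 1) (nat_lit 402) (nat_lit 320) (nat_lit 298)) (XT.lf (nat_lit 76) (nat_lit 72114099) (nat_lit 0) (nat_lit 1485776744) (nat_lit 684) (nat_lit 72114099) (nat_lit 339) (nat_lit 1) (nat_lit 338) (nat_lit 1) (nat_lit 347) (nat_lit 1) (nat_lit 403) (nat_lit 320) (nat_lit 297)))) (XT.nd (nat_lit 156) (nat_lit 532) (nat_lit 0) (XT.nd (nat_lit 78) (nat_lit 608) (nat_lit 0) (XT.lf (nat_lit 76) (nat_lit 783872502) (nat_lit 0) (nat_lit 40907187) (nat_lit 608) (nat_lit 783872502) (nat_lit 331) (nat_lit 1)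 (nat_lit 330) (nat_lit 1) (nat_lit 338) (nat_lit 1) (nat_lit 404) (nat_lit 320) (nat_lit 296)) (XT.lf (nat_lit 684) (nat_lit 1368161680) (nat_lit 0) (nat_lit 109833416) (nat_lit 608) (nat_lit 109833416) (nat_lit 331) (nat_lit 1) (nat_lit 322) (nat_lit 1) (nat_lit 330) (nat_lit 1) (nat_lit 405) (nat_lit 320) (nat_lit 295))) (XT.nd (nat_lit 78) (nat_lit 532) (nat_lit 0) (XT.lf (nat_lit 76) (nat_lit 580422654) (nat_lit 0) (nat_lit 406371493) (nat_lit 684) (nat_lit 580422654) (nat_lit 323) (nat_lit 1) (nat_lit 322) (nat_lit 1) (nat_lit 331) (nat_lit 1) (nat_lit 406) (nat_lit 320) (nat_lit 294)) (XT.nd (nat_lit 78) (nat_lit 0) (nat_lit 0) (XT.lf (nat_lit 608) (nat_lit 955583242) (nat_lit 0) (nat_lit 295753074) (nat_lit 532) (nat_lit 295753074) (nat_lit 323) (nat_lit 1) (nat_lit 315) (nat_lit 1) (nat_lit 322) (nat_lit 1) (nat_lit 407) (nat_lit 320) (nat_lit 293)) (XT.lf (nat_lit 76) (nat_lit 373419231) (nat_lit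 0) (nat_lit 780434184) (nat_lit 608) (nat_lit 373419231) (nat_lit 316) (nat_lit 1) (nat_lit 315) (nat_lit 1) (nat_lit 323) (nat_lit 1) (nat_lit 408) (nat_lit 320) (nat_lit 292)))))) (XT.nd (nat_lit 312) (nat_lit 912) (nat_lit 0) (XT.nd (nat_lit 156) (nat_lit 1064) (nat_lit 0) (XT.nd (nat_lit 78) (nat_lit 0) (nat_lit 0) (XT.lf (nat_lit 608) (nat_lit 536522314) (nat_lit 0) (nat_lit 485643961) (nat_lit 532) (nat_lit 485643961) (nat_lit 316) (nat_lit 1) (nat_lit 308) (nat_lit 1) (nat_lit 315) (nat_lit 1) (nat_lit 409) (nat_lit 320) (nat_lit 291)) (XT.lf (nat_lit 76) (nat_lit 163509887) (nat_lit 0) (nat_lit 1161740194) (nat_lit 608) (nat_lit 163509887) (nat_lit 309) (nat_lit 1) (nat_lit 308) (nat_lit 1) (nat_lit 316) (nat_lit 1) (nat_lit 410) (nat_lit 320) (nat_lit 290))) (XT.nd (nat_lit 78) (nat_lit 608) (nat_lit 0) (XT.lf (nat_lit 532) (nat_lit 112229643) (nat_lit 0) (nat_lit 678851593) (nat_lit 456) (nat_lit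 678851593) (nat_lit 309) (nat_lit 1) (nat_lit 302) (nat_lit 1) (nat_lit 308) (nat_lit 1) (nat_lit 411) (nat_lit 320) (nat_lit 289)) (XT.lf (nat_lit 608) (nat_lit 1355104624) (nat_lit 0) (nat_lit 48230297) (nat_lit 532) (nat_lit 48230297) (nat_lit 302) (nat_lit 1) (nat_lit 294) (nat_lit 1) (nat_lit 301) (nat_lit 1) (nat_lit 412) (nat_lit 320) (nat_lit 288)))) (XT.nd (nat_lit 156) (nat_lit 456) (nat_lit 0) (XT.nd (nat_lit 78) (nat_lit 456) (nat_lit 0) (XT.lf (nat_lit 76) (nat_lit 561669014) (nat_lit 0) (nat_lit 309972354) (nat_lit 608) (nat_lit 561669014) (nat_lit 295) (nat_lit 1) (nat_lit 294) (nat_lit 1) (nat_lit 302) (nat_lit 1) (nat_lit 413) (nat_lit 320) (nat_lit 287)) (XT.lf (nat_lit 532) (nat_lit 895282972) (nat_lit 0) (nat_lit 260107877) (nat_lit 456) (nat_lit 260107877) (nat_lit 295) (nat_lit 1) (nat_lit 288) (nat_lit 1) (nat_lit 294) (nat_lit 1) (nat_lit 414) (nat_lit 320) (nat_lit 286))) (XT.nd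 (nat_lit 78) (nat_lit 456) (nat_lit 0) (XT.lf (nat_lit 76) (nat_lit 332503054) (nat_lit 0) (nat_lit 732941570) (nat_lit 532) (nat_lit 332503054) (nat_lit 289) (nat_lit 1) (nat_lit 288) (nat_lit 1) (nat_lit 295) (nat_lit 1) (nat_lit 415) (nat_lit 320) (nat_lit 285)) (XT.nd (nat_lit 78) (nat_lit 0) (nat_lit 0) (XT.lf (nat_lit 532) (nat_lit 434250636) (nat_lit 0) (nat_lit 473223948) (nat_lit 456) (nat_lit 473223948) (nat_lit 289) (nat_lit 1) (nat_lit 282) (nat_lit 1) (nat_lit 288) (nat_lit 1) (nat_lit 416) (nat_lit 320) (nat_lit 284)) (XT.lf (nat_lit 76) (nat_lit 102958342) (nat_lit 0) (nat_lit 1157909875) (nat_lit 532) (nat_lit 102958342) (nat_lit 283) (nat_lit 1) (nat_lit 282) (nat_lit 1) (nat_lit 289) (nat_lit 1) (nat_lit 417) (nat_lit 320) (nat_lit 283))))))) (XT.nd (nat_lit 702) (nat_lit 1748) (nat_lit 0) (XT.nd (nat_lit 312) (nat_lit 1216) (nat_lit 0) (XT.nd (nat_lit 156) (nat_lit 380) (nat_lit 0)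 (XT.nd (nat_lit 78) (nat_lit 456) (nat_lit 0) (XT.lf (nat_lit 76) (nat_lit 660258954) (nat_lit 0) (nat_lit 26589633) (nat_lit 456) (nat_lit 660258954) (nat_lit 277) (nat_lit 1) (nat_lit 276) (nat_lit 1) (nat_lit 282) (nat_lit 1) (nat_lit 418) (nat_lit 320) (nat_lit 282)) (XT.lf (nat_lit 532) (nat_lit 1080134984) (nat_lit 0) (nat_lit 125308510) (nat_lit 456) (nat_lit 125308510) (nat_lit 277) (nat_lit 1) (nat_lit 270) (nat_lit 1) (nat_lit 276) (nat_lit 1) (nat_lit 419) (nat_lit 320) (nat_lit 281))) (XT.nd (nat_lit 78) (nat_lit 380) (nat_lit 0) (XT.lf (nat_lit 76) (nat_lit 418029548) (nat_lit 0) (nat_lit 478502259) (nat_lit 532) (nat_lit 418029548) (nat_lit 271) (nat_lit 1) (nat_lit 270) (nat_lit 1) (nat_lit 277) (nat_lit 1) (nat_lit 420) (nat_lit 320) (nat_lit 280)) (XT.lf (nat_lit 456) (nat_lit 594401019) (nat_lit 0) (nat_lit 352152312) (nat_lit 380) (nat_lit 352152312) (nat_lit 271) (nat_lit 1) (nat_lit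 265) (nat_lit 1) (nat_lit 270) (nat_lit 1) (nat_lit 421) (nat_lit 320) (nat_lit 279)))) (XT.nd (nat_lit 156) (nat_lit 836) (nat_lit 0) (XT.nd (nat_lit 78) (nat_lit 380) (nat_lit 0) (XT.lf (nat_lit 76) (nat_lit 176948183) (nat_lit 0) (nat_lit 929243968) (nat_lit 456) (nat_lit 176948183) (nat_lit 266) (nat_lit 1) (nat_lit 265) (nat_lit 1) (nat_lit 271) (nat_lit 1) (nat_lit 422) (nat_lit 320) (nat_lit 278)) (XT.lf (nat_lit 456) (nat_lit 111286469) (nat_lit 0) (nat_lit 578238284) (nat_lit 380) (nat_lit 578238284) (nat_lit 266) (nat_lit 1) (nat_lit 260) (nat_lit 1) (nat_lit 265) (nat_lit 1) (nat_lit 423) (nat_lit 320) (nat_lit 277))) (XT.nd (nat_lit 78) (nat_lit 380) (nat_lit 0) (XT.lf (nat_lit 456) (nat_lit 1128598906) (nat_lit 0) (nat_lit 62064978) (nat_lit 380) (nat_lit 62064978) (nat_lit 260) (nat_lit 1) (nat_lit 254) (nat_lit 1) (nat_lit 259) (nat_lit 1) (nat_lit 424) (nat_lit 320) (nat_lit 276)) (XT.nd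 (nat_lit 78) (nat_lit 380) (nat_lit 0) (XT.lf (nat_lit 76) (nat_lit 438172964) (nat_lit 0) (nat_lit 361430028) (nat_lit 456) (nat_lit 438172964) (nat_lit 255) (nat_lit 1) (nat_lit 254) (nat_lit 1) (nat_lit 260) (nat_lit 1) (nat_lit 425) (nat_lit 320) (nat_lit 275)) (XT.lf (nat_lit 456) (nat_lit 627896692) (nat_lit 0) (nat_lit 297629336) (nat_lit 380) (nat_lit 297629336) (nat_lit 255) (nat_lit 1) (nat_lit 249) (nat_lit 1) (nat_lit 254) (nat_lit 1) (nat_lit 426) (nat_lit 320) (nat_lit 274)))))) (XT.nd (nat_lit 390) (nat_lit 684) (nat_lit 0) (XT.nd (nat_lit 156) (nat_lit 760) (nat_lit 0) (XT.nd (nat_lit 78) (nat_lit 304) (nat_lit 0) (XT.lf (nat_lit 76) (nat_lit 190233521) (nat_lit 0) (nat_lit 828312499) (nat_lit 456) (nat_lit 190233521) (nat_lit 250) (nat_lit 1) (nat_lit 249) (nat_lit 1) (nat_lit 255) (nat_lit 1) (nat_lit 427) (nat_lit 320) (nat_lit 273)) (XT.lf (nat_lit 380) (nat_lit 132123373) (nat_lit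 0) (nat_lit 531231268) (nat_lit 304) (nat_lit 531231268) (nat_lit 250) (nat_lit 1) (nat_lit 245) (nat_lit 1) (nat_lit 249) (nat_lit 1) (nat_lit 428) (nat_lit 320) (nat_lit 272))) (XT.nd (nat_lit 78) (nat_lit 304) (nat_lit 0) (XT.lf (nat_lit 456) (nat_lit 1071489832) (nat_lit 0) (nat_lit 54606907) (nat_lit 380) (nat_lit 54606907) (nat_lit 245) (nat_lit 1) (nat_lit 239) (nat_lit 1) (nat_lit 244) (nat_lit 1) (nat_lit 429) (nat_lit 320) (nat_lit 271)) (XT.nd (nat_lit 78) (nat_lit 304) (nat_lit 0) (XT.lf (nat_lit 76) (nat_lit 407780633) (nat_lit 0) (nat_lit 351318469) (nat_lit 456) (nat_lit 407780633) (nat_lit 240) (nat_lit 1) (nat_lit 239) (nat_lit 1) (nat_lit 245) (nat_lit 1) (nat_lit 430) (nat_lit 320) (nat_lit 270)) (XT.lf (nat_lit 380) (nat_lit 563642631) (nat_lit 0) (nat_lit 294857756) (nat_lit 304) (nat_lit 294857756) (nat_lit 240) (nat_lit 1) (nat_lit 235) (nat_lit 1) (nat_lit 239) (nat_lit 1) (nat_lit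 431) (nat_lit 320) (nat_lit 269))))) (XT.nd (nat_lit 156) (nat_lit 380) (nat_lit 0) (XT.nd (nat_lit 78) (nat_lit 304) (nat_lit 0) (XT.lf (nat_lit 76) (nat_lit 156740405) (nat_lit 0) (nat_lit 826587029) (nat_lit 380) (nat_lit 156740405) (nat_lit 236) (nat_lit 1) (nat_lit 235) (nat_lit 1) (nat_lit 240) (nat_lit 1) (nat_lit 432) (nat_lit 320) (nat_lit 268)) (XT.lf (nat_lit 380) (nat_lit 62501464) (nat_lit 0) (nat_lit 532213568) (nat_lit 304) (nat_lit 532213568) (nat_lit 236) (nat_lit 1) (nat_lit 231) (nat_lit 1) (nat_lit 235) (nat_lit 1) (nat_lit 433) (nat_lit 320) (nat_lit 267))) (XT.nd (nat_lit 78) (nat_lit 0) (nat_lit 0) (XT.lf (nat_lit 380) (nat_lit 934044250) (nat_lit 0) (nat_lit 90002204) (nat_lit 304) (nat_lit 90002204) (nat_lit 231) (nat_lit 1) (nat_lit 226) (nat_lit 1) (nat_lit 230) (nat_lit 1) (nat_lit 434) (nat_lit 320) (nat_lit 266)) (XT.nd (nat_lit 48672) (nat_lit 0) (nat_lit 11248) (XT.lf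 (nat_lit 76) (nat_lit 339007749) (nat_lit 0) (nat_lit 423241503) (nat_lit 380) (nat_lit 339007749) (nat_lit 227) (nat_lit 1) (nat_lit 226) (nat_lit 1) (nat_lit 231) (nat_lit 1) (nat_lit 435) (nat_lit 320) (nat_lit 265)) (XT.lf (nat_lit 1292) (nat_lit 212695062) (nat_lit 0) (nat_lit 731769932) (nat_lit 1292) (nat_lit 212695062) (nat_lit 391) (nat_lit 1) (nat_lit 374) (nat_lit 0) (nat_lit 391) (nat_lit 0) (nat_lit 378) (nat_lit 321) (nat_lit 321))))))))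
noncomputable def ec21 : XT := (XT.nd (nat_lit 1482) (nat_lit 5928) (nat_lit 0) (XT.nd (nat_lit 702) (nat_lit 1520) (nat_lit 0) (XT.nd (nat_lit 312) (nat_lit 0) (nat_lit 152) (XT.nd (nat_lit 156) (nat_lit 0) (nat_lit 76) (XT.nd (nat_lit 78) (nat_lit 0) (nat_lit 76) (XT.lf (nat_lit 1292) (nat_lit 831216030) (nat_lit 76) (nat_lit 724595717) (nat_lit 0) (nat_lit 724595717) (nat_lit 391) (nat_lit 1) (nat_lit 375) (nat_lit 1) (nat_lit 374) (nat_lit 0) (nat_lit 379) (nat_lit 321) (nat_lit 320)) (XT.lf (nat_lit 1292) (nat_lit 401995890) (nat_lit 0) (nat_lit 1443251076) (nat_lit 1216) (nat_lit 401995890) (nat_lit 392) (nat_lit 1) (nat_lit 375) (nat_lit 1) (nat_lit 391) (nat_lit 1) (nat_lit 380) (nat_lit 321) (nat_lit 319))) (XT.nd (nat_lit 78) (nat_lit 0) (nat_lit 76) (XT.lf (nat_lit 1292) (nat_lit 763410952) (nat_lit 76) (nat_lit 725610568) (nat_lit 0) (nat_lit 725610568) (nat_lit 392) (nat_lit 1) (nat_lit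 376) (nat_lit 1) (nat_lit 375) (nat_lit 1) (nat_lit 381) (nat_lit 321) (nat_lit 318)) (XT.lf (nat_lit 1292) (nat_lit 358226781) (nat_lit 0) (nat_lit 1466297434) (nat_lit 1216) (nat_lit 358226781) (nat_lit 393) (nat_lit 1) (nat_lit 376) (nat_lit 1) (nat_lit 392) (nat_lit 1) (nat_lit 382) (nat_lit 321) (nat_lit 317)))) (XT.nd (nat_lit 156) (nat_lit 0) (nat_lit 76) (XT.nd (nat_lit 78) (nat_lit 0) (nat_lit 76) (XT.lf (nat_lit 1292) (nat_lit 656488401) (nat_lit 76) (nat_lit 747445688) (nat_lit 0) (nat_lit 747445688) (nat_lit 393) (nat_lit 1) (nat_lit 377) (nat_lit 1) (nat_lit 376) (nat_lit 1) (nat_lit 383) (nat_lit 321) (nat_lit 316)) (XT.lf (nat_lit 1292) (nat_lit 295884956) (nat_lit 0) (nat_lit 1528963055) (nat_lit 1216) (nat_lit 295884956) (nat_lit 394) (nat_lit 1) (nat_lit 377) (nat_lit 1) (nat_lit 393) (nat_lit 1) (nat_lit 384) (nat_lit 321) (nat_lit 315))) (XT.nd (nat_lit 78) (nat_lit 0) (nat_lit 76)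 (XT.lf (nat_lit 1292) (nat_lit 513946593) (nat_lit 76) (nat_lit 788297795) (nat_lit 0) (nat_lit 788297795) (nat_lit 394) (nat_lit 1) (nat_lit 378) (nat_lit 1) (nat_lit 377) (nat_lit 1) (nat_lit 385) (nat_lit 321) (nat_lit 314)) (XT.nd (nat_lit 78) (nat_lit 0) (nat_lit 0) (XT.lf (nat_lit 1292) (nat_lit 216650696) (nat_lit 0) (nat_lit 1627781140) (nat_lit 1216) (nat_lit 216650696) (nat_lit 395) (nat_lit 1) (nat_lit 378) (nat_lit 1) (nat_lit 394) (nat_lit 1) (nat_lit 386) (nat_lit 321) (nat_lit 313)) (XT.lf (nat_lit 1292) (nat_lit 339046443) (nat_lit 76) (nat_lit 846484836) (nat_lit 0) (nat_lit 846484836) (nat_lit 395) (nat_lit 1) (nat_lit 379) (nat_lit 1) (nat_lit 378) (nat_lit 1) (nat_lit 387) (nat_lit 321) (nat_lit 312)))))) (XT.nd (nat_lit 390) (nat_lit 684) (nat_lit 0) (XT.nd (nat_lit 156) (nat_lit 1216) (nat_lit 0) (XT.nd (nat_lit 78) (nat_lit 0) (nat_lit 0) (XT.lf (nat_lit 1292) (nat_lit 122089944)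 (nat_lit 0) (nat_lit 1759518630) (nat_lit 1216) (nat_lit 122089944) (nat_lit 396) (nat_lit 1) (nat_lit 379) (nat_lit 1) (nat_lit 395) (nat_lit 1) (nat_lit 388) (nat_lit 321) (nat_lit 311)) (XT.lf (nat_lit 1292) (nat_lit 134826254) (nat_lit 76) (nat_lit 920438510) (nat_lit 0) (nat_lit 920438510) (nat_lit 396) (nat_lit 1) (nat_lit 380) (nat_lit 1) (nat_lit 379) (nat_lit 1) (nat_lit 389) (nat_lit 321) (nat_lit 310))) (XT.nd (nat_lit 78) (nat_lit 1292) (nat_lit 0) (XT.lf (nat_lit 1292) (nat_lit 13661382) (nat_lit 0) (nat_lit 1921161780) (nat_lit 1216) (nat_lit 13661382) (nat_lit 397) (nat_lit 1) (nat_lit 380) (nat_lit 1) (nat_lit 396) (nat_lit 1) (nat_lit 390) (nat_lit 321) (nat_lit 309)) (XT.nd (nat_lit 78) (nat_lit 0) (nat_lit 0) (XT.lf (nat_lit 1368) (nat_lit 913734463) (nat_lit 0) (nat_lit 94013424) (nat_lit 1292) (nat_lit 913734463) (nat_lit 381) (nat_lit 1) (nat_lit 363) (nat_lit 1) (nat_lit 380)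 (nat_lit 1) (nat_lit 391) (nat_lit 321) (nat_lit 308)) (XT.lf (nat_lit 1368) (nat_lit 1682774073) (nat_lit 76) (nat_lit 106225168) (nat_lit 0) (nat_lit 106225168) (nat_lit 381) (nat_lit 1) (nat_lit 364) (nat_lit 1) (nat_lit 363) (nat_lit 1) (nat_lit 392) (nat_lit 321) (nat_lit 307))))) (XT.nd (nat_lit 156) (nat_lit 760) (nat_lit 0) (XT.nd (nat_lit 78) (nat_lit 0) (nat_lit 0) (XT.lf (nat_lit 1368) (nat_lit 762816251) (nat_lit 0) (nat_lit 343613482) (nat_lit 1292) (nat_lit 762816251) (nat_lit 382) (nat_lit 1) (nat_lit 364) (nat_lit 1) (nat_lit 381) (nat_lit 1) (nat_lit 393) (nat_lit 321) (nat_lit 306)) (XT.lf (nat_lit 1368) (nat_lit 1369699110) (nat_lit 76) (nat_lit 237113491) (nat_lit 0) (nat_lit 237113491) (nat_lit 382) (nat_lit 1) (nat_lit 365) (nat_lit 1) (nat_lit 364) (nat_lit 1) (nat_lit 394) (nat_lit 321) (nat_lit 305))) (XT.nd (nat_lit 78) (nat_lit 836) (nat_lit 0) (XT.lf (nat_lit 76) (nat_lit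 602373045) (nat_lit 0) (nat_lit 614202593) (nat_lit 1292) (nat_lit 602373045) (nat_lit 366) (nat_lit 1) (nat_lit 365) (nat_lit 1) (nat_lit 382) (nat_lit 1) (nat_lit 395) (nat_lit 321) (nat_lit 304)) (XT.nd (nat_lit 78) (nat_lit 0) (nat_lit 0) (XT.lf (nat_lit 912) (nat_lit 1038575934) (nat_lit 0) (nat_lit 377973725) (nat_lit 836) (nat_lit 377973725) (nat_lit 366) (nat_lit 1) (nat_lit 354) (nat_lit 1) (nat_lit 365) (nat_lit 1) (nat_lit 396) (nat_lit 321) (nat_lit 303)) (XT.lf (nat_lit 76) (nat_lit 433481377) (nat_lit 0) (nat_lit 903547246) (nat_lit 912) (nat_lit 433481377) (nat_lit 355) (nat_lit 1) (nat_lit 354) (nat_lit 1) (nat_lit 366) (nat_lit 1) (nat_lit 397) (nat_lit 321) (nat_lit 302))))))) (XT.nd (nat_lit 702) (nat_lit 2964) (nat_lit 0) (XT.nd (nat_lit 312) (nat_lit 1748) (nat_lit 0) (XT.nd (nat_lit 156) (nat_lit 608) (nat_lit 0) (XT.nd (nat_lit 78) (nat_lit 0) (nat_lit 0) (XT.lf (nat_lit 684)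 (nat_lit 691489711) (nat_lit 0) (nat_lit 527724157) (nat_lit 608) (nat_lit 527724157) (nat_lit 355) (nat_lit 1) (nat_lit 346) (nat_lit 1) (nat_lit 354) (nat_lit 1) (nat_lit 398) (nat_lit 321) (nat_lit 301)) (XT.lf (nat_lit 76) (nat_lit 257140550) (nat_lit 0) (nat_lit 1209572103) (nat_lit 684) (nat_lit 257140550) (nat_lit 347) (nat_lit 1) (nat_lit 346) (nat_lit 1) (nat_lit 355) (nat_lit 1) (nat_lit 399) (nat_lit 321) (nat_lit 300))) (XT.nd (nat_lit 78) (nat_lit 0) (nat_lit 0) (XT.lf (nat_lit 684) (nat_lit 330375355) (nat_lit 0) (nat_lit 685360002) (nat_lit 608) (nat_lit 685360002) (nat_lit 347) (nat_lit 1) (nat_lit 338) (nat_lit 1) (nat_lit 346) (nat_lit 1) (nat_lit 400) (nat_lit 321) (nat_lit 299)) (XT.lf (nat_lit 76) (nat_lit 74277522) (nat_lit 0) (nat_lit 1530350046) (nat_lit 684) (nat_lit 74277522) (nat_lit 339) (nat_lit 1) (nat_lit 338) (nat_lit 1) (nat_lit 347) (nat_lit 1) (nat_lit 401) (nat_lit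 321) (nat_lit 298)))) (XT.nd (nat_lit 156) (nat_lit 532) (nat_lit 0) (XT.nd (nat_lit 78) (nat_lit 608) (nat_lit 0) (XT.lf (nat_lit 76) (nat_lit 807388677) (nat_lit 0) (nat_lit 42134402) (nat_lit 608) (nat_lit 807388677) (nat_lit 331) (nat_lit 1) (nat_lit 330) (nat_lit 1) (nat_lit 338) (nat_lit 1) (nat_lit 402) (nat_lit 321) (nat_lit 297)) (XT.lf (nat_lit 684) (nat_lit 1409206531) (nat_lit 0) (nat_lit 113128418) (nat_lit 608) (nat_lit 113128418) (nat_lit 331) (nat_lit 1) (nat_lit 322) (nat_lit 1) (nat_lit 330) (nat_lit 1) (nat_lit 403) (nat_lit 321) (nat_lit 296))) (XT.nd (nat_lit 78) (nat_lit 532) (nat_lit 0) (XT.lf (nat_lit 76) (nat_lit 597835333) (nat_lit 0) (nat_lit 418562638) (nat_lit 684) (nat_lit 597835333) (nat_lit 323) (nat_lit 1) (nat_lit 322) (nat_lit 1) (nat_lit 331) (nat_lit 1) (nat_lit 404) (nat_lit 321) (nat_lit 295)) (XT.nd (nat_lit 78) (nat_lit 0) (nat_lit 0) (XT.lf (nat_lit 608) (nat_lit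 984250740) (nat_lit 0) (nat_lit 304625667) (nat_lit 532) (nat_lit 304625667) (nat_lit 323) (nat_lit 1) (nat_lit 315) (nat_lit 1) (nat_lit 322) (nat_lit 1) (nat_lit 405) (nat_lit 321) (nat_lit 294)) (XT.lf (nat_lit 76) (nat_lit 384621808) (nat_lit 0) (nat_lit 803847210) (nat_lit 608) (nat_lit 384621808) (nat_lit 316) (nat_lit 1) (nat_lit 315) (nat_lit 1) (nat_lit 323) (nat_lit 1) (nat_lit 406) (nat_lit 321) (nat_lit 293)))))) (XT.nd (nat_lit 390) (nat_lit 1368) (nat_lit 0) (XT.nd (nat_lit 156) (nat_lit 1064) (nat_lit 0) (XT.nd (nat_lit 78) (nat_lit 0) (nat_lit 0) (XT.lf (nat_lit 608) (nat_lit 552617983) (nat_lit 0) (nat_lit 500213280) (nat_lit 532) (nat_lit 500213280) (nat_lit 316) (nat_lit 1) (nat_lit 308) (nat_lit 1) (nat_lit 315) (nat_lit 1) (nat_lit 407) (nat_lit 321) (nat_lit 292)) (XT.lf (nat_lit 76) (nat_lit 168415184) (nat_lit 0) (nat_lit 1196592400) (nat_lit 608) (nat_lit 168415184) (nat_lit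 309) (nat_lit 1) (nat_lit 308) (nat_lit 1) (nat_lit 316) (nat_lit 1) (nat_lit 408) (nat_lit 321) (nat_lit 291))) (XT.nd (nat_lit 78) (nat_lit 608) (nat_lit 0) (XT.lf (nat_lit 532) (nat_lit 115596532) (nat_lit 0) (nat_lit 699217141) (nat_lit 456) (nat_lit 699217141) (nat_lit 309) (nat_lit 1) (nat_lit 302) (nat_lit 1) (nat_lit 308) (nat_lit 1) (nat_lit 409) (nat_lit 321) (nat_lit 290)) (XT.nd (nat_lit 78) (nat_lit 0) (nat_lit 0) (XT.lf (nat_lit 608) (nat_lit 1395757762) (nat_lit 0) (nat_lit 49677206) (nat_lit 532) (nat_lit 49677206) (nat_lit 302) (nat_lit 1) (nat_lit 294) (nat_lit 1) (nat_lit 301) (nat_lit 1) (nat_lit 410) (nat_lit 321) (nat_lit 289)) (XT.lf (nat_lit 76) (nat_lit 578519084) (nat_lit 0) (nat_lit 319271524) (nat_lit 608) (nat_lit 578519084) (nat_lit 295) (nat_lit 1) (nat_lit 294) (nat_lit 1) (nat_lit 302) (nat_lit 1) (nat_lit 411) (nat_lit 321) (nat_lit 288))))) (XT.nd (nat_lit 156) (nat_lit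 912) (nat_lit 0) (XT.nd (nat_lit 78) (nat_lit 0) (nat_lit 0) (XT.lf (nat_lit 532) (nat_lit 922141461) (nat_lit 0) (nat_lit 267911114) (nat_lit 456) (nat_lit 267911114) (nat_lit 295) (nat_lit 1) (nat_lit 288) (nat_lit 1) (nat_lit 294) (nat_lit 1) (nat_lit 412) (nat_lit 321) (nat_lit 287)) (XT.lf (nat_lit 76) (nat_lit 342478146) (nat_lit 0) (nat_lit 754929817) (nat_lit 532) (nat_lit 342478146) (nat_lit 289) (nat_lit 1) (nat_lit 288) (nat_lit 1) (nat_lit 295) (nat_lit 1) (nat_lit 413) (nat_lit 321) (nat_lit 286))) (XT.nd (nat_lit 78) (nat_lit 456) (nat_lit 0) (XT.lf (nat_lit 532) (nat_lit 447278155) (nat_lit 0) (nat_lit 487420666) (nat_lit 456) (nat_lit 487420666) (nat_lit 289) (nat_lit 1) (nat_lit 282) (nat_lit 1) (nat_lit 288) (nat_lit 1) (nat_lit 414) (nat_lit 321) (nat_lit 285)) (XT.nd (nat_lit 78) (nat_lit 456) (nat_lit 0) (XT.lf (nat_lit 76) (nat_lit 106047093) (nat_lit 0) (nat_lit 1192647171) (nat_lit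 532) (nat_lit 106047093) (nat_lit 283) (nat_lit 1) (nat_lit 282) (nat_lit 1) (nat_lit 289) (nat_lit 1) (nat_lit 415) (nat_lit 321) (nat_lit 284)) (XT.lf (nat_lit 76) (nat_lit 680066723) (nat_lit 0) (nat_lit 27387322) (nat_lit 456) (nat_lit 680066723) (nat_lit 277) (nat_lit 1) (nat_lit 276) (nat_lit 1) (nat_lit 282) (nat_lit 1) (nat_lit 416) (nat_lit 321) (nat_lit 283))))))))
noncomputable def ec22 : XT := (XT.nd (nat_lit 49920) (nat_lit 0) (nat_lit 10032) (XT.nd (nat_lit 702) (nat_lit 2052) (nat_lit 0) (XT.nd (nat_lit 312) (nat_lit 1216) (nat_lit 0) (XT.nd (nat_lit 156) (nat_lit 380) (nat_lit 0) (XT.nd (nat_lit 78) (nat_lit 0) (nat_lit 0) (XT.lf (nat_lit 532) (nat_lit 1112539033) (nat_lit 0) (nat_lit 129067766) (nat_lit 456) (nat_lit 129067766) (nat_lit 277) (nat_lit 1) (nat_lit 270) (nat_lit 1) (nat_lit 276) (nat_lit 1) (nat_lit 417) (nat_lit 321) (nat_lit 282)) (XT.lf (nat_lit 76) (nat_lit 430570435)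 (nat_lit 0) (nat_lit 492857327) (nat_lit 532) (nat_lit 430570435) (nat_lit 271) (nat_lit 1) (nat_lit 270) (nat_lit 1) (nat_lit 277) (nat_lit 1) (nat_lit 418) (nat_lit 321) (nat_lit 281))) (XT.nd (nat_lit 78) (nat_lit 0) (nat_lit 0) (XT.lf (nat_lit 456) (nat_lit 612233049) (nat_lit 0) (nat_lit 362716881) (nat_lit 380) (nat_lit 362716881) (nat_lit 271) (nat_lit 1) (nat_lit 265) (nat_lit 1) (nat_lit 270) (nat_lit 1) (nat_lit 419) (nat_lit 321) (nat_lit 280)) (XT.lf (nat_lit 76) (nat_lit 182256628) (nat_lit 0) (nat_lit 957121287) (nat_lit 456) (nat_lit 182256628) (nat_lit 266) (nat_lit 1) (nat_lit 265) (nat_lit 1) (nat_lit 271) (nat_lit 1) (nat_lit 420) (nat_lit 321) (nat_lit 279)))) (XT.nd (nat_lit 156) (nat_lit 380) (nat_lit 0) (XT.nd (nat_lit 78) (nat_lit 456) (nat_lit 0) (XT.lf (nat_lit 456) (nat_lit 114625063) (nat_lit 0) (nat_lit 595585432) (nat_lit 380) (nat_lit 595585432) (nat_lit 266) (nat_lit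 1) (nat_lit 260) (nat_lit 1) (nat_lit 265) (nat_lit 1) (nat_lit 421) (nat_lit 321) (nat_lit 278)) (XT.lf (nat_lit 456) (nat_lit 1162456873) (nat_lit 0) (nat_lit 63926928) (nat_lit 380) (nat_lit 63926928) (nat_lit 260) (nat_lit 1) (nat_lit 254) (nat_lit 1) (nat_lit 259) (nat_lit 1) (nat_lit 422) (nat_lit 321) (nat_lit 277))) (XT.nd (nat_lit 78) (nat_lit 380) (nat_lit 0) (XT.lf (nat_lit 76) (nat_lit 451318153) (nat_lit 0) (nat_lit 372272929) (nat_lit 456) (nat_lit 451318153) (nat_lit 255) (nat_lit 1) (nat_lit 254) (nat_lit 1) (nat_lit 260) (nat_lit 1) (nat_lit 423) (nat_lit 321) (nat_lit 276)) (XT.nd (nat_lit 78) (nat_lit 0) (nat_lit 0) (XT.lf (nat_lit 456) (nat_lit 646733593) (nat_lit 0) (nat_lit 306558216) (nat_lit 380) (nat_lit 306558216) (nat_lit 255) (nat_lit 1) (nat_lit 249) (nat_lit 1) (nat_lit 254) (nat_lit 1) (nat_lit 424) (nat_lit 321) (nat_lit 275)) (XT.lf (nat_lit 76) (nat_lit 195940527) (nat_lit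 0) (nat_lit 853161874) (nat_lit 456) (nat_lit 195940527) (nat_lit 250) (nat_lit 1) (nat_lit 249) (nat_lit 1) (nat_lit 255) (nat_lit 1) (nat_lit 425) (nat_lit 321) (nat_lit 274)))))) (XT.nd (nat_lit 390) (nat_lit 988) (nat_lit 0) (XT.nd (nat_lit 156) (nat_lit 304) (nat_lit 0) (XT.nd (nat_lit 78) (nat_lit 456) (nat_lit 0) (XT.lf (nat_lit 380) (nat_lit 136087074) (nat_lit 0) (nat_lit 547168206) (nat_lit 304) (nat_lit 547168206) (nat_lit 250) (nat_lit 1) (nat_lit 245) (nat_lit 1) (nat_lit 249) (nat_lit 1) (nat_lit 426) (nat_lit 321) (nat_lit 273)) (XT.lf (nat_lit 456) (nat_lit 1103634527) (nat_lit 0) (nat_lit 56245114) (nat_lit 380) (nat_lit 56245114) (nat_lit 245) (nat_lit 1) (nat_lit 239) (nat_lit 1) (nat_lit 244) (nat_lit 1) (nat_lit 427) (nat_lit 321) (nat_lit 272))) (XT.nd (nat_lit 78) (nat_lit 304) (nat_lit 0) (XT.lf (nat_lit 76) (nat_lit 420014052) (nat_lit 0) (nat_lit 361858023) (nat_lit 456) (nat_lit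 420014052) (nat_lit 240) (nat_lit 1) (nat_lit 239) (nat_lit 1) (nat_lit 245) (nat_lit 1) (nat_lit 428) (nat_lit 321) (nat_lit 271)) (XT.nd (nat_lit 78) (nat_lit 0) (nat_lit 0) (XT.lf (nat_lit 380) (nat_lit 580551910) (nat_lit 0) (nat_lit 303703488) (nat_lit 304) (nat_lit 303703488) (nat_lit 240) (nat_lit 1) (nat_lit 235) (nat_lit 1) (nat_lit 239) (nat_lit 1) (nat_lit 429) (nat_lit 321) (nat_lit 270)) (XT.lf (nat_lit 76) (nat_lit 161442618) (nat_lit 0) (nat_lit 851384640) (nat_lit 380) (nat_lit 161442618) (nat_lit 236) (nat_lit 1) (nat_lit 235) (nat_lit 1) (nat_lit 240) (nat_lit 1) (nat_lit 430) (nat_lit 321) (nat_lit 269))))) (XT.nd (nat_lit 156) (nat_lit 304) (nat_lit 0) (XT.nd (nat_lit 78) (nat_lit 380) (nat_lit 0) (XT.lf (nat_lit 380) (nat_lit 64376508) (nat_lit 0) (nat_lit 548179975) (nat_lit 304) (nat_lit 548179975) (nat_lit 236) (nat_lit 1) (nat_lit 231) (nat_lit 1) (nat_lit 235) (nat_lit 1) (nat_lit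 431) (nat_lit 321) (nat_lit 268)) (XT.lf (nat_lit 380) (nat_lit 962065578) (nat_lit 0) (nat_lit 92702270) (nat_lit 304) (nat_lit 92702270) (nat_lit 231) (nat_lit 1) (nat_lit 226) (nat_lit 1) (nat_lit 230) (nat_lit 1) (nat_lit 432) (nat_lit 321) (nat_lit 267))) (XT.nd (nat_lit 78) (nat_lit 304) (nat_lit 0) (XT.lf (nat_lit 76) (nat_lit 349177982) (nat_lit 0) (nat_lit 435938748) (nat_lit 380) (nat_lit 349177982) (nat_lit 227) (nat_lit 1) (nat_lit 226) (nat_lit 1) (nat_lit 231) (nat_lit 1) (nat_lit 433) (nat_lit 321) (nat_lit 266)) (XT.nd (nat_lit 78) (nat_lit 0) (nat_lit 0) (XT.lf (nat_lit 380) (nat_lit 438053304) (nat_lit 0) (nat_lit 341662635) (nat_lit 304) (nat_lit 341662635) (nat_lit 227) (nat_lit 1) (nat_lit 222) (nat_lit 1) (nat_lit 226) (nat_lit 1) (nat_lit 434) (nat_lit 321) (nat_lit 265)) (XT.lf (nat_lit 76) (nat_lit 90497557) (nat_lit 0) (nat_lit 927717195) (nat_lit 380) (nat_lit 90497557) (nat_lit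 223) (nat_lit 1) (nat_lit 222) (nat_lit 1) (nat_lit 227) (nat_lit 1) (nat_lit 435) (nat_lit 321) (nat_lit 264))))))) (XT.nd (nat_lit 702) (nat_lit 1520) (nat_lit 0) (XT.nd (nat_lit 312) (nat_lit 0) (nat_lit 152) (XT.nd (nat_lit 156) (nat_lit 0) (nat_lit 76) (XT.nd (nat_lit 78) (nat_lit 0) (nat_lit 0) (XT.lf (nat_lit 1292) (nat_lit 219075914) (nat_lit 0) (nat_lit 753723030) (nat_lit 1292) (nat_lit 219075914) (nat_lit 391) (nat_lit 1) (nat_lit 374) (nat_lit 0) (nat_lit 391) (nat_lit 0) (nat_lit 376) (nat_lit 322) (nat_lit 322)) (XT.lf (nat_lit 1292) (nat_lit 856152511) (nat_lit 76) (nat_lit 746333588) (nat_lit 0) (nat_lit 746333588) (nat_lit 391) (nat_lit 1) (nat_lit 375) (nat_lit 1) (nat_lit 374) (nat_lit 0) (nat_lit 377) (nat_lit 322) (nat_lit 321))) (XT.nd (nat_lit 78) (nat_lit 0) (nat_lit 0) (XT.lf (nat_lit 1292) (nat_lit 414055767) (nat_lit 0) (nat_lit 1486548609) (nat_lit 1216) (nat_lit 414055767)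 (nat_lit 392) (nat_lit 1) (nat_lit 375) (nat_lit 1) (nat_lit 391) (nat_lit 1) (nat_lit 378) (nat_lit 322) (nat_lit 320)) (XT.lf (nat_lit 1292) (nat_lit 786313280) (nat_lit 76) (nat_lit 747378885) (nat_lit 0) (nat_lit 747378885) (nat_lit 392) (nat_lit 1) (nat_lit 376) (nat_lit 1) (nat_lit 375) (nat_lit 1) (nat_lit 379) (nat_lit 322) (nat_lit 319)))) (XT.nd (nat_lit 156) (nat_lit 0) (nat_lit 76) (XT.nd (nat_lit 78) (nat_lit 0) (nat_lit 0) (XT.lf (nat_lit 1292) (nat_lit 368973585) (nat_lit 0) (nat_lit 1510286357) (nat_lit 1216) (nat_lit 368973585) (nat_lit 393) (nat_lit 1) (nat_lit 376) (nat_lit 1) (nat_lit 392) (nat_lit 1) (nat_lit 380) (nat_lit 322) (nat_lit 318)) (XT.lf (nat_lit 1292) (nat_lit 676183053) (nat_lit 76) (nat_lit 769869059) (nat_lit 0) (nat_lit 769869059) (nat_lit 393) (nat_lit 1) (nat_lit 377) (nat_lit 1) (nat_lit 376) (nat_lit 1) (nat_lit 381) (nat_lit 322) (nat_lit 317))) (XT.nd (nat_lit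 78) (nat_lit 0) (nat_lit 0) (XT.lf (nat_lit 1292) (nat_lit 304761504) (nat_lit 0) (nat_lit 1574831946) (nat_lit 1216) (nat_lit 304761504) (nat_lit 394) (nat_lit 1) (nat_lit 377) (nat_lit 1) (nat_lit 393) (nat_lit 1) (nat_lit 382) (nat_lit 322) (nat_lit 316)) (XT.nd (nat_lit 78) (nat_lit 0) (nat_lit 76) (XT.lf (nat_lit 1292) (nat_lit 529364991) (nat_lit 76) (nat_lit 811946729) (nat_lit 0) (nat_lit 811946729) (nat_lit 394) (nat_lit 1) (nat_lit 378) (nat_lit 1) (nat_lit 377) (nat_lit 1) (nat_lit 383) (nat_lit 322) (nat_lit 315)) (XT.lf (nat_lit 1292) (nat_lit 223150217) (nat_lit 0) (nat_lit 1676614574) (nat_lit 1216) (nat_lit 223150217) (nat_lit 395) (nat_lit 1) (nat_lit 378) (nat_lit 1) (nat_lit 394) (nat_lit 1) (nat_lit 384) (nat_lit 322) (nat_lit 314)))))) (XT.nd (nat_lit 390) (nat_lit 684) (nat_lit 0) (XT.nd (nat_lit 156) (nat_lit 1140) (nat_lit 0) (XT.nd (nat_lit 78) (nat_lit 0) (nat_lit 76) (XT.lf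 (nat_lit 1292) (nat_lit 349217837) (nat_lit 76) (nat_lit 871879381) (nat_lit 0) (nat_lit 871879381) (nat_lit 395) (nat_lit 1) (nat_lit 379) (nat_lit 1) (nat_lit 378) (nat_lit 1) (nat_lit 385) (nat_lit 322) (nat_lit 313)) (XT.lf (nat_lit 1292) (nat_lit 125752642) (nat_lit 0) (nat_lit 1812304189) (nat_lit 1216) (nat_lit 125752642) (nat_lit 396) (nat_lit 1) (nat_lit 379) (nat_lit 1) (nat_lit 395) (nat_lit 1) (nat_lit 386) (nat_lit 322) (nat_lit 312))) (XT.nd (nat_lit 78) (nat_lit 1216) (nat_lit 0) (XT.lf (nat_lit 1292) (nat_lit 138871042) (nat_lit 76) (nat_lit 948051665) (nat_lit 0) (nat_lit 948051665) (nat_lit 396) (nat_lit 1) (nat_lit 380) (nat_lit 1) (nat_lit 379) (nat_lit 1) (nat_lit 387) (nat_lit 322) (nat_lit 311)) (XT.nd (nat_lit 78) (nat_lit 1292) (nat_lit 0) (XT.lf (nat_lit 1292) (nat_lit 14071223) (nat_lit 0) (nat_lit 1978796634) (nat_lit 1216) (nat_lit 14071223) (nat_lit 397) (nat_lit 1) (nat_lit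 380) (nat_lit 1) (nat_lit 396) (nat_lit 1) (nat_lit 388) (nat_lit 322) (nat_lit 310)) (XT.lf (nat_lit 1368) (nat_lit 941146497) (nat_lit 0) (nat_lit 96833827) (nat_lit 1292) (nat_lit 941146497) (nat_lit 381) (nat_lit 1) (nat_lit 363) (nat_lit 1) (nat_lit 380) (nat_lit 1) (nat_lit 389) (nat_lit 322) (nat_lit 309))))) (XT.nd (nat_lit 156) (nat_lit 684) (nat_lit 0) (XT.nd (nat_lit 78) (nat_lit 0) (nat_lit 76) (XT.lf (nat_lit 1368) (nat_lit 1733257295) (nat_lit 76) (nat_lit 109411923) (nat_lit 0) (nat_lit 109411923) (nat_lit 381) (nat_lit 1) (nat_lit 364) (nat_lit 1) (nat_lit 363) (nat_lit 1) (nat_lit 390) (nat_lit 322) (nat_lit 308)) (XT.lf (nat_lit 1368) (nat_lit 785700738) (nat_lit 0) (nat_lit 353921886) (nat_lit 1292) (nat_lit 785700738) (nat_lit 382) (nat_lit 1) (nat_lit 364) (nat_lit 1) (nat_lit 381) (nat_lit 1) (nat_lit 391) (nat_lit 322) (nat_lit 307))) (XT.nd (nat_lit 78) (nat_lit 760) (nat_lit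 0) (XT.lf (nat_lit 1368) (nat_lit 1410790083) (nat_lit 76) (nat_lit 244226896) (nat_lit 0) (nat_lit 244226896) (nat_lit 382) (nat_lit 1) (nat_lit 365) (nat_lit 1) (nat_lit 364) (nat_lit 1) (nat_lit 392) (nat_lit 322) (nat_lit 306)) (XT.nd (nat_lit 78) (nat_lit 836) (nat_lit 0) (XT.lf (nat_lit 76) (nat_lit 620444236) (nat_lit 0) (nat_lit 632628671) (nat_lit 1292) (nat_lit 620444236) (nat_lit 366) (nat_lit 1) (nat_lit 365) (nat_lit 1) (nat_lit 382) (nat_lit 1) (nat_lit 393) (nat_lit 322) (nat_lit 305)) (XT.lf (nat_lit 912) (nat_lit 1069733212) (nat_lit 0) (nat_lit 389312937) (nat_lit 836) (nat_lit 389312937) (nat_lit 366) (nat_lit 1) (nat_lit 354) (nat_lit 1) (nat_lit 365) (nat_lit 1) (nat_lit 394) (nat_lit 322) (nat_lit 304))))))))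
noncomputable def ec23 : XT := (XT.nd (nat_lit 1482) (nat_lit 4560) (nat_lit 0) (XT.nd (nat_lit 702) (nat_lit 2508) (nat_lit 0) (XT.nd (nat_lit 312) (nat_lit 1748) (nat_lit 0) (XT.nd (nat_lit 156) (nat_lit 608) (nat_lit 0) (XT.nd (nat_lit 78) (nat_lit 608) (nat_lit 0) (XT.lf (nat_lit 76) (nat_lit 446485818) (nat_lit 0) (nat_lit 930653663) (nat_lit 912) (nat_lit 446485818) (nat_lit 355) (nat_lit 1) (nat_lit 354) (nat_lit 1) (nat_lit 366) (nat_lit 1) (nat_lit 395) (nat_lit 322) (nat_lit 303)) (XT.lf (nat_lit 684) (nat_lit 712234402) (nat_lit 0) (nat_lit 543555882) (nat_lit 608) (nat_lit 543555882) (nat_lit 355) (nat_lit 1) (nat_lit 346) (nat_lit 1) (nat_lit 354) (nat_lit 1) (nat_lit 396) (nat_lit 322) (nat_lit 302))) (XT.nd (nat_lit 78) (nat_lit 608) (nat_lit 0) (XT.lf (nat_lit 76) (nat_lit 264854766) (nat_lit 0) (nat_lit 1245859266) (nat_lit 684) (nat_lit 264854766) (nat_lit 347) (nat_lit 1) (nat_lit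 346) (nat_lit 1) (nat_lit 355) (nat_lit 1) (nat_lit 397) (nat_lit 322) (nat_lit 301)) (XT.lf (nat_lit 684) (nat_lit 340286615) (nat_lit 0) (nat_lit 705920802) (nat_lit 608) (nat_lit 705920802) (nat_lit 347) (nat_lit 1) (nat_lit 338) (nat_lit 1) (nat_lit 346) (nat_lit 1) (nat_lit 398) (nat_lit 322) (nat_lit 300)))) (XT.nd (nat_lit 156) (nat_lit 1140) (nat_lit 0) (XT.nd (nat_lit 78) (nat_lit 608) (nat_lit 0) (XT.lf (nat_lit 76) (nat_lit 76505848) (nat_lit 0) (nat_lit 1576260548) (nat_lit 684) (nat_lit 76505848) (nat_lit 339) (nat_lit 1) (nat_lit 338) (nat_lit 1) (nat_lit 347) (nat_lit 1) (nat_lit 399) (nat_lit 322) (nat_lit 299)) (XT.lf (nat_lit 76) (nat_lit 831610337) (nat_lit 0) (nat_lit 43398434) (nat_lit 608) (nat_lit 831610337) (nat_lit 331) (nat_lit 1) (nat_lit 330) (nat_lit 1) (nat_lit 338) (nat_lit 1) (nat_lit 400) (nat_lit 322) (nat_lit 298))) (XT.nd (nat_lit 78) (nat_lit 532) (nat_lit 0) (XT.lf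 (nat_lit 684) (nat_lit 1451482727) (nat_lit 0) (nat_lit 116522271) (nat_lit 608) (nat_lit 116522271) (nat_lit 331) (nat_lit 1) (nat_lit 322) (nat_lit 1) (nat_lit 330) (nat_lit 1) (nat_lit 401) (nat_lit 322) (nat_lit 297)) (XT.nd (nat_lit 78) (nat_lit 532) (nat_lit 0) (XT.lf (nat_lit 76) (nat_lit 615770393) (nat_lit 0) (nat_lit 431119517) (nat_lit 684) (nat_lit 615770393) (nat_lit 323) (nat_lit 1) (nat_lit 322) (nat_lit 1) (nat_lit 331) (nat_lit 1) (nat_lit 402) (nat_lit 322) (nat_lit 296)) (XT.lf (nat_lit 608) (nat_lit 1013778262) (nat_lit 0) (nat_lit 313764437) (nat_lit 532) (nat_lit 313764437) (nat_lit 323) (nat_lit 1) (nat_lit 315) (nat_lit 1) (nat_lit 322) (nat_lit 1) (nat_lit 403) (nat_lit 322) (nat_lit 295)))))) (XT.nd (nat_lit 390) (nat_lit 912) (nat_lit 0) (XT.nd (nat_lit 156) (nat_lit 1064) (nat_lit 0) (XT.nd (nat_lit 78) (nat_lit 532) (nat_lit 0) (XT.lf (nat_lit 76) (nat_lit 396160463) (nat_lit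 0) (nat_lit 827962626) (nat_lit 608) (nat_lit 396160463) (nat_lit 316) (nat_lit 1) (nat_lit 315) (nat_lit 1) (nat_lit 323) (nat_lit 1) (nat_lit 404) (nat_lit 322) (nat_lit 294)) (XT.lf (nat_lit 608) (nat_lit 569196523) (nat_lit 0) (nat_lit 515219678) (nat_lit 532) (nat_lit 515219678) (nat_lit 316) (nat_lit 1) (nat_lit 308) (nat_lit 1) (nat_lit 315) (nat_lit 1) (nat_lit 405) (nat_lit 322) (nat_lit 293))) (XT.nd (nat_lit 78) (nat_lit 1064) (nat_lit 0) (XT.lf (nat_lit 76) (nat_lit 173467640) (nat_lit 0) (nat_lit 1232490172) (nat_lit 608) (nat_lit 173467640) (nat_lit 309) (nat_lit 1) (nat_lit 308) (nat_lit 1) (nat_lit 316) (nat_lit 1) (nat_lit 406) (nat_lit 322) (nat_lit 292)) (XT.nd (nat_lit 78) (nat_lit 608) (nat_lit 0) (XT.lf (nat_lit 532) (nat_lit 119064428) (nat_lit 0) (nat_lit 720193655) (nat_lit 456) (nat_lit 720193655) (nat_lit 309) (nat_lit 1) (nat_lit 302) (nat_lit 1) (nat_lit 308) (nat_lit 1)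 (nat_lit 407) (nat_lit 322) (nat_lit 291)) (XT.lf (nat_lit 608) (nat_lit 1437630495) (nat_lit 0) (nat_lit 51167522) (nat_lit 532) (nat_lit 51167522) (nat_lit 302) (nat_lit 1) (nat_lit 294) (nat_lit 1) (nat_lit 301) (nat_lit 1) (nat_lit 408) (nat_lit 322) (nat_lit 290))))) (XT.nd (nat_lit 156) (nat_lit 456) (nat_lit 0) (XT.nd (nat_lit 78) (nat_lit 456) (nat_lit 0) (XT.lf (nat_lit 76) (nat_lit 595874657) (nat_lit 0) (nat_lit 328849670) (nat_lit 608) (nat_lit 595874657) (nat_lit 295) (nat_lit 1) (nat_lit 294) (nat_lit 1) (nat_lit 302) (nat_lit 1) (nat_lit 409) (nat_lit 322) (nat_lit 289)) (XT.lf (nat_lit 532) (nat_lit 949805705) (nat_lit 0) (nat_lit 275948447) (nat_lit 456) (nat_lit 275948447) (nat_lit 295) (nat_lit 1) (nat_lit 288) (nat_lit 1) (nat_lit 294) (nat_lit 1) (nat_lit 410) (nat_lit 322) (nat_lit 288))) (XT.nd (nat_lit 78) (nat_lit 456) (nat_lit 0) (XT.lf (nat_lit 76) (nat_lit 352752490) (nat_lit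 0) (nat_lit 777577711) (nat_lit 532) (nat_lit 352752490) (nat_lit 289) (nat_lit 1) (nat_lit 288) (nat_lit 1) (nat_lit 295) (nat_lit 1) (nat_lit 411) (nat_lit 322) (nat_lit 287)) (XT.nd (nat_lit 78) (nat_lit 0) (nat_lit 0) (XT.lf (nat_lit 532) (nat_lit 460696500) (nat_lit 0) (nat_lit 502043286) (nat_lit 456) (nat_lit 502043286) (nat_lit 289) (nat_lit 1) (nat_lit 282) (nat_lit 1) (nat_lit 288) (nat_lit 1) (nat_lit 412) (nat_lit 322) (nat_lit 286)) (XT.lf (nat_lit 76) (nat_lit 109228505) (nat_lit 0) (nat_lit 1228426586) (nat_lit 532) (nat_lit 109228505) (nat_lit 283) (nat_lit 1) (nat_lit 282) (nat_lit 1) (nat_lit 289) (nat_lit 1) (nat_lit 413) (nat_lit 322) (nat_lit 285))))))) (XT.nd (nat_lit 702) (nat_lit 2052) (nat_lit 0) (XT.nd (nat_lit 312) (nat_lit 1216) (nat_lit 0) (XT.nd (nat_lit 156) (nat_lit 380) (nat_lit 0) (XT.nd (nat_lit 78) (nat_lit 456) (nat_lit 0) (XT.lf (nat_lit 76) (nat_lit 700468725)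 (nat_lit 0) (nat_lit 28208941) (nat_lit 456) (nat_lit 700468725) (nat_lit 277) (nat_lit 1) (nat_lit 276) (nat_lit 1) (nat_lit 282) (nat_lit 1) (nat_lit 414) (nat_lit 322) (nat_lit 284)) (XT.lf (nat_lit 532) (nat_lit 1145915204) (nat_lit 0) (nat_lit 132939799) (nat_lit 456) (nat_lit 132939799) (nat_lit 277) (nat_lit 1) (nat_lit 270) (nat_lit 1) (nat_lit 276) (nat_lit 1) (nat_lit 415) (nat_lit 322) (nat_lit 283))) (XT.nd (nat_lit 78) (nat_lit 380) (nat_lit 0) (XT.lf (nat_lit 76) (nat_lit 443487548) (nat_lit 0) (nat_lit 507643047) (nat_lit 532) (nat_lit 443487548) (nat_lit 271) (nat_lit 1) (nat_lit 270) (nat_lit 1) (nat_lit 277) (nat_lit 1) (nat_lit 416) (nat_lit 322) (nat_lit 282)) (XT.lf (nat_lit 456) (nat_lit 630600041) (nat_lit 0) (nat_lit 373598388) (nat_lit 380) (nat_lit 373598388) (nat_lit 271) (nat_lit 1) (nat_lit 265) (nat_lit 1) (nat_lit 270) (nat_lit 1) (nat_lit 417) (nat_lit 322) (nat_lit 281))))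 (XT.nd (nat_lit 156) (nat_lit 836) (nat_lit 0) (XT.nd (nat_lit 78) (nat_lit 380) (nat_lit 0) (XT.lf (nat_lit 76) (nat_lit 187724327) (nat_lit 0) (nat_lit 985834925) (nat_lit 456) (nat_lit 187724327) (nat_lit 266) (nat_lit 1) (nat_lit 265) (nat_lit 1) (nat_lit 271) (nat_lit 1) (nat_lit 418) (nat_lit 322) (nat_lit 280)) (XT.lf (nat_lit 456) (nat_lit 118063815) (nat_lit 0) (nat_lit 613452995) (nat_lit 380) (nat_lit 613452995) (nat_lit 266) (nat_lit 1) (nat_lit 260) (nat_lit 1) (nat_lit 265) (nat_lit 1) (nat_lit 419) (nat_lit 322) (nat_lit 279))) (XT.nd (nat_lit 78) (nat_lit 380) (nat_lit 0) (XT.lf (nat_lit 456) (nat_lit 1197330579) (nat_lit 0) (nat_lit 65844735) (nat_lit 380) (nat_lit 65844735) (nat_lit 260) (nat_lit 1) (nat_lit 254) (nat_lit 1) (nat_lit 259) (nat_lit 1) (nat_lit 420) (nat_lit 322) (nat_lit 278)) (XT.nd (nat_lit 78) (nat_lit 380) (nat_lit 0) (XT.lf (nat_lit 76) (nat_lit 464857697) (nat_lit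 0) (nat_lit 383441117) (nat_lit 456) (nat_lit 464857697) (nat_lit 255) (nat_lit 1) (nat_lit 254) (nat_lit 1) (nat_lit 260) (nat_lit 1) (nat_lit 421) (nat_lit 322) (nat_lit 277)) (XT.lf (nat_lit 456) (nat_lit 666135601) (nat_lit 0) (nat_lit 315754962) (nat_lit 380) (nat_lit 315754962) (nat_lit 255) (nat_lit 1) (nat_lit 249) (nat_lit 1) (nat_lit 254) (nat_lit 1) (nat_lit 422) (nat_lit 322) (nat_lit 276)))))) (XT.nd (nat_lit 390) (nat_lit 988) (nat_lit 0) (XT.nd (nat_lit 156) (nat_lit 760) (nat_lit 0) (XT.nd (nat_lit 78) (nat_lit 304) (nat_lit 0) (XT.lf (nat_lit 76) (nat_lit 201818743) (nat_lit 0) (nat_lit 878756731) (nat_lit 456) (nat_lit 201818743) (nat_lit 250) (nat_lit 1) (nat_lit 249) (nat_lit 1) (nat_lit 255) (nat_lit 1) (nat_lit 423) (nat_lit 322) (nat_lit 275)) (XT.lf (nat_lit 380) (nat_lit 140169686) (nat_lit 0) (nat_lit 563583252) (nat_lit 304) (nat_lit 563583252) (nat_lit 250) (nat_lit 1) (nat_lit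 245) (nat_lit 1) (nat_lit 249) (nat_lit 1) (nat_lit 424) (nat_lit 322) (nat_lit 274))) (XT.nd (nat_lit 78) (nat_lit 304) (nat_lit 0) (XT.lf (nat_lit 456) (nat_lit 1136743563) (nat_lit 0) (nat_lit 57932467) (nat_lit 380) (nat_lit 57932467) (nat_lit 245) (nat_lit 1) (nat_lit 239) (nat_lit 1) (nat_lit 244) (nat_lit 1) (nat_lit 425) (nat_lit 322) (nat_lit 273)) (XT.nd (nat_lit 78) (nat_lit 304) (nat_lit 0) (XT.lf (nat_lit 76) (nat_lit 432614473) (nat_lit 0) (nat_lit 372713764) (nat_lit 456) (nat_lit 432614473) (nat_lit 240) (nat_lit 1) (nat_lit 239) (nat_lit 1) (nat_lit 245) (nat_lit 1) (nat_lit 426) (nat_lit 322) (nat_lit 272)) (XT.lf (nat_lit 380) (nat_lit 597968467) (nat_lit 0) (nat_lit 312814593) (nat_lit 304) (nat_lit 312814593) (nat_lit 240) (nat_lit 1) (nat_lit 235) (nat_lit 1) (nat_lit 239) (nat_lit 1) (nat_lit 427) (nat_lit 322) (nat_lit 271))))) (XT.nd (nat_lit 156) (nat_lit 684) (nat_lit 0) (XT.nd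 (nat_lit 78) (nat_lit 304) (nat_lit 0) (XT.lf (nat_lit 76) (nat_lit 166285896) (nat_lit 0) (nat_lit 876926179) (nat_lit 380) (nat_lit 166285896) (nat_lit 236) (nat_lit 1) (nat_lit 235) (nat_lit 1) (nat_lit 240) (nat_lit 1) (nat_lit 428) (nat_lit 322) (nat_lit 270)) (XT.lf (nat_lit 380) (nat_lit 66307803) (nat_lit 0) (nat_lit 564625375) (nat_lit 304) (nat_lit 564625375) (nat_lit 236) (nat_lit 1) (nat_lit 231) (nat_lit 1) (nat_lit 235) (nat_lit 1) (nat_lit 429) (nat_lit 322) (nat_lit 269))) (XT.nd (nat_lit 78) (nat_lit 304) (nat_lit 0) (XT.lf (nat_lit 380) (nat_lit 990927545) (nat_lit 0) (nat_lit 95483338) (nat_lit 304) (nat_lit 95483338) (nat_lit 231) (nat_lit 1) (nat_lit 226) (nat_lit 1) (nat_lit 230) (nat_lit 1) (nat_lit 430) (nat_lit 322) (nat_lit 268)) (XT.nd (nat_lit 78) (nat_lit 304) (nat_lit 0) (XT.lf (nat_lit 76) (nat_lit 359653321) (nat_lit 0) (nat_lit 449016911) (nat_lit 380) (nat_lit 359653321)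 (nat_lit 227) (nat_lit 1) (nat_lit 226) (nat_lit 1) (nat_lit 231) (nat_lit 1) (nat_lit 431) (nat_lit 322) (nat_lit 267)) (XT.lf (nat_lit 380) (nat_lit 451194903) (nat_lit 0) (nat_lit 351912514) (nat_lit 304) (nat_lit 351912514) (nat_lit 227) (nat_lit 1) (nat_lit 222) (nat_lit 1) (nat_lit 226) (nat_lit 1) (nat_lit 432) (nat_lit 322) (nat_lit 266))))))))
noncomputable def ec24 : XT := (XT.nd (nat_lit 49686) (nat_lit 0) (nat_lit 6080) (XT.nd (nat_lit 48984) (nat_lit 0) (nat_lit 11324) (XT.nd (nat_lit 48594) (nat_lit 0) (nat_lit 12160) (XT.nd (nat_lit 156) (nat_lit 304) (nat_lit 0) (XT.nd (nat_lit 78) (nat_lit 304) (nat_lit 0) (XT.lf (nat_lit 76) (nat_lit 93212483) (nat_lit 0) (nat_lit 955548711) (nat_lit 380) (nat_lit 93212483) (nat_lit 223) (nat_lit 1) (nat_lit 222) (nat_lit 1) (nat_lit 227) (nat_lit 1) (nat_lit 433) (nat_lit 322) (nat_lit 265)) (XT.lf (nat_lit 76) (nat_lit 525285625) (nat_lit 0) (nat_lit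 78440233) (nat_lit 304) (nat_lit 525285625) (nat_lit 219) (nat_lit 1) (nat_lit 218) (nat_lit 1) (nat_lit 222) (nat_lit 1) (nat_lit 434) (nat_lit 322) (nat_lit 264))) (XT.nd (nat_lit 48360) (nat_lit 0) (nat_lit 12160) (XT.lf (nat_lit 380) (nat_lit 781736438) (nat_lit 0) (nat_lit 167281537) (nat_lit 304) (nat_lit 167281537) (nat_lit 219) (nat_lit 1) (nat_lit 214) (nat_lit 1) (nat_lit 218) (nat_lit 1) (nat_lit 435) (nat_lit 322) (nat_lit 263)) (XT.lf (nat_lit 1292) (nat_lit 225648191) (nat_lit 0) (nat_lit 776334721) (nat_lit 1292) (nat_lit 225648191) (nat_lit 391) (nat_lit 1) (nat_lit 374) (nat_lit 0) (nat_lit 391) (nat_lit 0) (nat_lit 374) (nat_lit 323) (nat_lit 323)))) (XT.nd (nat_lit 156) (nat_lit 0) (nat_lit 76) (XT.nd (nat_lit 78) (nat_lit 0) (nat_lit 76) (XT.lf (nat_lit 1292) (nat_lit 881837086) (nat_lit 76) (nat_lit 768723596) (nat_lit 0) (nat_lit 768723596) (nat_lit 391) (nat_lit 1) (nat_lit 375)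 (nat_lit 1) (nat_lit 374) (nat_lit 0) (nat_lit 375) (nat_lit 323) (nat_lit 322)) (XT.lf (nat_lit 1292) (nat_lit 426477440) (nat_lit 0) (nat_lit 1531145067) (nat_lit 1216) (nat_lit 426477440) (nat_lit 392) (nat_lit 1) (nat_lit 375) (nat_lit 1) (nat_lit 391) (nat_lit 1) (nat_lit 376) (nat_lit 323) (nat_lit 321))) (XT.nd (nat_lit 78) (nat_lit 0) (nat_lit 76) (XT.lf (nat_lit 1292) (nat_lit 809902679) (nat_lit 76) (nat_lit 769800252) (nat_lit 0) (nat_lit 769800252) (nat_lit 392) (nat_lit 1) (nat_lit 376) (nat_lit 1) (nat_lit 375) (nat_lit 1) (nat_lit 377) (nat_lit 323) (nat_lit 320)) (XT.nd (nat_lit 78) (nat_lit 0) (nat_lit 0) (XT.lf (nat_lit 1292) (nat_lit 380042793) (nat_lit 0) (nat_lit 1555594947) (nat_lit 1216) (nat_lit 380042793) (nat_lit 393) (nat_lit 1) (nat_lit 376) (nat_lit 1) (nat_lit 392) (nat_lit 1) (nat_lit 378) (nat_lit 323) (nat_lit 319)) (XT.lf (nat_lit 1292) (nat_lit 696468545) (nat_lit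 76) (nat_lit 792965131) (nat_lit 0) (nat_lit 792965131) (nat_lit 393) (nat_lit 1) (nat_lit 377) (nat_lit 1) (nat_lit 376) (nat_lit 1) (nat_lit 379) (nat_lit 323) (nat_lit 318)))))) (XT.nd (nat_lit 312) (nat_lit 1064) (nat_lit 0) (XT.nd (nat_lit 156) (nat_lit 0) (nat_lit 76) (XT.nd (nat_lit 78) (nat_lit 0) (nat_lit 0) (XT.lf (nat_lit 1292) (nat_lit 313904349) (nat_lit 0) (nat_lit 1622076905) (nat_lit 1216) (nat_lit 313904349) (nat_lit 394) (nat_lit 1) (nat_lit 377) (nat_lit 1) (nat_lit 393) (nat_lit 1) (nat_lit 380) (nat_lit 323) (nat_lit 317)) (XT.lf (nat_lit 1292) (nat_lit 545245941) (nat_lit 76) (nat_lit 836305131) (nat_lit 0) (nat_lit 836305131) (nat_lit 394) (nat_lit 1) (nat_lit 378) (nat_lit 1) (nat_lit 377) (nat_lit 1) (nat_lit 381) (nat_lit 323) (nat_lit 316))) (XT.nd (nat_lit 78) (nat_lit 0) (nat_lit 0) (XT.lf (nat_lit 1292) (nat_lit 229844724) (nat_lit 0) (nat_lit 1726913011) (nat_lit 1216)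 (nat_lit 229844724) (nat_lit 395) (nat_lit 1) (nat_lit 378) (nat_lit 1) (nat_lit 394) (nat_lit 1) (nat_lit 382) (nat_lit 323) (nat_lit 315)) (XT.lf (nat_lit 1292) (nat_lit 359694372) (nat_lit 76) (nat_lit 898035762) (nat_lit 0) (nat_lit 898035762) (nat_lit 395) (nat_lit 1) (nat_lit 379) (nat_lit 1) (nat_lit 378) (nat_lit 1) (nat_lit 383) (nat_lit 323) (nat_lit 314)))) (XT.nd (nat_lit 156) (nat_lit 1216) (nat_lit 0) (XT.nd (nat_lit 78) (nat_lit 0) (nat_lit 0) (XT.lf (nat_lit 1292) (nat_lit 129525221) (nat_lit 0) (nat_lit 1866673315) (nat_lit 1216) (nat_lit 129525221) (nat_lit 396) (nat_lit 1) (nat_lit 379) (nat_lit 1) (nat_lit 395) (nat_lit 1) (nat_lit 384) (nat_lit 323) (nat_lit 313)) (XT.lf (nat_lit 1292) (nat_lit 143037173) (nat_lit 76) (nat_lit 976493215) (nat_lit 0) (nat_lit 976493215) (nat_lit 396) (nat_lit 1) (nat_lit 380) (nat_lit 1) (nat_lit 379) (nat_lit 1) (nat_lit 385) (nat_lit 323) (nat_lit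 312))) (XT.nd (nat_lit 78) (nat_lit 1292) (nat_lit 0) (XT.lf (nat_lit 1292) (nat_lit 14493360) (nat_lit 0) (nat_lit 2038160533) (nat_lit 1216) (nat_lit 14493360) (nat_lit 397) (nat_lit 1) (nat_lit 380) (nat_lit 1) (nat_lit 396) (nat_lit 1) (nat_lit 386) (nat_lit 323) (nat_lit 311)) (XT.nd (nat_lit 78) (nat_lit 0) (nat_lit 0) (XT.lf (nat_lit 1368) (nat_lit 969380892) (nat_lit 0) (nat_lit 99738842) (nat_lit 1292) (nat_lit 969380892) (nat_lit 381) (nat_lit 1) (nat_lit 363) (nat_lit 1) (nat_lit 380) (nat_lit 1) (nat_lit 387) (nat_lit 323) (nat_lit 310)) (XT.lf (nat_lit 1368) (nat_lit 1785255014) (nat_lit 76) (nat_lit 112694280) (nat_lit 0) (nat_lit 112694280) (nat_lit 381) (nat_lit 1) (nat_lit 364) (nat_lit 1) (nat_lit 363) (nat_lit 1) (nat_lit 388) (nat_lit 323) (nat_lit 309))))))) (XT.nd (nat_lit 702) (nat_lit 3344) (nat_lit 0) (XT.nd (nat_lit 312) (nat_lit 1216) (nat_lit 0) (XT.nd (nat_lit 156) (nat_lit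 760) (nat_lit 0) (XT.nd (nat_lit 78) (nat_lit 0) (nat_lit 0) (XT.lf (nat_lit 1368) (nat_lit 809271760) (nat_lit 0) (nat_lit 364539543) (nat_lit 1292) (nat_lit 809271760) (nat_lit 382) (nat_lit 1) (nat_lit 364) (nat_lit 1) (nat_lit 381) (nat_lit 1) (nat_lit 389) (nat_lit 323) (nat_lit 308)) (XT.lf (nat_lit 1368) (nat_lit 1453113786) (nat_lit 76) (nat_lit 251553703) (nat_lit 0) (nat_lit 251553703) (nat_lit 382) (nat_lit 1) (nat_lit 365) (nat_lit 1) (nat_lit 364) (nat_lit 1) (nat_lit 390) (nat_lit 323) (nat_lit 307))) (XT.nd (nat_lit 78) (nat_lit 836) (nat_lit 0) (XT.lf (nat_lit 76) (nat_lit 639057563) (nat_lit 0) (nat_lit 651607531) (nat_lit 1292) (nat_lit 639057563) (nat_lit 366) (nat_lit 1) (nat_lit 365) (nat_lit 1) (nat_lit 382) (nat_lit 1) (nat_lit 391) (nat_lit 323) (nat_lit 306)) (XT.lf (nat_lit 912) (nat_lit 1101825208) (nat_lit 0) (nat_lit 400992325) (nat_lit 836) (nat_lit 400992325) (nat_lit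 366) (nat_lit 1) (nat_lit 354) (nat_lit 1) (nat_lit 365) (nat_lit 1) (nat_lit 392) (nat_lit 323) (nat_lit 305)))) (XT.nd (nat_lit 156) (nat_lit 608) (nat_lit 0) (XT.nd (nat_lit 78) (nat_lit 608) (nat_lit 0) (XT.lf (nat_lit 76) (nat_lit 459880393) (nat_lit 0) (nat_lit 958573273) (nat_lit 912) (nat_lit 459880393) (nat_lit 355) (nat_lit 1) (nat_lit 354) (nat_lit 1) (nat_lit 366) (nat_lit 1) (nat_lit 393) (nat_lit 323) (nat_lit 304)) (XT.lf (nat_lit 684) (nat_lit 733601434) (nat_lit 0) (nat_lit 559862558) (nat_lit 608) (nat_lit 559862558) (nat_lit 355) (nat_lit 1) (nat_lit 346) (nat_lit 1) (nat_lit 354) (nat_lit 1) (nat_lit 394) (nat_lit 323) (nat_lit 303))) (XT.nd (nat_lit 78) (nat_lit 608) (nat_lit 0) (XT.lf (nat_lit 76) (nat_lit 272800409) (nat_lit 0) (nat_lit 1283235044) (nat_lit 684) (nat_lit 272800409) (nat_lit 347) (nat_lit 1) (nat_lit 346) (nat_lit 1) (nat_lit 355) (nat_lit 1) (nat_lit 395) (nat_lit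 323) (nat_lit 302)) (XT.nd (nat_lit 78) (nat_lit 0) (nat_lit 0) (XT.lf (nat_lit 684) (nat_lit 350495214) (nat_lit 0) (nat_lit 727098426) (nat_lit 608) (nat_lit 727098426) (nat_lit 347) (nat_lit 1) (nat_lit 338) (nat_lit 1) (nat_lit 346) (nat_lit 1) (nat_lit 396) (nat_lit 323) (nat_lit 301)) (XT.lf (nat_lit 76) (nat_lit 78801023) (nat_lit 0) (nat_lit 1623548364) (nat_lit 684) (nat_lit 78801023) (nat_lit 339) (nat_lit 1) (nat_lit 338) (nat_lit 1) (nat_lit 347) (nat_lit 1) (nat_lit 397) (nat_lit 323) (nat_lit 300)))))) (XT.nd (nat_lit 390) (nat_lit 1596) (nat_lit 0) (XT.nd (nat_lit 156) (nat_lit 532) (nat_lit 0) (XT.nd (nat_lit 78) (nat_lit 608) (nat_lit 0) (XT.lf (nat_lit 76) (nat_lit 856558647) (nat_lit 0) (nat_lit 44700388) (nat_lit 608) (nat_lit 856558647) (nat_lit 331) (nat_lit 1) (nat_lit 330) (nat_lit 1) (nat_lit 338) (nat_lit 1) (nat_lit 398) (nat_lit 323) (nat_lit 299)) (XT.lf (nat_lit 684) (nat_lit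 1495027208) (nat_lit 0) (nat_lit 120017939) (nat_lit 608) (nat_lit 120017939) (nat_lit 331) (nat_lit 1) (nat_lit 322) (nat_lit 1) (nat_lit 330) (nat_lit 1) (nat_lit 399) (nat_lit 323) (nat_lit 298))) (XT.nd (nat_lit 78) (nat_lit 532) (nat_lit 0) (XT.lf (nat_lit 76) (nat_lit 634243505) (nat_lit 0) (nat_lit 444053103) (nat_lit 684) (nat_lit 634243505) (nat_lit 323) (nat_lit 1) (nat_lit 322) (nat_lit 1) (nat_lit 331) (nat_lit 1) (nat_lit 400) (nat_lit 323) (nat_lit 297)) (XT.nd (nat_lit 78) (nat_lit 0) (nat_lit 0) (XT.lf (nat_lit 608) (nat_lit 1044191610) (nat_lit 0) (nat_lit 323177370) (nat_lit 532) (nat_lit 323177370) (nat_lit 323) (nat_lit 1) (nat_lit 315) (nat_lit 1) (nat_lit 322) (nat_lit 1) (nat_lit 401) (nat_lit 323) (nat_lit 296)) (XT.lf (nat_lit 76) (nat_lit 408045277) (nat_lit 0) (nat_lit 852801505) (nat_lit 608) (nat_lit 408045277) (nat_lit 316) (nat_lit 1) (nat_lit 315) (nat_lit 1) (nat_lit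 323) (nat_lit 1) (nat_lit 402) (nat_lit 323) (nat_lit 295))))) (XT.nd (nat_lit 156) (nat_lit 1064) (nat_lit 0) (XT.nd (nat_lit 78) (nat_lit 0) (nat_lit 0) (XT.lf (nat_lit 608) (nat_lit 586272418) (nat_lit 0) (nat_lit 530676268) (nat_lit 532) (nat_lit 530676268) (nat_lit 316) (nat_lit 1) (nat_lit 308) (nat_lit 1) (nat_lit 315) (nat_lit 1) (nat_lit 403) (nat_lit 323) (nat_lit 294)) (XT.lf (nat_lit 76) (nat_lit 178671669) (nat_lit 0) (nat_lit 1269464877) (nat_lit 608) (nat_lit 178671669) (nat_lit 309) (nat_lit 1) (nat_lit 308) (nat_lit 1) (nat_lit 316) (nat_lit 1) (nat_lit 404) (nat_lit 323) (nat_lit 293))) (XT.nd (nat_lit 78) (nat_lit 608) (nat_lit 0) (XT.lf (nat_lit 532) (nat_lit 122636361) (nat_lit 0) (nat_lit 741799465) (nat_lit 456) (nat_lit 741799465) (nat_lit 309) (nat_lit 1) (nat_lit 302) (nat_lit 1) (nat_lit 308) (nat_lit 1) (nat_lit 405) (nat_lit 323) (nat_lit 292)) (XT.nd (nat_lit 78) (nat_lit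 0) (nat_lit 0) (XT.lf (nat_lit 608) (nat_lit 1480759410) (nat_lit 0) (nat_lit 52702548) (nat_lit 532) (nat_lit 52702548) (nat_lit 302) (nat_lit 1) (nat_lit 294) (nat_lit 1) (nat_lit 301) (nat_lit 1) (nat_lit 406) (nat_lit 323) (nat_lit 291)) (XT.lf (nat_lit 76) (nat_lit 613750897) (nat_lit 0) (nat_lit 338715160) (nat_lit 608) (nat_lit 613750897) (nat_lit 295) (nat_lit 1) (nat_lit 294) (nat_lit 1) (nat_lit 302) (nat_lit 1) (nat_lit 407) (nat_lit 323) (nat_lit 290))))))))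
noncomputable def ec25 : XT := (XT.nd (nat_lit 1482) (nat_lit 1824) (nat_lit 0) (XT.nd (nat_lit 702) (nat_lit 2280) (nat_lit 0) (XT.nd (nat_lit 312) (nat_lit 1292) (nat_lit 0) (XT.nd (nat_lit 156) (nat_lit 456) (nat_lit 0) (XT.nd (nat_lit 78) (nat_lit 0) (nat_lit 0) (XT.lf (nat_lit 532) (nat_lit 978299876) (nat_lit 0) (nat_lit 284226900) (nat_lit 456) (nat_lit 284226900) (nat_lit 295) (nat_lit 1) (nat_lit 288) (nat_lit 1) (nat_lit 294) (nat_lit 1) (nat_lit 408) (nat_lit 323) (nat_lit 289)) (XT.lf (nat_lit 76) (nat_lit 363335065) (nat_lit 0) (nat_lit 800905043) (nat_lit 532) (nat_lit 363335065) (nat_lit 289) (nat_lit 1) (nat_lit 288) (nat_lit 1) (nat_lit 295) (nat_lit 1) (nat_lit 409) (nat_lit 323) (nat_lit 288))) (XT.nd (nat_lit 78) (nat_lit 0) (nat_lit 0) (XT.lf (nat_lit 532) (nat_lit 474517395) (nat_lit 0) (nat_lit 517104585) (nat_lit 456) (nat_lit 517104585) (nat_lit 289) (nat_lit 1) (nat_lit 282)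 (nat_lit 1) (nat_lit 288) (nat_lit 1) (nat_lit 410) (nat_lit 323) (nat_lit 287)) (XT.lf (nat_lit 76) (nat_lit 112505361) (nat_lit 0) (nat_lit 1265279384) (nat_lit 532) (nat_lit 112505361) (nat_lit 283) (nat_lit 1) (nat_lit 282) (nat_lit 1) (nat_lit 289) (nat_lit 1) (nat_lit 411) (nat_lit 323) (nat_lit 286)))) (XT.nd (nat_lit 156) (nat_lit 380) (nat_lit 0) (XT.nd (nat_lit 78) (nat_lit 456) (nat_lit 0) (XT.lf (nat_lit 76) (nat_lit 721482786) (nat_lit 0) (nat_lit 29055210) (nat_lit 456) (nat_lit 721482786) (nat_lit 277) (nat_lit 1) (nat_lit 276) (nat_lit 1) (nat_lit 282) (nat_lit 1) (nat_lit 412) (nat_lit 323) (nat_lit 285)) (XT.lf (nat_lit 532) (nat_lit 1180292661) (nat_lit 0) (nat_lit 136927993) (nat_lit 456) (nat_lit 136927993) (nat_lit 277) (nat_lit 1) (nat_lit 270) (nat_lit 1) (nat_lit 276) (nat_lit 1) (nat_lit 413) (nat_lit 323) (nat_lit 284))) (XT.nd (nat_lit 78) (nat_lit 380) (nat_lit 0) (XT.lf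 (nat_lit 76) (nat_lit 456792174) (nat_lit 0) (nat_lit 522872338) (nat_lit 532) (nat_lit 456792174) (nat_lit 271) (nat_lit 1) (nat_lit 270) (nat_lit 1) (nat_lit 277) (nat_lit 1) (nat_lit 414) (nat_lit 323) (nat_lit 283)) (XT.nd (nat_lit 78) (nat_lit 0) (nat_lit 0) (XT.lf (nat_lit 456) (nat_lit 649518042) (nat_lit 0) (nat_lit 384806339) (nat_lit 380) (nat_lit 384806339) (nat_lit 271) (nat_lit 1) (nat_lit 265) (nat_lit 1) (nat_lit 270) (nat_lit 1) (nat_lit 415) (nat_lit 323) (nat_lit 282)) (XT.lf (nat_lit 76) (nat_lit 193356057) (nat_lit 0) (nat_lit 1015409973) (nat_lit 456) (nat_lit 193356057) (nat_lit 266) (nat_lit 1) (nat_lit 265) (nat_lit 1) (nat_lit 271) (nat_lit 1) (nat_lit 416) (nat_lit 323) (nat_lit 281)))))) (XT.nd (nat_lit 390) (nat_lit 1064) (nat_lit 0) (XT.nd (nat_lit 156) (nat_lit 380) (nat_lit 0) (XT.nd (nat_lit 78) (nat_lit 456) (nat_lit 0) (XT.lf (nat_lit 456) (nat_lit 121605729) (nat_lit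 0) (nat_lit 631856585) (nat_lit 380) (nat_lit 631856585) (nat_lit 266) (nat_lit 1) (nat_lit 260) (nat_lit 1) (nat_lit 265) (nat_lit 1) (nat_lit 417) (nat_lit 323) (nat_lit 280)) (XT.lf (nat_lit 456) (nat_lit 1233250497) (nat_lit 0) (nat_lit 67820078) (nat_lit 380) (nat_lit 67820078) (nat_lit 260) (nat_lit 1) (nat_lit 254) (nat_lit 1) (nat_lit 259) (nat_lit 1) (nat_lit 418) (nat_lit 323) (nat_lit 279))) (XT.nd (nat_lit 78) (nat_lit 380) (nat_lit 0) (XT.lf (nat_lit 76) (nat_lit 478803428) (nat_lit 0) (nat_lit 394944350) (nat_lit 456) (nat_lit 478803428) (nat_lit 255) (nat_lit 1) (nat_lit 254) (nat_lit 1) (nat_lit 260) (nat_lit 1) (nat_lit 419) (nat_lit 323) (nat_lit 278)) (XT.nd (nat_lit 78) (nat_lit 0) (nat_lit 0) (XT.lf (nat_lit 456) (nat_lit 686119669) (nat_lit 0) (nat_lit 325227611) (nat_lit 380) (nat_lit 325227611) (nat_lit 255) (nat_lit 1) (nat_lit 249) (nat_lit 1) (nat_lit 254) (nat_lit 1) (nat_lit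 420) (nat_lit 323) (nat_lit 277)) (XT.lf (nat_lit 76) (nat_lit 207873305) (nat_lit 0) (nat_lit 905119433) (nat_lit 456) (nat_lit 207873305) (nat_lit 250) (nat_lit 1) (nat_lit 249) (nat_lit 1) (nat_lit 255) (nat_lit 1) (nat_lit 421) (nat_lit 323) (nat_lit 276))))) (XT.nd (nat_lit 156) (nat_lit 304) (nat_lit 0) (XT.nd (nat_lit 78) (nat_lit 456) (nat_lit 0) (XT.lf (nat_lit 380) (nat_lit 144374777) (nat_lit 0) (nat_lit 580490750) (nat_lit 304) (nat_lit 580490750) (nat_lit 250) (nat_lit 1) (nat_lit 245) (nat_lit 1) (nat_lit 249) (nat_lit 1) (nat_lit 422) (nat_lit 323) (nat_lit 275)) (XT.lf (nat_lit 456) (nat_lit 1170845870) (nat_lit 0) (nat_lit 59670441) (nat_lit 380) (nat_lit 59670441) (nat_lit 245) (nat_lit 1) (nat_lit 239) (nat_lit 1) (nat_lit 244) (nat_lit 1) (nat_lit 423) (nat_lit 323) (nat_lit 274))) (XT.nd (nat_lit 78) (nat_lit 304) (nat_lit 0) (XT.lf (nat_lit 76) (nat_lit 445592907) (nat_lit 0) (nat_lit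 383895177) (nat_lit 456) (nat_lit 445592907) (nat_lit 240) (nat_lit 1) (nat_lit 239) (nat_lit 1) (nat_lit 245) (nat_lit 1) (nat_lit 424) (nat_lit 323) (nat_lit 273)) (XT.nd (nat_lit 78) (nat_lit 0) (nat_lit 0) (XT.lf (nat_lit 380) (nat_lit 615907521) (nat_lit 0) (nat_lit 322199031) (nat_lit 304) (nat_lit 322199031) (nat_lit 240) (nat_lit 1) (nat_lit 235) (nat_lit 1) (nat_lit 239) (nat_lit 1) (nat_lit 425) (nat_lit 323) (nat_lit 272)) (XT.lf (nat_lit 76) (nat_lit 171274473) (nat_lit 0) (nat_lit 903233964) (nat_lit 380) (nat_lit 171274473) (nat_lit 236) (nat_lit 1) (nat_lit 235) (nat_lit 1) (nat_lit 240) (nat_lit 1) (nat_lit 426) (nat_lit 323) (nat_lit 271))))))) (XT.nd (nat_lit 48828) (nat_lit 0) (nat_lit 12388) (XT.nd (nat_lit 312) (nat_lit 836) (nat_lit 0) (XT.nd (nat_lit 156) (nat_lit 304) (nat_lit 0) (XT.nd (nat_lit 78) (nat_lit 380) (nat_lit 0) (XT.lf (nat_lit 380) (nat_lit 68297038) (nat_lit 0)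 (nat_lit 581564136) (nat_lit 304) (nat_lit 581564136) (nat_lit 236) (nat_lit 1) (nat_lit 231) (nat_lit 1) (nat_lit 235) (nat_lit 1) (nat_lit 427) (nat_lit 323) (nat_lit 270)) (XT.lf (nat_lit 380) (nat_lit 1020655372) (nat_lit 0) (nat_lit 98347838) (nat_lit 304) (nat_lit 98347838) (nat_lit 231) (nat_lit 1) (nat_lit 226) (nat_lit 1) (nat_lit 230) (nat_lit 1) (nat_lit 428) (nat_lit 323) (nat_lit 269))) (XT.nd (nat_lit 78) (nat_lit 304) (nat_lit 0) (XT.lf (nat_lit 76) (nat_lit 370442921) (nat_lit 0) (nat_lit 462487418) (nat_lit 380) (nat_lit 370442921) (nat_lit 227) (nat_lit 1) (nat_lit 226) (nat_lit 1) (nat_lit 231) (nat_lit 1) (nat_lit 429) (nat_lit 323) (nat_lit 268)) (XT.lf (nat_lit 380) (nat_lit 464730751) (nat_lit 0) (nat_lit 362469889) (nat_lit 304) (nat_lit 362469889) (nat_lit 227) (nat_lit 1) (nat_lit 222) (nat_lit 1) (nat_lit 226) (nat_lit 1) (nat_lit 430) (nat_lit 323) (nat_lit 267)))) (XT.nd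 (nat_lit 156) (nat_lit 532) (nat_lit 0) (XT.nd (nat_lit 78) (nat_lit 304) (nat_lit 0) (XT.lf (nat_lit 76) (nat_lit 96008858) (nat_lit 0) (nat_lit 984215172) (nat_lit 380) (nat_lit 96008858) (nat_lit 223) (nat_lit 1) (nat_lit 222) (nat_lit 1) (nat_lit 227) (nat_lit 1) (nat_lit 431) (nat_lit 323) (nat_lit 266)) (XT.lf (nat_lit 76) (nat_lit 541044194) (nat_lit 0) (nat_lit 80793440) (nat_lit 304) (nat_lit 541044194) (nat_lit 219) (nat_lit 1) (nat_lit 218) (nat_lit 1) (nat_lit 222) (nat_lit 1) (nat_lit 432) (nat_lit 323) (nat_lit 265))) (XT.nd (nat_lit 78) (nat_lit 228) (nat_lit 0) (XT.lf (nat_lit 380) (nat_lit 805188532) (nat_lit 0) (nat_lit 172299983) (nat_lit 304) (nat_lit 172299983) (nat_lit 219) (nat_lit 1) (nat_lit 214) (nat_lit 1) (nat_lit 218) (nat_lit 1) (nat_lit 433) (nat_lit 323) (nat_lit 264)) (XT.nd (nat_lit 78) (nat_lit 228) (nat_lit 0) (XT.lf (nat_lit 76) (nat_lit 264190778) (nat_lit 0) (nat_lit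 608462773) (nat_lit 380) (nat_lit 264190778) (nat_lit 215) (nat_lit 1) (nat_lit 214) (nat_lit 1) (nat_lit 219) (nat_lit 1) (nat_lit 434) (nat_lit 323) (nat_lit 263)) (XT.lf (nat_lit 304) (nat_lit 253671597) (nat_lit 0) (nat_lit 435215915) (nat_lit 228) (nat_lit 435215915) (nat_lit 215) (nat_lit 1) (nat_lit 211) (nat_lit 1) (nat_lit 214) (nat_lit 1) (nat_lit 435) (nat_lit 323) (nat_lit 262)))))) (XT.nd (nat_lit 390) (nat_lit 0) (nat_lit 152) (XT.nd (nat_lit 156) (nat_lit 0) (nat_lit 76) (XT.nd (nat_lit 78) (nat_lit 0) (nat_lit 0) (XT.lf (nat_lit 1292) (nat_lit 232417637) (nat_lit 0) (nat_lit 799624762) (nat_lit 1292) (nat_lit 232417637) (nat_lit 391) (nat_lit 1) (nat_lit 374) (nat_lit 0) (nat_lit 391) (nat_lit 0) (nat_lit 372) (nat_lit 324) (nat_lit 324)) (XT.lf (nat_lit 1292) (nat_lit 908292199) (nat_lit 76) (nat_lit 791785304) (nat_lit 0) (nat_lit 791785304) (nat_lit 391) (nat_lit 1) (nat_lit 375)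 (nat_lit 1) (nat_lit 374) (nat_lit 0) (nat_lit 373) (nat_lit 324) (nat_lit 323))) (XT.nd (nat_lit 78) (nat_lit 0) (nat_lit 0) (XT.lf (nat_lit 1292) (nat_lit 439271763) (nat_lit 0) (nat_lit 1577079419) (nat_lit 1216) (nat_lit 439271763) (nat_lit 392) (nat_lit 1) (nat_lit 375) (nat_lit 1) (nat_lit 391) (nat_lit 1) (nat_lit 374) (nat_lit 324) (nat_lit 322)) (XT.nd (nat_lit 78) (nat_lit 0) (nat_lit 76) (XT.lf (nat_lit 1292) (nat_lit 834199759) (nat_lit 76) (nat_lit 792894260) (nat_lit 0) (nat_lit 792894260) (nat_lit 392) (nat_lit 1) (nat_lit 376) (nat_lit 1) (nat_lit 375) (nat_lit 1) (nat_lit 375) (nat_lit 324) (nat_lit 321)) (XT.lf (nat_lit 1292) (nat_lit 391444076) (nat_lit 0) (nat_lit 1602262796) (nat_lit 1216) (nat_lit 391444076) (nat_lit 393) (nat_lit 1) (nat_lit 376) (nat_lit 1) (nat_lit 392) (nat_lit 1) (nat_lit 376) (nat_lit 324) (nat_lit 320))))) (XT.nd (nat_lit 156) (nat_lit 0) (nat_lit 76) (XT.nd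 (nat_lit 78) (nat_lit 0) (nat_lit 76) (XT.lf (nat_lit 1292) (nat_lit 717362601) (nat_lit 76) (nat_lit 816754084) (nat_lit 0) (nat_lit 816754084) (nat_lit 393) (nat_lit 1) (nat_lit 377) (nat_lit 1) (nat_lit 376) (nat_lit 1) (nat_lit 377) (nat_lit 324) (nat_lit 319)) (XT.lf (nat_lit 1292) (nat_lit 323321480) (nat_lit 0) (nat_lit 1670739212) (nat_lit 1216) (nat_lit 323321480) (nat_lit 394) (nat_lit 1) (nat_lit 377) (nat_lit 1) (nat_lit 393) (nat_lit 1) (nat_lit 378) (nat_lit 324) (nat_lit 318))) (XT.nd (nat_lit 78) (nat_lit 0) (nat_lit 76) (XT.lf (nat_lit 1292) (nat_lit 561603319) (nat_lit 76) (nat_lit 861394285) (nat_lit 0) (nat_lit 861394285) (nat_lit 394) (nat_lit 1) (nat_lit 378) (nat_lit 1) (nat_lit 377) (nat_lit 1) (nat_lit 379) (nat_lit 324) (nat_lit 317)) (XT.nd (nat_lit 78) (nat_lit 0) (nat_lit 0) (XT.lf (nat_lit 1292) (nat_lit 236740065) (nat_lit 0) (nat_lit 1778720401) (nat_lit 1216) (nat_lit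 236740065) (nat_lit 395) (nat_lit 1) (nat_lit 378) (nat_lit 1) (nat_lit 394) (nat_lit 1) (nat_lit 380) (nat_lit 324) (nat_lit 316)) (XT.lf (nat_lit 1292) (nat_lit 370485203) (nat_lit 76) (nat_lit 924976835) (nat_lit 0) (nat_lit 924976835) (nat_lit 395) (nat_lit 1) (nat_lit 379) (nat_lit 1) (nat_lit 378) (nat_lit 1) (nat_lit 381) (nat_lit 324) (nat_lit 315))))))))
noncomputable def ec26 : XT := (XT.nd (nat_lit 1482) (nat_lit 5016) (nat_lit 0) (XT.nd (nat_lit 702) (nat_lit 2964) (nat_lit 0) (XT.nd (nat_lit 312) (nat_lit 684) (nat_lit 0) (XT.nd (nat_lit 156) (nat_lit 1216) (nat_lit 0) (XT.nd (nat_lit 78) (nat_lit 0) (nat_lit 0) (XT.lf (nat_lit 1292) (nat_lit 133410978) (nat_lit 0) (nat_lit 1922673514) (nat_lit 1216) (nat_lit 133410978) (nat_lit 396) (nat_lit 1) (nat_lit 379) (nat_lit 1) (nat_lit 395) (nat_lit 1) (nat_lit 382) (nat_lit 324) (nat_lit 314)) (XT.lf (nat_lit 1292) (nat_lit 147328288) (nat_lit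 76) (nat_lit 1005788011) (nat_lit 0) (nat_lit 1005788011) (nat_lit 396) (nat_lit 1) (nat_lit 380) (nat_lit 1) (nat_lit 379) (nat_lit 1) (nat_lit 383) (nat_lit 324) (nat_lit 313))) (XT.nd (nat_lit 78) (nat_lit 1292) (nat_lit 0) (XT.lf (nat_lit 1292) (nat_lit 14928161) (nat_lit 0) (nat_lit 2099305349) (nat_lit 1216) (nat_lit 14928161) (nat_lit 397) (nat_lit 1) (nat_lit 380) (nat_lit 1) (nat_lit 396) (nat_lit 1) (nat_lit 384) (nat_lit 324) (nat_lit 312)) (XT.lf (nat_lit 1368) (nat_lit 998462319) (nat_lit 0) (nat_lit 102731007) (nat_lit 1292) (nat_lit 998462319) (nat_lit 381) (nat_lit 1) (nat_lit 363) (nat_lit 1) (nat_lit 380) (nat_lit 1) (nat_lit 385) (nat_lit 324) (nat_lit 311)))) (XT.nd (nat_lit 156) (nat_lit 684) (nat_lit 0) (XT.nd (nat_lit 78) (nat_lit 0) (nat_lit 76) (XT.lf (nat_lit 1368) (nat_lit 1838812664) (nat_lit 76) (nat_lit 116075109) (nat_lit 0) (nat_lit 116075109) (nat_lit 381) (nat_lit 1)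 (nat_lit 364) (nat_lit 1) (nat_lit 363) (nat_lit 1) (nat_lit 386) (nat_lit 324) (nat_lit 310)) (XT.lf (nat_lit 1368) (nat_lit 833549913) (nat_lit 0) (nat_lit 375475729) (nat_lit 1292) (nat_lit 833549913) (nat_lit 382) (nat_lit 1) (nat_lit 364) (nat_lit 1) (nat_lit 381) (nat_lit 1) (nat_lit 387) (nat_lit 324) (nat_lit 309))) (XT.nd (nat_lit 78) (nat_lit 760) (nat_lit 0) (XT.lf (nat_lit 1368) (nat_lit 1496707200) (nat_lit 76) (nat_lit 259100314) (nat_lit 0) (nat_lit 259100314) (nat_lit 382) (nat_lit 1) (nat_lit 365) (nat_lit 1) (nat_lit 364) (nat_lit 1) (nat_lit 388) (nat_lit 324) (nat_lit 308)) (XT.nd (nat_lit 78) (nat_lit 836) (nat_lit 0) (XT.lf (nat_lit 76) (nat_lit 658229290) (nat_lit 0) (nat_lit 671155757) (nat_lit 1292) (nat_lit 658229290) (nat_lit 366) (nat_lit 1) (nat_lit 365) (nat_lit 1) (nat_lit 382) (nat_lit 1) (nat_lit 389) (nat_lit 324) (nat_lit 307)) (XT.lf (nat_lit 912) (nat_lit 1134879964)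 (nat_lit 0) (nat_lit 413022095) (nat_lit 836) (nat_lit 413022095) (nat_lit 366) (nat_lit 1) (nat_lit 354) (nat_lit 1) (nat_lit 365) (nat_lit 1) (nat_lit 390) (nat_lit 324) (nat_lit 306)))))) (XT.nd (nat_lit 390) (nat_lit 1748) (nat_lit 0) (XT.nd (nat_lit 156) (nat_lit 608) (nat_lit 0) (XT.nd (nat_lit 78) (nat_lit 608) (nat_lit 0) (XT.lf (nat_lit 76) (nat_lit 473676805) (nat_lit 0) (nat_lit 987330471) (nat_lit 912) (nat_lit 473676805) (nat_lit 355) (nat_lit 1) (nat_lit 354) (nat_lit 1) (nat_lit 366) (nat_lit 1) (nat_lit 391) (nat_lit 324) (nat_lit 305)) (XT.lf (nat_lit 684) (nat_lit 755609477) (nat_lit 0) (nat_lit 576658435) (nat_lit 608) (nat_lit 576658435) (nat_lit 355) (nat_lit 1) (nat_lit 346) (nat_lit 1) (nat_lit 354) (nat_lit 1) (nat_lit 392) (nat_lit 324) (nat_lit 304))) (XT.nd (nat_lit 78) (nat_lit 608) (nat_lit 0) (XT.lf (nat_lit 76) (nat_lit 280984421) (nat_lit 0) (nat_lit 1321732095) (nat_lit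 684) (nat_lit 280984421) (nat_lit 347) (nat_lit 1) (nat_lit 346) (nat_lit 1) (nat_lit 355) (nat_lit 1) (nat_lit 393) (nat_lit 324) (nat_lit 303)) (XT.nd (nat_lit 78) (nat_lit 0) (nat_lit 0) (XT.lf (nat_lit 684) (nat_lit 361010070) (nat_lit 0) (nat_lit 748911378) (nat_lit 608) (nat_lit 748911378) (nat_lit 347) (nat_lit 1) (nat_lit 338) (nat_lit 1) (nat_lit 346) (nat_lit 1) (nat_lit 394) (nat_lit 324) (nat_lit 302)) (XT.lf (nat_lit 76) (nat_lit 81165054) (nat_lit 0) (nat_lit 1672254815) (nat_lit 684) (nat_lit 81165054) (nat_lit 339) (nat_lit 1) (nat_lit 338) (nat_lit 1) (nat_lit 347) (nat_lit 1) (nat_lit 395) (nat_lit 324) (nat_lit 301))))) (XT.nd (nat_lit 156) (nat_lit 532) (nat_lit 0) (XT.nd (nat_lit 78) (nat_lit 608) (nat_lit 0) (XT.lf (nat_lit 76) (nat_lit 882255407) (nat_lit 0) (nat_lit 46041399) (nat_lit 608) (nat_lit 882255407) (nat_lit 331) (nat_lit 1) (nat_lit 330) (nat_lit 1) (nat_lit 338) (nat_lit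 1) (nat_lit 396) (nat_lit 324) (nat_lit 300)) (XT.lf (nat_lit 684) (nat_lit 1539878025) (nat_lit 0) (nat_lit 123618477) (nat_lit 608) (nat_lit 123618477) (nat_lit 331) (nat_lit 1) (nat_lit 322) (nat_lit 1) (nat_lit 330) (nat_lit 1) (nat_lit 397) (nat_lit 324) (nat_lit 299))) (XT.nd (nat_lit 78) (nat_lit 532) (nat_lit 0) (XT.lf (nat_lit 76) (nat_lit 653270810) (nat_lit 0) (nat_lit 457374696) (nat_lit 684) (nat_lit 653270810) (nat_lit 323) (nat_lit 1) (nat_lit 322) (nat_lit 1) (nat_lit 331) (nat_lit 1) (nat_lit 398) (nat_lit 324) (nat_lit 298)) (XT.nd (nat_lit 78) (nat_lit 0) (nat_lit 0) (XT.lf (nat_lit 608) (nat_lit 1075517358) (nat_lit 0) (nat_lit 332872691) (nat_lit 532) (nat_lit 332872691) (nat_lit 323) (nat_lit 1) (nat_lit 315) (nat_lit 1) (nat_lit 322) (nat_lit 1) (nat_lit 399) (nat_lit 324) (nat_lit 297)) (XT.lf (nat_lit 76) (nat_lit 420286635) (nat_lit 0) (nat_lit 878385550) (nat_lit 608) (nat_lit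 420286635) (nat_lit 316) (nat_lit 1) (nat_lit 315) (nat_lit 1) (nat_lit 323) (nat_lit 1) (nat_lit 400) (nat_lit 324) (nat_lit 296))))))) (XT.nd (nat_lit 702) (nat_lit 2508) (nat_lit 0) (XT.nd (nat_lit 312) (nat_lit 912) (nat_lit 0) (XT.nd (nat_lit 156) (nat_lit 1064) (nat_lit 0) (XT.nd (nat_lit 78) (nat_lit 0) (nat_lit 0) (XT.lf (nat_lit 608) (nat_lit 603860591) (nat_lit 0) (nat_lit 546596557) (nat_lit 532) (nat_lit 546596557) (nat_lit 316) (nat_lit 1) (nat_lit 308) (nat_lit 1) (nat_lit 315) (nat_lit 1) (nat_lit 401) (nat_lit 324) (nat_lit 295)) (XT.lf (nat_lit 76) (nat_lit 184031819) (nat_lit 0) (nat_lit 1307548824) (nat_lit 608) (nat_lit 184031819) (nat_lit 309) (nat_lit 1) (nat_lit 308) (nat_lit 1) (nat_lit 316) (nat_lit 1) (nat_lit 402) (nat_lit 324) (nat_lit 294))) (XT.nd (nat_lit 78) (nat_lit 608) (nat_lit 0) (XT.lf (nat_lit 532) (nat_lit 126315452) (nat_lit 0) (nat_lit 764053449) (nat_lit 456)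 (nat_lit 764053449) (nat_lit 309) (nat_lit 1) (nat_lit 302) (nat_lit 1) (nat_lit 308) (nat_lit 1) (nat_lit 403) (nat_lit 324) (nat_lit 293)) (XT.lf (nat_lit 608) (nat_lit 1525182192) (nat_lit 0) (nat_lit 54283625) (nat_lit 532) (nat_lit 54283625) (nat_lit 302) (nat_lit 1) (nat_lit 294) (nat_lit 1) (nat_lit 301) (nat_lit 1) (nat_lit 404) (nat_lit 324) (nat_lit 292)))) (XT.nd (nat_lit 156) (nat_lit 456) (nat_lit 0) (XT.nd (nat_lit 78) (nat_lit 456) (nat_lit 0) (XT.lf (nat_lit 76) (nat_lit 632163424) (nat_lit 0) (nat_lit 348876615) (nat_lit 608) (nat_lit 632163424) (nat_lit 295) (nat_lit 1) (nat_lit 294) (nat_lit 1) (nat_lit 302) (nat_lit 1) (nat_lit 405) (nat_lit 324) (nat_lit 291)) (XT.lf (nat_lit 532) (nat_lit 1007648873) (nat_lit 0) (nat_lit 292753707) (nat_lit 456) (nat_lit 292753707) (nat_lit 295) (nat_lit 1) (nat_lit 288) (nat_lit 1) (nat_lit 294) (nat_lit 1) (nat_lit 406) (nat_lit 324) (nat_lit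 290))) (XT.nd (nat_lit 78) (nat_lit 456) (nat_lit 0) (XT.lf (nat_lit 76) (nat_lit 374235117) (nat_lit 0) (nat_lit 824932194) (nat_lit 532) (nat_lit 374235117) (nat_lit 289) (nat_lit 1) (nat_lit 288) (nat_lit 1) (nat_lit 295) (nat_lit 1) (nat_lit 407) (nat_lit 324) (nat_lit 289)) (XT.nd (nat_lit 78) (nat_lit 0) (nat_lit 0) (XT.lf (nat_lit 532) (nat_lit 488752916) (nat_lit 0) (nat_lit 532617722) (nat_lit 456) (nat_lit 532617722) (nat_lit 289) (nat_lit 1) (nat_lit 282) (nat_lit 1) (nat_lit 288) (nat_lit 1) (nat_lit 408) (nat_lit 324) (nat_lit 288)) (XT.lf (nat_lit 76) (nat_lit 115880521) (nat_lit 0) (nat_lit 1303237765) (nat_lit 532) (nat_lit 115880521) (nat_lit 283) (nat_lit 1) (nat_lit 282) (nat_lit 1) (nat_lit 289) (nat_lit 1) (nat_lit 409) (nat_lit 324) (nat_lit 287)))))) (XT.nd (nat_lit 390) (nat_lit 1216) (nat_lit 0) (XT.nd (nat_lit 156) (nat_lit 380) (nat_lit 0) (XT.nd (nat_lit 78) (nat_lit 456)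 (nat_lit 0) (XT.lf (nat_lit 76) (nat_lit 743127270) (nat_lit 0) (nat_lit 29926866) (nat_lit 456) (nat_lit 743127270) (nat_lit 277) (nat_lit 1) (nat_lit 276) (nat_lit 1) (nat_lit 282) (nat_lit 1) (nat_lit 410) (nat_lit 324) (nat_lit 286)) (XT.lf (nat_lit 532) (nat_lit 1215701440) (nat_lit 0) (nat_lit 141035833) (nat_lit 456) (nat_lit 141035833) (nat_lit 277) (nat_lit 1) (nat_lit 270) (nat_lit 1) (nat_lit 276) (nat_lit 1) (nat_lit 411) (nat_lit 324) (nat_lit 285))) (XT.nd (nat_lit 78) (nat_lit 380) (nat_lit 0) (XT.lf (nat_lit 76) (nat_lit 470495940) (nat_lit 0) (nat_lit 538558508) (nat_lit 532) (nat_lit 470495940) (nat_lit 271) (nat_lit 1) (nat_lit 270) (nat_lit 1) (nat_lit 277) (nat_lit 1) (nat_lit 412) (nat_lit 324) (nat_lit 284)) (XT.nd (nat_lit 78) (nat_lit 0) (nat_lit 0) (XT.lf (nat_lit 456) (nat_lit 669003583) (nat_lit 0) (nat_lit 396350530) (nat_lit 380) (nat_lit 396350530) (nat_lit 271) (nat_lit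 1) (nat_lit 265) (nat_lit 1) (nat_lit 270) (nat_lit 1) (nat_lit 413) (nat_lit 324) (nat_lit 283)) (XT.lf (nat_lit 76) (nat_lit 199156739) (nat_lit 0) (nat_lit 1045872272) (nat_lit 456) (nat_lit 199156739) (nat_lit 266) (nat_lit 1) (nat_lit 265) (nat_lit 1) (nat_lit 271) (nat_lit 1) (nat_lit 414) (nat_lit 324) (nat_lit 282))))) (XT.nd (nat_lit 156) (nat_lit 380) (nat_lit 0) (XT.nd (nat_lit 78) (nat_lit 456) (nat_lit 0) (XT.lf (nat_lit 456) (nat_lit 125253901) (nat_lit 0) (nat_lit 650812283) (nat_lit 380) (nat_lit 650812283) (nat_lit 266) (nat_lit 1) (nat_lit 260) (nat_lit 1) (nat_lit 265) (nat_lit 1) (nat_lit 415) (nat_lit 324) (nat_lit 281)) (XT.lf (nat_lit 456) (nat_lit 1270248012) (nat_lit 0) (nat_lit 69854680) (nat_lit 380) (nat_lit 69854680) (nat_lit 260) (nat_lit 1) (nat_lit 254) (nat_lit 1) (nat_lit 259) (nat_lit 1) (nat_lit 416) (nat_lit 324) (nat_lit 280))) (XT.nd (nat_lit 78) (nat_lit 380)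 (nat_lit 0) (XT.lf (nat_lit 76) (nat_lit 493167531) (nat_lit 0) (nat_lit 406792681) (nat_lit 456) (nat_lit 493167531) (nat_lit 255) (nat_lit 1) (nat_lit 254) (nat_lit 1) (nat_lit 260) (nat_lit 1) (nat_lit 417) (nat_lit 324) (nat_lit 279)) (XT.nd (nat_lit 78) (nat_lit 0) (nat_lit 0) (XT.lf (nat_lit 456) (nat_lit 706703259) (nat_lit 0) (nat_lit 334984439) (nat_lit 380) (nat_lit 334984439) (nat_lit 255) (nat_lit 1) (nat_lit 249) (nat_lit 1) (nat_lit 254) (nat_lit 1) (nat_lit 418) (nat_lit 324) (nat_lit 278)) (XT.lf (nat_lit 76) (nat_lit 214109504) (nat_lit 0) (nat_lit 932273016) (nat_lit 456) (nat_lit 214109504) (nat_lit 250) (nat_lit 1) (nat_lit 249) (nat_lit 1) (nat_lit 255) (nat_lit 1) (nat_lit 419) (nat_lit 324) (nat_lit 277))))))))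
noncomputable def ec27 : XT := (XT.nd (nat_lit 49452) (nat_lit 0) (nat_lit 10640) (XT.nd (nat_lit 702) (nat_lit 1216) (nat_lit 0) (XT.nd (nat_lit 312) (nat_lit 988) (nat_lit 0) (XT.nd (nat_lit 156) (nat_lit 304) (nat_lit 0) (XT.nd (nat_lit 78) (nat_lit 456) (nat_lit 0) (XT.lf (nat_lit 380) (nat_lit 148706020) (nat_lit 0) (nat_lit 597905473) (nat_lit 304) (nat_lit 597905473) (nat_lit 250) (nat_lit 1) (nat_lit 245) (nat_lit 1) (nat_lit 249) (nat_lit 1) (nat_lit 420) (nat_lit 324) (nat_lit 276)) (XT.lf (nat_lit 456) (nat_lit 1205971246) (nat_lit 0) (nat_lit 61460555) (nat_lit 380) (nat_lit 61460555) (nat_lit 245) (nat_lit 1) (nat_lit 239) (nat_lit 1) (nat_lit 244) (nat_lit 1) (nat_lit 421) (nat_lit 324) (nat_lit 275))) (XT.nd (nat_lit 78) (nat_lit 304) (nat_lit 0) (XT.lf (nat_lit 76) (nat_lit 458960695) (nat_lit 0) (nat_lit 395412032) (nat_lit 456) (nat_lit 458960695) (nat_lit 240) (nat_lit 1) (nat_lit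 239) (nat_lit 1) (nat_lit 245) (nat_lit 1) (nat_lit 422) (nat_lit 324) (nat_lit 274)) (XT.lf (nat_lit 380) (nat_lit 634384747) (nat_lit 0) (nat_lit 331865002) (nat_lit 304) (nat_lit 331865002) (nat_lit 240) (nat_lit 1) (nat_lit 235) (nat_lit 1) (nat_lit 239) (nat_lit 1) (nat_lit 423) (nat_lit 324) (nat_lit 273)))) (XT.nd (nat_lit 156) (nat_lit 684) (nat_lit 0) (XT.nd (nat_lit 78) (nat_lit 304) (nat_lit 0) (XT.lf (nat_lit 76) (nat_lit 176412707) (nat_lit 0) (nat_lit 930330983) (nat_lit 380) (nat_lit 176412707) (nat_lit 236) (nat_lit 1) (nat_lit 235) (nat_lit 1) (nat_lit 240) (nat_lit 1) (nat_lit 424) (nat_lit 324) (nat_lit 272)) (XT.lf (nat_lit 380) (nat_lit 70345949) (nat_lit 0) (nat_lit 599011060) (nat_lit 304) (nat_lit 599011060) (nat_lit 236) (nat_lit 1) (nat_lit 231) (nat_lit 1) (nat_lit 235) (nat_lit 1) (nat_lit 425) (nat_lit 324) (nat_lit 271))) (XT.nd (nat_lit 78) (nat_lit 304) (nat_lit 0) (XT.lf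 (nat_lit 380) (nat_lit 1051275033) (nat_lit 0) (nat_lit 101298274) (nat_lit 304) (nat_lit 101298274) (nat_lit 231) (nat_lit 1) (nat_lit 226) (nat_lit 1) (nat_lit 230) (nat_lit 1) (nat_lit 426) (nat_lit 324) (nat_lit 270)) (XT.nd (nat_lit 78) (nat_lit 304) (nat_lit 0) (XT.lf (nat_lit 76) (nat_lit 381556209) (nat_lit 0) (nat_lit 476362041) (nat_lit 380) (nat_lit 381556209) (nat_lit 227) (nat_lit 1) (nat_lit 226) (nat_lit 1) (nat_lit 231) (nat_lit 1) (nat_lit 427) (nat_lit 324) (nat_lit 269)) (XT.lf (nat_lit 380) (nat_lit 478672673) (nat_lit 0) (nat_lit 373343986) (nat_lit 304) (nat_lit 373343986) (nat_lit 227) (nat_lit 1) (nat_lit 222) (nat_lit 1) (nat_lit 226) (nat_lit 1) (nat_lit 428) (nat_lit 324) (nat_lit 268)))))) (XT.nd (nat_lit 390) (nat_lit 380) (nat_lit 0) (XT.nd (nat_lit 156) (nat_lit 532) (nat_lit 0) (XT.nd (nat_lit 78) (nat_lit 304) (nat_lit 0) (XT.lf (nat_lit 76) (nat_lit 98889124) (nat_lit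 0) (nat_lit 1013741627) (nat_lit 380) (nat_lit 98889124) (nat_lit 223) (nat_lit 1) (nat_lit 222) (nat_lit 1) (nat_lit 227) (nat_lit 1) (nat_lit 429) (nat_lit 324) (nat_lit 267)) (XT.lf (nat_lit 76) (nat_lit 557275520) (nat_lit 0) (nat_lit 83217243) (nat_lit 304) (nat_lit 557275520) (nat_lit 219) (nat_lit 1) (nat_lit 218) (nat_lit 1) (nat_lit 222) (nat_lit 1) (nat_lit 430) (nat_lit 324) (nat_lit 266))) (XT.nd (nat_lit 78) (nat_lit 228) (nat_lit 0) (XT.lf (nat_lit 380) (nat_lit 829344188) (nat_lit 0) (nat_lit 177468983) (nat_lit 304) (nat_lit 177468983) (nat_lit 219) (nat_lit 1) (nat_lit 214) (nat_lit 1) (nat_lit 218) (nat_lit 1) (nat_lit 431) (nat_lit 324) (nat_lit 265)) (XT.nd (nat_lit 78) (nat_lit 228) (nat_lit 0) (XT.lf (nat_lit 76) (nat_lit 272116501) (nat_lit 0) (nat_lit 626716657) (nat_lit 380) (nat_lit 272116501) (nat_lit 215) (nat_lit 1) (nat_lit 214) (nat_lit 1) (nat_lit 219) (nat_lit 1) (nat_lit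 432) (nat_lit 324) (nat_lit 264)) (XT.lf (nat_lit 304) (nat_lit 261281745) (nat_lit 0) (nat_lit 448272392) (nat_lit 228) (nat_lit 448272392) (nat_lit 215) (nat_lit 1) (nat_lit 211) (nat_lit 1) (nat_lit 214) (nat_lit 1) (nat_lit 433) (nat_lit 324) (nat_lit 263))))) (XT.nd (nat_lit 48126) (nat_lit 0) (nat_lit 12768) (XT.nd (nat_lit 78) (nat_lit 0) (nat_lit 0) (XT.lf (nat_lit 380) (nat_lit 1129142848) (nat_lit 0) (nat_lit 7929074) (nat_lit 304) (nat_lit 7929074) (nat_lit 211) (nat_lit 1) (nat_lit 206) (nat_lit 1) (nat_lit 210) (nat_lit 1) (nat_lit 434) (nat_lit 324) (nat_lit 262)) (XT.lf (nat_lit 76) (nat_lit 420660137) (nat_lit 0) (nat_lit 290829973) (nat_lit 380) (nat_lit 420660137) (nat_lit 207) (nat_lit 1) (nat_lit 206) (nat_lit 1) (nat_lit 211) (nat_lit 1) (nat_lit 435) (nat_lit 324) (nat_lit 261))) (XT.nd (nat_lit 78) (nat_lit 0) (nat_lit 0) (XT.lf (nat_lit 1292) (nat_lit 239390166) (nat_lit 0) (nat_lit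 823613505) (nat_lit 1292) (nat_lit 239390166) (nat_lit 391) (nat_lit 1) (nat_lit 374) (nat_lit 0) (nat_lit 391) (nat_lit 0) (nat_lit 370) (nat_lit 325) (nat_lit 325)) (XT.nd (nat_lit 78) (nat_lit 0) (nat_lit 76) (XT.lf (nat_lit 1292) (nat_lit 935540965) (nat_lit 76) (nat_lit 815538863) (nat_lit 0) (nat_lit 815538863) (nat_lit 391) (nat_lit 1) (nat_lit 375) (nat_lit 1) (nat_lit 374) (nat_lit 0) (nat_lit 371) (nat_lit 325) (nat_lit 324)) (XT.lf (nat_lit 1292) (nat_lit 452449916) (nat_lit 0) (nat_lit 1624391802) (nat_lit 1216) (nat_lit 452449916) (nat_lit 392) (nat_lit 1) (nat_lit 375) (nat_lit 1) (nat_lit 391) (nat_lit 1) (nat_lit 372) (nat_lit 325) (nat_lit 323))))))) (XT.nd (nat_lit 702) (nat_lit 2204) (nat_lit 0) (XT.nd (nat_lit 312) (nat_lit 0) (nat_lit 152) (XT.nd (nat_lit 156) (nat_lit 0) (nat_lit 76) (XT.nd (nat_lit 78) (nat_lit 0) (nat_lit 76) (XT.lf (nat_lit 1292) (nat_lit 859225752) (nat_lit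 76) (nat_lit 816681087) (nat_lit 0) (nat_lit 816681087) (nat_lit 392) (nat_lit 1) (nat_lit 376) (nat_lit 1) (nat_lit 375) (nat_lit 1) (nat_lit 373) (nat_lit 325) (nat_lit 322)) (XT.lf (nat_lit 1292) (nat_lit 403187399) (nat_lit 0) (nat_lit 1650330680) (nat_lit 1216) (nat_lit 403187399) (nat_lit 393) (nat_lit 1) (nat_lit 376) (nat_lit 1) (nat_lit 392) (nat_lit 1) (nat_lit 374) (nat_lit 325) (nat_lit 321))) (XT.nd (nat_lit 78) (nat_lit 0) (nat_lit 76) (XT.lf (nat_lit 1292) (nat_lit 738883479) (nat_lit 76) (nat_lit 841256707) (nat_lit 0) (nat_lit 841256707) (nat_lit 393) (nat_lit 1) (nat_lit 377) (nat_lit 1) (nat_lit 376) (nat_lit 1) (nat_lit 375) (nat_lit 325) (nat_lit 320)) (XT.lf (nat_lit 1292) (nat_lit 333021124) (nat_lit 0) (nat_lit 1720861388) (nat_lit 1216) (nat_lit 333021124) (nat_lit 394) (nat_lit 1) (nat_lit 377) (nat_lit 1) (nat_lit 393) (nat_lit 1) (nat_lit 376) (nat_lit 325) (nat_lit 319))))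 (XT.nd (nat_lit 156) (nat_lit 0) (nat_lit 76) (XT.nd (nat_lit 78) (nat_lit 0) (nat_lit 76) (XT.lf (nat_lit 1292) (nat_lit 578451419) (nat_lit 76) (nat_lit 887236113) (nat_lit 0) (nat_lit 887236113) (nat_lit 394) (nat_lit 1) (nat_lit 378) (nat_lit 1) (nat_lit 377) (nat_lit 1) (nat_lit 377) (nat_lit 325) (nat_lit 318)) (XT.lf (nat_lit 1292) (nat_lit 243842267) (nat_lit 0) (nat_lit 1832082013) (nat_lit 1216) (nat_lit 243842267) (nat_lit 395) (nat_lit 1) (nat_lit 378) (nat_lit 1) (nat_lit 394) (nat_lit 1) (nat_lit 378) (nat_lit 325) (nat_lit 317))) (XT.nd (nat_lit 78) (nat_lit 0) (nat_lit 76) (XT.lf (nat_lit 1292) (nat_lit 381599759) (nat_lit 76) (nat_lit 952726140) (nat_lit 0) (nat_lit 952726140) (nat_lit 395) (nat_lit 1) (nat_lit 379) (nat_lit 1) (nat_lit 378) (nat_lit 1) (nat_lit 379) (nat_lit 325) (nat_lit 316)) (XT.nd (nat_lit 78) (nat_lit 0) (nat_lit 0) (XT.lf (nat_lit 1292) (nat_lit 137413308) (nat_lit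 0) (nat_lit 1980353720) (nat_lit 1216) (nat_lit 137413308) (nat_lit 396) (nat_lit 1) (nat_lit 379) (nat_lit 1) (nat_lit 395) (nat_lit 1) (nat_lit 380) (nat_lit 325) (nat_lit 315)) (XT.lf (nat_lit 1292) (nat_lit 151748137) (nat_lit 76) (nat_lit 1035961652) (nat_lit 0) (nat_lit 1035961652) (nat_lit 396) (nat_lit 1) (nat_lit 380) (nat_lit 1) (nat_lit 379) (nat_lit 1) (nat_lit 381) (nat_lit 325) (nat_lit 314)))))) (XT.nd (nat_lit 390) (nat_lit 1292) (nat_lit 0) (XT.nd (nat_lit 156) (nat_lit 0) (nat_lit 0) (XT.nd (nat_lit 78) (nat_lit 1292) (nat_lit 0) (XT.lf (nat_lit 1292) (nat_lit 15376005) (nat_lit 0) (nat_lit 2162284509) (nat_lit 1216) (nat_lit 15376005) (nat_lit 397) (nat_lit 1) (nat_lit 380) (nat_lit 1) (nat_lit 396) (nat_lit 1) (nat_lit 382) (nat_lit 325) (nat_lit 313)) (XT.lf (nat_lit 1368) (nat_lit 1028416189) (nat_lit 0) (nat_lit 105812937) (nat_lit 1292) (nat_lit 1028416189) (nat_lit 381) (nat_lit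 1) (nat_lit 363) (nat_lit 1) (nat_lit 380) (nat_lit 1) (nat_lit 383) (nat_lit 325) (nat_lit 312))) (XT.nd (nat_lit 78) (nat_lit 0) (nat_lit 76) (XT.lf (nat_lit 1368) (nat_lit 1893977044) (nat_lit 76) (nat_lit 119557362) (nat_lit 0) (nat_lit 119557362) (nat_lit 381) (nat_lit 1) (nat_lit 364) (nat_lit 1) (nat_lit 363) (nat_lit 1) (nat_lit 384) (nat_lit 325) (nat_lit 311)) (XT.nd (nat_lit 78) (nat_lit 0) (nat_lit 0) (XT.lf (nat_lit 1368) (nat_lit 858556411) (nat_lit 0) (nat_lit 386740001) (nat_lit 1292) (nat_lit 858556411) (nat_lit 382) (nat_lit 1) (nat_lit 364) (nat_lit 1) (nat_lit 381) (nat_lit 1) (nat_lit 385) (nat_lit 325) (nat_lit 310)) (XT.lf (nat_lit 1368) (nat_lit 1541608416) (nat_lit 76) (nat_lit 266873323) (nat_lit 0) (nat_lit 266873323) (nat_lit 382) (nat_lit 1) (nat_lit 365) (nat_lit 1) (nat_lit 364) (nat_lit 1) (nat_lit 386) (nat_lit 325) (nat_lit 309))))) (XT.nd (nat_lit 156) (nat_lit 608)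 (nat_lit 0) (XT.nd (nat_lit 78) (nat_lit 836) (nat_lit 0) (XT.lf (nat_lit 76) (nat_lit 677976169) (nat_lit 0) (nat_lit 691290430) (nat_lit 1292) (nat_lit 677976169) (nat_lit 366) (nat_lit 1) (nat_lit 365) (nat_lit 1) (nat_lit 382) (nat_lit 1) (nat_lit 387) (nat_lit 325) (nat_lit 308)) (XT.lf (nat_lit 912) (nat_lit 1168926363) (nat_lit 0) (nat_lit 425412758) (nat_lit 836) (nat_lit 425412758) (nat_lit 366) (nat_lit 1) (nat_lit 354) (nat_lit 1) (nat_lit 365) (nat_lit 1) (nat_lit 388) (nat_lit 325) (nat_lit 307))) (XT.nd (nat_lit 78) (nat_lit 608) (nat_lit 0) (XT.lf (nat_lit 76) (nat_lit 487887109) (nat_lit 0) (nat_lit 1016950386) (nat_lit 912) (nat_lit 487887109) (nat_lit 355) (nat_lit 1) (nat_lit 354) (nat_lit 1) (nat_lit 366) (nat_lit 1) (nat_lit 389) (nat_lit 325) (nat_lit 306)) (XT.nd (nat_lit 78) (nat_lit 0) (nat_lit 0) (XT.lf (nat_lit 684) (nat_lit 778277762) (nat_lit 0) (nat_lit 593958188) (nat_lit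 608) (nat_lit 593958188) (nat_lit 355) (nat_lit 1) (nat_lit 346) (nat_lit 1) (nat_lit 354) (nat_lit 1) (nat_lit 390) (nat_lit 325) (nat_lit 305)) (XT.lf (nat_lit 76) (nat_lit 289413954) (nat_lit 0) (nat_lit 1361384058) (nat_lit 684) (nat_lit 289413954) (nat_lit 347) (nat_lit 1) (nat_lit 346) (nat_lit 1) (nat_lit 355) (nat_lit 1) (nat_lit 391) (nat_lit 325) (nat_lit 304))))))))
noncomputable def ec28 : XT := (XT.nd (nat_lit 1482) (nat_lit 4256) (nat_lit 0) (XT.nd (nat_lit 702) (nat_lit 2888) (nat_lit 0) (XT.nd (nat_lit 312) (nat_lit 1064) (nat_lit 0) (XT.nd (nat_lit 156) (nat_lit 1216) (nat_lit 0) (XT.nd (nat_lit 78) (nat_lit 0) (nat_lit 0) (XT.lf (nat_lit 684) (nat_lit 371840372) (nat_lit 0) (nat_lit 771378720) (nat_lit 608) (nat_lit 771378720) (nat_lit 347) (nat_lit 1) (nat_lit 338) (nat_lit 1) (nat_lit 346) (nat_lit 1) (nat_lit 392) (nat_lit 325) (nat_lit 303)) (XT.lf (nat_lit 76) (nat_lit 83600005)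 (nat_lit 0) (nat_lit 1722422460) (nat_lit 684) (nat_lit 83600005) (nat_lit 339) (nat_lit 1) (nat_lit 338) (nat_lit 1) (nat_lit 347) (nat_lit 1) (nat_lit 393) (nat_lit 325) (nat_lit 302))) (XT.nd (nat_lit 78) (nat_lit 608) (nat_lit 0) (XT.lf (nat_lit 76) (nat_lit 908723069) (nat_lit 0) (nat_lit 47422641) (nat_lit 608) (nat_lit 908723069) (nat_lit 331) (nat_lit 1) (nat_lit 330) (nat_lit 1) (nat_lit 338) (nat_lit 1) (nat_lit 394) (nat_lit 325) (nat_lit 301)) (XT.lf (nat_lit 684) (nat_lit 1586074365) (nat_lit 0) (nat_lit 127327032) (nat_lit 608) (nat_lit 127327032) (nat_lit 331) (nat_lit 1) (nat_lit 322) (nat_lit 1) (nat_lit 330) (nat_lit 1) (nat_lit 395) (nat_lit 325) (nat_lit 300)))) (XT.nd (nat_lit 156) (nat_lit 532) (nat_lit 0) (XT.nd (nat_lit 78) (nat_lit 532) (nat_lit 0) (XT.lf (nat_lit 76) (nat_lit 672868935) (nat_lit 0) (nat_lit 471095937) (nat_lit 684) (nat_lit 672868935) (nat_lit 323) (nat_lit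 1) (nat_lit 322) (nat_lit 1) (nat_lit 331) (nat_lit 1) (nat_lit 396) (nat_lit 325) (nat_lit 299)) (XT.lf (nat_lit 608) (nat_lit 1107782879) (nat_lit 0) (nat_lit 342858872) (nat_lit 532) (nat_lit 342858872) (nat_lit 323) (nat_lit 1) (nat_lit 315) (nat_lit 1) (nat_lit 322) (nat_lit 1) (nat_lit 397) (nat_lit 325) (nat_lit 298))) (XT.nd (nat_lit 78) (nat_lit 532) (nat_lit 0) (XT.lf (nat_lit 76) (nat_lit 432895234) (nat_lit 0) (nat_lit 904737116) (nat_lit 608) (nat_lit 432895234) (nat_lit 316) (nat_lit 1) (nat_lit 315) (nat_lit 1) (nat_lit 323) (nat_lit 1) (nat_lit 398) (nat_lit 325) (nat_lit 297)) (XT.nd (nat_lit 78) (nat_lit 0) (nat_lit 0) (XT.lf (nat_lit 608) (nat_lit 621976409) (nat_lit 0) (nat_lit 562994453) (nat_lit 532) (nat_lit 562994453) (nat_lit 316) (nat_lit 1) (nat_lit 308) (nat_lit 1) (nat_lit 315) (nat_lit 1) (nat_lit 399) (nat_lit 325) (nat_lit 296)) (XT.lf (nat_lit 76) (nat_lit 189552773)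 (nat_lit 0) (nat_lit 1346775289) (nat_lit 608) (nat_lit 189552773) (nat_lit 309) (nat_lit 1) (nat_lit 308) (nat_lit 1) (nat_lit 316) (nat_lit 1) (nat_lit 400) (nat_lit 325) (nat_lit 295)))))) (XT.nd (nat_lit 390) (nat_lit 1368) (nat_lit 0) (XT.nd (nat_lit 156) (nat_lit 456) (nat_lit 0) (XT.nd (nat_lit 78) (nat_lit 608) (nat_lit 0) (XT.lf (nat_lit 532) (nat_lit 130104915) (nat_lit 0) (nat_lit 786975052) (nat_lit 456) (nat_lit 786975052) (nat_lit 309) (nat_lit 1) (nat_lit 302) (nat_lit 1) (nat_lit 308) (nat_lit 1) (nat_lit 401) (nat_lit 325) (nat_lit 294)) (XT.lf (nat_lit 608) (nat_lit 1570937658) (nat_lit 0) (nat_lit 55912133) (nat_lit 532) (nat_lit 55912133) (nat_lit 302) (nat_lit 1) (nat_lit 294) (nat_lit 1) (nat_lit 301) (nat_lit 1) (nat_lit 402) (nat_lit 325) (nat_lit 293))) (XT.nd (nat_lit 78) (nat_lit 456) (nat_lit 0) (XT.lf (nat_lit 76) (nat_lit 651128326) (nat_lit 0) (nat_lit 359342913) (nat_lit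 608) (nat_lit 651128326) (nat_lit 295) (nat_lit 1) (nat_lit 294) (nat_lit 1) (nat_lit 302) (nat_lit 1) (nat_lit 403) (nat_lit 325) (nat_lit 292)) (XT.nd (nat_lit 78) (nat_lit 0) (nat_lit 0) (XT.lf (nat_lit 532) (nat_lit 1037878339) (nat_lit 0) (nat_lit 301536319) (nat_lit 456) (nat_lit 301536319) (nat_lit 295) (nat_lit 1) (nat_lit 288) (nat_lit 1) (nat_lit 294) (nat_lit 1) (nat_lit 404) (nat_lit 325) (nat_lit 291)) (XT.lf (nat_lit 76) (nat_lit 385462170) (nat_lit 0) (nat_lit 849680160) (nat_lit 532) (nat_lit 385462170) (nat_lit 289) (nat_lit 1) (nat_lit 288) (nat_lit 1) (nat_lit 295) (nat_lit 1) (nat_lit 405) (nat_lit 325) (nat_lit 290))))) (XT.nd (nat_lit 156) (nat_lit 912) (nat_lit 0) (XT.nd (nat_lit 78) (nat_lit 0) (nat_lit 0) (XT.lf (nat_lit 532) (nat_lit 503415504) (nat_lit 0) (nat_lit 548596254) (nat_lit 456) (nat_lit 548596254) (nat_lit 289) (nat_lit 1) (nat_lit 282) (nat_lit 1) (nat_lit 288)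 (nat_lit 1) (nat_lit 406) (nat_lit 325) (nat_lit 289)) (XT.lf (nat_lit 76) (nat_lit 119356937) (nat_lit 0) (nat_lit 1342334898) (nat_lit 532) (nat_lit 119356937) (nat_lit 283) (nat_lit 1) (nat_lit 282) (nat_lit 1) (nat_lit 289) (nat_lit 1) (nat_lit 407) (nat_lit 325) (nat_lit 288))) (XT.nd (nat_lit 78) (nat_lit 456) (nat_lit 0) (XT.lf (nat_lit 76) (nat_lit 765421088) (nat_lit 0) (nat_lit 30824672) (nat_lit 456) (nat_lit 765421088) (nat_lit 277) (nat_lit 1) (nat_lit 276) (nat_lit 1) (nat_lit 282) (nat_lit 1) (nat_lit 408) (nat_lit 325) (nat_lit 287)) (XT.nd (nat_lit 78) (nat_lit 0) (nat_lit 0) (XT.lf (nat_lit 532) (nat_lit 1252172484) (nat_lit 0) (nat_lit 145266908) (nat_lit 456) (nat_lit 145266908) (nat_lit 277) (nat_lit 1) (nat_lit 270) (nat_lit 1) (nat_lit 276) (nat_lit 1) (nat_lit 409) (nat_lit 325) (nat_lit 286)) (XT.lf (nat_lit 76) (nat_lit 484610818) (nat_lit 0) (nat_lit 554715263) (nat_lit 532)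 (nat_lit 484610818) (nat_lit 271) (nat_lit 1) (nat_lit 270) (nat_lit 1) (nat_lit 277) (nat_lit 1) (nat_lit 410) (nat_lit 325) (nat_lit 285))))))) (XT.nd (nat_lit 702) (nat_lit 1900) (nat_lit 0) (XT.nd (nat_lit 312) (nat_lit 1140) (nat_lit 0) (XT.nd (nat_lit 156) (nat_lit 836) (nat_lit 0) (XT.nd (nat_lit 78) (nat_lit 0) (nat_lit 0) (XT.lf (nat_lit 456) (nat_lit 689073691) (nat_lit 0) (nat_lit 408241045) (nat_lit 380) (nat_lit 408241045) (nat_lit 271) (nat_lit 1) (nat_lit 265) (nat_lit 1) (nat_lit 270) (nat_lit 1) (nat_lit 411) (nat_lit 325) (nat_lit 284)) (XT.lf (nat_lit 76) (nat_lit 205131441) (nat_lit 0) (nat_lit 1077248441) (nat_lit 456) (nat_lit 205131441) (nat_lit 266) (nat_lit 1) (nat_lit 265) (nat_lit 1) (nat_lit 271) (nat_lit 1) (nat_lit 412) (nat_lit 325) (nat_lit 283))) (XT.nd (nat_lit 78) (nat_lit 456) (nat_lit 0) (XT.lf (nat_lit 456) (nat_lit 129011518) (nat_lit 0) (nat_lit 670336651) (nat_lit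 380) (nat_lit 670336651) (nat_lit 266) (nat_lit 1) (nat_lit 260) (nat_lit 1) (nat_lit 265) (nat_lit 1) (nat_lit 413) (nat_lit 325) (nat_lit 282)) (XT.lf (nat_lit 456) (nat_lit 1308355452) (nat_lit 0) (nat_lit 71950320) (nat_lit 380) (nat_lit 71950320) (nat_lit 260) (nat_lit 1) (nat_lit 254) (nat_lit 1) (nat_lit 259) (nat_lit 1) (nat_lit 414) (nat_lit 325) (nat_lit 281)))) (XT.nd (nat_lit 156) (nat_lit 760) (nat_lit 0) (XT.nd (nat_lit 78) (nat_lit 380) (nat_lit 0) (XT.lf (nat_lit 76) (nat_lit 507962557) (nat_lit 0) (nat_lit 418996461) (nat_lit 456) (nat_lit 507962557) (nat_lit 255) (nat_lit 1) (nat_lit 254) (nat_lit 1) (nat_lit 260) (nat_lit 1) (nat_lit 415) (nat_lit 325) (nat_lit 280)) (XT.lf (nat_lit 456) (nat_lit 727904357) (nat_lit 0) (nat_lit 345033973) (nat_lit 380) (nat_lit 345033973) (nat_lit 255) (nat_lit 1) (nat_lit 249) (nat_lit 1) (nat_lit 254) (nat_lit 1) (nat_lit 416) (nat_lit 325) (nat_lit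 279))) (XT.nd (nat_lit 78) (nat_lit 760) (nat_lit 0) (XT.lf (nat_lit 76) (nat_lit 220532790) (nat_lit 0) (nat_lit 960241206) (nat_lit 456) (nat_lit 220532790) (nat_lit 250) (nat_lit 1) (nat_lit 249) (nat_lit 1) (nat_lit 255) (nat_lit 1) (nat_lit 417) (nat_lit 325) (nat_lit 278)) (XT.nd (nat_lit 78) (nat_lit 456) (nat_lit 0) (XT.lf (nat_lit 380) (nat_lit 153167200) (nat_lit 0) (nat_lit 615842637) (nat_lit 304) (nat_lit 615842637) (nat_lit 250) (nat_lit 1) (nat_lit 245) (nat_lit 1) (nat_lit 249) (nat_lit 1) (nat_lit 418) (nat_lit 325) (nat_lit 277)) (XT.lf (nat_lit 456) (nat_lit 1242150384) (nat_lit 0) (nat_lit 63304371) (nat_lit 380) (nat_lit 63304371) (nat_lit 245) (nat_lit 1) (nat_lit 239) (nat_lit 1) (nat_lit 244) (nat_lit 1) (nat_lit 419) (nat_lit 325) (nat_lit 276)))))) (XT.nd (nat_lit 390) (nat_lit 912) (nat_lit 0) (XT.nd (nat_lit 156) (nat_lit 684) (nat_lit 0) (XT.nd (nat_lit 78) (nat_lit 304)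 (nat_lit 0) (XT.lf (nat_lit 76) (nat_lit 472729516) (nat_lit 0) (nat_lit 407274393) (nat_lit 456) (nat_lit 472729516) (nat_lit 240) (nat_lit 1) (nat_lit 239) (nat_lit 1) (nat_lit 245) (nat_lit 1) (nat_lit 420) (nat_lit 325) (nat_lit 275)) (XT.lf (nat_lit 380) (nat_lit 653416289) (nat_lit 0) (nat_lit 341820952) (nat_lit 304) (nat_lit 341820952) (nat_lit 240) (nat_lit 1) (nat_lit 235) (nat_lit 1) (nat_lit 239) (nat_lit 1) (nat_lit 421) (nat_lit 325) (nat_lit 274))) (XT.nd (nat_lit 78) (nat_lit 684) (nat_lit 0) (XT.lf (nat_lit 76) (nat_lit 181705089) (nat_lit 0) (nat_lit 958240913) (nat_lit 380) (nat_lit 181705089) (nat_lit 236) (nat_lit 1) (nat_lit 235) (nat_lit 1) (nat_lit 240) (nat_lit 1) (nat_lit 422) (nat_lit 325) (nat_lit 273)) (XT.nd (nat_lit 78) (nat_lit 380) (nat_lit 0) (XT.lf (nat_lit 380) (nat_lit 72456327) (nat_lit 0) (nat_lit 616981392) (nat_lit 304) (nat_lit 616981392) (nat_lit 236) (nat_lit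 1) (nat_lit 231) (nat_lit 1) (nat_lit 235) (nat_lit 1) (nat_lit 423) (nat_lit 325) (nat_lit 272)) (XT.lf (nat_lit 380) (nat_lit 1082813284) (nat_lit 0) (nat_lit 104337222) (nat_lit 304) (nat_lit 104337222) (nat_lit 231) (nat_lit 1) (nat_lit 226) (nat_lit 1) (nat_lit 230) (nat_lit 1) (nat_lit 424) (nat_lit 325) (nat_lit 271))))) (XT.nd (nat_lit 156) (nat_lit 608) (nat_lit 0) (XT.nd (nat_lit 78) (nat_lit 304) (nat_lit 0) (XT.lf (nat_lit 76) (nat_lit 393002895) (nat_lit 0) (nat_lit 490652902) (nat_lit 380) (nat_lit 393002895) (nat_lit 227) (nat_lit 1) (nat_lit 226) (nat_lit 1) (nat_lit 231) (nat_lit 1) (nat_lit 425) (nat_lit 325) (nat_lit 270)) (XT.lf (nat_lit 380) (nat_lit 493032853) (nat_lit 0) (nat_lit 384544305) (nat_lit 304) (nat_lit 384544305) (nat_lit 227) (nat_lit 1) (nat_lit 222) (nat_lit 1) (nat_lit 226) (nat_lit 1) (nat_lit 426) (nat_lit 325) (nat_lit 269))) (XT.nd (nat_lit 78) (nat_lit 608)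 (nat_lit 0) (XT.lf (nat_lit 76) (nat_lit 101855797) (nat_lit 0) (nat_lit 1044153876) (nat_lit 380) (nat_lit 101855797) (nat_lit 223) (nat_lit 1) (nat_lit 222) (nat_lit 1) (nat_lit 227) (nat_lit 1) (nat_lit 427) (nat_lit 325) (nat_lit 268)) (XT.nd (nat_lit 78) (nat_lit 304) (nat_lit 0) (XT.lf (nat_lit 76) (nat_lit 573993785) (nat_lit 0) (nat_lit 85713760) (nat_lit 304) (nat_lit 573993785) (nat_lit 219) (nat_lit 1) (nat_lit 218) (nat_lit 1) (nat_lit 222) (nat_lit 1) (nat_lit 428) (nat_lit 325) (nat_lit 267)) (XT.lf (nat_lit 380) (nat_lit 854224513) (nat_lit 0) (nat_lit 182793052) (nat_lit 304) (nat_lit 182793052) (nat_lit 219) (nat_lit 1) (nat_lit 214) (nat_lit 1) (nat_lit 218) (nat_lit 1) (nat_lit 429) (nat_lit 325) (nat_lit 266))))))))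
noncomputable def ec29 : XT := (XT.nd (nat_lit 49296) (nat_lit 0) (nat_lit 7524) (XT.nd (nat_lit 48516) (nat_lit 0) (nat_lit 13072) (XT.nd (nat_lit 312) (nat_lit 228) (nat_lit 0) (XT.nd (nat_lit 156) (nat_lit 380) (nat_lit 0) (XT.nd (nat_lit 78) (nat_lit 228) (nat_lit 0) (XT.lf (nat_lit 76) (nat_lit 280279996) (nat_lit 0) (nat_lit 645518156) (nat_lit 380) (nat_lit 280279996) (nat_lit 215) (nat_lit 1) (nat_lit 214) (nat_lit 1) (nat_lit 219) (nat_lit 1) (nat_lit 430) (nat_lit 325) (nat_lit 265)) (XT.lf (nat_lit 304) (nat_lit 269120198) (nat_lit 0) (nat_lit 461720564) (nat_lit 228) (nat_lit 461720564) (nat_lit 215) (nat_lit 1) (nat_lit 211) (nat_lit 1) (nat_lit 214) (nat_lit 1) (nat_lit 431) (nat_lit 325) (nat_lit 264))) (XT.nd (nat_lit 78) (nat_lit 0) (nat_lit 0) (XT.lf (nat_lit 380) (nat_lit 1163017133) (nat_lit 0) (nat_lit 8166946) (nat_lit 304) (nat_lit 8166946) (nat_lit 211) (nat_lit 1) (nat_lit 206)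 (nat_lit 1) (nat_lit 210) (nat_lit 1) (nat_lit 432) (nat_lit 325) (nat_lit 263)) (XT.lf (nat_lit 76) (nat_lit 433279942) (nat_lit 0) (nat_lit 299554872) (nat_lit 380) (nat_lit 433279942) (nat_lit 207) (nat_lit 1) (nat_lit 206) (nat_lit 1) (nat_lit 211) (nat_lit 1) (nat_lit 433) (nat_lit 325) (nat_lit 262)))) (XT.nd (nat_lit 47970) (nat_lit 0) (nat_lit 12996) (XT.nd (nat_lit 78) (nat_lit 0) (nat_lit 0) (XT.lf (nat_lit 304) (nat_lit 575800499) (nat_lit 0) (nat_lit 288688985) (nat_lit 228) (nat_lit 288688985) (nat_lit 207) (nat_lit 1) (nat_lit 203) (nat_lit 1) (nat_lit 206) (nat_lit 1) (nat_lit 434) (nat_lit 325) (nat_lit 261)) (XT.lf (nat_lit 76) (nat_lit 143904419) (nat_lit 0) (nat_lit 852644081) (nat_lit 304) (nat_lit 143904419) (nat_lit 204) (nat_lit 1) (nat_lit 203) (nat_lit 1) (nat_lit 207) (nat_lit 1) (nat_lit 435) (nat_lit 325) (nat_lit 260))) (XT.nd (nat_lit 78) (nat_lit 0) (nat_lit 0) (XT.lf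 (nat_lit 1292) (nat_lit 246571871) (nat_lit 0) (nat_lit 848321910) (nat_lit 1292) (nat_lit 246571871) (nat_lit 391) (nat_lit 1) (nat_lit 374) (nat_lit 0) (nat_lit 391) (nat_lit 0) (nat_lit 368) (nat_lit 326) (nat_lit 326)) (XT.nd (nat_lit 78) (nat_lit 0) (nat_lit 76) (XT.lf (nat_lit 1292) (nat_lit 963607194) (nat_lit 76) (nat_lit 840005029) (nat_lit 0) (nat_lit 840005029) (nat_lit 391) (nat_lit 1) (nat_lit 375) (nat_lit 1) (nat_lit 374) (nat_lit 0) (nat_lit 369) (nat_lit 326) (nat_lit 325)) (XT.lf (nat_lit 1292) (nat_lit 466023414) (nat_lit 0) (nat_lit 1673123556) (nat_lit 1216) (nat_lit 466023414) (nat_lit 392) (nat_lit 1) (nat_lit 375) (nat_lit 1) (nat_lit 391) (nat_lit 1) (nat_lit 370) (nat_lit 326) (nat_lit 324)))))) (XT.nd (nat_lit 390) (nat_lit 0) (nat_lit 228) (XT.nd (nat_lit 156) (nat_lit 0) (nat_lit 76) (XT.nd (nat_lit 78) (nat_lit 0) (nat_lit 76) (XT.lf (nat_lit 1292) (nat_lit 885002524) (nat_lit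 76) (nat_lit 841181520) (nat_lit 0) (nat_lit 841181520) (nat_lit 392) (nat_lit 1) (nat_lit 376) (nat_lit 1) (nat_lit 375) (nat_lit 1) (nat_lit 371) (nat_lit 326) (nat_lit 323)) (XT.lf (nat_lit 1292) (nat_lit 415283021) (nat_lit 0) (nat_lit 1699840600) (nat_lit 1216) (nat_lit 415283021) (nat_lit 393) (nat_lit 1) (nat_lit 376) (nat_lit 1) (nat_lit 392) (nat_lit 1) (nat_lit 372) (nat_lit 326) (nat_lit 322))) (XT.nd (nat_lit 78) (nat_lit 0) (nat_lit 76) (XT.lf (nat_lit 1292) (nat_lit 761049984) (nat_lit 76) (nat_lit 866494408) (nat_lit 0) (nat_lit 866494408) (nat_lit 393) (nat_lit 1) (nat_lit 377) (nat_lit 1) (nat_lit 376) (nat_lit 1) (nat_lit 373) (nat_lit 326) (nat_lit 321)) (XT.nd (nat_lit 78) (nat_lit 0) (nat_lit 0) (XT.lf (nat_lit 1292) (nat_lit 343011758) (nat_lit 0) (nat_lit 1772487230) (nat_lit 1216) (nat_lit 343011758) (nat_lit 394) (nat_lit 1) (nat_lit 377) (nat_lit 1) (nat_lit 393) (nat_lit 1)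 (nat_lit 374) (nat_lit 326) (nat_lit 320)) (XT.lf (nat_lit 1292) (nat_lit 595804961) (nat_lit 76) (nat_lit 913853197) (nat_lit 0) (nat_lit 913853197) (nat_lit 394) (nat_lit 1) (nat_lit 378) (nat_lit 1) (nat_lit 377) (nat_lit 1) (nat_lit 375) (nat_lit 326) (nat_lit 319))))) (XT.nd (nat_lit 156) (nat_lit 0) (nat_lit 76) (XT.nd (nat_lit 78) (nat_lit 0) (nat_lit 0) (XT.lf (nat_lit 1292) (nat_lit 251157535) (nat_lit 0) (nat_lit 1887044474) (nat_lit 1216) (nat_lit 251157535) (nat_lit 395) (nat_lit 1) (nat_lit 378) (nat_lit 1) (nat_lit 394) (nat_lit 1) (nat_lit 376) (nat_lit 326) (nat_lit 318)) (XT.lf (nat_lit 1292) (nat_lit 393047752) (nat_lit 76) (nat_lit 981307924) (nat_lit 0) (nat_lit 981307924) (nat_lit 395) (nat_lit 1) (nat_lit 379) (nat_lit 1) (nat_lit 378) (nat_lit 1) (nat_lit 377) (nat_lit 326) (nat_lit 317))) (XT.nd (nat_lit 78) (nat_lit 0) (nat_lit 0) (XT.lf (nat_lit 1292) (nat_lit 141535707) (nat_lit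 0) (nat_lit 2039764331) (nat_lit 1216) (nat_lit 141535707) (nat_lit 396) (nat_lit 1) (nat_lit 379) (nat_lit 1) (nat_lit 395) (nat_lit 1) (nat_lit 378) (nat_lit 326) (nat_lit 316)) (XT.nd (nat_lit 78) (nat_lit 0) (nat_lit 76) (XT.lf (nat_lit 1292) (nat_lit 156300581) (nat_lit 76) (nat_lit 1067040501) (nat_lit 0) (nat_lit 1067040501) (nat_lit 396) (nat_lit 1) (nat_lit 380) (nat_lit 1) (nat_lit 379) (nat_lit 1) (nat_lit 379) (nat_lit 326) (nat_lit 315)) (XT.lf (nat_lit 1292) (nat_lit 15837286) (nat_lit 0) (nat_lit 2227153044) (nat_lit 1216) (nat_lit 15837286) (nat_lit 397) (nat_lit 1) (nat_lit 380) (nat_lit 1) (nat_lit 396) (nat_lit 1) (nat_lit 380) (nat_lit 326) (nat_lit 314))))))) (XT.nd (nat_lit 702) (nat_lit 3344) (nat_lit 0) (XT.nd (nat_lit 312) (nat_lit 1292) (nat_lit 0) (XT.nd (nat_lit 156) (nat_lit 0) (nat_lit 76) (XT.nd (nat_lit 78) (nat_lit 0) (nat_lit 0) (XT.lf (nat_lit 1368) (nat_lit 1059268674)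 (nat_lit 0) (nat_lit 108987325) (nat_lit 1292) (nat_lit 1059268674) (nat_lit 381) (nat_lit 1) (nat_lit 363) (nat_lit 1) (nat_lit 380) (nat_lit 1) (nat_lit 381) (nat_lit 326) (nat_lit 313)) (XT.lf (nat_lit 1368) (nat_lit 1950796355) (nat_lit 76) (nat_lit 123144083) (nat_lit 0) (nat_lit 123144083) (nat_lit 381) (nat_lit 1) (nat_lit 364) (nat_lit 1) (nat_lit 363) (nat_lit 1) (nat_lit 382) (nat_lit 326) (nat_lit 312))) (XT.nd (nat_lit 78) (nat_lit 0) (nat_lit 0) (XT.lf (nat_lit 1368) (nat_lit 884313103) (nat_lit 0) (nat_lit 398342201) (nat_lit 1292) (nat_lit 884313103) (nat_lit 382) (nat_lit 1) (nat_lit 364) (nat_lit 1) (nat_lit 381) (nat_lit 1) (nat_lit 383) (nat_lit 326) (nat_lit 311)) (XT.lf (nat_lit 1368) (nat_lit 1587856668) (nat_lit 76) (nat_lit 274879523) (nat_lit 0) (nat_lit 274879523) (nat_lit 382) (nat_lit 1) (nat_lit 365) (nat_lit 1) (nat_lit 364) (nat_lit 1) (nat_lit 384) (nat_lit 326) (nat_lit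 310)))) (XT.nd (nat_lit 156) (nat_lit 608) (nat_lit 0) (XT.nd (nat_lit 78) (nat_lit 836) (nat_lit 0) (XT.lf (nat_lit 76) (nat_lit 698315454) (nat_lit 0) (nat_lit 712029142) (nat_lit 1292) (nat_lit 698315454) (nat_lit 366) (nat_lit 1) (nat_lit 365) (nat_lit 1) (nat_lit 382) (nat_lit 1) (nat_lit 385) (nat_lit 326) (nat_lit 309)) (XT.lf (nat_lit 912) (nat_lit 1203994154) (nat_lit 0) (nat_lit 438175141) (nat_lit 836) (nat_lit 438175141) (nat_lit 366) (nat_lit 1) (nat_lit 354) (nat_lit 1) (nat_lit 365) (nat_lit 1) (nat_lit 386) (nat_lit 326) (nat_lit 308))) (XT.nd (nat_lit 78) (nat_lit 608) (nat_lit 0) (XT.lf (nat_lit 76) (nat_lit 502523722) (nat_lit 0) (nat_lit 1047458897) (nat_lit 912) (nat_lit 502523722) (nat_lit 355) (nat_lit 1) (nat_lit 354) (nat_lit 1) (nat_lit 366) (nat_lit 1) (nat_lit 387) (nat_lit 326) (nat_lit 307)) (XT.nd (nat_lit 78) (nat_lit 0) (nat_lit 0) (XT.lf (nat_lit 684) (nat_lit 801626094)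 (nat_lit 0) (nat_lit 611776934) (nat_lit 608) (nat_lit 611776934) (nat_lit 355) (nat_lit 1) (nat_lit 346) (nat_lit 1) (nat_lit 354) (nat_lit 1) (nat_lit 388) (nat_lit 326) (nat_lit 306)) (XT.lf (nat_lit 76) (nat_lit 298096373) (nat_lit 0) (nat_lit 1402225580) (nat_lit 684) (nat_lit 298096373) (nat_lit 347) (nat_lit 1) (nat_lit 346) (nat_lit 1) (nat_lit 355) (nat_lit 1) (nat_lit 389) (nat_lit 326) (nat_lit 305)))))) (XT.nd (nat_lit 390) (nat_lit 1520) (nat_lit 0) (XT.nd (nat_lit 156) (nat_lit 1216) (nat_lit 0) (XT.nd (nat_lit 78) (nat_lit 0) (nat_lit 0) (XT.lf (nat_lit 684) (nat_lit 382995583) (nat_lit 0) (nat_lit 794520081) (nat_lit 608) (nat_lit 794520081) (nat_lit 347) (nat_lit 1) (nat_lit 338) (nat_lit 1) (nat_lit 346) (nat_lit 1) (nat_lit 390) (nat_lit 326) (nat_lit 304)) (XT.lf (nat_lit 76) (nat_lit 86108006) (nat_lit 0) (nat_lit 1774095134) (nat_lit 684) (nat_lit 86108006) (nat_lit 339) (nat_lit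 1) (nat_lit 338) (nat_lit 1) (nat_lit 347) (nat_lit 1) (nat_lit 391) (nat_lit 326) (nat_lit 303))) (XT.nd (nat_lit 78) (nat_lit 608) (nat_lit 0) (XT.lf (nat_lit 76) (nat_lit 935984761) (nat_lit 0) (nat_lit 48845320) (nat_lit 608) (nat_lit 935984761) (nat_lit 331) (nat_lit 1) (nat_lit 330) (nat_lit 1) (nat_lit 338) (nat_lit 1) (nat_lit 392) (nat_lit 326) (nat_lit 302)) (XT.nd (nat_lit 78) (nat_lit 0) (nat_lit 0) (XT.lf (nat_lit 684) (nat_lit 1633656596) (nat_lit 0) (nat_lit 131146843) (nat_lit 608) (nat_lit 131146843) (nat_lit 331) (nat_lit 1) (nat_lit 322) (nat_lit 1) (nat_lit 330) (nat_lit 1) (nat_lit 393) (nat_lit 326) (nat_lit 301)) (XT.lf (nat_lit 76) (nat_lit 693055003) (nat_lit 0) (nat_lit 485228815) (nat_lit 684) (nat_lit 693055003) (nat_lit 323) (nat_lit 1) (nat_lit 322) (nat_lit 1) (nat_lit 331) (nat_lit 1) (nat_lit 394) (nat_lit 326) (nat_lit 300))))) (XT.nd (nat_lit 156) (nat_lit 988) (nat_lit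 0) (XT.nd (nat_lit 78) (nat_lit 0) (nat_lit 0) (XT.lf (nat_lit 608) (nat_lit 1141016365) (nat_lit 0) (nat_lit 353144638) (nat_lit 532) (nat_lit 353144638) (nat_lit 323) (nat_lit 1) (nat_lit 315) (nat_lit 1) (nat_lit 322) (nat_lit 1) (nat_lit 395) (nat_lit 326) (nat_lit 299)) (XT.lf (nat_lit 76) (nat_lit 445882091) (nat_lit 0) (nat_lit 931879230) (nat_lit 608) (nat_lit 445882091) (nat_lit 316) (nat_lit 1) (nat_lit 315) (nat_lit 1) (nat_lit 323) (nat_lit 1) (nat_lit 396) (nat_lit 326) (nat_lit 298))) (XT.nd (nat_lit 78) (nat_lit 456) (nat_lit 0) (XT.lf (nat_lit 608) (nat_lit 640635701) (nat_lit 0) (nat_lit 579884287) (nat_lit 532) (nat_lit 579884287) (nat_lit 316) (nat_lit 1) (nat_lit 308) (nat_lit 1) (nat_lit 315) (nat_lit 1) (nat_lit 397) (nat_lit 326) (nat_lit 297)) (XT.nd (nat_lit 78) (nat_lit 456) (nat_lit 0) (XT.lf (nat_lit 76) (nat_lit 195239357) (nat_lit 0) (nat_lit 1387178547) (nat_lit 608) (nat_lit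 195239357) (nat_lit 309) (nat_lit 1) (nat_lit 308) (nat_lit 1) (nat_lit 316) (nat_lit 1) (nat_lit 398) (nat_lit 326) (nat_lit 296)) (XT.lf (nat_lit 532) (nat_lit 134008063) (nat_lit 0) (nat_lit 810584304) (nat_lit 456) (nat_lit 810584304) (nat_lit 309) (nat_lit 1) (nat_lit 302) (nat_lit 1) (nat_lit 308) (nat_lit 1) (nat_lit 399) (nat_lit 326) (nat_lit 295))))))))
noncomputable def ec30 : XT := (XT.nd (nat_lit 1482) (nat_lit 3040) (nat_lit 0) (XT.nd (nat_lit 702) (nat_lit 2356) (nat_lit 0) (XT.nd (nat_lit 312) (nat_lit 1368) (nat_lit 0) (XT.nd (nat_lit 156) (nat_lit 456) (nat_lit 0) (XT.nd (nat_lit 78) (nat_lit 0) (nat_lit 0) (XT.lf (nat_lit 608) (nat_lit 1618065788) (nat_lit 0) (nat_lit 57589497) (nat_lit 532) (nat_lit 57589497) (nat_lit 302) (nat_lit 1) (nat_lit 294) (nat_lit 1) (nat_lit 301) (nat_lit 1) (nat_lit 400) (nat_lit 326) (nat_lit 294)) (XT.lf (nat_lit 76) (nat_lit 670662176) (nat_lit 0)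 (nat_lit 370123201) (nat_lit 608) (nat_lit 670662176) (nat_lit 295) (nat_lit 1) (nat_lit 294) (nat_lit 1) (nat_lit 302) (nat_lit 1) (nat_lit 401) (nat_lit 326) (nat_lit 293))) (XT.nd (nat_lit 78) (nat_lit 0) (nat_lit 0) (XT.lf (nat_lit 532) (nat_lit 1069014689) (nat_lit 0) (nat_lit 310582408) (nat_lit 456) (nat_lit 310582408) (nat_lit 295) (nat_lit 1) (nat_lit 288) (nat_lit 1) (nat_lit 294) (nat_lit 1) (nat_lit 402) (nat_lit 326) (nat_lit 292)) (XT.lf (nat_lit 76) (nat_lit 397026035) (nat_lit 0) (nat_lit 875170565) (nat_lit 532) (nat_lit 397026035) (nat_lit 289) (nat_lit 1) (nat_lit 288) (nat_lit 1) (nat_lit 295) (nat_lit 1) (nat_lit 403) (nat_lit 326) (nat_lit 291)))) (XT.nd (nat_lit 156) (nat_lit 912) (nat_lit 0) (XT.nd (nat_lit 78) (nat_lit 0) (nat_lit 0) (XT.lf (nat_lit 532) (nat_lit 518517969) (nat_lit 0) (nat_lit 565054142) (nat_lit 456) (nat_lit 565054142) (nat_lit 289) (nat_lit 1) (nat_lit 282)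 (nat_lit 1) (nat_lit 288) (nat_lit 1) (nat_lit 404) (nat_lit 326) (nat_lit 290)) (XT.lf (nat_lit 76) (nat_lit 122937645) (nat_lit 0) (nat_lit 1382604945) (nat_lit 532) (nat_lit 122937645) (nat_lit 283) (nat_lit 1) (nat_lit 282) (nat_lit 1) (nat_lit 289) (nat_lit 1) (nat_lit 405) (nat_lit 326) (nat_lit 289))) (XT.nd (nat_lit 78) (nat_lit 456) (nat_lit 0) (XT.lf (nat_lit 76) (nat_lit 788383721) (nat_lit 0) (nat_lit 31749412) (nat_lit 456) (nat_lit 788383721) (nat_lit 277) (nat_lit 1) (nat_lit 276) (nat_lit 1) (nat_lit 282) (nat_lit 1) (nat_lit 406) (nat_lit 326) (nat_lit 288)) (XT.nd (nat_lit 78) (nat_lit 0) (nat_lit 0) (XT.lf (nat_lit 532) (nat_lit 1289737658) (nat_lit 0) (nat_lit 149624915) (nat_lit 456) (nat_lit 149624915) (nat_lit 277) (nat_lit 1) (nat_lit 270) (nat_lit 1) (nat_lit 276) (nat_lit 1) (nat_lit 407) (nat_lit 326) (nat_lit 287)) (XT.lf (nat_lit 76) (nat_lit 499149142) (nat_lit 0) (nat_lit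 571356721) (nat_lit 532) (nat_lit 499149142) (nat_lit 271) (nat_lit 1) (nat_lit 270) (nat_lit 1) (nat_lit 277) (nat_lit 1) (nat_lit 408) (nat_lit 326) (nat_lit 286)))))) (XT.nd (nat_lit 390) (nat_lit 1140) (nat_lit 0) (XT.nd (nat_lit 156) (nat_lit 836) (nat_lit 0) (XT.nd (nat_lit 78) (nat_lit 0) (nat_lit 0) (XT.lf (nat_lit 456) (nat_lit 709745902) (nat_lit 0) (nat_lit 420488277) (nat_lit 380) (nat_lit 420488277) (nat_lit 271) (nat_lit 1) (nat_lit 265) (nat_lit 1) (nat_lit 270) (nat_lit 1) (nat_lit 409) (nat_lit 326) (nat_lit 285)) (XT.lf (nat_lit 76) (nat_lit 211285384) (nat_lit 0) (nat_lit 1109565894) (nat_lit 456) (nat_lit 211285384) (nat_lit 266) (nat_lit 1) (nat_lit 265) (nat_lit 1) (nat_lit 271) (nat_lit 1) (nat_lit 410) (nat_lit 326) (nat_lit 284))) (XT.nd (nat_lit 78) (nat_lit 456) (nat_lit 0) (XT.lf (nat_lit 456) (nat_lit 132881864) (nat_lit 0) (nat_lit 690446751) (nat_lit 380) (nat_lit 690446751)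 (nat_lit 266) (nat_lit 1) (nat_lit 260) (nat_lit 1) (nat_lit 265) (nat_lit 1) (nat_lit 411) (nat_lit 326) (nat_lit 283)) (XT.nd (nat_lit 78) (nat_lit 0) (nat_lit 0) (XT.lf (nat_lit 456) (nat_lit 1347606116) (nat_lit 0) (nat_lit 74108830) (nat_lit 380) (nat_lit 74108830) (nat_lit 260) (nat_lit 1) (nat_lit 254) (nat_lit 1) (nat_lit 259) (nat_lit 1) (nat_lit 412) (nat_lit 326) (nat_lit 282)) (XT.lf (nat_lit 76) (nat_lit 523201434) (nat_lit 0) (nat_lit 431566355) (nat_lit 456) (nat_lit 523201434) (nat_lit 255) (nat_lit 1) (nat_lit 254) (nat_lit 1) (nat_lit 260) (nat_lit 1) (nat_lit 413) (nat_lit 326) (nat_lit 281))))) (XT.nd (nat_lit 156) (nat_lit 760) (nat_lit 0) (XT.nd (nat_lit 78) (nat_lit 0) (nat_lit 0) (XT.lf (nat_lit 456) (nat_lit 749741488) (nat_lit 0) (nat_lit 355384992) (nat_lit 380) (nat_lit 355384992) (nat_lit 255) (nat_lit 1) (nat_lit 249) (nat_lit 1) (nat_lit 254) (nat_lit 1) (nat_lit 414)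 (nat_lit 326) (nat_lit 280)) (XT.lf (nat_lit 76) (nat_lit 227148773) (nat_lit 0) (nat_lit 989048442) (nat_lit 456) (nat_lit 227148773) (nat_lit 250) (nat_lit 1) (nat_lit 249) (nat_lit 1) (nat_lit 255) (nat_lit 1) (nat_lit 415) (nat_lit 326) (nat_lit 279))) (XT.nd (nat_lit 78) (nat_lit 456) (nat_lit 0) (XT.lf (nat_lit 380) (nat_lit 157762217) (nat_lit 0) (nat_lit 634317916) (nat_lit 304) (nat_lit 634317916) (nat_lit 250) (nat_lit 1) (nat_lit 245) (nat_lit 1) (nat_lit 249) (nat_lit 1) (nat_lit 416) (nat_lit 326) (nat_lit 278)) (XT.nd (nat_lit 78) (nat_lit 0) (nat_lit 0) (XT.lf (nat_lit 456) (nat_lit 1279414895) (nat_lit 0) (nat_lit 65203502) (nat_lit 380) (nat_lit 65203502) (nat_lit 245) (nat_lit 1) (nat_lit 239) (nat_lit 1) (nat_lit 244) (nat_lit 1) (nat_lit 417) (nat_lit 326) (nat_lit 277)) (XT.lf (nat_lit 76) (nat_lit 486911401) (nat_lit 0) (nat_lit 419492625) (nat_lit 456) (nat_lit 486911401) (nat_lit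 240) (nat_lit 1) (nat_lit 239) (nat_lit 1) (nat_lit 245) (nat_lit 1) (nat_lit 418) (nat_lit 326) (nat_lit 276))))))) (XT.nd (nat_lit 702) (nat_lit 1140) (nat_lit 0) (XT.nd (nat_lit 312) (nat_lit 912) (nat_lit 0) (XT.nd (nat_lit 156) (nat_lit 684) (nat_lit 0) (XT.nd (nat_lit 78) (nat_lit 0) (nat_lit 0) (XT.lf (nat_lit 380) (nat_lit 673018778) (nat_lit 0) (nat_lit 352075580) (nat_lit 304) (nat_lit 352075580) (nat_lit 240) (nat_lit 1) (nat_lit 235) (nat_lit 1) (nat_lit 239) (nat_lit 1) (nat_lit 419) (nat_lit 326) (nat_lit 275)) (XT.lf (nat_lit 76) (nat_lit 187156241) (nat_lit 0) (nat_lit 986988140) (nat_lit 380) (nat_lit 187156241) (nat_lit 236) (nat_lit 1) (nat_lit 235) (nat_lit 1) (nat_lit 240) (nat_lit 1) (nat_lit 420) (nat_lit 326) (nat_lit 274))) (XT.nd (nat_lit 78) (nat_lit 380) (nat_lit 0) (XT.lf (nat_lit 380) (nat_lit 74630017) (nat_lit 0) (nat_lit 635490834) (nat_lit 304) (nat_lit 635490834) (nat_lit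 236) (nat_lit 1) (nat_lit 231) (nat_lit 1) (nat_lit 235) (nat_lit 1) (nat_lit 421) (nat_lit 326) (nat_lit 273)) (XT.lf (nat_lit 380) (nat_lit 1115297682) (nat_lit 0) (nat_lit 107467338) (nat_lit 304) (nat_lit 107467338) (nat_lit 231) (nat_lit 1) (nat_lit 226) (nat_lit 1) (nat_lit 230) (nat_lit 1) (nat_lit 422) (nat_lit 326) (nat_lit 272)))) (XT.nd (nat_lit 156) (nat_lit 608) (nat_lit 0) (XT.nd (nat_lit 78) (nat_lit 304) (nat_lit 0) (XT.lf (nat_lit 76) (nat_lit 404792982) (nat_lit 0) (nat_lit 505372489) (nat_lit 380) (nat_lit 404792982) (nat_lit 227) (nat_lit 1) (nat_lit 226) (nat_lit 1) (nat_lit 231) (nat_lit 1) (nat_lit 423) (nat_lit 326) (nat_lit 271)) (XT.lf (nat_lit 380) (nat_lit 507823839) (nat_lit 0) (nat_lit 396080635) (nat_lit 304) (nat_lit 396080635) (nat_lit 227) (nat_lit 1) (nat_lit 222) (nat_lit 1) (nat_lit 226) (nat_lit 1) (nat_lit 424) (nat_lit 326) (nat_lit 270))) (XT.nd (nat_lit 78)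 (nat_lit 608) (nat_lit 0) (XT.lf (nat_lit 76) (nat_lit 104911471) (nat_lit 0) (nat_lit 1075478492) (nat_lit 380) (nat_lit 104911471) (nat_lit 223) (nat_lit 1) (nat_lit 222) (nat_lit 1) (nat_lit 227) (nat_lit 1) (nat_lit 425) (nat_lit 326) (nat_lit 269)) (XT.nd (nat_lit 78) (nat_lit 304) (nat_lit 0) (XT.lf (nat_lit 76) (nat_lit 591213599) (nat_lit 0) (nat_lit 88285173) (nat_lit 304) (nat_lit 591213599) (nat_lit 219) (nat_lit 1) (nat_lit 218) (nat_lit 1) (nat_lit 222) (nat_lit 1) (nat_lit 426) (nat_lit 326) (nat_lit 268)) (XT.lf (nat_lit 380) (nat_lit 879851249) (nat_lit 0) (nat_lit 188276844) (nat_lit 304) (nat_lit 188276844) (nat_lit 219) (nat_lit 1) (nat_lit 214) (nat_lit 1) (nat_lit 218) (nat_lit 1) (nat_lit 427) (nat_lit 326) (nat_lit 267)))))) (XT.nd (nat_lit 390) (nat_lit 304) (nat_lit 0) (XT.nd (nat_lit 156) (nat_lit 608) (nat_lit 0) (XT.nd (nat_lit 78) (nat_lit 228) (nat_lit 0) (XT.lf (nat_lit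 76) (nat_lit 288688396) (nat_lit 0) (nat_lit 664883701) (nat_lit 380) (nat_lit 288688396) (nat_lit 215) (nat_lit 1) (nat_lit 214) (nat_lit 1) (nat_lit 219) (nat_lit 1) (nat_lit 428) (nat_lit 326) (nat_lit 266)) (XT.lf (nat_lit 304) (nat_lit 277193804) (nat_lit 0) (nat_lit 475572181) (nat_lit 228) (nat_lit 475572181) (nat_lit 215) (nat_lit 1) (nat_lit 211) (nat_lit 1) (nat_lit 214) (nat_lit 1) (nat_lit 429) (nat_lit 326) (nat_lit 265))) (XT.nd (nat_lit 78) (nat_lit 228) (nat_lit 0) (XT.lf (nat_lit 380) (nat_lit 1197907647) (nat_lit 0) (nat_lit 8411955) (nat_lit 304) (nat_lit 8411955) (nat_lit 211) (nat_lit 1) (nat_lit 206) (nat_lit 1) (nat_lit 210) (nat_lit 1) (nat_lit 430) (nat_lit 326) (nat_lit 264)) (XT.nd (nat_lit 78) (nat_lit 228) (nat_lit 0) (XT.lf (nat_lit 76) (nat_lit 446278340) (nat_lit 0) (nat_lit 308541518) (nat_lit 380) (nat_lit 446278340) (nat_lit 207) (nat_lit 1) (nat_lit 206) (nat_lit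 1) (nat_lit 211) (nat_lit 1) (nat_lit 431) (nat_lit 326) (nat_lit 263)) (XT.lf (nat_lit 304) (nat_lit 593074514) (nat_lit 0) (nat_lit 297349655) (nat_lit 228) (nat_lit 297349655) (nat_lit 207) (nat_lit 1) (nat_lit 203) (nat_lit 1) (nat_lit 206) (nat_lit 1) (nat_lit 432) (nat_lit 326) (nat_lit 262))))) (XT.nd (nat_lit 47892) (nat_lit 0) (nat_lit 13300) (XT.nd (nat_lit 78) (nat_lit 304) (nat_lit 0) (XT.lf (nat_lit 76) (nat_lit 148221552) (nat_lit 0) (nat_lit 878223403) (nat_lit 304) (nat_lit 148221552) (nat_lit 204) (nat_lit 1) (nat_lit 203) (nat_lit 1) (nat_lit 207) (nat_lit 1) (nat_lit 433) (nat_lit 326) (nat_lit 261)) (XT.lf (nat_lit 76) (nat_lit 580767320) (nat_lit 0) (nat_lit 155493) (nat_lit 304) (nat_lit 580767320) (nat_lit 200) (nat_lit 1) (nat_lit 199) (nat_lit 1) (nat_lit 203) (nat_lit 1) (nat_lit 434) (nat_lit 326) (nat_lit 260))) (XT.nd (nat_lit 78) (nat_lit 0) (nat_lit 0) (XT.lf (nat_lit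 1292) (nat_lit 253969027) (nat_lit 0) (nat_lit 873771568) (nat_lit 1292) (nat_lit 253969027) (nat_lit 391) (nat_lit 1) (nat_lit 374) (nat_lit 0) (nat_lit 391) (nat_lit 0) (nat_lit 366) (nat_lit 327) (nat_lit 327)) (XT.nd (nat_lit 78) (nat_lit 0) (nat_lit 76) (XT.lf (nat_lit 1292) (nat_lit 992515410) (nat_lit 76) (nat_lit 865205180) (nat_lit 0) (nat_lit 865205180) (nat_lit 391) (nat_lit 1) (nat_lit 375) (nat_lit 1) (nat_lit 374) (nat_lit 0) (nat_lit 367) (nat_lit 327) (nat_lit 326)) (XT.lf (nat_lit 1292) (nat_lit 480004116) (nat_lit 0) (nat_lit 1723317262) (nat_lit 1216) (nat_lit 480004116) (nat_lit 392) (nat_lit 1) (nat_lit 375) (nat_lit 1) (nat_lit 391) (nat_lit 1) (nat_lit 368) (nat_lit 327) (nat_lit 325))))))))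
noncomputable def ec31 : XT := (XT.nd (nat_lit 1482) (nat_lit 5776) (nat_lit 0) (XT.nd (nat_lit 702) (nat_lit 2204) (nat_lit 0) (XT.nd (nat_lit 312) (nat_lit 0) (nat_lit 152) (XT.nd (nat_lit 156) (nat_lit 0) (nat_lit 76) (XT.nd (nat_lit 78) (nat_lit 0) (nat_lit 76) (XT.lf (nat_lit 1292) (nat_lit 911552600) (nat_lit 76) (nat_lit 866416966) (nat_lit 0) (nat_lit 866416966) (nat_lit 392) (nat_lit 1) (nat_lit 376) (nat_lit 1) (nat_lit 375) (nat_lit 1) (nat_lit 369) (nat_lit 327) (nat_lit 324)) (XT.lf (nat_lit 1292) (nat_lit 427741511) (nat_lit 0) (nat_lit 1750835818) (nat_lit 1216) (nat_lit 427741511) (nat_lit 393) (nat_lit 1) (nat_lit 376) (nat_lit 1) (nat_lit 392) (nat_lit 1) (nat_lit 370) (nat_lit 327) (nat_lit 323))) (XT.nd (nat_lit 78) (nat_lit 0) (nat_lit 76) (XT.lf (nat_lit 1292) (nat_lit 783881483) (nat_lit 76) (nat_lit 892489240) (nat_lit 0) (nat_lit 892489240) (nat_lit 393) (nat_lit 1) (nat_lit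 377) (nat_lit 1) (nat_lit 376) (nat_lit 1) (nat_lit 371) (nat_lit 327) (nat_lit 322)) (XT.lf (nat_lit 1292) (nat_lit 353302111) (nat_lit 0) (nat_lit 1825661847) (nat_lit 1216) (nat_lit 353302111) (nat_lit 394) (nat_lit 1) (nat_lit 377) (nat_lit 1) (nat_lit 393) (nat_lit 1) (nat_lit 372) (nat_lit 327) (nat_lit 321)))) (XT.nd (nat_lit 156) (nat_lit 0) (nat_lit 76) (XT.nd (nat_lit 78) (nat_lit 0) (nat_lit 76) (XT.lf (nat_lit 1292) (nat_lit 613679110) (nat_lit 76) (nat_lit 941268792) (nat_lit 0) (nat_lit 941268792) (nat_lit 394) (nat_lit 1) (nat_lit 378) (nat_lit 1) (nat_lit 377) (nat_lit 1) (nat_lit 373) (nat_lit 327) (nat_lit 320)) (XT.lf (nat_lit 1292) (nat_lit 258692261) (nat_lit 0) (nat_lit 1943655808) (nat_lit 1216) (nat_lit 258692261) (nat_lit 395) (nat_lit 1) (nat_lit 378) (nat_lit 1) (nat_lit 394) (nat_lit 1) (nat_lit 374) (nat_lit 327) (nat_lit 319))) (XT.nd (nat_lit 78) (nat_lit 0) (nat_lit 76)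 (XT.lf (nat_lit 1292) (nat_lit 404839185) (nat_lit 76) (nat_lit 1010747162) (nat_lit 0) (nat_lit 1010747162) (nat_lit 395) (nat_lit 1) (nat_lit 379) (nat_lit 1) (nat_lit 378) (nat_lit 1) (nat_lit 375) (nat_lit 327) (nat_lit 318)) (XT.nd (nat_lit 78) (nat_lit 0) (nat_lit 0) (XT.lf (nat_lit 1292) (nat_lit 145781778) (nat_lit 0) (nat_lit 2100957261) (nat_lit 1216) (nat_lit 145781778) (nat_lit 396) (nat_lit 1) (nat_lit 379) (nat_lit 1) (nat_lit 395) (nat_lit 1) (nat_lit 376) (nat_lit 327) (nat_lit 317)) (XT.lf (nat_lit 1292) (nat_lit 160989598) (nat_lit 76) (nat_lit 1099051716) (nat_lit 0) (nat_lit 1099051716) (nat_lit 396) (nat_lit 1) (nat_lit 380) (nat_lit 1) (nat_lit 379) (nat_lit 1) (nat_lit 377) (nat_lit 327) (nat_lit 316)))))) (XT.nd (nat_lit 390) (nat_lit 1292) (nat_lit 0) (XT.nd (nat_lit 156) (nat_lit 0) (nat_lit 0) (XT.nd (nat_lit 78) (nat_lit 1292) (nat_lit 0) (XT.lf (nat_lit 1292) (nat_lit 16312404)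 (nat_lit 0) (nat_lit 2293967636) (nat_lit 1216) (nat_lit 16312404) (nat_lit 397) (nat_lit 1) (nat_lit 380) (nat_lit 1) (nat_lit 396) (nat_lit 1) (nat_lit 378) (nat_lit 327) (nat_lit 315)) (XT.lf (nat_lit 1368) (nat_lit 1091046735) (nat_lit 0) (nat_lit 112256945) (nat_lit 1292) (nat_lit 1091046735) (nat_lit 381) (nat_lit 1) (nat_lit 363) (nat_lit 1) (nat_lit 380) (nat_lit 1) (nat_lit 379) (nat_lit 327) (nat_lit 314))) (XT.nd (nat_lit 78) (nat_lit 0) (nat_lit 76) (XT.lf (nat_lit 1368) (nat_lit 2009320246) (nat_lit 76) (nat_lit 126838405) (nat_lit 0) (nat_lit 126838405) (nat_lit 381) (nat_lit 1) (nat_lit 364) (nat_lit 1) (nat_lit 363) (nat_lit 1) (nat_lit 380) (nat_lit 327) (nat_lit 313)) (XT.nd (nat_lit 78) (nat_lit 0) (nat_lit 0) (XT.lf (nat_lit 1368) (nat_lit 910842496) (nat_lit 0) (nat_lit 410292467) (nat_lit 1292) (nat_lit 910842496) (nat_lit 382) (nat_lit 1) (nat_lit 364) (nat_lit 1) (nat_lit 381)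 (nat_lit 1) (nat_lit 381) (nat_lit 327) (nat_lit 312)) (XT.lf (nat_lit 1368) (nat_lit 1635492368) (nat_lit 76) (nat_lit 283125909) (nat_lit 0) (nat_lit 283125909) (nat_lit 382) (nat_lit 1) (nat_lit 365) (nat_lit 1) (nat_lit 364) (nat_lit 1) (nat_lit 382) (nat_lit 327) (nat_lit 311))))) (XT.nd (nat_lit 156) (nat_lit 608) (nat_lit 0) (XT.nd (nat_lit 78) (nat_lit 836) (nat_lit 0) (XT.lf (nat_lit 76) (nat_lit 719264918) (nat_lit 0) (nat_lit 733390017) (nat_lit 1292) (nat_lit 719264918) (nat_lit 366) (nat_lit 1) (nat_lit 365) (nat_lit 1) (nat_lit 382) (nat_lit 1) (nat_lit 383) (nat_lit 327) (nat_lit 310)) (XT.lf (nat_lit 912) (nat_lit 1240113979) (nat_lit 0) (nat_lit 451320395) (nat_lit 836) (nat_lit 451320395) (nat_lit 366) (nat_lit 1) (nat_lit 354) (nat_lit 1) (nat_lit 365) (nat_lit 1) (nat_lit 384) (nat_lit 327) (nat_lit 309))) (XT.nd (nat_lit 78) (nat_lit 608) (nat_lit 0) (XT.lf (nat_lit 76) (nat_lit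 517599434) (nat_lit 0) (nat_lit 1078882664) (nat_lit 912) (nat_lit 517599434) (nat_lit 355) (nat_lit 1) (nat_lit 354) (nat_lit 1) (nat_lit 366) (nat_lit 1) (nat_lit 385) (nat_lit 327) (nat_lit 308)) (XT.nd (nat_lit 78) (nat_lit 0) (nat_lit 0) (XT.lf (nat_lit 684) (nat_lit 825674877) (nat_lit 0) (nat_lit 630130242) (nat_lit 608) (nat_lit 630130242) (nat_lit 355) (nat_lit 1) (nat_lit 346) (nat_lit 1) (nat_lit 354) (nat_lit 1) (nat_lit 386) (nat_lit 327) (nat_lit 307)) (XT.lf (nat_lit 76) (nat_lit 307039264) (nat_lit 0) (nat_lit 1444292347) (nat_lit 684) (nat_lit 307039264) (nat_lit 347) (nat_lit 1) (nat_lit 346) (nat_lit 1) (nat_lit 355) (nat_lit 1) (nat_lit 387) (nat_lit 327) (nat_lit 306))))))) (XT.nd (nat_lit 702) (nat_lit 2888) (nat_lit 0) (XT.nd (nat_lit 312) (nat_lit 1064) (nat_lit 0) (XT.nd (nat_lit 156) (nat_lit 1216) (nat_lit 0) (XT.nd (nat_lit 78) (nat_lit 0) (nat_lit 0) (XT.lf (nat_lit 684)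 (nat_lit 394485451) (nat_lit 0) (nat_lit 818355684) (nat_lit 608) (nat_lit 818355684) (nat_lit 347) (nat_lit 1) (nat_lit 338) (nat_lit 1) (nat_lit 346) (nat_lit 1) (nat_lit 388) (nat_lit 327) (nat_lit 305)) (XT.lf (nat_lit 76) (nat_lit 88691246) (nat_lit 0) (nat_lit 1827317988) (nat_lit 684) (nat_lit 88691246) (nat_lit 339) (nat_lit 1) (nat_lit 338) (nat_lit 1) (nat_lit 347) (nat_lit 1) (nat_lit 389) (nat_lit 327) (nat_lit 304))) (XT.nd (nat_lit 78) (nat_lit 608) (nat_lit 0) (XT.lf (nat_lit 76) (nat_lit 964064304) (nat_lit 0) (nat_lit 50310680) (nat_lit 608) (nat_lit 964064304) (nat_lit 331) (nat_lit 1) (nat_lit 330) (nat_lit 1) (nat_lit 338) (nat_lit 1) (nat_lit 390) (nat_lit 327) (nat_lit 303)) (XT.lf (nat_lit 684) (nat_lit 1682666294) (nat_lit 0) (nat_lit 135081248) (nat_lit 608) (nat_lit 135081248) (nat_lit 331) (nat_lit 1) (nat_lit 322) (nat_lit 1) (nat_lit 330) (nat_lit 1) (nat_lit 391) (nat_lit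 327) (nat_lit 302)))) (XT.nd (nat_lit 156) (nat_lit 532) (nat_lit 0) (XT.nd (nat_lit 78) (nat_lit 532) (nat_lit 0) (XT.lf (nat_lit 76) (nat_lit 713846653) (nat_lit 0) (nat_lit 499785680) (nat_lit 684) (nat_lit 713846653) (nat_lit 323) (nat_lit 1) (nat_lit 322) (nat_lit 1) (nat_lit 331) (nat_lit 1) (nat_lit 392) (nat_lit 327) (nat_lit 301)) (XT.lf (nat_lit 608) (nat_lit 1175246856) (nat_lit 0) (nat_lit 363738977) (nat_lit 532) (nat_lit 363738977) (nat_lit 323) (nat_lit 1) (nat_lit 315) (nat_lit 1) (nat_lit 322) (nat_lit 1) (nat_lit 393) (nat_lit 327) (nat_lit 300))) (XT.nd (nat_lit 78) (nat_lit 532) (nat_lit 0) (XT.lf (nat_lit 76) (nat_lit 459258554) (nat_lit 0) (nat_lit 959835607) (nat_lit 608) (nat_lit 459258554) (nat_lit 316) (nat_lit 1) (nat_lit 315) (nat_lit 1) (nat_lit 323) (nat_lit 1) (nat_lit 394) (nat_lit 327) (nat_lit 299)) (XT.nd (nat_lit 78) (nat_lit 0) (nat_lit 0) (XT.lf (nat_lit 608) (nat_lit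 659854772) (nat_lit 0) (nat_lit 597280815) (nat_lit 532) (nat_lit 597280815) (nat_lit 316) (nat_lit 1) (nat_lit 308) (nat_lit 1) (nat_lit 315) (nat_lit 1) (nat_lit 395) (nat_lit 327) (nat_lit 298)) (XT.lf (nat_lit 76) (nat_lit 201096537) (nat_lit 0) (nat_lit 1428793904) (nat_lit 608) (nat_lit 201096537) (nat_lit 309) (nat_lit 1) (nat_lit 308) (nat_lit 1) (nat_lit 316) (nat_lit 1) (nat_lit 396) (nat_lit 327) (nat_lit 297)))))) (XT.nd (nat_lit 390) (nat_lit 1368) (nat_lit 0) (XT.nd (nat_lit 156) (nat_lit 456) (nat_lit 0) (XT.nd (nat_lit 78) (nat_lit 608) (nat_lit 0) (XT.lf (nat_lit 532) (nat_lit 138028304) (nat_lit 0) (nat_lit 834901833) (nat_lit 456) (nat_lit 834901833) (nat_lit 309) (nat_lit 1) (nat_lit 302) (nat_lit 1) (nat_lit 308) (nat_lit 1) (nat_lit 397) (nat_lit 327) (nat_lit 296)) (XT.lf (nat_lit 608) (nat_lit 1666607762) (nat_lit 0) (nat_lit 59317182) (nat_lit 532) (nat_lit 59317182) (nat_lit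 302) (nat_lit 1) (nat_lit 294) (nat_lit 1) (nat_lit 301) (nat_lit 1) (nat_lit 398) (nat_lit 327) (nat_lit 295))) (XT.nd (nat_lit 78) (nat_lit 456) (nat_lit 0) (XT.lf (nat_lit 76) (nat_lit 690782041) (nat_lit 0) (nat_lit 381226897) (nat_lit 608) (nat_lit 690782041) (nat_lit 295) (nat_lit 1) (nat_lit 294) (nat_lit 1) (nat_lit 302) (nat_lit 1) (nat_lit 399) (nat_lit 327) (nat_lit 294)) (XT.nd (nat_lit 78) (nat_lit 0) (nat_lit 0) (XT.lf (nat_lit 532) (nat_lit 1101085130) (nat_lit 0) (nat_lit 319899880) (nat_lit 456) (nat_lit 319899880) (nat_lit 295) (nat_lit 1) (nat_lit 288) (nat_lit 1) (nat_lit 294) (nat_lit 1) (nat_lit 400) (nat_lit 327) (nat_lit 293)) (XT.lf (nat_lit 76) (nat_lit 408936816) (nat_lit 0) (nat_lit 901425681) (nat_lit 532) (nat_lit 408936816) (nat_lit 289) (nat_lit 1) (nat_lit 288) (nat_lit 1) (nat_lit 295) (nat_lit 1) (nat_lit 401) (nat_lit 327) (nat_lit 292))))) (XT.nd (nat_lit 156) (nat_lit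 912) (nat_lit 0) (XT.nd (nat_lit 78) (nat_lit 0) (nat_lit 0) (XT.lf (nat_lit 532) (nat_lit 534073508) (nat_lit 0) (nat_lit 582005766) (nat_lit 456) (nat_lit 582005766) (nat_lit 289) (nat_lit 1) (nat_lit 282) (nat_lit 1) (nat_lit 288) (nat_lit 1) (nat_lit 402) (nat_lit 327) (nat_lit 291)) (XT.lf (nat_lit 76) (nat_lit 126625775) (nat_lit 0) (nat_lit 1424083093) (nat_lit 532) (nat_lit 126625775) (nat_lit 283) (nat_lit 1) (nat_lit 282) (nat_lit 1) (nat_lit 289) (nat_lit 1) (nat_lit 403) (nat_lit 327) (nat_lit 290))) (XT.nd (nat_lit 78) (nat_lit 456) (nat_lit 0) (XT.lf (nat_lit 76) (nat_lit 812035232) (nat_lit 0) (nat_lit 32701894) (nat_lit 456) (nat_lit 812035232) (nat_lit 277) (nat_lit 1) (nat_lit 276) (nat_lit 1) (nat_lit 282) (nat_lit 1) (nat_lit 404) (nat_lit 327) (nat_lit 289)) (XT.nd (nat_lit 78) (nat_lit 0) (nat_lit 0) (XT.lf (nat_lit 532) (nat_lit 1328429788) (nat_lit 0) (nat_lit 154113662) (nat_lit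 456) (nat_lit 154113662) (nat_lit 277) (nat_lit 1) (nat_lit 270) (nat_lit 1) (nat_lit 276) (nat_lit 1) (nat_lit 405) (nat_lit 327) (nat_lit 288)) (XT.lf (nat_lit 76) (nat_lit 514123617) (nat_lit 0) (nat_lit 588497423) (nat_lit 532) (nat_lit 514123617) (nat_lit 271) (nat_lit 1) (nat_lit 270) (nat_lit 1) (nat_lit 277) (nat_lit 1) (nat_lit 406) (nat_lit 327) (nat_lit 287))))))))
noncomputable def ec32 : XT := (XT.nd (nat_lit 1404) (nat_lit 1672) (nat_lit 0) (XT.nd (nat_lit 702) (nat_lit 1596) (nat_lit 0) (XT.nd (nat_lit 312) (nat_lit 1140) (nat_lit 0) (XT.nd (nat_lit 156) (nat_lit 836) (nat_lit 0) (XT.nd (nat_lit 78) (nat_lit 0) (nat_lit 0) (XT.lf (nat_lit 456) (nat_lit 731038279) (nat_lit 0) (nat_lit 433102925) (nat_lit 380) (nat_lit 433102925) (nat_lit 271) (nat_lit 1) (nat_lit 265) (nat_lit 1) (nat_lit 270) (nat_lit 1) (nat_lit 407) (nat_lit 327) (nat_lit 286)) (XT.lf (nat_lit 76) (nat_lit 217623946)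 (nat_lit 0) (nat_lit 1142852871) (nat_lit 456) (nat_lit 217623946) (nat_lit 266) (nat_lit 1) (nat_lit 265) (nat_lit 1) (nat_lit 271) (nat_lit 1) (nat_lit 408) (nat_lit 327) (nat_lit 285))) (XT.nd (nat_lit 78) (nat_lit 456) (nat_lit 0) (XT.lf (nat_lit 456) (nat_lit 136868320) (nat_lit 0) (nat_lit 711160153) (nat_lit 380) (nat_lit 711160153) (nat_lit 266) (nat_lit 1) (nat_lit 260) (nat_lit 1) (nat_lit 265) (nat_lit 1) (nat_lit 409) (nat_lit 327) (nat_lit 284)) (XT.lf (nat_lit 456) (nat_lit 1388034299) (nat_lit 0) (nat_lit 76332095) (nat_lit 380) (nat_lit 76332095) (nat_lit 260) (nat_lit 1) (nat_lit 254) (nat_lit 1) (nat_lit 259) (nat_lit 1) (nat_lit 410) (nat_lit 327) (nat_lit 283)))) (XT.nd (nat_lit 156) (nat_lit 760) (nat_lit 0) (XT.nd (nat_lit 78) (nat_lit 380) (nat_lit 0) (XT.lf (nat_lit 76) (nat_lit 538897477) (nat_lit 0) (nat_lit 444513346) (nat_lit 456) (nat_lit 538897477) (nat_lit 255) (nat_lit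 1) (nat_lit 254) (nat_lit 1) (nat_lit 260) (nat_lit 1) (nat_lit 411) (nat_lit 327) (nat_lit 282)) (XT.lf (nat_lit 456) (nat_lit 772233732) (nat_lit 0) (nat_lit 366046542) (nat_lit 380) (nat_lit 366046542) (nat_lit 255) (nat_lit 1) (nat_lit 249) (nat_lit 1) (nat_lit 254) (nat_lit 1) (nat_lit 412) (nat_lit 327) (nat_lit 281))) (XT.nd (nat_lit 78) (nat_lit 760) (nat_lit 0) (XT.lf (nat_lit 76) (nat_lit 233963237) (nat_lit 0) (nat_lit 1018719896) (nat_lit 456) (nat_lit 233963237) (nat_lit 250) (nat_lit 1) (nat_lit 249) (nat_lit 1) (nat_lit 255) (nat_lit 1) (nat_lit 413) (nat_lit 327) (nat_lit 280)) (XT.nd (nat_lit 78) (nat_lit 456) (nat_lit 0) (XT.lf (nat_lit 380) (nat_lit 162495083) (nat_lit 0) (nat_lit 653347453) (nat_lit 304) (nat_lit 653347453) (nat_lit 250) (nat_lit 1) (nat_lit 245) (nat_lit 1) (nat_lit 249) (nat_lit 1) (nat_lit 414) (nat_lit 327) (nat_lit 279)) (XT.lf (nat_lit 456) (nat_lit 1317797342)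 (nat_lit 0) (nat_lit 67159608) (nat_lit 380) (nat_lit 67159608) (nat_lit 245) (nat_lit 1) (nat_lit 239) (nat_lit 1) (nat_lit 244) (nat_lit 1) (nat_lit 415) (nat_lit 327) (nat_lit 278)))))) (XT.nd (nat_lit 312) (nat_lit 988) (nat_lit 0) (XT.nd (nat_lit 156) (nat_lit 304) (nat_lit 0) (XT.nd (nat_lit 78) (nat_lit 304) (nat_lit 0) (XT.lf (nat_lit 76) (nat_lit 501518743) (nat_lit 0) (nat_lit 432077404) (nat_lit 456) (nat_lit 501518743) (nat_lit 240) (nat_lit 1) (nat_lit 239) (nat_lit 1) (nat_lit 245) (nat_lit 1) (nat_lit 416) (nat_lit 327) (nat_lit 277)) (XT.lf (nat_lit 380) (nat_lit 693209341) (nat_lit 0) (nat_lit 362637848) (nat_lit 304) (nat_lit 362637848) (nat_lit 240) (nat_lit 1) (nat_lit 235) (nat_lit 1) (nat_lit 239) (nat_lit 1) (nat_lit 417) (nat_lit 327) (nat_lit 276))) (XT.nd (nat_lit 78) (nat_lit 304) (nat_lit 0) (XT.lf (nat_lit 76) (nat_lit 192770928) (nat_lit 0) (nat_lit 1016597784) (nat_lit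 380) (nat_lit 192770928) (nat_lit 236) (nat_lit 1) (nat_lit 235) (nat_lit 1) (nat_lit 240) (nat_lit 1) (nat_lit 418) (nat_lit 327) (nat_lit 275)) (XT.lf (nat_lit 380) (nat_lit 76868918) (nat_lit 0) (nat_lit 654555559) (nat_lit 304) (nat_lit 654555559) (nat_lit 236) (nat_lit 1) (nat_lit 231) (nat_lit 1) (nat_lit 235) (nat_lit 1) (nat_lit 419) (nat_lit 327) (nat_lit 274)))) (XT.nd (nat_lit 156) (nat_lit 608) (nat_lit 0) (XT.nd (nat_lit 78) (nat_lit 0) (nat_lit 0) (XT.lf (nat_lit 380) (nat_lit 1148756613) (nat_lit 0) (nat_lit 110691359) (nat_lit 304) (nat_lit 110691359) (nat_lit 231) (nat_lit 1) (nat_lit 226) (nat_lit 1) (nat_lit 230) (nat_lit 1) (nat_lit 420) (nat_lit 327) (nat_lit 273)) (XT.lf (nat_lit 76) (nat_lit 416936771) (nat_lit 0) (nat_lit 520533664) (nat_lit 380) (nat_lit 416936771) (nat_lit 227) (nat_lit 1) (nat_lit 226) (nat_lit 1) (nat_lit 231) (nat_lit 1) (nat_lit 421) (nat_lit 327) (nat_lit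 272))) (XT.nd (nat_lit 78) (nat_lit 304) (nat_lit 0) (XT.lf (nat_lit 380) (nat_lit 523058554) (nat_lit 0) (nat_lit 407963054) (nat_lit 304) (nat_lit 407963054) (nat_lit 227) (nat_lit 1) (nat_lit 222) (nat_lit 1) (nat_lit 226) (nat_lit 1) (nat_lit 422) (nat_lit 327) (nat_lit 271)) (XT.nd (nat_lit 78) (nat_lit 304) (nat_lit 0) (XT.lf (nat_lit 76) (nat_lit 108058815) (nat_lit 0) (nat_lit 1107742847) (nat_lit 380) (nat_lit 108058815) (nat_lit 223) (nat_lit 1) (nat_lit 222) (nat_lit 1) (nat_lit 227) (nat_lit 1) (nat_lit 423) (nat_lit 327) (nat_lit 270)) (XT.lf (nat_lit 76) (nat_lit 608950007) (nat_lit 0) (nat_lit 90933728) (nat_lit 304) (nat_lit 608950007) (nat_lit 219) (nat_lit 1) (nat_lit 218) (nat_lit 1) (nat_lit 222) (nat_lit 1) (nat_lit 424) (nat_lit 327) (nat_lit 269))))))) (XT.nd (nat_lit 702) (nat_lit 0) (nat_lit 0) (XT.nd (nat_lit 312) (nat_lit 760) (nat_lit 0) (XT.nd (nat_lit 156) (nat_lit 608)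 (nat_lit 0) (XT.nd (nat_lit 78) (nat_lit 0) (nat_lit 0) (XT.lf (nat_lit 380) (nat_lit 906246786) (nat_lit 0) (nat_lit 193925149) (nat_lit 304) (nat_lit 193925149) (nat_lit 219) (nat_lit 1) (nat_lit 214) (nat_lit 1) (nat_lit 218) (nat_lit 1) (nat_lit 425) (nat_lit 327) (nat_lit 268)) (XT.lf (nat_lit 76) (nat_lit 297349048) (nat_lit 0) (nat_lit 684830212) (nat_lit 380) (nat_lit 297349048) (nat_lit 215) (nat_lit 1) (nat_lit 214) (nat_lit 1) (nat_lit 219) (nat_lit 1) (nat_lit 426) (nat_lit 327) (nat_lit 267))) (XT.nd (nat_lit 78) (nat_lit 380) (nat_lit 0) (XT.lf (nat_lit 304) (nat_lit 285509618) (nat_lit 0) (nat_lit 489839346) (nat_lit 228) (nat_lit 489839346) (nat_lit 215) (nat_lit 1) (nat_lit 211) (nat_lit 1) (nat_lit 214) (nat_lit 1) (nat_lit 427) (nat_lit 327) (nat_lit 266)) (XT.lf (nat_lit 380) (nat_lit 1233844877) (nat_lit 0) (nat_lit 8664313) (nat_lit 304) (nat_lit 8664313) (nat_lit 211) (nat_lit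 1) (nat_lit 206) (nat_lit 1) (nat_lit 210) (nat_lit 1) (nat_lit 428) (nat_lit 327) (nat_lit 265)))) (XT.nd (nat_lit 156) (nat_lit 532) (nat_lit 0) (XT.nd (nat_lit 78) (nat_lit 228) (nat_lit 0) (XT.lf (nat_lit 76) (nat_lit 459666690) (nat_lit 0) (nat_lit 317797764) (nat_lit 380) (nat_lit 459666690) (nat_lit 207) (nat_lit 1) (nat_lit 206) (nat_lit 1) (nat_lit 211) (nat_lit 1) (nat_lit 429) (nat_lit 327) (nat_lit 264)) (XT.lf (nat_lit 304) (nat_lit 610866749) (nat_lit 0) (nat_lit 306270144) (nat_lit 228) (nat_lit 306270144) (nat_lit 207) (nat_lit 1) (nat_lit 203) (nat_lit 1) (nat_lit 206) (nat_lit 1) (nat_lit 430) (nat_lit 327) (nat_lit 263))) (XT.nd (nat_lit 78) (nat_lit 532) (nat_lit 0) (XT.lf (nat_lit 76) (nat_lit 152668198) (nat_lit 0) (nat_lit 904570105) (nat_lit 304) (nat_lit 152668198) (nat_lit 204) (nat_lit 1) (nat_lit 203) (nat_lit 1) (nat_lit 207) (nat_lit 1) (nat_lit 431) (nat_lit 327) (nat_lit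 262)) (XT.nd (nat_lit 78) (nat_lit 228) (nat_lit 0) (XT.lf (nat_lit 76) (nat_lit 598190340) (nat_lit 0) (nat_lit 160158) (nat_lit 304) (nat_lit 598190340) (nat_lit 200) (nat_lit 1) (nat_lit 199) (nat_lit 1) (nat_lit 203) (nat_lit 1) (nat_lit 432) (nat_lit 327) (nat_lit 261)) (XT.lf (nat_lit 304) (nat_lit 889538604) (nat_lit 0) (nat_lit 146926988) (nat_lit 228) (nat_lit 146926988) (nat_lit 200) (nat_lit 1) (nat_lit 196) (nat_lit 1) (nat_lit 199) (nat_lit 1) (nat_lit 433) (nat_lit 327) (nat_lit 260)))))) (XT.nd (nat_lit 47970) (nat_lit 0) (nat_lit 13680) (XT.nd (nat_lit 47736) (nat_lit 0) (nat_lit 13528) (XT.nd (nat_lit 47658) (nat_lit 0) (nat_lit 13528) (XT.lf (nat_lit 76) (nat_lit 291413182) (nat_lit 0) (nat_lit 587544395) (nat_lit 304) (nat_lit 291413182) (nat_lit 197) (nat_lit 1) (nat_lit 196) (nat_lit 1) (nat_lit 200) (nat_lit 1) (nat_lit 434) (nat_lit 327) (nat_lit 259)) (XT.lf (nat_lit 1292) (nat_lit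 261588098) (nat_lit 0) (nat_lit 899984715) (nat_lit 1292) (nat_lit 261588098) (nat_lit 391) (nat_lit 1) (nat_lit 374) (nat_lit 0) (nat_lit 391) (nat_lit 0) (nat_lit 364) (nat_lit 328) (nat_lit 328))) (XT.nd (nat_lit 78) (nat_lit 0) (nat_lit 76) (XT.lf (nat_lit 1292) (nat_lit 1022290872) (nat_lit 76) (nat_lit 891161335) (nat_lit 0) (nat_lit 891161335) (nat_lit 391) (nat_lit 1) (nat_lit 375) (nat_lit 1) (nat_lit 374) (nat_lit 0) (nat_lit 365) (nat_lit 328) (nat_lit 327)) (XT.nd (nat_lit 78) (nat_lit 0) (nat_lit 0) (XT.lf (nat_lit 1292) (nat_lit 494404240) (nat_lit 0) (nat_lit 1775016780) (nat_lit 1216) (nat_lit 494404240) (nat_lit 392) (nat_lit 1) (nat_lit 375) (nat_lit 1) (nat_lit 391) (nat_lit 1) (nat_lit 366) (nat_lit 328) (nat_lit 326)) (XT.lf (nat_lit 1292) (nat_lit 938899178) (nat_lit 76) (nat_lit 892409475) (nat_lit 0) (nat_lit 892409475) (nat_lit 392) (nat_lit 1) (nat_lit 376) (nat_lit 1) (nat_lit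 375) (nat_lit 1) (nat_lit 367) (nat_lit 328) (nat_lit 325))))) (XT.nd (nat_lit 156) (nat_lit 0) (nat_lit 76) (XT.nd (nat_lit 78) (nat_lit 0) (nat_lit 0) (XT.lf (nat_lit 1292) (nat_lit 440573757) (nat_lit 0) (nat_lit 1803360893) (nat_lit 1216) (nat_lit 440573757) (nat_lit 393) (nat_lit 1) (nat_lit 376) (nat_lit 1) (nat_lit 392) (nat_lit 1) (nat_lit 368) (nat_lit 328) (nat_lit 324)) (XT.lf (nat_lit 1292) (nat_lit 807397928) (nat_lit 76) (nat_lit 919263918) (nat_lit 0) (nat_lit 919263918) (nat_lit 393) (nat_lit 1) (nat_lit 377) (nat_lit 1) (nat_lit 376) (nat_lit 1) (nat_lit 369) (nat_lit 328) (nat_lit 323))) (XT.nd (nat_lit 78) (nat_lit 0) (nat_lit 0) (XT.lf (nat_lit 1292) (nat_lit 363901174) (nat_lit 0) (nat_lit 1880431702) (nat_lit 1216) (nat_lit 363901174) (nat_lit 394) (nat_lit 1) (nat_lit 377) (nat_lit 1) (nat_lit 393) (nat_lit 1) (nat_lit 370) (nat_lit 328) (nat_lit 322)) (XT.nd (nat_lit 78) (nat_lit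 0) (nat_lit 76) (XT.lf (nat_lit 1292) (nat_lit 632089483) (nat_lit 76) (nat_lit 969506856) (nat_lit 0) (nat_lit 969506856) (nat_lit 394) (nat_lit 1) (nat_lit 378) (nat_lit 1) (nat_lit 377) (nat_lit 1) (nat_lit 371) (nat_lit 328) (nat_lit 321)) (XT.lf (nat_lit 1292) (nat_lit 266453029) (nat_lit 0) (nat_lit 2001965482) (nat_lit 1216) (nat_lit 266453029) (nat_lit 395) (nat_lit 1) (nat_lit 378) (nat_lit 1) (nat_lit 394) (nat_lit 1) (nat_lit 372) (nat_lit 328) (nat_lit 320))))))))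
noncomputable def ec33 : XT := (XT.nd (nat_lit 1482) (nat_lit 5016) (nat_lit 0) (XT.nd (nat_lit 702) (nat_lit 3648) (nat_lit 0) (XT.nd (nat_lit 312) (nat_lit 1140) (nat_lit 0) (XT.nd (nat_lit 156) (nat_lit 0) (nat_lit 76) (XT.nd (nat_lit 78) (nat_lit 0) (nat_lit 76) (XT.lf (nat_lit 1292) (nat_lit 416984360) (nat_lit 76) (nat_lit 1041069577) (nat_lit 0) (nat_lit 1041069577) (nat_lit 395) (nat_lit 1) (nat_lit 379) (nat_lit 1) (nat_lit 378) (nat_lit 1) (nat_lit 373) (nat_lit 328) (nat_lit 319)) (XT.lf (nat_lit 1292) (nat_lit 150155231) (nat_lit 0) (nat_lit 2163985979) (nat_lit 1216) (nat_lit 150155231) (nat_lit 396) (nat_lit 1) (nat_lit 379) (nat_lit 1) (nat_lit 395) (nat_lit 1) (nat_lit 374) (nat_lit 328) (nat_lit 318))) (XT.nd (nat_lit 78) (nat_lit 0) (nat_lit 76) (XT.lf (nat_lit 1292) (nat_lit 165819286) (nat_lit 76) (nat_lit 1132023268) (nat_lit 0) (nat_lit 1132023268) (nat_lit 396) (nat_lit 1) (nat_lit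 380) (nat_lit 1) (nat_lit 379) (nat_lit 1) (nat_lit 375) (nat_lit 328) (nat_lit 317)) (XT.lf (nat_lit 1292) (nat_lit 16801776) (nat_lit 0) (nat_lit 2362786665) (nat_lit 1216) (nat_lit 16801776) (nat_lit 397) (nat_lit 1) (nat_lit 380) (nat_lit 1) (nat_lit 396) (nat_lit 1) (nat_lit 376) (nat_lit 328) (nat_lit 316)))) (XT.nd (nat_lit 156) (nat_lit 0) (nat_lit 76) (XT.nd (nat_lit 78) (nat_lit 0) (nat_lit 0) (XT.lf (nat_lit 1368) (nat_lit 1123778137) (nat_lit 0) (nat_lit 115624653) (nat_lit 1292) (nat_lit 1123778137) (nat_lit 381) (nat_lit 1) (nat_lit 363) (nat_lit 1) (nat_lit 380) (nat_lit 1) (nat_lit 377) (nat_lit 328) (nat_lit 315)) (XT.lf (nat_lit 1368) (nat_lit 2069599853) (nat_lit 76) (nat_lit 130643557) (nat_lit 0) (nat_lit 130643557) (nat_lit 381) (nat_lit 1) (nat_lit 364) (nat_lit 1) (nat_lit 363) (nat_lit 1) (nat_lit 378) (nat_lit 328) (nat_lit 314))) (XT.nd (nat_lit 78) (nat_lit 0) (nat_lit 0)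 (XT.lf (nat_lit 1368) (nat_lit 938167771) (nat_lit 0) (nat_lit 422601241) (nat_lit 1292) (nat_lit 938167771) (nat_lit 382) (nat_lit 1) (nat_lit 364) (nat_lit 1) (nat_lit 381) (nat_lit 1) (nat_lit 379) (nat_lit 328) (nat_lit 313)) (XT.nd (nat_lit 78) (nat_lit 0) (nat_lit 76) (XT.lf (nat_lit 1368) (nat_lit 1684557139) (nat_lit 76) (nat_lit 291619686) (nat_lit 0) (nat_lit 291619686) (nat_lit 382) (nat_lit 1) (nat_lit 365) (nat_lit 1) (nat_lit 364) (nat_lit 1) (nat_lit 380) (nat_lit 328) (nat_lit 312)) (XT.lf (nat_lit 76) (nat_lit 740842865) (nat_lit 0) (nat_lit 755391717) (nat_lit 1292) (nat_lit 740842865) (nat_lit 366) (nat_lit 1) (nat_lit 365) (nat_lit 1) (nat_lit 382) (nat_lit 1) (nat_lit 381) (nat_lit 328) (nat_lit 311)))))) (XT.nd (nat_lit 390) (nat_lit 1748) (nat_lit 0) (XT.nd (nat_lit 156) (nat_lit 1216) (nat_lit 0) (XT.nd (nat_lit 78) (nat_lit 0) (nat_lit 0) (XT.lf (nat_lit 912) (nat_lit 1277317398)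 (nat_lit 0) (nat_lit 464860007) (nat_lit 836) (nat_lit 464860007) (nat_lit 366) (nat_lit 1) (nat_lit 354) (nat_lit 1) (nat_lit 365) (nat_lit 1) (nat_lit 382) (nat_lit 328) (nat_lit 310)) (XT.lf (nat_lit 76) (nat_lit 533127417) (nat_lit 0) (nat_lit 1111249144) (nat_lit 912) (nat_lit 533127417) (nat_lit 355) (nat_lit 1) (nat_lit 354) (nat_lit 1) (nat_lit 366) (nat_lit 1) (nat_lit 383) (nat_lit 328) (nat_lit 309))) (XT.nd (nat_lit 78) (nat_lit 608) (nat_lit 0) (XT.lf (nat_lit 684) (nat_lit 850445124) (nat_lit 0) (nat_lit 649034149) (nat_lit 608) (nat_lit 649034149) (nat_lit 355) (nat_lit 1) (nat_lit 346) (nat_lit 1) (nat_lit 354) (nat_lit 1) (nat_lit 384) (nat_lit 328) (nat_lit 308)) (XT.nd (nat_lit 78) (nat_lit 608) (nat_lit 0) (XT.lf (nat_lit 76) (nat_lit 316250442) (nat_lit 0) (nat_lit 1487621118) (nat_lit 684) (nat_lit 316250442) (nat_lit 347) (nat_lit 1) (nat_lit 346) (nat_lit 1) (nat_lit 355) (nat_lit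 1) (nat_lit 385) (nat_lit 328) (nat_lit 307)) (XT.lf (nat_lit 684) (nat_lit 406320015) (nat_lit 0) (nat_lit 842906354) (nat_lit 608) (nat_lit 842906354) (nat_lit 347) (nat_lit 1) (nat_lit 338) (nat_lit 1) (nat_lit 346) (nat_lit 1) (nat_lit 386) (nat_lit 328) (nat_lit 306))))) (XT.nd (nat_lit 156) (nat_lit 1140) (nat_lit 0) (XT.nd (nat_lit 78) (nat_lit 608) (nat_lit 0) (XT.lf (nat_lit 76) (nat_lit 91351983) (nat_lit 0) (nat_lit 1882137527) (nat_lit 684) (nat_lit 91351983) (nat_lit 339) (nat_lit 1) (nat_lit 338) (nat_lit 1) (nat_lit 347) (nat_lit 1) (nat_lit 387) (nat_lit 328) (nat_lit 305)) (XT.lf (nat_lit 76) (nat_lit 992986233) (nat_lit 0) (nat_lit 51820000) (nat_lit 608) (nat_lit 992986233) (nat_lit 331) (nat_lit 1) (nat_lit 330) (nat_lit 1) (nat_lit 338) (nat_lit 1) (nat_lit 388) (nat_lit 328) (nat_lit 304))) (XT.nd (nat_lit 78) (nat_lit 532) (nat_lit 0) (XT.lf (nat_lit 684) (nat_lit 1733146283)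 (nat_lit 0) (nat_lit 139133685) (nat_lit 608) (nat_lit 139133685) (nat_lit 331) (nat_lit 1) (nat_lit 322) (nat_lit 1) (nat_lit 330) (nat_lit 1) (nat_lit 389) (nat_lit 328) (nat_lit 303)) (XT.nd (nat_lit 78) (nat_lit 532) (nat_lit 0) (XT.lf (nat_lit 76) (nat_lit 735262052) (nat_lit 0) (nat_lit 514779250) (nat_lit 684) (nat_lit 735262052) (nat_lit 323) (nat_lit 1) (nat_lit 322) (nat_lit 1) (nat_lit 331) (nat_lit 1) (nat_lit 390) (nat_lit 328) (nat_lit 302)) (XT.lf (nat_lit 608) (nat_lit 1210504262) (nat_lit 0) (nat_lit 374651146) (nat_lit 532) (nat_lit 374651146) (nat_lit 323) (nat_lit 1) (nat_lit 315) (nat_lit 1) (nat_lit 322) (nat_lit 1) (nat_lit 391) (nat_lit 328) (nat_lit 301))))))) (XT.nd (nat_lit 702) (nat_lit 2508) (nat_lit 0) (XT.nd (nat_lit 312) (nat_lit 1520) (nat_lit 0) (XT.nd (nat_lit 156) (nat_lit 456) (nat_lit 0) (XT.nd (nat_lit 78) (nat_lit 532) (nat_lit 0) (XT.lf (nat_lit 76) (nat_lit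 473036310) (nat_lit 0) (nat_lit 988630675) (nat_lit 608) (nat_lit 473036310) (nat_lit 316) (nat_lit 1) (nat_lit 315) (nat_lit 1) (nat_lit 323) (nat_lit 1) (nat_lit 392) (nat_lit 328) (nat_lit 300)) (XT.lf (nat_lit 608) (nat_lit 679650415) (nat_lit 0) (nat_lit 615199240) (nat_lit 532) (nat_lit 615199240) (nat_lit 316) (nat_lit 1) (nat_lit 308) (nat_lit 1) (nat_lit 315) (nat_lit 1) (nat_lit 393) (nat_lit 328) (nat_lit 299))) (XT.nd (nat_lit 78) (nat_lit 456) (nat_lit 0) (XT.lf (nat_lit 76) (nat_lit 207129433) (nat_lit 0) (nat_lit 1471657721) (nat_lit 608) (nat_lit 207129433) (nat_lit 309) (nat_lit 1) (nat_lit 308) (nat_lit 1) (nat_lit 316) (nat_lit 1) (nat_lit 394) (nat_lit 328) (nat_lit 298)) (XT.lf (nat_lit 532) (nat_lit 142169154) (nat_lit 0) (nat_lit 859948888) (nat_lit 456) (nat_lit 859948888) (nat_lit 309) (nat_lit 1) (nat_lit 302) (nat_lit 1) (nat_lit 308) (nat_lit 1) (nat_lit 395) (nat_lit 328)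 (nat_lit 297)))) (XT.nd (nat_lit 156) (nat_lit 912) (nat_lit 0) (XT.nd (nat_lit 78) (nat_lit 0) (nat_lit 0) (XT.lf (nat_lit 608) (nat_lit 1716605994) (nat_lit 0) (nat_lit 61096698) (nat_lit 532) (nat_lit 61096698) (nat_lit 302) (nat_lit 1) (nat_lit 294) (nat_lit 1) (nat_lit 301) (nat_lit 1) (nat_lit 396) (nat_lit 328) (nat_lit 296)) (XT.lf (nat_lit 76) (nat_lit 711505503) (nat_lit 0) (nat_lit 392663704) (nat_lit 608) (nat_lit 711505503) (nat_lit 295) (nat_lit 1) (nat_lit 294) (nat_lit 1) (nat_lit 302) (nat_lit 1) (nat_lit 397) (nat_lit 328) (nat_lit 295))) (XT.nd (nat_lit 78) (nat_lit 456) (nat_lit 0) (XT.lf (nat_lit 532) (nat_lit 1134117684) (nat_lit 0) (nat_lit 329496877) (nat_lit 456) (nat_lit 329496877) (nat_lit 295) (nat_lit 1) (nat_lit 288) (nat_lit 1) (nat_lit 294) (nat_lit 1) (nat_lit 398) (nat_lit 328) (nat_lit 294)) (XT.nd (nat_lit 78) (nat_lit 456) (nat_lit 0) (XT.lf (nat_lit 76) (nat_lit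 421204921) (nat_lit 0) (nat_lit 928468452) (nat_lit 532) (nat_lit 421204921) (nat_lit 289) (nat_lit 1) (nat_lit 288) (nat_lit 1) (nat_lit 295) (nat_lit 1) (nat_lit 399) (nat_lit 328) (nat_lit 293)) (XT.lf (nat_lit 532) (nat_lit 550095713) (nat_lit 0) (nat_lit 599465939) (nat_lit 456) (nat_lit 599465939) (nat_lit 289) (nat_lit 1) (nat_lit 282) (nat_lit 1) (nat_lit 288) (nat_lit 1) (nat_lit 400) (nat_lit 328) (nat_lit 292)))))) (XT.nd (nat_lit 390) (nat_lit 1216) (nat_lit 0) (XT.nd (nat_lit 156) (nat_lit 836) (nat_lit 0) (XT.nd (nat_lit 78) (nat_lit 456) (nat_lit 0) (XT.lf (nat_lit 76) (nat_lit 130424548) (nat_lit 0) (nat_lit 1466805586) (nat_lit 532) (nat_lit 130424548) (nat_lit 283) (nat_lit 1) (nat_lit 282) (nat_lit 1) (nat_lit 289) (nat_lit 1) (nat_lit 401) (nat_lit 328) (nat_lit 291)) (XT.lf (nat_lit 76) (nat_lit 836396289) (nat_lit 0) (nat_lit 33682951) (nat_lit 456) (nat_lit 836396289) (nat_lit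 277) (nat_lit 1) (nat_lit 276) (nat_lit 1) (nat_lit 282) (nat_lit 1) (nat_lit 402) (nat_lit 328) (nat_lit 290))) (XT.nd (nat_lit 78) (nat_lit 380) (nat_lit 0) (XT.lf (nat_lit 532) (nat_lit 1368282682) (nat_lit 0) (nat_lit 158737072) (nat_lit 456) (nat_lit 158737072) (nat_lit 277) (nat_lit 1) (nat_lit 270) (nat_lit 1) (nat_lit 276) (nat_lit 1) (nat_lit 403) (nat_lit 328) (nat_lit 289)) (XT.nd (nat_lit 78) (nat_lit 380) (nat_lit 0) (XT.lf (nat_lit 76) (nat_lit 529547325) (nat_lit 0) (nat_lit 606152346) (nat_lit 532) (nat_lit 529547325) (nat_lit 271) (nat_lit 1) (nat_lit 270) (nat_lit 1) (nat_lit 277) (nat_lit 1) (nat_lit 404) (nat_lit 328) (nat_lit 288)) (XT.lf (nat_lit 456) (nat_lit 752969427) (nat_lit 0) (nat_lit 446096013) (nat_lit 380) (nat_lit 446096013) (nat_lit 271) (nat_lit 1) (nat_lit 265) (nat_lit 1) (nat_lit 270) (nat_lit 1) (nat_lit 405) (nat_lit 328) (nat_lit 287))))) (XT.nd (nat_lit 156)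 (nat_lit 836) (nat_lit 0) (XT.nd (nat_lit 78) (nat_lit 380) (nat_lit 0) (XT.lf (nat_lit 76) (nat_lit 224152664) (nat_lit 0) (nat_lit 1177138457) (nat_lit 456) (nat_lit 224152664) (nat_lit 266) (nat_lit 1) (nat_lit 265) (nat_lit 1) (nat_lit 271) (nat_lit 1) (nat_lit 406) (nat_lit 328) (nat_lit 286)) (XT.lf (nat_lit 456) (nat_lit 140974369) (nat_lit 0) (nat_lit 732494958) (nat_lit 380) (nat_lit 732494958) (nat_lit 266) (nat_lit 1) (nat_lit 260) (nat_lit 1) (nat_lit 265) (nat_lit 1) (nat_lit 407) (nat_lit 328) (nat_lit 285))) (XT.nd (nat_lit 78) (nat_lit 380) (nat_lit 0) (XT.lf (nat_lit 456) (nat_lit 1429675328) (nat_lit 0) (nat_lit 78622058) (nat_lit 380) (nat_lit 78622058) (nat_lit 260) (nat_lit 1) (nat_lit 254) (nat_lit 1) (nat_lit 259) (nat_lit 1) (nat_lit 408) (nat_lit 328) (nat_lit 284)) (XT.nd (nat_lit 78) (nat_lit 380) (nat_lit 0) (XT.lf (nat_lit 76) (nat_lit 555064401) (nat_lit 0) (nat_lit 457848746)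 (nat_lit 456) (nat_lit 555064401) (nat_lit 255) (nat_lit 1) (nat_lit 254) (nat_lit 1) (nat_lit 260) (nat_lit 1) (nat_lit 409) (nat_lit 328) (nat_lit 283)) (XT.lf (nat_lit 456) (nat_lit 795400744) (nat_lit 0) (nat_lit 377027938) (nat_lit 380) (nat_lit 377027938) (nat_lit 255) (nat_lit 1) (nat_lit 249) (nat_lit 1) (nat_lit 254) (nat_lit 1) (nat_lit 410) (nat_lit 328) (nat_lit 282))))))))
noncomputable def ec34 : XT := (XT.nd (nat_lit 1482) (nat_lit 1064) (nat_lit 0) (XT.nd (nat_lit 702) (nat_lit 1748) (nat_lit 0) (XT.nd (nat_lit 312) (nat_lit 988) (nat_lit 0) (XT.nd (nat_lit 156) (nat_lit 456) (nat_lit 0) (XT.nd (nat_lit 78) (nat_lit 304) (nat_lit 0) (XT.lf (nat_lit 76) (nat_lit 240982134) (nat_lit 0) (nat_lit 1049281492) (nat_lit 456) (nat_lit 240982134) (nat_lit 250) (nat_lit 1) (nat_lit 249) (nat_lit 1) (nat_lit 255) (nat_lit 1) (nat_lit 411) (nat_lit 328) (nat_lit 281)) (XT.lf (nat_lit 380) (nat_lit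 167369936) (nat_lit 0) (nat_lit 672947877) (nat_lit 304) (nat_lit 672947877) (nat_lit 250) (nat_lit 1) (nat_lit 245) (nat_lit 1) (nat_lit 249) (nat_lit 1) (nat_lit 412) (nat_lit 328) (nat_lit 280))) (XT.nd (nat_lit 78) (nat_lit 0) (nat_lit 0) (XT.lf (nat_lit 456) (nat_lit 1357331262) (nat_lit 0) (nat_lit 69174396) (nat_lit 380) (nat_lit 69174396) (nat_lit 245) (nat_lit 1) (nat_lit 239) (nat_lit 1) (nat_lit 244) (nat_lit 1) (nat_lit 413) (nat_lit 328) (nat_lit 279)) (XT.lf (nat_lit 76) (nat_lit 516564305) (nat_lit 0) (nat_lit 445039726) (nat_lit 456) (nat_lit 516564305) (nat_lit 240) (nat_lit 1) (nat_lit 239) (nat_lit 1) (nat_lit 245) (nat_lit 1) (nat_lit 414) (nat_lit 328) (nat_lit 278)))) (XT.nd (nat_lit 156) (nat_lit 684) (nat_lit 0) (XT.nd (nat_lit 78) (nat_lit 0) (nat_lit 0) (XT.lf (nat_lit 380) (nat_lit 714005621) (nat_lit 0) (nat_lit 373516983) (nat_lit 304) (nat_lit 373516983) (nat_lit 240) (nat_lit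 1) (nat_lit 235) (nat_lit 1) (nat_lit 239) (nat_lit 1) (nat_lit 415) (nat_lit 328) (nat_lit 277)) (XT.lf (nat_lit 76) (nat_lit 198554056) (nat_lit 0) (nat_lit 1047095718) (nat_lit 380) (nat_lit 198554056) (nat_lit 236) (nat_lit 1) (nat_lit 235) (nat_lit 1) (nat_lit 240) (nat_lit 1) (nat_lit 416) (nat_lit 328) (nat_lit 276))) (XT.nd (nat_lit 78) (nat_lit 380) (nat_lit 0) (XT.lf (nat_lit 380) (nat_lit 79174985) (nat_lit 0) (nat_lit 674192225) (nat_lit 304) (nat_lit 674192225) (nat_lit 236) (nat_lit 1) (nat_lit 231) (nat_lit 1) (nat_lit 235) (nat_lit 1) (nat_lit 417) (nat_lit 328) (nat_lit 275)) (XT.nd (nat_lit 78) (nat_lit 0) (nat_lit 0) (XT.lf (nat_lit 380) (nat_lit 1183219311) (nat_lit 0) (nat_lit 114012099) (nat_lit 304) (nat_lit 114012099) (nat_lit 231) (nat_lit 1) (nat_lit 226) (nat_lit 1) (nat_lit 230) (nat_lit 1) (nat_lit 418) (nat_lit 328) (nat_lit 274)) (XT.lf (nat_lit 76) (nat_lit 429444875)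 (nat_lit 0) (nat_lit 536149674) (nat_lit 380) (nat_lit 429444875) (nat_lit 227) (nat_lit 1) (nat_lit 226) (nat_lit 1) (nat_lit 231) (nat_lit 1) (nat_lit 419) (nat_lit 328) (nat_lit 273)))))) (XT.nd (nat_lit 390) (nat_lit 836) (nat_lit 0) (XT.nd (nat_lit 156) (nat_lit 608) (nat_lit 0) (XT.nd (nat_lit 78) (nat_lit 0) (nat_lit 0) (XT.lf (nat_lit 380) (nat_lit 538750311) (nat_lit 0) (nat_lit 420201945) (nat_lit 304) (nat_lit 420201945) (nat_lit 227) (nat_lit 1) (nat_lit 222) (nat_lit 1) (nat_lit 226) (nat_lit 1) (nat_lit 420) (nat_lit 328) (nat_lit 272)) (XT.lf (nat_lit 76) (nat_lit 111300580) (nat_lit 0) (nat_lit 1140975133) (nat_lit 380) (nat_lit 111300580) (nat_lit 223) (nat_lit 1) (nat_lit 222) (nat_lit 1) (nat_lit 227) (nat_lit 1) (nat_lit 421) (nat_lit 328) (nat_lit 271))) (XT.nd (nat_lit 78) (nat_lit 304) (nat_lit 0) (XT.lf (nat_lit 76) (nat_lit 627218507) (nat_lit 0) (nat_lit 93661740) (nat_lit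 304) (nat_lit 627218507) (nat_lit 219) (nat_lit 1) (nat_lit 218) (nat_lit 1) (nat_lit 222) (nat_lit 1) (nat_lit 422) (nat_lit 328) (nat_lit 270)) (XT.nd (nat_lit 78) (nat_lit 0) (nat_lit 0) (XT.lf (nat_lit 380) (nat_lit 933434190) (nat_lit 0) (nat_lit 199742904) (nat_lit 304) (nat_lit 199742904) (nat_lit 219) (nat_lit 1) (nat_lit 214) (nat_lit 1) (nat_lit 218) (nat_lit 1) (nat_lit 423) (nat_lit 328) (nat_lit 269)) (XT.lf (nat_lit 76) (nat_lit 306269519) (nat_lit 0) (nat_lit 705375118) (nat_lit 380) (nat_lit 306269519) (nat_lit 215) (nat_lit 1) (nat_lit 214) (nat_lit 1) (nat_lit 219) (nat_lit 1) (nat_lit 424) (nat_lit 328) (nat_lit 268))))) (XT.nd (nat_lit 156) (nat_lit 228) (nat_lit 0) (XT.nd (nat_lit 78) (nat_lit 380) (nat_lit 0) (XT.lf (nat_lit 304) (nat_lit 294074906) (nat_lit 0) (nat_lit 504534527) (nat_lit 228) (nat_lit 504534527) (nat_lit 215) (nat_lit 1) (nat_lit 211) (nat_lit 1) (nat_lit 214)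 (nat_lit 1) (nat_lit 425) (nat_lit 328) (nat_lit 267)) (XT.lf (nat_lit 380) (nat_lit 1270860223) (nat_lit 0) (nat_lit 8924243) (nat_lit 304) (nat_lit 8924243) (nat_lit 211) (nat_lit 1) (nat_lit 206) (nat_lit 1) (nat_lit 210) (nat_lit 1) (nat_lit 426) (nat_lit 328) (nat_lit 266))) (XT.nd (nat_lit 78) (nat_lit 228) (nat_lit 0) (XT.lf (nat_lit 76) (nat_lit 473456691) (nat_lit 0) (nat_lit 327331697) (nat_lit 380) (nat_lit 473456691) (nat_lit 207) (nat_lit 1) (nat_lit 206) (nat_lit 1) (nat_lit 211) (nat_lit 1) (nat_lit 427) (nat_lit 328) (nat_lit 265)) (XT.nd (nat_lit 78) (nat_lit 0) (nat_lit 0) (XT.lf (nat_lit 304) (nat_lit 629192752) (nat_lit 0) (nat_lit 315458249) (nat_lit 228) (nat_lit 315458249) (nat_lit 207) (nat_lit 1) (nat_lit 203) (nat_lit 1) (nat_lit 206) (nat_lit 1) (nat_lit 428) (nat_lit 328) (nat_lit 264)) (XT.lf (nat_lit 76) (nat_lit 157248244) (nat_lit 0) (nat_lit 931707208) (nat_lit 304)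 (nat_lit 157248244) (nat_lit 204) (nat_lit 1) (nat_lit 203) (nat_lit 1) (nat_lit 207) (nat_lit 1) (nat_lit 429) (nat_lit 328) (nat_lit 263))))))) (XT.nd (nat_lit 48126) (nat_lit 0) (nat_lit 13224) (XT.nd (nat_lit 312) (nat_lit 304) (nat_lit 0) (XT.nd (nat_lit 156) (nat_lit 228) (nat_lit 0) (XT.nd (nat_lit 78) (nat_lit 228) (nat_lit 0) (XT.lf (nat_lit 76) (nat_lit 616136050) (nat_lit 0) (nat_lit 164963) (nat_lit 304) (nat_lit 616136050) (nat_lit 200) (nat_lit 1) (nat_lit 199) (nat_lit 1) (nat_lit 203) (nat_lit 1) (nat_lit 430) (nat_lit 328) (nat_lit 262)) (XT.lf (nat_lit 304) (nat_lit 916224763) (nat_lit 0) (nat_lit 151334798) (nat_lit 228) (nat_lit 151334798) (nat_lit 200) (nat_lit 1) (nat_lit 196) (nat_lit 1) (nat_lit 199) (nat_lit 1) (nat_lit 431) (nat_lit 328) (nat_lit 261))) (XT.nd (nat_lit 78) (nat_lit 228) (nat_lit 0) (XT.lf (nat_lit 76) (nat_lit 300155577) (nat_lit 0) (nat_lit 605170727) (nat_lit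 304) (nat_lit 300155577) (nat_lit 197) (nat_lit 1) (nat_lit 196) (nat_lit 1) (nat_lit 200) (nat_lit 1) (nat_lit 432) (nat_lit 328) (nat_lit 260)) (XT.lf (nat_lit 304) (nat_lit 287665867) (nat_lit 0) (nat_lit 452310692) (nat_lit 228) (nat_lit 452310692) (nat_lit 197) (nat_lit 1) (nat_lit 193) (nat_lit 1) (nat_lit 196) (nat_lit 1) (nat_lit 433) (nat_lit 328) (nat_lit 259)))) (XT.nd (nat_lit 47580) (nat_lit 0) (nat_lit 14060) (XT.nd (nat_lit 47502) (nat_lit 0) (nat_lit 14060) (XT.lf (nat_lit 304) (nat_lit 1160845244) (nat_lit 0) (nat_lit 9268939) (nat_lit 228) (nat_lit 9268939) (nat_lit 193) (nat_lit 1) (nat_lit 189) (nat_lit 1) (nat_lit 192) (nat_lit 1) (nat_lit 434) (nat_lit 328) (nat_lit 258)) (XT.lf (nat_lit 1292) (nat_lit 269435741) (nat_lit 0) (nat_lit 926984256) (nat_lit 1292) (nat_lit 269435741) (nat_lit 391) (nat_lit 1) (nat_lit 374) (nat_lit 0) (nat_lit 391) (nat_lit 0) (nat_lit 362) (nat_lit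 329) (nat_lit 329))) (XT.nd (nat_lit 78) (nat_lit 0) (nat_lit 76) (XT.lf (nat_lit 1292) (nat_lit 1052959598) (nat_lit 76) (nat_lit 917896175) (nat_lit 0) (nat_lit 917896175) (nat_lit 391) (nat_lit 1) (nat_lit 375) (nat_lit 1) (nat_lit 374) (nat_lit 0) (nat_lit 363) (nat_lit 329) (nat_lit 328)) (XT.nd (nat_lit 78) (nat_lit 0) (nat_lit 0) (XT.lf (nat_lit 1292) (nat_lit 509236367) (nat_lit 0) (nat_lit 1828267284) (nat_lit 1216) (nat_lit 509236367) (nat_lit 392) (nat_lit 1) (nat_lit 375) (nat_lit 1) (nat_lit 391) (nat_lit 1) (nat_lit 364) (nat_lit 329) (nat_lit 327)) (XT.lf (nat_lit 1292) (nat_lit 967066153) (nat_lit 76) (nat_lit 919181759) (nat_lit 0) (nat_lit 919181759) (nat_lit 392) (nat_lit 1) (nat_lit 376) (nat_lit 1) (nat_lit 375) (nat_lit 1) (nat_lit 365) (nat_lit 329) (nat_lit 326)))))) (XT.nd (nat_lit 390) (nat_lit 988) (nat_lit 0) (XT.nd (nat_lit 156) (nat_lit 0) (nat_lit 76) (XT.nd (nat_lit 78)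 (nat_lit 0) (nat_lit 0) (XT.lf (nat_lit 1292) (nat_lit 453790969) (nat_lit 0) (nat_lit 1857461719) (nat_lit 1216) (nat_lit 453790969) (nat_lit 393) (nat_lit 1) (nat_lit 376) (nat_lit 1) (nat_lit 392) (nat_lit 1) (nat_lit 366) (nat_lit 329) (nat_lit 325)) (XT.lf (nat_lit 1292) (nat_lit 831619866) (nat_lit 76) (nat_lit 946841835) (nat_lit 0) (nat_lit 946841835) (nat_lit 393) (nat_lit 1) (nat_lit 377) (nat_lit 1) (nat_lit 376) (nat_lit 1) (nat_lit 367) (nat_lit 329) (nat_lit 324))) (XT.nd (nat_lit 78) (nat_lit 0) (nat_lit 0) (XT.lf (nat_lit 1292) (nat_lit 374818209) (nat_lit 0) (nat_lit 1936844653) (nat_lit 1216) (nat_lit 374818209) (nat_lit 394) (nat_lit 1) (nat_lit 377) (nat_lit 1) (nat_lit 393) (nat_lit 1) (nat_lit 368) (nat_lit 329) (nat_lit 323)) (XT.nd (nat_lit 78) (nat_lit 0) (nat_lit 76) (XT.lf (nat_lit 1292) (nat_lit 651052168) (nat_lit 76) (nat_lit 998592062) (nat_lit 0) (nat_lit 998592062) (nat_lit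 394) (nat_lit 1) (nat_lit 378) (nat_lit 1) (nat_lit 377) (nat_lit 1) (nat_lit 369) (nat_lit 329) (nat_lit 322)) (XT.lf (nat_lit 1292) (nat_lit 274446620) (nat_lit 0) (nat_lit 2062024447) (nat_lit 1216) (nat_lit 274446620) (nat_lit 395) (nat_lit 1) (nat_lit 378) (nat_lit 1) (nat_lit 394) (nat_lit 1) (nat_lit 370) (nat_lit 329) (nat_lit 321))))) (XT.nd (nat_lit 156) (nat_lit 1140) (nat_lit 0) (XT.nd (nat_lit 78) (nat_lit 0) (nat_lit 76) (XT.lf (nat_lit 1292) (nat_lit 429493891) (nat_lit 76) (nat_lit 1072301664) (nat_lit 0) (nat_lit 1072301664) (nat_lit 395) (nat_lit 1) (nat_lit 379) (nat_lit 1) (nat_lit 378) (nat_lit 1) (nat_lit 371) (nat_lit 329) (nat_lit 320)) (XT.lf (nat_lit 1292) (nat_lit 154659888) (nat_lit 0) (nat_lit 2228905559) (nat_lit 1216) (nat_lit 154659888) (nat_lit 396) (nat_lit 1) (nat_lit 379) (nat_lit 1) (nat_lit 395) (nat_lit 1) (nat_lit 372) (nat_lit 329) (nat_lit 319))) (XT.nd (nat_lit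 78) (nat_lit 1216) (nat_lit 0) (XT.lf (nat_lit 1292) (nat_lit 170793865) (nat_lit 76) (nat_lit 1165983966) (nat_lit 0) (nat_lit 1165983966) (nat_lit 396) (nat_lit 1) (nat_lit 380) (nat_lit 1) (nat_lit 379) (nat_lit 1) (nat_lit 373) (nat_lit 329) (nat_lit 318)) (XT.nd (nat_lit 78) (nat_lit 1292) (nat_lit 0) (XT.lf (nat_lit 1292) (nat_lit 17305830) (nat_lit 0) (nat_lit 2433670265) (nat_lit 1216) (nat_lit 17305830) (nat_lit 397) (nat_lit 1) (nat_lit 380) (nat_lit 1) (nat_lit 396) (nat_lit 1) (nat_lit 374) (nat_lit 329) (nat_lit 317)) (XT.lf (nat_lit 1368) (nat_lit 1157491481) (nat_lit 0) (nat_lit 119093393) (nat_lit 1292) (nat_lit 1157491481) (nat_lit 381) (nat_lit 1) (nat_lit 363) (nat_lit 1) (nat_lit 380) (nat_lit 1) (nat_lit 375) (nat_lit 329) (nat_lit 316))))))))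
noncomputable def ec35 : XT := (XT.nd (nat_lit 1482) (nat_lit 4484) (nat_lit 0) (XT.nd (nat_lit 702) (nat_lit 3344) (nat_lit 0) (XT.nd (nat_lit 312) (nat_lit 1900) (nat_lit 0) (XT.nd (nat_lit 156) (nat_lit 0) (nat_lit 76) (XT.nd (nat_lit 78) (nat_lit 0) (nat_lit 76) (XT.lf (nat_lit 1368) (nat_lit 2131687849) (nat_lit 76) (nat_lit 134562864) (nat_lit 0) (nat_lit 134562864) (nat_lit 381) (nat_lit 1) (nat_lit 364) (nat_lit 1) (nat_lit 363) (nat_lit 1) (nat_lit 376) (nat_lit 329) (nat_lit 315)) (XT.lf (nat_lit 1368) (nat_lit 966312804) (nat_lit 0) (nat_lit 435279279) (nat_lit 1292) (nat_lit 966312804) (nat_lit 382) (nat_lit 1) (nat_lit 364) (nat_lit 1) (nat_lit 381) (nat_lit 1) (nat_lit 377) (nat_lit 329) (nat_lit 314))) (XT.nd (nat_lit 78) (nat_lit 0) (nat_lit 76) (XT.lf (nat_lit 1368) (nat_lit 1735093853) (nat_lit 76) (nat_lit 300368277) (nat_lit 0) (nat_lit 300368277) (nat_lit 382) (nat_lit 1) (nat_lit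 365) (nat_lit 1) (nat_lit 364) (nat_lit 1) (nat_lit 378) (nat_lit 329) (nat_lit 313)) (XT.lf (nat_lit 76) (nat_lit 763068151) (nat_lit 0) (nat_lit 778053469) (nat_lit 1292) (nat_lit 763068151) (nat_lit 366) (nat_lit 1) (nat_lit 365) (nat_lit 1) (nat_lit 382) (nat_lit 1) (nat_lit 379) (nat_lit 329) (nat_lit 312)))) (XT.nd (nat_lit 156) (nat_lit 1216) (nat_lit 0) (XT.nd (nat_lit 78) (nat_lit 0) (nat_lit 0) (XT.lf (nat_lit 912) (nat_lit 1315636920) (nat_lit 0) (nat_lit 478805807) (nat_lit 836) (nat_lit 478805807) (nat_lit 366) (nat_lit 1) (nat_lit 354) (nat_lit 1) (nat_lit 365) (nat_lit 1) (nat_lit 380) (nat_lit 329) (nat_lit 311)) (XT.lf (nat_lit 76) (nat_lit 549121239) (nat_lit 0) (nat_lit 1144586618) (nat_lit 912) (nat_lit 549121239) (nat_lit 355) (nat_lit 1) (nat_lit 354) (nat_lit 1) (nat_lit 366) (nat_lit 1) (nat_lit 381) (nat_lit 329) (nat_lit 310))) (XT.nd (nat_lit 78) (nat_lit 608) (nat_lit 0)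 (XT.lf (nat_lit 684) (nat_lit 875958477) (nat_lit 0) (nat_lit 668505174) (nat_lit 608) (nat_lit 668505174) (nat_lit 355) (nat_lit 1) (nat_lit 346) (nat_lit 1) (nat_lit 354) (nat_lit 1) (nat_lit 382) (nat_lit 329) (nat_lit 309)) (XT.nd (nat_lit 78) (nat_lit 608) (nat_lit 0) (XT.lf (nat_lit 76) (nat_lit 325737955) (nat_lit 0) (nat_lit 1532249751) (nat_lit 684) (nat_lit 325737955) (nat_lit 347) (nat_lit 1) (nat_lit 346) (nat_lit 1) (nat_lit 355) (nat_lit 1) (nat_lit 383) (nat_lit 329) (nat_lit 308)) (XT.lf (nat_lit 684) (nat_lit 418509615) (nat_lit 0) (nat_lit 868193545) (nat_lit 608) (nat_lit 868193545) (nat_lit 347) (nat_lit 1) (nat_lit 338) (nat_lit 1) (nat_lit 346) (nat_lit 1) (nat_lit 384) (nat_lit 329) (nat_lit 307)))))) (XT.nd (nat_lit 390) (nat_lit 1596) (nat_lit 0) (XT.nd (nat_lit 156) (nat_lit 1140) (nat_lit 0) (XT.nd (nat_lit 78) (nat_lit 608) (nat_lit 0) (XT.lf (nat_lit 76) (nat_lit 94092543)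 (nat_lit 0) (nat_lit 1938601653) (nat_lit 684) (nat_lit 94092543) (nat_lit 339) (nat_lit 1) (nat_lit 338) (nat_lit 1) (nat_lit 347) (nat_lit 1) (nat_lit 385) (nat_lit 329) (nat_lit 306)) (XT.lf (nat_lit 76) (nat_lit 1022775820) (nat_lit 0) (nat_lit 53374600) (nat_lit 608) (nat_lit 1022775820) (nat_lit 331) (nat_lit 1) (nat_lit 330) (nat_lit 1) (nat_lit 338) (nat_lit 1) (nat_lit 386) (nat_lit 329) (nat_lit 305))) (XT.nd (nat_lit 78) (nat_lit 532) (nat_lit 0) (XT.lf (nat_lit 684) (nat_lit 1785140672) (nat_lit 0) (nat_lit 143307696) (nat_lit 608) (nat_lit 143307696) (nat_lit 331) (nat_lit 1) (nat_lit 322) (nat_lit 1) (nat_lit 330) (nat_lit 1) (nat_lit 387) (nat_lit 329) (nat_lit 304)) (XT.nd (nat_lit 78) (nat_lit 532) (nat_lit 0) (XT.lf (nat_lit 76) (nat_lit 757319914) (nat_lit 0) (nat_lit 530222628) (nat_lit 684) (nat_lit 757319914) (nat_lit 323) (nat_lit 1) (nat_lit 322) (nat_lit 1) (nat_lit 331) (nat_lit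 1) (nat_lit 388) (nat_lit 329) (nat_lit 303)) (XT.lf (nat_lit 608) (nat_lit 1246819390) (nat_lit 0) (nat_lit 385890681) (nat_lit 532) (nat_lit 385890681) (nat_lit 323) (nat_lit 1) (nat_lit 315) (nat_lit 1) (nat_lit 322) (nat_lit 1) (nat_lit 389) (nat_lit 329) (nat_lit 302))))) (XT.nd (nat_lit 156) (nat_lit 1064) (nat_lit 0) (XT.nd (nat_lit 78) (nat_lit 532) (nat_lit 0) (XT.lf (nat_lit 76) (nat_lit 487227400) (nat_lit 0) (nat_lit 1018289595) (nat_lit 608) (nat_lit 487227400) (nat_lit 316) (nat_lit 1) (nat_lit 315) (nat_lit 1) (nat_lit 323) (nat_lit 1) (nat_lit 390) (nat_lit 329) (nat_lit 301)) (XT.lf (nat_lit 608) (nat_lit 700039928) (nat_lit 0) (nat_lit 633655217) (nat_lit 532) (nat_lit 633655217) (nat_lit 316) (nat_lit 1) (nat_lit 308) (nat_lit 1) (nat_lit 315) (nat_lit 1) (nat_lit 391) (nat_lit 329) (nat_lit 300))) (XT.nd (nat_lit 78) (nat_lit 1064) (nat_lit 0) (XT.lf (nat_lit 76) (nat_lit 213343316)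 (nat_lit 0) (nat_lit 1515807452) (nat_lit 608) (nat_lit 213343316) (nat_lit 309) (nat_lit 1) (nat_lit 308) (nat_lit 1) (nat_lit 316) (nat_lit 1) (nat_lit 392) (nat_lit 329) (nat_lit 299)) (XT.nd (nat_lit 78) (nat_lit 608) (nat_lit 0) (XT.lf (nat_lit 532) (nat_lit 146434228) (nat_lit 0) (nat_lit 885747355) (nat_lit 456) (nat_lit 885747355) (nat_lit 309) (nat_lit 1) (nat_lit 302) (nat_lit 1) (nat_lit 308) (nat_lit 1) (nat_lit 393) (nat_lit 329) (nat_lit 298)) (XT.lf (nat_lit 608) (nat_lit 1768104174) (nat_lit 0) (nat_lit 62929599) (nat_lit 532) (nat_lit 62929599) (nat_lit 302) (nat_lit 1) (nat_lit 294) (nat_lit 1) (nat_lit 301) (nat_lit 1) (nat_lit 394) (nat_lit 329) (nat_lit 297))))))) (XT.nd (nat_lit 702) (nat_lit 2280) (nat_lit 0) (XT.nd (nat_lit 312) (nat_lit 1292) (nat_lit 0) (XT.nd (nat_lit 156) (nat_lit 456) (nat_lit 0) (XT.nd (nat_lit 78) (nat_lit 456) (nat_lit 0) (XT.lf (nat_lit 76) (nat_lit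 732850668) (nat_lit 0) (nat_lit 404443615) (nat_lit 608) (nat_lit 732850668) (nat_lit 295) (nat_lit 1) (nat_lit 294) (nat_lit 1) (nat_lit 302) (nat_lit 1) (nat_lit 395) (nat_lit 329) (nat_lit 296)) (XT.lf (nat_lit 532) (nat_lit 1168141214) (nat_lit 0) (nat_lit 339381783) (nat_lit 456) (nat_lit 339381783) (nat_lit 295) (nat_lit 1) (nat_lit 288) (nat_lit 1) (nat_lit 294) (nat_lit 1) (nat_lit 396) (nat_lit 329) (nat_lit 295))) (XT.nd (nat_lit 78) (nat_lit 456) (nat_lit 0) (XT.lf (nat_lit 76) (nat_lit 433841068) (nat_lit 0) (nat_lit 956322505) (nat_lit 532) (nat_lit 433841068) (nat_lit 289) (nat_lit 1) (nat_lit 288) (nat_lit 1) (nat_lit 295) (nat_lit 1) (nat_lit 397) (nat_lit 329) (nat_lit 294)) (XT.lf (nat_lit 532) (nat_lit 566598585) (nat_lit 0) (nat_lit 617449917) (nat_lit 456) (nat_lit 617449917) (nat_lit 289) (nat_lit 1) (nat_lit 282) (nat_lit 1) (nat_lit 288) (nat_lit 1) (nat_lit 398) (nat_lit 329)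 (nat_lit 293)))) (XT.nd (nat_lit 156) (nat_lit 836) (nat_lit 0) (XT.nd (nat_lit 78) (nat_lit 456) (nat_lit 0) (XT.lf (nat_lit 76) (nat_lit 134337284) (nat_lit 0) (nat_lit 1510809754) (nat_lit 532) (nat_lit 134337284) (nat_lit 283) (nat_lit 1) (nat_lit 282) (nat_lit 1) (nat_lit 289) (nat_lit 1) (nat_lit 399) (nat_lit 329) (nat_lit 292)) (XT.lf (nat_lit 76) (nat_lit 861488178) (nat_lit 0) (nat_lit 34693440) (nat_lit 456) (nat_lit 861488178) (nat_lit 277) (nat_lit 1) (nat_lit 276) (nat_lit 1) (nat_lit 282) (nat_lit 1) (nat_lit 400) (nat_lit 329) (nat_lit 291))) (XT.nd (nat_lit 78) (nat_lit 380) (nat_lit 0) (XT.lf (nat_lit 532) (nat_lit 1409331162) (nat_lit 0) (nat_lit 163499184) (nat_lit 456) (nat_lit 163499184) (nat_lit 277) (nat_lit 1) (nat_lit 270) (nat_lit 1) (nat_lit 276) (nat_lit 1) (nat_lit 401) (nat_lit 329) (nat_lit 290)) (XT.nd (nat_lit 78) (nat_lit 380) (nat_lit 0) (XT.lf (nat_lit 76) (nat_lit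 545433745) (nat_lit 0) (nat_lit 624336916) (nat_lit 532) (nat_lit 545433745) (nat_lit 271) (nat_lit 1) (nat_lit 270) (nat_lit 1) (nat_lit 277) (nat_lit 1) (nat_lit 402) (nat_lit 329) (nat_lit 289)) (XT.lf (nat_lit 456) (nat_lit 775558510) (nat_lit 0) (nat_lit 459478893) (nat_lit 380) (nat_lit 459478893) (nat_lit 271) (nat_lit 1) (nat_lit 265) (nat_lit 1) (nat_lit 270) (nat_lit 1) (nat_lit 403) (nat_lit 329) (nat_lit 288)))))) (XT.nd (nat_lit 390) (nat_lit 1064) (nat_lit 0) (XT.nd (nat_lit 156) (nat_lit 836) (nat_lit 0) (XT.nd (nat_lit 78) (nat_lit 380) (nat_lit 0) (XT.lf (nat_lit 76) (nat_lit 230877244) (nat_lit 0) (nat_lit 1212452610) (nat_lit 456) (nat_lit 230877244) (nat_lit 266) (nat_lit 1) (nat_lit 265) (nat_lit 1) (nat_lit 271) (nat_lit 1) (nat_lit 404) (nat_lit 329) (nat_lit 287)) (XT.lf (nat_lit 456) (nat_lit 145203600) (nat_lit 0) (nat_lit 754469807) (nat_lit 380) (nat_lit 754469807) (nat_lit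 266) (nat_lit 1) (nat_lit 260) (nat_lit 1) (nat_lit 265) (nat_lit 1) (nat_lit 405) (nat_lit 329) (nat_lit 286))) (XT.nd (nat_lit 78) (nat_lit 380) (nat_lit 0) (XT.lf (nat_lit 456) (nat_lit 1472565588) (nat_lit 0) (nat_lit 80980719) (nat_lit 380) (nat_lit 80980719) (nat_lit 260) (nat_lit 1) (nat_lit 254) (nat_lit 1) (nat_lit 259) (nat_lit 1) (nat_lit 406) (nat_lit 329) (nat_lit 285)) (XT.nd (nat_lit 78) (nat_lit 380) (nat_lit 0) (XT.lf (nat_lit 76) (nat_lit 571716333) (nat_lit 0) (nat_lit 471584209) (nat_lit 456) (nat_lit 571716333) (nat_lit 255) (nat_lit 1) (nat_lit 254) (nat_lit 1) (nat_lit 260) (nat_lit 1) (nat_lit 407) (nat_lit 329) (nat_lit 284)) (XT.lf (nat_lit 456) (nat_lit 819262767) (nat_lit 0) (nat_lit 388338776) (nat_lit 380) (nat_lit 388338776) (nat_lit 255) (nat_lit 1) (nat_lit 249) (nat_lit 1) (nat_lit 254) (nat_lit 1) (nat_lit 408) (nat_lit 329) (nat_lit 283))))) (XT.nd (nat_lit 156) (nat_lit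 760) (nat_lit 0) (XT.nd (nat_lit 78) (nat_lit 304) (nat_lit 0) (XT.lf (nat_lit 76) (nat_lit 248211598) (nat_lit 0) (nat_lit 1080759937) (nat_lit 456) (nat_lit 248211598) (nat_lit 250) (nat_lit 1) (nat_lit 249) (nat_lit 1) (nat_lit 255) (nat_lit 1) (nat_lit 409) (nat_lit 329) (nat_lit 282)) (XT.lf (nat_lit 380) (nat_lit 172391034) (nat_lit 0) (nat_lit 693136313) (nat_lit 304) (nat_lit 693136313) (nat_lit 250) (nat_lit 1) (nat_lit 245) (nat_lit 1) (nat_lit 249) (nat_lit 1) (nat_lit 410) (nat_lit 329) (nat_lit 281))) (XT.nd (nat_lit 78) (nat_lit 304) (nat_lit 0) (XT.lf (nat_lit 456) (nat_lit 1398051200) (nat_lit 0) (nat_lit 71249628) (nat_lit 380) (nat_lit 71249628) (nat_lit 245) (nat_lit 1) (nat_lit 239) (nat_lit 1) (nat_lit 244) (nat_lit 1) (nat_lit 411) (nat_lit 329) (nat_lit 280)) (XT.nd (nat_lit 78) (nat_lit 304) (nat_lit 0) (XT.lf (nat_lit 76) (nat_lit 532061235) (nat_lit 0) (nat_lit 458390918) (nat_lit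 456) (nat_lit 532061235) (nat_lit 240) (nat_lit 1) (nat_lit 239) (nat_lit 1) (nat_lit 245) (nat_lit 1) (nat_lit 412) (nat_lit 329) (nat_lit 279)) (XT.lf (nat_lit 380) (nat_lit 735425790) (nat_lit 0) (nat_lit 384722493) (nat_lit 304) (nat_lit 384722493) (nat_lit 240) (nat_lit 1) (nat_lit 235) (nat_lit 1) (nat_lit 239) (nat_lit 1) (nat_lit 413) (nat_lit 329) (nat_lit 278))))))))
noncomputable def ec36 : XT := (XT.nd (nat_lit 1404) (nat_lit 532) (nat_lit 0) (XT.nd (nat_lit 702) (nat_lit 1596) (nat_lit 0) (XT.nd (nat_lit 312) (nat_lit 912) (nat_lit 0) (XT.nd (nat_lit 156) (nat_lit 380) (nat_lit 0) (XT.nd (nat_lit 78) (nat_lit 304) (nat_lit 0) (XT.lf (nat_lit 76) (nat_lit 204510678) (nat_lit 0) (nat_lit 1078508589) (nat_lit 380) (nat_lit 204510678) (nat_lit 236) (nat_lit 1) (nat_lit 235) (nat_lit 1) (nat_lit 240) (nat_lit 1) (nat_lit 414) (nat_lit 329) (nat_lit 277)) (XT.lf (nat_lit 380) (nat_lit 81550235)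 (nat_lit 0) (nat_lit 694417992) (nat_lit 304) (nat_lit 694417992) (nat_lit 236) (nat_lit 1) (nat_lit 231) (nat_lit 1) (nat_lit 235) (nat_lit 1) (nat_lit 415) (nat_lit 329) (nat_lit 276))) (XT.nd (nat_lit 78) (nat_lit 0) (nat_lit 0) (XT.lf (nat_lit 380) (nat_lit 1218715890) (nat_lit 0) (nat_lit 117432462) (nat_lit 304) (nat_lit 117432462) (nat_lit 231) (nat_lit 1) (nat_lit 226) (nat_lit 1) (nat_lit 230) (nat_lit 1) (nat_lit 416) (nat_lit 329) (nat_lit 275)) (XT.lf (nat_lit 76) (nat_lit 442328221) (nat_lit 0) (nat_lit 552234164) (nat_lit 380) (nat_lit 442328221) (nat_lit 227) (nat_lit 1) (nat_lit 226) (nat_lit 1) (nat_lit 231) (nat_lit 1) (nat_lit 417) (nat_lit 329) (nat_lit 274)))) (XT.nd (nat_lit 156) (nat_lit 608) (nat_lit 0) (XT.nd (nat_lit 78) (nat_lit 0) (nat_lit 0) (XT.lf (nat_lit 380) (nat_lit 554912820) (nat_lit 0) (nat_lit 432808004) (nat_lit 304) (nat_lit 432808004) (nat_lit 227) (nat_lit 1)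 (nat_lit 222) (nat_lit 1) (nat_lit 226) (nat_lit 1) (nat_lit 418) (nat_lit 329) (nat_lit 273)) (XT.lf (nat_lit 76) (nat_lit 114639597) (nat_lit 0) (nat_lit 1175204387) (nat_lit 380) (nat_lit 114639597) (nat_lit 223) (nat_lit 1) (nat_lit 222) (nat_lit 1) (nat_lit 227) (nat_lit 1) (nat_lit 419) (nat_lit 329) (nat_lit 272))) (XT.nd (nat_lit 78) (nat_lit 304) (nat_lit 0) (XT.lf (nat_lit 76) (nat_lit 646035062) (nat_lit 0) (nat_lit 96471593) (nat_lit 304) (nat_lit 646035062) (nat_lit 219) (nat_lit 1) (nat_lit 218) (nat_lit 1) (nat_lit 222) (nat_lit 1) (nat_lit 420) (nat_lit 329) (nat_lit 271)) (XT.nd (nat_lit 78) (nat_lit 0) (nat_lit 0) (XT.lf (nat_lit 380) (nat_lit 961437215) (nat_lit 0) (nat_lit 205735191) (nat_lit 304) (nat_lit 205735191) (nat_lit 219) (nat_lit 1) (nat_lit 214) (nat_lit 1) (nat_lit 218) (nat_lit 1) (nat_lit 421) (nat_lit 329) (nat_lit 270)) (XT.lf (nat_lit 76) (nat_lit 315457605) (nat_lit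 0) (nat_lit 726536372) (nat_lit 380) (nat_lit 315457605) (nat_lit 215) (nat_lit 1) (nat_lit 214) (nat_lit 1) (nat_lit 219) (nat_lit 1) (nat_lit 422) (nat_lit 329) (nat_lit 269)))))) (XT.nd (nat_lit 312) (nat_lit 760) (nat_lit 0) (XT.nd (nat_lit 156) (nat_lit 228) (nat_lit 0) (XT.nd (nat_lit 78) (nat_lit 380) (nat_lit 0) (XT.lf (nat_lit 304) (nat_lit 302897154) (nat_lit 0) (nat_lit 519670562) (nat_lit 228) (nat_lit 519670562) (nat_lit 215) (nat_lit 1) (nat_lit 211) (nat_lit 1) (nat_lit 214) (nat_lit 1) (nat_lit 423) (nat_lit 329) (nat_lit 268)) (XT.lf (nat_lit 380) (nat_lit 1308986030) (nat_lit 0) (nat_lit 9191970) (nat_lit 304) (nat_lit 9191970) (nat_lit 211) (nat_lit 1) (nat_lit 206) (nat_lit 1) (nat_lit 210) (nat_lit 1) (nat_lit 424) (nat_lit 329) (nat_lit 267))) (XT.nd (nat_lit 78) (nat_lit 228) (nat_lit 0) (XT.lf (nat_lit 76) (nat_lit 487660392) (nat_lit 0) (nat_lit 337151647) (nat_lit 380) (nat_lit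 487660392) (nat_lit 207) (nat_lit 1) (nat_lit 206) (nat_lit 1) (nat_lit 211) (nat_lit 1) (nat_lit 425) (nat_lit 329) (nat_lit 266)) (XT.lf (nat_lit 304) (nat_lit 648068534) (nat_lit 0) (nat_lit 324921996) (nat_lit 228) (nat_lit 324921996) (nat_lit 207) (nat_lit 1) (nat_lit 203) (nat_lit 1) (nat_lit 206) (nat_lit 1) (nat_lit 426) (nat_lit 329) (nat_lit 265)))) (XT.nd (nat_lit 156) (nat_lit 456) (nat_lit 0) (XT.nd (nat_lit 78) (nat_lit 304) (nat_lit 0) (XT.lf (nat_lit 76) (nat_lit 161965692) (nat_lit 0) (nat_lit 959658425) (nat_lit 304) (nat_lit 161965692) (nat_lit 204) (nat_lit 1) (nat_lit 203) (nat_lit 1) (nat_lit 207) (nat_lit 1) (nat_lit 427) (nat_lit 329) (nat_lit 264)) (XT.lf (nat_lit 76) (nat_lit 634620132) (nat_lit 0) (nat_lit 169912) (nat_lit 304) (nat_lit 634620132) (nat_lit 200) (nat_lit 1) (nat_lit 199) (nat_lit 1) (nat_lit 203) (nat_lit 1) (nat_lit 428) (nat_lit 329) (nat_lit 263))) (XT.nd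 (nat_lit 78) (nat_lit 228) (nat_lit 0) (XT.lf (nat_lit 304) (nat_lit 943711506) (nat_lit 0) (nat_lit 155874842) (nat_lit 228) (nat_lit 155874842) (nat_lit 200) (nat_lit 1) (nat_lit 196) (nat_lit 1) (nat_lit 199) (nat_lit 1) (nat_lit 429) (nat_lit 329) (nat_lit 262)) (XT.nd (nat_lit 78) (nat_lit 228) (nat_lit 0) (XT.lf (nat_lit 76) (nat_lit 309160244) (nat_lit 0) (nat_lit 623325848) (nat_lit 304) (nat_lit 309160244) (nat_lit 197) (nat_lit 1) (nat_lit 196) (nat_lit 1) (nat_lit 200) (nat_lit 1) (nat_lit 430) (nat_lit 329) (nat_lit 261)) (XT.lf (nat_lit 304) (nat_lit 296295843) (nat_lit 0) (nat_lit 465880013) (nat_lit 228) (nat_lit 465880013) (nat_lit 197) (nat_lit 1) (nat_lit 193) (nat_lit 1) (nat_lit 196) (nat_lit 1) (nat_lit 431) (nat_lit 329) (nat_lit 260))))))) (XT.nd (nat_lit 47970) (nat_lit 0) (nat_lit 13452) (XT.nd (nat_lit 47580) (nat_lit 0) (nat_lit 14288) (XT.nd (nat_lit 156) (nat_lit 228) (nat_lit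 0) (XT.nd (nat_lit 78) (nat_lit 0) (nat_lit 0) (XT.lf (nat_lit 304) (nat_lit 1195670602) (nat_lit 0) (nat_lit 9547007) (nat_lit 228) (nat_lit 9547007) (nat_lit 193) (nat_lit 1) (nat_lit 189) (nat_lit 1) (nat_lit 192) (nat_lit 1) (nat_lit 432) (nat_lit 329) (nat_lit 259)) (XT.lf (nat_lit 76) (nat_lit 435127421) (nat_lit 0) (nat_lit 331177883) (nat_lit 304) (nat_lit 435127421) (nat_lit 190) (nat_lit 1) (nat_lit 189) (nat_lit 1) (nat_lit 193) (nat_lit 1) (nat_lit 433) (nat_lit 329) (nat_lit 258))) (XT.nd (nat_lit 47346) (nat_lit 0) (nat_lit 14288) (XT.lf (nat_lit 304) (nat_lit 551070372) (nat_lit 0) (nat_lit 318662101) (nat_lit 228) (nat_lit 318662101) (nat_lit 190) (nat_lit 1) (nat_lit 186) (nat_lit 1) (nat_lit 189) (nat_lit 1) (nat_lit 434) (nat_lit 329) (nat_lit 257)) (XT.lf (nat_lit 1292) (nat_lit 277518813) (nat_lit 0) (nat_lit 954793784) (nat_lit 1292) (nat_lit 277518813) (nat_lit 391) (nat_lit 1)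 (nat_lit 374) (nat_lit 0) (nat_lit 391) (nat_lit 0) (nat_lit 360) (nat_lit 330) (nat_lit 330)))) (XT.nd (nat_lit 156) (nat_lit 0) (nat_lit 76) (XT.nd (nat_lit 78) (nat_lit 0) (nat_lit 76) (XT.lf (nat_lit 1292) (nat_lit 1084548386) (nat_lit 76) (nat_lit 945433061) (nat_lit 0) (nat_lit 945433061) (nat_lit 391) (nat_lit 1) (nat_lit 375) (nat_lit 1) (nat_lit 374) (nat_lit 0) (nat_lit 361) (nat_lit 330) (nat_lit 329)) (XT.lf (nat_lit 1292) (nat_lit 524513458) (nat_lit 0) (nat_lit 1883115302) (nat_lit 1216) (nat_lit 524513458) (nat_lit 392) (nat_lit 1) (nat_lit 375) (nat_lit 1) (nat_lit 391) (nat_lit 1) (nat_lit 362) (nat_lit 330) (nat_lit 328))) (XT.nd (nat_lit 78) (nat_lit 0) (nat_lit 76) (XT.lf (nat_lit 1292) (nat_lit 996078138) (nat_lit 76) (nat_lit 946757212) (nat_lit 0) (nat_lit 946757212) (nat_lit 392) (nat_lit 1) (nat_lit 376) (nat_lit 1) (nat_lit 375) (nat_lit 1) (nat_lit 363) (nat_lit 330) (nat_lit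 327)) (XT.nd (nat_lit 78) (nat_lit 0) (nat_lit 0) (XT.lf (nat_lit 1292) (nat_lit 467404698) (nat_lit 0) (nat_lit 1913185571) (nat_lit 1216) (nat_lit 467404698) (nat_lit 393) (nat_lit 1) (nat_lit 376) (nat_lit 1) (nat_lit 392) (nat_lit 1) (nat_lit 364) (nat_lit 330) (nat_lit 326)) (XT.lf (nat_lit 1292) (nat_lit 856568461) (nat_lit 76) (nat_lit 975247090) (nat_lit 0) (nat_lit 975247090) (nat_lit 393) (nat_lit 1) (nat_lit 377) (nat_lit 1) (nat_lit 376) (nat_lit 1) (nat_lit 365) (nat_lit 330) (nat_lit 325)))))) (XT.nd (nat_lit 390) (nat_lit 1064) (nat_lit 0) (XT.nd (nat_lit 156) (nat_lit 0) (nat_lit 76) (XT.nd (nat_lit 78) (nat_lit 0) (nat_lit 0) (XT.lf (nat_lit 1292) (nat_lit 386062756) (nat_lit 0) (nat_lit 1994949993) (nat_lit 1216) (nat_lit 386062756) (nat_lit 394) (nat_lit 1) (nat_lit 377) (nat_lit 1) (nat_lit 393) (nat_lit 1) (nat_lit 366) (nat_lit 330) (nat_lit 324)) (XT.lf (nat_lit 1292) (nat_lit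 670583733) (nat_lit 76) (nat_lit 1028549824) (nat_lit 0) (nat_lit 1028549824) (nat_lit 394) (nat_lit 1) (nat_lit 378) (nat_lit 1) (nat_lit 377) (nat_lit 1) (nat_lit 367) (nat_lit 330) (nat_lit 323))) (XT.nd (nat_lit 78) (nat_lit 0) (nat_lit 0) (XT.lf (nat_lit 1292) (nat_lit 282680019) (nat_lit 0) (nat_lit 2123885180) (nat_lit 1216) (nat_lit 282680019) (nat_lit 395) (nat_lit 1) (nat_lit 378) (nat_lit 1) (nat_lit 394) (nat_lit 1) (nat_lit 368) (nat_lit 330) (nat_lit 322)) (XT.nd (nat_lit 78) (nat_lit 0) (nat_lit 76) (XT.lf (nat_lit 1292) (nat_lit 442378708) (nat_lit 76) (nat_lit 1104470714) (nat_lit 0) (nat_lit 1104470714) (nat_lit 395) (nat_lit 1) (nat_lit 379) (nat_lit 1) (nat_lit 378) (nat_lit 1) (nat_lit 369) (nat_lit 330) (nat_lit 321)) (XT.lf (nat_lit 1292) (nat_lit 159299685) (nat_lit 0) (nat_lit 2295772725) (nat_lit 1216) (nat_lit 159299685) (nat_lit 396) (nat_lit 1) (nat_lit 379) (nat_lit 1)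 (nat_lit 395) (nat_lit 1) (nat_lit 370) (nat_lit 330) (nat_lit 320))))) (XT.nd (nat_lit 156) (nat_lit 1216) (nat_lit 0) (XT.nd (nat_lit 78) (nat_lit 0) (nat_lit 76) (XT.lf (nat_lit 1292) (nat_lit 175917681) (nat_lit 76) (nat_lit 1200963485) (nat_lit 0) (nat_lit 1200963485) (nat_lit 396) (nat_lit 1) (nat_lit 380) (nat_lit 1) (nat_lit 379) (nat_lit 1) (nat_lit 371) (nat_lit 330) (nat_lit 319)) (XT.lf (nat_lit 1292) (nat_lit 17825004) (nat_lit 0) (nat_lit 2506680373) (nat_lit 1216) (nat_lit 17825004) (nat_lit 397) (nat_lit 1) (nat_lit 380) (nat_lit 1) (nat_lit 396) (nat_lit 1) (nat_lit 372) (nat_lit 330) (nat_lit 318))) (XT.nd (nat_lit 78) (nat_lit 0) (nat_lit 0) (XT.lf (nat_lit 1368) (nat_lit 1192216225) (nat_lit 0) (nat_lit 122666195) (nat_lit 1292) (nat_lit 1192216225) (nat_lit 381) (nat_lit 1) (nat_lit 363) (nat_lit 1) (nat_lit 380) (nat_lit 1) (nat_lit 373) (nat_lit 330) (nat_lit 317)) (XT.nd (nat_lit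 78) (nat_lit 0) (nat_lit 76) (XT.lf (nat_lit 1368) (nat_lit 2195638484) (nat_lit 76) (nat_lit 138599750) (nat_lit 0) (nat_lit 138599750) (nat_lit 381) (nat_lit 1) (nat_lit 364) (nat_lit 1) (nat_lit 363) (nat_lit 1) (nat_lit 374) (nat_lit 330) (nat_lit 316)) (XT.lf (nat_lit 1368) (nat_lit 995302188) (nat_lit 0) (nat_lit 448337657) (nat_lit 1292) (nat_lit 995302188) (nat_lit 382) (nat_lit 1) (nat_lit 364) (nat_lit 1) (nat_lit 381) (nat_lit 1) (nat_lit 375) (nat_lit 330) (nat_lit 315))))))))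
noncomputable def ec37 : XT := (XT.nd (nat_lit 1482) (nat_lit 4332) (nat_lit 0) (XT.nd (nat_lit 702) (nat_lit 3192) (nat_lit 0) (XT.nd (nat_lit 312) (nat_lit 1824) (nat_lit 0) (XT.nd (nat_lit 156) (nat_lit 760) (nat_lit 0) (XT.nd (nat_lit 78) (nat_lit 0) (nat_lit 76) (XT.lf (nat_lit 1368) (nat_lit 1787146669) (nat_lit 76) (nat_lit 309379325) (nat_lit 0) (nat_lit 309379325) (nat_lit 382) (nat_lit 1) (nat_lit 365) (nat_lit 1) (nat_lit 364) (nat_lit 1) (nat_lit 376) (nat_lit 330) (nat_lit 314)) (XT.lf (nat_lit 76) (nat_lit 785960196) (nat_lit 0) (nat_lit 801395073) (nat_lit 1292) (nat_lit 785960196) (nat_lit 366) (nat_lit 1) (nat_lit 365) (nat_lit 1) (nat_lit 382) (nat_lit 1) (nat_lit 377) (nat_lit 330) (nat_lit 313))) (XT.nd (nat_lit 78) (nat_lit 0) (nat_lit 0) (XT.lf (nat_lit 912) (nat_lit 1355106028) (nat_lit 0) (nat_lit 493169981) (nat_lit 836) (nat_lit 493169981) (nat_lit 366) (nat_lit 1) (nat_lit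 354) (nat_lit 1) (nat_lit 365) (nat_lit 1) (nat_lit 378) (nat_lit 330) (nat_lit 312)) (XT.lf (nat_lit 76) (nat_lit 565594876) (nat_lit 0) (nat_lit 1178924217) (nat_lit 912) (nat_lit 565594876) (nat_lit 355) (nat_lit 1) (nat_lit 354) (nat_lit 1) (nat_lit 366) (nat_lit 1) (nat_lit 379) (nat_lit 330) (nat_lit 311)))) (XT.nd (nat_lit 156) (nat_lit 1216) (nat_lit 0) (XT.nd (nat_lit 78) (nat_lit 0) (nat_lit 0) (XT.lf (nat_lit 684) (nat_lit 902237232) (nat_lit 0) (nat_lit 688560329) (nat_lit 608) (nat_lit 688560329) (nat_lit 355) (nat_lit 1) (nat_lit 346) (nat_lit 1) (nat_lit 354) (nat_lit 1) (nat_lit 380) (nat_lit 330) (nat_lit 310)) (XT.lf (nat_lit 76) (nat_lit 335510094) (nat_lit 0) (nat_lit 1578217244) (nat_lit 684) (nat_lit 335510094) (nat_lit 347) (nat_lit 1) (nat_lit 346) (nat_lit 1) (nat_lit 355) (nat_lit 1) (nat_lit 381) (nat_lit 330) (nat_lit 309))) (XT.nd (nat_lit 78) (nat_lit 608) (nat_lit 0) (XT.lf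 (nat_lit 684) (nat_lit 431064903) (nat_lit 0) (nat_lit 894239351) (nat_lit 608) (nat_lit 894239351) (nat_lit 347) (nat_lit 1) (nat_lit 338) (nat_lit 1) (nat_lit 346) (nat_lit 1) (nat_lit 382) (nat_lit 330) (nat_lit 308)) (XT.nd (nat_lit 78) (nat_lit 608) (nat_lit 0) (XT.lf (nat_lit 76) (nat_lit 96915319) (nat_lit 0) (nat_lit 1996759703) (nat_lit 684) (nat_lit 96915319) (nat_lit 339) (nat_lit 1) (nat_lit 338) (nat_lit 1) (nat_lit 347) (nat_lit 1) (nat_lit 383) (nat_lit 330) (nat_lit 307)) (XT.lf (nat_lit 76) (nat_lit 1053459094) (nat_lit 0) (nat_lit 54975838) (nat_lit 608) (nat_lit 1053459094) (nat_lit 331) (nat_lit 1) (nat_lit 330) (nat_lit 1) (nat_lit 338) (nat_lit 1) (nat_lit 384) (nat_lit 330) (nat_lit 306)))))) (XT.nd (nat_lit 390) (nat_lit 1520) (nat_lit 0) (XT.nd (nat_lit 156) (nat_lit 1064) (nat_lit 0) (XT.nd (nat_lit 78) (nat_lit 0) (nat_lit 0) (XT.lf (nat_lit 684) (nat_lit 1838694892) (nat_lit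 0) (nat_lit 147606927) (nat_lit 608) (nat_lit 147606927) (nat_lit 331) (nat_lit 1) (nat_lit 322) (nat_lit 1) (nat_lit 330) (nat_lit 1) (nat_lit 385) (nat_lit 330) (nat_lit 305)) (XT.lf (nat_lit 76) (nat_lit 780039511) (nat_lit 0) (nat_lit 546129306) (nat_lit 684) (nat_lit 780039511) (nat_lit 323) (nat_lit 1) (nat_lit 322) (nat_lit 1) (nat_lit 331) (nat_lit 1) (nat_lit 386) (nat_lit 330) (nat_lit 304))) (XT.nd (nat_lit 78) (nat_lit 532) (nat_lit 0) (XT.lf (nat_lit 608) (nat_lit 1284223971) (nat_lit 0) (nat_lit 397467401) (nat_lit 532) (nat_lit 397467401) (nat_lit 323) (nat_lit 1) (nat_lit 315) (nat_lit 1) (nat_lit 322) (nat_lit 1) (nat_lit 387) (nat_lit 330) (nat_lit 303)) (XT.nd (nat_lit 78) (nat_lit 532) (nat_lit 0) (XT.lf (nat_lit 76) (nat_lit 501844222) (nat_lit 0) (nat_lit 1048838283) (nat_lit 608) (nat_lit 501844222) (nat_lit 316) (nat_lit 1) (nat_lit 315) (nat_lit 1) (nat_lit 323) (nat_lit 1)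 (nat_lit 388) (nat_lit 330) (nat_lit 302)) (XT.lf (nat_lit 608) (nat_lit 721041126) (nat_lit 0) (nat_lit 652664874) (nat_lit 532) (nat_lit 652664874) (nat_lit 316) (nat_lit 1) (nat_lit 308) (nat_lit 1) (nat_lit 315) (nat_lit 1) (nat_lit 389) (nat_lit 330) (nat_lit 301))))) (XT.nd (nat_lit 156) (nat_lit 1064) (nat_lit 0) (XT.nd (nat_lit 78) (nat_lit 456) (nat_lit 0) (XT.lf (nat_lit 76) (nat_lit 219743616) (nat_lit 0) (nat_lit 1561281676) (nat_lit 608) (nat_lit 219743616) (nat_lit 309) (nat_lit 1) (nat_lit 308) (nat_lit 1) (nat_lit 316) (nat_lit 1) (nat_lit 390) (nat_lit 330) (nat_lit 300)) (XT.lf (nat_lit 532) (nat_lit 150827255) (nat_lit 0) (nat_lit 912319775) (nat_lit 456) (nat_lit 912319775) (nat_lit 309) (nat_lit 1) (nat_lit 302) (nat_lit 1) (nat_lit 308) (nat_lit 1) (nat_lit 391) (nat_lit 330) (nat_lit 299))) (XT.nd (nat_lit 78) (nat_lit 456) (nat_lit 0) (XT.lf (nat_lit 608) (nat_lit 1821147300)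 (nat_lit 0) (nat_lit 64817487) (nat_lit 532) (nat_lit 64817487) (nat_lit 302) (nat_lit 1) (nat_lit 294) (nat_lit 1) (nat_lit 301) (nat_lit 1) (nat_lit 392) (nat_lit 330) (nat_lit 298)) (XT.nd (nat_lit 78) (nat_lit 456) (nat_lit 0) (XT.lf (nat_lit 76) (nat_lit 754836188) (nat_lit 0) (nat_lit 416576923) (nat_lit 608) (nat_lit 754836188) (nat_lit 295) (nat_lit 1) (nat_lit 294) (nat_lit 1) (nat_lit 302) (nat_lit 1) (nat_lit 393) (nat_lit 330) (nat_lit 297)) (XT.lf (nat_lit 532) (nat_lit 1203185451) (nat_lit 0) (nat_lit 349563237) (nat_lit 456) (nat_lit 349563237) (nat_lit 295) (nat_lit 1) (nat_lit 288) (nat_lit 1) (nat_lit 294) (nat_lit 1) (nat_lit 394) (nat_lit 330) (nat_lit 296))))))) (XT.nd (nat_lit 702) (nat_lit 2204) (nat_lit 0) (XT.nd (nat_lit 312) (nat_lit 1216) (nat_lit 0) (XT.nd (nat_lit 156) (nat_lit 456) (nat_lit 0) (XT.nd (nat_lit 78) (nat_lit 456) (nat_lit 0) (XT.lf (nat_lit 76) (nat_lit 446856300)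 (nat_lit 0) (nat_lit 985012181) (nat_lit 532) (nat_lit 446856300) (nat_lit 289) (nat_lit 1) (nat_lit 288) (nat_lit 1) (nat_lit 295) (nat_lit 1) (nat_lit 395) (nat_lit 330) (nat_lit 295)) (XT.lf (nat_lit 532) (nat_lit 583596542) (nat_lit 0) (nat_lit 635973415) (nat_lit 456) (nat_lit 635973415) (nat_lit 289) (nat_lit 1) (nat_lit 282) (nat_lit 1) (nat_lit 288) (nat_lit 1) (nat_lit 396) (nat_lit 330) (nat_lit 294))) (XT.nd (nat_lit 78) (nat_lit 456) (nat_lit 0) (XT.lf (nat_lit 76) (nat_lit 138367403) (nat_lit 0) (nat_lit 1556134046) (nat_lit 532) (nat_lit 138367403) (nat_lit 283) (nat_lit 1) (nat_lit 282) (nat_lit 1) (nat_lit 289) (nat_lit 1) (nat_lit 397) (nat_lit 330) (nat_lit 293)) (XT.lf (nat_lit 76) (nat_lit 887332823) (nat_lit 0) (nat_lit 35734243) (nat_lit 456) (nat_lit 887332823) (nat_lit 277) (nat_lit 1) (nat_lit 276) (nat_lit 1) (nat_lit 282) (nat_lit 1) (nat_lit 398) (nat_lit 330) (nat_lit 292))))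 (XT.nd (nat_lit 156) (nat_lit 760) (nat_lit 0) (XT.nd (nat_lit 78) (nat_lit 0) (nat_lit 0) (XT.lf (nat_lit 532) (nat_lit 1451611097) (nat_lit 0) (nat_lit 168404160) (nat_lit 456) (nat_lit 168404160) (nat_lit 277) (nat_lit 1) (nat_lit 270) (nat_lit 1) (nat_lit 276) (nat_lit 1) (nat_lit 399) (nat_lit 330) (nat_lit 291)) (XT.lf (nat_lit 76) (nat_lit 561796757) (nat_lit 0) (nat_lit 643067024) (nat_lit 532) (nat_lit 561796757) (nat_lit 271) (nat_lit 1) (nat_lit 270) (nat_lit 1) (nat_lit 277) (nat_lit 1) (nat_lit 400) (nat_lit 330) (nat_lit 290))) (XT.nd (nat_lit 78) (nat_lit 380) (nat_lit 0) (XT.lf (nat_lit 456) (nat_lit 798825265) (nat_lit 0) (nat_lit 473263260) (nat_lit 380) (nat_lit 473263260) (nat_lit 271) (nat_lit 1) (nat_lit 265) (nat_lit 1) (nat_lit 270) (nat_lit 1) (nat_lit 401) (nat_lit 330) (nat_lit 289)) (XT.nd (nat_lit 78) (nat_lit 380) (nat_lit 0) (XT.lf (nat_lit 76) (nat_lit 237803561) (nat_lit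 0) (nat_lit 1248826189) (nat_lit 456) (nat_lit 237803561) (nat_lit 266) (nat_lit 1) (nat_lit 265) (nat_lit 1) (nat_lit 271) (nat_lit 1) (nat_lit 402) (nat_lit 330) (nat_lit 288)) (XT.lf (nat_lit 456) (nat_lit 149559708) (nat_lit 0) (nat_lit 777103901) (nat_lit 380) (nat_lit 777103901) (nat_lit 266) (nat_lit 1) (nat_lit 260) (nat_lit 1) (nat_lit 265) (nat_lit 1) (nat_lit 403) (nat_lit 330) (nat_lit 287)))))) (XT.nd (nat_lit 390) (nat_lit 1064) (nat_lit 0) (XT.nd (nat_lit 156) (nat_lit 684) (nat_lit 0) (XT.nd (nat_lit 78) (nat_lit 0) (nat_lit 0) (XT.lf (nat_lit 456) (nat_lit 1516742556) (nat_lit 0) (nat_lit 83410141) (nat_lit 380) (nat_lit 83410141) (nat_lit 260) (nat_lit 1) (nat_lit 254) (nat_lit 1) (nat_lit 259) (nat_lit 1) (nat_lit 404) (nat_lit 330) (nat_lit 286)) (XT.lf (nat_lit 76) (nat_lit 588867823) (nat_lit 0) (nat_lit 485731735) (nat_lit 456) (nat_lit 588867823) (nat_lit 255) (nat_lit 1) (nat_lit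 254) (nat_lit 1) (nat_lit 260) (nat_lit 1) (nat_lit 405) (nat_lit 330) (nat_lit 285))) (XT.nd (nat_lit 78) (nat_lit 304) (nat_lit 0) (XT.lf (nat_lit 456) (nat_lit 843840650) (nat_lit 0) (nat_lit 399988939) (nat_lit 380) (nat_lit 399988939) (nat_lit 255) (nat_lit 1) (nat_lit 249) (nat_lit 1) (nat_lit 254) (nat_lit 1) (nat_lit 406) (nat_lit 330) (nat_lit 284)) (XT.nd (nat_lit 78) (nat_lit 304) (nat_lit 0) (XT.lf (nat_lit 76) (nat_lit 255657946) (nat_lit 0) (nat_lit 1113182735) (nat_lit 456) (nat_lit 255657946) (nat_lit 250) (nat_lit 1) (nat_lit 249) (nat_lit 1) (nat_lit 255) (nat_lit 1) (nat_lit 407) (nat_lit 330) (nat_lit 283)) (XT.lf (nat_lit 380) (nat_lit 177562765) (nat_lit 0) (nat_lit 713930403) (nat_lit 304) (nat_lit 713930403) (nat_lit 250) (nat_lit 1) (nat_lit 245) (nat_lit 1) (nat_lit 249) (nat_lit 1) (nat_lit 408) (nat_lit 330) (nat_lit 282))))) (XT.nd (nat_lit 156) (nat_lit 608) (nat_lit 0)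 (XT.nd (nat_lit 78) (nat_lit 0) (nat_lit 0) (XT.lf (nat_lit 456) (nat_lit 1439992736) (nat_lit 0) (nat_lit 73387117) (nat_lit 380) (nat_lit 73387117) (nat_lit 245) (nat_lit 1) (nat_lit 239) (nat_lit 1) (nat_lit 244) (nat_lit 1) (nat_lit 409) (nat_lit 330) (nat_lit 281)) (XT.lf (nat_lit 76) (nat_lit 548023072) (nat_lit 0) (nat_lit 472142645) (nat_lit 456) (nat_lit 548023072) (nat_lit 240) (nat_lit 1) (nat_lit 239) (nat_lit 1) (nat_lit 245) (nat_lit 1) (nat_lit 410) (nat_lit 330) (nat_lit 280))) (XT.nd (nat_lit 78) (nat_lit 304) (nat_lit 0) (XT.lf (nat_lit 380) (nat_lit 757488564) (nat_lit 0) (nat_lit 396264167) (nat_lit 304) (nat_lit 396264167) (nat_lit 240) (nat_lit 1) (nat_lit 235) (nat_lit 1) (nat_lit 239) (nat_lit 1) (nat_lit 411) (nat_lit 330) (nat_lit 279)) (XT.nd (nat_lit 78) (nat_lit 304) (nat_lit 0) (XT.lf (nat_lit 76) (nat_lit 210645998) (nat_lit 0) (nat_lit 1110863847) (nat_lit 380) (nat_lit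 210645998) (nat_lit 236) (nat_lit 1) (nat_lit 235) (nat_lit 1) (nat_lit 240) (nat_lit 1) (nat_lit 412) (nat_lit 330) (nat_lit 278)) (XT.lf (nat_lit 380) (nat_lit 83996742) (nat_lit 0) (nat_lit 715250532) (nat_lit 304) (nat_lit 715250532) (nat_lit 236) (nat_lit 1) (nat_lit 231) (nat_lit 1) (nat_lit 235) (nat_lit 1) (nat_lit 413) (nat_lit 330) (nat_lit 277))))))))
noncomputable def ec38 : XT := (XT.nd (nat_lit 1482) (nat_lit 228) (nat_lit 0) (XT.nd (nat_lit 702) (nat_lit 1520) (nat_lit 0) (XT.nd (nat_lit 312) (nat_lit 1216) (nat_lit 0) (XT.nd (nat_lit 156) (nat_lit 304) (nat_lit 0) (XT.nd (nat_lit 78) (nat_lit 0) (nat_lit 0) (XT.lf (nat_lit 380) (nat_lit 1255277367) (nat_lit 0) (nat_lit 120955436) (nat_lit 304) (nat_lit 120955436) (nat_lit 231) (nat_lit 1) (nat_lit 226) (nat_lit 1) (nat_lit 230) (nat_lit 1) (nat_lit 414) (nat_lit 330) (nat_lit 276)) (XT.lf (nat_lit 76) (nat_lit 455598067) (nat_lit 0)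 (nat_lit 568801189) (nat_lit 380) (nat_lit 455598067) (nat_lit 227) (nat_lit 1) (nat_lit 226) (nat_lit 1) (nat_lit 231) (nat_lit 1) (nat_lit 415) (nat_lit 330) (nat_lit 275))) (XT.nd (nat_lit 78) (nat_lit 0) (nat_lit 0) (XT.lf (nat_lit 380) (nat_lit 571560205) (nat_lit 0) (nat_lit 445792244) (nat_lit 304) (nat_lit 445792244) (nat_lit 227) (nat_lit 1) (nat_lit 222) (nat_lit 1) (nat_lit 226) (nat_lit 1) (nat_lit 416) (nat_lit 330) (nat_lit 274)) (XT.lf (nat_lit 76) (nat_lit 118078785) (nat_lit 0) (nat_lit 1210460518) (nat_lit 380) (nat_lit 118078785) (nat_lit 223) (nat_lit 1) (nat_lit 222) (nat_lit 1) (nat_lit 227) (nat_lit 1) (nat_lit 417) (nat_lit 330) (nat_lit 273)))) (XT.nd (nat_lit 156) (nat_lit 608) (nat_lit 0) (XT.nd (nat_lit 78) (nat_lit 304) (nat_lit 0) (XT.lf (nat_lit 76) (nat_lit 665416114) (nat_lit 0) (nat_lit 99365740) (nat_lit 304) (nat_lit 665416114) (nat_lit 219) (nat_lit 1) (nat_lit 218)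 (nat_lit 1) (nat_lit 222) (nat_lit 1) (nat_lit 418) (nat_lit 330) (nat_lit 272)) (XT.lf (nat_lit 380) (nat_lit 990280332) (nat_lit 0) (nat_lit 211907246) (nat_lit 304) (nat_lit 211907246) (nat_lit 219) (nat_lit 1) (nat_lit 214) (nat_lit 1) (nat_lit 218) (nat_lit 1) (nat_lit 419) (nat_lit 330) (nat_lit 271))) (XT.nd (nat_lit 78) (nat_lit 608) (nat_lit 0) (XT.lf (nat_lit 76) (nat_lit 324921333) (nat_lit 0) (nat_lit 748332463) (nat_lit 380) (nat_lit 324921333) (nat_lit 215) (nat_lit 1) (nat_lit 214) (nat_lit 1) (nat_lit 219) (nat_lit 1) (nat_lit 420) (nat_lit 330) (nat_lit 270)) (XT.nd (nat_lit 78) (nat_lit 380) (nat_lit 0) (XT.lf (nat_lit 304) (nat_lit 311984068) (nat_lit 0) (nat_lit 535260679) (nat_lit 228) (nat_lit 535260679) (nat_lit 215) (nat_lit 1) (nat_lit 211) (nat_lit 1) (nat_lit 214) (nat_lit 1) (nat_lit 421) (nat_lit 330) (nat_lit 269)) (XT.lf (nat_lit 380) (nat_lit 1348255611) (nat_lit 0) (nat_lit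 9467729) (nat_lit 304) (nat_lit 9467729) (nat_lit 211) (nat_lit 1) (nat_lit 206) (nat_lit 1) (nat_lit 210) (nat_lit 1) (nat_lit 422) (nat_lit 330) (nat_lit 268)))))) (XT.nd (nat_lit 390) (nat_lit 760) (nat_lit 0) (XT.nd (nat_lit 156) (nat_lit 532) (nat_lit 0) (XT.nd (nat_lit 78) (nat_lit 228) (nat_lit 0) (XT.lf (nat_lit 76) (nat_lit 502290203) (nat_lit 0) (nat_lit 347266197) (nat_lit 380) (nat_lit 502290203) (nat_lit 207) (nat_lit 1) (nat_lit 206) (nat_lit 1) (nat_lit 211) (nat_lit 1) (nat_lit 423) (nat_lit 330) (nat_lit 267)) (XT.lf (nat_lit 304) (nat_lit 667510590) (nat_lit 0) (nat_lit 334669656) (nat_lit 228) (nat_lit 334669656) (nat_lit 207) (nat_lit 1) (nat_lit 203) (nat_lit 1) (nat_lit 206) (nat_lit 1) (nat_lit 424) (nat_lit 330) (nat_lit 266))) (XT.nd (nat_lit 78) (nat_lit 532) (nat_lit 0) (XT.lf (nat_lit 76) (nat_lit 166824663) (nat_lit 0) (nat_lit 988448177) (nat_lit 304) (nat_lit 166824663)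 (nat_lit 204) (nat_lit 1) (nat_lit 203) (nat_lit 1) (nat_lit 207) (nat_lit 1) (nat_lit 425) (nat_lit 330) (nat_lit 265)) (XT.nd (nat_lit 78) (nat_lit 228) (nat_lit 0) (XT.lf (nat_lit 76) (nat_lit 653658736) (nat_lit 0) (nat_lit 175009) (nat_lit 304) (nat_lit 653658736) (nat_lit 200) (nat_lit 1) (nat_lit 199) (nat_lit 1) (nat_lit 203) (nat_lit 1) (nat_lit 426) (nat_lit 330) (nat_lit 264)) (XT.lf (nat_lit 304) (nat_lit 972022851) (nat_lit 0) (nat_lit 160551087) (nat_lit 228) (nat_lit 160551087) (nat_lit 200) (nat_lit 1) (nat_lit 196) (nat_lit 1) (nat_lit 199) (nat_lit 1) (nat_lit 427) (nat_lit 330) (nat_lit 263))))) (XT.nd (nat_lit 156) (nat_lit 532) (nat_lit 0) (XT.nd (nat_lit 78) (nat_lit 228) (nat_lit 0) (XT.lf (nat_lit 76) (nat_lit 318435052) (nat_lit 0) (nat_lit 642025624) (nat_lit 304) (nat_lit 318435052) (nat_lit 197) (nat_lit 1) (nat_lit 196) (nat_lit 1) (nat_lit 200) (nat_lit 1) (nat_lit 428)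 (nat_lit 330) (nat_lit 262)) (XT.lf (nat_lit 304) (nat_lit 305184719) (nat_lit 0) (nat_lit 479856413) (nat_lit 228) (nat_lit 479856413) (nat_lit 197) (nat_lit 1) (nat_lit 193) (nat_lit 1) (nat_lit 196) (nat_lit 1) (nat_lit 429) (nat_lit 330) (nat_lit 261))) (XT.nd (nat_lit 78) (nat_lit 228) (nat_lit 0) (XT.lf (nat_lit 304) (nat_lit 1231540720) (nat_lit 0) (nat_lit 9833418) (nat_lit 228) (nat_lit 9833418) (nat_lit 193) (nat_lit 1) (nat_lit 189) (nat_lit 1) (nat_lit 192) (nat_lit 1) (nat_lit 430) (nat_lit 330) (nat_lit 260)) (XT.nd (nat_lit 78) (nat_lit 228) (nat_lit 0) (XT.lf (nat_lit 76) (nat_lit 448181244) (nat_lit 0) (nat_lit 341113219) (nat_lit 304) (nat_lit 448181244) (nat_lit 190) (nat_lit 1) (nat_lit 189) (nat_lit 1) (nat_lit 193) (nat_lit 1) (nat_lit 431) (nat_lit 330) (nat_lit 259)) (XT.lf (nat_lit 304) (nat_lit 567602483) (nat_lit 0) (nat_lit 328221964) (nat_lit 228) (nat_lit 328221964) (nat_lit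 190) (nat_lit 1) (nat_lit 186) (nat_lit 1) (nat_lit 189) (nat_lit 1) (nat_lit 432) (nat_lit 330) (nat_lit 258))))))) (XT.nd (nat_lit 47814) (nat_lit 0) (nat_lit 13680) (XT.nd (nat_lit 47424) (nat_lit 0) (nat_lit 14592) (XT.nd (nat_lit 47268) (nat_lit 0) (nat_lit 14516) (XT.nd (nat_lit 78) (nat_lit 228) (nat_lit 0) (XT.lf (nat_lit 76) (nat_lit 121399092) (nat_lit 0) (nat_lit 968046390) (nat_lit 304) (nat_lit 121399092) (nat_lit 187) (nat_lit 1) (nat_lit 186) (nat_lit 1) (nat_lit 190) (nat_lit 1) (nat_lit 433) (nat_lit 330) (nat_lit 257)) (XT.lf (nat_lit 76) (nat_lit 558645779) (nat_lit 0) (nat_lit 80435617) (nat_lit 228) (nat_lit 558645779) (nat_lit 184) (nat_lit 1) (nat_lit 183) (nat_lit 1) (nat_lit 186) (nat_lit 1) (nat_lit 434) (nat_lit 330) (nat_lit 256))) (XT.nd (nat_lit 78) (nat_lit 0) (nat_lit 0) (XT.lf (nat_lit 1292) (nat_lit 285844378) (nat_lit 0) (nat_lit 983437597) (nat_lit 1292) (nat_lit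 285844378) (nat_lit 391) (nat_lit 1) (nat_lit 374) (nat_lit 0) (nat_lit 391) (nat_lit 0) (nat_lit 358) (nat_lit 331) (nat_lit 331)) (XT.lf (nat_lit 1292) (nat_lit 1117084838) (nat_lit 76) (nat_lit 973796052) (nat_lit 0) (nat_lit 973796052) (nat_lit 391) (nat_lit 1) (nat_lit 375) (nat_lit 1) (nat_lit 374) (nat_lit 0) (nat_lit 359) (nat_lit 331) (nat_lit 330)))) (XT.nd (nat_lit 156) (nat_lit 0) (nat_lit 76) (XT.nd (nat_lit 78) (nat_lit 0) (nat_lit 0) (XT.lf (nat_lit 1292) (nat_lit 540248862) (nat_lit 0) (nat_lit 1939608761) (nat_lit 1216) (nat_lit 540248862) (nat_lit 392) (nat_lit 1) (nat_lit 375) (nat_lit 1) (nat_lit 391) (nat_lit 1) (nat_lit 360) (nat_lit 331) (nat_lit 329)) (XT.lf (nat_lit 1292) (nat_lit 1025960482) (nat_lit 76) (nat_lit 975159928) (nat_lit 0) (nat_lit 975159928) (nat_lit 392) (nat_lit 1) (nat_lit 376) (nat_lit 1) (nat_lit 375) (nat_lit 1) (nat_lit 361) (nat_lit 331) (nat_lit 328)))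 (XT.nd (nat_lit 78) (nat_lit 0) (nat_lit 0) (XT.lf (nat_lit 1292) (nat_lit 481426839) (nat_lit 0) (nat_lit 1970581138) (nat_lit 1216) (nat_lit 481426839) (nat_lit 393) (nat_lit 1) (nat_lit 376) (nat_lit 1) (nat_lit 392) (nat_lit 1) (nat_lit 362) (nat_lit 331) (nat_lit 327)) (XT.nd (nat_lit 78) (nat_lit 0) (nat_lit 76) (XT.lf (nat_lit 1292) (nat_lit 882265515) (nat_lit 76) (nat_lit 1004504503) (nat_lit 0) (nat_lit 1004504503) (nat_lit 393) (nat_lit 1) (nat_lit 377) (nat_lit 1) (nat_lit 376) (nat_lit 1) (nat_lit 363) (nat_lit 331) (nat_lit 326)) (XT.lf (nat_lit 1292) (nat_lit 397644638) (nat_lit 0) (nat_lit 2054798493) (nat_lit 1216) (nat_lit 397644638) (nat_lit 394) (nat_lit 1) (nat_lit 377) (nat_lit 1) (nat_lit 393) (nat_lit 1) (nat_lit 364) (nat_lit 331) (nat_lit 325)))))) (XT.nd (nat_lit 390) (nat_lit 1064) (nat_lit 0) (XT.nd (nat_lit 156) (nat_lit 0) (nat_lit 76) (XT.nd (nat_lit 78) (nat_lit 0) (nat_lit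 76) (XT.lf (nat_lit 1292) (nat_lit 690701245) (nat_lit 76) (nat_lit 1059406319) (nat_lit 0) (nat_lit 1059406319) (nat_lit 394) (nat_lit 1) (nat_lit 378) (nat_lit 1) (nat_lit 377) (nat_lit 1) (nat_lit 365) (nat_lit 331) (nat_lit 324)) (XT.lf (nat_lit 1292) (nat_lit 291160419) (nat_lit 0) (nat_lit 2187601736) (nat_lit 1216) (nat_lit 291160419) (nat_lit 395) (nat_lit 1) (nat_lit 378) (nat_lit 1) (nat_lit 394) (nat_lit 1) (nat_lit 366) (nat_lit 331) (nat_lit 323))) (XT.nd (nat_lit 78) (nat_lit 0) (nat_lit 76) (XT.lf (nat_lit 1292) (nat_lit 455650069) (nat_lit 76) (nat_lit 1137604836) (nat_lit 0) (nat_lit 1137604836) (nat_lit 395) (nat_lit 1) (nat_lit 379) (nat_lit 1) (nat_lit 378) (nat_lit 1) (nat_lit 367) (nat_lit 331) (nat_lit 322)) (XT.nd (nat_lit 78) (nat_lit 0) (nat_lit 0) (XT.lf (nat_lit 1292) (nat_lit 164078676) (nat_lit 0) (nat_lit 2364645907) (nat_lit 1216) (nat_lit 164078676) (nat_lit 396) (nat_lit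 1) (nat_lit 379) (nat_lit 1) (nat_lit 395) (nat_lit 1) (nat_lit 368) (nat_lit 331) (nat_lit 321)) (XT.lf (nat_lit 1292) (nat_lit 181195211) (nat_lit 76) (nat_lit 1236992390) (nat_lit 0) (nat_lit 1236992390) (nat_lit 396) (nat_lit 1) (nat_lit 380) (nat_lit 1) (nat_lit 379) (nat_lit 1) (nat_lit 369) (nat_lit 331) (nat_lit 320))))) (XT.nd (nat_lit 156) (nat_lit 0) (nat_lit 0) (XT.nd (nat_lit 78) (nat_lit 1292) (nat_lit 0) (XT.lf (nat_lit 1292) (nat_lit 18359755) (nat_lit 0) (nat_lit 2581880784) (nat_lit 1216) (nat_lit 18359755) (nat_lit 397) (nat_lit 1) (nat_lit 380) (nat_lit 1) (nat_lit 396) (nat_lit 1) (nat_lit 370) (nat_lit 331) (nat_lit 319)) (XT.lf (nat_lit 1368) (nat_lit 1227982712) (nat_lit 0) (nat_lit 126346181) (nat_lit 1292) (nat_lit 1227982712) (nat_lit 381) (nat_lit 1) (nat_lit 363) (nat_lit 1) (nat_lit 380) (nat_lit 1) (nat_lit 371) (nat_lit 331) (nat_lit 318))) (XT.nd (nat_lit 78) (nat_lit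 0) (nat_lit 76) (XT.lf (nat_lit 1368) (nat_lit 2261507639) (nat_lit 76) (nat_lit 142757743) (nat_lit 0) (nat_lit 142757743) (nat_lit 381) (nat_lit 1) (nat_lit 364) (nat_lit 1) (nat_lit 363) (nat_lit 1) (nat_lit 372) (nat_lit 331) (nat_lit 317)) (XT.nd (nat_lit 78) (nat_lit 0) (nat_lit 0) (XT.lf (nat_lit 1368) (nat_lit 1025161254) (nat_lit 0) (nat_lit 461787787) (nat_lit 1292) (nat_lit 1025161254) (nat_lit 382) (nat_lit 1) (nat_lit 364) (nat_lit 1) (nat_lit 381) (nat_lit 1) (nat_lit 373) (nat_lit 331) (nat_lit 316)) (XT.lf (nat_lit 1368) (nat_lit 1840761069) (nat_lit 76) (nat_lit 318660705) (nat_lit 0) (nat_lit 318660705) (nat_lit 382) (nat_lit 1) (nat_lit 365) (nat_lit 1) (nat_lit 364) (nat_lit 1) (nat_lit 374) (nat_lit 331) (nat_lit 315))))))))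
noncomputable def ec39 : XT := (XT.nd (nat_lit 1482) (nat_lit 4712) (nat_lit 0) (XT.nd (nat_lit 702) (nat_lit 2584) (nat_lit 0) (XT.nd (nat_lit 312) (nat_lit 1824) (nat_lit 0) (XT.nd (nat_lit 156) (nat_lit 608) (nat_lit 0) (XT.nd (nat_lit 78) (nat_lit 836) (nat_lit 0) (XT.lf (nat_lit 76) (nat_lit 809539002) (nat_lit 0) (nat_lit 825436925) (nat_lit 1292) (nat_lit 809539002) (nat_lit 366) (nat_lit 1) (nat_lit 365) (nat_lit 1) (nat_lit 382) (nat_lit 1) (nat_lit 375) (nat_lit 331) (nat_lit 314)) (XT.lf (nat_lit 912) (nat_lit 1395759209) (nat_lit 0) (nat_lit 507965081) (nat_lit 836) (nat_lit 507965081) (nat_lit 366) (nat_lit 1) (nat_lit 354) (nat_lit 1) (nat_lit 365) (nat_lit 1) (nat_lit 376) (nat_lit 331) (nat_lit 313))) (XT.nd (nat_lit 78) (nat_lit 608) (nat_lit 0) (XT.lf (nat_lit 76) (nat_lit 582562723) (nat_lit 0) (nat_lit 1214291943) (nat_lit 912) (nat_lit 582562723) (nat_lit 355) (nat_lit 1) (nat_lit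 354) (nat_lit 1) (nat_lit 366) (nat_lit 1) (nat_lit 377) (nat_lit 331) (nat_lit 312)) (XT.lf (nat_lit 684) (nat_lit 929304349) (nat_lit 0) (nat_lit 709217139) (nat_lit 608) (nat_lit 709217139) (nat_lit 355) (nat_lit 1) (nat_lit 346) (nat_lit 1) (nat_lit 354) (nat_lit 1) (nat_lit 378) (nat_lit 331) (nat_lit 311)))) (XT.nd (nat_lit 156) (nat_lit 1216) (nat_lit 0) (XT.nd (nat_lit 78) (nat_lit 608) (nat_lit 0) (XT.lf (nat_lit 76) (nat_lit 345575397) (nat_lit 0) (nat_lit 1625563761) (nat_lit 684) (nat_lit 345575397) (nat_lit 347) (nat_lit 1) (nat_lit 346) (nat_lit 1) (nat_lit 355) (nat_lit 1) (nat_lit 379) (nat_lit 331) (nat_lit 310)) (XT.lf (nat_lit 684) (nat_lit 443996851) (nat_lit 0) (nat_lit 921066532) (nat_lit 608) (nat_lit 921066532) (nat_lit 347) (nat_lit 1) (nat_lit 338) (nat_lit 1) (nat_lit 346) (nat_lit 1) (nat_lit 380) (nat_lit 331) (nat_lit 309))) (XT.nd (nat_lit 78) (nat_lit 1216) (nat_lit 0)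 (XT.lf (nat_lit 76) (nat_lit 99822778) (nat_lit 0) (nat_lit 2056662494) (nat_lit 684) (nat_lit 99822778) (nat_lit 339) (nat_lit 1) (nat_lit 338) (nat_lit 1) (nat_lit 347) (nat_lit 1) (nat_lit 381) (nat_lit 331) (nat_lit 308)) (XT.nd (nat_lit 78) (nat_lit 608) (nat_lit 0) (XT.lf (nat_lit 76) (nat_lit 1085062867) (nat_lit 0) (nat_lit 56625114) (nat_lit 608) (nat_lit 1085062867) (nat_lit 331) (nat_lit 1) (nat_lit 330) (nat_lit 1) (nat_lit 338) (nat_lit 1) (nat_lit 382) (nat_lit 331) (nat_lit 307)) (XT.lf (nat_lit 684) (nat_lit 1893855738) (nat_lit 0) (nat_lit 152035135) (nat_lit 608) (nat_lit 152035135) (nat_lit 331) (nat_lit 1) (nat_lit 322) (nat_lit 1) (nat_lit 330) (nat_lit 1) (nat_lit 383) (nat_lit 331) (nat_lit 306)))))) (XT.nd (nat_lit 390) (nat_lit 1520) (nat_lit 0) (XT.nd (nat_lit 156) (nat_lit 532) (nat_lit 0) (XT.nd (nat_lit 78) (nat_lit 532) (nat_lit 0) (XT.lf (nat_lit 76) (nat_lit 803440697)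 (nat_lit 0) (nat_lit 562513186) (nat_lit 684) (nat_lit 803440697) (nat_lit 323) (nat_lit 1) (nat_lit 322) (nat_lit 1) (nat_lit 331) (nat_lit 1) (nat_lit 384) (nat_lit 331) (nat_lit 305)) (XT.lf (nat_lit 608) (nat_lit 1322750691) (nat_lit 0) (nat_lit 409391423) (nat_lit 532) (nat_lit 409391423) (nat_lit 323) (nat_lit 1) (nat_lit 315) (nat_lit 1) (nat_lit 322) (nat_lit 1) (nat_lit 385) (nat_lit 331) (nat_lit 304))) (XT.nd (nat_lit 78) (nat_lit 532) (nat_lit 0) (XT.lf (nat_lit 76) (nat_lit 516899548) (nat_lit 0) (nat_lit 1080303432) (nat_lit 608) (nat_lit 516899548) (nat_lit 316) (nat_lit 1) (nat_lit 315) (nat_lit 1) (nat_lit 323) (nat_lit 1) (nat_lit 386) (nat_lit 331) (nat_lit 303)) (XT.nd (nat_lit 78) (nat_lit 0) (nat_lit 0) (XT.lf (nat_lit 608) (nat_lit 742672359) (nat_lit 0) (nat_lit 672244820) (nat_lit 532) (nat_lit 672244820) (nat_lit 316) (nat_lit 1) (nat_lit 308) (nat_lit 1) (nat_lit 315) (nat_lit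 1) (nat_lit 387) (nat_lit 331) (nat_lit 302)) (XT.lf (nat_lit 76) (nat_lit 226335924) (nat_lit 0) (nat_lit 1608120126) (nat_lit 608) (nat_lit 226335924) (nat_lit 309) (nat_lit 1) (nat_lit 308) (nat_lit 1) (nat_lit 316) (nat_lit 1) (nat_lit 388) (nat_lit 331) (nat_lit 301))))) (XT.nd (nat_lit 156) (nat_lit 456) (nat_lit 0) (XT.nd (nat_lit 78) (nat_lit 608) (nat_lit 0) (XT.lf (nat_lit 532) (nat_lit 155352073) (nat_lit 0) (nat_lit 939689368) (nat_lit 456) (nat_lit 939689368) (nat_lit 309) (nat_lit 1) (nat_lit 302) (nat_lit 1) (nat_lit 308) (nat_lit 1) (nat_lit 389) (nat_lit 331) (nat_lit 300)) (XT.lf (nat_lit 608) (nat_lit 1875781719) (nat_lit 0) (nat_lit 66762011) (nat_lit 532) (nat_lit 66762011) (nat_lit 302) (nat_lit 1) (nat_lit 294) (nat_lit 1) (nat_lit 301) (nat_lit 1) (nat_lit 390) (nat_lit 331) (nat_lit 299))) (XT.nd (nat_lit 78) (nat_lit 456) (nat_lit 0) (XT.lf (nat_lit 76) (nat_lit 777481274)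 (nat_lit 0) (nat_lit 429074231) (nat_lit 608) (nat_lit 777481274) (nat_lit 295) (nat_lit 1) (nat_lit 294) (nat_lit 1) (nat_lit 302) (nat_lit 1) (nat_lit 391) (nat_lit 331) (nat_lit 298)) (XT.nd (nat_lit 78) (nat_lit 0) (nat_lit 0) (XT.lf (nat_lit 532) (nat_lit 1239281014) (nat_lit 0) (nat_lit 360050134) (nat_lit 456) (nat_lit 360050134) (nat_lit 295) (nat_lit 1) (nat_lit 288) (nat_lit 1) (nat_lit 294) (nat_lit 1) (nat_lit 392) (nat_lit 331) (nat_lit 297)) (XT.lf (nat_lit 76) (nat_lit 460261990) (nat_lit 0) (nat_lit 1014562546) (nat_lit 532) (nat_lit 460261990) (nat_lit 289) (nat_lit 1) (nat_lit 288) (nat_lit 1) (nat_lit 295) (nat_lit 1) (nat_lit 393) (nat_lit 331) (nat_lit 296))))))) (XT.nd (nat_lit 702) (nat_lit 2128) (nat_lit 0) (XT.nd (nat_lit 312) (nat_lit 1216) (nat_lit 0) (XT.nd (nat_lit 156) (nat_lit 912) (nat_lit 0) (XT.nd (nat_lit 78) (nat_lit 0) (nat_lit 0) (XT.lf (nat_lit 532) (nat_lit 601104439)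 (nat_lit 0) (nat_lit 655052617) (nat_lit 456) (nat_lit 655052617) (nat_lit 289) (nat_lit 1) (nat_lit 282) (nat_lit 1) (nat_lit 288) (nat_lit 1) (nat_lit 394) (nat_lit 331) (nat_lit 295)) (XT.lf (nat_lit 76) (nat_lit 142518425) (nat_lit 0) (nat_lit 1602818068) (nat_lit 532) (nat_lit 142518425) (nat_lit 283) (nat_lit 1) (nat_lit 282) (nat_lit 1) (nat_lit 289) (nat_lit 1) (nat_lit 395) (nat_lit 331) (nat_lit 294))) (XT.nd (nat_lit 78) (nat_lit 456) (nat_lit 0) (XT.lf (nat_lit 76) (nat_lit 913952808) (nat_lit 0) (nat_lit 36806270) (nat_lit 456) (nat_lit 913952808) (nat_lit 277) (nat_lit 1) (nat_lit 276) (nat_lit 1) (nat_lit 282) (nat_lit 1) (nat_lit 396) (nat_lit 331) (nat_lit 293)) (XT.lf (nat_lit 532) (nat_lit 1495159430) (nat_lit 0) (nat_lit 173456285) (nat_lit 456) (nat_lit 173456285) (nat_lit 277) (nat_lit 1) (nat_lit 270) (nat_lit 1) (nat_lit 276) (nat_lit 1) (nat_lit 397) (nat_lit 331) (nat_lit 292))))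 (XT.nd (nat_lit 156) (nat_lit 836) (nat_lit 0) (XT.nd (nat_lit 78) (nat_lit 380) (nat_lit 0) (XT.lf (nat_lit 76) (nat_lit 578650660) (nat_lit 0) (nat_lit 662359034) (nat_lit 532) (nat_lit 578650660) (nat_lit 271) (nat_lit 1) (nat_lit 270) (nat_lit 1) (nat_lit 277) (nat_lit 1) (nat_lit 398) (nat_lit 331) (nat_lit 291)) (XT.lf (nat_lit 456) (nat_lit 822790023) (nat_lit 0) (nat_lit 487461158) (nat_lit 380) (nat_lit 487461158) (nat_lit 271) (nat_lit 1) (nat_lit 265) (nat_lit 1) (nat_lit 270) (nat_lit 1) (nat_lit 399) (nat_lit 331) (nat_lit 290))) (XT.nd (nat_lit 78) (nat_lit 836) (nat_lit 0) (XT.lf (nat_lit 76) (nat_lit 244937668) (nat_lit 0) (nat_lit 1286290974) (nat_lit 456) (nat_lit 244937668) (nat_lit 266) (nat_lit 1) (nat_lit 265) (nat_lit 1) (nat_lit 271) (nat_lit 1) (nat_lit 400) (nat_lit 331) (nat_lit 289)) (XT.nd (nat_lit 78) (nat_lit 456) (nat_lit 0) (XT.lf (nat_lit 456) (nat_lit 154046499) (nat_lit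 0) (nat_lit 800417018) (nat_lit 380) (nat_lit 800417018) (nat_lit 266) (nat_lit 1) (nat_lit 260) (nat_lit 1) (nat_lit 265) (nat_lit 1) (nat_lit 401) (nat_lit 331) (nat_lit 288)) (XT.lf (nat_lit 456) (nat_lit 1562244832) (nat_lit 0) (nat_lit 85912445) (nat_lit 380) (nat_lit 85912445) (nat_lit 260) (nat_lit 1) (nat_lit 254) (nat_lit 1) (nat_lit 259) (nat_lit 1) (nat_lit 402) (nat_lit 331) (nat_lit 287)))))) (XT.nd (nat_lit 390) (nat_lit 988) (nat_lit 0) (XT.nd (nat_lit 156) (nat_lit 760) (nat_lit 0) (XT.nd (nat_lit 78) (nat_lit 380) (nat_lit 0) (XT.lf (nat_lit 76) (nat_lit 606533858) (nat_lit 0) (nat_lit 500303687) (nat_lit 456) (nat_lit 606533858) (nat_lit 255) (nat_lit 1) (nat_lit 254) (nat_lit 1) (nat_lit 260) (nat_lit 1) (nat_lit 403) (nat_lit 331) (nat_lit 286)) (XT.lf (nat_lit 456) (nat_lit 869155869) (nat_lit 0) (nat_lit 411988607) (nat_lit 380) (nat_lit 411988607) (nat_lit 255) (nat_lit 1) (nat_lit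 249) (nat_lit 1) (nat_lit 254) (nat_lit 1) (nat_lit 404) (nat_lit 331) (nat_lit 285))) (XT.nd (nat_lit 78) (nat_lit 760) (nat_lit 0) (XT.lf (nat_lit 76) (nat_lit 263327684) (nat_lit 0) (nat_lit 1146578217) (nat_lit 456) (nat_lit 263327684) (nat_lit 250) (nat_lit 1) (nat_lit 249) (nat_lit 1) (nat_lit 255) (nat_lit 1) (nat_lit 405) (nat_lit 331) (nat_lit 284)) (XT.nd (nat_lit 78) (nat_lit 456) (nat_lit 0) (XT.lf (nat_lit 380) (nat_lit 182889648) (nat_lit 0) (nat_lit 735348315) (nat_lit 304) (nat_lit 735348315) (nat_lit 250) (nat_lit 1) (nat_lit 245) (nat_lit 1) (nat_lit 249) (nat_lit 1) (nat_lit 406) (nat_lit 331) (nat_lit 283)) (XT.lf (nat_lit 456) (nat_lit 1483192518) (nat_lit 0) (nat_lit 75588730) (nat_lit 380) (nat_lit 75588730) (nat_lit 245) (nat_lit 1) (nat_lit 239) (nat_lit 1) (nat_lit 244) (nat_lit 1) (nat_lit 407) (nat_lit 331) (nat_lit 282))))) (XT.nd (nat_lit 156) (nat_lit 684) (nat_lit 0)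 (XT.nd (nat_lit 78) (nat_lit 304) (nat_lit 0) (XT.lf (nat_lit 76) (nat_lit 564463764) (nat_lit 0) (nat_lit 486306924) (nat_lit 456) (nat_lit 564463764) (nat_lit 240) (nat_lit 1) (nat_lit 239) (nat_lit 1) (nat_lit 245) (nat_lit 1) (nat_lit 408) (nat_lit 331) (nat_lit 281)) (XT.lf (nat_lit 380) (nat_lit 780213221) (nat_lit 0) (nat_lit 408152092) (nat_lit 304) (nat_lit 408152092) (nat_lit 240) (nat_lit 1) (nat_lit 235) (nat_lit 1) (nat_lit 239) (nat_lit 1) (nat_lit 409) (nat_lit 331) (nat_lit 280))) (XT.nd (nat_lit 78) (nat_lit 684) (nat_lit 0) (XT.lf (nat_lit 76) (nat_lit 216965378) (nat_lit 0) (nat_lit 1144189763) (nat_lit 380) (nat_lit 216965378) (nat_lit 236) (nat_lit 1) (nat_lit 235) (nat_lit 1) (nat_lit 240) (nat_lit 1) (nat_lit 410) (nat_lit 331) (nat_lit 279)) (XT.nd (nat_lit 78) (nat_lit 380) (nat_lit 0) (XT.lf (nat_lit 380) (nat_lit 86516644) (nat_lit 0) (nat_lit 736708048) (nat_lit 304) (nat_lit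 736708048) (nat_lit 236) (nat_lit 1) (nat_lit 231) (nat_lit 1) (nat_lit 235) (nat_lit 1) (nat_lit 411) (nat_lit 331) (nat_lit 278)) (XT.lf (nat_lit 380) (nat_lit 1292935688) (nat_lit 0) (nat_lit 124584099) (nat_lit 304) (nat_lit 124584099) (nat_lit 231) (nat_lit 1) (nat_lit 226) (nat_lit 1) (nat_lit 230) (nat_lit 1) (nat_lit 412) (nat_lit 331) (nat_lit 277))))))))
noncomputable def ec40 : XT := (XT.nd (nat_lit 1404) (nat_lit 456) (nat_lit 0) (XT.nd (nat_lit 702) (nat_lit 1520) (nat_lit 0) (XT.nd (nat_lit 312) (nat_lit 912) (nat_lit 0) (XT.nd (nat_lit 156) (nat_lit 304) (nat_lit 0) (XT.nd (nat_lit 78) (nat_lit 304) (nat_lit 0) (XT.lf (nat_lit 76) (nat_lit 469266009) (nat_lit 0) (nat_lit 585865225) (nat_lit 380) (nat_lit 469266009) (nat_lit 227) (nat_lit 1) (nat_lit 226) (nat_lit 1) (nat_lit 231) (nat_lit 1) (nat_lit 413) (nat_lit 331) (nat_lit 276)) (XT.lf (nat_lit 380) (nat_lit 588707011) (nat_lit 0)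 (nat_lit 459166011) (nat_lit 304) (nat_lit 459166011) (nat_lit 227) (nat_lit 1) (nat_lit 222) (nat_lit 1) (nat_lit 226) (nat_lit 1) (nat_lit 414) (nat_lit 331) (nat_lit 275))) (XT.nd (nat_lit 78) (nat_lit 304) (nat_lit 0) (XT.lf (nat_lit 76) (nat_lit 121621149) (nat_lit 0) (nat_lit 1246774334) (nat_lit 380) (nat_lit 121621149) (nat_lit 223) (nat_lit 1) (nat_lit 222) (nat_lit 1) (nat_lit 227) (nat_lit 1) (nat_lit 415) (nat_lit 331) (nat_lit 274)) (XT.lf (nat_lit 76) (nat_lit 685378598) (nat_lit 0) (nat_lit 102346713) (nat_lit 304) (nat_lit 685378598) (nat_lit 219) (nat_lit 1) (nat_lit 218) (nat_lit 1) (nat_lit 222) (nat_lit 1) (nat_lit 416) (nat_lit 331) (nat_lit 273)))) (XT.nd (nat_lit 156) (nat_lit 608) (nat_lit 0) (XT.nd (nat_lit 78) (nat_lit 0) (nat_lit 0) (XT.lf (nat_lit 380) (nat_lit 1019988742) (nat_lit 0) (nat_lit 218264464) (nat_lit 304) (nat_lit 218264464) (nat_lit 219) (nat_lit 1) (nat_lit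 214) (nat_lit 1) (nat_lit 218) (nat_lit 1) (nat_lit 417) (nat_lit 331) (nat_lit 272)) (XT.lf (nat_lit 76) (nat_lit 334668973) (nat_lit 0) (nat_lit 770782437) (nat_lit 380) (nat_lit 334668973) (nat_lit 215) (nat_lit 1) (nat_lit 214) (nat_lit 1) (nat_lit 219) (nat_lit 1) (nat_lit 418) (nat_lit 331) (nat_lit 271))) (XT.nd (nat_lit 78) (nat_lit 380) (nat_lit 0) (XT.lf (nat_lit 304) (nat_lit 321343590) (nat_lit 0) (nat_lit 551318500) (nat_lit 228) (nat_lit 551318500) (nat_lit 215) (nat_lit 1) (nat_lit 211) (nat_lit 1) (nat_lit 214) (nat_lit 1) (nat_lit 419) (nat_lit 331) (nat_lit 270)) (XT.nd (nat_lit 78) (nat_lit 0) (nat_lit 0) (XT.lf (nat_lit 380) (nat_lit 1388703279) (nat_lit 0) (nat_lit 9751761) (nat_lit 304) (nat_lit 9751761) (nat_lit 211) (nat_lit 1) (nat_lit 206) (nat_lit 1) (nat_lit 210) (nat_lit 1) (nat_lit 420) (nat_lit 331) (nat_lit 269)) (XT.lf (nat_lit 76) (nat_lit 517358909) (nat_lit 0) (nat_lit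 357684183) (nat_lit 380) (nat_lit 517358909) (nat_lit 207) (nat_lit 1) (nat_lit 206) (nat_lit 1) (nat_lit 211) (nat_lit 1) (nat_lit 421) (nat_lit 331) (nat_lit 268)))))) (XT.nd (nat_lit 312) (nat_lit 760) (nat_lit 0) (XT.nd (nat_lit 156) (nat_lit 532) (nat_lit 0) (XT.nd (nat_lit 78) (nat_lit 0) (nat_lit 0) (XT.lf (nat_lit 304) (nat_lit 687535908) (nat_lit 0) (nat_lit 344709746) (nat_lit 228) (nat_lit 344709746) (nat_lit 207) (nat_lit 1) (nat_lit 203) (nat_lit 1) (nat_lit 206) (nat_lit 1) (nat_lit 422) (nat_lit 331) (nat_lit 267)) (XT.lf (nat_lit 76) (nat_lit 171829402) (nat_lit 0) (nat_lit 1018101623) (nat_lit 304) (nat_lit 171829402) (nat_lit 204) (nat_lit 1) (nat_lit 203) (nat_lit 1) (nat_lit 207) (nat_lit 1) (nat_lit 423) (nat_lit 331) (nat_lit 266))) (XT.nd (nat_lit 78) (nat_lit 228) (nat_lit 0) (XT.lf (nat_lit 76) (nat_lit 673268498) (nat_lit 0) (nat_lit 180260) (nat_lit 304) (nat_lit 673268498)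 (nat_lit 200) (nat_lit 1) (nat_lit 199) (nat_lit 1) (nat_lit 203) (nat_lit 1) (nat_lit 424) (nat_lit 331) (nat_lit 265)) (XT.lf (nat_lit 304) (nat_lit 1001183536) (nat_lit 0) (nat_lit 165367619) (nat_lit 228) (nat_lit 165367619) (nat_lit 200) (nat_lit 1) (nat_lit 196) (nat_lit 1) (nat_lit 199) (nat_lit 1) (nat_lit 425) (nat_lit 331) (nat_lit 264)))) (XT.nd (nat_lit 156) (nat_lit 532) (nat_lit 0) (XT.nd (nat_lit 78) (nat_lit 228) (nat_lit 0) (XT.lf (nat_lit 76) (nat_lit 327988103) (nat_lit 0) (nat_lit 661286393) (nat_lit 304) (nat_lit 327988103) (nat_lit 197) (nat_lit 1) (nat_lit 196) (nat_lit 1) (nat_lit 200) (nat_lit 1) (nat_lit 426) (nat_lit 331) (nat_lit 263)) (XT.lf (nat_lit 304) (nat_lit 314340260) (nat_lit 0) (nat_lit 494252105) (nat_lit 228) (nat_lit 494252105) (nat_lit 197) (nat_lit 1) (nat_lit 193) (nat_lit 1) (nat_lit 196) (nat_lit 1) (nat_lit 427) (nat_lit 331) (nat_lit 262))) (XT.nd (nat_lit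 78) (nat_lit 228) (nat_lit 0) (XT.lf (nat_lit 304) (nat_lit 1268486941) (nat_lit 0) (nat_lit 10128420) (nat_lit 228) (nat_lit 10128420) (nat_lit 193) (nat_lit 1) (nat_lit 189) (nat_lit 1) (nat_lit 192) (nat_lit 1) (nat_lit 428) (nat_lit 331) (nat_lit 261)) (XT.nd (nat_lit 78) (nat_lit 228) (nat_lit 0) (XT.lf (nat_lit 76) (nat_lit 461626681) (nat_lit 0) (nat_lit 351346616) (nat_lit 304) (nat_lit 461626681) (nat_lit 190) (nat_lit 1) (nat_lit 189) (nat_lit 1) (nat_lit 193) (nat_lit 1) (nat_lit 429) (nat_lit 331) (nat_lit 260)) (XT.lf (nat_lit 304) (nat_lit 584630558) (nat_lit 0) (nat_lit 338068623) (nat_lit 228) (nat_lit 338068623) (nat_lit 190) (nat_lit 1) (nat_lit 186) (nat_lit 1) (nat_lit 189) (nat_lit 1) (nat_lit 430) (nat_lit 331) (nat_lit 259))))))) (XT.nd (nat_lit 47658) (nat_lit 0) (nat_lit 13908) (XT.nd (nat_lit 47268) (nat_lit 0) (nat_lit 14744) (XT.nd (nat_lit 156) (nat_lit 228) (nat_lit 0)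 (XT.nd (nat_lit 78) (nat_lit 228) (nat_lit 0) (XT.lf (nat_lit 76) (nat_lit 125041065) (nat_lit 0) (nat_lit 997087782) (nat_lit 304) (nat_lit 125041065) (nat_lit 187) (nat_lit 1) (nat_lit 186) (nat_lit 1) (nat_lit 190) (nat_lit 1) (nat_lit 431) (nat_lit 331) (nat_lit 258)) (XT.lf (nat_lit 76) (nat_lit 575405152) (nat_lit 0) (nat_lit 82848685) (nat_lit 228) (nat_lit 575405152) (nat_lit 184) (nat_lit 1) (nat_lit 183) (nat_lit 1) (nat_lit 186) (nat_lit 1) (nat_lit 432) (nat_lit 331) (nat_lit 257))) (XT.nd (nat_lit 78) (nat_lit 0) (nat_lit 0) (XT.lf (nat_lit 304) (nat_lit 815886492) (nat_lit 0) (nat_lit 202245349) (nat_lit 228) (nat_lit 202245349) (nat_lit 184) (nat_lit 1) (nat_lit 180) (nat_lit 1) (nat_lit 183) (nat_lit 1) (nat_lit 433) (nat_lit 331) (nat_lit 256)) (XT.lf (nat_lit 76) (nat_lit 241319828) (nat_lit 0) (nat_lit 724607297) (nat_lit 304) (nat_lit 241319828) (nat_lit 181) (nat_lit 1) (nat_lit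 180) (nat_lit 1) (nat_lit 184) (nat_lit 1) (nat_lit 434) (nat_lit 331) (nat_lit 255)))) (XT.nd (nat_lit 156) (nat_lit 0) (nat_lit 76) (XT.nd (nat_lit 78) (nat_lit 0) (nat_lit 0) (XT.lf (nat_lit 1292) (nat_lit 294419709) (nat_lit 0) (nat_lit 1012940725) (nat_lit 1292) (nat_lit 294419709) (nat_lit 391) (nat_lit 1) (nat_lit 374) (nat_lit 0) (nat_lit 391) (nat_lit 0) (nat_lit 356) (nat_lit 332) (nat_lit 332)) (XT.lf (nat_lit 1292) (nat_lit 1150597383) (nat_lit 76) (nat_lit 1003009934) (nat_lit 0) (nat_lit 1003009934) (nat_lit 391) (nat_lit 1) (nat_lit 375) (nat_lit 1) (nat_lit 374) (nat_lit 0) (nat_lit 357) (nat_lit 332) (nat_lit 331))) (XT.nd (nat_lit 78) (nat_lit 0) (nat_lit 0) (XT.lf (nat_lit 1292) (nat_lit 556456328) (nat_lit 0) (nat_lit 1997797024) (nat_lit 1216) (nat_lit 556456328) (nat_lit 392) (nat_lit 1) (nat_lit 375) (nat_lit 1) (nat_lit 391) (nat_lit 1) (nat_lit 358) (nat_lit 332) (nat_lit 330))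 (XT.nd (nat_lit 78) (nat_lit 0) (nat_lit 76) (XT.lf (nat_lit 1292) (nat_lit 1056739297) (nat_lit 76) (nat_lit 1004414726) (nat_lit 0) (nat_lit 1004414726) (nat_lit 392) (nat_lit 1) (nat_lit 376) (nat_lit 1) (nat_lit 375) (nat_lit 1) (nat_lit 359) (nat_lit 332) (nat_lit 329)) (XT.lf (nat_lit 1292) (nat_lit 495869645) (nat_lit 0) (nat_lit 2029698572) (nat_lit 1216) (nat_lit 495869645) (nat_lit 393) (nat_lit 1) (nat_lit 376) (nat_lit 1) (nat_lit 392) (nat_lit 1) (nat_lit 360) (nat_lit 332) (nat_lit 328)))))) (XT.nd (nat_lit 390) (nat_lit 988) (nat_lit 0) (XT.nd (nat_lit 156) (nat_lit 0) (nat_lit 76) (XT.nd (nat_lit 78) (nat_lit 0) (nat_lit 76) (XT.lf (nat_lit 1292) (nat_lit 908733481) (nat_lit 76) (nat_lit 1034639638) (nat_lit 0) (nat_lit 1034639638) (nat_lit 393) (nat_lit 1) (nat_lit 377) (nat_lit 1) (nat_lit 376) (nat_lit 1) (nat_lit 361) (nat_lit 332) (nat_lit 327)) (XT.lf (nat_lit 1292) (nat_lit 409573978)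 (nat_lit 0) (nat_lit 2116442447) (nat_lit 1216) (nat_lit 409573978) (nat_lit 394) (nat_lit 1) (nat_lit 377) (nat_lit 1) (nat_lit 393) (nat_lit 1) (nat_lit 362) (nat_lit 332) (nat_lit 326))) (XT.nd (nat_lit 78) (nat_lit 0) (nat_lit 76) (XT.lf (nat_lit 1292) (nat_lit 711422282) (nat_lit 76) (nat_lit 1091188508) (nat_lit 0) (nat_lit 1091188508) (nat_lit 394) (nat_lit 1) (nat_lit 378) (nat_lit 1) (nat_lit 377) (nat_lit 1) (nat_lit 363) (nat_lit 332) (nat_lit 325)) (XT.nd (nat_lit 78) (nat_lit 0) (nat_lit 0) (XT.lf (nat_lit 1292) (nat_lit 299895232) (nat_lit 0) (nat_lit 2253229788) (nat_lit 1216) (nat_lit 299895232) (nat_lit 395) (nat_lit 1) (nat_lit 378) (nat_lit 1) (nat_lit 394) (nat_lit 1) (nat_lit 364) (nat_lit 332) (nat_lit 324)) (XT.lf (nat_lit 1292) (nat_lit 469319571) (nat_lit 76) (nat_lit 1171732981) (nat_lit 0) (nat_lit 1171732981) (nat_lit 395) (nat_lit 1) (nat_lit 379) (nat_lit 1) (nat_lit 378)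 (nat_lit 1) (nat_lit 365) (nat_lit 332) (nat_lit 323))))) (XT.nd (nat_lit 156) (nat_lit 1216) (nat_lit 0) (XT.nd (nat_lit 78) (nat_lit 0) (nat_lit 0) (XT.lf (nat_lit 1292) (nat_lit 169001036) (nat_lit 0) (nat_lit 2435585284) (nat_lit 1216) (nat_lit 169001036) (nat_lit 396) (nat_lit 1) (nat_lit 379) (nat_lit 1) (nat_lit 395) (nat_lit 1) (nat_lit 366) (nat_lit 332) (nat_lit 322)) (XT.lf (nat_lit 1292) (nat_lit 186631068) (nat_lit 76) (nat_lit 1274102161) (nat_lit 0) (nat_lit 1274102161) (nat_lit 396) (nat_lit 1) (nat_lit 380) (nat_lit 1) (nat_lit 379) (nat_lit 1) (nat_lit 367) (nat_lit 332) (nat_lit 321))) (XT.nd (nat_lit 78) (nat_lit 1292) (nat_lit 0) (XT.lf (nat_lit 1292) (nat_lit 18910547) (nat_lit 0) (nat_lit 2659337208) (nat_lit 1216) (nat_lit 18910547) (nat_lit 397) (nat_lit 1) (nat_lit 380) (nat_lit 1) (nat_lit 396) (nat_lit 1) (nat_lit 368) (nat_lit 332) (nat_lit 320)) (XT.nd (nat_lit 78) (nat_lit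 0) (nat_lit 0) (XT.lf (nat_lit 1368) (nat_lit 1264822193) (nat_lit 0) (nat_lit 130136566) (nat_lit 1292) (nat_lit 1264822193) (nat_lit 381) (nat_lit 1) (nat_lit 363) (nat_lit 1) (nat_lit 380) (nat_lit 1) (nat_lit 369) (nat_lit 332) (nat_lit 319)) (XT.lf (nat_lit 1368) (nat_lit 2329352868) (nat_lit 76) (nat_lit 147040475) (nat_lit 0) (nat_lit 147040475) (nat_lit 381) (nat_lit 1) (nat_lit 364) (nat_lit 1) (nat_lit 363) (nat_lit 1) (nat_lit 370) (nat_lit 332) (nat_lit 318))))))))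
noncomputable def ec41 : XT := (XT.nd (nat_lit 1482) (nat_lit 4484) (nat_lit 0) (XT.nd (nat_lit 702) (nat_lit 3344) (nat_lit 0) (XT.nd (nat_lit 312) (nat_lit 1216) (nat_lit 0) (XT.nd (nat_lit 156) (nat_lit 760) (nat_lit 0) (XT.nd (nat_lit 78) (nat_lit 0) (nat_lit 0) (XT.lf (nat_lit 1368) (nat_lit 1055916091) (nat_lit 0) (nat_lit 475641420) (nat_lit 1292) (nat_lit 1055916091) (nat_lit 382) (nat_lit 1) (nat_lit 364) (nat_lit 1) (nat_lit 381) (nat_lit 1) (nat_lit 371) (nat_lit 332) (nat_lit 317)) (XT.lf (nat_lit 1368) (nat_lit 1895983901) (nat_lit 76) (nat_lit 328220526) (nat_lit 0) (nat_lit 328220526) (nat_lit 382) (nat_lit 1) (nat_lit 365) (nat_lit 1) (nat_lit 364) (nat_lit 1) (nat_lit 372) (nat_lit 332) (nat_lit 316))) (XT.nd (nat_lit 78) (nat_lit 836) (nat_lit 0) (XT.lf (nat_lit 76) (nat_lit 833825172) (nat_lit 0) (nat_lit 850200033) (nat_lit 1292) (nat_lit 833825172) (nat_lit 366) (nat_lit 1) (nat_lit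 365) (nat_lit 1) (nat_lit 382) (nat_lit 1) (nat_lit 373) (nat_lit 332) (nat_lit 315)) (XT.lf (nat_lit 912) (nat_lit 1437631985) (nat_lit 0) (nat_lit 523204033) (nat_lit 836) (nat_lit 523204033) (nat_lit 366) (nat_lit 1) (nat_lit 354) (nat_lit 1) (nat_lit 365) (nat_lit 1) (nat_lit 374) (nat_lit 332) (nat_lit 314)))) (XT.nd (nat_lit 156) (nat_lit 608) (nat_lit 0) (XT.nd (nat_lit 78) (nat_lit 608) (nat_lit 0) (XT.lf (nat_lit 76) (nat_lit 600039604) (nat_lit 0) (nat_lit 1250720702) (nat_lit 912) (nat_lit 600039604) (nat_lit 355) (nat_lit 1) (nat_lit 354) (nat_lit 1) (nat_lit 366) (nat_lit 1) (nat_lit 375) (nat_lit 332) (nat_lit 313)) (XT.lf (nat_lit 684) (nat_lit 957183479) (nat_lit 0) (nat_lit 730493653) (nat_lit 608) (nat_lit 730493653) (nat_lit 355) (nat_lit 1) (nat_lit 346) (nat_lit 1) (nat_lit 354) (nat_lit 1) (nat_lit 376) (nat_lit 332) (nat_lit 312))) (XT.nd (nat_lit 78) (nat_lit 608) (nat_lit 0)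 (XT.lf (nat_lit 76) (nat_lit 355942659) (nat_lit 0) (nat_lit 1674330674) (nat_lit 684) (nat_lit 355942659) (nat_lit 347) (nat_lit 1) (nat_lit 346) (nat_lit 1) (nat_lit 355) (nat_lit 1) (nat_lit 377) (nat_lit 332) (nat_lit 311)) (XT.nd (nat_lit 78) (nat_lit 0) (nat_lit 0) (XT.lf (nat_lit 684) (nat_lit 457316756) (nat_lit 0) (nat_lit 948698528) (nat_lit 608) (nat_lit 948698528) (nat_lit 347) (nat_lit 1) (nat_lit 338) (nat_lit 1) (nat_lit 346) (nat_lit 1) (nat_lit 378) (nat_lit 332) (nat_lit 310)) (XT.lf (nat_lit 76) (nat_lit 102817462) (nat_lit 0) (nat_lit 2118362369) (nat_lit 684) (nat_lit 102817462) (nat_lit 339) (nat_lit 1) (nat_lit 338) (nat_lit 1) (nat_lit 347) (nat_lit 1) (nat_lit 379) (nat_lit 332) (nat_lit 309)))))) (XT.nd (nat_lit 390) (nat_lit 1596) (nat_lit 0) (XT.nd (nat_lit 156) (nat_lit 532) (nat_lit 0) (XT.nd (nat_lit 78) (nat_lit 608) (nat_lit 0) (XT.lf (nat_lit 76) (nat_lit 1117614753)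 (nat_lit 0) (nat_lit 58323867) (nat_lit 608) (nat_lit 1117614753) (nat_lit 331) (nat_lit 1) (nat_lit 330) (nat_lit 1) (nat_lit 338) (nat_lit 1) (nat_lit 380) (nat_lit 332) (nat_lit 308)) (XT.lf (nat_lit 684) (nat_lit 1950671411) (nat_lit 0) (nat_lit 156596189) (nat_lit 608) (nat_lit 156596189) (nat_lit 331) (nat_lit 1) (nat_lit 322) (nat_lit 1) (nat_lit 330) (nat_lit 1) (nat_lit 381) (nat_lit 332) (nat_lit 307))) (XT.nd (nat_lit 78) (nat_lit 532) (nat_lit 0) (XT.lf (nat_lit 76) (nat_lit 827543918) (nat_lit 0) (nat_lit 579388581) (nat_lit 684) (nat_lit 827543918) (nat_lit 323) (nat_lit 1) (nat_lit 322) (nat_lit 1) (nat_lit 331) (nat_lit 1) (nat_lit 382) (nat_lit 332) (nat_lit 306)) (XT.nd (nat_lit 78) (nat_lit 0) (nat_lit 0) (XT.lf (nat_lit 608) (nat_lit 1362433211) (nat_lit 0) (nat_lit 421673166) (nat_lit 532) (nat_lit 421673166) (nat_lit 323) (nat_lit 1) (nat_lit 315) (nat_lit 1) (nat_lit 322) (nat_lit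 1) (nat_lit 383) (nat_lit 332) (nat_lit 305)) (XT.lf (nat_lit 76) (nat_lit 532406535) (nat_lit 0) (nat_lit 1112712534) (nat_lit 608) (nat_lit 532406535) (nat_lit 316) (nat_lit 1) (nat_lit 315) (nat_lit 1) (nat_lit 323) (nat_lit 1) (nat_lit 384) (nat_lit 332) (nat_lit 304))))) (XT.nd (nat_lit 156) (nat_lit 1064) (nat_lit 0) (XT.nd (nat_lit 78) (nat_lit 0) (nat_lit 0) (XT.lf (nat_lit 608) (nat_lit 764952530) (nat_lit 0) (nat_lit 692412165) (nat_lit 532) (nat_lit 692412165) (nat_lit 316) (nat_lit 1) (nat_lit 308) (nat_lit 1) (nat_lit 315) (nat_lit 1) (nat_lit 385) (nat_lit 332) (nat_lit 303)) (XT.lf (nat_lit 76) (nat_lit 233126002) (nat_lit 0) (nat_lit 1656363730) (nat_lit 608) (nat_lit 233126002) (nat_lit 309) (nat_lit 1) (nat_lit 308) (nat_lit 1) (nat_lit 316) (nat_lit 1) (nat_lit 386) (nat_lit 332) (nat_lit 302))) (XT.nd (nat_lit 78) (nat_lit 608) (nat_lit 0) (XT.lf (nat_lit 532) (nat_lit 160012635)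 (nat_lit 0) (nat_lit 967880050) (nat_lit 456) (nat_lit 967880050) (nat_lit 309) (nat_lit 1) (nat_lit 302) (nat_lit 1) (nat_lit 308) (nat_lit 1) (nat_lit 387) (nat_lit 332) (nat_lit 301)) (XT.nd (nat_lit 78) (nat_lit 0) (nat_lit 0) (XT.lf (nat_lit 608) (nat_lit 1932055170) (nat_lit 0) (nat_lit 68764872) (nat_lit 532) (nat_lit 68764872) (nat_lit 302) (nat_lit 1) (nat_lit 294) (nat_lit 1) (nat_lit 301) (nat_lit 1) (nat_lit 388) (nat_lit 332) (nat_lit 300)) (XT.lf (nat_lit 76) (nat_lit 800805712) (nat_lit 0) (nat_lit 441946458) (nat_lit 608) (nat_lit 800805712) (nat_lit 295) (nat_lit 1) (nat_lit 294) (nat_lit 1) (nat_lit 302) (nat_lit 1) (nat_lit 389) (nat_lit 332) (nat_lit 299))))))) (XT.nd (nat_lit 702) (nat_lit 2280) (nat_lit 0) (XT.nd (nat_lit 312) (nat_lit 1292) (nat_lit 0) (XT.nd (nat_lit 156) (nat_lit 456) (nat_lit 0) (XT.nd (nat_lit 78) (nat_lit 0) (nat_lit 0) (XT.lf (nat_lit 532) (nat_lit 1276459445)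 (nat_lit 0) (nat_lit 370851638) (nat_lit 456) (nat_lit 370851638) (nat_lit 295) (nat_lit 1) (nat_lit 288) (nat_lit 1) (nat_lit 294) (nat_lit 1) (nat_lit 390) (nat_lit 332) (nat_lit 298)) (XT.lf (nat_lit 76) (nat_lit 474069849) (nat_lit 0) (nat_lit 1044999423) (nat_lit 532) (nat_lit 474069849) (nat_lit 289) (nat_lit 1) (nat_lit 288) (nat_lit 1) (nat_lit 295) (nat_lit 1) (nat_lit 391) (nat_lit 332) (nat_lit 297))) (XT.nd (nat_lit 78) (nat_lit 0) (nat_lit 0) (XT.lf (nat_lit 532) (nat_lit 619137572) (nat_lit 0) (nat_lit 674704196) (nat_lit 456) (nat_lit 674704196) (nat_lit 289) (nat_lit 1) (nat_lit 282) (nat_lit 1) (nat_lit 288) (nat_lit 1) (nat_lit 392) (nat_lit 332) (nat_lit 296)) (XT.lf (nat_lit 76) (nat_lit 146793978) (nat_lit 0) (nat_lit 1650902610) (nat_lit 532) (nat_lit 146793978) (nat_lit 283) (nat_lit 1) (nat_lit 282) (nat_lit 1) (nat_lit 289) (nat_lit 1) (nat_lit 393) (nat_lit 332) (nat_lit 295))))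 (XT.nd (nat_lit 156) (nat_lit 380) (nat_lit 0) (XT.nd (nat_lit 78) (nat_lit 456) (nat_lit 0) (XT.lf (nat_lit 76) (nat_lit 941371392) (nat_lit 0) (nat_lit 37910458) (nat_lit 456) (nat_lit 941371392) (nat_lit 277) (nat_lit 1) (nat_lit 276) (nat_lit 1) (nat_lit 282) (nat_lit 1) (nat_lit 394) (nat_lit 332) (nat_lit 294)) (XT.lf (nat_lit 532) (nat_lit 1540014213) (nat_lit 0) (nat_lit 178659973) (nat_lit 456) (nat_lit 178659973) (nat_lit 277) (nat_lit 1) (nat_lit 270) (nat_lit 1) (nat_lit 276) (nat_lit 1) (nat_lit 395) (nat_lit 332) (nat_lit 293))) (XT.nd (nat_lit 78) (nat_lit 380) (nat_lit 0) (XT.lf (nat_lit 76) (nat_lit 596010180) (nat_lit 0) (nat_lit 682229805) (nat_lit 532) (nat_lit 596010180) (nat_lit 271) (nat_lit 1) (nat_lit 270) (nat_lit 1) (nat_lit 277) (nat_lit 1) (nat_lit 396) (nat_lit 332) (nat_lit 292)) (XT.nd (nat_lit 78) (nat_lit 0) (nat_lit 0) (XT.lf (nat_lit 456) (nat_lit 847473724) (nat_lit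 0) (nat_lit 502084993) (nat_lit 380) (nat_lit 502084993) (nat_lit 271) (nat_lit 1) (nat_lit 265) (nat_lit 1) (nat_lit 270) (nat_lit 1) (nat_lit 397) (nat_lit 332) (nat_lit 291)) (XT.lf (nat_lit 76) (nat_lit 252285798) (nat_lit 0) (nat_lit 1324879704) (nat_lit 456) (nat_lit 252285798) (nat_lit 266) (nat_lit 1) (nat_lit 265) (nat_lit 1) (nat_lit 271) (nat_lit 1) (nat_lit 398) (nat_lit 332) (nat_lit 290)))))) (XT.nd (nat_lit 390) (nat_lit 1064) (nat_lit 0) (XT.nd (nat_lit 156) (nat_lit 380) (nat_lit 0) (XT.nd (nat_lit 78) (nat_lit 456) (nat_lit 0) (XT.lf (nat_lit 456) (nat_lit 158667894) (nat_lit 0) (nat_lit 824429529) (nat_lit 380) (nat_lit 824429529) (nat_lit 266) (nat_lit 1) (nat_lit 260) (nat_lit 1) (nat_lit 265) (nat_lit 1) (nat_lit 399) (nat_lit 332) (nat_lit 289)) (XT.lf (nat_lit 456) (nat_lit 1609112177) (nat_lit 0) (nat_lit 88489819) (nat_lit 380) (nat_lit 88489819) (nat_lit 260) (nat_lit 1) (nat_lit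 254) (nat_lit 1) (nat_lit 259) (nat_lit 1) (nat_lit 400) (nat_lit 332) (nat_lit 288))) (XT.nd (nat_lit 78) (nat_lit 380) (nat_lit 0) (XT.lf (nat_lit 76) (nat_lit 624729874) (nat_lit 0) (nat_lit 515312798) (nat_lit 456) (nat_lit 624729874) (nat_lit 255) (nat_lit 1) (nat_lit 254) (nat_lit 1) (nat_lit 260) (nat_lit 1) (nat_lit 401) (nat_lit 332) (nat_lit 287)) (XT.nd (nat_lit 78) (nat_lit 0) (nat_lit 0) (XT.lf (nat_lit 456) (nat_lit 895230545) (nat_lit 0) (nat_lit 424348266) (nat_lit 380) (nat_lit 424348266) (nat_lit 255) (nat_lit 1) (nat_lit 249) (nat_lit 1) (nat_lit 254) (nat_lit 1) (nat_lit 402) (nat_lit 332) (nat_lit 286)) (XT.lf (nat_lit 76) (nat_lit 271227515) (nat_lit 0) (nat_lit 1180975564) (nat_lit 456) (nat_lit 271227515) (nat_lit 250) (nat_lit 1) (nat_lit 249) (nat_lit 1) (nat_lit 255) (nat_lit 1) (nat_lit 403) (nat_lit 332) (nat_lit 285))))) (XT.nd (nat_lit 156) (nat_lit 304) (nat_lit 0) (XT.nd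 (nat_lit 78) (nat_lit 456) (nat_lit 0) (XT.lf (nat_lit 380) (nat_lit 188376337) (nat_lit 0) (nat_lit 757408764) (nat_lit 304) (nat_lit 757408764) (nat_lit 250) (nat_lit 1) (nat_lit 245) (nat_lit 1) (nat_lit 249) (nat_lit 1) (nat_lit 404) (nat_lit 332) (nat_lit 284)) (XT.lf (nat_lit 456) (nat_lit 1527688294) (nat_lit 0) (nat_lit 77856392) (nat_lit 380) (nat_lit 77856392) (nat_lit 245) (nat_lit 1) (nat_lit 239) (nat_lit 1) (nat_lit 244) (nat_lit 1) (nat_lit 405) (nat_lit 332) (nat_lit 283))) (XT.nd (nat_lit 78) (nat_lit 304) (nat_lit 0) (XT.lf (nat_lit 76) (nat_lit 581397677) (nat_lit 0) (nat_lit 500896132) (nat_lit 456) (nat_lit 581397677) (nat_lit 240) (nat_lit 1) (nat_lit 239) (nat_lit 1) (nat_lit 245) (nat_lit 1) (nat_lit 406) (nat_lit 332) (nat_lit 282)) (XT.nd (nat_lit 78) (nat_lit 0) (nat_lit 0) (XT.lf (nat_lit 380) (nat_lit 803619617) (nat_lit 0) (nat_lit 420396655) (nat_lit 304) (nat_lit 420396655)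 (nat_lit 240) (nat_lit 1) (nat_lit 235) (nat_lit 1) (nat_lit 239) (nat_lit 1) (nat_lit 407) (nat_lit 332) (nat_lit 281)) (XT.lf (nat_lit 76) (nat_lit 223474340) (nat_lit 0) (nat_lit 1178515455) (nat_lit 380) (nat_lit 223474340) (nat_lit 236) (nat_lit 1) (nat_lit 235) (nat_lit 1) (nat_lit 240) (nat_lit 1) (nat_lit 408) (nat_lit 332) (nat_lit 280))))))))
noncomputable def ec42 : XT := (XT.nd (nat_lit 1482) (nat_lit 1140) (nat_lit 0) (XT.nd (nat_lit 702) (nat_lit 1672) (nat_lit 0) (XT.nd (nat_lit 312) (nat_lit 836) (nat_lit 0) (XT.nd (nat_lit 156) (nat_lit 304) (nat_lit 0) (XT.nd (nat_lit 78) (nat_lit 380) (nat_lit 0) (XT.lf (nat_lit 380) (nat_lit 89112143) (nat_lit 0) (nat_lit 758809289) (nat_lit 304) (nat_lit 758809289) (nat_lit 236) (nat_lit 1) (nat_lit 231) (nat_lit 1) (nat_lit 235) (nat_lit 1) (nat_lit 409) (nat_lit 332) (nat_lit 279)) (XT.lf (nat_lit 380) (nat_lit 1331723759) (nat_lit 0) (nat_lit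 128321622) (nat_lit 304) (nat_lit 128321622) (nat_lit 231) (nat_lit 1) (nat_lit 226) (nat_lit 1) (nat_lit 230) (nat_lit 1) (nat_lit 410) (nat_lit 332) (nat_lit 278))) (XT.nd (nat_lit 78) (nat_lit 304) (nat_lit 0) (XT.lf (nat_lit 76) (nat_lit 483343990) (nat_lit 0) (nat_lit 603441181) (nat_lit 380) (nat_lit 483343990) (nat_lit 227) (nat_lit 1) (nat_lit 226) (nat_lit 1) (nat_lit 231) (nat_lit 1) (nat_lit 411) (nat_lit 332) (nat_lit 277)) (XT.lf (nat_lit 380) (nat_lit 606368221) (nat_lit 0) (nat_lit 472940991) (nat_lit 304) (nat_lit 472940991) (nat_lit 227) (nat_lit 1) (nat_lit 222) (nat_lit 1) (nat_lit 226) (nat_lit 1) (nat_lit 412) (nat_lit 332) (nat_lit 276)))) (XT.nd (nat_lit 156) (nat_lit 532) (nat_lit 0) (XT.nd (nat_lit 78) (nat_lit 304) (nat_lit 0) (XT.lf (nat_lit 76) (nat_lit 125269783) (nat_lit 0) (nat_lit 1284177564) (nat_lit 380) (nat_lit 125269783) (nat_lit 223) (nat_lit 1) (nat_lit 222) (nat_lit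 1) (nat_lit 227) (nat_lit 1) (nat_lit 413) (nat_lit 332) (nat_lit 275)) (XT.lf (nat_lit 76) (nat_lit 705939956) (nat_lit 0) (nat_lit 105417114) (nat_lit 304) (nat_lit 705939956) (nat_lit 219) (nat_lit 1) (nat_lit 218) (nat_lit 1) (nat_lit 222) (nat_lit 1) (nat_lit 414) (nat_lit 332) (nat_lit 274))) (XT.nd (nat_lit 78) (nat_lit 228) (nat_lit 0) (XT.lf (nat_lit 380) (nat_lit 1050588404) (nat_lit 0) (nat_lit 224812398) (nat_lit 304) (nat_lit 224812398) (nat_lit 219) (nat_lit 1) (nat_lit 214) (nat_lit 1) (nat_lit 218) (nat_lit 1) (nat_lit 415) (nat_lit 332) (nat_lit 273)) (XT.nd (nat_lit 78) (nat_lit 228) (nat_lit 0) (XT.lf (nat_lit 76) (nat_lit 344709042) (nat_lit 0) (nat_lit 793905910) (nat_lit 380) (nat_lit 344709042) (nat_lit 215) (nat_lit 1) (nat_lit 214) (nat_lit 1) (nat_lit 219) (nat_lit 1) (nat_lit 416) (nat_lit 332) (nat_lit 272)) (XT.lf (nat_lit 304) (nat_lit 330983898) (nat_lit 0) (nat_lit 567858055)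 (nat_lit 228) (nat_lit 567858055) (nat_lit 215) (nat_lit 1) (nat_lit 211) (nat_lit 1) (nat_lit 214) (nat_lit 1) (nat_lit 417) (nat_lit 332) (nat_lit 271)))))) (XT.nd (nat_lit 390) (nat_lit 760) (nat_lit 0) (XT.nd (nat_lit 156) (nat_lit 532) (nat_lit 0) (XT.nd (nat_lit 78) (nat_lit 0) (nat_lit 0) (XT.lf (nat_lit 380) (nat_lit 1430364377) (nat_lit 0) (nat_lit 10044314) (nat_lit 304) (nat_lit 10044314) (nat_lit 211) (nat_lit 1) (nat_lit 206) (nat_lit 1) (nat_lit 210) (nat_lit 1) (nat_lit 418) (nat_lit 332) (nat_lit 270)) (XT.lf (nat_lit 76) (nat_lit 532879677) (nat_lit 0) (nat_lit 368414708) (nat_lit 380) (nat_lit 532879677) (nat_lit 207) (nat_lit 1) (nat_lit 206) (nat_lit 1) (nat_lit 211) (nat_lit 1) (nat_lit 419) (nat_lit 332) (nat_lit 269))) (XT.nd (nat_lit 78) (nat_lit 304) (nat_lit 0) (XT.lf (nat_lit 304) (nat_lit 708161985) (nat_lit 0) (nat_lit 355051038) (nat_lit 228) (nat_lit 355051038) (nat_lit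 207) (nat_lit 1) (nat_lit 203) (nat_lit 1) (nat_lit 206) (nat_lit 1) (nat_lit 420) (nat_lit 332) (nat_lit 268)) (XT.nd (nat_lit 78) (nat_lit 304) (nat_lit 0) (XT.lf (nat_lit 76) (nat_lit 176984285) (nat_lit 0) (nat_lit 1048644671) (nat_lit 304) (nat_lit 176984285) (nat_lit 204) (nat_lit 1) (nat_lit 203) (nat_lit 1) (nat_lit 207) (nat_lit 1) (nat_lit 421) (nat_lit 332) (nat_lit 267)) (XT.lf (nat_lit 76) (nat_lit 693466553) (nat_lit 0) (nat_lit 185667) (nat_lit 304) (nat_lit 693466553) (nat_lit 200) (nat_lit 1) (nat_lit 199) (nat_lit 1) (nat_lit 203) (nat_lit 1) (nat_lit 422) (nat_lit 332) (nat_lit 266))))) (XT.nd (nat_lit 156) (nat_lit 532) (nat_lit 0) (XT.nd (nat_lit 78) (nat_lit 0) (nat_lit 0) (XT.lf (nat_lit 304) (nat_lit 1031219042) (nat_lit 0) (nat_lit 170328648) (nat_lit 228) (nat_lit 170328648) (nat_lit 200) (nat_lit 1) (nat_lit 196) (nat_lit 1) (nat_lit 199) (nat_lit 1) (nat_lit 423) (nat_lit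 332) (nat_lit 265)) (XT.lf (nat_lit 76) (nat_lit 337827746) (nat_lit 0) (nat_lit 681124984) (nat_lit 304) (nat_lit 337827746) (nat_lit 197) (nat_lit 1) (nat_lit 196) (nat_lit 1) (nat_lit 200) (nat_lit 1) (nat_lit 424) (nat_lit 332) (nat_lit 264))) (XT.nd (nat_lit 78) (nat_lit 304) (nat_lit 0) (XT.lf (nat_lit 304) (nat_lit 323770468) (nat_lit 0) (nat_lit 509079669) (nat_lit 228) (nat_lit 509079669) (nat_lit 197) (nat_lit 1) (nat_lit 193) (nat_lit 1) (nat_lit 196) (nat_lit 1) (nat_lit 425) (nat_lit 332) (nat_lit 263)) (XT.nd (nat_lit 78) (nat_lit 0) (nat_lit 0) (XT.lf (nat_lit 304) (nat_lit 1306541549) (nat_lit 0) (nat_lit 10432273) (nat_lit 228) (nat_lit 10432273) (nat_lit 193) (nat_lit 1) (nat_lit 189) (nat_lit 1) (nat_lit 192) (nat_lit 1) (nat_lit 426) (nat_lit 332) (nat_lit 262)) (XT.lf (nat_lit 76) (nat_lit 475475482) (nat_lit 0) (nat_lit 361887014) (nat_lit 304) (nat_lit 475475482) (nat_lit 190)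 (nat_lit 1) (nat_lit 189) (nat_lit 1) (nat_lit 193) (nat_lit 1) (nat_lit 427) (nat_lit 332) (nat_lit 261))))))) (XT.nd (nat_lit 47502) (nat_lit 0) (nat_lit 15276) (XT.nd (nat_lit 312) (nat_lit 456) (nat_lit 0) (XT.nd (nat_lit 156) (nat_lit 456) (nat_lit 0) (XT.nd (nat_lit 78) (nat_lit 0) (nat_lit 0) (XT.lf (nat_lit 304) (nat_lit 602169474) (nat_lit 0) (nat_lit 348210682) (nat_lit 228) (nat_lit 348210682) (nat_lit 190) (nat_lit 1) (nat_lit 186) (nat_lit 1) (nat_lit 189) (nat_lit 1) (nat_lit 428) (nat_lit 332) (nat_lit 260)) (XT.lf (nat_lit 76) (nat_lit 128792297) (nat_lit 0) (nat_lit 1027000416) (nat_lit 304) (nat_lit 128792297) (nat_lit 187) (nat_lit 1) (nat_lit 186) (nat_lit 1) (nat_lit 190) (nat_lit 1) (nat_lit 429) (nat_lit 332) (nat_lit 259))) (XT.nd (nat_lit 78) (nat_lit 228) (nat_lit 0) (XT.lf (nat_lit 76) (nat_lit 592667307) (nat_lit 0) (nat_lit 85334146) (nat_lit 228) (nat_lit 592667307) (nat_lit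 184) (nat_lit 1) (nat_lit 183) (nat_lit 1) (nat_lit 186) (nat_lit 1) (nat_lit 430) (nat_lit 332) (nat_lit 258)) (XT.lf (nat_lit 304) (nat_lit 840363086) (nat_lit 0) (nat_lit 208312709) (nat_lit 228) (nat_lit 208312709) (nat_lit 184) (nat_lit 1) (nat_lit 180) (nat_lit 1) (nat_lit 183) (nat_lit 1) (nat_lit 431) (nat_lit 332) (nat_lit 257)))) (XT.nd (nat_lit 156) (nat_lit 304) (nat_lit 0) (XT.nd (nat_lit 78) (nat_lit 152) (nat_lit 0) (XT.lf (nat_lit 76) (nat_lit 248559423) (nat_lit 0) (nat_lit 746345516) (nat_lit 304) (nat_lit 248559423) (nat_lit 181) (nat_lit 1) (nat_lit 180) (nat_lit 1) (nat_lit 184) (nat_lit 1) (nat_lit 432) (nat_lit 332) (nat_lit 256)) (XT.lf (nat_lit 228) (nat_lit 156554898) (nat_lit 0) (nat_lit 536783054) (nat_lit 152) (nat_lit 536783054) (nat_lit 181) (nat_lit 1) (nat_lit 178) (nat_lit 1) (nat_lit 180) (nat_lit 1) (nat_lit 433) (nat_lit 332) (nat_lit 255))) (XT.nd (nat_lit 46878)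 (nat_lit 0) (nat_lit 15200) (XT.lf (nat_lit 304) (nat_lit 1043101531) (nat_lit 0) (nat_lit 86958900) (nat_lit 228) (nat_lit 86958900) (nat_lit 178) (nat_lit 1) (nat_lit 174) (nat_lit 1) (nat_lit 177) (nat_lit 1) (nat_lit 434) (nat_lit 332) (nat_lit 254)) (XT.nd (nat_lit 78) (nat_lit 0) (nat_lit 0) (XT.lf (nat_lit 1292) (nat_lit 303252300) (nat_lit 0) (nat_lit 1043328947) (nat_lit 1292) (nat_lit 303252300) (nat_lit 391) (nat_lit 1) (nat_lit 374) (nat_lit 0) (nat_lit 391) (nat_lit 0) (nat_lit 354) (nat_lit 333) (nat_lit 333)) (XT.lf (nat_lit 1292) (nat_lit 1185115305) (nat_lit 76) (nat_lit 1033100232) (nat_lit 0) (nat_lit 1033100232) (nat_lit 391) (nat_lit 1) (nat_lit 375) (nat_lit 1) (nat_lit 374) (nat_lit 0) (nat_lit 355) (nat_lit 333) (nat_lit 332)))))) (XT.nd (nat_lit 390) (nat_lit 0) (nat_lit 152) (XT.nd (nat_lit 156) (nat_lit 0) (nat_lit 76) (XT.nd (nat_lit 78) (nat_lit 0) (nat_lit 0) (XT.lf (nat_lit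 1292) (nat_lit 573150018) (nat_lit 0) (nat_lit 2057730935) (nat_lit 1216) (nat_lit 573150018) (nat_lit 392) (nat_lit 1) (nat_lit 375) (nat_lit 1) (nat_lit 391) (nat_lit 1) (nat_lit 356) (nat_lit 333) (nat_lit 331)) (XT.lf (nat_lit 1292) (nat_lit 1088441476) (nat_lit 76) (nat_lit 1034547168) (nat_lit 0) (nat_lit 1034547168) (nat_lit 392) (nat_lit 1) (nat_lit 376) (nat_lit 1) (nat_lit 375) (nat_lit 1) (nat_lit 357) (nat_lit 333) (nat_lit 330))) (XT.nd (nat_lit 78) (nat_lit 0) (nat_lit 0) (XT.lf (nat_lit 1292) (nat_lit 510745734) (nat_lit 0) (nat_lit 2090589530) (nat_lit 1216) (nat_lit 510745734) (nat_lit 393) (nat_lit 1) (nat_lit 376) (nat_lit 1) (nat_lit 392) (nat_lit 1) (nat_lit 358) (nat_lit 333) (nat_lit 329)) (XT.nd (nat_lit 78) (nat_lit 0) (nat_lit 76) (XT.lf (nat_lit 1292) (nat_lit 935995485) (nat_lit 76) (nat_lit 1065678827) (nat_lit 0) (nat_lit 1065678827) (nat_lit 393) (nat_lit 1) (nat_lit 377)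 (nat_lit 1) (nat_lit 376) (nat_lit 1) (nat_lit 359) (nat_lit 333) (nat_lit 328)) (XT.lf (nat_lit 1292) (nat_lit 421861197) (nat_lit 0) (nat_lit 2179935721) (nat_lit 1216) (nat_lit 421861197) (nat_lit 394) (nat_lit 1) (nat_lit 377) (nat_lit 1) (nat_lit 393) (nat_lit 1) (nat_lit 360) (nat_lit 333) (nat_lit 327))))) (XT.nd (nat_lit 156) (nat_lit 0) (nat_lit 76) (XT.nd (nat_lit 78) (nat_lit 0) (nat_lit 76) (XT.lf (nat_lit 1292) (nat_lit 732764951) (nat_lit 76) (nat_lit 1123924163) (nat_lit 0) (nat_lit 1123924163) (nat_lit 394) (nat_lit 1) (nat_lit 378) (nat_lit 1) (nat_lit 377) (nat_lit 1) (nat_lit 361) (nat_lit 333) (nat_lit 326)) (XT.lf (nat_lit 1292) (nat_lit 308892089) (nat_lit 0) (nat_lit 2320826681) (nat_lit 1216) (nat_lit 308892089) (nat_lit 395) (nat_lit 1) (nat_lit 378) (nat_lit 1) (nat_lit 394) (nat_lit 1) (nat_lit 362) (nat_lit 333) (nat_lit 325))) (XT.nd (nat_lit 78) (nat_lit 0) (nat_lit 76)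 (XT.lf (nat_lit 1292) (nat_lit 483399158) (nat_lit 76) (nat_lit 1206884970) (nat_lit 0) (nat_lit 1206884970) (nat_lit 395) (nat_lit 1) (nat_lit 379) (nat_lit 1) (nat_lit 378) (nat_lit 1) (nat_lit 363) (nat_lit 333) (nat_lit 324)) (XT.nd (nat_lit 78) (nat_lit 0) (nat_lit 0) (XT.lf (nat_lit 1292) (nat_lit 174071067) (nat_lit 0) (nat_lit 2508652843) (nat_lit 1216) (nat_lit 174071067) (nat_lit 396) (nat_lit 1) (nat_lit 379) (nat_lit 1) (nat_lit 395) (nat_lit 1) (nat_lit 364) (nat_lit 333) (nat_lit 323)) (XT.lf (nat_lit 1292) (nat_lit 192230000) (nat_lit 76) (nat_lit 1312325226) (nat_lit 0) (nat_lit 1312325226) (nat_lit 396) (nat_lit 1) (nat_lit 380) (nat_lit 1) (nat_lit 379) (nat_lit 1) (nat_lit 365) (nat_lit 333) (nat_lit 322))))))))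
noncomputable def ec43 : XT := (XT.nd (nat_lit 1482) (nat_lit 5244) (nat_lit 0) (XT.nd (nat_lit 702) (nat_lit 2888) (nat_lit 0) (XT.nd (nat_lit 312) (nat_lit 1292) (nat_lit 0) (XT.nd (nat_lit 156) (nat_lit 0) (nat_lit 0) (XT.nd (nat_lit 78) (nat_lit 1292) (nat_lit 0) (XT.lf (nat_lit 1292) (nat_lit 19477864) (nat_lit 0) (nat_lit 2739117324) (nat_lit 1216) (nat_lit 19477864) (nat_lit 397) (nat_lit 1) (nat_lit 380) (nat_lit 1) (nat_lit 396) (nat_lit 1) (nat_lit 366) (nat_lit 333) (nat_lit 321)) (XT.lf (nat_lit 1368) (nat_lit 1302766859) (nat_lit 0) (nat_lit 134040663) (nat_lit 1292) (nat_lit 1302766859) (nat_lit 381) (nat_lit 1) (nat_lit 363) (nat_lit 1) (nat_lit 380) (nat_lit 1) (nat_lit 367) (nat_lit 333) (nat_lit 320))) (XT.nd (nat_lit 78) (nat_lit 0) (nat_lit 76) (XT.lf (nat_lit 1368) (nat_lit 2399233454) (nat_lit 76) (nat_lit 151451689) (nat_lit 0) (nat_lit 151451689) (nat_lit 381) (nat_lit 1) (nat_lit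 364) (nat_lit 1) (nat_lit 363) (nat_lit 1) (nat_lit 368) (nat_lit 333) (nat_lit 319)) (XT.lf (nat_lit 1368) (nat_lit 1087593574) (nat_lit 0) (nat_lit 489910663) (nat_lit 1292) (nat_lit 1087593574) (nat_lit 382) (nat_lit 1) (nat_lit 364) (nat_lit 1) (nat_lit 381) (nat_lit 1) (nat_lit 369) (nat_lit 333) (nat_lit 318)))) (XT.nd (nat_lit 156) (nat_lit 1368) (nat_lit 0) (XT.nd (nat_lit 78) (nat_lit 0) (nat_lit 76) (XT.lf (nat_lit 1368) (nat_lit 1952863418) (nat_lit 76) (nat_lit 338067142) (nat_lit 0) (nat_lit 338067142) (nat_lit 382) (nat_lit 1) (nat_lit 365) (nat_lit 1) (nat_lit 364) (nat_lit 1) (nat_lit 370) (nat_lit 333) (nat_lit 317)) (XT.lf (nat_lit 76) (nat_lit 858839927) (nat_lit 0) (nat_lit 875706034) (nat_lit 1292) (nat_lit 858839927) (nat_lit 366) (nat_lit 1) (nat_lit 365) (nat_lit 1) (nat_lit 382) (nat_lit 1) (nat_lit 371) (nat_lit 333) (nat_lit 316))) (XT.nd (nat_lit 78) (nat_lit 608) (nat_lit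 0) (XT.lf (nat_lit 912) (nat_lit 1480760945) (nat_lit 0) (nat_lit 538900154) (nat_lit 836) (nat_lit 538900154) (nat_lit 366) (nat_lit 1) (nat_lit 354) (nat_lit 1) (nat_lit 365) (nat_lit 1) (nat_lit 372) (nat_lit 333) (nat_lit 315)) (XT.nd (nat_lit 78) (nat_lit 608) (nat_lit 0) (XT.lf (nat_lit 76) (nat_lit 618040793) (nat_lit 0) (nat_lit 1288242323) (nat_lit 912) (nat_lit 618040793) (nat_lit 355) (nat_lit 1) (nat_lit 354) (nat_lit 1) (nat_lit 366) (nat_lit 1) (nat_lit 373) (nat_lit 333) (nat_lit 314)) (XT.lf (nat_lit 684) (nat_lit 985898984) (nat_lit 0) (nat_lit 752408462) (nat_lit 608) (nat_lit 752408462) (nat_lit 355) (nat_lit 1) (nat_lit 346) (nat_lit 1) (nat_lit 354) (nat_lit 1) (nat_lit 374) (nat_lit 333) (nat_lit 313)))))) (XT.nd (nat_lit 390) (nat_lit 1064) (nat_lit 0) (XT.nd (nat_lit 156) (nat_lit 1216) (nat_lit 0) (XT.nd (nat_lit 78) (nat_lit 608) (nat_lit 0) (XT.lf (nat_lit 76) (nat_lit 366620938)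 (nat_lit 0) (nat_lit 1724560594) (nat_lit 684) (nat_lit 366620938) (nat_lit 347) (nat_lit 1) (nat_lit 346) (nat_lit 1) (nat_lit 355) (nat_lit 1) (nat_lit 375) (nat_lit 333) (nat_lit 312)) (XT.lf (nat_lit 684) (nat_lit 471036259) (nat_lit 0) (nat_lit 977159484) (nat_lit 608) (nat_lit 977159484) (nat_lit 347) (nat_lit 1) (nat_lit 338) (nat_lit 1) (nat_lit 346) (nat_lit 1) (nat_lit 376) (nat_lit 333) (nat_lit 311))) (XT.nd (nat_lit 78) (nat_lit 1216) (nat_lit 0) (XT.lf (nat_lit 76) (nat_lit 105901986) (nat_lit 0) (nat_lit 2181913240) (nat_lit 684) (nat_lit 105901986) (nat_lit 339) (nat_lit 1) (nat_lit 338) (nat_lit 1) (nat_lit 347) (nat_lit 1) (nat_lit 377) (nat_lit 333) (nat_lit 310)) (XT.nd (nat_lit 78) (nat_lit 608) (nat_lit 0) (XT.lf (nat_lit 76) (nat_lit 1151143196) (nat_lit 0) (nat_lit 60073583) (nat_lit 608) (nat_lit 1151143196) (nat_lit 331) (nat_lit 1) (nat_lit 330) (nat_lit 1) (nat_lit 338) (nat_lit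 1) (nat_lit 378) (nat_lit 333) (nat_lit 309)) (XT.lf (nat_lit 684) (nat_lit 2009191553) (nat_lit 0) (nat_lit 161294074) (nat_lit 608) (nat_lit 161294074) (nat_lit 331) (nat_lit 1) (nat_lit 322) (nat_lit 1) (nat_lit 330) (nat_lit 1) (nat_lit 379) (nat_lit 333) (nat_lit 308))))) (XT.nd (nat_lit 156) (nat_lit 532) (nat_lit 0) (XT.nd (nat_lit 78) (nat_lit 532) (nat_lit 0) (XT.lf (nat_lit 76) (nat_lit 852370235) (nat_lit 0) (nat_lit 596770239) (nat_lit 684) (nat_lit 852370235) (nat_lit 323) (nat_lit 1) (nat_lit 322) (nat_lit 1) (nat_lit 331) (nat_lit 1) (nat_lit 380) (nat_lit 333) (nat_lit 307)) (XT.lf (nat_lit 608) (nat_lit 1403306208) (nat_lit 0) (nat_lit 434323361) (nat_lit 532) (nat_lit 434323361) (nat_lit 323) (nat_lit 1) (nat_lit 315) (nat_lit 1) (nat_lit 322) (nat_lit 1) (nat_lit 381) (nat_lit 333) (nat_lit 306))) (XT.nd (nat_lit 78) (nat_lit 532) (nat_lit 0) (XT.lf (nat_lit 76) (nat_lit 548378731)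 (nat_lit 0) (nat_lit 1146093911) (nat_lit 608) (nat_lit 548378731) (nat_lit 316) (nat_lit 1) (nat_lit 315) (nat_lit 1) (nat_lit 323) (nat_lit 1) (nat_lit 382) (nat_lit 333) (nat_lit 305)) (XT.nd (nat_lit 78) (nat_lit 0) (nat_lit 0) (XT.lf (nat_lit 608) (nat_lit 787901106) (nat_lit 0) (nat_lit 713184529) (nat_lit 532) (nat_lit 713184529) (nat_lit 316) (nat_lit 1) (nat_lit 308) (nat_lit 1) (nat_lit 315) (nat_lit 1) (nat_lit 383) (nat_lit 333) (nat_lit 304)) (XT.lf (nat_lit 76) (nat_lit 240119782) (nat_lit 0) (nat_lit 1706054642) (nat_lit 608) (nat_lit 240119782) (nat_lit 309) (nat_lit 1) (nat_lit 308) (nat_lit 1) (nat_lit 316) (nat_lit 1) (nat_lit 384) (nat_lit 333) (nat_lit 303))))))) (XT.nd (nat_lit 702) (nat_lit 2356) (nat_lit 0) (XT.nd (nat_lit 312) (nat_lit 1368) (nat_lit 0) (XT.nd (nat_lit 156) (nat_lit 456) (nat_lit 0) (XT.nd (nat_lit 78) (nat_lit 608) (nat_lit 0) (XT.lf (nat_lit 532) (nat_lit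 164813014) (nat_lit 0) (nat_lit 996916451) (nat_lit 456) (nat_lit 996916451) (nat_lit 309) (nat_lit 1) (nat_lit 302) (nat_lit 1) (nat_lit 308) (nat_lit 1) (nat_lit 385) (nat_lit 333) (nat_lit 302)) (XT.lf (nat_lit 608) (nat_lit 1990016825) (nat_lit 0) (nat_lit 70827818) (nat_lit 532) (nat_lit 70827818) (nat_lit 302) (nat_lit 1) (nat_lit 294) (nat_lit 1) (nat_lit 301) (nat_lit 1) (nat_lit 386) (nat_lit 333) (nat_lit 301))) (XT.nd (nat_lit 78) (nat_lit 456) (nat_lit 0) (XT.lf (nat_lit 76) (nat_lit 824829883) (nat_lit 0) (nat_lit 455204852) (nat_lit 608) (nat_lit 824829883) (nat_lit 295) (nat_lit 1) (nat_lit 294) (nat_lit 1) (nat_lit 302) (nat_lit 1) (nat_lit 387) (nat_lit 333) (nat_lit 300)) (XT.lf (nat_lit 532) (nat_lit 1314753228) (nat_lit 0) (nat_lit 381977187) (nat_lit 456) (nat_lit 381977187) (nat_lit 295) (nat_lit 1) (nat_lit 288) (nat_lit 1) (nat_lit 294) (nat_lit 1) (nat_lit 388) (nat_lit 333)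 (nat_lit 299)))) (XT.nd (nat_lit 156) (nat_lit 912) (nat_lit 0) (XT.nd (nat_lit 78) (nat_lit 456) (nat_lit 0) (XT.lf (nat_lit 76) (nat_lit 488291945) (nat_lit 0) (nat_lit 1076349405) (nat_lit 532) (nat_lit 488291945) (nat_lit 289) (nat_lit 1) (nat_lit 288) (nat_lit 1) (nat_lit 295) (nat_lit 1) (nat_lit 389) (nat_lit 333) (nat_lit 298)) (XT.lf (nat_lit 532) (nat_lit 637711699) (nat_lit 0) (nat_lit 694945322) (nat_lit 456) (nat_lit 694945322) (nat_lit 289) (nat_lit 1) (nat_lit 282) (nat_lit 1) (nat_lit 288) (nat_lit 1) (nat_lit 390) (nat_lit 333) (nat_lit 297))) (XT.nd (nat_lit 78) (nat_lit 912) (nat_lit 0) (XT.lf (nat_lit 76) (nat_lit 151197797) (nat_lit 0) (nat_lit 1700429688) (nat_lit 532) (nat_lit 151197797) (nat_lit 283) (nat_lit 1) (nat_lit 282) (nat_lit 1) (nat_lit 289) (nat_lit 1) (nat_lit 391) (nat_lit 333) (nat_lit 296)) (XT.nd (nat_lit 78) (nat_lit 456) (nat_lit 0) (XT.lf (nat_lit 76) (nat_lit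 969612534) (nat_lit 0) (nat_lit 39047772) (nat_lit 456) (nat_lit 969612534) (nat_lit 277) (nat_lit 1) (nat_lit 276) (nat_lit 1) (nat_lit 282) (nat_lit 1) (nat_lit 392) (nat_lit 333) (nat_lit 295)) (XT.lf (nat_lit 532) (nat_lit 1586214639) (nat_lit 0) (nat_lit 184019772) (nat_lit 456) (nat_lit 184019772) (nat_lit 277) (nat_lit 1) (nat_lit 270) (nat_lit 1) (nat_lit 276) (nat_lit 1) (nat_lit 393) (nat_lit 333) (nat_lit 294)))))) (XT.nd (nat_lit 390) (nat_lit 1140) (nat_lit 0) (XT.nd (nat_lit 156) (nat_lit 836) (nat_lit 0) (XT.nd (nat_lit 78) (nat_lit 380) (nat_lit 0) (XT.lf (nat_lit 76) (nat_lit 613890485) (nat_lit 0) (nat_lit 702696700) (nat_lit 532) (nat_lit 613890485) (nat_lit 271) (nat_lit 1) (nat_lit 270) (nat_lit 1) (nat_lit 277) (nat_lit 1) (nat_lit 394) (nat_lit 333) (nat_lit 293)) (XT.lf (nat_lit 456) (nat_lit 872897936) (nat_lit 0) (nat_lit 517147542) (nat_lit 380) (nat_lit 517147542) (nat_lit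 271) (nat_lit 1) (nat_lit 265) (nat_lit 1) (nat_lit 270) (nat_lit 1) (nat_lit 395) (nat_lit 333) (nat_lit 292))) (XT.nd (nat_lit 78) (nat_lit 836) (nat_lit 0) (XT.lf (nat_lit 76) (nat_lit 259854372) (nat_lit 0) (nat_lit 1364626095) (nat_lit 456) (nat_lit 259854372) (nat_lit 266) (nat_lit 1) (nat_lit 265) (nat_lit 1) (nat_lit 271) (nat_lit 1) (nat_lit 396) (nat_lit 333) (nat_lit 291)) (XT.nd (nat_lit 78) (nat_lit 456) (nat_lit 0) (XT.lf (nat_lit 456) (nat_lit 163427931) (nat_lit 0) (nat_lit 849162414) (nat_lit 380) (nat_lit 849162414) (nat_lit 266) (nat_lit 1) (nat_lit 260) (nat_lit 1) (nat_lit 265) (nat_lit 1) (nat_lit 397) (nat_lit 333) (nat_lit 290)) (XT.lf (nat_lit 456) (nat_lit 1657385543) (nat_lit 0) (nat_lit 91144513) (nat_lit 380) (nat_lit 91144513) (nat_lit 260) (nat_lit 1) (nat_lit 254) (nat_lit 1) (nat_lit 259) (nat_lit 1) (nat_lit 398) (nat_lit 333) (nat_lit 289))))) (XT.nd (nat_lit 156)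 (nat_lit 760) (nat_lit 0) (XT.nd (nat_lit 78) (nat_lit 380) (nat_lit 0) (XT.lf (nat_lit 76) (nat_lit 643471770) (nat_lit 0) (nat_lit 530772182) (nat_lit 456) (nat_lit 643471770) (nat_lit 255) (nat_lit 1) (nat_lit 254) (nat_lit 1) (nat_lit 260) (nat_lit 1) (nat_lit 399) (nat_lit 333) (nat_lit 288)) (XT.lf (nat_lit 456) (nat_lit 922087462) (nat_lit 0) (nat_lit 437078714) (nat_lit 380) (nat_lit 437078714) (nat_lit 255) (nat_lit 1) (nat_lit 249) (nat_lit 1) (nat_lit 254) (nat_lit 1) (nat_lit 400) (nat_lit 333) (nat_lit 287))) (XT.nd (nat_lit 78) (nat_lit 760) (nat_lit 0) (XT.lf (nat_lit 76) (nat_lit 279364340) (nat_lit 0) (nat_lit 1216404831) (nat_lit 456) (nat_lit 279364340) (nat_lit 250) (nat_lit 1) (nat_lit 249) (nat_lit 1) (nat_lit 255) (nat_lit 1) (nat_lit 401) (nat_lit 333) (nat_lit 286)) (XT.nd (nat_lit 78) (nat_lit 456) (nat_lit 0) (XT.lf (nat_lit 380) (nat_lit 194027627) (nat_lit 0) (nat_lit 780131027)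 (nat_lit 304) (nat_lit 780131027) (nat_lit 250) (nat_lit 1) (nat_lit 245) (nat_lit 1) (nat_lit 249) (nat_lit 1) (nat_lit 402) (nat_lit 333) (nat_lit 285)) (XT.lf (nat_lit 456) (nat_lit 1573518943) (nat_lit 0) (nat_lit 80192084) (nat_lit 380) (nat_lit 80192084) (nat_lit 245) (nat_lit 1) (nat_lit 239) (nat_lit 1) (nat_lit 244) (nat_lit 1) (nat_lit 403) (nat_lit 333) (nat_lit 284))))))))
noncomputable def ec44 : XT := (XT.nd (nat_lit 1404) (nat_lit 1824) (nat_lit 0) (XT.nd (nat_lit 702) (nat_lit 1672) (nat_lit 0) (XT.nd (nat_lit 312) (nat_lit 988) (nat_lit 0) (XT.nd (nat_lit 156) (nat_lit 304) (nat_lit 0) (XT.nd (nat_lit 78) (nat_lit 304) (nat_lit 0) (XT.lf (nat_lit 76) (nat_lit 598839607) (nat_lit 0) (nat_lit 515923016) (nat_lit 456) (nat_lit 598839607) (nat_lit 240) (nat_lit 1) (nat_lit 239) (nat_lit 1) (nat_lit 245) (nat_lit 1) (nat_lit 404) (nat_lit 333) (nat_lit 283)) (XT.lf (nat_lit 380) (nat_lit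 827728206) (nat_lit 0) (nat_lit 433008555) (nat_lit 304) (nat_lit 433008555) (nat_lit 240) (nat_lit 1) (nat_lit 235) (nat_lit 1) (nat_lit 239) (nat_lit 1) (nat_lit 405) (nat_lit 333) (nat_lit 282))) (XT.nd (nat_lit 78) (nat_lit 304) (nat_lit 0) (XT.lf (nat_lit 76) (nat_lit 230178570) (nat_lit 0) (nat_lit 1213870919) (nat_lit 380) (nat_lit 230178570) (nat_lit 236) (nat_lit 1) (nat_lit 235) (nat_lit 1) (nat_lit 240) (nat_lit 1) (nat_lit 406) (nat_lit 333) (nat_lit 281)) (XT.lf (nat_lit 380) (nat_lit 91785508) (nat_lit 0) (nat_lit 781573568) (nat_lit 304) (nat_lit 781573568) (nat_lit 236) (nat_lit 1) (nat_lit 231) (nat_lit 1) (nat_lit 235) (nat_lit 1) (nat_lit 407) (nat_lit 333) (nat_lit 280)))) (XT.nd (nat_lit 156) (nat_lit 608) (nat_lit 0) (XT.nd (nat_lit 78) (nat_lit 0) (nat_lit 0) (XT.lf (nat_lit 380) (nat_lit 1371675472) (nat_lit 0) (nat_lit 132171271) (nat_lit 304) (nat_lit 132171271) (nat_lit 231)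 (nat_lit 1) (nat_lit 226) (nat_lit 1) (nat_lit 230) (nat_lit 1) (nat_lit 408) (nat_lit 333) (nat_lit 279)) (XT.lf (nat_lit 76) (nat_lit 497844309) (nat_lit 0) (nat_lit 621544417) (nat_lit 380) (nat_lit 497844309) (nat_lit 227) (nat_lit 1) (nat_lit 226) (nat_lit 1) (nat_lit 231) (nat_lit 1) (nat_lit 409) (nat_lit 333) (nat_lit 278))) (XT.nd (nat_lit 78) (nat_lit 304) (nat_lit 0) (XT.lf (nat_lit 380) (nat_lit 624559268) (nat_lit 0) (nat_lit 487129221) (nat_lit 304) (nat_lit 487129221) (nat_lit 227) (nat_lit 1) (nat_lit 222) (nat_lit 1) (nat_lit 226) (nat_lit 1) (nat_lit 410) (nat_lit 333) (nat_lit 277)) (XT.nd (nat_lit 78) (nat_lit 304) (nat_lit 0) (XT.lf (nat_lit 76) (nat_lit 129027877) (nat_lit 0) (nat_lit 1322702891) (nat_lit 380) (nat_lit 129027877) (nat_lit 223) (nat_lit 1) (nat_lit 222) (nat_lit 1) (nat_lit 227) (nat_lit 1) (nat_lit 411) (nat_lit 333) (nat_lit 276)) (XT.lf (nat_lit 76) (nat_lit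 727118154) (nat_lit 0) (nat_lit 108579627) (nat_lit 304) (nat_lit 727118154) (nat_lit 219) (nat_lit 1) (nat_lit 218) (nat_lit 1) (nat_lit 222) (nat_lit 1) (nat_lit 412) (nat_lit 333) (nat_lit 275)))))) (XT.nd (nat_lit 312) (nat_lit 760) (nat_lit 0) (XT.nd (nat_lit 156) (nat_lit 608) (nat_lit 0) (XT.nd (nat_lit 78) (nat_lit 0) (nat_lit 0) (XT.lf (nat_lit 380) (nat_lit 1082106056) (nat_lit 0) (nat_lit 231556770) (nat_lit 304) (nat_lit 231556770) (nat_lit 219) (nat_lit 1) (nat_lit 214) (nat_lit 1) (nat_lit 218) (nat_lit 1) (nat_lit 413) (nat_lit 333) (nat_lit 274)) (XT.lf (nat_lit 76) (nat_lit 355050313) (nat_lit 0) (nat_lit 817723088) (nat_lit 380) (nat_lit 355050313) (nat_lit 215) (nat_lit 1) (nat_lit 214) (nat_lit 1) (nat_lit 219) (nat_lit 1) (nat_lit 414) (nat_lit 333) (nat_lit 273))) (XT.nd (nat_lit 78) (nat_lit 380) (nat_lit 0) (XT.lf (nat_lit 304) (nat_lit 340913415) (nat_lit 0) (nat_lit 584893796)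 (nat_lit 228) (nat_lit 584893796) (nat_lit 215) (nat_lit 1) (nat_lit 211) (nat_lit 1) (nat_lit 214) (nat_lit 1) (nat_lit 415) (nat_lit 333) (nat_lit 272)) (XT.lf (nat_lit 380) (nat_lit 1473275309) (nat_lit 0) (nat_lit 10345643) (nat_lit 304) (nat_lit 10345643) (nat_lit 211) (nat_lit 1) (nat_lit 206) (nat_lit 1) (nat_lit 210) (nat_lit 1) (nat_lit 416) (nat_lit 333) (nat_lit 271)))) (XT.nd (nat_lit 156) (nat_lit 532) (nat_lit 0) (XT.nd (nat_lit 78) (nat_lit 228) (nat_lit 0) (XT.lf (nat_lit 76) (nat_lit 548866067) (nat_lit 0) (nat_lit 379467150) (nat_lit 380) (nat_lit 548866067) (nat_lit 207) (nat_lit 1) (nat_lit 206) (nat_lit 1) (nat_lit 211) (nat_lit 1) (nat_lit 417) (nat_lit 333) (nat_lit 270)) (XT.lf (nat_lit 304) (nat_lit 729406845) (nat_lit 0) (nat_lit 365702569) (nat_lit 228) (nat_lit 365702569) (nat_lit 207) (nat_lit 1) (nat_lit 203) (nat_lit 1) (nat_lit 206) (nat_lit 1) (nat_lit 418) (nat_lit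 333) (nat_lit 269))) (XT.nd (nat_lit 78) (nat_lit 532) (nat_lit 0) (XT.lf (nat_lit 76) (nat_lit 182293813) (nat_lit 0) (nat_lit 1080104012) (nat_lit 304) (nat_lit 182293813) (nat_lit 204) (nat_lit 1) (nat_lit 203) (nat_lit 1) (nat_lit 207) (nat_lit 1) (nat_lit 419) (nat_lit 333) (nat_lit 268)) (XT.nd (nat_lit 78) (nat_lit 228) (nat_lit 0) (XT.lf (nat_lit 76) (nat_lit 714270549) (nat_lit 0) (nat_lit 191237) (nat_lit 304) (nat_lit 714270549) (nat_lit 200) (nat_lit 1) (nat_lit 199) (nat_lit 1) (nat_lit 203) (nat_lit 1) (nat_lit 420) (nat_lit 333) (nat_lit 267)) (XT.lf (nat_lit 304) (nat_lit 1062155614) (nat_lit 0) (nat_lit 175438507) (nat_lit 228) (nat_lit 175438507) (nat_lit 200) (nat_lit 1) (nat_lit 196) (nat_lit 1) (nat_lit 199) (nat_lit 1) (nat_lit 421) (nat_lit 333) (nat_lit 266))))))) (XT.nd (nat_lit 702) (nat_lit 608) (nat_lit 0) (XT.nd (nat_lit 312) (nat_lit 684) (nat_lit 0) (XT.nd (nat_lit 156)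 (nat_lit 304) (nat_lit 0) (XT.nd (nat_lit 78) (nat_lit 228) (nat_lit 0) (XT.lf (nat_lit 76) (nat_lit 347962579) (nat_lit 0) (nat_lit 701558734) (nat_lit 304) (nat_lit 347962579) (nat_lit 197) (nat_lit 1) (nat_lit 196) (nat_lit 1) (nat_lit 200) (nat_lit 1) (nat_lit 422) (nat_lit 333) (nat_lit 265)) (XT.lf (nat_lit 304) (nat_lit 333483582) (nat_lit 0) (nat_lit 524352059) (nat_lit 228) (nat_lit 524352059) (nat_lit 197) (nat_lit 1) (nat_lit 193) (nat_lit 1) (nat_lit 196) (nat_lit 1) (nat_lit 423) (nat_lit 333) (nat_lit 264))) (XT.nd (nat_lit 78) (nat_lit 0) (nat_lit 0) (XT.lf (nat_lit 304) (nat_lit 1345737796) (nat_lit 0) (nat_lit 10745241) (nat_lit 228) (nat_lit 10745241) (nat_lit 193) (nat_lit 1) (nat_lit 189) (nat_lit 1) (nat_lit 192) (nat_lit 1) (nat_lit 424) (nat_lit 333) (nat_lit 263)) (XT.lf (nat_lit 76) (nat_lit 489739746) (nat_lit 0) (nat_lit 372743625) (nat_lit 304) (nat_lit 489739746) (nat_lit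 190) (nat_lit 1) (nat_lit 189) (nat_lit 1) (nat_lit 193) (nat_lit 1) (nat_lit 425) (nat_lit 333) (nat_lit 262)))) (XT.nd (nat_lit 156) (nat_lit 456) (nat_lit 0) (XT.nd (nat_lit 78) (nat_lit 0) (nat_lit 0) (XT.lf (nat_lit 304) (nat_lit 620234559) (nat_lit 0) (nat_lit 358657002) (nat_lit 228) (nat_lit 358657002) (nat_lit 190) (nat_lit 1) (nat_lit 186) (nat_lit 1) (nat_lit 189) (nat_lit 1) (nat_lit 426) (nat_lit 333) (nat_lit 261)) (XT.lf (nat_lit 76) (nat_lit 132656066) (nat_lit 0) (nat_lit 1057810428) (nat_lit 304) (nat_lit 132656066) (nat_lit 187) (nat_lit 1) (nat_lit 186) (nat_lit 1) (nat_lit 190) (nat_lit 1) (nat_lit 427) (nat_lit 333) (nat_lit 260))) (XT.nd (nat_lit 78) (nat_lit 228) (nat_lit 0) (XT.lf (nat_lit 76) (nat_lit 610447326) (nat_lit 0) (nat_lit 87894170) (nat_lit 228) (nat_lit 610447326) (nat_lit 184) (nat_lit 1) (nat_lit 183) (nat_lit 1) (nat_lit 186) (nat_lit 1) (nat_lit 428) (nat_lit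 333) (nat_lit 259)) (XT.nd (nat_lit 78) (nat_lit 0) (nat_lit 0) (XT.lf (nat_lit 304) (nat_lit 865573979) (nat_lit 0) (nat_lit 214562091) (nat_lit 228) (nat_lit 214562091) (nat_lit 184) (nat_lit 1) (nat_lit 180) (nat_lit 1) (nat_lit 183) (nat_lit 1) (nat_lit 429) (nat_lit 333) (nat_lit 258)) (XT.lf (nat_lit 76) (nat_lit 256016206) (nat_lit 0) (nat_lit 768735882) (nat_lit 304) (nat_lit 256016206) (nat_lit 181) (nat_lit 1) (nat_lit 180) (nat_lit 1) (nat_lit 184) (nat_lit 1) (nat_lit 430) (nat_lit 333) (nat_lit 257)))))) (XT.nd (nat_lit 47034) (nat_lit 0) (nat_lit 15352) (XT.nd (nat_lit 156) (nat_lit 152) (nat_lit 0) (XT.nd (nat_lit 78) (nat_lit 304) (nat_lit 0) (XT.lf (nat_lit 228) (nat_lit 161251545) (nat_lit 0) (nat_lit 552886546) (nat_lit 152) (nat_lit 552886546) (nat_lit 181) (nat_lit 1) (nat_lit 178) (nat_lit 1) (nat_lit 180) (nat_lit 1) (nat_lit 431) (nat_lit 333) (nat_lit 256)) (XT.lf (nat_lit 304)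 (nat_lit 1074394577) (nat_lit 0) (nat_lit 89567667) (nat_lit 228) (nat_lit 89567667) (nat_lit 178) (nat_lit 1) (nat_lit 174) (nat_lit 1) (nat_lit 177) (nat_lit 1) (nat_lit 432) (nat_lit 333) (nat_lit 255))) (XT.nd (nat_lit 78) (nat_lit 152) (nat_lit 0) (XT.lf (nat_lit 76) (nat_lit 361596218) (nat_lit 0) (nat_lit 516880823) (nat_lit 304) (nat_lit 361596218) (nat_lit 175) (nat_lit 1) (nat_lit 174) (nat_lit 1) (nat_lit 178) (nat_lit 1) (nat_lit 433) (nat_lit 333) (nat_lit 254)) (XT.nd (nat_lit 46722) (nat_lit 0) (nat_lit 15352) (XT.lf (nat_lit 228) (nat_lit 377152024) (nat_lit 0) (nat_lit 424854463) (nat_lit 152) (nat_lit 424854463) (nat_lit 175) (nat_lit 1) (nat_lit 172) (nat_lit 1) (nat_lit 174) (nat_lit 1) (nat_lit 434) (nat_lit 333) (nat_lit 253)) (XT.lf (nat_lit 1292) (nat_lit 312349869) (nat_lit 0) (nat_lit 1074628816) (nat_lit 1292) (nat_lit 312349869) (nat_lit 391) (nat_lit 1) (nat_lit 374) (nat_lit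 0) (nat_lit 391) (nat_lit 0) (nat_lit 352) (nat_lit 334) (nat_lit 334))))) (XT.nd (nat_lit 156) (nat_lit 0) (nat_lit 76) (XT.nd (nat_lit 78) (nat_lit 0) (nat_lit 76) (XT.lf (nat_lit 1292) (nat_lit 1220668764) (nat_lit 76) (nat_lit 1064093239) (nat_lit 0) (nat_lit 1064093239) (nat_lit 391) (nat_lit 1) (nat_lit 375) (nat_lit 1) (nat_lit 374) (nat_lit 0) (nat_lit 353) (nat_lit 334) (nat_lit 333)) (XT.lf (nat_lit 1292) (nat_lit 590344518) (nat_lit 0) (nat_lit 2119462863) (nat_lit 1216) (nat_lit 590344518) (nat_lit 392) (nat_lit 1) (nat_lit 375) (nat_lit 1) (nat_lit 391) (nat_lit 1) (nat_lit 354) (nat_lit 334) (nat_lit 332))) (XT.nd (nat_lit 78) (nat_lit 0) (nat_lit 76) (XT.lf (nat_lit 1292) (nat_lit 1121094720) (nat_lit 76) (nat_lit 1065583583) (nat_lit 0) (nat_lit 1065583583) (nat_lit 392) (nat_lit 1) (nat_lit 376) (nat_lit 1) (nat_lit 375) (nat_lit 1) (nat_lit 355) (nat_lit 334) (nat_lit 331)) (XT.nd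 (nat_lit 78) (nat_lit 0) (nat_lit 0) (XT.lf (nat_lit 1292) (nat_lit 526068106) (nat_lit 0) (nat_lit 2153307215) (nat_lit 1216) (nat_lit 526068106) (nat_lit 393) (nat_lit 1) (nat_lit 376) (nat_lit 1) (nat_lit 392) (nat_lit 1) (nat_lit 356) (nat_lit 334) (nat_lit 330)) (XT.lf (nat_lit 1292) (nat_lit 964075350) (nat_lit 76) (nat_lit 1097649192) (nat_lit 0) (nat_lit 1097649192) (nat_lit 393) (nat_lit 1) (nat_lit 377) (nat_lit 1) (nat_lit 376) (nat_lit 1) (nat_lit 357) (nat_lit 334) (nat_lit 329))))))))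
noncomputable def ec45 : XT := (XT.nd (nat_lit 1482) (nat_lit 5320) (nat_lit 0) (XT.nd (nat_lit 702) (nat_lit 2508) (nat_lit 0) (XT.nd (nat_lit 312) (nat_lit 1064) (nat_lit 0) (XT.nd (nat_lit 156) (nat_lit 0) (nat_lit 76) (XT.nd (nat_lit 78) (nat_lit 0) (nat_lit 0) (XT.lf (nat_lit 1292) (nat_lit 434517033) (nat_lit 0) (nat_lit 2245333792) (nat_lit 1216) (nat_lit 434517033) (nat_lit 394) (nat_lit 1) (nat_lit 377) (nat_lit 1) (nat_lit 393) (nat_lit 1) (nat_lit 358) (nat_lit 334) (nat_lit 328)) (XT.lf (nat_lit 1292) (nat_lit 754747899) (nat_lit 76) (nat_lit 1157641888) (nat_lit 0) (nat_lit 1157641888) (nat_lit 394) (nat_lit 1) (nat_lit 378) (nat_lit 1) (nat_lit 377) (nat_lit 1) (nat_lit 359) (nat_lit 334) (nat_lit 327))) (XT.nd (nat_lit 78) (nat_lit 0) (nat_lit 0) (XT.lf (nat_lit 1292) (nat_lit 318158852) (nat_lit 0) (nat_lit 2390451482) (nat_lit 1216) (nat_lit 318158852) (nat_lit 395) (nat_lit 1) (nat_lit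 378) (nat_lit 1) (nat_lit 394) (nat_lit 1) (nat_lit 360) (nat_lit 334) (nat_lit 326)) (XT.lf (nat_lit 1292) (nat_lit 497901133) (nat_lit 76) (nat_lit 1243091519) (nat_lit 0) (nat_lit 1243091519) (nat_lit 395) (nat_lit 1) (nat_lit 379) (nat_lit 1) (nat_lit 378) (nat_lit 1) (nat_lit 361) (nat_lit 334) (nat_lit 325)))) (XT.nd (nat_lit 156) (nat_lit 1216) (nat_lit 0) (XT.nd (nat_lit 78) (nat_lit 0) (nat_lit 0) (XT.lf (nat_lit 1292) (nat_lit 179293199) (nat_lit 0) (nat_lit 2583912428) (nat_lit 1216) (nat_lit 179293199) (nat_lit 396) (nat_lit 1) (nat_lit 379) (nat_lit 1) (nat_lit 395) (nat_lit 1) (nat_lit 362) (nat_lit 334) (nat_lit 324)) (XT.lf (nat_lit 1292) (nat_lit 197996900) (nat_lit 76) (nat_lit 1351694983) (nat_lit 0) (nat_lit 1351694983) (nat_lit 396) (nat_lit 1) (nat_lit 380) (nat_lit 1) (nat_lit 379) (nat_lit 1) (nat_lit 363) (nat_lit 334) (nat_lit 323))) (XT.nd (nat_lit 78) (nat_lit 1292) (nat_lit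 0) (XT.lf (nat_lit 1292) (nat_lit 20062200) (nat_lit 0) (nat_lit 2821290844) (nat_lit 1216) (nat_lit 20062200) (nat_lit 397) (nat_lit 1) (nat_lit 380) (nat_lit 1) (nat_lit 396) (nat_lit 1) (nat_lit 364) (nat_lit 334) (nat_lit 322)) (XT.nd (nat_lit 78) (nat_lit 0) (nat_lit 0) (XT.lf (nat_lit 1368) (nat_lit 1341849865) (nat_lit 0) (nat_lit 138061883) (nat_lit 1292) (nat_lit 1341849865) (nat_lit 381) (nat_lit 1) (nat_lit 363) (nat_lit 1) (nat_lit 380) (nat_lit 1) (nat_lit 365) (nat_lit 334) (nat_lit 321)) (XT.lf (nat_lit 1368) (nat_lit 2471210458) (nat_lit 76) (nat_lit 155995240) (nat_lit 0) (nat_lit 155995240) (nat_lit 381) (nat_lit 1) (nat_lit 364) (nat_lit 1) (nat_lit 363) (nat_lit 1) (nat_lit 366) (nat_lit 334) (nat_lit 320)))))) (XT.nd (nat_lit 390) (nat_lit 1824) (nat_lit 0) (XT.nd (nat_lit 156) (nat_lit 760) (nat_lit 0) (XT.nd (nat_lit 78) (nat_lit 0) (nat_lit 0) (XT.lf (nat_lit 1368) (nat_lit 1120221381)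 (nat_lit 0) (nat_lit 504607983) (nat_lit 1292) (nat_lit 1120221381) (nat_lit 382) (nat_lit 1) (nat_lit 364) (nat_lit 1) (nat_lit 381) (nat_lit 1) (nat_lit 367) (nat_lit 334) (nat_lit 319)) (XT.lf (nat_lit 1368) (nat_lit 2011449321) (nat_lit 76) (nat_lit 348209156) (nat_lit 0) (nat_lit 348209156) (nat_lit 382) (nat_lit 1) (nat_lit 365) (nat_lit 1) (nat_lit 364) (nat_lit 1) (nat_lit 368) (nat_lit 334) (nat_lit 318))) (XT.nd (nat_lit 78) (nat_lit 836) (nat_lit 0) (XT.lf (nat_lit 76) (nat_lit 884605125) (nat_lit 0) (nat_lit 901977215) (nat_lit 1292) (nat_lit 884605125) (nat_lit 366) (nat_lit 1) (nat_lit 365) (nat_lit 1) (nat_lit 382) (nat_lit 1) (nat_lit 369) (nat_lit 334) (nat_lit 317)) (XT.nd (nat_lit 78) (nat_lit 0) (nat_lit 0) (XT.lf (nat_lit 912) (nat_lit 1525183773) (nat_lit 0) (nat_lit 555067159) (nat_lit 836) (nat_lit 555067159) (nat_lit 366) (nat_lit 1) (nat_lit 354) (nat_lit 1) (nat_lit 365) (nat_lit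 1) (nat_lit 370) (nat_lit 334) (nat_lit 316)) (XT.lf (nat_lit 76) (nat_lit 636582016) (nat_lit 0) (nat_lit 1326889593) (nat_lit 912) (nat_lit 636582016) (nat_lit 355) (nat_lit 1) (nat_lit 354) (nat_lit 1) (nat_lit 366) (nat_lit 1) (nat_lit 371) (nat_lit 334) (nat_lit 315))))) (XT.nd (nat_lit 156) (nat_lit 1216) (nat_lit 0) (XT.nd (nat_lit 78) (nat_lit 0) (nat_lit 0) (XT.lf (nat_lit 684) (nat_lit 1015475953) (nat_lit 0) (nat_lit 774980716) (nat_lit 608) (nat_lit 774980716) (nat_lit 355) (nat_lit 1) (nat_lit 346) (nat_lit 1) (nat_lit 354) (nat_lit 1) (nat_lit 372) (nat_lit 334) (nat_lit 314)) (XT.lf (nat_lit 76) (nat_lit 377619566) (nat_lit 0) (nat_lit 1776297412) (nat_lit 684) (nat_lit 377619566) (nat_lit 347) (nat_lit 1) (nat_lit 346) (nat_lit 1) (nat_lit 355) (nat_lit 1) (nat_lit 373) (nat_lit 334) (nat_lit 313))) (XT.nd (nat_lit 78) (nat_lit 608) (nat_lit 0) (XT.lf (nat_lit 684) (nat_lit 485167347)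 (nat_lit 0) (nat_lit 1006474268) (nat_lit 608) (nat_lit 1006474268) (nat_lit 347) (nat_lit 1) (nat_lit 338) (nat_lit 1) (nat_lit 346) (nat_lit 1) (nat_lit 374) (nat_lit 334) (nat_lit 312)) (XT.nd (nat_lit 78) (nat_lit 608) (nat_lit 0) (XT.lf (nat_lit 76) (nat_lit 109079045) (nat_lit 0) (nat_lit 2247370637) (nat_lit 684) (nat_lit 109079045) (nat_lit 339) (nat_lit 1) (nat_lit 338) (nat_lit 1) (nat_lit 347) (nat_lit 1) (nat_lit 375) (nat_lit 334) (nat_lit 311)) (XT.lf (nat_lit 76) (nat_lit 1185677492) (nat_lit 0) (nat_lit 61875791) (nat_lit 608) (nat_lit 1185677492) (nat_lit 331) (nat_lit 1) (nat_lit 330) (nat_lit 1) (nat_lit 338) (nat_lit 1) (nat_lit 376) (nat_lit 334) (nat_lit 310))))))) (XT.nd (nat_lit 702) (nat_lit 2584) (nat_lit 0) (XT.nd (nat_lit 312) (nat_lit 1596) (nat_lit 0) (XT.nd (nat_lit 156) (nat_lit 532) (nat_lit 0) (XT.nd (nat_lit 78) (nat_lit 0) (nat_lit 0) (XT.lf (nat_lit 684) (nat_lit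 2069467300) (nat_lit 0) (nat_lit 166132897) (nat_lit 608) (nat_lit 166132897) (nat_lit 331) (nat_lit 1) (nat_lit 322) (nat_lit 1) (nat_lit 330) (nat_lit 1) (nat_lit 377) (nat_lit 334) (nat_lit 309)) (XT.lf (nat_lit 76) (nat_lit 877941342) (nat_lit 0) (nat_lit 614673346) (nat_lit 684) (nat_lit 877941342) (nat_lit 323) (nat_lit 1) (nat_lit 322) (nat_lit 1) (nat_lit 331) (nat_lit 1) (nat_lit 378) (nat_lit 334) (nat_lit 308))) (XT.nd (nat_lit 78) (nat_lit 0) (nat_lit 0) (XT.lf (nat_lit 608) (nat_lit 1445405394) (nat_lit 0) (nat_lit 447353062) (nat_lit 532) (nat_lit 447353062) (nat_lit 323) (nat_lit 1) (nat_lit 315) (nat_lit 1) (nat_lit 322) (nat_lit 1) (nat_lit 379) (nat_lit 334) (nat_lit 307)) (XT.lf (nat_lit 76) (nat_lit 564830093) (nat_lit 0) (nat_lit 1180476728) (nat_lit 608) (nat_lit 564830093) (nat_lit 316) (nat_lit 1) (nat_lit 315) (nat_lit 1) (nat_lit 323) (nat_lit 1) (nat_lit 380) (nat_lit 334)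 (nat_lit 306)))) (XT.nd (nat_lit 156) (nat_lit 1064) (nat_lit 0) (XT.nd (nat_lit 78) (nat_lit 0) (nat_lit 0) (XT.lf (nat_lit 608) (nat_lit 811538139) (nat_lit 0) (nat_lit 734580065) (nat_lit 532) (nat_lit 734580065) (nat_lit 316) (nat_lit 1) (nat_lit 308) (nat_lit 1) (nat_lit 315) (nat_lit 1) (nat_lit 381) (nat_lit 334) (nat_lit 305)) (XT.lf (nat_lit 76) (nat_lit 247323376) (nat_lit 0) (nat_lit 1757236281) (nat_lit 608) (nat_lit 247323376) (nat_lit 309) (nat_lit 1) (nat_lit 308) (nat_lit 1) (nat_lit 316) (nat_lit 1) (nat_lit 382) (nat_lit 334) (nat_lit 304))) (XT.nd (nat_lit 78) (nat_lit 608) (nat_lit 0) (XT.lf (nat_lit 532) (nat_lit 169757404) (nat_lit 0) (nat_lit 1026823945) (nat_lit 456) (nat_lit 1026823945) (nat_lit 309) (nat_lit 1) (nat_lit 302) (nat_lit 1) (nat_lit 308) (nat_lit 1) (nat_lit 383) (nat_lit 334) (nat_lit 303)) (XT.nd (nat_lit 78) (nat_lit 0) (nat_lit 0) (XT.lf (nat_lit 608) (nat_lit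 2049717330) (nat_lit 0) (nat_lit 72952652) (nat_lit 532) (nat_lit 72952652) (nat_lit 302) (nat_lit 1) (nat_lit 294) (nat_lit 1) (nat_lit 301) (nat_lit 1) (nat_lit 384) (nat_lit 334) (nat_lit 302)) (XT.lf (nat_lit 76) (nat_lit 849574780) (nat_lit 0) (nat_lit 468860997) (nat_lit 608) (nat_lit 849574780) (nat_lit 295) (nat_lit 1) (nat_lit 294) (nat_lit 1) (nat_lit 302) (nat_lit 1) (nat_lit 385) (nat_lit 334) (nat_lit 301)))))) (XT.nd (nat_lit 390) (nat_lit 1216) (nat_lit 0) (XT.nd (nat_lit 156) (nat_lit 912) (nat_lit 0) (XT.nd (nat_lit 78) (nat_lit 0) (nat_lit 0) (XT.lf (nat_lit 532) (nat_lit 1354195825) (nat_lit 0) (nat_lit 393436503) (nat_lit 456) (nat_lit 393436503) (nat_lit 295) (nat_lit 1) (nat_lit 288) (nat_lit 1) (nat_lit 294) (nat_lit 1) (nat_lit 386) (nat_lit 334) (nat_lit 300)) (XT.lf (nat_lit 76) (nat_lit 502940703) (nat_lit 0) (nat_lit 1108639887) (nat_lit 532) (nat_lit 502940703) (nat_lit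 289) (nat_lit 1) (nat_lit 288) (nat_lit 1) (nat_lit 295) (nat_lit 1) (nat_lit 387) (nat_lit 334) (nat_lit 299))) (XT.nd (nat_lit 78) (nat_lit 456) (nat_lit 0) (XT.lf (nat_lit 532) (nat_lit 656843050) (nat_lit 0) (nat_lit 715793681) (nat_lit 456) (nat_lit 715793681) (nat_lit 289) (nat_lit 1) (nat_lit 282) (nat_lit 1) (nat_lit 288) (nat_lit 1) (nat_lit 388) (nat_lit 334) (nat_lit 298)) (XT.nd (nat_lit 78) (nat_lit 456) (nat_lit 0) (XT.lf (nat_lit 76) (nat_lit 155733731) (nat_lit 0) (nat_lit 1751442579) (nat_lit 532) (nat_lit 155733731) (nat_lit 283) (nat_lit 1) (nat_lit 282) (nat_lit 1) (nat_lit 289) (nat_lit 1) (nat_lit 389) (nat_lit 334) (nat_lit 297)) (XT.lf (nat_lit 76) (nat_lit 998700910) (nat_lit 0) (nat_lit 40219205) (nat_lit 456) (nat_lit 998700910) (nat_lit 277) (nat_lit 1) (nat_lit 276) (nat_lit 1) (nat_lit 282) (nat_lit 1) (nat_lit 390) (nat_lit 334) (nat_lit 296))))) (XT.nd (nat_lit 156) (nat_lit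 760) (nat_lit 0) (XT.nd (nat_lit 78) (nat_lit 0) (nat_lit 0) (XT.lf (nat_lit 532) (nat_lit 1633801078) (nat_lit 0) (nat_lit 189540366) (nat_lit 456) (nat_lit 189540366) (nat_lit 277) (nat_lit 1) (nat_lit 270) (nat_lit 1) (nat_lit 276) (nat_lit 1) (nat_lit 391) (nat_lit 334) (nat_lit 295)) (XT.lf (nat_lit 76) (nat_lit 632307200) (nat_lit 0) (nat_lit 723777601) (nat_lit 532) (nat_lit 632307200) (nat_lit 271) (nat_lit 1) (nat_lit 270) (nat_lit 1) (nat_lit 277) (nat_lit 1) (nat_lit 392) (nat_lit 334) (nat_lit 294))) (XT.nd (nat_lit 78) (nat_lit 380) (nat_lit 0) (XT.lf (nat_lit 456) (nat_lit 899084874) (nat_lit 0) (nat_lit 532661969) (nat_lit 380) (nat_lit 532661969) (nat_lit 271) (nat_lit 1) (nat_lit 265) (nat_lit 1) (nat_lit 270) (nat_lit 1) (nat_lit 393) (nat_lit 334) (nat_lit 293)) (XT.nd (nat_lit 78) (nat_lit 380) (nat_lit 0) (XT.lf (nat_lit 76) (nat_lit 267650004) (nat_lit 0) (nat_lit 1405564878) (nat_lit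 456) (nat_lit 267650004) (nat_lit 266) (nat_lit 1) (nat_lit 265) (nat_lit 1) (nat_lit 271) (nat_lit 1) (nat_lit 394) (nat_lit 334) (nat_lit 292)) (XT.lf (nat_lit 456) (nat_lit 168330769) (nat_lit 0) (nat_lit 874637287) (nat_lit 380) (nat_lit 874637287) (nat_lit 266) (nat_lit 1) (nat_lit 260) (nat_lit 1) (nat_lit 265) (nat_lit 1) (nat_lit 395) (nat_lit 334) (nat_lit 291))))))))
noncomputable def ec46 : XT := (XT.nd (nat_lit 1482) (nat_lit 2584) (nat_lit 0) (XT.nd (nat_lit 702) (nat_lit 2204) (nat_lit 0) (XT.nd (nat_lit 312) (nat_lit 1064) (nat_lit 0) (XT.nd (nat_lit 156) (nat_lit 380) (nat_lit 0) (XT.nd (nat_lit 78) (nat_lit 0) (nat_lit 0) (XT.lf (nat_lit 456) (nat_lit 1707107109) (nat_lit 0) (nat_lit 93878849) (nat_lit 380) (nat_lit 93878849) (nat_lit 260) (nat_lit 1) (nat_lit 254) (nat_lit 1) (nat_lit 259) (nat_lit 1) (nat_lit 396) (nat_lit 334) (nat_lit 290)) (XT.lf (nat_lit 76) (nat_lit 662775923)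 (nat_lit 0) (nat_lit 546695347) (nat_lit 456) (nat_lit 662775923) (nat_lit 255) (nat_lit 1) (nat_lit 254) (nat_lit 1) (nat_lit 260) (nat_lit 1) (nat_lit 397) (nat_lit 334) (nat_lit 289))) (XT.nd (nat_lit 78) (nat_lit 0) (nat_lit 0) (XT.lf (nat_lit 456) (nat_lit 949750086) (nat_lit 0) (nat_lit 450191075) (nat_lit 380) (nat_lit 450191075) (nat_lit 255) (nat_lit 1) (nat_lit 249) (nat_lit 1) (nat_lit 254) (nat_lit 1) (nat_lit 398) (nat_lit 334) (nat_lit 288)) (XT.lf (nat_lit 76) (nat_lit 287745270) (nat_lit 0) (nat_lit 1252896976) (nat_lit 456) (nat_lit 287745270) (nat_lit 250) (nat_lit 1) (nat_lit 249) (nat_lit 1) (nat_lit 255) (nat_lit 1) (nat_lit 399) (nat_lit 334) (nat_lit 287)))) (XT.nd (nat_lit 156) (nat_lit 304) (nat_lit 0) (XT.nd (nat_lit 78) (nat_lit 456) (nat_lit 0) (XT.lf (nat_lit 380) (nat_lit 199848456) (nat_lit 0) (nat_lit 803534958) (nat_lit 304) (nat_lit 803534958) (nat_lit 250) (nat_lit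 1) (nat_lit 245) (nat_lit 1) (nat_lit 249) (nat_lit 1) (nat_lit 400) (nat_lit 334) (nat_lit 286)) (XT.lf (nat_lit 456) (nat_lit 1620724511) (nat_lit 0) (nat_lit 82597846) (nat_lit 380) (nat_lit 82597846) (nat_lit 245) (nat_lit 1) (nat_lit 239) (nat_lit 1) (nat_lit 244) (nat_lit 1) (nat_lit 401) (nat_lit 334) (nat_lit 285))) (XT.nd (nat_lit 78) (nat_lit 304) (nat_lit 0) (XT.lf (nat_lit 76) (nat_lit 616804795) (nat_lit 0) (nat_lit 531400707) (nat_lit 456) (nat_lit 616804795) (nat_lit 240) (nat_lit 1) (nat_lit 239) (nat_lit 1) (nat_lit 245) (nat_lit 1) (nat_lit 402) (nat_lit 334) (nat_lit 284)) (XT.nd (nat_lit 78) (nat_lit 0) (nat_lit 0) (XT.lf (nat_lit 380) (nat_lit 852560052) (nat_lit 0) (nat_lit 445998812) (nat_lit 304) (nat_lit 445998812) (nat_lit 240) (nat_lit 1) (nat_lit 235) (nat_lit 1) (nat_lit 239) (nat_lit 1) (nat_lit 403) (nat_lit 334) (nat_lit 283)) (XT.lf (nat_lit 76) (nat_lit 237083927) (nat_lit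 0) (nat_lit 1250287047) (nat_lit 380) (nat_lit 237083927) (nat_lit 236) (nat_lit 1) (nat_lit 235) (nat_lit 1) (nat_lit 240) (nat_lit 1) (nat_lit 404) (nat_lit 334) (nat_lit 282)))))) (XT.nd (nat_lit 390) (nat_lit 1216) (nat_lit 0) (XT.nd (nat_lit 156) (nat_lit 304) (nat_lit 0) (XT.nd (nat_lit 78) (nat_lit 380) (nat_lit 0) (XT.lf (nat_lit 380) (nat_lit 94539073) (nat_lit 0) (nat_lit 805020775) (nat_lit 304) (nat_lit 805020775) (nat_lit 236) (nat_lit 1) (nat_lit 231) (nat_lit 1) (nat_lit 235) (nat_lit 1) (nat_lit 405) (nat_lit 334) (nat_lit 281)) (XT.lf (nat_lit 380) (nat_lit 1412825736) (nat_lit 0) (nat_lit 136136409) (nat_lit 304) (nat_lit 136136409) (nat_lit 231) (nat_lit 1) (nat_lit 226) (nat_lit 1) (nat_lit 230) (nat_lit 1) (nat_lit 406) (nat_lit 334) (nat_lit 280))) (XT.nd (nat_lit 78) (nat_lit 304) (nat_lit 0) (XT.lf (nat_lit 76) (nat_lit 512779639) (nat_lit 0) (nat_lit 640190749) (nat_lit 380)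 (nat_lit 512779639) (nat_lit 227) (nat_lit 1) (nat_lit 226) (nat_lit 1) (nat_lit 231) (nat_lit 1) (nat_lit 407) (nat_lit 334) (nat_lit 279)) (XT.nd (nat_lit 78) (nat_lit 0) (nat_lit 0) (XT.lf (nat_lit 380) (nat_lit 643296046) (nat_lit 0) (nat_lit 501743098) (nat_lit 304) (nat_lit 501743098) (nat_lit 227) (nat_lit 1) (nat_lit 222) (nat_lit 1) (nat_lit 226) (nat_lit 1) (nat_lit 408) (nat_lit 334) (nat_lit 278)) (XT.lf (nat_lit 76) (nat_lit 132898713) (nat_lit 0) (nat_lit 1362383978) (nat_lit 380) (nat_lit 132898713) (nat_lit 223) (nat_lit 1) (nat_lit 222) (nat_lit 1) (nat_lit 227) (nat_lit 1) (nat_lit 409) (nat_lit 334) (nat_lit 277))))) (XT.nd (nat_lit 156) (nat_lit 608) (nat_lit 0) (XT.nd (nat_lit 78) (nat_lit 304) (nat_lit 0) (XT.lf (nat_lit 76) (nat_lit 748931699) (nat_lit 0) (nat_lit 111837016) (nat_lit 304) (nat_lit 748931699) (nat_lit 219) (nat_lit 1) (nat_lit 218) (nat_lit 1) (nat_lit 222) (nat_lit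 1) (nat_lit 410) (nat_lit 334) (nat_lit 276)) (XT.lf (nat_lit 380) (nat_lit 1114569238) (nat_lit 0) (nat_lit 238503473) (nat_lit 304) (nat_lit 238503473) (nat_lit 219) (nat_lit 1) (nat_lit 214) (nat_lit 1) (nat_lit 218) (nat_lit 1) (nat_lit 411) (nat_lit 334) (nat_lit 275))) (XT.nd (nat_lit 78) (nat_lit 608) (nat_lit 0) (XT.lf (nat_lit 76) (nat_lit 365701823) (nat_lit 0) (nat_lit 842254780) (nat_lit 380) (nat_lit 365701823) (nat_lit 215) (nat_lit 1) (nat_lit 214) (nat_lit 1) (nat_lit 219) (nat_lit 1) (nat_lit 412) (nat_lit 334) (nat_lit 274)) (XT.nd (nat_lit 78) (nat_lit 380) (nat_lit 0) (XT.lf (nat_lit 304) (nat_lit 351140817) (nat_lit 0) (nat_lit 602440610) (nat_lit 228) (nat_lit 602440610) (nat_lit 215) (nat_lit 1) (nat_lit 211) (nat_lit 1) (nat_lit 214) (nat_lit 1) (nat_lit 413) (nat_lit 334) (nat_lit 273)) (XT.lf (nat_lit 380) (nat_lit 1517473568) (nat_lit 0) (nat_lit 10656013) (nat_lit 304) (nat_lit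 10656013) (nat_lit 211) (nat_lit 1) (nat_lit 206) (nat_lit 1) (nat_lit 210) (nat_lit 1) (nat_lit 414) (nat_lit 334) (nat_lit 272))))))) (XT.nd (nat_lit 702) (nat_lit 1292) (nat_lit 0) (XT.nd (nat_lit 312) (nat_lit 760) (nat_lit 0) (XT.nd (nat_lit 156) (nat_lit 304) (nat_lit 0) (XT.nd (nat_lit 78) (nat_lit 228) (nat_lit 0) (XT.lf (nat_lit 76) (nat_lit 565332049) (nat_lit 0) (nat_lit 390851164) (nat_lit 380) (nat_lit 565332049) (nat_lit 207) (nat_lit 1) (nat_lit 206) (nat_lit 1) (nat_lit 211) (nat_lit 1) (nat_lit 415) (nat_lit 334) (nat_lit 271)) (XT.lf (nat_lit 304) (nat_lit 751289050) (nat_lit 0) (nat_lit 376673646) (nat_lit 228) (nat_lit 376673646) (nat_lit 207) (nat_lit 1) (nat_lit 203) (nat_lit 1) (nat_lit 206) (nat_lit 1) (nat_lit 416) (nat_lit 334) (nat_lit 270))) (XT.nd (nat_lit 78) (nat_lit 304) (nat_lit 0) (XT.lf (nat_lit 76) (nat_lit 187762627) (nat_lit 0) (nat_lit 1112507132) (nat_lit 304)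 (nat_lit 187762627) (nat_lit 204) (nat_lit 1) (nat_lit 203) (nat_lit 1) (nat_lit 207) (nat_lit 1) (nat_lit 417) (nat_lit 334) (nat_lit 269)) (XT.lf (nat_lit 76) (nat_lit 735698666) (nat_lit 0) (nat_lit 196974) (nat_lit 304) (nat_lit 735698666) (nat_lit 200) (nat_lit 1) (nat_lit 199) (nat_lit 1) (nat_lit 203) (nat_lit 1) (nat_lit 418) (nat_lit 334) (nat_lit 268)))) (XT.nd (nat_lit 156) (nat_lit 532) (nat_lit 0) (XT.nd (nat_lit 78) (nat_lit 0) (nat_lit 0) (XT.lf (nat_lit 304) (nat_lit 1094020282) (nat_lit 0) (nat_lit 180701663) (nat_lit 228) (nat_lit 180701663) (nat_lit 200) (nat_lit 1) (nat_lit 196) (nat_lit 1) (nat_lit 199) (nat_lit 1) (nat_lit 419) (nat_lit 334) (nat_lit 267)) (XT.lf (nat_lit 76) (nat_lit 358401456) (nat_lit 0) (nat_lit 722605496) (nat_lit 304) (nat_lit 358401456) (nat_lit 197) (nat_lit 1) (nat_lit 196) (nat_lit 1) (nat_lit 200) (nat_lit 1) (nat_lit 420) (nat_lit 334) (nat_lit 266)))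 (XT.nd (nat_lit 78) (nat_lit 304) (nat_lit 0) (XT.lf (nat_lit 304) (nat_lit 343488090) (nat_lit 0) (nat_lit 540082621) (nat_lit 228) (nat_lit 540082621) (nat_lit 197) (nat_lit 1) (nat_lit 193) (nat_lit 1) (nat_lit 196) (nat_lit 1) (nat_lit 421) (nat_lit 334) (nat_lit 265)) (XT.nd (nat_lit 78) (nat_lit 0) (nat_lit 0) (XT.lf (nat_lit 304) (nat_lit 1386109930) (nat_lit 0) (nat_lit 11067598) (nat_lit 228) (nat_lit 11067598) (nat_lit 193) (nat_lit 1) (nat_lit 189) (nat_lit 1) (nat_lit 192) (nat_lit 1) (nat_lit 422) (nat_lit 334) (nat_lit 264)) (XT.lf (nat_lit 76) (nat_lit 504431939) (nat_lit 0) (nat_lit 383925933) (nat_lit 304) (nat_lit 504431939) (nat_lit 190) (nat_lit 1) (nat_lit 189) (nat_lit 1) (nat_lit 193) (nat_lit 1) (nat_lit 423) (nat_lit 334) (nat_lit 263)))))) (XT.nd (nat_lit 390) (nat_lit 608) (nat_lit 0) (XT.nd (nat_lit 156) (nat_lit 456) (nat_lit 0) (XT.nd (nat_lit 78) (nat_lit 0) (nat_lit 0)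 (XT.lf (nat_lit 304) (nat_lit 638841595) (nat_lit 0) (nat_lit 369416712) (nat_lit 228) (nat_lit 369416712) (nat_lit 190) (nat_lit 1) (nat_lit 186) (nat_lit 1) (nat_lit 189) (nat_lit 1) (nat_lit 424) (nat_lit 334) (nat_lit 262)) (XT.lf (nat_lit 76) (nat_lit 136635748) (nat_lit 0) (nat_lit 1089544741) (nat_lit 304) (nat_lit 136635748) (nat_lit 187) (nat_lit 1) (nat_lit 186) (nat_lit 1) (nat_lit 190) (nat_lit 1) (nat_lit 425) (nat_lit 334) (nat_lit 261))) (XT.nd (nat_lit 78) (nat_lit 228) (nat_lit 0) (XT.lf (nat_lit 76) (nat_lit 628760746) (nat_lit 0) (nat_lit 90530995) (nat_lit 228) (nat_lit 628760746) (nat_lit 184) (nat_lit 1) (nat_lit 183) (nat_lit 1) (nat_lit 186) (nat_lit 1) (nat_lit 426) (nat_lit 334) (nat_lit 260)) (XT.nd (nat_lit 78) (nat_lit 0) (nat_lit 0) (XT.lf (nat_lit 304) (nat_lit 891541198) (nat_lit 0) (nat_lit 220998953) (nat_lit 228) (nat_lit 220998953) (nat_lit 184) (nat_lit 1) (nat_lit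 180) (nat_lit 1) (nat_lit 183) (nat_lit 1) (nat_lit 427) (nat_lit 334) (nat_lit 259)) (XT.lf (nat_lit 76) (nat_lit 263696692) (nat_lit 0) (nat_lit 791797958) (nat_lit 304) (nat_lit 263696692) (nat_lit 181) (nat_lit 1) (nat_lit 180) (nat_lit 1) (nat_lit 184) (nat_lit 1) (nat_lit 428) (nat_lit 334) (nat_lit 258))))) (XT.nd (nat_lit 156) (nat_lit 152) (nat_lit 0) (XT.nd (nat_lit 78) (nat_lit 304) (nat_lit 0) (XT.lf (nat_lit 228) (nat_lit 166089091) (nat_lit 0) (nat_lit 569473142) (nat_lit 152) (nat_lit 569473142) (nat_lit 181) (nat_lit 1) (nat_lit 178) (nat_lit 1) (nat_lit 180) (nat_lit 1) (nat_lit 429) (nat_lit 334) (nat_lit 257)) (XT.lf (nat_lit 304) (nat_lit 1106626414) (nat_lit 0) (nat_lit 92254697) (nat_lit 228) (nat_lit 92254697) (nat_lit 178) (nat_lit 1) (nat_lit 174) (nat_lit 1) (nat_lit 177) (nat_lit 1) (nat_lit 430) (nat_lit 334) (nat_lit 256))) (XT.nd (nat_lit 78) (nat_lit 152) (nat_lit 0) (XT.lf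 (nat_lit 76) (nat_lit 372444104) (nat_lit 0) (nat_lit 532387248) (nat_lit 304) (nat_lit 372444104) (nat_lit 175) (nat_lit 1) (nat_lit 174) (nat_lit 1) (nat_lit 178) (nat_lit 1) (nat_lit 431) (nat_lit 334) (nat_lit 255)) (XT.nd (nat_lit 78) (nat_lit 0) (nat_lit 0) (XT.lf (nat_lit 228) (nat_lit 388466584) (nat_lit 0) (nat_lit 437600097) (nat_lit 152) (nat_lit 437600097) (nat_lit 175) (nat_lit 1) (nat_lit 172) (nat_lit 1) (nat_lit 174) (nat_lit 1) (nat_lit 432) (nat_lit 334) (nat_lit 254)) (XT.lf (nat_lit 76) (nat_lit 19289984) (nat_lit 0) (nat_lit 1211762477) (nat_lit 228) (nat_lit 19289984) (nat_lit 173) (nat_lit 1) (nat_lit 172) (nat_lit 1) (nat_lit 175) (nat_lit 1) (nat_lit 433) (nat_lit 334) (nat_lit 253))))))))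
noncomputable def ec47 : XT := (XT.nd (nat_lit 47970) (nat_lit 0) (nat_lit 8588) (XT.nd (nat_lit 47190) (nat_lit 0) (nat_lit 14744) (XT.nd (nat_lit 46800) (nat_lit 0) (nat_lit 15656) (XT.nd (nat_lit 46644) (nat_lit 0) (nat_lit 15580) (XT.nd (nat_lit 46566) (nat_lit 0) (nat_lit 15580) (XT.lf (nat_lit 76) (nat_lit 465040898) (nat_lit 0) (nat_lit 306888123) (nat_lit 228) (nat_lit 465040898) (nat_lit 170) (nat_lit 1) (nat_lit 169) (nat_lit 1) (nat_lit 172) (nat_lit 1) (nat_lit 434) (nat_lit 334) (nat_lit 252)) (XT.lf (nat_lit 1292) (nat_lit 321720365) (nat_lit 0) (nat_lit 1106867680) (nat_lit 1292) (nat_lit 321720365) (nat_lit 391) (nat_lit 1) (nat_lit 374) (nat_lit 0) (nat_lit 391) (nat_lit 0) (nat_lit 350) (nat_lit 335) (nat_lit 335))) (XT.nd (nat_lit 78) (nat_lit 0) (nat_lit 76) (XT.lf (nat_lit 1292) (nat_lit 1257288827) (nat_lit 76) (nat_lit 1096016036) (nat_lit 0) (nat_lit 1096016036) (nat_lit 391)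 (nat_lit 1) (nat_lit 375) (nat_lit 1) (nat_lit 374) (nat_lit 0) (nat_lit 351) (nat_lit 335) (nat_lit 334)) (XT.lf (nat_lit 1292) (nat_lit 608054854) (nat_lit 0) (nat_lit 2183046749) (nat_lit 1216) (nat_lit 608054854) (nat_lit 392) (nat_lit 1) (nat_lit 375) (nat_lit 1) (nat_lit 391) (nat_lit 1) (nat_lit 352) (nat_lit 335) (nat_lit 333)))) (XT.nd (nat_lit 156) (nat_lit 0) (nat_lit 76) (XT.nd (nat_lit 78) (nat_lit 0) (nat_lit 76) (XT.lf (nat_lit 1292) (nat_lit 1154727562) (nat_lit 76) (nat_lit 1097551090) (nat_lit 0) (nat_lit 1097551090) (nat_lit 392) (nat_lit 1) (nat_lit 376) (nat_lit 1) (nat_lit 375) (nat_lit 1) (nat_lit 353) (nat_lit 335) (nat_lit 332)) (XT.lf (nat_lit 1292) (nat_lit 541850149) (nat_lit 0) (nat_lit 2217906432) (nat_lit 1216) (nat_lit 541850149) (nat_lit 393) (nat_lit 1) (nat_lit 376) (nat_lit 1) (nat_lit 392) (nat_lit 1) (nat_lit 354) (nat_lit 335) (nat_lit 331))) (XT.nd (nat_lit 78)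 (nat_lit 0) (nat_lit 76) (XT.lf (nat_lit 1292) (nat_lit 992997610) (nat_lit 76) (nat_lit 1130578668) (nat_lit 0) (nat_lit 1130578668) (nat_lit 393) (nat_lit 1) (nat_lit 377) (nat_lit 1) (nat_lit 376) (nat_lit 1) (nat_lit 355) (nat_lit 335) (nat_lit 330)) (XT.nd (nat_lit 78) (nat_lit 0) (nat_lit 0) (XT.lf (nat_lit 1292) (nat_lit 447552544) (nat_lit 0) (nat_lit 2312693806) (nat_lit 1216) (nat_lit 447552544) (nat_lit 394) (nat_lit 1) (nat_lit 377) (nat_lit 1) (nat_lit 393) (nat_lit 1) (nat_lit 356) (nat_lit 335) (nat_lit 329)) (XT.lf (nat_lit 1292) (nat_lit 777390336) (nat_lit 76) (nat_lit 1192371145) (nat_lit 0) (nat_lit 1192371145) (nat_lit 394) (nat_lit 1) (nat_lit 378) (nat_lit 1) (nat_lit 377) (nat_lit 1) (nat_lit 357) (nat_lit 335) (nat_lit 328)))))) (XT.nd (nat_lit 390) (nat_lit 1140) (nat_lit 0) (XT.nd (nat_lit 156) (nat_lit 0) (nat_lit 76) (XT.nd (nat_lit 78) (nat_lit 0) (nat_lit 0) (XT.lf (nat_lit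 1292) (nat_lit 327703617) (nat_lit 0) (nat_lit 2462165026) (nat_lit 1216) (nat_lit 327703617) (nat_lit 395) (nat_lit 1) (nat_lit 378) (nat_lit 1) (nat_lit 394) (nat_lit 1) (nat_lit 358) (nat_lit 335) (nat_lit 327)) (XT.lf (nat_lit 1292) (nat_lit 512838167) (nat_lit 76) (nat_lit 1280384265) (nat_lit 0) (nat_lit 1280384265) (nat_lit 395) (nat_lit 1) (nat_lit 379) (nat_lit 1) (nat_lit 378) (nat_lit 1) (nat_lit 359) (nat_lit 335) (nat_lit 326))) (XT.nd (nat_lit 78) (nat_lit 0) (nat_lit 0) (XT.lf (nat_lit 1292) (nat_lit 184671995) (nat_lit 0) (nat_lit 2661429801) (nat_lit 1216) (nat_lit 184671995) (nat_lit 396) (nat_lit 1) (nat_lit 379) (nat_lit 1) (nat_lit 395) (nat_lit 1) (nat_lit 360) (nat_lit 335) (nat_lit 325)) (XT.nd (nat_lit 78) (nat_lit 0) (nat_lit 76) (XT.lf (nat_lit 1292) (nat_lit 203936807) (nat_lit 76) (nat_lit 1392245832) (nat_lit 0) (nat_lit 1392245832) (nat_lit 396) (nat_lit 1) (nat_lit 380)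 (nat_lit 1) (nat_lit 379) (nat_lit 1) (nat_lit 361) (nat_lit 335) (nat_lit 324)) (XT.lf (nat_lit 1292) (nat_lit 20664066) (nat_lit 0) (nat_lit 2905929569) (nat_lit 1216) (nat_lit 20664066) (nat_lit 397) (nat_lit 1) (nat_lit 380) (nat_lit 1) (nat_lit 396) (nat_lit 1) (nat_lit 362) (nat_lit 335) (nat_lit 323))))) (XT.nd (nat_lit 156) (nat_lit 0) (nat_lit 76) (XT.nd (nat_lit 78) (nat_lit 0) (nat_lit 0) (XT.lf (nat_lit 1368) (nat_lit 1382105361) (nat_lit 0) (nat_lit 142203740) (nat_lit 1292) (nat_lit 1382105361) (nat_lit 381) (nat_lit 1) (nat_lit 363) (nat_lit 1) (nat_lit 380) (nat_lit 1) (nat_lit 363) (nat_lit 335) (nat_lit 322)) (XT.lf (nat_lit 1368) (nat_lit 2545346772) (nat_lit 76) (nat_lit 160675097) (nat_lit 0) (nat_lit 160675097) (nat_lit 381) (nat_lit 1) (nat_lit 364) (nat_lit 1) (nat_lit 363) (nat_lit 1) (nat_lit 364) (nat_lit 335) (nat_lit 321))) (XT.nd (nat_lit 78) (nat_lit 0) (nat_lit 0) (XT.lf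 (nat_lit 1368) (nat_lit 1153828023) (nat_lit 0) (nat_lit 519746222) (nat_lit 1292) (nat_lit 1153828023) (nat_lit 382) (nat_lit 1) (nat_lit 364) (nat_lit 1) (nat_lit 381) (nat_lit 1) (nat_lit 365) (nat_lit 335) (nat_lit 320)) (XT.nd (nat_lit 78) (nat_lit 0) (nat_lit 76) (XT.lf (nat_lit 1368) (nat_lit 2071792800) (nat_lit 76) (nat_lit 358655431) (nat_lit 0) (nat_lit 358655431) (nat_lit 382) (nat_lit 1) (nat_lit 365) (nat_lit 1) (nat_lit 364) (nat_lit 1) (nat_lit 366) (nat_lit 335) (nat_lit 319)) (XT.lf (nat_lit 76) (nat_lit 911143279) (nat_lit 0) (nat_lit 929036531) (nat_lit 1292) (nat_lit 911143279) (nat_lit 366) (nat_lit 1) (nat_lit 365) (nat_lit 1) (nat_lit 382) (nat_lit 1) (nat_lit 367) (nat_lit 335) (nat_lit 318))))))) (XT.nd (nat_lit 702) (nat_lit 3040) (nat_lit 0) (XT.nd (nat_lit 312) (nat_lit 1824) (nat_lit 0) (XT.nd (nat_lit 156) (nat_lit 608) (nat_lit 0) (XT.nd (nat_lit 78) (nat_lit 0) (nat_lit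 0) (XT.lf (nat_lit 912) (nat_lit 1570939286) (nat_lit 0) (nat_lit 571719174) (nat_lit 836) (nat_lit 571719174) (nat_lit 366) (nat_lit 1) (nat_lit 354) (nat_lit 1) (nat_lit 365) (nat_lit 1) (nat_lit 368) (nat_lit 335) (nat_lit 317)) (XT.lf (nat_lit 76) (nat_lit 655679477) (nat_lit 0) (nat_lit 1366696280) (nat_lit 912) (nat_lit 655679477) (nat_lit 355) (nat_lit 1) (nat_lit 354) (nat_lit 1) (nat_lit 366) (nat_lit 1) (nat_lit 369) (nat_lit 335) (nat_lit 316))) (XT.nd (nat_lit 78) (nat_lit 0) (nat_lit 0) (XT.lf (nat_lit 684) (nat_lit 1045940232) (nat_lit 0) (nat_lit 798230138) (nat_lit 608) (nat_lit 798230138) (nat_lit 355) (nat_lit 1) (nat_lit 346) (nat_lit 1) (nat_lit 354) (nat_lit 1) (nat_lit 370) (nat_lit 335) (nat_lit 315)) (XT.lf (nat_lit 76) (nat_lit 388948154) (nat_lit 0) (nat_lit 1829586334) (nat_lit 684) (nat_lit 388948154) (nat_lit 347) (nat_lit 1) (nat_lit 346) (nat_lit 1) (nat_lit 355) (nat_lit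 1) (nat_lit 371) (nat_lit 335) (nat_lit 314)))) (XT.nd (nat_lit 156) (nat_lit 1216) (nat_lit 0) (XT.nd (nat_lit 78) (nat_lit 0) (nat_lit 0) (XT.lf (nat_lit 684) (nat_lit 499722367) (nat_lit 0) (nat_lit 1036668496) (nat_lit 608) (nat_lit 1036668496) (nat_lit 347) (nat_lit 1) (nat_lit 338) (nat_lit 1) (nat_lit 346) (nat_lit 1) (nat_lit 372) (nat_lit 335) (nat_lit 313)) (XT.lf (nat_lit 76) (nat_lit 112351417) (nat_lit 0) (nat_lit 2314791756) (nat_lit 684) (nat_lit 112351417) (nat_lit 339) (nat_lit 1) (nat_lit 338) (nat_lit 1) (nat_lit 347) (nat_lit 1) (nat_lit 373) (nat_lit 335) (nat_lit 312))) (XT.nd (nat_lit 78) (nat_lit 608) (nat_lit 0) (XT.lf (nat_lit 76) (nat_lit 1221247817) (nat_lit 0) (nat_lit 63732064) (nat_lit 608) (nat_lit 1221247817) (nat_lit 331) (nat_lit 1) (nat_lit 330) (nat_lit 1) (nat_lit 338) (nat_lit 1) (nat_lit 374) (nat_lit 335) (nat_lit 311)) (XT.nd (nat_lit 78) (nat_lit 0) (nat_lit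 0) (XT.lf (nat_lit 684) (nat_lit 2131551319) (nat_lit 0) (nat_lit 171116884) (nat_lit 608) (nat_lit 171116884) (nat_lit 331) (nat_lit 1) (nat_lit 322) (nat_lit 1) (nat_lit 330) (nat_lit 1) (nat_lit 375) (nat_lit 335) (nat_lit 310)) (XT.lf (nat_lit 76) (nat_lit 904279583) (nat_lit 0) (nat_lit 633113546) (nat_lit 684) (nat_lit 904279583) (nat_lit 323) (nat_lit 1) (nat_lit 322) (nat_lit 1) (nat_lit 331) (nat_lit 1) (nat_lit 376) (nat_lit 335) (nat_lit 309)))))) (XT.nd (nat_lit 390) (nat_lit 1520) (nat_lit 0) (XT.nd (nat_lit 156) (nat_lit 988) (nat_lit 0) (XT.nd (nat_lit 78) (nat_lit 0) (nat_lit 0) (XT.lf (nat_lit 608) (nat_lit 1488767556) (nat_lit 0) (nat_lit 460773653) (nat_lit 532) (nat_lit 460773653) (nat_lit 323) (nat_lit 1) (nat_lit 315) (nat_lit 1) (nat_lit 322) (nat_lit 1) (nat_lit 377) (nat_lit 335) (nat_lit 308)) (XT.lf (nat_lit 76) (nat_lit 581774996) (nat_lit 0) (nat_lit 1215891030) (nat_lit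 608) (nat_lit 581774996) (nat_lit 316) (nat_lit 1) (nat_lit 315) (nat_lit 1) (nat_lit 323) (nat_lit 1) (nat_lit 378) (nat_lit 335) (nat_lit 307))) (XT.nd (nat_lit 78) (nat_lit 456) (nat_lit 0) (XT.lf (nat_lit 608) (nat_lit 835884283) (nat_lit 0) (nat_lit 756617467) (nat_lit 532) (nat_lit 756617467) (nat_lit 316) (nat_lit 1) (nat_lit 308) (nat_lit 1) (nat_lit 315) (nat_lit 1) (nat_lit 379) (nat_lit 335) (nat_lit 306)) (XT.nd (nat_lit 78) (nat_lit 456) (nat_lit 0) (XT.lf (nat_lit 76) (nat_lit 254743077) (nat_lit 0) (nat_lit 1809953370) (nat_lit 608) (nat_lit 254743077) (nat_lit 309) (nat_lit 1) (nat_lit 308) (nat_lit 1) (nat_lit 316) (nat_lit 1) (nat_lit 380) (nat_lit 335) (nat_lit 305)) (XT.lf (nat_lit 532) (nat_lit 174850127) (nat_lit 0) (nat_lit 1057628663) (nat_lit 456) (nat_lit 1057628663) (nat_lit 309) (nat_lit 1) (nat_lit 302) (nat_lit 1) (nat_lit 308) (nat_lit 1) (nat_lit 381) (nat_lit 335) (nat_lit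 304))))) (XT.nd (nat_lit 156) (nat_lit 912) (nat_lit 0) (XT.nd (nat_lit 78) (nat_lit 0) (nat_lit 0) (XT.lf (nat_lit 608) (nat_lit 2111208850) (nat_lit 0) (nat_lit 75141232) (nat_lit 532) (nat_lit 75141232) (nat_lit 302) (nat_lit 1) (nat_lit 294) (nat_lit 1) (nat_lit 301) (nat_lit 1) (nat_lit 382) (nat_lit 335) (nat_lit 303)) (XT.lf (nat_lit 76) (nat_lit 875062023) (nat_lit 0) (nat_lit 482926827) (nat_lit 608) (nat_lit 875062023) (nat_lit 295) (nat_lit 1) (nat_lit 294) (nat_lit 1) (nat_lit 302) (nat_lit 1) (nat_lit 383) (nat_lit 335) (nat_lit 302))) (XT.nd (nat_lit 78) (nat_lit 456) (nat_lit 0) (XT.lf (nat_lit 532) (nat_lit 1394821700) (nat_lit 0) (nat_lit 405239598) (nat_lit 456) (nat_lit 405239598) (nat_lit 295) (nat_lit 1) (nat_lit 288) (nat_lit 1) (nat_lit 294) (nat_lit 1) (nat_lit 384) (nat_lit 335) (nat_lit 301)) (XT.nd (nat_lit 78) (nat_lit 456) (nat_lit 0) (XT.lf (nat_lit 76) (nat_lit 518028924)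 (nat_lit 0) (nat_lit 1141899084) (nat_lit 532) (nat_lit 518028924) (nat_lit 289) (nat_lit 1) (nat_lit 288) (nat_lit 1) (nat_lit 295) (nat_lit 1) (nat_lit 385) (nat_lit 335) (nat_lit 300)) (XT.lf (nat_lit 532) (nat_lit 676548342) (nat_lit 0) (nat_lit 737267492) (nat_lit 456) (nat_lit 737267492) (nat_lit 289) (nat_lit 1) (nat_lit 282) (nat_lit 1) (nat_lit 288) (nat_lit 1) (nat_lit 386) (nat_lit 335) (nat_lit 299))))))))
noncomputable def ec48 : XT := (XT.nd (nat_lit 1404) (nat_lit 3040) (nat_lit 0) (XT.nd (nat_lit 702) (nat_lit 2128) (nat_lit 0) (XT.nd (nat_lit 312) (nat_lit 1216) (nat_lit 0) (XT.nd (nat_lit 156) (nat_lit 456) (nat_lit 0) (XT.nd (nat_lit 78) (nat_lit 456) (nat_lit 0) (XT.lf (nat_lit 76) (nat_lit 160405743) (nat_lit 0) (nat_lit 1803985856) (nat_lit 532) (nat_lit 160405743) (nat_lit 283) (nat_lit 1) (nat_lit 282) (nat_lit 1) (nat_lit 289) (nat_lit 1) (nat_lit 387) (nat_lit 335) (nat_lit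 298)) (XT.lf (nat_lit 76) (nat_lit 1028661937) (nat_lit 0) (nat_lit 41425782) (nat_lit 456) (nat_lit 1028661937) (nat_lit 277) (nat_lit 1) (nat_lit 276) (nat_lit 1) (nat_lit 282) (nat_lit 1) (nat_lit 388) (nat_lit 335) (nat_lit 297))) (XT.nd (nat_lit 78) (nat_lit 0) (nat_lit 0) (XT.lf (nat_lit 532) (nat_lit 1682815111) (nat_lit 0) (nat_lit 195226577) (nat_lit 456) (nat_lit 195226577) (nat_lit 277) (nat_lit 1) (nat_lit 270) (nat_lit 1) (nat_lit 276) (nat_lit 1) (nat_lit 389) (nat_lit 335) (nat_lit 296)) (XT.lf (nat_lit 76) (nat_lit 651276416) (nat_lit 0) (nat_lit 745490929) (nat_lit 532) (nat_lit 651276416) (nat_lit 271) (nat_lit 1) (nat_lit 270) (nat_lit 1) (nat_lit 277) (nat_lit 1) (nat_lit 390) (nat_lit 335) (nat_lit 295)))) (XT.nd (nat_lit 156) (nat_lit 836) (nat_lit 0) (XT.nd (nat_lit 78) (nat_lit 0) (nat_lit 0) (XT.lf (nat_lit 456) (nat_lit 926057420) (nat_lit 0) (nat_lit 548641828) (nat_lit 380)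 (nat_lit 548641828) (nat_lit 271) (nat_lit 1) (nat_lit 265) (nat_lit 1) (nat_lit 270) (nat_lit 1) (nat_lit 391) (nat_lit 335) (nat_lit 294)) (XT.lf (nat_lit 76) (nat_lit 275679504) (nat_lit 0) (nat_lit 1447731824) (nat_lit 456) (nat_lit 275679504) (nat_lit 266) (nat_lit 1) (nat_lit 265) (nat_lit 1) (nat_lit 271) (nat_lit 1) (nat_lit 392) (nat_lit 335) (nat_lit 293))) (XT.nd (nat_lit 78) (nat_lit 456) (nat_lit 0) (XT.lf (nat_lit 456) (nat_lit 173380692) (nat_lit 0) (nat_lit 900876406) (nat_lit 380) (nat_lit 900876406) (nat_lit 266) (nat_lit 1) (nat_lit 260) (nat_lit 1) (nat_lit 265) (nat_lit 1) (nat_lit 393) (nat_lit 335) (nat_lit 292)) (XT.nd (nat_lit 78) (nat_lit 0) (nat_lit 0) (XT.lf (nat_lit 456) (nat_lit 1758320322) (nat_lit 0) (nat_lit 96695214) (nat_lit 380) (nat_lit 96695214) (nat_lit 260) (nat_lit 1) (nat_lit 254) (nat_lit 1) (nat_lit 259) (nat_lit 1) (nat_lit 394) (nat_lit 335) (nat_lit 291))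 (XT.lf (nat_lit 76) (nat_lit 682659201) (nat_lit 0) (nat_lit 563096208) (nat_lit 456) (nat_lit 682659201) (nat_lit 255) (nat_lit 1) (nat_lit 254) (nat_lit 1) (nat_lit 260) (nat_lit 1) (nat_lit 395) (nat_lit 335) (nat_lit 290)))))) (XT.nd (nat_lit 312) (nat_lit 988) (nat_lit 0) (XT.nd (nat_lit 156) (nat_lit 760) (nat_lit 0) (XT.nd (nat_lit 78) (nat_lit 0) (nat_lit 0) (XT.lf (nat_lit 456) (nat_lit 978242588) (nat_lit 0) (nat_lit 463696807) (nat_lit 380) (nat_lit 463696807) (nat_lit 255) (nat_lit 1) (nat_lit 249) (nat_lit 1) (nat_lit 254) (nat_lit 1) (nat_lit 396) (nat_lit 335) (nat_lit 289)) (XT.lf (nat_lit 76) (nat_lit 296377628) (nat_lit 0) (nat_lit 1290483885) (nat_lit 456) (nat_lit 296377628) (nat_lit 250) (nat_lit 1) (nat_lit 249) (nat_lit 1) (nat_lit 255) (nat_lit 1) (nat_lit 397) (nat_lit 335) (nat_lit 288))) (XT.nd (nat_lit 78) (nat_lit 456) (nat_lit 0) (XT.lf (nat_lit 380) (nat_lit 205843910)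 (nat_lit 0) (nat_lit 827641007) (nat_lit 304) (nat_lit 827641007) (nat_lit 250) (nat_lit 1) (nat_lit 245) (nat_lit 1) (nat_lit 249) (nat_lit 1) (nat_lit 398) (nat_lit 335) (nat_lit 287)) (XT.lf (nat_lit 456) (nat_lit 1669346246) (nat_lit 0) (nat_lit 85075782) (nat_lit 380) (nat_lit 85075782) (nat_lit 245) (nat_lit 1) (nat_lit 239) (nat_lit 1) (nat_lit 244) (nat_lit 1) (nat_lit 399) (nat_lit 335) (nat_lit 286)))) (XT.nd (nat_lit 156) (nat_lit 684) (nat_lit 0) (XT.nd (nat_lit 78) (nat_lit 304) (nat_lit 0) (XT.lf (nat_lit 76) (nat_lit 635308939) (nat_lit 0) (nat_lit 547342728) (nat_lit 456) (nat_lit 635308939) (nat_lit 240) (nat_lit 1) (nat_lit 239) (nat_lit 1) (nat_lit 245) (nat_lit 1) (nat_lit 400) (nat_lit 335) (nat_lit 285)) (XT.lf (nat_lit 380) (nat_lit 878136854) (nat_lit 0) (nat_lit 459378776) (nat_lit 304) (nat_lit 459378776) (nat_lit 240) (nat_lit 1) (nat_lit 235) (nat_lit 1) (nat_lit 239) (nat_lit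 1) (nat_lit 401) (nat_lit 335) (nat_lit 284))) (XT.nd (nat_lit 78) (nat_lit 684) (nat_lit 0) (XT.lf (nat_lit 76) (nat_lit 244196445) (nat_lit 0) (nat_lit 1287795658) (nat_lit 380) (nat_lit 244196445) (nat_lit 236) (nat_lit 1) (nat_lit 235) (nat_lit 1) (nat_lit 240) (nat_lit 1) (nat_lit 402) (nat_lit 335) (nat_lit 283)) (XT.nd (nat_lit 78) (nat_lit 380) (nat_lit 0) (XT.lf (nat_lit 380) (nat_lit 97375245) (nat_lit 0) (nat_lit 829171398) (nat_lit 304) (nat_lit 829171398) (nat_lit 236) (nat_lit 1) (nat_lit 231) (nat_lit 1) (nat_lit 235) (nat_lit 1) (nat_lit 403) (nat_lit 335) (nat_lit 282)) (XT.lf (nat_lit 380) (nat_lit 1455210508) (nat_lit 0) (nat_lit 140220501) (nat_lit 304) (nat_lit 140220501) (nat_lit 231) (nat_lit 1) (nat_lit 226) (nat_lit 1) (nat_lit 230) (nat_lit 1) (nat_lit 404) (nat_lit 335) (nat_lit 281))))))) (XT.nd (nat_lit 702) (nat_lit 1520) (nat_lit 0) (XT.nd (nat_lit 312) (nat_lit 912) (nat_lit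 0) (XT.nd (nat_lit 156) (nat_lit 304) (nat_lit 0) (XT.nd (nat_lit 78) (nat_lit 304) (nat_lit 0) (XT.lf (nat_lit 76) (nat_lit 528163028) (nat_lit 0) (nat_lit 659396472) (nat_lit 380) (nat_lit 528163028) (nat_lit 227) (nat_lit 1) (nat_lit 226) (nat_lit 1) (nat_lit 231) (nat_lit 1) (nat_lit 405) (nat_lit 335) (nat_lit 280)) (XT.lf (nat_lit 380) (nat_lit 662594927) (nat_lit 0) (nat_lit 516795391) (nat_lit 304) (nat_lit 516795391) (nat_lit 227) (nat_lit 1) (nat_lit 222) (nat_lit 1) (nat_lit 226) (nat_lit 1) (nat_lit 406) (nat_lit 335) (nat_lit 279))) (XT.nd (nat_lit 78) (nat_lit 304) (nat_lit 0) (XT.lf (nat_lit 76) (nat_lit 136885674) (nat_lit 0) (nat_lit 1403255497) (nat_lit 380) (nat_lit 136885674) (nat_lit 223) (nat_lit 1) (nat_lit 222) (nat_lit 1) (nat_lit 227) (nat_lit 1) (nat_lit 407) (nat_lit 335) (nat_lit 278)) (XT.lf (nat_lit 76) (nat_lit 771399650) (nat_lit 0) (nat_lit 115192127) (nat_lit 304)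 (nat_lit 771399650) (nat_lit 219) (nat_lit 1) (nat_lit 218) (nat_lit 1) (nat_lit 222) (nat_lit 1) (nat_lit 408) (nat_lit 335) (nat_lit 277)))) (XT.nd (nat_lit 156) (nat_lit 608) (nat_lit 0) (XT.nd (nat_lit 78) (nat_lit 0) (nat_lit 0) (XT.lf (nat_lit 380) (nat_lit 1148006315) (nat_lit 0) (nat_lit 245658577) (nat_lit 304) (nat_lit 245658577) (nat_lit 219) (nat_lit 1) (nat_lit 214) (nat_lit 1) (nat_lit 218) (nat_lit 1) (nat_lit 409) (nat_lit 335) (nat_lit 276)) (XT.lf (nat_lit 76) (nat_lit 376672877) (nat_lit 0) (nat_lit 867522424) (nat_lit 380) (nat_lit 376672877) (nat_lit 215) (nat_lit 1) (nat_lit 214) (nat_lit 1) (nat_lit 219) (nat_lit 1) (nat_lit 410) (nat_lit 335) (nat_lit 275))) (XT.nd (nat_lit 78) (nat_lit 380) (nat_lit 0) (XT.lf (nat_lit 304) (nat_lit 361675042) (nat_lit 0) (nat_lit 620513828) (nat_lit 228) (nat_lit 620513828) (nat_lit 215) (nat_lit 1) (nat_lit 211) (nat_lit 1) (nat_lit 214) (nat_lit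 1) (nat_lit 411) (nat_lit 335) (nat_lit 274)) (XT.nd (nat_lit 78) (nat_lit 0) (nat_lit 0) (XT.lf (nat_lit 380) (nat_lit 1562997775) (nat_lit 0) (nat_lit 10975693) (nat_lit 304) (nat_lit 10975693) (nat_lit 211) (nat_lit 1) (nat_lit 206) (nat_lit 1) (nat_lit 210) (nat_lit 1) (nat_lit 412) (nat_lit 335) (nat_lit 273)) (XT.lf (nat_lit 76) (nat_lit 582292011) (nat_lit 0) (nat_lit 402576699) (nat_lit 380) (nat_lit 582292011) (nat_lit 207) (nat_lit 1) (nat_lit 206) (nat_lit 1) (nat_lit 211) (nat_lit 1) (nat_lit 413) (nat_lit 335) (nat_lit 272)))))) (XT.nd (nat_lit 390) (nat_lit 760) (nat_lit 0) (XT.nd (nat_lit 156) (nat_lit 532) (nat_lit 0) (XT.nd (nat_lit 78) (nat_lit 0) (nat_lit 0) (XT.lf (nat_lit 304) (nat_lit 773827722) (nat_lit 0) (nat_lit 387973856) (nat_lit 228) (nat_lit 387973856) (nat_lit 207) (nat_lit 1) (nat_lit 203) (nat_lit 1) (nat_lit 206) (nat_lit 1) (nat_lit 414) (nat_lit 335) (nat_lit 271))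 (XT.lf (nat_lit 76) (nat_lit 193395506) (nat_lit 0) (nat_lit 1145882346) (nat_lit 304) (nat_lit 193395506) (nat_lit 204) (nat_lit 1) (nat_lit 203) (nat_lit 1) (nat_lit 207) (nat_lit 1) (nat_lit 415) (nat_lit 335) (nat_lit 270))) (XT.nd (nat_lit 78) (nat_lit 228) (nat_lit 0) (XT.lf (nat_lit 76) (nat_lit 757769626) (nat_lit 0) (nat_lit 202884) (nat_lit 304) (nat_lit 757769626) (nat_lit 200) (nat_lit 1) (nat_lit 199) (nat_lit 1) (nat_lit 203) (nat_lit 1) (nat_lit 416) (nat_lit 335) (nat_lit 269)) (XT.nd (nat_lit 78) (nat_lit 0) (nat_lit 0) (XT.lf (nat_lit 304) (nat_lit 1126840891) (nat_lit 0) (nat_lit 186122713) (nat_lit 228) (nat_lit 186122713) (nat_lit 200) (nat_lit 1) (nat_lit 196) (nat_lit 1) (nat_lit 199) (nat_lit 1) (nat_lit 417) (nat_lit 335) (nat_lit 268)) (XT.lf (nat_lit 76) (nat_lit 369153500) (nat_lit 0) (nat_lit 744283661) (nat_lit 304) (nat_lit 369153500) (nat_lit 197) (nat_lit 1) (nat_lit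 196) (nat_lit 1) (nat_lit 200) (nat_lit 1) (nat_lit 418) (nat_lit 335) (nat_lit 267))))) (XT.nd (nat_lit 156) (nat_lit 228) (nat_lit 0) (XT.nd (nat_lit 78) (nat_lit 304) (nat_lit 0) (XT.lf (nat_lit 304) (nat_lit 353792732) (nat_lit 0) (nat_lit 556285099) (nat_lit 228) (nat_lit 556285099) (nat_lit 197) (nat_lit 1) (nat_lit 193) (nat_lit 1) (nat_lit 196) (nat_lit 1) (nat_lit 419) (nat_lit 335) (nat_lit 266)) (XT.lf (nat_lit 304) (nat_lit 1427693228) (nat_lit 0) (nat_lit 11399626) (nat_lit 228) (nat_lit 11399626) (nat_lit 193) (nat_lit 1) (nat_lit 189) (nat_lit 1) (nat_lit 192) (nat_lit 1) (nat_lit 420) (nat_lit 335) (nat_lit 265))) (XT.nd (nat_lit 78) (nat_lit 228) (nat_lit 0) (XT.lf (nat_lit 76) (nat_lit 519564897) (nat_lit 0) (nat_lit 395443711) (nat_lit 304) (nat_lit 519564897) (nat_lit 190) (nat_lit 1) (nat_lit 189) (nat_lit 1) (nat_lit 193) (nat_lit 1) (nat_lit 421) (nat_lit 335) (nat_lit 264)) (XT.nd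 (nat_lit 78) (nat_lit 0) (nat_lit 0) (XT.lf (nat_lit 304) (nat_lit 658006843) (nat_lit 0) (nat_lit 380499214) (nat_lit 228) (nat_lit 380499214) (nat_lit 190) (nat_lit 1) (nat_lit 186) (nat_lit 1) (nat_lit 189) (nat_lit 1) (nat_lit 422) (nat_lit 335) (nat_lit 263)) (XT.lf (nat_lit 76) (nat_lit 140734821) (nat_lit 0) (nat_lit 1122231083) (nat_lit 304) (nat_lit 140734821) (nat_lit 187) (nat_lit 1) (nat_lit 186) (nat_lit 1) (nat_lit 190) (nat_lit 1) (nat_lit 423) (nat_lit 335) (nat_lit 262))))))))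
noncomputable def ec49 : XT := (XT.nd (nat_lit 47814) (nat_lit 0) (nat_lit 11780) (XT.nd (nat_lit 702) (nat_lit 152) (nat_lit 0) (XT.nd (nat_lit 312) (nat_lit 684) (nat_lit 0) (XT.nd (nat_lit 156) (nat_lit 152) (nat_lit 0) (XT.nd (nat_lit 78) (nat_lit 228) (nat_lit 0) (XT.lf (nat_lit 76) (nat_lit 647623568) (nat_lit 0) (nat_lit 93246925) (nat_lit 228) (nat_lit 647623568) (nat_lit 184) (nat_lit 1) (nat_lit 183) (nat_lit 1) (nat_lit 186) (nat_lit 1) (nat_lit 424) (nat_lit 335) (nat_lit 261)) (XT.lf (nat_lit 304) (nat_lit 918287434) (nat_lit 0) (nat_lit 227628922) (nat_lit 228) (nat_lit 227628922) (nat_lit 184) (nat_lit 1) (nat_lit 180) (nat_lit 1) (nat_lit 183) (nat_lit 1) (nat_lit 425) (nat_lit 335) (nat_lit 260))) (XT.nd (nat_lit 78) (nat_lit 152) (nat_lit 0) (XT.lf (nat_lit 76) (nat_lit 271607592) (nat_lit 0) (nat_lit 815551897) (nat_lit 304) (nat_lit 271607592) (nat_lit 181) (nat_lit 1) (nat_lit 180)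 (nat_lit 1) (nat_lit 184) (nat_lit 1) (nat_lit 426) (nat_lit 335) (nat_lit 259)) (XT.lf (nat_lit 228) (nat_lit 171071764) (nat_lit 0) (nat_lit 586557336) (nat_lit 152) (nat_lit 586557336) (nat_lit 181) (nat_lit 1) (nat_lit 178) (nat_lit 1) (nat_lit 180) (nat_lit 1) (nat_lit 427) (nat_lit 335) (nat_lit 258)))) (XT.nd (nat_lit 156) (nat_lit 380) (nat_lit 0) (XT.nd (nat_lit 78) (nat_lit 0) (nat_lit 0) (XT.lf (nat_lit 304) (nat_lit 1139825207) (nat_lit 0) (nat_lit 95022338) (nat_lit 228) (nat_lit 95022338) (nat_lit 178) (nat_lit 1) (nat_lit 174) (nat_lit 1) (nat_lit 177) (nat_lit 1) (nat_lit 428) (nat_lit 335) (nat_lit 257)) (XT.lf (nat_lit 76) (nat_lit 383617427) (nat_lit 0) (nat_lit 548358865) (nat_lit 304) (nat_lit 383617427) (nat_lit 175) (nat_lit 1) (nat_lit 174) (nat_lit 1) (nat_lit 178) (nat_lit 1) (nat_lit 429) (nat_lit 335) (nat_lit 256))) (XT.nd (nat_lit 78) (nat_lit 228) (nat_lit 0) (XT.lf (nat_lit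 228) (nat_lit 400120582) (nat_lit 0) (nat_lit 450728100) (nat_lit 152) (nat_lit 450728100) (nat_lit 175) (nat_lit 1) (nat_lit 172) (nat_lit 1) (nat_lit 174) (nat_lit 1) (nat_lit 430) (nat_lit 335) (nat_lit 255)) (XT.nd (nat_lit 78) (nat_lit 228) (nat_lit 0) (XT.lf (nat_lit 76) (nat_lit 19868684) (nat_lit 0) (nat_lit 1248115351) (nat_lit 228) (nat_lit 19868684) (nat_lit 173) (nat_lit 1) (nat_lit 172) (nat_lit 1) (nat_lit 175) (nat_lit 1) (nat_lit 431) (nat_lit 335) (nat_lit 254)) (XT.lf (nat_lit 76) (nat_lit 478992124) (nat_lit 0) (nat_lit 316094766) (nat_lit 228) (nat_lit 478992124) (nat_lit 170) (nat_lit 1) (nat_lit 169) (nat_lit 1) (nat_lit 172) (nat_lit 1) (nat_lit 432) (nat_lit 335) (nat_lit 253)))))) (XT.nd (nat_lit 46722) (nat_lit 0) (nat_lit 15808) (XT.nd (nat_lit 46488) (nat_lit 0) (nat_lit 15732) (XT.nd (nat_lit 78) (nat_lit 0) (nat_lit 0) (XT.lf (nat_lit 228) (nat_lit 596400533) (nat_lit 0)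 (nat_lit 332096665) (nat_lit 152) (nat_lit 332096665) (nat_lit 170) (nat_lit 1) (nat_lit 167) (nat_lit 1) (nat_lit 169) (nat_lit 1) (nat_lit 433) (nat_lit 335) (nat_lit 252)) (XT.lf (nat_lit 76) (nat_lit 119721712) (nat_lit 0) (nat_lit 1007886069) (nat_lit 228) (nat_lit 119721712) (nat_lit 168) (nat_lit 1) (nat_lit 167) (nat_lit 1) (nat_lit 170) (nat_lit 1) (nat_lit 434) (nat_lit 335) (nat_lit 251))) (XT.nd (nat_lit 78) (nat_lit 0) (nat_lit 0) (XT.lf (nat_lit 1292) (nat_lit 331371976) (nat_lit 0) (nat_lit 1140073710) (nat_lit 1292) (nat_lit 331371976) (nat_lit 391) (nat_lit 1) (nat_lit 374) (nat_lit 0) (nat_lit 391) (nat_lit 0) (nat_lit 348) (nat_lit 336) (nat_lit 336)) (XT.nd (nat_lit 78) (nat_lit 0) (nat_lit 76) (XT.lf (nat_lit 1292) (nat_lit 1295007491) (nat_lit 76) (nat_lit 1128896517) (nat_lit 0) (nat_lit 1128896517) (nat_lit 391) (nat_lit 1) (nat_lit 375) (nat_lit 1) (nat_lit 374) (nat_lit 0)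 (nat_lit 349) (nat_lit 336) (nat_lit 335)) (XT.lf (nat_lit 1292) (nat_lit 626296499) (nat_lit 0) (nat_lit 2248538151) (nat_lit 1216) (nat_lit 626296499) (nat_lit 392) (nat_lit 1) (nat_lit 375) (nat_lit 1) (nat_lit 391) (nat_lit 1) (nat_lit 350) (nat_lit 336) (nat_lit 334))))) (XT.nd (nat_lit 156) (nat_lit 0) (nat_lit 76) (XT.nd (nat_lit 78) (nat_lit 0) (nat_lit 76) (XT.lf (nat_lit 1292) (nat_lit 1189369388) (nat_lit 76) (nat_lit 1130477623) (nat_lit 0) (nat_lit 1130477623) (nat_lit 392) (nat_lit 1) (nat_lit 376) (nat_lit 1) (nat_lit 375) (nat_lit 1) (nat_lit 351) (nat_lit 336) (nat_lit 333)) (XT.lf (nat_lit 1292) (nat_lit 558105654) (nat_lit 0) (nat_lit 2284443625) (nat_lit 1216) (nat_lit 558105654) (nat_lit 393) (nat_lit 1) (nat_lit 376) (nat_lit 1) (nat_lit 392) (nat_lit 1) (nat_lit 352) (nat_lit 336) (nat_lit 332))) (XT.nd (nat_lit 78) (nat_lit 0) (nat_lit 76) (XT.lf (nat_lit 1292) (nat_lit 1022787539)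 (nat_lit 76) (nat_lit 1164496028) (nat_lit 0) (nat_lit 1164496028) (nat_lit 393) (nat_lit 1) (nat_lit 377) (nat_lit 1) (nat_lit 376) (nat_lit 1) (nat_lit 353) (nat_lit 336) (nat_lit 331)) (XT.nd (nat_lit 78) (nat_lit 0) (nat_lit 0) (XT.lf (nat_lit 1292) (nat_lit 460979120) (nat_lit 0) (nat_lit 2382074620) (nat_lit 1216) (nat_lit 460979120) (nat_lit 394) (nat_lit 1) (nat_lit 377) (nat_lit 1) (nat_lit 393) (nat_lit 1) (nat_lit 354) (nat_lit 336) (nat_lit 330)) (XT.lf (nat_lit 1292) (nat_lit 800712046) (nat_lit 76) (nat_lit 1228142279) (nat_lit 0) (nat_lit 1228142279) (nat_lit 394) (nat_lit 1) (nat_lit 378) (nat_lit 1) (nat_lit 377) (nat_lit 1) (nat_lit 355) (nat_lit 336) (nat_lit 329))))))) (XT.nd (nat_lit 702) (nat_lit 3116) (nat_lit 0) (XT.nd (nat_lit 312) (nat_lit 1140) (nat_lit 0) (XT.nd (nat_lit 156) (nat_lit 0) (nat_lit 76) (XT.nd (nat_lit 78) (nat_lit 0) (nat_lit 0) (XT.lf (nat_lit 1292) (nat_lit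 337534726) (nat_lit 0) (nat_lit 2536029977) (nat_lit 1216) (nat_lit 337534726) (nat_lit 395) (nat_lit 1) (nat_lit 378) (nat_lit 1) (nat_lit 394) (nat_lit 1) (nat_lit 356) (nat_lit 336) (nat_lit 328)) (XT.lf (nat_lit 1292) (nat_lit 528223312) (nat_lit 76) (nat_lit 1318795793) (nat_lit 0) (nat_lit 1318795793) (nat_lit 395) (nat_lit 1) (nat_lit 379) (nat_lit 1) (nat_lit 378) (nat_lit 1) (nat_lit 357) (nat_lit 336) (nat_lit 327))) (XT.nd (nat_lit 78) (nat_lit 0) (nat_lit 0) (XT.lf (nat_lit 1292) (nat_lit 190212155) (nat_lit 0) (nat_lit 2741272695) (nat_lit 1216) (nat_lit 190212155) (nat_lit 396) (nat_lit 1) (nat_lit 379) (nat_lit 1) (nat_lit 395) (nat_lit 1) (nat_lit 358) (nat_lit 336) (nat_lit 326)) (XT.lf (nat_lit 1292) (nat_lit 210054911) (nat_lit 76) (nat_lit 1434013207) (nat_lit 0) (nat_lit 1434013207) (nat_lit 396) (nat_lit 1) (nat_lit 380) (nat_lit 1) (nat_lit 379) (nat_lit 1) (nat_lit 359) (nat_lit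 336) (nat_lit 325)))) (XT.nd (nat_lit 156) (nat_lit 0) (nat_lit 0) (XT.nd (nat_lit 78) (nat_lit 1292) (nat_lit 0) (XT.lf (nat_lit 1292) (nat_lit 21283988) (nat_lit 0) (nat_lit 2993107456) (nat_lit 1216) (nat_lit 21283988) (nat_lit 397) (nat_lit 1) (nat_lit 380) (nat_lit 1) (nat_lit 396) (nat_lit 1) (nat_lit 360) (nat_lit 336) (nat_lit 324)) (XT.lf (nat_lit 1368) (nat_lit 1423568522) (nat_lit 0) (nat_lit 146469852) (nat_lit 1292) (nat_lit 1423568522) (nat_lit 381) (nat_lit 1) (nat_lit 363) (nat_lit 1) (nat_lit 380) (nat_lit 1) (nat_lit 361) (nat_lit 336) (nat_lit 323))) (XT.nd (nat_lit 78) (nat_lit 0) (nat_lit 76) (XT.lf (nat_lit 1368) (nat_lit 2621707175) (nat_lit 76) (nat_lit 165495350) (nat_lit 0) (nat_lit 165495350) (nat_lit 381) (nat_lit 1) (nat_lit 364) (nat_lit 1) (nat_lit 363) (nat_lit 1) (nat_lit 362) (nat_lit 336) (nat_lit 322)) (XT.nd (nat_lit 78) (nat_lit 0) (nat_lit 0) (XT.lf (nat_lit 1368)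 (nat_lit 1188442864) (nat_lit 0) (nat_lit 535338609) (nat_lit 1292) (nat_lit 1188442864) (nat_lit 382) (nat_lit 1) (nat_lit 364) (nat_lit 1) (nat_lit 381) (nat_lit 1) (nat_lit 363) (nat_lit 336) (nat_lit 321)) (XT.lf (nat_lit 1368) (nat_lit 2133946584) (nat_lit 76) (nat_lit 369415094) (nat_lit 0) (nat_lit 369415094) (nat_lit 382) (nat_lit 1) (nat_lit 365) (nat_lit 1) (nat_lit 364) (nat_lit 1) (nat_lit 364) (nat_lit 336) (nat_lit 320)))))) (XT.nd (nat_lit 390) (nat_lit 1824) (nat_lit 0) (XT.nd (nat_lit 156) (nat_lit 608) (nat_lit 0) (XT.nd (nat_lit 78) (nat_lit 836) (nat_lit 0) (XT.lf (nat_lit 76) (nat_lit 938477577) (nat_lit 0) (nat_lit 956907627) (nat_lit 1292) (nat_lit 938477577) (nat_lit 366) (nat_lit 1) (nat_lit 365) (nat_lit 1) (nat_lit 382) (nat_lit 1) (nat_lit 365) (nat_lit 336) (nat_lit 319)) (XT.lf (nat_lit 912) (nat_lit 1618067465) (nat_lit 0) (nat_lit 588870749) (nat_lit 836) (nat_lit 588870749)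 (nat_lit 366) (nat_lit 1) (nat_lit 354) (nat_lit 1) (nat_lit 365) (nat_lit 1) (nat_lit 366) (nat_lit 336) (nat_lit 318))) (XT.nd (nat_lit 78) (nat_lit 608) (nat_lit 0) (XT.lf (nat_lit 76) (nat_lit 675349861) (nat_lit 0) (nat_lit 1407697169) (nat_lit 912) (nat_lit 675349861) (nat_lit 355) (nat_lit 1) (nat_lit 354) (nat_lit 1) (nat_lit 366) (nat_lit 1) (nat_lit 367) (nat_lit 336) (nat_lit 317)) (XT.nd (nat_lit 78) (nat_lit 0) (nat_lit 0) (XT.lf (nat_lit 684) (nat_lit 1077318439) (nat_lit 0) (nat_lit 822177042) (nat_lit 608) (nat_lit 822177042) (nat_lit 355) (nat_lit 1) (nat_lit 346) (nat_lit 1) (nat_lit 354) (nat_lit 1) (nat_lit 368) (nat_lit 336) (nat_lit 316)) (XT.lf (nat_lit 76) (nat_lit 400616598) (nat_lit 0) (nat_lit 1884473924) (nat_lit 684) (nat_lit 400616598) (nat_lit 347) (nat_lit 1) (nat_lit 346) (nat_lit 1) (nat_lit 355) (nat_lit 1) (nat_lit 369) (nat_lit 336) (nat_lit 315))))) (XT.nd (nat_lit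 156) (nat_lit 1216) (nat_lit 0) (XT.nd (nat_lit 78) (nat_lit 0) (nat_lit 0) (XT.lf (nat_lit 684) (nat_lit 514714038) (nat_lit 0) (nat_lit 1067768551) (nat_lit 608) (nat_lit 1067768551) (nat_lit 347) (nat_lit 1) (nat_lit 338) (nat_lit 1) (nat_lit 346) (nat_lit 1) (nat_lit 370) (nat_lit 336) (nat_lit 314)) (XT.lf (nat_lit 76) (nat_lit 115721959) (nat_lit 0) (nat_lit 2384235509) (nat_lit 684) (nat_lit 115721959) (nat_lit 339) (nat_lit 1) (nat_lit 338) (nat_lit 1) (nat_lit 347) (nat_lit 1) (nat_lit 371) (nat_lit 336) (nat_lit 313))) (XT.nd (nat_lit 78) (nat_lit 608) (nat_lit 0) (XT.lf (nat_lit 76) (nat_lit 1257885251) (nat_lit 0) (nat_lit 65644026) (nat_lit 608) (nat_lit 1257885251) (nat_lit 331) (nat_lit 1) (nat_lit 330) (nat_lit 1) (nat_lit 338) (nat_lit 1) (nat_lit 372) (nat_lit 336) (nat_lit 312)) (XT.nd (nat_lit 78) (nat_lit 0) (nat_lit 0) (XT.lf (nat_lit 684) (nat_lit 2195497858) (nat_lit 0) (nat_lit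 176250390) (nat_lit 608) (nat_lit 176250390) (nat_lit 331) (nat_lit 1) (nat_lit 322) (nat_lit 1) (nat_lit 330) (nat_lit 1) (nat_lit 373) (nat_lit 336) (nat_lit 311)) (XT.lf (nat_lit 76) (nat_lit 931407970) (nat_lit 0) (nat_lit 652106953) (nat_lit 684) (nat_lit 931407970) (nat_lit 323) (nat_lit 1) (nat_lit 322) (nat_lit 1) (nat_lit 331) (nat_lit 1) (nat_lit 374) (nat_lit 336) (nat_lit 310))))))))
noncomputable def ec50 : XT := (XT.nd (nat_lit 1482) (nat_lit 3876) (nat_lit 0) (XT.nd (nat_lit 702) (nat_lit 2584) (nat_lit 0) (XT.nd (nat_lit 312) (nat_lit 1520) (nat_lit 0) (XT.nd (nat_lit 156) (nat_lit 532) (nat_lit 0) (XT.nd (nat_lit 78) (nat_lit 0) (nat_lit 0) (XT.lf (nat_lit 608) (nat_lit 1533430582) (nat_lit 0) (nat_lit 474596863) (nat_lit 532) (nat_lit 474596863) (nat_lit 323) (nat_lit 1) (nat_lit 315) (nat_lit 1) (nat_lit 322) (nat_lit 1) (nat_lit 375) (nat_lit 336) (nat_lit 309)) (XT.lf (nat_lit 76)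 (nat_lit 599228245) (nat_lit 0) (nat_lit 1252367761) (nat_lit 608) (nat_lit 599228245) (nat_lit 316) (nat_lit 1) (nat_lit 315) (nat_lit 1) (nat_lit 323) (nat_lit 1) (nat_lit 376) (nat_lit 336) (nat_lit 308))) (XT.nd (nat_lit 78) (nat_lit 0) (nat_lit 0) (XT.lf (nat_lit 608) (nat_lit 860960812) (nat_lit 0) (nat_lit 779315991) (nat_lit 532) (nat_lit 779315991) (nat_lit 316) (nat_lit 1) (nat_lit 308) (nat_lit 1) (nat_lit 315) (nat_lit 1) (nat_lit 377) (nat_lit 336) (nat_lit 307)) (XT.lf (nat_lit 76) (nat_lit 262385369) (nat_lit 0) (nat_lit 1864251971) (nat_lit 608) (nat_lit 262385369) (nat_lit 309) (nat_lit 1) (nat_lit 308) (nat_lit 1) (nat_lit 316) (nat_lit 1) (nat_lit 378) (nat_lit 336) (nat_lit 306)))) (XT.nd (nat_lit 156) (nat_lit 456) (nat_lit 0) (XT.nd (nat_lit 78) (nat_lit 608) (nat_lit 0) (XT.lf (nat_lit 532) (nat_lit 180095630) (nat_lit 0) (nat_lit 1089357523) (nat_lit 456) (nat_lit 1089357523)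 (nat_lit 309) (nat_lit 1) (nat_lit 302) (nat_lit 1) (nat_lit 308) (nat_lit 1) (nat_lit 379) (nat_lit 336) (nat_lit 305)) (XT.lf (nat_lit 608) (nat_lit 2174545115) (nat_lit 0) (nat_lit 77395469) (nat_lit 532) (nat_lit 77395469) (nat_lit 302) (nat_lit 1) (nat_lit 294) (nat_lit 1) (nat_lit 301) (nat_lit 1) (nat_lit 380) (nat_lit 336) (nat_lit 304))) (XT.nd (nat_lit 78) (nat_lit 456) (nat_lit 0) (XT.lf (nat_lit 76) (nat_lit 901313884) (nat_lit 0) (nat_lit 497414632) (nat_lit 608) (nat_lit 901313884) (nat_lit 295) (nat_lit 1) (nat_lit 294) (nat_lit 1) (nat_lit 302) (nat_lit 1) (nat_lit 381) (nat_lit 336) (nat_lit 303)) (XT.nd (nat_lit 78) (nat_lit 0) (nat_lit 0) (XT.lf (nat_lit 532) (nat_lit 1436666351) (nat_lit 0) (nat_lit 417396786) (nat_lit 456) (nat_lit 417396786) (nat_lit 295) (nat_lit 1) (nat_lit 288) (nat_lit 1) (nat_lit 294) (nat_lit 1) (nat_lit 382) (nat_lit 336) (nat_lit 302)) (XT.lf (nat_lit 76)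 (nat_lit 533569792) (nat_lit 0) (nat_lit 1176156057) (nat_lit 532) (nat_lit 533569792) (nat_lit 289) (nat_lit 1) (nat_lit 288) (nat_lit 1) (nat_lit 295) (nat_lit 1) (nat_lit 383) (nat_lit 336) (nat_lit 301)))))) (XT.nd (nat_lit 390) (nat_lit 1216) (nat_lit 0) (XT.nd (nat_lit 156) (nat_lit 912) (nat_lit 0) (XT.nd (nat_lit 78) (nat_lit 0) (nat_lit 0) (XT.lf (nat_lit 532) (nat_lit 696844792) (nat_lit 0) (nat_lit 759385517) (nat_lit 456) (nat_lit 759385517) (nat_lit 289) (nat_lit 1) (nat_lit 282) (nat_lit 1) (nat_lit 288) (nat_lit 1) (nat_lit 384) (nat_lit 336) (nat_lit 300)) (XT.lf (nat_lit 76) (nat_lit 165217915) (nat_lit 0) (nat_lit 1858105432) (nat_lit 532) (nat_lit 165217915) (nat_lit 283) (nat_lit 1) (nat_lit 282) (nat_lit 1) (nat_lit 289) (nat_lit 1) (nat_lit 385) (nat_lit 336) (nat_lit 299))) (XT.nd (nat_lit 78) (nat_lit 456) (nat_lit 0) (XT.lf (nat_lit 76) (nat_lit 1059521796) (nat_lit 0) (nat_lit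 42668555) (nat_lit 456) (nat_lit 1059521796) (nat_lit 277) (nat_lit 1) (nat_lit 276) (nat_lit 1) (nat_lit 282) (nat_lit 1) (nat_lit 386) (nat_lit 336) (nat_lit 298)) (XT.nd (nat_lit 78) (nat_lit 0) (nat_lit 0) (XT.lf (nat_lit 532) (nat_lit 1733299564) (nat_lit 0) (nat_lit 201083374) (nat_lit 456) (nat_lit 201083374) (nat_lit 277) (nat_lit 1) (nat_lit 270) (nat_lit 1) (nat_lit 276) (nat_lit 1) (nat_lit 387) (nat_lit 336) (nat_lit 297)) (XT.lf (nat_lit 76) (nat_lit 670814708) (nat_lit 0) (nat_lit 767855656) (nat_lit 532) (nat_lit 670814708) (nat_lit 271) (nat_lit 1) (nat_lit 270) (nat_lit 1) (nat_lit 277) (nat_lit 1) (nat_lit 388) (nat_lit 336) (nat_lit 296))))) (XT.nd (nat_lit 156) (nat_lit 836) (nat_lit 0) (XT.nd (nat_lit 78) (nat_lit 0) (nat_lit 0) (XT.lf (nat_lit 456) (nat_lit 953839142) (nat_lit 0) (nat_lit 565101083) (nat_lit 380) (nat_lit 565101083) (nat_lit 271) (nat_lit 1) (nat_lit 265) (nat_lit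 1) (nat_lit 270) (nat_lit 1) (nat_lit 389) (nat_lit 336) (nat_lit 295)) (XT.lf (nat_lit 76) (nat_lit 283949889) (nat_lit 0) (nat_lit 1491163779) (nat_lit 456) (nat_lit 283949889) (nat_lit 266) (nat_lit 1) (nat_lit 265) (nat_lit 1) (nat_lit 271) (nat_lit 1) (nat_lit 390) (nat_lit 336) (nat_lit 294))) (XT.nd (nat_lit 78) (nat_lit 456) (nat_lit 0) (XT.lf (nat_lit 456) (nat_lit 178582113) (nat_lit 0) (nat_lit 927902698) (nat_lit 380) (nat_lit 927902698) (nat_lit 266) (nat_lit 1) (nat_lit 260) (nat_lit 1) (nat_lit 265) (nat_lit 1) (nat_lit 391) (nat_lit 336) (nat_lit 293)) (XT.nd (nat_lit 78) (nat_lit 0) (nat_lit 0) (XT.lf (nat_lit 456) (nat_lit 1811069932) (nat_lit 0) (nat_lit 99596070) (nat_lit 380) (nat_lit 99596070) (nat_lit 260) (nat_lit 1) (nat_lit 254) (nat_lit 1) (nat_lit 259) (nat_lit 1) (nat_lit 392) (nat_lit 336) (nat_lit 292)) (XT.lf (nat_lit 76) (nat_lit 703138977) (nat_lit 0) (nat_lit 579989094)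 (nat_lit 456) (nat_lit 703138977) (nat_lit 255) (nat_lit 1) (nat_lit 254) (nat_lit 1) (nat_lit 260) (nat_lit 1) (nat_lit 393) (nat_lit 336) (nat_lit 291))))))) (XT.nd (nat_lit 702) (nat_lit 1748) (nat_lit 0) (XT.nd (nat_lit 312) (nat_lit 988) (nat_lit 0) (XT.nd (nat_lit 156) (nat_lit 760) (nat_lit 0) (XT.nd (nat_lit 78) (nat_lit 0) (nat_lit 0) (XT.lf (nat_lit 456) (nat_lit 1007589866) (nat_lit 0) (nat_lit 477607712) (nat_lit 380) (nat_lit 477607712) (nat_lit 255) (nat_lit 1) (nat_lit 249) (nat_lit 1) (nat_lit 254) (nat_lit 1) (nat_lit 394) (nat_lit 336) (nat_lit 290)) (XT.lf (nat_lit 76) (nat_lit 305268957) (nat_lit 0) (nat_lit 1329198402) (nat_lit 456) (nat_lit 305268957) (nat_lit 250) (nat_lit 1) (nat_lit 249) (nat_lit 1) (nat_lit 255) (nat_lit 1) (nat_lit 395) (nat_lit 336) (nat_lit 289))) (XT.nd (nat_lit 78) (nat_lit 456) (nat_lit 0) (XT.lf (nat_lit 380) (nat_lit 212019227) (nat_lit 0) (nat_lit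 852470237) (nat_lit 304) (nat_lit 852470237) (nat_lit 250) (nat_lit 1) (nat_lit 245) (nat_lit 1) (nat_lit 249) (nat_lit 1) (nat_lit 396) (nat_lit 336) (nat_lit 288)) (XT.lf (nat_lit 456) (nat_lit 1719426634) (nat_lit 0) (nat_lit 87628055) (nat_lit 380) (nat_lit 87628055) (nat_lit 245) (nat_lit 1) (nat_lit 239) (nat_lit 1) (nat_lit 244) (nat_lit 1) (nat_lit 397) (nat_lit 336) (nat_lit 287)))) (XT.nd (nat_lit 156) (nat_lit 684) (nat_lit 0) (XT.nd (nat_lit 78) (nat_lit 304) (nat_lit 0) (XT.lf (nat_lit 76) (nat_lit 654368207) (nat_lit 0) (nat_lit 563763010) (nat_lit 456) (nat_lit 654368207) (nat_lit 240) (nat_lit 1) (nat_lit 239) (nat_lit 1) (nat_lit 245) (nat_lit 1) (nat_lit 398) (nat_lit 336) (nat_lit 286)) (XT.lf (nat_lit 380) (nat_lit 904480959) (nat_lit 0) (nat_lit 473160139) (nat_lit 304) (nat_lit 473160139) (nat_lit 240) (nat_lit 1) (nat_lit 235) (nat_lit 1) (nat_lit 239) (nat_lit 1) (nat_lit 399)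 (nat_lit 336) (nat_lit 285))) (XT.nd (nat_lit 78) (nat_lit 684) (nat_lit 0) (XT.lf (nat_lit 76) (nat_lit 251522338) (nat_lit 0) (nat_lit 1326429528) (nat_lit 380) (nat_lit 251522338) (nat_lit 236) (nat_lit 1) (nat_lit 235) (nat_lit 1) (nat_lit 240) (nat_lit 1) (nat_lit 400) (nat_lit 336) (nat_lit 284)) (XT.nd (nat_lit 78) (nat_lit 380) (nat_lit 0) (XT.lf (nat_lit 380) (nat_lit 100296502) (nat_lit 0) (nat_lit 854046540) (nat_lit 304) (nat_lit 854046540) (nat_lit 236) (nat_lit 1) (nat_lit 231) (nat_lit 1) (nat_lit 235) (nat_lit 1) (nat_lit 401) (nat_lit 336) (nat_lit 283)) (XT.lf (nat_lit 380) (nat_lit 1498866823) (nat_lit 0) (nat_lit 144427116) (nat_lit 304) (nat_lit 144427116) (nat_lit 231) (nat_lit 1) (nat_lit 226) (nat_lit 1) (nat_lit 230) (nat_lit 1) (nat_lit 402) (nat_lit 336) (nat_lit 282)))))) (XT.nd (nat_lit 390) (nat_lit 836) (nat_lit 0) (XT.nd (nat_lit 156) (nat_lit 608) (nat_lit 0) (XT.nd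 (nat_lit 78) (nat_lit 304) (nat_lit 0) (XT.lf (nat_lit 76) (nat_lit 544007919) (nat_lit 0) (nat_lit 679178366) (nat_lit 380) (nat_lit 544007919) (nat_lit 227) (nat_lit 1) (nat_lit 226) (nat_lit 1) (nat_lit 231) (nat_lit 1) (nat_lit 403) (nat_lit 336) (nat_lit 281)) (XT.lf (nat_lit 380) (nat_lit 682472775) (nat_lit 0) (nat_lit 532299253) (nat_lit 304) (nat_lit 532299253) (nat_lit 227) (nat_lit 1) (nat_lit 222) (nat_lit 1) (nat_lit 226) (nat_lit 1) (nat_lit 404) (nat_lit 336) (nat_lit 280))) (XT.nd (nat_lit 78) (nat_lit 608) (nat_lit 0) (XT.lf (nat_lit 76) (nat_lit 140992245) (nat_lit 0) (nat_lit 1445353162) (nat_lit 380) (nat_lit 140992245) (nat_lit 223) (nat_lit 1) (nat_lit 222) (nat_lit 1) (nat_lit 227) (nat_lit 1) (nat_lit 405) (nat_lit 336) (nat_lit 279)) (XT.nd (nat_lit 78) (nat_lit 304) (nat_lit 0) (XT.lf (nat_lit 76) (nat_lit 794541639) (nat_lit 0) (nat_lit 118647891) (nat_lit 304) (nat_lit 794541639)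 (nat_lit 219) (nat_lit 1) (nat_lit 218) (nat_lit 1) (nat_lit 222) (nat_lit 1) (nat_lit 406) (nat_lit 336) (nat_lit 278)) (XT.lf (nat_lit 380) (nat_lit 1182446505) (nat_lit 0) (nat_lit 253028334) (nat_lit 304) (nat_lit 253028334) (nat_lit 219) (nat_lit 1) (nat_lit 214) (nat_lit 1) (nat_lit 218) (nat_lit 1) (nat_lit 407) (nat_lit 336) (nat_lit 277))))) (XT.nd (nat_lit 156) (nat_lit 608) (nat_lit 0) (XT.nd (nat_lit 78) (nat_lit 228) (nat_lit 0) (XT.lf (nat_lit 76) (nat_lit 387973064) (nat_lit 0) (nat_lit 893548096) (nat_lit 380) (nat_lit 387973064) (nat_lit 215) (nat_lit 1) (nat_lit 214) (nat_lit 1) (nat_lit 219) (nat_lit 1) (nat_lit 408) (nat_lit 336) (nat_lit 276)) (XT.lf (nat_lit 304) (nat_lit 372525293) (nat_lit 0) (nat_lit 639129243) (nat_lit 228) (nat_lit 639129243) (nat_lit 215) (nat_lit 1) (nat_lit 211) (nat_lit 1) (nat_lit 214) (nat_lit 1) (nat_lit 409) (nat_lit 336) (nat_lit 275))) (XT.nd (nat_lit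 78) (nat_lit 228) (nat_lit 0) (XT.lf (nat_lit 380) (nat_lit 1609887708) (nat_lit 0) (nat_lit 11304964) (nat_lit 304) (nat_lit 11304964) (nat_lit 211) (nat_lit 1) (nat_lit 206) (nat_lit 1) (nat_lit 210) (nat_lit 1) (nat_lit 410) (nat_lit 336) (nat_lit 274)) (XT.nd (nat_lit 78) (nat_lit 228) (nat_lit 0) (XT.lf (nat_lit 76) (nat_lit 599760771) (nat_lit 0) (nat_lit 414654000) (nat_lit 380) (nat_lit 599760771) (nat_lit 207) (nat_lit 1) (nat_lit 206) (nat_lit 1) (nat_lit 211) (nat_lit 1) (nat_lit 411) (nat_lit 336) (nat_lit 273)) (XT.lf (nat_lit 304) (nat_lit 797042554) (nat_lit 0) (nat_lit 399613071) (nat_lit 228) (nat_lit 399613071) (nat_lit 207) (nat_lit 1) (nat_lit 203) (nat_lit 1) (nat_lit 206) (nat_lit 1) (nat_lit 412) (nat_lit 336) (nat_lit 272))))))))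
noncomputable def ec51 : XT := (XT.nd (nat_lit 1482) (nat_lit 380) (nat_lit 0) (XT.nd (nat_lit 702) (nat_lit 1444) (nat_lit 0) (XT.nd (nat_lit 312) (nat_lit 760) (nat_lit 0) (XT.nd (nat_lit 156) (nat_lit 228) (nat_lit 0) (XT.nd (nat_lit 78) (nat_lit 304) (nat_lit 0) (XT.lf (nat_lit 76) (nat_lit 199197372) (nat_lit 0) (nat_lit 1180258816) (nat_lit 304) (nat_lit 199197372) (nat_lit 204) (nat_lit 1) (nat_lit 203) (nat_lit 1) (nat_lit 207) (nat_lit 1) (nat_lit 413) (nat_lit 336) (nat_lit 271)) (XT.lf (nat_lit 76) (nat_lit 780502714) (nat_lit 0) (nat_lit 208970) (nat_lit 304) (nat_lit 780502714) (nat_lit 200) (nat_lit 1) (nat_lit 199) (nat_lit 1) (nat_lit 203) (nat_lit 1) (nat_lit 414) (nat_lit 336) (nat_lit 270))) (XT.nd (nat_lit 78) (nat_lit 0) (nat_lit 0) (XT.lf (nat_lit 304) (nat_lit 1160646117) (nat_lit 0) (nat_lit 191706394) (nat_lit 228) (nat_lit 191706394) (nat_lit 200) (nat_lit 1) (nat_lit 196)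 (nat_lit 1) (nat_lit 199) (nat_lit 1) (nat_lit 415) (nat_lit 336) (nat_lit 269)) (XT.lf (nat_lit 76) (nat_lit 380228105) (nat_lit 0) (nat_lit 766612171) (nat_lit 304) (nat_lit 380228105) (nat_lit 197) (nat_lit 1) (nat_lit 196) (nat_lit 1) (nat_lit 200) (nat_lit 1) (nat_lit 416) (nat_lit 336) (nat_lit 268)))) (XT.nd (nat_lit 156) (nat_lit 228) (nat_lit 0) (XT.nd (nat_lit 78) (nat_lit 304) (nat_lit 0) (XT.lf (nat_lit 304) (nat_lit 364406514) (nat_lit 0) (nat_lit 572973652) (nat_lit 228) (nat_lit 572973652) (nat_lit 197) (nat_lit 1) (nat_lit 193) (nat_lit 1) (nat_lit 196) (nat_lit 1) (nat_lit 417) (nat_lit 336) (nat_lit 267)) (XT.lf (nat_lit 304) (nat_lit 1470524025) (nat_lit 0) (nat_lit 11741615) (nat_lit 228) (nat_lit 11741615) (nat_lit 193) (nat_lit 1) (nat_lit 189) (nat_lit 1) (nat_lit 192) (nat_lit 1) (nat_lit 418) (nat_lit 336) (nat_lit 266))) (XT.nd (nat_lit 78) (nat_lit 228) (nat_lit 0) (XT.lf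 (nat_lit 76) (nat_lit 535151844) (nat_lit 0) (nat_lit 407307023) (nat_lit 304) (nat_lit 535151844) (nat_lit 190) (nat_lit 1) (nat_lit 189) (nat_lit 1) (nat_lit 193) (nat_lit 1) (nat_lit 419) (nat_lit 336) (nat_lit 265)) (XT.nd (nat_lit 78) (nat_lit 0) (nat_lit 0) (XT.lf (nat_lit 304) (nat_lit 677747049) (nat_lit 0) (nat_lit 391914190) (nat_lit 228) (nat_lit 391914190) (nat_lit 190) (nat_lit 1) (nat_lit 186) (nat_lit 1) (nat_lit 189) (nat_lit 1) (nat_lit 420) (nat_lit 336) (nat_lit 264)) (XT.lf (nat_lit 76) (nat_lit 144956865) (nat_lit 0) (nat_lit 1155898016) (nat_lit 304) (nat_lit 144956865) (nat_lit 187) (nat_lit 1) (nat_lit 186) (nat_lit 1) (nat_lit 190) (nat_lit 1) (nat_lit 421) (nat_lit 336) (nat_lit 263)))))) (XT.nd (nat_lit 390) (nat_lit 532) (nat_lit 0) (XT.nd (nat_lit 156) (nat_lit 456) (nat_lit 0) (XT.nd (nat_lit 78) (nat_lit 228) (nat_lit 0) (XT.lf (nat_lit 76) (nat_lit 667052276) (nat_lit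 0) (nat_lit 96044333) (nat_lit 228) (nat_lit 667052276) (nat_lit 184) (nat_lit 1) (nat_lit 183) (nat_lit 1) (nat_lit 186) (nat_lit 1) (nat_lit 422) (nat_lit 336) (nat_lit 262)) (XT.lf (nat_lit 304) (nat_lit 945836057) (nat_lit 0) (nat_lit 234457790) (nat_lit 228) (nat_lit 234457790) (nat_lit 184) (nat_lit 1) (nat_lit 180) (nat_lit 1) (nat_lit 183) (nat_lit 1) (nat_lit 423) (nat_lit 336) (nat_lit 261))) (XT.nd (nat_lit 78) (nat_lit 456) (nat_lit 0) (XT.lf (nat_lit 76) (nat_lit 279755820) (nat_lit 0) (nat_lit 840018454) (nat_lit 304) (nat_lit 279755820) (nat_lit 181) (nat_lit 1) (nat_lit 180) (nat_lit 1) (nat_lit 184) (nat_lit 1) (nat_lit 424) (nat_lit 336) (nat_lit 260)) (XT.nd (nat_lit 78) (nat_lit 304) (nat_lit 0) (XT.lf (nat_lit 228) (nat_lit 176203917) (nat_lit 0) (nat_lit 604154056) (nat_lit 152) (nat_lit 604154056) (nat_lit 181) (nat_lit 1) (nat_lit 178) (nat_lit 1) (nat_lit 180) (nat_lit 1) (nat_lit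 425) (nat_lit 336) (nat_lit 259)) (XT.lf (nat_lit 304) (nat_lit 1174019963) (nat_lit 0) (nat_lit 97873008) (nat_lit 228) (nat_lit 97873008) (nat_lit 178) (nat_lit 1) (nat_lit 174) (nat_lit 1) (nat_lit 177) (nat_lit 1) (nat_lit 426) (nat_lit 336) (nat_lit 258))))) (XT.nd (nat_lit 156) (nat_lit 380) (nat_lit 0) (XT.nd (nat_lit 78) (nat_lit 152) (nat_lit 0) (XT.lf (nat_lit 76) (nat_lit 395125950) (nat_lit 0) (nat_lit 564809631) (nat_lit 304) (nat_lit 395125950) (nat_lit 175) (nat_lit 1) (nat_lit 174) (nat_lit 1) (nat_lit 178) (nat_lit 1) (nat_lit 427) (nat_lit 336) (nat_lit 257)) (XT.lf (nat_lit 228) (nat_lit 412124200) (nat_lit 0) (nat_lit 464249943) (nat_lit 152) (nat_lit 464249943) (nat_lit 175) (nat_lit 1) (nat_lit 172) (nat_lit 1) (nat_lit 174) (nat_lit 1) (nat_lit 428) (nat_lit 336) (nat_lit 256))) (XT.nd (nat_lit 78) (nat_lit 380) (nat_lit 0) (XT.lf (nat_lit 76) (nat_lit 20464744) (nat_lit 0) (nat_lit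 1285558812) (nat_lit 228) (nat_lit 20464744) (nat_lit 173) (nat_lit 1) (nat_lit 172) (nat_lit 1) (nat_lit 175) (nat_lit 1) (nat_lit 429) (nat_lit 336) (nat_lit 255)) (XT.nd (nat_lit 78) (nat_lit 152) (nat_lit 0) (XT.lf (nat_lit 76) (nat_lit 493361888) (nat_lit 0) (nat_lit 325577609) (nat_lit 228) (nat_lit 493361888) (nat_lit 170) (nat_lit 1) (nat_lit 169) (nat_lit 1) (nat_lit 172) (nat_lit 1) (nat_lit 430) (nat_lit 336) (nat_lit 254)) (XT.lf (nat_lit 228) (nat_lit 614292549) (nat_lit 0) (nat_lit 342059565) (nat_lit 152) (nat_lit 342059565) (nat_lit 170) (nat_lit 1) (nat_lit 167) (nat_lit 1) (nat_lit 169) (nat_lit 1) (nat_lit 431) (nat_lit 336) (nat_lit 253))))))) (XT.nd (nat_lit 46878) (nat_lit 0) (nat_lit 15276) (XT.nd (nat_lit 46488) (nat_lit 0) (nat_lit 16112) (XT.nd (nat_lit 156) (nat_lit 152) (nat_lit 0) (XT.nd (nat_lit 78) (nat_lit 228) (nat_lit 0) (XT.lf (nat_lit 76) (nat_lit 123313364) (nat_lit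 0) (nat_lit 1038122651) (nat_lit 228) (nat_lit 123313364) (nat_lit 168) (nat_lit 1) (nat_lit 167) (nat_lit 1) (nat_lit 170) (nat_lit 1) (nat_lit 432) (nat_lit 336) (nat_lit 252)) (XT.lf (nat_lit 76) (nat_lit 576498657) (nat_lit 0) (nat_lit 118156506) (nat_lit 228) (nat_lit 576498657) (nat_lit 165) (nat_lit 1) (nat_lit 164) (nat_lit 1) (nat_lit 167) (nat_lit 1) (nat_lit 433) (nat_lit 336) (nat_lit 251))) (XT.nd (nat_lit 46254) (nat_lit 0) (nat_lit 16112) (XT.lf (nat_lit 228) (nat_lit 786689551) (nat_lit 0) (nat_lit 235546079) (nat_lit 152) (nat_lit 235546079) (nat_lit 165) (nat_lit 1) (nat_lit 162) (nat_lit 1) (nat_lit 164) (nat_lit 1) (nat_lit 434) (nat_lit 336) (nat_lit 250)) (XT.lf (nat_lit 1292) (nat_lit 341313136) (nat_lit 0) (nat_lit 1174275922) (nat_lit 1292) (nat_lit 341313136) (nat_lit 391) (nat_lit 1) (nat_lit 374) (nat_lit 0) (nat_lit 391) (nat_lit 0) (nat_lit 346) (nat_lit 337) (nat_lit 337))))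 (XT.nd (nat_lit 156) (nat_lit 0) (nat_lit 76) (XT.nd (nat_lit 78) (nat_lit 0) (nat_lit 76) (XT.lf (nat_lit 1292) (nat_lit 1333857716) (nat_lit 76) (nat_lit 1162763413) (nat_lit 0) (nat_lit 1162763413) (nat_lit 391) (nat_lit 1) (nat_lit 375) (nat_lit 1) (nat_lit 374) (nat_lit 0) (nat_lit 347) (nat_lit 337) (nat_lit 336)) (XT.lf (nat_lit 1292) (nat_lit 645085394) (nat_lit 0) (nat_lit 2315994296) (nat_lit 1216) (nat_lit 645085394) (nat_lit 392) (nat_lit 1) (nat_lit 375) (nat_lit 1) (nat_lit 391) (nat_lit 1) (nat_lit 348) (nat_lit 337) (nat_lit 335))) (XT.nd (nat_lit 78) (nat_lit 0) (nat_lit 76) (XT.lf (nat_lit 1292) (nat_lit 1225050470) (nat_lit 76) (nat_lit 1164391952) (nat_lit 0) (nat_lit 1164391952) (nat_lit 392) (nat_lit 1) (nat_lit 376) (nat_lit 1) (nat_lit 375) (nat_lit 1) (nat_lit 349) (nat_lit 337) (nat_lit 334)) (XT.nd (nat_lit 78) (nat_lit 0) (nat_lit 0) (XT.lf (nat_lit 1292) (nat_lit 574848823)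 (nat_lit 0) (nat_lit 2352976934) (nat_lit 1216) (nat_lit 574848823) (nat_lit 393) (nat_lit 1) (nat_lit 376) (nat_lit 1) (nat_lit 392) (nat_lit 1) (nat_lit 350) (nat_lit 337) (nat_lit 333)) (XT.lf (nat_lit 1292) (nat_lit 1053471165) (nat_lit 76) (nat_lit 1199430909) (nat_lit 0) (nat_lit 1199430909) (nat_lit 393) (nat_lit 1) (nat_lit 377) (nat_lit 1) (nat_lit 376) (nat_lit 1) (nat_lit 351) (nat_lit 337) (nat_lit 332)))))) (XT.nd (nat_lit 390) (nat_lit 1064) (nat_lit 0) (XT.nd (nat_lit 156) (nat_lit 0) (nat_lit 76) (XT.nd (nat_lit 78) (nat_lit 0) (nat_lit 0) (XT.lf (nat_lit 1292) (nat_lit 474808494) (nat_lit 0) (nat_lit 2453536859) (nat_lit 1216) (nat_lit 474808494) (nat_lit 394) (nat_lit 1) (nat_lit 377) (nat_lit 1) (nat_lit 393) (nat_lit 1) (nat_lit 352) (nat_lit 337) (nat_lit 331)) (XT.lf (nat_lit 1292) (nat_lit 824733408) (nat_lit 76) (nat_lit 1264986548) (nat_lit 0) (nat_lit 1264986548) (nat_lit 394)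 (nat_lit 1) (nat_lit 378) (nat_lit 1) (nat_lit 377) (nat_lit 1) (nat_lit 353) (nat_lit 337) (nat_lit 330))) (XT.nd (nat_lit 78) (nat_lit 0) (nat_lit 0) (XT.lf (nat_lit 1292) (nat_lit 347660768) (nat_lit 0) (nat_lit 2612110876) (nat_lit 1216) (nat_lit 347660768) (nat_lit 395) (nat_lit 1) (nat_lit 378) (nat_lit 1) (nat_lit 394) (nat_lit 1) (nat_lit 354) (nat_lit 337) (nat_lit 329)) (XT.nd (nat_lit 78) (nat_lit 0) (nat_lit 76) (XT.lf (nat_lit 1292) (nat_lit 544070011) (nat_lit 76) (nat_lit 1358359666) (nat_lit 0) (nat_lit 1358359666) (nat_lit 395) (nat_lit 1) (nat_lit 379) (nat_lit 1) (nat_lit 378) (nat_lit 1) (nat_lit 355) (nat_lit 337) (nat_lit 328)) (XT.lf (nat_lit 1292) (nat_lit 195918519) (nat_lit 0) (nat_lit 2823510876) (nat_lit 1216) (nat_lit 195918519) (nat_lit 396) (nat_lit 1) (nat_lit 379) (nat_lit 1) (nat_lit 395) (nat_lit 1) (nat_lit 356) (nat_lit 337) (nat_lit 327))))) (XT.nd (nat_lit 156)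 (nat_lit 1216) (nat_lit 0) (XT.nd (nat_lit 78) (nat_lit 0) (nat_lit 76) (XT.lf (nat_lit 1292) (nat_lit 216356558) (nat_lit 76) (nat_lit 1477033604) (nat_lit 0) (nat_lit 1477033604) (nat_lit 396) (nat_lit 1) (nat_lit 380) (nat_lit 1) (nat_lit 379) (nat_lit 1) (nat_lit 357) (nat_lit 337) (nat_lit 326)) (XT.lf (nat_lit 1292) (nat_lit 21922507) (nat_lit 0) (nat_lit 3082900680) (nat_lit 1216) (nat_lit 21922507) (nat_lit 397) (nat_lit 1) (nat_lit 380) (nat_lit 1) (nat_lit 396) (nat_lit 1) (nat_lit 358) (nat_lit 337) (nat_lit 325))) (XT.nd (nat_lit 78) (nat_lit 0) (nat_lit 0) (XT.lf (nat_lit 1368) (nat_lit 1466275577) (nat_lit 0) (nat_lit 150863947) (nat_lit 1292) (nat_lit 1466275577) (nat_lit 381) (nat_lit 1) (nat_lit 363) (nat_lit 1) (nat_lit 380) (nat_lit 1) (nat_lit 359) (nat_lit 337) (nat_lit 324)) (XT.nd (nat_lit 78) (nat_lit 0) (nat_lit 76) (XT.lf (nat_lit 1368) (nat_lit 2700358390) (nat_lit 76) (nat_lit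 170460211) (nat_lit 0) (nat_lit 170460211) (nat_lit 381) (nat_lit 1) (nat_lit 364) (nat_lit 1) (nat_lit 363) (nat_lit 1) (nat_lit 360) (nat_lit 337) (nat_lit 323)) (XT.lf (nat_lit 1368) (nat_lit 1224096149) (nat_lit 0) (nat_lit 551398767) (nat_lit 1292) (nat_lit 1224096149) (nat_lit 382) (nat_lit 1) (nat_lit 364) (nat_lit 1) (nat_lit 381) (nat_lit 1) (nat_lit 361) (nat_lit 337) (nat_lit 322))))))))
noncomputable def ec52 : XT := (XT.nd (nat_lit 1404) (nat_lit 4484) (nat_lit 0) (XT.nd (nat_lit 702) (nat_lit 2736) (nat_lit 0) (XT.nd (nat_lit 312) (nat_lit 1824) (nat_lit 0) (XT.nd (nat_lit 156) (nat_lit 760) (nat_lit 0) (XT.nd (nat_lit 78) (nat_lit 0) (nat_lit 76) (XT.lf (nat_lit 1368) (nat_lit 2197964982) (nat_lit 76) (nat_lit 380497546) (nat_lit 0) (nat_lit 380497546) (nat_lit 382) (nat_lit 1) (nat_lit 365) (nat_lit 1) (nat_lit 364) (nat_lit 1) (nat_lit 362) (nat_lit 337) (nat_lit 321)) (XT.lf (nat_lit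 76) (nat_lit 966631904) (nat_lit 0) (nat_lit 985614856) (nat_lit 1292) (nat_lit 966631904) (nat_lit 366) (nat_lit 1) (nat_lit 365) (nat_lit 1) (nat_lit 382) (nat_lit 1) (nat_lit 363) (nat_lit 337) (nat_lit 320))) (XT.nd (nat_lit 78) (nat_lit 0) (nat_lit 0) (XT.lf (nat_lit 912) (nat_lit 1666609489) (nat_lit 0) (nat_lit 606536871) (nat_lit 836) (nat_lit 606536871) (nat_lit 366) (nat_lit 1) (nat_lit 354) (nat_lit 1) (nat_lit 365) (nat_lit 1) (nat_lit 364) (nat_lit 337) (nat_lit 319)) (XT.lf (nat_lit 76) (nat_lit 695610357) (nat_lit 0) (nat_lit 1449928084) (nat_lit 912) (nat_lit 695610357) (nat_lit 355) (nat_lit 1) (nat_lit 354) (nat_lit 1) (nat_lit 366) (nat_lit 1) (nat_lit 365) (nat_lit 337) (nat_lit 318)))) (XT.nd (nat_lit 156) (nat_lit 1216) (nat_lit 0) (XT.nd (nat_lit 78) (nat_lit 0) (nat_lit 0) (XT.lf (nat_lit 684) (nat_lit 1109637992) (nat_lit 0) (nat_lit 846842353) (nat_lit 608) (nat_lit 846842353)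 (nat_lit 355) (nat_lit 1) (nat_lit 346) (nat_lit 1) (nat_lit 354) (nat_lit 1) (nat_lit 366) (nat_lit 337) (nat_lit 317)) (XT.lf (nat_lit 76) (nat_lit 412635096) (nat_lit 0) (nat_lit 1941008142) (nat_lit 684) (nat_lit 412635096) (nat_lit 347) (nat_lit 1) (nat_lit 346) (nat_lit 1) (nat_lit 355) (nat_lit 1) (nat_lit 367) (nat_lit 337) (nat_lit 316))) (XT.nd (nat_lit 78) (nat_lit 608) (nat_lit 0) (XT.lf (nat_lit 684) (nat_lit 530155459) (nat_lit 0) (nat_lit 1099801608) (nat_lit 608) (nat_lit 1099801608) (nat_lit 347) (nat_lit 1) (nat_lit 338) (nat_lit 1) (nat_lit 346) (nat_lit 1) (nat_lit 368) (nat_lit 337) (nat_lit 315)) (XT.nd (nat_lit 78) (nat_lit 608) (nat_lit 0) (XT.lf (nat_lit 76) (nat_lit 119193618) (nat_lit 0) (nat_lit 2455762574) (nat_lit 684) (nat_lit 119193618) (nat_lit 339) (nat_lit 1) (nat_lit 338) (nat_lit 1) (nat_lit 347) (nat_lit 1) (nat_lit 369) (nat_lit 337) (nat_lit 314)) (XT.lf (nat_lit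 76) (nat_lit 1295621809) (nat_lit 0) (nat_lit 67613347) (nat_lit 608) (nat_lit 1295621809) (nat_lit 331) (nat_lit 1) (nat_lit 330) (nat_lit 1) (nat_lit 338) (nat_lit 1) (nat_lit 370) (nat_lit 337) (nat_lit 313)))))) (XT.nd (nat_lit 312) (nat_lit 1596) (nat_lit 0) (XT.nd (nat_lit 156) (nat_lit 532) (nat_lit 0) (XT.nd (nat_lit 78) (nat_lit 0) (nat_lit 0) (XT.lf (nat_lit 684) (nat_lit 2261362794) (nat_lit 0) (nat_lit 181537902) (nat_lit 608) (nat_lit 181537902) (nat_lit 331) (nat_lit 1) (nat_lit 322) (nat_lit 1) (nat_lit 330) (nat_lit 1) (nat_lit 371) (nat_lit 337) (nat_lit 312)) (XT.lf (nat_lit 76) (nat_lit 959350209) (nat_lit 0) (nat_lit 671670161) (nat_lit 684) (nat_lit 959350209) (nat_lit 323) (nat_lit 1) (nat_lit 322) (nat_lit 1) (nat_lit 331) (nat_lit 1) (nat_lit 372) (nat_lit 337) (nat_lit 311))) (XT.nd (nat_lit 78) (nat_lit 0) (nat_lit 0) (XT.lf (nat_lit 608) (nat_lit 1579433500) (nat_lit 0) (nat_lit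 488834769) (nat_lit 532) (nat_lit 488834769) (nat_lit 323) (nat_lit 1) (nat_lit 315) (nat_lit 1) (nat_lit 322) (nat_lit 1) (nat_lit 373) (nat_lit 337) (nat_lit 310)) (XT.lf (nat_lit 76) (nat_lit 617205093) (nat_lit 0) (nat_lit 1289938793) (nat_lit 608) (nat_lit 617205093) (nat_lit 316) (nat_lit 1) (nat_lit 315) (nat_lit 1) (nat_lit 323) (nat_lit 1) (nat_lit 374) (nat_lit 337) (nat_lit 309)))) (XT.nd (nat_lit 156) (nat_lit 1064) (nat_lit 0) (XT.nd (nat_lit 78) (nat_lit 0) (nat_lit 0) (XT.lf (nat_lit 608) (nat_lit 886789636) (nat_lit 0) (nat_lit 802695471) (nat_lit 532) (nat_lit 802695471) (nat_lit 316) (nat_lit 1) (nat_lit 308) (nat_lit 1) (nat_lit 315) (nat_lit 1) (nat_lit 375) (nat_lit 337) (nat_lit 308)) (XT.lf (nat_lit 76) (nat_lit 270256930) (nat_lit 0) (nat_lit 1920179530) (nat_lit 608) (nat_lit 270256930) (nat_lit 309) (nat_lit 1) (nat_lit 308) (nat_lit 1) (nat_lit 316) (nat_lit 1) (nat_lit 376)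 (nat_lit 337) (nat_lit 307))) (XT.nd (nat_lit 78) (nat_lit 608) (nat_lit 0) (XT.lf (nat_lit 532) (nat_lit 185498499) (nat_lit 0) (nat_lit 1122038249) (nat_lit 456) (nat_lit 1122038249) (nat_lit 309) (nat_lit 1) (nat_lit 302) (nat_lit 1) (nat_lit 308) (nat_lit 1) (nat_lit 377) (nat_lit 337) (nat_lit 306)) (XT.nd (nat_lit 78) (nat_lit 0) (nat_lit 0) (XT.lf (nat_lit 608) (nat_lit 2239781469) (nat_lit 0) (nat_lit 79717333) (nat_lit 532) (nat_lit 79717333) (nat_lit 302) (nat_lit 1) (nat_lit 294) (nat_lit 1) (nat_lit 301) (nat_lit 1) (nat_lit 378) (nat_lit 337) (nat_lit 305)) (XT.lf (nat_lit 76) (nat_lit 928353300) (nat_lit 0) (nat_lit 512337071) (nat_lit 608) (nat_lit 928353300) (nat_lit 295) (nat_lit 1) (nat_lit 294) (nat_lit 1) (nat_lit 302) (nat_lit 1) (nat_lit 379) (nat_lit 337) (nat_lit 304))))))) (XT.nd (nat_lit 702) (nat_lit 2280) (nat_lit 0) (XT.nd (nat_lit 312) (nat_lit 1292) (nat_lit 0) (XT.nd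 (nat_lit 156) (nat_lit 456) (nat_lit 0) (XT.nd (nat_lit 78) (nat_lit 0) (nat_lit 0) (XT.lf (nat_lit 532) (nat_lit 1479766341) (nat_lit 0) (nat_lit 429918689) (nat_lit 456) (nat_lit 429918689) (nat_lit 295) (nat_lit 1) (nat_lit 288) (nat_lit 1) (nat_lit 294) (nat_lit 1) (nat_lit 380) (nat_lit 337) (nat_lit 303)) (XT.lf (nat_lit 76) (nat_lit 549576886) (nat_lit 0) (nat_lit 1211440738) (nat_lit 532) (nat_lit 549576886) (nat_lit 289) (nat_lit 1) (nat_lit 288) (nat_lit 1) (nat_lit 295) (nat_lit 1) (nat_lit 381) (nat_lit 337) (nat_lit 302))) (XT.nd (nat_lit 78) (nat_lit 0) (nat_lit 0) (XT.lf (nat_lit 532) (nat_lit 717750136) (nat_lit 0) (nat_lit 782167082) (nat_lit 456) (nat_lit 782167082) (nat_lit 289) (nat_lit 1) (nat_lit 282) (nat_lit 1) (nat_lit 288) (nat_lit 1) (nat_lit 382) (nat_lit 337) (nat_lit 301)) (XT.lf (nat_lit 76) (nat_lit 170174453) (nat_lit 0) (nat_lit 1913848595) (nat_lit 532) (nat_lit 170174453)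 (nat_lit 283) (nat_lit 1) (nat_lit 282) (nat_lit 1) (nat_lit 289) (nat_lit 1) (nat_lit 383) (nat_lit 337) (nat_lit 300)))) (XT.nd (nat_lit 156) (nat_lit 380) (nat_lit 0) (XT.nd (nat_lit 78) (nat_lit 456) (nat_lit 0) (XT.lf (nat_lit 76) (nat_lit 1091307449) (nat_lit 0) (nat_lit 43948612) (nat_lit 456) (nat_lit 1091307449) (nat_lit 277) (nat_lit 1) (nat_lit 276) (nat_lit 1) (nat_lit 282) (nat_lit 1) (nat_lit 384) (nat_lit 337) (nat_lit 299)) (XT.lf (nat_lit 532) (nat_lit 1785298551) (nat_lit 0) (nat_lit 207115875) (nat_lit 456) (nat_lit 207115875) (nat_lit 277) (nat_lit 1) (nat_lit 270) (nat_lit 1) (nat_lit 276) (nat_lit 1) (nat_lit 385) (nat_lit 337) (nat_lit 298))) (XT.nd (nat_lit 78) (nat_lit 380) (nat_lit 0) (XT.lf (nat_lit 76) (nat_lit 690939150) (nat_lit 0) (nat_lit 790891326) (nat_lit 532) (nat_lit 690939150) (nat_lit 271) (nat_lit 1) (nat_lit 270) (nat_lit 1) (nat_lit 277) (nat_lit 1) (nat_lit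 386) (nat_lit 337) (nat_lit 297)) (XT.nd (nat_lit 78) (nat_lit 0) (nat_lit 0) (XT.lf (nat_lit 456) (nat_lit 982454317) (nat_lit 0) (nat_lit 582054115) (nat_lit 380) (nat_lit 582054115) (nat_lit 271) (nat_lit 1) (nat_lit 265) (nat_lit 1) (nat_lit 270) (nat_lit 1) (nat_lit 387) (nat_lit 337) (nat_lit 296)) (XT.lf (nat_lit 76) (nat_lit 292468385) (nat_lit 0) (nat_lit 1535898692) (nat_lit 456) (nat_lit 292468385) (nat_lit 266) (nat_lit 1) (nat_lit 265) (nat_lit 1) (nat_lit 271) (nat_lit 1) (nat_lit 388) (nat_lit 337) (nat_lit 295)))))) (XT.nd (nat_lit 390) (nat_lit 1064) (nat_lit 0) (XT.nd (nat_lit 156) (nat_lit 380) (nat_lit 0) (XT.nd (nat_lit 78) (nat_lit 456) (nat_lit 0) (XT.lf (nat_lit 456) (nat_lit 183939577) (nat_lit 0) (nat_lit 955739779) (nat_lit 380) (nat_lit 955739779) (nat_lit 266) (nat_lit 1) (nat_lit 260) (nat_lit 1) (nat_lit 265) (nat_lit 1) (nat_lit 389) (nat_lit 337) (nat_lit 294)) (XT.lf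 (nat_lit 456) (nat_lit 1865402030) (nat_lit 0) (nat_lit 102583953) (nat_lit 380) (nat_lit 102583953) (nat_lit 260) (nat_lit 1) (nat_lit 254) (nat_lit 1) (nat_lit 259) (nat_lit 1) (nat_lit 390) (nat_lit 337) (nat_lit 293))) (XT.nd (nat_lit 78) (nat_lit 380) (nat_lit 0) (XT.lf (nat_lit 76) (nat_lit 724233146) (nat_lit 0) (nat_lit 597388767) (nat_lit 456) (nat_lit 724233146) (nat_lit 255) (nat_lit 1) (nat_lit 254) (nat_lit 1) (nat_lit 260) (nat_lit 1) (nat_lit 391) (nat_lit 337) (nat_lit 292)) (XT.nd (nat_lit 78) (nat_lit 0) (nat_lit 0) (XT.lf (nat_lit 456) (nat_lit 1037817562) (nat_lit 0) (nat_lit 491935943) (nat_lit 380) (nat_lit 491935943) (nat_lit 255) (nat_lit 1) (nat_lit 249) (nat_lit 1) (nat_lit 254) (nat_lit 1) (nat_lit 392) (nat_lit 337) (nat_lit 291)) (XT.lf (nat_lit 76) (nat_lit 314427026) (nat_lit 0) (nat_lit 1369074354) (nat_lit 456) (nat_lit 314427026) (nat_lit 250) (nat_lit 1) (nat_lit 249)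 (nat_lit 1) (nat_lit 255) (nat_lit 1) (nat_lit 393) (nat_lit 337) (nat_lit 290))))) (XT.nd (nat_lit 156) (nat_lit 304) (nat_lit 0) (XT.nd (nat_lit 78) (nat_lit 456) (nat_lit 0) (XT.lf (nat_lit 380) (nat_lit 218379804) (nat_lit 0) (nat_lit 878044344) (nat_lit 304) (nat_lit 878044344) (nat_lit 250) (nat_lit 1) (nat_lit 245) (nat_lit 1) (nat_lit 249) (nat_lit 1) (nat_lit 394) (nat_lit 337) (nat_lit 289)) (XT.lf (nat_lit 456) (nat_lit 1771009433) (nat_lit 0) (nat_lit 90256897) (nat_lit 380) (nat_lit 90256897) (nat_lit 245) (nat_lit 1) (nat_lit 239) (nat_lit 1) (nat_lit 244) (nat_lit 1) (nat_lit 395) (nat_lit 337) (nat_lit 288))) (XT.nd (nat_lit 78) (nat_lit 304) (nat_lit 0) (XT.lf (nat_lit 76) (nat_lit 673999254) (nat_lit 0) (nat_lit 580675900) (nat_lit 456) (nat_lit 673999254) (nat_lit 240) (nat_lit 1) (nat_lit 239) (nat_lit 1) (nat_lit 245) (nat_lit 1) (nat_lit 396) (nat_lit 337) (nat_lit 287)) (XT.nd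 (nat_lit 78) (nat_lit 0) (nat_lit 0) (XT.lf (nat_lit 380) (nat_lit 931615388) (nat_lit 0) (nat_lit 487354943) (nat_lit 304) (nat_lit 487354943) (nat_lit 240) (nat_lit 1) (nat_lit 235) (nat_lit 1) (nat_lit 239) (nat_lit 1) (nat_lit 397) (nat_lit 337) (nat_lit 286)) (XT.lf (nat_lit 76) (nat_lit 259068008) (nat_lit 0) (nat_lit 1366222414) (nat_lit 380) (nat_lit 259068008) (nat_lit 236) (nat_lit 1) (nat_lit 235) (nat_lit 1) (nat_lit 240) (nat_lit 1) (nat_lit 398) (nat_lit 337) (nat_lit 285))))))))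
noncomputable def ec53 : XT := (XT.nd (nat_lit 1482) (nat_lit 2204) (nat_lit 0) (XT.nd (nat_lit 702) (nat_lit 1672) (nat_lit 0) (XT.nd (nat_lit 312) (nat_lit 836) (nat_lit 0) (XT.nd (nat_lit 156) (nat_lit 304) (nat_lit 0) (XT.nd (nat_lit 78) (nat_lit 380) (nat_lit 0) (XT.lf (nat_lit 380) (nat_lit 103305397) (nat_lit 0) (nat_lit 879667937) (nat_lit 304) (nat_lit 879667937) (nat_lit 236) (nat_lit 1) (nat_lit 231) (nat_lit 1) (nat_lit 235) (nat_lit 1) (nat_lit 399) (nat_lit 337) (nat_lit 284)) (XT.lf (nat_lit 380) (nat_lit 1543832828) (nat_lit 0) (nat_lit 148759930) (nat_lit 304) (nat_lit 148759930) (nat_lit 231) (nat_lit 1) (nat_lit 226) (nat_lit 1) (nat_lit 230) (nat_lit 1) (nat_lit 400) (nat_lit 337) (nat_lit 283))) (XT.nd (nat_lit 78) (nat_lit 304) (nat_lit 0) (XT.lf (nat_lit 76) (nat_lit 560328156) (nat_lit 0) (nat_lit 699553717) (nat_lit 380) (nat_lit 560328156) (nat_lit 227) (nat_lit 1) (nat_lit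 226) (nat_lit 1) (nat_lit 231) (nat_lit 1) (nat_lit 401) (nat_lit 337) (nat_lit 282)) (XT.lf (nat_lit 380) (nat_lit 702946958) (nat_lit 0) (nat_lit 548268230) (nat_lit 304) (nat_lit 548268230) (nat_lit 227) (nat_lit 1) (nat_lit 222) (nat_lit 1) (nat_lit 226) (nat_lit 1) (nat_lit 402) (nat_lit 337) (nat_lit 281)))) (XT.nd (nat_lit 156) (nat_lit 532) (nat_lit 0) (XT.nd (nat_lit 78) (nat_lit 304) (nat_lit 0) (XT.lf (nat_lit 76) (nat_lit 145222012) (nat_lit 0) (nat_lit 1488713757) (nat_lit 380) (nat_lit 145222012) (nat_lit 223) (nat_lit 1) (nat_lit 222) (nat_lit 1) (nat_lit 227) (nat_lit 1) (nat_lit 403) (nat_lit 337) (nat_lit 280)) (XT.lf (nat_lit 76) (nat_lit 818377889) (nat_lit 0) (nat_lit 122207327) (nat_lit 304) (nat_lit 818377889) (nat_lit 219) (nat_lit 1) (nat_lit 218) (nat_lit 1) (nat_lit 222) (nat_lit 1) (nat_lit 404) (nat_lit 337) (nat_lit 279))) (XT.nd (nat_lit 78) (nat_lit 228) (nat_lit 0) (XT.lf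 (nat_lit 380) (nat_lit 1217919900) (nat_lit 0) (nat_lit 260619184) (nat_lit 304) (nat_lit 260619184) (nat_lit 219) (nat_lit 1) (nat_lit 214) (nat_lit 1) (nat_lit 218) (nat_lit 1) (nat_lit 405) (nat_lit 337) (nat_lit 278)) (XT.nd (nat_lit 78) (nat_lit 228) (nat_lit 0) (XT.lf (nat_lit 76) (nat_lit 399612256) (nat_lit 0) (nat_lit 920354539) (nat_lit 380) (nat_lit 399612256) (nat_lit 215) (nat_lit 1) (nat_lit 214) (nat_lit 1) (nat_lit 219) (nat_lit 1) (nat_lit 406) (nat_lit 337) (nat_lit 277)) (XT.lf (nat_lit 304) (nat_lit 383701052) (nat_lit 0) (nat_lit 658303121) (nat_lit 228) (nat_lit 658303121) (nat_lit 215) (nat_lit 1) (nat_lit 211) (nat_lit 1) (nat_lit 214) (nat_lit 1) (nat_lit 407) (nat_lit 337) (nat_lit 276)))))) (XT.nd (nat_lit 390) (nat_lit 760) (nat_lit 0) (XT.nd (nat_lit 156) (nat_lit 532) (nat_lit 0) (XT.nd (nat_lit 78) (nat_lit 0) (nat_lit 0) (XT.lf (nat_lit 380) (nat_lit 1658184340) (nat_lit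 0) (nat_lit 11644113) (nat_lit 304) (nat_lit 11644113) (nat_lit 211) (nat_lit 1) (nat_lit 206) (nat_lit 1) (nat_lit 210) (nat_lit 1) (nat_lit 408) (nat_lit 337) (nat_lit 275)) (XT.lf (nat_lit 76) (nat_lit 617753594) (nat_lit 0) (nat_lit 427093620) (nat_lit 380) (nat_lit 617753594) (nat_lit 207) (nat_lit 1) (nat_lit 206) (nat_lit 1) (nat_lit 211) (nat_lit 1) (nat_lit 409) (nat_lit 337) (nat_lit 274))) (XT.nd (nat_lit 78) (nat_lit 304) (nat_lit 0) (XT.lf (nat_lit 304) (nat_lit 820953830) (nat_lit 0) (nat_lit 411601463) (nat_lit 228) (nat_lit 411601463) (nat_lit 207) (nat_lit 1) (nat_lit 203) (nat_lit 1) (nat_lit 206) (nat_lit 1) (nat_lit 410) (nat_lit 337) (nat_lit 273)) (XT.nd (nat_lit 78) (nat_lit 304) (nat_lit 0) (XT.lf (nat_lit 76) (nat_lit 205173293) (nat_lit 0) (nat_lit 1215666581) (nat_lit 304) (nat_lit 205173293) (nat_lit 204) (nat_lit 1) (nat_lit 203) (nat_lit 1) (nat_lit 207) (nat_lit 1) (nat_lit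 411) (nat_lit 337) (nat_lit 272)) (XT.lf (nat_lit 76) (nat_lit 803917796) (nat_lit 0) (nat_lit 215239) (nat_lit 304) (nat_lit 803917796) (nat_lit 200) (nat_lit 1) (nat_lit 199) (nat_lit 1) (nat_lit 203) (nat_lit 1) (nat_lit 412) (nat_lit 337) (nat_lit 271))))) (XT.nd (nat_lit 156) (nat_lit 532) (nat_lit 0) (XT.nd (nat_lit 78) (nat_lit 0) (nat_lit 0) (XT.lf (nat_lit 304) (nat_lit 1195465501) (nat_lit 0) (nat_lit 197457586) (nat_lit 228) (nat_lit 197457586) (nat_lit 200) (nat_lit 1) (nat_lit 196) (nat_lit 1) (nat_lit 199) (nat_lit 1) (nat_lit 413) (nat_lit 337) (nat_lit 270)) (XT.lf (nat_lit 76) (nat_lit 391634948) (nat_lit 0) (nat_lit 789610536) (nat_lit 304) (nat_lit 391634948) (nat_lit 197) (nat_lit 1) (nat_lit 196) (nat_lit 1) (nat_lit 200) (nat_lit 1) (nat_lit 414) (nat_lit 337) (nat_lit 269))) (XT.nd (nat_lit 78) (nat_lit 304) (nat_lit 0) (XT.lf (nat_lit 304) (nat_lit 375338710) (nat_lit 0) (nat_lit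 590162862) (nat_lit 228) (nat_lit 590162862) (nat_lit 197) (nat_lit 1) (nat_lit 193) (nat_lit 1) (nat_lit 196) (nat_lit 1) (nat_lit 415) (nat_lit 337) (nat_lit 268)) (XT.nd (nat_lit 78) (nat_lit 0) (nat_lit 0) (XT.lf (nat_lit 304) (nat_lit 1514639745) (nat_lit 0) (nat_lit 12093863) (nat_lit 228) (nat_lit 12093863) (nat_lit 193) (nat_lit 1) (nat_lit 189) (nat_lit 1) (nat_lit 192) (nat_lit 1) (nat_lit 416) (nat_lit 337) (nat_lit 267)) (XT.lf (nat_lit 76) (nat_lit 551206399) (nat_lit 0) (nat_lit 419526233) (nat_lit 304) (nat_lit 551206399) (nat_lit 190) (nat_lit 1) (nat_lit 189) (nat_lit 1) (nat_lit 193) (nat_lit 1) (nat_lit 417) (nat_lit 337) (nat_lit 266))))))) (XT.nd (nat_lit 702) (nat_lit 912) (nat_lit 0) (XT.nd (nat_lit 312) (nat_lit 608) (nat_lit 0) (XT.nd (nat_lit 156) (nat_lit 456) (nat_lit 0) (XT.nd (nat_lit 78) (nat_lit 0) (nat_lit 0) (XT.lf (nat_lit 304) (nat_lit 698079460) (nat_lit 0) (nat_lit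 403671616) (nat_lit 228) (nat_lit 403671616) (nat_lit 190) (nat_lit 1) (nat_lit 186) (nat_lit 1) (nat_lit 189) (nat_lit 1) (nat_lit 418) (nat_lit 337) (nat_lit 265)) (XT.lf (nat_lit 76) (nat_lit 149305571) (nat_lit 0) (nat_lit 1190574956) (nat_lit 304) (nat_lit 149305571) (nat_lit 187) (nat_lit 1) (nat_lit 186) (nat_lit 1) (nat_lit 190) (nat_lit 1) (nat_lit 419) (nat_lit 337) (nat_lit 264))) (XT.nd (nat_lit 78) (nat_lit 228) (nat_lit 0) (XT.lf (nat_lit 76) (nat_lit 687063844) (nat_lit 0) (nat_lit 98925663) (nat_lit 228) (nat_lit 687063844) (nat_lit 184) (nat_lit 1) (nat_lit 183) (nat_lit 1) (nat_lit 186) (nat_lit 1) (nat_lit 420) (nat_lit 337) (nat_lit 263)) (XT.lf (nat_lit 304) (nat_lit 974211139) (nat_lit 0) (nat_lit 241491523) (nat_lit 228) (nat_lit 241491523) (nat_lit 184) (nat_lit 1) (nat_lit 180) (nat_lit 1) (nat_lit 183) (nat_lit 1) (nat_lit 421) (nat_lit 337) (nat_lit 262)))) (XT.nd (nat_lit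 156) (nat_lit 456) (nat_lit 0) (XT.nd (nat_lit 78) (nat_lit 152) (nat_lit 0) (XT.lf (nat_lit 76) (nat_lit 288148495) (nat_lit 0) (nat_lit 865219007) (nat_lit 304) (nat_lit 288148495) (nat_lit 181) (nat_lit 1) (nat_lit 180) (nat_lit 1) (nat_lit 184) (nat_lit 1) (nat_lit 422) (nat_lit 337) (nat_lit 261)) (XT.lf (nat_lit 228) (nat_lit 181490035) (nat_lit 0) (nat_lit 622278678) (nat_lit 152) (nat_lit 622278678) (nat_lit 181) (nat_lit 1) (nat_lit 178) (nat_lit 1) (nat_lit 180) (nat_lit 1) (nat_lit 423) (nat_lit 337) (nat_lit 260))) (XT.nd (nat_lit 78) (nat_lit 152) (nat_lit 0) (XT.lf (nat_lit 304) (nat_lit 1209240562) (nat_lit 0) (nat_lit 100809199) (nat_lit 228) (nat_lit 100809199) (nat_lit 178) (nat_lit 1) (nat_lit 174) (nat_lit 1) (nat_lit 177) (nat_lit 1) (nat_lit 424) (nat_lit 337) (nat_lit 259)) (XT.nd (nat_lit 78) (nat_lit 152) (nat_lit 0) (XT.lf (nat_lit 76) (nat_lit 406979729) (nat_lit 0) (nat_lit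 581753920) (nat_lit 304) (nat_lit 406979729) (nat_lit 175) (nat_lit 1) (nat_lit 174) (nat_lit 1) (nat_lit 178) (nat_lit 1) (nat_lit 425) (nat_lit 337) (nat_lit 258)) (XT.lf (nat_lit 228) (nat_lit 424487926) (nat_lit 0) (nat_lit 478177441) (nat_lit 152) (nat_lit 478177441) (nat_lit 175) (nat_lit 1) (nat_lit 172) (nat_lit 1) (nat_lit 174) (nat_lit 1) (nat_lit 426) (nat_lit 337) (nat_lit 257)))))) (XT.nd (nat_lit 390) (nat_lit 304) (nat_lit 0) (XT.nd (nat_lit 156) (nat_lit 380) (nat_lit 0) (XT.nd (nat_lit 78) (nat_lit 228) (nat_lit 0) (XT.lf (nat_lit 76) (nat_lit 21078687) (nat_lit 0) (nat_lit 1324125576) (nat_lit 228) (nat_lit 21078687) (nat_lit 173) (nat_lit 1) (nat_lit 172) (nat_lit 1) (nat_lit 175) (nat_lit 1) (nat_lit 427) (nat_lit 337) (nat_lit 256)) (XT.lf (nat_lit 76) (nat_lit 508162745) (nat_lit 0) (nat_lit 335344938) (nat_lit 228) (nat_lit 508162745) (nat_lit 170) (nat_lit 1) (nat_lit 169) (nat_lit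 1) (nat_lit 172) (nat_lit 1) (nat_lit 428) (nat_lit 337) (nat_lit 255))) (XT.nd (nat_lit 78) (nat_lit 228) (nat_lit 0) (XT.lf (nat_lit 228) (nat_lit 632721325) (nat_lit 0) (nat_lit 352321352) (nat_lit 152) (nat_lit 352321352) (nat_lit 170) (nat_lit 1) (nat_lit 167) (nat_lit 1) (nat_lit 169) (nat_lit 1) (nat_lit 429) (nat_lit 337) (nat_lit 254)) (XT.nd (nat_lit 78) (nat_lit 228) (nat_lit 0) (XT.lf (nat_lit 76) (nat_lit 127012765) (nat_lit 0) (nat_lit 1069266330) (nat_lit 228) (nat_lit 127012765) (nat_lit 168) (nat_lit 1) (nat_lit 167) (nat_lit 1) (nat_lit 170) (nat_lit 1) (nat_lit 430) (nat_lit 337) (nat_lit 253)) (XT.lf (nat_lit 76) (nat_lit 593793616) (nat_lit 0) (nat_lit 121701201) (nat_lit 228) (nat_lit 593793616) (nat_lit 165) (nat_lit 1) (nat_lit 164) (nat_lit 1) (nat_lit 167) (nat_lit 1) (nat_lit 431) (nat_lit 337) (nat_lit 252))))) (XT.nd (nat_lit 156) (nat_lit 152) (nat_lit 0) (XT.nd (nat_lit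 78) (nat_lit 0) (nat_lit 0) (XT.lf (nat_lit 228) (nat_lit 810290238) (nat_lit 0) (nat_lit 242612462) (nat_lit 152) (nat_lit 242612462) (nat_lit 165) (nat_lit 1) (nat_lit 162) (nat_lit 1) (nat_lit 164) (nat_lit 1) (nat_lit 432) (nat_lit 337) (nat_lit 251)) (XT.lf (nat_lit 76) (nat_lit 217979900) (nat_lit 0) (nat_lit 845949583) (nat_lit 228) (nat_lit 217979900) (nat_lit 163) (nat_lit 1) (nat_lit 162) (nat_lit 1) (nat_lit 165) (nat_lit 1) (nat_lit 433) (nat_lit 337) (nat_lit 250))) (XT.nd (nat_lit 46098) (nat_lit 0) (nat_lit 16264) (XT.lf (nat_lit 228) (nat_lit 64238567) (nat_lit 0) (nat_lit 602109879) (nat_lit 152) (nat_lit 602109879) (nat_lit 163) (nat_lit 1) (nat_lit 160) (nat_lit 1) (nat_lit 162) (nat_lit 1) (nat_lit 434) (nat_lit 337) (nat_lit 249)) (XT.nd (nat_lit 78) (nat_lit 0) (nat_lit 0) (XT.lf (nat_lit 1292) (nat_lit 351552530) (nat_lit 0) (nat_lit 1209504199) (nat_lit 1292) (nat_lit 351552530)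 (nat_lit 391) (nat_lit 1) (nat_lit 374) (nat_lit 0) (nat_lit 391) (nat_lit 0) (nat_lit 344) (nat_lit 338) (nat_lit 338)) (XT.lf (nat_lit 1292) (nat_lit 1373873448) (nat_lit 76) (nat_lit 1197646315) (nat_lit 0) (nat_lit 1197646315) (nat_lit 391) (nat_lit 1) (nat_lit 375) (nat_lit 1) (nat_lit 374) (nat_lit 0) (nat_lit 345) (nat_lit 338) (nat_lit 337))))))))
noncomputable def ec54 : XT := (XT.nd (nat_lit 1482) (nat_lit 5776) (nat_lit 0) (XT.nd (nat_lit 702) (nat_lit 2204) (nat_lit 0) (XT.nd (nat_lit 312) (nat_lit 0) (nat_lit 152) (XT.nd (nat_lit 156) (nat_lit 0) (nat_lit 76) (XT.nd (nat_lit 78) (nat_lit 0) (nat_lit 0) (XT.lf (nat_lit 1292) (nat_lit 664437956) (nat_lit 0) (nat_lit 2385474125) (nat_lit 1216) (nat_lit 664437956) (nat_lit 392) (nat_lit 1) (nat_lit 375) (nat_lit 1) (nat_lit 391) (nat_lit 1) (nat_lit 346) (nat_lit 338) (nat_lit 336)) (XT.lf (nat_lit 1292) (nat_lit 1261801984) (nat_lit 76) (nat_lit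 1199323710) (nat_lit 0) (nat_lit 1199323710) (nat_lit 392) (nat_lit 1) (nat_lit 376) (nat_lit 1) (nat_lit 375) (nat_lit 1) (nat_lit 347) (nat_lit 338) (nat_lit 335))) (XT.nd (nat_lit 78) (nat_lit 0) (nat_lit 0) (XT.lf (nat_lit 1292) (nat_lit 592094288) (nat_lit 0) (nat_lit 2423566242) (nat_lit 1216) (nat_lit 592094288) (nat_lit 393) (nat_lit 1) (nat_lit 376) (nat_lit 1) (nat_lit 392) (nat_lit 1) (nat_lit 348) (nat_lit 338) (nat_lit 334)) (XT.lf (nat_lit 1292) (nat_lit 1085075300) (nat_lit 76) (nat_lit 1235413836) (nat_lit 0) (nat_lit 1235413836) (nat_lit 393) (nat_lit 1) (nat_lit 377) (nat_lit 1) (nat_lit 376) (nat_lit 1) (nat_lit 349) (nat_lit 338) (nat_lit 333)))) (XT.nd (nat_lit 156) (nat_lit 0) (nat_lit 76) (XT.nd (nat_lit 78) (nat_lit 0) (nat_lit 0) (XT.lf (nat_lit 1292) (nat_lit 489052749) (nat_lit 0) (nat_lit 2527142965) (nat_lit 1216) (nat_lit 489052749) (nat_lit 394) (nat_lit 1) (nat_lit 377)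 (nat_lit 1) (nat_lit 393) (nat_lit 1) (nat_lit 350) (nat_lit 338) (nat_lit 332)) (XT.lf (nat_lit 1292) (nat_lit 849475410) (nat_lit 76) (nat_lit 1302936144) (nat_lit 0) (nat_lit 1302936144) (nat_lit 394) (nat_lit 1) (nat_lit 378) (nat_lit 1) (nat_lit 377) (nat_lit 1) (nat_lit 351) (nat_lit 338) (nat_lit 331))) (XT.nd (nat_lit 78) (nat_lit 0) (nat_lit 0) (XT.lf (nat_lit 1292) (nat_lit 358090591) (nat_lit 0) (nat_lit 2690474203) (nat_lit 1216) (nat_lit 358090591) (nat_lit 395) (nat_lit 1) (nat_lit 378) (nat_lit 1) (nat_lit 394) (nat_lit 1) (nat_lit 352) (nat_lit 338) (nat_lit 330)) (XT.nd (nat_lit 78) (nat_lit 0) (nat_lit 76) (XT.lf (nat_lit 1292) (nat_lit 560392112) (nat_lit 76) (nat_lit 1399110457) (nat_lit 0) (nat_lit 1399110457) (nat_lit 395) (nat_lit 1) (nat_lit 379) (nat_lit 1) (nat_lit 378) (nat_lit 1) (nat_lit 353) (nat_lit 338) (nat_lit 329)) (XT.lf (nat_lit 1292) (nat_lit 201796075) (nat_lit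 0) (nat_lit 2908216202) (nat_lit 1216) (nat_lit 201796075) (nat_lit 396) (nat_lit 1) (nat_lit 379) (nat_lit 1) (nat_lit 395) (nat_lit 1) (nat_lit 354) (nat_lit 338) (nat_lit 328)))))) (XT.nd (nat_lit 390) (nat_lit 1292) (nat_lit 0) (XT.nd (nat_lit 156) (nat_lit 1216) (nat_lit 0) (XT.nd (nat_lit 78) (nat_lit 0) (nat_lit 76) (XT.lf (nat_lit 1292) (nat_lit 222847255) (nat_lit 76) (nat_lit 1521344612) (nat_lit 0) (nat_lit 1521344612) (nat_lit 396) (nat_lit 1) (nat_lit 380) (nat_lit 1) (nat_lit 379) (nat_lit 1) (nat_lit 355) (nat_lit 338) (nat_lit 327)) (XT.lf (nat_lit 1292) (nat_lit 22580182) (nat_lit 0) (nat_lit 3175387700) (nat_lit 1216) (nat_lit 22580182) (nat_lit 397) (nat_lit 1) (nat_lit 380) (nat_lit 1) (nat_lit 396) (nat_lit 1) (nat_lit 356) (nat_lit 338) (nat_lit 326))) (XT.nd (nat_lit 78) (nat_lit 0) (nat_lit 0) (XT.lf (nat_lit 1368) (nat_lit 1510263845) (nat_lit 0) (nat_lit 155389866) (nat_lit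 1292) (nat_lit 1510263845) (nat_lit 381) (nat_lit 1) (nat_lit 363) (nat_lit 1) (nat_lit 380) (nat_lit 1) (nat_lit 357) (nat_lit 338) (nat_lit 325)) (XT.nd (nat_lit 78) (nat_lit 0) (nat_lit 76) (XT.lf (nat_lit 1368) (nat_lit 2781369142) (nat_lit 76) (nat_lit 175574017) (nat_lit 0) (nat_lit 175574017) (nat_lit 381) (nat_lit 1) (nat_lit 364) (nat_lit 1) (nat_lit 363) (nat_lit 1) (nat_lit 358) (nat_lit 338) (nat_lit 324)) (XT.lf (nat_lit 1368) (nat_lit 1260819034) (nat_lit 0) (nat_lit 567940730) (nat_lit 1292) (nat_lit 1260819034) (nat_lit 382) (nat_lit 1) (nat_lit 364) (nat_lit 1) (nat_lit 381) (nat_lit 1) (nat_lit 359) (nat_lit 338) (nat_lit 323))))) (XT.nd (nat_lit 156) (nat_lit 1368) (nat_lit 0) (XT.nd (nat_lit 78) (nat_lit 0) (nat_lit 76) (XT.lf (nat_lit 1368) (nat_lit 2263903931) (nat_lit 76) (nat_lit 391912473) (nat_lit 0) (nat_lit 391912473) (nat_lit 382) (nat_lit 1) (nat_lit 365) (nat_lit 1) (nat_lit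 364) (nat_lit 1) (nat_lit 360) (nat_lit 338) (nat_lit 322)) (XT.lf (nat_lit 76) (nat_lit 995630862) (nat_lit 0) (nat_lit 1015183302) (nat_lit 1292) (nat_lit 995630862) (nat_lit 366) (nat_lit 1) (nat_lit 365) (nat_lit 1) (nat_lit 382) (nat_lit 1) (nat_lit 361) (nat_lit 338) (nat_lit 321))) (XT.nd (nat_lit 78) (nat_lit 608) (nat_lit 0) (XT.lf (nat_lit 912) (nat_lit 1716607773) (nat_lit 0) (nat_lit 624732977) (nat_lit 836) (nat_lit 624732977) (nat_lit 366) (nat_lit 1) (nat_lit 354) (nat_lit 1) (nat_lit 365) (nat_lit 1) (nat_lit 362) (nat_lit 338) (nat_lit 320)) (XT.nd (nat_lit 78) (nat_lit 608) (nat_lit 0) (XT.lf (nat_lit 76) (nat_lit 716478668) (nat_lit 0) (nat_lit 1493425926) (nat_lit 912) (nat_lit 716478668) (nat_lit 355) (nat_lit 1) (nat_lit 354) (nat_lit 1) (nat_lit 366) (nat_lit 1) (nat_lit 363) (nat_lit 338) (nat_lit 319)) (XT.lf (nat_lit 684) (nat_lit 1142927132) (nat_lit 0) (nat_lit 872247624)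 (nat_lit 608) (nat_lit 872247624) (nat_lit 355) (nat_lit 1) (nat_lit 346) (nat_lit 1) (nat_lit 354) (nat_lit 1) (nat_lit 364) (nat_lit 338) (nat_lit 318))))))) (XT.nd (nat_lit 702) (nat_lit 2888) (nat_lit 0) (XT.nd (nat_lit 312) (nat_lit 1672) (nat_lit 0) (XT.nd (nat_lit 156) (nat_lit 608) (nat_lit 0) (XT.nd (nat_lit 78) (nat_lit 608) (nat_lit 0) (XT.lf (nat_lit 76) (nat_lit 425014149) (nat_lit 0) (nat_lit 1999238386) (nat_lit 684) (nat_lit 425014149) (nat_lit 347) (nat_lit 1) (nat_lit 346) (nat_lit 1) (nat_lit 355) (nat_lit 1) (nat_lit 365) (nat_lit 338) (nat_lit 317)) (XT.lf (nat_lit 684) (nat_lit 546060123) (nat_lit 0) (nat_lit 1132795656) (nat_lit 608) (nat_lit 1132795656) (nat_lit 347) (nat_lit 1) (nat_lit 338) (nat_lit 1) (nat_lit 346) (nat_lit 1) (nat_lit 366) (nat_lit 338) (nat_lit 316))) (XT.nd (nat_lit 78) (nat_lit 608) (nat_lit 0) (XT.lf (nat_lit 76) (nat_lit 122769427) (nat_lit 0) (nat_lit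 2529435451) (nat_lit 684) (nat_lit 122769427) (nat_lit 339) (nat_lit 1) (nat_lit 338) (nat_lit 1) (nat_lit 347) (nat_lit 1) (nat_lit 367) (nat_lit 338) (nat_lit 315)) (XT.lf (nat_lit 76) (nat_lit 1334490463) (nat_lit 0) (nat_lit 69641748) (nat_lit 608) (nat_lit 1334490463) (nat_lit 331) (nat_lit 1) (nat_lit 330) (nat_lit 1) (nat_lit 338) (nat_lit 1) (nat_lit 368) (nat_lit 338) (nat_lit 314)))) (XT.nd (nat_lit 156) (nat_lit 1064) (nat_lit 0) (XT.nd (nat_lit 78) (nat_lit 0) (nat_lit 0) (XT.lf (nat_lit 684) (nat_lit 2329203678) (nat_lit 0) (nat_lit 186984039) (nat_lit 608) (nat_lit 186984039) (nat_lit 331) (nat_lit 1) (nat_lit 322) (nat_lit 1) (nat_lit 330) (nat_lit 1) (nat_lit 369) (nat_lit 338) (nat_lit 313)) (XT.lf (nat_lit 76) (nat_lit 988130716) (nat_lit 0) (nat_lit 691820266) (nat_lit 684) (nat_lit 988130716) (nat_lit 323) (nat_lit 1) (nat_lit 322) (nat_lit 1) (nat_lit 331) (nat_lit 1) (nat_lit 370)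 (nat_lit 338) (nat_lit 312))) (XT.nd (nat_lit 78) (nat_lit 532) (nat_lit 0) (XT.lf (nat_lit 608) (nat_lit 1626816505) (nat_lit 0) (nat_lit 503499812) (nat_lit 532) (nat_lit 503499812) (nat_lit 323) (nat_lit 1) (nat_lit 315) (nat_lit 1) (nat_lit 322) (nat_lit 1) (nat_lit 371) (nat_lit 338) (nat_lit 311)) (XT.nd (nat_lit 78) (nat_lit 532) (nat_lit 0) (XT.lf (nat_lit 76) (nat_lit 635721246) (nat_lit 0) (nat_lit 1328636957) (nat_lit 608) (nat_lit 635721246) (nat_lit 316) (nat_lit 1) (nat_lit 315) (nat_lit 1) (nat_lit 323) (nat_lit 1) (nat_lit 372) (nat_lit 338) (nat_lit 310)) (XT.lf (nat_lit 608) (nat_lit 913393325) (nat_lit 0) (nat_lit 826776335) (nat_lit 532) (nat_lit 826776335) (nat_lit 316) (nat_lit 1) (nat_lit 308) (nat_lit 1) (nat_lit 315) (nat_lit 1) (nat_lit 373) (nat_lit 338) (nat_lit 309)))))) (XT.nd (nat_lit 390) (nat_lit 1368) (nat_lit 0) (XT.nd (nat_lit 156) (nat_lit 1064) (nat_lit 0) (XT.nd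 (nat_lit 78) (nat_lit 456) (nat_lit 0) (XT.lf (nat_lit 76) (nat_lit 278364638) (nat_lit 0) (nat_lit 1977784916) (nat_lit 608) (nat_lit 278364638) (nat_lit 309) (nat_lit 1) (nat_lit 308) (nat_lit 1) (nat_lit 316) (nat_lit 1) (nat_lit 374) (nat_lit 338) (nat_lit 308)) (XT.lf (nat_lit 532) (nat_lit 191063454) (nat_lit 0) (nat_lit 1155699396) (nat_lit 456) (nat_lit 1155699396) (nat_lit 309) (nat_lit 1) (nat_lit 302) (nat_lit 1) (nat_lit 308) (nat_lit 1) (nat_lit 375) (nat_lit 338) (nat_lit 307))) (XT.nd (nat_lit 78) (nat_lit 456) (nat_lit 0) (XT.lf (nat_lit 608) (nat_lit 2306974913) (nat_lit 0) (nat_lit 82108853) (nat_lit 532) (nat_lit 82108853) (nat_lit 302) (nat_lit 1) (nat_lit 294) (nat_lit 1) (nat_lit 301) (nat_lit 1) (nat_lit 376) (nat_lit 338) (nat_lit 306)) (XT.nd (nat_lit 78) (nat_lit 456) (nat_lit 0) (XT.lf (nat_lit 76) (nat_lit 956203899) (nat_lit 0) (nat_lit 527707183) (nat_lit 608) (nat_lit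 956203899) (nat_lit 295) (nat_lit 1) (nat_lit 294) (nat_lit 1) (nat_lit 302) (nat_lit 1) (nat_lit 377) (nat_lit 338) (nat_lit 305)) (XT.lf (nat_lit 532) (nat_lit 1524159331) (nat_lit 0) (nat_lit 442816250) (nat_lit 456) (nat_lit 442816250) (nat_lit 295) (nat_lit 1) (nat_lit 288) (nat_lit 1) (nat_lit 294) (nat_lit 1) (nat_lit 378) (nat_lit 338) (nat_lit 304))))) (XT.nd (nat_lit 156) (nat_lit 912) (nat_lit 0) (XT.nd (nat_lit 78) (nat_lit 456) (nat_lit 0) (XT.lf (nat_lit 76) (nat_lit 566064192) (nat_lit 0) (nat_lit 1247783960) (nat_lit 532) (nat_lit 566064192) (nat_lit 289) (nat_lit 1) (nat_lit 288) (nat_lit 1) (nat_lit 295) (nat_lit 1) (nat_lit 379) (nat_lit 338) (nat_lit 303)) (XT.lf (nat_lit 532) (nat_lit 739282640) (nat_lit 0) (nat_lit 805632095) (nat_lit 456) (nat_lit 805632095) (nat_lit 289) (nat_lit 1) (nat_lit 282) (nat_lit 1) (nat_lit 288) (nat_lit 1) (nat_lit 380) (nat_lit 338) (nat_lit 302)))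 (XT.nd (nat_lit 78) (nat_lit 912) (nat_lit 0) (XT.lf (nat_lit 76) (nat_lit 175279686) (nat_lit 0) (nat_lit 1971264053) (nat_lit 532) (nat_lit 175279686) (nat_lit 283) (nat_lit 1) (nat_lit 282) (nat_lit 1) (nat_lit 289) (nat_lit 1) (nat_lit 381) (nat_lit 338) (nat_lit 301)) (XT.nd (nat_lit 78) (nat_lit 456) (nat_lit 0) (XT.lf (nat_lit 76) (nat_lit 1124046673) (nat_lit 0) (nat_lit 45267070) (nat_lit 456) (nat_lit 1124046673) (nat_lit 277) (nat_lit 1) (nat_lit 276) (nat_lit 1) (nat_lit 282) (nat_lit 1) (nat_lit 382) (nat_lit 338) (nat_lit 300)) (XT.lf (nat_lit 532) (nat_lit 1838857507) (nat_lit 0) (nat_lit 213329351) (nat_lit 456) (nat_lit 213329351) (nat_lit 277) (nat_lit 1) (nat_lit 270) (nat_lit 1) (nat_lit 276) (nat_lit 1) (nat_lit 383) (nat_lit 338) (nat_lit 299))))))))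
noncomputable def ec55 : XT := (XT.nd (nat_lit 1482) (nat_lit 3040) (nat_lit 0) (XT.nd (nat_lit 702) (nat_lit 2052) (nat_lit 0) (XT.nd (nat_lit 312) (nat_lit 1140) (nat_lit 0) (XT.nd (nat_lit 156) (nat_lit 380) (nat_lit 0) (XT.nd (nat_lit 78) (nat_lit 380) (nat_lit 0) (XT.lf (nat_lit 76) (nat_lit 711667324) (nat_lit 0) (nat_lit 814618066) (nat_lit 532) (nat_lit 711667324) (nat_lit 271) (nat_lit 1) (nat_lit 270) (nat_lit 1) (nat_lit 277) (nat_lit 1) (nat_lit 384) (nat_lit 338) (nat_lit 298)) (XT.lf (nat_lit 456) (nat_lit 1011927946) (nat_lit 0) (nat_lit 599515739) (nat_lit 380) (nat_lit 599515739) (nat_lit 271) (nat_lit 1) (nat_lit 265) (nat_lit 1) (nat_lit 270) (nat_lit 1) (nat_lit 385) (nat_lit 338) (nat_lit 297))) (XT.nd (nat_lit 78) (nat_lit 380) (nat_lit 0) (XT.lf (nat_lit 76) (nat_lit 301242437) (nat_lit 0) (nat_lit 1581975653) (nat_lit 456) (nat_lit 301242437) (nat_lit 266) (nat_lit 1) (nat_lit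 265) (nat_lit 1) (nat_lit 271) (nat_lit 1) (nat_lit 386) (nat_lit 338) (nat_lit 296)) (XT.lf (nat_lit 456) (nat_lit 189457764) (nat_lit 0) (nat_lit 984411972) (nat_lit 380) (nat_lit 984411972) (nat_lit 266) (nat_lit 1) (nat_lit 260) (nat_lit 1) (nat_lit 265) (nat_lit 1) (nat_lit 387) (nat_lit 338) (nat_lit 295)))) (XT.nd (nat_lit 156) (nat_lit 684) (nat_lit 0) (XT.nd (nat_lit 78) (nat_lit 0) (nat_lit 0) (XT.lf (nat_lit 456) (nat_lit 1921364091) (nat_lit 0) (nat_lit 105661471) (nat_lit 380) (nat_lit 105661471) (nat_lit 260) (nat_lit 1) (nat_lit 254) (nat_lit 1) (nat_lit 259) (nat_lit 1) (nat_lit 388) (nat_lit 338) (nat_lit 294)) (XT.lf (nat_lit 76) (nat_lit 745960140) (nat_lit 0) (nat_lit 615310430) (nat_lit 456) (nat_lit 745960140) (nat_lit 255) (nat_lit 1) (nat_lit 254) (nat_lit 1) (nat_lit 260) (nat_lit 1) (nat_lit 389) (nat_lit 338) (nat_lit 293))) (XT.nd (nat_lit 78) (nat_lit 304) (nat_lit 0) (XT.lf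 (nat_lit 456) (nat_lit 1068952089) (nat_lit 0) (nat_lit 506694021) (nat_lit 380) (nat_lit 506694021) (nat_lit 255) (nat_lit 1) (nat_lit 249) (nat_lit 1) (nat_lit 254) (nat_lit 1) (nat_lit 390) (nat_lit 338) (nat_lit 292)) (XT.nd (nat_lit 78) (nat_lit 304) (nat_lit 0) (XT.lf (nat_lit 76) (nat_lit 323859837) (nat_lit 0) (nat_lit 1410146584) (nat_lit 456) (nat_lit 323859837) (nat_lit 250) (nat_lit 1) (nat_lit 249) (nat_lit 1) (nat_lit 255) (nat_lit 1) (nat_lit 391) (nat_lit 338) (nat_lit 291)) (XT.lf (nat_lit 380) (nat_lit 224931198) (nat_lit 0) (nat_lit 904385674) (nat_lit 304) (nat_lit 904385674) (nat_lit 250) (nat_lit 1) (nat_lit 245) (nat_lit 1) (nat_lit 249) (nat_lit 1) (nat_lit 392) (nat_lit 338) (nat_lit 290)))))) (XT.nd (nat_lit 390) (nat_lit 988) (nat_lit 0) (XT.nd (nat_lit 156) (nat_lit 608) (nat_lit 0) (XT.nd (nat_lit 78) (nat_lit 0) (nat_lit 0) (XT.lf (nat_lit 456) (nat_lit 1824139716) (nat_lit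 0) (nat_lit 92964604) (nat_lit 380) (nat_lit 92964604) (nat_lit 245) (nat_lit 1) (nat_lit 239) (nat_lit 1) (nat_lit 244) (nat_lit 1) (nat_lit 393) (nat_lit 338) (nat_lit 289)) (XT.lf (nat_lit 76) (nat_lit 694219231) (nat_lit 0) (nat_lit 598096177) (nat_lit 456) (nat_lit 694219231) (nat_lit 240) (nat_lit 1) (nat_lit 239) (nat_lit 1) (nat_lit 245) (nat_lit 1) (nat_lit 394) (nat_lit 338) (nat_lit 288))) (XT.nd (nat_lit 78) (nat_lit 304) (nat_lit 0) (XT.lf (nat_lit 380) (nat_lit 959563850) (nat_lit 0) (nat_lit 501975592) (nat_lit 304) (nat_lit 501975592) (nat_lit 240) (nat_lit 1) (nat_lit 235) (nat_lit 1) (nat_lit 239) (nat_lit 1) (nat_lit 395) (nat_lit 338) (nat_lit 287)) (XT.nd (nat_lit 78) (nat_lit 304) (nat_lit 0) (XT.lf (nat_lit 76) (nat_lit 266840049) (nat_lit 0) (nat_lit 1407209086) (nat_lit 380) (nat_lit 266840049) (nat_lit 236) (nat_lit 1) (nat_lit 235) (nat_lit 1) (nat_lit 240) (nat_lit 1) (nat_lit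 396) (nat_lit 338) (nat_lit 286)) (XT.lf (nat_lit 380) (nat_lit 106404559) (nat_lit 0) (nat_lit 906057975) (nat_lit 304) (nat_lit 906057975) (nat_lit 236) (nat_lit 1) (nat_lit 231) (nat_lit 1) (nat_lit 235) (nat_lit 1) (nat_lit 397) (nat_lit 338) (nat_lit 285))))) (XT.nd (nat_lit 156) (nat_lit 608) (nat_lit 0) (XT.nd (nat_lit 78) (nat_lit 0) (nat_lit 0) (XT.lf (nat_lit 380) (nat_lit 1590147813) (nat_lit 0) (nat_lit 153222728) (nat_lit 304) (nat_lit 153222728) (nat_lit 231) (nat_lit 1) (nat_lit 226) (nat_lit 1) (nat_lit 230) (nat_lit 1) (nat_lit 398) (nat_lit 338) (nat_lit 284)) (XT.lf (nat_lit 76) (nat_lit 577138001) (nat_lit 0) (nat_lit 720540328) (nat_lit 380) (nat_lit 577138001) (nat_lit 227) (nat_lit 1) (nat_lit 226) (nat_lit 1) (nat_lit 231) (nat_lit 1) (nat_lit 399) (nat_lit 338) (nat_lit 283))) (XT.nd (nat_lit 78) (nat_lit 304) (nat_lit 0) (XT.lf (nat_lit 380) (nat_lit 724035367) (nat_lit 0)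 (nat_lit 564716277) (nat_lit 304) (nat_lit 564716277) (nat_lit 227) (nat_lit 1) (nat_lit 222) (nat_lit 1) (nat_lit 226) (nat_lit 1) (nat_lit 400) (nat_lit 338) (nat_lit 282)) (XT.nd (nat_lit 78) (nat_lit 304) (nat_lit 0) (XT.lf (nat_lit 76) (nat_lit 149578672) (nat_lit 0) (nat_lit 1533375169) (nat_lit 380) (nat_lit 149578672) (nat_lit 223) (nat_lit 1) (nat_lit 222) (nat_lit 1) (nat_lit 227) (nat_lit 1) (nat_lit 401) (nat_lit 338) (nat_lit 281)) (XT.lf (nat_lit 76) (nat_lit 842929225) (nat_lit 0) (nat_lit 125873547) (nat_lit 304) (nat_lit 842929225) (nat_lit 219) (nat_lit 1) (nat_lit 218) (nat_lit 1) (nat_lit 222) (nat_lit 1) (nat_lit 402) (nat_lit 338) (nat_lit 280))))))) (XT.nd (nat_lit 702) (nat_lit 1368) (nat_lit 0) (XT.nd (nat_lit 312) (nat_lit 760) (nat_lit 0) (XT.nd (nat_lit 156) (nat_lit 608) (nat_lit 0) (XT.nd (nat_lit 78) (nat_lit 0) (nat_lit 0) (XT.lf (nat_lit 380) (nat_lit 1254457497) (nat_lit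 0) (nat_lit 268437760) (nat_lit 304) (nat_lit 268437760) (nat_lit 219) (nat_lit 1) (nat_lit 214) (nat_lit 1) (nat_lit 218) (nat_lit 1) (nat_lit 403) (nat_lit 338) (nat_lit 279)) (XT.lf (nat_lit 76) (nat_lit 411600623) (nat_lit 0) (nat_lit 947965175) (nat_lit 380) (nat_lit 411600623) (nat_lit 215) (nat_lit 1) (nat_lit 214) (nat_lit 1) (nat_lit 219) (nat_lit 1) (nat_lit 404) (nat_lit 338) (nat_lit 278))) (XT.nd (nat_lit 78) (nat_lit 380) (nat_lit 0) (XT.lf (nat_lit 304) (nat_lit 395212084) (nat_lit 0) (nat_lit 678052214) (nat_lit 228) (nat_lit 678052214) (nat_lit 215) (nat_lit 1) (nat_lit 211) (nat_lit 1) (nat_lit 214) (nat_lit 1) (nat_lit 405) (nat_lit 338) (nat_lit 277)) (XT.lf (nat_lit 380) (nat_lit 1707929870) (nat_lit 0) (nat_lit 11993436) (nat_lit 304) (nat_lit 11993436) (nat_lit 211) (nat_lit 1) (nat_lit 206) (nat_lit 1) (nat_lit 210) (nat_lit 1) (nat_lit 406) (nat_lit 338) (nat_lit 276)))) (XT.nd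 (nat_lit 156) (nat_lit 532) (nat_lit 0) (XT.nd (nat_lit 78) (nat_lit 228) (nat_lit 0) (XT.lf (nat_lit 76) (nat_lit 636286202) (nat_lit 0) (nat_lit 439906429) (nat_lit 380) (nat_lit 636286202) (nat_lit 207) (nat_lit 1) (nat_lit 206) (nat_lit 1) (nat_lit 211) (nat_lit 1) (nat_lit 407) (nat_lit 338) (nat_lit 275)) (XT.lf (nat_lit 304) (nat_lit 845582445) (nat_lit 0) (nat_lit 423949507) (nat_lit 228) (nat_lit 423949507) (nat_lit 207) (nat_lit 1) (nat_lit 203) (nat_lit 1) (nat_lit 206) (nat_lit 1) (nat_lit 408) (nat_lit 338) (nat_lit 274))) (XT.nd (nat_lit 78) (nat_lit 532) (nat_lit 0) (XT.lf (nat_lit 76) (nat_lit 211328491) (nat_lit 0) (nat_lit 1252136578) (nat_lit 304) (nat_lit 211328491) (nat_lit 204) (nat_lit 1) (nat_lit 203) (nat_lit 1) (nat_lit 207) (nat_lit 1) (nat_lit 409) (nat_lit 338) (nat_lit 273)) (XT.nd (nat_lit 78) (nat_lit 228) (nat_lit 0) (XT.lf (nat_lit 76) (nat_lit 828035330) (nat_lit 0)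 (nat_lit 221697) (nat_lit 304) (nat_lit 828035330) (nat_lit 200) (nat_lit 1) (nat_lit 199) (nat_lit 1) (nat_lit 203) (nat_lit 1) (nat_lit 410) (nat_lit 338) (nat_lit 272)) (XT.lf (nat_lit 304) (nat_lit 1231329466) (nat_lit 0) (nat_lit 203381313) (nat_lit 228) (nat_lit 203381313) (nat_lit 200) (nat_lit 1) (nat_lit 196) (nat_lit 1) (nat_lit 199) (nat_lit 1) (nat_lit 411) (nat_lit 338) (nat_lit 271)))))) (XT.nd (nat_lit 390) (nat_lit 608) (nat_lit 0) (XT.nd (nat_lit 156) (nat_lit 532) (nat_lit 0) (XT.nd (nat_lit 78) (nat_lit 228) (nat_lit 0) (XT.lf (nat_lit 76) (nat_lit 403383997) (nat_lit 0) (nat_lit 813298852) (nat_lit 304) (nat_lit 403383997) (nat_lit 197) (nat_lit 1) (nat_lit 196) (nat_lit 1) (nat_lit 200) (nat_lit 1) (nat_lit 412) (nat_lit 338) (nat_lit 270)) (XT.lf (nat_lit 304) (nat_lit 386598871) (nat_lit 0) (nat_lit 607867748) (nat_lit 228) (nat_lit 607867748) (nat_lit 197) (nat_lit 1) (nat_lit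 193) (nat_lit 1) (nat_lit 196) (nat_lit 1) (nat_lit 413) (nat_lit 338) (nat_lit 269))) (XT.nd (nat_lit 78) (nat_lit 228) (nat_lit 0) (XT.lf (nat_lit 304) (nat_lit 1560078938) (nat_lit 0) (nat_lit 12456679) (nat_lit 228) (nat_lit 12456679) (nat_lit 193) (nat_lit 1) (nat_lit 189) (nat_lit 1) (nat_lit 192) (nat_lit 1) (nat_lit 414) (nat_lit 338) (nat_lit 268)) (XT.nd (nat_lit 78) (nat_lit 228) (nat_lit 0) (XT.lf (nat_lit 76) (nat_lit 567742591) (nat_lit 0) (nat_lit 432112020) (nat_lit 304) (nat_lit 567742591) (nat_lit 190) (nat_lit 1) (nat_lit 189) (nat_lit 1) (nat_lit 193) (nat_lit 1) (nat_lit 415) (nat_lit 338) (nat_lit 267)) (XT.lf (nat_lit 304) (nat_lit 719021844) (nat_lit 0) (nat_lit 415781764) (nat_lit 228) (nat_lit 415781764) (nat_lit 190) (nat_lit 1) (nat_lit 186) (nat_lit 1) (nat_lit 189) (nat_lit 1) (nat_lit 416) (nat_lit 338) (nat_lit 266))))) (XT.nd (nat_lit 156) (nat_lit 380) (nat_lit 0) (XT.nd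 (nat_lit 78) (nat_lit 228) (nat_lit 0) (XT.lf (nat_lit 76) (nat_lit 153784738) (nat_lit 0) (nat_lit 1226292205) (nat_lit 304) (nat_lit 153784738) (nat_lit 187) (nat_lit 1) (nat_lit 186) (nat_lit 1) (nat_lit 190) (nat_lit 1) (nat_lit 417) (nat_lit 338) (nat_lit 265)) (XT.lf (nat_lit 76) (nat_lit 707675759) (nat_lit 0) (nat_lit 101893433) (nat_lit 228) (nat_lit 707675759) (nat_lit 184) (nat_lit 1) (nat_lit 183) (nat_lit 1) (nat_lit 186) (nat_lit 1) (nat_lit 418) (nat_lit 338) (nat_lit 264))) (XT.nd (nat_lit 78) (nat_lit 152) (nat_lit 0) (XT.lf (nat_lit 304) (nat_lit 1003437473) (nat_lit 0) (nat_lit 248736269) (nat_lit 228) (nat_lit 248736269) (nat_lit 184) (nat_lit 1) (nat_lit 180) (nat_lit 1) (nat_lit 183) (nat_lit 1) (nat_lit 419) (nat_lit 338) (nat_lit 263)) (XT.nd (nat_lit 78) (nat_lit 152) (nat_lit 0) (XT.lf (nat_lit 76) (nat_lit 296792950) (nat_lit 0) (nat_lit 891175578) (nat_lit 304) (nat_lit 296792950)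 (nat_lit 181) (nat_lit 1) (nat_lit 180) (nat_lit 1) (nat_lit 184) (nat_lit 1) (nat_lit 420) (nat_lit 338) (nat_lit 262)) (XT.lf (nat_lit 228) (nat_lit 186934736) (nat_lit 0) (nat_lit 640947038) (nat_lit 152) (nat_lit 640947038) (nat_lit 181) (nat_lit 1) (nat_lit 178) (nat_lit 1) (nat_lit 180) (nat_lit 1) (nat_lit 421) (nat_lit 338) (nat_lit 261))))))))
noncomputable def ec56 : XT := (XT.nd (nat_lit 47268) (nat_lit 0) (nat_lit 13756) (XT.nd (nat_lit 702) (nat_lit 380) (nat_lit 0) (XT.nd (nat_lit 312) (nat_lit 760) (nat_lit 0) (XT.nd (nat_lit 156) (nat_lit 152) (nat_lit 0) (XT.nd (nat_lit 78) (nat_lit 0) (nat_lit 0) (XT.lf (nat_lit 304) (nat_lit 1245517779) (nat_lit 0) (nat_lit 103833475) (nat_lit 228) (nat_lit 103833475) (nat_lit 178) (nat_lit 1) (nat_lit 174) (nat_lit 1) (nat_lit 177) (nat_lit 1) (nat_lit 422) (nat_lit 338) (nat_lit 260)) (XT.lf (nat_lit 76) (nat_lit 419189120) (nat_lit 0) (nat_lit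 599206538) (nat_lit 304) (nat_lit 419189120) (nat_lit 175) (nat_lit 1) (nat_lit 174) (nat_lit 1) (nat_lit 178) (nat_lit 1) (nat_lit 423) (nat_lit 338) (nat_lit 259))) (XT.nd (nat_lit 78) (nat_lit 0) (nat_lit 0) (XT.lf (nat_lit 228) (nat_lit 437222563) (nat_lit 0) (nat_lit 492522764) (nat_lit 152) (nat_lit 492522764) (nat_lit 175) (nat_lit 1) (nat_lit 172) (nat_lit 1) (nat_lit 174) (nat_lit 1) (nat_lit 424) (nat_lit 338) (nat_lit 258)) (XT.lf (nat_lit 76) (nat_lit 21711047) (nat_lit 0) (nat_lit 1363849343) (nat_lit 228) (nat_lit 21711047) (nat_lit 173) (nat_lit 1) (nat_lit 172) (nat_lit 1) (nat_lit 175) (nat_lit 1) (nat_lit 425) (nat_lit 338) (nat_lit 257)))) (XT.nd (nat_lit 156) (nat_lit 380) (nat_lit 0) (XT.nd (nat_lit 78) (nat_lit 152) (nat_lit 0) (XT.lf (nat_lit 76) (nat_lit 523407627) (nat_lit 0) (nat_lit 345405286) (nat_lit 228) (nat_lit 523407627) (nat_lit 170) (nat_lit 1) (nat_lit 169) (nat_lit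 1) (nat_lit 172) (nat_lit 1) (nat_lit 426) (nat_lit 338) (nat_lit 256)) (XT.lf (nat_lit 228) (nat_lit 651702965) (nat_lit 0) (nat_lit 362890993) (nat_lit 152) (nat_lit 362890993) (nat_lit 170) (nat_lit 1) (nat_lit 167) (nat_lit 1) (nat_lit 169) (nat_lit 1) (nat_lit 427) (nat_lit 338) (nat_lit 255))) (XT.nd (nat_lit 78) (nat_lit 380) (nat_lit 0) (XT.lf (nat_lit 76) (nat_lit 130823147) (nat_lit 0) (nat_lit 1101344320) (nat_lit 228) (nat_lit 130823147) (nat_lit 168) (nat_lit 1) (nat_lit 167) (nat_lit 1) (nat_lit 170) (nat_lit 1) (nat_lit 428) (nat_lit 338) (nat_lit 254)) (XT.nd (nat_lit 78) (nat_lit 152) (nat_lit 0) (XT.lf (nat_lit 76) (nat_lit 611607425) (nat_lit 0) (nat_lit 125352237) (nat_lit 228) (nat_lit 611607425) (nat_lit 165) (nat_lit 1) (nat_lit 164) (nat_lit 1) (nat_lit 167) (nat_lit 1) (nat_lit 429) (nat_lit 338) (nat_lit 253)) (XT.lf (nat_lit 228) (nat_lit 834598945) (nat_lit 0) (nat_lit 249890836)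 (nat_lit 152) (nat_lit 249890836) (nat_lit 165) (nat_lit 1) (nat_lit 162) (nat_lit 1) (nat_lit 164) (nat_lit 1) (nat_lit 430) (nat_lit 338) (nat_lit 252)))))) (XT.nd (nat_lit 46176) (nat_lit 0) (nat_lit 16492) (XT.nd (nat_lit 156) (nat_lit 228) (nat_lit 0) (XT.nd (nat_lit 78) (nat_lit 152) (nat_lit 0) (XT.lf (nat_lit 76) (nat_lit 224519297) (nat_lit 0) (nat_lit 871328070) (nat_lit 228) (nat_lit 224519297) (nat_lit 163) (nat_lit 1) (nat_lit 162) (nat_lit 1) (nat_lit 165) (nat_lit 1) (nat_lit 431) (nat_lit 338) (nat_lit 251)) (XT.lf (nat_lit 228) (nat_lit 66165724) (nat_lit 0) (nat_lit 620173176) (nat_lit 152) (nat_lit 620173176) (nat_lit 163) (nat_lit 1) (nat_lit 160) (nat_lit 1) (nat_lit 162) (nat_lit 1) (nat_lit 432) (nat_lit 338) (nat_lit 250))) (XT.nd (nat_lit 78) (nat_lit 0) (nat_lit 0) (XT.lf (nat_lit 228) (nat_lit 989655888) (nat_lit 0) (nat_lit 151604275) (nat_lit 152) (nat_lit 151604275) (nat_lit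 160) (nat_lit 1) (nat_lit 157) (nat_lit 1) (nat_lit 159) (nat_lit 1) (nat_lit 433) (nat_lit 338) (nat_lit 249)) (XT.lf (nat_lit 76) (nat_lit 304613190) (nat_lit 0) (nat_lit 670084002) (nat_lit 228) (nat_lit 304613190) (nat_lit 158) (nat_lit 1) (nat_lit 157) (nat_lit 1) (nat_lit 160) (nat_lit 1) (nat_lit 434) (nat_lit 338) (nat_lit 248)))) (XT.nd (nat_lit 156) (nat_lit 0) (nat_lit 76) (XT.nd (nat_lit 78) (nat_lit 0) (nat_lit 0) (XT.lf (nat_lit 1292) (nat_lit 362099106) (nat_lit 0) (nat_lit 1245789325) (nat_lit 1292) (nat_lit 362099106) (nat_lit 391) (nat_lit 1) (nat_lit 374) (nat_lit 0) (nat_lit 391) (nat_lit 0) (nat_lit 342) (nat_lit 339) (nat_lit 339)) (XT.lf (nat_lit 1292) (nat_lit 1415089651) (nat_lit 76) (nat_lit 1233575705) (nat_lit 0) (nat_lit 1233575705) (nat_lit 391) (nat_lit 1) (nat_lit 375) (nat_lit 1) (nat_lit 374) (nat_lit 0) (nat_lit 343) (nat_lit 339) (nat_lit 338))) (XT.nd (nat_lit 78)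 (nat_lit 0) (nat_lit 0) (XT.lf (nat_lit 1292) (nat_lit 684371095) (nat_lit 0) (nat_lit 2457038349) (nat_lit 1216) (nat_lit 684371095) (nat_lit 392) (nat_lit 1) (nat_lit 375) (nat_lit 1) (nat_lit 391) (nat_lit 1) (nat_lit 344) (nat_lit 339) (nat_lit 337)) (XT.nd (nat_lit 78) (nat_lit 0) (nat_lit 76) (XT.lf (nat_lit 1292) (nat_lit 1299656044) (nat_lit 76) (nat_lit 1235303422) (nat_lit 0) (nat_lit 1235303422) (nat_lit 392) (nat_lit 1) (nat_lit 376) (nat_lit 1) (nat_lit 375) (nat_lit 1) (nat_lit 345) (nat_lit 339) (nat_lit 336)) (XT.lf (nat_lit 1292) (nat_lit 609857117) (nat_lit 0) (nat_lit 2496273229) (nat_lit 1216) (nat_lit 609857117) (nat_lit 393) (nat_lit 1) (nat_lit 376) (nat_lit 1) (nat_lit 392) (nat_lit 1) (nat_lit 346) (nat_lit 339) (nat_lit 335))))))) (XT.nd (nat_lit 702) (nat_lit 1900) (nat_lit 0) (XT.nd (nat_lit 312) (nat_lit 988) (nat_lit 0) (XT.nd (nat_lit 156) (nat_lit 0) (nat_lit 76) (XT.nd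 (nat_lit 78) (nat_lit 0) (nat_lit 76) (XT.lf (nat_lit 1292) (nat_lit 1117627559) (nat_lit 76) (nat_lit 1272476251) (nat_lit 0) (nat_lit 1272476251) (nat_lit 393) (nat_lit 1) (nat_lit 377) (nat_lit 1) (nat_lit 376) (nat_lit 1) (nat_lit 347) (nat_lit 339) (nat_lit 334)) (XT.lf (nat_lit 1292) (nat_lit 503724331) (nat_lit 0) (nat_lit 2602957254) (nat_lit 1216) (nat_lit 503724331) (nat_lit 394) (nat_lit 1) (nat_lit 377) (nat_lit 1) (nat_lit 393) (nat_lit 1) (nat_lit 348) (nat_lit 339) (nat_lit 333))) (XT.nd (nat_lit 78) (nat_lit 0) (nat_lit 76) (XT.lf (nat_lit 1292) (nat_lit 874959672) (nat_lit 76) (nat_lit 1342024228) (nat_lit 0) (nat_lit 1342024228) (nat_lit 394) (nat_lit 1) (nat_lit 378) (nat_lit 1) (nat_lit 377) (nat_lit 1) (nat_lit 349) (nat_lit 339) (nat_lit 332)) (XT.lf (nat_lit 1292) (nat_lit 368833308) (nat_lit 0) (nat_lit 2771188429) (nat_lit 1216) (nat_lit 368833308) (nat_lit 395) (nat_lit 1)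 (nat_lit 378) (nat_lit 1) (nat_lit 394) (nat_lit 1) (nat_lit 350) (nat_lit 339) (nat_lit 331)))) (XT.nd (nat_lit 156) (nat_lit 1140) (nat_lit 0) (XT.nd (nat_lit 78) (nat_lit 0) (nat_lit 76) (XT.lf (nat_lit 1292) (nat_lit 577203875) (nat_lit 76) (nat_lit 1441083770) (nat_lit 0) (nat_lit 1441083770) (nat_lit 395) (nat_lit 1) (nat_lit 379) (nat_lit 1) (nat_lit 378) (nat_lit 1) (nat_lit 351) (nat_lit 339) (nat_lit 330)) (XT.lf (nat_lit 1292) (nat_lit 207849957) (nat_lit 0) (nat_lit 2995462688) (nat_lit 1216) (nat_lit 207849957) (nat_lit 396) (nat_lit 1) (nat_lit 379) (nat_lit 1) (nat_lit 395) (nat_lit 1) (nat_lit 352) (nat_lit 339) (nat_lit 329))) (XT.nd (nat_lit 78) (nat_lit 1216) (nat_lit 0) (XT.lf (nat_lit 1292) (nat_lit 229532673) (nat_lit 76) (nat_lit 1566984950) (nat_lit 0) (nat_lit 1566984950) (nat_lit 396) (nat_lit 1) (nat_lit 380) (nat_lit 1) (nat_lit 379) (nat_lit 1) (nat_lit 353) (nat_lit 339)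 (nat_lit 328)) (XT.nd (nat_lit 78) (nat_lit 1292) (nat_lit 0) (XT.lf (nat_lit 1292) (nat_lit 23257588) (nat_lit 0) (nat_lit 3270649331) (nat_lit 1216) (nat_lit 23257588) (nat_lit 397) (nat_lit 1) (nat_lit 380) (nat_lit 1) (nat_lit 396) (nat_lit 1) (nat_lit 354) (nat_lit 339) (nat_lit 327)) (XT.lf (nat_lit 1368) (nat_lit 1555571760) (nat_lit 0) (nat_lit 160051562) (nat_lit 1292) (nat_lit 1555571760) (nat_lit 381) (nat_lit 1) (nat_lit 363) (nat_lit 1) (nat_lit 380) (nat_lit 1) (nat_lit 355) (nat_lit 339) (nat_lit 326)))))) (XT.nd (nat_lit 390) (nat_lit 1216) (nat_lit 0) (XT.nd (nat_lit 156) (nat_lit 684) (nat_lit 0) (XT.nd (nat_lit 78) (nat_lit 0) (nat_lit 76) (XT.lf (nat_lit 1368) (nat_lit 2864810216) (nat_lit 76) (nat_lit 180841237) (nat_lit 0) (nat_lit 180841237) (nat_lit 381) (nat_lit 1) (nat_lit 364) (nat_lit 1) (nat_lit 363) (nat_lit 1) (nat_lit 356) (nat_lit 339) (nat_lit 325)) (XT.lf (nat_lit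 1368) (nat_lit 1298643605) (nat_lit 0) (nat_lit 584978952) (nat_lit 1292) (nat_lit 1298643605) (nat_lit 382) (nat_lit 1) (nat_lit 364) (nat_lit 1) (nat_lit 381) (nat_lit 1) (nat_lit 357) (nat_lit 339) (nat_lit 324))) (XT.nd (nat_lit 78) (nat_lit 760) (nat_lit 0) (XT.lf (nat_lit 1368) (nat_lit 2331821049) (nat_lit 76) (nat_lit 403669847) (nat_lit 0) (nat_lit 403669847) (nat_lit 382) (nat_lit 1) (nat_lit 365) (nat_lit 1) (nat_lit 364) (nat_lit 1) (nat_lit 358) (nat_lit 339) (nat_lit 323)) (XT.nd (nat_lit 78) (nat_lit 836) (nat_lit 0) (XT.lf (nat_lit 76) (nat_lit 1025499787) (nat_lit 0) (nat_lit 1045638801) (nat_lit 1292) (nat_lit 1025499787) (nat_lit 366) (nat_lit 1) (nat_lit 365) (nat_lit 1) (nat_lit 382) (nat_lit 1) (nat_lit 359) (nat_lit 339) (nat_lit 322)) (XT.lf (nat_lit 912) (nat_lit 1768106007) (nat_lit 0) (nat_lit 643474967) (nat_lit 836) (nat_lit 643474967) (nat_lit 366) (nat_lit 1) (nat_lit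 354) (nat_lit 1) (nat_lit 365) (nat_lit 1) (nat_lit 360) (nat_lit 339) (nat_lit 321))))) (XT.nd (nat_lit 156) (nat_lit 608) (nat_lit 0) (XT.nd (nat_lit 78) (nat_lit 608) (nat_lit 0) (XT.lf (nat_lit 76) (nat_lit 737973028) (nat_lit 0) (nat_lit 1538228704) (nat_lit 912) (nat_lit 737973028) (nat_lit 355) (nat_lit 1) (nat_lit 354) (nat_lit 1) (nat_lit 366) (nat_lit 1) (nat_lit 361) (nat_lit 339) (nat_lit 320)) (XT.lf (nat_lit 684) (nat_lit 1177214946) (nat_lit 0) (nat_lit 898415053) (nat_lit 608) (nat_lit 898415053) (nat_lit 355) (nat_lit 1) (nat_lit 346) (nat_lit 1) (nat_lit 354) (nat_lit 1) (nat_lit 362) (nat_lit 339) (nat_lit 319))) (XT.nd (nat_lit 78) (nat_lit 608) (nat_lit 0) (XT.lf (nat_lit 76) (nat_lit 437764573) (nat_lit 0) (nat_lit 2059215538) (nat_lit 684) (nat_lit 437764573) (nat_lit 347) (nat_lit 1) (nat_lit 346) (nat_lit 1) (nat_lit 355) (nat_lit 1) (nat_lit 363) (nat_lit 339) (nat_lit 318))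 (XT.nd (nat_lit 78) (nat_lit 0) (nat_lit 0) (XT.lf (nat_lit 684) (nat_lit 562441927) (nat_lit 0) (nat_lit 1166779526) (nat_lit 608) (nat_lit 1166779526) (nat_lit 347) (nat_lit 1) (nat_lit 338) (nat_lit 1) (nat_lit 346) (nat_lit 1) (nat_lit 364) (nat_lit 339) (nat_lit 317)) (XT.lf (nat_lit 76) (nat_lit 126452509) (nat_lit 0) (nat_lit 2605318515) (nat_lit 684) (nat_lit 126452509) (nat_lit 339) (nat_lit 1) (nat_lit 338) (nat_lit 1) (nat_lit 347) (nat_lit 1) (nat_lit 365) (nat_lit 339) (nat_lit 316))))))))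
noncomputable def ec57 : XT := (XT.nd (nat_lit 1482) (nat_lit 4104) (nat_lit 0) (XT.nd (nat_lit 702) (nat_lit 2204) (nat_lit 0) (XT.nd (nat_lit 312) (nat_lit 1596) (nat_lit 0) (XT.nd (nat_lit 156) (nat_lit 532) (nat_lit 0) (XT.nd (nat_lit 78) (nat_lit 608) (nat_lit 0) (XT.lf (nat_lit 76) (nat_lit 1374525177) (nat_lit 0) (nat_lit 71731000) (nat_lit 608) (nat_lit 1374525177) (nat_lit 331) (nat_lit 1) (nat_lit 330) (nat_lit 1) (nat_lit 338) (nat_lit 1) (nat_lit 366) (nat_lit 339) (nat_lit 315)) (XT.lf (nat_lit 684) (nat_lit 2399079788) (nat_lit 0) (nat_lit 192593560) (nat_lit 608) (nat_lit 192593560) (nat_lit 331) (nat_lit 1) (nat_lit 322) (nat_lit 1) (nat_lit 330) (nat_lit 1) (nat_lit 367) (nat_lit 339) (nat_lit 314))) (XT.nd (nat_lit 78) (nat_lit 532) (nat_lit 0) (XT.lf (nat_lit 76) (nat_lit 1017774637) (nat_lit 0) (nat_lit 712574874) (nat_lit 684) (nat_lit 1017774637) (nat_lit 323) (nat_lit 1) (nat_lit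 322) (nat_lit 1) (nat_lit 331) (nat_lit 1) (nat_lit 368) (nat_lit 339) (nat_lit 313)) (XT.lf (nat_lit 608) (nat_lit 1675621000) (nat_lit 0) (nat_lit 518604806) (nat_lit 532) (nat_lit 518604806) (nat_lit 323) (nat_lit 1) (nat_lit 315) (nat_lit 1) (nat_lit 322) (nat_lit 1) (nat_lit 369) (nat_lit 339) (nat_lit 312)))) (XT.nd (nat_lit 156) (nat_lit 1064) (nat_lit 0) (XT.nd (nat_lit 78) (nat_lit 532) (nat_lit 0) (XT.lf (nat_lit 76) (nat_lit 654792883) (nat_lit 0) (nat_lit 1368496066) (nat_lit 608) (nat_lit 654792883) (nat_lit 316) (nat_lit 1) (nat_lit 315) (nat_lit 1) (nat_lit 323) (nat_lit 1) (nat_lit 370) (nat_lit 339) (nat_lit 311)) (XT.lf (nat_lit 608) (nat_lit 940795125) (nat_lit 0) (nat_lit 851579625) (nat_lit 532) (nat_lit 851579625) (nat_lit 316) (nat_lit 1) (nat_lit 308) (nat_lit 1) (nat_lit 315) (nat_lit 1) (nat_lit 371) (nat_lit 339) (nat_lit 310))) (XT.nd (nat_lit 78) (nat_lit 1064) (nat_lit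 0) (XT.lf (nat_lit 76) (nat_lit 286715578) (nat_lit 0) (nat_lit 2037118463) (nat_lit 608) (nat_lit 286715578) (nat_lit 309) (nat_lit 1) (nat_lit 308) (nat_lit 1) (nat_lit 316) (nat_lit 1) (nat_lit 372) (nat_lit 339) (nat_lit 309)) (XT.nd (nat_lit 78) (nat_lit 608) (nat_lit 0) (XT.lf (nat_lit 532) (nat_lit 196795358) (nat_lit 0) (nat_lit 1190370378) (nat_lit 456) (nat_lit 1190370378) (nat_lit 309) (nat_lit 1) (nat_lit 302) (nat_lit 1) (nat_lit 308) (nat_lit 1) (nat_lit 373) (nat_lit 339) (nat_lit 308)) (XT.lf (nat_lit 608) (nat_lit 2376184160) (nat_lit 0) (nat_lit 84572119) (nat_lit 532) (nat_lit 84572119) (nat_lit 302) (nat_lit 1) (nat_lit 294) (nat_lit 1) (nat_lit 301) (nat_lit 1) (nat_lit 374) (nat_lit 339) (nat_lit 307)))))) (XT.nd (nat_lit 390) (nat_lit 1292) (nat_lit 0) (XT.nd (nat_lit 156) (nat_lit 456) (nat_lit 0) (XT.nd (nat_lit 78) (nat_lit 456) (nat_lit 0) (XT.lf (nat_lit 76) (nat_lit 984890016)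 (nat_lit 0) (nat_lit 543538399) (nat_lit 608) (nat_lit 984890016) (nat_lit 295) (nat_lit 1) (nat_lit 294) (nat_lit 1) (nat_lit 302) (nat_lit 1) (nat_lit 375) (nat_lit 339) (nat_lit 306)) (XT.lf (nat_lit 532) (nat_lit 1569884111) (nat_lit 0) (nat_lit 456100738) (nat_lit 456) (nat_lit 456100738) (nat_lit 295) (nat_lit 1) (nat_lit 288) (nat_lit 1) (nat_lit 294) (nat_lit 1) (nat_lit 376) (nat_lit 339) (nat_lit 305))) (XT.nd (nat_lit 78) (nat_lit 456) (nat_lit 0) (XT.lf (nat_lit 76) (nat_lit 583046118) (nat_lit 0) (nat_lit 1285217479) (nat_lit 532) (nat_lit 583046118) (nat_lit 289) (nat_lit 1) (nat_lit 288) (nat_lit 1) (nat_lit 295) (nat_lit 1) (nat_lit 377) (nat_lit 339) (nat_lit 304)) (XT.nd (nat_lit 78) (nat_lit 0) (nat_lit 0) (XT.lf (nat_lit 532) (nat_lit 761461119) (nat_lit 0) (nat_lit 829801057) (nat_lit 456) (nat_lit 829801057) (nat_lit 289) (nat_lit 1) (nat_lit 282) (nat_lit 1) (nat_lit 288) (nat_lit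 1) (nat_lit 378) (nat_lit 339) (nat_lit 303)) (XT.lf (nat_lit 76) (nat_lit 180538077) (nat_lit 0) (nat_lit 2030401974) (nat_lit 532) (nat_lit 180538077) (nat_lit 283) (nat_lit 1) (nat_lit 282) (nat_lit 1) (nat_lit 289) (nat_lit 1) (nat_lit 379) (nat_lit 339) (nat_lit 302))))) (XT.nd (nat_lit 156) (nat_lit 380) (nat_lit 0) (XT.nd (nat_lit 78) (nat_lit 456) (nat_lit 0) (XT.lf (nat_lit 76) (nat_lit 1157768073) (nat_lit 0) (nat_lit 46625082) (nat_lit 456) (nat_lit 1157768073) (nat_lit 277) (nat_lit 1) (nat_lit 276) (nat_lit 1) (nat_lit 282) (nat_lit 1) (nat_lit 380) (nat_lit 339) (nat_lit 301)) (XT.lf (nat_lit 532) (nat_lit 1894023233) (nat_lit 0) (nat_lit 219729232) (nat_lit 456) (nat_lit 219729232) (nat_lit 277) (nat_lit 1) (nat_lit 270) (nat_lit 1) (nat_lit 276) (nat_lit 1) (nat_lit 381) (nat_lit 339) (nat_lit 300))) (XT.nd (nat_lit 78) (nat_lit 380) (nat_lit 0) (XT.lf (nat_lit 76) (nat_lit 733017344)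 (nat_lit 0) (nat_lit 839056608) (nat_lit 532) (nat_lit 733017344) (nat_lit 271) (nat_lit 1) (nat_lit 270) (nat_lit 1) (nat_lit 277) (nat_lit 1) (nat_lit 382) (nat_lit 339) (nat_lit 299)) (XT.nd (nat_lit 78) (nat_lit 0) (nat_lit 0) (XT.lf (nat_lit 456) (nat_lit 1042285785) (nat_lit 0) (nat_lit 617501211) (nat_lit 380) (nat_lit 617501211) (nat_lit 271) (nat_lit 1) (nat_lit 265) (nat_lit 1) (nat_lit 270) (nat_lit 1) (nat_lit 383) (nat_lit 339) (nat_lit 298)) (XT.lf (nat_lit 76) (nat_lit 310279710) (nat_lit 0) (nat_lit 1629434923) (nat_lit 456) (nat_lit 310279710) (nat_lit 266) (nat_lit 1) (nat_lit 265) (nat_lit 1) (nat_lit 271) (nat_lit 1) (nat_lit 384) (nat_lit 339) (nat_lit 297))))))) (XT.nd (nat_lit 702) (nat_lit 1824) (nat_lit 0) (XT.nd (nat_lit 312) (nat_lit 1064) (nat_lit 0) (XT.nd (nat_lit 156) (nat_lit 380) (nat_lit 0) (XT.nd (nat_lit 78) (nat_lit 456) (nat_lit 0) (XT.lf (nat_lit 456) (nat_lit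 195141497) (nat_lit 0) (nat_lit 1013944331) (nat_lit 380) (nat_lit 1013944331) (nat_lit 266) (nat_lit 1) (nat_lit 260) (nat_lit 1) (nat_lit 265) (nat_lit 1) (nat_lit 385) (nat_lit 339) (nat_lit 296)) (XT.lf (nat_lit 456) (nat_lit 1979005013) (nat_lit 0) (nat_lit 108831315) (nat_lit 380) (nat_lit 108831315) (nat_lit 260) (nat_lit 1) (nat_lit 254) (nat_lit 1) (nat_lit 259) (nat_lit 1) (nat_lit 386) (nat_lit 339) (nat_lit 295))) (XT.nd (nat_lit 78) (nat_lit 380) (nat_lit 0) (XT.lf (nat_lit 76) (nat_lit 768338945) (nat_lit 0) (nat_lit 633769743) (nat_lit 456) (nat_lit 768338945) (nat_lit 255) (nat_lit 1) (nat_lit 254) (nat_lit 1) (nat_lit 260) (nat_lit 1) (nat_lit 387) (nat_lit 339) (nat_lit 294)) (XT.lf (nat_lit 456) (nat_lit 1101020651) (nat_lit 0) (nat_lit 521894842) (nat_lit 380) (nat_lit 521894842) (nat_lit 255) (nat_lit 1) (nat_lit 249) (nat_lit 1) (nat_lit 254) (nat_lit 1) (nat_lit 388) (nat_lit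 339) (nat_lit 293)))) (XT.nd (nat_lit 156) (nat_lit 760) (nat_lit 0) (XT.nd (nat_lit 78) (nat_lit 304) (nat_lit 0) (XT.lf (nat_lit 76) (nat_lit 333575632) (nat_lit 0) (nat_lit 1452450982) (nat_lit 456) (nat_lit 333575632) (nat_lit 250) (nat_lit 1) (nat_lit 249) (nat_lit 1) (nat_lit 255) (nat_lit 1) (nat_lit 389) (nat_lit 339) (nat_lit 292)) (XT.lf (nat_lit 380) (nat_lit 231679134) (nat_lit 0) (nat_lit 931517245) (nat_lit 304) (nat_lit 931517245) (nat_lit 250) (nat_lit 1) (nat_lit 245) (nat_lit 1) (nat_lit 249) (nat_lit 1) (nat_lit 390) (nat_lit 339) (nat_lit 291))) (XT.nd (nat_lit 78) (nat_lit 304) (nat_lit 0) (XT.lf (nat_lit 456) (nat_lit 1878863907) (nat_lit 0) (nat_lit 95753542) (nat_lit 380) (nat_lit 95753542) (nat_lit 245) (nat_lit 1) (nat_lit 239) (nat_lit 1) (nat_lit 244) (nat_lit 1) (nat_lit 391) (nat_lit 339) (nat_lit 290)) (XT.nd (nat_lit 78) (nat_lit 304) (nat_lit 0) (XT.lf (nat_lit 76) (nat_lit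 715045808) (nat_lit 0) (nat_lit 616039062) (nat_lit 456) (nat_lit 715045808) (nat_lit 240) (nat_lit 1) (nat_lit 239) (nat_lit 1) (nat_lit 245) (nat_lit 1) (nat_lit 392) (nat_lit 339) (nat_lit 289)) (XT.lf (nat_lit 380) (nat_lit 988350765) (nat_lit 0) (nat_lit 517034860) (nat_lit 304) (nat_lit 517034860) (nat_lit 240) (nat_lit 1) (nat_lit 235) (nat_lit 1) (nat_lit 239) (nat_lit 1) (nat_lit 393) (nat_lit 339) (nat_lit 288)))))) (XT.nd (nat_lit 390) (nat_lit 836) (nat_lit 0) (XT.nd (nat_lit 156) (nat_lit 684) (nat_lit 0) (XT.nd (nat_lit 78) (nat_lit 304) (nat_lit 0) (XT.lf (nat_lit 76) (nat_lit 274845250) (nat_lit 0) (nat_lit 1449425359) (nat_lit 380) (nat_lit 274845250) (nat_lit 236) (nat_lit 1) (nat_lit 235) (nat_lit 1) (nat_lit 240) (nat_lit 1) (nat_lit 394) (nat_lit 339) (nat_lit 287)) (XT.lf (nat_lit 380) (nat_lit 109596696) (nat_lit 0) (nat_lit 933239714) (nat_lit 304) (nat_lit 933239714) (nat_lit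 236) (nat_lit 1) (nat_lit 231) (nat_lit 1) (nat_lit 235) (nat_lit 1) (nat_lit 395) (nat_lit 339) (nat_lit 286))) (XT.nd (nat_lit 78) (nat_lit 304) (nat_lit 0) (XT.lf (nat_lit 380) (nat_lit 1637852247) (nat_lit 0) (nat_lit 157819410) (nat_lit 304) (nat_lit 157819410) (nat_lit 231) (nat_lit 1) (nat_lit 226) (nat_lit 1) (nat_lit 230) (nat_lit 1) (nat_lit 396) (nat_lit 339) (nat_lit 285)) (XT.nd (nat_lit 78) (nat_lit 304) (nat_lit 0) (XT.lf (nat_lit 76) (nat_lit 594452141) (nat_lit 0) (nat_lit 742156538) (nat_lit 380) (nat_lit 594452141) (nat_lit 227) (nat_lit 1) (nat_lit 226) (nat_lit 1) (nat_lit 231) (nat_lit 1) (nat_lit 397) (nat_lit 339) (nat_lit 284)) (XT.lf (nat_lit 380) (nat_lit 745756428) (nat_lit 0) (nat_lit 581657765) (nat_lit 304) (nat_lit 581657765) (nat_lit 227) (nat_lit 1) (nat_lit 222) (nat_lit 1) (nat_lit 226) (nat_lit 1) (nat_lit 398) (nat_lit 339) (nat_lit 283))))) (XT.nd (nat_lit 156)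 (nat_lit 532) (nat_lit 0) (XT.nd (nat_lit 78) (nat_lit 304) (nat_lit 0) (XT.lf (nat_lit 76) (nat_lit 154066033) (nat_lit 0) (nat_lit 1579376425) (nat_lit 380) (nat_lit 154066033) (nat_lit 223) (nat_lit 1) (nat_lit 222) (nat_lit 1) (nat_lit 227) (nat_lit 1) (nat_lit 399) (nat_lit 339) (nat_lit 282)) (XT.lf (nat_lit 76) (nat_lit 868217102) (nat_lit 0) (nat_lit 129649754) (nat_lit 304) (nat_lit 868217102) (nat_lit 219) (nat_lit 1) (nat_lit 218) (nat_lit 1) (nat_lit 222) (nat_lit 1) (nat_lit 400) (nat_lit 339) (nat_lit 281))) (XT.nd (nat_lit 78) (nat_lit 228) (nat_lit 0) (XT.lf (nat_lit 380) (nat_lit 1292091222) (nat_lit 0) (nat_lit 276490893) (nat_lit 304) (nat_lit 276490893) (nat_lit 219) (nat_lit 1) (nat_lit 214) (nat_lit 1) (nat_lit 218) (nat_lit 1) (nat_lit 401) (nat_lit 339) (nat_lit 280)) (XT.nd (nat_lit 78) (nat_lit 228) (nat_lit 0) (XT.lf (nat_lit 76) (nat_lit 423948642) (nat_lit 0) (nat_lit 976404131)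 (nat_lit 380) (nat_lit 423948642) (nat_lit 215) (nat_lit 1) (nat_lit 214) (nat_lit 1) (nat_lit 219) (nat_lit 1) (nat_lit 402) (nat_lit 339) (nat_lit 279)) (XT.lf (nat_lit 304) (nat_lit 407068446) (nat_lit 0) (nat_lit 698393781) (nat_lit 228) (nat_lit 698393781) (nat_lit 215) (nat_lit 1) (nat_lit 211) (nat_lit 1) (nat_lit 214) (nat_lit 1) (nat_lit 403) (nat_lit 339) (nat_lit 278))))))))
noncomputable def ec58 : XT := (XT.nd (nat_lit 1482) (nat_lit 1672) (nat_lit 0) (XT.nd (nat_lit 702) (nat_lit 1292) (nat_lit 0) (XT.nd (nat_lit 312) (nat_lit 1064) (nat_lit 0) (XT.nd (nat_lit 156) (nat_lit 228) (nat_lit 0) (XT.nd (nat_lit 78) (nat_lit 0) (nat_lit 0) (XT.lf (nat_lit 380) (nat_lit 1759167766) (nat_lit 0) (nat_lit 12353239) (nat_lit 304) (nat_lit 12353239) (nat_lit 211) (nat_lit 1) (nat_lit 206) (nat_lit 1) (nat_lit 210) (nat_lit 1) (nat_lit 404) (nat_lit 339) (nat_lit 277)) (XT.lf (nat_lit 76) (nat_lit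 655374788) (nat_lit 0) (nat_lit 453103622) (nat_lit 380) (nat_lit 655374788) (nat_lit 207) (nat_lit 1) (nat_lit 206) (nat_lit 1) (nat_lit 211) (nat_lit 1) (nat_lit 405) (nat_lit 339) (nat_lit 276))) (XT.nd (nat_lit 78) (nat_lit 0) (nat_lit 0) (XT.lf (nat_lit 304) (nat_lit 870949919) (nat_lit 0) (nat_lit 436667993) (nat_lit 228) (nat_lit 436667993) (nat_lit 207) (nat_lit 1) (nat_lit 203) (nat_lit 1) (nat_lit 206) (nat_lit 1) (nat_lit 406) (nat_lit 339) (nat_lit 275)) (XT.lf (nat_lit 76) (nat_lit 217668346) (nat_lit 0) (nat_lit 1289700676) (nat_lit 304) (nat_lit 217668346) (nat_lit 204) (nat_lit 1) (nat_lit 203) (nat_lit 1) (nat_lit 207) (nat_lit 1) (nat_lit 407) (nat_lit 339) (nat_lit 274)))) (XT.nd (nat_lit 156) (nat_lit 532) (nat_lit 0) (XT.nd (nat_lit 78) (nat_lit 228) (nat_lit 0) (XT.lf (nat_lit 76) (nat_lit 852876390) (nat_lit 0) (nat_lit 228347) (nat_lit 304) (nat_lit 852876390) (nat_lit 200) (nat_lit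 1) (nat_lit 199) (nat_lit 1) (nat_lit 203) (nat_lit 1) (nat_lit 408) (nat_lit 339) (nat_lit 273)) (XT.lf (nat_lit 304) (nat_lit 1268269350) (nat_lit 0) (nat_lit 209482753) (nat_lit 228) (nat_lit 209482753) (nat_lit 200) (nat_lit 1) (nat_lit 196) (nat_lit 1) (nat_lit 199) (nat_lit 1) (nat_lit 409) (nat_lit 339) (nat_lit 272))) (XT.nd (nat_lit 78) (nat_lit 532) (nat_lit 0) (XT.lf (nat_lit 76) (nat_lit 415485516) (nat_lit 0) (nat_lit 837697818) (nat_lit 304) (nat_lit 415485516) (nat_lit 197) (nat_lit 1) (nat_lit 196) (nat_lit 1) (nat_lit 200) (nat_lit 1) (nat_lit 410) (nat_lit 339) (nat_lit 271)) (XT.nd (nat_lit 78) (nat_lit 304) (nat_lit 0) (XT.lf (nat_lit 304) (nat_lit 398196837) (nat_lit 0) (nat_lit 626103780) (nat_lit 228) (nat_lit 626103780) (nat_lit 197) (nat_lit 1) (nat_lit 193) (nat_lit 1) (nat_lit 196) (nat_lit 1) (nat_lit 411) (nat_lit 339) (nat_lit 270)) (XT.lf (nat_lit 304) (nat_lit 1606881306)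 (nat_lit 0) (nat_lit 12830380) (nat_lit 228) (nat_lit 12830380) (nat_lit 193) (nat_lit 1) (nat_lit 189) (nat_lit 1) (nat_lit 192) (nat_lit 1) (nat_lit 412) (nat_lit 339) (nat_lit 269)))))) (XT.nd (nat_lit 390) (nat_lit 608) (nat_lit 0) (XT.nd (nat_lit 156) (nat_lit 456) (nat_lit 0) (XT.nd (nat_lit 78) (nat_lit 228) (nat_lit 0) (XT.lf (nat_lit 76) (nat_lit 584774869) (nat_lit 0) (nat_lit 445075381) (nat_lit 304) (nat_lit 584774869) (nat_lit 190) (nat_lit 1) (nat_lit 189) (nat_lit 1) (nat_lit 193) (nat_lit 1) (nat_lit 413) (nat_lit 339) (nat_lit 268)) (XT.lf (nat_lit 304) (nat_lit 740592499) (nat_lit 0) (nat_lit 428255217) (nat_lit 228) (nat_lit 428255217) (nat_lit 190) (nat_lit 1) (nat_lit 186) (nat_lit 1) (nat_lit 189) (nat_lit 1) (nat_lit 414) (nat_lit 339) (nat_lit 267))) (XT.nd (nat_lit 78) (nat_lit 456) (nat_lit 0) (XT.lf (nat_lit 76) (nat_lit 158398280) (nat_lit 0) (nat_lit 1263080971) (nat_lit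 304) (nat_lit 158398280) (nat_lit 187) (nat_lit 1) (nat_lit 186) (nat_lit 1) (nat_lit 190) (nat_lit 1) (nat_lit 415) (nat_lit 339) (nat_lit 266)) (XT.nd (nat_lit 78) (nat_lit 228) (nat_lit 0) (XT.lf (nat_lit 76) (nat_lit 728906032) (nat_lit 0) (nat_lit 104950236) (nat_lit 228) (nat_lit 728906032) (nat_lit 184) (nat_lit 1) (nat_lit 183) (nat_lit 1) (nat_lit 186) (nat_lit 1) (nat_lit 416) (nat_lit 339) (nat_lit 265)) (XT.lf (nat_lit 304) (nat_lit 1033540598) (nat_lit 0) (nat_lit 256198357) (nat_lit 228) (nat_lit 256198357) (nat_lit 184) (nat_lit 1) (nat_lit 180) (nat_lit 1) (nat_lit 183) (nat_lit 1) (nat_lit 417) (nat_lit 339) (nat_lit 264))))) (XT.nd (nat_lit 156) (nat_lit 456) (nat_lit 0) (XT.nd (nat_lit 78) (nat_lit 152) (nat_lit 0) (XT.lf (nat_lit 76) (nat_lit 305696738) (nat_lit 0) (nat_lit 917910845) (nat_lit 304) (nat_lit 305696738) (nat_lit 181) (nat_lit 1) (nat_lit 180) (nat_lit 1) (nat_lit 184)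 (nat_lit 1) (nat_lit 418) (nat_lit 339) (nat_lit 263)) (XT.lf (nat_lit 228) (nat_lit 192542778) (nat_lit 0) (nat_lit 660175450) (nat_lit 152) (nat_lit 660175450) (nat_lit 181) (nat_lit 1) (nat_lit 178) (nat_lit 1) (nat_lit 180) (nat_lit 1) (nat_lit 419) (nat_lit 339) (nat_lit 262))) (XT.nd (nat_lit 78) (nat_lit 152) (nat_lit 0) (XT.lf (nat_lit 304) (nat_lit 1282883312) (nat_lit 0) (nat_lit 106948479) (nat_lit 228) (nat_lit 106948479) (nat_lit 178) (nat_lit 1) (nat_lit 174) (nat_lit 1) (nat_lit 177) (nat_lit 1) (nat_lit 420) (nat_lit 339) (nat_lit 261)) (XT.nd (nat_lit 78) (nat_lit 152) (nat_lit 0) (XT.lf (nat_lit 76) (nat_lit 431764794) (nat_lit 0) (nat_lit 617182734) (nat_lit 304) (nat_lit 431764794) (nat_lit 175) (nat_lit 1) (nat_lit 174) (nat_lit 1) (nat_lit 178) (nat_lit 1) (nat_lit 421) (nat_lit 339) (nat_lit 260)) (XT.lf (nat_lit 228) (nat_lit 450339240) (nat_lit 0) (nat_lit 507298447) (nat_lit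 152) (nat_lit 507298447) (nat_lit 175) (nat_lit 1) (nat_lit 172) (nat_lit 1) (nat_lit 174) (nat_lit 1) (nat_lit 422) (nat_lit 339) (nat_lit 259))))))) (XT.nd (nat_lit 702) (nat_lit 532) (nat_lit 0) (XT.nd (nat_lit 312) (nat_lit 760) (nat_lit 0) (XT.nd (nat_lit 156) (nat_lit 152) (nat_lit 0) (XT.nd (nat_lit 78) (nat_lit 228) (nat_lit 0) (XT.lf (nat_lit 76) (nat_lit 22362379) (nat_lit 0) (nat_lit 1404764824) (nat_lit 228) (nat_lit 22362379) (nat_lit 173) (nat_lit 1) (nat_lit 172) (nat_lit 1) (nat_lit 175) (nat_lit 1) (nat_lit 423) (nat_lit 339) (nat_lit 258)) (XT.lf (nat_lit 76) (nat_lit 539109856) (nat_lit 0) (nat_lit 355767444) (nat_lit 228) (nat_lit 539109856) (nat_lit 170) (nat_lit 1) (nat_lit 169) (nat_lit 1) (nat_lit 172) (nat_lit 1) (nat_lit 424) (nat_lit 339) (nat_lit 257))) (XT.nd (nat_lit 78) (nat_lit 0) (nat_lit 0) (XT.lf (nat_lit 228) (nat_lit 671254054) (nat_lit 0) (nat_lit 373777722) (nat_lit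 152) (nat_lit 373777722) (nat_lit 170) (nat_lit 1) (nat_lit 167) (nat_lit 1) (nat_lit 169) (nat_lit 1) (nat_lit 425) (nat_lit 339) (nat_lit 256)) (XT.lf (nat_lit 76) (nat_lit 134747842) (nat_lit 0) (nat_lit 1134384650) (nat_lit 228) (nat_lit 134747842) (nat_lit 168) (nat_lit 1) (nat_lit 167) (nat_lit 1) (nat_lit 170) (nat_lit 1) (nat_lit 426) (nat_lit 339) (nat_lit 255)))) (XT.nd (nat_lit 156) (nat_lit 380) (nat_lit 0) (XT.nd (nat_lit 78) (nat_lit 152) (nat_lit 0) (XT.lf (nat_lit 76) (nat_lit 629955648) (nat_lit 0) (nat_lit 129112804) (nat_lit 228) (nat_lit 629955648) (nat_lit 165) (nat_lit 1) (nat_lit 164) (nat_lit 1) (nat_lit 167) (nat_lit 1) (nat_lit 427) (nat_lit 339) (nat_lit 254)) (XT.lf (nat_lit 228) (nat_lit 859636913) (nat_lit 0) (nat_lit 257387561) (nat_lit 152) (nat_lit 257387561) (nat_lit 165) (nat_lit 1) (nat_lit 162) (nat_lit 1) (nat_lit 164) (nat_lit 1) (nat_lit 428) (nat_lit 339) (nat_lit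 253))) (XT.nd (nat_lit 78) (nat_lit 380) (nat_lit 0) (XT.lf (nat_lit 76) (nat_lit 231254876) (nat_lit 0) (nat_lit 897467912) (nat_lit 228) (nat_lit 231254876) (nat_lit 163) (nat_lit 1) (nat_lit 162) (nat_lit 1) (nat_lit 165) (nat_lit 1) (nat_lit 429) (nat_lit 339) (nat_lit 252)) (XT.nd (nat_lit 78) (nat_lit 228) (nat_lit 0) (XT.lf (nat_lit 228) (nat_lit 68150695) (nat_lit 0) (nat_lit 638778371) (nat_lit 152) (nat_lit 638778371) (nat_lit 163) (nat_lit 1) (nat_lit 160) (nat_lit 1) (nat_lit 162) (nat_lit 1) (nat_lit 430) (nat_lit 339) (nat_lit 251)) (XT.lf (nat_lit 228) (nat_lit 1019345565) (nat_lit 0) (nat_lit 156152403) (nat_lit 152) (nat_lit 156152403) (nat_lit 160) (nat_lit 1) (nat_lit 157) (nat_lit 1) (nat_lit 159) (nat_lit 1) (nat_lit 431) (nat_lit 339) (nat_lit 250)))))) (XT.nd (nat_lit 45942) (nat_lit 0) (nat_lit 17024) (XT.nd (nat_lit 156) (nat_lit 380) (nat_lit 0) (XT.nd (nat_lit 78) (nat_lit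 152) (nat_lit 0) (XT.lf (nat_lit 76) (nat_lit 313751586) (nat_lit 0) (nat_lit 690186522) (nat_lit 228) (nat_lit 313751586) (nat_lit 158) (nat_lit 1) (nat_lit 157) (nat_lit 1) (nat_lit 160) (nat_lit 1) (nat_lit 432) (nat_lit 339) (nat_lit 249)) (XT.lf (nat_lit 228) (nat_lit 240307132) (nat_lit 0) (nat_lit 531815713) (nat_lit 152) (nat_lit 531815713) (nat_lit 158) (nat_lit 1) (nat_lit 155) (nat_lit 1) (nat_lit 157) (nat_lit 1) (nat_lit 433) (nat_lit 339) (nat_lit 248))) (XT.nd (nat_lit 78) (nat_lit 152) (nat_lit 0) (XT.lf (nat_lit 228) (nat_lit 1153800867) (nat_lit 0) (nat_lit 68318891) (nat_lit 152) (nat_lit 68318891) (nat_lit 155) (nat_lit 1) (nat_lit 152) (nat_lit 1) (nat_lit 154) (nat_lit 1) (nat_lit 434) (nat_lit 339) (nat_lit 247)) (XT.nd (nat_lit 78) (nat_lit 152) (nat_lit 0) (XT.lf (nat_lit 76) (nat_lit 383894924) (nat_lit 0) (nat_lit 509142083) (nat_lit 228) (nat_lit 383894924) (nat_lit 153)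 (nat_lit 1) (nat_lit 152) (nat_lit 1) (nat_lit 155) (nat_lit 1) (nat_lit 435) (nat_lit 339) (nat_lit 246)) (XT.lf (nat_lit 228) (nat_lit 388030281) (nat_lit 0) (nat_lit 437821473) (nat_lit 152) (nat_lit 437821473) (nat_lit 153) (nat_lit 1) (nat_lit 150) (nat_lit 1) (nat_lit 152) (nat_lit 1) (nat_lit 436) (nat_lit 339) (nat_lit 245))))) (XT.nd (nat_lit 156) (nat_lit 0) (nat_lit 76) (XT.nd (nat_lit 78) (nat_lit 0) (nat_lit 0) (XT.lf (nat_lit 1292) (nat_lit 372962079) (nat_lit 0) (nat_lit 1283163005) (nat_lit 1292) (nat_lit 372962079) (nat_lit 391) (nat_lit 1) (nat_lit 374) (nat_lit 0) (nat_lit 391) (nat_lit 0) (nat_lit 340) (nat_lit 340) (nat_lit 340)) (XT.lf (nat_lit 1292) (nat_lit 1457542341) (nat_lit 76) (nat_lit 1270582976) (nat_lit 0) (nat_lit 1270582976) (nat_lit 391) (nat_lit 1) (nat_lit 375) (nat_lit 1) (nat_lit 374) (nat_lit 0) (nat_lit 341) (nat_lit 340) (nat_lit 339))) (XT.nd (nat_lit 78) (nat_lit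 0) (nat_lit 0) (XT.lf (nat_lit 1292) (nat_lit 704902228) (nat_lit 0) (nat_lit 2530749499) (nat_lit 1216) (nat_lit 704902228) (nat_lit 392) (nat_lit 1) (nat_lit 375) (nat_lit 1) (nat_lit 391) (nat_lit 1) (nat_lit 342) (nat_lit 340) (nat_lit 338)) (XT.nd (nat_lit 78) (nat_lit 0) (nat_lit 76) (XT.lf (nat_lit 1292) (nat_lit 1338645725) (nat_lit 76) (nat_lit 1272362524) (nat_lit 0) (nat_lit 1272362524) (nat_lit 392) (nat_lit 1) (nat_lit 376) (nat_lit 1) (nat_lit 375) (nat_lit 1) (nat_lit 343) (nat_lit 340) (nat_lit 337)) (XT.lf (nat_lit 1292) (nat_lit 628152830) (nat_lit 0) (nat_lit 2571161426) (nat_lit 1216) (nat_lit 628152830) (nat_lit 393) (nat_lit 1) (nat_lit 376) (nat_lit 1) (nat_lit 392) (nat_lit 1) (nat_lit 344) (nat_lit 340) (nat_lit 336))))))))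
noncomputable def ec59 : XT := (XT.nd (nat_lit 1482) (nat_lit 5548) (nat_lit 0) (XT.nd (nat_lit 702) (nat_lit 1900) (nat_lit 0) (XT.nd (nat_lit 312) (nat_lit 988) (nat_lit 0) (XT.nd (nat_lit 156) (nat_lit 0) (nat_lit 76) (XT.nd (nat_lit 78) (nat_lit 0) (nat_lit 76) (XT.lf (nat_lit 1292) (nat_lit 1151156386) (nat_lit 76) (nat_lit 1310650539) (nat_lit 0) (nat_lit 1310650539) (nat_lit 393) (nat_lit 1) (nat_lit 377) (nat_lit 1) (nat_lit 376) (nat_lit 1) (nat_lit 345) (nat_lit 340) (nat_lit 335)) (XT.lf (nat_lit 1292) (nat_lit 518836061) (nat_lit 0) (nat_lit 2681045971) (nat_lit 1216) (nat_lit 518836061) (nat_lit 394) (nat_lit 1) (nat_lit 377) (nat_lit 1) (nat_lit 393) (nat_lit 1) (nat_lit 346) (nat_lit 340) (nat_lit 334))) (XT.nd (nat_lit 78) (nat_lit 0) (nat_lit 76) (XT.lf (nat_lit 1292) (nat_lit 901208462) (nat_lit 76) (nat_lit 1382284955) (nat_lit 0) (nat_lit 1382284955) (nat_lit 394) (nat_lit 1) (nat_lit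 378) (nat_lit 1) (nat_lit 377) (nat_lit 1) (nat_lit 347) (nat_lit 340) (nat_lit 333)) (XT.lf (nat_lit 1292) (nat_lit 379898308) (nat_lit 0) (nat_lit 2854324082) (nat_lit 1216) (nat_lit 379898308) (nat_lit 395) (nat_lit 1) (nat_lit 378) (nat_lit 1) (nat_lit 394) (nat_lit 1) (nat_lit 348) (nat_lit 340) (nat_lit 332)))) (XT.nd (nat_lit 156) (nat_lit 1140) (nat_lit 0) (XT.nd (nat_lit 78) (nat_lit 0) (nat_lit 76) (XT.lf (nat_lit 1292) (nat_lit 594519991) (nat_lit 76) (nat_lit 1484316283) (nat_lit 0) (nat_lit 1484316283) (nat_lit 395) (nat_lit 1) (nat_lit 379) (nat_lit 1) (nat_lit 378) (nat_lit 1) (nat_lit 349) (nat_lit 340) (nat_lit 331)) (XT.lf (nat_lit 1292) (nat_lit 214085456) (nat_lit 0) (nat_lit 3085326569) (nat_lit 1216) (nat_lit 214085456) (nat_lit 396) (nat_lit 1) (nat_lit 379) (nat_lit 1) (nat_lit 395) (nat_lit 1) (nat_lit 350) (nat_lit 340) (nat_lit 330))) (XT.nd (nat_lit 78) (nat_lit 1216) (nat_lit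 0) (XT.lf (nat_lit 1292) (nat_lit 236418653) (nat_lit 76) (nat_lit 1613994499) (nat_lit 0) (nat_lit 1613994499) (nat_lit 396) (nat_lit 1) (nat_lit 380) (nat_lit 1) (nat_lit 379) (nat_lit 1) (nat_lit 351) (nat_lit 340) (nat_lit 329)) (XT.nd (nat_lit 78) (nat_lit 1292) (nat_lit 0) (XT.lf (nat_lit 1292) (nat_lit 23955316) (nat_lit 0) (nat_lit 3368768811) (nat_lit 1216) (nat_lit 23955316) (nat_lit 397) (nat_lit 1) (nat_lit 380) (nat_lit 1) (nat_lit 396) (nat_lit 1) (nat_lit 352) (nat_lit 340) (nat_lit 328)) (XT.lf (nat_lit 1368) (nat_lit 1602238913) (nat_lit 0) (nat_lit 164853109) (nat_lit 1292) (nat_lit 1602238913) (nat_lit 381) (nat_lit 1) (nat_lit 363) (nat_lit 1) (nat_lit 380) (nat_lit 1) (nat_lit 353) (nat_lit 340) (nat_lit 327)))))) (XT.nd (nat_lit 390) (nat_lit 1216) (nat_lit 0) (XT.nd (nat_lit 156) (nat_lit 684) (nat_lit 0) (XT.nd (nat_lit 78) (nat_lit 0) (nat_lit 76) (XT.lf (nat_lit 1368) (nat_lit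 2950754523) (nat_lit 76) (nat_lit 186266475) (nat_lit 0) (nat_lit 186266475) (nat_lit 381) (nat_lit 1) (nat_lit 364) (nat_lit 1) (nat_lit 363) (nat_lit 1) (nat_lit 354) (nat_lit 340) (nat_lit 326)) (XT.lf (nat_lit 1368) (nat_lit 1337602913) (nat_lit 0) (nat_lit 602528321) (nat_lit 1292) (nat_lit 1337602913) (nat_lit 382) (nat_lit 1) (nat_lit 364) (nat_lit 1) (nat_lit 381) (nat_lit 1) (nat_lit 355) (nat_lit 340) (nat_lit 325))) (XT.nd (nat_lit 78) (nat_lit 760) (nat_lit 0) (XT.lf (nat_lit 1368) (nat_lit 2401775681) (nat_lit 76) (nat_lit 415779942) (nat_lit 0) (nat_lit 415779942) (nat_lit 382) (nat_lit 1) (nat_lit 365) (nat_lit 1) (nat_lit 364) (nat_lit 1) (nat_lit 356) (nat_lit 340) (nat_lit 324)) (XT.nd (nat_lit 78) (nat_lit 836) (nat_lit 0) (XT.lf (nat_lit 76) (nat_lit 1056264781) (nat_lit 0) (nat_lit 1077007965) (nat_lit 1292) (nat_lit 1056264781) (nat_lit 366) (nat_lit 1) (nat_lit 365) (nat_lit 1)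 (nat_lit 382) (nat_lit 1) (nat_lit 357) (nat_lit 340) (nat_lit 323)) (XT.lf (nat_lit 912) (nat_lit 1821149187) (nat_lit 0) (nat_lit 662779216) (nat_lit 836) (nat_lit 662779216) (nat_lit 366) (nat_lit 1) (nat_lit 354) (nat_lit 1) (nat_lit 365) (nat_lit 1) (nat_lit 358) (nat_lit 340) (nat_lit 322))))) (XT.nd (nat_lit 156) (nat_lit 608) (nat_lit 0) (XT.nd (nat_lit 78) (nat_lit 608) (nat_lit 0) (XT.lf (nat_lit 76) (nat_lit 760112219) (nat_lit 0) (nat_lit 1584375565) (nat_lit 912) (nat_lit 760112219) (nat_lit 355) (nat_lit 1) (nat_lit 354) (nat_lit 1) (nat_lit 366) (nat_lit 1) (nat_lit 359) (nat_lit 340) (nat_lit 321)) (XT.lf (nat_lit 684) (nat_lit 1212531394) (nat_lit 0) (nat_lit 925367504) (nat_lit 608) (nat_lit 925367504) (nat_lit 355) (nat_lit 1) (nat_lit 346) (nat_lit 1) (nat_lit 354) (nat_lit 1) (nat_lit 360) (nat_lit 340) (nat_lit 320))) (XT.nd (nat_lit 78) (nat_lit 608) (nat_lit 0) (XT.lf (nat_lit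 76) (nat_lit 450897511) (nat_lit 0) (nat_lit 2120992004) (nat_lit 684) (nat_lit 450897511) (nat_lit 347) (nat_lit 1) (nat_lit 346) (nat_lit 1) (nat_lit 355) (nat_lit 1) (nat_lit 361) (nat_lit 340) (nat_lit 319)) (XT.nd (nat_lit 78) (nat_lit 0) (nat_lit 0) (XT.lf (nat_lit 684) (nat_lit 579315184) (nat_lit 0) (nat_lit 1201782912) (nat_lit 608) (nat_lit 1201782912) (nat_lit 347) (nat_lit 1) (nat_lit 338) (nat_lit 1) (nat_lit 346) (nat_lit 1) (nat_lit 362) (nat_lit 340) (nat_lit 318)) (XT.lf (nat_lit 76) (nat_lit 130246085) (nat_lit 0) (nat_lit 2683478070) (nat_lit 684) (nat_lit 130246085) (nat_lit 339) (nat_lit 1) (nat_lit 338) (nat_lit 1) (nat_lit 347) (nat_lit 1) (nat_lit 363) (nat_lit 340) (nat_lit 317))))))) (XT.nd (nat_lit 702) (nat_lit 2204) (nat_lit 0) (XT.nd (nat_lit 312) (nat_lit 1596) (nat_lit 0) (XT.nd (nat_lit 156) (nat_lit 532) (nat_lit 0) (XT.nd (nat_lit 78) (nat_lit 608) (nat_lit 0) (XT.lf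 (nat_lit 76) (nat_lit 1415760932) (nat_lit 0) (nat_lit 73882930) (nat_lit 608) (nat_lit 1415760932) (nat_lit 331) (nat_lit 1) (nat_lit 330) (nat_lit 1) (nat_lit 338) (nat_lit 1) (nat_lit 364) (nat_lit 340) (nat_lit 316)) (XT.lf (nat_lit 684) (nat_lit 2471052182) (nat_lit 0) (nat_lit 198371367) (nat_lit 608) (nat_lit 198371367) (nat_lit 331) (nat_lit 1) (nat_lit 322) (nat_lit 1) (nat_lit 330) (nat_lit 1) (nat_lit 365) (nat_lit 340) (nat_lit 315))) (XT.nd (nat_lit 78) (nat_lit 532) (nat_lit 0) (XT.lf (nat_lit 76) (nat_lit 1048307876) (nat_lit 0) (nat_lit 733952120) (nat_lit 684) (nat_lit 1048307876) (nat_lit 323) (nat_lit 1) (nat_lit 322) (nat_lit 1) (nat_lit 331) (nat_lit 1) (nat_lit 366) (nat_lit 340) (nat_lit 314)) (XT.lf (nat_lit 608) (nat_lit 1725889630) (nat_lit 0) (nat_lit 534162951) (nat_lit 532) (nat_lit 534162951) (nat_lit 323) (nat_lit 1) (nat_lit 315) (nat_lit 1) (nat_lit 322) (nat_lit 1)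 (nat_lit 367) (nat_lit 340) (nat_lit 313)))) (XT.nd (nat_lit 156) (nat_lit 1064) (nat_lit 0) (XT.nd (nat_lit 78) (nat_lit 532) (nat_lit 0) (XT.lf (nat_lit 76) (nat_lit 674436669) (nat_lit 0) (nat_lit 1409550948) (nat_lit 608) (nat_lit 674436669) (nat_lit 316) (nat_lit 1) (nat_lit 315) (nat_lit 1) (nat_lit 323) (nat_lit 1) (nat_lit 368) (nat_lit 340) (nat_lit 312)) (XT.lf (nat_lit 608) (nat_lit 969018979) (nat_lit 0) (nat_lit 877127014) (nat_lit 532) (nat_lit 877127014) (nat_lit 316) (nat_lit 1) (nat_lit 308) (nat_lit 1) (nat_lit 315) (nat_lit 1) (nat_lit 369) (nat_lit 340) (nat_lit 311))) (XT.nd (nat_lit 78) (nat_lit 1064) (nat_lit 0) (XT.lf (nat_lit 76) (nat_lit 295317045) (nat_lit 0) (nat_lit 2098232017) (nat_lit 608) (nat_lit 295317045) (nat_lit 309) (nat_lit 1) (nat_lit 308) (nat_lit 1) (nat_lit 316) (nat_lit 1) (nat_lit 370) (nat_lit 340) (nat_lit 310)) (XT.nd (nat_lit 78) (nat_lit 608) (nat_lit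 0) (XT.lf (nat_lit 532) (nat_lit 202699219) (nat_lit 0) (nat_lit 1226081489) (nat_lit 456) (nat_lit 1226081489) (nat_lit 309) (nat_lit 1) (nat_lit 302) (nat_lit 1) (nat_lit 308) (nat_lit 1) (nat_lit 371) (nat_lit 340) (nat_lit 309)) (XT.lf (nat_lit 608) (nat_lit 2447469685) (nat_lit 0) (nat_lit 87109282) (nat_lit 532) (nat_lit 87109282) (nat_lit 302) (nat_lit 1) (nat_lit 294) (nat_lit 1) (nat_lit 301) (nat_lit 1) (nat_lit 372) (nat_lit 340) (nat_lit 308)))))) (XT.nd (nat_lit 390) (nat_lit 1292) (nat_lit 0) (XT.nd (nat_lit 156) (nat_lit 456) (nat_lit 0) (XT.nd (nat_lit 78) (nat_lit 456) (nat_lit 0) (XT.lf (nat_lit 76) (nat_lit 1014436717) (nat_lit 0) (nat_lit 559844551) (nat_lit 608) (nat_lit 1014436717) (nat_lit 295) (nat_lit 1) (nat_lit 294) (nat_lit 1) (nat_lit 302) (nat_lit 1) (nat_lit 373) (nat_lit 340) (nat_lit 307)) (XT.lf (nat_lit 532) (nat_lit 1616980635) (nat_lit 0) (nat_lit 469783760) (nat_lit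 456) (nat_lit 469783760) (nat_lit 295) (nat_lit 1) (nat_lit 288) (nat_lit 1) (nat_lit 294) (nat_lit 1) (nat_lit 374) (nat_lit 340) (nat_lit 306))) (XT.nd (nat_lit 78) (nat_lit 456) (nat_lit 0) (XT.lf (nat_lit 76) (nat_lit 600537502) (nat_lit 0) (nat_lit 1323774004) (nat_lit 532) (nat_lit 600537502) (nat_lit 289) (nat_lit 1) (nat_lit 288) (nat_lit 1) (nat_lit 295) (nat_lit 1) (nat_lit 375) (nat_lit 340) (nat_lit 305)) (XT.nd (nat_lit 78) (nat_lit 0) (nat_lit 0) (XT.lf (nat_lit 532) (nat_lit 784304952) (nat_lit 0) (nat_lit 854695089) (nat_lit 456) (nat_lit 854695089) (nat_lit 289) (nat_lit 1) (nat_lit 282) (nat_lit 1) (nat_lit 288) (nat_lit 1) (nat_lit 376) (nat_lit 340) (nat_lit 304)) (XT.lf (nat_lit 76) (nat_lit 185954219) (nat_lit 0) (nat_lit 2091314034) (nat_lit 532) (nat_lit 185954219) (nat_lit 283) (nat_lit 1) (nat_lit 282) (nat_lit 1) (nat_lit 289) (nat_lit 1) (nat_lit 377) (nat_lit 340) (nat_lit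 303))))) (XT.nd (nat_lit 156) (nat_lit 380) (nat_lit 0) (XT.nd (nat_lit 78) (nat_lit 456) (nat_lit 0) (XT.lf (nat_lit 76) (nat_lit 1192501115) (nat_lit 0) (nat_lit 48023835) (nat_lit 456) (nat_lit 1192501115) (nat_lit 277) (nat_lit 1) (nat_lit 276) (nat_lit 1) (nat_lit 282) (nat_lit 1) (nat_lit 378) (nat_lit 340) (nat_lit 302)) (XT.lf (nat_lit 532) (nat_lit 1950843930) (nat_lit 0) (nat_lit 226321109) (nat_lit 456) (nat_lit 226321109) (nat_lit 277) (nat_lit 1) (nat_lit 270) (nat_lit 1) (nat_lit 276) (nat_lit 1) (nat_lit 379) (nat_lit 340) (nat_lit 301))) (XT.nd (nat_lit 78) (nat_lit 380) (nat_lit 0) (XT.lf (nat_lit 76) (nat_lit 755007864) (nat_lit 0) (nat_lit 864228306) (nat_lit 532) (nat_lit 755007864) (nat_lit 271) (nat_lit 1) (nat_lit 270) (nat_lit 1) (nat_lit 277) (nat_lit 1) (nat_lit 380) (nat_lit 340) (nat_lit 300)) (XT.nd (nat_lit 78) (nat_lit 0) (nat_lit 0) (XT.lf (nat_lit 456) (nat_lit 1073554358)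 (nat_lit 0) (nat_lit 636026247) (nat_lit 380) (nat_lit 636026247) (nat_lit 271) (nat_lit 1) (nat_lit 265) (nat_lit 1) (nat_lit 270) (nat_lit 1) (nat_lit 381) (nat_lit 340) (nat_lit 299)) (XT.lf (nat_lit 76) (nat_lit 319588101) (nat_lit 0) (nat_lit 1678317970) (nat_lit 456) (nat_lit 319588101) (nat_lit 266) (nat_lit 1) (nat_lit 265) (nat_lit 1) (nat_lit 271) (nat_lit 1) (nat_lit 382) (nat_lit 340) (nat_lit 298))))))))
noncomputable def ec60 : XT := (XT.nd (nat_lit 1482) (nat_lit 2964) (nat_lit 0) (XT.nd (nat_lit 702) (nat_lit 1824) (nat_lit 0) (XT.nd (nat_lit 312) (nat_lit 1064) (nat_lit 0) (XT.nd (nat_lit 156) (nat_lit 380) (nat_lit 0) (XT.nd (nat_lit 78) (nat_lit 456) (nat_lit 0) (XT.lf (nat_lit 456) (nat_lit 200995742) (nat_lit 0) (nat_lit 1044362661) (nat_lit 380) (nat_lit 1044362661) (nat_lit 266) (nat_lit 1) (nat_lit 260) (nat_lit 1) (nat_lit 265) (nat_lit 1) (nat_lit 383) (nat_lit 340) (nat_lit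 297)) (XT.lf (nat_lit 456) (nat_lit 2038375164) (nat_lit 0) (nat_lit 112096255) (nat_lit 380) (nat_lit 112096255) (nat_lit 260) (nat_lit 1) (nat_lit 254) (nat_lit 1) (nat_lit 259) (nat_lit 1) (nat_lit 384) (nat_lit 340) (nat_lit 296))) (XT.nd (nat_lit 78) (nat_lit 380) (nat_lit 0) (XT.lf (nat_lit 76) (nat_lit 791389113) (nat_lit 0) (nat_lit 652782835) (nat_lit 456) (nat_lit 791389113) (nat_lit 255) (nat_lit 1) (nat_lit 254) (nat_lit 1) (nat_lit 260) (nat_lit 1) (nat_lit 385) (nat_lit 340) (nat_lit 295)) (XT.lf (nat_lit 456) (nat_lit 1134051271) (nat_lit 0) (nat_lit 537551687) (nat_lit 380) (nat_lit 537551687) (nat_lit 255) (nat_lit 1) (nat_lit 249) (nat_lit 1) (nat_lit 254) (nat_lit 1) (nat_lit 386) (nat_lit 340) (nat_lit 294)))) (XT.nd (nat_lit 156) (nat_lit 760) (nat_lit 0) (XT.nd (nat_lit 78) (nat_lit 304) (nat_lit 0) (XT.lf (nat_lit 76) (nat_lit 343582901) (nat_lit 0) (nat_lit 1496024511) (nat_lit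 456) (nat_lit 343582901) (nat_lit 250) (nat_lit 1) (nat_lit 249) (nat_lit 1) (nat_lit 255) (nat_lit 1) (nat_lit 387) (nat_lit 340) (nat_lit 293)) (XT.lf (nat_lit 380) (nat_lit 238629508) (nat_lit 0) (nat_lit 959462762) (nat_lit 304) (nat_lit 959462762) (nat_lit 250) (nat_lit 1) (nat_lit 245) (nat_lit 1) (nat_lit 249) (nat_lit 1) (nat_lit 388) (nat_lit 340) (nat_lit 292))) (XT.nd (nat_lit 78) (nat_lit 304) (nat_lit 0) (XT.lf (nat_lit 456) (nat_lit 1935229825) (nat_lit 0) (nat_lit 98626148) (nat_lit 380) (nat_lit 98626148) (nat_lit 245) (nat_lit 1) (nat_lit 239) (nat_lit 1) (nat_lit 244) (nat_lit 1) (nat_lit 389) (nat_lit 340) (nat_lit 291)) (XT.nd (nat_lit 78) (nat_lit 304) (nat_lit 0) (XT.lf (nat_lit 76) (nat_lit 736497182) (nat_lit 0) (nat_lit 634520234) (nat_lit 456) (nat_lit 736497182) (nat_lit 240) (nat_lit 1) (nat_lit 239) (nat_lit 1) (nat_lit 245) (nat_lit 1) (nat_lit 390) (nat_lit 340) (nat_lit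 290)) (XT.lf (nat_lit 380) (nat_lit 1018001288) (nat_lit 0) (nat_lit 532545905) (nat_lit 304) (nat_lit 532545905) (nat_lit 240) (nat_lit 1) (nat_lit 235) (nat_lit 1) (nat_lit 239) (nat_lit 1) (nat_lit 391) (nat_lit 340) (nat_lit 289)))))) (XT.nd (nat_lit 390) (nat_lit 836) (nat_lit 0) (XT.nd (nat_lit 156) (nat_lit 684) (nat_lit 0) (XT.nd (nat_lit 78) (nat_lit 304) (nat_lit 0) (XT.lf (nat_lit 76) (nat_lit 283090608) (nat_lit 0) (nat_lit 1492908120) (nat_lit 380) (nat_lit 283090608) (nat_lit 236) (nat_lit 1) (nat_lit 235) (nat_lit 1) (nat_lit 240) (nat_lit 1) (nat_lit 392) (nat_lit 340) (nat_lit 288)) (XT.lf (nat_lit 380) (nat_lit 112884597) (nat_lit 0) (nat_lit 961236905) (nat_lit 304) (nat_lit 961236905) (nat_lit 236) (nat_lit 1) (nat_lit 231) (nat_lit 1) (nat_lit 235) (nat_lit 1) (nat_lit 393) (nat_lit 340) (nat_lit 287))) (XT.nd (nat_lit 78) (nat_lit 304) (nat_lit 0) (XT.lf (nat_lit 380) (nat_lit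 1686987815) (nat_lit 0) (nat_lit 162553992) (nat_lit 304) (nat_lit 162553992) (nat_lit 231) (nat_lit 1) (nat_lit 226) (nat_lit 1) (nat_lit 230) (nat_lit 1) (nat_lit 394) (nat_lit 340) (nat_lit 286)) (XT.nd (nat_lit 78) (nat_lit 304) (nat_lit 0) (XT.lf (nat_lit 76) (nat_lit 612285705) (nat_lit 0) (nat_lit 764421234) (nat_lit 380) (nat_lit 612285705) (nat_lit 227) (nat_lit 1) (nat_lit 226) (nat_lit 1) (nat_lit 231) (nat_lit 1) (nat_lit 395) (nat_lit 340) (nat_lit 285)) (XT.lf (nat_lit 380) (nat_lit 768129121) (nat_lit 0) (nat_lit 599107498) (nat_lit 304) (nat_lit 599107498) (nat_lit 227) (nat_lit 1) (nat_lit 222) (nat_lit 1) (nat_lit 226) (nat_lit 1) (nat_lit 396) (nat_lit 340) (nat_lit 284))))) (XT.nd (nat_lit 156) (nat_lit 532) (nat_lit 0) (XT.nd (nat_lit 78) (nat_lit 304) (nat_lit 0) (XT.lf (nat_lit 76) (nat_lit 158688014) (nat_lit 0) (nat_lit 1626757717) (nat_lit 380) (nat_lit 158688014) (nat_lit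 223) (nat_lit 1) (nat_lit 222) (nat_lit 1) (nat_lit 227) (nat_lit 1) (nat_lit 397) (nat_lit 340) (nat_lit 283)) (XT.lf (nat_lit 76) (nat_lit 894263615) (nat_lit 0) (nat_lit 133539246) (nat_lit 304) (nat_lit 894263615) (nat_lit 219) (nat_lit 1) (nat_lit 218) (nat_lit 1) (nat_lit 222) (nat_lit 1) (nat_lit 398) (nat_lit 340) (nat_lit 282))) (XT.nd (nat_lit 78) (nat_lit 228) (nat_lit 0) (XT.lf (nat_lit 380) (nat_lit 1330853958) (nat_lit 0) (nat_lit 284785620) (nat_lit 304) (nat_lit 284785620) (nat_lit 219) (nat_lit 1) (nat_lit 214) (nat_lit 1) (nat_lit 218) (nat_lit 1) (nat_lit 399) (nat_lit 340) (nat_lit 281)) (XT.nd (nat_lit 78) (nat_lit 228) (nat_lit 0) (XT.lf (nat_lit 76) (nat_lit 436667101) (nat_lit 0) (nat_lit 1005696255) (nat_lit 380) (nat_lit 436667101) (nat_lit 215) (nat_lit 1) (nat_lit 214) (nat_lit 1) (nat_lit 219) (nat_lit 1) (nat_lit 400) (nat_lit 340) (nat_lit 280)) (XT.lf (nat_lit 304) (nat_lit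 419280499) (nat_lit 0) (nat_lit 719345594) (nat_lit 228) (nat_lit 719345594) (nat_lit 215) (nat_lit 1) (nat_lit 211) (nat_lit 1) (nat_lit 214) (nat_lit 1) (nat_lit 401) (nat_lit 340) (nat_lit 279))))))) (XT.nd (nat_lit 702) (nat_lit 1292) (nat_lit 0) (XT.nd (nat_lit 312) (nat_lit 1064) (nat_lit 0) (XT.nd (nat_lit 156) (nat_lit 228) (nat_lit 0) (XT.nd (nat_lit 78) (nat_lit 0) (nat_lit 0) (XT.lf (nat_lit 380) (nat_lit 1811942799) (nat_lit 0) (nat_lit 12723836) (nat_lit 304) (nat_lit 12723836) (nat_lit 211) (nat_lit 1) (nat_lit 206) (nat_lit 1) (nat_lit 210) (nat_lit 1) (nat_lit 402) (nat_lit 340) (nat_lit 278)) (XT.lf (nat_lit 76) (nat_lit 675036032) (nat_lit 0) (nat_lit 466696730) (nat_lit 380) (nat_lit 675036032) (nat_lit 207) (nat_lit 1) (nat_lit 206) (nat_lit 1) (nat_lit 211) (nat_lit 1) (nat_lit 403) (nat_lit 340) (nat_lit 277))) (XT.nd (nat_lit 78) (nat_lit 0) (nat_lit 0) (XT.lf (nat_lit 304) (nat_lit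 897078416) (nat_lit 0) (nat_lit 449768032) (nat_lit 228) (nat_lit 449768032) (nat_lit 207) (nat_lit 1) (nat_lit 203) (nat_lit 1) (nat_lit 206) (nat_lit 1) (nat_lit 404) (nat_lit 340) (nat_lit 276)) (XT.lf (nat_lit 76) (nat_lit 224198397) (nat_lit 0) (nat_lit 1328391696) (nat_lit 304) (nat_lit 224198397) (nat_lit 204) (nat_lit 1) (nat_lit 203) (nat_lit 1) (nat_lit 207) (nat_lit 1) (nat_lit 405) (nat_lit 340) (nat_lit 275)))) (XT.nd (nat_lit 156) (nat_lit 532) (nat_lit 0) (XT.nd (nat_lit 78) (nat_lit 228) (nat_lit 0) (XT.lf (nat_lit 76) (nat_lit 878462681) (nat_lit 0) (nat_lit 235198) (nat_lit 304) (nat_lit 878462681) (nat_lit 200) (nat_lit 1) (nat_lit 199) (nat_lit 1) (nat_lit 203) (nat_lit 1) (nat_lit 406) (nat_lit 340) (nat_lit 274)) (XT.lf (nat_lit 304) (nat_lit 1306317430) (nat_lit 0) (nat_lit 215767235) (nat_lit 228) (nat_lit 215767235) (nat_lit 200) (nat_lit 1) (nat_lit 196) (nat_lit 1) (nat_lit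 199) (nat_lit 1) (nat_lit 407) (nat_lit 340) (nat_lit 273))) (XT.nd (nat_lit 78) (nat_lit 532) (nat_lit 0) (XT.lf (nat_lit 76) (nat_lit 427950082) (nat_lit 0) (nat_lit 862828752) (nat_lit 304) (nat_lit 427950082) (nat_lit 197) (nat_lit 1) (nat_lit 196) (nat_lit 1) (nat_lit 200) (nat_lit 1) (nat_lit 408) (nat_lit 340) (nat_lit 272)) (XT.nd (nat_lit 78) (nat_lit 304) (nat_lit 0) (XT.lf (nat_lit 304) (nat_lit 410142742) (nat_lit 0) (nat_lit 644886893) (nat_lit 228) (nat_lit 644886893) (nat_lit 197) (nat_lit 1) (nat_lit 193) (nat_lit 1) (nat_lit 196) (nat_lit 1) (nat_lit 409) (nat_lit 340) (nat_lit 271)) (XT.lf (nat_lit 304) (nat_lit 1655087745) (nat_lit 0) (nat_lit 13215291) (nat_lit 228) (nat_lit 13215291) (nat_lit 193) (nat_lit 1) (nat_lit 189) (nat_lit 1) (nat_lit 192) (nat_lit 1) (nat_lit 410) (nat_lit 340) (nat_lit 270)))))) (XT.nd (nat_lit 390) (nat_lit 608) (nat_lit 0) (XT.nd (nat_lit 156) (nat_lit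 456) (nat_lit 0) (XT.nd (nat_lit 78) (nat_lit 228) (nat_lit 0) (XT.lf (nat_lit 76) (nat_lit 602318115) (nat_lit 0) (nat_lit 458427643) (nat_lit 304) (nat_lit 602318115) (nat_lit 190) (nat_lit 1) (nat_lit 189) (nat_lit 1) (nat_lit 193) (nat_lit 1) (nat_lit 411) (nat_lit 340) (nat_lit 269)) (XT.lf (nat_lit 304) (nat_lit 762810274) (nat_lit 0) (nat_lit 441102874) (nat_lit 228) (nat_lit 441102874) (nat_lit 190) (nat_lit 1) (nat_lit 186) (nat_lit 1) (nat_lit 189) (nat_lit 1) (nat_lit 412) (nat_lit 340) (nat_lit 268))) (XT.nd (nat_lit 78) (nat_lit 456) (nat_lit 0) (XT.lf (nat_lit 76) (nat_lit 163150229) (nat_lit 0) (nat_lit 1300973400) (nat_lit 304) (nat_lit 163150229) (nat_lit 187) (nat_lit 1) (nat_lit 186) (nat_lit 1) (nat_lit 190) (nat_lit 1) (nat_lit 413) (nat_lit 340) (nat_lit 267)) (XT.nd (nat_lit 78) (nat_lit 228) (nat_lit 0) (XT.lf (nat_lit 76) (nat_lit 750773213) (nat_lit 0) (nat_lit 108098743) (nat_lit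 228) (nat_lit 750773213) (nat_lit 184) (nat_lit 1) (nat_lit 183) (nat_lit 1) (nat_lit 186) (nat_lit 1) (nat_lit 414) (nat_lit 340) (nat_lit 266)) (XT.lf (nat_lit 304) (nat_lit 1064546816) (nat_lit 0) (nat_lit 263884308) (nat_lit 228) (nat_lit 263884308) (nat_lit 184) (nat_lit 1) (nat_lit 180) (nat_lit 1) (nat_lit 183) (nat_lit 1) (nat_lit 415) (nat_lit 340) (nat_lit 265))))) (XT.nd (nat_lit 156) (nat_lit 456) (nat_lit 0) (XT.nd (nat_lit 78) (nat_lit 152) (nat_lit 0) (XT.lf (nat_lit 76) (nat_lit 314867640) (nat_lit 0) (nat_lit 945448170) (nat_lit 304) (nat_lit 314867640) (nat_lit 181) (nat_lit 1) (nat_lit 180) (nat_lit 1) (nat_lit 184) (nat_lit 1) (nat_lit 416) (nat_lit 340) (nat_lit 264)) (XT.lf (nat_lit 228) (nat_lit 198319061) (nat_lit 0) (nat_lit 679980713) (nat_lit 152) (nat_lit 679980713) (nat_lit 181) (nat_lit 1) (nat_lit 178) (nat_lit 1) (nat_lit 180) (nat_lit 1) (nat_lit 417) (nat_lit 340) (nat_lit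 263))) (XT.nd (nat_lit 78) (nat_lit 152) (nat_lit 0) (XT.lf (nat_lit 304) (nat_lit 1321369812) (nat_lit 0) (nat_lit 110156933) (nat_lit 228) (nat_lit 110156933) (nat_lit 178) (nat_lit 1) (nat_lit 174) (nat_lit 1) (nat_lit 177) (nat_lit 1) (nat_lit 418) (nat_lit 340) (nat_lit 262)) (XT.nd (nat_lit 78) (nat_lit 152) (nat_lit 0) (XT.lf (nat_lit 76) (nat_lit 444717738) (nat_lit 0) (nat_lit 635698216) (nat_lit 304) (nat_lit 444717738) (nat_lit 175) (nat_lit 1) (nat_lit 174) (nat_lit 1) (nat_lit 178) (nat_lit 1) (nat_lit 419) (nat_lit 340) (nat_lit 261)) (XT.lf (nat_lit 228) (nat_lit 463849417) (nat_lit 0) (nat_lit 522517401) (nat_lit 152) (nat_lit 522517401) (nat_lit 175) (nat_lit 1) (nat_lit 172) (nat_lit 1) (nat_lit 174) (nat_lit 1) (nat_lit 420) (nat_lit 340) (nat_lit 260))))))))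
noncomputable def ec61 : XT := (XT.nd (nat_lit 46800) (nat_lit 0) (nat_lit 15200) (XT.nd (nat_lit 702) (nat_lit 836) (nat_lit 0) (XT.nd (nat_lit 312) (nat_lit 760) (nat_lit 0) (XT.nd (nat_lit 156) (nat_lit 152) (nat_lit 0) (XT.nd (nat_lit 78) (nat_lit 228) (nat_lit 0) (XT.lf (nat_lit 76) (nat_lit 23033250) (nat_lit 0) (nat_lit 1446907768) (nat_lit 228) (nat_lit 23033250) (nat_lit 173) (nat_lit 1) (nat_lit 172) (nat_lit 1) (nat_lit 175) (nat_lit 1) (nat_lit 421) (nat_lit 340) (nat_lit 259)) (XT.lf (nat_lit 76) (nat_lit 555283152) (nat_lit 0) (nat_lit 366440468) (nat_lit 228) (nat_lit 555283152) (nat_lit 170) (nat_lit 1) (nat_lit 169) (nat_lit 1) (nat_lit 172) (nat_lit 1) (nat_lit 422) (nat_lit 340) (nat_lit 258))) (XT.nd (nat_lit 78) (nat_lit 0) (nat_lit 0) (XT.lf (nat_lit 228) (nat_lit 691391676) (nat_lit 0) (nat_lit 384991054) (nat_lit 152) (nat_lit 384991054) (nat_lit 170) (nat_lit 1) (nat_lit 167)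 (nat_lit 1) (nat_lit 169) (nat_lit 1) (nat_lit 423) (nat_lit 340) (nat_lit 257)) (XT.lf (nat_lit 76) (nat_lit 138790277) (nat_lit 0) (nat_lit 1168416189) (nat_lit 228) (nat_lit 138790277) (nat_lit 168) (nat_lit 1) (nat_lit 167) (nat_lit 1) (nat_lit 170) (nat_lit 1) (nat_lit 424) (nat_lit 340) (nat_lit 256)))) (XT.nd (nat_lit 156) (nat_lit 380) (nat_lit 0) (XT.nd (nat_lit 78) (nat_lit 152) (nat_lit 0) (XT.lf (nat_lit 76) (nat_lit 648854317) (nat_lit 0) (nat_lit 132986189) (nat_lit 228) (nat_lit 648854317) (nat_lit 165) (nat_lit 1) (nat_lit 164) (nat_lit 1) (nat_lit 167) (nat_lit 1) (nat_lit 425) (nat_lit 340) (nat_lit 255)) (XT.lf (nat_lit 228) (nat_lit 885426021) (nat_lit 0) (nat_lit 265109188) (nat_lit 152) (nat_lit 265109188) (nat_lit 165) (nat_lit 1) (nat_lit 162) (nat_lit 1) (nat_lit 164) (nat_lit 1) (nat_lit 426) (nat_lit 340) (nat_lit 254))) (XT.nd (nat_lit 78) (nat_lit 380) (nat_lit 0) (XT.lf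 (nat_lit 76) (nat_lit 238192522) (nat_lit 0) (nat_lit 924391950) (nat_lit 228) (nat_lit 238192522) (nat_lit 163) (nat_lit 1) (nat_lit 162) (nat_lit 1) (nat_lit 165) (nat_lit 1) (nat_lit 427) (nat_lit 340) (nat_lit 253)) (XT.nd (nat_lit 78) (nat_lit 228) (nat_lit 0) (XT.lf (nat_lit 228) (nat_lit 70195216) (nat_lit 0) (nat_lit 657941722) (nat_lit 152) (nat_lit 657941722) (nat_lit 163) (nat_lit 1) (nat_lit 160) (nat_lit 1) (nat_lit 162) (nat_lit 1) (nat_lit 428) (nat_lit 340) (nat_lit 252)) (XT.lf (nat_lit 228) (nat_lit 1049925932) (nat_lit 0) (nat_lit 160836975) (nat_lit 152) (nat_lit 160836975) (nat_lit 160) (nat_lit 1) (nat_lit 157) (nat_lit 1) (nat_lit 159) (nat_lit 1) (nat_lit 429) (nat_lit 340) (nat_lit 251)))))) (XT.nd (nat_lit 390) (nat_lit 304) (nat_lit 0) (XT.nd (nat_lit 156) (nat_lit 380) (nat_lit 0) (XT.nd (nat_lit 78) (nat_lit 152) (nat_lit 0) (XT.lf (nat_lit 76) (nat_lit 323164134) (nat_lit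 0) (nat_lit 710892118) (nat_lit 228) (nat_lit 323164134) (nat_lit 158) (nat_lit 1) (nat_lit 157) (nat_lit 1) (nat_lit 160) (nat_lit 1) (nat_lit 430) (nat_lit 340) (nat_lit 250)) (XT.lf (nat_lit 228) (nat_lit 247516346) (nat_lit 0) (nat_lit 547770184) (nat_lit 152) (nat_lit 547770184) (nat_lit 158) (nat_lit 1) (nat_lit 155) (nat_lit 1) (nat_lit 157) (nat_lit 1) (nat_lit 431) (nat_lit 340) (nat_lit 249))) (XT.nd (nat_lit 78) (nat_lit 152) (nat_lit 0) (XT.lf (nat_lit 228) (nat_lit 1188414893) (nat_lit 0) (nat_lit 70368458) (nat_lit 152) (nat_lit 70368458) (nat_lit 155) (nat_lit 1) (nat_lit 152) (nat_lit 1) (nat_lit 154) (nat_lit 1) (nat_lit 432) (nat_lit 340) (nat_lit 248)) (XT.nd (nat_lit 78) (nat_lit 152) (nat_lit 0) (XT.lf (nat_lit 76) (nat_lit 395411772) (nat_lit 0) (nat_lit 524416346) (nat_lit 228) (nat_lit 395411772) (nat_lit 153) (nat_lit 1) (nat_lit 152) (nat_lit 1) (nat_lit 155) (nat_lit 1) (nat_lit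 433) (nat_lit 340) (nat_lit 247)) (XT.lf (nat_lit 228) (nat_lit 399671189) (nat_lit 0) (nat_lit 450956117) (nat_lit 152) (nat_lit 450956117) (nat_lit 153) (nat_lit 1) (nat_lit 150) (nat_lit 1) (nat_lit 152) (nat_lit 1) (nat_lit 434) (nat_lit 340) (nat_lit 246))))) (XT.nd (nat_lit 156) (nat_lit 152) (nat_lit 0) (XT.nd (nat_lit 78) (nat_lit 152) (nat_lit 0) (XT.lf (nat_lit 76) (nat_lit 7977240) (nat_lit 0) (nat_lit 1272254982) (nat_lit 228) (nat_lit 7977240) (nat_lit 151) (nat_lit 1) (nat_lit 150) (nat_lit 1) (nat_lit 153) (nat_lit 1) (nat_lit 435) (nat_lit 340) (nat_lit 245)) (XT.lf (nat_lit 76) (nat_lit 456448941) (nat_lit 0) (nat_lit 361857428) (nat_lit 152) (nat_lit 456448941) (nat_lit 149) (nat_lit 1) (nat_lit 148) (nat_lit 1) (nat_lit 150) (nat_lit 1) (nat_lit 436) (nat_lit 340) (nat_lit 244))) (XT.nd (nat_lit 45396) (nat_lit 0) (nat_lit 17328) (XT.lf (nat_lit 228) (nat_lit 529623181) (nat_lit 0)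 (nat_lit 365978770) (nat_lit 152) (nat_lit 365978770) (nat_lit 149) (nat_lit 1) (nat_lit 146) (nat_lit 1) (nat_lit 148) (nat_lit 1) (nat_lit 437) (nat_lit 340) (nat_lit 243)) (XT.nd (nat_lit 78) (nat_lit 0) (nat_lit 0) (XT.lf (nat_lit 1292) (nat_lit 384150941) (nat_lit 0) (nat_lit 1321657895) (nat_lit 1292) (nat_lit 384150941) (nat_lit 391) (nat_lit 1) (nat_lit 374) (nat_lit 0) (nat_lit 391) (nat_lit 0) (nat_lit 338) (nat_lit 341) (nat_lit 341)) (XT.lf (nat_lit 1292) (nat_lit 1501268611) (nat_lit 76) (nat_lit 1308700465) (nat_lit 0) (nat_lit 1308700465) (nat_lit 391) (nat_lit 1) (nat_lit 375) (nat_lit 1) (nat_lit 374) (nat_lit 0) (nat_lit 339) (nat_lit 341) (nat_lit 340))))))) (XT.nd (nat_lit 702) (nat_lit 2204) (nat_lit 0) (XT.nd (nat_lit 312) (nat_lit 0) (nat_lit 152) (XT.nd (nat_lit 156) (nat_lit 0) (nat_lit 76) (XT.nd (nat_lit 78) (nat_lit 0) (nat_lit 0) (XT.lf (nat_lit 1292) (nat_lit 726049294)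 (nat_lit 0) (nat_lit 2606671984) (nat_lit 1216) (nat_lit 726049294) (nat_lit 392) (nat_lit 1) (nat_lit 375) (nat_lit 1) (nat_lit 391) (nat_lit 1) (nat_lit 340) (nat_lit 341) (nat_lit 339)) (XT.lf (nat_lit 1292) (nat_lit 1378805097) (nat_lit 76) (nat_lit 1310533400) (nat_lit 0) (nat_lit 1310533400) (nat_lit 392) (nat_lit 1) (nat_lit 376) (nat_lit 1) (nat_lit 375) (nat_lit 1) (nat_lit 341) (nat_lit 341) (nat_lit 338))) (XT.nd (nat_lit 78) (nat_lit 0) (nat_lit 0) (XT.lf (nat_lit 1292) (nat_lit 646997415) (nat_lit 0) (nat_lit 2648296269) (nat_lit 1216) (nat_lit 646997415) (nat_lit 393) (nat_lit 1) (nat_lit 376) (nat_lit 1) (nat_lit 392) (nat_lit 1) (nat_lit 342) (nat_lit 341) (nat_lit 337)) (XT.lf (nat_lit 1292) (nat_lit 1185691077) (nat_lit 76) (nat_lit 1349970055) (nat_lit 0) (nat_lit 1349970055) (nat_lit 393) (nat_lit 1) (nat_lit 377) (nat_lit 1) (nat_lit 376) (nat_lit 1) (nat_lit 343) (nat_lit 341)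 (nat_lit 336)))) (XT.nd (nat_lit 156) (nat_lit 0) (nat_lit 76) (XT.nd (nat_lit 78) (nat_lit 0) (nat_lit 0) (XT.lf (nat_lit 1292) (nat_lit 534401143) (nat_lit 0) (nat_lit 2761477351) (nat_lit 1216) (nat_lit 534401143) (nat_lit 394) (nat_lit 1) (nat_lit 377) (nat_lit 1) (nat_lit 393) (nat_lit 1) (nat_lit 344) (nat_lit 341) (nat_lit 335)) (XT.lf (nat_lit 1292) (nat_lit 928244716) (nat_lit 76) (nat_lit 1423753504) (nat_lit 0) (nat_lit 1423753504) (nat_lit 394) (nat_lit 1) (nat_lit 378) (nat_lit 1) (nat_lit 377) (nat_lit 1) (nat_lit 345) (nat_lit 341) (nat_lit 334))) (XT.nd (nat_lit 78) (nat_lit 0) (nat_lit 0) (XT.lf (nat_lit 1292) (nat_lit 391295257) (nat_lit 0) (nat_lit 2939953804) (nat_lit 1216) (nat_lit 391295257) (nat_lit 395) (nat_lit 1) (nat_lit 378) (nat_lit 1) (nat_lit 394) (nat_lit 1) (nat_lit 346) (nat_lit 341) (nat_lit 333)) (XT.nd (nat_lit 78) (nat_lit 0) (nat_lit 76) (XT.lf (nat_lit 1292) (nat_lit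 612355591) (nat_lit 76) (nat_lit 1528845772) (nat_lit 0) (nat_lit 1528845772) (nat_lit 395) (nat_lit 1) (nat_lit 379) (nat_lit 1) (nat_lit 378) (nat_lit 1) (nat_lit 347) (nat_lit 341) (nat_lit 332)) (XT.lf (nat_lit 1292) (nat_lit 220508020) (nat_lit 0) (nat_lit 3177886366) (nat_lit 1216) (nat_lit 220508020) (nat_lit 396) (nat_lit 1) (nat_lit 379) (nat_lit 1) (nat_lit 395) (nat_lit 1) (nat_lit 348) (nat_lit 341) (nat_lit 331)))))) (XT.nd (nat_lit 390) (nat_lit 1292) (nat_lit 0) (XT.nd (nat_lit 156) (nat_lit 1216) (nat_lit 0) (XT.nd (nat_lit 78) (nat_lit 0) (nat_lit 76) (XT.lf (nat_lit 1292) (nat_lit 243511212) (nat_lit 76) (nat_lit 1662414334) (nat_lit 0) (nat_lit 1662414334) (nat_lit 396) (nat_lit 1) (nat_lit 380) (nat_lit 1) (nat_lit 379) (nat_lit 1) (nat_lit 349) (nat_lit 341) (nat_lit 330)) (XT.lf (nat_lit 1292) (nat_lit 24673975) (nat_lit 0) (nat_lit 3469831875) (nat_lit 1216) (nat_lit 24673975)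 (nat_lit 397) (nat_lit 1) (nat_lit 380) (nat_lit 1) (nat_lit 396) (nat_lit 1) (nat_lit 350) (nat_lit 341) (nat_lit 329))) (XT.nd (nat_lit 78) (nat_lit 0) (nat_lit 0) (XT.lf (nat_lit 1368) (nat_lit 1650306080) (nat_lit 0) (nat_lit 169798702) (nat_lit 1292) (nat_lit 1650306080) (nat_lit 381) (nat_lit 1) (nat_lit 363) (nat_lit 1) (nat_lit 380) (nat_lit 1) (nat_lit 351) (nat_lit 341) (nat_lit 328)) (XT.nd (nat_lit 78) (nat_lit 0) (nat_lit 76) (XT.lf (nat_lit 1368) (nat_lit 3039277158) (nat_lit 76) (nat_lit 191854469) (nat_lit 0) (nat_lit 191854469) (nat_lit 381) (nat_lit 1) (nat_lit 364) (nat_lit 1) (nat_lit 363) (nat_lit 1) (nat_lit 352) (nat_lit 341) (nat_lit 327)) (XT.lf (nat_lit 1368) (nat_lit 1377731001) (nat_lit 0) (nat_lit 620604170) (nat_lit 1292) (nat_lit 1377731001) (nat_lit 382) (nat_lit 1) (nat_lit 364) (nat_lit 1) (nat_lit 381) (nat_lit 1) (nat_lit 353) (nat_lit 341) (nat_lit 326))))) (XT.nd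 (nat_lit 156) (nat_lit 1368) (nat_lit 0) (XT.nd (nat_lit 78) (nat_lit 0) (nat_lit 76) (XT.lf (nat_lit 1368) (nat_lit 2473828951) (nat_lit 76) (nat_lit 428253341) (nat_lit 0) (nat_lit 428253341) (nat_lit 382) (nat_lit 1) (nat_lit 365) (nat_lit 1) (nat_lit 364) (nat_lit 1) (nat_lit 354) (nat_lit 341) (nat_lit 325)) (XT.lf (nat_lit 76) (nat_lit 1087952724) (nat_lit 0) (nat_lit 1109318204) (nat_lit 1292) (nat_lit 1087952724) (nat_lit 366) (nat_lit 1) (nat_lit 365) (nat_lit 1) (nat_lit 382) (nat_lit 1) (nat_lit 355) (nat_lit 341) (nat_lit 324))) (XT.nd (nat_lit 78) (nat_lit 608) (nat_lit 0) (XT.lf (nat_lit 912) (nat_lit 1875783662) (nat_lit 0) (nat_lit 682662592) (nat_lit 836) (nat_lit 682662592) (nat_lit 366) (nat_lit 1) (nat_lit 354) (nat_lit 1) (nat_lit 365) (nat_lit 1) (nat_lit 356) (nat_lit 341) (nat_lit 323)) (XT.nd (nat_lit 78) (nat_lit 608) (nat_lit 0) (XT.lf (nat_lit 76) (nat_lit 782915585) (nat_lit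 0) (nat_lit 1631906832) (nat_lit 912) (nat_lit 782915585) (nat_lit 355) (nat_lit 1) (nat_lit 354) (nat_lit 1) (nat_lit 366) (nat_lit 1) (nat_lit 357) (nat_lit 341) (nat_lit 322)) (XT.lf (nat_lit 684) (nat_lit 1248907336) (nat_lit 0) (nat_lit 953128529) (nat_lit 608) (nat_lit 953128529) (nat_lit 355) (nat_lit 1) (nat_lit 346) (nat_lit 1) (nat_lit 354) (nat_lit 1) (nat_lit 358) (nat_lit 341) (nat_lit 321))))))))
noncomputable def ec62 : XT := (XT.nd (nat_lit 1482) (nat_lit 3952) (nat_lit 0) (XT.nd (nat_lit 702) (nat_lit 2888) (nat_lit 0) (XT.nd (nat_lit 312) (nat_lit 1672) (nat_lit 0) (XT.nd (nat_lit 156) (nat_lit 608) (nat_lit 0) (XT.nd (nat_lit 78) (nat_lit 608) (nat_lit 0) (XT.lf (nat_lit 76) (nat_lit 464424436) (nat_lit 0) (nat_lit 2184621764) (nat_lit 684) (nat_lit 464424436) (nat_lit 347) (nat_lit 1) (nat_lit 346) (nat_lit 1) (nat_lit 355) (nat_lit 1) (nat_lit 359) (nat_lit 341) (nat_lit 320)) (XT.lf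 (nat_lit 684) (nat_lit 596694640) (nat_lit 0) (nat_lit 1237836399) (nat_lit 608) (nat_lit 1237836399) (nat_lit 347) (nat_lit 1) (nat_lit 338) (nat_lit 1) (nat_lit 346) (nat_lit 1) (nat_lit 360) (nat_lit 341) (nat_lit 319))) (XT.nd (nat_lit 78) (nat_lit 608) (nat_lit 0) (XT.lf (nat_lit 76) (nat_lit 134153467) (nat_lit 0) (nat_lit 2763982412) (nat_lit 684) (nat_lit 134153467) (nat_lit 339) (nat_lit 1) (nat_lit 338) (nat_lit 1) (nat_lit 347) (nat_lit 1) (nat_lit 361) (nat_lit 341) (nat_lit 318)) (XT.lf (nat_lit 76) (nat_lit 1458233760) (nat_lit 0) (nat_lit 76099418) (nat_lit 608) (nat_lit 1458233760) (nat_lit 331) (nat_lit 1) (nat_lit 330) (nat_lit 1) (nat_lit 338) (nat_lit 1) (nat_lit 362) (nat_lit 341) (nat_lit 317)))) (XT.nd (nat_lit 156) (nat_lit 1064) (nat_lit 0) (XT.nd (nat_lit 78) (nat_lit 0) (nat_lit 0) (XT.lf (nat_lit 684) (nat_lit 2545183747) (nat_lit 0) (nat_lit 204322508) (nat_lit 608) (nat_lit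 204322508) (nat_lit 331) (nat_lit 1) (nat_lit 322) (nat_lit 1) (nat_lit 330) (nat_lit 1) (nat_lit 363) (nat_lit 341) (nat_lit 316)) (XT.lf (nat_lit 76) (nat_lit 1079757112) (nat_lit 0) (nat_lit 755970684) (nat_lit 684) (nat_lit 1079757112) (nat_lit 323) (nat_lit 1) (nat_lit 322) (nat_lit 1) (nat_lit 331) (nat_lit 1) (nat_lit 364) (nat_lit 341) (nat_lit 315))) (XT.nd (nat_lit 78) (nat_lit 532) (nat_lit 0) (XT.lf (nat_lit 608) (nat_lit 1777666319) (nat_lit 0) (nat_lit 550187839) (nat_lit 532) (nat_lit 550187839) (nat_lit 323) (nat_lit 1) (nat_lit 315) (nat_lit 1) (nat_lit 322) (nat_lit 1) (nat_lit 365) (nat_lit 341) (nat_lit 314)) (XT.nd (nat_lit 78) (nat_lit 532) (nat_lit 0) (XT.lf (nat_lit 76) (nat_lit 694669770) (nat_lit 0) (nat_lit 1451837476) (nat_lit 608) (nat_lit 694669770) (nat_lit 316) (nat_lit 1) (nat_lit 315) (nat_lit 1) (nat_lit 323) (nat_lit 1) (nat_lit 366) (nat_lit 341) (nat_lit 313)) (XT.lf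 (nat_lit 608) (nat_lit 998089548) (nat_lit 0) (nat_lit 903440825) (nat_lit 532) (nat_lit 903440825) (nat_lit 316) (nat_lit 1) (nat_lit 308) (nat_lit 1) (nat_lit 315) (nat_lit 1) (nat_lit 367) (nat_lit 341) (nat_lit 312)))))) (XT.nd (nat_lit 390) (nat_lit 1368) (nat_lit 0) (XT.nd (nat_lit 156) (nat_lit 1064) (nat_lit 0) (XT.nd (nat_lit 78) (nat_lit 456) (nat_lit 0) (XT.lf (nat_lit 76) (nat_lit 304176556) (nat_lit 0) (nat_lit 2161178978) (nat_lit 608) (nat_lit 304176556) (nat_lit 309) (nat_lit 1) (nat_lit 308) (nat_lit 1) (nat_lit 316) (nat_lit 1) (nat_lit 368) (nat_lit 341) (nat_lit 311)) (XT.lf (nat_lit 532) (nat_lit 208780195) (nat_lit 0) (nat_lit 1262863934) (nat_lit 456) (nat_lit 1262863934) (nat_lit 309) (nat_lit 1) (nat_lit 302) (nat_lit 1) (nat_lit 308) (nat_lit 1) (nat_lit 369) (nat_lit 341) (nat_lit 310))) (XT.nd (nat_lit 78) (nat_lit 456) (nat_lit 0) (XT.lf (nat_lit 608) (nat_lit 2520893776)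 (nat_lit 0) (nat_lit 89722561) (nat_lit 532) (nat_lit 89722561) (nat_lit 302) (nat_lit 1) (nat_lit 294) (nat_lit 1) (nat_lit 301) (nat_lit 1) (nat_lit 370) (nat_lit 341) (nat_lit 309)) (XT.nd (nat_lit 78) (nat_lit 456) (nat_lit 0) (XT.lf (nat_lit 76) (nat_lit 1044869818) (nat_lit 0) (nat_lit 576639887) (nat_lit 608) (nat_lit 1044869818) (nat_lit 295) (nat_lit 1) (nat_lit 294) (nat_lit 1) (nat_lit 302) (nat_lit 1) (nat_lit 371) (nat_lit 341) (nat_lit 308)) (XT.lf (nat_lit 532) (nat_lit 1665490054) (nat_lit 0) (nat_lit 483877272) (nat_lit 456) (nat_lit 483877272) (nat_lit 295) (nat_lit 1) (nat_lit 288) (nat_lit 1) (nat_lit 294) (nat_lit 1) (nat_lit 372) (nat_lit 341) (nat_lit 307))))) (XT.nd (nat_lit 156) (nat_lit 912) (nat_lit 0) (XT.nd (nat_lit 78) (nat_lit 456) (nat_lit 0) (XT.lf (nat_lit 76) (nat_lit 618553627) (nat_lit 0) (nat_lit 1363487224) (nat_lit 532) (nat_lit 618553627) (nat_lit 289) (nat_lit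 1) (nat_lit 288) (nat_lit 1) (nat_lit 295) (nat_lit 1) (nat_lit 373) (nat_lit 341) (nat_lit 306)) (XT.lf (nat_lit 532) (nat_lit 807834101) (nat_lit 0) (nat_lit 880335942) (nat_lit 456) (nat_lit 880335942) (nat_lit 289) (nat_lit 1) (nat_lit 282) (nat_lit 1) (nat_lit 288) (nat_lit 1) (nat_lit 374) (nat_lit 341) (nat_lit 305))) (XT.nd (nat_lit 78) (nat_lit 912) (nat_lit 0) (XT.lf (nat_lit 76) (nat_lit 191532846) (nat_lit 0) (nat_lit 2154053455) (nat_lit 532) (nat_lit 191532846) (nat_lit 283) (nat_lit 1) (nat_lit 282) (nat_lit 1) (nat_lit 289) (nat_lit 1) (nat_lit 375) (nat_lit 341) (nat_lit 304)) (XT.nd (nat_lit 78) (nat_lit 456) (nat_lit 0) (XT.lf (nat_lit 76) (nat_lit 1228276149) (nat_lit 0) (nat_lit 49464550) (nat_lit 456) (nat_lit 1228276149) (nat_lit 277) (nat_lit 1) (nat_lit 276) (nat_lit 1) (nat_lit 282) (nat_lit 1) (nat_lit 376) (nat_lit 341) (nat_lit 303)) (XT.lf (nat_lit 532) (nat_lit 2009369248)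 (nat_lit 0) (nat_lit 233110742) (nat_lit 456) (nat_lit 233110742) (nat_lit 277) (nat_lit 1) (nat_lit 270) (nat_lit 1) (nat_lit 276) (nat_lit 1) (nat_lit 377) (nat_lit 341) (nat_lit 302))))))) (XT.nd (nat_lit 702) (nat_lit 2052) (nat_lit 0) (XT.nd (nat_lit 312) (nat_lit 1140) (nat_lit 0) (XT.nd (nat_lit 156) (nat_lit 380) (nat_lit 0) (XT.nd (nat_lit 78) (nat_lit 380) (nat_lit 0) (XT.lf (nat_lit 76) (nat_lit 777658100) (nat_lit 0) (nat_lit 890155155) (nat_lit 532) (nat_lit 777658100) (nat_lit 271) (nat_lit 1) (nat_lit 270) (nat_lit 1) (nat_lit 277) (nat_lit 1) (nat_lit 378) (nat_lit 341) (nat_lit 301)) (XT.lf (nat_lit 456) (nat_lit 1105760989) (nat_lit 0) (nat_lit 655107035) (nat_lit 380) (nat_lit 655107035) (nat_lit 271) (nat_lit 1) (nat_lit 265) (nat_lit 1) (nat_lit 270) (nat_lit 1) (nat_lit 379) (nat_lit 341) (nat_lit 300))) (XT.nd (nat_lit 78) (nat_lit 380) (nat_lit 0) (XT.lf (nat_lit 76) (nat_lit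 329175745) (nat_lit 0) (nat_lit 1728667509) (nat_lit 456) (nat_lit 329175745) (nat_lit 266) (nat_lit 1) (nat_lit 265) (nat_lit 1) (nat_lit 271) (nat_lit 1) (nat_lit 380) (nat_lit 341) (nat_lit 299)) (XT.lf (nat_lit 456) (nat_lit 207025614) (nat_lit 0) (nat_lit 1075693541) (nat_lit 380) (nat_lit 1075693541) (nat_lit 266) (nat_lit 1) (nat_lit 260) (nat_lit 1) (nat_lit 265) (nat_lit 1) (nat_lit 381) (nat_lit 341) (nat_lit 298)))) (XT.nd (nat_lit 156) (nat_lit 684) (nat_lit 0) (XT.nd (nat_lit 78) (nat_lit 0) (nat_lit 0) (XT.lf (nat_lit 456) (nat_lit 2099526419) (nat_lit 0) (nat_lit 115459143) (nat_lit 380) (nat_lit 115459143) (nat_lit 260) (nat_lit 1) (nat_lit 254) (nat_lit 1) (nat_lit 259) (nat_lit 1) (nat_lit 382) (nat_lit 341) (nat_lit 297)) (XT.lf (nat_lit 76) (nat_lit 815130786) (nat_lit 0) (nat_lit 672366320) (nat_lit 456) (nat_lit 815130786) (nat_lit 255) (nat_lit 1) (nat_lit 254) (nat_lit 1) (nat_lit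 260) (nat_lit 1) (nat_lit 383) (nat_lit 341) (nat_lit 296))) (XT.nd (nat_lit 78) (nat_lit 304) (nat_lit 0) (XT.lf (nat_lit 456) (nat_lit 1168072809) (nat_lit 0) (nat_lit 553678238) (nat_lit 380) (nat_lit 553678238) (nat_lit 255) (nat_lit 1) (nat_lit 249) (nat_lit 1) (nat_lit 254) (nat_lit 1) (nat_lit 384) (nat_lit 341) (nat_lit 295)) (XT.nd (nat_lit 78) (nat_lit 304) (nat_lit 0) (XT.lf (nat_lit 76) (nat_lit 353890388) (nat_lit 0) (nat_lit 1540905247) (nat_lit 456) (nat_lit 353890388) (nat_lit 250) (nat_lit 1) (nat_lit 249) (nat_lit 1) (nat_lit 255) (nat_lit 1) (nat_lit 385) (nat_lit 341) (nat_lit 294)) (XT.lf (nat_lit 380) (nat_lit 245788393) (nat_lit 0) (nat_lit 988246645) (nat_lit 304) (nat_lit 988246645) (nat_lit 250) (nat_lit 1) (nat_lit 245) (nat_lit 1) (nat_lit 249) (nat_lit 1) (nat_lit 386) (nat_lit 341) (nat_lit 293)))))) (XT.nd (nat_lit 390) (nat_lit 988) (nat_lit 0) (XT.nd (nat_lit 156) (nat_lit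 608) (nat_lit 0) (XT.nd (nat_lit 78) (nat_lit 0) (nat_lit 0) (XT.lf (nat_lit 456) (nat_lit 1993286719) (nat_lit 0) (nat_lit 101584933) (nat_lit 380) (nat_lit 101584933) (nat_lit 245) (nat_lit 1) (nat_lit 239) (nat_lit 1) (nat_lit 244) (nat_lit 1) (nat_lit 387) (nat_lit 341) (nat_lit 292)) (XT.lf (nat_lit 76) (nat_lit 758592098) (nat_lit 0) (nat_lit 653555841) (nat_lit 456) (nat_lit 758592098) (nat_lit 240) (nat_lit 1) (nat_lit 239) (nat_lit 1) (nat_lit 245) (nat_lit 1) (nat_lit 388) (nat_lit 341) (nat_lit 291))) (XT.nd (nat_lit 78) (nat_lit 304) (nat_lit 0) (XT.lf (nat_lit 380) (nat_lit 1048541327) (nat_lit 0) (nat_lit 548522283) (nat_lit 304) (nat_lit 548522283) (nat_lit 240) (nat_lit 1) (nat_lit 235) (nat_lit 1) (nat_lit 239) (nat_lit 1) (nat_lit 389) (nat_lit 341) (nat_lit 290)) (XT.nd (nat_lit 78) (nat_lit 304) (nat_lit 0) (XT.lf (nat_lit 76) (nat_lit 291583326) (nat_lit 0) (nat_lit 1537695363)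 (nat_lit 380) (nat_lit 291583326) (nat_lit 236) (nat_lit 1) (nat_lit 235) (nat_lit 1) (nat_lit 240) (nat_lit 1) (nat_lit 390) (nat_lit 341) (nat_lit 289)) (XT.lf (nat_lit 380) (nat_lit 116271135) (nat_lit 0) (nat_lit 990074013) (nat_lit 304) (nat_lit 990074013) (nat_lit 236) (nat_lit 1) (nat_lit 231) (nat_lit 1) (nat_lit 235) (nat_lit 1) (nat_lit 391) (nat_lit 341) (nat_lit 288))))) (XT.nd (nat_lit 156) (nat_lit 608) (nat_lit 0) (XT.nd (nat_lit 78) (nat_lit 0) (nat_lit 0) (XT.lf (nat_lit 380) (nat_lit 1737597449) (nat_lit 0) (nat_lit 167430612) (nat_lit 304) (nat_lit 167430612) (nat_lit 231) (nat_lit 1) (nat_lit 226) (nat_lit 1) (nat_lit 230) (nat_lit 1) (nat_lit 392) (nat_lit 341) (nat_lit 287)) (XT.lf (nat_lit 76) (nat_lit 630654277) (nat_lit 0) (nat_lit 787353872) (nat_lit 380) (nat_lit 630654277) (nat_lit 227) (nat_lit 1) (nat_lit 226) (nat_lit 1) (nat_lit 231) (nat_lit 1) (nat_lit 393) (nat_lit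 341) (nat_lit 286))) (XT.nd (nat_lit 78) (nat_lit 304) (nat_lit 0) (XT.lf (nat_lit 380) (nat_lit 791172995) (nat_lit 0) (nat_lit 617080723) (nat_lit 304) (nat_lit 617080723) (nat_lit 227) (nat_lit 1) (nat_lit 222) (nat_lit 1) (nat_lit 226) (nat_lit 1) (nat_lit 394) (nat_lit 341) (nat_lit 285)) (XT.nd (nat_lit 78) (nat_lit 304) (nat_lit 0) (XT.lf (nat_lit 76) (nat_lit 163448654) (nat_lit 0) (nat_lit 1675560449) (nat_lit 380) (nat_lit 163448654) (nat_lit 223) (nat_lit 1) (nat_lit 222) (nat_lit 1) (nat_lit 227) (nat_lit 1) (nat_lit 395) (nat_lit 341) (nat_lit 284)) (XT.lf (nat_lit 76) (nat_lit 921091524) (nat_lit 0) (nat_lit 137545424) (nat_lit 304) (nat_lit 921091524) (nat_lit 219) (nat_lit 1) (nat_lit 218) (nat_lit 1) (nat_lit 222) (nat_lit 1) (nat_lit 396) (nat_lit 341) (nat_lit 283))))))))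
noncomputable def ec63 : XT := (XT.nd (nat_lit 1482) (nat_lit 2280) (nat_lit 0) (XT.nd (nat_lit 702) (nat_lit 1368) (nat_lit 0) (XT.nd (nat_lit 312) (nat_lit 760) (nat_lit 0) (XT.nd (nat_lit 156) (nat_lit 608) (nat_lit 0) (XT.nd (nat_lit 78) (nat_lit 0) (nat_lit 0) (XT.lf (nat_lit 380) (nat_lit 1370779577) (nat_lit 0) (nat_lit 293329188) (nat_lit 304) (nat_lit 293329188) (nat_lit 219) (nat_lit 1) (nat_lit 214) (nat_lit 1) (nat_lit 218) (nat_lit 1) (nat_lit 397) (nat_lit 341) (nat_lit 282)) (XT.lf (nat_lit 76) (nat_lit 449767115) (nat_lit 0) (nat_lit 1035867142) (nat_lit 380) (nat_lit 449767115) (nat_lit 215) (nat_lit 1) (nat_lit 214) (nat_lit 1) (nat_lit 219) (nat_lit 1) (nat_lit 398) (nat_lit 341) (nat_lit 281))) (XT.nd (nat_lit 78) (nat_lit 380) (nat_lit 0) (XT.lf (nat_lit 304) (nat_lit 431858914) (nat_lit 0) (nat_lit 740925962) (nat_lit 228) (nat_lit 740925962) (nat_lit 215) (nat_lit 1) (nat_lit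 211) (nat_lit 1) (nat_lit 214) (nat_lit 1) (nat_lit 399) (nat_lit 341) (nat_lit 280)) (XT.lf (nat_lit 380) (nat_lit 1866301083) (nat_lit 0) (nat_lit 13105551) (nat_lit 304) (nat_lit 13105551) (nat_lit 211) (nat_lit 1) (nat_lit 206) (nat_lit 1) (nat_lit 210) (nat_lit 1) (nat_lit 400) (nat_lit 341) (nat_lit 279)))) (XT.nd (nat_lit 156) (nat_lit 532) (nat_lit 0) (XT.nd (nat_lit 78) (nat_lit 228) (nat_lit 0) (XT.lf (nat_lit 76) (nat_lit 695287113) (nat_lit 0) (nat_lit 480697632) (nat_lit 380) (nat_lit 695287113) (nat_lit 207) (nat_lit 1) (nat_lit 206) (nat_lit 1) (nat_lit 211) (nat_lit 1) (nat_lit 401) (nat_lit 341) (nat_lit 278)) (XT.lf (nat_lit 304) (nat_lit 923990769) (nat_lit 0) (nat_lit 463261073) (nat_lit 228) (nat_lit 463261073) (nat_lit 207) (nat_lit 1) (nat_lit 203) (nat_lit 1) (nat_lit 206) (nat_lit 1) (nat_lit 402) (nat_lit 341) (nat_lit 277))) (XT.nd (nat_lit 78) (nat_lit 532) (nat_lit 0) (XT.lf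 (nat_lit 76) (nat_lit 230924349) (nat_lit 0) (nat_lit 1368243447) (nat_lit 304) (nat_lit 230924349) (nat_lit 204) (nat_lit 1) (nat_lit 203) (nat_lit 1) (nat_lit 207) (nat_lit 1) (nat_lit 403) (nat_lit 341) (nat_lit 276)) (XT.nd (nat_lit 78) (nat_lit 228) (nat_lit 0) (XT.lf (nat_lit 76) (nat_lit 904816562) (nat_lit 0) (nat_lit 242254) (nat_lit 304) (nat_lit 904816562) (nat_lit 200) (nat_lit 1) (nat_lit 199) (nat_lit 1) (nat_lit 203) (nat_lit 1) (nat_lit 404) (nat_lit 341) (nat_lit 275)) (XT.lf (nat_lit 304) (nat_lit 1345506953) (nat_lit 0) (nat_lit 222240252) (nat_lit 228) (nat_lit 222240252) (nat_lit 200) (nat_lit 1) (nat_lit 196) (nat_lit 1) (nat_lit 199) (nat_lit 1) (nat_lit 405) (nat_lit 341) (nat_lit 274)))))) (XT.nd (nat_lit 390) (nat_lit 608) (nat_lit 0) (XT.nd (nat_lit 156) (nat_lit 532) (nat_lit 0) (XT.nd (nat_lit 78) (nat_lit 228) (nat_lit 0) (XT.lf (nat_lit 76) (nat_lit 440788584) (nat_lit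 0) (nat_lit 888713615) (nat_lit 304) (nat_lit 440788584) (nat_lit 197) (nat_lit 1) (nat_lit 196) (nat_lit 1) (nat_lit 200) (nat_lit 1) (nat_lit 406) (nat_lit 341) (nat_lit 273)) (XT.lf (nat_lit 304) (nat_lit 422447025) (nat_lit 0) (nat_lit 664233500) (nat_lit 228) (nat_lit 664233500) (nat_lit 197) (nat_lit 1) (nat_lit 193) (nat_lit 1) (nat_lit 196) (nat_lit 1) (nat_lit 407) (nat_lit 341) (nat_lit 272))) (XT.nd (nat_lit 78) (nat_lit 228) (nat_lit 0) (XT.lf (nat_lit 304) (nat_lit 1704740377) (nat_lit 0) (nat_lit 13611750) (nat_lit 228) (nat_lit 13611750) (nat_lit 193) (nat_lit 1) (nat_lit 189) (nat_lit 1) (nat_lit 192) (nat_lit 1) (nat_lit 408) (nat_lit 341) (nat_lit 271)) (XT.nd (nat_lit 78) (nat_lit 228) (nat_lit 0) (XT.lf (nat_lit 76) (nat_lit 620387658) (nat_lit 0) (nat_lit 472180472) (nat_lit 304) (nat_lit 620387658) (nat_lit 190) (nat_lit 1) (nat_lit 189) (nat_lit 1) (nat_lit 193) (nat_lit 1) (nat_lit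 409) (nat_lit 341) (nat_lit 270)) (XT.lf (nat_lit 304) (nat_lit 785694583) (nat_lit 0) (nat_lit 454335960) (nat_lit 228) (nat_lit 454335960) (nat_lit 190) (nat_lit 1) (nat_lit 186) (nat_lit 1) (nat_lit 189) (nat_lit 1) (nat_lit 410) (nat_lit 341) (nat_lit 269))))) (XT.nd (nat_lit 156) (nat_lit 380) (nat_lit 0) (XT.nd (nat_lit 78) (nat_lit 228) (nat_lit 0) (XT.lf (nat_lit 76) (nat_lit 168044736) (nat_lit 0) (nat_lit 1340002602) (nat_lit 304) (nat_lit 168044736) (nat_lit 187) (nat_lit 1) (nat_lit 186) (nat_lit 1) (nat_lit 190) (nat_lit 1) (nat_lit 411) (nat_lit 341) (nat_lit 268)) (XT.lf (nat_lit 76) (nat_lit 773296409) (nat_lit 0) (nat_lit 111341705) (nat_lit 228) (nat_lit 773296409) (nat_lit 184) (nat_lit 1) (nat_lit 183) (nat_lit 1) (nat_lit 186) (nat_lit 1) (nat_lit 412) (nat_lit 341) (nat_lit 267))) (XT.nd (nat_lit 78) (nat_lit 152) (nat_lit 0) (XT.lf (nat_lit 304) (nat_lit 1096483220) (nat_lit 0)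 (nat_lit 271800837) (nat_lit 228) (nat_lit 271800837) (nat_lit 184) (nat_lit 1) (nat_lit 180) (nat_lit 1) (nat_lit 183) (nat_lit 1) (nat_lit 413) (nat_lit 341) (nat_lit 266)) (XT.nd (nat_lit 78) (nat_lit 152) (nat_lit 0) (XT.lf (nat_lit 76) (nat_lit 324313670) (nat_lit 0) (nat_lit 973811616) (nat_lit 304) (nat_lit 324313670) (nat_lit 181) (nat_lit 1) (nat_lit 180) (nat_lit 1) (nat_lit 184) (nat_lit 1) (nat_lit 414) (nat_lit 341) (nat_lit 265)) (XT.lf (nat_lit 228) (nat_lit 204268633) (nat_lit 0) (nat_lit 700380135) (nat_lit 152) (nat_lit 700380135) (nat_lit 181) (nat_lit 1) (nat_lit 178) (nat_lit 1) (nat_lit 180) (nat_lit 1) (nat_lit 415) (nat_lit 341) (nat_lit 264))))))) (XT.nd (nat_lit 702) (nat_lit 1064) (nat_lit 0) (XT.nd (nat_lit 312) (nat_lit 760) (nat_lit 0) (XT.nd (nat_lit 156) (nat_lit 152) (nat_lit 0) (XT.nd (nat_lit 78) (nat_lit 0) (nat_lit 0) (XT.lf (nat_lit 304) (nat_lit 1361010906) (nat_lit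 0) (nat_lit 113461641) (nat_lit 228) (nat_lit 113461641) (nat_lit 178) (nat_lit 1) (nat_lit 174) (nat_lit 1) (nat_lit 177) (nat_lit 1) (nat_lit 416) (nat_lit 341) (nat_lit 263)) (XT.lf (nat_lit 76) (nat_lit 458059270) (nat_lit 0) (nat_lit 654769162) (nat_lit 304) (nat_lit 458059270) (nat_lit 175) (nat_lit 1) (nat_lit 174) (nat_lit 1) (nat_lit 178) (nat_lit 1) (nat_lit 417) (nat_lit 341) (nat_lit 262))) (XT.nd (nat_lit 78) (nat_lit 0) (nat_lit 0) (XT.lf (nat_lit 228) (nat_lit 477764900) (nat_lit 0) (nat_lit 538192923) (nat_lit 152) (nat_lit 538192923) (nat_lit 175) (nat_lit 1) (nat_lit 172) (nat_lit 1) (nat_lit 174) (nat_lit 1) (nat_lit 418) (nat_lit 341) (nat_lit 261)) (XT.lf (nat_lit 76) (nat_lit 23724247) (nat_lit 0) (nat_lit 1490315001) (nat_lit 228) (nat_lit 23724247) (nat_lit 173) (nat_lit 1) (nat_lit 172) (nat_lit 1) (nat_lit 175) (nat_lit 1) (nat_lit 419) (nat_lit 341) (nat_lit 260)))) (XT.nd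 (nat_lit 156) (nat_lit 380) (nat_lit 0) (XT.nd (nat_lit 78) (nat_lit 152) (nat_lit 0) (XT.lf (nat_lit 76) (nat_lit 571941646) (nat_lit 0) (nat_lit 377433682) (nat_lit 228) (nat_lit 571941646) (nat_lit 170) (nat_lit 1) (nat_lit 169) (nat_lit 1) (nat_lit 172) (nat_lit 1) (nat_lit 420) (nat_lit 341) (nat_lit 259)) (XT.lf (nat_lit 228) (nat_lit 712133426) (nat_lit 0) (nat_lit 396540786) (nat_lit 152) (nat_lit 396540786) (nat_lit 170) (nat_lit 1) (nat_lit 167) (nat_lit 1) (nat_lit 169) (nat_lit 1) (nat_lit 421) (nat_lit 341) (nat_lit 258))) (XT.nd (nat_lit 78) (nat_lit 380) (nat_lit 0) (XT.lf (nat_lit 76) (nat_lit 142953985) (nat_lit 0) (nat_lit 1203468675) (nat_lit 228) (nat_lit 142953985) (nat_lit 168) (nat_lit 1) (nat_lit 167) (nat_lit 1) (nat_lit 170) (nat_lit 1) (nat_lit 422) (nat_lit 341) (nat_lit 257)) (XT.nd (nat_lit 78) (nat_lit 152) (nat_lit 0) (XT.lf (nat_lit 76) (nat_lit 668319947) (nat_lit 0)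 (nat_lit 136975774) (nat_lit 228) (nat_lit 668319947) (nat_lit 165) (nat_lit 1) (nat_lit 164) (nat_lit 1) (nat_lit 167) (nat_lit 1) (nat_lit 423) (nat_lit 341) (nat_lit 256)) (XT.lf (nat_lit 228) (nat_lit 911988801) (nat_lit 0) (nat_lit 273062463) (nat_lit 152) (nat_lit 273062463) (nat_lit 165) (nat_lit 1) (nat_lit 162) (nat_lit 1) (nat_lit 164) (nat_lit 1) (nat_lit 424) (nat_lit 341) (nat_lit 255)))))) (XT.nd (nat_lit 390) (nat_lit 532) (nat_lit 0) (XT.nd (nat_lit 156) (nat_lit 380) (nat_lit 0) (XT.nd (nat_lit 78) (nat_lit 152) (nat_lit 0) (XT.lf (nat_lit 76) (nat_lit 245338297) (nat_lit 0) (nat_lit 952123708) (nat_lit 228) (nat_lit 245338297) (nat_lit 163) (nat_lit 1) (nat_lit 162) (nat_lit 1) (nat_lit 165) (nat_lit 1) (nat_lit 425) (nat_lit 341) (nat_lit 254)) (XT.lf (nat_lit 228) (nat_lit 72301073) (nat_lit 0) (nat_lit 677679974) (nat_lit 152) (nat_lit 677679974) (nat_lit 163) (nat_lit 1) (nat_lit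 160) (nat_lit 1) (nat_lit 162) (nat_lit 1) (nat_lit 426) (nat_lit 341) (nat_lit 253))) (XT.nd (nat_lit 78) (nat_lit 152) (nat_lit 0) (XT.lf (nat_lit 228) (nat_lit 1081423710) (nat_lit 0) (nat_lit 165662084) (nat_lit 152) (nat_lit 165662084) (nat_lit 160) (nat_lit 1) (nat_lit 157) (nat_lit 1) (nat_lit 159) (nat_lit 1) (nat_lit 427) (nat_lit 341) (nat_lit 252)) (XT.nd (nat_lit 78) (nat_lit 152) (nat_lit 0) (XT.lf (nat_lit 76) (nat_lit 332859058) (nat_lit 0) (nat_lit 732218882) (nat_lit 228) (nat_lit 332859058) (nat_lit 158) (nat_lit 1) (nat_lit 157) (nat_lit 1) (nat_lit 160) (nat_lit 1) (nat_lit 428) (nat_lit 341) (nat_lit 251)) (XT.lf (nat_lit 228) (nat_lit 254941836) (nat_lit 0) (nat_lit 564203290) (nat_lit 152) (nat_lit 564203290) (nat_lit 158) (nat_lit 1) (nat_lit 155) (nat_lit 1) (nat_lit 157) (nat_lit 1) (nat_lit 429) (nat_lit 341) (nat_lit 250))))) (XT.nd (nat_lit 156) (nat_lit 304) (nat_lit 0)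 (XT.nd (nat_lit 78) (nat_lit 0) (nat_lit 0) (XT.lf (nat_lit 228) (nat_lit 1224067340) (nat_lit 0) (nat_lit 72479512) (nat_lit 152) (nat_lit 72479512) (nat_lit 155) (nat_lit 1) (nat_lit 152) (nat_lit 1) (nat_lit 154) (nat_lit 1) (nat_lit 430) (nat_lit 341) (nat_lit 249)) (XT.lf (nat_lit 76) (nat_lit 407274125) (nat_lit 0) (nat_lit 540148836) (nat_lit 228) (nat_lit 407274125) (nat_lit 153) (nat_lit 1) (nat_lit 152) (nat_lit 1) (nat_lit 155) (nat_lit 1) (nat_lit 431) (nat_lit 341) (nat_lit 248))) (XT.nd (nat_lit 78) (nat_lit 152) (nat_lit 0) (XT.lf (nat_lit 228) (nat_lit 411661325) (nat_lit 0) (nat_lit 464484801) (nat_lit 152) (nat_lit 464484801) (nat_lit 153) (nat_lit 1) (nat_lit 150) (nat_lit 1) (nat_lit 152) (nat_lit 1) (nat_lit 432) (nat_lit 341) (nat_lit 247)) (XT.nd (nat_lit 78) (nat_lit 152) (nat_lit 0) (XT.lf (nat_lit 76) (nat_lit 8216557) (nat_lit 0) (nat_lit 1310422631) (nat_lit 228) (nat_lit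 8216557) (nat_lit 151) (nat_lit 1) (nat_lit 150) (nat_lit 1) (nat_lit 153) (nat_lit 1) (nat_lit 433) (nat_lit 341) (nat_lit 246)) (XT.lf (nat_lit 76) (nat_lit 470142410) (nat_lit 0) (nat_lit 372713151) (nat_lit 152) (nat_lit 470142410) (nat_lit 149) (nat_lit 1) (nat_lit 148) (nat_lit 1) (nat_lit 150) (nat_lit 1) (nat_lit 434) (nat_lit 341) (nat_lit 245))))))))
noncomputable def ec64 : XT := (XT.nd (nat_lit 46566) (nat_lit 0) (nat_lit 11400) (XT.nd (nat_lit 45864) (nat_lit 0) (nat_lit 16644) (XT.nd (nat_lit 45474) (nat_lit 0) (nat_lit 17480) (XT.nd (nat_lit 156) (nat_lit 152) (nat_lit 0) (XT.nd (nat_lit 78) (nat_lit 0) (nat_lit 0) (XT.lf (nat_lit 228) (nat_lit 545511877) (nat_lit 0) (nat_lit 376958133) (nat_lit 152) (nat_lit 376958133) (nat_lit 149) (nat_lit 1) (nat_lit 146) (nat_lit 1) (nat_lit 148) (nat_lit 1) (nat_lit 435) (nat_lit 341) (nat_lit 244)) (XT.lf (nat_lit 76) (nat_lit 78418033) (nat_lit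 0) (nat_lit 1129260171) (nat_lit 228) (nat_lit 78418033) (nat_lit 147) (nat_lit 1) (nat_lit 146) (nat_lit 1) (nat_lit 149) (nat_lit 1) (nat_lit 436) (nat_lit 341) (nat_lit 243))) (XT.nd (nat_lit 45240) (nat_lit 0) (nat_lit 17480) (XT.lf (nat_lit 76) (nat_lit 522846145) (nat_lit 0) (nat_lit 227071105) (nat_lit 152) (nat_lit 522846145) (nat_lit 145) (nat_lit 1) (nat_lit 144) (nat_lit 1) (nat_lit 146) (nat_lit 1) (nat_lit 437) (nat_lit 341) (nat_lit 242)) (XT.lf (nat_lit 1292) (nat_lit 395675469) (nat_lit 0) (nat_lit 1361307632) (nat_lit 1292) (nat_lit 395675469) (nat_lit 391) (nat_lit 1) (nat_lit 374) (nat_lit 0) (nat_lit 391) (nat_lit 0) (nat_lit 336) (nat_lit 342) (nat_lit 342)))) (XT.nd (nat_lit 156) (nat_lit 0) (nat_lit 76) (XT.nd (nat_lit 78) (nat_lit 0) (nat_lit 76) (XT.lf (nat_lit 1292) (nat_lit 1546306669) (nat_lit 76) (nat_lit 1347961479) (nat_lit 0) (nat_lit 1347961479) (nat_lit 391) (nat_lit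 1) (nat_lit 375) (nat_lit 1) (nat_lit 374) (nat_lit 0) (nat_lit 337) (nat_lit 342) (nat_lit 341)) (XT.lf (nat_lit 1292) (nat_lit 747830773) (nat_lit 0) (nat_lit 2684872144) (nat_lit 1216) (nat_lit 747830773) (nat_lit 392) (nat_lit 1) (nat_lit 375) (nat_lit 1) (nat_lit 391) (nat_lit 1) (nat_lit 338) (nat_lit 342) (nat_lit 340))) (XT.nd (nat_lit 78) (nat_lit 0) (nat_lit 76) (XT.lf (nat_lit 1292) (nat_lit 1420169250) (nat_lit 76) (nat_lit 1349849402) (nat_lit 0) (nat_lit 1349849402) (nat_lit 392) (nat_lit 1) (nat_lit 376) (nat_lit 1) (nat_lit 375) (nat_lit 1) (nat_lit 339) (nat_lit 342) (nat_lit 339)) (XT.nd (nat_lit 78) (nat_lit 0) (nat_lit 0) (XT.lf (nat_lit 1292) (nat_lit 666407337) (nat_lit 0) (nat_lit 2727745157) (nat_lit 1216) (nat_lit 666407337) (nat_lit 393) (nat_lit 1) (nat_lit 376) (nat_lit 1) (nat_lit 392) (nat_lit 1) (nat_lit 340) (nat_lit 342) (nat_lit 338)) (XT.lf (nat_lit 1292) (nat_lit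 1221261809) (nat_lit 76) (nat_lit 1390469157) (nat_lit 0) (nat_lit 1390469157) (nat_lit 393) (nat_lit 1) (nat_lit 377) (nat_lit 1) (nat_lit 376) (nat_lit 1) (nat_lit 341) (nat_lit 342) (nat_lit 337)))))) (XT.nd (nat_lit 312) (nat_lit 1064) (nat_lit 0) (XT.nd (nat_lit 156) (nat_lit 0) (nat_lit 76) (XT.nd (nat_lit 78) (nat_lit 0) (nat_lit 0) (XT.lf (nat_lit 1292) (nat_lit 550433177) (nat_lit 0) (nat_lit 2844321671) (nat_lit 1216) (nat_lit 550433177) (nat_lit 394) (nat_lit 1) (nat_lit 377) (nat_lit 1) (nat_lit 393) (nat_lit 1) (nat_lit 342) (nat_lit 342) (nat_lit 336)) (XT.lf (nat_lit 1292) (nat_lit 956092058) (nat_lit 76) (nat_lit 1466466109) (nat_lit 0) (nat_lit 1466466109) (nat_lit 394) (nat_lit 1) (nat_lit 378) (nat_lit 1) (nat_lit 377) (nat_lit 1) (nat_lit 343) (nat_lit 342) (nat_lit 335))) (XT.nd (nat_lit 78) (nat_lit 0) (nat_lit 0) (XT.lf (nat_lit 1292) (nat_lit 403034115) (nat_lit 0) (nat_lit 3028152418)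 (nat_lit 1216) (nat_lit 403034115) (nat_lit 395) (nat_lit 1) (nat_lit 378) (nat_lit 1) (nat_lit 394) (nat_lit 1) (nat_lit 344) (nat_lit 342) (nat_lit 334)) (XT.lf (nat_lit 1292) (nat_lit 630726259) (nat_lit 76) (nat_lit 1574711145) (nat_lit 0) (nat_lit 1574711145) (nat_lit 395) (nat_lit 1) (nat_lit 379) (nat_lit 1) (nat_lit 378) (nat_lit 1) (nat_lit 345) (nat_lit 342) (nat_lit 333)))) (XT.nd (nat_lit 156) (nat_lit 1216) (nat_lit 0) (XT.nd (nat_lit 78) (nat_lit 0) (nat_lit 0) (XT.lf (nat_lit 1292) (nat_lit 227123260) (nat_lit 0) (nat_lit 3273222957) (nat_lit 1216) (nat_lit 227123260) (nat_lit 396) (nat_lit 1) (nat_lit 379) (nat_lit 1) (nat_lit 395) (nat_lit 1) (nat_lit 346) (nat_lit 342) (nat_lit 332)) (XT.lf (nat_lit 1292) (nat_lit 250816549) (nat_lit 76) (nat_lit 1712286764) (nat_lit 0) (nat_lit 1712286764) (nat_lit 396) (nat_lit 1) (nat_lit 380) (nat_lit 1) (nat_lit 379) (nat_lit 1) (nat_lit 347)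 (nat_lit 342) (nat_lit 331))) (XT.nd (nat_lit 78) (nat_lit 1292) (nat_lit 0) (XT.lf (nat_lit 1292) (nat_lit 25414194) (nat_lit 0) (nat_lit 3573926832) (nat_lit 1216) (nat_lit 25414194) (nat_lit 397) (nat_lit 1) (nat_lit 380) (nat_lit 1) (nat_lit 396) (nat_lit 1) (nat_lit 348) (nat_lit 342) (nat_lit 330)) (XT.nd (nat_lit 78) (nat_lit 0) (nat_lit 0) (XT.lf (nat_lit 1368) (nat_lit 1699815263) (nat_lit 0) (nat_lit 174892663) (nat_lit 1292) (nat_lit 1699815263) (nat_lit 381) (nat_lit 1) (nat_lit 363) (nat_lit 1) (nat_lit 380) (nat_lit 1) (nat_lit 349) (nat_lit 342) (nat_lit 329)) (XT.lf (nat_lit 1368) (nat_lit 3130455473) (nat_lit 76) (nat_lit 197610103) (nat_lit 0) (nat_lit 197610103) (nat_lit 381) (nat_lit 1) (nat_lit 364) (nat_lit 1) (nat_lit 363) (nat_lit 1) (nat_lit 350) (nat_lit 342) (nat_lit 328))))))) (XT.nd (nat_lit 702) (nat_lit 3344) (nat_lit 0) (XT.nd (nat_lit 312) (nat_lit 1216) (nat_lit 0)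 (XT.nd (nat_lit 156) (nat_lit 760) (nat_lit 0) (XT.nd (nat_lit 78) (nat_lit 0) (nat_lit 0) (XT.lf (nat_lit 1368) (nat_lit 1419062931) (nat_lit 0) (nat_lit 639222296) (nat_lit 1292) (nat_lit 1419062931) (nat_lit 382) (nat_lit 1) (nat_lit 364) (nat_lit 1) (nat_lit 381) (nat_lit 1) (nat_lit 351) (nat_lit 342) (nat_lit 327)) (XT.lf (nat_lit 1368) (nat_lit 2548043820) (nat_lit 76) (nat_lit 441100941) (nat_lit 0) (nat_lit 441100941) (nat_lit 382) (nat_lit 1) (nat_lit 365) (nat_lit 1) (nat_lit 364) (nat_lit 1) (nat_lit 352) (nat_lit 342) (nat_lit 326))) (XT.nd (nat_lit 78) (nat_lit 836) (nat_lit 0) (XT.lf (nat_lit 76) (nat_lit 1120591306) (nat_lit 0) (nat_lit 1142597750) (nat_lit 1292) (nat_lit 1120591306) (nat_lit 366) (nat_lit 1) (nat_lit 365) (nat_lit 1) (nat_lit 382) (nat_lit 1) (nat_lit 353) (nat_lit 342) (nat_lit 325)) (XT.lf (nat_lit 912) (nat_lit 1932057172) (nat_lit 0) (nat_lit 703142470) (nat_lit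 836) (nat_lit 703142470) (nat_lit 366) (nat_lit 1) (nat_lit 354) (nat_lit 1) (nat_lit 365) (nat_lit 1) (nat_lit 354) (nat_lit 342) (nat_lit 324)))) (XT.nd (nat_lit 156) (nat_lit 608) (nat_lit 0) (XT.nd (nat_lit 78) (nat_lit 608) (nat_lit 0) (XT.lf (nat_lit 76) (nat_lit 806403053) (nat_lit 0) (nat_lit 1680864037) (nat_lit 912) (nat_lit 806403053) (nat_lit 355) (nat_lit 1) (nat_lit 354) (nat_lit 1) (nat_lit 366) (nat_lit 1) (nat_lit 355) (nat_lit 342) (nat_lit 323)) (XT.lf (nat_lit 684) (nat_lit 1286374556) (nat_lit 0) (nat_lit 981722385) (nat_lit 608) (nat_lit 981722385) (nat_lit 355) (nat_lit 1) (nat_lit 346) (nat_lit 1) (nat_lit 354) (nat_lit 1) (nat_lit 356) (nat_lit 342) (nat_lit 322))) (XT.nd (nat_lit 78) (nat_lit 608) (nat_lit 0) (XT.lf (nat_lit 76) (nat_lit 478357169) (nat_lit 0) (nat_lit 2250160417) (nat_lit 684) (nat_lit 478357169) (nat_lit 347) (nat_lit 1) (nat_lit 346) (nat_lit 1) (nat_lit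 355) (nat_lit 1) (nat_lit 357) (nat_lit 342) (nat_lit 321)) (XT.nd (nat_lit 78) (nat_lit 0) (nat_lit 0) (XT.lf (nat_lit 684) (nat_lit 614595479) (nat_lit 0) (nat_lit 1274971491) (nat_lit 608) (nat_lit 1274971491) (nat_lit 347) (nat_lit 1) (nat_lit 338) (nat_lit 1) (nat_lit 346) (nat_lit 1) (nat_lit 358) (nat_lit 342) (nat_lit 320)) (XT.lf (nat_lit 76) (nat_lit 138178071) (nat_lit 0) (nat_lit 2846901885) (nat_lit 684) (nat_lit 138178071) (nat_lit 339) (nat_lit 1) (nat_lit 338) (nat_lit 1) (nat_lit 347) (nat_lit 1) (nat_lit 359) (nat_lit 342) (nat_lit 319)))))) (XT.nd (nat_lit 390) (nat_lit 1596) (nat_lit 0) (XT.nd (nat_lit 156) (nat_lit 532) (nat_lit 0) (XT.nd (nat_lit 78) (nat_lit 608) (nat_lit 0) (XT.lf (nat_lit 76) (nat_lit 1501980773) (nat_lit 0) (nat_lit 78382400) (nat_lit 608) (nat_lit 1501980773) (nat_lit 331) (nat_lit 1) (nat_lit 330) (nat_lit 1) (nat_lit 338) (nat_lit 1) (nat_lit 360) (nat_lit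 342) (nat_lit 318)) (XT.lf (nat_lit 684) (nat_lit 2621539260) (nat_lit 0) (nat_lit 210452183) (nat_lit 608) (nat_lit 210452183) (nat_lit 331) (nat_lit 1) (nat_lit 322) (nat_lit 1) (nat_lit 330) (nat_lit 1) (nat_lit 361) (nat_lit 342) (nat_lit 317))) (XT.nd (nat_lit 78) (nat_lit 532) (nat_lit 0) (XT.lf (nat_lit 76) (nat_lit 1112149826) (nat_lit 0) (nat_lit 778649804) (nat_lit 684) (nat_lit 1112149826) (nat_lit 323) (nat_lit 1) (nat_lit 322) (nat_lit 1) (nat_lit 331) (nat_lit 1) (nat_lit 362) (nat_lit 342) (nat_lit 316)) (XT.nd (nat_lit 78) (nat_lit 0) (nat_lit 0) (XT.lf (nat_lit 608) (nat_lit 1830996309) (nat_lit 0) (nat_lit 566693474) (nat_lit 532) (nat_lit 566693474) (nat_lit 323) (nat_lit 1) (nat_lit 315) (nat_lit 1) (nat_lit 322) (nat_lit 1) (nat_lit 363) (nat_lit 342) (nat_lit 315)) (XT.lf (nat_lit 76) (nat_lit 715509863) (nat_lit 0) (nat_lit 1495392601) (nat_lit 608) (nat_lit 715509863) (nat_lit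 316) (nat_lit 1) (nat_lit 315) (nat_lit 1) (nat_lit 323) (nat_lit 1) (nat_lit 364) (nat_lit 342) (nat_lit 314))))) (XT.nd (nat_lit 156) (nat_lit 1064) (nat_lit 0) (XT.nd (nat_lit 78) (nat_lit 0) (nat_lit 0) (XT.lf (nat_lit 608) (nat_lit 1028032235) (nat_lit 0) (nat_lit 930544049) (nat_lit 532) (nat_lit 930544049) (nat_lit 316) (nat_lit 1) (nat_lit 308) (nat_lit 1) (nat_lit 315) (nat_lit 1) (nat_lit 365) (nat_lit 342) (nat_lit 313)) (XT.lf (nat_lit 76) (nat_lit 313301853) (nat_lit 0) (nat_lit 2226014347) (nat_lit 608) (nat_lit 313301853) (nat_lit 309) (nat_lit 1) (nat_lit 308) (nat_lit 1) (nat_lit 316) (nat_lit 1) (nat_lit 366) (nat_lit 342) (nat_lit 312))) (XT.nd (nat_lit 78) (nat_lit 608) (nat_lit 0) (XT.lf (nat_lit 532) (nat_lit 215043601) (nat_lit 0) (nat_lit 1300749852) (nat_lit 456) (nat_lit 1300749852) (nat_lit 309) (nat_lit 1) (nat_lit 302) (nat_lit 1) (nat_lit 308) (nat_lit 1) (nat_lit 367)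 (nat_lit 342) (nat_lit 311)) (XT.nd (nat_lit 78) (nat_lit 0) (nat_lit 0) (XT.lf (nat_lit 608) (nat_lit 2596520589) (nat_lit 0) (nat_lit 92414237) (nat_lit 532) (nat_lit 92414237) (nat_lit 302) (nat_lit 1) (nat_lit 294) (nat_lit 1) (nat_lit 301) (nat_lit 1) (nat_lit 368) (nat_lit 342) (nat_lit 310)) (XT.lf (nat_lit 76) (nat_lit 1076215913) (nat_lit 0) (nat_lit 593939084) (nat_lit 608) (nat_lit 1076215913) (nat_lit 295) (nat_lit 1) (nat_lit 294) (nat_lit 1) (nat_lit 302) (nat_lit 1) (nat_lit 369) (nat_lit 342) (nat_lit 309))))))))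
noncomputable def ec65 : XT := (XT.nd (nat_lit 1482) (nat_lit 3496) (nat_lit 0) (XT.nd (nat_lit 702) (nat_lit 2280) (nat_lit 0) (XT.nd (nat_lit 312) (nat_lit 1292) (nat_lit 0) (XT.nd (nat_lit 156) (nat_lit 456) (nat_lit 0) (XT.nd (nat_lit 78) (nat_lit 0) (nat_lit 0) (XT.lf (nat_lit 532) (nat_lit 1715454755) (nat_lit 0) (nat_lit 498393591) (nat_lit 456) (nat_lit 498393591) (nat_lit 295) (nat_lit 1) (nat_lit 288) (nat_lit 1) (nat_lit 294) (nat_lit 1) (nat_lit 370) (nat_lit 342) (nat_lit 308)) (XT.lf (nat_lit 76) (nat_lit 637110235) (nat_lit 0) (nat_lit 1404391840) (nat_lit 532) (nat_lit 637110235) (nat_lit 289) (nat_lit 1) (nat_lit 288) (nat_lit 1) (nat_lit 295) (nat_lit 1) (nat_lit 371) (nat_lit 342) (nat_lit 307))) (XT.nd (nat_lit 78) (nat_lit 0) (nat_lit 0) (XT.lf (nat_lit 532) (nat_lit 832069124) (nat_lit 0) (nat_lit 906746020) (nat_lit 456) (nat_lit 906746020) (nat_lit 289) (nat_lit 1) (nat_lit 282)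 (nat_lit 1) (nat_lit 288) (nat_lit 1) (nat_lit 372) (nat_lit 342) (nat_lit 306)) (XT.lf (nat_lit 76) (nat_lit 197278831) (nat_lit 0) (nat_lit 2218675058) (nat_lit 532) (nat_lit 197278831) (nat_lit 283) (nat_lit 1) (nat_lit 282) (nat_lit 1) (nat_lit 289) (nat_lit 1) (nat_lit 373) (nat_lit 342) (nat_lit 305)))) (XT.nd (nat_lit 156) (nat_lit 380) (nat_lit 0) (XT.nd (nat_lit 78) (nat_lit 456) (nat_lit 0) (XT.lf (nat_lit 76) (nat_lit 1265124433) (nat_lit 0) (nat_lit 50948486) (nat_lit 456) (nat_lit 1265124433) (nat_lit 277) (nat_lit 1) (nat_lit 276) (nat_lit 1) (nat_lit 282) (nat_lit 1) (nat_lit 374) (nat_lit 342) (nat_lit 304)) (XT.lf (nat_lit 532) (nat_lit 2069650325) (nat_lit 0) (nat_lit 240104065) (nat_lit 456) (nat_lit 240104065) (nat_lit 277) (nat_lit 1) (nat_lit 270) (nat_lit 1) (nat_lit 276) (nat_lit 1) (nat_lit 375) (nat_lit 342) (nat_lit 303))) (XT.nd (nat_lit 78) (nat_lit 380) (nat_lit 0) (XT.lf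 (nat_lit 76) (nat_lit 800987843) (nat_lit 0) (nat_lit 916859810) (nat_lit 532) (nat_lit 800987843) (nat_lit 271) (nat_lit 1) (nat_lit 270) (nat_lit 1) (nat_lit 277) (nat_lit 1) (nat_lit 376) (nat_lit 342) (nat_lit 302)) (XT.nd (nat_lit 78) (nat_lit 0) (nat_lit 0) (XT.lf (nat_lit 456) (nat_lit 1138933819) (nat_lit 0) (nat_lit 674760246) (nat_lit 380) (nat_lit 674760246) (nat_lit 271) (nat_lit 1) (nat_lit 265) (nat_lit 1) (nat_lit 270) (nat_lit 1) (nat_lit 377) (nat_lit 342) (nat_lit 301)) (XT.lf (nat_lit 76) (nat_lit 339051017) (nat_lit 0) (nat_lit 1780527535) (nat_lit 456) (nat_lit 339051017) (nat_lit 266) (nat_lit 1) (nat_lit 265) (nat_lit 1) (nat_lit 271) (nat_lit 1) (nat_lit 378) (nat_lit 342) (nat_lit 300)))))) (XT.nd (nat_lit 390) (nat_lit 1064) (nat_lit 0) (XT.nd (nat_lit 156) (nat_lit 380) (nat_lit 0) (XT.nd (nat_lit 78) (nat_lit 456) (nat_lit 0) (XT.lf (nat_lit 456) (nat_lit 213236382) (nat_lit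 0) (nat_lit 1107964347) (nat_lit 380) (nat_lit 1107964347) (nat_lit 266) (nat_lit 1) (nat_lit 260) (nat_lit 1) (nat_lit 265) (nat_lit 1) (nat_lit 379) (nat_lit 342) (nat_lit 299)) (XT.lf (nat_lit 456) (nat_lit 2162512211) (nat_lit 0) (nat_lit 118922917) (nat_lit 380) (nat_lit 118922917) (nat_lit 260) (nat_lit 1) (nat_lit 254) (nat_lit 1) (nat_lit 259) (nat_lit 1) (nat_lit 380) (nat_lit 342) (nat_lit 298))) (XT.nd (nat_lit 78) (nat_lit 380) (nat_lit 0) (XT.lf (nat_lit 76) (nat_lit 839584710) (nat_lit 0) (nat_lit 692537310) (nat_lit 456) (nat_lit 839584710) (nat_lit 255) (nat_lit 1) (nat_lit 254) (nat_lit 1) (nat_lit 260) (nat_lit 1) (nat_lit 381) (nat_lit 342) (nat_lit 297)) (XT.nd (nat_lit 78) (nat_lit 0) (nat_lit 0) (XT.lf (nat_lit 456) (nat_lit 1203114993) (nat_lit 0) (nat_lit 570288585) (nat_lit 380) (nat_lit 570288585) (nat_lit 255) (nat_lit 1) (nat_lit 249) (nat_lit 1) (nat_lit 254) (nat_lit 1)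 (nat_lit 382) (nat_lit 342) (nat_lit 296)) (XT.lf (nat_lit 76) (nat_lit 364507099) (nat_lit 0) (nat_lit 1587132404) (nat_lit 456) (nat_lit 364507099) (nat_lit 250) (nat_lit 1) (nat_lit 249) (nat_lit 1) (nat_lit 255) (nat_lit 1) (nat_lit 383) (nat_lit 342) (nat_lit 295))))) (XT.nd (nat_lit 156) (nat_lit 304) (nat_lit 0) (XT.nd (nat_lit 78) (nat_lit 456) (nat_lit 0) (XT.lf (nat_lit 380) (nat_lit 253162045) (nat_lit 0) (nat_lit 1017894044) (nat_lit 304) (nat_lit 1017894044) (nat_lit 250) (nat_lit 1) (nat_lit 245) (nat_lit 1) (nat_lit 249) (nat_lit 1) (nat_lit 384) (nat_lit 342) (nat_lit 294)) (XT.lf (nat_lit 456) (nat_lit 2053085321) (nat_lit 0) (nat_lit 104632481) (nat_lit 380) (nat_lit 104632481) (nat_lit 245) (nat_lit 1) (nat_lit 239) (nat_lit 1) (nat_lit 244) (nat_lit 1) (nat_lit 385) (nat_lit 342) (nat_lit 293))) (XT.nd (nat_lit 78) (nat_lit 304) (nat_lit 0) (XT.lf (nat_lit 76) (nat_lit 781349861)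 (nat_lit 0) (nat_lit 673162517) (nat_lit 456) (nat_lit 781349861) (nat_lit 240) (nat_lit 1) (nat_lit 239) (nat_lit 1) (nat_lit 245) (nat_lit 1) (nat_lit 386) (nat_lit 342) (nat_lit 292)) (XT.nd (nat_lit 78) (nat_lit 0) (nat_lit 0) (XT.lf (nat_lit 380) (nat_lit 1079997567) (nat_lit 0) (nat_lit 564977951) (nat_lit 304) (nat_lit 564977951) (nat_lit 240) (nat_lit 1) (nat_lit 235) (nat_lit 1) (nat_lit 239) (nat_lit 1) (nat_lit 387) (nat_lit 342) (nat_lit 291)) (XT.lf (nat_lit 76) (nat_lit 300330826) (nat_lit 0) (nat_lit 1583826224) (nat_lit 380) (nat_lit 300330826) (nat_lit 236) (nat_lit 1) (nat_lit 235) (nat_lit 1) (nat_lit 240) (nat_lit 1) (nat_lit 388) (nat_lit 342) (nat_lit 290))))))) (XT.nd (nat_lit 702) (nat_lit 1672) (nat_lit 0) (XT.nd (nat_lit 312) (nat_lit 836) (nat_lit 0) (XT.nd (nat_lit 156) (nat_lit 304) (nat_lit 0) (XT.nd (nat_lit 78) (nat_lit 380) (nat_lit 0) (XT.lf (nat_lit 380) (nat_lit 119759269)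 (nat_lit 0) (nat_lit 1019776233) (nat_lit 304) (nat_lit 1019776233) (nat_lit 236) (nat_lit 1) (nat_lit 231) (nat_lit 1) (nat_lit 235) (nat_lit 1) (nat_lit 389) (nat_lit 342) (nat_lit 289)) (XT.lf (nat_lit 380) (nat_lit 1789725373) (nat_lit 0) (nat_lit 172453530) (nat_lit 304) (nat_lit 172453530) (nat_lit 231) (nat_lit 1) (nat_lit 226) (nat_lit 1) (nat_lit 230) (nat_lit 1) (nat_lit 390) (nat_lit 342) (nat_lit 288))) (XT.nd (nat_lit 78) (nat_lit 304) (nat_lit 0) (XT.lf (nat_lit 76) (nat_lit 649573905) (nat_lit 0) (nat_lit 810974488) (nat_lit 380) (nat_lit 649573905) (nat_lit 227) (nat_lit 1) (nat_lit 226) (nat_lit 1) (nat_lit 231) (nat_lit 1) (nat_lit 391) (nat_lit 342) (nat_lit 287)) (XT.lf (nat_lit 380) (nat_lit 814908185) (nat_lit 0) (nat_lit 635593145) (nat_lit 304) (nat_lit 635593145) (nat_lit 227) (nat_lit 1) (nat_lit 222) (nat_lit 1) (nat_lit 226) (nat_lit 1) (nat_lit 392) (nat_lit 342) (nat_lit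 286)))) (XT.nd (nat_lit 156) (nat_lit 532) (nat_lit 0) (XT.nd (nat_lit 78) (nat_lit 304) (nat_lit 0) (XT.lf (nat_lit 76) (nat_lit 168352114) (nat_lit 0) (nat_lit 1725827262) (nat_lit 380) (nat_lit 168352114) (nat_lit 223) (nat_lit 1) (nat_lit 222) (nat_lit 1) (nat_lit 227) (nat_lit 1) (nat_lit 393) (nat_lit 342) (nat_lit 285)) (XT.lf (nat_lit 76) (nat_lit 948724269) (nat_lit 0) (nat_lit 141671786) (nat_lit 304) (nat_lit 948724269) (nat_lit 219) (nat_lit 1) (nat_lit 218) (nat_lit 1) (nat_lit 222) (nat_lit 1) (nat_lit 394) (nat_lit 342) (nat_lit 284))) (XT.nd (nat_lit 78) (nat_lit 228) (nat_lit 0) (XT.lf (nat_lit 380) (nat_lit 1411902964) (nat_lit 0) (nat_lit 302129064) (nat_lit 304) (nat_lit 302129064) (nat_lit 219) (nat_lit 1) (nat_lit 214) (nat_lit 1) (nat_lit 218) (nat_lit 1) (nat_lit 395) (nat_lit 342) (nat_lit 283)) (XT.nd (nat_lit 78) (nat_lit 228) (nat_lit 0) (XT.lf (nat_lit 76) (nat_lit 463260128)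 (nat_lit 0) (nat_lit 1066943157) (nat_lit 380) (nat_lit 463260128) (nat_lit 215) (nat_lit 1) (nat_lit 214) (nat_lit 1) (nat_lit 219) (nat_lit 1) (nat_lit 396) (nat_lit 342) (nat_lit 282)) (XT.lf (nat_lit 304) (nat_lit 444814682) (nat_lit 0) (nat_lit 763153741) (nat_lit 228) (nat_lit 763153741) (nat_lit 215) (nat_lit 1) (nat_lit 211) (nat_lit 1) (nat_lit 214) (nat_lit 1) (nat_lit 397) (nat_lit 342) (nat_lit 281)))))) (XT.nd (nat_lit 390) (nat_lit 760) (nat_lit 0) (XT.nd (nat_lit 156) (nat_lit 532) (nat_lit 0) (XT.nd (nat_lit 78) (nat_lit 0) (nat_lit 0) (XT.lf (nat_lit 380) (nat_lit 1922290115) (nat_lit 0) (nat_lit 13498718) (nat_lit 304) (nat_lit 13498718) (nat_lit 211) (nat_lit 1) (nat_lit 206) (nat_lit 1) (nat_lit 210) (nat_lit 1) (nat_lit 398) (nat_lit 342) (nat_lit 280)) (XT.lf (nat_lit 76) (nat_lit 716145726) (nat_lit 0) (nat_lit 495118561) (nat_lit 380) (nat_lit 716145726) (nat_lit 207) (nat_lit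 1) (nat_lit 206) (nat_lit 1) (nat_lit 211) (nat_lit 1) (nat_lit 399) (nat_lit 342) (nat_lit 279))) (XT.nd (nat_lit 78) (nat_lit 304) (nat_lit 0) (XT.lf (nat_lit 304) (nat_lit 951710492) (nat_lit 0) (nat_lit 477158906) (nat_lit 228) (nat_lit 477158906) (nat_lit 207) (nat_lit 1) (nat_lit 203) (nat_lit 1) (nat_lit 206) (nat_lit 1) (nat_lit 400) (nat_lit 342) (nat_lit 278)) (XT.nd (nat_lit 78) (nat_lit 304) (nat_lit 0) (XT.lf (nat_lit 76) (nat_lit 237852079) (nat_lit 0) (nat_lit 1409290750) (nat_lit 304) (nat_lit 237852079) (nat_lit 204) (nat_lit 1) (nat_lit 203) (nat_lit 1) (nat_lit 207) (nat_lit 1) (nat_lit 401) (nat_lit 342) (nat_lit 277)) (XT.lf (nat_lit 76) (nat_lit 931961059) (nat_lit 0) (nat_lit 249522) (nat_lit 304) (nat_lit 931961059) (nat_lit 200) (nat_lit 1) (nat_lit 199) (nat_lit 1) (nat_lit 203) (nat_lit 1) (nat_lit 402) (nat_lit 342) (nat_lit 276))))) (XT.nd (nat_lit 156) (nat_lit 532) (nat_lit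 0) (XT.nd (nat_lit 78) (nat_lit 0) (nat_lit 0) (XT.lf (nat_lit 304) (nat_lit 1385872162) (nat_lit 0) (nat_lit 228907460) (nat_lit 228) (nat_lit 228907460) (nat_lit 200) (nat_lit 1) (nat_lit 196) (nat_lit 1) (nat_lit 199) (nat_lit 1) (nat_lit 403) (nat_lit 342) (nat_lit 275)) (XT.lf (nat_lit 76) (nat_lit 454012242) (nat_lit 0) (nat_lit 915375023) (nat_lit 304) (nat_lit 454012242) (nat_lit 197) (nat_lit 1) (nat_lit 196) (nat_lit 1) (nat_lit 200) (nat_lit 1) (nat_lit 404) (nat_lit 342) (nat_lit 274))) (XT.nd (nat_lit 78) (nat_lit 304) (nat_lit 0) (XT.lf (nat_lit 304) (nat_lit 435120436) (nat_lit 0) (nat_lit 684160505) (nat_lit 228) (nat_lit 684160505) (nat_lit 197) (nat_lit 1) (nat_lit 193) (nat_lit 1) (nat_lit 196) (nat_lit 1) (nat_lit 405) (nat_lit 342) (nat_lit 273)) (XT.nd (nat_lit 78) (nat_lit 0) (nat_lit 0) (XT.lf (nat_lit 304) (nat_lit 1755882589) (nat_lit 0) (nat_lit 14020102) (nat_lit 228) (nat_lit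 14020102) (nat_lit 193) (nat_lit 1) (nat_lit 189) (nat_lit 1) (nat_lit 192) (nat_lit 1) (nat_lit 406) (nat_lit 342) (nat_lit 272)) (XT.lf (nat_lit 76) (nat_lit 638999288) (nat_lit 0) (nat_lit 486345886) (nat_lit 304) (nat_lit 638999288) (nat_lit 190) (nat_lit 1) (nat_lit 189) (nat_lit 1) (nat_lit 193) (nat_lit 1) (nat_lit 407) (nat_lit 342) (nat_lit 271))))))))
noncomputable def ec66 : XT := (XT.nd (nat_lit 1482) (nat_lit 1140) (nat_lit 0) (XT.nd (nat_lit 702) (nat_lit 1140) (nat_lit 0) (XT.nd (nat_lit 312) (nat_lit 608) (nat_lit 0) (XT.nd (nat_lit 156) (nat_lit 456) (nat_lit 0) (XT.nd (nat_lit 78) (nat_lit 0) (nat_lit 0) (XT.lf (nat_lit 304) (nat_lit 809265420) (nat_lit 0) (nat_lit 467966039) (nat_lit 228) (nat_lit 467966039) (nat_lit 190) (nat_lit 1) (nat_lit 186) (nat_lit 1) (nat_lit 189) (nat_lit 1) (nat_lit 408) (nat_lit 342) (nat_lit 270)) (XT.lf (nat_lit 76) (nat_lit 173086078) (nat_lit 0) (nat_lit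 1380202680) (nat_lit 304) (nat_lit 173086078) (nat_lit 187) (nat_lit 1) (nat_lit 186) (nat_lit 1) (nat_lit 190) (nat_lit 1) (nat_lit 409) (nat_lit 342) (nat_lit 269))) (XT.nd (nat_lit 78) (nat_lit 228) (nat_lit 0) (XT.lf (nat_lit 76) (nat_lit 796495302) (nat_lit 0) (nat_lit 114681956) (nat_lit 228) (nat_lit 796495302) (nat_lit 184) (nat_lit 1) (nat_lit 183) (nat_lit 1) (nat_lit 186) (nat_lit 1) (nat_lit 410) (nat_lit 342) (nat_lit 268)) (XT.lf (nat_lit 304) (nat_lit 1129377717) (nat_lit 0) (nat_lit 279954862) (nat_lit 228) (nat_lit 279954862) (nat_lit 184) (nat_lit 1) (nat_lit 180) (nat_lit 1) (nat_lit 183) (nat_lit 1) (nat_lit 411) (nat_lit 342) (nat_lit 267)))) (XT.nd (nat_lit 156) (nat_lit 456) (nat_lit 0) (XT.nd (nat_lit 78) (nat_lit 152) (nat_lit 0) (XT.lf (nat_lit 76) (nat_lit 334043080) (nat_lit 0) (nat_lit 1003025964) (nat_lit 304) (nat_lit 334043080) (nat_lit 181) (nat_lit 1) (nat_lit 180)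 (nat_lit 1) (nat_lit 184) (nat_lit 1) (nat_lit 412) (nat_lit 342) (nat_lit 266)) (XT.lf (nat_lit 228) (nat_lit 210396692) (nat_lit 0) (nat_lit 721391539) (nat_lit 152) (nat_lit 721391539) (nat_lit 181) (nat_lit 1) (nat_lit 178) (nat_lit 1) (nat_lit 180) (nat_lit 1) (nat_lit 413) (nat_lit 342) (nat_lit 265))) (XT.nd (nat_lit 78) (nat_lit 152) (nat_lit 0) (XT.lf (nat_lit 304) (nat_lit 1401841233) (nat_lit 0) (nat_lit 116865490) (nat_lit 228) (nat_lit 116865490) (nat_lit 178) (nat_lit 1) (nat_lit 174) (nat_lit 1) (nat_lit 177) (nat_lit 1) (nat_lit 414) (nat_lit 342) (nat_lit 264)) (XT.nd (nat_lit 78) (nat_lit 152) (nat_lit 0) (XT.lf (nat_lit 76) (nat_lit 471801048) (nat_lit 0) (nat_lit 674412237) (nat_lit 304) (nat_lit 471801048) (nat_lit 175) (nat_lit 1) (nat_lit 174) (nat_lit 1) (nat_lit 178) (nat_lit 1) (nat_lit 415) (nat_lit 342) (nat_lit 263)) (XT.lf (nat_lit 228) (nat_lit 492097847) (nat_lit 0) (nat_lit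 554338711) (nat_lit 152) (nat_lit 554338711) (nat_lit 175) (nat_lit 1) (nat_lit 172) (nat_lit 1) (nat_lit 174) (nat_lit 1) (nat_lit 416) (nat_lit 342) (nat_lit 262)))))) (XT.nd (nat_lit 390) (nat_lit 532) (nat_lit 0) (XT.nd (nat_lit 156) (nat_lit 380) (nat_lit 0) (XT.nd (nat_lit 78) (nat_lit 228) (nat_lit 0) (XT.lf (nat_lit 76) (nat_lit 24435975) (nat_lit 0) (nat_lit 1535024451) (nat_lit 228) (nat_lit 24435975) (nat_lit 173) (nat_lit 1) (nat_lit 172) (nat_lit 1) (nat_lit 175) (nat_lit 1) (nat_lit 417) (nat_lit 342) (nat_lit 261)) (XT.lf (nat_lit 76) (nat_lit 589099896) (nat_lit 0) (nat_lit 388756692) (nat_lit 228) (nat_lit 589099896) (nat_lit 170) (nat_lit 1) (nat_lit 169) (nat_lit 1) (nat_lit 172) (nat_lit 1) (nat_lit 418) (nat_lit 342) (nat_lit 260))) (XT.nd (nat_lit 78) (nat_lit 228) (nat_lit 0) (XT.lf (nat_lit 228) (nat_lit 733497429) (nat_lit 0) (nat_lit 408437009) (nat_lit 152) (nat_lit 408437009)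 (nat_lit 170) (nat_lit 1) (nat_lit 167) (nat_lit 1) (nat_lit 169) (nat_lit 1) (nat_lit 419) (nat_lit 342) (nat_lit 259)) (XT.nd (nat_lit 78) (nat_lit 228) (nat_lit 0) (XT.lf (nat_lit 76) (nat_lit 147242605) (nat_lit 0) (nat_lit 1239572735) (nat_lit 228) (nat_lit 147242605) (nat_lit 168) (nat_lit 1) (nat_lit 167) (nat_lit 1) (nat_lit 170) (nat_lit 1) (nat_lit 420) (nat_lit 342) (nat_lit 258)) (XT.lf (nat_lit 76) (nat_lit 688369545) (nat_lit 0) (nat_lit 141085048) (nat_lit 228) (nat_lit 688369545) (nat_lit 165) (nat_lit 1) (nat_lit 164) (nat_lit 1) (nat_lit 167) (nat_lit 1) (nat_lit 421) (nat_lit 342) (nat_lit 257))))) (XT.nd (nat_lit 156) (nat_lit 380) (nat_lit 0) (XT.nd (nat_lit 78) (nat_lit 0) (nat_lit 0) (XT.lf (nat_lit 228) (nat_lit 939348465) (nat_lit 0) (nat_lit 281254337) (nat_lit 152) (nat_lit 281254337) (nat_lit 165) (nat_lit 1) (nat_lit 162) (nat_lit 1) (nat_lit 164) (nat_lit 1) (nat_lit 422)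 (nat_lit 342) (nat_lit 256)) (XT.lf (nat_lit 76) (nat_lit 252698446) (nat_lit 0) (nat_lit 980687419) (nat_lit 228) (nat_lit 252698446) (nat_lit 163) (nat_lit 1) (nat_lit 162) (nat_lit 1) (nat_lit 165) (nat_lit 1) (nat_lit 423) (nat_lit 342) (nat_lit 255))) (XT.nd (nat_lit 78) (nat_lit 228) (nat_lit 0) (XT.lf (nat_lit 228) (nat_lit 74470105) (nat_lit 0) (nat_lit 698010373) (nat_lit 152) (nat_lit 698010373) (nat_lit 163) (nat_lit 1) (nat_lit 160) (nat_lit 1) (nat_lit 162) (nat_lit 1) (nat_lit 424) (nat_lit 342) (nat_lit 254)) (XT.nd (nat_lit 78) (nat_lit 0) (nat_lit 0) (XT.lf (nat_lit 228) (nat_lit 1113866421) (nat_lit 0) (nat_lit 170631947) (nat_lit 152) (nat_lit 170631947) (nat_lit 160) (nat_lit 1) (nat_lit 157) (nat_lit 1) (nat_lit 159) (nat_lit 1) (nat_lit 425) (nat_lit 342) (nat_lit 253)) (XT.lf (nat_lit 76) (nat_lit 342844830) (nat_lit 0) (nat_lit 754185448) (nat_lit 228) (nat_lit 342844830) (nat_lit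 158) (nat_lit 1) (nat_lit 157) (nat_lit 1) (nat_lit 160) (nat_lit 1) (nat_lit 426) (nat_lit 342) (nat_lit 252))))))) (XT.nd (nat_lit 702) (nat_lit 152) (nat_lit 0) (XT.nd (nat_lit 312) (nat_lit 456) (nat_lit 0) (XT.nd (nat_lit 156) (nat_lit 152) (nat_lit 0) (XT.nd (nat_lit 78) (nat_lit 228) (nat_lit 0) (XT.lf (nat_lit 228) (nat_lit 262590091) (nat_lit 0) (nat_lit 581129388) (nat_lit 152) (nat_lit 581129388) (nat_lit 158) (nat_lit 1) (nat_lit 155) (nat_lit 1) (nat_lit 157) (nat_lit 1) (nat_lit 427) (nat_lit 342) (nat_lit 251)) (XT.lf (nat_lit 228) (nat_lit 1260789360) (nat_lit 0) (nat_lit 74653897) (nat_lit 152) (nat_lit 74653897) (nat_lit 155) (nat_lit 1) (nat_lit 152) (nat_lit 1) (nat_lit 154) (nat_lit 1) (nat_lit 428) (nat_lit 342) (nat_lit 250))) (XT.nd (nat_lit 78) (nat_lit 152) (nat_lit 0) (XT.lf (nat_lit 76) (nat_lit 419492349) (nat_lit 0) (nat_lit 556353301) (nat_lit 228) (nat_lit 419492349)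 (nat_lit 153) (nat_lit 1) (nat_lit 152) (nat_lit 1) (nat_lit 155) (nat_lit 1) (nat_lit 429) (nat_lit 342) (nat_lit 249)) (XT.lf (nat_lit 228) (nat_lit 424011164) (nat_lit 0) (nat_lit 478419345) (nat_lit 152) (nat_lit 478419345) (nat_lit 153) (nat_lit 1) (nat_lit 150) (nat_lit 1) (nat_lit 152) (nat_lit 1) (nat_lit 430) (nat_lit 342) (nat_lit 248)))) (XT.nd (nat_lit 156) (nat_lit 304) (nat_lit 0) (XT.nd (nat_lit 78) (nat_lit 152) (nat_lit 0) (XT.lf (nat_lit 76) (nat_lit 8463054) (nat_lit 0) (nat_lit 1349735310) (nat_lit 228) (nat_lit 8463054) (nat_lit 151) (nat_lit 1) (nat_lit 150) (nat_lit 1) (nat_lit 153) (nat_lit 1) (nat_lit 431) (nat_lit 342) (nat_lit 247)) (XT.lf (nat_lit 76) (nat_lit 484246682) (nat_lit 0) (nat_lit 383894546) (nat_lit 152) (nat_lit 484246682) (nat_lit 149) (nat_lit 1) (nat_lit 148) (nat_lit 1) (nat_lit 150) (nat_lit 1) (nat_lit 432) (nat_lit 342) (nat_lit 246))) (XT.nd (nat_lit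 78) (nat_lit 152) (nat_lit 0) (XT.lf (nat_lit 228) (nat_lit 561877233) (nat_lit 0) (nat_lit 388266877) (nat_lit 152) (nat_lit 388266877) (nat_lit 149) (nat_lit 1) (nat_lit 146) (nat_lit 1) (nat_lit 148) (nat_lit 1) (nat_lit 433) (nat_lit 342) (nat_lit 245)) (XT.nd (nat_lit 78) (nat_lit 152) (nat_lit 0) (XT.lf (nat_lit 76) (nat_lit 80770574) (nat_lit 0) (nat_lit 1163137976) (nat_lit 228) (nat_lit 80770574) (nat_lit 147) (nat_lit 1) (nat_lit 146) (nat_lit 1) (nat_lit 149) (nat_lit 1) (nat_lit 434) (nat_lit 342) (nat_lit 244)) (XT.lf (nat_lit 76) (nat_lit 538531529) (nat_lit 0) (nat_lit 233883238) (nat_lit 152) (nat_lit 538531529) (nat_lit 145) (nat_lit 1) (nat_lit 144) (nat_lit 1) (nat_lit 146) (nat_lit 1) (nat_lit 435) (nat_lit 342) (nat_lit 243)))))) (XT.nd (nat_lit 45396) (nat_lit 0) (nat_lit 17708) (XT.nd (nat_lit 45162) (nat_lit 0) (nat_lit 17632) (XT.nd (nat_lit 78) (nat_lit 0) (nat_lit 0) (XT.lf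 (nat_lit 228) (nat_lit 678976766) (nat_lit 0) (nat_lit 309239494) (nat_lit 152) (nat_lit 309239494) (nat_lit 145) (nat_lit 1) (nat_lit 142) (nat_lit 1) (nat_lit 144) (nat_lit 1) (nat_lit 436) (nat_lit 342) (nat_lit 242)) (XT.lf (nat_lit 76) (nat_lit 142881338) (nat_lit 0) (nat_lit 998399663) (nat_lit 228) (nat_lit 142881338) (nat_lit 143) (nat_lit 1) (nat_lit 142) (nat_lit 1) (nat_lit 145) (nat_lit 1) (nat_lit 437) (nat_lit 342) (nat_lit 241))) (XT.nd (nat_lit 78) (nat_lit 0) (nat_lit 0) (XT.lf (nat_lit 1292) (nat_lit 407545733) (nat_lit 0) (nat_lit 1402146861) (nat_lit 1292) (nat_lit 407545733) (nat_lit 391) (nat_lit 1) (nat_lit 374) (nat_lit 0) (nat_lit 391) (nat_lit 0) (nat_lit 334) (nat_lit 343) (nat_lit 343)) (XT.nd (nat_lit 78) (nat_lit 0) (nat_lit 76) (XT.lf (nat_lit 1292) (nat_lit 1592695869) (nat_lit 76) (nat_lit 1388400323) (nat_lit 0) (nat_lit 1388400323) (nat_lit 391) (nat_lit 1) (nat_lit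 375) (nat_lit 1) (nat_lit 374) (nat_lit 0) (nat_lit 335) (nat_lit 343) (nat_lit 342)) (XT.lf (nat_lit 1292) (nat_lit 770265697) (nat_lit 0) (nat_lit 2765418308) (nat_lit 1216) (nat_lit 770265697) (nat_lit 392) (nat_lit 1) (nat_lit 375) (nat_lit 1) (nat_lit 391) (nat_lit 1) (nat_lit 336) (nat_lit 343) (nat_lit 341))))) (XT.nd (nat_lit 156) (nat_lit 0) (nat_lit 76) (XT.nd (nat_lit 78) (nat_lit 0) (nat_lit 76) (XT.lf (nat_lit 1292) (nat_lit 1462774327) (nat_lit 76) (nat_lit 1390344884) (nat_lit 0) (nat_lit 1390344884) (nat_lit 392) (nat_lit 1) (nat_lit 376) (nat_lit 1) (nat_lit 375) (nat_lit 1) (nat_lit 337) (nat_lit 343) (nat_lit 340)) (XT.lf (nat_lit 1292) (nat_lit 686399558) (nat_lit 0) (nat_lit 2809577511) (nat_lit 1216) (nat_lit 686399558) (nat_lit 393) (nat_lit 1) (nat_lit 376) (nat_lit 1) (nat_lit 392) (nat_lit 1) (nat_lit 338) (nat_lit 343) (nat_lit 339))) (XT.nd (nat_lit 78) (nat_lit 0) (nat_lit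 76) (XT.lf (nat_lit 1292) (nat_lit 1257899664) (nat_lit 76) (nat_lit 1432183231) (nat_lit 0) (nat_lit 1432183231) (nat_lit 393) (nat_lit 1) (nat_lit 377) (nat_lit 1) (nat_lit 376) (nat_lit 1) (nat_lit 339) (nat_lit 343) (nat_lit 338)) (XT.nd (nat_lit 78) (nat_lit 0) (nat_lit 0) (XT.lf (nat_lit 1292) (nat_lit 566946173) (nat_lit 0) (nat_lit 2929651321) (nat_lit 1216) (nat_lit 566946173) (nat_lit 394) (nat_lit 1) (nat_lit 377) (nat_lit 1) (nat_lit 393) (nat_lit 1) (nat_lit 340) (nat_lit 343) (nat_lit 337)) (XT.lf (nat_lit 1292) (nat_lit 984774820) (nat_lit 76) (nat_lit 1510460092) (nat_lit 0) (nat_lit 1510460092) (nat_lit 394) (nat_lit 1) (nat_lit 378) (nat_lit 1) (nat_lit 377) (nat_lit 1) (nat_lit 341) (nat_lit 343) (nat_lit 336))))))))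
noncomputable def ec67 : XT := (XT.nd (nat_lit 1482) (nat_lit 5168) (nat_lit 0) (XT.nd (nat_lit 702) (nat_lit 3116) (nat_lit 0) (XT.nd (nat_lit 312) (nat_lit 1140) (nat_lit 0) (XT.nd (nat_lit 156) (nat_lit 0) (nat_lit 76) (XT.nd (nat_lit 78) (nat_lit 0) (nat_lit 0) (XT.lf (nat_lit 1292) (nat_lit 415125138) (nat_lit 0) (nat_lit 3118996991) (nat_lit 1216) (nat_lit 415125138) (nat_lit 395) (nat_lit 1) (nat_lit 378) (nat_lit 1) (nat_lit 394) (nat_lit 1) (nat_lit 342) (nat_lit 343) (nat_lit 335)) (XT.lf (nat_lit 1292) (nat_lit 649648047) (nat_lit 76) (nat_lit 1621952479) (nat_lit 0) (nat_lit 1621952479) (nat_lit 395) (nat_lit 1) (nat_lit 379) (nat_lit 1) (nat_lit 378) (nat_lit 1) (nat_lit 343) (nat_lit 343) (nat_lit 334))) (XT.nd (nat_lit 78) (nat_lit 0) (nat_lit 0) (XT.lf (nat_lit 1292) (nat_lit 233936958) (nat_lit 0) (nat_lit 3371419646) (nat_lit 1216) (nat_lit 233936958) (nat_lit 396) (nat_lit 1) (nat_lit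 379) (nat_lit 1) (nat_lit 395) (nat_lit 1) (nat_lit 344) (nat_lit 343) (nat_lit 333)) (XT.lf (nat_lit 1292) (nat_lit 258341045) (nat_lit 76) (nat_lit 1763655367) (nat_lit 0) (nat_lit 1763655367) (nat_lit 396) (nat_lit 1) (nat_lit 380) (nat_lit 1) (nat_lit 379) (nat_lit 1) (nat_lit 345) (nat_lit 343) (nat_lit 332)))) (XT.nd (nat_lit 156) (nat_lit 0) (nat_lit 0) (XT.nd (nat_lit 78) (nat_lit 1292) (nat_lit 0) (XT.lf (nat_lit 1292) (nat_lit 26176620) (nat_lit 0) (nat_lit 3681144637) (nat_lit 1216) (nat_lit 26176620) (nat_lit 397) (nat_lit 1) (nat_lit 380) (nat_lit 1) (nat_lit 396) (nat_lit 1) (nat_lit 346) (nat_lit 343) (nat_lit 331)) (XT.lf (nat_lit 1368) (nat_lit 1750809721) (nat_lit 0) (nat_lit 180139443) (nat_lit 1292) (nat_lit 1750809721) (nat_lit 381) (nat_lit 1) (nat_lit 363) (nat_lit 1) (nat_lit 380) (nat_lit 1) (nat_lit 347) (nat_lit 343) (nat_lit 330))) (XT.nd (nat_lit 78) (nat_lit 0) (nat_lit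 76) (XT.lf (nat_lit 1368) (nat_lit 3224369137) (nat_lit 76) (nat_lit 203538406) (nat_lit 0) (nat_lit 203538406) (nat_lit 381) (nat_lit 1) (nat_lit 364) (nat_lit 1) (nat_lit 363) (nat_lit 1) (nat_lit 348) (nat_lit 343) (nat_lit 329)) (XT.nd (nat_lit 78) (nat_lit 0) (nat_lit 0) (XT.lf (nat_lit 1368) (nat_lit 1461634819) (nat_lit 0) (nat_lit 658398964) (nat_lit 1292) (nat_lit 1461634819) (nat_lit 382) (nat_lit 1) (nat_lit 364) (nat_lit 1) (nat_lit 381) (nat_lit 1) (nat_lit 349) (nat_lit 343) (nat_lit 328)) (XT.lf (nat_lit 1368) (nat_lit 2624485135) (nat_lit 76) (nat_lit 454333969) (nat_lit 0) (nat_lit 454333969) (nat_lit 382) (nat_lit 1) (nat_lit 365) (nat_lit 1) (nat_lit 364) (nat_lit 1) (nat_lit 350) (nat_lit 343) (nat_lit 327)))))) (XT.nd (nat_lit 390) (nat_lit 1824) (nat_lit 0) (XT.nd (nat_lit 156) (nat_lit 608) (nat_lit 0) (XT.nd (nat_lit 78) (nat_lit 836) (nat_lit 0) (XT.lf (nat_lit 76) (nat_lit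 1154209045) (nat_lit 0) (nat_lit 1176875683) (nat_lit 1292) (nat_lit 1154209045) (nat_lit 366) (nat_lit 1) (nat_lit 365) (nat_lit 1) (nat_lit 382) (nat_lit 1) (nat_lit 351) (nat_lit 343) (nat_lit 326)) (XT.lf (nat_lit 912) (nat_lit 1990018887) (nat_lit 0) (nat_lit 724236744) (nat_lit 836) (nat_lit 724236744) (nat_lit 366) (nat_lit 1) (nat_lit 354) (nat_lit 1) (nat_lit 365) (nat_lit 1) (nat_lit 352) (nat_lit 343) (nat_lit 325))) (XT.nd (nat_lit 78) (nat_lit 608) (nat_lit 0) (XT.lf (nat_lit 76) (nat_lit 830595144) (nat_lit 0) (nat_lit 1731289958) (nat_lit 912) (nat_lit 830595144) (nat_lit 355) (nat_lit 1) (nat_lit 354) (nat_lit 1) (nat_lit 366) (nat_lit 1) (nat_lit 353) (nat_lit 343) (nat_lit 324)) (XT.nd (nat_lit 78) (nat_lit 0) (nat_lit 0) (XT.lf (nat_lit 684) (nat_lit 1324965793) (nat_lit 0) (nat_lit 1011174057) (nat_lit 608) (nat_lit 1011174057) (nat_lit 355) (nat_lit 1) (nat_lit 346) (nat_lit 1)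 (nat_lit 354) (nat_lit 1) (nat_lit 354) (nat_lit 343) (nat_lit 323)) (XT.lf (nat_lit 76) (nat_lit 492707884) (nat_lit 0) (nat_lit 2317665230) (nat_lit 684) (nat_lit 492707884) (nat_lit 347) (nat_lit 1) (nat_lit 346) (nat_lit 1) (nat_lit 355) (nat_lit 1) (nat_lit 355) (nat_lit 343) (nat_lit 322))))) (XT.nd (nat_lit 156) (nat_lit 1216) (nat_lit 0) (XT.nd (nat_lit 78) (nat_lit 0) (nat_lit 0) (XT.lf (nat_lit 684) (nat_lit 633033344) (nat_lit 0) (nat_lit 1313220636) (nat_lit 608) (nat_lit 1313220636) (nat_lit 347) (nat_lit 1) (nat_lit 338) (nat_lit 1) (nat_lit 346) (nat_lit 1) (nat_lit 356) (nat_lit 343) (nat_lit 321)) (XT.lf (nat_lit 76) (nat_lit 142323413) (nat_lit 0) (nat_lit 2932308941) (nat_lit 684) (nat_lit 142323413) (nat_lit 339) (nat_lit 1) (nat_lit 338) (nat_lit 1) (nat_lit 347) (nat_lit 1) (nat_lit 357) (nat_lit 343) (nat_lit 320))) (XT.nd (nat_lit 78) (nat_lit 608) (nat_lit 0) (XT.lf (nat_lit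 76) (nat_lit 1547040196) (nat_lit 0) (nat_lit 80733872) (nat_lit 608) (nat_lit 1547040196) (nat_lit 331) (nat_lit 1) (nat_lit 330) (nat_lit 1) (nat_lit 338) (nat_lit 1) (nat_lit 358) (nat_lit 343) (nat_lit 319)) (XT.nd (nat_lit 78) (nat_lit 0) (nat_lit 0) (XT.lf (nat_lit 684) (nat_lit 2700185437) (nat_lit 0) (nat_lit 216765749) (nat_lit 608) (nat_lit 216765749) (nat_lit 331) (nat_lit 1) (nat_lit 322) (nat_lit 1) (nat_lit 330) (nat_lit 1) (nat_lit 359) (nat_lit 343) (nat_lit 318)) (XT.lf (nat_lit 76) (nat_lit 1145514321) (nat_lit 0) (nat_lit 802009299) (nat_lit 684) (nat_lit 1145514321) (nat_lit 323) (nat_lit 1) (nat_lit 322) (nat_lit 1) (nat_lit 331) (nat_lit 1) (nat_lit 360) (nat_lit 343) (nat_lit 317))))))) (XT.nd (nat_lit 702) (nat_lit 2584) (nat_lit 0) (XT.nd (nat_lit 312) (nat_lit 1520) (nat_lit 0) (XT.nd (nat_lit 156) (nat_lit 532) (nat_lit 0) (XT.nd (nat_lit 78) (nat_lit 0) (nat_lit 0) (XT.lf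 (nat_lit 608) (nat_lit 1885926198) (nat_lit 0) (nat_lit 583694279) (nat_lit 532) (nat_lit 583694279) (nat_lit 323) (nat_lit 1) (nat_lit 315) (nat_lit 1) (nat_lit 322) (nat_lit 1) (nat_lit 361) (nat_lit 343) (nat_lit 316)) (XT.lf (nat_lit 76) (nat_lit 736975159) (nat_lit 0) (nat_lit 1540254379) (nat_lit 608) (nat_lit 736975159) (nat_lit 316) (nat_lit 1) (nat_lit 315) (nat_lit 1) (nat_lit 323) (nat_lit 1) (nat_lit 362) (nat_lit 343) (nat_lit 315))) (XT.nd (nat_lit 78) (nat_lit 0) (nat_lit 0) (XT.lf (nat_lit 608) (nat_lit 1058873202) (nat_lit 0) (nat_lit 958460371) (nat_lit 532) (nat_lit 958460371) (nat_lit 316) (nat_lit 1) (nat_lit 308) (nat_lit 1) (nat_lit 315) (nat_lit 1) (nat_lit 363) (nat_lit 343) (nat_lit 314)) (XT.lf (nat_lit 76) (nat_lit 322700909) (nat_lit 0) (nat_lit 2292794778) (nat_lit 608) (nat_lit 322700909) (nat_lit 309) (nat_lit 1) (nat_lit 308) (nat_lit 1) (nat_lit 316) (nat_lit 1) (nat_lit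 364) (nat_lit 343) (nat_lit 313)))) (XT.nd (nat_lit 156) (nat_lit 456) (nat_lit 0) (XT.nd (nat_lit 78) (nat_lit 608) (nat_lit 0) (XT.lf (nat_lit 532) (nat_lit 221494909) (nat_lit 0) (nat_lit 1339772348) (nat_lit 456) (nat_lit 1339772348) (nat_lit 309) (nat_lit 1) (nat_lit 302) (nat_lit 1) (nat_lit 308) (nat_lit 1) (nat_lit 365) (nat_lit 343) (nat_lit 312)) (XT.lf (nat_lit 608) (nat_lit 2674416207) (nat_lit 0) (nat_lit 95186665) (nat_lit 532) (nat_lit 95186665) (nat_lit 302) (nat_lit 1) (nat_lit 294) (nat_lit 1) (nat_lit 301) (nat_lit 1) (nat_lit 366) (nat_lit 343) (nat_lit 311))) (XT.nd (nat_lit 78) (nat_lit 456) (nat_lit 0) (XT.lf (nat_lit 76) (nat_lit 1108502390) (nat_lit 0) (nat_lit 611757256) (nat_lit 608) (nat_lit 1108502390) (nat_lit 295) (nat_lit 1) (nat_lit 294) (nat_lit 1) (nat_lit 302) (nat_lit 1) (nat_lit 367) (nat_lit 343) (nat_lit 310)) (XT.nd (nat_lit 78) (nat_lit 0) (nat_lit 0) (XT.lf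 (nat_lit 532) (nat_lit 1766918398) (nat_lit 0) (nat_lit 513345398) (nat_lit 456) (nat_lit 513345398) (nat_lit 295) (nat_lit 1) (nat_lit 288) (nat_lit 1) (nat_lit 294) (nat_lit 1) (nat_lit 368) (nat_lit 343) (nat_lit 309)) (XT.lf (nat_lit 76) (nat_lit 656223543) (nat_lit 0) (nat_lit 1446523596) (nat_lit 532) (nat_lit 656223543) (nat_lit 289) (nat_lit 1) (nat_lit 288) (nat_lit 1) (nat_lit 295) (nat_lit 1) (nat_lit 369) (nat_lit 343) (nat_lit 308)))))) (XT.nd (nat_lit 390) (nat_lit 1216) (nat_lit 0) (XT.nd (nat_lit 156) (nat_lit 912) (nat_lit 0) (XT.nd (nat_lit 78) (nat_lit 0) (nat_lit 0) (XT.lf (nat_lit 532) (nat_lit 857031198) (nat_lit 0) (nat_lit 933948401) (nat_lit 456) (nat_lit 933948401) (nat_lit 289) (nat_lit 1) (nat_lit 282) (nat_lit 1) (nat_lit 288) (nat_lit 1) (nat_lit 370) (nat_lit 343) (nat_lit 307)) (XT.lf (nat_lit 76) (nat_lit 203197196) (nat_lit 0) (nat_lit 2285235310) (nat_lit 532) (nat_lit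 203197196) (nat_lit 283) (nat_lit 1) (nat_lit 282) (nat_lit 1) (nat_lit 289) (nat_lit 1) (nat_lit 371) (nat_lit 343) (nat_lit 306))) (XT.nd (nat_lit 78) (nat_lit 456) (nat_lit 0) (XT.lf (nat_lit 76) (nat_lit 1303078166) (nat_lit 0) (nat_lit 52476941) (nat_lit 456) (nat_lit 1303078166) (nat_lit 277) (nat_lit 1) (nat_lit 276) (nat_lit 1) (nat_lit 282) (nat_lit 1) (nat_lit 372) (nat_lit 343) (nat_lit 305)) (XT.nd (nat_lit 78) (nat_lit 0) (nat_lit 0) (XT.lf (nat_lit 532) (nat_lit 2131739835) (nat_lit 0) (nat_lit 247307187) (nat_lit 456) (nat_lit 247307187) (nat_lit 277) (nat_lit 1) (nat_lit 270) (nat_lit 1) (nat_lit 276) (nat_lit 1) (nat_lit 373) (nat_lit 343) (nat_lit 304)) (XT.lf (nat_lit 76) (nat_lit 825017479) (nat_lit 0) (nat_lit 944365604) (nat_lit 532) (nat_lit 825017479) (nat_lit 271) (nat_lit 1) (nat_lit 270) (nat_lit 1) (nat_lit 277) (nat_lit 1) (nat_lit 374) (nat_lit 343) (nat_lit 303))))) (XT.nd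 (nat_lit 156) (nat_lit 836) (nat_lit 0) (XT.nd (nat_lit 78) (nat_lit 0) (nat_lit 0) (XT.lf (nat_lit 456) (nat_lit 1173101833) (nat_lit 0) (nat_lit 695003053) (nat_lit 380) (nat_lit 695003053) (nat_lit 271) (nat_lit 1) (nat_lit 265) (nat_lit 1) (nat_lit 270) (nat_lit 1) (nat_lit 375) (nat_lit 343) (nat_lit 302)) (XT.lf (nat_lit 76) (nat_lit 349222547) (nat_lit 0) (nat_lit 1833943361) (nat_lit 456) (nat_lit 349222547) (nat_lit 266) (nat_lit 1) (nat_lit 265) (nat_lit 1) (nat_lit 271) (nat_lit 1) (nat_lit 376) (nat_lit 343) (nat_lit 301))) (XT.nd (nat_lit 78) (nat_lit 456) (nat_lit 0) (XT.lf (nat_lit 456) (nat_lit 219633474) (nat_lit 0) (nat_lit 1141203278) (nat_lit 380) (nat_lit 1141203278) (nat_lit 266) (nat_lit 1) (nat_lit 260) (nat_lit 1) (nat_lit 265) (nat_lit 1) (nat_lit 377) (nat_lit 343) (nat_lit 300)) (XT.nd (nat_lit 78) (nat_lit 0) (nat_lit 0) (XT.lf (nat_lit 456) (nat_lit 2227387578) (nat_lit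 0) (nat_lit 122490604) (nat_lit 380) (nat_lit 122490604) (nat_lit 260) (nat_lit 1) (nat_lit 254) (nat_lit 1) (nat_lit 259) (nat_lit 1) (nat_lit 378) (nat_lit 343) (nat_lit 299)) (XT.lf (nat_lit 76) (nat_lit 864772251) (nat_lit 0) (nat_lit 713313429) (nat_lit 456) (nat_lit 864772251) (nat_lit 255) (nat_lit 1) (nat_lit 254) (nat_lit 1) (nat_lit 260) (nat_lit 1) (nat_lit 379) (nat_lit 343) (nat_lit 298))))))))
noncomputable def ec68 : XT := (XT.nd (nat_lit 1404) (nat_lit 2812) (nat_lit 0) (XT.nd (nat_lit 702) (nat_lit 1520) (nat_lit 0) (XT.nd (nat_lit 312) (nat_lit 988) (nat_lit 0) (XT.nd (nat_lit 156) (nat_lit 760) (nat_lit 0) (XT.nd (nat_lit 78) (nat_lit 0) (nat_lit 0) (XT.lf (nat_lit 456) (nat_lit 1239208443) (nat_lit 0) (nat_lit 587397243) (nat_lit 380) (nat_lit 587397243) (nat_lit 255) (nat_lit 1) (nat_lit 249) (nat_lit 1) (nat_lit 254) (nat_lit 1) (nat_lit 380) (nat_lit 343) (nat_lit 297)) (XT.lf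 (nat_lit 76) (nat_lit 375442312) (nat_lit 0) (nat_lit 1634746376) (nat_lit 456) (nat_lit 375442312) (nat_lit 250) (nat_lit 1) (nat_lit 249) (nat_lit 1) (nat_lit 255) (nat_lit 1) (nat_lit 381) (nat_lit 343) (nat_lit 296))) (XT.nd (nat_lit 78) (nat_lit 456) (nat_lit 0) (XT.lf (nat_lit 380) (nat_lit 260756906) (nat_lit 0) (nat_lit 1048430866) (nat_lit 304) (nat_lit 1048430866) (nat_lit 250) (nat_lit 1) (nat_lit 245) (nat_lit 1) (nat_lit 249) (nat_lit 1) (nat_lit 382) (nat_lit 343) (nat_lit 295)) (XT.lf (nat_lit 456) (nat_lit 2114677881) (nat_lit 0) (nat_lit 107771455) (nat_lit 380) (nat_lit 107771455) (nat_lit 245) (nat_lit 1) (nat_lit 239) (nat_lit 1) (nat_lit 244) (nat_lit 1) (nat_lit 383) (nat_lit 343) (nat_lit 294)))) (XT.nd (nat_lit 156) (nat_lit 684) (nat_lit 0) (XT.nd (nat_lit 78) (nat_lit 304) (nat_lit 0) (XT.lf (nat_lit 76) (nat_lit 804790357) (nat_lit 0) (nat_lit 693357392) (nat_lit 456) (nat_lit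 804790357) (nat_lit 240) (nat_lit 1) (nat_lit 239) (nat_lit 1) (nat_lit 245) (nat_lit 1) (nat_lit 384) (nat_lit 343) (nat_lit 293)) (XT.lf (nat_lit 380) (nat_lit 1112397494) (nat_lit 0) (nat_lit 581927290) (nat_lit 304) (nat_lit 581927290) (nat_lit 240) (nat_lit 1) (nat_lit 235) (nat_lit 1) (nat_lit 239) (nat_lit 1) (nat_lit 385) (nat_lit 343) (nat_lit 292))) (XT.nd (nat_lit 78) (nat_lit 684) (nat_lit 0) (XT.lf (nat_lit 76) (nat_lit 309340750) (nat_lit 0) (nat_lit 1631341011) (nat_lit 380) (nat_lit 309340750) (nat_lit 236) (nat_lit 1) (nat_lit 235) (nat_lit 1) (nat_lit 240) (nat_lit 1) (nat_lit 386) (nat_lit 343) (nat_lit 291)) (XT.nd (nat_lit 78) (nat_lit 380) (nat_lit 0) (XT.lf (nat_lit 380) (nat_lit 123352047) (nat_lit 0) (nat_lit 1050369520) (nat_lit 304) (nat_lit 1050369520) (nat_lit 236) (nat_lit 1) (nat_lit 231) (nat_lit 1) (nat_lit 235) (nat_lit 1) (nat_lit 387) (nat_lit 343) (nat_lit 290))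 (XT.lf (nat_lit 380) (nat_lit 1843417134) (nat_lit 0) (nat_lit 177627136) (nat_lit 304) (nat_lit 177627136) (nat_lit 231) (nat_lit 1) (nat_lit 226) (nat_lit 1) (nat_lit 230) (nat_lit 1) (nat_lit 388) (nat_lit 343) (nat_lit 289)))))) (XT.nd (nat_lit 312) (nat_lit 912) (nat_lit 0) (XT.nd (nat_lit 156) (nat_lit 304) (nat_lit 0) (XT.nd (nat_lit 78) (nat_lit 304) (nat_lit 0) (XT.lf (nat_lit 76) (nat_lit 669061122) (nat_lit 0) (nat_lit 835303722) (nat_lit 380) (nat_lit 669061122) (nat_lit 227) (nat_lit 1) (nat_lit 226) (nat_lit 1) (nat_lit 231) (nat_lit 1) (nat_lit 389) (nat_lit 343) (nat_lit 288)) (XT.lf (nat_lit 380) (nat_lit 839355430) (nat_lit 0) (nat_lit 654660939) (nat_lit 304) (nat_lit 654660939) (nat_lit 227) (nat_lit 1) (nat_lit 222) (nat_lit 1) (nat_lit 226) (nat_lit 1) (nat_lit 390) (nat_lit 343) (nat_lit 287))) (XT.nd (nat_lit 78) (nat_lit 304) (nat_lit 0) (XT.lf (nat_lit 76) (nat_lit 173402677)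 (nat_lit 0) (nat_lit 1777602080) (nat_lit 380) (nat_lit 173402677) (nat_lit 223) (nat_lit 1) (nat_lit 222) (nat_lit 1) (nat_lit 227) (nat_lit 1) (nat_lit 391) (nat_lit 343) (nat_lit 286)) (XT.lf (nat_lit 76) (nat_lit 977185997) (nat_lit 0) (nat_lit 145921940) (nat_lit 304) (nat_lit 977185997) (nat_lit 219) (nat_lit 1) (nat_lit 218) (nat_lit 1) (nat_lit 222) (nat_lit 1) (nat_lit 392) (nat_lit 343) (nat_lit 285)))) (XT.nd (nat_lit 156) (nat_lit 608) (nat_lit 0) (XT.nd (nat_lit 78) (nat_lit 0) (nat_lit 0) (XT.lf (nat_lit 380) (nat_lit 1454260053) (nat_lit 0) (nat_lit 311192936) (nat_lit 304) (nat_lit 311192936) (nat_lit 219) (nat_lit 1) (nat_lit 214) (nat_lit 1) (nat_lit 218) (nat_lit 1) (nat_lit 393) (nat_lit 343) (nat_lit 284)) (XT.lf (nat_lit 76) (nat_lit 477157932) (nat_lit 0) (nat_lit 1098951451) (nat_lit 380) (nat_lit 477157932) (nat_lit 215) (nat_lit 1) (nat_lit 214) (nat_lit 1) (nat_lit 219) (nat_lit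 1) (nat_lit 394) (nat_lit 343) (nat_lit 283))) (XT.nd (nat_lit 78) (nat_lit 380) (nat_lit 0) (XT.lf (nat_lit 304) (nat_lit 458159122) (nat_lit 0) (nat_lit 786048353) (nat_lit 228) (nat_lit 786048353) (nat_lit 215) (nat_lit 1) (nat_lit 211) (nat_lit 1) (nat_lit 214) (nat_lit 1) (nat_lit 395) (nat_lit 343) (nat_lit 282)) (XT.nd (nat_lit 78) (nat_lit 0) (nat_lit 0) (XT.lf (nat_lit 380) (nat_lit 1979958819) (nat_lit 0) (nat_lit 13903680) (nat_lit 304) (nat_lit 13903680) (nat_lit 211) (nat_lit 1) (nat_lit 206) (nat_lit 1) (nat_lit 210) (nat_lit 1) (nat_lit 396) (nat_lit 343) (nat_lit 281)) (XT.lf (nat_lit 76) (nat_lit 737630098) (nat_lit 0) (nat_lit 509972118) (nat_lit 380) (nat_lit 737630098) (nat_lit 207) (nat_lit 1) (nat_lit 206) (nat_lit 1) (nat_lit 211) (nat_lit 1) (nat_lit 397) (nat_lit 343) (nat_lit 280))))))) (XT.nd (nat_lit 702) (nat_lit 1292) (nat_lit 0) (XT.nd (nat_lit 312) (nat_lit 760) (nat_lit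 0) (XT.nd (nat_lit 156) (nat_lit 532) (nat_lit 0) (XT.nd (nat_lit 78) (nat_lit 0) (nat_lit 0) (XT.lf (nat_lit 304) (nat_lit 980261806) (nat_lit 0) (nat_lit 491473673) (nat_lit 228) (nat_lit 491473673) (nat_lit 207) (nat_lit 1) (nat_lit 203) (nat_lit 1) (nat_lit 206) (nat_lit 1) (nat_lit 398) (nat_lit 343) (nat_lit 279)) (XT.lf (nat_lit 76) (nat_lit 244987641) (nat_lit 0) (nat_lit 1451569473) (nat_lit 304) (nat_lit 244987641) (nat_lit 204) (nat_lit 1) (nat_lit 203) (nat_lit 1) (nat_lit 207) (nat_lit 1) (nat_lit 399) (nat_lit 343) (nat_lit 278))) (XT.nd (nat_lit 78) (nat_lit 228) (nat_lit 0) (XT.lf (nat_lit 76) (nat_lit 959919890) (nat_lit 0) (nat_lit 257007) (nat_lit 304) (nat_lit 959919890) (nat_lit 200) (nat_lit 1) (nat_lit 199) (nat_lit 1) (nat_lit 203) (nat_lit 1) (nat_lit 400) (nat_lit 343) (nat_lit 277)) (XT.lf (nat_lit 304) (nat_lit 1427448327) (nat_lit 0) (nat_lit 235774684) (nat_lit 228) (nat_lit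 235774684) (nat_lit 200) (nat_lit 1) (nat_lit 196) (nat_lit 1) (nat_lit 199) (nat_lit 1) (nat_lit 401) (nat_lit 343) (nat_lit 276)))) (XT.nd (nat_lit 156) (nat_lit 532) (nat_lit 0) (XT.nd (nat_lit 78) (nat_lit 228) (nat_lit 0) (XT.lf (nat_lit 76) (nat_lit 467632609) (nat_lit 0) (nat_lit 942836274) (nat_lit 304) (nat_lit 467632609) (nat_lit 197) (nat_lit 1) (nat_lit 196) (nat_lit 1) (nat_lit 200) (nat_lit 1) (nat_lit 402) (nat_lit 343) (nat_lit 275)) (XT.lf (nat_lit 304) (nat_lit 448174049) (nat_lit 0) (nat_lit 704685320) (nat_lit 228) (nat_lit 704685320) (nat_lit 197) (nat_lit 1) (nat_lit 193) (nat_lit 1) (nat_lit 196) (nat_lit 1) (nat_lit 403) (nat_lit 343) (nat_lit 274))) (XT.nd (nat_lit 78) (nat_lit 228) (nat_lit 0) (XT.lf (nat_lit 304) (nat_lit 1808559066) (nat_lit 0) (nat_lit 14440706) (nat_lit 228) (nat_lit 14440706) (nat_lit 193) (nat_lit 1) (nat_lit 189) (nat_lit 1) (nat_lit 192) (nat_lit 1)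 (nat_lit 404) (nat_lit 343) (nat_lit 273)) (XT.nd (nat_lit 78) (nat_lit 228) (nat_lit 0) (XT.lf (nat_lit 76) (nat_lit 658169267) (nat_lit 0) (nat_lit 500936263) (nat_lit 304) (nat_lit 658169267) (nat_lit 190) (nat_lit 1) (nat_lit 189) (nat_lit 1) (nat_lit 193) (nat_lit 1) (nat_lit 405) (nat_lit 343) (nat_lit 272)) (XT.lf (nat_lit 304) (nat_lit 833543383) (nat_lit 0) (nat_lit 482005020) (nat_lit 228) (nat_lit 482005020) (nat_lit 190) (nat_lit 1) (nat_lit 186) (nat_lit 1) (nat_lit 189) (nat_lit 1) (nat_lit 406) (nat_lit 343) (nat_lit 271)))))) (XT.nd (nat_lit 390) (nat_lit 684) (nat_lit 0) (XT.nd (nat_lit 156) (nat_lit 380) (nat_lit 0) (XT.nd (nat_lit 78) (nat_lit 228) (nat_lit 0) (XT.lf (nat_lit 76) (nat_lit 178278660) (nat_lit 0) (nat_lit 1421608761) (nat_lit 304) (nat_lit 178278660) (nat_lit 187) (nat_lit 1) (nat_lit 186) (nat_lit 1) (nat_lit 190) (nat_lit 1) (nat_lit 407) (nat_lit 343) (nat_lit 270))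 (XT.lf (nat_lit 76) (nat_lit 820390161) (nat_lit 0) (nat_lit 118122415) (nat_lit 228) (nat_lit 820390161) (nat_lit 184) (nat_lit 1) (nat_lit 183) (nat_lit 1) (nat_lit 186) (nat_lit 1) (nat_lit 408) (nat_lit 343) (nat_lit 269))) (XT.nd (nat_lit 78) (nat_lit 152) (nat_lit 0) (XT.lf (nat_lit 304) (nat_lit 1163259048) (nat_lit 0) (nat_lit 288353508) (nat_lit 228) (nat_lit 288353508) (nat_lit 184) (nat_lit 1) (nat_lit 180) (nat_lit 1) (nat_lit 183) (nat_lit 1) (nat_lit 409) (nat_lit 343) (nat_lit 268)) (XT.nd (nat_lit 78) (nat_lit 152) (nat_lit 0) (XT.lf (nat_lit 76) (nat_lit 344064372) (nat_lit 0) (nat_lit 1033116743) (nat_lit 304) (nat_lit 344064372) (nat_lit 181) (nat_lit 1) (nat_lit 180) (nat_lit 1) (nat_lit 184) (nat_lit 1) (nat_lit 410) (nat_lit 343) (nat_lit 267)) (XT.lf (nat_lit 228) (nat_lit 216708593) (nat_lit 0) (nat_lit 743033285) (nat_lit 152) (nat_lit 743033285) (nat_lit 181) (nat_lit 1) (nat_lit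 178) (nat_lit 1) (nat_lit 180) (nat_lit 1) (nat_lit 411) (nat_lit 343) (nat_lit 266))))) (XT.nd (nat_lit 156) (nat_lit 380) (nat_lit 0) (XT.nd (nat_lit 78) (nat_lit 0) (nat_lit 0) (XT.lf (nat_lit 304) (nat_lit 1443896470) (nat_lit 0) (nat_lit 120371455) (nat_lit 228) (nat_lit 120371455) (nat_lit 178) (nat_lit 1) (nat_lit 174) (nat_lit 1) (nat_lit 177) (nat_lit 1) (nat_lit 412) (nat_lit 343) (nat_lit 265)) (XT.lf (nat_lit 76) (nat_lit 485955080) (nat_lit 0) (nat_lit 694644604) (nat_lit 304) (nat_lit 485955080) (nat_lit 175) (nat_lit 1) (nat_lit 174) (nat_lit 1) (nat_lit 178) (nat_lit 1) (nat_lit 413) (nat_lit 343) (nat_lit 264))) (XT.nd (nat_lit 78) (nat_lit 228) (nat_lit 0) (XT.lf (nat_lit 228) (nat_lit 506860782) (nat_lit 0) (nat_lit 570968872) (nat_lit 152) (nat_lit 570968872) (nat_lit 175) (nat_lit 1) (nat_lit 172) (nat_lit 1) (nat_lit 174) (nat_lit 1) (nat_lit 414) (nat_lit 343) (nat_lit 263)) (XT.nd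 (nat_lit 78) (nat_lit 228) (nat_lit 0) (XT.lf (nat_lit 76) (nat_lit 25169054) (nat_lit 0) (nat_lit 1581075185) (nat_lit 228) (nat_lit 25169054) (nat_lit 173) (nat_lit 1) (nat_lit 172) (nat_lit 1) (nat_lit 175) (nat_lit 1) (nat_lit 415) (nat_lit 343) (nat_lit 262)) (XT.lf (nat_lit 76) (nat_lit 606772893) (nat_lit 0) (nat_lit 400419393) (nat_lit 228) (nat_lit 606772893) (nat_lit 170) (nat_lit 1) (nat_lit 169) (nat_lit 1) (nat_lit 172) (nat_lit 1) (nat_lit 416) (nat_lit 343) (nat_lit 261))))))))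
noncomputable def ec69 : XT := (XT.nd (nat_lit 1482) (nat_lit 304) (nat_lit 0) (XT.nd (nat_lit 702) (nat_lit 988) (nat_lit 0) (XT.nd (nat_lit 312) (nat_lit 532) (nat_lit 0) (XT.nd (nat_lit 156) (nat_lit 380) (nat_lit 0) (XT.nd (nat_lit 78) (nat_lit 0) (nat_lit 0) (XT.lf (nat_lit 228) (nat_lit 755502352) (nat_lit 0) (nat_lit 420690120) (nat_lit 152) (nat_lit 420690120) (nat_lit 170) (nat_lit 1) (nat_lit 167) (nat_lit 1) (nat_lit 169) (nat_lit 1) (nat_lit 417) (nat_lit 343) (nat_lit 260)) (XT.lf (nat_lit 76) (nat_lit 151659883) (nat_lit 0) (nat_lit 1276759918) (nat_lit 228) (nat_lit 151659883) (nat_lit 168) (nat_lit 1) (nat_lit 167) (nat_lit 1) (nat_lit 170) (nat_lit 1) (nat_lit 418) (nat_lit 343) (nat_lit 259))) (XT.nd (nat_lit 78) (nat_lit 152) (nat_lit 0) (XT.lf (nat_lit 76) (nat_lit 709020631) (nat_lit 0) (nat_lit 145317599) (nat_lit 228) (nat_lit 709020631) (nat_lit 165) (nat_lit 1) (nat_lit 164)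 (nat_lit 1) (nat_lit 167) (nat_lit 1) (nat_lit 419) (nat_lit 343) (nat_lit 258)) (XT.lf (nat_lit 228) (nat_lit 967528919) (nat_lit 0) (nat_lit 289691967) (nat_lit 152) (nat_lit 289691967) (nat_lit 165) (nat_lit 1) (nat_lit 162) (nat_lit 1) (nat_lit 164) (nat_lit 1) (nat_lit 420) (nat_lit 343) (nat_lit 257)))) (XT.nd (nat_lit 156) (nat_lit 380) (nat_lit 0) (XT.nd (nat_lit 78) (nat_lit 152) (nat_lit 0) (XT.lf (nat_lit 76) (nat_lit 260279400) (nat_lit 0) (nat_lit 1010108042) (nat_lit 228) (nat_lit 260279400) (nat_lit 163) (nat_lit 1) (nat_lit 162) (nat_lit 1) (nat_lit 165) (nat_lit 1) (nat_lit 421) (nat_lit 343) (nat_lit 256)) (XT.lf (nat_lit 228) (nat_lit 76704208) (nat_lit 0) (nat_lit 718950684) (nat_lit 152) (nat_lit 718950684) (nat_lit 163) (nat_lit 1) (nat_lit 160) (nat_lit 1) (nat_lit 162) (nat_lit 1) (nat_lit 422) (nat_lit 343) (nat_lit 255))) (XT.nd (nat_lit 78) (nat_lit 152) (nat_lit 0) (XT.lf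 (nat_lit 228) (nat_lit 1147282414) (nat_lit 0) (nat_lit 175750905) (nat_lit 152) (nat_lit 175750905) (nat_lit 160) (nat_lit 1) (nat_lit 157) (nat_lit 1) (nat_lit 159) (nat_lit 1) (nat_lit 423) (nat_lit 343) (nat_lit 254)) (XT.nd (nat_lit 78) (nat_lit 152) (nat_lit 0) (XT.lf (nat_lit 76) (nat_lit 353130175) (nat_lit 0) (nat_lit 776811011) (nat_lit 228) (nat_lit 353130175) (nat_lit 158) (nat_lit 1) (nat_lit 157) (nat_lit 1) (nat_lit 160) (nat_lit 1) (nat_lit 424) (nat_lit 343) (nat_lit 253)) (XT.lf (nat_lit 228) (nat_lit 270467794) (nat_lit 0) (nat_lit 598563270) (nat_lit 152) (nat_lit 598563270) (nat_lit 158) (nat_lit 1) (nat_lit 155) (nat_lit 1) (nat_lit 157) (nat_lit 1) (nat_lit 425) (nat_lit 343) (nat_lit 252)))))) (XT.nd (nat_lit 390) (nat_lit 456) (nat_lit 0) (XT.nd (nat_lit 156) (nat_lit 304) (nat_lit 0) (XT.nd (nat_lit 78) (nat_lit 0) (nat_lit 0) (XT.lf (nat_lit 228) (nat_lit 1298613041) (nat_lit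 0) (nat_lit 76893514) (nat_lit 152) (nat_lit 76893514) (nat_lit 155) (nat_lit 1) (nat_lit 152) (nat_lit 1) (nat_lit 154) (nat_lit 1) (nat_lit 426) (nat_lit 343) (nat_lit 251)) (XT.lf (nat_lit 76) (nat_lit 432077119) (nat_lit 0) (nat_lit 573043900) (nat_lit 228) (nat_lit 432077119) (nat_lit 153) (nat_lit 1) (nat_lit 152) (nat_lit 1) (nat_lit 155) (nat_lit 1) (nat_lit 427) (nat_lit 343) (nat_lit 250))) (XT.nd (nat_lit 78) (nat_lit 152) (nat_lit 0) (XT.lf (nat_lit 228) (nat_lit 436731499) (nat_lit 0) (nat_lit 492771925) (nat_lit 152) (nat_lit 492771925) (nat_lit 153) (nat_lit 1) (nat_lit 150) (nat_lit 1) (nat_lit 152) (nat_lit 1) (nat_lit 428) (nat_lit 343) (nat_lit 249)) (XT.nd (nat_lit 78) (nat_lit 152) (nat_lit 0) (XT.lf (nat_lit 76) (nat_lit 8716945) (nat_lit 0) (nat_lit 1390227370) (nat_lit 228) (nat_lit 8716945) (nat_lit 151) (nat_lit 1) (nat_lit 150) (nat_lit 1) (nat_lit 153) (nat_lit 1) (nat_lit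 429) (nat_lit 343) (nat_lit 248)) (XT.lf (nat_lit 76) (nat_lit 498774082) (nat_lit 0) (nat_lit 395411382) (nat_lit 152) (nat_lit 498774082) (nat_lit 149) (nat_lit 1) (nat_lit 148) (nat_lit 1) (nat_lit 150) (nat_lit 1) (nat_lit 430) (nat_lit 343) (nat_lit 247))))) (XT.nd (nat_lit 156) (nat_lit 304) (nat_lit 0) (XT.nd (nat_lit 78) (nat_lit 0) (nat_lit 0) (XT.lf (nat_lit 228) (nat_lit 578733550) (nat_lit 0) (nat_lit 399914883) (nat_lit 152) (nat_lit 399914883) (nat_lit 149) (nat_lit 1) (nat_lit 146) (nat_lit 1) (nat_lit 148) (nat_lit 1) (nat_lit 431) (nat_lit 343) (nat_lit 246)) (XT.lf (nat_lit 76) (nat_lit 83193692) (nat_lit 0) (nat_lit 1198032116) (nat_lit 228) (nat_lit 83193692) (nat_lit 147) (nat_lit 1) (nat_lit 146) (nat_lit 1) (nat_lit 149) (nat_lit 1) (nat_lit 432) (nat_lit 343) (nat_lit 245))) (XT.nd (nat_lit 78) (nat_lit 152) (nat_lit 0) (XT.lf (nat_lit 76) (nat_lit 554687475) (nat_lit 0) (nat_lit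 240899735) (nat_lit 152) (nat_lit 554687475) (nat_lit 145) (nat_lit 1) (nat_lit 144) (nat_lit 1) (nat_lit 146) (nat_lit 1) (nat_lit 433) (nat_lit 343) (nat_lit 244)) (XT.nd (nat_lit 78) (nat_lit 0) (nat_lit 0) (XT.lf (nat_lit 228) (nat_lit 699346069) (nat_lit 0) (nat_lit 318516679) (nat_lit 152) (nat_lit 318516679) (nat_lit 145) (nat_lit 1) (nat_lit 142) (nat_lit 1) (nat_lit 144) (nat_lit 1) (nat_lit 434) (nat_lit 343) (nat_lit 243)) (XT.lf (nat_lit 76) (nat_lit 147167778) (nat_lit 0) (nat_lit 1028351653) (nat_lit 228) (nat_lit 147167778) (nat_lit 143) (nat_lit 1) (nat_lit 142) (nat_lit 1) (nat_lit 145) (nat_lit 1) (nat_lit 435) (nat_lit 343) (nat_lit 242))))))) (XT.nd (nat_lit 45552) (nat_lit 0) (nat_lit 17100) (XT.nd (nat_lit 45162) (nat_lit 0) (nat_lit 18012) (XT.nd (nat_lit 45006) (nat_lit 0) (nat_lit 17936) (XT.nd (nat_lit 78) (nat_lit 152) (nat_lit 0) (XT.lf (nat_lit 76) (nat_lit 601117262) (nat_lit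 0) (nat_lit 106834201) (nat_lit 152) (nat_lit 601117262) (nat_lit 141) (nat_lit 1) (nat_lit 140) (nat_lit 1) (nat_lit 142) (nat_lit 1) (nat_lit 436) (nat_lit 343) (nat_lit 241)) (XT.lf (nat_lit 228) (nat_lit 801116046) (nat_lit 0) (nat_lit 247267347) (nat_lit 152) (nat_lit 247267347) (nat_lit 141) (nat_lit 1) (nat_lit 138) (nat_lit 1) (nat_lit 140) (nat_lit 1) (nat_lit 437) (nat_lit 343) (nat_lit 240))) (XT.nd (nat_lit 78) (nat_lit 0) (nat_lit 0) (XT.lf (nat_lit 1292) (nat_lit 419772105) (nat_lit 0) (nat_lit 1444211267) (nat_lit 1292) (nat_lit 419772105) (nat_lit 391) (nat_lit 1) (nat_lit 374) (nat_lit 0) (nat_lit 391) (nat_lit 0) (nat_lit 332) (nat_lit 344) (nat_lit 344)) (XT.lf (nat_lit 1292) (nat_lit 1640476745) (nat_lit 76) (nat_lit 1430052333) (nat_lit 0) (nat_lit 1430052333) (nat_lit 391) (nat_lit 1) (nat_lit 375) (nat_lit 1) (nat_lit 374) (nat_lit 0) (nat_lit 333) (nat_lit 344) (nat_lit 343))))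 (XT.nd (nat_lit 156) (nat_lit 0) (nat_lit 76) (XT.nd (nat_lit 78) (nat_lit 0) (nat_lit 0) (XT.lf (nat_lit 1292) (nat_lit 793373667) (nat_lit 0) (nat_lit 2848380857) (nat_lit 1216) (nat_lit 793373667) (nat_lit 392) (nat_lit 1) (nat_lit 375) (nat_lit 1) (nat_lit 391) (nat_lit 1) (nat_lit 334) (nat_lit 344) (nat_lit 342)) (XT.lf (nat_lit 1292) (nat_lit 1506657557) (nat_lit 76) (nat_lit 1432055231) (nat_lit 0) (nat_lit 1432055231) (nat_lit 392) (nat_lit 1) (nat_lit 376) (nat_lit 1) (nat_lit 375) (nat_lit 1) (nat_lit 335) (nat_lit 344) (nat_lit 341))) (XT.nd (nat_lit 78) (nat_lit 0) (nat_lit 0) (XT.lf (nat_lit 1292) (nat_lit 706991544) (nat_lit 0) (nat_lit 2893864837) (nat_lit 1216) (nat_lit 706991544) (nat_lit 393) (nat_lit 1) (nat_lit 376) (nat_lit 1) (nat_lit 392) (nat_lit 1) (nat_lit 336) (nat_lit 344) (nat_lit 340)) (XT.nd (nat_lit 78) (nat_lit 0) (nat_lit 76) (XT.lf (nat_lit 1292) (nat_lit 1295636654)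 (nat_lit 76) (nat_lit 1475148728) (nat_lit 0) (nat_lit 1475148728) (nat_lit 393) (nat_lit 1) (nat_lit 377) (nat_lit 1) (nat_lit 376) (nat_lit 1) (nat_lit 337) (nat_lit 344) (nat_lit 339)) (XT.lf (nat_lit 1292) (nat_lit 583954558) (nat_lit 0) (nat_lit 3017540861) (nat_lit 1216) (nat_lit 583954558) (nat_lit 394) (nat_lit 1) (nat_lit 377) (nat_lit 1) (nat_lit 393) (nat_lit 1) (nat_lit 338) (nat_lit 344) (nat_lit 338)))))) (XT.nd (nat_lit 390) (nat_lit 1064) (nat_lit 0) (XT.nd (nat_lit 156) (nat_lit 0) (nat_lit 76) (XT.nd (nat_lit 78) (nat_lit 0) (nat_lit 76) (XT.lf (nat_lit 1292) (nat_lit 1014318064) (nat_lit 76) (nat_lit 1555773895) (nat_lit 0) (nat_lit 1555773895) (nat_lit 394) (nat_lit 1) (nat_lit 378) (nat_lit 1) (nat_lit 377) (nat_lit 1) (nat_lit 339) (nat_lit 344) (nat_lit 337)) (XT.lf (nat_lit 1292) (nat_lit 427578892) (nat_lit 0) (nat_lit 3212566901) (nat_lit 1216) (nat_lit 427578892) (nat_lit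 395) (nat_lit 1) (nat_lit 378) (nat_lit 1) (nat_lit 394) (nat_lit 1) (nat_lit 340) (nat_lit 344) (nat_lit 336))) (XT.nd (nat_lit 78) (nat_lit 0) (nat_lit 76) (XT.lf (nat_lit 1292) (nat_lit 669137488) (nat_lit 76) (nat_lit 1670611054) (nat_lit 0) (nat_lit 1670611054) (nat_lit 395) (nat_lit 1) (nat_lit 379) (nat_lit 1) (nat_lit 378) (nat_lit 1) (nat_lit 341) (nat_lit 344) (nat_lit 335)) (XT.nd (nat_lit 78) (nat_lit 0) (nat_lit 0) (XT.lf (nat_lit 1292) (nat_lit 240955067) (nat_lit 0) (nat_lit 3472562235) (nat_lit 1216) (nat_lit 240955067) (nat_lit 396) (nat_lit 1) (nat_lit 379) (nat_lit 1) (nat_lit 395) (nat_lit 1) (nat_lit 342) (nat_lit 344) (nat_lit 334)) (XT.lf (nat_lit 1292) (nat_lit 266091277) (nat_lit 76) (nat_lit 1816565028) (nat_lit 0) (nat_lit 1816565028) (nat_lit 396) (nat_lit 1) (nat_lit 380) (nat_lit 1) (nat_lit 379) (nat_lit 1) (nat_lit 343) (nat_lit 344) (nat_lit 333))))) (XT.nd (nat_lit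 156) (nat_lit 0) (nat_lit 0) (XT.nd (nat_lit 78) (nat_lit 1292) (nat_lit 0) (XT.lf (nat_lit 1292) (nat_lit 26961919) (nat_lit 0) (nat_lit 3791578976) (nat_lit 1216) (nat_lit 26961919) (nat_lit 397) (nat_lit 1) (nat_lit 380) (nat_lit 1) (nat_lit 396) (nat_lit 1) (nat_lit 344) (nat_lit 344) (nat_lit 332)) (XT.lf (nat_lit 1368) (nat_lit 1803334012) (nat_lit 0) (nat_lit 185543626) (nat_lit 1292) (nat_lit 1803334012) (nat_lit 381) (nat_lit 1) (nat_lit 363) (nat_lit 1) (nat_lit 380) (nat_lit 1) (nat_lit 345) (nat_lit 344) (nat_lit 331))) (XT.nd (nat_lit 78) (nat_lit 0) (nat_lit 76) (XT.lf (nat_lit 1368) (nat_lit 3321100211) (nat_lit 76) (nat_lit 209644558) (nat_lit 0) (nat_lit 209644558) (nat_lit 381) (nat_lit 1) (nat_lit 364) (nat_lit 1) (nat_lit 363) (nat_lit 1) (nat_lit 346) (nat_lit 344) (nat_lit 330)) (XT.nd (nat_lit 78) (nat_lit 0) (nat_lit 0) (XT.lf (nat_lit 1368) (nat_lit 1505483863) (nat_lit 0) (nat_lit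 678150933) (nat_lit 1292) (nat_lit 1505483863) (nat_lit 382) (nat_lit 1) (nat_lit 364) (nat_lit 1) (nat_lit 381) (nat_lit 1) (nat_lit 347) (nat_lit 344) (nat_lit 329)) (XT.lf (nat_lit 1368) (nat_lit 2703219689) (nat_lit 76) (nat_lit 467963988) (nat_lit 0) (nat_lit 467963988) (nat_lit 382) (nat_lit 1) (nat_lit 365) (nat_lit 1) (nat_lit 364) (nat_lit 1) (nat_lit 348) (nat_lit 344) (nat_lit 328))))))))
noncomputable def ec70 : XT := (XT.nd (nat_lit 1482) (nat_lit 4712) (nat_lit 0) (XT.nd (nat_lit 702) (nat_lit 2584) (nat_lit 0) (XT.nd (nat_lit 312) (nat_lit 1824) (nat_lit 0) (XT.nd (nat_lit 156) (nat_lit 608) (nat_lit 0) (XT.nd (nat_lit 78) (nat_lit 836) (nat_lit 0) (XT.lf (nat_lit 76) (nat_lit 1188835317) (nat_lit 0) (nat_lit 1212181953) (nat_lit 1292) (nat_lit 1188835317) (nat_lit 366) (nat_lit 1) (nat_lit 365) (nat_lit 1) (nat_lit 382) (nat_lit 1) (nat_lit 349) (nat_lit 344) (nat_lit 327)) (XT.lf (nat_lit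 912) (nat_lit 2049719454) (nat_lit 0) (nat_lit 745963847) (nat_lit 836) (nat_lit 745963847) (nat_lit 366) (nat_lit 1) (nat_lit 354) (nat_lit 1) (nat_lit 365) (nat_lit 1) (nat_lit 350) (nat_lit 344) (nat_lit 326))) (XT.nd (nat_lit 78) (nat_lit 608) (nat_lit 0) (XT.lf (nat_lit 76) (nat_lit 855512999) (nat_lit 0) (nat_lit 1783228657) (nat_lit 912) (nat_lit 855512999) (nat_lit 355) (nat_lit 1) (nat_lit 354) (nat_lit 1) (nat_lit 366) (nat_lit 1) (nat_lit 351) (nat_lit 344) (nat_lit 325)) (XT.lf (nat_lit 684) (nat_lit 1364714766) (nat_lit 0) (nat_lit 1041509279) (nat_lit 608) (nat_lit 1041509279) (nat_lit 355) (nat_lit 1) (nat_lit 346) (nat_lit 1) (nat_lit 354) (nat_lit 1) (nat_lit 352) (nat_lit 344) (nat_lit 324)))) (XT.nd (nat_lit 156) (nat_lit 1216) (nat_lit 0) (XT.nd (nat_lit 78) (nat_lit 608) (nat_lit 0) (XT.lf (nat_lit 76) (nat_lit 507489121) (nat_lit 0) (nat_lit 2387195187) (nat_lit 684) (nat_lit 507489121)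 (nat_lit 347) (nat_lit 1) (nat_lit 346) (nat_lit 1) (nat_lit 355) (nat_lit 1) (nat_lit 353) (nat_lit 344) (nat_lit 323)) (XT.lf (nat_lit 684) (nat_lit 652024344) (nat_lit 0) (nat_lit 1352617255) (nat_lit 608) (nat_lit 1352617255) (nat_lit 347) (nat_lit 1) (nat_lit 338) (nat_lit 1) (nat_lit 346) (nat_lit 1) (nat_lit 354) (nat_lit 344) (nat_lit 322))) (XT.nd (nat_lit 78) (nat_lit 1216) (nat_lit 0) (XT.lf (nat_lit 76) (nat_lit 146593116) (nat_lit 0) (nat_lit 3020278210) (nat_lit 684) (nat_lit 146593116) (nat_lit 339) (nat_lit 1) (nat_lit 338) (nat_lit 1) (nat_lit 347) (nat_lit 1) (nat_lit 355) (nat_lit 344) (nat_lit 321)) (XT.nd (nat_lit 78) (nat_lit 608) (nat_lit 0) (XT.lf (nat_lit 76) (nat_lit 1593451402) (nat_lit 0) (nat_lit 83155889) (nat_lit 608) (nat_lit 1593451402) (nat_lit 331) (nat_lit 1) (nat_lit 330) (nat_lit 1) (nat_lit 338) (nat_lit 1) (nat_lit 356) (nat_lit 344) (nat_lit 320)) (XT.lf (nat_lit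 684) (nat_lit 2781191001) (nat_lit 0) (nat_lit 223268721) (nat_lit 608) (nat_lit 223268721) (nat_lit 331) (nat_lit 1) (nat_lit 322) (nat_lit 1) (nat_lit 330) (nat_lit 1) (nat_lit 357) (nat_lit 344) (nat_lit 319)))))) (XT.nd (nat_lit 390) (nat_lit 1520) (nat_lit 0) (XT.nd (nat_lit 156) (nat_lit 532) (nat_lit 0) (XT.nd (nat_lit 78) (nat_lit 532) (nat_lit 0) (XT.lf (nat_lit 76) (nat_lit 1179879750) (nat_lit 0) (nat_lit 826069578) (nat_lit 684) (nat_lit 1179879750) (nat_lit 323) (nat_lit 1) (nat_lit 322) (nat_lit 1) (nat_lit 331) (nat_lit 1) (nat_lit 358) (nat_lit 344) (nat_lit 318)) (XT.lf (nat_lit 608) (nat_lit 1942503984) (nat_lit 0) (nat_lit 601205107) (nat_lit 532) (nat_lit 601205107) (nat_lit 323) (nat_lit 1) (nat_lit 315) (nat_lit 1) (nat_lit 322) (nat_lit 1) (nat_lit 359) (nat_lit 344) (nat_lit 317))) (XT.nd (nat_lit 78) (nat_lit 532) (nat_lit 0) (XT.lf (nat_lit 76) (nat_lit 759084413) (nat_lit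 0) (nat_lit 1586462010) (nat_lit 608) (nat_lit 759084413) (nat_lit 316) (nat_lit 1) (nat_lit 315) (nat_lit 1) (nat_lit 323) (nat_lit 1) (nat_lit 360) (nat_lit 344) (nat_lit 316)) (XT.nd (nat_lit 78) (nat_lit 0) (nat_lit 0) (XT.lf (nat_lit 608) (nat_lit 1090639398) (nat_lit 0) (nat_lit 987214182) (nat_lit 532) (nat_lit 987214182) (nat_lit 316) (nat_lit 1) (nat_lit 308) (nat_lit 1) (nat_lit 315) (nat_lit 1) (nat_lit 361) (nat_lit 344) (nat_lit 315)) (XT.lf (nat_lit 76) (nat_lit 332381936) (nat_lit 0) (nat_lit 2361578621) (nat_lit 608) (nat_lit 332381936) (nat_lit 309) (nat_lit 1) (nat_lit 308) (nat_lit 1) (nat_lit 316) (nat_lit 1) (nat_lit 362) (nat_lit 344) (nat_lit 314))))) (XT.nd (nat_lit 156) (nat_lit 456) (nat_lit 0) (XT.nd (nat_lit 78) (nat_lit 608) (nat_lit 0) (XT.lf (nat_lit 532) (nat_lit 228139757) (nat_lit 0) (nat_lit 1379965518) (nat_lit 456) (nat_lit 1379965518) (nat_lit 309) (nat_lit 1) (nat_lit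 302) (nat_lit 1) (nat_lit 308) (nat_lit 1) (nat_lit 363) (nat_lit 344) (nat_lit 313)) (XT.lf (nat_lit 608) (nat_lit 2754648693) (nat_lit 0) (nat_lit 98042264) (nat_lit 532) (nat_lit 98042264) (nat_lit 302) (nat_lit 1) (nat_lit 294) (nat_lit 1) (nat_lit 301) (nat_lit 1) (nat_lit 364) (nat_lit 344) (nat_lit 312))) (XT.nd (nat_lit 78) (nat_lit 456) (nat_lit 0) (XT.lf (nat_lit 76) (nat_lit 1141757462) (nat_lit 0) (nat_lit 630109974) (nat_lit 608) (nat_lit 1141757462) (nat_lit 295) (nat_lit 1) (nat_lit 294) (nat_lit 1) (nat_lit 302) (nat_lit 1) (nat_lit 365) (nat_lit 344) (nat_lit 311)) (XT.nd (nat_lit 78) (nat_lit 0) (nat_lit 0) (XT.lf (nat_lit 532) (nat_lit 1819925950) (nat_lit 0) (nat_lit 528745760) (nat_lit 456) (nat_lit 528745760) (nat_lit 295) (nat_lit 1) (nat_lit 288) (nat_lit 1) (nat_lit 294) (nat_lit 1) (nat_lit 366) (nat_lit 344) (nat_lit 310)) (XT.lf (nat_lit 76) (nat_lit 675910249) (nat_lit 0)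 (nat_lit 1489919304) (nat_lit 532) (nat_lit 675910249) (nat_lit 289) (nat_lit 1) (nat_lit 288) (nat_lit 1) (nat_lit 295) (nat_lit 1) (nat_lit 367) (nat_lit 344) (nat_lit 309))))))) (XT.nd (nat_lit 702) (nat_lit 2128) (nat_lit 0) (XT.nd (nat_lit 312) (nat_lit 1216) (nat_lit 0) (XT.nd (nat_lit 156) (nat_lit 912) (nat_lit 0) (XT.nd (nat_lit 78) (nat_lit 0) (nat_lit 0) (XT.lf (nat_lit 532) (nat_lit 882742134) (nat_lit 0) (nat_lit 961966853) (nat_lit 456) (nat_lit 961966853) (nat_lit 289) (nat_lit 1) (nat_lit 282) (nat_lit 1) (nat_lit 288) (nat_lit 1) (nat_lit 368) (nat_lit 344) (nat_lit 308)) (XT.lf (nat_lit 76) (nat_lit 209293112) (nat_lit 0) (nat_lit 2353792369) (nat_lit 532) (nat_lit 209293112) (nat_lit 283) (nat_lit 1) (nat_lit 282) (nat_lit 1) (nat_lit 289) (nat_lit 1) (nat_lit 369) (nat_lit 344) (nat_lit 307))) (XT.nd (nat_lit 78) (nat_lit 456) (nat_lit 0) (XT.lf (nat_lit 76) (nat_lit 1342170511)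 (nat_lit 0) (nat_lit 54051249) (nat_lit 456) (nat_lit 1342170511) (nat_lit 277) (nat_lit 1) (nat_lit 276) (nat_lit 1) (nat_lit 282) (nat_lit 1) (nat_lit 370) (nat_lit 344) (nat_lit 306)) (XT.lf (nat_lit 532) (nat_lit 2195692030) (nat_lit 0) (nat_lit 254726402) (nat_lit 456) (nat_lit 254726402) (nat_lit 277) (nat_lit 1) (nat_lit 270) (nat_lit 1) (nat_lit 276) (nat_lit 1) (nat_lit 371) (nat_lit 344) (nat_lit 305)))) (XT.nd (nat_lit 156) (nat_lit 836) (nat_lit 0) (XT.nd (nat_lit 78) (nat_lit 380) (nat_lit 0) (XT.lf (nat_lit 76) (nat_lit 849768003) (nat_lit 0) (nat_lit 972696573) (nat_lit 532) (nat_lit 849768003) (nat_lit 271) (nat_lit 1) (nat_lit 270) (nat_lit 1) (nat_lit 277) (nat_lit 1) (nat_lit 372) (nat_lit 344) (nat_lit 304)) (XT.lf (nat_lit 456) (nat_lit 1208294888) (nat_lit 0) (nat_lit 715853145) (nat_lit 380) (nat_lit 715853145) (nat_lit 271) (nat_lit 1) (nat_lit 265) (nat_lit 1) (nat_lit 270)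 (nat_lit 1) (nat_lit 373) (nat_lit 344) (nat_lit 303))) (XT.nd (nat_lit 78) (nat_lit 836) (nat_lit 0) (XT.lf (nat_lit 76) (nat_lit 359699224) (nat_lit 0) (nat_lit 1888961662) (nat_lit 456) (nat_lit 359699224) (nat_lit 266) (nat_lit 1) (nat_lit 265) (nat_lit 1) (nat_lit 271) (nat_lit 1) (nat_lit 374) (nat_lit 344) (nat_lit 302)) (XT.nd (nat_lit 78) (nat_lit 456) (nat_lit 0) (XT.lf (nat_lit 456) (nat_lit 226222478) (nat_lit 0) (nat_lit 1175439376) (nat_lit 380) (nat_lit 1175439376) (nat_lit 266) (nat_lit 1) (nat_lit 260) (nat_lit 1) (nat_lit 265) (nat_lit 1) (nat_lit 375) (nat_lit 344) (nat_lit 301)) (XT.lf (nat_lit 456) (nat_lit 2294209205) (nat_lit 0) (nat_lit 126165322) (nat_lit 380) (nat_lit 126165322) (nat_lit 260) (nat_lit 1) (nat_lit 254) (nat_lit 1) (nat_lit 259) (nat_lit 1) (nat_lit 376) (nat_lit 344) (nat_lit 300)))))) (XT.nd (nat_lit 390) (nat_lit 988) (nat_lit 0) (XT.nd (nat_lit 156) (nat_lit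 760) (nat_lit 0) (XT.nd (nat_lit 78) (nat_lit 380) (nat_lit 0) (XT.lf (nat_lit 76) (nat_lit 890715419) (nat_lit 0) (nat_lit 734712832) (nat_lit 456) (nat_lit 890715419) (nat_lit 255) (nat_lit 1) (nat_lit 254) (nat_lit 1) (nat_lit 260) (nat_lit 1) (nat_lit 377) (nat_lit 344) (nat_lit 299)) (XT.lf (nat_lit 456) (nat_lit 1276384696) (nat_lit 0) (nat_lit 605019160) (nat_lit 380) (nat_lit 605019160) (nat_lit 255) (nat_lit 1) (nat_lit 249) (nat_lit 1) (nat_lit 254) (nat_lit 1) (nat_lit 378) (nat_lit 344) (nat_lit 298))) (XT.nd (nat_lit 78) (nat_lit 760) (nat_lit 0) (XT.lf (nat_lit 76) (nat_lit 386705582) (nat_lit 0) (nat_lit 1683788768) (nat_lit 456) (nat_lit 386705582) (nat_lit 250) (nat_lit 1) (nat_lit 249) (nat_lit 1) (nat_lit 255) (nat_lit 1) (nat_lit 379) (nat_lit 344) (nat_lit 297)) (XT.nd (nat_lit 78) (nat_lit 456) (nat_lit 0) (XT.lf (nat_lit 380) (nat_lit 268579614) (nat_lit 0) (nat_lit 1079883792)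 (nat_lit 304) (nat_lit 1079883792) (nat_lit 250) (nat_lit 1) (nat_lit 245) (nat_lit 1) (nat_lit 249) (nat_lit 1) (nat_lit 380) (nat_lit 344) (nat_lit 296)) (XT.lf (nat_lit 456) (nat_lit 2178118217) (nat_lit 0) (nat_lit 111004599) (nat_lit 380) (nat_lit 111004599) (nat_lit 245) (nat_lit 1) (nat_lit 239) (nat_lit 1) (nat_lit 244) (nat_lit 1) (nat_lit 381) (nat_lit 344) (nat_lit 295))))) (XT.nd (nat_lit 156) (nat_lit 684) (nat_lit 0) (XT.nd (nat_lit 78) (nat_lit 304) (nat_lit 0) (XT.lf (nat_lit 76) (nat_lit 828934067) (nat_lit 0) (nat_lit 714158114) (nat_lit 456) (nat_lit 828934067) (nat_lit 240) (nat_lit 1) (nat_lit 239) (nat_lit 1) (nat_lit 245) (nat_lit 1) (nat_lit 382) (nat_lit 344) (nat_lit 294)) (XT.lf (nat_lit 380) (nat_lit 1145769418) (nat_lit 0) (nat_lit 599385108) (nat_lit 304) (nat_lit 599385108) (nat_lit 240) (nat_lit 1) (nat_lit 235) (nat_lit 1) (nat_lit 239) (nat_lit 1) (nat_lit 383) (nat_lit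 344) (nat_lit 293))) (XT.nd (nat_lit 78) (nat_lit 684) (nat_lit 0) (XT.lf (nat_lit 76) (nat_lit 318620973) (nat_lit 0) (nat_lit 1680281241) (nat_lit 380) (nat_lit 318620973) (nat_lit 236) (nat_lit 1) (nat_lit 235) (nat_lit 1) (nat_lit 240) (nat_lit 1) (nat_lit 384) (nat_lit 344) (nat_lit 292)) (XT.nd (nat_lit 78) (nat_lit 380) (nat_lit 0) (XT.lf (nat_lit 380) (nat_lit 127052609) (nat_lit 0) (nat_lit 1081880606) (nat_lit 304) (nat_lit 1081880606) (nat_lit 236) (nat_lit 1) (nat_lit 231) (nat_lit 1) (nat_lit 235) (nat_lit 1) (nat_lit 385) (nat_lit 344) (nat_lit 291)) (XT.lf (nat_lit 380) (nat_lit 1898719648) (nat_lit 0) (nat_lit 182955950) (nat_lit 304) (nat_lit 182955950) (nat_lit 231) (nat_lit 1) (nat_lit 226) (nat_lit 1) (nat_lit 230) (nat_lit 1) (nat_lit 386) (nat_lit 344) (nat_lit 290))))))))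
noncomputable def ec71 : XT := (XT.nd (nat_lit 1482) (nat_lit 2584) (nat_lit 0) (XT.nd (nat_lit 702) (nat_lit 1520) (nat_lit 0) (XT.nd (nat_lit 312) (nat_lit 912) (nat_lit 0) (XT.nd (nat_lit 156) (nat_lit 304) (nat_lit 0) (XT.nd (nat_lit 78) (nat_lit 304) (nat_lit 0) (XT.lf (nat_lit 76) (nat_lit 689132956) (nat_lit 0) (nat_lit 860362834) (nat_lit 380) (nat_lit 689132956) (nat_lit 227) (nat_lit 1) (nat_lit 226) (nat_lit 1) (nat_lit 231) (nat_lit 1) (nat_lit 387) (nat_lit 344) (nat_lit 289)) (XT.lf (nat_lit 380) (nat_lit 864536093) (nat_lit 0) (nat_lit 674300768) (nat_lit 304) (nat_lit 674300768) (nat_lit 227) (nat_lit 1) (nat_lit 222) (nat_lit 1) (nat_lit 226) (nat_lit 1) (nat_lit 388) (nat_lit 344) (nat_lit 288))) (XT.nd (nat_lit 78) (nat_lit 304) (nat_lit 0) (XT.lf (nat_lit 76) (nat_lit 178604757) (nat_lit 0) (nat_lit 1830930143) (nat_lit 380) (nat_lit 178604757) (nat_lit 223) (nat_lit 1) (nat_lit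 222) (nat_lit 1) (nat_lit 227) (nat_lit 1) (nat_lit 389) (nat_lit 344) (nat_lit 287)) (XT.lf (nat_lit 76) (nat_lit 1006501577) (nat_lit 0) (nat_lit 150299598) (nat_lit 304) (nat_lit 1006501577) (nat_lit 219) (nat_lit 1) (nat_lit 218) (nat_lit 1) (nat_lit 222) (nat_lit 1) (nat_lit 390) (nat_lit 344) (nat_lit 286)))) (XT.nd (nat_lit 156) (nat_lit 608) (nat_lit 0) (XT.nd (nat_lit 78) (nat_lit 0) (nat_lit 0) (XT.lf (nat_lit 380) (nat_lit 1497887855) (nat_lit 0) (nat_lit 320528724) (nat_lit 304) (nat_lit 320528724) (nat_lit 219) (nat_lit 1) (nat_lit 214) (nat_lit 1) (nat_lit 218) (nat_lit 1) (nat_lit 391) (nat_lit 344) (nat_lit 285)) (XT.lf (nat_lit 76) (nat_lit 491472670) (nat_lit 0) (nat_lit 1131919995) (nat_lit 380) (nat_lit 491472670) (nat_lit 215) (nat_lit 1) (nat_lit 214) (nat_lit 1) (nat_lit 219) (nat_lit 1) (nat_lit 392) (nat_lit 344) (nat_lit 284))) (XT.nd (nat_lit 78) (nat_lit 380) (nat_lit 0)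 (XT.lf (nat_lit 304) (nat_lit 471903896) (nat_lit 0) (nat_lit 809629804) (nat_lit 228) (nat_lit 809629804) (nat_lit 215) (nat_lit 1) (nat_lit 211) (nat_lit 1) (nat_lit 214) (nat_lit 1) (nat_lit 393) (nat_lit 344) (nat_lit 283)) (XT.nd (nat_lit 78) (nat_lit 0) (nat_lit 0) (XT.lf (nat_lit 380) (nat_lit 2039357583) (nat_lit 0) (nat_lit 14320790) (nat_lit 304) (nat_lit 14320790) (nat_lit 211) (nat_lit 1) (nat_lit 206) (nat_lit 1) (nat_lit 210) (nat_lit 1) (nat_lit 394) (nat_lit 344) (nat_lit 282)) (XT.lf (nat_lit 76) (nat_lit 759759001) (nat_lit 0) (nat_lit 525271282) (nat_lit 380) (nat_lit 759759001) (nat_lit 207) (nat_lit 1) (nat_lit 206) (nat_lit 1) (nat_lit 211) (nat_lit 1) (nat_lit 395) (nat_lit 344) (nat_lit 281)))))) (XT.nd (nat_lit 390) (nat_lit 760) (nat_lit 0) (XT.nd (nat_lit 156) (nat_lit 532) (nat_lit 0) (XT.nd (nat_lit 78) (nat_lit 0) (nat_lit 0) (XT.lf (nat_lit 304) (nat_lit 1009669661) (nat_lit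 0) (nat_lit 506217883) (nat_lit 228) (nat_lit 506217883) (nat_lit 207) (nat_lit 1) (nat_lit 203) (nat_lit 1) (nat_lit 206) (nat_lit 1) (nat_lit 396) (nat_lit 344) (nat_lit 280)) (XT.lf (nat_lit 76) (nat_lit 252337271) (nat_lit 0) (nat_lit 1495116557) (nat_lit 304) (nat_lit 252337271) (nat_lit 204) (nat_lit 1) (nat_lit 203) (nat_lit 1) (nat_lit 207) (nat_lit 1) (nat_lit 397) (nat_lit 344) (nat_lit 279))) (XT.nd (nat_lit 78) (nat_lit 228) (nat_lit 0) (XT.lf (nat_lit 76) (nat_lit 988717487) (nat_lit 0) (nat_lit 264717) (nat_lit 304) (nat_lit 988717487) (nat_lit 200) (nat_lit 1) (nat_lit 199) (nat_lit 1) (nat_lit 203) (nat_lit 1) (nat_lit 398) (nat_lit 344) (nat_lit 278)) (XT.nd (nat_lit 78) (nat_lit 0) (nat_lit 0) (XT.lf (nat_lit 304) (nat_lit 1470271777) (nat_lit 0) (nat_lit 242847924) (nat_lit 228) (nat_lit 242847924) (nat_lit 200) (nat_lit 1) (nat_lit 196) (nat_lit 1) (nat_lit 199) (nat_lit 1) (nat_lit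 399) (nat_lit 344) (nat_lit 277)) (XT.lf (nat_lit 76) (nat_lit 481661588) (nat_lit 0) (nat_lit 971121362) (nat_lit 304) (nat_lit 481661588) (nat_lit 197) (nat_lit 1) (nat_lit 196) (nat_lit 1) (nat_lit 200) (nat_lit 1) (nat_lit 400) (nat_lit 344) (nat_lit 276))))) (XT.nd (nat_lit 156) (nat_lit 228) (nat_lit 0) (XT.nd (nat_lit 78) (nat_lit 304) (nat_lit 0) (XT.lf (nat_lit 304) (nat_lit 461619270) (nat_lit 0) (nat_lit 725825880) (nat_lit 228) (nat_lit 725825880) (nat_lit 197) (nat_lit 1) (nat_lit 193) (nat_lit 1) (nat_lit 196) (nat_lit 1) (nat_lit 401) (nat_lit 344) (nat_lit 275)) (XT.lf (nat_lit 304) (nat_lit 1862815838) (nat_lit 0) (nat_lit 14873927) (nat_lit 228) (nat_lit 14873927) (nat_lit 193) (nat_lit 1) (nat_lit 189) (nat_lit 1) (nat_lit 192) (nat_lit 1) (nat_lit 402) (nat_lit 344) (nat_lit 274))) (XT.nd (nat_lit 78) (nat_lit 228) (nat_lit 0) (XT.lf (nat_lit 76) (nat_lit 677914345) (nat_lit 0) (nat_lit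 515964350) (nat_lit 304) (nat_lit 677914345) (nat_lit 190) (nat_lit 1) (nat_lit 189) (nat_lit 1) (nat_lit 193) (nat_lit 1) (nat_lit 403) (nat_lit 344) (nat_lit 273)) (XT.nd (nat_lit 78) (nat_lit 0) (nat_lit 0) (XT.lf (nat_lit 304) (nat_lit 858549684) (nat_lit 0) (nat_lit 496465170) (nat_lit 228) (nat_lit 496465170) (nat_lit 190) (nat_lit 1) (nat_lit 186) (nat_lit 1) (nat_lit 189) (nat_lit 1) (nat_lit 404) (nat_lit 344) (nat_lit 272)) (XT.lf (nat_lit 76) (nat_lit 183627020) (nat_lit 0) (nat_lit 1464257024) (nat_lit 304) (nat_lit 183627020) (nat_lit 187) (nat_lit 1) (nat_lit 186) (nat_lit 1) (nat_lit 190) (nat_lit 1) (nat_lit 405) (nat_lit 344) (nat_lit 271))))))) (XT.nd (nat_lit 702) (nat_lit 1292) (nat_lit 0) (XT.nd (nat_lit 312) (nat_lit 684) (nat_lit 0) (XT.nd (nat_lit 156) (nat_lit 152) (nat_lit 0) (XT.nd (nat_lit 78) (nat_lit 228) (nat_lit 0) (XT.lf (nat_lit 76) (nat_lit 845001865) (nat_lit 0) (nat_lit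 121666087) (nat_lit 228) (nat_lit 845001865) (nat_lit 184) (nat_lit 1) (nat_lit 183) (nat_lit 1) (nat_lit 186) (nat_lit 1) (nat_lit 406) (nat_lit 344) (nat_lit 270)) (XT.lf (nat_lit 304) (nat_lit 1198156820) (nat_lit 0) (nat_lit 297004113) (nat_lit 228) (nat_lit 297004113) (nat_lit 184) (nat_lit 1) (nat_lit 180) (nat_lit 1) (nat_lit 183) (nat_lit 1) (nat_lit 407) (nat_lit 344) (nat_lit 269))) (XT.nd (nat_lit 78) (nat_lit 152) (nat_lit 0) (XT.lf (nat_lit 76) (nat_lit 354386303) (nat_lit 0) (nat_lit 1064110245) (nat_lit 304) (nat_lit 354386303) (nat_lit 181) (nat_lit 1) (nat_lit 180) (nat_lit 1) (nat_lit 184) (nat_lit 1) (nat_lit 408) (nat_lit 344) (nat_lit 268)) (XT.lf (nat_lit 228) (nat_lit 223209850) (nat_lit 0) (nat_lit 765324283) (nat_lit 152) (nat_lit 765324283) (nat_lit 181) (nat_lit 1) (nat_lit 178) (nat_lit 1) (nat_lit 180) (nat_lit 1) (nat_lit 409) (nat_lit 344) (nat_lit 267)))) (XT.nd (nat_lit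 156) (nat_lit 380) (nat_lit 0) (XT.nd (nat_lit 78) (nat_lit 0) (nat_lit 0) (XT.lf (nat_lit 304) (nat_lit 1487213364) (nat_lit 0) (nat_lit 123982599) (nat_lit 228) (nat_lit 123982599) (nat_lit 178) (nat_lit 1) (nat_lit 174) (nat_lit 1) (nat_lit 177) (nat_lit 1) (nat_lit 410) (nat_lit 344) (nat_lit 266)) (XT.lf (nat_lit 76) (nat_lit 500533732) (nat_lit 0) (nat_lit 715483942) (nat_lit 304) (nat_lit 500533732) (nat_lit 175) (nat_lit 1) (nat_lit 174) (nat_lit 1) (nat_lit 178) (nat_lit 1) (nat_lit 411) (nat_lit 344) (nat_lit 265))) (XT.nd (nat_lit 78) (nat_lit 228) (nat_lit 0) (XT.lf (nat_lit 228) (nat_lit 522066606) (nat_lit 0) (nat_lit 588097938) (nat_lit 152) (nat_lit 588097938) (nat_lit 175) (nat_lit 1) (nat_lit 172) (nat_lit 1) (nat_lit 174) (nat_lit 1) (nat_lit 412) (nat_lit 344) (nat_lit 264)) (XT.nd (nat_lit 78) (nat_lit 228) (nat_lit 0) (XT.lf (nat_lit 76) (nat_lit 25924126) (nat_lit 0) (nat_lit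 1628507441) (nat_lit 228) (nat_lit 25924126) (nat_lit 173) (nat_lit 1) (nat_lit 172) (nat_lit 1) (nat_lit 175) (nat_lit 1) (nat_lit 413) (nat_lit 344) (nat_lit 263)) (XT.lf (nat_lit 76) (nat_lit 624976079) (nat_lit 0) (nat_lit 412431975) (nat_lit 228) (nat_lit 624976079) (nat_lit 170) (nat_lit 1) (nat_lit 169) (nat_lit 1) (nat_lit 172) (nat_lit 1) (nat_lit 414) (nat_lit 344) (nat_lit 262)))))) (XT.nd (nat_lit 390) (nat_lit 760) (nat_lit 0) (XT.nd (nat_lit 156) (nat_lit 380) (nat_lit 0) (XT.nd (nat_lit 78) (nat_lit 0) (nat_lit 0) (XT.lf (nat_lit 228) (nat_lit 778167422) (nat_lit 0) (nat_lit 433310823) (nat_lit 152) (nat_lit 433310823) (nat_lit 170) (nat_lit 1) (nat_lit 167) (nat_lit 1) (nat_lit 169) (nat_lit 1) (nat_lit 415) (nat_lit 344) (nat_lit 261)) (XT.lf (nat_lit 76) (nat_lit 156209680) (nat_lit 0) (nat_lit 1315062715) (nat_lit 228) (nat_lit 156209680) (nat_lit 168) (nat_lit 1) (nat_lit 167) (nat_lit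 1) (nat_lit 170) (nat_lit 1) (nat_lit 416) (nat_lit 344) (nat_lit 260))) (XT.nd (nat_lit 78) (nat_lit 152) (nat_lit 0) (XT.lf (nat_lit 76) (nat_lit 730291250) (nat_lit 0) (nat_lit 149677127) (nat_lit 228) (nat_lit 730291250) (nat_lit 165) (nat_lit 1) (nat_lit 164) (nat_lit 1) (nat_lit 167) (nat_lit 1) (nat_lit 417) (nat_lit 344) (nat_lit 259)) (XT.nd (nat_lit 78) (nat_lit 0) (nat_lit 0) (XT.lf (nat_lit 228) (nat_lit 996554787) (nat_lit 0) (nat_lit 298382726) (nat_lit 152) (nat_lit 298382726) (nat_lit 165) (nat_lit 1) (nat_lit 162) (nat_lit 1) (nat_lit 164) (nat_lit 1) (nat_lit 418) (nat_lit 344) (nat_lit 258)) (XT.lf (nat_lit 76) (nat_lit 268087782) (nat_lit 0) (nat_lit 1040411283) (nat_lit 228) (nat_lit 268087782) (nat_lit 163) (nat_lit 1) (nat_lit 162) (nat_lit 1) (nat_lit 165) (nat_lit 1) (nat_lit 419) (nat_lit 344) (nat_lit 257))))) (XT.nd (nat_lit 156) (nat_lit 380) (nat_lit 0) (XT.nd (nat_lit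 78) (nat_lit 228) (nat_lit 0) (XT.lf (nat_lit 228) (nat_lit 79005334) (nat_lit 0) (nat_lit 740519205) (nat_lit 152) (nat_lit 740519205) (nat_lit 163) (nat_lit 1) (nat_lit 160) (nat_lit 1) (nat_lit 162) (nat_lit 1) (nat_lit 420) (nat_lit 344) (nat_lit 256)) (XT.lf (nat_lit 228) (nat_lit 1181700886) (nat_lit 0) (nat_lit 181023432) (nat_lit 152) (nat_lit 181023432) (nat_lit 160) (nat_lit 1) (nat_lit 157) (nat_lit 1) (nat_lit 159) (nat_lit 1) (nat_lit 421) (nat_lit 344) (nat_lit 255))) (XT.nd (nat_lit 78) (nat_lit 380) (nat_lit 0) (XT.lf (nat_lit 76) (nat_lit 363724080) (nat_lit 0) (nat_lit 800115342) (nat_lit 228) (nat_lit 363724080) (nat_lit 158) (nat_lit 1) (nat_lit 157) (nat_lit 1) (nat_lit 160) (nat_lit 1) (nat_lit 422) (nat_lit 344) (nat_lit 254)) (XT.nd (nat_lit 78) (nat_lit 228) (nat_lit 0) (XT.lf (nat_lit 228) (nat_lit 278581828) (nat_lit 0) (nat_lit 616520168) (nat_lit 152) (nat_lit 616520168)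 (nat_lit 158) (nat_lit 1) (nat_lit 155) (nat_lit 1) (nat_lit 157) (nat_lit 1) (nat_lit 423) (nat_lit 344) (nat_lit 253)) (XT.lf (nat_lit 228) (nat_lit 1337571432) (nat_lit 0) (nat_lit 79200320) (nat_lit 152) (nat_lit 79200320) (nat_lit 155) (nat_lit 1) (nat_lit 152) (nat_lit 1) (nat_lit 154) (nat_lit 1) (nat_lit 424) (nat_lit 344) (nat_lit 252))))))))
noncomputable def ec72 : XT := (XT.nd (nat_lit 46098) (nat_lit 0) (nat_lit 15276) (XT.nd (nat_lit 702) (nat_lit 380) (nat_lit 0) (XT.nd (nat_lit 312) (nat_lit 456) (nat_lit 0) (XT.nd (nat_lit 156) (nat_lit 152) (nat_lit 0) (XT.nd (nat_lit 78) (nat_lit 152) (nat_lit 0) (XT.lf (nat_lit 76) (nat_lit 445039433) (nat_lit 0) (nat_lit 590235217) (nat_lit 228) (nat_lit 445039433) (nat_lit 153) (nat_lit 1) (nat_lit 152) (nat_lit 1) (nat_lit 155) (nat_lit 1) (nat_lit 425) (nat_lit 344) (nat_lit 251)) (XT.lf (nat_lit 228) (nat_lit 449833444) (nat_lit 0) (nat_lit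 507555083) (nat_lit 152) (nat_lit 507555083) (nat_lit 153) (nat_lit 1) (nat_lit 150) (nat_lit 1) (nat_lit 152) (nat_lit 1) (nat_lit 426) (nat_lit 344) (nat_lit 250))) (XT.nd (nat_lit 78) (nat_lit 152) (nat_lit 0) (XT.lf (nat_lit 76) (nat_lit 8978454) (nat_lit 0) (nat_lit 1431934191) (nat_lit 228) (nat_lit 8978454) (nat_lit 151) (nat_lit 1) (nat_lit 150) (nat_lit 1) (nat_lit 153) (nat_lit 1) (nat_lit 427) (nat_lit 344) (nat_lit 249)) (XT.lf (nat_lit 76) (nat_lit 513737305) (nat_lit 0) (nat_lit 407273723) (nat_lit 152) (nat_lit 513737305) (nat_lit 149) (nat_lit 1) (nat_lit 148) (nat_lit 1) (nat_lit 150) (nat_lit 1) (nat_lit 428) (nat_lit 344) (nat_lit 248)))) (XT.nd (nat_lit 156) (nat_lit 304) (nat_lit 0) (XT.nd (nat_lit 78) (nat_lit 0) (nat_lit 0) (XT.lf (nat_lit 228) (nat_lit 596095557) (nat_lit 0) (nat_lit 411912329) (nat_lit 152) (nat_lit 411912329) (nat_lit 149) (nat_lit 1) (nat_lit 146) (nat_lit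 1) (nat_lit 148) (nat_lit 1) (nat_lit 429) (nat_lit 344) (nat_lit 247)) (XT.lf (nat_lit 76) (nat_lit 85689502) (nat_lit 0) (nat_lit 1233973079) (nat_lit 228) (nat_lit 85689502) (nat_lit 147) (nat_lit 1) (nat_lit 146) (nat_lit 1) (nat_lit 149) (nat_lit 1) (nat_lit 430) (nat_lit 344) (nat_lit 246))) (XT.nd (nat_lit 78) (nat_lit 152) (nat_lit 0) (XT.lf (nat_lit 76) (nat_lit 571328100) (nat_lit 0) (nat_lit 248126727) (nat_lit 152) (nat_lit 571328100) (nat_lit 145) (nat_lit 1) (nat_lit 144) (nat_lit 1) (nat_lit 146) (nat_lit 1) (nat_lit 431) (nat_lit 344) (nat_lit 245)) (XT.nd (nat_lit 78) (nat_lit 0) (nat_lit 0) (XT.lf (nat_lit 228) (nat_lit 720326451) (nat_lit 0) (nat_lit 328072180) (nat_lit 152) (nat_lit 328072180) (nat_lit 145) (nat_lit 1) (nat_lit 142) (nat_lit 1) (nat_lit 144) (nat_lit 1) (nat_lit 432) (nat_lit 344) (nat_lit 244)) (XT.lf (nat_lit 76) (nat_lit 151582811) (nat_lit 0) (nat_lit 1059202202)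 (nat_lit 228) (nat_lit 151582811) (nat_lit 143) (nat_lit 1) (nat_lit 142) (nat_lit 1) (nat_lit 145) (nat_lit 1) (nat_lit 433) (nat_lit 344) (nat_lit 243)))))) (XT.nd (nat_lit 45006) (nat_lit 0) (nat_lit 18012) (XT.nd (nat_lit 156) (nat_lit 76) (nat_lit 0) (XT.nd (nat_lit 78) (nat_lit 152) (nat_lit 0) (XT.lf (nat_lit 76) (nat_lit 619150780) (nat_lit 0) (nat_lit 110039227) (nat_lit 152) (nat_lit 619150780) (nat_lit 141) (nat_lit 1) (nat_lit 140) (nat_lit 1) (nat_lit 142) (nat_lit 1) (nat_lit 434) (nat_lit 344) (nat_lit 242)) (XT.lf (nat_lit 228) (nat_lit 825149527) (nat_lit 0) (nat_lit 254685368) (nat_lit 152) (nat_lit 254685368) (nat_lit 141) (nat_lit 1) (nat_lit 138) (nat_lit 1) (nat_lit 140) (nat_lit 1) (nat_lit 435) (nat_lit 344) (nat_lit 241))) (XT.nd (nat_lit 78) (nat_lit 76) (nat_lit 0) (XT.lf (nat_lit 76) (nat_lit 207930625) (nat_lit 0) (nat_lit 905003073) (nat_lit 228) (nat_lit 207930625) (nat_lit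 139) (nat_lit 1) (nat_lit 138) (nat_lit 1) (nat_lit 141) (nat_lit 1) (nat_lit 436) (nat_lit 344) (nat_lit 240)) (XT.lf (nat_lit 152) (nat_lit 9621414) (nat_lit 0) (nat_lit 648863146) (nat_lit 76) (nat_lit 648863146) (nat_lit 139) (nat_lit 1) (nat_lit 137) (nat_lit 1) (nat_lit 138) (nat_lit 1) (nat_lit 437) (nat_lit 344) (nat_lit 239)))) (XT.nd (nat_lit 156) (nat_lit 0) (nat_lit 76) (XT.nd (nat_lit 78) (nat_lit 0) (nat_lit 0) (XT.lf (nat_lit 1292) (nat_lit 432365269) (nat_lit 0) (nat_lit 1487537605) (nat_lit 1292) (nat_lit 432365269) (nat_lit 391) (nat_lit 1) (nat_lit 374) (nat_lit 0) (nat_lit 391) (nat_lit 0) (nat_lit 330) (nat_lit 345) (nat_lit 345)) (XT.lf (nat_lit 1292) (nat_lit 1689691048) (nat_lit 76) (nat_lit 1472953903) (nat_lit 0) (nat_lit 1472953903) (nat_lit 391) (nat_lit 1) (nat_lit 375) (nat_lit 1) (nat_lit 374) (nat_lit 0) (nat_lit 331) (nat_lit 345) (nat_lit 344))) (XT.nd (nat_lit 78)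 (nat_lit 0) (nat_lit 0) (XT.lf (nat_lit 1292) (nat_lit 817174877) (nat_lit 0) (nat_lit 2933832283) (nat_lit 1216) (nat_lit 817174877) (nat_lit 392) (nat_lit 1) (nat_lit 375) (nat_lit 1) (nat_lit 391) (nat_lit 1) (nat_lit 332) (nat_lit 345) (nat_lit 343)) (XT.nd (nat_lit 78) (nat_lit 0) (nat_lit 76) (XT.lf (nat_lit 1292) (nat_lit 1551857284) (nat_lit 76) (nat_lit 1475016888) (nat_lit 0) (nat_lit 1475016888) (nat_lit 392) (nat_lit 1) (nat_lit 376) (nat_lit 1) (nat_lit 375) (nat_lit 1) (nat_lit 333) (nat_lit 345) (nat_lit 342)) (XT.lf (nat_lit 1292) (nat_lit 728201291) (nat_lit 0) (nat_lit 2980680782) (nat_lit 1216) (nat_lit 728201291) (nat_lit 393) (nat_lit 1) (nat_lit 376) (nat_lit 1) (nat_lit 392) (nat_lit 1) (nat_lit 334) (nat_lit 345) (nat_lit 341))))))) (XT.nd (nat_lit 702) (nat_lit 1900) (nat_lit 0) (XT.nd (nat_lit 312) (nat_lit 988) (nat_lit 0) (XT.nd (nat_lit 156) (nat_lit 0) (nat_lit 76) (XT.nd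 (nat_lit 78) (nat_lit 0) (nat_lit 76) (XT.lf (nat_lit 1292) (nat_lit 1334505753) (nat_lit 76) (nat_lit 1519403190) (nat_lit 0) (nat_lit 1519403190) (nat_lit 393) (nat_lit 1) (nat_lit 377) (nat_lit 1) (nat_lit 376) (nat_lit 1) (nat_lit 335) (nat_lit 345) (nat_lit 340)) (XT.lf (nat_lit 1292) (nat_lit 601473195) (nat_lit 0) (nat_lit 3108067087) (nat_lit 1216) (nat_lit 601473195) (nat_lit 394) (nat_lit 1) (nat_lit 377) (nat_lit 1) (nat_lit 393) (nat_lit 1) (nat_lit 336) (nat_lit 345) (nat_lit 339))) (XT.nd (nat_lit 78) (nat_lit 0) (nat_lit 76) (XT.lf (nat_lit 1292) (nat_lit 1044747606) (nat_lit 76) (nat_lit 1602447112) (nat_lit 0) (nat_lit 1602447112) (nat_lit 394) (nat_lit 1) (nat_lit 378) (nat_lit 1) (nat_lit 377) (nat_lit 1) (nat_lit 337) (nat_lit 345) (nat_lit 338)) (XT.lf (nat_lit 1292) (nat_lit 440406259) (nat_lit 0) (nat_lit 3308943908) (nat_lit 1216) (nat_lit 440406259) (nat_lit 395) (nat_lit 1)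 (nat_lit 378) (nat_lit 1) (nat_lit 394) (nat_lit 1) (nat_lit 338) (nat_lit 345) (nat_lit 337)))) (XT.nd (nat_lit 156) (nat_lit 1140) (nat_lit 0) (XT.nd (nat_lit 78) (nat_lit 0) (nat_lit 76) (XT.lf (nat_lit 1292) (nat_lit 689211613) (nat_lit 76) (nat_lit 1720729385) (nat_lit 0) (nat_lit 1720729385) (nat_lit 395) (nat_lit 1) (nat_lit 379) (nat_lit 1) (nat_lit 378) (nat_lit 1) (nat_lit 339) (nat_lit 345) (nat_lit 336)) (XT.lf (nat_lit 1292) (nat_lit 248183719) (nat_lit 0) (nat_lit 3576739102) (nat_lit 1216) (nat_lit 248183719) (nat_lit 396) (nat_lit 1) (nat_lit 379) (nat_lit 1) (nat_lit 395) (nat_lit 1) (nat_lit 340) (nat_lit 345) (nat_lit 335))) (XT.nd (nat_lit 78) (nat_lit 1216) (nat_lit 0) (XT.lf (nat_lit 1292) (nat_lit 274074015) (nat_lit 76) (nat_lit 1871061978) (nat_lit 0) (nat_lit 1871061978) (nat_lit 396) (nat_lit 1) (nat_lit 380) (nat_lit 1) (nat_lit 379) (nat_lit 1) (nat_lit 341) (nat_lit 345)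 (nat_lit 334)) (XT.nd (nat_lit 78) (nat_lit 1292) (nat_lit 0) (XT.lf (nat_lit 1292) (nat_lit 27770776) (nat_lit 0) (nat_lit 3905326345) (nat_lit 1216) (nat_lit 27770776) (nat_lit 397) (nat_lit 1) (nat_lit 380) (nat_lit 1) (nat_lit 396) (nat_lit 1) (nat_lit 342) (nat_lit 345) (nat_lit 333)) (XT.lf (nat_lit 1368) (nat_lit 1857434033) (nat_lit 0) (nat_lit 191109935) (nat_lit 1292) (nat_lit 1857434033) (nat_lit 381) (nat_lit 1) (nat_lit 363) (nat_lit 1) (nat_lit 380) (nat_lit 1) (nat_lit 343) (nat_lit 345) (nat_lit 332)))))) (XT.nd (nat_lit 390) (nat_lit 1216) (nat_lit 0) (XT.nd (nat_lit 156) (nat_lit 684) (nat_lit 0) (XT.nd (nat_lit 78) (nat_lit 0) (nat_lit 76) (XT.lf (nat_lit 1368) (nat_lit 3420733218) (nat_lit 76) (nat_lit 215933895) (nat_lit 0) (nat_lit 215933895) (nat_lit 381) (nat_lit 1) (nat_lit 364) (nat_lit 1) (nat_lit 363) (nat_lit 1) (nat_lit 344) (nat_lit 345) (nat_lit 331)) (XT.lf (nat_lit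 1368) (nat_lit 1550648379) (nat_lit 0) (nat_lit 698495461) (nat_lit 1292) (nat_lit 1550648379) (nat_lit 382) (nat_lit 1) (nat_lit 364) (nat_lit 1) (nat_lit 381) (nat_lit 1) (nat_lit 345) (nat_lit 345) (nat_lit 330))) (XT.nd (nat_lit 78) (nat_lit 760) (nat_lit 0) (XT.lf (nat_lit 1368) (nat_lit 2784316279) (nat_lit 76) (nat_lit 482002908) (nat_lit 0) (nat_lit 482002908) (nat_lit 382) (nat_lit 1) (nat_lit 365) (nat_lit 1) (nat_lit 364) (nat_lit 1) (nat_lit 346) (nat_lit 345) (nat_lit 329)) (XT.nd (nat_lit 78) (nat_lit 836) (nat_lit 0) (XT.lf (nat_lit 76) (nat_lit 1224500376) (nat_lit 0) (nat_lit 1248547412) (nat_lit 1292) (nat_lit 1224500376) (nat_lit 366) (nat_lit 1) (nat_lit 365) (nat_lit 1) (nat_lit 382) (nat_lit 1) (nat_lit 347) (nat_lit 345) (nat_lit 328)) (XT.lf (nat_lit 912) (nat_lit 2111211038) (nat_lit 0) (nat_lit 768342762) (nat_lit 836) (nat_lit 768342762) (nat_lit 366) (nat_lit 1) (nat_lit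 354) (nat_lit 1) (nat_lit 365) (nat_lit 1) (nat_lit 348) (nat_lit 345) (nat_lit 327))))) (XT.nd (nat_lit 156) (nat_lit 608) (nat_lit 0) (XT.nd (nat_lit 78) (nat_lit 608) (nat_lit 0) (XT.lf (nat_lit 76) (nat_lit 881178389) (nat_lit 0) (nat_lit 1836725517) (nat_lit 912) (nat_lit 881178389) (nat_lit 355) (nat_lit 1) (nat_lit 354) (nat_lit 1) (nat_lit 366) (nat_lit 1) (nat_lit 349) (nat_lit 345) (nat_lit 326)) (XT.lf (nat_lit 684) (nat_lit 1405656209) (nat_lit 0) (nat_lit 1072754557) (nat_lit 608) (nat_lit 1072754557) (nat_lit 355) (nat_lit 1) (nat_lit 346) (nat_lit 1) (nat_lit 354) (nat_lit 1) (nat_lit 350) (nat_lit 345) (nat_lit 325))) (XT.nd (nat_lit 78) (nat_lit 608) (nat_lit 0) (XT.lf (nat_lit 76) (nat_lit 522713794) (nat_lit 0) (nat_lit 2458811042) (nat_lit 684) (nat_lit 522713794) (nat_lit 347) (nat_lit 1) (nat_lit 346) (nat_lit 1) (nat_lit 355) (nat_lit 1) (nat_lit 351) (nat_lit 345) (nat_lit 324))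 (XT.nd (nat_lit 78) (nat_lit 0) (nat_lit 0) (XT.lf (nat_lit 684) (nat_lit 671585074) (nat_lit 0) (nat_lit 1393195773) (nat_lit 608) (nat_lit 1393195773) (nat_lit 347) (nat_lit 1) (nat_lit 338) (nat_lit 1) (nat_lit 346) (nat_lit 1) (nat_lit 352) (nat_lit 345) (nat_lit 323)) (XT.lf (nat_lit 76) (nat_lit 150990909) (nat_lit 0) (nat_lit 3110886556) (nat_lit 684) (nat_lit 150990909) (nat_lit 339) (nat_lit 1) (nat_lit 338) (nat_lit 1) (nat_lit 347) (nat_lit 1) (nat_lit 353) (nat_lit 345) (nat_lit 322))))))))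
noncomputable def ec73 : XT := (XT.nd (nat_lit 1482) (nat_lit 4104) (nat_lit 0) (XT.nd (nat_lit 702) (nat_lit 2204) (nat_lit 0) (XT.nd (nat_lit 312) (nat_lit 1596) (nat_lit 0) (XT.nd (nat_lit 156) (nat_lit 532) (nat_lit 0) (XT.nd (nat_lit 78) (nat_lit 608) (nat_lit 0) (XT.lf (nat_lit 76) (nat_lit 1641254944) (nat_lit 0) (nat_lit 85650565) (nat_lit 608) (nat_lit 1641254944) (nat_lit 331) (nat_lit 1) (nat_lit 330) (nat_lit 1) (nat_lit 338) (nat_lit 1) (nat_lit 354) (nat_lit 345) (nat_lit 321)) (XT.lf (nat_lit 684) (nat_lit 2864626731) (nat_lit 0) (nat_lit 229966783) (nat_lit 608) (nat_lit 229966783) (nat_lit 331) (nat_lit 1) (nat_lit 322) (nat_lit 1) (nat_lit 330) (nat_lit 1) (nat_lit 355) (nat_lit 345) (nat_lit 320))) (XT.nd (nat_lit 78) (nat_lit 532) (nat_lit 0) (XT.lf (nat_lit 76) (nat_lit 1215276143) (nat_lit 0) (nat_lit 850851665) (nat_lit 684) (nat_lit 1215276143) (nat_lit 323) (nat_lit 1) (nat_lit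 322) (nat_lit 1) (nat_lit 331) (nat_lit 1) (nat_lit 356) (nat_lit 345) (nat_lit 319)) (XT.lf (nat_lit 608) (nat_lit 2000779103) (nat_lit 0) (nat_lit 619241260) (nat_lit 532) (nat_lit 619241260) (nat_lit 323) (nat_lit 1) (nat_lit 315) (nat_lit 1) (nat_lit 322) (nat_lit 1) (nat_lit 357) (nat_lit 345) (nat_lit 318)))) (XT.nd (nat_lit 156) (nat_lit 1064) (nat_lit 0) (XT.nd (nat_lit 78) (nat_lit 532) (nat_lit 0) (XT.lf (nat_lit 76) (nat_lit 781856946) (nat_lit 0) (nat_lit 1634055871) (nat_lit 608) (nat_lit 781856946) (nat_lit 316) (nat_lit 1) (nat_lit 315) (nat_lit 1) (nat_lit 323) (nat_lit 1) (nat_lit 358) (nat_lit 345) (nat_lit 317)) (XT.lf (nat_lit 608) (nat_lit 1123358580) (nat_lit 0) (nat_lit 1016830607) (nat_lit 532) (nat_lit 1016830607) (nat_lit 316) (nat_lit 1) (nat_lit 308) (nat_lit 1) (nat_lit 315) (nat_lit 1) (nat_lit 359) (nat_lit 345) (nat_lit 316))) (XT.nd (nat_lit 78) (nat_lit 1064) (nat_lit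 0) (XT.lf (nat_lit 76) (nat_lit 342353394) (nat_lit 0) (nat_lit 2432425980) (nat_lit 608) (nat_lit 342353394) (nat_lit 309) (nat_lit 1) (nat_lit 308) (nat_lit 1) (nat_lit 316) (nat_lit 1) (nat_lit 360) (nat_lit 345) (nat_lit 315)) (XT.nd (nat_lit 78) (nat_lit 608) (nat_lit 0) (XT.lf (nat_lit 532) (nat_lit 234983949) (nat_lit 0) (nat_lit 1421364484) (nat_lit 456) (nat_lit 1421364484) (nat_lit 309) (nat_lit 1) (nat_lit 302) (nat_lit 1) (nat_lit 308) (nat_lit 1) (nat_lit 361) (nat_lit 345) (nat_lit 314)) (XT.lf (nat_lit 608) (nat_lit 2837288154) (nat_lit 0) (nat_lit 100983532) (nat_lit 532) (nat_lit 100983532) (nat_lit 302) (nat_lit 1) (nat_lit 294) (nat_lit 1) (nat_lit 301) (nat_lit 1) (nat_lit 362) (nat_lit 345) (nat_lit 313)))))) (XT.nd (nat_lit 390) (nat_lit 1292) (nat_lit 0) (XT.nd (nat_lit 156) (nat_lit 456) (nat_lit 0) (XT.nd (nat_lit 78) (nat_lit 456) (nat_lit 0) (XT.lf (nat_lit 76) (nat_lit 1176010186)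 (nat_lit 0) (nat_lit 649013273) (nat_lit 608) (nat_lit 1176010186) (nat_lit 295) (nat_lit 1) (nat_lit 294) (nat_lit 1) (nat_lit 302) (nat_lit 1) (nat_lit 363) (nat_lit 345) (nat_lit 312)) (XT.lf (nat_lit 532) (nat_lit 1874523729) (nat_lit 0) (nat_lit 544608133) (nat_lit 456) (nat_lit 544608133) (nat_lit 295) (nat_lit 1) (nat_lit 288) (nat_lit 1) (nat_lit 294) (nat_lit 1) (nat_lit 364) (nat_lit 345) (nat_lit 311))) (XT.nd (nat_lit 78) (nat_lit 456) (nat_lit 0) (XT.lf (nat_lit 76) (nat_lit 696187556) (nat_lit 0) (nat_lit 1534616883) (nat_lit 532) (nat_lit 696187556) (nat_lit 289) (nat_lit 1) (nat_lit 288) (nat_lit 1) (nat_lit 295) (nat_lit 1) (nat_lit 365) (nat_lit 345) (nat_lit 310)) (XT.nd (nat_lit 78) (nat_lit 0) (nat_lit 0) (XT.lf (nat_lit 532) (nat_lit 909224398) (nat_lit 0) (nat_lit 990825858) (nat_lit 456) (nat_lit 990825858) (nat_lit 289) (nat_lit 1) (nat_lit 282) (nat_lit 1) (nat_lit 288) (nat_lit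 1) (nat_lit 366) (nat_lit 345) (nat_lit 309)) (XT.lf (nat_lit 76) (nat_lit 215571906) (nat_lit 0) (nat_lit 2424406141) (nat_lit 532) (nat_lit 215571906) (nat_lit 283) (nat_lit 1) (nat_lit 282) (nat_lit 1) (nat_lit 289) (nat_lit 1) (nat_lit 367) (nat_lit 345) (nat_lit 308))))) (XT.nd (nat_lit 156) (nat_lit 380) (nat_lit 0) (XT.nd (nat_lit 78) (nat_lit 456) (nat_lit 0) (XT.lf (nat_lit 76) (nat_lit 1382435627) (nat_lit 0) (nat_lit 55672786) (nat_lit 456) (nat_lit 1382435627) (nat_lit 277) (nat_lit 1) (nat_lit 276) (nat_lit 1) (nat_lit 282) (nat_lit 1) (nat_lit 368) (nat_lit 345) (nat_lit 307)) (XT.lf (nat_lit 532) (nat_lit 2261562791) (nat_lit 0) (nat_lit 262368194) (nat_lit 456) (nat_lit 262368194) (nat_lit 277) (nat_lit 1) (nat_lit 270) (nat_lit 1) (nat_lit 276) (nat_lit 1) (nat_lit 369) (nat_lit 345) (nat_lit 306))) (XT.nd (nat_lit 78) (nat_lit 380) (nat_lit 0) (XT.lf (nat_lit 76) (nat_lit 875261043)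 (nat_lit 0) (nat_lit 1001877470) (nat_lit 532) (nat_lit 875261043) (nat_lit 271) (nat_lit 1) (nat_lit 270) (nat_lit 1) (nat_lit 277) (nat_lit 1) (nat_lit 370) (nat_lit 345) (nat_lit 305)) (XT.nd (nat_lit 78) (nat_lit 0) (nat_lit 0) (XT.lf (nat_lit 456) (nat_lit 1244543735) (nat_lit 0) (nat_lit 737328739) (nat_lit 380) (nat_lit 737328739) (nat_lit 271) (nat_lit 1) (nat_lit 265) (nat_lit 1) (nat_lit 270) (nat_lit 1) (nat_lit 371) (nat_lit 345) (nat_lit 304)) (XT.lf (nat_lit 76) (nat_lit 370490201) (nat_lit 0) (nat_lit 1945630511) (nat_lit 456) (nat_lit 370490201) (nat_lit 266) (nat_lit 1) (nat_lit 265) (nat_lit 1) (nat_lit 271) (nat_lit 1) (nat_lit 372) (nat_lit 345) (nat_lit 303))))))) (XT.nd (nat_lit 702) (nat_lit 1824) (nat_lit 0) (XT.nd (nat_lit 312) (nat_lit 1064) (nat_lit 0) (XT.nd (nat_lit 156) (nat_lit 380) (nat_lit 0) (XT.nd (nat_lit 78) (nat_lit 456) (nat_lit 0) (XT.lf (nat_lit 456) (nat_lit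 233009153) (nat_lit 0) (nat_lit 1210702557) (nat_lit 380) (nat_lit 1210702557) (nat_lit 266) (nat_lit 1) (nat_lit 260) (nat_lit 1) (nat_lit 265) (nat_lit 1) (nat_lit 373) (nat_lit 345) (nat_lit 302)) (XT.lf (nat_lit 456) (nat_lit 2363035481) (nat_lit 0) (nat_lit 129950282) (nat_lit 380) (nat_lit 129950282) (nat_lit 260) (nat_lit 1) (nat_lit 254) (nat_lit 1) (nat_lit 259) (nat_lit 1) (nat_lit 374) (nat_lit 345) (nat_lit 301))) (XT.nd (nat_lit 78) (nat_lit 380) (nat_lit 0) (XT.lf (nat_lit 76) (nat_lit 917436881) (nat_lit 0) (nat_lit 756754217) (nat_lit 456) (nat_lit 917436881) (nat_lit 255) (nat_lit 1) (nat_lit 254) (nat_lit 1) (nat_lit 260) (nat_lit 1) (nat_lit 375) (nat_lit 345) (nat_lit 300)) (XT.lf (nat_lit 456) (nat_lit 1314676237) (nat_lit 0) (nat_lit 623169735) (nat_lit 380) (nat_lit 623169735) (nat_lit 255) (nat_lit 1) (nat_lit 249) (nat_lit 1) (nat_lit 254) (nat_lit 1) (nat_lit 376) (nat_lit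 345) (nat_lit 299)))) (XT.nd (nat_lit 156) (nat_lit 760) (nat_lit 0) (XT.nd (nat_lit 78) (nat_lit 304) (nat_lit 0) (XT.lf (nat_lit 76) (nat_lit 398306749) (nat_lit 0) (nat_lit 1734302431) (nat_lit 456) (nat_lit 398306749) (nat_lit 250) (nat_lit 1) (nat_lit 249) (nat_lit 1) (nat_lit 255) (nat_lit 1) (nat_lit 377) (nat_lit 345) (nat_lit 298)) (XT.lf (nat_lit 380) (nat_lit 276637002) (nat_lit 0) (nat_lit 1112280305) (nat_lit 304) (nat_lit 1112280305) (nat_lit 250) (nat_lit 1) (nat_lit 245) (nat_lit 1) (nat_lit 249) (nat_lit 1) (nat_lit 378) (nat_lit 345) (nat_lit 297))) (XT.nd (nat_lit 78) (nat_lit 304) (nat_lit 0) (XT.lf (nat_lit 456) (nat_lit 2243461764) (nat_lit 0) (nat_lit 114334737) (nat_lit 380) (nat_lit 114334737) (nat_lit 245) (nat_lit 1) (nat_lit 239) (nat_lit 1) (nat_lit 244) (nat_lit 1) (nat_lit 379) (nat_lit 345) (nat_lit 296)) (XT.nd (nat_lit 78) (nat_lit 304) (nat_lit 0) (XT.lf (nat_lit 76)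 (nat_lit 853802089) (nat_lit 0) (nat_lit 735582857) (nat_lit 456) (nat_lit 853802089) (nat_lit 240) (nat_lit 1) (nat_lit 239) (nat_lit 1) (nat_lit 245) (nat_lit 1) (nat_lit 380) (nat_lit 345) (nat_lit 295)) (XT.lf (nat_lit 380) (nat_lit 1180142501) (nat_lit 0) (nat_lit 617366662) (nat_lit 304) (nat_lit 617366662) (nat_lit 240) (nat_lit 1) (nat_lit 235) (nat_lit 1) (nat_lit 239) (nat_lit 1) (nat_lit 381) (nat_lit 345) (nat_lit 294)))))) (XT.nd (nat_lit 390) (nat_lit 836) (nat_lit 0) (XT.nd (nat_lit 156) (nat_lit 684) (nat_lit 0) (XT.nd (nat_lit 78) (nat_lit 304) (nat_lit 0) (XT.lf (nat_lit 76) (nat_lit 328179602) (nat_lit 0) (nat_lit 1730689678) (nat_lit 380) (nat_lit 328179602) (nat_lit 236) (nat_lit 1) (nat_lit 235) (nat_lit 1) (nat_lit 240) (nat_lit 1) (nat_lit 382) (nat_lit 345) (nat_lit 293)) (XT.lf (nat_lit 380) (nat_lit 130864187) (nat_lit 0) (nat_lit 1114337024) (nat_lit 304) (nat_lit 1114337024)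 (nat_lit 236) (nat_lit 1) (nat_lit 231) (nat_lit 1) (nat_lit 235) (nat_lit 1) (nat_lit 383) (nat_lit 345) (nat_lit 292))) (XT.nd (nat_lit 78) (nat_lit 304) (nat_lit 0) (XT.lf (nat_lit 380) (nat_lit 1955681237) (nat_lit 0) (nat_lit 188444629) (nat_lit 304) (nat_lit 188444629) (nat_lit 231) (nat_lit 1) (nat_lit 226) (nat_lit 1) (nat_lit 230) (nat_lit 1) (nat_lit 384) (nat_lit 345) (nat_lit 291)) (XT.nd (nat_lit 78) (nat_lit 304) (nat_lit 0) (XT.lf (nat_lit 76) (nat_lit 709806944) (nat_lit 0) (nat_lit 886173719) (nat_lit 380) (nat_lit 709806944) (nat_lit 227) (nat_lit 1) (nat_lit 226) (nat_lit 1) (nat_lit 231) (nat_lit 1) (nat_lit 385) (nat_lit 345) (nat_lit 290)) (XT.lf (nat_lit 380) (nat_lit 890472176) (nat_lit 0) (nat_lit 694529791) (nat_lit 304) (nat_lit 694529791) (nat_lit 227) (nat_lit 1) (nat_lit 222) (nat_lit 1) (nat_lit 226) (nat_lit 1) (nat_lit 386) (nat_lit 345) (nat_lit 289))))) (XT.nd (nat_lit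 156) (nat_lit 532) (nat_lit 0) (XT.nd (nat_lit 78) (nat_lit 304) (nat_lit 0) (XT.lf (nat_lit 76) (nat_lit 183962900) (nat_lit 0) (nat_lit 1885858047) (nat_lit 380) (nat_lit 183962900) (nat_lit 223) (nat_lit 1) (nat_lit 222) (nat_lit 1) (nat_lit 227) (nat_lit 1) (nat_lit 387) (nat_lit 345) (nat_lit 288)) (XT.lf (nat_lit 76) (nat_lit 1036696625) (nat_lit 0) (nat_lit 154808586) (nat_lit 304) (nat_lit 1036696625) (nat_lit 219) (nat_lit 1) (nat_lit 218) (nat_lit 1) (nat_lit 222) (nat_lit 1) (nat_lit 388) (nat_lit 345) (nat_lit 287))) (XT.nd (nat_lit 78) (nat_lit 228) (nat_lit 0) (XT.lf (nat_lit 380) (nat_lit 1542824491) (nat_lit 0) (nat_lit 330144586) (nat_lit 304) (nat_lit 330144586) (nat_lit 219) (nat_lit 1) (nat_lit 214) (nat_lit 1) (nat_lit 218) (nat_lit 1) (nat_lit 389) (nat_lit 345) (nat_lit 286)) (XT.nd (nat_lit 78) (nat_lit 228) (nat_lit 0) (XT.lf (nat_lit 76) (nat_lit 506216850) (nat_lit 0) (nat_lit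 1165877595) (nat_lit 380) (nat_lit 506216850) (nat_lit 215) (nat_lit 1) (nat_lit 214) (nat_lit 1) (nat_lit 219) (nat_lit 1) (nat_lit 390) (nat_lit 345) (nat_lit 285)) (XT.lf (nat_lit 304) (nat_lit 486061013) (nat_lit 0) (nat_lit 833918698) (nat_lit 228) (nat_lit 833918698) (nat_lit 215) (nat_lit 1) (nat_lit 211) (nat_lit 1) (nat_lit 214) (nat_lit 1) (nat_lit 391) (nat_lit 345) (nat_lit 284))))))))
noncomputable def ec74 : XT := (XT.nd (nat_lit 1482) (nat_lit 2128) (nat_lit 0) (XT.nd (nat_lit 702) (nat_lit 1292) (nat_lit 0) (XT.nd (nat_lit 312) (nat_lit 1064) (nat_lit 0) (XT.nd (nat_lit 156) (nat_lit 228) (nat_lit 0) (XT.nd (nat_lit 78) (nat_lit 0) (nat_lit 0) (XT.lf (nat_lit 380) (nat_lit 2100538311) (nat_lit 0) (nat_lit 14750414) (nat_lit 304) (nat_lit 14750414) (nat_lit 211) (nat_lit 1) (nat_lit 206) (nat_lit 1) (nat_lit 210) (nat_lit 1) (nat_lit 392) (nat_lit 345) (nat_lit 283)) (XT.lf (nat_lit 76)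 (nat_lit 782551771) (nat_lit 0) (nat_lit 541029420) (nat_lit 380) (nat_lit 782551771) (nat_lit 207) (nat_lit 1) (nat_lit 206) (nat_lit 1) (nat_lit 211) (nat_lit 1) (nat_lit 393) (nat_lit 345) (nat_lit 282))) (XT.nd (nat_lit 78) (nat_lit 0) (nat_lit 0) (XT.lf (nat_lit 304) (nat_lit 1039959751) (nat_lit 0) (nat_lit 521404419) (nat_lit 228) (nat_lit 521404419) (nat_lit 207) (nat_lit 1) (nat_lit 203) (nat_lit 1) (nat_lit 206) (nat_lit 1) (nat_lit 394) (nat_lit 345) (nat_lit 281)) (XT.lf (nat_lit 76) (nat_lit 259907389) (nat_lit 0) (nat_lit 1539970054) (nat_lit 304) (nat_lit 259907389) (nat_lit 204) (nat_lit 1) (nat_lit 203) (nat_lit 1) (nat_lit 207) (nat_lit 1) (nat_lit 395) (nat_lit 345) (nat_lit 280)))) (XT.nd (nat_lit 156) (nat_lit 532) (nat_lit 0) (XT.nd (nat_lit 78) (nat_lit 228) (nat_lit 0) (XT.lf (nat_lit 76) (nat_lit 1018379012) (nat_lit 0) (nat_lit 272659) (nat_lit 304) (nat_lit 1018379012) (nat_lit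 200) (nat_lit 1) (nat_lit 199) (nat_lit 1) (nat_lit 203) (nat_lit 1) (nat_lit 396) (nat_lit 345) (nat_lit 279)) (XT.lf (nat_lit 304) (nat_lit 1514379930) (nat_lit 0) (nat_lit 250133362) (nat_lit 228) (nat_lit 250133362) (nat_lit 200) (nat_lit 1) (nat_lit 196) (nat_lit 1) (nat_lit 199) (nat_lit 1) (nat_lit 397) (nat_lit 345) (nat_lit 278))) (XT.nd (nat_lit 78) (nat_lit 532) (nat_lit 0) (XT.lf (nat_lit 76) (nat_lit 496111435) (nat_lit 0) (nat_lit 1000255003) (nat_lit 304) (nat_lit 496111435) (nat_lit 197) (nat_lit 1) (nat_lit 196) (nat_lit 1) (nat_lit 200) (nat_lit 1) (nat_lit 398) (nat_lit 345) (nat_lit 277)) (XT.nd (nat_lit 78) (nat_lit 304) (nat_lit 0) (XT.lf (nat_lit 304) (nat_lit 475467848) (nat_lit 0) (nat_lit 747600657) (nat_lit 228) (nat_lit 747600657) (nat_lit 197) (nat_lit 1) (nat_lit 193) (nat_lit 1) (nat_lit 196) (nat_lit 1) (nat_lit 399) (nat_lit 345) (nat_lit 276)) (XT.lf (nat_lit 304) (nat_lit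 1918700314) (nat_lit 0) (nat_lit 15320145) (nat_lit 228) (nat_lit 15320145) (nat_lit 193) (nat_lit 1) (nat_lit 189) (nat_lit 1) (nat_lit 192) (nat_lit 1) (nat_lit 400) (nat_lit 345) (nat_lit 275)))))) (XT.nd (nat_lit 390) (nat_lit 608) (nat_lit 0) (XT.nd (nat_lit 156) (nat_lit 456) (nat_lit 0) (XT.nd (nat_lit 78) (nat_lit 228) (nat_lit 0) (XT.lf (nat_lit 76) (nat_lit 698251775) (nat_lit 0) (nat_lit 531443281) (nat_lit 304) (nat_lit 698251775) (nat_lit 190) (nat_lit 1) (nat_lit 189) (nat_lit 1) (nat_lit 193) (nat_lit 1) (nat_lit 401) (nat_lit 345) (nat_lit 274)) (XT.lf (nat_lit 304) (nat_lit 884306175) (nat_lit 0) (nat_lit 511359126) (nat_lit 228) (nat_lit 511359126) (nat_lit 190) (nat_lit 1) (nat_lit 186) (nat_lit 1) (nat_lit 189) (nat_lit 1) (nat_lit 402) (nat_lit 345) (nat_lit 273))) (XT.nd (nat_lit 78) (nat_lit 456) (nat_lit 0) (XT.lf (nat_lit 76) (nat_lit 189135831) (nat_lit 0) (nat_lit 1508184734)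 (nat_lit 304) (nat_lit 189135831) (nat_lit 187) (nat_lit 1) (nat_lit 186) (nat_lit 1) (nat_lit 190) (nat_lit 1) (nat_lit 403) (nat_lit 345) (nat_lit 272)) (XT.nd (nat_lit 78) (nat_lit 228) (nat_lit 0) (XT.lf (nat_lit 76) (nat_lit 870351921) (nat_lit 0) (nat_lit 125316070) (nat_lit 228) (nat_lit 870351921) (nat_lit 184) (nat_lit 1) (nat_lit 183) (nat_lit 1) (nat_lit 186) (nat_lit 1) (nat_lit 404) (nat_lit 345) (nat_lit 271)) (XT.lf (nat_lit 304) (nat_lit 1234101524) (nat_lit 0) (nat_lit 305914237) (nat_lit 228) (nat_lit 305914237) (nat_lit 184) (nat_lit 1) (nat_lit 180) (nat_lit 1) (nat_lit 183) (nat_lit 1) (nat_lit 405) (nat_lit 345) (nat_lit 270))))) (XT.nd (nat_lit 156) (nat_lit 456) (nat_lit 0) (XT.nd (nat_lit 78) (nat_lit 152) (nat_lit 0) (XT.lf (nat_lit 76) (nat_lit 365017892) (nat_lit 0) (nat_lit 1096033553) (nat_lit 304) (nat_lit 365017892) (nat_lit 181) (nat_lit 1) (nat_lit 180) (nat_lit 1)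 (nat_lit 184) (nat_lit 1) (nat_lit 406) (nat_lit 345) (nat_lit 269)) (XT.lf (nat_lit 228) (nat_lit 229906146) (nat_lit 0) (nat_lit 788284012) (nat_lit 152) (nat_lit 788284012) (nat_lit 181) (nat_lit 1) (nat_lit 178) (nat_lit 1) (nat_lit 180) (nat_lit 1) (nat_lit 407) (nat_lit 345) (nat_lit 268))) (XT.nd (nat_lit 78) (nat_lit 152) (nat_lit 0) (XT.lf (nat_lit 304) (nat_lit 1531829765) (nat_lit 0) (nat_lit 127702077) (nat_lit 228) (nat_lit 127702077) (nat_lit 178) (nat_lit 1) (nat_lit 174) (nat_lit 1) (nat_lit 177) (nat_lit 1) (nat_lit 408) (nat_lit 345) (nat_lit 267)) (XT.nd (nat_lit 78) (nat_lit 152) (nat_lit 0) (XT.lf (nat_lit 76) (nat_lit 515549744) (nat_lit 0) (nat_lit 736948461) (nat_lit 304) (nat_lit 515549744) (nat_lit 175) (nat_lit 1) (nat_lit 174) (nat_lit 1) (nat_lit 178) (nat_lit 1) (nat_lit 409) (nat_lit 345) (nat_lit 266)) (XT.lf (nat_lit 228) (nat_lit 537728604) (nat_lit 0) (nat_lit 605740876)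 (nat_lit 152) (nat_lit 605740876) (nat_lit 175) (nat_lit 1) (nat_lit 172) (nat_lit 1) (nat_lit 174) (nat_lit 1) (nat_lit 410) (nat_lit 345) (nat_lit 265))))))) (XT.nd (nat_lit 702) (nat_lit 988) (nat_lit 0) (XT.nd (nat_lit 312) (nat_lit 760) (nat_lit 0) (XT.nd (nat_lit 156) (nat_lit 152) (nat_lit 0) (XT.nd (nat_lit 78) (nat_lit 228) (nat_lit 0) (XT.lf (nat_lit 76) (nat_lit 26701850) (nat_lit 0) (nat_lit 1677362664) (nat_lit 228) (nat_lit 26701850) (nat_lit 173) (nat_lit 1) (nat_lit 172) (nat_lit 1) (nat_lit 175) (nat_lit 1) (nat_lit 411) (nat_lit 345) (nat_lit 264)) (XT.lf (nat_lit 76) (nat_lit 643725362) (nat_lit 0) (nat_lit 424804934) (nat_lit 228) (nat_lit 643725362) (nat_lit 170) (nat_lit 1) (nat_lit 169) (nat_lit 1) (nat_lit 172) (nat_lit 1) (nat_lit 412) (nat_lit 345) (nat_lit 263))) (XT.nd (nat_lit 78) (nat_lit 0) (nat_lit 0) (XT.lf (nat_lit 228) (nat_lit 801512445) (nat_lit 0) (nat_lit 446310148)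 (nat_lit 152) (nat_lit 446310148) (nat_lit 170) (nat_lit 1) (nat_lit 167) (nat_lit 1) (nat_lit 169) (nat_lit 1) (nat_lit 413) (nat_lit 345) (nat_lit 262)) (XT.lf (nat_lit 76) (nat_lit 160895970) (nat_lit 0) (nat_lit 1354514597) (nat_lit 228) (nat_lit 160895970) (nat_lit 168) (nat_lit 1) (nat_lit 167) (nat_lit 1) (nat_lit 170) (nat_lit 1) (nat_lit 414) (nat_lit 345) (nat_lit 261)))) (XT.nd (nat_lit 156) (nat_lit 380) (nat_lit 0) (XT.nd (nat_lit 78) (nat_lit 152) (nat_lit 0) (XT.lf (nat_lit 76) (nat_lit 752199988) (nat_lit 0) (nat_lit 154167441) (nat_lit 228) (nat_lit 752199988) (nat_lit 165) (nat_lit 1) (nat_lit 164) (nat_lit 1) (nat_lit 167) (nat_lit 1) (nat_lit 415) (nat_lit 345) (nat_lit 260)) (XT.lf (nat_lit 228) (nat_lit 1026451431) (nat_lit 0) (nat_lit 307334208) (nat_lit 152) (nat_lit 307334208) (nat_lit 165) (nat_lit 1) (nat_lit 162) (nat_lit 1) (nat_lit 164) (nat_lit 1) (nat_lit 416) (nat_lit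 345) (nat_lit 259))) (XT.nd (nat_lit 78) (nat_lit 380) (nat_lit 0) (XT.lf (nat_lit 76) (nat_lit 276130415) (nat_lit 0) (nat_lit 1071623622) (nat_lit 228) (nat_lit 276130415) (nat_lit 163) (nat_lit 1) (nat_lit 162) (nat_lit 1) (nat_lit 165) (nat_lit 1) (nat_lit 417) (nat_lit 345) (nat_lit 258)) (XT.nd (nat_lit 78) (nat_lit 228) (nat_lit 0) (XT.lf (nat_lit 228) (nat_lit 81375494) (nat_lit 0) (nat_lit 762734781) (nat_lit 152) (nat_lit 762734781) (nat_lit 163) (nat_lit 1) (nat_lit 160) (nat_lit 1) (nat_lit 162) (nat_lit 1) (nat_lit 418) (nat_lit 345) (nat_lit 257)) (XT.lf (nat_lit 228) (nat_lit 1217151913) (nat_lit 0) (nat_lit 186454135) (nat_lit 152) (nat_lit 186454135) (nat_lit 160) (nat_lit 1) (nat_lit 157) (nat_lit 1) (nat_lit 159) (nat_lit 1) (nat_lit 419) (nat_lit 345) (nat_lit 256)))))) (XT.nd (nat_lit 390) (nat_lit 456) (nat_lit 0) (XT.nd (nat_lit 156) (nat_lit 380) (nat_lit 0) (XT.nd (nat_lit 78)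 (nat_lit 152) (nat_lit 0) (XT.lf (nat_lit 76) (nat_lit 374635802) (nat_lit 0) (nat_lit 824118802) (nat_lit 228) (nat_lit 374635802) (nat_lit 158) (nat_lit 1) (nat_lit 157) (nat_lit 1) (nat_lit 160) (nat_lit 1) (nat_lit 420) (nat_lit 345) (nat_lit 255)) (XT.lf (nat_lit 228) (nat_lit 286939283) (nat_lit 0) (nat_lit 635015773) (nat_lit 152) (nat_lit 635015773) (nat_lit 158) (nat_lit 1) (nat_lit 155) (nat_lit 1) (nat_lit 157) (nat_lit 1) (nat_lit 421) (nat_lit 345) (nat_lit 254))) (XT.nd (nat_lit 78) (nat_lit 152) (nat_lit 0) (XT.lf (nat_lit 228) (nat_lit 1377698575) (nat_lit 0) (nat_lit 81576329) (nat_lit 152) (nat_lit 81576329) (nat_lit 155) (nat_lit 1) (nat_lit 152) (nat_lit 1) (nat_lit 154) (nat_lit 1) (nat_lit 422) (nat_lit 345) (nat_lit 253)) (XT.nd (nat_lit 78) (nat_lit 152) (nat_lit 0) (XT.lf (nat_lit 76) (nat_lit 458390616) (nat_lit 0) (nat_lit 607942274) (nat_lit 228) (nat_lit 458390616) (nat_lit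 153) (nat_lit 1) (nat_lit 152) (nat_lit 1) (nat_lit 155) (nat_lit 1) (nat_lit 423) (nat_lit 345) (nat_lit 252)) (XT.lf (nat_lit 228) (nat_lit 463328448) (nat_lit 0) (nat_lit 522781735) (nat_lit 152) (nat_lit 522781735) (nat_lit 153) (nat_lit 1) (nat_lit 150) (nat_lit 1) (nat_lit 152) (nat_lit 1) (nat_lit 424) (nat_lit 345) (nat_lit 251))))) (XT.nd (nat_lit 156) (nat_lit 304) (nat_lit 0) (XT.nd (nat_lit 78) (nat_lit 152) (nat_lit 0) (XT.lf (nat_lit 76) (nat_lit 9247808) (nat_lit 0) (nat_lit 1474892216) (nat_lit 228) (nat_lit 9247808) (nat_lit 151) (nat_lit 1) (nat_lit 150) (nat_lit 1) (nat_lit 153) (nat_lit 1) (nat_lit 425) (nat_lit 345) (nat_lit 250)) (XT.lf (nat_lit 76) (nat_lit 529149424) (nat_lit 0) (nat_lit 419491935) (nat_lit 152) (nat_lit 529149424) (nat_lit 149) (nat_lit 1) (nat_lit 148) (nat_lit 1) (nat_lit 150) (nat_lit 1) (nat_lit 426) (nat_lit 345) (nat_lit 249))) (XT.nd (nat_lit 78) (nat_lit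 152) (nat_lit 0) (XT.lf (nat_lit 228) (nat_lit 613978423) (nat_lit 0) (nat_lit 424269699) (nat_lit 152) (nat_lit 424269699) (nat_lit 149) (nat_lit 1) (nat_lit 146) (nat_lit 1) (nat_lit 148) (nat_lit 1) (nat_lit 427) (nat_lit 345) (nat_lit 248)) (XT.nd (nat_lit 78) (nat_lit 152) (nat_lit 0) (XT.lf (nat_lit 76) (nat_lit 88260187) (nat_lit 0) (nat_lit 1270992272) (nat_lit 228) (nat_lit 88260187) (nat_lit 147) (nat_lit 1) (nat_lit 146) (nat_lit 1) (nat_lit 149) (nat_lit 1) (nat_lit 428) (nat_lit 345) (nat_lit 247)) (XT.lf (nat_lit 76) (nat_lit 588467943) (nat_lit 0) (nat_lit 255570529) (nat_lit 152) (nat_lit 588467943) (nat_lit 145) (nat_lit 1) (nat_lit 144) (nat_lit 1) (nat_lit 146) (nat_lit 1) (nat_lit 429) (nat_lit 345) (nat_lit 246))))))))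
noncomputable def ec75 : XT := (XT.nd (nat_lit 46020) (nat_lit 0) (nat_lit 13224) (XT.nd (nat_lit 45240) (nat_lit 0) (nat_lit 18240) (XT.nd (nat_lit 312) (nat_lit 304) (nat_lit 0) (XT.nd (nat_lit 156) (nat_lit 304) (nat_lit 0) (XT.nd (nat_lit 78) (nat_lit 0) (nat_lit 0) (XT.lf (nat_lit 228) (nat_lit 741936244) (nat_lit 0) (nat_lit 337914345) (nat_lit 152) (nat_lit 337914345) (nat_lit 145) (nat_lit 1) (nat_lit 142) (nat_lit 1) (nat_lit 144) (nat_lit 1) (nat_lit 430) (nat_lit 345) (nat_lit 245)) (XT.lf (nat_lit 76) (nat_lit 156130296) (nat_lit 0) (nat_lit 1090978269) (nat_lit 228) (nat_lit 156130296) (nat_lit 143) (nat_lit 1) (nat_lit 142) (nat_lit 1) (nat_lit 145) (nat_lit 1) (nat_lit 431) (nat_lit 345) (nat_lit 244))) (XT.nd (nat_lit 78) (nat_lit 152) (nat_lit 0) (XT.lf (nat_lit 76) (nat_lit 637725303) (nat_lit 0) (nat_lit 113340403) (nat_lit 152) (nat_lit 637725303) (nat_lit 141) (nat_lit 1) (nat_lit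 140) (nat_lit 1) (nat_lit 142) (nat_lit 1) (nat_lit 432) (nat_lit 345) (nat_lit 243)) (XT.lf (nat_lit 228) (nat_lit 849904013) (nat_lit 0) (nat_lit 262325929) (nat_lit 152) (nat_lit 262325929) (nat_lit 141) (nat_lit 1) (nat_lit 138) (nat_lit 1) (nat_lit 140) (nat_lit 1) (nat_lit 433) (nat_lit 345) (nat_lit 242)))) (XT.nd (nat_lit 156) (nat_lit 228) (nat_lit 0) (XT.nd (nat_lit 78) (nat_lit 76) (nat_lit 0) (XT.lf (nat_lit 76) (nat_lit 214168544) (nat_lit 0) (nat_lit 932153165) (nat_lit 228) (nat_lit 214168544) (nat_lit 139) (nat_lit 1) (nat_lit 138) (nat_lit 1) (nat_lit 141) (nat_lit 1) (nat_lit 434) (nat_lit 345) (nat_lit 241)) (XT.lf (nat_lit 152) (nat_lit 9910056) (nat_lit 0) (nat_lit 668329040) (nat_lit 76) (nat_lit 668329040) (nat_lit 139) (nat_lit 1) (nat_lit 137) (nat_lit 1) (nat_lit 138) (nat_lit 1) (nat_lit 435) (nat_lit 345) (nat_lit 240))) (XT.nd (nat_lit 78) (nat_lit 0) (nat_lit 0) (XT.lf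 (nat_lit 228) (nat_lit 940277513) (nat_lit 0) (nat_lit 196270676) (nat_lit 152) (nat_lit 196270676) (nat_lit 137) (nat_lit 1) (nat_lit 134) (nat_lit 1) (nat_lit 136) (nat_lit 1) (nat_lit 436) (nat_lit 345) (nat_lit 239)) (XT.nd (nat_lit 44616) (nat_lit 0) (nat_lit 18240) (XT.lf (nat_lit 76) (nat_lit 263537238) (nat_lit 0) (nat_lit 792121649) (nat_lit 228) (nat_lit 263537238) (nat_lit 135) (nat_lit 1) (nat_lit 134) (nat_lit 1) (nat_lit 137) (nat_lit 1) (nat_lit 437) (nat_lit 345) (nat_lit 238)) (XT.lf (nat_lit 1292) (nat_lit 445336227) (nat_lit 0) (nat_lit 1532163733) (nat_lit 1292) (nat_lit 445336227) (nat_lit 391) (nat_lit 1) (nat_lit 374) (nat_lit 0) (nat_lit 391) (nat_lit 0) (nat_lit 328) (nat_lit 346) (nat_lit 346)))))) (XT.nd (nat_lit 390) (nat_lit 0) (nat_lit 228) (XT.nd (nat_lit 156) (nat_lit 0) (nat_lit 76) (XT.nd (nat_lit 78) (nat_lit 0) (nat_lit 76) (XT.lf (nat_lit 1292) (nat_lit 1740381779)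 (nat_lit 76) (nat_lit 1517142520) (nat_lit 0) (nat_lit 1517142520) (nat_lit 391) (nat_lit 1) (nat_lit 375) (nat_lit 1) (nat_lit 374) (nat_lit 0) (nat_lit 329) (nat_lit 346) (nat_lit 345)) (XT.lf (nat_lit 1292) (nat_lit 841690124) (nat_lit 0) (nat_lit 3021847251) (nat_lit 1216) (nat_lit 841690124) (nat_lit 392) (nat_lit 1) (nat_lit 375) (nat_lit 1) (nat_lit 391) (nat_lit 1) (nat_lit 330) (nat_lit 346) (nat_lit 344))) (XT.nd (nat_lit 78) (nat_lit 0) (nat_lit 76) (XT.lf (nat_lit 1292) (nat_lit 1598413002) (nat_lit 76) (nat_lit 1519267394) (nat_lit 0) (nat_lit 1519267394) (nat_lit 392) (nat_lit 1) (nat_lit 376) (nat_lit 1) (nat_lit 375) (nat_lit 1) (nat_lit 331) (nat_lit 346) (nat_lit 343)) (XT.nd (nat_lit 78) (nat_lit 0) (nat_lit 0) (XT.lf (nat_lit 1292) (nat_lit 750047329) (nat_lit 0) (nat_lit 3070101205) (nat_lit 1216) (nat_lit 750047329) (nat_lit 393) (nat_lit 1) (nat_lit 376) (nat_lit 1) (nat_lit 392)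 (nat_lit 1) (nat_lit 332) (nat_lit 346) (nat_lit 342)) (XT.lf (nat_lit 1292) (nat_lit 1374540926) (nat_lit 76) (nat_lit 1564985286) (nat_lit 0) (nat_lit 1564985286) (nat_lit 393) (nat_lit 1) (nat_lit 377) (nat_lit 1) (nat_lit 376) (nat_lit 1) (nat_lit 333) (nat_lit 346) (nat_lit 341))))) (XT.nd (nat_lit 156) (nat_lit 0) (nat_lit 76) (XT.nd (nat_lit 78) (nat_lit 0) (nat_lit 0) (XT.lf (nat_lit 1292) (nat_lit 619517390) (nat_lit 0) (nat_lit 3201309099) (nat_lit 1216) (nat_lit 619517390) (nat_lit 394) (nat_lit 1) (nat_lit 377) (nat_lit 1) (nat_lit 393) (nat_lit 1) (nat_lit 334) (nat_lit 346) (nat_lit 340)) (XT.lf (nat_lit 1292) (nat_lit 1076090034) (nat_lit 76) (nat_lit 1650520525) (nat_lit 0) (nat_lit 1650520525) (nat_lit 394) (nat_lit 1) (nat_lit 378) (nat_lit 1) (nat_lit 377) (nat_lit 1) (nat_lit 335) (nat_lit 346) (nat_lit 339))) (XT.nd (nat_lit 78) (nat_lit 0) (nat_lit 0) (XT.lf (nat_lit 1292) (nat_lit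 453618447) (nat_lit 0) (nat_lit 3408212225) (nat_lit 1216) (nat_lit 453618447) (nat_lit 395) (nat_lit 1) (nat_lit 378) (nat_lit 1) (nat_lit 394) (nat_lit 1) (nat_lit 336) (nat_lit 346) (nat_lit 338)) (XT.nd (nat_lit 78) (nat_lit 0) (nat_lit 76) (XT.lf (nat_lit 1292) (nat_lit 709887961) (nat_lit 76) (nat_lit 1772351267) (nat_lit 0) (nat_lit 1772351267) (nat_lit 395) (nat_lit 1) (nat_lit 379) (nat_lit 1) (nat_lit 378) (nat_lit 1) (nat_lit 337) (nat_lit 346) (nat_lit 337)) (XT.lf (nat_lit 1292) (nat_lit 255629230) (nat_lit 0) (nat_lit 3684041275) (nat_lit 1216) (nat_lit 255629230) (nat_lit 396) (nat_lit 1) (nat_lit 379) (nat_lit 1) (nat_lit 395) (nat_lit 1) (nat_lit 338) (nat_lit 346) (nat_lit 336))))))) (XT.nd (nat_lit 702) (nat_lit 3496) (nat_lit 0) (XT.nd (nat_lit 312) (nat_lit 684) (nat_lit 0) (XT.nd (nat_lit 156) (nat_lit 1216) (nat_lit 0) (XT.nd (nat_lit 78) (nat_lit 0) (nat_lit 76) (XT.lf (nat_lit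 1292) (nat_lit 282296235) (nat_lit 76) (nat_lit 1927193838) (nat_lit 0) (nat_lit 1927193838) (nat_lit 396) (nat_lit 1) (nat_lit 380) (nat_lit 1) (nat_lit 379) (nat_lit 1) (nat_lit 339) (nat_lit 346) (nat_lit 335)) (XT.lf (nat_lit 1292) (nat_lit 28603900) (nat_lit 0) (nat_lit 4022486135) (nat_lit 1216) (nat_lit 28603900) (nat_lit 397) (nat_lit 1) (nat_lit 380) (nat_lit 1) (nat_lit 396) (nat_lit 1) (nat_lit 340) (nat_lit 346) (nat_lit 334))) (XT.nd (nat_lit 78) (nat_lit 0) (nat_lit 0) (XT.lf (nat_lit 1368) (nat_lit 1913157054) (nat_lit 0) (nat_lit 196843233) (nat_lit 1292) (nat_lit 1913157054) (nat_lit 381) (nat_lit 1) (nat_lit 363) (nat_lit 1) (nat_lit 380) (nat_lit 1) (nat_lit 341) (nat_lit 346) (nat_lit 333)) (XT.lf (nat_lit 1368) (nat_lit 3523355214) (nat_lit 76) (nat_lit 222411912) (nat_lit 0) (nat_lit 222411912) (nat_lit 381) (nat_lit 1) (nat_lit 364) (nat_lit 1) (nat_lit 363) (nat_lit 1) (nat_lit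 342) (nat_lit 346) (nat_lit 332)))) (XT.nd (nat_lit 156) (nat_lit 760) (nat_lit 0) (XT.nd (nat_lit 78) (nat_lit 0) (nat_lit 0) (XT.lf (nat_lit 1368) (nat_lit 1597167830) (nat_lit 0) (nat_lit 719450325) (nat_lit 1292) (nat_lit 1597167830) (nat_lit 382) (nat_lit 1) (nat_lit 364) (nat_lit 1) (nat_lit 381) (nat_lit 1) (nat_lit 343) (nat_lit 346) (nat_lit 331)) (XT.lf (nat_lit 1368) (nat_lit 2867845768) (nat_lit 76) (nat_lit 496462995) (nat_lit 0) (nat_lit 496462995) (nat_lit 382) (nat_lit 1) (nat_lit 365) (nat_lit 1) (nat_lit 364) (nat_lit 1) (nat_lit 344) (nat_lit 346) (nat_lit 330))) (XT.nd (nat_lit 78) (nat_lit 836) (nat_lit 0) (XT.lf (nat_lit 76) (nat_lit 1261235388) (nat_lit 0) (nat_lit 1286003834) (nat_lit 1292) (nat_lit 1261235388) (nat_lit 366) (nat_lit 1) (nat_lit 365) (nat_lit 1) (nat_lit 382) (nat_lit 1) (nat_lit 345) (nat_lit 346) (nat_lit 329)) (XT.nd (nat_lit 78) (nat_lit 0) (nat_lit 0) (XT.lf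 (nat_lit 912) (nat_lit 2174547369) (nat_lit 0) (nat_lit 791393045) (nat_lit 836) (nat_lit 791393045) (nat_lit 366) (nat_lit 1) (nat_lit 354) (nat_lit 1) (nat_lit 365) (nat_lit 1) (nat_lit 346) (nat_lit 346) (nat_lit 328)) (XT.lf (nat_lit 76) (nat_lit 907613741) (nat_lit 0) (nat_lit 1891827282) (nat_lit 912) (nat_lit 907613741) (nat_lit 355) (nat_lit 1) (nat_lit 354) (nat_lit 1) (nat_lit 366) (nat_lit 1) (nat_lit 347) (nat_lit 346) (nat_lit 327)))))) (XT.nd (nat_lit 390) (nat_lit 1672) (nat_lit 0) (XT.nd (nat_lit 156) (nat_lit 1216) (nat_lit 0) (XT.nd (nat_lit 78) (nat_lit 0) (nat_lit 0) (XT.lf (nat_lit 684) (nat_lit 1447825896) (nat_lit 0) (nat_lit 1104937194) (nat_lit 608) (nat_lit 1104937194) (nat_lit 355) (nat_lit 1) (nat_lit 346) (nat_lit 1) (nat_lit 354) (nat_lit 1) (nat_lit 348) (nat_lit 346) (nat_lit 326)) (XT.lf (nat_lit 76) (nat_lit 538395208) (nat_lit 0) (nat_lit 2532575373) (nat_lit 684)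 (nat_lit 538395208) (nat_lit 347) (nat_lit 1) (nat_lit 346) (nat_lit 1) (nat_lit 355) (nat_lit 1) (nat_lit 349) (nat_lit 346) (nat_lit 325))) (XT.nd (nat_lit 78) (nat_lit 608) (nat_lit 0) (XT.lf (nat_lit 684) (nat_lit 691732627) (nat_lit 0) (nat_lit 1434991646) (nat_lit 608) (nat_lit 1434991646) (nat_lit 347) (nat_lit 1) (nat_lit 338) (nat_lit 1) (nat_lit 346) (nat_lit 1) (nat_lit 350) (nat_lit 346) (nat_lit 324)) (XT.nd (nat_lit 78) (nat_lit 608) (nat_lit 0) (XT.lf (nat_lit 76) (nat_lit 155520637) (nat_lit 0) (nat_lit 3204213153) (nat_lit 684) (nat_lit 155520637) (nat_lit 339) (nat_lit 1) (nat_lit 338) (nat_lit 1) (nat_lit 347) (nat_lit 1) (nat_lit 351) (nat_lit 346) (nat_lit 323)) (XT.lf (nat_lit 76) (nat_lit 1690492592) (nat_lit 0) (nat_lit 88220082) (nat_lit 608) (nat_lit 1690492592) (nat_lit 331) (nat_lit 1) (nat_lit 330) (nat_lit 1) (nat_lit 338) (nat_lit 1) (nat_lit 352) (nat_lit 346) (nat_lit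 322))))) (XT.nd (nat_lit 156) (nat_lit 1064) (nat_lit 0) (XT.nd (nat_lit 78) (nat_lit 0) (nat_lit 0) (XT.lf (nat_lit 684) (nat_lit 2950565533) (nat_lit 0) (nat_lit 236865786) (nat_lit 608) (nat_lit 236865786) (nat_lit 331) (nat_lit 1) (nat_lit 322) (nat_lit 1) (nat_lit 330) (nat_lit 1) (nat_lit 353) (nat_lit 346) (nat_lit 321)) (XT.lf (nat_lit 76) (nat_lit 1251734427) (nat_lit 0) (nat_lit 876377215) (nat_lit 684) (nat_lit 1251734427) (nat_lit 323) (nat_lit 1) (nat_lit 322) (nat_lit 1) (nat_lit 331) (nat_lit 1) (nat_lit 354) (nat_lit 346) (nat_lit 320))) (XT.nd (nat_lit 78) (nat_lit 532) (nat_lit 0) (XT.lf (nat_lit 608) (nat_lit 2060802476) (nat_lit 0) (nat_lit 637818498) (nat_lit 532) (nat_lit 637818498) (nat_lit 323) (nat_lit 1) (nat_lit 315) (nat_lit 1) (nat_lit 322) (nat_lit 1) (nat_lit 355) (nat_lit 346) (nat_lit 319)) (XT.nd (nat_lit 78) (nat_lit 532) (nat_lit 0) (XT.lf (nat_lit 76) (nat_lit 805312654)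 (nat_lit 0) (nat_lit 1683077547) (nat_lit 608) (nat_lit 805312654) (nat_lit 316) (nat_lit 1) (nat_lit 315) (nat_lit 1) (nat_lit 323) (nat_lit 1) (nat_lit 356) (nat_lit 346) (nat_lit 318)) (XT.lf (nat_lit 608) (nat_lit 1157059337) (nat_lit 0) (nat_lit 1047335526) (nat_lit 532) (nat_lit 1047335526) (nat_lit 316) (nat_lit 1) (nat_lit 308) (nat_lit 1) (nat_lit 315) (nat_lit 1) (nat_lit 357) (nat_lit 346) (nat_lit 317))))))))
noncomputable def ec76 : XT := (XT.nd (nat_lit 1404) (nat_lit 3800) (nat_lit 0) (XT.nd (nat_lit 702) (nat_lit 2052) (nat_lit 0) (XT.nd (nat_lit 312) (nat_lit 1368) (nat_lit 0) (XT.nd (nat_lit 156) (nat_lit 608) (nat_lit 0) (XT.nd (nat_lit 78) (nat_lit 456) (nat_lit 0) (XT.lf (nat_lit 76) (nat_lit 352623996) (nat_lit 0) (nat_lit 2505398759) (nat_lit 608) (nat_lit 352623996) (nat_lit 309) (nat_lit 1) (nat_lit 308) (nat_lit 1) (nat_lit 316) (nat_lit 1) (nat_lit 358) (nat_lit 346) (nat_lit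 316)) (XT.lf (nat_lit 532) (nat_lit 242033468) (nat_lit 0) (nat_lit 1464005418) (nat_lit 456) (nat_lit 1464005418) (nat_lit 309) (nat_lit 1) (nat_lit 302) (nat_lit 1) (nat_lit 308) (nat_lit 1) (nat_lit 359) (nat_lit 346) (nat_lit 315))) (XT.nd (nat_lit 78) (nat_lit 0) (nat_lit 0) (XT.lf (nat_lit 608) (nat_lit 2922406799) (nat_lit 0) (nat_lit 104013038) (nat_lit 532) (nat_lit 104013038) (nat_lit 302) (nat_lit 1) (nat_lit 294) (nat_lit 1) (nat_lit 301) (nat_lit 1) (nat_lit 360) (nat_lit 346) (nat_lit 314)) (XT.lf (nat_lit 76) (nat_lit 1211290491) (nat_lit 0) (nat_lit 668483672) (nat_lit 608) (nat_lit 1211290491) (nat_lit 295) (nat_lit 1) (nat_lit 294) (nat_lit 1) (nat_lit 302) (nat_lit 1) (nat_lit 361) (nat_lit 346) (nat_lit 313)))) (XT.nd (nat_lit 156) (nat_lit 912) (nat_lit 0) (XT.nd (nat_lit 78) (nat_lit 0) (nat_lit 0) (XT.lf (nat_lit 532) (nat_lit 1930759440) (nat_lit 0) (nat_lit 560946377) (nat_lit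 456) (nat_lit 560946377) (nat_lit 295) (nat_lit 1) (nat_lit 288) (nat_lit 1) (nat_lit 294) (nat_lit 1) (nat_lit 362) (nat_lit 346) (nat_lit 312)) (XT.lf (nat_lit 76) (nat_lit 717073183) (nat_lit 0) (nat_lit 1580655389) (nat_lit 532) (nat_lit 717073183) (nat_lit 289) (nat_lit 1) (nat_lit 288) (nat_lit 1) (nat_lit 295) (nat_lit 1) (nat_lit 363) (nat_lit 346) (nat_lit 311))) (XT.nd (nat_lit 78) (nat_lit 456) (nat_lit 0) (XT.lf (nat_lit 532) (nat_lit 936501130) (nat_lit 0) (nat_lit 1020550634) (nat_lit 456) (nat_lit 1020550634) (nat_lit 289) (nat_lit 1) (nat_lit 282) (nat_lit 1) (nat_lit 288) (nat_lit 1) (nat_lit 364) (nat_lit 346) (nat_lit 310)) (XT.nd (nat_lit 78) (nat_lit 456) (nat_lit 0) (XT.lf (nat_lit 76) (nat_lit 222039063) (nat_lit 0) (nat_lit 2497138325) (nat_lit 532) (nat_lit 222039063) (nat_lit 283) (nat_lit 1) (nat_lit 282) (nat_lit 1) (nat_lit 289) (nat_lit 1) (nat_lit 365) (nat_lit 346) (nat_lit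 309)) (XT.lf (nat_lit 76) (nat_lit 1423908696) (nat_lit 0) (nat_lit 57342970) (nat_lit 456) (nat_lit 1423908696) (nat_lit 277) (nat_lit 1) (nat_lit 276) (nat_lit 1) (nat_lit 282) (nat_lit 1) (nat_lit 366) (nat_lit 346) (nat_lit 308)))))) (XT.nd (nat_lit 312) (nat_lit 1216) (nat_lit 0) (XT.nd (nat_lit 156) (nat_lit 380) (nat_lit 0) (XT.nd (nat_lit 78) (nat_lit 0) (nat_lit 0) (XT.lf (nat_lit 532) (nat_lit 2329409674) (nat_lit 0) (nat_lit 270239240) (nat_lit 456) (nat_lit 270239240) (nat_lit 277) (nat_lit 1) (nat_lit 270) (nat_lit 1) (nat_lit 276) (nat_lit 1) (nat_lit 367) (nat_lit 346) (nat_lit 307)) (XT.lf (nat_lit 76) (nat_lit 901518874) (nat_lit 0) (nat_lit 1031933794) (nat_lit 532) (nat_lit 901518874) (nat_lit 271) (nat_lit 1) (nat_lit 270) (nat_lit 1) (nat_lit 277) (nat_lit 1) (nat_lit 368) (nat_lit 346) (nat_lit 306))) (XT.nd (nat_lit 78) (nat_lit 0) (nat_lit 0) (XT.lf (nat_lit 456) (nat_lit 1281880047)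 (nat_lit 0) (nat_lit 759448601) (nat_lit 380) (nat_lit 759448601) (nat_lit 271) (nat_lit 1) (nat_lit 265) (nat_lit 1) (nat_lit 270) (nat_lit 1) (nat_lit 369) (nat_lit 346) (nat_lit 305)) (XT.lf (nat_lit 76) (nat_lit 381604907) (nat_lit 0) (nat_lit 2003999427) (nat_lit 456) (nat_lit 381604907) (nat_lit 266) (nat_lit 1) (nat_lit 265) (nat_lit 1) (nat_lit 271) (nat_lit 1) (nat_lit 370) (nat_lit 346) (nat_lit 304)))) (XT.nd (nat_lit 156) (nat_lit 380) (nat_lit 0) (XT.nd (nat_lit 78) (nat_lit 456) (nat_lit 0) (XT.lf (nat_lit 456) (nat_lit 239999427) (nat_lit 0) (nat_lit 1247023634) (nat_lit 380) (nat_lit 1247023634) (nat_lit 266) (nat_lit 1) (nat_lit 260) (nat_lit 1) (nat_lit 265) (nat_lit 1) (nat_lit 371) (nat_lit 346) (nat_lit 303)) (XT.lf (nat_lit 456) (nat_lit 2433926546) (nat_lit 0) (nat_lit 133848791) (nat_lit 380) (nat_lit 133848791) (nat_lit 260) (nat_lit 1) (nat_lit 254) (nat_lit 1) (nat_lit 259)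 (nat_lit 1) (nat_lit 372) (nat_lit 346) (nat_lit 302))) (XT.nd (nat_lit 78) (nat_lit 380) (nat_lit 0) (XT.lf (nat_lit 76) (nat_lit 944959988) (nat_lit 0) (nat_lit 779456843) (nat_lit 456) (nat_lit 944959988) (nat_lit 255) (nat_lit 1) (nat_lit 254) (nat_lit 1) (nat_lit 260) (nat_lit 1) (nat_lit 373) (nat_lit 346) (nat_lit 301)) (XT.nd (nat_lit 78) (nat_lit 0) (nat_lit 0) (XT.lf (nat_lit 456) (nat_lit 1354116524) (nat_lit 0) (nat_lit 641864827) (nat_lit 380) (nat_lit 641864827) (nat_lit 255) (nat_lit 1) (nat_lit 249) (nat_lit 1) (nat_lit 254) (nat_lit 1) (nat_lit 374) (nat_lit 346) (nat_lit 300)) (XT.lf (nat_lit 76) (nat_lit 410255952) (nat_lit 0) (nat_lit 1786331504) (nat_lit 456) (nat_lit 410255952) (nat_lit 250) (nat_lit 1) (nat_lit 249) (nat_lit 1) (nat_lit 255) (nat_lit 1) (nat_lit 375) (nat_lit 346) (nat_lit 299))))))) (XT.nd (nat_lit 702) (nat_lit 1748) (nat_lit 0) (XT.nd (nat_lit 312) (nat_lit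 988) (nat_lit 0) (XT.nd (nat_lit 156) (nat_lit 304) (nat_lit 0) (XT.nd (nat_lit 78) (nat_lit 456) (nat_lit 0) (XT.lf (nat_lit 380) (nat_lit 284936112) (nat_lit 0) (nat_lit 1145648715) (nat_lit 304) (nat_lit 1145648715) (nat_lit 250) (nat_lit 1) (nat_lit 245) (nat_lit 1) (nat_lit 249) (nat_lit 1) (nat_lit 376) (nat_lit 346) (nat_lit 298)) (XT.lf (nat_lit 456) (nat_lit 2310765617) (nat_lit 0) (nat_lit 117764779) (nat_lit 380) (nat_lit 117764779) (nat_lit 245) (nat_lit 1) (nat_lit 239) (nat_lit 1) (nat_lit 244) (nat_lit 1) (nat_lit 377) (nat_lit 346) (nat_lit 297))) (XT.nd (nat_lit 78) (nat_lit 304) (nat_lit 0) (XT.lf (nat_lit 76) (nat_lit 879416152) (nat_lit 0) (nat_lit 757650343) (nat_lit 456) (nat_lit 879416152) (nat_lit 240) (nat_lit 1) (nat_lit 239) (nat_lit 1) (nat_lit 245) (nat_lit 1) (nat_lit 378) (nat_lit 346) (nat_lit 296)) (XT.lf (nat_lit 380) (nat_lit 1215546776) (nat_lit 0) (nat_lit 635887661)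 (nat_lit 304) (nat_lit 635887661) (nat_lit 240) (nat_lit 1) (nat_lit 235) (nat_lit 1) (nat_lit 239) (nat_lit 1) (nat_lit 379) (nat_lit 346) (nat_lit 295)))) (XT.nd (nat_lit 156) (nat_lit 684) (nat_lit 0) (XT.nd (nat_lit 78) (nat_lit 304) (nat_lit 0) (XT.lf (nat_lit 76) (nat_lit 338024990) (nat_lit 0) (nat_lit 1782610369) (nat_lit 380) (nat_lit 338024990) (nat_lit 236) (nat_lit 1) (nat_lit 235) (nat_lit 1) (nat_lit 240) (nat_lit 1) (nat_lit 380) (nat_lit 346) (nat_lit 294)) (XT.lf (nat_lit 380) (nat_lit 134790113) (nat_lit 0) (nat_lit 1147767134) (nat_lit 304) (nat_lit 1147767134) (nat_lit 236) (nat_lit 1) (nat_lit 231) (nat_lit 1) (nat_lit 235) (nat_lit 1) (nat_lit 381) (nat_lit 346) (nat_lit 293))) (XT.nd (nat_lit 78) (nat_lit 304) (nat_lit 0) (XT.lf (nat_lit 380) (nat_lit 2014351674) (nat_lit 0) (nat_lit 194097968) (nat_lit 304) (nat_lit 194097968) (nat_lit 231) (nat_lit 1) (nat_lit 226) (nat_lit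 1) (nat_lit 230) (nat_lit 1) (nat_lit 382) (nat_lit 346) (nat_lit 292)) (XT.nd (nat_lit 78) (nat_lit 304) (nat_lit 0) (XT.lf (nat_lit 76) (nat_lit 731101153) (nat_lit 0) (nat_lit 912758931) (nat_lit 380) (nat_lit 731101153) (nat_lit 227) (nat_lit 1) (nat_lit 226) (nat_lit 1) (nat_lit 231) (nat_lit 1) (nat_lit 383) (nat_lit 346) (nat_lit 291)) (XT.lf (nat_lit 380) (nat_lit 917186341) (nat_lit 0) (nat_lit 715365684) (nat_lit 304) (nat_lit 715365684) (nat_lit 227) (nat_lit 1) (nat_lit 222) (nat_lit 1) (nat_lit 226) (nat_lit 1) (nat_lit 384) (nat_lit 346) (nat_lit 290)))))) (XT.nd (nat_lit 390) (nat_lit 912) (nat_lit 0) (XT.nd (nat_lit 156) (nat_lit 532) (nat_lit 0) (XT.nd (nat_lit 78) (nat_lit 304) (nat_lit 0) (XT.lf (nat_lit 76) (nat_lit 189481787) (nat_lit 0) (nat_lit 1942433788) (nat_lit 380) (nat_lit 189481787) (nat_lit 223) (nat_lit 1) (nat_lit 222) (nat_lit 1) (nat_lit 227) (nat_lit 1) (nat_lit 385)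 (nat_lit 346) (nat_lit 289)) (XT.lf (nat_lit 76) (nat_lit 1067797523) (nat_lit 0) (nat_lit 159452844) (nat_lit 304) (nat_lit 1067797523) (nat_lit 219) (nat_lit 1) (nat_lit 218) (nat_lit 1) (nat_lit 222) (nat_lit 1) (nat_lit 386) (nat_lit 346) (nat_lit 288))) (XT.nd (nat_lit 78) (nat_lit 228) (nat_lit 0) (XT.lf (nat_lit 380) (nat_lit 1589109225) (nat_lit 0) (nat_lit 340048923) (nat_lit 304) (nat_lit 340048923) (nat_lit 219) (nat_lit 1) (nat_lit 214) (nat_lit 1) (nat_lit 218) (nat_lit 1) (nat_lit 387) (nat_lit 346) (nat_lit 287)) (XT.nd (nat_lit 78) (nat_lit 228) (nat_lit 0) (XT.lf (nat_lit 76) (nat_lit 521403355) (nat_lit 0) (nat_lit 1200853923) (nat_lit 380) (nat_lit 521403355) (nat_lit 215) (nat_lit 1) (nat_lit 214) (nat_lit 1) (nat_lit 219) (nat_lit 1) (nat_lit 388) (nat_lit 346) (nat_lit 286)) (XT.lf (nat_lit 304) (nat_lit 500642843) (nat_lit 0) (nat_lit 858936259) (nat_lit 228) (nat_lit 858936259)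 (nat_lit 215) (nat_lit 1) (nat_lit 211) (nat_lit 1) (nat_lit 214) (nat_lit 1) (nat_lit 389) (nat_lit 346) (nat_lit 285))))) (XT.nd (nat_lit 156) (nat_lit 532) (nat_lit 0) (XT.nd (nat_lit 78) (nat_lit 0) (nat_lit 0) (XT.lf (nat_lit 380) (nat_lit 2163554460) (nat_lit 0) (nat_lit 15192926) (nat_lit 304) (nat_lit 15192926) (nat_lit 211) (nat_lit 1) (nat_lit 206) (nat_lit 1) (nat_lit 210) (nat_lit 1) (nat_lit 390) (nat_lit 346) (nat_lit 284)) (XT.lf (nat_lit 76) (nat_lit 806028324) (nat_lit 0) (nat_lit 557260303) (nat_lit 380) (nat_lit 806028324) (nat_lit 207) (nat_lit 1) (nat_lit 206) (nat_lit 1) (nat_lit 211) (nat_lit 1) (nat_lit 391) (nat_lit 346) (nat_lit 283))) (XT.nd (nat_lit 78) (nat_lit 304) (nat_lit 0) (XT.lf (nat_lit 304) (nat_lit 1071158543) (nat_lit 0) (nat_lit 537046552) (nat_lit 228) (nat_lit 537046552) (nat_lit 207) (nat_lit 1) (nat_lit 203) (nat_lit 1) (nat_lit 206) (nat_lit 1) (nat_lit 392)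 (nat_lit 346) (nat_lit 282)) (XT.nd (nat_lit 78) (nat_lit 304) (nat_lit 0) (XT.lf (nat_lit 76) (nat_lit 267704610) (nat_lit 0) (nat_lit 1586169155) (nat_lit 304) (nat_lit 267704610) (nat_lit 204) (nat_lit 1) (nat_lit 203) (nat_lit 1) (nat_lit 207) (nat_lit 1) (nat_lit 393) (nat_lit 346) (nat_lit 281)) (XT.lf (nat_lit 76) (nat_lit 1048930382) (nat_lit 0) (nat_lit 280839) (nat_lit 304) (nat_lit 1048930382) (nat_lit 200) (nat_lit 1) (nat_lit 199) (nat_lit 1) (nat_lit 203) (nat_lit 1) (nat_lit 394) (nat_lit 346) (nat_lit 280))))))))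
noncomputable def ec77 : XT := (XT.nd (nat_lit 1482) (nat_lit 1976) (nat_lit 0) (XT.nd (nat_lit 702) (nat_lit 1216) (nat_lit 0) (XT.nd (nat_lit 312) (nat_lit 684) (nat_lit 0) (XT.nd (nat_lit 156) (nat_lit 532) (nat_lit 0) (XT.nd (nat_lit 78) (nat_lit 0) (nat_lit 0) (XT.lf (nat_lit 304) (nat_lit 1559811328) (nat_lit 0) (nat_lit 257637363) (nat_lit 228) (nat_lit 257637363) (nat_lit 200) (nat_lit 1) (nat_lit 196) (nat_lit 1) (nat_lit 199) (nat_lit 1) (nat_lit 395) (nat_lit 346) (nat_lit 279)) (XT.lf (nat_lit 76) (nat_lit 510994778) (nat_lit 0) (nat_lit 1030262653) (nat_lit 304) (nat_lit 510994778) (nat_lit 197) (nat_lit 1) (nat_lit 196) (nat_lit 1) (nat_lit 200) (nat_lit 1) (nat_lit 396) (nat_lit 346) (nat_lit 278))) (XT.nd (nat_lit 78) (nat_lit 304) (nat_lit 0) (XT.lf (nat_lit 304) (nat_lit 489731884) (nat_lit 0) (nat_lit 770028676) (nat_lit 228) (nat_lit 770028676) (nat_lit 197) (nat_lit 1) (nat_lit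 193) (nat_lit 1) (nat_lit 196) (nat_lit 1) (nat_lit 397) (nat_lit 346) (nat_lit 277)) (XT.lf (nat_lit 304) (nat_lit 1976261323) (nat_lit 0) (nat_lit 15779749) (nat_lit 228) (nat_lit 15779749) (nat_lit 193) (nat_lit 1) (nat_lit 189) (nat_lit 1) (nat_lit 192) (nat_lit 1) (nat_lit 398) (nat_lit 346) (nat_lit 276)))) (XT.nd (nat_lit 156) (nat_lit 456) (nat_lit 0) (XT.nd (nat_lit 78) (nat_lit 228) (nat_lit 0) (XT.lf (nat_lit 76) (nat_lit 719199329) (nat_lit 0) (nat_lit 547386579) (nat_lit 304) (nat_lit 719199329) (nat_lit 190) (nat_lit 1) (nat_lit 189) (nat_lit 1) (nat_lit 193) (nat_lit 1) (nat_lit 399) (nat_lit 346) (nat_lit 275)) (XT.lf (nat_lit 304) (nat_lit 910835360) (nat_lit 0) (nat_lit 526699899) (nat_lit 228) (nat_lit 526699899) (nat_lit 190) (nat_lit 1) (nat_lit 186) (nat_lit 1) (nat_lit 189) (nat_lit 1) (nat_lit 400) (nat_lit 346) (nat_lit 274))) (XT.nd (nat_lit 78) (nat_lit 456) (nat_lit 0) (XT.lf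 (nat_lit 76) (nat_lit 194809906) (nat_lit 0) (nat_lit 1553430276) (nat_lit 304) (nat_lit 194809906) (nat_lit 187) (nat_lit 1) (nat_lit 186) (nat_lit 1) (nat_lit 190) (nat_lit 1) (nat_lit 401) (nat_lit 346) (nat_lit 273)) (XT.nd (nat_lit 78) (nat_lit 228) (nat_lit 0) (XT.lf (nat_lit 76) (nat_lit 896462479) (nat_lit 0) (nat_lit 129075552) (nat_lit 228) (nat_lit 896462479) (nat_lit 184) (nat_lit 1) (nat_lit 183) (nat_lit 1) (nat_lit 186) (nat_lit 1) (nat_lit 402) (nat_lit 346) (nat_lit 272)) (XT.lf (nat_lit 304) (nat_lit 1271124570) (nat_lit 0) (nat_lit 315091664) (nat_lit 228) (nat_lit 315091664) (nat_lit 184) (nat_lit 1) (nat_lit 180) (nat_lit 1) (nat_lit 183) (nat_lit 1) (nat_lit 403) (nat_lit 346) (nat_lit 271)))))) (XT.nd (nat_lit 390) (nat_lit 608) (nat_lit 0) (XT.nd (nat_lit 156) (nat_lit 456) (nat_lit 0) (XT.nd (nat_lit 78) (nat_lit 152) (nat_lit 0) (XT.lf (nat_lit 76) (nat_lit 375968429) (nat_lit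 0) (nat_lit 1128914559) (nat_lit 304) (nat_lit 375968429) (nat_lit 181) (nat_lit 1) (nat_lit 180) (nat_lit 1) (nat_lit 184) (nat_lit 1) (nat_lit 404) (nat_lit 346) (nat_lit 270)) (XT.lf (nat_lit 228) (nat_lit 236803330) (nat_lit 0) (nat_lit 811932532) (nat_lit 152) (nat_lit 811932532) (nat_lit 181) (nat_lit 1) (nat_lit 178) (nat_lit 1) (nat_lit 180) (nat_lit 1) (nat_lit 405) (nat_lit 346) (nat_lit 269))) (XT.nd (nat_lit 78) (nat_lit 152) (nat_lit 0) (XT.lf (nat_lit 304) (nat_lit 1577784658) (nat_lit 0) (nat_lit 131533139) (nat_lit 228) (nat_lit 131533139) (nat_lit 178) (nat_lit 1) (nat_lit 174) (nat_lit 1) (nat_lit 177) (nat_lit 1) (nat_lit 406) (nat_lit 346) (nat_lit 268)) (XT.nd (nat_lit 78) (nat_lit 152) (nat_lit 0) (XT.lf (nat_lit 76) (nat_lit 531016236) (nat_lit 0) (nat_lit 759056914) (nat_lit 304) (nat_lit 531016236) (nat_lit 175) (nat_lit 1) (nat_lit 174) (nat_lit 1) (nat_lit 178) (nat_lit 1)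 (nat_lit 407) (nat_lit 346) (nat_lit 267)) (XT.lf (nat_lit 228) (nat_lit 553860462) (nat_lit 0) (nat_lit 623913103) (nat_lit 152) (nat_lit 623913103) (nat_lit 175) (nat_lit 1) (nat_lit 172) (nat_lit 1) (nat_lit 174) (nat_lit 1) (nat_lit 408) (nat_lit 346) (nat_lit 266))))) (XT.nd (nat_lit 156) (nat_lit 380) (nat_lit 0) (XT.nd (nat_lit 78) (nat_lit 228) (nat_lit 0) (XT.lf (nat_lit 76) (nat_lit 27502905) (nat_lit 0) (nat_lit 1727683544) (nat_lit 228) (nat_lit 27502905) (nat_lit 173) (nat_lit 1) (nat_lit 172) (nat_lit 1) (nat_lit 175) (nat_lit 1) (nat_lit 409) (nat_lit 346) (nat_lit 265)) (XT.lf (nat_lit 76) (nat_lit 663037123) (nat_lit 0) (nat_lit 437549082) (nat_lit 228) (nat_lit 663037123) (nat_lit 170) (nat_lit 1) (nat_lit 169) (nat_lit 1) (nat_lit 172) (nat_lit 1) (nat_lit 410) (nat_lit 346) (nat_lit 264))) (XT.nd (nat_lit 78) (nat_lit 228) (nat_lit 0) (XT.lf (nat_lit 228) (nat_lit 825557818) (nat_lit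 0) (nat_lit 459699452) (nat_lit 152) (nat_lit 459699452) (nat_lit 170) (nat_lit 1) (nat_lit 167) (nat_lit 1) (nat_lit 169) (nat_lit 1) (nat_lit 411) (nat_lit 346) (nat_lit 263)) (XT.nd (nat_lit 78) (nat_lit 228) (nat_lit 0) (XT.lf (nat_lit 76) (nat_lit 165722849) (nat_lit 0) (nat_lit 1395150034) (nat_lit 228) (nat_lit 165722849) (nat_lit 168) (nat_lit 1) (nat_lit 167) (nat_lit 1) (nat_lit 170) (nat_lit 1) (nat_lit 412) (nat_lit 346) (nat_lit 262)) (XT.lf (nat_lit 76) (nat_lit 774765987) (nat_lit 0) (nat_lit 158792464) (nat_lit 228) (nat_lit 774765987) (nat_lit 165) (nat_lit 1) (nat_lit 164) (nat_lit 1) (nat_lit 167) (nat_lit 1) (nat_lit 413) (nat_lit 346) (nat_lit 261))))))) (XT.nd (nat_lit 702) (nat_lit 912) (nat_lit 0) (XT.nd (nat_lit 312) (nat_lit 532) (nat_lit 0) (XT.nd (nat_lit 156) (nat_lit 380) (nat_lit 0) (XT.nd (nat_lit 78) (nat_lit 0) (nat_lit 0) (XT.lf (nat_lit 228) (nat_lit 1057244974) (nat_lit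 0) (nat_lit 316554234) (nat_lit 152) (nat_lit 316554234) (nat_lit 165) (nat_lit 1) (nat_lit 162) (nat_lit 1) (nat_lit 164) (nat_lit 1) (nat_lit 414) (nat_lit 346) (nat_lit 260)) (XT.lf (nat_lit 76) (nat_lit 284414328) (nat_lit 0) (nat_lit 1103772331) (nat_lit 228) (nat_lit 284414328) (nat_lit 163) (nat_lit 1) (nat_lit 162) (nat_lit 1) (nat_lit 165) (nat_lit 1) (nat_lit 415) (nat_lit 346) (nat_lit 259))) (XT.nd (nat_lit 78) (nat_lit 228) (nat_lit 0) (XT.lf (nat_lit 228) (nat_lit 83816759) (nat_lit 0) (nat_lit 785616825) (nat_lit 152) (nat_lit 785616825) (nat_lit 163) (nat_lit 1) (nat_lit 160) (nat_lit 1) (nat_lit 162) (nat_lit 1) (nat_lit 416) (nat_lit 346) (nat_lit 258)) (XT.lf (nat_lit 228) (nat_lit 1253666470) (nat_lit 0) (nat_lit 192047759) (nat_lit 152) (nat_lit 192047759) (nat_lit 160) (nat_lit 1) (nat_lit 157) (nat_lit 1) (nat_lit 159) (nat_lit 1) (nat_lit 417) (nat_lit 346) (nat_lit 257)))) (XT.nd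 (nat_lit 156) (nat_lit 380) (nat_lit 0) (XT.nd (nat_lit 78) (nat_lit 152) (nat_lit 0) (XT.lf (nat_lit 76) (nat_lit 385874876) (nat_lit 0) (nat_lit 848842366) (nat_lit 228) (nat_lit 385874876) (nat_lit 158) (nat_lit 1) (nat_lit 157) (nat_lit 1) (nat_lit 160) (nat_lit 1) (nat_lit 418) (nat_lit 346) (nat_lit 256)) (XT.lf (nat_lit 228) (nat_lit 295547461) (nat_lit 0) (nat_lit 654066246) (nat_lit 152) (nat_lit 654066246) (nat_lit 158) (nat_lit 1) (nat_lit 155) (nat_lit 1) (nat_lit 157) (nat_lit 1) (nat_lit 419) (nat_lit 346) (nat_lit 255))) (XT.nd (nat_lit 78) (nat_lit 152) (nat_lit 0) (XT.lf (nat_lit 228) (nat_lit 1419029532) (nat_lit 0) (nat_lit 84023619) (nat_lit 152) (nat_lit 84023619) (nat_lit 155) (nat_lit 1) (nat_lit 152) (nat_lit 1) (nat_lit 154) (nat_lit 1) (nat_lit 420) (nat_lit 346) (nat_lit 254)) (XT.nd (nat_lit 78) (nat_lit 152) (nat_lit 0) (XT.lf (nat_lit 76) (nat_lit 472142334) (nat_lit 0)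 (nat_lit 626180542) (nat_lit 228) (nat_lit 472142334) (nat_lit 153) (nat_lit 1) (nat_lit 152) (nat_lit 1) (nat_lit 155) (nat_lit 1) (nat_lit 421) (nat_lit 346) (nat_lit 253)) (XT.lf (nat_lit 228) (nat_lit 477228301) (nat_lit 0) (nat_lit 538465187) (nat_lit 152) (nat_lit 538465187) (nat_lit 153) (nat_lit 1) (nat_lit 150) (nat_lit 1) (nat_lit 152) (nat_lit 1) (nat_lit 422) (nat_lit 346) (nat_lit 252)))))) (XT.nd (nat_lit 390) (nat_lit 456) (nat_lit 0) (XT.nd (nat_lit 156) (nat_lit 304) (nat_lit 0) (XT.nd (nat_lit 78) (nat_lit 152) (nat_lit 0) (XT.lf (nat_lit 76) (nat_lit 9525242) (nat_lit 0) (nat_lit 1519138983) (nat_lit 228) (nat_lit 9525242) (nat_lit 151) (nat_lit 1) (nat_lit 150) (nat_lit 1) (nat_lit 153) (nat_lit 1) (nat_lit 423) (nat_lit 346) (nat_lit 251)) (XT.lf (nat_lit 76) (nat_lit 545023907) (nat_lit 0) (nat_lit 432076693) (nat_lit 152) (nat_lit 545023907) (nat_lit 149) (nat_lit 1) (nat_lit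 148) (nat_lit 1) (nat_lit 150) (nat_lit 1) (nat_lit 424) (nat_lit 346) (nat_lit 250))) (XT.nd (nat_lit 78) (nat_lit 152) (nat_lit 0) (XT.lf (nat_lit 228) (nat_lit 632397776) (nat_lit 0) (nat_lit 436997790) (nat_lit 152) (nat_lit 436997790) (nat_lit 149) (nat_lit 1) (nat_lit 146) (nat_lit 1) (nat_lit 148) (nat_lit 1) (nat_lit 425) (nat_lit 346) (nat_lit 249)) (XT.nd (nat_lit 78) (nat_lit 152) (nat_lit 0) (XT.lf (nat_lit 76) (nat_lit 90907993) (nat_lit 0) (nat_lit 1309122040) (nat_lit 228) (nat_lit 90907993) (nat_lit 147) (nat_lit 1) (nat_lit 146) (nat_lit 1) (nat_lit 149) (nat_lit 1) (nat_lit 426) (nat_lit 346) (nat_lit 248)) (XT.lf (nat_lit 76) (nat_lit 606121981) (nat_lit 0) (nat_lit 263237645) (nat_lit 152) (nat_lit 606121981) (nat_lit 145) (nat_lit 1) (nat_lit 144) (nat_lit 1) (nat_lit 146) (nat_lit 1) (nat_lit 427) (nat_lit 346) (nat_lit 247))))) (XT.nd (nat_lit 156) (nat_lit 304) (nat_lit 0) (XT.nd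 (nat_lit 78) (nat_lit 0) (nat_lit 0) (XT.lf (nat_lit 228) (nat_lit 764194332) (nat_lit 0) (nat_lit 348051775) (nat_lit 152) (nat_lit 348051775) (nat_lit 145) (nat_lit 1) (nat_lit 142) (nat_lit 1) (nat_lit 144) (nat_lit 1) (nat_lit 428) (nat_lit 346) (nat_lit 246)) (XT.lf (nat_lit 76) (nat_lit 160814205) (nat_lit 0) (nat_lit 1123707617) (nat_lit 228) (nat_lit 160814205) (nat_lit 143) (nat_lit 1) (nat_lit 142) (nat_lit 1) (nat_lit 145) (nat_lit 1) (nat_lit 429) (nat_lit 346) (nat_lit 245))) (XT.nd (nat_lit 78) (nat_lit 152) (nat_lit 0) (XT.lf (nat_lit 76) (nat_lit 656857062) (nat_lit 0) (nat_lit 116740616) (nat_lit 152) (nat_lit 656857062) (nat_lit 141) (nat_lit 1) (nat_lit 140) (nat_lit 1) (nat_lit 142) (nat_lit 1) (nat_lit 430) (nat_lit 346) (nat_lit 244)) (XT.nd (nat_lit 78) (nat_lit 0) (nat_lit 0) (XT.lf (nat_lit 228) (nat_lit 875401133) (nat_lit 0) (nat_lit 270195707) (nat_lit 152) (nat_lit 270195707)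 (nat_lit 141) (nat_lit 1) (nat_lit 138) (nat_lit 1) (nat_lit 140) (nat_lit 1) (nat_lit 431) (nat_lit 346) (nat_lit 243)) (XT.lf (nat_lit 76) (nat_lit 220593600) (nat_lit 0) (nat_lit 960117760) (nat_lit 228) (nat_lit 220593600) (nat_lit 139) (nat_lit 1) (nat_lit 138) (nat_lit 1) (nat_lit 141) (nat_lit 1) (nat_lit 432) (nat_lit 346) (nat_lit 242))))))))
noncomputable def ec78 : XT := (XT.nd (nat_lit 45942) (nat_lit 0) (nat_lit 12236) (XT.nd (nat_lit 45162) (nat_lit 0) (nat_lit 17480) (XT.nd (nat_lit 44772) (nat_lit 0) (nat_lit 18316) (XT.nd (nat_lit 156) (nat_lit 76) (nat_lit 0) (XT.nd (nat_lit 78) (nat_lit 228) (nat_lit 0) (XT.lf (nat_lit 152) (nat_lit 10207358) (nat_lit 0) (nat_lit 688378912) (nat_lit 76) (nat_lit 688378912) (nat_lit 139) (nat_lit 1) (nat_lit 137) (nat_lit 1) (nat_lit 138) (nat_lit 1) (nat_lit 433) (nat_lit 346) (nat_lit 241)) (XT.lf (nat_lit 228) (nat_lit 968485838) (nat_lit 0) (nat_lit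 202158796) (nat_lit 152) (nat_lit 202158796) (nat_lit 137) (nat_lit 1) (nat_lit 134) (nat_lit 1) (nat_lit 136) (nat_lit 1) (nat_lit 434) (nat_lit 346) (nat_lit 240))) (XT.nd (nat_lit 78) (nat_lit 76) (nat_lit 0) (XT.lf (nat_lit 76) (nat_lit 271443355) (nat_lit 0) (nat_lit 815885299) (nat_lit 228) (nat_lit 271443355) (nat_lit 135) (nat_lit 1) (nat_lit 134) (nat_lit 1) (nat_lit 137) (nat_lit 1) (nat_lit 435) (nat_lit 346) (nat_lit 239)) (XT.lf (nat_lit 152) (nat_lit 121684799) (nat_lit 0) (nat_lit 611615747) (nat_lit 76) (nat_lit 611615747) (nat_lit 135) (nat_lit 1) (nat_lit 133) (nat_lit 1) (nat_lit 134) (nat_lit 1) (nat_lit 436) (nat_lit 346) (nat_lit 238)))) (XT.nd (nat_lit 156) (nat_lit 0) (nat_lit 76) (XT.nd (nat_lit 78) (nat_lit 0) (nat_lit 0) (XT.lf (nat_lit 1292) (nat_lit 458696314) (nat_lit 0) (nat_lit 1578128645) (nat_lit 1292) (nat_lit 458696314) (nat_lit 391) (nat_lit 1) (nat_lit 374) (nat_lit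 0) (nat_lit 391) (nat_lit 0) (nat_lit 326) (nat_lit 347) (nat_lit 347)) (XT.lf (nat_lit 1292) (nat_lit 1792593233) (nat_lit 76) (nat_lit 1562656796) (nat_lit 0) (nat_lit 1562656796) (nat_lit 391) (nat_lit 1) (nat_lit 375) (nat_lit 1) (nat_lit 374) (nat_lit 0) (nat_lit 327) (nat_lit 347) (nat_lit 346))) (XT.nd (nat_lit 78) (nat_lit 0) (nat_lit 0) (XT.lf (nat_lit 1292) (nat_lit 866940828) (nat_lit 0) (nat_lit 3112502669) (nat_lit 1216) (nat_lit 866940828) (nat_lit 392) (nat_lit 1) (nat_lit 375) (nat_lit 1) (nat_lit 391) (nat_lit 1) (nat_lit 328) (nat_lit 347) (nat_lit 345)) (XT.nd (nat_lit 78) (nat_lit 0) (nat_lit 76) (XT.lf (nat_lit 1292) (nat_lit 1646365392) (nat_lit 76) (nat_lit 1564845416) (nat_lit 0) (nat_lit 1564845416) (nat_lit 392) (nat_lit 1) (nat_lit 376) (nat_lit 1) (nat_lit 375) (nat_lit 1) (nat_lit 329) (nat_lit 347) (nat_lit 344)) (XT.lf (nat_lit 1292) (nat_lit 772548749) (nat_lit 0) (nat_lit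 3162204242) (nat_lit 1216) (nat_lit 772548749) (nat_lit 393) (nat_lit 1) (nat_lit 376) (nat_lit 1) (nat_lit 392) (nat_lit 1) (nat_lit 330) (nat_lit 347) (nat_lit 343)))))) (XT.nd (nat_lit 390) (nat_lit 988) (nat_lit 0) (XT.nd (nat_lit 156) (nat_lit 0) (nat_lit 76) (XT.nd (nat_lit 78) (nat_lit 0) (nat_lit 76) (XT.lf (nat_lit 1292) (nat_lit 1415777154) (nat_lit 76) (nat_lit 1611934844) (nat_lit 0) (nat_lit 1611934844) (nat_lit 393) (nat_lit 1) (nat_lit 377) (nat_lit 1) (nat_lit 376) (nat_lit 1) (nat_lit 331) (nat_lit 347) (nat_lit 342)) (XT.lf (nat_lit 1292) (nat_lit 638102912) (nat_lit 0) (nat_lit 3297348372) (nat_lit 1216) (nat_lit 638102912) (nat_lit 394) (nat_lit 1) (nat_lit 377) (nat_lit 1) (nat_lit 393) (nat_lit 1) (nat_lit 332) (nat_lit 347) (nat_lit 341))) (XT.nd (nat_lit 78) (nat_lit 0) (nat_lit 76) (XT.lf (nat_lit 1292) (nat_lit 1108372735) (nat_lit 76) (nat_lit 1700036141) (nat_lit 0) (nat_lit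 1700036141) (nat_lit 394) (nat_lit 1) (nat_lit 378) (nat_lit 1) (nat_lit 377) (nat_lit 1) (nat_lit 333) (nat_lit 347) (nat_lit 340)) (XT.nd (nat_lit 78) (nat_lit 0) (nat_lit 0) (XT.lf (nat_lit 1292) (nat_lit 467227000) (nat_lit 0) (nat_lit 3510458592) (nat_lit 1216) (nat_lit 467227000) (nat_lit 395) (nat_lit 1) (nat_lit 378) (nat_lit 1) (nat_lit 394) (nat_lit 1) (nat_lit 334) (nat_lit 347) (nat_lit 339)) (XT.lf (nat_lit 1292) (nat_lit 731184600) (nat_lit 76) (nat_lit 1825521805) (nat_lit 0) (nat_lit 1825521805) (nat_lit 395) (nat_lit 1) (nat_lit 379) (nat_lit 1) (nat_lit 378) (nat_lit 1) (nat_lit 335) (nat_lit 347) (nat_lit 338))))) (XT.nd (nat_lit 156) (nat_lit 1216) (nat_lit 0) (XT.nd (nat_lit 78) (nat_lit 0) (nat_lit 0) (XT.lf (nat_lit 1292) (nat_lit 263298107) (nat_lit 0) (nat_lit 3794562514) (nat_lit 1216) (nat_lit 263298107) (nat_lit 396) (nat_lit 1) (nat_lit 379) (nat_lit 1) (nat_lit 395) (nat_lit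 1) (nat_lit 336) (nat_lit 347) (nat_lit 337)) (XT.lf (nat_lit 1292) (nat_lit 290765123) (nat_lit 76) (nat_lit 1985009653) (nat_lit 0) (nat_lit 1985009653) (nat_lit 396) (nat_lit 1) (nat_lit 380) (nat_lit 1) (nat_lit 379) (nat_lit 1) (nat_lit 337) (nat_lit 347) (nat_lit 336))) (XT.nd (nat_lit 78) (nat_lit 1292) (nat_lit 0) (XT.lf (nat_lit 1292) (nat_lit 29462017) (nat_lit 0) (nat_lit 4143160719) (nat_lit 1216) (nat_lit 29462017) (nat_lit 397) (nat_lit 1) (nat_lit 380) (nat_lit 1) (nat_lit 396) (nat_lit 1) (nat_lit 338) (nat_lit 347) (nat_lit 335)) (XT.nd (nat_lit 78) (nat_lit 0) (nat_lit 0) (XT.lf (nat_lit 1368) (nat_lit 1970551765) (nat_lit 0) (nat_lit 202748530) (nat_lit 1292) (nat_lit 1970551765) (nat_lit 381) (nat_lit 1) (nat_lit 363) (nat_lit 1) (nat_lit 380) (nat_lit 1) (nat_lit 339) (nat_lit 347) (nat_lit 334)) (XT.lf (nat_lit 1368) (nat_lit 3629055871) (nat_lit 76) (nat_lit 229084269) (nat_lit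 0) (nat_lit 229084269) (nat_lit 381) (nat_lit 1) (nat_lit 364) (nat_lit 1) (nat_lit 363) (nat_lit 1) (nat_lit 340) (nat_lit 347) (nat_lit 333))))))) (XT.nd (nat_lit 702) (nat_lit 3344) (nat_lit 0) (XT.nd (nat_lit 312) (nat_lit 1216) (nat_lit 0) (XT.nd (nat_lit 156) (nat_lit 760) (nat_lit 0) (XT.nd (nat_lit 78) (nat_lit 0) (nat_lit 0) (XT.lf (nat_lit 1368) (nat_lit 1645082865) (nat_lit 0) (nat_lit 741033835) (nat_lit 1292) (nat_lit 1645082865) (nat_lit 382) (nat_lit 1) (nat_lit 364) (nat_lit 1) (nat_lit 381) (nat_lit 1) (nat_lit 341) (nat_lit 347) (nat_lit 332)) (XT.lf (nat_lit 1368) (nat_lit 2953881141) (nat_lit 76) (nat_lit 511356885) (nat_lit 0) (nat_lit 511356885) (nat_lit 382) (nat_lit 1) (nat_lit 365) (nat_lit 1) (nat_lit 364) (nat_lit 1) (nat_lit 342) (nat_lit 347) (nat_lit 331))) (XT.nd (nat_lit 78) (nat_lit 836) (nat_lit 0) (XT.lf (nat_lit 76) (nat_lit 1299072449) (nat_lit 0) (nat_lit 1324583949)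 (nat_lit 1292) (nat_lit 1299072449) (nat_lit 366) (nat_lit 1) (nat_lit 365) (nat_lit 1) (nat_lit 382) (nat_lit 1) (nat_lit 343) (nat_lit 347) (nat_lit 330)) (XT.lf (nat_lit 912) (nat_lit 2239783790) (nat_lit 0) (nat_lit 815134836) (nat_lit 836) (nat_lit 815134836) (nat_lit 366) (nat_lit 1) (nat_lit 354) (nat_lit 1) (nat_lit 365) (nat_lit 1) (nat_lit 344) (nat_lit 347) (nat_lit 329)))) (XT.nd (nat_lit 156) (nat_lit 608) (nat_lit 0) (XT.nd (nat_lit 78) (nat_lit 608) (nat_lit 0) (XT.lf (nat_lit 76) (nat_lit 934842153) (nat_lit 0) (nat_lit 1948582101) (nat_lit 912) (nat_lit 934842153) (nat_lit 355) (nat_lit 1) (nat_lit 354) (nat_lit 1) (nat_lit 366) (nat_lit 1) (nat_lit 345) (nat_lit 347) (nat_lit 328)) (XT.lf (nat_lit 684) (nat_lit 1491260673) (nat_lit 0) (nat_lit 1138085309) (nat_lit 608) (nat_lit 1138085309) (nat_lit 355) (nat_lit 1) (nat_lit 346) (nat_lit 1) (nat_lit 354) (nat_lit 1) (nat_lit 346) (nat_lit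 347) (nat_lit 327))) (XT.nd (nat_lit 78) (nat_lit 608) (nat_lit 0) (XT.lf (nat_lit 76) (nat_lit 554547064) (nat_lit 0) (nat_lit 2608552635) (nat_lit 684) (nat_lit 554547064) (nat_lit 347) (nat_lit 1) (nat_lit 346) (nat_lit 1) (nat_lit 355) (nat_lit 1) (nat_lit 347) (nat_lit 347) (nat_lit 326)) (XT.nd (nat_lit 78) (nat_lit 0) (nat_lit 0) (XT.lf (nat_lit 684) (nat_lit 712484605) (nat_lit 0) (nat_lit 1478041395) (nat_lit 608) (nat_lit 1478041395) (nat_lit 347) (nat_lit 1) (nat_lit 338) (nat_lit 1) (nat_lit 346) (nat_lit 1) (nat_lit 348) (nat_lit 347) (nat_lit 325)) (XT.lf (nat_lit 76) (nat_lit 160186256) (nat_lit 0) (nat_lit 3300339547) (nat_lit 684) (nat_lit 160186256) (nat_lit 339) (nat_lit 1) (nat_lit 338) (nat_lit 1) (nat_lit 347) (nat_lit 1) (nat_lit 349) (nat_lit 347) (nat_lit 324)))))) (XT.nd (nat_lit 390) (nat_lit 1596) (nat_lit 0) (XT.nd (nat_lit 156) (nat_lit 532) (nat_lit 0) (XT.nd (nat_lit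 78) (nat_lit 608) (nat_lit 0) (XT.lf (nat_lit 76) (nat_lit 1741207370) (nat_lit 0) (nat_lit 90866685) (nat_lit 608) (nat_lit 1741207370) (nat_lit 331) (nat_lit 1) (nat_lit 330) (nat_lit 1) (nat_lit 338) (nat_lit 1) (nat_lit 350) (nat_lit 347) (nat_lit 323)) (XT.lf (nat_lit 684) (nat_lit 3039082499) (nat_lit 0) (nat_lit 243971760) (nat_lit 608) (nat_lit 243971760) (nat_lit 331) (nat_lit 1) (nat_lit 322) (nat_lit 1) (nat_lit 330) (nat_lit 1) (nat_lit 351) (nat_lit 347) (nat_lit 322))) (XT.nd (nat_lit 78) (nat_lit 532) (nat_lit 0) (XT.lf (nat_lit 76) (nat_lit 1289286460) (nat_lit 0) (nat_lit 902668531) (nat_lit 684) (nat_lit 1289286460) (nat_lit 323) (nat_lit 1) (nat_lit 322) (nat_lit 1) (nat_lit 331) (nat_lit 1) (nat_lit 352) (nat_lit 347) (nat_lit 321)) (XT.nd (nat_lit 78) (nat_lit 0) (nat_lit 0) (XT.lf (nat_lit 608) (nat_lit 2122626551) (nat_lit 0) (nat_lit 656953053) (nat_lit 532) (nat_lit 656953053)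 (nat_lit 323) (nat_lit 1) (nat_lit 315) (nat_lit 1) (nat_lit 322) (nat_lit 1) (nat_lit 353) (nat_lit 347) (nat_lit 320)) (XT.lf (nat_lit 76) (nat_lit 829472034) (nat_lit 0) (nat_lit 1733569873) (nat_lit 608) (nat_lit 829472034) (nat_lit 316) (nat_lit 1) (nat_lit 315) (nat_lit 1) (nat_lit 323) (nat_lit 1) (nat_lit 354) (nat_lit 347) (nat_lit 319))))) (XT.nd (nat_lit 156) (nat_lit 1064) (nat_lit 0) (XT.nd (nat_lit 78) (nat_lit 0) (nat_lit 0) (XT.lf (nat_lit 608) (nat_lit 1191771117) (nat_lit 0) (nat_lit 1078755591) (nat_lit 532) (nat_lit 1078755591) (nat_lit 316) (nat_lit 1) (nat_lit 308) (nat_lit 1) (nat_lit 315) (nat_lit 1) (nat_lit 355) (nat_lit 347) (nat_lit 318)) (XT.lf (nat_lit 76) (nat_lit 363202716) (nat_lit 0) (nat_lit 2580560722) (nat_lit 608) (nat_lit 363202716) (nat_lit 309) (nat_lit 1) (nat_lit 308) (nat_lit 1) (nat_lit 316) (nat_lit 1) (nat_lit 356) (nat_lit 347) (nat_lit 317))) (XT.nd (nat_lit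 78) (nat_lit 608) (nat_lit 0) (XT.lf (nat_lit 532) (nat_lit 249294472) (nat_lit 0) (nat_lit 1507925581) (nat_lit 456) (nat_lit 1507925581) (nat_lit 309) (nat_lit 1) (nat_lit 302) (nat_lit 1) (nat_lit 308) (nat_lit 1) (nat_lit 357) (nat_lit 347) (nat_lit 316)) (XT.nd (nat_lit 78) (nat_lit 0) (nat_lit 0) (XT.lf (nat_lit 608) (nat_lit 3010079002) (nat_lit 0) (nat_lit 107133430) (nat_lit 532) (nat_lit 107133430) (nat_lit 302) (nat_lit 1) (nat_lit 294) (nat_lit 1) (nat_lit 301) (nat_lit 1) (nat_lit 358) (nat_lit 347) (nat_lit 315)) (XT.lf (nat_lit 76) (nat_lit 1247629206) (nat_lit 0) (nat_lit 688538182) (nat_lit 608) (nat_lit 1247629206) (nat_lit 295) (nat_lit 1) (nat_lit 294) (nat_lit 1) (nat_lit 302) (nat_lit 1) (nat_lit 359) (nat_lit 347) (nat_lit 314))))))))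
noncomputable def ec79 : XT := (XT.nd (nat_lit 1482) (nat_lit 3496) (nat_lit 0) (XT.nd (nat_lit 702) (nat_lit 2280) (nat_lit 0) (XT.nd (nat_lit 312) (nat_lit 1292) (nat_lit 0) (XT.nd (nat_lit 156) (nat_lit 456) (nat_lit 0) (XT.nd (nat_lit 78) (nat_lit 0) (nat_lit 0) (XT.lf (nat_lit 532) (nat_lit 1988682224) (nat_lit 0) (nat_lit 577774769) (nat_lit 456) (nat_lit 577774769) (nat_lit 295) (nat_lit 1) (nat_lit 288) (nat_lit 1) (nat_lit 294) (nat_lit 1) (nat_lit 360) (nat_lit 347) (nat_lit 313)) (XT.lf (nat_lit 76) (nat_lit 738585379) (nat_lit 0) (nat_lit 1628075051) (nat_lit 532) (nat_lit 738585379) (nat_lit 289) (nat_lit 1) (nat_lit 288) (nat_lit 1) (nat_lit 295) (nat_lit 1) (nat_lit 361) (nat_lit 347) (nat_lit 312))) (XT.nd (nat_lit 78) (nat_lit 0) (nat_lit 0) (XT.lf (nat_lit 532) (nat_lit 964596164) (nat_lit 0) (nat_lit 1051167153) (nat_lit 456) (nat_lit 1051167153) (nat_lit 289) (nat_lit 1) (nat_lit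 282) (nat_lit 1) (nat_lit 288) (nat_lit 1) (nat_lit 362) (nat_lit 347) (nat_lit 311)) (XT.lf (nat_lit 76) (nat_lit 228700235) (nat_lit 0) (nat_lit 2572052475) (nat_lit 532) (nat_lit 228700235) (nat_lit 283) (nat_lit 1) (nat_lit 282) (nat_lit 1) (nat_lit 289) (nat_lit 1) (nat_lit 363) (nat_lit 347) (nat_lit 310)))) (XT.nd (nat_lit 156) (nat_lit 380) (nat_lit 0) (XT.nd (nat_lit 78) (nat_lit 456) (nat_lit 0) (XT.lf (nat_lit 76) (nat_lit 1466625956) (nat_lit 0) (nat_lit 59063259) (nat_lit 456) (nat_lit 1466625956) (nat_lit 277) (nat_lit 1) (nat_lit 276) (nat_lit 1) (nat_lit 282) (nat_lit 1) (nat_lit 364) (nat_lit 347) (nat_lit 309)) (XT.lf (nat_lit 532) (nat_lit 2399291965) (nat_lit 0) (nat_lit 278346417) (nat_lit 456) (nat_lit 278346417) (nat_lit 277) (nat_lit 1) (nat_lit 270) (nat_lit 1) (nat_lit 276) (nat_lit 1) (nat_lit 365) (nat_lit 347) (nat_lit 308))) (XT.nd (nat_lit 78) (nat_lit 380) (nat_lit 0)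 (XT.lf (nat_lit 76) (nat_lit 928564441) (nat_lit 0) (nat_lit 1062891808) (nat_lit 532) (nat_lit 928564441) (nat_lit 271) (nat_lit 1) (nat_lit 270) (nat_lit 1) (nat_lit 277) (nat_lit 1) (nat_lit 366) (nat_lit 347) (nat_lit 307)) (XT.nd (nat_lit 78) (nat_lit 0) (nat_lit 0) (XT.lf (nat_lit 456) (nat_lit 1320336448) (nat_lit 0) (nat_lit 782232059) (nat_lit 380) (nat_lit 782232059) (nat_lit 271) (nat_lit 1) (nat_lit 265) (nat_lit 1) (nat_lit 270) (nat_lit 1) (nat_lit 367) (nat_lit 347) (nat_lit 306)) (XT.lf (nat_lit 76) (nat_lit 393053054) (nat_lit 0) (nat_lit 2064119410) (nat_lit 456) (nat_lit 393053054) (nat_lit 266) (nat_lit 1) (nat_lit 265) (nat_lit 1) (nat_lit 271) (nat_lit 1) (nat_lit 368) (nat_lit 347) (nat_lit 305)))))) (XT.nd (nat_lit 390) (nat_lit 1064) (nat_lit 0) (XT.nd (nat_lit 156) (nat_lit 380) (nat_lit 0) (XT.nd (nat_lit 78) (nat_lit 456) (nat_lit 0) (XT.lf (nat_lit 456) (nat_lit 247199410)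 (nat_lit 0) (nat_lit 1284434343) (nat_lit 380) (nat_lit 1284434343) (nat_lit 266) (nat_lit 1) (nat_lit 260) (nat_lit 1) (nat_lit 265) (nat_lit 1) (nat_lit 369) (nat_lit 347) (nat_lit 304)) (XT.lf (nat_lit 456) (nat_lit 2506944342) (nat_lit 0) (nat_lit 137864254) (nat_lit 380) (nat_lit 137864254) (nat_lit 260) (nat_lit 1) (nat_lit 254) (nat_lit 1) (nat_lit 259) (nat_lit 1) (nat_lit 370) (nat_lit 347) (nat_lit 303))) (XT.nd (nat_lit 78) (nat_lit 380) (nat_lit 0) (XT.lf (nat_lit 76) (nat_lit 973308787) (nat_lit 0) (nat_lit 802840548) (nat_lit 456) (nat_lit 973308787) (nat_lit 255) (nat_lit 1) (nat_lit 254) (nat_lit 1) (nat_lit 260) (nat_lit 1) (nat_lit 371) (nat_lit 347) (nat_lit 302)) (XT.nd (nat_lit 78) (nat_lit 0) (nat_lit 0) (XT.lf (nat_lit 456) (nat_lit 1394740020) (nat_lit 0) (nat_lit 661120772) (nat_lit 380) (nat_lit 661120772) (nat_lit 255) (nat_lit 1) (nat_lit 249) (nat_lit 1) (nat_lit 254) (nat_lit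 1) (nat_lit 372) (nat_lit 347) (nat_lit 301)) (XT.lf (nat_lit 76) (nat_lit 422563630) (nat_lit 0) (nat_lit 1839921449) (nat_lit 456) (nat_lit 422563630) (nat_lit 250) (nat_lit 1) (nat_lit 249) (nat_lit 1) (nat_lit 255) (nat_lit 1) (nat_lit 373) (nat_lit 347) (nat_lit 300))))) (XT.nd (nat_lit 156) (nat_lit 304) (nat_lit 0) (XT.nd (nat_lit 78) (nat_lit 456) (nat_lit 0) (XT.lf (nat_lit 380) (nat_lit 293484195) (nat_lit 0) (nat_lit 1180018176) (nat_lit 304) (nat_lit 1180018176) (nat_lit 250) (nat_lit 1) (nat_lit 245) (nat_lit 1) (nat_lit 249) (nat_lit 1) (nat_lit 374) (nat_lit 347) (nat_lit 299)) (XT.lf (nat_lit 456) (nat_lit 2380088585) (nat_lit 0) (nat_lit 121297722) (nat_lit 380) (nat_lit 121297722) (nat_lit 245) (nat_lit 1) (nat_lit 239) (nat_lit 1) (nat_lit 244) (nat_lit 1) (nat_lit 375) (nat_lit 347) (nat_lit 298))) (XT.nd (nat_lit 78) (nat_lit 304) (nat_lit 0) (XT.lf (nat_lit 76) (nat_lit 905798637)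 (nat_lit 0) (nat_lit 780379853) (nat_lit 456) (nat_lit 905798637) (nat_lit 240) (nat_lit 1) (nat_lit 239) (nat_lit 1) (nat_lit 245) (nat_lit 1) (nat_lit 376) (nat_lit 347) (nat_lit 297)) (XT.nd (nat_lit 78) (nat_lit 0) (nat_lit 0) (XT.lf (nat_lit 380) (nat_lit 1252013179) (nat_lit 0) (nat_lit 654964291) (nat_lit 304) (nat_lit 654964291) (nat_lit 240) (nat_lit 1) (nat_lit 235) (nat_lit 1) (nat_lit 239) (nat_lit 1) (nat_lit 377) (nat_lit 347) (nat_lit 296)) (XT.lf (nat_lit 76) (nat_lit 348165740) (nat_lit 0) (nat_lit 1836088680) (nat_lit 380) (nat_lit 348165740) (nat_lit 236) (nat_lit 1) (nat_lit 235) (nat_lit 1) (nat_lit 240) (nat_lit 1) (nat_lit 378) (nat_lit 347) (nat_lit 295))))))) (XT.nd (nat_lit 702) (nat_lit 1672) (nat_lit 0) (XT.nd (nat_lit 312) (nat_lit 836) (nat_lit 0) (XT.nd (nat_lit 156) (nat_lit 304) (nat_lit 0) (XT.nd (nat_lit 78) (nat_lit 380) (nat_lit 0) (XT.lf (nat_lit 380) (nat_lit 138833816)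 (nat_lit 0) (nat_lit 1182200148) (nat_lit 304) (nat_lit 1182200148) (nat_lit 236) (nat_lit 1) (nat_lit 231) (nat_lit 1) (nat_lit 235) (nat_lit 1) (nat_lit 379) (nat_lit 347) (nat_lit 294)) (XT.lf (nat_lit 380) (nat_lit 2074782225) (nat_lit 0) (nat_lit 199920907) (nat_lit 304) (nat_lit 199920907) (nat_lit 231) (nat_lit 1) (nat_lit 226) (nat_lit 1) (nat_lit 230) (nat_lit 1) (nat_lit 380) (nat_lit 347) (nat_lit 293))) (XT.nd (nat_lit 78) (nat_lit 304) (nat_lit 0) (XT.lf (nat_lit 76) (nat_lit 753034187) (nat_lit 0) (nat_lit 940141699) (nat_lit 380) (nat_lit 753034187) (nat_lit 227) (nat_lit 1) (nat_lit 226) (nat_lit 1) (nat_lit 231) (nat_lit 1) (nat_lit 381) (nat_lit 347) (nat_lit 292)) (XT.lf (nat_lit 380) (nat_lit 944701931) (nat_lit 0) (nat_lit 736826655) (nat_lit 304) (nat_lit 736826655) (nat_lit 227) (nat_lit 1) (nat_lit 222) (nat_lit 1) (nat_lit 226) (nat_lit 1) (nat_lit 382) (nat_lit 347) (nat_lit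 291)))) (XT.nd (nat_lit 156) (nat_lit 532) (nat_lit 0) (XT.nd (nat_lit 78) (nat_lit 304) (nat_lit 0) (XT.lf (nat_lit 76) (nat_lit 195166241) (nat_lit 0) (nat_lit 2000706802) (nat_lit 380) (nat_lit 195166241) (nat_lit 223) (nat_lit 1) (nat_lit 222) (nat_lit 1) (nat_lit 227) (nat_lit 1) (nat_lit 383) (nat_lit 347) (nat_lit 290)) (XT.lf (nat_lit 76) (nat_lit 1099831449) (nat_lit 0) (nat_lit 164236429) (nat_lit 304) (nat_lit 1099831449) (nat_lit 219) (nat_lit 1) (nat_lit 218) (nat_lit 1) (nat_lit 222) (nat_lit 1) (nat_lit 384) (nat_lit 347) (nat_lit 289))) (XT.nd (nat_lit 78) (nat_lit 228) (nat_lit 0) (XT.lf (nat_lit 380) (nat_lit 1636782502) (nat_lit 0) (nat_lit 350250391) (nat_lit 304) (nat_lit 350250391) (nat_lit 219) (nat_lit 1) (nat_lit 214) (nat_lit 1) (nat_lit 218) (nat_lit 1) (nat_lit 385) (nat_lit 347) (nat_lit 288)) (XT.nd (nat_lit 78) (nat_lit 228) (nat_lit 0) (XT.lf (nat_lit 76) (nat_lit 537045456)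 (nat_lit 0) (nat_lit 1236879540) (nat_lit 380) (nat_lit 537045456) (nat_lit 215) (nat_lit 1) (nat_lit 214) (nat_lit 1) (nat_lit 219) (nat_lit 1) (nat_lit 386) (nat_lit 347) (nat_lit 287)) (XT.lf (nat_lit 304) (nat_lit 515662129) (nat_lit 0) (nat_lit 884704347) (nat_lit 228) (nat_lit 884704347) (nat_lit 215) (nat_lit 1) (nat_lit 211) (nat_lit 1) (nat_lit 214) (nat_lit 1) (nat_lit 387) (nat_lit 347) (nat_lit 286)))))) (XT.nd (nat_lit 390) (nat_lit 760) (nat_lit 0) (XT.nd (nat_lit 156) (nat_lit 532) (nat_lit 0) (XT.nd (nat_lit 78) (nat_lit 0) (nat_lit 0) (XT.lf (nat_lit 380) (nat_lit 2228461094) (nat_lit 0) (nat_lit 15648714) (nat_lit 304) (nat_lit 15648714) (nat_lit 211) (nat_lit 1) (nat_lit 206) (nat_lit 1) (nat_lit 210) (nat_lit 1) (nat_lit 388) (nat_lit 347) (nat_lit 285)) (XT.lf (nat_lit 76) (nat_lit 830209174) (nat_lit 0) (nat_lit 573978112) (nat_lit 380) (nat_lit 830209174) (nat_lit 207) (nat_lit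 1) (nat_lit 206) (nat_lit 1) (nat_lit 211) (nat_lit 1) (nat_lit 389) (nat_lit 347) (nat_lit 284))) (XT.nd (nat_lit 78) (nat_lit 304) (nat_lit 0) (XT.lf (nat_lit 304) (nat_lit 1103293299) (nat_lit 0) (nat_lit 553157949) (nat_lit 228) (nat_lit 553157949) (nat_lit 207) (nat_lit 1) (nat_lit 203) (nat_lit 1) (nat_lit 206) (nat_lit 1) (nat_lit 390) (nat_lit 347) (nat_lit 283)) (XT.nd (nat_lit 78) (nat_lit 304) (nat_lit 0) (XT.lf (nat_lit 76) (nat_lit 275735749) (nat_lit 0) (nat_lit 1633754230) (nat_lit 304) (nat_lit 275735749) (nat_lit 204) (nat_lit 1) (nat_lit 203) (nat_lit 1) (nat_lit 207) (nat_lit 1) (nat_lit 391) (nat_lit 347) (nat_lit 282)) (XT.lf (nat_lit 76) (nat_lit 1080398294) (nat_lit 0) (nat_lit 289264) (nat_lit 304) (nat_lit 1080398294) (nat_lit 200) (nat_lit 1) (nat_lit 199) (nat_lit 1) (nat_lit 203) (nat_lit 1) (nat_lit 392) (nat_lit 347) (nat_lit 281))))) (XT.nd (nat_lit 156) (nat_lit 532)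 (nat_lit 0) (XT.nd (nat_lit 78) (nat_lit 0) (nat_lit 0) (XT.lf (nat_lit 304) (nat_lit 1606605668) (nat_lit 0) (nat_lit 265366484) (nat_lit 228) (nat_lit 265366484) (nat_lit 200) (nat_lit 1) (nat_lit 196) (nat_lit 1) (nat_lit 199) (nat_lit 1) (nat_lit 393) (nat_lit 347) (nat_lit 280)) (XT.lf (nat_lit 76) (nat_lit 526324622) (nat_lit 0) (nat_lit 1061170533) (nat_lit 304) (nat_lit 526324622) (nat_lit 197) (nat_lit 1) (nat_lit 196) (nat_lit 1) (nat_lit 200) (nat_lit 1) (nat_lit 394) (nat_lit 347) (nat_lit 279))) (XT.nd (nat_lit 78) (nat_lit 304) (nat_lit 0) (XT.lf (nat_lit 304) (nat_lit 504423840) (nat_lit 0) (nat_lit 793129537) (nat_lit 228) (nat_lit 793129537) (nat_lit 197) (nat_lit 1) (nat_lit 193) (nat_lit 1) (nat_lit 196) (nat_lit 1) (nat_lit 395) (nat_lit 347) (nat_lit 278)) (XT.nd (nat_lit 78) (nat_lit 0) (nat_lit 0) (XT.lf (nat_lit 304) (nat_lit 2035549163) (nat_lit 0) (nat_lit 16253141) (nat_lit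 228) (nat_lit 16253141) (nat_lit 193) (nat_lit 1) (nat_lit 189) (nat_lit 1) (nat_lit 192) (nat_lit 1) (nat_lit 396) (nat_lit 347) (nat_lit 277)) (XT.lf (nat_lit 76) (nat_lit 740775308) (nat_lit 0) (nat_lit 563808177) (nat_lit 304) (nat_lit 740775308) (nat_lit 190) (nat_lit 1) (nat_lit 189) (nat_lit 1) (nat_lit 193) (nat_lit 1) (nat_lit 397) (nat_lit 347) (nat_lit 276))))))))
noncomputable def ec80 : XT := (XT.nd (nat_lit 1404) (nat_lit 1824) (nat_lit 0) (XT.nd (nat_lit 702) (nat_lit 1140) (nat_lit 0) (XT.nd (nat_lit 312) (nat_lit 608) (nat_lit 0) (XT.nd (nat_lit 156) (nat_lit 456) (nat_lit 0) (XT.nd (nat_lit 78) (nat_lit 0) (nat_lit 0) (XT.lf (nat_lit 304) (nat_lit 938160421) (nat_lit 0) (nat_lit 542500896) (nat_lit 228) (nat_lit 542500896) (nat_lit 190) (nat_lit 1) (nat_lit 186) (nat_lit 1) (nat_lit 189) (nat_lit 1) (nat_lit 398) (nat_lit 347) (nat_lit 275)) (XT.lf (nat_lit 76) (nat_lit 200654203)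 (nat_lit 0) (nat_lit 1600033185) (nat_lit 304) (nat_lit 200654203) (nat_lit 187) (nat_lit 1) (nat_lit 186) (nat_lit 1) (nat_lit 190) (nat_lit 1) (nat_lit 399) (nat_lit 347) (nat_lit 274))) (XT.nd (nat_lit 78) (nat_lit 228) (nat_lit 0) (XT.lf (nat_lit 76) (nat_lit 923356354) (nat_lit 0) (nat_lit 132947819) (nat_lit 228) (nat_lit 923356354) (nat_lit 184) (nat_lit 1) (nat_lit 183) (nat_lit 1) (nat_lit 186) (nat_lit 1) (nat_lit 400) (nat_lit 347) (nat_lit 273)) (XT.lf (nat_lit 304) (nat_lit 1309258307) (nat_lit 0) (nat_lit 324544414) (nat_lit 228) (nat_lit 324544414) (nat_lit 184) (nat_lit 1) (nat_lit 180) (nat_lit 1) (nat_lit 183) (nat_lit 1) (nat_lit 401) (nat_lit 347) (nat_lit 272)))) (XT.nd (nat_lit 156) (nat_lit 456) (nat_lit 0) (XT.nd (nat_lit 78) (nat_lit 152) (nat_lit 0) (XT.lf (nat_lit 76) (nat_lit 387247482) (nat_lit 0) (nat_lit 1162781996) (nat_lit 304) (nat_lit 387247482) (nat_lit 181) (nat_lit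 1) (nat_lit 180) (nat_lit 1) (nat_lit 184) (nat_lit 1) (nat_lit 402) (nat_lit 347) (nat_lit 271)) (XT.lf (nat_lit 228) (nat_lit 243907430) (nat_lit 0) (nat_lit 836290508) (nat_lit 152) (nat_lit 836290508) (nat_lit 181) (nat_lit 1) (nat_lit 178) (nat_lit 1) (nat_lit 180) (nat_lit 1) (nat_lit 403) (nat_lit 347) (nat_lit 270))) (XT.nd (nat_lit 78) (nat_lit 152) (nat_lit 0) (XT.lf (nat_lit 304) (nat_lit 1625118198) (nat_lit 0) (nat_lit 135479133) (nat_lit 228) (nat_lit 135479133) (nat_lit 178) (nat_lit 1) (nat_lit 174) (nat_lit 1) (nat_lit 177) (nat_lit 1) (nat_lit 404) (nat_lit 347) (nat_lit 269)) (XT.nd (nat_lit 78) (nat_lit 152) (nat_lit 0) (XT.lf (nat_lit 76) (nat_lit 546946724) (nat_lit 0) (nat_lit 781828622) (nat_lit 304) (nat_lit 546946724) (nat_lit 175) (nat_lit 1) (nat_lit 174) (nat_lit 1) (nat_lit 178) (nat_lit 1) (nat_lit 405) (nat_lit 347) (nat_lit 268)) (XT.lf (nat_lit 228) (nat_lit 570476276)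 (nat_lit 0) (nat_lit 642630496) (nat_lit 152) (nat_lit 642630496) (nat_lit 175) (nat_lit 1) (nat_lit 172) (nat_lit 1) (nat_lit 174) (nat_lit 1) (nat_lit 406) (nat_lit 347) (nat_lit 267)))))) (XT.nd (nat_lit 312) (nat_lit 760) (nat_lit 0) (XT.nd (nat_lit 156) (nat_lit 152) (nat_lit 0) (XT.nd (nat_lit 78) (nat_lit 228) (nat_lit 0) (XT.lf (nat_lit 76) (nat_lit 28327992) (nat_lit 0) (nat_lit 1779514050) (nat_lit 228) (nat_lit 28327992) (nat_lit 173) (nat_lit 1) (nat_lit 172) (nat_lit 1) (nat_lit 175) (nat_lit 1) (nat_lit 407) (nat_lit 347) (nat_lit 266)) (XT.lf (nat_lit 76) (nat_lit 682928236) (nat_lit 0) (nat_lit 450675555) (nat_lit 228) (nat_lit 682928236) (nat_lit 170) (nat_lit 1) (nat_lit 169) (nat_lit 1) (nat_lit 172) (nat_lit 1) (nat_lit 408) (nat_lit 347) (nat_lit 265))) (XT.nd (nat_lit 78) (nat_lit 0) (nat_lit 0) (XT.lf (nat_lit 228) (nat_lit 850324553) (nat_lit 0) (nat_lit 473490436) (nat_lit 152)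 (nat_lit 473490436) (nat_lit 170) (nat_lit 1) (nat_lit 167) (nat_lit 1) (nat_lit 169) (nat_lit 1) (nat_lit 409) (nat_lit 347) (nat_lit 264)) (XT.lf (nat_lit 76) (nat_lit 170694535) (nat_lit 0) (nat_lit 1437004535) (nat_lit 228) (nat_lit 170694535) (nat_lit 168) (nat_lit 1) (nat_lit 167) (nat_lit 1) (nat_lit 170) (nat_lit 1) (nat_lit 410) (nat_lit 347) (nat_lit 263)))) (XT.nd (nat_lit 156) (nat_lit 380) (nat_lit 0) (XT.nd (nat_lit 78) (nat_lit 152) (nat_lit 0) (XT.lf (nat_lit 76) (nat_lit 798008967) (nat_lit 0) (nat_lit 163556238) (nat_lit 228) (nat_lit 798008967) (nat_lit 165) (nat_lit 1) (nat_lit 164) (nat_lit 1) (nat_lit 167) (nat_lit 1) (nat_lit 411) (nat_lit 347) (nat_lit 262)) (XT.lf (nat_lit 228) (nat_lit 1088962323) (nat_lit 0) (nat_lit 326050861) (nat_lit 152) (nat_lit 326050861) (nat_lit 165) (nat_lit 1) (nat_lit 162) (nat_lit 1) (nat_lit 164) (nat_lit 1) (nat_lit 412) (nat_lit 347) (nat_lit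 261))) (XT.nd (nat_lit 78) (nat_lit 380) (nat_lit 0) (XT.lf (nat_lit 76) (nat_lit 292946758) (nat_lit 0) (nat_lit 1136885500) (nat_lit 228) (nat_lit 292946758) (nat_lit 163) (nat_lit 1) (nat_lit 162) (nat_lit 1) (nat_lit 165) (nat_lit 1) (nat_lit 413) (nat_lit 347) (nat_lit 260)) (XT.nd (nat_lit 78) (nat_lit 228) (nat_lit 0) (XT.lf (nat_lit 228) (nat_lit 86331262) (nat_lit 0) (nat_lit 809185329) (nat_lit 152) (nat_lit 809185329) (nat_lit 163) (nat_lit 1) (nat_lit 160) (nat_lit 1) (nat_lit 162) (nat_lit 1) (nat_lit 414) (nat_lit 347) (nat_lit 259)) (XT.lf (nat_lit 228) (nat_lit 1291276464) (nat_lit 0) (nat_lit 197809192) (nat_lit 152) (nat_lit 197809192) (nat_lit 160) (nat_lit 1) (nat_lit 157) (nat_lit 1) (nat_lit 159) (nat_lit 1) (nat_lit 415) (nat_lit 347) (nat_lit 258))))))) (XT.nd (nat_lit 702) (nat_lit 988) (nat_lit 0) (XT.nd (nat_lit 312) (nat_lit 456) (nat_lit 0) (XT.nd (nat_lit 156) (nat_lit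 228) (nat_lit 0) (XT.nd (nat_lit 78) (nat_lit 152) (nat_lit 0) (XT.lf (nat_lit 76) (nat_lit 397451123) (nat_lit 0) (nat_lit 874307637) (nat_lit 228) (nat_lit 397451123) (nat_lit 158) (nat_lit 1) (nat_lit 157) (nat_lit 1) (nat_lit 160) (nat_lit 1) (nat_lit 416) (nat_lit 347) (nat_lit 257)) (XT.lf (nat_lit 228) (nat_lit 304413885) (nat_lit 0) (nat_lit 673688234) (nat_lit 152) (nat_lit 673688234) (nat_lit 158) (nat_lit 1) (nat_lit 155) (nat_lit 1) (nat_lit 157) (nat_lit 1) (nat_lit 417) (nat_lit 347) (nat_lit 256))) (XT.nd (nat_lit 78) (nat_lit 0) (nat_lit 0) (XT.lf (nat_lit 228) (nat_lit 1461600418) (nat_lit 0) (nat_lit 86544328) (nat_lit 152) (nat_lit 86544328) (nat_lit 155) (nat_lit 1) (nat_lit 152) (nat_lit 1) (nat_lit 154) (nat_lit 1) (nat_lit 418) (nat_lit 347) (nat_lit 255)) (XT.lf (nat_lit 76) (nat_lit 486306604) (nat_lit 0) (nat_lit 644965958) (nat_lit 228) (nat_lit 486306604) (nat_lit 153) (nat_lit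 1) (nat_lit 152) (nat_lit 1) (nat_lit 155) (nat_lit 1) (nat_lit 419) (nat_lit 347) (nat_lit 254)))) (XT.nd (nat_lit 156) (nat_lit 304) (nat_lit 0) (XT.nd (nat_lit 78) (nat_lit 0) (nat_lit 0) (XT.lf (nat_lit 228) (nat_lit 491545150) (nat_lit 0) (nat_lit 554619143) (nat_lit 152) (nat_lit 554619143) (nat_lit 153) (nat_lit 1) (nat_lit 150) (nat_lit 1) (nat_lit 152) (nat_lit 1) (nat_lit 420) (nat_lit 347) (nat_lit 253)) (XT.lf (nat_lit 76) (nat_lit 9810999) (nat_lit 0) (nat_lit 1564713152) (nat_lit 228) (nat_lit 9810999) (nat_lit 151) (nat_lit 1) (nat_lit 150) (nat_lit 1) (nat_lit 153) (nat_lit 1) (nat_lit 421) (nat_lit 347) (nat_lit 252))) (XT.nd (nat_lit 78) (nat_lit 152) (nat_lit 0) (XT.lf (nat_lit 76) (nat_lit 561374624) (nat_lit 0) (nat_lit 445038994) (nat_lit 152) (nat_lit 561374624) (nat_lit 149) (nat_lit 1) (nat_lit 148) (nat_lit 1) (nat_lit 150) (nat_lit 1) (nat_lit 422) (nat_lit 347) (nat_lit 251))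 (XT.nd (nat_lit 78) (nat_lit 0) (nat_lit 0) (XT.lf (nat_lit 228) (nat_lit 651369709) (nat_lit 0) (nat_lit 450107724) (nat_lit 152) (nat_lit 450107724) (nat_lit 149) (nat_lit 1) (nat_lit 146) (nat_lit 1) (nat_lit 148) (nat_lit 1) (nat_lit 423) (nat_lit 347) (nat_lit 250)) (XT.lf (nat_lit 76) (nat_lit 93635233) (nat_lit 0) (nat_lit 1348395701) (nat_lit 228) (nat_lit 93635233) (nat_lit 147) (nat_lit 1) (nat_lit 146) (nat_lit 1) (nat_lit 149) (nat_lit 1) (nat_lit 424) (nat_lit 347) (nat_lit 249)))))) (XT.nd (nat_lit 390) (nat_lit 380) (nat_lit 0) (XT.nd (nat_lit 156) (nat_lit 304) (nat_lit 0) (XT.nd (nat_lit 78) (nat_lit 152) (nat_lit 0) (XT.lf (nat_lit 76) (nat_lit 624305640) (nat_lit 0) (nat_lit 271134774) (nat_lit 152) (nat_lit 624305640) (nat_lit 145) (nat_lit 1) (nat_lit 144) (nat_lit 1) (nat_lit 146) (nat_lit 1) (nat_lit 425) (nat_lit 347) (nat_lit 248)) (XT.lf (nat_lit 228) (nat_lit 787120162) (nat_lit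 0) (nat_lit 358493329) (nat_lit 152) (nat_lit 358493329) (nat_lit 145) (nat_lit 1) (nat_lit 142) (nat_lit 1) (nat_lit 144) (nat_lit 1) (nat_lit 426) (nat_lit 347) (nat_lit 247))) (XT.nd (nat_lit 78) (nat_lit 304) (nat_lit 0) (XT.lf (nat_lit 76) (nat_lit 165638631) (nat_lit 0) (nat_lit 1157418845) (nat_lit 228) (nat_lit 165638631) (nat_lit 143) (nat_lit 1) (nat_lit 142) (nat_lit 1) (nat_lit 145) (nat_lit 1) (nat_lit 427) (nat_lit 347) (nat_lit 246)) (XT.nd (nat_lit 78) (nat_lit 152) (nat_lit 0) (XT.lf (nat_lit 76) (nat_lit 676562774) (nat_lit 0) (nat_lit 120242834) (nat_lit 152) (nat_lit 676562774) (nat_lit 141) (nat_lit 1) (nat_lit 140) (nat_lit 1) (nat_lit 142) (nat_lit 1) (nat_lit 428) (nat_lit 347) (nat_lit 245)) (XT.lf (nat_lit 228) (nat_lit 901663167) (nat_lit 0) (nat_lit 278301578) (nat_lit 152) (nat_lit 278301578) (nat_lit 141) (nat_lit 1) (nat_lit 138) (nat_lit 1) (nat_lit 140) (nat_lit 1) (nat_lit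 429) (nat_lit 347) (nat_lit 244))))) (XT.nd (nat_lit 156) (nat_lit 304) (nat_lit 0) (XT.nd (nat_lit 78) (nat_lit 76) (nat_lit 0) (XT.lf (nat_lit 76) (nat_lit 227211408) (nat_lit 0) (nat_lit 988921293) (nat_lit 228) (nat_lit 227211408) (nat_lit 139) (nat_lit 1) (nat_lit 138) (nat_lit 1) (nat_lit 141) (nat_lit 1) (nat_lit 430) (nat_lit 347) (nat_lit 243)) (XT.lf (nat_lit 152) (nat_lit 10513578) (nat_lit 0) (nat_lit 709030279) (nat_lit 76) (nat_lit 709030279) (nat_lit 139) (nat_lit 1) (nat_lit 137) (nat_lit 1) (nat_lit 138) (nat_lit 1) (nat_lit 431) (nat_lit 347) (nat_lit 242))) (XT.nd (nat_lit 78) (nat_lit 76) (nat_lit 0) (XT.lf (nat_lit 228) (nat_lit 997540413) (nat_lit 0) (nat_lit 208223560) (nat_lit 152) (nat_lit 208223560) (nat_lit 137) (nat_lit 1) (nat_lit 134) (nat_lit 1) (nat_lit 136) (nat_lit 1) (nat_lit 432) (nat_lit 347) (nat_lit 241)) (XT.nd (nat_lit 78) (nat_lit 76) (nat_lit 0) (XT.lf (nat_lit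 76) (nat_lit 279586656) (nat_lit 0) (nat_lit 840361858) (nat_lit 228) (nat_lit 279586656) (nat_lit 135) (nat_lit 1) (nat_lit 134) (nat_lit 1) (nat_lit 137) (nat_lit 1) (nat_lit 433) (nat_lit 347) (nat_lit 240)) (XT.lf (nat_lit 152) (nat_lit 125335343) (nat_lit 0) (nat_lit 629964219) (nat_lit 76) (nat_lit 629964219) (nat_lit 135) (nat_lit 1) (nat_lit 133) (nat_lit 1) (nat_lit 134) (nat_lit 1) (nat_lit 434) (nat_lit 347) (nat_lit 239))))))))
noncomputable def ec81 : XT := (XT.nd (nat_lit 45786) (nat_lit 0) (nat_lit 12008) (XT.nd (nat_lit 45006) (nat_lit 0) (nat_lit 17708) (XT.nd (nat_lit 44616) (nat_lit 0) (nat_lit 18620) (XT.nd (nat_lit 44460) (nat_lit 0) (nat_lit 18544) (XT.nd (nat_lit 78) (nat_lit 0) (nat_lit 0) (XT.lf (nat_lit 228) (nat_lit 1077005006) (nat_lit 0) (nat_lit 147097346) (nat_lit 152) (nat_lit 147097346) (nat_lit 133) (nat_lit 1) (nat_lit 130) (nat_lit 1) (nat_lit 132) (nat_lit 1) (nat_lit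 435) (nat_lit 347) (nat_lit 238)) (XT.lf (nat_lit 76) (nat_lit 323857921) (nat_lit 0) (nat_lit 709483730) (nat_lit 228) (nat_lit 323857921) (nat_lit 131) (nat_lit 1) (nat_lit 130) (nat_lit 1) (nat_lit 133) (nat_lit 1) (nat_lit 436) (nat_lit 347) (nat_lit 237))) (XT.nd (nat_lit 78) (nat_lit 0) (nat_lit 0) (XT.lf (nat_lit 1292) (nat_lit 472457203) (nat_lit 0) (nat_lit 1625472505) (nat_lit 1292) (nat_lit 472457203) (nat_lit 391) (nat_lit 1) (nat_lit 374) (nat_lit 0) (nat_lit 391) (nat_lit 0) (nat_lit 324) (nat_lit 348) (nat_lit 348)) (XT.lf (nat_lit 1292) (nat_lit 1846371030) (nat_lit 76) (nat_lit 1609536500) (nat_lit 0) (nat_lit 1609536500) (nat_lit 391) (nat_lit 1) (nat_lit 375) (nat_lit 1) (nat_lit 374) (nat_lit 0) (nat_lit 325) (nat_lit 348) (nat_lit 347)))) (XT.nd (nat_lit 156) (nat_lit 0) (nat_lit 76) (XT.nd (nat_lit 78) (nat_lit 0) (nat_lit 0) (XT.lf (nat_lit 1292) (nat_lit 892949052) (nat_lit 0)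 (nat_lit 3205877749) (nat_lit 1216) (nat_lit 892949052) (nat_lit 392) (nat_lit 1) (nat_lit 375) (nat_lit 1) (nat_lit 391) (nat_lit 1) (nat_lit 326) (nat_lit 348) (nat_lit 346)) (XT.lf (nat_lit 1292) (nat_lit 1695756354) (nat_lit 76) (nat_lit 1611790779) (nat_lit 0) (nat_lit 1611790779) (nat_lit 392) (nat_lit 1) (nat_lit 376) (nat_lit 1) (nat_lit 375) (nat_lit 1) (nat_lit 327) (nat_lit 348) (nat_lit 345))) (XT.nd (nat_lit 78) (nat_lit 0) (nat_lit 0) (XT.lf (nat_lit 1292) (nat_lit 795725212) (nat_lit 0) (nat_lit 3257070369) (nat_lit 1216) (nat_lit 795725212) (nat_lit 393) (nat_lit 1) (nat_lit 376) (nat_lit 1) (nat_lit 392) (nat_lit 1) (nat_lit 328) (nat_lit 348) (nat_lit 344)) (XT.nd (nat_lit 78) (nat_lit 0) (nat_lit 76) (XT.lf (nat_lit 1292) (nat_lit 1458250468) (nat_lit 76) (nat_lit 1660292890) (nat_lit 0) (nat_lit 1660292890) (nat_lit 393) (nat_lit 1) (nat_lit 377) (nat_lit 1) (nat_lit 376) (nat_lit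 1) (nat_lit 329) (nat_lit 348) (nat_lit 343)) (XT.lf (nat_lit 1292) (nat_lit 657246000) (nat_lit 0) (nat_lit 3396268824) (nat_lit 1216) (nat_lit 657246000) (nat_lit 394) (nat_lit 1) (nat_lit 377) (nat_lit 1) (nat_lit 393) (nat_lit 1) (nat_lit 330) (nat_lit 348) (nat_lit 342)))))) (XT.nd (nat_lit 390) (nat_lit 1064) (nat_lit 0) (XT.nd (nat_lit 156) (nat_lit 0) (nat_lit 76) (XT.nd (nat_lit 78) (nat_lit 0) (nat_lit 76) (XT.lf (nat_lit 1292) (nat_lit 1141623917) (nat_lit 76) (nat_lit 1751037225) (nat_lit 0) (nat_lit 1751037225) (nat_lit 394) (nat_lit 1) (nat_lit 378) (nat_lit 1) (nat_lit 377) (nat_lit 1) (nat_lit 331) (nat_lit 348) (nat_lit 341)) (XT.lf (nat_lit 1292) (nat_lit 481243810) (nat_lit 0) (nat_lit 3615772349) (nat_lit 1216) (nat_lit 481243810) (nat_lit 395) (nat_lit 1) (nat_lit 378) (nat_lit 1) (nat_lit 394) (nat_lit 1) (nat_lit 332) (nat_lit 348) (nat_lit 340))) (XT.nd (nat_lit 78) (nat_lit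 0) (nat_lit 76) (XT.lf (nat_lit 1292) (nat_lit 753120138) (nat_lit 76) (nat_lit 1880287459) (nat_lit 0) (nat_lit 1880287459) (nat_lit 395) (nat_lit 1) (nat_lit 379) (nat_lit 1) (nat_lit 378) (nat_lit 1) (nat_lit 333) (nat_lit 348) (nat_lit 339)) (XT.nd (nat_lit 78) (nat_lit 0) (nat_lit 0) (XT.lf (nat_lit 1292) (nat_lit 271197051) (nat_lit 0) (nat_lit 3908399389) (nat_lit 1216) (nat_lit 271197051) (nat_lit 396) (nat_lit 1) (nat_lit 379) (nat_lit 1) (nat_lit 395) (nat_lit 1) (nat_lit 334) (nat_lit 348) (nat_lit 338)) (XT.lf (nat_lit 1292) (nat_lit 299488076) (nat_lit 76) (nat_lit 2044559943) (nat_lit 0) (nat_lit 2044559943) (nat_lit 396) (nat_lit 1) (nat_lit 380) (nat_lit 1) (nat_lit 379) (nat_lit 1) (nat_lit 335) (nat_lit 348) (nat_lit 337))))) (XT.nd (nat_lit 156) (nat_lit 0) (nat_lit 0) (XT.nd (nat_lit 78) (nat_lit 1292) (nat_lit 0) (XT.lf (nat_lit 1292) (nat_lit 30345877) (nat_lit 0) (nat_lit 4267455541)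 (nat_lit 1216) (nat_lit 30345877) (nat_lit 397) (nat_lit 1) (nat_lit 380) (nat_lit 1) (nat_lit 396) (nat_lit 1) (nat_lit 336) (nat_lit 348) (nat_lit 336)) (XT.lf (nat_lit 1368) (nat_lit 2029668318) (nat_lit 0) (nat_lit 208830986) (nat_lit 1292) (nat_lit 2029668318) (nat_lit 381) (nat_lit 1) (nat_lit 363) (nat_lit 1) (nat_lit 380) (nat_lit 1) (nat_lit 337) (nat_lit 348) (nat_lit 335))) (XT.nd (nat_lit 78) (nat_lit 0) (nat_lit 76) (XT.lf (nat_lit 1368) (nat_lit 3737927547) (nat_lit 76) (nat_lit 235956797) (nat_lit 0) (nat_lit 235956797) (nat_lit 381) (nat_lit 1) (nat_lit 364) (nat_lit 1) (nat_lit 363) (nat_lit 1) (nat_lit 338) (nat_lit 348) (nat_lit 334)) (XT.nd (nat_lit 78) (nat_lit 0) (nat_lit 0) (XT.lf (nat_lit 1368) (nat_lit 1694435351) (nat_lit 0) (nat_lit 763264850) (nat_lit 1292) (nat_lit 1694435351) (nat_lit 382) (nat_lit 1) (nat_lit 364) (nat_lit 1) (nat_lit 381) (nat_lit 1) (nat_lit 339) (nat_lit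 348) (nat_lit 333)) (XT.lf (nat_lit 1368) (nat_lit 3042497575) (nat_lit 76) (nat_lit 526697592) (nat_lit 0) (nat_lit 526697592) (nat_lit 382) (nat_lit 1) (nat_lit 365) (nat_lit 1) (nat_lit 364) (nat_lit 1) (nat_lit 340) (nat_lit 348) (nat_lit 332))))))) (XT.nd (nat_lit 702) (nat_lit 2584) (nat_lit 0) (XT.nd (nat_lit 312) (nat_lit 1824) (nat_lit 0) (XT.nd (nat_lit 156) (nat_lit 608) (nat_lit 0) (XT.nd (nat_lit 78) (nat_lit 836) (nat_lit 0) (XT.lf (nat_lit 76) (nat_lit 1338044623) (nat_lit 0) (nat_lit 1364321468) (nat_lit 1292) (nat_lit 1338044623) (nat_lit 366) (nat_lit 1) (nat_lit 365) (nat_lit 1) (nat_lit 382) (nat_lit 1) (nat_lit 341) (nat_lit 348) (nat_lit 331)) (XT.lf (nat_lit 912) (nat_lit 2306977304) (nat_lit 0) (nat_lit 839588881) (nat_lit 836) (nat_lit 839588881) (nat_lit 366) (nat_lit 1) (nat_lit 354) (nat_lit 1) (nat_lit 365) (nat_lit 1) (nat_lit 342) (nat_lit 348) (nat_lit 330))) (XT.nd (nat_lit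 78) (nat_lit 608) (nat_lit 0) (XT.lf (nat_lit 76) (nat_lit 962887417) (nat_lit 0) (nat_lit 2007039564) (nat_lit 912) (nat_lit 962887417) (nat_lit 355) (nat_lit 1) (nat_lit 354) (nat_lit 1) (nat_lit 366) (nat_lit 1) (nat_lit 343) (nat_lit 348) (nat_lit 329)) (XT.lf (nat_lit 684) (nat_lit 1535998493) (nat_lit 0) (nat_lit 1172227869) (nat_lit 608) (nat_lit 1172227869) (nat_lit 355) (nat_lit 1) (nat_lit 346) (nat_lit 1) (nat_lit 354) (nat_lit 1) (nat_lit 344) (nat_lit 348) (nat_lit 328)))) (XT.nd (nat_lit 156) (nat_lit 1216) (nat_lit 0) (XT.nd (nat_lit 78) (nat_lit 608) (nat_lit 0) (XT.lf (nat_lit 76) (nat_lit 571183476) (nat_lit 0) (nat_lit 2686809214) (nat_lit 684) (nat_lit 571183476) (nat_lit 347) (nat_lit 1) (nat_lit 346) (nat_lit 1) (nat_lit 355) (nat_lit 1) (nat_lit 345) (nat_lit 348) (nat_lit 327)) (XT.lf (nat_lit 684) (nat_lit 733859144) (nat_lit 0) (nat_lit 1522382637) (nat_lit 608) (nat_lit 1522382637)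 (nat_lit 347) (nat_lit 1) (nat_lit 338) (nat_lit 1) (nat_lit 346) (nat_lit 1) (nat_lit 346) (nat_lit 348) (nat_lit 326))) (XT.nd (nat_lit 78) (nat_lit 1216) (nat_lit 0) (XT.lf (nat_lit 76) (nat_lit 164991843) (nat_lit 0) (nat_lit 3399349734) (nat_lit 684) (nat_lit 164991843) (nat_lit 339) (nat_lit 1) (nat_lit 338) (nat_lit 1) (nat_lit 347) (nat_lit 1) (nat_lit 347) (nat_lit 348) (nat_lit 325)) (XT.nd (nat_lit 78) (nat_lit 608) (nat_lit 0) (XT.lf (nat_lit 76) (nat_lit 1793443591) (nat_lit 0) (nat_lit 93592685) (nat_lit 608) (nat_lit 1793443591) (nat_lit 331) (nat_lit 1) (nat_lit 330) (nat_lit 1) (nat_lit 338) (nat_lit 1) (nat_lit 348) (nat_lit 348) (nat_lit 324)) (XT.lf (nat_lit 684) (nat_lit 3130254974) (nat_lit 0) (nat_lit 251290913) (nat_lit 608) (nat_lit 251290913) (nat_lit 331) (nat_lit 1) (nat_lit 322) (nat_lit 1) (nat_lit 330) (nat_lit 1) (nat_lit 349) (nat_lit 348) (nat_lit 323)))))) (XT.nd (nat_lit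 390) (nat_lit 1520) (nat_lit 0) (XT.nd (nat_lit 156) (nat_lit 532) (nat_lit 0) (XT.nd (nat_lit 78) (nat_lit 532) (nat_lit 0) (XT.lf (nat_lit 76) (nat_lit 1327965054) (nat_lit 0) (nat_lit 929748587) (nat_lit 684) (nat_lit 1327965054) (nat_lit 323) (nat_lit 1) (nat_lit 322) (nat_lit 1) (nat_lit 331) (nat_lit 1) (nat_lit 350) (nat_lit 348) (nat_lit 322)) (XT.lf (nat_lit 608) (nat_lit 2186305347) (nat_lit 0) (nat_lit 676661645) (nat_lit 532) (nat_lit 676661645) (nat_lit 323) (nat_lit 1) (nat_lit 315) (nat_lit 1) (nat_lit 322) (nat_lit 1) (nat_lit 351) (nat_lit 348) (nat_lit 321))) (XT.nd (nat_lit 78) (nat_lit 532) (nat_lit 0) (XT.lf (nat_lit 76) (nat_lit 854356195) (nat_lit 0) (nat_lit 1785576969) (nat_lit 608) (nat_lit 854356195) (nat_lit 316) (nat_lit 1) (nat_lit 315) (nat_lit 1) (nat_lit 323) (nat_lit 1) (nat_lit 352) (nat_lit 348) (nat_lit 320)) (XT.nd (nat_lit 78) (nat_lit 0) (nat_lit 0) (XT.lf (nat_lit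 608) (nat_lit 1227524251) (nat_lit 0) (nat_lit 1111118259) (nat_lit 532) (nat_lit 1111118259) (nat_lit 316) (nat_lit 1) (nat_lit 308) (nat_lit 1) (nat_lit 315) (nat_lit 1) (nat_lit 353) (nat_lit 348) (nat_lit 319)) (XT.lf (nat_lit 76) (nat_lit 374098797) (nat_lit 0) (nat_lit 2657977543) (nat_lit 608) (nat_lit 374098797) (nat_lit 309) (nat_lit 1) (nat_lit 308) (nat_lit 1) (nat_lit 316) (nat_lit 1) (nat_lit 354) (nat_lit 348) (nat_lit 318))))) (XT.nd (nat_lit 156) (nat_lit 456) (nat_lit 0) (XT.nd (nat_lit 78) (nat_lit 608) (nat_lit 0) (XT.lf (nat_lit 532) (nat_lit 256773306) (nat_lit 0) (nat_lit 1553163348) (nat_lit 456) (nat_lit 1553163348) (nat_lit 309) (nat_lit 1) (nat_lit 302) (nat_lit 1) (nat_lit 308) (nat_lit 1) (nat_lit 355) (nat_lit 348) (nat_lit 317)) (XT.lf (nat_lit 608) (nat_lit 3100381373) (nat_lit 0) (nat_lit 110347432) (nat_lit 532) (nat_lit 110347432) (nat_lit 302) (nat_lit 1) (nat_lit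 294) (nat_lit 1) (nat_lit 301) (nat_lit 1) (nat_lit 356) (nat_lit 348) (nat_lit 316))) (XT.nd (nat_lit 78) (nat_lit 456) (nat_lit 0) (XT.lf (nat_lit 76) (nat_lit 1285058082) (nat_lit 0) (nat_lit 709194327) (nat_lit 608) (nat_lit 1285058082) (nat_lit 295) (nat_lit 1) (nat_lit 294) (nat_lit 1) (nat_lit 302) (nat_lit 1) (nat_lit 357) (nat_lit 348) (nat_lit 315)) (XT.nd (nat_lit 78) (nat_lit 0) (nat_lit 0) (XT.lf (nat_lit 532) (nat_lit 2048342690) (nat_lit 0) (nat_lit 595108012) (nat_lit 456) (nat_lit 595108012) (nat_lit 295) (nat_lit 1) (nat_lit 288) (nat_lit 1) (nat_lit 294) (nat_lit 1) (nat_lit 358) (nat_lit 348) (nat_lit 314)) (XT.lf (nat_lit 76) (nat_lit 760742940) (nat_lit 0) (nat_lit 1676917302) (nat_lit 532) (nat_lit 760742940) (nat_lit 289) (nat_lit 1) (nat_lit 288) (nat_lit 1) (nat_lit 295) (nat_lit 1) (nat_lit 359) (nat_lit 348) (nat_lit 313))))))))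
noncomputable def ec82 : XT := (XT.nd (nat_lit 1482) (nat_lit 3040) (nat_lit 0) (XT.nd (nat_lit 702) (nat_lit 2128) (nat_lit 0) (XT.nd (nat_lit 312) (nat_lit 1216) (nat_lit 0) (XT.nd (nat_lit 156) (nat_lit 912) (nat_lit 0) (XT.nd (nat_lit 78) (nat_lit 0) (nat_lit 0) (XT.lf (nat_lit 532) (nat_lit 993534049) (nat_lit 0) (nat_lit 1082702168) (nat_lit 456) (nat_lit 1082702168) (nat_lit 289) (nat_lit 1) (nat_lit 282) (nat_lit 1) (nat_lit 288) (nat_lit 1) (nat_lit 360) (nat_lit 348) (nat_lit 312)) (XT.lf (nat_lit 76) (nat_lit 235561242) (nat_lit 0) (nat_lit 2649214049) (nat_lit 532) (nat_lit 235561242) (nat_lit 283) (nat_lit 1) (nat_lit 282) (nat_lit 1) (nat_lit 289) (nat_lit 1) (nat_lit 361) (nat_lit 348) (nat_lit 311))) (XT.nd (nat_lit 78) (nat_lit 456) (nat_lit 0) (XT.lf (nat_lit 76) (nat_lit 1510624735) (nat_lit 0) (nat_lit 60835157) (nat_lit 456) (nat_lit 1510624735) (nat_lit 277) (nat_lit 1) (nat_lit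 276) (nat_lit 1) (nat_lit 282) (nat_lit 1) (nat_lit 362) (nat_lit 348) (nat_lit 310)) (XT.lf (nat_lit 532) (nat_lit 2471270724) (nat_lit 0) (nat_lit 286696810) (nat_lit 456) (nat_lit 286696810) (nat_lit 277) (nat_lit 1) (nat_lit 270) (nat_lit 1) (nat_lit 276) (nat_lit 1) (nat_lit 363) (nat_lit 348) (nat_lit 309)))) (XT.nd (nat_lit 156) (nat_lit 836) (nat_lit 0) (XT.nd (nat_lit 78) (nat_lit 380) (nat_lit 0) (XT.lf (nat_lit 76) (nat_lit 956421374) (nat_lit 0) (nat_lit 1094778562) (nat_lit 532) (nat_lit 956421374) (nat_lit 271) (nat_lit 1) (nat_lit 270) (nat_lit 1) (nat_lit 277) (nat_lit 1) (nat_lit 364) (nat_lit 348) (nat_lit 308)) (XT.lf (nat_lit 456) (nat_lit 1359946542) (nat_lit 0) (nat_lit 805699021) (nat_lit 380) (nat_lit 805699021) (nat_lit 271) (nat_lit 1) (nat_lit 265) (nat_lit 1) (nat_lit 270) (nat_lit 1) (nat_lit 365) (nat_lit 348) (nat_lit 307))) (XT.nd (nat_lit 78) (nat_lit 836) (nat_lit 0)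 (XT.lf (nat_lit 76) (nat_lit 404844645) (nat_lit 0) (nat_lit 2126042992) (nat_lit 456) (nat_lit 404844645) (nat_lit 266) (nat_lit 1) (nat_lit 265) (nat_lit 1) (nat_lit 271) (nat_lit 1) (nat_lit 366) (nat_lit 348) (nat_lit 306)) (XT.nd (nat_lit 78) (nat_lit 456) (nat_lit 0) (XT.lf (nat_lit 456) (nat_lit 254615392) (nat_lit 0) (nat_lit 1322967373) (nat_lit 380) (nat_lit 1322967373) (nat_lit 266) (nat_lit 1) (nat_lit 260) (nat_lit 1) (nat_lit 265) (nat_lit 1) (nat_lit 367) (nat_lit 348) (nat_lit 305)) (XT.lf (nat_lit 456) (nat_lit 2582152672) (nat_lit 0) (nat_lit 142000182) (nat_lit 380) (nat_lit 142000182) (nat_lit 260) (nat_lit 1) (nat_lit 254) (nat_lit 1) (nat_lit 259) (nat_lit 1) (nat_lit 368) (nat_lit 348) (nat_lit 304)))))) (XT.nd (nat_lit 390) (nat_lit 988) (nat_lit 0) (XT.nd (nat_lit 156) (nat_lit 760) (nat_lit 0) (XT.nd (nat_lit 78) (nat_lit 380) (nat_lit 0) (XT.lf (nat_lit 76) (nat_lit 1002508051)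 (nat_lit 0) (nat_lit 826925765) (nat_lit 456) (nat_lit 1002508051) (nat_lit 255) (nat_lit 1) (nat_lit 254) (nat_lit 1) (nat_lit 260) (nat_lit 1) (nat_lit 369) (nat_lit 348) (nat_lit 303)) (XT.lf (nat_lit 456) (nat_lit 1436582221) (nat_lit 0) (nat_lit 680954395) (nat_lit 380) (nat_lit 680954395) (nat_lit 255) (nat_lit 1) (nat_lit 249) (nat_lit 1) (nat_lit 254) (nat_lit 1) (nat_lit 370) (nat_lit 348) (nat_lit 302))) (XT.nd (nat_lit 78) (nat_lit 760) (nat_lit 0) (XT.lf (nat_lit 76) (nat_lit 435240539) (nat_lit 0) (nat_lit 1895119092) (nat_lit 456) (nat_lit 435240539) (nat_lit 250) (nat_lit 1) (nat_lit 249) (nat_lit 1) (nat_lit 255) (nat_lit 1) (nat_lit 371) (nat_lit 348) (nat_lit 301)) (XT.nd (nat_lit 78) (nat_lit 456) (nat_lit 0) (XT.lf (nat_lit 380) (nat_lit 302288721) (nat_lit 0) (nat_lit 1215418721) (nat_lit 304) (nat_lit 1215418721) (nat_lit 250) (nat_lit 1) (nat_lit 245) (nat_lit 1) (nat_lit 249)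 (nat_lit 1) (nat_lit 372) (nat_lit 348) (nat_lit 300)) (XT.lf (nat_lit 456) (nat_lit 2451491243) (nat_lit 0) (nat_lit 124936654) (nat_lit 380) (nat_lit 124936654) (nat_lit 245) (nat_lit 1) (nat_lit 239) (nat_lit 1) (nat_lit 244) (nat_lit 1) (nat_lit 373) (nat_lit 348) (nat_lit 299))))) (XT.nd (nat_lit 156) (nat_lit 684) (nat_lit 0) (XT.nd (nat_lit 78) (nat_lit 304) (nat_lit 0) (XT.lf (nat_lit 76) (nat_lit 932972596) (nat_lit 0) (nat_lit 803791249) (nat_lit 456) (nat_lit 932972596) (nat_lit 240) (nat_lit 1) (nat_lit 239) (nat_lit 1) (nat_lit 245) (nat_lit 1) (nat_lit 374) (nat_lit 348) (nat_lit 298)) (XT.lf (nat_lit 380) (nat_lit 1289573575) (nat_lit 0) (nat_lit 674613220) (nat_lit 304) (nat_lit 674613220) (nat_lit 240) (nat_lit 1) (nat_lit 235) (nat_lit 1) (nat_lit 239) (nat_lit 1) (nat_lit 375) (nat_lit 348) (nat_lit 297))) (XT.nd (nat_lit 78) (nat_lit 684) (nat_lit 0) (XT.lf (nat_lit 76) (nat_lit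 358610712) (nat_lit 0) (nat_lit 1891171340) (nat_lit 380) (nat_lit 358610712) (nat_lit 236) (nat_lit 1) (nat_lit 235) (nat_lit 1) (nat_lit 240) (nat_lit 1) (nat_lit 376) (nat_lit 348) (nat_lit 296)) (XT.nd (nat_lit 78) (nat_lit 380) (nat_lit 0) (XT.lf (nat_lit 380) (nat_lit 142998830) (nat_lit 0) (nat_lit 1217666153) (nat_lit 304) (nat_lit 1217666153) (nat_lit 236) (nat_lit 1) (nat_lit 231) (nat_lit 1) (nat_lit 235) (nat_lit 1) (nat_lit 377) (nat_lit 348) (nat_lit 295)) (XT.lf (nat_lit 380) (nat_lit 2137025691) (nat_lit 0) (nat_lit 205918534) (nat_lit 304) (nat_lit 205918534) (nat_lit 231) (nat_lit 1) (nat_lit 226) (nat_lit 1) (nat_lit 230) (nat_lit 1) (nat_lit 378) (nat_lit 348) (nat_lit 294))))))) (XT.nd (nat_lit 702) (nat_lit 1520) (nat_lit 0) (XT.nd (nat_lit 312) (nat_lit 912) (nat_lit 0) (XT.nd (nat_lit 156) (nat_lit 304) (nat_lit 0) (XT.nd (nat_lit 78) (nat_lit 304) (nat_lit 0) (XT.lf (nat_lit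 76) (nat_lit 775625213) (nat_lit 0) (nat_lit 968345950) (nat_lit 380) (nat_lit 775625213) (nat_lit 227) (nat_lit 1) (nat_lit 226) (nat_lit 1) (nat_lit 231) (nat_lit 1) (nat_lit 379) (nat_lit 348) (nat_lit 293)) (XT.lf (nat_lit 380) (nat_lit 973042989) (nat_lit 0) (nat_lit 758931455) (nat_lit 304) (nat_lit 758931455) (nat_lit 227) (nat_lit 1) (nat_lit 222) (nat_lit 1) (nat_lit 226) (nat_lit 1) (nat_lit 380) (nat_lit 348) (nat_lit 292))) (XT.nd (nat_lit 78) (nat_lit 304) (nat_lit 0) (XT.lf (nat_lit 76) (nat_lit 201021228) (nat_lit 0) (nat_lit 2060728006) (nat_lit 380) (nat_lit 201021228) (nat_lit 223) (nat_lit 1) (nat_lit 222) (nat_lit 1) (nat_lit 227) (nat_lit 1) (nat_lit 381) (nat_lit 348) (nat_lit 291)) (XT.lf (nat_lit 76) (nat_lit 1132826393) (nat_lit 0) (nat_lit 169163522) (nat_lit 304) (nat_lit 1132826393) (nat_lit 219) (nat_lit 1) (nat_lit 218) (nat_lit 1) (nat_lit 222) (nat_lit 1) (nat_lit 382)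 (nat_lit 348) (nat_lit 290)))) (XT.nd (nat_lit 156) (nat_lit 608) (nat_lit 0) (XT.nd (nat_lit 78) (nat_lit 0) (nat_lit 0) (XT.lf (nat_lit 380) (nat_lit 1685885977) (nat_lit 0) (nat_lit 360757903) (nat_lit 304) (nat_lit 360757903) (nat_lit 219) (nat_lit 1) (nat_lit 214) (nat_lit 1) (nat_lit 218) (nat_lit 1) (nat_lit 383) (nat_lit 348) (nat_lit 289)) (XT.lf (nat_lit 76) (nat_lit 553156820) (nat_lit 0) (nat_lit 1273985927) (nat_lit 380) (nat_lit 553156820) (nat_lit 215) (nat_lit 1) (nat_lit 214) (nat_lit 1) (nat_lit 219) (nat_lit 1) (nat_lit 384) (nat_lit 348) (nat_lit 288))) (XT.nd (nat_lit 78) (nat_lit 380) (nat_lit 0) (XT.lf (nat_lit 304) (nat_lit 531131993) (nat_lit 0) (nat_lit 911245477) (nat_lit 228) (nat_lit 911245477) (nat_lit 215) (nat_lit 1) (nat_lit 211) (nat_lit 1) (nat_lit 214) (nat_lit 1) (nat_lit 385) (nat_lit 348) (nat_lit 287)) (XT.nd (nat_lit 78) (nat_lit 0) (nat_lit 0) (XT.lf (nat_lit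 380) (nat_lit 2295314927) (nat_lit 0) (nat_lit 16118175) (nat_lit 304) (nat_lit 16118175) (nat_lit 211) (nat_lit 1) (nat_lit 206) (nat_lit 1) (nat_lit 210) (nat_lit 1) (nat_lit 386) (nat_lit 348) (nat_lit 286)) (XT.lf (nat_lit 76) (nat_lit 855115449) (nat_lit 0) (nat_lit 591197455) (nat_lit 380) (nat_lit 855115449) (nat_lit 207) (nat_lit 1) (nat_lit 206) (nat_lit 1) (nat_lit 211) (nat_lit 1) (nat_lit 387) (nat_lit 348) (nat_lit 285)))))) (XT.nd (nat_lit 390) (nat_lit 760) (nat_lit 0) (XT.nd (nat_lit 156) (nat_lit 532) (nat_lit 0) (XT.nd (nat_lit 78) (nat_lit 0) (nat_lit 0) (XT.lf (nat_lit 304) (nat_lit 1136392098) (nat_lit 0) (nat_lit 569752687) (nat_lit 228) (nat_lit 569752687) (nat_lit 207) (nat_lit 1) (nat_lit 203) (nat_lit 1) (nat_lit 206) (nat_lit 1) (nat_lit 388) (nat_lit 348) (nat_lit 284)) (XT.lf (nat_lit 76) (nat_lit 284007821) (nat_lit 0) (nat_lit 1682766857) (nat_lit 304) (nat_lit 284007821)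 (nat_lit 204) (nat_lit 1) (nat_lit 203) (nat_lit 1) (nat_lit 207) (nat_lit 1) (nat_lit 389) (nat_lit 348) (nat_lit 283))) (XT.nd (nat_lit 78) (nat_lit 228) (nat_lit 0) (XT.lf (nat_lit 76) (nat_lit 1112810242) (nat_lit 0) (nat_lit 297942) (nat_lit 304) (nat_lit 1112810242) (nat_lit 200) (nat_lit 1) (nat_lit 199) (nat_lit 1) (nat_lit 203) (nat_lit 1) (nat_lit 390) (nat_lit 348) (nat_lit 282)) (XT.nd (nat_lit 78) (nat_lit 0) (nat_lit 0) (XT.lf (nat_lit 304) (nat_lit 1654803838) (nat_lit 0) (nat_lit 273327478) (nat_lit 228) (nat_lit 273327478) (nat_lit 200) (nat_lit 1) (nat_lit 196) (nat_lit 1) (nat_lit 199) (nat_lit 1) (nat_lit 391) (nat_lit 348) (nat_lit 281)) (XT.lf (nat_lit 76) (nat_lit 542114360) (nat_lit 0) (nat_lit 1093005649) (nat_lit 304) (nat_lit 542114360) (nat_lit 197) (nat_lit 1) (nat_lit 196) (nat_lit 1) (nat_lit 200) (nat_lit 1) (nat_lit 392) (nat_lit 348) (nat_lit 280))))) (XT.nd (nat_lit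 156) (nat_lit 228) (nat_lit 0) (XT.nd (nat_lit 78) (nat_lit 304) (nat_lit 0) (XT.lf (nat_lit 304) (nat_lit 519556555) (nat_lit 0) (nat_lit 816923423) (nat_lit 228) (nat_lit 816923423) (nat_lit 197) (nat_lit 1) (nat_lit 193) (nat_lit 1) (nat_lit 196) (nat_lit 1) (nat_lit 393) (nat_lit 348) (nat_lit 279)) (XT.lf (nat_lit 304) (nat_lit 2096615638) (nat_lit 0) (nat_lit 16740736) (nat_lit 228) (nat_lit 16740736) (nat_lit 193) (nat_lit 1) (nat_lit 189) (nat_lit 1) (nat_lit 192) (nat_lit 1) (nat_lit 394) (nat_lit 348) (nat_lit 278))) (XT.nd (nat_lit 78) (nat_lit 228) (nat_lit 0) (XT.lf (nat_lit 76) (nat_lit 762998568) (nat_lit 0) (nat_lit 580722422) (nat_lit 304) (nat_lit 762998568) (nat_lit 190) (nat_lit 1) (nat_lit 189) (nat_lit 1) (nat_lit 193) (nat_lit 1) (nat_lit 395) (nat_lit 348) (nat_lit 277)) (XT.nd (nat_lit 78) (nat_lit 0) (nat_lit 0) (XT.lf (nat_lit 304) (nat_lit 966305233) (nat_lit 0) (nat_lit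 558775923) (nat_lit 228) (nat_lit 558775923) (nat_lit 190) (nat_lit 1) (nat_lit 186) (nat_lit 1) (nat_lit 189) (nat_lit 1) (nat_lit 396) (nat_lit 348) (nat_lit 276)) (XT.lf (nat_lit 76) (nat_lit 206673829) (nat_lit 0) (nat_lit 1648034180) (nat_lit 304) (nat_lit 206673829) (nat_lit 187) (nat_lit 1) (nat_lit 186) (nat_lit 1) (nat_lit 190) (nat_lit 1) (nat_lit 397) (nat_lit 348) (nat_lit 275))))))))
noncomputable def ec83 : XT := (XT.nd (nat_lit 1482) (nat_lit 1748) (nat_lit 0) (XT.nd (nat_lit 702) (nat_lit 1292) (nat_lit 0) (XT.nd (nat_lit 312) (nat_lit 684) (nat_lit 0) (XT.nd (nat_lit 156) (nat_lit 152) (nat_lit 0) (XT.nd (nat_lit 78) (nat_lit 228) (nat_lit 0) (XT.lf (nat_lit 76) (nat_lit 951057044) (nat_lit 0) (nat_lit 136936253) (nat_lit 228) (nat_lit 951057044) (nat_lit 184) (nat_lit 1) (nat_lit 183) (nat_lit 1) (nat_lit 186) (nat_lit 1) (nat_lit 398) (nat_lit 348) (nat_lit 274)) (XT.lf (nat_lit 304)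 (nat_lit 1348536056) (nat_lit 0) (nat_lit 334280746) (nat_lit 228) (nat_lit 334280746) (nat_lit 184) (nat_lit 1) (nat_lit 180) (nat_lit 1) (nat_lit 183) (nat_lit 1) (nat_lit 399) (nat_lit 348) (nat_lit 273))) (XT.nd (nat_lit 78) (nat_lit 152) (nat_lit 0) (XT.lf (nat_lit 76) (nat_lit 398864907) (nat_lit 0) (nat_lit 1197665456) (nat_lit 304) (nat_lit 398864907) (nat_lit 181) (nat_lit 1) (nat_lit 180) (nat_lit 1) (nat_lit 184) (nat_lit 1) (nat_lit 400) (nat_lit 348) (nat_lit 272)) (XT.lf (nat_lit 228) (nat_lit 251224653) (nat_lit 0) (nat_lit 861379223) (nat_lit 152) (nat_lit 861379223) (nat_lit 181) (nat_lit 1) (nat_lit 178) (nat_lit 1) (nat_lit 180) (nat_lit 1) (nat_lit 401) (nat_lit 348) (nat_lit 271)))) (XT.nd (nat_lit 156) (nat_lit 380) (nat_lit 0) (XT.nd (nat_lit 78) (nat_lit 0) (nat_lit 0) (XT.lf (nat_lit 304) (nat_lit 1673871744) (nat_lit 0) (nat_lit 139543507) (nat_lit 228) (nat_lit 139543507)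 (nat_lit 178) (nat_lit 1) (nat_lit 174) (nat_lit 1) (nat_lit 177) (nat_lit 1) (nat_lit 402) (nat_lit 348) (nat_lit 270)) (XT.lf (nat_lit 76) (nat_lit 563355125) (nat_lit 0) (nat_lit 805283481) (nat_lit 304) (nat_lit 563355125) (nat_lit 175) (nat_lit 1) (nat_lit 174) (nat_lit 1) (nat_lit 178) (nat_lit 1) (nat_lit 403) (nat_lit 348) (nat_lit 269))) (XT.nd (nat_lit 78) (nat_lit 228) (nat_lit 0) (XT.lf (nat_lit 228) (nat_lit 587590564) (nat_lit 0) (nat_lit 661909411) (nat_lit 152) (nat_lit 661909411) (nat_lit 175) (nat_lit 1) (nat_lit 172) (nat_lit 1) (nat_lit 174) (nat_lit 1) (nat_lit 404) (nat_lit 348) (nat_lit 268)) (XT.nd (nat_lit 78) (nat_lit 228) (nat_lit 0) (XT.lf (nat_lit 76) (nat_lit 29177832) (nat_lit 0) (nat_lit 1832899472) (nat_lit 228) (nat_lit 29177832) (nat_lit 173) (nat_lit 1) (nat_lit 172) (nat_lit 1) (nat_lit 175) (nat_lit 1) (nat_lit 405) (nat_lit 348) (nat_lit 267)) (XT.lf (nat_lit 76)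 (nat_lit 703416083) (nat_lit 0) (nat_lit 464195821) (nat_lit 228) (nat_lit 703416083) (nat_lit 170) (nat_lit 1) (nat_lit 169) (nat_lit 1) (nat_lit 172) (nat_lit 1) (nat_lit 406) (nat_lit 348) (nat_lit 266)))))) (XT.nd (nat_lit 390) (nat_lit 760) (nat_lit 0) (XT.nd (nat_lit 156) (nat_lit 380) (nat_lit 0) (XT.nd (nat_lit 78) (nat_lit 0) (nat_lit 0) (XT.lf (nat_lit 228) (nat_lit 875834289) (nat_lit 0) (nat_lit 487695149) (nat_lit 152) (nat_lit 487695149) (nat_lit 170) (nat_lit 1) (nat_lit 167) (nat_lit 1) (nat_lit 169) (nat_lit 1) (nat_lit 407) (nat_lit 348) (nat_lit 265)) (XT.lf (nat_lit 76) (nat_lit 175815371) (nat_lit 0) (nat_lit 1480114672) (nat_lit 228) (nat_lit 175815371) (nat_lit 168) (nat_lit 1) (nat_lit 167) (nat_lit 1) (nat_lit 170) (nat_lit 1) (nat_lit 408) (nat_lit 348) (nat_lit 264))) (XT.nd (nat_lit 78) (nat_lit 152) (nat_lit 0) (XT.lf (nat_lit 76) (nat_lit 821949236) (nat_lit 0) (nat_lit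 168462925) (nat_lit 228) (nat_lit 821949236) (nat_lit 165) (nat_lit 1) (nat_lit 164) (nat_lit 1) (nat_lit 167) (nat_lit 1) (nat_lit 409) (nat_lit 348) (nat_lit 263)) (XT.nd (nat_lit 78) (nat_lit 0) (nat_lit 0) (XT.lf (nat_lit 228) (nat_lit 1121631192) (nat_lit 0) (nat_lit 335832387) (nat_lit 152) (nat_lit 335832387) (nat_lit 165) (nat_lit 1) (nat_lit 162) (nat_lit 1) (nat_lit 164) (nat_lit 1) (nat_lit 410) (nat_lit 348) (nat_lit 262)) (XT.lf (nat_lit 76) (nat_lit 301735160) (nat_lit 0) (nat_lit 1170992065) (nat_lit 228) (nat_lit 301735160) (nat_lit 163) (nat_lit 1) (nat_lit 162) (nat_lit 1) (nat_lit 165) (nat_lit 1) (nat_lit 411) (nat_lit 348) (nat_lit 261))))) (XT.nd (nat_lit 156) (nat_lit 380) (nat_lit 0) (XT.nd (nat_lit 78) (nat_lit 228) (nat_lit 0) (XT.lf (nat_lit 228) (nat_lit 88921200) (nat_lit 0) (nat_lit 833460889) (nat_lit 152) (nat_lit 833460889) (nat_lit 163) (nat_lit 1) (nat_lit 160) (nat_lit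 1) (nat_lit 162) (nat_lit 1) (nat_lit 412) (nat_lit 348) (nat_lit 260)) (XT.lf (nat_lit 228) (nat_lit 1330014758) (nat_lit 0) (nat_lit 203743468) (nat_lit 152) (nat_lit 203743468) (nat_lit 160) (nat_lit 1) (nat_lit 157) (nat_lit 1) (nat_lit 159) (nat_lit 1) (nat_lit 413) (nat_lit 348) (nat_lit 259))) (XT.nd (nat_lit 78) (nat_lit 380) (nat_lit 0) (XT.lf (nat_lit 76) (nat_lit 409374656) (nat_lit 0) (nat_lit 900536866) (nat_lit 228) (nat_lit 409374656) (nat_lit 158) (nat_lit 1) (nat_lit 157) (nat_lit 1) (nat_lit 160) (nat_lit 1) (nat_lit 414) (nat_lit 348) (nat_lit 258)) (XT.nd (nat_lit 78) (nat_lit 228) (nat_lit 0) (XT.lf (nat_lit 228) (nat_lit 313546302) (nat_lit 0) (nat_lit 693898881) (nat_lit 152) (nat_lit 693898881) (nat_lit 158) (nat_lit 1) (nat_lit 155) (nat_lit 1) (nat_lit 157) (nat_lit 1) (nat_lit 415) (nat_lit 348) (nat_lit 257)) (XT.lf (nat_lit 228) (nat_lit 1505448431) (nat_lit 0) (nat_lit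 89140657) (nat_lit 152) (nat_lit 89140657) (nat_lit 155) (nat_lit 1) (nat_lit 152) (nat_lit 1) (nat_lit 154) (nat_lit 1) (nat_lit 416) (nat_lit 348) (nat_lit 256))))))) (XT.nd (nat_lit 702) (nat_lit 988) (nat_lit 0) (XT.nd (nat_lit 312) (nat_lit 456) (nat_lit 0) (XT.nd (nat_lit 156) (nat_lit 152) (nat_lit 0) (XT.nd (nat_lit 78) (nat_lit 152) (nat_lit 0) (XT.lf (nat_lit 76) (nat_lit 500895802) (nat_lit 0) (nat_lit 664314937) (nat_lit 228) (nat_lit 500895802) (nat_lit 153) (nat_lit 1) (nat_lit 152) (nat_lit 1) (nat_lit 155) (nat_lit 1) (nat_lit 417) (nat_lit 348) (nat_lit 255)) (XT.lf (nat_lit 228) (nat_lit 506291505) (nat_lit 0) (nat_lit 571257717) (nat_lit 152) (nat_lit 571257717) (nat_lit 153) (nat_lit 1) (nat_lit 150) (nat_lit 1) (nat_lit 152) (nat_lit 1) (nat_lit 418) (nat_lit 348) (nat_lit 254))) (XT.nd (nat_lit 78) (nat_lit 152) (nat_lit 0) (XT.lf (nat_lit 76) (nat_lit 10105329) (nat_lit 0) (nat_lit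 1611654547) (nat_lit 228) (nat_lit 10105329) (nat_lit 151) (nat_lit 1) (nat_lit 150) (nat_lit 1) (nat_lit 153) (nat_lit 1) (nat_lit 419) (nat_lit 348) (nat_lit 253)) (XT.lf (nat_lit 76) (nat_lit 578215863) (nat_lit 0) (nat_lit 458390164) (nat_lit 152) (nat_lit 578215863) (nat_lit 149) (nat_lit 1) (nat_lit 148) (nat_lit 1) (nat_lit 150) (nat_lit 1) (nat_lit 420) (nat_lit 348) (nat_lit 252)))) (XT.nd (nat_lit 156) (nat_lit 304) (nat_lit 0) (XT.nd (nat_lit 78) (nat_lit 0) (nat_lit 0) (XT.lf (nat_lit 228) (nat_lit 670910801) (nat_lit 0) (nat_lit 463610956) (nat_lit 152) (nat_lit 463610956) (nat_lit 149) (nat_lit 1) (nat_lit 146) (nat_lit 1) (nat_lit 148) (nat_lit 1) (nat_lit 421) (nat_lit 348) (nat_lit 251)) (XT.lf (nat_lit 76) (nat_lit 96444290) (nat_lit 0) (nat_lit 1388847572) (nat_lit 228) (nat_lit 96444290) (nat_lit 147) (nat_lit 1) (nat_lit 146) (nat_lit 1) (nat_lit 149) (nat_lit 1) (nat_lit 422) (nat_lit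 348) (nat_lit 250))) (XT.nd (nat_lit 78) (nat_lit 152) (nat_lit 0) (XT.lf (nat_lit 76) (nat_lit 643034809) (nat_lit 0) (nat_lit 279268817) (nat_lit 152) (nat_lit 643034809) (nat_lit 145) (nat_lit 1) (nat_lit 144) (nat_lit 1) (nat_lit 146) (nat_lit 1) (nat_lit 423) (nat_lit 348) (nat_lit 249)) (XT.nd (nat_lit 78) (nat_lit 0) (nat_lit 0) (XT.lf (nat_lit 228) (nat_lit 810733766) (nat_lit 0) (nat_lit 369248129) (nat_lit 152) (nat_lit 369248129) (nat_lit 145) (nat_lit 1) (nat_lit 142) (nat_lit 1) (nat_lit 144) (nat_lit 1) (nat_lit 424) (nat_lit 348) (nat_lit 248)) (XT.lf (nat_lit 76) (nat_lit 170607790) (nat_lit 0) (nat_lit 1192141411) (nat_lit 228) (nat_lit 170607790) (nat_lit 143) (nat_lit 1) (nat_lit 142) (nat_lit 1) (nat_lit 145) (nat_lit 1) (nat_lit 425) (nat_lit 348) (nat_lit 247)))))) (XT.nd (nat_lit 390) (nat_lit 380) (nat_lit 0) (XT.nd (nat_lit 156) (nat_lit 304) (nat_lit 0) (XT.nd (nat_lit 78)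 (nat_lit 152) (nat_lit 0) (XT.lf (nat_lit 76) (nat_lit 696859657) (nat_lit 0) (nat_lit 123850119) (nat_lit 152) (nat_lit 696859657) (nat_lit 141) (nat_lit 1) (nat_lit 140) (nat_lit 1) (nat_lit 142) (nat_lit 1) (nat_lit 426) (nat_lit 348) (nat_lit 246)) (XT.lf (nat_lit 228) (nat_lit 928713062) (nat_lit 0) (nat_lit 286650625) (nat_lit 152) (nat_lit 286650625) (nat_lit 141) (nat_lit 1) (nat_lit 138) (nat_lit 1) (nat_lit 140) (nat_lit 1) (nat_lit 427) (nat_lit 348) (nat_lit 245))) (XT.nd (nat_lit 78) (nat_lit 304) (nat_lit 0) (XT.lf (nat_lit 76) (nat_lit 234027751) (nat_lit 0) (nat_lit 1018588932) (nat_lit 228) (nat_lit 234027751) (nat_lit 139) (nat_lit 1) (nat_lit 138) (nat_lit 1) (nat_lit 141) (nat_lit 1) (nat_lit 428) (nat_lit 348) (nat_lit 244)) (XT.nd (nat_lit 78) (nat_lit 228) (nat_lit 0) (XT.lf (nat_lit 152) (nat_lit 10828986) (nat_lit 0) (nat_lit 730301187) (nat_lit 76) (nat_lit 730301187) (nat_lit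 139) (nat_lit 1) (nat_lit 137) (nat_lit 1) (nat_lit 138) (nat_lit 1) (nat_lit 429) (nat_lit 348) (nat_lit 243)) (XT.lf (nat_lit 228) (nat_lit 1027466626) (nat_lit 0) (nat_lit 214470267) (nat_lit 152) (nat_lit 214470267) (nat_lit 137) (nat_lit 1) (nat_lit 134) (nat_lit 1) (nat_lit 136) (nat_lit 1) (nat_lit 430) (nat_lit 348) (nat_lit 242))))) (XT.nd (nat_lit 156) (nat_lit 304) (nat_lit 0) (XT.nd (nat_lit 78) (nat_lit 76) (nat_lit 0) (XT.lf (nat_lit 76) (nat_lit 287974256) (nat_lit 0) (nat_lit 865572713) (nat_lit 228) (nat_lit 287974256) (nat_lit 135) (nat_lit 1) (nat_lit 134) (nat_lit 1) (nat_lit 137) (nat_lit 1) (nat_lit 431) (nat_lit 348) (nat_lit 241)) (XT.lf (nat_lit 152) (nat_lit 129095404) (nat_lit 0) (nat_lit 648863146) (nat_lit 76) (nat_lit 648863146) (nat_lit 135) (nat_lit 1) (nat_lit 133) (nat_lit 1) (nat_lit 134) (nat_lit 1) (nat_lit 432) (nat_lit 348) (nat_lit 240))) (XT.nd (nat_lit 78) (nat_lit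 76) (nat_lit 0) (XT.lf (nat_lit 228) (nat_lit 1109315157) (nat_lit 0) (nat_lit 151510266) (nat_lit 152) (nat_lit 151510266) (nat_lit 133) (nat_lit 1) (nat_lit 130) (nat_lit 1) (nat_lit 132) (nat_lit 1) (nat_lit 433) (nat_lit 348) (nat_lit 239)) (XT.nd (nat_lit 78) (nat_lit 76) (nat_lit 0) (XT.lf (nat_lit 76) (nat_lit 333573659) (nat_lit 0) (nat_lit 730768242) (nat_lit 228) (nat_lit 333573659) (nat_lit 131) (nat_lit 1) (nat_lit 130) (nat_lit 1) (nat_lit 133) (nat_lit 1) (nat_lit 434) (nat_lit 348) (nat_lit 238)) (XT.lf (nat_lit 152) (nat_lit 230693759) (nat_lit 0) (nat_lit 576506501) (nat_lit 76) (nat_lit 576506501) (nat_lit 131) (nat_lit 1) (nat_lit 129) (nat_lit 1) (nat_lit 130) (nat_lit 1) (nat_lit 435) (nat_lit 348) (nat_lit 237))))))))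
noncomputable def ec84 : XT := (XT.nd (nat_lit 45552) (nat_lit 0) (nat_lit 12312) (XT.nd (nat_lit 44850) (nat_lit 0) (nat_lit 18012) (XT.nd (nat_lit 44460) (nat_lit 0) (nat_lit 18924) (XT.nd (nat_lit 44304) (nat_lit 0) (nat_lit 18848) (XT.nd (nat_lit 44226) (nat_lit 0) (nat_lit 18848) (XT.lf (nat_lit 228) (nat_lit 1176315418) (nat_lit 0) (nat_lit 96708319) (nat_lit 152) (nat_lit 96708319) (nat_lit 129) (nat_lit 1) (nat_lit 126) (nat_lit 1) (nat_lit 128) (nat_lit 1) (nat_lit 436) (nat_lit 348) (nat_lit 236)) (XT.lf (nat_lit 1292) (nat_lit 486630919) (nat_lit 0) (nat_lit 1674236680) (nat_lit 1292) (nat_lit 486630919) (nat_lit 391) (nat_lit 1) (nat_lit 374) (nat_lit 0) (nat_lit 391) (nat_lit 0) (nat_lit 322) (nat_lit 349) (nat_lit 349))) (XT.nd (nat_lit 78) (nat_lit 0) (nat_lit 76) (XT.lf (nat_lit 1292) (nat_lit 1901762161) (nat_lit 76) (nat_lit 1657822595) (nat_lit 0) (nat_lit 1657822595) (nat_lit 391)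 (nat_lit 1) (nat_lit 375) (nat_lit 1) (nat_lit 374) (nat_lit 0) (nat_lit 323) (nat_lit 349) (nat_lit 348)) (XT.lf (nat_lit 1292) (nat_lit 919737524) (nat_lit 0) (nat_lit 3302054081) (nat_lit 1216) (nat_lit 919737524) (nat_lit 392) (nat_lit 1) (nat_lit 375) (nat_lit 1) (nat_lit 391) (nat_lit 1) (nat_lit 324) (nat_lit 349) (nat_lit 347)))) (XT.nd (nat_lit 156) (nat_lit 0) (nat_lit 76) (XT.nd (nat_lit 78) (nat_lit 0) (nat_lit 76) (XT.lf (nat_lit 1292) (nat_lit 1746629045) (nat_lit 76) (nat_lit 1660144502) (nat_lit 0) (nat_lit 1660144502) (nat_lit 392) (nat_lit 1) (nat_lit 376) (nat_lit 1) (nat_lit 375) (nat_lit 1) (nat_lit 325) (nat_lit 349) (nat_lit 346)) (XT.lf (nat_lit 1292) (nat_lit 819596968) (nat_lit 0) (nat_lit 3354782480) (nat_lit 1216) (nat_lit 819596968) (nat_lit 393) (nat_lit 1) (nat_lit 376) (nat_lit 1) (nat_lit 392) (nat_lit 1) (nat_lit 326) (nat_lit 349) (nat_lit 345))) (XT.nd (nat_lit 78)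 (nat_lit 0) (nat_lit 76) (XT.lf (nat_lit 1292) (nat_lit 1501997982) (nat_lit 76) (nat_lit 1710101677) (nat_lit 0) (nat_lit 1710101677) (nat_lit 393) (nat_lit 1) (nat_lit 377) (nat_lit 1) (nat_lit 376) (nat_lit 1) (nat_lit 327) (nat_lit 349) (nat_lit 344)) (XT.nd (nat_lit 78) (nat_lit 0) (nat_lit 0) (XT.lf (nat_lit 1292) (nat_lit 676963380) (nat_lit 0) (nat_lit 3498156888) (nat_lit 1216) (nat_lit 676963380) (nat_lit 394) (nat_lit 1) (nat_lit 377) (nat_lit 1) (nat_lit 393) (nat_lit 1) (nat_lit 328) (nat_lit 349) (nat_lit 343)) (XT.lf (nat_lit 1292) (nat_lit 1175872635) (nat_lit 76) (nat_lit 1803568342) (nat_lit 0) (nat_lit 1803568342) (nat_lit 394) (nat_lit 1) (nat_lit 378) (nat_lit 1) (nat_lit 377) (nat_lit 1) (nat_lit 329) (nat_lit 349) (nat_lit 342)))))) (XT.nd (nat_lit 312) (nat_lit 1140) (nat_lit 0) (XT.nd (nat_lit 156) (nat_lit 0) (nat_lit 76) (XT.nd (nat_lit 78) (nat_lit 0) (nat_lit 0) (XT.lf (nat_lit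 1292) (nat_lit 495681125) (nat_lit 0) (nat_lit 3724245520) (nat_lit 1216) (nat_lit 495681125) (nat_lit 395) (nat_lit 1) (nat_lit 378) (nat_lit 1) (nat_lit 394) (nat_lit 1) (nat_lit 330) (nat_lit 349) (nat_lit 341)) (XT.lf (nat_lit 1292) (nat_lit 775713742) (nat_lit 76) (nat_lit 1936696083) (nat_lit 0) (nat_lit 1936696083) (nat_lit 395) (nat_lit 1) (nat_lit 379) (nat_lit 1) (nat_lit 378) (nat_lit 1) (nat_lit 331) (nat_lit 349) (nat_lit 340))) (XT.nd (nat_lit 78) (nat_lit 0) (nat_lit 0) (XT.lf (nat_lit 1292) (nat_lit 279332962) (nat_lit 0) (nat_lit 4025651371) (nat_lit 1216) (nat_lit 279332962) (nat_lit 396) (nat_lit 1) (nat_lit 379) (nat_lit 1) (nat_lit 395) (nat_lit 1) (nat_lit 332) (nat_lit 349) (nat_lit 339)) (XT.lf (nat_lit 1292) (nat_lit 308472719) (nat_lit 76) (nat_lit 2105896741) (nat_lit 0) (nat_lit 2105896741) (nat_lit 396) (nat_lit 1) (nat_lit 380) (nat_lit 1) (nat_lit 379) (nat_lit 1) (nat_lit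 333) (nat_lit 349) (nat_lit 338)))) (XT.nd (nat_lit 156) (nat_lit 0) (nat_lit 0) (XT.nd (nat_lit 78) (nat_lit 1292) (nat_lit 0) (XT.lf (nat_lit 1292) (nat_lit 31256254) (nat_lit 0) (nat_lit 4395479207) (nat_lit 1216) (nat_lit 31256254) (nat_lit 397) (nat_lit 1) (nat_lit 380) (nat_lit 1) (nat_lit 396) (nat_lit 1) (nat_lit 334) (nat_lit 349) (nat_lit 337)) (XT.lf (nat_lit 1368) (nat_lit 2090558368) (nat_lit 0) (nat_lit 215095916) (nat_lit 1292) (nat_lit 2090558368) (nat_lit 381) (nat_lit 1) (nat_lit 363) (nat_lit 1) (nat_lit 380) (nat_lit 1) (nat_lit 335) (nat_lit 349) (nat_lit 336))) (XT.nd (nat_lit 78) (nat_lit 0) (nat_lit 76) (XT.lf (nat_lit 1368) (nat_lit 3850065373) (nat_lit 76) (nat_lit 243035501) (nat_lit 0) (nat_lit 243035501) (nat_lit 381) (nat_lit 1) (nat_lit 364) (nat_lit 1) (nat_lit 363) (nat_lit 1) (nat_lit 336) (nat_lit 349) (nat_lit 335)) (XT.nd (nat_lit 78) (nat_lit 0) (nat_lit 0) (XT.lf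 (nat_lit 1368) (nat_lit 1745268412) (nat_lit 0) (nat_lit 786162796) (nat_lit 1292) (nat_lit 1745268412) (nat_lit 382) (nat_lit 1) (nat_lit 364) (nat_lit 1) (nat_lit 381) (nat_lit 1) (nat_lit 337) (nat_lit 349) (nat_lit 334)) (XT.lf (nat_lit 1368) (nat_lit 3133772502) (nat_lit 76) (nat_lit 542498519) (nat_lit 0) (nat_lit 542498519) (nat_lit 382) (nat_lit 1) (nat_lit 365) (nat_lit 1) (nat_lit 364) (nat_lit 1) (nat_lit 338) (nat_lit 349) (nat_lit 333))))))) (XT.nd (nat_lit 702) (nat_lit 2584) (nat_lit 0) (XT.nd (nat_lit 312) (nat_lit 1824) (nat_lit 0) (XT.nd (nat_lit 156) (nat_lit 608) (nat_lit 0) (XT.nd (nat_lit 78) (nat_lit 836) (nat_lit 0) (XT.lf (nat_lit 76) (nat_lit 1378185961) (nat_lit 0) (nat_lit 1405251112) (nat_lit 1292) (nat_lit 1378185961) (nat_lit 366) (nat_lit 1) (nat_lit 365) (nat_lit 1) (nat_lit 382) (nat_lit 1) (nat_lit 339) (nat_lit 349) (nat_lit 332)) (XT.lf (nat_lit 912) (nat_lit 2376186623)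 (nat_lit 0) (nat_lit 864776548) (nat_lit 836) (nat_lit 864776548) (nat_lit 366) (nat_lit 1) (nat_lit 354) (nat_lit 1) (nat_lit 365) (nat_lit 1) (nat_lit 340) (nat_lit 349) (nat_lit 331))) (XT.nd (nat_lit 78) (nat_lit 608) (nat_lit 0) (XT.lf (nat_lit 76) (nat_lit 991774040) (nat_lit 0) (nat_lit 2067250751) (nat_lit 912) (nat_lit 991774040) (nat_lit 355) (nat_lit 1) (nat_lit 354) (nat_lit 1) (nat_lit 366) (nat_lit 1) (nat_lit 341) (nat_lit 349) (nat_lit 330)) (XT.lf (nat_lit 684) (nat_lit 1582078447) (nat_lit 0) (nat_lit 1207394705) (nat_lit 608) (nat_lit 1207394705) (nat_lit 355) (nat_lit 1) (nat_lit 346) (nat_lit 1) (nat_lit 354) (nat_lit 1) (nat_lit 342) (nat_lit 349) (nat_lit 329)))) (XT.nd (nat_lit 156) (nat_lit 1216) (nat_lit 0) (XT.nd (nat_lit 78) (nat_lit 608) (nat_lit 0) (XT.lf (nat_lit 76) (nat_lit 588318981) (nat_lit 0) (nat_lit 2767413490) (nat_lit 684) (nat_lit 588318981) (nat_lit 347) (nat_lit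 1) (nat_lit 346) (nat_lit 1) (nat_lit 355) (nat_lit 1) (nat_lit 343) (nat_lit 349) (nat_lit 328)) (XT.lf (nat_lit 684) (nat_lit 755874918) (nat_lit 0) (nat_lit 1568054116) (nat_lit 608) (nat_lit 1568054116) (nat_lit 347) (nat_lit 1) (nat_lit 338) (nat_lit 1) (nat_lit 346) (nat_lit 1) (nat_lit 344) (nat_lit 349) (nat_lit 327))) (XT.nd (nat_lit 78) (nat_lit 1216) (nat_lit 0) (XT.lf (nat_lit 76) (nat_lit 169941599) (nat_lit 0) (nat_lit 3501330226) (nat_lit 684) (nat_lit 169941599) (nat_lit 339) (nat_lit 1) (nat_lit 338) (nat_lit 1) (nat_lit 347) (nat_lit 1) (nat_lit 345) (nat_lit 349) (nat_lit 326)) (XT.nd (nat_lit 78) (nat_lit 608) (nat_lit 0) (XT.lf (nat_lit 76) (nat_lit 1847246899) (nat_lit 0) (nat_lit 96400466) (nat_lit 608) (nat_lit 1847246899) (nat_lit 331) (nat_lit 1) (nat_lit 330) (nat_lit 1) (nat_lit 338) (nat_lit 1) (nat_lit 346) (nat_lit 349) (nat_lit 325)) (XT.lf (nat_lit 684) (nat_lit 3224162623)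 (nat_lit 0) (nat_lit 258829640) (nat_lit 608) (nat_lit 258829640) (nat_lit 331) (nat_lit 1) (nat_lit 322) (nat_lit 1) (nat_lit 330) (nat_lit 1) (nat_lit 347) (nat_lit 349) (nat_lit 324)))))) (XT.nd (nat_lit 390) (nat_lit 1520) (nat_lit 0) (XT.nd (nat_lit 156) (nat_lit 532) (nat_lit 0) (XT.nd (nat_lit 78) (nat_lit 532) (nat_lit 0) (XT.lf (nat_lit 76) (nat_lit 1367804005) (nat_lit 0) (nat_lit 957641045) (nat_lit 684) (nat_lit 1367804005) (nat_lit 323) (nat_lit 1) (nat_lit 322) (nat_lit 1) (nat_lit 331) (nat_lit 1) (nat_lit 348) (nat_lit 349) (nat_lit 323)) (XT.lf (nat_lit 608) (nat_lit 2251894508) (nat_lit 0) (nat_lit 696961494) (nat_lit 532) (nat_lit 696961494) (nat_lit 323) (nat_lit 1) (nat_lit 315) (nat_lit 1) (nat_lit 322) (nat_lit 1) (nat_lit 349) (nat_lit 349) (nat_lit 322))) (XT.nd (nat_lit 78) (nat_lit 532) (nat_lit 0) (XT.lf (nat_lit 76) (nat_lit 879986881) (nat_lit 0) (nat_lit 1839144278) (nat_lit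 608) (nat_lit 879986881) (nat_lit 316) (nat_lit 1) (nat_lit 315) (nat_lit 1) (nat_lit 323) (nat_lit 1) (nat_lit 350) (nat_lit 349) (nat_lit 321)) (XT.nd (nat_lit 78) (nat_lit 0) (nat_lit 0) (XT.lf (nat_lit 608) (nat_lit 1264349979) (nat_lit 0) (nat_lit 1144451807) (nat_lit 532) (nat_lit 1144451807) (nat_lit 316) (nat_lit 1) (nat_lit 308) (nat_lit 1) (nat_lit 315) (nat_lit 1) (nat_lit 351) (nat_lit 349) (nat_lit 320)) (XT.lf (nat_lit 76) (nat_lit 385321761) (nat_lit 0) (nat_lit 2737716870) (nat_lit 608) (nat_lit 385321761) (nat_lit 309) (nat_lit 1) (nat_lit 308) (nat_lit 1) (nat_lit 316) (nat_lit 1) (nat_lit 352) (nat_lit 349) (nat_lit 319))))) (XT.nd (nat_lit 156) (nat_lit 456) (nat_lit 0) (XT.nd (nat_lit 78) (nat_lit 608) (nat_lit 0) (XT.lf (nat_lit 532) (nat_lit 264476505) (nat_lit 0) (nat_lit 1599758249) (nat_lit 456) (nat_lit 1599758249) (nat_lit 309) (nat_lit 1) (nat_lit 302) (nat_lit 1) (nat_lit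 308) (nat_lit 1) (nat_lit 353) (nat_lit 349) (nat_lit 318)) (XT.lf (nat_lit 608) (nat_lit 3193392814) (nat_lit 0) (nat_lit 113657855) (nat_lit 532) (nat_lit 113657855) (nat_lit 302) (nat_lit 1) (nat_lit 294) (nat_lit 1) (nat_lit 301) (nat_lit 1) (nat_lit 354) (nat_lit 349) (nat_lit 317))) (XT.nd (nat_lit 78) (nat_lit 456) (nat_lit 0) (XT.lf (nat_lit 76) (nat_lit 1323609825) (nat_lit 0) (nat_lit 730470157) (nat_lit 608) (nat_lit 1323609825) (nat_lit 295) (nat_lit 1) (nat_lit 294) (nat_lit 1) (nat_lit 302) (nat_lit 1) (nat_lit 355) (nat_lit 349) (nat_lit 316)) (XT.nd (nat_lit 78) (nat_lit 0) (nat_lit 0) (XT.lf (nat_lit 532) (nat_lit 2109792971) (nat_lit 0) (nat_lit 612961252) (nat_lit 456) (nat_lit 612961252) (nat_lit 295) (nat_lit 1) (nat_lit 288) (nat_lit 1) (nat_lit 294) (nat_lit 1) (nat_lit 356) (nat_lit 349) (nat_lit 315)) (XT.lf (nat_lit 76) (nat_lit 783565228) (nat_lit 0) (nat_lit 1727224822) (nat_lit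 532) (nat_lit 783565228) (nat_lit 289) (nat_lit 1) (nat_lit 288) (nat_lit 1) (nat_lit 295) (nat_lit 1) (nat_lit 357) (nat_lit 349) (nat_lit 314))))))))
noncomputable def ec85 : XT := (XT.nd (nat_lit 1482) (nat_lit 3040) (nat_lit 0) (XT.nd (nat_lit 702) (nat_lit 2128) (nat_lit 0) (XT.nd (nat_lit 312) (nat_lit 1216) (nat_lit 0) (XT.nd (nat_lit 156) (nat_lit 912) (nat_lit 0) (XT.nd (nat_lit 78) (nat_lit 0) (nat_lit 0) (XT.lf (nat_lit 532) (nat_lit 1023340070) (nat_lit 0) (nat_lit 1115183233) (nat_lit 456) (nat_lit 1115183233) (nat_lit 289) (nat_lit 1) (nat_lit 282) (nat_lit 1) (nat_lit 288) (nat_lit 1) (nat_lit 358) (nat_lit 349) (nat_lit 313)) (XT.lf (nat_lit 76) (nat_lit 242628079) (nat_lit 0) (nat_lit 2728690470) (nat_lit 532) (nat_lit 242628079) (nat_lit 283) (nat_lit 1) (nat_lit 282) (nat_lit 1) (nat_lit 289) (nat_lit 1) (nat_lit 359) (nat_lit 349) (nat_lit 312))) (XT.nd (nat_lit 78) (nat_lit 456)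 (nat_lit 0) (XT.lf (nat_lit 76) (nat_lit 1555943477) (nat_lit 0) (nat_lit 62660212) (nat_lit 456) (nat_lit 1555943477) (nat_lit 277) (nat_lit 1) (nat_lit 276) (nat_lit 1) (nat_lit 282) (nat_lit 1) (nat_lit 360) (nat_lit 349) (nat_lit 311)) (XT.lf (nat_lit 532) (nat_lit 2545408845) (nat_lit 0) (nat_lit 295297714) (nat_lit 456) (nat_lit 295297714) (nat_lit 277) (nat_lit 1) (nat_lit 270) (nat_lit 1) (nat_lit 276) (nat_lit 1) (nat_lit 361) (nat_lit 349) (nat_lit 310)))) (XT.nd (nat_lit 156) (nat_lit 836) (nat_lit 0) (XT.nd (nat_lit 78) (nat_lit 380) (nat_lit 0) (XT.lf (nat_lit 76) (nat_lit 985114015) (nat_lit 0) (nat_lit 1127621919) (nat_lit 532) (nat_lit 985114015) (nat_lit 271) (nat_lit 1) (nat_lit 270) (nat_lit 1) (nat_lit 277) (nat_lit 1) (nat_lit 362) (nat_lit 349) (nat_lit 309)) (XT.lf (nat_lit 456) (nat_lit 1400744938) (nat_lit 0) (nat_lit 829869992) (nat_lit 380) (nat_lit 829869992) (nat_lit 271)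 (nat_lit 1) (nat_lit 265) (nat_lit 1) (nat_lit 270) (nat_lit 1) (nat_lit 363) (nat_lit 349) (nat_lit 308))) (XT.nd (nat_lit 78) (nat_lit 836) (nat_lit 0) (XT.lf (nat_lit 76) (nat_lit 416989985) (nat_lit 0) (nat_lit 2189824282) (nat_lit 456) (nat_lit 416989985) (nat_lit 266) (nat_lit 1) (nat_lit 265) (nat_lit 1) (nat_lit 271) (nat_lit 1) (nat_lit 364) (nat_lit 349) (nat_lit 307)) (XT.nd (nat_lit 78) (nat_lit 456) (nat_lit 0) (XT.lf (nat_lit 456) (nat_lit 262253854) (nat_lit 0) (nat_lit 1362656395) (nat_lit 380) (nat_lit 1362656395) (nat_lit 266) (nat_lit 1) (nat_lit 260) (nat_lit 1) (nat_lit 265) (nat_lit 1) (nat_lit 365) (nat_lit 349) (nat_lit 306)) (XT.lf (nat_lit 456) (nat_lit 2659617253) (nat_lit 0) (nat_lit 146260187) (nat_lit 380) (nat_lit 146260187) (nat_lit 260) (nat_lit 1) (nat_lit 254) (nat_lit 1) (nat_lit 259) (nat_lit 1) (nat_lit 366) (nat_lit 349) (nat_lit 305)))))) (XT.nd (nat_lit 390)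 (nat_lit 988) (nat_lit 0) (XT.nd (nat_lit 156) (nat_lit 760) (nat_lit 0) (XT.nd (nat_lit 78) (nat_lit 380) (nat_lit 0) (XT.lf (nat_lit 76) (nat_lit 1032583293) (nat_lit 0) (nat_lit 851733538) (nat_lit 456) (nat_lit 1032583293) (nat_lit 255) (nat_lit 1) (nat_lit 254) (nat_lit 1) (nat_lit 260) (nat_lit 1) (nat_lit 367) (nat_lit 349) (nat_lit 304)) (XT.lf (nat_lit 456) (nat_lit 1479679687) (nat_lit 0) (nat_lit 701383027) (nat_lit 380) (nat_lit 701383027) (nat_lit 255) (nat_lit 1) (nat_lit 249) (nat_lit 1) (nat_lit 254) (nat_lit 1) (nat_lit 368) (nat_lit 349) (nat_lit 303))) (XT.nd (nat_lit 78) (nat_lit 760) (nat_lit 0) (XT.lf (nat_lit 76) (nat_lit 448297756) (nat_lit 0) (nat_lit 1951972665) (nat_lit 456) (nat_lit 448297756) (nat_lit 250) (nat_lit 1) (nat_lit 249) (nat_lit 1) (nat_lit 255) (nat_lit 1) (nat_lit 369) (nat_lit 349) (nat_lit 302)) (XT.nd (nat_lit 78) (nat_lit 456) (nat_lit 0) (XT.lf (nat_lit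 380) (nat_lit 311357383) (nat_lit 0) (nat_lit 1251881283) (nat_lit 304) (nat_lit 1251881283) (nat_lit 250) (nat_lit 1) (nat_lit 245) (nat_lit 1) (nat_lit 249) (nat_lit 1) (nat_lit 370) (nat_lit 349) (nat_lit 301)) (XT.lf (nat_lit 456) (nat_lit 2525035980) (nat_lit 0) (nat_lit 128684753) (nat_lit 380) (nat_lit 128684753) (nat_lit 245) (nat_lit 1) (nat_lit 239) (nat_lit 1) (nat_lit 244) (nat_lit 1) (nat_lit 371) (nat_lit 349) (nat_lit 300))))) (XT.nd (nat_lit 156) (nat_lit 684) (nat_lit 0) (XT.nd (nat_lit 78) (nat_lit 304) (nat_lit 0) (XT.lf (nat_lit 76) (nat_lit 960961774) (nat_lit 0) (nat_lit 827904986) (nat_lit 456) (nat_lit 960961774) (nat_lit 240) (nat_lit 1) (nat_lit 239) (nat_lit 1) (nat_lit 245) (nat_lit 1) (nat_lit 372) (nat_lit 349) (nat_lit 299)) (XT.lf (nat_lit 380) (nat_lit 1328260782) (nat_lit 0) (nat_lit 694851617) (nat_lit 304) (nat_lit 694851617) (nat_lit 240) (nat_lit 1) (nat_lit 235)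 (nat_lit 1) (nat_lit 239) (nat_lit 1) (nat_lit 373) (nat_lit 349) (nat_lit 298))) (XT.nd (nat_lit 78) (nat_lit 684) (nat_lit 0) (XT.lf (nat_lit 76) (nat_lit 369369034) (nat_lit 0) (nat_lit 1947906480) (nat_lit 380) (nat_lit 369369034) (nat_lit 236) (nat_lit 1) (nat_lit 235) (nat_lit 1) (nat_lit 240) (nat_lit 1) (nat_lit 374) (nat_lit 349) (nat_lit 297)) (XT.nd (nat_lit 78) (nat_lit 380) (nat_lit 0) (XT.lf (nat_lit 380) (nat_lit 147288795) (nat_lit 0) (nat_lit 1254196138) (nat_lit 304) (nat_lit 1254196138) (nat_lit 236) (nat_lit 1) (nat_lit 231) (nat_lit 1) (nat_lit 235) (nat_lit 1) (nat_lit 375) (nat_lit 349) (nat_lit 296)) (XT.lf (nat_lit 380) (nat_lit 2201136462) (nat_lit 0) (nat_lit 212096090) (nat_lit 304) (nat_lit 212096090) (nat_lit 231) (nat_lit 1) (nat_lit 226) (nat_lit 1) (nat_lit 230) (nat_lit 1) (nat_lit 376) (nat_lit 349) (nat_lit 295))))))) (XT.nd (nat_lit 702) (nat_lit 1520) (nat_lit 0)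 (XT.nd (nat_lit 312) (nat_lit 912) (nat_lit 0) (XT.nd (nat_lit 156) (nat_lit 304) (nat_lit 0) (XT.nd (nat_lit 78) (nat_lit 304) (nat_lit 0) (XT.lf (nat_lit 76) (nat_lit 798893969) (nat_lit 0) (nat_lit 997396328) (nat_lit 380) (nat_lit 798893969) (nat_lit 227) (nat_lit 1) (nat_lit 226) (nat_lit 1) (nat_lit 231) (nat_lit 1) (nat_lit 377) (nat_lit 349) (nat_lit 294)) (XT.lf (nat_lit 380) (nat_lit 1002234279) (nat_lit 0) (nat_lit 781699398) (nat_lit 304) (nat_lit 781699398) (nat_lit 227) (nat_lit 1) (nat_lit 222) (nat_lit 1) (nat_lit 226) (nat_lit 1) (nat_lit 378) (nat_lit 349) (nat_lit 293))) (XT.nd (nat_lit 78) (nat_lit 304) (nat_lit 0) (XT.lf (nat_lit 76) (nat_lit 207051865) (nat_lit 0) (nat_lit 2122549846) (nat_lit 380) (nat_lit 207051865) (nat_lit 223) (nat_lit 1) (nat_lit 222) (nat_lit 1) (nat_lit 227) (nat_lit 1) (nat_lit 379) (nat_lit 349) (nat_lit 292)) (XT.lf (nat_lit 76) (nat_lit 1166811184)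 (nat_lit 0) (nat_lit 174238427) (nat_lit 304) (nat_lit 1166811184) (nat_lit 219) (nat_lit 1) (nat_lit 218) (nat_lit 1) (nat_lit 222) (nat_lit 1) (nat_lit 380) (nat_lit 349) (nat_lit 291)))) (XT.nd (nat_lit 156) (nat_lit 608) (nat_lit 0) (XT.nd (nat_lit 78) (nat_lit 0) (nat_lit 0) (XT.lf (nat_lit 380) (nat_lit 1736462556) (nat_lit 0) (nat_lit 371580640) (nat_lit 304) (nat_lit 371580640) (nat_lit 219) (nat_lit 1) (nat_lit 214) (nat_lit 1) (nat_lit 218) (nat_lit 1) (nat_lit 381) (nat_lit 349) (nat_lit 290)) (XT.lf (nat_lit 76) (nat_lit 569751524) (nat_lit 0) (nat_lit 1312205504) (nat_lit 380) (nat_lit 569751524) (nat_lit 215) (nat_lit 1) (nat_lit 214) (nat_lit 1) (nat_lit 219) (nat_lit 1) (nat_lit 382) (nat_lit 349) (nat_lit 289))) (XT.nd (nat_lit 78) (nat_lit 380) (nat_lit 0) (XT.lf (nat_lit 304) (nat_lit 547065952) (nat_lit 0) (nat_lit 938582841) (nat_lit 228) (nat_lit 938582841) (nat_lit 215) (nat_lit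 1) (nat_lit 211) (nat_lit 1) (nat_lit 214) (nat_lit 1) (nat_lit 383) (nat_lit 349) (nat_lit 288)) (XT.nd (nat_lit 78) (nat_lit 0) (nat_lit 0) (XT.lf (nat_lit 380) (nat_lit 2364174375) (nat_lit 0) (nat_lit 16601721) (nat_lit 304) (nat_lit 16601721) (nat_lit 211) (nat_lit 1) (nat_lit 206) (nat_lit 1) (nat_lit 210) (nat_lit 1) (nat_lit 384) (nat_lit 349) (nat_lit 287)) (XT.lf (nat_lit 76) (nat_lit 880768912) (nat_lit 0) (nat_lit 608933379) (nat_lit 380) (nat_lit 880768912) (nat_lit 207) (nat_lit 1) (nat_lit 206) (nat_lit 1) (nat_lit 211) (nat_lit 1) (nat_lit 385) (nat_lit 349) (nat_lit 286)))))) (XT.nd (nat_lit 390) (nat_lit 760) (nat_lit 0) (XT.nd (nat_lit 156) (nat_lit 532) (nat_lit 0) (XT.nd (nat_lit 78) (nat_lit 0) (nat_lit 0) (XT.lf (nat_lit 304) (nat_lit 1170483861) (nat_lit 0) (nat_lit 586845268) (nat_lit 228) (nat_lit 586845268) (nat_lit 207) (nat_lit 1) (nat_lit 203) (nat_lit 1) (nat_lit 206)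 (nat_lit 1) (nat_lit 386) (nat_lit 349) (nat_lit 285)) (XT.lf (nat_lit 76) (nat_lit 292528056) (nat_lit 0) (nat_lit 1733249863) (nat_lit 304) (nat_lit 292528056) (nat_lit 204) (nat_lit 1) (nat_lit 203) (nat_lit 1) (nat_lit 207) (nat_lit 1) (nat_lit 387) (nat_lit 349) (nat_lit 284))) (XT.nd (nat_lit 78) (nat_lit 228) (nat_lit 0) (XT.lf (nat_lit 76) (nat_lit 1146194550) (nat_lit 0) (nat_lit 306880) (nat_lit 304) (nat_lit 1146194550) (nat_lit 200) (nat_lit 1) (nat_lit 199) (nat_lit 1) (nat_lit 203) (nat_lit 1) (nat_lit 388) (nat_lit 349) (nat_lit 283)) (XT.nd (nat_lit 78) (nat_lit 0) (nat_lit 0) (XT.lf (nat_lit 304) (nat_lit 1704447953) (nat_lit 0) (nat_lit 281527303) (nat_lit 228) (nat_lit 281527303) (nat_lit 200) (nat_lit 1) (nat_lit 196) (nat_lit 1) (nat_lit 199) (nat_lit 1) (nat_lit 389) (nat_lit 349) (nat_lit 282)) (XT.lf (nat_lit 76) (nat_lit 558377791) (nat_lit 0) (nat_lit 1125795818) (nat_lit 304)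 (nat_lit 558377791) (nat_lit 197) (nat_lit 1) (nat_lit 196) (nat_lit 1) (nat_lit 200) (nat_lit 1) (nat_lit 390) (nat_lit 349) (nat_lit 281))))) (XT.nd (nat_lit 156) (nat_lit 228) (nat_lit 0) (XT.nd (nat_lit 78) (nat_lit 304) (nat_lit 0) (XT.lf (nat_lit 304) (nat_lit 535143252) (nat_lit 0) (nat_lit 841431125) (nat_lit 228) (nat_lit 841431125) (nat_lit 197) (nat_lit 1) (nat_lit 193) (nat_lit 1) (nat_lit 196) (nat_lit 1) (nat_lit 391) (nat_lit 349) (nat_lit 280)) (XT.lf (nat_lit 304) (nat_lit 2159514107) (nat_lit 0) (nat_lit 17242958) (nat_lit 228) (nat_lit 17242958) (nat_lit 193) (nat_lit 1) (nat_lit 189) (nat_lit 1) (nat_lit 192) (nat_lit 1) (nat_lit 392) (nat_lit 349) (nat_lit 279))) (XT.nd (nat_lit 78) (nat_lit 228) (nat_lit 0) (XT.lf (nat_lit 76) (nat_lit 785888525) (nat_lit 0) (nat_lit 598144095) (nat_lit 304) (nat_lit 785888525) (nat_lit 190) (nat_lit 1) (nat_lit 189) (nat_lit 1) (nat_lit 193) (nat_lit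 1) (nat_lit 393) (nat_lit 349) (nat_lit 278)) (XT.nd (nat_lit 78) (nat_lit 0) (nat_lit 0) (XT.lf (nat_lit 304) (nat_lit 995294390) (nat_lit 0) (nat_lit 575539201) (nat_lit 228) (nat_lit 575539201) (nat_lit 190) (nat_lit 1) (nat_lit 186) (nat_lit 1) (nat_lit 189) (nat_lit 1) (nat_lit 394) (nat_lit 349) (nat_lit 277)) (XT.lf (nat_lit 76) (nat_lit 212874044) (nat_lit 0) (nat_lit 1697475206) (nat_lit 304) (nat_lit 212874044) (nat_lit 187) (nat_lit 1) (nat_lit 186) (nat_lit 1) (nat_lit 190) (nat_lit 1) (nat_lit 395) (nat_lit 349) (nat_lit 276))))))))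
noncomputable def ec86 : XT := (XT.nd (nat_lit 1482) (nat_lit 1748) (nat_lit 0) (XT.nd (nat_lit 702) (nat_lit 1292) (nat_lit 0) (XT.nd (nat_lit 312) (nat_lit 684) (nat_lit 0) (XT.nd (nat_lit 156) (nat_lit 152) (nat_lit 0) (XT.nd (nat_lit 78) (nat_lit 228) (nat_lit 0) (XT.lf (nat_lit 76) (nat_lit 979588755) (nat_lit 0) (nat_lit 141044341) (nat_lit 228) (nat_lit 979588755) (nat_lit 184) (nat_lit 1) (nat_lit 183) (nat_lit 1) (nat_lit 186) (nat_lit 1) (nat_lit 396) (nat_lit 349) (nat_lit 275)) (XT.lf (nat_lit 304) (nat_lit 1388992138) (nat_lit 0) (nat_lit 344309169) (nat_lit 228) (nat_lit 344309169) (nat_lit 184) (nat_lit 1) (nat_lit 180) (nat_lit 1) (nat_lit 183) (nat_lit 1) (nat_lit 397) (nat_lit 349) (nat_lit 274))) (XT.nd (nat_lit 78) (nat_lit 152) (nat_lit 0) (XT.lf (nat_lit 76) (nat_lit 410830854) (nat_lit 0) (nat_lit 1233595420) (nat_lit 304) (nat_lit 410830854) (nat_lit 181) (nat_lit 1) (nat_lit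 180) (nat_lit 1) (nat_lit 184) (nat_lit 1) (nat_lit 398) (nat_lit 349) (nat_lit 273)) (XT.lf (nat_lit 228) (nat_lit 258761393) (nat_lit 0) (nat_lit 887220600) (nat_lit 152) (nat_lit 887220600) (nat_lit 181) (nat_lit 1) (nat_lit 178) (nat_lit 1) (nat_lit 180) (nat_lit 1) (nat_lit 399) (nat_lit 349) (nat_lit 272)))) (XT.nd (nat_lit 156) (nat_lit 380) (nat_lit 0) (XT.nd (nat_lit 78) (nat_lit 0) (nat_lit 0) (XT.lf (nat_lit 304) (nat_lit 1724087896) (nat_lit 0) (nat_lit 143729813) (nat_lit 228) (nat_lit 143729813) (nat_lit 178) (nat_lit 1) (nat_lit 174) (nat_lit 1) (nat_lit 177) (nat_lit 1) (nat_lit 400) (nat_lit 349) (nat_lit 271)) (XT.lf (nat_lit 76) (nat_lit 580255779) (nat_lit 0) (nat_lit 829441985) (nat_lit 304) (nat_lit 580255779) (nat_lit 175) (nat_lit 1) (nat_lit 174) (nat_lit 1) (nat_lit 178) (nat_lit 1) (nat_lit 401) (nat_lit 349) (nat_lit 270))) (XT.nd (nat_lit 78) (nat_lit 228) (nat_lit 0) (XT.lf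 (nat_lit 228) (nat_lit 605218281) (nat_lit 0) (nat_lit 681766693) (nat_lit 152) (nat_lit 681766693) (nat_lit 175) (nat_lit 1) (nat_lit 172) (nat_lit 1) (nat_lit 174) (nat_lit 1) (nat_lit 402) (nat_lit 349) (nat_lit 269)) (XT.nd (nat_lit 78) (nat_lit 228) (nat_lit 0) (XT.lf (nat_lit 76) (nat_lit 30053167) (nat_lit 0) (nat_lit 1887886456) (nat_lit 228) (nat_lit 30053167) (nat_lit 173) (nat_lit 1) (nat_lit 172) (nat_lit 1) (nat_lit 175) (nat_lit 1) (nat_lit 403) (nat_lit 349) (nat_lit 268)) (XT.lf (nat_lit 76) (nat_lit 724518566) (nat_lit 0) (nat_lit 478121696) (nat_lit 228) (nat_lit 724518566) (nat_lit 170) (nat_lit 1) (nat_lit 169) (nat_lit 1) (nat_lit 172) (nat_lit 1) (nat_lit 404) (nat_lit 349) (nat_lit 267)))))) (XT.nd (nat_lit 390) (nat_lit 760) (nat_lit 0) (XT.nd (nat_lit 156) (nat_lit 380) (nat_lit 0) (XT.nd (nat_lit 78) (nat_lit 0) (nat_lit 0) (XT.lf (nat_lit 228) (nat_lit 902109318) (nat_lit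 0) (nat_lit 502326004) (nat_lit 152) (nat_lit 502326004) (nat_lit 170) (nat_lit 1) (nat_lit 167) (nat_lit 1) (nat_lit 169) (nat_lit 1) (nat_lit 405) (nat_lit 349) (nat_lit 266)) (XT.lf (nat_lit 76) (nat_lit 181089832) (nat_lit 0) (nat_lit 1524518112) (nat_lit 228) (nat_lit 181089832) (nat_lit 168) (nat_lit 1) (nat_lit 167) (nat_lit 1) (nat_lit 170) (nat_lit 1) (nat_lit 406) (nat_lit 349) (nat_lit 265))) (XT.nd (nat_lit 78) (nat_lit 152) (nat_lit 0) (XT.lf (nat_lit 76) (nat_lit 846607713) (nat_lit 0) (nat_lit 173516813) (nat_lit 228) (nat_lit 846607713) (nat_lit 165) (nat_lit 1) (nat_lit 164) (nat_lit 1) (nat_lit 167) (nat_lit 1) (nat_lit 407) (nat_lit 349) (nat_lit 264)) (XT.nd (nat_lit 78) (nat_lit 0) (nat_lit 0) (XT.lf (nat_lit 228) (nat_lit 1155280128) (nat_lit 0) (nat_lit 345907359) (nat_lit 152) (nat_lit 345907359) (nat_lit 165) (nat_lit 1) (nat_lit 162) (nat_lit 1) (nat_lit 164) (nat_lit 1) (nat_lit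 408) (nat_lit 349) (nat_lit 263)) (XT.lf (nat_lit 76) (nat_lit 310787215) (nat_lit 0) (nat_lit 1206121827) (nat_lit 228) (nat_lit 310787215) (nat_lit 163) (nat_lit 1) (nat_lit 162) (nat_lit 1) (nat_lit 165) (nat_lit 1) (nat_lit 409) (nat_lit 349) (nat_lit 262))))) (XT.nd (nat_lit 156) (nat_lit 380) (nat_lit 0) (XT.nd (nat_lit 78) (nat_lit 228) (nat_lit 0) (XT.lf (nat_lit 228) (nat_lit 91588836) (nat_lit 0) (nat_lit 858464716) (nat_lit 152) (nat_lit 858464716) (nat_lit 163) (nat_lit 1) (nat_lit 160) (nat_lit 1) (nat_lit 162) (nat_lit 1) (nat_lit 410) (nat_lit 349) (nat_lit 261)) (XT.lf (nat_lit 228) (nat_lit 1369915201) (nat_lit 0) (nat_lit 209855772) (nat_lit 152) (nat_lit 209855772) (nat_lit 160) (nat_lit 1) (nat_lit 157) (nat_lit 1) (nat_lit 159) (nat_lit 1) (nat_lit 411) (nat_lit 349) (nat_lit 260))) (XT.nd (nat_lit 78) (nat_lit 380) (nat_lit 0) (XT.lf (nat_lit 76) (nat_lit 421655896) (nat_lit 0)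 (nat_lit 927552972) (nat_lit 228) (nat_lit 421655896) (nat_lit 158) (nat_lit 1) (nat_lit 157) (nat_lit 1) (nat_lit 160) (nat_lit 1) (nat_lit 412) (nat_lit 349) (nat_lit 259)) (XT.nd (nat_lit 78) (nat_lit 228) (nat_lit 0) (XT.lf (nat_lit 228) (nat_lit 322952691) (nat_lit 0) (nat_lit 714715847) (nat_lit 152) (nat_lit 714715847) (nat_lit 158) (nat_lit 1) (nat_lit 155) (nat_lit 1) (nat_lit 157) (nat_lit 1) (nat_lit 413) (nat_lit 349) (nat_lit 258)) (XT.lf (nat_lit 228) (nat_lit 1550611884) (nat_lit 0) (nat_lit 91814877) (nat_lit 152) (nat_lit 91814877) (nat_lit 155) (nat_lit 1) (nat_lit 152) (nat_lit 1) (nat_lit 154) (nat_lit 1) (nat_lit 414) (nat_lit 349) (nat_lit 257))))))) (XT.nd (nat_lit 702) (nat_lit 988) (nat_lit 0) (XT.nd (nat_lit 312) (nat_lit 456) (nat_lit 0) (XT.nd (nat_lit 156) (nat_lit 152) (nat_lit 0) (XT.nd (nat_lit 78) (nat_lit 152) (nat_lit 0) (XT.lf (nat_lit 76) (nat_lit 515922677) (nat_lit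 0) (nat_lit 684244385) (nat_lit 228) (nat_lit 515922677) (nat_lit 153) (nat_lit 1) (nat_lit 152) (nat_lit 1) (nat_lit 155) (nat_lit 1) (nat_lit 415) (nat_lit 349) (nat_lit 256)) (XT.lf (nat_lit 228) (nat_lit 521480250) (nat_lit 0) (nat_lit 588395449) (nat_lit 152) (nat_lit 588395449) (nat_lit 153) (nat_lit 1) (nat_lit 150) (nat_lit 1) (nat_lit 152) (nat_lit 1) (nat_lit 416) (nat_lit 349) (nat_lit 255))) (XT.nd (nat_lit 78) (nat_lit 152) (nat_lit 0) (XT.lf (nat_lit 76) (nat_lit 10408489) (nat_lit 0) (nat_lit 1660004184) (nat_lit 228) (nat_lit 10408489) (nat_lit 151) (nat_lit 1) (nat_lit 150) (nat_lit 1) (nat_lit 153) (nat_lit 1) (nat_lit 417) (nat_lit 349) (nat_lit 254)) (XT.lf (nat_lit 76) (nat_lit 595562339) (nat_lit 0) (nat_lit 472141869) (nat_lit 152) (nat_lit 595562339) (nat_lit 149) (nat_lit 1) (nat_lit 148) (nat_lit 1) (nat_lit 150) (nat_lit 1) (nat_lit 418) (nat_lit 349) (nat_lit 253)))) (XT.nd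 (nat_lit 156) (nat_lit 304) (nat_lit 0) (XT.nd (nat_lit 78) (nat_lit 0) (nat_lit 0) (XT.lf (nat_lit 228) (nat_lit 691038125) (nat_lit 0) (nat_lit 477519285) (nat_lit 152) (nat_lit 477519285) (nat_lit 149) (nat_lit 1) (nat_lit 146) (nat_lit 1) (nat_lit 148) (nat_lit 1) (nat_lit 419) (nat_lit 349) (nat_lit 252)) (XT.lf (nat_lit 76) (nat_lit 99337619) (nat_lit 0) (nat_lit 1430512999) (nat_lit 228) (nat_lit 99337619) (nat_lit 147) (nat_lit 1) (nat_lit 146) (nat_lit 1) (nat_lit 149) (nat_lit 1) (nat_lit 420) (nat_lit 349) (nat_lit 251))) (XT.nd (nat_lit 78) (nat_lit 152) (nat_lit 0) (XT.lf (nat_lit 76) (nat_lit 662325854) (nat_lit 0) (nat_lit 287646882) (nat_lit 152) (nat_lit 662325854) (nat_lit 145) (nat_lit 1) (nat_lit 144) (nat_lit 1) (nat_lit 146) (nat_lit 1) (nat_lit 421) (nat_lit 349) (nat_lit 250)) (XT.nd (nat_lit 78) (nat_lit 0) (nat_lit 0) (XT.lf (nat_lit 228) (nat_lit 835055779) (nat_lit 0) (nat_lit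 380325572) (nat_lit 152) (nat_lit 380325572) (nat_lit 145) (nat_lit 1) (nat_lit 142) (nat_lit 1) (nat_lit 144) (nat_lit 1) (nat_lit 422) (nat_lit 349) (nat_lit 249)) (XT.lf (nat_lit 76) (nat_lit 175726023) (nat_lit 0) (nat_lit 1227905653) (nat_lit 228) (nat_lit 175726023) (nat_lit 143) (nat_lit 1) (nat_lit 142) (nat_lit 1) (nat_lit 145) (nat_lit 1) (nat_lit 423) (nat_lit 349) (nat_lit 248)))))) (XT.nd (nat_lit 390) (nat_lit 380) (nat_lit 0) (XT.nd (nat_lit 156) (nat_lit 304) (nat_lit 0) (XT.nd (nat_lit 78) (nat_lit 152) (nat_lit 0) (XT.lf (nat_lit 76) (nat_lit 717765447) (nat_lit 0) (nat_lit 127565623) (nat_lit 152) (nat_lit 717765447) (nat_lit 141) (nat_lit 1) (nat_lit 140) (nat_lit 1) (nat_lit 142) (nat_lit 1) (nat_lit 424) (nat_lit 349) (nat_lit 247)) (XT.lf (nat_lit 228) (nat_lit 956574454) (nat_lit 0) (nat_lit 295250144) (nat_lit 152) (nat_lit 295250144) (nat_lit 141) (nat_lit 1) (nat_lit 138)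 (nat_lit 1) (nat_lit 140) (nat_lit 1) (nat_lit 425) (nat_lit 349) (nat_lit 246))) (XT.nd (nat_lit 78) (nat_lit 304) (nat_lit 0) (XT.lf (nat_lit 76) (nat_lit 241048583) (nat_lit 0) (nat_lit 1049146600) (nat_lit 228) (nat_lit 241048583) (nat_lit 139) (nat_lit 1) (nat_lit 138) (nat_lit 1) (nat_lit 141) (nat_lit 1) (nat_lit 426) (nat_lit 349) (nat_lit 245)) (XT.nd (nat_lit 78) (nat_lit 228) (nat_lit 0) (XT.lf (nat_lit 152) (nat_lit 11153855) (nat_lit 0) (nat_lit 752210223) (nat_lit 76) (nat_lit 752210223) (nat_lit 139) (nat_lit 1) (nat_lit 137) (nat_lit 1) (nat_lit 138) (nat_lit 1) (nat_lit 427) (nat_lit 349) (nat_lit 244)) (XT.lf (nat_lit 228) (nat_lit 1058290624) (nat_lit 0) (nat_lit 220904375) (nat_lit 152) (nat_lit 220904375) (nat_lit 137) (nat_lit 1) (nat_lit 134) (nat_lit 1) (nat_lit 136) (nat_lit 1) (nat_lit 428) (nat_lit 349) (nat_lit 243))))) (XT.nd (nat_lit 156) (nat_lit 304) (nat_lit 0) (XT.nd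 (nat_lit 78) (nat_lit 76) (nat_lit 0) (XT.lf (nat_lit 76) (nat_lit 296613483) (nat_lit 0) (nat_lit 891539895) (nat_lit 228) (nat_lit 296613483) (nat_lit 135) (nat_lit 1) (nat_lit 134) (nat_lit 1) (nat_lit 137) (nat_lit 1) (nat_lit 429) (nat_lit 349) (nat_lit 242)) (XT.lf (nat_lit 152) (nat_lit 132968266) (nat_lit 0) (nat_lit 668329040) (nat_lit 76) (nat_lit 668329040) (nat_lit 135) (nat_lit 1) (nat_lit 133) (nat_lit 1) (nat_lit 134) (nat_lit 1) (nat_lit 430) (nat_lit 349) (nat_lit 241))) (XT.nd (nat_lit 78) (nat_lit 76) (nat_lit 0) (XT.lf (nat_lit 228) (nat_lit 1142594611) (nat_lit 0) (nat_lit 156055574) (nat_lit 152) (nat_lit 156055574) (nat_lit 133) (nat_lit 1) (nat_lit 130) (nat_lit 1) (nat_lit 132) (nat_lit 1) (nat_lit 431) (nat_lit 349) (nat_lit 240)) (XT.nd (nat_lit 78) (nat_lit 76) (nat_lit 0) (XT.lf (nat_lit 76) (nat_lit 343580868) (nat_lit 0) (nat_lit 752691289) (nat_lit 228) (nat_lit 343580868)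 (nat_lit 131) (nat_lit 1) (nat_lit 130) (nat_lit 1) (nat_lit 133) (nat_lit 1) (nat_lit 432) (nat_lit 349) (nat_lit 239)) (XT.lf (nat_lit 152) (nat_lit 237614572) (nat_lit 0) (nat_lit 593801696) (nat_lit 76) (nat_lit 593801696) (nat_lit 131) (nat_lit 1) (nat_lit 129) (nat_lit 1) (nat_lit 130) (nat_lit 1) (nat_lit 433) (nat_lit 349) (nat_lit 238))))))))
noncomputable def ec87 : XT := (XT.nd (nat_lit 45474) (nat_lit 0) (nat_lit 12388) (XT.nd (nat_lit 44694) (nat_lit 0) (nat_lit 18088) (XT.nd (nat_lit 44304) (nat_lit 0) (nat_lit 18924) (XT.nd (nat_lit 156) (nat_lit 76) (nat_lit 0) (XT.nd (nat_lit 78) (nat_lit 0) (nat_lit 0) (XT.lf (nat_lit 228) (nat_lit 1211604881) (nat_lit 0) (nat_lit 99609569) (nat_lit 152) (nat_lit 99609569) (nat_lit 129) (nat_lit 1) (nat_lit 126) (nat_lit 1) (nat_lit 128) (nat_lit 1) (nat_lit 434) (nat_lit 349) (nat_lit 237)) (XT.lf (nat_lit 76) (nat_lit 382979414) (nat_lit 0) (nat_lit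 630474559) (nat_lit 228) (nat_lit 382979414) (nat_lit 127) (nat_lit 1) (nat_lit 126) (nat_lit 1) (nat_lit 129) (nat_lit 1) (nat_lit 435) (nat_lit 349) (nat_lit 236))) (XT.nd (nat_lit 44070) (nat_lit 0) (nat_lit 18924) (XT.lf (nat_lit 152) (nat_lit 327111635) (nat_lit 0) (nat_lit 527585116) (nat_lit 76) (nat_lit 527585116) (nat_lit 127) (nat_lit 1) (nat_lit 125) (nat_lit 1) (nat_lit 126) (nat_lit 1) (nat_lit 436) (nat_lit 349) (nat_lit 235)) (XT.lf (nat_lit 1292) (nat_lit 501229847) (nat_lit 0) (nat_lit 1724463780) (nat_lit 1292) (nat_lit 501229847) (nat_lit 391) (nat_lit 1) (nat_lit 374) (nat_lit 0) (nat_lit 391) (nat_lit 0) (nat_lit 320) (nat_lit 350) (nat_lit 350)))) (XT.nd (nat_lit 156) (nat_lit 0) (nat_lit 76) (XT.nd (nat_lit 78) (nat_lit 0) (nat_lit 76) (XT.lf (nat_lit 1292) (nat_lit 1958815025) (nat_lit 76) (nat_lit 1707557273) (nat_lit 0) (nat_lit 1707557273) (nat_lit 391) (nat_lit 1) (nat_lit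 375) (nat_lit 1) (nat_lit 374) (nat_lit 0) (nat_lit 321) (nat_lit 350) (nat_lit 349)) (XT.lf (nat_lit 1292) (nat_lit 947329650) (nat_lit 0) (nat_lit 3401115704) (nat_lit 1216) (nat_lit 947329650) (nat_lit 392) (nat_lit 1) (nat_lit 375) (nat_lit 1) (nat_lit 391) (nat_lit 1) (nat_lit 322) (nat_lit 350) (nat_lit 348))) (XT.nd (nat_lit 78) (nat_lit 0) (nat_lit 76) (XT.lf (nat_lit 1292) (nat_lit 1799027916) (nat_lit 76) (nat_lit 1709948837) (nat_lit 0) (nat_lit 1709948837) (nat_lit 392) (nat_lit 1) (nat_lit 376) (nat_lit 1) (nat_lit 375) (nat_lit 1) (nat_lit 323) (nat_lit 350) (nat_lit 347)) (XT.nd (nat_lit 78) (nat_lit 0) (nat_lit 0) (XT.lf (nat_lit 1292) (nat_lit 844184877) (nat_lit 0) (nat_lit 3455425954) (nat_lit 1216) (nat_lit 844184877) (nat_lit 393) (nat_lit 1) (nat_lit 376) (nat_lit 1) (nat_lit 392) (nat_lit 1) (nat_lit 324) (nat_lit 350) (nat_lit 346)) (XT.lf (nat_lit 1292) (nat_lit 1547057922)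 (nat_lit 76) (nat_lit 1761404727) (nat_lit 0) (nat_lit 1761404727) (nat_lit 393) (nat_lit 1) (nat_lit 377) (nat_lit 1) (nat_lit 376) (nat_lit 1) (nat_lit 325) (nat_lit 350) (nat_lit 345)))))) (XT.nd (nat_lit 390) (nat_lit 1064) (nat_lit 0) (XT.nd (nat_lit 156) (nat_lit 0) (nat_lit 76) (XT.nd (nat_lit 78) (nat_lit 0) (nat_lit 0) (XT.lf (nat_lit 1292) (nat_lit 697272281) (nat_lit 0) (nat_lit 3603101595) (nat_lit 1216) (nat_lit 697272281) (nat_lit 394) (nat_lit 1) (nat_lit 377) (nat_lit 1) (nat_lit 393) (nat_lit 1) (nat_lit 326) (nat_lit 350) (nat_lit 344)) (XT.lf (nat_lit 1292) (nat_lit 1211148814) (nat_lit 76) (nat_lit 1857675393) (nat_lit 0) (nat_lit 1857675393) (nat_lit 394) (nat_lit 1) (nat_lit 378) (nat_lit 1) (nat_lit 377) (nat_lit 1) (nat_lit 327) (nat_lit 350) (nat_lit 343))) (XT.nd (nat_lit 78) (nat_lit 0) (nat_lit 0) (XT.lf (nat_lit 1292) (nat_lit 510551558) (nat_lit 0) (nat_lit 3835972886)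 (nat_lit 1216) (nat_lit 510551558) (nat_lit 395) (nat_lit 1) (nat_lit 378) (nat_lit 1) (nat_lit 394) (nat_lit 1) (nat_lit 328) (nat_lit 350) (nat_lit 342)) (XT.nd (nat_lit 78) (nat_lit 0) (nat_lit 76) (XT.lf (nat_lit 1292) (nat_lit 798985154) (nat_lit 76) (nat_lit 1994796965) (nat_lit 0) (nat_lit 1994796965) (nat_lit 395) (nat_lit 1) (nat_lit 379) (nat_lit 1) (nat_lit 378) (nat_lit 1) (nat_lit 329) (nat_lit 350) (nat_lit 341)) (XT.lf (nat_lit 1292) (nat_lit 287712951) (nat_lit 0) (nat_lit 4146420912) (nat_lit 1216) (nat_lit 287712951) (nat_lit 396) (nat_lit 1) (nat_lit 379) (nat_lit 1) (nat_lit 395) (nat_lit 1) (nat_lit 330) (nat_lit 350) (nat_lit 340))))) (XT.nd (nat_lit 156) (nat_lit 1216) (nat_lit 0) (XT.nd (nat_lit 78) (nat_lit 0) (nat_lit 76) (XT.lf (nat_lit 1292) (nat_lit 317726900) (nat_lit 76) (nat_lit 2169073643) (nat_lit 0) (nat_lit 2169073643) (nat_lit 396) (nat_lit 1) (nat_lit 380) (nat_lit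 1) (nat_lit 379) (nat_lit 1) (nat_lit 331) (nat_lit 350) (nat_lit 339)) (XT.lf (nat_lit 1292) (nat_lit 32193941) (nat_lit 0) (nat_lit 4527343584) (nat_lit 1216) (nat_lit 32193941) (nat_lit 397) (nat_lit 1) (nat_lit 380) (nat_lit 1) (nat_lit 396) (nat_lit 1) (nat_lit 332) (nat_lit 350) (nat_lit 338))) (XT.nd (nat_lit 78) (nat_lit 0) (nat_lit 0) (XT.lf (nat_lit 1368) (nat_lit 2153275119) (nat_lit 0) (nat_lit 221548793) (nat_lit 1292) (nat_lit 2153275119) (nat_lit 381) (nat_lit 1) (nat_lit 363) (nat_lit 1) (nat_lit 380) (nat_lit 1) (nat_lit 333) (nat_lit 350) (nat_lit 337)) (XT.nd (nat_lit 78) (nat_lit 0) (nat_lit 76) (XT.lf (nat_lit 1368) (nat_lit 3965567335) (nat_lit 76) (nat_lit 250326566) (nat_lit 0) (nat_lit 250326566) (nat_lit 381) (nat_lit 1) (nat_lit 364) (nat_lit 1) (nat_lit 363) (nat_lit 1) (nat_lit 334) (nat_lit 350) (nat_lit 336)) (XT.lf (nat_lit 1368) (nat_lit 1797626464) (nat_lit 0) (nat_lit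 809747680) (nat_lit 1292) (nat_lit 1797626464) (nat_lit 382) (nat_lit 1) (nat_lit 364) (nat_lit 1) (nat_lit 381) (nat_lit 1) (nat_lit 335) (nat_lit 350) (nat_lit 335))))))) (XT.nd (nat_lit 702) (nat_lit 3192) (nat_lit 0) (XT.nd (nat_lit 312) (nat_lit 1824) (nat_lit 0) (XT.nd (nat_lit 156) (nat_lit 760) (nat_lit 0) (XT.nd (nat_lit 78) (nat_lit 0) (nat_lit 76) (XT.lf (nat_lit 1368) (nat_lit 3227785677) (nat_lit 76) (nat_lit 558773475) (nat_lit 0) (nat_lit 558773475) (nat_lit 382) (nat_lit 1) (nat_lit 365) (nat_lit 1) (nat_lit 364) (nat_lit 1) (nat_lit 336) (nat_lit 350) (nat_lit 334)) (XT.lf (nat_lit 76) (nat_lit 1419531540) (nat_lit 0) (nat_lit 1447408645) (nat_lit 1292) (nat_lit 1419531540) (nat_lit 366) (nat_lit 1) (nat_lit 365) (nat_lit 1) (nat_lit 382) (nat_lit 1) (nat_lit 337) (nat_lit 350) (nat_lit 333))) (XT.nd (nat_lit 78) (nat_lit 0) (nat_lit 0) (XT.lf (nat_lit 912) (nat_lit 2447472221) (nat_lit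 0) (nat_lit 890719844) (nat_lit 836) (nat_lit 890719844) (nat_lit 366) (nat_lit 1) (nat_lit 354) (nat_lit 1) (nat_lit 365) (nat_lit 1) (nat_lit 338) (nat_lit 350) (nat_lit 332)) (XT.lf (nat_lit 76) (nat_lit 1021527261) (nat_lit 0) (nat_lit 2129268273) (nat_lit 912) (nat_lit 1021527261) (nat_lit 355) (nat_lit 1) (nat_lit 354) (nat_lit 1) (nat_lit 366) (nat_lit 1) (nat_lit 339) (nat_lit 350) (nat_lit 331)))) (XT.nd (nat_lit 156) (nat_lit 1216) (nat_lit 0) (XT.nd (nat_lit 78) (nat_lit 0) (nat_lit 0) (XT.lf (nat_lit 684) (nat_lit 1629540801) (nat_lit 0) (nat_lit 1243616546) (nat_lit 608) (nat_lit 1243616546) (nat_lit 355) (nat_lit 1) (nat_lit 346) (nat_lit 1) (nat_lit 354) (nat_lit 1) (nat_lit 340) (nat_lit 350) (nat_lit 330)) (XT.lf (nat_lit 76) (nat_lit 605968550) (nat_lit 0) (nat_lit 2850435895) (nat_lit 684) (nat_lit 605968550) (nat_lit 347) (nat_lit 1) (nat_lit 346) (nat_lit 1) (nat_lit 355) (nat_lit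 1) (nat_lit 341) (nat_lit 350) (nat_lit 329))) (XT.nd (nat_lit 78) (nat_lit 608) (nat_lit 0) (XT.lf (nat_lit 684) (nat_lit 778551165) (nat_lit 0) (nat_lit 1615095740) (nat_lit 608) (nat_lit 1615095740) (nat_lit 347) (nat_lit 1) (nat_lit 338) (nat_lit 1) (nat_lit 346) (nat_lit 1) (nat_lit 342) (nat_lit 350) (nat_lit 328)) (XT.nd (nat_lit 78) (nat_lit 608) (nat_lit 0) (XT.lf (nat_lit 76) (nat_lit 175039847) (nat_lit 0) (nat_lit 3606370132) (nat_lit 684) (nat_lit 175039847) (nat_lit 339) (nat_lit 1) (nat_lit 338) (nat_lit 1) (nat_lit 347) (nat_lit 1) (nat_lit 343) (nat_lit 350) (nat_lit 327)) (XT.lf (nat_lit 76) (nat_lit 1902664306) (nat_lit 0) (nat_lit 99292480) (nat_lit 608) (nat_lit 1902664306) (nat_lit 331) (nat_lit 1) (nat_lit 330) (nat_lit 1) (nat_lit 338) (nat_lit 1) (nat_lit 344) (nat_lit 350) (nat_lit 326)))))) (XT.nd (nat_lit 390) (nat_lit 1520) (nat_lit 0) (XT.nd (nat_lit 156) (nat_lit 1064)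 (nat_lit 0) (XT.nd (nat_lit 78) (nat_lit 0) (nat_lit 0) (XT.lf (nat_lit 684) (nat_lit 3320887501) (nat_lit 0) (nat_lit 266594529) (nat_lit 608) (nat_lit 266594529) (nat_lit 331) (nat_lit 1) (nat_lit 322) (nat_lit 1) (nat_lit 330) (nat_lit 1) (nat_lit 345) (nat_lit 350) (nat_lit 325)) (XT.lf (nat_lit 76) (nat_lit 1408838125) (nat_lit 0) (nat_lit 986370276) (nat_lit 684) (nat_lit 1408838125) (nat_lit 323) (nat_lit 1) (nat_lit 322) (nat_lit 1) (nat_lit 331) (nat_lit 1) (nat_lit 346) (nat_lit 350) (nat_lit 324))) (XT.nd (nat_lit 78) (nat_lit 532) (nat_lit 0) (XT.lf (nat_lit 608) (nat_lit 2319451343) (nat_lit 0) (nat_lit 717870339) (nat_lit 532) (nat_lit 717870339) (nat_lit 323) (nat_lit 1) (nat_lit 315) (nat_lit 1) (nat_lit 322) (nat_lit 1) (nat_lit 347) (nat_lit 350) (nat_lit 323)) (XT.nd (nat_lit 78) (nat_lit 532) (nat_lit 0) (XT.lf (nat_lit 76) (nat_lit 906386487) (nat_lit 0) (nat_lit 1894318607) (nat_lit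 608) (nat_lit 906386487) (nat_lit 316) (nat_lit 1) (nat_lit 315) (nat_lit 1) (nat_lit 323) (nat_lit 1) (nat_lit 348) (nat_lit 350) (nat_lit 322)) (XT.lf (nat_lit 608) (nat_lit 1302280478) (nat_lit 0) (nat_lit 1178785361) (nat_lit 532) (nat_lit 1178785361) (nat_lit 316) (nat_lit 1) (nat_lit 308) (nat_lit 1) (nat_lit 315) (nat_lit 1) (nat_lit 349) (nat_lit 350) (nat_lit 321))))) (XT.nd (nat_lit 156) (nat_lit 1064) (nat_lit 0) (XT.nd (nat_lit 78) (nat_lit 456) (nat_lit 0) (XT.lf (nat_lit 76) (nat_lit 396881414) (nat_lit 0) (nat_lit 2819848376) (nat_lit 608) (nat_lit 396881414) (nat_lit 309) (nat_lit 1) (nat_lit 308) (nat_lit 1) (nat_lit 316) (nat_lit 1) (nat_lit 350) (nat_lit 350) (nat_lit 320)) (XT.lf (nat_lit 532) (nat_lit 272410800) (nat_lit 0) (nat_lit 1647750996) (nat_lit 456) (nat_lit 1647750996) (nat_lit 309) (nat_lit 1) (nat_lit 302) (nat_lit 1) (nat_lit 308) (nat_lit 1) (nat_lit 351) (nat_lit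 350) (nat_lit 319))) (XT.nd (nat_lit 78) (nat_lit 456) (nat_lit 0) (XT.lf (nat_lit 608) (nat_lit 3289194598) (nat_lit 0) (nat_lit 117067591) (nat_lit 532) (nat_lit 117067591) (nat_lit 302) (nat_lit 1) (nat_lit 294) (nat_lit 1) (nat_lit 301) (nat_lit 1) (nat_lit 352) (nat_lit 350) (nat_lit 318)) (XT.nd (nat_lit 78) (nat_lit 456) (nat_lit 0) (XT.lf (nat_lit 76) (nat_lit 1363318120) (nat_lit 0) (nat_lit 752384262) (nat_lit 608) (nat_lit 1363318120) (nat_lit 295) (nat_lit 1) (nat_lit 294) (nat_lit 1) (nat_lit 302) (nat_lit 1) (nat_lit 353) (nat_lit 350) (nat_lit 317)) (XT.lf (nat_lit 532) (nat_lit 2173086760) (nat_lit 0) (nat_lit 631350090) (nat_lit 456) (nat_lit 631350090) (nat_lit 295) (nat_lit 1) (nat_lit 288) (nat_lit 1) (nat_lit 294) (nat_lit 1) (nat_lit 354) (nat_lit 350) (nat_lit 316))))))))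
noncomputable def ec88 : XT := (XT.nd (nat_lit 1404) (nat_lit 3496) (nat_lit 0) (XT.nd (nat_lit 702) (nat_lit 1900) (nat_lit 0) (XT.nd (nat_lit 312) (nat_lit 1216) (nat_lit 0) (XT.nd (nat_lit 156) (nat_lit 456) (nat_lit 0) (XT.nd (nat_lit 78) (nat_lit 456) (nat_lit 0) (XT.lf (nat_lit 76) (nat_lit 807072185) (nat_lit 0) (nat_lit 1779041566) (nat_lit 532) (nat_lit 807072185) (nat_lit 289) (nat_lit 1) (nat_lit 288) (nat_lit 1) (nat_lit 295) (nat_lit 1) (nat_lit 355) (nat_lit 350) (nat_lit 315)) (XT.lf (nat_lit 532) (nat_lit 1054040272) (nat_lit 0) (nat_lit 1148638730) (nat_lit 456) (nat_lit 1148638730) (nat_lit 289) (nat_lit 1) (nat_lit 282) (nat_lit 1) (nat_lit 288) (nat_lit 1) (nat_lit 356) (nat_lit 350) (nat_lit 314))) (XT.nd (nat_lit 78) (nat_lit 456) (nat_lit 0) (XT.lf (nat_lit 76) (nat_lit 249906921) (nat_lit 0) (nat_lit 2810551184) (nat_lit 532) (nat_lit 249906921) (nat_lit 283) (nat_lit 1) (nat_lit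 282) (nat_lit 1) (nat_lit 289) (nat_lit 1) (nat_lit 357) (nat_lit 350) (nat_lit 313)) (XT.lf (nat_lit 76) (nat_lit 1602621782) (nat_lit 0) (nat_lit 64540018) (nat_lit 456) (nat_lit 1602621782) (nat_lit 277) (nat_lit 1) (nat_lit 276) (nat_lit 1) (nat_lit 282) (nat_lit 1) (nat_lit 358) (nat_lit 350) (nat_lit 312)))) (XT.nd (nat_lit 156) (nat_lit 760) (nat_lit 0) (XT.nd (nat_lit 78) (nat_lit 0) (nat_lit 0) (XT.lf (nat_lit 532) (nat_lit 2621771111) (nat_lit 0) (nat_lit 304156646) (nat_lit 456) (nat_lit 304156646) (nat_lit 277) (nat_lit 1) (nat_lit 270) (nat_lit 1) (nat_lit 276) (nat_lit 1) (nat_lit 359) (nat_lit 350) (nat_lit 311)) (XT.lf (nat_lit 76) (nat_lit 1014667435) (nat_lit 0) (nat_lit 1161450576) (nat_lit 532) (nat_lit 1014667435) (nat_lit 271) (nat_lit 1) (nat_lit 270) (nat_lit 1) (nat_lit 277) (nat_lit 1) (nat_lit 360) (nat_lit 350) (nat_lit 310))) (XT.nd (nat_lit 78) (nat_lit 380) (nat_lit 0)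 (XT.lf (nat_lit 456) (nat_lit 1442767286) (nat_lit 0) (nat_lit 854766091) (nat_lit 380) (nat_lit 854766091) (nat_lit 271) (nat_lit 1) (nat_lit 265) (nat_lit 1) (nat_lit 270) (nat_lit 1) (nat_lit 361) (nat_lit 350) (nat_lit 309)) (XT.nd (nat_lit 78) (nat_lit 380) (nat_lit 0) (XT.lf (nat_lit 76) (nat_lit 429499684) (nat_lit 0) (nat_lit 2255519010) (nat_lit 456) (nat_lit 429499684) (nat_lit 266) (nat_lit 1) (nat_lit 265) (nat_lit 1) (nat_lit 271) (nat_lit 1) (nat_lit 362) (nat_lit 350) (nat_lit 308)) (XT.lf (nat_lit 456) (nat_lit 270121470) (nat_lit 0) (nat_lit 1403536086) (nat_lit 380) (nat_lit 1403536086) (nat_lit 266) (nat_lit 1) (nat_lit 260) (nat_lit 1) (nat_lit 265) (nat_lit 1) (nat_lit 363) (nat_lit 350) (nat_lit 307)))))) (XT.nd (nat_lit 312) (nat_lit 1064) (nat_lit 0) (XT.nd (nat_lit 156) (nat_lit 380) (nat_lit 0) (XT.nd (nat_lit 78) (nat_lit 0) (nat_lit 0) (XT.lf (nat_lit 456) (nat_lit 2739405770)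 (nat_lit 0) (nat_lit 150647993) (nat_lit 380) (nat_lit 150647993) (nat_lit 260) (nat_lit 1) (nat_lit 254) (nat_lit 1) (nat_lit 259) (nat_lit 1) (nat_lit 364) (nat_lit 350) (nat_lit 306)) (XT.lf (nat_lit 76) (nat_lit 1063560791) (nat_lit 0) (nat_lit 877285544) (nat_lit 456) (nat_lit 1063560791) (nat_lit 255) (nat_lit 1) (nat_lit 254) (nat_lit 1) (nat_lit 260) (nat_lit 1) (nat_lit 365) (nat_lit 350) (nat_lit 305))) (XT.nd (nat_lit 78) (nat_lit 0) (nat_lit 0) (XT.lf (nat_lit 456) (nat_lit 1524070078) (nat_lit 0) (nat_lit 722424517) (nat_lit 380) (nat_lit 722424517) (nat_lit 255) (nat_lit 1) (nat_lit 249) (nat_lit 1) (nat_lit 254) (nat_lit 1) (nat_lit 366) (nat_lit 350) (nat_lit 304)) (XT.lf (nat_lit 76) (nat_lit 461746688) (nat_lit 0) (nat_lit 2010531845) (nat_lit 456) (nat_lit 461746688) (nat_lit 250) (nat_lit 1) (nat_lit 249) (nat_lit 1) (nat_lit 255) (nat_lit 1) (nat_lit 367) (nat_lit 350) (nat_lit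 303)))) (XT.nd (nat_lit 156) (nat_lit 304) (nat_lit 0) (XT.nd (nat_lit 78) (nat_lit 456) (nat_lit 0) (XT.lf (nat_lit 380) (nat_lit 320698104) (nat_lit 0) (nat_lit 1289437721) (nat_lit 304) (nat_lit 1289437721) (nat_lit 250) (nat_lit 1) (nat_lit 245) (nat_lit 1) (nat_lit 249) (nat_lit 1) (nat_lit 368) (nat_lit 350) (nat_lit 302)) (XT.lf (nat_lit 456) (nat_lit 2600787059) (nat_lit 0) (nat_lit 132545296) (nat_lit 380) (nat_lit 132545296) (nat_lit 245) (nat_lit 1) (nat_lit 239) (nat_lit 1) (nat_lit 244) (nat_lit 1) (nat_lit 369) (nat_lit 350) (nat_lit 301))) (XT.nd (nat_lit 78) (nat_lit 304) (nat_lit 0) (XT.lf (nat_lit 76) (nat_lit 989790627) (nat_lit 0) (nat_lit 852742136) (nat_lit 456) (nat_lit 989790627) (nat_lit 240) (nat_lit 1) (nat_lit 239) (nat_lit 1) (nat_lit 245) (nat_lit 1) (nat_lit 370) (nat_lit 350) (nat_lit 300)) (XT.nd (nat_lit 78) (nat_lit 0) (nat_lit 0) (XT.lf (nat_lit 380) (nat_lit 1368108605)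 (nat_lit 0) (nat_lit 715697165) (nat_lit 304) (nat_lit 715697165) (nat_lit 240) (nat_lit 1) (nat_lit 235) (nat_lit 1) (nat_lit 239) (nat_lit 1) (nat_lit 371) (nat_lit 350) (nat_lit 299)) (XT.lf (nat_lit 76) (nat_lit 380450105) (nat_lit 0) (nat_lit 2006343675) (nat_lit 380) (nat_lit 380450105) (nat_lit 236) (nat_lit 1) (nat_lit 235) (nat_lit 1) (nat_lit 240) (nat_lit 1) (nat_lit 372) (nat_lit 350) (nat_lit 298))))))) (XT.nd (nat_lit 702) (nat_lit 1672) (nat_lit 0) (XT.nd (nat_lit 312) (nat_lit 836) (nat_lit 0) (XT.nd (nat_lit 156) (nat_lit 304) (nat_lit 0) (XT.nd (nat_lit 78) (nat_lit 380) (nat_lit 0) (XT.lf (nat_lit 380) (nat_lit 151707459) (nat_lit 0) (nat_lit 1291822022) (nat_lit 304) (nat_lit 1291822022) (nat_lit 236) (nat_lit 1) (nat_lit 231) (nat_lit 1) (nat_lit 235) (nat_lit 1) (nat_lit 373) (nat_lit 350) (nat_lit 297)) (XT.lf (nat_lit 380) (nat_lit 2267170556) (nat_lit 0) (nat_lit 218458973)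 (nat_lit 304) (nat_lit 218458973) (nat_lit 231) (nat_lit 1) (nat_lit 226) (nat_lit 1) (nat_lit 230) (nat_lit 1) (nat_lit 374) (nat_lit 350) (nat_lit 296))) (XT.nd (nat_lit 78) (nat_lit 304) (nat_lit 0) (XT.lf (nat_lit 76) (nat_lit 822860788) (nat_lit 0) (nat_lit 1027318218) (nat_lit 380) (nat_lit 822860788) (nat_lit 227) (nat_lit 1) (nat_lit 226) (nat_lit 1) (nat_lit 231) (nat_lit 1) (nat_lit 375) (nat_lit 350) (nat_lit 295)) (XT.lf (nat_lit 380) (nat_lit 1032301307) (nat_lit 0) (nat_lit 805150380) (nat_lit 304) (nat_lit 805150380) (nat_lit 227) (nat_lit 1) (nat_lit 222) (nat_lit 1) (nat_lit 226) (nat_lit 1) (nat_lit 376) (nat_lit 350) (nat_lit 294)))) (XT.nd (nat_lit 156) (nat_lit 532) (nat_lit 0) (XT.nd (nat_lit 78) (nat_lit 304) (nat_lit 0) (XT.lf (nat_lit 76) (nat_lit 213263421) (nat_lit 0) (nat_lit 2186226342) (nat_lit 380) (nat_lit 213263421) (nat_lit 223) (nat_lit 1) (nat_lit 222) (nat_lit 1)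 (nat_lit 227) (nat_lit 1) (nat_lit 377) (nat_lit 350) (nat_lit 293)) (XT.lf (nat_lit 76) (nat_lit 1201815520) (nat_lit 0) (nat_lit 179465580) (nat_lit 304) (nat_lit 1201815520) (nat_lit 219) (nat_lit 1) (nat_lit 218) (nat_lit 1) (nat_lit 222) (nat_lit 1) (nat_lit 378) (nat_lit 350) (nat_lit 292))) (XT.nd (nat_lit 78) (nat_lit 228) (nat_lit 0) (XT.lf (nat_lit 380) (nat_lit 1788556433) (nat_lit 0) (nat_lit 382728059) (nat_lit 304) (nat_lit 382728059) (nat_lit 219) (nat_lit 1) (nat_lit 214) (nat_lit 1) (nat_lit 218) (nat_lit 1) (nat_lit 379) (nat_lit 350) (nat_lit 291)) (XT.nd (nat_lit 78) (nat_lit 228) (nat_lit 0) (XT.lf (nat_lit 76) (nat_lit 586844070) (nat_lit 0) (nat_lit 1351571669) (nat_lit 380) (nat_lit 586844070) (nat_lit 215) (nat_lit 1) (nat_lit 214) (nat_lit 1) (nat_lit 219) (nat_lit 1) (nat_lit 380) (nat_lit 350) (nat_lit 290)) (XT.lf (nat_lit 304) (nat_lit 563477931) (nat_lit 0) (nat_lit 966740327)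 (nat_lit 228) (nat_lit 966740327) (nat_lit 215) (nat_lit 1) (nat_lit 211) (nat_lit 1) (nat_lit 214) (nat_lit 1) (nat_lit 381) (nat_lit 350) (nat_lit 289)))))) (XT.nd (nat_lit 390) (nat_lit 760) (nat_lit 0) (XT.nd (nat_lit 156) (nat_lit 532) (nat_lit 0) (XT.nd (nat_lit 78) (nat_lit 0) (nat_lit 0) (XT.lf (nat_lit 380) (nat_lit 2435099606) (nat_lit 0) (nat_lit 17099772) (nat_lit 304) (nat_lit 17099772) (nat_lit 211) (nat_lit 1) (nat_lit 206) (nat_lit 1) (nat_lit 210) (nat_lit 1) (nat_lit 382) (nat_lit 350) (nat_lit 288)) (XT.lf (nat_lit 76) (nat_lit 907191980) (nat_lit 0) (nat_lit 627201380) (nat_lit 380) (nat_lit 907191980) (nat_lit 207) (nat_lit 1) (nat_lit 206) (nat_lit 1) (nat_lit 211) (nat_lit 1) (nat_lit 383) (nat_lit 350) (nat_lit 287))) (XT.nd (nat_lit 78) (nat_lit 304) (nat_lit 0) (XT.lf (nat_lit 304) (nat_lit 1205598377) (nat_lit 0) (nat_lit 604450626) (nat_lit 228) (nat_lit 604450626) (nat_lit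 207) (nat_lit 1) (nat_lit 203) (nat_lit 1) (nat_lit 206) (nat_lit 1) (nat_lit 384) (nat_lit 350) (nat_lit 286)) (XT.nd (nat_lit 78) (nat_lit 304) (nat_lit 0) (XT.lf (nat_lit 76) (nat_lit 301303898) (nat_lit 0) (nat_lit 1785247359) (nat_lit 304) (nat_lit 301303898) (nat_lit 204) (nat_lit 1) (nat_lit 203) (nat_lit 1) (nat_lit 207) (nat_lit 1) (nat_lit 385) (nat_lit 350) (nat_lit 285)) (XT.lf (nat_lit 76) (nat_lit 1180580386) (nat_lit 0) (nat_lit 316087) (nat_lit 304) (nat_lit 1180580386) (nat_lit 200) (nat_lit 1) (nat_lit 199) (nat_lit 1) (nat_lit 203) (nat_lit 1) (nat_lit 386) (nat_lit 350) (nat_lit 284))))) (XT.nd (nat_lit 156) (nat_lit 532) (nat_lit 0) (XT.nd (nat_lit 78) (nat_lit 0) (nat_lit 0) (XT.lf (nat_lit 304) (nat_lit 1755581391) (nat_lit 0) (nat_lit 289973122) (nat_lit 228) (nat_lit 289973122) (nat_lit 200) (nat_lit 1) (nat_lit 196) (nat_lit 1) (nat_lit 199) (nat_lit 1) (nat_lit 387) (nat_lit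 350) (nat_lit 283)) (XT.lf (nat_lit 76) (nat_lit 575129125) (nat_lit 0) (nat_lit 1159569693) (nat_lit 304) (nat_lit 575129125) (nat_lit 197) (nat_lit 1) (nat_lit 196) (nat_lit 1) (nat_lit 200) (nat_lit 1) (nat_lit 388) (nat_lit 350) (nat_lit 282))) (XT.nd (nat_lit 78) (nat_lit 304) (nat_lit 0) (XT.lf (nat_lit 304) (nat_lit 551197550) (nat_lit 0) (nat_lit 866674059) (nat_lit 228) (nat_lit 866674059) (nat_lit 197) (nat_lit 1) (nat_lit 193) (nat_lit 1) (nat_lit 196) (nat_lit 1) (nat_lit 389) (nat_lit 350) (nat_lit 281)) (XT.nd (nat_lit 78) (nat_lit 0) (nat_lit 0) (XT.lf (nat_lit 304) (nat_lit 2224299530) (nat_lit 0) (nat_lit 17760246) (nat_lit 228) (nat_lit 17760246) (nat_lit 193) (nat_lit 1) (nat_lit 189) (nat_lit 1) (nat_lit 192) (nat_lit 1) (nat_lit 390) (nat_lit 350) (nat_lit 280)) (XT.lf (nat_lit 76) (nat_lit 809465180) (nat_lit 0) (nat_lit 616088418) (nat_lit 304) (nat_lit 809465180) (nat_lit 190)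 (nat_lit 1) (nat_lit 189) (nat_lit 1) (nat_lit 193) (nat_lit 1) (nat_lit 391) (nat_lit 350) (nat_lit 279))))))))
noncomputable def ec89 : XT := (XT.nd (nat_lit 1482) (nat_lit 2052) (nat_lit 0) (XT.nd (nat_lit 702) (nat_lit 1140) (nat_lit 0) (XT.nd (nat_lit 312) (nat_lit 608) (nat_lit 0) (XT.nd (nat_lit 156) (nat_lit 456) (nat_lit 0) (XT.nd (nat_lit 78) (nat_lit 0) (nat_lit 0) (XT.lf (nat_lit 304) (nat_lit 1025153222) (nat_lit 0) (nat_lit 592805377) (nat_lit 228) (nat_lit 592805377) (nat_lit 190) (nat_lit 1) (nat_lit 186) (nat_lit 1) (nat_lit 189) (nat_lit 1) (nat_lit 392) (nat_lit 350) (nat_lit 278)) (XT.lf (nat_lit 76) (nat_lit 219260265) (nat_lit 0) (nat_lit 1748399462) (nat_lit 304) (nat_lit 219260265) (nat_lit 187) (nat_lit 1) (nat_lit 186) (nat_lit 1) (nat_lit 190) (nat_lit 1) (nat_lit 393) (nat_lit 350) (nat_lit 277))) (XT.nd (nat_lit 78) (nat_lit 228) (nat_lit 0) (XT.lf (nat_lit 76) (nat_lit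 1008976418) (nat_lit 0) (nat_lit 145275671) (nat_lit 228) (nat_lit 1008976418) (nat_lit 184) (nat_lit 1) (nat_lit 183) (nat_lit 1) (nat_lit 186) (nat_lit 1) (nat_lit 394) (nat_lit 350) (nat_lit 276)) (XT.lf (nat_lit 304) (nat_lit 1430661902) (nat_lit 0) (nat_lit 354638444) (nat_lit 228) (nat_lit 354638444) (nat_lit 184) (nat_lit 1) (nat_lit 180) (nat_lit 1) (nat_lit 183) (nat_lit 1) (nat_lit 395) (nat_lit 350) (nat_lit 275)))) (XT.nd (nat_lit 156) (nat_lit 456) (nat_lit 0) (XT.nd (nat_lit 78) (nat_lit 152) (nat_lit 0) (XT.lf (nat_lit 76) (nat_lit 423155779) (nat_lit 0) (nat_lit 1270603282) (nat_lit 304) (nat_lit 423155779) (nat_lit 181) (nat_lit 1) (nat_lit 180) (nat_lit 1) (nat_lit 184) (nat_lit 1) (nat_lit 396) (nat_lit 350) (nat_lit 274)) (XT.lf (nat_lit 228) (nat_lit 266524235) (nat_lit 0) (nat_lit 913837218) (nat_lit 152) (nat_lit 913837218) (nat_lit 181) (nat_lit 1) (nat_lit 178) (nat_lit 1) (nat_lit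 180) (nat_lit 1) (nat_lit 397) (nat_lit 350) (nat_lit 273))) (XT.nd (nat_lit 78) (nat_lit 152) (nat_lit 0) (XT.lf (nat_lit 304) (nat_lit 1775810533) (nat_lit 0) (nat_lit 148041707) (nat_lit 228) (nat_lit 148041707) (nat_lit 178) (nat_lit 1) (nat_lit 174) (nat_lit 1) (nat_lit 177) (nat_lit 1) (nat_lit 398) (nat_lit 350) (nat_lit 272)) (XT.nd (nat_lit 78) (nat_lit 152) (nat_lit 0) (XT.lf (nat_lit 76) (nat_lit 597663452) (nat_lit 0) (nat_lit 854325245) (nat_lit 304) (nat_lit 597663452) (nat_lit 175) (nat_lit 1) (nat_lit 174) (nat_lit 1) (nat_lit 178) (nat_lit 1) (nat_lit 399) (nat_lit 350) (nat_lit 271)) (XT.lf (nat_lit 228) (nat_lit 623374830) (nat_lit 0) (nat_lit 702219694) (nat_lit 152) (nat_lit 702219694) (nat_lit 175) (nat_lit 1) (nat_lit 172) (nat_lit 1) (nat_lit 174) (nat_lit 1) (nat_lit 400) (nat_lit 350) (nat_lit 270)))))) (XT.nd (nat_lit 390) (nat_lit 532) (nat_lit 0) (XT.nd (nat_lit 156) (nat_lit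 380) (nat_lit 0) (XT.nd (nat_lit 78) (nat_lit 228) (nat_lit 0) (XT.lf (nat_lit 76) (nat_lit 30954762) (nat_lit 0) (nat_lit 1944523049) (nat_lit 228) (nat_lit 30954762) (nat_lit 173) (nat_lit 1) (nat_lit 172) (nat_lit 1) (nat_lit 175) (nat_lit 1) (nat_lit 401) (nat_lit 350) (nat_lit 269)) (XT.lf (nat_lit 76) (nat_lit 746254123) (nat_lit 0) (nat_lit 492465347) (nat_lit 228) (nat_lit 746254123) (nat_lit 170) (nat_lit 1) (nat_lit 169) (nat_lit 1) (nat_lit 172) (nat_lit 1) (nat_lit 402) (nat_lit 350) (nat_lit 268))) (XT.nd (nat_lit 78) (nat_lit 228) (nat_lit 0) (XT.lf (nat_lit 228) (nat_lit 929172598) (nat_lit 0) (nat_lit 517395784) (nat_lit 152) (nat_lit 517395784) (nat_lit 170) (nat_lit 1) (nat_lit 167) (nat_lit 1) (nat_lit 169) (nat_lit 1) (nat_lit 403) (nat_lit 350) (nat_lit 267)) (XT.nd (nat_lit 78) (nat_lit 228) (nat_lit 0) (XT.lf (nat_lit 76) (nat_lit 186522527) (nat_lit 0) (nat_lit 1570253655) (nat_lit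 228) (nat_lit 186522527) (nat_lit 168) (nat_lit 1) (nat_lit 167) (nat_lit 1) (nat_lit 170) (nat_lit 1) (nat_lit 404) (nat_lit 350) (nat_lit 266)) (XT.lf (nat_lit 76) (nat_lit 872005945) (nat_lit 0) (nat_lit 178722317) (nat_lit 228) (nat_lit 872005945) (nat_lit 165) (nat_lit 1) (nat_lit 164) (nat_lit 1) (nat_lit 167) (nat_lit 1) (nat_lit 405) (nat_lit 350) (nat_lit 265))))) (XT.nd (nat_lit 156) (nat_lit 380) (nat_lit 0) (XT.nd (nat_lit 78) (nat_lit 0) (nat_lit 0) (XT.lf (nat_lit 228) (nat_lit 1189938532) (nat_lit 0) (nat_lit 356284580) (nat_lit 152) (nat_lit 356284580) (nat_lit 165) (nat_lit 1) (nat_lit 162) (nat_lit 1) (nat_lit 164) (nat_lit 1) (nat_lit 406) (nat_lit 350) (nat_lit 264)) (XT.lf (nat_lit 76) (nat_lit 320110832) (nat_lit 0) (nat_lit 1242305482) (nat_lit 228) (nat_lit 320110832) (nat_lit 163) (nat_lit 1) (nat_lit 162) (nat_lit 1) (nat_lit 165) (nat_lit 1) (nat_lit 407) (nat_lit 350) (nat_lit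 263))) (XT.nd (nat_lit 78) (nat_lit 228) (nat_lit 0) (XT.lf (nat_lit 228) (nat_lit 94336501) (nat_lit 0) (nat_lit 884218657) (nat_lit 152) (nat_lit 884218657) (nat_lit 163) (nat_lit 1) (nat_lit 160) (nat_lit 1) (nat_lit 162) (nat_lit 1) (nat_lit 408) (nat_lit 350) (nat_lit 262)) (XT.nd (nat_lit 78) (nat_lit 0) (nat_lit 0) (XT.lf (nat_lit 228) (nat_lit 1411012657) (nat_lit 0) (nat_lit 216151445) (nat_lit 152) (nat_lit 216151445) (nat_lit 160) (nat_lit 1) (nat_lit 157) (nat_lit 1) (nat_lit 159) (nat_lit 1) (nat_lit 409) (nat_lit 350) (nat_lit 261)) (XT.lf (nat_lit 76) (nat_lit 434305573) (nat_lit 0) (nat_lit 955379561) (nat_lit 228) (nat_lit 434305573) (nat_lit 158) (nat_lit 1) (nat_lit 157) (nat_lit 1) (nat_lit 160) (nat_lit 1) (nat_lit 410) (nat_lit 350) (nat_lit 260))))))) (XT.nd (nat_lit 702) (nat_lit 1064) (nat_lit 0) (XT.nd (nat_lit 312) (nat_lit 456) (nat_lit 0) (XT.nd (nat_lit 156) (nat_lit 152)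 (nat_lit 0) (XT.nd (nat_lit 78) (nat_lit 228) (nat_lit 0) (XT.lf (nat_lit 228) (nat_lit 332641271) (nat_lit 0) (nat_lit 736157323) (nat_lit 152) (nat_lit 736157323) (nat_lit 158) (nat_lit 1) (nat_lit 155) (nat_lit 1) (nat_lit 157) (nat_lit 1) (nat_lit 411) (nat_lit 350) (nat_lit 259)) (XT.lf (nat_lit 228) (nat_lit 1597130240) (nat_lit 0) (nat_lit 94569323) (nat_lit 152) (nat_lit 94569323) (nat_lit 155) (nat_lit 1) (nat_lit 152) (nat_lit 1) (nat_lit 154) (nat_lit 1) (nat_lit 412) (nat_lit 350) (nat_lit 258))) (XT.nd (nat_lit 78) (nat_lit 152) (nat_lit 0) (XT.lf (nat_lit 76) (nat_lit 531400357) (nat_lit 0) (nat_lit 704771717) (nat_lit 228) (nat_lit 531400357) (nat_lit 153) (nat_lit 1) (nat_lit 152) (nat_lit 1) (nat_lit 155) (nat_lit 1) (nat_lit 413) (nat_lit 350) (nat_lit 257)) (XT.lf (nat_lit 228) (nat_lit 537124657) (nat_lit 0) (nat_lit 606047312) (nat_lit 152) (nat_lit 606047312) (nat_lit 153) (nat_lit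 1) (nat_lit 150) (nat_lit 1) (nat_lit 152) (nat_lit 1) (nat_lit 414) (nat_lit 350) (nat_lit 256)))) (XT.nd (nat_lit 156) (nat_lit 304) (nat_lit 0) (XT.nd (nat_lit 78) (nat_lit 152) (nat_lit 0) (XT.lf (nat_lit 76) (nat_lit 10720744) (nat_lit 0) (nat_lit 1709804309) (nat_lit 228) (nat_lit 10720744) (nat_lit 151) (nat_lit 1) (nat_lit 150) (nat_lit 1) (nat_lit 153) (nat_lit 1) (nat_lit 415) (nat_lit 350) (nat_lit 255)) (XT.lf (nat_lit 76) (nat_lit 613429209) (nat_lit 0) (nat_lit 486306125) (nat_lit 152) (nat_lit 613429209) (nat_lit 149) (nat_lit 1) (nat_lit 148) (nat_lit 1) (nat_lit 150) (nat_lit 1) (nat_lit 416) (nat_lit 350) (nat_lit 254))) (XT.nd (nat_lit 78) (nat_lit 152) (nat_lit 0) (XT.lf (nat_lit 228) (nat_lit 711769268) (nat_lit 0) (nat_lit 491844863) (nat_lit 152) (nat_lit 491844863) (nat_lit 149) (nat_lit 1) (nat_lit 146) (nat_lit 1) (nat_lit 148) (nat_lit 1) (nat_lit 417) (nat_lit 350) (nat_lit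 253)) (XT.nd (nat_lit 78) (nat_lit 152) (nat_lit 0) (XT.lf (nat_lit 76) (nat_lit 102317747) (nat_lit 0) (nat_lit 1473428389) (nat_lit 228) (nat_lit 102317747) (nat_lit 147) (nat_lit 1) (nat_lit 146) (nat_lit 1) (nat_lit 149) (nat_lit 1) (nat_lit 418) (nat_lit 350) (nat_lit 252)) (XT.lf (nat_lit 76) (nat_lit 682195629) (nat_lit 0) (nat_lit 296276288) (nat_lit 152) (nat_lit 682195629) (nat_lit 145) (nat_lit 1) (nat_lit 144) (nat_lit 1) (nat_lit 146) (nat_lit 1) (nat_lit 419) (nat_lit 350) (nat_lit 251)))))) (XT.nd (nat_lit 390) (nat_lit 608) (nat_lit 0) (XT.nd (nat_lit 156) (nat_lit 304) (nat_lit 0) (XT.nd (nat_lit 78) (nat_lit 0) (nat_lit 0) (XT.lf (nat_lit 228) (nat_lit 860107453) (nat_lit 0) (nat_lit 391735340) (nat_lit 152) (nat_lit 391735340) (nat_lit 145) (nat_lit 1) (nat_lit 142) (nat_lit 1) (nat_lit 144) (nat_lit 1) (nat_lit 420) (nat_lit 350) (nat_lit 250)) (XT.lf (nat_lit 76) (nat_lit 180997804)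 (nat_lit 0) (nat_lit 1264742822) (nat_lit 228) (nat_lit 180997804) (nat_lit 143) (nat_lit 1) (nat_lit 142) (nat_lit 1) (nat_lit 145) (nat_lit 1) (nat_lit 421) (nat_lit 350) (nat_lit 249))) (XT.nd (nat_lit 78) (nat_lit 152) (nat_lit 0) (XT.lf (nat_lit 76) (nat_lit 739298411) (nat_lit 0) (nat_lit 131392591) (nat_lit 152) (nat_lit 739298411) (nat_lit 141) (nat_lit 1) (nat_lit 140) (nat_lit 1) (nat_lit 142) (nat_lit 1) (nat_lit 422) (nat_lit 350) (nat_lit 248)) (XT.nd (nat_lit 78) (nat_lit 0) (nat_lit 0) (XT.lf (nat_lit 228) (nat_lit 985271688) (nat_lit 0) (nat_lit 304107649) (nat_lit 152) (nat_lit 304107649) (nat_lit 141) (nat_lit 1) (nat_lit 138) (nat_lit 1) (nat_lit 140) (nat_lit 1) (nat_lit 423) (nat_lit 350) (nat_lit 247)) (XT.lf (nat_lit 76) (nat_lit 248280041) (nat_lit 0) (nat_lit 1080620998) (nat_lit 228) (nat_lit 248280041) (nat_lit 139) (nat_lit 1) (nat_lit 138) (nat_lit 1) (nat_lit 141) (nat_lit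 1) (nat_lit 424) (nat_lit 350) (nat_lit 246))))) (XT.nd (nat_lit 156) (nat_lit 304) (nat_lit 0) (XT.nd (nat_lit 78) (nat_lit 228) (nat_lit 0) (XT.lf (nat_lit 152) (nat_lit 11488471) (nat_lit 0) (nat_lit 774776530) (nat_lit 76) (nat_lit 774776530) (nat_lit 139) (nat_lit 1) (nat_lit 137) (nat_lit 1) (nat_lit 138) (nat_lit 1) (nat_lit 425) (nat_lit 350) (nat_lit 245)) (XT.lf (nat_lit 228) (nat_lit 1090039343) (nat_lit 0) (nat_lit 227531506) (nat_lit 152) (nat_lit 227531506) (nat_lit 137) (nat_lit 1) (nat_lit 134) (nat_lit 1) (nat_lit 136) (nat_lit 1) (nat_lit 426) (nat_lit 350) (nat_lit 244))) (XT.nd (nat_lit 78) (nat_lit 304) (nat_lit 0) (XT.lf (nat_lit 76) (nat_lit 305511888) (nat_lit 0) (nat_lit 918286092) (nat_lit 228) (nat_lit 305511888) (nat_lit 135) (nat_lit 1) (nat_lit 134) (nat_lit 1) (nat_lit 137) (nat_lit 1) (nat_lit 427) (nat_lit 350) (nat_lit 243)) (XT.nd (nat_lit 78) (nat_lit 228) (nat_lit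 0) (XT.lf (nat_lit 152) (nat_lit 136957314) (nat_lit 0) (nat_lit 688378912) (nat_lit 76) (nat_lit 688378912) (nat_lit 135) (nat_lit 1) (nat_lit 133) (nat_lit 1) (nat_lit 134) (nat_lit 1) (nat_lit 428) (nat_lit 350) (nat_lit 242)) (XT.lf (nat_lit 228) (nat_lit 1176872450) (nat_lit 0) (nat_lit 160737242) (nat_lit 152) (nat_lit 160737242) (nat_lit 133) (nat_lit 1) (nat_lit 130) (nat_lit 1) (nat_lit 132) (nat_lit 1) (nat_lit 429) (nat_lit 350) (nat_lit 241))))))))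
noncomputable def ec90 : XT := (XT.nd (nat_lit 45318) (nat_lit 0) (nat_lit 14136) (XT.nd (nat_lit 44538) (nat_lit 0) (nat_lit 19228) (XT.nd (nat_lit 312) (nat_lit 304) (nat_lit 0) (XT.nd (nat_lit 156) (nat_lit 228) (nat_lit 0) (XT.nd (nat_lit 78) (nat_lit 76) (nat_lit 0) (XT.lf (nat_lit 76) (nat_lit 353888294) (nat_lit 0) (nat_lit 775272028) (nat_lit 228) (nat_lit 353888294) (nat_lit 131) (nat_lit 1) (nat_lit 130) (nat_lit 1) (nat_lit 133) (nat_lit 1) (nat_lit 430) (nat_lit 350) (nat_lit 240)) (XT.lf (nat_lit 152) (nat_lit 244743009) (nat_lit 0) (nat_lit 611615747) (nat_lit 76) (nat_lit 611615747) (nat_lit 131) (nat_lit 1) (nat_lit 129) (nat_lit 1) (nat_lit 130) (nat_lit 1) (nat_lit 431) (nat_lit 350) (nat_lit 239))) (XT.nd (nat_lit 78) (nat_lit 0) (nat_lit 0) (XT.lf (nat_lit 228) (nat_lit 1247953027) (nat_lit 0) (nat_lit 102597856) (nat_lit 152) (nat_lit 102597856) (nat_lit 129) (nat_lit 1) (nat_lit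 126) (nat_lit 1) (nat_lit 128) (nat_lit 1) (nat_lit 432) (nat_lit 350) (nat_lit 238)) (XT.lf (nat_lit 76) (nat_lit 394468796) (nat_lit 0) (nat_lit 649388796) (nat_lit 228) (nat_lit 394468796) (nat_lit 127) (nat_lit 1) (nat_lit 126) (nat_lit 1) (nat_lit 129) (nat_lit 1) (nat_lit 433) (nat_lit 350) (nat_lit 237)))) (XT.nd (nat_lit 156) (nat_lit 0) (nat_lit 0) (XT.nd (nat_lit 78) (nat_lit 228) (nat_lit 0) (XT.lf (nat_lit 152) (nat_lit 336924984) (nat_lit 0) (nat_lit 543412669) (nat_lit 76) (nat_lit 543412669) (nat_lit 127) (nat_lit 1) (nat_lit 125) (nat_lit 1) (nat_lit 126) (nat_lit 1) (nat_lit 434) (nat_lit 350) (nat_lit 236)) (XT.lf (nat_lit 228) (nat_lit 1305214468) (nat_lit 0) (nat_lit 52113079) (nat_lit 152) (nat_lit 52113079) (nat_lit 125) (nat_lit 1) (nat_lit 122) (nat_lit 1) (nat_lit 124) (nat_lit 1) (nat_lit 435) (nat_lit 350) (nat_lit 235))) (XT.nd (nat_lit 43914) (nat_lit 0) (nat_lit 19152)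 (XT.lf (nat_lit 76) (nat_lit 428192679) (nat_lit 0) (nat_lit 538691631) (nat_lit 228) (nat_lit 428192679) (nat_lit 123) (nat_lit 1) (nat_lit 122) (nat_lit 1) (nat_lit 125) (nat_lit 1) (nat_lit 436) (nat_lit 350) (nat_lit 234)) (XT.nd (nat_lit 78) (nat_lit 0) (nat_lit 0) (XT.lf (nat_lit 1292) (nat_lit 516266742) (nat_lit 0) (nat_lit 1776197694) (nat_lit 1292) (nat_lit 516266742) (nat_lit 391) (nat_lit 1) (nat_lit 374) (nat_lit 0) (nat_lit 391) (nat_lit 0) (nat_lit 318) (nat_lit 351) (nat_lit 351)) (XT.lf (nat_lit 1292) (nat_lit 2017579476) (nat_lit 76) (nat_lit 1758783991) (nat_lit 0) (nat_lit 1758783991) (nat_lit 391) (nat_lit 1) (nat_lit 375) (nat_lit 1) (nat_lit 374) (nat_lit 0) (nat_lit 319) (nat_lit 351) (nat_lit 350)))))) (XT.nd (nat_lit 390) (nat_lit 0) (nat_lit 152) (XT.nd (nat_lit 156) (nat_lit 0) (nat_lit 76) (XT.nd (nat_lit 78) (nat_lit 0) (nat_lit 0) (XT.lf (nat_lit 1292) (nat_lit 975749539)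 (nat_lit 0) (nat_lit 3503149175) (nat_lit 1216) (nat_lit 975749539) (nat_lit 392) (nat_lit 1) (nat_lit 375) (nat_lit 1) (nat_lit 391) (nat_lit 1) (nat_lit 320) (nat_lit 351) (nat_lit 349)) (XT.lf (nat_lit 1292) (nat_lit 1852998754) (nat_lit 76) (nat_lit 1761247302) (nat_lit 0) (nat_lit 1761247302) (nat_lit 392) (nat_lit 1) (nat_lit 376) (nat_lit 1) (nat_lit 375) (nat_lit 1) (nat_lit 321) (nat_lit 351) (nat_lit 348))) (XT.nd (nat_lit 78) (nat_lit 0) (nat_lit 0) (XT.lf (nat_lit 1292) (nat_lit 869510424) (nat_lit 0) (nat_lit 3559088733) (nat_lit 1216) (nat_lit 869510424) (nat_lit 393) (nat_lit 1) (nat_lit 376) (nat_lit 1) (nat_lit 392) (nat_lit 1) (nat_lit 322) (nat_lit 351) (nat_lit 347)) (XT.nd (nat_lit 78) (nat_lit 0) (nat_lit 76) (XT.lf (nat_lit 1292) (nat_lit 1593469660) (nat_lit 76) (nat_lit 1814246869) (nat_lit 0) (nat_lit 1814246869) (nat_lit 393) (nat_lit 1) (nat_lit 377) (nat_lit 1) (nat_lit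 376) (nat_lit 1) (nat_lit 323) (nat_lit 351) (nat_lit 346)) (XT.lf (nat_lit 1292) (nat_lit 718190449) (nat_lit 0) (nat_lit 3711194643) (nat_lit 1216) (nat_lit 718190449) (nat_lit 394) (nat_lit 1) (nat_lit 377) (nat_lit 1) (nat_lit 393) (nat_lit 1) (nat_lit 324) (nat_lit 351) (nat_lit 345))))) (XT.nd (nat_lit 156) (nat_lit 0) (nat_lit 76) (XT.nd (nat_lit 78) (nat_lit 0) (nat_lit 76) (XT.lf (nat_lit 1292) (nat_lit 1247483278) (nat_lit 76) (nat_lit 1913405654) (nat_lit 0) (nat_lit 1913405654) (nat_lit 394) (nat_lit 1) (nat_lit 378) (nat_lit 1) (nat_lit 377) (nat_lit 1) (nat_lit 325) (nat_lit 351) (nat_lit 344)) (XT.lf (nat_lit 1292) (nat_lit 525868105) (nat_lit 0) (nat_lit 3951052072) (nat_lit 1216) (nat_lit 525868105) (nat_lit 395) (nat_lit 1) (nat_lit 378) (nat_lit 1) (nat_lit 394) (nat_lit 1) (nat_lit 326) (nat_lit 351) (nat_lit 343))) (XT.nd (nat_lit 78) (nat_lit 0) (nat_lit 76) (XT.lf (nat_lit 1292)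 (nat_lit 822954709) (nat_lit 76) (nat_lit 2054640874) (nat_lit 0) (nat_lit 2054640874) (nat_lit 395) (nat_lit 1) (nat_lit 379) (nat_lit 1) (nat_lit 378) (nat_lit 1) (nat_lit 327) (nat_lit 351) (nat_lit 342)) (XT.nd (nat_lit 78) (nat_lit 0) (nat_lit 0) (XT.lf (nat_lit 1292) (nat_lit 296344340) (nat_lit 0) (nat_lit 4270813539) (nat_lit 1216) (nat_lit 296344340) (nat_lit 396) (nat_lit 1) (nat_lit 379) (nat_lit 1) (nat_lit 395) (nat_lit 1) (nat_lit 328) (nat_lit 351) (nat_lit 341)) (XT.lf (nat_lit 1292) (nat_lit 327258707) (nat_lit 76) (nat_lit 2234145852) (nat_lit 0) (nat_lit 2234145852) (nat_lit 396) (nat_lit 1) (nat_lit 380) (nat_lit 1) (nat_lit 379) (nat_lit 1) (nat_lit 329) (nat_lit 351) (nat_lit 340))))))) (XT.nd (nat_lit 702) (nat_lit 2888) (nat_lit 0) (XT.nd (nat_lit 312) (nat_lit 1292) (nat_lit 0) (XT.nd (nat_lit 156) (nat_lit 0) (nat_lit 0) (XT.nd (nat_lit 78) (nat_lit 1292) (nat_lit 0) (XT.lf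 (nat_lit 1292) (nat_lit 33159759) (nat_lit 0) (nat_lit 4663163891) (nat_lit 1216) (nat_lit 33159759) (nat_lit 397) (nat_lit 1) (nat_lit 380) (nat_lit 1) (nat_lit 396) (nat_lit 1) (nat_lit 330) (nat_lit 351) (nat_lit 339)) (XT.lf (nat_lit 1368) (nat_lit 2217873372) (nat_lit 0) (nat_lit 228195257) (nat_lit 1292) (nat_lit 2217873372) (nat_lit 381) (nat_lit 1) (nat_lit 363) (nat_lit 1) (nat_lit 380) (nat_lit 1) (nat_lit 331) (nat_lit 351) (nat_lit 338))) (XT.nd (nat_lit 78) (nat_lit 0) (nat_lit 76) (XT.lf (nat_lit 1368) (nat_lit 4084534355) (nat_lit 76) (nat_lit 257836363) (nat_lit 0) (nat_lit 257836363) (nat_lit 381) (nat_lit 1) (nat_lit 364) (nat_lit 1) (nat_lit 363) (nat_lit 1) (nat_lit 332) (nat_lit 351) (nat_lit 337)) (XT.lf (nat_lit 1368) (nat_lit 1851555258) (nat_lit 0) (nat_lit 834040110) (nat_lit 1292) (nat_lit 1851555258) (nat_lit 382) (nat_lit 1) (nat_lit 364) (nat_lit 1) (nat_lit 381) (nat_lit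 1) (nat_lit 333) (nat_lit 351) (nat_lit 336)))) (XT.nd (nat_lit 156) (nat_lit 1368) (nat_lit 0) (XT.nd (nat_lit 78) (nat_lit 0) (nat_lit 76) (XT.lf (nat_lit 1368) (nat_lit 3324619248) (nat_lit 76) (nat_lit 575536679) (nat_lit 0) (nat_lit 575536679) (nat_lit 382) (nat_lit 1) (nat_lit 365) (nat_lit 1) (nat_lit 364) (nat_lit 1) (nat_lit 334) (nat_lit 351) (nat_lit 335)) (XT.lf (nat_lit 76) (nat_lit 1462117487) (nat_lit 0) (nat_lit 1490830904) (nat_lit 1292) (nat_lit 1462117487) (nat_lit 366) (nat_lit 1) (nat_lit 365) (nat_lit 1) (nat_lit 382) (nat_lit 1) (nat_lit 335) (nat_lit 351) (nat_lit 334))) (XT.nd (nat_lit 78) (nat_lit 608) (nat_lit 0) (XT.lf (nat_lit 912) (nat_lit 2520896388) (nat_lit 0) (nat_lit 917441440) (nat_lit 836) (nat_lit 917441440) (nat_lit 366) (nat_lit 1) (nat_lit 354) (nat_lit 1) (nat_lit 365) (nat_lit 1) (nat_lit 336) (nat_lit 351) (nat_lit 333)) (XT.nd (nat_lit 78) (nat_lit 608) (nat_lit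 0) (XT.lf (nat_lit 76) (nat_lit 1052173079) (nat_lit 0) (nat_lit 2193146322) (nat_lit 912) (nat_lit 1052173079) (nat_lit 355) (nat_lit 1) (nat_lit 354) (nat_lit 1) (nat_lit 366) (nat_lit 1) (nat_lit 337) (nat_lit 351) (nat_lit 332)) (XT.lf (nat_lit 684) (nat_lit 1678427025) (nat_lit 0) (nat_lit 1280925042) (nat_lit 608) (nat_lit 1280925042) (nat_lit 355) (nat_lit 1) (nat_lit 346) (nat_lit 1) (nat_lit 354) (nat_lit 1) (nat_lit 338) (nat_lit 351) (nat_lit 331)))))) (XT.nd (nat_lit 390) (nat_lit 1064) (nat_lit 0) (XT.nd (nat_lit 156) (nat_lit 1216) (nat_lit 0) (XT.nd (nat_lit 78) (nat_lit 608) (nat_lit 0) (XT.lf (nat_lit 76) (nat_lit 624147607) (nat_lit 0) (nat_lit 2935948972) (nat_lit 684) (nat_lit 624147607) (nat_lit 347) (nat_lit 1) (nat_lit 346) (nat_lit 1) (nat_lit 355) (nat_lit 1) (nat_lit 339) (nat_lit 351) (nat_lit 330)) (XT.lf (nat_lit 684) (nat_lit 801907700) (nat_lit 0) (nat_lit 1663548612)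 (nat_lit 608) (nat_lit 1663548612) (nat_lit 347) (nat_lit 1) (nat_lit 338) (nat_lit 1) (nat_lit 346) (nat_lit 1) (nat_lit 340) (nat_lit 351) (nat_lit 329))) (XT.nd (nat_lit 78) (nat_lit 1216) (nat_lit 0) (XT.lf (nat_lit 76) (nat_lit 180291042) (nat_lit 0) (nat_lit 3714561236) (nat_lit 684) (nat_lit 180291042) (nat_lit 339) (nat_lit 1) (nat_lit 338) (nat_lit 1) (nat_lit 347) (nat_lit 1) (nat_lit 341) (nat_lit 351) (nat_lit 328)) (XT.nd (nat_lit 78) (nat_lit 608) (nat_lit 0) (XT.lf (nat_lit 76) (nat_lit 1959744235) (nat_lit 0) (nat_lit 102271254) (nat_lit 608) (nat_lit 1959744235) (nat_lit 331) (nat_lit 1) (nat_lit 330) (nat_lit 1) (nat_lit 338) (nat_lit 1) (nat_lit 342) (nat_lit 351) (nat_lit 327)) (XT.lf (nat_lit 684) (nat_lit 3420514127) (nat_lit 0) (nat_lit 274592365) (nat_lit 608) (nat_lit 274592365) (nat_lit 331) (nat_lit 1) (nat_lit 322) (nat_lit 1) (nat_lit 330) (nat_lit 1) (nat_lit 343) (nat_lit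 351) (nat_lit 326))))) (XT.nd (nat_lit 156) (nat_lit 532) (nat_lit 0) (XT.nd (nat_lit 78) (nat_lit 532) (nat_lit 0) (XT.lf (nat_lit 76) (nat_lit 1451103269) (nat_lit 0) (nat_lit 1015961385) (nat_lit 684) (nat_lit 1451103269) (nat_lit 323) (nat_lit 1) (nat_lit 322) (nat_lit 1) (nat_lit 331) (nat_lit 1) (nat_lit 344) (nat_lit 351) (nat_lit 325)) (XT.lf (nat_lit 608) (nat_lit 2389034883) (nat_lit 0) (nat_lit 739406449) (nat_lit 532) (nat_lit 739406449) (nat_lit 323) (nat_lit 1) (nat_lit 315) (nat_lit 1) (nat_lit 322) (nat_lit 1) (nat_lit 345) (nat_lit 351) (nat_lit 324))) (XT.nd (nat_lit 78) (nat_lit 532) (nat_lit 0) (XT.lf (nat_lit 76) (nat_lit 933578082) (nat_lit 0) (nat_lit 1951148165) (nat_lit 608) (nat_lit 933578082) (nat_lit 316) (nat_lit 1) (nat_lit 315) (nat_lit 1) (nat_lit 323) (nat_lit 1) (nat_lit 346) (nat_lit 351) (nat_lit 323)) (XT.nd (nat_lit 78) (nat_lit 0) (nat_lit 0) (XT.lf (nat_lit 608)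 (nat_lit 1341348892) (nat_lit 0) (nat_lit 1214148922) (nat_lit 532) (nat_lit 1214148922) (nat_lit 316) (nat_lit 1) (nat_lit 308) (nat_lit 1) (nat_lit 315) (nat_lit 1) (nat_lit 347) (nat_lit 351) (nat_lit 322)) (XT.lf (nat_lit 76) (nat_lit 408787856) (nat_lit 0) (nat_lit 2904443827) (nat_lit 608) (nat_lit 408787856) (nat_lit 309) (nat_lit 1) (nat_lit 308) (nat_lit 1) (nat_lit 316) (nat_lit 1) (nat_lit 348) (nat_lit 351) (nat_lit 321))))))))
noncomputable def ec91 : XT := (XT.nd (nat_lit 1482) (nat_lit 3268) (nat_lit 0) (XT.nd (nat_lit 702) (nat_lit 2356) (nat_lit 0) (XT.nd (nat_lit 312) (nat_lit 1368) (nat_lit 0) (XT.nd (nat_lit 156) (nat_lit 456) (nat_lit 0) (XT.nd (nat_lit 78) (nat_lit 608) (nat_lit 0) (XT.lf (nat_lit 532) (nat_lit 280583124) (nat_lit 0) (nat_lit 1697183526) (nat_lit 456) (nat_lit 1697183526) (nat_lit 309) (nat_lit 1) (nat_lit 302) (nat_lit 1) (nat_lit 308) (nat_lit 1) (nat_lit 349)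 (nat_lit 351) (nat_lit 320)) (XT.lf (nat_lit 608) (nat_lit 3387870436) (nat_lit 0) (nat_lit 120579619) (nat_lit 532) (nat_lit 120579619) (nat_lit 302) (nat_lit 1) (nat_lit 294) (nat_lit 1) (nat_lit 301) (nat_lit 1) (nat_lit 350) (nat_lit 351) (nat_lit 319))) (XT.nd (nat_lit 78) (nat_lit 456) (nat_lit 0) (XT.lf (nat_lit 76) (nat_lit 1404217663) (nat_lit 0) (nat_lit 774955790) (nat_lit 608) (nat_lit 1404217663) (nat_lit 295) (nat_lit 1) (nat_lit 294) (nat_lit 1) (nat_lit 302) (nat_lit 1) (nat_lit 351) (nat_lit 351) (nat_lit 318)) (XT.lf (nat_lit 532) (nat_lit 2238279363) (nat_lit 0) (nat_lit 650290592) (nat_lit 456) (nat_lit 650290592) (nat_lit 295) (nat_lit 1) (nat_lit 288) (nat_lit 1) (nat_lit 294) (nat_lit 1) (nat_lit 352) (nat_lit 351) (nat_lit 317)))) (XT.nd (nat_lit 156) (nat_lit 912) (nat_lit 0) (XT.nd (nat_lit 78) (nat_lit 456) (nat_lit 0) (XT.lf (nat_lit 76) (nat_lit 831284351) (nat_lit 0) (nat_lit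 1832412813) (nat_lit 532) (nat_lit 831284351) (nat_lit 289) (nat_lit 1) (nat_lit 288) (nat_lit 1) (nat_lit 295) (nat_lit 1) (nat_lit 353) (nat_lit 351) (nat_lit 316)) (XT.lf (nat_lit 532) (nat_lit 1085661480) (nat_lit 0) (nat_lit 1183097892) (nat_lit 456) (nat_lit 1183097892) (nat_lit 289) (nat_lit 1) (nat_lit 282) (nat_lit 1) (nat_lit 288) (nat_lit 1) (nat_lit 354) (nat_lit 351) (nat_lit 315))) (XT.nd (nat_lit 78) (nat_lit 912) (nat_lit 0) (XT.lf (nat_lit 76) (nat_lit 257404129) (nat_lit 0) (nat_lit 2894867720) (nat_lit 532) (nat_lit 257404129) (nat_lit 283) (nat_lit 1) (nat_lit 282) (nat_lit 1) (nat_lit 289) (nat_lit 1) (nat_lit 355) (nat_lit 351) (nat_lit 314)) (XT.nd (nat_lit 78) (nat_lit 456) (nat_lit 0) (XT.lf (nat_lit 76) (nat_lit 1650700435) (nat_lit 0) (nat_lit 66476219) (nat_lit 456) (nat_lit 1650700435) (nat_lit 277) (nat_lit 1) (nat_lit 276) (nat_lit 1) (nat_lit 282) (nat_lit 1) (nat_lit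 356) (nat_lit 351) (nat_lit 313)) (XT.lf (nat_lit 532) (nat_lit 2700424244) (nat_lit 0) (nat_lit 313281345) (nat_lit 456) (nat_lit 313281345) (nat_lit 277) (nat_lit 1) (nat_lit 270) (nat_lit 1) (nat_lit 276) (nat_lit 1) (nat_lit 357) (nat_lit 351) (nat_lit 312)))))) (XT.nd (nat_lit 390) (nat_lit 1140) (nat_lit 0) (XT.nd (nat_lit 156) (nat_lit 836) (nat_lit 0) (XT.nd (nat_lit 78) (nat_lit 380) (nat_lit 0) (XT.lf (nat_lit 76) (nat_lit 1045107459) (nat_lit 0) (nat_lit 1196294094) (nat_lit 532) (nat_lit 1045107459) (nat_lit 271) (nat_lit 1) (nat_lit 270) (nat_lit 1) (nat_lit 277) (nat_lit 1) (nat_lit 358) (nat_lit 351) (nat_lit 311)) (XT.lf (nat_lit 456) (nat_lit 1486050305) (nat_lit 0) (nat_lit 880409074) (nat_lit 380) (nat_lit 880409074) (nat_lit 271) (nat_lit 1) (nat_lit 265) (nat_lit 1) (nat_lit 270) (nat_lit 1) (nat_lit 359) (nat_lit 351) (nat_lit 310))) (XT.nd (nat_lit 78) (nat_lit 836) (nat_lit 0)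 (XT.lf (nat_lit 76) (nat_lit 442384675) (nat_lit 0) (nat_lit 2323184580) (nat_lit 456) (nat_lit 442384675) (nat_lit 266) (nat_lit 1) (nat_lit 265) (nat_lit 1) (nat_lit 271) (nat_lit 1) (nat_lit 360) (nat_lit 351) (nat_lit 309)) (XT.nd (nat_lit 78) (nat_lit 456) (nat_lit 0) (XT.lf (nat_lit 456) (nat_lit 278225114) (nat_lit 0) (nat_lit 1445642169) (nat_lit 380) (nat_lit 1445642169) (nat_lit 266) (nat_lit 1) (nat_lit 260) (nat_lit 1) (nat_lit 265) (nat_lit 1) (nat_lit 361) (nat_lit 351) (nat_lit 308)) (XT.lf (nat_lit 456) (nat_lit 2821587943) (nat_lit 0) (nat_lit 155167433) (nat_lit 380) (nat_lit 155167433) (nat_lit 260) (nat_lit 1) (nat_lit 254) (nat_lit 1) (nat_lit 259) (nat_lit 1) (nat_lit 362) (nat_lit 351) (nat_lit 307))))) (XT.nd (nat_lit 156) (nat_lit 760) (nat_lit 0) (XT.nd (nat_lit 78) (nat_lit 380) (nat_lit 0) (XT.lf (nat_lit 76) (nat_lit 1095467615) (nat_lit 0) (nat_lit 903604110) (nat_lit 456)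 (nat_lit 1095467615) (nat_lit 255) (nat_lit 1) (nat_lit 254) (nat_lit 1) (nat_lit 260) (nat_lit 1) (nat_lit 363) (nat_lit 351) (nat_lit 306)) (XT.lf (nat_lit 456) (nat_lit 1569792180) (nat_lit 0) (nat_lit 744097253) (nat_lit 380) (nat_lit 744097253) (nat_lit 255) (nat_lit 1) (nat_lit 249) (nat_lit 1) (nat_lit 254) (nat_lit 1) (nat_lit 364) (nat_lit 351) (nat_lit 305))) (XT.nd (nat_lit 78) (nat_lit 760) (nat_lit 0) (XT.lf (nat_lit 76) (nat_lit 475599089) (nat_lit 0) (nat_lit 2070847800) (nat_lit 456) (nat_lit 475599089) (nat_lit 250) (nat_lit 1) (nat_lit 249) (nat_lit 1) (nat_lit 255) (nat_lit 1) (nat_lit 365) (nat_lit 351) (nat_lit 304)) (XT.nd (nat_lit 78) (nat_lit 456) (nat_lit 0) (XT.lf (nat_lit 380) (nat_lit 330319048) (nat_lit 0) (nat_lit 1328120853) (nat_lit 304) (nat_lit 1328120853) (nat_lit 250) (nat_lit 1) (nat_lit 245) (nat_lit 1) (nat_lit 249) (nat_lit 1) (nat_lit 366) (nat_lit 351) (nat_lit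 303)) (XT.lf (nat_lit 456) (nat_lit 2678810671) (nat_lit 0) (nat_lit 136521655) (nat_lit 380) (nat_lit 136521655) (nat_lit 245) (nat_lit 1) (nat_lit 239) (nat_lit 1) (nat_lit 244) (nat_lit 1) (nat_lit 367) (nat_lit 351) (nat_lit 302))))))) (XT.nd (nat_lit 702) (nat_lit 1672) (nat_lit 0) (XT.nd (nat_lit 312) (nat_lit 988) (nat_lit 0) (XT.nd (nat_lit 156) (nat_lit 304) (nat_lit 0) (XT.nd (nat_lit 78) (nat_lit 304) (nat_lit 0) (XT.lf (nat_lit 76) (nat_lit 1019484346) (nat_lit 0) (nat_lit 878324400) (nat_lit 456) (nat_lit 1019484346) (nat_lit 240) (nat_lit 1) (nat_lit 239) (nat_lit 1) (nat_lit 245) (nat_lit 1) (nat_lit 368) (nat_lit 351) (nat_lit 301)) (XT.lf (nat_lit 380) (nat_lit 1409151864) (nat_lit 0) (nat_lit 737168080) (nat_lit 304) (nat_lit 737168080) (nat_lit 240) (nat_lit 1) (nat_lit 235) (nat_lit 1) (nat_lit 239) (nat_lit 1) (nat_lit 369) (nat_lit 351) (nat_lit 300))) (XT.nd (nat_lit 78) (nat_lit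 304) (nat_lit 0) (XT.lf (nat_lit 76) (nat_lit 391863608) (nat_lit 0) (nat_lit 2066533985) (nat_lit 380) (nat_lit 391863608) (nat_lit 236) (nat_lit 1) (nat_lit 235) (nat_lit 1) (nat_lit 240) (nat_lit 1) (nat_lit 370) (nat_lit 351) (nat_lit 299)) (XT.lf (nat_lit 380) (nat_lit 156258683) (nat_lit 0) (nat_lit 1330576682) (nat_lit 304) (nat_lit 1330576682) (nat_lit 236) (nat_lit 1) (nat_lit 231) (nat_lit 1) (nat_lit 235) (nat_lit 1) (nat_lit 371) (nat_lit 351) (nat_lit 298)))) (XT.nd (nat_lit 156) (nat_lit 608) (nat_lit 0) (XT.nd (nat_lit 78) (nat_lit 0) (nat_lit 0) (XT.lf (nat_lit 380) (nat_lit 2335185673) (nat_lit 0) (nat_lit 225012742) (nat_lit 304) (nat_lit 225012742) (nat_lit 231) (nat_lit 1) (nat_lit 226) (nat_lit 1) (nat_lit 230) (nat_lit 1) (nat_lit 372) (nat_lit 351) (nat_lit 297)) (XT.lf (nat_lit 76) (nat_lit 847546612) (nat_lit 0) (nat_lit 1058137764) (nat_lit 380) (nat_lit 847546612) (nat_lit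 227) (nat_lit 1) (nat_lit 226) (nat_lit 1) (nat_lit 231) (nat_lit 1) (nat_lit 373) (nat_lit 351) (nat_lit 296))) (XT.nd (nat_lit 78) (nat_lit 304) (nat_lit 0) (XT.lf (nat_lit 380) (nat_lit 1063270347) (nat_lit 0) (nat_lit 829304892) (nat_lit 304) (nat_lit 829304892) (nat_lit 227) (nat_lit 1) (nat_lit 222) (nat_lit 1) (nat_lit 226) (nat_lit 1) (nat_lit 374) (nat_lit 351) (nat_lit 295)) (XT.nd (nat_lit 78) (nat_lit 304) (nat_lit 0) (XT.lf (nat_lit 76) (nat_lit 219661323) (nat_lit 0) (nat_lit 2251813132) (nat_lit 380) (nat_lit 219661323) (nat_lit 223) (nat_lit 1) (nat_lit 222) (nat_lit 1) (nat_lit 227) (nat_lit 1) (nat_lit 375) (nat_lit 351) (nat_lit 294)) (XT.lf (nat_lit 76) (nat_lit 1237869986) (nat_lit 0) (nat_lit 184849548) (nat_lit 304) (nat_lit 1237869986) (nat_lit 219) (nat_lit 1) (nat_lit 218) (nat_lit 1) (nat_lit 222) (nat_lit 1) (nat_lit 376) (nat_lit 351) (nat_lit 293)))))) (XT.nd (nat_lit 390)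 (nat_lit 760) (nat_lit 0) (XT.nd (nat_lit 156) (nat_lit 608) (nat_lit 0) (XT.nd (nat_lit 78) (nat_lit 0) (nat_lit 0) (XT.lf (nat_lit 380) (nat_lit 1842213126) (nat_lit 0) (nat_lit 394209901) (nat_lit 304) (nat_lit 394209901) (nat_lit 219) (nat_lit 1) (nat_lit 214) (nat_lit 1) (nat_lit 218) (nat_lit 1) (nat_lit 377) (nat_lit 351) (nat_lit 292)) (XT.lf (nat_lit 76) (nat_lit 604449392) (nat_lit 0) (nat_lit 1392118820) (nat_lit 380) (nat_lit 604449392) (nat_lit 215) (nat_lit 1) (nat_lit 214) (nat_lit 1) (nat_lit 219) (nat_lit 1) (nat_lit 378) (nat_lit 351) (nat_lit 291))) (XT.nd (nat_lit 78) (nat_lit 380) (nat_lit 0) (XT.lf (nat_lit 304) (nat_lit 580382269) (nat_lit 0) (nat_lit 995742536) (nat_lit 228) (nat_lit 995742536) (nat_lit 215) (nat_lit 1) (nat_lit 211) (nat_lit 1) (nat_lit 214) (nat_lit 1) (nat_lit 379) (nat_lit 351) (nat_lit 290)) (XT.nd (nat_lit 78) (nat_lit 0) (nat_lit 0) (XT.lf (nat_lit 380)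 (nat_lit 2508152594) (nat_lit 0) (nat_lit 17612765) (nat_lit 304) (nat_lit 17612765) (nat_lit 211) (nat_lit 1) (nat_lit 206) (nat_lit 1) (nat_lit 210) (nat_lit 1) (nat_lit 380) (nat_lit 351) (nat_lit 289)) (XT.lf (nat_lit 76) (nat_lit 934407739) (nat_lit 0) (nat_lit 646017421) (nat_lit 380) (nat_lit 934407739) (nat_lit 207) (nat_lit 1) (nat_lit 206) (nat_lit 1) (nat_lit 211) (nat_lit 1) (nat_lit 381) (nat_lit 351) (nat_lit 288))))) (XT.nd (nat_lit 156) (nat_lit 532) (nat_lit 0) (XT.nd (nat_lit 78) (nat_lit 0) (nat_lit 0) (XT.lf (nat_lit 304) (nat_lit 1241766328) (nat_lit 0) (nat_lit 622584145) (nat_lit 228) (nat_lit 622584145) (nat_lit 207) (nat_lit 1) (nat_lit 203) (nat_lit 1) (nat_lit 206) (nat_lit 1) (nat_lit 382) (nat_lit 351) (nat_lit 287)) (XT.lf (nat_lit 76) (nat_lit 310343015) (nat_lit 0) (nat_lit 1838804779) (nat_lit 304) (nat_lit 310343015) (nat_lit 204) (nat_lit 1) (nat_lit 203) (nat_lit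 1) (nat_lit 207) (nat_lit 1) (nat_lit 383) (nat_lit 351) (nat_lit 286))) (XT.nd (nat_lit 78) (nat_lit 228) (nat_lit 0) (XT.lf (nat_lit 76) (nat_lit 1215997798) (nat_lit 0) (nat_lit 325569) (nat_lit 304) (nat_lit 1215997798) (nat_lit 200) (nat_lit 1) (nat_lit 199) (nat_lit 1) (nat_lit 203) (nat_lit 1) (nat_lit 384) (nat_lit 351) (nat_lit 285)) (XT.nd (nat_lit 78) (nat_lit 0) (nat_lit 0) (XT.lf (nat_lit 304) (nat_lit 1808248833) (nat_lit 0) (nat_lit 298672316) (nat_lit 228) (nat_lit 298672316) (nat_lit 200) (nat_lit 1) (nat_lit 196) (nat_lit 1) (nat_lit 199) (nat_lit 1) (nat_lit 385) (nat_lit 351) (nat_lit 284)) (XT.lf (nat_lit 76) (nat_lit 592382999) (nat_lit 0) (nat_lit 1194356784) (nat_lit 304) (nat_lit 592382999) (nat_lit 197) (nat_lit 1) (nat_lit 196) (nat_lit 1) (nat_lit 200) (nat_lit 1) (nat_lit 386) (nat_lit 351) (nat_lit 283))))))))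
noncomputable def ec92 : XT := (XT.nd (nat_lit 1482) (nat_lit 2128) (nat_lit 0) (XT.nd (nat_lit 702) (nat_lit 1216) (nat_lit 0) (XT.nd (nat_lit 312) (nat_lit 608) (nat_lit 0) (XT.nd (nat_lit 156) (nat_lit 228) (nat_lit 0) (XT.nd (nat_lit 78) (nat_lit 304) (nat_lit 0) (XT.lf (nat_lit 304) (nat_lit 567733476) (nat_lit 0) (nat_lit 892674281) (nat_lit 228) (nat_lit 892674281) (nat_lit 197) (nat_lit 1) (nat_lit 193) (nat_lit 1) (nat_lit 196) (nat_lit 1) (nat_lit 387) (nat_lit 351) (nat_lit 282)) (XT.lf (nat_lit 304) (nat_lit 2291028516) (nat_lit 0) (nat_lit 18293054) (nat_lit 228) (nat_lit 18293054) (nat_lit 193) (nat_lit 1) (nat_lit 189) (nat_lit 1) (nat_lit 192) (nat_lit 1) (nat_lit 388) (nat_lit 351) (nat_lit 281))) (XT.nd (nat_lit 78) (nat_lit 228) (nat_lit 0) (XT.lf (nat_lit 76) (nat_lit 833749136) (nat_lit 0) (nat_lit 634571070) (nat_lit 304) (nat_lit 833749136) (nat_lit 190) (nat_lit 1) (nat_lit 189)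 (nat_lit 1) (nat_lit 193) (nat_lit 1) (nat_lit 389) (nat_lit 351) (nat_lit 280)) (XT.lf (nat_lit 304) (nat_lit 1055907819) (nat_lit 0) (nat_lit 610589538) (nat_lit 228) (nat_lit 610589538) (nat_lit 190) (nat_lit 1) (nat_lit 186) (nat_lit 1) (nat_lit 189) (nat_lit 1) (nat_lit 390) (nat_lit 351) (nat_lit 279)))) (XT.nd (nat_lit 156) (nat_lit 380) (nat_lit 0) (XT.nd (nat_lit 78) (nat_lit 228) (nat_lit 0) (XT.lf (nat_lit 76) (nat_lit 225838073) (nat_lit 0) (nat_lit 1800851446) (nat_lit 304) (nat_lit 225838073) (nat_lit 187) (nat_lit 1) (nat_lit 186) (nat_lit 1) (nat_lit 190) (nat_lit 1) (nat_lit 391) (nat_lit 351) (nat_lit 278)) (XT.lf (nat_lit 76) (nat_lit 1039245711) (nat_lit 0) (nat_lit 149633941) (nat_lit 228) (nat_lit 1039245711) (nat_lit 184) (nat_lit 1) (nat_lit 183) (nat_lit 1) (nat_lit 186) (nat_lit 1) (nat_lit 392) (nat_lit 351) (nat_lit 277))) (XT.nd (nat_lit 78) (nat_lit 152) (nat_lit 0) (XT.lf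 (nat_lit 304) (nat_lit 1473581759) (nat_lit 0) (nat_lit 365277597) (nat_lit 228) (nat_lit 365277597) (nat_lit 184) (nat_lit 1) (nat_lit 180) (nat_lit 1) (nat_lit 183) (nat_lit 1) (nat_lit 393) (nat_lit 351) (nat_lit 276)) (XT.nd (nat_lit 78) (nat_lit 152) (nat_lit 0) (XT.lf (nat_lit 76) (nat_lit 435850453) (nat_lit 0) (nat_lit 1308721381) (nat_lit 304) (nat_lit 435850453) (nat_lit 181) (nat_lit 1) (nat_lit 180) (nat_lit 1) (nat_lit 184) (nat_lit 1) (nat_lit 394) (nat_lit 351) (nat_lit 275)) (XT.lf (nat_lit 228) (nat_lit 274519962) (nat_lit 0) (nat_lit 941252335) (nat_lit 152) (nat_lit 941252335) (nat_lit 181) (nat_lit 1) (nat_lit 178) (nat_lit 1) (nat_lit 180) (nat_lit 1) (nat_lit 395) (nat_lit 351) (nat_lit 274)))))) (XT.nd (nat_lit 390) (nat_lit 532) (nat_lit 0) (XT.nd (nat_lit 156) (nat_lit 380) (nat_lit 0) (XT.nd (nat_lit 78) (nat_lit 0) (nat_lit 0) (XT.lf (nat_lit 304) (nat_lit 1829084849) (nat_lit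 0) (nat_lit 152482958) (nat_lit 228) (nat_lit 152482958) (nat_lit 178) (nat_lit 1) (nat_lit 174) (nat_lit 1) (nat_lit 177) (nat_lit 1) (nat_lit 396) (nat_lit 351) (nat_lit 273)) (XT.lf (nat_lit 76) (nat_lit 615593356) (nat_lit 0) (nat_lit 879955002) (nat_lit 304) (nat_lit 615593356) (nat_lit 175) (nat_lit 1) (nat_lit 174) (nat_lit 1) (nat_lit 178) (nat_lit 1) (nat_lit 397) (nat_lit 351) (nat_lit 272))) (XT.nd (nat_lit 78) (nat_lit 228) (nat_lit 0) (XT.lf (nat_lit 228) (nat_lit 642076075) (nat_lit 0) (nat_lit 723286285) (nat_lit 152) (nat_lit 723286285) (nat_lit 175) (nat_lit 1) (nat_lit 172) (nat_lit 1) (nat_lit 174) (nat_lit 1) (nat_lit 398) (nat_lit 351) (nat_lit 271)) (XT.nd (nat_lit 78) (nat_lit 228) (nat_lit 0) (XT.lf (nat_lit 76) (nat_lit 31883405) (nat_lit 0) (nat_lit 2002858741) (nat_lit 228) (nat_lit 31883405) (nat_lit 173) (nat_lit 1) (nat_lit 172) (nat_lit 1) (nat_lit 175) (nat_lit 1) (nat_lit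 399) (nat_lit 351) (nat_lit 270)) (XT.lf (nat_lit 76) (nat_lit 768641747) (nat_lit 0) (nat_lit 507239307) (nat_lit 228) (nat_lit 768641747) (nat_lit 170) (nat_lit 1) (nat_lit 169) (nat_lit 1) (nat_lit 172) (nat_lit 1) (nat_lit 400) (nat_lit 351) (nat_lit 269))))) (XT.nd (nat_lit 156) (nat_lit 380) (nat_lit 0) (XT.nd (nat_lit 78) (nat_lit 0) (nat_lit 0) (XT.lf (nat_lit 228) (nat_lit 957047776) (nat_lit 0) (nat_lit 532917657) (nat_lit 152) (nat_lit 532917657) (nat_lit 170) (nat_lit 1) (nat_lit 167) (nat_lit 1) (nat_lit 169) (nat_lit 1) (nat_lit 401) (nat_lit 351) (nat_lit 268)) (XT.lf (nat_lit 76) (nat_lit 192118203) (nat_lit 0) (nat_lit 1617361265) (nat_lit 228) (nat_lit 192118203) (nat_lit 168) (nat_lit 1) (nat_lit 167) (nat_lit 1) (nat_lit 170) (nat_lit 1) (nat_lit 402) (nat_lit 351) (nat_lit 267))) (XT.nd (nat_lit 78) (nat_lit 152) (nat_lit 0) (XT.lf (nat_lit 76) (nat_lit 898166123) (nat_lit 0) (nat_lit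 184083987) (nat_lit 228) (nat_lit 898166123) (nat_lit 165) (nat_lit 1) (nat_lit 164) (nat_lit 1) (nat_lit 167) (nat_lit 1) (nat_lit 403) (nat_lit 351) (nat_lit 266)) (XT.nd (nat_lit 78) (nat_lit 0) (nat_lit 0) (XT.lf (nat_lit 228) (nat_lit 1225636688) (nat_lit 0) (nat_lit 366973117) (nat_lit 152) (nat_lit 366973117) (nat_lit 165) (nat_lit 1) (nat_lit 162) (nat_lit 1) (nat_lit 164) (nat_lit 1) (nat_lit 404) (nat_lit 351) (nat_lit 265)) (XT.lf (nat_lit 76) (nat_lit 329714157) (nat_lit 0) (nat_lit 1279574647) (nat_lit 228) (nat_lit 329714157) (nat_lit 163) (nat_lit 1) (nat_lit 162) (nat_lit 1) (nat_lit 165) (nat_lit 1) (nat_lit 405) (nat_lit 351) (nat_lit 264))))))) (XT.nd (nat_lit 702) (nat_lit 1064) (nat_lit 0) (XT.nd (nat_lit 312) (nat_lit 532) (nat_lit 0) (XT.nd (nat_lit 156) (nat_lit 152) (nat_lit 0) (XT.nd (nat_lit 78) (nat_lit 228) (nat_lit 0) (XT.lf (nat_lit 228) (nat_lit 97166596) (nat_lit 0)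 (nat_lit 910745217) (nat_lit 152) (nat_lit 910745217) (nat_lit 163) (nat_lit 1) (nat_lit 160) (nat_lit 1) (nat_lit 162) (nat_lit 1) (nat_lit 406) (nat_lit 351) (nat_lit 263)) (XT.lf (nat_lit 228) (nat_lit 1453343037) (nat_lit 0) (nat_lit 222635989) (nat_lit 152) (nat_lit 222635989) (nat_lit 160) (nat_lit 1) (nat_lit 157) (nat_lit 1) (nat_lit 159) (nat_lit 1) (nat_lit 407) (nat_lit 351) (nat_lit 262))) (XT.nd (nat_lit 78) (nat_lit 152) (nat_lit 0) (XT.lf (nat_lit 76) (nat_lit 447334740) (nat_lit 0) (nat_lit 984040948) (nat_lit 228) (nat_lit 447334740) (nat_lit 158) (nat_lit 1) (nat_lit 157) (nat_lit 1) (nat_lit 160) (nat_lit 1) (nat_lit 408) (nat_lit 351) (nat_lit 261)) (XT.lf (nat_lit 228) (nat_lit 342620510) (nat_lit 0) (nat_lit 758242042) (nat_lit 152) (nat_lit 758242042) (nat_lit 158) (nat_lit 1) (nat_lit 155) (nat_lit 1) (nat_lit 157) (nat_lit 1) (nat_lit 409) (nat_lit 351) (nat_lit 260)))) (XT.nd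 (nat_lit 156) (nat_lit 304) (nat_lit 0) (XT.nd (nat_lit 78) (nat_lit 0) (nat_lit 0) (XT.lf (nat_lit 228) (nat_lit 1645044148) (nat_lit 0) (nat_lit 97406403) (nat_lit 152) (nat_lit 97406403) (nat_lit 155) (nat_lit 1) (nat_lit 152) (nat_lit 1) (nat_lit 154) (nat_lit 1) (nat_lit 410) (nat_lit 351) (nat_lit 259)) (XT.lf (nat_lit 76) (nat_lit 547342368) (nat_lit 0) (nat_lit 725914868) (nat_lit 228) (nat_lit 547342368) (nat_lit 153) (nat_lit 1) (nat_lit 152) (nat_lit 1) (nat_lit 155) (nat_lit 1) (nat_lit 411) (nat_lit 351) (nat_lit 258))) (XT.nd (nat_lit 78) (nat_lit 152) (nat_lit 0) (XT.lf (nat_lit 228) (nat_lit 553238397) (nat_lit 0) (nat_lit 624228732) (nat_lit 152) (nat_lit 624228732) (nat_lit 153) (nat_lit 1) (nat_lit 150) (nat_lit 1) (nat_lit 152) (nat_lit 1) (nat_lit 412) (nat_lit 351) (nat_lit 257)) (XT.nd (nat_lit 78) (nat_lit 152) (nat_lit 0) (XT.lf (nat_lit 76) (nat_lit 11042366) (nat_lit 0) (nat_lit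 1761098438) (nat_lit 228) (nat_lit 11042366) (nat_lit 151) (nat_lit 1) (nat_lit 150) (nat_lit 1) (nat_lit 153) (nat_lit 1) (nat_lit 413) (nat_lit 351) (nat_lit 256)) (XT.lf (nat_lit 76) (nat_lit 631832085) (nat_lit 0) (nat_lit 500895309) (nat_lit 152) (nat_lit 631832085) (nat_lit 149) (nat_lit 1) (nat_lit 148) (nat_lit 1) (nat_lit 150) (nat_lit 1) (nat_lit 414) (nat_lit 351) (nat_lit 255)))))) (XT.nd (nat_lit 390) (nat_lit 608) (nat_lit 0) (XT.nd (nat_lit 156) (nat_lit 304) (nat_lit 0) (XT.nd (nat_lit 78) (nat_lit 0) (nat_lit 0) (XT.lf (nat_lit 228) (nat_lit 733122346) (nat_lit 0) (nat_lit 506600209) (nat_lit 152) (nat_lit 506600209) (nat_lit 149) (nat_lit 1) (nat_lit 146) (nat_lit 1) (nat_lit 148) (nat_lit 1) (nat_lit 415) (nat_lit 351) (nat_lit 254)) (XT.lf (nat_lit 76) (nat_lit 105387280) (nat_lit 0) (nat_lit 1517631241) (nat_lit 228) (nat_lit 105387280) (nat_lit 147) (nat_lit 1) (nat_lit 146) (nat_lit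 1) (nat_lit 149) (nat_lit 1) (nat_lit 416) (nat_lit 351) (nat_lit 253))) (XT.nd (nat_lit 78) (nat_lit 152) (nat_lit 0) (XT.lf (nat_lit 76) (nat_lit 702661498) (nat_lit 0) (nat_lit 305164577) (nat_lit 152) (nat_lit 702661498) (nat_lit 145) (nat_lit 1) (nat_lit 144) (nat_lit 1) (nat_lit 146) (nat_lit 1) (nat_lit 417) (nat_lit 351) (nat_lit 252)) (XT.nd (nat_lit 78) (nat_lit 0) (nat_lit 0) (XT.lf (nat_lit 228) (nat_lit 885910676) (nat_lit 0) (nat_lit 403487400) (nat_lit 152) (nat_lit 403487400) (nat_lit 145) (nat_lit 1) (nat_lit 142) (nat_lit 1) (nat_lit 144) (nat_lit 1) (nat_lit 418) (nat_lit 351) (nat_lit 251)) (XT.lf (nat_lit 76) (nat_lit 186427738) (nat_lit 0) (nat_lit 1302685107) (nat_lit 228) (nat_lit 186427738) (nat_lit 143) (nat_lit 1) (nat_lit 142) (nat_lit 1) (nat_lit 145) (nat_lit 1) (nat_lit 419) (nat_lit 351) (nat_lit 250))))) (XT.nd (nat_lit 156) (nat_lit 304) (nat_lit 0) (XT.nd (nat_lit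 78) (nat_lit 152) (nat_lit 0) (XT.lf (nat_lit 76) (nat_lit 761477363) (nat_lit 0) (nat_lit 135334369) (nat_lit 152) (nat_lit 761477363) (nat_lit 141) (nat_lit 1) (nat_lit 140) (nat_lit 1) (nat_lit 142) (nat_lit 1) (nat_lit 420) (nat_lit 351) (nat_lit 249)) (XT.lf (nat_lit 228) (nat_lit 1014829838) (nat_lit 0) (nat_lit 313230878) (nat_lit 152) (nat_lit 313230878) (nat_lit 141) (nat_lit 1) (nat_lit 138) (nat_lit 1) (nat_lit 140) (nat_lit 1) (nat_lit 421) (nat_lit 351) (nat_lit 248))) (XT.nd (nat_lit 78) (nat_lit 304) (nat_lit 0) (XT.lf (nat_lit 76) (nat_lit 255728442) (nat_lit 0) (nat_lit 1113039628) (nat_lit 228) (nat_lit 255728442) (nat_lit 139) (nat_lit 1) (nat_lit 138) (nat_lit 1) (nat_lit 141) (nat_lit 1) (nat_lit 422) (nat_lit 351) (nat_lit 247)) (XT.nd (nat_lit 78) (nat_lit 228) (nat_lit 0) (XT.lf (nat_lit 152) (nat_lit 11833125) (nat_lit 0) (nat_lit 798019826) (nat_lit 76) (nat_lit 798019826)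 (nat_lit 139) (nat_lit 1) (nat_lit 137) (nat_lit 1) (nat_lit 138) (nat_lit 1) (nat_lit 423) (nat_lit 351) (nat_lit 246)) (XT.lf (nat_lit 228) (nat_lit 1122740523) (nat_lit 0) (nat_lit 234357451) (nat_lit 152) (nat_lit 234357451) (nat_lit 137) (nat_lit 1) (nat_lit 134) (nat_lit 1) (nat_lit 136) (nat_lit 1) (nat_lit 424) (nat_lit 351) (nat_lit 245))))))))
noncomputable def ec93 : XT := (XT.nd (nat_lit 45162) (nat_lit 0) (nat_lit 15504) (XT.nd (nat_lit 702) (nat_lit 304) (nat_lit 0) (XT.nd (nat_lit 312) (nat_lit 608) (nat_lit 0) (XT.nd (nat_lit 156) (nat_lit 228) (nat_lit 0) (XT.nd (nat_lit 78) (nat_lit 76) (nat_lit 0) (XT.lf (nat_lit 76) (nat_lit 314677244) (nat_lit 0) (nat_lit 945834674) (nat_lit 228) (nat_lit 314677244) (nat_lit 135) (nat_lit 1) (nat_lit 134) (nat_lit 1) (nat_lit 137) (nat_lit 1) (nat_lit 425) (nat_lit 351) (nat_lit 244)) (XT.lf (nat_lit 152) (nat_lit 141066033) (nat_lit 0) (nat_lit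 709030279) (nat_lit 76) (nat_lit 709030279) (nat_lit 135) (nat_lit 1) (nat_lit 133) (nat_lit 1) (nat_lit 134) (nat_lit 1) (nat_lit 426) (nat_lit 351) (nat_lit 243))) (XT.nd (nat_lit 78) (nat_lit 0) (nat_lit 0) (XT.lf (nat_lit 228) (nat_lit 1212178623) (nat_lit 0) (nat_lit 165559359) (nat_lit 152) (nat_lit 165559359) (nat_lit 133) (nat_lit 1) (nat_lit 130) (nat_lit 1) (nat_lit 132) (nat_lit 1) (nat_lit 427) (nat_lit 351) (nat_lit 242)) (XT.lf (nat_lit 76) (nat_lit 364504943) (nat_lit 0) (nat_lit 798530189) (nat_lit 228) (nat_lit 364504943) (nat_lit 131) (nat_lit 1) (nat_lit 130) (nat_lit 1) (nat_lit 133) (nat_lit 1) (nat_lit 428) (nat_lit 351) (nat_lit 241)))) (XT.nd (nat_lit 156) (nat_lit 304) (nat_lit 0) (XT.nd (nat_lit 78) (nat_lit 228) (nat_lit 0) (XT.lf (nat_lit 152) (nat_lit 252085299) (nat_lit 0) (nat_lit 629964219) (nat_lit 76) (nat_lit 629964219) (nat_lit 131) (nat_lit 1) (nat_lit 129) (nat_lit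 1) (nat_lit 130) (nat_lit 1) (nat_lit 429) (nat_lit 351) (nat_lit 240)) (XT.lf (nat_lit 228) (nat_lit 1285391618) (nat_lit 0) (nat_lit 105675792) (nat_lit 152) (nat_lit 105675792) (nat_lit 129) (nat_lit 1) (nat_lit 126) (nat_lit 1) (nat_lit 128) (nat_lit 1) (nat_lit 430) (nat_lit 351) (nat_lit 239))) (XT.nd (nat_lit 78) (nat_lit 304) (nat_lit 0) (XT.lf (nat_lit 76) (nat_lit 406302860) (nat_lit 0) (nat_lit 668870460) (nat_lit 228) (nat_lit 406302860) (nat_lit 127) (nat_lit 1) (nat_lit 126) (nat_lit 1) (nat_lit 129) (nat_lit 1) (nat_lit 431) (nat_lit 351) (nat_lit 238)) (XT.nd (nat_lit 78) (nat_lit 228) (nat_lit 0) (XT.lf (nat_lit 152) (nat_lit 347032733) (nat_lit 0) (nat_lit 559715050) (nat_lit 76) (nat_lit 559715050) (nat_lit 127) (nat_lit 1) (nat_lit 125) (nat_lit 1) (nat_lit 126) (nat_lit 1) (nat_lit 432) (nat_lit 351) (nat_lit 237)) (XT.lf (nat_lit 228) (nat_lit 1344370903) (nat_lit 0) (nat_lit 53676471)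 (nat_lit 152) (nat_lit 53676471) (nat_lit 125) (nat_lit 1) (nat_lit 122) (nat_lit 1) (nat_lit 124) (nat_lit 1) (nat_lit 433) (nat_lit 351) (nat_lit 236)))))) (XT.nd (nat_lit 44070) (nat_lit 0) (nat_lit 19532) (XT.nd (nat_lit 156) (nat_lit 228) (nat_lit 0) (XT.nd (nat_lit 78) (nat_lit 76) (nat_lit 0) (XT.lf (nat_lit 76) (nat_lit 441038459) (nat_lit 0) (nat_lit 554852380) (nat_lit 228) (nat_lit 441038459) (nat_lit 123) (nat_lit 1) (nat_lit 122) (nat_lit 1) (nat_lit 125) (nat_lit 1) (nat_lit 434) (nat_lit 351) (nat_lit 235)) (XT.lf (nat_lit 152) (nat_lit 427808079) (nat_lit 0) (nat_lit 497299572) (nat_lit 76) (nat_lit 497299572) (nat_lit 123) (nat_lit 1) (nat_lit 121) (nat_lit 1) (nat_lit 122) (nat_lit 1) (nat_lit 435) (nat_lit 351) (nat_lit 234))) (XT.nd (nat_lit 43758) (nat_lit 0) (nat_lit 19456) (XT.lf (nat_lit 228) (nat_lit 1390880502) (nat_lit 0) (nat_lit 8647062) (nat_lit 152) (nat_lit 8647062) (nat_lit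 121) (nat_lit 1) (nat_lit 118) (nat_lit 1) (nat_lit 120) (nat_lit 1) (nat_lit 436) (nat_lit 351) (nat_lit 233)) (XT.nd (nat_lit 78) (nat_lit 0) (nat_lit 0) (XT.lf (nat_lit 1292) (nat_lit 531754744) (nat_lit 0) (nat_lit 1829483625) (nat_lit 1292) (nat_lit 531754744) (nat_lit 391) (nat_lit 1) (nat_lit 374) (nat_lit 0) (nat_lit 391) (nat_lit 0) (nat_lit 316) (nat_lit 352) (nat_lit 352)) (XT.lf (nat_lit 1292) (nat_lit 2078106860) (nat_lit 76) (nat_lit 1811547511) (nat_lit 0) (nat_lit 1811547511) (nat_lit 391) (nat_lit 1) (nat_lit 375) (nat_lit 1) (nat_lit 374) (nat_lit 0) (nat_lit 317) (nat_lit 352) (nat_lit 351))))) (XT.nd (nat_lit 156) (nat_lit 0) (nat_lit 76) (XT.nd (nat_lit 78) (nat_lit 0) (nat_lit 0) (XT.lf (nat_lit 1292) (nat_lit 1005022025) (nat_lit 0) (nat_lit 3608243650) (nat_lit 1216) (nat_lit 1005022025) (nat_lit 392) (nat_lit 1) (nat_lit 375) (nat_lit 1) (nat_lit 391) (nat_lit 1) (nat_lit 318)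 (nat_lit 352) (nat_lit 350)) (XT.lf (nat_lit 1292) (nat_lit 1908588716) (nat_lit 76) (nat_lit 1814084721) (nat_lit 0) (nat_lit 1814084721) (nat_lit 392) (nat_lit 1) (nat_lit 376) (nat_lit 1) (nat_lit 375) (nat_lit 1) (nat_lit 319) (nat_lit 352) (nat_lit 349))) (XT.nd (nat_lit 78) (nat_lit 0) (nat_lit 0) (XT.lf (nat_lit 1292) (nat_lit 895595736) (nat_lit 0) (nat_lit 3665861395) (nat_lit 1216) (nat_lit 895595736) (nat_lit 393) (nat_lit 1) (nat_lit 376) (nat_lit 1) (nat_lit 392) (nat_lit 1) (nat_lit 320) (nat_lit 352) (nat_lit 348)) (XT.nd (nat_lit 78) (nat_lit 0) (nat_lit 76) (XT.lf (nat_lit 1292) (nat_lit 1641273749) (nat_lit 76) (nat_lit 1868674275) (nat_lit 0) (nat_lit 1868674275) (nat_lit 393) (nat_lit 1) (nat_lit 377) (nat_lit 1) (nat_lit 376) (nat_lit 1) (nat_lit 321) (nat_lit 352) (nat_lit 347)) (XT.lf (nat_lit 1292) (nat_lit 739736163) (nat_lit 0) (nat_lit 3822530482) (nat_lit 1216) (nat_lit 739736163)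 (nat_lit 394) (nat_lit 1) (nat_lit 377) (nat_lit 1) (nat_lit 393) (nat_lit 1) (nat_lit 322) (nat_lit 352) (nat_lit 346))))))) (XT.nd (nat_lit 702) (nat_lit 3116) (nat_lit 0) (XT.nd (nat_lit 312) (nat_lit 1064) (nat_lit 0) (XT.nd (nat_lit 156) (nat_lit 0) (nat_lit 76) (XT.nd (nat_lit 78) (nat_lit 0) (nat_lit 76) (XT.lf (nat_lit 1292) (nat_lit 1284907777) (nat_lit 76) (nat_lit 1970807824) (nat_lit 0) (nat_lit 1970807824) (nat_lit 394) (nat_lit 1) (nat_lit 378) (nat_lit 1) (nat_lit 377) (nat_lit 1) (nat_lit 323) (nat_lit 352) (nat_lit 345)) (XT.lf (nat_lit 1292) (nat_lit 541644148) (nat_lit 0) (nat_lit 4069583634) (nat_lit 1216) (nat_lit 541644148) (nat_lit 395) (nat_lit 1) (nat_lit 378) (nat_lit 1) (nat_lit 394) (nat_lit 1) (nat_lit 324) (nat_lit 352) (nat_lit 344))) (XT.nd (nat_lit 78) (nat_lit 0) (nat_lit 76) (XT.lf (nat_lit 1292) (nat_lit 847643350) (nat_lit 76) (nat_lit 2116280101) (nat_lit 0) (nat_lit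 2116280101) (nat_lit 395) (nat_lit 1) (nat_lit 379) (nat_lit 1) (nat_lit 378) (nat_lit 1) (nat_lit 325) (nat_lit 352) (nat_lit 343)) (XT.lf (nat_lit 1292) (nat_lit 305234670) (nat_lit 0) (nat_lit 4398937946) (nat_lit 1216) (nat_lit 305234670) (nat_lit 396) (nat_lit 1) (nat_lit 379) (nat_lit 1) (nat_lit 395) (nat_lit 1) (nat_lit 326) (nat_lit 352) (nat_lit 342)))) (XT.nd (nat_lit 156) (nat_lit 1216) (nat_lit 0) (XT.nd (nat_lit 78) (nat_lit 0) (nat_lit 76) (XT.lf (nat_lit 1292) (nat_lit 337076468) (nat_lit 76) (nat_lit 2301170228) (nat_lit 0) (nat_lit 2301170228) (nat_lit 396) (nat_lit 1) (nat_lit 380) (nat_lit 1) (nat_lit 379) (nat_lit 1) (nat_lit 327) (nat_lit 352) (nat_lit 341)) (XT.lf (nat_lit 1292) (nat_lit 34154552) (nat_lit 0) (nat_lit 4803058808) (nat_lit 1216) (nat_lit 34154552) (nat_lit 397) (nat_lit 1) (nat_lit 380) (nat_lit 1) (nat_lit 396) (nat_lit 1) (nat_lit 328) (nat_lit 352) (nat_lit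 340))) (XT.nd (nat_lit 78) (nat_lit 0) (nat_lit 0) (XT.lf (nat_lit 1368) (nat_lit 2284409573) (nat_lit 0) (nat_lit 235041115) (nat_lit 1292) (nat_lit 2284409573) (nat_lit 381) (nat_lit 1) (nat_lit 363) (nat_lit 1) (nat_lit 380) (nat_lit 1) (nat_lit 329) (nat_lit 352) (nat_lit 339)) (XT.nd (nat_lit 78) (nat_lit 0) (nat_lit 76) (XT.lf (nat_lit 1368) (nat_lit 4207070385) (nat_lit 76) (nat_lit 265571454) (nat_lit 0) (nat_lit 265571454) (nat_lit 381) (nat_lit 1) (nat_lit 364) (nat_lit 1) (nat_lit 363) (nat_lit 1) (nat_lit 330) (nat_lit 352) (nat_lit 338)) (XT.lf (nat_lit 1368) (nat_lit 1907101916) (nat_lit 0) (nat_lit 859061313) (nat_lit 1292) (nat_lit 1907101916) (nat_lit 382) (nat_lit 1) (nat_lit 364) (nat_lit 1) (nat_lit 381) (nat_lit 1) (nat_lit 331) (nat_lit 352) (nat_lit 337)))))) (XT.nd (nat_lit 390) (nat_lit 1824) (nat_lit 0) (XT.nd (nat_lit 156) (nat_lit 1368) (nat_lit 0) (XT.nd (nat_lit 78) (nat_lit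 0) (nat_lit 76) (XT.lf (nat_lit 1368) (nat_lit 3424357825) (nat_lit 76) (nat_lit 592802780) (nat_lit 0) (nat_lit 592802780) (nat_lit 382) (nat_lit 1) (nat_lit 365) (nat_lit 1) (nat_lit 364) (nat_lit 1) (nat_lit 332) (nat_lit 352) (nat_lit 336)) (XT.lf (nat_lit 76) (nat_lit 1505981011) (nat_lit 0) (nat_lit 1535555832) (nat_lit 1292) (nat_lit 1505981011) (nat_lit 366) (nat_lit 1) (nat_lit 365) (nat_lit 1) (nat_lit 382) (nat_lit 1) (nat_lit 333) (nat_lit 352) (nat_lit 335))) (XT.nd (nat_lit 78) (nat_lit 608) (nat_lit 0) (XT.lf (nat_lit 912) (nat_lit 2596523280) (nat_lit 0) (nat_lit 944964683) (nat_lit 836) (nat_lit 944964683) (nat_lit 366) (nat_lit 1) (nat_lit 354) (nat_lit 1) (nat_lit 365) (nat_lit 1) (nat_lit 334) (nat_lit 352) (nat_lit 334)) (XT.nd (nat_lit 78) (nat_lit 608) (nat_lit 0) (XT.lf (nat_lit 76) (nat_lit 1083738271) (nat_lit 0) (nat_lit 2258940711) (nat_lit 912) (nat_lit 1083738271) (nat_lit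 355) (nat_lit 1) (nat_lit 354) (nat_lit 1) (nat_lit 366) (nat_lit 1) (nat_lit 335) (nat_lit 352) (nat_lit 333)) (XT.lf (nat_lit 684) (nat_lit 1728779836) (nat_lit 0) (nat_lit 1319352794) (nat_lit 608) (nat_lit 1319352794) (nat_lit 355) (nat_lit 1) (nat_lit 346) (nat_lit 1) (nat_lit 354) (nat_lit 1) (nat_lit 336) (nat_lit 352) (nat_lit 332))))) (XT.nd (nat_lit 156) (nat_lit 1216) (nat_lit 0) (XT.nd (nat_lit 78) (nat_lit 608) (nat_lit 0) (XT.lf (nat_lit 76) (nat_lit 642872035) (nat_lit 0) (nat_lit 3024027441) (nat_lit 684) (nat_lit 642872035) (nat_lit 347) (nat_lit 1) (nat_lit 346) (nat_lit 1) (nat_lit 355) (nat_lit 1) (nat_lit 337) (nat_lit 352) (nat_lit 331)) (XT.lf (nat_lit 684) (nat_lit 825964931) (nat_lit 0) (nat_lit 1713455070) (nat_lit 608) (nat_lit 1713455070) (nat_lit 347) (nat_lit 1) (nat_lit 338) (nat_lit 1) (nat_lit 346) (nat_lit 1) (nat_lit 338) (nat_lit 352) (nat_lit 330))) (XT.nd (nat_lit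 78) (nat_lit 1216) (nat_lit 0) (XT.lf (nat_lit 76) (nat_lit 185699773) (nat_lit 0) (nat_lit 3825998073) (nat_lit 684) (nat_lit 185699773) (nat_lit 339) (nat_lit 1) (nat_lit 338) (nat_lit 1) (nat_lit 347) (nat_lit 1) (nat_lit 339) (nat_lit 352) (nat_lit 329)) (XT.nd (nat_lit 78) (nat_lit 608) (nat_lit 0) (XT.lf (nat_lit 76) (nat_lit 2018536562) (nat_lit 0) (nat_lit 105339392) (nat_lit 608) (nat_lit 2018536562) (nat_lit 331) (nat_lit 1) (nat_lit 330) (nat_lit 1) (nat_lit 338) (nat_lit 1) (nat_lit 340) (nat_lit 352) (nat_lit 328)) (XT.lf (nat_lit 684) (nat_lit 3523129550) (nat_lit 0) (nat_lit 282830136) (nat_lit 608) (nat_lit 282830136) (nat_lit 331) (nat_lit 1) (nat_lit 322) (nat_lit 1) (nat_lit 330) (nat_lit 1) (nat_lit 341) (nat_lit 352) (nat_lit 327))))))))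
noncomputable def ec94 : XT := (XT.nd (nat_lit 1482) (nat_lit 3648) (nat_lit 0) (XT.nd (nat_lit 702) (nat_lit 2584) (nat_lit 0) (XT.nd (nat_lit 312) (nat_lit 1520) (nat_lit 0) (XT.nd (nat_lit 156) (nat_lit 532) (nat_lit 0) (XT.nd (nat_lit 78) (nat_lit 532) (nat_lit 0) (XT.lf (nat_lit 76) (nat_lit 1494636367) (nat_lit 0) (nat_lit 1046440226) (nat_lit 684) (nat_lit 1494636367) (nat_lit 323) (nat_lit 1) (nat_lit 322) (nat_lit 1) (nat_lit 331) (nat_lit 1) (nat_lit 342) (nat_lit 352) (nat_lit 326)) (XT.lf (nat_lit 608) (nat_lit 2460705930) (nat_lit 0) (nat_lit 761588642) (nat_lit 532) (nat_lit 761588642) (nat_lit 323) (nat_lit 1) (nat_lit 315) (nat_lit 1) (nat_lit 322) (nat_lit 1) (nat_lit 343) (nat_lit 352) (nat_lit 325))) (XT.nd (nat_lit 78) (nat_lit 532) (nat_lit 0) (XT.lf (nat_lit 76) (nat_lit 961585424) (nat_lit 0) (nat_lit 2009682610) (nat_lit 608) (nat_lit 961585424) (nat_lit 316) (nat_lit 1) (nat_lit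 315) (nat_lit 1) (nat_lit 323) (nat_lit 1) (nat_lit 344) (nat_lit 352) (nat_lit 324)) (XT.lf (nat_lit 608) (nat_lit 1381589359) (nat_lit 0) (nat_lit 1250573390) (nat_lit 532) (nat_lit 1250573390) (nat_lit 316) (nat_lit 1) (nat_lit 308) (nat_lit 1) (nat_lit 315) (nat_lit 1) (nat_lit 345) (nat_lit 352) (nat_lit 323)))) (XT.nd (nat_lit 156) (nat_lit 1064) (nat_lit 0) (XT.nd (nat_lit 78) (nat_lit 456) (nat_lit 0) (XT.lf (nat_lit 76) (nat_lit 421051492) (nat_lit 0) (nat_lit 2991577142) (nat_lit 608) (nat_lit 421051492) (nat_lit 309) (nat_lit 1) (nat_lit 308) (nat_lit 1) (nat_lit 316) (nat_lit 1) (nat_lit 346) (nat_lit 352) (nat_lit 322)) (XT.lf (nat_lit 532) (nat_lit 289000618) (nat_lit 0) (nat_lit 1748099032) (nat_lit 456) (nat_lit 1748099032) (nat_lit 309) (nat_lit 1) (nat_lit 302) (nat_lit 1) (nat_lit 308) (nat_lit 1) (nat_lit 347) (nat_lit 352) (nat_lit 321))) (XT.nd (nat_lit 78) (nat_lit 456) (nat_lit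 0) (XT.lf (nat_lit 608) (nat_lit 3489506549) (nat_lit 0) (nat_lit 124197007) (nat_lit 532) (nat_lit 124197007) (nat_lit 302) (nat_lit 1) (nat_lit 294) (nat_lit 1) (nat_lit 301) (nat_lit 1) (nat_lit 348) (nat_lit 352) (nat_lit 320)) (XT.nd (nat_lit 78) (nat_lit 456) (nat_lit 0) (XT.lf (nat_lit 76) (nat_lit 1446344193) (nat_lit 0) (nat_lit 798204463) (nat_lit 608) (nat_lit 1446344193) (nat_lit 295) (nat_lit 1) (nat_lit 294) (nat_lit 1) (nat_lit 302) (nat_lit 1) (nat_lit 349) (nat_lit 352) (nat_lit 319)) (XT.lf (nat_lit 532) (nat_lit 2305427744) (nat_lit 0) (nat_lit 669799310) (nat_lit 456) (nat_lit 669799310) (nat_lit 295) (nat_lit 1) (nat_lit 288) (nat_lit 1) (nat_lit 294) (nat_lit 1) (nat_lit 350) (nat_lit 352) (nat_lit 318)))))) (XT.nd (nat_lit 390) (nat_lit 1216) (nat_lit 0) (XT.nd (nat_lit 156) (nat_lit 912) (nat_lit 0) (XT.nd (nat_lit 78) (nat_lit 456) (nat_lit 0) (XT.lf (nat_lit 76) (nat_lit 856222881)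 (nat_lit 0) (nat_lit 1887385198) (nat_lit 532) (nat_lit 856222881) (nat_lit 289) (nat_lit 1) (nat_lit 288) (nat_lit 1) (nat_lit 295) (nat_lit 1) (nat_lit 351) (nat_lit 352) (nat_lit 317)) (XT.lf (nat_lit 532) (nat_lit 1118231325) (nat_lit 0) (nat_lit 1218590828) (nat_lit 456) (nat_lit 1218590828) (nat_lit 289) (nat_lit 1) (nat_lit 282) (nat_lit 1) (nat_lit 288) (nat_lit 1) (nat_lit 352) (nat_lit 352) (nat_lit 316))) (XT.nd (nat_lit 78) (nat_lit 912) (nat_lit 0) (XT.lf (nat_lit 76) (nat_lit 265126253) (nat_lit 0) (nat_lit 2981713752) (nat_lit 532) (nat_lit 265126253) (nat_lit 283) (nat_lit 1) (nat_lit 282) (nat_lit 1) (nat_lit 289) (nat_lit 1) (nat_lit 353) (nat_lit 352) (nat_lit 315)) (XT.nd (nat_lit 78) (nat_lit 456) (nat_lit 0) (XT.lf (nat_lit 76) (nat_lit 1700221448) (nat_lit 0) (nat_lit 68470505) (nat_lit 456) (nat_lit 1700221448) (nat_lit 277) (nat_lit 1) (nat_lit 276) (nat_lit 1) (nat_lit 282)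 (nat_lit 1) (nat_lit 354) (nat_lit 352) (nat_lit 314)) (XT.lf (nat_lit 532) (nat_lit 2781436971) (nat_lit 0) (nat_lit 322679785) (nat_lit 456) (nat_lit 322679785) (nat_lit 277) (nat_lit 1) (nat_lit 270) (nat_lit 1) (nat_lit 276) (nat_lit 1) (nat_lit 355) (nat_lit 352) (nat_lit 313))))) (XT.nd (nat_lit 156) (nat_lit 836) (nat_lit 0) (XT.nd (nat_lit 78) (nat_lit 380) (nat_lit 0) (XT.lf (nat_lit 76) (nat_lit 1076460682) (nat_lit 0) (nat_lit 1232182917) (nat_lit 532) (nat_lit 1076460682) (nat_lit 271) (nat_lit 1) (nat_lit 270) (nat_lit 1) (nat_lit 277) (nat_lit 1) (nat_lit 356) (nat_lit 352) (nat_lit 312)) (XT.lf (nat_lit 456) (nat_lit 1530631814) (nat_lit 0) (nat_lit 906821346) (nat_lit 380) (nat_lit 906821346) (nat_lit 271) (nat_lit 1) (nat_lit 265) (nat_lit 1) (nat_lit 270) (nat_lit 1) (nat_lit 357) (nat_lit 352) (nat_lit 311))) (XT.nd (nat_lit 78) (nat_lit 836) (nat_lit 0) (XT.lf (nat_lit 76) (nat_lit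 455656215) (nat_lit 0) (nat_lit 2392880118) (nat_lit 456) (nat_lit 455656215) (nat_lit 266) (nat_lit 1) (nat_lit 265) (nat_lit 1) (nat_lit 271) (nat_lit 1) (nat_lit 358) (nat_lit 352) (nat_lit 310)) (XT.nd (nat_lit 78) (nat_lit 456) (nat_lit 0) (XT.lf (nat_lit 456) (nat_lit 286571867) (nat_lit 0) (nat_lit 1489011434) (nat_lit 380) (nat_lit 1489011434) (nat_lit 266) (nat_lit 1) (nat_lit 260) (nat_lit 1) (nat_lit 265) (nat_lit 1) (nat_lit 359) (nat_lit 352) (nat_lit 309)) (XT.lf (nat_lit 456) (nat_lit 2906235582) (nat_lit 0) (nat_lit 159822456) (nat_lit 380) (nat_lit 159822456) (nat_lit 260) (nat_lit 1) (nat_lit 254) (nat_lit 1) (nat_lit 259) (nat_lit 1) (nat_lit 360) (nat_lit 352) (nat_lit 308))))))) (XT.nd (nat_lit 702) (nat_lit 1900) (nat_lit 0) (XT.nd (nat_lit 312) (nat_lit 1064) (nat_lit 0) (XT.nd (nat_lit 156) (nat_lit 304) (nat_lit 0) (XT.nd (nat_lit 78) (nat_lit 380) (nat_lit 0) (XT.lf (nat_lit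 76) (nat_lit 1128331644) (nat_lit 0) (nat_lit 930712234) (nat_lit 456) (nat_lit 1128331644) (nat_lit 255) (nat_lit 1) (nat_lit 254) (nat_lit 1) (nat_lit 260) (nat_lit 1) (nat_lit 361) (nat_lit 352) (nat_lit 307)) (XT.lf (nat_lit 456) (nat_lit 1616885946) (nat_lit 0) (nat_lit 766420171) (nat_lit 380) (nat_lit 766420171) (nat_lit 255) (nat_lit 1) (nat_lit 249) (nat_lit 1) (nat_lit 254) (nat_lit 1) (nat_lit 362) (nat_lit 352) (nat_lit 306))) (XT.nd (nat_lit 78) (nat_lit 304) (nat_lit 0) (XT.lf (nat_lit 76) (nat_lit 489867062) (nat_lit 0) (nat_lit 2132973234) (nat_lit 456) (nat_lit 489867062) (nat_lit 250) (nat_lit 1) (nat_lit 249) (nat_lit 1) (nat_lit 255) (nat_lit 1) (nat_lit 363) (nat_lit 352) (nat_lit 305)) (XT.lf (nat_lit 380) (nat_lit 340228619) (nat_lit 0) (nat_lit 1367964479) (nat_lit 304) (nat_lit 1367964479) (nat_lit 250) (nat_lit 1) (nat_lit 245) (nat_lit 1) (nat_lit 249) (nat_lit 1) (nat_lit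 364) (nat_lit 352) (nat_lit 304)))) (XT.nd (nat_lit 156) (nat_lit 608) (nat_lit 0) (XT.nd (nat_lit 78) (nat_lit 0) (nat_lit 0) (XT.lf (nat_lit 456) (nat_lit 2759174991) (nat_lit 0) (nat_lit 140617305) (nat_lit 380) (nat_lit 140617305) (nat_lit 245) (nat_lit 1) (nat_lit 239) (nat_lit 1) (nat_lit 244) (nat_lit 1) (nat_lit 365) (nat_lit 352) (nat_lit 303)) (XT.lf (nat_lit 76) (nat_lit 1050068876) (nat_lit 0) (nat_lit 904674132) (nat_lit 456) (nat_lit 1050068876) (nat_lit 240) (nat_lit 1) (nat_lit 239) (nat_lit 1) (nat_lit 245) (nat_lit 1) (nat_lit 366) (nat_lit 352) (nat_lit 302))) (XT.nd (nat_lit 78) (nat_lit 304) (nat_lit 0) (XT.lf (nat_lit 380) (nat_lit 1451426419) (nat_lit 0) (nat_lit 759283122) (nat_lit 304) (nat_lit 759283122) (nat_lit 240) (nat_lit 1) (nat_lit 235) (nat_lit 1) (nat_lit 239) (nat_lit 1) (nat_lit 367) (nat_lit 352) (nat_lit 301)) (XT.nd (nat_lit 78) (nat_lit 304) (nat_lit 0) (XT.lf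 (nat_lit 76) (nat_lit 403619516) (nat_lit 0) (nat_lit 2128530005) (nat_lit 380) (nat_lit 403619516) (nat_lit 236) (nat_lit 1) (nat_lit 235) (nat_lit 1) (nat_lit 240) (nat_lit 1) (nat_lit 368) (nat_lit 352) (nat_lit 300)) (XT.lf (nat_lit 380) (nat_lit 160946444) (nat_lit 0) (nat_lit 1370493983) (nat_lit 304) (nat_lit 1370493983) (nat_lit 236) (nat_lit 1) (nat_lit 231) (nat_lit 1) (nat_lit 235) (nat_lit 1) (nat_lit 369) (nat_lit 352) (nat_lit 299)))))) (XT.nd (nat_lit 390) (nat_lit 912) (nat_lit 0) (XT.nd (nat_lit 156) (nat_lit 608) (nat_lit 0) (XT.nd (nat_lit 78) (nat_lit 0) (nat_lit 0) (XT.lf (nat_lit 380) (nat_lit 2405241243) (nat_lit 0) (nat_lit 231763124) (nat_lit 304) (nat_lit 231763124) (nat_lit 231) (nat_lit 1) (nat_lit 226) (nat_lit 1) (nat_lit 230) (nat_lit 1) (nat_lit 370) (nat_lit 352) (nat_lit 298)) (XT.lf (nat_lit 76) (nat_lit 872973011) (nat_lit 0) (nat_lit 1089881897) (nat_lit 380) (nat_lit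 872973011) (nat_lit 227) (nat_lit 1) (nat_lit 226) (nat_lit 1) (nat_lit 231) (nat_lit 1) (nat_lit 371) (nat_lit 352) (nat_lit 297))) (XT.nd (nat_lit 78) (nat_lit 304) (nat_lit 0) (XT.lf (nat_lit 380) (nat_lit 1095168457) (nat_lit 0) (nat_lit 854184038) (nat_lit 304) (nat_lit 854184038) (nat_lit 227) (nat_lit 1) (nat_lit 222) (nat_lit 1) (nat_lit 226) (nat_lit 1) (nat_lit 372) (nat_lit 352) (nat_lit 296)) (XT.nd (nat_lit 78) (nat_lit 304) (nat_lit 0) (XT.lf (nat_lit 76) (nat_lit 226251163) (nat_lit 0) (nat_lit 2319367526) (nat_lit 380) (nat_lit 226251163) (nat_lit 223) (nat_lit 1) (nat_lit 222) (nat_lit 1) (nat_lit 227) (nat_lit 1) (nat_lit 373) (nat_lit 352) (nat_lit 295)) (XT.lf (nat_lit 76) (nat_lit 1275006085) (nat_lit 0) (nat_lit 190395034) (nat_lit 304) (nat_lit 1275006085) (nat_lit 219) (nat_lit 1) (nat_lit 218) (nat_lit 1) (nat_lit 222) (nat_lit 1) (nat_lit 374) (nat_lit 352) (nat_lit 294)))))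 (XT.nd (nat_lit 156) (nat_lit 608) (nat_lit 0) (XT.nd (nat_lit 78) (nat_lit 0) (nat_lit 0) (XT.lf (nat_lit 380) (nat_lit 1897479520) (nat_lit 0) (nat_lit 406036198) (nat_lit 304) (nat_lit 406036198) (nat_lit 219) (nat_lit 1) (nat_lit 214) (nat_lit 1) (nat_lit 218) (nat_lit 1) (nat_lit 375) (nat_lit 352) (nat_lit 293)) (XT.lf (nat_lit 76) (nat_lit 622582874) (nat_lit 0) (nat_lit 1433882384) (nat_lit 380) (nat_lit 622582874) (nat_lit 215) (nat_lit 1) (nat_lit 214) (nat_lit 1) (nat_lit 219) (nat_lit 1) (nat_lit 376) (nat_lit 352) (nat_lit 292))) (XT.nd (nat_lit 78) (nat_lit 380) (nat_lit 0) (XT.lf (nat_lit 304) (nat_lit 597793737) (nat_lit 0) (nat_lit 1025614813) (nat_lit 228) (nat_lit 1025614813) (nat_lit 215) (nat_lit 1) (nat_lit 211) (nat_lit 1) (nat_lit 214) (nat_lit 1) (nat_lit 377) (nat_lit 352) (nat_lit 291)) (XT.nd (nat_lit 78) (nat_lit 0) (nat_lit 0) (XT.lf (nat_lit 380) (nat_lit 2583397172) (nat_lit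 0) (nat_lit 18141148) (nat_lit 304) (nat_lit 18141148) (nat_lit 211) (nat_lit 1) (nat_lit 206) (nat_lit 1) (nat_lit 210) (nat_lit 1) (nat_lit 378) (nat_lit 352) (nat_lit 290)) (XT.lf (nat_lit 76) (nat_lit 962439971) (nat_lit 0) (nat_lit 665397944) (nat_lit 380) (nat_lit 962439971) (nat_lit 207) (nat_lit 1) (nat_lit 206) (nat_lit 1) (nat_lit 211) (nat_lit 1) (nat_lit 379) (nat_lit 352) (nat_lit 289))))))))
noncomputable def ec95 : XT := (XT.nd (nat_lit 1482) (nat_lit 2052) (nat_lit 0) (XT.nd (nat_lit 702) (nat_lit 1292) (nat_lit 0) (XT.nd (nat_lit 312) (nat_lit 760) (nat_lit 0) (XT.nd (nat_lit 156) (nat_lit 532) (nat_lit 0) (XT.nd (nat_lit 78) (nat_lit 0) (nat_lit 0) (XT.lf (nat_lit 304) (nat_lit 1279019318) (nat_lit 0) (nat_lit 641261669) (nat_lit 228) (nat_lit 641261669) (nat_lit 207) (nat_lit 1) (nat_lit 203) (nat_lit 1) (nat_lit 206) (nat_lit 1) (nat_lit 380) (nat_lit 352) (nat_lit 288)) (XT.lf (nat_lit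 76) (nat_lit 319653305) (nat_lit 0) (nat_lit 1893968923) (nat_lit 304) (nat_lit 319653305) (nat_lit 204) (nat_lit 1) (nat_lit 203) (nat_lit 1) (nat_lit 207) (nat_lit 1) (nat_lit 381) (nat_lit 352) (nat_lit 287))) (XT.nd (nat_lit 78) (nat_lit 228) (nat_lit 0) (XT.lf (nat_lit 76) (nat_lit 1252477732) (nat_lit 0) (nat_lit 335336) (nat_lit 304) (nat_lit 1252477732) (nat_lit 200) (nat_lit 1) (nat_lit 199) (nat_lit 1) (nat_lit 203) (nat_lit 1) (nat_lit 382) (nat_lit 352) (nat_lit 286)) (XT.lf (nat_lit 304) (nat_lit 1862496298) (nat_lit 0) (nat_lit 307632485) (nat_lit 228) (nat_lit 307632485) (nat_lit 200) (nat_lit 1) (nat_lit 196) (nat_lit 1) (nat_lit 199) (nat_lit 1) (nat_lit 383) (nat_lit 352) (nat_lit 285)))) (XT.nd (nat_lit 156) (nat_lit 532) (nat_lit 0) (XT.nd (nat_lit 78) (nat_lit 228) (nat_lit 0) (XT.lf (nat_lit 76) (nat_lit 610154489) (nat_lit 0) (nat_lit 1230187487) (nat_lit 304) (nat_lit 610154489)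 (nat_lit 197) (nat_lit 1) (nat_lit 196) (nat_lit 1) (nat_lit 200) (nat_lit 1) (nat_lit 384) (nat_lit 352) (nat_lit 284)) (XT.lf (nat_lit 304) (nat_lit 584765480) (nat_lit 0) (nat_lit 919454509) (nat_lit 228) (nat_lit 919454509) (nat_lit 197) (nat_lit 1) (nat_lit 193) (nat_lit 1) (nat_lit 196) (nat_lit 1) (nat_lit 385) (nat_lit 352) (nat_lit 283))) (XT.nd (nat_lit 78) (nat_lit 228) (nat_lit 0) (XT.lf (nat_lit 304) (nat_lit 2359759371) (nat_lit 0) (nat_lit 18841845) (nat_lit 228) (nat_lit 18841845) (nat_lit 193) (nat_lit 1) (nat_lit 189) (nat_lit 1) (nat_lit 192) (nat_lit 1) (nat_lit 386) (nat_lit 352) (nat_lit 282)) (XT.nd (nat_lit 78) (nat_lit 228) (nat_lit 0) (XT.lf (nat_lit 76) (nat_lit 858761610) (nat_lit 0) (nat_lit 653608202) (nat_lit 304) (nat_lit 858761610) (nat_lit 190) (nat_lit 1) (nat_lit 189) (nat_lit 1) (nat_lit 193) (nat_lit 1) (nat_lit 387) (nat_lit 352) (nat_lit 281)) (XT.lf (nat_lit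 304) (nat_lit 1087585053) (nat_lit 0) (nat_lit 628907224) (nat_lit 228) (nat_lit 628907224) (nat_lit 190) (nat_lit 1) (nat_lit 186) (nat_lit 1) (nat_lit 189) (nat_lit 1) (nat_lit 388) (nat_lit 352) (nat_lit 280)))))) (XT.nd (nat_lit 390) (nat_lit 684) (nat_lit 0) (XT.nd (nat_lit 156) (nat_lit 380) (nat_lit 0) (XT.nd (nat_lit 78) (nat_lit 228) (nat_lit 0) (XT.lf (nat_lit 76) (nat_lit 232613215) (nat_lit 0) (nat_lit 1854876989) (nat_lit 304) (nat_lit 232613215) (nat_lit 187) (nat_lit 1) (nat_lit 186) (nat_lit 1) (nat_lit 190) (nat_lit 1) (nat_lit 389) (nat_lit 352) (nat_lit 279)) (XT.lf (nat_lit 76) (nat_lit 1070423082) (nat_lit 0) (nat_lit 154122960) (nat_lit 228) (nat_lit 1070423082) (nat_lit 184) (nat_lit 1) (nat_lit 183) (nat_lit 1) (nat_lit 186) (nat_lit 1) (nat_lit 390) (nat_lit 352) (nat_lit 278))) (XT.nd (nat_lit 78) (nat_lit 152) (nat_lit 0) (XT.lf (nat_lit 304) (nat_lit 1517789212) (nat_lit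 0) (nat_lit 376235925) (nat_lit 228) (nat_lit 376235925) (nat_lit 184) (nat_lit 1) (nat_lit 180) (nat_lit 1) (nat_lit 183) (nat_lit 1) (nat_lit 391) (nat_lit 352) (nat_lit 277)) (XT.nd (nat_lit 78) (nat_lit 152) (nat_lit 0) (XT.lf (nat_lit 76) (nat_lit 448925966) (nat_lit 0) (nat_lit 1347983022) (nat_lit 304) (nat_lit 448925966) (nat_lit 181) (nat_lit 1) (nat_lit 180) (nat_lit 1) (nat_lit 184) (nat_lit 1) (nat_lit 392) (nat_lit 352) (nat_lit 276)) (XT.lf (nat_lit 228) (nat_lit 282755561) (nat_lit 0) (nat_lit 969489905) (nat_lit 152) (nat_lit 969489905) (nat_lit 181) (nat_lit 1) (nat_lit 178) (nat_lit 1) (nat_lit 180) (nat_lit 1) (nat_lit 393) (nat_lit 352) (nat_lit 275))))) (XT.nd (nat_lit 156) (nat_lit 380) (nat_lit 0) (XT.nd (nat_lit 78) (nat_lit 0) (nat_lit 0) (XT.lf (nat_lit 304) (nat_lit 1883957395) (nat_lit 0) (nat_lit 157057447) (nat_lit 228) (nat_lit 157057447) (nat_lit 178) (nat_lit 1) (nat_lit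 174) (nat_lit 1) (nat_lit 177) (nat_lit 1) (nat_lit 394) (nat_lit 352) (nat_lit 274)) (XT.lf (nat_lit 76) (nat_lit 634061157) (nat_lit 0) (nat_lit 906353652) (nat_lit 304) (nat_lit 634061157) (nat_lit 175) (nat_lit 1) (nat_lit 174) (nat_lit 1) (nat_lit 178) (nat_lit 1) (nat_lit 395) (nat_lit 352) (nat_lit 273))) (XT.nd (nat_lit 78) (nat_lit 228) (nat_lit 0) (XT.lf (nat_lit 228) (nat_lit 661338357) (nat_lit 0) (nat_lit 744984873) (nat_lit 152) (nat_lit 744984873) (nat_lit 175) (nat_lit 1) (nat_lit 172) (nat_lit 1) (nat_lit 174) (nat_lit 1) (nat_lit 396) (nat_lit 352) (nat_lit 272)) (XT.nd (nat_lit 78) (nat_lit 228) (nat_lit 0) (XT.lf (nat_lit 76) (nat_lit 32839907) (nat_lit 0) (nat_lit 2062944503) (nat_lit 228) (nat_lit 32839907) (nat_lit 173) (nat_lit 1) (nat_lit 172) (nat_lit 1) (nat_lit 175) (nat_lit 1) (nat_lit 397) (nat_lit 352) (nat_lit 271)) (XT.lf (nat_lit 76) (nat_lit 791700999) (nat_lit 0)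 (nat_lit 522456486) (nat_lit 228) (nat_lit 791700999) (nat_lit 170) (nat_lit 1) (nat_lit 169) (nat_lit 1) (nat_lit 172) (nat_lit 1) (nat_lit 398) (nat_lit 352) (nat_lit 270))))))) (XT.nd (nat_lit 702) (nat_lit 988) (nat_lit 0) (XT.nd (nat_lit 312) (nat_lit 532) (nat_lit 0) (XT.nd (nat_lit 156) (nat_lit 380) (nat_lit 0) (XT.nd (nat_lit 78) (nat_lit 0) (nat_lit 0) (XT.lf (nat_lit 228) (nat_lit 985759209) (nat_lit 0) (nat_lit 548905187) (nat_lit 152) (nat_lit 548905187) (nat_lit 170) (nat_lit 1) (nat_lit 167) (nat_lit 1) (nat_lit 169) (nat_lit 1) (nat_lit 399) (nat_lit 352) (nat_lit 269)) (XT.lf (nat_lit 76) (nat_lit 197881749) (nat_lit 0) (nat_lit 1665882103) (nat_lit 228) (nat_lit 197881749) (nat_lit 168) (nat_lit 1) (nat_lit 167) (nat_lit 1) (nat_lit 170) (nat_lit 1) (nat_lit 400) (nat_lit 352) (nat_lit 268))) (XT.nd (nat_lit 78) (nat_lit 152) (nat_lit 0) (XT.lf (nat_lit 76) (nat_lit 925111107) (nat_lit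 0) (nat_lit 189606506) (nat_lit 228) (nat_lit 925111107) (nat_lit 165) (nat_lit 1) (nat_lit 164) (nat_lit 1) (nat_lit 167) (nat_lit 1) (nat_lit 401) (nat_lit 352) (nat_lit 267)) (XT.lf (nat_lit 228) (nat_lit 1262405789) (nat_lit 0) (nat_lit 377982311) (nat_lit 152) (nat_lit 377982311) (nat_lit 165) (nat_lit 1) (nat_lit 162) (nat_lit 1) (nat_lit 164) (nat_lit 1) (nat_lit 402) (nat_lit 352) (nat_lit 266)))) (XT.nd (nat_lit 156) (nat_lit 380) (nat_lit 0) (XT.nd (nat_lit 78) (nat_lit 152) (nat_lit 0) (XT.lf (nat_lit 76) (nat_lit 339605581) (nat_lit 0) (nat_lit 1317961886) (nat_lit 228) (nat_lit 339605581) (nat_lit 163) (nat_lit 1) (nat_lit 162) (nat_lit 1) (nat_lit 165) (nat_lit 1) (nat_lit 403) (nat_lit 352) (nat_lit 265)) (XT.lf (nat_lit 228) (nat_lit 100081594) (nat_lit 0) (nat_lit 938067574) (nat_lit 152) (nat_lit 938067574) (nat_lit 163) (nat_lit 1) (nat_lit 160) (nat_lit 1) (nat_lit 162) (nat_lit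 1) (nat_lit 404) (nat_lit 352) (nat_lit 264))) (XT.nd (nat_lit 78) (nat_lit 152) (nat_lit 0) (XT.lf (nat_lit 228) (nat_lit 1496943328) (nat_lit 0) (nat_lit 229315068) (nat_lit 152) (nat_lit 229315068) (nat_lit 160) (nat_lit 1) (nat_lit 157) (nat_lit 1) (nat_lit 159) (nat_lit 1) (nat_lit 405) (nat_lit 352) (nat_lit 263)) (XT.nd (nat_lit 78) (nat_lit 152) (nat_lit 0) (XT.lf (nat_lit 76) (nat_lit 460754782) (nat_lit 0) (nat_lit 1013562177) (nat_lit 228) (nat_lit 460754782) (nat_lit 158) (nat_lit 1) (nat_lit 157) (nat_lit 1) (nat_lit 160) (nat_lit 1) (nat_lit 406) (nat_lit 352) (nat_lit 262)) (XT.lf (nat_lit 228) (nat_lit 352899125) (nat_lit 0) (nat_lit 780989304) (nat_lit 152) (nat_lit 780989304) (nat_lit 158) (nat_lit 1) (nat_lit 155) (nat_lit 1) (nat_lit 157) (nat_lit 1) (nat_lit 407) (nat_lit 352) (nat_lit 261)))))) (XT.nd (nat_lit 390) (nat_lit 456) (nat_lit 0) (XT.nd (nat_lit 156) (nat_lit 304) (nat_lit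 0) (XT.nd (nat_lit 78) (nat_lit 0) (nat_lit 0) (XT.lf (nat_lit 228) (nat_lit 1694395472) (nat_lit 0) (nat_lit 100328595) (nat_lit 152) (nat_lit 100328595) (nat_lit 155) (nat_lit 1) (nat_lit 152) (nat_lit 1) (nat_lit 154) (nat_lit 1) (nat_lit 408) (nat_lit 352) (nat_lit 260)) (XT.lf (nat_lit 76) (nat_lit 563762639) (nat_lit 0) (nat_lit 747692314) (nat_lit 228) (nat_lit 563762639) (nat_lit 153) (nat_lit 1) (nat_lit 152) (nat_lit 1) (nat_lit 155) (nat_lit 1) (nat_lit 409) (nat_lit 352) (nat_lit 259))) (XT.nd (nat_lit 78) (nat_lit 152) (nat_lit 0) (XT.lf (nat_lit 228) (nat_lit 569835549) (nat_lit 0) (nat_lit 642955594) (nat_lit 152) (nat_lit 642955594) (nat_lit 153) (nat_lit 1) (nat_lit 150) (nat_lit 1) (nat_lit 152) (nat_lit 1) (nat_lit 410) (nat_lit 352) (nat_lit 258)) (XT.nd (nat_lit 78) (nat_lit 152) (nat_lit 0) (XT.lf (nat_lit 76) (nat_lit 11373637) (nat_lit 0) (nat_lit 1813931391) (nat_lit 228) (nat_lit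 11373637) (nat_lit 151) (nat_lit 1) (nat_lit 150) (nat_lit 1) (nat_lit 153) (nat_lit 1) (nat_lit 411) (nat_lit 352) (nat_lit 257)) (XT.lf (nat_lit 76) (nat_lit 650787048) (nat_lit 0) (nat_lit 515922168) (nat_lit 152) (nat_lit 650787048) (nat_lit 149) (nat_lit 1) (nat_lit 148) (nat_lit 1) (nat_lit 150) (nat_lit 1) (nat_lit 412) (nat_lit 352) (nat_lit 256))))) (XT.nd (nat_lit 156) (nat_lit 304) (nat_lit 0) (XT.nd (nat_lit 78) (nat_lit 0) (nat_lit 0) (XT.lf (nat_lit 228) (nat_lit 755116017) (nat_lit 0) (nat_lit 521798215) (nat_lit 152) (nat_lit 521798215) (nat_lit 149) (nat_lit 1) (nat_lit 146) (nat_lit 1) (nat_lit 148) (nat_lit 1) (nat_lit 413) (nat_lit 352) (nat_lit 255)) (XT.lf (nat_lit 76) (nat_lit 108548898) (nat_lit 0) (nat_lit 1563160178) (nat_lit 228) (nat_lit 108548898) (nat_lit 147) (nat_lit 1) (nat_lit 146) (nat_lit 1) (nat_lit 149) (nat_lit 1) (nat_lit 414) (nat_lit 352) (nat_lit 254))) (XT.nd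 (nat_lit 78) (nat_lit 152) (nat_lit 0) (XT.lf (nat_lit 76) (nat_lit 723741343) (nat_lit 0) (nat_lit 314319514) (nat_lit 152) (nat_lit 723741343) (nat_lit 145) (nat_lit 1) (nat_lit 144) (nat_lit 1) (nat_lit 146) (nat_lit 1) (nat_lit 415) (nat_lit 352) (nat_lit 253)) (XT.nd (nat_lit 78) (nat_lit 0) (nat_lit 0) (XT.lf (nat_lit 228) (nat_lit 912487997) (nat_lit 0) (nat_lit 415592022) (nat_lit 152) (nat_lit 415592022) (nat_lit 145) (nat_lit 1) (nat_lit 142) (nat_lit 1) (nat_lit 144) (nat_lit 1) (nat_lit 416) (nat_lit 352) (nat_lit 252)) (XT.lf (nat_lit 76) (nat_lit 192020570) (nat_lit 0) (nat_lit 1341765660) (nat_lit 228) (nat_lit 192020570) (nat_lit 143) (nat_lit 1) (nat_lit 142) (nat_lit 1) (nat_lit 145) (nat_lit 1) (nat_lit 417) (nat_lit 352) (nat_lit 251))))))))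
noncomputable def ec96 : XT := (XT.nd (nat_lit 1404) (nat_lit 76) (nat_lit 0) (XT.nd (nat_lit 702) (nat_lit 912) (nat_lit 0) (XT.nd (nat_lit 312) (nat_lit 532) (nat_lit 0) (XT.nd (nat_lit 156) (nat_lit 76) (nat_lit 0) (XT.nd (nat_lit 78) (nat_lit 152) (nat_lit 0) (XT.lf (nat_lit 76) (nat_lit 784321684) (nat_lit 0) (nat_lit 139394400) (nat_lit 152) (nat_lit 784321684) (nat_lit 141) (nat_lit 1) (nat_lit 140) (nat_lit 1) (nat_lit 142) (nat_lit 1) (nat_lit 418) (nat_lit 352) (nat_lit 250)) (XT.lf (nat_lit 228) (nat_lit 1045274734) (nat_lit 0) (nat_lit 322627804) (nat_lit 152) (nat_lit 322627804) (nat_lit 141) (nat_lit 1) (nat_lit 138) (nat_lit 1) (nat_lit 140) (nat_lit 1) (nat_lit 419) (nat_lit 352) (nat_lit 249))) (XT.nd (nat_lit 78) (nat_lit 76) (nat_lit 0) (XT.lf (nat_lit 76) (nat_lit 263400295) (nat_lit 0) (nat_lit 1146430817) (nat_lit 228) (nat_lit 263400295) (nat_lit 139) (nat_lit 1) (nat_lit 138)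 (nat_lit 1) (nat_lit 141) (nat_lit 1) (nat_lit 420) (nat_lit 352) (nat_lit 248)) (XT.lf (nat_lit 152) (nat_lit 12188119) (nat_lit 0) (nat_lit 821960420) (nat_lit 76) (nat_lit 821960420) (nat_lit 139) (nat_lit 1) (nat_lit 137) (nat_lit 1) (nat_lit 138) (nat_lit 1) (nat_lit 421) (nat_lit 352) (nat_lit 247)))) (XT.nd (nat_lit 156) (nat_lit 304) (nat_lit 0) (XT.nd (nat_lit 78) (nat_lit 0) (nat_lit 0) (XT.lf (nat_lit 228) (nat_lit 1156422739) (nat_lit 0) (nat_lit 241388175) (nat_lit 152) (nat_lit 241388175) (nat_lit 137) (nat_lit 1) (nat_lit 134) (nat_lit 1) (nat_lit 136) (nat_lit 1) (nat_lit 422) (nat_lit 352) (nat_lit 246)) (XT.lf (nat_lit 76) (nat_lit 324117562) (nat_lit 0) (nat_lit 974209715) (nat_lit 228) (nat_lit 324117562) (nat_lit 135) (nat_lit 1) (nat_lit 134) (nat_lit 1) (nat_lit 137) (nat_lit 1) (nat_lit 423) (nat_lit 352) (nat_lit 245))) (XT.nd (nat_lit 78) (nat_lit 228) (nat_lit 0) (XT.lf (nat_lit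 152) (nat_lit 145298014) (nat_lit 0) (nat_lit 730301187) (nat_lit 76) (nat_lit 730301187) (nat_lit 135) (nat_lit 1) (nat_lit 133) (nat_lit 1) (nat_lit 134) (nat_lit 1) (nat_lit 424) (nat_lit 352) (nat_lit 244)) (XT.nd (nat_lit 78) (nat_lit 0) (nat_lit 0) (XT.lf (nat_lit 228) (nat_lit 1248543982) (nat_lit 0) (nat_lit 170526140) (nat_lit 152) (nat_lit 170526140) (nat_lit 133) (nat_lit 1) (nat_lit 130) (nat_lit 1) (nat_lit 132) (nat_lit 1) (nat_lit 425) (nat_lit 352) (nat_lit 243)) (XT.lf (nat_lit 76) (nat_lit 375440092) (nat_lit 0) (nat_lit 822486095) (nat_lit 228) (nat_lit 375440092) (nat_lit 131) (nat_lit 1) (nat_lit 130) (nat_lit 1) (nat_lit 133) (nat_lit 1) (nat_lit 426) (nat_lit 352) (nat_lit 242)))))) (XT.nd (nat_lit 312) (nat_lit 532) (nat_lit 0) (XT.nd (nat_lit 156) (nat_lit 76) (nat_lit 0) (XT.nd (nat_lit 78) (nat_lit 228) (nat_lit 0) (XT.lf (nat_lit 152) (nat_lit 259647858) (nat_lit 0) (nat_lit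 648863146) (nat_lit 76) (nat_lit 648863146) (nat_lit 131) (nat_lit 1) (nat_lit 129) (nat_lit 1) (nat_lit 130) (nat_lit 1) (nat_lit 427) (nat_lit 352) (nat_lit 241)) (XT.lf (nat_lit 228) (nat_lit 1323953366) (nat_lit 0) (nat_lit 108846066) (nat_lit 152) (nat_lit 108846066) (nat_lit 129) (nat_lit 1) (nat_lit 126) (nat_lit 1) (nat_lit 128) (nat_lit 1) (nat_lit 428) (nat_lit 352) (nat_lit 240))) (XT.nd (nat_lit 78) (nat_lit 76) (nat_lit 0) (XT.lf (nat_lit 76) (nat_lit 418491946) (nat_lit 0) (nat_lit 688936573) (nat_lit 228) (nat_lit 418491946) (nat_lit 127) (nat_lit 1) (nat_lit 126) (nat_lit 1) (nat_lit 129) (nat_lit 1) (nat_lit 429) (nat_lit 352) (nat_lit 239)) (XT.lf (nat_lit 152) (nat_lit 357443715) (nat_lit 0) (nat_lit 576506501) (nat_lit 76) (nat_lit 576506501) (nat_lit 127) (nat_lit 1) (nat_lit 125) (nat_lit 1) (nat_lit 126) (nat_lit 1) (nat_lit 430) (nat_lit 352) (nat_lit 238)))) (XT.nd (nat_lit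 156) (nat_lit 304) (nat_lit 0) (XT.nd (nat_lit 78) (nat_lit 0) (nat_lit 0) (XT.lf (nat_lit 228) (nat_lit 1384702030) (nat_lit 0) (nat_lit 55286765) (nat_lit 152) (nat_lit 55286765) (nat_lit 125) (nat_lit 1) (nat_lit 122) (nat_lit 1) (nat_lit 124) (nat_lit 1) (nat_lit 431) (nat_lit 352) (nat_lit 237)) (XT.lf (nat_lit 76) (nat_lit 454269613) (nat_lit 0) (nat_lit 571497952) (nat_lit 228) (nat_lit 454269613) (nat_lit 123) (nat_lit 1) (nat_lit 122) (nat_lit 1) (nat_lit 125) (nat_lit 1) (nat_lit 432) (nat_lit 352) (nat_lit 236))) (XT.nd (nat_lit 78) (nat_lit 228) (nat_lit 0) (XT.lf (nat_lit 152) (nat_lit 440642321) (nat_lit 0) (nat_lit 512218559) (nat_lit 76) (nat_lit 512218559) (nat_lit 123) (nat_lit 1) (nat_lit 121) (nat_lit 1) (nat_lit 122) (nat_lit 1) (nat_lit 433) (nat_lit 352) (nat_lit 235)) (XT.nd (nat_lit 78) (nat_lit 0) (nat_lit 0) (XT.lf (nat_lit 228) (nat_lit 1432606917) (nat_lit 0) (nat_lit 8906473)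 (nat_lit 152) (nat_lit 8906473) (nat_lit 121) (nat_lit 1) (nat_lit 118) (nat_lit 1) (nat_lit 120) (nat_lit 1) (nat_lit 434) (nat_lit 352) (nat_lit 234)) (XT.lf (nat_lit 76) (nat_lit 483656297) (nat_lit 0) (nat_lit 468338168) (nat_lit 228) (nat_lit 483656297) (nat_lit 119) (nat_lit 1) (nat_lit 118) (nat_lit 1) (nat_lit 121) (nat_lit 1) (nat_lit 435) (nat_lit 352) (nat_lit 233))))))) (XT.nd (nat_lit 44226) (nat_lit 0) (nat_lit 18696) (XT.nd (nat_lit 43836) (nat_lit 0) (nat_lit 19608) (XT.nd (nat_lit 43680) (nat_lit 0) (nat_lit 19532) (XT.nd (nat_lit 43602) (nat_lit 0) (nat_lit 19532) (XT.lf (nat_lit 152) (nat_lit 510978985) (nat_lit 0) (nat_lit 455099555) (nat_lit 76) (nat_lit 455099555) (nat_lit 119) (nat_lit 1) (nat_lit 117) (nat_lit 1) (nat_lit 118) (nat_lit 1) (nat_lit 436) (nat_lit 352) (nat_lit 232)) (XT.lf (nat_lit 1292) (nat_lit 547707387) (nat_lit 0) (nat_lit 1884368133) (nat_lit 1292) (nat_lit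 547707387) (nat_lit 391) (nat_lit 1) (nat_lit 374) (nat_lit 0) (nat_lit 391) (nat_lit 0) (nat_lit 314) (nat_lit 353) (nat_lit 353))) (XT.nd (nat_lit 78) (nat_lit 0) (nat_lit 76) (XT.lf (nat_lit 1292) (nat_lit 2140450066) (nat_lit 76) (nat_lit 1865893936) (nat_lit 0) (nat_lit 1865893936) (nat_lit 391) (nat_lit 1) (nat_lit 375) (nat_lit 1) (nat_lit 374) (nat_lit 0) (nat_lit 315) (nat_lit 353) (nat_lit 352)) (XT.lf (nat_lit 1292) (nat_lit 1035172686) (nat_lit 0) (nat_lit 3716490960) (nat_lit 1216) (nat_lit 1035172686) (nat_lit 392) (nat_lit 1) (nat_lit 375) (nat_lit 1) (nat_lit 391) (nat_lit 1) (nat_lit 316) (nat_lit 353) (nat_lit 351)))) (XT.nd (nat_lit 156) (nat_lit 0) (nat_lit 76) (XT.nd (nat_lit 78) (nat_lit 0) (nat_lit 76) (XT.lf (nat_lit 1292) (nat_lit 1965846378) (nat_lit 76) (nat_lit 1868507263) (nat_lit 0) (nat_lit 1868507263) (nat_lit 392) (nat_lit 1) (nat_lit 376) (nat_lit 1) (nat_lit 375) (nat_lit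 1) (nat_lit 317) (nat_lit 353) (nat_lit 350)) (XT.lf (nat_lit 1292) (nat_lit 922463608) (nat_lit 0) (nat_lit 3775837237) (nat_lit 1216) (nat_lit 922463608) (nat_lit 393) (nat_lit 1) (nat_lit 376) (nat_lit 1) (nat_lit 392) (nat_lit 1) (nat_lit 318) (nat_lit 353) (nat_lit 349))) (XT.nd (nat_lit 78) (nat_lit 0) (nat_lit 76) (XT.lf (nat_lit 1292) (nat_lit 1690511962) (nat_lit 76) (nat_lit 1924734503) (nat_lit 0) (nat_lit 1924734503) (nat_lit 393) (nat_lit 1) (nat_lit 377) (nat_lit 1) (nat_lit 376) (nat_lit 1) (nat_lit 319) (nat_lit 353) (nat_lit 348)) (XT.nd (nat_lit 78) (nat_lit 0) (nat_lit 0) (XT.lf (nat_lit 1292) (nat_lit 761928248) (nat_lit 0) (nat_lit 3937206397) (nat_lit 1216) (nat_lit 761928248) (nat_lit 394) (nat_lit 1) (nat_lit 377) (nat_lit 1) (nat_lit 393) (nat_lit 1) (nat_lit 320) (nat_lit 353) (nat_lit 347)) (XT.lf (nat_lit 1292) (nat_lit 1323455010) (nat_lit 76) (nat_lit 2029932059) (nat_lit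 0) (nat_lit 2029932059) (nat_lit 394) (nat_lit 1) (nat_lit 378) (nat_lit 1) (nat_lit 377) (nat_lit 1) (nat_lit 321) (nat_lit 353) (nat_lit 346)))))) (XT.nd (nat_lit 390) (nat_lit 1140) (nat_lit 0) (XT.nd (nat_lit 156) (nat_lit 0) (nat_lit 76) (XT.nd (nat_lit 78) (nat_lit 0) (nat_lit 0) (XT.lf (nat_lit 1292) (nat_lit 557893473) (nat_lit 0) (nat_lit 4191671143) (nat_lit 1216) (nat_lit 557893473) (nat_lit 395) (nat_lit 1) (nat_lit 378) (nat_lit 1) (nat_lit 394) (nat_lit 1) (nat_lit 322) (nat_lit 353) (nat_lit 345)) (XT.lf (nat_lit 1292) (nat_lit 873072651) (nat_lit 76) (nat_lit 2179768504) (nat_lit 0) (nat_lit 2179768504) (nat_lit 395) (nat_lit 1) (nat_lit 379) (nat_lit 1) (nat_lit 378) (nat_lit 1) (nat_lit 323) (nat_lit 353) (nat_lit 344))) (XT.nd (nat_lit 78) (nat_lit 0) (nat_lit 0) (XT.lf (nat_lit 1292) (nat_lit 314391710) (nat_lit 0) (nat_lit 4530906084) (nat_lit 1216) (nat_lit 314391710) (nat_lit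 396) (nat_lit 1) (nat_lit 379) (nat_lit 1) (nat_lit 395) (nat_lit 1) (nat_lit 324) (nat_lit 353) (nat_lit 343)) (XT.nd (nat_lit 78) (nat_lit 0) (nat_lit 76) (XT.lf (nat_lit 1292) (nat_lit 347188762) (nat_lit 76) (nat_lit 2370205335) (nat_lit 0) (nat_lit 2370205335) (nat_lit 396) (nat_lit 1) (nat_lit 380) (nat_lit 1) (nat_lit 379) (nat_lit 1) (nat_lit 325) (nat_lit 353) (nat_lit 342)) (XT.lf (nat_lit 1292) (nat_lit 35179189) (nat_lit 0) (nat_lit 4947150572) (nat_lit 1216) (nat_lit 35179189) (nat_lit 397) (nat_lit 1) (nat_lit 380) (nat_lit 1) (nat_lit 396) (nat_lit 1) (nat_lit 326) (nat_lit 353) (nat_lit 341))))) (XT.nd (nat_lit 156) (nat_lit 0) (nat_lit 76) (XT.nd (nat_lit 78) (nat_lit 0) (nat_lit 0) (XT.lf (nat_lit 1368) (nat_lit 2352941861) (nat_lit 0) (nat_lit 242092348) (nat_lit 1292) (nat_lit 2352941861) (nat_lit 381) (nat_lit 1) (nat_lit 363) (nat_lit 1) (nat_lit 380) (nat_lit 1) (nat_lit 327)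 (nat_lit 353) (nat_lit 340)) (XT.lf (nat_lit 1368) (nat_lit 4333282497) (nat_lit 76) (nat_lit 273538598) (nat_lit 0) (nat_lit 273538598) (nat_lit 381) (nat_lit 1) (nat_lit 364) (nat_lit 1) (nat_lit 363) (nat_lit 1) (nat_lit 328) (nat_lit 353) (nat_lit 339))) (XT.nd (nat_lit 78) (nat_lit 0) (nat_lit 0) (XT.lf (nat_lit 1368) (nat_lit 1964314973) (nat_lit 0) (nat_lit 884833153) (nat_lit 1292) (nat_lit 1964314973) (nat_lit 382) (nat_lit 1) (nat_lit 364) (nat_lit 1) (nat_lit 381) (nat_lit 1) (nat_lit 329) (nat_lit 353) (nat_lit 338)) (XT.nd (nat_lit 78) (nat_lit 0) (nat_lit 76) (XT.lf (nat_lit 1368) (nat_lit 3527088560) (nat_lit 76) (nat_lit 610586863) (nat_lit 0) (nat_lit 610586863) (nat_lit 382) (nat_lit 1) (nat_lit 365) (nat_lit 1) (nat_lit 364) (nat_lit 1) (nat_lit 330) (nat_lit 353) (nat_lit 337)) (XT.lf (nat_lit 76) (nat_lit 1551160441) (nat_lit 0) (nat_lit 1581622506) (nat_lit 1292) (nat_lit 1551160441)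 (nat_lit 366) (nat_lit 1) (nat_lit 365) (nat_lit 1) (nat_lit 382) (nat_lit 1) (nat_lit 331) (nat_lit 353) (nat_lit 336))))))))
noncomputable def ec97 : XT := (XT.nd (nat_lit 1482) (nat_lit 4256) (nat_lit 0) (XT.nd (nat_lit 702) (nat_lit 3040) (nat_lit 0) (XT.nd (nat_lit 312) (nat_lit 1824) (nat_lit 0) (XT.nd (nat_lit 156) (nat_lit 608) (nat_lit 0) (XT.nd (nat_lit 78) (nat_lit 0) (nat_lit 0) (XT.lf (nat_lit 912) (nat_lit 2674418978) (nat_lit 0) (nat_lit 973313623) (nat_lit 836) (nat_lit 973313623) (nat_lit 366) (nat_lit 1) (nat_lit 354) (nat_lit 1) (nat_lit 365) (nat_lit 1) (nat_lit 332) (nat_lit 353) (nat_lit 335)) (XT.lf (nat_lit 76) (nat_lit 1116250419) (nat_lit 0) (nat_lit 2326708933) (nat_lit 912) (nat_lit 1116250419) (nat_lit 355) (nat_lit 1) (nat_lit 354) (nat_lit 1) (nat_lit 366) (nat_lit 1) (nat_lit 333) (nat_lit 353) (nat_lit 334))) (XT.nd (nat_lit 78) (nat_lit 0) (nat_lit 0) (XT.lf (nat_lit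 684) (nat_lit 1780643231) (nat_lit 0) (nat_lit 1358933378) (nat_lit 608) (nat_lit 1358933378) (nat_lit 355) (nat_lit 1) (nat_lit 346) (nat_lit 1) (nat_lit 354) (nat_lit 1) (nat_lit 334) (nat_lit 353) (nat_lit 333)) (XT.lf (nat_lit 76) (nat_lit 662158196) (nat_lit 0) (nat_lit 3114748264) (nat_lit 684) (nat_lit 662158196) (nat_lit 347) (nat_lit 1) (nat_lit 346) (nat_lit 1) (nat_lit 355) (nat_lit 1) (nat_lit 335) (nat_lit 353) (nat_lit 332)))) (XT.nd (nat_lit 156) (nat_lit 1216) (nat_lit 0) (XT.nd (nat_lit 78) (nat_lit 0) (nat_lit 0) (XT.lf (nat_lit 684) (nat_lit 850743879) (nat_lit 0) (nat_lit 1764858722) (nat_lit 608) (nat_lit 1764858722) (nat_lit 347) (nat_lit 1) (nat_lit 338) (nat_lit 1) (nat_lit 346) (nat_lit 1) (nat_lit 336) (nat_lit 353) (nat_lit 331)) (XT.lf (nat_lit 76) (nat_lit 191270767) (nat_lit 0) (nat_lit 3940778016) (nat_lit 684) (nat_lit 191270767) (nat_lit 339) (nat_lit 1) (nat_lit 338)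 (nat_lit 1) (nat_lit 347) (nat_lit 1) (nat_lit 337) (nat_lit 353) (nat_lit 330))) (XT.nd (nat_lit 78) (nat_lit 608) (nat_lit 0) (XT.lf (nat_lit 76) (nat_lit 2079092659) (nat_lit 0) (nat_lit 108499574) (nat_lit 608) (nat_lit 2079092659) (nat_lit 331) (nat_lit 1) (nat_lit 330) (nat_lit 1) (nat_lit 338) (nat_lit 1) (nat_lit 338) (nat_lit 353) (nat_lit 329)) (XT.nd (nat_lit 78) (nat_lit 0) (nat_lit 0) (XT.lf (nat_lit 684) (nat_lit 3628823437) (nat_lit 0) (nat_lit 291315040) (nat_lit 608) (nat_lit 291315040) (nat_lit 331) (nat_lit 1) (nat_lit 322) (nat_lit 1) (nat_lit 330) (nat_lit 1) (nat_lit 339) (nat_lit 353) (nat_lit 328)) (XT.lf (nat_lit 76) (nat_lit 1539475458) (nat_lit 0) (nat_lit 1077833433) (nat_lit 684) (nat_lit 1539475458) (nat_lit 323) (nat_lit 1) (nat_lit 322) (nat_lit 1) (nat_lit 331) (nat_lit 1) (nat_lit 340) (nat_lit 353) (nat_lit 327)))))) (XT.nd (nat_lit 390) (nat_lit 1520) (nat_lit 0)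 (XT.nd (nat_lit 156) (nat_lit 988) (nat_lit 0) (XT.nd (nat_lit 78) (nat_lit 0) (nat_lit 0) (XT.lf (nat_lit 608) (nat_lit 2534527108) (nat_lit 0) (nat_lit 784436302) (nat_lit 532) (nat_lit 784436302) (nat_lit 323) (nat_lit 1) (nat_lit 315) (nat_lit 1) (nat_lit 322) (nat_lit 1) (nat_lit 341) (nat_lit 353) (nat_lit 326)) (XT.lf (nat_lit 76) (nat_lit 990432987) (nat_lit 0) (nat_lit 2069973088) (nat_lit 608) (nat_lit 990432987) (nat_lit 316) (nat_lit 1) (nat_lit 315) (nat_lit 1) (nat_lit 323) (nat_lit 1) (nat_lit 342) (nat_lit 353) (nat_lit 325))) (XT.nd (nat_lit 78) (nat_lit 456) (nat_lit 0) (XT.lf (nat_lit 608) (nat_lit 1423037040) (nat_lit 0) (nat_lit 1288090591) (nat_lit 532) (nat_lit 1288090591) (nat_lit 316) (nat_lit 1) (nat_lit 308) (nat_lit 1) (nat_lit 315) (nat_lit 1) (nat_lit 343) (nat_lit 353) (nat_lit 324)) (XT.nd (nat_lit 78) (nat_lit 456) (nat_lit 0) (XT.lf (nat_lit 76) (nat_lit 433683037)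 (nat_lit 0) (nat_lit 3081324456) (nat_lit 608) (nat_lit 433683037) (nat_lit 309) (nat_lit 1) (nat_lit 308) (nat_lit 1) (nat_lit 316) (nat_lit 1) (nat_lit 344) (nat_lit 353) (nat_lit 323)) (XT.lf (nat_lit 532) (nat_lit 297670637) (nat_lit 0) (nat_lit 1800542003) (nat_lit 456) (nat_lit 1800542003) (nat_lit 309) (nat_lit 1) (nat_lit 302) (nat_lit 1) (nat_lit 308) (nat_lit 1) (nat_lit 345) (nat_lit 353) (nat_lit 322))))) (XT.nd (nat_lit 156) (nat_lit 912) (nat_lit 0) (XT.nd (nat_lit 78) (nat_lit 0) (nat_lit 0) (XT.lf (nat_lit 608) (nat_lit 3594191746) (nat_lit 0) (nat_lit 127922918) (nat_lit 532) (nat_lit 127922918) (nat_lit 302) (nat_lit 1) (nat_lit 294) (nat_lit 1) (nat_lit 301) (nat_lit 1) (nat_lit 346) (nat_lit 353) (nat_lit 321)) (XT.lf (nat_lit 76) (nat_lit 1489734519) (nat_lit 0) (nat_lit 822150597) (nat_lit 608) (nat_lit 1489734519) (nat_lit 295) (nat_lit 1) (nat_lit 294) (nat_lit 1) (nat_lit 302)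 (nat_lit 1) (nat_lit 347) (nat_lit 353) (nat_lit 320))) (XT.nd (nat_lit 78) (nat_lit 456) (nat_lit 0) (XT.lf (nat_lit 532) (nat_lit 2374590576) (nat_lit 0) (nat_lit 689893289) (nat_lit 456) (nat_lit 689893289) (nat_lit 295) (nat_lit 1) (nat_lit 288) (nat_lit 1) (nat_lit 294) (nat_lit 1) (nat_lit 348) (nat_lit 353) (nat_lit 319)) (XT.nd (nat_lit 78) (nat_lit 456) (nat_lit 0) (XT.lf (nat_lit 76) (nat_lit 881909568) (nat_lit 0) (nat_lit 1944006754) (nat_lit 532) (nat_lit 881909568) (nat_lit 289) (nat_lit 1) (nat_lit 288) (nat_lit 1) (nat_lit 295) (nat_lit 1) (nat_lit 349) (nat_lit 353) (nat_lit 318)) (XT.lf (nat_lit 532) (nat_lit 1151778264) (nat_lit 0) (nat_lit 1255148553) (nat_lit 456) (nat_lit 1255148553) (nat_lit 289) (nat_lit 1) (nat_lit 282) (nat_lit 1) (nat_lit 288) (nat_lit 1) (nat_lit 350) (nat_lit 353) (nat_lit 317))))))) (XT.nd (nat_lit 702) (nat_lit 2128) (nat_lit 0) (XT.nd (nat_lit 312) (nat_lit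 1216) (nat_lit 0) (XT.nd (nat_lit 156) (nat_lit 456) (nat_lit 0) (XT.nd (nat_lit 78) (nat_lit 456) (nat_lit 0) (XT.lf (nat_lit 76) (nat_lit 273080040) (nat_lit 0) (nat_lit 3071165164) (nat_lit 532) (nat_lit 273080040) (nat_lit 283) (nat_lit 1) (nat_lit 282) (nat_lit 1) (nat_lit 289) (nat_lit 1) (nat_lit 351) (nat_lit 353) (nat_lit 316)) (XT.lf (nat_lit 76) (nat_lit 1751228092) (nat_lit 0) (nat_lit 70524620) (nat_lit 456) (nat_lit 1751228092) (nat_lit 277) (nat_lit 1) (nat_lit 276) (nat_lit 1) (nat_lit 282) (nat_lit 1) (nat_lit 352) (nat_lit 353) (nat_lit 315))) (XT.nd (nat_lit 78) (nat_lit 0) (nat_lit 0) (XT.lf (nat_lit 532) (nat_lit 2864880081) (nat_lit 0) (nat_lit 332360179) (nat_lit 456) (nat_lit 332360179) (nat_lit 277) (nat_lit 1) (nat_lit 270) (nat_lit 1) (nat_lit 276) (nat_lit 1) (nat_lit 353) (nat_lit 353) (nat_lit 314)) (XT.lf (nat_lit 76) (nat_lit 1108754503) (nat_lit 0) (nat_lit 1269148404)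 (nat_lit 532) (nat_lit 1108754503) (nat_lit 271) (nat_lit 1) (nat_lit 270) (nat_lit 1) (nat_lit 277) (nat_lit 1) (nat_lit 354) (nat_lit 353) (nat_lit 313)))) (XT.nd (nat_lit 156) (nat_lit 836) (nat_lit 0) (XT.nd (nat_lit 78) (nat_lit 0) (nat_lit 0) (XT.lf (nat_lit 456) (nat_lit 1576550768) (nat_lit 0) (nat_lit 934025987) (nat_lit 380) (nat_lit 934025987) (nat_lit 271) (nat_lit 1) (nat_lit 265) (nat_lit 1) (nat_lit 270) (nat_lit 1) (nat_lit 355) (nat_lit 353) (nat_lit 312)) (XT.lf (nat_lit 76) (nat_lit 469325902) (nat_lit 0) (nat_lit 2464666521) (nat_lit 456) (nat_lit 469325902) (nat_lit 266) (nat_lit 1) (nat_lit 265) (nat_lit 1) (nat_lit 271) (nat_lit 1) (nat_lit 356) (nat_lit 353) (nat_lit 311))) (XT.nd (nat_lit 78) (nat_lit 456) (nat_lit 0) (XT.lf (nat_lit 456) (nat_lit 295169023) (nat_lit 0) (nat_lit 1533681777) (nat_lit 380) (nat_lit 1533681777) (nat_lit 266) (nat_lit 1) (nat_lit 260) (nat_lit 1)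 (nat_lit 265) (nat_lit 1) (nat_lit 357) (nat_lit 353) (nat_lit 310)) (XT.nd (nat_lit 78) (nat_lit 0) (nat_lit 0) (XT.lf (nat_lit 456) (nat_lit 2993422649) (nat_lit 0) (nat_lit 164617130) (nat_lit 380) (nat_lit 164617130) (nat_lit 260) (nat_lit 1) (nat_lit 254) (nat_lit 1) (nat_lit 259) (nat_lit 1) (nat_lit 358) (nat_lit 353) (nat_lit 309)) (XT.lf (nat_lit 76) (nat_lit 1162181593) (nat_lit 0) (nat_lit 958633601) (nat_lit 456) (nat_lit 1162181593) (nat_lit 255) (nat_lit 1) (nat_lit 254) (nat_lit 1) (nat_lit 260) (nat_lit 1) (nat_lit 359) (nat_lit 353) (nat_lit 308)))))) (XT.nd (nat_lit 390) (nat_lit 988) (nat_lit 0) (XT.nd (nat_lit 156) (nat_lit 760) (nat_lit 0) (XT.nd (nat_lit 78) (nat_lit 0) (nat_lit 0) (XT.lf (nat_lit 456) (nat_lit 1665392524) (nat_lit 0) (nat_lit 789412776) (nat_lit 380) (nat_lit 789412776) (nat_lit 255) (nat_lit 1) (nat_lit 249) (nat_lit 1) (nat_lit 254) (nat_lit 1) (nat_lit 360)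 (nat_lit 353) (nat_lit 307)) (XT.lf (nat_lit 76) (nat_lit 504563073) (nat_lit 0) (nat_lit 2196962431) (nat_lit 456) (nat_lit 504563073) (nat_lit 250) (nat_lit 1) (nat_lit 249) (nat_lit 1) (nat_lit 255) (nat_lit 1) (nat_lit 361) (nat_lit 353) (nat_lit 306))) (XT.nd (nat_lit 78) (nat_lit 456) (nat_lit 0) (XT.lf (nat_lit 380) (nat_lit 350435478) (nat_lit 0) (nat_lit 1409003413) (nat_lit 304) (nat_lit 1409003413) (nat_lit 250) (nat_lit 1) (nat_lit 245) (nat_lit 1) (nat_lit 249) (nat_lit 1) (nat_lit 362) (nat_lit 353) (nat_lit 305)) (XT.nd (nat_lit 78) (nat_lit 0) (nat_lit 0) (XT.lf (nat_lit 456) (nat_lit 2841950241) (nat_lit 0) (nat_lit 144835824) (nat_lit 380) (nat_lit 144835824) (nat_lit 245) (nat_lit 1) (nat_lit 239) (nat_lit 1) (nat_lit 244) (nat_lit 1) (nat_lit 363) (nat_lit 353) (nat_lit 304)) (XT.lf (nat_lit 76) (nat_lit 1081570942) (nat_lit 0) (nat_lit 931814356) (nat_lit 456) (nat_lit 1081570942)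 (nat_lit 240) (nat_lit 1) (nat_lit 239) (nat_lit 1) (nat_lit 245) (nat_lit 1) (nat_lit 364) (nat_lit 353) (nat_lit 303))))) (XT.nd (nat_lit 156) (nat_lit 684) (nat_lit 0) (XT.nd (nat_lit 78) (nat_lit 0) (nat_lit 0) (XT.lf (nat_lit 380) (nat_lit 1494969212) (nat_lit 0) (nat_lit 782061616) (nat_lit 304) (nat_lit 782061616) (nat_lit 240) (nat_lit 1) (nat_lit 235) (nat_lit 1) (nat_lit 239) (nat_lit 1) (nat_lit 365) (nat_lit 353) (nat_lit 302)) (XT.lf (nat_lit 76) (nat_lit 415728101) (nat_lit 0) (nat_lit 2192385905) (nat_lit 380) (nat_lit 415728101) (nat_lit 236) (nat_lit 1) (nat_lit 235) (nat_lit 1) (nat_lit 240) (nat_lit 1) (nat_lit 366) (nat_lit 353) (nat_lit 301))) (XT.nd (nat_lit 78) (nat_lit 380) (nat_lit 0) (XT.lf (nat_lit 380) (nat_lit 165774837) (nat_lit 0) (nat_lit 1411608802) (nat_lit 304) (nat_lit 1411608802) (nat_lit 236) (nat_lit 1) (nat_lit 231) (nat_lit 1) (nat_lit 235) (nat_lit 1) (nat_lit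 367) (nat_lit 353) (nat_lit 300)) (XT.nd (nat_lit 78) (nat_lit 0) (nat_lit 0) (XT.lf (nat_lit 380) (nat_lit 2477398480) (nat_lit 0) (nat_lit 238716018) (nat_lit 304) (nat_lit 238716018) (nat_lit 231) (nat_lit 1) (nat_lit 226) (nat_lit 1) (nat_lit 230) (nat_lit 1) (nat_lit 368) (nat_lit 353) (nat_lit 299)) (XT.lf (nat_lit 76) (nat_lit 899162201) (nat_lit 0) (nat_lit 1122578354) (nat_lit 380) (nat_lit 899162201) (nat_lit 227) (nat_lit 1) (nat_lit 226) (nat_lit 1) (nat_lit 231) (nat_lit 1) (nat_lit 369) (nat_lit 353) (nat_lit 298))))))))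
noncomputable def ec98 : XT := (XT.nd (nat_lit 1482) (nat_lit 2356) (nat_lit 0) (XT.nd (nat_lit 702) (nat_lit 1520) (nat_lit 0) (XT.nd (nat_lit 312) (nat_lit 836) (nat_lit 0) (XT.nd (nat_lit 156) (nat_lit 608) (nat_lit 0) (XT.nd (nat_lit 78) (nat_lit 0) (nat_lit 0) (XT.lf (nat_lit 380) (nat_lit 1128023511) (nat_lit 0) (nat_lit 879809560) (nat_lit 304) (nat_lit 879809560) (nat_lit 227) (nat_lit 1) (nat_lit 222) (nat_lit 1) (nat_lit 226) (nat_lit 1) (nat_lit 370) (nat_lit 353) (nat_lit 297)) (XT.lf (nat_lit 76) (nat_lit 233038698) (nat_lit 0) (nat_lit 2388948552) (nat_lit 380) (nat_lit 233038698) (nat_lit 223) (nat_lit 1) (nat_lit 222) (nat_lit 1) (nat_lit 227) (nat_lit 1) (nat_lit 371) (nat_lit 353) (nat_lit 296))) (XT.nd (nat_lit 78) (nat_lit 304) (nat_lit 0) (XT.lf (nat_lit 76) (nat_lit 1313256268) (nat_lit 0) (nat_lit 196106885) (nat_lit 304) (nat_lit 1313256268) (nat_lit 219) (nat_lit 1) (nat_lit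 218) (nat_lit 1) (nat_lit 222) (nat_lit 1) (nat_lit 372) (nat_lit 353) (nat_lit 295)) (XT.lf (nat_lit 380) (nat_lit 1954403906) (nat_lit 0) (nat_lit 418217284) (nat_lit 304) (nat_lit 418217284) (nat_lit 219) (nat_lit 1) (nat_lit 214) (nat_lit 1) (nat_lit 218) (nat_lit 1) (nat_lit 373) (nat_lit 353) (nat_lit 294)))) (XT.nd (nat_lit 156) (nat_lit 608) (nat_lit 0) (XT.nd (nat_lit 78) (nat_lit 228) (nat_lit 0) (XT.lf (nat_lit 76) (nat_lit 641260360) (nat_lit 0) (nat_lit 1476898856) (nat_lit 380) (nat_lit 641260360) (nat_lit 215) (nat_lit 1) (nat_lit 214) (nat_lit 1) (nat_lit 219) (nat_lit 1) (nat_lit 374) (nat_lit 353) (nat_lit 293)) (XT.lf (nat_lit 304) (nat_lit 615727549) (nat_lit 0) (nat_lit 1056383257) (nat_lit 228) (nat_lit 1056383257) (nat_lit 215) (nat_lit 1) (nat_lit 211) (nat_lit 1) (nat_lit 214) (nat_lit 1) (nat_lit 375) (nat_lit 353) (nat_lit 292))) (XT.nd (nat_lit 78) (nat_lit 228) (nat_lit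 0) (XT.lf (nat_lit 380) (nat_lit 2660899087) (nat_lit 0) (nat_lit 18685383) (nat_lit 304) (nat_lit 18685383) (nat_lit 211) (nat_lit 1) (nat_lit 206) (nat_lit 1) (nat_lit 210) (nat_lit 1) (nat_lit 376) (nat_lit 353) (nat_lit 291)) (XT.nd (nat_lit 78) (nat_lit 228) (nat_lit 0) (XT.lf (nat_lit 76) (nat_lit 991313170) (nat_lit 0) (nat_lit 685359882) (nat_lit 380) (nat_lit 991313170) (nat_lit 207) (nat_lit 1) (nat_lit 206) (nat_lit 1) (nat_lit 211) (nat_lit 1) (nat_lit 377) (nat_lit 353) (nat_lit 290)) (XT.lf (nat_lit 304) (nat_lit 1317389898) (nat_lit 0) (nat_lit 660499519) (nat_lit 228) (nat_lit 660499519) (nat_lit 207) (nat_lit 1) (nat_lit 203) (nat_lit 1) (nat_lit 206) (nat_lit 1) (nat_lit 378) (nat_lit 353) (nat_lit 289)))))) (XT.nd (nat_lit 390) (nat_lit 760) (nat_lit 0) (XT.nd (nat_lit 156) (nat_lit 456) (nat_lit 0) (XT.nd (nat_lit 78) (nat_lit 304) (nat_lit 0) (XT.lf (nat_lit 76) (nat_lit 329242904)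 (nat_lit 0) (nat_lit 1950787990) (nat_lit 304) (nat_lit 329242904) (nat_lit 204) (nat_lit 1) (nat_lit 203) (nat_lit 1) (nat_lit 207) (nat_lit 1) (nat_lit 379) (nat_lit 353) (nat_lit 288)) (XT.lf (nat_lit 76) (nat_lit 1290052064) (nat_lit 0) (nat_lit 345396) (nat_lit 304) (nat_lit 1290052064) (nat_lit 200) (nat_lit 1) (nat_lit 199) (nat_lit 1) (nat_lit 203) (nat_lit 1) (nat_lit 380) (nat_lit 353) (nat_lit 287))) (XT.nd (nat_lit 78) (nat_lit 228) (nat_lit 0) (XT.lf (nat_lit 304) (nat_lit 1918371187) (nat_lit 0) (nat_lit 316861460) (nat_lit 228) (nat_lit 316861460) (nat_lit 200) (nat_lit 1) (nat_lit 196) (nat_lit 1) (nat_lit 199) (nat_lit 1) (nat_lit 381) (nat_lit 353) (nat_lit 286)) (XT.nd (nat_lit 78) (nat_lit 228) (nat_lit 0) (XT.lf (nat_lit 76) (nat_lit 628459123) (nat_lit 0) (nat_lit 1267093112) (nat_lit 304) (nat_lit 628459123) (nat_lit 197) (nat_lit 1) (nat_lit 196) (nat_lit 1) (nat_lit 200) (nat_lit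 1) (nat_lit 382) (nat_lit 353) (nat_lit 285)) (XT.lf (nat_lit 304) (nat_lit 602308445) (nat_lit 0) (nat_lit 947038145) (nat_lit 228) (nat_lit 947038145) (nat_lit 197) (nat_lit 1) (nat_lit 193) (nat_lit 1) (nat_lit 196) (nat_lit 1) (nat_lit 383) (nat_lit 353) (nat_lit 284))))) (XT.nd (nat_lit 156) (nat_lit 456) (nat_lit 0) (XT.nd (nat_lit 78) (nat_lit 0) (nat_lit 0) (XT.lf (nat_lit 304) (nat_lit 2430552153) (nat_lit 0) (nat_lit 19407101) (nat_lit 228) (nat_lit 19407101) (nat_lit 193) (nat_lit 1) (nat_lit 189) (nat_lit 1) (nat_lit 192) (nat_lit 1) (nat_lit 384) (nat_lit 353) (nat_lit 283)) (XT.lf (nat_lit 76) (nat_lit 884524458) (nat_lit 0) (nat_lit 673216448) (nat_lit 304) (nat_lit 884524458) (nat_lit 190) (nat_lit 1) (nat_lit 189) (nat_lit 1) (nat_lit 193) (nat_lit 1) (nat_lit 385) (nat_lit 353) (nat_lit 282))) (XT.nd (nat_lit 78) (nat_lit 228) (nat_lit 0) (XT.lf (nat_lit 304) (nat_lit 1120212605) (nat_lit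 0) (nat_lit 647774441) (nat_lit 228) (nat_lit 647774441) (nat_lit 190) (nat_lit 1) (nat_lit 186) (nat_lit 1) (nat_lit 189) (nat_lit 1) (nat_lit 386) (nat_lit 353) (nat_lit 281)) (XT.nd (nat_lit 78) (nat_lit 228) (nat_lit 0) (XT.lf (nat_lit 76) (nat_lit 239591612) (nat_lit 0) (nat_lit 1910523299) (nat_lit 304) (nat_lit 239591612) (nat_lit 187) (nat_lit 1) (nat_lit 186) (nat_lit 1) (nat_lit 190) (nat_lit 1) (nat_lit 387) (nat_lit 353) (nat_lit 280)) (XT.lf (nat_lit 76) (nat_lit 1102535775) (nat_lit 0) (nat_lit 158746648) (nat_lit 228) (nat_lit 1102535775) (nat_lit 184) (nat_lit 1) (nat_lit 183) (nat_lit 1) (nat_lit 186) (nat_lit 1) (nat_lit 388) (nat_lit 353) (nat_lit 279))))))) (XT.nd (nat_lit 702) (nat_lit 1140) (nat_lit 0) (XT.nd (nat_lit 312) (nat_lit 532) (nat_lit 0) (XT.nd (nat_lit 156) (nat_lit 456) (nat_lit 0) (XT.nd (nat_lit 78) (nat_lit 0) (nat_lit 0) (XT.lf (nat_lit 304) (nat_lit 1563322888)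 (nat_lit 0) (nat_lit 387523003) (nat_lit 228) (nat_lit 387523003) (nat_lit 184) (nat_lit 1) (nat_lit 180) (nat_lit 1) (nat_lit 183) (nat_lit 1) (nat_lit 389) (nat_lit 353) (nat_lit 278)) (XT.lf (nat_lit 76) (nat_lit 462393745) (nat_lit 0) (nat_lit 1388422513) (nat_lit 304) (nat_lit 462393745) (nat_lit 181) (nat_lit 1) (nat_lit 180) (nat_lit 1) (nat_lit 184) (nat_lit 1) (nat_lit 390) (nat_lit 353) (nat_lit 277))) (XT.nd (nat_lit 78) (nat_lit 304) (nat_lit 0) (XT.lf (nat_lit 228) (nat_lit 291238227) (nat_lit 0) (nat_lit 998574602) (nat_lit 152) (nat_lit 998574602) (nat_lit 181) (nat_lit 1) (nat_lit 178) (nat_lit 1) (nat_lit 180) (nat_lit 1) (nat_lit 391) (nat_lit 353) (nat_lit 276)) (XT.lf (nat_lit 304) (nat_lit 1940476117) (nat_lit 0) (nat_lit 161769170) (nat_lit 228) (nat_lit 161769170) (nat_lit 178) (nat_lit 1) (nat_lit 174) (nat_lit 1) (nat_lit 177) (nat_lit 1) (nat_lit 392) (nat_lit 353) (nat_lit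 275)))) (XT.nd (nat_lit 156) (nat_lit 380) (nat_lit 0) (XT.nd (nat_lit 78) (nat_lit 152) (nat_lit 0) (XT.lf (nat_lit 76) (nat_lit 653082991) (nat_lit 0) (nat_lit 933544262) (nat_lit 304) (nat_lit 653082991) (nat_lit 175) (nat_lit 1) (nat_lit 174) (nat_lit 1) (nat_lit 178) (nat_lit 1) (nat_lit 393) (nat_lit 353) (nat_lit 274)) (XT.lf (nat_lit 228) (nat_lit 681178508) (nat_lit 0) (nat_lit 767334419) (nat_lit 152) (nat_lit 767334419) (nat_lit 175) (nat_lit 1) (nat_lit 172) (nat_lit 1) (nat_lit 174) (nat_lit 1) (nat_lit 394) (nat_lit 353) (nat_lit 273))) (XT.nd (nat_lit 78) (nat_lit 380) (nat_lit 0) (XT.lf (nat_lit 76) (nat_lit 33825104) (nat_lit 0) (nat_lit 2124832838) (nat_lit 228) (nat_lit 33825104) (nat_lit 173) (nat_lit 1) (nat_lit 172) (nat_lit 1) (nat_lit 175) (nat_lit 1) (nat_lit 395) (nat_lit 353) (nat_lit 272)) (XT.nd (nat_lit 78) (nat_lit 152) (nat_lit 0) (XT.lf (nat_lit 76) (nat_lit 815452029)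 (nat_lit 0) (nat_lit 538130181) (nat_lit 228) (nat_lit 815452029) (nat_lit 170) (nat_lit 1) (nat_lit 169) (nat_lit 1) (nat_lit 172) (nat_lit 1) (nat_lit 396) (nat_lit 353) (nat_lit 271)) (XT.lf (nat_lit 228) (nat_lit 1015331985) (nat_lit 0) (nat_lit 565372343) (nat_lit 152) (nat_lit 565372343) (nat_lit 170) (nat_lit 1) (nat_lit 167) (nat_lit 1) (nat_lit 169) (nat_lit 1) (nat_lit 397) (nat_lit 353) (nat_lit 270)))))) (XT.nd (nat_lit 390) (nat_lit 608) (nat_lit 0) (XT.nd (nat_lit 156) (nat_lit 304) (nat_lit 0) (XT.nd (nat_lit 78) (nat_lit 228) (nat_lit 0) (XT.lf (nat_lit 76) (nat_lit 203818201) (nat_lit 0) (nat_lit 1715858566) (nat_lit 228) (nat_lit 203818201) (nat_lit 168) (nat_lit 1) (nat_lit 167) (nat_lit 1) (nat_lit 170) (nat_lit 1) (nat_lit 398) (nat_lit 353) (nat_lit 269)) (XT.lf (nat_lit 76) (nat_lit 952864440) (nat_lit 0) (nat_lit 195294702) (nat_lit 228) (nat_lit 952864440) (nat_lit 165) (nat_lit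 1) (nat_lit 164) (nat_lit 1) (nat_lit 167) (nat_lit 1) (nat_lit 399) (nat_lit 353) (nat_lit 268))) (XT.nd (nat_lit 78) (nat_lit 152) (nat_lit 0) (XT.lf (nat_lit 228) (nat_lit 1300277962) (nat_lit 0) (nat_lit 389321780) (nat_lit 152) (nat_lit 389321780) (nat_lit 165) (nat_lit 1) (nat_lit 162) (nat_lit 1) (nat_lit 164) (nat_lit 1) (nat_lit 400) (nat_lit 353) (nat_lit 267)) (XT.nd (nat_lit 78) (nat_lit 152) (nat_lit 0) (XT.lf (nat_lit 76) (nat_lit 349793749) (nat_lit 0) (nat_lit 1357500743) (nat_lit 228) (nat_lit 349793749) (nat_lit 163) (nat_lit 1) (nat_lit 162) (nat_lit 1) (nat_lit 165) (nat_lit 1) (nat_lit 401) (nat_lit 353) (nat_lit 266)) (XT.lf (nat_lit 228) (nat_lit 103084042) (nat_lit 0) (nat_lit 966209601) (nat_lit 152) (nat_lit 966209601) (nat_lit 163) (nat_lit 1) (nat_lit 160) (nat_lit 1) (nat_lit 162) (nat_lit 1) (nat_lit 402) (nat_lit 353) (nat_lit 265))))) (XT.nd (nat_lit 156) (nat_lit 380)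 (nat_lit 0) (XT.nd (nat_lit 78) (nat_lit 0) (nat_lit 0) (XT.lf (nat_lit 228) (nat_lit 1541851628) (nat_lit 0) (nat_lit 236194520) (nat_lit 152) (nat_lit 236194520) (nat_lit 160) (nat_lit 1) (nat_lit 157) (nat_lit 1) (nat_lit 159) (nat_lit 1) (nat_lit 403) (nat_lit 353) (nat_lit 264)) (XT.lf (nat_lit 76) (nat_lit 474577426) (nat_lit 0) (nat_lit 1043969042) (nat_lit 228) (nat_lit 474577426) (nat_lit 158) (nat_lit 1) (nat_lit 157) (nat_lit 1) (nat_lit 160) (nat_lit 1) (nat_lit 404) (nat_lit 353) (nat_lit 263))) (XT.nd (nat_lit 78) (nat_lit 228) (nat_lit 0) (XT.lf (nat_lit 228) (nat_lit 363486099) (nat_lit 0) (nat_lit 804418983) (nat_lit 152) (nat_lit 804418983) (nat_lit 158) (nat_lit 1) (nat_lit 155) (nat_lit 1) (nat_lit 157) (nat_lit 1) (nat_lit 405) (nat_lit 353) (nat_lit 262)) (XT.nd (nat_lit 78) (nat_lit 0) (nat_lit 0) (XT.lf (nat_lit 228) (nat_lit 1745227336) (nat_lit 0) (nat_lit 103338453) (nat_lit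 152) (nat_lit 103338453) (nat_lit 155) (nat_lit 1) (nat_lit 152) (nat_lit 1) (nat_lit 154) (nat_lit 1) (nat_lit 406) (nat_lit 353) (nat_lit 261)) (XT.lf (nat_lit 76) (nat_lit 580675518) (nat_lit 0) (nat_lit 770123084) (nat_lit 228) (nat_lit 580675518) (nat_lit 153) (nat_lit 1) (nat_lit 152) (nat_lit 1) (nat_lit 155) (nat_lit 1) (nat_lit 407) (nat_lit 353) (nat_lit 260))))))))
noncomputable def ec99 : XT := (XT.nd (nat_lit 1482) (nat_lit 836) (nat_lit 0) (XT.nd (nat_lit 702) (nat_lit 1064) (nat_lit 0) (XT.nd (nat_lit 312) (nat_lit 456) (nat_lit 0) (XT.nd (nat_lit 156) (nat_lit 304) (nat_lit 0) (XT.nd (nat_lit 78) (nat_lit 0) (nat_lit 0) (XT.lf (nat_lit 228) (nat_lit 586930616) (nat_lit 0) (nat_lit 662244261) (nat_lit 152) (nat_lit 662244261) (nat_lit 153) (nat_lit 1) (nat_lit 150) (nat_lit 1) (nat_lit 152) (nat_lit 1) (nat_lit 408) (nat_lit 353) (nat_lit 259)) (XT.lf (nat_lit 76) (nat_lit 11714846) (nat_lit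 0) (nat_lit 1868349333) (nat_lit 228) (nat_lit 11714846) (nat_lit 151) (nat_lit 1) (nat_lit 150) (nat_lit 1) (nat_lit 153) (nat_lit 1) (nat_lit 409) (nat_lit 353) (nat_lit 258))) (XT.nd (nat_lit 78) (nat_lit 152) (nat_lit 0) (XT.lf (nat_lit 76) (nat_lit 670310659) (nat_lit 0) (nat_lit 531399833) (nat_lit 152) (nat_lit 670310659) (nat_lit 149) (nat_lit 1) (nat_lit 148) (nat_lit 1) (nat_lit 150) (nat_lit 1) (nat_lit 410) (nat_lit 353) (nat_lit 257)) (XT.lf (nat_lit 228) (nat_lit 777769497) (nat_lit 0) (nat_lit 537452162) (nat_lit 152) (nat_lit 537452162) (nat_lit 149) (nat_lit 1) (nat_lit 146) (nat_lit 1) (nat_lit 148) (nat_lit 1) (nat_lit 411) (nat_lit 353) (nat_lit 256)))) (XT.nd (nat_lit 156) (nat_lit 304) (nat_lit 0) (XT.nd (nat_lit 78) (nat_lit 152) (nat_lit 0) (XT.lf (nat_lit 76) (nat_lit 111805365) (nat_lit 0) (nat_lit 1610054983) (nat_lit 228) (nat_lit 111805365) (nat_lit 147) (nat_lit 1) (nat_lit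 146) (nat_lit 1) (nat_lit 149) (nat_lit 1) (nat_lit 412) (nat_lit 353) (nat_lit 255)) (XT.lf (nat_lit 76) (nat_lit 745453584) (nat_lit 0) (nat_lit 323749100) (nat_lit 152) (nat_lit 745453584) (nat_lit 145) (nat_lit 1) (nat_lit 144) (nat_lit 1) (nat_lit 146) (nat_lit 1) (nat_lit 413) (nat_lit 353) (nat_lit 254))) (XT.nd (nat_lit 78) (nat_lit 152) (nat_lit 0) (XT.lf (nat_lit 228) (nat_lit 939862637) (nat_lit 0) (nat_lit 428059783) (nat_lit 152) (nat_lit 428059783) (nat_lit 145) (nat_lit 1) (nat_lit 142) (nat_lit 1) (nat_lit 144) (nat_lit 1) (nat_lit 414) (nat_lit 353) (nat_lit 253)) (XT.nd (nat_lit 78) (nat_lit 152) (nat_lit 0) (XT.lf (nat_lit 76) (nat_lit 197781188) (nat_lit 0) (nat_lit 1382018630) (nat_lit 228) (nat_lit 197781188) (nat_lit 143) (nat_lit 1) (nat_lit 142) (nat_lit 1) (nat_lit 145) (nat_lit 1) (nat_lit 415) (nat_lit 353) (nat_lit 252)) (XT.lf (nat_lit 76) (nat_lit 807851334) (nat_lit 0)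 (nat_lit 143576232) (nat_lit 152) (nat_lit 807851334) (nat_lit 141) (nat_lit 1) (nat_lit 140) (nat_lit 1) (nat_lit 142) (nat_lit 1) (nat_lit 416) (nat_lit 353) (nat_lit 251)))))) (XT.nd (nat_lit 390) (nat_lit 608) (nat_lit 0) (XT.nd (nat_lit 156) (nat_lit 304) (nat_lit 0) (XT.nd (nat_lit 78) (nat_lit 0) (nat_lit 0) (XT.lf (nat_lit 228) (nat_lit 1076632976) (nat_lit 0) (nat_lit 332306638) (nat_lit 152) (nat_lit 332306638) (nat_lit 141) (nat_lit 1) (nat_lit 138) (nat_lit 1) (nat_lit 140) (nat_lit 1) (nat_lit 417) (nat_lit 353) (nat_lit 250)) (XT.lf (nat_lit 76) (nat_lit 271302304) (nat_lit 0) (nat_lit 1180823741) (nat_lit 228) (nat_lit 271302304) (nat_lit 139) (nat_lit 1) (nat_lit 138) (nat_lit 1) (nat_lit 141) (nat_lit 1) (nat_lit 418) (nat_lit 353) (nat_lit 249))) (XT.nd (nat_lit 78) (nat_lit 228) (nat_lit 0) (XT.lf (nat_lit 152) (nat_lit 12553762) (nat_lit 0) (nat_lit 846619233) (nat_lit 76) (nat_lit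 846619233) (nat_lit 139) (nat_lit 1) (nat_lit 137) (nat_lit 1) (nat_lit 138) (nat_lit 1) (nat_lit 419) (nat_lit 353) (nat_lit 248)) (XT.nd (nat_lit 78) (nat_lit 0) (nat_lit 0) (XT.lf (nat_lit 228) (nat_lit 1191115421) (nat_lit 0) (nat_lit 248629820) (nat_lit 152) (nat_lit 248629820) (nat_lit 137) (nat_lit 1) (nat_lit 134) (nat_lit 1) (nat_lit 136) (nat_lit 1) (nat_lit 420) (nat_lit 353) (nat_lit 247)) (XT.lf (nat_lit 76) (nat_lit 333841089) (nat_lit 0) (nat_lit 1003436006) (nat_lit 228) (nat_lit 333841089) (nat_lit 135) (nat_lit 1) (nat_lit 134) (nat_lit 1) (nat_lit 137) (nat_lit 1) (nat_lit 421) (nat_lit 353) (nat_lit 246))))) (XT.nd (nat_lit 156) (nat_lit 304) (nat_lit 0) (XT.nd (nat_lit 78) (nat_lit 228) (nat_lit 0) (XT.lf (nat_lit 152) (nat_lit 149656955) (nat_lit 0) (nat_lit 752210223) (nat_lit 76) (nat_lit 752210223) (nat_lit 135) (nat_lit 1) (nat_lit 133) (nat_lit 1) (nat_lit 134) (nat_lit 1)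 (nat_lit 422) (nat_lit 353) (nat_lit 245)) (XT.lf (nat_lit 228) (nat_lit 1286000301) (nat_lit 0) (nat_lit 175641924) (nat_lit 152) (nat_lit 175641924) (nat_lit 133) (nat_lit 1) (nat_lit 130) (nat_lit 1) (nat_lit 132) (nat_lit 1) (nat_lit 423) (nat_lit 353) (nat_lit 244))) (XT.nd (nat_lit 78) (nat_lit 304) (nat_lit 0) (XT.lf (nat_lit 76) (nat_lit 386703294) (nat_lit 0) (nat_lit 847160677) (nat_lit 228) (nat_lit 386703294) (nat_lit 131) (nat_lit 1) (nat_lit 130) (nat_lit 1) (nat_lit 133) (nat_lit 1) (nat_lit 424) (nat_lit 353) (nat_lit 243)) (XT.nd (nat_lit 78) (nat_lit 228) (nat_lit 0) (XT.lf (nat_lit 152) (nat_lit 267437294) (nat_lit 0) (nat_lit 668329040) (nat_lit 76) (nat_lit 668329040) (nat_lit 131) (nat_lit 1) (nat_lit 129) (nat_lit 1) (nat_lit 130) (nat_lit 1) (nat_lit 425) (nat_lit 353) (nat_lit 242)) (XT.lf (nat_lit 228) (nat_lit 1363671967) (nat_lit 0) (nat_lit 112111448) (nat_lit 152) (nat_lit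 112111448) (nat_lit 129) (nat_lit 1) (nat_lit 126) (nat_lit 1) (nat_lit 128) (nat_lit 1) (nat_lit 426) (nat_lit 353) (nat_lit 241))))))) (XT.nd (nat_lit 702) (nat_lit 152) (nat_lit 0) (XT.nd (nat_lit 312) (nat_lit 380) (nat_lit 0) (XT.nd (nat_lit 156) (nat_lit 228) (nat_lit 0) (XT.nd (nat_lit 78) (nat_lit 76) (nat_lit 0) (XT.lf (nat_lit 76) (nat_lit 431046704) (nat_lit 0) (nat_lit 709604671) (nat_lit 228) (nat_lit 431046704) (nat_lit 127) (nat_lit 1) (nat_lit 126) (nat_lit 1) (nat_lit 129) (nat_lit 1) (nat_lit 427) (nat_lit 353) (nat_lit 240)) (XT.lf (nat_lit 152) (nat_lit 368167027) (nat_lit 0) (nat_lit 593801696) (nat_lit 76) (nat_lit 593801696) (nat_lit 127) (nat_lit 1) (nat_lit 125) (nat_lit 1) (nat_lit 126) (nat_lit 1) (nat_lit 428) (nat_lit 353) (nat_lit 239))) (XT.nd (nat_lit 78) (nat_lit 0) (nat_lit 0) (XT.lf (nat_lit 228) (nat_lit 1426243091) (nat_lit 0) (nat_lit 56945368) (nat_lit 152) (nat_lit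 56945368) (nat_lit 125) (nat_lit 1) (nat_lit 122) (nat_lit 1) (nat_lit 124) (nat_lit 1) (nat_lit 429) (nat_lit 353) (nat_lit 238)) (XT.lf (nat_lit 76) (nat_lit 467897701) (nat_lit 0) (nat_lit 588642890) (nat_lit 228) (nat_lit 467897701) (nat_lit 123) (nat_lit 1) (nat_lit 122) (nat_lit 1) (nat_lit 125) (nat_lit 1) (nat_lit 430) (nat_lit 353) (nat_lit 237)))) (XT.nd (nat_lit 156) (nat_lit 76) (nat_lit 0) (XT.nd (nat_lit 78) (nat_lit 228) (nat_lit 0) (XT.lf (nat_lit 152) (nat_lit 453861591) (nat_lit 0) (nat_lit 527585116) (nat_lit 76) (nat_lit 527585116) (nat_lit 123) (nat_lit 1) (nat_lit 121) (nat_lit 1) (nat_lit 122) (nat_lit 1) (nat_lit 431) (nat_lit 353) (nat_lit 236)) (XT.lf (nat_lit 228) (nat_lit 1475585125) (nat_lit 0) (nat_lit 9173668) (nat_lit 152) (nat_lit 9173668) (nat_lit 121) (nat_lit 1) (nat_lit 118) (nat_lit 1) (nat_lit 120) (nat_lit 1) (nat_lit 432) (nat_lit 353) (nat_lit 235))) (XT.nd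 (nat_lit 78) (nat_lit 76) (nat_lit 0) (XT.lf (nat_lit 76) (nat_lit 498165986) (nat_lit 0) (nat_lit 482388313) (nat_lit 228) (nat_lit 498165986) (nat_lit 119) (nat_lit 1) (nat_lit 118) (nat_lit 1) (nat_lit 121) (nat_lit 1) (nat_lit 433) (nat_lit 353) (nat_lit 234)) (XT.nd (nat_lit 78) (nat_lit 0) (nat_lit 0) (XT.lf (nat_lit 152) (nat_lit 526308355) (nat_lit 0) (nat_lit 468752542) (nat_lit 76) (nat_lit 468752542) (nat_lit 119) (nat_lit 1) (nat_lit 117) (nat_lit 1) (nat_lit 118) (nat_lit 1) (nat_lit 434) (nat_lit 353) (nat_lit 233)) (XT.lf (nat_lit 0) (nat_lit 32381885) (nat_lit 0) (nat_lit 1384425226) (nat_lit 152) (nat_lit 32381885) (nat_lit 117) (nat_lit 3) (nat_lit 117) (nat_lit 1) (nat_lit 119) (nat_lit 1) (nat_lit 435) (nat_lit 353) (nat_lit 232)))))) (XT.nd (nat_lit 43758) (nat_lit 0) (nat_lit 19836) (XT.nd (nat_lit 43524) (nat_lit 0) (nat_lit 19684) (XT.nd (nat_lit 43446) (nat_lit 0) (nat_lit 19684)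 (XT.lf (nat_lit 76) (nat_lit 522657657) (nat_lit 0) (nat_lit 389165409) (nat_lit 152) (nat_lit 522657657) (nat_lit 116) (nat_lit 1) (nat_lit 115) (nat_lit 1) (nat_lit 117) (nat_lit 1) (nat_lit 436) (nat_lit 353) (nat_lit 231)) (XT.lf (nat_lit 1292) (nat_lit 564138608) (nat_lit 0) (nat_lit 1940899177) (nat_lit 1292) (nat_lit 564138608) (nat_lit 391) (nat_lit 1) (nat_lit 374) (nat_lit 0) (nat_lit 391) (nat_lit 0) (nat_lit 312) (nat_lit 354) (nat_lit 354))) (XT.nd (nat_lit 78) (nat_lit 0) (nat_lit 76) (XT.lf (nat_lit 1292) (nat_lit 2204663568) (nat_lit 76) (nat_lit 1921870754) (nat_lit 0) (nat_lit 1921870754) (nat_lit 391) (nat_lit 1) (nat_lit 375) (nat_lit 1) (nat_lit 374) (nat_lit 0) (nat_lit 313) (nat_lit 354) (nat_lit 353)) (XT.nd (nat_lit 78) (nat_lit 0) (nat_lit 0) (XT.lf (nat_lit 1292) (nat_lit 1066227867) (nat_lit 0) (nat_lit 3827985689) (nat_lit 1216) (nat_lit 1066227867) (nat_lit 392) (nat_lit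 1) (nat_lit 375) (nat_lit 1) (nat_lit 391) (nat_lit 1) (nat_lit 314) (nat_lit 354) (nat_lit 352)) (XT.lf (nat_lit 1292) (nat_lit 2024821769) (nat_lit 76) (nat_lit 1924562481) (nat_lit 0) (nat_lit 1924562481) (nat_lit 392) (nat_lit 1) (nat_lit 376) (nat_lit 1) (nat_lit 375) (nat_lit 1) (nat_lit 315) (nat_lit 354) (nat_lit 351))))) (XT.nd (nat_lit 156) (nat_lit 0) (nat_lit 76) (XT.nd (nat_lit 78) (nat_lit 0) (nat_lit 0) (XT.lf (nat_lit 1292) (nat_lit 950137517) (nat_lit 0) (nat_lit 3889112354) (nat_lit 1216) (nat_lit 950137517) (nat_lit 393) (nat_lit 1) (nat_lit 376) (nat_lit 1) (nat_lit 392) (nat_lit 1) (nat_lit 316) (nat_lit 354) (nat_lit 350)) (XT.lf (nat_lit 1292) (nat_lit 1741227321) (nat_lit 76) (nat_lit 1982476538) (nat_lit 0) (nat_lit 1982476538) (nat_lit 393) (nat_lit 1) (nat_lit 377) (nat_lit 1) (nat_lit 376) (nat_lit 1) (nat_lit 317) (nat_lit 354) (nat_lit 349))) (XT.nd (nat_lit 78) (nat_lit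 0) (nat_lit 0) (XT.lf (nat_lit 1292) (nat_lit 784786095) (nat_lit 0) (nat_lit 4055322589) (nat_lit 1216) (nat_lit 784786095) (nat_lit 394) (nat_lit 1) (nat_lit 377) (nat_lit 1) (nat_lit 393) (nat_lit 1) (nat_lit 318) (nat_lit 354) (nat_lit 348)) (XT.nd (nat_lit 78) (nat_lit 0) (nat_lit 76) (XT.lf (nat_lit 1292) (nat_lit 1363158660) (nat_lit 76) (nat_lit 2090830020) (nat_lit 0) (nat_lit 2090830020) (nat_lit 394) (nat_lit 1) (nat_lit 378) (nat_lit 1) (nat_lit 377) (nat_lit 1) (nat_lit 319) (nat_lit 354) (nat_lit 347)) (XT.lf (nat_lit 1292) (nat_lit 574630277) (nat_lit 0) (nat_lit 4317421278) (nat_lit 1216) (nat_lit 574630277) (nat_lit 395) (nat_lit 1) (nat_lit 378) (nat_lit 1) (nat_lit 394) (nat_lit 1) (nat_lit 320) (nat_lit 354) (nat_lit 346))))))))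
noncomputable def ec100 : XT := (XT.nd (nat_lit 1404) (nat_lit 5168) (nat_lit 0) (XT.nd (nat_lit 702) (nat_lit 3116) (nat_lit 0) (XT.nd (nat_lit 312) (nat_lit 1140) (nat_lit 0) (XT.nd (nat_lit 156) (nat_lit 0) (nat_lit 76) (XT.nd (nat_lit 78) (nat_lit 0) (nat_lit 76) (XT.lf (nat_lit 1292) (nat_lit 899264830) (nat_lit 76) (nat_lit 2245161559) (nat_lit 0) (nat_lit 2245161559) (nat_lit 395) (nat_lit 1) (nat_lit 379) (nat_lit 1) (nat_lit 378) (nat_lit 1) (nat_lit 321) (nat_lit 354) (nat_lit 345)) (XT.lf (nat_lit 1292) (nat_lit 323823461) (nat_lit 0) (nat_lit 4666833267) (nat_lit 1216) (nat_lit 323823461) (nat_lit 396) (nat_lit 1) (nat_lit 379) (nat_lit 1) (nat_lit 395) (nat_lit 1) (nat_lit 322) (nat_lit 354) (nat_lit 344))) (XT.nd (nat_lit 78) (nat_lit 0) (nat_lit 76) (XT.lf (nat_lit 1292) (nat_lit 357604425) (nat_lit 76) (nat_lit 2441311495) (nat_lit 0) (nat_lit 2441311495) (nat_lit 396) (nat_lit 1) (nat_lit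 380) (nat_lit 1) (nat_lit 379) (nat_lit 1) (nat_lit 323) (nat_lit 354) (nat_lit 343)) (XT.lf (nat_lit 1292) (nat_lit 36234564) (nat_lit 0) (nat_lit 5095565089) (nat_lit 1216) (nat_lit 36234564) (nat_lit 397) (nat_lit 1) (nat_lit 380) (nat_lit 1) (nat_lit 396) (nat_lit 1) (nat_lit 324) (nat_lit 354) (nat_lit 342)))) (XT.nd (nat_lit 156) (nat_lit 0) (nat_lit 76) (XT.nd (nat_lit 78) (nat_lit 0) (nat_lit 0) (XT.lf (nat_lit 1368) (nat_lit 2423530117) (nat_lit 0) (nat_lit 249355119) (nat_lit 1292) (nat_lit 2423530117) (nat_lit 381) (nat_lit 1) (nat_lit 363) (nat_lit 1) (nat_lit 380) (nat_lit 1) (nat_lit 325) (nat_lit 354) (nat_lit 341)) (XT.lf (nat_lit 1368) (nat_lit 4463280972) (nat_lit 76) (nat_lit 281744756) (nat_lit 0) (nat_lit 281744756) (nat_lit 381) (nat_lit 1) (nat_lit 364) (nat_lit 1) (nat_lit 363) (nat_lit 1) (nat_lit 326) (nat_lit 354) (nat_lit 340))) (XT.nd (nat_lit 78) (nat_lit 0) (nat_lit 0)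 (XT.lf (nat_lit 1368) (nat_lit 2023244423) (nat_lit 0) (nat_lit 911378147) (nat_lit 1292) (nat_lit 2023244423) (nat_lit 382) (nat_lit 1) (nat_lit 364) (nat_lit 1) (nat_lit 381) (nat_lit 1) (nat_lit 327) (nat_lit 354) (nat_lit 339)) (XT.nd (nat_lit 78) (nat_lit 0) (nat_lit 76) (XT.lf (nat_lit 1368) (nat_lit 3632901217) (nat_lit 76) (nat_lit 628904469) (nat_lit 0) (nat_lit 628904469) (nat_lit 382) (nat_lit 1) (nat_lit 365) (nat_lit 1) (nat_lit 364) (nat_lit 1) (nat_lit 328) (nat_lit 354) (nat_lit 338)) (XT.lf (nat_lit 76) (nat_lit 1597695255) (nat_lit 0) (nat_lit 1629071182) (nat_lit 1292) (nat_lit 1597695255) (nat_lit 366) (nat_lit 1) (nat_lit 365) (nat_lit 1) (nat_lit 382) (nat_lit 1) (nat_lit 329) (nat_lit 354) (nat_lit 337)))))) (XT.nd (nat_lit 312) (nat_lit 1824) (nat_lit 0) (XT.nd (nat_lit 156) (nat_lit 608) (nat_lit 0) (XT.nd (nat_lit 78) (nat_lit 0) (nat_lit 0) (XT.lf (nat_lit 912) (nat_lit 2754651548)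 (nat_lit 0) (nat_lit 1002513032) (nat_lit 836) (nat_lit 1002513032) (nat_lit 366) (nat_lit 1) (nat_lit 354) (nat_lit 1) (nat_lit 365) (nat_lit 1) (nat_lit 330) (nat_lit 354) (nat_lit 336)) (XT.lf (nat_lit 76) (nat_lit 1149737932) (nat_lit 0) (nat_lit 2396510201) (nat_lit 912) (nat_lit 1149737932) (nat_lit 355) (nat_lit 1) (nat_lit 354) (nat_lit 1) (nat_lit 366) (nat_lit 1) (nat_lit 331) (nat_lit 354) (nat_lit 335))) (XT.nd (nat_lit 78) (nat_lit 0) (nat_lit 0) (XT.lf (nat_lit 684) (nat_lit 1834062528) (nat_lit 0) (nat_lit 1399701379) (nat_lit 608) (nat_lit 1399701379) (nat_lit 355) (nat_lit 1) (nat_lit 346) (nat_lit 1) (nat_lit 354) (nat_lit 1) (nat_lit 332) (nat_lit 354) (nat_lit 334)) (XT.lf (nat_lit 76) (nat_lit 682022942) (nat_lit 0) (nat_lit 3208190712) (nat_lit 684) (nat_lit 682022942) (nat_lit 347) (nat_lit 1) (nat_lit 346) (nat_lit 1) (nat_lit 355) (nat_lit 1) (nat_lit 333) (nat_lit 354) (nat_lit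 333)))) (XT.nd (nat_lit 156) (nat_lit 1216) (nat_lit 0) (XT.nd (nat_lit 78) (nat_lit 0) (nat_lit 0) (XT.lf (nat_lit 684) (nat_lit 876266196) (nat_lit 0) (nat_lit 1817804484) (nat_lit 608) (nat_lit 1817804484) (nat_lit 347) (nat_lit 1) (nat_lit 338) (nat_lit 1) (nat_lit 346) (nat_lit 1) (nat_lit 334) (nat_lit 354) (nat_lit 332)) (XT.lf (nat_lit 76) (nat_lit 197008890) (nat_lit 0) (nat_lit 4059001356) (nat_lit 684) (nat_lit 197008890) (nat_lit 339) (nat_lit 1) (nat_lit 338) (nat_lit 1) (nat_lit 347) (nat_lit 1) (nat_lit 335) (nat_lit 354) (nat_lit 331))) (XT.nd (nat_lit 78) (nat_lit 608) (nat_lit 0) (XT.lf (nat_lit 76) (nat_lit 2141465439) (nat_lit 0) (nat_lit 111754561) (nat_lit 608) (nat_lit 2141465439) (nat_lit 331) (nat_lit 1) (nat_lit 330) (nat_lit 1) (nat_lit 338) (nat_lit 1) (nat_lit 336) (nat_lit 354) (nat_lit 330)) (XT.nd (nat_lit 78) (nat_lit 0) (nat_lit 0) (XT.lf (nat_lit 684) (nat_lit 3737688140)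 (nat_lit 0) (nat_lit 300054492) (nat_lit 608) (nat_lit 300054492) (nat_lit 331) (nat_lit 1) (nat_lit 322) (nat_lit 1) (nat_lit 330) (nat_lit 1) (nat_lit 337) (nat_lit 354) (nat_lit 329)) (XT.lf (nat_lit 76) (nat_lit 1585659722) (nat_lit 0) (nat_lit 1110168436) (nat_lit 684) (nat_lit 1585659722) (nat_lit 323) (nat_lit 1) (nat_lit 322) (nat_lit 1) (nat_lit 331) (nat_lit 1) (nat_lit 338) (nat_lit 354) (nat_lit 328))))))) (XT.nd (nat_lit 702) (nat_lit 2584) (nat_lit 0) (XT.nd (nat_lit 312) (nat_lit 1520) (nat_lit 0) (XT.nd (nat_lit 156) (nat_lit 532) (nat_lit 0) (XT.nd (nat_lit 78) (nat_lit 0) (nat_lit 0) (XT.lf (nat_lit 608) (nat_lit 2610562921) (nat_lit 0) (nat_lit 807969391) (nat_lit 532) (nat_lit 807969391) (nat_lit 323) (nat_lit 1) (nat_lit 315) (nat_lit 1) (nat_lit 322) (nat_lit 1) (nat_lit 339) (nat_lit 354) (nat_lit 327)) (XT.lf (nat_lit 76) (nat_lit 1020145977) (nat_lit 0) (nat_lit 2132072281)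 (nat_lit 608) (nat_lit 1020145977) (nat_lit 316) (nat_lit 1) (nat_lit 315) (nat_lit 1) (nat_lit 323) (nat_lit 1) (nat_lit 340) (nat_lit 354) (nat_lit 326))) (XT.nd (nat_lit 78) (nat_lit 0) (nat_lit 0) (XT.lf (nat_lit 608) (nat_lit 1465728151) (nat_lit 0) (nat_lit 1326733309) (nat_lit 532) (nat_lit 1326733309) (nat_lit 316) (nat_lit 1) (nat_lit 308) (nat_lit 1) (nat_lit 315) (nat_lit 1) (nat_lit 341) (nat_lit 354) (nat_lit 325)) (XT.lf (nat_lit 76) (nat_lit 446693528) (nat_lit 0) (nat_lit 3173764190) (nat_lit 608) (nat_lit 446693528) (nat_lit 309) (nat_lit 1) (nat_lit 308) (nat_lit 1) (nat_lit 316) (nat_lit 1) (nat_lit 342) (nat_lit 354) (nat_lit 324)))) (XT.nd (nat_lit 156) (nat_lit 456) (nat_lit 0) (XT.nd (nat_lit 78) (nat_lit 608) (nat_lit 0) (XT.lf (nat_lit 532) (nat_lit 306600756) (nat_lit 0) (nat_lit 1854558263) (nat_lit 456) (nat_lit 1854558263) (nat_lit 309) (nat_lit 1) (nat_lit 302) (nat_lit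 1) (nat_lit 308) (nat_lit 1) (nat_lit 343) (nat_lit 354) (nat_lit 323)) (XT.lf (nat_lit 608) (nat_lit 3702017498) (nat_lit 0) (nat_lit 131760605) (nat_lit 532) (nat_lit 131760605) (nat_lit 302) (nat_lit 1) (nat_lit 294) (nat_lit 1) (nat_lit 301) (nat_lit 1) (nat_lit 344) (nat_lit 354) (nat_lit 322))) (XT.nd (nat_lit 78) (nat_lit 456) (nat_lit 0) (XT.lf (nat_lit 76) (nat_lit 1534426555) (nat_lit 0) (nat_lit 846815115) (nat_lit 608) (nat_lit 1534426555) (nat_lit 295) (nat_lit 1) (nat_lit 294) (nat_lit 1) (nat_lit 302) (nat_lit 1) (nat_lit 345) (nat_lit 354) (nat_lit 321)) (XT.nd (nat_lit 78) (nat_lit 0) (nat_lit 0) (XT.lf (nat_lit 532) (nat_lit 2445828294) (nat_lit 0) (nat_lit 710590088) (nat_lit 456) (nat_lit 710590088) (nat_lit 295) (nat_lit 1) (nat_lit 288) (nat_lit 1) (nat_lit 294) (nat_lit 1) (nat_lit 346) (nat_lit 354) (nat_lit 320)) (XT.lf (nat_lit 76) (nat_lit 908366855) (nat_lit 0) (nat_lit 2002326956)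 (nat_lit 532) (nat_lit 908366855) (nat_lit 289) (nat_lit 1) (nat_lit 288) (nat_lit 1) (nat_lit 295) (nat_lit 1) (nat_lit 347) (nat_lit 354) (nat_lit 319)))))) (XT.nd (nat_lit 390) (nat_lit 1216) (nat_lit 0) (XT.nd (nat_lit 156) (nat_lit 912) (nat_lit 0) (XT.nd (nat_lit 78) (nat_lit 0) (nat_lit 0) (XT.lf (nat_lit 532) (nat_lit 1186331612) (nat_lit 0) (nat_lit 1292803010) (nat_lit 456) (nat_lit 1292803010) (nat_lit 289) (nat_lit 1) (nat_lit 282) (nat_lit 1) (nat_lit 288) (nat_lit 1) (nat_lit 348) (nat_lit 354) (nat_lit 318)) (XT.lf (nat_lit 76) (nat_lit 281272442) (nat_lit 0) (nat_lit 3163300119) (nat_lit 532) (nat_lit 281272442) (nat_lit 283) (nat_lit 1) (nat_lit 282) (nat_lit 1) (nat_lit 289) (nat_lit 1) (nat_lit 349) (nat_lit 354) (nat_lit 317))) (XT.nd (nat_lit 78) (nat_lit 456) (nat_lit 0) (XT.lf (nat_lit 76) (nat_lit 1803764934) (nat_lit 0) (nat_lit 72640359) (nat_lit 456) (nat_lit 1803764934) (nat_lit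 277) (nat_lit 1) (nat_lit 276) (nat_lit 1) (nat_lit 282) (nat_lit 1) (nat_lit 350) (nat_lit 354) (nat_lit 316)) (XT.nd (nat_lit 78) (nat_lit 0) (nat_lit 0) (XT.lf (nat_lit 532) (nat_lit 2950826483) (nat_lit 0) (nat_lit 342330984) (nat_lit 456) (nat_lit 342330984) (nat_lit 277) (nat_lit 1) (nat_lit 270) (nat_lit 1) (nat_lit 276) (nat_lit 1) (nat_lit 351) (nat_lit 354) (nat_lit 315)) (XT.lf (nat_lit 76) (nat_lit 1142017138) (nat_lit 0) (nat_lit 1307222856) (nat_lit 532) (nat_lit 1142017138) (nat_lit 271) (nat_lit 1) (nat_lit 270) (nat_lit 1) (nat_lit 277) (nat_lit 1) (nat_lit 352) (nat_lit 354) (nat_lit 314))))) (XT.nd (nat_lit 156) (nat_lit 836) (nat_lit 0) (XT.nd (nat_lit 78) (nat_lit 0) (nat_lit 0) (XT.lf (nat_lit 456) (nat_lit 1623847292) (nat_lit 0) (nat_lit 962046766) (nat_lit 380) (nat_lit 962046766) (nat_lit 271) (nat_lit 1) (nat_lit 265) (nat_lit 1) (nat_lit 270) (nat_lit 1) (nat_lit 353) (nat_lit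 354) (nat_lit 313)) (XT.lf (nat_lit 76) (nat_lit 483405679) (nat_lit 0) (nat_lit 2538606517) (nat_lit 456) (nat_lit 483405679) (nat_lit 266) (nat_lit 1) (nat_lit 265) (nat_lit 1) (nat_lit 271) (nat_lit 1) (nat_lit 354) (nat_lit 354) (nat_lit 312))) (XT.nd (nat_lit 78) (nat_lit 456) (nat_lit 0) (XT.lf (nat_lit 456) (nat_lit 304024094) (nat_lit 0) (nat_lit 1579692231) (nat_lit 380) (nat_lit 1579692231) (nat_lit 266) (nat_lit 1) (nat_lit 260) (nat_lit 1) (nat_lit 265) (nat_lit 1) (nat_lit 355) (nat_lit 354) (nat_lit 311)) (XT.nd (nat_lit 78) (nat_lit 0) (nat_lit 0) (XT.lf (nat_lit 456) (nat_lit 3083225329) (nat_lit 0) (nat_lit 169555644) (nat_lit 380) (nat_lit 169555644) (nat_lit 260) (nat_lit 1) (nat_lit 254) (nat_lit 1) (nat_lit 259) (nat_lit 1) (nat_lit 356) (nat_lit 354) (nat_lit 310)) (XT.lf (nat_lit 76) (nat_lit 1197047041) (nat_lit 0) (nat_lit 987392609) (nat_lit 456) (nat_lit 1197047041) (nat_lit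 255) (nat_lit 1) (nat_lit 254) (nat_lit 1) (nat_lit 260) (nat_lit 1) (nat_lit 357) (nat_lit 354) (nat_lit 309))))))))
noncomputable def ec101 : XT := (XT.nd (nat_lit 1482) (nat_lit 2736) (nat_lit 0) (XT.nd (nat_lit 702) (nat_lit 1748) (nat_lit 0) (XT.nd (nat_lit 312) (nat_lit 988) (nat_lit 0) (XT.nd (nat_lit 156) (nat_lit 760) (nat_lit 0) (XT.nd (nat_lit 78) (nat_lit 0) (nat_lit 0) (XT.lf (nat_lit 456) (nat_lit 1715354300) (nat_lit 0) (nat_lit 813095159) (nat_lit 380) (nat_lit 813095159) (nat_lit 255) (nat_lit 1) (nat_lit 249) (nat_lit 1) (nat_lit 254) (nat_lit 1) (nat_lit 358) (nat_lit 354) (nat_lit 308)) (XT.lf (nat_lit 76) (nat_lit 519699966) (nat_lit 0) (nat_lit 2262871304) (nat_lit 456) (nat_lit 519699966) (nat_lit 250) (nat_lit 1) (nat_lit 249) (nat_lit 1) (nat_lit 255) (nat_lit 1) (nat_lit 359) (nat_lit 354) (nat_lit 307))) (XT.nd (nat_lit 78) (nat_lit 456) (nat_lit 0) (XT.lf (nat_lit 380) (nat_lit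 360948542) (nat_lit 0) (nat_lit 1451273515) (nat_lit 304) (nat_lit 1451273515) (nat_lit 250) (nat_lit 1) (nat_lit 245) (nat_lit 1) (nat_lit 249) (nat_lit 1) (nat_lit 360) (nat_lit 354) (nat_lit 306)) (XT.lf (nat_lit 456) (nat_lit 2927208748) (nat_lit 0) (nat_lit 149180898) (nat_lit 380) (nat_lit 149180898) (nat_lit 245) (nat_lit 1) (nat_lit 239) (nat_lit 1) (nat_lit 244) (nat_lit 1) (nat_lit 361) (nat_lit 354) (nat_lit 305)))) (XT.nd (nat_lit 156) (nat_lit 684) (nat_lit 0) (XT.nd (nat_lit 78) (nat_lit 304) (nat_lit 0) (XT.lf (nat_lit 76) (nat_lit 1114018071) (nat_lit 0) (nat_lit 959768787) (nat_lit 456) (nat_lit 1114018071) (nat_lit 240) (nat_lit 1) (nat_lit 239) (nat_lit 1) (nat_lit 245) (nat_lit 1) (nat_lit 362) (nat_lit 354) (nat_lit 304)) (XT.lf (nat_lit 380) (nat_lit 1539818288) (nat_lit 0) (nat_lit 805523465) (nat_lit 304) (nat_lit 805523465) (nat_lit 240) (nat_lit 1) (nat_lit 235) (nat_lit 1)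 (nat_lit 239) (nat_lit 1) (nat_lit 363) (nat_lit 354) (nat_lit 303))) (XT.nd (nat_lit 78) (nat_lit 684) (nat_lit 0) (XT.lf (nat_lit 76) (nat_lit 428199945) (nat_lit 0) (nat_lit 2258157482) (nat_lit 380) (nat_lit 428199945) (nat_lit 236) (nat_lit 1) (nat_lit 235) (nat_lit 1) (nat_lit 240) (nat_lit 1) (nat_lit 364) (nat_lit 354) (nat_lit 302)) (XT.nd (nat_lit 78) (nat_lit 380) (nat_lit 0) (XT.lf (nat_lit 380) (nat_lit 170748082) (nat_lit 0) (nat_lit 1453957066) (nat_lit 304) (nat_lit 1453957066) (nat_lit 236) (nat_lit 1) (nat_lit 231) (nat_lit 1) (nat_lit 235) (nat_lit 1) (nat_lit 365) (nat_lit 354) (nat_lit 301)) (XT.lf (nat_lit 380) (nat_lit 2551720435) (nat_lit 0) (nat_lit 245877498) (nat_lit 304) (nat_lit 245877498) (nat_lit 231) (nat_lit 1) (nat_lit 226) (nat_lit 1) (nat_lit 230) (nat_lit 1) (nat_lit 366) (nat_lit 354) (nat_lit 300)))))) (XT.nd (nat_lit 390) (nat_lit 836) (nat_lit 0) (XT.nd (nat_lit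 156) (nat_lit 608) (nat_lit 0) (XT.nd (nat_lit 78) (nat_lit 304) (nat_lit 0) (XT.lf (nat_lit 76) (nat_lit 926137067) (nat_lit 0) (nat_lit 1156255705) (nat_lit 380) (nat_lit 926137067) (nat_lit 227) (nat_lit 1) (nat_lit 226) (nat_lit 1) (nat_lit 231) (nat_lit 1) (nat_lit 367) (nat_lit 354) (nat_lit 299)) (XT.lf (nat_lit 380) (nat_lit 1161864216) (nat_lit 0) (nat_lit 906203846) (nat_lit 304) (nat_lit 906203846) (nat_lit 227) (nat_lit 1) (nat_lit 222) (nat_lit 1) (nat_lit 226) (nat_lit 1) (nat_lit 368) (nat_lit 354) (nat_lit 298))) (XT.nd (nat_lit 78) (nat_lit 608) (nat_lit 0) (XT.lf (nat_lit 76) (nat_lit 240029859) (nat_lit 0) (nat_lit 2460617008) (nat_lit 380) (nat_lit 240029859) (nat_lit 223) (nat_lit 1) (nat_lit 222) (nat_lit 1) (nat_lit 227) (nat_lit 1) (nat_lit 369) (nat_lit 354) (nat_lit 297)) (XT.nd (nat_lit 78) (nat_lit 304) (nat_lit 0) (XT.lf (nat_lit 76) (nat_lit 1352653956) (nat_lit 0) (nat_lit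 201990092) (nat_lit 304) (nat_lit 1352653956) (nat_lit 219) (nat_lit 1) (nat_lit 218) (nat_lit 1) (nat_lit 222) (nat_lit 1) (nat_lit 370) (nat_lit 354) (nat_lit 296)) (XT.lf (nat_lit 380) (nat_lit 2013036023) (nat_lit 0) (nat_lit 430763802) (nat_lit 304) (nat_lit 430763802) (nat_lit 219) (nat_lit 1) (nat_lit 214) (nat_lit 1) (nat_lit 218) (nat_lit 1) (nat_lit 371) (nat_lit 354) (nat_lit 295))))) (XT.nd (nat_lit 156) (nat_lit 608) (nat_lit 0) (XT.nd (nat_lit 78) (nat_lit 228) (nat_lit 0) (XT.lf (nat_lit 76) (nat_lit 660498171) (nat_lit 0) (nat_lit 1521205821) (nat_lit 380) (nat_lit 660498171) (nat_lit 215) (nat_lit 1) (nat_lit 214) (nat_lit 1) (nat_lit 219) (nat_lit 1) (nat_lit 372) (nat_lit 354) (nat_lit 294)) (XT.lf (nat_lit 304) (nat_lit 634199376) (nat_lit 0) (nat_lit 1088074755) (nat_lit 228) (nat_lit 1088074755) (nat_lit 215) (nat_lit 1) (nat_lit 211) (nat_lit 1) (nat_lit 214) (nat_lit 1) (nat_lit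 373) (nat_lit 354) (nat_lit 293))) (XT.nd (nat_lit 78) (nat_lit 228) (nat_lit 0) (XT.lf (nat_lit 380) (nat_lit 2740726060) (nat_lit 0) (nat_lit 19245944) (nat_lit 304) (nat_lit 19245944) (nat_lit 211) (nat_lit 1) (nat_lit 206) (nat_lit 1) (nat_lit 210) (nat_lit 1) (nat_lit 374) (nat_lit 354) (nat_lit 292)) (XT.nd (nat_lit 78) (nat_lit 228) (nat_lit 0) (XT.lf (nat_lit 76) (nat_lit 1021052566) (nat_lit 0) (nat_lit 705920679) (nat_lit 380) (nat_lit 1021052566) (nat_lit 207) (nat_lit 1) (nat_lit 206) (nat_lit 1) (nat_lit 211) (nat_lit 1) (nat_lit 375) (nat_lit 354) (nat_lit 291)) (XT.lf (nat_lit 304) (nat_lit 1356911595) (nat_lit 0) (nat_lit 680314505) (nat_lit 228) (nat_lit 680314505) (nat_lit 207) (nat_lit 1) (nat_lit 203) (nat_lit 1) (nat_lit 206) (nat_lit 1) (nat_lit 376) (nat_lit 354) (nat_lit 290))))))) (XT.nd (nat_lit 702) (nat_lit 1444) (nat_lit 0) (XT.nd (nat_lit 312) (nat_lit 760) (nat_lit 0)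 (XT.nd (nat_lit 156) (nat_lit 228) (nat_lit 0) (XT.nd (nat_lit 78) (nat_lit 304) (nat_lit 0) (XT.lf (nat_lit 76) (nat_lit 339120191) (nat_lit 0) (nat_lit 2009311630) (nat_lit 304) (nat_lit 339120191) (nat_lit 204) (nat_lit 1) (nat_lit 203) (nat_lit 1) (nat_lit 207) (nat_lit 1) (nat_lit 377) (nat_lit 354) (nat_lit 289)) (XT.lf (nat_lit 76) (nat_lit 1328753626) (nat_lit 0) (nat_lit 355758) (nat_lit 304) (nat_lit 1328753626) (nat_lit 200) (nat_lit 1) (nat_lit 199) (nat_lit 1) (nat_lit 203) (nat_lit 1) (nat_lit 378) (nat_lit 354) (nat_lit 288))) (XT.nd (nat_lit 78) (nat_lit 0) (nat_lit 0) (XT.lf (nat_lit 304) (nat_lit 1975922323) (nat_lit 0) (nat_lit 326367303) (nat_lit 228) (nat_lit 326367303) (nat_lit 200) (nat_lit 1) (nat_lit 196) (nat_lit 1) (nat_lit 199) (nat_lit 1) (nat_lit 379) (nat_lit 354) (nat_lit 287)) (XT.lf (nat_lit 76) (nat_lit 647312897) (nat_lit 0) (nat_lit 1305105905) (nat_lit 304) (nat_lit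 647312897) (nat_lit 197) (nat_lit 1) (nat_lit 196) (nat_lit 1) (nat_lit 200) (nat_lit 1) (nat_lit 380) (nat_lit 354) (nat_lit 286)))) (XT.nd (nat_lit 156) (nat_lit 228) (nat_lit 0) (XT.nd (nat_lit 78) (nat_lit 304) (nat_lit 0) (XT.lf (nat_lit 304) (nat_lit 620377698) (nat_lit 0) (nat_lit 975449289) (nat_lit 228) (nat_lit 975449289) (nat_lit 197) (nat_lit 1) (nat_lit 193) (nat_lit 1) (nat_lit 196) (nat_lit 1) (nat_lit 381) (nat_lit 354) (nat_lit 285)) (XT.lf (nat_lit 304) (nat_lit 2503468717) (nat_lit 0) (nat_lit 19989314) (nat_lit 228) (nat_lit 19989314) (nat_lit 193) (nat_lit 1) (nat_lit 189) (nat_lit 1) (nat_lit 192) (nat_lit 1) (nat_lit 382) (nat_lit 354) (nat_lit 284))) (XT.nd (nat_lit 78) (nat_lit 228) (nat_lit 0) (XT.lf (nat_lit 76) (nat_lit 911060192) (nat_lit 0) (nat_lit 693412942) (nat_lit 304) (nat_lit 911060192) (nat_lit 190) (nat_lit 1) (nat_lit 189) (nat_lit 1) (nat_lit 193) (nat_lit 1)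 (nat_lit 383) (nat_lit 354) (nat_lit 283)) (XT.nd (nat_lit 78) (nat_lit 0) (nat_lit 0) (XT.lf (nat_lit 304) (nat_lit 1153818983) (nat_lit 0) (nat_lit 667207674) (nat_lit 228) (nat_lit 667207674) (nat_lit 190) (nat_lit 1) (nat_lit 186) (nat_lit 1) (nat_lit 189) (nat_lit 1) (nat_lit 384) (nat_lit 354) (nat_lit 282)) (XT.lf (nat_lit 76) (nat_lit 246779360) (nat_lit 0) (nat_lit 1967838998) (nat_lit 304) (nat_lit 246779360) (nat_lit 187) (nat_lit 1) (nat_lit 186) (nat_lit 1) (nat_lit 190) (nat_lit 1) (nat_lit 385) (nat_lit 354) (nat_lit 281)))))) (XT.nd (nat_lit 390) (nat_lit 532) (nat_lit 0) (XT.nd (nat_lit 156) (nat_lit 456) (nat_lit 0) (XT.nd (nat_lit 78) (nat_lit 228) (nat_lit 0) (XT.lf (nat_lit 76) (nat_lit 1135611848) (nat_lit 0) (nat_lit 163509048) (nat_lit 228) (nat_lit 1135611848) (nat_lit 184) (nat_lit 1) (nat_lit 183) (nat_lit 1) (nat_lit 186) (nat_lit 1) (nat_lit 386) (nat_lit 354) (nat_lit 280))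 (XT.lf (nat_lit 304) (nat_lit 1610222575) (nat_lit 0) (nat_lit 399148693) (nat_lit 228) (nat_lit 399148693) (nat_lit 184) (nat_lit 1) (nat_lit 180) (nat_lit 1) (nat_lit 183) (nat_lit 1) (nat_lit 387) (nat_lit 354) (nat_lit 279))) (XT.nd (nat_lit 78) (nat_lit 456) (nat_lit 0) (XT.lf (nat_lit 76) (nat_lit 476265558) (nat_lit 0) (nat_lit 1430075188) (nat_lit 304) (nat_lit 476265558) (nat_lit 181) (nat_lit 1) (nat_lit 180) (nat_lit 1) (nat_lit 184) (nat_lit 1) (nat_lit 388) (nat_lit 354) (nat_lit 278)) (XT.nd (nat_lit 78) (nat_lit 304) (nat_lit 0) (XT.lf (nat_lit 228) (nat_lit 299975374) (nat_lit 0) (nat_lit 1028531840) (nat_lit 152) (nat_lit 1028531840) (nat_lit 181) (nat_lit 1) (nat_lit 178) (nat_lit 1) (nat_lit 180) (nat_lit 1) (nat_lit 389) (nat_lit 354) (nat_lit 277)) (XT.lf (nat_lit 304) (nat_lit 1998690400) (nat_lit 0) (nat_lit 166622246) (nat_lit 228) (nat_lit 166622246) (nat_lit 178) (nat_lit 1)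 (nat_lit 174) (nat_lit 1) (nat_lit 177) (nat_lit 1) (nat_lit 390) (nat_lit 354) (nat_lit 276))))) (XT.nd (nat_lit 156) (nat_lit 380) (nat_lit 0) (XT.nd (nat_lit 78) (nat_lit 152) (nat_lit 0) (XT.lf (nat_lit 76) (nat_lit 672675481) (nat_lit 0) (nat_lit 961550589) (nat_lit 304) (nat_lit 672675481) (nat_lit 175) (nat_lit 1) (nat_lit 174) (nat_lit 1) (nat_lit 178) (nat_lit 1) (nat_lit 391) (nat_lit 354) (nat_lit 275)) (XT.lf (nat_lit 228) (nat_lit 701613863) (nat_lit 0) (nat_lit 790354452) (nat_lit 152) (nat_lit 790354452) (nat_lit 175) (nat_lit 1) (nat_lit 172) (nat_lit 1) (nat_lit 174) (nat_lit 1) (nat_lit 392) (nat_lit 354) (nat_lit 274))) (XT.nd (nat_lit 78) (nat_lit 380) (nat_lit 0) (XT.lf (nat_lit 76) (nat_lit 34839857) (nat_lit 0) (nat_lit 2188577823) (nat_lit 228) (nat_lit 34839857) (nat_lit 173) (nat_lit 1) (nat_lit 172) (nat_lit 1) (nat_lit 175) (nat_lit 1) (nat_lit 393) (nat_lit 354) (nat_lit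 273)) (XT.nd (nat_lit 78) (nat_lit 152) (nat_lit 0) (XT.lf (nat_lit 76) (nat_lit 839915590) (nat_lit 0) (nat_lit 554274086) (nat_lit 228) (nat_lit 839915590) (nat_lit 170) (nat_lit 1) (nat_lit 169) (nat_lit 1) (nat_lit 172) (nat_lit 1) (nat_lit 394) (nat_lit 354) (nat_lit 272)) (XT.lf (nat_lit 228) (nat_lit 1045791945) (nat_lit 0) (nat_lit 582333513) (nat_lit 152) (nat_lit 582333513) (nat_lit 170) (nat_lit 1) (nat_lit 167) (nat_lit 1) (nat_lit 169) (nat_lit 1) (nat_lit 395) (nat_lit 354) (nat_lit 271))))))))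
noncomputable def ec102 : XT := (XT.nd (nat_lit 1482) (nat_lit 1748) (nat_lit 0) (XT.nd (nat_lit 702) (nat_lit 912) (nat_lit 0) (XT.nd (nat_lit 312) (nat_lit 760) (nat_lit 0) (XT.nd (nat_lit 156) (nat_lit 152) (nat_lit 0) (XT.nd (nat_lit 78) (nat_lit 228) (nat_lit 0) (XT.lf (nat_lit 76) (nat_lit 209932747) (nat_lit 0) (nat_lit 1767334323) (nat_lit 228) (nat_lit 209932747) (nat_lit 168) (nat_lit 1) (nat_lit 167) (nat_lit 1) (nat_lit 170) (nat_lit 1) (nat_lit 396) (nat_lit 354) (nat_lit 270)) (XT.lf (nat_lit 76) (nat_lit 981450373) (nat_lit 0) (nat_lit 201153543) (nat_lit 228) (nat_lit 981450373) (nat_lit 165) (nat_lit 1) (nat_lit 164) (nat_lit 1) (nat_lit 167) (nat_lit 1) (nat_lit 397) (nat_lit 354) (nat_lit 269))) (XT.nd (nat_lit 78) (nat_lit 0) (nat_lit 0) (XT.lf (nat_lit 228) (nat_lit 1339286301) (nat_lit 0) (nat_lit 401001433) (nat_lit 152) (nat_lit 401001433) (nat_lit 165) (nat_lit 1) (nat_lit 162)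 (nat_lit 1) (nat_lit 164) (nat_lit 1) (nat_lit 398) (nat_lit 354) (nat_lit 268)) (XT.lf (nat_lit 76) (nat_lit 360287561) (nat_lit 0) (nat_lit 1398225765) (nat_lit 228) (nat_lit 360287561) (nat_lit 163) (nat_lit 1) (nat_lit 162) (nat_lit 1) (nat_lit 165) (nat_lit 1) (nat_lit 399) (nat_lit 354) (nat_lit 267)))) (XT.nd (nat_lit 156) (nat_lit 380) (nat_lit 0) (XT.nd (nat_lit 78) (nat_lit 228) (nat_lit 0) (XT.lf (nat_lit 228) (nat_lit 106176563) (nat_lit 0) (nat_lit 995195889) (nat_lit 152) (nat_lit 995195889) (nat_lit 163) (nat_lit 1) (nat_lit 160) (nat_lit 1) (nat_lit 162) (nat_lit 1) (nat_lit 400) (nat_lit 354) (nat_lit 266)) (XT.lf (nat_lit 228) (nat_lit 1588107177) (nat_lit 0) (nat_lit 243280356) (nat_lit 152) (nat_lit 243280356) (nat_lit 160) (nat_lit 1) (nat_lit 157) (nat_lit 1) (nat_lit 159) (nat_lit 1) (nat_lit 401) (nat_lit 354) (nat_lit 265))) (XT.nd (nat_lit 78) (nat_lit 380) (nat_lit 0) (XT.lf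 (nat_lit 76) (nat_lit 488814749) (nat_lit 0) (nat_lit 1075288113) (nat_lit 228) (nat_lit 488814749) (nat_lit 158) (nat_lit 1) (nat_lit 157) (nat_lit 1) (nat_lit 160) (nat_lit 1) (nat_lit 402) (nat_lit 354) (nat_lit 264)) (XT.nd (nat_lit 78) (nat_lit 228) (nat_lit 0) (XT.lf (nat_lit 228) (nat_lit 374390682) (nat_lit 0) (nat_lit 828551552) (nat_lit 152) (nat_lit 828551552) (nat_lit 158) (nat_lit 1) (nat_lit 155) (nat_lit 1) (nat_lit 157) (nat_lit 1) (nat_lit 403) (nat_lit 354) (nat_lit 263)) (XT.lf (nat_lit 228) (nat_lit 1797584156) (nat_lit 0) (nat_lit 106438607) (nat_lit 152) (nat_lit 106438607) (nat_lit 155) (nat_lit 1) (nat_lit 152) (nat_lit 1) (nat_lit 154) (nat_lit 1) (nat_lit 404) (nat_lit 354) (nat_lit 262)))))) (XT.nd (nat_lit 390) (nat_lit 456) (nat_lit 0) (XT.nd (nat_lit 156) (nat_lit 304) (nat_lit 0) (XT.nd (nat_lit 78) (nat_lit 152) (nat_lit 0) (XT.lf (nat_lit 76) (nat_lit 598095783) (nat_lit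 0) (nat_lit 793226776) (nat_lit 228) (nat_lit 598095783) (nat_lit 153) (nat_lit 1) (nat_lit 152) (nat_lit 1) (nat_lit 155) (nat_lit 1) (nat_lit 405) (nat_lit 354) (nat_lit 261)) (XT.lf (nat_lit 228) (nat_lit 604538534) (nat_lit 0) (nat_lit 682111589) (nat_lit 152) (nat_lit 682111589) (nat_lit 153) (nat_lit 1) (nat_lit 150) (nat_lit 1) (nat_lit 152) (nat_lit 1) (nat_lit 406) (nat_lit 354) (nat_lit 260))) (XT.nd (nat_lit 78) (nat_lit 304) (nat_lit 0) (XT.lf (nat_lit 76) (nat_lit 12066291) (nat_lit 0) (nat_lit 1924399813) (nat_lit 228) (nat_lit 12066291) (nat_lit 151) (nat_lit 1) (nat_lit 150) (nat_lit 1) (nat_lit 153) (nat_lit 1) (nat_lit 407) (nat_lit 354) (nat_lit 259)) (XT.nd (nat_lit 78) (nat_lit 152) (nat_lit 0) (XT.lf (nat_lit 76) (nat_lit 690419979) (nat_lit 0) (nat_lit 547341828) (nat_lit 152) (nat_lit 690419979) (nat_lit 149) (nat_lit 1) (nat_lit 148) (nat_lit 1) (nat_lit 150) (nat_lit 1) (nat_lit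 408) (nat_lit 354) (nat_lit 258)) (XT.lf (nat_lit 228) (nat_lit 801102582) (nat_lit 0) (nat_lit 553575727) (nat_lit 152) (nat_lit 553575727) (nat_lit 149) (nat_lit 1) (nat_lit 146) (nat_lit 1) (nat_lit 148) (nat_lit 1) (nat_lit 409) (nat_lit 354) (nat_lit 257))))) (XT.nd (nat_lit 156) (nat_lit 304) (nat_lit 0) (XT.nd (nat_lit 78) (nat_lit 152) (nat_lit 0) (XT.lf (nat_lit 76) (nat_lit 115159526) (nat_lit 0) (nat_lit 1658356633) (nat_lit 228) (nat_lit 115159526) (nat_lit 147) (nat_lit 1) (nat_lit 146) (nat_lit 1) (nat_lit 149) (nat_lit 1) (nat_lit 410) (nat_lit 354) (nat_lit 256)) (XT.lf (nat_lit 76) (nat_lit 767817191) (nat_lit 0) (nat_lit 333461573) (nat_lit 152) (nat_lit 767817191) (nat_lit 145) (nat_lit 1) (nat_lit 144) (nat_lit 1) (nat_lit 146) (nat_lit 1) (nat_lit 411) (nat_lit 354) (nat_lit 255))) (XT.nd (nat_lit 78) (nat_lit 152) (nat_lit 0) (XT.lf (nat_lit 228) (nat_lit 968058516) (nat_lit 0)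 (nat_lit 440901576) (nat_lit 152) (nat_lit 440901576) (nat_lit 145) (nat_lit 1) (nat_lit 142) (nat_lit 1) (nat_lit 144) (nat_lit 1) (nat_lit 412) (nat_lit 354) (nat_lit 254)) (XT.nd (nat_lit 78) (nat_lit 152) (nat_lit 0) (XT.lf (nat_lit 76) (nat_lit 203714623) (nat_lit 0) (nat_lit 1423479189) (nat_lit 228) (nat_lit 203714623) (nat_lit 143) (nat_lit 1) (nat_lit 142) (nat_lit 1) (nat_lit 145) (nat_lit 1) (nat_lit 413) (nat_lit 354) (nat_lit 253)) (XT.lf (nat_lit 76) (nat_lit 832086874) (nat_lit 0) (nat_lit 147883519) (nat_lit 152) (nat_lit 832086874) (nat_lit 141) (nat_lit 1) (nat_lit 140) (nat_lit 1) (nat_lit 142) (nat_lit 1) (nat_lit 414) (nat_lit 354) (nat_lit 252))))))) (XT.nd (nat_lit 702) (nat_lit 912) (nat_lit 0) (XT.nd (nat_lit 312) (nat_lit 380) (nat_lit 0) (XT.nd (nat_lit 156) (nat_lit 304) (nat_lit 0) (XT.nd (nat_lit 78) (nat_lit 0) (nat_lit 0) (XT.lf (nat_lit 228) (nat_lit 1108931965) (nat_lit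 0) (nat_lit 342275838) (nat_lit 152) (nat_lit 342275838) (nat_lit 141) (nat_lit 1) (nat_lit 138) (nat_lit 1) (nat_lit 140) (nat_lit 1) (nat_lit 415) (nat_lit 354) (nat_lit 251)) (XT.lf (nat_lit 76) (nat_lit 279441373) (nat_lit 0) (nat_lit 1216248454) (nat_lit 228) (nat_lit 279441373) (nat_lit 139) (nat_lit 1) (nat_lit 138) (nat_lit 1) (nat_lit 141) (nat_lit 1) (nat_lit 416) (nat_lit 354) (nat_lit 250))) (XT.nd (nat_lit 78) (nat_lit 228) (nat_lit 0) (XT.lf (nat_lit 152) (nat_lit 12930375) (nat_lit 0) (nat_lit 872017810) (nat_lit 76) (nat_lit 872017810) (nat_lit 139) (nat_lit 1) (nat_lit 137) (nat_lit 1) (nat_lit 138) (nat_lit 1) (nat_lit 417) (nat_lit 354) (nat_lit 249)) (XT.lf (nat_lit 228) (nat_lit 1226848884) (nat_lit 0) (nat_lit 256088715) (nat_lit 152) (nat_lit 256088715) (nat_lit 137) (nat_lit 1) (nat_lit 134) (nat_lit 1) (nat_lit 136) (nat_lit 1) (nat_lit 418) (nat_lit 354) (nat_lit 248)))) (XT.nd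 (nat_lit 156) (nat_lit 304) (nat_lit 0) (XT.nd (nat_lit 78) (nat_lit 76) (nat_lit 0) (XT.lf (nat_lit 76) (nat_lit 343856321) (nat_lit 0) (nat_lit 1033539086) (nat_lit 228) (nat_lit 343856321) (nat_lit 135) (nat_lit 1) (nat_lit 134) (nat_lit 1) (nat_lit 137) (nat_lit 1) (nat_lit 419) (nat_lit 354) (nat_lit 247)) (XT.lf (nat_lit 152) (nat_lit 154146663) (nat_lit 0) (nat_lit 774776530) (nat_lit 76) (nat_lit 774776530) (nat_lit 135) (nat_lit 1) (nat_lit 133) (nat_lit 1) (nat_lit 134) (nat_lit 1) (nat_lit 420) (nat_lit 354) (nat_lit 246))) (XT.nd (nat_lit 78) (nat_lit 76) (nat_lit 0) (XT.lf (nat_lit 228) (nat_lit 1324580310) (nat_lit 0) (nat_lit 180911182) (nat_lit 152) (nat_lit 180911182) (nat_lit 133) (nat_lit 1) (nat_lit 130) (nat_lit 1) (nat_lit 132) (nat_lit 1) (nat_lit 421) (nat_lit 354) (nat_lit 245)) (XT.nd (nat_lit 78) (nat_lit 76) (nat_lit 0) (XT.lf (nat_lit 76) (nat_lit 398304393) (nat_lit 0)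 (nat_lit 872575498) (nat_lit 228) (nat_lit 398304393) (nat_lit 131) (nat_lit 1) (nat_lit 130) (nat_lit 1) (nat_lit 133) (nat_lit 1) (nat_lit 422) (nat_lit 354) (nat_lit 244)) (XT.lf (nat_lit 152) (nat_lit 275460413) (nat_lit 0) (nat_lit 688378912) (nat_lit 76) (nat_lit 688378912) (nat_lit 131) (nat_lit 1) (nat_lit 129) (nat_lit 1) (nat_lit 130) (nat_lit 1) (nat_lit 423) (nat_lit 354) (nat_lit 243)))))) (XT.nd (nat_lit 390) (nat_lit 380) (nat_lit 0) (XT.nd (nat_lit 156) (nat_lit 304) (nat_lit 0) (XT.nd (nat_lit 78) (nat_lit 0) (nat_lit 0) (XT.lf (nat_lit 228) (nat_lit 1404582126) (nat_lit 0) (nat_lit 115474791) (nat_lit 152) (nat_lit 115474791) (nat_lit 129) (nat_lit 1) (nat_lit 126) (nat_lit 1) (nat_lit 128) (nat_lit 1) (nat_lit 424) (nat_lit 354) (nat_lit 242)) (XT.lf (nat_lit 76) (nat_lit 443978105) (nat_lit 0) (nat_lit 730892811) (nat_lit 228) (nat_lit 443978105) (nat_lit 127) (nat_lit 1) (nat_lit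 126) (nat_lit 1) (nat_lit 129) (nat_lit 1) (nat_lit 425) (nat_lit 354) (nat_lit 241))) (XT.nd (nat_lit 78) (nat_lit 228) (nat_lit 0) (XT.lf (nat_lit 152) (nat_lit 379212037) (nat_lit 0) (nat_lit 611615747) (nat_lit 76) (nat_lit 611615747) (nat_lit 127) (nat_lit 1) (nat_lit 125) (nat_lit 1) (nat_lit 126) (nat_lit 1) (nat_lit 426) (nat_lit 354) (nat_lit 240)) (XT.nd (nat_lit 78) (nat_lit 0) (nat_lit 0) (XT.lf (nat_lit 228) (nat_lit 1469030383) (nat_lit 0) (nat_lit 58653729) (nat_lit 152) (nat_lit 58653729) (nat_lit 125) (nat_lit 1) (nat_lit 122) (nat_lit 1) (nat_lit 124) (nat_lit 1) (nat_lit 427) (nat_lit 354) (nat_lit 239)) (XT.lf (nat_lit 76) (nat_lit 481934632) (nat_lit 0) (nat_lit 606302177) (nat_lit 228) (nat_lit 481934632) (nat_lit 123) (nat_lit 1) (nat_lit 122) (nat_lit 1) (nat_lit 125) (nat_lit 1) (nat_lit 428) (nat_lit 354) (nat_lit 238))))) (XT.nd (nat_lit 156) (nat_lit 76) (nat_lit 0) (XT.nd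 (nat_lit 78) (nat_lit 228) (nat_lit 0) (XT.lf (nat_lit 152) (nat_lit 467477438) (nat_lit 0) (nat_lit 543412669) (nat_lit 76) (nat_lit 543412669) (nat_lit 123) (nat_lit 1) (nat_lit 121) (nat_lit 1) (nat_lit 122) (nat_lit 1) (nat_lit 429) (nat_lit 354) (nat_lit 237)) (XT.lf (nat_lit 228) (nat_lit 1519852678) (nat_lit 0) (nat_lit 9448878) (nat_lit 152) (nat_lit 9448878) (nat_lit 121) (nat_lit 1) (nat_lit 118) (nat_lit 1) (nat_lit 120) (nat_lit 1) (nat_lit 430) (nat_lit 354) (nat_lit 236))) (XT.nd (nat_lit 78) (nat_lit 76) (nat_lit 0) (XT.lf (nat_lit 76) (nat_lit 513110966) (nat_lit 0) (nat_lit 496859963) (nat_lit 228) (nat_lit 513110966) (nat_lit 119) (nat_lit 1) (nat_lit 118) (nat_lit 1) (nat_lit 121) (nat_lit 1) (nat_lit 431) (nat_lit 354) (nat_lit 235)) (XT.nd (nat_lit 78) (nat_lit 0) (nat_lit 0) (XT.lf (nat_lit 152) (nat_lit 542097605) (nat_lit 0) (nat_lit 482815118) (nat_lit 76) (nat_lit 482815118)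 (nat_lit 119) (nat_lit 1) (nat_lit 117) (nat_lit 1) (nat_lit 118) (nat_lit 1) (nat_lit 432) (nat_lit 354) (nat_lit 234)) (XT.lf (nat_lit 0) (nat_lit 33353341) (nat_lit 0) (nat_lit 1425957983) (nat_lit 152) (nat_lit 33353341) (nat_lit 117) (nat_lit 3) (nat_lit 117) (nat_lit 1) (nat_lit 119) (nat_lit 1) (nat_lit 433) (nat_lit 354) (nat_lit 233))))))))
noncomputable def ec103 : XT := (XT.nd (nat_lit 44694) (nat_lit 0) (nat_lit 13224) (XT.nd (nat_lit 43914) (nat_lit 0) (nat_lit 18924) (XT.nd (nat_lit 43524) (nat_lit 0) (nat_lit 19760) (XT.nd (nat_lit 156) (nat_lit 0) (nat_lit 0) (XT.nd (nat_lit 78) (nat_lit 76) (nat_lit 0) (XT.lf (nat_lit 76) (nat_lit 538337387) (nat_lit 0) (nat_lit 400840371) (nat_lit 152) (nat_lit 538337387) (nat_lit 116) (nat_lit 1) (nat_lit 115) (nat_lit 1) (nat_lit 117) (nat_lit 1) (nat_lit 434) (nat_lit 354) (nat_lit 232)) (XT.lf (nat_lit 152) (nat_lit 604704911) (nat_lit 0) (nat_lit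 428974979) (nat_lit 76) (nat_lit 428974979) (nat_lit 116) (nat_lit 1) (nat_lit 114) (nat_lit 1) (nat_lit 115) (nat_lit 1) (nat_lit 435) (nat_lit 354) (nat_lit 231))) (XT.nd (nat_lit 43290) (nat_lit 0) (nat_lit 19760) (XT.lf (nat_lit 0) (nat_lit 70247282) (nat_lit 0) (nat_lit 1307558469) (nat_lit 152) (nat_lit 70247282) (nat_lit 114) (nat_lit 3) (nat_lit 114) (nat_lit 1) (nat_lit 116) (nat_lit 1) (nat_lit 436) (nat_lit 354) (nat_lit 230)) (XT.lf (nat_lit 1292) (nat_lit 581062767) (nat_lit 0) (nat_lit 1999126153) (nat_lit 1292) (nat_lit 581062767) (nat_lit 391) (nat_lit 1) (nat_lit 374) (nat_lit 0) (nat_lit 391) (nat_lit 0) (nat_lit 310) (nat_lit 355) (nat_lit 355)))) (XT.nd (nat_lit 156) (nat_lit 0) (nat_lit 76) (XT.nd (nat_lit 78) (nat_lit 0) (nat_lit 76) (XT.lf (nat_lit 1292) (nat_lit 2270803475) (nat_lit 76) (nat_lit 1979526877) (nat_lit 0) (nat_lit 1979526877) (nat_lit 391) (nat_lit 1) (nat_lit 375)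 (nat_lit 1) (nat_lit 374) (nat_lit 0) (nat_lit 311) (nat_lit 355) (nat_lit 354)) (XT.lf (nat_lit 1292) (nat_lit 1098214703) (nat_lit 0) (nat_lit 3942825259) (nat_lit 1216) (nat_lit 1098214703) (nat_lit 392) (nat_lit 1) (nat_lit 375) (nat_lit 1) (nat_lit 391) (nat_lit 1) (nat_lit 312) (nat_lit 355) (nat_lit 353))) (XT.nd (nat_lit 78) (nat_lit 0) (nat_lit 76) (XT.lf (nat_lit 1292) (nat_lit 2085566422) (nat_lit 76) (nat_lit 1982299355) (nat_lit 0) (nat_lit 1982299355) (nat_lit 392) (nat_lit 1) (nat_lit 376) (nat_lit 1) (nat_lit 375) (nat_lit 1) (nat_lit 313) (nat_lit 355) (nat_lit 352)) (XT.nd (nat_lit 78) (nat_lit 0) (nat_lit 0) (XT.lf (nat_lit 1292) (nat_lit 978641642) (nat_lit 0) (nat_lit 4005785725) (nat_lit 1216) (nat_lit 978641642) (nat_lit 393) (nat_lit 1) (nat_lit 376) (nat_lit 1) (nat_lit 392) (nat_lit 1) (nat_lit 314) (nat_lit 355) (nat_lit 351)) (XT.lf (nat_lit 1292) (nat_lit 1793464140) (nat_lit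 76) (nat_lit 2041950834) (nat_lit 0) (nat_lit 2041950834) (nat_lit 393) (nat_lit 1) (nat_lit 377) (nat_lit 1) (nat_lit 376) (nat_lit 1) (nat_lit 315) (nat_lit 355) (nat_lit 350)))))) (XT.nd (nat_lit 390) (nat_lit 1064) (nat_lit 0) (XT.nd (nat_lit 156) (nat_lit 0) (nat_lit 76) (XT.nd (nat_lit 78) (nat_lit 0) (nat_lit 0) (XT.lf (nat_lit 1292) (nat_lit 808329678) (nat_lit 0) (nat_lit 4176982266) (nat_lit 1216) (nat_lit 808329678) (nat_lit 394) (nat_lit 1) (nat_lit 377) (nat_lit 1) (nat_lit 393) (nat_lit 1) (nat_lit 316) (nat_lit 355) (nat_lit 349)) (XT.lf (nat_lit 1292) (nat_lit 1404053420) (nat_lit 76) (nat_lit 2153554921) (nat_lit 0) (nat_lit 2153554921) (nat_lit 394) (nat_lit 1) (nat_lit 378) (nat_lit 1) (nat_lit 377) (nat_lit 1) (nat_lit 317) (nat_lit 355) (nat_lit 348))) (XT.nd (nat_lit 78) (nat_lit 0) (nat_lit 0) (XT.lf (nat_lit 1292) (nat_lit 591869185) (nat_lit 0) (nat_lit 4446943916) (nat_lit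 1216) (nat_lit 591869185) (nat_lit 395) (nat_lit 1) (nat_lit 378) (nat_lit 1) (nat_lit 394) (nat_lit 1) (nat_lit 318) (nat_lit 355) (nat_lit 347)) (XT.nd (nat_lit 78) (nat_lit 0) (nat_lit 76) (XT.lf (nat_lit 1292) (nat_lit 926242775) (nat_lit 76) (nat_lit 2312516406) (nat_lit 0) (nat_lit 2312516406) (nat_lit 395) (nat_lit 1) (nat_lit 379) (nat_lit 1) (nat_lit 378) (nat_lit 1) (nat_lit 319) (nat_lit 355) (nat_lit 346)) (XT.lf (nat_lit 1292) (nat_lit 333538165) (nat_lit 0) (nat_lit 4806838265) (nat_lit 1216) (nat_lit 333538165) (nat_lit 396) (nat_lit 1) (nat_lit 379) (nat_lit 1) (nat_lit 395) (nat_lit 1) (nat_lit 320) (nat_lit 355) (nat_lit 345))))) (XT.nd (nat_lit 156) (nat_lit 1216) (nat_lit 0) (XT.nd (nat_lit 78) (nat_lit 0) (nat_lit 76) (XT.lf (nat_lit 1292) (nat_lit 368332558) (nat_lit 76) (nat_lit 2514550840) (nat_lit 0) (nat_lit 2514550840) (nat_lit 396) (nat_lit 1) (nat_lit 380) (nat_lit 1) (nat_lit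 379) (nat_lit 1) (nat_lit 321) (nat_lit 355) (nat_lit 344)) (XT.lf (nat_lit 1292) (nat_lit 37321601) (nat_lit 0) (nat_lit 5248432042) (nat_lit 1216) (nat_lit 37321601) (nat_lit 397) (nat_lit 1) (nat_lit 380) (nat_lit 1) (nat_lit 396) (nat_lit 1) (nat_lit 322) (nat_lit 355) (nat_lit 343))) (XT.nd (nat_lit 78) (nat_lit 0) (nat_lit 0) (XT.lf (nat_lit 1368) (nat_lit 2496236020) (nat_lit 0) (nat_lit 256835772) (nat_lit 1292) (nat_lit 2496236020) (nat_lit 381) (nat_lit 1) (nat_lit 363) (nat_lit 1) (nat_lit 380) (nat_lit 1) (nat_lit 323) (nat_lit 355) (nat_lit 342)) (XT.nd (nat_lit 78) (nat_lit 0) (nat_lit 76) (XT.lf (nat_lit 1368) (nat_lit 4597179401) (nat_lit 76) (nat_lit 290197098) (nat_lit 0) (nat_lit 290197098) (nat_lit 381) (nat_lit 1) (nat_lit 364) (nat_lit 1) (nat_lit 363) (nat_lit 1) (nat_lit 324) (nat_lit 355) (nat_lit 341)) (XT.lf (nat_lit 1368) (nat_lit 2083941755) (nat_lit 0) (nat_lit 938719492)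 (nat_lit 1292) (nat_lit 2083941755) (nat_lit 382) (nat_lit 1) (nat_lit 364) (nat_lit 1) (nat_lit 381) (nat_lit 1) (nat_lit 325) (nat_lit 355) (nat_lit 340))))))) (XT.nd (nat_lit 702) (nat_lit 3192) (nat_lit 0) (XT.nd (nat_lit 312) (nat_lit 1824) (nat_lit 0) (XT.nd (nat_lit 156) (nat_lit 760) (nat_lit 0) (XT.nd (nat_lit 78) (nat_lit 0) (nat_lit 76) (XT.lf (nat_lit 1368) (nat_lit 3741888253) (nat_lit 76) (nat_lit 647771603) (nat_lit 0) (nat_lit 647771603) (nat_lit 382) (nat_lit 1) (nat_lit 365) (nat_lit 1) (nat_lit 364) (nat_lit 1) (nat_lit 326) (nat_lit 355) (nat_lit 339)) (XT.lf (nat_lit 76) (nat_lit 1645626112) (nat_lit 0) (nat_lit 1677943317) (nat_lit 1292) (nat_lit 1645626112) (nat_lit 366) (nat_lit 1) (nat_lit 365) (nat_lit 1) (nat_lit 382) (nat_lit 1) (nat_lit 327) (nat_lit 355) (nat_lit 338))) (XT.nd (nat_lit 78) (nat_lit 0) (nat_lit 0) (XT.lf (nat_lit 912) (nat_lit 2837291094) (nat_lit 0) (nat_lit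 1032588423) (nat_lit 836) (nat_lit 1032588423) (nat_lit 366) (nat_lit 1) (nat_lit 354) (nat_lit 1) (nat_lit 365) (nat_lit 1) (nat_lit 328) (nat_lit 355) (nat_lit 337)) (XT.lf (nat_lit 76) (nat_lit 1184230070) (nat_lit 0) (nat_lit 2468405507) (nat_lit 912) (nat_lit 1184230070) (nat_lit 355) (nat_lit 1) (nat_lit 354) (nat_lit 1) (nat_lit 366) (nat_lit 1) (nat_lit 329) (nat_lit 355) (nat_lit 336)))) (XT.nd (nat_lit 156) (nat_lit 1216) (nat_lit 0) (XT.nd (nat_lit 78) (nat_lit 0) (nat_lit 0) (XT.lf (nat_lit 684) (nat_lit 1889084404) (nat_lit 0) (nat_lit 1441692420) (nat_lit 608) (nat_lit 1441692420) (nat_lit 355) (nat_lit 1) (nat_lit 346) (nat_lit 1) (nat_lit 354) (nat_lit 1) (nat_lit 330) (nat_lit 355) (nat_lit 335)) (XT.lf (nat_lit 76) (nat_lit 702483630) (nat_lit 0) (nat_lit 3304436434) (nat_lit 684) (nat_lit 702483630) (nat_lit 347) (nat_lit 1) (nat_lit 346) (nat_lit 1) (nat_lit 355) (nat_lit 1) (nat_lit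 331) (nat_lit 355) (nat_lit 334))) (XT.nd (nat_lit 78) (nat_lit 608) (nat_lit 0) (XT.lf (nat_lit 684) (nat_lit 902554182) (nat_lit 0) (nat_lit 1872338619) (nat_lit 608) (nat_lit 1872338619) (nat_lit 347) (nat_lit 1) (nat_lit 338) (nat_lit 1) (nat_lit 346) (nat_lit 1) (nat_lit 332) (nat_lit 355) (nat_lit 333)) (XT.nd (nat_lit 78) (nat_lit 608) (nat_lit 0) (XT.lf (nat_lit 76) (nat_lit 202919156) (nat_lit 0) (nat_lit 4180771397) (nat_lit 684) (nat_lit 202919156) (nat_lit 339) (nat_lit 1) (nat_lit 338) (nat_lit 1) (nat_lit 347) (nat_lit 1) (nat_lit 333) (nat_lit 355) (nat_lit 332)) (XT.lf (nat_lit 76) (nat_lit 2205709402) (nat_lit 0) (nat_lit 115107198) (nat_lit 608) (nat_lit 2205709402) (nat_lit 331) (nat_lit 1) (nat_lit 330) (nat_lit 1) (nat_lit 338) (nat_lit 1) (nat_lit 334) (nat_lit 355) (nat_lit 331)))))) (XT.nd (nat_lit 390) (nat_lit 1520) (nat_lit 0) (XT.nd (nat_lit 156) (nat_lit 1064) (nat_lit 0)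 (XT.nd (nat_lit 78) (nat_lit 0) (nat_lit 0) (XT.lf (nat_lit 684) (nat_lit 3849818784) (nat_lit 0) (nat_lit 309056126) (nat_lit 608) (nat_lit 309056126) (nat_lit 331) (nat_lit 1) (nat_lit 322) (nat_lit 1) (nat_lit 330) (nat_lit 1) (nat_lit 335) (nat_lit 355) (nat_lit 330)) (XT.lf (nat_lit 76) (nat_lit 1633229514) (nat_lit 0) (nat_lit 1143473489) (nat_lit 684) (nat_lit 1633229514) (nat_lit 323) (nat_lit 1) (nat_lit 322) (nat_lit 1) (nat_lit 331) (nat_lit 1) (nat_lit 336) (nat_lit 355) (nat_lit 329))) (XT.nd (nat_lit 78) (nat_lit 532) (nat_lit 0) (XT.lf (nat_lit 608) (nat_lit 2688879809) (nat_lit 0) (nat_lit 832208473) (nat_lit 532) (nat_lit 832208473) (nat_lit 323) (nat_lit 1) (nat_lit 315) (nat_lit 1) (nat_lit 322) (nat_lit 1) (nat_lit 337) (nat_lit 355) (nat_lit 328)) (XT.nd (nat_lit 78) (nat_lit 532) (nat_lit 0) (XT.lf (nat_lit 76) (nat_lit 1050750356) (nat_lit 0) (nat_lit 2196034449) (nat_lit 608)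 (nat_lit 1050750356) (nat_lit 316) (nat_lit 1) (nat_lit 315) (nat_lit 1) (nat_lit 323) (nat_lit 1) (nat_lit 338) (nat_lit 355) (nat_lit 327)) (XT.lf (nat_lit 608) (nat_lit 1509699996) (nat_lit 0) (nat_lit 1366535309) (nat_lit 532) (nat_lit 1366535309) (nat_lit 316) (nat_lit 1) (nat_lit 308) (nat_lit 1) (nat_lit 315) (nat_lit 1) (nat_lit 339) (nat_lit 355) (nat_lit 326))))) (XT.nd (nat_lit 156) (nat_lit 1064) (nat_lit 0) (XT.nd (nat_lit 78) (nat_lit 456) (nat_lit 0) (XT.lf (nat_lit 76) (nat_lit 460094334) (nat_lit 0) (nat_lit 3268977116) (nat_lit 608) (nat_lit 460094334) (nat_lit 309) (nat_lit 1) (nat_lit 308) (nat_lit 1) (nat_lit 316) (nat_lit 1) (nat_lit 340) (nat_lit 355) (nat_lit 325)) (XT.lf (nat_lit 532) (nat_lit 315798778) (nat_lit 0) (nat_lit 1910195011) (nat_lit 456) (nat_lit 1910195011) (nat_lit 309) (nat_lit 1) (nat_lit 302) (nat_lit 1) (nat_lit 308) (nat_lit 1) (nat_lit 341) (nat_lit 355)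 (nat_lit 324))) (XT.nd (nat_lit 78) (nat_lit 456) (nat_lit 0) (XT.lf (nat_lit 608) (nat_lit 3813078023) (nat_lit 0) (nat_lit 135713423) (nat_lit 532) (nat_lit 135713423) (nat_lit 302) (nat_lit 1) (nat_lit 294) (nat_lit 1) (nat_lit 301) (nat_lit 1) (nat_lit 342) (nat_lit 355) (nat_lit 323)) (XT.nd (nat_lit 78) (nat_lit 456) (nat_lit 0) (XT.lf (nat_lit 76) (nat_lit 1580459351) (nat_lit 0) (nat_lit 872219569) (nat_lit 608) (nat_lit 1580459351) (nat_lit 295) (nat_lit 1) (nat_lit 294) (nat_lit 1) (nat_lit 302) (nat_lit 1) (nat_lit 343) (nat_lit 355) (nat_lit 322)) (XT.lf (nat_lit 532) (nat_lit 2519203142) (nat_lit 0) (nat_lit 731907791) (nat_lit 456) (nat_lit 731907791) (nat_lit 295) (nat_lit 1) (nat_lit 288) (nat_lit 1) (nat_lit 294) (nat_lit 1) (nat_lit 344) (nat_lit 355) (nat_lit 321))))))))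
noncomputable def ec104 : XT := (XT.nd (nat_lit 1404) (nat_lit 3496) (nat_lit 0) (XT.nd (nat_lit 702) (nat_lit 1900) (nat_lit 0) (XT.nd (nat_lit 312) (nat_lit 1216) (nat_lit 0) (XT.nd (nat_lit 156) (nat_lit 456) (nat_lit 0) (XT.nd (nat_lit 78) (nat_lit 456) (nat_lit 0) (XT.lf (nat_lit 76) (nat_lit 935617860) (nat_lit 0) (nat_lit 2062396765) (nat_lit 532) (nat_lit 935617860) (nat_lit 289) (nat_lit 1) (nat_lit 288) (nat_lit 1) (nat_lit 295) (nat_lit 1) (nat_lit 345) (nat_lit 355) (nat_lit 320)) (XT.lf (nat_lit 532) (nat_lit 1221921561) (nat_lit 0) (nat_lit 1331587100) (nat_lit 456) (nat_lit 1331587100) (nat_lit 289) (nat_lit 1) (nat_lit 282) (nat_lit 1) (nat_lit 288) (nat_lit 1) (nat_lit 346) (nat_lit 355) (nat_lit 319))) (XT.nd (nat_lit 78) (nat_lit 456) (nat_lit 0) (XT.lf (nat_lit 76) (nat_lit 289710615) (nat_lit 0) (nat_lit 3258199123) (nat_lit 532) (nat_lit 289710615) (nat_lit 283) (nat_lit 1) (nat_lit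 282) (nat_lit 1) (nat_lit 289) (nat_lit 1) (nat_lit 347) (nat_lit 355) (nat_lit 318)) (XT.lf (nat_lit 76) (nat_lit 1857877882) (nat_lit 0) (nat_lit 74819570) (nat_lit 456) (nat_lit 1857877882) (nat_lit 277) (nat_lit 1) (nat_lit 276) (nat_lit 1) (nat_lit 282) (nat_lit 1) (nat_lit 348) (nat_lit 355) (nat_lit 317)))) (XT.nd (nat_lit 156) (nat_lit 760) (nat_lit 0) (XT.nd (nat_lit 78) (nat_lit 0) (nat_lit 0) (XT.lf (nat_lit 532) (nat_lit 3039351278) (nat_lit 0) (nat_lit 352600914) (nat_lit 456) (nat_lit 352600914) (nat_lit 277) (nat_lit 1) (nat_lit 270) (nat_lit 1) (nat_lit 276) (nat_lit 1) (nat_lit 349) (nat_lit 355) (nat_lit 316)) (XT.lf (nat_lit 76) (nat_lit 1176277652) (nat_lit 0) (nat_lit 1346439542) (nat_lit 532) (nat_lit 1176277652) (nat_lit 271) (nat_lit 1) (nat_lit 270) (nat_lit 1) (nat_lit 277) (nat_lit 1) (nat_lit 350) (nat_lit 355) (nat_lit 315))) (XT.nd (nat_lit 78) (nat_lit 380) (nat_lit 0)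 (XT.lf (nat_lit 456) (nat_lit 1672562710) (nat_lit 0) (nat_lit 990908169) (nat_lit 380) (nat_lit 990908169) (nat_lit 271) (nat_lit 1) (nat_lit 265) (nat_lit 1) (nat_lit 270) (nat_lit 1) (nat_lit 351) (nat_lit 355) (nat_lit 314)) (XT.nd (nat_lit 78) (nat_lit 380) (nat_lit 0) (XT.lf (nat_lit 76) (nat_lit 497907849) (nat_lit 0) (nat_lit 2614764713) (nat_lit 456) (nat_lit 497907849) (nat_lit 266) (nat_lit 1) (nat_lit 265) (nat_lit 1) (nat_lit 271) (nat_lit 1) (nat_lit 352) (nat_lit 355) (nat_lit 313)) (XT.lf (nat_lit 456) (nat_lit 313144817) (nat_lit 0) (nat_lit 1627082997) (nat_lit 380) (nat_lit 1627082997) (nat_lit 266) (nat_lit 1) (nat_lit 260) (nat_lit 1) (nat_lit 265) (nat_lit 1) (nat_lit 353) (nat_lit 355) (nat_lit 312)))))) (XT.nd (nat_lit 312) (nat_lit 1064) (nat_lit 0) (XT.nd (nat_lit 156) (nat_lit 380) (nat_lit 0) (XT.nd (nat_lit 78) (nat_lit 0) (nat_lit 0) (XT.lf (nat_lit 456) (nat_lit 3175722088)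 (nat_lit 0) (nat_lit 174642313) (nat_lit 380) (nat_lit 174642313) (nat_lit 260) (nat_lit 1) (nat_lit 254) (nat_lit 1) (nat_lit 259) (nat_lit 1) (nat_lit 354) (nat_lit 355) (nat_lit 311)) (XT.lf (nat_lit 76) (nat_lit 1232958452) (nat_lit 0) (nat_lit 1017014387) (nat_lit 456) (nat_lit 1232958452) (nat_lit 255) (nat_lit 1) (nat_lit 254) (nat_lit 1) (nat_lit 260) (nat_lit 1) (nat_lit 355) (nat_lit 355) (nat_lit 310))) (XT.nd (nat_lit 78) (nat_lit 0) (nat_lit 0) (XT.lf (nat_lit 456) (nat_lit 1766814929) (nat_lit 0) (nat_lit 837488014) (nat_lit 380) (nat_lit 837488014) (nat_lit 255) (nat_lit 1) (nat_lit 249) (nat_lit 1) (nat_lit 254) (nat_lit 1) (nat_lit 356) (nat_lit 355) (nat_lit 309)) (XT.lf (nat_lit 76) (nat_lit 535290965) (nat_lit 0) (nat_lit 2330757444) (nat_lit 456) (nat_lit 535290965) (nat_lit 250) (nat_lit 1) (nat_lit 249) (nat_lit 1) (nat_lit 255) (nat_lit 1) (nat_lit 357) (nat_lit 355) (nat_lit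 308)))) (XT.nd (nat_lit 156) (nat_lit 304) (nat_lit 0) (XT.nd (nat_lit 78) (nat_lit 456) (nat_lit 0) (XT.lf (nat_lit 380) (nat_lit 371776998) (nat_lit 0) (nat_lit 1494811721) (nat_lit 304) (nat_lit 1494811721) (nat_lit 250) (nat_lit 1) (nat_lit 245) (nat_lit 1) (nat_lit 249) (nat_lit 1) (nat_lit 358) (nat_lit 355) (nat_lit 307)) (XT.lf (nat_lit 456) (nat_lit 3015025011) (nat_lit 0) (nat_lit 153656325) (nat_lit 380) (nat_lit 153656325) (nat_lit 245) (nat_lit 1) (nat_lit 239) (nat_lit 1) (nat_lit 244) (nat_lit 1) (nat_lit 359) (nat_lit 355) (nat_lit 306))) (XT.nd (nat_lit 78) (nat_lit 304) (nat_lit 0) (XT.lf (nat_lit 76) (nat_lit 1147438613) (nat_lit 0) (nat_lit 988561850) (nat_lit 456) (nat_lit 1147438613) (nat_lit 240) (nat_lit 1) (nat_lit 239) (nat_lit 1) (nat_lit 245) (nat_lit 1) (nat_lit 360) (nat_lit 355) (nat_lit 305)) (XT.nd (nat_lit 78) (nat_lit 0) (nat_lit 0) (XT.lf (nat_lit 380) (nat_lit 1586012837)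 (nat_lit 0) (nat_lit 829689169) (nat_lit 304) (nat_lit 829689169) (nat_lit 240) (nat_lit 1) (nat_lit 235) (nat_lit 1) (nat_lit 239) (nat_lit 1) (nat_lit 361) (nat_lit 355) (nat_lit 304)) (XT.lf (nat_lit 76) (nat_lit 441045943) (nat_lit 0) (nat_lit 2325902206) (nat_lit 380) (nat_lit 441045943) (nat_lit 236) (nat_lit 1) (nat_lit 235) (nat_lit 1) (nat_lit 240) (nat_lit 1) (nat_lit 362) (nat_lit 355) (nat_lit 303))))))) (XT.nd (nat_lit 702) (nat_lit 1672) (nat_lit 0) (XT.nd (nat_lit 312) (nat_lit 836) (nat_lit 0) (XT.nd (nat_lit 156) (nat_lit 304) (nat_lit 0) (XT.nd (nat_lit 78) (nat_lit 380) (nat_lit 0) (XT.lf (nat_lit 380) (nat_lit 175870524) (nat_lit 0) (nat_lit 1497575778) (nat_lit 304) (nat_lit 1497575778) (nat_lit 236) (nat_lit 1) (nat_lit 231) (nat_lit 1) (nat_lit 235) (nat_lit 1) (nat_lit 363) (nat_lit 355) (nat_lit 302)) (XT.lf (nat_lit 380) (nat_lit 2628272048) (nat_lit 0) (nat_lit 253253823)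 (nat_lit 304) (nat_lit 253253823) (nat_lit 231) (nat_lit 1) (nat_lit 226) (nat_lit 1) (nat_lit 230) (nat_lit 1) (nat_lit 364) (nat_lit 355) (nat_lit 301))) (XT.nd (nat_lit 78) (nat_lit 304) (nat_lit 0) (XT.lf (nat_lit 76) (nat_lit 953921179) (nat_lit 0) (nat_lit 1190943376) (nat_lit 380) (nat_lit 953921179) (nat_lit 227) (nat_lit 1) (nat_lit 226) (nat_lit 1) (nat_lit 231) (nat_lit 1) (nat_lit 365) (nat_lit 355) (nat_lit 300)) (XT.lf (nat_lit 380) (nat_lit 1196720143) (nat_lit 0) (nat_lit 933389962) (nat_lit 304) (nat_lit 933389962) (nat_lit 227) (nat_lit 1) (nat_lit 222) (nat_lit 1) (nat_lit 226) (nat_lit 1) (nat_lit 366) (nat_lit 355) (nat_lit 299)))) (XT.nd (nat_lit 156) (nat_lit 532) (nat_lit 0) (XT.nd (nat_lit 78) (nat_lit 304) (nat_lit 0) (XT.lf (nat_lit 76) (nat_lit 247230755) (nat_lit 0) (nat_lit 2534435518) (nat_lit 380) (nat_lit 247230755) (nat_lit 223) (nat_lit 1) (nat_lit 222) (nat_lit 1)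 (nat_lit 227) (nat_lit 1) (nat_lit 367) (nat_lit 355) (nat_lit 298)) (XT.lf (nat_lit 76) (nat_lit 1393233574) (nat_lit 0) (nat_lit 208049795) (nat_lit 304) (nat_lit 1393233574) (nat_lit 219) (nat_lit 1) (nat_lit 218) (nat_lit 1) (nat_lit 222) (nat_lit 1) (nat_lit 368) (nat_lit 355) (nat_lit 297))) (XT.nd (nat_lit 78) (nat_lit 228) (nat_lit 0) (XT.lf (nat_lit 380) (nat_lit 2073427103) (nat_lit 0) (nat_lit 443686716) (nat_lit 304) (nat_lit 443686716) (nat_lit 219) (nat_lit 1) (nat_lit 214) (nat_lit 1) (nat_lit 218) (nat_lit 1) (nat_lit 369) (nat_lit 355) (nat_lit 296)) (XT.nd (nat_lit 78) (nat_lit 228) (nat_lit 0) (XT.lf (nat_lit 76) (nat_lit 680313116) (nat_lit 0) (nat_lit 1566841996) (nat_lit 380) (nat_lit 680313116) (nat_lit 215) (nat_lit 1) (nat_lit 214) (nat_lit 1) (nat_lit 219) (nat_lit 1) (nat_lit 370) (nat_lit 355) (nat_lit 295)) (XT.lf (nat_lit 304) (nat_lit 653225357) (nat_lit 0) (nat_lit 1120716997)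 (nat_lit 228) (nat_lit 1120716997) (nat_lit 215) (nat_lit 1) (nat_lit 211) (nat_lit 1) (nat_lit 214) (nat_lit 1) (nat_lit 371) (nat_lit 355) (nat_lit 294)))))) (XT.nd (nat_lit 390) (nat_lit 760) (nat_lit 0) (XT.nd (nat_lit 156) (nat_lit 532) (nat_lit 0) (XT.nd (nat_lit 78) (nat_lit 0) (nat_lit 0) (XT.lf (nat_lit 380) (nat_lit 2822947842) (nat_lit 0) (nat_lit 19823323) (nat_lit 304) (nat_lit 19823323) (nat_lit 211) (nat_lit 1) (nat_lit 206) (nat_lit 1) (nat_lit 210) (nat_lit 1) (nat_lit 372) (nat_lit 355) (nat_lit 293)) (XT.lf (nat_lit 76) (nat_lit 1051684143) (nat_lit 0) (nat_lit 727098299) (nat_lit 380) (nat_lit 1051684143) (nat_lit 207) (nat_lit 1) (nat_lit 206) (nat_lit 1) (nat_lit 211) (nat_lit 1) (nat_lit 373) (nat_lit 355) (nat_lit 292))) (XT.nd (nat_lit 78) (nat_lit 304) (nat_lit 0) (XT.lf (nat_lit 304) (nat_lit 1397618943) (nat_lit 0) (nat_lit 700723940) (nat_lit 228) (nat_lit 700723940) (nat_lit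 207) (nat_lit 1) (nat_lit 203) (nat_lit 1) (nat_lit 206) (nat_lit 1) (nat_lit 374) (nat_lit 355) (nat_lit 291)) (XT.nd (nat_lit 78) (nat_lit 304) (nat_lit 0) (XT.lf (nat_lit 76) (nat_lit 349293797) (nat_lit 0) (nat_lit 2069590979) (nat_lit 304) (nat_lit 349293797) (nat_lit 204) (nat_lit 1) (nat_lit 203) (nat_lit 1) (nat_lit 207) (nat_lit 1) (nat_lit 375) (nat_lit 355) (nat_lit 290)) (XT.lf (nat_lit 76) (nat_lit 1368616235) (nat_lit 0) (nat_lit 366431) (nat_lit 304) (nat_lit 1368616235) (nat_lit 200) (nat_lit 1) (nat_lit 199) (nat_lit 1) (nat_lit 203) (nat_lit 1) (nat_lit 376) (nat_lit 355) (nat_lit 289))))) (XT.nd (nat_lit 156) (nat_lit 532) (nat_lit 0) (XT.nd (nat_lit 78) (nat_lit 0) (nat_lit 0) (XT.lf (nat_lit 304) (nat_lit 2035199992) (nat_lit 0) (nat_lit 336158323) (nat_lit 228) (nat_lit 336158323) (nat_lit 200) (nat_lit 1) (nat_lit 196) (nat_lit 1) (nat_lit 199) (nat_lit 1) (nat_lit 377) (nat_lit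 355) (nat_lit 288)) (XT.lf (nat_lit 76) (nat_lit 666732284) (nat_lit 0) (nat_lit 1344259082) (nat_lit 304) (nat_lit 666732284) (nat_lit 197) (nat_lit 1) (nat_lit 196) (nat_lit 1) (nat_lit 200) (nat_lit 1) (nat_lit 378) (nat_lit 355) (nat_lit 287))) (XT.nd (nat_lit 78) (nat_lit 304) (nat_lit 0) (XT.lf (nat_lit 304) (nat_lit 638989029) (nat_lit 0) (nat_lit 1004712768) (nat_lit 228) (nat_lit 1004712768) (nat_lit 197) (nat_lit 1) (nat_lit 193) (nat_lit 1) (nat_lit 196) (nat_lit 1) (nat_lit 379) (nat_lit 355) (nat_lit 286)) (XT.nd (nat_lit 78) (nat_lit 0) (nat_lit 0) (XT.lf (nat_lit 304) (nat_lit 2578572779) (nat_lit 0) (nat_lit 20588993) (nat_lit 228) (nat_lit 20588993) (nat_lit 193) (nat_lit 1) (nat_lit 189) (nat_lit 1) (nat_lit 192) (nat_lit 1) (nat_lit 380) (nat_lit 355) (nat_lit 285)) (XT.lf (nat_lit 76) (nat_lit 938391998) (nat_lit 0) (nat_lit 714215330) (nat_lit 304) (nat_lit 938391998) (nat_lit 190)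 (nat_lit 1) (nat_lit 189) (nat_lit 1) (nat_lit 193) (nat_lit 1) (nat_lit 381) (nat_lit 355) (nat_lit 284))))))))
noncomputable def ec105 : XT := (XT.nd (nat_lit 1482) (nat_lit 2052) (nat_lit 0) (XT.nd (nat_lit 702) (nat_lit 1140) (nat_lit 0) (XT.nd (nat_lit 312) (nat_lit 608) (nat_lit 0) (XT.nd (nat_lit 156) (nat_lit 456) (nat_lit 0) (XT.nd (nat_lit 78) (nat_lit 0) (nat_lit 0) (XT.lf (nat_lit 304) (nat_lit 1188433553) (nat_lit 0) (nat_lit 687223905) (nat_lit 228) (nat_lit 687223905) (nat_lit 190) (nat_lit 1) (nat_lit 186) (nat_lit 1) (nat_lit 189) (nat_lit 1) (nat_lit 382) (nat_lit 355) (nat_lit 283)) (XT.lf (nat_lit 76) (nat_lit 254182741) (nat_lit 0) (nat_lit 2026874168) (nat_lit 304) (nat_lit 254182741) (nat_lit 187) (nat_lit 1) (nat_lit 186) (nat_lit 1) (nat_lit 190) (nat_lit 1) (nat_lit 383) (nat_lit 355) (nat_lit 282))) (XT.nd (nat_lit 78) (nat_lit 228) (nat_lit 0) (XT.lf (nat_lit 76) (nat_lit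 1169680203) (nat_lit 0) (nat_lit 168414319) (nat_lit 228) (nat_lit 1169680203) (nat_lit 184) (nat_lit 1) (nat_lit 183) (nat_lit 1) (nat_lit 186) (nat_lit 1) (nat_lit 384) (nat_lit 355) (nat_lit 281)) (XT.lf (nat_lit 304) (nat_lit 1658529252) (nat_lit 0) (nat_lit 411123154) (nat_lit 228) (nat_lit 411123154) (nat_lit 184) (nat_lit 1) (nat_lit 180) (nat_lit 1) (nat_lit 183) (nat_lit 1) (nat_lit 385) (nat_lit 355) (nat_lit 280)))) (XT.nd (nat_lit 156) (nat_lit 456) (nat_lit 0) (XT.nd (nat_lit 78) (nat_lit 152) (nat_lit 0) (XT.lf (nat_lit 76) (nat_lit 490553525) (nat_lit 0) (nat_lit 1472977444) (nat_lit 304) (nat_lit 490553525) (nat_lit 181) (nat_lit 1) (nat_lit 180) (nat_lit 1) (nat_lit 184) (nat_lit 1) (nat_lit 386) (nat_lit 355) (nat_lit 279)) (XT.lf (nat_lit 228) (nat_lit 308974635) (nat_lit 0) (nat_lit 1059387795) (nat_lit 152) (nat_lit 1059387795) (nat_lit 181) (nat_lit 1) (nat_lit 178) (nat_lit 1)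 (nat_lit 180) (nat_lit 1) (nat_lit 387) (nat_lit 355) (nat_lit 278))) (XT.nd (nat_lit 78) (nat_lit 152) (nat_lit 0) (XT.lf (nat_lit 304) (nat_lit 2058651112) (nat_lit 0) (nat_lit 171620913) (nat_lit 228) (nat_lit 171620913) (nat_lit 178) (nat_lit 1) (nat_lit 174) (nat_lit 1) (nat_lit 177) (nat_lit 1) (nat_lit 388) (nat_lit 355) (nat_lit 277)) (XT.nd (nat_lit 78) (nat_lit 152) (nat_lit 0) (XT.lf (nat_lit 76) (nat_lit 692855746) (nat_lit 0) (nat_lit 990397107) (nat_lit 304) (nat_lit 692855746) (nat_lit 175) (nat_lit 1) (nat_lit 174) (nat_lit 1) (nat_lit 178) (nat_lit 1) (nat_lit 389) (nat_lit 355) (nat_lit 276)) (XT.lf (nat_lit 228) (nat_lit 722662279) (nat_lit 0) (nat_lit 814065085) (nat_lit 152) (nat_lit 814065085) (nat_lit 175) (nat_lit 1) (nat_lit 172) (nat_lit 1) (nat_lit 174) (nat_lit 1) (nat_lit 390) (nat_lit 355) (nat_lit 275)))))) (XT.nd (nat_lit 390) (nat_lit 532) (nat_lit 0) (XT.nd (nat_lit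 156) (nat_lit 380) (nat_lit 0) (XT.nd (nat_lit 78) (nat_lit 228) (nat_lit 0) (XT.lf (nat_lit 76) (nat_lit 35885053) (nat_lit 0) (nat_lit 2254235158) (nat_lit 228) (nat_lit 35885053) (nat_lit 173) (nat_lit 1) (nat_lit 172) (nat_lit 1) (nat_lit 175) (nat_lit 1) (nat_lit 391) (nat_lit 355) (nat_lit 274)) (XT.lf (nat_lit 76) (nat_lit 865113058) (nat_lit 0) (nat_lit 570902309) (nat_lit 228) (nat_lit 865113058) (nat_lit 170) (nat_lit 1) (nat_lit 169) (nat_lit 1) (nat_lit 172) (nat_lit 1) (nat_lit 392) (nat_lit 355) (nat_lit 273))) (XT.nd (nat_lit 78) (nat_lit 228) (nat_lit 0) (XT.lf (nat_lit 228) (nat_lit 1077165703) (nat_lit 0) (nat_lit 599803518) (nat_lit 152) (nat_lit 599803518) (nat_lit 170) (nat_lit 1) (nat_lit 167) (nat_lit 1) (nat_lit 169) (nat_lit 1) (nat_lit 393) (nat_lit 355) (nat_lit 272)) (XT.nd (nat_lit 78) (nat_lit 228) (nat_lit 0) (XT.lf (nat_lit 76) (nat_lit 216230730) (nat_lit 0) (nat_lit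 1820354353) (nat_lit 228) (nat_lit 216230730) (nat_lit 168) (nat_lit 1) (nat_lit 167) (nat_lit 1) (nat_lit 170) (nat_lit 1) (nat_lit 394) (nat_lit 355) (nat_lit 271)) (XT.lf (nat_lit 76) (nat_lit 1010893884) (nat_lit 0) (nat_lit 207188149) (nat_lit 228) (nat_lit 1010893884) (nat_lit 165) (nat_lit 1) (nat_lit 164) (nat_lit 1) (nat_lit 167) (nat_lit 1) (nat_lit 395) (nat_lit 355) (nat_lit 270))))) (XT.nd (nat_lit 156) (nat_lit 380) (nat_lit 0) (XT.nd (nat_lit 78) (nat_lit 0) (nat_lit 0) (XT.lf (nat_lit 228) (nat_lit 1379464890) (nat_lit 0) (nat_lit 413031476) (nat_lit 152) (nat_lit 413031476) (nat_lit 165) (nat_lit 1) (nat_lit 162) (nat_lit 1) (nat_lit 164) (nat_lit 1) (nat_lit 396) (nat_lit 355) (nat_lit 269)) (XT.lf (nat_lit 76) (nat_lit 371096188) (nat_lit 0) (nat_lit 1440172538) (nat_lit 228) (nat_lit 371096188) (nat_lit 163) (nat_lit 1) (nat_lit 162) (nat_lit 1) (nat_lit 165) (nat_lit 1) (nat_lit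 397) (nat_lit 355) (nat_lit 268))) (XT.nd (nat_lit 78) (nat_lit 228) (nat_lit 0) (XT.lf (nat_lit 228) (nat_lit 109361860) (nat_lit 0) (nat_lit 1025051766) (nat_lit 152) (nat_lit 1025051766) (nat_lit 163) (nat_lit 1) (nat_lit 160) (nat_lit 1) (nat_lit 162) (nat_lit 1) (nat_lit 398) (nat_lit 355) (nat_lit 267)) (XT.nd (nat_lit 78) (nat_lit 0) (nat_lit 0) (XT.lf (nat_lit 228) (nat_lit 1635750392) (nat_lit 0) (nat_lit 250578767) (nat_lit 152) (nat_lit 250578767) (nat_lit 160) (nat_lit 1) (nat_lit 157) (nat_lit 1) (nat_lit 159) (nat_lit 1) (nat_lit 399) (nat_lit 355) (nat_lit 266)) (XT.lf (nat_lit 76) (nat_lit 503479191) (nat_lit 0) (nat_lit 1107546757) (nat_lit 228) (nat_lit 503479191) (nat_lit 158) (nat_lit 1) (nat_lit 157) (nat_lit 1) (nat_lit 160) (nat_lit 1) (nat_lit 400) (nat_lit 355) (nat_lit 265))))))) (XT.nd (nat_lit 702) (nat_lit 1064) (nat_lit 0) (XT.nd (nat_lit 312) (nat_lit 456) (nat_lit 0)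 (XT.nd (nat_lit 156) (nat_lit 152) (nat_lit 0) (XT.nd (nat_lit 78) (nat_lit 228) (nat_lit 0) (XT.lf (nat_lit 228) (nat_lit 385622402) (nat_lit 0) (nat_lit 853408099) (nat_lit 152) (nat_lit 853408099) (nat_lit 158) (nat_lit 1) (nat_lit 155) (nat_lit 1) (nat_lit 157) (nat_lit 1) (nat_lit 401) (nat_lit 355) (nat_lit 264)) (XT.lf (nat_lit 228) (nat_lit 1851511681) (nat_lit 0) (nat_lit 109631765) (nat_lit 152) (nat_lit 109631765) (nat_lit 155) (nat_lit 1) (nat_lit 152) (nat_lit 1) (nat_lit 154) (nat_lit 1) (nat_lit 402) (nat_lit 355) (nat_lit 263))) (XT.nd (nat_lit 78) (nat_lit 152) (nat_lit 0) (XT.lf (nat_lit 76) (nat_lit 616038657) (nat_lit 0) (nat_lit 817023579) (nat_lit 228) (nat_lit 616038657) (nat_lit 153) (nat_lit 1) (nat_lit 152) (nat_lit 1) (nat_lit 155) (nat_lit 1) (nat_lit 403) (nat_lit 355) (nat_lit 262)) (XT.lf (nat_lit 228) (nat_lit 622674690) (nat_lit 0) (nat_lit 702574937) (nat_lit 152) (nat_lit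 702574937) (nat_lit 153) (nat_lit 1) (nat_lit 150) (nat_lit 1) (nat_lit 152) (nat_lit 1) (nat_lit 404) (nat_lit 355) (nat_lit 261)))) (XT.nd (nat_lit 156) (nat_lit 304) (nat_lit 0) (XT.nd (nat_lit 78) (nat_lit 152) (nat_lit 0) (XT.lf (nat_lit 76) (nat_lit 12428280) (nat_lit 0) (nat_lit 1982131808) (nat_lit 228) (nat_lit 12428280) (nat_lit 151) (nat_lit 1) (nat_lit 150) (nat_lit 1) (nat_lit 153) (nat_lit 1) (nat_lit 405) (nat_lit 355) (nat_lit 260)) (XT.lf (nat_lit 76) (nat_lit 711132578) (nat_lit 0) (nat_lit 563762083) (nat_lit 152) (nat_lit 711132578) (nat_lit 149) (nat_lit 1) (nat_lit 148) (nat_lit 1) (nat_lit 150) (nat_lit 1) (nat_lit 406) (nat_lit 355) (nat_lit 259))) (XT.nd (nat_lit 78) (nat_lit 152) (nat_lit 0) (XT.lf (nat_lit 228) (nat_lit 825135660) (nat_lit 0) (nat_lit 570182998) (nat_lit 152) (nat_lit 570182998) (nat_lit 149) (nat_lit 1) (nat_lit 146) (nat_lit 1) (nat_lit 148) (nat_lit 1)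 (nat_lit 407) (nat_lit 355) (nat_lit 258)) (XT.nd (nat_lit 78) (nat_lit 152) (nat_lit 0) (XT.lf (nat_lit 76) (nat_lit 118614312) (nat_lit 0) (nat_lit 1708107332) (nat_lit 228) (nat_lit 118614312) (nat_lit 147) (nat_lit 1) (nat_lit 146) (nat_lit 1) (nat_lit 149) (nat_lit 1) (nat_lit 408) (nat_lit 355) (nat_lit 257)) (XT.lf (nat_lit 76) (nat_lit 790851707) (nat_lit 0) (nat_lit 343465420) (nat_lit 152) (nat_lit 790851707) (nat_lit 145) (nat_lit 1) (nat_lit 144) (nat_lit 1) (nat_lit 146) (nat_lit 1) (nat_lit 409) (nat_lit 355) (nat_lit 256)))))) (XT.nd (nat_lit 390) (nat_lit 608) (nat_lit 0) (XT.nd (nat_lit 156) (nat_lit 304) (nat_lit 0) (XT.nd (nat_lit 78) (nat_lit 0) (nat_lit 0) (XT.lf (nat_lit 228) (nat_lit 997100271) (nat_lit 0) (nat_lit 454128623) (nat_lit 152) (nat_lit 454128623) (nat_lit 145) (nat_lit 1) (nat_lit 142) (nat_lit 1) (nat_lit 144) (nat_lit 1) (nat_lit 410) (nat_lit 355) (nat_lit 255))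 (XT.lf (nat_lit 76) (nat_lit 209826062) (nat_lit 0) (nat_lit 1466183565) (nat_lit 228) (nat_lit 209826062) (nat_lit 143) (nat_lit 1) (nat_lit 142) (nat_lit 1) (nat_lit 145) (nat_lit 1) (nat_lit 411) (nat_lit 355) (nat_lit 254))) (XT.nd (nat_lit 78) (nat_lit 152) (nat_lit 0) (XT.lf (nat_lit 76) (nat_lit 857049481) (nat_lit 0) (nat_lit 152320025) (nat_lit 152) (nat_lit 857049481) (nat_lit 141) (nat_lit 1) (nat_lit 140) (nat_lit 1) (nat_lit 142) (nat_lit 1) (nat_lit 412) (nat_lit 355) (nat_lit 253)) (XT.nd (nat_lit 78) (nat_lit 0) (nat_lit 0) (XT.lf (nat_lit 228) (nat_lit 1142199924) (nat_lit 0) (nat_lit 352544113) (nat_lit 152) (nat_lit 352544113) (nat_lit 141) (nat_lit 1) (nat_lit 138) (nat_lit 1) (nat_lit 140) (nat_lit 1) (nat_lit 413) (nat_lit 355) (nat_lit 252)) (XT.lf (nat_lit 76) (nat_lit 287824614) (nat_lit 0) (nat_lit 1252735907) (nat_lit 228) (nat_lit 287824614) (nat_lit 139) (nat_lit 1) (nat_lit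 138) (nat_lit 1) (nat_lit 141) (nat_lit 1) (nat_lit 414) (nat_lit 355) (nat_lit 251))))) (XT.nd (nat_lit 156) (nat_lit 304) (nat_lit 0) (XT.nd (nat_lit 78) (nat_lit 228) (nat_lit 0) (XT.lf (nat_lit 152) (nat_lit 13318287) (nat_lit 0) (nat_lit 898178344) (nat_lit 76) (nat_lit 898178344) (nat_lit 139) (nat_lit 1) (nat_lit 137) (nat_lit 1) (nat_lit 138) (nat_lit 1) (nat_lit 415) (nat_lit 355) (nat_lit 250)) (XT.lf (nat_lit 228) (nat_lit 1263654351) (nat_lit 0) (nat_lit 263771376) (nat_lit 152) (nat_lit 263771376) (nat_lit 137) (nat_lit 1) (nat_lit 134) (nat_lit 1) (nat_lit 136) (nat_lit 1) (nat_lit 416) (nat_lit 355) (nat_lit 249))) (XT.nd (nat_lit 78) (nat_lit 304) (nat_lit 0) (XT.lf (nat_lit 76) (nat_lit 354172011) (nat_lit 0) (nat_lit 1064545259) (nat_lit 228) (nat_lit 354172011) (nat_lit 135) (nat_lit 1) (nat_lit 134) (nat_lit 1) (nat_lit 137) (nat_lit 1) (nat_lit 417) (nat_lit 355) (nat_lit 248))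 (XT.nd (nat_lit 78) (nat_lit 228) (nat_lit 0) (XT.lf (nat_lit 152) (nat_lit 158771063) (nat_lit 0) (nat_lit 798019826) (nat_lit 76) (nat_lit 798019826) (nat_lit 135) (nat_lit 1) (nat_lit 133) (nat_lit 1) (nat_lit 134) (nat_lit 1) (nat_lit 418) (nat_lit 355) (nat_lit 247)) (XT.lf (nat_lit 228) (nat_lit 1364317720) (nat_lit 0) (nat_lit 186338517) (nat_lit 152) (nat_lit 186338517) (nat_lit 133) (nat_lit 1) (nat_lit 130) (nat_lit 1) (nat_lit 132) (nat_lit 1) (nat_lit 419) (nat_lit 355) (nat_lit 246))))))))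
noncomputable def ec106 : XT := (XT.nd (nat_lit 44616) (nat_lit 0) (nat_lit 17784) (XT.nd (nat_lit 702) (nat_lit 456) (nat_lit 0) (XT.nd (nat_lit 312) (nat_lit 608) (nat_lit 0) (XT.nd (nat_lit 156) (nat_lit 228) (nat_lit 0) (XT.nd (nat_lit 78) (nat_lit 76) (nat_lit 0) (XT.lf (nat_lit 76) (nat_lit 410253525) (nat_lit 0) (nat_lit 898752763) (nat_lit 228) (nat_lit 410253525) (nat_lit 131) (nat_lit 1) (nat_lit 130) (nat_lit 1) (nat_lit 133) (nat_lit 1) (nat_lit 420) (nat_lit 355) (nat_lit 245)) (XT.lf (nat_lit 152) (nat_lit 283724225) (nat_lit 0) (nat_lit 709030279) (nat_lit 76) (nat_lit 709030279) (nat_lit 131) (nat_lit 1) (nat_lit 129) (nat_lit 1) (nat_lit 130) (nat_lit 1) (nat_lit 421) (nat_lit 355) (nat_lit 244))) (XT.nd (nat_lit 78) (nat_lit 0) (nat_lit 0) (XT.lf (nat_lit 228) (nat_lit 1446719590) (nat_lit 0) (nat_lit 118939035) (nat_lit 152) (nat_lit 118939035) (nat_lit 129) (nat_lit 1) (nat_lit 126)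 (nat_lit 1) (nat_lit 128) (nat_lit 1) (nat_lit 422) (nat_lit 355) (nat_lit 243)) (XT.lf (nat_lit 76) (nat_lit 457297449) (nat_lit 0) (nat_lit 752819595) (nat_lit 228) (nat_lit 457297449) (nat_lit 127) (nat_lit 1) (nat_lit 126) (nat_lit 1) (nat_lit 129) (nat_lit 1) (nat_lit 423) (nat_lit 355) (nat_lit 242)))) (XT.nd (nat_lit 156) (nat_lit 304) (nat_lit 0) (XT.nd (nat_lit 78) (nat_lit 228) (nat_lit 0) (XT.lf (nat_lit 152) (nat_lit 390588399) (nat_lit 0) (nat_lit 629964219) (nat_lit 76) (nat_lit 629964219) (nat_lit 127) (nat_lit 1) (nat_lit 125) (nat_lit 1) (nat_lit 126) (nat_lit 1) (nat_lit 424) (nat_lit 355) (nat_lit 241)) (XT.lf (nat_lit 228) (nat_lit 1513101295) (nat_lit 0) (nat_lit 60413341) (nat_lit 152) (nat_lit 60413341) (nat_lit 125) (nat_lit 1) (nat_lit 122) (nat_lit 1) (nat_lit 124) (nat_lit 1) (nat_lit 425) (nat_lit 355) (nat_lit 240))) (XT.nd (nat_lit 78) (nat_lit 304) (nat_lit 0) (XT.lf (nat_lit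 76) (nat_lit 496392671) (nat_lit 0) (nat_lit 624491242) (nat_lit 228) (nat_lit 496392671) (nat_lit 123) (nat_lit 1) (nat_lit 122) (nat_lit 1) (nat_lit 125) (nat_lit 1) (nat_lit 426) (nat_lit 355) (nat_lit 239)) (XT.nd (nat_lit 78) (nat_lit 228) (nat_lit 0) (XT.lf (nat_lit 152) (nat_lit 481501762) (nat_lit 0) (nat_lit 559715050) (nat_lit 76) (nat_lit 559715050) (nat_lit 123) (nat_lit 1) (nat_lit 121) (nat_lit 1) (nat_lit 122) (nat_lit 1) (nat_lit 427) (nat_lit 355) (nat_lit 238)) (XT.lf (nat_lit 228) (nat_lit 1565448259) (nat_lit 0) (nat_lit 9732344) (nat_lit 152) (nat_lit 9732344) (nat_lit 121) (nat_lit 1) (nat_lit 118) (nat_lit 1) (nat_lit 120) (nat_lit 1) (nat_lit 428) (nat_lit 355) (nat_lit 237)))))) (XT.nd (nat_lit 390) (nat_lit 152) (nat_lit 0) (XT.nd (nat_lit 156) (nat_lit 228) (nat_lit 0) (XT.nd (nat_lit 78) (nat_lit 76) (nat_lit 0) (XT.lf (nat_lit 76) (nat_lit 528504295) (nat_lit 0) (nat_lit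 511765762) (nat_lit 228) (nat_lit 528504295) (nat_lit 119) (nat_lit 1) (nat_lit 118) (nat_lit 1) (nat_lit 121) (nat_lit 1) (nat_lit 429) (nat_lit 355) (nat_lit 236)) (XT.lf (nat_lit 152) (nat_lit 558360533) (nat_lit 0) (nat_lit 497299572) (nat_lit 76) (nat_lit 497299572) (nat_lit 119) (nat_lit 1) (nat_lit 117) (nat_lit 1) (nat_lit 118) (nat_lit 1) (nat_lit 430) (nat_lit 355) (nat_lit 235))) (XT.nd (nat_lit 78) (nat_lit 228) (nat_lit 0) (XT.lf (nat_lit 0) (nat_lit 34353942) (nat_lit 0) (nat_lit 1468736722) (nat_lit 152) (nat_lit 34353942) (nat_lit 117) (nat_lit 3) (nat_lit 117) (nat_lit 1) (nat_lit 119) (nat_lit 1) (nat_lit 431) (nat_lit 355) (nat_lit 234)) (XT.nd (nat_lit 78) (nat_lit 76) (nat_lit 0) (XT.lf (nat_lit 76) (nat_lit 554487508) (nat_lit 0) (nat_lit 412865582) (nat_lit 152) (nat_lit 554487508) (nat_lit 116) (nat_lit 1) (nat_lit 115) (nat_lit 1) (nat_lit 117) (nat_lit 1) (nat_lit 432) (nat_lit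 355) (nat_lit 233)) (XT.lf (nat_lit 152) (nat_lit 622846058) (nat_lit 0) (nat_lit 441844229) (nat_lit 76) (nat_lit 441844229) (nat_lit 116) (nat_lit 1) (nat_lit 114) (nat_lit 1) (nat_lit 115) (nat_lit 1) (nat_lit 433) (nat_lit 355) (nat_lit 232))))) (XT.nd (nat_lit 43290) (nat_lit 0) (nat_lit 19912) (XT.nd (nat_lit 78) (nat_lit 152) (nat_lit 0) (XT.lf (nat_lit 0) (nat_lit 72354701) (nat_lit 0) (nat_lit 1346785223) (nat_lit 152) (nat_lit 72354701) (nat_lit 114) (nat_lit 3) (nat_lit 114) (nat_lit 1) (nat_lit 116) (nat_lit 1) (nat_lit 434) (nat_lit 355) (nat_lit 231)) (XT.lf (nat_lit 76) (nat_lit 575099908) (nat_lit 0) (nat_lit 326212452) (nat_lit 152) (nat_lit 575099908) (nat_lit 113) (nat_lit 1) (nat_lit 112) (nat_lit 1) (nat_lit 114) (nat_lit 1) (nat_lit 435) (nat_lit 355) (nat_lit 230))) (XT.nd (nat_lit 78) (nat_lit 0) (nat_lit 0) (XT.lf (nat_lit 1292) (nat_lit 598494650) (nat_lit 0) (nat_lit 2059099937)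 (nat_lit 1292) (nat_lit 598494650) (nat_lit 391) (nat_lit 1) (nat_lit 374) (nat_lit 0) (nat_lit 391) (nat_lit 0) (nat_lit 308) (nat_lit 356) (nat_lit 356)) (XT.nd (nat_lit 78) (nat_lit 0) (nat_lit 76) (XT.lf (nat_lit 1292) (nat_lit 2338927580) (nat_lit 76) (nat_lit 2038912683) (nat_lit 0) (nat_lit 2038912683) (nat_lit 391) (nat_lit 1) (nat_lit 375) (nat_lit 1) (nat_lit 374) (nat_lit 0) (nat_lit 309) (nat_lit 356) (nat_lit 355)) (XT.lf (nat_lit 1292) (nat_lit 1131161144) (nat_lit 0) (nat_lit 4061110017) (nat_lit 1216) (nat_lit 1131161144) (nat_lit 392) (nat_lit 1) (nat_lit 375) (nat_lit 1) (nat_lit 391) (nat_lit 1) (nat_lit 310) (nat_lit 356) (nat_lit 354))))))) (XT.nd (nat_lit 702) (nat_lit 2204) (nat_lit 0) (XT.nd (nat_lit 312) (nat_lit 0) (nat_lit 152) (XT.nd (nat_lit 156) (nat_lit 0) (nat_lit 76) (XT.nd (nat_lit 78) (nat_lit 0) (nat_lit 76) (XT.lf (nat_lit 1292) (nat_lit 2148133415) (nat_lit 76)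 (nat_lit 2041768336) (nat_lit 0) (nat_lit 2041768336) (nat_lit 392) (nat_lit 1) (nat_lit 376) (nat_lit 1) (nat_lit 375) (nat_lit 1) (nat_lit 311) (nat_lit 356) (nat_lit 353)) (XT.lf (nat_lit 1292) (nat_lit 1008000891) (nat_lit 0) (nat_lit 4125959296) (nat_lit 1216) (nat_lit 1008000891) (nat_lit 393) (nat_lit 1) (nat_lit 376) (nat_lit 1) (nat_lit 392) (nat_lit 1) (nat_lit 312) (nat_lit 356) (nat_lit 352))) (XT.nd (nat_lit 78) (nat_lit 0) (nat_lit 76) (XT.lf (nat_lit 1292) (nat_lit 1847268065) (nat_lit 76) (nat_lit 2103209359) (nat_lit 0) (nat_lit 2103209359) (nat_lit 393) (nat_lit 1) (nat_lit 377) (nat_lit 1) (nat_lit 376) (nat_lit 1) (nat_lit 313) (nat_lit 356) (nat_lit 351)) (XT.lf (nat_lit 1292) (nat_lit 832579568) (nat_lit 0) (nat_lit 4302291734) (nat_lit 1216) (nat_lit 832579568) (nat_lit 394) (nat_lit 1) (nat_lit 377) (nat_lit 1) (nat_lit 393) (nat_lit 1) (nat_lit 314) (nat_lit 356) (nat_lit 350))))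 (XT.nd (nat_lit 156) (nat_lit 0) (nat_lit 76) (XT.nd (nat_lit 78) (nat_lit 0) (nat_lit 76) (XT.lf (nat_lit 1292) (nat_lit 1446175023) (nat_lit 76) (nat_lit 2218161569) (nat_lit 0) (nat_lit 2218161569) (nat_lit 394) (nat_lit 1) (nat_lit 378) (nat_lit 1) (nat_lit 377) (nat_lit 1) (nat_lit 315) (nat_lit 356) (nat_lit 349)) (XT.lf (nat_lit 1292) (nat_lit 609625261) (nat_lit 0) (nat_lit 4580352233) (nat_lit 1216) (nat_lit 609625261) (nat_lit 395) (nat_lit 1) (nat_lit 378) (nat_lit 1) (nat_lit 394) (nat_lit 1) (nat_lit 316) (nat_lit 356) (nat_lit 348))) (XT.nd (nat_lit 78) (nat_lit 0) (nat_lit 76) (XT.lf (nat_lit 1292) (nat_lit 954030058) (nat_lit 76) (nat_lit 2381891898) (nat_lit 0) (nat_lit 2381891898) (nat_lit 395) (nat_lit 1) (nat_lit 379) (nat_lit 1) (nat_lit 378) (nat_lit 1) (nat_lit 317) (nat_lit 356) (nat_lit 347)) (XT.nd (nat_lit 78) (nat_lit 0) (nat_lit 0) (XT.lf (nat_lit 1292) (nat_lit 343544310)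 (nat_lit 0) (nat_lit 4951043412) (nat_lit 1216) (nat_lit 343544310) (nat_lit 396) (nat_lit 1) (nat_lit 379) (nat_lit 1) (nat_lit 395) (nat_lit 1) (nat_lit 318) (nat_lit 356) (nat_lit 346)) (XT.lf (nat_lit 1292) (nat_lit 379382535) (nat_lit 76) (nat_lit 2589987365) (nat_lit 0) (nat_lit 2589987365) (nat_lit 396) (nat_lit 1) (nat_lit 380) (nat_lit 1) (nat_lit 379) (nat_lit 1) (nat_lit 319) (nat_lit 356) (nat_lit 345)))))) (XT.nd (nat_lit 390) (nat_lit 1292) (nat_lit 0) (XT.nd (nat_lit 156) (nat_lit 0) (nat_lit 0) (XT.nd (nat_lit 78) (nat_lit 1292) (nat_lit 0) (XT.lf (nat_lit 1292) (nat_lit 38441249) (nat_lit 0) (nat_lit 5405885003) (nat_lit 1216) (nat_lit 38441249) (nat_lit 397) (nat_lit 1) (nat_lit 380) (nat_lit 1) (nat_lit 396) (nat_lit 1) (nat_lit 320) (nat_lit 356) (nat_lit 344)) (XT.lf (nat_lit 1368) (nat_lit 2571123101) (nat_lit 0) (nat_lit 264540845) (nat_lit 1292) (nat_lit 2571123101) (nat_lit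 381) (nat_lit 1) (nat_lit 363) (nat_lit 1) (nat_lit 380) (nat_lit 1) (nat_lit 321) (nat_lit 356) (nat_lit 343))) (XT.nd (nat_lit 78) (nat_lit 0) (nat_lit 76) (XT.lf (nat_lit 1368) (nat_lit 4735094783) (nat_lit 76) (nat_lit 298903011) (nat_lit 0) (nat_lit 298903011) (nat_lit 381) (nat_lit 1) (nat_lit 364) (nat_lit 1) (nat_lit 363) (nat_lit 1) (nat_lit 322) (nat_lit 356) (nat_lit 342)) (XT.nd (nat_lit 78) (nat_lit 0) (nat_lit 0) (XT.lf (nat_lit 1368) (nat_lit 2146460008) (nat_lit 0) (nat_lit 966881077) (nat_lit 1292) (nat_lit 2146460008) (nat_lit 382) (nat_lit 1) (nat_lit 364) (nat_lit 1) (nat_lit 381) (nat_lit 1) (nat_lit 323) (nat_lit 356) (nat_lit 341)) (XT.lf (nat_lit 1368) (nat_lit 3854144901) (nat_lit 76) (nat_lit 667204751) (nat_lit 0) (nat_lit 667204751) (nat_lit 382) (nat_lit 1) (nat_lit 365) (nat_lit 1) (nat_lit 364) (nat_lit 1) (nat_lit 324) (nat_lit 356) (nat_lit 340))))) (XT.nd (nat_lit 156)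 (nat_lit 608) (nat_lit 0) (XT.nd (nat_lit 78) (nat_lit 836) (nat_lit 0) (XT.lf (nat_lit 76) (nat_lit 1694994896) (nat_lit 0) (nat_lit 1728281617) (nat_lit 1292) (nat_lit 1694994896) (nat_lit 366) (nat_lit 1) (nat_lit 365) (nat_lit 1) (nat_lit 382) (nat_lit 1) (nat_lit 325) (nat_lit 356) (nat_lit 339)) (XT.lf (nat_lit 912) (nat_lit 2922409827) (nat_lit 0) (nat_lit 1063566076) (nat_lit 836) (nat_lit 1063566076) (nat_lit 366) (nat_lit 1) (nat_lit 354) (nat_lit 1) (nat_lit 365) (nat_lit 1) (nat_lit 326) (nat_lit 356) (nat_lit 338))) (XT.nd (nat_lit 78) (nat_lit 608) (nat_lit 0) (XT.lf (nat_lit 76) (nat_lit 1219756972) (nat_lit 0) (nat_lit 2542457672) (nat_lit 912) (nat_lit 1219756972) (nat_lit 355) (nat_lit 1) (nat_lit 354) (nat_lit 1) (nat_lit 366) (nat_lit 1) (nat_lit 327) (nat_lit 356) (nat_lit 337)) (XT.nd (nat_lit 78) (nat_lit 0) (nat_lit 0) (XT.lf (nat_lit 684) (nat_lit 1945756936) (nat_lit 0) (nat_lit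 1484943193) (nat_lit 608) (nat_lit 1484943193) (nat_lit 355) (nat_lit 1) (nat_lit 346) (nat_lit 1) (nat_lit 354) (nat_lit 1) (nat_lit 328) (nat_lit 356) (nat_lit 336)) (XT.lf (nat_lit 76) (nat_lit 723558139) (nat_lit 0) (nat_lit 3403569527) (nat_lit 684) (nat_lit 723558139) (nat_lit 347) (nat_lit 1) (nat_lit 346) (nat_lit 1) (nat_lit 355) (nat_lit 1) (nat_lit 329) (nat_lit 356) (nat_lit 335))))))))
noncomputable def ec107 : XT := (XT.nd (nat_lit 1482) (nat_lit 4256) (nat_lit 0) (XT.nd (nat_lit 702) (nat_lit 2888) (nat_lit 0) (XT.nd (nat_lit 312) (nat_lit 1064) (nat_lit 0) (XT.nd (nat_lit 156) (nat_lit 1216) (nat_lit 0) (XT.nd (nat_lit 78) (nat_lit 0) (nat_lit 0) (XT.lf (nat_lit 684) (nat_lit 929630807) (nat_lit 0) (nat_lit 1928508777) (nat_lit 608) (nat_lit 1928508777) (nat_lit 347) (nat_lit 1) (nat_lit 338) (nat_lit 1) (nat_lit 346) (nat_lit 1) (nat_lit 330) (nat_lit 356) (nat_lit 334)) (XT.lf (nat_lit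 76) (nat_lit 209006731) (nat_lit 0) (nat_lit 4306194539) (nat_lit 684) (nat_lit 209006731) (nat_lit 339) (nat_lit 1) (nat_lit 338) (nat_lit 1) (nat_lit 347) (nat_lit 1) (nat_lit 331) (nat_lit 356) (nat_lit 333))) (XT.nd (nat_lit 78) (nat_lit 608) (nat_lit 0) (XT.lf (nat_lit 76) (nat_lit 2271880684) (nat_lit 0) (nat_lit 118560414) (nat_lit 608) (nat_lit 2271880684) (nat_lit 331) (nat_lit 1) (nat_lit 330) (nat_lit 1) (nat_lit 338) (nat_lit 1) (nat_lit 332) (nat_lit 356) (nat_lit 332)) (XT.lf (nat_lit 684) (nat_lit 3965313348) (nat_lit 0) (nat_lit 318327810) (nat_lit 608) (nat_lit 318327810) (nat_lit 331) (nat_lit 1) (nat_lit 322) (nat_lit 1) (nat_lit 330) (nat_lit 1) (nat_lit 333) (nat_lit 356) (nat_lit 331)))) (XT.nd (nat_lit 156) (nat_lit 532) (nat_lit 0) (XT.nd (nat_lit 78) (nat_lit 532) (nat_lit 0) (XT.lf (nat_lit 76) (nat_lit 1682226399) (nat_lit 0) (nat_lit 1177777694) (nat_lit 684) (nat_lit 1682226399)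 (nat_lit 323) (nat_lit 1) (nat_lit 322) (nat_lit 1) (nat_lit 331) (nat_lit 1) (nat_lit 334) (nat_lit 356) (nat_lit 330)) (XT.lf (nat_lit 608) (nat_lit 2769546203) (nat_lit 0) (nat_lit 857174727) (nat_lit 532) (nat_lit 857174727) (nat_lit 323) (nat_lit 1) (nat_lit 315) (nat_lit 1) (nat_lit 322) (nat_lit 1) (nat_lit 335) (nat_lit 356) (nat_lit 329))) (XT.nd (nat_lit 78) (nat_lit 532) (nat_lit 0) (XT.lf (nat_lit 76) (nat_lit 1082272867) (nat_lit 0) (nat_lit 2261915483) (nat_lit 608) (nat_lit 1082272867) (nat_lit 316) (nat_lit 1) (nat_lit 315) (nat_lit 1) (nat_lit 323) (nat_lit 1) (nat_lit 336) (nat_lit 356) (nat_lit 328)) (XT.nd (nat_lit 78) (nat_lit 0) (nat_lit 0) (XT.lf (nat_lit 608) (nat_lit 1554990995) (nat_lit 0) (nat_lit 1407531368) (nat_lit 532) (nat_lit 1407531368) (nat_lit 316) (nat_lit 1) (nat_lit 308) (nat_lit 1) (nat_lit 315) (nat_lit 1) (nat_lit 337) (nat_lit 356) (nat_lit 327)) (XT.lf (nat_lit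 76) (nat_lit 473897164) (nat_lit 0) (nat_lit 3367046429) (nat_lit 608) (nat_lit 473897164) (nat_lit 309) (nat_lit 1) (nat_lit 308) (nat_lit 1) (nat_lit 316) (nat_lit 1) (nat_lit 338) (nat_lit 356) (nat_lit 326)))))) (XT.nd (nat_lit 390) (nat_lit 1368) (nat_lit 0) (XT.nd (nat_lit 156) (nat_lit 456) (nat_lit 0) (XT.nd (nat_lit 78) (nat_lit 608) (nat_lit 0) (XT.lf (nat_lit 532) (nat_lit 325272742) (nat_lit 0) (nat_lit 1967500861) (nat_lit 456) (nat_lit 1967500861) (nat_lit 309) (nat_lit 1) (nat_lit 302) (nat_lit 1) (nat_lit 308) (nat_lit 1) (nat_lit 339) (nat_lit 356) (nat_lit 325)) (XT.lf (nat_lit 608) (nat_lit 3927470364) (nat_lit 0) (nat_lit 139784826) (nat_lit 532) (nat_lit 139784826) (nat_lit 302) (nat_lit 1) (nat_lit 294) (nat_lit 1) (nat_lit 301) (nat_lit 1) (nat_lit 340) (nat_lit 356) (nat_lit 324))) (XT.nd (nat_lit 78) (nat_lit 456) (nat_lit 0) (XT.lf (nat_lit 76) (nat_lit 1627873132) (nat_lit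 0) (nat_lit 898386156) (nat_lit 608) (nat_lit 1627873132) (nat_lit 295) (nat_lit 1) (nat_lit 294) (nat_lit 1) (nat_lit 302) (nat_lit 1) (nat_lit 341) (nat_lit 356) (nat_lit 323)) (XT.nd (nat_lit 78) (nat_lit 0) (nat_lit 0) (XT.lf (nat_lit 532) (nat_lit 2594779237) (nat_lit 0) (nat_lit 753865024) (nat_lit 456) (nat_lit 753865024) (nat_lit 295) (nat_lit 1) (nat_lit 288) (nat_lit 1) (nat_lit 294) (nat_lit 1) (nat_lit 342) (nat_lit 356) (nat_lit 322)) (XT.lf (nat_lit 76) (nat_lit 963686396) (nat_lit 0) (nat_lit 2124268668) (nat_lit 532) (nat_lit 963686396) (nat_lit 289) (nat_lit 1) (nat_lit 288) (nat_lit 1) (nat_lit 295) (nat_lit 1) (nat_lit 343) (nat_lit 356) (nat_lit 321))))) (XT.nd (nat_lit 156) (nat_lit 912) (nat_lit 0) (XT.nd (nat_lit 78) (nat_lit 0) (nat_lit 0) (XT.lf (nat_lit 532) (nat_lit 1258579208) (nat_lit 0) (nat_lit 1371534713) (nat_lit 456) (nat_lit 1371534713) (nat_lit 289) (nat_lit 1) (nat_lit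 282) (nat_lit 1) (nat_lit 288) (nat_lit 1) (nat_lit 344) (nat_lit 356) (nat_lit 320)) (XT.lf (nat_lit 76) (nat_lit 298401933) (nat_lit 0) (nat_lit 3355945096) (nat_lit 532) (nat_lit 298401933) (nat_lit 283) (nat_lit 1) (nat_lit 282) (nat_lit 1) (nat_lit 289) (nat_lit 1) (nat_lit 345) (nat_lit 356) (nat_lit 319))) (XT.nd (nat_lit 78) (nat_lit 456) (nat_lit 0) (XT.lf (nat_lit 76) (nat_lit 1913614219) (nat_lit 0) (nat_lit 77064157) (nat_lit 456) (nat_lit 1913614219) (nat_lit 277) (nat_lit 1) (nat_lit 276) (nat_lit 1) (nat_lit 282) (nat_lit 1) (nat_lit 346) (nat_lit 356) (nat_lit 318)) (XT.nd (nat_lit 78) (nat_lit 0) (nat_lit 0) (XT.lf (nat_lit 532) (nat_lit 3130531816) (nat_lit 0) (nat_lit 363178941) (nat_lit 456) (nat_lit 363178941) (nat_lit 277) (nat_lit 1) (nat_lit 270) (nat_lit 1) (nat_lit 276) (nat_lit 1) (nat_lit 347) (nat_lit 356) (nat_lit 317)) (XT.lf (nat_lit 76) (nat_lit 1211565982) (nat_lit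 0) (nat_lit 1386832728) (nat_lit 532) (nat_lit 1211565982) (nat_lit 271) (nat_lit 1) (nat_lit 270) (nat_lit 1) (nat_lit 277) (nat_lit 1) (nat_lit 348) (nat_lit 356) (nat_lit 316))))))) (XT.nd (nat_lit 702) (nat_lit 1900) (nat_lit 0) (XT.nd (nat_lit 312) (nat_lit 1140) (nat_lit 0) (XT.nd (nat_lit 156) (nat_lit 836) (nat_lit 0) (XT.nd (nat_lit 78) (nat_lit 0) (nat_lit 0) (XT.lf (nat_lit 456) (nat_lit 1722739592) (nat_lit 0) (nat_lit 1020635415) (nat_lit 380) (nat_lit 1020635415) (nat_lit 271) (nat_lit 1) (nat_lit 265) (nat_lit 1) (nat_lit 270) (nat_lit 1) (nat_lit 349) (nat_lit 356) (nat_lit 315)) (XT.lf (nat_lit 76) (nat_lit 512845085) (nat_lit 0) (nat_lit 2693207654) (nat_lit 456) (nat_lit 512845085) (nat_lit 266) (nat_lit 1) (nat_lit 265) (nat_lit 1) (nat_lit 271) (nat_lit 1) (nat_lit 350) (nat_lit 356) (nat_lit 314))) (XT.nd (nat_lit 78) (nat_lit 456) (nat_lit 0) (XT.lf (nat_lit 456) (nat_lit 322539161)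 (nat_lit 0) (nat_lit 1675895487) (nat_lit 380) (nat_lit 1675895487) (nat_lit 266) (nat_lit 1) (nat_lit 260) (nat_lit 1) (nat_lit 265) (nat_lit 1) (nat_lit 351) (nat_lit 356) (nat_lit 313)) (XT.lf (nat_lit 456) (nat_lit 3270993751) (nat_lit 0) (nat_lit 179881582) (nat_lit 380) (nat_lit 179881582) (nat_lit 260) (nat_lit 1) (nat_lit 254) (nat_lit 1) (nat_lit 259) (nat_lit 1) (nat_lit 352) (nat_lit 356) (nat_lit 312)))) (XT.nd (nat_lit 156) (nat_lit 760) (nat_lit 0) (XT.nd (nat_lit 78) (nat_lit 380) (nat_lit 0) (XT.lf (nat_lit 76) (nat_lit 1269947206) (nat_lit 0) (nat_lit 1047524819) (nat_lit 456) (nat_lit 1269947206) (nat_lit 255) (nat_lit 1) (nat_lit 254) (nat_lit 1) (nat_lit 260) (nat_lit 1) (nat_lit 353) (nat_lit 356) (nat_lit 311)) (XT.lf (nat_lit 456) (nat_lit 1819819377) (nat_lit 0) (nat_lit 862612654) (nat_lit 380) (nat_lit 862612654) (nat_lit 255) (nat_lit 1) (nat_lit 249) (nat_lit 1) (nat_lit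 254) (nat_lit 1) (nat_lit 354) (nat_lit 356) (nat_lit 310))) (XT.nd (nat_lit 78) (nat_lit 760) (nat_lit 0) (XT.lf (nat_lit 76) (nat_lit 551349694) (nat_lit 0) (nat_lit 2400680167) (nat_lit 456) (nat_lit 551349694) (nat_lit 250) (nat_lit 1) (nat_lit 249) (nat_lit 1) (nat_lit 255) (nat_lit 1) (nat_lit 355) (nat_lit 356) (nat_lit 309)) (XT.nd (nat_lit 78) (nat_lit 456) (nat_lit 0) (XT.lf (nat_lit 380) (nat_lit 382930308) (nat_lit 0) (nat_lit 1539656073) (nat_lit 304) (nat_lit 1539656073) (nat_lit 250) (nat_lit 1) (nat_lit 245) (nat_lit 1) (nat_lit 249) (nat_lit 1) (nat_lit 356) (nat_lit 356) (nat_lit 308)) (XT.lf (nat_lit 456) (nat_lit 3105475761) (nat_lit 0) (nat_lit 158266015) (nat_lit 380) (nat_lit 158266015) (nat_lit 245) (nat_lit 1) (nat_lit 239) (nat_lit 1) (nat_lit 244) (nat_lit 1) (nat_lit 357) (nat_lit 356) (nat_lit 307)))))) (XT.nd (nat_lit 390) (nat_lit 912) (nat_lit 0) (XT.nd (nat_lit 156)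 (nat_lit 684) (nat_lit 0) (XT.nd (nat_lit 78) (nat_lit 304) (nat_lit 0) (XT.lf (nat_lit 76) (nat_lit 1181861771) (nat_lit 0) (nat_lit 1018218706) (nat_lit 456) (nat_lit 1181861771) (nat_lit 240) (nat_lit 1) (nat_lit 239) (nat_lit 1) (nat_lit 245) (nat_lit 1) (nat_lit 358) (nat_lit 356) (nat_lit 306)) (XT.lf (nat_lit 380) (nat_lit 1633593222) (nat_lit 0) (nat_lit 854579844) (nat_lit 304) (nat_lit 854579844) (nat_lit 240) (nat_lit 1) (nat_lit 235) (nat_lit 1) (nat_lit 239) (nat_lit 1) (nat_lit 359) (nat_lit 356) (nat_lit 305))) (XT.nd (nat_lit 78) (nat_lit 684) (nat_lit 0) (XT.lf (nat_lit 76) (nat_lit 454277321) (nat_lit 0) (nat_lit 2395679273) (nat_lit 380) (nat_lit 454277321) (nat_lit 236) (nat_lit 1) (nat_lit 235) (nat_lit 1) (nat_lit 240) (nat_lit 1) (nat_lit 360) (nat_lit 356) (nat_lit 304)) (XT.nd (nat_lit 78) (nat_lit 380) (nat_lit 0) (XT.lf (nat_lit 380) (nat_lit 181146640) (nat_lit 0) (nat_lit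 1542503052) (nat_lit 304) (nat_lit 1542503052) (nat_lit 236) (nat_lit 1) (nat_lit 231) (nat_lit 1) (nat_lit 235) (nat_lit 1) (nat_lit 361) (nat_lit 356) (nat_lit 303)) (XT.lf (nat_lit 380) (nat_lit 2707120209) (nat_lit 0) (nat_lit 260851438) (nat_lit 304) (nat_lit 260851438) (nat_lit 231) (nat_lit 1) (nat_lit 226) (nat_lit 1) (nat_lit 230) (nat_lit 1) (nat_lit 362) (nat_lit 356) (nat_lit 302))))) (XT.nd (nat_lit 156) (nat_lit 608) (nat_lit 0) (XT.nd (nat_lit 78) (nat_lit 304) (nat_lit 0) (XT.lf (nat_lit 76) (nat_lit 982538814) (nat_lit 0) (nat_lit 1226671677) (nat_lit 380) (nat_lit 982538814) (nat_lit 227) (nat_lit 1) (nat_lit 226) (nat_lit 1) (nat_lit 231) (nat_lit 1) (nat_lit 363) (nat_lit 356) (nat_lit 301)) (XT.lf (nat_lit 380) (nat_lit 1232621747) (nat_lit 0) (nat_lit 961391661) (nat_lit 304) (nat_lit 961391661) (nat_lit 227) (nat_lit 1) (nat_lit 222) (nat_lit 1) (nat_lit 226) (nat_lit 1) (nat_lit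 364) (nat_lit 356) (nat_lit 300))) (XT.nd (nat_lit 78) (nat_lit 608) (nat_lit 0) (XT.lf (nat_lit 76) (nat_lit 254647677) (nat_lit 0) (nat_lit 2610468584) (nat_lit 380) (nat_lit 254647677) (nat_lit 223) (nat_lit 1) (nat_lit 222) (nat_lit 1) (nat_lit 227) (nat_lit 1) (nat_lit 365) (nat_lit 356) (nat_lit 299)) (XT.nd (nat_lit 78) (nat_lit 304) (nat_lit 0) (XT.lf (nat_lit 76) (nat_lit 1435030582) (nat_lit 0) (nat_lit 214291288) (nat_lit 304) (nat_lit 1435030582) (nat_lit 219) (nat_lit 1) (nat_lit 218) (nat_lit 1) (nat_lit 222) (nat_lit 1) (nat_lit 366) (nat_lit 356) (nat_lit 298)) (XT.lf (nat_lit 380) (nat_lit 2135629917) (nat_lit 0) (nat_lit 456997318) (nat_lit 304) (nat_lit 456997318) (nat_lit 219) (nat_lit 1) (nat_lit 214) (nat_lit 1) (nat_lit 218) (nat_lit 1) (nat_lit 367) (nat_lit 356) (nat_lit 297))))))))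
noncomputable def ec108 : XT := (XT.nd (nat_lit 1404) (nat_lit 2280) (nat_lit 0) (XT.nd (nat_lit 702) (nat_lit 1368) (nat_lit 0) (XT.nd (nat_lit 312) (nat_lit 760) (nat_lit 0) (XT.nd (nat_lit 156) (nat_lit 380) (nat_lit 0) (XT.nd (nat_lit 78) (nat_lit 228) (nat_lit 0) (XT.lf (nat_lit 76) (nat_lit 700722510) (nat_lit 0) (nat_lit 1613847256) (nat_lit 380) (nat_lit 700722510) (nat_lit 215) (nat_lit 1) (nat_lit 214) (nat_lit 1) (nat_lit 219) (nat_lit 1) (nat_lit 368) (nat_lit 356) (nat_lit 296)) (XT.lf (nat_lit 304) (nat_lit 672822118) (nat_lit 0) (nat_lit 1154338507) (nat_lit 228) (nat_lit 1154338507) (nat_lit 215) (nat_lit 1) (nat_lit 211) (nat_lit 1) (nat_lit 214) (nat_lit 1) (nat_lit 369) (nat_lit 356) (nat_lit 295))) (XT.nd (nat_lit 78) (nat_lit 0) (nat_lit 0) (XT.lf (nat_lit 380) (nat_lit 2907636277) (nat_lit 0) (nat_lit 20418022) (nat_lit 304) (nat_lit 20418022) (nat_lit 211) (nat_lit 1) (nat_lit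 206) (nat_lit 1) (nat_lit 210) (nat_lit 1) (nat_lit 370) (nat_lit 356) (nat_lit 294)) (XT.lf (nat_lit 76) (nat_lit 1083234667) (nat_lit 0) (nat_lit 748911248) (nat_lit 380) (nat_lit 1083234667) (nat_lit 207) (nat_lit 1) (nat_lit 206) (nat_lit 1) (nat_lit 211) (nat_lit 1) (nat_lit 371) (nat_lit 356) (nat_lit 293)))) (XT.nd (nat_lit 156) (nat_lit 532) (nat_lit 0) (XT.nd (nat_lit 78) (nat_lit 0) (nat_lit 0) (XT.lf (nat_lit 304) (nat_lit 1439547511) (nat_lit 0) (nat_lit 721745658) (nat_lit 228) (nat_lit 721745658) (nat_lit 207) (nat_lit 1) (nat_lit 203) (nat_lit 1) (nat_lit 206) (nat_lit 1) (nat_lit 372) (nat_lit 356) (nat_lit 292)) (XT.lf (nat_lit 76) (nat_lit 359772611) (nat_lit 0) (nat_lit 2131678708) (nat_lit 304) (nat_lit 359772611) (nat_lit 204) (nat_lit 1) (nat_lit 203) (nat_lit 1) (nat_lit 207) (nat_lit 1) (nat_lit 373) (nat_lit 356) (nat_lit 291))) (XT.nd (nat_lit 78) (nat_lit 228) (nat_lit 0)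 (XT.lf (nat_lit 76) (nat_lit 1409674722) (nat_lit 0) (nat_lit 377424) (nat_lit 304) (nat_lit 1409674722) (nat_lit 200) (nat_lit 1) (nat_lit 199) (nat_lit 1) (nat_lit 203) (nat_lit 1) (nat_lit 374) (nat_lit 356) (nat_lit 290)) (XT.nd (nat_lit 78) (nat_lit 0) (nat_lit 0) (XT.lf (nat_lit 304) (nat_lit 2096255992) (nat_lit 0) (nat_lit 346243072) (nat_lit 228) (nat_lit 346243072) (nat_lit 200) (nat_lit 1) (nat_lit 196) (nat_lit 1) (nat_lit 199) (nat_lit 1) (nat_lit 375) (nat_lit 356) (nat_lit 289)) (XT.lf (nat_lit 76) (nat_lit 686734252) (nat_lit 0) (nat_lit 1384586855) (nat_lit 304) (nat_lit 686734252) (nat_lit 197) (nat_lit 1) (nat_lit 196) (nat_lit 1) (nat_lit 200) (nat_lit 1) (nat_lit 376) (nat_lit 356) (nat_lit 288)))))) (XT.nd (nat_lit 312) (nat_lit 608) (nat_lit 0) (XT.nd (nat_lit 156) (nat_lit 228) (nat_lit 0) (XT.nd (nat_lit 78) (nat_lit 304) (nat_lit 0) (XT.lf (nat_lit 304) (nat_lit 658158700)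 (nat_lit 0) (nat_lit 1034854151) (nat_lit 228) (nat_lit 1034854151) (nat_lit 197) (nat_lit 1) (nat_lit 193) (nat_lit 1) (nat_lit 196) (nat_lit 1) (nat_lit 377) (nat_lit 356) (nat_lit 287)) (XT.lf (nat_lit 304) (nat_lit 2655929962) (nat_lit 0) (nat_lit 21206663) (nat_lit 228) (nat_lit 21206663) (nat_lit 193) (nat_lit 1) (nat_lit 189) (nat_lit 1) (nat_lit 192) (nat_lit 1) (nat_lit 378) (nat_lit 356) (nat_lit 286))) (XT.nd (nat_lit 78) (nat_lit 228) (nat_lit 0) (XT.lf (nat_lit 76) (nat_lit 966543758) (nat_lit 0) (nat_lit 735641790) (nat_lit 304) (nat_lit 966543758) (nat_lit 190) (nat_lit 1) (nat_lit 189) (nat_lit 1) (nat_lit 193) (nat_lit 1) (nat_lit 379) (nat_lit 356) (nat_lit 285)) (XT.lf (nat_lit 304) (nat_lit 1224086559) (nat_lit 0) (nat_lit 707840622) (nat_lit 228) (nat_lit 707840622) (nat_lit 190) (nat_lit 1) (nat_lit 186) (nat_lit 1) (nat_lit 189) (nat_lit 1) (nat_lit 380) (nat_lit 356) (nat_lit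 284)))) (XT.nd (nat_lit 156) (nat_lit 380) (nat_lit 0) (XT.nd (nat_lit 78) (nat_lit 228) (nat_lit 0) (XT.lf (nat_lit 76) (nat_lit 261808223) (nat_lit 0) (nat_lit 2087680393) (nat_lit 304) (nat_lit 261808223) (nat_lit 187) (nat_lit 1) (nat_lit 186) (nat_lit 1) (nat_lit 190) (nat_lit 1) (nat_lit 381) (nat_lit 356) (nat_lit 283)) (XT.lf (nat_lit 76) (nat_lit 1204770609) (nat_lit 0) (nat_lit 173466749) (nat_lit 228) (nat_lit 1204770609) (nat_lit 184) (nat_lit 1) (nat_lit 183) (nat_lit 1) (nat_lit 186) (nat_lit 1) (nat_lit 382) (nat_lit 356) (nat_lit 282))) (XT.nd (nat_lit 78) (nat_lit 152) (nat_lit 0) (XT.lf (nat_lit 304) (nat_lit 1708285130) (nat_lit 0) (nat_lit 423456848) (nat_lit 228) (nat_lit 423456848) (nat_lit 184) (nat_lit 1) (nat_lit 180) (nat_lit 1) (nat_lit 183) (nat_lit 1) (nat_lit 383) (nat_lit 356) (nat_lit 281)) (XT.nd (nat_lit 78) (nat_lit 152) (nat_lit 0) (XT.lf (nat_lit 76) (nat_lit 505270130)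 (nat_lit 0) (nat_lit 1517166767) (nat_lit 304) (nat_lit 505270130) (nat_lit 181) (nat_lit 1) (nat_lit 180) (nat_lit 1) (nat_lit 184) (nat_lit 1) (nat_lit 384) (nat_lit 356) (nat_lit 280)) (XT.lf (nat_lit 228) (nat_lit 318243875) (nat_lit 0) (nat_lit 1091169429) (nat_lit 152) (nat_lit 1091169429) (nat_lit 181) (nat_lit 1) (nat_lit 178) (nat_lit 1) (nat_lit 180) (nat_lit 1) (nat_lit 385) (nat_lit 356) (nat_lit 279))))))) (XT.nd (nat_lit 702) (nat_lit 1064) (nat_lit 0) (XT.nd (nat_lit 312) (nat_lit 760) (nat_lit 0) (XT.nd (nat_lit 156) (nat_lit 152) (nat_lit 0) (XT.nd (nat_lit 78) (nat_lit 0) (nat_lit 0) (XT.lf (nat_lit 304) (nat_lit 2120410646) (nat_lit 0) (nat_lit 176769540) (nat_lit 228) (nat_lit 176769540) (nat_lit 178) (nat_lit 1) (nat_lit 174) (nat_lit 1) (nat_lit 177) (nat_lit 1) (nat_lit 386) (nat_lit 356) (nat_lit 278)) (XT.lf (nat_lit 76) (nat_lit 713641418) (nat_lit 0) (nat_lit 1020109020) (nat_lit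 304) (nat_lit 713641418) (nat_lit 175) (nat_lit 1) (nat_lit 174) (nat_lit 1) (nat_lit 178) (nat_lit 1) (nat_lit 387) (nat_lit 356) (nat_lit 277))) (XT.nd (nat_lit 78) (nat_lit 0) (nat_lit 0) (XT.lf (nat_lit 228) (nat_lit 744342147) (nat_lit 0) (nat_lit 838487038) (nat_lit 152) (nat_lit 838487038) (nat_lit 175) (nat_lit 1) (nat_lit 172) (nat_lit 1) (nat_lit 174) (nat_lit 1) (nat_lit 388) (nat_lit 356) (nat_lit 276)) (XT.lf (nat_lit 76) (nat_lit 36961605) (nat_lit 0) (nat_lit 2321862213) (nat_lit 228) (nat_lit 36961605) (nat_lit 173) (nat_lit 1) (nat_lit 172) (nat_lit 1) (nat_lit 175) (nat_lit 1) (nat_lit 389) (nat_lit 356) (nat_lit 275)))) (XT.nd (nat_lit 156) (nat_lit 380) (nat_lit 0) (XT.nd (nat_lit 78) (nat_lit 152) (nat_lit 0) (XT.lf (nat_lit 76) (nat_lit 891066449) (nat_lit 0) (nat_lit 588029378) (nat_lit 228) (nat_lit 891066449) (nat_lit 170) (nat_lit 1) (nat_lit 169) (nat_lit 1) (nat_lit 172)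 (nat_lit 1) (nat_lit 390) (nat_lit 356) (nat_lit 274)) (XT.lf (nat_lit 228) (nat_lit 1109480674) (nat_lit 0) (nat_lit 617797624) (nat_lit 152) (nat_lit 617797624) (nat_lit 170) (nat_lit 1) (nat_lit 167) (nat_lit 1) (nat_lit 169) (nat_lit 1) (nat_lit 391) (nat_lit 356) (nat_lit 273))) (XT.nd (nat_lit 78) (nat_lit 380) (nat_lit 0) (XT.lf (nat_lit 76) (nat_lit 222717652) (nat_lit 0) (nat_lit 1874964983) (nat_lit 228) (nat_lit 222717652) (nat_lit 168) (nat_lit 1) (nat_lit 167) (nat_lit 1) (nat_lit 170) (nat_lit 1) (nat_lit 392) (nat_lit 356) (nat_lit 272)) (XT.nd (nat_lit 78) (nat_lit 152) (nat_lit 0) (XT.lf (nat_lit 76) (nat_lit 1041220701) (nat_lit 0) (nat_lit 213403793) (nat_lit 228) (nat_lit 1041220701) (nat_lit 165) (nat_lit 1) (nat_lit 164) (nat_lit 1) (nat_lit 167) (nat_lit 1) (nat_lit 393) (nat_lit 356) (nat_lit 271)) (XT.lf (nat_lit 228) (nat_lit 1420848837) (nat_lit 0) (nat_lit 425422421) (nat_lit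 152) (nat_lit 425422421) (nat_lit 165) (nat_lit 1) (nat_lit 162) (nat_lit 1) (nat_lit 164) (nat_lit 1) (nat_lit 394) (nat_lit 356) (nat_lit 270)))))) (XT.nd (nat_lit 390) (nat_lit 532) (nat_lit 0) (XT.nd (nat_lit 156) (nat_lit 380) (nat_lit 0) (XT.nd (nat_lit 78) (nat_lit 152) (nat_lit 0) (XT.lf (nat_lit 76) (nat_lit 382229074) (nat_lit 0) (nat_lit 1483377714) (nat_lit 228) (nat_lit 382229074) (nat_lit 163) (nat_lit 1) (nat_lit 162) (nat_lit 1) (nat_lit 165) (nat_lit 1) (nat_lit 395) (nat_lit 356) (nat_lit 269)) (XT.lf (nat_lit 228) (nat_lit 112642716) (nat_lit 0) (nat_lit 1055803319) (nat_lit 152) (nat_lit 1055803319) (nat_lit 163) (nat_lit 1) (nat_lit 160) (nat_lit 1) (nat_lit 162) (nat_lit 1) (nat_lit 396) (nat_lit 356) (nat_lit 268))) (XT.nd (nat_lit 78) (nat_lit 152) (nat_lit 0) (XT.lf (nat_lit 228) (nat_lit 1684822904) (nat_lit 0) (nat_lit 258096130) (nat_lit 152) (nat_lit 258096130) (nat_lit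 160) (nat_lit 1) (nat_lit 157) (nat_lit 1) (nat_lit 159) (nat_lit 1) (nat_lit 397) (nat_lit 356) (nat_lit 267)) (XT.nd (nat_lit 78) (nat_lit 152) (nat_lit 0) (XT.lf (nat_lit 76) (nat_lit 518583567) (nat_lit 0) (nat_lit 1140773160) (nat_lit 228) (nat_lit 518583567) (nat_lit 158) (nat_lit 1) (nat_lit 157) (nat_lit 1) (nat_lit 160) (nat_lit 1) (nat_lit 398) (nat_lit 356) (nat_lit 266)) (XT.lf (nat_lit 228) (nat_lit 397191074) (nat_lit 0) (nat_lit 879010342) (nat_lit 152) (nat_lit 879010342) (nat_lit 158) (nat_lit 1) (nat_lit 155) (nat_lit 1) (nat_lit 157) (nat_lit 1) (nat_lit 399) (nat_lit 356) (nat_lit 265))))) (XT.nd (nat_lit 156) (nat_lit 304) (nat_lit 0) (XT.nd (nat_lit 78) (nat_lit 0) (nat_lit 0) (XT.lf (nat_lit 228) (nat_lit 1907057032) (nat_lit 0) (nat_lit 112920718) (nat_lit 152) (nat_lit 112920718) (nat_lit 155) (nat_lit 1) (nat_lit 152) (nat_lit 1) (nat_lit 154) (nat_lit 1) (nat_lit 400) (nat_lit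 356) (nat_lit 264)) (XT.lf (nat_lit 76) (nat_lit 634519817) (nat_lit 0) (nat_lit 841534287) (nat_lit 228) (nat_lit 634519817) (nat_lit 153) (nat_lit 1) (nat_lit 152) (nat_lit 1) (nat_lit 155) (nat_lit 1) (nat_lit 401) (nat_lit 356) (nat_lit 263))) (XT.nd (nat_lit 78) (nat_lit 152) (nat_lit 0) (XT.lf (nat_lit 228) (nat_lit 641354931) (nat_lit 0) (nat_lit 723652185) (nat_lit 152) (nat_lit 723652185) (nat_lit 153) (nat_lit 1) (nat_lit 150) (nat_lit 1) (nat_lit 152) (nat_lit 1) (nat_lit 402) (nat_lit 356) (nat_lit 262)) (XT.nd (nat_lit 78) (nat_lit 152) (nat_lit 0) (XT.lf (nat_lit 76) (nat_lit 12801129) (nat_lit 0) (nat_lit 2041595762) (nat_lit 228) (nat_lit 12801129) (nat_lit 151) (nat_lit 1) (nat_lit 150) (nat_lit 1) (nat_lit 153) (nat_lit 1) (nat_lit 403) (nat_lit 356) (nat_lit 261)) (XT.lf (nat_lit 76) (nat_lit 732466555) (nat_lit 0) (nat_lit 580674945) (nat_lit 152) (nat_lit 732466555) (nat_lit 149)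 (nat_lit 1) (nat_lit 148) (nat_lit 1) (nat_lit 150) (nat_lit 1) (nat_lit 404) (nat_lit 356) (nat_lit 260))))))))
noncomputable def ec109 : XT := (XT.nd (nat_lit 1482) (nat_lit 836) (nat_lit 0) (XT.nd (nat_lit 702) (nat_lit 1140) (nat_lit 0) (XT.nd (nat_lit 312) (nat_lit 380) (nat_lit 0) (XT.nd (nat_lit 156) (nat_lit 304) (nat_lit 0) (XT.nd (nat_lit 78) (nat_lit 0) (nat_lit 0) (XT.lf (nat_lit 228) (nat_lit 849889730) (nat_lit 0) (nat_lit 587288488) (nat_lit 152) (nat_lit 587288488) (nat_lit 149) (nat_lit 1) (nat_lit 146) (nat_lit 1) (nat_lit 148) (nat_lit 1) (nat_lit 405) (nat_lit 356) (nat_lit 259)) (XT.lf (nat_lit 76) (nat_lit 122172741) (nat_lit 0) (nat_lit 1759350552) (nat_lit 228) (nat_lit 122172741) (nat_lit 147) (nat_lit 1) (nat_lit 146) (nat_lit 1) (nat_lit 149) (nat_lit 1) (nat_lit 406) (nat_lit 356) (nat_lit 258))) (XT.nd (nat_lit 78) (nat_lit 152) (nat_lit 0) (XT.lf (nat_lit 76) (nat_lit 814577258)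 (nat_lit 0) (nat_lit 353769383) (nat_lit 152) (nat_lit 814577258) (nat_lit 145) (nat_lit 1) (nat_lit 144) (nat_lit 1) (nat_lit 146) (nat_lit 1) (nat_lit 407) (nat_lit 356) (nat_lit 257)) (XT.lf (nat_lit 228) (nat_lit 1027013279) (nat_lit 0) (nat_lit 467752482) (nat_lit 152) (nat_lit 467752482) (nat_lit 145) (nat_lit 1) (nat_lit 142) (nat_lit 1) (nat_lit 144) (nat_lit 1) (nat_lit 408) (nat_lit 356) (nat_lit 256)))) (XT.nd (nat_lit 156) (nat_lit 228) (nat_lit 0) (XT.nd (nat_lit 78) (nat_lit 152) (nat_lit 0) (XT.lf (nat_lit 76) (nat_lit 216120844) (nat_lit 0) (nat_lit 1510169072) (nat_lit 228) (nat_lit 216120844) (nat_lit 143) (nat_lit 1) (nat_lit 142) (nat_lit 1) (nat_lit 145) (nat_lit 1) (nat_lit 409) (nat_lit 356) (nat_lit 255)) (XT.lf (nat_lit 76) (nat_lit 882760965) (nat_lit 0) (nat_lit 156889626) (nat_lit 152) (nat_lit 882760965) (nat_lit 141) (nat_lit 1) (nat_lit 140) (nat_lit 1) (nat_lit 142) (nat_lit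 1) (nat_lit 410) (nat_lit 356) (nat_lit 254))) (XT.nd (nat_lit 78) (nat_lit 76) (nat_lit 0) (XT.lf (nat_lit 228) (nat_lit 1176465922) (nat_lit 0) (nat_lit 363120436) (nat_lit 152) (nat_lit 363120436) (nat_lit 141) (nat_lit 1) (nat_lit 138) (nat_lit 1) (nat_lit 140) (nat_lit 1) (nat_lit 411) (nat_lit 356) (nat_lit 253)) (XT.nd (nat_lit 78) (nat_lit 76) (nat_lit 0) (XT.lf (nat_lit 76) (nat_lit 296459353) (nat_lit 0) (nat_lit 1290317984) (nat_lit 228) (nat_lit 296459353) (nat_lit 139) (nat_lit 1) (nat_lit 138) (nat_lit 1) (nat_lit 141) (nat_lit 1) (nat_lit 412) (nat_lit 356) (nat_lit 252)) (XT.lf (nat_lit 152) (nat_lit 13717835) (nat_lit 0) (nat_lit 925123695) (nat_lit 76) (nat_lit 925123695) (nat_lit 139) (nat_lit 1) (nat_lit 137) (nat_lit 1) (nat_lit 138) (nat_lit 1) (nat_lit 413) (nat_lit 356) (nat_lit 251)))))) (XT.nd (nat_lit 390) (nat_lit 608) (nat_lit 0) (XT.nd (nat_lit 156) (nat_lit 304) (nat_lit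 0) (XT.nd (nat_lit 78) (nat_lit 0) (nat_lit 0) (XT.lf (nat_lit 228) (nat_lit 1301563981) (nat_lit 0) (nat_lit 271684517) (nat_lit 152) (nat_lit 271684517) (nat_lit 137) (nat_lit 1) (nat_lit 134) (nat_lit 1) (nat_lit 136) (nat_lit 1) (nat_lit 414) (nat_lit 356) (nat_lit 250)) (XT.lf (nat_lit 76) (nat_lit 364797171) (nat_lit 0) (nat_lit 1096481617) (nat_lit 228) (nat_lit 364797171) (nat_lit 135) (nat_lit 1) (nat_lit 134) (nat_lit 1) (nat_lit 137) (nat_lit 1) (nat_lit 415) (nat_lit 356) (nat_lit 249))) (XT.nd (nat_lit 78) (nat_lit 228) (nat_lit 0) (XT.lf (nat_lit 152) (nat_lit 163534195) (nat_lit 0) (nat_lit 821960420) (nat_lit 76) (nat_lit 821960420) (nat_lit 135) (nat_lit 1) (nat_lit 133) (nat_lit 1) (nat_lit 134) (nat_lit 1) (nat_lit 416) (nat_lit 356) (nat_lit 248)) (XT.nd (nat_lit 78) (nat_lit 0) (nat_lit 0) (XT.lf (nat_lit 228) (nat_lit 1405247251) (nat_lit 0) (nat_lit 191928673) (nat_lit 152) (nat_lit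 191928673) (nat_lit 133) (nat_lit 1) (nat_lit 130) (nat_lit 1) (nat_lit 132) (nat_lit 1) (nat_lit 417) (nat_lit 356) (nat_lit 247)) (XT.lf (nat_lit 76) (nat_lit 422561131) (nat_lit 0) (nat_lit 925715346) (nat_lit 228) (nat_lit 422561131) (nat_lit 131) (nat_lit 1) (nat_lit 130) (nat_lit 1) (nat_lit 133) (nat_lit 1) (nat_lit 418) (nat_lit 356) (nat_lit 246))))) (XT.nd (nat_lit 156) (nat_lit 304) (nat_lit 0) (XT.nd (nat_lit 78) (nat_lit 228) (nat_lit 0) (XT.lf (nat_lit 152) (nat_lit 292235952) (nat_lit 0) (nat_lit 730301187) (nat_lit 76) (nat_lit 730301187) (nat_lit 131) (nat_lit 1) (nat_lit 129) (nat_lit 1) (nat_lit 130) (nat_lit 1) (nat_lit 419) (nat_lit 356) (nat_lit 245)) (XT.lf (nat_lit 228) (nat_lit 1490121178) (nat_lit 0) (nat_lit 122507206) (nat_lit 152) (nat_lit 122507206) (nat_lit 129) (nat_lit 1) (nat_lit 126) (nat_lit 1) (nat_lit 128) (nat_lit 1) (nat_lit 420) (nat_lit 356) (nat_lit 244)))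 (XT.nd (nat_lit 78) (nat_lit 304) (nat_lit 0) (XT.lf (nat_lit 76) (nat_lit 471016372) (nat_lit 0) (nat_lit 775404183) (nat_lit 228) (nat_lit 471016372) (nat_lit 127) (nat_lit 1) (nat_lit 126) (nat_lit 1) (nat_lit 129) (nat_lit 1) (nat_lit 421) (nat_lit 356) (nat_lit 243)) (XT.nd (nat_lit 78) (nat_lit 228) (nat_lit 0) (XT.lf (nat_lit 152) (nat_lit 402306051) (nat_lit 0) (nat_lit 648863146) (nat_lit 76) (nat_lit 648863146) (nat_lit 127) (nat_lit 1) (nat_lit 125) (nat_lit 1) (nat_lit 126) (nat_lit 1) (nat_lit 422) (nat_lit 356) (nat_lit 242)) (XT.lf (nat_lit 228) (nat_lit 1558494334) (nat_lit 0) (nat_lit 62225741) (nat_lit 152) (nat_lit 62225741) (nat_lit 125) (nat_lit 1) (nat_lit 122) (nat_lit 1) (nat_lit 124) (nat_lit 1) (nat_lit 423) (nat_lit 356) (nat_lit 241))))))) (XT.nd (nat_lit 702) (nat_lit 228) (nat_lit 0) (XT.nd (nat_lit 312) (nat_lit 304) (nat_lit 0) (XT.nd (nat_lit 156) (nat_lit 228) (nat_lit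 0) (XT.nd (nat_lit 78) (nat_lit 76) (nat_lit 0) (XT.lf (nat_lit 76) (nat_lit 511284451) (nat_lit 0) (nat_lit 643225980) (nat_lit 228) (nat_lit 511284451) (nat_lit 123) (nat_lit 1) (nat_lit 122) (nat_lit 1) (nat_lit 125) (nat_lit 1) (nat_lit 424) (nat_lit 356) (nat_lit 240)) (XT.lf (nat_lit 152) (nat_lit 495946814) (nat_lit 0) (nat_lit 576506501) (nat_lit 76) (nat_lit 576506501) (nat_lit 123) (nat_lit 1) (nat_lit 121) (nat_lit 1) (nat_lit 122) (nat_lit 1) (nat_lit 425) (nat_lit 356) (nat_lit 239))) (XT.nd (nat_lit 78) (nat_lit 0) (nat_lit 0) (XT.lf (nat_lit 228) (nat_lit 1612411707) (nat_lit 0) (nat_lit 10024314) (nat_lit 152) (nat_lit 10024314) (nat_lit 121) (nat_lit 1) (nat_lit 118) (nat_lit 1) (nat_lit 120) (nat_lit 1) (nat_lit 426) (nat_lit 356) (nat_lit 238)) (XT.lf (nat_lit 76) (nat_lit 544359424) (nat_lit 0) (nat_lit 527118734) (nat_lit 228) (nat_lit 544359424) (nat_lit 119) (nat_lit 1) (nat_lit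 118) (nat_lit 1) (nat_lit 121) (nat_lit 1) (nat_lit 427) (nat_lit 356) (nat_lit 237)))) (XT.nd (nat_lit 156) (nat_lit 228) (nat_lit 0) (XT.nd (nat_lit 78) (nat_lit 0) (nat_lit 0) (XT.lf (nat_lit 152) (nat_lit 575111349) (nat_lit 0) (nat_lit 512218559) (nat_lit 76) (nat_lit 512218559) (nat_lit 119) (nat_lit 1) (nat_lit 117) (nat_lit 1) (nat_lit 118) (nat_lit 1) (nat_lit 428) (nat_lit 356) (nat_lit 236)) (XT.lf (nat_lit 0) (nat_lit 35384560) (nat_lit 0) (nat_lit 1512798824) (nat_lit 152) (nat_lit 35384560) (nat_lit 117) (nat_lit 3) (nat_lit 117) (nat_lit 1) (nat_lit 119) (nat_lit 1) (nat_lit 429) (nat_lit 356) (nat_lit 235))) (XT.nd (nat_lit 78) (nat_lit 76) (nat_lit 0) (XT.lf (nat_lit 76) (nat_lit 571122133) (nat_lit 0) (nat_lit 425251549) (nat_lit 152) (nat_lit 571122133) (nat_lit 116) (nat_lit 1) (nat_lit 115) (nat_lit 1) (nat_lit 117) (nat_lit 1) (nat_lit 430) (nat_lit 356) (nat_lit 234)) (XT.nd (nat_lit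 78) (nat_lit 0) (nat_lit 0) (XT.lf (nat_lit 152) (nat_lit 641531440) (nat_lit 0) (nat_lit 455099555) (nat_lit 76) (nat_lit 455099555) (nat_lit 116) (nat_lit 1) (nat_lit 114) (nat_lit 1) (nat_lit 115) (nat_lit 1) (nat_lit 431) (nat_lit 356) (nat_lit 233)) (XT.lf (nat_lit 0) (nat_lit 74525342) (nat_lit 0) (nat_lit 1387188780) (nat_lit 152) (nat_lit 74525342) (nat_lit 114) (nat_lit 3) (nat_lit 114) (nat_lit 1) (nat_lit 116) (nat_lit 1) (nat_lit 432) (nat_lit 356) (nat_lit 232)))))) (XT.nd (nat_lit 43368) (nat_lit 0) (nat_lit 20064) (XT.nd (nat_lit 156) (nat_lit 0) (nat_lit 0) (XT.nd (nat_lit 78) (nat_lit 76) (nat_lit 0) (XT.lf (nat_lit 76) (nat_lit 592352906) (nat_lit 0) (nat_lit 335998825) (nat_lit 152) (nat_lit 592352906) (nat_lit 113) (nat_lit 1) (nat_lit 112) (nat_lit 1) (nat_lit 114) (nat_lit 1) (nat_lit 433) (nat_lit 356) (nat_lit 231)) (XT.lf (nat_lit 152) (nat_lit 696742331) (nat_lit 0) (nat_lit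 404350060) (nat_lit 76) (nat_lit 404350060) (nat_lit 113) (nat_lit 1) (nat_lit 111) (nat_lit 1) (nat_lit 112) (nat_lit 1) (nat_lit 434) (nat_lit 356) (nat_lit 230))) (XT.nd (nat_lit 43056) (nat_lit 0) (nat_lit 19988) (XT.lf (nat_lit 0) (nat_lit 108046470) (nat_lit 0) (nat_lit 1274330932) (nat_lit 152) (nat_lit 108046470) (nat_lit 111) (nat_lit 3) (nat_lit 111) (nat_lit 1) (nat_lit 113) (nat_lit 1) (nat_lit 435) (nat_lit 356) (nat_lit 229)) (XT.nd (nat_lit 78) (nat_lit 0) (nat_lit 0) (XT.lf (nat_lit 1292) (nat_lit 616449489) (nat_lit 0) (nat_lit 2120872935) (nat_lit 1292) (nat_lit 616449489) (nat_lit 391) (nat_lit 1) (nat_lit 374) (nat_lit 0) (nat_lit 391) (nat_lit 0) (nat_lit 306) (nat_lit 357) (nat_lit 357)) (XT.lf (nat_lit 1292) (nat_lit 2409095407) (nat_lit 76) (nat_lit 2100080063) (nat_lit 0) (nat_lit 2100080063) (nat_lit 391) (nat_lit 1) (nat_lit 375) (nat_lit 1) (nat_lit 374) (nat_lit 0) (nat_lit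 307) (nat_lit 357) (nat_lit 356))))) (XT.nd (nat_lit 156) (nat_lit 0) (nat_lit 76) (XT.nd (nat_lit 78) (nat_lit 0) (nat_lit 0) (XT.lf (nat_lit 1292) (nat_lit 1165095978) (nat_lit 0) (nat_lit 4182943318) (nat_lit 1216) (nat_lit 1165095978) (nat_lit 392) (nat_lit 1) (nat_lit 375) (nat_lit 1) (nat_lit 391) (nat_lit 1) (nat_lit 308) (nat_lit 357) (nat_lit 355)) (XT.lf (nat_lit 1292) (nat_lit 2212577417) (nat_lit 76) (nat_lit 2103021386) (nat_lit 0) (nat_lit 2103021386) (nat_lit 392) (nat_lit 1) (nat_lit 376) (nat_lit 1) (nat_lit 375) (nat_lit 1) (nat_lit 309) (nat_lit 357) (nat_lit 354))) (XT.nd (nat_lit 78) (nat_lit 0) (nat_lit 0) (XT.lf (nat_lit 1292) (nat_lit 1038240918) (nat_lit 0) (nat_lit 4249738075) (nat_lit 1216) (nat_lit 1038240918) (nat_lit 393) (nat_lit 1) (nat_lit 376) (nat_lit 1) (nat_lit 392) (nat_lit 1) (nat_lit 310) (nat_lit 357) (nat_lit 353)) (XT.nd (nat_lit 78) (nat_lit 0) (nat_lit 76)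 (XT.lf (nat_lit 1292) (nat_lit 1902686107) (nat_lit 76) (nat_lit 2166305640) (nat_lit 0) (nat_lit 2166305640) (nat_lit 393) (nat_lit 1) (nat_lit 377) (nat_lit 1) (nat_lit 376) (nat_lit 1) (nat_lit 311) (nat_lit 357) (nat_lit 352)) (XT.lf (nat_lit 1292) (nat_lit 857556956) (nat_lit 0) (nat_lit 4431360486) (nat_lit 1216) (nat_lit 857556956) (nat_lit 394) (nat_lit 1) (nat_lit 377) (nat_lit 1) (nat_lit 393) (nat_lit 1) (nat_lit 312) (nat_lit 357) (nat_lit 351))))))))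
noncomputable def ec110 : XT := (XT.nd (nat_lit 1482) (nat_lit 5168) (nat_lit 0) (XT.nd (nat_lit 702) (nat_lit 3116) (nat_lit 0) (XT.nd (nat_lit 312) (nat_lit 1064) (nat_lit 0) (XT.nd (nat_lit 156) (nat_lit 0) (nat_lit 76) (XT.nd (nat_lit 78) (nat_lit 0) (nat_lit 76) (XT.lf (nat_lit 1292) (nat_lit 1489560274) (nat_lit 76) (nat_lit 2284706416) (nat_lit 0) (nat_lit 2284706416) (nat_lit 394) (nat_lit 1) (nat_lit 378) (nat_lit 1) (nat_lit 377) (nat_lit 1) (nat_lit 313) (nat_lit 357) (nat_lit 350)) (XT.lf (nat_lit 1292) (nat_lit 627914019) (nat_lit 0) (nat_lit 4717762801) (nat_lit 1216) (nat_lit 627914019) (nat_lit 395) (nat_lit 1) (nat_lit 378) (nat_lit 1) (nat_lit 394) (nat_lit 1) (nat_lit 314) (nat_lit 357) (nat_lit 349))) (XT.nd (nat_lit 78) (nat_lit 0) (nat_lit 76) (XT.lf (nat_lit 1292) (nat_lit 982650960) (nat_lit 76) (nat_lit 2453348655) (nat_lit 0) (nat_lit 2453348655) (nat_lit 395) (nat_lit 1) (nat_lit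 379) (nat_lit 1) (nat_lit 378) (nat_lit 1) (nat_lit 315) (nat_lit 357) (nat_lit 348)) (XT.lf (nat_lit 1292) (nat_lit 353850639) (nat_lit 0) (nat_lit 5099574715) (nat_lit 1216) (nat_lit 353850639) (nat_lit 396) (nat_lit 1) (nat_lit 379) (nat_lit 1) (nat_lit 395) (nat_lit 1) (nat_lit 316) (nat_lit 357) (nat_lit 347)))) (XT.nd (nat_lit 156) (nat_lit 1216) (nat_lit 0) (XT.nd (nat_lit 78) (nat_lit 0) (nat_lit 76) (XT.lf (nat_lit 1292) (nat_lit 390764011) (nat_lit 76) (nat_lit 2667686986) (nat_lit 0) (nat_lit 2667686986) (nat_lit 396) (nat_lit 1) (nat_lit 380) (nat_lit 1) (nat_lit 379) (nat_lit 1) (nat_lit 317) (nat_lit 357) (nat_lit 346)) (XT.lf (nat_lit 1292) (nat_lit 39594487) (nat_lit 0) (nat_lit 5568061553) (nat_lit 1216) (nat_lit 39594487) (nat_lit 397) (nat_lit 1) (nat_lit 380) (nat_lit 1) (nat_lit 396) (nat_lit 1) (nat_lit 318) (nat_lit 357) (nat_lit 345))) (XT.nd (nat_lit 78) (nat_lit 0) (nat_lit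 0) (XT.lf (nat_lit 1368) (nat_lit 2648256794) (nat_lit 0) (nat_lit 272477071) (nat_lit 1292) (nat_lit 2648256794) (nat_lit 381) (nat_lit 1) (nat_lit 363) (nat_lit 1) (nat_lit 380) (nat_lit 1) (nat_lit 319) (nat_lit 357) (nat_lit 344)) (XT.nd (nat_lit 78) (nat_lit 0) (nat_lit 76) (XT.lf (nat_lit 1368) (nat_lit 4877147626) (nat_lit 76) (nat_lit 307870102) (nat_lit 0) (nat_lit 307870102) (nat_lit 381) (nat_lit 1) (nat_lit 364) (nat_lit 1) (nat_lit 363) (nat_lit 1) (nat_lit 320) (nat_lit 357) (nat_lit 343)) (XT.lf (nat_lit 1368) (nat_lit 2210853808) (nat_lit 0) (nat_lit 995887509) (nat_lit 1292) (nat_lit 2210853808) (nat_lit 382) (nat_lit 1) (nat_lit 364) (nat_lit 1) (nat_lit 381) (nat_lit 1) (nat_lit 321) (nat_lit 357) (nat_lit 342)))))) (XT.nd (nat_lit 390) (nat_lit 1824) (nat_lit 0) (XT.nd (nat_lit 156) (nat_lit 1368) (nat_lit 0) (XT.nd (nat_lit 78) (nat_lit 0) (nat_lit 76) (XT.lf (nat_lit 1368) (nat_lit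 3969769248) (nat_lit 76) (nat_lit 687220894) (nat_lit 0) (nat_lit 687220894) (nat_lit 382) (nat_lit 1) (nat_lit 365) (nat_lit 1) (nat_lit 364) (nat_lit 1) (nat_lit 322) (nat_lit 357) (nat_lit 341)) (XT.lf (nat_lit 76) (nat_lit 1745844743) (nat_lit 0) (nat_lit 1780130065) (nat_lit 1292) (nat_lit 1745844743) (nat_lit 366) (nat_lit 1) (nat_lit 365) (nat_lit 1) (nat_lit 382) (nat_lit 1) (nat_lit 323) (nat_lit 357) (nat_lit 340))) (XT.nd (nat_lit 78) (nat_lit 608) (nat_lit 0) (XT.lf (nat_lit 912) (nat_lit 3010082122) (nat_lit 0) (nat_lit 1095473058) (nat_lit 836) (nat_lit 1095473058) (nat_lit 366) (nat_lit 1) (nat_lit 354) (nat_lit 1) (nat_lit 365) (nat_lit 1) (nat_lit 324) (nat_lit 357) (nat_lit 339)) (XT.nd (nat_lit 78) (nat_lit 608) (nat_lit 0) (XT.lf (nat_lit 76) (nat_lit 1256349681) (nat_lit 0) (nat_lit 2618731402) (nat_lit 912) (nat_lit 1256349681) (nat_lit 355) (nat_lit 1) (nat_lit 354) (nat_lit 1)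 (nat_lit 366) (nat_lit 1) (nat_lit 325) (nat_lit 357) (nat_lit 338)) (XT.lf (nat_lit 684) (nat_lit 2004129644) (nat_lit 0) (nat_lit 1529491489) (nat_lit 608) (nat_lit 1529491489) (nat_lit 355) (nat_lit 1) (nat_lit 346) (nat_lit 1) (nat_lit 354) (nat_lit 1) (nat_lit 326) (nat_lit 357) (nat_lit 337))))) (XT.nd (nat_lit 156) (nat_lit 1216) (nat_lit 0) (XT.nd (nat_lit 78) (nat_lit 608) (nat_lit 0) (XT.lf (nat_lit 76) (nat_lit 745264883) (nat_lit 0) (nat_lit 3505676612) (nat_lit 684) (nat_lit 745264883) (nat_lit 347) (nat_lit 1) (nat_lit 346) (nat_lit 1) (nat_lit 355) (nat_lit 1) (nat_lit 327) (nat_lit 357) (nat_lit 336)) (XT.lf (nat_lit 684) (nat_lit 957519731) (nat_lit 0) (nat_lit 1986364040) (nat_lit 608) (nat_lit 1986364040) (nat_lit 347) (nat_lit 1) (nat_lit 338) (nat_lit 1) (nat_lit 346) (nat_lit 1) (nat_lit 328) (nat_lit 357) (nat_lit 335))) (XT.nd (nat_lit 78) (nat_lit 1216) (nat_lit 0) (XT.lf (nat_lit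 76) (nat_lit 215276933) (nat_lit 0) (nat_lit 4435380375) (nat_lit 684) (nat_lit 215276933) (nat_lit 339) (nat_lit 1) (nat_lit 338) (nat_lit 1) (nat_lit 347) (nat_lit 1) (nat_lit 329) (nat_lit 357) (nat_lit 334)) (XT.nd (nat_lit 78) (nat_lit 608) (nat_lit 0) (XT.lf (nat_lit 76) (nat_lit 2340037105) (nat_lit 0) (nat_lit 122117226) (nat_lit 608) (nat_lit 2340037105) (nat_lit 331) (nat_lit 1) (nat_lit 330) (nat_lit 1) (nat_lit 338) (nat_lit 1) (nat_lit 330) (nat_lit 357) (nat_lit 333)) (XT.lf (nat_lit 684) (nat_lit 4084272748) (nat_lit 0) (nat_lit 327877644) (nat_lit 608) (nat_lit 327877644) (nat_lit 331) (nat_lit 1) (nat_lit 322) (nat_lit 1) (nat_lit 330) (nat_lit 1) (nat_lit 331) (nat_lit 357) (nat_lit 332))))))) (XT.nd (nat_lit 702) (nat_lit 2584) (nat_lit 0) (XT.nd (nat_lit 312) (nat_lit 1520) (nat_lit 0) (XT.nd (nat_lit 156) (nat_lit 532) (nat_lit 0) (XT.nd (nat_lit 78) (nat_lit 532) (nat_lit 0) (XT.lf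 (nat_lit 76) (nat_lit 1732693191) (nat_lit 0) (nat_lit 1213111024) (nat_lit 684) (nat_lit 1732693191) (nat_lit 323) (nat_lit 1) (nat_lit 322) (nat_lit 1) (nat_lit 331) (nat_lit 1) (nat_lit 332) (nat_lit 357) (nat_lit 331)) (XT.lf (nat_lit 608) (nat_lit 2852632589) (nat_lit 0) (nat_lit 882889969) (nat_lit 532) (nat_lit 882889969) (nat_lit 323) (nat_lit 1) (nat_lit 315) (nat_lit 1) (nat_lit 322) (nat_lit 1) (nat_lit 333) (nat_lit 357) (nat_lit 330))) (XT.nd (nat_lit 78) (nat_lit 532) (nat_lit 0) (XT.lf (nat_lit 76) (nat_lit 1114741053) (nat_lit 0) (nat_lit 2329772947) (nat_lit 608) (nat_lit 1114741053) (nat_lit 316) (nat_lit 1) (nat_lit 315) (nat_lit 1) (nat_lit 323) (nat_lit 1) (nat_lit 334) (nat_lit 357) (nat_lit 329)) (XT.lf (nat_lit 608) (nat_lit 1601640725) (nat_lit 0) (nat_lit 1449757309) (nat_lit 532) (nat_lit 1449757309) (nat_lit 316) (nat_lit 1) (nat_lit 308) (nat_lit 1) (nat_lit 315) (nat_lit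 1) (nat_lit 335) (nat_lit 357) (nat_lit 328)))) (XT.nd (nat_lit 156) (nat_lit 1064) (nat_lit 0) (XT.nd (nat_lit 78) (nat_lit 456) (nat_lit 0) (XT.lf (nat_lit 76) (nat_lit 488114079) (nat_lit 0) (nat_lit 3468057822) (nat_lit 608) (nat_lit 488114079) (nat_lit 309) (nat_lit 1) (nat_lit 308) (nat_lit 1) (nat_lit 316) (nat_lit 1) (nat_lit 336) (nat_lit 357) (nat_lit 327)) (XT.lf (nat_lit 532) (nat_lit 335030924) (nat_lit 0) (nat_lit 2026525887) (nat_lit 456) (nat_lit 2026525887) (nat_lit 309) (nat_lit 1) (nat_lit 302) (nat_lit 1) (nat_lit 308) (nat_lit 1) (nat_lit 337) (nat_lit 357) (nat_lit 326))) (XT.nd (nat_lit 78) (nat_lit 456) (nat_lit 0) (XT.lf (nat_lit 608) (nat_lit 4045294475) (nat_lit 0) (nat_lit 143978371) (nat_lit 532) (nat_lit 143978371) (nat_lit 302) (nat_lit 1) (nat_lit 294) (nat_lit 1) (nat_lit 301) (nat_lit 1) (nat_lit 338) (nat_lit 357) (nat_lit 325)) (XT.nd (nat_lit 78) (nat_lit 456) (nat_lit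 0) (XT.lf (nat_lit 76) (nat_lit 1676709326) (nat_lit 0) (nat_lit 925337740) (nat_lit 608) (nat_lit 1676709326) (nat_lit 295) (nat_lit 1) (nat_lit 294) (nat_lit 1) (nat_lit 302) (nat_lit 1) (nat_lit 339) (nat_lit 357) (nat_lit 324)) (XT.lf (nat_lit 532) (nat_lit 2672622614) (nat_lit 0) (nat_lit 776480975) (nat_lit 456) (nat_lit 776480975) (nat_lit 295) (nat_lit 1) (nat_lit 288) (nat_lit 1) (nat_lit 294) (nat_lit 1) (nat_lit 340) (nat_lit 357) (nat_lit 323)))))) (XT.nd (nat_lit 390) (nat_lit 1216) (nat_lit 0) (XT.nd (nat_lit 156) (nat_lit 912) (nat_lit 0) (XT.nd (nat_lit 78) (nat_lit 456) (nat_lit 0) (XT.lf (nat_lit 76) (nat_lit 992596988) (nat_lit 0) (nat_lit 2187996728) (nat_lit 532) (nat_lit 992596988) (nat_lit 289) (nat_lit 1) (nat_lit 288) (nat_lit 1) (nat_lit 295) (nat_lit 1) (nat_lit 341) (nat_lit 357) (nat_lit 322)) (XT.lf (nat_lit 532) (nat_lit 1296336584) (nat_lit 0) (nat_lit 1412680755) (nat_lit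 456) (nat_lit 1412680755) (nat_lit 289) (nat_lit 1) (nat_lit 282) (nat_lit 1) (nat_lit 288) (nat_lit 1) (nat_lit 342) (nat_lit 357) (nat_lit 321))) (XT.nd (nat_lit 78) (nat_lit 912) (nat_lit 0) (XT.lf (nat_lit 76) (nat_lit 307353991) (nat_lit 0) (nat_lit 3456623449) (nat_lit 532) (nat_lit 307353991) (nat_lit 283) (nat_lit 1) (nat_lit 282) (nat_lit 1) (nat_lit 289) (nat_lit 1) (nat_lit 343) (nat_lit 357) (nat_lit 320)) (XT.nd (nat_lit 78) (nat_lit 456) (nat_lit 0) (XT.lf (nat_lit 76) (nat_lit 1971022645) (nat_lit 0) (nat_lit 79376082) (nat_lit 456) (nat_lit 1971022645) (nat_lit 277) (nat_lit 1) (nat_lit 276) (nat_lit 1) (nat_lit 282) (nat_lit 1) (nat_lit 344) (nat_lit 357) (nat_lit 319)) (XT.lf (nat_lit 532) (nat_lit 3224447770) (nat_lit 0) (nat_lit 374074309) (nat_lit 456) (nat_lit 374074309) (nat_lit 277) (nat_lit 1) (nat_lit 270) (nat_lit 1) (nat_lit 276) (nat_lit 1) (nat_lit 345) (nat_lit 357) (nat_lit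 318))))) (XT.nd (nat_lit 156) (nat_lit 836) (nat_lit 0) (XT.nd (nat_lit 78) (nat_lit 380) (nat_lit 0) (XT.lf (nat_lit 76) (nat_lit 1247912961) (nat_lit 0) (nat_lit 1428437710) (nat_lit 532) (nat_lit 1247912961) (nat_lit 271) (nat_lit 1) (nat_lit 270) (nat_lit 1) (nat_lit 277) (nat_lit 1) (nat_lit 346) (nat_lit 357) (nat_lit 317)) (XT.lf (nat_lit 456) (nat_lit 1774421779) (nat_lit 0) (nat_lit 1051254477) (nat_lit 380) (nat_lit 1051254477) (nat_lit 271) (nat_lit 1) (nat_lit 265) (nat_lit 1) (nat_lit 270) (nat_lit 1) (nat_lit 347) (nat_lit 357) (nat_lit 316))) (XT.nd (nat_lit 78) (nat_lit 836) (nat_lit 0) (XT.lf (nat_lit 76) (nat_lit 528230437) (nat_lit 0) (nat_lit 2774003884) (nat_lit 456) (nat_lit 528230437) (nat_lit 266) (nat_lit 1) (nat_lit 265) (nat_lit 1) (nat_lit 271) (nat_lit 1) (nat_lit 348) (nat_lit 357) (nat_lit 315)) (XT.nd (nat_lit 78) (nat_lit 456) (nat_lit 0) (XT.lf (nat_lit 456) (nat_lit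 332215336) (nat_lit 0) (nat_lit 1726172352) (nat_lit 380) (nat_lit 1726172352) (nat_lit 266) (nat_lit 1) (nat_lit 260) (nat_lit 1) (nat_lit 265) (nat_lit 1) (nat_lit 349) (nat_lit 357) (nat_lit 314)) (XT.lf (nat_lit 456) (nat_lit 3369123564) (nat_lit 0) (nat_lit 185278030) (nat_lit 380) (nat_lit 185278030) (nat_lit 260) (nat_lit 1) (nat_lit 254) (nat_lit 1) (nat_lit 259) (nat_lit 1) (nat_lit 350) (nat_lit 357) (nat_lit 313))))))))
noncomputable def ec111 : XT := (XT.nd (nat_lit 1482) (nat_lit 2812) (nat_lit 0) (XT.nd (nat_lit 702) (nat_lit 1900) (nat_lit 0) (XT.nd (nat_lit 312) (nat_lit 1064) (nat_lit 0) (XT.nd (nat_lit 156) (nat_lit 304) (nat_lit 0) (XT.nd (nat_lit 78) (nat_lit 380) (nat_lit 0) (XT.lf (nat_lit 76) (nat_lit 1308045622) (nat_lit 0) (nat_lit 1078950563) (nat_lit 456) (nat_lit 1308045622) (nat_lit 255) (nat_lit 1) (nat_lit 254) (nat_lit 1) (nat_lit 260) (nat_lit 1) (nat_lit 351) (nat_lit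 357) (nat_lit 312)) (XT.lf (nat_lit 456) (nat_lit 1874413958) (nat_lit 0) (nat_lit 888491034) (nat_lit 380) (nat_lit 888491034) (nat_lit 255) (nat_lit 1) (nat_lit 249) (nat_lit 1) (nat_lit 254) (nat_lit 1) (nat_lit 352) (nat_lit 357) (nat_lit 311))) (XT.nd (nat_lit 78) (nat_lit 304) (nat_lit 0) (XT.lf (nat_lit 76) (nat_lit 567890184) (nat_lit 0) (nat_lit 2472700572) (nat_lit 456) (nat_lit 567890184) (nat_lit 250) (nat_lit 1) (nat_lit 249) (nat_lit 1) (nat_lit 255) (nat_lit 1) (nat_lit 353) (nat_lit 357) (nat_lit 310)) (XT.lf (nat_lit 380) (nat_lit 394418217) (nat_lit 0) (nat_lit 1585845755) (nat_lit 304) (nat_lit 1585845755) (nat_lit 250) (nat_lit 1) (nat_lit 245) (nat_lit 1) (nat_lit 249) (nat_lit 1) (nat_lit 354) (nat_lit 357) (nat_lit 309)))) (XT.nd (nat_lit 156) (nat_lit 608) (nat_lit 0) (XT.nd (nat_lit 78) (nat_lit 0) (nat_lit 0) (XT.lf (nat_lit 456) (nat_lit 3198640034) (nat_lit 0) (nat_lit 163013996)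 (nat_lit 380) (nat_lit 163013996) (nat_lit 245) (nat_lit 1) (nat_lit 239) (nat_lit 1) (nat_lit 244) (nat_lit 1) (nat_lit 355) (nat_lit 357) (nat_lit 308)) (XT.lf (nat_lit 76) (nat_lit 1217317624) (nat_lit 0) (nat_lit 1048765267) (nat_lit 456) (nat_lit 1217317624) (nat_lit 240) (nat_lit 1) (nat_lit 239) (nat_lit 1) (nat_lit 245) (nat_lit 1) (nat_lit 356) (nat_lit 357) (nat_lit 307))) (XT.nd (nat_lit 78) (nat_lit 304) (nat_lit 0) (XT.lf (nat_lit 380) (nat_lit 1682601019) (nat_lit 0) (nat_lit 880217239) (nat_lit 304) (nat_lit 880217239) (nat_lit 240) (nat_lit 1) (nat_lit 235) (nat_lit 1) (nat_lit 239) (nat_lit 1) (nat_lit 357) (nat_lit 357) (nat_lit 306)) (XT.nd (nat_lit 78) (nat_lit 304) (nat_lit 0) (XT.lf (nat_lit 76) (nat_lit 467905641) (nat_lit 0) (nat_lit 2467549651) (nat_lit 380) (nat_lit 467905641) (nat_lit 236) (nat_lit 1) (nat_lit 235) (nat_lit 1) (nat_lit 240) (nat_lit 1) (nat_lit 358) (nat_lit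 357) (nat_lit 305)) (XT.lf (nat_lit 380) (nat_lit 186581039) (nat_lit 0) (nat_lit 1588778143) (nat_lit 304) (nat_lit 1588778143) (nat_lit 236) (nat_lit 1) (nat_lit 231) (nat_lit 1) (nat_lit 235) (nat_lit 1) (nat_lit 359) (nat_lit 357) (nat_lit 304)))))) (XT.nd (nat_lit 390) (nat_lit 912) (nat_lit 0) (XT.nd (nat_lit 156) (nat_lit 608) (nat_lit 0) (XT.nd (nat_lit 78) (nat_lit 0) (nat_lit 0) (XT.lf (nat_lit 380) (nat_lit 2788333815) (nat_lit 0) (nat_lit 268676981) (nat_lit 304) (nat_lit 268676981) (nat_lit 231) (nat_lit 1) (nat_lit 226) (nat_lit 1) (nat_lit 230) (nat_lit 1) (nat_lit 360) (nat_lit 357) (nat_lit 303)) (XT.lf (nat_lit 76) (nat_lit 1012014979) (nat_lit 0) (nat_lit 1263471828) (nat_lit 380) (nat_lit 1012014979) (nat_lit 227) (nat_lit 1) (nat_lit 226) (nat_lit 1) (nat_lit 231) (nat_lit 1) (nat_lit 361) (nat_lit 357) (nat_lit 302))) (XT.nd (nat_lit 78) (nat_lit 304) (nat_lit 0) (XT.lf (nat_lit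 380) (nat_lit 1269600399) (nat_lit 0) (nat_lit 990233410) (nat_lit 304) (nat_lit 990233410) (nat_lit 227) (nat_lit 1) (nat_lit 222) (nat_lit 1) (nat_lit 226) (nat_lit 1) (nat_lit 362) (nat_lit 357) (nat_lit 301)) (XT.nd (nat_lit 78) (nat_lit 304) (nat_lit 0) (XT.lf (nat_lit 76) (nat_lit 262287108) (nat_lit 0) (nat_lit 2688782642) (nat_lit 380) (nat_lit 262287108) (nat_lit 223) (nat_lit 1) (nat_lit 222) (nat_lit 1) (nat_lit 227) (nat_lit 1) (nat_lit 363) (nat_lit 357) (nat_lit 300)) (XT.lf (nat_lit 76) (nat_lit 1478081499) (nat_lit 0) (nat_lit 220720027) (nat_lit 304) (nat_lit 1478081499) (nat_lit 219) (nat_lit 1) (nat_lit 218) (nat_lit 1) (nat_lit 222) (nat_lit 1) (nat_lit 364) (nat_lit 357) (nat_lit 299))))) (XT.nd (nat_lit 156) (nat_lit 608) (nat_lit 0) (XT.nd (nat_lit 78) (nat_lit 0) (nat_lit 0) (XT.lf (nat_lit 380) (nat_lit 2199698814) (nat_lit 0) (nat_lit 470707237) (nat_lit 304) (nat_lit 470707237)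 (nat_lit 219) (nat_lit 1) (nat_lit 214) (nat_lit 1) (nat_lit 218) (nat_lit 1) (nat_lit 365) (nat_lit 357) (nat_lit 298)) (XT.lf (nat_lit 76) (nat_lit 721744185) (nat_lit 0) (nat_lit 1662262674) (nat_lit 380) (nat_lit 721744185) (nat_lit 215) (nat_lit 1) (nat_lit 214) (nat_lit 1) (nat_lit 219) (nat_lit 1) (nat_lit 366) (nat_lit 357) (nat_lit 297))) (XT.nd (nat_lit 78) (nat_lit 380) (nat_lit 0) (XT.lf (nat_lit 304) (nat_lit 693006781) (nat_lit 0) (nat_lit 1188968662) (nat_lit 228) (nat_lit 1188968662) (nat_lit 215) (nat_lit 1) (nat_lit 211) (nat_lit 1) (nat_lit 214) (nat_lit 1) (nat_lit 367) (nat_lit 357) (nat_lit 296)) (XT.nd (nat_lit 78) (nat_lit 0) (nat_lit 0) (XT.lf (nat_lit 380) (nat_lit 2994865365) (nat_lit 0) (nat_lit 21030563) (nat_lit 304) (nat_lit 21030563) (nat_lit 211) (nat_lit 1) (nat_lit 206) (nat_lit 1) (nat_lit 210) (nat_lit 1) (nat_lit 368) (nat_lit 357) (nat_lit 295)) (XT.lf (nat_lit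 76) (nat_lit 1115731707) (nat_lit 0) (nat_lit 771378586) (nat_lit 380) (nat_lit 1115731707) (nat_lit 207) (nat_lit 1) (nat_lit 206) (nat_lit 1) (nat_lit 211) (nat_lit 1) (nat_lit 369) (nat_lit 357) (nat_lit 294))))))) (XT.nd (nat_lit 702) (nat_lit 1292) (nat_lit 0) (XT.nd (nat_lit 312) (nat_lit 760) (nat_lit 0) (XT.nd (nat_lit 156) (nat_lit 532) (nat_lit 0) (XT.nd (nat_lit 78) (nat_lit 0) (nat_lit 0) (XT.lf (nat_lit 304) (nat_lit 1482733936) (nat_lit 0) (nat_lit 743398028) (nat_lit 228) (nat_lit 743398028) (nat_lit 207) (nat_lit 1) (nat_lit 203) (nat_lit 1) (nat_lit 206) (nat_lit 1) (nat_lit 370) (nat_lit 357) (nat_lit 293)) (XT.lf (nat_lit 76) (nat_lit 370565789) (nat_lit 0) (nat_lit 2195629070) (nat_lit 304) (nat_lit 370565789) (nat_lit 204) (nat_lit 1) (nat_lit 203) (nat_lit 1) (nat_lit 207) (nat_lit 1) (nat_lit 371) (nat_lit 357) (nat_lit 292))) (XT.nd (nat_lit 78) (nat_lit 228) (nat_lit 0) (XT.lf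 (nat_lit 76) (nat_lit 1451964963) (nat_lit 0) (nat_lit 388747) (nat_lit 304) (nat_lit 1451964963) (nat_lit 200) (nat_lit 1) (nat_lit 199) (nat_lit 1) (nat_lit 203) (nat_lit 1) (nat_lit 372) (nat_lit 357) (nat_lit 291)) (XT.lf (nat_lit 304) (nat_lit 2159143672) (nat_lit 0) (nat_lit 356630364) (nat_lit 228) (nat_lit 356630364) (nat_lit 200) (nat_lit 1) (nat_lit 196) (nat_lit 1) (nat_lit 199) (nat_lit 1) (nat_lit 373) (nat_lit 357) (nat_lit 290)))) (XT.nd (nat_lit 156) (nat_lit 532) (nat_lit 0) (XT.nd (nat_lit 78) (nat_lit 228) (nat_lit 0) (XT.lf (nat_lit 76) (nat_lit 707336280) (nat_lit 0) (nat_lit 1426124460) (nat_lit 304) (nat_lit 707336280) (nat_lit 197) (nat_lit 1) (nat_lit 196) (nat_lit 1) (nat_lit 200) (nat_lit 1) (nat_lit 374) (nat_lit 357) (nat_lit 289)) (XT.lf (nat_lit 304) (nat_lit 677903461) (nat_lit 0) (nat_lit 1065899775) (nat_lit 228) (nat_lit 1065899775) (nat_lit 197) (nat_lit 1) (nat_lit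 193) (nat_lit 1) (nat_lit 196) (nat_lit 1) (nat_lit 375) (nat_lit 357) (nat_lit 288))) (XT.nd (nat_lit 78) (nat_lit 228) (nat_lit 0) (XT.lf (nat_lit 304) (nat_lit 2735607861) (nat_lit 0) (nat_lit 21842863) (nat_lit 228) (nat_lit 21842863) (nat_lit 193) (nat_lit 1) (nat_lit 189) (nat_lit 1) (nat_lit 192) (nat_lit 1) (nat_lit 376) (nat_lit 357) (nat_lit 287)) (XT.nd (nat_lit 78) (nat_lit 228) (nat_lit 0) (XT.lf (nat_lit 76) (nat_lit 995540071) (nat_lit 0) (nat_lit 757711044) (nat_lit 304) (nat_lit 995540071) (nat_lit 190) (nat_lit 1) (nat_lit 189) (nat_lit 1) (nat_lit 193) (nat_lit 1) (nat_lit 377) (nat_lit 357) (nat_lit 286)) (XT.lf (nat_lit 304) (nat_lit 1260809156) (nat_lit 0) (nat_lit 729075841) (nat_lit 228) (nat_lit 729075841) (nat_lit 190) (nat_lit 1) (nat_lit 186) (nat_lit 1) (nat_lit 189) (nat_lit 1) (nat_lit 378) (nat_lit 357) (nat_lit 285)))))) (XT.nd (nat_lit 390) (nat_lit 684) (nat_lit 0)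 (XT.nd (nat_lit 156) (nat_lit 380) (nat_lit 0) (XT.nd (nat_lit 78) (nat_lit 228) (nat_lit 0) (XT.lf (nat_lit 76) (nat_lit 269662470) (nat_lit 0) (nat_lit 2150310805) (nat_lit 304) (nat_lit 269662470) (nat_lit 187) (nat_lit 1) (nat_lit 186) (nat_lit 1) (nat_lit 190) (nat_lit 1) (nat_lit 379) (nat_lit 357) (nat_lit 284)) (XT.lf (nat_lit 76) (nat_lit 1240913728) (nat_lit 0) (nat_lit 178670751) (nat_lit 228) (nat_lit 1240913728) (nat_lit 184) (nat_lit 1) (nat_lit 183) (nat_lit 1) (nat_lit 186) (nat_lit 1) (nat_lit 380) (nat_lit 357) (nat_lit 283))) (XT.nd (nat_lit 78) (nat_lit 152) (nat_lit 0) (XT.lf (nat_lit 304) (nat_lit 1759533684) (nat_lit 0) (nat_lit 436160554) (nat_lit 228) (nat_lit 436160554) (nat_lit 184) (nat_lit 1) (nat_lit 180) (nat_lit 1) (nat_lit 183) (nat_lit 1) (nat_lit 381) (nat_lit 357) (nat_lit 282)) (XT.nd (nat_lit 78) (nat_lit 152) (nat_lit 0) (XT.lf (nat_lit 76) (nat_lit 520428234)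 (nat_lit 0) (nat_lit 1562681770) (nat_lit 304) (nat_lit 520428234) (nat_lit 181) (nat_lit 1) (nat_lit 180) (nat_lit 1) (nat_lit 184) (nat_lit 1) (nat_lit 382) (nat_lit 357) (nat_lit 281)) (XT.lf (nat_lit 228) (nat_lit 327791191) (nat_lit 0) (nat_lit 1123904512) (nat_lit 152) (nat_lit 1123904512) (nat_lit 181) (nat_lit 1) (nat_lit 178) (nat_lit 1) (nat_lit 180) (nat_lit 1) (nat_lit 383) (nat_lit 357) (nat_lit 280))))) (XT.nd (nat_lit 156) (nat_lit 380) (nat_lit 0) (XT.nd (nat_lit 78) (nat_lit 0) (nat_lit 0) (XT.lf (nat_lit 304) (nat_lit 2184022965) (nat_lit 0) (nat_lit 182072627) (nat_lit 228) (nat_lit 182072627) (nat_lit 178) (nat_lit 1) (nat_lit 174) (nat_lit 1) (nat_lit 177) (nat_lit 1) (nat_lit 384) (nat_lit 357) (nat_lit 279)) (XT.lf (nat_lit 76) (nat_lit 735050661) (nat_lit 0) (nat_lit 1050712291) (nat_lit 304) (nat_lit 735050661) (nat_lit 175) (nat_lit 1) (nat_lit 174) (nat_lit 1) (nat_lit 178)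 (nat_lit 1) (nat_lit 385) (nat_lit 357) (nat_lit 278))) (XT.nd (nat_lit 78) (nat_lit 228) (nat_lit 0) (XT.lf (nat_lit 228) (nat_lit 766672412) (nat_lit 0) (nat_lit 863641649) (nat_lit 152) (nat_lit 863641649) (nat_lit 175) (nat_lit 1) (nat_lit 172) (nat_lit 1) (nat_lit 174) (nat_lit 1) (nat_lit 386) (nat_lit 357) (nat_lit 277)) (XT.nd (nat_lit 78) (nat_lit 228) (nat_lit 0) (XT.lf (nat_lit 76) (nat_lit 38070453) (nat_lit 0) (nat_lit 2391518079) (nat_lit 228) (nat_lit 38070453) (nat_lit 173) (nat_lit 1) (nat_lit 172) (nat_lit 1) (nat_lit 175) (nat_lit 1) (nat_lit 387) (nat_lit 357) (nat_lit 276)) (XT.lf (nat_lit 76) (nat_lit 917798443) (nat_lit 0) (nat_lit 605670260) (nat_lit 228) (nat_lit 917798443) (nat_lit 170) (nat_lit 1) (nat_lit 169) (nat_lit 1) (nat_lit 172) (nat_lit 1) (nat_lit 388) (nat_lit 357) (nat_lit 275))))))))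
noncomputable def ec112 : XT := (XT.nd (nat_lit 1404) (nat_lit 1824) (nat_lit 0) (XT.nd (nat_lit 702) (nat_lit 988) (nat_lit 0) (XT.nd (nat_lit 312) (nat_lit 532) (nat_lit 0) (XT.nd (nat_lit 156) (nat_lit 380) (nat_lit 0) (XT.nd (nat_lit 78) (nat_lit 0) (nat_lit 0) (XT.lf (nat_lit 228) (nat_lit 1142765094) (nat_lit 0) (nat_lit 636331553) (nat_lit 152) (nat_lit 636331553) (nat_lit 170) (nat_lit 1) (nat_lit 167) (nat_lit 1) (nat_lit 169) (nat_lit 1) (nat_lit 389) (nat_lit 357) (nat_lit 274)) (XT.lf (nat_lit 76) (nat_lit 229399181) (nat_lit 0) (nat_lit 1931213933) (nat_lit 228) (nat_lit 229399181) (nat_lit 168) (nat_lit 1) (nat_lit 167) (nat_lit 1) (nat_lit 170) (nat_lit 1) (nat_lit 390) (nat_lit 357) (nat_lit 273))) (XT.nd (nat_lit 78) (nat_lit 152) (nat_lit 0) (XT.lf (nat_lit 76) (nat_lit 1072457322) (nat_lit 0) (nat_lit 219805907) (nat_lit 228) (nat_lit 1072457322) (nat_lit 165) (nat_lit 1) (nat_lit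 164) (nat_lit 1) (nat_lit 167) (nat_lit 1) (nat_lit 391) (nat_lit 357) (nat_lit 272)) (XT.lf (nat_lit 228) (nat_lit 1463474302) (nat_lit 0) (nat_lit 438185093) (nat_lit 152) (nat_lit 438185093) (nat_lit 165) (nat_lit 1) (nat_lit 162) (nat_lit 1) (nat_lit 164) (nat_lit 1) (nat_lit 392) (nat_lit 357) (nat_lit 271)))) (XT.nd (nat_lit 156) (nat_lit 380) (nat_lit 0) (XT.nd (nat_lit 78) (nat_lit 152) (nat_lit 0) (XT.lf (nat_lit 76) (nat_lit 393695946) (nat_lit 0) (nat_lit 1527879046) (nat_lit 228) (nat_lit 393695946) (nat_lit 163) (nat_lit 1) (nat_lit 162) (nat_lit 1) (nat_lit 165) (nat_lit 1) (nat_lit 393) (nat_lit 357) (nat_lit 270)) (XT.lf (nat_lit 228) (nat_lit 116021997) (nat_lit 0) (nat_lit 1087477418) (nat_lit 152) (nat_lit 1087477418) (nat_lit 163) (nat_lit 1) (nat_lit 160) (nat_lit 1) (nat_lit 162) (nat_lit 1) (nat_lit 394) (nat_lit 357) (nat_lit 269))) (XT.nd (nat_lit 78) (nat_lit 152) (nat_lit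 0) (XT.lf (nat_lit 228) (nat_lit 1735367591) (nat_lit 0) (nat_lit 265839014) (nat_lit 152) (nat_lit 265839014) (nat_lit 160) (nat_lit 1) (nat_lit 157) (nat_lit 1) (nat_lit 159) (nat_lit 1) (nat_lit 395) (nat_lit 357) (nat_lit 268)) (XT.nd (nat_lit 78) (nat_lit 152) (nat_lit 0) (XT.lf (nat_lit 76) (nat_lit 534141074) (nat_lit 0) (nat_lit 1174996354) (nat_lit 228) (nat_lit 534141074) (nat_lit 158) (nat_lit 1) (nat_lit 157) (nat_lit 1) (nat_lit 160) (nat_lit 1) (nat_lit 396) (nat_lit 357) (nat_lit 267)) (XT.lf (nat_lit 228) (nat_lit 409106806) (nat_lit 0) (nat_lit 905380652) (nat_lit 152) (nat_lit 905380652) (nat_lit 158) (nat_lit 1) (nat_lit 155) (nat_lit 1) (nat_lit 157) (nat_lit 1) (nat_lit 397) (nat_lit 357) (nat_lit 266)))))) (XT.nd (nat_lit 312) (nat_lit 608) (nat_lit 0) (XT.nd (nat_lit 156) (nat_lit 152) (nat_lit 0) (XT.nd (nat_lit 78) (nat_lit 0) (nat_lit 0) (XT.lf (nat_lit 228) (nat_lit 1964268743)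 (nat_lit 0) (nat_lit 116308340) (nat_lit 152) (nat_lit 116308340) (nat_lit 155) (nat_lit 1) (nat_lit 152) (nat_lit 1) (nat_lit 154) (nat_lit 1) (nat_lit 398) (nat_lit 357) (nat_lit 265)) (XT.lf (nat_lit 76) (nat_lit 653555411) (nat_lit 0) (nat_lit 866780315) (nat_lit 228) (nat_lit 653555411) (nat_lit 153) (nat_lit 1) (nat_lit 152) (nat_lit 1) (nat_lit 155) (nat_lit 1) (nat_lit 399) (nat_lit 357) (nat_lit 264))) (XT.nd (nat_lit 78) (nat_lit 0) (nat_lit 0) (XT.lf (nat_lit 228) (nat_lit 660595579) (nat_lit 0) (nat_lit 745361751) (nat_lit 152) (nat_lit 745361751) (nat_lit 153) (nat_lit 1) (nat_lit 150) (nat_lit 1) (nat_lit 152) (nat_lit 1) (nat_lit 400) (nat_lit 357) (nat_lit 263)) (XT.lf (nat_lit 76) (nat_lit 13185162) (nat_lit 0) (nat_lit 2102843635) (nat_lit 228) (nat_lit 13185162) (nat_lit 151) (nat_lit 1) (nat_lit 150) (nat_lit 1) (nat_lit 153) (nat_lit 1) (nat_lit 401) (nat_lit 357) (nat_lit 262))))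 (XT.nd (nat_lit 156) (nat_lit 304) (nat_lit 0) (XT.nd (nat_lit 78) (nat_lit 152) (nat_lit 0) (XT.lf (nat_lit 76) (nat_lit 754440552) (nat_lit 0) (nat_lit 598095194) (nat_lit 152) (nat_lit 754440552) (nat_lit 149) (nat_lit 1) (nat_lit 148) (nat_lit 1) (nat_lit 150) (nat_lit 1) (nat_lit 402) (nat_lit 357) (nat_lit 261)) (XT.lf (nat_lit 228) (nat_lit 875386421) (nat_lit 0) (nat_lit 604907143) (nat_lit 152) (nat_lit 604907143) (nat_lit 149) (nat_lit 1) (nat_lit 146) (nat_lit 1) (nat_lit 148) (nat_lit 1) (nat_lit 403) (nat_lit 357) (nat_lit 260))) (XT.nd (nat_lit 78) (nat_lit 304) (nat_lit 0) (XT.lf (nat_lit 76) (nat_lit 125837923) (nat_lit 0) (nat_lit 1812131069) (nat_lit 228) (nat_lit 125837923) (nat_lit 147) (nat_lit 1) (nat_lit 146) (nat_lit 1) (nat_lit 149) (nat_lit 1) (nat_lit 404) (nat_lit 357) (nat_lit 259)) (XT.nd (nat_lit 78) (nat_lit 152) (nat_lit 0) (XT.lf (nat_lit 76) (nat_lit 839014576) (nat_lit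 0) (nat_lit 364382464) (nat_lit 152) (nat_lit 839014576) (nat_lit 145) (nat_lit 1) (nat_lit 144) (nat_lit 1) (nat_lit 146) (nat_lit 1) (nat_lit 405) (nat_lit 357) (nat_lit 258)) (XT.lf (nat_lit 228) (nat_lit 1057823678) (nat_lit 0) (nat_lit 481785057) (nat_lit 152) (nat_lit 481785057) (nat_lit 145) (nat_lit 1) (nat_lit 142) (nat_lit 1) (nat_lit 144) (nat_lit 1) (nat_lit 406) (nat_lit 357) (nat_lit 257))))))) (XT.nd (nat_lit 702) (nat_lit 912) (nat_lit 0) (XT.nd (nat_lit 312) (nat_lit 608) (nat_lit 0) (XT.nd (nat_lit 156) (nat_lit 152) (nat_lit 0) (XT.nd (nat_lit 78) (nat_lit 152) (nat_lit 0) (XT.lf (nat_lit 76) (nat_lit 222604469) (nat_lit 0) (nat_lit 1555474144) (nat_lit 228) (nat_lit 222604469) (nat_lit 143) (nat_lit 1) (nat_lit 142) (nat_lit 1) (nat_lit 145) (nat_lit 1) (nat_lit 407) (nat_lit 357) (nat_lit 256)) (XT.lf (nat_lit 76) (nat_lit 909243794) (nat_lit 0) (nat_lit 161596314) (nat_lit 152)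 (nat_lit 909243794) (nat_lit 141) (nat_lit 1) (nat_lit 140) (nat_lit 1) (nat_lit 142) (nat_lit 1) (nat_lit 408) (nat_lit 357) (nat_lit 255))) (XT.nd (nat_lit 78) (nat_lit 0) (nat_lit 0) (XT.lf (nat_lit 228) (nat_lit 1211759899) (nat_lit 0) (nat_lit 374014049) (nat_lit 152) (nat_lit 374014049) (nat_lit 141) (nat_lit 1) (nat_lit 138) (nat_lit 1) (nat_lit 140) (nat_lit 1) (nat_lit 409) (nat_lit 357) (nat_lit 254)) (XT.lf (nat_lit 76) (nat_lit 305353133) (nat_lit 0) (nat_lit 1329027524) (nat_lit 228) (nat_lit 305353133) (nat_lit 139) (nat_lit 1) (nat_lit 138) (nat_lit 1) (nat_lit 141) (nat_lit 1) (nat_lit 410) (nat_lit 357) (nat_lit 253)))) (XT.nd (nat_lit 156) (nat_lit 304) (nat_lit 0) (XT.nd (nat_lit 78) (nat_lit 228) (nat_lit 0) (XT.lf (nat_lit 152) (nat_lit 14129370) (nat_lit 0) (nat_lit 952877406) (nat_lit 76) (nat_lit 952877406) (nat_lit 139) (nat_lit 1) (nat_lit 137) (nat_lit 1) (nat_lit 138) (nat_lit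 1) (nat_lit 411) (nat_lit 357) (nat_lit 252)) (XT.lf (nat_lit 228) (nat_lit 1340610901) (nat_lit 0) (nat_lit 279835053) (nat_lit 152) (nat_lit 279835053) (nat_lit 137) (nat_lit 1) (nat_lit 134) (nat_lit 1) (nat_lit 136) (nat_lit 1) (nat_lit 412) (nat_lit 357) (nat_lit 251))) (XT.nd (nat_lit 78) (nat_lit 304) (nat_lit 0) (XT.lf (nat_lit 76) (nat_lit 375741086) (nat_lit 0) (nat_lit 1129376065) (nat_lit 228) (nat_lit 375741086) (nat_lit 135) (nat_lit 1) (nat_lit 134) (nat_lit 1) (nat_lit 137) (nat_lit 1) (nat_lit 413) (nat_lit 357) (nat_lit 250)) (XT.nd (nat_lit 78) (nat_lit 228) (nat_lit 0) (XT.lf (nat_lit 152) (nat_lit 168440221) (nat_lit 0) (nat_lit 846619233) (nat_lit 76) (nat_lit 846619233) (nat_lit 135) (nat_lit 1) (nat_lit 133) (nat_lit 1) (nat_lit 134) (nat_lit 1) (nat_lit 414) (nat_lit 357) (nat_lit 249)) (XT.lf (nat_lit 228) (nat_lit 1447404669) (nat_lit 0) (nat_lit 197686533) (nat_lit 152) (nat_lit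 197686533) (nat_lit 133) (nat_lit 1) (nat_lit 130) (nat_lit 1) (nat_lit 132) (nat_lit 1) (nat_lit 415) (nat_lit 357) (nat_lit 248)))))) (XT.nd (nat_lit 390) (nat_lit 532) (nat_lit 0) (XT.nd (nat_lit 156) (nat_lit 304) (nat_lit 0) (XT.nd (nat_lit 78) (nat_lit 76) (nat_lit 0) (XT.lf (nat_lit 76) (nat_lit 435237965) (nat_lit 0) (nat_lit 953486806) (nat_lit 228) (nat_lit 435237965) (nat_lit 131) (nat_lit 1) (nat_lit 130) (nat_lit 1) (nat_lit 133) (nat_lit 1) (nat_lit 416) (nat_lit 357) (nat_lit 247)) (XT.lf (nat_lit 152) (nat_lit 301003031) (nat_lit 0) (nat_lit 752210223) (nat_lit 76) (nat_lit 752210223) (nat_lit 131) (nat_lit 1) (nat_lit 129) (nat_lit 1) (nat_lit 130) (nat_lit 1) (nat_lit 417) (nat_lit 357) (nat_lit 246))) (XT.nd (nat_lit 78) (nat_lit 76) (nat_lit 0) (XT.lf (nat_lit 228) (nat_lit 1534824813) (nat_lit 0) (nat_lit 126182422) (nat_lit 152) (nat_lit 126182422) (nat_lit 129) (nat_lit 1) (nat_lit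 126) (nat_lit 1) (nat_lit 128) (nat_lit 1) (nat_lit 418) (nat_lit 357) (nat_lit 245)) (XT.nd (nat_lit 78) (nat_lit 76) (nat_lit 0) (XT.lf (nat_lit 76) (nat_lit 485146863) (nat_lit 0) (nat_lit 798666309) (nat_lit 228) (nat_lit 485146863) (nat_lit 127) (nat_lit 1) (nat_lit 126) (nat_lit 1) (nat_lit 129) (nat_lit 1) (nat_lit 419) (nat_lit 357) (nat_lit 244)) (XT.lf (nat_lit 152) (nat_lit 414375232) (nat_lit 0) (nat_lit 668329040) (nat_lit 76) (nat_lit 668329040) (nat_lit 127) (nat_lit 1) (nat_lit 125) (nat_lit 1) (nat_lit 126) (nat_lit 1) (nat_lit 420) (nat_lit 357) (nat_lit 243))))) (XT.nd (nat_lit 156) (nat_lit 304) (nat_lit 0) (XT.nd (nat_lit 78) (nat_lit 0) (nat_lit 0) (XT.lf (nat_lit 228) (nat_lit 1605249164) (nat_lit 0) (nat_lit 64092514) (nat_lit 152) (nat_lit 64092514) (nat_lit 125) (nat_lit 1) (nat_lit 122) (nat_lit 1) (nat_lit 124) (nat_lit 1) (nat_lit 421) (nat_lit 357) (nat_lit 242)) (XT.lf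 (nat_lit 76) (nat_lit 526622985) (nat_lit 0) (nat_lit 662522759) (nat_lit 228) (nat_lit 526622985) (nat_lit 123) (nat_lit 1) (nat_lit 122) (nat_lit 1) (nat_lit 125) (nat_lit 1) (nat_lit 422) (nat_lit 357) (nat_lit 241))) (XT.nd (nat_lit 78) (nat_lit 228) (nat_lit 0) (XT.lf (nat_lit 152) (nat_lit 510825219) (nat_lit 0) (nat_lit 593801696) (nat_lit 76) (nat_lit 593801696) (nat_lit 123) (nat_lit 1) (nat_lit 121) (nat_lit 1) (nat_lit 122) (nat_lit 1) (nat_lit 423) (nat_lit 357) (nat_lit 240)) (XT.nd (nat_lit 78) (nat_lit 0) (nat_lit 0) (XT.lf (nat_lit 228) (nat_lit 1660784058) (nat_lit 0) (nat_lit 10325044) (nat_lit 152) (nat_lit 10325044) (nat_lit 121) (nat_lit 1) (nat_lit 118) (nat_lit 1) (nat_lit 120) (nat_lit 1) (nat_lit 424) (nat_lit 357) (nat_lit 239)) (XT.lf (nat_lit 76) (nat_lit 560690207) (nat_lit 0) (nat_lit 542932297) (nat_lit 228) (nat_lit 560690207) (nat_lit 119) (nat_lit 1) (nat_lit 118) (nat_lit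 1) (nat_lit 121) (nat_lit 1) (nat_lit 425) (nat_lit 357) (nat_lit 238))))))))
noncomputable def ec113 : XT := (XT.nd (nat_lit 44304) (nat_lit 0) (nat_lit 15732) (XT.nd (nat_lit 702) (nat_lit 76) (nat_lit 0) (XT.nd (nat_lit 312) (nat_lit 380) (nat_lit 0) (XT.nd (nat_lit 156) (nat_lit 228) (nat_lit 0) (XT.nd (nat_lit 78) (nat_lit 0) (nat_lit 0) (XT.lf (nat_lit 152) (nat_lit 592364690) (nat_lit 0) (nat_lit 527585116) (nat_lit 76) (nat_lit 527585116) (nat_lit 119) (nat_lit 1) (nat_lit 117) (nat_lit 1) (nat_lit 118) (nat_lit 1) (nat_lit 426) (nat_lit 357) (nat_lit 237)) (XT.lf (nat_lit 0) (nat_lit 36446097) (nat_lit 0) (nat_lit 1558182789) (nat_lit 152) (nat_lit 36446097) (nat_lit 117) (nat_lit 3) (nat_lit 117) (nat_lit 1) (nat_lit 119) (nat_lit 1) (nat_lit 427) (nat_lit 357) (nat_lit 236))) (XT.nd (nat_lit 78) (nat_lit 76) (nat_lit 0) (XT.lf (nat_lit 76) (nat_lit 588255798) (nat_lit 0) (nat_lit 438009096)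 (nat_lit 152) (nat_lit 588255798) (nat_lit 116) (nat_lit 1) (nat_lit 115) (nat_lit 1) (nat_lit 117) (nat_lit 1) (nat_lit 428) (nat_lit 357) (nat_lit 235)) (XT.lf (nat_lit 152) (nat_lit 660777383) (nat_lit 0) (nat_lit 468752542) (nat_lit 76) (nat_lit 468752542) (nat_lit 116) (nat_lit 1) (nat_lit 114) (nat_lit 1) (nat_lit 115) (nat_lit 1) (nat_lit 429) (nat_lit 357) (nat_lit 234)))) (XT.nd (nat_lit 156) (nat_lit 228) (nat_lit 0) (XT.nd (nat_lit 78) (nat_lit 152) (nat_lit 0) (XT.lf (nat_lit 0) (nat_lit 76761102) (nat_lit 0) (nat_lit 1428804443) (nat_lit 152) (nat_lit 76761102) (nat_lit 114) (nat_lit 3) (nat_lit 114) (nat_lit 1) (nat_lit 116) (nat_lit 1) (nat_lit 430) (nat_lit 357) (nat_lit 233)) (XT.lf (nat_lit 76) (nat_lit 610123493) (nat_lit 0) (nat_lit 346078790) (nat_lit 152) (nat_lit 610123493) (nat_lit 113) (nat_lit 1) (nat_lit 112) (nat_lit 1) (nat_lit 114) (nat_lit 1) (nat_lit 431) (nat_lit 357)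 (nat_lit 232))) (XT.nd (nat_lit 78) (nat_lit 152) (nat_lit 0) (XT.lf (nat_lit 152) (nat_lit 717644601) (nat_lit 0) (nat_lit 416480562) (nat_lit 76) (nat_lit 416480562) (nat_lit 113) (nat_lit 1) (nat_lit 111) (nat_lit 1) (nat_lit 112) (nat_lit 1) (nat_lit 432) (nat_lit 357) (nat_lit 231)) (XT.nd (nat_lit 78) (nat_lit 152) (nat_lit 0) (XT.lf (nat_lit 0) (nat_lit 111287864) (nat_lit 0) (nat_lit 1312560860) (nat_lit 152) (nat_lit 111287864) (nat_lit 111) (nat_lit 3) (nat_lit 111) (nat_lit 1) (nat_lit 113) (nat_lit 1) (nat_lit 433) (nat_lit 357) (nat_lit 230)) (XT.lf (nat_lit 76) (nat_lit 627005108) (nat_lit 0) (nat_lit 265654854) (nat_lit 152) (nat_lit 627005108) (nat_lit 110) (nat_lit 1) (nat_lit 109) (nat_lit 1) (nat_lit 111) (nat_lit 1) (nat_lit 434) (nat_lit 357) (nat_lit 229)))))) (XT.nd (nat_lit 43212) (nat_lit 0) (nat_lit 20368) (XT.nd (nat_lit 42978) (nat_lit 0) (nat_lit 20216) (XT.nd (nat_lit 42900)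 (nat_lit 0) (nat_lit 20216) (XT.lf (nat_lit 152) (nat_lit 764367889) (nat_lit 0) (nat_lit 370037585) (nat_lit 76) (nat_lit 370037585) (nat_lit 110) (nat_lit 1) (nat_lit 108) (nat_lit 1) (nat_lit 109) (nat_lit 1) (nat_lit 435) (nat_lit 357) (nat_lit 228)) (XT.lf (nat_lit 1292) (nat_lit 634942974) (nat_lit 0) (nat_lit 2184499123) (nat_lit 1292) (nat_lit 634942974) (nat_lit 391) (nat_lit 1) (nat_lit 374) (nat_lit 0) (nat_lit 391) (nat_lit 0) (nat_lit 304) (nat_lit 358) (nat_lit 358))) (XT.nd (nat_lit 78) (nat_lit 0) (nat_lit 76) (XT.lf (nat_lit 1292) (nat_lit 2481368269) (nat_lit 76) (nat_lit 2163082465) (nat_lit 0) (nat_lit 2163082465) (nat_lit 391) (nat_lit 1) (nat_lit 375) (nat_lit 1) (nat_lit 374) (nat_lit 0) (nat_lit 305) (nat_lit 358) (nat_lit 357)) (XT.nd (nat_lit 78) (nat_lit 0) (nat_lit 0) (XT.lf (nat_lit 1292) (nat_lit 1200048858) (nat_lit 0) (nat_lit 4308431617) (nat_lit 1216) (nat_lit 1200048858)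 (nat_lit 392) (nat_lit 1) (nat_lit 375) (nat_lit 1) (nat_lit 391) (nat_lit 1) (nat_lit 306) (nat_lit 358) (nat_lit 356)) (XT.lf (nat_lit 1292) (nat_lit 2278954740) (nat_lit 76) (nat_lit 2166112028) (nat_lit 0) (nat_lit 2166112028) (nat_lit 392) (nat_lit 1) (nat_lit 376) (nat_lit 1) (nat_lit 375) (nat_lit 1) (nat_lit 307) (nat_lit 358) (nat_lit 355))))) (XT.nd (nat_lit 156) (nat_lit 0) (nat_lit 76) (XT.nd (nat_lit 78) (nat_lit 0) (nat_lit 0) (XT.lf (nat_lit 1292) (nat_lit 1069388146) (nat_lit 0) (nat_lit 4377230218) (nat_lit 1216) (nat_lit 1069388146) (nat_lit 393) (nat_lit 1) (nat_lit 376) (nat_lit 1) (nat_lit 392) (nat_lit 1) (nat_lit 308) (nat_lit 358) (nat_lit 354)) (XT.lf (nat_lit 1292) (nat_lit 1959766690) (nat_lit 76) (nat_lit 2231294809) (nat_lit 0) (nat_lit 2231294809) (nat_lit 393) (nat_lit 1) (nat_lit 377) (nat_lit 1) (nat_lit 376) (nat_lit 1) (nat_lit 309) (nat_lit 358) (nat_lit 353))) (XT.nd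 (nat_lit 78) (nat_lit 0) (nat_lit 0) (XT.lf (nat_lit 1292) (nat_lit 883283664) (nat_lit 0) (nat_lit 4564301301) (nat_lit 1216) (nat_lit 883283664) (nat_lit 394) (nat_lit 1) (nat_lit 377) (nat_lit 1) (nat_lit 393) (nat_lit 1) (nat_lit 310) (nat_lit 358) (nat_lit 352)) (XT.nd (nat_lit 78) (nat_lit 0) (nat_lit 76) (XT.lf (nat_lit 1292) (nat_lit 1534247082) (nat_lit 76) (nat_lit 2353247608) (nat_lit 0) (nat_lit 2353247608) (nat_lit 394) (nat_lit 1) (nat_lit 378) (nat_lit 1) (nat_lit 377) (nat_lit 1) (nat_lit 311) (nat_lit 358) (nat_lit 351)) (XT.lf (nat_lit 1292) (nat_lit 646751439) (nat_lit 0) (nat_lit 4859295685) (nat_lit 1216) (nat_lit 646751439) (nat_lit 395) (nat_lit 1) (nat_lit 378) (nat_lit 1) (nat_lit 394) (nat_lit 1) (nat_lit 312) (nat_lit 358) (nat_lit 350))))))) (XT.nd (nat_lit 702) (nat_lit 3648) (nat_lit 0) (XT.nd (nat_lit 312) (nat_lit 1140) (nat_lit 0) (XT.nd (nat_lit 156) (nat_lit 0) (nat_lit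 76) (XT.nd (nat_lit 78) (nat_lit 0) (nat_lit 76) (XT.lf (nat_lit 1292) (nat_lit 1012130489) (nat_lit 76) (nat_lit 2526949114) (nat_lit 0) (nat_lit 2526949114) (nat_lit 395) (nat_lit 1) (nat_lit 379) (nat_lit 1) (nat_lit 378) (nat_lit 1) (nat_lit 313) (nat_lit 358) (nat_lit 349)) (XT.lf (nat_lit 1292) (nat_lit 364466159) (nat_lit 0) (nat_lit 5252561956) (nat_lit 1216) (nat_lit 364466159) (nat_lit 396) (nat_lit 1) (nat_lit 379) (nat_lit 1) (nat_lit 395) (nat_lit 1) (nat_lit 314) (nat_lit 358) (nat_lit 348))) (XT.nd (nat_lit 78) (nat_lit 0) (nat_lit 76) (XT.lf (nat_lit 1292) (nat_lit 402486931) (nat_lit 76) (nat_lit 2747717596) (nat_lit 0) (nat_lit 2747717596) (nat_lit 396) (nat_lit 1) (nat_lit 380) (nat_lit 1) (nat_lit 379) (nat_lit 1) (nat_lit 315) (nat_lit 358) (nat_lit 347)) (XT.lf (nat_lit 1292) (nat_lit 40782322) (nat_lit 0) (nat_lit 5735103400) (nat_lit 1216) (nat_lit 40782322) (nat_lit 397) (nat_lit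 1) (nat_lit 380) (nat_lit 1) (nat_lit 396) (nat_lit 1) (nat_lit 316) (nat_lit 358) (nat_lit 346)))) (XT.nd (nat_lit 156) (nat_lit 0) (nat_lit 76) (XT.nd (nat_lit 78) (nat_lit 0) (nat_lit 0) (XT.lf (nat_lit 1368) (nat_lit 2727704498) (nat_lit 0) (nat_lit 280651383) (nat_lit 1292) (nat_lit 2727704498) (nat_lit 381) (nat_lit 1) (nat_lit 363) (nat_lit 1) (nat_lit 380) (nat_lit 1) (nat_lit 317) (nat_lit 358) (nat_lit 345)) (XT.lf (nat_lit 1368) (nat_lit 5023462055) (nat_lit 76) (nat_lit 317106205) (nat_lit 0) (nat_lit 317106205) (nat_lit 381) (nat_lit 1) (nat_lit 364) (nat_lit 1) (nat_lit 363) (nat_lit 1) (nat_lit 318) (nat_lit 358) (nat_lit 344))) (XT.nd (nat_lit 78) (nat_lit 0) (nat_lit 0) (XT.lf (nat_lit 1368) (nat_lit 2277179423) (nat_lit 0) (nat_lit 1025764134) (nat_lit 1292) (nat_lit 2277179423) (nat_lit 382) (nat_lit 1) (nat_lit 364) (nat_lit 1) (nat_lit 381) (nat_lit 1) (nat_lit 319) (nat_lit 358)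 (nat_lit 343)) (XT.nd (nat_lit 78) (nat_lit 0) (nat_lit 76) (XT.lf (nat_lit 1368) (nat_lit 4088862325) (nat_lit 76) (nat_lit 707837521) (nat_lit 0) (nat_lit 707837521) (nat_lit 382) (nat_lit 1) (nat_lit 365) (nat_lit 1) (nat_lit 364) (nat_lit 1) (nat_lit 320) (nat_lit 358) (nat_lit 342)) (XT.lf (nat_lit 76) (nat_lit 1798220085) (nat_lit 0) (nat_lit 1833533967) (nat_lit 1292) (nat_lit 1798220085) (nat_lit 366) (nat_lit 1) (nat_lit 365) (nat_lit 1) (nat_lit 382) (nat_lit 1) (nat_lit 321) (nat_lit 358) (nat_lit 341)))))) (XT.nd (nat_lit 390) (nat_lit 1748) (nat_lit 0) (XT.nd (nat_lit 156) (nat_lit 1216) (nat_lit 0) (XT.nd (nat_lit 78) (nat_lit 0) (nat_lit 0) (XT.lf (nat_lit 912) (nat_lit 3100384585) (nat_lit 0) (nat_lit 1128337250) (nat_lit 836) (nat_lit 1128337250) (nat_lit 366) (nat_lit 1) (nat_lit 354) (nat_lit 1) (nat_lit 365) (nat_lit 1) (nat_lit 322) (nat_lit 358) (nat_lit 340)) (XT.lf (nat_lit 76)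 (nat_lit 1294040172) (nat_lit 0) (nat_lit 2697293344) (nat_lit 912) (nat_lit 1294040172) (nat_lit 355) (nat_lit 1) (nat_lit 354) (nat_lit 1) (nat_lit 366) (nat_lit 1) (nat_lit 323) (nat_lit 358) (nat_lit 339))) (XT.nd (nat_lit 78) (nat_lit 608) (nat_lit 0) (XT.lf (nat_lit 684) (nat_lit 2064253533) (nat_lit 0) (nat_lit 1575376233) (nat_lit 608) (nat_lit 1575376233) (nat_lit 355) (nat_lit 1) (nat_lit 346) (nat_lit 1) (nat_lit 354) (nat_lit 1) (nat_lit 324) (nat_lit 358) (nat_lit 338)) (XT.nd (nat_lit 78) (nat_lit 608) (nat_lit 0) (XT.lf (nat_lit 76) (nat_lit 767622830) (nat_lit 0) (nat_lit 3610846911) (nat_lit 684) (nat_lit 767622830) (nat_lit 347) (nat_lit 1) (nat_lit 346) (nat_lit 1) (nat_lit 355) (nat_lit 1) (nat_lit 325) (nat_lit 358) (nat_lit 337)) (XT.lf (nat_lit 684) (nat_lit 986245323) (nat_lit 0) (nat_lit 2045954962) (nat_lit 608) (nat_lit 2045954962) (nat_lit 347) (nat_lit 1) (nat_lit 338) (nat_lit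 1) (nat_lit 346) (nat_lit 1) (nat_lit 326) (nat_lit 358) (nat_lit 336))))) (XT.nd (nat_lit 156) (nat_lit 1140) (nat_lit 0) (XT.nd (nat_lit 78) (nat_lit 608) (nat_lit 0) (XT.lf (nat_lit 76) (nat_lit 221735241) (nat_lit 0) (nat_lit 4568441786) (nat_lit 684) (nat_lit 221735241) (nat_lit 339) (nat_lit 1) (nat_lit 338) (nat_lit 1) (nat_lit 347) (nat_lit 1) (nat_lit 327) (nat_lit 358) (nat_lit 335)) (XT.lf (nat_lit 76) (nat_lit 2410238218) (nat_lit 0) (nat_lit 125780743) (nat_lit 608) (nat_lit 2410238218) (nat_lit 331) (nat_lit 1) (nat_lit 330) (nat_lit 1) (nat_lit 338) (nat_lit 1) (nat_lit 328) (nat_lit 358) (nat_lit 334))) (XT.nd (nat_lit 78) (nat_lit 532) (nat_lit 0) (XT.lf (nat_lit 684) (nat_lit 4206800931) (nat_lit 0) (nat_lit 337713974) (nat_lit 608) (nat_lit 337713974) (nat_lit 331) (nat_lit 1) (nat_lit 322) (nat_lit 1) (nat_lit 330) (nat_lit 1) (nat_lit 329) (nat_lit 358) (nat_lit 333)) (XT.nd (nat_lit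 78) (nat_lit 532) (nat_lit 0) (XT.lf (nat_lit 76) (nat_lit 1784673987) (nat_lit 0) (nat_lit 1249504355) (nat_lit 684) (nat_lit 1784673987) (nat_lit 323) (nat_lit 1) (nat_lit 322) (nat_lit 1) (nat_lit 331) (nat_lit 1) (nat_lit 330) (nat_lit 358) (nat_lit 332)) (XT.lf (nat_lit 608) (nat_lit 2938211567) (nat_lit 0) (nat_lit 909376668) (nat_lit 532) (nat_lit 909376668) (nat_lit 323) (nat_lit 1) (nat_lit 315) (nat_lit 1) (nat_lit 322) (nat_lit 1) (nat_lit 331) (nat_lit 358) (nat_lit 331))))))))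
noncomputable def ec114 : XT := (XT.nd (nat_lit 1482) (nat_lit 3496) (nat_lit 0) (XT.nd (nat_lit 702) (nat_lit 2508) (nat_lit 0) (XT.nd (nat_lit 312) (nat_lit 1520) (nat_lit 0) (XT.nd (nat_lit 156) (nat_lit 456) (nat_lit 0) (XT.nd (nat_lit 78) (nat_lit 532) (nat_lit 0) (XT.lf (nat_lit 76) (nat_lit 1148183284) (nat_lit 0) (nat_lit 2399666136) (nat_lit 608) (nat_lit 1148183284) (nat_lit 316) (nat_lit 1) (nat_lit 315) (nat_lit 1) (nat_lit 323) (nat_lit 1) (nat_lit 332) (nat_lit 358) (nat_lit 330)) (XT.lf (nat_lit 608) (nat_lit 1649689947) (nat_lit 0) (nat_lit 1493250028) (nat_lit 532) (nat_lit 1493250028) (nat_lit 316) (nat_lit 1) (nat_lit 308) (nat_lit 1) (nat_lit 315) (nat_lit 1) (nat_lit 333) (nat_lit 358) (nat_lit 329))) (XT.nd (nat_lit 78) (nat_lit 456) (nat_lit 0) (XT.lf (nat_lit 76) (nat_lit 502757501) (nat_lit 0) (nat_lit 3572099557) (nat_lit 608) (nat_lit 502757501) (nat_lit 309) (nat_lit 1) (nat_lit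 308) (nat_lit 1) (nat_lit 316) (nat_lit 1) (nat_lit 334) (nat_lit 358) (nat_lit 328)) (XT.lf (nat_lit 532) (nat_lit 345081852) (nat_lit 0) (nat_lit 2087321663) (nat_lit 456) (nat_lit 2087321663) (nat_lit 309) (nat_lit 1) (nat_lit 302) (nat_lit 1) (nat_lit 308) (nat_lit 1) (nat_lit 335) (nat_lit 358) (nat_lit 327)))) (XT.nd (nat_lit 156) (nat_lit 912) (nat_lit 0) (XT.nd (nat_lit 78) (nat_lit 0) (nat_lit 0) (XT.lf (nat_lit 608) (nat_lit 4166653309) (nat_lit 0) (nat_lit 148297722) (nat_lit 532) (nat_lit 148297722) (nat_lit 302) (nat_lit 1) (nat_lit 294) (nat_lit 1) (nat_lit 301) (nat_lit 1) (nat_lit 336) (nat_lit 358) (nat_lit 326)) (XT.lf (nat_lit 76) (nat_lit 1727010606) (nat_lit 0) (nat_lit 953097873) (nat_lit 608) (nat_lit 1727010606) (nat_lit 295) (nat_lit 1) (nat_lit 294) (nat_lit 1) (nat_lit 302) (nat_lit 1) (nat_lit 337) (nat_lit 358) (nat_lit 325))) (XT.nd (nat_lit 78) (nat_lit 456) (nat_lit 0)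 (XT.lf (nat_lit 532) (nat_lit 2752801292) (nat_lit 0) (nat_lit 799775404) (nat_lit 456) (nat_lit 799775404) (nat_lit 295) (nat_lit 1) (nat_lit 288) (nat_lit 1) (nat_lit 294) (nat_lit 1) (nat_lit 338) (nat_lit 358) (nat_lit 324)) (XT.nd (nat_lit 78) (nat_lit 456) (nat_lit 0) (XT.lf (nat_lit 76) (nat_lit 1022374898) (nat_lit 0) (nat_lit 2253636630) (nat_lit 532) (nat_lit 1022374898) (nat_lit 289) (nat_lit 1) (nat_lit 288) (nat_lit 1) (nat_lit 295) (nat_lit 1) (nat_lit 339) (nat_lit 358) (nat_lit 323)) (XT.lf (nat_lit 532) (nat_lit 1335226681) (nat_lit 0) (nat_lit 1455061177) (nat_lit 456) (nat_lit 1455061177) (nat_lit 289) (nat_lit 1) (nat_lit 282) (nat_lit 1) (nat_lit 288) (nat_lit 1) (nat_lit 340) (nat_lit 358) (nat_lit 322)))))) (XT.nd (nat_lit 390) (nat_lit 1216) (nat_lit 0) (XT.nd (nat_lit 156) (nat_lit 836) (nat_lit 0) (XT.nd (nat_lit 78) (nat_lit 456) (nat_lit 0) (XT.lf (nat_lit 76) (nat_lit 316574611)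 (nat_lit 0) (nat_lit 3560322153) (nat_lit 532) (nat_lit 316574611) (nat_lit 283) (nat_lit 1) (nat_lit 282) (nat_lit 1) (nat_lit 289) (nat_lit 1) (nat_lit 341) (nat_lit 358) (nat_lit 321)) (XT.lf (nat_lit 76) (nat_lit 2030153325) (nat_lit 0) (nat_lit 81757364) (nat_lit 456) (nat_lit 2030153325) (nat_lit 277) (nat_lit 1) (nat_lit 276) (nat_lit 1) (nat_lit 282) (nat_lit 1) (nat_lit 342) (nat_lit 358) (nat_lit 320))) (XT.nd (nat_lit 78) (nat_lit 380) (nat_lit 0) (XT.lf (nat_lit 532) (nat_lit 3321181204) (nat_lit 0) (nat_lit 385296539) (nat_lit 456) (nat_lit 385296539) (nat_lit 277) (nat_lit 1) (nat_lit 270) (nat_lit 1) (nat_lit 276) (nat_lit 1) (nat_lit 343) (nat_lit 358) (nat_lit 319)) (XT.nd (nat_lit 78) (nat_lit 380) (nat_lit 0) (XT.lf (nat_lit 76) (nat_lit 1285350350) (nat_lit 0) (nat_lit 1471290841) (nat_lit 532) (nat_lit 1285350350) (nat_lit 271) (nat_lit 1) (nat_lit 270) (nat_lit 1) (nat_lit 277)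 (nat_lit 1) (nat_lit 344) (nat_lit 358) (nat_lit 318)) (XT.lf (nat_lit 456) (nat_lit 1827654433) (nat_lit 0) (nat_lit 1082792111) (nat_lit 380) (nat_lit 1082792111) (nat_lit 271) (nat_lit 1) (nat_lit 265) (nat_lit 1) (nat_lit 270) (nat_lit 1) (nat_lit 345) (nat_lit 358) (nat_lit 317))))) (XT.nd (nat_lit 156) (nat_lit 836) (nat_lit 0) (XT.nd (nat_lit 78) (nat_lit 380) (nat_lit 0) (XT.lf (nat_lit 76) (nat_lit 544077350) (nat_lit 0) (nat_lit 2857224000) (nat_lit 456) (nat_lit 544077350) (nat_lit 266) (nat_lit 1) (nat_lit 265) (nat_lit 1) (nat_lit 271) (nat_lit 1) (nat_lit 346) (nat_lit 358) (nat_lit 316)) (XT.lf (nat_lit 456) (nat_lit 342181796) (nat_lit 0) (nat_lit 1777957523) (nat_lit 380) (nat_lit 1777957523) (nat_lit 266) (nat_lit 1) (nat_lit 260) (nat_lit 1) (nat_lit 265) (nat_lit 1) (nat_lit 347) (nat_lit 358) (nat_lit 315))) (XT.nd (nat_lit 78) (nat_lit 380) (nat_lit 0) (XT.lf (nat_lit 456) (nat_lit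 3470197271) (nat_lit 0) (nat_lit 190836371) (nat_lit 380) (nat_lit 190836371) (nat_lit 260) (nat_lit 1) (nat_lit 254) (nat_lit 1) (nat_lit 259) (nat_lit 1) (nat_lit 348) (nat_lit 358) (nat_lit 314)) (XT.nd (nat_lit 78) (nat_lit 380) (nat_lit 0) (XT.lf (nat_lit 76) (nat_lit 1347286991) (nat_lit 0) (nat_lit 1111319080) (nat_lit 456) (nat_lit 1347286991) (nat_lit 255) (nat_lit 1) (nat_lit 254) (nat_lit 1) (nat_lit 260) (nat_lit 1) (nat_lit 349) (nat_lit 358) (nat_lit 313)) (XT.lf (nat_lit 456) (nat_lit 1930646377) (nat_lit 0) (nat_lit 915145765) (nat_lit 380) (nat_lit 915145765) (nat_lit 255) (nat_lit 1) (nat_lit 249) (nat_lit 1) (nat_lit 254) (nat_lit 1) (nat_lit 350) (nat_lit 358) (nat_lit 312))))))) (XT.nd (nat_lit 702) (nat_lit 1748) (nat_lit 0) (XT.nd (nat_lit 312) (nat_lit 988) (nat_lit 0) (XT.nd (nat_lit 156) (nat_lit 456) (nat_lit 0) (XT.nd (nat_lit 78) (nat_lit 304) (nat_lit 0) (XT.lf (nat_lit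 76) (nat_lit 584926890) (nat_lit 0) (nat_lit 2546881589) (nat_lit 456) (nat_lit 584926890) (nat_lit 250) (nat_lit 1) (nat_lit 249) (nat_lit 1) (nat_lit 255) (nat_lit 1) (nat_lit 351) (nat_lit 358) (nat_lit 311)) (XT.lf (nat_lit 380) (nat_lit 406250764) (nat_lit 0) (nat_lit 1633421127) (nat_lit 304) (nat_lit 1633421127) (nat_lit 250) (nat_lit 1) (nat_lit 245) (nat_lit 1) (nat_lit 249) (nat_lit 1) (nat_lit 352) (nat_lit 358) (nat_lit 310))) (XT.nd (nat_lit 78) (nat_lit 0) (nat_lit 0) (XT.lf (nat_lit 456) (nat_lit 3294599235) (nat_lit 0) (nat_lit 167904416) (nat_lit 380) (nat_lit 167904416) (nat_lit 245) (nat_lit 1) (nat_lit 239) (nat_lit 1) (nat_lit 244) (nat_lit 1) (nat_lit 353) (nat_lit 358) (nat_lit 309)) (XT.lf (nat_lit 76) (nat_lit 1253837153) (nat_lit 0) (nat_lit 1080228225) (nat_lit 456) (nat_lit 1253837153) (nat_lit 240) (nat_lit 1) (nat_lit 239) (nat_lit 1) (nat_lit 245) (nat_lit 1) (nat_lit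 354) (nat_lit 358) (nat_lit 308)))) (XT.nd (nat_lit 156) (nat_lit 684) (nat_lit 0) (XT.nd (nat_lit 78) (nat_lit 0) (nat_lit 0) (XT.lf (nat_lit 380) (nat_lit 1733079050) (nat_lit 0) (nat_lit 906623756) (nat_lit 304) (nat_lit 906623756) (nat_lit 240) (nat_lit 1) (nat_lit 235) (nat_lit 1) (nat_lit 239) (nat_lit 1) (nat_lit 355) (nat_lit 358) (nat_lit 307)) (XT.lf (nat_lit 76) (nat_lit 481942810) (nat_lit 0) (nat_lit 2541576140) (nat_lit 380) (nat_lit 481942810) (nat_lit 236) (nat_lit 1) (nat_lit 235) (nat_lit 1) (nat_lit 240) (nat_lit 1) (nat_lit 356) (nat_lit 358) (nat_lit 306))) (XT.nd (nat_lit 78) (nat_lit 380) (nat_lit 0) (XT.lf (nat_lit 380) (nat_lit 192178471) (nat_lit 0) (nat_lit 1636441488) (nat_lit 304) (nat_lit 1636441488) (nat_lit 236) (nat_lit 1) (nat_lit 231) (nat_lit 1) (nat_lit 235) (nat_lit 1) (nat_lit 357) (nat_lit 358) (nat_lit 305)) (XT.nd (nat_lit 78) (nat_lit 0) (nat_lit 0) (XT.lf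 (nat_lit 380) (nat_lit 2871983830) (nat_lit 0) (nat_lit 276737291) (nat_lit 304) (nat_lit 276737291) (nat_lit 231) (nat_lit 1) (nat_lit 226) (nat_lit 1) (nat_lit 230) (nat_lit 1) (nat_lit 358) (nat_lit 358) (nat_lit 304)) (XT.lf (nat_lit 76) (nat_lit 1042375428) (nat_lit 0) (nat_lit 1301375983) (nat_lit 380) (nat_lit 1042375428) (nat_lit 227) (nat_lit 1) (nat_lit 226) (nat_lit 1) (nat_lit 231) (nat_lit 1) (nat_lit 359) (nat_lit 358) (nat_lit 303)))))) (XT.nd (nat_lit 390) (nat_lit 836) (nat_lit 0) (XT.nd (nat_lit 156) (nat_lit 608) (nat_lit 0) (XT.nd (nat_lit 78) (nat_lit 0) (nat_lit 0) (XT.lf (nat_lit 380) (nat_lit 1307688411) (nat_lit 0) (nat_lit 1019940413) (nat_lit 304) (nat_lit 1019940413) (nat_lit 227) (nat_lit 1) (nat_lit 222) (nat_lit 1) (nat_lit 226) (nat_lit 1) (nat_lit 360) (nat_lit 358) (nat_lit 302)) (XT.lf (nat_lit 76) (nat_lit 270155721) (nat_lit 0) (nat_lit 2769446121) (nat_lit 380)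 (nat_lit 270155721) (nat_lit 223) (nat_lit 1) (nat_lit 222) (nat_lit 1) (nat_lit 227) (nat_lit 1) (nat_lit 361) (nat_lit 358) (nat_lit 301))) (XT.nd (nat_lit 78) (nat_lit 304) (nat_lit 0) (XT.lf (nat_lit 76) (nat_lit 1522423944) (nat_lit 0) (nat_lit 227341628) (nat_lit 304) (nat_lit 1522423944) (nat_lit 219) (nat_lit 1) (nat_lit 218) (nat_lit 1) (nat_lit 222) (nat_lit 1) (nat_lit 362) (nat_lit 358) (nat_lit 300)) (XT.nd (nat_lit 78) (nat_lit 0) (nat_lit 0) (XT.lf (nat_lit 380) (nat_lit 2265689779) (nat_lit 0) (nat_lit 484828455) (nat_lit 304) (nat_lit 484828455) (nat_lit 219) (nat_lit 1) (nat_lit 214) (nat_lit 1) (nat_lit 218) (nat_lit 1) (nat_lit 363) (nat_lit 358) (nat_lit 299)) (XT.lf (nat_lit 76) (nat_lit 743396511) (nat_lit 0) (nat_lit 1712130554) (nat_lit 380) (nat_lit 743396511) (nat_lit 215) (nat_lit 1) (nat_lit 214) (nat_lit 1) (nat_lit 219) (nat_lit 1) (nat_lit 364) (nat_lit 358) (nat_lit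 298))))) (XT.nd (nat_lit 156) (nat_lit 228) (nat_lit 0) (XT.nd (nat_lit 78) (nat_lit 380) (nat_lit 0) (XT.lf (nat_lit 304) (nat_lit 713796985) (nat_lit 0) (nat_lit 1224637722) (nat_lit 228) (nat_lit 1224637722) (nat_lit 215) (nat_lit 1) (nat_lit 211) (nat_lit 1) (nat_lit 214) (nat_lit 1) (nat_lit 365) (nat_lit 358) (nat_lit 297)) (XT.lf (nat_lit 380) (nat_lit 3084711326) (nat_lit 0) (nat_lit 21661480) (nat_lit 304) (nat_lit 21661480) (nat_lit 211) (nat_lit 1) (nat_lit 206) (nat_lit 1) (nat_lit 210) (nat_lit 1) (nat_lit 366) (nat_lit 358) (nat_lit 296))) (XT.nd (nat_lit 78) (nat_lit 228) (nat_lit 0) (XT.lf (nat_lit 76) (nat_lit 1149203658) (nat_lit 0) (nat_lit 794519943) (nat_lit 380) (nat_lit 1149203658) (nat_lit 207) (nat_lit 1) (nat_lit 206) (nat_lit 1) (nat_lit 211) (nat_lit 1) (nat_lit 367) (nat_lit 358) (nat_lit 295)) (XT.nd (nat_lit 78) (nat_lit 0) (nat_lit 0) (XT.lf (nat_lit 304) (nat_lit 1527215954)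 (nat_lit 0) (nat_lit 765699969) (nat_lit 228) (nat_lit 765699969) (nat_lit 207) (nat_lit 1) (nat_lit 203) (nat_lit 1) (nat_lit 206) (nat_lit 1) (nat_lit 368) (nat_lit 358) (nat_lit 294)) (XT.lf (nat_lit 76) (nat_lit 381682763) (nat_lit 0) (nat_lit 2261497942) (nat_lit 304) (nat_lit 381682763) (nat_lit 204) (nat_lit 1) (nat_lit 203) (nat_lit 1) (nat_lit 207) (nat_lit 1) (nat_lit 369) (nat_lit 358) (nat_lit 293))))))))
noncomputable def ec115 : XT := (XT.nd (nat_lit 1482) (nat_lit 2204) (nat_lit 0) (XT.nd (nat_lit 702) (nat_lit 1216) (nat_lit 0) (XT.nd (nat_lit 312) (nat_lit 760) (nat_lit 0) (XT.nd (nat_lit 156) (nat_lit 228) (nat_lit 0) (XT.nd (nat_lit 78) (nat_lit 228) (nat_lit 0) (XT.lf (nat_lit 76) (nat_lit 1495523912) (nat_lit 0) (nat_lit 400409) (nat_lit 304) (nat_lit 1495523912) (nat_lit 200) (nat_lit 1) (nat_lit 199) (nat_lit 1) (nat_lit 203) (nat_lit 1) (nat_lit 370) (nat_lit 358) (nat_lit 292))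 (XT.lf (nat_lit 304) (nat_lit 2223917982) (nat_lit 0) (nat_lit 367329275) (nat_lit 228) (nat_lit 367329275) (nat_lit 200) (nat_lit 1) (nat_lit 196) (nat_lit 1) (nat_lit 199) (nat_lit 1) (nat_lit 371) (nat_lit 358) (nat_lit 291))) (XT.nd (nat_lit 78) (nat_lit 228) (nat_lit 0) (XT.lf (nat_lit 76) (nat_lit 728556368) (nat_lit 0) (nat_lit 1468908194) (nat_lit 304) (nat_lit 728556368) (nat_lit 197) (nat_lit 1) (nat_lit 196) (nat_lit 1) (nat_lit 200) (nat_lit 1) (nat_lit 372) (nat_lit 358) (nat_lit 290)) (XT.lf (nat_lit 304) (nat_lit 698240565) (nat_lit 0) (nat_lit 1097876769) (nat_lit 228) (nat_lit 1097876769) (nat_lit 197) (nat_lit 1) (nat_lit 193) (nat_lit 1) (nat_lit 196) (nat_lit 1) (nat_lit 373) (nat_lit 358) (nat_lit 289)))) (XT.nd (nat_lit 156) (nat_lit 456) (nat_lit 0) (XT.nd (nat_lit 78) (nat_lit 0) (nat_lit 0) (XT.lf (nat_lit 304) (nat_lit 2817676097) (nat_lit 0) (nat_lit 22498149) (nat_lit 228)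 (nat_lit 22498149) (nat_lit 193) (nat_lit 1) (nat_lit 189) (nat_lit 1) (nat_lit 192) (nat_lit 1) (nat_lit 374) (nat_lit 358) (nat_lit 288)) (XT.lf (nat_lit 76) (nat_lit 1025406273) (nat_lit 0) (nat_lit 780442375) (nat_lit 304) (nat_lit 1025406273) (nat_lit 190) (nat_lit 1) (nat_lit 189) (nat_lit 1) (nat_lit 193) (nat_lit 1) (nat_lit 375) (nat_lit 358) (nat_lit 287))) (XT.nd (nat_lit 78) (nat_lit 228) (nat_lit 0) (XT.lf (nat_lit 304) (nat_lit 1298633431) (nat_lit 0) (nat_lit 750948116) (nat_lit 228) (nat_lit 750948116) (nat_lit 190) (nat_lit 1) (nat_lit 186) (nat_lit 1) (nat_lit 189) (nat_lit 1) (nat_lit 376) (nat_lit 358) (nat_lit 286)) (XT.nd (nat_lit 78) (nat_lit 228) (nat_lit 0) (XT.lf (nat_lit 76) (nat_lit 277752344) (nat_lit 0) (nat_lit 2214820129) (nat_lit 304) (nat_lit 277752344) (nat_lit 187) (nat_lit 1) (nat_lit 186) (nat_lit 1) (nat_lit 190) (nat_lit 1) (nat_lit 377) (nat_lit 358) (nat_lit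 285)) (XT.lf (nat_lit 76) (nat_lit 1278141139) (nat_lit 0) (nat_lit 184030874) (nat_lit 228) (nat_lit 1278141139) (nat_lit 184) (nat_lit 1) (nat_lit 183) (nat_lit 1) (nat_lit 186) (nat_lit 1) (nat_lit 378) (nat_lit 358) (nat_lit 284)))))) (XT.nd (nat_lit 390) (nat_lit 532) (nat_lit 0) (XT.nd (nat_lit 156) (nat_lit 456) (nat_lit 0) (XT.nd (nat_lit 78) (nat_lit 0) (nat_lit 0) (XT.lf (nat_lit 304) (nat_lit 1812319694) (nat_lit 0) (nat_lit 449245370) (nat_lit 228) (nat_lit 449245370) (nat_lit 184) (nat_lit 1) (nat_lit 180) (nat_lit 1) (nat_lit 183) (nat_lit 1) (nat_lit 379) (nat_lit 358) (nat_lit 283)) (XT.lf (nat_lit 76) (nat_lit 536041081) (nat_lit 0) (nat_lit 1609562223) (nat_lit 304) (nat_lit 536041081) (nat_lit 181) (nat_lit 1) (nat_lit 180) (nat_lit 1) (nat_lit 184) (nat_lit 1) (nat_lit 380) (nat_lit 358) (nat_lit 282))) (XT.nd (nat_lit 78) (nat_lit 304) (nat_lit 0) (XT.lf (nat_lit 228) (nat_lit 337624927)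 (nat_lit 0) (nat_lit 1157621647) (nat_lit 152) (nat_lit 1157621647) (nat_lit 181) (nat_lit 1) (nat_lit 178) (nat_lit 1) (nat_lit 180) (nat_lit 1) (nat_lit 381) (nat_lit 358) (nat_lit 281)) (XT.nd (nat_lit 78) (nat_lit 0) (nat_lit 0) (XT.lf (nat_lit 304) (nat_lit 2249543654) (nat_lit 0) (nat_lit 187534805) (nat_lit 228) (nat_lit 187534805) (nat_lit 178) (nat_lit 1) (nat_lit 174) (nat_lit 1) (nat_lit 177) (nat_lit 1) (nat_lit 382) (nat_lit 358) (nat_lit 280)) (XT.lf (nat_lit 76) (nat_lit 757102180) (nat_lit 0) (nat_lit 1082233660) (nat_lit 304) (nat_lit 757102180) (nat_lit 175) (nat_lit 1) (nat_lit 174) (nat_lit 1) (nat_lit 178) (nat_lit 1) (nat_lit 383) (nat_lit 358) (nat_lit 279))))) (XT.nd (nat_lit 156) (nat_lit 380) (nat_lit 0) (XT.nd (nat_lit 78) (nat_lit 0) (nat_lit 0) (XT.lf (nat_lit 228) (nat_lit 789672584) (nat_lit 0) (nat_lit 889550899) (nat_lit 152) (nat_lit 889550899) (nat_lit 175) (nat_lit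 1) (nat_lit 172) (nat_lit 1) (nat_lit 174) (nat_lit 1) (nat_lit 384) (nat_lit 358) (nat_lit 278)) (XT.lf (nat_lit 76) (nat_lit 39212567) (nat_lit 0) (nat_lit 2463263622) (nat_lit 228) (nat_lit 39212567) (nat_lit 173) (nat_lit 1) (nat_lit 172) (nat_lit 1) (nat_lit 175) (nat_lit 1) (nat_lit 385) (nat_lit 358) (nat_lit 277))) (XT.nd (nat_lit 78) (nat_lit 152) (nat_lit 0) (XT.lf (nat_lit 76) (nat_lit 945332396) (nat_lit 0) (nat_lit 623840367) (nat_lit 228) (nat_lit 945332396) (nat_lit 170) (nat_lit 1) (nat_lit 169) (nat_lit 1) (nat_lit 172) (nat_lit 1) (nat_lit 386) (nat_lit 358) (nat_lit 276)) (XT.nd (nat_lit 78) (nat_lit 0) (nat_lit 0) (XT.lf (nat_lit 228) (nat_lit 1177048047) (nat_lit 0) (nat_lit 655421499) (nat_lit 152) (nat_lit 655421499) (nat_lit 170) (nat_lit 1) (nat_lit 167) (nat_lit 1) (nat_lit 169) (nat_lit 1) (nat_lit 387) (nat_lit 358) (nat_lit 275)) (XT.lf (nat_lit 76) (nat_lit 236281157) (nat_lit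 0) (nat_lit 1989150351) (nat_lit 228) (nat_lit 236281157) (nat_lit 168) (nat_lit 1) (nat_lit 167) (nat_lit 1) (nat_lit 170) (nat_lit 1) (nat_lit 388) (nat_lit 358) (nat_lit 274))))))) (XT.nd (nat_lit 702) (nat_lit 1064) (nat_lit 0) (XT.nd (nat_lit 312) (nat_lit 608) (nat_lit 0) (XT.nd (nat_lit 156) (nat_lit 152) (nat_lit 0) (XT.nd (nat_lit 78) (nat_lit 152) (nat_lit 0) (XT.lf (nat_lit 76) (nat_lit 1104631042) (nat_lit 0) (nat_lit 226400085) (nat_lit 228) (nat_lit 1104631042) (nat_lit 165) (nat_lit 1) (nat_lit 164) (nat_lit 1) (nat_lit 167) (nat_lit 1) (nat_lit 389) (nat_lit 358) (nat_lit 273)) (XT.lf (nat_lit 228) (nat_lit 1507378531) (nat_lit 0) (nat_lit 451330646) (nat_lit 152) (nat_lit 451330646) (nat_lit 165) (nat_lit 1) (nat_lit 162) (nat_lit 1) (nat_lit 164) (nat_lit 1) (nat_lit 390) (nat_lit 358) (nat_lit 272))) (XT.nd (nat_lit 78) (nat_lit 152) (nat_lit 0) (XT.lf (nat_lit 76) (nat_lit 405506824)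 (nat_lit 0) (nat_lit 1573715417) (nat_lit 228) (nat_lit 405506824) (nat_lit 163) (nat_lit 1) (nat_lit 162) (nat_lit 1) (nat_lit 165) (nat_lit 1) (nat_lit 391) (nat_lit 358) (nat_lit 271)) (XT.lf (nat_lit 228) (nat_lit 119502657) (nat_lit 0) (nat_lit 1120101741) (nat_lit 152) (nat_lit 1120101741) (nat_lit 163) (nat_lit 1) (nat_lit 160) (nat_lit 1) (nat_lit 162) (nat_lit 1) (nat_lit 392) (nat_lit 358) (nat_lit 270)))) (XT.nd (nat_lit 156) (nat_lit 380) (nat_lit 0) (XT.nd (nat_lit 78) (nat_lit 0) (nat_lit 0) (XT.lf (nat_lit 228) (nat_lit 1787428618) (nat_lit 0) (nat_lit 273814184) (nat_lit 152) (nat_lit 273814184) (nat_lit 160) (nat_lit 1) (nat_lit 157) (nat_lit 1) (nat_lit 159) (nat_lit 1) (nat_lit 393) (nat_lit 358) (nat_lit 269)) (XT.lf (nat_lit 76) (nat_lit 550165306) (nat_lit 0) (nat_lit 1210246245) (nat_lit 228) (nat_lit 550165306) (nat_lit 158) (nat_lit 1) (nat_lit 157) (nat_lit 1) (nat_lit 160)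 (nat_lit 1) (nat_lit 394) (nat_lit 358) (nat_lit 268))) (XT.nd (nat_lit 78) (nat_lit 228) (nat_lit 0) (XT.lf (nat_lit 228) (nat_lit 421380011) (nat_lit 0) (nat_lit 932542072) (nat_lit 152) (nat_lit 932542072) (nat_lit 158) (nat_lit 1) (nat_lit 155) (nat_lit 1) (nat_lit 157) (nat_lit 1) (nat_lit 395) (nat_lit 358) (nat_lit 267)) (XT.nd (nat_lit 78) (nat_lit 0) (nat_lit 0) (XT.lf (nat_lit 228) (nat_lit 2023196805) (nat_lit 0) (nat_lit 119797590) (nat_lit 152) (nat_lit 119797590) (nat_lit 155) (nat_lit 1) (nat_lit 152) (nat_lit 1) (nat_lit 154) (nat_lit 1) (nat_lit 396) (nat_lit 358) (nat_lit 266)) (XT.lf (nat_lit 76) (nat_lit 673162073) (nat_lit 0) (nat_lit 892783725) (nat_lit 228) (nat_lit 673162073) (nat_lit 153) (nat_lit 1) (nat_lit 152) (nat_lit 1) (nat_lit 155) (nat_lit 1) (nat_lit 397) (nat_lit 358) (nat_lit 265)))))) (XT.nd (nat_lit 390) (nat_lit 608) (nat_lit 0) (XT.nd (nat_lit 156) (nat_lit 304)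 (nat_lit 0) (XT.nd (nat_lit 78) (nat_lit 0) (nat_lit 0) (XT.lf (nat_lit 228) (nat_lit 680413446) (nat_lit 0) (nat_lit 767722603) (nat_lit 152) (nat_lit 767722603) (nat_lit 153) (nat_lit 1) (nat_lit 150) (nat_lit 1) (nat_lit 152) (nat_lit 1) (nat_lit 398) (nat_lit 358) (nat_lit 264)) (XT.lf (nat_lit 76) (nat_lit 13580717) (nat_lit 0) (nat_lit 2165928944) (nat_lit 228) (nat_lit 13580717) (nat_lit 151) (nat_lit 1) (nat_lit 150) (nat_lit 1) (nat_lit 153) (nat_lit 1) (nat_lit 399) (nat_lit 358) (nat_lit 263))) (XT.nd (nat_lit 78) (nat_lit 152) (nat_lit 0) (XT.lf (nat_lit 76) (nat_lit 777073769) (nat_lit 0) (nat_lit 616038049) (nat_lit 152) (nat_lit 777073769) (nat_lit 149) (nat_lit 1) (nat_lit 148) (nat_lit 1) (nat_lit 150) (nat_lit 1) (nat_lit 400) (nat_lit 358) (nat_lit 262)) (XT.nd (nat_lit 78) (nat_lit 0) (nat_lit 0) (XT.lf (nat_lit 228) (nat_lit 901648014) (nat_lit 0) (nat_lit 623054357) (nat_lit 152)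 (nat_lit 623054357) (nat_lit 149) (nat_lit 1) (nat_lit 146) (nat_lit 1) (nat_lit 148) (nat_lit 1) (nat_lit 401) (nat_lit 358) (nat_lit 261)) (XT.lf (nat_lit 76) (nat_lit 129613061) (nat_lit 0) (nat_lit 1866495001) (nat_lit 228) (nat_lit 129613061) (nat_lit 147) (nat_lit 1) (nat_lit 146) (nat_lit 1) (nat_lit 149) (nat_lit 1) (nat_lit 402) (nat_lit 358) (nat_lit 260))))) (XT.nd (nat_lit 156) (nat_lit 304) (nat_lit 0) (XT.nd (nat_lit 78) (nat_lit 152) (nat_lit 0) (XT.lf (nat_lit 76) (nat_lit 864185013) (nat_lit 0) (nat_lit 375313938) (nat_lit 152) (nat_lit 864185013) (nat_lit 145) (nat_lit 1) (nat_lit 144) (nat_lit 1) (nat_lit 146) (nat_lit 1) (nat_lit 403) (nat_lit 358) (nat_lit 259)) (XT.lf (nat_lit 228) (nat_lit 1089558388) (nat_lit 0) (nat_lit 496238608) (nat_lit 152) (nat_lit 496238608) (nat_lit 145) (nat_lit 1) (nat_lit 142) (nat_lit 1) (nat_lit 144) (nat_lit 1) (nat_lit 404) (nat_lit 358) (nat_lit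 258))) (XT.nd (nat_lit 78) (nat_lit 304) (nat_lit 0) (XT.lf (nat_lit 76) (nat_lit 229282603) (nat_lit 0) (nat_lit 1602138368) (nat_lit 228) (nat_lit 229282603) (nat_lit 143) (nat_lit 1) (nat_lit 142) (nat_lit 1) (nat_lit 145) (nat_lit 1) (nat_lit 405) (nat_lit 358) (nat_lit 257)) (XT.nd (nat_lit 78) (nat_lit 152) (nat_lit 0) (XT.lf (nat_lit 76) (nat_lit 936521108) (nat_lit 0) (nat_lit 166444204) (nat_lit 152) (nat_lit 936521108) (nat_lit 141) (nat_lit 1) (nat_lit 140) (nat_lit 1) (nat_lit 142) (nat_lit 1) (nat_lit 406) (nat_lit 358) (nat_lit 256)) (XT.lf (nat_lit 228) (nat_lit 1248112696) (nat_lit 0) (nat_lit 385234471) (nat_lit 152) (nat_lit 385234471) (nat_lit 141) (nat_lit 1) (nat_lit 138) (nat_lit 1) (nat_lit 140) (nat_lit 1) (nat_lit 407) (nat_lit 358) (nat_lit 255))))))))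
noncomputable def ec116 : XT := (XT.nd (nat_lit 1404) (nat_lit 836) (nat_lit 0) (XT.nd (nat_lit 702) (nat_lit 684) (nat_lit 0) (XT.nd (nat_lit 312) (nat_lit 608) (nat_lit 0) (XT.nd (nat_lit 156) (nat_lit 228) (nat_lit 0) (XT.nd (nat_lit 78) (nat_lit 76) (nat_lit 0) (XT.lf (nat_lit 76) (nat_lit 314513727) (nat_lit 0) (nat_lit 1368898350) (nat_lit 228) (nat_lit 314513727) (nat_lit 139) (nat_lit 1) (nat_lit 138) (nat_lit 1) (nat_lit 141) (nat_lit 1) (nat_lit 408) (nat_lit 358) (nat_lit 254)) (XT.lf (nat_lit 152) (nat_lit 14553251) (nat_lit 0) (nat_lit 981463728) (nat_lit 76) (nat_lit 981463728) (nat_lit 139) (nat_lit 1) (nat_lit 137) (nat_lit 1) (nat_lit 138) (nat_lit 1) (nat_lit 409) (nat_lit 358) (nat_lit 253))) (XT.nd (nat_lit 78) (nat_lit 0) (nat_lit 0) (XT.lf (nat_lit 228) (nat_lit 1380829228) (nat_lit 0) (nat_lit 288230104) (nat_lit 152) (nat_lit 288230104) (nat_lit 137) (nat_lit 1) (nat_lit 134)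 (nat_lit 1) (nat_lit 136) (nat_lit 1) (nat_lit 410) (nat_lit 358) (nat_lit 252)) (XT.lf (nat_lit 76) (nat_lit 387013319) (nat_lit 0) (nat_lit 1163257347) (nat_lit 228) (nat_lit 387013319) (nat_lit 135) (nat_lit 1) (nat_lit 134) (nat_lit 1) (nat_lit 137) (nat_lit 1) (nat_lit 411) (nat_lit 358) (nat_lit 251)))) (XT.nd (nat_lit 156) (nat_lit 304) (nat_lit 0) (XT.nd (nat_lit 78) (nat_lit 228) (nat_lit 0) (XT.lf (nat_lit 152) (nat_lit 173493428) (nat_lit 0) (nat_lit 872017810) (nat_lit 76) (nat_lit 872017810) (nat_lit 135) (nat_lit 1) (nat_lit 133) (nat_lit 1) (nat_lit 134) (nat_lit 1) (nat_lit 412) (nat_lit 358) (nat_lit 250)) (XT.lf (nat_lit 228) (nat_lit 1490826809) (nat_lit 0) (nat_lit 203617129) (nat_lit 152) (nat_lit 203617129) (nat_lit 133) (nat_lit 1) (nat_lit 130) (nat_lit 1) (nat_lit 132) (nat_lit 1) (nat_lit 413) (nat_lit 358) (nat_lit 249))) (XT.nd (nat_lit 78) (nat_lit 304) (nat_lit 0) (XT.lf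 (nat_lit 76) (nat_lit 448295104) (nat_lit 0) (nat_lit 982091410) (nat_lit 228) (nat_lit 448295104) (nat_lit 131) (nat_lit 1) (nat_lit 130) (nat_lit 1) (nat_lit 133) (nat_lit 1) (nat_lit 414) (nat_lit 358) (nat_lit 248)) (XT.nd (nat_lit 78) (nat_lit 228) (nat_lit 0) (XT.lf (nat_lit 152) (nat_lit 310033122) (nat_lit 0) (nat_lit 774776530) (nat_lit 76) (nat_lit 774776530) (nat_lit 131) (nat_lit 1) (nat_lit 129) (nat_lit 1) (nat_lit 130) (nat_lit 1) (nat_lit 415) (nat_lit 358) (nat_lit 247)) (XT.lf (nat_lit 228) (nat_lit 1580869558) (nat_lit 0) (nat_lit 129967895) (nat_lit 152) (nat_lit 129967895) (nat_lit 129) (nat_lit 1) (nat_lit 126) (nat_lit 1) (nat_lit 128) (nat_lit 1) (nat_lit 416) (nat_lit 358) (nat_lit 246)))))) (XT.nd (nat_lit 312) (nat_lit 380) (nat_lit 0) (XT.nd (nat_lit 156) (nat_lit 228) (nat_lit 0) (XT.nd (nat_lit 78) (nat_lit 76) (nat_lit 0) (XT.lf (nat_lit 76) (nat_lit 499701269) (nat_lit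 0) (nat_lit 822626298) (nat_lit 228) (nat_lit 499701269) (nat_lit 127) (nat_lit 1) (nat_lit 126) (nat_lit 1) (nat_lit 129) (nat_lit 1) (nat_lit 417) (nat_lit 358) (nat_lit 245)) (XT.lf (nat_lit 152) (nat_lit 426806489) (nat_lit 0) (nat_lit 688378912) (nat_lit 76) (nat_lit 688378912) (nat_lit 127) (nat_lit 1) (nat_lit 125) (nat_lit 1) (nat_lit 126) (nat_lit 1) (nat_lit 418) (nat_lit 358) (nat_lit 244))) (XT.nd (nat_lit 78) (nat_lit 0) (nat_lit 0) (XT.lf (nat_lit 228) (nat_lit 1653406639) (nat_lit 0) (nat_lit 66015289) (nat_lit 152) (nat_lit 66015289) (nat_lit 125) (nat_lit 1) (nat_lit 122) (nat_lit 1) (nat_lit 124) (nat_lit 1) (nat_lit 419) (nat_lit 358) (nat_lit 243)) (XT.lf (nat_lit 76) (nat_lit 542421675) (nat_lit 0) (nat_lit 682398442) (nat_lit 228) (nat_lit 542421675) (nat_lit 123) (nat_lit 1) (nat_lit 122) (nat_lit 1) (nat_lit 125) (nat_lit 1) (nat_lit 420) (nat_lit 358) (nat_lit 242)))) (XT.nd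 (nat_lit 156) (nat_lit 76) (nat_lit 0) (XT.nd (nat_lit 78) (nat_lit 228) (nat_lit 0) (XT.lf (nat_lit 152) (nat_lit 526149975) (nat_lit 0) (nat_lit 611615747) (nat_lit 76) (nat_lit 611615747) (nat_lit 123) (nat_lit 1) (nat_lit 121) (nat_lit 1) (nat_lit 122) (nat_lit 1) (nat_lit 421) (nat_lit 358) (nat_lit 241)) (XT.lf (nat_lit 228) (nat_lit 1710607579) (nat_lit 0) (nat_lit 10634795) (nat_lit 152) (nat_lit 10634795) (nat_lit 121) (nat_lit 1) (nat_lit 118) (nat_lit 1) (nat_lit 120) (nat_lit 1) (nat_lit 422) (nat_lit 358) (nat_lit 240))) (XT.nd (nat_lit 78) (nat_lit 76) (nat_lit 0) (XT.lf (nat_lit 76) (nat_lit 577510913) (nat_lit 0) (nat_lit 559220265) (nat_lit 228) (nat_lit 577510913) (nat_lit 119) (nat_lit 1) (nat_lit 118) (nat_lit 1) (nat_lit 121) (nat_lit 1) (nat_lit 423) (nat_lit 358) (nat_lit 239)) (XT.nd (nat_lit 78) (nat_lit 0) (nat_lit 0) (XT.lf (nat_lit 152) (nat_lit 610135631) (nat_lit 0) (nat_lit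 543412669) (nat_lit 76) (nat_lit 543412669) (nat_lit 119) (nat_lit 1) (nat_lit 117) (nat_lit 1) (nat_lit 118) (nat_lit 1) (nat_lit 424) (nat_lit 358) (nat_lit 238)) (XT.lf (nat_lit 0) (nat_lit 37539480) (nat_lit 0) (nat_lit 1604928272) (nat_lit 152) (nat_lit 37539480) (nat_lit 117) (nat_lit 3) (nat_lit 117) (nat_lit 1) (nat_lit 119) (nat_lit 1) (nat_lit 425) (nat_lit 358) (nat_lit 237))))))) (XT.nd (nat_lit 702) (nat_lit 152) (nat_lit 0) (XT.nd (nat_lit 312) (nat_lit 304) (nat_lit 0) (XT.nd (nat_lit 156) (nat_lit 152) (nat_lit 0) (XT.nd (nat_lit 78) (nat_lit 76) (nat_lit 0) (XT.lf (nat_lit 76) (nat_lit 605903471) (nat_lit 0) (nat_lit 451149369) (nat_lit 152) (nat_lit 605903471) (nat_lit 116) (nat_lit 1) (nat_lit 115) (nat_lit 1) (nat_lit 117) (nat_lit 1) (nat_lit 426) (nat_lit 358) (nat_lit 236)) (XT.lf (nat_lit 152) (nat_lit 680600704) (nat_lit 0) (nat_lit 482815118) (nat_lit 76) (nat_lit 482815118)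 (nat_lit 116) (nat_lit 1) (nat_lit 114) (nat_lit 1) (nat_lit 115) (nat_lit 1) (nat_lit 427) (nat_lit 358) (nat_lit 235))) (XT.nd (nat_lit 78) (nat_lit 152) (nat_lit 0) (XT.lf (nat_lit 0) (nat_lit 79063935) (nat_lit 0) (nat_lit 1471668576) (nat_lit 152) (nat_lit 79063935) (nat_lit 114) (nat_lit 3) (nat_lit 114) (nat_lit 1) (nat_lit 116) (nat_lit 1) (nat_lit 428) (nat_lit 358) (nat_lit 234)) (XT.lf (nat_lit 76) (nat_lit 628427198) (nat_lit 0) (nat_lit 356461154) (nat_lit 152) (nat_lit 628427198) (nat_lit 113) (nat_lit 1) (nat_lit 112) (nat_lit 1) (nat_lit 114) (nat_lit 1) (nat_lit 429) (nat_lit 358) (nat_lit 233)))) (XT.nd (nat_lit 156) (nat_lit 228) (nat_lit 0) (XT.nd (nat_lit 78) (nat_lit 0) (nat_lit 0) (XT.lf (nat_lit 152) (nat_lit 739173939) (nat_lit 0) (nat_lit 428974979) (nat_lit 76) (nat_lit 428974979) (nat_lit 113) (nat_lit 1) (nat_lit 111) (nat_lit 1) (nat_lit 112) (nat_lit 1) (nat_lit 430) (nat_lit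 358) (nat_lit 232)) (XT.lf (nat_lit 0) (nat_lit 114626500) (nat_lit 0) (nat_lit 1351937686) (nat_lit 152) (nat_lit 114626500) (nat_lit 111) (nat_lit 3) (nat_lit 111) (nat_lit 1) (nat_lit 113) (nat_lit 1) (nat_lit 431) (nat_lit 358) (nat_lit 231))) (XT.nd (nat_lit 78) (nat_lit 76) (nat_lit 0) (XT.lf (nat_lit 76) (nat_lit 645815262) (nat_lit 0) (nat_lit 273624499) (nat_lit 152) (nat_lit 645815262) (nat_lit 110) (nat_lit 1) (nat_lit 109) (nat_lit 1) (nat_lit 111) (nat_lit 1) (nat_lit 432) (nat_lit 358) (nat_lit 230)) (XT.nd (nat_lit 78) (nat_lit 0) (nat_lit 0) (XT.lf (nat_lit 152) (nat_lit 787298926) (nat_lit 0) (nat_lit 381138713) (nat_lit 76) (nat_lit 381138713) (nat_lit 110) (nat_lit 1) (nat_lit 108) (nat_lit 1) (nat_lit 109) (nat_lit 1) (nat_lit 433) (nat_lit 358) (nat_lit 229)) (XT.lf (nat_lit 0) (nat_lit 144930779) (nat_lit 0) (nat_lit 1244265742) (nat_lit 152) (nat_lit 144930779) (nat_lit 108) (nat_lit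 3) (nat_lit 108) (nat_lit 1) (nat_lit 110) (nat_lit 1) (nat_lit 434) (nat_lit 358) (nat_lit 228)))))) (XT.nd (nat_lit 43056) (nat_lit 0) (nat_lit 20520) (XT.nd (nat_lit 42822) (nat_lit 0) (nat_lit 20368) (XT.nd (nat_lit 42744) (nat_lit 0) (nat_lit 20368) (XT.lf (nat_lit 76) (nat_lit 658716783) (nat_lit 0) (nat_lit 201280155) (nat_lit 152) (nat_lit 658716783) (nat_lit 107) (nat_lit 1) (nat_lit 106) (nat_lit 1) (nat_lit 108) (nat_lit 1) (nat_lit 435) (nat_lit 358) (nat_lit 227)) (XT.lf (nat_lit 1292) (nat_lit 653991263) (nat_lit 0) (nat_lit 2250034097) (nat_lit 1292) (nat_lit 653991263) (nat_lit 391) (nat_lit 1) (nat_lit 374) (nat_lit 0) (nat_lit 391) (nat_lit 0) (nat_lit 302) (nat_lit 359) (nat_lit 359))) (XT.nd (nat_lit 78) (nat_lit 0) (nat_lit 76) (XT.lf (nat_lit 1292) (nat_lit 2555809317) (nat_lit 76) (nat_lit 2227974939) (nat_lit 0) (nat_lit 2227974939) (nat_lit 391) (nat_lit 1) (nat_lit 375) (nat_lit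 1) (nat_lit 374) (nat_lit 0) (nat_lit 303) (nat_lit 359) (nat_lit 358)) (XT.nd (nat_lit 78) (nat_lit 0) (nat_lit 0) (XT.lf (nat_lit 1292) (nat_lit 1236050323) (nat_lit 0) (nat_lit 4437684566) (nat_lit 1216) (nat_lit 1236050323) (nat_lit 392) (nat_lit 1) (nat_lit 375) (nat_lit 1) (nat_lit 391) (nat_lit 1) (nat_lit 304) (nat_lit 359) (nat_lit 357)) (XT.lf (nat_lit 1292) (nat_lit 2347323382) (nat_lit 76) (nat_lit 2231095388) (nat_lit 0) (nat_lit 2231095388) (nat_lit 392) (nat_lit 1) (nat_lit 376) (nat_lit 1) (nat_lit 375) (nat_lit 1) (nat_lit 305) (nat_lit 359) (nat_lit 356))))) (XT.nd (nat_lit 156) (nat_lit 0) (nat_lit 76) (XT.nd (nat_lit 78) (nat_lit 0) (nat_lit 0) (XT.lf (nat_lit 1292) (nat_lit 1101469790) (nat_lit 0) (nat_lit 4508547124) (nat_lit 1216) (nat_lit 1101469790) (nat_lit 393) (nat_lit 1) (nat_lit 376) (nat_lit 1) (nat_lit 392) (nat_lit 1) (nat_lit 306) (nat_lit 359) (nat_lit 355)) (XT.lf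 (nat_lit 1292) (nat_lit 2018559691) (nat_lit 76) (nat_lit 2298233654) (nat_lit 0) (nat_lit 2298233654) (nat_lit 393) (nat_lit 1) (nat_lit 377) (nat_lit 1) (nat_lit 376) (nat_lit 1) (nat_lit 307) (nat_lit 359) (nat_lit 354))) (XT.nd (nat_lit 78) (nat_lit 0) (nat_lit 0) (XT.lf (nat_lit 1292) (nat_lit 909782174) (nat_lit 0) (nat_lit 4701230340) (nat_lit 1216) (nat_lit 909782174) (nat_lit 394) (nat_lit 1) (nat_lit 377) (nat_lit 1) (nat_lit 393) (nat_lit 1) (nat_lit 308) (nat_lit 359) (nat_lit 353)) (XT.nd (nat_lit 78) (nat_lit 0) (nat_lit 76) (XT.lf (nat_lit 1292) (nat_lit 1580274494) (nat_lit 76) (nat_lit 2423845037) (nat_lit 0) (nat_lit 2423845037) (nat_lit 394) (nat_lit 1) (nat_lit 378) (nat_lit 1) (nat_lit 377) (nat_lit 1) (nat_lit 309) (nat_lit 359) (nat_lit 352)) (XT.lf (nat_lit 1292) (nat_lit 666153982) (nat_lit 0) (nat_lit 5005074555) (nat_lit 1216) (nat_lit 666153982) (nat_lit 395) (nat_lit 1)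 (nat_lit 378) (nat_lit 1) (nat_lit 394) (nat_lit 1) (nat_lit 310) (nat_lit 359) (nat_lit 351))))))))
noncomputable def ec117 : XT := (XT.nd (nat_lit 1482) (nat_lit 5016) (nat_lit 0) (XT.nd (nat_lit 702) (nat_lit 3648) (nat_lit 0) (XT.nd (nat_lit 312) (nat_lit 1140) (nat_lit 0) (XT.nd (nat_lit 156) (nat_lit 0) (nat_lit 76) (XT.nd (nat_lit 78) (nat_lit 0) (nat_lit 76) (XT.lf (nat_lit 1292) (nat_lit 1042494404) (nat_lit 76) (nat_lit 2602757588) (nat_lit 0) (nat_lit 2602757588) (nat_lit 395) (nat_lit 1) (nat_lit 379) (nat_lit 1) (nat_lit 378) (nat_lit 1) (nat_lit 311) (nat_lit 359) (nat_lit 350)) (XT.lf (nat_lit 1292) (nat_lit 375400143) (nat_lit 0) (nat_lit 5410138815) (nat_lit 1216) (nat_lit 375400143) (nat_lit 396) (nat_lit 1) (nat_lit 379) (nat_lit 1) (nat_lit 395) (nat_lit 1) (nat_lit 312) (nat_lit 359) (nat_lit 349))) (XT.nd (nat_lit 78) (nat_lit 0) (nat_lit 76) (XT.lf (nat_lit 1292) (nat_lit 414561539)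 (nat_lit 76) (nat_lit 2830149123) (nat_lit 0) (nat_lit 2830149123) (nat_lit 396) (nat_lit 1) (nat_lit 380) (nat_lit 1) (nat_lit 379) (nat_lit 1) (nat_lit 313) (nat_lit 359) (nat_lit 348)) (XT.lf (nat_lit 1292) (nat_lit 42005791) (nat_lit 0) (nat_lit 5907156502) (nat_lit 1216) (nat_lit 42005791) (nat_lit 397) (nat_lit 1) (nat_lit 380) (nat_lit 1) (nat_lit 396) (nat_lit 1) (nat_lit 314) (nat_lit 359) (nat_lit 347)))) (XT.nd (nat_lit 156) (nat_lit 0) (nat_lit 76) (XT.nd (nat_lit 78) (nat_lit 0) (nat_lit 0) (XT.lf (nat_lit 1368) (nat_lit 2809535632) (nat_lit 0) (nat_lit 289070924) (nat_lit 1292) (nat_lit 2809535632) (nat_lit 381) (nat_lit 1) (nat_lit 363) (nat_lit 1) (nat_lit 380) (nat_lit 1) (nat_lit 315) (nat_lit 359) (nat_lit 346)) (XT.lf (nat_lit 1368) (nat_lit 5174165917) (nat_lit 76) (nat_lit 326619391) (nat_lit 0) (nat_lit 326619391) (nat_lit 381) (nat_lit 1) (nat_lit 364) (nat_lit 1) (nat_lit 363)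 (nat_lit 1) (nat_lit 316) (nat_lit 359) (nat_lit 345))) (XT.nd (nat_lit 78) (nat_lit 0) (nat_lit 0) (XT.lf (nat_lit 1368) (nat_lit 2345494805) (nat_lit 0) (nat_lit 1056537058) (nat_lit 1292) (nat_lit 2345494805) (nat_lit 382) (nat_lit 1) (nat_lit 364) (nat_lit 1) (nat_lit 381) (nat_lit 1) (nat_lit 317) (nat_lit 359) (nat_lit 344)) (XT.nd (nat_lit 78) (nat_lit 0) (nat_lit 76) (XT.lf (nat_lit 1368) (nat_lit 4211528195) (nat_lit 76) (nat_lit 729072646) (nat_lit 0) (nat_lit 729072646) (nat_lit 382) (nat_lit 1) (nat_lit 365) (nat_lit 1) (nat_lit 364) (nat_lit 1) (nat_lit 318) (nat_lit 359) (nat_lit 343)) (XT.lf (nat_lit 76) (nat_lit 1852166688) (nat_lit 0) (nat_lit 1888539986) (nat_lit 1292) (nat_lit 1852166688) (nat_lit 366) (nat_lit 1) (nat_lit 365) (nat_lit 1) (nat_lit 382) (nat_lit 1) (nat_lit 319) (nat_lit 359) (nat_lit 342)))))) (XT.nd (nat_lit 390) (nat_lit 1748) (nat_lit 0) (XT.nd (nat_lit 156) (nat_lit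 1216) (nat_lit 0) (XT.nd (nat_lit 78) (nat_lit 0) (nat_lit 0) (XT.lf (nat_lit 912) (nat_lit 3193396123) (nat_lit 0) (nat_lit 1162187367) (nat_lit 836) (nat_lit 1162187367) (nat_lit 366) (nat_lit 1) (nat_lit 354) (nat_lit 1) (nat_lit 365) (nat_lit 1) (nat_lit 320) (nat_lit 359) (nat_lit 341)) (XT.lf (nat_lit 76) (nat_lit 1332861377) (nat_lit 0) (nat_lit 2778212144) (nat_lit 912) (nat_lit 1332861377) (nat_lit 355) (nat_lit 1) (nat_lit 354) (nat_lit 1) (nat_lit 366) (nat_lit 1) (nat_lit 321) (nat_lit 359) (nat_lit 340))) (XT.nd (nat_lit 78) (nat_lit 608) (nat_lit 0) (XT.lf (nat_lit 684) (nat_lit 2126181139) (nat_lit 0) (nat_lit 1622637520) (nat_lit 608) (nat_lit 1622637520) (nat_lit 355) (nat_lit 1) (nat_lit 346) (nat_lit 1) (nat_lit 354) (nat_lit 1) (nat_lit 322) (nat_lit 359) (nat_lit 339)) (XT.nd (nat_lit 78) (nat_lit 608) (nat_lit 0) (XT.lf (nat_lit 76) (nat_lit 790651515) (nat_lit 0) (nat_lit 3719172318)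 (nat_lit 684) (nat_lit 790651515) (nat_lit 347) (nat_lit 1) (nat_lit 346) (nat_lit 1) (nat_lit 355) (nat_lit 1) (nat_lit 323) (nat_lit 359) (nat_lit 338)) (XT.lf (nat_lit 684) (nat_lit 1015832683) (nat_lit 0) (nat_lit 2107333611) (nat_lit 608) (nat_lit 2107333611) (nat_lit 347) (nat_lit 1) (nat_lit 338) (nat_lit 1) (nat_lit 346) (nat_lit 1) (nat_lit 324) (nat_lit 359) (nat_lit 337))))) (XT.nd (nat_lit 156) (nat_lit 1140) (nat_lit 0) (XT.nd (nat_lit 78) (nat_lit 608) (nat_lit 0) (XT.lf (nat_lit 76) (nat_lit 228387298) (nat_lit 0) (nat_lit 4705495040) (nat_lit 684) (nat_lit 228387298) (nat_lit 339) (nat_lit 1) (nat_lit 338) (nat_lit 1) (nat_lit 347) (nat_lit 1) (nat_lit 325) (nat_lit 359) (nat_lit 336)) (XT.lf (nat_lit 76) (nat_lit 2482545364) (nat_lit 0) (nat_lit 129554165) (nat_lit 608) (nat_lit 2482545364) (nat_lit 331) (nat_lit 1) (nat_lit 330) (nat_lit 1) (nat_lit 338) (nat_lit 1) (nat_lit 326) (nat_lit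 359) (nat_lit 335))) (XT.nd (nat_lit 78) (nat_lit 532) (nat_lit 0) (XT.lf (nat_lit 684) (nat_lit 4333004959) (nat_lit 0) (nat_lit 347845393) (nat_lit 608) (nat_lit 347845393) (nat_lit 331) (nat_lit 1) (nat_lit 322) (nat_lit 1) (nat_lit 330) (nat_lit 1) (nat_lit 327) (nat_lit 359) (nat_lit 334)) (XT.nd (nat_lit 78) (nat_lit 532) (nat_lit 0) (XT.lf (nat_lit 76) (nat_lit 1838214207) (nat_lit 0) (nat_lit 1286989486) (nat_lit 684) (nat_lit 1838214207) (nat_lit 323) (nat_lit 1) (nat_lit 322) (nat_lit 1) (nat_lit 331) (nat_lit 1) (nat_lit 328) (nat_lit 359) (nat_lit 333)) (XT.lf (nat_lit 608) (nat_lit 3026357914) (nat_lit 0) (nat_lit 936657968) (nat_lit 532) (nat_lit 936657968) (nat_lit 323) (nat_lit 1) (nat_lit 315) (nat_lit 1) (nat_lit 322) (nat_lit 1) (nat_lit 329) (nat_lit 359) (nat_lit 332))))))) (XT.nd (nat_lit 702) (nat_lit 2508) (nat_lit 0) (XT.nd (nat_lit 312) (nat_lit 1520) (nat_lit 0) (XT.nd (nat_lit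 156) (nat_lit 456) (nat_lit 0) (XT.nd (nat_lit 78) (nat_lit 532) (nat_lit 0) (XT.lf (nat_lit 76) (nat_lit 1182628783) (nat_lit 0) (nat_lit 2471656120) (nat_lit 608) (nat_lit 1182628783) (nat_lit 316) (nat_lit 1) (nat_lit 315) (nat_lit 1) (nat_lit 323) (nat_lit 1) (nat_lit 330) (nat_lit 359) (nat_lit 331)) (XT.lf (nat_lit 608) (nat_lit 1699180646) (nat_lit 0) (nat_lit 1538047529) (nat_lit 532) (nat_lit 1538047529) (nat_lit 316) (nat_lit 1) (nat_lit 308) (nat_lit 1) (nat_lit 315) (nat_lit 1) (nat_lit 331) (nat_lit 359) (nat_lit 330))) (XT.nd (nat_lit 78) (nat_lit 456) (nat_lit 0) (XT.lf (nat_lit 76) (nat_lit 517840226) (nat_lit 0) (nat_lit 3679262543) (nat_lit 608) (nat_lit 517840226) (nat_lit 309) (nat_lit 1) (nat_lit 308) (nat_lit 1) (nat_lit 316) (nat_lit 1) (nat_lit 332) (nat_lit 359) (nat_lit 329)) (XT.lf (nat_lit 532) (nat_lit 355434307) (nat_lit 0) (nat_lit 2149941313) (nat_lit 456) (nat_lit 2149941313)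 (nat_lit 309) (nat_lit 1) (nat_lit 302) (nat_lit 1) (nat_lit 308) (nat_lit 1) (nat_lit 333) (nat_lit 359) (nat_lit 328)))) (XT.nd (nat_lit 156) (nat_lit 912) (nat_lit 0) (XT.nd (nat_lit 78) (nat_lit 0) (nat_lit 0) (XT.lf (nat_lit 608) (nat_lit 4291652908) (nat_lit 0) (nat_lit 152746654) (nat_lit 532) (nat_lit 152746654) (nat_lit 302) (nat_lit 1) (nat_lit 294) (nat_lit 1) (nat_lit 301) (nat_lit 1) (nat_lit 334) (nat_lit 359) (nat_lit 327)) (XT.lf (nat_lit 76) (nat_lit 1778820924) (nat_lit 0) (nat_lit 981690809) (nat_lit 608) (nat_lit 1778820924) (nat_lit 295) (nat_lit 1) (nat_lit 294) (nat_lit 1) (nat_lit 302) (nat_lit 1) (nat_lit 335) (nat_lit 359) (nat_lit 326))) (XT.nd (nat_lit 78) (nat_lit 456) (nat_lit 0) (XT.lf (nat_lit 532) (nat_lit 2835385331) (nat_lit 0) (nat_lit 823768667) (nat_lit 456) (nat_lit 823768667) (nat_lit 295) (nat_lit 1) (nat_lit 288) (nat_lit 1) (nat_lit 294) (nat_lit 1) (nat_lit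 336) (nat_lit 359) (nat_lit 325)) (XT.nd (nat_lit 78) (nat_lit 456) (nat_lit 0) (XT.lf (nat_lit 76) (nat_lit 1053046145) (nat_lit 0) (nat_lit 2321245729) (nat_lit 532) (nat_lit 1053046145) (nat_lit 289) (nat_lit 1) (nat_lit 288) (nat_lit 1) (nat_lit 295) (nat_lit 1) (nat_lit 337) (nat_lit 359) (nat_lit 324)) (XT.lf (nat_lit 532) (nat_lit 1375283482) (nat_lit 0) (nat_lit 1498713013) (nat_lit 456) (nat_lit 1498713013) (nat_lit 289) (nat_lit 1) (nat_lit 282) (nat_lit 1) (nat_lit 288) (nat_lit 1) (nat_lit 338) (nat_lit 359) (nat_lit 323)))))) (XT.nd (nat_lit 390) (nat_lit 1216) (nat_lit 0) (XT.nd (nat_lit 156) (nat_lit 836) (nat_lit 0) (XT.nd (nat_lit 78) (nat_lit 456) (nat_lit 0) (XT.lf (nat_lit 76) (nat_lit 326071849) (nat_lit 0) (nat_lit 3667131817) (nat_lit 532) (nat_lit 326071849) (nat_lit 283) (nat_lit 1) (nat_lit 282) (nat_lit 1) (nat_lit 289) (nat_lit 1) (nat_lit 339) (nat_lit 359) (nat_lit 322))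 (XT.lf (nat_lit 76) (nat_lit 2091057925) (nat_lit 0) (nat_lit 84210085) (nat_lit 456) (nat_lit 2091057925) (nat_lit 277) (nat_lit 1) (nat_lit 276) (nat_lit 1) (nat_lit 282) (nat_lit 1) (nat_lit 340) (nat_lit 359) (nat_lit 321))) (XT.nd (nat_lit 78) (nat_lit 380) (nat_lit 0) (XT.lf (nat_lit 532) (nat_lit 3420816640) (nat_lit 0) (nat_lit 396855435) (nat_lit 456) (nat_lit 396855435) (nat_lit 277) (nat_lit 1) (nat_lit 270) (nat_lit 1) (nat_lit 276) (nat_lit 1) (nat_lit 341) (nat_lit 359) (nat_lit 320)) (XT.nd (nat_lit 78) (nat_lit 380) (nat_lit 0) (XT.lf (nat_lit 76) (nat_lit 1323910860) (nat_lit 0) (nat_lit 1515429567) (nat_lit 532) (nat_lit 1323910860) (nat_lit 271) (nat_lit 1) (nat_lit 270) (nat_lit 1) (nat_lit 277) (nat_lit 1) (nat_lit 342) (nat_lit 359) (nat_lit 319)) (XT.lf (nat_lit 456) (nat_lit 1882484066) (nat_lit 0) (nat_lit 1115275875) (nat_lit 380) (nat_lit 1115275875) (nat_lit 271) (nat_lit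 1) (nat_lit 265) (nat_lit 1) (nat_lit 270) (nat_lit 1) (nat_lit 343) (nat_lit 359) (nat_lit 318))))) (XT.nd (nat_lit 156) (nat_lit 836) (nat_lit 0) (XT.nd (nat_lit 78) (nat_lit 380) (nat_lit 0) (XT.lf (nat_lit 76) (nat_lit 560399671) (nat_lit 0) (nat_lit 2942940720) (nat_lit 456) (nat_lit 560399671) (nat_lit 266) (nat_lit 1) (nat_lit 265) (nat_lit 1) (nat_lit 271) (nat_lit 1) (nat_lit 344) (nat_lit 359) (nat_lit 317)) (XT.lf (nat_lit 456) (nat_lit 352447250) (nat_lit 0) (nat_lit 1831296248) (nat_lit 380) (nat_lit 1831296248) (nat_lit 266) (nat_lit 1) (nat_lit 260) (nat_lit 1) (nat_lit 265) (nat_lit 1) (nat_lit 345) (nat_lit 359) (nat_lit 316))) (XT.nd (nat_lit 78) (nat_lit 380) (nat_lit 0) (XT.lf (nat_lit 456) (nat_lit 3574303189) (nat_lit 0) (nat_lit 196561462) (nat_lit 380) (nat_lit 196561462) (nat_lit 260) (nat_lit 1) (nat_lit 254) (nat_lit 1) (nat_lit 259) (nat_lit 1) (nat_lit 346) (nat_lit 359)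 (nat_lit 315)) (XT.nd (nat_lit 78) (nat_lit 380) (nat_lit 0) (XT.lf (nat_lit 76) (nat_lit 1387705600) (nat_lit 0) (nat_lit 1144658653) (nat_lit 456) (nat_lit 1387705600) (nat_lit 255) (nat_lit 1) (nat_lit 254) (nat_lit 1) (nat_lit 260) (nat_lit 1) (nat_lit 347) (nat_lit 359) (nat_lit 314)) (XT.lf (nat_lit 456) (nat_lit 1988565768) (nat_lit 0) (nat_lit 942600138) (nat_lit 380) (nat_lit 942600138) (nat_lit 255) (nat_lit 1) (nat_lit 249) (nat_lit 1) (nat_lit 254) (nat_lit 1) (nat_lit 348) (nat_lit 359) (nat_lit 313))))))))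
noncomputable def ec118 : XT := (XT.nd (nat_lit 1482) (nat_lit 2736) (nat_lit 0) (XT.nd (nat_lit 702) (nat_lit 1748) (nat_lit 0) (XT.nd (nat_lit 312) (nat_lit 988) (nat_lit 0) (XT.nd (nat_lit 156) (nat_lit 456) (nat_lit 0) (XT.nd (nat_lit 78) (nat_lit 304) (nat_lit 0) (XT.lf (nat_lit 76) (nat_lit 602474697) (nat_lit 0) (nat_lit 2623288037) (nat_lit 456) (nat_lit 602474697) (nat_lit 250) (nat_lit 1) (nat_lit 249) (nat_lit 1) (nat_lit 255) (nat_lit 1) (nat_lit 349) (nat_lit 359) (nat_lit 312)) (XT.lf (nat_lit 380) (nat_lit 418438287) (nat_lit 0) (nat_lit 1682423761) (nat_lit 304) (nat_lit 1682423761) (nat_lit 250) (nat_lit 1) (nat_lit 245) (nat_lit 1) (nat_lit 249) (nat_lit 1) (nat_lit 350) (nat_lit 359) (nat_lit 311))) (XT.nd (nat_lit 78) (nat_lit 0) (nat_lit 0) (XT.lf (nat_lit 456) (nat_lit 3393437212) (nat_lit 0) (nat_lit 172941548) (nat_lit 380) (nat_lit 172941548) (nat_lit 245) (nat_lit 1) (nat_lit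 239) (nat_lit 1) (nat_lit 244) (nat_lit 1) (nat_lit 351) (nat_lit 359) (nat_lit 310)) (XT.lf (nat_lit 76) (nat_lit 1291452268) (nat_lit 0) (nat_lit 1112635072) (nat_lit 456) (nat_lit 1291452268) (nat_lit 240) (nat_lit 1) (nat_lit 239) (nat_lit 1) (nat_lit 245) (nat_lit 1) (nat_lit 352) (nat_lit 359) (nat_lit 309)))) (XT.nd (nat_lit 156) (nat_lit 684) (nat_lit 0) (XT.nd (nat_lit 78) (nat_lit 0) (nat_lit 0) (XT.lf (nat_lit 380) (nat_lit 1785071421) (nat_lit 0) (nat_lit 933822469) (nat_lit 304) (nat_lit 933822469) (nat_lit 240) (nat_lit 1) (nat_lit 235) (nat_lit 1) (nat_lit 239) (nat_lit 1) (nat_lit 353) (nat_lit 359) (nat_lit 308)) (XT.lf (nat_lit 76) (nat_lit 496401094) (nat_lit 0) (nat_lit 2617823425) (nat_lit 380) (nat_lit 496401094) (nat_lit 236) (nat_lit 1) (nat_lit 235) (nat_lit 1) (nat_lit 240) (nat_lit 1) (nat_lit 354) (nat_lit 359) (nat_lit 307))) (XT.nd (nat_lit 78) (nat_lit 380) (nat_lit 0)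 (XT.lf (nat_lit 380) (nat_lit 197943825) (nat_lit 0) (nat_lit 1685534732) (nat_lit 304) (nat_lit 1685534732) (nat_lit 236) (nat_lit 1) (nat_lit 231) (nat_lit 1) (nat_lit 235) (nat_lit 1) (nat_lit 355) (nat_lit 359) (nat_lit 306)) (XT.nd (nat_lit 78) (nat_lit 0) (nat_lit 0) (XT.lf (nat_lit 380) (nat_lit 2958143345) (nat_lit 0) (nat_lit 285039409) (nat_lit 304) (nat_lit 285039409) (nat_lit 231) (nat_lit 1) (nat_lit 226) (nat_lit 1) (nat_lit 230) (nat_lit 1) (nat_lit 356) (nat_lit 359) (nat_lit 305)) (XT.lf (nat_lit 76) (nat_lit 1073646691) (nat_lit 0) (nat_lit 1340417262) (nat_lit 380) (nat_lit 1073646691) (nat_lit 227) (nat_lit 1) (nat_lit 226) (nat_lit 1) (nat_lit 231) (nat_lit 1) (nat_lit 357) (nat_lit 359) (nat_lit 304)))))) (XT.nd (nat_lit 390) (nat_lit 836) (nat_lit 0) (XT.nd (nat_lit 156) (nat_lit 608) (nat_lit 0) (XT.nd (nat_lit 78) (nat_lit 0) (nat_lit 0) (XT.lf (nat_lit 380) (nat_lit 1346919064)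 (nat_lit 0) (nat_lit 1050538625) (nat_lit 304) (nat_lit 1050538625) (nat_lit 227) (nat_lit 1) (nat_lit 222) (nat_lit 1) (nat_lit 226) (nat_lit 1) (nat_lit 358) (nat_lit 359) (nat_lit 303)) (XT.lf (nat_lit 76) (nat_lit 278260393) (nat_lit 0) (nat_lit 2852529504) (nat_lit 380) (nat_lit 278260393) (nat_lit 223) (nat_lit 1) (nat_lit 222) (nat_lit 1) (nat_lit 227) (nat_lit 1) (nat_lit 359) (nat_lit 359) (nat_lit 302))) (XT.nd (nat_lit 78) (nat_lit 304) (nat_lit 0) (XT.lf (nat_lit 76) (nat_lit 1568096663) (nat_lit 0) (nat_lit 234161877) (nat_lit 304) (nat_lit 1568096663) (nat_lit 219) (nat_lit 1) (nat_lit 218) (nat_lit 1) (nat_lit 222) (nat_lit 1) (nat_lit 360) (nat_lit 359) (nat_lit 301)) (XT.nd (nat_lit 78) (nat_lit 0) (nat_lit 0) (XT.lf (nat_lit 380) (nat_lit 2333660472) (nat_lit 0) (nat_lit 499373308) (nat_lit 304) (nat_lit 499373308) (nat_lit 219) (nat_lit 1) (nat_lit 214) (nat_lit 1) (nat_lit 218) (nat_lit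 1) (nat_lit 361) (nat_lit 359) (nat_lit 300)) (XT.lf (nat_lit 76) (nat_lit 765698406) (nat_lit 0) (nat_lit 1763494471) (nat_lit 380) (nat_lit 765698406) (nat_lit 215) (nat_lit 1) (nat_lit 214) (nat_lit 1) (nat_lit 219) (nat_lit 1) (nat_lit 362) (nat_lit 359) (nat_lit 299))))) (XT.nd (nat_lit 156) (nat_lit 228) (nat_lit 0) (XT.nd (nat_lit 78) (nat_lit 380) (nat_lit 0) (XT.lf (nat_lit 304) (nat_lit 735210894) (nat_lit 0) (nat_lit 1261376854) (nat_lit 228) (nat_lit 1261376854) (nat_lit 215) (nat_lit 1) (nat_lit 211) (nat_lit 1) (nat_lit 214) (nat_lit 1) (nat_lit 363) (nat_lit 359) (nat_lit 298)) (XT.lf (nat_lit 380) (nat_lit 3177252666) (nat_lit 0) (nat_lit 22311324) (nat_lit 304) (nat_lit 22311324) (nat_lit 211) (nat_lit 1) (nat_lit 206) (nat_lit 1) (nat_lit 210) (nat_lit 1) (nat_lit 364) (nat_lit 359) (nat_lit 297))) (XT.nd (nat_lit 78) (nat_lit 228) (nat_lit 0) (XT.lf (nat_lit 76) (nat_lit 1183679768)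 (nat_lit 0) (nat_lit 818355542) (nat_lit 380) (nat_lit 1183679768) (nat_lit 207) (nat_lit 1) (nat_lit 206) (nat_lit 1) (nat_lit 211) (nat_lit 1) (nat_lit 365) (nat_lit 359) (nat_lit 296)) (XT.nd (nat_lit 78) (nat_lit 0) (nat_lit 0) (XT.lf (nat_lit 304) (nat_lit 1573032433) (nat_lit 0) (nat_lit 788670968) (nat_lit 228) (nat_lit 788670968) (nat_lit 207) (nat_lit 1) (nat_lit 203) (nat_lit 1) (nat_lit 206) (nat_lit 1) (nat_lit 366) (nat_lit 359) (nat_lit 295)) (XT.lf (nat_lit 76) (nat_lit 393133246) (nat_lit 0) (nat_lit 2329342880) (nat_lit 304) (nat_lit 393133246) (nat_lit 204) (nat_lit 1) (nat_lit 203) (nat_lit 1) (nat_lit 207) (nat_lit 1) (nat_lit 367) (nat_lit 359) (nat_lit 294))))))) (XT.nd (nat_lit 702) (nat_lit 1216) (nat_lit 0) (XT.nd (nat_lit 312) (nat_lit 760) (nat_lit 0) (XT.nd (nat_lit 156) (nat_lit 228) (nat_lit 0) (XT.nd (nat_lit 78) (nat_lit 228) (nat_lit 0) (XT.lf (nat_lit 76) (nat_lit 1540389630)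 (nat_lit 0) (nat_lit 412421) (nat_lit 304) (nat_lit 1540389630) (nat_lit 200) (nat_lit 1) (nat_lit 199) (nat_lit 1) (nat_lit 203) (nat_lit 1) (nat_lit 368) (nat_lit 359) (nat_lit 293)) (XT.lf (nat_lit 304) (nat_lit 2290635522) (nat_lit 0) (nat_lit 378349154) (nat_lit 228) (nat_lit 378349154) (nat_lit 200) (nat_lit 1) (nat_lit 196) (nat_lit 1) (nat_lit 199) (nat_lit 1) (nat_lit 369) (nat_lit 359) (nat_lit 292))) (XT.nd (nat_lit 78) (nat_lit 228) (nat_lit 0) (XT.lf (nat_lit 76) (nat_lit 750413059) (nat_lit 0) (nat_lit 1512975440) (nat_lit 304) (nat_lit 750413059) (nat_lit 197) (nat_lit 1) (nat_lit 196) (nat_lit 1) (nat_lit 200) (nat_lit 1) (nat_lit 370) (nat_lit 359) (nat_lit 291)) (XT.lf (nat_lit 304) (nat_lit 719187782) (nat_lit 0) (nat_lit 1130813072) (nat_lit 228) (nat_lit 1130813072) (nat_lit 197) (nat_lit 1) (nat_lit 193) (nat_lit 1) (nat_lit 196) (nat_lit 1) (nat_lit 371) (nat_lit 359) (nat_lit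 290)))) (XT.nd (nat_lit 156) (nat_lit 456) (nat_lit 0) (XT.nd (nat_lit 78) (nat_lit 0) (nat_lit 0) (XT.lf (nat_lit 304) (nat_lit 2902206380) (nat_lit 0) (nat_lit 23173093) (nat_lit 228) (nat_lit 23173093) (nat_lit 193) (nat_lit 1) (nat_lit 189) (nat_lit 1) (nat_lit 192) (nat_lit 1) (nat_lit 372) (nat_lit 359) (nat_lit 289)) (XT.lf (nat_lit 76) (nat_lit 1056168461) (nat_lit 0) (nat_lit 803855646) (nat_lit 304) (nat_lit 1056168461) (nat_lit 190) (nat_lit 1) (nat_lit 189) (nat_lit 1) (nat_lit 193) (nat_lit 1) (nat_lit 373) (nat_lit 359) (nat_lit 288))) (XT.nd (nat_lit 78) (nat_lit 228) (nat_lit 0) (XT.lf (nat_lit 304) (nat_lit 1337592434) (nat_lit 0) (nat_lit 773476559) (nat_lit 228) (nat_lit 773476559) (nat_lit 190) (nat_lit 1) (nat_lit 186) (nat_lit 1) (nat_lit 189) (nat_lit 1) (nat_lit 374) (nat_lit 359) (nat_lit 287)) (XT.nd (nat_lit 78) (nat_lit 228) (nat_lit 0) (XT.lf (nat_lit 76) (nat_lit 286084914)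 (nat_lit 0) (nat_lit 2281264733) (nat_lit 304) (nat_lit 286084914) (nat_lit 187) (nat_lit 1) (nat_lit 186) (nat_lit 1) (nat_lit 190) (nat_lit 1) (nat_lit 375) (nat_lit 359) (nat_lit 286)) (XT.lf (nat_lit 76) (nat_lit 1316485374) (nat_lit 0) (nat_lit 189551800) (nat_lit 228) (nat_lit 1316485374) (nat_lit 184) (nat_lit 1) (nat_lit 183) (nat_lit 1) (nat_lit 186) (nat_lit 1) (nat_lit 376) (nat_lit 359) (nat_lit 285)))))) (XT.nd (nat_lit 390) (nat_lit 532) (nat_lit 0) (XT.nd (nat_lit 156) (nat_lit 456) (nat_lit 0) (XT.nd (nat_lit 78) (nat_lit 0) (nat_lit 0) (XT.lf (nat_lit 304) (nat_lit 1866689285) (nat_lit 0) (nat_lit 462722732) (nat_lit 228) (nat_lit 462722732) (nat_lit 184) (nat_lit 1) (nat_lit 180) (nat_lit 1) (nat_lit 183) (nat_lit 1) (nat_lit 377) (nat_lit 359) (nat_lit 284)) (XT.lf (nat_lit 76) (nat_lit 552122314) (nat_lit 0) (nat_lit 1657849090) (nat_lit 304) (nat_lit 552122314) (nat_lit 181) (nat_lit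 1) (nat_lit 180) (nat_lit 1) (nat_lit 184) (nat_lit 1) (nat_lit 378) (nat_lit 359) (nat_lit 283))) (XT.nd (nat_lit 78) (nat_lit 304) (nat_lit 0) (XT.lf (nat_lit 228) (nat_lit 347753674) (nat_lit 0) (nat_lit 1192350297) (nat_lit 152) (nat_lit 1192350297) (nat_lit 181) (nat_lit 1) (nat_lit 178) (nat_lit 1) (nat_lit 180) (nat_lit 1) (nat_lit 379) (nat_lit 359) (nat_lit 282)) (XT.nd (nat_lit 78) (nat_lit 0) (nat_lit 0) (XT.lf (nat_lit 304) (nat_lit 2317029964) (nat_lit 0) (nat_lit 193160850) (nat_lit 228) (nat_lit 193160850) (nat_lit 178) (nat_lit 1) (nat_lit 174) (nat_lit 1) (nat_lit 177) (nat_lit 1) (nat_lit 380) (nat_lit 359) (nat_lit 281)) (XT.lf (nat_lit 76) (nat_lit 779815246) (nat_lit 0) (nat_lit 1114700669) (nat_lit 304) (nat_lit 779815246) (nat_lit 175) (nat_lit 1) (nat_lit 174) (nat_lit 1) (nat_lit 178) (nat_lit 1) (nat_lit 381) (nat_lit 359) (nat_lit 280))))) (XT.nd (nat_lit 156) (nat_lit 380)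 (nat_lit 0) (XT.nd (nat_lit 78) (nat_lit 0) (nat_lit 0) (XT.lf (nat_lit 228) (nat_lit 813362762) (nat_lit 0) (nat_lit 916237426) (nat_lit 152) (nat_lit 916237426) (nat_lit 175) (nat_lit 1) (nat_lit 172) (nat_lit 1) (nat_lit 174) (nat_lit 1) (nat_lit 382) (nat_lit 359) (nat_lit 279)) (XT.lf (nat_lit 76) (nat_lit 40388944) (nat_lit 0) (nat_lit 2537161530) (nat_lit 228) (nat_lit 40388944) (nat_lit 173) (nat_lit 1) (nat_lit 172) (nat_lit 1) (nat_lit 175) (nat_lit 1) (nat_lit 383) (nat_lit 359) (nat_lit 278))) (XT.nd (nat_lit 78) (nat_lit 152) (nat_lit 0) (XT.lf (nat_lit 76) (nat_lit 973692368) (nat_lit 0) (nat_lit 642555579) (nat_lit 228) (nat_lit 973692368) (nat_lit 170) (nat_lit 1) (nat_lit 169) (nat_lit 1) (nat_lit 172) (nat_lit 1) (nat_lit 384) (nat_lit 359) (nat_lit 277)) (XT.nd (nat_lit 78) (nat_lit 0) (nat_lit 0) (XT.lf (nat_lit 228) (nat_lit 1212359489) (nat_lit 0) (nat_lit 675084144) (nat_lit 152)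 (nat_lit 675084144) (nat_lit 170) (nat_lit 1) (nat_lit 167) (nat_lit 1) (nat_lit 169) (nat_lit 1) (nat_lit 385) (nat_lit 359) (nat_lit 276)) (XT.lf (nat_lit 76) (nat_lit 243369591) (nat_lit 0) (nat_lit 2048824861) (nat_lit 228) (nat_lit 243369591) (nat_lit 168) (nat_lit 1) (nat_lit 167) (nat_lit 1) (nat_lit 170) (nat_lit 1) (nat_lit 386) (nat_lit 359) (nat_lit 275))))))))
noncomputable def ec119 : XT := (XT.nd (nat_lit 1482) (nat_lit 1748) (nat_lit 0) (XT.nd (nat_lit 702) (nat_lit 1064) (nat_lit 0) (XT.nd (nat_lit 312) (nat_lit 608) (nat_lit 0) (XT.nd (nat_lit 156) (nat_lit 152) (nat_lit 0) (XT.nd (nat_lit 78) (nat_lit 152) (nat_lit 0) (XT.lf (nat_lit 76) (nat_lit 1137769973) (nat_lit 0) (nat_lit 233192087) (nat_lit 228) (nat_lit 1137769973) (nat_lit 165) (nat_lit 1) (nat_lit 164) (nat_lit 1) (nat_lit 167) (nat_lit 1) (nat_lit 387) (nat_lit 359) (nat_lit 274)) (XT.lf (nat_lit 228) (nat_lit 1552599887)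 (nat_lit 0) (nat_lit 464870566) (nat_lit 152) (nat_lit 464870566) (nat_lit 165) (nat_lit 1) (nat_lit 162) (nat_lit 1) (nat_lit 164) (nat_lit 1) (nat_lit 388) (nat_lit 359) (nat_lit 273))) (XT.nd (nat_lit 78) (nat_lit 152) (nat_lit 0) (XT.lf (nat_lit 76) (nat_lit 417672029) (nat_lit 0) (nat_lit 1620926880) (nat_lit 228) (nat_lit 417672029) (nat_lit 163) (nat_lit 1) (nat_lit 162) (nat_lit 1) (nat_lit 165) (nat_lit 1) (nat_lit 389) (nat_lit 359) (nat_lit 272)) (XT.lf (nat_lit 228) (nat_lit 123087737) (nat_lit 0) (nat_lit 1153704793) (nat_lit 152) (nat_lit 1153704793) (nat_lit 163) (nat_lit 1) (nat_lit 160) (nat_lit 1) (nat_lit 162) (nat_lit 1) (nat_lit 390) (nat_lit 359) (nat_lit 271)))) (XT.nd (nat_lit 156) (nat_lit 380) (nat_lit 0) (XT.nd (nat_lit 78) (nat_lit 0) (nat_lit 0) (XT.lf (nat_lit 228) (nat_lit 1841051477) (nat_lit 0) (nat_lit 282028610) (nat_lit 152) (nat_lit 282028610) (nat_lit 160) (nat_lit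 1) (nat_lit 157) (nat_lit 1) (nat_lit 159) (nat_lit 1) (nat_lit 391) (nat_lit 359) (nat_lit 270)) (XT.lf (nat_lit 76) (nat_lit 566670265) (nat_lit 0) (nat_lit 1246553632) (nat_lit 228) (nat_lit 566670265) (nat_lit 158) (nat_lit 1) (nat_lit 157) (nat_lit 1) (nat_lit 160) (nat_lit 1) (nat_lit 392) (nat_lit 359) (nat_lit 269))) (XT.nd (nat_lit 78) (nat_lit 228) (nat_lit 0) (XT.lf (nat_lit 228) (nat_lit 434021411) (nat_lit 0) (nat_lit 960518334) (nat_lit 152) (nat_lit 960518334) (nat_lit 158) (nat_lit 1) (nat_lit 155) (nat_lit 1) (nat_lit 157) (nat_lit 1) (nat_lit 393) (nat_lit 359) (nat_lit 268)) (XT.nd (nat_lit 78) (nat_lit 0) (nat_lit 0) (XT.lf (nat_lit 228) (nat_lit 2083892709) (nat_lit 0) (nat_lit 123391517) (nat_lit 152) (nat_lit 123391517) (nat_lit 155) (nat_lit 1) (nat_lit 152) (nat_lit 1) (nat_lit 154) (nat_lit 1) (nat_lit 394) (nat_lit 359) (nat_lit 267)) (XT.lf (nat_lit 76) (nat_lit 693356936)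 (nat_lit 0) (nat_lit 919567237) (nat_lit 228) (nat_lit 693356936) (nat_lit 153) (nat_lit 1) (nat_lit 152) (nat_lit 1) (nat_lit 155) (nat_lit 1) (nat_lit 395) (nat_lit 359) (nat_lit 266)))))) (XT.nd (nat_lit 390) (nat_lit 608) (nat_lit 0) (XT.nd (nat_lit 156) (nat_lit 304) (nat_lit 0) (XT.nd (nat_lit 78) (nat_lit 0) (nat_lit 0) (XT.lf (nat_lit 228) (nat_lit 700825849) (nat_lit 0) (nat_lit 790754281) (nat_lit 152) (nat_lit 790754281) (nat_lit 153) (nat_lit 1) (nat_lit 150) (nat_lit 1) (nat_lit 152) (nat_lit 1) (nat_lit 396) (nat_lit 359) (nat_lit 265)) (XT.lf (nat_lit 76) (nat_lit 13988139) (nat_lit 0) (nat_lit 2230906812) (nat_lit 228) (nat_lit 13988139) (nat_lit 151) (nat_lit 1) (nat_lit 150) (nat_lit 1) (nat_lit 153) (nat_lit 1) (nat_lit 397) (nat_lit 359) (nat_lit 264))) (XT.nd (nat_lit 78) (nat_lit 152) (nat_lit 0) (XT.lf (nat_lit 76) (nat_lit 800385982) (nat_lit 0) (nat_lit 634519191) (nat_lit 152)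 (nat_lit 800385982) (nat_lit 149) (nat_lit 1) (nat_lit 148) (nat_lit 1) (nat_lit 150) (nat_lit 1) (nat_lit 398) (nat_lit 359) (nat_lit 263)) (XT.nd (nat_lit 78) (nat_lit 0) (nat_lit 0) (XT.lf (nat_lit 228) (nat_lit 928697455) (nat_lit 0) (nat_lit 641745988) (nat_lit 152) (nat_lit 641745988) (nat_lit 149) (nat_lit 1) (nat_lit 146) (nat_lit 1) (nat_lit 148) (nat_lit 1) (nat_lit 399) (nat_lit 359) (nat_lit 262)) (XT.lf (nat_lit 76) (nat_lit 133501453) (nat_lit 0) (nat_lit 1922489851) (nat_lit 228) (nat_lit 133501453) (nat_lit 147) (nat_lit 1) (nat_lit 146) (nat_lit 1) (nat_lit 149) (nat_lit 1) (nat_lit 400) (nat_lit 359) (nat_lit 261))))) (XT.nd (nat_lit 156) (nat_lit 304) (nat_lit 0) (XT.nd (nat_lit 78) (nat_lit 152) (nat_lit 0) (XT.lf (nat_lit 76) (nat_lit 890110564) (nat_lit 0) (nat_lit 386573356) (nat_lit 152) (nat_lit 890110564) (nat_lit 145) (nat_lit 1) (nat_lit 144) (nat_lit 1) (nat_lit 146) (nat_lit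 1) (nat_lit 401) (nat_lit 359) (nat_lit 260)) (XT.lf (nat_lit 228) (nat_lit 1122245140) (nat_lit 0) (nat_lit 511125767) (nat_lit 152) (nat_lit 511125767) (nat_lit 145) (nat_lit 1) (nat_lit 142) (nat_lit 1) (nat_lit 144) (nat_lit 1) (nat_lit 402) (nat_lit 359) (nat_lit 259))) (XT.nd (nat_lit 78) (nat_lit 304) (nat_lit 0) (XT.lf (nat_lit 76) (nat_lit 236161081) (nat_lit 0) (nat_lit 1650202519) (nat_lit 228) (nat_lit 236161081) (nat_lit 143) (nat_lit 1) (nat_lit 142) (nat_lit 1) (nat_lit 145) (nat_lit 1) (nat_lit 403) (nat_lit 359) (nat_lit 258)) (XT.nd (nat_lit 78) (nat_lit 152) (nat_lit 0) (XT.lf (nat_lit 76) (nat_lit 964616741) (nat_lit 0) (nat_lit 171437530) (nat_lit 152) (nat_lit 964616741) (nat_lit 141) (nat_lit 1) (nat_lit 140) (nat_lit 1) (nat_lit 142) (nat_lit 1) (nat_lit 404) (nat_lit 359) (nat_lit 257)) (XT.lf (nat_lit 228) (nat_lit 1285556077) (nat_lit 0) (nat_lit 396791505) (nat_lit 152) (nat_lit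 396791505) (nat_lit 141) (nat_lit 1) (nat_lit 138) (nat_lit 1) (nat_lit 140) (nat_lit 1) (nat_lit 405) (nat_lit 359) (nat_lit 256))))))) (XT.nd (nat_lit 702) (nat_lit 836) (nat_lit 0) (XT.nd (nat_lit 312) (nat_lit 608) (nat_lit 0) (XT.nd (nat_lit 156) (nat_lit 228) (nat_lit 0) (XT.nd (nat_lit 78) (nat_lit 76) (nat_lit 0) (XT.lf (nat_lit 76) (nat_lit 323949139) (nat_lit 0) (nat_lit 1409965300) (nat_lit 228) (nat_lit 323949139) (nat_lit 139) (nat_lit 1) (nat_lit 138) (nat_lit 1) (nat_lit 141) (nat_lit 1) (nat_lit 406) (nat_lit 359) (nat_lit 255)) (XT.lf (nat_lit 152) (nat_lit 14989849) (nat_lit 0) (nat_lit 1010907640) (nat_lit 76) (nat_lit 1010907640) (nat_lit 139) (nat_lit 1) (nat_lit 137) (nat_lit 1) (nat_lit 138) (nat_lit 1) (nat_lit 407) (nat_lit 359) (nat_lit 254))) (XT.nd (nat_lit 78) (nat_lit 0) (nat_lit 0) (XT.lf (nat_lit 228) (nat_lit 1422254104) (nat_lit 0) (nat_lit 296877008) (nat_lit 152)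 (nat_lit 296877008) (nat_lit 137) (nat_lit 1) (nat_lit 134) (nat_lit 1) (nat_lit 136) (nat_lit 1) (nat_lit 408) (nat_lit 359) (nat_lit 253)) (XT.lf (nat_lit 76) (nat_lit 398623719) (nat_lit 0) (nat_lit 1198155068) (nat_lit 228) (nat_lit 398623719) (nat_lit 135) (nat_lit 1) (nat_lit 134) (nat_lit 1) (nat_lit 137) (nat_lit 1) (nat_lit 409) (nat_lit 359) (nat_lit 252)))) (XT.nd (nat_lit 156) (nat_lit 304) (nat_lit 0) (XT.nd (nat_lit 78) (nat_lit 228) (nat_lit 0) (XT.lf (nat_lit 152) (nat_lit 178698230) (nat_lit 0) (nat_lit 898178344) (nat_lit 76) (nat_lit 898178344) (nat_lit 135) (nat_lit 1) (nat_lit 133) (nat_lit 1) (nat_lit 134) (nat_lit 1) (nat_lit 410) (nat_lit 359) (nat_lit 251)) (XT.lf (nat_lit 228) (nat_lit 1535551613) (nat_lit 0) (nat_lit 209725643) (nat_lit 152) (nat_lit 209725643) (nat_lit 133) (nat_lit 1) (nat_lit 130) (nat_lit 1) (nat_lit 132) (nat_lit 1) (nat_lit 411) (nat_lit 359) (nat_lit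 250))) (XT.nd (nat_lit 78) (nat_lit 304) (nat_lit 0) (XT.lf (nat_lit 76) (nat_lit 461743957) (nat_lit 0) (nat_lit 1011554153) (nat_lit 228) (nat_lit 461743957) (nat_lit 131) (nat_lit 1) (nat_lit 130) (nat_lit 1) (nat_lit 133) (nat_lit 1) (nat_lit 412) (nat_lit 359) (nat_lit 249)) (XT.nd (nat_lit 78) (nat_lit 228) (nat_lit 0) (XT.lf (nat_lit 152) (nat_lit 319334115) (nat_lit 0) (nat_lit 798019826) (nat_lit 76) (nat_lit 798019826) (nat_lit 131) (nat_lit 1) (nat_lit 129) (nat_lit 1) (nat_lit 130) (nat_lit 1) (nat_lit 413) (nat_lit 359) (nat_lit 248)) (XT.lf (nat_lit 228) (nat_lit 1628295645) (nat_lit 0) (nat_lit 133866931) (nat_lit 152) (nat_lit 133866931) (nat_lit 129) (nat_lit 1) (nat_lit 126) (nat_lit 1) (nat_lit 128) (nat_lit 1) (nat_lit 414) (nat_lit 359) (nat_lit 247)))))) (XT.nd (nat_lit 390) (nat_lit 456) (nat_lit 0) (XT.nd (nat_lit 156) (nat_lit 304) (nat_lit 0) (XT.nd (nat_lit 78) (nat_lit 76)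 (nat_lit 0) (XT.lf (nat_lit 76) (nat_lit 514692307) (nat_lit 0) (nat_lit 847305087) (nat_lit 228) (nat_lit 514692307) (nat_lit 127) (nat_lit 1) (nat_lit 126) (nat_lit 1) (nat_lit 129) (nat_lit 1) (nat_lit 415) (nat_lit 359) (nat_lit 246)) (XT.lf (nat_lit 152) (nat_lit 439610684) (nat_lit 0) (nat_lit 709030279) (nat_lit 76) (nat_lit 709030279) (nat_lit 127) (nat_lit 1) (nat_lit 125) (nat_lit 1) (nat_lit 126) (nat_lit 1) (nat_lit 416) (nat_lit 359) (nat_lit 245))) (XT.nd (nat_lit 78) (nat_lit 76) (nat_lit 0) (XT.lf (nat_lit 228) (nat_lit 1703008838) (nat_lit 0) (nat_lit 67995748) (nat_lit 152) (nat_lit 67995748) (nat_lit 125) (nat_lit 1) (nat_lit 122) (nat_lit 1) (nat_lit 124) (nat_lit 1) (nat_lit 417) (nat_lit 359) (nat_lit 244)) (XT.nd (nat_lit 78) (nat_lit 76) (nat_lit 0) (XT.lf (nat_lit 76) (nat_lit 558694325) (nat_lit 0) (nat_lit 702870395) (nat_lit 228) (nat_lit 558694325) (nat_lit 123) (nat_lit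 1) (nat_lit 122) (nat_lit 1) (nat_lit 125) (nat_lit 1) (nat_lit 418) (nat_lit 359) (nat_lit 243)) (XT.lf (nat_lit 152) (nat_lit 541934475) (nat_lit 0) (nat_lit 629964219) (nat_lit 76) (nat_lit 629964219) (nat_lit 123) (nat_lit 1) (nat_lit 121) (nat_lit 1) (nat_lit 122) (nat_lit 1) (nat_lit 419) (nat_lit 359) (nat_lit 242))))) (XT.nd (nat_lit 156) (nat_lit 228) (nat_lit 0) (XT.nd (nat_lit 78) (nat_lit 0) (nat_lit 0) (XT.lf (nat_lit 228) (nat_lit 1761925807) (nat_lit 0) (nat_lit 10953839) (nat_lit 152) (nat_lit 10953839) (nat_lit 121) (nat_lit 1) (nat_lit 118) (nat_lit 1) (nat_lit 120) (nat_lit 1) (nat_lit 420) (nat_lit 359) (nat_lit 241)) (XT.lf (nat_lit 76) (nat_lit 594836240) (nat_lit 0) (nat_lit 575996873) (nat_lit 228) (nat_lit 594836240) (nat_lit 119) (nat_lit 1) (nat_lit 118) (nat_lit 1) (nat_lit 121) (nat_lit 1) (nat_lit 421) (nat_lit 359) (nat_lit 240))) (XT.nd (nat_lit 78) (nat_lit 152) (nat_lit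 0) (XT.lf (nat_lit 152) (nat_lit 628439699) (nat_lit 0) (nat_lit 559715050) (nat_lit 76) (nat_lit 559715050) (nat_lit 119) (nat_lit 1) (nat_lit 117) (nat_lit 1) (nat_lit 118) (nat_lit 1) (nat_lit 422) (nat_lit 359) (nat_lit 239)) (XT.nd (nat_lit 78) (nat_lit 152) (nat_lit 0) (XT.lf (nat_lit 0) (nat_lit 38665664) (nat_lit 0) (nat_lit 1653076120) (nat_lit 152) (nat_lit 38665664) (nat_lit 117) (nat_lit 3) (nat_lit 117) (nat_lit 1) (nat_lit 119) (nat_lit 1) (nat_lit 423) (nat_lit 359) (nat_lit 238)) (XT.lf (nat_lit 76) (nat_lit 624080576) (nat_lit 0) (nat_lit 464683850) (nat_lit 152) (nat_lit 624080576) (nat_lit 116) (nat_lit 1) (nat_lit 115) (nat_lit 1) (nat_lit 117) (nat_lit 1) (nat_lit 424) (nat_lit 359) (nat_lit 237))))))))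
noncomputable def ec120 : XT := (XT.nd (nat_lit 43914) (nat_lit 0) (nat_lit 16492) (XT.nd (nat_lit 702) (nat_lit 76) (nat_lit 0) (XT.nd (nat_lit 312) (nat_lit 380) (nat_lit 0) (XT.nd (nat_lit 156) (nat_lit 228) (nat_lit 0) (XT.nd (nat_lit 78) (nat_lit 0) (nat_lit 0) (XT.lf (nat_lit 152) (nat_lit 701018726) (nat_lit 0) (nat_lit 497299572) (nat_lit 76) (nat_lit 497299572) (nat_lit 116) (nat_lit 1) (nat_lit 114) (nat_lit 1) (nat_lit 115) (nat_lit 1) (nat_lit 425) (nat_lit 359) (nat_lit 236)) (XT.lf (nat_lit 0) (nat_lit 81435853) (nat_lit 0) (nat_lit 1515818634) (nat_lit 152) (nat_lit 81435853) (nat_lit 114) (nat_lit 3) (nat_lit 114) (nat_lit 1) (nat_lit 116) (nat_lit 1) (nat_lit 426) (nat_lit 359) (nat_lit 235))) (XT.nd (nat_lit 78) (nat_lit 76) (nat_lit 0) (XT.lf (nat_lit 76) (nat_lit 647280014) (nat_lit 0) (nat_lit 367154988) (nat_lit 152) (nat_lit 647280014) (nat_lit 113) (nat_lit 1) (nat_lit 112) (nat_lit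 1) (nat_lit 114) (nat_lit 1) (nat_lit 427) (nat_lit 359) (nat_lit 234)) (XT.lf (nat_lit 152) (nat_lit 761349157) (nat_lit 0) (nat_lit 441844229) (nat_lit 76) (nat_lit 441844229) (nat_lit 113) (nat_lit 1) (nat_lit 111) (nat_lit 1) (nat_lit 112) (nat_lit 1) (nat_lit 428) (nat_lit 359) (nat_lit 233)))) (XT.nd (nat_lit 156) (nat_lit 228) (nat_lit 0) (XT.nd (nat_lit 78) (nat_lit 152) (nat_lit 0) (XT.lf (nat_lit 0) (nat_lit 118065295) (nat_lit 0) (nat_lit 1392495817) (nat_lit 152) (nat_lit 118065295) (nat_lit 111) (nat_lit 3) (nat_lit 111) (nat_lit 1) (nat_lit 113) (nat_lit 1) (nat_lit 429) (nat_lit 359) (nat_lit 232)) (XT.lf (nat_lit 76) (nat_lit 665189720) (nat_lit 0) (nat_lit 281833234) (nat_lit 152) (nat_lit 665189720) (nat_lit 110) (nat_lit 1) (nat_lit 109) (nat_lit 1) (nat_lit 111) (nat_lit 1) (nat_lit 430) (nat_lit 359) (nat_lit 231))) (XT.nd (nat_lit 78) (nat_lit 152) (nat_lit 0) (XT.lf (nat_lit 152)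 (nat_lit 810917893) (nat_lit 0) (nat_lit 392572874) (nat_lit 76) (nat_lit 392572874) (nat_lit 110) (nat_lit 1) (nat_lit 108) (nat_lit 1) (nat_lit 109) (nat_lit 1) (nat_lit 431) (nat_lit 359) (nat_lit 230)) (XT.nd (nat_lit 78) (nat_lit 152) (nat_lit 0) (XT.lf (nat_lit 0) (nat_lit 149278702) (nat_lit 0) (nat_lit 1281593715) (nat_lit 152) (nat_lit 149278702) (nat_lit 108) (nat_lit 3) (nat_lit 108) (nat_lit 1) (nat_lit 110) (nat_lit 1) (nat_lit 432) (nat_lit 359) (nat_lit 229)) (XT.lf (nat_lit 76) (nat_lit 678478286) (nat_lit 0) (nat_lit 207318560) (nat_lit 152) (nat_lit 678478286) (nat_lit 107) (nat_lit 1) (nat_lit 106) (nat_lit 1) (nat_lit 108) (nat_lit 1) (nat_lit 433) (nat_lit 359) (nat_lit 228)))))) (XT.nd (nat_lit 42822) (nat_lit 0) (nat_lit 20520) (XT.nd (nat_lit 42666) (nat_lit 0) (nat_lit 20444) (XT.nd (nat_lit 78) (nat_lit 0) (nat_lit 0) (XT.lf (nat_lit 152) (nat_lit 851042500) (nat_lit 0) (nat_lit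 348795914) (nat_lit 76) (nat_lit 348795914) (nat_lit 107) (nat_lit 1) (nat_lit 105) (nat_lit 1) (nat_lit 106) (nat_lit 1) (nat_lit 434) (nat_lit 359) (nat_lit 227)) (XT.lf (nat_lit 0) (nat_lit 175718812) (nat_lit 0) (nat_lit 1181766035) (nat_lit 152) (nat_lit 175718812) (nat_lit 105) (nat_lit 3) (nat_lit 105) (nat_lit 1) (nat_lit 107) (nat_lit 1) (nat_lit 435) (nat_lit 359) (nat_lit 226))) (XT.nd (nat_lit 78) (nat_lit 0) (nat_lit 0) (XT.lf (nat_lit 1292) (nat_lit 673611001) (nat_lit 0) (nat_lit 2317535120) (nat_lit 1292) (nat_lit 673611001) (nat_lit 391) (nat_lit 1) (nat_lit 374) (nat_lit 0) (nat_lit 391) (nat_lit 0) (nat_lit 300) (nat_lit 360) (nat_lit 360)) (XT.lf (nat_lit 1292) (nat_lit 2632483597) (nat_lit 76) (nat_lit 2294814188) (nat_lit 0) (nat_lit 2294814188) (nat_lit 391) (nat_lit 1) (nat_lit 375) (nat_lit 1) (nat_lit 374) (nat_lit 0) (nat_lit 301) (nat_lit 360) (nat_lit 359)))) (XT.nd (nat_lit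 156) (nat_lit 0) (nat_lit 76) (XT.nd (nat_lit 78) (nat_lit 0) (nat_lit 0) (XT.lf (nat_lit 1292) (nat_lit 1273131833) (nat_lit 0) (nat_lit 4570815103) (nat_lit 1216) (nat_lit 1273131833) (nat_lit 392) (nat_lit 1) (nat_lit 375) (nat_lit 1) (nat_lit 391) (nat_lit 1) (nat_lit 302) (nat_lit 360) (nat_lit 358)) (XT.lf (nat_lit 1292) (nat_lit 2417743084) (nat_lit 76) (nat_lit 2298028250) (nat_lit 0) (nat_lit 2298028250) (nat_lit 392) (nat_lit 1) (nat_lit 376) (nat_lit 1) (nat_lit 375) (nat_lit 1) (nat_lit 303) (nat_lit 360) (nat_lit 357))) (XT.nd (nat_lit 78) (nat_lit 0) (nat_lit 0) (XT.lf (nat_lit 1292) (nat_lit 1134513884) (nat_lit 0) (nat_lit 4643803538) (nat_lit 1216) (nat_lit 1134513884) (nat_lit 393) (nat_lit 1) (nat_lit 376) (nat_lit 1) (nat_lit 392) (nat_lit 1) (nat_lit 304) (nat_lit 360) (nat_lit 356)) (XT.nd (nat_lit 78) (nat_lit 0) (nat_lit 76) (XT.lf (nat_lit 1292) (nat_lit 2079116481) (nat_lit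 76) (nat_lit 2367180663) (nat_lit 0) (nat_lit 2367180663) (nat_lit 393) (nat_lit 1) (nat_lit 377) (nat_lit 1) (nat_lit 376) (nat_lit 1) (nat_lit 305) (nat_lit 360) (nat_lit 355)) (XT.lf (nat_lit 1292) (nat_lit 937075639) (nat_lit 0) (nat_lit 4842267250) (nat_lit 1216) (nat_lit 937075639) (nat_lit 394) (nat_lit 1) (nat_lit 377) (nat_lit 1) (nat_lit 393) (nat_lit 1) (nat_lit 306) (nat_lit 360) (nat_lit 354))))))) (XT.nd (nat_lit 702) (nat_lit 3116) (nat_lit 0) (XT.nd (nat_lit 312) (nat_lit 1064) (nat_lit 0) (XT.nd (nat_lit 156) (nat_lit 0) (nat_lit 76) (XT.nd (nat_lit 78) (nat_lit 0) (nat_lit 76) (XT.lf (nat_lit 1292) (nat_lit 1627682729) (nat_lit 76) (nat_lit 2496560388) (nat_lit 0) (nat_lit 2496560388) (nat_lit 394) (nat_lit 1) (nat_lit 378) (nat_lit 1) (nat_lit 377) (nat_lit 1) (nat_lit 307) (nat_lit 360) (nat_lit 353)) (XT.lf (nat_lit 1292) (nat_lit 686138602) (nat_lit 0) (nat_lit 5155226792) (nat_lit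 1216) (nat_lit 686138602) (nat_lit 395) (nat_lit 1) (nat_lit 378) (nat_lit 1) (nat_lit 394) (nat_lit 1) (nat_lit 308) (nat_lit 360) (nat_lit 352))) (XT.nd (nat_lit 78) (nat_lit 0) (nat_lit 76) (XT.lf (nat_lit 1292) (nat_lit 1073769236) (nat_lit 76) (nat_lit 2680840316) (nat_lit 0) (nat_lit 2680840316) (nat_lit 395) (nat_lit 1) (nat_lit 379) (nat_lit 1) (nat_lit 378) (nat_lit 1) (nat_lit 309) (nat_lit 360) (nat_lit 351)) (XT.lf (nat_lit 1292) (nat_lit 386662148) (nat_lit 0) (nat_lit 5572442980) (nat_lit 1216) (nat_lit 386662148) (nat_lit 396) (nat_lit 1) (nat_lit 379) (nat_lit 1) (nat_lit 395) (nat_lit 1) (nat_lit 310) (nat_lit 360) (nat_lit 350)))) (XT.nd (nat_lit 156) (nat_lit 1216) (nat_lit 0) (XT.nd (nat_lit 78) (nat_lit 0) (nat_lit 76) (XT.lf (nat_lit 1292) (nat_lit 426998385) (nat_lit 76) (nat_lit 2915053597) (nat_lit 0) (nat_lit 2915053597) (nat_lit 396) (nat_lit 1) (nat_lit 380) (nat_lit 1) (nat_lit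 379) (nat_lit 1) (nat_lit 311) (nat_lit 360) (nat_lit 349)) (XT.lf (nat_lit 1292) (nat_lit 43265965) (nat_lit 0) (nat_lit 6084371197) (nat_lit 1216) (nat_lit 43265965) (nat_lit 397) (nat_lit 1) (nat_lit 380) (nat_lit 1) (nat_lit 396) (nat_lit 1) (nat_lit 312) (nat_lit 360) (nat_lit 348))) (XT.nd (nat_lit 78) (nat_lit 0) (nat_lit 0) (XT.lf (nat_lit 1368) (nat_lit 2893821701) (nat_lit 0) (nat_lit 297743052) (nat_lit 1292) (nat_lit 2893821701) (nat_lit 381) (nat_lit 1) (nat_lit 363) (nat_lit 1) (nat_lit 380) (nat_lit 1) (nat_lit 313) (nat_lit 360) (nat_lit 347)) (XT.nd (nat_lit 78) (nat_lit 0) (nat_lit 76) (XT.lf (nat_lit 1368) (nat_lit 5329390894) (nat_lit 76) (nat_lit 336417973) (nat_lit 0) (nat_lit 336417973) (nat_lit 381) (nat_lit 1) (nat_lit 364) (nat_lit 1) (nat_lit 363) (nat_lit 1) (nat_lit 314) (nat_lit 360) (nat_lit 346)) (XT.lf (nat_lit 1368) (nat_lit 2415859649) (nat_lit 0) (nat_lit 1088233170)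 (nat_lit 1292) (nat_lit 2415859649) (nat_lit 382) (nat_lit 1) (nat_lit 364) (nat_lit 1) (nat_lit 381) (nat_lit 1) (nat_lit 315) (nat_lit 360) (nat_lit 345)))))) (XT.nd (nat_lit 390) (nat_lit 1824) (nat_lit 0) (XT.nd (nat_lit 156) (nat_lit 1368) (nat_lit 0) (XT.nd (nat_lit 78) (nat_lit 0) (nat_lit 76) (XT.lf (nat_lit 1368) (nat_lit 4337874041) (nat_lit 76) (nat_lit 750944826) (nat_lit 0) (nat_lit 750944826) (nat_lit 382) (nat_lit 1) (nat_lit 365) (nat_lit 1) (nat_lit 364) (nat_lit 1) (nat_lit 316) (nat_lit 360) (nat_lit 344)) (XT.lf (nat_lit 76) (nat_lit 1907731688) (nat_lit 0) (nat_lit 1945196186) (nat_lit 1292) (nat_lit 1907731688) (nat_lit 366) (nat_lit 1) (nat_lit 365) (nat_lit 1) (nat_lit 382) (nat_lit 1) (nat_lit 317) (nat_lit 360) (nat_lit 343))) (XT.nd (nat_lit 78) (nat_lit 608) (nat_lit 0) (XT.lf (nat_lit 912) (nat_lit 3289198007) (nat_lit 0) (nat_lit 1197052988) (nat_lit 836) (nat_lit 1197052988)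 (nat_lit 366) (nat_lit 1) (nat_lit 354) (nat_lit 1) (nat_lit 365) (nat_lit 1) (nat_lit 318) (nat_lit 360) (nat_lit 342)) (XT.nd (nat_lit 78) (nat_lit 608) (nat_lit 0) (XT.lf (nat_lit 76) (nat_lit 1372847218) (nat_lit 0) (nat_lit 2861558509) (nat_lit 912) (nat_lit 1372847218) (nat_lit 355) (nat_lit 1) (nat_lit 354) (nat_lit 1) (nat_lit 366) (nat_lit 1) (nat_lit 319) (nat_lit 360) (nat_lit 341)) (XT.lf (nat_lit 684) (nat_lit 2189966573) (nat_lit 0) (nat_lit 1671316646) (nat_lit 608) (nat_lit 1671316646) (nat_lit 355) (nat_lit 1) (nat_lit 346) (nat_lit 1) (nat_lit 354) (nat_lit 1) (nat_lit 320) (nat_lit 360) (nat_lit 340))))) (XT.nd (nat_lit 156) (nat_lit 1216) (nat_lit 0) (XT.nd (nat_lit 78) (nat_lit 608) (nat_lit 0) (XT.lf (nat_lit 76) (nat_lit 814371060) (nat_lit 0) (nat_lit 3830747488) (nat_lit 684) (nat_lit 814371060) (nat_lit 347) (nat_lit 1) (nat_lit 346) (nat_lit 1) (nat_lit 355) (nat_lit 1) (nat_lit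 321) (nat_lit 360) (nat_lit 339)) (XT.lf (nat_lit 684) (nat_lit 1046307664) (nat_lit 0) (nat_lit 2170553619) (nat_lit 608) (nat_lit 2170553619) (nat_lit 347) (nat_lit 1) (nat_lit 338) (nat_lit 1) (nat_lit 346) (nat_lit 1) (nat_lit 322) (nat_lit 360) (nat_lit 338))) (XT.nd (nat_lit 78) (nat_lit 1216) (nat_lit 0) (XT.lf (nat_lit 76) (nat_lit 235238917) (nat_lit 0) (nat_lit 4846659891) (nat_lit 684) (nat_lit 235238917) (nat_lit 339) (nat_lit 1) (nat_lit 338) (nat_lit 1) (nat_lit 347) (nat_lit 1) (nat_lit 323) (nat_lit 360) (nat_lit 337)) (XT.nd (nat_lit 78) (nat_lit 608) (nat_lit 0) (XT.lf (nat_lit 76) (nat_lit 2557021725) (nat_lit 0) (nat_lit 133440790) (nat_lit 608) (nat_lit 2557021725) (nat_lit 331) (nat_lit 1) (nat_lit 330) (nat_lit 1) (nat_lit 338) (nat_lit 1) (nat_lit 324) (nat_lit 360) (nat_lit 336)) (XT.lf (nat_lit 684) (nat_lit 4462995107) (nat_lit 0) (nat_lit 358280755) (nat_lit 608) (nat_lit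 358280755) (nat_lit 331) (nat_lit 1) (nat_lit 322) (nat_lit 1) (nat_lit 330) (nat_lit 1) (nat_lit 325) (nat_lit 360) (nat_lit 335))))))))
noncomputable def ec121 : XT := (XT.nd (nat_lit 1482) (nat_lit 3648) (nat_lit 0) (XT.nd (nat_lit 702) (nat_lit 2584) (nat_lit 0) (XT.nd (nat_lit 312) (nat_lit 1520) (nat_lit 0) (XT.nd (nat_lit 156) (nat_lit 532) (nat_lit 0) (XT.nd (nat_lit 78) (nat_lit 532) (nat_lit 0) (XT.lf (nat_lit 76) (nat_lit 1893360633) (nat_lit 0) (nat_lit 1325599170) (nat_lit 684) (nat_lit 1893360633) (nat_lit 323) (nat_lit 1) (nat_lit 322) (nat_lit 1) (nat_lit 331) (nat_lit 1) (nat_lit 326) (nat_lit 360) (nat_lit 334)) (XT.lf (nat_lit 608) (nat_lit 3117148651) (nat_lit 0) (nat_lit 964757707) (nat_lit 532) (nat_lit 964757707) (nat_lit 323) (nat_lit 1) (nat_lit 315) (nat_lit 1) (nat_lit 322) (nat_lit 1) (nat_lit 327) (nat_lit 360) (nat_lit 333))) (XT.nd (nat_lit 78) (nat_lit 532) (nat_lit 0)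 (XT.lf (nat_lit 76) (nat_lit 1218107646) (nat_lit 0) (nat_lit 2545805803) (nat_lit 608) (nat_lit 1218107646) (nat_lit 316) (nat_lit 1) (nat_lit 315) (nat_lit 1) (nat_lit 323) (nat_lit 1) (nat_lit 328) (nat_lit 360) (nat_lit 332)) (XT.lf (nat_lit 608) (nat_lit 1750156065) (nat_lit 0) (nat_lit 1584188955) (nat_lit 532) (nat_lit 1584188955) (nat_lit 316) (nat_lit 1) (nat_lit 308) (nat_lit 1) (nat_lit 315) (nat_lit 1) (nat_lit 329) (nat_lit 360) (nat_lit 331)))) (XT.nd (nat_lit 156) (nat_lit 1064) (nat_lit 0) (XT.nd (nat_lit 78) (nat_lit 456) (nat_lit 0) (XT.lf (nat_lit 76) (nat_lit 533375433) (nat_lit 0) (nat_lit 3789640420) (nat_lit 608) (nat_lit 533375433) (nat_lit 309) (nat_lit 1) (nat_lit 308) (nat_lit 1) (nat_lit 316) (nat_lit 1) (nat_lit 330) (nat_lit 360) (nat_lit 330)) (XT.lf (nat_lit 532) (nat_lit 366097337) (nat_lit 0) (nat_lit 2214439553) (nat_lit 456) (nat_lit 2214439553) (nat_lit 309) (nat_lit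 1) (nat_lit 302) (nat_lit 1) (nat_lit 308) (nat_lit 1) (nat_lit 331) (nat_lit 360) (nat_lit 329))) (XT.nd (nat_lit 78) (nat_lit 456) (nat_lit 0) (XT.lf (nat_lit 608) (nat_lit 4420402496) (nat_lit 0) (nat_lit 157329053) (nat_lit 532) (nat_lit 157329053) (nat_lit 302) (nat_lit 1) (nat_lit 294) (nat_lit 1) (nat_lit 301) (nat_lit 1) (nat_lit 332) (nat_lit 360) (nat_lit 328)) (XT.nd (nat_lit 78) (nat_lit 456) (nat_lit 0) (XT.lf (nat_lit 76) (nat_lit 1832185552) (nat_lit 0) (nat_lit 1011141533) (nat_lit 608) (nat_lit 1832185552) (nat_lit 295) (nat_lit 1) (nat_lit 294) (nat_lit 1) (nat_lit 302) (nat_lit 1) (nat_lit 333) (nat_lit 360) (nat_lit 327)) (XT.lf (nat_lit 532) (nat_lit 2920446891) (nat_lit 0) (nat_lit 848481727) (nat_lit 456) (nat_lit 848481727) (nat_lit 295) (nat_lit 1) (nat_lit 288) (nat_lit 1) (nat_lit 294) (nat_lit 1) (nat_lit 334) (nat_lit 360) (nat_lit 326)))))) (XT.nd (nat_lit 390) (nat_lit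 1216) (nat_lit 0) (XT.nd (nat_lit 156) (nat_lit 912) (nat_lit 0) (XT.nd (nat_lit 78) (nat_lit 456) (nat_lit 0) (XT.lf (nat_lit 76) (nat_lit 1084637529) (nat_lit 0) (nat_lit 2390883101) (nat_lit 532) (nat_lit 1084637529) (nat_lit 289) (nat_lit 1) (nat_lit 288) (nat_lit 1) (nat_lit 295) (nat_lit 1) (nat_lit 335) (nat_lit 360) (nat_lit 325)) (XT.lf (nat_lit 532) (nat_lit 1416541986) (nat_lit 0) (nat_lit 1543674403) (nat_lit 456) (nat_lit 1543674403) (nat_lit 289) (nat_lit 1) (nat_lit 282) (nat_lit 1) (nat_lit 288) (nat_lit 1) (nat_lit 336) (nat_lit 360) (nat_lit 324))) (XT.nd (nat_lit 78) (nat_lit 912) (nat_lit 0) (XT.lf (nat_lit 76) (nat_lit 335854005) (nat_lit 0) (nat_lit 3777145772) (nat_lit 532) (nat_lit 335854005) (nat_lit 283) (nat_lit 1) (nat_lit 282) (nat_lit 1) (nat_lit 289) (nat_lit 1) (nat_lit 337) (nat_lit 360) (nat_lit 323)) (XT.nd (nat_lit 78) (nat_lit 456) (nat_lit 0) (XT.lf (nat_lit 76)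 (nat_lit 2153789662) (nat_lit 0) (nat_lit 86736388) (nat_lit 456) (nat_lit 2153789662) (nat_lit 277) (nat_lit 1) (nat_lit 276) (nat_lit 1) (nat_lit 282) (nat_lit 1) (nat_lit 338) (nat_lit 360) (nat_lit 322)) (XT.lf (nat_lit 532) (nat_lit 3523441139) (nat_lit 0) (nat_lit 408761098) (nat_lit 456) (nat_lit 408761098) (nat_lit 277) (nat_lit 1) (nat_lit 270) (nat_lit 1) (nat_lit 276) (nat_lit 1) (nat_lit 339) (nat_lit 360) (nat_lit 321))))) (XT.nd (nat_lit 156) (nat_lit 836) (nat_lit 0) (XT.nd (nat_lit 78) (nat_lit 380) (nat_lit 0) (XT.lf (nat_lit 76) (nat_lit 1363628186) (nat_lit 0) (nat_lit 1560892454) (nat_lit 532) (nat_lit 1363628186) (nat_lit 271) (nat_lit 1) (nat_lit 270) (nat_lit 1) (nat_lit 277) (nat_lit 1) (nat_lit 340) (nat_lit 360) (nat_lit 320)) (XT.lf (nat_lit 456) (nat_lit 1938958588) (nat_lit 0) (nat_lit 1148734151) (nat_lit 380) (nat_lit 1148734151) (nat_lit 271) (nat_lit 1) (nat_lit 265)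 (nat_lit 1) (nat_lit 270) (nat_lit 1) (nat_lit 341) (nat_lit 360) (nat_lit 319))) (XT.nd (nat_lit 78) (nat_lit 836) (nat_lit 0) (XT.lf (nat_lit 76) (nat_lit 577211661) (nat_lit 0) (nat_lit 3031228942) (nat_lit 456) (nat_lit 577211661) (nat_lit 266) (nat_lit 1) (nat_lit 265) (nat_lit 1) (nat_lit 271) (nat_lit 1) (nat_lit 342) (nat_lit 360) (nat_lit 318)) (XT.nd (nat_lit 78) (nat_lit 456) (nat_lit 0) (XT.lf (nat_lit 456) (nat_lit 363020668) (nat_lit 0) (nat_lit 1886235136) (nat_lit 380) (nat_lit 1886235136) (nat_lit 266) (nat_lit 1) (nat_lit 260) (nat_lit 1) (nat_lit 265) (nat_lit 1) (nat_lit 343) (nat_lit 360) (nat_lit 317)) (XT.lf (nat_lit 456) (nat_lit 3681532284) (nat_lit 0) (nat_lit 202458306) (nat_lit 380) (nat_lit 202458306) (nat_lit 260) (nat_lit 1) (nat_lit 254) (nat_lit 1) (nat_lit 259) (nat_lit 1) (nat_lit 344) (nat_lit 360) (nat_lit 316))))))) (XT.nd (nat_lit 702) (nat_lit 1900) (nat_lit 0)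 (XT.nd (nat_lit 312) (nat_lit 1064) (nat_lit 0) (XT.nd (nat_lit 156) (nat_lit 304) (nat_lit 0) (XT.nd (nat_lit 78) (nat_lit 380) (nat_lit 0) (XT.lf (nat_lit 76) (nat_lit 1429336768) (nat_lit 0) (nat_lit 1178998412) (nat_lit 456) (nat_lit 1429336768) (nat_lit 255) (nat_lit 1) (nat_lit 254) (nat_lit 1) (nat_lit 260) (nat_lit 1) (nat_lit 345) (nat_lit 360) (nat_lit 315)) (XT.lf (nat_lit 456) (nat_lit 2048222741) (nat_lit 0) (nat_lit 970878142) (nat_lit 380) (nat_lit 970878142) (nat_lit 255) (nat_lit 1) (nat_lit 249) (nat_lit 1) (nat_lit 254) (nat_lit 1) (nat_lit 346) (nat_lit 360) (nat_lit 314))) (XT.nd (nat_lit 78) (nat_lit 304) (nat_lit 0) (XT.lf (nat_lit 76) (nat_lit 620548938) (nat_lit 0) (nat_lit 2701986678) (nat_lit 456) (nat_lit 620548938) (nat_lit 250) (nat_lit 1) (nat_lit 249) (nat_lit 1) (nat_lit 255) (nat_lit 1) (nat_lit 347) (nat_lit 360) (nat_lit 313)) (XT.lf (nat_lit 380) (nat_lit 430991436)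 (nat_lit 0) (nat_lit 1732896474) (nat_lit 304) (nat_lit 1732896474) (nat_lit 250) (nat_lit 1) (nat_lit 245) (nat_lit 1) (nat_lit 249) (nat_lit 1) (nat_lit 348) (nat_lit 360) (nat_lit 312)))) (XT.nd (nat_lit 156) (nat_lit 608) (nat_lit 0) (XT.nd (nat_lit 78) (nat_lit 0) (nat_lit 0) (XT.lf (nat_lit 456) (nat_lit 3495240328) (nat_lit 0) (nat_lit 178129795) (nat_lit 380) (nat_lit 178129795) (nat_lit 245) (nat_lit 1) (nat_lit 239) (nat_lit 1) (nat_lit 244) (nat_lit 1) (nat_lit 349) (nat_lit 360) (nat_lit 311)) (XT.lf (nat_lit 76) (nat_lit 1330195836) (nat_lit 0) (nat_lit 1146014124) (nat_lit 456) (nat_lit 1330195836) (nat_lit 240) (nat_lit 1) (nat_lit 239) (nat_lit 1) (nat_lit 245) (nat_lit 1) (nat_lit 350) (nat_lit 360) (nat_lit 310))) (XT.nd (nat_lit 78) (nat_lit 304) (nat_lit 0) (XT.lf (nat_lit 380) (nat_lit 1838623564) (nat_lit 0) (nat_lit 961837143) (nat_lit 304) (nat_lit 961837143) (nat_lit 240) (nat_lit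 1) (nat_lit 235) (nat_lit 1) (nat_lit 239) (nat_lit 1) (nat_lit 351) (nat_lit 360) (nat_lit 309)) (XT.nd (nat_lit 78) (nat_lit 304) (nat_lit 0) (XT.lf (nat_lit 76) (nat_lit 511293127) (nat_lit 0) (nat_lit 2696358127) (nat_lit 380) (nat_lit 511293127) (nat_lit 236) (nat_lit 1) (nat_lit 235) (nat_lit 1) (nat_lit 240) (nat_lit 1) (nat_lit 352) (nat_lit 360) (nat_lit 308)) (XT.lf (nat_lit 380) (nat_lit 203882140) (nat_lit 0) (nat_lit 1736100774) (nat_lit 304) (nat_lit 1736100774) (nat_lit 236) (nat_lit 1) (nat_lit 231) (nat_lit 1) (nat_lit 235) (nat_lit 1) (nat_lit 353) (nat_lit 360) (nat_lit 307)))))) (XT.nd (nat_lit 390) (nat_lit 912) (nat_lit 0) (XT.nd (nat_lit 156) (nat_lit 608) (nat_lit 0) (XT.nd (nat_lit 78) (nat_lit 0) (nat_lit 0) (XT.lf (nat_lit 380) (nat_lit 3046887645) (nat_lit 0) (nat_lit 293590592) (nat_lit 304) (nat_lit 293590592) (nat_lit 231) (nat_lit 1) (nat_lit 226) (nat_lit 1) (nat_lit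 230) (nat_lit 1) (nat_lit 354) (nat_lit 360) (nat_lit 306)) (XT.lf (nat_lit 76) (nat_lit 1105856092) (nat_lit 0) (nat_lit 1380629780) (nat_lit 380) (nat_lit 1105856092) (nat_lit 227) (nat_lit 1) (nat_lit 226) (nat_lit 1) (nat_lit 231) (nat_lit 1) (nat_lit 355) (nat_lit 360) (nat_lit 305))) (XT.nd (nat_lit 78) (nat_lit 304) (nat_lit 0) (XT.lf (nat_lit 380) (nat_lit 1387326636) (nat_lit 0) (nat_lit 1082054784) (nat_lit 304) (nat_lit 1082054784) (nat_lit 227) (nat_lit 1) (nat_lit 222) (nat_lit 1) (nat_lit 226) (nat_lit 1) (nat_lit 356) (nat_lit 360) (nat_lit 304)) (XT.nd (nat_lit 78) (nat_lit 304) (nat_lit 0) (XT.lf (nat_lit 76) (nat_lit 286608205) (nat_lit 0) (nat_lit 2938105390) (nat_lit 380) (nat_lit 286608205) (nat_lit 223) (nat_lit 1) (nat_lit 222) (nat_lit 1) (nat_lit 227) (nat_lit 1) (nat_lit 357) (nat_lit 360) (nat_lit 303)) (XT.lf (nat_lit 76) (nat_lit 1615139562) (nat_lit 0) (nat_lit 241186733)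 (nat_lit 304) (nat_lit 1615139562) (nat_lit 219) (nat_lit 1) (nat_lit 218) (nat_lit 1) (nat_lit 222) (nat_lit 1) (nat_lit 358) (nat_lit 360) (nat_lit 302))))) (XT.nd (nat_lit 156) (nat_lit 608) (nat_lit 0) (XT.nd (nat_lit 78) (nat_lit 0) (nat_lit 0) (XT.lf (nat_lit 380) (nat_lit 2403670286) (nat_lit 0) (nat_lit 514354507) (nat_lit 304) (nat_lit 514354507) (nat_lit 219) (nat_lit 1) (nat_lit 214) (nat_lit 1) (nat_lit 218) (nat_lit 1) (nat_lit 359) (nat_lit 360) (nat_lit 301)) (XT.lf (nat_lit 76) (nat_lit 788669358) (nat_lit 0) (nat_lit 1816399305) (nat_lit 380) (nat_lit 788669358) (nat_lit 215) (nat_lit 1) (nat_lit 214) (nat_lit 1) (nat_lit 219) (nat_lit 1) (nat_lit 360) (nat_lit 360) (nat_lit 300))) (XT.nd (nat_lit 78) (nat_lit 380) (nat_lit 0) (XT.lf (nat_lit 304) (nat_lit 757267221) (nat_lit 0) (nat_lit 1299218160) (nat_lit 228) (nat_lit 1299218160) (nat_lit 215) (nat_lit 1) (nat_lit 211) (nat_lit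 1) (nat_lit 214) (nat_lit 1) (nat_lit 361) (nat_lit 360) (nat_lit 299)) (XT.nd (nat_lit 78) (nat_lit 0) (nat_lit 0) (XT.lf (nat_lit 380) (nat_lit 3272570246) (nat_lit 0) (nat_lit 22980664) (nat_lit 304) (nat_lit 22980664) (nat_lit 211) (nat_lit 1) (nat_lit 206) (nat_lit 1) (nat_lit 210) (nat_lit 1) (nat_lit 362) (nat_lit 360) (nat_lit 298)) (XT.lf (nat_lit 76) (nat_lit 1219190161) (nat_lit 0) (nat_lit 842906208) (nat_lit 380) (nat_lit 1219190161) (nat_lit 207) (nat_lit 1) (nat_lit 206) (nat_lit 1) (nat_lit 211) (nat_lit 1) (nat_lit 363) (nat_lit 360) (nat_lit 297))))))))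
noncomputable def ec122 : XT := (XT.nd (nat_lit 1482) (nat_lit 2052) (nat_lit 0) (XT.nd (nat_lit 702) (nat_lit 1292) (nat_lit 0) (XT.nd (nat_lit 312) (nat_lit 760) (nat_lit 0) (XT.nd (nat_lit 156) (nat_lit 532) (nat_lit 0) (XT.nd (nat_lit 78) (nat_lit 0) (nat_lit 0) (XT.lf (nat_lit 304) (nat_lit 1620223406) (nat_lit 0) (nat_lit 812331097) (nat_lit 228) (nat_lit 812331097) (nat_lit 207) (nat_lit 1) (nat_lit 203) (nat_lit 1) (nat_lit 206) (nat_lit 1) (nat_lit 364) (nat_lit 360) (nat_lit 296)) (XT.lf (nat_lit 76) (nat_lit 404927243) (nat_lit 0) (nat_lit 2399223166) (nat_lit 304) (nat_lit 404927243) (nat_lit 204) (nat_lit 1) (nat_lit 203) (nat_lit 1) (nat_lit 207) (nat_lit 1) (nat_lit 365) (nat_lit 360) (nat_lit 295))) (XT.nd (nat_lit 78) (nat_lit 228) (nat_lit 0) (XT.lf (nat_lit 76) (nat_lit 1586601318) (nat_lit 0) (nat_lit 424794) (nat_lit 304) (nat_lit 1586601318) (nat_lit 200) (nat_lit 1) (nat_lit 199)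 (nat_lit 1) (nat_lit 203) (nat_lit 1) (nat_lit 366) (nat_lit 360) (nat_lit 294)) (XT.lf (nat_lit 304) (nat_lit 2359354587) (nat_lit 0) (nat_lit 389699628) (nat_lit 228) (nat_lit 389699628) (nat_lit 200) (nat_lit 1) (nat_lit 196) (nat_lit 1) (nat_lit 199) (nat_lit 1) (nat_lit 367) (nat_lit 360) (nat_lit 293)))) (XT.nd (nat_lit 156) (nat_lit 532) (nat_lit 0) (XT.nd (nat_lit 78) (nat_lit 228) (nat_lit 0) (XT.lf (nat_lit 76) (nat_lit 772925451) (nat_lit 0) (nat_lit 1558364703) (nat_lit 304) (nat_lit 772925451) (nat_lit 197) (nat_lit 1) (nat_lit 196) (nat_lit 1) (nat_lit 200) (nat_lit 1) (nat_lit 368) (nat_lit 360) (nat_lit 292)) (XT.lf (nat_lit 304) (nat_lit 740763415) (nat_lit 0) (nat_lit 1164737464) (nat_lit 228) (nat_lit 1164737464) (nat_lit 197) (nat_lit 1) (nat_lit 193) (nat_lit 1) (nat_lit 196) (nat_lit 1) (nat_lit 369) (nat_lit 360) (nat_lit 291))) (XT.nd (nat_lit 78) (nat_lit 228) (nat_lit 0) (XT.lf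 (nat_lit 304) (nat_lit 2989272571) (nat_lit 0) (nat_lit 23868286) (nat_lit 228) (nat_lit 23868286) (nat_lit 193) (nat_lit 1) (nat_lit 189) (nat_lit 1) (nat_lit 192) (nat_lit 1) (nat_lit 370) (nat_lit 360) (nat_lit 290)) (XT.nd (nat_lit 78) (nat_lit 228) (nat_lit 0) (XT.lf (nat_lit 76) (nat_lit 1087853515) (nat_lit 0) (nat_lit 827971316) (nat_lit 304) (nat_lit 1087853515) (nat_lit 190) (nat_lit 1) (nat_lit 189) (nat_lit 1) (nat_lit 193) (nat_lit 1) (nat_lit 371) (nat_lit 360) (nat_lit 289)) (XT.lf (nat_lit 304) (nat_lit 1377720207) (nat_lit 0) (nat_lit 796680856) (nat_lit 228) (nat_lit 796680856) (nat_lit 190) (nat_lit 1) (nat_lit 186) (nat_lit 1) (nat_lit 189) (nat_lit 1) (nat_lit 372) (nat_lit 360) (nat_lit 288)))))) (XT.nd (nat_lit 390) (nat_lit 684) (nat_lit 0) (XT.nd (nat_lit 156) (nat_lit 380) (nat_lit 0) (XT.nd (nat_lit 78) (nat_lit 228) (nat_lit 0) (XT.lf (nat_lit 76) (nat_lit 294667462) (nat_lit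 0) (nat_lit 2349702675) (nat_lit 304) (nat_lit 294667462) (nat_lit 187) (nat_lit 1) (nat_lit 186) (nat_lit 1) (nat_lit 190) (nat_lit 1) (nat_lit 373) (nat_lit 360) (nat_lit 287)) (XT.lf (nat_lit 76) (nat_lit 1355979935) (nat_lit 0) (nat_lit 195238354) (nat_lit 228) (nat_lit 1355979935) (nat_lit 184) (nat_lit 1) (nat_lit 183) (nat_lit 1) (nat_lit 186) (nat_lit 1) (nat_lit 374) (nat_lit 360) (nat_lit 286))) (XT.nd (nat_lit 78) (nat_lit 152) (nat_lit 0) (XT.lf (nat_lit 304) (nat_lit 1922689964) (nat_lit 0) (nat_lit 476604413) (nat_lit 228) (nat_lit 476604413) (nat_lit 184) (nat_lit 1) (nat_lit 180) (nat_lit 1) (nat_lit 183) (nat_lit 1) (nat_lit 375) (nat_lit 360) (nat_lit 285)) (XT.nd (nat_lit 78) (nat_lit 152) (nat_lit 0) (XT.lf (nat_lit 76) (nat_lit 568685983) (nat_lit 0) (nat_lit 1707584563) (nat_lit 304) (nat_lit 568685983) (nat_lit 181) (nat_lit 1) (nat_lit 180) (nat_lit 1) (nat_lit 184) (nat_lit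 1) (nat_lit 376) (nat_lit 360) (nat_lit 284)) (XT.lf (nat_lit 228) (nat_lit 358186285) (nat_lit 0) (nat_lit 1228120806) (nat_lit 152) (nat_lit 1228120806) (nat_lit 181) (nat_lit 1) (nat_lit 178) (nat_lit 1) (nat_lit 180) (nat_lit 1) (nat_lit 377) (nat_lit 360) (nat_lit 283))))) (XT.nd (nat_lit 156) (nat_lit 380) (nat_lit 0) (XT.nd (nat_lit 78) (nat_lit 0) (nat_lit 0) (XT.lf (nat_lit 304) (nat_lit 2386540862) (nat_lit 0) (nat_lit 198955675) (nat_lit 228) (nat_lit 198955675) (nat_lit 178) (nat_lit 1) (nat_lit 174) (nat_lit 1) (nat_lit 177) (nat_lit 1) (nat_lit 378) (nat_lit 360) (nat_lit 282)) (XT.lf (nat_lit 76) (nat_lit 803209703) (nat_lit 0) (nat_lit 1148141690) (nat_lit 304) (nat_lit 803209703) (nat_lit 175) (nat_lit 1) (nat_lit 174) (nat_lit 1) (nat_lit 178) (nat_lit 1) (nat_lit 379) (nat_lit 360) (nat_lit 281))) (XT.nd (nat_lit 78) (nat_lit 228) (nat_lit 0) (XT.lf (nat_lit 228) (nat_lit 837763644)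 (nat_lit 0) (nat_lit 943724548) (nat_lit 152) (nat_lit 943724548) (nat_lit 175) (nat_lit 1) (nat_lit 172) (nat_lit 1) (nat_lit 174) (nat_lit 1) (nat_lit 380) (nat_lit 360) (nat_lit 280)) (XT.nd (nat_lit 78) (nat_lit 228) (nat_lit 0) (XT.lf (nat_lit 76) (nat_lit 41600612) (nat_lit 0) (nat_lit 2613276376) (nat_lit 228) (nat_lit 41600612) (nat_lit 173) (nat_lit 1) (nat_lit 172) (nat_lit 1) (nat_lit 175) (nat_lit 1) (nat_lit 381) (nat_lit 360) (nat_lit 279)) (XT.lf (nat_lit 76) (nat_lit 1002903139) (nat_lit 0) (nat_lit 661832246) (nat_lit 228) (nat_lit 1002903139) (nat_lit 170) (nat_lit 1) (nat_lit 169) (nat_lit 1) (nat_lit 172) (nat_lit 1) (nat_lit 382) (nat_lit 360) (nat_lit 278))))))) (XT.nd (nat_lit 702) (nat_lit 988) (nat_lit 0) (XT.nd (nat_lit 312) (nat_lit 532) (nat_lit 0) (XT.nd (nat_lit 156) (nat_lit 380) (nat_lit 0) (XT.nd (nat_lit 78) (nat_lit 0) (nat_lit 0) (XT.lf (nat_lit 228) (nat_lit 1248730273)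 (nat_lit 0) (nat_lit 695336668) (nat_lit 152) (nat_lit 695336668) (nat_lit 170) (nat_lit 1) (nat_lit 167) (nat_lit 1) (nat_lit 169) (nat_lit 1) (nat_lit 383) (nat_lit 360) (nat_lit 277)) (XT.lf (nat_lit 76) (nat_lit 250670679) (nat_lit 0) (nat_lit 2110289607) (nat_lit 228) (nat_lit 250670679) (nat_lit 168) (nat_lit 1) (nat_lit 167) (nat_lit 1) (nat_lit 170) (nat_lit 1) (nat_lit 384) (nat_lit 360) (nat_lit 276))) (XT.nd (nat_lit 78) (nat_lit 152) (nat_lit 0) (XT.lf (nat_lit 76) (nat_lit 1171903072) (nat_lit 0) (nat_lit 240187850) (nat_lit 228) (nat_lit 1171903072) (nat_lit 165) (nat_lit 1) (nat_lit 164) (nat_lit 1) (nat_lit 167) (nat_lit 1) (nat_lit 385) (nat_lit 360) (nat_lit 275)) (XT.lf (nat_lit 228) (nat_lit 1599177884) (nat_lit 0) (nat_lit 478816682) (nat_lit 152) (nat_lit 478816682) (nat_lit 165) (nat_lit 1) (nat_lit 162) (nat_lit 1) (nat_lit 164) (nat_lit 1) (nat_lit 386) (nat_lit 360) (nat_lit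 274)))) (XT.nd (nat_lit 156) (nat_lit 380) (nat_lit 0) (XT.nd (nat_lit 78) (nat_lit 152) (nat_lit 0) (XT.lf (nat_lit 76) (nat_lit 430202190) (nat_lit 0) (nat_lit 1669554686) (nat_lit 228) (nat_lit 430202190) (nat_lit 163) (nat_lit 1) (nat_lit 162) (nat_lit 1) (nat_lit 165) (nat_lit 1) (nat_lit 387) (nat_lit 360) (nat_lit 273)) (XT.lf (nat_lit 228) (nat_lit 126780369) (nat_lit 0) (nat_lit 1188315937) (nat_lit 152) (nat_lit 1188315937) (nat_lit 163) (nat_lit 1) (nat_lit 160) (nat_lit 1) (nat_lit 162) (nat_lit 1) (nat_lit 388) (nat_lit 360) (nat_lit 272))) (XT.nd (nat_lit 78) (nat_lit 152) (nat_lit 0) (XT.lf (nat_lit 228) (nat_lit 1896283021) (nat_lit 0) (nat_lit 290489468) (nat_lit 152) (nat_lit 290489468) (nat_lit 160) (nat_lit 1) (nat_lit 157) (nat_lit 1) (nat_lit 159) (nat_lit 1) (nat_lit 389) (nat_lit 360) (nat_lit 271)) (XT.nd (nat_lit 78) (nat_lit 152) (nat_lit 0) (XT.lf (nat_lit 76) (nat_lit 583670373)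 (nat_lit 0) (nat_lit 1283950241) (nat_lit 228) (nat_lit 583670373) (nat_lit 158) (nat_lit 1) (nat_lit 157) (nat_lit 1) (nat_lit 160) (nat_lit 1) (nat_lit 390) (nat_lit 360) (nat_lit 270)) (XT.lf (nat_lit 228) (nat_lit 447042053) (nat_lit 0) (nat_lit 989333884) (nat_lit 152) (nat_lit 989333884) (nat_lit 158) (nat_lit 1) (nat_lit 155) (nat_lit 1) (nat_lit 157) (nat_lit 1) (nat_lit 391) (nat_lit 360) (nat_lit 269)))))) (XT.nd (nat_lit 390) (nat_lit 456) (nat_lit 0) (XT.nd (nat_lit 156) (nat_lit 304) (nat_lit 0) (XT.nd (nat_lit 78) (nat_lit 0) (nat_lit 0) (XT.lf (nat_lit 228) (nat_lit 2146409490) (nat_lit 0) (nat_lit 127093263) (nat_lit 152) (nat_lit 127093263) (nat_lit 155) (nat_lit 1) (nat_lit 152) (nat_lit 1) (nat_lit 154) (nat_lit 1) (nat_lit 392) (nat_lit 360) (nat_lit 268)) (XT.lf (nat_lit 76) (nat_lit 714157644) (nat_lit 0) (nat_lit 947154254) (nat_lit 228) (nat_lit 714157644) (nat_lit 153) (nat_lit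 1) (nat_lit 152) (nat_lit 1) (nat_lit 155) (nat_lit 1) (nat_lit 393) (nat_lit 360) (nat_lit 267))) (XT.nd (nat_lit 78) (nat_lit 152) (nat_lit 0) (XT.lf (nat_lit 228) (nat_lit 721850625) (nat_lit 0) (nat_lit 814476910) (nat_lit 152) (nat_lit 814476910) (nat_lit 153) (nat_lit 1) (nat_lit 150) (nat_lit 1) (nat_lit 152) (nat_lit 1) (nat_lit 394) (nat_lit 360) (nat_lit 266)) (XT.nd (nat_lit 78) (nat_lit 152) (nat_lit 0) (XT.lf (nat_lit 76) (nat_lit 14407783) (nat_lit 0) (nat_lit 2297834017) (nat_lit 228) (nat_lit 14407783) (nat_lit 151) (nat_lit 1) (nat_lit 150) (nat_lit 1) (nat_lit 153) (nat_lit 1) (nat_lit 395) (nat_lit 360) (nat_lit 265)) (XT.lf (nat_lit 76) (nat_lit 824397561) (nat_lit 0) (nat_lit 653554767) (nat_lit 152) (nat_lit 824397561) (nat_lit 149) (nat_lit 1) (nat_lit 148) (nat_lit 1) (nat_lit 150) (nat_lit 1) (nat_lit 396) (nat_lit 360) (nat_lit 264))))) (XT.nd (nat_lit 156) (nat_lit 304) (nat_lit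 0) (XT.nd (nat_lit 78) (nat_lit 0) (nat_lit 0) (XT.lf (nat_lit 228) (nat_lit 956558378) (nat_lit 0) (nat_lit 660998368) (nat_lit 152) (nat_lit 660998368) (nat_lit 149) (nat_lit 1) (nat_lit 146) (nat_lit 1) (nat_lit 148) (nat_lit 1) (nat_lit 397) (nat_lit 360) (nat_lit 263)) (XT.lf (nat_lit 76) (nat_lit 137506497) (nat_lit 0) (nat_lit 1980164546) (nat_lit 228) (nat_lit 137506497) (nat_lit 147) (nat_lit 1) (nat_lit 146) (nat_lit 1) (nat_lit 149) (nat_lit 1) (nat_lit 398) (nat_lit 360) (nat_lit 262))) (XT.nd (nat_lit 78) (nat_lit 152) (nat_lit 0) (XT.lf (nat_lit 76) (nat_lit 916813880) (nat_lit 0) (nat_lit 398170557) (nat_lit 152) (nat_lit 916813880) (nat_lit 145) (nat_lit 1) (nat_lit 144) (nat_lit 1) (nat_lit 146) (nat_lit 1) (nat_lit 399) (nat_lit 360) (nat_lit 261)) (XT.nd (nat_lit 78) (nat_lit 0) (nat_lit 0) (XT.lf (nat_lit 228) (nat_lit 1155912494) (nat_lit 0) (nat_lit 526459540) (nat_lit 152) (nat_lit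 526459540) (nat_lit 145) (nat_lit 1) (nat_lit 142) (nat_lit 1) (nat_lit 144) (nat_lit 1) (nat_lit 400) (nat_lit 360) (nat_lit 260)) (XT.lf (nat_lit 76) (nat_lit 243245914) (nat_lit 0) (nat_lit 1699708595) (nat_lit 228) (nat_lit 243245914) (nat_lit 143) (nat_lit 1) (nat_lit 142) (nat_lit 1) (nat_lit 145) (nat_lit 1) (nat_lit 401) (nat_lit 360) (nat_lit 259))))))))
noncomputable def ec123 : XT := (XT.nd (nat_lit 1482) (nat_lit 1140) (nat_lit 0) (XT.nd (nat_lit 702) (nat_lit 988) (nat_lit 0) (XT.nd (nat_lit 312) (nat_lit 532) (nat_lit 0) (XT.nd (nat_lit 156) (nat_lit 76) (nat_lit 0) (XT.nd (nat_lit 78) (nat_lit 152) (nat_lit 0) (XT.lf (nat_lit 76) (nat_lit 993555243) (nat_lit 0) (nat_lit 176580656) (nat_lit 152) (nat_lit 993555243) (nat_lit 141) (nat_lit 1) (nat_lit 140) (nat_lit 1) (nat_lit 142) (nat_lit 1) (nat_lit 402) (nat_lit 360) (nat_lit 258)) (XT.lf (nat_lit 228) (nat_lit 1324122760) (nat_lit 0)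 (nat_lit 408695250) (nat_lit 152) (nat_lit 408695250) (nat_lit 141) (nat_lit 1) (nat_lit 138) (nat_lit 1) (nat_lit 140) (nat_lit 1) (nat_lit 403) (nat_lit 360) (nat_lit 257))) (XT.nd (nat_lit 78) (nat_lit 76) (nat_lit 0) (XT.lf (nat_lit 76) (nat_lit 333667613) (nat_lit 0) (nat_lit 1452264259) (nat_lit 228) (nat_lit 333667613) (nat_lit 139) (nat_lit 1) (nat_lit 138) (nat_lit 1) (nat_lit 141) (nat_lit 1) (nat_lit 404) (nat_lit 360) (nat_lit 256)) (XT.lf (nat_lit 152) (nat_lit 15439545) (nat_lit 0) (nat_lit 1041234869) (nat_lit 76) (nat_lit 1041234869) (nat_lit 139) (nat_lit 1) (nat_lit 137) (nat_lit 1) (nat_lit 138) (nat_lit 1) (nat_lit 405) (nat_lit 360) (nat_lit 255)))) (XT.nd (nat_lit 156) (nat_lit 304) (nat_lit 0) (XT.nd (nat_lit 78) (nat_lit 0) (nat_lit 0) (XT.lf (nat_lit 228) (nat_lit 1464921728) (nat_lit 0) (nat_lit 305783318) (nat_lit 152) (nat_lit 305783318) (nat_lit 137) (nat_lit 1) (nat_lit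 134) (nat_lit 1) (nat_lit 136) (nat_lit 1) (nat_lit 406) (nat_lit 360) (nat_lit 254)) (XT.lf (nat_lit 76) (nat_lit 410582430) (nat_lit 0) (nat_lit 1234099720) (nat_lit 228) (nat_lit 410582430) (nat_lit 135) (nat_lit 1) (nat_lit 134) (nat_lit 1) (nat_lit 137) (nat_lit 1) (nat_lit 407) (nat_lit 360) (nat_lit 253))) (XT.nd (nat_lit 78) (nat_lit 228) (nat_lit 0) (XT.lf (nat_lit 152) (nat_lit 184059177) (nat_lit 0) (nat_lit 925123695) (nat_lit 76) (nat_lit 925123695) (nat_lit 135) (nat_lit 1) (nat_lit 133) (nat_lit 1) (nat_lit 134) (nat_lit 1) (nat_lit 408) (nat_lit 360) (nat_lit 252)) (XT.nd (nat_lit 78) (nat_lit 0) (nat_lit 0) (XT.lf (nat_lit 228) (nat_lit 1581618162) (nat_lit 0) (nat_lit 216017412) (nat_lit 152) (nat_lit 216017412) (nat_lit 133) (nat_lit 1) (nat_lit 130) (nat_lit 1) (nat_lit 132) (nat_lit 1) (nat_lit 409) (nat_lit 360) (nat_lit 251)) (XT.lf (nat_lit 76) (nat_lit 475596275) (nat_lit 0)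 (nat_lit 1041900777) (nat_lit 228) (nat_lit 475596275) (nat_lit 131) (nat_lit 1) (nat_lit 130) (nat_lit 1) (nat_lit 133) (nat_lit 1) (nat_lit 410) (nat_lit 360) (nat_lit 250)))))) (XT.nd (nat_lit 390) (nat_lit 380) (nat_lit 0) (XT.nd (nat_lit 156) (nat_lit 304) (nat_lit 0) (XT.nd (nat_lit 78) (nat_lit 228) (nat_lit 0) (XT.lf (nat_lit 152) (nat_lit 328914139) (nat_lit 0) (nat_lit 821960420) (nat_lit 76) (nat_lit 821960420) (nat_lit 131) (nat_lit 1) (nat_lit 129) (nat_lit 1) (nat_lit 130) (nat_lit 1) (nat_lit 411) (nat_lit 360) (nat_lit 249)) (XT.lf (nat_lit 228) (nat_lit 1677144514) (nat_lit 0) (nat_lit 137882939) (nat_lit 152) (nat_lit 137882939) (nat_lit 129) (nat_lit 1) (nat_lit 126) (nat_lit 1) (nat_lit 128) (nat_lit 1) (nat_lit 412) (nat_lit 360) (nat_lit 248))) (XT.nd (nat_lit 78) (nat_lit 304) (nat_lit 0) (XT.lf (nat_lit 76) (nat_lit 530133077) (nat_lit 0) (nat_lit 872724239) (nat_lit 228) (nat_lit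 530133077) (nat_lit 127) (nat_lit 1) (nat_lit 126) (nat_lit 1) (nat_lit 129) (nat_lit 1) (nat_lit 413) (nat_lit 360) (nat_lit 247)) (XT.nd (nat_lit 78) (nat_lit 228) (nat_lit 0) (XT.lf (nat_lit 152) (nat_lit 452799004) (nat_lit 0) (nat_lit 730301187) (nat_lit 76) (nat_lit 730301187) (nat_lit 127) (nat_lit 1) (nat_lit 125) (nat_lit 1) (nat_lit 126) (nat_lit 1) (nat_lit 414) (nat_lit 360) (nat_lit 246)) (XT.lf (nat_lit 228) (nat_lit 1754099103) (nat_lit 0) (nat_lit 70035620) (nat_lit 152) (nat_lit 70035620) (nat_lit 125) (nat_lit 1) (nat_lit 122) (nat_lit 1) (nat_lit 124) (nat_lit 1) (nat_lit 415) (nat_lit 360) (nat_lit 245))))) (XT.nd (nat_lit 156) (nat_lit 304) (nat_lit 0) (XT.nd (nat_lit 78) (nat_lit 76) (nat_lit 0) (XT.lf (nat_lit 76) (nat_lit 575455155) (nat_lit 0) (nat_lit 723956507) (nat_lit 228) (nat_lit 575455155) (nat_lit 123) (nat_lit 1) (nat_lit 122) (nat_lit 1) (nat_lit 125) (nat_lit 1) (nat_lit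 416) (nat_lit 360) (nat_lit 244)) (XT.lf (nat_lit 152) (nat_lit 558192509) (nat_lit 0) (nat_lit 648863146) (nat_lit 76) (nat_lit 648863146) (nat_lit 123) (nat_lit 1) (nat_lit 121) (nat_lit 1) (nat_lit 122) (nat_lit 1) (nat_lit 417) (nat_lit 360) (nat_lit 243))) (XT.nd (nat_lit 78) (nat_lit 76) (nat_lit 0) (XT.lf (nat_lit 228) (nat_lit 1814783581) (nat_lit 0) (nat_lit 11282454) (nat_lit 152) (nat_lit 11282454) (nat_lit 121) (nat_lit 1) (nat_lit 118) (nat_lit 1) (nat_lit 120) (nat_lit 1) (nat_lit 418) (nat_lit 360) (nat_lit 242)) (XT.nd (nat_lit 78) (nat_lit 76) (nat_lit 0) (XT.lf (nat_lit 76) (nat_lit 612681327) (nat_lit 0) (nat_lit 593276780) (nat_lit 228) (nat_lit 612681327) (nat_lit 119) (nat_lit 1) (nat_lit 118) (nat_lit 1) (nat_lit 121) (nat_lit 1) (nat_lit 419) (nat_lit 360) (nat_lit 241)) (XT.lf (nat_lit 152) (nat_lit 647292890) (nat_lit 0) (nat_lit 576506501) (nat_lit 76) (nat_lit 576506501)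 (nat_lit 119) (nat_lit 1) (nat_lit 117) (nat_lit 1) (nat_lit 118) (nat_lit 1) (nat_lit 420) (nat_lit 360) (nat_lit 240))))))) (XT.nd (nat_lit 702) (nat_lit 456) (nat_lit 0) (XT.nd (nat_lit 312) (nat_lit 456) (nat_lit 0) (XT.nd (nat_lit 156) (nat_lit 76) (nat_lit 0) (XT.nd (nat_lit 78) (nat_lit 152) (nat_lit 0) (XT.lf (nat_lit 0) (nat_lit 39825634) (nat_lit 0) (nat_lit 1702668404) (nat_lit 152) (nat_lit 39825634) (nat_lit 117) (nat_lit 3) (nat_lit 117) (nat_lit 1) (nat_lit 119) (nat_lit 1) (nat_lit 421) (nat_lit 360) (nat_lit 239)) (XT.lf (nat_lit 76) (nat_lit 642802993) (nat_lit 0) (nat_lit 478624365) (nat_lit 152) (nat_lit 642802993) (nat_lit 116) (nat_lit 1) (nat_lit 115) (nat_lit 1) (nat_lit 117) (nat_lit 1) (nat_lit 422) (nat_lit 360) (nat_lit 238))) (XT.nd (nat_lit 78) (nat_lit 0) (nat_lit 0) (XT.lf (nat_lit 152) (nat_lit 722049287) (nat_lit 0) (nat_lit 512218559) (nat_lit 76) (nat_lit 512218559)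 (nat_lit 116) (nat_lit 1) (nat_lit 114) (nat_lit 1) (nat_lit 115) (nat_lit 1) (nat_lit 423) (nat_lit 360) (nat_lit 237)) (XT.lf (nat_lit 0) (nat_lit 83878929) (nat_lit 0) (nat_lit 1561293193) (nat_lit 152) (nat_lit 83878929) (nat_lit 114) (nat_lit 3) (nat_lit 114) (nat_lit 1) (nat_lit 116) (nat_lit 1) (nat_lit 424) (nat_lit 360) (nat_lit 236)))) (XT.nd (nat_lit 156) (nat_lit 228) (nat_lit 0) (XT.nd (nat_lit 78) (nat_lit 76) (nat_lit 0) (XT.lf (nat_lit 76) (nat_lit 666698414) (nat_lit 0) (nat_lit 378169638) (nat_lit 152) (nat_lit 666698414) (nat_lit 113) (nat_lit 1) (nat_lit 112) (nat_lit 1) (nat_lit 114) (nat_lit 1) (nat_lit 425) (nat_lit 360) (nat_lit 235)) (XT.lf (nat_lit 152) (nat_lit 784189632) (nat_lit 0) (nat_lit 455099555) (nat_lit 76) (nat_lit 455099555) (nat_lit 113) (nat_lit 1) (nat_lit 111) (nat_lit 1) (nat_lit 112) (nat_lit 1) (nat_lit 426) (nat_lit 360) (nat_lit 234))) (XT.nd (nat_lit 78)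 (nat_lit 228) (nat_lit 0) (XT.lf (nat_lit 0) (nat_lit 121607253) (nat_lit 0) (nat_lit 1434270691) (nat_lit 152) (nat_lit 121607253) (nat_lit 111) (nat_lit 3) (nat_lit 111) (nat_lit 1) (nat_lit 113) (nat_lit 1) (nat_lit 427) (nat_lit 360) (nat_lit 233)) (XT.nd (nat_lit 78) (nat_lit 76) (nat_lit 0) (XT.lf (nat_lit 76) (nat_lit 685145411) (nat_lit 0) (nat_lit 290288231) (nat_lit 152) (nat_lit 685145411) (nat_lit 110) (nat_lit 1) (nat_lit 109) (nat_lit 1) (nat_lit 111) (nat_lit 1) (nat_lit 428) (nat_lit 360) (nat_lit 232)) (XT.lf (nat_lit 152) (nat_lit 835245430) (nat_lit 0) (nat_lit 404350060) (nat_lit 76) (nat_lit 404350060) (nat_lit 110) (nat_lit 1) (nat_lit 108) (nat_lit 1) (nat_lit 109) (nat_lit 1) (nat_lit 429) (nat_lit 360) (nat_lit 231)))))) (XT.nd (nat_lit 390) (nat_lit 76) (nat_lit 0) (XT.nd (nat_lit 156) (nat_lit 228) (nat_lit 0) (XT.nd (nat_lit 78) (nat_lit 152) (nat_lit 0) (XT.lf (nat_lit 0)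 (nat_lit 153757063) (nat_lit 0) (nat_lit 1320041526) (nat_lit 152) (nat_lit 153757063) (nat_lit 108) (nat_lit 3) (nat_lit 108) (nat_lit 1) (nat_lit 110) (nat_lit 1) (nat_lit 430) (nat_lit 360) (nat_lit 230)) (XT.lf (nat_lit 76) (nat_lit 698832635) (nat_lit 0) (nat_lit 213538116) (nat_lit 152) (nat_lit 698832635) (nat_lit 107) (nat_lit 1) (nat_lit 106) (nat_lit 1) (nat_lit 108) (nat_lit 1) (nat_lit 431) (nat_lit 360) (nat_lit 229))) (XT.nd (nat_lit 78) (nat_lit 152) (nat_lit 0) (XT.lf (nat_lit 152) (nat_lit 876573775) (nat_lit 0) (nat_lit 359259792) (nat_lit 76) (nat_lit 359259792) (nat_lit 107) (nat_lit 1) (nat_lit 105) (nat_lit 1) (nat_lit 106) (nat_lit 1) (nat_lit 432) (nat_lit 360) (nat_lit 228)) (XT.nd (nat_lit 78) (nat_lit 152) (nat_lit 0) (XT.lf (nat_lit 0) (nat_lit 180990377) (nat_lit 0) (nat_lit 1217219016) (nat_lit 152) (nat_lit 180990377) (nat_lit 105) (nat_lit 3) (nat_lit 105) (nat_lit 1)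 (nat_lit 107) (nat_lit 1) (nat_lit 433) (nat_lit 360) (nat_lit 227)) (XT.lf (nat_lit 76) (nat_lit 708369581) (nat_lit 0) (nat_lit 146639232) (nat_lit 152) (nat_lit 708369581) (nat_lit 104) (nat_lit 1) (nat_lit 103) (nat_lit 1) (nat_lit 105) (nat_lit 1) (nat_lit 434) (nat_lit 360) (nat_lit 226))))) (XT.nd (nat_lit 42510) (nat_lit 0) (nat_lit 20672) (XT.nd (nat_lit 42432) (nat_lit 0) (nat_lit 20672) (XT.lf (nat_lit 152) (nat_lit 909376900) (nat_lit 0) (nat_lit 319197672) (nat_lit 76) (nat_lit 319197672) (nat_lit 104) (nat_lit 1) (nat_lit 102) (nat_lit 1) (nat_lit 103) (nat_lit 1) (nat_lit 435) (nat_lit 360) (nat_lit 225)) (XT.lf (nat_lit 1292) (nat_lit 693819331) (nat_lit 0) (nat_lit 2387061174) (nat_lit 1292) (nat_lit 693819331) (nat_lit 391) (nat_lit 1) (nat_lit 374) (nat_lit 0) (nat_lit 391) (nat_lit 0) (nat_lit 298) (nat_lit 361) (nat_lit 361))) (XT.nd (nat_lit 78) (nat_lit 0) (nat_lit 76) (XT.lf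 (nat_lit 1292) (nat_lit 2711458105) (nat_lit 76) (nat_lit 2363658613) (nat_lit 0) (nat_lit 2363658613) (nat_lit 391) (nat_lit 1) (nat_lit 375) (nat_lit 1) (nat_lit 374) (nat_lit 0) (nat_lit 299) (nat_lit 361) (nat_lit 360)) (XT.nd (nat_lit 78) (nat_lit 0) (nat_lit 0) (XT.lf (nat_lit 1292) (nat_lit 1311325788) (nat_lit 0) (nat_lit 4707939556) (nat_lit 1216) (nat_lit 1311325788) (nat_lit 392) (nat_lit 1) (nat_lit 375) (nat_lit 1) (nat_lit 391) (nat_lit 1) (nat_lit 300) (nat_lit 361) (nat_lit 359)) (XT.lf (nat_lit 1292) (nat_lit 2490275376) (nat_lit 76) (nat_lit 2366969098) (nat_lit 0) (nat_lit 2366969098) (nat_lit 392) (nat_lit 1) (nat_lit 376) (nat_lit 1) (nat_lit 375) (nat_lit 1) (nat_lit 301) (nat_lit 361) (nat_lit 358))))))))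
noncomputable def ec124 : XT := (XT.nd (nat_lit 1482) (nat_lit 5548) (nat_lit 0) (XT.nd (nat_lit 702) (nat_lit 2888) (nat_lit 0) (XT.nd (nat_lit 312) (nat_lit 0) (nat_lit 152) (XT.nd (nat_lit 156) (nat_lit 0) (nat_lit 76) (XT.nd (nat_lit 78) (nat_lit 0) (nat_lit 0) (XT.lf (nat_lit 1292) (nat_lit 1168549300) (nat_lit 0) (nat_lit 4783117644) (nat_lit 1216) (nat_lit 1168549300) (nat_lit 393) (nat_lit 1) (nat_lit 376) (nat_lit 1) (nat_lit 392) (nat_lit 1) (nat_lit 302) (nat_lit 361) (nat_lit 357)) (XT.lf (nat_lit 1292) (nat_lit 2141489976) (nat_lit 76) (nat_lit 2438196083) (nat_lit 0) (nat_lit 2438196083) (nat_lit 393) (nat_lit 1) (nat_lit 377) (nat_lit 1) (nat_lit 376) (nat_lit 1) (nat_lit 303) (nat_lit 361) (nat_lit 356))) (XT.nd (nat_lit 78) (nat_lit 0) (nat_lit 0) (XT.lf (nat_lit 1292) (nat_lit 965187909) (nat_lit 0) (nat_lit 4987535268) (nat_lit 1216) (nat_lit 965187909) (nat_lit 394) (nat_lit 1) (nat_lit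 377) (nat_lit 1) (nat_lit 393) (nat_lit 1) (nat_lit 304) (nat_lit 361) (nat_lit 355)) (XT.lf (nat_lit 1292) (nat_lit 1676513211) (nat_lit 76) (nat_lit 2571457199) (nat_lit 0) (nat_lit 2571457199) (nat_lit 394) (nat_lit 1) (nat_lit 378) (nat_lit 1) (nat_lit 377) (nat_lit 1) (nat_lit 305) (nat_lit 361) (nat_lit 354)))) (XT.nd (nat_lit 156) (nat_lit 0) (nat_lit 76) (XT.nd (nat_lit 78) (nat_lit 0) (nat_lit 0) (XT.lf (nat_lit 1292) (nat_lit 706722760) (nat_lit 0) (nat_lit 5309883596) (nat_lit 1216) (nat_lit 706722760) (nat_lit 395) (nat_lit 1) (nat_lit 378) (nat_lit 1) (nat_lit 394) (nat_lit 1) (nat_lit 306) (nat_lit 361) (nat_lit 353)) (XT.lf (nat_lit 1292) (nat_lit 1105982313) (nat_lit 76) (nat_lit 2761265525) (nat_lit 0) (nat_lit 2761265525) (nat_lit 395) (nat_lit 1) (nat_lit 379) (nat_lit 1) (nat_lit 378) (nat_lit 1) (nat_lit 307) (nat_lit 361) (nat_lit 352))) (XT.nd (nat_lit 78) (nat_lit 0) (nat_lit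 0) (XT.lf (nat_lit 1292) (nat_lit 398262012) (nat_lit 0) (nat_lit 5739616269) (nat_lit 1216) (nat_lit 398262012) (nat_lit 396) (nat_lit 1) (nat_lit 379) (nat_lit 1) (nat_lit 395) (nat_lit 1) (nat_lit 308) (nat_lit 361) (nat_lit 351)) (XT.nd (nat_lit 78) (nat_lit 0) (nat_lit 76) (XT.lf (nat_lit 1292) (nat_lit 439808337) (nat_lit 76) (nat_lit 3002505205) (nat_lit 0) (nat_lit 3002505205) (nat_lit 396) (nat_lit 1) (nat_lit 380) (nat_lit 1) (nat_lit 379) (nat_lit 1) (nat_lit 309) (nat_lit 361) (nat_lit 350)) (XT.lf (nat_lit 1292) (nat_lit 44563944) (nat_lit 0) (nat_lit 6266902333) (nat_lit 1216) (nat_lit 44563944) (nat_lit 397) (nat_lit 1) (nat_lit 380) (nat_lit 1) (nat_lit 396) (nat_lit 1) (nat_lit 310) (nat_lit 361) (nat_lit 349)))))) (XT.nd (nat_lit 390) (nat_lit 1900) (nat_lit 0) (XT.nd (nat_lit 156) (nat_lit 0) (nat_lit 76) (XT.nd (nat_lit 78) (nat_lit 0) (nat_lit 0) (XT.lf (nat_lit 1368) (nat_lit 2980636353)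 (nat_lit 0) (nat_lit 306675344) (nat_lit 1292) (nat_lit 2980636353) (nat_lit 381) (nat_lit 1) (nat_lit 363) (nat_lit 1) (nat_lit 380) (nat_lit 1) (nat_lit 311) (nat_lit 361) (nat_lit 348)) (XT.lf (nat_lit 1368) (nat_lit 5489272621) (nat_lit 76) (nat_lit 346510512) (nat_lit 0) (nat_lit 346510512) (nat_lit 381) (nat_lit 1) (nat_lit 364) (nat_lit 1) (nat_lit 363) (nat_lit 1) (nat_lit 312) (nat_lit 361) (nat_lit 347))) (XT.nd (nat_lit 78) (nat_lit 0) (nat_lit 0) (XT.lf (nat_lit 1368) (nat_lit 2488335439) (nat_lit 0) (nat_lit 1120880165) (nat_lit 1292) (nat_lit 2488335439) (nat_lit 382) (nat_lit 1) (nat_lit 364) (nat_lit 1) (nat_lit 381) (nat_lit 1) (nat_lit 313) (nat_lit 361) (nat_lit 346)) (XT.nd (nat_lit 78) (nat_lit 0) (nat_lit 76) (XT.lf (nat_lit 1368) (nat_lit 4468010262) (nat_lit 76) (nat_lit 773473170) (nat_lit 0) (nat_lit 773473170) (nat_lit 382) (nat_lit 1) (nat_lit 365) (nat_lit 1) (nat_lit 364)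 (nat_lit 1) (nat_lit 314) (nat_lit 361) (nat_lit 345)) (XT.lf (nat_lit 76) (nat_lit 1964963639) (nat_lit 0) (nat_lit 2003552071) (nat_lit 1292) (nat_lit 1964963639) (nat_lit 366) (nat_lit 1) (nat_lit 365) (nat_lit 1) (nat_lit 382) (nat_lit 1) (nat_lit 315) (nat_lit 361) (nat_lit 344))))) (XT.nd (nat_lit 156) (nat_lit 1216) (nat_lit 0) (XT.nd (nat_lit 78) (nat_lit 0) (nat_lit 0) (XT.lf (nat_lit 912) (nat_lit 3387873947) (nat_lit 0) (nat_lit 1232964578) (nat_lit 836) (nat_lit 1232964578) (nat_lit 366) (nat_lit 1) (nat_lit 354) (nat_lit 1) (nat_lit 365) (nat_lit 1) (nat_lit 316) (nat_lit 361) (nat_lit 343)) (XT.lf (nat_lit 76) (nat_lit 1414032635) (nat_lit 0) (nat_lit 2947405264) (nat_lit 912) (nat_lit 1414032635) (nat_lit 355) (nat_lit 1) (nat_lit 354) (nat_lit 1) (nat_lit 366) (nat_lit 1) (nat_lit 317) (nat_lit 361) (nat_lit 342))) (XT.nd (nat_lit 78) (nat_lit 608) (nat_lit 0) (XT.lf (nat_lit 684) (nat_lit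 2255665571) (nat_lit 0) (nat_lit 1721456145) (nat_lit 608) (nat_lit 1721456145) (nat_lit 355) (nat_lit 1) (nat_lit 346) (nat_lit 1) (nat_lit 354) (nat_lit 1) (nat_lit 318) (nat_lit 361) (nat_lit 341)) (XT.nd (nat_lit 78) (nat_lit 608) (nat_lit 0) (XT.lf (nat_lit 76) (nat_lit 838802192) (nat_lit 0) (nat_lit 3945669912) (nat_lit 684) (nat_lit 838802192) (nat_lit 347) (nat_lit 1) (nat_lit 346) (nat_lit 1) (nat_lit 355) (nat_lit 1) (nat_lit 319) (nat_lit 361) (nat_lit 340)) (XT.lf (nat_lit 684) (nat_lit 1077696893) (nat_lit 0) (nat_lit 2235670227) (nat_lit 608) (nat_lit 2235670227) (nat_lit 347) (nat_lit 1) (nat_lit 338) (nat_lit 1) (nat_lit 346) (nat_lit 1) (nat_lit 320) (nat_lit 361) (nat_lit 339))))))) (XT.nd (nat_lit 702) (nat_lit 2812) (nat_lit 0) (XT.nd (nat_lit 312) (nat_lit 1520) (nat_lit 0) (XT.nd (nat_lit 156) (nat_lit 608) (nat_lit 0) (XT.nd (nat_lit 78) (nat_lit 608) (nat_lit 0) (XT.lf (nat_lit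 76) (nat_lit 242296085) (nat_lit 0) (nat_lit 4992059688) (nat_lit 684) (nat_lit 242296085) (nat_lit 339) (nat_lit 1) (nat_lit 338) (nat_lit 1) (nat_lit 347) (nat_lit 1) (nat_lit 321) (nat_lit 361) (nat_lit 338)) (XT.lf (nat_lit 76) (nat_lit 2633732377) (nat_lit 0) (nat_lit 137444014) (nat_lit 608) (nat_lit 2633732377) (nat_lit 331) (nat_lit 1) (nat_lit 330) (nat_lit 1) (nat_lit 338) (nat_lit 1) (nat_lit 322) (nat_lit 361) (nat_lit 337))) (XT.nd (nat_lit 78) (nat_lit 0) (nat_lit 0) (XT.lf (nat_lit 684) (nat_lit 4596884961) (nat_lit 0) (nat_lit 369029177) (nat_lit 608) (nat_lit 369029177) (nat_lit 331) (nat_lit 1) (nat_lit 322) (nat_lit 1) (nat_lit 330) (nat_lit 1) (nat_lit 323) (nat_lit 361) (nat_lit 336)) (XT.lf (nat_lit 76) (nat_lit 1950161452) (nat_lit 0) (nat_lit 1365367146) (nat_lit 684) (nat_lit 1950161452) (nat_lit 323) (nat_lit 1) (nat_lit 322) (nat_lit 1) (nat_lit 331) (nat_lit 1) (nat_lit 324)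 (nat_lit 361) (nat_lit 335)))) (XT.nd (nat_lit 156) (nat_lit 988) (nat_lit 0) (XT.nd (nat_lit 78) (nat_lit 0) (nat_lit 0) (XT.lf (nat_lit 608) (nat_lit 3210663111) (nat_lit 0) (nat_lit 993700438) (nat_lit 532) (nat_lit 993700438) (nat_lit 323) (nat_lit 1) (nat_lit 315) (nat_lit 1) (nat_lit 322) (nat_lit 1) (nat_lit 325) (nat_lit 361) (nat_lit 334)) (XT.lf (nat_lit 76) (nat_lit 1254650876) (nat_lit 0) (nat_lit 2622179978) (nat_lit 608) (nat_lit 1254650876) (nat_lit 316) (nat_lit 1) (nat_lit 315) (nat_lit 1) (nat_lit 323) (nat_lit 1) (nat_lit 326) (nat_lit 361) (nat_lit 333))) (XT.nd (nat_lit 78) (nat_lit 456) (nat_lit 0) (XT.lf (nat_lit 608) (nat_lit 1802660747) (nat_lit 0) (nat_lit 1631714624) (nat_lit 532) (nat_lit 1631714624) (nat_lit 316) (nat_lit 1) (nat_lit 308) (nat_lit 1) (nat_lit 315) (nat_lit 1) (nat_lit 327) (nat_lit 361) (nat_lit 332)) (XT.nd (nat_lit 78) (nat_lit 456) (nat_lit 0) (XT.lf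 (nat_lit 76) (nat_lit 549376696) (nat_lit 0) (nat_lit 3903329632) (nat_lit 608) (nat_lit 549376696) (nat_lit 309) (nat_lit 1) (nat_lit 308) (nat_lit 1) (nat_lit 316) (nat_lit 1) (nat_lit 328) (nat_lit 361) (nat_lit 331)) (XT.lf (nat_lit 532) (nat_lit 377080257) (nat_lit 0) (nat_lit 2280872739) (nat_lit 456) (nat_lit 2280872739) (nat_lit 309) (nat_lit 1) (nat_lit 302) (nat_lit 1) (nat_lit 308) (nat_lit 1) (nat_lit 329) (nat_lit 361) (nat_lit 330)))))) (XT.nd (nat_lit 390) (nat_lit 1292) (nat_lit 0) (XT.nd (nat_lit 156) (nat_lit 912) (nat_lit 0) (XT.nd (nat_lit 78) (nat_lit 0) (nat_lit 0) (XT.lf (nat_lit 608) (nat_lit 4553014570) (nat_lit 0) (nat_lit 162048925) (nat_lit 532) (nat_lit 162048925) (nat_lit 302) (nat_lit 1) (nat_lit 294) (nat_lit 1) (nat_lit 301) (nat_lit 1) (nat_lit 330) (nat_lit 361) (nat_lit 329)) (XT.lf (nat_lit 76) (nat_lit 1887151118) (nat_lit 0) (nat_lit 1041475779) (nat_lit 608) (nat_lit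 1887151118) (nat_lit 295) (nat_lit 1) (nat_lit 294) (nat_lit 1) (nat_lit 302) (nat_lit 1) (nat_lit 331) (nat_lit 361) (nat_lit 328))) (XT.nd (nat_lit 78) (nat_lit 456) (nat_lit 0) (XT.lf (nat_lit 532) (nat_lit 3008060298) (nat_lit 0) (nat_lit 873936178) (nat_lit 456) (nat_lit 873936178) (nat_lit 295) (nat_lit 1) (nat_lit 288) (nat_lit 1) (nat_lit 294) (nat_lit 1) (nat_lit 332) (nat_lit 361) (nat_lit 327)) (XT.nd (nat_lit 78) (nat_lit 456) (nat_lit 0) (XT.lf (nat_lit 76) (nat_lit 1117176655) (nat_lit 0) (nat_lit 2462609594) (nat_lit 532) (nat_lit 1117176655) (nat_lit 289) (nat_lit 1) (nat_lit 288) (nat_lit 1) (nat_lit 295) (nat_lit 1) (nat_lit 333) (nat_lit 361) (nat_lit 326)) (XT.lf (nat_lit 532) (nat_lit 1459038246) (nat_lit 0) (nat_lit 1589984635) (nat_lit 456) (nat_lit 1589984635) (nat_lit 289) (nat_lit 1) (nat_lit 282) (nat_lit 1) (nat_lit 288) (nat_lit 1) (nat_lit 334) (nat_lit 361) (nat_lit 325)))))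 (XT.nd (nat_lit 156) (nat_lit 836) (nat_lit 0) (XT.nd (nat_lit 78) (nat_lit 456) (nat_lit 0) (XT.lf (nat_lit 76) (nat_lit 345929625) (nat_lit 0) (nat_lit 3890460145) (nat_lit 532) (nat_lit 345929625) (nat_lit 283) (nat_lit 1) (nat_lit 282) (nat_lit 1) (nat_lit 289) (nat_lit 1) (nat_lit 335) (nat_lit 361) (nat_lit 324)) (XT.lf (nat_lit 76) (nat_lit 2218403352) (nat_lit 0) (nat_lit 89338479) (nat_lit 456) (nat_lit 2218403352) (nat_lit 277) (nat_lit 1) (nat_lit 276) (nat_lit 1) (nat_lit 282) (nat_lit 1) (nat_lit 336) (nat_lit 361) (nat_lit 323))) (XT.nd (nat_lit 78) (nat_lit 380) (nat_lit 0) (XT.lf (nat_lit 532) (nat_lit 3629144373) (nat_lit 0) (nat_lit 421023931) (nat_lit 456) (nat_lit 421023931) (nat_lit 277) (nat_lit 1) (nat_lit 270) (nat_lit 1) (nat_lit 276) (nat_lit 1) (nat_lit 337) (nat_lit 361) (nat_lit 322)) (XT.nd (nat_lit 78) (nat_lit 380) (nat_lit 0) (XT.lf (nat_lit 76) (nat_lit 1404537032)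 (nat_lit 0) (nat_lit 1607719227) (nat_lit 532) (nat_lit 1404537032) (nat_lit 271) (nat_lit 1) (nat_lit 270) (nat_lit 1) (nat_lit 277) (nat_lit 1) (nat_lit 338) (nat_lit 361) (nat_lit 321)) (XT.lf (nat_lit 456) (nat_lit 1997127345) (nat_lit 0) (nat_lit 1183196175) (nat_lit 380) (nat_lit 1183196175) (nat_lit 271) (nat_lit 1) (nat_lit 265) (nat_lit 1) (nat_lit 270) (nat_lit 1) (nat_lit 339) (nat_lit 361) (nat_lit 320))))))))
noncomputable def ec125 : XT := (XT.nd (nat_lit 1482) (nat_lit 3040) (nat_lit 0) (XT.nd (nat_lit 702) (nat_lit 1900) (nat_lit 0) (XT.nd (nat_lit 312) (nat_lit 1140) (nat_lit 0) (XT.nd (nat_lit 156) (nat_lit 456) (nat_lit 0) (XT.nd (nat_lit 78) (nat_lit 380) (nat_lit 0) (XT.lf (nat_lit 76) (nat_lit 594528011) (nat_lit 0) (nat_lit 3122165810) (nat_lit 456) (nat_lit 594528011) (nat_lit 266) (nat_lit 1) (nat_lit 265) (nat_lit 1) (nat_lit 271) (nat_lit 1) (nat_lit 340) (nat_lit 361) (nat_lit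 319)) (XT.lf (nat_lit 456) (nat_lit 373911288) (nat_lit 0) (nat_lit 1942822190) (nat_lit 380) (nat_lit 1942822190) (nat_lit 266) (nat_lit 1) (nat_lit 260) (nat_lit 1) (nat_lit 265) (nat_lit 1) (nat_lit 341) (nat_lit 361) (nat_lit 318))) (XT.nd (nat_lit 78) (nat_lit 0) (nat_lit 0) (XT.lf (nat_lit 456) (nat_lit 3791978253) (nat_lit 0) (nat_lit 208532055) (nat_lit 380) (nat_lit 208532055) (nat_lit 260) (nat_lit 1) (nat_lit 254) (nat_lit 1) (nat_lit 259) (nat_lit 1) (nat_lit 342) (nat_lit 361) (nat_lit 317)) (XT.lf (nat_lit 76) (nat_lit 1472216871) (nat_lit 0) (nat_lit 1214368365) (nat_lit 456) (nat_lit 1472216871) (nat_lit 255) (nat_lit 1) (nat_lit 254) (nat_lit 1) (nat_lit 260) (nat_lit 1) (nat_lit 343) (nat_lit 361) (nat_lit 316)))) (XT.nd (nat_lit 156) (nat_lit 760) (nat_lit 0) (XT.nd (nat_lit 78) (nat_lit 0) (nat_lit 0) (XT.lf (nat_lit 456) (nat_lit 2109669424) (nat_lit 0) (nat_lit 1000004486) (nat_lit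 380) (nat_lit 1000004486) (nat_lit 255) (nat_lit 1) (nat_lit 249) (nat_lit 1) (nat_lit 254) (nat_lit 1) (nat_lit 344) (nat_lit 361) (nat_lit 315)) (XT.lf (nat_lit 76) (nat_lit 639165406) (nat_lit 0) (nat_lit 2783046278) (nat_lit 456) (nat_lit 639165406) (nat_lit 250) (nat_lit 1) (nat_lit 249) (nat_lit 1) (nat_lit 255) (nat_lit 1) (nat_lit 345) (nat_lit 361) (nat_lit 314))) (XT.nd (nat_lit 78) (nat_lit 456) (nat_lit 0) (XT.lf (nat_lit 380) (nat_lit 443921179) (nat_lit 0) (nat_lit 1784883368) (nat_lit 304) (nat_lit 1784883368) (nat_lit 250) (nat_lit 1) (nat_lit 245) (nat_lit 1) (nat_lit 249) (nat_lit 1) (nat_lit 346) (nat_lit 361) (nat_lit 313)) (XT.nd (nat_lit 78) (nat_lit 0) (nat_lit 0) (XT.lf (nat_lit 456) (nat_lit 3600097538) (nat_lit 0) (nat_lit 183473688) (nat_lit 380) (nat_lit 183473688) (nat_lit 245) (nat_lit 1) (nat_lit 239) (nat_lit 1) (nat_lit 244) (nat_lit 1) (nat_lit 347) (nat_lit 361) (nat_lit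 312)) (XT.lf (nat_lit 76) (nat_lit 1370101711) (nat_lit 0) (nat_lit 1180394548) (nat_lit 456) (nat_lit 1370101711) (nat_lit 240) (nat_lit 1) (nat_lit 239) (nat_lit 1) (nat_lit 245) (nat_lit 1) (nat_lit 348) (nat_lit 361) (nat_lit 311)))))) (XT.nd (nat_lit 390) (nat_lit 912) (nat_lit 0) (XT.nd (nat_lit 156) (nat_lit 684) (nat_lit 0) (XT.nd (nat_lit 78) (nat_lit 0) (nat_lit 0) (XT.lf (nat_lit 380) (nat_lit 1893782271) (nat_lit 0) (nat_lit 990692257) (nat_lit 304) (nat_lit 990692257) (nat_lit 240) (nat_lit 1) (nat_lit 235) (nat_lit 1) (nat_lit 239) (nat_lit 1) (nat_lit 349) (nat_lit 361) (nat_lit 310)) (XT.lf (nat_lit 76) (nat_lit 526631921) (nat_lit 0) (nat_lit 2777248871) (nat_lit 380) (nat_lit 526631921) (nat_lit 236) (nat_lit 1) (nat_lit 235) (nat_lit 1) (nat_lit 240) (nat_lit 1) (nat_lit 350) (nat_lit 361) (nat_lit 309))) (XT.nd (nat_lit 78) (nat_lit 380) (nat_lit 0) (XT.lf (nat_lit 380) (nat_lit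 209998604) (nat_lit 0) (nat_lit 1788183798) (nat_lit 304) (nat_lit 1788183798) (nat_lit 236) (nat_lit 1) (nat_lit 231) (nat_lit 1) (nat_lit 235) (nat_lit 1) (nat_lit 351) (nat_lit 361) (nat_lit 308)) (XT.nd (nat_lit 78) (nat_lit 0) (nat_lit 0) (XT.lf (nat_lit 380) (nat_lit 3138294274) (nat_lit 0) (nat_lit 302398309) (nat_lit 304) (nat_lit 302398309) (nat_lit 231) (nat_lit 1) (nat_lit 226) (nat_lit 1) (nat_lit 230) (nat_lit 1) (nat_lit 352) (nat_lit 361) (nat_lit 307)) (XT.lf (nat_lit 76) (nat_lit 1139031774) (nat_lit 0) (nat_lit 1422048673) (nat_lit 380) (nat_lit 1139031774) (nat_lit 227) (nat_lit 1) (nat_lit 226) (nat_lit 1) (nat_lit 231) (nat_lit 1) (nat_lit 353) (nat_lit 361) (nat_lit 306))))) (XT.nd (nat_lit 156) (nat_lit 608) (nat_lit 0) (XT.nd (nat_lit 78) (nat_lit 0) (nat_lit 0) (XT.lf (nat_lit 380) (nat_lit 1428946435) (nat_lit 0) (nat_lit 1114516428) (nat_lit 304) (nat_lit 1114516428) (nat_lit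 227) (nat_lit 1) (nat_lit 222) (nat_lit 1) (nat_lit 226) (nat_lit 1) (nat_lit 354) (nat_lit 361) (nat_lit 305)) (XT.lf (nat_lit 76) (nat_lit 295206451) (nat_lit 0) (nat_lit 3026248551) (nat_lit 380) (nat_lit 295206451) (nat_lit 223) (nat_lit 1) (nat_lit 222) (nat_lit 1) (nat_lit 227) (nat_lit 1) (nat_lit 355) (nat_lit 361) (nat_lit 304))) (XT.nd (nat_lit 78) (nat_lit 304) (nat_lit 0) (XT.lf (nat_lit 76) (nat_lit 1663593749) (nat_lit 0) (nat_lit 248422335) (nat_lit 304) (nat_lit 1663593749) (nat_lit 219) (nat_lit 1) (nat_lit 218) (nat_lit 1) (nat_lit 222) (nat_lit 1) (nat_lit 356) (nat_lit 361) (nat_lit 303)) (XT.nd (nat_lit 78) (nat_lit 0) (nat_lit 0) (XT.lf (nat_lit 380) (nat_lit 2475780395) (nat_lit 0) (nat_lit 529785143) (nat_lit 304) (nat_lit 529785143) (nat_lit 219) (nat_lit 1) (nat_lit 214) (nat_lit 1) (nat_lit 218) (nat_lit 1) (nat_lit 357) (nat_lit 361) (nat_lit 302)) (XT.lf (nat_lit 76) (nat_lit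 812329439) (nat_lit 0) (nat_lit 1870891284) (nat_lit 380) (nat_lit 812329439) (nat_lit 215) (nat_lit 1) (nat_lit 214) (nat_lit 1) (nat_lit 219) (nat_lit 1) (nat_lit 358) (nat_lit 361) (nat_lit 301))))))) (XT.nd (nat_lit 702) (nat_lit 1444) (nat_lit 0) (XT.nd (nat_lit 312) (nat_lit 760) (nat_lit 0) (XT.nd (nat_lit 156) (nat_lit 228) (nat_lit 0) (XT.nd (nat_lit 78) (nat_lit 380) (nat_lit 0) (XT.lf (nat_lit 304) (nat_lit 779985238) (nat_lit 0) (nat_lit 1338194704) (nat_lit 228) (nat_lit 1338194704) (nat_lit 215) (nat_lit 1) (nat_lit 211) (nat_lit 1) (nat_lit 214) (nat_lit 1) (nat_lit 359) (nat_lit 361) (nat_lit 300)) (XT.lf (nat_lit 380) (nat_lit 3370747353) (nat_lit 0) (nat_lit 23670084) (nat_lit 304) (nat_lit 23670084) (nat_lit 211) (nat_lit 1) (nat_lit 206) (nat_lit 1) (nat_lit 210) (nat_lit 1) (nat_lit 360) (nat_lit 361) (nat_lit 299))) (XT.nd (nat_lit 78) (nat_lit 228) (nat_lit 0) (XT.lf (nat_lit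 76) (nat_lit 1255765866) (nat_lit 0) (nat_lit 868193394) (nat_lit 380) (nat_lit 1255765866) (nat_lit 207) (nat_lit 1) (nat_lit 206) (nat_lit 1) (nat_lit 211) (nat_lit 1) (nat_lit 361) (nat_lit 361) (nat_lit 298)) (XT.lf (nat_lit 304) (nat_lit 1668830108) (nat_lit 0) (nat_lit 836701030) (nat_lit 228) (nat_lit 836701030) (nat_lit 207) (nat_lit 1) (nat_lit 203) (nat_lit 1) (nat_lit 206) (nat_lit 1) (nat_lit 362) (nat_lit 361) (nat_lit 297)))) (XT.nd (nat_lit 156) (nat_lit 456) (nat_lit 0) (XT.nd (nat_lit 78) (nat_lit 304) (nat_lit 0) (XT.lf (nat_lit 76) (nat_lit 417075061) (nat_lit 0) (nat_lit 2471199861) (nat_lit 304) (nat_lit 417075061) (nat_lit 204) (nat_lit 1) (nat_lit 203) (nat_lit 1) (nat_lit 207) (nat_lit 1) (nat_lit 363) (nat_lit 361) (nat_lit 296)) (XT.lf (nat_lit 76) (nat_lit 1634199358) (nat_lit 0) (nat_lit 437538) (nat_lit 304) (nat_lit 1634199358) (nat_lit 200) (nat_lit 1) (nat_lit 199) (nat_lit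 1) (nat_lit 203) (nat_lit 1) (nat_lit 364) (nat_lit 361) (nat_lit 295))) (XT.nd (nat_lit 78) (nat_lit 228) (nat_lit 0) (XT.lf (nat_lit 304) (nat_lit 2430135225) (nat_lit 0) (nat_lit 401390617) (nat_lit 228) (nat_lit 401390617) (nat_lit 200) (nat_lit 1) (nat_lit 196) (nat_lit 1) (nat_lit 199) (nat_lit 1) (nat_lit 365) (nat_lit 361) (nat_lit 294)) (XT.nd (nat_lit 78) (nat_lit 228) (nat_lit 0) (XT.lf (nat_lit 76) (nat_lit 796113215) (nat_lit 0) (nat_lit 1605115644) (nat_lit 304) (nat_lit 796113215) (nat_lit 197) (nat_lit 1) (nat_lit 196) (nat_lit 1) (nat_lit 200) (nat_lit 1) (nat_lit 366) (nat_lit 361) (nat_lit 293)) (XT.lf (nat_lit 304) (nat_lit 762986318) (nat_lit 0) (nat_lit 1199679588) (nat_lit 228) (nat_lit 1199679588) (nat_lit 197) (nat_lit 1) (nat_lit 193) (nat_lit 1) (nat_lit 196) (nat_lit 1) (nat_lit 367) (nat_lit 361) (nat_lit 292)))))) (XT.nd (nat_lit 390) (nat_lit 684) (nat_lit 0) (XT.nd (nat_lit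 156) (nat_lit 456) (nat_lit 0) (XT.nd (nat_lit 78) (nat_lit 0) (nat_lit 0) (XT.lf (nat_lit 304) (nat_lit 3078950748) (nat_lit 0) (nat_lit 24584335) (nat_lit 228) (nat_lit 24584335) (nat_lit 193) (nat_lit 1) (nat_lit 189) (nat_lit 1) (nat_lit 192) (nat_lit 1) (nat_lit 368) (nat_lit 361) (nat_lit 291)) (XT.lf (nat_lit 76) (nat_lit 1120489120) (nat_lit 0) (nat_lit 852810455) (nat_lit 304) (nat_lit 1120489120) (nat_lit 190) (nat_lit 1) (nat_lit 189) (nat_lit 1) (nat_lit 193) (nat_lit 1) (nat_lit 369) (nat_lit 361) (nat_lit 290))) (XT.nd (nat_lit 78) (nat_lit 228) (nat_lit 0) (XT.lf (nat_lit 304) (nat_lit 1419051813) (nat_lit 0) (nat_lit 820581282) (nat_lit 228) (nat_lit 820581282) (nat_lit 190) (nat_lit 1) (nat_lit 186) (nat_lit 1) (nat_lit 189) (nat_lit 1) (nat_lit 370) (nat_lit 361) (nat_lit 289)) (XT.nd (nat_lit 78) (nat_lit 228) (nat_lit 0) (XT.lf (nat_lit 76) (nat_lit 303507486) (nat_lit 0) (nat_lit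 2420193755) (nat_lit 304) (nat_lit 303507486) (nat_lit 187) (nat_lit 1) (nat_lit 186) (nat_lit 1) (nat_lit 190) (nat_lit 1) (nat_lit 371) (nat_lit 361) (nat_lit 288)) (XT.lf (nat_lit 76) (nat_lit 1396659333) (nat_lit 0) (nat_lit 201095505) (nat_lit 228) (nat_lit 1396659333) (nat_lit 184) (nat_lit 1) (nat_lit 183) (nat_lit 1) (nat_lit 186) (nat_lit 1) (nat_lit 372) (nat_lit 361) (nat_lit 287))))) (XT.nd (nat_lit 156) (nat_lit 456) (nat_lit 0) (XT.nd (nat_lit 78) (nat_lit 0) (nat_lit 0) (XT.lf (nat_lit 304) (nat_lit 1980370663) (nat_lit 0) (nat_lit 490902546) (nat_lit 228) (nat_lit 490902546) (nat_lit 184) (nat_lit 1) (nat_lit 180) (nat_lit 1) (nat_lit 183) (nat_lit 1) (nat_lit 373) (nat_lit 361) (nat_lit 286)) (XT.lf (nat_lit 76) (nat_lit 585746563) (nat_lit 0) (nat_lit 1758812100) (nat_lit 304) (nat_lit 585746563) (nat_lit 181) (nat_lit 1) (nat_lit 180) (nat_lit 1) (nat_lit 184) (nat_lit 1) (nat_lit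 374) (nat_lit 361) (nat_lit 285))) (XT.nd (nat_lit 78) (nat_lit 304) (nat_lit 0) (XT.lf (nat_lit 228) (nat_lit 368931873) (nat_lit 0) (nat_lit 1264964430) (nat_lit 152) (nat_lit 1264964430) (nat_lit 181) (nat_lit 1) (nat_lit 178) (nat_lit 1) (nat_lit 180) (nat_lit 1) (nat_lit 375) (nat_lit 361) (nat_lit 284)) (XT.nd (nat_lit 78) (nat_lit 0) (nat_lit 0) (XT.lf (nat_lit 304) (nat_lit 2458137088) (nat_lit 0) (nat_lit 204924345) (nat_lit 228) (nat_lit 204924345) (nat_lit 178) (nat_lit 1) (nat_lit 174) (nat_lit 1) (nat_lit 177) (nat_lit 1) (nat_lit 376) (nat_lit 361) (nat_lit 283)) (XT.lf (nat_lit 76) (nat_lit 827305994) (nat_lit 0) (nat_lit 1182585940) (nat_lit 304) (nat_lit 827305994) (nat_lit 175) (nat_lit 1) (nat_lit 174) (nat_lit 1) (nat_lit 178) (nat_lit 1) (nat_lit 377) (nat_lit 361) (nat_lit 282))))))))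
noncomputable def ec126 : XT := (XT.nd (nat_lit 1482) (nat_lit 1900) (nat_lit 0) (XT.nd (nat_lit 702) (nat_lit 1064) (nat_lit 0) (XT.nd (nat_lit 312) (nat_lit 532) (nat_lit 0) (XT.nd (nat_lit 156) (nat_lit 380) (nat_lit 0) (XT.nd (nat_lit 78) (nat_lit 0) (nat_lit 0) (XT.lf (nat_lit 228) (nat_lit 862896554) (nat_lit 0) (nat_lit 972036285) (nat_lit 152) (nat_lit 972036285) (nat_lit 175) (nat_lit 1) (nat_lit 172) (nat_lit 1) (nat_lit 174) (nat_lit 1) (nat_lit 378) (nat_lit 361) (nat_lit 281)) (XT.lf (nat_lit 76) (nat_lit 42848630) (nat_lit 0) (nat_lit 2691674668) (nat_lit 228) (nat_lit 42848630) (nat_lit 173) (nat_lit 1) (nat_lit 172) (nat_lit 1) (nat_lit 175) (nat_lit 1) (nat_lit 379) (nat_lit 361) (nat_lit 280))) (XT.nd (nat_lit 78) (nat_lit 152) (nat_lit 0) (XT.lf (nat_lit 76) (nat_lit 1032990233) (nat_lit 0) (nat_lit 681687213) (nat_lit 228) (nat_lit 1032990233) (nat_lit 170) (nat_lit 1) (nat_lit 169)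 (nat_lit 1) (nat_lit 172) (nat_lit 1) (nat_lit 380) (nat_lit 361) (nat_lit 279)) (XT.lf (nat_lit 228) (nat_lit 1286192181) (nat_lit 0) (nat_lit 716196769) (nat_lit 152) (nat_lit 716196769) (nat_lit 170) (nat_lit 1) (nat_lit 167) (nat_lit 1) (nat_lit 169) (nat_lit 1) (nat_lit 381) (nat_lit 361) (nat_lit 278)))) (XT.nd (nat_lit 156) (nat_lit 304) (nat_lit 0) (XT.nd (nat_lit 78) (nat_lit 228) (nat_lit 0) (XT.lf (nat_lit 76) (nat_lit 258190800) (nat_lit 0) (nat_lit 2173598295) (nat_lit 228) (nat_lit 258190800) (nat_lit 168) (nat_lit 1) (nat_lit 167) (nat_lit 1) (nat_lit 170) (nat_lit 1) (nat_lit 382) (nat_lit 361) (nat_lit 277)) (XT.lf (nat_lit 76) (nat_lit 1207060164) (nat_lit 0) (nat_lit 247393485) (nat_lit 228) (nat_lit 1207060164) (nat_lit 165) (nat_lit 1) (nat_lit 164) (nat_lit 1) (nat_lit 167) (nat_lit 1) (nat_lit 383) (nat_lit 361) (nat_lit 276))) (XT.nd (nat_lit 78) (nat_lit 152) (nat_lit 0) (XT.lf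 (nat_lit 228) (nat_lit 1647153220) (nat_lit 0) (nat_lit 493181183) (nat_lit 152) (nat_lit 493181183) (nat_lit 165) (nat_lit 1) (nat_lit 162) (nat_lit 1) (nat_lit 164) (nat_lit 1) (nat_lit 384) (nat_lit 361) (nat_lit 275)) (XT.nd (nat_lit 78) (nat_lit 152) (nat_lit 0) (XT.lf (nat_lit 76) (nat_lit 443108256) (nat_lit 0) (nat_lit 1719641327) (nat_lit 228) (nat_lit 443108256) (nat_lit 163) (nat_lit 1) (nat_lit 162) (nat_lit 1) (nat_lit 165) (nat_lit 1) (nat_lit 385) (nat_lit 361) (nat_lit 274)) (XT.lf (nat_lit 228) (nat_lit 130583780) (nat_lit 0) (nat_lit 1223965415) (nat_lit 152) (nat_lit 1223965415) (nat_lit 163) (nat_lit 1) (nat_lit 160) (nat_lit 1) (nat_lit 162) (nat_lit 1) (nat_lit 386) (nat_lit 361) (nat_lit 273)))))) (XT.nd (nat_lit 390) (nat_lit 456) (nat_lit 0) (XT.nd (nat_lit 156) (nat_lit 380) (nat_lit 0) (XT.nd (nat_lit 78) (nat_lit 0) (nat_lit 0) (XT.lf (nat_lit 228) (nat_lit 1953171512) (nat_lit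 0) (nat_lit 299204152) (nat_lit 152) (nat_lit 299204152) (nat_lit 160) (nat_lit 1) (nat_lit 157) (nat_lit 1) (nat_lit 159) (nat_lit 1) (nat_lit 387) (nat_lit 361) (nat_lit 272)) (XT.lf (nat_lit 76) (nat_lit 601180484) (nat_lit 0) (nat_lit 1322468749) (nat_lit 228) (nat_lit 601180484) (nat_lit 158) (nat_lit 1) (nat_lit 157) (nat_lit 1) (nat_lit 160) (nat_lit 1) (nat_lit 388) (nat_lit 361) (nat_lit 271))) (XT.nd (nat_lit 78) (nat_lit 228) (nat_lit 0) (XT.lf (nat_lit 228) (nat_lit 460453315) (nat_lit 0) (nat_lit 1019013900) (nat_lit 152) (nat_lit 1019013900) (nat_lit 158) (nat_lit 1) (nat_lit 155) (nat_lit 1) (nat_lit 157) (nat_lit 1) (nat_lit 389) (nat_lit 361) (nat_lit 270)) (XT.nd (nat_lit 78) (nat_lit 0) (nat_lit 0) (XT.lf (nat_lit 228) (nat_lit 2210801775) (nat_lit 0) (nat_lit 130906061) (nat_lit 152) (nat_lit 130906061) (nat_lit 155) (nat_lit 1) (nat_lit 152) (nat_lit 1) (nat_lit 154) (nat_lit 1)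 (nat_lit 390) (nat_lit 361) (nat_lit 269)) (XT.lf (nat_lit 76) (nat_lit 735582373) (nat_lit 0) (nat_lit 975568881) (nat_lit 228) (nat_lit 735582373) (nat_lit 153) (nat_lit 1) (nat_lit 152) (nat_lit 1) (nat_lit 155) (nat_lit 1) (nat_lit 391) (nat_lit 361) (nat_lit 268))))) (XT.nd (nat_lit 156) (nat_lit 304) (nat_lit 0) (XT.nd (nat_lit 78) (nat_lit 0) (nat_lit 0) (XT.lf (nat_lit 228) (nat_lit 743506144) (nat_lit 0) (nat_lit 838911217) (nat_lit 152) (nat_lit 838911217) (nat_lit 153) (nat_lit 1) (nat_lit 150) (nat_lit 1) (nat_lit 152) (nat_lit 1) (nat_lit 392) (nat_lit 361) (nat_lit 267)) (XT.lf (nat_lit 76) (nat_lit 14840017) (nat_lit 0) (nat_lit 2366769037) (nat_lit 228) (nat_lit 14840017) (nat_lit 151) (nat_lit 1) (nat_lit 150) (nat_lit 1) (nat_lit 153) (nat_lit 1) (nat_lit 393) (nat_lit 361) (nat_lit 266))) (XT.nd (nat_lit 78) (nat_lit 152) (nat_lit 0) (XT.lf (nat_lit 76) (nat_lit 849129488) (nat_lit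 0) (nat_lit 673161410) (nat_lit 152) (nat_lit 849129488) (nat_lit 149) (nat_lit 1) (nat_lit 148) (nat_lit 1) (nat_lit 150) (nat_lit 1) (nat_lit 394) (nat_lit 361) (nat_lit 265)) (XT.nd (nat_lit 78) (nat_lit 0) (nat_lit 0) (XT.lf (nat_lit 228) (nat_lit 985255130) (nat_lit 0) (nat_lit 680828319) (nat_lit 152) (nat_lit 680828319) (nat_lit 149) (nat_lit 1) (nat_lit 146) (nat_lit 1) (nat_lit 148) (nat_lit 1) (nat_lit 395) (nat_lit 361) (nat_lit 264)) (XT.lf (nat_lit 76) (nat_lit 141631691) (nat_lit 0) (nat_lit 2039569483) (nat_lit 228) (nat_lit 141631691) (nat_lit 147) (nat_lit 1) (nat_lit 146) (nat_lit 1) (nat_lit 149) (nat_lit 1) (nat_lit 396) (nat_lit 361) (nat_lit 263))))))) (XT.nd (nat_lit 702) (nat_lit 988) (nat_lit 0) (XT.nd (nat_lit 312) (nat_lit 456) (nat_lit 0) (XT.nd (nat_lit 156) (nat_lit 152) (nat_lit 0) (XT.nd (nat_lit 78) (nat_lit 152) (nat_lit 0) (XT.lf (nat_lit 76) (nat_lit 944318297) (nat_lit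 0) (nat_lit 410115674) (nat_lit 152) (nat_lit 944318297) (nat_lit 145) (nat_lit 1) (nat_lit 144) (nat_lit 1) (nat_lit 146) (nat_lit 1) (nat_lit 397) (nat_lit 361) (nat_lit 262)) (XT.lf (nat_lit 228) (nat_lit 1190589869) (nat_lit 0) (nat_lit 542253326) (nat_lit 152) (nat_lit 542253326) (nat_lit 145) (nat_lit 1) (nat_lit 142) (nat_lit 1) (nat_lit 144) (nat_lit 1) (nat_lit 398) (nat_lit 361) (nat_lit 261))) (XT.nd (nat_lit 78) (nat_lit 152) (nat_lit 0) (XT.lf (nat_lit 76) (nat_lit 250543291) (nat_lit 0) (nat_lit 1750699853) (nat_lit 228) (nat_lit 250543291) (nat_lit 143) (nat_lit 1) (nat_lit 142) (nat_lit 1) (nat_lit 145) (nat_lit 1) (nat_lit 399) (nat_lit 361) (nat_lit 260)) (XT.lf (nat_lit 76) (nat_lit 1023361901) (nat_lit 0) (nat_lit 181878076) (nat_lit 152) (nat_lit 1023361901) (nat_lit 141) (nat_lit 1) (nat_lit 140) (nat_lit 1) (nat_lit 142) (nat_lit 1) (nat_lit 400) (nat_lit 361) (nat_lit 259))))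 (XT.nd (nat_lit 156) (nat_lit 304) (nat_lit 0) (XT.nd (nat_lit 78) (nat_lit 0) (nat_lit 0) (XT.lf (nat_lit 228) (nat_lit 1363846442) (nat_lit 0) (nat_lit 420956108) (nat_lit 152) (nat_lit 420956108) (nat_lit 141) (nat_lit 1) (nat_lit 138) (nat_lit 1) (nat_lit 140) (nat_lit 1) (nat_lit 401) (nat_lit 361) (nat_lit 258)) (XT.lf (nat_lit 76) (nat_lit 343677642) (nat_lit 0) (nat_lit 1495832187) (nat_lit 228) (nat_lit 343677642) (nat_lit 139) (nat_lit 1) (nat_lit 138) (nat_lit 1) (nat_lit 141) (nat_lit 1) (nat_lit 402) (nat_lit 361) (nat_lit 257))) (XT.nd (nat_lit 78) (nat_lit 228) (nat_lit 0) (XT.lf (nat_lit 152) (nat_lit 15902731) (nat_lit 0) (nat_lit 1072471915) (nat_lit 76) (nat_lit 1072471915) (nat_lit 139) (nat_lit 1) (nat_lit 137) (nat_lit 1) (nat_lit 138) (nat_lit 1) (nat_lit 403) (nat_lit 361) (nat_lit 256)) (XT.nd (nat_lit 78) (nat_lit 0) (nat_lit 0) (XT.lf (nat_lit 228) (nat_lit 1508869379) (nat_lit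 0) (nat_lit 314956817) (nat_lit 152) (nat_lit 314956817) (nat_lit 137) (nat_lit 1) (nat_lit 134) (nat_lit 1) (nat_lit 136) (nat_lit 1) (nat_lit 404) (nat_lit 361) (nat_lit 255)) (XT.lf (nat_lit 76) (nat_lit 422899903) (nat_lit 0) (nat_lit 1271122711) (nat_lit 228) (nat_lit 422899903) (nat_lit 135) (nat_lit 1) (nat_lit 134) (nat_lit 1) (nat_lit 137) (nat_lit 1) (nat_lit 405) (nat_lit 361) (nat_lit 254)))))) (XT.nd (nat_lit 390) (nat_lit 380) (nat_lit 0) (XT.nd (nat_lit 156) (nat_lit 304) (nat_lit 0) (XT.nd (nat_lit 78) (nat_lit 228) (nat_lit 0) (XT.lf (nat_lit 152) (nat_lit 189580953) (nat_lit 0) (nat_lit 952877406) (nat_lit 76) (nat_lit 952877406) (nat_lit 135) (nat_lit 1) (nat_lit 133) (nat_lit 1) (nat_lit 134) (nat_lit 1) (nat_lit 406) (nat_lit 361) (nat_lit 253)) (XT.lf (nat_lit 228) (nat_lit 1629066706) (nat_lit 0) (nat_lit 222497934) (nat_lit 152) (nat_lit 222497934) (nat_lit 133) (nat_lit 1) (nat_lit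 130) (nat_lit 1) (nat_lit 132) (nat_lit 1) (nat_lit 407) (nat_lit 361) (nat_lit 252))) (XT.nd (nat_lit 78) (nat_lit 304) (nat_lit 0) (XT.lf (nat_lit 76) (nat_lit 489864164) (nat_lit 0) (nat_lit 1073157801) (nat_lit 228) (nat_lit 489864164) (nat_lit 131) (nat_lit 1) (nat_lit 130) (nat_lit 1) (nat_lit 133) (nat_lit 1) (nat_lit 408) (nat_lit 361) (nat_lit 251)) (XT.nd (nat_lit 78) (nat_lit 228) (nat_lit 0) (XT.lf (nat_lit 152) (nat_lit 338781563) (nat_lit 0) (nat_lit 846619233) (nat_lit 76) (nat_lit 846619233) (nat_lit 131) (nat_lit 1) (nat_lit 129) (nat_lit 1) (nat_lit 130) (nat_lit 1) (nat_lit 409) (nat_lit 361) (nat_lit 250)) (XT.lf (nat_lit 228) (nat_lit 1727458849) (nat_lit 0) (nat_lit 142019428) (nat_lit 152) (nat_lit 142019428) (nat_lit 129) (nat_lit 1) (nat_lit 126) (nat_lit 1) (nat_lit 128) (nat_lit 1) (nat_lit 410) (nat_lit 361) (nat_lit 249))))) (XT.nd (nat_lit 156) (nat_lit 304) (nat_lit 0)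 (XT.nd (nat_lit 78) (nat_lit 76) (nat_lit 0) (XT.lf (nat_lit 76) (nat_lit 546037069) (nat_lit 0) (nat_lit 898905967) (nat_lit 228) (nat_lit 546037069) (nat_lit 127) (nat_lit 1) (nat_lit 126) (nat_lit 1) (nat_lit 129) (nat_lit 1) (nat_lit 411) (nat_lit 361) (nat_lit 248)) (XT.lf (nat_lit 152) (nat_lit 466382974) (nat_lit 0) (nat_lit 752210223) (nat_lit 76) (nat_lit 752210223) (nat_lit 127) (nat_lit 1) (nat_lit 125) (nat_lit 1) (nat_lit 126) (nat_lit 1) (nat_lit 412) (nat_lit 361) (nat_lit 247))) (XT.nd (nat_lit 78) (nat_lit 76) (nat_lit 0) (XT.lf (nat_lit 228) (nat_lit 1806722076) (nat_lit 0) (nat_lit 72136689) (nat_lit 152) (nat_lit 72136689) (nat_lit 125) (nat_lit 1) (nat_lit 122) (nat_lit 1) (nat_lit 124) (nat_lit 1) (nat_lit 413) (nat_lit 361) (nat_lit 246)) (XT.nd (nat_lit 78) (nat_lit 76) (nat_lit 0) (XT.lf (nat_lit 76) (nat_lit 592718809) (nat_lit 0) (nat_lit 745675202) (nat_lit 228) (nat_lit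 592718809) (nat_lit 123) (nat_lit 1) (nat_lit 122) (nat_lit 1) (nat_lit 125) (nat_lit 1) (nat_lit 414) (nat_lit 361) (nat_lit 245)) (XT.lf (nat_lit 152) (nat_lit 574938284) (nat_lit 0) (nat_lit 668329040) (nat_lit 76) (nat_lit 668329040) (nat_lit 123) (nat_lit 1) (nat_lit 121) (nat_lit 1) (nat_lit 122) (nat_lit 1) (nat_lit 415) (nat_lit 361) (nat_lit 244))))))))
noncomputable def ec127 : XT := (XT.nd (nat_lit 1482) (nat_lit 152) (nat_lit 0) (XT.nd (nat_lit 702) (nat_lit 684) (nat_lit 0) (XT.nd (nat_lit 312) (nat_lit 456) (nat_lit 0) (XT.nd (nat_lit 156) (nat_lit 76) (nat_lit 0) (XT.nd (nat_lit 78) (nat_lit 0) (nat_lit 0) (XT.lf (nat_lit 228) (nat_lit 1869227089) (nat_lit 0) (nat_lit 11620928) (nat_lit 152) (nat_lit 11620928) (nat_lit 121) (nat_lit 1) (nat_lit 118) (nat_lit 1) (nat_lit 120) (nat_lit 1) (nat_lit 416) (nat_lit 361) (nat_lit 243)) (XT.lf (nat_lit 76) (nat_lit 631061767) (nat_lit 0) (nat_lit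 611075083) (nat_lit 228) (nat_lit 631061767) (nat_lit 119) (nat_lit 1) (nat_lit 118) (nat_lit 1) (nat_lit 121) (nat_lit 1) (nat_lit 417) (nat_lit 361) (nat_lit 242))) (XT.nd (nat_lit 78) (nat_lit 0) (nat_lit 0) (XT.lf (nat_lit 152) (nat_lit 666711677) (nat_lit 0) (nat_lit 593801696) (nat_lit 76) (nat_lit 593801696) (nat_lit 119) (nat_lit 1) (nat_lit 117) (nat_lit 1) (nat_lit 118) (nat_lit 1) (nat_lit 418) (nat_lit 361) (nat_lit 241)) (XT.lf (nat_lit 0) (nat_lit 41020403) (nat_lit 0) (nat_lit 1753748456) (nat_lit 152) (nat_lit 41020403) (nat_lit 117) (nat_lit 3) (nat_lit 117) (nat_lit 1) (nat_lit 119) (nat_lit 1) (nat_lit 419) (nat_lit 361) (nat_lit 240)))) (XT.nd (nat_lit 156) (nat_lit 228) (nat_lit 0) (XT.nd (nat_lit 78) (nat_lit 76) (nat_lit 0) (XT.lf (nat_lit 76) (nat_lit 662087083) (nat_lit 0) (nat_lit 492983096) (nat_lit 152) (nat_lit 662087083) (nat_lit 116) (nat_lit 1) (nat_lit 115) (nat_lit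 1) (nat_lit 117) (nat_lit 1) (nat_lit 420) (nat_lit 361) (nat_lit 239)) (XT.lf (nat_lit 152) (nat_lit 743710766) (nat_lit 0) (nat_lit 527585116) (nat_lit 76) (nat_lit 527585116) (nat_lit 116) (nat_lit 1) (nat_lit 114) (nat_lit 1) (nat_lit 115) (nat_lit 1) (nat_lit 421) (nat_lit 361) (nat_lit 238))) (XT.nd (nat_lit 78) (nat_lit 228) (nat_lit 0) (XT.lf (nat_lit 0) (nat_lit 86395297) (nat_lit 0) (nat_lit 1608131989) (nat_lit 152) (nat_lit 86395297) (nat_lit 114) (nat_lit 3) (nat_lit 114) (nat_lit 1) (nat_lit 116) (nat_lit 1) (nat_lit 422) (nat_lit 361) (nat_lit 237)) (XT.nd (nat_lit 78) (nat_lit 76) (nat_lit 0) (XT.lf (nat_lit 76) (nat_lit 686699367) (nat_lit 0) (nat_lit 389514727) (nat_lit 152) (nat_lit 686699367) (nat_lit 113) (nat_lit 1) (nat_lit 112) (nat_lit 1) (nat_lit 114) (nat_lit 1) (nat_lit 423) (nat_lit 361) (nat_lit 236)) (XT.lf (nat_lit 152) (nat_lit 807715321) (nat_lit 0) (nat_lit 468752542)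 (nat_lit 76) (nat_lit 468752542) (nat_lit 113) (nat_lit 1) (nat_lit 111) (nat_lit 1) (nat_lit 112) (nat_lit 1) (nat_lit 424) (nat_lit 361) (nat_lit 235)))))) (XT.nd (nat_lit 390) (nat_lit 304) (nat_lit 0) (XT.nd (nat_lit 156) (nat_lit 228) (nat_lit 0) (XT.nd (nat_lit 78) (nat_lit 152) (nat_lit 0) (XT.lf (nat_lit 0) (nat_lit 125255471) (nat_lit 0) (nat_lit 1477298812) (nat_lit 152) (nat_lit 125255471) (nat_lit 111) (nat_lit 3) (nat_lit 111) (nat_lit 1) (nat_lit 113) (nat_lit 1) (nat_lit 425) (nat_lit 361) (nat_lit 234)) (XT.lf (nat_lit 76) (nat_lit 705699774) (nat_lit 0) (nat_lit 298996878) (nat_lit 152) (nat_lit 705699774) (nat_lit 110) (nat_lit 1) (nat_lit 109) (nat_lit 1) (nat_lit 111) (nat_lit 1) (nat_lit 426) (nat_lit 361) (nat_lit 233))) (XT.nd (nat_lit 78) (nat_lit 152) (nat_lit 0) (XT.lf (nat_lit 152) (nat_lit 860302793) (nat_lit 0) (nat_lit 416480562) (nat_lit 76) (nat_lit 416480562) (nat_lit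 110) (nat_lit 1) (nat_lit 108) (nat_lit 1) (nat_lit 109) (nat_lit 1) (nat_lit 427) (nat_lit 361) (nat_lit 232)) (XT.nd (nat_lit 78) (nat_lit 152) (nat_lit 0) (XT.lf (nat_lit 0) (nat_lit 158369775) (nat_lit 0) (nat_lit 1359642772) (nat_lit 152) (nat_lit 158369775) (nat_lit 108) (nat_lit 3) (nat_lit 108) (nat_lit 1) (nat_lit 110) (nat_lit 1) (nat_lit 428) (nat_lit 361) (nat_lit 231)) (XT.lf (nat_lit 76) (nat_lit 719797614) (nat_lit 0) (nat_lit 219944260) (nat_lit 152) (nat_lit 719797614) (nat_lit 107) (nat_lit 1) (nat_lit 106) (nat_lit 1) (nat_lit 108) (nat_lit 1) (nat_lit 429) (nat_lit 361) (nat_lit 230))))) (XT.nd (nat_lit 156) (nat_lit 228) (nat_lit 0) (XT.nd (nat_lit 78) (nat_lit 0) (nat_lit 0) (XT.lf (nat_lit 152) (nat_lit 902870988) (nat_lit 0) (nat_lit 370037585) (nat_lit 76) (nat_lit 370037585) (nat_lit 107) (nat_lit 1) (nat_lit 105) (nat_lit 1) (nat_lit 106) (nat_lit 1) (nat_lit 430) (nat_lit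 361) (nat_lit 229)) (XT.lf (nat_lit 0) (nat_lit 186420088) (nat_lit 0) (nat_lit 1253735587) (nat_lit 152) (nat_lit 186420088) (nat_lit 105) (nat_lit 3) (nat_lit 105) (nat_lit 1) (nat_lit 107) (nat_lit 1) (nat_lit 431) (nat_lit 361) (nat_lit 228))) (XT.nd (nat_lit 78) (nat_lit 76) (nat_lit 0) (XT.lf (nat_lit 76) (nat_lit 729620668) (nat_lit 0) (nat_lit 151038409) (nat_lit 152) (nat_lit 729620668) (nat_lit 104) (nat_lit 1) (nat_lit 103) (nat_lit 1) (nat_lit 105) (nat_lit 1) (nat_lit 432) (nat_lit 361) (nat_lit 227)) (XT.nd (nat_lit 78) (nat_lit 0) (nat_lit 0) (XT.lf (nat_lit 152) (nat_lit 936658207) (nat_lit 0) (nat_lit 328773602) (nat_lit 76) (nat_lit 328773602) (nat_lit 104) (nat_lit 1) (nat_lit 102) (nat_lit 1) (nat_lit 103) (nat_lit 1) (nat_lit 433) (nat_lit 361) (nat_lit 226)) (XT.lf (nat_lit 0) (nat_lit 210011051) (nat_lit 0) (nat_lit 1158307047) (nat_lit 152) (nat_lit 210011051) (nat_lit 102) (nat_lit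 3) (nat_lit 102) (nat_lit 1) (nat_lit 104) (nat_lit 1) (nat_lit 434) (nat_lit 361) (nat_lit 225))))))) (XT.nd (nat_lit 42900) (nat_lit 0) (nat_lit 19988) (XT.nd (nat_lit 42510) (nat_lit 0) (nat_lit 20900) (XT.nd (nat_lit 42354) (nat_lit 0) (nat_lit 20824) (XT.nd (nat_lit 42276) (nat_lit 0) (nat_lit 20824) (XT.lf (nat_lit 76) (nat_lit 735724349) (nat_lit 0) (nat_lit 91109051) (nat_lit 152) (nat_lit 735724349) (nat_lit 101) (nat_lit 1) (nat_lit 100) (nat_lit 1) (nat_lit 102) (nat_lit 1) (nat_lit 435) (nat_lit 361) (nat_lit 224)) (XT.lf (nat_lit 1292) (nat_lit 714633911) (nat_lit 0) (nat_lit 2458673009) (nat_lit 1292) (nat_lit 714633911) (nat_lit 391) (nat_lit 1) (nat_lit 374) (nat_lit 0) (nat_lit 391) (nat_lit 0) (nat_lit 296) (nat_lit 362) (nat_lit 362))) (XT.nd (nat_lit 78) (nat_lit 0) (nat_lit 76) (XT.lf (nat_lit 1292) (nat_lit 2792801848) (nat_lit 76) (nat_lit 2434568372) (nat_lit 0) (nat_lit 2434568372)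 (nat_lit 391) (nat_lit 1) (nat_lit 375) (nat_lit 1) (nat_lit 374) (nat_lit 0) (nat_lit 297) (nat_lit 362) (nat_lit 361)) (XT.lf (nat_lit 1292) (nat_lit 1350665562) (nat_lit 0) (nat_lit 4849177742) (nat_lit 1216) (nat_lit 1350665562) (nat_lit 392) (nat_lit 1) (nat_lit 375) (nat_lit 1) (nat_lit 391) (nat_lit 1) (nat_lit 298) (nat_lit 362) (nat_lit 360)))) (XT.nd (nat_lit 156) (nat_lit 0) (nat_lit 76) (XT.nd (nat_lit 78) (nat_lit 0) (nat_lit 76) (XT.lf (nat_lit 1292) (nat_lit 2564983637) (nat_lit 76) (nat_lit 2437978171) (nat_lit 0) (nat_lit 2437978171) (nat_lit 392) (nat_lit 1) (nat_lit 376) (nat_lit 1) (nat_lit 375) (nat_lit 1) (nat_lit 299) (nat_lit 362) (nat_lit 359)) (XT.lf (nat_lit 1292) (nat_lit 1203605779) (nat_lit 0) (nat_lit 4926611173) (nat_lit 1216) (nat_lit 1203605779) (nat_lit 393) (nat_lit 1) (nat_lit 376) (nat_lit 1) (nat_lit 392) (nat_lit 1) (nat_lit 300) (nat_lit 362) (nat_lit 358)))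 (XT.nd (nat_lit 78) (nat_lit 0) (nat_lit 76) (XT.lf (nat_lit 1292) (nat_lit 2205734675) (nat_lit 76) (nat_lit 2511341966) (nat_lit 0) (nat_lit 2511341966) (nat_lit 393) (nat_lit 1) (nat_lit 377) (nat_lit 1) (nat_lit 376) (nat_lit 1) (nat_lit 301) (nat_lit 362) (nat_lit 357)) (XT.nd (nat_lit 78) (nat_lit 0) (nat_lit 0) (XT.lf (nat_lit 1292) (nat_lit 994143546) (nat_lit 0) (nat_lit 5137161326) (nat_lit 1216) (nat_lit 994143546) (nat_lit 394) (nat_lit 1) (nat_lit 377) (nat_lit 1) (nat_lit 393) (nat_lit 1) (nat_lit 302) (nat_lit 362) (nat_lit 356)) (XT.lf (nat_lit 1292) (nat_lit 1726808607) (nat_lit 76) (nat_lit 2648600915) (nat_lit 0) (nat_lit 2648600915) (nat_lit 394) (nat_lit 1) (nat_lit 378) (nat_lit 1) (nat_lit 377) (nat_lit 1) (nat_lit 303) (nat_lit 362) (nat_lit 355)))))) (XT.nd (nat_lit 390) (nat_lit 1140) (nat_lit 0) (XT.nd (nat_lit 156) (nat_lit 0) (nat_lit 76) (XT.nd (nat_lit 78) (nat_lit 0)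 (nat_lit 0) (XT.lf (nat_lit 1292) (nat_lit 727924443) (nat_lit 0) (nat_lit 5469180103) (nat_lit 1216) (nat_lit 727924443) (nat_lit 395) (nat_lit 1) (nat_lit 378) (nat_lit 1) (nat_lit 394) (nat_lit 1) (nat_lit 304) (nat_lit 362) (nat_lit 354)) (XT.lf (nat_lit 1292) (nat_lit 1139161782) (nat_lit 76) (nat_lit 2844103491) (nat_lit 0) (nat_lit 2844103491) (nat_lit 395) (nat_lit 1) (nat_lit 379) (nat_lit 1) (nat_lit 378) (nat_lit 1) (nat_lit 305) (nat_lit 362) (nat_lit 353))) (XT.nd (nat_lit 78) (nat_lit 0) (nat_lit 0) (XT.lf (nat_lit 1292) (nat_lit 410209872) (nat_lit 0) (nat_lit 5911804757) (nat_lit 1216) (nat_lit 410209872) (nat_lit 396) (nat_lit 1) (nat_lit 379) (nat_lit 1) (nat_lit 395) (nat_lit 1) (nat_lit 306) (nat_lit 362) (nat_lit 352)) (XT.nd (nat_lit 78) (nat_lit 0) (nat_lit 76) (XT.lf (nat_lit 1292) (nat_lit 453002587) (nat_lit 76) (nat_lit 3092580361) (nat_lit 0) (nat_lit 3092580361) (nat_lit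 396) (nat_lit 1) (nat_lit 380) (nat_lit 1) (nat_lit 379) (nat_lit 1) (nat_lit 307) (nat_lit 362) (nat_lit 351)) (XT.lf (nat_lit 1292) (nat_lit 45900862) (nat_lit 0) (nat_lit 6454909403) (nat_lit 1216) (nat_lit 45900862) (nat_lit 397) (nat_lit 1) (nat_lit 380) (nat_lit 1) (nat_lit 396) (nat_lit 1) (nat_lit 308) (nat_lit 362) (nat_lit 350))))) (XT.nd (nat_lit 156) (nat_lit 0) (nat_lit 76) (XT.nd (nat_lit 78) (nat_lit 0) (nat_lit 0) (XT.lf (nat_lit 1368) (nat_lit 3070055443) (nat_lit 0) (nat_lit 315875604) (nat_lit 1292) (nat_lit 3070055443) (nat_lit 381) (nat_lit 1) (nat_lit 363) (nat_lit 1) (nat_lit 380) (nat_lit 1) (nat_lit 309) (nat_lit 362) (nat_lit 349)) (XT.lf (nat_lit 1368) (nat_lit 5653950800) (nat_lit 76) (nat_lit 356905827) (nat_lit 0) (nat_lit 356905827) (nat_lit 381) (nat_lit 1) (nat_lit 364) (nat_lit 1) (nat_lit 363) (nat_lit 1) (nat_lit 310) (nat_lit 362) (nat_lit 348))) (XT.nd (nat_lit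 78) (nat_lit 0) (nat_lit 0) (XT.lf (nat_lit 1368) (nat_lit 2562985502) (nat_lit 0) (nat_lit 1154506570) (nat_lit 1292) (nat_lit 2562985502) (nat_lit 382) (nat_lit 1) (nat_lit 364) (nat_lit 1) (nat_lit 381) (nat_lit 1) (nat_lit 311) (nat_lit 362) (nat_lit 347)) (XT.nd (nat_lit 78) (nat_lit 0) (nat_lit 76) (XT.lf (nat_lit 1368) (nat_lit 4602050570) (nat_lit 76) (nat_lit 796677366) (nat_lit 0) (nat_lit 796677366) (nat_lit 382) (nat_lit 1) (nat_lit 365) (nat_lit 1) (nat_lit 364) (nat_lit 1) (nat_lit 312) (nat_lit 362) (nat_lit 346)) (XT.lf (nat_lit 76) (nat_lit 2023912548) (nat_lit 0) (nat_lit 2063658634) (nat_lit 1292) (nat_lit 2023912548) (nat_lit 366) (nat_lit 1) (nat_lit 365) (nat_lit 1) (nat_lit 382) (nat_lit 1) (nat_lit 313) (nat_lit 362) (nat_lit 345))))))))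
noncomputable def ec128 : XT := (XT.nd (nat_lit 1404) (nat_lit 4712) (nat_lit 0) (XT.nd (nat_lit 702) (nat_lit 2584) (nat_lit 0) (XT.nd (nat_lit 312) (nat_lit 1824) (nat_lit 0) (XT.nd (nat_lit 156) (nat_lit 608) (nat_lit 0) (XT.nd (nat_lit 78) (nat_lit 0) (nat_lit 0) (XT.lf (nat_lit 912) (nat_lit 3489510165) (nat_lit 0) (nat_lit 1269953515) (nat_lit 836) (nat_lit 1269953515) (nat_lit 366) (nat_lit 1) (nat_lit 354) (nat_lit 1) (nat_lit 365) (nat_lit 1) (nat_lit 314) (nat_lit 362) (nat_lit 344)) (XT.lf (nat_lit 76) (nat_lit 1456453614) (nat_lit 0) (nat_lit 3035827422) (nat_lit 912) (nat_lit 1456453614) (nat_lit 355) (nat_lit 1) (nat_lit 354) (nat_lit 1) (nat_lit 366) (nat_lit 1) (nat_lit 315) (nat_lit 362) (nat_lit 343))) (XT.nd (nat_lit 78) (nat_lit 0) (nat_lit 0) (XT.lf (nat_lit 684) (nat_lit 2323335538) (nat_lit 0) (nat_lit 1773099830) (nat_lit 608) (nat_lit 1773099830) (nat_lit 355) (nat_lit 1) (nat_lit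 346) (nat_lit 1) (nat_lit 354) (nat_lit 1) (nat_lit 316) (nat_lit 362) (nat_lit 342)) (XT.lf (nat_lit 76) (nat_lit 863966258) (nat_lit 0) (nat_lit 4064040010) (nat_lit 684) (nat_lit 863966258) (nat_lit 347) (nat_lit 1) (nat_lit 346) (nat_lit 1) (nat_lit 355) (nat_lit 1) (nat_lit 317) (nat_lit 362) (nat_lit 341)))) (XT.nd (nat_lit 156) (nat_lit 1216) (nat_lit 0) (XT.nd (nat_lit 78) (nat_lit 0) (nat_lit 0) (XT.lf (nat_lit 684) (nat_lit 1110027800) (nat_lit 0) (nat_lit 2302740334) (nat_lit 608) (nat_lit 2302740334) (nat_lit 347) (nat_lit 1) (nat_lit 338) (nat_lit 1) (nat_lit 346) (nat_lit 1) (nat_lit 318) (nat_lit 362) (nat_lit 340)) (XT.lf (nat_lit 76) (nat_lit 249564967) (nat_lit 0) (nat_lit 5141821478) (nat_lit 684) (nat_lit 249564967) (nat_lit 339) (nat_lit 1) (nat_lit 338) (nat_lit 1) (nat_lit 347) (nat_lit 1) (nat_lit 319) (nat_lit 362) (nat_lit 339))) (XT.nd (nat_lit 78) (nat_lit 608) (nat_lit 0)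 (XT.lf (nat_lit 76) (nat_lit 2712744348) (nat_lit 0) (nat_lit 141567334) (nat_lit 608) (nat_lit 2712744348) (nat_lit 331) (nat_lit 1) (nat_lit 330) (nat_lit 1) (nat_lit 338) (nat_lit 1) (nat_lit 320) (nat_lit 362) (nat_lit 338)) (XT.nd (nat_lit 78) (nat_lit 0) (nat_lit 0) (XT.lf (nat_lit 684) (nat_lit 4734791509) (nat_lit 0) (nat_lit 380100053) (nat_lit 608) (nat_lit 380100053) (nat_lit 331) (nat_lit 1) (nat_lit 322) (nat_lit 1) (nat_lit 330) (nat_lit 1) (nat_lit 321) (nat_lit 362) (nat_lit 337)) (XT.lf (nat_lit 76) (nat_lit 2008666295) (nat_lit 0) (nat_lit 1406328160) (nat_lit 684) (nat_lit 2008666295) (nat_lit 323) (nat_lit 1) (nat_lit 322) (nat_lit 1) (nat_lit 331) (nat_lit 1) (nat_lit 322) (nat_lit 362) (nat_lit 336)))))) (XT.nd (nat_lit 312) (nat_lit 1520) (nat_lit 0) (XT.nd (nat_lit 156) (nat_lit 532) (nat_lit 0) (XT.nd (nat_lit 78) (nat_lit 0) (nat_lit 0) (XT.lf (nat_lit 608) (nat_lit 3306983004)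 (nat_lit 0) (nat_lit 1023511451) (nat_lit 532) (nat_lit 1023511451) (nat_lit 323) (nat_lit 1) (nat_lit 315) (nat_lit 1) (nat_lit 322) (nat_lit 1) (nat_lit 323) (nat_lit 362) (nat_lit 335)) (XT.lf (nat_lit 76) (nat_lit 1292290402) (nat_lit 0) (nat_lit 2700845377) (nat_lit 608) (nat_lit 1292290402) (nat_lit 316) (nat_lit 1) (nat_lit 315) (nat_lit 1) (nat_lit 323) (nat_lit 1) (nat_lit 324) (nat_lit 362) (nat_lit 334))) (XT.nd (nat_lit 78) (nat_lit 0) (nat_lit 0) (XT.lf (nat_lit 608) (nat_lit 1856740569) (nat_lit 0) (nat_lit 1680666062) (nat_lit 532) (nat_lit 1680666062) (nat_lit 316) (nat_lit 1) (nat_lit 308) (nat_lit 1) (nat_lit 315) (nat_lit 1) (nat_lit 325) (nat_lit 362) (nat_lit 333)) (XT.lf (nat_lit 76) (nat_lit 565857997) (nat_lit 0) (nat_lit 4020429521) (nat_lit 608) (nat_lit 565857997) (nat_lit 309) (nat_lit 1) (nat_lit 308) (nat_lit 1) (nat_lit 316) (nat_lit 1) (nat_lit 326) (nat_lit 362) (nat_lit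 332)))) (XT.nd (nat_lit 156) (nat_lit 456) (nat_lit 0) (XT.nd (nat_lit 78) (nat_lit 608) (nat_lit 0) (XT.lf (nat_lit 532) (nat_lit 388392664) (nat_lit 0) (nat_lit 2349298922) (nat_lit 456) (nat_lit 2349298922) (nat_lit 309) (nat_lit 1) (nat_lit 302) (nat_lit 1) (nat_lit 308) (nat_lit 1) (nat_lit 327) (nat_lit 362) (nat_lit 331)) (XT.lf (nat_lit 608) (nat_lit 4689605008) (nat_lit 0) (nat_lit 166910393) (nat_lit 532) (nat_lit 166910393) (nat_lit 302) (nat_lit 1) (nat_lit 294) (nat_lit 1) (nat_lit 301) (nat_lit 1) (nat_lit 328) (nat_lit 362) (nat_lit 330))) (XT.nd (nat_lit 78) (nat_lit 456) (nat_lit 0) (XT.lf (nat_lit 76) (nat_lit 1943765652) (nat_lit 0) (nat_lit 1072720053) (nat_lit 608) (nat_lit 1943765652) (nat_lit 295) (nat_lit 1) (nat_lit 294) (nat_lit 1) (nat_lit 302) (nat_lit 1) (nat_lit 329) (nat_lit 362) (nat_lit 329)) (XT.nd (nat_lit 78) (nat_lit 0) (nat_lit 0) (XT.lf (nat_lit 532) (nat_lit 3098302107)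 (nat_lit 0) (nat_lit 900154264) (nat_lit 456) (nat_lit 900154264) (nat_lit 295) (nat_lit 1) (nat_lit 288) (nat_lit 1) (nat_lit 294) (nat_lit 1) (nat_lit 330) (nat_lit 362) (nat_lit 328)) (XT.lf (nat_lit 76) (nat_lit 1150691954) (nat_lit 0) (nat_lit 2536487881) (nat_lit 532) (nat_lit 1150691954) (nat_lit 289) (nat_lit 1) (nat_lit 288) (nat_lit 1) (nat_lit 295) (nat_lit 1) (nat_lit 331) (nat_lit 362) (nat_lit 327))))))) (XT.nd (nat_lit 702) (nat_lit 2128) (nat_lit 0) (XT.nd (nat_lit 312) (nat_lit 1216) (nat_lit 0) (XT.nd (nat_lit 156) (nat_lit 912) (nat_lit 0) (XT.nd (nat_lit 78) (nat_lit 0) (nat_lit 0) (XT.lf (nat_lit 532) (nat_lit 1502809393) (nat_lit 0) (nat_lit 1637684174) (nat_lit 456) (nat_lit 1637684174) (nat_lit 289) (nat_lit 1) (nat_lit 282) (nat_lit 1) (nat_lit 288) (nat_lit 1) (nat_lit 332) (nat_lit 362) (nat_lit 326)) (XT.lf (nat_lit 76) (nat_lit 356307514) (nat_lit 0) (nat_lit 4007173949)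 (nat_lit 532) (nat_lit 356307514) (nat_lit 283) (nat_lit 1) (nat_lit 282) (nat_lit 1) (nat_lit 289) (nat_lit 1) (nat_lit 333) (nat_lit 362) (nat_lit 325))) (XT.nd (nat_lit 78) (nat_lit 456) (nat_lit 0) (XT.lf (nat_lit 76) (nat_lit 2284955453) (nat_lit 0) (nat_lit 92018634) (nat_lit 456) (nat_lit 2284955453) (nat_lit 277) (nat_lit 1) (nat_lit 276) (nat_lit 1) (nat_lit 282) (nat_lit 1) (nat_lit 334) (nat_lit 362) (nat_lit 324)) (XT.lf (nat_lit 532) (nat_lit 3738018704) (nat_lit 0) (nat_lit 433654649) (nat_lit 456) (nat_lit 433654649) (nat_lit 277) (nat_lit 1) (nat_lit 270) (nat_lit 1) (nat_lit 276) (nat_lit 1) (nat_lit 335) (nat_lit 362) (nat_lit 323)))) (XT.nd (nat_lit 156) (nat_lit 836) (nat_lit 0) (XT.nd (nat_lit 78) (nat_lit 380) (nat_lit 0) (XT.lf (nat_lit 76) (nat_lit 1446673143) (nat_lit 0) (nat_lit 1655950804) (nat_lit 532) (nat_lit 1446673143) (nat_lit 271) (nat_lit 1) (nat_lit 270) (nat_lit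 1) (nat_lit 277) (nat_lit 1) (nat_lit 336) (nat_lit 362) (nat_lit 322)) (XT.lf (nat_lit 456) (nat_lit 2057041166) (nat_lit 0) (nat_lit 1218692061) (nat_lit 380) (nat_lit 1218692061) (nat_lit 271) (nat_lit 1) (nat_lit 265) (nat_lit 1) (nat_lit 270) (nat_lit 1) (nat_lit 337) (nat_lit 362) (nat_lit 321))) (XT.nd (nat_lit 78) (nat_lit 836) (nat_lit 0) (XT.lf (nat_lit 76) (nat_lit 612363851) (nat_lit 0) (nat_lit 3215830784) (nat_lit 456) (nat_lit 612363851) (nat_lit 266) (nat_lit 1) (nat_lit 265) (nat_lit 1) (nat_lit 271) (nat_lit 1) (nat_lit 338) (nat_lit 362) (nat_lit 320)) (XT.nd (nat_lit 78) (nat_lit 456) (nat_lit 0) (XT.lf (nat_lit 456) (nat_lit 385128626) (nat_lit 0) (nat_lit 2001106856) (nat_lit 380) (nat_lit 2001106856) (nat_lit 266) (nat_lit 1) (nat_lit 260) (nat_lit 1) (nat_lit 265) (nat_lit 1) (nat_lit 339) (nat_lit 362) (nat_lit 319)) (XT.lf (nat_lit 456) (nat_lit 3905737601) (nat_lit 0) (nat_lit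 214788016) (nat_lit 380) (nat_lit 214788016) (nat_lit 260) (nat_lit 1) (nat_lit 254) (nat_lit 1) (nat_lit 259) (nat_lit 1) (nat_lit 340) (nat_lit 362) (nat_lit 318)))))) (XT.nd (nat_lit 390) (nat_lit 988) (nat_lit 0) (XT.nd (nat_lit 156) (nat_lit 760) (nat_lit 0) (XT.nd (nat_lit 78) (nat_lit 380) (nat_lit 0) (XT.lf (nat_lit 76) (nat_lit 1516383377) (nat_lit 0) (nat_lit 1250799416) (nat_lit 456) (nat_lit 1516383377) (nat_lit 255) (nat_lit 1) (nat_lit 254) (nat_lit 1) (nat_lit 260) (nat_lit 1) (nat_lit 341) (nat_lit 362) (nat_lit 317)) (XT.lf (nat_lit 456) (nat_lit 2172959506) (nat_lit 0) (nat_lit 1030004621) (nat_lit 380) (nat_lit 1030004621) (nat_lit 255) (nat_lit 1) (nat_lit 249) (nat_lit 1) (nat_lit 254) (nat_lit 1) (nat_lit 342) (nat_lit 362) (nat_lit 316))) (XT.nd (nat_lit 78) (nat_lit 760) (nat_lit 0) (XT.lf (nat_lit 76) (nat_lit 658340368) (nat_lit 0) (nat_lit 2866537667) (nat_lit 456) (nat_lit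 658340368) (nat_lit 250) (nat_lit 1) (nat_lit 249) (nat_lit 1) (nat_lit 255) (nat_lit 1) (nat_lit 343) (nat_lit 362) (nat_lit 315)) (XT.nd (nat_lit 78) (nat_lit 456) (nat_lit 0) (XT.lf (nat_lit 380) (nat_lit 457238814) (nat_lit 0) (nat_lit 1838429869) (nat_lit 304) (nat_lit 1838429869) (nat_lit 250) (nat_lit 1) (nat_lit 245) (nat_lit 1) (nat_lit 249) (nat_lit 1) (nat_lit 344) (nat_lit 362) (nat_lit 314)) (XT.lf (nat_lit 456) (nat_lit 3708100464) (nat_lit 0) (nat_lit 188977899) (nat_lit 380) (nat_lit 188977899) (nat_lit 245) (nat_lit 1) (nat_lit 239) (nat_lit 1) (nat_lit 244) (nat_lit 1) (nat_lit 345) (nat_lit 362) (nat_lit 313))))) (XT.nd (nat_lit 156) (nat_lit 684) (nat_lit 0) (XT.nd (nat_lit 78) (nat_lit 304) (nat_lit 0) (XT.lf (nat_lit 76) (nat_lit 1411204762) (nat_lit 0) (nat_lit 1215806384) (nat_lit 456) (nat_lit 1411204762) (nat_lit 240) (nat_lit 1) (nat_lit 239) (nat_lit 1) (nat_lit 245) (nat_lit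 1) (nat_lit 346) (nat_lit 362) (nat_lit 312)) (XT.lf (nat_lit 380) (nat_lit 1950595739) (nat_lit 0) (nat_lit 1020413025) (nat_lit 304) (nat_lit 1020413025) (nat_lit 240) (nat_lit 1) (nat_lit 235) (nat_lit 1) (nat_lit 239) (nat_lit 1) (nat_lit 347) (nat_lit 362) (nat_lit 311))) (XT.nd (nat_lit 78) (nat_lit 684) (nat_lit 0) (XT.lf (nat_lit 76) (nat_lit 542430879) (nat_lit 0) (nat_lit 2860566337) (nat_lit 380) (nat_lit 542430879) (nat_lit 236) (nat_lit 1) (nat_lit 235) (nat_lit 1) (nat_lit 240) (nat_lit 1) (nat_lit 348) (nat_lit 362) (nat_lit 310)) (XT.nd (nat_lit 78) (nat_lit 380) (nat_lit 0) (XT.lf (nat_lit 380) (nat_lit 216298562) (nat_lit 0) (nat_lit 1841829312) (nat_lit 304) (nat_lit 1841829312) (nat_lit 236) (nat_lit 1) (nat_lit 231) (nat_lit 1) (nat_lit 235) (nat_lit 1) (nat_lit 349) (nat_lit 362) (nat_lit 309)) (XT.lf (nat_lit 380) (nat_lit 3232443103) (nat_lit 0) (nat_lit 311470259) (nat_lit 304)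 (nat_lit 311470259) (nat_lit 231) (nat_lit 1) (nat_lit 226) (nat_lit 1) (nat_lit 230) (nat_lit 1) (nat_lit 350) (nat_lit 362) (nat_lit 308))))))))
noncomputable def ec129 : XT := (XT.nd (nat_lit 1482) (nat_lit 2584) (nat_lit 0) (XT.nd (nat_lit 702) (nat_lit 1520) (nat_lit 0) (XT.nd (nat_lit 312) (nat_lit 912) (nat_lit 0) (XT.nd (nat_lit 156) (nat_lit 304) (nat_lit 0) (XT.nd (nat_lit 78) (nat_lit 304) (nat_lit 0) (XT.lf (nat_lit 76) (nat_lit 1173202728) (nat_lit 0) (nat_lit 1464710134) (nat_lit 380) (nat_lit 1173202728) (nat_lit 227) (nat_lit 1) (nat_lit 226) (nat_lit 1) (nat_lit 231) (nat_lit 1) (nat_lit 351) (nat_lit 362) (nat_lit 307)) (XT.lf (nat_lit 380) (nat_lit 1471814828) (nat_lit 0) (nat_lit 1147951920) (nat_lit 304) (nat_lit 1147951920) (nat_lit 227) (nat_lit 1) (nat_lit 222) (nat_lit 1) (nat_lit 226) (nat_lit 1) (nat_lit 352) (nat_lit 362) (nat_lit 306))) (XT.nd (nat_lit 78) (nat_lit 304)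 (nat_lit 0) (XT.lf (nat_lit 76) (nat_lit 304062644) (nat_lit 0) (nat_lit 3117036008) (nat_lit 380) (nat_lit 304062644) (nat_lit 223) (nat_lit 1) (nat_lit 222) (nat_lit 1) (nat_lit 227) (nat_lit 1) (nat_lit 353) (nat_lit 362) (nat_lit 305)) (XT.lf (nat_lit 76) (nat_lit 1713501562) (nat_lit 0) (nat_lit 255875005) (nat_lit 304) (nat_lit 1713501562) (nat_lit 219) (nat_lit 1) (nat_lit 218) (nat_lit 1) (nat_lit 222) (nat_lit 1) (nat_lit 354) (nat_lit 362) (nat_lit 304)))) (XT.nd (nat_lit 156) (nat_lit 608) (nat_lit 0) (XT.nd (nat_lit 78) (nat_lit 0) (nat_lit 0) (XT.lf (nat_lit 380) (nat_lit 2550053807) (nat_lit 0) (nat_lit 545678697) (nat_lit 304) (nat_lit 545678697) (nat_lit 219) (nat_lit 1) (nat_lit 214) (nat_lit 1) (nat_lit 218) (nat_lit 1) (nat_lit 355) (nat_lit 362) (nat_lit 303)) (XT.lf (nat_lit 76) (nat_lit 836699322) (nat_lit 0) (nat_lit 1927018022) (nat_lit 380) (nat_lit 836699322) (nat_lit 215)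 (nat_lit 1) (nat_lit 214) (nat_lit 1) (nat_lit 219) (nat_lit 1) (nat_lit 356) (nat_lit 362) (nat_lit 302))) (XT.nd (nat_lit 78) (nat_lit 380) (nat_lit 0) (XT.lf (nat_lit 304) (nat_lit 803384795) (nat_lit 0) (nat_lit 1378340546) (nat_lit 228) (nat_lit 1378340546) (nat_lit 215) (nat_lit 1) (nat_lit 211) (nat_lit 1) (nat_lit 214) (nat_lit 1) (nat_lit 357) (nat_lit 362) (nat_lit 301)) (XT.nd (nat_lit 78) (nat_lit 0) (nat_lit 0) (XT.lf (nat_lit 380) (nat_lit 3471869774) (nat_lit 0) (nat_lit 24380187) (nat_lit 304) (nat_lit 24380187) (nat_lit 211) (nat_lit 1) (nat_lit 206) (nat_lit 1) (nat_lit 210) (nat_lit 1) (nat_lit 358) (nat_lit 362) (nat_lit 300)) (XT.lf (nat_lit 76) (nat_lit 1293438842) (nat_lit 0) (nat_lit 894239196) (nat_lit 380) (nat_lit 1293438842) (nat_lit 207) (nat_lit 1) (nat_lit 206) (nat_lit 1) (nat_lit 211) (nat_lit 1) (nat_lit 359) (nat_lit 362) (nat_lit 299)))))) (XT.nd (nat_lit 390) (nat_lit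 760) (nat_lit 0) (XT.nd (nat_lit 156) (nat_lit 532) (nat_lit 0) (XT.nd (nat_lit 78) (nat_lit 0) (nat_lit 0) (XT.lf (nat_lit 304) (nat_lit 1718895012) (nat_lit 0) (nat_lit 861802061) (nat_lit 228) (nat_lit 861802061) (nat_lit 207) (nat_lit 1) (nat_lit 203) (nat_lit 1) (nat_lit 206) (nat_lit 1) (nat_lit 360) (nat_lit 362) (nat_lit 298)) (XT.lf (nat_lit 76) (nat_lit 429587313) (nat_lit 0) (nat_lit 2545335857) (nat_lit 304) (nat_lit 429587313) (nat_lit 204) (nat_lit 1) (nat_lit 203) (nat_lit 1) (nat_lit 207) (nat_lit 1) (nat_lit 361) (nat_lit 362) (nat_lit 297))) (XT.nd (nat_lit 78) (nat_lit 228) (nat_lit 0) (XT.lf (nat_lit 76) (nat_lit 1683225339) (nat_lit 0) (nat_lit 450664) (nat_lit 304) (nat_lit 1683225339) (nat_lit 200) (nat_lit 1) (nat_lit 199) (nat_lit 1) (nat_lit 203) (nat_lit 1) (nat_lit 362) (nat_lit 362) (nat_lit 296)) (XT.nd (nat_lit 78) (nat_lit 0) (nat_lit 0) (XT.lf (nat_lit 304) (nat_lit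 2503039282) (nat_lit 0) (nat_lit 413432336) (nat_lit 228) (nat_lit 413432336) (nat_lit 200) (nat_lit 1) (nat_lit 196) (nat_lit 1) (nat_lit 199) (nat_lit 1) (nat_lit 363) (nat_lit 362) (nat_lit 295)) (XT.lf (nat_lit 76) (nat_lit 819996611) (nat_lit 0) (nat_lit 1653269114) (nat_lit 304) (nat_lit 819996611) (nat_lit 197) (nat_lit 1) (nat_lit 196) (nat_lit 1) (nat_lit 200) (nat_lit 1) (nat_lit 364) (nat_lit 362) (nat_lit 294))))) (XT.nd (nat_lit 156) (nat_lit 228) (nat_lit 0) (XT.nd (nat_lit 78) (nat_lit 304) (nat_lit 0) (XT.lf (nat_lit 304) (nat_lit 785875907) (nat_lit 0) (nat_lit 1235669975) (nat_lit 228) (nat_lit 1235669975) (nat_lit 197) (nat_lit 1) (nat_lit 193) (nat_lit 1) (nat_lit 196) (nat_lit 1) (nat_lit 365) (nat_lit 362) (nat_lit 293)) (XT.lf (nat_lit 304) (nat_lit 3171319271) (nat_lit 0) (nat_lit 25321865) (nat_lit 228) (nat_lit 25321865) (nat_lit 193) (nat_lit 1) (nat_lit 189) (nat_lit 1) (nat_lit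 192) (nat_lit 1) (nat_lit 366) (nat_lit 362) (nat_lit 292))) (XT.nd (nat_lit 78) (nat_lit 228) (nat_lit 0) (XT.lf (nat_lit 76) (nat_lit 1154103794) (nat_lit 0) (nat_lit 878394769) (nat_lit 304) (nat_lit 1154103794) (nat_lit 190) (nat_lit 1) (nat_lit 189) (nat_lit 1) (nat_lit 193) (nat_lit 1) (nat_lit 367) (nat_lit 362) (nat_lit 291)) (XT.nd (nat_lit 78) (nat_lit 0) (nat_lit 0) (XT.lf (nat_lit 304) (nat_lit 1461623367) (nat_lit 0) (nat_lit 845198720) (nat_lit 228) (nat_lit 845198720) (nat_lit 190) (nat_lit 1) (nat_lit 186) (nat_lit 1) (nat_lit 189) (nat_lit 1) (nat_lit 368) (nat_lit 362) (nat_lit 290)) (XT.lf (nat_lit 76) (nat_lit 312612710) (nat_lit 0) (nat_lit 2492799568) (nat_lit 304) (nat_lit 312612710) (nat_lit 187) (nat_lit 1) (nat_lit 186) (nat_lit 1) (nat_lit 190) (nat_lit 1) (nat_lit 369) (nat_lit 362) (nat_lit 289))))))) (XT.nd (nat_lit 702) (nat_lit 1292) (nat_lit 0) (XT.nd (nat_lit 312) (nat_lit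 684) (nat_lit 0) (XT.nd (nat_lit 156) (nat_lit 152) (nat_lit 0) (XT.nd (nat_lit 78) (nat_lit 228) (nat_lit 0) (XT.lf (nat_lit 76) (nat_lit 1438559113) (nat_lit 0) (nat_lit 207128370) (nat_lit 228) (nat_lit 1438559113) (nat_lit 184) (nat_lit 1) (nat_lit 183) (nat_lit 1) (nat_lit 186) (nat_lit 1) (nat_lit 370) (nat_lit 362) (nat_lit 288)) (XT.lf (nat_lit 304) (nat_lit 2039781783) (nat_lit 0) (nat_lit 505629622) (nat_lit 228) (nat_lit 505629622) (nat_lit 184) (nat_lit 1) (nat_lit 180) (nat_lit 1) (nat_lit 183) (nat_lit 1) (nat_lit 371) (nat_lit 362) (nat_lit 287))) (XT.nd (nat_lit 78) (nat_lit 152) (nat_lit 0) (XT.lf (nat_lit 76) (nat_lit 603318960) (nat_lit 0) (nat_lit 1811576463) (nat_lit 304) (nat_lit 603318960) (nat_lit 181) (nat_lit 1) (nat_lit 180) (nat_lit 1) (nat_lit 184) (nat_lit 1) (nat_lit 372) (nat_lit 362) (nat_lit 286)) (XT.lf (nat_lit 228) (nat_lit 379999829) (nat_lit 0) (nat_lit 1302913363)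 (nat_lit 152) (nat_lit 1302913363) (nat_lit 181) (nat_lit 1) (nat_lit 178) (nat_lit 1) (nat_lit 180) (nat_lit 1) (nat_lit 373) (nat_lit 362) (nat_lit 285)))) (XT.nd (nat_lit 156) (nat_lit 380) (nat_lit 0) (XT.nd (nat_lit 78) (nat_lit 0) (nat_lit 0) (XT.lf (nat_lit 304) (nat_lit 2531881201) (nat_lit 0) (nat_lit 211072076) (nat_lit 228) (nat_lit 211072076) (nat_lit 178) (nat_lit 1) (nat_lit 174) (nat_lit 1) (nat_lit 177) (nat_lit 1) (nat_lit 374) (nat_lit 362) (nat_lit 284)) (XT.lf (nat_lit 76) (nat_lit 852125174) (nat_lit 0) (nat_lit 1218063519) (nat_lit 304) (nat_lit 852125174) (nat_lit 175) (nat_lit 1) (nat_lit 174) (nat_lit 1) (nat_lit 178) (nat_lit 1) (nat_lit 375) (nat_lit 362) (nat_lit 283))) (XT.nd (nat_lit 78) (nat_lit 228) (nat_lit 0) (XT.lf (nat_lit 228) (nat_lit 888783450) (nat_lit 0) (nat_lit 1001197373) (nat_lit 152) (nat_lit 1001197373) (nat_lit 175) (nat_lit 1) (nat_lit 172) (nat_lit 1)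 (nat_lit 174) (nat_lit 1) (nat_lit 376) (nat_lit 362) (nat_lit 282)) (XT.nd (nat_lit 78) (nat_lit 228) (nat_lit 0) (XT.lf (nat_lit 76) (nat_lit 44134089) (nat_lit 0) (nat_lit 2772424908) (nat_lit 228) (nat_lit 44134089) (nat_lit 173) (nat_lit 1) (nat_lit 172) (nat_lit 1) (nat_lit 175) (nat_lit 1) (nat_lit 377) (nat_lit 362) (nat_lit 281)) (XT.lf (nat_lit 76) (nat_lit 1063979940) (nat_lit 0) (nat_lit 702137830) (nat_lit 228) (nat_lit 1063979940) (nat_lit 170) (nat_lit 1) (nat_lit 169) (nat_lit 1) (nat_lit 172) (nat_lit 1) (nat_lit 378) (nat_lit 362) (nat_lit 280)))))) (XT.nd (nat_lit 390) (nat_lit 760) (nat_lit 0) (XT.nd (nat_lit 156) (nat_lit 380) (nat_lit 0) (XT.nd (nat_lit 78) (nat_lit 0) (nat_lit 0) (XT.lf (nat_lit 228) (nat_lit 1324777947) (nat_lit 0) (nat_lit 737682672) (nat_lit 152) (nat_lit 737682672) (nat_lit 170) (nat_lit 1) (nat_lit 167) (nat_lit 1) (nat_lit 169) (nat_lit 1) (nat_lit 379)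 (nat_lit 362) (nat_lit 279)) (XT.lf (nat_lit 76) (nat_lit 265936524) (nat_lit 0) (nat_lit 2238806244) (nat_lit 228) (nat_lit 265936524) (nat_lit 168) (nat_lit 1) (nat_lit 167) (nat_lit 1) (nat_lit 170) (nat_lit 1) (nat_lit 380) (nat_lit 362) (nat_lit 278))) (XT.nd (nat_lit 78) (nat_lit 152) (nat_lit 0) (XT.lf (nat_lit 76) (nat_lit 1243271969) (nat_lit 0) (nat_lit 254815290) (nat_lit 228) (nat_lit 1243271969) (nat_lit 165) (nat_lit 1) (nat_lit 164) (nat_lit 1) (nat_lit 167) (nat_lit 1) (nat_lit 381) (nat_lit 362) (nat_lit 277)) (XT.nd (nat_lit 78) (nat_lit 0) (nat_lit 0) (XT.lf (nat_lit 228) (nat_lit 1696567817) (nat_lit 0) (nat_lit 507976618) (nat_lit 152) (nat_lit 507976618) (nat_lit 165) (nat_lit 1) (nat_lit 162) (nat_lit 1) (nat_lit 164) (nat_lit 1) (nat_lit 382) (nat_lit 362) (nat_lit 276)) (XT.lf (nat_lit 76) (nat_lit 456401503) (nat_lit 0) (nat_lit 1771230566) (nat_lit 228) (nat_lit 456401503)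 (nat_lit 163) (nat_lit 1) (nat_lit 162) (nat_lit 1) (nat_lit 165) (nat_lit 1) (nat_lit 383) (nat_lit 362) (nat_lit 275))))) (XT.nd (nat_lit 156) (nat_lit 380) (nat_lit 0) (XT.nd (nat_lit 78) (nat_lit 228) (nat_lit 0) (XT.lf (nat_lit 228) (nat_lit 134501294) (nat_lit 0) (nat_lit 1260684377) (nat_lit 152) (nat_lit 1260684377) (nat_lit 163) (nat_lit 1) (nat_lit 160) (nat_lit 1) (nat_lit 162) (nat_lit 1) (nat_lit 384) (nat_lit 362) (nat_lit 274)) (XT.lf (nat_lit 228) (nat_lit 2011766657) (nat_lit 0) (nat_lit 308180277) (nat_lit 152) (nat_lit 308180277) (nat_lit 160) (nat_lit 1) (nat_lit 157) (nat_lit 1) (nat_lit 159) (nat_lit 1) (nat_lit 385) (nat_lit 362) (nat_lit 273))) (XT.nd (nat_lit 78) (nat_lit 380) (nat_lit 0) (XT.lf (nat_lit 76) (nat_lit 619215899) (nat_lit 0) (nat_lit 1362142811) (nat_lit 228) (nat_lit 619215899) (nat_lit 158) (nat_lit 1) (nat_lit 157) (nat_lit 1) (nat_lit 160) (nat_lit 1) (nat_lit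 386) (nat_lit 362) (nat_lit 272)) (XT.nd (nat_lit 78) (nat_lit 228) (nat_lit 0) (XT.lf (nat_lit 228) (nat_lit 474266914) (nat_lit 0) (nat_lit 1049584317) (nat_lit 152) (nat_lit 1049584317) (nat_lit 158) (nat_lit 1) (nat_lit 155) (nat_lit 1) (nat_lit 157) (nat_lit 1) (nat_lit 387) (nat_lit 362) (nat_lit 271)) (XT.lf (nat_lit 228) (nat_lit 2277125828) (nat_lit 0) (nat_lit 134833243) (nat_lit 152) (nat_lit 134833243) (nat_lit 155) (nat_lit 1) (nat_lit 152) (nat_lit 1) (nat_lit 154) (nat_lit 1) (nat_lit 388) (nat_lit 362) (nat_lit 270))))))))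
noncomputable def ec130 : XT := (XT.nd (nat_lit 1482) (nat_lit 1596) (nat_lit 0) (XT.nd (nat_lit 702) (nat_lit 988) (nat_lit 0) (XT.nd (nat_lit 312) (nat_lit 456) (nat_lit 0) (XT.nd (nat_lit 156) (nat_lit 152) (nat_lit 0) (XT.nd (nat_lit 78) (nat_lit 152) (nat_lit 0) (XT.lf (nat_lit 76) (nat_lit 757649844) (nat_lit 0) (nat_lit 1004835948) (nat_lit 228) (nat_lit 757649844) (nat_lit 153) (nat_lit 1) (nat_lit 152) (nat_lit 1) (nat_lit 155) (nat_lit 1) (nat_lit 389) (nat_lit 362) (nat_lit 269)) (XT.lf (nat_lit 228) (nat_lit 765811328) (nat_lit 0) (nat_lit 864078554) (nat_lit 152) (nat_lit 864078554) (nat_lit 153) (nat_lit 1) (nat_lit 150) (nat_lit 1) (nat_lit 152) (nat_lit 1) (nat_lit 390) (nat_lit 362) (nat_lit 268))) (XT.nd (nat_lit 78) (nat_lit 152) (nat_lit 0) (XT.lf (nat_lit 76) (nat_lit 15285217) (nat_lit 0) (nat_lit 2437772108) (nat_lit 228) (nat_lit 15285217) (nat_lit 151) (nat_lit 1) (nat_lit 150)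 (nat_lit 1) (nat_lit 153) (nat_lit 1) (nat_lit 391) (nat_lit 362) (nat_lit 267)) (XT.lf (nat_lit 76) (nat_lit 874603373) (nat_lit 0) (nat_lit 693356252) (nat_lit 152) (nat_lit 874603373) (nat_lit 149) (nat_lit 1) (nat_lit 148) (nat_lit 1) (nat_lit 150) (nat_lit 1) (nat_lit 392) (nat_lit 362) (nat_lit 266)))) (XT.nd (nat_lit 156) (nat_lit 304) (nat_lit 0) (XT.nd (nat_lit 78) (nat_lit 0) (nat_lit 0) (XT.lf (nat_lit 228) (nat_lit 1014812783) (nat_lit 0) (nat_lit 701253168) (nat_lit 152) (nat_lit 701253168) (nat_lit 149) (nat_lit 1) (nat_lit 146) (nat_lit 1) (nat_lit 148) (nat_lit 1) (nat_lit 393) (nat_lit 362) (nat_lit 265)) (XT.lf (nat_lit 76) (nat_lit 145880642) (nat_lit 0) (nat_lit 2100756567) (nat_lit 228) (nat_lit 145880642) (nat_lit 147) (nat_lit 1) (nat_lit 146) (nat_lit 1) (nat_lit 149) (nat_lit 1) (nat_lit 394) (nat_lit 362) (nat_lit 264))) (XT.nd (nat_lit 78) (nat_lit 152) (nat_lit 0) (XT.lf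 (nat_lit 76) (nat_lit 972647846) (nat_lit 0) (nat_lit 422419144) (nat_lit 152) (nat_lit 972647846) (nat_lit 145) (nat_lit 1) (nat_lit 144) (nat_lit 1) (nat_lit 146) (nat_lit 1) (nat_lit 395) (nat_lit 362) (nat_lit 263)) (XT.nd (nat_lit 78) (nat_lit 0) (nat_lit 0) (XT.lf (nat_lit 228) (nat_lit 1226307565) (nat_lit 0) (nat_lit 558520926) (nat_lit 152) (nat_lit 558520926) (nat_lit 145) (nat_lit 1) (nat_lit 142) (nat_lit 1) (nat_lit 144) (nat_lit 1) (nat_lit 396) (nat_lit 362) (nat_lit 262)) (XT.lf (nat_lit 76) (nat_lit 258059590) (nat_lit 0) (nat_lit 1803220848) (nat_lit 228) (nat_lit 258059590) (nat_lit 143) (nat_lit 1) (nat_lit 142) (nat_lit 1) (nat_lit 145) (nat_lit 1) (nat_lit 397) (nat_lit 362) (nat_lit 261)))))) (XT.nd (nat_lit 390) (nat_lit 380) (nat_lit 0) (XT.nd (nat_lit 156) (nat_lit 304) (nat_lit 0) (XT.nd (nat_lit 78) (nat_lit 152) (nat_lit 0) (XT.lf (nat_lit 76) (nat_lit 1054062758) (nat_lit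 0) (nat_lit 187334418) (nat_lit 152) (nat_lit 1054062758) (nat_lit 141) (nat_lit 1) (nat_lit 140) (nat_lit 1) (nat_lit 142) (nat_lit 1) (nat_lit 398) (nat_lit 362) (nat_lit 260)) (XT.lf (nat_lit 228) (nat_lit 1404761836) (nat_lit 0) (nat_lit 433584791) (nat_lit 152) (nat_lit 433584791) (nat_lit 141) (nat_lit 1) (nat_lit 138) (nat_lit 1) (nat_lit 140) (nat_lit 1) (nat_lit 399) (nat_lit 362) (nat_lit 259))) (XT.nd (nat_lit 78) (nat_lit 304) (nat_lit 0) (XT.lf (nat_lit 76) (nat_lit 353987971) (nat_lit 0) (nat_lit 1540707153) (nat_lit 228) (nat_lit 353987971) (nat_lit 139) (nat_lit 1) (nat_lit 138) (nat_lit 1) (nat_lit 141) (nat_lit 1) (nat_lit 400) (nat_lit 362) (nat_lit 258)) (XT.nd (nat_lit 78) (nat_lit 228) (nat_lit 0) (XT.lf (nat_lit 152) (nat_lit 16379813) (nat_lit 0) (nat_lit 1104646072) (nat_lit 76) (nat_lit 1104646072) (nat_lit 139) (nat_lit 1) (nat_lit 137) (nat_lit 1) (nat_lit 138) (nat_lit 1)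 (nat_lit 401) (nat_lit 362) (nat_lit 257)) (XT.lf (nat_lit 228) (nat_lit 1554135461) (nat_lit 0) (nat_lit 324405522) (nat_lit 152) (nat_lit 324405522) (nat_lit 137) (nat_lit 1) (nat_lit 134) (nat_lit 1) (nat_lit 136) (nat_lit 1) (nat_lit 402) (nat_lit 362) (nat_lit 256))))) (XT.nd (nat_lit 156) (nat_lit 304) (nat_lit 0) (XT.nd (nat_lit 78) (nat_lit 76) (nat_lit 0) (XT.lf (nat_lit 76) (nat_lit 435586900) (nat_lit 0) (nat_lit 1309256393) (nat_lit 228) (nat_lit 435586900) (nat_lit 135) (nat_lit 1) (nat_lit 134) (nat_lit 1) (nat_lit 137) (nat_lit 1) (nat_lit 403) (nat_lit 362) (nat_lit 255)) (XT.lf (nat_lit 152) (nat_lit 195268381) (nat_lit 0) (nat_lit 981463728) (nat_lit 76) (nat_lit 981463728) (nat_lit 135) (nat_lit 1) (nat_lit 133) (nat_lit 1) (nat_lit 134) (nat_lit 1) (nat_lit 404) (nat_lit 362) (nat_lit 254))) (XT.nd (nat_lit 78) (nat_lit 76) (nat_lit 0) (XT.lf (nat_lit 228) (nat_lit 1677938708) (nat_lit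 0) (nat_lit 229172872) (nat_lit 152) (nat_lit 229172872) (nat_lit 133) (nat_lit 1) (nat_lit 130) (nat_lit 1) (nat_lit 132) (nat_lit 1) (nat_lit 405) (nat_lit 362) (nat_lit 253)) (XT.nd (nat_lit 78) (nat_lit 76) (nat_lit 0) (XT.lf (nat_lit 76) (nat_lit 504560089) (nat_lit 0) (nat_lit 1105352535) (nat_lit 228) (nat_lit 504560089) (nat_lit 131) (nat_lit 1) (nat_lit 130) (nat_lit 1) (nat_lit 133) (nat_lit 1) (nat_lit 406) (nat_lit 362) (nat_lit 252)) (XT.lf (nat_lit 152) (nat_lit 348945010) (nat_lit 0) (nat_lit 872017810) (nat_lit 76) (nat_lit 872017810) (nat_lit 131) (nat_lit 1) (nat_lit 129) (nat_lit 1) (nat_lit 130) (nat_lit 1) (nat_lit 407) (nat_lit 362) (nat_lit 251))))))) (XT.nd (nat_lit 702) (nat_lit 684) (nat_lit 0) (XT.nd (nat_lit 312) (nat_lit 380) (nat_lit 0) (XT.nd (nat_lit 156) (nat_lit 304) (nat_lit 0) (XT.nd (nat_lit 78) (nat_lit 0) (nat_lit 0) (XT.lf (nat_lit 228) (nat_lit 1779282615) (nat_lit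 0) (nat_lit 146280010) (nat_lit 152) (nat_lit 146280010) (nat_lit 129) (nat_lit 1) (nat_lit 126) (nat_lit 1) (nat_lit 128) (nat_lit 1) (nat_lit 408) (nat_lit 362) (nat_lit 250)) (XT.lf (nat_lit 76) (nat_lit 562418181) (nat_lit 0) (nat_lit 925873146) (nat_lit 228) (nat_lit 562418181) (nat_lit 127) (nat_lit 1) (nat_lit 126) (nat_lit 1) (nat_lit 129) (nat_lit 1) (nat_lit 409) (nat_lit 362) (nat_lit 249))) (XT.nd (nat_lit 78) (nat_lit 228) (nat_lit 0) (XT.lf (nat_lit 152) (nat_lit 480374464) (nat_lit 0) (nat_lit 774776530) (nat_lit 76) (nat_lit 774776530) (nat_lit 127) (nat_lit 1) (nat_lit 125) (nat_lit 1) (nat_lit 126) (nat_lit 1) (nat_lit 410) (nat_lit 362) (nat_lit 248)) (XT.lf (nat_lit 228) (nat_lit 1860923738) (nat_lit 0) (nat_lit 74300789) (nat_lit 152) (nat_lit 74300789) (nat_lit 125) (nat_lit 1) (nat_lit 122) (nat_lit 1) (nat_lit 124) (nat_lit 1) (nat_lit 411) (nat_lit 362) (nat_lit 247)))) (XT.nd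 (nat_lit 156) (nat_lit 304) (nat_lit 0) (XT.nd (nat_lit 78) (nat_lit 76) (nat_lit 0) (XT.lf (nat_lit 76) (nat_lit 610500373) (nat_lit 0) (nat_lit 768045458) (nat_lit 228) (nat_lit 610500373) (nat_lit 123) (nat_lit 1) (nat_lit 122) (nat_lit 1) (nat_lit 125) (nat_lit 1) (nat_lit 412) (nat_lit 362) (nat_lit 246)) (XT.lf (nat_lit 152) (nat_lit 592186433) (nat_lit 0) (nat_lit 688378912) (nat_lit 76) (nat_lit 688378912) (nat_lit 123) (nat_lit 1) (nat_lit 121) (nat_lit 1) (nat_lit 122) (nat_lit 1) (nat_lit 413) (nat_lit 362) (nat_lit 245))) (XT.nd (nat_lit 78) (nat_lit 76) (nat_lit 0) (XT.lf (nat_lit 228) (nat_lit 1925303901) (nat_lit 0) (nat_lit 11969556) (nat_lit 152) (nat_lit 11969556) (nat_lit 121) (nat_lit 1) (nat_lit 118) (nat_lit 1) (nat_lit 120) (nat_lit 1) (nat_lit 414) (nat_lit 362) (nat_lit 244)) (XT.nd (nat_lit 78) (nat_lit 76) (nat_lit 0) (XT.lf (nat_lit 76) (nat_lit 649993620) (nat_lit 0) (nat_lit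 629407336) (nat_lit 228) (nat_lit 649993620) (nat_lit 119) (nat_lit 1) (nat_lit 118) (nat_lit 1) (nat_lit 121) (nat_lit 1) (nat_lit 415) (nat_lit 362) (nat_lit 243)) (XT.lf (nat_lit 152) (nat_lit 686713028) (nat_lit 0) (nat_lit 611615747) (nat_lit 76) (nat_lit 611615747) (nat_lit 119) (nat_lit 1) (nat_lit 117) (nat_lit 1) (nat_lit 118) (nat_lit 1) (nat_lit 416) (nat_lit 362) (nat_lit 242)))))) (XT.nd (nat_lit 390) (nat_lit 304) (nat_lit 0) (XT.nd (nat_lit 156) (nat_lit 228) (nat_lit 0) (XT.nd (nat_lit 78) (nat_lit 152) (nat_lit 0) (XT.lf (nat_lit 0) (nat_lit 42251015) (nat_lit 0) (nat_lit 1806360910) (nat_lit 152) (nat_lit 42251015) (nat_lit 117) (nat_lit 3) (nat_lit 117) (nat_lit 1) (nat_lit 119) (nat_lit 1) (nat_lit 417) (nat_lit 362) (nat_lit 241)) (XT.lf (nat_lit 76) (nat_lit 681949695) (nat_lit 0) (nat_lit 507772589) (nat_lit 152) (nat_lit 681949695) (nat_lit 116) (nat_lit 1) (nat_lit 115) (nat_lit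 1) (nat_lit 117) (nat_lit 1) (nat_lit 418) (nat_lit 362) (nat_lit 240))) (XT.nd (nat_lit 78) (nat_lit 152) (nat_lit 0) (XT.lf (nat_lit 152) (nat_lit 766022089) (nat_lit 0) (nat_lit 543412669) (nat_lit 76) (nat_lit 543412669) (nat_lit 116) (nat_lit 1) (nat_lit 114) (nat_lit 1) (nat_lit 115) (nat_lit 1) (nat_lit 419) (nat_lit 362) (nat_lit 239)) (XT.nd (nat_lit 78) (nat_lit 152) (nat_lit 0) (XT.lf (nat_lit 0) (nat_lit 88987156) (nat_lit 0) (nat_lit 1656375948) (nat_lit 152) (nat_lit 88987156) (nat_lit 114) (nat_lit 3) (nat_lit 114) (nat_lit 1) (nat_lit 116) (nat_lit 1) (nat_lit 420) (nat_lit 362) (nat_lit 238)) (XT.lf (nat_lit 76) (nat_lit 707300348) (nat_lit 0) (nat_lit 401200169) (nat_lit 152) (nat_lit 707300348) (nat_lit 113) (nat_lit 1) (nat_lit 112) (nat_lit 1) (nat_lit 114) (nat_lit 1) (nat_lit 421) (nat_lit 362) (nat_lit 237))))) (XT.nd (nat_lit 156) (nat_lit 228) (nat_lit 0) (XT.nd (nat_lit 78)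 (nat_lit 0) (nat_lit 0) (XT.lf (nat_lit 152) (nat_lit 831946781) (nat_lit 0) (nat_lit 482815118) (nat_lit 76) (nat_lit 482815118) (nat_lit 113) (nat_lit 1) (nat_lit 111) (nat_lit 1) (nat_lit 112) (nat_lit 1) (nat_lit 422) (nat_lit 362) (nat_lit 236)) (XT.lf (nat_lit 0) (nat_lit 129013135) (nat_lit 0) (nat_lit 1521617777) (nat_lit 152) (nat_lit 129013135) (nat_lit 111) (nat_lit 3) (nat_lit 111) (nat_lit 1) (nat_lit 113) (nat_lit 1) (nat_lit 423) (nat_lit 362) (nat_lit 235))) (XT.nd (nat_lit 78) (nat_lit 76) (nat_lit 0) (XT.lf (nat_lit 76) (nat_lit 726870767) (nat_lit 0) (nat_lit 307966785) (nat_lit 152) (nat_lit 726870767) (nat_lit 110) (nat_lit 1) (nat_lit 109) (nat_lit 1) (nat_lit 111) (nat_lit 1) (nat_lit 424) (nat_lit 362) (nat_lit 234)) (XT.nd (nat_lit 78) (nat_lit 0) (nat_lit 0) (XT.lf (nat_lit 152) (nat_lit 886111877) (nat_lit 0) (nat_lit 428974979) (nat_lit 76) (nat_lit 428974979) (nat_lit 110)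 (nat_lit 1) (nat_lit 108) (nat_lit 1) (nat_lit 109) (nat_lit 1) (nat_lit 425) (nat_lit 362) (nat_lit 233)) (XT.lf (nat_lit 0) (nat_lit 163120869) (nat_lit 0) (nat_lit 1400432055) (nat_lit 152) (nat_lit 163120869) (nat_lit 108) (nat_lit 3) (nat_lit 108) (nat_lit 1) (nat_lit 110) (nat_lit 1) (nat_lit 426) (nat_lit 362) (nat_lit 232))))))))
noncomputable def ec131 : XT := (XT.nd (nat_lit 43524) (nat_lit 0) (nat_lit 16416) (XT.nd (nat_lit 42744) (nat_lit 0) (nat_lit 20900) (XT.nd (nat_lit 312) (nat_lit 304) (nat_lit 0) (XT.nd (nat_lit 156) (nat_lit 152) (nat_lit 0) (XT.nd (nat_lit 78) (nat_lit 76) (nat_lit 0) (XT.lf (nat_lit 76) (nat_lit 741391542) (nat_lit 0) (nat_lit 226542588) (nat_lit 152) (nat_lit 741391542) (nat_lit 107) (nat_lit 1) (nat_lit 106) (nat_lit 1) (nat_lit 108) (nat_lit 1) (nat_lit 427) (nat_lit 362) (nat_lit 231)) (XT.lf (nat_lit 152) (nat_lit 929957118) (nat_lit 0) (nat_lit 381138713)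 (nat_lit 76) (nat_lit 381138713) (nat_lit 107) (nat_lit 1) (nat_lit 105) (nat_lit 1) (nat_lit 106) (nat_lit 1) (nat_lit 428) (nat_lit 362) (nat_lit 230))) (XT.nd (nat_lit 78) (nat_lit 152) (nat_lit 0) (XT.lf (nat_lit 0) (nat_lit 192012691) (nat_lit 0) (nat_lit 1291347654) (nat_lit 152) (nat_lit 192012691) (nat_lit 105) (nat_lit 3) (nat_lit 105) (nat_lit 1) (nat_lit 107) (nat_lit 1) (nat_lit 429) (nat_lit 362) (nat_lit 229)) (XT.lf (nat_lit 76) (nat_lit 751509288) (nat_lit 0) (nat_lit 155569561) (nat_lit 152) (nat_lit 751509288) (nat_lit 104) (nat_lit 1) (nat_lit 103) (nat_lit 1) (nat_lit 105) (nat_lit 1) (nat_lit 430) (nat_lit 362) (nat_lit 228)))) (XT.nd (nat_lit 156) (nat_lit 228) (nat_lit 0) (XT.nd (nat_lit 78) (nat_lit 0) (nat_lit 0) (XT.lf (nat_lit 152) (nat_lit 964757954) (nat_lit 0) (nat_lit 338636810) (nat_lit 76) (nat_lit 338636810) (nat_lit 104) (nat_lit 1) (nat_lit 102) (nat_lit 1) (nat_lit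 103) (nat_lit 1) (nat_lit 431) (nat_lit 362) (nat_lit 227)) (XT.lf (nat_lit 0) (nat_lit 216311382) (nat_lit 0) (nat_lit 1193056259) (nat_lit 152) (nat_lit 216311382) (nat_lit 102) (nat_lit 3) (nat_lit 102) (nat_lit 1) (nat_lit 104) (nat_lit 1) (nat_lit 432) (nat_lit 362) (nat_lit 226))) (XT.nd (nat_lit 78) (nat_lit 76) (nat_lit 0) (XT.lf (nat_lit 76) (nat_lit 757796080) (nat_lit 0) (nat_lit 93842323) (nat_lit 152) (nat_lit 757796080) (nat_lit 101) (nat_lit 1) (nat_lit 100) (nat_lit 1) (nat_lit 102) (nat_lit 1) (nat_lit 433) (nat_lit 362) (nat_lit 225)) (XT.nd (nat_lit 78) (nat_lit 0) (nat_lit 0) (XT.lf (nat_lit 152) (nat_lit 991643974) (nat_lit 0) (nat_lit 300874419) (nat_lit 76) (nat_lit 300874419) (nat_lit 101) (nat_lit 1) (nat_lit 99) (nat_lit 1) (nat_lit 100) (nat_lit 1) (nat_lit 434) (nat_lit 362) (nat_lit 224)) (XT.lf (nat_lit 0) (nat_lit 236569079) (nat_lit 0) (nat_lit 1104394251) (nat_lit 152)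 (nat_lit 236569079) (nat_lit 99) (nat_lit 3) (nat_lit 99) (nat_lit 1) (nat_lit 101) (nat_lit 1) (nat_lit 435) (nat_lit 362) (nat_lit 223)))))) (XT.nd (nat_lit 390) (nat_lit 0) (nat_lit 152) (XT.nd (nat_lit 156) (nat_lit 0) (nat_lit 76) (XT.nd (nat_lit 78) (nat_lit 0) (nat_lit 0) (XT.lf (nat_lit 1292) (nat_lit 736072928) (nat_lit 0) (nat_lit 2532433199) (nat_lit 1292) (nat_lit 736072928) (nat_lit 391) (nat_lit 1) (nat_lit 374) (nat_lit 0) (nat_lit 391) (nat_lit 0) (nat_lit 294) (nat_lit 363) (nat_lit 363)) (XT.lf (nat_lit 1292) (nat_lit 2876585903) (nat_lit 76) (nat_lit 2507605423) (nat_lit 0) (nat_lit 2507605423) (nat_lit 391) (nat_lit 1) (nat_lit 375) (nat_lit 1) (nat_lit 374) (nat_lit 0) (nat_lit 295) (nat_lit 363) (nat_lit 362))) (XT.nd (nat_lit 78) (nat_lit 0) (nat_lit 0) (XT.lf (nat_lit 1292) (nat_lit 1391185529) (nat_lit 0) (nat_lit 4994653075) (nat_lit 1216) (nat_lit 1391185529) (nat_lit 392)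 (nat_lit 1) (nat_lit 375) (nat_lit 1) (nat_lit 391) (nat_lit 1) (nat_lit 296) (nat_lit 363) (nat_lit 361)) (XT.nd (nat_lit 78) (nat_lit 0) (nat_lit 76) (XT.lf (nat_lit 1292) (nat_lit 2641933147) (nat_lit 76) (nat_lit 2511117516) (nat_lit 0) (nat_lit 2511117516) (nat_lit 392) (nat_lit 1) (nat_lit 376) (nat_lit 1) (nat_lit 375) (nat_lit 1) (nat_lit 297) (nat_lit 363) (nat_lit 360)) (XT.lf (nat_lit 1292) (nat_lit 1239713953) (nat_lit 0) (nat_lit 5074409509) (nat_lit 1216) (nat_lit 1239713953) (nat_lit 393) (nat_lit 1) (nat_lit 376) (nat_lit 1) (nat_lit 392) (nat_lit 1) (nat_lit 298) (nat_lit 363) (nat_lit 359))))) (XT.nd (nat_lit 156) (nat_lit 0) (nat_lit 76) (XT.nd (nat_lit 78) (nat_lit 0) (nat_lit 76) (XT.lf (nat_lit 1292) (nat_lit 2271906715) (nat_lit 76) (nat_lit 2586682225) (nat_lit 0) (nat_lit 2586682225) (nat_lit 393) (nat_lit 1) (nat_lit 377) (nat_lit 1) (nat_lit 376) (nat_lit 1) (nat_lit 299)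 (nat_lit 363) (nat_lit 358)) (XT.lf (nat_lit 1292) (nat_lit 1023967852) (nat_lit 0) (nat_lit 5291276166) (nat_lit 1216) (nat_lit 1023967852) (nat_lit 394) (nat_lit 1) (nat_lit 377) (nat_lit 1) (nat_lit 393) (nat_lit 1) (nat_lit 300) (nat_lit 363) (nat_lit 357))) (XT.nd (nat_lit 78) (nat_lit 0) (nat_lit 76) (XT.lf (nat_lit 1292) (nat_lit 1778612866) (nat_lit 76) (nat_lit 2728058943) (nat_lit 0) (nat_lit 2728058943) (nat_lit 394) (nat_lit 1) (nat_lit 378) (nat_lit 1) (nat_lit 377) (nat_lit 1) (nat_lit 301) (nat_lit 363) (nat_lit 356)) (XT.nd (nat_lit 78) (nat_lit 0) (nat_lit 0) (XT.lf (nat_lit 1292) (nat_lit 749762176) (nat_lit 0) (nat_lit 5633255507) (nat_lit 1216) (nat_lit 749762176) (nat_lit 395) (nat_lit 1) (nat_lit 378) (nat_lit 1) (nat_lit 394) (nat_lit 1) (nat_lit 302) (nat_lit 363) (nat_lit 355)) (XT.lf (nat_lit 1292) (nat_lit 1173336636) (nat_lit 76) (nat_lit 2929426596) (nat_lit 0) (nat_lit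 2929426596) (nat_lit 395) (nat_lit 1) (nat_lit 379) (nat_lit 1) (nat_lit 378) (nat_lit 1) (nat_lit 303) (nat_lit 363) (nat_lit 354))))))) (XT.nd (nat_lit 702) (nat_lit 2964) (nat_lit 0) (XT.nd (nat_lit 312) (nat_lit 684) (nat_lit 0) (XT.nd (nat_lit 156) (nat_lit 1216) (nat_lit 0) (XT.nd (nat_lit 78) (nat_lit 0) (nat_lit 0) (XT.lf (nat_lit 1292) (nat_lit 422516169) (nat_lit 0) (nat_lit 6089158900) (nat_lit 1216) (nat_lit 422516169) (nat_lit 396) (nat_lit 1) (nat_lit 379) (nat_lit 1) (nat_lit 395) (nat_lit 1) (nat_lit 304) (nat_lit 363) (nat_lit 353)) (XT.lf (nat_lit 1292) (nat_lit 466592665) (nat_lit 76) (nat_lit 3185357772) (nat_lit 0) (nat_lit 3185357772) (nat_lit 396) (nat_lit 1) (nat_lit 380) (nat_lit 1) (nat_lit 379) (nat_lit 1) (nat_lit 305) (nat_lit 363) (nat_lit 352))) (XT.nd (nat_lit 78) (nat_lit 1292) (nat_lit 0) (XT.lf (nat_lit 1292) (nat_lit 47277888) (nat_lit 0) (nat_lit 6648556685) (nat_lit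 1216) (nat_lit 47277888) (nat_lit 397) (nat_lit 1) (nat_lit 380) (nat_lit 1) (nat_lit 396) (nat_lit 1) (nat_lit 306) (nat_lit 363) (nat_lit 351)) (XT.lf (nat_lit 1368) (nat_lit 3162157106) (nat_lit 0) (nat_lit 325351872) (nat_lit 1292) (nat_lit 3162157106) (nat_lit 381) (nat_lit 1) (nat_lit 363) (nat_lit 1) (nat_lit 380) (nat_lit 1) (nat_lit 307) (nat_lit 363) (nat_lit 350)))) (XT.nd (nat_lit 156) (nat_lit 684) (nat_lit 0) (XT.nd (nat_lit 78) (nat_lit 0) (nat_lit 76) (XT.lf (nat_lit 1368) (nat_lit 5823569324) (nat_lit 76) (nat_lit 367613002) (nat_lit 0) (nat_lit 367613002) (nat_lit 381) (nat_lit 1) (nat_lit 364) (nat_lit 1) (nat_lit 363) (nat_lit 1) (nat_lit 308) (nat_lit 363) (nat_lit 349)) (XT.lf (nat_lit 1368) (nat_lit 2639875067) (nat_lit 0) (nat_lit 1189141767) (nat_lit 1292) (nat_lit 2639875067) (nat_lit 382) (nat_lit 1) (nat_lit 364) (nat_lit 1) (nat_lit 381) (nat_lit 1) (nat_lit 309) (nat_lit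 363) (nat_lit 348))) (XT.nd (nat_lit 78) (nat_lit 760) (nat_lit 0) (XT.lf (nat_lit 1368) (nat_lit 4740112087) (nat_lit 76) (nat_lit 820577687) (nat_lit 0) (nat_lit 820577687) (nat_lit 382) (nat_lit 1) (nat_lit 365) (nat_lit 1) (nat_lit 364) (nat_lit 1) (nat_lit 310) (nat_lit 363) (nat_lit 347)) (XT.nd (nat_lit 78) (nat_lit 836) (nat_lit 0) (XT.lf (nat_lit 76) (nat_lit 2084629924) (nat_lit 0) (nat_lit 2125568393) (nat_lit 1292) (nat_lit 2084629924) (nat_lit 366) (nat_lit 1) (nat_lit 365) (nat_lit 1) (nat_lit 382) (nat_lit 1) (nat_lit 311) (nat_lit 363) (nat_lit 346)) (XT.lf (nat_lit 912) (nat_lit 3594195470) (nat_lit 0) (nat_lit 1308052121) (nat_lit 836) (nat_lit 1308052121) (nat_lit 366) (nat_lit 1) (nat_lit 354) (nat_lit 1) (nat_lit 365) (nat_lit 1) (nat_lit 312) (nat_lit 363) (nat_lit 345)))))) (XT.nd (nat_lit 390) (nat_lit 1748) (nat_lit 0) (XT.nd (nat_lit 156) (nat_lit 608) (nat_lit 0) (XT.nd (nat_lit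 78) (nat_lit 608) (nat_lit 0) (XT.lf (nat_lit 76) (nat_lit 1500147222) (nat_lit 0) (nat_lit 3126902245) (nat_lit 912) (nat_lit 1500147222) (nat_lit 355) (nat_lit 1) (nat_lit 354) (nat_lit 1) (nat_lit 366) (nat_lit 1) (nat_lit 313) (nat_lit 363) (nat_lit 344)) (XT.lf (nat_lit 684) (nat_lit 2393035604) (nat_lit 0) (nat_lit 1826292825) (nat_lit 608) (nat_lit 1826292825) (nat_lit 355) (nat_lit 1) (nat_lit 346) (nat_lit 1) (nat_lit 354) (nat_lit 1) (nat_lit 314) (nat_lit 363) (nat_lit 343))) (XT.nd (nat_lit 78) (nat_lit 608) (nat_lit 0) (XT.lf (nat_lit 76) (nat_lit 889885245) (nat_lit 0) (nat_lit 4185961210) (nat_lit 684) (nat_lit 889885245) (nat_lit 347) (nat_lit 1) (nat_lit 346) (nat_lit 1) (nat_lit 355) (nat_lit 1) (nat_lit 315) (nat_lit 363) (nat_lit 342)) (XT.nd (nat_lit 78) (nat_lit 0) (nat_lit 0) (XT.lf (nat_lit 684) (nat_lit 1143328634) (nat_lit 0) (nat_lit 2371822544) (nat_lit 608) (nat_lit 2371822544)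 (nat_lit 347) (nat_lit 1) (nat_lit 338) (nat_lit 1) (nat_lit 346) (nat_lit 1) (nat_lit 316) (nat_lit 363) (nat_lit 341)) (XT.lf (nat_lit 76) (nat_lit 257051916) (nat_lit 0) (nat_lit 5296076123) (nat_lit 684) (nat_lit 257051916) (nat_lit 339) (nat_lit 1) (nat_lit 338) (nat_lit 1) (nat_lit 347) (nat_lit 1) (nat_lit 317) (nat_lit 363) (nat_lit 340))))) (XT.nd (nat_lit 156) (nat_lit 532) (nat_lit 0) (XT.nd (nat_lit 78) (nat_lit 608) (nat_lit 0) (XT.lf (nat_lit 76) (nat_lit 2794126679) (nat_lit 0) (nat_lit 145814355) (nat_lit 608) (nat_lit 2794126679) (nat_lit 331) (nat_lit 1) (nat_lit 330) (nat_lit 1) (nat_lit 338) (nat_lit 1) (nat_lit 318) (nat_lit 363) (nat_lit 339)) (XT.lf (nat_lit 684) (nat_lit 4876835255) (nat_lit 0) (nat_lit 391503054) (nat_lit 608) (nat_lit 391503054) (nat_lit 331) (nat_lit 1) (nat_lit 322) (nat_lit 1) (nat_lit 330) (nat_lit 1) (nat_lit 319) (nat_lit 363) (nat_lit 338))) (XT.nd (nat_lit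 78) (nat_lit 532) (nat_lit 0) (XT.lf (nat_lit 76) (nat_lit 2068926284) (nat_lit 0) (nat_lit 1448518005) (nat_lit 684) (nat_lit 2068926284) (nat_lit 323) (nat_lit 1) (nat_lit 322) (nat_lit 1) (nat_lit 331) (nat_lit 1) (nat_lit 320) (nat_lit 363) (nat_lit 337)) (XT.nd (nat_lit 78) (nat_lit 0) (nat_lit 0) (XT.lf (nat_lit 608) (nat_lit 3406192494) (nat_lit 0) (nat_lit 1054216795) (nat_lit 532) (nat_lit 1054216795) (nat_lit 323) (nat_lit 1) (nat_lit 315) (nat_lit 1) (nat_lit 322) (nat_lit 1) (nat_lit 321) (nat_lit 363) (nat_lit 336)) (XT.lf (nat_lit 76) (nat_lit 1331059114) (nat_lit 0) (nat_lit 2781870738) (nat_lit 608) (nat_lit 1331059114) (nat_lit 316) (nat_lit 1) (nat_lit 315) (nat_lit 1) (nat_lit 323) (nat_lit 1) (nat_lit 322) (nat_lit 363) (nat_lit 335))))))))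
noncomputable def ec132 : XT := (XT.nd (nat_lit 1404) (nat_lit 3496) (nat_lit 0) (XT.nd (nat_lit 702) (nat_lit 2508) (nat_lit 0) (XT.nd (nat_lit 312) (nat_lit 912) (nat_lit 0) (XT.nd (nat_lit 156) (nat_lit 1064) (nat_lit 0) (XT.nd (nat_lit 78) (nat_lit 0) (nat_lit 0) (XT.lf (nat_lit 608) (nat_lit 1912442786) (nat_lit 0) (nat_lit 1731086044) (nat_lit 532) (nat_lit 1731086044) (nat_lit 316) (nat_lit 1) (nat_lit 308) (nat_lit 1) (nat_lit 315) (nat_lit 1) (nat_lit 323) (nat_lit 363) (nat_lit 334)) (XT.lf (nat_lit 76) (nat_lit 582833737) (nat_lit 0) (nat_lit 4141042407) (nat_lit 608) (nat_lit 582833737) (nat_lit 309) (nat_lit 1) (nat_lit 308) (nat_lit 1) (nat_lit 316) (nat_lit 1) (nat_lit 324) (nat_lit 363) (nat_lit 333))) (XT.nd (nat_lit 78) (nat_lit 608) (nat_lit 0) (XT.lf (nat_lit 532) (nat_lit 400044444) (nat_lit 0) (nat_lit 2419777889) (nat_lit 456) (nat_lit 2419777889) (nat_lit 309) (nat_lit 1) (nat_lit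 302) (nat_lit 1) (nat_lit 308) (nat_lit 1) (nat_lit 325) (nat_lit 363) (nat_lit 332)) (XT.lf (nat_lit 608) (nat_lit 4830293158) (nat_lit 0) (nat_lit 171917705) (nat_lit 532) (nat_lit 171917705) (nat_lit 302) (nat_lit 1) (nat_lit 294) (nat_lit 1) (nat_lit 301) (nat_lit 1) (nat_lit 326) (nat_lit 363) (nat_lit 331)))) (XT.nd (nat_lit 156) (nat_lit 456) (nat_lit 0) (XT.nd (nat_lit 78) (nat_lit 456) (nat_lit 0) (XT.lf (nat_lit 76) (nat_lit 2002078621) (nat_lit 0) (nat_lit 1104901654) (nat_lit 608) (nat_lit 2002078621) (nat_lit 295) (nat_lit 1) (nat_lit 294) (nat_lit 1) (nat_lit 302) (nat_lit 1) (nat_lit 327) (nat_lit 363) (nat_lit 330)) (XT.lf (nat_lit 532) (nat_lit 3191251170) (nat_lit 0) (nat_lit 927158892) (nat_lit 456) (nat_lit 927158892) (nat_lit 295) (nat_lit 1) (nat_lit 288) (nat_lit 1) (nat_lit 294) (nat_lit 1) (nat_lit 328) (nat_lit 363) (nat_lit 329))) (XT.nd (nat_lit 78) (nat_lit 456) (nat_lit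 0) (XT.lf (nat_lit 76) (nat_lit 1185212713) (nat_lit 0) (nat_lit 2612582518) (nat_lit 532) (nat_lit 1185212713) (nat_lit 289) (nat_lit 1) (nat_lit 288) (nat_lit 1) (nat_lit 295) (nat_lit 1) (nat_lit 329) (nat_lit 363) (nat_lit 328)) (XT.nd (nat_lit 78) (nat_lit 0) (nat_lit 0) (XT.lf (nat_lit 532) (nat_lit 1547893675) (nat_lit 0) (nat_lit 1686814699) (nat_lit 456) (nat_lit 1686814699) (nat_lit 289) (nat_lit 1) (nat_lit 282) (nat_lit 1) (nat_lit 288) (nat_lit 1) (nat_lit 330) (nat_lit 363) (nat_lit 327)) (XT.lf (nat_lit 76) (nat_lit 366996739) (nat_lit 0) (nat_lit 4127389168) (nat_lit 532) (nat_lit 366996739) (nat_lit 283) (nat_lit 1) (nat_lit 282) (nat_lit 1) (nat_lit 289) (nat_lit 1) (nat_lit 331) (nat_lit 363) (nat_lit 326)))))) (XT.nd (nat_lit 312) (nat_lit 1216) (nat_lit 0) (XT.nd (nat_lit 156) (nat_lit 380) (nat_lit 0) (XT.nd (nat_lit 78) (nat_lit 456) (nat_lit 0) (XT.lf (nat_lit 76) (nat_lit 2353504116)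 (nat_lit 0) (nat_lit 94779193) (nat_lit 456) (nat_lit 2353504116) (nat_lit 277) (nat_lit 1) (nat_lit 276) (nat_lit 1) (nat_lit 282) (nat_lit 1) (nat_lit 332) (nat_lit 363) (nat_lit 325)) (XT.lf (nat_lit 532) (nat_lit 3850159265) (nat_lit 0) (nat_lit 446664288) (nat_lit 456) (nat_lit 446664288) (nat_lit 277) (nat_lit 1) (nat_lit 270) (nat_lit 1) (nat_lit 276) (nat_lit 1) (nat_lit 333) (nat_lit 363) (nat_lit 324))) (XT.nd (nat_lit 78) (nat_lit 380) (nat_lit 0) (XT.lf (nat_lit 76) (nat_lit 1490073337) (nat_lit 0) (nat_lit 1705629328) (nat_lit 532) (nat_lit 1490073337) (nat_lit 271) (nat_lit 1) (nat_lit 270) (nat_lit 1) (nat_lit 277) (nat_lit 1) (nat_lit 334) (nat_lit 363) (nat_lit 323)) (XT.lf (nat_lit 456) (nat_lit 2118752401) (nat_lit 0) (nat_lit 1255252823) (nat_lit 380) (nat_lit 1255252823) (nat_lit 271) (nat_lit 1) (nat_lit 265) (nat_lit 1) (nat_lit 270) (nat_lit 1) (nat_lit 335) (nat_lit 363) (nat_lit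 322)))) (XT.nd (nat_lit 156) (nat_lit 836) (nat_lit 0) (XT.nd (nat_lit 78) (nat_lit 380) (nat_lit 0) (XT.lf (nat_lit 76) (nat_lit 630734767) (nat_lit 0) (nat_lit 3312305708) (nat_lit 456) (nat_lit 630734767) (nat_lit 266) (nat_lit 1) (nat_lit 265) (nat_lit 1) (nat_lit 271) (nat_lit 1) (nat_lit 336) (nat_lit 363) (nat_lit 321)) (XT.lf (nat_lit 456) (nat_lit 396682485) (nat_lit 0) (nat_lit 2061140061) (nat_lit 380) (nat_lit 2061140061) (nat_lit 266) (nat_lit 1) (nat_lit 260) (nat_lit 1) (nat_lit 265) (nat_lit 1) (nat_lit 337) (nat_lit 363) (nat_lit 320))) (XT.nd (nat_lit 78) (nat_lit 380) (nat_lit 0) (XT.lf (nat_lit 456) (nat_lit 4022909729) (nat_lit 0) (nat_lit 221231657) (nat_lit 380) (nat_lit 221231657) (nat_lit 260) (nat_lit 1) (nat_lit 254) (nat_lit 1) (nat_lit 259) (nat_lit 1) (nat_lit 338) (nat_lit 363) (nat_lit 319)) (XT.nd (nat_lit 78) (nat_lit 380) (nat_lit 0) (XT.lf (nat_lit 76) (nat_lit 1561874879)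 (nat_lit 0) (nat_lit 1288323398) (nat_lit 456) (nat_lit 1561874879) (nat_lit 255) (nat_lit 1) (nat_lit 254) (nat_lit 1) (nat_lit 260) (nat_lit 1) (nat_lit 339) (nat_lit 363) (nat_lit 318)) (XT.lf (nat_lit 456) (nat_lit 2238148292) (nat_lit 0) (nat_lit 1060904759) (nat_lit 380) (nat_lit 1060904759) (nat_lit 255) (nat_lit 1) (nat_lit 249) (nat_lit 1) (nat_lit 254) (nat_lit 1) (nat_lit 340) (nat_lit 363) (nat_lit 317))))))) (XT.nd (nat_lit 702) (nat_lit 1748) (nat_lit 0) (XT.nd (nat_lit 312) (nat_lit 988) (nat_lit 0) (XT.nd (nat_lit 156) (nat_lit 456) (nat_lit 0) (XT.nd (nat_lit 78) (nat_lit 304) (nat_lit 0) (XT.lf (nat_lit 76) (nat_lit 678090579) (nat_lit 0) (nat_lit 2952533797) (nat_lit 456) (nat_lit 678090579) (nat_lit 250) (nat_lit 1) (nat_lit 249) (nat_lit 1) (nat_lit 255) (nat_lit 1) (nat_lit 341) (nat_lit 363) (nat_lit 316)) (XT.lf (nat_lit 380) (nat_lit 470955978) (nat_lit 0) (nat_lit 1893582766)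 (nat_lit 304) (nat_lit 1893582766) (nat_lit 250) (nat_lit 1) (nat_lit 245) (nat_lit 1) (nat_lit 249) (nat_lit 1) (nat_lit 342) (nat_lit 363) (nat_lit 315))) (XT.nd (nat_lit 78) (nat_lit 0) (nat_lit 0) (XT.lf (nat_lit 456) (nat_lit 3819343478) (nat_lit 0) (nat_lit 194647236) (nat_lit 380) (nat_lit 194647236) (nat_lit 245) (nat_lit 1) (nat_lit 239) (nat_lit 1) (nat_lit 244) (nat_lit 1) (nat_lit 343) (nat_lit 363) (nat_lit 314)) (XT.lf (nat_lit 76) (nat_lit 1453540905) (nat_lit 0) (nat_lit 1252280576) (nat_lit 456) (nat_lit 1453540905) (nat_lit 240) (nat_lit 1) (nat_lit 239) (nat_lit 1) (nat_lit 245) (nat_lit 1) (nat_lit 344) (nat_lit 363) (nat_lit 313)))) (XT.nd (nat_lit 156) (nat_lit 684) (nat_lit 0) (XT.nd (nat_lit 78) (nat_lit 0) (nat_lit 0) (XT.lf (nat_lit 380) (nat_lit 2009113611) (nat_lit 0) (nat_lit 1051025416) (nat_lit 304) (nat_lit 1051025416) (nat_lit 240) (nat_lit 1) (nat_lit 235) (nat_lit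 1) (nat_lit 239) (nat_lit 1) (nat_lit 345) (nat_lit 363) (nat_lit 312)) (XT.lf (nat_lit 76) (nat_lit 558703805) (nat_lit 0) (nat_lit 2946383327) (nat_lit 380) (nat_lit 558703805) (nat_lit 236) (nat_lit 1) (nat_lit 235) (nat_lit 1) (nat_lit 240) (nat_lit 1) (nat_lit 346) (nat_lit 363) (nat_lit 311))) (XT.nd (nat_lit 78) (nat_lit 380) (nat_lit 0) (XT.lf (nat_lit 380) (nat_lit 222787519) (nat_lit 0) (nat_lit 1897084191) (nat_lit 304) (nat_lit 1897084191) (nat_lit 236) (nat_lit 1) (nat_lit 231) (nat_lit 1) (nat_lit 235) (nat_lit 1) (nat_lit 347) (nat_lit 363) (nat_lit 310)) (XT.nd (nat_lit 78) (nat_lit 0) (nat_lit 0) (XT.lf (nat_lit 380) (nat_lit 3329416396) (nat_lit 0) (nat_lit 320814367) (nat_lit 304) (nat_lit 320814367) (nat_lit 231) (nat_lit 1) (nat_lit 226) (nat_lit 1) (nat_lit 230) (nat_lit 1) (nat_lit 348) (nat_lit 363) (nat_lit 309)) (XT.lf (nat_lit 76) (nat_lit 1208398810) (nat_lit 0) (nat_lit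 1508651438) (nat_lit 380) (nat_lit 1208398810) (nat_lit 227) (nat_lit 1) (nat_lit 226) (nat_lit 1) (nat_lit 231) (nat_lit 1) (nat_lit 349) (nat_lit 363) (nat_lit 308)))))) (XT.nd (nat_lit 390) (nat_lit 836) (nat_lit 0) (XT.nd (nat_lit 156) (nat_lit 608) (nat_lit 0) (XT.nd (nat_lit 78) (nat_lit 0) (nat_lit 0) (XT.lf (nat_lit 380) (nat_lit 1515969273) (nat_lit 0) (nat_lit 1182390478) (nat_lit 304) (nat_lit 1182390478) (nat_lit 227) (nat_lit 1) (nat_lit 222) (nat_lit 1) (nat_lit 226) (nat_lit 1) (nat_lit 350) (nat_lit 363) (nat_lit 307)) (XT.lf (nat_lit 76) (nat_lit 313184524) (nat_lit 0) (nat_lit 3210547088) (nat_lit 380) (nat_lit 313184524) (nat_lit 223) (nat_lit 1) (nat_lit 222) (nat_lit 1) (nat_lit 227) (nat_lit 1) (nat_lit 351) (nat_lit 363) (nat_lit 306))) (XT.nd (nat_lit 78) (nat_lit 304) (nat_lit 0) (XT.lf (nat_lit 76) (nat_lit 1764906609) (nat_lit 0) (nat_lit 263551255) (nat_lit 304) (nat_lit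 1764906609) (nat_lit 219) (nat_lit 1) (nat_lit 218) (nat_lit 1) (nat_lit 222) (nat_lit 1) (nat_lit 352) (nat_lit 363) (nat_lit 305)) (XT.nd (nat_lit 78) (nat_lit 0) (nat_lit 0) (XT.lf (nat_lit 380) (nat_lit 2626555421) (nat_lit 0) (nat_lit 562049058) (nat_lit 304) (nat_lit 562049058) (nat_lit 219) (nat_lit 1) (nat_lit 214) (nat_lit 1) (nat_lit 218) (nat_lit 1) (nat_lit 353) (nat_lit 363) (nat_lit 304)) (XT.lf (nat_lit 76) (nat_lit 861800302) (nat_lit 0) (nat_lit 1984828563) (nat_lit 380) (nat_lit 861800302) (nat_lit 215) (nat_lit 1) (nat_lit 214) (nat_lit 1) (nat_lit 219) (nat_lit 1) (nat_lit 354) (nat_lit 363) (nat_lit 303))))) (XT.nd (nat_lit 156) (nat_lit 228) (nat_lit 0) (XT.nd (nat_lit 78) (nat_lit 380) (nat_lit 0) (XT.lf (nat_lit 304) (nat_lit 827486339) (nat_lit 0) (nat_lit 1419690762) (nat_lit 228) (nat_lit 1419690762) (nat_lit 215) (nat_lit 1) (nat_lit 211) (nat_lit 1) (nat_lit 214) (nat_lit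 1) (nat_lit 355) (nat_lit 363) (nat_lit 302)) (XT.lf (nat_lit 380) (nat_lit 3576025867) (nat_lit 0) (nat_lit 25111592) (nat_lit 304) (nat_lit 25111592) (nat_lit 211) (nat_lit 1) (nat_lit 206) (nat_lit 1) (nat_lit 210) (nat_lit 1) (nat_lit 356) (nat_lit 363) (nat_lit 301))) (XT.nd (nat_lit 78) (nat_lit 228) (nat_lit 0) (XT.lf (nat_lit 76) (nat_lit 1332242007) (nat_lit 0) (nat_lit 921066372) (nat_lit 380) (nat_lit 1332242007) (nat_lit 207) (nat_lit 1) (nat_lit 206) (nat_lit 1) (nat_lit 211) (nat_lit 1) (nat_lit 357) (nat_lit 363) (nat_lit 300)) (XT.nd (nat_lit 78) (nat_lit 0) (nat_lit 0) (XT.lf (nat_lit 304) (nat_lit 1770461862) (nat_lit 0) (nat_lit 887656122) (nat_lit 228) (nat_lit 887656122) (nat_lit 207) (nat_lit 1) (nat_lit 203) (nat_lit 1) (nat_lit 206) (nat_lit 1) (nat_lit 358) (nat_lit 363) (nat_lit 299)) (XT.lf (nat_lit 76) (nat_lit 442474932) (nat_lit 0) (nat_lit 2621695933) (nat_lit 304) (nat_lit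 442474932) (nat_lit 204) (nat_lit 1) (nat_lit 203) (nat_lit 1) (nat_lit 207) (nat_lit 1) (nat_lit 359) (nat_lit 363) (nat_lit 298))))))))
noncomputable def ec133 : XT := (XT.nd (nat_lit 1482) (nat_lit 2204) (nat_lit 0) (XT.nd (nat_lit 702) (nat_lit 1216) (nat_lit 0) (XT.nd (nat_lit 312) (nat_lit 760) (nat_lit 0) (XT.nd (nat_lit 156) (nat_lit 228) (nat_lit 0) (XT.nd (nat_lit 78) (nat_lit 228) (nat_lit 0) (XT.lf (nat_lit 76) (nat_lit 1733722099) (nat_lit 0) (nat_lit 464184) (nat_lit 304) (nat_lit 1733722099) (nat_lit 200) (nat_lit 1) (nat_lit 199) (nat_lit 1) (nat_lit 203) (nat_lit 1) (nat_lit 360) (nat_lit 363) (nat_lit 297)) (XT.lf (nat_lit 304) (nat_lit 2578130460) (nat_lit 0) (nat_lit 425835306) (nat_lit 228) (nat_lit 425835306) (nat_lit 200) (nat_lit 1) (nat_lit 196) (nat_lit 1) (nat_lit 199) (nat_lit 1) (nat_lit 361) (nat_lit 363) (nat_lit 296))) (XT.nd (nat_lit 78) (nat_lit 228) (nat_lit 0) (XT.lf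 (nat_lit 76) (nat_lit 844596510) (nat_lit 0) (nat_lit 1702867187) (nat_lit 304) (nat_lit 844596510) (nat_lit 197) (nat_lit 1) (nat_lit 196) (nat_lit 1) (nat_lit 200) (nat_lit 1) (nat_lit 362) (nat_lit 363) (nat_lit 295)) (XT.lf (nat_lit 304) (nat_lit 809452185) (nat_lit 0) (nat_lit 1272740075) (nat_lit 228) (nat_lit 1272740075) (nat_lit 197) (nat_lit 1) (nat_lit 193) (nat_lit 1) (nat_lit 196) (nat_lit 1) (nat_lit 363) (nat_lit 363) (nat_lit 294)))) (XT.nd (nat_lit 156) (nat_lit 456) (nat_lit 0) (XT.nd (nat_lit 78) (nat_lit 0) (nat_lit 0) (XT.lf (nat_lit 304) (nat_lit 3266458849) (nat_lit 0) (nat_lit 26081521) (nat_lit 228) (nat_lit 26081521) (nat_lit 193) (nat_lit 1) (nat_lit 189) (nat_lit 1) (nat_lit 192) (nat_lit 1) (nat_lit 364) (nat_lit 363) (nat_lit 293)) (XT.lf (nat_lit 76) (nat_lit 1188726908) (nat_lit 0) (nat_lit 904746612) (nat_lit 304) (nat_lit 1188726908) (nat_lit 190) (nat_lit 1) (nat_lit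 189) (nat_lit 1) (nat_lit 193) (nat_lit 1) (nat_lit 365) (nat_lit 363) (nat_lit 292))) (XT.nd (nat_lit 78) (nat_lit 228) (nat_lit 0) (XT.lf (nat_lit 304) (nat_lit 1505472068) (nat_lit 0) (nat_lit 870554682) (nat_lit 228) (nat_lit 870554682) (nat_lit 190) (nat_lit 1) (nat_lit 186) (nat_lit 1) (nat_lit 189) (nat_lit 1) (nat_lit 366) (nat_lit 363) (nat_lit 291)) (XT.nd (nat_lit 78) (nat_lit 228) (nat_lit 0) (XT.lf (nat_lit 76) (nat_lit 321991092) (nat_lit 0) (nat_lit 2567583555) (nat_lit 304) (nat_lit 321991092) (nat_lit 187) (nat_lit 1) (nat_lit 186) (nat_lit 1) (nat_lit 190) (nat_lit 1) (nat_lit 367) (nat_lit 363) (nat_lit 290)) (XT.lf (nat_lit 76) (nat_lit 1481715886) (nat_lit 0) (nat_lit 213342221) (nat_lit 228) (nat_lit 1481715886) (nat_lit 184) (nat_lit 1) (nat_lit 183) (nat_lit 1) (nat_lit 186) (nat_lit 1) (nat_lit 368) (nat_lit 363) (nat_lit 289)))))) (XT.nd (nat_lit 390) (nat_lit 532) (nat_lit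 0) (XT.nd (nat_lit 156) (nat_lit 456) (nat_lit 0) (XT.nd (nat_lit 78) (nat_lit 0) (nat_lit 0) (XT.lf (nat_lit 304) (nat_lit 2100975236) (nat_lit 0) (nat_lit 520798511) (nat_lit 228) (nat_lit 520798511) (nat_lit 184) (nat_lit 1) (nat_lit 180) (nat_lit 1) (nat_lit 183) (nat_lit 1) (nat_lit 369) (nat_lit 363) (nat_lit 288)) (XT.lf (nat_lit 76) (nat_lit 621418528) (nat_lit 0) (nat_lit 1865923757) (nat_lit 304) (nat_lit 621418528) (nat_lit 181) (nat_lit 1) (nat_lit 180) (nat_lit 1) (nat_lit 184) (nat_lit 1) (nat_lit 370) (nat_lit 363) (nat_lit 287))) (XT.nd (nat_lit 78) (nat_lit 304) (nat_lit 0) (XT.lf (nat_lit 228) (nat_lit 391399824) (nat_lit 0) (nat_lit 1342000764) (nat_lit 152) (nat_lit 1342000764) (nat_lit 181) (nat_lit 1) (nat_lit 178) (nat_lit 1) (nat_lit 180) (nat_lit 1) (nat_lit 371) (nat_lit 363) (nat_lit 286)) (XT.nd (nat_lit 78) (nat_lit 0) (nat_lit 0) (XT.lf (nat_lit 304) (nat_lit 2607837637)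 (nat_lit 0) (nat_lit 217404238) (nat_lit 228) (nat_lit 217404238) (nat_lit 178) (nat_lit 1) (nat_lit 174) (nat_lit 1) (nat_lit 177) (nat_lit 1) (nat_lit 372) (nat_lit 363) (nat_lit 285)) (XT.lf (nat_lit 76) (nat_lit 877688929) (nat_lit 0) (nat_lit 1254605424) (nat_lit 304) (nat_lit 877688929) (nat_lit 175) (nat_lit 1) (nat_lit 174) (nat_lit 1) (nat_lit 178) (nat_lit 1) (nat_lit 373) (nat_lit 363) (nat_lit 284))))) (XT.nd (nat_lit 156) (nat_lit 380) (nat_lit 0) (XT.nd (nat_lit 78) (nat_lit 0) (nat_lit 0) (XT.lf (nat_lit 228) (nat_lit 915446954) (nat_lit 0) (nat_lit 1031233295) (nat_lit 152) (nat_lit 1031233295) (nat_lit 175) (nat_lit 1) (nat_lit 172) (nat_lit 1) (nat_lit 174) (nat_lit 1) (nat_lit 374) (nat_lit 363) (nat_lit 283)) (XT.lf (nat_lit 76) (nat_lit 45458112) (nat_lit 0) (nat_lit 2855597655) (nat_lit 228) (nat_lit 45458112) (nat_lit 173) (nat_lit 1) (nat_lit 172) (nat_lit 1) (nat_lit 175) (nat_lit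 1) (nat_lit 375) (nat_lit 363) (nat_lit 282))) (XT.nd (nat_lit 78) (nat_lit 152) (nat_lit 0) (XT.lf (nat_lit 76) (nat_lit 1095899339) (nat_lit 0) (nat_lit 723201965) (nat_lit 228) (nat_lit 1095899339) (nat_lit 170) (nat_lit 1) (nat_lit 169) (nat_lit 1) (nat_lit 172) (nat_lit 1) (nat_lit 376) (nat_lit 363) (nat_lit 281)) (XT.nd (nat_lit 78) (nat_lit 0) (nat_lit 0) (XT.lf (nat_lit 228) (nat_lit 1364521285) (nat_lit 0) (nat_lit 759813152) (nat_lit 152) (nat_lit 759813152) (nat_lit 170) (nat_lit 1) (nat_lit 167) (nat_lit 1) (nat_lit 169) (nat_lit 1) (nat_lit 377) (nat_lit 363) (nat_lit 280)) (XT.lf (nat_lit 76) (nat_lit 273914619) (nat_lit 0) (nat_lit 2305970431) (nat_lit 228) (nat_lit 273914619) (nat_lit 168) (nat_lit 1) (nat_lit 167) (nat_lit 1) (nat_lit 170) (nat_lit 1) (nat_lit 378) (nat_lit 363) (nat_lit 279))))))) (XT.nd (nat_lit 702) (nat_lit 1064) (nat_lit 0) (XT.nd (nat_lit 312) (nat_lit 608) (nat_lit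 0) (XT.nd (nat_lit 156) (nat_lit 152) (nat_lit 0) (XT.nd (nat_lit 78) (nat_lit 152) (nat_lit 0) (XT.lf (nat_lit 76) (nat_lit 1280570128) (nat_lit 0) (nat_lit 262459749) (nat_lit 228) (nat_lit 1280570128) (nat_lit 165) (nat_lit 1) (nat_lit 164) (nat_lit 1) (nat_lit 167) (nat_lit 1) (nat_lit 379) (nat_lit 363) (nat_lit 278)) (XT.lf (nat_lit 228) (nat_lit 1747464852) (nat_lit 0) (nat_lit 523215917) (nat_lit 152) (nat_lit 523215917) (nat_lit 165) (nat_lit 1) (nat_lit 162) (nat_lit 1) (nat_lit 164) (nat_lit 1) (nat_lit 380) (nat_lit 363) (nat_lit 277))) (XT.nd (nat_lit 78) (nat_lit 152) (nat_lit 0) (XT.lf (nat_lit 76) (nat_lit 470093549) (nat_lit 0) (nat_lit 1824367483) (nat_lit 228) (nat_lit 470093549) (nat_lit 163) (nat_lit 1) (nat_lit 162) (nat_lit 1) (nat_lit 165) (nat_lit 1) (nat_lit 381) (nat_lit 363) (nat_lit 276)) (XT.lf (nat_lit 228) (nat_lit 138536332) (nat_lit 0) (nat_lit 1298504909) (nat_lit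 152) (nat_lit 1298504909) (nat_lit 163) (nat_lit 1) (nat_lit 160) (nat_lit 1) (nat_lit 162) (nat_lit 1) (nat_lit 382) (nat_lit 363) (nat_lit 275)))) (XT.nd (nat_lit 156) (nat_lit 380) (nat_lit 0) (XT.nd (nat_lit 78) (nat_lit 0) (nat_lit 0) (XT.lf (nat_lit 228) (nat_lit 2072119657) (nat_lit 0) (nat_lit 317425685) (nat_lit 152) (nat_lit 317425685) (nat_lit 160) (nat_lit 1) (nat_lit 157) (nat_lit 1) (nat_lit 159) (nat_lit 1) (nat_lit 383) (nat_lit 363) (nat_lit 274)) (XT.lf (nat_lit 76) (nat_lit 637792376) (nat_lit 0) (nat_lit 1403007095) (nat_lit 228) (nat_lit 637792376) (nat_lit 158) (nat_lit 1) (nat_lit 157) (nat_lit 1) (nat_lit 160) (nat_lit 1) (nat_lit 384) (nat_lit 363) (nat_lit 273))) (XT.nd (nat_lit 78) (nat_lit 228) (nat_lit 0) (XT.lf (nat_lit 228) (nat_lit 488494922) (nat_lit 0) (nat_lit 1081071847) (nat_lit 152) (nat_lit 1081071847) (nat_lit 158) (nat_lit 1) (nat_lit 155) (nat_lit 1) (nat_lit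 157) (nat_lit 1) (nat_lit 385) (nat_lit 363) (nat_lit 272)) (XT.nd (nat_lit 78) (nat_lit 0) (nat_lit 0) (XT.lf (nat_lit 228) (nat_lit 2345439603) (nat_lit 0) (nat_lit 138878240) (nat_lit 152) (nat_lit 138878240) (nat_lit 155) (nat_lit 1) (nat_lit 152) (nat_lit 1) (nat_lit 154) (nat_lit 1) (nat_lit 386) (nat_lit 363) (nat_lit 271)) (XT.lf (nat_lit 76) (nat_lit 780379340) (nat_lit 0) (nat_lit 1034981026) (nat_lit 228) (nat_lit 780379340) (nat_lit 153) (nat_lit 1) (nat_lit 152) (nat_lit 1) (nat_lit 155) (nat_lit 1) (nat_lit 387) (nat_lit 363) (nat_lit 270)))))) (XT.nd (nat_lit 390) (nat_lit 608) (nat_lit 0) (XT.nd (nat_lit 156) (nat_lit 304) (nat_lit 0) (XT.nd (nat_lit 78) (nat_lit 0) (nat_lit 0) (XT.lf (nat_lit 228) (nat_lit 788785668) (nat_lit 0) (nat_lit 890000910) (nat_lit 152) (nat_lit 890000910) (nat_lit 153) (nat_lit 1) (nat_lit 150) (nat_lit 1) (nat_lit 152) (nat_lit 1) (nat_lit 388) (nat_lit 363)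 (nat_lit 269)) (XT.lf (nat_lit 76) (nat_lit 15743774) (nat_lit 0) (nat_lit 2510905271) (nat_lit 228) (nat_lit 15743774) (nat_lit 151) (nat_lit 1) (nat_lit 150) (nat_lit 1) (nat_lit 153) (nat_lit 1) (nat_lit 389) (nat_lit 363) (nat_lit 268))) (XT.nd (nat_lit 78) (nat_lit 152) (nat_lit 0) (XT.lf (nat_lit 76) (nat_lit 900841474) (nat_lit 0) (nat_lit 714156940) (nat_lit 152) (nat_lit 900841474) (nat_lit 149) (nat_lit 1) (nat_lit 148) (nat_lit 1) (nat_lit 150) (nat_lit 1) (nat_lit 390) (nat_lit 363) (nat_lit 267)) (XT.nd (nat_lit 78) (nat_lit 0) (nat_lit 0) (XT.lf (nat_lit 228) (nat_lit 1045257167) (nat_lit 0) (nat_lit 722290763) (nat_lit 152) (nat_lit 722290763) (nat_lit 149) (nat_lit 1) (nat_lit 146) (nat_lit 1) (nat_lit 148) (nat_lit 1) (nat_lit 391) (nat_lit 363) (nat_lit 266)) (XT.lf (nat_lit 76) (nat_lit 150257061) (nat_lit 0) (nat_lit 2163779264) (nat_lit 228) (nat_lit 150257061) (nat_lit 147) (nat_lit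 1) (nat_lit 146) (nat_lit 1) (nat_lit 149) (nat_lit 1) (nat_lit 392) (nat_lit 363) (nat_lit 265))))) (XT.nd (nat_lit 156) (nat_lit 304) (nat_lit 0) (XT.nd (nat_lit 78) (nat_lit 152) (nat_lit 0) (XT.lf (nat_lit 76) (nat_lit 1001827281) (nat_lit 0) (nat_lit 435091718) (nat_lit 152) (nat_lit 1001827281) (nat_lit 145) (nat_lit 1) (nat_lit 144) (nat_lit 1) (nat_lit 146) (nat_lit 1) (nat_lit 393) (nat_lit 363) (nat_lit 264)) (XT.lf (nat_lit 228) (nat_lit 1263096792) (nat_lit 0) (nat_lit 575276553) (nat_lit 152) (nat_lit 575276553) (nat_lit 145) (nat_lit 1) (nat_lit 142) (nat_lit 1) (nat_lit 144) (nat_lit 1) (nat_lit 394) (nat_lit 363) (nat_lit 263))) (XT.nd (nat_lit 78) (nat_lit 304) (nat_lit 0) (XT.lf (nat_lit 76) (nat_lit 265801378) (nat_lit 0) (nat_lit 1857317474) (nat_lit 228) (nat_lit 265801378) (nat_lit 143) (nat_lit 1) (nat_lit 142) (nat_lit 1) (nat_lit 145) (nat_lit 1) (nat_lit 395) (nat_lit 363)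 (nat_lit 262)) (XT.nd (nat_lit 78) (nat_lit 152) (nat_lit 0) (XT.lf (nat_lit 76) (nat_lit 1085684641) (nat_lit 0) (nat_lit 192954450) (nat_lit 152) (nat_lit 1085684641) (nat_lit 141) (nat_lit 1) (nat_lit 140) (nat_lit 1) (nat_lit 142) (nat_lit 1) (nat_lit 396) (nat_lit 363) (nat_lit 261)) (XT.lf (nat_lit 228) (nat_lit 1446904691) (nat_lit 0) (nat_lit 446592335) (nat_lit 152) (nat_lit 446592335) (nat_lit 141) (nat_lit 1) (nat_lit 138) (nat_lit 1) (nat_lit 140) (nat_lit 1) (nat_lit 397) (nat_lit 363) (nat_lit 260))))))))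
noncomputable def ec134 : XT := (XT.nd (nat_lit 1482) (nat_lit 1368) (nat_lit 0) (XT.nd (nat_lit 702) (nat_lit 836) (nat_lit 0) (XT.nd (nat_lit 312) (nat_lit 608) (nat_lit 0) (XT.nd (nat_lit 156) (nat_lit 228) (nat_lit 0) (XT.nd (nat_lit 78) (nat_lit 76) (nat_lit 0) (XT.lf (nat_lit 76) (nat_lit 364607610) (nat_lit 0) (nat_lit 1586928367) (nat_lit 228) (nat_lit 364607610) (nat_lit 139) (nat_lit 1) (nat_lit 138) (nat_lit 1) (nat_lit 141) (nat_lit 1) (nat_lit 398) (nat_lit 363) (nat_lit 259)) (XT.lf (nat_lit 152) (nat_lit 16871207) (nat_lit 0) (nat_lit 1137785455) (nat_lit 76) (nat_lit 1137785455) (nat_lit 139) (nat_lit 1) (nat_lit 137) (nat_lit 1) (nat_lit 138) (nat_lit 1) (nat_lit 399) (nat_lit 363) (nat_lit 258))) (XT.nd (nat_lit 78) (nat_lit 0) (nat_lit 0) (XT.lf (nat_lit 228) (nat_lit 1600759525) (nat_lit 0) (nat_lit 334137688) (nat_lit 152) (nat_lit 334137688) (nat_lit 137) (nat_lit 1) (nat_lit 134)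 (nat_lit 1) (nat_lit 136) (nat_lit 1) (nat_lit 400) (nat_lit 363) (nat_lit 257)) (XT.lf (nat_lit 76) (nat_lit 448654507) (nat_lit 0) (nat_lit 1348534084) (nat_lit 228) (nat_lit 448654507) (nat_lit 135) (nat_lit 1) (nat_lit 134) (nat_lit 1) (nat_lit 137) (nat_lit 1) (nat_lit 401) (nat_lit 363) (nat_lit 256)))) (XT.nd (nat_lit 156) (nat_lit 304) (nat_lit 0) (XT.nd (nat_lit 78) (nat_lit 228) (nat_lit 0) (XT.lf (nat_lit 152) (nat_lit 201126433) (nat_lit 0) (nat_lit 1010907640) (nat_lit 76) (nat_lit 1010907640) (nat_lit 135) (nat_lit 1) (nat_lit 133) (nat_lit 1) (nat_lit 134) (nat_lit 1) (nat_lit 402) (nat_lit 363) (nat_lit 255)) (XT.lf (nat_lit 228) (nat_lit 1728276869) (nat_lit 0) (nat_lit 236048059) (nat_lit 152) (nat_lit 236048059) (nat_lit 133) (nat_lit 1) (nat_lit 130) (nat_lit 1) (nat_lit 132) (nat_lit 1) (nat_lit 403) (nat_lit 363) (nat_lit 254))) (XT.nd (nat_lit 78) (nat_lit 304) (nat_lit 0) (XT.lf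 (nat_lit 76) (nat_lit 519696891) (nat_lit 0) (nat_lit 1138513111) (nat_lit 228) (nat_lit 519696891) (nat_lit 131) (nat_lit 1) (nat_lit 130) (nat_lit 1) (nat_lit 133) (nat_lit 1) (nat_lit 404) (nat_lit 363) (nat_lit 253)) (XT.nd (nat_lit 78) (nat_lit 228) (nat_lit 0) (XT.lf (nat_lit 152) (nat_lit 359413360) (nat_lit 0) (nat_lit 898178344) (nat_lit 76) (nat_lit 898178344) (nat_lit 131) (nat_lit 1) (nat_lit 129) (nat_lit 1) (nat_lit 130) (nat_lit 1) (nat_lit 405) (nat_lit 363) (nat_lit 252)) (XT.lf (nat_lit 228) (nat_lit 1832661093) (nat_lit 0) (nat_lit 150668411) (nat_lit 152) (nat_lit 150668411) (nat_lit 129) (nat_lit 1) (nat_lit 126) (nat_lit 1) (nat_lit 128) (nat_lit 1) (nat_lit 406) (nat_lit 363) (nat_lit 251)))))) (XT.nd (nat_lit 390) (nat_lit 456) (nat_lit 0) (XT.nd (nat_lit 156) (nat_lit 304) (nat_lit 0) (XT.nd (nat_lit 78) (nat_lit 76) (nat_lit 0) (XT.lf (nat_lit 76) (nat_lit 579290726) (nat_lit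 0) (nat_lit 953649340) (nat_lit 228) (nat_lit 579290726) (nat_lit 127) (nat_lit 1) (nat_lit 126) (nat_lit 1) (nat_lit 129) (nat_lit 1) (nat_lit 407) (nat_lit 363) (nat_lit 250)) (XT.lf (nat_lit 152) (nat_lit 494785698) (nat_lit 0) (nat_lit 798019826) (nat_lit 76) (nat_lit 798019826) (nat_lit 127) (nat_lit 1) (nat_lit 125) (nat_lit 1) (nat_lit 126) (nat_lit 1) (nat_lit 408) (nat_lit 363) (nat_lit 249))) (XT.nd (nat_lit 78) (nat_lit 76) (nat_lit 0) (XT.lf (nat_lit 228) (nat_lit 1916751450) (nat_lit 0) (nat_lit 76529813) (nat_lit 152) (nat_lit 76529813) (nat_lit 125) (nat_lit 1) (nat_lit 122) (nat_lit 1) (nat_lit 124) (nat_lit 1) (nat_lit 409) (nat_lit 363) (nat_lit 248)) (XT.nd (nat_lit 78) (nat_lit 76) (nat_lit 0) (XT.lf (nat_lit 76) (nat_lit 628815385) (nat_lit 0) (nat_lit 791086822) (nat_lit 228) (nat_lit 628815385) (nat_lit 123) (nat_lit 1) (nat_lit 122) (nat_lit 1) (nat_lit 125) (nat_lit 1) (nat_lit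 410) (nat_lit 363) (nat_lit 247)) (XT.lf (nat_lit 152) (nat_lit 609952026) (nat_lit 0) (nat_lit 709030279) (nat_lit 76) (nat_lit 709030279) (nat_lit 123) (nat_lit 1) (nat_lit 121) (nat_lit 1) (nat_lit 122) (nat_lit 1) (nat_lit 411) (nat_lit 363) (nat_lit 246))))) (XT.nd (nat_lit 156) (nat_lit 228) (nat_lit 0) (XT.nd (nat_lit 78) (nat_lit 0) (nat_lit 0) (XT.lf (nat_lit 228) (nat_lit 1983063018) (nat_lit 0) (nat_lit 12328642) (nat_lit 152) (nat_lit 12328642) (nat_lit 121) (nat_lit 1) (nat_lit 118) (nat_lit 1) (nat_lit 120) (nat_lit 1) (nat_lit 412) (nat_lit 363) (nat_lit 245)) (XT.lf (nat_lit 76) (nat_lit 669493429) (nat_lit 0) (nat_lit 648289556) (nat_lit 228) (nat_lit 669493429) (nat_lit 119) (nat_lit 1) (nat_lit 118) (nat_lit 1) (nat_lit 121) (nat_lit 1) (nat_lit 413) (nat_lit 363) (nat_lit 244))) (XT.nd (nat_lit 78) (nat_lit 152) (nat_lit 0) (XT.lf (nat_lit 152) (nat_lit 707314418) (nat_lit 0) (nat_lit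 629964219) (nat_lit 76) (nat_lit 629964219) (nat_lit 119) (nat_lit 1) (nat_lit 117) (nat_lit 1) (nat_lit 118) (nat_lit 1) (nat_lit 414) (nat_lit 363) (nat_lit 243)) (XT.nd (nat_lit 78) (nat_lit 152) (nat_lit 0) (XT.lf (nat_lit 0) (nat_lit 43518546) (nat_lit 0) (nat_lit 1860551737) (nat_lit 152) (nat_lit 43518546) (nat_lit 117) (nat_lit 3) (nat_lit 117) (nat_lit 1) (nat_lit 119) (nat_lit 1) (nat_lit 415) (nat_lit 363) (nat_lit 242)) (XT.lf (nat_lit 76) (nat_lit 702408186) (nat_lit 0) (nat_lit 523005767) (nat_lit 152) (nat_lit 702408186) (nat_lit 116) (nat_lit 1) (nat_lit 115) (nat_lit 1) (nat_lit 117) (nat_lit 1) (nat_lit 416) (nat_lit 363) (nat_lit 241))))))) (XT.nd (nat_lit 702) (nat_lit 684) (nat_lit 0) (XT.nd (nat_lit 312) (nat_lit 380) (nat_lit 0) (XT.nd (nat_lit 156) (nat_lit 228) (nat_lit 0) (XT.nd (nat_lit 78) (nat_lit 0) (nat_lit 0) (XT.lf (nat_lit 152) (nat_lit 789002752) (nat_lit 0) (nat_lit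 559715050) (nat_lit 76) (nat_lit 559715050) (nat_lit 116) (nat_lit 1) (nat_lit 114) (nat_lit 1) (nat_lit 115) (nat_lit 1) (nat_lit 417) (nat_lit 363) (nat_lit 240)) (XT.lf (nat_lit 0) (nat_lit 91656770) (nat_lit 0) (nat_lit 1706067227) (nat_lit 152) (nat_lit 91656770) (nat_lit 114) (nat_lit 3) (nat_lit 114) (nat_lit 1) (nat_lit 116) (nat_lit 1) (nat_lit 418) (nat_lit 363) (nat_lit 239))) (XT.nd (nat_lit 78) (nat_lit 76) (nat_lit 0) (XT.lf (nat_lit 76) (nat_lit 728519358) (nat_lit 0) (nat_lit 413236174) (nat_lit 152) (nat_lit 728519358) (nat_lit 113) (nat_lit 1) (nat_lit 112) (nat_lit 1) (nat_lit 114) (nat_lit 1) (nat_lit 419) (nat_lit 363) (nat_lit 238)) (XT.lf (nat_lit 152) (nat_lit 856905184) (nat_lit 0) (nat_lit 497299572) (nat_lit 76) (nat_lit 497299572) (nat_lit 113) (nat_lit 1) (nat_lit 111) (nat_lit 1) (nat_lit 112) (nat_lit 1) (nat_lit 420) (nat_lit 363) (nat_lit 237)))) (XT.nd (nat_lit 156)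 (nat_lit 228) (nat_lit 0) (XT.nd (nat_lit 78) (nat_lit 152) (nat_lit 0) (XT.lf (nat_lit 0) (nat_lit 132883529) (nat_lit 0) (nat_lit 1567266310) (nat_lit 152) (nat_lit 132883529) (nat_lit 111) (nat_lit 3) (nat_lit 111) (nat_lit 1) (nat_lit 113) (nat_lit 1) (nat_lit 421) (nat_lit 363) (nat_lit 236)) (XT.lf (nat_lit 76) (nat_lit 748676890) (nat_lit 0) (nat_lit 317205788) (nat_lit 152) (nat_lit 748676890) (nat_lit 110) (nat_lit 1) (nat_lit 109) (nat_lit 1) (nat_lit 111) (nat_lit 1) (nat_lit 422) (nat_lit 363) (nat_lit 235))) (XT.nd (nat_lit 78) (nat_lit 152) (nat_lit 0) (XT.lf (nat_lit 152) (nat_lit 912695233) (nat_lit 0) (nat_lit 441844229) (nat_lit 76) (nat_lit 441844229) (nat_lit 110) (nat_lit 1) (nat_lit 108) (nat_lit 1) (nat_lit 109) (nat_lit 1) (nat_lit 423) (nat_lit 363) (nat_lit 234)) (XT.nd (nat_lit 78) (nat_lit 152) (nat_lit 0) (XT.lf (nat_lit 0) (nat_lit 168014495) (nat_lit 0) (nat_lit 1442445017)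 (nat_lit 152) (nat_lit 168014495) (nat_lit 108) (nat_lit 3) (nat_lit 108) (nat_lit 1) (nat_lit 110) (nat_lit 1) (nat_lit 424) (nat_lit 363) (nat_lit 233)) (XT.lf (nat_lit 76) (nat_lit 763633289) (nat_lit 0) (nat_lit 233338865) (nat_lit 152) (nat_lit 763633289) (nat_lit 107) (nat_lit 1) (nat_lit 106) (nat_lit 1) (nat_lit 108) (nat_lit 1) (nat_lit 425) (nat_lit 363) (nat_lit 232)))))) (XT.nd (nat_lit 390) (nat_lit 380) (nat_lit 0) (XT.nd (nat_lit 156) (nat_lit 228) (nat_lit 0) (XT.nd (nat_lit 78) (nat_lit 0) (nat_lit 0) (XT.lf (nat_lit 152) (nat_lit 957855831) (nat_lit 0) (nat_lit 392572874) (nat_lit 76) (nat_lit 392572874) (nat_lit 107) (nat_lit 1) (nat_lit 105) (nat_lit 1) (nat_lit 106) (nat_lit 1) (nat_lit 426) (nat_lit 363) (nat_lit 231)) (XT.lf (nat_lit 0) (nat_lit 197773071) (nat_lit 0) (nat_lit 1330088084) (nat_lit 152) (nat_lit 197773071) (nat_lit 105) (nat_lit 3) (nat_lit 105) (nat_lit 1) (nat_lit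 107) (nat_lit 1) (nat_lit 427) (nat_lit 363) (nat_lit 230))) (XT.nd (nat_lit 78) (nat_lit 76) (nat_lit 0) (XT.lf (nat_lit 76) (nat_lit 774054567) (nat_lit 0) (nat_lit 160236648) (nat_lit 152) (nat_lit 774054567) (nat_lit 104) (nat_lit 1) (nat_lit 103) (nat_lit 1) (nat_lit 105) (nat_lit 1) (nat_lit 428) (nat_lit 363) (nat_lit 229)) (XT.nd (nat_lit 78) (nat_lit 0) (nat_lit 0) (XT.lf (nat_lit 152) (nat_lit 993700692) (nat_lit 0) (nat_lit 348795914) (nat_lit 76) (nat_lit 348795914) (nat_lit 104) (nat_lit 1) (nat_lit 102) (nat_lit 1) (nat_lit 103) (nat_lit 1) (nat_lit 429) (nat_lit 363) (nat_lit 228)) (XT.lf (nat_lit 0) (nat_lit 222800724) (nat_lit 0) (nat_lit 1228847947) (nat_lit 152) (nat_lit 222800724) (nat_lit 102) (nat_lit 3) (nat_lit 102) (nat_lit 1) (nat_lit 104) (nat_lit 1) (nat_lit 430) (nat_lit 363) (nat_lit 227))))) (XT.nd (nat_lit 156) (nat_lit 152) (nat_lit 0) (XT.nd (nat_lit 78) (nat_lit 76)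 (nat_lit 0) (XT.lf (nat_lit 76) (nat_lit 780529962) (nat_lit 0) (nat_lit 96657592) (nat_lit 152) (nat_lit 780529962) (nat_lit 101) (nat_lit 1) (nat_lit 100) (nat_lit 1) (nat_lit 102) (nat_lit 1) (nat_lit 431) (nat_lit 363) (nat_lit 226)) (XT.lf (nat_lit 152) (nat_lit 1021393294) (nat_lit 0) (nat_lit 309900652) (nat_lit 76) (nat_lit 309900652) (nat_lit 101) (nat_lit 1) (nat_lit 99) (nat_lit 1) (nat_lit 100) (nat_lit 1) (nat_lit 432) (nat_lit 363) (nat_lit 225))) (XT.nd (nat_lit 78) (nat_lit 152) (nat_lit 0) (XT.lf (nat_lit 0) (nat_lit 243666151) (nat_lit 0) (nat_lit 1137526078) (nat_lit 152) (nat_lit 243666151) (nat_lit 99) (nat_lit 3) (nat_lit 99) (nat_lit 1) (nat_lit 101) (nat_lit 1) (nat_lit 433) (nat_lit 363) (nat_lit 224)) (XT.nd (nat_lit 42042) (nat_lit 0) (nat_lit 21052) (XT.lf (nat_lit 76) (nat_lit 783580573) (nat_lit 0) (nat_lit 41499802) (nat_lit 152) (nat_lit 783580573) (nat_lit 98) (nat_lit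 1) (nat_lit 97) (nat_lit 1) (nat_lit 99) (nat_lit 1) (nat_lit 434) (nat_lit 363) (nat_lit 223)) (XT.lf (nat_lit 1292) (nat_lit 758155116) (nat_lit 0) (nat_lit 2608406195) (nat_lit 1292) (nat_lit 758155116) (nat_lit 391) (nat_lit 1) (nat_lit 374) (nat_lit 0) (nat_lit 391) (nat_lit 0) (nat_lit 292) (nat_lit 364) (nat_lit 364))))))))
noncomputable def ec135 : XT := (XT.nd (nat_lit 1482) (nat_lit 5928) (nat_lit 0) (XT.nd (nat_lit 702) (nat_lit 1520) (nat_lit 0) (XT.nd (nat_lit 312) (nat_lit 0) (nat_lit 152) (XT.nd (nat_lit 156) (nat_lit 0) (nat_lit 76) (XT.nd (nat_lit 78) (nat_lit 0) (nat_lit 76) (XT.lf (nat_lit 1292) (nat_lit 2962883481) (nat_lit 76) (nat_lit 2582833585) (nat_lit 0) (nat_lit 2582833585) (nat_lit 391) (nat_lit 1) (nat_lit 375) (nat_lit 1) (nat_lit 374) (nat_lit 0) (nat_lit 293) (nat_lit 364) (nat_lit 363)) (XT.lf (nat_lit 1292) (nat_lit 1432921094) (nat_lit 0) (nat_lit 5144492667) (nat_lit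 1216) (nat_lit 1432921094) (nat_lit 392) (nat_lit 1) (nat_lit 375) (nat_lit 1) (nat_lit 391) (nat_lit 1) (nat_lit 294) (nat_lit 364) (nat_lit 362))) (XT.nd (nat_lit 78) (nat_lit 0) (nat_lit 76) (XT.lf (nat_lit 1292) (nat_lit 2721191141) (nat_lit 76) (nat_lit 2586451041) (nat_lit 0) (nat_lit 2586451041) (nat_lit 392) (nat_lit 1) (nat_lit 376) (nat_lit 1) (nat_lit 375) (nat_lit 1) (nat_lit 295) (nat_lit 364) (nat_lit 361)) (XT.lf (nat_lit 1292) (nat_lit 1276905371) (nat_lit 0) (nat_lit 5226641794) (nat_lit 1216) (nat_lit 1276905371) (nat_lit 393) (nat_lit 1) (nat_lit 376) (nat_lit 1) (nat_lit 392) (nat_lit 1) (nat_lit 296) (nat_lit 364) (nat_lit 360)))) (XT.nd (nat_lit 156) (nat_lit 0) (nat_lit 76) (XT.nd (nat_lit 78) (nat_lit 0) (nat_lit 76) (XT.lf (nat_lit 1292) (nat_lit 2340063917) (nat_lit 76) (nat_lit 2664282691) (nat_lit 0) (nat_lit 2664282691) (nat_lit 393) (nat_lit 1) (nat_lit 377) (nat_lit 1)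 (nat_lit 376) (nat_lit 1) (nat_lit 297) (nat_lit 364) (nat_lit 359)) (XT.lf (nat_lit 1292) (nat_lit 1054686888) (nat_lit 0) (nat_lit 5450014451) (nat_lit 1216) (nat_lit 1054686888) (nat_lit 394) (nat_lit 1) (nat_lit 377) (nat_lit 1) (nat_lit 393) (nat_lit 1) (nat_lit 298) (nat_lit 364) (nat_lit 358))) (XT.nd (nat_lit 78) (nat_lit 0) (nat_lit 76) (XT.lf (nat_lit 1292) (nat_lit 1831971252) (nat_lit 76) (nat_lit 2809900711) (nat_lit 0) (nat_lit 2809900711) (nat_lit 394) (nat_lit 1) (nat_lit 378) (nat_lit 1) (nat_lit 377) (nat_lit 1) (nat_lit 299) (nat_lit 364) (nat_lit 357)) (XT.nd (nat_lit 78) (nat_lit 0) (nat_lit 0) (XT.lf (nat_lit 1292) (nat_lit 772255041) (nat_lit 0) (nat_lit 5802253172) (nat_lit 1216) (nat_lit 772255041) (nat_lit 395) (nat_lit 1) (nat_lit 378) (nat_lit 1) (nat_lit 394) (nat_lit 1) (nat_lit 300) (nat_lit 364) (nat_lit 356)) (XT.lf (nat_lit 1292) (nat_lit 1208536735) (nat_lit 76) (nat_lit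 3017309393) (nat_lit 0) (nat_lit 3017309393) (nat_lit 395) (nat_lit 1) (nat_lit 379) (nat_lit 1) (nat_lit 378) (nat_lit 1) (nat_lit 301) (nat_lit 364) (nat_lit 355)))))) (XT.nd (nat_lit 390) (nat_lit 684) (nat_lit 0) (XT.nd (nat_lit 156) (nat_lit 1216) (nat_lit 0) (XT.nd (nat_lit 78) (nat_lit 0) (nat_lit 0) (XT.lf (nat_lit 1292) (nat_lit 435191654) (nat_lit 0) (nat_lit 6271833667) (nat_lit 1216) (nat_lit 435191654) (nat_lit 396) (nat_lit 1) (nat_lit 379) (nat_lit 1) (nat_lit 395) (nat_lit 1) (nat_lit 302) (nat_lit 364) (nat_lit 354)) (XT.lf (nat_lit 1292) (nat_lit 480590445) (nat_lit 76) (nat_lit 3280918505) (nat_lit 0) (nat_lit 3280918505) (nat_lit 396) (nat_lit 1) (nat_lit 380) (nat_lit 1) (nat_lit 379) (nat_lit 1) (nat_lit 303) (nat_lit 364) (nat_lit 353))) (XT.nd (nat_lit 78) (nat_lit 1292) (nat_lit 0) (XT.lf (nat_lit 1292) (nat_lit 48696225) (nat_lit 0) (nat_lit 6848013386) (nat_lit 1216) (nat_lit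 48696225) (nat_lit 397) (nat_lit 1) (nat_lit 380) (nat_lit 1) (nat_lit 396) (nat_lit 1) (nat_lit 304) (nat_lit 364) (nat_lit 352)) (XT.nd (nat_lit 78) (nat_lit 0) (nat_lit 0) (XT.lf (nat_lit 1368) (nat_lit 3257021820) (nat_lit 0) (nat_lit 335112428) (nat_lit 1292) (nat_lit 3257021820) (nat_lit 381) (nat_lit 1) (nat_lit 363) (nat_lit 1) (nat_lit 380) (nat_lit 1) (nat_lit 305) (nat_lit 364) (nat_lit 351)) (XT.lf (nat_lit 1368) (nat_lit 5998276404) (nat_lit 76) (nat_lit 378641392) (nat_lit 0) (nat_lit 378641392) (nat_lit 381) (nat_lit 1) (nat_lit 364) (nat_lit 1) (nat_lit 363) (nat_lit 1) (nat_lit 306) (nat_lit 364) (nat_lit 350))))) (XT.nd (nat_lit 156) (nat_lit 760) (nat_lit 0) (XT.nd (nat_lit 78) (nat_lit 0) (nat_lit 0) (XT.lf (nat_lit 1368) (nat_lit 2719071319) (nat_lit 0) (nat_lit 1224816020) (nat_lit 1292) (nat_lit 2719071319) (nat_lit 382) (nat_lit 1) (nat_lit 364) (nat_lit 1) (nat_lit 381) (nat_lit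 1) (nat_lit 307) (nat_lit 364) (nat_lit 349)) (XT.lf (nat_lit 1368) (nat_lit 4882315450) (nat_lit 76) (nat_lit 845195017) (nat_lit 0) (nat_lit 845195017) (nat_lit 382) (nat_lit 1) (nat_lit 365) (nat_lit 1) (nat_lit 364) (nat_lit 1) (nat_lit 308) (nat_lit 364) (nat_lit 348))) (XT.nd (nat_lit 78) (nat_lit 836) (nat_lit 0) (XT.lf (nat_lit 76) (nat_lit 2147168822) (nat_lit 0) (nat_lit 2189335444) (nat_lit 1292) (nat_lit 2147168822) (nat_lit 366) (nat_lit 1) (nat_lit 365) (nat_lit 1) (nat_lit 382) (nat_lit 1) (nat_lit 309) (nat_lit 364) (nat_lit 347)) (XT.nd (nat_lit 78) (nat_lit 0) (nat_lit 0) (XT.lf (nat_lit 912) (nat_lit 3702021334) (nat_lit 0) (nat_lit 1347293684) (nat_lit 836) (nat_lit 1347293684) (nat_lit 366) (nat_lit 1) (nat_lit 354) (nat_lit 1) (nat_lit 365) (nat_lit 1) (nat_lit 310) (nat_lit 364) (nat_lit 346)) (XT.lf (nat_lit 76) (nat_lit 1545151639) (nat_lit 0) (nat_lit 3220709312) (nat_lit 912)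 (nat_lit 1545151639) (nat_lit 355) (nat_lit 1) (nat_lit 354) (nat_lit 1) (nat_lit 366) (nat_lit 1) (nat_lit 311) (nat_lit 364) (nat_lit 345))))))) (XT.nd (nat_lit 702) (nat_lit 2964) (nat_lit 0) (XT.nd (nat_lit 312) (nat_lit 1748) (nat_lit 0) (XT.nd (nat_lit 156) (nat_lit 608) (nat_lit 0) (XT.nd (nat_lit 78) (nat_lit 0) (nat_lit 0) (XT.lf (nat_lit 684) (nat_lit 2464826672) (nat_lit 0) (nat_lit 1881081609) (nat_lit 608) (nat_lit 1881081609) (nat_lit 355) (nat_lit 1) (nat_lit 346) (nat_lit 1) (nat_lit 354) (nat_lit 1) (nat_lit 312) (nat_lit 364) (nat_lit 344)) (XT.lf (nat_lit 76) (nat_lit 916581803) (nat_lit 0) (nat_lit 4311540046) (nat_lit 684) (nat_lit 916581803) (nat_lit 347) (nat_lit 1) (nat_lit 346) (nat_lit 1) (nat_lit 355) (nat_lit 1) (nat_lit 313) (nat_lit 364) (nat_lit 343))) (XT.nd (nat_lit 78) (nat_lit 0) (nat_lit 0) (XT.lf (nat_lit 684) (nat_lit 1177628493) (nat_lit 0) (nat_lit 2442977221)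 (nat_lit 608) (nat_lit 2442977221) (nat_lit 347) (nat_lit 1) (nat_lit 338) (nat_lit 1) (nat_lit 346) (nat_lit 1) (nat_lit 314) (nat_lit 364) (nat_lit 342)) (XT.lf (nat_lit 76) (nat_lit 264763474) (nat_lit 0) (nat_lit 5454958406) (nat_lit 684) (nat_lit 264763474) (nat_lit 339) (nat_lit 1) (nat_lit 338) (nat_lit 1) (nat_lit 347) (nat_lit 1) (nat_lit 315) (nat_lit 364) (nat_lit 341)))) (XT.nd (nat_lit 156) (nat_lit 532) (nat_lit 0) (XT.nd (nat_lit 78) (nat_lit 608) (nat_lit 0) (XT.lf (nat_lit 76) (nat_lit 2877950479) (nat_lit 0) (nat_lit 150188785) (nat_lit 608) (nat_lit 2877950479) (nat_lit 331) (nat_lit 1) (nat_lit 330) (nat_lit 1) (nat_lit 338) (nat_lit 1) (nat_lit 316) (nat_lit 364) (nat_lit 340)) (XT.lf (nat_lit 684) (nat_lit 5023140312) (nat_lit 0) (nat_lit 403248146) (nat_lit 608) (nat_lit 403248146) (nat_lit 331) (nat_lit 1) (nat_lit 322) (nat_lit 1) (nat_lit 330) (nat_lit 1) (nat_lit 317) (nat_lit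 364) (nat_lit 339))) (XT.nd (nat_lit 78) (nat_lit 532) (nat_lit 0) (XT.lf (nat_lit 76) (nat_lit 2130994073) (nat_lit 0) (nat_lit 1491973545) (nat_lit 684) (nat_lit 2130994073) (nat_lit 323) (nat_lit 1) (nat_lit 322) (nat_lit 1) (nat_lit 331) (nat_lit 1) (nat_lit 318) (nat_lit 364) (nat_lit 338)) (XT.nd (nat_lit 78) (nat_lit 0) (nat_lit 0) (XT.lf (nat_lit 608) (nat_lit 3508378269) (nat_lit 0) (nat_lit 1085843298) (nat_lit 532) (nat_lit 1085843298) (nat_lit 323) (nat_lit 1) (nat_lit 315) (nat_lit 1) (nat_lit 322) (nat_lit 1) (nat_lit 319) (nat_lit 364) (nat_lit 337)) (XT.lf (nat_lit 76) (nat_lit 1370990887) (nat_lit 0) (nat_lit 2865326860) (nat_lit 608) (nat_lit 1370990887) (nat_lit 316) (nat_lit 1) (nat_lit 315) (nat_lit 1) (nat_lit 323) (nat_lit 1) (nat_lit 320) (nat_lit 364) (nat_lit 336)))))) (XT.nd (nat_lit 390) (nat_lit 1368) (nat_lit 0) (XT.nd (nat_lit 156) (nat_lit 1064) (nat_lit 0) (XT.nd (nat_lit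 78) (nat_lit 0) (nat_lit 0) (XT.lf (nat_lit 608) (nat_lit 1969816070) (nat_lit 0) (nat_lit 1783018626) (nat_lit 532) (nat_lit 1783018626) (nat_lit 316) (nat_lit 1) (nat_lit 308) (nat_lit 1) (nat_lit 315) (nat_lit 1) (nat_lit 321) (nat_lit 364) (nat_lit 335)) (XT.lf (nat_lit 76) (nat_lit 600318749) (nat_lit 0) (nat_lit 4265273679) (nat_lit 608) (nat_lit 600318749) (nat_lit 309) (nat_lit 1) (nat_lit 308) (nat_lit 1) (nat_lit 316) (nat_lit 1) (nat_lit 322) (nat_lit 364) (nat_lit 334))) (XT.nd (nat_lit 78) (nat_lit 608) (nat_lit 0) (XT.lf (nat_lit 532) (nat_lit 412045778) (nat_lit 0) (nat_lit 2492371226) (nat_lit 456) (nat_lit 2492371226) (nat_lit 309) (nat_lit 1) (nat_lit 302) (nat_lit 1) (nat_lit 308) (nat_lit 1) (nat_lit 323) (nat_lit 364) (nat_lit 333)) (XT.nd (nat_lit 78) (nat_lit 0) (nat_lit 0) (XT.lf (nat_lit 608) (nat_lit 4975201953) (nat_lit 0) (nat_lit 177075236) (nat_lit 532) (nat_lit 177075236)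 (nat_lit 302) (nat_lit 1) (nat_lit 294) (nat_lit 1) (nat_lit 301) (nat_lit 1) (nat_lit 324) (nat_lit 364) (nat_lit 332)) (XT.lf (nat_lit 76) (nat_lit 2062140980) (nat_lit 0) (nat_lit 1138048704) (nat_lit 608) (nat_lit 2062140980) (nat_lit 295) (nat_lit 1) (nat_lit 294) (nat_lit 1) (nat_lit 302) (nat_lit 1) (nat_lit 325) (nat_lit 364) (nat_lit 331))))) (XT.nd (nat_lit 156) (nat_lit 912) (nat_lit 0) (XT.nd (nat_lit 78) (nat_lit 0) (nat_lit 0) (XT.lf (nat_lit 532) (nat_lit 3286988705) (nat_lit 0) (nat_lit 954973658) (nat_lit 456) (nat_lit 954973658) (nat_lit 295) (nat_lit 1) (nat_lit 288) (nat_lit 1) (nat_lit 294) (nat_lit 1) (nat_lit 326) (nat_lit 364) (nat_lit 330)) (XT.lf (nat_lit 76) (nat_lit 1220769094) (nat_lit 0) (nat_lit 2690959993) (nat_lit 532) (nat_lit 1220769094) (nat_lit 289) (nat_lit 1) (nat_lit 288) (nat_lit 1) (nat_lit 295) (nat_lit 1) (nat_lit 327) (nat_lit 364) (nat_lit 329))) (XT.nd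 (nat_lit 78) (nat_lit 456) (nat_lit 0) (XT.lf (nat_lit 532) (nat_lit 1594330485) (nat_lit 0) (nat_lit 1737419140) (nat_lit 456) (nat_lit 1737419140) (nat_lit 289) (nat_lit 1) (nat_lit 282) (nat_lit 1) (nat_lit 288) (nat_lit 1) (nat_lit 328) (nat_lit 364) (nat_lit 328)) (XT.nd (nat_lit 78) (nat_lit 456) (nat_lit 0) (XT.lf (nat_lit 76) (nat_lit 378006642) (nat_lit 0) (nat_lit 4251210843) (nat_lit 532) (nat_lit 378006642) (nat_lit 283) (nat_lit 1) (nat_lit 282) (nat_lit 1) (nat_lit 289) (nat_lit 1) (nat_lit 329) (nat_lit 364) (nat_lit 327)) (XT.lf (nat_lit 76) (nat_lit 2424109240) (nat_lit 0) (nat_lit 97622568) (nat_lit 456) (nat_lit 2424109240) (nat_lit 277) (nat_lit 1) (nat_lit 276) (nat_lit 1) (nat_lit 282) (nat_lit 1) (nat_lit 330) (nat_lit 364) (nat_lit 326))))))))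
noncomputable def ec136 : XT := (XT.nd (nat_lit 1404) (nat_lit 3192) (nat_lit 0) (XT.nd (nat_lit 702) (nat_lit 2052) (nat_lit 0) (XT.nd (nat_lit 312) (nat_lit 1216) (nat_lit 0) (XT.nd (nat_lit 156) (nat_lit 380) (nat_lit 0) (XT.nd (nat_lit 78) (nat_lit 0) (nat_lit 0) (XT.lf (nat_lit 532) (nat_lit 3965664043) (nat_lit 0) (nat_lit 460064217) (nat_lit 456) (nat_lit 460064217) (nat_lit 277) (nat_lit 1) (nat_lit 270) (nat_lit 1) (nat_lit 276) (nat_lit 1) (nat_lit 331) (nat_lit 364) (nat_lit 325)) (XT.lf (nat_lit 76) (nat_lit 1534775537) (nat_lit 0) (nat_lit 1756798208) (nat_lit 532) (nat_lit 1534775537) (nat_lit 271) (nat_lit 1) (nat_lit 270) (nat_lit 1) (nat_lit 277) (nat_lit 1) (nat_lit 332) (nat_lit 364) (nat_lit 324))) (XT.nd (nat_lit 78) (nat_lit 0) (nat_lit 0) (XT.lf (nat_lit 456) (nat_lit 2182314973) (nat_lit 0) (nat_lit 1292910407) (nat_lit 380) (nat_lit 1292910407) (nat_lit 271) (nat_lit 1) (nat_lit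 265) (nat_lit 1) (nat_lit 270) (nat_lit 1) (nat_lit 333) (nat_lit 364) (nat_lit 323)) (XT.lf (nat_lit 76) (nat_lit 649656810) (nat_lit 0) (nat_lit 3411674879) (nat_lit 456) (nat_lit 649656810) (nat_lit 266) (nat_lit 1) (nat_lit 265) (nat_lit 1) (nat_lit 271) (nat_lit 1) (nat_lit 334) (nat_lit 364) (nat_lit 322)))) (XT.nd (nat_lit 156) (nat_lit 380) (nat_lit 0) (XT.nd (nat_lit 78) (nat_lit 456) (nat_lit 0) (XT.lf (nat_lit 456) (nat_lit 408582960) (nat_lit 0) (nat_lit 2122974263) (nat_lit 380) (nat_lit 2122974263) (nat_lit 266) (nat_lit 1) (nat_lit 260) (nat_lit 1) (nat_lit 265) (nat_lit 1) (nat_lit 335) (nat_lit 364) (nat_lit 321)) (XT.lf (nat_lit 456) (nat_lit 4143597020) (nat_lit 0) (nat_lit 227868607) (nat_lit 380) (nat_lit 227868607) (nat_lit 260) (nat_lit 1) (nat_lit 254) (nat_lit 1) (nat_lit 259) (nat_lit 1) (nat_lit 336) (nat_lit 364) (nat_lit 320))) (XT.nd (nat_lit 78) (nat_lit 380) (nat_lit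 0) (XT.lf (nat_lit 76) (nat_lit 1608731125) (nat_lit 0) (nat_lit 1326973100) (nat_lit 456) (nat_lit 1608731125) (nat_lit 255) (nat_lit 1) (nat_lit 254) (nat_lit 1) (nat_lit 260) (nat_lit 1) (nat_lit 337) (nat_lit 364) (nat_lit 319)) (XT.nd (nat_lit 78) (nat_lit 0) (nat_lit 0) (XT.lf (nat_lit 456) (nat_lit 2305292740) (nat_lit 0) (nat_lit 1092731902) (nat_lit 380) (nat_lit 1092731902) (nat_lit 255) (nat_lit 1) (nat_lit 249) (nat_lit 1) (nat_lit 254) (nat_lit 1) (nat_lit 338) (nat_lit 364) (nat_lit 318)) (XT.lf (nat_lit 76) (nat_lit 698433296) (nat_lit 0) (nat_lit 3041109811) (nat_lit 456) (nat_lit 698433296) (nat_lit 250) (nat_lit 1) (nat_lit 249) (nat_lit 1) (nat_lit 255) (nat_lit 1) (nat_lit 339) (nat_lit 364) (nat_lit 317)))))) (XT.nd (nat_lit 312) (nat_lit 988) (nat_lit 0) (XT.nd (nat_lit 156) (nat_lit 304) (nat_lit 0) (XT.nd (nat_lit 78) (nat_lit 456) (nat_lit 0) (XT.lf (nat_lit 380) (nat_lit 485084658)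 (nat_lit 0) (nat_lit 1950390248) (nat_lit 304) (nat_lit 1950390248) (nat_lit 250) (nat_lit 1) (nat_lit 245) (nat_lit 1) (nat_lit 249) (nat_lit 1) (nat_lit 340) (nat_lit 364) (nat_lit 316)) (XT.lf (nat_lit 456) (nat_lit 3933923783) (nat_lit 0) (nat_lit 200486653) (nat_lit 380) (nat_lit 200486653) (nat_lit 245) (nat_lit 1) (nat_lit 239) (nat_lit 1) (nat_lit 244) (nat_lit 1) (nat_lit 341) (nat_lit 364) (nat_lit 315))) (XT.nd (nat_lit 78) (nat_lit 304) (nat_lit 0) (XT.lf (nat_lit 76) (nat_lit 1497147132) (nat_lit 0) (nat_lit 1289848993) (nat_lit 456) (nat_lit 1497147132) (nat_lit 240) (nat_lit 1) (nat_lit 239) (nat_lit 1) (nat_lit 245) (nat_lit 1) (nat_lit 342) (nat_lit 364) (nat_lit 314)) (XT.lf (nat_lit 380) (nat_lit 2069387019) (nat_lit 0) (nat_lit 1082556178) (nat_lit 304) (nat_lit 1082556178) (nat_lit 240) (nat_lit 1) (nat_lit 235) (nat_lit 1) (nat_lit 239) (nat_lit 1) (nat_lit 343) (nat_lit 364) (nat_lit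 313)))) (XT.nd (nat_lit 156) (nat_lit 684) (nat_lit 0) (XT.nd (nat_lit 78) (nat_lit 304) (nat_lit 0) (XT.lf (nat_lit 76) (nat_lit 575464919) (nat_lit 0) (nat_lit 3034774827) (nat_lit 380) (nat_lit 575464919) (nat_lit 236) (nat_lit 1) (nat_lit 235) (nat_lit 1) (nat_lit 240) (nat_lit 1) (nat_lit 344) (nat_lit 364) (nat_lit 312)) (XT.lf (nat_lit 380) (nat_lit 229471144) (nat_lit 0) (nat_lit 1953996717) (nat_lit 304) (nat_lit 1953996717) (nat_lit 236) (nat_lit 1) (nat_lit 231) (nat_lit 1) (nat_lit 235) (nat_lit 1) (nat_lit 345) (nat_lit 364) (nat_lit 311))) (XT.nd (nat_lit 78) (nat_lit 304) (nat_lit 0) (XT.lf (nat_lit 380) (nat_lit 3429298888) (nat_lit 0) (nat_lit 330438798) (nat_lit 304) (nat_lit 330438798) (nat_lit 231) (nat_lit 1) (nat_lit 226) (nat_lit 1) (nat_lit 230) (nat_lit 1) (nat_lit 346) (nat_lit 364) (nat_lit 310)) (XT.nd (nat_lit 78) (nat_lit 304) (nat_lit 0) (XT.lf (nat_lit 76) (nat_lit 1244650774)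 (nat_lit 0) (nat_lit 1553910981) (nat_lit 380) (nat_lit 1244650774) (nat_lit 227) (nat_lit 1) (nat_lit 226) (nat_lit 1) (nat_lit 231) (nat_lit 1) (nat_lit 347) (nat_lit 364) (nat_lit 309)) (XT.lf (nat_lit 380) (nat_lit 1561448351) (nat_lit 0) (nat_lit 1217862192) (nat_lit 304) (nat_lit 1217862192) (nat_lit 227) (nat_lit 1) (nat_lit 222) (nat_lit 1) (nat_lit 226) (nat_lit 1) (nat_lit 348) (nat_lit 364) (nat_lit 308))))))) (XT.nd (nat_lit 702) (nat_lit 1748) (nat_lit 0) (XT.nd (nat_lit 312) (nat_lit 836) (nat_lit 0) (XT.nd (nat_lit 156) (nat_lit 304) (nat_lit 0) (XT.nd (nat_lit 78) (nat_lit 304) (nat_lit 0) (XT.lf (nat_lit 76) (nat_lit 322580059) (nat_lit 0) (nat_lit 3306863501) (nat_lit 380) (nat_lit 322580059) (nat_lit 223) (nat_lit 1) (nat_lit 222) (nat_lit 1) (nat_lit 227) (nat_lit 1) (nat_lit 349) (nat_lit 364) (nat_lit 307)) (XT.lf (nat_lit 76) (nat_lit 1817853807) (nat_lit 0) (nat_lit 271457793)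 (nat_lit 304) (nat_lit 1817853807) (nat_lit 219) (nat_lit 1) (nat_lit 218) (nat_lit 1) (nat_lit 222) (nat_lit 1) (nat_lit 350) (nat_lit 364) (nat_lit 306))) (XT.nd (nat_lit 78) (nat_lit 0) (nat_lit 0) (XT.lf (nat_lit 380) (nat_lit 2705352083) (nat_lit 0) (nat_lit 578910530) (nat_lit 304) (nat_lit 578910530) (nat_lit 219) (nat_lit 1) (nat_lit 214) (nat_lit 1) (nat_lit 218) (nat_lit 1) (nat_lit 351) (nat_lit 364) (nat_lit 305)) (XT.lf (nat_lit 76) (nat_lit 887654311) (nat_lit 0) (nat_lit 2044373420) (nat_lit 380) (nat_lit 887654311) (nat_lit 215) (nat_lit 1) (nat_lit 214) (nat_lit 1) (nat_lit 219) (nat_lit 1) (nat_lit 352) (nat_lit 364) (nat_lit 304)))) (XT.nd (nat_lit 156) (nat_lit 228) (nat_lit 0) (XT.nd (nat_lit 78) (nat_lit 380) (nat_lit 0) (XT.lf (nat_lit 304) (nat_lit 852310929) (nat_lit 0) (nat_lit 1462281485) (nat_lit 228) (nat_lit 1462281485) (nat_lit 215) (nat_lit 1) (nat_lit 211) (nat_lit 1)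 (nat_lit 214) (nat_lit 1) (nat_lit 353) (nat_lit 364) (nat_lit 303)) (XT.lf (nat_lit 380) (nat_lit 3683306643) (nat_lit 0) (nat_lit 25864940) (nat_lit 304) (nat_lit 25864940) (nat_lit 211) (nat_lit 1) (nat_lit 206) (nat_lit 1) (nat_lit 210) (nat_lit 1) (nat_lit 354) (nat_lit 364) (nat_lit 302))) (XT.nd (nat_lit 78) (nat_lit 228) (nat_lit 0) (XT.lf (nat_lit 76) (nat_lit 1372209267) (nat_lit 0) (nat_lit 948698363) (nat_lit 380) (nat_lit 1372209267) (nat_lit 207) (nat_lit 1) (nat_lit 206) (nat_lit 1) (nat_lit 211) (nat_lit 1) (nat_lit 355) (nat_lit 364) (nat_lit 301)) (XT.nd (nat_lit 78) (nat_lit 0) (nat_lit 0) (XT.lf (nat_lit 304) (nat_lit 1823575718) (nat_lit 0) (nat_lit 914285806) (nat_lit 228) (nat_lit 914285806) (nat_lit 207) (nat_lit 1) (nat_lit 203) (nat_lit 1) (nat_lit 206) (nat_lit 1) (nat_lit 356) (nat_lit 364) (nat_lit 300)) (XT.lf (nat_lit 76) (nat_lit 455749180) (nat_lit 0) (nat_lit 2700346811)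 (nat_lit 304) (nat_lit 455749180) (nat_lit 204) (nat_lit 1) (nat_lit 203) (nat_lit 1) (nat_lit 207) (nat_lit 1) (nat_lit 357) (nat_lit 364) (nat_lit 299)))))) (XT.nd (nat_lit 390) (nat_lit 684) (nat_lit 0) (XT.nd (nat_lit 156) (nat_lit 532) (nat_lit 0) (XT.nd (nat_lit 78) (nat_lit 228) (nat_lit 0) (XT.lf (nat_lit 76) (nat_lit 1785733762) (nat_lit 0) (nat_lit 478109) (nat_lit 304) (nat_lit 1785733762) (nat_lit 200) (nat_lit 1) (nat_lit 199) (nat_lit 1) (nat_lit 203) (nat_lit 1) (nat_lit 358) (nat_lit 364) (nat_lit 298)) (XT.lf (nat_lit 304) (nat_lit 2655474374) (nat_lit 0) (nat_lit 438610365) (nat_lit 228) (nat_lit 438610365) (nat_lit 200) (nat_lit 1) (nat_lit 196) (nat_lit 1) (nat_lit 199) (nat_lit 1) (nat_lit 359) (nat_lit 364) (nat_lit 297))) (XT.nd (nat_lit 78) (nat_lit 532) (nat_lit 0) (XT.lf (nat_lit 76) (nat_lit 869934405) (nat_lit 0) (nat_lit 1753953203) (nat_lit 304) (nat_lit 869934405) (nat_lit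 197) (nat_lit 1) (nat_lit 196) (nat_lit 1) (nat_lit 200) (nat_lit 1) (nat_lit 360) (nat_lit 364) (nat_lit 296)) (XT.nd (nat_lit 78) (nat_lit 304) (nat_lit 0) (XT.lf (nat_lit 304) (nat_lit 833735750) (nat_lit 0) (nat_lit 1310922277) (nat_lit 228) (nat_lit 1310922277) (nat_lit 197) (nat_lit 1) (nat_lit 193) (nat_lit 1) (nat_lit 196) (nat_lit 1) (nat_lit 361) (nat_lit 364) (nat_lit 295)) (XT.lf (nat_lit 304) (nat_lit 3364452614) (nat_lit 0) (nat_lit 26863966) (nat_lit 228) (nat_lit 26863966) (nat_lit 193) (nat_lit 1) (nat_lit 189) (nat_lit 1) (nat_lit 192) (nat_lit 1) (nat_lit 362) (nat_lit 364) (nat_lit 294))))) (XT.nd (nat_lit 156) (nat_lit 456) (nat_lit 0) (XT.nd (nat_lit 78) (nat_lit 228) (nat_lit 0) (XT.lf (nat_lit 76) (nat_lit 1224388715) (nat_lit 0) (nat_lit 931889010) (nat_lit 304) (nat_lit 1224388715) (nat_lit 190) (nat_lit 1) (nat_lit 189) (nat_lit 1) (nat_lit 193) (nat_lit 1) (nat_lit 363) (nat_lit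 364) (nat_lit 293)) (XT.lf (nat_lit 304) (nat_lit 1550636230) (nat_lit 0) (nat_lit 896671322) (nat_lit 228) (nat_lit 896671322) (nat_lit 190) (nat_lit 1) (nat_lit 186) (nat_lit 1) (nat_lit 189) (nat_lit 1) (nat_lit 364) (nat_lit 364) (nat_lit 292))) (XT.nd (nat_lit 78) (nat_lit 456) (nat_lit 0) (XT.lf (nat_lit 76) (nat_lit 331650824) (nat_lit 0) (nat_lit 2644611061) (nat_lit 304) (nat_lit 331650824) (nat_lit 187) (nat_lit 1) (nat_lit 186) (nat_lit 1) (nat_lit 190) (nat_lit 1) (nat_lit 365) (nat_lit 364) (nat_lit 291)) (XT.nd (nat_lit 78) (nat_lit 228) (nat_lit 0) (XT.lf (nat_lit 76) (nat_lit 1526167363) (nat_lit 0) (nat_lit 219742488) (nat_lit 228) (nat_lit 1526167363) (nat_lit 184) (nat_lit 1) (nat_lit 183) (nat_lit 1) (nat_lit 186) (nat_lit 1) (nat_lit 366) (nat_lit 364) (nat_lit 290)) (XT.lf (nat_lit 304) (nat_lit 2164004493) (nat_lit 0) (nat_lit 536422466) (nat_lit 228) (nat_lit 536422466) (nat_lit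 184) (nat_lit 1) (nat_lit 180) (nat_lit 1) (nat_lit 183) (nat_lit 1) (nat_lit 367) (nat_lit 364) (nat_lit 289))))))))
noncomputable def ec137 : XT := (XT.nd (nat_lit 1482) (nat_lit 1824) (nat_lit 0) (XT.nd (nat_lit 702) (nat_lit 1292) (nat_lit 0) (XT.nd (nat_lit 312) (nat_lit 532) (nat_lit 0) (XT.nd (nat_lit 156) (nat_lit 304) (nat_lit 0) (XT.nd (nat_lit 78) (nat_lit 152) (nat_lit 0) (XT.lf (nat_lit 76) (nat_lit 640061084) (nat_lit 0) (nat_lit 1921901469) (nat_lit 304) (nat_lit 640061084) (nat_lit 181) (nat_lit 1) (nat_lit 180) (nat_lit 1) (nat_lit 184) (nat_lit 1) (nat_lit 368) (nat_lit 364) (nat_lit 288)) (XT.lf (nat_lit 228) (nat_lit 403141819) (nat_lit 0) (nat_lit 1382260787) (nat_lit 152) (nat_lit 1382260787) (nat_lit 181) (nat_lit 1) (nat_lit 178) (nat_lit 1) (nat_lit 180) (nat_lit 1) (nat_lit 369) (nat_lit 364) (nat_lit 287))) (XT.nd (nat_lit 78) (nat_lit 0) (nat_lit 0) (XT.lf (nat_lit 304) (nat_lit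 2686072766) (nat_lit 0) (nat_lit 223926365) (nat_lit 228) (nat_lit 223926365) (nat_lit 178) (nat_lit 1) (nat_lit 174) (nat_lit 1) (nat_lit 177) (nat_lit 1) (nat_lit 370) (nat_lit 364) (nat_lit 286)) (XT.lf (nat_lit 76) (nat_lit 904019597) (nat_lit 0) (nat_lit 1292243587) (nat_lit 304) (nat_lit 904019597) (nat_lit 175) (nat_lit 1) (nat_lit 174) (nat_lit 1) (nat_lit 178) (nat_lit 1) (nat_lit 371) (nat_lit 364) (nat_lit 285)))) (XT.nd (nat_lit 156) (nat_lit 380) (nat_lit 0) (XT.nd (nat_lit 78) (nat_lit 0) (nat_lit 0) (XT.lf (nat_lit 228) (nat_lit 942910363) (nat_lit 0) (nat_lit 1062170294) (nat_lit 152) (nat_lit 1062170294) (nat_lit 175) (nat_lit 1) (nat_lit 172) (nat_lit 1) (nat_lit 174) (nat_lit 1) (nat_lit 372) (nat_lit 364) (nat_lit 284)) (XT.lf (nat_lit 76) (nat_lit 46821855) (nat_lit 0) (nat_lit 2941265585) (nat_lit 228) (nat_lit 46821855) (nat_lit 173) (nat_lit 1) (nat_lit 172) (nat_lit 1) (nat_lit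 175) (nat_lit 1) (nat_lit 373) (nat_lit 364) (nat_lit 283))) (XT.nd (nat_lit 78) (nat_lit 152) (nat_lit 0) (XT.lf (nat_lit 76) (nat_lit 1128776319) (nat_lit 0) (nat_lit 744898024) (nat_lit 228) (nat_lit 1128776319) (nat_lit 170) (nat_lit 1) (nat_lit 169) (nat_lit 1) (nat_lit 172) (nat_lit 1) (nat_lit 374) (nat_lit 364) (nat_lit 282)) (XT.nd (nat_lit 78) (nat_lit 0) (nat_lit 0) (XT.lf (nat_lit 228) (nat_lit 1405456924) (nat_lit 0) (nat_lit 782607546) (nat_lit 152) (nat_lit 782607546) (nat_lit 170) (nat_lit 1) (nat_lit 167) (nat_lit 1) (nat_lit 169) (nat_lit 1) (nat_lit 375) (nat_lit 364) (nat_lit 281)) (XT.lf (nat_lit 76) (nat_lit 282132058) (nat_lit 0) (nat_lit 2375149544) (nat_lit 228) (nat_lit 282132058) (nat_lit 168) (nat_lit 1) (nat_lit 167) (nat_lit 1) (nat_lit 170) (nat_lit 1) (nat_lit 376) (nat_lit 364) (nat_lit 280)))))) (XT.nd (nat_lit 390) (nat_lit 532) (nat_lit 0) (XT.nd (nat_lit 156) (nat_lit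 380) (nat_lit 0) (XT.nd (nat_lit 78) (nat_lit 152) (nat_lit 0) (XT.lf (nat_lit 76) (nat_lit 1318987232) (nat_lit 0) (nat_lit 270333541) (nat_lit 228) (nat_lit 1318987232) (nat_lit 165) (nat_lit 1) (nat_lit 164) (nat_lit 1) (nat_lit 167) (nat_lit 1) (nat_lit 377) (nat_lit 364) (nat_lit 279)) (XT.lf (nat_lit 228) (nat_lit 1799888797) (nat_lit 0) (nat_lit 538912395) (nat_lit 152) (nat_lit 538912395) (nat_lit 165) (nat_lit 1) (nat_lit 162) (nat_lit 1) (nat_lit 164) (nat_lit 1) (nat_lit 378) (nat_lit 364) (nat_lit 278))) (XT.nd (nat_lit 78) (nat_lit 380) (nat_lit 0) (XT.lf (nat_lit 76) (nat_lit 484196355) (nat_lit 0) (nat_lit 1879098508) (nat_lit 228) (nat_lit 484196355) (nat_lit 163) (nat_lit 1) (nat_lit 162) (nat_lit 1) (nat_lit 165) (nat_lit 1) (nat_lit 379) (nat_lit 364) (nat_lit 277)) (XT.nd (nat_lit 78) (nat_lit 228) (nat_lit 0) (XT.lf (nat_lit 228) (nat_lit 142692422) (nat_lit 0) (nat_lit 1337460056)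 (nat_lit 152) (nat_lit 1337460056) (nat_lit 163) (nat_lit 1) (nat_lit 160) (nat_lit 1) (nat_lit 162) (nat_lit 1) (nat_lit 380) (nat_lit 364) (nat_lit 276)) (XT.lf (nat_lit 228) (nat_lit 2134283247) (nat_lit 0) (nat_lit 326948455) (nat_lit 152) (nat_lit 326948455) (nat_lit 160) (nat_lit 1) (nat_lit 157) (nat_lit 1) (nat_lit 159) (nat_lit 1) (nat_lit 381) (nat_lit 364) (nat_lit 275))))) (XT.nd (nat_lit 156) (nat_lit 380) (nat_lit 0) (XT.nd (nat_lit 78) (nat_lit 152) (nat_lit 0) (XT.lf (nat_lit 76) (nat_lit 656926147) (nat_lit 0) (nat_lit 1445097308) (nat_lit 228) (nat_lit 656926147) (nat_lit 158) (nat_lit 1) (nat_lit 157) (nat_lit 1) (nat_lit 160) (nat_lit 1) (nat_lit 382) (nat_lit 364) (nat_lit 274)) (XT.lf (nat_lit 228) (nat_lit 503149769) (nat_lit 0) (nat_lit 1113504002) (nat_lit 152) (nat_lit 1113504002) (nat_lit 158) (nat_lit 1) (nat_lit 155) (nat_lit 1) (nat_lit 157) (nat_lit 1) (nat_lit 383) (nat_lit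 364) (nat_lit 273))) (XT.nd (nat_lit 78) (nat_lit 152) (nat_lit 0) (XT.lf (nat_lit 228) (nat_lit 2415802791) (nat_lit 0) (nat_lit 143044587) (nat_lit 152) (nat_lit 143044587) (nat_lit 155) (nat_lit 1) (nat_lit 152) (nat_lit 1) (nat_lit 154) (nat_lit 1) (nat_lit 384) (nat_lit 364) (nat_lit 272)) (XT.nd (nat_lit 78) (nat_lit 152) (nat_lit 0) (XT.lf (nat_lit 76) (nat_lit 803790720) (nat_lit 0) (nat_lit 1066030457) (nat_lit 228) (nat_lit 803790720) (nat_lit 153) (nat_lit 1) (nat_lit 152) (nat_lit 1) (nat_lit 155) (nat_lit 1) (nat_lit 385) (nat_lit 364) (nat_lit 271)) (XT.lf (nat_lit 228) (nat_lit 812449238) (nat_lit 0) (nat_lit 916700938) (nat_lit 152) (nat_lit 916700938) (nat_lit 153) (nat_lit 1) (nat_lit 150) (nat_lit 1) (nat_lit 152) (nat_lit 1) (nat_lit 386) (nat_lit 364) (nat_lit 270))))))) (XT.nd (nat_lit 702) (nat_lit 912) (nat_lit 0) (XT.nd (nat_lit 312) (nat_lit 608) (nat_lit 0) (XT.nd (nat_lit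 156) (nat_lit 152) (nat_lit 0) (XT.nd (nat_lit 78) (nat_lit 152) (nat_lit 0) (XT.lf (nat_lit 76) (nat_lit 16216087) (nat_lit 0) (nat_lit 2586232430) (nat_lit 228) (nat_lit 16216087) (nat_lit 151) (nat_lit 1) (nat_lit 150) (nat_lit 1) (nat_lit 153) (nat_lit 1) (nat_lit 387) (nat_lit 364) (nat_lit 269)) (XT.lf (nat_lit 76) (nat_lit 927866718) (nat_lit 0) (nat_lit 735581648) (nat_lit 152) (nat_lit 927866718) (nat_lit 149) (nat_lit 1) (nat_lit 148) (nat_lit 1) (nat_lit 150) (nat_lit 1) (nat_lit 388) (nat_lit 364) (nat_lit 268))) (XT.nd (nat_lit 78) (nat_lit 0) (nat_lit 0) (XT.lf (nat_lit 228) (nat_lit 1076614882) (nat_lit 0) (nat_lit 743959486) (nat_lit 152) (nat_lit 743959486) (nat_lit 149) (nat_lit 1) (nat_lit 146) (nat_lit 1) (nat_lit 148) (nat_lit 1) (nat_lit 389) (nat_lit 364) (nat_lit 267)) (XT.lf (nat_lit 76) (nat_lit 154764773) (nat_lit 0) (nat_lit 2228692642) (nat_lit 228) (nat_lit 154764773) (nat_lit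 147) (nat_lit 1) (nat_lit 146) (nat_lit 1) (nat_lit 149) (nat_lit 1) (nat_lit 390) (nat_lit 364) (nat_lit 266)))) (XT.nd (nat_lit 156) (nat_lit 304) (nat_lit 0) (XT.nd (nat_lit 78) (nat_lit 152) (nat_lit 0) (XT.lf (nat_lit 76) (nat_lit 1031882100) (nat_lit 0) (nat_lit 448144470) (nat_lit 152) (nat_lit 1031882100) (nat_lit 145) (nat_lit 1) (nat_lit 144) (nat_lit 1) (nat_lit 146) (nat_lit 1) (nat_lit 391) (nat_lit 364) (nat_lit 265)) (XT.lf (nat_lit 228) (nat_lit 1300989696) (nat_lit 0) (nat_lit 592534850) (nat_lit 152) (nat_lit 592534850) (nat_lit 145) (nat_lit 1) (nat_lit 142) (nat_lit 1) (nat_lit 144) (nat_lit 1) (nat_lit 392) (nat_lit 364) (nat_lit 264))) (XT.nd (nat_lit 78) (nat_lit 304) (nat_lit 0) (XT.lf (nat_lit 76) (nat_lit 273775419) (nat_lit 0) (nat_lit 1913036998) (nat_lit 228) (nat_lit 273775419) (nat_lit 143) (nat_lit 1) (nat_lit 142) (nat_lit 1) (nat_lit 145) (nat_lit 1) (nat_lit 393) (nat_lit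 364) (nat_lit 263)) (XT.nd (nat_lit 78) (nat_lit 152) (nat_lit 0) (XT.lf (nat_lit 76) (nat_lit 1118255180) (nat_lit 0) (nat_lit 198743084) (nat_lit 152) (nat_lit 1118255180) (nat_lit 141) (nat_lit 1) (nat_lit 140) (nat_lit 1) (nat_lit 142) (nat_lit 1) (nat_lit 394) (nat_lit 364) (nat_lit 262)) (XT.lf (nat_lit 228) (nat_lit 1490311831) (nat_lit 0) (nat_lit 459990105) (nat_lit 152) (nat_lit 459990105) (nat_lit 141) (nat_lit 1) (nat_lit 138) (nat_lit 1) (nat_lit 140) (nat_lit 1) (nat_lit 395) (nat_lit 364) (nat_lit 261)))))) (XT.nd (nat_lit 390) (nat_lit 532) (nat_lit 0) (XT.nd (nat_lit 156) (nat_lit 304) (nat_lit 0) (XT.nd (nat_lit 78) (nat_lit 76) (nat_lit 0) (XT.lf (nat_lit 76) (nat_lit 375545839) (nat_lit 0) (nat_lit 1634536218) (nat_lit 228) (nat_lit 375545839) (nat_lit 139) (nat_lit 1) (nat_lit 138) (nat_lit 1) (nat_lit 141) (nat_lit 1) (nat_lit 396) (nat_lit 364) (nat_lit 260)) (XT.lf (nat_lit 152)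 (nat_lit 17377343) (nat_lit 0) (nat_lit 1171919018) (nat_lit 76) (nat_lit 1171919018) (nat_lit 139) (nat_lit 1) (nat_lit 137) (nat_lit 1) (nat_lit 138) (nat_lit 1) (nat_lit 397) (nat_lit 364) (nat_lit 259))) (XT.nd (nat_lit 78) (nat_lit 76) (nat_lit 0) (XT.lf (nat_lit 228) (nat_lit 1648782310) (nat_lit 0) (nat_lit 344161818) (nat_lit 152) (nat_lit 344161818) (nat_lit 137) (nat_lit 1) (nat_lit 134) (nat_lit 1) (nat_lit 136) (nat_lit 1) (nat_lit 398) (nat_lit 364) (nat_lit 258)) (XT.nd (nat_lit 78) (nat_lit 76) (nat_lit 0) (XT.lf (nat_lit 76) (nat_lit 462114142) (nat_lit 0) (nat_lit 1388990107) (nat_lit 228) (nat_lit 462114142) (nat_lit 135) (nat_lit 1) (nat_lit 134) (nat_lit 1) (nat_lit 137) (nat_lit 1) (nat_lit 399) (nat_lit 364) (nat_lit 257)) (XT.lf (nat_lit 152) (nat_lit 207160226) (nat_lit 0) (nat_lit 1041234869) (nat_lit 76) (nat_lit 1041234869) (nat_lit 135) (nat_lit 1) (nat_lit 133) (nat_lit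 1) (nat_lit 134) (nat_lit 1) (nat_lit 400) (nat_lit 364) (nat_lit 256))))) (XT.nd (nat_lit 156) (nat_lit 304) (nat_lit 0) (XT.nd (nat_lit 78) (nat_lit 0) (nat_lit 0) (XT.lf (nat_lit 228) (nat_lit 1780125175) (nat_lit 0) (nat_lit 243129500) (nat_lit 152) (nat_lit 243129500) (nat_lit 133) (nat_lit 1) (nat_lit 130) (nat_lit 1) (nat_lit 132) (nat_lit 1) (nat_lit 401) (nat_lit 364) (nat_lit 255)) (XT.lf (nat_lit 76) (nat_lit 535287798) (nat_lit 0) (nat_lit 1172668504) (nat_lit 228) (nat_lit 535287798) (nat_lit 131) (nat_lit 1) (nat_lit 130) (nat_lit 1) (nat_lit 133) (nat_lit 1) (nat_lit 402) (nat_lit 364) (nat_lit 254))) (XT.nd (nat_lit 78) (nat_lit 228) (nat_lit 0) (XT.lf (nat_lit 152) (nat_lit 370195761) (nat_lit 0) (nat_lit 925123695) (nat_lit 76) (nat_lit 925123695) (nat_lit 131) (nat_lit 1) (nat_lit 129) (nat_lit 1) (nat_lit 130) (nat_lit 1) (nat_lit 403) (nat_lit 364) (nat_lit 253)) (XT.nd (nat_lit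 78) (nat_lit 0) (nat_lit 0) (XT.lf (nat_lit 228) (nat_lit 1887640926) (nat_lit 0) (nat_lit 155188463) (nat_lit 152) (nat_lit 155188463) (nat_lit 129) (nat_lit 1) (nat_lit 126) (nat_lit 1) (nat_lit 128) (nat_lit 1) (nat_lit 404) (nat_lit 364) (nat_lit 252)) (XT.lf (nat_lit 76) (nat_lit 596669448) (nat_lit 0) (nat_lit 982258820) (nat_lit 228) (nat_lit 596669448) (nat_lit 127) (nat_lit 1) (nat_lit 126) (nat_lit 1) (nat_lit 129) (nat_lit 1) (nat_lit 405) (nat_lit 364) (nat_lit 251))))))))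
noncomputable def ec138 : XT := (XT.nd (nat_lit 1482) (nat_lit 684) (nat_lit 0) (XT.nd (nat_lit 702) (nat_lit 760) (nat_lit 0) (XT.nd (nat_lit 312) (nat_lit 456) (nat_lit 0) (XT.nd (nat_lit 156) (nat_lit 76) (nat_lit 0) (XT.nd (nat_lit 78) (nat_lit 228) (nat_lit 0) (XT.lf (nat_lit 152) (nat_lit 509629269) (nat_lit 0) (nat_lit 821960420) (nat_lit 76) (nat_lit 821960420) (nat_lit 127) (nat_lit 1) (nat_lit 125) (nat_lit 1) (nat_lit 126) (nat_lit 1) (nat_lit 406) (nat_lit 364) (nat_lit 250)) (XT.lf (nat_lit 228) (nat_lit 1974253994) (nat_lit 0) (nat_lit 78825707) (nat_lit 152) (nat_lit 78825707) (nat_lit 125) (nat_lit 1) (nat_lit 122) (nat_lit 1) (nat_lit 124) (nat_lit 1) (nat_lit 407) (nat_lit 364) (nat_lit 249))) (XT.nd (nat_lit 78) (nat_lit 76) (nat_lit 0) (XT.lf (nat_lit 76) (nat_lit 647679846) (nat_lit 0) (nat_lit 814819427) (nat_lit 228) (nat_lit 647679846) (nat_lit 123) (nat_lit 1) (nat_lit 122)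 (nat_lit 1) (nat_lit 125) (nat_lit 1) (nat_lit 408) (nat_lit 364) (nat_lit 248)) (XT.lf (nat_lit 152) (nat_lit 628250587) (nat_lit 0) (nat_lit 730301187) (nat_lit 76) (nat_lit 730301187) (nat_lit 123) (nat_lit 1) (nat_lit 121) (nat_lit 1) (nat_lit 122) (nat_lit 1) (nat_lit 409) (nat_lit 364) (nat_lit 247)))) (XT.nd (nat_lit 156) (nat_lit 228) (nat_lit 0) (XT.nd (nat_lit 78) (nat_lit 0) (nat_lit 0) (XT.lf (nat_lit 228) (nat_lit 2042554909) (nat_lit 0) (nat_lit 12698502) (nat_lit 152) (nat_lit 12698502) (nat_lit 121) (nat_lit 1) (nat_lit 118) (nat_lit 1) (nat_lit 120) (nat_lit 1) (nat_lit 410) (nat_lit 364) (nat_lit 246)) (XT.lf (nat_lit 76) (nat_lit 689578232) (nat_lit 0) (nat_lit 667738242) (nat_lit 228) (nat_lit 689578232) (nat_lit 119) (nat_lit 1) (nat_lit 118) (nat_lit 1) (nat_lit 121) (nat_lit 1) (nat_lit 411) (nat_lit 364) (nat_lit 245))) (XT.nd (nat_lit 78) (nat_lit 152) (nat_lit 0) (XT.lf (nat_lit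 152) (nat_lit 728533851) (nat_lit 0) (nat_lit 648863146) (nat_lit 76) (nat_lit 648863146) (nat_lit 119) (nat_lit 1) (nat_lit 117) (nat_lit 1) (nat_lit 118) (nat_lit 1) (nat_lit 412) (nat_lit 364) (nat_lit 244)) (XT.nd (nat_lit 78) (nat_lit 152) (nat_lit 0) (XT.lf (nat_lit 0) (nat_lit 44824102) (nat_lit 0) (nat_lit 1916368289) (nat_lit 152) (nat_lit 44824102) (nat_lit 117) (nat_lit 3) (nat_lit 117) (nat_lit 1) (nat_lit 119) (nat_lit 1) (nat_lit 413) (nat_lit 364) (nat_lit 243)) (XT.lf (nat_lit 76) (nat_lit 723480432) (nat_lit 0) (nat_lit 538695940) (nat_lit 152) (nat_lit 723480432) (nat_lit 116) (nat_lit 1) (nat_lit 115) (nat_lit 1) (nat_lit 117) (nat_lit 1) (nat_lit 414) (nat_lit 364) (nat_lit 242)))))) (XT.nd (nat_lit 390) (nat_lit 456) (nat_lit 0) (XT.nd (nat_lit 156) (nat_lit 228) (nat_lit 0) (XT.nd (nat_lit 78) (nat_lit 0) (nat_lit 0) (XT.lf (nat_lit 152) (nat_lit 812672834) (nat_lit 0) (nat_lit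 576506501) (nat_lit 76) (nat_lit 576506501) (nat_lit 116) (nat_lit 1) (nat_lit 114) (nat_lit 1) (nat_lit 115) (nat_lit 1) (nat_lit 415) (nat_lit 364) (nat_lit 241)) (XT.lf (nat_lit 0) (nat_lit 94406474) (nat_lit 0) (nat_lit 1757249244) (nat_lit 152) (nat_lit 94406474) (nat_lit 114) (nat_lit 3) (nat_lit 114) (nat_lit 1) (nat_lit 116) (nat_lit 1) (nat_lit 416) (nat_lit 364) (nat_lit 240))) (XT.nd (nat_lit 78) (nat_lit 76) (nat_lit 0) (XT.lf (nat_lit 76) (nat_lit 750374939) (nat_lit 0) (nat_lit 425633259) (nat_lit 152) (nat_lit 750374939) (nat_lit 113) (nat_lit 1) (nat_lit 112) (nat_lit 1) (nat_lit 114) (nat_lit 1) (nat_lit 417) (nat_lit 364) (nat_lit 239)) (XT.nd (nat_lit 78) (nat_lit 0) (nat_lit 0) (XT.lf (nat_lit 152) (nat_lit 882612339) (nat_lit 0) (nat_lit 512218559) (nat_lit 76) (nat_lit 512218559) (nat_lit 113) (nat_lit 1) (nat_lit 111) (nat_lit 1) (nat_lit 112) (nat_lit 1) (nat_lit 418) (nat_lit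 364) (nat_lit 238)) (XT.lf (nat_lit 0) (nat_lit 136870035) (nat_lit 0) (nat_lit 1614284299) (nat_lit 152) (nat_lit 136870035) (nat_lit 111) (nat_lit 3) (nat_lit 111) (nat_lit 1) (nat_lit 113) (nat_lit 1) (nat_lit 419) (nat_lit 364) (nat_lit 237))))) (XT.nd (nat_lit 156) (nat_lit 228) (nat_lit 0) (XT.nd (nat_lit 78) (nat_lit 76) (nat_lit 0) (XT.lf (nat_lit 76) (nat_lit 771137196) (nat_lit 0) (nat_lit 326721962) (nat_lit 152) (nat_lit 771137196) (nat_lit 110) (nat_lit 1) (nat_lit 109) (nat_lit 1) (nat_lit 111) (nat_lit 1) (nat_lit 420) (nat_lit 364) (nat_lit 236)) (XT.lf (nat_lit 152) (nat_lit 940076090) (nat_lit 0) (nat_lit 455099555) (nat_lit 76) (nat_lit 455099555) (nat_lit 110) (nat_lit 1) (nat_lit 108) (nat_lit 1) (nat_lit 109) (nat_lit 1) (nat_lit 421) (nat_lit 364) (nat_lit 235))) (XT.nd (nat_lit 78) (nat_lit 228) (nat_lit 0) (XT.lf (nat_lit 0) (nat_lit 173054930) (nat_lit 0) (nat_lit 1485718367)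 (nat_lit 152) (nat_lit 173054930) (nat_lit 108) (nat_lit 3) (nat_lit 108) (nat_lit 1) (nat_lit 110) (nat_lit 1) (nat_lit 422) (nat_lit 364) (nat_lit 234)) (XT.nd (nat_lit 78) (nat_lit 76) (nat_lit 0) (XT.lf (nat_lit 76) (nat_lit 786542287) (nat_lit 0) (nat_lit 240339031) (nat_lit 152) (nat_lit 786542287) (nat_lit 107) (nat_lit 1) (nat_lit 106) (nat_lit 1) (nat_lit 108) (nat_lit 1) (nat_lit 423) (nat_lit 364) (nat_lit 233)) (XT.lf (nat_lit 152) (nat_lit 986591506) (nat_lit 0) (nat_lit 404350060) (nat_lit 76) (nat_lit 404350060) (nat_lit 107) (nat_lit 1) (nat_lit 105) (nat_lit 1) (nat_lit 106) (nat_lit 1) (nat_lit 424) (nat_lit 364) (nat_lit 232))))))) (XT.nd (nat_lit 702) (nat_lit 0) (nat_lit 0) (XT.nd (nat_lit 312) (nat_lit 456) (nat_lit 0) (XT.nd (nat_lit 156) (nat_lit 76) (nat_lit 0) (XT.nd (nat_lit 78) (nat_lit 152) (nat_lit 0) (XT.lf (nat_lit 0) (nat_lit 203706263) (nat_lit 0) (nat_lit 1369990726)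 (nat_lit 152) (nat_lit 203706263) (nat_lit 105) (nat_lit 3) (nat_lit 105) (nat_lit 1) (nat_lit 107) (nat_lit 1) (nat_lit 425) (nat_lit 364) (nat_lit 231)) (XT.lf (nat_lit 76) (nat_lit 797276204) (nat_lit 0) (nat_lit 165043747) (nat_lit 152) (nat_lit 797276204) (nat_lit 104) (nat_lit 1) (nat_lit 103) (nat_lit 1) (nat_lit 105) (nat_lit 1) (nat_lit 426) (nat_lit 364) (nat_lit 230))) (XT.nd (nat_lit 78) (nat_lit 0) (nat_lit 0) (XT.lf (nat_lit 152) (nat_lit 1023511713) (nat_lit 0) (nat_lit 359259792) (nat_lit 76) (nat_lit 359259792) (nat_lit 104) (nat_lit 1) (nat_lit 102) (nat_lit 1) (nat_lit 103) (nat_lit 1) (nat_lit 427) (nat_lit 364) (nat_lit 229)) (XT.lf (nat_lit 0) (nat_lit 229484746) (nat_lit 0) (nat_lit 1265713385) (nat_lit 152) (nat_lit 229484746) (nat_lit 102) (nat_lit 3) (nat_lit 102) (nat_lit 1) (nat_lit 104) (nat_lit 1) (nat_lit 428) (nat_lit 364) (nat_lit 228)))) (XT.nd (nat_lit 156) (nat_lit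 228) (nat_lit 0) (XT.nd (nat_lit 78) (nat_lit 76) (nat_lit 0) (XT.lf (nat_lit 76) (nat_lit 803945861) (nat_lit 0) (nat_lit 99557320) (nat_lit 152) (nat_lit 803945861) (nat_lit 101) (nat_lit 1) (nat_lit 100) (nat_lit 1) (nat_lit 102) (nat_lit 1) (nat_lit 429) (nat_lit 364) (nat_lit 227)) (XT.lf (nat_lit 152) (nat_lit 1052035092) (nat_lit 0) (nat_lit 319197672) (nat_lit 76) (nat_lit 319197672) (nat_lit 101) (nat_lit 1) (nat_lit 99) (nat_lit 1) (nat_lit 100) (nat_lit 1) (nat_lit 430) (nat_lit 364) (nat_lit 226))) (XT.nd (nat_lit 78) (nat_lit 228) (nat_lit 0) (XT.lf (nat_lit 0) (nat_lit 250976136) (nat_lit 0) (nat_lit 1171651860) (nat_lit 152) (nat_lit 250976136) (nat_lit 99) (nat_lit 3) (nat_lit 99) (nat_lit 1) (nat_lit 101) (nat_lit 1) (nat_lit 431) (nat_lit 364) (nat_lit 225)) (XT.nd (nat_lit 78) (nat_lit 76) (nat_lit 0) (XT.lf (nat_lit 76) (nat_lit 807087990) (nat_lit 0) (nat_lit 42744796) (nat_lit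 152) (nat_lit 807087990) (nat_lit 98) (nat_lit 1) (nat_lit 97) (nat_lit 1) (nat_lit 99) (nat_lit 1) (nat_lit 432) (nat_lit 364) (nat_lit 224)) (XT.lf (nat_lit 152) (nat_lit 1073222653) (nat_lit 0) (nat_lit 283602997) (nat_lit 76) (nat_lit 283602997) (nat_lit 98) (nat_lit 1) (nat_lit 96) (nat_lit 1) (nat_lit 97) (nat_lit 1) (nat_lit 433) (nat_lit 364) (nat_lit 223)))))) (XT.nd (nat_lit 42198) (nat_lit 0) (nat_lit 21280) (XT.nd (nat_lit 41964) (nat_lit 0) (nat_lit 21128) (XT.nd (nat_lit 41886) (nat_lit 0) (nat_lit 21128) (XT.lf (nat_lit 0) (nat_lit 268699640) (nat_lit 0) (nat_lit 1086708096) (nat_lit 152) (nat_lit 268699640) (nat_lit 96) (nat_lit 3) (nat_lit 96) (nat_lit 1) (nat_lit 98) (nat_lit 1) (nat_lit 434) (nat_lit 364) (nat_lit 222)) (XT.lf (nat_lit 1292) (nat_lit 780899770) (nat_lit 0) (nat_lit 2686658381) (nat_lit 1292) (nat_lit 780899770) (nat_lit 391) (nat_lit 1) (nat_lit 374) (nat_lit 0) (nat_lit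 391) (nat_lit 0) (nat_lit 290) (nat_lit 365) (nat_lit 365))) (XT.nd (nat_lit 78) (nat_lit 0) (nat_lit 76) (XT.lf (nat_lit 1292) (nat_lit 3051769985) (nat_lit 76) (nat_lit 2660318593) (nat_lit 0) (nat_lit 2660318593) (nat_lit 391) (nat_lit 1) (nat_lit 375) (nat_lit 1) (nat_lit 374) (nat_lit 0) (nat_lit 291) (nat_lit 365) (nat_lit 364)) (XT.nd (nat_lit 78) (nat_lit 0) (nat_lit 0) (XT.lf (nat_lit 1292) (nat_lit 1475908727) (nat_lit 0) (nat_lit 5298827447) (nat_lit 1216) (nat_lit 1475908727) (nat_lit 392) (nat_lit 1) (nat_lit 375) (nat_lit 1) (nat_lit 391) (nat_lit 1) (nat_lit 292) (nat_lit 365) (nat_lit 363)) (XT.lf (nat_lit 1292) (nat_lit 2802826875) (nat_lit 76) (nat_lit 2664044572) (nat_lit 0) (nat_lit 2664044572) (nat_lit 392) (nat_lit 1) (nat_lit 376) (nat_lit 1) (nat_lit 375) (nat_lit 1) (nat_lit 293) (nat_lit 365) (nat_lit 362))))) (XT.nd (nat_lit 156) (nat_lit 0) (nat_lit 76) (XT.nd (nat_lit 78)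 (nat_lit 0) (nat_lit 0) (XT.lf (nat_lit 1292) (nat_lit 1315212533) (nat_lit 0) (nat_lit 5383441048) (nat_lit 1216) (nat_lit 1315212533) (nat_lit 393) (nat_lit 1) (nat_lit 376) (nat_lit 1) (nat_lit 392) (nat_lit 1) (nat_lit 294) (nat_lit 365) (nat_lit 361)) (XT.lf (nat_lit 1292) (nat_lit 2410265834) (nat_lit 76) (nat_lit 2744211172) (nat_lit 0) (nat_lit 2744211172) (nat_lit 393) (nat_lit 1) (nat_lit 377) (nat_lit 1) (nat_lit 376) (nat_lit 1) (nat_lit 295) (nat_lit 365) (nat_lit 360))) (XT.nd (nat_lit 78) (nat_lit 0) (nat_lit 0) (XT.lf (nat_lit 1292) (nat_lit 1086327494) (nat_lit 0) (nat_lit 5613514884) (nat_lit 1216) (nat_lit 1086327494) (nat_lit 394) (nat_lit 1) (nat_lit 377) (nat_lit 1) (nat_lit 393) (nat_lit 1) (nat_lit 296) (nat_lit 365) (nat_lit 359)) (XT.nd (nat_lit 78) (nat_lit 0) (nat_lit 76) (XT.lf (nat_lit 1292) (nat_lit 1886930389) (nat_lit 76) (nat_lit 2894197732) (nat_lit 0) (nat_lit 2894197732)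 (nat_lit 394) (nat_lit 1) (nat_lit 378) (nat_lit 1) (nat_lit 377) (nat_lit 1) (nat_lit 297) (nat_lit 365) (nat_lit 358)) (XT.lf (nat_lit 1292) (nat_lit 795422693) (nat_lit 0) (nat_lit 5976320767) (nat_lit 1216) (nat_lit 795422693) (nat_lit 395) (nat_lit 1) (nat_lit 378) (nat_lit 1) (nat_lit 394) (nat_lit 1) (nat_lit 298) (nat_lit 365) (nat_lit 357))))))))
noncomputable def ec139 : XT := (XT.nd (nat_lit 1482) (nat_lit 5016) (nat_lit 0) (XT.nd (nat_lit 702) (nat_lit 3648) (nat_lit 0) (XT.nd (nat_lit 312) (nat_lit 1140) (nat_lit 0) (XT.nd (nat_lit 156) (nat_lit 0) (nat_lit 76) (XT.nd (nat_lit 78) (nat_lit 0) (nat_lit 76) (XT.lf (nat_lit 1292) (nat_lit 1244792837) (nat_lit 76) (nat_lit 3107828675) (nat_lit 0) (nat_lit 3107828675) (nat_lit 395) (nat_lit 1) (nat_lit 379) (nat_lit 1) (nat_lit 378) (nat_lit 1) (nat_lit 299) (nat_lit 365) (nat_lit 356)) (XT.lf (nat_lit 1292) (nat_lit 448247403) (nat_lit 0) (nat_lit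 6459988677) (nat_lit 1216) (nat_lit 448247403) (nat_lit 396) (nat_lit 1) (nat_lit 379) (nat_lit 1) (nat_lit 395) (nat_lit 1) (nat_lit 300) (nat_lit 365) (nat_lit 355))) (XT.nd (nat_lit 78) (nat_lit 0) (nat_lit 76) (XT.lf (nat_lit 1292) (nat_lit 495008158) (nat_lit 76) (nat_lit 3379346061) (nat_lit 0) (nat_lit 3379346061) (nat_lit 396) (nat_lit 1) (nat_lit 380) (nat_lit 1) (nat_lit 379) (nat_lit 1) (nat_lit 301) (nat_lit 365) (nat_lit 354)) (XT.lf (nat_lit 1292) (nat_lit 50157112) (nat_lit 0) (nat_lit 7053453787) (nat_lit 1216) (nat_lit 50157112) (nat_lit 397) (nat_lit 1) (nat_lit 380) (nat_lit 1) (nat_lit 396) (nat_lit 1) (nat_lit 302) (nat_lit 365) (nat_lit 353)))) (XT.nd (nat_lit 156) (nat_lit 0) (nat_lit 76) (XT.nd (nat_lit 78) (nat_lit 0) (nat_lit 0) (XT.lf (nat_lit 1368) (nat_lit 3354732474) (nat_lit 0) (nat_lit 345165801) (nat_lit 1292) (nat_lit 3354732474) (nat_lit 381) (nat_lit 1) (nat_lit 363)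 (nat_lit 1) (nat_lit 380) (nat_lit 1) (nat_lit 303) (nat_lit 365) (nat_lit 352)) (XT.lf (nat_lit 1368) (nat_lit 6178224696) (nat_lit 76) (nat_lit 390000634) (nat_lit 0) (nat_lit 390000634) (nat_lit 381) (nat_lit 1) (nat_lit 364) (nat_lit 1) (nat_lit 363) (nat_lit 1) (nat_lit 304) (nat_lit 365) (nat_lit 351))) (XT.nd (nat_lit 78) (nat_lit 0) (nat_lit 0) (XT.lf (nat_lit 1368) (nat_lit 2800643459) (nat_lit 0) (nat_lit 1261560501) (nat_lit 1292) (nat_lit 2800643459) (nat_lit 382) (nat_lit 1) (nat_lit 364) (nat_lit 1) (nat_lit 381) (nat_lit 1) (nat_lit 305) (nat_lit 365) (nat_lit 350)) (XT.nd (nat_lit 78) (nat_lit 0) (nat_lit 76) (XT.lf (nat_lit 1368) (nat_lit 5028784913) (nat_lit 76) (nat_lit 870550868) (nat_lit 0) (nat_lit 870550868) (nat_lit 382) (nat_lit 1) (nat_lit 365) (nat_lit 1) (nat_lit 364) (nat_lit 1) (nat_lit 306) (nat_lit 365) (nat_lit 349)) (XT.lf (nat_lit 76) (nat_lit 2211583887) (nat_lit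 0) (nat_lit 2255015508) (nat_lit 1292) (nat_lit 2211583887) (nat_lit 366) (nat_lit 1) (nat_lit 365) (nat_lit 1) (nat_lit 382) (nat_lit 1) (nat_lit 307) (nat_lit 365) (nat_lit 348)))))) (XT.nd (nat_lit 390) (nat_lit 1748) (nat_lit 0) (XT.nd (nat_lit 156) (nat_lit 1216) (nat_lit 0) (XT.nd (nat_lit 78) (nat_lit 0) (nat_lit 0) (XT.lf (nat_lit 912) (nat_lit 3813081974) (nat_lit 0) (nat_lit 1387712495) (nat_lit 836) (nat_lit 1387712495) (nat_lit 366) (nat_lit 1) (nat_lit 354) (nat_lit 1) (nat_lit 365) (nat_lit 1) (nat_lit 308) (nat_lit 365) (nat_lit 347)) (XT.lf (nat_lit 76) (nat_lit 1591506188) (nat_lit 0) (nat_lit 3317330591) (nat_lit 912) (nat_lit 1591506188) (nat_lit 355) (nat_lit 1) (nat_lit 354) (nat_lit 1) (nat_lit 366) (nat_lit 1) (nat_lit 309) (nat_lit 365) (nat_lit 346))) (XT.nd (nat_lit 78) (nat_lit 608) (nat_lit 0) (XT.lf (nat_lit 684) (nat_lit 2538771472) (nat_lit 0) (nat_lit 1937514058) (nat_lit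 608) (nat_lit 1937514058) (nat_lit 355) (nat_lit 1) (nat_lit 346) (nat_lit 1) (nat_lit 354) (nat_lit 1) (nat_lit 310) (nat_lit 365) (nat_lit 345)) (XT.nd (nat_lit 78) (nat_lit 608) (nat_lit 0) (XT.lf (nat_lit 76) (nat_lit 944079257) (nat_lit 0) (nat_lit 4440886248) (nat_lit 684) (nat_lit 944079257) (nat_lit 347) (nat_lit 1) (nat_lit 346) (nat_lit 1) (nat_lit 355) (nat_lit 1) (nat_lit 311) (nat_lit 365) (nat_lit 344)) (XT.lf (nat_lit 684) (nat_lit 1212957348) (nat_lit 0) (nat_lit 2516266537) (nat_lit 608) (nat_lit 2516266537) (nat_lit 347) (nat_lit 1) (nat_lit 338) (nat_lit 1) (nat_lit 346) (nat_lit 1) (nat_lit 312) (nat_lit 365) (nat_lit 343))))) (XT.nd (nat_lit 156) (nat_lit 1140) (nat_lit 0) (XT.nd (nat_lit 78) (nat_lit 608) (nat_lit 0) (XT.lf (nat_lit 76) (nat_lit 272706378) (nat_lit 0) (nat_lit 5618607159) (nat_lit 684) (nat_lit 272706378) (nat_lit 339) (nat_lit 1) (nat_lit 338) (nat_lit 1) (nat_lit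 347) (nat_lit 1) (nat_lit 313) (nat_lit 365) (nat_lit 342)) (XT.lf (nat_lit 76) (nat_lit 2964288994) (nat_lit 0) (nat_lit 154694449) (nat_lit 608) (nat_lit 2964288994) (nat_lit 331) (nat_lit 1) (nat_lit 330) (nat_lit 1) (nat_lit 338) (nat_lit 1) (nat_lit 314) (nat_lit 365) (nat_lit 341))) (XT.nd (nat_lit 78) (nat_lit 532) (nat_lit 0) (XT.lf (nat_lit 684) (nat_lit 5173834522) (nat_lit 0) (nat_lit 415345590) (nat_lit 608) (nat_lit 415345590) (nat_lit 331) (nat_lit 1) (nat_lit 322) (nat_lit 1) (nat_lit 330) (nat_lit 1) (nat_lit 315) (nat_lit 365) (nat_lit 340)) (XT.nd (nat_lit 78) (nat_lit 532) (nat_lit 0) (XT.lf (nat_lit 76) (nat_lit 2194923895) (nat_lit 0) (nat_lit 1536732751) (nat_lit 684) (nat_lit 2194923895) (nat_lit 323) (nat_lit 1) (nat_lit 322) (nat_lit 1) (nat_lit 331) (nat_lit 1) (nat_lit 316) (nat_lit 365) (nat_lit 339)) (XT.lf (nat_lit 608) (nat_lit 3613629617) (nat_lit 0) (nat_lit 1118418597)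 (nat_lit 532) (nat_lit 1118418597) (nat_lit 323) (nat_lit 1) (nat_lit 315) (nat_lit 1) (nat_lit 322) (nat_lit 1) (nat_lit 317) (nat_lit 365) (nat_lit 338))))))) (XT.nd (nat_lit 702) (nat_lit 2508) (nat_lit 0) (XT.nd (nat_lit 312) (nat_lit 1520) (nat_lit 0) (XT.nd (nat_lit 156) (nat_lit 456) (nat_lit 0) (XT.nd (nat_lit 78) (nat_lit 532) (nat_lit 0) (XT.lf (nat_lit 76) (nat_lit 1412120614) (nat_lit 0) (nat_lit 2951286666) (nat_lit 608) (nat_lit 1412120614) (nat_lit 316) (nat_lit 1) (nat_lit 315) (nat_lit 1) (nat_lit 323) (nat_lit 1) (nat_lit 318) (nat_lit 365) (nat_lit 337)) (XT.lf (nat_lit 608) (nat_lit 2028910552) (nat_lit 0) (nat_lit 1836509184) (nat_lit 532) (nat_lit 1836509184) (nat_lit 316) (nat_lit 1) (nat_lit 308) (nat_lit 1) (nat_lit 315) (nat_lit 1) (nat_lit 319) (nat_lit 365) (nat_lit 336))) (XT.nd (nat_lit 78) (nat_lit 456) (nat_lit 0) (XT.lf (nat_lit 76) (nat_lit 618328311) (nat_lit 0) (nat_lit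 4393231890) (nat_lit 608) (nat_lit 618328311) (nat_lit 309) (nat_lit 1) (nat_lit 308) (nat_lit 1) (nat_lit 316) (nat_lit 1) (nat_lit 320) (nat_lit 365) (nat_lit 335)) (XT.lf (nat_lit 532) (nat_lit 424407151) (nat_lit 0) (nat_lit 2567142363) (nat_lit 456) (nat_lit 2567142363) (nat_lit 309) (nat_lit 1) (nat_lit 302) (nat_lit 1) (nat_lit 308) (nat_lit 1) (nat_lit 321) (nat_lit 365) (nat_lit 334)))) (XT.nd (nat_lit 156) (nat_lit 912) (nat_lit 0) (XT.nd (nat_lit 78) (nat_lit 0) (nat_lit 0) (XT.lf (nat_lit 608) (nat_lit 5124458011) (nat_lit 0) (nat_lit 182387493) (nat_lit 532) (nat_lit 182387493) (nat_lit 302) (nat_lit 1) (nat_lit 294) (nat_lit 1) (nat_lit 301) (nat_lit 1) (nat_lit 322) (nat_lit 365) (nat_lit 333)) (XT.lf (nat_lit 76) (nat_lit 2124005209) (nat_lit 0) (nat_lit 1172190165) (nat_lit 608) (nat_lit 2124005209) (nat_lit 295) (nat_lit 1) (nat_lit 294) (nat_lit 1) (nat_lit 302) (nat_lit 1) (nat_lit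 323) (nat_lit 365) (nat_lit 332))) (XT.nd (nat_lit 78) (nat_lit 456) (nat_lit 0) (XT.lf (nat_lit 532) (nat_lit 3385598366) (nat_lit 0) (nat_lit 983622868) (nat_lit 456) (nat_lit 983622868) (nat_lit 295) (nat_lit 1) (nat_lit 288) (nat_lit 1) (nat_lit 294) (nat_lit 1) (nat_lit 324) (nat_lit 365) (nat_lit 331)) (XT.nd (nat_lit 78) (nat_lit 456) (nat_lit 0) (XT.lf (nat_lit 76) (nat_lit 1257392167) (nat_lit 0) (nat_lit 2771688793) (nat_lit 532) (nat_lit 1257392167) (nat_lit 289) (nat_lit 1) (nat_lit 288) (nat_lit 1) (nat_lit 295) (nat_lit 1) (nat_lit 325) (nat_lit 365) (nat_lit 330)) (XT.lf (nat_lit 532) (nat_lit 1642160400) (nat_lit 0) (nat_lit 1789541715) (nat_lit 456) (nat_lit 1789541715) (nat_lit 289) (nat_lit 1) (nat_lit 282) (nat_lit 1) (nat_lit 288) (nat_lit 1) (nat_lit 326) (nat_lit 365) (nat_lit 329)))))) (XT.nd (nat_lit 390) (nat_lit 1216) (nat_lit 0) (XT.nd (nat_lit 156) (nat_lit 836) (nat_lit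 0) (XT.nd (nat_lit 78) (nat_lit 456) (nat_lit 0) (XT.lf (nat_lit 76) (nat_lit 389346841) (nat_lit 0) (nat_lit 4378747168) (nat_lit 532) (nat_lit 389346841) (nat_lit 283) (nat_lit 1) (nat_lit 282) (nat_lit 1) (nat_lit 289) (nat_lit 1) (nat_lit 327) (nat_lit 365) (nat_lit 328)) (XT.lf (nat_lit 76) (nat_lit 2496832517) (nat_lit 0) (nat_lit 100551246) (nat_lit 456) (nat_lit 2496832517) (nat_lit 277) (nat_lit 1) (nat_lit 276) (nat_lit 1) (nat_lit 282) (nat_lit 1) (nat_lit 328) (nat_lit 365) (nat_lit 327))) (XT.nd (nat_lit 78) (nat_lit 380) (nat_lit 0) (XT.lf (nat_lit 532) (nat_lit 4084633965) (nat_lit 0) (nat_lit 473866144) (nat_lit 456) (nat_lit 473866144) (nat_lit 277) (nat_lit 1) (nat_lit 270) (nat_lit 1) (nat_lit 276) (nat_lit 1) (nat_lit 329) (nat_lit 365) (nat_lit 326)) (XT.nd (nat_lit 78) (nat_lit 380) (nat_lit 0) (XT.lf (nat_lit 76) (nat_lit 1580818803) (nat_lit 0) (nat_lit 1809502154) (nat_lit 532)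 (nat_lit 1580818803) (nat_lit 271) (nat_lit 1) (nat_lit 270) (nat_lit 1) (nat_lit 277) (nat_lit 1) (nat_lit 330) (nat_lit 365) (nat_lit 325)) (XT.lf (nat_lit 456) (nat_lit 2247784422) (nat_lit 0) (nat_lit 1331697720) (nat_lit 380) (nat_lit 1331697720) (nat_lit 271) (nat_lit 1) (nat_lit 265) (nat_lit 1) (nat_lit 270) (nat_lit 1) (nat_lit 331) (nat_lit 365) (nat_lit 324))))) (XT.nd (nat_lit 156) (nat_lit 836) (nat_lit 0) (XT.nd (nat_lit 78) (nat_lit 380) (nat_lit 0) (XT.lf (nat_lit 76) (nat_lit 669146514) (nat_lit 0) (nat_lit 3514025126) (nat_lit 456) (nat_lit 669146514) (nat_lit 266) (nat_lit 1) (nat_lit 265) (nat_lit 1) (nat_lit 271) (nat_lit 1) (nat_lit 332) (nat_lit 365) (nat_lit 323)) (XT.lf (nat_lit 456) (nat_lit 420840449) (nat_lit 0) (nat_lit 2186663491) (nat_lit 380) (nat_lit 2186663491) (nat_lit 266) (nat_lit 1) (nat_lit 260) (nat_lit 1) (nat_lit 265) (nat_lit 1) (nat_lit 333) (nat_lit 365)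 (nat_lit 322))) (XT.nd (nat_lit 78) (nat_lit 380) (nat_lit 0) (XT.lf (nat_lit 456) (nat_lit 4267904931) (nat_lit 0) (nat_lit 234704665) (nat_lit 380) (nat_lit 234704665) (nat_lit 260) (nat_lit 1) (nat_lit 254) (nat_lit 1) (nat_lit 259) (nat_lit 1) (nat_lit 334) (nat_lit 365) (nat_lit 321)) (XT.nd (nat_lit 78) (nat_lit 380) (nat_lit 0) (XT.lf (nat_lit 76) (nat_lit 1656993059) (nat_lit 0) (nat_lit 1366782293) (nat_lit 456) (nat_lit 1656993059) (nat_lit 255) (nat_lit 1) (nat_lit 254) (nat_lit 1) (nat_lit 260) (nat_lit 1) (nat_lit 335) (nat_lit 365) (nat_lit 320)) (XT.lf (nat_lit 456) (nat_lit 2374451523) (nat_lit 0) (nat_lit 1125513859) (nat_lit 380) (nat_lit 1125513859) (nat_lit 255) (nat_lit 1) (nat_lit 249) (nat_lit 1) (nat_lit 254) (nat_lit 1) (nat_lit 336) (nat_lit 365) (nat_lit 319))))))))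
noncomputable def ec140 : XT := (XT.nd (nat_lit 1404) (nat_lit 2736) (nat_lit 0) (XT.nd (nat_lit 702) (nat_lit 1748) (nat_lit 0) (XT.nd (nat_lit 312) (nat_lit 988) (nat_lit 0) (XT.nd (nat_lit 156) (nat_lit 456) (nat_lit 0) (XT.nd (nat_lit 78) (nat_lit 304) (nat_lit 0) (XT.lf (nat_lit 76) (nat_lit 719386295) (nat_lit 0) (nat_lit 3132343105) (nat_lit 456) (nat_lit 719386295) (nat_lit 250) (nat_lit 1) (nat_lit 249) (nat_lit 1) (nat_lit 255) (nat_lit 1) (nat_lit 337) (nat_lit 365) (nat_lit 318)) (XT.lf (nat_lit 380) (nat_lit 499637198) (nat_lit 0) (nat_lit 2008901956) (nat_lit 304) (nat_lit 2008901956) (nat_lit 250) (nat_lit 1) (nat_lit 245) (nat_lit 1) (nat_lit 249) (nat_lit 1) (nat_lit 338) (nat_lit 365) (nat_lit 317))) (XT.nd (nat_lit 78) (nat_lit 0) (nat_lit 0) (XT.lf (nat_lit 456) (nat_lit 4051941496) (nat_lit 0) (nat_lit 206501253) (nat_lit 380) (nat_lit 206501253) (nat_lit 245) (nat_lit 1) (nat_lit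 239) (nat_lit 1) (nat_lit 244) (nat_lit 1) (nat_lit 339) (nat_lit 365) (nat_lit 316)) (XT.lf (nat_lit 76) (nat_lit 1542061546) (nat_lit 0) (nat_lit 1328544463) (nat_lit 456) (nat_lit 1542061546) (nat_lit 240) (nat_lit 1) (nat_lit 239) (nat_lit 1) (nat_lit 245) (nat_lit 1) (nat_lit 340) (nat_lit 365) (nat_lit 315)))) (XT.nd (nat_lit 156) (nat_lit 684) (nat_lit 0) (XT.nd (nat_lit 78) (nat_lit 0) (nat_lit 0) (XT.lf (nat_lit 380) (nat_lit 2131468630) (nat_lit 0) (nat_lit 1115032864) (nat_lit 304) (nat_lit 1115032864) (nat_lit 240) (nat_lit 1) (nat_lit 235) (nat_lit 1) (nat_lit 239) (nat_lit 1) (nat_lit 341) (nat_lit 365) (nat_lit 314)) (XT.lf (nat_lit 76) (nat_lit 592728867) (nat_lit 0) (nat_lit 3125818072) (nat_lit 380) (nat_lit 592728867) (nat_lit 236) (nat_lit 1) (nat_lit 235) (nat_lit 1) (nat_lit 240) (nat_lit 1) (nat_lit 342) (nat_lit 365) (nat_lit 313))) (XT.nd (nat_lit 78) (nat_lit 380) (nat_lit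 0) (XT.lf (nat_lit 380) (nat_lit 236355279) (nat_lit 0) (nat_lit 2012616618) (nat_lit 304) (nat_lit 2012616618) (nat_lit 236) (nat_lit 1) (nat_lit 231) (nat_lit 1) (nat_lit 235) (nat_lit 1) (nat_lit 343) (nat_lit 365) (nat_lit 312)) (XT.nd (nat_lit 78) (nat_lit 0) (nat_lit 0) (XT.lf (nat_lit 380) (nat_lit 3532177854) (nat_lit 0) (nat_lit 340351962) (nat_lit 304) (nat_lit 340351962) (nat_lit 231) (nat_lit 1) (nat_lit 226) (nat_lit 1) (nat_lit 230) (nat_lit 1) (nat_lit 344) (nat_lit 365) (nat_lit 311)) (XT.lf (nat_lit 76) (nat_lit 1281990297) (nat_lit 0) (nat_lit 1600528310) (nat_lit 380) (nat_lit 1281990297) (nat_lit 227) (nat_lit 1) (nat_lit 226) (nat_lit 1) (nat_lit 231) (nat_lit 1) (nat_lit 345) (nat_lit 365) (nat_lit 310)))))) (XT.nd (nat_lit 312) (nat_lit 836) (nat_lit 0) (XT.nd (nat_lit 156) (nat_lit 608) (nat_lit 0) (XT.nd (nat_lit 78) (nat_lit 0) (nat_lit 0) (XT.lf (nat_lit 380) (nat_lit 1608291801)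 (nat_lit 0) (nat_lit 1254398058) (nat_lit 304) (nat_lit 1254398058) (nat_lit 227) (nat_lit 1) (nat_lit 222) (nat_lit 1) (nat_lit 226) (nat_lit 1) (nat_lit 346) (nat_lit 365) (nat_lit 309)) (XT.lf (nat_lit 76) (nat_lit 332257461) (nat_lit 0) (nat_lit 3406069406) (nat_lit 380) (nat_lit 332257461) (nat_lit 223) (nat_lit 1) (nat_lit 222) (nat_lit 1) (nat_lit 227) (nat_lit 1) (nat_lit 347) (nat_lit 365) (nat_lit 308))) (XT.nd (nat_lit 78) (nat_lit 304) (nat_lit 0) (XT.lf (nat_lit 76) (nat_lit 1872389421) (nat_lit 0) (nat_lit 279601527) (nat_lit 304) (nat_lit 1872389421) (nat_lit 219) (nat_lit 1) (nat_lit 218) (nat_lit 1) (nat_lit 222) (nat_lit 1) (nat_lit 348) (nat_lit 365) (nat_lit 307)) (XT.lf (nat_lit 380) (nat_lit 2786512646) (nat_lit 0) (nat_lit 596277846) (nat_lit 304) (nat_lit 596277846) (nat_lit 219) (nat_lit 1) (nat_lit 214) (nat_lit 1) (nat_lit 218) (nat_lit 1) (nat_lit 349) (nat_lit 365) (nat_lit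 306)))) (XT.nd (nat_lit 156) (nat_lit 608) (nat_lit 0) (XT.nd (nat_lit 78) (nat_lit 228) (nat_lit 0) (XT.lf (nat_lit 76) (nat_lit 914283940) (nat_lit 0) (nat_lit 2105704623) (nat_lit 380) (nat_lit 914283940) (nat_lit 215) (nat_lit 1) (nat_lit 214) (nat_lit 1) (nat_lit 219) (nat_lit 1) (nat_lit 350) (nat_lit 365) (nat_lit 305)) (XT.lf (nat_lit 304) (nat_lit 877880257) (nat_lit 0) (nat_lit 1506149929) (nat_lit 228) (nat_lit 1506149929) (nat_lit 215) (nat_lit 1) (nat_lit 211) (nat_lit 1) (nat_lit 214) (nat_lit 1) (nat_lit 351) (nat_lit 365) (nat_lit 304))) (XT.nd (nat_lit 78) (nat_lit 228) (nat_lit 0) (XT.lf (nat_lit 380) (nat_lit 3793805843) (nat_lit 0) (nat_lit 26640888) (nat_lit 304) (nat_lit 26640888) (nat_lit 211) (nat_lit 1) (nat_lit 206) (nat_lit 1) (nat_lit 210) (nat_lit 1) (nat_lit 352) (nat_lit 365) (nat_lit 303)) (XT.nd (nat_lit 78) (nat_lit 228) (nat_lit 0) (XT.lf (nat_lit 76) (nat_lit 1413375545)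 (nat_lit 0) (nat_lit 977159314) (nat_lit 380) (nat_lit 1413375545) (nat_lit 207) (nat_lit 1) (nat_lit 206) (nat_lit 1) (nat_lit 211) (nat_lit 1) (nat_lit 353) (nat_lit 365) (nat_lit 302)) (XT.lf (nat_lit 304) (nat_lit 1878282989) (nat_lit 0) (nat_lit 941714380) (nat_lit 228) (nat_lit 941714380) (nat_lit 207) (nat_lit 1) (nat_lit 203) (nat_lit 1) (nat_lit 206) (nat_lit 1) (nat_lit 354) (nat_lit 365) (nat_lit 301))))))) (XT.nd (nat_lit 702) (nat_lit 1444) (nat_lit 0) (XT.nd (nat_lit 312) (nat_lit 760) (nat_lit 0) (XT.nd (nat_lit 156) (nat_lit 228) (nat_lit 0) (XT.nd (nat_lit 78) (nat_lit 304) (nat_lit 0) (XT.lf (nat_lit 76) (nat_lit 469421655) (nat_lit 0) (nat_lit 2781357215) (nat_lit 304) (nat_lit 469421655) (nat_lit 204) (nat_lit 1) (nat_lit 203) (nat_lit 1) (nat_lit 207) (nat_lit 1) (nat_lit 355) (nat_lit 365) (nat_lit 300)) (XT.lf (nat_lit 76) (nat_lit 1839305775) (nat_lit 0) (nat_lit 492453) (nat_lit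 304) (nat_lit 1839305775) (nat_lit 200) (nat_lit 1) (nat_lit 199) (nat_lit 1) (nat_lit 203) (nat_lit 1) (nat_lit 356) (nat_lit 365) (nat_lit 299))) (XT.nd (nat_lit 78) (nat_lit 0) (nat_lit 0) (XT.lf (nat_lit 304) (nat_lit 2735138605) (nat_lit 0) (nat_lit 451768676) (nat_lit 228) (nat_lit 451768676) (nat_lit 200) (nat_lit 1) (nat_lit 196) (nat_lit 1) (nat_lit 199) (nat_lit 1) (nat_lit 357) (nat_lit 365) (nat_lit 298)) (XT.lf (nat_lit 76) (nat_lit 896032437) (nat_lit 0) (nat_lit 1806571799) (nat_lit 304) (nat_lit 896032437) (nat_lit 197) (nat_lit 1) (nat_lit 196) (nat_lit 1) (nat_lit 200) (nat_lit 1) (nat_lit 358) (nat_lit 365) (nat_lit 297)))) (XT.nd (nat_lit 156) (nat_lit 228) (nat_lit 0) (XT.nd (nat_lit 78) (nat_lit 304) (nat_lit 0) (XT.lf (nat_lit 304) (nat_lit 858747823) (nat_lit 0) (nat_lit 1350249945) (nat_lit 228) (nat_lit 1350249945) (nat_lit 197) (nat_lit 1) (nat_lit 193) (nat_lit 1) (nat_lit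 196) (nat_lit 1) (nat_lit 359) (nat_lit 365) (nat_lit 296)) (XT.lf (nat_lit 304) (nat_lit 3465386193) (nat_lit 0) (nat_lit 27669886) (nat_lit 228) (nat_lit 27669886) (nat_lit 193) (nat_lit 1) (nat_lit 189) (nat_lit 1) (nat_lit 192) (nat_lit 1) (nat_lit 360) (nat_lit 365) (nat_lit 295))) (XT.nd (nat_lit 78) (nat_lit 228) (nat_lit 0) (XT.lf (nat_lit 76) (nat_lit 1261120376) (nat_lit 0) (nat_lit 959845681) (nat_lit 304) (nat_lit 1261120376) (nat_lit 190) (nat_lit 1) (nat_lit 189) (nat_lit 1) (nat_lit 193) (nat_lit 1) (nat_lit 361) (nat_lit 365) (nat_lit 294)) (XT.nd (nat_lit 78) (nat_lit 0) (nat_lit 0) (XT.lf (nat_lit 304) (nat_lit 1597155317) (nat_lit 0) (nat_lit 923571462) (nat_lit 228) (nat_lit 923571462) (nat_lit 190) (nat_lit 1) (nat_lit 186) (nat_lit 1) (nat_lit 189) (nat_lit 1) (nat_lit 362) (nat_lit 365) (nat_lit 293)) (XT.lf (nat_lit 76) (nat_lit 341600349) (nat_lit 0) (nat_lit 2723949393) (nat_lit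 304) (nat_lit 341600349) (nat_lit 187) (nat_lit 1) (nat_lit 186) (nat_lit 1) (nat_lit 190) (nat_lit 1) (nat_lit 363) (nat_lit 365) (nat_lit 292)))))) (XT.nd (nat_lit 390) (nat_lit 532) (nat_lit 0) (XT.nd (nat_lit 156) (nat_lit 456) (nat_lit 0) (XT.nd (nat_lit 78) (nat_lit 228) (nat_lit 0) (XT.lf (nat_lit 76) (nat_lit 1571952384) (nat_lit 0) (nat_lit 226334762) (nat_lit 228) (nat_lit 1571952384) (nat_lit 184) (nat_lit 1) (nat_lit 183) (nat_lit 1) (nat_lit 186) (nat_lit 1) (nat_lit 364) (nat_lit 365) (nat_lit 291)) (XT.lf (nat_lit 304) (nat_lit 2228924628) (nat_lit 0) (nat_lit 552515140) (nat_lit 228) (nat_lit 552515140) (nat_lit 184) (nat_lit 1) (nat_lit 180) (nat_lit 1) (nat_lit 183) (nat_lit 1) (nat_lit 365) (nat_lit 365) (nat_lit 290))) (XT.nd (nat_lit 78) (nat_lit 456) (nat_lit 0) (XT.lf (nat_lit 76) (nat_lit 659262917) (nat_lit 0) (nat_lit 1979558513) (nat_lit 304) (nat_lit 659262917) (nat_lit 181)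 (nat_lit 1) (nat_lit 180) (nat_lit 1) (nat_lit 184) (nat_lit 1) (nat_lit 366) (nat_lit 365) (nat_lit 289)) (XT.nd (nat_lit 78) (nat_lit 304) (nat_lit 0) (XT.lf (nat_lit 228) (nat_lit 415236074) (nat_lit 0) (nat_lit 1423728610) (nat_lit 152) (nat_lit 1423728610) (nat_lit 181) (nat_lit 1) (nat_lit 178) (nat_lit 1) (nat_lit 180) (nat_lit 1) (nat_lit 367) (nat_lit 365) (nat_lit 288)) (XT.lf (nat_lit 304) (nat_lit 2766654949) (nat_lit 0) (nat_lit 230644156) (nat_lit 228) (nat_lit 230644156) (nat_lit 178) (nat_lit 1) (nat_lit 174) (nat_lit 1) (nat_lit 177) (nat_lit 1) (nat_lit 368) (nat_lit 365) (nat_lit 287))))) (XT.nd (nat_lit 156) (nat_lit 380) (nat_lit 0) (XT.nd (nat_lit 78) (nat_lit 152) (nat_lit 0) (XT.lf (nat_lit 76) (nat_lit 931140185) (nat_lit 0) (nat_lit 1331010894) (nat_lit 304) (nat_lit 931140185) (nat_lit 175) (nat_lit 1) (nat_lit 174) (nat_lit 1) (nat_lit 178) (nat_lit 1) (nat_lit 369) (nat_lit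 365) (nat_lit 286)) (XT.lf (nat_lit 228) (nat_lit 971197673) (nat_lit 0) (nat_lit 1094035402) (nat_lit 152) (nat_lit 1094035402) (nat_lit 175) (nat_lit 1) (nat_lit 172) (nat_lit 1) (nat_lit 174) (nat_lit 1) (nat_lit 370) (nat_lit 365) (nat_lit 285))) (XT.nd (nat_lit 78) (nat_lit 380) (nat_lit 0) (XT.lf (nat_lit 76) (nat_lit 48226511) (nat_lit 0) (nat_lit 3029503552) (nat_lit 228) (nat_lit 48226511) (nat_lit 173) (nat_lit 1) (nat_lit 172) (nat_lit 1) (nat_lit 175) (nat_lit 1) (nat_lit 371) (nat_lit 365) (nat_lit 284)) (XT.nd (nat_lit 78) (nat_lit 152) (nat_lit 0) (XT.lf (nat_lit 76) (nat_lit 1162639608) (nat_lit 0) (nat_lit 767244964) (nat_lit 228) (nat_lit 1162639608) (nat_lit 170) (nat_lit 1) (nat_lit 169) (nat_lit 1) (nat_lit 172) (nat_lit 1) (nat_lit 372) (nat_lit 365) (nat_lit 283)) (XT.lf (nat_lit 228) (nat_lit 1447620632) (nat_lit 0) (nat_lit 806085773) (nat_lit 152) (nat_lit 806085773) (nat_lit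 170) (nat_lit 1) (nat_lit 167) (nat_lit 1) (nat_lit 169) (nat_lit 1) (nat_lit 373) (nat_lit 365) (nat_lit 282))))))))
noncomputable def ec141 : XT := (XT.nd (nat_lit 1482) (nat_lit 1748) (nat_lit 0) (XT.nd (nat_lit 702) (nat_lit 912) (nat_lit 0) (XT.nd (nat_lit 312) (nat_lit 760) (nat_lit 0) (XT.nd (nat_lit 156) (nat_lit 152) (nat_lit 0) (XT.nd (nat_lit 78) (nat_lit 228) (nat_lit 0) (XT.lf (nat_lit 76) (nat_lit 290596020) (nat_lit 0) (nat_lit 2446404031) (nat_lit 228) (nat_lit 290596020) (nat_lit 168) (nat_lit 1) (nat_lit 167) (nat_lit 1) (nat_lit 170) (nat_lit 1) (nat_lit 374) (nat_lit 365) (nat_lit 281)) (XT.lf (nat_lit 76) (nat_lit 1358556849) (nat_lit 0) (nat_lit 278443547) (nat_lit 228) (nat_lit 1358556849) (nat_lit 165) (nat_lit 1) (nat_lit 164) (nat_lit 1) (nat_lit 167) (nat_lit 1) (nat_lit 375) (nat_lit 365) (nat_lit 280))) (XT.nd (nat_lit 78) (nat_lit 0) (nat_lit 0) (XT.lf (nat_lit 228) (nat_lit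 1853885461) (nat_lit 0) (nat_lit 555079766) (nat_lit 152) (nat_lit 555079766) (nat_lit 165) (nat_lit 1) (nat_lit 162) (nat_lit 1) (nat_lit 164) (nat_lit 1) (nat_lit 376) (nat_lit 365) (nat_lit 279)) (XT.lf (nat_lit 76) (nat_lit 498722246) (nat_lit 0) (nat_lit 1935471463) (nat_lit 228) (nat_lit 498722246) (nat_lit 163) (nat_lit 1) (nat_lit 162) (nat_lit 1) (nat_lit 165) (nat_lit 1) (nat_lit 377) (nat_lit 365) (nat_lit 278)))) (XT.nd (nat_lit 156) (nat_lit 380) (nat_lit 0) (XT.nd (nat_lit 78) (nat_lit 228) (nat_lit 0) (XT.lf (nat_lit 228) (nat_lit 146973195) (nat_lit 0) (nat_lit 1377583858) (nat_lit 152) (nat_lit 1377583858) (nat_lit 163) (nat_lit 1) (nat_lit 160) (nat_lit 1) (nat_lit 162) (nat_lit 1) (nat_lit 378) (nat_lit 365) (nat_lit 277)) (XT.lf (nat_lit 228) (nat_lit 2198311744) (nat_lit 0) (nat_lit 336756909) (nat_lit 152) (nat_lit 336756909) (nat_lit 160) (nat_lit 1) (nat_lit 157) (nat_lit 1)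 (nat_lit 159) (nat_lit 1) (nat_lit 379) (nat_lit 365) (nat_lit 276))) (XT.nd (nat_lit 78) (nat_lit 380) (nat_lit 0) (XT.lf (nat_lit 76) (nat_lit 676633932) (nat_lit 0) (nat_lit 1488450228) (nat_lit 228) (nat_lit 676633932) (nat_lit 158) (nat_lit 1) (nat_lit 157) (nat_lit 1) (nat_lit 160) (nat_lit 1) (nat_lit 380) (nat_lit 365) (nat_lit 275)) (XT.nd (nat_lit 78) (nat_lit 228) (nat_lit 0) (XT.lf (nat_lit 228) (nat_lit 518244262) (nat_lit 0) (nat_lit 1146909122) (nat_lit 152) (nat_lit 1146909122) (nat_lit 158) (nat_lit 1) (nat_lit 155) (nat_lit 1) (nat_lit 157) (nat_lit 1) (nat_lit 381) (nat_lit 365) (nat_lit 274)) (XT.lf (nat_lit 228) (nat_lit 2488276875) (nat_lit 0) (nat_lit 147335925) (nat_lit 152) (nat_lit 147335925) (nat_lit 155) (nat_lit 1) (nat_lit 152) (nat_lit 1) (nat_lit 154) (nat_lit 1) (nat_lit 382) (nat_lit 365) (nat_lit 273)))))) (XT.nd (nat_lit 390) (nat_lit 456) (nat_lit 0) (XT.nd (nat_lit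 156) (nat_lit 304) (nat_lit 0) (XT.nd (nat_lit 78) (nat_lit 152) (nat_lit 0) (XT.lf (nat_lit 76) (nat_lit 827904441) (nat_lit 0) (nat_lit 1098011371) (nat_lit 228) (nat_lit 827904441) (nat_lit 153) (nat_lit 1) (nat_lit 152) (nat_lit 1) (nat_lit 155) (nat_lit 1) (nat_lit 383) (nat_lit 365) (nat_lit 272)) (XT.lf (nat_lit 228) (nat_lit 836822715) (nat_lit 0) (nat_lit 944201966) (nat_lit 152) (nat_lit 944201966) (nat_lit 153) (nat_lit 1) (nat_lit 150) (nat_lit 1) (nat_lit 152) (nat_lit 1) (nat_lit 384) (nat_lit 365) (nat_lit 271))) (XT.nd (nat_lit 78) (nat_lit 304) (nat_lit 0) (XT.lf (nat_lit 76) (nat_lit 16702569) (nat_lit 0) (nat_lit 2663819403) (nat_lit 228) (nat_lit 16702569) (nat_lit 151) (nat_lit 1) (nat_lit 150) (nat_lit 1) (nat_lit 153) (nat_lit 1) (nat_lit 385) (nat_lit 365) (nat_lit 270)) (XT.nd (nat_lit 78) (nat_lit 152) (nat_lit 0) (XT.lf (nat_lit 76) (nat_lit 955702720) (nat_lit 0) (nat_lit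 757649097) (nat_lit 152) (nat_lit 955702720) (nat_lit 149) (nat_lit 1) (nat_lit 148) (nat_lit 1) (nat_lit 150) (nat_lit 1) (nat_lit 386) (nat_lit 365) (nat_lit 269)) (XT.lf (nat_lit 228) (nat_lit 1108913328) (nat_lit 0) (nat_lit 766278271) (nat_lit 152) (nat_lit 766278271) (nat_lit 149) (nat_lit 1) (nat_lit 146) (nat_lit 1) (nat_lit 148) (nat_lit 1) (nat_lit 387) (nat_lit 365) (nat_lit 268))))) (XT.nd (nat_lit 156) (nat_lit 304) (nat_lit 0) (XT.nd (nat_lit 78) (nat_lit 152) (nat_lit 0) (XT.lf (nat_lit 76) (nat_lit 159407717) (nat_lit 0) (nat_lit 2295553421) (nat_lit 228) (nat_lit 159407717) (nat_lit 147) (nat_lit 1) (nat_lit 146) (nat_lit 1) (nat_lit 149) (nat_lit 1) (nat_lit 388) (nat_lit 365) (nat_lit 267)) (XT.lf (nat_lit 76) (nat_lit 1062838563) (nat_lit 0) (nat_lit 461588804) (nat_lit 152) (nat_lit 1062838563) (nat_lit 145) (nat_lit 1) (nat_lit 144) (nat_lit 1) (nat_lit 146) (nat_lit 1) (nat_lit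 389) (nat_lit 365) (nat_lit 266))) (XT.nd (nat_lit 78) (nat_lit 152) (nat_lit 0) (XT.lf (nat_lit 228) (nat_lit 1340019387) (nat_lit 0) (nat_lit 610310895) (nat_lit 152) (nat_lit 610310895) (nat_lit 145) (nat_lit 1) (nat_lit 142) (nat_lit 1) (nat_lit 144) (nat_lit 1) (nat_lit 390) (nat_lit 365) (nat_lit 265)) (XT.nd (nat_lit 78) (nat_lit 152) (nat_lit 0) (XT.lf (nat_lit 76) (nat_lit 281988682) (nat_lit 0) (nat_lit 1970428108) (nat_lit 228) (nat_lit 281988682) (nat_lit 143) (nat_lit 1) (nat_lit 142) (nat_lit 1) (nat_lit 145) (nat_lit 1) (nat_lit 391) (nat_lit 365) (nat_lit 264)) (XT.lf (nat_lit 76) (nat_lit 1151802835) (nat_lit 0) (nat_lit 204705376) (nat_lit 152) (nat_lit 1151802835) (nat_lit 141) (nat_lit 1) (nat_lit 140) (nat_lit 1) (nat_lit 142) (nat_lit 1) (nat_lit 392) (nat_lit 365) (nat_lit 263))))))) (XT.nd (nat_lit 702) (nat_lit 912) (nat_lit 0) (XT.nd (nat_lit 312) (nat_lit 380) (nat_lit 0)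 (XT.nd (nat_lit 156) (nat_lit 304) (nat_lit 0) (XT.nd (nat_lit 78) (nat_lit 0) (nat_lit 0) (XT.lf (nat_lit 228) (nat_lit 1535021186) (nat_lit 0) (nat_lit 473789808) (nat_lit 152) (nat_lit 473789808) (nat_lit 141) (nat_lit 1) (nat_lit 138) (nat_lit 1) (nat_lit 140) (nat_lit 1) (nat_lit 393) (nat_lit 365) (nat_lit 262)) (XT.lf (nat_lit 76) (nat_lit 386812214) (nat_lit 0) (nat_lit 1683572305) (nat_lit 228) (nat_lit 386812214) (nat_lit 139) (nat_lit 1) (nat_lit 138) (nat_lit 1) (nat_lit 141) (nat_lit 1) (nat_lit 394) (nat_lit 365) (nat_lit 261))) (XT.nd (nat_lit 78) (nat_lit 228) (nat_lit 0) (XT.lf (nat_lit 152) (nat_lit 17898664) (nat_lit 0) (nat_lit 1207076589) (nat_lit 76) (nat_lit 1207076589) (nat_lit 139) (nat_lit 1) (nat_lit 137) (nat_lit 1) (nat_lit 138) (nat_lit 1) (nat_lit 395) (nat_lit 365) (nat_lit 260)) (XT.lf (nat_lit 228) (nat_lit 1698245780) (nat_lit 0) (nat_lit 354486673) (nat_lit 152) (nat_lit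 354486673) (nat_lit 137) (nat_lit 1) (nat_lit 134) (nat_lit 1) (nat_lit 136) (nat_lit 1) (nat_lit 396) (nat_lit 365) (nat_lit 259)))) (XT.nd (nat_lit 156) (nat_lit 304) (nat_lit 0) (XT.nd (nat_lit 78) (nat_lit 76) (nat_lit 0) (XT.lf (nat_lit 76) (nat_lit 475977567) (nat_lit 0) (nat_lit 1430659810) (nat_lit 228) (nat_lit 475977567) (nat_lit 135) (nat_lit 1) (nat_lit 134) (nat_lit 1) (nat_lit 137) (nat_lit 1) (nat_lit 397) (nat_lit 365) (nat_lit 258)) (XT.lf (nat_lit 152) (nat_lit 213375032) (nat_lit 0) (nat_lit 1072471915) (nat_lit 76) (nat_lit 1072471915) (nat_lit 135) (nat_lit 1) (nat_lit 133) (nat_lit 1) (nat_lit 134) (nat_lit 1) (nat_lit 398) (nat_lit 365) (nat_lit 257))) (XT.nd (nat_lit 78) (nat_lit 76) (nat_lit 0) (XT.lf (nat_lit 228) (nat_lit 1833528930) (nat_lit 0) (nat_lit 250423385) (nat_lit 152) (nat_lit 250423385) (nat_lit 133) (nat_lit 1) (nat_lit 130) (nat_lit 1) (nat_lit 132) (nat_lit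 1) (nat_lit 399) (nat_lit 365) (nat_lit 256)) (XT.nd (nat_lit 78) (nat_lit 76) (nat_lit 0) (XT.lf (nat_lit 76) (nat_lit 551346432) (nat_lit 0) (nat_lit 1207848559) (nat_lit 228) (nat_lit 551346432) (nat_lit 131) (nat_lit 1) (nat_lit 130) (nat_lit 1) (nat_lit 133) (nat_lit 1) (nat_lit 400) (nat_lit 365) (nat_lit 255)) (XT.lf (nat_lit 152) (nat_lit 381301634) (nat_lit 0) (nat_lit 952877406) (nat_lit 76) (nat_lit 952877406) (nat_lit 131) (nat_lit 1) (nat_lit 129) (nat_lit 1) (nat_lit 130) (nat_lit 1) (nat_lit 401) (nat_lit 365) (nat_lit 254)))))) (XT.nd (nat_lit 390) (nat_lit 380) (nat_lit 0) (XT.nd (nat_lit 156) (nat_lit 304) (nat_lit 0) (XT.nd (nat_lit 78) (nat_lit 0) (nat_lit 0) (XT.lf (nat_lit 228) (nat_lit 1944270154) (nat_lit 0) (nat_lit 159844117) (nat_lit 152) (nat_lit 159844117) (nat_lit 129) (nat_lit 1) (nat_lit 126) (nat_lit 1) (nat_lit 128) (nat_lit 1) (nat_lit 402) (nat_lit 365) (nat_lit 253))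 (XT.lf (nat_lit 76) (nat_lit 614569532) (nat_lit 0) (nat_lit 1011726585) (nat_lit 228) (nat_lit 614569532) (nat_lit 127) (nat_lit 1) (nat_lit 126) (nat_lit 1) (nat_lit 129) (nat_lit 1) (nat_lit 403) (nat_lit 365) (nat_lit 252))) (XT.nd (nat_lit 78) (nat_lit 228) (nat_lit 0) (XT.lf (nat_lit 152) (nat_lit 524918147) (nat_lit 0) (nat_lit 846619233) (nat_lit 76) (nat_lit 846619233) (nat_lit 127) (nat_lit 1) (nat_lit 125) (nat_lit 1) (nat_lit 126) (nat_lit 1) (nat_lit 404) (nat_lit 365) (nat_lit 251)) (XT.nd (nat_lit 78) (nat_lit 0) (nat_lit 0) (XT.lf (nat_lit 228) (nat_lit 2033481614) (nat_lit 0) (nat_lit 81190479) (nat_lit 152) (nat_lit 81190479) (nat_lit 125) (nat_lit 1) (nat_lit 122) (nat_lit 1) (nat_lit 124) (nat_lit 1) (nat_lit 405) (nat_lit 365) (nat_lit 250)) (XT.lf (nat_lit 76) (nat_lit 667110242) (nat_lit 0) (nat_lit 839264010) (nat_lit 228) (nat_lit 667110242) (nat_lit 123) (nat_lit 1) (nat_lit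 122) (nat_lit 1) (nat_lit 125) (nat_lit 1) (nat_lit 406) (nat_lit 365) (nat_lit 249))))) (XT.nd (nat_lit 156) (nat_lit 76) (nat_lit 0) (XT.nd (nat_lit 78) (nat_lit 228) (nat_lit 0) (XT.lf (nat_lit 152) (nat_lit 647098104) (nat_lit 0) (nat_lit 752210223) (nat_lit 76) (nat_lit 752210223) (nat_lit 123) (nat_lit 1) (nat_lit 121) (nat_lit 1) (nat_lit 122) (nat_lit 1) (nat_lit 407) (nat_lit 365) (nat_lit 248)) (XT.lf (nat_lit 228) (nat_lit 2103831556) (nat_lit 0) (nat_lit 13079457) (nat_lit 152) (nat_lit 13079457) (nat_lit 121) (nat_lit 1) (nat_lit 118) (nat_lit 1) (nat_lit 120) (nat_lit 1) (nat_lit 408) (nat_lit 365) (nat_lit 247))) (XT.nd (nat_lit 78) (nat_lit 76) (nat_lit 0) (XT.lf (nat_lit 76) (nat_lit 710265579) (nat_lit 0) (nat_lit 687770390) (nat_lit 228) (nat_lit 710265579) (nat_lit 119) (nat_lit 1) (nat_lit 118) (nat_lit 1) (nat_lit 121) (nat_lit 1) (nat_lit 409) (nat_lit 365) (nat_lit 246)) (XT.nd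 (nat_lit 78) (nat_lit 0) (nat_lit 0) (XT.lf (nat_lit 152) (nat_lit 750389867) (nat_lit 0) (nat_lit 668329040) (nat_lit 76) (nat_lit 668329040) (nat_lit 119) (nat_lit 1) (nat_lit 117) (nat_lit 1) (nat_lit 118) (nat_lit 1) (nat_lit 410) (nat_lit 365) (nat_lit 245)) (XT.lf (nat_lit 0) (nat_lit 46168825) (nat_lit 0) (nat_lit 1973859338) (nat_lit 152) (nat_lit 46168825) (nat_lit 117) (nat_lit 3) (nat_lit 117) (nat_lit 1) (nat_lit 119) (nat_lit 1) (nat_lit 411) (nat_lit 365) (nat_lit 244))))))))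
noncomputable def ec142 : XT := (XT.nd (nat_lit 1482) (nat_lit 304) (nat_lit 0) (XT.nd (nat_lit 702) (nat_lit 836) (nat_lit 0) (XT.nd (nat_lit 312) (nat_lit 304) (nat_lit 0) (XT.nd (nat_lit 156) (nat_lit 152) (nat_lit 0) (XT.nd (nat_lit 78) (nat_lit 76) (nat_lit 0) (XT.lf (nat_lit 76) (nat_lit 745184845) (nat_lit 0) (nat_lit 554856818) (nat_lit 152) (nat_lit 745184845) (nat_lit 116) (nat_lit 1) (nat_lit 115) (nat_lit 1) (nat_lit 117) (nat_lit 1) (nat_lit 412) (nat_lit 365) (nat_lit 243)) (XT.lf (nat_lit 152) (nat_lit 837053019) (nat_lit 0) (nat_lit 593801696) (nat_lit 76) (nat_lit 593801696) (nat_lit 116) (nat_lit 1) (nat_lit 114) (nat_lit 1) (nat_lit 115) (nat_lit 1) (nat_lit 413) (nat_lit 365) (nat_lit 242))) (XT.nd (nat_lit 78) (nat_lit 152) (nat_lit 0) (XT.lf (nat_lit 0) (nat_lit 97238668) (nat_lit 0) (nat_lit 1809966721) (nat_lit 152) (nat_lit 97238668) (nat_lit 114) (nat_lit 3) (nat_lit 114) (nat_lit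 1) (nat_lit 116) (nat_lit 1) (nat_lit 414) (nat_lit 365) (nat_lit 241)) (XT.lf (nat_lit 76) (nat_lit 772886187) (nat_lit 0) (nat_lit 438402257) (nat_lit 152) (nat_lit 772886187) (nat_lit 113) (nat_lit 1) (nat_lit 112) (nat_lit 1) (nat_lit 114) (nat_lit 1) (nat_lit 415) (nat_lit 365) (nat_lit 240)))) (XT.nd (nat_lit 156) (nat_lit 228) (nat_lit 0) (XT.nd (nat_lit 78) (nat_lit 0) (nat_lit 0) (XT.lf (nat_lit 152) (nat_lit 909090710) (nat_lit 0) (nat_lit 527585116) (nat_lit 76) (nat_lit 527585116) (nat_lit 113) (nat_lit 1) (nat_lit 111) (nat_lit 1) (nat_lit 112) (nat_lit 1) (nat_lit 416) (nat_lit 365) (nat_lit 239)) (XT.lf (nat_lit 0) (nat_lit 140976136) (nat_lit 0) (nat_lit 1662712828) (nat_lit 152) (nat_lit 140976136) (nat_lit 111) (nat_lit 3) (nat_lit 111) (nat_lit 1) (nat_lit 113) (nat_lit 1) (nat_lit 417) (nat_lit 365) (nat_lit 238))) (XT.nd (nat_lit 78) (nat_lit 76) (nat_lit 0) (XT.lf (nat_lit 76)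 (nat_lit 794271312) (nat_lit 0) (nat_lit 336523621) (nat_lit 152) (nat_lit 794271312) (nat_lit 110) (nat_lit 1) (nat_lit 109) (nat_lit 1) (nat_lit 111) (nat_lit 1) (nat_lit 418) (nat_lit 365) (nat_lit 237)) (XT.nd (nat_lit 78) (nat_lit 0) (nat_lit 0) (XT.lf (nat_lit 152) (nat_lit 968278373) (nat_lit 0) (nat_lit 468752542) (nat_lit 76) (nat_lit 468752542) (nat_lit 110) (nat_lit 1) (nat_lit 108) (nat_lit 1) (nat_lit 109) (nat_lit 1) (nat_lit 419) (nat_lit 365) (nat_lit 236)) (XT.lf (nat_lit 0) (nat_lit 178246577) (nat_lit 0) (nat_lit 1530289918) (nat_lit 152) (nat_lit 178246577) (nat_lit 108) (nat_lit 3) (nat_lit 108) (nat_lit 1) (nat_lit 110) (nat_lit 1) (nat_lit 420) (nat_lit 365) (nat_lit 235)))))) (XT.nd (nat_lit 390) (nat_lit 380) (nat_lit 0) (XT.nd (nat_lit 156) (nat_lit 228) (nat_lit 0) (XT.nd (nat_lit 78) (nat_lit 76) (nat_lit 0) (XT.lf (nat_lit 76) (nat_lit 810138556) (nat_lit 0) (nat_lit 247549202)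 (nat_lit 152) (nat_lit 810138556) (nat_lit 107) (nat_lit 1) (nat_lit 106) (nat_lit 1) (nat_lit 108) (nat_lit 1) (nat_lit 421) (nat_lit 365) (nat_lit 234)) (XT.lf (nat_lit 152) (nat_lit 1016189252) (nat_lit 0) (nat_lit 416480562) (nat_lit 76) (nat_lit 416480562) (nat_lit 107) (nat_lit 1) (nat_lit 105) (nat_lit 1) (nat_lit 106) (nat_lit 1) (nat_lit 422) (nat_lit 365) (nat_lit 233))) (XT.nd (nat_lit 78) (nat_lit 228) (nat_lit 0) (XT.lf (nat_lit 0) (nat_lit 209817451) (nat_lit 0) (nat_lit 1411090448) (nat_lit 152) (nat_lit 209817451) (nat_lit 105) (nat_lit 3) (nat_lit 105) (nat_lit 1) (nat_lit 107) (nat_lit 1) (nat_lit 423) (nat_lit 365) (nat_lit 232)) (XT.nd (nat_lit 78) (nat_lit 76) (nat_lit 0) (XT.lf (nat_lit 76) (nat_lit 821194490) (nat_lit 0) (nat_lit 169995060) (nat_lit 152) (nat_lit 821194490) (nat_lit 104) (nat_lit 1) (nat_lit 103) (nat_lit 1) (nat_lit 105) (nat_lit 1) (nat_lit 424) (nat_lit 365)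 (nat_lit 231)) (XT.lf (nat_lit 152) (nat_lit 1054217064) (nat_lit 0) (nat_lit 370037585) (nat_lit 76) (nat_lit 370037585) (nat_lit 104) (nat_lit 1) (nat_lit 102) (nat_lit 1) (nat_lit 103) (nat_lit 1) (nat_lit 425) (nat_lit 365) (nat_lit 230))))) (XT.nd (nat_lit 156) (nat_lit 228) (nat_lit 0) (XT.nd (nat_lit 78) (nat_lit 152) (nat_lit 0) (XT.lf (nat_lit 0) (nat_lit 236369288) (nat_lit 0) (nat_lit 1303684787) (nat_lit 152) (nat_lit 236369288) (nat_lit 102) (nat_lit 3) (nat_lit 102) (nat_lit 1) (nat_lit 104) (nat_lit 1) (nat_lit 426) (nat_lit 365) (nat_lit 229)) (XT.lf (nat_lit 76) (nat_lit 828064237) (nat_lit 0) (nat_lit 102544040) (nat_lit 152) (nat_lit 828064237) (nat_lit 101) (nat_lit 1) (nat_lit 100) (nat_lit 1) (nat_lit 102) (nat_lit 1) (nat_lit 427) (nat_lit 365) (nat_lit 228))) (XT.nd (nat_lit 78) (nat_lit 152) (nat_lit 0) (XT.lf (nat_lit 152) (nat_lit 1083596145) (nat_lit 0) (nat_lit 328773602)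 (nat_lit 76) (nat_lit 328773602) (nat_lit 101) (nat_lit 1) (nat_lit 99) (nat_lit 1) (nat_lit 100) (nat_lit 1) (nat_lit 428) (nat_lit 365) (nat_lit 227)) (XT.nd (nat_lit 78) (nat_lit 152) (nat_lit 0) (XT.lf (nat_lit 0) (nat_lit 258505420) (nat_lit 0) (nat_lit 1206801416) (nat_lit 152) (nat_lit 258505420) (nat_lit 99) (nat_lit 3) (nat_lit 99) (nat_lit 1) (nat_lit 101) (nat_lit 1) (nat_lit 429) (nat_lit 365) (nat_lit 226)) (XT.lf (nat_lit 76) (nat_lit 831300630) (nat_lit 0) (nat_lit 44027140) (nat_lit 152) (nat_lit 831300630) (nat_lit 98) (nat_lit 1) (nat_lit 97) (nat_lit 1) (nat_lit 99) (nat_lit 1) (nat_lit 430) (nat_lit 365) (nat_lit 225))))))) (XT.nd (nat_lit 42354) (nat_lit 0) (nat_lit 20520) (XT.nd (nat_lit 41964) (nat_lit 0) (nat_lit 21356) (XT.nd (nat_lit 156) (nat_lit 228) (nat_lit 0) (XT.nd (nat_lit 78) (nat_lit 0) (nat_lit 0) (XT.lf (nat_lit 152) (nat_lit 1105419332) (nat_lit 0) (nat_lit 292111087)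 (nat_lit 76) (nat_lit 292111087) (nat_lit 98) (nat_lit 1) (nat_lit 96) (nat_lit 1) (nat_lit 97) (nat_lit 1) (nat_lit 431) (nat_lit 365) (nat_lit 224)) (XT.lf (nat_lit 0) (nat_lit 276760629) (nat_lit 0) (nat_lit 1119309339) (nat_lit 152) (nat_lit 276760629) (nat_lit 96) (nat_lit 3) (nat_lit 96) (nat_lit 1) (nat_lit 98) (nat_lit 1) (nat_lit 432) (nat_lit 365) (nat_lit 223))) (XT.nd (nat_lit 78) (nat_lit 152) (nat_lit 0) (XT.lf (nat_lit 76) (nat_lit 6724264) (nat_lit 0) (nat_lit 824732721) (nat_lit 76) (nat_lit 824732721) (nat_lit 96) (nat_lit 3) (nat_lit 95) (nat_lit 1) (nat_lit 96) (nat_lit 1) (nat_lit 433) (nat_lit 365) (nat_lit 222)) (XT.lf (nat_lit 152) (nat_lit 1120653859) (nat_lit 0) (nat_lit 259536917) (nat_lit 76) (nat_lit 259536917) (nat_lit 95) (nat_lit 1) (nat_lit 93) (nat_lit 1) (nat_lit 94) (nat_lit 1) (nat_lit 434) (nat_lit 365) (nat_lit 221)))) (XT.nd (nat_lit 156) (nat_lit 0) (nat_lit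 76) (XT.nd (nat_lit 78) (nat_lit 0) (nat_lit 0) (XT.lf (nat_lit 1292) (nat_lit 804326763) (nat_lit 0) (nat_lit 2767258133) (nat_lit 1292) (nat_lit 804326763) (nat_lit 391) (nat_lit 1) (nat_lit 374) (nat_lit 0) (nat_lit 391) (nat_lit 0) (nat_lit 288) (nat_lit 366) (nat_lit 366)) (XT.lf (nat_lit 1292) (nat_lit 3143323085) (nat_lit 76) (nat_lit 2740128151) (nat_lit 0) (nat_lit 2740128151) (nat_lit 391) (nat_lit 1) (nat_lit 375) (nat_lit 1) (nat_lit 374) (nat_lit 0) (nat_lit 289) (nat_lit 366) (nat_lit 365))) (XT.nd (nat_lit 78) (nat_lit 0) (nat_lit 0) (XT.lf (nat_lit 1292) (nat_lit 1520185989) (nat_lit 0) (nat_lit 5457792270) (nat_lit 1216) (nat_lit 1520185989) (nat_lit 392) (nat_lit 1) (nat_lit 375) (nat_lit 1) (nat_lit 391) (nat_lit 1) (nat_lit 290) (nat_lit 366) (nat_lit 364)) (XT.nd (nat_lit 78) (nat_lit 0) (nat_lit 76) (XT.lf (nat_lit 1292) (nat_lit 2886911682) (nat_lit 76) (nat_lit 2743965910) (nat_lit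 0) (nat_lit 2743965910) (nat_lit 392) (nat_lit 1) (nat_lit 376) (nat_lit 1) (nat_lit 375) (nat_lit 1) (nat_lit 291) (nat_lit 366) (nat_lit 363)) (XT.lf (nat_lit 1292) (nat_lit 1354668909) (nat_lit 0) (nat_lit 5544944279) (nat_lit 1216) (nat_lit 1354668909) (nat_lit 393) (nat_lit 1) (nat_lit 376) (nat_lit 1) (nat_lit 392) (nat_lit 1) (nat_lit 292) (nat_lit 366) (nat_lit 362)))))) (XT.nd (nat_lit 390) (nat_lit 988) (nat_lit 0) (XT.nd (nat_lit 156) (nat_lit 0) (nat_lit 76) (XT.nd (nat_lit 78) (nat_lit 0) (nat_lit 76) (XT.lf (nat_lit 1292) (nat_lit 2482573809) (nat_lit 76) (nat_lit 2826537507) (nat_lit 0) (nat_lit 2826537507) (nat_lit 393) (nat_lit 1) (nat_lit 377) (nat_lit 1) (nat_lit 376) (nat_lit 1) (nat_lit 293) (nat_lit 366) (nat_lit 361)) (XT.lf (nat_lit 1292) (nat_lit 1118917319) (nat_lit 0) (nat_lit 5781920331) (nat_lit 1216) (nat_lit 1118917319) (nat_lit 394) (nat_lit 1) (nat_lit 377) (nat_lit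 1) (nat_lit 393) (nat_lit 1) (nat_lit 294) (nat_lit 366) (nat_lit 360))) (XT.nd (nat_lit 78) (nat_lit 0) (nat_lit 76) (XT.lf (nat_lit 1292) (nat_lit 1943538301) (nat_lit 76) (nat_lit 2981023664) (nat_lit 0) (nat_lit 2981023664) (nat_lit 394) (nat_lit 1) (nat_lit 378) (nat_lit 1) (nat_lit 377) (nat_lit 1) (nat_lit 295) (nat_lit 366) (nat_lit 359)) (XT.nd (nat_lit 78) (nat_lit 0) (nat_lit 0) (XT.lf (nat_lit 1292) (nat_lit 819285373) (nat_lit 0) (nat_lit 6155610390) (nat_lit 1216) (nat_lit 819285373) (nat_lit 395) (nat_lit 1) (nat_lit 378) (nat_lit 1) (nat_lit 394) (nat_lit 1) (nat_lit 296) (nat_lit 366) (nat_lit 358)) (XT.lf (nat_lit 1292) (nat_lit 1282136622) (nat_lit 76) (nat_lit 3201063535) (nat_lit 0) (nat_lit 3201063535) (nat_lit 395) (nat_lit 1) (nat_lit 379) (nat_lit 1) (nat_lit 378) (nat_lit 1) (nat_lit 297) (nat_lit 366) (nat_lit 357))))) (XT.nd (nat_lit 156) (nat_lit 1216) (nat_lit 0) (XT.nd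 (nat_lit 78) (nat_lit 0) (nat_lit 0) (XT.lf (nat_lit 1292) (nat_lit 461694825) (nat_lit 0) (nat_lit 6653788337) (nat_lit 1216) (nat_lit 461694825) (nat_lit 396) (nat_lit 1) (nat_lit 379) (nat_lit 1) (nat_lit 395) (nat_lit 1) (nat_lit 298) (nat_lit 366) (nat_lit 356)) (XT.lf (nat_lit 1292) (nat_lit 509858403) (nat_lit 76) (nat_lit 3480726442) (nat_lit 0) (nat_lit 3480726442) (nat_lit 396) (nat_lit 1) (nat_lit 380) (nat_lit 1) (nat_lit 379) (nat_lit 1) (nat_lit 299) (nat_lit 366) (nat_lit 355))) (XT.nd (nat_lit 78) (nat_lit 1292) (nat_lit 0) (XT.lf (nat_lit 1292) (nat_lit 51661825) (nat_lit 0) (nat_lit 7265057401) (nat_lit 1216) (nat_lit 51661825) (nat_lit 397) (nat_lit 1) (nat_lit 380) (nat_lit 1) (nat_lit 396) (nat_lit 1) (nat_lit 300) (nat_lit 366) (nat_lit 354)) (XT.nd (nat_lit 78) (nat_lit 0) (nat_lit 0) (XT.lf (nat_lit 1368) (nat_lit 3455374448) (nat_lit 0) (nat_lit 355520775) (nat_lit 1292) (nat_lit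 3455374448) (nat_lit 381) (nat_lit 1) (nat_lit 363) (nat_lit 1) (nat_lit 380) (nat_lit 1) (nat_lit 301) (nat_lit 366) (nat_lit 353)) (XT.lf (nat_lit 1368) (nat_lit 6363571437) (nat_lit 76) (nat_lit 401700653) (nat_lit 0) (nat_lit 401700653) (nat_lit 381) (nat_lit 1) (nat_lit 364) (nat_lit 1) (nat_lit 363) (nat_lit 1) (nat_lit 302) (nat_lit 366) (nat_lit 352))))))))
noncomputable def ec143 : XT := (XT.nd (nat_lit 1482) (nat_lit 4484) (nat_lit 0) (XT.nd (nat_lit 702) (nat_lit 3344) (nat_lit 0) (XT.nd (nat_lit 312) (nat_lit 1216) (nat_lit 0) (XT.nd (nat_lit 156) (nat_lit 760) (nat_lit 0) (XT.nd (nat_lit 78) (nat_lit 0) (nat_lit 0) (XT.lf (nat_lit 1368) (nat_lit 2884662763) (nat_lit 0) (nat_lit 1299407316) (nat_lit 1292) (nat_lit 2884662763) (nat_lit 382) (nat_lit 1) (nat_lit 364) (nat_lit 1) (nat_lit 381) (nat_lit 1) (nat_lit 303) (nat_lit 366) (nat_lit 351)) (XT.lf (nat_lit 1368) (nat_lit 5179648461)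 (nat_lit 76) (nat_lit 896667394) (nat_lit 0) (nat_lit 896667394) (nat_lit 382) (nat_lit 1) (nat_lit 365) (nat_lit 1) (nat_lit 364) (nat_lit 1) (nat_lit 304) (nat_lit 366) (nat_lit 350))) (XT.nd (nat_lit 78) (nat_lit 836) (nat_lit 0) (XT.lf (nat_lit 76) (nat_lit 2277931404) (nat_lit 0) (nat_lit 2322665973) (nat_lit 1292) (nat_lit 2277931404) (nat_lit 366) (nat_lit 1) (nat_lit 365) (nat_lit 1) (nat_lit 382) (nat_lit 1) (nat_lit 305) (nat_lit 366) (nat_lit 349)) (XT.lf (nat_lit 912) (nat_lit 3927474434) (nat_lit 0) (nat_lit 1429343870) (nat_lit 836) (nat_lit 1429343870) (nat_lit 366) (nat_lit 1) (nat_lit 354) (nat_lit 1) (nat_lit 365) (nat_lit 1) (nat_lit 306) (nat_lit 366) (nat_lit 348)))) (XT.nd (nat_lit 156) (nat_lit 608) (nat_lit 0) (XT.nd (nat_lit 78) (nat_lit 608) (nat_lit 0) (XT.lf (nat_lit 76) (nat_lit 1639251374) (nat_lit 0) (nat_lit 3416850509) (nat_lit 912) (nat_lit 1639251374) (nat_lit 355)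 (nat_lit 1) (nat_lit 354) (nat_lit 1) (nat_lit 366) (nat_lit 1) (nat_lit 307) (nat_lit 366) (nat_lit 347)) (XT.lf (nat_lit 684) (nat_lit 2614934616) (nat_lit 0) (nat_lit 1995639479) (nat_lit 608) (nat_lit 1995639479) (nat_lit 355) (nat_lit 1) (nat_lit 346) (nat_lit 1) (nat_lit 354) (nat_lit 1) (nat_lit 308) (nat_lit 366) (nat_lit 346))) (XT.nd (nat_lit 78) (nat_lit 608) (nat_lit 0) (XT.lf (nat_lit 76) (nat_lit 972401635) (nat_lit 0) (nat_lit 4574112835) (nat_lit 684) (nat_lit 972401635) (nat_lit 347) (nat_lit 1) (nat_lit 346) (nat_lit 1) (nat_lit 355) (nat_lit 1) (nat_lit 309) (nat_lit 366) (nat_lit 345)) (XT.nd (nat_lit 78) (nat_lit 0) (nat_lit 0) (XT.lf (nat_lit 684) (nat_lit 1249346069) (nat_lit 0) (nat_lit 2591754533) (nat_lit 608) (nat_lit 2591754533) (nat_lit 347) (nat_lit 1) (nat_lit 338) (nat_lit 1) (nat_lit 346) (nat_lit 1) (nat_lit 310) (nat_lit 366) (nat_lit 344)) (XT.lf (nat_lit 76) (nat_lit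 280887569) (nat_lit 0) (nat_lit 5787165373) (nat_lit 684) (nat_lit 280887569) (nat_lit 339) (nat_lit 1) (nat_lit 338) (nat_lit 1) (nat_lit 347) (nat_lit 1) (nat_lit 311) (nat_lit 366) (nat_lit 343)))))) (XT.nd (nat_lit 390) (nat_lit 1596) (nat_lit 0) (XT.nd (nat_lit 156) (nat_lit 532) (nat_lit 0) (XT.nd (nat_lit 78) (nat_lit 608) (nat_lit 0) (XT.lf (nat_lit 76) (nat_lit 3053217664) (nat_lit 0) (nat_lit 159335282) (nat_lit 608) (nat_lit 3053217664) (nat_lit 331) (nat_lit 1) (nat_lit 330) (nat_lit 1) (nat_lit 338) (nat_lit 1) (nat_lit 312) (nat_lit 366) (nat_lit 342)) (XT.lf (nat_lit 684) (nat_lit 5329049557) (nat_lit 0) (nat_lit 427805958) (nat_lit 608) (nat_lit 427805958) (nat_lit 331) (nat_lit 1) (nat_lit 322) (nat_lit 1) (nat_lit 330) (nat_lit 1) (nat_lit 313) (nat_lit 366) (nat_lit 341))) (XT.nd (nat_lit 78) (nat_lit 532) (nat_lit 0) (XT.lf (nat_lit 76) (nat_lit 2260771612) (nat_lit 0) (nat_lit 1582834734)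 (nat_lit 684) (nat_lit 2260771612) (nat_lit 323) (nat_lit 1) (nat_lit 322) (nat_lit 1) (nat_lit 331) (nat_lit 1) (nat_lit 314) (nat_lit 366) (nat_lit 340)) (XT.nd (nat_lit 78) (nat_lit 0) (nat_lit 0) (XT.lf (nat_lit 608) (nat_lit 3722038506) (nat_lit 0) (nat_lit 1151971155) (nat_lit 532) (nat_lit 1151971155) (nat_lit 323) (nat_lit 1) (nat_lit 315) (nat_lit 1) (nat_lit 322) (nat_lit 1) (nat_lit 315) (nat_lit 366) (nat_lit 339)) (XT.lf (nat_lit 76) (nat_lit 1454484233) (nat_lit 0) (nat_lit 3039825266) (nat_lit 608) (nat_lit 1454484233) (nat_lit 316) (nat_lit 1) (nat_lit 315) (nat_lit 1) (nat_lit 323) (nat_lit 1) (nat_lit 316) (nat_lit 366) (nat_lit 338))))) (XT.nd (nat_lit 156) (nat_lit 1064) (nat_lit 0) (XT.nd (nat_lit 78) (nat_lit 0) (nat_lit 0) (XT.lf (nat_lit 608) (nat_lit 2089777869) (nat_lit 0) (nat_lit 1891604460) (nat_lit 532) (nat_lit 1891604460) (nat_lit 316) (nat_lit 1) (nat_lit 308) (nat_lit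 1) (nat_lit 315) (nat_lit 1) (nat_lit 317) (nat_lit 366) (nat_lit 337)) (XT.lf (nat_lit 76) (nat_lit 636878161) (nat_lit 0) (nat_lit 4525028846) (nat_lit 608) (nat_lit 636878161) (nat_lit 309) (nat_lit 1) (nat_lit 308) (nat_lit 1) (nat_lit 316) (nat_lit 1) (nat_lit 318) (nat_lit 366) (nat_lit 336))) (XT.nd (nat_lit 78) (nat_lit 608) (nat_lit 0) (XT.lf (nat_lit 532) (nat_lit 437139366) (nat_lit 0) (nat_lit 2644156634) (nat_lit 456) (nat_lit 2644156634) (nat_lit 309) (nat_lit 1) (nat_lit 302) (nat_lit 1) (nat_lit 308) (nat_lit 1) (nat_lit 319) (nat_lit 366) (nat_lit 335)) (XT.nd (nat_lit 78) (nat_lit 0) (nat_lit 0) (XT.lf (nat_lit 608) (nat_lit 5278191751) (nat_lit 0) (nat_lit 187859118) (nat_lit 532) (nat_lit 187859118) (nat_lit 302) (nat_lit 1) (nat_lit 294) (nat_lit 1) (nat_lit 301) (nat_lit 1) (nat_lit 320) (nat_lit 366) (nat_lit 334)) (XT.lf (nat_lit 76) (nat_lit 2187725366) (nat_lit 0) (nat_lit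 1207355870) (nat_lit 608) (nat_lit 2187725366) (nat_lit 295) (nat_lit 1) (nat_lit 294) (nat_lit 1) (nat_lit 302) (nat_lit 1) (nat_lit 321) (nat_lit 366) (nat_lit 333))))))) (XT.nd (nat_lit 702) (nat_lit 2280) (nat_lit 0) (XT.nd (nat_lit 312) (nat_lit 1292) (nat_lit 0) (XT.nd (nat_lit 156) (nat_lit 456) (nat_lit 0) (XT.nd (nat_lit 78) (nat_lit 0) (nat_lit 0) (XT.lf (nat_lit 532) (nat_lit 3487166317) (nat_lit 0) (nat_lit 1013131554) (nat_lit 456) (nat_lit 1013131554) (nat_lit 295) (nat_lit 1) (nat_lit 288) (nat_lit 1) (nat_lit 294) (nat_lit 1) (nat_lit 322) (nat_lit 366) (nat_lit 332)) (XT.lf (nat_lit 76) (nat_lit 1295113932) (nat_lit 0) (nat_lit 2854839457) (nat_lit 532) (nat_lit 1295113932) (nat_lit 289) (nat_lit 1) (nat_lit 288) (nat_lit 1) (nat_lit 295) (nat_lit 1) (nat_lit 323) (nat_lit 366) (nat_lit 331))) (XT.nd (nat_lit 78) (nat_lit 0) (nat_lit 0) (XT.lf (nat_lit 532) (nat_lit 1691425212) (nat_lit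 0) (nat_lit 1843227966) (nat_lit 456) (nat_lit 1843227966) (nat_lit 289) (nat_lit 1) (nat_lit 282) (nat_lit 1) (nat_lit 288) (nat_lit 1) (nat_lit 324) (nat_lit 366) (nat_lit 330)) (XT.lf (nat_lit 76) (nat_lit 401027246) (nat_lit 0) (nat_lit 4510109583) (nat_lit 532) (nat_lit 401027246) (nat_lit 283) (nat_lit 1) (nat_lit 282) (nat_lit 1) (nat_lit 289) (nat_lit 1) (nat_lit 325) (nat_lit 366) (nat_lit 329)))) (XT.nd (nat_lit 156) (nat_lit 380) (nat_lit 0) (XT.nd (nat_lit 78) (nat_lit 456) (nat_lit 0) (XT.lf (nat_lit 76) (nat_lit 2571737493) (nat_lit 0) (nat_lit 103567783) (nat_lit 456) (nat_lit 2571737493) (nat_lit 277) (nat_lit 1) (nat_lit 276) (nat_lit 1) (nat_lit 282) (nat_lit 1) (nat_lit 326) (nat_lit 366) (nat_lit 328)) (XT.lf (nat_lit 532) (nat_lit 4207172984) (nat_lit 0) (nat_lit 488082128) (nat_lit 456) (nat_lit 488082128) (nat_lit 277) (nat_lit 1) (nat_lit 270) (nat_lit 1) (nat_lit 276) (nat_lit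 1) (nat_lit 327) (nat_lit 366) (nat_lit 327))) (XT.nd (nat_lit 78) (nat_lit 380) (nat_lit 0) (XT.lf (nat_lit 76) (nat_lit 1628243368) (nat_lit 0) (nat_lit 1863787219) (nat_lit 532) (nat_lit 1628243368) (nat_lit 271) (nat_lit 1) (nat_lit 270) (nat_lit 1) (nat_lit 277) (nat_lit 1) (nat_lit 328) (nat_lit 366) (nat_lit 326)) (XT.nd (nat_lit 78) (nat_lit 0) (nat_lit 0) (XT.lf (nat_lit 456) (nat_lit 2315217955) (nat_lit 0) (nat_lit 1371648651) (nat_lit 380) (nat_lit 1371648651) (nat_lit 271) (nat_lit 1) (nat_lit 265) (nat_lit 1) (nat_lit 270) (nat_lit 1) (nat_lit 329) (nat_lit 366) (nat_lit 325)) (XT.lf (nat_lit 76) (nat_lit 689220909) (nat_lit 0) (nat_lit 3619445879) (nat_lit 456) (nat_lit 689220909) (nat_lit 266) (nat_lit 1) (nat_lit 265) (nat_lit 1) (nat_lit 271) (nat_lit 1) (nat_lit 330) (nat_lit 366) (nat_lit 324)))))) (XT.nd (nat_lit 390) (nat_lit 1064) (nat_lit 0) (XT.nd (nat_lit 156) (nat_lit 380)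 (nat_lit 0) (XT.nd (nat_lit 78) (nat_lit 456) (nat_lit 0) (XT.lf (nat_lit 456) (nat_lit 433465662) (nat_lit 0) (nat_lit 2252263396) (nat_lit 380) (nat_lit 2252263396) (nat_lit 266) (nat_lit 1) (nat_lit 260) (nat_lit 1) (nat_lit 265) (nat_lit 1) (nat_lit 331) (nat_lit 366) (nat_lit 323)) (XT.lf (nat_lit 456) (nat_lit 4395942079) (nat_lit 0) (nat_lit 241745805) (nat_lit 380) (nat_lit 241745805) (nat_lit 260) (nat_lit 1) (nat_lit 254) (nat_lit 1) (nat_lit 259) (nat_lit 1) (nat_lit 332) (nat_lit 366) (nat_lit 322))) (XT.nd (nat_lit 78) (nat_lit 380) (nat_lit 0) (XT.lf (nat_lit 76) (nat_lit 1706702851) (nat_lit 0) (nat_lit 1407785762) (nat_lit 456) (nat_lit 1706702851) (nat_lit 255) (nat_lit 1) (nat_lit 254) (nat_lit 1) (nat_lit 260) (nat_lit 1) (nat_lit 333) (nat_lit 366) (nat_lit 321)) (XT.nd (nat_lit 78) (nat_lit 0) (nat_lit 0) (XT.lf (nat_lit 456) (nat_lit 2445685068) (nat_lit 0) (nat_lit 1159279275)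 (nat_lit 380) (nat_lit 1159279275) (nat_lit 255) (nat_lit 1) (nat_lit 249) (nat_lit 1) (nat_lit 254) (nat_lit 1) (nat_lit 334) (nat_lit 366) (nat_lit 320)) (XT.lf (nat_lit 76) (nat_lit 740967884) (nat_lit 0) (nat_lit 3226313398) (nat_lit 456) (nat_lit 740967884) (nat_lit 250) (nat_lit 1) (nat_lit 249) (nat_lit 1) (nat_lit 255) (nat_lit 1) (nat_lit 335) (nat_lit 366) (nat_lit 319))))) (XT.nd (nat_lit 156) (nat_lit 304) (nat_lit 0) (XT.nd (nat_lit 78) (nat_lit 456) (nat_lit 0) (XT.lf (nat_lit 380) (nat_lit 514626314) (nat_lit 0) (nat_lit 2069169015) (nat_lit 304) (nat_lit 2069169015) (nat_lit 250) (nat_lit 1) (nat_lit 245) (nat_lit 1) (nat_lit 249) (nat_lit 1) (nat_lit 336) (nat_lit 366) (nat_lit 318)) (XT.lf (nat_lit 456) (nat_lit 4173499741) (nat_lit 0) (nat_lit 212696290) (nat_lit 380) (nat_lit 212696290) (nat_lit 245) (nat_lit 1) (nat_lit 239) (nat_lit 1) (nat_lit 244) (nat_lit 1) (nat_lit 337) (nat_lit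 366) (nat_lit 317))) (XT.nd (nat_lit 78) (nat_lit 304) (nat_lit 0) (XT.lf (nat_lit 76) (nat_lit 1588323393) (nat_lit 0) (nat_lit 1368400797) (nat_lit 456) (nat_lit 1588323393) (nat_lit 240) (nat_lit 1) (nat_lit 239) (nat_lit 1) (nat_lit 245) (nat_lit 1) (nat_lit 338) (nat_lit 366) (nat_lit 316)) (XT.nd (nat_lit 78) (nat_lit 0) (nat_lit 0) (XT.lf (nat_lit 380) (nat_lit 2195412689) (nat_lit 0) (nat_lit 1148483850) (nat_lit 304) (nat_lit 1148483850) (nat_lit 240) (nat_lit 1) (nat_lit 235) (nat_lit 1) (nat_lit 239) (nat_lit 1) (nat_lit 339) (nat_lit 366) (nat_lit 315)) (XT.lf (nat_lit 76) (nat_lit 610510733) (nat_lit 0) (nat_lit 3219592614) (nat_lit 380) (nat_lit 610510733) (nat_lit 236) (nat_lit 1) (nat_lit 235) (nat_lit 1) (nat_lit 240) (nat_lit 1) (nat_lit 340) (nat_lit 366) (nat_lit 314))))))))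
noncomputable def ec144 : XT := (XT.nd (nat_lit 1404) (nat_lit 2432) (nat_lit 0) (XT.nd (nat_lit 702) (nat_lit 1672) (nat_lit 0) (XT.nd (nat_lit 312) (nat_lit 836) (nat_lit 0) (XT.nd (nat_lit 156) (nat_lit 304) (nat_lit 0) (XT.nd (nat_lit 78) (nat_lit 380) (nat_lit 0) (XT.lf (nat_lit 380) (nat_lit 243445937) (nat_lit 0) (nat_lit 2072995117) (nat_lit 304) (nat_lit 2072995117) (nat_lit 236) (nat_lit 1) (nat_lit 231) (nat_lit 1) (nat_lit 235) (nat_lit 1) (nat_lit 341) (nat_lit 366) (nat_lit 313)) (XT.lf (nat_lit 380) (nat_lit 3638143190) (nat_lit 0) (nat_lit 350562520) (nat_lit 304) (nat_lit 350562520) (nat_lit 231) (nat_lit 1) (nat_lit 226) (nat_lit 1) (nat_lit 230) (nat_lit 1) (nat_lit 342) (nat_lit 366) (nat_lit 312))) (XT.nd (nat_lit 78) (nat_lit 304) (nat_lit 0) (XT.lf (nat_lit 76) (nat_lit 1320450006) (nat_lit 0) (nat_lit 1648544160) (nat_lit 380) (nat_lit 1320450006) (nat_lit 227) (nat_lit 1) (nat_lit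 226) (nat_lit 1) (nat_lit 231) (nat_lit 1) (nat_lit 343) (nat_lit 366) (nat_lit 311)) (XT.lf (nat_lit 380) (nat_lit 1656540555) (nat_lit 0) (nat_lit 1292030000) (nat_lit 304) (nat_lit 1292030000) (nat_lit 227) (nat_lit 1) (nat_lit 222) (nat_lit 1) (nat_lit 226) (nat_lit 1) (nat_lit 344) (nat_lit 366) (nat_lit 310)))) (XT.nd (nat_lit 156) (nat_lit 532) (nat_lit 0) (XT.nd (nat_lit 78) (nat_lit 304) (nat_lit 0) (XT.lf (nat_lit 76) (nat_lit 342225185) (nat_lit 0) (nat_lit 3508251488) (nat_lit 380) (nat_lit 342225185) (nat_lit 223) (nat_lit 1) (nat_lit 222) (nat_lit 1) (nat_lit 227) (nat_lit 1) (nat_lit 345) (nat_lit 366) (nat_lit 309)) (XT.lf (nat_lit 76) (nat_lit 1928561104) (nat_lit 0) (nat_lit 287989573) (nat_lit 304) (nat_lit 1928561104) (nat_lit 219) (nat_lit 1) (nat_lit 218) (nat_lit 1) (nat_lit 222) (nat_lit 1) (nat_lit 346) (nat_lit 366) (nat_lit 308))) (XT.nd (nat_lit 78) (nat_lit 228) (nat_lit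 0) (XT.lf (nat_lit 380) (nat_lit 2870108025) (nat_lit 0) (nat_lit 614166181) (nat_lit 304) (nat_lit 614166181) (nat_lit 219) (nat_lit 1) (nat_lit 214) (nat_lit 1) (nat_lit 218) (nat_lit 1) (nat_lit 347) (nat_lit 366) (nat_lit 307)) (XT.nd (nat_lit 78) (nat_lit 228) (nat_lit 0) (XT.lf (nat_lit 76) (nat_lit 941712458) (nat_lit 0) (nat_lit 2168875761) (nat_lit 380) (nat_lit 941712458) (nat_lit 215) (nat_lit 1) (nat_lit 214) (nat_lit 1) (nat_lit 219) (nat_lit 1) (nat_lit 348) (nat_lit 366) (nat_lit 306)) (XT.lf (nat_lit 304) (nat_lit 904216664) (nat_lit 0) (nat_lit 1551334427) (nat_lit 228) (nat_lit 1551334427) (nat_lit 215) (nat_lit 1) (nat_lit 211) (nat_lit 1) (nat_lit 214) (nat_lit 1) (nat_lit 349) (nat_lit 366) (nat_lit 305)))))) (XT.nd (nat_lit 312) (nat_lit 1064) (nat_lit 0) (XT.nd (nat_lit 156) (nat_lit 228) (nat_lit 0) (XT.nd (nat_lit 78) (nat_lit 0) (nat_lit 0) (XT.lf (nat_lit 380) (nat_lit 3907620018)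 (nat_lit 0) (nat_lit 27440115) (nat_lit 304) (nat_lit 27440115) (nat_lit 211) (nat_lit 1) (nat_lit 206) (nat_lit 1) (nat_lit 210) (nat_lit 1) (nat_lit 350) (nat_lit 366) (nat_lit 304)) (XT.lf (nat_lit 76) (nat_lit 1455776812) (nat_lit 0) (nat_lit 1006474094) (nat_lit 380) (nat_lit 1455776812) (nat_lit 207) (nat_lit 1) (nat_lit 206) (nat_lit 1) (nat_lit 211) (nat_lit 1) (nat_lit 351) (nat_lit 366) (nat_lit 303))) (XT.nd (nat_lit 78) (nat_lit 0) (nat_lit 0) (XT.lf (nat_lit 304) (nat_lit 1934631479) (nat_lit 0) (nat_lit 969965812) (nat_lit 228) (nat_lit 969965812) (nat_lit 207) (nat_lit 1) (nat_lit 203) (nat_lit 1) (nat_lit 206) (nat_lit 1) (nat_lit 352) (nat_lit 366) (nat_lit 302)) (XT.lf (nat_lit 76) (nat_lit 483504305) (nat_lit 0) (nat_lit 2864797932) (nat_lit 304) (nat_lit 483504305) (nat_lit 204) (nat_lit 1) (nat_lit 203) (nat_lit 1) (nat_lit 207) (nat_lit 1) (nat_lit 353) (nat_lit 366) (nat_lit 301))))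 (XT.nd (nat_lit 156) (nat_lit 532) (nat_lit 0) (XT.nd (nat_lit 78) (nat_lit 228) (nat_lit 0) (XT.lf (nat_lit 76) (nat_lit 1894484948) (nat_lit 0) (nat_lit 507226) (nat_lit 304) (nat_lit 1894484948) (nat_lit 200) (nat_lit 1) (nat_lit 199) (nat_lit 1) (nat_lit 203) (nat_lit 1) (nat_lit 354) (nat_lit 366) (nat_lit 300)) (XT.lf (nat_lit 304) (nat_lit 2817192763) (nat_lit 0) (nat_lit 465321736) (nat_lit 228) (nat_lit 465321736) (nat_lit 200) (nat_lit 1) (nat_lit 196) (nat_lit 1) (nat_lit 199) (nat_lit 1) (nat_lit 355) (nat_lit 366) (nat_lit 299))) (XT.nd (nat_lit 78) (nat_lit 532) (nat_lit 0) (XT.lf (nat_lit 76) (nat_lit 922913410) (nat_lit 0) (nat_lit 1860768953) (nat_lit 304) (nat_lit 922913410) (nat_lit 197) (nat_lit 1) (nat_lit 196) (nat_lit 1) (nat_lit 200) (nat_lit 1) (nat_lit 356) (nat_lit 366) (nat_lit 298)) (XT.nd (nat_lit 78) (nat_lit 304) (nat_lit 0) (XT.lf (nat_lit 304) (nat_lit 884510257) (nat_lit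 0) (nat_lit 1390757444) (nat_lit 228) (nat_lit 1390757444) (nat_lit 197) (nat_lit 1) (nat_lit 193) (nat_lit 1) (nat_lit 196) (nat_lit 1) (nat_lit 357) (nat_lit 366) (nat_lit 297)) (XT.lf (nat_lit 304) (nat_lit 3569347779) (nat_lit 0) (nat_lit 28499982) (nat_lit 228) (nat_lit 28499982) (nat_lit 193) (nat_lit 1) (nat_lit 189) (nat_lit 1) (nat_lit 192) (nat_lit 1) (nat_lit 358) (nat_lit 366) (nat_lit 296))))))) (XT.nd (nat_lit 702) (nat_lit 1292) (nat_lit 0) (XT.nd (nat_lit 312) (nat_lit 684) (nat_lit 0) (XT.nd (nat_lit 156) (nat_lit 228) (nat_lit 0) (XT.nd (nat_lit 78) (nat_lit 228) (nat_lit 0) (XT.lf (nat_lit 76) (nat_lit 1298953988) (nat_lit 0) (nat_lit 988641051) (nat_lit 304) (nat_lit 1298953988) (nat_lit 190) (nat_lit 1) (nat_lit 189) (nat_lit 1) (nat_lit 193) (nat_lit 1) (nat_lit 359) (nat_lit 366) (nat_lit 295)) (XT.lf (nat_lit 304) (nat_lit 1645069977) (nat_lit 0) (nat_lit 951278606) (nat_lit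 228) (nat_lit 951278606) (nat_lit 190) (nat_lit 1) (nat_lit 186) (nat_lit 1) (nat_lit 189) (nat_lit 1) (nat_lit 360) (nat_lit 366) (nat_lit 294))) (XT.nd (nat_lit 78) (nat_lit 228) (nat_lit 0) (XT.lf (nat_lit 76) (nat_lit 351848360) (nat_lit 0) (nat_lit 2805667875) (nat_lit 304) (nat_lit 351848360) (nat_lit 187) (nat_lit 1) (nat_lit 186) (nat_lit 1) (nat_lit 190) (nat_lit 1) (nat_lit 361) (nat_lit 366) (nat_lit 293)) (XT.lf (nat_lit 76) (nat_lit 1619110955) (nat_lit 0) (nat_lit 233124805) (nat_lit 228) (nat_lit 1619110955) (nat_lit 184) (nat_lit 1) (nat_lit 183) (nat_lit 1) (nat_lit 186) (nat_lit 1) (nat_lit 362) (nat_lit 366) (nat_lit 292)))) (XT.nd (nat_lit 156) (nat_lit 456) (nat_lit 0) (XT.nd (nat_lit 78) (nat_lit 0) (nat_lit 0) (XT.lf (nat_lit 304) (nat_lit 2295792367) (nat_lit 0) (nat_lit 569090595) (nat_lit 228) (nat_lit 569090595) (nat_lit 184) (nat_lit 1) (nat_lit 180) (nat_lit 1) (nat_lit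 183) (nat_lit 1) (nat_lit 363) (nat_lit 366) (nat_lit 291)) (XT.lf (nat_lit 76) (nat_lit 679040804) (nat_lit 0) (nat_lit 2038945269) (nat_lit 304) (nat_lit 679040804) (nat_lit 181) (nat_lit 1) (nat_lit 180) (nat_lit 1) (nat_lit 184) (nat_lit 1) (nat_lit 364) (nat_lit 366) (nat_lit 290))) (XT.nd (nat_lit 78) (nat_lit 304) (nat_lit 0) (XT.lf (nat_lit 228) (nat_lit 427693156) (nat_lit 0) (nat_lit 1466440469) (nat_lit 152) (nat_lit 1466440469) (nat_lit 181) (nat_lit 1) (nat_lit 178) (nat_lit 1) (nat_lit 180) (nat_lit 1) (nat_lit 365) (nat_lit 366) (nat_lit 289)) (XT.nd (nat_lit 78) (nat_lit 0) (nat_lit 0) (XT.lf (nat_lit 304) (nat_lit 2849654598) (nat_lit 0) (nat_lit 237563481) (nat_lit 228) (nat_lit 237563481) (nat_lit 178) (nat_lit 1) (nat_lit 174) (nat_lit 1) (nat_lit 177) (nat_lit 1) (nat_lit 366) (nat_lit 366) (nat_lit 288)) (XT.lf (nat_lit 76) (nat_lit 959074391) (nat_lit 0) (nat_lit 1370941221) (nat_lit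 304) (nat_lit 959074391) (nat_lit 175) (nat_lit 1) (nat_lit 174) (nat_lit 1) (nat_lit 178) (nat_lit 1) (nat_lit 367) (nat_lit 366) (nat_lit 287)))))) (XT.nd (nat_lit 390) (nat_lit 760) (nat_lit 0) (XT.nd (nat_lit 156) (nat_lit 380) (nat_lit 0) (XT.nd (nat_lit 78) (nat_lit 0) (nat_lit 0) (XT.lf (nat_lit 228) (nat_lit 1000333604) (nat_lit 0) (nat_lit 1126856464) (nat_lit 152) (nat_lit 1126856464) (nat_lit 175) (nat_lit 1) (nat_lit 172) (nat_lit 1) (nat_lit 174) (nat_lit 1) (nat_lit 368) (nat_lit 366) (nat_lit 286)) (XT.lf (nat_lit 76) (nat_lit 49673306) (nat_lit 0) (nat_lit 3120388659) (nat_lit 228) (nat_lit 49673306) (nat_lit 173) (nat_lit 1) (nat_lit 172) (nat_lit 1) (nat_lit 175) (nat_lit 1) (nat_lit 369) (nat_lit 366) (nat_lit 285))) (XT.nd (nat_lit 78) (nat_lit 152) (nat_lit 0) (XT.lf (nat_lit 76) (nat_lit 1197518797) (nat_lit 0) (nat_lit 790262313) (nat_lit 228) (nat_lit 1197518797) (nat_lit 170)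 (nat_lit 1) (nat_lit 169) (nat_lit 1) (nat_lit 172) (nat_lit 1) (nat_lit 370) (nat_lit 366) (nat_lit 284)) (XT.nd (nat_lit 78) (nat_lit 0) (nat_lit 0) (XT.lf (nat_lit 228) (nat_lit 1491049251) (nat_lit 0) (nat_lit 830268346) (nat_lit 152) (nat_lit 830268346) (nat_lit 170) (nat_lit 1) (nat_lit 167) (nat_lit 1) (nat_lit 169) (nat_lit 1) (nat_lit 371) (nat_lit 366) (nat_lit 283)) (XT.lf (nat_lit 76) (nat_lit 299313900) (nat_lit 0) (nat_lit 2519796152) (nat_lit 228) (nat_lit 299313900) (nat_lit 168) (nat_lit 1) (nat_lit 167) (nat_lit 1) (nat_lit 170) (nat_lit 1) (nat_lit 372) (nat_lit 366) (nat_lit 282))))) (XT.nd (nat_lit 156) (nat_lit 380) (nat_lit 0) (XT.nd (nat_lit 78) (nat_lit 152) (nat_lit 0) (XT.lf (nat_lit 76) (nat_lit 1399313555) (nat_lit 0) (nat_lit 286796854) (nat_lit 228) (nat_lit 1399313555) (nat_lit 165) (nat_lit 1) (nat_lit 164) (nat_lit 1) (nat_lit 167) (nat_lit 1) (nat_lit 373) (nat_lit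 366) (nat_lit 281)) (XT.lf (nat_lit 228) (nat_lit 1909502025) (nat_lit 0) (nat_lit 571732159) (nat_lit 152) (nat_lit 571732159) (nat_lit 165) (nat_lit 1) (nat_lit 162) (nat_lit 1) (nat_lit 164) (nat_lit 1) (nat_lit 374) (nat_lit 366) (nat_lit 280))) (XT.nd (nat_lit 78) (nat_lit 380) (nat_lit 0) (XT.lf (nat_lit 76) (nat_lit 513683913) (nat_lit 0) (nat_lit 1993535607) (nat_lit 228) (nat_lit 513683913) (nat_lit 163) (nat_lit 1) (nat_lit 162) (nat_lit 1) (nat_lit 165) (nat_lit 1) (nat_lit 375) (nat_lit 366) (nat_lit 279)) (XT.nd (nat_lit 78) (nat_lit 228) (nat_lit 0) (XT.lf (nat_lit 228) (nat_lit 151382391) (nat_lit 0) (nat_lit 1418911373) (nat_lit 152) (nat_lit 1418911373) (nat_lit 163) (nat_lit 1) (nat_lit 160) (nat_lit 1) (nat_lit 162) (nat_lit 1) (nat_lit 376) (nat_lit 366) (nat_lit 278)) (XT.lf (nat_lit 228) (nat_lit 2264261097) (nat_lit 0) (nat_lit 346859616) (nat_lit 152) (nat_lit 346859616) (nat_lit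 160) (nat_lit 1) (nat_lit 157) (nat_lit 1) (nat_lit 159) (nat_lit 1) (nat_lit 377) (nat_lit 366) (nat_lit 277))))))))
noncomputable def ec145 : XT := (XT.nd (nat_lit 1482) (nat_lit 1672) (nat_lit 0) (XT.nd (nat_lit 702) (nat_lit 988) (nat_lit 0) (XT.nd (nat_lit 312) (nat_lit 456) (nat_lit 0) (XT.nd (nat_lit 156) (nat_lit 228) (nat_lit 0) (XT.nd (nat_lit 78) (nat_lit 152) (nat_lit 0) (XT.lf (nat_lit 76) (nat_lit 696932950) (nat_lit 0) (nat_lit 1533103734) (nat_lit 228) (nat_lit 696932950) (nat_lit 158) (nat_lit 1) (nat_lit 157) (nat_lit 1) (nat_lit 160) (nat_lit 1) (nat_lit 378) (nat_lit 366) (nat_lit 276)) (XT.lf (nat_lit 228) (nat_lit 533791590) (nat_lit 0) (nat_lit 1181316396) (nat_lit 152) (nat_lit 1181316396) (nat_lit 158) (nat_lit 1) (nat_lit 155) (nat_lit 1) (nat_lit 157) (nat_lit 1) (nat_lit 379) (nat_lit 366) (nat_lit 275))) (XT.nd (nat_lit 78) (nat_lit 0) (nat_lit 0) (XT.lf (nat_lit 228) (nat_lit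 2562925181) (nat_lit 0) (nat_lit 151756003) (nat_lit 152) (nat_lit 151756003) (nat_lit 155) (nat_lit 1) (nat_lit 152) (nat_lit 1) (nat_lit 154) (nat_lit 1) (nat_lit 380) (nat_lit 366) (nat_lit 274)) (XT.lf (nat_lit 76) (nat_lit 852741575) (nat_lit 0) (nat_lit 1130951712) (nat_lit 228) (nat_lit 852741575) (nat_lit 153) (nat_lit 1) (nat_lit 152) (nat_lit 1) (nat_lit 155) (nat_lit 1) (nat_lit 381) (nat_lit 366) (nat_lit 273)))) (XT.nd (nat_lit 156) (nat_lit 304) (nat_lit 0) (XT.nd (nat_lit 78) (nat_lit 0) (nat_lit 0) (XT.lf (nat_lit 228) (nat_lit 861927397) (nat_lit 0) (nat_lit 972528025) (nat_lit 152) (nat_lit 972528025) (nat_lit 153) (nat_lit 1) (nat_lit 150) (nat_lit 1) (nat_lit 152) (nat_lit 1) (nat_lit 382) (nat_lit 366) (nat_lit 272)) (XT.lf (nat_lit 76) (nat_lit 17203647) (nat_lit 0) (nat_lit 2743733985) (nat_lit 228) (nat_lit 17203647) (nat_lit 151) (nat_lit 1) (nat_lit 150) (nat_lit 1) (nat_lit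 153) (nat_lit 1) (nat_lit 383) (nat_lit 366) (nat_lit 271))) (XT.nd (nat_lit 78) (nat_lit 152) (nat_lit 0) (XT.lf (nat_lit 76) (nat_lit 984373801) (nat_lit 0) (nat_lit 780378570) (nat_lit 152) (nat_lit 984373801) (nat_lit 149) (nat_lit 1) (nat_lit 148) (nat_lit 1) (nat_lit 150) (nat_lit 1) (nat_lit 384) (nat_lit 366) (nat_lit 270)) (XT.nd (nat_lit 78) (nat_lit 0) (nat_lit 0) (XT.lf (nat_lit 228) (nat_lit 1142180728) (nat_lit 0) (nat_lit 789266619) (nat_lit 152) (nat_lit 789266619) (nat_lit 149) (nat_lit 1) (nat_lit 146) (nat_lit 1) (nat_lit 148) (nat_lit 1) (nat_lit 385) (nat_lit 366) (nat_lit 269)) (XT.lf (nat_lit 76) (nat_lit 164189948) (nat_lit 0) (nat_lit 2364420024) (nat_lit 228) (nat_lit 164189948) (nat_lit 147) (nat_lit 1) (nat_lit 146) (nat_lit 1) (nat_lit 149) (nat_lit 1) (nat_lit 386) (nat_lit 366) (nat_lit 268)))))) (XT.nd (nat_lit 390) (nat_lit 380) (nat_lit 0) (XT.nd (nat_lit 156) (nat_lit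 304) (nat_lit 0) (XT.nd (nat_lit 78) (nat_lit 152) (nat_lit 0) (XT.lf (nat_lit 76) (nat_lit 1094723720) (nat_lit 0) (nat_lit 475436468) (nat_lit 152) (nat_lit 1094723720) (nat_lit 145) (nat_lit 1) (nat_lit 144) (nat_lit 1) (nat_lit 146) (nat_lit 1) (nat_lit 387) (nat_lit 366) (nat_lit 267)) (XT.lf (nat_lit 228) (nat_lit 1380219968) (nat_lit 0) (nat_lit 628620222) (nat_lit 152) (nat_lit 628620222) (nat_lit 145) (nat_lit 1) (nat_lit 142) (nat_lit 1) (nat_lit 144) (nat_lit 1) (nat_lit 388) (nat_lit 366) (nat_lit 266))) (XT.nd (nat_lit 78) (nat_lit 304) (nat_lit 0) (XT.lf (nat_lit 76) (nat_lit 290448342) (nat_lit 0) (nat_lit 2029540951) (nat_lit 228) (nat_lit 290448342) (nat_lit 143) (nat_lit 1) (nat_lit 142) (nat_lit 1) (nat_lit 145) (nat_lit 1) (nat_lit 389) (nat_lit 366) (nat_lit 265)) (XT.nd (nat_lit 78) (nat_lit 152) (nat_lit 0) (XT.lf (nat_lit 76) (nat_lit 1186356920) (nat_lit 0) (nat_lit 210846538)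 (nat_lit 152) (nat_lit 1186356920) (nat_lit 141) (nat_lit 1) (nat_lit 140) (nat_lit 1) (nat_lit 142) (nat_lit 1) (nat_lit 390) (nat_lit 366) (nat_lit 264)) (XT.lf (nat_lit 228) (nat_lit 1581071822) (nat_lit 0) (nat_lit 488003502) (nat_lit 152) (nat_lit 488003502) (nat_lit 141) (nat_lit 1) (nat_lit 138) (nat_lit 1) (nat_lit 140) (nat_lit 1) (nat_lit 391) (nat_lit 366) (nat_lit 263))))) (XT.nd (nat_lit 156) (nat_lit 304) (nat_lit 0) (XT.nd (nat_lit 78) (nat_lit 76) (nat_lit 0) (XT.lf (nat_lit 76) (nat_lit 398416580) (nat_lit 0) (nat_lit 1734079474) (nat_lit 228) (nat_lit 398416580) (nat_lit 139) (nat_lit 1) (nat_lit 138) (nat_lit 1) (nat_lit 141) (nat_lit 1) (nat_lit 392) (nat_lit 366) (nat_lit 262)) (XT.lf (nat_lit 152) (nat_lit 18435624) (nat_lit 0) (nat_lit 1243288886) (nat_lit 76) (nat_lit 1243288886) (nat_lit 139) (nat_lit 1) (nat_lit 137) (nat_lit 1) (nat_lit 138) (nat_lit 1) (nat_lit 393) (nat_lit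 366) (nat_lit 261))) (XT.nd (nat_lit 78) (nat_lit 76) (nat_lit 0) (XT.lf (nat_lit 228) (nat_lit 1749193153) (nat_lit 0) (nat_lit 365121273) (nat_lit 152) (nat_lit 365121273) (nat_lit 137) (nat_lit 1) (nat_lit 134) (nat_lit 1) (nat_lit 136) (nat_lit 1) (nat_lit 394) (nat_lit 366) (nat_lit 260)) (XT.nd (nat_lit 78) (nat_lit 76) (nat_lit 0) (XT.lf (nat_lit 76) (nat_lit 490256894) (nat_lit 0) (nat_lit 1473579605) (nat_lit 228) (nat_lit 490256894) (nat_lit 135) (nat_lit 1) (nat_lit 134) (nat_lit 1) (nat_lit 137) (nat_lit 1) (nat_lit 395) (nat_lit 366) (nat_lit 259)) (XT.lf (nat_lit 152) (nat_lit 219776283) (nat_lit 0) (nat_lit 1104646072) (nat_lit 76) (nat_lit 1104646072) (nat_lit 135) (nat_lit 1) (nat_lit 133) (nat_lit 1) (nat_lit 134) (nat_lit 1) (nat_lit 396) (nat_lit 366) (nat_lit 258))))))) (XT.nd (nat_lit 702) (nat_lit 760) (nat_lit 0) (XT.nd (nat_lit 312) (nat_lit 380) (nat_lit 0) (XT.nd (nat_lit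 156) (nat_lit 304) (nat_lit 0) (XT.nd (nat_lit 78) (nat_lit 0) (nat_lit 0) (XT.lf (nat_lit 228) (nat_lit 1888534798) (nat_lit 0) (nat_lit 257936087) (nat_lit 152) (nat_lit 257936087) (nat_lit 133) (nat_lit 1) (nat_lit 130) (nat_lit 1) (nat_lit 132) (nat_lit 1) (nat_lit 397) (nat_lit 366) (nat_lit 257)) (XT.lf (nat_lit 76) (nat_lit 567886825) (nat_lit 0) (nat_lit 1244084016) (nat_lit 228) (nat_lit 567886825) (nat_lit 131) (nat_lit 1) (nat_lit 130) (nat_lit 1) (nat_lit 133) (nat_lit 1) (nat_lit 398) (nat_lit 366) (nat_lit 256))) (XT.nd (nat_lit 78) (nat_lit 228) (nat_lit 0) (XT.lf (nat_lit 152) (nat_lit 392740683) (nat_lit 0) (nat_lit 981463728) (nat_lit 76) (nat_lit 981463728) (nat_lit 131) (nat_lit 1) (nat_lit 129) (nat_lit 1) (nat_lit 130) (nat_lit 1) (nat_lit 399) (nat_lit 366) (nat_lit 255)) (XT.lf (nat_lit 228) (nat_lit 2002598259) (nat_lit 0) (nat_lit 164639441) (nat_lit 152) (nat_lit 164639441)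 (nat_lit 129) (nat_lit 1) (nat_lit 126) (nat_lit 1) (nat_lit 128) (nat_lit 1) (nat_lit 400) (nat_lit 366) (nat_lit 254)))) (XT.nd (nat_lit 156) (nat_lit 304) (nat_lit 0) (XT.nd (nat_lit 78) (nat_lit 76) (nat_lit 0) (XT.lf (nat_lit 76) (nat_lit 633006618) (nat_lit 0) (nat_lit 1042078382) (nat_lit 228) (nat_lit 633006618) (nat_lit 127) (nat_lit 1) (nat_lit 126) (nat_lit 1) (nat_lit 129) (nat_lit 1) (nat_lit 401) (nat_lit 366) (nat_lit 253)) (XT.lf (nat_lit 152) (nat_lit 540665691) (nat_lit 0) (nat_lit 872017810) (nat_lit 76) (nat_lit 872017810) (nat_lit 127) (nat_lit 1) (nat_lit 125) (nat_lit 1) (nat_lit 126) (nat_lit 1) (nat_lit 402) (nat_lit 366) (nat_lit 252))) (XT.nd (nat_lit 78) (nat_lit 76) (nat_lit 0) (XT.lf (nat_lit 228) (nat_lit 2094486062) (nat_lit 0) (nat_lit 83626193) (nat_lit 152) (nat_lit 83626193) (nat_lit 125) (nat_lit 1) (nat_lit 122) (nat_lit 1) (nat_lit 124) (nat_lit 1) (nat_lit 403)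 (nat_lit 366) (nat_lit 251)) (XT.nd (nat_lit 78) (nat_lit 76) (nat_lit 0) (XT.lf (nat_lit 76) (nat_lit 687123549) (nat_lit 0) (nat_lit 864441930) (nat_lit 228) (nat_lit 687123549) (nat_lit 123) (nat_lit 1) (nat_lit 122) (nat_lit 1) (nat_lit 125) (nat_lit 1) (nat_lit 404) (nat_lit 366) (nat_lit 250)) (XT.lf (nat_lit 152) (nat_lit 666511047) (nat_lit 0) (nat_lit 774776530) (nat_lit 76) (nat_lit 774776530) (nat_lit 123) (nat_lit 1) (nat_lit 121) (nat_lit 1) (nat_lit 122) (nat_lit 1) (nat_lit 405) (nat_lit 366) (nat_lit 249)))))) (XT.nd (nat_lit 390) (nat_lit 304) (nat_lit 0) (XT.nd (nat_lit 156) (nat_lit 228) (nat_lit 0) (XT.nd (nat_lit 78) (nat_lit 0) (nat_lit 0) (XT.lf (nat_lit 228) (nat_lit 2166946503) (nat_lit 0) (nat_lit 13471840) (nat_lit 152) (nat_lit 13471840) (nat_lit 121) (nat_lit 1) (nat_lit 118) (nat_lit 1) (nat_lit 120) (nat_lit 1) (nat_lit 406) (nat_lit 366) (nat_lit 248)) (XT.lf (nat_lit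 76) (nat_lit 731573546) (nat_lit 0) (nat_lit 708403501) (nat_lit 228) (nat_lit 731573546) (nat_lit 119) (nat_lit 1) (nat_lit 118) (nat_lit 1) (nat_lit 121) (nat_lit 1) (nat_lit 407) (nat_lit 366) (nat_lit 247))) (XT.nd (nat_lit 78) (nat_lit 152) (nat_lit 0) (XT.lf (nat_lit 152) (nat_lit 772901563) (nat_lit 0) (nat_lit 688378912) (nat_lit 76) (nat_lit 688378912) (nat_lit 119) (nat_lit 1) (nat_lit 117) (nat_lit 1) (nat_lit 118) (nat_lit 1) (nat_lit 408) (nat_lit 366) (nat_lit 246)) (XT.nd (nat_lit 78) (nat_lit 152) (nat_lit 0) (XT.lf (nat_lit 0) (nat_lit 47553890) (nat_lit 0) (nat_lit 2033075118) (nat_lit 152) (nat_lit 47553890) (nat_lit 117) (nat_lit 3) (nat_lit 117) (nat_lit 1) (nat_lit 119) (nat_lit 1) (nat_lit 409) (nat_lit 366) (nat_lit 245)) (XT.lf (nat_lit 76) (nat_lit 767540390) (nat_lit 0) (nat_lit 571502523) (nat_lit 152) (nat_lit 767540390) (nat_lit 116) (nat_lit 1) (nat_lit 115) (nat_lit 1)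 (nat_lit 117) (nat_lit 1) (nat_lit 410) (nat_lit 366) (nat_lit 244))))) (XT.nd (nat_lit 156) (nat_lit 228) (nat_lit 0) (XT.nd (nat_lit 78) (nat_lit 0) (nat_lit 0) (XT.lf (nat_lit 152) (nat_lit 862164610) (nat_lit 0) (nat_lit 611615747) (nat_lit 76) (nat_lit 611615747) (nat_lit 116) (nat_lit 1) (nat_lit 114) (nat_lit 1) (nat_lit 115) (nat_lit 1) (nat_lit 411) (nat_lit 366) (nat_lit 243)) (XT.lf (nat_lit 0) (nat_lit 100155828) (nat_lit 0) (nat_lit 1864265723) (nat_lit 152) (nat_lit 100155828) (nat_lit 114) (nat_lit 3) (nat_lit 114) (nat_lit 1) (nat_lit 116) (nat_lit 1) (nat_lit 412) (nat_lit 366) (nat_lit 242))) (XT.nd (nat_lit 78) (nat_lit 76) (nat_lit 0) (XT.lf (nat_lit 76) (nat_lit 796072773) (nat_lit 0) (nat_lit 451554325) (nat_lit 152) (nat_lit 796072773) (nat_lit 113) (nat_lit 1) (nat_lit 112) (nat_lit 1) (nat_lit 114) (nat_lit 1) (nat_lit 413) (nat_lit 366) (nat_lit 241)) (XT.nd (nat_lit 78) (nat_lit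 0) (nat_lit 0) (XT.lf (nat_lit 152) (nat_lit 936363431) (nat_lit 0) (nat_lit 543412669) (nat_lit 76) (nat_lit 543412669) (nat_lit 113) (nat_lit 1) (nat_lit 111) (nat_lit 1) (nat_lit 112) (nat_lit 1) (nat_lit 414) (nat_lit 366) (nat_lit 240)) (XT.lf (nat_lit 0) (nat_lit 145205420) (nat_lit 0) (nat_lit 1712594213) (nat_lit 152) (nat_lit 145205420) (nat_lit 111) (nat_lit 3) (nat_lit 111) (nat_lit 1) (nat_lit 113) (nat_lit 1) (nat_lit 415) (nat_lit 366) (nat_lit 239))))))))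
noncomputable def ec146 : XT := (XT.nd (nat_lit 42978) (nat_lit 0) (nat_lit 19912) (XT.nd (nat_lit 702) (nat_lit 760) (nat_lit 0) (XT.nd (nat_lit 312) (nat_lit 304) (nat_lit 0) (XT.nd (nat_lit 156) (nat_lit 152) (nat_lit 0) (XT.nd (nat_lit 78) (nat_lit 76) (nat_lit 0) (XT.lf (nat_lit 76) (nat_lit 818099452) (nat_lit 0) (nat_lit 346619329) (nat_lit 152) (nat_lit 818099452) (nat_lit 110) (nat_lit 1) (nat_lit 109) (nat_lit 1) (nat_lit 111) (nat_lit 1) (nat_lit 416) (nat_lit 366) (nat_lit 238)) (XT.lf (nat_lit 152) (nat_lit 997326724) (nat_lit 0) (nat_lit 482815118) (nat_lit 76) (nat_lit 482815118) (nat_lit 110) (nat_lit 1) (nat_lit 108) (nat_lit 1) (nat_lit 109) (nat_lit 1) (nat_lit 417) (nat_lit 366) (nat_lit 237))) (XT.nd (nat_lit 78) (nat_lit 152) (nat_lit 0) (XT.lf (nat_lit 0) (nat_lit 183593975) (nat_lit 0) (nat_lit 1576198616) (nat_lit 152) (nat_lit 183593975) (nat_lit 108) (nat_lit 3) (nat_lit 108)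 (nat_lit 1) (nat_lit 110) (nat_lit 1) (nat_lit 418) (nat_lit 366) (nat_lit 236)) (XT.lf (nat_lit 76) (nat_lit 834442713) (nat_lit 0) (nat_lit 254975678) (nat_lit 152) (nat_lit 834442713) (nat_lit 107) (nat_lit 1) (nat_lit 106) (nat_lit 1) (nat_lit 108) (nat_lit 1) (nat_lit 419) (nat_lit 366) (nat_lit 235)))) (XT.nd (nat_lit 156) (nat_lit 228) (nat_lit 0) (XT.nd (nat_lit 78) (nat_lit 0) (nat_lit 0) (XT.lf (nat_lit 152) (nat_lit 1046674929) (nat_lit 0) (nat_lit 428974979) (nat_lit 76) (nat_lit 428974979) (nat_lit 107) (nat_lit 1) (nat_lit 105) (nat_lit 1) (nat_lit 106) (nat_lit 1) (nat_lit 420) (nat_lit 366) (nat_lit 234)) (XT.lf (nat_lit 0) (nat_lit 216111975) (nat_lit 0) (nat_lit 1453423162) (nat_lit 152) (nat_lit 216111975) (nat_lit 105) (nat_lit 3) (nat_lit 105) (nat_lit 1) (nat_lit 107) (nat_lit 1) (nat_lit 421) (nat_lit 366) (nat_lit 233))) (XT.nd (nat_lit 78) (nat_lit 76) (nat_lit 0) (XT.lf (nat_lit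 76) (nat_lit 845830325) (nat_lit 0) (nat_lit 175094912) (nat_lit 152) (nat_lit 845830325) (nat_lit 104) (nat_lit 1) (nat_lit 103) (nat_lit 1) (nat_lit 105) (nat_lit 1) (nat_lit 422) (nat_lit 366) (nat_lit 232)) (XT.nd (nat_lit 78) (nat_lit 0) (nat_lit 0) (XT.lf (nat_lit 152) (nat_lit 1085843576) (nat_lit 0) (nat_lit 381138713) (nat_lit 76) (nat_lit 381138713) (nat_lit 104) (nat_lit 1) (nat_lit 102) (nat_lit 1) (nat_lit 103) (nat_lit 1) (nat_lit 423) (nat_lit 366) (nat_lit 231)) (XT.lf (nat_lit 0) (nat_lit 243460367) (nat_lit 0) (nat_lit 1342795330) (nat_lit 152) (nat_lit 243460367) (nat_lit 102) (nat_lit 3) (nat_lit 102) (nat_lit 1) (nat_lit 104) (nat_lit 1) (nat_lit 424) (nat_lit 366) (nat_lit 230)))))) (XT.nd (nat_lit 390) (nat_lit 304) (nat_lit 0) (XT.nd (nat_lit 156) (nat_lit 228) (nat_lit 0) (XT.nd (nat_lit 78) (nat_lit 76) (nat_lit 0) (XT.lf (nat_lit 76) (nat_lit 852906164) (nat_lit 0) (nat_lit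 105620361) (nat_lit 152) (nat_lit 852906164) (nat_lit 101) (nat_lit 1) (nat_lit 100) (nat_lit 1) (nat_lit 102) (nat_lit 1) (nat_lit 425) (nat_lit 366) (nat_lit 229)) (XT.lf (nat_lit 152) (nat_lit 1116104030) (nat_lit 0) (nat_lit 338636810) (nat_lit 76) (nat_lit 338636810) (nat_lit 101) (nat_lit 1) (nat_lit 99) (nat_lit 1) (nat_lit 100) (nat_lit 1) (nat_lit 426) (nat_lit 366) (nat_lit 228))) (XT.nd (nat_lit 78) (nat_lit 228) (nat_lit 0) (XT.lf (nat_lit 0) (nat_lit 266260582) (nat_lit 0) (nat_lit 1243005459) (nat_lit 152) (nat_lit 266260582) (nat_lit 99) (nat_lit 3) (nat_lit 99) (nat_lit 1) (nat_lit 101) (nat_lit 1) (nat_lit 427) (nat_lit 366) (nat_lit 227)) (XT.nd (nat_lit 78) (nat_lit 76) (nat_lit 0) (XT.lf (nat_lit 76) (nat_lit 856239649) (nat_lit 0) (nat_lit 45347954) (nat_lit 152) (nat_lit 856239649) (nat_lit 98) (nat_lit 1) (nat_lit 97) (nat_lit 1) (nat_lit 99) (nat_lit 1) (nat_lit 428) (nat_lit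 366) (nat_lit 226)) (XT.lf (nat_lit 152) (nat_lit 1138581912) (nat_lit 0) (nat_lit 300874419) (nat_lit 76) (nat_lit 300874419) (nat_lit 98) (nat_lit 1) (nat_lit 96) (nat_lit 1) (nat_lit 97) (nat_lit 1) (nat_lit 429) (nat_lit 366) (nat_lit 225))))) (XT.nd (nat_lit 156) (nat_lit 228) (nat_lit 0) (XT.nd (nat_lit 78) (nat_lit 76) (nat_lit 0) (XT.lf (nat_lit 0) (nat_lit 285063448) (nat_lit 0) (nat_lit 1152888620) (nat_lit 152) (nat_lit 285063448) (nat_lit 96) (nat_lit 3) (nat_lit 96) (nat_lit 1) (nat_lit 98) (nat_lit 1) (nat_lit 430) (nat_lit 366) (nat_lit 224)) (XT.lf (nat_lit 76) (nat_lit 6925992) (nat_lit 0) (nat_lit 849474703) (nat_lit 76) (nat_lit 849474703) (nat_lit 96) (nat_lit 3) (nat_lit 95) (nat_lit 1) (nat_lit 96) (nat_lit 1) (nat_lit 431) (nat_lit 366) (nat_lit 223))) (XT.nd (nat_lit 78) (nat_lit 76) (nat_lit 0) (XT.lf (nat_lit 152) (nat_lit 1154273474) (nat_lit 0) (nat_lit 267323025) (nat_lit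 76) (nat_lit 267323025) (nat_lit 95) (nat_lit 1) (nat_lit 93) (nat_lit 1) (nat_lit 94) (nat_lit 1) (nat_lit 432) (nat_lit 366) (nat_lit 222)) (XT.nd (nat_lit 78) (nat_lit 76) (nat_lit 0) (XT.lf (nat_lit 0) (nat_lit 300357093) (nat_lit 0) (nat_lit 1071408518) (nat_lit 152) (nat_lit 300357093) (nat_lit 93) (nat_lit 3) (nat_lit 93) (nat_lit 1) (nat_lit 95) (nat_lit 1) (nat_lit 433) (nat_lit 366) (nat_lit 221)) (XT.lf (nat_lit 76) (nat_lit 52773979) (nat_lit 0) (nat_lit 801367595) (nat_lit 76) (nat_lit 801367595) (nat_lit 93) (nat_lit 3) (nat_lit 92) (nat_lit 1) (nat_lit 93) (nat_lit 1) (nat_lit 434) (nat_lit 366) (nat_lit 220))))))) (XT.nd (nat_lit 702) (nat_lit 1520) (nat_lit 0) (XT.nd (nat_lit 312) (nat_lit 0) (nat_lit 152) (XT.nd (nat_lit 156) (nat_lit 0) (nat_lit 76) (XT.nd (nat_lit 78) (nat_lit 0) (nat_lit 0) (XT.lf (nat_lit 1292) (nat_lit 828456566) (nat_lit 0) (nat_lit 2850275877) (nat_lit 1292)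 (nat_lit 828456566) (nat_lit 391) (nat_lit 1) (nat_lit 374) (nat_lit 0) (nat_lit 391) (nat_lit 0) (nat_lit 286) (nat_lit 367) (nat_lit 367)) (XT.lf (nat_lit 1292) (nat_lit 3237622777) (nat_lit 76) (nat_lit 2822331995) (nat_lit 0) (nat_lit 2822331995) (nat_lit 391) (nat_lit 1) (nat_lit 375) (nat_lit 1) (nat_lit 374) (nat_lit 0) (nat_lit 287) (nat_lit 367) (nat_lit 366))) (XT.nd (nat_lit 78) (nat_lit 0) (nat_lit 0) (XT.lf (nat_lit 1292) (nat_lit 1565791569) (nat_lit 0) (nat_lit 5621526039) (nat_lit 1216) (nat_lit 1565791569) (nat_lit 392) (nat_lit 1) (nat_lit 375) (nat_lit 1) (nat_lit 391) (nat_lit 1) (nat_lit 288) (nat_lit 367) (nat_lit 365)) (XT.lf (nat_lit 1292) (nat_lit 2973519032) (nat_lit 76) (nat_lit 2826284887) (nat_lit 0) (nat_lit 2826284887) (nat_lit 392) (nat_lit 1) (nat_lit 376) (nat_lit 1) (nat_lit 375) (nat_lit 1) (nat_lit 289) (nat_lit 367) (nat_lit 364)))) (XT.nd (nat_lit 156) (nat_lit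 0) (nat_lit 76) (XT.nd (nat_lit 78) (nat_lit 0) (nat_lit 0) (XT.lf (nat_lit 1292) (nat_lit 1395308976) (nat_lit 0) (nat_lit 5711292607) (nat_lit 1216) (nat_lit 1395308976) (nat_lit 393) (nat_lit 1) (nat_lit 376) (nat_lit 1) (nat_lit 392) (nat_lit 1) (nat_lit 290) (nat_lit 367) (nat_lit 363)) (XT.lf (nat_lit 1292) (nat_lit 2557051024) (nat_lit 76) (nat_lit 2911333633) (nat_lit 0) (nat_lit 2911333633) (nat_lit 393) (nat_lit 1) (nat_lit 377) (nat_lit 1) (nat_lit 376) (nat_lit 1) (nat_lit 291) (nat_lit 367) (nat_lit 362))) (XT.nd (nat_lit 78) (nat_lit 0) (nat_lit 0) (XT.lf (nat_lit 1292) (nat_lit 1152484839) (nat_lit 0) (nat_lit 5955377941) (nat_lit 1216) (nat_lit 1152484839) (nat_lit 394) (nat_lit 1) (nat_lit 377) (nat_lit 1) (nat_lit 393) (nat_lit 1) (nat_lit 292) (nat_lit 367) (nat_lit 361)) (XT.nd (nat_lit 78) (nat_lit 0) (nat_lit 76) (XT.lf (nat_lit 1292) (nat_lit 2001844450) (nat_lit 76) (nat_lit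 3070454374) (nat_lit 0) (nat_lit 3070454374) (nat_lit 394) (nat_lit 1) (nat_lit 378) (nat_lit 1) (nat_lit 377) (nat_lit 1) (nat_lit 293) (nat_lit 367) (nat_lit 360)) (XT.lf (nat_lit 1292) (nat_lit 843863935) (nat_lit 0) (nat_lit 6340278702) (nat_lit 1216) (nat_lit 843863935) (nat_lit 395) (nat_lit 1) (nat_lit 378) (nat_lit 1) (nat_lit 394) (nat_lit 1) (nat_lit 294) (nat_lit 367) (nat_lit 359)))))) (XT.nd (nat_lit 390) (nat_lit 684) (nat_lit 0) (XT.nd (nat_lit 156) (nat_lit 1140) (nat_lit 0) (XT.nd (nat_lit 78) (nat_lit 0) (nat_lit 76) (XT.lf (nat_lit 1292) (nat_lit 1320600721) (nat_lit 76) (nat_lit 3297095442) (nat_lit 0) (nat_lit 3297095442) (nat_lit 395) (nat_lit 1) (nat_lit 379) (nat_lit 1) (nat_lit 378) (nat_lit 1) (nat_lit 295) (nat_lit 367) (nat_lit 358)) (XT.lf (nat_lit 1292) (nat_lit 475545670) (nat_lit 0) (nat_lit 6853401987) (nat_lit 1216) (nat_lit 475545670) (nat_lit 396) (nat_lit 1) (nat_lit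 379) (nat_lit 1) (nat_lit 395) (nat_lit 1) (nat_lit 296) (nat_lit 367) (nat_lit 357))) (XT.nd (nat_lit 78) (nat_lit 1216) (nat_lit 0) (XT.lf (nat_lit 1292) (nat_lit 525154155) (nat_lit 76) (nat_lit 3585148236) (nat_lit 0) (nat_lit 3585148236) (nat_lit 396) (nat_lit 1) (nat_lit 380) (nat_lit 1) (nat_lit 379) (nat_lit 1) (nat_lit 297) (nat_lit 367) (nat_lit 356)) (XT.nd (nat_lit 78) (nat_lit 1292) (nat_lit 0) (XT.lf (nat_lit 1292) (nat_lit 53211680) (nat_lit 0) (nat_lit 7483009123) (nat_lit 1216) (nat_lit 53211680) (nat_lit 397) (nat_lit 1) (nat_lit 380) (nat_lit 1) (nat_lit 396) (nat_lit 1) (nat_lit 298) (nat_lit 367) (nat_lit 355)) (XT.lf (nat_lit 1368) (nat_lit 3559035682) (nat_lit 0) (nat_lit 366186398) (nat_lit 1292) (nat_lit 3559035682) (nat_lit 381) (nat_lit 1) (nat_lit 363) (nat_lit 1) (nat_lit 380) (nat_lit 1) (nat_lit 299) (nat_lit 367) (nat_lit 354))))) (XT.nd (nat_lit 156) (nat_lit 684) (nat_lit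 0) (XT.nd (nat_lit 78) (nat_lit 0) (nat_lit 76) (XT.lf (nat_lit 1368) (nat_lit 6554478580) (nat_lit 76) (nat_lit 413751673) (nat_lit 0) (nat_lit 413751673) (nat_lit 381) (nat_lit 1) (nat_lit 364) (nat_lit 1) (nat_lit 363) (nat_lit 1) (nat_lit 300) (nat_lit 367) (nat_lit 353)) (XT.lf (nat_lit 1368) (nat_lit 2971202645) (nat_lit 0) (nat_lit 1338389535) (nat_lit 1292) (nat_lit 2971202645) (nat_lit 382) (nat_lit 1) (nat_lit 364) (nat_lit 1) (nat_lit 381) (nat_lit 1) (nat_lit 301) (nat_lit 367) (nat_lit 352))) (XT.nd (nat_lit 78) (nat_lit 760) (nat_lit 0) (XT.lf (nat_lit 1368) (nat_lit 5335037914) (nat_lit 76) (nat_lit 923567416) (nat_lit 0) (nat_lit 923567416) (nat_lit 382) (nat_lit 1) (nat_lit 365) (nat_lit 1) (nat_lit 364) (nat_lit 1) (nat_lit 302) (nat_lit 367) (nat_lit 351)) (XT.nd (nat_lit 78) (nat_lit 836) (nat_lit 0) (XT.lf (nat_lit 76) (nat_lit 2346269346) (nat_lit 0) (nat_lit 2392345952) (nat_lit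 1292) (nat_lit 2346269346) (nat_lit 366) (nat_lit 1) (nat_lit 365) (nat_lit 1) (nat_lit 382) (nat_lit 1) (nat_lit 303) (nat_lit 367) (nat_lit 350)) (XT.lf (nat_lit 912) (nat_lit 4045298667) (nat_lit 0) (nat_lit 1472224186) (nat_lit 836) (nat_lit 1472224186) (nat_lit 366) (nat_lit 1) (nat_lit 354) (nat_lit 1) (nat_lit 365) (nat_lit 1) (nat_lit 304) (nat_lit 367) (nat_lit 349))))))))
noncomputable def ec147 : XT := (XT.nd (nat_lit 1482) (nat_lit 4560) (nat_lit 0) (XT.nd (nat_lit 702) (nat_lit 2508) (nat_lit 0) (XT.nd (nat_lit 312) (nat_lit 1748) (nat_lit 0) (XT.nd (nat_lit 156) (nat_lit 608) (nat_lit 0) (XT.nd (nat_lit 78) (nat_lit 608) (nat_lit 0) (XT.lf (nat_lit 76) (nat_lit 1688428915) (nat_lit 0) (nat_lit 3519356024) (nat_lit 912) (nat_lit 1688428915) (nat_lit 355) (nat_lit 1) (nat_lit 354) (nat_lit 1) (nat_lit 366) (nat_lit 1) (nat_lit 305) (nat_lit 367) (nat_lit 348)) (XT.lf (nat_lit 684) (nat_lit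 2693382655) (nat_lit 0) (nat_lit 2055508664) (nat_lit 608) (nat_lit 2055508664) (nat_lit 355) (nat_lit 1) (nat_lit 346) (nat_lit 1) (nat_lit 354) (nat_lit 1) (nat_lit 306) (nat_lit 367) (nat_lit 347))) (XT.nd (nat_lit 78) (nat_lit 608) (nat_lit 0) (XT.lf (nat_lit 76) (nat_lit 1001573684) (nat_lit 0) (nat_lit 4711336220) (nat_lit 684) (nat_lit 1001573684) (nat_lit 347) (nat_lit 1) (nat_lit 346) (nat_lit 1) (nat_lit 355) (nat_lit 1) (nat_lit 307) (nat_lit 367) (nat_lit 346)) (XT.lf (nat_lit 684) (nat_lit 1286826451) (nat_lit 0) (nat_lit 2669507169) (nat_lit 608) (nat_lit 2669507169) (nat_lit 347) (nat_lit 1) (nat_lit 338) (nat_lit 1) (nat_lit 346) (nat_lit 1) (nat_lit 308) (nat_lit 367) (nat_lit 345)))) (XT.nd (nat_lit 156) (nat_lit 1140) (nat_lit 0) (XT.nd (nat_lit 78) (nat_lit 608) (nat_lit 0) (XT.lf (nat_lit 76) (nat_lit 289314196) (nat_lit 0) (nat_lit 5960780335) (nat_lit 684) (nat_lit 289314196)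 (nat_lit 339) (nat_lit 1) (nat_lit 338) (nat_lit 1) (nat_lit 347) (nat_lit 1) (nat_lit 309) (nat_lit 367) (nat_lit 344)) (XT.lf (nat_lit 76) (nat_lit 3144814193) (nat_lit 0) (nat_lit 164115341) (nat_lit 608) (nat_lit 3144814193) (nat_lit 331) (nat_lit 1) (nat_lit 330) (nat_lit 1) (nat_lit 338) (nat_lit 1) (nat_lit 310) (nat_lit 367) (nat_lit 343))) (XT.nd (nat_lit 78) (nat_lit 532) (nat_lit 0) (XT.lf (nat_lit 684) (nat_lit 5488921044) (nat_lit 0) (nat_lit 440640137) (nat_lit 608) (nat_lit 440640137) (nat_lit 331) (nat_lit 1) (nat_lit 322) (nat_lit 1) (nat_lit 330) (nat_lit 1) (nat_lit 311) (nat_lit 367) (nat_lit 342)) (XT.nd (nat_lit 78) (nat_lit 532) (nat_lit 0) (XT.lf (nat_lit 76) (nat_lit 2328594760) (nat_lit 0) (nat_lit 1630319776) (nat_lit 684) (nat_lit 2328594760) (nat_lit 323) (nat_lit 1) (nat_lit 322) (nat_lit 1) (nat_lit 331) (nat_lit 1) (nat_lit 312) (nat_lit 367) (nat_lit 341)) (XT.lf (nat_lit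 608) (nat_lit 3833699661) (nat_lit 0) (nat_lit 1186530290) (nat_lit 532) (nat_lit 1186530290) (nat_lit 323) (nat_lit 1) (nat_lit 315) (nat_lit 1) (nat_lit 322) (nat_lit 1) (nat_lit 313) (nat_lit 367) (nat_lit 340)))))) (XT.nd (nat_lit 390) (nat_lit 912) (nat_lit 0) (XT.nd (nat_lit 156) (nat_lit 1064) (nat_lit 0) (XT.nd (nat_lit 78) (nat_lit 532) (nat_lit 0) (XT.lf (nat_lit 76) (nat_lit 1498118760) (nat_lit 0) (nat_lit 3131020024) (nat_lit 608) (nat_lit 1498118760) (nat_lit 316) (nat_lit 1) (nat_lit 315) (nat_lit 1) (nat_lit 323) (nat_lit 1) (nat_lit 314) (nat_lit 367) (nat_lit 339)) (XT.lf (nat_lit 608) (nat_lit 2152471205) (nat_lit 0) (nat_lit 1948352594) (nat_lit 532) (nat_lit 1948352594) (nat_lit 316) (nat_lit 1) (nat_lit 308) (nat_lit 1) (nat_lit 315) (nat_lit 1) (nat_lit 315) (nat_lit 367) (nat_lit 338))) (XT.nd (nat_lit 78) (nat_lit 1064) (nat_lit 0) (XT.lf (nat_lit 76) (nat_lit 655984506) (nat_lit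 0) (nat_lit 4660779712) (nat_lit 608) (nat_lit 655984506) (nat_lit 309) (nat_lit 1) (nat_lit 308) (nat_lit 1) (nat_lit 316) (nat_lit 1) (nat_lit 316) (nat_lit 367) (nat_lit 337)) (XT.nd (nat_lit 78) (nat_lit 608) (nat_lit 0) (XT.lf (nat_lit 532) (nat_lit 450253547) (nat_lit 0) (nat_lit 2723481333) (nat_lit 456) (nat_lit 2723481333) (nat_lit 309) (nat_lit 1) (nat_lit 302) (nat_lit 1) (nat_lit 308) (nat_lit 1) (nat_lit 317) (nat_lit 367) (nat_lit 336)) (XT.lf (nat_lit 608) (nat_lit 5436537504) (nat_lit 0) (nat_lit 193494891) (nat_lit 532) (nat_lit 193494891) (nat_lit 302) (nat_lit 1) (nat_lit 294) (nat_lit 1) (nat_lit 301) (nat_lit 1) (nat_lit 318) (nat_lit 367) (nat_lit 335))))) (XT.nd (nat_lit 156) (nat_lit 456) (nat_lit 0) (XT.nd (nat_lit 78) (nat_lit 456) (nat_lit 0) (XT.lf (nat_lit 76) (nat_lit 2253357127) (nat_lit 0) (nat_lit 1243576546) (nat_lit 608) (nat_lit 2253357127) (nat_lit 295) (nat_lit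 1) (nat_lit 294) (nat_lit 1) (nat_lit 302) (nat_lit 1) (nat_lit 319) (nat_lit 367) (nat_lit 334)) (XT.lf (nat_lit 532) (nat_lit 3591781307) (nat_lit 0) (nat_lit 1043525501) (nat_lit 456) (nat_lit 1043525501) (nat_lit 295) (nat_lit 1) (nat_lit 288) (nat_lit 1) (nat_lit 294) (nat_lit 1) (nat_lit 320) (nat_lit 367) (nat_lit 333))) (XT.nd (nat_lit 78) (nat_lit 456) (nat_lit 0) (XT.lf (nat_lit 76) (nat_lit 1333967350) (nat_lit 0) (nat_lit 2940484641) (nat_lit 532) (nat_lit 1333967350) (nat_lit 289) (nat_lit 1) (nat_lit 288) (nat_lit 1) (nat_lit 295) (nat_lit 1) (nat_lit 321) (nat_lit 367) (nat_lit 332)) (XT.nd (nat_lit 78) (nat_lit 0) (nat_lit 0) (XT.lf (nat_lit 532) (nat_lit 1742167968) (nat_lit 0) (nat_lit 1898524805) (nat_lit 456) (nat_lit 1898524805) (nat_lit 289) (nat_lit 1) (nat_lit 282) (nat_lit 1) (nat_lit 288) (nat_lit 1) (nat_lit 322) (nat_lit 367) (nat_lit 331)) (XT.lf (nat_lit 76) (nat_lit 413058063)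 (nat_lit 0) (nat_lit 4645412871) (nat_lit 532) (nat_lit 413058063) (nat_lit 283) (nat_lit 1) (nat_lit 282) (nat_lit 1) (nat_lit 289) (nat_lit 1) (nat_lit 323) (nat_lit 367) (nat_lit 330))))))) (XT.nd (nat_lit 702) (nat_lit 2052) (nat_lit 0) (XT.nd (nat_lit 312) (nat_lit 1216) (nat_lit 0) (XT.nd (nat_lit 156) (nat_lit 380) (nat_lit 0) (XT.nd (nat_lit 78) (nat_lit 456) (nat_lit 0) (XT.lf (nat_lit 76) (nat_lit 2648889617) (nat_lit 0) (nat_lit 106674816) (nat_lit 456) (nat_lit 2648889617) (nat_lit 277) (nat_lit 1) (nat_lit 276) (nat_lit 1) (nat_lit 282) (nat_lit 1) (nat_lit 324) (nat_lit 367) (nat_lit 329)) (XT.lf (nat_lit 532) (nat_lit 4333388173) (nat_lit 0) (nat_lit 502724592) (nat_lit 456) (nat_lit 502724592) (nat_lit 277) (nat_lit 1) (nat_lit 270) (nat_lit 1) (nat_lit 276) (nat_lit 1) (nat_lit 325) (nat_lit 367) (nat_lit 328))) (XT.nd (nat_lit 78) (nat_lit 380) (nat_lit 0) (XT.lf (nat_lit 76) (nat_lit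 1677090669) (nat_lit 0) (nat_lit 1919700836) (nat_lit 532) (nat_lit 1677090669) (nat_lit 271) (nat_lit 1) (nat_lit 270) (nat_lit 1) (nat_lit 277) (nat_lit 1) (nat_lit 326) (nat_lit 367) (nat_lit 327)) (XT.lf (nat_lit 456) (nat_lit 2384674493) (nat_lit 0) (nat_lit 1412798111) (nat_lit 380) (nat_lit 1412798111) (nat_lit 271) (nat_lit 1) (nat_lit 265) (nat_lit 1) (nat_lit 270) (nat_lit 1) (nat_lit 327) (nat_lit 367) (nat_lit 326)))) (XT.nd (nat_lit 156) (nat_lit 836) (nat_lit 0) (XT.nd (nat_lit 78) (nat_lit 380) (nat_lit 0) (XT.lf (nat_lit 76) (nat_lit 709897537) (nat_lit 0) (nat_lit 3728029256) (nat_lit 456) (nat_lit 709897537) (nat_lit 266) (nat_lit 1) (nat_lit 265) (nat_lit 1) (nat_lit 271) (nat_lit 1) (nat_lit 328) (nat_lit 367) (nat_lit 325)) (XT.lf (nat_lit 456) (nat_lit 446469632) (nat_lit 0) (nat_lit 2319831298) (nat_lit 380) (nat_lit 2319831298) (nat_lit 266) (nat_lit 1) (nat_lit 260) (nat_lit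 1) (nat_lit 265) (nat_lit 1) (nat_lit 329) (nat_lit 367) (nat_lit 324))) (XT.nd (nat_lit 78) (nat_lit 380) (nat_lit 0) (XT.lf (nat_lit 456) (nat_lit 4527820341) (nat_lit 0) (nat_lit 248998179) (nat_lit 380) (nat_lit 248998179) (nat_lit 260) (nat_lit 1) (nat_lit 254) (nat_lit 1) (nat_lit 259) (nat_lit 1) (nat_lit 330) (nat_lit 367) (nat_lit 323)) (XT.nd (nat_lit 78) (nat_lit 380) (nat_lit 0) (XT.lf (nat_lit 76) (nat_lit 1757903936) (nat_lit 0) (nat_lit 1450019335) (nat_lit 456) (nat_lit 1757903936) (nat_lit 255) (nat_lit 1) (nat_lit 254) (nat_lit 1) (nat_lit 260) (nat_lit 1) (nat_lit 331) (nat_lit 367) (nat_lit 322)) (XT.lf (nat_lit 456) (nat_lit 2519055620) (nat_lit 0) (nat_lit 1194057653) (nat_lit 380) (nat_lit 1194057653) (nat_lit 255) (nat_lit 1) (nat_lit 249) (nat_lit 1) (nat_lit 254) (nat_lit 1) (nat_lit 332) (nat_lit 367) (nat_lit 321)))))) (XT.nd (nat_lit 390) (nat_lit 988) (nat_lit 0) (XT.nd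 (nat_lit 156) (nat_lit 760) (nat_lit 0) (XT.nd (nat_lit 78) (nat_lit 304) (nat_lit 0) (XT.lf (nat_lit 76) (nat_lit 763196921) (nat_lit 0) (nat_lit 3323102800) (nat_lit 456) (nat_lit 763196921) (nat_lit 250) (nat_lit 1) (nat_lit 249) (nat_lit 1) (nat_lit 255) (nat_lit 1) (nat_lit 333) (nat_lit 367) (nat_lit 320)) (XT.lf (nat_lit 380) (nat_lit 530065103) (nat_lit 0) (nat_lit 2131244085) (nat_lit 304) (nat_lit 2131244085) (nat_lit 250) (nat_lit 1) (nat_lit 245) (nat_lit 1) (nat_lit 249) (nat_lit 1) (nat_lit 334) (nat_lit 367) (nat_lit 319))) (XT.nd (nat_lit 78) (nat_lit 304) (nat_lit 0) (XT.lf (nat_lit 456) (nat_lit 4298704733) (nat_lit 0) (nat_lit 219077179) (nat_lit 380) (nat_lit 219077179) (nat_lit 245) (nat_lit 1) (nat_lit 239) (nat_lit 1) (nat_lit 244) (nat_lit 1) (nat_lit 335) (nat_lit 367) (nat_lit 318)) (XT.nd (nat_lit 78) (nat_lit 304) (nat_lit 0) (XT.lf (nat_lit 76) (nat_lit 1635973095) (nat_lit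 0) (nat_lit 1409452821) (nat_lit 456) (nat_lit 1635973095) (nat_lit 240) (nat_lit 1) (nat_lit 239) (nat_lit 1) (nat_lit 245) (nat_lit 1) (nat_lit 336) (nat_lit 367) (nat_lit 317)) (XT.lf (nat_lit 380) (nat_lit 2261275069) (nat_lit 0) (nat_lit 1182938365) (nat_lit 304) (nat_lit 1182938365) (nat_lit 240) (nat_lit 1) (nat_lit 235) (nat_lit 1) (nat_lit 239) (nat_lit 1) (nat_lit 337) (nat_lit 367) (nat_lit 316))))) (XT.nd (nat_lit 156) (nat_lit 684) (nat_lit 0) (XT.nd (nat_lit 78) (nat_lit 304) (nat_lit 0) (XT.lf (nat_lit 76) (nat_lit 628826055) (nat_lit 0) (nat_lit 3316180393) (nat_lit 380) (nat_lit 628826055) (nat_lit 236) (nat_lit 1) (nat_lit 235) (nat_lit 1) (nat_lit 240) (nat_lit 1) (nat_lit 338) (nat_lit 367) (nat_lit 315)) (XT.lf (nat_lit 380) (nat_lit 250749315) (nat_lit 0) (nat_lit 2135184970) (nat_lit 304) (nat_lit 2135184970) (nat_lit 236) (nat_lit 1) (nat_lit 231) (nat_lit 1) (nat_lit 235) (nat_lit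 1) (nat_lit 339) (nat_lit 367) (nat_lit 314))) (XT.nd (nat_lit 78) (nat_lit 304) (nat_lit 0) (XT.lf (nat_lit 380) (nat_lit 3747287486) (nat_lit 0) (nat_lit 361079396) (nat_lit 304) (nat_lit 361079396) (nat_lit 231) (nat_lit 1) (nat_lit 226) (nat_lit 1) (nat_lit 230) (nat_lit 1) (nat_lit 340) (nat_lit 367) (nat_lit 313)) (XT.nd (nat_lit 78) (nat_lit 304) (nat_lit 0) (XT.lf (nat_lit 76) (nat_lit 1360063506) (nat_lit 0) (nat_lit 1698000484) (nat_lit 380) (nat_lit 1360063506) (nat_lit 227) (nat_lit 1) (nat_lit 226) (nat_lit 1) (nat_lit 231) (nat_lit 1) (nat_lit 341) (nat_lit 367) (nat_lit 312)) (XT.lf (nat_lit 380) (nat_lit 1706236772) (nat_lit 0) (nat_lit 1330790900) (nat_lit 304) (nat_lit 1330790900) (nat_lit 227) (nat_lit 1) (nat_lit 222) (nat_lit 1) (nat_lit 226) (nat_lit 1) (nat_lit 342) (nat_lit 367) (nat_lit 311))))))))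
noncomputable def ec148 : XT := (XT.nd (nat_lit 1404) (nat_lit 2356) (nat_lit 0) (XT.nd (nat_lit 702) (nat_lit 1520) (nat_lit 0) (XT.nd (nat_lit 312) (nat_lit 836) (nat_lit 0) (XT.nd (nat_lit 156) (nat_lit 304) (nat_lit 0) (XT.nd (nat_lit 78) (nat_lit 304) (nat_lit 0) (XT.lf (nat_lit 76) (nat_lit 352491940) (nat_lit 0) (nat_lit 3613499033) (nat_lit 380) (nat_lit 352491940) (nat_lit 223) (nat_lit 1) (nat_lit 222) (nat_lit 1) (nat_lit 227) (nat_lit 1) (nat_lit 343) (nat_lit 367) (nat_lit 310)) (XT.lf (nat_lit 76) (nat_lit 1986417937) (nat_lit 0) (nat_lit 296629260) (nat_lit 304) (nat_lit 1986417937) (nat_lit 219) (nat_lit 1) (nat_lit 218) (nat_lit 1) (nat_lit 222) (nat_lit 1) (nat_lit 344) (nat_lit 367) (nat_lit 309))) (XT.nd (nat_lit 78) (nat_lit 0) (nat_lit 0) (XT.lf (nat_lit 380) (nat_lit 2956211266) (nat_lit 0) (nat_lit 632591166) (nat_lit 304) (nat_lit 632591166) (nat_lit 219) (nat_lit 1) (nat_lit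 214) (nat_lit 1) (nat_lit 218) (nat_lit 1) (nat_lit 345) (nat_lit 367) (nat_lit 308)) (XT.lf (nat_lit 76) (nat_lit 969963832) (nat_lit 0) (nat_lit 2233942034) (nat_lit 380) (nat_lit 969963832) (nat_lit 215) (nat_lit 1) (nat_lit 214) (nat_lit 1) (nat_lit 219) (nat_lit 1) (nat_lit 346) (nat_lit 367) (nat_lit 307)))) (XT.nd (nat_lit 156) (nat_lit 228) (nat_lit 0) (XT.nd (nat_lit 78) (nat_lit 380) (nat_lit 0) (XT.lf (nat_lit 304) (nat_lit 931343164) (nat_lit 0) (nat_lit 1597874460) (nat_lit 228) (nat_lit 1597874460) (nat_lit 215) (nat_lit 1) (nat_lit 211) (nat_lit 1) (nat_lit 214) (nat_lit 1) (nat_lit 347) (nat_lit 367) (nat_lit 306)) (XT.lf (nat_lit 380) (nat_lit 4024848618) (nat_lit 0) (nat_lit 28263318) (nat_lit 304) (nat_lit 28263318) (nat_lit 211) (nat_lit 1) (nat_lit 206) (nat_lit 1) (nat_lit 210) (nat_lit 1) (nat_lit 348) (nat_lit 367) (nat_lit 305))) (XT.nd (nat_lit 78) (nat_lit 228) (nat_lit 0)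 (XT.lf (nat_lit 76) (nat_lit 1499450116) (nat_lit 0) (nat_lit 1036668316) (nat_lit 380) (nat_lit 1499450116) (nat_lit 207) (nat_lit 1) (nat_lit 206) (nat_lit 1) (nat_lit 211) (nat_lit 1) (nat_lit 349) (nat_lit 367) (nat_lit 304)) (XT.nd (nat_lit 78) (nat_lit 0) (nat_lit 0) (XT.lf (nat_lit 304) (nat_lit 1992670423) (nat_lit 0) (nat_lit 999064786) (nat_lit 228) (nat_lit 999064786) (nat_lit 207) (nat_lit 1) (nat_lit 203) (nat_lit 1) (nat_lit 206) (nat_lit 1) (nat_lit 350) (nat_lit 367) (nat_lit 303)) (XT.lf (nat_lit 76) (nat_lit 498009434) (nat_lit 0) (nat_lit 2950741870) (nat_lit 304) (nat_lit 498009434) (nat_lit 204) (nat_lit 1) (nat_lit 203) (nat_lit 1) (nat_lit 207) (nat_lit 1) (nat_lit 351) (nat_lit 367) (nat_lit 302)))))) (XT.nd (nat_lit 312) (nat_lit 760) (nat_lit 0) (XT.nd (nat_lit 156) (nat_lit 228) (nat_lit 0) (XT.nd (nat_lit 78) (nat_lit 228) (nat_lit 0) (XT.lf (nat_lit 76) (nat_lit 1951319497)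 (nat_lit 0) (nat_lit 522443) (nat_lit 304) (nat_lit 1951319497) (nat_lit 200) (nat_lit 1) (nat_lit 199) (nat_lit 1) (nat_lit 203) (nat_lit 1) (nat_lit 352) (nat_lit 367) (nat_lit 301)) (XT.lf (nat_lit 304) (nat_lit 2901708546) (nat_lit 0) (nat_lit 479281388) (nat_lit 228) (nat_lit 479281388) (nat_lit 200) (nat_lit 1) (nat_lit 196) (nat_lit 1) (nat_lit 199) (nat_lit 1) (nat_lit 353) (nat_lit 367) (nat_lit 300))) (XT.nd (nat_lit 78) (nat_lit 228) (nat_lit 0) (XT.lf (nat_lit 76) (nat_lit 950600813) (nat_lit 0) (nat_lit 1916592021) (nat_lit 304) (nat_lit 950600813) (nat_lit 197) (nat_lit 1) (nat_lit 196) (nat_lit 1) (nat_lit 200) (nat_lit 1) (nat_lit 354) (nat_lit 367) (nat_lit 299)) (XT.lf (nat_lit 304) (nat_lit 911045565) (nat_lit 0) (nat_lit 1432480167) (nat_lit 228) (nat_lit 1432480167) (nat_lit 197) (nat_lit 1) (nat_lit 193) (nat_lit 1) (nat_lit 196) (nat_lit 1) (nat_lit 355) (nat_lit 367) (nat_lit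 298)))) (XT.nd (nat_lit 156) (nat_lit 456) (nat_lit 0) (XT.nd (nat_lit 78) (nat_lit 0) (nat_lit 0) (XT.lf (nat_lit 304) (nat_lit 3676428212) (nat_lit 0) (nat_lit 29354982) (nat_lit 228) (nat_lit 29354982) (nat_lit 193) (nat_lit 1) (nat_lit 189) (nat_lit 1) (nat_lit 192) (nat_lit 1) (nat_lit 356) (nat_lit 367) (nat_lit 297)) (XT.lf (nat_lit 76) (nat_lit 1337922607) (nat_lit 0) (nat_lit 1018300283) (nat_lit 304) (nat_lit 1337922607) (nat_lit 190) (nat_lit 1) (nat_lit 189) (nat_lit 1) (nat_lit 193) (nat_lit 1) (nat_lit 357) (nat_lit 367) (nat_lit 296))) (XT.nd (nat_lit 78) (nat_lit 228) (nat_lit 0) (XT.lf (nat_lit 304) (nat_lit 1694422076) (nat_lit 0) (nat_lit 979816964) (nat_lit 228) (nat_lit 979816964) (nat_lit 190) (nat_lit 1) (nat_lit 186) (nat_lit 1) (nat_lit 189) (nat_lit 1) (nat_lit 358) (nat_lit 367) (nat_lit 295)) (XT.nd (nat_lit 78) (nat_lit 228) (nat_lit 0) (XT.lf (nat_lit 76) (nat_lit 362403810)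 (nat_lit 0) (nat_lit 2889837911) (nat_lit 304) (nat_lit 362403810) (nat_lit 187) (nat_lit 1) (nat_lit 186) (nat_lit 1) (nat_lit 190) (nat_lit 1) (nat_lit 359) (nat_lit 367) (nat_lit 294)) (XT.lf (nat_lit 76) (nat_lit 1667684284) (nat_lit 0) (nat_lit 240118550) (nat_lit 228) (nat_lit 1667684284) (nat_lit 184) (nat_lit 1) (nat_lit 183) (nat_lit 1) (nat_lit 186) (nat_lit 1) (nat_lit 360) (nat_lit 367) (nat_lit 293))))))) (XT.nd (nat_lit 702) (nat_lit 1140) (nat_lit 0) (XT.nd (nat_lit 312) (nat_lit 532) (nat_lit 0) (XT.nd (nat_lit 156) (nat_lit 456) (nat_lit 0) (XT.nd (nat_lit 78) (nat_lit 0) (nat_lit 0) (XT.lf (nat_lit 304) (nat_lit 2364666138) (nat_lit 0) (nat_lit 586163312) (nat_lit 228) (nat_lit 586163312) (nat_lit 184) (nat_lit 1) (nat_lit 180) (nat_lit 1) (nat_lit 183) (nat_lit 1) (nat_lit 361) (nat_lit 367) (nat_lit 292)) (XT.lf (nat_lit 76) (nat_lit 699412028) (nat_lit 0) (nat_lit 2100113627) (nat_lit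 304) (nat_lit 699412028) (nat_lit 181) (nat_lit 1) (nat_lit 180) (nat_lit 1) (nat_lit 184) (nat_lit 1) (nat_lit 362) (nat_lit 367) (nat_lit 291))) (XT.nd (nat_lit 78) (nat_lit 304) (nat_lit 0) (XT.lf (nat_lit 228) (nat_lit 440523950) (nat_lit 0) (nat_lit 1510433683) (nat_lit 152) (nat_lit 1510433683) (nat_lit 181) (nat_lit 1) (nat_lit 178) (nat_lit 1) (nat_lit 180) (nat_lit 1) (nat_lit 363) (nat_lit 367) (nat_lit 290)) (XT.lf (nat_lit 304) (nat_lit 2935144236) (nat_lit 0) (nat_lit 244690385) (nat_lit 228) (nat_lit 244690385) (nat_lit 178) (nat_lit 1) (nat_lit 174) (nat_lit 1) (nat_lit 177) (nat_lit 1) (nat_lit 364) (nat_lit 367) (nat_lit 289)))) (XT.nd (nat_lit 156) (nat_lit 380) (nat_lit 0) (XT.nd (nat_lit 78) (nat_lit 152) (nat_lit 0) (XT.lf (nat_lit 76) (nat_lit 987846623) (nat_lit 0) (nat_lit 1412069458) (nat_lit 304) (nat_lit 987846623) (nat_lit 175) (nat_lit 1) (nat_lit 174) (nat_lit 1) (nat_lit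 178) (nat_lit 1) (nat_lit 365) (nat_lit 367) (nat_lit 288)) (XT.lf (nat_lit 228) (nat_lit 1030343612) (nat_lit 0) (nat_lit 1160662158) (nat_lit 152) (nat_lit 1160662158) (nat_lit 175) (nat_lit 1) (nat_lit 172) (nat_lit 1) (nat_lit 174) (nat_lit 1) (nat_lit 366) (nat_lit 367) (nat_lit 287))) (XT.nd (nat_lit 78) (nat_lit 380) (nat_lit 0) (XT.lf (nat_lit 76) (nat_lit 51163505) (nat_lit 0) (nat_lit 3214000319) (nat_lit 228) (nat_lit 51163505) (nat_lit 173) (nat_lit 1) (nat_lit 172) (nat_lit 1) (nat_lit 175) (nat_lit 1) (nat_lit 367) (nat_lit 367) (nat_lit 286)) (XT.nd (nat_lit 78) (nat_lit 152) (nat_lit 0) (XT.lf (nat_lit 76) (nat_lit 1233444361) (nat_lit 0) (nat_lit 813970183) (nat_lit 228) (nat_lit 1233444361) (nat_lit 170) (nat_lit 1) (nat_lit 169) (nat_lit 1) (nat_lit 172) (nat_lit 1) (nat_lit 368) (nat_lit 367) (nat_lit 285)) (XT.lf (nat_lit 228) (nat_lit 1535780728) (nat_lit 0) (nat_lit 855176396)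 (nat_lit 152) (nat_lit 855176396) (nat_lit 170) (nat_lit 1) (nat_lit 167) (nat_lit 1) (nat_lit 169) (nat_lit 1) (nat_lit 369) (nat_lit 367) (nat_lit 284)))))) (XT.nd (nat_lit 390) (nat_lit 608) (nat_lit 0) (XT.nd (nat_lit 156) (nat_lit 304) (nat_lit 0) (XT.nd (nat_lit 78) (nat_lit 228) (nat_lit 0) (XT.lf (nat_lit 76) (nat_lit 308293317) (nat_lit 0) (nat_lit 2595390036) (nat_lit 228) (nat_lit 308293317) (nat_lit 168) (nat_lit 1) (nat_lit 167) (nat_lit 1) (nat_lit 170) (nat_lit 1) (nat_lit 370) (nat_lit 367) (nat_lit 283)) (XT.lf (nat_lit 76) (nat_lit 1441292961) (nat_lit 0) (nat_lit 295400759) (nat_lit 228) (nat_lit 1441292961) (nat_lit 165) (nat_lit 1) (nat_lit 164) (nat_lit 1) (nat_lit 167) (nat_lit 1) (nat_lit 371) (nat_lit 367) (nat_lit 282))) (XT.nd (nat_lit 78) (nat_lit 152) (nat_lit 0) (XT.lf (nat_lit 228) (nat_lit 1966787086) (nat_lit 0) (nat_lit 588884124) (nat_lit 152) (nat_lit 588884124) (nat_lit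 165) (nat_lit 1) (nat_lit 162) (nat_lit 1) (nat_lit 164) (nat_lit 1) (nat_lit 372) (nat_lit 367) (nat_lit 281)) (XT.nd (nat_lit 78) (nat_lit 152) (nat_lit 0) (XT.lf (nat_lit 76) (nat_lit 529094431) (nat_lit 0) (nat_lit 2053341675) (nat_lit 228) (nat_lit 529094431) (nat_lit 163) (nat_lit 1) (nat_lit 162) (nat_lit 1) (nat_lit 165) (nat_lit 1) (nat_lit 373) (nat_lit 367) (nat_lit 280)) (XT.lf (nat_lit 228) (nat_lit 155923863) (nat_lit 0) (nat_lit 1461478715) (nat_lit 152) (nat_lit 1461478715) (nat_lit 163) (nat_lit 1) (nat_lit 160) (nat_lit 1) (nat_lit 162) (nat_lit 1) (nat_lit 374) (nat_lit 367) (nat_lit 279))))) (XT.nd (nat_lit 156) (nat_lit 380) (nat_lit 0) (XT.nd (nat_lit 78) (nat_lit 0) (nat_lit 0) (XT.lf (nat_lit 228) (nat_lit 2332188930) (nat_lit 0) (nat_lit 357265405) (nat_lit 152) (nat_lit 357265405) (nat_lit 160) (nat_lit 1) (nat_lit 157) (nat_lit 1) (nat_lit 159) (nat_lit 1) (nat_lit 375) (nat_lit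 367) (nat_lit 278)) (XT.lf (nat_lit 76) (nat_lit 717840938) (nat_lit 0) (nat_lit 1579096846) (nat_lit 228) (nat_lit 717840938) (nat_lit 158) (nat_lit 1) (nat_lit 157) (nat_lit 1) (nat_lit 160) (nat_lit 1) (nat_lit 376) (nat_lit 367) (nat_lit 277))) (XT.nd (nat_lit 78) (nat_lit 228) (nat_lit 0) (XT.lf (nat_lit 228) (nat_lit 549805338) (nat_lit 0) (nat_lit 1216755888) (nat_lit 152) (nat_lit 1216755888) (nat_lit 158) (nat_lit 1) (nat_lit 155) (nat_lit 1) (nat_lit 157) (nat_lit 1) (nat_lit 377) (nat_lit 367) (nat_lit 276)) (XT.nd (nat_lit 78) (nat_lit 0) (nat_lit 0) (XT.lf (nat_lit 228) (nat_lit 2639812937) (nat_lit 0) (nat_lit 156308683) (nat_lit 152) (nat_lit 156308683) (nat_lit 155) (nat_lit 1) (nat_lit 152) (nat_lit 1) (nat_lit 154) (nat_lit 1) (nat_lit 378) (nat_lit 367) (nat_lit 275)) (XT.lf (nat_lit 76) (nat_lit 878323822) (nat_lit 0) (nat_lit 1164880263) (nat_lit 228) (nat_lit 878323822) (nat_lit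 153) (nat_lit 1) (nat_lit 152) (nat_lit 1) (nat_lit 155) (nat_lit 1) (nat_lit 379) (nat_lit 367) (nat_lit 274))))))))
noncomputable def ec149 : XT := (XT.nd (nat_lit 1482) (nat_lit 1520) (nat_lit 0) (XT.nd (nat_lit 702) (nat_lit 1064) (nat_lit 0) (XT.nd (nat_lit 312) (nat_lit 456) (nat_lit 0) (XT.nd (nat_lit 156) (nat_lit 304) (nat_lit 0) (XT.nd (nat_lit 78) (nat_lit 0) (nat_lit 0) (XT.lf (nat_lit 228) (nat_lit 887785218) (nat_lit 0) (nat_lit 1001703866) (nat_lit 152) (nat_lit 1001703866) (nat_lit 153) (nat_lit 1) (nat_lit 150) (nat_lit 1) (nat_lit 152) (nat_lit 1) (nat_lit 380) (nat_lit 367) (nat_lit 273)) (XT.lf (nat_lit 76) (nat_lit 17719756) (nat_lit 0) (nat_lit 2826046004) (nat_lit 228) (nat_lit 17719756) (nat_lit 151) (nat_lit 1) (nat_lit 150) (nat_lit 1) (nat_lit 153) (nat_lit 1) (nat_lit 381) (nat_lit 367) (nat_lit 272))) (XT.nd (nat_lit 78) (nat_lit 152) (nat_lit 0) (XT.lf (nat_lit 76) (nat_lit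 1013905015) (nat_lit 0) (nat_lit 803789927) (nat_lit 152) (nat_lit 1013905015) (nat_lit 149) (nat_lit 1) (nat_lit 148) (nat_lit 1) (nat_lit 150) (nat_lit 1) (nat_lit 382) (nat_lit 367) (nat_lit 271)) (XT.lf (nat_lit 228) (nat_lit 1176446150) (nat_lit 0) (nat_lit 812944618) (nat_lit 152) (nat_lit 812944618) (nat_lit 149) (nat_lit 1) (nat_lit 146) (nat_lit 1) (nat_lit 148) (nat_lit 1) (nat_lit 383) (nat_lit 367) (nat_lit 270)))) (XT.nd (nat_lit 156) (nat_lit 304) (nat_lit 0) (XT.nd (nat_lit 78) (nat_lit 152) (nat_lit 0) (XT.lf (nat_lit 76) (nat_lit 169115646) (nat_lit 0) (nat_lit 2435352625) (nat_lit 228) (nat_lit 169115646) (nat_lit 147) (nat_lit 1) (nat_lit 146) (nat_lit 1) (nat_lit 149) (nat_lit 1) (nat_lit 384) (nat_lit 367) (nat_lit 269)) (XT.lf (nat_lit 76) (nat_lit 1127565431) (nat_lit 0) (nat_lit 489699562) (nat_lit 152) (nat_lit 1127565431) (nat_lit 145) (nat_lit 1) (nat_lit 144) (nat_lit 1)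 (nat_lit 146) (nat_lit 1) (nat_lit 385) (nat_lit 367) (nat_lit 268))) (XT.nd (nat_lit 78) (nat_lit 152) (nat_lit 0) (XT.lf (nat_lit 228) (nat_lit 1421626567) (nat_lit 0) (nat_lit 647478829) (nat_lit 152) (nat_lit 647478829) (nat_lit 145) (nat_lit 1) (nat_lit 142) (nat_lit 1) (nat_lit 144) (nat_lit 1) (nat_lit 386) (nat_lit 367) (nat_lit 267)) (XT.nd (nat_lit 78) (nat_lit 152) (nat_lit 0) (XT.lf (nat_lit 76) (nat_lit 299161792) (nat_lit 0) (nat_lit 2090427180) (nat_lit 228) (nat_lit 299161792) (nat_lit 143) (nat_lit 1) (nat_lit 142) (nat_lit 1) (nat_lit 145) (nat_lit 1) (nat_lit 387) (nat_lit 367) (nat_lit 266)) (XT.lf (nat_lit 76) (nat_lit 1221947628) (nat_lit 0) (nat_lit 217171934) (nat_lit 152) (nat_lit 1221947628) (nat_lit 141) (nat_lit 1) (nat_lit 140) (nat_lit 1) (nat_lit 142) (nat_lit 1) (nat_lit 388) (nat_lit 367) (nat_lit 265)))))) (XT.nd (nat_lit 390) (nat_lit 608) (nat_lit 0) (XT.nd (nat_lit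 156) (nat_lit 304) (nat_lit 0) (XT.nd (nat_lit 78) (nat_lit 0) (nat_lit 0) (XT.lf (nat_lit 228) (nat_lit 1628503977) (nat_lit 0) (nat_lit 502643607) (nat_lit 152) (nat_lit 502643607) (nat_lit 141) (nat_lit 1) (nat_lit 138) (nat_lit 1) (nat_lit 140) (nat_lit 1) (nat_lit 389) (nat_lit 367) (nat_lit 264)) (XT.lf (nat_lit 76) (nat_lit 410369078) (nat_lit 0) (nat_lit 1786101858) (nat_lit 228) (nat_lit 410369078) (nat_lit 139) (nat_lit 1) (nat_lit 138) (nat_lit 1) (nat_lit 141) (nat_lit 1) (nat_lit 390) (nat_lit 367) (nat_lit 263))) (XT.nd (nat_lit 78) (nat_lit 228) (nat_lit 0) (XT.lf (nat_lit 152) (nat_lit 18988692) (nat_lit 0) (nat_lit 1280587553) (nat_lit 76) (nat_lit 1280587553) (nat_lit 139) (nat_lit 1) (nat_lit 137) (nat_lit 1) (nat_lit 138) (nat_lit 1) (nat_lit 391) (nat_lit 367) (nat_lit 262)) (XT.nd (nat_lit 78) (nat_lit 0) (nat_lit 0) (XT.lf (nat_lit 228) (nat_lit 1801668948) (nat_lit 0) (nat_lit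 376074911) (nat_lit 152) (nat_lit 376074911) (nat_lit 137) (nat_lit 1) (nat_lit 134) (nat_lit 1) (nat_lit 136) (nat_lit 1) (nat_lit 392) (nat_lit 367) (nat_lit 261)) (XT.lf (nat_lit 76) (nat_lit 504964601) (nat_lit 0) (nat_lit 1517786993) (nat_lit 228) (nat_lit 504964601) (nat_lit 135) (nat_lit 1) (nat_lit 134) (nat_lit 1) (nat_lit 137) (nat_lit 1) (nat_lit 393) (nat_lit 367) (nat_lit 260))))) (XT.nd (nat_lit 156) (nat_lit 304) (nat_lit 0) (XT.nd (nat_lit 78) (nat_lit 228) (nat_lit 0) (XT.lf (nat_lit 152) (nat_lit 226369572) (nat_lit 0) (nat_lit 1137785455) (nat_lit 76) (nat_lit 1137785455) (nat_lit 135) (nat_lit 1) (nat_lit 133) (nat_lit 1) (nat_lit 134) (nat_lit 1) (nat_lit 394) (nat_lit 367) (nat_lit 259)) (XT.lf (nat_lit 228) (nat_lit 1945190842) (nat_lit 0) (nat_lit 265674170) (nat_lit 152) (nat_lit 265674170) (nat_lit 133) (nat_lit 1) (nat_lit 130) (nat_lit 1) (nat_lit 132) (nat_lit 1) (nat_lit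 395) (nat_lit 367) (nat_lit 258))) (XT.nd (nat_lit 78) (nat_lit 304) (nat_lit 0) (XT.lf (nat_lit 76) (nat_lit 584923430) (nat_lit 0) (nat_lit 1281406536) (nat_lit 228) (nat_lit 584923430) (nat_lit 131) (nat_lit 1) (nat_lit 130) (nat_lit 1) (nat_lit 133) (nat_lit 1) (nat_lit 396) (nat_lit 367) (nat_lit 257)) (XT.nd (nat_lit 78) (nat_lit 228) (nat_lit 0) (XT.lf (nat_lit 152) (nat_lit 404522903) (nat_lit 0) (nat_lit 1010907640) (nat_lit 76) (nat_lit 1010907640) (nat_lit 131) (nat_lit 1) (nat_lit 129) (nat_lit 1) (nat_lit 130) (nat_lit 1) (nat_lit 397) (nat_lit 367) (nat_lit 256)) (XT.lf (nat_lit 228) (nat_lit 2062676206) (nat_lit 0) (nat_lit 169578624) (nat_lit 152) (nat_lit 169578624) (nat_lit 129) (nat_lit 1) (nat_lit 126) (nat_lit 1) (nat_lit 128) (nat_lit 1) (nat_lit 398) (nat_lit 367) (nat_lit 255))))))) (XT.nd (nat_lit 702) (nat_lit 836) (nat_lit 0) (XT.nd (nat_lit 312) (nat_lit 380) (nat_lit 0)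 (XT.nd (nat_lit 156) (nat_lit 228) (nat_lit 0) (XT.nd (nat_lit 78) (nat_lit 76) (nat_lit 0) (XT.lf (nat_lit 76) (nat_lit 651996816) (nat_lit 0) (nat_lit 1073340734) (nat_lit 228) (nat_lit 651996816) (nat_lit 127) (nat_lit 1) (nat_lit 126) (nat_lit 1) (nat_lit 129) (nat_lit 1) (nat_lit 399) (nat_lit 367) (nat_lit 254)) (XT.lf (nat_lit 152) (nat_lit 556885662) (nat_lit 0) (nat_lit 898178344) (nat_lit 76) (nat_lit 898178344) (nat_lit 127) (nat_lit 1) (nat_lit 125) (nat_lit 1) (nat_lit 126) (nat_lit 1) (nat_lit 400) (nat_lit 367) (nat_lit 253))) (XT.nd (nat_lit 78) (nat_lit 0) (nat_lit 0) (XT.lf (nat_lit 228) (nat_lit 2157320644) (nat_lit 0) (nat_lit 86134979) (nat_lit 152) (nat_lit 86134979) (nat_lit 125) (nat_lit 1) (nat_lit 122) (nat_lit 1) (nat_lit 124) (nat_lit 1) (nat_lit 401) (nat_lit 367) (nat_lit 252)) (XT.lf (nat_lit 76) (nat_lit 707737255) (nat_lit 0) (nat_lit 890375188) (nat_lit 228) (nat_lit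 707737255) (nat_lit 123) (nat_lit 1) (nat_lit 122) (nat_lit 1) (nat_lit 125) (nat_lit 1) (nat_lit 402) (nat_lit 367) (nat_lit 251)))) (XT.nd (nat_lit 156) (nat_lit 76) (nat_lit 0) (XT.nd (nat_lit 78) (nat_lit 228) (nat_lit 0) (XT.lf (nat_lit 152) (nat_lit 686506379) (nat_lit 0) (nat_lit 798019826) (nat_lit 76) (nat_lit 798019826) (nat_lit 123) (nat_lit 1) (nat_lit 121) (nat_lit 1) (nat_lit 122) (nat_lit 1) (nat_lit 403) (nat_lit 367) (nat_lit 250)) (XT.lf (nat_lit 228) (nat_lit 2231954898) (nat_lit 0) (nat_lit 13875996) (nat_lit 152) (nat_lit 13875996) (nat_lit 121) (nat_lit 1) (nat_lit 118) (nat_lit 1) (nat_lit 120) (nat_lit 1) (nat_lit 404) (nat_lit 367) (nat_lit 249))) (XT.nd (nat_lit 78) (nat_lit 76) (nat_lit 0) (XT.lf (nat_lit 76) (nat_lit 753520753) (nat_lit 0) (nat_lit 729655606) (nat_lit 228) (nat_lit 753520753) (nat_lit 119) (nat_lit 1) (nat_lit 118) (nat_lit 1) (nat_lit 121) (nat_lit 1) (nat_lit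 405) (nat_lit 367) (nat_lit 248)) (XT.nd (nat_lit 78) (nat_lit 0) (nat_lit 0) (XT.lf (nat_lit 152) (nat_lit 796088609) (nat_lit 0) (nat_lit 709030279) (nat_lit 76) (nat_lit 709030279) (nat_lit 119) (nat_lit 1) (nat_lit 117) (nat_lit 1) (nat_lit 118) (nat_lit 1) (nat_lit 406) (nat_lit 367) (nat_lit 247)) (XT.lf (nat_lit 0) (nat_lit 48980507) (nat_lit 0) (nat_lit 2094067372) (nat_lit 152) (nat_lit 48980507) (nat_lit 117) (nat_lit 3) (nat_lit 117) (nat_lit 1) (nat_lit 119) (nat_lit 1) (nat_lit 407) (nat_lit 367) (nat_lit 246)))))) (XT.nd (nat_lit 390) (nat_lit 380) (nat_lit 0) (XT.nd (nat_lit 156) (nat_lit 228) (nat_lit 0) (XT.nd (nat_lit 78) (nat_lit 76) (nat_lit 0) (XT.lf (nat_lit 76) (nat_lit 790566602) (nat_lit 0) (nat_lit 588647599) (nat_lit 152) (nat_lit 790566602) (nat_lit 116) (nat_lit 1) (nat_lit 115) (nat_lit 1) (nat_lit 117) (nat_lit 1) (nat_lit 408) (nat_lit 367) (nat_lit 245)) (XT.lf (nat_lit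 152) (nat_lit 888029548) (nat_lit 0) (nat_lit 629964219) (nat_lit 76) (nat_lit 629964219) (nat_lit 116) (nat_lit 1) (nat_lit 114) (nat_lit 1) (nat_lit 115) (nat_lit 1) (nat_lit 409) (nat_lit 367) (nat_lit 244))) (XT.nd (nat_lit 78) (nat_lit 228) (nat_lit 0) (XT.lf (nat_lit 0) (nat_lit 103160503) (nat_lit 0) (nat_lit 1920193694) (nat_lit 152) (nat_lit 103160503) (nat_lit 114) (nat_lit 3) (nat_lit 114) (nat_lit 1) (nat_lit 116) (nat_lit 1) (nat_lit 410) (nat_lit 367) (nat_lit 243)) (XT.nd (nat_lit 78) (nat_lit 76) (nat_lit 0) (XT.lf (nat_lit 76) (nat_lit 819954956) (nat_lit 0) (nat_lit 465100954) (nat_lit 152) (nat_lit 819954956) (nat_lit 113) (nat_lit 1) (nat_lit 112) (nat_lit 1) (nat_lit 114) (nat_lit 1) (nat_lit 411) (nat_lit 367) (nat_lit 242)) (XT.lf (nat_lit 152) (nat_lit 964454334) (nat_lit 0) (nat_lit 559715050) (nat_lit 76) (nat_lit 559715050) (nat_lit 113) (nat_lit 1) (nat_lit 111) (nat_lit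 1) (nat_lit 112) (nat_lit 1) (nat_lit 412) (nat_lit 367) (nat_lit 241))))) (XT.nd (nat_lit 156) (nat_lit 228) (nat_lit 0) (XT.nd (nat_lit 78) (nat_lit 152) (nat_lit 0) (XT.lf (nat_lit 0) (nat_lit 149561583) (nat_lit 0) (nat_lit 1763972039) (nat_lit 152) (nat_lit 149561583) (nat_lit 111) (nat_lit 3) (nat_lit 111) (nat_lit 1) (nat_lit 113) (nat_lit 1) (nat_lit 413) (nat_lit 367) (nat_lit 240)) (XT.lf (nat_lit 76) (nat_lit 842642435) (nat_lit 0) (nat_lit 357017909) (nat_lit 152) (nat_lit 842642435) (nat_lit 110) (nat_lit 1) (nat_lit 109) (nat_lit 1) (nat_lit 111) (nat_lit 1) (nat_lit 414) (nat_lit 367) (nat_lit 239))) (XT.nd (nat_lit 78) (nat_lit 152) (nat_lit 0) (XT.lf (nat_lit 152) (nat_lit 1027246526) (nat_lit 0) (nat_lit 497299572) (nat_lit 76) (nat_lit 497299572) (nat_lit 110) (nat_lit 1) (nat_lit 108) (nat_lit 1) (nat_lit 109) (nat_lit 1) (nat_lit 415) (nat_lit 367) (nat_lit 238)) (XT.nd (nat_lit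 78) (nat_lit 152) (nat_lit 0) (XT.lf (nat_lit 0) (nat_lit 189101794) (nat_lit 0) (nat_lit 1623484575) (nat_lit 152) (nat_lit 189101794) (nat_lit 108) (nat_lit 3) (nat_lit 108) (nat_lit 1) (nat_lit 110) (nat_lit 1) (nat_lit 416) (nat_lit 367) (nat_lit 237)) (XT.lf (nat_lit 76) (nat_lit 859475994) (nat_lit 0) (nat_lit 262624949) (nat_lit 152) (nat_lit 859475994) (nat_lit 107) (nat_lit 1) (nat_lit 106) (nat_lit 1) (nat_lit 108) (nat_lit 1) (nat_lit 417) (nat_lit 367) (nat_lit 236))))))))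
noncomputable def ec150 : XT := (XT.nd (nat_lit 42822) (nat_lit 0) (nat_lit 19456) (XT.nd (nat_lit 702) (nat_lit 532) (nat_lit 0) (XT.nd (nat_lit 312) (nat_lit 380) (nat_lit 0) (XT.nd (nat_lit 156) (nat_lit 228) (nat_lit 0) (XT.nd (nat_lit 78) (nat_lit 0) (nat_lit 0) (XT.lf (nat_lit 152) (nat_lit 1078075177) (nat_lit 0) (nat_lit 441844229) (nat_lit 76) (nat_lit 441844229) (nat_lit 107) (nat_lit 1) (nat_lit 105) (nat_lit 1) (nat_lit 106) (nat_lit 1) (nat_lit 418) (nat_lit 367) (nat_lit 235)) (XT.lf (nat_lit 0) (nat_lit 222595334) (nat_lit 0) (nat_lit 1497025856) (nat_lit 152) (nat_lit 222595334) (nat_lit 105) (nat_lit 3) (nat_lit 105) (nat_lit 1) (nat_lit 107) (nat_lit 1) (nat_lit 419) (nat_lit 367) (nat_lit 234))) (XT.nd (nat_lit 78) (nat_lit 76) (nat_lit 0) (XT.lf (nat_lit 76) (nat_lit 871205234) (nat_lit 0) (nat_lit 180347759) (nat_lit 152) (nat_lit 871205234) (nat_lit 104) (nat_lit 1) (nat_lit 103)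 (nat_lit 1) (nat_lit 105) (nat_lit 1) (nat_lit 420) (nat_lit 367) (nat_lit 233)) (XT.lf (nat_lit 152) (nat_lit 1118418884) (nat_lit 0) (nat_lit 392572874) (nat_lit 76) (nat_lit 392572874) (nat_lit 104) (nat_lit 1) (nat_lit 102) (nat_lit 1) (nat_lit 103) (nat_lit 1) (nat_lit 421) (nat_lit 367) (nat_lit 232)))) (XT.nd (nat_lit 156) (nat_lit 228) (nat_lit 0) (XT.nd (nat_lit 78) (nat_lit 152) (nat_lit 0) (XT.lf (nat_lit 0) (nat_lit 250764178) (nat_lit 0) (nat_lit 1383079190) (nat_lit 152) (nat_lit 250764178) (nat_lit 102) (nat_lit 3) (nat_lit 102) (nat_lit 1) (nat_lit 104) (nat_lit 1) (nat_lit 422) (nat_lit 367) (nat_lit 231)) (XT.lf (nat_lit 76) (nat_lit 878493349) (nat_lit 0) (nat_lit 108788972) (nat_lit 152) (nat_lit 878493349) (nat_lit 101) (nat_lit 1) (nat_lit 100) (nat_lit 1) (nat_lit 102) (nat_lit 1) (nat_lit 423) (nat_lit 367) (nat_lit 230))) (XT.nd (nat_lit 78) (nat_lit 152) (nat_lit 0) (XT.lf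 (nat_lit 152) (nat_lit 1149587151) (nat_lit 0) (nat_lit 348795914) (nat_lit 76) (nat_lit 348795914) (nat_lit 101) (nat_lit 1) (nat_lit 99) (nat_lit 1) (nat_lit 100) (nat_lit 1) (nat_lit 424) (nat_lit 367) (nat_lit 229)) (XT.nd (nat_lit 78) (nat_lit 152) (nat_lit 0) (XT.lf (nat_lit 0) (nat_lit 274248400) (nat_lit 0) (nat_lit 1280295623) (nat_lit 152) (nat_lit 274248400) (nat_lit 99) (nat_lit 3) (nat_lit 99) (nat_lit 1) (nat_lit 101) (nat_lit 1) (nat_lit 425) (nat_lit 367) (nat_lit 228)) (XT.lf (nat_lit 76) (nat_lit 881926838) (nat_lit 0) (nat_lit 46708392) (nat_lit 152) (nat_lit 881926838) (nat_lit 98) (nat_lit 1) (nat_lit 97) (nat_lit 1) (nat_lit 99) (nat_lit 1) (nat_lit 426) (nat_lit 367) (nat_lit 227)))))) (XT.nd (nat_lit 390) (nat_lit 228) (nat_lit 0) (XT.nd (nat_lit 156) (nat_lit 228) (nat_lit 0) (XT.nd (nat_lit 78) (nat_lit 0) (nat_lit 0) (XT.lf (nat_lit 152) (nat_lit 1172739370) (nat_lit 0) (nat_lit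 309900652) (nat_lit 76) (nat_lit 309900652) (nat_lit 98) (nat_lit 1) (nat_lit 96) (nat_lit 1) (nat_lit 97) (nat_lit 1) (nat_lit 427) (nat_lit 367) (nat_lit 226)) (XT.lf (nat_lit 0) (nat_lit 293615351) (nat_lit 0) (nat_lit 1187475278) (nat_lit 152) (nat_lit 293615351) (nat_lit 96) (nat_lit 3) (nat_lit 96) (nat_lit 1) (nat_lit 98) (nat_lit 1) (nat_lit 428) (nat_lit 367) (nat_lit 225))) (XT.nd (nat_lit 78) (nat_lit 152) (nat_lit 0) (XT.lf (nat_lit 76) (nat_lit 7133772) (nat_lit 0) (nat_lit 874958944) (nat_lit 76) (nat_lit 874958944) (nat_lit 96) (nat_lit 3) (nat_lit 95) (nat_lit 1) (nat_lit 96) (nat_lit 1) (nat_lit 429) (nat_lit 367) (nat_lit 224)) (XT.nd (nat_lit 78) (nat_lit 0) (nat_lit 0) (XT.lf (nat_lit 152) (nat_lit 1188901679) (nat_lit 0) (nat_lit 275342715) (nat_lit 76) (nat_lit 275342715) (nat_lit 95) (nat_lit 1) (nat_lit 93) (nat_lit 1) (nat_lit 94) (nat_lit 1) (nat_lit 430) (nat_lit 367) (nat_lit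 223)) (XT.lf (nat_lit 0) (nat_lit 309367806) (nat_lit 0) (nat_lit 1103550773) (nat_lit 152) (nat_lit 309367806) (nat_lit 93) (nat_lit 3) (nat_lit 93) (nat_lit 1) (nat_lit 95) (nat_lit 1) (nat_lit 431) (nat_lit 367) (nat_lit 222))))) (XT.nd (nat_lit 156) (nat_lit 0) (nat_lit 0) (XT.nd (nat_lit 78) (nat_lit 152) (nat_lit 0) (XT.lf (nat_lit 76) (nat_lit 54357198) (nat_lit 0) (nat_lit 825408623) (nat_lit 76) (nat_lit 825408623) (nat_lit 93) (nat_lit 3) (nat_lit 92) (nat_lit 1) (nat_lit 93) (nat_lit 1) (nat_lit 432) (nat_lit 367) (nat_lit 221)) (XT.lf (nat_lit 152) (nat_lit 1198981935) (nat_lit 0) (nat_lit 244638436) (nat_lit 76) (nat_lit 244638436) (nat_lit 92) (nat_lit 1) (nat_lit 90) (nat_lit 1) (nat_lit 91) (nat_lit 1) (nat_lit 433) (nat_lit 367) (nat_lit 220))) (XT.nd (nat_lit 41418) (nat_lit 0) (nat_lit 21584) (XT.lf (nat_lit 0) (nat_lit 321951200) (nat_lit 0) (nat_lit 1027572480) (nat_lit 152) (nat_lit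 321951200) (nat_lit 90) (nat_lit 3) (nat_lit 90) (nat_lit 1) (nat_lit 92) (nat_lit 1) (nat_lit 434) (nat_lit 367) (nat_lit 219)) (XT.nd (nat_lit 78) (nat_lit 0) (nat_lit 0) (XT.lf (nat_lit 1292) (nat_lit 853310263) (nat_lit 0) (nat_lit 2935784153) (nat_lit 1292) (nat_lit 853310263) (nat_lit 391) (nat_lit 1) (nat_lit 374) (nat_lit 0) (nat_lit 391) (nat_lit 0) (nat_lit 284) (nat_lit 368) (nat_lit 368)) (XT.lf (nat_lit 1292) (nat_lit 3334751460) (nat_lit 76) (nat_lit 2907001955) (nat_lit 0) (nat_lit 2907001955) (nat_lit 391) (nat_lit 1) (nat_lit 375) (nat_lit 1) (nat_lit 374) (nat_lit 0) (nat_lit 285) (nat_lit 368) (nat_lit 367))))))) (XT.nd (nat_lit 702) (nat_lit 2204) (nat_lit 0) (XT.nd (nat_lit 312) (nat_lit 0) (nat_lit 152) (XT.nd (nat_lit 156) (nat_lit 0) (nat_lit 76) (XT.nd (nat_lit 78) (nat_lit 0) (nat_lit 0) (XT.lf (nat_lit 1292) (nat_lit 1612765316) (nat_lit 0) (nat_lit 5790171820) (nat_lit 1216)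 (nat_lit 1612765316) (nat_lit 392) (nat_lit 1) (nat_lit 375) (nat_lit 1) (nat_lit 391) (nat_lit 1) (nat_lit 286) (nat_lit 368) (nat_lit 366)) (XT.lf (nat_lit 1292) (nat_lit 3062724603) (nat_lit 76) (nat_lit 2911073434) (nat_lit 0) (nat_lit 2911073434) (nat_lit 392) (nat_lit 1) (nat_lit 376) (nat_lit 1) (nat_lit 375) (nat_lit 1) (nat_lit 287) (nat_lit 368) (nat_lit 365))) (XT.nd (nat_lit 78) (nat_lit 0) (nat_lit 0) (XT.lf (nat_lit 1292) (nat_lit 1437168245) (nat_lit 0) (nat_lit 5882631386) (nat_lit 1216) (nat_lit 1437168245) (nat_lit 393) (nat_lit 1) (nat_lit 376) (nat_lit 1) (nat_lit 392) (nat_lit 1) (nat_lit 288) (nat_lit 368) (nat_lit 364)) (XT.lf (nat_lit 1292) (nat_lit 2633762554) (nat_lit 76) (nat_lit 2998673642) (nat_lit 0) (nat_lit 2998673642) (nat_lit 393) (nat_lit 1) (nat_lit 377) (nat_lit 1) (nat_lit 376) (nat_lit 1) (nat_lit 289) (nat_lit 368) (nat_lit 363)))) (XT.nd (nat_lit 156) (nat_lit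 0) (nat_lit 76) (XT.nd (nat_lit 78) (nat_lit 0) (nat_lit 0) (XT.lf (nat_lit 1292) (nat_lit 1187059384) (nat_lit 0) (nat_lit 6134039279) (nat_lit 1216) (nat_lit 1187059384) (nat_lit 394) (nat_lit 1) (nat_lit 377) (nat_lit 1) (nat_lit 393) (nat_lit 1) (nat_lit 290) (nat_lit 368) (nat_lit 362)) (XT.lf (nat_lit 1292) (nat_lit 2061899783) (nat_lit 76) (nat_lit 3162568006) (nat_lit 0) (nat_lit 3162568006) (nat_lit 394) (nat_lit 1) (nat_lit 378) (nat_lit 1) (nat_lit 377) (nat_lit 1) (nat_lit 291) (nat_lit 368) (nat_lit 361))) (XT.nd (nat_lit 78) (nat_lit 0) (nat_lit 0) (XT.lf (nat_lit 1292) (nat_lit 869179853) (nat_lit 0) (nat_lit 6530487063) (nat_lit 1216) (nat_lit 869179853) (nat_lit 395) (nat_lit 1) (nat_lit 378) (nat_lit 1) (nat_lit 394) (nat_lit 1) (nat_lit 292) (nat_lit 368) (nat_lit 360)) (XT.nd (nat_lit 78) (nat_lit 0) (nat_lit 76) (XT.lf (nat_lit 1292) (nat_lit 1360218742) (nat_lit 76) (nat_lit 3396008305)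 (nat_lit 0) (nat_lit 3396008305) (nat_lit 395) (nat_lit 1) (nat_lit 379) (nat_lit 1) (nat_lit 378) (nat_lit 1) (nat_lit 293) (nat_lit 368) (nat_lit 359)) (XT.lf (nat_lit 1292) (nat_lit 489812040) (nat_lit 0) (nat_lit 7059004047) (nat_lit 1216) (nat_lit 489812040) (nat_lit 396) (nat_lit 1) (nat_lit 379) (nat_lit 1) (nat_lit 395) (nat_lit 1) (nat_lit 294) (nat_lit 368) (nat_lit 358)))))) (XT.nd (nat_lit 390) (nat_lit 1292) (nat_lit 0) (XT.nd (nat_lit 156) (nat_lit 1216) (nat_lit 0) (XT.nd (nat_lit 78) (nat_lit 0) (nat_lit 76) (XT.lf (nat_lit 1292) (nat_lit 540908780) (nat_lit 76) (nat_lit 3692702683) (nat_lit 0) (nat_lit 3692702683) (nat_lit 396) (nat_lit 1) (nat_lit 380) (nat_lit 1) (nat_lit 379) (nat_lit 1) (nat_lit 295) (nat_lit 368) (nat_lit 357)) (XT.lf (nat_lit 1292) (nat_lit 54808030) (nat_lit 0) (nat_lit 7707499397) (nat_lit 1216) (nat_lit 54808030) (nat_lit 397) (nat_lit 1) (nat_lit 380) (nat_lit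 1) (nat_lit 396) (nat_lit 1) (nat_lit 296) (nat_lit 368) (nat_lit 356))) (XT.nd (nat_lit 78) (nat_lit 0) (nat_lit 0) (XT.lf (nat_lit 1368) (nat_lit 3665806752) (nat_lit 0) (nat_lit 377171990) (nat_lit 1292) (nat_lit 3665806752) (nat_lit 381) (nat_lit 1) (nat_lit 363) (nat_lit 1) (nat_lit 380) (nat_lit 1) (nat_lit 297) (nat_lit 368) (nat_lit 355)) (XT.nd (nat_lit 78) (nat_lit 0) (nat_lit 76) (XT.lf (nat_lit 1368) (nat_lit 6751112937) (nat_lit 76) (nat_lit 426164223) (nat_lit 0) (nat_lit 426164223) (nat_lit 381) (nat_lit 1) (nat_lit 364) (nat_lit 1) (nat_lit 363) (nat_lit 1) (nat_lit 298) (nat_lit 368) (nat_lit 354)) (XT.lf (nat_lit 1368) (nat_lit 3060338725) (nat_lit 0) (nat_lit 1378541221) (nat_lit 1292) (nat_lit 3060338725) (nat_lit 382) (nat_lit 1) (nat_lit 364) (nat_lit 1) (nat_lit 381) (nat_lit 1) (nat_lit 299) (nat_lit 368) (nat_lit 353))))) (XT.nd (nat_lit 156) (nat_lit 1368) (nat_lit 0) (XT.nd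 (nat_lit 78) (nat_lit 0) (nat_lit 76) (XT.lf (nat_lit 1368) (nat_lit 5495089052) (nat_lit 76) (nat_lit 951274438) (nat_lit 0) (nat_lit 951274438) (nat_lit 382) (nat_lit 1) (nat_lit 365) (nat_lit 1) (nat_lit 364) (nat_lit 1) (nat_lit 300) (nat_lit 368) (nat_lit 352)) (XT.lf (nat_lit 76) (nat_lit 2416657426) (nat_lit 0) (nat_lit 2464116331) (nat_lit 1292) (nat_lit 2416657426) (nat_lit 366) (nat_lit 1) (nat_lit 365) (nat_lit 1) (nat_lit 382) (nat_lit 1) (nat_lit 301) (nat_lit 368) (nat_lit 351))) (XT.nd (nat_lit 78) (nat_lit 608) (nat_lit 0) (XT.lf (nat_lit 912) (nat_lit 4166657627) (nat_lit 0) (nat_lit 1516390911) (nat_lit 836) (nat_lit 1516390911) (nat_lit 366) (nat_lit 1) (nat_lit 354) (nat_lit 1) (nat_lit 365) (nat_lit 1) (nat_lit 302) (nat_lit 368) (nat_lit 350)) (XT.nd (nat_lit 78) (nat_lit 608) (nat_lit 0) (XT.lf (nat_lit 76) (nat_lit 1739081783) (nat_lit 0) (nat_lit 3624936705) (nat_lit 912) (nat_lit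 1739081783) (nat_lit 355) (nat_lit 1) (nat_lit 354) (nat_lit 1) (nat_lit 366) (nat_lit 1) (nat_lit 303) (nat_lit 368) (nat_lit 349)) (XT.lf (nat_lit 684) (nat_lit 2774184135) (nat_lit 0) (nat_lit 2117173924) (nat_lit 608) (nat_lit 2117173924) (nat_lit 355) (nat_lit 1) (nat_lit 346) (nat_lit 1) (nat_lit 354) (nat_lit 1) (nat_lit 304) (nat_lit 368) (nat_lit 348))))))))
noncomputable def ec151 : XT := (XT.nd (nat_lit 1482) (nat_lit 3952) (nat_lit 0) (XT.nd (nat_lit 702) (nat_lit 2888) (nat_lit 0) (XT.nd (nat_lit 312) (nat_lit 1672) (nat_lit 0) (XT.nd (nat_lit 156) (nat_lit 608) (nat_lit 0) (XT.nd (nat_lit 78) (nat_lit 608) (nat_lit 0) (XT.lf (nat_lit 76) (nat_lit 1031620894) (nat_lit 0) (nat_lit 4852676307) (nat_lit 684) (nat_lit 1031620894) (nat_lit 347) (nat_lit 1) (nat_lit 346) (nat_lit 1) (nat_lit 355) (nat_lit 1) (nat_lit 305) (nat_lit 368) (nat_lit 347)) (XT.lf (nat_lit 684) (nat_lit 1325431244)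 (nat_lit 0) (nat_lit 2749592385) (nat_lit 608) (nat_lit 2749592385) (nat_lit 347) (nat_lit 1) (nat_lit 338) (nat_lit 1) (nat_lit 346) (nat_lit 1) (nat_lit 306) (nat_lit 368) (nat_lit 346))) (XT.nd (nat_lit 78) (nat_lit 608) (nat_lit 0) (XT.lf (nat_lit 76) (nat_lit 297993622) (nat_lit 0) (nat_lit 6139603745) (nat_lit 684) (nat_lit 297993622) (nat_lit 339) (nat_lit 1) (nat_lit 338) (nat_lit 1) (nat_lit 347) (nat_lit 1) (nat_lit 307) (nat_lit 368) (nat_lit 345)) (XT.lf (nat_lit 76) (nat_lit 3239158619) (nat_lit 0) (nat_lit 169038801) (nat_lit 608) (nat_lit 3239158619) (nat_lit 331) (nat_lit 1) (nat_lit 330) (nat_lit 1) (nat_lit 338) (nat_lit 1) (nat_lit 308) (nat_lit 368) (nat_lit 344)))) (XT.nd (nat_lit 156) (nat_lit 1064) (nat_lit 0) (XT.nd (nat_lit 78) (nat_lit 0) (nat_lit 0) (XT.lf (nat_lit 684) (nat_lit 5653588676) (nat_lit 0) (nat_lit 453859341) (nat_lit 608) (nat_lit 453859341) (nat_lit 331) (nat_lit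 1) (nat_lit 322) (nat_lit 1) (nat_lit 330) (nat_lit 1) (nat_lit 309) (nat_lit 368) (nat_lit 343)) (XT.lf (nat_lit 76) (nat_lit 2398452603) (nat_lit 0) (nat_lit 1679229369) (nat_lit 684) (nat_lit 2398452603) (nat_lit 323) (nat_lit 1) (nat_lit 322) (nat_lit 1) (nat_lit 331) (nat_lit 1) (nat_lit 310) (nat_lit 368) (nat_lit 342))) (XT.nd (nat_lit 78) (nat_lit 532) (nat_lit 0) (XT.lf (nat_lit 608) (nat_lit 3948710651) (nat_lit 0) (nat_lit 1222126199) (nat_lit 532) (nat_lit 1222126199) (nat_lit 323) (nat_lit 1) (nat_lit 315) (nat_lit 1) (nat_lit 322) (nat_lit 1) (nat_lit 311) (nat_lit 368) (nat_lit 341)) (XT.nd (nat_lit 78) (nat_lit 532) (nat_lit 0) (XT.lf (nat_lit 76) (nat_lit 1543062322) (nat_lit 0) (nat_lit 3224950625) (nat_lit 608) (nat_lit 1543062322) (nat_lit 316) (nat_lit 1) (nat_lit 315) (nat_lit 1) (nat_lit 323) (nat_lit 1) (nat_lit 312) (nat_lit 368) (nat_lit 340)) (XT.lf (nat_lit 608) (nat_lit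 2217045341) (nat_lit 0) (nat_lit 2006803171) (nat_lit 532) (nat_lit 2006803171) (nat_lit 316) (nat_lit 1) (nat_lit 308) (nat_lit 1) (nat_lit 315) (nat_lit 1) (nat_lit 313) (nat_lit 368) (nat_lit 339)))))) (XT.nd (nat_lit 390) (nat_lit 1368) (nat_lit 0) (XT.nd (nat_lit 156) (nat_lit 1064) (nat_lit 0) (XT.nd (nat_lit 78) (nat_lit 456) (nat_lit 0) (XT.lf (nat_lit 76) (nat_lit 675664041) (nat_lit 0) (nat_lit 4800603103) (nat_lit 608) (nat_lit 675664041) (nat_lit 309) (nat_lit 1) (nat_lit 308) (nat_lit 1) (nat_lit 316) (nat_lit 1) (nat_lit 314) (nat_lit 368) (nat_lit 338)) (XT.lf (nat_lit 532) (nat_lit 463761153) (nat_lit 0) (nat_lit 2805185773) (nat_lit 456) (nat_lit 2805185773) (nat_lit 309) (nat_lit 1) (nat_lit 302) (nat_lit 1) (nat_lit 308) (nat_lit 1) (nat_lit 315) (nat_lit 368) (nat_lit 337))) (XT.nd (nat_lit 78) (nat_lit 456) (nat_lit 0) (XT.lf (nat_lit 608) (nat_lit 5599633629) (nat_lit 0) (nat_lit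 199299738) (nat_lit 532) (nat_lit 199299738) (nat_lit 302) (nat_lit 1) (nat_lit 294) (nat_lit 1) (nat_lit 301) (nat_lit 1) (nat_lit 316) (nat_lit 368) (nat_lit 336)) (XT.nd (nat_lit 78) (nat_lit 456) (nat_lit 0) (XT.lf (nat_lit 76) (nat_lit 2320957840) (nat_lit 0) (nat_lit 1280883842) (nat_lit 608) (nat_lit 2320957840) (nat_lit 295) (nat_lit 1) (nat_lit 294) (nat_lit 1) (nat_lit 302) (nat_lit 1) (nat_lit 317) (nat_lit 368) (nat_lit 335)) (XT.lf (nat_lit 532) (nat_lit 3699534746) (nat_lit 0) (nat_lit 1074831266) (nat_lit 456) (nat_lit 1074831266) (nat_lit 295) (nat_lit 1) (nat_lit 288) (nat_lit 1) (nat_lit 294) (nat_lit 1) (nat_lit 318) (nat_lit 368) (nat_lit 334))))) (XT.nd (nat_lit 156) (nat_lit 912) (nat_lit 0) (XT.nd (nat_lit 78) (nat_lit 456) (nat_lit 0) (XT.lf (nat_lit 76) (nat_lit 1373986371) (nat_lit 0) (nat_lit 3028699180) (nat_lit 532) (nat_lit 1373986371) (nat_lit 289) (nat_lit 1) (nat_lit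 288) (nat_lit 1) (nat_lit 295) (nat_lit 1) (nat_lit 319) (nat_lit 368) (nat_lit 333)) (XT.lf (nat_lit 532) (nat_lit 1794433007) (nat_lit 0) (nat_lit 1955480549) (nat_lit 456) (nat_lit 1955480549) (nat_lit 289) (nat_lit 1) (nat_lit 282) (nat_lit 1) (nat_lit 288) (nat_lit 1) (nat_lit 320) (nat_lit 368) (nat_lit 332))) (XT.nd (nat_lit 78) (nat_lit 912) (nat_lit 0) (XT.lf (nat_lit 76) (nat_lit 425449805) (nat_lit 0) (nat_lit 4784775257) (nat_lit 532) (nat_lit 425449805) (nat_lit 283) (nat_lit 1) (nat_lit 282) (nat_lit 1) (nat_lit 289) (nat_lit 1) (nat_lit 321) (nat_lit 368) (nat_lit 331)) (XT.nd (nat_lit 78) (nat_lit 456) (nat_lit 0) (XT.lf (nat_lit 76) (nat_lit 2728356306) (nat_lit 0) (nat_lit 109875061) (nat_lit 456) (nat_lit 2728356306) (nat_lit 277) (nat_lit 1) (nat_lit 276) (nat_lit 1) (nat_lit 282) (nat_lit 1) (nat_lit 322) (nat_lit 368) (nat_lit 330)) (XT.lf (nat_lit 532) (nat_lit 4463389818) (nat_lit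 0) (nat_lit 517806330) (nat_lit 456) (nat_lit 517806330) (nat_lit 277) (nat_lit 1) (nat_lit 270) (nat_lit 1) (nat_lit 276) (nat_lit 1) (nat_lit 323) (nat_lit 368) (nat_lit 329))))))) (XT.nd (nat_lit 702) (nat_lit 2052) (nat_lit 0) (XT.nd (nat_lit 312) (nat_lit 1140) (nat_lit 0) (XT.nd (nat_lit 156) (nat_lit 380) (nat_lit 0) (XT.nd (nat_lit 78) (nat_lit 380) (nat_lit 0) (XT.lf (nat_lit 76) (nat_lit 1727403389) (nat_lit 0) (nat_lit 1977291861) (nat_lit 532) (nat_lit 1727403389) (nat_lit 271) (nat_lit 1) (nat_lit 270) (nat_lit 1) (nat_lit 277) (nat_lit 1) (nat_lit 324) (nat_lit 368) (nat_lit 328)) (XT.lf (nat_lit 456) (nat_lit 2456214728) (nat_lit 0) (nat_lit 1455182054) (nat_lit 380) (nat_lit 1455182054) (nat_lit 271) (nat_lit 1) (nat_lit 265) (nat_lit 1) (nat_lit 270) (nat_lit 1) (nat_lit 325) (nat_lit 368) (nat_lit 327))) (XT.nd (nat_lit 78) (nat_lit 380) (nat_lit 0) (XT.lf (nat_lit 76) (nat_lit 731194463)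 (nat_lit 0) (nat_lit 3839870133) (nat_lit 456) (nat_lit 731194463) (nat_lit 266) (nat_lit 1) (nat_lit 265) (nat_lit 1) (nat_lit 271) (nat_lit 1) (nat_lit 326) (nat_lit 368) (nat_lit 326)) (XT.lf (nat_lit 456) (nat_lit 459863721) (nat_lit 0) (nat_lit 2389426237) (nat_lit 380) (nat_lit 2389426237) (nat_lit 266) (nat_lit 1) (nat_lit 260) (nat_lit 1) (nat_lit 265) (nat_lit 1) (nat_lit 327) (nat_lit 368) (nat_lit 325)))) (XT.nd (nat_lit 156) (nat_lit 684) (nat_lit 0) (XT.nd (nat_lit 78) (nat_lit 0) (nat_lit 0) (XT.lf (nat_lit 456) (nat_lit 4663654952) (nat_lit 0) (nat_lit 256468124) (nat_lit 380) (nat_lit 256468124) (nat_lit 260) (nat_lit 1) (nat_lit 254) (nat_lit 1) (nat_lit 259) (nat_lit 1) (nat_lit 328) (nat_lit 368) (nat_lit 324)) (XT.lf (nat_lit 76) (nat_lit 1810641054) (nat_lit 0) (nat_lit 1493519915) (nat_lit 456) (nat_lit 1810641054) (nat_lit 255) (nat_lit 1) (nat_lit 254) (nat_lit 1) (nat_lit 260)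 (nat_lit 1) (nat_lit 329) (nat_lit 368) (nat_lit 323))) (XT.nd (nat_lit 78) (nat_lit 304) (nat_lit 0) (XT.lf (nat_lit 456) (nat_lit 2594627289) (nat_lit 0) (nat_lit 1229879383) (nat_lit 380) (nat_lit 1229879383) (nat_lit 255) (nat_lit 1) (nat_lit 249) (nat_lit 1) (nat_lit 254) (nat_lit 1) (nat_lit 330) (nat_lit 368) (nat_lit 322)) (XT.nd (nat_lit 78) (nat_lit 304) (nat_lit 0) (XT.lf (nat_lit 76) (nat_lit 786092828) (nat_lit 0) (nat_lit 3422795884) (nat_lit 456) (nat_lit 786092828) (nat_lit 250) (nat_lit 1) (nat_lit 249) (nat_lit 1) (nat_lit 255) (nat_lit 1) (nat_lit 331) (nat_lit 368) (nat_lit 321)) (XT.lf (nat_lit 380) (nat_lit 545967056) (nat_lit 0) (nat_lit 2195181408) (nat_lit 304) (nat_lit 2195181408) (nat_lit 250) (nat_lit 1) (nat_lit 245) (nat_lit 1) (nat_lit 249) (nat_lit 1) (nat_lit 332) (nat_lit 368) (nat_lit 320)))))) (XT.nd (nat_lit 390) (nat_lit 988) (nat_lit 0) (XT.nd (nat_lit 156) (nat_lit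 608) (nat_lit 0) (XT.nd (nat_lit 78) (nat_lit 0) (nat_lit 0) (XT.lf (nat_lit 456) (nat_lit 4427665875) (nat_lit 0) (nat_lit 225649494) (nat_lit 380) (nat_lit 225649494) (nat_lit 245) (nat_lit 1) (nat_lit 239) (nat_lit 1) (nat_lit 244) (nat_lit 1) (nat_lit 333) (nat_lit 368) (nat_lit 319)) (XT.lf (nat_lit 76) (nat_lit 1685052287) (nat_lit 0) (nat_lit 1451736405) (nat_lit 456) (nat_lit 1685052287) (nat_lit 240) (nat_lit 1) (nat_lit 239) (nat_lit 1) (nat_lit 245) (nat_lit 1) (nat_lit 334) (nat_lit 368) (nat_lit 318))) (XT.nd (nat_lit 78) (nat_lit 304) (nat_lit 0) (XT.lf (nat_lit 380) (nat_lit 2329113322) (nat_lit 0) (nat_lit 1218426516) (nat_lit 304) (nat_lit 1218426516) (nat_lit 240) (nat_lit 1) (nat_lit 235) (nat_lit 1) (nat_lit 239) (nat_lit 1) (nat_lit 335) (nat_lit 368) (nat_lit 317)) (XT.nd (nat_lit 78) (nat_lit 304) (nat_lit 0) (XT.lf (nat_lit 76) (nat_lit 647690837) (nat_lit 0) (nat_lit 3415665805)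 (nat_lit 380) (nat_lit 647690837) (nat_lit 236) (nat_lit 1) (nat_lit 235) (nat_lit 1) (nat_lit 240) (nat_lit 1) (nat_lit 336) (nat_lit 368) (nat_lit 316)) (XT.lf (nat_lit 380) (nat_lit 258271795) (nat_lit 0) (nat_lit 2199240519) (nat_lit 304) (nat_lit 2199240519) (nat_lit 236) (nat_lit 1) (nat_lit 231) (nat_lit 1) (nat_lit 235) (nat_lit 1) (nat_lit 337) (nat_lit 368) (nat_lit 315))))) (XT.nd (nat_lit 156) (nat_lit 608) (nat_lit 0) (XT.nd (nat_lit 78) (nat_lit 0) (nat_lit 0) (XT.lf (nat_lit 380) (nat_lit 3859706110) (nat_lit 0) (nat_lit 371911778) (nat_lit 304) (nat_lit 371911778) (nat_lit 231) (nat_lit 1) (nat_lit 226) (nat_lit 1) (nat_lit 230) (nat_lit 1) (nat_lit 338) (nat_lit 368) (nat_lit 314)) (XT.lf (nat_lit 76) (nat_lit 1400865411) (nat_lit 0) (nat_lit 1748940499) (nat_lit 380) (nat_lit 1400865411) (nat_lit 227) (nat_lit 1) (nat_lit 226) (nat_lit 1) (nat_lit 231) (nat_lit 1) (nat_lit 339) (nat_lit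 368) (nat_lit 313))) (XT.nd (nat_lit 78) (nat_lit 304) (nat_lit 0) (XT.lf (nat_lit 380) (nat_lit 1757423875) (nat_lit 0) (nat_lit 1370714627) (nat_lit 304) (nat_lit 1370714627) (nat_lit 227) (nat_lit 1) (nat_lit 222) (nat_lit 1) (nat_lit 226) (nat_lit 1) (nat_lit 340) (nat_lit 368) (nat_lit 312)) (XT.nd (nat_lit 78) (nat_lit 304) (nat_lit 0) (XT.lf (nat_lit 76) (nat_lit 363066699) (nat_lit 0) (nat_lit 3721904004) (nat_lit 380) (nat_lit 363066699) (nat_lit 223) (nat_lit 1) (nat_lit 222) (nat_lit 1) (nat_lit 227) (nat_lit 1) (nat_lit 341) (nat_lit 368) (nat_lit 311)) (XT.lf (nat_lit 76) (nat_lit 2046010475) (nat_lit 0) (nat_lit 305528138) (nat_lit 304) (nat_lit 2046010475) (nat_lit 219) (nat_lit 1) (nat_lit 218) (nat_lit 1) (nat_lit 222) (nat_lit 1) (nat_lit 342) (nat_lit 368) (nat_lit 310))))))))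
noncomputable def ec152 : XT := (XT.nd (nat_lit 1404) (nat_lit 2280) (nat_lit 0) (XT.nd (nat_lit 702) (nat_lit 1216) (nat_lit 0) (XT.nd (nat_lit 312) (nat_lit 760) (nat_lit 0) (XT.nd (nat_lit 156) (nat_lit 608) (nat_lit 0) (XT.nd (nat_lit 78) (nat_lit 0) (nat_lit 0) (XT.lf (nat_lit 380) (nat_lit 3044897604) (nat_lit 0) (nat_lit 651568901) (nat_lit 304) (nat_lit 651568901) (nat_lit 219) (nat_lit 1) (nat_lit 214) (nat_lit 1) (nat_lit 218) (nat_lit 1) (nat_lit 343) (nat_lit 368) (nat_lit 309)) (XT.lf (nat_lit 76) (nat_lit 999062747) (nat_lit 0) (nat_lit 2300960295) (nat_lit 380) (nat_lit 999062747) (nat_lit 215) (nat_lit 1) (nat_lit 214) (nat_lit 1) (nat_lit 219) (nat_lit 1) (nat_lit 344) (nat_lit 368) (nat_lit 308))) (XT.nd (nat_lit 78) (nat_lit 380) (nat_lit 0) (XT.lf (nat_lit 304) (nat_lit 959283459) (nat_lit 0) (nat_lit 1645810694) (nat_lit 228) (nat_lit 1645810694) (nat_lit 215) (nat_lit 1) (nat_lit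 211) (nat_lit 1) (nat_lit 214) (nat_lit 1) (nat_lit 345) (nat_lit 368) (nat_lit 307)) (XT.lf (nat_lit 380) (nat_lit 4145594077) (nat_lit 0) (nat_lit 29111218) (nat_lit 304) (nat_lit 29111218) (nat_lit 211) (nat_lit 1) (nat_lit 206) (nat_lit 1) (nat_lit 210) (nat_lit 1) (nat_lit 346) (nat_lit 368) (nat_lit 306)))) (XT.nd (nat_lit 156) (nat_lit 532) (nat_lit 0) (XT.nd (nat_lit 78) (nat_lit 228) (nat_lit 0) (XT.lf (nat_lit 76) (nat_lit 1544433619) (nat_lit 0) (nat_lit 1067768366) (nat_lit 380) (nat_lit 1544433619) (nat_lit 207) (nat_lit 1) (nat_lit 206) (nat_lit 1) (nat_lit 211) (nat_lit 1) (nat_lit 347) (nat_lit 368) (nat_lit 305)) (XT.lf (nat_lit 304) (nat_lit 2052450536) (nat_lit 0) (nat_lit 1029036730) (nat_lit 228) (nat_lit 1029036730) (nat_lit 207) (nat_lit 1) (nat_lit 203) (nat_lit 1) (nat_lit 206) (nat_lit 1) (nat_lit 348) (nat_lit 368) (nat_lit 304))) (XT.nd (nat_lit 78) (nat_lit 532) (nat_lit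 0) (XT.lf (nat_lit 76) (nat_lit 512949717) (nat_lit 0) (nat_lit 3039264126) (nat_lit 304) (nat_lit 512949717) (nat_lit 204) (nat_lit 1) (nat_lit 203) (nat_lit 1) (nat_lit 207) (nat_lit 1) (nat_lit 349) (nat_lit 368) (nat_lit 303)) (XT.nd (nat_lit 78) (nat_lit 228) (nat_lit 0) (XT.lf (nat_lit 76) (nat_lit 2009859081) (nat_lit 0) (nat_lit 538117) (nat_lit 304) (nat_lit 2009859081) (nat_lit 200) (nat_lit 1) (nat_lit 199) (nat_lit 1) (nat_lit 203) (nat_lit 1) (nat_lit 350) (nat_lit 368) (nat_lit 302)) (XT.lf (nat_lit 304) (nat_lit 2988759803) (nat_lit 0) (nat_lit 493659830) (nat_lit 228) (nat_lit 493659830) (nat_lit 200) (nat_lit 1) (nat_lit 196) (nat_lit 1) (nat_lit 199) (nat_lit 1) (nat_lit 351) (nat_lit 368) (nat_lit 301)))))) (XT.nd (nat_lit 312) (nat_lit 684) (nat_lit 0) (XT.nd (nat_lit 156) (nat_lit 304) (nat_lit 0) (XT.nd (nat_lit 78) (nat_lit 228) (nat_lit 0) (XT.lf (nat_lit 76) (nat_lit 979118837)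 (nat_lit 0) (nat_lit 1974089782) (nat_lit 304) (nat_lit 979118837) (nat_lit 197) (nat_lit 1) (nat_lit 196) (nat_lit 1) (nat_lit 200) (nat_lit 1) (nat_lit 352) (nat_lit 368) (nat_lit 300)) (XT.lf (nat_lit 304) (nat_lit 938376932) (nat_lit 0) (nat_lit 1475454572) (nat_lit 228) (nat_lit 1475454572) (nat_lit 197) (nat_lit 1) (nat_lit 193) (nat_lit 1) (nat_lit 196) (nat_lit 1) (nat_lit 353) (nat_lit 368) (nat_lit 299))) (XT.nd (nat_lit 78) (nat_lit 0) (nat_lit 0) (XT.lf (nat_lit 304) (nat_lit 3786721058) (nat_lit 0) (nat_lit 30235631) (nat_lit 228) (nat_lit 30235631) (nat_lit 193) (nat_lit 1) (nat_lit 189) (nat_lit 1) (nat_lit 192) (nat_lit 1) (nat_lit 354) (nat_lit 368) (nat_lit 298)) (XT.lf (nat_lit 76) (nat_lit 1378060286) (nat_lit 0) (nat_lit 1048849291) (nat_lit 304) (nat_lit 1378060286) (nat_lit 190) (nat_lit 1) (nat_lit 189) (nat_lit 1) (nat_lit 193) (nat_lit 1) (nat_lit 355) (nat_lit 368) (nat_lit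 297)))) (XT.nd (nat_lit 156) (nat_lit 456) (nat_lit 0) (XT.nd (nat_lit 78) (nat_lit 0) (nat_lit 0) (XT.lf (nat_lit 304) (nat_lit 1745254739) (nat_lit 0) (nat_lit 1009211473) (nat_lit 228) (nat_lit 1009211473) (nat_lit 190) (nat_lit 1) (nat_lit 186) (nat_lit 1) (nat_lit 189) (nat_lit 1) (nat_lit 356) (nat_lit 368) (nat_lit 296)) (XT.lf (nat_lit 76) (nat_lit 373275925) (nat_lit 0) (nat_lit 2976533049) (nat_lit 304) (nat_lit 373275925) (nat_lit 187) (nat_lit 1) (nat_lit 186) (nat_lit 1) (nat_lit 190) (nat_lit 1) (nat_lit 357) (nat_lit 368) (nat_lit 295))) (XT.nd (nat_lit 78) (nat_lit 228) (nat_lit 0) (XT.lf (nat_lit 76) (nat_lit 1717714813) (nat_lit 0) (nat_lit 247322106) (nat_lit 228) (nat_lit 1717714813) (nat_lit 184) (nat_lit 1) (nat_lit 183) (nat_lit 1) (nat_lit 186) (nat_lit 1) (nat_lit 358) (nat_lit 368) (nat_lit 294)) (XT.nd (nat_lit 78) (nat_lit 0) (nat_lit 0) (XT.lf (nat_lit 304) (nat_lit 2435606122)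 (nat_lit 0) (nat_lit 603748212) (nat_lit 228) (nat_lit 603748212) (nat_lit 184) (nat_lit 1) (nat_lit 180) (nat_lit 1) (nat_lit 183) (nat_lit 1) (nat_lit 359) (nat_lit 368) (nat_lit 293)) (XT.lf (nat_lit 76) (nat_lit 720394389) (nat_lit 0) (nat_lit 2163117036) (nat_lit 304) (nat_lit 720394389) (nat_lit 181) (nat_lit 1) (nat_lit 180) (nat_lit 1) (nat_lit 184) (nat_lit 1) (nat_lit 360) (nat_lit 368) (nat_lit 292))))))) (XT.nd (nat_lit 702) (nat_lit 1064) (nat_lit 0) (XT.nd (nat_lit 312) (nat_lit 608) (nat_lit 0) (XT.nd (nat_lit 156) (nat_lit 152) (nat_lit 0) (XT.nd (nat_lit 78) (nat_lit 304) (nat_lit 0) (XT.lf (nat_lit 228) (nat_lit 453739669) (nat_lit 0) (nat_lit 1555746693) (nat_lit 152) (nat_lit 1555746693) (nat_lit 181) (nat_lit 1) (nat_lit 178) (nat_lit 1) (nat_lit 180) (nat_lit 1) (nat_lit 361) (nat_lit 368) (nat_lit 291)) (XT.lf (nat_lit 304) (nat_lit 3023198563) (nat_lit 0) (nat_lit 252031097)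 (nat_lit 228) (nat_lit 252031097) (nat_lit 178) (nat_lit 1) (nat_lit 174) (nat_lit 1) (nat_lit 177) (nat_lit 1) (nat_lit 362) (nat_lit 368) (nat_lit 290))) (XT.nd (nat_lit 78) (nat_lit 152) (nat_lit 0) (XT.lf (nat_lit 76) (nat_lit 1017482021) (nat_lit 0) (nat_lit 1454431542) (nat_lit 304) (nat_lit 1017482021) (nat_lit 175) (nat_lit 1) (nat_lit 174) (nat_lit 1) (nat_lit 178) (nat_lit 1) (nat_lit 363) (nat_lit 368) (nat_lit 289)) (XT.lf (nat_lit 228) (nat_lit 1061253920) (nat_lit 0) (nat_lit 1195482023) (nat_lit 152) (nat_lit 1195482023) (nat_lit 175) (nat_lit 1) (nat_lit 172) (nat_lit 1) (nat_lit 174) (nat_lit 1) (nat_lit 364) (nat_lit 368) (nat_lit 288)))) (XT.nd (nat_lit 156) (nat_lit 380) (nat_lit 0) (XT.nd (nat_lit 78) (nat_lit 228) (nat_lit 0) (XT.lf (nat_lit 76) (nat_lit 52698411) (nat_lit 0) (nat_lit 3310420328) (nat_lit 228) (nat_lit 52698411) (nat_lit 173) (nat_lit 1) (nat_lit 172) (nat_lit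 1) (nat_lit 175) (nat_lit 1) (nat_lit 365) (nat_lit 368) (nat_lit 287)) (XT.lf (nat_lit 76) (nat_lit 1270447691) (nat_lit 0) (nat_lit 838389288) (nat_lit 228) (nat_lit 1270447691) (nat_lit 170) (nat_lit 1) (nat_lit 169) (nat_lit 1) (nat_lit 172) (nat_lit 1) (nat_lit 366) (nat_lit 368) (nat_lit 286))) (XT.nd (nat_lit 78) (nat_lit 228) (nat_lit 0) (XT.lf (nat_lit 228) (nat_lit 1581854150) (nat_lit 0) (nat_lit 880831688) (nat_lit 152) (nat_lit 880831688) (nat_lit 170) (nat_lit 1) (nat_lit 167) (nat_lit 1) (nat_lit 169) (nat_lit 1) (nat_lit 367) (nat_lit 368) (nat_lit 285)) (XT.nd (nat_lit 78) (nat_lit 228) (nat_lit 0) (XT.lf (nat_lit 76) (nat_lit 317542117) (nat_lit 0) (nat_lit 2673251737) (nat_lit 228) (nat_lit 317542117) (nat_lit 168) (nat_lit 1) (nat_lit 167) (nat_lit 1) (nat_lit 170) (nat_lit 1) (nat_lit 368) (nat_lit 368) (nat_lit 284)) (XT.lf (nat_lit 76) (nat_lit 1484531750) (nat_lit 0) (nat_lit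 304262782) (nat_lit 228) (nat_lit 1484531750) (nat_lit 165) (nat_lit 1) (nat_lit 164) (nat_lit 1) (nat_lit 167) (nat_lit 1) (nat_lit 369) (nat_lit 368) (nat_lit 283)))))) (XT.nd (nat_lit 390) (nat_lit 532) (nat_lit 0) (XT.nd (nat_lit 156) (nat_lit 380) (nat_lit 0) (XT.nd (nat_lit 78) (nat_lit 0) (nat_lit 0) (XT.lf (nat_lit 228) (nat_lit 2025790698) (nat_lit 0) (nat_lit 606550648) (nat_lit 152) (nat_lit 606550648) (nat_lit 165) (nat_lit 1) (nat_lit 162) (nat_lit 1) (nat_lit 164) (nat_lit 1) (nat_lit 370) (nat_lit 368) (nat_lit 282)) (XT.lf (nat_lit 76) (nat_lit 544967263) (nat_lit 0) (nat_lit 2114941926) (nat_lit 228) (nat_lit 544967263) (nat_lit 163) (nat_lit 1) (nat_lit 162) (nat_lit 1) (nat_lit 165) (nat_lit 1) (nat_lit 371) (nat_lit 368) (nat_lit 281))) (XT.nd (nat_lit 78) (nat_lit 228) (nat_lit 0) (XT.lf (nat_lit 228) (nat_lit 160601579) (nat_lit 0) (nat_lit 1505323076) (nat_lit 152) (nat_lit 1505323076)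 (nat_lit 163) (nat_lit 1) (nat_lit 160) (nat_lit 1) (nat_lit 162) (nat_lit 1) (nat_lit 372) (nat_lit 368) (nat_lit 280)) (XT.nd (nat_lit 78) (nat_lit 0) (nat_lit 0) (XT.lf (nat_lit 228) (nat_lit 2402154597) (nat_lit 0) (nat_lit 367983367) (nat_lit 152) (nat_lit 367983367) (nat_lit 160) (nat_lit 1) (nat_lit 157) (nat_lit 1) (nat_lit 159) (nat_lit 1) (nat_lit 373) (nat_lit 368) (nat_lit 279)) (XT.lf (nat_lit 76) (nat_lit 739376166) (nat_lit 0) (nat_lit 1626469752) (nat_lit 228) (nat_lit 739376166) (nat_lit 158) (nat_lit 1) (nat_lit 157) (nat_lit 1) (nat_lit 160) (nat_lit 1) (nat_lit 374) (nat_lit 368) (nat_lit 278))))) (XT.nd (nat_lit 156) (nat_lit 152) (nat_lit 0) (XT.nd (nat_lit 78) (nat_lit 228) (nat_lit 0) (XT.lf (nat_lit 228) (nat_lit 566299498) (nat_lit 0) (nat_lit 1253258565) (nat_lit 152) (nat_lit 1253258565) (nat_lit 158) (nat_lit 1) (nat_lit 155) (nat_lit 1) (nat_lit 157) (nat_lit 1) (nat_lit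 375) (nat_lit 368) (nat_lit 277)) (XT.lf (nat_lit 228) (nat_lit 2719007325) (nat_lit 0) (nat_lit 160997943) (nat_lit 152) (nat_lit 160997943) (nat_lit 155) (nat_lit 1) (nat_lit 152) (nat_lit 1) (nat_lit 154) (nat_lit 1) (nat_lit 376) (nat_lit 368) (nat_lit 276))) (XT.nd (nat_lit 78) (nat_lit 152) (nat_lit 0) (XT.lf (nat_lit 76) (nat_lit 904673537) (nat_lit 0) (nat_lit 1199826671) (nat_lit 228) (nat_lit 904673537) (nat_lit 153) (nat_lit 1) (nat_lit 152) (nat_lit 1) (nat_lit 155) (nat_lit 1) (nat_lit 377) (nat_lit 368) (nat_lit 275)) (XT.nd (nat_lit 78) (nat_lit 0) (nat_lit 0) (XT.lf (nat_lit 228) (nat_lit 914418775) (nat_lit 0) (nat_lit 1031754982) (nat_lit 152) (nat_lit 1031754982) (nat_lit 153) (nat_lit 1) (nat_lit 150) (nat_lit 1) (nat_lit 152) (nat_lit 1) (nat_lit 378) (nat_lit 368) (nat_lit 274)) (XT.lf (nat_lit 76) (nat_lit 18251349) (nat_lit 0) (nat_lit 2910827384) (nat_lit 228) (nat_lit 18251349)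 (nat_lit 151) (nat_lit 1) (nat_lit 150) (nat_lit 1) (nat_lit 153) (nat_lit 1) (nat_lit 379) (nat_lit 368) (nat_lit 273))))))))
noncomputable def ec153 : XT := (XT.nd (nat_lit 1482) (nat_lit 1520) (nat_lit 0) (XT.nd (nat_lit 702) (nat_lit 988) (nat_lit 0) (XT.nd (nat_lit 312) (nat_lit 456) (nat_lit 0) (XT.nd (nat_lit 156) (nat_lit 152) (nat_lit 0) (XT.nd (nat_lit 78) (nat_lit 152) (nat_lit 0) (XT.lf (nat_lit 76) (nat_lit 1044322166) (nat_lit 0) (nat_lit 827903625) (nat_lit 152) (nat_lit 1044322166) (nat_lit 149) (nat_lit 1) (nat_lit 148) (nat_lit 1) (nat_lit 150) (nat_lit 1) (nat_lit 380) (nat_lit 368) (nat_lit 272)) (XT.lf (nat_lit 228) (nat_lit 1211739535) (nat_lit 0) (nat_lit 837332956) (nat_lit 152) (nat_lit 837332956) (nat_lit 149) (nat_lit 1) (nat_lit 146) (nat_lit 1) (nat_lit 148) (nat_lit 1) (nat_lit 381) (nat_lit 368) (nat_lit 271))) (XT.nd (nat_lit 78) (nat_lit 152) (nat_lit 0) (XT.lf (nat_lit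 76) (nat_lit 174189116) (nat_lit 0) (nat_lit 2508413203) (nat_lit 228) (nat_lit 174189116) (nat_lit 147) (nat_lit 1) (nat_lit 146) (nat_lit 1) (nat_lit 149) (nat_lit 1) (nat_lit 382) (nat_lit 368) (nat_lit 270)) (XT.lf (nat_lit 76) (nat_lit 1161392394) (nat_lit 0) (nat_lit 504390549) (nat_lit 152) (nat_lit 1161392394) (nat_lit 145) (nat_lit 1) (nat_lit 144) (nat_lit 1) (nat_lit 146) (nat_lit 1) (nat_lit 383) (nat_lit 368) (nat_lit 269)))) (XT.nd (nat_lit 156) (nat_lit 304) (nat_lit 0) (XT.nd (nat_lit 78) (nat_lit 0) (nat_lit 0) (XT.lf (nat_lit 228) (nat_lit 1464275364) (nat_lit 0) (nat_lit 666903194) (nat_lit 152) (nat_lit 666903194) (nat_lit 145) (nat_lit 1) (nat_lit 142) (nat_lit 1) (nat_lit 144) (nat_lit 1) (nat_lit 384) (nat_lit 368) (nat_lit 268)) (XT.lf (nat_lit 76) (nat_lit 308136646) (nat_lit 0) (nat_lit 2153139995) (nat_lit 228) (nat_lit 308136646) (nat_lit 143) (nat_lit 1) (nat_lit 142) (nat_lit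 1) (nat_lit 145) (nat_lit 1) (nat_lit 385) (nat_lit 368) (nat_lit 267))) (XT.nd (nat_lit 78) (nat_lit 152) (nat_lit 0) (XT.lf (nat_lit 76) (nat_lit 1258606057) (nat_lit 0) (nat_lit 223687092) (nat_lit 152) (nat_lit 1258606057) (nat_lit 141) (nat_lit 1) (nat_lit 140) (nat_lit 1) (nat_lit 142) (nat_lit 1) (nat_lit 386) (nat_lit 368) (nat_lit 266)) (XT.nd (nat_lit 78) (nat_lit 0) (nat_lit 0) (XT.lf (nat_lit 228) (nat_lit 1677359096) (nat_lit 0) (nat_lit 517722915) (nat_lit 152) (nat_lit 517722915) (nat_lit 141) (nat_lit 1) (nat_lit 138) (nat_lit 1) (nat_lit 140) (nat_lit 1) (nat_lit 387) (nat_lit 368) (nat_lit 265)) (XT.lf (nat_lit 76) (nat_lit 422680150) (nat_lit 0) (nat_lit 1839684914) (nat_lit 228) (nat_lit 422680150) (nat_lit 139) (nat_lit 1) (nat_lit 138) (nat_lit 1) (nat_lit 141) (nat_lit 1) (nat_lit 388) (nat_lit 368) (nat_lit 264)))))) (XT.nd (nat_lit 390) (nat_lit 380) (nat_lit 0) (XT.nd (nat_lit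 156) (nat_lit 304) (nat_lit 0) (XT.nd (nat_lit 78) (nat_lit 228) (nat_lit 0) (XT.lf (nat_lit 152) (nat_lit 19558353) (nat_lit 0) (nat_lit 1319005180) (nat_lit 76) (nat_lit 1319005180) (nat_lit 139) (nat_lit 1) (nat_lit 137) (nat_lit 1) (nat_lit 138) (nat_lit 1) (nat_lit 389) (nat_lit 368) (nat_lit 263)) (XT.lf (nat_lit 228) (nat_lit 1855719016) (nat_lit 0) (nat_lit 387357159) (nat_lit 152) (nat_lit 387357159) (nat_lit 137) (nat_lit 1) (nat_lit 134) (nat_lit 1) (nat_lit 136) (nat_lit 1) (nat_lit 390) (nat_lit 368) (nat_lit 262))) (XT.nd (nat_lit 78) (nat_lit 304) (nat_lit 0) (XT.lf (nat_lit 76) (nat_lit 520113539) (nat_lit 0) (nat_lit 1563320602) (nat_lit 228) (nat_lit 520113539) (nat_lit 135) (nat_lit 1) (nat_lit 134) (nat_lit 1) (nat_lit 137) (nat_lit 1) (nat_lit 391) (nat_lit 368) (nat_lit 261)) (XT.nd (nat_lit 78) (nat_lit 228) (nat_lit 0) (XT.lf (nat_lit 152) (nat_lit 233160659) (nat_lit 0) (nat_lit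 1171919018) (nat_lit 76) (nat_lit 1171919018) (nat_lit 135) (nat_lit 1) (nat_lit 133) (nat_lit 1) (nat_lit 134) (nat_lit 1) (nat_lit 392) (nat_lit 368) (nat_lit 260)) (XT.lf (nat_lit 228) (nat_lit 2003546567) (nat_lit 0) (nat_lit 273644395) (nat_lit 152) (nat_lit 273644395) (nat_lit 133) (nat_lit 1) (nat_lit 130) (nat_lit 1) (nat_lit 132) (nat_lit 1) (nat_lit 393) (nat_lit 368) (nat_lit 259))))) (XT.nd (nat_lit 156) (nat_lit 304) (nat_lit 0) (XT.nd (nat_lit 78) (nat_lit 76) (nat_lit 0) (XT.lf (nat_lit 76) (nat_lit 602471133) (nat_lit 0) (nat_lit 1319848732) (nat_lit 228) (nat_lit 602471133) (nat_lit 131) (nat_lit 1) (nat_lit 130) (nat_lit 1) (nat_lit 133) (nat_lit 1) (nat_lit 394) (nat_lit 368) (nat_lit 258)) (XT.lf (nat_lit 152) (nat_lit 416658590) (nat_lit 0) (nat_lit 1041234869) (nat_lit 76) (nat_lit 1041234869) (nat_lit 131) (nat_lit 1) (nat_lit 129) (nat_lit 1) (nat_lit 130) (nat_lit 1) (nat_lit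 395) (nat_lit 368) (nat_lit 257))) (XT.nd (nat_lit 78) (nat_lit 76) (nat_lit 0) (XT.lf (nat_lit 228) (nat_lit 2124556493) (nat_lit 0) (nat_lit 174665983) (nat_lit 152) (nat_lit 174665983) (nat_lit 129) (nat_lit 1) (nat_lit 126) (nat_lit 1) (nat_lit 128) (nat_lit 1) (nat_lit 396) (nat_lit 368) (nat_lit 256)) (XT.nd (nat_lit 78) (nat_lit 76) (nat_lit 0) (XT.lf (nat_lit 76) (nat_lit 671556721) (nat_lit 0) (nat_lit 1105540956) (nat_lit 228) (nat_lit 671556721) (nat_lit 127) (nat_lit 1) (nat_lit 126) (nat_lit 1) (nat_lit 129) (nat_lit 1) (nat_lit 397) (nat_lit 368) (nat_lit 255)) (XT.lf (nat_lit 152) (nat_lit 573592232) (nat_lit 0) (nat_lit 925123695) (nat_lit 76) (nat_lit 925123695) (nat_lit 127) (nat_lit 1) (nat_lit 125) (nat_lit 1) (nat_lit 126) (nat_lit 1) (nat_lit 398) (nat_lit 368) (nat_lit 254))))))) (XT.nd (nat_lit 702) (nat_lit 684) (nat_lit 0) (XT.nd (nat_lit 312) (nat_lit 304) (nat_lit 0) (XT.nd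 (nat_lit 156) (nat_lit 304) (nat_lit 0) (XT.nd (nat_lit 78) (nat_lit 0) (nat_lit 0) (XT.lf (nat_lit 228) (nat_lit 2222040263) (nat_lit 0) (nat_lit 88719028) (nat_lit 152) (nat_lit 88719028) (nat_lit 125) (nat_lit 1) (nat_lit 122) (nat_lit 1) (nat_lit 124) (nat_lit 1) (nat_lit 399) (nat_lit 368) (nat_lit 253)) (XT.lf (nat_lit 76) (nat_lit 728969373) (nat_lit 0) (nat_lit 917086443) (nat_lit 228) (nat_lit 728969373) (nat_lit 123) (nat_lit 1) (nat_lit 122) (nat_lit 1) (nat_lit 125) (nat_lit 1) (nat_lit 400) (nat_lit 368) (nat_lit 252))) (XT.nd (nat_lit 78) (nat_lit 228) (nat_lit 0) (XT.lf (nat_lit 152) (nat_lit 707101570) (nat_lit 0) (nat_lit 821960420) (nat_lit 76) (nat_lit 821960420) (nat_lit 123) (nat_lit 1) (nat_lit 121) (nat_lit 1) (nat_lit 122) (nat_lit 1) (nat_lit 401) (nat_lit 368) (nat_lit 251)) (XT.lf (nat_lit 228) (nat_lit 2298913545) (nat_lit 0) (nat_lit 14292276) (nat_lit 152) (nat_lit 14292276)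 (nat_lit 121) (nat_lit 1) (nat_lit 118) (nat_lit 1) (nat_lit 120) (nat_lit 1) (nat_lit 402) (nat_lit 368) (nat_lit 250)))) (XT.nd (nat_lit 156) (nat_lit 228) (nat_lit 0) (XT.nd (nat_lit 78) (nat_lit 76) (nat_lit 0) (XT.lf (nat_lit 76) (nat_lit 776126375) (nat_lit 0) (nat_lit 751545275) (nat_lit 228) (nat_lit 776126375) (nat_lit 119) (nat_lit 1) (nat_lit 118) (nat_lit 1) (nat_lit 121) (nat_lit 1) (nat_lit 403) (nat_lit 368) (nat_lit 249)) (XT.lf (nat_lit 152) (nat_lit 819971268) (nat_lit 0) (nat_lit 730301187) (nat_lit 76) (nat_lit 730301187) (nat_lit 119) (nat_lit 1) (nat_lit 117) (nat_lit 1) (nat_lit 118) (nat_lit 1) (nat_lit 404) (nat_lit 368) (nat_lit 248))) (XT.nd (nat_lit 78) (nat_lit 228) (nat_lit 0) (XT.lf (nat_lit 0) (nat_lit 50449922) (nat_lit 0) (nat_lit 2156889393) (nat_lit 152) (nat_lit 50449922) (nat_lit 117) (nat_lit 3) (nat_lit 117) (nat_lit 1) (nat_lit 119) (nat_lit 1) (nat_lit 405)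 (nat_lit 368) (nat_lit 247)) (XT.nd (nat_lit 78) (nat_lit 76) (nat_lit 0) (XT.lf (nat_lit 76) (nat_lit 814283600) (nat_lit 0) (nat_lit 606307027) (nat_lit 152) (nat_lit 814283600) (nat_lit 116) (nat_lit 1) (nat_lit 115) (nat_lit 1) (nat_lit 117) (nat_lit 1) (nat_lit 406) (nat_lit 368) (nat_lit 246)) (XT.lf (nat_lit 152) (nat_lit 914670435) (nat_lit 0) (nat_lit 648863146) (nat_lit 76) (nat_lit 648863146) (nat_lit 116) (nat_lit 1) (nat_lit 114) (nat_lit 1) (nat_lit 115) (nat_lit 1) (nat_lit 407) (nat_lit 368) (nat_lit 245)))))) (XT.nd (nat_lit 390) (nat_lit 304) (nat_lit 0) (XT.nd (nat_lit 156) (nat_lit 228) (nat_lit 0) (XT.nd (nat_lit 78) (nat_lit 152) (nat_lit 0) (XT.lf (nat_lit 0) (nat_lit 106255318) (nat_lit 0) (nat_lit 1977799505) (nat_lit 152) (nat_lit 106255318) (nat_lit 114) (nat_lit 3) (nat_lit 114) (nat_lit 1) (nat_lit 116) (nat_lit 1) (nat_lit 408) (nat_lit 368) (nat_lit 244)) (XT.lf (nat_lit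 76) (nat_lit 844553604) (nat_lit 0) (nat_lit 479053983) (nat_lit 152) (nat_lit 844553604) (nat_lit 113) (nat_lit 1) (nat_lit 112) (nat_lit 1) (nat_lit 114) (nat_lit 1) (nat_lit 409) (nat_lit 368) (nat_lit 243))) (XT.nd (nat_lit 78) (nat_lit 152) (nat_lit 0) (XT.lf (nat_lit 152) (nat_lit 993387964) (nat_lit 0) (nat_lit 576506501) (nat_lit 76) (nat_lit 576506501) (nat_lit 113) (nat_lit 1) (nat_lit 111) (nat_lit 1) (nat_lit 112) (nat_lit 1) (nat_lit 410) (nat_lit 368) (nat_lit 242)) (XT.nd (nat_lit 78) (nat_lit 152) (nat_lit 0) (XT.lf (nat_lit 0) (nat_lit 154048431) (nat_lit 0) (nat_lit 1816891201) (nat_lit 152) (nat_lit 154048431) (nat_lit 111) (nat_lit 3) (nat_lit 111) (nat_lit 1) (nat_lit 113) (nat_lit 1) (nat_lit 411) (nat_lit 368) (nat_lit 241)) (XT.lf (nat_lit 76) (nat_lit 867921708) (nat_lit 0) (nat_lit 367728447) (nat_lit 152) (nat_lit 867921708) (nat_lit 110) (nat_lit 1) (nat_lit 109) (nat_lit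 1) (nat_lit 111) (nat_lit 1) (nat_lit 412) (nat_lit 368) (nat_lit 240))))) (XT.nd (nat_lit 156) (nat_lit 228) (nat_lit 0) (XT.nd (nat_lit 78) (nat_lit 0) (nat_lit 0) (XT.lf (nat_lit 152) (nat_lit 1058063922) (nat_lit 0) (nat_lit 512218559) (nat_lit 76) (nat_lit 512218559) (nat_lit 110) (nat_lit 1) (nat_lit 108) (nat_lit 1) (nat_lit 109) (nat_lit 1) (nat_lit 413) (nat_lit 368) (nat_lit 239)) (XT.lf (nat_lit 0) (nat_lit 194774848) (nat_lit 0) (nat_lit 1672189112) (nat_lit 152) (nat_lit 194774848) (nat_lit 108) (nat_lit 3) (nat_lit 108) (nat_lit 1) (nat_lit 110) (nat_lit 1) (nat_lit 414) (nat_lit 368) (nat_lit 238))) (XT.nd (nat_lit 78) (nat_lit 76) (nat_lit 0) (XT.lf (nat_lit 76) (nat_lit 885260274) (nat_lit 0) (nat_lit 270503697) (nat_lit 152) (nat_lit 885260274) (nat_lit 107) (nat_lit 1) (nat_lit 106) (nat_lit 1) (nat_lit 108) (nat_lit 1) (nat_lit 415) (nat_lit 368) (nat_lit 237)) (XT.nd (nat_lit 78)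 (nat_lit 0) (nat_lit 0) (XT.lf (nat_lit 152) (nat_lit 1110417432) (nat_lit 0) (nat_lit 455099555) (nat_lit 76) (nat_lit 455099555) (nat_lit 107) (nat_lit 1) (nat_lit 105) (nat_lit 1) (nat_lit 106) (nat_lit 1) (nat_lit 416) (nat_lit 368) (nat_lit 236)) (XT.lf (nat_lit 0) (nat_lit 229273194) (nat_lit 0) (nat_lit 1541936632) (nat_lit 152) (nat_lit 229273194) (nat_lit 105) (nat_lit 3) (nat_lit 105) (nat_lit 1) (nat_lit 107) (nat_lit 1) (nat_lit 417) (nat_lit 368) (nat_lit 235))))))))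
noncomputable def ec154 : XT := (XT.nd (nat_lit 42666) (nat_lit 0) (nat_lit 19684) (XT.nd (nat_lit 702) (nat_lit 684) (nat_lit 0) (XT.nd (nat_lit 312) (nat_lit 304) (nat_lit 0) (XT.nd (nat_lit 156) (nat_lit 152) (nat_lit 0) (XT.nd (nat_lit 78) (nat_lit 76) (nat_lit 0) (XT.lf (nat_lit 76) (nat_lit 897341391) (nat_lit 0) (nat_lit 185758192) (nat_lit 152) (nat_lit 897341391) (nat_lit 104) (nat_lit 1) (nat_lit 103) (nat_lit 1) (nat_lit 105) (nat_lit 1) (nat_lit 418) (nat_lit 368) (nat_lit 234)) (XT.lf (nat_lit 152) (nat_lit 1151971450) (nat_lit 0) (nat_lit 404350060) (nat_lit 76) (nat_lit 404350060) (nat_lit 104) (nat_lit 1) (nat_lit 102) (nat_lit 1) (nat_lit 103) (nat_lit 1) (nat_lit 419) (nat_lit 368) (nat_lit 233))) (XT.nd (nat_lit 78) (nat_lit 152) (nat_lit 0) (XT.lf (nat_lit 0) (nat_lit 258287103) (nat_lit 0) (nat_lit 1424571566) (nat_lit 152) (nat_lit 258287103) (nat_lit 102) (nat_lit 3) (nat_lit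 102) (nat_lit 1) (nat_lit 104) (nat_lit 1) (nat_lit 420) (nat_lit 368) (nat_lit 232)) (XT.lf (nat_lit 76) (nat_lit 904848150) (nat_lit 0) (nat_lit 112052641) (nat_lit 152) (nat_lit 904848150) (nat_lit 101) (nat_lit 1) (nat_lit 100) (nat_lit 1) (nat_lit 102) (nat_lit 1) (nat_lit 421) (nat_lit 368) (nat_lit 231)))) (XT.nd (nat_lit 156) (nat_lit 228) (nat_lit 0) (XT.nd (nat_lit 78) (nat_lit 0) (nat_lit 0) (XT.lf (nat_lit 152) (nat_lit 1184074765) (nat_lit 0) (nat_lit 359259792) (nat_lit 76) (nat_lit 359259792) (nat_lit 101) (nat_lit 1) (nat_lit 99) (nat_lit 1) (nat_lit 100) (nat_lit 1) (nat_lit 422) (nat_lit 368) (nat_lit 230)) (XT.lf (nat_lit 0) (nat_lit 282475852) (nat_lit 0) (nat_lit 1318704491) (nat_lit 152) (nat_lit 282475852) (nat_lit 99) (nat_lit 3) (nat_lit 99) (nat_lit 1) (nat_lit 101) (nat_lit 1) (nat_lit 423) (nat_lit 368) (nat_lit 229))) (XT.nd (nat_lit 78) (nat_lit 76) (nat_lit 0) (XT.lf (nat_lit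 76) (nat_lit 908384644) (nat_lit 0) (nat_lit 48109644) (nat_lit 152) (nat_lit 908384644) (nat_lit 98) (nat_lit 1) (nat_lit 97) (nat_lit 1) (nat_lit 99) (nat_lit 1) (nat_lit 424) (nat_lit 368) (nat_lit 228)) (XT.nd (nat_lit 78) (nat_lit 0) (nat_lit 0) (XT.lf (nat_lit 152) (nat_lit 1207921551) (nat_lit 0) (nat_lit 319197672) (nat_lit 76) (nat_lit 319197672) (nat_lit 98) (nat_lit 1) (nat_lit 96) (nat_lit 1) (nat_lit 97) (nat_lit 1) (nat_lit 425) (nat_lit 368) (nat_lit 227)) (XT.lf (nat_lit 0) (nat_lit 302423812) (nat_lit 0) (nat_lit 1223099537) (nat_lit 152) (nat_lit 302423812) (nat_lit 96) (nat_lit 3) (nat_lit 96) (nat_lit 1) (nat_lit 98) (nat_lit 1) (nat_lit 426) (nat_lit 368) (nat_lit 226)))))) (XT.nd (nat_lit 390) (nat_lit 228) (nat_lit 0) (XT.nd (nat_lit 156) (nat_lit 228) (nat_lit 0) (XT.nd (nat_lit 78) (nat_lit 152) (nat_lit 0) (XT.lf (nat_lit 76) (nat_lit 7347785) (nat_lit 0) (nat_lit 901207712)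 (nat_lit 76) (nat_lit 901207712) (nat_lit 96) (nat_lit 3) (nat_lit 95) (nat_lit 1) (nat_lit 96) (nat_lit 1) (nat_lit 427) (nat_lit 368) (nat_lit 225)) (XT.lf (nat_lit 152) (nat_lit 1224568729) (nat_lit 0) (nat_lit 283602997) (nat_lit 76) (nat_lit 283602997) (nat_lit 95) (nat_lit 1) (nat_lit 93) (nat_lit 1) (nat_lit 94) (nat_lit 1) (nat_lit 428) (nat_lit 368) (nat_lit 224))) (XT.nd (nat_lit 78) (nat_lit 228) (nat_lit 0) (XT.lf (nat_lit 0) (nat_lit 318648840) (nat_lit 0) (nat_lit 1136657297) (nat_lit 152) (nat_lit 318648840) (nat_lit 93) (nat_lit 3) (nat_lit 93) (nat_lit 1) (nat_lit 95) (nat_lit 1) (nat_lit 429) (nat_lit 368) (nat_lit 223)) (XT.nd (nat_lit 78) (nat_lit 152) (nat_lit 0) (XT.lf (nat_lit 76) (nat_lit 55987914) (nat_lit 0) (nat_lit 850170882) (nat_lit 76) (nat_lit 850170882) (nat_lit 93) (nat_lit 3) (nat_lit 92) (nat_lit 1) (nat_lit 93) (nat_lit 1) (nat_lit 430) (nat_lit 368) (nat_lit 222))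 (XT.lf (nat_lit 152) (nat_lit 1234951393) (nat_lit 0) (nat_lit 251977589) (nat_lit 76) (nat_lit 251977589) (nat_lit 92) (nat_lit 1) (nat_lit 90) (nat_lit 1) (nat_lit 91) (nat_lit 1) (nat_lit 431) (nat_lit 368) (nat_lit 221))))) (XT.nd (nat_lit 156) (nat_lit 152) (nat_lit 0) (XT.nd (nat_lit 78) (nat_lit 76) (nat_lit 0) (XT.lf (nat_lit 0) (nat_lit 331609736) (nat_lit 0) (nat_lit 1058399655) (nat_lit 152) (nat_lit 331609736) (nat_lit 90) (nat_lit 3) (nat_lit 90) (nat_lit 1) (nat_lit 92) (nat_lit 1) (nat_lit 432) (nat_lit 368) (nat_lit 220)) (XT.lf (nat_lit 76) (nat_lit 97763470) (nat_lit 0) (nat_lit 803384751) (nat_lit 76) (nat_lit 803384751) (nat_lit 90) (nat_lit 3) (nat_lit 89) (nat_lit 1) (nat_lit 90) (nat_lit 1) (nat_lit 433) (nat_lit 368) (nat_lit 219))) (XT.nd (nat_lit 41262) (nat_lit 0) (nat_lit 21812) (XT.lf (nat_lit 152) (nat_lit 1239896509) (nat_lit 0) (nat_lit 223878824) (nat_lit 76) (nat_lit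 223878824) (nat_lit 89) (nat_lit 1) (nat_lit 87) (nat_lit 1) (nat_lit 88) (nat_lit 1) (nat_lit 434) (nat_lit 368) (nat_lit 218)) (XT.nd (nat_lit 78) (nat_lit 0) (nat_lit 0) (XT.lf (nat_lit 1292) (nat_lit 878909571) (nat_lit 0) (nat_lit 3023857677) (nat_lit 1292) (nat_lit 878909571) (nat_lit 391) (nat_lit 1) (nat_lit 374) (nat_lit 0) (nat_lit 391) (nat_lit 0) (nat_lit 282) (nat_lit 369) (nat_lit 369)) (XT.lf (nat_lit 1292) (nat_lit 3434794004) (nat_lit 76) (nat_lit 2994212014) (nat_lit 0) (nat_lit 2994212014) (nat_lit 391) (nat_lit 1) (nat_lit 375) (nat_lit 1) (nat_lit 374) (nat_lit 0) (nat_lit 283) (nat_lit 369) (nat_lit 368))))))) (XT.nd (nat_lit 702) (nat_lit 2204) (nat_lit 0) (XT.nd (nat_lit 312) (nat_lit 0) (nat_lit 152) (XT.nd (nat_lit 156) (nat_lit 0) (nat_lit 76) (XT.nd (nat_lit 78) (nat_lit 0) (nat_lit 0) (XT.lf (nat_lit 1292) (nat_lit 1661148275) (nat_lit 0) (nat_lit 5963876974) (nat_lit 1216)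 (nat_lit 1661148275) (nat_lit 392) (nat_lit 1) (nat_lit 375) (nat_lit 1) (nat_lit 391) (nat_lit 1) (nat_lit 284) (nat_lit 369) (nat_lit 367)) (XT.lf (nat_lit 1292) (nat_lit 3154606341) (nat_lit 76) (nat_lit 2998405637) (nat_lit 0) (nat_lit 2998405637) (nat_lit 392) (nat_lit 1) (nat_lit 376) (nat_lit 1) (nat_lit 375) (nat_lit 1) (nat_lit 285) (nat_lit 369) (nat_lit 366))) (XT.nd (nat_lit 78) (nat_lit 0) (nat_lit 0) (XT.lf (nat_lit 1292) (nat_lit 1480283293) (nat_lit 0) (nat_lit 6059110327) (nat_lit 1216) (nat_lit 1480283293) (nat_lit 393) (nat_lit 1) (nat_lit 376) (nat_lit 1) (nat_lit 392) (nat_lit 1) (nat_lit 286) (nat_lit 369) (nat_lit 365)) (XT.lf (nat_lit 1292) (nat_lit 2712775431) (nat_lit 76) (nat_lit 3088633851) (nat_lit 0) (nat_lit 3088633851) (nat_lit 393) (nat_lit 1) (nat_lit 377) (nat_lit 1) (nat_lit 376) (nat_lit 1) (nat_lit 287) (nat_lit 369) (nat_lit 364)))) (XT.nd (nat_lit 156) (nat_lit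 0) (nat_lit 76) (XT.nd (nat_lit 78) (nat_lit 0) (nat_lit 0) (XT.lf (nat_lit 1292) (nat_lit 1222671166) (nat_lit 0) (nat_lit 6318060457) (nat_lit 1216) (nat_lit 1222671166) (nat_lit 394) (nat_lit 1) (nat_lit 377) (nat_lit 1) (nat_lit 393) (nat_lit 1) (nat_lit 288) (nat_lit 369) (nat_lit 363)) (XT.lf (nat_lit 1292) (nat_lit 2123756777) (nat_lit 76) (nat_lit 3257445046) (nat_lit 0) (nat_lit 3257445046) (nat_lit 394) (nat_lit 1) (nat_lit 378) (nat_lit 1) (nat_lit 377) (nat_lit 1) (nat_lit 289) (nat_lit 369) (nat_lit 362))) (XT.nd (nat_lit 78) (nat_lit 0) (nat_lit 0) (XT.lf (nat_lit 1292) (nat_lit 895255248) (nat_lit 0) (nat_lit 6726401675) (nat_lit 1216) (nat_lit 895255248) (nat_lit 395) (nat_lit 1) (nat_lit 378) (nat_lit 1) (nat_lit 394) (nat_lit 1) (nat_lit 290) (nat_lit 369) (nat_lit 361)) (XT.nd (nat_lit 78) (nat_lit 0) (nat_lit 76) (XT.lf (nat_lit 1292) (nat_lit 1401025305) (nat_lit 76) (nat_lit 3497888554)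 (nat_lit 0) (nat_lit 3497888554) (nat_lit 395) (nat_lit 1) (nat_lit 379) (nat_lit 1) (nat_lit 378) (nat_lit 1) (nat_lit 291) (nat_lit 369) (nat_lit 360)) (XT.lf (nat_lit 1292) (nat_lit 504506402) (nat_lit 0) (nat_lit 7270774168) (nat_lit 1216) (nat_lit 504506402) (nat_lit 396) (nat_lit 1) (nat_lit 379) (nat_lit 1) (nat_lit 395) (nat_lit 1) (nat_lit 292) (nat_lit 369) (nat_lit 359)))))) (XT.nd (nat_lit 390) (nat_lit 1292) (nat_lit 0) (XT.nd (nat_lit 156) (nat_lit 1216) (nat_lit 0) (XT.nd (nat_lit 78) (nat_lit 0) (nat_lit 76) (XT.lf (nat_lit 1292) (nat_lit 557136043) (nat_lit 76) (nat_lit 3803483763) (nat_lit 0) (nat_lit 3803483763) (nat_lit 396) (nat_lit 1) (nat_lit 380) (nat_lit 1) (nat_lit 379) (nat_lit 1) (nat_lit 293) (nat_lit 369) (nat_lit 358)) (XT.lf (nat_lit 1292) (nat_lit 56452271) (nat_lit 0) (nat_lit 7938724379) (nat_lit 1216) (nat_lit 56452271) (nat_lit 397) (nat_lit 1) (nat_lit 380) (nat_lit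 1) (nat_lit 396) (nat_lit 1) (nat_lit 294) (nat_lit 369) (nat_lit 357))) (XT.nd (nat_lit 78) (nat_lit 0) (nat_lit 0) (XT.lf (nat_lit 1368) (nat_lit 3775780955) (nat_lit 0) (nat_lit 388487150) (nat_lit 1292) (nat_lit 3775780955) (nat_lit 381) (nat_lit 1) (nat_lit 363) (nat_lit 1) (nat_lit 380) (nat_lit 1) (nat_lit 295) (nat_lit 369) (nat_lit 356)) (XT.nd (nat_lit 78) (nat_lit 0) (nat_lit 76) (XT.lf (nat_lit 1368) (nat_lit 6953646325) (nat_lit 76) (nat_lit 438949150) (nat_lit 0) (nat_lit 438949150) (nat_lit 381) (nat_lit 1) (nat_lit 364) (nat_lit 1) (nat_lit 363) (nat_lit 1) (nat_lit 296) (nat_lit 369) (nat_lit 355)) (XT.lf (nat_lit 1368) (nat_lit 3152148887) (nat_lit 0) (nat_lit 1419897458) (nat_lit 1292) (nat_lit 3152148887) (nat_lit 382) (nat_lit 1) (nat_lit 364) (nat_lit 1) (nat_lit 381) (nat_lit 1) (nat_lit 297) (nat_lit 369) (nat_lit 354))))) (XT.nd (nat_lit 156) (nat_lit 1368) (nat_lit 0) (XT.nd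 (nat_lit 78) (nat_lit 0) (nat_lit 76) (XT.lf (nat_lit 1368) (nat_lit 5659941723) (nat_lit 76) (nat_lit 979812671) (nat_lit 0) (nat_lit 979812671) (nat_lit 382) (nat_lit 1) (nat_lit 365) (nat_lit 1) (nat_lit 364) (nat_lit 1) (nat_lit 298) (nat_lit 369) (nat_lit 353)) (XT.lf (nat_lit 76) (nat_lit 2489157149) (nat_lit 0) (nat_lit 2538039821) (nat_lit 1292) (nat_lit 2489157149) (nat_lit 366) (nat_lit 1) (nat_lit 365) (nat_lit 1) (nat_lit 382) (nat_lit 1) (nat_lit 299) (nat_lit 369) (nat_lit 352))) (XT.nd (nat_lit 78) (nat_lit 608) (nat_lit 0) (XT.lf (nat_lit 912) (nat_lit 4291657355) (nat_lit 0) (nat_lit 1561882639) (nat_lit 836) (nat_lit 1561882639) (nat_lit 366) (nat_lit 1) (nat_lit 354) (nat_lit 1) (nat_lit 365) (nat_lit 1) (nat_lit 300) (nat_lit 369) (nat_lit 351)) (XT.nd (nat_lit 78) (nat_lit 608) (nat_lit 0) (XT.lf (nat_lit 76) (nat_lit 1791254236) (nat_lit 0) (nat_lit 3733684806) (nat_lit 912) (nat_lit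 1791254236) (nat_lit 355) (nat_lit 1) (nat_lit 354) (nat_lit 1) (nat_lit 366) (nat_lit 1) (nat_lit 301) (nat_lit 369) (nat_lit 350)) (XT.lf (nat_lit 684) (nat_lit 2857409659) (nat_lit 0) (nat_lit 2180689142) (nat_lit 608) (nat_lit 2180689142) (nat_lit 355) (nat_lit 1) (nat_lit 346) (nat_lit 1) (nat_lit 354) (nat_lit 1) (nat_lit 302) (nat_lit 369) (nat_lit 349))))))))
noncomputable def ec155 : XT := (XT.nd (nat_lit 1482) (nat_lit 3952) (nat_lit 0) (XT.nd (nat_lit 702) (nat_lit 2888) (nat_lit 0) (XT.nd (nat_lit 312) (nat_lit 1672) (nat_lit 0) (XT.nd (nat_lit 156) (nat_lit 608) (nat_lit 0) (XT.nd (nat_lit 78) (nat_lit 608) (nat_lit 0) (XT.lf (nat_lit 76) (nat_lit 1062569521) (nat_lit 0) (nat_lit 4998256596) (nat_lit 684) (nat_lit 1062569521) (nat_lit 347) (nat_lit 1) (nat_lit 346) (nat_lit 1) (nat_lit 355) (nat_lit 1) (nat_lit 303) (nat_lit 369) (nat_lit 348)) (XT.lf (nat_lit 684) (nat_lit 1365194182)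 (nat_lit 0) (nat_lit 2832080156) (nat_lit 608) (nat_lit 2832080156) (nat_lit 347) (nat_lit 1) (nat_lit 338) (nat_lit 1) (nat_lit 346) (nat_lit 1) (nat_lit 304) (nat_lit 369) (nat_lit 347))) (XT.nd (nat_lit 78) (nat_lit 608) (nat_lit 0) (XT.lf (nat_lit 76) (nat_lit 306933431) (nat_lit 0) (nat_lit 6323791857) (nat_lit 684) (nat_lit 306933431) (nat_lit 339) (nat_lit 1) (nat_lit 338) (nat_lit 1) (nat_lit 347) (nat_lit 1) (nat_lit 305) (nat_lit 369) (nat_lit 346)) (XT.lf (nat_lit 76) (nat_lit 3336333378) (nat_lit 0) (nat_lit 174109965) (nat_lit 608) (nat_lit 3336333378) (nat_lit 331) (nat_lit 1) (nat_lit 330) (nat_lit 1) (nat_lit 338) (nat_lit 1) (nat_lit 306) (nat_lit 369) (nat_lit 345)))) (XT.nd (nat_lit 156) (nat_lit 1064) (nat_lit 0) (XT.nd (nat_lit 78) (nat_lit 0) (nat_lit 0) (XT.lf (nat_lit 684) (nat_lit 5823196336) (nat_lit 0) (nat_lit 467475121) (nat_lit 608) (nat_lit 467475121) (nat_lit 331) (nat_lit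 1) (nat_lit 322) (nat_lit 1) (nat_lit 330) (nat_lit 1) (nat_lit 307) (nat_lit 369) (nat_lit 344)) (XT.lf (nat_lit 76) (nat_lit 2470406181) (nat_lit 0) (nat_lit 1729606250) (nat_lit 684) (nat_lit 2470406181) (nat_lit 323) (nat_lit 1) (nat_lit 322) (nat_lit 1) (nat_lit 331) (nat_lit 1) (nat_lit 308) (nat_lit 369) (nat_lit 343))) (XT.nd (nat_lit 78) (nat_lit 532) (nat_lit 0) (XT.lf (nat_lit 608) (nat_lit 4067171970) (nat_lit 0) (nat_lit 1258789985) (nat_lit 532) (nat_lit 1258789985) (nat_lit 323) (nat_lit 1) (nat_lit 315) (nat_lit 1) (nat_lit 322) (nat_lit 1) (nat_lit 309) (nat_lit 369) (nat_lit 342)) (XT.nd (nat_lit 78) (nat_lit 532) (nat_lit 0) (XT.lf (nat_lit 76) (nat_lit 1589354192) (nat_lit 0) (nat_lit 3321699144) (nat_lit 608) (nat_lit 1589354192) (nat_lit 316) (nat_lit 1) (nat_lit 315) (nat_lit 1) (nat_lit 323) (nat_lit 1) (nat_lit 310) (nat_lit 369) (nat_lit 341)) (XT.lf (nat_lit 608) (nat_lit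 2283556701) (nat_lit 0) (nat_lit 2067007267) (nat_lit 532) (nat_lit 2067007267) (nat_lit 316) (nat_lit 1) (nat_lit 308) (nat_lit 1) (nat_lit 315) (nat_lit 1) (nat_lit 311) (nat_lit 369) (nat_lit 340)))))) (XT.nd (nat_lit 390) (nat_lit 1368) (nat_lit 0) (XT.nd (nat_lit 156) (nat_lit 1064) (nat_lit 0) (XT.nd (nat_lit 78) (nat_lit 456) (nat_lit 0) (XT.lf (nat_lit 76) (nat_lit 695933962) (nat_lit 0) (nat_lit 4944621196) (nat_lit 608) (nat_lit 695933962) (nat_lit 309) (nat_lit 1) (nat_lit 308) (nat_lit 1) (nat_lit 316) (nat_lit 1) (nat_lit 312) (nat_lit 369) (nat_lit 339)) (XT.lf (nat_lit 532) (nat_lit 477673988) (nat_lit 0) (nat_lit 2889341346) (nat_lit 456) (nat_lit 2889341346) (nat_lit 309) (nat_lit 1) (nat_lit 302) (nat_lit 1) (nat_lit 308) (nat_lit 1) (nat_lit 313) (nat_lit 369) (nat_lit 338))) (XT.nd (nat_lit 78) (nat_lit 456) (nat_lit 0) (XT.lf (nat_lit 608) (nat_lit 5767622638) (nat_lit 0) (nat_lit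 205278730) (nat_lit 532) (nat_lit 205278730) (nat_lit 302) (nat_lit 1) (nat_lit 294) (nat_lit 1) (nat_lit 301) (nat_lit 1) (nat_lit 314) (nat_lit 369) (nat_lit 337)) (XT.nd (nat_lit 78) (nat_lit 456) (nat_lit 0) (XT.lf (nat_lit 76) (nat_lit 2390586576) (nat_lit 0) (nat_lit 1319310358) (nat_lit 608) (nat_lit 2390586576) (nat_lit 295) (nat_lit 1) (nat_lit 294) (nat_lit 1) (nat_lit 302) (nat_lit 1) (nat_lit 315) (nat_lit 369) (nat_lit 336)) (XT.lf (nat_lit 532) (nat_lit 3810520788) (nat_lit 0) (nat_lit 1107076204) (nat_lit 456) (nat_lit 1107076204) (nat_lit 295) (nat_lit 1) (nat_lit 288) (nat_lit 1) (nat_lit 294) (nat_lit 1) (nat_lit 316) (nat_lit 369) (nat_lit 335))))) (XT.nd (nat_lit 156) (nat_lit 912) (nat_lit 0) (XT.nd (nat_lit 78) (nat_lit 456) (nat_lit 0) (XT.lf (nat_lit 76) (nat_lit 1415205962) (nat_lit 0) (nat_lit 3119560155) (nat_lit 532) (nat_lit 1415205962) (nat_lit 289) (nat_lit 1) (nat_lit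 288) (nat_lit 1) (nat_lit 295) (nat_lit 1) (nat_lit 317) (nat_lit 369) (nat_lit 334)) (XT.lf (nat_lit 532) (nat_lit 1848265998) (nat_lit 0) (nat_lit 2014144966) (nat_lit 456) (nat_lit 2014144966) (nat_lit 289) (nat_lit 1) (nat_lit 282) (nat_lit 1) (nat_lit 288) (nat_lit 1) (nat_lit 318) (nat_lit 369) (nat_lit 333))) (XT.nd (nat_lit 78) (nat_lit 912) (nat_lit 0) (XT.lf (nat_lit 76) (nat_lit 438213300) (nat_lit 0) (nat_lit 4928318515) (nat_lit 532) (nat_lit 438213300) (nat_lit 283) (nat_lit 1) (nat_lit 282) (nat_lit 1) (nat_lit 289) (nat_lit 1) (nat_lit 319) (nat_lit 369) (nat_lit 332)) (XT.nd (nat_lit 78) (nat_lit 456) (nat_lit 0) (XT.lf (nat_lit 76) (nat_lit 2810206995) (nat_lit 0) (nat_lit 113171313) (nat_lit 456) (nat_lit 2810206995) (nat_lit 277) (nat_lit 1) (nat_lit 276) (nat_lit 1) (nat_lit 282) (nat_lit 1) (nat_lit 320) (nat_lit 369) (nat_lit 331)) (XT.lf (nat_lit 532) (nat_lit 4597291513) (nat_lit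 0) (nat_lit 533340519) (nat_lit 456) (nat_lit 533340519) (nat_lit 277) (nat_lit 1) (nat_lit 270) (nat_lit 1) (nat_lit 276) (nat_lit 1) (nat_lit 321) (nat_lit 369) (nat_lit 330))))))) (XT.nd (nat_lit 702) (nat_lit 2052) (nat_lit 0) (XT.nd (nat_lit 312) (nat_lit 1140) (nat_lit 0) (XT.nd (nat_lit 156) (nat_lit 380) (nat_lit 0) (XT.nd (nat_lit 78) (nat_lit 380) (nat_lit 0) (XT.lf (nat_lit 76) (nat_lit 1779225490) (nat_lit 0) (nat_lit 2036610616) (nat_lit 532) (nat_lit 1779225490) (nat_lit 271) (nat_lit 1) (nat_lit 270) (nat_lit 1) (nat_lit 277) (nat_lit 1) (nat_lit 322) (nat_lit 369) (nat_lit 329)) (XT.lf (nat_lit 456) (nat_lit 2529901170) (nat_lit 0) (nat_lit 1498837516) (nat_lit 380) (nat_lit 1498837516) (nat_lit 271) (nat_lit 1) (nat_lit 265) (nat_lit 1) (nat_lit 270) (nat_lit 1) (nat_lit 323) (nat_lit 369) (nat_lit 328))) (XT.nd (nat_lit 78) (nat_lit 380) (nat_lit 0) (XT.lf (nat_lit 76) (nat_lit 753130297)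 (nat_lit 0) (nat_lit 3955066237) (nat_lit 456) (nat_lit 753130297) (nat_lit 266) (nat_lit 1) (nat_lit 265) (nat_lit 1) (nat_lit 271) (nat_lit 1) (nat_lit 324) (nat_lit 369) (nat_lit 327)) (XT.lf (nat_lit 456) (nat_lit 473659633) (nat_lit 0) (nat_lit 2461109024) (nat_lit 380) (nat_lit 2461109024) (nat_lit 266) (nat_lit 1) (nat_lit 260) (nat_lit 1) (nat_lit 265) (nat_lit 1) (nat_lit 325) (nat_lit 369) (nat_lit 326)))) (XT.nd (nat_lit 156) (nat_lit 684) (nat_lit 0) (XT.nd (nat_lit 78) (nat_lit 0) (nat_lit 0) (XT.lf (nat_lit 456) (nat_lit 4803564600) (nat_lit 0) (nat_lit 264162168) (nat_lit 380) (nat_lit 264162168) (nat_lit 260) (nat_lit 1) (nat_lit 254) (nat_lit 1) (nat_lit 259) (nat_lit 1) (nat_lit 326) (nat_lit 369) (nat_lit 325)) (XT.lf (nat_lit 76) (nat_lit 1864960286) (nat_lit 0) (nat_lit 1538325512) (nat_lit 456) (nat_lit 1864960286) (nat_lit 255) (nat_lit 1) (nat_lit 254) (nat_lit 1) (nat_lit 260)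 (nat_lit 1) (nat_lit 327) (nat_lit 369) (nat_lit 324))) (XT.nd (nat_lit 78) (nat_lit 304) (nat_lit 0) (XT.lf (nat_lit 456) (nat_lit 2672466108) (nat_lit 0) (nat_lit 1266775765) (nat_lit 380) (nat_lit 1266775765) (nat_lit 255) (nat_lit 1) (nat_lit 249) (nat_lit 1) (nat_lit 254) (nat_lit 1) (nat_lit 328) (nat_lit 369) (nat_lit 323)) (XT.nd (nat_lit 78) (nat_lit 304) (nat_lit 0) (XT.lf (nat_lit 76) (nat_lit 809675613) (nat_lit 0) (nat_lit 3525479761) (nat_lit 456) (nat_lit 809675613) (nat_lit 250) (nat_lit 1) (nat_lit 249) (nat_lit 1) (nat_lit 255) (nat_lit 1) (nat_lit 329) (nat_lit 369) (nat_lit 322)) (XT.lf (nat_lit 380) (nat_lit 562346068) (nat_lit 0) (nat_lit 2261036850) (nat_lit 304) (nat_lit 2261036850) (nat_lit 250) (nat_lit 1) (nat_lit 245) (nat_lit 1) (nat_lit 249) (nat_lit 1) (nat_lit 330) (nat_lit 369) (nat_lit 321)))))) (XT.nd (nat_lit 390) (nat_lit 988) (nat_lit 0) (XT.nd (nat_lit 156) (nat_lit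 608) (nat_lit 0) (XT.nd (nat_lit 78) (nat_lit 0) (nat_lit 0) (XT.lf (nat_lit 456) (nat_lit 4560495852) (nat_lit 0) (nat_lit 232418979) (nat_lit 380) (nat_lit 232418979) (nat_lit 245) (nat_lit 1) (nat_lit 239) (nat_lit 1) (nat_lit 244) (nat_lit 1) (nat_lit 331) (nat_lit 369) (nat_lit 320)) (XT.lf (nat_lit 76) (nat_lit 1735603856) (nat_lit 0) (nat_lit 1495288498) (nat_lit 456) (nat_lit 1735603856) (nat_lit 240) (nat_lit 1) (nat_lit 239) (nat_lit 1) (nat_lit 245) (nat_lit 1) (nat_lit 332) (nat_lit 369) (nat_lit 319))) (XT.nd (nat_lit 78) (nat_lit 304) (nat_lit 0) (XT.lf (nat_lit 380) (nat_lit 2398986721) (nat_lit 0) (nat_lit 1254979312) (nat_lit 304) (nat_lit 1254979312) (nat_lit 240) (nat_lit 1) (nat_lit 235) (nat_lit 1) (nat_lit 239) (nat_lit 1) (nat_lit 333) (nat_lit 369) (nat_lit 318)) (XT.nd (nat_lit 78) (nat_lit 304) (nat_lit 0) (XT.lf (nat_lit 76) (nat_lit 667121562) (nat_lit 0) (nat_lit 3518135779)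 (nat_lit 380) (nat_lit 667121562) (nat_lit 236) (nat_lit 1) (nat_lit 235) (nat_lit 1) (nat_lit 240) (nat_lit 1) (nat_lit 334) (nat_lit 369) (nat_lit 317)) (XT.lf (nat_lit 380) (nat_lit 266019948) (nat_lit 0) (nat_lit 2265217735) (nat_lit 304) (nat_lit 2265217735) (nat_lit 236) (nat_lit 1) (nat_lit 231) (nat_lit 1) (nat_lit 235) (nat_lit 1) (nat_lit 335) (nat_lit 369) (nat_lit 316))))) (XT.nd (nat_lit 156) (nat_lit 608) (nat_lit 0) (XT.nd (nat_lit 78) (nat_lit 0) (nat_lit 0) (XT.lf (nat_lit 380) (nat_lit 3975497294) (nat_lit 0) (nat_lit 383069131) (nat_lit 304) (nat_lit 383069131) (nat_lit 231) (nat_lit 1) (nat_lit 226) (nat_lit 1) (nat_lit 230) (nat_lit 1) (nat_lit 336) (nat_lit 369) (nat_lit 315)) (XT.lf (nat_lit 76) (nat_lit 1442891374) (nat_lit 0) (nat_lit 1801408714) (nat_lit 380) (nat_lit 1442891374) (nat_lit 227) (nat_lit 1) (nat_lit 226) (nat_lit 1) (nat_lit 231) (nat_lit 1) (nat_lit 337) (nat_lit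 369) (nat_lit 314))) (XT.nd (nat_lit 78) (nat_lit 304) (nat_lit 0) (XT.lf (nat_lit 380) (nat_lit 1810146591) (nat_lit 0) (nat_lit 1411836066) (nat_lit 304) (nat_lit 1411836066) (nat_lit 227) (nat_lit 1) (nat_lit 222) (nat_lit 1) (nat_lit 226) (nat_lit 1) (nat_lit 338) (nat_lit 369) (nat_lit 313)) (XT.nd (nat_lit 78) (nat_lit 304) (nat_lit 0) (XT.lf (nat_lit 76) (nat_lit 373958700) (nat_lit 0) (nat_lit 3833561124) (nat_lit 380) (nat_lit 373958700) (nat_lit 223) (nat_lit 1) (nat_lit 222) (nat_lit 1) (nat_lit 227) (nat_lit 1) (nat_lit 339) (nat_lit 369) (nat_lit 312)) (XT.lf (nat_lit 76) (nat_lit 2107390789) (nat_lit 0) (nat_lit 314693982) (nat_lit 304) (nat_lit 2107390789) (nat_lit 219) (nat_lit 1) (nat_lit 218) (nat_lit 1) (nat_lit 222) (nat_lit 1) (nat_lit 340) (nat_lit 369) (nat_lit 311))))))))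
noncomputable def ec156 : XT := (XT.nd (nat_lit 1482) (nat_lit 2280) (nat_lit 0) (XT.nd (nat_lit 702) (nat_lit 1368) (nat_lit 0) (XT.nd (nat_lit 312) (nat_lit 760) (nat_lit 0) (XT.nd (nat_lit 156) (nat_lit 608) (nat_lit 0) (XT.nd (nat_lit 78) (nat_lit 0) (nat_lit 0) (XT.lf (nat_lit 380) (nat_lit 3136244532) (nat_lit 0) (nat_lit 671115968) (nat_lit 304) (nat_lit 671115968) (nat_lit 219) (nat_lit 1) (nat_lit 214) (nat_lit 1) (nat_lit 218) (nat_lit 1) (nat_lit 341) (nat_lit 369) (nat_lit 310)) (XT.lf (nat_lit 76) (nat_lit 1029034630) (nat_lit 0) (nat_lit 2369989104) (nat_lit 380) (nat_lit 1029034630) (nat_lit 215) (nat_lit 1) (nat_lit 214) (nat_lit 1) (nat_lit 219) (nat_lit 1) (nat_lit 342) (nat_lit 369) (nat_lit 309))) (XT.nd (nat_lit 78) (nat_lit 380) (nat_lit 0) (XT.lf (nat_lit 304) (nat_lit 988061963) (nat_lit 0) (nat_lit 1695185015) (nat_lit 228) (nat_lit 1695185015) (nat_lit 215) (nat_lit 1) (nat_lit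 211) (nat_lit 1) (nat_lit 214) (nat_lit 1) (nat_lit 343) (nat_lit 369) (nat_lit 308)) (XT.lf (nat_lit 380) (nat_lit 4269961899) (nat_lit 0) (nat_lit 29984555) (nat_lit 304) (nat_lit 29984555) (nat_lit 211) (nat_lit 1) (nat_lit 206) (nat_lit 1) (nat_lit 210) (nat_lit 1) (nat_lit 344) (nat_lit 369) (nat_lit 307)))) (XT.nd (nat_lit 156) (nat_lit 532) (nat_lit 0) (XT.nd (nat_lit 78) (nat_lit 228) (nat_lit 0) (XT.lf (nat_lit 76) (nat_lit 1590766628) (nat_lit 0) (nat_lit 1099801417) (nat_lit 380) (nat_lit 1590766628) (nat_lit 207) (nat_lit 1) (nat_lit 206) (nat_lit 1) (nat_lit 211) (nat_lit 1) (nat_lit 345) (nat_lit 369) (nat_lit 306)) (XT.lf (nat_lit 304) (nat_lit 2114024052) (nat_lit 0) (nat_lit 1059907831) (nat_lit 228) (nat_lit 1059907831) (nat_lit 207) (nat_lit 1) (nat_lit 203) (nat_lit 1) (nat_lit 206) (nat_lit 1) (nat_lit 346) (nat_lit 369) (nat_lit 305))) (XT.nd (nat_lit 78) (nat_lit 532) (nat_lit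 0) (XT.lf (nat_lit 76) (nat_lit 528338209) (nat_lit 0) (nat_lit 3130442050) (nat_lit 304) (nat_lit 528338209) (nat_lit 204) (nat_lit 1) (nat_lit 203) (nat_lit 1) (nat_lit 207) (nat_lit 1) (nat_lit 347) (nat_lit 369) (nat_lit 304)) (XT.nd (nat_lit 78) (nat_lit 228) (nat_lit 0) (XT.lf (nat_lit 76) (nat_lit 2070154854) (nat_lit 0) (nat_lit 554260) (nat_lit 304) (nat_lit 2070154854) (nat_lit 200) (nat_lit 1) (nat_lit 199) (nat_lit 1) (nat_lit 203) (nat_lit 1) (nat_lit 348) (nat_lit 369) (nat_lit 303)) (XT.lf (nat_lit 304) (nat_lit 3078422597) (nat_lit 0) (nat_lit 508469625) (nat_lit 228) (nat_lit 508469625) (nat_lit 200) (nat_lit 1) (nat_lit 196) (nat_lit 1) (nat_lit 199) (nat_lit 1) (nat_lit 349) (nat_lit 369) (nat_lit 302)))))) (XT.nd (nat_lit 390) (nat_lit 608) (nat_lit 0) (XT.nd (nat_lit 156) (nat_lit 532) (nat_lit 0) (XT.nd (nat_lit 78) (nat_lit 228) (nat_lit 0) (XT.lf (nat_lit 76) (nat_lit 1008492402)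 (nat_lit 0) (nat_lit 2033312476) (nat_lit 304) (nat_lit 1008492402) (nat_lit 197) (nat_lit 1) (nat_lit 196) (nat_lit 1) (nat_lit 200) (nat_lit 1) (nat_lit 350) (nat_lit 369) (nat_lit 301)) (XT.lf (nat_lit 304) (nat_lit 966528240) (nat_lit 0) (nat_lit 1519718209) (nat_lit 228) (nat_lit 1519718209) (nat_lit 197) (nat_lit 1) (nat_lit 193) (nat_lit 1) (nat_lit 196) (nat_lit 1) (nat_lit 351) (nat_lit 369) (nat_lit 300))) (XT.nd (nat_lit 78) (nat_lit 228) (nat_lit 0) (XT.lf (nat_lit 304) (nat_lit 3900322690) (nat_lit 0) (nat_lit 31142700) (nat_lit 228) (nat_lit 31142700) (nat_lit 193) (nat_lit 1) (nat_lit 189) (nat_lit 1) (nat_lit 192) (nat_lit 1) (nat_lit 352) (nat_lit 369) (nat_lit 299)) (XT.nd (nat_lit 78) (nat_lit 228) (nat_lit 0) (XT.lf (nat_lit 76) (nat_lit 1419402094) (nat_lit 0) (nat_lit 1080314770) (nat_lit 304) (nat_lit 1419402094) (nat_lit 190) (nat_lit 1) (nat_lit 189) (nat_lit 1) (nat_lit 193)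 (nat_lit 1) (nat_lit 353) (nat_lit 369) (nat_lit 298)) (XT.lf (nat_lit 304) (nat_lit 1797612381) (nat_lit 0) (nat_lit 1039487817) (nat_lit 228) (nat_lit 1039487817) (nat_lit 190) (nat_lit 1) (nat_lit 186) (nat_lit 1) (nat_lit 189) (nat_lit 1) (nat_lit 354) (nat_lit 369) (nat_lit 297))))) (XT.nd (nat_lit 156) (nat_lit 380) (nat_lit 0) (XT.nd (nat_lit 78) (nat_lit 228) (nat_lit 0) (XT.lf (nat_lit 76) (nat_lit 384474202) (nat_lit 0) (nat_lit 3065829040) (nat_lit 304) (nat_lit 384474202) (nat_lit 187) (nat_lit 1) (nat_lit 186) (nat_lit 1) (nat_lit 190) (nat_lit 1) (nat_lit 355) (nat_lit 369) (nat_lit 296)) (XT.lf (nat_lit 76) (nat_lit 1769246257) (nat_lit 0) (nat_lit 254741769) (nat_lit 228) (nat_lit 1769246257) (nat_lit 184) (nat_lit 1) (nat_lit 183) (nat_lit 1) (nat_lit 186) (nat_lit 1) (nat_lit 356) (nat_lit 369) (nat_lit 295))) (XT.nd (nat_lit 78) (nat_lit 152) (nat_lit 0) (XT.lf (nat_lit 304) (nat_lit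 2508674306) (nat_lit 0) (nat_lit 621860658) (nat_lit 228) (nat_lit 621860658) (nat_lit 184) (nat_lit 1) (nat_lit 180) (nat_lit 1) (nat_lit 183) (nat_lit 1) (nat_lit 357) (nat_lit 369) (nat_lit 294)) (XT.nd (nat_lit 78) (nat_lit 152) (nat_lit 0) (XT.lf (nat_lit 76) (nat_lit 742006221) (nat_lit 0) (nat_lit 2228010547) (nat_lit 304) (nat_lit 742006221) (nat_lit 181) (nat_lit 1) (nat_lit 180) (nat_lit 1) (nat_lit 184) (nat_lit 1) (nat_lit 358) (nat_lit 369) (nat_lit 293)) (XT.lf (nat_lit 228) (nat_lit 467351859) (nat_lit 0) (nat_lit 1602419094) (nat_lit 152) (nat_lit 1602419094) (nat_lit 181) (nat_lit 1) (nat_lit 178) (nat_lit 1) (nat_lit 180) (nat_lit 1) (nat_lit 359) (nat_lit 369) (nat_lit 292))))))) (XT.nd (nat_lit 702) (nat_lit 1064) (nat_lit 0) (XT.nd (nat_lit 312) (nat_lit 760) (nat_lit 0) (XT.nd (nat_lit 156) (nat_lit 152) (nat_lit 0) (XT.nd (nat_lit 78) (nat_lit 0) (nat_lit 0) (XT.lf (nat_lit 304)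 (nat_lit 3113894520) (nat_lit 0) (nat_lit 259592030) (nat_lit 228) (nat_lit 259592030) (nat_lit 178) (nat_lit 1) (nat_lit 174) (nat_lit 1) (nat_lit 177) (nat_lit 1) (nat_lit 360) (nat_lit 369) (nat_lit 291)) (XT.lf (nat_lit 76) (nat_lit 1048006482) (nat_lit 0) (nat_lit 1498064488) (nat_lit 304) (nat_lit 1048006482) (nat_lit 175) (nat_lit 1) (nat_lit 174) (nat_lit 1) (nat_lit 178) (nat_lit 1) (nat_lit 361) (nat_lit 369) (nat_lit 290))) (XT.nd (nat_lit 78) (nat_lit 0) (nat_lit 0) (XT.lf (nat_lit 228) (nat_lit 1093091538) (nat_lit 0) (nat_lit 1231346484) (nat_lit 152) (nat_lit 1231346484) (nat_lit 175) (nat_lit 1) (nat_lit 172) (nat_lit 1) (nat_lit 174) (nat_lit 1) (nat_lit 362) (nat_lit 369) (nat_lit 289)) (XT.lf (nat_lit 76) (nat_lit 54279363) (nat_lit 0) (nat_lit 3409732938) (nat_lit 228) (nat_lit 54279363) (nat_lit 173) (nat_lit 1) (nat_lit 172) (nat_lit 1) (nat_lit 175) (nat_lit 1) (nat_lit 363) (nat_lit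 369) (nat_lit 288)))) (XT.nd (nat_lit 156) (nat_lit 380) (nat_lit 0) (XT.nd (nat_lit 78) (nat_lit 152) (nat_lit 0) (XT.lf (nat_lit 76) (nat_lit 1308561122) (nat_lit 0) (nat_lit 863540967) (nat_lit 228) (nat_lit 1308561122) (nat_lit 170) (nat_lit 1) (nat_lit 169) (nat_lit 1) (nat_lit 172) (nat_lit 1) (nat_lit 364) (nat_lit 369) (nat_lit 287)) (XT.lf (nat_lit 228) (nat_lit 1629309775) (nat_lit 0) (nat_lit 907256639) (nat_lit 152) (nat_lit 907256639) (nat_lit 170) (nat_lit 1) (nat_lit 167) (nat_lit 1) (nat_lit 169) (nat_lit 1) (nat_lit 365) (nat_lit 369) (nat_lit 286))) (XT.nd (nat_lit 78) (nat_lit 380) (nat_lit 0) (XT.lf (nat_lit 76) (nat_lit 327068380) (nat_lit 0) (nat_lit 2753449289) (nat_lit 228) (nat_lit 327068380) (nat_lit 168) (nat_lit 1) (nat_lit 167) (nat_lit 1) (nat_lit 170) (nat_lit 1) (nat_lit 366) (nat_lit 369) (nat_lit 285)) (XT.nd (nat_lit 78) (nat_lit 152) (nat_lit 0) (XT.lf (nat_lit 76)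 (nat_lit 1529067703) (nat_lit 0) (nat_lit 313390666) (nat_lit 228) (nat_lit 1529067703) (nat_lit 165) (nat_lit 1) (nat_lit 164) (nat_lit 1) (nat_lit 167) (nat_lit 1) (nat_lit 367) (nat_lit 369) (nat_lit 284)) (XT.lf (nat_lit 228) (nat_lit 2086564419) (nat_lit 0) (nat_lit 624747167) (nat_lit 152) (nat_lit 624747167) (nat_lit 165) (nat_lit 1) (nat_lit 162) (nat_lit 1) (nat_lit 164) (nat_lit 1) (nat_lit 368) (nat_lit 369) (nat_lit 283)))))) (XT.nd (nat_lit 390) (nat_lit 532) (nat_lit 0) (XT.nd (nat_lit 156) (nat_lit 380) (nat_lit 0) (XT.nd (nat_lit 78) (nat_lit 152) (nat_lit 0) (XT.lf (nat_lit 76) (nat_lit 561316281) (nat_lit 0) (nat_lit 2178390183) (nat_lit 228) (nat_lit 561316281) (nat_lit 163) (nat_lit 1) (nat_lit 162) (nat_lit 1) (nat_lit 165) (nat_lit 1) (nat_lit 369) (nat_lit 369) (nat_lit 282)) (XT.lf (nat_lit 228) (nat_lit 165419626) (nat_lit 0) (nat_lit 1550482768) (nat_lit 152) (nat_lit 1550482768)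 (nat_lit 163) (nat_lit 1) (nat_lit 160) (nat_lit 1) (nat_lit 162) (nat_lit 1) (nat_lit 370) (nat_lit 369) (nat_lit 281))) (XT.nd (nat_lit 78) (nat_lit 152) (nat_lit 0) (XT.lf (nat_lit 228) (nat_lit 2474219235) (nat_lit 0) (nat_lit 379022868) (nat_lit 152) (nat_lit 379022868) (nat_lit 160) (nat_lit 1) (nat_lit 157) (nat_lit 1) (nat_lit 159) (nat_lit 1) (nat_lit 371) (nat_lit 369) (nat_lit 280)) (XT.nd (nat_lit 78) (nat_lit 152) (nat_lit 0) (XT.lf (nat_lit 76) (nat_lit 761557451) (nat_lit 0) (nat_lit 1675263844) (nat_lit 228) (nat_lit 761557451) (nat_lit 158) (nat_lit 1) (nat_lit 157) (nat_lit 1) (nat_lit 160) (nat_lit 1) (nat_lit 372) (nat_lit 369) (nat_lit 279)) (XT.lf (nat_lit 228) (nat_lit 583288483) (nat_lit 0) (nat_lit 1290856322) (nat_lit 152) (nat_lit 1290856322) (nat_lit 158) (nat_lit 1) (nat_lit 155) (nat_lit 1) (nat_lit 157) (nat_lit 1) (nat_lit 373) (nat_lit 369) (nat_lit 278))))) (XT.nd (nat_lit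 156) (nat_lit 304) (nat_lit 0) (XT.nd (nat_lit 78) (nat_lit 0) (nat_lit 0) (XT.lf (nat_lit 228) (nat_lit 2800577545) (nat_lit 0) (nat_lit 165827882) (nat_lit 152) (nat_lit 165827882) (nat_lit 155) (nat_lit 1) (nat_lit 152) (nat_lit 1) (nat_lit 154) (nat_lit 1) (nat_lit 374) (nat_lit 369) (nat_lit 277)) (XT.lf (nat_lit 76) (nat_lit 931813743) (nat_lit 0) (nat_lit 1235821471) (nat_lit 228) (nat_lit 931813743) (nat_lit 153) (nat_lit 1) (nat_lit 152) (nat_lit 1) (nat_lit 155) (nat_lit 1) (nat_lit 375) (nat_lit 369) (nat_lit 276))) (XT.nd (nat_lit 78) (nat_lit 152) (nat_lit 0) (XT.lf (nat_lit 228) (nat_lit 941851338) (nat_lit 0) (nat_lit 1062707631) (nat_lit 152) (nat_lit 1062707631) (nat_lit 153) (nat_lit 1) (nat_lit 150) (nat_lit 1) (nat_lit 152) (nat_lit 1) (nat_lit 376) (nat_lit 369) (nat_lit 275)) (XT.nd (nat_lit 78) (nat_lit 152) (nat_lit 0) (XT.lf (nat_lit 76) (nat_lit 18798889) (nat_lit 0) (nat_lit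 2998152206) (nat_lit 228) (nat_lit 18798889) (nat_lit 151) (nat_lit 1) (nat_lit 150) (nat_lit 1) (nat_lit 153) (nat_lit 1) (nat_lit 377) (nat_lit 369) (nat_lit 274)) (XT.lf (nat_lit 76) (nat_lit 1075651831) (nat_lit 0) (nat_lit 852740734) (nat_lit 152) (nat_lit 1075651831) (nat_lit 149) (nat_lit 1) (nat_lit 148) (nat_lit 1) (nat_lit 150) (nat_lit 1) (nat_lit 378) (nat_lit 369) (nat_lit 273))))))))
noncomputable def ec157 : XT := (XT.nd (nat_lit 1482) (nat_lit 1444) (nat_lit 0) (XT.nd (nat_lit 702) (nat_lit 1140) (nat_lit 0) (XT.nd (nat_lit 312) (nat_lit 380) (nat_lit 0) (XT.nd (nat_lit 156) (nat_lit 304) (nat_lit 0) (XT.nd (nat_lit 78) (nat_lit 0) (nat_lit 0) (XT.lf (nat_lit 228) (nat_lit 1248091721) (nat_lit 0) (nat_lit 862452945) (nat_lit 152) (nat_lit 862452945) (nat_lit 149) (nat_lit 1) (nat_lit 146) (nat_lit 1) (nat_lit 148) (nat_lit 1) (nat_lit 379) (nat_lit 369) (nat_lit 272)) (XT.lf (nat_lit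 76) (nat_lit 179414789) (nat_lit 0) (nat_lit 2583665600) (nat_lit 228) (nat_lit 179414789) (nat_lit 147) (nat_lit 1) (nat_lit 146) (nat_lit 1) (nat_lit 149) (nat_lit 1) (nat_lit 380) (nat_lit 369) (nat_lit 271))) (XT.nd (nat_lit 78) (nat_lit 152) (nat_lit 0) (XT.lf (nat_lit 76) (nat_lit 1196234166) (nat_lit 0) (nat_lit 519522265) (nat_lit 152) (nat_lit 1196234166) (nat_lit 145) (nat_lit 1) (nat_lit 144) (nat_lit 1) (nat_lit 146) (nat_lit 1) (nat_lit 381) (nat_lit 369) (nat_lit 270)) (XT.lf (nat_lit 228) (nat_lit 1508203625) (nat_lit 0) (nat_lit 686910290) (nat_lit 152) (nat_lit 686910290) (nat_lit 145) (nat_lit 1) (nat_lit 142) (nat_lit 1) (nat_lit 144) (nat_lit 1) (nat_lit 382) (nat_lit 369) (nat_lit 269)))) (XT.nd (nat_lit 156) (nat_lit 228) (nat_lit 0) (XT.nd (nat_lit 78) (nat_lit 152) (nat_lit 0) (XT.lf (nat_lit 76) (nat_lit 317380746) (nat_lit 0) (nat_lit 2217734195) (nat_lit 228) (nat_lit 317380746)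 (nat_lit 143) (nat_lit 1) (nat_lit 142) (nat_lit 1) (nat_lit 145) (nat_lit 1) (nat_lit 383) (nat_lit 369) (nat_lit 268)) (XT.lf (nat_lit 76) (nat_lit 1296364238) (nat_lit 0) (nat_lit 230397705) (nat_lit 152) (nat_lit 1296364238) (nat_lit 141) (nat_lit 1) (nat_lit 140) (nat_lit 1) (nat_lit 142) (nat_lit 1) (nat_lit 384) (nat_lit 369) (nat_lit 267))) (XT.nd (nat_lit 78) (nat_lit 76) (nat_lit 0) (XT.lf (nat_lit 228) (nat_lit 1727679869) (nat_lit 0) (nat_lit 533254603) (nat_lit 152) (nat_lit 533254603) (nat_lit 141) (nat_lit 1) (nat_lit 138) (nat_lit 1) (nat_lit 140) (nat_lit 1) (nat_lit 385) (nat_lit 369) (nat_lit 266)) (XT.nd (nat_lit 78) (nat_lit 76) (nat_lit 0) (XT.lf (nat_lit 76) (nat_lit 435360555) (nat_lit 0) (nat_lit 1894875461) (nat_lit 228) (nat_lit 435360555) (nat_lit 139) (nat_lit 1) (nat_lit 138) (nat_lit 1) (nat_lit 141) (nat_lit 1) (nat_lit 386) (nat_lit 369) (nat_lit 265)) (XT.lf (nat_lit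 152) (nat_lit 20145104) (nat_lit 0) (nat_lit 1358575335) (nat_lit 76) (nat_lit 1358575335) (nat_lit 139) (nat_lit 1) (nat_lit 137) (nat_lit 1) (nat_lit 138) (nat_lit 1) (nat_lit 387) (nat_lit 369) (nat_lit 264)))))) (XT.nd (nat_lit 390) (nat_lit 608) (nat_lit 0) (XT.nd (nat_lit 156) (nat_lit 304) (nat_lit 0) (XT.nd (nat_lit 78) (nat_lit 0) (nat_lit 0) (XT.lf (nat_lit 228) (nat_lit 1911390587) (nat_lit 0) (nat_lit 398977873) (nat_lit 152) (nat_lit 398977873) (nat_lit 137) (nat_lit 1) (nat_lit 134) (nat_lit 1) (nat_lit 136) (nat_lit 1) (nat_lit 388) (nat_lit 369) (nat_lit 263)) (XT.lf (nat_lit 76) (nat_lit 535716945) (nat_lit 0) (nat_lit 1610220221) (nat_lit 228) (nat_lit 535716945) (nat_lit 135) (nat_lit 1) (nat_lit 134) (nat_lit 1) (nat_lit 137) (nat_lit 1) (nat_lit 389) (nat_lit 369) (nat_lit 262))) (XT.nd (nat_lit 78) (nat_lit 228) (nat_lit 0) (XT.lf (nat_lit 152) (nat_lit 240155479) (nat_lit 0) (nat_lit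 1207076589) (nat_lit 76) (nat_lit 1207076589) (nat_lit 135) (nat_lit 1) (nat_lit 133) (nat_lit 1) (nat_lit 134) (nat_lit 1) (nat_lit 390) (nat_lit 369) (nat_lit 261)) (XT.nd (nat_lit 78) (nat_lit 0) (nat_lit 0) (XT.lf (nat_lit 228) (nat_lit 2063652964) (nat_lit 0) (nat_lit 281853727) (nat_lit 152) (nat_lit 281853727) (nat_lit 133) (nat_lit 1) (nat_lit 130) (nat_lit 1) (nat_lit 132) (nat_lit 1) (nat_lit 391) (nat_lit 369) (nat_lit 260)) (XT.lf (nat_lit 76) (nat_lit 620545267) (nat_lit 0) (nat_lit 1359444194) (nat_lit 228) (nat_lit 620545267) (nat_lit 131) (nat_lit 1) (nat_lit 130) (nat_lit 1) (nat_lit 133) (nat_lit 1) (nat_lit 392) (nat_lit 369) (nat_lit 259))))) (XT.nd (nat_lit 156) (nat_lit 304) (nat_lit 0) (XT.nd (nat_lit 78) (nat_lit 228) (nat_lit 0) (XT.lf (nat_lit 152) (nat_lit 429158348) (nat_lit 0) (nat_lit 1072471915) (nat_lit 76) (nat_lit 1072471915) (nat_lit 131) (nat_lit 1) (nat_lit 129)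 (nat_lit 1) (nat_lit 130) (nat_lit 1) (nat_lit 393) (nat_lit 369) (nat_lit 258)) (XT.lf (nat_lit 228) (nat_lit 2188293187) (nat_lit 0) (nat_lit 179905962) (nat_lit 152) (nat_lit 179905962) (nat_lit 129) (nat_lit 1) (nat_lit 126) (nat_lit 1) (nat_lit 128) (nat_lit 1) (nat_lit 394) (nat_lit 369) (nat_lit 257))) (XT.nd (nat_lit 78) (nat_lit 304) (nat_lit 0) (XT.lf (nat_lit 76) (nat_lit 691703422) (nat_lit 0) (nat_lit 1138707185) (nat_lit 228) (nat_lit 691703422) (nat_lit 127) (nat_lit 1) (nat_lit 126) (nat_lit 1) (nat_lit 129) (nat_lit 1) (nat_lit 395) (nat_lit 369) (nat_lit 256)) (XT.nd (nat_lit 78) (nat_lit 228) (nat_lit 0) (XT.lf (nat_lit 152) (nat_lit 590799999) (nat_lit 0) (nat_lit 952877406) (nat_lit 76) (nat_lit 952877406) (nat_lit 127) (nat_lit 1) (nat_lit 125) (nat_lit 1) (nat_lit 126) (nat_lit 1) (nat_lit 396) (nat_lit 369) (nat_lit 255)) (XT.lf (nat_lit 228) (nat_lit 2288701471) (nat_lit 0)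 (nat_lit 91380599) (nat_lit 152) (nat_lit 91380599) (nat_lit 125) (nat_lit 1) (nat_lit 122) (nat_lit 1) (nat_lit 124) (nat_lit 1) (nat_lit 397) (nat_lit 369) (nat_lit 254))))))) (XT.nd (nat_lit 702) (nat_lit 836) (nat_lit 0) (XT.nd (nat_lit 312) (nat_lit 304) (nat_lit 0) (XT.nd (nat_lit 156) (nat_lit 228) (nat_lit 0) (XT.nd (nat_lit 78) (nat_lit 76) (nat_lit 0) (XT.lf (nat_lit 76) (nat_lit 750838454) (nat_lit 0) (nat_lit 944599037) (nat_lit 228) (nat_lit 750838454) (nat_lit 123) (nat_lit 1) (nat_lit 122) (nat_lit 1) (nat_lit 125) (nat_lit 1) (nat_lit 398) (nat_lit 369) (nat_lit 253)) (XT.lf (nat_lit 152) (nat_lit 728314617) (nat_lit 0) (nat_lit 846619233) (nat_lit 76) (nat_lit 846619233) (nat_lit 123) (nat_lit 1) (nat_lit 121) (nat_lit 1) (nat_lit 122) (nat_lit 1) (nat_lit 399) (nat_lit 369) (nat_lit 252))) (XT.nd (nat_lit 78) (nat_lit 0) (nat_lit 0) (XT.lf (nat_lit 228) (nat_lit 2367880951) (nat_lit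 0) (nat_lit 14721044) (nat_lit 152) (nat_lit 14721044) (nat_lit 121) (nat_lit 1) (nat_lit 118) (nat_lit 1) (nat_lit 120) (nat_lit 1) (nat_lit 400) (nat_lit 369) (nat_lit 251)) (XT.lf (nat_lit 76) (nat_lit 799410166) (nat_lit 0) (nat_lit 774091633) (nat_lit 228) (nat_lit 799410166) (nat_lit 119) (nat_lit 1) (nat_lit 118) (nat_lit 1) (nat_lit 121) (nat_lit 1) (nat_lit 401) (nat_lit 369) (nat_lit 250)))) (XT.nd (nat_lit 156) (nat_lit 228) (nat_lit 0) (XT.nd (nat_lit 78) (nat_lit 0) (nat_lit 0) (XT.lf (nat_lit 152) (nat_lit 844570406) (nat_lit 0) (nat_lit 752210223) (nat_lit 76) (nat_lit 752210223) (nat_lit 119) (nat_lit 1) (nat_lit 117) (nat_lit 1) (nat_lit 118) (nat_lit 1) (nat_lit 402) (nat_lit 369) (nat_lit 249)) (XT.lf (nat_lit 0) (nat_lit 51963419) (nat_lit 0) (nat_lit 2221596075) (nat_lit 152) (nat_lit 51963419) (nat_lit 117) (nat_lit 3) (nat_lit 117) (nat_lit 1) (nat_lit 119) (nat_lit 1) (nat_lit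 403) (nat_lit 369) (nat_lit 248))) (XT.nd (nat_lit 78) (nat_lit 76) (nat_lit 0) (XT.lf (nat_lit 76) (nat_lit 838712108) (nat_lit 0) (nat_lit 624496237) (nat_lit 152) (nat_lit 838712108) (nat_lit 116) (nat_lit 1) (nat_lit 115) (nat_lit 1) (nat_lit 117) (nat_lit 1) (nat_lit 404) (nat_lit 369) (nat_lit 247)) (XT.nd (nat_lit 78) (nat_lit 0) (nat_lit 0) (XT.lf (nat_lit 152) (nat_lit 942110548) (nat_lit 0) (nat_lit 668329040) (nat_lit 76) (nat_lit 668329040) (nat_lit 116) (nat_lit 1) (nat_lit 114) (nat_lit 1) (nat_lit 115) (nat_lit 1) (nat_lit 405) (nat_lit 369) (nat_lit 246)) (XT.lf (nat_lit 0) (nat_lit 109442977) (nat_lit 0) (nat_lit 2037133490) (nat_lit 152) (nat_lit 109442977) (nat_lit 114) (nat_lit 3) (nat_lit 114) (nat_lit 1) (nat_lit 116) (nat_lit 1) (nat_lit 406) (nat_lit 369) (nat_lit 245)))))) (XT.nd (nat_lit 390) (nat_lit 380) (nat_lit 0) (XT.nd (nat_lit 156) (nat_lit 228) (nat_lit 0) (XT.nd (nat_lit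 78) (nat_lit 76) (nat_lit 0) (XT.lf (nat_lit 76) (nat_lit 869890213) (nat_lit 0) (nat_lit 493425603) (nat_lit 152) (nat_lit 869890213) (nat_lit 113) (nat_lit 1) (nat_lit 112) (nat_lit 1) (nat_lit 114) (nat_lit 1) (nat_lit 407) (nat_lit 369) (nat_lit 244)) (XT.lf (nat_lit 152) (nat_lit 1023189603) (nat_lit 0) (nat_lit 593801696) (nat_lit 76) (nat_lit 593801696) (nat_lit 113) (nat_lit 1) (nat_lit 111) (nat_lit 1) (nat_lit 112) (nat_lit 1) (nat_lit 408) (nat_lit 369) (nat_lit 243))) (XT.nd (nat_lit 78) (nat_lit 228) (nat_lit 0) (XT.lf (nat_lit 0) (nat_lit 158669883) (nat_lit 0) (nat_lit 1871397937) (nat_lit 152) (nat_lit 158669883) (nat_lit 111) (nat_lit 3) (nat_lit 111) (nat_lit 1) (nat_lit 113) (nat_lit 1) (nat_lit 409) (nat_lit 369) (nat_lit 242)) (XT.nd (nat_lit 78) (nat_lit 76) (nat_lit 0) (XT.lf (nat_lit 76) (nat_lit 893959360) (nat_lit 0) (nat_lit 378760300) (nat_lit 152) (nat_lit 893959360) (nat_lit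 110) (nat_lit 1) (nat_lit 109) (nat_lit 1) (nat_lit 111) (nat_lit 1) (nat_lit 410) (nat_lit 369) (nat_lit 241)) (XT.lf (nat_lit 152) (nat_lit 1089805839) (nat_lit 0) (nat_lit 527585116) (nat_lit 76) (nat_lit 527585116) (nat_lit 110) (nat_lit 1) (nat_lit 108) (nat_lit 1) (nat_lit 109) (nat_lit 1) (nat_lit 411) (nat_lit 369) (nat_lit 240))))) (XT.nd (nat_lit 156) (nat_lit 228) (nat_lit 0) (XT.nd (nat_lit 78) (nat_lit 152) (nat_lit 0) (XT.lf (nat_lit 0) (nat_lit 200618093) (nat_lit 0) (nat_lit 1722354785) (nat_lit 152) (nat_lit 200618093) (nat_lit 108) (nat_lit 3) (nat_lit 108) (nat_lit 1) (nat_lit 110) (nat_lit 1) (nat_lit 412) (nat_lit 369) (nat_lit 239)) (XT.lf (nat_lit 76) (nat_lit 911818082) (nat_lit 0) (nat_lit 278618808) (nat_lit 152) (nat_lit 911818082) (nat_lit 107) (nat_lit 1) (nat_lit 106) (nat_lit 1) (nat_lit 108) (nat_lit 1) (nat_lit 413) (nat_lit 369) (nat_lit 238))) (XT.nd (nat_lit 78) (nat_lit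 152) (nat_lit 0) (XT.lf (nat_lit 152) (nat_lit 1143729955) (nat_lit 0) (nat_lit 468752542) (nat_lit 76) (nat_lit 468752542) (nat_lit 107) (nat_lit 1) (nat_lit 105) (nat_lit 1) (nat_lit 106) (nat_lit 1) (nat_lit 414) (nat_lit 369) (nat_lit 237)) (XT.nd (nat_lit 78) (nat_lit 152) (nat_lit 0) (XT.lf (nat_lit 0) (nat_lit 236151390) (nat_lit 0) (nat_lit 1588194731) (nat_lit 152) (nat_lit 236151390) (nat_lit 105) (nat_lit 3) (nat_lit 105) (nat_lit 1) (nat_lit 107) (nat_lit 1) (nat_lit 415) (nat_lit 369) (nat_lit 236)) (XT.lf (nat_lit 76) (nat_lit 924261633) (nat_lit 0) (nat_lit 191330938) (nat_lit 152) (nat_lit 924261633) (nat_lit 104) (nat_lit 1) (nat_lit 103) (nat_lit 1) (nat_lit 105) (nat_lit 1) (nat_lit 416) (nat_lit 369) (nat_lit 235))))))))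
noncomputable def ec158 : XT := (XT.nd (nat_lit 42510) (nat_lit 0) (nat_lit 20368) (XT.nd (nat_lit 702) (nat_lit 684) (nat_lit 0) (XT.nd (nat_lit 312) (nat_lit 304) (nat_lit 0) (XT.nd (nat_lit 156) (nat_lit 228) (nat_lit 0) (XT.nd (nat_lit 78) (nat_lit 0) (nat_lit 0) (XT.lf (nat_lit 152) (nat_lit 1186530594) (nat_lit 0) (nat_lit 416480562) (nat_lit 76) (nat_lit 416480562) (nat_lit 104) (nat_lit 1) (nat_lit 102) (nat_lit 1) (nat_lit 103) (nat_lit 1) (nat_lit 417) (nat_lit 369) (nat_lit 234)) (XT.lf (nat_lit 0) (nat_lit 266035716) (nat_lit 0) (nat_lit 1467308713) (nat_lit 152) (nat_lit 266035716) (nat_lit 102) (nat_lit 3) (nat_lit 102) (nat_lit 1) (nat_lit 104) (nat_lit 1) (nat_lit 418) (nat_lit 369) (nat_lit 233))) (XT.nd (nat_lit 78) (nat_lit 76) (nat_lit 0) (XT.lf (nat_lit 76) (nat_lit 931993594) (nat_lit 0) (nat_lit 115414220) (nat_lit 152) (nat_lit 931993594) (nat_lit 101) (nat_lit 1) (nat_lit 100)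 (nat_lit 1) (nat_lit 102) (nat_lit 1) (nat_lit 419) (nat_lit 369) (nat_lit 232)) (XT.lf (nat_lit 152) (nat_lit 1219597008) (nat_lit 0) (nat_lit 370037585) (nat_lit 76) (nat_lit 370037585) (nat_lit 101) (nat_lit 1) (nat_lit 99) (nat_lit 1) (nat_lit 100) (nat_lit 1) (nat_lit 420) (nat_lit 369) (nat_lit 231)))) (XT.nd (nat_lit 156) (nat_lit 152) (nat_lit 0) (XT.nd (nat_lit 78) (nat_lit 152) (nat_lit 0) (XT.lf (nat_lit 0) (nat_lit 290950127) (nat_lit 0) (nat_lit 1358265626) (nat_lit 152) (nat_lit 290950127) (nat_lit 99) (nat_lit 3) (nat_lit 99) (nat_lit 1) (nat_lit 101) (nat_lit 1) (nat_lit 421) (nat_lit 369) (nat_lit 230)) (XT.lf (nat_lit 76) (nat_lit 935636183) (nat_lit 0) (nat_lit 49552933) (nat_lit 152) (nat_lit 935636183) (nat_lit 98) (nat_lit 1) (nat_lit 97) (nat_lit 1) (nat_lit 99) (nat_lit 1) (nat_lit 422) (nat_lit 369) (nat_lit 229))) (XT.nd (nat_lit 78) (nat_lit 76) (nat_lit 0) (XT.lf (nat_lit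 152) (nat_lit 1244159197) (nat_lit 0) (nat_lit 328773602) (nat_lit 76) (nat_lit 328773602) (nat_lit 98) (nat_lit 1) (nat_lit 96) (nat_lit 1) (nat_lit 97) (nat_lit 1) (nat_lit 423) (nat_lit 369) (nat_lit 228)) (XT.nd (nat_lit 78) (nat_lit 76) (nat_lit 0) (XT.lf (nat_lit 0) (nat_lit 311496526) (nat_lit 0) (nat_lit 1259792523) (nat_lit 152) (nat_lit 311496526) (nat_lit 96) (nat_lit 3) (nat_lit 96) (nat_lit 1) (nat_lit 98) (nat_lit 1) (nat_lit 424) (nat_lit 369) (nat_lit 227)) (XT.lf (nat_lit 76) (nat_lit 7568219) (nat_lit 0) (nat_lit 928243944) (nat_lit 76) (nat_lit 928243944) (nat_lit 96) (nat_lit 3) (nat_lit 95) (nat_lit 1) (nat_lit 96) (nat_lit 1) (nat_lit 425) (nat_lit 369) (nat_lit 226)))))) (XT.nd (nat_lit 390) (nat_lit 304) (nat_lit 0) (XT.nd (nat_lit 156) (nat_lit 228) (nat_lit 0) (XT.nd (nat_lit 78) (nat_lit 0) (nat_lit 0) (XT.lf (nat_lit 152) (nat_lit 1261305791) (nat_lit 0) (nat_lit 292111087)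 (nat_lit 76) (nat_lit 292111087) (nat_lit 95) (nat_lit 1) (nat_lit 93) (nat_lit 1) (nat_lit 94) (nat_lit 1) (nat_lit 426) (nat_lit 369) (nat_lit 225)) (XT.lf (nat_lit 0) (nat_lit 328208305) (nat_lit 0) (nat_lit 1170757015) (nat_lit 152) (nat_lit 328208305) (nat_lit 93) (nat_lit 3) (nat_lit 93) (nat_lit 1) (nat_lit 95) (nat_lit 1) (nat_lit 427) (nat_lit 369) (nat_lit 224))) (XT.nd (nat_lit 78) (nat_lit 152) (nat_lit 0) (XT.lf (nat_lit 76) (nat_lit 57667551) (nat_lit 0) (nat_lit 875676008) (nat_lit 76) (nat_lit 875676008) (nat_lit 93) (nat_lit 3) (nat_lit 92) (nat_lit 1) (nat_lit 93) (nat_lit 1) (nat_lit 428) (nat_lit 369) (nat_lit 223)) (XT.nd (nat_lit 78) (nat_lit 0) (nat_lit 0) (XT.lf (nat_lit 152) (nat_lit 1271999935) (nat_lit 0) (nat_lit 259536917) (nat_lit 76) (nat_lit 259536917) (nat_lit 92) (nat_lit 1) (nat_lit 90) (nat_lit 1) (nat_lit 91) (nat_lit 1) (nat_lit 429) (nat_lit 369) (nat_lit 222))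 (XT.lf (nat_lit 0) (nat_lit 341558028) (nat_lit 0) (nat_lit 1090151644) (nat_lit 152) (nat_lit 341558028) (nat_lit 90) (nat_lit 3) (nat_lit 90) (nat_lit 1) (nat_lit 92) (nat_lit 1) (nat_lit 430) (nat_lit 369) (nat_lit 221))))) (XT.nd (nat_lit 156) (nat_lit 76) (nat_lit 0) (XT.nd (nat_lit 78) (nat_lit 152) (nat_lit 0) (XT.lf (nat_lit 76) (nat_lit 100696374) (nat_lit 0) (nat_lit 827486293) (nat_lit 76) (nat_lit 827486293) (nat_lit 90) (nat_lit 3) (nat_lit 89) (nat_lit 1) (nat_lit 90) (nat_lit 1) (nat_lit 431) (nat_lit 369) (nat_lit 220)) (XT.lf (nat_lit 152) (nat_lit 1277093405) (nat_lit 0) (nat_lit 230595189) (nat_lit 76) (nat_lit 230595189) (nat_lit 89) (nat_lit 1) (nat_lit 87) (nat_lit 1) (nat_lit 88) (nat_lit 1) (nat_lit 432) (nat_lit 369) (nat_lit 219))) (XT.nd (nat_lit 78) (nat_lit 76) (nat_lit 0) (XT.lf (nat_lit 0) (nat_lit 351964253) (nat_lit 0) (nat_lit 1017079985) (nat_lit 152) (nat_lit 351964253)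 (nat_lit 87) (nat_lit 3) (nat_lit 87) (nat_lit 1) (nat_lit 89) (nat_lit 1) (nat_lit 433) (nat_lit 369) (nat_lit 218)) (XT.nd (nat_lit 41106) (nat_lit 0) (nat_lit 21888) (XT.lf (nat_lit 76) (nat_lit 137486358) (nat_lit 0) (nat_lit 783229788) (nat_lit 76) (nat_lit 783229788) (nat_lit 87) (nat_lit 3) (nat_lit 86) (nat_lit 1) (nat_lit 87) (nat_lit 1) (nat_lit 434) (nat_lit 369) (nat_lit 217)) (XT.lf (nat_lit 1292) (nat_lit 905276858) (nat_lit 0) (nat_lit 3114573408) (nat_lit 1292) (nat_lit 905276858) (nat_lit 391) (nat_lit 1) (nat_lit 374) (nat_lit 0) (nat_lit 391) (nat_lit 0) (nat_lit 280) (nat_lit 370) (nat_lit 370))))))) (XT.nd (nat_lit 702) (nat_lit 1520) (nat_lit 0) (XT.nd (nat_lit 312) (nat_lit 0) (nat_lit 152) (XT.nd (nat_lit 156) (nat_lit 0) (nat_lit 76) (XT.nd (nat_lit 78) (nat_lit 0) (nat_lit 76) (XT.lf (nat_lit 1292) (nat_lit 3537837824) (nat_lit 76) (nat_lit 3084038374) (nat_lit 0) (nat_lit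 3084038374) (nat_lit 391) (nat_lit 1) (nat_lit 375) (nat_lit 1) (nat_lit 374) (nat_lit 0) (nat_lit 281) (nat_lit 370) (nat_lit 369)) (XT.lf (nat_lit 1292) (nat_lit 1710982724) (nat_lit 0) (nat_lit 6142793284) (nat_lit 1216) (nat_lit 1710982724) (nat_lit 392) (nat_lit 1) (nat_lit 375) (nat_lit 1) (nat_lit 391) (nat_lit 1) (nat_lit 282) (nat_lit 370) (nat_lit 368))) (XT.nd (nat_lit 78) (nat_lit 0) (nat_lit 76) (XT.lf (nat_lit 1292) (nat_lit 3249244531) (nat_lit 76) (nat_lit 3088357806) (nat_lit 0) (nat_lit 3088357806) (nat_lit 392) (nat_lit 1) (nat_lit 376) (nat_lit 1) (nat_lit 375) (nat_lit 1) (nat_lit 283) (nat_lit 370) (nat_lit 367)) (XT.lf (nat_lit 1292) (nat_lit 1524691791) (nat_lit 0) (nat_lit 6240883637) (nat_lit 1216) (nat_lit 1524691791) (nat_lit 393) (nat_lit 1) (nat_lit 376) (nat_lit 1) (nat_lit 392) (nat_lit 1) (nat_lit 284) (nat_lit 370) (nat_lit 366)))) (XT.nd (nat_lit 156) (nat_lit 0) (nat_lit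 76) (XT.nd (nat_lit 78) (nat_lit 0) (nat_lit 76) (XT.lf (nat_lit 1292) (nat_lit 2794158694) (nat_lit 76) (nat_lit 3181292866) (nat_lit 0) (nat_lit 3181292866) (nat_lit 393) (nat_lit 1) (nat_lit 377) (nat_lit 1) (nat_lit 376) (nat_lit 1) (nat_lit 285) (nat_lit 370) (nat_lit 365)) (XT.lf (nat_lit 1292) (nat_lit 1259351301) (nat_lit 0) (nat_lit 6507602271) (nat_lit 1216) (nat_lit 1259351301) (nat_lit 394) (nat_lit 1) (nat_lit 377) (nat_lit 1) (nat_lit 393) (nat_lit 1) (nat_lit 286) (nat_lit 370) (nat_lit 364))) (XT.nd (nat_lit 78) (nat_lit 0) (nat_lit 76) (XT.lf (nat_lit 1292) (nat_lit 2187469480) (nat_lit 76) (nat_lit 3355168397) (nat_lit 0) (nat_lit 3355168397) (nat_lit 394) (nat_lit 1) (nat_lit 378) (nat_lit 1) (nat_lit 377) (nat_lit 1) (nat_lit 287) (nat_lit 370) (nat_lit 363)) (XT.nd (nat_lit 78) (nat_lit 0) (nat_lit 0) (XT.lf (nat_lit 1292) (nat_lit 922112906) (nat_lit 0) (nat_lit 6928193725) (nat_lit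 1216) (nat_lit 922112906) (nat_lit 395) (nat_lit 1) (nat_lit 378) (nat_lit 1) (nat_lit 394) (nat_lit 1) (nat_lit 288) (nat_lit 370) (nat_lit 362)) (XT.lf (nat_lit 1292) (nat_lit 1443056064) (nat_lit 76) (nat_lit 3602825211) (nat_lit 0) (nat_lit 3602825211) (nat_lit 395) (nat_lit 1) (nat_lit 379) (nat_lit 1) (nat_lit 378) (nat_lit 1) (nat_lit 289) (nat_lit 370) (nat_lit 361)))))) (XT.nd (nat_lit 390) (nat_lit 684) (nat_lit 0) (XT.nd (nat_lit 156) (nat_lit 1216) (nat_lit 0) (XT.nd (nat_lit 78) (nat_lit 0) (nat_lit 0) (XT.lf (nat_lit 1292) (nat_lit 519641594) (nat_lit 0) (nat_lit 7488897393) (nat_lit 1216) (nat_lit 519641594) (nat_lit 396) (nat_lit 1) (nat_lit 379) (nat_lit 1) (nat_lit 395) (nat_lit 1) (nat_lit 290) (nat_lit 370) (nat_lit 360)) (XT.lf (nat_lit 1292) (nat_lit 573850124) (nat_lit 76) (nat_lit 3917588276) (nat_lit 0) (nat_lit 3917588276) (nat_lit 396) (nat_lit 1) (nat_lit 380) (nat_lit 1)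 (nat_lit 379) (nat_lit 1) (nat_lit 291) (nat_lit 370) (nat_lit 359))) (XT.nd (nat_lit 78) (nat_lit 1292) (nat_lit 0) (XT.lf (nat_lit 1292) (nat_lit 58145839) (nat_lit 0) (nat_lit 8176886110) (nat_lit 1216) (nat_lit 58145839) (nat_lit 397) (nat_lit 1) (nat_lit 380) (nat_lit 1) (nat_lit 396) (nat_lit 1) (nat_lit 292) (nat_lit 370) (nat_lit 358)) (XT.nd (nat_lit 78) (nat_lit 0) (nat_lit 0) (XT.lf (nat_lit 1368) (nat_lit 3889054384) (nat_lit 0) (nat_lit 400141765) (nat_lit 1292) (nat_lit 3889054384) (nat_lit 381) (nat_lit 1) (nat_lit 363) (nat_lit 1) (nat_lit 380) (nat_lit 1) (nat_lit 293) (nat_lit 370) (nat_lit 357)) (XT.lf (nat_lit 1368) (nat_lit 7162255715) (nat_lit 76) (nat_lit 452117624) (nat_lit 0) (nat_lit 452117624) (nat_lit 381) (nat_lit 1) (nat_lit 364) (nat_lit 1) (nat_lit 363) (nat_lit 1) (nat_lit 294) (nat_lit 370) (nat_lit 356))))) (XT.nd (nat_lit 156) (nat_lit 760) (nat_lit 0) (XT.nd (nat_lit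 78) (nat_lit 0) (nat_lit 0) (XT.lf (nat_lit 1368) (nat_lit 3246713353) (nat_lit 0) (nat_lit 1462494382) (nat_lit 1292) (nat_lit 3246713353) (nat_lit 382) (nat_lit 1) (nat_lit 364) (nat_lit 1) (nat_lit 381) (nat_lit 1) (nat_lit 295) (nat_lit 370) (nat_lit 355)) (XT.lf (nat_lit 1368) (nat_lit 5829739975) (nat_lit 76) (nat_lit 1009207051) (nat_lit 0) (nat_lit 1009207051) (nat_lit 382) (nat_lit 1) (nat_lit 365) (nat_lit 1) (nat_lit 364) (nat_lit 1) (nat_lit 296) (nat_lit 370) (nat_lit 354))) (XT.nd (nat_lit 78) (nat_lit 836) (nat_lit 0) (XT.lf (nat_lit 76) (nat_lit 2563831863) (nat_lit 0) (nat_lit 2614181015) (nat_lit 1292) (nat_lit 2563831863) (nat_lit 366) (nat_lit 1) (nat_lit 365) (nat_lit 1) (nat_lit 382) (nat_lit 1) (nat_lit 297) (nat_lit 370) (nat_lit 353)) (XT.nd (nat_lit 78) (nat_lit 0) (nat_lit 0) (XT.lf (nat_lit 912) (nat_lit 4420407076) (nat_lit 0) (nat_lit 1608739118) (nat_lit 836) (nat_lit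 1608739118) (nat_lit 366) (nat_lit 1) (nat_lit 354) (nat_lit 1) (nat_lit 365) (nat_lit 1) (nat_lit 298) (nat_lit 370) (nat_lit 352)) (XT.lf (nat_lit 76) (nat_lit 1844991863) (nat_lit 0) (nat_lit 3845695351) (nat_lit 912) (nat_lit 1844991863) (nat_lit 355) (nat_lit 1) (nat_lit 354) (nat_lit 1) (nat_lit 366) (nat_lit 1) (nat_lit 299) (nat_lit 370) (nat_lit 351))))))))
noncomputable def ec159 : XT := (XT.nd (nat_lit 1482) (nat_lit 4104) (nat_lit 0) (XT.nd (nat_lit 702) (nat_lit 2964) (nat_lit 0) (XT.nd (nat_lit 312) (nat_lit 1748) (nat_lit 0) (XT.nd (nat_lit 156) (nat_lit 608) (nat_lit 0) (XT.nd (nat_lit 78) (nat_lit 0) (nat_lit 0) (XT.lf (nat_lit 684) (nat_lit 2943131948) (nat_lit 0) (nat_lit 2246109816) (nat_lit 608) (nat_lit 2246109816) (nat_lit 355) (nat_lit 1) (nat_lit 346) (nat_lit 1) (nat_lit 354) (nat_lit 1) (nat_lit 300) (nat_lit 370) (nat_lit 350)) (XT.lf (nat_lit 76) (nat_lit 1094446607) (nat_lit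 0) (nat_lit 5148204294) (nat_lit 684) (nat_lit 1094446607) (nat_lit 347) (nat_lit 1) (nat_lit 346) (nat_lit 1) (nat_lit 355) (nat_lit 1) (nat_lit 301) (nat_lit 370) (nat_lit 349))) (XT.nd (nat_lit 78) (nat_lit 0) (nat_lit 0) (XT.lf (nat_lit 684) (nat_lit 1406150007) (nat_lit 0) (nat_lit 2917042561) (nat_lit 608) (nat_lit 2917042561) (nat_lit 347) (nat_lit 1) (nat_lit 338) (nat_lit 1) (nat_lit 346) (nat_lit 1) (nat_lit 302) (nat_lit 370) (nat_lit 348)) (XT.lf (nat_lit 76) (nat_lit 316141434) (nat_lit 0) (nat_lit 6513505613) (nat_lit 684) (nat_lit 316141434) (nat_lit 339) (nat_lit 1) (nat_lit 338) (nat_lit 1) (nat_lit 347) (nat_lit 1) (nat_lit 303) (nat_lit 370) (nat_lit 347)))) (XT.nd (nat_lit 156) (nat_lit 532) (nat_lit 0) (XT.nd (nat_lit 78) (nat_lit 608) (nat_lit 0) (XT.lf (nat_lit 76) (nat_lit 3436423379) (nat_lit 0) (nat_lit 179333264) (nat_lit 608) (nat_lit 3436423379) (nat_lit 331) (nat_lit 1)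 (nat_lit 330) (nat_lit 1) (nat_lit 338) (nat_lit 1) (nat_lit 304) (nat_lit 370) (nat_lit 346)) (XT.lf (nat_lit 684) (nat_lit 5997892226) (nat_lit 0) (nat_lit 481499375) (nat_lit 608) (nat_lit 481499375) (nat_lit 331) (nat_lit 1) (nat_lit 322) (nat_lit 1) (nat_lit 330) (nat_lit 1) (nat_lit 305) (nat_lit 370) (nat_lit 345))) (XT.nd (nat_lit 78) (nat_lit 532) (nat_lit 0) (XT.lf (nat_lit 76) (nat_lit 2544518367) (nat_lit 0) (nat_lit 1781494438) (nat_lit 684) (nat_lit 2544518367) (nat_lit 323) (nat_lit 1) (nat_lit 322) (nat_lit 1) (nat_lit 331) (nat_lit 1) (nat_lit 306) (nat_lit 370) (nat_lit 344)) (XT.nd (nat_lit 78) (nat_lit 0) (nat_lit 0) (XT.lf (nat_lit 608) (nat_lit 4189187129) (nat_lit 0) (nat_lit 1296553684) (nat_lit 532) (nat_lit 1296553684) (nat_lit 323) (nat_lit 1) (nat_lit 315) (nat_lit 1) (nat_lit 322) (nat_lit 1) (nat_lit 307) (nat_lit 370) (nat_lit 343)) (XT.lf (nat_lit 76) (nat_lit 1637034818)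 (nat_lit 0) (nat_lit 3421350118) (nat_lit 608) (nat_lit 1637034818) (nat_lit 316) (nat_lit 1) (nat_lit 315) (nat_lit 1) (nat_lit 323) (nat_lit 1) (nat_lit 308) (nat_lit 370) (nat_lit 342)))))) (XT.nd (nat_lit 390) (nat_lit 1368) (nat_lit 0) (XT.nd (nat_lit 156) (nat_lit 1064) (nat_lit 0) (XT.nd (nat_lit 78) (nat_lit 0) (nat_lit 0) (XT.lf (nat_lit 608) (nat_lit 2352063402) (nat_lit 0) (nat_lit 2129017485) (nat_lit 532) (nat_lit 2129017485) (nat_lit 316) (nat_lit 1) (nat_lit 308) (nat_lit 1) (nat_lit 315) (nat_lit 1) (nat_lit 309) (nat_lit 370) (nat_lit 341)) (XT.lf (nat_lit 76) (nat_lit 716811981) (nat_lit 0) (nat_lit 5092959832) (nat_lit 608) (nat_lit 716811981) (nat_lit 309) (nat_lit 1) (nat_lit 308) (nat_lit 1) (nat_lit 316) (nat_lit 1) (nat_lit 310) (nat_lit 370) (nat_lit 340))) (XT.nd (nat_lit 78) (nat_lit 608) (nat_lit 0) (XT.lf (nat_lit 532) (nat_lit 492004207) (nat_lit 0) (nat_lit 2976021586)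 (nat_lit 456) (nat_lit 2976021586) (nat_lit 309) (nat_lit 1) (nat_lit 302) (nat_lit 1) (nat_lit 308) (nat_lit 1) (nat_lit 311) (nat_lit 370) (nat_lit 339)) (XT.nd (nat_lit 78) (nat_lit 0) (nat_lit 0) (XT.lf (nat_lit 608) (nat_lit 5940651317) (nat_lit 0) (nat_lit 211437092) (nat_lit 532) (nat_lit 211437092) (nat_lit 302) (nat_lit 1) (nat_lit 294) (nat_lit 1) (nat_lit 301) (nat_lit 1) (nat_lit 312) (nat_lit 370) (nat_lit 338)) (XT.lf (nat_lit 76) (nat_lit 2462304173) (nat_lit 0) (nat_lit 1358889668) (nat_lit 608) (nat_lit 2462304173) (nat_lit 295) (nat_lit 1) (nat_lit 294) (nat_lit 1) (nat_lit 302) (nat_lit 1) (nat_lit 313) (nat_lit 370) (nat_lit 337))))) (XT.nd (nat_lit 156) (nat_lit 912) (nat_lit 0) (XT.nd (nat_lit 78) (nat_lit 0) (nat_lit 0) (XT.lf (nat_lit 532) (nat_lit 3924836412) (nat_lit 0) (nat_lit 1140288490) (nat_lit 456) (nat_lit 1140288490) (nat_lit 295) (nat_lit 1) (nat_lit 288) (nat_lit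 1) (nat_lit 294) (nat_lit 1) (nat_lit 314) (nat_lit 370) (nat_lit 336)) (XT.lf (nat_lit 76) (nat_lit 1457662141) (nat_lit 0) (nat_lit 3213146960) (nat_lit 532) (nat_lit 1457662141) (nat_lit 289) (nat_lit 1) (nat_lit 288) (nat_lit 1) (nat_lit 295) (nat_lit 1) (nat_lit 315) (nat_lit 370) (nat_lit 335))) (XT.nd (nat_lit 78) (nat_lit 456) (nat_lit 0) (XT.lf (nat_lit 532) (nat_lit 1903713978) (nat_lit 0) (nat_lit 2074569315) (nat_lit 456) (nat_lit 2074569315) (nat_lit 289) (nat_lit 1) (nat_lit 282) (nat_lit 1) (nat_lit 288) (nat_lit 1) (nat_lit 316) (nat_lit 370) (nat_lit 334)) (XT.nd (nat_lit 78) (nat_lit 456) (nat_lit 0) (XT.lf (nat_lit 76) (nat_lit 451359699) (nat_lit 0) (nat_lit 5076168070) (nat_lit 532) (nat_lit 451359699) (nat_lit 283) (nat_lit 1) (nat_lit 282) (nat_lit 1) (nat_lit 289) (nat_lit 1) (nat_lit 317) (nat_lit 370) (nat_lit 333)) (XT.lf (nat_lit 76) (nat_lit 2894513205) (nat_lit 0) (nat_lit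 116566452) (nat_lit 456) (nat_lit 2894513205) (nat_lit 277) (nat_lit 1) (nat_lit 276) (nat_lit 1) (nat_lit 282) (nat_lit 1) (nat_lit 318) (nat_lit 370) (nat_lit 332))))))) (XT.nd (nat_lit 702) (nat_lit 2052) (nat_lit 0) (XT.nd (nat_lit 312) (nat_lit 1216) (nat_lit 0) (XT.nd (nat_lit 156) (nat_lit 380) (nat_lit 0) (XT.nd (nat_lit 78) (nat_lit 0) (nat_lit 0) (XT.lf (nat_lit 532) (nat_lit 4735210258) (nat_lit 0) (nat_lit 549340735) (nat_lit 456) (nat_lit 549340735) (nat_lit 277) (nat_lit 1) (nat_lit 270) (nat_lit 1) (nat_lit 276) (nat_lit 1) (nat_lit 319) (nat_lit 370) (nat_lit 331)) (XT.lf (nat_lit 76) (nat_lit 1832602255) (nat_lit 0) (nat_lit 2097708935) (nat_lit 532) (nat_lit 1832602255) (nat_lit 271) (nat_lit 1) (nat_lit 270) (nat_lit 1) (nat_lit 277) (nat_lit 1) (nat_lit 320) (nat_lit 370) (nat_lit 330))) (XT.nd (nat_lit 78) (nat_lit 0) (nat_lit 0) (XT.lf (nat_lit 456) (nat_lit 2605798205) (nat_lit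 0) (nat_lit 1543802641) (nat_lit 380) (nat_lit 1543802641) (nat_lit 271) (nat_lit 1) (nat_lit 265) (nat_lit 1) (nat_lit 270) (nat_lit 1) (nat_lit 321) (nat_lit 370) (nat_lit 329)) (XT.lf (nat_lit 76) (nat_lit 775724206) (nat_lit 0) (nat_lit 4073718225) (nat_lit 456) (nat_lit 775724206) (nat_lit 266) (nat_lit 1) (nat_lit 265) (nat_lit 1) (nat_lit 271) (nat_lit 1) (nat_lit 322) (nat_lit 370) (nat_lit 328)))) (XT.nd (nat_lit 156) (nat_lit 380) (nat_lit 0) (XT.nd (nat_lit 78) (nat_lit 456) (nat_lit 0) (XT.lf (nat_lit 456) (nat_lit 487869422) (nat_lit 0) (nat_lit 2534942294) (nat_lit 380) (nat_lit 2534942294) (nat_lit 266) (nat_lit 1) (nat_lit 260) (nat_lit 1) (nat_lit 265) (nat_lit 1) (nat_lit 323) (nat_lit 370) (nat_lit 327)) (XT.lf (nat_lit 456) (nat_lit 4947671538) (nat_lit 0) (nat_lit 272087033) (nat_lit 380) (nat_lit 272087033) (nat_lit 260) (nat_lit 1) (nat_lit 254) (nat_lit 1) (nat_lit 259) (nat_lit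 1) (nat_lit 324) (nat_lit 370) (nat_lit 326))) (XT.nd (nat_lit 78) (nat_lit 380) (nat_lit 0) (XT.lf (nat_lit 76) (nat_lit 1920909095) (nat_lit 0) (nat_lit 1584475278) (nat_lit 456) (nat_lit 1920909095) (nat_lit 255) (nat_lit 1) (nat_lit 254) (nat_lit 1) (nat_lit 260) (nat_lit 1) (nat_lit 325) (nat_lit 370) (nat_lit 325)) (XT.nd (nat_lit 78) (nat_lit 0) (nat_lit 0) (XT.lf (nat_lit 456) (nat_lit 2752640091) (nat_lit 0) (nat_lit 1304779037) (nat_lit 380) (nat_lit 1304779037) (nat_lit 255) (nat_lit 1) (nat_lit 249) (nat_lit 1) (nat_lit 254) (nat_lit 1) (nat_lit 326) (nat_lit 370) (nat_lit 324)) (XT.lf (nat_lit 76) (nat_lit 833965882) (nat_lit 0) (nat_lit 3631244153) (nat_lit 456) (nat_lit 833965882) (nat_lit 250) (nat_lit 1) (nat_lit 249) (nat_lit 1) (nat_lit 255) (nat_lit 1) (nat_lit 327) (nat_lit 370) (nat_lit 323)))))) (XT.nd (nat_lit 390) (nat_lit 988) (nat_lit 0) (XT.nd (nat_lit 156) (nat_lit 304)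 (nat_lit 0) (XT.nd (nat_lit 78) (nat_lit 456) (nat_lit 0) (XT.lf (nat_lit 380) (nat_lit 579216450) (nat_lit 0) (nat_lit 2328867955) (nat_lit 304) (nat_lit 2328867955) (nat_lit 250) (nat_lit 1) (nat_lit 245) (nat_lit 1) (nat_lit 249) (nat_lit 1) (nat_lit 328) (nat_lit 370) (nat_lit 322)) (XT.lf (nat_lit 456) (nat_lit 4697310727) (nat_lit 0) (nat_lit 239391549) (nat_lit 380) (nat_lit 239391549) (nat_lit 245) (nat_lit 1) (nat_lit 239) (nat_lit 1) (nat_lit 244) (nat_lit 1) (nat_lit 329) (nat_lit 370) (nat_lit 321))) (XT.nd (nat_lit 78) (nat_lit 304) (nat_lit 0) (XT.lf (nat_lit 76) (nat_lit 1787671972) (nat_lit 0) (nat_lit 1540147153) (nat_lit 456) (nat_lit 1787671972) (nat_lit 240) (nat_lit 1) (nat_lit 239) (nat_lit 1) (nat_lit 245) (nat_lit 1) (nat_lit 330) (nat_lit 370) (nat_lit 320)) (XT.nd (nat_lit 78) (nat_lit 0) (nat_lit 0) (XT.lf (nat_lit 380) (nat_lit 2470956323) (nat_lit 0) (nat_lit 1292628691)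 (nat_lit 304) (nat_lit 1292628691) (nat_lit 240) (nat_lit 1) (nat_lit 235) (nat_lit 1) (nat_lit 239) (nat_lit 1) (nat_lit 331) (nat_lit 370) (nat_lit 319)) (XT.lf (nat_lit 76) (nat_lit 687135208) (nat_lit 0) (nat_lit 3623679852) (nat_lit 380) (nat_lit 687135208) (nat_lit 236) (nat_lit 1) (nat_lit 235) (nat_lit 1) (nat_lit 240) (nat_lit 1) (nat_lit 332) (nat_lit 370) (nat_lit 318))))) (XT.nd (nat_lit 156) (nat_lit 304) (nat_lit 0) (XT.nd (nat_lit 78) (nat_lit 380) (nat_lit 0) (XT.lf (nat_lit 380) (nat_lit 274000547) (nat_lit 0) (nat_lit 2333174267) (nat_lit 304) (nat_lit 2333174267) (nat_lit 236) (nat_lit 1) (nat_lit 231) (nat_lit 1) (nat_lit 235) (nat_lit 1) (nat_lit 333) (nat_lit 370) (nat_lit 317)) (XT.lf (nat_lit 380) (nat_lit 4094762212) (nat_lit 0) (nat_lit 394561205) (nat_lit 304) (nat_lit 394561205) (nat_lit 231) (nat_lit 1) (nat_lit 226) (nat_lit 1) (nat_lit 230) (nat_lit 1) (nat_lit 334) (nat_lit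 370) (nat_lit 316))) (XT.nd (nat_lit 78) (nat_lit 304) (nat_lit 0) (XT.lf (nat_lit 76) (nat_lit 1486178115) (nat_lit 0) (nat_lit 1855450975) (nat_lit 380) (nat_lit 1486178115) (nat_lit 227) (nat_lit 1) (nat_lit 226) (nat_lit 1) (nat_lit 231) (nat_lit 1) (nat_lit 335) (nat_lit 370) (nat_lit 315)) (XT.nd (nat_lit 78) (nat_lit 0) (nat_lit 0) (XT.lf (nat_lit 380) (nat_lit 1864450989) (nat_lit 0) (nat_lit 1454191148) (nat_lit 304) (nat_lit 1454191148) (nat_lit 227) (nat_lit 1) (nat_lit 222) (nat_lit 1) (nat_lit 226) (nat_lit 1) (nat_lit 336) (nat_lit 370) (nat_lit 314)) (XT.lf (nat_lit 76) (nat_lit 385177461) (nat_lit 0) (nat_lit 3948567958) (nat_lit 380) (nat_lit 385177461) (nat_lit 223) (nat_lit 1) (nat_lit 222) (nat_lit 1) (nat_lit 227) (nat_lit 1) (nat_lit 337) (nat_lit 370) (nat_lit 313))))))))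
noncomputable def ec160 : XT := (XT.nd (nat_lit 1404) (nat_lit 2280) (nat_lit 0) (XT.nd (nat_lit 702) (nat_lit 1444) (nat_lit 0) (XT.nd (nat_lit 312) (nat_lit 912) (nat_lit 0) (XT.nd (nat_lit 156) (nat_lit 228) (nat_lit 0) (XT.nd (nat_lit 78) (nat_lit 304) (nat_lit 0) (XT.lf (nat_lit 76) (nat_lit 2170612513) (nat_lit 0) (nat_lit 324134801) (nat_lit 304) (nat_lit 2170612513) (nat_lit 219) (nat_lit 1) (nat_lit 218) (nat_lit 1) (nat_lit 222) (nat_lit 1) (nat_lit 338) (nat_lit 370) (nat_lit 312)) (XT.lf (nat_lit 380) (nat_lit 3230331868) (nat_lit 0) (nat_lit 691249447) (nat_lit 304) (nat_lit 691249447) (nat_lit 219) (nat_lit 1) (nat_lit 214) (nat_lit 1) (nat_lit 218) (nat_lit 1) (nat_lit 339) (nat_lit 370) (nat_lit 311))) (XT.nd (nat_lit 78) (nat_lit 228) (nat_lit 0) (XT.lf (nat_lit 76) (nat_lit 1059905668) (nat_lit 0) (nat_lit 2441088777) (nat_lit 380) (nat_lit 1059905668) (nat_lit 215) (nat_lit 1) (nat_lit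 214) (nat_lit 1) (nat_lit 219) (nat_lit 1) (nat_lit 340) (nat_lit 370) (nat_lit 310)) (XT.lf (nat_lit 304) (nat_lit 1017703822) (nat_lit 0) (nat_lit 1746040565) (nat_lit 228) (nat_lit 1746040565) (nat_lit 215) (nat_lit 1) (nat_lit 211) (nat_lit 1) (nat_lit 214) (nat_lit 1) (nat_lit 341) (nat_lit 370) (nat_lit 309)))) (XT.nd (nat_lit 156) (nat_lit 532) (nat_lit 0) (XT.nd (nat_lit 78) (nat_lit 0) (nat_lit 0) (XT.lf (nat_lit 380) (nat_lit 4398060756) (nat_lit 0) (nat_lit 30884091) (nat_lit 304) (nat_lit 30884091) (nat_lit 211) (nat_lit 1) (nat_lit 206) (nat_lit 1) (nat_lit 210) (nat_lit 1) (nat_lit 342) (nat_lit 370) (nat_lit 308)) (XT.lf (nat_lit 76) (nat_lit 1638489627) (nat_lit 0) (nat_lit 1132795459) (nat_lit 380) (nat_lit 1638489627) (nat_lit 207) (nat_lit 1) (nat_lit 206) (nat_lit 1) (nat_lit 211) (nat_lit 1) (nat_lit 343) (nat_lit 370) (nat_lit 307))) (XT.nd (nat_lit 78) (nat_lit 304) (nat_lit 0)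 (XT.lf (nat_lit 304) (nat_lit 2177444774) (nat_lit 0) (nat_lit 1091705066) (nat_lit 228) (nat_lit 1091705066) (nat_lit 207) (nat_lit 1) (nat_lit 203) (nat_lit 1) (nat_lit 206) (nat_lit 1) (nat_lit 344) (nat_lit 370) (nat_lit 306)) (XT.nd (nat_lit 78) (nat_lit 304) (nat_lit 0) (XT.lf (nat_lit 76) (nat_lit 544188355) (nat_lit 0) (nat_lit 3224355311) (nat_lit 304) (nat_lit 544188355) (nat_lit 204) (nat_lit 1) (nat_lit 203) (nat_lit 1) (nat_lit 207) (nat_lit 1) (nat_lit 345) (nat_lit 370) (nat_lit 305)) (XT.lf (nat_lit 76) (nat_lit 2132259500) (nat_lit 0) (nat_lit 570888) (nat_lit 304) (nat_lit 2132259500) (nat_lit 200) (nat_lit 1) (nat_lit 199) (nat_lit 1) (nat_lit 203) (nat_lit 1) (nat_lit 346) (nat_lit 370) (nat_lit 304)))))) (XT.nd (nat_lit 312) (nat_lit 684) (nat_lit 0) (XT.nd (nat_lit 156) (nat_lit 532) (nat_lit 0) (XT.nd (nat_lit 78) (nat_lit 0) (nat_lit 0) (XT.lf (nat_lit 304) (nat_lit 3170775275)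 (nat_lit 0) (nat_lit 523723714) (nat_lit 228) (nat_lit 523723714) (nat_lit 200) (nat_lit 1) (nat_lit 196) (nat_lit 1) (nat_lit 199) (nat_lit 1) (nat_lit 347) (nat_lit 370) (nat_lit 303)) (XT.lf (nat_lit 76) (nat_lit 1038747174) (nat_lit 0) (nat_lit 2094311850) (nat_lit 304) (nat_lit 1038747174) (nat_lit 197) (nat_lit 1) (nat_lit 196) (nat_lit 1) (nat_lit 200) (nat_lit 1) (nat_lit 348) (nat_lit 370) (nat_lit 302))) (XT.nd (nat_lit 78) (nat_lit 304) (nat_lit 0) (XT.lf (nat_lit 304) (nat_lit 995524087) (nat_lit 0) (nat_lit 1565309755) (nat_lit 228) (nat_lit 1565309755) (nat_lit 197) (nat_lit 1) (nat_lit 193) (nat_lit 1) (nat_lit 196) (nat_lit 1) (nat_lit 349) (nat_lit 370) (nat_lit 301)) (XT.lf (nat_lit 304) (nat_lit 4017332371) (nat_lit 0) (nat_lit 32076981) (nat_lit 228) (nat_lit 32076981) (nat_lit 193) (nat_lit 1) (nat_lit 189) (nat_lit 1) (nat_lit 192) (nat_lit 1) (nat_lit 350) (nat_lit 370) (nat_lit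 300)))) (XT.nd (nat_lit 156) (nat_lit 456) (nat_lit 0) (XT.nd (nat_lit 78) (nat_lit 228) (nat_lit 0) (XT.lf (nat_lit 76) (nat_lit 1461984157) (nat_lit 0) (nat_lit 1112724213) (nat_lit 304) (nat_lit 1461984157) (nat_lit 190) (nat_lit 1) (nat_lit 189) (nat_lit 1) (nat_lit 193) (nat_lit 1) (nat_lit 351) (nat_lit 370) (nat_lit 299)) (XT.lf (nat_lit 304) (nat_lit 1851540752) (nat_lit 0) (nat_lit 1070672452) (nat_lit 228) (nat_lit 1070672452) (nat_lit 190) (nat_lit 1) (nat_lit 186) (nat_lit 1) (nat_lit 189) (nat_lit 1) (nat_lit 352) (nat_lit 370) (nat_lit 298))) (XT.nd (nat_lit 78) (nat_lit 456) (nat_lit 0) (XT.lf (nat_lit 76) (nat_lit 396008428) (nat_lit 0) (nat_lit 3157803911) (nat_lit 304) (nat_lit 396008428) (nat_lit 187) (nat_lit 1) (nat_lit 186) (nat_lit 1) (nat_lit 190) (nat_lit 1) (nat_lit 353) (nat_lit 370) (nat_lit 297)) (XT.nd (nat_lit 78) (nat_lit 228) (nat_lit 0) (XT.lf (nat_lit 76) (nat_lit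 1822323645) (nat_lit 0) (nat_lit 262384022) (nat_lit 228) (nat_lit 1822323645) (nat_lit 184) (nat_lit 1) (nat_lit 183) (nat_lit 1) (nat_lit 186) (nat_lit 1) (nat_lit 354) (nat_lit 370) (nat_lit 296)) (XT.lf (nat_lit 304) (nat_lit 2583934535) (nat_lit 0) (nat_lit 640516478) (nat_lit 228) (nat_lit 640516478) (nat_lit 184) (nat_lit 1) (nat_lit 180) (nat_lit 1) (nat_lit 183) (nat_lit 1) (nat_lit 355) (nat_lit 370) (nat_lit 295))))))) (XT.nd (nat_lit 702) (nat_lit 1292) (nat_lit 0) (XT.nd (nat_lit 312) (nat_lit 532) (nat_lit 0) (XT.nd (nat_lit 156) (nat_lit 304) (nat_lit 0) (XT.nd (nat_lit 78) (nat_lit 152) (nat_lit 0) (XT.lf (nat_lit 76) (nat_lit 764266408) (nat_lit 0) (nat_lit 2294850863) (nat_lit 304) (nat_lit 764266408) (nat_lit 181) (nat_lit 1) (nat_lit 180) (nat_lit 1) (nat_lit 184) (nat_lit 1) (nat_lit 356) (nat_lit 370) (nat_lit 294)) (XT.lf (nat_lit 228) (nat_lit 481372415) (nat_lit 0) (nat_lit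 1650491667) (nat_lit 152) (nat_lit 1650491667) (nat_lit 181) (nat_lit 1) (nat_lit 178) (nat_lit 1) (nat_lit 180) (nat_lit 1) (nat_lit 357) (nat_lit 370) (nat_lit 293))) (XT.nd (nat_lit 78) (nat_lit 0) (nat_lit 0) (XT.lf (nat_lit 304) (nat_lit 3207311355) (nat_lit 0) (nat_lit 267379791) (nat_lit 228) (nat_lit 267379791) (nat_lit 178) (nat_lit 1) (nat_lit 174) (nat_lit 1) (nat_lit 177) (nat_lit 1) (nat_lit 358) (nat_lit 370) (nat_lit 292)) (XT.lf (nat_lit 76) (nat_lit 1079446676) (nat_lit 0) (nat_lit 1543006423) (nat_lit 304) (nat_lit 1079446676) (nat_lit 175) (nat_lit 1) (nat_lit 174) (nat_lit 1) (nat_lit 178) (nat_lit 1) (nat_lit 359) (nat_lit 370) (nat_lit 291)))) (XT.nd (nat_lit 156) (nat_lit 380) (nat_lit 0) (XT.nd (nat_lit 78) (nat_lit 0) (nat_lit 0) (XT.lf (nat_lit 228) (nat_lit 1125884284) (nat_lit 0) (nat_lit 1268286878) (nat_lit 152) (nat_lit 1268286878) (nat_lit 175) (nat_lit 1) (nat_lit 172)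 (nat_lit 1) (nat_lit 174) (nat_lit 1) (nat_lit 360) (nat_lit 370) (nat_lit 290)) (XT.lf (nat_lit 76) (nat_lit 55907744) (nat_lit 0) (nat_lit 3512024926) (nat_lit 228) (nat_lit 55907744) (nat_lit 173) (nat_lit 1) (nat_lit 172) (nat_lit 1) (nat_lit 175) (nat_lit 1) (nat_lit 361) (nat_lit 370) (nat_lit 289))) (XT.nd (nat_lit 78) (nat_lit 152) (nat_lit 0) (XT.lf (nat_lit 76) (nat_lit 1347817956) (nat_lit 0) (nat_lit 889447196) (nat_lit 228) (nat_lit 1347817956) (nat_lit 170) (nat_lit 1) (nat_lit 169) (nat_lit 1) (nat_lit 172) (nat_lit 1) (nat_lit 362) (nat_lit 370) (nat_lit 288)) (XT.nd (nat_lit 78) (nat_lit 0) (nat_lit 0) (XT.lf (nat_lit 228) (nat_lit 1678189068) (nat_lit 0) (nat_lit 934474338) (nat_lit 152) (nat_lit 934474338) (nat_lit 170) (nat_lit 1) (nat_lit 167) (nat_lit 1) (nat_lit 169) (nat_lit 1) (nat_lit 363) (nat_lit 370) (nat_lit 287)) (XT.lf (nat_lit 76) (nat_lit 336880432) (nat_lit 0) (nat_lit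 2836052768) (nat_lit 228) (nat_lit 336880432) (nat_lit 168) (nat_lit 1) (nat_lit 167) (nat_lit 1) (nat_lit 170) (nat_lit 1) (nat_lit 364) (nat_lit 370) (nat_lit 286)))))) (XT.nd (nat_lit 390) (nat_lit 532) (nat_lit 0) (XT.nd (nat_lit 156) (nat_lit 380) (nat_lit 0) (XT.nd (nat_lit 78) (nat_lit 152) (nat_lit 0) (XT.lf (nat_lit 76) (nat_lit 1574939734) (nat_lit 0) (nat_lit 322792386) (nat_lit 228) (nat_lit 1574939734) (nat_lit 165) (nat_lit 1) (nat_lit 164) (nat_lit 1) (nat_lit 167) (nat_lit 1) (nat_lit 365) (nat_lit 370) (nat_lit 285)) (XT.lf (nat_lit 228) (nat_lit 2149161352) (nat_lit 0) (nat_lit 643489582) (nat_lit 152) (nat_lit 643489582) (nat_lit 165) (nat_lit 1) (nat_lit 162) (nat_lit 1) (nat_lit 164) (nat_lit 1) (nat_lit 366) (nat_lit 370) (nat_lit 284))) (XT.nd (nat_lit 78) (nat_lit 380) (nat_lit 0) (XT.lf (nat_lit 76) (nat_lit 578155770) (nat_lit 0) (nat_lit 2243741889) (nat_lit 228) (nat_lit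 578155770) (nat_lit 163) (nat_lit 1) (nat_lit 162) (nat_lit 1) (nat_lit 165) (nat_lit 1) (nat_lit 367) (nat_lit 370) (nat_lit 283)) (XT.nd (nat_lit 78) (nat_lit 228) (nat_lit 0) (XT.lf (nat_lit 228) (nat_lit 170382215) (nat_lit 0) (nat_lit 1596997251) (nat_lit 152) (nat_lit 1596997251) (nat_lit 163) (nat_lit 1) (nat_lit 160) (nat_lit 1) (nat_lit 162) (nat_lit 1) (nat_lit 368) (nat_lit 370) (nat_lit 282)) (XT.lf (nat_lit 228) (nat_lit 2548445812) (nat_lit 0) (nat_lit 390393554) (nat_lit 152) (nat_lit 390393554) (nat_lit 160) (nat_lit 1) (nat_lit 157) (nat_lit 1) (nat_lit 159) (nat_lit 1) (nat_lit 369) (nat_lit 370) (nat_lit 281))))) (XT.nd (nat_lit 156) (nat_lit 380) (nat_lit 0) (XT.nd (nat_lit 78) (nat_lit 152) (nat_lit 0) (XT.lf (nat_lit 76) (nat_lit 784404175) (nat_lit 0) (nat_lit 1725521760) (nat_lit 228) (nat_lit 784404175) (nat_lit 158) (nat_lit 1) (nat_lit 157) (nat_lit 1) (nat_lit 160) (nat_lit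 1) (nat_lit 370) (nat_lit 370) (nat_lit 280)) (XT.lf (nat_lit 228) (nat_lit 600787138) (nat_lit 0) (nat_lit 1329582011) (nat_lit 152) (nat_lit 1329582011) (nat_lit 158) (nat_lit 1) (nat_lit 155) (nat_lit 1) (nat_lit 157) (nat_lit 1) (nat_lit 371) (nat_lit 370) (nat_lit 279))) (XT.nd (nat_lit 78) (nat_lit 152) (nat_lit 0) (XT.lf (nat_lit 228) (nat_lit 2884594871) (nat_lit 0) (nat_lit 170802718) (nat_lit 152) (nat_lit 170802718) (nat_lit 155) (nat_lit 1) (nat_lit 152) (nat_lit 1) (nat_lit 154) (nat_lit 1) (nat_lit 372) (nat_lit 370) (nat_lit 278)) (XT.nd (nat_lit 78) (nat_lit 152) (nat_lit 0) (XT.lf (nat_lit 76) (nat_lit 959768155) (nat_lit 0) (nat_lit 1272896116) (nat_lit 228) (nat_lit 959768155) (nat_lit 153) (nat_lit 1) (nat_lit 152) (nat_lit 1) (nat_lit 155) (nat_lit 1) (nat_lit 373) (nat_lit 370) (nat_lit 277)) (XT.lf (nat_lit 228) (nat_lit 970106878) (nat_lit 0) (nat_lit 1094588860) (nat_lit 152)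 (nat_lit 1094588860) (nat_lit 153) (nat_lit 1) (nat_lit 150) (nat_lit 1) (nat_lit 152) (nat_lit 1) (nat_lit 374) (nat_lit 370) (nat_lit 276))))))))
noncomputable def ec161 : XT := (XT.nd (nat_lit 1482) (nat_lit 1596) (nat_lit 0) (XT.nd (nat_lit 702) (nat_lit 912) (nat_lit 0) (XT.nd (nat_lit 312) (nat_lit 608) (nat_lit 0) (XT.nd (nat_lit 156) (nat_lit 152) (nat_lit 0) (XT.nd (nat_lit 78) (nat_lit 152) (nat_lit 0) (XT.lf (nat_lit 76) (nat_lit 19362856) (nat_lit 0) (nat_lit 3088096772) (nat_lit 228) (nat_lit 19362856) (nat_lit 151) (nat_lit 1) (nat_lit 150) (nat_lit 1) (nat_lit 153) (nat_lit 1) (nat_lit 375) (nat_lit 370) (nat_lit 275)) (XT.lf (nat_lit 76) (nat_lit 1107921386) (nat_lit 0) (nat_lit 878322956) (nat_lit 152) (nat_lit 1107921386) (nat_lit 149) (nat_lit 1) (nat_lit 148) (nat_lit 1) (nat_lit 150) (nat_lit 1) (nat_lit 376) (nat_lit 370) (nat_lit 274))) (XT.nd (nat_lit 78) (nat_lit 0) (nat_lit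 0) (XT.lf (nat_lit 228) (nat_lit 1285534472) (nat_lit 0) (nat_lit 888326533) (nat_lit 152) (nat_lit 888326533) (nat_lit 149) (nat_lit 1) (nat_lit 146) (nat_lit 1) (nat_lit 148) (nat_lit 1) (nat_lit 377) (nat_lit 370) (nat_lit 273)) (XT.lf (nat_lit 76) (nat_lit 184797233) (nat_lit 0) (nat_lit 2661175568) (nat_lit 228) (nat_lit 184797233) (nat_lit 147) (nat_lit 1) (nat_lit 146) (nat_lit 1) (nat_lit 149) (nat_lit 1) (nat_lit 378) (nat_lit 370) (nat_lit 272)))) (XT.nd (nat_lit 156) (nat_lit 304) (nat_lit 0) (XT.nd (nat_lit 78) (nat_lit 152) (nat_lit 0) (XT.lf (nat_lit 76) (nat_lit 1232121191) (nat_lit 0) (nat_lit 535107933) (nat_lit 152) (nat_lit 1232121191) (nat_lit 145) (nat_lit 1) (nat_lit 144) (nat_lit 1) (nat_lit 146) (nat_lit 1) (nat_lit 379) (nat_lit 370) (nat_lit 271)) (XT.lf (nat_lit 228) (nat_lit 1553449734) (nat_lit 0) (nat_lit 707517598) (nat_lit 152) (nat_lit 707517598) (nat_lit 145) (nat_lit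 1) (nat_lit 142) (nat_lit 1) (nat_lit 144) (nat_lit 1) (nat_lit 380) (nat_lit 370) (nat_lit 270))) (XT.nd (nat_lit 78) (nat_lit 304) (nat_lit 0) (XT.lf (nat_lit 76) (nat_lit 326902168) (nat_lit 0) (nat_lit 2284266221) (nat_lit 228) (nat_lit 326902168) (nat_lit 143) (nat_lit 1) (nat_lit 142) (nat_lit 1) (nat_lit 145) (nat_lit 1) (nat_lit 381) (nat_lit 370) (nat_lit 269)) (XT.nd (nat_lit 78) (nat_lit 152) (nat_lit 0) (XT.lf (nat_lit 76) (nat_lit 1335255166) (nat_lit 0) (nat_lit 237309636) (nat_lit 152) (nat_lit 1335255166) (nat_lit 141) (nat_lit 1) (nat_lit 140) (nat_lit 1) (nat_lit 142) (nat_lit 1) (nat_lit 382) (nat_lit 370) (nat_lit 268)) (XT.lf (nat_lit 228) (nat_lit 1779510265) (nat_lit 0) (nat_lit 549252241) (nat_lit 152) (nat_lit 549252241) (nat_lit 141) (nat_lit 1) (nat_lit 138) (nat_lit 1) (nat_lit 140) (nat_lit 1) (nat_lit 383) (nat_lit 370) (nat_lit 267)))))) (XT.nd (nat_lit 390) (nat_lit 532)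 (nat_lit 0) (XT.nd (nat_lit 156) (nat_lit 304) (nat_lit 0) (XT.nd (nat_lit 78) (nat_lit 76) (nat_lit 0) (XT.lf (nat_lit 76) (nat_lit 448421371) (nat_lit 0) (nat_lit 1951721725) (nat_lit 228) (nat_lit 448421371) (nat_lit 139) (nat_lit 1) (nat_lit 138) (nat_lit 1) (nat_lit 141) (nat_lit 1) (nat_lit 384) (nat_lit 370) (nat_lit 266)) (XT.lf (nat_lit 152) (nat_lit 20749457) (nat_lit 0) (nat_lit 1399332595) (nat_lit 76) (nat_lit 1399332595) (nat_lit 139) (nat_lit 1) (nat_lit 137) (nat_lit 1) (nat_lit 138) (nat_lit 1) (nat_lit 385) (nat_lit 370) (nat_lit 265))) (XT.nd (nat_lit 78) (nat_lit 76) (nat_lit 0) (XT.lf (nat_lit 228) (nat_lit 1968732304) (nat_lit 0) (nat_lit 410947210) (nat_lit 152) (nat_lit 410947210) (nat_lit 137) (nat_lit 1) (nat_lit 134) (nat_lit 1) (nat_lit 136) (nat_lit 1) (nat_lit 386) (nat_lit 370) (nat_lit 264)) (XT.nd (nat_lit 78) (nat_lit 76) (nat_lit 0) (XT.lf (nat_lit 76) (nat_lit 551788453)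 (nat_lit 0) (nat_lit 1658526827) (nat_lit 228) (nat_lit 551788453) (nat_lit 135) (nat_lit 1) (nat_lit 134) (nat_lit 1) (nat_lit 137) (nat_lit 1) (nat_lit 387) (nat_lit 370) (nat_lit 263)) (XT.lf (nat_lit 152) (nat_lit 247360143) (nat_lit 0) (nat_lit 1243288886) (nat_lit 76) (nat_lit 1243288886) (nat_lit 135) (nat_lit 1) (nat_lit 133) (nat_lit 1) (nat_lit 134) (nat_lit 1) (nat_lit 388) (nat_lit 370) (nat_lit 262))))) (XT.nd (nat_lit 156) (nat_lit 304) (nat_lit 0) (XT.nd (nat_lit 78) (nat_lit 0) (nat_lit 0) (XT.lf (nat_lit 228) (nat_lit 2125562553) (nat_lit 0) (nat_lit 290309338) (nat_lit 152) (nat_lit 290309338) (nat_lit 133) (nat_lit 1) (nat_lit 130) (nat_lit 1) (nat_lit 132) (nat_lit 1) (nat_lit 389) (nat_lit 370) (nat_lit 261)) (XT.lf (nat_lit 76) (nat_lit 639161625) (nat_lit 0) (nat_lit 1400227520) (nat_lit 228) (nat_lit 639161625) (nat_lit 131) (nat_lit 1) (nat_lit 130) (nat_lit 1) (nat_lit 133)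 (nat_lit 1) (nat_lit 390) (nat_lit 370) (nat_lit 260))) (XT.nd (nat_lit 78) (nat_lit 228) (nat_lit 0) (XT.lf (nat_lit 152) (nat_lit 442033099) (nat_lit 0) (nat_lit 1104646072) (nat_lit 76) (nat_lit 1104646072) (nat_lit 131) (nat_lit 1) (nat_lit 129) (nat_lit 1) (nat_lit 130) (nat_lit 1) (nat_lit 391) (nat_lit 370) (nat_lit 259)) (XT.nd (nat_lit 78) (nat_lit 0) (nat_lit 0) (XT.lf (nat_lit 228) (nat_lit 2253941983) (nat_lit 0) (nat_lit 185303141) (nat_lit 152) (nat_lit 185303141) (nat_lit 129) (nat_lit 1) (nat_lit 126) (nat_lit 1) (nat_lit 128) (nat_lit 1) (nat_lit 392) (nat_lit 370) (nat_lit 258)) (XT.lf (nat_lit 76) (nat_lit 712454525) (nat_lit 0) (nat_lit 1172868400) (nat_lit 228) (nat_lit 712454525) (nat_lit 127) (nat_lit 1) (nat_lit 126) (nat_lit 1) (nat_lit 129) (nat_lit 1) (nat_lit 393) (nat_lit 370) (nat_lit 257))))))) (XT.nd (nat_lit 702) (nat_lit 760) (nat_lit 0) (XT.nd (nat_lit 312) (nat_lit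 456) (nat_lit 0) (XT.nd (nat_lit 156) (nat_lit 76) (nat_lit 0) (XT.nd (nat_lit 78) (nat_lit 228) (nat_lit 0) (XT.lf (nat_lit 152) (nat_lit 608523999) (nat_lit 0) (nat_lit 981463728) (nat_lit 76) (nat_lit 981463728) (nat_lit 127) (nat_lit 1) (nat_lit 125) (nat_lit 1) (nat_lit 126) (nat_lit 1) (nat_lit 394) (nat_lit 370) (nat_lit 256)) (XT.lf (nat_lit 228) (nat_lit 2357362516) (nat_lit 0) (nat_lit 94122017) (nat_lit 152) (nat_lit 94122017) (nat_lit 125) (nat_lit 1) (nat_lit 122) (nat_lit 1) (nat_lit 124) (nat_lit 1) (nat_lit 395) (nat_lit 370) (nat_lit 255))) (XT.nd (nat_lit 78) (nat_lit 76) (nat_lit 0) (XT.lf (nat_lit 76) (nat_lit 773363608) (nat_lit 0) (nat_lit 972937008) (nat_lit 228) (nat_lit 773363608) (nat_lit 123) (nat_lit 1) (nat_lit 122) (nat_lit 1) (nat_lit 125) (nat_lit 1) (nat_lit 396) (nat_lit 370) (nat_lit 254)) (XT.lf (nat_lit 152) (nat_lit 750164056) (nat_lit 0) (nat_lit 872017810) (nat_lit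 76) (nat_lit 872017810) (nat_lit 123) (nat_lit 1) (nat_lit 121) (nat_lit 1) (nat_lit 122) (nat_lit 1) (nat_lit 397) (nat_lit 370) (nat_lit 253)))) (XT.nd (nat_lit 156) (nat_lit 228) (nat_lit 0) (XT.nd (nat_lit 78) (nat_lit 0) (nat_lit 0) (XT.lf (nat_lit 228) (nat_lit 2438917380) (nat_lit 0) (nat_lit 15162675) (nat_lit 152) (nat_lit 15162675) (nat_lit 121) (nat_lit 1) (nat_lit 118) (nat_lit 1) (nat_lit 120) (nat_lit 1) (nat_lit 398) (nat_lit 370) (nat_lit 252)) (XT.lf (nat_lit 76) (nat_lit 823392471) (nat_lit 0) (nat_lit 797314382) (nat_lit 228) (nat_lit 823392471) (nat_lit 119) (nat_lit 1) (nat_lit 118) (nat_lit 1) (nat_lit 121) (nat_lit 1) (nat_lit 399) (nat_lit 370) (nat_lit 251))) (XT.nd (nat_lit 78) (nat_lit 152) (nat_lit 0) (XT.lf (nat_lit 152) (nat_lit 869907518) (nat_lit 0) (nat_lit 774776530) (nat_lit 76) (nat_lit 774776530) (nat_lit 119) (nat_lit 1) (nat_lit 117) (nat_lit 1) (nat_lit 118) (nat_lit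 1) (nat_lit 400) (nat_lit 370) (nat_lit 250)) (XT.nd (nat_lit 78) (nat_lit 152) (nat_lit 0) (XT.lf (nat_lit 0) (nat_lit 53522322) (nat_lit 0) (nat_lit 2288243957) (nat_lit 152) (nat_lit 53522322) (nat_lit 117) (nat_lit 3) (nat_lit 117) (nat_lit 1) (nat_lit 119) (nat_lit 1) (nat_lit 401) (nat_lit 370) (nat_lit 249)) (XT.lf (nat_lit 76) (nat_lit 863873471) (nat_lit 0) (nat_lit 643231125) (nat_lit 152) (nat_lit 863873471) (nat_lit 116) (nat_lit 1) (nat_lit 115) (nat_lit 1) (nat_lit 117) (nat_lit 1) (nat_lit 402) (nat_lit 370) (nat_lit 248)))))) (XT.nd (nat_lit 390) (nat_lit 456) (nat_lit 0) (XT.nd (nat_lit 156) (nat_lit 228) (nat_lit 0) (XT.nd (nat_lit 78) (nat_lit 0) (nat_lit 0) (XT.lf (nat_lit 152) (nat_lit 970373864) (nat_lit 0) (nat_lit 688378912) (nat_lit 76) (nat_lit 688378912) (nat_lit 116) (nat_lit 1) (nat_lit 114) (nat_lit 1) (nat_lit 115) (nat_lit 1) (nat_lit 403) (nat_lit 370) (nat_lit 247))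 (XT.lf (nat_lit 0) (nat_lit 112726267) (nat_lit 0) (nat_lit 2098247495) (nat_lit 152) (nat_lit 112726267) (nat_lit 114) (nat_lit 3) (nat_lit 114) (nat_lit 1) (nat_lit 116) (nat_lit 1) (nat_lit 404) (nat_lit 370) (nat_lit 246))) (XT.nd (nat_lit 78) (nat_lit 76) (nat_lit 0) (XT.lf (nat_lit 76) (nat_lit 895986919) (nat_lit 0) (nat_lit 508228371) (nat_lit 152) (nat_lit 895986919) (nat_lit 113) (nat_lit 1) (nat_lit 112) (nat_lit 1) (nat_lit 114) (nat_lit 1) (nat_lit 405) (nat_lit 370) (nat_lit 245)) (XT.nd (nat_lit 78) (nat_lit 0) (nat_lit 0) (XT.lf (nat_lit 152) (nat_lit 1053885291) (nat_lit 0) (nat_lit 611615747) (nat_lit 76) (nat_lit 611615747) (nat_lit 113) (nat_lit 1) (nat_lit 111) (nat_lit 1) (nat_lit 112) (nat_lit 1) (nat_lit 406) (nat_lit 370) (nat_lit 244)) (XT.lf (nat_lit 0) (nat_lit 163429980) (nat_lit 0) (nat_lit 1927539875) (nat_lit 152) (nat_lit 163429980) (nat_lit 111) (nat_lit 3) (nat_lit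 111) (nat_lit 1) (nat_lit 113) (nat_lit 1) (nat_lit 407) (nat_lit 370) (nat_lit 243))))) (XT.nd (nat_lit 156) (nat_lit 228) (nat_lit 0) (XT.nd (nat_lit 78) (nat_lit 76) (nat_lit 0) (XT.lf (nat_lit 76) (nat_lit 920778140) (nat_lit 0) (nat_lit 390123109) (nat_lit 152) (nat_lit 920778140) (nat_lit 110) (nat_lit 1) (nat_lit 109) (nat_lit 1) (nat_lit 111) (nat_lit 1) (nat_lit 408) (nat_lit 370) (nat_lit 242)) (XT.lf (nat_lit 152) (nat_lit 1122500015) (nat_lit 0) (nat_lit 543412669) (nat_lit 76) (nat_lit 543412669) (nat_lit 110) (nat_lit 1) (nat_lit 108) (nat_lit 1) (nat_lit 109) (nat_lit 1) (nat_lit 409) (nat_lit 370) (nat_lit 241))) (XT.nd (nat_lit 78) (nat_lit 228) (nat_lit 0) (XT.lf (nat_lit 0) (nat_lit 206636636) (nat_lit 0) (nat_lit 1774025429) (nat_lit 152) (nat_lit 206636636) (nat_lit 108) (nat_lit 3) (nat_lit 108) (nat_lit 1) (nat_lit 110) (nat_lit 1) (nat_lit 410) (nat_lit 370) (nat_lit 240)) (XT.nd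 (nat_lit 78) (nat_lit 76) (nat_lit 0) (XT.lf (nat_lit 76) (nat_lit 939172624) (nat_lit 0) (nat_lit 286977372) (nat_lit 152) (nat_lit 939172624) (nat_lit 107) (nat_lit 1) (nat_lit 106) (nat_lit 1) (nat_lit 108) (nat_lit 1) (nat_lit 411) (nat_lit 370) (nat_lit 239)) (XT.lf (nat_lit 152) (nat_lit 1178041854) (nat_lit 0) (nat_lit 482815118) (nat_lit 76) (nat_lit 482815118) (nat_lit 107) (nat_lit 1) (nat_lit 105) (nat_lit 1) (nat_lit 106) (nat_lit 1) (nat_lit 412) (nat_lit 370) (nat_lit 238))))))))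
noncomputable def ec162 : XT := (XT.nd (nat_lit 1482) (nat_lit 228) (nat_lit 0) (XT.nd (nat_lit 702) (nat_lit 684) (nat_lit 0) (XT.nd (nat_lit 312) (nat_lit 456) (nat_lit 0) (XT.nd (nat_lit 156) (nat_lit 76) (nat_lit 0) (XT.nd (nat_lit 78) (nat_lit 152) (nat_lit 0) (XT.lf (nat_lit 0) (nat_lit 243235932) (nat_lit 0) (nat_lit 1635840573) (nat_lit 152) (nat_lit 243235932) (nat_lit 105) (nat_lit 3) (nat_lit 105) (nat_lit 1) (nat_lit 107) (nat_lit 1) (nat_lit 413) (nat_lit 370) (nat_lit 237)) (XT.lf (nat_lit 76) (nat_lit 951989482) (nat_lit 0) (nat_lit 197070866) (nat_lit 152) (nat_lit 951989482) (nat_lit 104) (nat_lit 1) (nat_lit 103) (nat_lit 1) (nat_lit 105) (nat_lit 1) (nat_lit 414) (nat_lit 370) (nat_lit 236))) (XT.nd (nat_lit 78) (nat_lit 0) (nat_lit 0) (XT.lf (nat_lit 152) (nat_lit 1222126511) (nat_lit 0) (nat_lit 428974979) (nat_lit 76) (nat_lit 428974979) (nat_lit 104) (nat_lit 1) (nat_lit 102)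 (nat_lit 1) (nat_lit 103) (nat_lit 1) (nat_lit 415) (nat_lit 370) (nat_lit 235)) (XT.lf (nat_lit 0) (nat_lit 274016788) (nat_lit 0) (nat_lit 1511327974) (nat_lit 152) (nat_lit 274016788) (nat_lit 102) (nat_lit 3) (nat_lit 102) (nat_lit 1) (nat_lit 104) (nat_lit 1) (nat_lit 416) (nat_lit 370) (nat_lit 234)))) (XT.nd (nat_lit 156) (nat_lit 228) (nat_lit 0) (XT.nd (nat_lit 78) (nat_lit 76) (nat_lit 0) (XT.lf (nat_lit 76) (nat_lit 959953402) (nat_lit 0) (nat_lit 118876647) (nat_lit 152) (nat_lit 959953402) (nat_lit 101) (nat_lit 1) (nat_lit 100) (nat_lit 1) (nat_lit 102) (nat_lit 1) (nat_lit 417) (nat_lit 370) (nat_lit 233)) (XT.lf (nat_lit 152) (nat_lit 1256184918) (nat_lit 0) (nat_lit 381138713) (nat_lit 76) (nat_lit 381138713) (nat_lit 101) (nat_lit 1) (nat_lit 99) (nat_lit 1) (nat_lit 100) (nat_lit 1) (nat_lit 418) (nat_lit 370) (nat_lit 232))) (XT.nd (nat_lit 78) (nat_lit 228) (nat_lit 0) (XT.lf (nat_lit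 0) (nat_lit 299678631) (nat_lit 0) (nat_lit 1399013595) (nat_lit 152) (nat_lit 299678631) (nat_lit 99) (nat_lit 3) (nat_lit 99) (nat_lit 1) (nat_lit 101) (nat_lit 1) (nat_lit 419) (nat_lit 370) (nat_lit 231)) (XT.nd (nat_lit 78) (nat_lit 76) (nat_lit 0) (XT.lf (nat_lit 76) (nat_lit 963705268) (nat_lit 0) (nat_lit 51039522) (nat_lit 152) (nat_lit 963705268) (nat_lit 98) (nat_lit 1) (nat_lit 97) (nat_lit 1) (nat_lit 99) (nat_lit 1) (nat_lit 420) (nat_lit 370) (nat_lit 230)) (XT.lf (nat_lit 152) (nat_lit 1281483973) (nat_lit 0) (nat_lit 338636810) (nat_lit 76) (nat_lit 338636810) (nat_lit 98) (nat_lit 1) (nat_lit 96) (nat_lit 1) (nat_lit 97) (nat_lit 1) (nat_lit 421) (nat_lit 370) (nat_lit 229)))))) (XT.nd (nat_lit 390) (nat_lit 380) (nat_lit 0) (XT.nd (nat_lit 156) (nat_lit 228) (nat_lit 0) (XT.nd (nat_lit 78) (nat_lit 76) (nat_lit 0) (XT.lf (nat_lit 0) (nat_lit 320841422) (nat_lit 0) (nat_lit 1297586298)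 (nat_lit 152) (nat_lit 320841422) (nat_lit 96) (nat_lit 3) (nat_lit 96) (nat_lit 1) (nat_lit 98) (nat_lit 1) (nat_lit 422) (nat_lit 370) (nat_lit 228)) (XT.lf (nat_lit 76) (nat_lit 7795265) (nat_lit 0) (nat_lit 956091262) (nat_lit 76) (nat_lit 956091262) (nat_lit 96) (nat_lit 3) (nat_lit 95) (nat_lit 1) (nat_lit 96) (nat_lit 1) (nat_lit 423) (nat_lit 370) (nat_lit 227))) (XT.nd (nat_lit 78) (nat_lit 76) (nat_lit 0) (XT.lf (nat_lit 152) (nat_lit 1299144965) (nat_lit 0) (nat_lit 300874419) (nat_lit 76) (nat_lit 300874419) (nat_lit 95) (nat_lit 1) (nat_lit 93) (nat_lit 1) (nat_lit 94) (nat_lit 1) (nat_lit 424) (nat_lit 370) (nat_lit 226)) (XT.nd (nat_lit 78) (nat_lit 76) (nat_lit 0) (XT.lf (nat_lit 0) (nat_lit 338054554) (nat_lit 0) (nat_lit 1205879726) (nat_lit 152) (nat_lit 338054554) (nat_lit 93) (nat_lit 3) (nat_lit 93) (nat_lit 1) (nat_lit 95) (nat_lit 1) (nat_lit 425) (nat_lit 370) (nat_lit 225))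 (XT.lf (nat_lit 76) (nat_lit 59397578) (nat_lit 0) (nat_lit 901946288) (nat_lit 76) (nat_lit 901946288) (nat_lit 93) (nat_lit 3) (nat_lit 92) (nat_lit 1) (nat_lit 93) (nat_lit 1) (nat_lit 426) (nat_lit 370) (nat_lit 224))))) (XT.nd (nat_lit 156) (nat_lit 228) (nat_lit 0) (XT.nd (nat_lit 78) (nat_lit 0) (nat_lit 0) (XT.lf (nat_lit 152) (nat_lit 1310159933) (nat_lit 0) (nat_lit 267323025) (nat_lit 76) (nat_lit 267323025) (nat_lit 92) (nat_lit 1) (nat_lit 90) (nat_lit 1) (nat_lit 91) (nat_lit 1) (nat_lit 427) (nat_lit 370) (nat_lit 223)) (XT.lf (nat_lit 0) (nat_lit 351804769) (nat_lit 0) (nat_lit 1122856194) (nat_lit 152) (nat_lit 351804769) (nat_lit 90) (nat_lit 3) (nat_lit 90) (nat_lit 1) (nat_lit 92) (nat_lit 1) (nat_lit 428) (nat_lit 370) (nat_lit 222))) (XT.nd (nat_lit 78) (nat_lit 152) (nat_lit 0) (XT.lf (nat_lit 76) (nat_lit 103717266) (nat_lit 0) (nat_lit 852310882) (nat_lit 76) (nat_lit 852310882)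 (nat_lit 90) (nat_lit 3) (nat_lit 89) (nat_lit 1) (nat_lit 90) (nat_lit 1) (nat_lit 429) (nat_lit 370) (nat_lit 221)) (XT.nd (nat_lit 78) (nat_lit 0) (nat_lit 0) (XT.lf (nat_lit 152) (nat_lit 1315406207) (nat_lit 0) (nat_lit 237513045) (nat_lit 76) (nat_lit 237513045) (nat_lit 89) (nat_lit 1) (nat_lit 87) (nat_lit 1) (nat_lit 88) (nat_lit 1) (nat_lit 430) (nat_lit 370) (nat_lit 220)) (XT.lf (nat_lit 0) (nat_lit 362523180) (nat_lit 0) (nat_lit 1047592385) (nat_lit 152) (nat_lit 362523180) (nat_lit 87) (nat_lit 3) (nat_lit 87) (nat_lit 1) (nat_lit 89) (nat_lit 1) (nat_lit 431) (nat_lit 370) (nat_lit 219))))))) (XT.nd (nat_lit 41652) (nat_lit 0) (nat_lit 21204) (XT.nd (nat_lit 41262) (nat_lit 0) (nat_lit 22116) (XT.nd (nat_lit 41106) (nat_lit 0) (nat_lit 22040) (XT.nd (nat_lit 78) (nat_lit 152) (nat_lit 0) (XT.lf (nat_lit 76) (nat_lit 141610949) (nat_lit 0) (nat_lit 806726682) (nat_lit 76) (nat_lit 806726682)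 (nat_lit 87) (nat_lit 3) (nat_lit 86) (nat_lit 1) (nat_lit 87) (nat_lit 1) (nat_lit 432) (nat_lit 370) (nat_lit 218)) (XT.lf (nat_lit 152) (nat_lit 1315659316) (nat_lit 0) (nat_lit 211027264) (nat_lit 76) (nat_lit 211027264) (nat_lit 86) (nat_lit 1) (nat_lit 84) (nat_lit 1) (nat_lit 85) (nat_lit 1) (nat_lit 433) (nat_lit 370) (nat_lit 217))) (XT.nd (nat_lit 78) (nat_lit 0) (nat_lit 0) (XT.lf (nat_lit 1292) (nat_lit 932435163) (nat_lit 0) (nat_lit 3208010610) (nat_lit 1292) (nat_lit 932435163) (nat_lit 391) (nat_lit 1) (nat_lit 374) (nat_lit 0) (nat_lit 391) (nat_lit 0) (nat_lit 278) (nat_lit 371) (nat_lit 371)) (XT.lf (nat_lit 1292) (nat_lit 3643972959) (nat_lit 76) (nat_lit 3176559526) (nat_lit 0) (nat_lit 3176559526) (nat_lit 391) (nat_lit 1) (nat_lit 375) (nat_lit 1) (nat_lit 374) (nat_lit 0) (nat_lit 279) (nat_lit 371) (nat_lit 370)))) (XT.nd (nat_lit 156) (nat_lit 0) (nat_lit 76) (XT.nd (nat_lit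 78) (nat_lit 0) (nat_lit 0) (XT.lf (nat_lit 1292) (nat_lit 1762312205) (nat_lit 0) (nat_lit 6327077082) (nat_lit 1216) (nat_lit 1762312205) (nat_lit 392) (nat_lit 1) (nat_lit 375) (nat_lit 1) (nat_lit 391) (nat_lit 1) (nat_lit 280) (nat_lit 371) (nat_lit 369)) (XT.lf (nat_lit 1292) (nat_lit 3346721867) (nat_lit 76) (nat_lit 3181008540) (nat_lit 0) (nat_lit 3181008540) (nat_lit 392) (nat_lit 1) (nat_lit 376) (nat_lit 1) (nat_lit 375) (nat_lit 1) (nat_lit 281) (nat_lit 371) (nat_lit 368))) (XT.nd (nat_lit 78) (nat_lit 0) (nat_lit 0) (XT.lf (nat_lit 1292) (nat_lit 1570432545) (nat_lit 0) (nat_lit 6428110146) (nat_lit 1216) (nat_lit 1570432545) (nat_lit 393) (nat_lit 1) (nat_lit 376) (nat_lit 1) (nat_lit 392) (nat_lit 1) (nat_lit 282) (nat_lit 371) (nat_lit 367)) (XT.nd (nat_lit 78) (nat_lit 0) (nat_lit 76) (XT.lf (nat_lit 1292) (nat_lit 2877983455) (nat_lit 76) (nat_lit 3276731652) (nat_lit 0) (nat_lit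 3276731652) (nat_lit 393) (nat_lit 1) (nat_lit 377) (nat_lit 1) (nat_lit 376) (nat_lit 1) (nat_lit 283) (nat_lit 371) (nat_lit 366)) (XT.lf (nat_lit 1292) (nat_lit 1297131840) (nat_lit 0) (nat_lit 6702830339) (nat_lit 1216) (nat_lit 1297131840) (nat_lit 394) (nat_lit 1) (nat_lit 377) (nat_lit 1) (nat_lit 393) (nat_lit 1) (nat_lit 284) (nat_lit 371) (nat_lit 365)))))) (XT.nd (nat_lit 390) (nat_lit 1064) (nat_lit 0) (XT.nd (nat_lit 156) (nat_lit 0) (nat_lit 76) (XT.nd (nat_lit 78) (nat_lit 0) (nat_lit 76) (XT.lf (nat_lit 1292) (nat_lit 2253093565) (nat_lit 76) (nat_lit 3455823449) (nat_lit 0) (nat_lit 3455823449) (nat_lit 394) (nat_lit 1) (nat_lit 378) (nat_lit 1) (nat_lit 377) (nat_lit 1) (nat_lit 285) (nat_lit 371) (nat_lit 364)) (XT.lf (nat_lit 1292) (nat_lit 949776293) (nat_lit 0) (nat_lit 7136039537) (nat_lit 1216) (nat_lit 949776293) (nat_lit 395) (nat_lit 1) (nat_lit 378) (nat_lit 1) (nat_lit 394)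 (nat_lit 1) (nat_lit 286) (nat_lit 371) (nat_lit 363))) (XT.nd (nat_lit 78) (nat_lit 0) (nat_lit 76) (XT.lf (nat_lit 1292) (nat_lit 1486347746) (nat_lit 76) (nat_lit 3710909967) (nat_lit 0) (nat_lit 3710909967) (nat_lit 395) (nat_lit 1) (nat_lit 379) (nat_lit 1) (nat_lit 378) (nat_lit 1) (nat_lit 287) (nat_lit 371) (nat_lit 362)) (XT.nd (nat_lit 78) (nat_lit 0) (nat_lit 0) (XT.lf (nat_lit 1292) (nat_lit 535230842) (nat_lit 0) (nat_lit 7713564315) (nat_lit 1216) (nat_lit 535230842) (nat_lit 396) (nat_lit 1) (nat_lit 379) (nat_lit 1) (nat_lit 395) (nat_lit 1) (nat_lit 288) (nat_lit 371) (nat_lit 361)) (XT.lf (nat_lit 1292) (nat_lit 591065628) (nat_lit 76) (nat_lit 4035115924) (nat_lit 0) (nat_lit 4035115924) (nat_lit 396) (nat_lit 1) (nat_lit 380) (nat_lit 1) (nat_lit 379) (nat_lit 1) (nat_lit 289) (nat_lit 371) (nat_lit 360))))) (XT.nd (nat_lit 156) (nat_lit 0) (nat_lit 0) (XT.nd (nat_lit 78) (nat_lit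 1292) (nat_lit 0) (XT.lf (nat_lit 1292) (nat_lit 59890214) (nat_lit 0) (nat_lit 8422192693) (nat_lit 1216) (nat_lit 59890214) (nat_lit 397) (nat_lit 1) (nat_lit 380) (nat_lit 1) (nat_lit 396) (nat_lit 1) (nat_lit 290) (nat_lit 371) (nat_lit 359)) (XT.lf (nat_lit 1368) (nat_lit 4005726015) (nat_lit 0) (nat_lit 412146018) (nat_lit 1292) (nat_lit 4005726015) (nat_lit 381) (nat_lit 1) (nat_lit 363) (nat_lit 1) (nat_lit 380) (nat_lit 1) (nat_lit 291) (nat_lit 371) (nat_lit 358))) (XT.nd (nat_lit 78) (nat_lit 0) (nat_lit 76) (XT.lf (nat_lit 1368) (nat_lit 7377123387) (nat_lit 76) (nat_lit 465681153) (nat_lit 0) (nat_lit 465681153) (nat_lit 381) (nat_lit 1) (nat_lit 364) (nat_lit 1) (nat_lit 363) (nat_lit 1) (nat_lit 292) (nat_lit 371) (nat_lit 357)) (XT.nd (nat_lit 78) (nat_lit 0) (nat_lit 0) (XT.lf (nat_lit 1368) (nat_lit 3344114754) (nat_lit 0) (nat_lit 1506369213) (nat_lit 1292) (nat_lit 3344114754) (nat_lit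 382) (nat_lit 1) (nat_lit 364) (nat_lit 1) (nat_lit 381) (nat_lit 1) (nat_lit 293) (nat_lit 371) (nat_lit 356)) (XT.lf (nat_lit 1368) (nat_lit 6004632174) (nat_lit 76) (nat_lit 1039483263) (nat_lit 0) (nat_lit 1039483263) (nat_lit 382) (nat_lit 1) (nat_lit 365) (nat_lit 1) (nat_lit 364) (nat_lit 1) (nat_lit 294) (nat_lit 371) (nat_lit 355))))))))
noncomputable def ec163 : XT := (XT.nd (nat_lit 1482) (nat_lit 4712) (nat_lit 0) (XT.nd (nat_lit 702) (nat_lit 2584) (nat_lit 0) (XT.nd (nat_lit 312) (nat_lit 1824) (nat_lit 0) (XT.nd (nat_lit 156) (nat_lit 608) (nat_lit 0) (XT.nd (nat_lit 78) (nat_lit 836) (nat_lit 0) (XT.lf (nat_lit 76) (nat_lit 2640746819) (nat_lit 0) (nat_lit 2692606446) (nat_lit 1292) (nat_lit 2640746819) (nat_lit 366) (nat_lit 1) (nat_lit 365) (nat_lit 1) (nat_lit 382) (nat_lit 1) (nat_lit 295) (nat_lit 371) (nat_lit 354)) (XT.lf (nat_lit 912) (nat_lit 4553019288) (nat_lit 0) (nat_lit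 1657001291) (nat_lit 836) (nat_lit 1657001291) (nat_lit 366) (nat_lit 1) (nat_lit 354) (nat_lit 1) (nat_lit 365) (nat_lit 1) (nat_lit 296) (nat_lit 371) (nat_lit 353))) (XT.nd (nat_lit 78) (nat_lit 608) (nat_lit 0) (XT.lf (nat_lit 76) (nat_lit 1900341619) (nat_lit 0) (nat_lit 3961066211) (nat_lit 912) (nat_lit 1900341619) (nat_lit 355) (nat_lit 1) (nat_lit 354) (nat_lit 1) (nat_lit 366) (nat_lit 1) (nat_lit 297) (nat_lit 371) (nat_lit 352)) (XT.lf (nat_lit 684) (nat_lit 3031425907) (nat_lit 0) (nat_lit 2313493110) (nat_lit 608) (nat_lit 2313493110) (nat_lit 355) (nat_lit 1) (nat_lit 346) (nat_lit 1) (nat_lit 354) (nat_lit 1) (nat_lit 298) (nat_lit 371) (nat_lit 351)))) (XT.nd (nat_lit 156) (nat_lit 1216) (nat_lit 0) (XT.nd (nat_lit 78) (nat_lit 608) (nat_lit 0) (XT.lf (nat_lit 76) (nat_lit 1127280005) (nat_lit 0) (nat_lit 5302650423) (nat_lit 684) (nat_lit 1127280005) (nat_lit 347) (nat_lit 1) (nat_lit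 346) (nat_lit 1) (nat_lit 355) (nat_lit 1) (nat_lit 299) (nat_lit 371) (nat_lit 350)) (XT.lf (nat_lit 684) (nat_lit 1448334507) (nat_lit 0) (nat_lit 3004553838) (nat_lit 608) (nat_lit 3004553838) (nat_lit 347) (nat_lit 1) (nat_lit 338) (nat_lit 1) (nat_lit 346) (nat_lit 1) (nat_lit 300) (nat_lit 371) (nat_lit 349))) (XT.nd (nat_lit 78) (nat_lit 1216) (nat_lit 0) (XT.lf (nat_lit 76) (nat_lit 325625677) (nat_lit 0) (nat_lit 6708910781) (nat_lit 684) (nat_lit 325625677) (nat_lit 339) (nat_lit 1) (nat_lit 338) (nat_lit 1) (nat_lit 347) (nat_lit 1) (nat_lit 301) (nat_lit 371) (nat_lit 348)) (XT.nd (nat_lit 78) (nat_lit 608) (nat_lit 0) (XT.lf (nat_lit 76) (nat_lit 3539516081) (nat_lit 0) (nat_lit 184713262) (nat_lit 608) (nat_lit 3539516081) (nat_lit 331) (nat_lit 1) (nat_lit 330) (nat_lit 1) (nat_lit 338) (nat_lit 1) (nat_lit 302) (nat_lit 371) (nat_lit 347)) (XT.lf (nat_lit 684) (nat_lit 6177828993) (nat_lit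 0) (nat_lit 495944356) (nat_lit 608) (nat_lit 495944356) (nat_lit 331) (nat_lit 1) (nat_lit 322) (nat_lit 1) (nat_lit 330) (nat_lit 1) (nat_lit 303) (nat_lit 371) (nat_lit 346)))))) (XT.nd (nat_lit 390) (nat_lit 1520) (nat_lit 0) (XT.nd (nat_lit 156) (nat_lit 532) (nat_lit 0) (XT.nd (nat_lit 78) (nat_lit 532) (nat_lit 0) (XT.lf (nat_lit 76) (nat_lit 2620853918) (nat_lit 0) (nat_lit 1834939271) (nat_lit 684) (nat_lit 2620853918) (nat_lit 323) (nat_lit 1) (nat_lit 322) (nat_lit 1) (nat_lit 331) (nat_lit 1) (nat_lit 304) (nat_lit 371) (nat_lit 345)) (XT.lf (nat_lit 608) (nat_lit 4314862743) (nat_lit 0) (nat_lit 1335450295) (nat_lit 532) (nat_lit 1335450295) (nat_lit 323) (nat_lit 1) (nat_lit 315) (nat_lit 1) (nat_lit 322) (nat_lit 1) (nat_lit 305) (nat_lit 371) (nat_lit 344))) (XT.nd (nat_lit 78) (nat_lit 532) (nat_lit 0) (XT.lf (nat_lit 76) (nat_lit 1686145862) (nat_lit 0) (nat_lit 3523990622) (nat_lit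 608) (nat_lit 1686145862) (nat_lit 316) (nat_lit 1) (nat_lit 315) (nat_lit 1) (nat_lit 323) (nat_lit 1) (nat_lit 306) (nat_lit 371) (nat_lit 343)) (XT.nd (nat_lit 78) (nat_lit 0) (nat_lit 0) (XT.lf (nat_lit 608) (nat_lit 2422625304) (nat_lit 0) (nat_lit 2192888009) (nat_lit 532) (nat_lit 2192888009) (nat_lit 316) (nat_lit 1) (nat_lit 308) (nat_lit 1) (nat_lit 315) (nat_lit 1) (nat_lit 307) (nat_lit 371) (nat_lit 342)) (XT.lf (nat_lit 76) (nat_lit 738316340) (nat_lit 0) (nat_lit 5245748627) (nat_lit 608) (nat_lit 738316340) (nat_lit 309) (nat_lit 1) (nat_lit 308) (nat_lit 1) (nat_lit 316) (nat_lit 1) (nat_lit 308) (nat_lit 371) (nat_lit 341))))) (XT.nd (nat_lit 156) (nat_lit 456) (nat_lit 0) (XT.nd (nat_lit 78) (nat_lit 608) (nat_lit 0) (XT.lf (nat_lit 532) (nat_lit 506764334) (nat_lit 0) (nat_lit 3065302234) (nat_lit 456) (nat_lit 3065302234) (nat_lit 309) (nat_lit 1) (nat_lit 302) (nat_lit 1) (nat_lit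 308) (nat_lit 1) (nat_lit 309) (nat_lit 371) (nat_lit 340)) (XT.lf (nat_lit 608) (nat_lit 6118870857) (nat_lit 0) (nat_lit 217780205) (nat_lit 532) (nat_lit 217780205) (nat_lit 302) (nat_lit 1) (nat_lit 294) (nat_lit 1) (nat_lit 301) (nat_lit 1) (nat_lit 310) (nat_lit 371) (nat_lit 339))) (XT.nd (nat_lit 78) (nat_lit 456) (nat_lit 0) (XT.lf (nat_lit 76) (nat_lit 2536173298) (nat_lit 0) (nat_lit 1399656358) (nat_lit 608) (nat_lit 2536173298) (nat_lit 295) (nat_lit 1) (nat_lit 294) (nat_lit 1) (nat_lit 302) (nat_lit 1) (nat_lit 311) (nat_lit 371) (nat_lit 338)) (XT.nd (nat_lit 78) (nat_lit 0) (nat_lit 0) (XT.lf (nat_lit 532) (nat_lit 4042581504) (nat_lit 0) (nat_lit 1174497145) (nat_lit 456) (nat_lit 1174497145) (nat_lit 295) (nat_lit 1) (nat_lit 288) (nat_lit 1) (nat_lit 294) (nat_lit 1) (nat_lit 312) (nat_lit 371) (nat_lit 337)) (XT.lf (nat_lit 76) (nat_lit 1501392005) (nat_lit 0) (nat_lit 3309541369)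 (nat_lit 532) (nat_lit 1501392005) (nat_lit 289) (nat_lit 1) (nat_lit 288) (nat_lit 1) (nat_lit 295) (nat_lit 1) (nat_lit 313) (nat_lit 371) (nat_lit 336))))))) (XT.nd (nat_lit 702) (nat_lit 2128) (nat_lit 0) (XT.nd (nat_lit 312) (nat_lit 1216) (nat_lit 0) (XT.nd (nat_lit 156) (nat_lit 912) (nat_lit 0) (XT.nd (nat_lit 78) (nat_lit 0) (nat_lit 0) (XT.lf (nat_lit 532) (nat_lit 1960825397) (nat_lit 0) (nat_lit 2136806394) (nat_lit 456) (nat_lit 2136806394) (nat_lit 289) (nat_lit 1) (nat_lit 282) (nat_lit 1) (nat_lit 288) (nat_lit 1) (nat_lit 314) (nat_lit 371) (nat_lit 335)) (XT.lf (nat_lit 76) (nat_lit 464900490) (nat_lit 0) (nat_lit 5228453112) (nat_lit 532) (nat_lit 464900490) (nat_lit 283) (nat_lit 1) (nat_lit 282) (nat_lit 1) (nat_lit 289) (nat_lit 1) (nat_lit 315) (nat_lit 371) (nat_lit 334))) (XT.nd (nat_lit 78) (nat_lit 456) (nat_lit 0) (XT.lf (nat_lit 76) (nat_lit 2981348601) (nat_lit 0) (nat_lit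 120063446) (nat_lit 456) (nat_lit 2981348601) (nat_lit 277) (nat_lit 1) (nat_lit 276) (nat_lit 1) (nat_lit 282) (nat_lit 1) (nat_lit 316) (nat_lit 371) (nat_lit 333)) (XT.lf (nat_lit 532) (nat_lit 4877266566) (nat_lit 0) (nat_lit 565820957) (nat_lit 456) (nat_lit 565820957) (nat_lit 277) (nat_lit 1) (nat_lit 270) (nat_lit 1) (nat_lit 276) (nat_lit 1) (nat_lit 317) (nat_lit 371) (nat_lit 332)))) (XT.nd (nat_lit 156) (nat_lit 836) (nat_lit 0) (XT.nd (nat_lit 78) (nat_lit 380) (nat_lit 0) (XT.lf (nat_lit 76) (nat_lit 1887580323) (nat_lit 0) (nat_lit 2160640203) (nat_lit 532) (nat_lit 1887580323) (nat_lit 271) (nat_lit 1) (nat_lit 270) (nat_lit 1) (nat_lit 277) (nat_lit 1) (nat_lit 318) (nat_lit 371) (nat_lit 331)) (XT.lf (nat_lit 456) (nat_lit 2683972151) (nat_lit 0) (nat_lit 1590116720) (nat_lit 380) (nat_lit 1590116720) (nat_lit 271) (nat_lit 1) (nat_lit 265) (nat_lit 1) (nat_lit 270) (nat_lit 1) (nat_lit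 319) (nat_lit 371) (nat_lit 330))) (XT.nd (nat_lit 78) (nat_lit 836) (nat_lit 0) (XT.lf (nat_lit 76) (nat_lit 798995932) (nat_lit 0) (nat_lit 4195929771) (nat_lit 456) (nat_lit 798995932) (nat_lit 266) (nat_lit 1) (nat_lit 265) (nat_lit 1) (nat_lit 271) (nat_lit 1) (nat_lit 320) (nat_lit 371) (nat_lit 329)) (XT.nd (nat_lit 78) (nat_lit 456) (nat_lit 0) (XT.lf (nat_lit 456) (nat_lit 502505504) (nat_lit 0) (nat_lit 2610990563) (nat_lit 380) (nat_lit 2610990563) (nat_lit 266) (nat_lit 1) (nat_lit 260) (nat_lit 1) (nat_lit 265) (nat_lit 1) (nat_lit 321) (nat_lit 371) (nat_lit 328)) (XT.lf (nat_lit 456) (nat_lit 5096101684) (nat_lit 0) (nat_lit 280249644) (nat_lit 380) (nat_lit 280249644) (nat_lit 260) (nat_lit 1) (nat_lit 254) (nat_lit 1) (nat_lit 259) (nat_lit 1) (nat_lit 322) (nat_lit 371) (nat_lit 327)))))) (XT.nd (nat_lit 390) (nat_lit 988) (nat_lit 0) (XT.nd (nat_lit 156) (nat_lit 760) (nat_lit 0)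 (XT.nd (nat_lit 78) (nat_lit 380) (nat_lit 0) (XT.lf (nat_lit 76) (nat_lit 1978536368) (nat_lit 0) (nat_lit 1632009536) (nat_lit 456) (nat_lit 1978536368) (nat_lit 255) (nat_lit 1) (nat_lit 254) (nat_lit 1) (nat_lit 260) (nat_lit 1) (nat_lit 323) (nat_lit 371) (nat_lit 326)) (XT.lf (nat_lit 456) (nat_lit 2835219294) (nat_lit 0) (nat_lit 1343922409) (nat_lit 380) (nat_lit 1343922409) (nat_lit 255) (nat_lit 1) (nat_lit 249) (nat_lit 1) (nat_lit 254) (nat_lit 1) (nat_lit 324) (nat_lit 371) (nat_lit 325))) (XT.nd (nat_lit 78) (nat_lit 760) (nat_lit 0) (XT.lf (nat_lit 76) (nat_lit 858984858) (nat_lit 0) (nat_lit 3740181478) (nat_lit 456) (nat_lit 858984858) (nat_lit 250) (nat_lit 1) (nat_lit 249) (nat_lit 1) (nat_lit 255) (nat_lit 1) (nat_lit 325) (nat_lit 371) (nat_lit 324)) (XT.nd (nat_lit 78) (nat_lit 456) (nat_lit 0) (XT.lf (nat_lit 380) (nat_lit 596592943) (nat_lit 0) (nat_lit 2398733994) (nat_lit 304)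 (nat_lit 2398733994) (nat_lit 250) (nat_lit 1) (nat_lit 245) (nat_lit 1) (nat_lit 249) (nat_lit 1) (nat_lit 326) (nat_lit 371) (nat_lit 323)) (XT.lf (nat_lit 456) (nat_lit 4838230049) (nat_lit 0) (nat_lit 246573295) (nat_lit 380) (nat_lit 246573295) (nat_lit 245) (nat_lit 1) (nat_lit 239) (nat_lit 1) (nat_lit 244) (nat_lit 1) (nat_lit 327) (nat_lit 371) (nat_lit 322))))) (XT.nd (nat_lit 156) (nat_lit 684) (nat_lit 0) (XT.nd (nat_lit 78) (nat_lit 304) (nat_lit 0) (XT.lf (nat_lit 76) (nat_lit 1841302131) (nat_lit 0) (nat_lit 1586351567) (nat_lit 456) (nat_lit 1841302131) (nat_lit 240) (nat_lit 1) (nat_lit 239) (nat_lit 1) (nat_lit 245) (nat_lit 1) (nat_lit 328) (nat_lit 371) (nat_lit 321)) (XT.lf (nat_lit 380) (nat_lit 2545085013) (nat_lit 0) (nat_lit 1331407552) (nat_lit 304) (nat_lit 1331407552) (nat_lit 240) (nat_lit 1) (nat_lit 235) (nat_lit 1) (nat_lit 239) (nat_lit 1) (nat_lit 329) (nat_lit 371)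 (nat_lit 320))) (XT.nd (nat_lit 78) (nat_lit 684) (nat_lit 0) (XT.lf (nat_lit 76) (nat_lit 707749265) (nat_lit 0) (nat_lit 3732390248) (nat_lit 380) (nat_lit 707749265) (nat_lit 236) (nat_lit 1) (nat_lit 235) (nat_lit 1) (nat_lit 240) (nat_lit 1) (nat_lit 330) (nat_lit 371) (nat_lit 319)) (XT.nd (nat_lit 78) (nat_lit 380) (nat_lit 0) (XT.lf (nat_lit 380) (nat_lit 282220563) (nat_lit 0) (nat_lit 2403169495) (nat_lit 304) (nat_lit 2403169495) (nat_lit 236) (nat_lit 1) (nat_lit 231) (nat_lit 1) (nat_lit 235) (nat_lit 1) (nat_lit 331) (nat_lit 371) (nat_lit 318)) (XT.lf (nat_lit 380) (nat_lit 4217605079) (nat_lit 0) (nat_lit 406398041) (nat_lit 304) (nat_lit 406398041) (nat_lit 231) (nat_lit 1) (nat_lit 226) (nat_lit 1) (nat_lit 230) (nat_lit 1) (nat_lit 332) (nat_lit 371) (nat_lit 317))))))))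
noncomputable def ec164 : XT := (XT.nd (nat_lit 1404) (nat_lit 2356) (nat_lit 0) (XT.nd (nat_lit 702) (nat_lit 1520) (nat_lit 0) (XT.nd (nat_lit 312) (nat_lit 912) (nat_lit 0) (XT.nd (nat_lit 156) (nat_lit 304) (nat_lit 0) (XT.nd (nat_lit 78) (nat_lit 304) (nat_lit 0) (XT.lf (nat_lit 76) (nat_lit 1530763458) (nat_lit 0) (nat_lit 1911114505) (nat_lit 380) (nat_lit 1530763458) (nat_lit 227) (nat_lit 1) (nat_lit 226) (nat_lit 1) (nat_lit 231) (nat_lit 1) (nat_lit 333) (nat_lit 371) (nat_lit 316)) (XT.lf (nat_lit 380) (nat_lit 1920384519) (nat_lit 0) (nat_lit 1497816882) (nat_lit 304) (nat_lit 1497816882) (nat_lit 227) (nat_lit 1) (nat_lit 222) (nat_lit 1) (nat_lit 226) (nat_lit 1) (nat_lit 334) (nat_lit 371) (nat_lit 315))) (XT.nd (nat_lit 78) (nat_lit 304) (nat_lit 0) (XT.lf (nat_lit 76) (nat_lit 396732785) (nat_lit 0) (nat_lit 4067024996) (nat_lit 380) (nat_lit 396732785) (nat_lit 223) (nat_lit 1) (nat_lit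 222) (nat_lit 1) (nat_lit 227) (nat_lit 1) (nat_lit 335) (nat_lit 371) (nat_lit 314)) (XT.lf (nat_lit 76) (nat_lit 2235730888) (nat_lit 0) (nat_lit 333858845) (nat_lit 304) (nat_lit 2235730888) (nat_lit 219) (nat_lit 1) (nat_lit 218) (nat_lit 1) (nat_lit 222) (nat_lit 1) (nat_lit 336) (nat_lit 371) (nat_lit 313)))) (XT.nd (nat_lit 156) (nat_lit 608) (nat_lit 0) (XT.nd (nat_lit 78) (nat_lit 0) (nat_lit 0) (XT.lf (nat_lit 380) (nat_lit 3327241824) (nat_lit 0) (nat_lit 711986931) (nat_lit 304) (nat_lit 711986931) (nat_lit 219) (nat_lit 1) (nat_lit 214) (nat_lit 1) (nat_lit 218) (nat_lit 1) (nat_lit 337) (nat_lit 371) (nat_lit 312)) (XT.lf (nat_lit 76) (nat_lit 1091702839) (nat_lit 0) (nat_lit 2514321440) (nat_lit 380) (nat_lit 1091702839) (nat_lit 215) (nat_lit 1) (nat_lit 214) (nat_lit 1) (nat_lit 219) (nat_lit 1) (nat_lit 338) (nat_lit 371) (nat_lit 311))) (XT.nd (nat_lit 78) (nat_lit 380) (nat_lit 0)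 (XT.lf (nat_lit 304) (nat_lit 1048234937) (nat_lit 0) (nat_lit 1798421782) (nat_lit 228) (nat_lit 1798421782) (nat_lit 215) (nat_lit 1) (nat_lit 211) (nat_lit 1) (nat_lit 214) (nat_lit 1) (nat_lit 339) (nat_lit 371) (nat_lit 310)) (XT.nd (nat_lit 78) (nat_lit 0) (nat_lit 0) (XT.lf (nat_lit 380) (nat_lit 4530002579) (nat_lit 0) (nat_lit 31810614) (nat_lit 304) (nat_lit 31810614) (nat_lit 211) (nat_lit 1) (nat_lit 206) (nat_lit 1) (nat_lit 210) (nat_lit 1) (nat_lit 340) (nat_lit 371) (nat_lit 309)) (XT.lf (nat_lit 76) (nat_lit 1687644316) (nat_lit 0) (nat_lit 1166779323) (nat_lit 380) (nat_lit 1687644316) (nat_lit 207) (nat_lit 1) (nat_lit 206) (nat_lit 1) (nat_lit 211) (nat_lit 1) (nat_lit 341) (nat_lit 371) (nat_lit 308)))))) (XT.nd (nat_lit 312) (nat_lit 760) (nat_lit 0) (XT.nd (nat_lit 156) (nat_lit 532) (nat_lit 0) (XT.nd (nat_lit 78) (nat_lit 0) (nat_lit 0) (XT.lf (nat_lit 304) (nat_lit 2242768117)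 (nat_lit 0) (nat_lit 1124456218) (nat_lit 228) (nat_lit 1124456218) (nat_lit 207) (nat_lit 1) (nat_lit 203) (nat_lit 1) (nat_lit 206) (nat_lit 1) (nat_lit 342) (nat_lit 371) (nat_lit 307)) (XT.lf (nat_lit 76) (nat_lit 560514006) (nat_lit 0) (nat_lit 3321085971) (nat_lit 304) (nat_lit 560514006) (nat_lit 204) (nat_lit 1) (nat_lit 203) (nat_lit 1) (nat_lit 207) (nat_lit 1) (nat_lit 343) (nat_lit 371) (nat_lit 306))) (XT.nd (nat_lit 78) (nat_lit 228) (nat_lit 0) (XT.lf (nat_lit 76) (nat_lit 2196227285) (nat_lit 0) (nat_lit 588014) (nat_lit 304) (nat_lit 2196227285) (nat_lit 200) (nat_lit 1) (nat_lit 199) (nat_lit 1) (nat_lit 203) (nat_lit 1) (nat_lit 344) (nat_lit 371) (nat_lit 305)) (XT.lf (nat_lit 304) (nat_lit 3265898533) (nat_lit 0) (nat_lit 539435425) (nat_lit 228) (nat_lit 539435425) (nat_lit 200) (nat_lit 1) (nat_lit 196) (nat_lit 1) (nat_lit 199) (nat_lit 1) (nat_lit 345) (nat_lit 371) (nat_lit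 304)))) (XT.nd (nat_lit 156) (nat_lit 532) (nat_lit 0) (XT.nd (nat_lit 78) (nat_lit 228) (nat_lit 0) (XT.lf (nat_lit 76) (nat_lit 1069909589) (nat_lit 0) (nat_lit 2157141205) (nat_lit 304) (nat_lit 1069909589) (nat_lit 197) (nat_lit 1) (nat_lit 196) (nat_lit 1) (nat_lit 200) (nat_lit 1) (nat_lit 346) (nat_lit 371) (nat_lit 303)) (XT.lf (nat_lit 304) (nat_lit 1025389810) (nat_lit 0) (nat_lit 1612269048) (nat_lit 228) (nat_lit 1612269048) (nat_lit 197) (nat_lit 1) (nat_lit 193) (nat_lit 1) (nat_lit 196) (nat_lit 1) (nat_lit 347) (nat_lit 371) (nat_lit 302))) (XT.nd (nat_lit 78) (nat_lit 228) (nat_lit 0) (XT.lf (nat_lit 304) (nat_lit 4137852342) (nat_lit 0) (nat_lit 33039290) (nat_lit 228) (nat_lit 33039290) (nat_lit 193) (nat_lit 1) (nat_lit 189) (nat_lit 1) (nat_lit 192) (nat_lit 1) (nat_lit 348) (nat_lit 371) (nat_lit 301)) (XT.nd (nat_lit 78) (nat_lit 228) (nat_lit 0) (XT.lf (nat_lit 76) (nat_lit 1505843682)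 (nat_lit 0) (nat_lit 1146105940) (nat_lit 304) (nat_lit 1505843682) (nat_lit 190) (nat_lit 1) (nat_lit 189) (nat_lit 1) (nat_lit 193) (nat_lit 1) (nat_lit 349) (nat_lit 371) (nat_lit 300)) (XT.lf (nat_lit 304) (nat_lit 1907086975) (nat_lit 0) (nat_lit 1102792625) (nat_lit 228) (nat_lit 1102792625) (nat_lit 190) (nat_lit 1) (nat_lit 186) (nat_lit 1) (nat_lit 189) (nat_lit 1) (nat_lit 350) (nat_lit 371) (nat_lit 299))))))) (XT.nd (nat_lit 702) (nat_lit 1292) (nat_lit 0) (XT.nd (nat_lit 312) (nat_lit 608) (nat_lit 0) (XT.nd (nat_lit 156) (nat_lit 228) (nat_lit 0) (XT.nd (nat_lit 78) (nat_lit 228) (nat_lit 0) (XT.lf (nat_lit 76) (nat_lit 407888681) (nat_lit 0) (nat_lit 3252538029) (nat_lit 304) (nat_lit 407888681) (nat_lit 187) (nat_lit 1) (nat_lit 186) (nat_lit 1) (nat_lit 190) (nat_lit 1) (nat_lit 351) (nat_lit 371) (nat_lit 298)) (XT.lf (nat_lit 76) (nat_lit 1876993354) (nat_lit 0) (nat_lit 270255543)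 (nat_lit 228) (nat_lit 1876993354) (nat_lit 184) (nat_lit 1) (nat_lit 183) (nat_lit 1) (nat_lit 186) (nat_lit 1) (nat_lit 352) (nat_lit 371) (nat_lit 297))) (XT.nd (nat_lit 78) (nat_lit 0) (nat_lit 0) (XT.lf (nat_lit 304) (nat_lit 2661452571) (nat_lit 0) (nat_lit 659731972) (nat_lit 228) (nat_lit 659731972) (nat_lit 184) (nat_lit 1) (nat_lit 180) (nat_lit 1) (nat_lit 183) (nat_lit 1) (nat_lit 353) (nat_lit 371) (nat_lit 296)) (XT.lf (nat_lit 76) (nat_lit 787194400) (nat_lit 0) (nat_lit 2363696389) (nat_lit 304) (nat_lit 787194400) (nat_lit 181) (nat_lit 1) (nat_lit 180) (nat_lit 1) (nat_lit 184) (nat_lit 1) (nat_lit 354) (nat_lit 371) (nat_lit 295)))) (XT.nd (nat_lit 156) (nat_lit 152) (nat_lit 0) (XT.nd (nat_lit 78) (nat_lit 304) (nat_lit 0) (XT.lf (nat_lit 228) (nat_lit 495813587) (nat_lit 0) (nat_lit 1700006417) (nat_lit 152) (nat_lit 1700006417) (nat_lit 181) (nat_lit 1) (nat_lit 178) (nat_lit 1)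 (nat_lit 180) (nat_lit 1) (nat_lit 355) (nat_lit 371) (nat_lit 294)) (XT.lf (nat_lit 304) (nat_lit 3303530696) (nat_lit 0) (nat_lit 275401184) (nat_lit 228) (nat_lit 275401184) (nat_lit 178) (nat_lit 1) (nat_lit 174) (nat_lit 1) (nat_lit 177) (nat_lit 1) (nat_lit 356) (nat_lit 371) (nat_lit 293))) (XT.nd (nat_lit 78) (nat_lit 152) (nat_lit 0) (XT.lf (nat_lit 76) (nat_lit 1111830077) (nat_lit 0) (nat_lit 1589296615) (nat_lit 304) (nat_lit 1111830077) (nat_lit 175) (nat_lit 1) (nat_lit 174) (nat_lit 1) (nat_lit 178) (nat_lit 1) (nat_lit 357) (nat_lit 371) (nat_lit 292)) (XT.nd (nat_lit 78) (nat_lit 0) (nat_lit 0) (XT.lf (nat_lit 228) (nat_lit 1159660812) (nat_lit 0) (nat_lit 1306335485) (nat_lit 152) (nat_lit 1306335485) (nat_lit 175) (nat_lit 1) (nat_lit 172) (nat_lit 1) (nat_lit 174) (nat_lit 1) (nat_lit 358) (nat_lit 371) (nat_lit 291)) (XT.lf (nat_lit 76) (nat_lit 57584976) (nat_lit 0) (nat_lit 3617385674)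 (nat_lit 228) (nat_lit 57584976) (nat_lit 173) (nat_lit 1) (nat_lit 172) (nat_lit 1) (nat_lit 175) (nat_lit 1) (nat_lit 359) (nat_lit 371) (nat_lit 290)))))) (XT.nd (nat_lit 390) (nat_lit 532) (nat_lit 0) (XT.nd (nat_lit 156) (nat_lit 380) (nat_lit 0) (XT.nd (nat_lit 78) (nat_lit 152) (nat_lit 0) (XT.lf (nat_lit 76) (nat_lit 1388252495) (nat_lit 0) (nat_lit 916130612) (nat_lit 228) (nat_lit 1388252495) (nat_lit 170) (nat_lit 1) (nat_lit 169) (nat_lit 1) (nat_lit 172) (nat_lit 1) (nat_lit 360) (nat_lit 371) (nat_lit 289)) (XT.lf (nat_lit 228) (nat_lit 1728534740) (nat_lit 0) (nat_lit 962508568) (nat_lit 152) (nat_lit 962508568) (nat_lit 170) (nat_lit 1) (nat_lit 167) (nat_lit 1) (nat_lit 169) (nat_lit 1) (nat_lit 361) (nat_lit 371) (nat_lit 288))) (XT.nd (nat_lit 78) (nat_lit 380) (nat_lit 0) (XT.lf (nat_lit 76) (nat_lit 346986845) (nat_lit 0) (nat_lit 2921134351) (nat_lit 228) (nat_lit 346986845) (nat_lit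 168) (nat_lit 1) (nat_lit 167) (nat_lit 1) (nat_lit 170) (nat_lit 1) (nat_lit 362) (nat_lit 371) (nat_lit 287)) (XT.nd (nat_lit 78) (nat_lit 152) (nat_lit 0) (XT.lf (nat_lit 76) (nat_lit 1622187926) (nat_lit 0) (nat_lit 332476157) (nat_lit 228) (nat_lit 1622187926) (nat_lit 165) (nat_lit 1) (nat_lit 164) (nat_lit 1) (nat_lit 167) (nat_lit 1) (nat_lit 363) (nat_lit 371) (nat_lit 286)) (XT.lf (nat_lit 228) (nat_lit 2213636192) (nat_lit 0) (nat_lit 662794270) (nat_lit 152) (nat_lit 662794270) (nat_lit 165) (nat_lit 1) (nat_lit 162) (nat_lit 1) (nat_lit 164) (nat_lit 1) (nat_lit 364) (nat_lit 371) (nat_lit 285))))) (XT.nd (nat_lit 156) (nat_lit 380) (nat_lit 0) (XT.nd (nat_lit 78) (nat_lit 152) (nat_lit 0) (XT.lf (nat_lit 76) (nat_lit 595500443) (nat_lit 0) (nat_lit 2311054146) (nat_lit 228) (nat_lit 595500443) (nat_lit 163) (nat_lit 1) (nat_lit 162) (nat_lit 1) (nat_lit 165) (nat_lit 1) (nat_lit 365) (nat_lit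 371) (nat_lit 284)) (XT.lf (nat_lit 228) (nat_lit 175493681) (nat_lit 0) (nat_lit 1644907169) (nat_lit 152) (nat_lit 1644907169) (nat_lit 163) (nat_lit 1) (nat_lit 160) (nat_lit 1) (nat_lit 162) (nat_lit 1) (nat_lit 366) (nat_lit 371) (nat_lit 283))) (XT.nd (nat_lit 78) (nat_lit 152) (nat_lit 0) (XT.lf (nat_lit 228) (nat_lit 2624899187) (nat_lit 0) (nat_lit 402105361) (nat_lit 152) (nat_lit 402105361) (nat_lit 160) (nat_lit 1) (nat_lit 157) (nat_lit 1) (nat_lit 159) (nat_lit 1) (nat_lit 367) (nat_lit 371) (nat_lit 282)) (XT.nd (nat_lit 78) (nat_lit 152) (nat_lit 0) (XT.lf (nat_lit 76) (nat_lit 807936300) (nat_lit 0) (nat_lit 1777287413) (nat_lit 228) (nat_lit 807936300) (nat_lit 158) (nat_lit 1) (nat_lit 157) (nat_lit 1) (nat_lit 160) (nat_lit 1) (nat_lit 368) (nat_lit 371) (nat_lit 281)) (XT.lf (nat_lit 228) (nat_lit 618810752) (nat_lit 0) (nat_lit 1369469472) (nat_lit 152) (nat_lit 1369469472) (nat_lit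 158) (nat_lit 1) (nat_lit 155) (nat_lit 1) (nat_lit 157) (nat_lit 1) (nat_lit 369) (nat_lit 371) (nat_lit 280))))))))
noncomputable def ec165 : XT := (XT.nd (nat_lit 1482) (nat_lit 1672) (nat_lit 0) (XT.nd (nat_lit 702) (nat_lit 912) (nat_lit 0) (XT.nd (nat_lit 312) (nat_lit 608) (nat_lit 0) (XT.nd (nat_lit 156) (nat_lit 152) (nat_lit 0) (XT.nd (nat_lit 78) (nat_lit 0) (nat_lit 0) (XT.lf (nat_lit 228) (nat_lit 2971132717) (nat_lit 0) (nat_lit 175926800) (nat_lit 152) (nat_lit 175926800) (nat_lit 155) (nat_lit 1) (nat_lit 152) (nat_lit 1) (nat_lit 154) (nat_lit 1) (nat_lit 370) (nat_lit 371) (nat_lit 279)) (XT.lf (nat_lit 76) (nat_lit 988561200) (nat_lit 0) (nat_lit 1311082999) (nat_lit 228) (nat_lit 988561200) (nat_lit 153) (nat_lit 1) (nat_lit 152) (nat_lit 1) (nat_lit 155) (nat_lit 1) (nat_lit 371) (nat_lit 371) (nat_lit 278))) (XT.nd (nat_lit 78) (nat_lit 0) (nat_lit 0) (XT.lf (nat_lit 228) (nat_lit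 999210085) (nat_lit 0) (nat_lit 1127426526) (nat_lit 152) (nat_lit 1127426526) (nat_lit 153) (nat_lit 1) (nat_lit 150) (nat_lit 1) (nat_lit 152) (nat_lit 1) (nat_lit 372) (nat_lit 371) (nat_lit 277)) (XT.lf (nat_lit 76) (nat_lit 19943741) (nat_lit 0) (nat_lit 3180739675) (nat_lit 228) (nat_lit 19943741) (nat_lit 151) (nat_lit 1) (nat_lit 150) (nat_lit 1) (nat_lit 153) (nat_lit 1) (nat_lit 373) (nat_lit 371) (nat_lit 276)))) (XT.nd (nat_lit 156) (nat_lit 304) (nat_lit 0) (XT.nd (nat_lit 78) (nat_lit 152) (nat_lit 0) (XT.lf (nat_lit 76) (nat_lit 1141159027) (nat_lit 0) (nat_lit 904672645) (nat_lit 152) (nat_lit 1141159027) (nat_lit 149) (nat_lit 1) (nat_lit 148) (nat_lit 1) (nat_lit 150) (nat_lit 1) (nat_lit 374) (nat_lit 371) (nat_lit 275)) (XT.lf (nat_lit 228) (nat_lit 1324100507) (nat_lit 0) (nat_lit 914976329) (nat_lit 152) (nat_lit 914976329) (nat_lit 149) (nat_lit 1) (nat_lit 146) (nat_lit 1) (nat_lit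 148) (nat_lit 1) (nat_lit 375) (nat_lit 371) (nat_lit 274))) (XT.nd (nat_lit 78) (nat_lit 304) (nat_lit 0) (XT.lf (nat_lit 76) (nat_lit 190341150) (nat_lit 0) (nat_lit 2741010835) (nat_lit 228) (nat_lit 190341150) (nat_lit 147) (nat_lit 1) (nat_lit 146) (nat_lit 1) (nat_lit 149) (nat_lit 1) (nat_lit 376) (nat_lit 371) (nat_lit 273)) (XT.nd (nat_lit 78) (nat_lit 152) (nat_lit 0) (XT.lf (nat_lit 76) (nat_lit 1269084827) (nat_lit 0) (nat_lit 551161171) (nat_lit 152) (nat_lit 1269084827) (nat_lit 145) (nat_lit 1) (nat_lit 144) (nat_lit 1) (nat_lit 146) (nat_lit 1) (nat_lit 377) (nat_lit 371) (nat_lit 272)) (XT.lf (nat_lit 228) (nat_lit 1600053226) (nat_lit 0) (nat_lit 728743126) (nat_lit 152) (nat_lit 728743126) (nat_lit 145) (nat_lit 1) (nat_lit 142) (nat_lit 1) (nat_lit 144) (nat_lit 1) (nat_lit 378) (nat_lit 371) (nat_lit 271)))))) (XT.nd (nat_lit 390) (nat_lit 532) (nat_lit 0) (XT.nd (nat_lit 156) (nat_lit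 228) (nat_lit 0) (XT.nd (nat_lit 78) (nat_lit 152) (nat_lit 0) (XT.lf (nat_lit 76) (nat_lit 336709233) (nat_lit 0) (nat_lit 2352794208) (nat_lit 228) (nat_lit 336709233) (nat_lit 143) (nat_lit 1) (nat_lit 142) (nat_lit 1) (nat_lit 145) (nat_lit 1) (nat_lit 379) (nat_lit 371) (nat_lit 270)) (XT.lf (nat_lit 76) (nat_lit 1375312821) (nat_lit 0) (nat_lit 244428925) (nat_lit 152) (nat_lit 1375312821) (nat_lit 141) (nat_lit 1) (nat_lit 140) (nat_lit 1) (nat_lit 142) (nat_lit 1) (nat_lit 380) (nat_lit 371) (nat_lit 269))) (XT.nd (nat_lit 78) (nat_lit 76) (nat_lit 0) (XT.lf (nat_lit 228) (nat_lit 1832895573) (nat_lit 0) (nat_lit 565729808) (nat_lit 152) (nat_lit 565729808) (nat_lit 141) (nat_lit 1) (nat_lit 138) (nat_lit 1) (nat_lit 140) (nat_lit 1) (nat_lit 381) (nat_lit 371) (nat_lit 268)) (XT.nd (nat_lit 78) (nat_lit 76) (nat_lit 0) (XT.lf (nat_lit 76) (nat_lit 461874012) (nat_lit 0) (nat_lit 2010273377)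 (nat_lit 228) (nat_lit 461874012) (nat_lit 139) (nat_lit 1) (nat_lit 138) (nat_lit 1) (nat_lit 141) (nat_lit 1) (nat_lit 382) (nat_lit 371) (nat_lit 267)) (XT.lf (nat_lit 152) (nat_lit 21371941) (nat_lit 0) (nat_lit 1441312573) (nat_lit 76) (nat_lit 1441312573) (nat_lit 139) (nat_lit 1) (nat_lit 137) (nat_lit 1) (nat_lit 138) (nat_lit 1) (nat_lit 383) (nat_lit 371) (nat_lit 266))))) (XT.nd (nat_lit 156) (nat_lit 304) (nat_lit 0) (XT.nd (nat_lit 78) (nat_lit 0) (nat_lit 0) (XT.lf (nat_lit 228) (nat_lit 2027794273) (nat_lit 0) (nat_lit 423275626) (nat_lit 152) (nat_lit 423275626) (nat_lit 137) (nat_lit 1) (nat_lit 134) (nat_lit 1) (nat_lit 136) (nat_lit 1) (nat_lit 384) (nat_lit 371) (nat_lit 265)) (XT.lf (nat_lit 76) (nat_lit 568342107) (nat_lit 0) (nat_lit 1708282632) (nat_lit 228) (nat_lit 568342107) (nat_lit 135) (nat_lit 1) (nat_lit 134) (nat_lit 1) (nat_lit 137) (nat_lit 1) (nat_lit 385) (nat_lit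 371) (nat_lit 264))) (XT.nd (nat_lit 78) (nat_lit 228) (nat_lit 0) (XT.lf (nat_lit 152) (nat_lit 254780948) (nat_lit 0) (nat_lit 1280587553) (nat_lit 76) (nat_lit 1280587553) (nat_lit 135) (nat_lit 1) (nat_lit 133) (nat_lit 1) (nat_lit 134) (nat_lit 1) (nat_lit 386) (nat_lit 371) (nat_lit 263)) (XT.nd (nat_lit 78) (nat_lit 0) (nat_lit 0) (XT.lf (nat_lit 228) (nat_lit 2189329430) (nat_lit 0) (nat_lit 299018619) (nat_lit 152) (nat_lit 299018619) (nat_lit 133) (nat_lit 1) (nat_lit 130) (nat_lit 1) (nat_lit 132) (nat_lit 1) (nat_lit 387) (nat_lit 371) (nat_lit 262)) (XT.lf (nat_lit 76) (nat_lit 658336473) (nat_lit 0) (nat_lit 1442234346) (nat_lit 228) (nat_lit 658336473) (nat_lit 131) (nat_lit 1) (nat_lit 130) (nat_lit 1) (nat_lit 133) (nat_lit 1) (nat_lit 388) (nat_lit 371) (nat_lit 261))))))) (XT.nd (nat_lit 702) (nat_lit 760) (nat_lit 0) (XT.nd (nat_lit 312) (nat_lit 532) (nat_lit 0) (XT.nd (nat_lit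 156) (nat_lit 76) (nat_lit 0) (XT.nd (nat_lit 78) (nat_lit 228) (nat_lit 0) (XT.lf (nat_lit 152) (nat_lit 455294092) (nat_lit 0) (nat_lit 1137785455) (nat_lit 76) (nat_lit 1137785455) (nat_lit 131) (nat_lit 1) (nat_lit 129) (nat_lit 1) (nat_lit 130) (nat_lit 1) (nat_lit 389) (nat_lit 371) (nat_lit 260)) (XT.lf (nat_lit 228) (nat_lit 2321560242) (nat_lit 0) (nat_lit 190862235) (nat_lit 152) (nat_lit 190862235) (nat_lit 129) (nat_lit 1) (nat_lit 126) (nat_lit 1) (nat_lit 128) (nat_lit 1) (nat_lit 390) (nat_lit 371) (nat_lit 259))) (XT.nd (nat_lit 78) (nat_lit 76) (nat_lit 0) (XT.lf (nat_lit 76) (nat_lit 733828161) (nat_lit 0) (nat_lit 1208054452) (nat_lit 228) (nat_lit 733828161) (nat_lit 127) (nat_lit 1) (nat_lit 126) (nat_lit 1) (nat_lit 129) (nat_lit 1) (nat_lit 391) (nat_lit 371) (nat_lit 258)) (XT.lf (nat_lit 152) (nat_lit 626779719) (nat_lit 0) (nat_lit 1010907640) (nat_lit 76) (nat_lit 1010907640)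 (nat_lit 127) (nat_lit 1) (nat_lit 125) (nat_lit 1) (nat_lit 126) (nat_lit 1) (nat_lit 392) (nat_lit 371) (nat_lit 257)))) (XT.nd (nat_lit 156) (nat_lit 304) (nat_lit 0) (XT.nd (nat_lit 78) (nat_lit 0) (nat_lit 0) (XT.lf (nat_lit 228) (nat_lit 2428083391) (nat_lit 0) (nat_lit 96945678) (nat_lit 152) (nat_lit 96945678) (nat_lit 125) (nat_lit 1) (nat_lit 122) (nat_lit 1) (nat_lit 124) (nat_lit 1) (nat_lit 393) (nat_lit 371) (nat_lit 256)) (XT.lf (nat_lit 76) (nat_lit 796564516) (nat_lit 0) (nat_lit 1002125118) (nat_lit 228) (nat_lit 796564516) (nat_lit 123) (nat_lit 1) (nat_lit 122) (nat_lit 1) (nat_lit 125) (nat_lit 1) (nat_lit 394) (nat_lit 371) (nat_lit 255))) (XT.nd (nat_lit 78) (nat_lit 228) (nat_lit 0) (XT.lf (nat_lit 152) (nat_lit 772668977) (nat_lit 0) (nat_lit 898178344) (nat_lit 76) (nat_lit 898178344) (nat_lit 123) (nat_lit 1) (nat_lit 121) (nat_lit 1) (nat_lit 122) (nat_lit 1) (nat_lit 395)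 (nat_lit 371) (nat_lit 254)) (XT.nd (nat_lit 78) (nat_lit 0) (nat_lit 0) (XT.lf (nat_lit 228) (nat_lit 2512084901) (nat_lit 0) (nat_lit 15617555) (nat_lit 152) (nat_lit 15617555) (nat_lit 121) (nat_lit 1) (nat_lit 118) (nat_lit 1) (nat_lit 120) (nat_lit 1) (nat_lit 396) (nat_lit 371) (nat_lit 253)) (XT.lf (nat_lit 76) (nat_lit 848094246) (nat_lit 0) (nat_lit 821233813) (nat_lit 228) (nat_lit 848094246) (nat_lit 119) (nat_lit 1) (nat_lit 118) (nat_lit 1) (nat_lit 121) (nat_lit 1) (nat_lit 397) (nat_lit 371) (nat_lit 252)))))) (XT.nd (nat_lit 390) (nat_lit 456) (nat_lit 0) (XT.nd (nat_lit 156) (nat_lit 228) (nat_lit 0) (XT.nd (nat_lit 78) (nat_lit 0) (nat_lit 0) (XT.lf (nat_lit 152) (nat_lit 896004743) (nat_lit 0) (nat_lit 798019826) (nat_lit 76) (nat_lit 798019826) (nat_lit 119) (nat_lit 1) (nat_lit 117) (nat_lit 1) (nat_lit 118) (nat_lit 1) (nat_lit 398) (nat_lit 371) (nat_lit 251)) (XT.lf (nat_lit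 0) (nat_lit 55127992) (nat_lit 0) (nat_lit 2356891276) (nat_lit 152) (nat_lit 55127992) (nat_lit 117) (nat_lit 3) (nat_lit 117) (nat_lit 1) (nat_lit 119) (nat_lit 1) (nat_lit 399) (nat_lit 371) (nat_lit 250))) (XT.nd (nat_lit 78) (nat_lit 76) (nat_lit 0) (XT.lf (nat_lit 76) (nat_lit 889789675) (nat_lit 0) (nat_lit 662528058) (nat_lit 152) (nat_lit 889789675) (nat_lit 116) (nat_lit 1) (nat_lit 115) (nat_lit 1) (nat_lit 117) (nat_lit 1) (nat_lit 400) (nat_lit 371) (nat_lit 249)) (XT.nd (nat_lit 78) (nat_lit 0) (nat_lit 0) (XT.lf (nat_lit 152) (nat_lit 999485080) (nat_lit 0) (nat_lit 709030279) (nat_lit 76) (nat_lit 709030279) (nat_lit 116) (nat_lit 1) (nat_lit 114) (nat_lit 1) (nat_lit 115) (nat_lit 1) (nat_lit 401) (nat_lit 371) (nat_lit 248)) (XT.lf (nat_lit 0) (nat_lit 116108055) (nat_lit 0) (nat_lit 2161194920) (nat_lit 152) (nat_lit 116108055) (nat_lit 114) (nat_lit 3) (nat_lit 114) (nat_lit 1) (nat_lit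 116) (nat_lit 1) (nat_lit 402) (nat_lit 371) (nat_lit 247))))) (XT.nd (nat_lit 156) (nat_lit 228) (nat_lit 0) (XT.nd (nat_lit 78) (nat_lit 76) (nat_lit 0) (XT.lf (nat_lit 76) (nat_lit 922866527) (nat_lit 0) (nat_lit 523475222) (nat_lit 152) (nat_lit 922866527) (nat_lit 113) (nat_lit 1) (nat_lit 112) (nat_lit 1) (nat_lit 114) (nat_lit 1) (nat_lit 403) (nat_lit 371) (nat_lit 246)) (XT.lf (nat_lit 152) (nat_lit 1085501850) (nat_lit 0) (nat_lit 629964219) (nat_lit 76) (nat_lit 629964219) (nat_lit 113) (nat_lit 1) (nat_lit 111) (nat_lit 1) (nat_lit 112) (nat_lit 1) (nat_lit 404) (nat_lit 371) (nat_lit 245))) (XT.nd (nat_lit 78) (nat_lit 228) (nat_lit 0) (XT.lf (nat_lit 0) (nat_lit 168332879) (nat_lit 0) (nat_lit 1985366071) (nat_lit 152) (nat_lit 168332879) (nat_lit 111) (nat_lit 3) (nat_lit 111) (nat_lit 1) (nat_lit 113) (nat_lit 1) (nat_lit 405) (nat_lit 371) (nat_lit 244)) (XT.nd (nat_lit 78) (nat_lit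 76) (nat_lit 0) (XT.lf (nat_lit 76) (nat_lit 948401485) (nat_lit 0) (nat_lit 401826802) (nat_lit 152) (nat_lit 948401485) (nat_lit 110) (nat_lit 1) (nat_lit 109) (nat_lit 1) (nat_lit 111) (nat_lit 1) (nat_lit 406) (nat_lit 371) (nat_lit 243)) (XT.lf (nat_lit 152) (nat_lit 1156175015) (nat_lit 0) (nat_lit 559715050) (nat_lit 76) (nat_lit 559715050) (nat_lit 110) (nat_lit 1) (nat_lit 108) (nat_lit 1) (nat_lit 109) (nat_lit 1) (nat_lit 407) (nat_lit 371) (nat_lit 242))))))))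
noncomputable def ec166 : XT := (XT.nd (nat_lit 1482) (nat_lit 532) (nat_lit 0) (XT.nd (nat_lit 702) (nat_lit 684) (nat_lit 0) (XT.nd (nat_lit 312) (nat_lit 456) (nat_lit 0) (XT.nd (nat_lit 156) (nat_lit 76) (nat_lit 0) (XT.nd (nat_lit 78) (nat_lit 152) (nat_lit 0) (XT.lf (nat_lit 0) (nat_lit 212835735) (nat_lit 0) (nat_lit 1827246192) (nat_lit 152) (nat_lit 212835735) (nat_lit 108) (nat_lit 3) (nat_lit 108) (nat_lit 1) (nat_lit 110) (nat_lit 1) (nat_lit 408) (nat_lit 371) (nat_lit 241)) (XT.lf (nat_lit 76) (nat_lit 967347803) (nat_lit 0) (nat_lit 295586694) (nat_lit 152) (nat_lit 967347803) (nat_lit 107) (nat_lit 1) (nat_lit 106) (nat_lit 1) (nat_lit 108) (nat_lit 1) (nat_lit 409) (nat_lit 371) (nat_lit 240))) (XT.nd (nat_lit 78) (nat_lit 0) (nat_lit 0) (XT.lf (nat_lit 152) (nat_lit 1213383110) (nat_lit 0) (nat_lit 497299572) (nat_lit 76) (nat_lit 497299572) (nat_lit 107) (nat_lit 1) (nat_lit 105)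 (nat_lit 1) (nat_lit 106) (nat_lit 1) (nat_lit 410) (nat_lit 371) (nat_lit 239)) (XT.lf (nat_lit 0) (nat_lit 250533010) (nat_lit 0) (nat_lit 1684915790) (nat_lit 152) (nat_lit 250533010) (nat_lit 105) (nat_lit 3) (nat_lit 105) (nat_lit 1) (nat_lit 107) (nat_lit 1) (nat_lit 411) (nat_lit 371) (nat_lit 238)))) (XT.nd (nat_lit 156) (nat_lit 228) (nat_lit 0) (XT.nd (nat_lit 78) (nat_lit 76) (nat_lit 0) (XT.lf (nat_lit 76) (nat_lit 980549167) (nat_lit 0) (nat_lit 202982992) (nat_lit 152) (nat_lit 980549167) (nat_lit 104) (nat_lit 1) (nat_lit 103) (nat_lit 1) (nat_lit 105) (nat_lit 1) (nat_lit 412) (nat_lit 371) (nat_lit 237)) (XT.lf (nat_lit 152) (nat_lit 1258790307) (nat_lit 0) (nat_lit 441844229) (nat_lit 76) (nat_lit 441844229) (nat_lit 104) (nat_lit 1) (nat_lit 102) (nat_lit 1) (nat_lit 103) (nat_lit 1) (nat_lit 413) (nat_lit 371) (nat_lit 236))) (XT.nd (nat_lit 78) (nat_lit 228) (nat_lit 0) (XT.lf (nat_lit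 0) (nat_lit 282237291) (nat_lit 0) (nat_lit 1556667813) (nat_lit 152) (nat_lit 282237291) (nat_lit 102) (nat_lit 3) (nat_lit 102) (nat_lit 1) (nat_lit 104) (nat_lit 1) (nat_lit 414) (nat_lit 371) (nat_lit 235)) (XT.nd (nat_lit 78) (nat_lit 76) (nat_lit 0) (XT.lf (nat_lit 76) (nat_lit 988752004) (nat_lit 0) (nat_lit 122442946) (nat_lit 152) (nat_lit 988752004) (nat_lit 101) (nat_lit 1) (nat_lit 100) (nat_lit 1) (nat_lit 102) (nat_lit 1) (nat_lit 415) (nat_lit 371) (nat_lit 234)) (XT.lf (nat_lit 152) (nat_lit 1293870466) (nat_lit 0) (nat_lit 392572874) (nat_lit 76) (nat_lit 392572874) (nat_lit 101) (nat_lit 1) (nat_lit 99) (nat_lit 1) (nat_lit 100) (nat_lit 1) (nat_lit 416) (nat_lit 371) (nat_lit 233)))))) (XT.nd (nat_lit 390) (nat_lit 380) (nat_lit 0) (XT.nd (nat_lit 156) (nat_lit 152) (nat_lit 0) (XT.nd (nat_lit 78) (nat_lit 152) (nat_lit 0) (XT.lf (nat_lit 0) (nat_lit 308668990) (nat_lit 0) (nat_lit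 1440984003) (nat_lit 152) (nat_lit 308668990) (nat_lit 99) (nat_lit 3) (nat_lit 99) (nat_lit 1) (nat_lit 101) (nat_lit 1) (nat_lit 417) (nat_lit 371) (nat_lit 232)) (XT.lf (nat_lit 76) (nat_lit 992616426) (nat_lit 0) (nat_lit 52570707) (nat_lit 152) (nat_lit 992616426) (nat_lit 98) (nat_lit 1) (nat_lit 97) (nat_lit 1) (nat_lit 99) (nat_lit 1) (nat_lit 418) (nat_lit 371) (nat_lit 231))) (XT.nd (nat_lit 78) (nat_lit 76) (nat_lit 0) (XT.lf (nat_lit 152) (nat_lit 1319928493) (nat_lit 0) (nat_lit 348795914) (nat_lit 76) (nat_lit 348795914) (nat_lit 98) (nat_lit 1) (nat_lit 96) (nat_lit 1) (nat_lit 97) (nat_lit 1) (nat_lit 419) (nat_lit 371) (nat_lit 230)) (XT.nd (nat_lit 78) (nat_lit 76) (nat_lit 0) (XT.lf (nat_lit 0) (nat_lit 330466665) (nat_lit 0) (nat_lit 1336513887) (nat_lit 152) (nat_lit 330466665) (nat_lit 96) (nat_lit 3) (nat_lit 96) (nat_lit 1) (nat_lit 98) (nat_lit 1) (nat_lit 420) (nat_lit 371)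 (nat_lit 229)) (XT.lf (nat_lit 76) (nat_lit 8029123) (nat_lit 0) (nat_lit 984774000) (nat_lit 76) (nat_lit 984774000) (nat_lit 96) (nat_lit 3) (nat_lit 95) (nat_lit 1) (nat_lit 96) (nat_lit 1) (nat_lit 421) (nat_lit 371) (nat_lit 228))))) (XT.nd (nat_lit 156) (nat_lit 228) (nat_lit 0) (XT.nd (nat_lit 78) (nat_lit 0) (nat_lit 0) (XT.lf (nat_lit 152) (nat_lit 1338119313) (nat_lit 0) (nat_lit 309900652) (nat_lit 76) (nat_lit 309900652) (nat_lit 95) (nat_lit 1) (nat_lit 93) (nat_lit 1) (nat_lit 94) (nat_lit 1) (nat_lit 422) (nat_lit 371) (nat_lit 227)) (XT.lf (nat_lit 0) (nat_lit 348196191) (nat_lit 0) (nat_lit 1242056118) (nat_lit 152) (nat_lit 348196191) (nat_lit 93) (nat_lit 3) (nat_lit 93) (nat_lit 1) (nat_lit 95) (nat_lit 1) (nat_lit 423) (nat_lit 371) (nat_lit 226))) (XT.nd (nat_lit 78) (nat_lit 152) (nat_lit 0) (XT.lf (nat_lit 76) (nat_lit 61179505) (nat_lit 0) (nat_lit 929004677) (nat_lit 76) (nat_lit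 929004677) (nat_lit 93) (nat_lit 3) (nat_lit 92) (nat_lit 1) (nat_lit 93) (nat_lit 1) (nat_lit 424) (nat_lit 371) (nat_lit 225)) (XT.nd (nat_lit 78) (nat_lit 0) (nat_lit 0) (XT.lf (nat_lit 152) (nat_lit 1349464731) (nat_lit 0) (nat_lit 275342715) (nat_lit 76) (nat_lit 275342715) (nat_lit 92) (nat_lit 1) (nat_lit 90) (nat_lit 1) (nat_lit 91) (nat_lit 1) (nat_lit 425) (nat_lit 371) (nat_lit 224)) (XT.lf (nat_lit 0) (nat_lit 362358912) (nat_lit 0) (nat_lit 1156541880) (nat_lit 152) (nat_lit 362358912) (nat_lit 90) (nat_lit 3) (nat_lit 90) (nat_lit 1) (nat_lit 92) (nat_lit 1) (nat_lit 426) (nat_lit 371) (nat_lit 223))))))) (XT.nd (nat_lit 41496) (nat_lit 0) (nat_lit 22192) (XT.nd (nat_lit 312) (nat_lit 228) (nat_lit 0) (XT.nd (nat_lit 156) (nat_lit 76) (nat_lit 0) (XT.nd (nat_lit 78) (nat_lit 152) (nat_lit 0) (XT.lf (nat_lit 76) (nat_lit 106828784) (nat_lit 0) (nat_lit 877880209) (nat_lit 76) (nat_lit 877880209)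 (nat_lit 90) (nat_lit 3) (nat_lit 89) (nat_lit 1) (nat_lit 90) (nat_lit 1) (nat_lit 427) (nat_lit 371) (nat_lit 222)) (XT.lf (nat_lit 152) (nat_lit 1354868393) (nat_lit 0) (nat_lit 244638436) (nat_lit 76) (nat_lit 244638436) (nat_lit 89) (nat_lit 1) (nat_lit 87) (nat_lit 1) (nat_lit 88) (nat_lit 1) (nat_lit 428) (nat_lit 371) (nat_lit 221))) (XT.nd (nat_lit 78) (nat_lit 76) (nat_lit 0) (XT.lf (nat_lit 0) (nat_lit 373398876) (nat_lit 0) (nat_lit 1079020156) (nat_lit 152) (nat_lit 373398876) (nat_lit 87) (nat_lit 3) (nat_lit 87) (nat_lit 1) (nat_lit 89) (nat_lit 1) (nat_lit 429) (nat_lit 371) (nat_lit 220)) (XT.lf (nat_lit 76) (nat_lit 145859278) (nat_lit 0) (nat_lit 830928482) (nat_lit 76) (nat_lit 830928482) (nat_lit 87) (nat_lit 3) (nat_lit 86) (nat_lit 1) (nat_lit 87) (nat_lit 1) (nat_lit 430) (nat_lit 371) (nat_lit 219)))) (XT.nd (nat_lit 156) (nat_lit 76) (nat_lit 0) (XT.nd (nat_lit 78) (nat_lit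 0) (nat_lit 0) (XT.lf (nat_lit 152) (nat_lit 1355129095) (nat_lit 0) (nat_lit 217358082) (nat_lit 76) (nat_lit 217358082) (nat_lit 86) (nat_lit 1) (nat_lit 84) (nat_lit 1) (nat_lit 85) (nat_lit 1) (nat_lit 431) (nat_lit 371) (nat_lit 218)) (XT.lf (nat_lit 0) (nat_lit 381709265) (nat_lit 0) (nat_lit 1008644633) (nat_lit 152) (nat_lit 381709265) (nat_lit 84) (nat_lit 3) (nat_lit 84) (nat_lit 1) (nat_lit 86) (nat_lit 1) (nat_lit 432) (nat_lit 371) (nat_lit 217))) (XT.nd (nat_lit 40872) (nat_lit 0) (nat_lit 22116) (XT.lf (nat_lit 76) (nat_lit 179053581) (nat_lit 0) (nat_lit 787728696) (nat_lit 76) (nat_lit 787728696) (nat_lit 84) (nat_lit 3) (nat_lit 83) (nat_lit 1) (nat_lit 84) (nat_lit 1) (nat_lit 433) (nat_lit 371) (nat_lit 216)) (XT.nd (nat_lit 78) (nat_lit 0) (nat_lit 0) (XT.lf (nat_lit 1292) (nat_lit 960408218) (nat_lit 0) (nat_lit 3304250928) (nat_lit 1292) (nat_lit 960408218) (nat_lit 391) (nat_lit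 1) (nat_lit 374) (nat_lit 0) (nat_lit 391) (nat_lit 0) (nat_lit 276) (nat_lit 372) (nat_lit 372)) (XT.lf (nat_lit 1292) (nat_lit 3753292148) (nat_lit 76) (nat_lit 3271856311) (nat_lit 0) (nat_lit 3271856311) (nat_lit 391) (nat_lit 1) (nat_lit 375) (nat_lit 1) (nat_lit 374) (nat_lit 0) (nat_lit 277) (nat_lit 372) (nat_lit 371)))))) (XT.nd (nat_lit 390) (nat_lit 0) (nat_lit 152) (XT.nd (nat_lit 156) (nat_lit 0) (nat_lit 76) (XT.nd (nat_lit 78) (nat_lit 0) (nat_lit 0) (XT.lf (nat_lit 1292) (nat_lit 1815181572) (nat_lit 0) (nat_lit 6516889395) (nat_lit 1216) (nat_lit 1815181572) (nat_lit 392) (nat_lit 1) (nat_lit 375) (nat_lit 1) (nat_lit 391) (nat_lit 1) (nat_lit 278) (nat_lit 372) (nat_lit 370)) (XT.lf (nat_lit 1292) (nat_lit 3447123523) (nat_lit 76) (nat_lit 3276438796) (nat_lit 0) (nat_lit 3276438796) (nat_lit 392) (nat_lit 1) (nat_lit 376) (nat_lit 1) (nat_lit 375) (nat_lit 1) (nat_lit 279) (nat_lit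 372) (nat_lit 369))) (XT.nd (nat_lit 78) (nat_lit 0) (nat_lit 0) (XT.lf (nat_lit 1292) (nat_lit 1617545521) (nat_lit 0) (nat_lit 6620953451) (nat_lit 1216) (nat_lit 1617545521) (nat_lit 393) (nat_lit 1) (nat_lit 376) (nat_lit 1) (nat_lit 392) (nat_lit 1) (nat_lit 280) (nat_lit 372) (nat_lit 368)) (XT.nd (nat_lit 78) (nat_lit 0) (nat_lit 76) (XT.lf (nat_lit 1292) (nat_lit 2964322958) (nat_lit 76) (nat_lit 3375033602) (nat_lit 0) (nat_lit 3375033602) (nat_lit 393) (nat_lit 1) (nat_lit 377) (nat_lit 1) (nat_lit 376) (nat_lit 1) (nat_lit 281) (nat_lit 372) (nat_lit 367)) (XT.lf (nat_lit 1292) (nat_lit 1336045795) (nat_lit 0) (nat_lit 6903915249) (nat_lit 1216) (nat_lit 1336045795) (nat_lit 394) (nat_lit 1) (nat_lit 377) (nat_lit 1) (nat_lit 393) (nat_lit 1) (nat_lit 282) (nat_lit 372) (nat_lit 366))))) (XT.nd (nat_lit 156) (nat_lit 0) (nat_lit 76) (XT.nd (nat_lit 78) (nat_lit 0) (nat_lit 76) (XT.lf (nat_lit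 1292) (nat_lit 2320686372) (nat_lit 76) (nat_lit 3559498153) (nat_lit 0) (nat_lit 3559498153) (nat_lit 394) (nat_lit 1) (nat_lit 378) (nat_lit 1) (nat_lit 377) (nat_lit 1) (nat_lit 283) (nat_lit 372) (nat_lit 365)) (XT.lf (nat_lit 1292) (nat_lit 978269582) (nat_lit 0) (nat_lit 7350120723) (nat_lit 1216) (nat_lit 978269582) (nat_lit 395) (nat_lit 1) (nat_lit 378) (nat_lit 1) (nat_lit 394) (nat_lit 1) (nat_lit 284) (nat_lit 372) (nat_lit 364))) (XT.nd (nat_lit 78) (nat_lit 0) (nat_lit 76) (XT.lf (nat_lit 1292) (nat_lit 1530938178) (nat_lit 76) (nat_lit 3822237266) (nat_lit 0) (nat_lit 3822237266) (nat_lit 395) (nat_lit 1) (nat_lit 379) (nat_lit 1) (nat_lit 378) (nat_lit 1) (nat_lit 285) (nat_lit 372) (nat_lit 363)) (XT.nd (nat_lit 78) (nat_lit 0) (nat_lit 0) (XT.lf (nat_lit 1292) (nat_lit 551287767) (nat_lit 0) (nat_lit 7944971245) (nat_lit 1216) (nat_lit 551287767) (nat_lit 396) (nat_lit 1) (nat_lit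 379) (nat_lit 1) (nat_lit 395) (nat_lit 1) (nat_lit 286) (nat_lit 372) (nat_lit 362)) (XT.lf (nat_lit 1292) (nat_lit 608797597) (nat_lit 76) (nat_lit 4156169402) (nat_lit 0) (nat_lit 4156169402) (nat_lit 396) (nat_lit 1) (nat_lit 380) (nat_lit 1) (nat_lit 379) (nat_lit 1) (nat_lit 287) (nat_lit 372) (nat_lit 361))))))))
noncomputable def ec167 : XT := (XT.nd (nat_lit 1482) (nat_lit 5244) (nat_lit 0) (XT.nd (nat_lit 702) (nat_lit 2888) (nat_lit 0) (XT.nd (nat_lit 312) (nat_lit 1292) (nat_lit 0) (XT.nd (nat_lit 156) (nat_lit 0) (nat_lit 0) (XT.nd (nat_lit 78) (nat_lit 1292) (nat_lit 0) (XT.lf (nat_lit 1292) (nat_lit 61686921) (nat_lit 0) (nat_lit 8674858474) (nat_lit 1216) (nat_lit 61686921) (nat_lit 397) (nat_lit 1) (nat_lit 380) (nat_lit 1) (nat_lit 396) (nat_lit 1) (nat_lit 288) (nat_lit 372) (nat_lit 360)) (XT.lf (nat_lit 1368) (nat_lit 4125897796) (nat_lit 0) (nat_lit 424510398) (nat_lit 1292) (nat_lit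 4125897796) (nat_lit 381) (nat_lit 1) (nat_lit 363) (nat_lit 1) (nat_lit 380) (nat_lit 1) (nat_lit 289) (nat_lit 372) (nat_lit 359))) (XT.nd (nat_lit 78) (nat_lit 0) (nat_lit 76) (XT.lf (nat_lit 1368) (nat_lit 7598437088) (nat_lit 76) (nat_lit 479651587) (nat_lit 0) (nat_lit 479651587) (nat_lit 381) (nat_lit 1) (nat_lit 364) (nat_lit 1) (nat_lit 363) (nat_lit 1) (nat_lit 290) (nat_lit 372) (nat_lit 358)) (XT.lf (nat_lit 1368) (nat_lit 3444438196) (nat_lit 0) (nat_lit 1551560290) (nat_lit 1292) (nat_lit 3444438196) (nat_lit 382) (nat_lit 1) (nat_lit 364) (nat_lit 1) (nat_lit 381) (nat_lit 1) (nat_lit 291) (nat_lit 372) (nat_lit 357)))) (XT.nd (nat_lit 156) (nat_lit 1368) (nat_lit 0) (XT.nd (nat_lit 78) (nat_lit 0) (nat_lit 76) (XT.lf (nat_lit 1368) (nat_lit 6184771140) (nat_lit 76) (nat_lit 1070667761) (nat_lit 0) (nat_lit 1070667761) (nat_lit 382) (nat_lit 1) (nat_lit 365) (nat_lit 1) (nat_lit 364)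 (nat_lit 1) (nat_lit 292) (nat_lit 372) (nat_lit 356)) (XT.lf (nat_lit 76) (nat_lit 2719969224) (nat_lit 0) (nat_lit 2773384639) (nat_lit 1292) (nat_lit 2719969224) (nat_lit 366) (nat_lit 1) (nat_lit 365) (nat_lit 1) (nat_lit 382) (nat_lit 1) (nat_lit 293) (nat_lit 372) (nat_lit 355))) (XT.nd (nat_lit 78) (nat_lit 608) (nat_lit 0) (XT.lf (nat_lit 912) (nat_lit 4689609867) (nat_lit 0) (nat_lit 1706711330) (nat_lit 836) (nat_lit 1706711330) (nat_lit 366) (nat_lit 1) (nat_lit 354) (nat_lit 1) (nat_lit 365) (nat_lit 1) (nat_lit 294) (nat_lit 372) (nat_lit 354)) (XT.nd (nat_lit 78) (nat_lit 608) (nat_lit 0) (XT.lf (nat_lit 76) (nat_lit 1957351868) (nat_lit 0) (nat_lit 4079898197) (nat_lit 912) (nat_lit 1957351868) (nat_lit 355) (nat_lit 1) (nat_lit 354) (nat_lit 1) (nat_lit 366) (nat_lit 1) (nat_lit 295) (nat_lit 372) (nat_lit 353)) (XT.lf (nat_lit 684) (nat_lit 3122368684) (nat_lit 0) (nat_lit 2382897904)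 (nat_lit 608) (nat_lit 2382897904) (nat_lit 355) (nat_lit 1) (nat_lit 346) (nat_lit 1) (nat_lit 354) (nat_lit 1) (nat_lit 296) (nat_lit 372) (nat_lit 352)))))) (XT.nd (nat_lit 390) (nat_lit 1064) (nat_lit 0) (XT.nd (nat_lit 156) (nat_lit 1216) (nat_lit 0) (XT.nd (nat_lit 78) (nat_lit 608) (nat_lit 0) (XT.lf (nat_lit 76) (nat_lit 1161098405) (nat_lit 0) (nat_lit 5461729935) (nat_lit 684) (nat_lit 1161098405) (nat_lit 347) (nat_lit 1) (nat_lit 346) (nat_lit 1) (nat_lit 355) (nat_lit 1) (nat_lit 297) (nat_lit 372) (nat_lit 351)) (XT.lf (nat_lit 684) (nat_lit 1491784542) (nat_lit 0) (nat_lit 3094690453) (nat_lit 608) (nat_lit 3094690453) (nat_lit 347) (nat_lit 1) (nat_lit 338) (nat_lit 1) (nat_lit 346) (nat_lit 1) (nat_lit 298) (nat_lit 372) (nat_lit 350))) (XT.nd (nat_lit 78) (nat_lit 1216) (nat_lit 0) (XT.lf (nat_lit 76) (nat_lit 335394447) (nat_lit 0) (nat_lit 6910178105) (nat_lit 684) (nat_lit 335394447)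 (nat_lit 339) (nat_lit 1) (nat_lit 338) (nat_lit 1) (nat_lit 347) (nat_lit 1) (nat_lit 299) (nat_lit 372) (nat_lit 349)) (XT.nd (nat_lit 78) (nat_lit 608) (nat_lit 0) (XT.lf (nat_lit 76) (nat_lit 3645701563) (nat_lit 0) (nat_lit 190254660) (nat_lit 608) (nat_lit 3645701563) (nat_lit 331) (nat_lit 1) (nat_lit 330) (nat_lit 1) (nat_lit 338) (nat_lit 1) (nat_lit 300) (nat_lit 372) (nat_lit 348)) (XT.lf (nat_lit 684) (nat_lit 6363163862) (nat_lit 0) (nat_lit 510822687) (nat_lit 608) (nat_lit 510822687) (nat_lit 331) (nat_lit 1) (nat_lit 322) (nat_lit 1) (nat_lit 330) (nat_lit 1) (nat_lit 301) (nat_lit 372) (nat_lit 347))))) (XT.nd (nat_lit 156) (nat_lit 532) (nat_lit 0) (XT.nd (nat_lit 78) (nat_lit 532) (nat_lit 0) (XT.lf (nat_lit 76) (nat_lit 2699479535) (nat_lit 0) (nat_lit 1889987449) (nat_lit 684) (nat_lit 2699479535) (nat_lit 323) (nat_lit 1) (nat_lit 322) (nat_lit 1) (nat_lit 331) (nat_lit 1) (nat_lit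 302) (nat_lit 372) (nat_lit 346)) (XT.lf (nat_lit 608) (nat_lit 4444308625) (nat_lit 0) (nat_lit 1375513804) (nat_lit 532) (nat_lit 1375513804) (nat_lit 323) (nat_lit 1) (nat_lit 315) (nat_lit 1) (nat_lit 322) (nat_lit 1) (nat_lit 303) (nat_lit 372) (nat_lit 345))) (XT.nd (nat_lit 78) (nat_lit 532) (nat_lit 0) (XT.lf (nat_lit 76) (nat_lit 1736730238) (nat_lit 0) (nat_lit 3629710340) (nat_lit 608) (nat_lit 1736730238) (nat_lit 316) (nat_lit 1) (nat_lit 315) (nat_lit 1) (nat_lit 323) (nat_lit 1) (nat_lit 304) (nat_lit 372) (nat_lit 344)) (XT.nd (nat_lit 78) (nat_lit 0) (nat_lit 0) (XT.lf (nat_lit 608) (nat_lit 2495304063) (nat_lit 0) (nat_lit 2258674649) (nat_lit 532) (nat_lit 2258674649) (nat_lit 316) (nat_lit 1) (nat_lit 308) (nat_lit 1) (nat_lit 315) (nat_lit 1) (nat_lit 305) (nat_lit 372) (nat_lit 343)) (XT.lf (nat_lit 76) (nat_lit 760465831) (nat_lit 0) (nat_lit 5403121086) (nat_lit 608) (nat_lit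 760465831) (nat_lit 309) (nat_lit 1) (nat_lit 308) (nat_lit 1) (nat_lit 316) (nat_lit 1) (nat_lit 306) (nat_lit 372) (nat_lit 342))))))) (XT.nd (nat_lit 702) (nat_lit 2356) (nat_lit 0) (XT.nd (nat_lit 312) (nat_lit 1368) (nat_lit 0) (XT.nd (nat_lit 156) (nat_lit 456) (nat_lit 0) (XT.nd (nat_lit 78) (nat_lit 608) (nat_lit 0) (XT.lf (nat_lit 532) (nat_lit 521967264) (nat_lit 0) (nat_lit 3157261301) (nat_lit 456) (nat_lit 3157261301) (nat_lit 309) (nat_lit 1) (nat_lit 302) (nat_lit 1) (nat_lit 308) (nat_lit 1) (nat_lit 307) (nat_lit 372) (nat_lit 341)) (XT.lf (nat_lit 608) (nat_lit 6302436982) (nat_lit 0) (nat_lit 224313611) (nat_lit 532) (nat_lit 224313611) (nat_lit 302) (nat_lit 1) (nat_lit 294) (nat_lit 1) (nat_lit 301) (nat_lit 1) (nat_lit 308) (nat_lit 372) (nat_lit 340))) (XT.nd (nat_lit 78) (nat_lit 456) (nat_lit 0) (XT.lf (nat_lit 76) (nat_lit 2612258497) (nat_lit 0) (nat_lit 1441646049) (nat_lit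 608) (nat_lit 2612258497) (nat_lit 295) (nat_lit 1) (nat_lit 294) (nat_lit 1) (nat_lit 302) (nat_lit 1) (nat_lit 309) (nat_lit 372) (nat_lit 339)) (XT.lf (nat_lit 532) (nat_lit 4163858950) (nat_lit 0) (nat_lit 1209732059) (nat_lit 456) (nat_lit 1209732059) (nat_lit 295) (nat_lit 1) (nat_lit 288) (nat_lit 1) (nat_lit 294) (nat_lit 1) (nat_lit 310) (nat_lit 372) (nat_lit 338)))) (XT.nd (nat_lit 156) (nat_lit 912) (nat_lit 0) (XT.nd (nat_lit 78) (nat_lit 456) (nat_lit 0) (XT.lf (nat_lit 76) (nat_lit 1546433765) (nat_lit 0) (nat_lit 3408827610) (nat_lit 532) (nat_lit 1546433765) (nat_lit 289) (nat_lit 1) (nat_lit 288) (nat_lit 1) (nat_lit 295) (nat_lit 1) (nat_lit 311) (nat_lit 372) (nat_lit 337)) (XT.lf (nat_lit 532) (nat_lit 2019650159) (nat_lit 0) (nat_lit 2200910586) (nat_lit 456) (nat_lit 2200910586) (nat_lit 289) (nat_lit 1) (nat_lit 282) (nat_lit 1) (nat_lit 288) (nat_lit 1) (nat_lit 312) (nat_lit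 372) (nat_lit 336))) (XT.nd (nat_lit 78) (nat_lit 912) (nat_lit 0) (XT.lf (nat_lit 76) (nat_lit 478847504) (nat_lit 0) (nat_lit 5385306706) (nat_lit 532) (nat_lit 478847504) (nat_lit 283) (nat_lit 1) (nat_lit 282) (nat_lit 1) (nat_lit 289) (nat_lit 1) (nat_lit 313) (nat_lit 372) (nat_lit 335)) (XT.nd (nat_lit 78) (nat_lit 456) (nat_lit 0) (XT.lf (nat_lit 76) (nat_lit 3070789059) (nat_lit 0) (nat_lit 123665349) (nat_lit 456) (nat_lit 3070789059) (nat_lit 277) (nat_lit 1) (nat_lit 276) (nat_lit 1) (nat_lit 282) (nat_lit 1) (nat_lit 314) (nat_lit 372) (nat_lit 334)) (XT.lf (nat_lit 532) (nat_lit 5023584563) (nat_lit 0) (nat_lit 582795586) (nat_lit 456) (nat_lit 582795586) (nat_lit 277) (nat_lit 1) (nat_lit 270) (nat_lit 1) (nat_lit 276) (nat_lit 1) (nat_lit 315) (nat_lit 372) (nat_lit 333)))))) (XT.nd (nat_lit 390) (nat_lit 1140) (nat_lit 0) (XT.nd (nat_lit 156) (nat_lit 836) (nat_lit 0) (XT.nd (nat_lit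 78) (nat_lit 380) (nat_lit 0) (XT.lf (nat_lit 76) (nat_lit 1944207732) (nat_lit 0) (nat_lit 2225459409) (nat_lit 532) (nat_lit 1944207732) (nat_lit 271) (nat_lit 1) (nat_lit 270) (nat_lit 1) (nat_lit 277) (nat_lit 1) (nat_lit 316) (nat_lit 372) (nat_lit 332)) (XT.lf (nat_lit 456) (nat_lit 2764491316) (nat_lit 0) (nat_lit 1637820222) (nat_lit 380) (nat_lit 1637820222) (nat_lit 271) (nat_lit 1) (nat_lit 265) (nat_lit 1) (nat_lit 270) (nat_lit 1) (nat_lit 317) (nat_lit 372) (nat_lit 331))) (XT.nd (nat_lit 78) (nat_lit 836) (nat_lit 0) (XT.lf (nat_lit 76) (nat_lit 822965810) (nat_lit 0) (nat_lit 4321807664) (nat_lit 456) (nat_lit 822965810) (nat_lit 266) (nat_lit 1) (nat_lit 265) (nat_lit 1) (nat_lit 271) (nat_lit 1) (nat_lit 318) (nat_lit 372) (nat_lit 330)) (XT.nd (nat_lit 78) (nat_lit 456) (nat_lit 0) (XT.lf (nat_lit 456) (nat_lit 517580669) (nat_lit 0) (nat_lit 2689320280) (nat_lit 380) (nat_lit 2689320280)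 (nat_lit 266) (nat_lit 1) (nat_lit 260) (nat_lit 1) (nat_lit 265) (nat_lit 1) (nat_lit 319) (nat_lit 372) (nat_lit 329)) (XT.lf (nat_lit 456) (nat_lit 5248984735) (nat_lit 0) (nat_lit 288657134) (nat_lit 380) (nat_lit 288657134) (nat_lit 260) (nat_lit 1) (nat_lit 254) (nat_lit 1) (nat_lit 259) (nat_lit 1) (nat_lit 320) (nat_lit 372) (nat_lit 328))))) (XT.nd (nat_lit 156) (nat_lit 760) (nat_lit 0) (XT.nd (nat_lit 78) (nat_lit 380) (nat_lit 0) (XT.lf (nat_lit 76) (nat_lit 2037892459) (nat_lit 0) (nat_lit 1680969822) (nat_lit 456) (nat_lit 2037892459) (nat_lit 255) (nat_lit 1) (nat_lit 254) (nat_lit 1) (nat_lit 260) (nat_lit 1) (nat_lit 321) (nat_lit 372) (nat_lit 327)) (XT.lf (nat_lit 456) (nat_lit 2920275872) (nat_lit 0) (nat_lit 1384240081) (nat_lit 380) (nat_lit 1384240081) (nat_lit 255) (nat_lit 1) (nat_lit 249) (nat_lit 1) (nat_lit 254) (nat_lit 1) (nat_lit 322) (nat_lit 372) (nat_lit 326))) (XT.nd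 (nat_lit 78) (nat_lit 760) (nat_lit 0) (XT.lf (nat_lit 76) (nat_lit 884754404) (nat_lit 0) (nat_lit 3852386922) (nat_lit 456) (nat_lit 884754404) (nat_lit 250) (nat_lit 1) (nat_lit 249) (nat_lit 1) (nat_lit 255) (nat_lit 1) (nat_lit 323) (nat_lit 372) (nat_lit 325)) (XT.nd (nat_lit 78) (nat_lit 456) (nat_lit 0) (XT.lf (nat_lit 380) (nat_lit 614490732) (nat_lit 0) (nat_lit 2470696014) (nat_lit 304) (nat_lit 2470696014) (nat_lit 250) (nat_lit 1) (nat_lit 245) (nat_lit 1) (nat_lit 249) (nat_lit 1) (nat_lit 324) (nat_lit 372) (nat_lit 324)) (XT.lf (nat_lit 456) (nat_lit 4983376951) (nat_lit 0) (nat_lit 253970494) (nat_lit 380) (nat_lit 253970494) (nat_lit 245) (nat_lit 1) (nat_lit 239) (nat_lit 1) (nat_lit 244) (nat_lit 1) (nat_lit 325) (nat_lit 372) (nat_lit 323))))))))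
noncomputable def ec168 : XT := (XT.nd (nat_lit 1404) (nat_lit 2584) (nat_lit 0) (XT.nd (nat_lit 702) (nat_lit 1672) (nat_lit 0) (XT.nd (nat_lit 312) (nat_lit 988) (nat_lit 0) (XT.nd (nat_lit 156) (nat_lit 304) (nat_lit 0) (XT.nd (nat_lit 78) (nat_lit 304) (nat_lit 0) (XT.lf (nat_lit 76) (nat_lit 1896541195) (nat_lit 0) (nat_lit 1633942114) (nat_lit 456) (nat_lit 1896541195) (nat_lit 240) (nat_lit 1) (nat_lit 239) (nat_lit 1) (nat_lit 245) (nat_lit 1) (nat_lit 326) (nat_lit 372) (nat_lit 322)) (XT.lf (nat_lit 380) (nat_lit 2621437563) (nat_lit 0) (nat_lit 1371349778) (nat_lit 304) (nat_lit 1371349778) (nat_lit 240) (nat_lit 1) (nat_lit 235) (nat_lit 1) (nat_lit 239) (nat_lit 1) (nat_lit 327) (nat_lit 372) (nat_lit 321))) (XT.nd (nat_lit 78) (nat_lit 304) (nat_lit 0) (XT.lf (nat_lit 76) (nat_lit 728981743) (nat_lit 0) (nat_lit 3844361955) (nat_lit 380) (nat_lit 728981743) (nat_lit 236) (nat_lit 1) (nat_lit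 235) (nat_lit 1) (nat_lit 240) (nat_lit 1) (nat_lit 328) (nat_lit 372) (nat_lit 320)) (XT.lf (nat_lit 380) (nat_lit 290687180) (nat_lit 0) (nat_lit 2475264580) (nat_lit 304) (nat_lit 2475264580) (nat_lit 236) (nat_lit 1) (nat_lit 231) (nat_lit 1) (nat_lit 235) (nat_lit 1) (nat_lit 329) (nat_lit 372) (nat_lit 319)))) (XT.nd (nat_lit 156) (nat_lit 608) (nat_lit 0) (XT.nd (nat_lit 78) (nat_lit 0) (nat_lit 0) (XT.lf (nat_lit 380) (nat_lit 4344133231) (nat_lit 0) (nat_lit 418589983) (nat_lit 304) (nat_lit 418589983) (nat_lit 231) (nat_lit 1) (nat_lit 226) (nat_lit 1) (nat_lit 230) (nat_lit 1) (nat_lit 330) (nat_lit 372) (nat_lit 318)) (XT.lf (nat_lit 76) (nat_lit 1576686362) (nat_lit 0) (nat_lit 1968447940) (nat_lit 380) (nat_lit 1576686362) (nat_lit 227) (nat_lit 1) (nat_lit 226) (nat_lit 1) (nat_lit 231) (nat_lit 1) (nat_lit 331) (nat_lit 372) (nat_lit 317))) (XT.nd (nat_lit 78) (nat_lit 304) (nat_lit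 0) (XT.lf (nat_lit 380) (nat_lit 1977996055) (nat_lit 0) (nat_lit 1542751389) (nat_lit 304) (nat_lit 1542751389) (nat_lit 227) (nat_lit 1) (nat_lit 222) (nat_lit 1) (nat_lit 226) (nat_lit 1) (nat_lit 332) (nat_lit 372) (nat_lit 316)) (XT.nd (nat_lit 78) (nat_lit 304) (nat_lit 0) (XT.lf (nat_lit 76) (nat_lit 408634768) (nat_lit 0) (nat_lit 4189035746) (nat_lit 380) (nat_lit 408634768) (nat_lit 223) (nat_lit 1) (nat_lit 222) (nat_lit 1) (nat_lit 227) (nat_lit 1) (nat_lit 333) (nat_lit 372) (nat_lit 315)) (XT.lf (nat_lit 76) (nat_lit 2302802815) (nat_lit 0) (nat_lit 343874611) (nat_lit 304) (nat_lit 2302802815) (nat_lit 219) (nat_lit 1) (nat_lit 218) (nat_lit 1) (nat_lit 222) (nat_lit 1) (nat_lit 334) (nat_lit 372) (nat_lit 314)))))) (XT.nd (nat_lit 312) (nat_lit 760) (nat_lit 0) (XT.nd (nat_lit 156) (nat_lit 608) (nat_lit 0) (XT.nd (nat_lit 78) (nat_lit 0) (nat_lit 0) (XT.lf (nat_lit 380) (nat_lit 3427059079)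 (nat_lit 0) (nat_lit 733346539) (nat_lit 304) (nat_lit 733346539) (nat_lit 219) (nat_lit 1) (nat_lit 214) (nat_lit 1) (nat_lit 218) (nat_lit 1) (nat_lit 335) (nat_lit 372) (nat_lit 313)) (XT.lf (nat_lit 76) (nat_lit 1124453924) (nat_lit 0) (nat_lit 2589751084) (nat_lit 380) (nat_lit 1124453924) (nat_lit 215) (nat_lit 1) (nat_lit 214) (nat_lit 1) (nat_lit 219) (nat_lit 1) (nat_lit 336) (nat_lit 372) (nat_lit 312))) (XT.nd (nat_lit 78) (nat_lit 380) (nat_lit 0) (XT.lf (nat_lit 304) (nat_lit 1079681985) (nat_lit 0) (nat_lit 1852374436) (nat_lit 228) (nat_lit 1852374436) (nat_lit 215) (nat_lit 1) (nat_lit 211) (nat_lit 1) (nat_lit 214) (nat_lit 1) (nat_lit 337) (nat_lit 372) (nat_lit 311)) (XT.lf (nat_lit 380) (nat_lit 4665902656) (nat_lit 0) (nat_lit 32764932) (nat_lit 304) (nat_lit 32764932) (nat_lit 211) (nat_lit 1) (nat_lit 206) (nat_lit 1) (nat_lit 210) (nat_lit 1) (nat_lit 338) (nat_lit 372) (nat_lit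 310)))) (XT.nd (nat_lit 156) (nat_lit 532) (nat_lit 0) (XT.nd (nat_lit 78) (nat_lit 228) (nat_lit 0) (XT.lf (nat_lit 76) (nat_lit 1738273645) (nat_lit 0) (nat_lit 1201782703) (nat_lit 380) (nat_lit 1738273645) (nat_lit 207) (nat_lit 1) (nat_lit 206) (nat_lit 1) (nat_lit 211) (nat_lit 1) (nat_lit 339) (nat_lit 372) (nat_lit 309)) (XT.lf (nat_lit 304) (nat_lit 2310051161) (nat_lit 0) (nat_lit 1158189905) (nat_lit 228) (nat_lit 1158189905) (nat_lit 207) (nat_lit 1) (nat_lit 203) (nat_lit 1) (nat_lit 206) (nat_lit 1) (nat_lit 340) (nat_lit 372) (nat_lit 308))) (XT.nd (nat_lit 78) (nat_lit 532) (nat_lit 0) (XT.lf (nat_lit 76) (nat_lit 577329426) (nat_lit 0) (nat_lit 3420718550) (nat_lit 304) (nat_lit 577329426) (nat_lit 204) (nat_lit 1) (nat_lit 203) (nat_lit 1) (nat_lit 207) (nat_lit 1) (nat_lit 341) (nat_lit 372) (nat_lit 307)) (XT.nd (nat_lit 78) (nat_lit 228) (nat_lit 0) (XT.lf (nat_lit 76) (nat_lit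 2262114103) (nat_lit 0) (nat_lit 605655) (nat_lit 304) (nat_lit 2262114103) (nat_lit 200) (nat_lit 1) (nat_lit 199) (nat_lit 1) (nat_lit 203) (nat_lit 1) (nat_lit 342) (nat_lit 372) (nat_lit 306)) (XT.lf (nat_lit 304) (nat_lit 3363875489) (nat_lit 0) (nat_lit 555618488) (nat_lit 228) (nat_lit 555618488) (nat_lit 200) (nat_lit 1) (nat_lit 196) (nat_lit 1) (nat_lit 199) (nat_lit 1) (nat_lit 343) (nat_lit 372) (nat_lit 305))))))) (XT.nd (nat_lit 702) (nat_lit 1368) (nat_lit 0) (XT.nd (nat_lit 312) (nat_lit 684) (nat_lit 0) (XT.nd (nat_lit 156) (nat_lit 304) (nat_lit 0) (XT.nd (nat_lit 78) (nat_lit 228) (nat_lit 0) (XT.lf (nat_lit 76) (nat_lit 1102006877) (nat_lit 0) (nat_lit 2221855442) (nat_lit 304) (nat_lit 1102006877) (nat_lit 197) (nat_lit 1) (nat_lit 196) (nat_lit 1) (nat_lit 200) (nat_lit 1) (nat_lit 344) (nat_lit 372) (nat_lit 304)) (XT.lf (nat_lit 304) (nat_lit 1056151504) (nat_lit 0) (nat_lit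 1660637119) (nat_lit 228) (nat_lit 1660637119) (nat_lit 197) (nat_lit 1) (nat_lit 193) (nat_lit 1) (nat_lit 196) (nat_lit 1) (nat_lit 345) (nat_lit 372) (nat_lit 303))) (XT.nd (nat_lit 78) (nat_lit 0) (nat_lit 0) (XT.lf (nat_lit 304) (nat_lit 4261987912) (nat_lit 0) (nat_lit 34030469) (nat_lit 228) (nat_lit 34030469) (nat_lit 193) (nat_lit 1) (nat_lit 189) (nat_lit 1) (nat_lit 192) (nat_lit 1) (nat_lit 346) (nat_lit 372) (nat_lit 302)) (XT.lf (nat_lit 76) (nat_lit 1551018992) (nat_lit 0) (nat_lit 1180489118) (nat_lit 304) (nat_lit 1551018992) (nat_lit 190) (nat_lit 1) (nat_lit 189) (nat_lit 1) (nat_lit 193) (nat_lit 1) (nat_lit 347) (nat_lit 372) (nat_lit 301)))) (XT.nd (nat_lit 156) (nat_lit 456) (nat_lit 0) (XT.nd (nat_lit 78) (nat_lit 0) (nat_lit 0) (XT.lf (nat_lit 304) (nat_lit 1964299584) (nat_lit 0) (nat_lit 1135876404) (nat_lit 228) (nat_lit 1135876404) (nat_lit 190) (nat_lit 1) (nat_lit 186)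 (nat_lit 1) (nat_lit 189) (nat_lit 1) (nat_lit 348) (nat_lit 372) (nat_lit 300)) (XT.lf (nat_lit 76) (nat_lit 420125342) (nat_lit 0) (nat_lit 3350114169) (nat_lit 304) (nat_lit 420125342) (nat_lit 187) (nat_lit 1) (nat_lit 186) (nat_lit 1) (nat_lit 190) (nat_lit 1) (nat_lit 349) (nat_lit 372) (nat_lit 299))) (XT.nd (nat_lit 78) (nat_lit 228) (nat_lit 0) (XT.lf (nat_lit 76) (nat_lit 1933303155) (nat_lit 0) (nat_lit 278363209) (nat_lit 228) (nat_lit 1933303155) (nat_lit 184) (nat_lit 1) (nat_lit 183) (nat_lit 1) (nat_lit 186) (nat_lit 1) (nat_lit 350) (nat_lit 372) (nat_lit 298)) (XT.nd (nat_lit 78) (nat_lit 0) (nat_lit 0) (XT.lf (nat_lit 304) (nat_lit 2741296148) (nat_lit 0) (nat_lit 679523931) (nat_lit 228) (nat_lit 679523931) (nat_lit 184) (nat_lit 1) (nat_lit 180) (nat_lit 1) (nat_lit 183) (nat_lit 1) (nat_lit 351) (nat_lit 372) (nat_lit 297)) (XT.lf (nat_lit 76) (nat_lit 810810232) (nat_lit 0) (nat_lit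 2434607281) (nat_lit 304) (nat_lit 810810232) (nat_lit 181) (nat_lit 1) (nat_lit 180) (nat_lit 1) (nat_lit 184) (nat_lit 1) (nat_lit 352) (nat_lit 372) (nat_lit 296)))))) (XT.nd (nat_lit 390) (nat_lit 760) (nat_lit 0) (XT.nd (nat_lit 156) (nat_lit 152) (nat_lit 0) (XT.nd (nat_lit 78) (nat_lit 304) (nat_lit 0) (XT.lf (nat_lit 228) (nat_lit 510687995) (nat_lit 0) (nat_lit 1751006609) (nat_lit 152) (nat_lit 1751006609) (nat_lit 181) (nat_lit 1) (nat_lit 178) (nat_lit 1) (nat_lit 180) (nat_lit 1) (nat_lit 353) (nat_lit 372) (nat_lit 295)) (XT.lf (nat_lit 304) (nat_lit 3402636617) (nat_lit 0) (nat_lit 283663220) (nat_lit 228) (nat_lit 283663220) (nat_lit 178) (nat_lit 1) (nat_lit 174) (nat_lit 1) (nat_lit 177) (nat_lit 1) (nat_lit 354) (nat_lit 372) (nat_lit 294))) (XT.nd (nat_lit 78) (nat_lit 152) (nat_lit 0) (XT.lf (nat_lit 76) (nat_lit 1145184979) (nat_lit 0) (nat_lit 1636975514) (nat_lit 304) (nat_lit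 1145184979) (nat_lit 175) (nat_lit 1) (nat_lit 174) (nat_lit 1) (nat_lit 178) (nat_lit 1) (nat_lit 355) (nat_lit 372) (nat_lit 293)) (XT.nd (nat_lit 78) (nat_lit 0) (nat_lit 0) (XT.lf (nat_lit 228) (nat_lit 1194450637) (nat_lit 0) (nat_lit 1345525549) (nat_lit 152) (nat_lit 1345525549) (nat_lit 175) (nat_lit 1) (nat_lit 172) (nat_lit 1) (nat_lit 174) (nat_lit 1) (nat_lit 356) (nat_lit 372) (nat_lit 292)) (XT.lf (nat_lit 76) (nat_lit 59312525) (nat_lit 0) (nat_lit 3725907244) (nat_lit 228) (nat_lit 59312525) (nat_lit 173) (nat_lit 1) (nat_lit 172) (nat_lit 1) (nat_lit 175) (nat_lit 1) (nat_lit 357) (nat_lit 372) (nat_lit 291))))) (XT.nd (nat_lit 156) (nat_lit 380) (nat_lit 0) (XT.nd (nat_lit 78) (nat_lit 152) (nat_lit 0) (XT.lf (nat_lit 76) (nat_lit 1429900069) (nat_lit 0) (nat_lit 943614530) (nat_lit 228) (nat_lit 1429900069) (nat_lit 170) (nat_lit 1) (nat_lit 169) (nat_lit 1) (nat_lit 172) (nat_lit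 1) (nat_lit 358) (nat_lit 372) (nat_lit 290)) (XT.lf (nat_lit 228) (nat_lit 1780390782) (nat_lit 0) (nat_lit 991383825) (nat_lit 152) (nat_lit 991383825) (nat_lit 170) (nat_lit 1) (nat_lit 167) (nat_lit 1) (nat_lit 169) (nat_lit 1) (nat_lit 359) (nat_lit 372) (nat_lit 289))) (XT.nd (nat_lit 78) (nat_lit 380) (nat_lit 0) (XT.lf (nat_lit 76) (nat_lit 357396450) (nat_lit 0) (nat_lit 3008768382) (nat_lit 228) (nat_lit 357396450) (nat_lit 168) (nat_lit 1) (nat_lit 167) (nat_lit 1) (nat_lit 170) (nat_lit 1) (nat_lit 360) (nat_lit 372) (nat_lit 288)) (XT.nd (nat_lit 78) (nat_lit 152) (nat_lit 0) (XT.lf (nat_lit 76) (nat_lit 1670853563) (nat_lit 0) (nat_lit 342450442) (nat_lit 228) (nat_lit 1670853563) (nat_lit 165) (nat_lit 1) (nat_lit 164) (nat_lit 1) (nat_lit 167) (nat_lit 1) (nat_lit 361) (nat_lit 372) (nat_lit 287)) (XT.lf (nat_lit 228) (nat_lit 2280045278) (nat_lit 0) (nat_lit 682678098) (nat_lit 152)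 (nat_lit 682678098) (nat_lit 165) (nat_lit 1) (nat_lit 162) (nat_lit 1) (nat_lit 164) (nat_lit 1) (nat_lit 362) (nat_lit 372) (nat_lit 286))))))))
noncomputable def ec169 : XT := (XT.nd (nat_lit 1482) (nat_lit 1748) (nat_lit 0) (XT.nd (nat_lit 702) (nat_lit 988) (nat_lit 0) (XT.nd (nat_lit 312) (nat_lit 532) (nat_lit 0) (XT.nd (nat_lit 156) (nat_lit 228) (nat_lit 0) (XT.nd (nat_lit 78) (nat_lit 152) (nat_lit 0) (XT.lf (nat_lit 76) (nat_lit 613365456) (nat_lit 0) (nat_lit 2380385770) (nat_lit 228) (nat_lit 613365456) (nat_lit 163) (nat_lit 1) (nat_lit 162) (nat_lit 1) (nat_lit 165) (nat_lit 1) (nat_lit 363) (nat_lit 372) (nat_lit 285)) (XT.lf (nat_lit 228) (nat_lit 180758492) (nat_lit 0) (nat_lit 1694254384) (nat_lit 152) (nat_lit 1694254384) (nat_lit 163) (nat_lit 1) (nat_lit 160) (nat_lit 1) (nat_lit 162) (nat_lit 1) (nat_lit 364) (nat_lit 372) (nat_lit 284))) (XT.nd (nat_lit 78) (nat_lit 0) (nat_lit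 0) (XT.lf (nat_lit 228) (nat_lit 2703646162) (nat_lit 0) (nat_lit 414168522) (nat_lit 152) (nat_lit 414168522) (nat_lit 160) (nat_lit 1) (nat_lit 157) (nat_lit 1) (nat_lit 159) (nat_lit 1) (nat_lit 365) (nat_lit 372) (nat_lit 283)) (XT.lf (nat_lit 76) (nat_lit 832174389) (nat_lit 0) (nat_lit 1830606035) (nat_lit 228) (nat_lit 832174389) (nat_lit 158) (nat_lit 1) (nat_lit 157) (nat_lit 1) (nat_lit 160) (nat_lit 1) (nat_lit 366) (nat_lit 372) (nat_lit 282)))) (XT.nd (nat_lit 156) (nat_lit 152) (nat_lit 0) (XT.nd (nat_lit 78) (nat_lit 228) (nat_lit 0) (XT.lf (nat_lit 228) (nat_lit 637375074) (nat_lit 0) (nat_lit 1410553556) (nat_lit 152) (nat_lit 1410553556) (nat_lit 158) (nat_lit 1) (nat_lit 155) (nat_lit 1) (nat_lit 157) (nat_lit 1) (nat_lit 367) (nat_lit 372) (nat_lit 281)) (XT.lf (nat_lit 228) (nat_lit 3060266699) (nat_lit 0) (nat_lit 181204604) (nat_lit 152) (nat_lit 181204604) (nat_lit 155) (nat_lit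 1) (nat_lit 152) (nat_lit 1) (nat_lit 154) (nat_lit 1) (nat_lit 368) (nat_lit 372) (nat_lit 280))) (XT.nd (nat_lit 78) (nat_lit 152) (nat_lit 0) (XT.lf (nat_lit 76) (nat_lit 1018218036) (nat_lit 0) (nat_lit 1350415489) (nat_lit 228) (nat_lit 1018218036) (nat_lit 153) (nat_lit 1) (nat_lit 152) (nat_lit 1) (nat_lit 155) (nat_lit 1) (nat_lit 369) (nat_lit 372) (nat_lit 279)) (XT.nd (nat_lit 78) (nat_lit 0) (nat_lit 0) (XT.lf (nat_lit 228) (nat_lit 1029186387) (nat_lit 0) (nat_lit 1161249322) (nat_lit 152) (nat_lit 1161249322) (nat_lit 153) (nat_lit 1) (nat_lit 150) (nat_lit 1) (nat_lit 152) (nat_lit 1) (nat_lit 370) (nat_lit 372) (nat_lit 278)) (XT.lf (nat_lit 76) (nat_lit 20542054) (nat_lit 0) (nat_lit 3276161865) (nat_lit 228) (nat_lit 20542054) (nat_lit 151) (nat_lit 1) (nat_lit 150) (nat_lit 1) (nat_lit 153) (nat_lit 1) (nat_lit 371) (nat_lit 372) (nat_lit 277)))))) (XT.nd (nat_lit 390) (nat_lit 380)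 (nat_lit 0) (XT.nd (nat_lit 156) (nat_lit 304) (nat_lit 0) (XT.nd (nat_lit 78) (nat_lit 152) (nat_lit 0) (XT.lf (nat_lit 76) (nat_lit 1175393798) (nat_lit 0) (nat_lit 931812824) (nat_lit 152) (nat_lit 1175393798) (nat_lit 149) (nat_lit 1) (nat_lit 148) (nat_lit 1) (nat_lit 150) (nat_lit 1) (nat_lit 372) (nat_lit 372) (nat_lit 276)) (XT.lf (nat_lit 228) (nat_lit 1363823522) (nat_lit 0) (nat_lit 942425619) (nat_lit 152) (nat_lit 942425619) (nat_lit 149) (nat_lit 1) (nat_lit 146) (nat_lit 1) (nat_lit 148) (nat_lit 1) (nat_lit 373) (nat_lit 372) (nat_lit 275))) (XT.nd (nat_lit 78) (nat_lit 304) (nat_lit 0) (XT.lf (nat_lit 76) (nat_lit 196051385) (nat_lit 0) (nat_lit 2823241160) (nat_lit 228) (nat_lit 196051385) (nat_lit 147) (nat_lit 1) (nat_lit 146) (nat_lit 1) (nat_lit 149) (nat_lit 1) (nat_lit 374) (nat_lit 372) (nat_lit 274)) (XT.nd (nat_lit 78) (nat_lit 152) (nat_lit 0) (XT.lf (nat_lit 76) (nat_lit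 1307157371) (nat_lit 0) (nat_lit 567696006) (nat_lit 152) (nat_lit 1307157371) (nat_lit 145) (nat_lit 1) (nat_lit 144) (nat_lit 1) (nat_lit 146) (nat_lit 1) (nat_lit 375) (nat_lit 372) (nat_lit 273)) (XT.lf (nat_lit 228) (nat_lit 1648054823) (nat_lit 0) (nat_lit 750605420) (nat_lit 152) (nat_lit 750605420) (nat_lit 145) (nat_lit 1) (nat_lit 142) (nat_lit 1) (nat_lit 144) (nat_lit 1) (nat_lit 376) (nat_lit 372) (nat_lit 272))))) (XT.nd (nat_lit 156) (nat_lit 228) (nat_lit 0) (XT.nd (nat_lit 78) (nat_lit 152) (nat_lit 0) (XT.lf (nat_lit 76) (nat_lit 346810510) (nat_lit 0) (nat_lit 2423378034) (nat_lit 228) (nat_lit 346810510) (nat_lit 143) (nat_lit 1) (nat_lit 142) (nat_lit 1) (nat_lit 145) (nat_lit 1) (nat_lit 377) (nat_lit 372) (nat_lit 271)) (XT.lf (nat_lit 76) (nat_lit 1416572205) (nat_lit 0) (nat_lit 251761793) (nat_lit 152) (nat_lit 1416572205) (nat_lit 141) (nat_lit 1) (nat_lit 140) (nat_lit 1)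 (nat_lit 142) (nat_lit 1) (nat_lit 378) (nat_lit 372) (nat_lit 270))) (XT.nd (nat_lit 78) (nat_lit 76) (nat_lit 0) (XT.lf (nat_lit 228) (nat_lit 1887882440) (nat_lit 0) (nat_lit 582701702) (nat_lit 152) (nat_lit 582701702) (nat_lit 141) (nat_lit 1) (nat_lit 138) (nat_lit 1) (nat_lit 140) (nat_lit 1) (nat_lit 379) (nat_lit 372) (nat_lit 269)) (XT.nd (nat_lit 78) (nat_lit 76) (nat_lit 0) (XT.lf (nat_lit 76) (nat_lit 475730233) (nat_lit 0) (nat_lit 2070581578) (nat_lit 228) (nat_lit 475730233) (nat_lit 139) (nat_lit 1) (nat_lit 138) (nat_lit 1) (nat_lit 141) (nat_lit 1) (nat_lit 380) (nat_lit 372) (nat_lit 268)) (XT.lf (nat_lit 152) (nat_lit 22013099) (nat_lit 0) (nat_lit 1484551950) (nat_lit 76) (nat_lit 1484551950) (nat_lit 139) (nat_lit 1) (nat_lit 137) (nat_lit 1) (nat_lit 138) (nat_lit 1) (nat_lit 381) (nat_lit 372) (nat_lit 267))))))) (XT.nd (nat_lit 702) (nat_lit 836) (nat_lit 0) (XT.nd (nat_lit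 312) (nat_lit 380) (nat_lit 0) (XT.nd (nat_lit 156) (nat_lit 304) (nat_lit 0) (XT.nd (nat_lit 78) (nat_lit 0) (nat_lit 0) (XT.lf (nat_lit 228) (nat_lit 2088628102) (nat_lit 0) (nat_lit 435973895) (nat_lit 152) (nat_lit 435973895) (nat_lit 137) (nat_lit 1) (nat_lit 134) (nat_lit 1) (nat_lit 136) (nat_lit 1) (nat_lit 382) (nat_lit 372) (nat_lit 266)) (XT.lf (nat_lit 76) (nat_lit 585392370) (nat_lit 0) (nat_lit 1759531111) (nat_lit 228) (nat_lit 585392370) (nat_lit 135) (nat_lit 1) (nat_lit 134) (nat_lit 1) (nat_lit 137) (nat_lit 1) (nat_lit 383) (nat_lit 372) (nat_lit 265))) (XT.nd (nat_lit 78) (nat_lit 228) (nat_lit 0) (XT.lf (nat_lit 152) (nat_lit 262424376) (nat_lit 0) (nat_lit 1319005180) (nat_lit 76) (nat_lit 1319005180) (nat_lit 135) (nat_lit 1) (nat_lit 133) (nat_lit 1) (nat_lit 134) (nat_lit 1) (nat_lit 384) (nat_lit 372) (nat_lit 264)) (XT.lf (nat_lit 228) (nat_lit 2255009313) (nat_lit 0) (nat_lit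 307989177) (nat_lit 152) (nat_lit 307989177) (nat_lit 133) (nat_lit 1) (nat_lit 130) (nat_lit 1) (nat_lit 132) (nat_lit 1) (nat_lit 385) (nat_lit 372) (nat_lit 263)))) (XT.nd (nat_lit 156) (nat_lit 304) (nat_lit 0) (XT.nd (nat_lit 78) (nat_lit 76) (nat_lit 0) (XT.lf (nat_lit 76) (nat_lit 678086568) (nat_lit 0) (nat_lit 1485501376) (nat_lit 228) (nat_lit 678086568) (nat_lit 131) (nat_lit 1) (nat_lit 130) (nat_lit 1) (nat_lit 133) (nat_lit 1) (nat_lit 386) (nat_lit 372) (nat_lit 262)) (XT.lf (nat_lit 152) (nat_lit 468952914) (nat_lit 0) (nat_lit 1171919018) (nat_lit 76) (nat_lit 1171919018) (nat_lit 131) (nat_lit 1) (nat_lit 129) (nat_lit 1) (nat_lit 130) (nat_lit 1) (nat_lit 387) (nat_lit 372) (nat_lit 261))) (XT.nd (nat_lit 78) (nat_lit 76) (nat_lit 0) (XT.lf (nat_lit 228) (nat_lit 2391207050) (nat_lit 0) (nat_lit 196588102) (nat_lit 152) (nat_lit 196588102) (nat_lit 129) (nat_lit 1) (nat_lit 126) (nat_lit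 1) (nat_lit 128) (nat_lit 1) (nat_lit 388) (nat_lit 372) (nat_lit 260)) (XT.nd (nat_lit 78) (nat_lit 76) (nat_lit 0) (XT.lf (nat_lit 76) (nat_lit 755843006) (nat_lit 0) (nat_lit 1244296086) (nat_lit 228) (nat_lit 755843006) (nat_lit 127) (nat_lit 1) (nat_lit 126) (nat_lit 1) (nat_lit 129) (nat_lit 1) (nat_lit 389) (nat_lit 372) (nat_lit 259)) (XT.lf (nat_lit 152) (nat_lit 645583110) (nat_lit 0) (nat_lit 1041234869) (nat_lit 76) (nat_lit 1041234869) (nat_lit 127) (nat_lit 1) (nat_lit 125) (nat_lit 1) (nat_lit 126) (nat_lit 1) (nat_lit 390) (nat_lit 372) (nat_lit 258)))))) (XT.nd (nat_lit 390) (nat_lit 304) (nat_lit 0) (XT.nd (nat_lit 156) (nat_lit 304) (nat_lit 0) (XT.nd (nat_lit 78) (nat_lit 0) (nat_lit 0) (XT.lf (nat_lit 228) (nat_lit 2500925893) (nat_lit 0) (nat_lit 99854048) (nat_lit 152) (nat_lit 99854048) (nat_lit 125) (nat_lit 1) (nat_lit 122) (nat_lit 1) (nat_lit 124) (nat_lit 1) (nat_lit 391)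 (nat_lit 372) (nat_lit 257)) (XT.lf (nat_lit 76) (nat_lit 820461452) (nat_lit 0) (nat_lit 1032188872) (nat_lit 228) (nat_lit 820461452) (nat_lit 123) (nat_lit 1) (nat_lit 122) (nat_lit 1) (nat_lit 125) (nat_lit 1) (nat_lit 392) (nat_lit 372) (nat_lit 256))) (XT.nd (nat_lit 78) (nat_lit 228) (nat_lit 0) (XT.lf (nat_lit 152) (nat_lit 795849047) (nat_lit 0) (nat_lit 925123695) (nat_lit 76) (nat_lit 925123695) (nat_lit 123) (nat_lit 1) (nat_lit 121) (nat_lit 1) (nat_lit 122) (nat_lit 1) (nat_lit 393) (nat_lit 372) (nat_lit 255)) (XT.nd (nat_lit 78) (nat_lit 0) (nat_lit 0) (XT.lf (nat_lit 228) (nat_lit 2587447448) (nat_lit 0) (nat_lit 16086082) (nat_lit 152) (nat_lit 16086082) (nat_lit 121) (nat_lit 1) (nat_lit 118) (nat_lit 1) (nat_lit 120) (nat_lit 1) (nat_lit 394) (nat_lit 372) (nat_lit 254)) (XT.lf (nat_lit 76) (nat_lit 873537073) (nat_lit 0) (nat_lit 845870828) (nat_lit 228) (nat_lit 873537073) (nat_lit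 119) (nat_lit 1) (nat_lit 118) (nat_lit 1) (nat_lit 121) (nat_lit 1) (nat_lit 395) (nat_lit 372) (nat_lit 253))))) (XT.nd (nat_lit 156) (nat_lit 228) (nat_lit 0) (XT.nd (nat_lit 78) (nat_lit 0) (nat_lit 0) (XT.lf (nat_lit 152) (nat_lit 922884886) (nat_lit 0) (nat_lit 821960420) (nat_lit 76) (nat_lit 821960420) (nat_lit 119) (nat_lit 1) (nat_lit 117) (nat_lit 1) (nat_lit 118) (nat_lit 1) (nat_lit 396) (nat_lit 372) (nat_lit 252)) (XT.lf (nat_lit 0) (nat_lit 56781831) (nat_lit 0) (nat_lit 2427598014) (nat_lit 152) (nat_lit 56781831) (nat_lit 117) (nat_lit 3) (nat_lit 117) (nat_lit 1) (nat_lit 119) (nat_lit 1) (nat_lit 397) (nat_lit 372) (nat_lit 251))) (XT.nd (nat_lit 78) (nat_lit 76) (nat_lit 0) (XT.lf (nat_lit 76) (nat_lit 916483365) (nat_lit 0) (nat_lit 682403900) (nat_lit 152) (nat_lit 916483365) (nat_lit 116) (nat_lit 1) (nat_lit 115) (nat_lit 1) (nat_lit 117) (nat_lit 1) (nat_lit 398) (nat_lit 372)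 (nat_lit 250)) (XT.nd (nat_lit 78) (nat_lit 0) (nat_lit 0) (XT.lf (nat_lit 152) (nat_lit 1029469632) (nat_lit 0) (nat_lit 730301187) (nat_lit 76) (nat_lit 730301187) (nat_lit 116) (nat_lit 1) (nat_lit 114) (nat_lit 1) (nat_lit 115) (nat_lit 1) (nat_lit 399) (nat_lit 372) (nat_lit 249)) (XT.lf (nat_lit 0) (nat_lit 119591296) (nat_lit 0) (nat_lit 2226030767) (nat_lit 152) (nat_lit 119591296) (nat_lit 114) (nat_lit 3) (nat_lit 114) (nat_lit 1) (nat_lit 116) (nat_lit 1) (nat_lit 400) (nat_lit 372) (nat_lit 248))))))))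
noncomputable def ec170 : XT := (XT.nd (nat_lit 1482) (nat_lit 1064) (nat_lit 0) (XT.nd (nat_lit 702) (nat_lit 760) (nat_lit 0) (XT.nd (nat_lit 312) (nat_lit 304) (nat_lit 0) (XT.nd (nat_lit 156) (nat_lit 152) (nat_lit 0) (XT.nd (nat_lit 78) (nat_lit 76) (nat_lit 0) (XT.lf (nat_lit 76) (nat_lit 950552522) (nat_lit 0) (nat_lit 539179478) (nat_lit 152) (nat_lit 950552522) (nat_lit 113) (nat_lit 1) (nat_lit 112) (nat_lit 1) (nat_lit 114) (nat_lit 1) (nat_lit 401) (nat_lit 372) (nat_lit 247)) (XT.lf (nat_lit 152) (nat_lit 1118066905) (nat_lit 0) (nat_lit 648863146) (nat_lit 76) (nat_lit 648863146) (nat_lit 113) (nat_lit 1) (nat_lit 111) (nat_lit 1) (nat_lit 112) (nat_lit 1) (nat_lit 402) (nat_lit 372) (nat_lit 246))) (XT.nd (nat_lit 78) (nat_lit 152) (nat_lit 0) (XT.lf (nat_lit 0) (nat_lit 173382866) (nat_lit 0) (nat_lit 2044927053) (nat_lit 152) (nat_lit 173382866) (nat_lit 111) (nat_lit 3) (nat_lit 111)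 (nat_lit 1) (nat_lit 113) (nat_lit 1) (nat_lit 403) (nat_lit 372) (nat_lit 245)) (XT.lf (nat_lit 76) (nat_lit 976853529) (nat_lit 0) (nat_lit 413881606) (nat_lit 152) (nat_lit 976853529) (nat_lit 110) (nat_lit 1) (nat_lit 109) (nat_lit 1) (nat_lit 111) (nat_lit 1) (nat_lit 404) (nat_lit 372) (nat_lit 244)))) (XT.nd (nat_lit 156) (nat_lit 228) (nat_lit 0) (XT.nd (nat_lit 78) (nat_lit 0) (nat_lit 0) (XT.lf (nat_lit 152) (nat_lit 1190860266) (nat_lit 0) (nat_lit 576506501) (nat_lit 76) (nat_lit 576506501) (nat_lit 110) (nat_lit 1) (nat_lit 108) (nat_lit 1) (nat_lit 109) (nat_lit 1) (nat_lit 405) (nat_lit 372) (nat_lit 243)) (XT.lf (nat_lit 0) (nat_lit 219220807) (nat_lit 0) (nat_lit 1882063577) (nat_lit 152) (nat_lit 219220807) (nat_lit 108) (nat_lit 3) (nat_lit 108) (nat_lit 1) (nat_lit 110) (nat_lit 1) (nat_lit 406) (nat_lit 372) (nat_lit 242))) (XT.nd (nat_lit 78) (nat_lit 76) (nat_lit 0) (XT.lf (nat_lit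 76) (nat_lit 996368237) (nat_lit 0) (nat_lit 304454294) (nat_lit 152) (nat_lit 996368237) (nat_lit 107) (nat_lit 1) (nat_lit 106) (nat_lit 1) (nat_lit 108) (nat_lit 1) (nat_lit 407) (nat_lit 372) (nat_lit 241)) (XT.nd (nat_lit 78) (nat_lit 0) (nat_lit 0) (XT.lf (nat_lit 152) (nat_lit 1249784603) (nat_lit 0) (nat_lit 512218559) (nat_lit 76) (nat_lit 512218559) (nat_lit 107) (nat_lit 1) (nat_lit 105) (nat_lit 1) (nat_lit 106) (nat_lit 1) (nat_lit 408) (nat_lit 372) (nat_lit 240)) (XT.lf (nat_lit 0) (nat_lit 258049000) (nat_lit 0) (nat_lit 1735463264) (nat_lit 152) (nat_lit 258049000) (nat_lit 105) (nat_lit 3) (nat_lit 105) (nat_lit 1) (nat_lit 107) (nat_lit 1) (nat_lit 409) (nat_lit 372) (nat_lit 239)))))) (XT.nd (nat_lit 390) (nat_lit 304) (nat_lit 0) (XT.nd (nat_lit 156) (nat_lit 228) (nat_lit 0) (XT.nd (nat_lit 78) (nat_lit 76) (nat_lit 0) (XT.lf (nat_lit 76) (nat_lit 1009965642) (nat_lit 0) (nat_lit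 209072481) (nat_lit 152) (nat_lit 1009965642) (nat_lit 104) (nat_lit 1) (nat_lit 103) (nat_lit 1) (nat_lit 105) (nat_lit 1) (nat_lit 410) (nat_lit 372) (nat_lit 238)) (XT.lf (nat_lit 152) (nat_lit 1296554016) (nat_lit 0) (nat_lit 455099555) (nat_lit 76) (nat_lit 455099555) (nat_lit 104) (nat_lit 1) (nat_lit 102) (nat_lit 1) (nat_lit 103) (nat_lit 1) (nat_lit 411) (nat_lit 372) (nat_lit 237))) (XT.nd (nat_lit 78) (nat_lit 228) (nat_lit 0) (XT.lf (nat_lit 0) (nat_lit 290704410) (nat_lit 0) (nat_lit 1603367848) (nat_lit 152) (nat_lit 290704410) (nat_lit 102) (nat_lit 3) (nat_lit 102) (nat_lit 1) (nat_lit 104) (nat_lit 1) (nat_lit 412) (nat_lit 372) (nat_lit 236)) (XT.nd (nat_lit 78) (nat_lit 76) (nat_lit 0) (XT.lf (nat_lit 76) (nat_lit 1018414564) (nat_lit 0) (nat_lit 126116235) (nat_lit 152) (nat_lit 1018414564) (nat_lit 101) (nat_lit 1) (nat_lit 100) (nat_lit 1) (nat_lit 102) (nat_lit 1) (nat_lit 413)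 (nat_lit 372) (nat_lit 235)) (XT.lf (nat_lit 152) (nat_lit 1332686580) (nat_lit 0) (nat_lit 404350060) (nat_lit 76) (nat_lit 404350060) (nat_lit 101) (nat_lit 1) (nat_lit 99) (nat_lit 1) (nat_lit 100) (nat_lit 1) (nat_lit 414) (nat_lit 372) (nat_lit 234))))) (XT.nd (nat_lit 156) (nat_lit 152) (nat_lit 0) (XT.nd (nat_lit 78) (nat_lit 152) (nat_lit 0) (XT.lf (nat_lit 0) (nat_lit 317929060) (nat_lit 0) (nat_lit 1484213523) (nat_lit 152) (nat_lit 317929060) (nat_lit 99) (nat_lit 3) (nat_lit 99) (nat_lit 1) (nat_lit 101) (nat_lit 1) (nat_lit 415) (nat_lit 372) (nat_lit 233)) (XT.lf (nat_lit 76) (nat_lit 1022394919) (nat_lit 0) (nat_lit 54147828) (nat_lit 152) (nat_lit 1022394919) (nat_lit 98) (nat_lit 1) (nat_lit 97) (nat_lit 1) (nat_lit 99) (nat_lit 1) (nat_lit 416) (nat_lit 372) (nat_lit 232))) (XT.nd (nat_lit 78) (nat_lit 76) (nat_lit 0) (XT.lf (nat_lit 152) (nat_lit 1359526347) (nat_lit 0) (nat_lit 359259792)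 (nat_lit 76) (nat_lit 359259792) (nat_lit 98) (nat_lit 1) (nat_lit 96) (nat_lit 1) (nat_lit 97) (nat_lit 1) (nat_lit 417) (nat_lit 372) (nat_lit 231)) (XT.nd (nat_lit 78) (nat_lit 76) (nat_lit 0) (XT.lf (nat_lit 0) (nat_lit 340380665) (nat_lit 0) (nat_lit 1376609304) (nat_lit 152) (nat_lit 340380665) (nat_lit 96) (nat_lit 3) (nat_lit 96) (nat_lit 1) (nat_lit 98) (nat_lit 1) (nat_lit 418) (nat_lit 372) (nat_lit 230)) (XT.lf (nat_lit 76) (nat_lit 8269997) (nat_lit 0) (nat_lit 1014317220) (nat_lit 76) (nat_lit 1014317220) (nat_lit 96) (nat_lit 3) (nat_lit 95) (nat_lit 1) (nat_lit 96) (nat_lit 1) (nat_lit 419) (nat_lit 372) (nat_lit 229))))))) (XT.nd (nat_lit 702) (nat_lit 380) (nat_lit 0) (XT.nd (nat_lit 312) (nat_lit 304) (nat_lit 0) (XT.nd (nat_lit 156) (nat_lit 228) (nat_lit 0) (XT.nd (nat_lit 78) (nat_lit 0) (nat_lit 0) (XT.lf (nat_lit 152) (nat_lit 1378262893) (nat_lit 0) (nat_lit 319197672) (nat_lit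 76) (nat_lit 319197672) (nat_lit 95) (nat_lit 1) (nat_lit 93) (nat_lit 1) (nat_lit 94) (nat_lit 1) (nat_lit 420) (nat_lit 372) (nat_lit 228)) (XT.lf (nat_lit 0) (nat_lit 358642076) (nat_lit 0) (nat_lit 1279317801) (nat_lit 152) (nat_lit 358642076) (nat_lit 93) (nat_lit 3) (nat_lit 93) (nat_lit 1) (nat_lit 95) (nat_lit 1) (nat_lit 421) (nat_lit 372) (nat_lit 227))) (XT.nd (nat_lit 78) (nat_lit 152) (nat_lit 0) (XT.lf (nat_lit 76) (nat_lit 63014890) (nat_lit 0) (nat_lit 956874817) (nat_lit 76) (nat_lit 956874817) (nat_lit 93) (nat_lit 3) (nat_lit 92) (nat_lit 1) (nat_lit 93) (nat_lit 1) (nat_lit 422) (nat_lit 372) (nat_lit 226)) (XT.lf (nat_lit 152) (nat_lit 1389948673) (nat_lit 0) (nat_lit 283602997) (nat_lit 76) (nat_lit 283602997) (nat_lit 92) (nat_lit 1) (nat_lit 90) (nat_lit 1) (nat_lit 91) (nat_lit 1) (nat_lit 423) (nat_lit 372) (nat_lit 225)))) (XT.nd (nat_lit 156) (nat_lit 228) (nat_lit 0) (XT.nd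 (nat_lit 78) (nat_lit 76) (nat_lit 0) (XT.lf (nat_lit 0) (nat_lit 373229679) (nat_lit 0) (nat_lit 1191238136) (nat_lit 152) (nat_lit 373229679) (nat_lit 90) (nat_lit 3) (nat_lit 90) (nat_lit 1) (nat_lit 92) (nat_lit 1) (nat_lit 424) (nat_lit 372) (nat_lit 224)) (XT.lf (nat_lit 76) (nat_lit 110033647) (nat_lit 0) (nat_lit 904216615) (nat_lit 76) (nat_lit 904216615) (nat_lit 90) (nat_lit 3) (nat_lit 89) (nat_lit 1) (nat_lit 90) (nat_lit 1) (nat_lit 425) (nat_lit 372) (nat_lit 223))) (XT.nd (nat_lit 78) (nat_lit 76) (nat_lit 0) (XT.lf (nat_lit 152) (nat_lit 1395514445) (nat_lit 0) (nat_lit 251977589) (nat_lit 76) (nat_lit 251977589) (nat_lit 89) (nat_lit 1) (nat_lit 87) (nat_lit 1) (nat_lit 88) (nat_lit 1) (nat_lit 426) (nat_lit 372) (nat_lit 222)) (XT.nd (nat_lit 78) (nat_lit 76) (nat_lit 0) (XT.lf (nat_lit 0) (nat_lit 384600842) (nat_lit 0) (nat_lit 1111390761) (nat_lit 152) (nat_lit 384600842) (nat_lit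 87) (nat_lit 3) (nat_lit 87) (nat_lit 1) (nat_lit 89) (nat_lit 1) (nat_lit 427) (nat_lit 372) (nat_lit 221)) (XT.lf (nat_lit 76) (nat_lit 150235056) (nat_lit 0) (nat_lit 855856336) (nat_lit 76) (nat_lit 855856336) (nat_lit 87) (nat_lit 3) (nat_lit 86) (nat_lit 1) (nat_lit 87) (nat_lit 1) (nat_lit 428) (nat_lit 372) (nat_lit 220)))))) (XT.nd (nat_lit 41028) (nat_lit 0) (nat_lit 22268) (XT.nd (nat_lit 156) (nat_lit 228) (nat_lit 0) (XT.nd (nat_lit 78) (nat_lit 0) (nat_lit 0) (XT.lf (nat_lit 152) (nat_lit 1395782968) (nat_lit 0) (nat_lit 223878824) (nat_lit 76) (nat_lit 223878824) (nat_lit 86) (nat_lit 1) (nat_lit 84) (nat_lit 1) (nat_lit 85) (nat_lit 1) (nat_lit 429) (nat_lit 372) (nat_lit 219)) (XT.lf (nat_lit 0) (nat_lit 393160543) (nat_lit 0) (nat_lit 1038903972) (nat_lit 152) (nat_lit 393160543) (nat_lit 84) (nat_lit 3) (nat_lit 84) (nat_lit 1) (nat_lit 86) (nat_lit 1) (nat_lit 430) (nat_lit 372)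 (nat_lit 218))) (XT.nd (nat_lit 78) (nat_lit 152) (nat_lit 0) (XT.lf (nat_lit 76) (nat_lit 184425188) (nat_lit 0) (nat_lit 811360557) (nat_lit 76) (nat_lit 811360557) (nat_lit 84) (nat_lit 3) (nat_lit 83) (nat_lit 1) (nat_lit 84) (nat_lit 1) (nat_lit 431) (nat_lit 372) (nat_lit 217)) (XT.nd (nat_lit 78) (nat_lit 0) (nat_lit 0) (XT.lf (nat_lit 152) (nat_lit 1391481165) (nat_lit 0) (nat_lit 198913436) (nat_lit 76) (nat_lit 198913436) (nat_lit 83) (nat_lit 1) (nat_lit 81) (nat_lit 1) (nat_lit 82) (nat_lit 1) (nat_lit 432) (nat_lit 372) (nat_lit 216)) (XT.lf (nat_lit 0) (nat_lit 399267250) (nat_lit 0) (nat_lit 973001923) (nat_lit 152) (nat_lit 399267250) (nat_lit 81) (nat_lit 3) (nat_lit 81) (nat_lit 1) (nat_lit 83) (nat_lit 1) (nat_lit 433) (nat_lit 372) (nat_lit 215))))) (XT.nd (nat_lit 156) (nat_lit 0) (nat_lit 76) (XT.nd (nat_lit 78) (nat_lit 0) (nat_lit 0) (XT.lf (nat_lit 1292) (nat_lit 989220465)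 (nat_lit 0) (nat_lit 3403378456) (nat_lit 1292) (nat_lit 989220465) (nat_lit 391) (nat_lit 1) (nat_lit 374) (nat_lit 0) (nat_lit 391) (nat_lit 0) (nat_lit 274) (nat_lit 373) (nat_lit 373)) (XT.lf (nat_lit 1292) (nat_lit 3865890912) (nat_lit 76) (nat_lit 3370012001) (nat_lit 0) (nat_lit 3370012001) (nat_lit 391) (nat_lit 1) (nat_lit 375) (nat_lit 1) (nat_lit 374) (nat_lit 0) (nat_lit 275) (nat_lit 373) (nat_lit 372))) (XT.nd (nat_lit 78) (nat_lit 0) (nat_lit 0) (XT.lf (nat_lit 1292) (nat_lit 1869637019) (nat_lit 0) (nat_lit 6712396077) (nat_lit 1216) (nat_lit 1869637019) (nat_lit 392) (nat_lit 1) (nat_lit 375) (nat_lit 1) (nat_lit 391) (nat_lit 1) (nat_lit 276) (nat_lit 373) (nat_lit 371)) (XT.nd (nat_lit 78) (nat_lit 0) (nat_lit 76) (XT.lf (nat_lit 1292) (nat_lit 3550537229) (nat_lit 76) (nat_lit 3374731960) (nat_lit 0) (nat_lit 3374731960) (nat_lit 392) (nat_lit 1) (nat_lit 376) (nat_lit 1) (nat_lit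 375) (nat_lit 1) (nat_lit 277) (nat_lit 373) (nat_lit 370)) (XT.lf (nat_lit 1292) (nat_lit 1666071887) (nat_lit 0) (nat_lit 6819582054) (nat_lit 1216) (nat_lit 1666071887) (nat_lit 393) (nat_lit 1) (nat_lit 376) (nat_lit 1) (nat_lit 392) (nat_lit 1) (nat_lit 278) (nat_lit 373) (nat_lit 369))))))))
noncomputable def ec171 : XT := (XT.nd (nat_lit 1482) (nat_lit 5548) (nat_lit 0) (XT.nd (nat_lit 702) (nat_lit 1900) (nat_lit 0) (XT.nd (nat_lit 312) (nat_lit 988) (nat_lit 0) (XT.nd (nat_lit 156) (nat_lit 0) (nat_lit 76) (XT.nd (nat_lit 78) (nat_lit 0) (nat_lit 76) (XT.lf (nat_lit 1292) (nat_lit 3053252647) (nat_lit 76) (nat_lit 3476284610) (nat_lit 0) (nat_lit 3476284610) (nat_lit 393) (nat_lit 1) (nat_lit 377) (nat_lit 1) (nat_lit 376) (nat_lit 1) (nat_lit 279) (nat_lit 373) (nat_lit 368)) (XT.lf (nat_lit 1292) (nat_lit 1376127169) (nat_lit 0) (nat_lit 7111032707) (nat_lit 1216) (nat_lit 1376127169) (nat_lit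 394) (nat_lit 1) (nat_lit 377) (nat_lit 1) (nat_lit 393) (nat_lit 1) (nat_lit 280) (nat_lit 373) (nat_lit 367))) (XT.nd (nat_lit 78) (nat_lit 0) (nat_lit 76) (XT.lf (nat_lit 1292) (nat_lit 2390306963) (nat_lit 76) (nat_lit 3666283097) (nat_lit 0) (nat_lit 3666283097) (nat_lit 394) (nat_lit 1) (nat_lit 378) (nat_lit 1) (nat_lit 377) (nat_lit 1) (nat_lit 281) (nat_lit 373) (nat_lit 366)) (XT.lf (nat_lit 1292) (nat_lit 1007617669) (nat_lit 0) (nat_lit 7570624344) (nat_lit 1216) (nat_lit 1007617669) (nat_lit 395) (nat_lit 1) (nat_lit 378) (nat_lit 1) (nat_lit 394) (nat_lit 1) (nat_lit 282) (nat_lit 373) (nat_lit 365)))) (XT.nd (nat_lit 156) (nat_lit 1140) (nat_lit 0) (XT.nd (nat_lit 78) (nat_lit 0) (nat_lit 76) (XT.lf (nat_lit 1292) (nat_lit 1576866324) (nat_lit 76) (nat_lit 3936904384) (nat_lit 0) (nat_lit 3936904384) (nat_lit 395) (nat_lit 1) (nat_lit 379) (nat_lit 1) (nat_lit 378) (nat_lit 1) (nat_lit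 283) (nat_lit 373) (nat_lit 364)) (XT.lf (nat_lit 1292) (nat_lit 567826400) (nat_lit 0) (nat_lit 8183320382) (nat_lit 1216) (nat_lit 567826400) (nat_lit 396) (nat_lit 1) (nat_lit 379) (nat_lit 1) (nat_lit 395) (nat_lit 1) (nat_lit 284) (nat_lit 373) (nat_lit 363))) (XT.nd (nat_lit 78) (nat_lit 1216) (nat_lit 0) (XT.lf (nat_lit 1292) (nat_lit 627061525) (nat_lit 76) (nat_lit 4280854484) (nat_lit 0) (nat_lit 4280854484) (nat_lit 396) (nat_lit 1) (nat_lit 380) (nat_lit 1) (nat_lit 379) (nat_lit 1) (nat_lit 285) (nat_lit 373) (nat_lit 362)) (XT.nd (nat_lit 78) (nat_lit 1292) (nat_lit 0) (XT.lf (nat_lit 1292) (nat_lit 63537529) (nat_lit 0) (nat_lit 8935104228) (nat_lit 1216) (nat_lit 63537529) (nat_lit 397) (nat_lit 1) (nat_lit 380) (nat_lit 1) (nat_lit 396) (nat_lit 1) (nat_lit 286) (nat_lit 373) (nat_lit 361)) (XT.lf (nat_lit 1368) (nat_lit 4249674730) (nat_lit 0) (nat_lit 437245710) (nat_lit 1292) (nat_lit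 4249674730) (nat_lit 381) (nat_lit 1) (nat_lit 363) (nat_lit 1) (nat_lit 380) (nat_lit 1) (nat_lit 287) (nat_lit 373) (nat_lit 360)))))) (XT.nd (nat_lit 390) (nat_lit 1216) (nat_lit 0) (XT.nd (nat_lit 156) (nat_lit 684) (nat_lit 0) (XT.nd (nat_lit 78) (nat_lit 0) (nat_lit 76) (XT.lf (nat_lit 1368) (nat_lit 7826390201) (nat_lit 76) (nat_lit 494041135) (nat_lit 0) (nat_lit 494041135) (nat_lit 381) (nat_lit 1) (nat_lit 364) (nat_lit 1) (nat_lit 363) (nat_lit 1) (nat_lit 288) (nat_lit 373) (nat_lit 359)) (XT.lf (nat_lit 1368) (nat_lit 3547771342) (nat_lit 0) (nat_lit 1598107098) (nat_lit 1292) (nat_lit 3547771342) (nat_lit 382) (nat_lit 1) (nat_lit 364) (nat_lit 1) (nat_lit 381) (nat_lit 1) (nat_lit 289) (nat_lit 373) (nat_lit 358))) (XT.nd (nat_lit 78) (nat_lit 760) (nat_lit 0) (XT.lf (nat_lit 1368) (nat_lit 6370314274) (nat_lit 76) (nat_lit 1102787794) (nat_lit 0) (nat_lit 1102787794) (nat_lit 382) (nat_lit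 1) (nat_lit 365) (nat_lit 1) (nat_lit 364) (nat_lit 1) (nat_lit 290) (nat_lit 373) (nat_lit 357)) (XT.nd (nat_lit 78) (nat_lit 836) (nat_lit 0) (XT.lf (nat_lit 76) (nat_lit 2801568301) (nat_lit 0) (nat_lit 2856586178) (nat_lit 1292) (nat_lit 2801568301) (nat_lit 366) (nat_lit 1) (nat_lit 365) (nat_lit 1) (nat_lit 382) (nat_lit 1) (nat_lit 291) (nat_lit 373) (nat_lit 356)) (XT.lf (nat_lit 912) (nat_lit 4830298163) (nat_lit 0) (nat_lit 1757912670) (nat_lit 836) (nat_lit 1757912670) (nat_lit 366) (nat_lit 1) (nat_lit 354) (nat_lit 1) (nat_lit 365) (nat_lit 1) (nat_lit 292) (nat_lit 373) (nat_lit 355))))) (XT.nd (nat_lit 156) (nat_lit 608) (nat_lit 0) (XT.nd (nat_lit 78) (nat_lit 608) (nat_lit 0) (XT.lf (nat_lit 76) (nat_lit 2016072424) (nat_lit 0) (nat_lit 4202295143) (nat_lit 912) (nat_lit 2016072424) (nat_lit 355) (nat_lit 1) (nat_lit 354) (nat_lit 1) (nat_lit 366) (nat_lit 1) (nat_lit 293) (nat_lit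 373) (nat_lit 354)) (XT.lf (nat_lit 684) (nat_lit 3216039745) (nat_lit 0) (nat_lit 2454384841) (nat_lit 608) (nat_lit 2454384841) (nat_lit 355) (nat_lit 1) (nat_lit 346) (nat_lit 1) (nat_lit 354) (nat_lit 1) (nat_lit 294) (nat_lit 373) (nat_lit 353))) (XT.nd (nat_lit 78) (nat_lit 608) (nat_lit 0) (XT.lf (nat_lit 76) (nat_lit 1195931357) (nat_lit 0) (nat_lit 5625581834) (nat_lit 684) (nat_lit 1195931357) (nat_lit 347) (nat_lit 1) (nat_lit 346) (nat_lit 1) (nat_lit 355) (nat_lit 1) (nat_lit 295) (nat_lit 373) (nat_lit 352)) (XT.nd (nat_lit 78) (nat_lit 0) (nat_lit 0) (XT.lf (nat_lit 684) (nat_lit 1536538079) (nat_lit 0) (nat_lit 3187531166) (nat_lit 608) (nat_lit 3187531166) (nat_lit 347) (nat_lit 1) (nat_lit 338) (nat_lit 1) (nat_lit 346) (nat_lit 1) (nat_lit 296) (nat_lit 373) (nat_lit 351)) (XT.lf (nat_lit 76) (nat_lit 345456281) (nat_lit 0) (nat_lit 7117483448) (nat_lit 684) (nat_lit 345456281) (nat_lit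 339) (nat_lit 1) (nat_lit 338) (nat_lit 1) (nat_lit 347) (nat_lit 1) (nat_lit 297) (nat_lit 373) (nat_lit 350))))))) (XT.nd (nat_lit 702) (nat_lit 2204) (nat_lit 0) (XT.nd (nat_lit 312) (nat_lit 1596) (nat_lit 0) (XT.nd (nat_lit 156) (nat_lit 532) (nat_lit 0) (XT.nd (nat_lit 78) (nat_lit 608) (nat_lit 0) (XT.lf (nat_lit 76) (nat_lit 3755072610) (nat_lit 0) (nat_lit 195962300) (nat_lit 608) (nat_lit 3755072610) (nat_lit 331) (nat_lit 1) (nat_lit 330) (nat_lit 1) (nat_lit 338) (nat_lit 1) (nat_lit 298) (nat_lit 373) (nat_lit 349)) (XT.lf (nat_lit 684) (nat_lit 6554058778) (nat_lit 0) (nat_lit 526147368) (nat_lit 608) (nat_lit 526147368) (nat_lit 331) (nat_lit 1) (nat_lit 322) (nat_lit 1) (nat_lit 330) (nat_lit 1) (nat_lit 299) (nat_lit 373) (nat_lit 348))) (XT.nd (nat_lit 78) (nat_lit 532) (nat_lit 0) (XT.lf (nat_lit 76) (nat_lit 2780463921) (nat_lit 0) (nat_lit 1946687073) (nat_lit 684) (nat_lit 2780463921)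 (nat_lit 323) (nat_lit 1) (nat_lit 322) (nat_lit 1) (nat_lit 331) (nat_lit 1) (nat_lit 300) (nat_lit 373) (nat_lit 347)) (XT.lf (nat_lit 608) (nat_lit 4577637884) (nat_lit 0) (nat_lit 1416779218) (nat_lit 532) (nat_lit 1416779218) (nat_lit 323) (nat_lit 1) (nat_lit 315) (nat_lit 1) (nat_lit 322) (nat_lit 1) (nat_lit 301) (nat_lit 373) (nat_lit 346)))) (XT.nd (nat_lit 156) (nat_lit 1064) (nat_lit 0) (XT.nd (nat_lit 78) (nat_lit 532) (nat_lit 0) (XT.lf (nat_lit 76) (nat_lit 1788832145) (nat_lit 0) (nat_lit 3738601651) (nat_lit 608) (nat_lit 1788832145) (nat_lit 316) (nat_lit 1) (nat_lit 315) (nat_lit 1) (nat_lit 323) (nat_lit 1) (nat_lit 302) (nat_lit 373) (nat_lit 345)) (XT.lf (nat_lit 608) (nat_lit 2570163185) (nat_lit 0) (nat_lit 2326434889) (nat_lit 532) (nat_lit 2326434889) (nat_lit 316) (nat_lit 1) (nat_lit 308) (nat_lit 1) (nat_lit 315) (nat_lit 1) (nat_lit 303) (nat_lit 373) (nat_lit 344))) (XT.nd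 (nat_lit 78) (nat_lit 1064) (nat_lit 0) (XT.lf (nat_lit 76) (nat_lit 783279806) (nat_lit 0) (nat_lit 5565214718) (nat_lit 608) (nat_lit 783279806) (nat_lit 309) (nat_lit 1) (nat_lit 308) (nat_lit 1) (nat_lit 316) (nat_lit 1) (nat_lit 304) (nat_lit 373) (nat_lit 343)) (XT.nd (nat_lit 78) (nat_lit 608) (nat_lit 0) (XT.lf (nat_lit 532) (nat_lit 537626281) (nat_lit 0) (nat_lit 3251979140) (nat_lit 456) (nat_lit 3251979140) (nat_lit 309) (nat_lit 1) (nat_lit 302) (nat_lit 1) (nat_lit 308) (nat_lit 1) (nat_lit 305) (nat_lit 373) (nat_lit 342)) (XT.lf (nat_lit 608) (nat_lit 6491510092) (nat_lit 0) (nat_lit 231043019) (nat_lit 532) (nat_lit 231043019) (nat_lit 302) (nat_lit 1) (nat_lit 294) (nat_lit 1) (nat_lit 301) (nat_lit 1) (nat_lit 306) (nat_lit 373) (nat_lit 341)))))) (XT.nd (nat_lit 390) (nat_lit 1292) (nat_lit 0) (XT.nd (nat_lit 156) (nat_lit 456) (nat_lit 0) (XT.nd (nat_lit 78) (nat_lit 456) (nat_lit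 0) (XT.lf (nat_lit 76) (nat_lit 2690626252) (nat_lit 0) (nat_lit 1484895431) (nat_lit 608) (nat_lit 2690626252) (nat_lit 295) (nat_lit 1) (nat_lit 294) (nat_lit 1) (nat_lit 302) (nat_lit 1) (nat_lit 307) (nat_lit 373) (nat_lit 340)) (XT.lf (nat_lit 532) (nat_lit 4288774718) (nat_lit 0) (nat_lit 1246024021) (nat_lit 456) (nat_lit 1246024021) (nat_lit 295) (nat_lit 1) (nat_lit 288) (nat_lit 1) (nat_lit 294) (nat_lit 1) (nat_lit 308) (nat_lit 373) (nat_lit 339))) (XT.nd (nat_lit 78) (nat_lit 456) (nat_lit 0) (XT.lf (nat_lit 76) (nat_lit 1592826778) (nat_lit 0) (nat_lit 3511092438) (nat_lit 532) (nat_lit 1592826778) (nat_lit 289) (nat_lit 1) (nat_lit 288) (nat_lit 1) (nat_lit 295) (nat_lit 1) (nat_lit 309) (nat_lit 373) (nat_lit 338)) (XT.nd (nat_lit 78) (nat_lit 0) (nat_lit 0) (XT.lf (nat_lit 532) (nat_lit 2080239664) (nat_lit 0) (nat_lit 2266937904) (nat_lit 456) (nat_lit 2266937904) (nat_lit 289) (nat_lit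 1) (nat_lit 282) (nat_lit 1) (nat_lit 288) (nat_lit 1) (nat_lit 310) (nat_lit 373) (nat_lit 337)) (XT.lf (nat_lit 76) (nat_lit 493212929) (nat_lit 0) (nat_lit 5546865907) (nat_lit 532) (nat_lit 493212929) (nat_lit 283) (nat_lit 1) (nat_lit 282) (nat_lit 1) (nat_lit 289) (nat_lit 1) (nat_lit 311) (nat_lit 373) (nat_lit 336))))) (XT.nd (nat_lit 156) (nat_lit 380) (nat_lit 0) (XT.nd (nat_lit 78) (nat_lit 456) (nat_lit 0) (XT.lf (nat_lit 76) (nat_lit 3162912731) (nat_lit 0) (nat_lit 127375310) (nat_lit 456) (nat_lit 3162912731) (nat_lit 277) (nat_lit 1) (nat_lit 276) (nat_lit 1) (nat_lit 282) (nat_lit 1) (nat_lit 312) (nat_lit 373) (nat_lit 335)) (XT.lf (nat_lit 532) (nat_lit 5174292100) (nat_lit 0) (nat_lit 600279453) (nat_lit 456) (nat_lit 600279453) (nat_lit 277) (nat_lit 1) (nat_lit 270) (nat_lit 1) (nat_lit 276) (nat_lit 1) (nat_lit 313) (nat_lit 373) (nat_lit 334))) (XT.nd (nat_lit 78) (nat_lit 380)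 (nat_lit 0) (XT.lf (nat_lit 76) (nat_lit 2002533964) (nat_lit 0) (nat_lit 2292223191) (nat_lit 532) (nat_lit 2002533964) (nat_lit 271) (nat_lit 1) (nat_lit 270) (nat_lit 1) (nat_lit 277) (nat_lit 1) (nat_lit 314) (nat_lit 373) (nat_lit 333)) (XT.nd (nat_lit 78) (nat_lit 0) (nat_lit 0) (XT.lf (nat_lit 456) (nat_lit 2847426055) (nat_lit 0) (nat_lit 1686954829) (nat_lit 380) (nat_lit 1686954829) (nat_lit 271) (nat_lit 1) (nat_lit 265) (nat_lit 1) (nat_lit 270) (nat_lit 1) (nat_lit 315) (nat_lit 373) (nat_lit 332)) (XT.lf (nat_lit 76) (nat_lit 847654784) (nat_lit 0) (nat_lit 4451461894) (nat_lit 456) (nat_lit 847654784) (nat_lit 266) (nat_lit 1) (nat_lit 265) (nat_lit 1) (nat_lit 271) (nat_lit 1) (nat_lit 316) (nat_lit 373) (nat_lit 331))))))))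
noncomputable def ec172 : XT := (XT.nd (nat_lit 1404) (nat_lit 3040) (nat_lit 0) (XT.nd (nat_lit 702) (nat_lit 1596) (nat_lit 0) (XT.nd (nat_lit 312) (nat_lit 1064) (nat_lit 0) (XT.nd (nat_lit 156) (nat_lit 380) (nat_lit 0) (XT.nd (nat_lit 78) (nat_lit 456) (nat_lit 0) (XT.lf (nat_lit 456) (nat_lit 533108089) (nat_lit 0) (nat_lit 2769999889) (nat_lit 380) (nat_lit 2769999889) (nat_lit 266) (nat_lit 1) (nat_lit 260) (nat_lit 1) (nat_lit 265) (nat_lit 1) (nat_lit 317) (nat_lit 373) (nat_lit 330)) (XT.lf (nat_lit 456) (nat_lit 5406454277) (nat_lit 0) (nat_lit 297316848) (nat_lit 380) (nat_lit 297316848) (nat_lit 260) (nat_lit 1) (nat_lit 254) (nat_lit 1) (nat_lit 259) (nat_lit 1) (nat_lit 318) (nat_lit 373) (nat_lit 329))) (XT.nd (nat_lit 78) (nat_lit 380) (nat_lit 0) (XT.lf (nat_lit 76) (nat_lit 2099029232) (nat_lit 0) (nat_lit 1731398917) (nat_lit 456) (nat_lit 2099029232) (nat_lit 255) (nat_lit 1) (nat_lit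 254) (nat_lit 1) (nat_lit 260) (nat_lit 1) (nat_lit 319) (nat_lit 373) (nat_lit 328)) (XT.lf (nat_lit 456) (nat_lit 3007884149) (nat_lit 0) (nat_lit 1425767283) (nat_lit 380) (nat_lit 1425767283) (nat_lit 255) (nat_lit 1) (nat_lit 249) (nat_lit 1) (nat_lit 254) (nat_lit 1) (nat_lit 320) (nat_lit 373) (nat_lit 327)))) (XT.nd (nat_lit 156) (nat_lit 760) (nat_lit 0) (XT.nd (nat_lit 78) (nat_lit 304) (nat_lit 0) (XT.lf (nat_lit 76) (nat_lit 911297036) (nat_lit 0) (nat_lit 3967958530) (nat_lit 456) (nat_lit 911297036) (nat_lit 250) (nat_lit 1) (nat_lit 249) (nat_lit 1) (nat_lit 255) (nat_lit 1) (nat_lit 321) (nat_lit 373) (nat_lit 326)) (XT.lf (nat_lit 380) (nat_lit 632925454) (nat_lit 0) (nat_lit 2544816894) (nat_lit 304) (nat_lit 2544816894) (nat_lit 250) (nat_lit 1) (nat_lit 245) (nat_lit 1) (nat_lit 249) (nat_lit 1) (nat_lit 322) (nat_lit 373) (nat_lit 325))) (XT.nd (nat_lit 78) (nat_lit 304) (nat_lit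 0) (XT.lf (nat_lit 456) (nat_lit 5132878259) (nat_lit 0) (nat_lit 261589609) (nat_lit 380) (nat_lit 261589609) (nat_lit 245) (nat_lit 1) (nat_lit 239) (nat_lit 1) (nat_lit 244) (nat_lit 1) (nat_lit 323) (nat_lit 373) (nat_lit 324)) (XT.nd (nat_lit 78) (nat_lit 304) (nat_lit 0) (XT.lf (nat_lit 76) (nat_lit 1953437431) (nat_lit 0) (nat_lit 1682960378) (nat_lit 456) (nat_lit 1953437431) (nat_lit 240) (nat_lit 1) (nat_lit 239) (nat_lit 1) (nat_lit 245) (nat_lit 1) (nat_lit 324) (nat_lit 373) (nat_lit 323)) (XT.lf (nat_lit 380) (nat_lit 2700080690) (nat_lit 0) (nat_lit 1412490272) (nat_lit 304) (nat_lit 1412490272) (nat_lit 240) (nat_lit 1) (nat_lit 235) (nat_lit 1) (nat_lit 239) (nat_lit 1) (nat_lit 325) (nat_lit 373) (nat_lit 322)))))) (XT.nd (nat_lit 312) (nat_lit 912) (nat_lit 0) (XT.nd (nat_lit 156) (nat_lit 380) (nat_lit 0) (XT.nd (nat_lit 78) (nat_lit 304) (nat_lit 0) (XT.lf (nat_lit 76) (nat_lit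 750851195) (nat_lit 0) (nat_lit 3959692814) (nat_lit 380) (nat_lit 750851195) (nat_lit 236) (nat_lit 1) (nat_lit 235) (nat_lit 1) (nat_lit 240) (nat_lit 1) (nat_lit 326) (nat_lit 373) (nat_lit 321)) (XT.lf (nat_lit 380) (nat_lit 299407796) (nat_lit 0) (nat_lit 2549522517) (nat_lit 304) (nat_lit 2549522517) (nat_lit 236) (nat_lit 1) (nat_lit 231) (nat_lit 1) (nat_lit 235) (nat_lit 1) (nat_lit 327) (nat_lit 373) (nat_lit 320))) (XT.nd (nat_lit 78) (nat_lit 0) (nat_lit 0) (XT.lf (nat_lit 380) (nat_lit 4474457228) (nat_lit 0) (nat_lit 431147682) (nat_lit 304) (nat_lit 431147682) (nat_lit 231) (nat_lit 1) (nat_lit 226) (nat_lit 1) (nat_lit 230) (nat_lit 1) (nat_lit 328) (nat_lit 373) (nat_lit 319)) (XT.lf (nat_lit 76) (nat_lit 1623986953) (nat_lit 0) (nat_lit 2027501378) (nat_lit 380) (nat_lit 1623986953) (nat_lit 227) (nat_lit 1) (nat_lit 226) (nat_lit 1) (nat_lit 231) (nat_lit 1) (nat_lit 329) (nat_lit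 373) (nat_lit 318)))) (XT.nd (nat_lit 156) (nat_lit 608) (nat_lit 0) (XT.nd (nat_lit 78) (nat_lit 0) (nat_lit 0) (XT.lf (nat_lit 380) (nat_lit 2037335936) (nat_lit 0) (nat_lit 1589033930) (nat_lit 304) (nat_lit 1589033930) (nat_lit 227) (nat_lit 1) (nat_lit 222) (nat_lit 1) (nat_lit 226) (nat_lit 1) (nat_lit 330) (nat_lit 373) (nat_lit 317)) (XT.lf (nat_lit 76) (nat_lit 420893811) (nat_lit 0) (nat_lit 4314706819) (nat_lit 380) (nat_lit 420893811) (nat_lit 223) (nat_lit 1) (nat_lit 222) (nat_lit 1) (nat_lit 227) (nat_lit 1) (nat_lit 331) (nat_lit 373) (nat_lit 316))) (XT.nd (nat_lit 78) (nat_lit 304) (nat_lit 0) (XT.lf (nat_lit 76) (nat_lit 2371886900) (nat_lit 0) (nat_lit 354190849) (nat_lit 304) (nat_lit 2371886900) (nat_lit 219) (nat_lit 1) (nat_lit 218) (nat_lit 1) (nat_lit 222) (nat_lit 1) (nat_lit 332) (nat_lit 373) (nat_lit 315)) (XT.nd (nat_lit 78) (nat_lit 0) (nat_lit 0) (XT.lf (nat_lit 380)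 (nat_lit 3529870851) (nat_lit 0) (nat_lit 755346935) (nat_lit 304) (nat_lit 755346935) (nat_lit 219) (nat_lit 1) (nat_lit 214) (nat_lit 1) (nat_lit 218) (nat_lit 1) (nat_lit 333) (nat_lit 373) (nat_lit 314)) (XT.lf (nat_lit 76) (nat_lit 1158187541) (nat_lit 0) (nat_lit 2667443616) (nat_lit 380) (nat_lit 1158187541) (nat_lit 215) (nat_lit 1) (nat_lit 214) (nat_lit 1) (nat_lit 219) (nat_lit 1) (nat_lit 334) (nat_lit 373) (nat_lit 313))))))) (XT.nd (nat_lit 702) (nat_lit 1444) (nat_lit 0) (XT.nd (nat_lit 312) (nat_lit 760) (nat_lit 0) (XT.nd (nat_lit 156) (nat_lit 228) (nat_lit 0) (XT.nd (nat_lit 78) (nat_lit 380) (nat_lit 0) (XT.lf (nat_lit 304) (nat_lit 1112072444) (nat_lit 0) (nat_lit 1907945669) (nat_lit 228) (nat_lit 1907945669) (nat_lit 215) (nat_lit 1) (nat_lit 211) (nat_lit 1) (nat_lit 214) (nat_lit 1) (nat_lit 335) (nat_lit 373) (nat_lit 312)) (XT.lf (nat_lit 380) (nat_lit 4805879736) (nat_lit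 0) (nat_lit 33747880) (nat_lit 304) (nat_lit 33747880) (nat_lit 211) (nat_lit 1) (nat_lit 206) (nat_lit 1) (nat_lit 210) (nat_lit 1) (nat_lit 336) (nat_lit 373) (nat_lit 311))) (XT.nd (nat_lit 78) (nat_lit 228) (nat_lit 0) (XT.lf (nat_lit 76) (nat_lit 1790421855) (nat_lit 0) (nat_lit 1237836184) (nat_lit 380) (nat_lit 1790421855) (nat_lit 207) (nat_lit 1) (nat_lit 206) (nat_lit 1) (nat_lit 211) (nat_lit 1) (nat_lit 337) (nat_lit 373) (nat_lit 310)) (XT.lf (nat_lit 304) (nat_lit 2379352695) (nat_lit 0) (nat_lit 1192935602) (nat_lit 228) (nat_lit 1192935602) (nat_lit 207) (nat_lit 1) (nat_lit 203) (nat_lit 1) (nat_lit 206) (nat_lit 1) (nat_lit 338) (nat_lit 373) (nat_lit 309)))) (XT.nd (nat_lit 156) (nat_lit 456) (nat_lit 0) (XT.nd (nat_lit 78) (nat_lit 304) (nat_lit 0) (XT.lf (nat_lit 76) (nat_lit 594649309) (nat_lit 0) (nat_lit 3523340106) (nat_lit 304) (nat_lit 594649309) (nat_lit 204) (nat_lit 1)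 (nat_lit 203) (nat_lit 1) (nat_lit 207) (nat_lit 1) (nat_lit 339) (nat_lit 373) (nat_lit 308)) (XT.lf (nat_lit 76) (nat_lit 2329977526) (nat_lit 0) (nat_lit 623825) (nat_lit 304) (nat_lit 2329977526) (nat_lit 200) (nat_lit 1) (nat_lit 199) (nat_lit 1) (nat_lit 203) (nat_lit 1) (nat_lit 340) (nat_lit 373) (nat_lit 307))) (XT.nd (nat_lit 78) (nat_lit 228) (nat_lit 0) (XT.lf (nat_lit 304) (nat_lit 3464791754) (nat_lit 0) (nat_lit 572287043) (nat_lit 228) (nat_lit 572287043) (nat_lit 200) (nat_lit 1) (nat_lit 196) (nat_lit 1) (nat_lit 199) (nat_lit 1) (nat_lit 341) (nat_lit 373) (nat_lit 306)) (XT.nd (nat_lit 78) (nat_lit 228) (nat_lit 0) (XT.lf (nat_lit 76) (nat_lit 1135067083) (nat_lit 0) (nat_lit 2288511105) (nat_lit 304) (nat_lit 1135067083) (nat_lit 197) (nat_lit 1) (nat_lit 196) (nat_lit 1) (nat_lit 200) (nat_lit 1) (nat_lit 342) (nat_lit 373) (nat_lit 305)) (XT.lf (nat_lit 304) (nat_lit 1087836049)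 (nat_lit 0) (nat_lit 1710456233) (nat_lit 228) (nat_lit 1710456233) (nat_lit 197) (nat_lit 1) (nat_lit 193) (nat_lit 1) (nat_lit 196) (nat_lit 1) (nat_lit 343) (nat_lit 373) (nat_lit 304)))))) (XT.nd (nat_lit 390) (nat_lit 684) (nat_lit 0) (XT.nd (nat_lit 156) (nat_lit 456) (nat_lit 0) (XT.nd (nat_lit 78) (nat_lit 0) (nat_lit 0) (XT.lf (nat_lit 304) (nat_lit 4389847550) (nat_lit 0) (nat_lit 35051383) (nat_lit 228) (nat_lit 35051383) (nat_lit 193) (nat_lit 1) (nat_lit 189) (nat_lit 1) (nat_lit 192) (nat_lit 1) (nat_lit 344) (nat_lit 373) (nat_lit 303)) (XT.lf (nat_lit 76) (nat_lit 1597549562) (nat_lit 0) (nat_lit 1215903791) (nat_lit 304) (nat_lit 1597549562) (nat_lit 190) (nat_lit 1) (nat_lit 189) (nat_lit 1) (nat_lit 193) (nat_lit 1) (nat_lit 345) (nat_lit 373) (nat_lit 302))) (XT.nd (nat_lit 78) (nat_lit 228) (nat_lit 0) (XT.lf (nat_lit 304) (nat_lit 2023228572) (nat_lit 0) (nat_lit 1169952696) (nat_lit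 228) (nat_lit 1169952696) (nat_lit 190) (nat_lit 1) (nat_lit 186) (nat_lit 1) (nat_lit 189) (nat_lit 1) (nat_lit 346) (nat_lit 373) (nat_lit 301)) (XT.nd (nat_lit 78) (nat_lit 228) (nat_lit 0) (XT.lf (nat_lit 76) (nat_lit 432729102) (nat_lit 0) (nat_lit 3450617595) (nat_lit 304) (nat_lit 432729102) (nat_lit 187) (nat_lit 1) (nat_lit 186) (nat_lit 1) (nat_lit 190) (nat_lit 1) (nat_lit 347) (nat_lit 373) (nat_lit 300)) (XT.lf (nat_lit 76) (nat_lit 1991302249) (nat_lit 0) (nat_lit 286714106) (nat_lit 228) (nat_lit 1991302249) (nat_lit 184) (nat_lit 1) (nat_lit 183) (nat_lit 1) (nat_lit 186) (nat_lit 1) (nat_lit 348) (nat_lit 373) (nat_lit 299))))) (XT.nd (nat_lit 156) (nat_lit 456) (nat_lit 0) (XT.nd (nat_lit 78) (nat_lit 0) (nat_lit 0) (XT.lf (nat_lit 304) (nat_lit 2823535033) (nat_lit 0) (nat_lit 699909649) (nat_lit 228) (nat_lit 699909649) (nat_lit 184) (nat_lit 1) (nat_lit 180) (nat_lit 1) (nat_lit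 183) (nat_lit 1) (nat_lit 349) (nat_lit 373) (nat_lit 298)) (XT.lf (nat_lit 76) (nat_lit 835134539) (nat_lit 0) (nat_lit 2507645499) (nat_lit 304) (nat_lit 835134539) (nat_lit 181) (nat_lit 1) (nat_lit 180) (nat_lit 1) (nat_lit 184) (nat_lit 1) (nat_lit 350) (nat_lit 373) (nat_lit 297))) (XT.nd (nat_lit 78) (nat_lit 304) (nat_lit 0) (XT.lf (nat_lit 228) (nat_lit 526008635) (nat_lit 0) (nat_lit 1803536808) (nat_lit 152) (nat_lit 1803536808) (nat_lit 181) (nat_lit 1) (nat_lit 178) (nat_lit 1) (nat_lit 180) (nat_lit 1) (nat_lit 351) (nat_lit 373) (nat_lit 296)) (XT.nd (nat_lit 78) (nat_lit 0) (nat_lit 0) (XT.lf (nat_lit 304) (nat_lit 3504715715) (nat_lit 0) (nat_lit 292173117) (nat_lit 228) (nat_lit 292173117) (nat_lit 178) (nat_lit 1) (nat_lit 174) (nat_lit 1) (nat_lit 177) (nat_lit 1) (nat_lit 352) (nat_lit 373) (nat_lit 295)) (XT.lf (nat_lit 76) (nat_lit 1179540528) (nat_lit 0) (nat_lit 1686084779)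 (nat_lit 304) (nat_lit 1179540528) (nat_lit 175) (nat_lit 1) (nat_lit 174) (nat_lit 1) (nat_lit 178) (nat_lit 1) (nat_lit 353) (nat_lit 373) (nat_lit 294))))))))
noncomputable def ec173 : XT := (XT.nd (nat_lit 1482) (nat_lit 1900) (nat_lit 0) (XT.nd (nat_lit 702) (nat_lit 1064) (nat_lit 0) (XT.nd (nat_lit 312) (nat_lit 532) (nat_lit 0) (XT.nd (nat_lit 156) (nat_lit 380) (nat_lit 0) (XT.nd (nat_lit 78) (nat_lit 0) (nat_lit 0) (XT.lf (nat_lit 228) (nat_lit 1230284156) (nat_lit 0) (nat_lit 1385891316) (nat_lit 152) (nat_lit 1385891316) (nat_lit 175) (nat_lit 1) (nat_lit 172) (nat_lit 1) (nat_lit 174) (nat_lit 1) (nat_lit 354) (nat_lit 373) (nat_lit 293)) (XT.lf (nat_lit 76) (nat_lit 61091901) (nat_lit 0) (nat_lit 3837684462) (nat_lit 228) (nat_lit 61091901) (nat_lit 173) (nat_lit 1) (nat_lit 172) (nat_lit 1) (nat_lit 175) (nat_lit 1) (nat_lit 355) (nat_lit 373) (nat_lit 292))) (XT.nd (nat_lit 78) (nat_lit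 152) (nat_lit 0) (XT.lf (nat_lit 76) (nat_lit 1472797071) (nat_lit 0) (nat_lit 971922966) (nat_lit 228) (nat_lit 1472797071) (nat_lit 170) (nat_lit 1) (nat_lit 169) (nat_lit 1) (nat_lit 172) (nat_lit 1) (nat_lit 356) (nat_lit 373) (nat_lit 291)) (XT.lf (nat_lit 228) (nat_lit 1833802506) (nat_lit 0) (nat_lit 1021125340) (nat_lit 152) (nat_lit 1021125340) (nat_lit 170) (nat_lit 1) (nat_lit 167) (nat_lit 1) (nat_lit 169) (nat_lit 1) (nat_lit 357) (nat_lit 373) (nat_lit 290)))) (XT.nd (nat_lit 156) (nat_lit 304) (nat_lit 0) (XT.nd (nat_lit 78) (nat_lit 228) (nat_lit 0) (XT.lf (nat_lit 76) (nat_lit 368118344) (nat_lit 0) (nat_lit 3099031433) (nat_lit 228) (nat_lit 368118344) (nat_lit 168) (nat_lit 1) (nat_lit 167) (nat_lit 1) (nat_lit 170) (nat_lit 1) (nat_lit 358) (nat_lit 373) (nat_lit 289)) (XT.lf (nat_lit 76) (nat_lit 1720979170) (nat_lit 0) (nat_lit 352723955) (nat_lit 228) (nat_lit 1720979170) (nat_lit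 165) (nat_lit 1) (nat_lit 164) (nat_lit 1) (nat_lit 167) (nat_lit 1) (nat_lit 359) (nat_lit 373) (nat_lit 288))) (XT.nd (nat_lit 78) (nat_lit 152) (nat_lit 0) (XT.lf (nat_lit 228) (nat_lit 2348446637) (nat_lit 0) (nat_lit 703158441) (nat_lit 152) (nat_lit 703158441) (nat_lit 165) (nat_lit 1) (nat_lit 162) (nat_lit 1) (nat_lit 164) (nat_lit 1) (nat_lit 360) (nat_lit 373) (nat_lit 287)) (XT.nd (nat_lit 78) (nat_lit 152) (nat_lit 0) (XT.lf (nat_lit 76) (nat_lit 631766420) (nat_lit 0) (nat_lit 2451797343) (nat_lit 228) (nat_lit 631766420) (nat_lit 163) (nat_lit 1) (nat_lit 162) (nat_lit 1) (nat_lit 165) (nat_lit 1) (nat_lit 361) (nat_lit 373) (nat_lit 286)) (XT.lf (nat_lit 228) (nat_lit 186181246) (nat_lit 0) (nat_lit 1745082016) (nat_lit 152) (nat_lit 1745082016) (nat_lit 163) (nat_lit 1) (nat_lit 160) (nat_lit 1) (nat_lit 162) (nat_lit 1) (nat_lit 362) (nat_lit 373) (nat_lit 285)))))) (XT.nd (nat_lit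 390) (nat_lit 456) (nat_lit 0) (XT.nd (nat_lit 156) (nat_lit 380) (nat_lit 0) (XT.nd (nat_lit 78) (nat_lit 0) (nat_lit 0) (XT.lf (nat_lit 228) (nat_lit 2784755547) (nat_lit 0) (nat_lit 426593577) (nat_lit 152) (nat_lit 426593577) (nat_lit 160) (nat_lit 1) (nat_lit 157) (nat_lit 1) (nat_lit 159) (nat_lit 1) (nat_lit 363) (nat_lit 373) (nat_lit 284)) (XT.lf (nat_lit 76) (nat_lit 857139621) (nat_lit 0) (nat_lit 1885524216) (nat_lit 228) (nat_lit 857139621) (nat_lit 158) (nat_lit 1) (nat_lit 157) (nat_lit 1) (nat_lit 160) (nat_lit 1) (nat_lit 364) (nat_lit 373) (nat_lit 283))) (XT.nd (nat_lit 78) (nat_lit 228) (nat_lit 0) (XT.lf (nat_lit 228) (nat_lit 656496327) (nat_lit 0) (nat_lit 1452870162) (nat_lit 152) (nat_lit 1452870162) (nat_lit 158) (nat_lit 1) (nat_lit 155) (nat_lit 1) (nat_lit 157) (nat_lit 1) (nat_lit 365) (nat_lit 373) (nat_lit 282)) (XT.nd (nat_lit 78) (nat_lit 0) (nat_lit 0) (XT.lf (nat_lit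 228) (nat_lit 3152074700) (nat_lit 0) (nat_lit 186640742) (nat_lit 152) (nat_lit 186640742) (nat_lit 155) (nat_lit 1) (nat_lit 152) (nat_lit 1) (nat_lit 154) (nat_lit 1) (nat_lit 366) (nat_lit 373) (nat_lit 281)) (XT.lf (nat_lit 76) (nat_lit 1048764577) (nat_lit 0) (nat_lit 1390927954) (nat_lit 228) (nat_lit 1048764577) (nat_lit 153) (nat_lit 1) (nat_lit 152) (nat_lit 1) (nat_lit 155) (nat_lit 1) (nat_lit 367) (nat_lit 373) (nat_lit 280))))) (XT.nd (nat_lit 156) (nat_lit 304) (nat_lit 0) (XT.nd (nat_lit 78) (nat_lit 0) (nat_lit 0) (XT.lf (nat_lit 228) (nat_lit 1060061979) (nat_lit 0) (nat_lit 1196086801) (nat_lit 152) (nat_lit 1196086801) (nat_lit 153) (nat_lit 1) (nat_lit 150) (nat_lit 1) (nat_lit 152) (nat_lit 1) (nat_lit 368) (nat_lit 373) (nat_lit 279)) (XT.lf (nat_lit 76) (nat_lit 21158315) (nat_lit 0) (nat_lit 3374446721) (nat_lit 228) (nat_lit 21158315) (nat_lit 151) (nat_lit 1) (nat_lit 150)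 (nat_lit 1) (nat_lit 153) (nat_lit 1) (nat_lit 369) (nat_lit 373) (nat_lit 278))) (XT.nd (nat_lit 78) (nat_lit 152) (nat_lit 0) (XT.lf (nat_lit 76) (nat_lit 1210655612) (nat_lit 0) (nat_lit 959767209) (nat_lit 152) (nat_lit 1210655612) (nat_lit 149) (nat_lit 1) (nat_lit 148) (nat_lit 1) (nat_lit 150) (nat_lit 1) (nat_lit 370) (nat_lit 373) (nat_lit 277)) (XT.nd (nat_lit 78) (nat_lit 0) (nat_lit 0) (XT.lf (nat_lit 228) (nat_lit 1404738227) (nat_lit 0) (nat_lit 970698388) (nat_lit 152) (nat_lit 970698388) (nat_lit 149) (nat_lit 1) (nat_lit 146) (nat_lit 1) (nat_lit 148) (nat_lit 1) (nat_lit 371) (nat_lit 373) (nat_lit 276)) (XT.lf (nat_lit 76) (nat_lit 201932926) (nat_lit 0) (nat_lit 2907938394) (nat_lit 228) (nat_lit 201932926) (nat_lit 147) (nat_lit 1) (nat_lit 146) (nat_lit 1) (nat_lit 149) (nat_lit 1) (nat_lit 372) (nat_lit 373) (nat_lit 275))))))) (XT.nd (nat_lit 702) (nat_lit 988) (nat_lit 0) (XT.nd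 (nat_lit 312) (nat_lit 456) (nat_lit 0) (XT.nd (nat_lit 156) (nat_lit 152) (nat_lit 0) (XT.nd (nat_lit 78) (nat_lit 152) (nat_lit 0) (XT.lf (nat_lit 76) (nat_lit 1346372093) (nat_lit 0) (nat_lit 584726887) (nat_lit 152) (nat_lit 1346372093) (nat_lit 145) (nat_lit 1) (nat_lit 144) (nat_lit 1) (nat_lit 146) (nat_lit 1) (nat_lit 373) (nat_lit 373) (nat_lit 274)) (XT.lf (nat_lit 228) (nat_lit 1697496468) (nat_lit 0) (nat_lit 773123583) (nat_lit 152) (nat_lit 773123583) (nat_lit 145) (nat_lit 1) (nat_lit 142) (nat_lit 1) (nat_lit 144) (nat_lit 1) (nat_lit 374) (nat_lit 373) (nat_lit 273))) (XT.nd (nat_lit 78) (nat_lit 152) (nat_lit 0) (XT.lf (nat_lit 76) (nat_lit 357214825) (nat_lit 0) (nat_lit 2496079375) (nat_lit 228) (nat_lit 357214825) (nat_lit 143) (nat_lit 1) (nat_lit 142) (nat_lit 1) (nat_lit 145) (nat_lit 1) (nat_lit 375) (nat_lit 373) (nat_lit 272)) (XT.lf (nat_lit 76) (nat_lit 1459069371) (nat_lit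 0) (nat_lit 259314647) (nat_lit 152) (nat_lit 1459069371) (nat_lit 141) (nat_lit 1) (nat_lit 140) (nat_lit 1) (nat_lit 142) (nat_lit 1) (nat_lit 376) (nat_lit 373) (nat_lit 271)))) (XT.nd (nat_lit 156) (nat_lit 304) (nat_lit 0) (XT.nd (nat_lit 78) (nat_lit 0) (nat_lit 0) (XT.lf (nat_lit 228) (nat_lit 1944518913) (nat_lit 0) (nat_lit 600182754) (nat_lit 152) (nat_lit 600182754) (nat_lit 141) (nat_lit 1) (nat_lit 138) (nat_lit 1) (nat_lit 140) (nat_lit 1) (nat_lit 377) (nat_lit 373) (nat_lit 270)) (XT.lf (nat_lit 76) (nat_lit 490002140) (nat_lit 0) (nat_lit 2132699026) (nat_lit 228) (nat_lit 490002140) (nat_lit 139) (nat_lit 1) (nat_lit 138) (nat_lit 1) (nat_lit 141) (nat_lit 1) (nat_lit 378) (nat_lit 373) (nat_lit 269))) (XT.nd (nat_lit 78) (nat_lit 228) (nat_lit 0) (XT.lf (nat_lit 152) (nat_lit 22673492) (nat_lit 0) (nat_lit 1529088509) (nat_lit 76) (nat_lit 1529088509) (nat_lit 139) (nat_lit 1) (nat_lit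 137) (nat_lit 1) (nat_lit 138) (nat_lit 1) (nat_lit 379) (nat_lit 373) (nat_lit 268)) (XT.nd (nat_lit 78) (nat_lit 0) (nat_lit 0) (XT.lf (nat_lit 228) (nat_lit 2151286945) (nat_lit 0) (nat_lit 449053111) (nat_lit 152) (nat_lit 449053111) (nat_lit 137) (nat_lit 1) (nat_lit 134) (nat_lit 1) (nat_lit 136) (nat_lit 1) (nat_lit 380) (nat_lit 373) (nat_lit 267)) (XT.lf (nat_lit 76) (nat_lit 602954141) (nat_lit 0) (nat_lit 1812317044) (nat_lit 228) (nat_lit 602954141) (nat_lit 135) (nat_lit 1) (nat_lit 134) (nat_lit 1) (nat_lit 137) (nat_lit 1) (nat_lit 381) (nat_lit 373) (nat_lit 266)))))) (XT.nd (nat_lit 390) (nat_lit 380) (nat_lit 0) (XT.nd (nat_lit 156) (nat_lit 304) (nat_lit 0) (XT.nd (nat_lit 78) (nat_lit 228) (nat_lit 0) (XT.lf (nat_lit 152) (nat_lit 270297107) (nat_lit 0) (nat_lit 1358575335) (nat_lit 76) (nat_lit 1358575335) (nat_lit 135) (nat_lit 1) (nat_lit 133) (nat_lit 1) (nat_lit 134) (nat_lit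 1) (nat_lit 382) (nat_lit 373) (nat_lit 265)) (XT.lf (nat_lit 228) (nat_lit 2322659592) (nat_lit 0) (nat_lit 317228853) (nat_lit 152) (nat_lit 317228853) (nat_lit 133) (nat_lit 1) (nat_lit 130) (nat_lit 1) (nat_lit 132) (nat_lit 1) (nat_lit 383) (nat_lit 373) (nat_lit 264))) (XT.nd (nat_lit 78) (nat_lit 304) (nat_lit 0) (XT.lf (nat_lit 76) (nat_lit 698429165) (nat_lit 0) (nat_lit 1530066418) (nat_lit 228) (nat_lit 698429165) (nat_lit 131) (nat_lit 1) (nat_lit 130) (nat_lit 1) (nat_lit 133) (nat_lit 1) (nat_lit 384) (nat_lit 373) (nat_lit 263)) (XT.nd (nat_lit 78) (nat_lit 228) (nat_lit 0) (XT.lf (nat_lit 152) (nat_lit 483021502) (nat_lit 0) (nat_lit 1207076589) (nat_lit 76) (nat_lit 1207076589) (nat_lit 131) (nat_lit 1) (nat_lit 129) (nat_lit 1) (nat_lit 130) (nat_lit 1) (nat_lit 385) (nat_lit 373) (nat_lit 262)) (XT.lf (nat_lit 228) (nat_lit 2462943261) (nat_lit 0) (nat_lit 202485745) (nat_lit 152)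 (nat_lit 202485745) (nat_lit 129) (nat_lit 1) (nat_lit 126) (nat_lit 1) (nat_lit 128) (nat_lit 1) (nat_lit 386) (nat_lit 373) (nat_lit 261))))) (XT.nd (nat_lit 156) (nat_lit 304) (nat_lit 0) (XT.nd (nat_lit 78) (nat_lit 76) (nat_lit 0) (XT.lf (nat_lit 76) (nat_lit 778518296) (nat_lit 0) (nat_lit 1281624968) (nat_lit 228) (nat_lit 778518296) (nat_lit 127) (nat_lit 1) (nat_lit 126) (nat_lit 1) (nat_lit 129) (nat_lit 1) (nat_lit 387) (nat_lit 373) (nat_lit 260)) (XT.lf (nat_lit 152) (nat_lit 664950603) (nat_lit 0) (nat_lit 1072471915) (nat_lit 76) (nat_lit 1072471915) (nat_lit 127) (nat_lit 1) (nat_lit 125) (nat_lit 1) (nat_lit 126) (nat_lit 1) (nat_lit 388) (nat_lit 373) (nat_lit 259))) (XT.nd (nat_lit 78) (nat_lit 76) (nat_lit 0) (XT.lf (nat_lit 228) (nat_lit 2575953670) (nat_lit 0) (nat_lit 102849669) (nat_lit 152) (nat_lit 102849669) (nat_lit 125) (nat_lit 1) (nat_lit 122) (nat_lit 1) (nat_lit 124)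 (nat_lit 1) (nat_lit 389) (nat_lit 373) (nat_lit 258)) (XT.nd (nat_lit 78) (nat_lit 76) (nat_lit 0) (XT.lf (nat_lit 76) (nat_lit 845075295) (nat_lit 0) (nat_lit 1063154538) (nat_lit 228) (nat_lit 845075295) (nat_lit 123) (nat_lit 1) (nat_lit 122) (nat_lit 1) (nat_lit 125) (nat_lit 1) (nat_lit 390) (nat_lit 373) (nat_lit 257)) (XT.lf (nat_lit 152) (nat_lit 819724518) (nat_lit 0) (nat_lit 952877406) (nat_lit 76) (nat_lit 952877406) (nat_lit 123) (nat_lit 1) (nat_lit 121) (nat_lit 1) (nat_lit 122) (nat_lit 1) (nat_lit 391) (nat_lit 373) (nat_lit 256))))))))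
noncomputable def ec174 : XT := (XT.nd (nat_lit 1482) (nat_lit 1444) (nat_lit 0) (XT.nd (nat_lit 702) (nat_lit 684) (nat_lit 0) (XT.nd (nat_lit 312) (nat_lit 456) (nat_lit 0) (XT.nd (nat_lit 156) (nat_lit 76) (nat_lit 0) (XT.nd (nat_lit 78) (nat_lit 0) (nat_lit 0) (XT.lf (nat_lit 228) (nat_lit 2665070872) (nat_lit 0) (nat_lit 16568665) (nat_lit 152) (nat_lit 16568665) (nat_lit 121) (nat_lit 1) (nat_lit 118) (nat_lit 1) (nat_lit 120) (nat_lit 1) (nat_lit 392) (nat_lit 373) (nat_lit 255)) (XT.lf (nat_lit 76) (nat_lit 899743185) (nat_lit 0) (nat_lit 871246953) (nat_lit 228) (nat_lit 899743185) (nat_lit 119) (nat_lit 1) (nat_lit 118) (nat_lit 1) (nat_lit 121) (nat_lit 1) (nat_lit 393) (nat_lit 373) (nat_lit 254))) (XT.nd (nat_lit 78) (nat_lit 0) (nat_lit 0) (XT.lf (nat_lit 152) (nat_lit 950571432) (nat_lit 0) (nat_lit 846619233) (nat_lit 76) (nat_lit 846619233) (nat_lit 119) (nat_lit 1) (nat_lit 117) (nat_lit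 1) (nat_lit 118) (nat_lit 1) (nat_lit 394) (nat_lit 373) (nat_lit 253)) (XT.lf (nat_lit 0) (nat_lit 58485286) (nat_lit 0) (nat_lit 2500425954) (nat_lit 152) (nat_lit 58485286) (nat_lit 117) (nat_lit 3) (nat_lit 117) (nat_lit 1) (nat_lit 119) (nat_lit 1) (nat_lit 395) (nat_lit 373) (nat_lit 252)))) (XT.nd (nat_lit 156) (nat_lit 228) (nat_lit 0) (XT.nd (nat_lit 78) (nat_lit 76) (nat_lit 0) (XT.lf (nat_lit 76) (nat_lit 943977866) (nat_lit 0) (nat_lit 702876017) (nat_lit 152) (nat_lit 943977866) (nat_lit 116) (nat_lit 1) (nat_lit 115) (nat_lit 1) (nat_lit 117) (nat_lit 1) (nat_lit 396) (nat_lit 373) (nat_lit 251)) (XT.lf (nat_lit 152) (nat_lit 1060353721) (nat_lit 0) (nat_lit 752210223) (nat_lit 76) (nat_lit 752210223) (nat_lit 116) (nat_lit 1) (nat_lit 114) (nat_lit 1) (nat_lit 115) (nat_lit 1) (nat_lit 397) (nat_lit 373) (nat_lit 250))) (XT.nd (nat_lit 78) (nat_lit 228) (nat_lit 0) (XT.lf (nat_lit 0)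 (nat_lit 123179035) (nat_lit 0) (nat_lit 2292811690) (nat_lit 152) (nat_lit 123179035) (nat_lit 114) (nat_lit 3) (nat_lit 114) (nat_lit 1) (nat_lit 116) (nat_lit 1) (nat_lit 398) (nat_lit 373) (nat_lit 249)) (XT.nd (nat_lit 78) (nat_lit 76) (nat_lit 0) (XT.lf (nat_lit 76) (nat_lit 979069098) (nat_lit 0) (nat_lit 555354863) (nat_lit 152) (nat_lit 979069098) (nat_lit 113) (nat_lit 1) (nat_lit 112) (nat_lit 1) (nat_lit 114) (nat_lit 1) (nat_lit 399) (nat_lit 373) (nat_lit 248)) (XT.lf (nat_lit 152) (nat_lit 1151608912) (nat_lit 0) (nat_lit 668329040) (nat_lit 76) (nat_lit 668329040) (nat_lit 113) (nat_lit 1) (nat_lit 111) (nat_lit 1) (nat_lit 112) (nat_lit 1) (nat_lit 400) (nat_lit 373) (nat_lit 247)))))) (XT.nd (nat_lit 390) (nat_lit 304) (nat_lit 0) (XT.nd (nat_lit 156) (nat_lit 228) (nat_lit 0) (XT.nd (nat_lit 78) (nat_lit 152) (nat_lit 0) (XT.lf (nat_lit 0) (nat_lit 178584352) (nat_lit 0) (nat_lit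 2106274865) (nat_lit 152) (nat_lit 178584352) (nat_lit 111) (nat_lit 3) (nat_lit 111) (nat_lit 1) (nat_lit 113) (nat_lit 1) (nat_lit 401) (nat_lit 373) (nat_lit 246)) (XT.lf (nat_lit 76) (nat_lit 1006159135) (nat_lit 0) (nat_lit 426298055) (nat_lit 152) (nat_lit 1006159135) (nat_lit 110) (nat_lit 1) (nat_lit 109) (nat_lit 1) (nat_lit 111) (nat_lit 1) (nat_lit 402) (nat_lit 373) (nat_lit 245))) (XT.nd (nat_lit 78) (nat_lit 152) (nat_lit 0) (XT.lf (nat_lit 152) (nat_lit 1226586074) (nat_lit 0) (nat_lit 593801696) (nat_lit 76) (nat_lit 593801696) (nat_lit 110) (nat_lit 1) (nat_lit 108) (nat_lit 1) (nat_lit 109) (nat_lit 1) (nat_lit 403) (nat_lit 373) (nat_lit 244)) (XT.nd (nat_lit 78) (nat_lit 152) (nat_lit 0) (XT.lf (nat_lit 0) (nat_lit 225797432) (nat_lit 0) (nat_lit 1938525485) (nat_lit 152) (nat_lit 225797432) (nat_lit 108) (nat_lit 3) (nat_lit 108) (nat_lit 1) (nat_lit 110) (nat_lit 1) (nat_lit 404)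 (nat_lit 373) (nat_lit 243)) (XT.lf (nat_lit 76) (nat_lit 1026259284) (nat_lit 0) (nat_lit 313587923) (nat_lit 152) (nat_lit 1026259284) (nat_lit 107) (nat_lit 1) (nat_lit 106) (nat_lit 1) (nat_lit 108) (nat_lit 1) (nat_lit 405) (nat_lit 373) (nat_lit 242))))) (XT.nd (nat_lit 156) (nat_lit 228) (nat_lit 0) (XT.nd (nat_lit 78) (nat_lit 0) (nat_lit 0) (XT.lf (nat_lit 152) (nat_lit 1287278141) (nat_lit 0) (nat_lit 527585116) (nat_lit 76) (nat_lit 527585116) (nat_lit 107) (nat_lit 1) (nat_lit 105) (nat_lit 1) (nat_lit 106) (nat_lit 1) (nat_lit 406) (nat_lit 373) (nat_lit 241)) (XT.lf (nat_lit 0) (nat_lit 265790470) (nat_lit 0) (nat_lit 1787527162) (nat_lit 152) (nat_lit 265790470) (nat_lit 105) (nat_lit 3) (nat_lit 105) (nat_lit 1) (nat_lit 107) (nat_lit 1) (nat_lit 407) (nat_lit 373) (nat_lit 240))) (XT.nd (nat_lit 78) (nat_lit 76) (nat_lit 0) (XT.lf (nat_lit 76) (nat_lit 1040264611) (nat_lit 0) (nat_lit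 215344656) (nat_lit 152) (nat_lit 1040264611) (nat_lit 104) (nat_lit 1) (nat_lit 103) (nat_lit 1) (nat_lit 105) (nat_lit 1) (nat_lit 408) (nat_lit 373) (nat_lit 239)) (XT.nd (nat_lit 78) (nat_lit 0) (nat_lit 0) (XT.lf (nat_lit 152) (nat_lit 1335450636) (nat_lit 0) (nat_lit 468752542) (nat_lit 76) (nat_lit 468752542) (nat_lit 104) (nat_lit 1) (nat_lit 102) (nat_lit 1) (nat_lit 103) (nat_lit 1) (nat_lit 409) (nat_lit 373) (nat_lit 238)) (XT.lf (nat_lit 0) (nat_lit 299425542) (nat_lit 0) (nat_lit 1651468883) (nat_lit 152) (nat_lit 299425542) (nat_lit 102) (nat_lit 3) (nat_lit 102) (nat_lit 1) (nat_lit 104) (nat_lit 1) (nat_lit 410) (nat_lit 373) (nat_lit 237))))))) (XT.nd (nat_lit 702) (nat_lit 760) (nat_lit 0) (XT.nd (nat_lit 312) (nat_lit 304) (nat_lit 0) (XT.nd (nat_lit 156) (nat_lit 152) (nat_lit 0) (XT.nd (nat_lit 78) (nat_lit 76) (nat_lit 0) (XT.lf (nat_lit 76) (nat_lit 1048967001) (nat_lit 0) (nat_lit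 129899722) (nat_lit 152) (nat_lit 1048967001) (nat_lit 101) (nat_lit 1) (nat_lit 100) (nat_lit 1) (nat_lit 102) (nat_lit 1) (nat_lit 411) (nat_lit 373) (nat_lit 236)) (XT.lf (nat_lit 152) (nat_lit 1372667177) (nat_lit 0) (nat_lit 416480562) (nat_lit 76) (nat_lit 416480562) (nat_lit 101) (nat_lit 1) (nat_lit 99) (nat_lit 1) (nat_lit 100) (nat_lit 1) (nat_lit 412) (nat_lit 373) (nat_lit 235))) (XT.nd (nat_lit 78) (nat_lit 152) (nat_lit 0) (XT.lf (nat_lit 0) (nat_lit 327466932) (nat_lit 0) (nat_lit 1528739929) (nat_lit 152) (nat_lit 327466932) (nat_lit 99) (nat_lit 3) (nat_lit 99) (nat_lit 1) (nat_lit 101) (nat_lit 1) (nat_lit 413) (nat_lit 373) (nat_lit 234)) (XT.lf (nat_lit 76) (nat_lit 1053066767) (nat_lit 0) (nat_lit 55772263) (nat_lit 152) (nat_lit 1053066767) (nat_lit 98) (nat_lit 1) (nat_lit 97) (nat_lit 1) (nat_lit 99) (nat_lit 1) (nat_lit 414) (nat_lit 373) (nat_lit 233)))) (XT.nd (nat_lit 156)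 (nat_lit 228) (nat_lit 0) (XT.nd (nat_lit 78) (nat_lit 0) (nat_lit 0) (XT.lf (nat_lit 152) (nat_lit 1400312138) (nat_lit 0) (nat_lit 370037585) (nat_lit 76) (nat_lit 370037585) (nat_lit 98) (nat_lit 1) (nat_lit 96) (nat_lit 1) (nat_lit 97) (nat_lit 1) (nat_lit 415) (nat_lit 373) (nat_lit 232)) (XT.lf (nat_lit 0) (nat_lit 350592084) (nat_lit 0) (nat_lit 1417907583) (nat_lit 152) (nat_lit 350592084) (nat_lit 96) (nat_lit 3) (nat_lit 96) (nat_lit 1) (nat_lit 98) (nat_lit 1) (nat_lit 416) (nat_lit 373) (nat_lit 231))) (XT.nd (nat_lit 78) (nat_lit 152) (nat_lit 0) (XT.lf (nat_lit 76) (nat_lit 8518097) (nat_lit 0) (nat_lit 1044746736) (nat_lit 76) (nat_lit 1044746736) (nat_lit 96) (nat_lit 3) (nat_lit 95) (nat_lit 1) (nat_lit 96) (nat_lit 1) (nat_lit 417) (nat_lit 373) (nat_lit 230)) (XT.nd (nat_lit 78) (nat_lit 0) (nat_lit 0) (XT.lf (nat_lit 152) (nat_lit 1419610780) (nat_lit 0) (nat_lit 328773602) (nat_lit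 76) (nat_lit 328773602) (nat_lit 95) (nat_lit 1) (nat_lit 93) (nat_lit 1) (nat_lit 94) (nat_lit 1) (nat_lit 418) (nat_lit 373) (nat_lit 229)) (XT.lf (nat_lit 0) (nat_lit 369401339) (nat_lit 0) (nat_lit 1317697335) (nat_lit 152) (nat_lit 369401339) (nat_lit 93) (nat_lit 3) (nat_lit 93) (nat_lit 1) (nat_lit 95) (nat_lit 1) (nat_lit 419) (nat_lit 373) (nat_lit 228)))))) (XT.nd (nat_lit 390) (nat_lit 304) (nat_lit 0) (XT.nd (nat_lit 156) (nat_lit 228) (nat_lit 0) (XT.nd (nat_lit 78) (nat_lit 152) (nat_lit 0) (XT.lf (nat_lit 76) (nat_lit 64905337) (nat_lit 0) (nat_lit 985581062) (nat_lit 76) (nat_lit 985581062) (nat_lit 93) (nat_lit 3) (nat_lit 92) (nat_lit 1) (nat_lit 93) (nat_lit 1) (nat_lit 420) (nat_lit 373) (nat_lit 227)) (XT.lf (nat_lit 152) (nat_lit 1431647133) (nat_lit 0) (nat_lit 292111087) (nat_lit 76) (nat_lit 292111087) (nat_lit 92) (nat_lit 1) (nat_lit 90) (nat_lit 1) (nat_lit 91) (nat_lit 1)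 (nat_lit 421) (nat_lit 373) (nat_lit 226))) (XT.nd (nat_lit 78) (nat_lit 228) (nat_lit 0) (XT.lf (nat_lit 0) (nat_lit 384426570) (nat_lit 0) (nat_lit 1226975280) (nat_lit 152) (nat_lit 384426570) (nat_lit 90) (nat_lit 3) (nat_lit 90) (nat_lit 1) (nat_lit 92) (nat_lit 1) (nat_lit 422) (nat_lit 373) (nat_lit 225)) (XT.nd (nat_lit 78) (nat_lit 152) (nat_lit 0) (XT.lf (nat_lit 76) (nat_lit 113334657) (nat_lit 0) (nat_lit 931343113) (nat_lit 76) (nat_lit 931343113) (nat_lit 90) (nat_lit 3) (nat_lit 89) (nat_lit 1) (nat_lit 90) (nat_lit 1) (nat_lit 423) (nat_lit 373) (nat_lit 224)) (XT.lf (nat_lit 152) (nat_lit 1437379878) (nat_lit 0) (nat_lit 259536917) (nat_lit 76) (nat_lit 259536917) (nat_lit 89) (nat_lit 1) (nat_lit 87) (nat_lit 1) (nat_lit 88) (nat_lit 1) (nat_lit 424) (nat_lit 373) (nat_lit 223))))) (XT.nd (nat_lit 156) (nat_lit 228) (nat_lit 0) (XT.nd (nat_lit 78) (nat_lit 76) (nat_lit 0) (XT.lf (nat_lit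 0) (nat_lit 396138867) (nat_lit 0) (nat_lit 1144732484) (nat_lit 152) (nat_lit 396138867) (nat_lit 87) (nat_lit 3) (nat_lit 87) (nat_lit 1) (nat_lit 89) (nat_lit 1) (nat_lit 425) (nat_lit 373) (nat_lit 222)) (XT.lf (nat_lit 76) (nat_lit 154742108) (nat_lit 0) (nat_lit 881532027) (nat_lit 76) (nat_lit 881532027) (nat_lit 87) (nat_lit 3) (nat_lit 86) (nat_lit 1) (nat_lit 87) (nat_lit 1) (nat_lit 426) (nat_lit 373) (nat_lit 221))) (XT.nd (nat_lit 78) (nat_lit 76) (nat_lit 0) (XT.lf (nat_lit 152) (nat_lit 1437656457) (nat_lit 0) (nat_lit 230595189) (nat_lit 76) (nat_lit 230595189) (nat_lit 86) (nat_lit 1) (nat_lit 84) (nat_lit 1) (nat_lit 85) (nat_lit 1) (nat_lit 427) (nat_lit 373) (nat_lit 220)) (XT.nd (nat_lit 78) (nat_lit 76) (nat_lit 0) (XT.lf (nat_lit 0) (nat_lit 404955359) (nat_lit 0) (nat_lit 1070071092) (nat_lit 152) (nat_lit 404955359) (nat_lit 84) (nat_lit 3) (nat_lit 84) (nat_lit 1) (nat_lit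 86) (nat_lit 1) (nat_lit 428) (nat_lit 373) (nat_lit 219)) (XT.lf (nat_lit 76) (nat_lit 189957944) (nat_lit 0) (nat_lit 835701374) (nat_lit 76) (nat_lit 835701374) (nat_lit 84) (nat_lit 3) (nat_lit 83) (nat_lit 1) (nat_lit 84) (nat_lit 1) (nat_lit 429) (nat_lit 373) (nat_lit 218))))))))
noncomputable def ec175 : XT := (XT.nd (nat_lit 41964) (nat_lit 0) (nat_lit 16416) (XT.nd (nat_lit 41184) (nat_lit 0) (nat_lit 21660) (XT.nd (nat_lit 40794) (nat_lit 0) (nat_lit 22496) (XT.nd (nat_lit 156) (nat_lit 228) (nat_lit 0) (XT.nd (nat_lit 78) (nat_lit 0) (nat_lit 0) (XT.lf (nat_lit 152) (nat_lit 1433225600) (nat_lit 0) (nat_lit 204880839) (nat_lit 76) (nat_lit 204880839) (nat_lit 83) (nat_lit 1) (nat_lit 81) (nat_lit 1) (nat_lit 82) (nat_lit 1) (nat_lit 430) (nat_lit 373) (nat_lit 217)) (XT.lf (nat_lit 0) (nat_lit 411245268) (nat_lit 0) (nat_lit 1002191981) (nat_lit 152) (nat_lit 411245268) (nat_lit 81) (nat_lit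 3) (nat_lit 81) (nat_lit 1) (nat_lit 83) (nat_lit 1) (nat_lit 431) (nat_lit 373) (nat_lit 216))) (XT.nd (nat_lit 78) (nat_lit 152) (nat_lit 0) (XT.lf (nat_lit 76) (nat_lit 219718460) (nat_lit 0) (nat_lit 793453133) (nat_lit 76) (nat_lit 793453133) (nat_lit 81) (nat_lit 3) (nat_lit 80) (nat_lit 1) (nat_lit 81) (nat_lit 1) (nat_lit 432) (nat_lit 373) (nat_lit 215)) (XT.lf (nat_lit 152) (nat_lit 1424748458) (nat_lit 0) (nat_lit 182033972) (nat_lit 76) (nat_lit 182033972) (nat_lit 80) (nat_lit 1) (nat_lit 78) (nat_lit 1) (nat_lit 79) (nat_lit 1) (nat_lit 433) (nat_lit 373) (nat_lit 214)))) (XT.nd (nat_lit 156) (nat_lit 0) (nat_lit 76) (XT.nd (nat_lit 78) (nat_lit 0) (nat_lit 0) (XT.lf (nat_lit 1292) (nat_lit 1018897079) (nat_lit 0) (nat_lit 3505479810) (nat_lit 1292) (nat_lit 1018897079) (nat_lit 391) (nat_lit 1) (nat_lit 374) (nat_lit 0) (nat_lit 391) (nat_lit 0) (nat_lit 272) (nat_lit 374) (nat_lit 374))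 (XT.lf (nat_lit 1292) (nat_lit 3981867640) (nat_lit 76) (nat_lit 3471112361) (nat_lit 0) (nat_lit 3471112361) (nat_lit 391) (nat_lit 1) (nat_lit 375) (nat_lit 1) (nat_lit 374) (nat_lit 0) (nat_lit 273) (nat_lit 374) (nat_lit 373))) (XT.nd (nat_lit 78) (nat_lit 0) (nat_lit 0) (XT.lf (nat_lit 1292) (nat_lit 1925726129) (nat_lit 0) (nat_lit 6913767959) (nat_lit 1216) (nat_lit 1925726129) (nat_lit 392) (nat_lit 1) (nat_lit 375) (nat_lit 1) (nat_lit 391) (nat_lit 1) (nat_lit 274) (nat_lit 374) (nat_lit 372)) (XT.nd (nat_lit 78) (nat_lit 0) (nat_lit 76) (XT.lf (nat_lit 1292) (nat_lit 3657053346) (nat_lit 76) (nat_lit 3475973919) (nat_lit 0) (nat_lit 3475973919) (nat_lit 392) (nat_lit 1) (nat_lit 376) (nat_lit 1) (nat_lit 375) (nat_lit 1) (nat_lit 275) (nat_lit 374) (nat_lit 371)) (XT.lf (nat_lit 1292) (nat_lit 1716054044) (nat_lit 0) (nat_lit 7024169516) (nat_lit 1216) (nat_lit 1716054044) (nat_lit 393) (nat_lit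 1) (nat_lit 376) (nat_lit 1) (nat_lit 392) (nat_lit 1) (nat_lit 276) (nat_lit 374) (nat_lit 370)))))) (XT.nd (nat_lit 390) (nat_lit 988) (nat_lit 0) (XT.nd (nat_lit 156) (nat_lit 0) (nat_lit 76) (XT.nd (nat_lit 78) (nat_lit 0) (nat_lit 76) (XT.lf (nat_lit 1292) (nat_lit 3144850227) (nat_lit 76) (nat_lit 3580573148) (nat_lit 0) (nat_lit 3580573148) (nat_lit 393) (nat_lit 1) (nat_lit 377) (nat_lit 1) (nat_lit 376) (nat_lit 1) (nat_lit 277) (nat_lit 374) (nat_lit 369)) (XT.lf (nat_lit 1292) (nat_lit 1417410984) (nat_lit 0) (nat_lit 7324363688) (nat_lit 1216) (nat_lit 1417410984) (nat_lit 394) (nat_lit 1) (nat_lit 377) (nat_lit 1) (nat_lit 393) (nat_lit 1) (nat_lit 278) (nat_lit 374) (nat_lit 368))) (XT.nd (nat_lit 78) (nat_lit 0) (nat_lit 76) (XT.lf (nat_lit 1292) (nat_lit 2462016172) (nat_lit 76) (nat_lit 3776271590) (nat_lit 0) (nat_lit 3776271590) (nat_lit 394) (nat_lit 1) (nat_lit 378) (nat_lit 1)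 (nat_lit 377) (nat_lit 1) (nat_lit 279) (nat_lit 374) (nat_lit 367)) (XT.nd (nat_lit 78) (nat_lit 0) (nat_lit 0) (XT.lf (nat_lit 1292) (nat_lit 1037846199) (nat_lit 0) (nat_lit 7797743075) (nat_lit 1216) (nat_lit 1037846199) (nat_lit 395) (nat_lit 1) (nat_lit 378) (nat_lit 1) (nat_lit 394) (nat_lit 1) (nat_lit 280) (nat_lit 374) (nat_lit 366)) (XT.lf (nat_lit 1292) (nat_lit 1624172313) (nat_lit 76) (nat_lit 4055011516) (nat_lit 0) (nat_lit 4055011516) (nat_lit 395) (nat_lit 1) (nat_lit 379) (nat_lit 1) (nat_lit 378) (nat_lit 1) (nat_lit 281) (nat_lit 374) (nat_lit 365))))) (XT.nd (nat_lit 156) (nat_lit 1216) (nat_lit 0) (XT.nd (nat_lit 78) (nat_lit 0) (nat_lit 0) (XT.lf (nat_lit 1292) (nat_lit 584861192) (nat_lit 0) (nat_lit 8428819993) (nat_lit 1216) (nat_lit 584861192) (nat_lit 396) (nat_lit 1) (nat_lit 379) (nat_lit 1) (nat_lit 395) (nat_lit 1) (nat_lit 282) (nat_lit 374) (nat_lit 364)) (XT.lf (nat_lit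 1292) (nat_lit 645873370) (nat_lit 76) (nat_lit 4409280119) (nat_lit 0) (nat_lit 4409280119) (nat_lit 396) (nat_lit 1) (nat_lit 380) (nat_lit 1) (nat_lit 379) (nat_lit 1) (nat_lit 283) (nat_lit 374) (nat_lit 363))) (XT.nd (nat_lit 78) (nat_lit 1292) (nat_lit 0) (XT.lf (nat_lit 1292) (nat_lit 65443654) (nat_lit 0) (nat_lit 9203157355) (nat_lit 1216) (nat_lit 65443654) (nat_lit 397) (nat_lit 1) (nat_lit 380) (nat_lit 1) (nat_lit 396) (nat_lit 1) (nat_lit 284) (nat_lit 374) (nat_lit 362)) (XT.nd (nat_lit 78) (nat_lit 0) (nat_lit 0) (XT.lf (nat_lit 1368) (nat_lit 4377164971) (nat_lit 0) (nat_lit 450363081) (nat_lit 1292) (nat_lit 4377164971) (nat_lit 381) (nat_lit 1) (nat_lit 363) (nat_lit 1) (nat_lit 380) (nat_lit 1) (nat_lit 285) (nat_lit 374) (nat_lit 361)) (XT.lf (nat_lit 1368) (nat_lit 8061181907) (nat_lit 76) (nat_lit 508862369) (nat_lit 0) (nat_lit 508862369) (nat_lit 381) (nat_lit 1) (nat_lit 364)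 (nat_lit 1) (nat_lit 363) (nat_lit 1) (nat_lit 286) (nat_lit 374) (nat_lit 360))))))) (XT.nd (nat_lit 702) (nat_lit 3344) (nat_lit 0) (XT.nd (nat_lit 312) (nat_lit 1216) (nat_lit 0) (XT.nd (nat_lit 156) (nat_lit 760) (nat_lit 0) (XT.nd (nat_lit 78) (nat_lit 0) (nat_lit 0) (XT.lf (nat_lit 1368) (nat_lit 3654204483) (nat_lit 0) (nat_lit 1646050311) (nat_lit 1292) (nat_lit 3654204483) (nat_lit 382) (nat_lit 1) (nat_lit 364) (nat_lit 1) (nat_lit 381) (nat_lit 1) (nat_lit 287) (nat_lit 374) (nat_lit 359)) (XT.lf (nat_lit 1368) (nat_lit 6561423702) (nat_lit 76) (nat_lit 1135871428) (nat_lit 0) (nat_lit 1135871428) (nat_lit 382) (nat_lit 1) (nat_lit 365) (nat_lit 1) (nat_lit 364) (nat_lit 1) (nat_lit 288) (nat_lit 374) (nat_lit 358))) (XT.nd (nat_lit 78) (nat_lit 836) (nat_lit 0) (XT.lf (nat_lit 76) (nat_lit 2885615350) (nat_lit 0) (nat_lit 2942283764) (nat_lit 1292) (nat_lit 2885615350) (nat_lit 366) (nat_lit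 1) (nat_lit 365) (nat_lit 1) (nat_lit 382) (nat_lit 1) (nat_lit 289) (nat_lit 374) (nat_lit 357)) (XT.lf (nat_lit 912) (nat_lit 4975207108) (nat_lit 0) (nat_lit 1810650050) (nat_lit 836) (nat_lit 1810650050) (nat_lit 366) (nat_lit 1) (nat_lit 354) (nat_lit 1) (nat_lit 365) (nat_lit 1) (nat_lit 290) (nat_lit 374) (nat_lit 356)))) (XT.nd (nat_lit 156) (nat_lit 608) (nat_lit 0) (XT.nd (nat_lit 78) (nat_lit 608) (nat_lit 0) (XT.lf (nat_lit 76) (nat_lit 2076554596) (nat_lit 0) (nat_lit 4328363998) (nat_lit 912) (nat_lit 2076554596) (nat_lit 355) (nat_lit 1) (nat_lit 354) (nat_lit 1) (nat_lit 366) (nat_lit 1) (nat_lit 291) (nat_lit 374) (nat_lit 355)) (XT.lf (nat_lit 684) (nat_lit 3312520937) (nat_lit 0) (nat_lit 2528016386) (nat_lit 608) (nat_lit 2528016386) (nat_lit 355) (nat_lit 1) (nat_lit 346) (nat_lit 1) (nat_lit 354) (nat_lit 1) (nat_lit 292) (nat_lit 374) (nat_lit 354))) (XT.nd (nat_lit 78) (nat_lit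 608) (nat_lit 0) (XT.lf (nat_lit 76) (nat_lit 1231809298) (nat_lit 0) (nat_lit 5794349289) (nat_lit 684) (nat_lit 1231809298) (nat_lit 347) (nat_lit 1) (nat_lit 346) (nat_lit 1) (nat_lit 355) (nat_lit 1) (nat_lit 293) (nat_lit 374) (nat_lit 353)) (XT.nd (nat_lit 78) (nat_lit 0) (nat_lit 0) (XT.lf (nat_lit 684) (nat_lit 1582634221) (nat_lit 0) (nat_lit 3283157101) (nat_lit 608) (nat_lit 3283157101) (nat_lit 347) (nat_lit 1) (nat_lit 338) (nat_lit 1) (nat_lit 346) (nat_lit 1) (nat_lit 294) (nat_lit 374) (nat_lit 352)) (XT.lf (nat_lit 76) (nat_lit 355819969) (nat_lit 0) (nat_lit 7331007951) (nat_lit 684) (nat_lit 355819969) (nat_lit 339) (nat_lit 1) (nat_lit 338) (nat_lit 1) (nat_lit 347) (nat_lit 1) (nat_lit 295) (nat_lit 374) (nat_lit 351)))))) (XT.nd (nat_lit 390) (nat_lit 1596) (nat_lit 0) (XT.nd (nat_lit 156) (nat_lit 532) (nat_lit 0) (XT.nd (nat_lit 78) (nat_lit 608) (nat_lit 0) (XT.lf (nat_lit 76)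 (nat_lit 3867724788) (nat_lit 0) (nat_lit 201841169) (nat_lit 608) (nat_lit 3867724788) (nat_lit 331) (nat_lit 1) (nat_lit 330) (nat_lit 1) (nat_lit 338) (nat_lit 1) (nat_lit 296) (nat_lit 374) (nat_lit 350)) (XT.lf (nat_lit 684) (nat_lit 6750680542) (nat_lit 0) (nat_lit 541931789) (nat_lit 608) (nat_lit 541931789) (nat_lit 331) (nat_lit 1) (nat_lit 322) (nat_lit 1) (nat_lit 330) (nat_lit 1) (nat_lit 297) (nat_lit 374) (nat_lit 349))) (XT.nd (nat_lit 78) (nat_lit 532) (nat_lit 0) (XT.lf (nat_lit 76) (nat_lit 2863877839) (nat_lit 0) (nat_lit 2005087685) (nat_lit 684) (nat_lit 2863877839) (nat_lit 323) (nat_lit 1) (nat_lit 322) (nat_lit 1) (nat_lit 331) (nat_lit 1) (nat_lit 298) (nat_lit 374) (nat_lit 348)) (XT.nd (nat_lit 78) (nat_lit 0) (nat_lit 0) (XT.lf (nat_lit 608) (nat_lit 4714967021) (nat_lit 0) (nat_lit 1459282594) (nat_lit 532) (nat_lit 1459282594) (nat_lit 323) (nat_lit 1) (nat_lit 315) (nat_lit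 1) (nat_lit 322) (nat_lit 1) (nat_lit 299) (nat_lit 374) (nat_lit 347)) (XT.lf (nat_lit 76) (nat_lit 1842497110) (nat_lit 0) (nat_lit 3850759700) (nat_lit 608) (nat_lit 1842497110) (nat_lit 316) (nat_lit 1) (nat_lit 315) (nat_lit 1) (nat_lit 323) (nat_lit 1) (nat_lit 300) (nat_lit 374) (nat_lit 346))))) (XT.nd (nat_lit 156) (nat_lit 1064) (nat_lit 0) (XT.nd (nat_lit 78) (nat_lit 0) (nat_lit 0) (XT.lf (nat_lit 608) (nat_lit 2647268081) (nat_lit 0) (nat_lit 2396227936) (nat_lit 532) (nat_lit 2396227936) (nat_lit 316) (nat_lit 1) (nat_lit 308) (nat_lit 1) (nat_lit 315) (nat_lit 1) (nat_lit 301) (nat_lit 374) (nat_lit 345)) (XT.lf (nat_lit 76) (nat_lit 806778200) (nat_lit 0) (nat_lit 5732171160) (nat_lit 608) (nat_lit 806778200) (nat_lit 309) (nat_lit 1) (nat_lit 308) (nat_lit 1) (nat_lit 316) (nat_lit 1) (nat_lit 302) (nat_lit 374) (nat_lit 344))) (XT.nd (nat_lit 78) (nat_lit 608) (nat_lit 0) (XT.lf (nat_lit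 532) (nat_lit 553755070) (nat_lit 0) (nat_lit 3349538514) (nat_lit 456) (nat_lit 3349538514) (nat_lit 309) (nat_lit 1) (nat_lit 302) (nat_lit 1) (nat_lit 308) (nat_lit 1) (nat_lit 303) (nat_lit 374) (nat_lit 343)) (XT.nd (nat_lit 78) (nat_lit 0) (nat_lit 0) (XT.lf (nat_lit 608) (nat_lit 6686255395) (nat_lit 0) (nat_lit 237974310) (nat_lit 532) (nat_lit 237974310) (nat_lit 302) (nat_lit 1) (nat_lit 294) (nat_lit 1) (nat_lit 301) (nat_lit 1) (nat_lit 304) (nat_lit 374) (nat_lit 342)) (XT.lf (nat_lit 76) (nat_lit 2771345039) (nat_lit 0) (nat_lit 1529442294) (nat_lit 608) (nat_lit 2771345039) (nat_lit 295) (nat_lit 1) (nat_lit 294) (nat_lit 1) (nat_lit 302) (nat_lit 1) (nat_lit 305) (nat_lit 374) (nat_lit 341))))))))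
noncomputable def ec176 : XT := (XT.nd (nat_lit 1404) (nat_lit 3496) (nat_lit 0) (XT.nd (nat_lit 702) (nat_lit 2280) (nat_lit 0) (XT.nd (nat_lit 312) (nat_lit 1292) (nat_lit 0) (XT.nd (nat_lit 156) (nat_lit 456) (nat_lit 0) (XT.nd (nat_lit 78) (nat_lit 0) (nat_lit 0) (XT.lf (nat_lit 532) (nat_lit 4417437960) (nat_lit 0) (nat_lit 1283404742) (nat_lit 456) (nat_lit 1283404742) (nat_lit 295) (nat_lit 1) (nat_lit 288) (nat_lit 1) (nat_lit 294) (nat_lit 1) (nat_lit 306) (nat_lit 374) (nat_lit 340)) (XT.lf (nat_lit 76) (nat_lit 1640611582) (nat_lit 0) (nat_lit 3616425211) (nat_lit 532) (nat_lit 1640611582) (nat_lit 289) (nat_lit 1) (nat_lit 288) (nat_lit 1) (nat_lit 295) (nat_lit 1) (nat_lit 307) (nat_lit 374) (nat_lit 339))) (XT.nd (nat_lit 78) (nat_lit 0) (nat_lit 0) (XT.lf (nat_lit 532) (nat_lit 2142646854) (nat_lit 0) (nat_lit 2334946041) (nat_lit 456) (nat_lit 2334946041) (nat_lit 289) (nat_lit 1) (nat_lit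 282) (nat_lit 1) (nat_lit 288) (nat_lit 1) (nat_lit 308) (nat_lit 374) (nat_lit 338)) (XT.lf (nat_lit 76) (nat_lit 508009317) (nat_lit 0) (nat_lit 5713271884) (nat_lit 532) (nat_lit 508009317) (nat_lit 283) (nat_lit 1) (nat_lit 282) (nat_lit 1) (nat_lit 289) (nat_lit 1) (nat_lit 309) (nat_lit 374) (nat_lit 337)))) (XT.nd (nat_lit 156) (nat_lit 380) (nat_lit 0) (XT.nd (nat_lit 78) (nat_lit 456) (nat_lit 0) (XT.lf (nat_lit 76) (nat_lit 3257800113) (nat_lit 0) (nat_lit 131196569) (nat_lit 456) (nat_lit 3257800113) (nat_lit 277) (nat_lit 1) (nat_lit 276) (nat_lit 1) (nat_lit 282) (nat_lit 1) (nat_lit 310) (nat_lit 374) (nat_lit 336)) (XT.lf (nat_lit 532) (nat_lit 5329520863) (nat_lit 0) (nat_lit 618287837) (nat_lit 456) (nat_lit 618287837) (nat_lit 277) (nat_lit 1) (nat_lit 270) (nat_lit 1) (nat_lit 276) (nat_lit 1) (nat_lit 311) (nat_lit 374) (nat_lit 335))) (XT.nd (nat_lit 78) (nat_lit 380) (nat_lit 0)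 (XT.lf (nat_lit 76) (nat_lit 2062609983) (nat_lit 0) (nat_lit 2360989887) (nat_lit 532) (nat_lit 2062609983) (nat_lit 271) (nat_lit 1) (nat_lit 270) (nat_lit 1) (nat_lit 277) (nat_lit 1) (nat_lit 312) (nat_lit 374) (nat_lit 334)) (XT.nd (nat_lit 78) (nat_lit 0) (nat_lit 0) (XT.lf (nat_lit 456) (nat_lit 2932848837) (nat_lit 0) (nat_lit 1737563474) (nat_lit 380) (nat_lit 1737563474) (nat_lit 271) (nat_lit 1) (nat_lit 265) (nat_lit 1) (nat_lit 270) (nat_lit 1) (nat_lit 313) (nat_lit 374) (nat_lit 333)) (XT.lf (nat_lit 76) (nat_lit 873084428) (nat_lit 0) (nat_lit 4585005751) (nat_lit 456) (nat_lit 873084428) (nat_lit 266) (nat_lit 1) (nat_lit 265) (nat_lit 1) (nat_lit 271) (nat_lit 1) (nat_lit 314) (nat_lit 374) (nat_lit 332)))))) (XT.nd (nat_lit 312) (nat_lit 1064) (nat_lit 0) (XT.nd (nat_lit 156) (nat_lit 380) (nat_lit 0) (XT.nd (nat_lit 78) (nat_lit 456) (nat_lit 0) (XT.lf (nat_lit 456) (nat_lit 549101332)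 (nat_lit 0) (nat_lit 2853099885) (nat_lit 380) (nat_lit 2853099885) (nat_lit 266) (nat_lit 1) (nat_lit 260) (nat_lit 1) (nat_lit 265) (nat_lit 1) (nat_lit 315) (nat_lit 374) (nat_lit 331)) (XT.lf (nat_lit 456) (nat_lit 5568647905) (nat_lit 0) (nat_lit 306236353) (nat_lit 380) (nat_lit 306236353) (nat_lit 260) (nat_lit 1) (nat_lit 254) (nat_lit 1) (nat_lit 259) (nat_lit 1) (nat_lit 316) (nat_lit 374) (nat_lit 330))) (XT.nd (nat_lit 78) (nat_lit 380) (nat_lit 0) (XT.lf (nat_lit 76) (nat_lit 2162000109) (nat_lit 0) (nat_lit 1783340884) (nat_lit 456) (nat_lit 2162000109) (nat_lit 255) (nat_lit 1) (nat_lit 254) (nat_lit 1) (nat_lit 260) (nat_lit 1) (nat_lit 317) (nat_lit 374) (nat_lit 329)) (XT.lf (nat_lit 456) (nat_lit 3098120673) (nat_lit 0) (nat_lit 1468540302) (nat_lit 380) (nat_lit 1468540302) (nat_lit 255) (nat_lit 1) (nat_lit 249) (nat_lit 1) (nat_lit 254) (nat_lit 1) (nat_lit 318) (nat_lit 374) (nat_lit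 328)))) (XT.nd (nat_lit 156) (nat_lit 760) (nat_lit 0) (XT.nd (nat_lit 78) (nat_lit 304) (nat_lit 0) (XT.lf (nat_lit 76) (nat_lit 938635947) (nat_lit 0) (nat_lit 4086997286) (nat_lit 456) (nat_lit 938635947) (nat_lit 250) (nat_lit 1) (nat_lit 249) (nat_lit 1) (nat_lit 255) (nat_lit 1) (nat_lit 319) (nat_lit 374) (nat_lit 327)) (XT.lf (nat_lit 380) (nat_lit 651913217) (nat_lit 0) (nat_lit 2621161401) (nat_lit 304) (nat_lit 2621161401) (nat_lit 250) (nat_lit 1) (nat_lit 245) (nat_lit 1) (nat_lit 249) (nat_lit 1) (nat_lit 320) (nat_lit 374) (nat_lit 326))) (XT.nd (nat_lit 78) (nat_lit 304) (nat_lit 0) (XT.lf (nat_lit 456) (nat_lit 5286864607) (nat_lit 0) (nat_lit 269437297) (nat_lit 380) (nat_lit 269437297) (nat_lit 245) (nat_lit 1) (nat_lit 239) (nat_lit 1) (nat_lit 244) (nat_lit 1) (nat_lit 321) (nat_lit 374) (nat_lit 325)) (XT.nd (nat_lit 78) (nat_lit 304) (nat_lit 0) (XT.lf (nat_lit 76) (nat_lit 2012040554)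 (nat_lit 0) (nat_lit 1733449189) (nat_lit 456) (nat_lit 2012040554) (nat_lit 240) (nat_lit 1) (nat_lit 239) (nat_lit 1) (nat_lit 245) (nat_lit 1) (nat_lit 322) (nat_lit 374) (nat_lit 324)) (XT.lf (nat_lit 380) (nat_lit 2781083111) (nat_lit 0) (nat_lit 1454864980) (nat_lit 304) (nat_lit 1454864980) (nat_lit 240) (nat_lit 1) (nat_lit 235) (nat_lit 1) (nat_lit 239) (nat_lit 1) (nat_lit 323) (nat_lit 374) (nat_lit 323))))))) (XT.nd (nat_lit 702) (nat_lit 1900) (nat_lit 0) (XT.nd (nat_lit 312) (nat_lit 912) (nat_lit 0) (XT.nd (nat_lit 156) (nat_lit 380) (nat_lit 0) (XT.nd (nat_lit 78) (nat_lit 304) (nat_lit 0) (XT.lf (nat_lit 76) (nat_lit 773376731) (nat_lit 0) (nat_lit 4078483598) (nat_lit 380) (nat_lit 773376731) (nat_lit 236) (nat_lit 1) (nat_lit 235) (nat_lit 1) (nat_lit 240) (nat_lit 1) (nat_lit 324) (nat_lit 374) (nat_lit 322)) (XT.lf (nat_lit 380) (nat_lit 308390030) (nat_lit 0) (nat_lit 2626008193)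 (nat_lit 304) (nat_lit 2626008193) (nat_lit 236) (nat_lit 1) (nat_lit 231) (nat_lit 1) (nat_lit 235) (nat_lit 1) (nat_lit 325) (nat_lit 374) (nat_lit 321))) (XT.nd (nat_lit 78) (nat_lit 0) (nat_lit 0) (XT.lf (nat_lit 380) (nat_lit 4608690945) (nat_lit 0) (nat_lit 444082113) (nat_lit 304) (nat_lit 444082113) (nat_lit 231) (nat_lit 1) (nat_lit 226) (nat_lit 1) (nat_lit 230) (nat_lit 1) (nat_lit 326) (nat_lit 374) (nat_lit 320)) (XT.lf (nat_lit 76) (nat_lit 1672706562) (nat_lit 0) (nat_lit 2088326419) (nat_lit 380) (nat_lit 1672706562) (nat_lit 227) (nat_lit 1) (nat_lit 226) (nat_lit 1) (nat_lit 231) (nat_lit 1) (nat_lit 327) (nat_lit 374) (nat_lit 319)))) (XT.nd (nat_lit 156) (nat_lit 608) (nat_lit 0) (XT.nd (nat_lit 78) (nat_lit 0) (nat_lit 0) (XT.lf (nat_lit 380) (nat_lit 2098456014) (nat_lit 0) (nat_lit 1636704948) (nat_lit 304) (nat_lit 1636704948) (nat_lit 227) (nat_lit 1) (nat_lit 222) (nat_lit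 1) (nat_lit 226) (nat_lit 1) (nat_lit 328) (nat_lit 374) (nat_lit 318)) (XT.lf (nat_lit 76) (nat_lit 433520625) (nat_lit 0) (nat_lit 4444148023) (nat_lit 380) (nat_lit 433520625) (nat_lit 223) (nat_lit 1) (nat_lit 222) (nat_lit 1) (nat_lit 227) (nat_lit 1) (nat_lit 329) (nat_lit 374) (nat_lit 317))) (XT.nd (nat_lit 78) (nat_lit 304) (nat_lit 0) (XT.lf (nat_lit 76) (nat_lit 2443043507) (nat_lit 0) (nat_lit 364816575) (nat_lit 304) (nat_lit 2443043507) (nat_lit 219) (nat_lit 1) (nat_lit 218) (nat_lit 1) (nat_lit 222) (nat_lit 1) (nat_lit 330) (nat_lit 374) (nat_lit 316)) (XT.nd (nat_lit 78) (nat_lit 0) (nat_lit 0) (XT.lf (nat_lit 380) (nat_lit 3635766977) (nat_lit 0) (nat_lit 778007343) (nat_lit 304) (nat_lit 778007343) (nat_lit 219) (nat_lit 1) (nat_lit 214) (nat_lit 1) (nat_lit 218) (nat_lit 1) (nat_lit 331) (nat_lit 374) (nat_lit 315)) (XT.lf (nat_lit 76) (nat_lit 1192933168) (nat_lit 0) (nat_lit 2747466925)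 (nat_lit 380) (nat_lit 1192933168) (nat_lit 215) (nat_lit 1) (nat_lit 214) (nat_lit 1) (nat_lit 219) (nat_lit 1) (nat_lit 332) (nat_lit 374) (nat_lit 314)))))) (XT.nd (nat_lit 390) (nat_lit 1064) (nat_lit 0) (XT.nd (nat_lit 156) (nat_lit 228) (nat_lit 0) (XT.nd (nat_lit 78) (nat_lit 380) (nat_lit 0) (XT.lf (nat_lit 304) (nat_lit 1145434618) (nat_lit 0) (nat_lit 1965184039) (nat_lit 228) (nat_lit 1965184039) (nat_lit 215) (nat_lit 1) (nat_lit 211) (nat_lit 1) (nat_lit 214) (nat_lit 1) (nat_lit 333) (nat_lit 374) (nat_lit 313)) (XT.lf (nat_lit 380) (nat_lit 4950056128) (nat_lit 0) (nat_lit 34760317) (nat_lit 304) (nat_lit 34760317) (nat_lit 211) (nat_lit 1) (nat_lit 206) (nat_lit 1) (nat_lit 210) (nat_lit 1) (nat_lit 334) (nat_lit 374) (nat_lit 312))) (XT.nd (nat_lit 78) (nat_lit 228) (nat_lit 0) (XT.lf (nat_lit 76) (nat_lit 1844134510) (nat_lit 0) (nat_lit 1274971270) (nat_lit 380) (nat_lit 1844134510)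 (nat_lit 207) (nat_lit 1) (nat_lit 206) (nat_lit 1) (nat_lit 211) (nat_lit 1) (nat_lit 335) (nat_lit 374) (nat_lit 311)) (XT.nd (nat_lit 78) (nat_lit 0) (nat_lit 0) (XT.lf (nat_lit 304) (nat_lit 2450733276) (nat_lit 0) (nat_lit 1228723670) (nat_lit 228) (nat_lit 1228723670) (nat_lit 207) (nat_lit 1) (nat_lit 203) (nat_lit 1) (nat_lit 206) (nat_lit 1) (nat_lit 336) (nat_lit 374) (nat_lit 310)) (XT.lf (nat_lit 76) (nat_lit 612488788) (nat_lit 0) (nat_lit 3629040309) (nat_lit 304) (nat_lit 612488788) (nat_lit 204) (nat_lit 1) (nat_lit 203) (nat_lit 1) (nat_lit 207) (nat_lit 1) (nat_lit 337) (nat_lit 374) (nat_lit 309))))) (XT.nd (nat_lit 156) (nat_lit 532) (nat_lit 0) (XT.nd (nat_lit 78) (nat_lit 228) (nat_lit 0) (XT.lf (nat_lit 76) (nat_lit 2399876852) (nat_lit 0) (nat_lit 642539) (nat_lit 304) (nat_lit 2399876852) (nat_lit 200) (nat_lit 1) (nat_lit 199) (nat_lit 1) (nat_lit 203) (nat_lit 1) (nat_lit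 338) (nat_lit 374) (nat_lit 308)) (XT.lf (nat_lit 304) (nat_lit 3568735506) (nat_lit 0) (nat_lit 589455654) (nat_lit 228) (nat_lit 589455654) (nat_lit 200) (nat_lit 1) (nat_lit 196) (nat_lit 1) (nat_lit 199) (nat_lit 1) (nat_lit 339) (nat_lit 374) (nat_lit 307))) (XT.nd (nat_lit 78) (nat_lit 532) (nat_lit 0) (XT.lf (nat_lit 76) (nat_lit 1169119096) (nat_lit 0) (nat_lit 2357166438) (nat_lit 304) (nat_lit 1169119096) (nat_lit 197) (nat_lit 1) (nat_lit 196) (nat_lit 1) (nat_lit 200) (nat_lit 1) (nat_lit 340) (nat_lit 374) (nat_lit 306)) (XT.nd (nat_lit 78) (nat_lit 304) (nat_lit 0) (XT.lf (nat_lit 304) (nat_lit 1120471131) (nat_lit 0) (nat_lit 1761769920) (nat_lit 228) (nat_lit 1761769920) (nat_lit 197) (nat_lit 1) (nat_lit 193) (nat_lit 1) (nat_lit 196) (nat_lit 1) (nat_lit 341) (nat_lit 374) (nat_lit 305)) (XT.lf (nat_lit 304) (nat_lit 4521542976) (nat_lit 0) (nat_lit 36102925) (nat_lit 228) (nat_lit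 36102925) (nat_lit 193) (nat_lit 1) (nat_lit 189) (nat_lit 1) (nat_lit 192) (nat_lit 1) (nat_lit 342) (nat_lit 374) (nat_lit 304))))))))
noncomputable def ec177 : XT := (XT.nd (nat_lit 1482) (nat_lit 1824) (nat_lit 0) (XT.nd (nat_lit 702) (nat_lit 1292) (nat_lit 0) (XT.nd (nat_lit 312) (nat_lit 684) (nat_lit 0) (XT.nd (nat_lit 156) (nat_lit 228) (nat_lit 0) (XT.nd (nat_lit 78) (nat_lit 228) (nat_lit 0) (XT.lf (nat_lit 76) (nat_lit 1645476049) (nat_lit 0) (nat_lit 1252380905) (nat_lit 304) (nat_lit 1645476049) (nat_lit 190) (nat_lit 1) (nat_lit 189) (nat_lit 1) (nat_lit 193) (nat_lit 1) (nat_lit 343) (nat_lit 374) (nat_lit 303)) (XT.lf (nat_lit 304) (nat_lit 2083925429) (nat_lit 0) (nat_lit 1205051277) (nat_lit 228) (nat_lit 1205051277) (nat_lit 190) (nat_lit 1) (nat_lit 186) (nat_lit 1) (nat_lit 189) (nat_lit 1) (nat_lit 344) (nat_lit 374) (nat_lit 302))) (XT.nd (nat_lit 78) (nat_lit 228) (nat_lit 0)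 (XT.lf (nat_lit 76) (nat_lit 445710975) (nat_lit 0) (nat_lit 3554136122) (nat_lit 304) (nat_lit 445710975) (nat_lit 187) (nat_lit 1) (nat_lit 186) (nat_lit 1) (nat_lit 190) (nat_lit 1) (nat_lit 345) (nat_lit 374) (nat_lit 301)) (XT.lf (nat_lit 76) (nat_lit 2051041317) (nat_lit 0) (nat_lit 295315529) (nat_lit 228) (nat_lit 2051041317) (nat_lit 184) (nat_lit 1) (nat_lit 183) (nat_lit 1) (nat_lit 186) (nat_lit 1) (nat_lit 346) (nat_lit 374) (nat_lit 300)))) (XT.nd (nat_lit 156) (nat_lit 456) (nat_lit 0) (XT.nd (nat_lit 78) (nat_lit 0) (nat_lit 0) (XT.lf (nat_lit 304) (nat_lit 2908241084) (nat_lit 0) (nat_lit 720906939) (nat_lit 228) (nat_lit 720906939) (nat_lit 184) (nat_lit 1) (nat_lit 180) (nat_lit 1) (nat_lit 183) (nat_lit 1) (nat_lit 347) (nat_lit 374) (nat_lit 299)) (XT.lf (nat_lit 76) (nat_lit 860188575) (nat_lit 0) (nat_lit 2582874864) (nat_lit 304) (nat_lit 860188575) (nat_lit 181) (nat_lit 1)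 (nat_lit 180) (nat_lit 1) (nat_lit 184) (nat_lit 1) (nat_lit 348) (nat_lit 374) (nat_lit 298))) (XT.nd (nat_lit 78) (nat_lit 304) (nat_lit 0) (XT.lf (nat_lit 228) (nat_lit 541788894) (nat_lit 0) (nat_lit 1857642912) (nat_lit 152) (nat_lit 1857642912) (nat_lit 181) (nat_lit 1) (nat_lit 178) (nat_lit 1) (nat_lit 180) (nat_lit 1) (nat_lit 349) (nat_lit 374) (nat_lit 297)) (XT.nd (nat_lit 78) (nat_lit 0) (nat_lit 0) (XT.lf (nat_lit 304) (nat_lit 3609857187) (nat_lit 0) (nat_lit 300938310) (nat_lit 228) (nat_lit 300938310) (nat_lit 178) (nat_lit 1) (nat_lit 174) (nat_lit 1) (nat_lit 177) (nat_lit 1) (nat_lit 350) (nat_lit 374) (nat_lit 296)) (XT.lf (nat_lit 76) (nat_lit 1214926744) (nat_lit 0) (nat_lit 1736667323) (nat_lit 304) (nat_lit 1214926744) (nat_lit 175) (nat_lit 1) (nat_lit 174) (nat_lit 1) (nat_lit 178) (nat_lit 1) (nat_lit 351) (nat_lit 374) (nat_lit 295)))))) (XT.nd (nat_lit 390) (nat_lit 760)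 (nat_lit 0) (XT.nd (nat_lit 156) (nat_lit 380) (nat_lit 0) (XT.nd (nat_lit 78) (nat_lit 0) (nat_lit 0) (XT.lf (nat_lit 228) (nat_lit 1267192681) (nat_lit 0) (nat_lit 1427468055) (nat_lit 152) (nat_lit 1427468055) (nat_lit 175) (nat_lit 1) (nat_lit 172) (nat_lit 1) (nat_lit 174) (nat_lit 1) (nat_lit 352) (nat_lit 374) (nat_lit 294)) (XT.lf (nat_lit 76) (nat_lit 62924658) (nat_lit 0) (nat_lit 3952814995) (nat_lit 228) (nat_lit 62924658) (nat_lit 173) (nat_lit 1) (nat_lit 172) (nat_lit 1) (nat_lit 175) (nat_lit 1) (nat_lit 353) (nat_lit 374) (nat_lit 293))) (XT.nd (nat_lit 78) (nat_lit 152) (nat_lit 0) (XT.lf (nat_lit 76) (nat_lit 1516980984) (nat_lit 0) (nat_lit 1001080655) (nat_lit 228) (nat_lit 1516980984) (nat_lit 170) (nat_lit 1) (nat_lit 169) (nat_lit 1) (nat_lit 172) (nat_lit 1) (nat_lit 354) (nat_lit 374) (nat_lit 292)) (XT.nd (nat_lit 78) (nat_lit 0) (nat_lit 0) (XT.lf (nat_lit 228) (nat_lit 1888816581)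 (nat_lit 0) (nat_lit 1051759100) (nat_lit 152) (nat_lit 1051759100) (nat_lit 170) (nat_lit 1) (nat_lit 167) (nat_lit 1) (nat_lit 169) (nat_lit 1) (nat_lit 355) (nat_lit 374) (nat_lit 291)) (XT.lf (nat_lit 76) (nat_lit 379161894) (nat_lit 0) (nat_lit 3192002376) (nat_lit 228) (nat_lit 379161894) (nat_lit 168) (nat_lit 1) (nat_lit 167) (nat_lit 1) (nat_lit 170) (nat_lit 1) (nat_lit 356) (nat_lit 374) (nat_lit 290))))) (XT.nd (nat_lit 156) (nat_lit 380) (nat_lit 0) (XT.nd (nat_lit 78) (nat_lit 152) (nat_lit 0) (XT.lf (nat_lit 76) (nat_lit 1772608545) (nat_lit 0) (nat_lit 363305674) (nat_lit 228) (nat_lit 1772608545) (nat_lit 165) (nat_lit 1) (nat_lit 164) (nat_lit 1) (nat_lit 167) (nat_lit 1) (nat_lit 357) (nat_lit 374) (nat_lit 289)) (XT.lf (nat_lit 228) (nat_lit 2418900036) (nat_lit 0) (nat_lit 724253194) (nat_lit 152) (nat_lit 724253194) (nat_lit 165) (nat_lit 1) (nat_lit 162) (nat_lit 1) (nat_lit 164)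 (nat_lit 1) (nat_lit 358) (nat_lit 374) (nat_lit 288))) (XT.nd (nat_lit 78) (nat_lit 380) (nat_lit 0) (XT.lf (nat_lit 76) (nat_lit 650719413) (nat_lit 0) (nat_lit 2525351263) (nat_lit 228) (nat_lit 650719413) (nat_lit 163) (nat_lit 1) (nat_lit 162) (nat_lit 1) (nat_lit 165) (nat_lit 1) (nat_lit 359) (nat_lit 374) (nat_lit 287)) (XT.nd (nat_lit 78) (nat_lit 228) (nat_lit 0) (XT.lf (nat_lit 228) (nat_lit 191766684) (nat_lit 0) (nat_lit 1797434476) (nat_lit 152) (nat_lit 1797434476) (nat_lit 163) (nat_lit 1) (nat_lit 160) (nat_lit 1) (nat_lit 162) (nat_lit 1) (nat_lit 360) (nat_lit 374) (nat_lit 286)) (XT.lf (nat_lit 228) (nat_lit 2868298214) (nat_lit 0) (nat_lit 439391385) (nat_lit 152) (nat_lit 439391385) (nat_lit 160) (nat_lit 1) (nat_lit 157) (nat_lit 1) (nat_lit 159) (nat_lit 1) (nat_lit 361) (nat_lit 374) (nat_lit 285))))))) (XT.nd (nat_lit 702) (nat_lit 988) (nat_lit 0) (XT.nd (nat_lit 312) (nat_lit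 456) (nat_lit 0) (XT.nd (nat_lit 156) (nat_lit 228) (nat_lit 0) (XT.nd (nat_lit 78) (nat_lit 152) (nat_lit 0) (XT.lf (nat_lit 76) (nat_lit 882853809) (nat_lit 0) (nat_lit 1942089943) (nat_lit 228) (nat_lit 882853809) (nat_lit 158) (nat_lit 1) (nat_lit 157) (nat_lit 1) (nat_lit 160) (nat_lit 1) (nat_lit 362) (nat_lit 374) (nat_lit 284)) (XT.lf (nat_lit 228) (nat_lit 676191216) (nat_lit 0) (nat_lit 1496456267) (nat_lit 152) (nat_lit 1496456267) (nat_lit 158) (nat_lit 1) (nat_lit 155) (nat_lit 1) (nat_lit 157) (nat_lit 1) (nat_lit 363) (nat_lit 374) (nat_lit 283))) (XT.nd (nat_lit 78) (nat_lit 0) (nat_lit 0) (XT.lf (nat_lit 228) (nat_lit 3246636941) (nat_lit 0) (nat_lit 192239964) (nat_lit 152) (nat_lit 192239964) (nat_lit 155) (nat_lit 1) (nat_lit 152) (nat_lit 1) (nat_lit 154) (nat_lit 1) (nat_lit 364) (nat_lit 374) (nat_lit 282)) (XT.lf (nat_lit 76) (nat_lit 1080227514) (nat_lit 0) (nat_lit 1432655792)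 (nat_lit 228) (nat_lit 1080227514) (nat_lit 153) (nat_lit 1) (nat_lit 152) (nat_lit 1) (nat_lit 155) (nat_lit 1) (nat_lit 365) (nat_lit 374) (nat_lit 281)))) (XT.nd (nat_lit 156) (nat_lit 304) (nat_lit 0) (XT.nd (nat_lit 78) (nat_lit 0) (nat_lit 0) (XT.lf (nat_lit 228) (nat_lit 1091863838) (nat_lit 0) (nat_lit 1231969405) (nat_lit 152) (nat_lit 1231969405) (nat_lit 153) (nat_lit 1) (nat_lit 150) (nat_lit 1) (nat_lit 152) (nat_lit 1) (nat_lit 366) (nat_lit 374) (nat_lit 280)) (XT.lf (nat_lit 76) (nat_lit 21793065) (nat_lit 0) (nat_lit 3475680123) (nat_lit 228) (nat_lit 21793065) (nat_lit 151) (nat_lit 1) (nat_lit 150) (nat_lit 1) (nat_lit 153) (nat_lit 1) (nat_lit 367) (nat_lit 374) (nat_lit 279))) (XT.nd (nat_lit 78) (nat_lit 152) (nat_lit 0) (XT.lf (nat_lit 76) (nat_lit 1246975281) (nat_lit 0) (nat_lit 988560225) (nat_lit 152) (nat_lit 1246975281) (nat_lit 149) (nat_lit 1) (nat_lit 148) (nat_lit 1)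 (nat_lit 150) (nat_lit 1) (nat_lit 368) (nat_lit 374) (nat_lit 278)) (XT.nd (nat_lit 78) (nat_lit 0) (nat_lit 0) (XT.lf (nat_lit 228) (nat_lit 1446880374) (nat_lit 0) (nat_lit 999819340) (nat_lit 152) (nat_lit 999819340) (nat_lit 149) (nat_lit 1) (nat_lit 146) (nat_lit 1) (nat_lit 148) (nat_lit 1) (nat_lit 369) (nat_lit 374) (nat_lit 277)) (XT.lf (nat_lit 76) (nat_lit 207990914) (nat_lit 0) (nat_lit 2995176546) (nat_lit 228) (nat_lit 207990914) (nat_lit 147) (nat_lit 1) (nat_lit 146) (nat_lit 1) (nat_lit 149) (nat_lit 1) (nat_lit 370) (nat_lit 374) (nat_lit 276)))))) (XT.nd (nat_lit 390) (nat_lit 380) (nat_lit 0) (XT.nd (nat_lit 156) (nat_lit 304) (nat_lit 0) (XT.nd (nat_lit 78) (nat_lit 152) (nat_lit 0) (XT.lf (nat_lit 76) (nat_lit 1386763255) (nat_lit 0) (nat_lit 602268693) (nat_lit 152) (nat_lit 1386763255) (nat_lit 145) (nat_lit 1) (nat_lit 144) (nat_lit 1) (nat_lit 146) (nat_lit 1) (nat_lit 371)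 (nat_lit 374) (nat_lit 275)) (XT.lf (nat_lit 228) (nat_lit 1748421362) (nat_lit 0) (nat_lit 796317290) (nat_lit 152) (nat_lit 796317290) (nat_lit 145) (nat_lit 1) (nat_lit 142) (nat_lit 1) (nat_lit 144) (nat_lit 1) (nat_lit 372) (nat_lit 374) (nat_lit 274))) (XT.nd (nat_lit 78) (nat_lit 304) (nat_lit 0) (XT.lf (nat_lit 76) (nat_lit 367931270) (nat_lit 0) (nat_lit 2570961756) (nat_lit 228) (nat_lit 367931270) (nat_lit 143) (nat_lit 1) (nat_lit 142) (nat_lit 1) (nat_lit 145) (nat_lit 1) (nat_lit 373) (nat_lit 374) (nat_lit 273)) (XT.nd (nat_lit 78) (nat_lit 152) (nat_lit 0) (XT.lf (nat_lit 76) (nat_lit 1502841453) (nat_lit 0) (nat_lit 267094086) (nat_lit 152) (nat_lit 1502841453) (nat_lit 141) (nat_lit 1) (nat_lit 140) (nat_lit 1) (nat_lit 142) (nat_lit 1) (nat_lit 374) (nat_lit 374) (nat_lit 272)) (XT.lf (nat_lit 228) (nat_lit 2002854481) (nat_lit 0) (nat_lit 618188236) (nat_lit 152) (nat_lit 618188236)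 (nat_lit 141) (nat_lit 1) (nat_lit 138) (nat_lit 1) (nat_lit 140) (nat_lit 1) (nat_lit 375) (nat_lit 374) (nat_lit 271))))) (XT.nd (nat_lit 156) (nat_lit 304) (nat_lit 0) (XT.nd (nat_lit 78) (nat_lit 76) (nat_lit 0) (XT.lf (nat_lit 76) (nat_lit 504702204) (nat_lit 0) (nat_lit 2196679996) (nat_lit 228) (nat_lit 504702204) (nat_lit 139) (nat_lit 1) (nat_lit 138) (nat_lit 1) (nat_lit 141) (nat_lit 1) (nat_lit 376) (nat_lit 374) (nat_lit 270)) (XT.lf (nat_lit 152) (nat_lit 23353697) (nat_lit 0) (nat_lit 1574961164) (nat_lit 76) (nat_lit 1574961164) (nat_lit 139) (nat_lit 1) (nat_lit 137) (nat_lit 1) (nat_lit 138) (nat_lit 1) (nat_lit 377) (nat_lit 374) (nat_lit 269))) (XT.nd (nat_lit 78) (nat_lit 76) (nat_lit 0) (XT.lf (nat_lit 228) (nat_lit 2215825553) (nat_lit 0) (nat_lit 462524705) (nat_lit 152) (nat_lit 462524705) (nat_lit 137) (nat_lit 1) (nat_lit 134) (nat_lit 1) (nat_lit 136) (nat_lit 1) (nat_lit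 378) (nat_lit 374) (nat_lit 268)) (XT.nd (nat_lit 78) (nat_lit 76) (nat_lit 0) (XT.lf (nat_lit 76) (nat_lit 621042765) (nat_lit 0) (nat_lit 1866686556) (nat_lit 228) (nat_lit 621042765) (nat_lit 135) (nat_lit 1) (nat_lit 134) (nat_lit 1) (nat_lit 137) (nat_lit 1) (nat_lit 379) (nat_lit 374) (nat_lit 267)) (XT.lf (nat_lit 152) (nat_lit 278406021) (nat_lit 0) (nat_lit 1399332595) (nat_lit 76) (nat_lit 1399332595) (nat_lit 135) (nat_lit 1) (nat_lit 133) (nat_lit 1) (nat_lit 134) (nat_lit 1) (nat_lit 380) (nat_lit 374) (nat_lit 266))))))))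
noncomputable def ec178 : XT := (XT.nd (nat_lit 1482) (nat_lit 1444) (nat_lit 0) (XT.nd (nat_lit 702) (nat_lit 760) (nat_lit 0) (XT.nd (nat_lit 312) (nat_lit 380) (nat_lit 0) (XT.nd (nat_lit 156) (nat_lit 304) (nat_lit 0) (XT.nd (nat_lit 78) (nat_lit 0) (nat_lit 0) (XT.lf (nat_lit 228) (nat_lit 2392339380) (nat_lit 0) (nat_lit 326745718) (nat_lit 152) (nat_lit 326745718) (nat_lit 133) (nat_lit 1) (nat_lit 130) (nat_lit 1) (nat_lit 132) (nat_lit 1) (nat_lit 381) (nat_lit 374) (nat_lit 265)) (XT.lf (nat_lit 76) (nat_lit 719382040) (nat_lit 0) (nat_lit 1575968410) (nat_lit 228) (nat_lit 719382040) (nat_lit 131) (nat_lit 1) (nat_lit 130) (nat_lit 1) (nat_lit 133) (nat_lit 1) (nat_lit 382) (nat_lit 374) (nat_lit 264))) (XT.nd (nat_lit 78) (nat_lit 228) (nat_lit 0) (XT.lf (nat_lit 152) (nat_lit 497512147) (nat_lit 0) (nat_lit 1243288886) (nat_lit 76) (nat_lit 1243288886) (nat_lit 131) (nat_lit 1) (nat_lit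 129) (nat_lit 1) (nat_lit 130) (nat_lit 1) (nat_lit 383) (nat_lit 374) (nat_lit 263)) (XT.lf (nat_lit 228) (nat_lit 2536831559) (nat_lit 0) (nat_lit 208560318) (nat_lit 152) (nat_lit 208560318) (nat_lit 129) (nat_lit 1) (nat_lit 126) (nat_lit 1) (nat_lit 128) (nat_lit 1) (nat_lit 384) (nat_lit 374) (nat_lit 262)))) (XT.nd (nat_lit 156) (nat_lit 304) (nat_lit 0) (XT.nd (nat_lit 78) (nat_lit 76) (nat_lit 0) (XT.lf (nat_lit 76) (nat_lit 801873845) (nat_lit 0) (nat_lit 1320073717) (nat_lit 228) (nat_lit 801873845) (nat_lit 127) (nat_lit 1) (nat_lit 126) (nat_lit 1) (nat_lit 129) (nat_lit 1) (nat_lit 385) (nat_lit 374) (nat_lit 261)) (XT.lf (nat_lit 152) (nat_lit 684899122) (nat_lit 0) (nat_lit 1104646072) (nat_lit 76) (nat_lit 1104646072) (nat_lit 127) (nat_lit 1) (nat_lit 125) (nat_lit 1) (nat_lit 126) (nat_lit 1) (nat_lit 386) (nat_lit 374) (nat_lit 260))) (XT.nd (nat_lit 78) (nat_lit 76) (nat_lit 0)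 (XT.lf (nat_lit 228) (nat_lit 2653232280) (nat_lit 0) (nat_lit 105935160) (nat_lit 152) (nat_lit 105935160) (nat_lit 125) (nat_lit 1) (nat_lit 122) (nat_lit 1) (nat_lit 124) (nat_lit 1) (nat_lit 387) (nat_lit 374) (nat_lit 259)) (XT.nd (nat_lit 78) (nat_lit 76) (nat_lit 0) (XT.lf (nat_lit 76) (nat_lit 870427554) (nat_lit 0) (nat_lit 1095049174) (nat_lit 228) (nat_lit 870427554) (nat_lit 123) (nat_lit 1) (nat_lit 122) (nat_lit 1) (nat_lit 125) (nat_lit 1) (nat_lit 388) (nat_lit 374) (nat_lit 258)) (XT.lf (nat_lit 152) (nat_lit 844316254) (nat_lit 0) (nat_lit 981463728) (nat_lit 76) (nat_lit 981463728) (nat_lit 123) (nat_lit 1) (nat_lit 121) (nat_lit 1) (nat_lit 122) (nat_lit 1) (nat_lit 389) (nat_lit 374) (nat_lit 257)))))) (XT.nd (nat_lit 390) (nat_lit 304) (nat_lit 0) (XT.nd (nat_lit 156) (nat_lit 228) (nat_lit 0) (XT.nd (nat_lit 78) (nat_lit 0) (nat_lit 0) (XT.lf (nat_lit 228) (nat_lit 2745022998)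 (nat_lit 0) (nat_lit 17065725) (nat_lit 152) (nat_lit 17065725) (nat_lit 121) (nat_lit 1) (nat_lit 118) (nat_lit 1) (nat_lit 120) (nat_lit 1) (nat_lit 390) (nat_lit 374) (nat_lit 256)) (XT.lf (nat_lit 76) (nat_lit 926735481) (nat_lit 0) (nat_lit 897384361) (nat_lit 228) (nat_lit 926735481) (nat_lit 119) (nat_lit 1) (nat_lit 118) (nat_lit 1) (nat_lit 121) (nat_lit 1) (nat_lit 391) (nat_lit 374) (nat_lit 255))) (XT.nd (nat_lit 78) (nat_lit 152) (nat_lit 0) (XT.lf (nat_lit 152) (nat_lit 979088575) (nat_lit 0) (nat_lit 872017810) (nat_lit 76) (nat_lit 872017810) (nat_lit 119) (nat_lit 1) (nat_lit 117) (nat_lit 1) (nat_lit 118) (nat_lit 1) (nat_lit 392) (nat_lit 374) (nat_lit 254)) (XT.nd (nat_lit 78) (nat_lit 152) (nat_lit 0) (XT.lf (nat_lit 0) (nat_lit 60239845) (nat_lit 0) (nat_lit 2575438733) (nat_lit 152) (nat_lit 60239845) (nat_lit 117) (nat_lit 3) (nat_lit 117) (nat_lit 1) (nat_lit 119) (nat_lit 1)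 (nat_lit 393) (nat_lit 374) (nat_lit 253)) (XT.lf (nat_lit 76) (nat_lit 972297202) (nat_lit 0) (nat_lit 723962298) (nat_lit 152) (nat_lit 972297202) (nat_lit 116) (nat_lit 1) (nat_lit 115) (nat_lit 1) (nat_lit 117) (nat_lit 1) (nat_lit 394) (nat_lit 374) (nat_lit 252))))) (XT.nd (nat_lit 156) (nat_lit 228) (nat_lit 0) (XT.nd (nat_lit 78) (nat_lit 0) (nat_lit 0) (XT.lf (nat_lit 152) (nat_lit 1092164333) (nat_lit 0) (nat_lit 774776530) (nat_lit 76) (nat_lit 774776530) (nat_lit 116) (nat_lit 1) (nat_lit 114) (nat_lit 1) (nat_lit 115) (nat_lit 1) (nat_lit 395) (nat_lit 374) (nat_lit 251)) (XT.lf (nat_lit 0) (nat_lit 126874406) (nat_lit 0) (nat_lit 2361596041) (nat_lit 152) (nat_lit 126874406) (nat_lit 114) (nat_lit 3) (nat_lit 114) (nat_lit 1) (nat_lit 116) (nat_lit 1) (nat_lit 396) (nat_lit 374) (nat_lit 250))) (XT.nd (nat_lit 78) (nat_lit 76) (nat_lit 0) (XT.lf (nat_lit 76) (nat_lit 1008441171) (nat_lit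 0) (nat_lit 572015509) (nat_lit 152) (nat_lit 1008441171) (nat_lit 113) (nat_lit 1) (nat_lit 112) (nat_lit 1) (nat_lit 114) (nat_lit 1) (nat_lit 397) (nat_lit 374) (nat_lit 249)) (XT.nd (nat_lit 78) (nat_lit 0) (nat_lit 0) (XT.lf (nat_lit 152) (nat_lit 1186157180) (nat_lit 0) (nat_lit 688378912) (nat_lit 76) (nat_lit 688378912) (nat_lit 113) (nat_lit 1) (nat_lit 111) (nat_lit 1) (nat_lit 112) (nat_lit 1) (nat_lit 398) (nat_lit 374) (nat_lit 248)) (XT.lf (nat_lit 0) (nat_lit 183941882) (nat_lit 0) (nat_lit 2169463111) (nat_lit 152) (nat_lit 183941882) (nat_lit 111) (nat_lit 3) (nat_lit 111) (nat_lit 1) (nat_lit 113) (nat_lit 1) (nat_lit 399) (nat_lit 374) (nat_lit 247))))))) (XT.nd (nat_lit 702) (nat_lit 760) (nat_lit 0) (XT.nd (nat_lit 312) (nat_lit 304) (nat_lit 0) (XT.nd (nat_lit 156) (nat_lit 152) (nat_lit 0) (XT.nd (nat_lit 78) (nat_lit 76) (nat_lit 0) (XT.lf (nat_lit 76) (nat_lit 1036343909) (nat_lit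 0) (nat_lit 439086996) (nat_lit 152) (nat_lit 1036343909) (nat_lit 110) (nat_lit 1) (nat_lit 109) (nat_lit 1) (nat_lit 111) (nat_lit 1) (nat_lit 400) (nat_lit 374) (nat_lit 246)) (XT.lf (nat_lit 152) (nat_lit 1263383656) (nat_lit 0) (nat_lit 611615747) (nat_lit 76) (nat_lit 611615747) (nat_lit 110) (nat_lit 1) (nat_lit 108) (nat_lit 1) (nat_lit 109) (nat_lit 1) (nat_lit 401) (nat_lit 374) (nat_lit 245))) (XT.nd (nat_lit 78) (nat_lit 152) (nat_lit 0) (XT.lf (nat_lit 0) (nat_lit 232571354) (nat_lit 0) (nat_lit 1996681249) (nat_lit 152) (nat_lit 232571354) (nat_lit 108) (nat_lit 3) (nat_lit 108) (nat_lit 1) (nat_lit 110) (nat_lit 1) (nat_lit 402) (nat_lit 374) (nat_lit 244)) (XT.lf (nat_lit 76) (nat_lit 1057047063) (nat_lit 0) (nat_lit 322995561) (nat_lit 152) (nat_lit 1057047063) (nat_lit 107) (nat_lit 1) (nat_lit 106) (nat_lit 1) (nat_lit 108) (nat_lit 1) (nat_lit 403) (nat_lit 374) (nat_lit 243))))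 (XT.nd (nat_lit 156) (nat_lit 228) (nat_lit 0) (XT.nd (nat_lit 78) (nat_lit 0) (nat_lit 0) (XT.lf (nat_lit 152) (nat_lit 1325896485) (nat_lit 0) (nat_lit 543412669) (nat_lit 76) (nat_lit 543412669) (nat_lit 107) (nat_lit 1) (nat_lit 105) (nat_lit 1) (nat_lit 106) (nat_lit 1) (nat_lit 404) (nat_lit 374) (nat_lit 242)) (XT.lf (nat_lit 0) (nat_lit 273764184) (nat_lit 0) (nat_lit 1841152977) (nat_lit 152) (nat_lit 273764184) (nat_lit 105) (nat_lit 3) (nat_lit 105) (nat_lit 1) (nat_lit 107) (nat_lit 1) (nat_lit 405) (nat_lit 374) (nat_lit 241))) (XT.nd (nat_lit 78) (nat_lit 76) (nat_lit 0) (XT.lf (nat_lit 76) (nat_lit 1071472549) (nat_lit 0) (nat_lit 221804996) (nat_lit 152) (nat_lit 1071472549) (nat_lit 104) (nat_lit 1) (nat_lit 103) (nat_lit 1) (nat_lit 105) (nat_lit 1) (nat_lit 406) (nat_lit 374) (nat_lit 240)) (XT.nd (nat_lit 78) (nat_lit 0) (nat_lit 0) (XT.lf (nat_lit 152) (nat_lit 1375514156) (nat_lit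 0) (nat_lit 482815118) (nat_lit 76) (nat_lit 482815118) (nat_lit 104) (nat_lit 1) (nat_lit 102) (nat_lit 1) (nat_lit 103) (nat_lit 1) (nat_lit 407) (nat_lit 374) (nat_lit 239)) (XT.lf (nat_lit 0) (nat_lit 308408309) (nat_lit 0) (nat_lit 1701012950) (nat_lit 152) (nat_lit 308408309) (nat_lit 102) (nat_lit 3) (nat_lit 102) (nat_lit 1) (nat_lit 104) (nat_lit 1) (nat_lit 408) (nat_lit 374) (nat_lit 238)))))) (XT.nd (nat_lit 390) (nat_lit 304) (nat_lit 0) (XT.nd (nat_lit 156) (nat_lit 228) (nat_lit 0) (XT.nd (nat_lit 78) (nat_lit 76) (nat_lit 0) (XT.lf (nat_lit 76) (nat_lit 1080436011) (nat_lit 0) (nat_lit 133796713) (nat_lit 152) (nat_lit 1080436011) (nat_lit 101) (nat_lit 1) (nat_lit 100) (nat_lit 1) (nat_lit 102) (nat_lit 1) (nat_lit 409) (nat_lit 374) (nat_lit 237)) (XT.lf (nat_lit 152) (nat_lit 1413847193) (nat_lit 0) (nat_lit 428974979) (nat_lit 76) (nat_lit 428974979) (nat_lit 101) (nat_lit 1) (nat_lit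 99) (nat_lit 1) (nat_lit 100) (nat_lit 1) (nat_lit 410) (nat_lit 374) (nat_lit 236))) (XT.nd (nat_lit 78) (nat_lit 228) (nat_lit 0) (XT.lf (nat_lit 0) (nat_lit 337290940) (nat_lit 0) (nat_lit 1574602126) (nat_lit 152) (nat_lit 337290940) (nat_lit 99) (nat_lit 3) (nat_lit 99) (nat_lit 1) (nat_lit 101) (nat_lit 1) (nat_lit 411) (nat_lit 374) (nat_lit 235)) (XT.nd (nat_lit 78) (nat_lit 76) (nat_lit 0) (XT.lf (nat_lit 76) (nat_lit 1084658770) (nat_lit 0) (nat_lit 57445431) (nat_lit 152) (nat_lit 1084658770) (nat_lit 98) (nat_lit 1) (nat_lit 97) (nat_lit 1) (nat_lit 99) (nat_lit 1) (nat_lit 412) (nat_lit 374) (nat_lit 234)) (XT.lf (nat_lit 152) (nat_lit 1442321502) (nat_lit 0) (nat_lit 381138713) (nat_lit 76) (nat_lit 381138713) (nat_lit 98) (nat_lit 1) (nat_lit 96) (nat_lit 1) (nat_lit 97) (nat_lit 1) (nat_lit 413) (nat_lit 374) (nat_lit 233))))) (XT.nd (nat_lit 156) (nat_lit 228) (nat_lit 0) (XT.nd (nat_lit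 78) (nat_lit 76) (nat_lit 0) (XT.lf (nat_lit 0) (nat_lit 361109847) (nat_lit 0) (nat_lit 1460444811) (nat_lit 152) (nat_lit 361109847) (nat_lit 96) (nat_lit 3) (nat_lit 96) (nat_lit 1) (nat_lit 98) (nat_lit 1) (nat_lit 414) (nat_lit 374) (nat_lit 232)) (XT.lf (nat_lit 76) (nat_lit 8773640) (nat_lit 0) (nat_lit 1076089138) (nat_lit 76) (nat_lit 1076089138) (nat_lit 96) (nat_lit 3) (nat_lit 95) (nat_lit 1) (nat_lit 96) (nat_lit 1) (nat_lit 415) (nat_lit 374) (nat_lit 231))) (XT.nd (nat_lit 78) (nat_lit 76) (nat_lit 0) (XT.lf (nat_lit 152) (nat_lit 1462199103) (nat_lit 0) (nat_lit 338636810) (nat_lit 76) (nat_lit 338636810) (nat_lit 95) (nat_lit 1) (nat_lit 93) (nat_lit 1) (nat_lit 94) (nat_lit 1) (nat_lit 416) (nat_lit 374) (nat_lit 230)) (XT.nd (nat_lit 78) (nat_lit 76) (nat_lit 0) (XT.lf (nat_lit 0) (nat_lit 380483379) (nat_lit 0) (nat_lit 1357228255) (nat_lit 152) (nat_lit 380483379) (nat_lit 93) (nat_lit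 3) (nat_lit 93) (nat_lit 1) (nat_lit 95) (nat_lit 1) (nat_lit 417) (nat_lit 374) (nat_lit 229)) (XT.lf (nat_lit 76) (nat_lit 66852497) (nat_lit 0) (nat_lit 1015148494) (nat_lit 76) (nat_lit 1015148494) (nat_lit 93) (nat_lit 3) (nat_lit 92) (nat_lit 1) (nat_lit 93) (nat_lit 1) (nat_lit 418) (nat_lit 374) (nat_lit 228))))))))
noncomputable def ec179 : XT := (XT.nd (nat_lit 41808) (nat_lit 0) (nat_lit 19836) (XT.nd (nat_lit 702) (nat_lit 456) (nat_lit 0) (XT.nd (nat_lit 312) (nat_lit 304) (nat_lit 0) (XT.nd (nat_lit 156) (nat_lit 228) (nat_lit 0) (XT.nd (nat_lit 78) (nat_lit 0) (nat_lit 0) (XT.lf (nat_lit 152) (nat_lit 1474596547) (nat_lit 0) (nat_lit 300874419) (nat_lit 76) (nat_lit 300874419) (nat_lit 92) (nat_lit 1) (nat_lit 90) (nat_lit 1) (nat_lit 91) (nat_lit 1) (nat_lit 419) (nat_lit 374) (nat_lit 227)) (XT.lf (nat_lit 0) (nat_lit 395959367) (nat_lit 0) (nat_lit 1263784539) (nat_lit 152) (nat_lit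 395959367) (nat_lit 90) (nat_lit 3) (nat_lit 90) (nat_lit 1) (nat_lit 92) (nat_lit 1) (nat_lit 420) (nat_lit 374) (nat_lit 226))) (XT.nd (nat_lit 78) (nat_lit 152) (nat_lit 0) (XT.lf (nat_lit 76) (nat_lit 116734696) (nat_lit 0) (nat_lit 959283407) (nat_lit 76) (nat_lit 959283407) (nat_lit 90) (nat_lit 3) (nat_lit 89) (nat_lit 1) (nat_lit 90) (nat_lit 1) (nat_lit 421) (nat_lit 374) (nat_lit 225)) (XT.lf (nat_lit 152) (nat_lit 1480501275) (nat_lit 0) (nat_lit 267323025) (nat_lit 76) (nat_lit 267323025) (nat_lit 89) (nat_lit 1) (nat_lit 87) (nat_lit 1) (nat_lit 88) (nat_lit 1) (nat_lit 422) (nat_lit 374) (nat_lit 224)))) (XT.nd (nat_lit 156) (nat_lit 228) (nat_lit 0) (XT.nd (nat_lit 78) (nat_lit 76) (nat_lit 0) (XT.lf (nat_lit 0) (nat_lit 408023033) (nat_lit 0) (nat_lit 1179074458) (nat_lit 152) (nat_lit 408023033) (nat_lit 87) (nat_lit 3) (nat_lit 87) (nat_lit 1) (nat_lit 89) (nat_lit 1) (nat_lit 423)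 (nat_lit 374) (nat_lit 223)) (XT.lf (nat_lit 76) (nat_lit 159384371) (nat_lit 0) (nat_lit 907977987) (nat_lit 76) (nat_lit 907977987) (nat_lit 87) (nat_lit 3) (nat_lit 86) (nat_lit 1) (nat_lit 87) (nat_lit 1) (nat_lit 424) (nat_lit 374) (nat_lit 222))) (XT.nd (nat_lit 78) (nat_lit 76) (nat_lit 0) (XT.lf (nat_lit 152) (nat_lit 1480786151) (nat_lit 0) (nat_lit 237513045) (nat_lit 76) (nat_lit 237513045) (nat_lit 86) (nat_lit 1) (nat_lit 84) (nat_lit 1) (nat_lit 85) (nat_lit 1) (nat_lit 425) (nat_lit 374) (nat_lit 221)) (XT.nd (nat_lit 78) (nat_lit 76) (nat_lit 0) (XT.lf (nat_lit 0) (nat_lit 417104020) (nat_lit 0) (nat_lit 1102173224) (nat_lit 152) (nat_lit 417104020) (nat_lit 84) (nat_lit 3) (nat_lit 84) (nat_lit 1) (nat_lit 86) (nat_lit 1) (nat_lit 426) (nat_lit 374) (nat_lit 220)) (XT.lf (nat_lit 76) (nat_lit 195656682) (nat_lit 0) (nat_lit 860772415) (nat_lit 76) (nat_lit 860772415) (nat_lit 84) (nat_lit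 3) (nat_lit 83) (nat_lit 1) (nat_lit 84) (nat_lit 1) (nat_lit 427) (nat_lit 374) (nat_lit 219)))))) (XT.nd (nat_lit 390) (nat_lit 76) (nat_lit 0) (XT.nd (nat_lit 156) (nat_lit 228) (nat_lit 0) (XT.nd (nat_lit 78) (nat_lit 0) (nat_lit 0) (XT.lf (nat_lit 152) (nat_lit 1476222368) (nat_lit 0) (nat_lit 211027264) (nat_lit 76) (nat_lit 211027264) (nat_lit 83) (nat_lit 1) (nat_lit 81) (nat_lit 1) (nat_lit 82) (nat_lit 1) (nat_lit 428) (nat_lit 374) (nat_lit 218)) (XT.lf (nat_lit 0) (nat_lit 423582626) (nat_lit 0) (nat_lit 1032257741) (nat_lit 152) (nat_lit 423582626) (nat_lit 81) (nat_lit 3) (nat_lit 81) (nat_lit 1) (nat_lit 83) (nat_lit 1) (nat_lit 429) (nat_lit 374) (nat_lit 217))) (XT.nd (nat_lit 78) (nat_lit 152) (nat_lit 0) (XT.lf (nat_lit 76) (nat_lit 226310014) (nat_lit 0) (nat_lit 817256727) (nat_lit 76) (nat_lit 817256727) (nat_lit 81) (nat_lit 3) (nat_lit 80) (nat_lit 1) (nat_lit 81) (nat_lit 1)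 (nat_lit 430) (nat_lit 374) (nat_lit 216)) (XT.nd (nat_lit 78) (nat_lit 0) (nat_lit 0) (XT.lf (nat_lit 152) (nat_lit 1467490912) (nat_lit 0) (nat_lit 187494991) (nat_lit 76) (nat_lit 187494991) (nat_lit 80) (nat_lit 1) (nat_lit 78) (nat_lit 1) (nat_lit 79) (nat_lit 1) (nat_lit 431) (nat_lit 374) (nat_lit 215)) (XT.lf (nat_lit 0) (nat_lit 427795353) (nat_lit 0) (nat_lit 968595309) (nat_lit 152) (nat_lit 427795353) (nat_lit 78) (nat_lit 3) (nat_lit 78) (nat_lit 1) (nat_lit 80) (nat_lit 1) (nat_lit 432) (nat_lit 374) (nat_lit 214))))) (XT.nd (nat_lit 40482) (nat_lit 0) (nat_lit 22572) (XT.nd (nat_lit 40404) (nat_lit 0) (nat_lit 22572) (XT.lf (nat_lit 76) (nat_lit 252016803) (nat_lit 0) (nat_lit 777065304) (nat_lit 76) (nat_lit 777065304) (nat_lit 78) (nat_lit 3) (nat_lit 77) (nat_lit 1) (nat_lit 78) (nat_lit 1) (nat_lit 433) (nat_lit 374) (nat_lit 213)) (XT.lf (nat_lit 1292) (nat_lit 1049463991) (nat_lit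 0) (nat_lit 3610644204) (nat_lit 1292) (nat_lit 1049463991) (nat_lit 391) (nat_lit 1) (nat_lit 374) (nat_lit 0) (nat_lit 391) (nat_lit 0) (nat_lit 270) (nat_lit 375) (nat_lit 375))) (XT.nd (nat_lit 78) (nat_lit 0) (nat_lit 76) (XT.lf (nat_lit 1292) (nat_lit 4101323669) (nat_lit 76) (nat_lit 3575245732) (nat_lit 0) (nat_lit 3575245732) (nat_lit 391) (nat_lit 1) (nat_lit 375) (nat_lit 1) (nat_lit 374) (nat_lit 0) (nat_lit 271) (nat_lit 375) (nat_lit 374)) (XT.nd (nat_lit 78) (nat_lit 0) (nat_lit 0) (XT.lf (nat_lit 1292) (nat_lit 1983497913) (nat_lit 0) (nat_lit 7121180998) (nat_lit 1216) (nat_lit 1983497913) (nat_lit 392) (nat_lit 1) (nat_lit 375) (nat_lit 1) (nat_lit 391) (nat_lit 1) (nat_lit 272) (nat_lit 375) (nat_lit 373)) (XT.lf (nat_lit 1292) (nat_lit 3766764946) (nat_lit 76) (nat_lit 3580253136) (nat_lit 0) (nat_lit 3580253136) (nat_lit 392) (nat_lit 1) (nat_lit 376) (nat_lit 1) (nat_lit 375) (nat_lit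 1) (nat_lit 273) (nat_lit 375) (nat_lit 372))))))) (XT.nd (nat_lit 702) (nat_lit 2888) (nat_lit 0) (XT.nd (nat_lit 312) (nat_lit 0) (nat_lit 152) (XT.nd (nat_lit 156) (nat_lit 0) (nat_lit 76) (XT.nd (nat_lit 78) (nat_lit 0) (nat_lit 0) (XT.lf (nat_lit 1292) (nat_lit 1767535665) (nat_lit 0) (nat_lit 7234894601) (nat_lit 1216) (nat_lit 1767535665) (nat_lit 393) (nat_lit 1) (nat_lit 376) (nat_lit 1) (nat_lit 392) (nat_lit 1) (nat_lit 274) (nat_lit 375) (nat_lit 371)) (XT.lf (nat_lit 1292) (nat_lit 3239195733) (nat_lit 76) (nat_lit 3687990343) (nat_lit 0) (nat_lit 3687990343) (nat_lit 393) (nat_lit 1) (nat_lit 377) (nat_lit 1) (nat_lit 376) (nat_lit 1) (nat_lit 275) (nat_lit 375) (nat_lit 370))) (XT.nd (nat_lit 78) (nat_lit 0) (nat_lit 0) (XT.lf (nat_lit 1292) (nat_lit 1459933313) (nat_lit 0) (nat_lit 7544094599) (nat_lit 1216) (nat_lit 1459933313) (nat_lit 394) (nat_lit 1) (nat_lit 377) (nat_lit 1) (nat_lit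 393) (nat_lit 1) (nat_lit 276) (nat_lit 375) (nat_lit 369)) (XT.lf (nat_lit 1292) (nat_lit 2535876657) (nat_lit 76) (nat_lit 3889559738) (nat_lit 0) (nat_lit 3889559738) (nat_lit 394) (nat_lit 1) (nat_lit 378) (nat_lit 1) (nat_lit 377) (nat_lit 1) (nat_lit 277) (nat_lit 375) (nat_lit 368)))) (XT.nd (nat_lit 156) (nat_lit 0) (nat_lit 76) (XT.nd (nat_lit 78) (nat_lit 0) (nat_lit 0) (XT.lf (nat_lit 1292) (nat_lit 1068981585) (nat_lit 0) (nat_lit 8031675367) (nat_lit 1216) (nat_lit 1068981585) (nat_lit 395) (nat_lit 1) (nat_lit 378) (nat_lit 1) (nat_lit 394) (nat_lit 1) (nat_lit 278) (nat_lit 375) (nat_lit 367)) (XT.lf (nat_lit 1292) (nat_lit 1672897483) (nat_lit 76) (nat_lit 4176661861) (nat_lit 0) (nat_lit 4176661861) (nat_lit 395) (nat_lit 1) (nat_lit 379) (nat_lit 1) (nat_lit 378) (nat_lit 1) (nat_lit 279) (nat_lit 375) (nat_lit 366))) (XT.nd (nat_lit 78) (nat_lit 0) (nat_lit 0) (XT.lf (nat_lit 1292)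 (nat_lit 602407028) (nat_lit 0) (nat_lit 8681684593) (nat_lit 1216) (nat_lit 602407028) (nat_lit 396) (nat_lit 1) (nat_lit 379) (nat_lit 1) (nat_lit 395) (nat_lit 1) (nat_lit 280) (nat_lit 375) (nat_lit 365)) (XT.nd (nat_lit 78) (nat_lit 0) (nat_lit 76) (XT.lf (nat_lit 1292) (nat_lit 665249572) (nat_lit 76) (nat_lit 4541558522) (nat_lit 0) (nat_lit 4541558522) (nat_lit 396) (nat_lit 1) (nat_lit 380) (nat_lit 1) (nat_lit 379) (nat_lit 1) (nat_lit 281) (nat_lit 375) (nat_lit 364)) (XT.lf (nat_lit 1292) (nat_lit 67406964) (nat_lit 0) (nat_lit 9479252076) (nat_lit 1216) (nat_lit 67406964) (nat_lit 397) (nat_lit 1) (nat_lit 380) (nat_lit 1) (nat_lit 396) (nat_lit 1) (nat_lit 282) (nat_lit 375) (nat_lit 363)))))) (XT.nd (nat_lit 390) (nat_lit 1900) (nat_lit 0) (XT.nd (nat_lit 156) (nat_lit 0) (nat_lit 76) (XT.nd (nat_lit 78) (nat_lit 0) (nat_lit 0) (XT.lf (nat_lit 1368) (nat_lit 4508479921) (nat_lit 0) (nat_lit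 463873974) (nat_lit 1292) (nat_lit 4508479921) (nat_lit 381) (nat_lit 1) (nat_lit 363) (nat_lit 1) (nat_lit 380) (nat_lit 1) (nat_lit 283) (nat_lit 375) (nat_lit 362)) (XT.lf (nat_lit 1368) (nat_lit 8303017364) (nat_lit 76) (nat_lit 524128240) (nat_lit 0) (nat_lit 524128240) (nat_lit 381) (nat_lit 1) (nat_lit 364) (nat_lit 1) (nat_lit 363) (nat_lit 1) (nat_lit 284) (nat_lit 375) (nat_lit 361))) (XT.nd (nat_lit 78) (nat_lit 0) (nat_lit 0) (XT.lf (nat_lit 1368) (nat_lit 3763830617) (nat_lit 0) (nat_lit 1695431821) (nat_lit 1292) (nat_lit 3763830617) (nat_lit 382) (nat_lit 1) (nat_lit 364) (nat_lit 1) (nat_lit 381) (nat_lit 1) (nat_lit 285) (nat_lit 375) (nat_lit 360)) (XT.nd (nat_lit 78) (nat_lit 0) (nat_lit 76) (XT.lf (nat_lit 1368) (nat_lit 6758266413) (nat_lit 76) (nat_lit 1169947570) (nat_lit 0) (nat_lit 1169947570) (nat_lit 382) (nat_lit 1) (nat_lit 365) (nat_lit 1) (nat_lit 364) (nat_lit 1) (nat_lit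 286) (nat_lit 375) (nat_lit 359)) (XT.lf (nat_lit 76) (nat_lit 2972183810) (nat_lit 0) (nat_lit 3030552277) (nat_lit 1292) (nat_lit 2972183810) (nat_lit 366) (nat_lit 1) (nat_lit 365) (nat_lit 1) (nat_lit 382) (nat_lit 1) (nat_lit 287) (nat_lit 375) (nat_lit 358))))) (XT.nd (nat_lit 156) (nat_lit 1216) (nat_lit 0) (XT.nd (nat_lit 78) (nat_lit 0) (nat_lit 0) (XT.lf (nat_lit 912) (nat_lit 5124463321) (nat_lit 0) (nat_lit 1864969552) (nat_lit 836) (nat_lit 1864969552) (nat_lit 366) (nat_lit 1) (nat_lit 354) (nat_lit 1) (nat_lit 365) (nat_lit 1) (nat_lit 288) (nat_lit 375) (nat_lit 357)) (XT.lf (nat_lit 76) (nat_lit 2138851234) (nat_lit 0) (nat_lit 4458214918) (nat_lit 912) (nat_lit 2138851234) (nat_lit 355) (nat_lit 1) (nat_lit 354) (nat_lit 1) (nat_lit 366) (nat_lit 1) (nat_lit 289) (nat_lit 375) (nat_lit 356))) (XT.nd (nat_lit 78) (nat_lit 608) (nat_lit 0) (XT.lf (nat_lit 684) (nat_lit 3411896565) (nat_lit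 0) (nat_lit 2603856878) (nat_lit 608) (nat_lit 2603856878) (nat_lit 355) (nat_lit 1) (nat_lit 346) (nat_lit 1) (nat_lit 354) (nat_lit 1) (nat_lit 290) (nat_lit 375) (nat_lit 355)) (XT.nd (nat_lit 78) (nat_lit 608) (nat_lit 0) (XT.lf (nat_lit 76) (nat_lit 1268763577) (nat_lit 0) (nat_lit 5968179767) (nat_lit 684) (nat_lit 1268763577) (nat_lit 347) (nat_lit 1) (nat_lit 346) (nat_lit 1) (nat_lit 355) (nat_lit 1) (nat_lit 291) (nat_lit 375) (nat_lit 354)) (XT.lf (nat_lit 684) (nat_lit 1630113248) (nat_lit 0) (nat_lit 3381651814) (nat_lit 608) (nat_lit 3381651814) (nat_lit 347) (nat_lit 1) (nat_lit 338) (nat_lit 1) (nat_lit 346) (nat_lit 1) (nat_lit 292) (nat_lit 375) (nat_lit 353))))))))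
noncomputable def ec180 : XT := (XT.nd (nat_lit 1404) (nat_lit 4256) (nat_lit 0) (XT.nd (nat_lit 702) (nat_lit 2432) (nat_lit 0) (XT.nd (nat_lit 312) (nat_lit 1520) (nat_lit 0) (XT.nd (nat_lit 156) (nat_lit 608) (nat_lit 0) (XT.nd (nat_lit 78) (nat_lit 608) (nat_lit 0) (XT.lf (nat_lit 76) (nat_lit 366494568) (nat_lit 0) (nat_lit 7550938190) (nat_lit 684) (nat_lit 366494568) (nat_lit 339) (nat_lit 1) (nat_lit 338) (nat_lit 1) (nat_lit 347) (nat_lit 1) (nat_lit 293) (nat_lit 375) (nat_lit 352)) (XT.lf (nat_lit 76) (nat_lit 3983756532) (nat_lit 0) (nat_lit 207896404) (nat_lit 608) (nat_lit 3983756532) (nat_lit 331) (nat_lit 1) (nat_lit 330) (nat_lit 1) (nat_lit 338) (nat_lit 1) (nat_lit 294) (nat_lit 375) (nat_lit 351))) (XT.nd (nat_lit 78) (nat_lit 0) (nat_lit 0) (XT.lf (nat_lit 684) (nat_lit 6953200958) (nat_lit 0) (nat_lit 558189742) (nat_lit 608) (nat_lit 558189742) (nat_lit 331) (nat_lit 1) (nat_lit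 322) (nat_lit 1) (nat_lit 330) (nat_lit 1) (nat_lit 295) (nat_lit 375) (nat_lit 350)) (XT.lf (nat_lit 76) (nat_lit 2949794174) (nat_lit 0) (nat_lit 2065240315) (nat_lit 684) (nat_lit 2949794174) (nat_lit 323) (nat_lit 1) (nat_lit 322) (nat_lit 1) (nat_lit 331) (nat_lit 1) (nat_lit 296) (nat_lit 375) (nat_lit 349)))) (XT.nd (nat_lit 156) (nat_lit 988) (nat_lit 0) (XT.nd (nat_lit 78) (nat_lit 0) (nat_lit 0) (XT.lf (nat_lit 608) (nat_lit 4856416031) (nat_lit 0) (nat_lit 1503061072) (nat_lit 532) (nat_lit 1503061072) (nat_lit 323) (nat_lit 1) (nat_lit 315) (nat_lit 1) (nat_lit 322) (nat_lit 1) (nat_lit 297) (nat_lit 375) (nat_lit 348)) (XT.lf (nat_lit 76) (nat_lit 1897772023) (nat_lit 0) (nat_lit 3966282491) (nat_lit 608) (nat_lit 1897772023) (nat_lit 316) (nat_lit 1) (nat_lit 315) (nat_lit 1) (nat_lit 323) (nat_lit 1) (nat_lit 298) (nat_lit 375) (nat_lit 347))) (XT.nd (nat_lit 78) (nat_lit 456) (nat_lit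 0) (XT.lf (nat_lit 608) (nat_lit 2726686123) (nat_lit 0) (nat_lit 2468114774) (nat_lit 532) (nat_lit 2468114774) (nat_lit 316) (nat_lit 1) (nat_lit 308) (nat_lit 1) (nat_lit 315) (nat_lit 1) (nat_lit 299) (nat_lit 375) (nat_lit 346)) (XT.nd (nat_lit 78) (nat_lit 456) (nat_lit 0) (XT.lf (nat_lit 76) (nat_lit 830981546) (nat_lit 0) (nat_lit 5904136295) (nat_lit 608) (nat_lit 830981546) (nat_lit 309) (nat_lit 1) (nat_lit 308) (nat_lit 1) (nat_lit 316) (nat_lit 1) (nat_lit 300) (nat_lit 375) (nat_lit 345)) (XT.lf (nat_lit 532) (nat_lit 570367722) (nat_lit 0) (nat_lit 3450024670) (nat_lit 456) (nat_lit 3450024670) (nat_lit 309) (nat_lit 1) (nat_lit 302) (nat_lit 1) (nat_lit 308) (nat_lit 1) (nat_lit 301) (nat_lit 375) (nat_lit 344)))))) (XT.nd (nat_lit 312) (nat_lit 1368) (nat_lit 0) (XT.nd (nat_lit 156) (nat_lit 456) (nat_lit 0) (XT.nd (nat_lit 78) (nat_lit 0) (nat_lit 0) (XT.lf (nat_lit 608) (nat_lit 6886843057)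 (nat_lit 0) (nat_lit 245113539) (nat_lit 532) (nat_lit 245113539) (nat_lit 302) (nat_lit 1) (nat_lit 294) (nat_lit 1) (nat_lit 301) (nat_lit 1) (nat_lit 302) (nat_lit 375) (nat_lit 343)) (XT.lf (nat_lit 76) (nat_lit 2854485391) (nat_lit 0) (nat_lit 1575325563) (nat_lit 608) (nat_lit 2854485391) (nat_lit 295) (nat_lit 1) (nat_lit 294) (nat_lit 1) (nat_lit 302) (nat_lit 1) (nat_lit 303) (nat_lit 375) (nat_lit 342))) (XT.nd (nat_lit 78) (nat_lit 0) (nat_lit 0) (XT.lf (nat_lit 532) (nat_lit 4549961098) (nat_lit 0) (nat_lit 1321906884) (nat_lit 456) (nat_lit 1321906884) (nat_lit 295) (nat_lit 1) (nat_lit 288) (nat_lit 1) (nat_lit 294) (nat_lit 1) (nat_lit 304) (nat_lit 375) (nat_lit 341)) (XT.lf (nat_lit 76) (nat_lit 1689829929) (nat_lit 0) (nat_lit 3724917968) (nat_lit 532) (nat_lit 1689829929) (nat_lit 289) (nat_lit 1) (nat_lit 288) (nat_lit 1) (nat_lit 295) (nat_lit 1) (nat_lit 305) (nat_lit 375) (nat_lit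 340)))) (XT.nd (nat_lit 156) (nat_lit 912) (nat_lit 0) (XT.nd (nat_lit 78) (nat_lit 0) (nat_lit 0) (XT.lf (nat_lit 532) (nat_lit 2206926259) (nat_lit 0) (nat_lit 2404994422) (nat_lit 456) (nat_lit 2404994422) (nat_lit 289) (nat_lit 1) (nat_lit 282) (nat_lit 1) (nat_lit 288) (nat_lit 1) (nat_lit 306) (nat_lit 375) (nat_lit 339)) (XT.lf (nat_lit 76) (nat_lit 523249597) (nat_lit 0) (nat_lit 5884670041) (nat_lit 532) (nat_lit 523249597) (nat_lit 283) (nat_lit 1) (nat_lit 282) (nat_lit 1) (nat_lit 289) (nat_lit 1) (nat_lit 307) (nat_lit 375) (nat_lit 338))) (XT.nd (nat_lit 78) (nat_lit 456) (nat_lit 0) (XT.lf (nat_lit 76) (nat_lit 3355534116) (nat_lit 0) (nat_lit 135132466) (nat_lit 456) (nat_lit 3355534116) (nat_lit 277) (nat_lit 1) (nat_lit 276) (nat_lit 1) (nat_lit 282) (nat_lit 1) (nat_lit 308) (nat_lit 375) (nat_lit 337)) (XT.nd (nat_lit 78) (nat_lit 0) (nat_lit 0) (XT.lf (nat_lit 532) (nat_lit 5489406489)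 (nat_lit 0) (nat_lit 636836472) (nat_lit 456) (nat_lit 636836472) (nat_lit 277) (nat_lit 1) (nat_lit 270) (nat_lit 1) (nat_lit 276) (nat_lit 1) (nat_lit 309) (nat_lit 375) (nat_lit 336)) (XT.lf (nat_lit 76) (nat_lit 2124488283) (nat_lit 0) (nat_lit 2431819584) (nat_lit 532) (nat_lit 2124488283) (nat_lit 271) (nat_lit 1) (nat_lit 270) (nat_lit 1) (nat_lit 277) (nat_lit 1) (nat_lit 310) (nat_lit 375) (nat_lit 335))))))) (XT.nd (nat_lit 702) (nat_lit 1900) (nat_lit 0) (XT.nd (nat_lit 312) (nat_lit 1140) (nat_lit 0) (XT.nd (nat_lit 156) (nat_lit 836) (nat_lit 0) (XT.nd (nat_lit 78) (nat_lit 0) (nat_lit 0) (XT.lf (nat_lit 456) (nat_lit 3020834302) (nat_lit 0) (nat_lit 1789690378) (nat_lit 380) (nat_lit 1789690378) (nat_lit 271) (nat_lit 1) (nat_lit 265) (nat_lit 1) (nat_lit 270) (nat_lit 1) (nat_lit 311) (nat_lit 375) (nat_lit 334)) (XT.lf (nat_lit 76) (nat_lit 899276960) (nat_lit 0) (nat_lit 4722555924)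 (nat_lit 456) (nat_lit 899276960) (nat_lit 266) (nat_lit 1) (nat_lit 265) (nat_lit 1) (nat_lit 271) (nat_lit 1) (nat_lit 312) (nat_lit 375) (nat_lit 333))) (XT.nd (nat_lit 78) (nat_lit 456) (nat_lit 0) (XT.lf (nat_lit 456) (nat_lit 565574372) (nat_lit 0) (nat_lit 2938692882) (nat_lit 380) (nat_lit 2938692882) (nat_lit 266) (nat_lit 1) (nat_lit 260) (nat_lit 1) (nat_lit 265) (nat_lit 1) (nat_lit 313) (nat_lit 375) (nat_lit 332)) (XT.lf (nat_lit 456) (nat_lit 5735707342) (nat_lit 0) (nat_lit 315423444) (nat_lit 380) (nat_lit 315423444) (nat_lit 260) (nat_lit 1) (nat_lit 254) (nat_lit 1) (nat_lit 259) (nat_lit 1) (nat_lit 314) (nat_lit 375) (nat_lit 331)))) (XT.nd (nat_lit 156) (nat_lit 760) (nat_lit 0) (XT.nd (nat_lit 78) (nat_lit 380) (nat_lit 0) (XT.lf (nat_lit 76) (nat_lit 2226860113) (nat_lit 0) (nat_lit 1836841111) (nat_lit 456) (nat_lit 2226860113) (nat_lit 255) (nat_lit 1) (nat_lit 254) (nat_lit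 1) (nat_lit 260) (nat_lit 1) (nat_lit 315) (nat_lit 375) (nat_lit 330)) (XT.lf (nat_lit 456) (nat_lit 3191064293) (nat_lit 0) (nat_lit 1512596511) (nat_lit 380) (nat_lit 1512596511) (nat_lit 255) (nat_lit 1) (nat_lit 249) (nat_lit 1) (nat_lit 254) (nat_lit 1) (nat_lit 316) (nat_lit 375) (nat_lit 329))) (XT.nd (nat_lit 78) (nat_lit 760) (nat_lit 0) (XT.lf (nat_lit 76) (nat_lit 966795025) (nat_lit 0) (nat_lit 4209607205) (nat_lit 456) (nat_lit 966795025) (nat_lit 250) (nat_lit 1) (nat_lit 249) (nat_lit 1) (nat_lit 255) (nat_lit 1) (nat_lit 317) (nat_lit 375) (nat_lit 328)) (XT.nd (nat_lit 78) (nat_lit 456) (nat_lit 0) (XT.lf (nat_lit 380) (nat_lit 671470614) (nat_lit 0) (nat_lit 2699796243) (nat_lit 304) (nat_lit 2699796243) (nat_lit 250) (nat_lit 1) (nat_lit 245) (nat_lit 1) (nat_lit 249) (nat_lit 1) (nat_lit 318) (nat_lit 375) (nat_lit 327)) (XT.lf (nat_lit 456) (nat_lit 5445470545) (nat_lit 0) (nat_lit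 277520416) (nat_lit 380) (nat_lit 277520416) (nat_lit 245) (nat_lit 1) (nat_lit 239) (nat_lit 1) (nat_lit 244) (nat_lit 1) (nat_lit 319) (nat_lit 375) (nat_lit 326)))))) (XT.nd (nat_lit 390) (nat_lit 912) (nat_lit 0) (XT.nd (nat_lit 156) (nat_lit 684) (nat_lit 0) (XT.nd (nat_lit 78) (nat_lit 304) (nat_lit 0) (XT.lf (nat_lit 76) (nat_lit 2072401770) (nat_lit 0) (nat_lit 1785452665) (nat_lit 456) (nat_lit 2072401770) (nat_lit 240) (nat_lit 1) (nat_lit 239) (nat_lit 1) (nat_lit 245) (nat_lit 1) (nat_lit 320) (nat_lit 375) (nat_lit 325)) (XT.lf (nat_lit 380) (nat_lit 2864515604) (nat_lit 0) (nat_lit 1498510929) (nat_lit 304) (nat_lit 1498510929) (nat_lit 240) (nat_lit 1) (nat_lit 235) (nat_lit 1) (nat_lit 239) (nat_lit 1) (nat_lit 321) (nat_lit 375) (nat_lit 324))) (XT.nd (nat_lit 78) (nat_lit 684) (nat_lit 0) (XT.lf (nat_lit 76) (nat_lit 796578033) (nat_lit 0) (nat_lit 4200838106) (nat_lit 380) (nat_lit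 796578033) (nat_lit 236) (nat_lit 1) (nat_lit 235) (nat_lit 1) (nat_lit 240) (nat_lit 1) (nat_lit 322) (nat_lit 375) (nat_lit 323)) (XT.nd (nat_lit 78) (nat_lit 380) (nat_lit 0) (XT.lf (nat_lit 380) (nat_lit 317641730) (nat_lit 0) (nat_lit 2704788439) (nat_lit 304) (nat_lit 2704788439) (nat_lit 236) (nat_lit 1) (nat_lit 231) (nat_lit 1) (nat_lit 235) (nat_lit 1) (nat_lit 323) (nat_lit 375) (nat_lit 322)) (XT.lf (nat_lit 380) (nat_lit 4746951673) (nat_lit 0) (nat_lit 457404576) (nat_lit 304) (nat_lit 457404576) (nat_lit 231) (nat_lit 1) (nat_lit 226) (nat_lit 1) (nat_lit 230) (nat_lit 1) (nat_lit 324) (nat_lit 375) (nat_lit 321))))) (XT.nd (nat_lit 156) (nat_lit 608) (nat_lit 0) (XT.nd (nat_lit 78) (nat_lit 304) (nat_lit 0) (XT.lf (nat_lit 76) (nat_lit 1722887759) (nat_lit 0) (nat_lit 2150976212) (nat_lit 380) (nat_lit 1722887759) (nat_lit 227) (nat_lit 1) (nat_lit 226) (nat_lit 1) (nat_lit 231) (nat_lit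 1) (nat_lit 325) (nat_lit 375) (nat_lit 320)) (XT.lf (nat_lit 380) (nat_lit 2161409695) (nat_lit 0) (nat_lit 1685806097) (nat_lit 304) (nat_lit 1685806097) (nat_lit 227) (nat_lit 1) (nat_lit 222) (nat_lit 1) (nat_lit 226) (nat_lit 1) (nat_lit 326) (nat_lit 375) (nat_lit 319))) (XT.nd (nat_lit 78) (nat_lit 608) (nat_lit 0) (XT.lf (nat_lit 76) (nat_lit 446526244) (nat_lit 0) (nat_lit 4577472464) (nat_lit 380) (nat_lit 446526244) (nat_lit 223) (nat_lit 1) (nat_lit 222) (nat_lit 1) (nat_lit 227) (nat_lit 1) (nat_lit 327) (nat_lit 375) (nat_lit 318)) (XT.nd (nat_lit 78) (nat_lit 304) (nat_lit 0) (XT.lf (nat_lit 76) (nat_lit 2516334812) (nat_lit 0) (nat_lit 375761072) (nat_lit 304) (nat_lit 2516334812) (nat_lit 219) (nat_lit 1) (nat_lit 218) (nat_lit 1) (nat_lit 222) (nat_lit 1) (nat_lit 328) (nat_lit 375) (nat_lit 317)) (XT.lf (nat_lit 380) (nat_lit 3744839986) (nat_lit 0) (nat_lit 801347563) (nat_lit 304)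 (nat_lit 801347563) (nat_lit 219) (nat_lit 1) (nat_lit 214) (nat_lit 1) (nat_lit 218) (nat_lit 1) (nat_lit 329) (nat_lit 375) (nat_lit 316))))))))
noncomputable def ec181 : XT := (XT.nd (nat_lit 1482) (nat_lit 2128) (nat_lit 0) (XT.nd (nat_lit 702) (nat_lit 1672) (nat_lit 0) (XT.nd (nat_lit 312) (nat_lit 760) (nat_lit 0) (XT.nd (nat_lit 156) (nat_lit 380) (nat_lit 0) (XT.nd (nat_lit 78) (nat_lit 228) (nat_lit 0) (XT.lf (nat_lit 76) (nat_lit 1228721163) (nat_lit 0) (nat_lit 2829890932) (nat_lit 380) (nat_lit 1228721163) (nat_lit 215) (nat_lit 1) (nat_lit 214) (nat_lit 1) (nat_lit 219) (nat_lit 1) (nat_lit 330) (nat_lit 375) (nat_lit 315)) (XT.lf (nat_lit 304) (nat_lit 1179797656) (nat_lit 0) (nat_lit 2024139560) (nat_lit 228) (nat_lit 2024139560) (nat_lit 215) (nat_lit 1) (nat_lit 211) (nat_lit 1) (nat_lit 214) (nat_lit 1) (nat_lit 331) (nat_lit 375) (nat_lit 314))) (XT.nd (nat_lit 78) (nat_lit 0) (nat_lit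 0) (XT.lf (nat_lit 380) (nat_lit 5098557812) (nat_lit 0) (nat_lit 35803126) (nat_lit 304) (nat_lit 35803126) (nat_lit 211) (nat_lit 1) (nat_lit 206) (nat_lit 1) (nat_lit 210) (nat_lit 1) (nat_lit 332) (nat_lit 375) (nat_lit 313)) (XT.lf (nat_lit 76) (nat_lit 1899458546) (nat_lit 0) (nat_lit 1313220408) (nat_lit 380) (nat_lit 1899458546) (nat_lit 207) (nat_lit 1) (nat_lit 206) (nat_lit 1) (nat_lit 211) (nat_lit 1) (nat_lit 333) (nat_lit 375) (nat_lit 312)))) (XT.nd (nat_lit 156) (nat_lit 532) (nat_lit 0) (XT.nd (nat_lit 78) (nat_lit 0) (nat_lit 0) (XT.lf (nat_lit 304) (nat_lit 2524255275) (nat_lit 0) (nat_lit 1265585380) (nat_lit 228) (nat_lit 1265585380) (nat_lit 207) (nat_lit 1) (nat_lit 203) (nat_lit 1) (nat_lit 206) (nat_lit 1) (nat_lit 334) (nat_lit 375) (nat_lit 311)) (XT.lf (nat_lit 76) (nat_lit 630863452) (nat_lit 0) (nat_lit 3737911519) (nat_lit 304) (nat_lit 630863452) (nat_lit 204) (nat_lit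 1) (nat_lit 203) (nat_lit 1) (nat_lit 207) (nat_lit 1) (nat_lit 335) (nat_lit 375) (nat_lit 310))) (XT.nd (nat_lit 78) (nat_lit 228) (nat_lit 0) (XT.lf (nat_lit 76) (nat_lit 2471873158) (nat_lit 0) (nat_lit 661816) (nat_lit 304) (nat_lit 2471873158) (nat_lit 200) (nat_lit 1) (nat_lit 199) (nat_lit 1) (nat_lit 203) (nat_lit 1) (nat_lit 336) (nat_lit 375) (nat_lit 309)) (XT.nd (nat_lit 78) (nat_lit 0) (nat_lit 0) (XT.lf (nat_lit 304) (nat_lit 3675797572) (nat_lit 0) (nat_lit 607139323) (nat_lit 228) (nat_lit 607139323) (nat_lit 200) (nat_lit 1) (nat_lit 196) (nat_lit 1) (nat_lit 199) (nat_lit 1) (nat_lit 337) (nat_lit 375) (nat_lit 308)) (XT.lf (nat_lit 76) (nat_lit 1204192669) (nat_lit 0) (nat_lit 2427881431) (nat_lit 304) (nat_lit 1204192669) (nat_lit 197) (nat_lit 1) (nat_lit 196) (nat_lit 1) (nat_lit 200) (nat_lit 1) (nat_lit 338) (nat_lit 375) (nat_lit 307)))))) (XT.nd (nat_lit 390) (nat_lit 912)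 (nat_lit 0) (XT.nd (nat_lit 156) (nat_lit 228) (nat_lit 0) (XT.nd (nat_lit 78) (nat_lit 304) (nat_lit 0) (XT.lf (nat_lit 304) (nat_lit 1154085265) (nat_lit 0) (nat_lit 1814623018) (nat_lit 228) (nat_lit 1814623018) (nat_lit 197) (nat_lit 1) (nat_lit 193) (nat_lit 1) (nat_lit 196) (nat_lit 1) (nat_lit 339) (nat_lit 375) (nat_lit 306)) (XT.lf (nat_lit 304) (nat_lit 4657189265) (nat_lit 0) (nat_lit 37186013) (nat_lit 228) (nat_lit 37186013) (nat_lit 193) (nat_lit 1) (nat_lit 189) (nat_lit 1) (nat_lit 192) (nat_lit 1) (nat_lit 340) (nat_lit 375) (nat_lit 305))) (XT.nd (nat_lit 78) (nat_lit 228) (nat_lit 0) (XT.lf (nat_lit 76) (nat_lit 1694840330) (nat_lit 0) (nat_lit 1289952332) (nat_lit 304) (nat_lit 1694840330) (nat_lit 190) (nat_lit 1) (nat_lit 189) (nat_lit 1) (nat_lit 193) (nat_lit 1) (nat_lit 341) (nat_lit 375) (nat_lit 304)) (XT.nd (nat_lit 78) (nat_lit 0) (nat_lit 0) (XT.lf (nat_lit 304) (nat_lit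 2146443192) (nat_lit 0) (nat_lit 1241202815) (nat_lit 228) (nat_lit 1241202815) (nat_lit 190) (nat_lit 1) (nat_lit 186) (nat_lit 1) (nat_lit 189) (nat_lit 1) (nat_lit 342) (nat_lit 375) (nat_lit 303)) (XT.lf (nat_lit 76) (nat_lit 459082304) (nat_lit 0) (nat_lit 3660760206) (nat_lit 304) (nat_lit 459082304) (nat_lit 187) (nat_lit 1) (nat_lit 186) (nat_lit 1) (nat_lit 190) (nat_lit 1) (nat_lit 343) (nat_lit 375) (nat_lit 302))))) (XT.nd (nat_lit 156) (nat_lit 456) (nat_lit 0) (XT.nd (nat_lit 78) (nat_lit 228) (nat_lit 0) (XT.lf (nat_lit 76) (nat_lit 2112572556) (nat_lit 0) (nat_lit 304174995) (nat_lit 228) (nat_lit 2112572556) (nat_lit 184) (nat_lit 1) (nat_lit 183) (nat_lit 1) (nat_lit 186) (nat_lit 1) (nat_lit 344) (nat_lit 375) (nat_lit 301)) (XT.lf (nat_lit 304) (nat_lit 2995488316) (nat_lit 0) (nat_lit 742534147) (nat_lit 228) (nat_lit 742534147) (nat_lit 184) (nat_lit 1) (nat_lit 180) (nat_lit 1)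 (nat_lit 183) (nat_lit 1) (nat_lit 345) (nat_lit 375) (nat_lit 300))) (XT.nd (nat_lit 78) (nat_lit 456) (nat_lit 0) (XT.lf (nat_lit 76) (nat_lit 885994232) (nat_lit 0) (nat_lit 2660361110) (nat_lit 304) (nat_lit 885994232) (nat_lit 181) (nat_lit 1) (nat_lit 180) (nat_lit 1) (nat_lit 184) (nat_lit 1) (nat_lit 346) (nat_lit 375) (nat_lit 299)) (XT.nd (nat_lit 78) (nat_lit 304) (nat_lit 0) (XT.lf (nat_lit 228) (nat_lit 558042561) (nat_lit 0) (nat_lit 1913372199) (nat_lit 152) (nat_lit 1913372199) (nat_lit 181) (nat_lit 1) (nat_lit 178) (nat_lit 1) (nat_lit 180) (nat_lit 1) (nat_lit 347) (nat_lit 375) (nat_lit 298)) (XT.lf (nat_lit 304) (nat_lit 3718152902) (nat_lit 0) (nat_lit 309966459) (nat_lit 228) (nat_lit 309966459) (nat_lit 178) (nat_lit 1) (nat_lit 174) (nat_lit 1) (nat_lit 177) (nat_lit 1) (nat_lit 348) (nat_lit 375) (nat_lit 297))))))) (XT.nd (nat_lit 702) (nat_lit 1216) (nat_lit 0) (XT.nd (nat_lit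 312) (nat_lit 532) (nat_lit 0) (XT.nd (nat_lit 156) (nat_lit 228) (nat_lit 0) (XT.nd (nat_lit 78) (nat_lit 152) (nat_lit 0) (XT.lf (nat_lit 76) (nat_lit 1251374547) (nat_lit 0) (nat_lit 1788767342) (nat_lit 304) (nat_lit 1251374547) (nat_lit 175) (nat_lit 1) (nat_lit 174) (nat_lit 1) (nat_lit 178) (nat_lit 1) (nat_lit 349) (nat_lit 375) (nat_lit 296)) (XT.lf (nat_lit 228) (nat_lit 1305208461) (nat_lit 0) (nat_lit 1470292097) (nat_lit 152) (nat_lit 1470292097) (nat_lit 175) (nat_lit 1) (nat_lit 172) (nat_lit 1) (nat_lit 174) (nat_lit 1) (nat_lit 350) (nat_lit 375) (nat_lit 295))) (XT.nd (nat_lit 78) (nat_lit 228) (nat_lit 0) (XT.lf (nat_lit 76) (nat_lit 64812398) (nat_lit 0) (nat_lit 4071399445) (nat_lit 228) (nat_lit 64812398) (nat_lit 173) (nat_lit 1) (nat_lit 172) (nat_lit 1) (nat_lit 175) (nat_lit 1) (nat_lit 351) (nat_lit 375) (nat_lit 294)) (XT.lf (nat_lit 76) (nat_lit 1562490413) (nat_lit 0) (nat_lit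 1031113075) (nat_lit 228) (nat_lit 1562490413) (nat_lit 170) (nat_lit 1) (nat_lit 169) (nat_lit 1) (nat_lit 172) (nat_lit 1) (nat_lit 352) (nat_lit 375) (nat_lit 293)))) (XT.nd (nat_lit 156) (nat_lit 380) (nat_lit 0) (XT.nd (nat_lit 78) (nat_lit 0) (nat_lit 0) (XT.lf (nat_lit 228) (nat_lit 1945481078) (nat_lit 0) (nat_lit 1083311873) (nat_lit 152) (nat_lit 1083311873) (nat_lit 170) (nat_lit 1) (nat_lit 167) (nat_lit 1) (nat_lit 169) (nat_lit 1) (nat_lit 353) (nat_lit 375) (nat_lit 292)) (XT.lf (nat_lit 76) (nat_lit 390536751) (nat_lit 0) (nat_lit 3287762448) (nat_lit 228) (nat_lit 390536751) (nat_lit 168) (nat_lit 1) (nat_lit 167) (nat_lit 1) (nat_lit 170) (nat_lit 1) (nat_lit 354) (nat_lit 375) (nat_lit 291))) (XT.nd (nat_lit 78) (nat_lit 152) (nat_lit 0) (XT.lf (nat_lit 76) (nat_lit 1825786802) (nat_lit 0) (nat_lit 374204844) (nat_lit 228) (nat_lit 1825786802) (nat_lit 165) (nat_lit 1) (nat_lit 164)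 (nat_lit 1) (nat_lit 167) (nat_lit 1) (nat_lit 355) (nat_lit 375) (nat_lit 290)) (XT.nd (nat_lit 78) (nat_lit 0) (nat_lit 0) (XT.lf (nat_lit 228) (nat_lit 2491467037) (nat_lit 0) (nat_lit 745980790) (nat_lit 152) (nat_lit 745980790) (nat_lit 165) (nat_lit 1) (nat_lit 162) (nat_lit 1) (nat_lit 164) (nat_lit 1) (nat_lit 356) (nat_lit 375) (nat_lit 289)) (XT.lf (nat_lit 76) (nat_lit 670240995) (nat_lit 0) (nat_lit 2601111801) (nat_lit 228) (nat_lit 670240995) (nat_lit 163) (nat_lit 1) (nat_lit 162) (nat_lit 1) (nat_lit 165) (nat_lit 1) (nat_lit 357) (nat_lit 375) (nat_lit 288)))))) (XT.nd (nat_lit 390) (nat_lit 456) (nat_lit 0) (XT.nd (nat_lit 156) (nat_lit 380) (nat_lit 0) (XT.nd (nat_lit 78) (nat_lit 228) (nat_lit 0) (XT.lf (nat_lit 228) (nat_lit 197519684) (nat_lit 0) (nat_lit 1851357510) (nat_lit 152) (nat_lit 1851357510) (nat_lit 163) (nat_lit 1) (nat_lit 160) (nat_lit 1) (nat_lit 162) (nat_lit 1)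 (nat_lit 358) (nat_lit 375) (nat_lit 287)) (XT.lf (nat_lit 228) (nat_lit 2954347160) (nat_lit 0) (nat_lit 452573126) (nat_lit 152) (nat_lit 452573126) (nat_lit 160) (nat_lit 1) (nat_lit 157) (nat_lit 1) (nat_lit 159) (nat_lit 1) (nat_lit 359) (nat_lit 375) (nat_lit 286))) (XT.nd (nat_lit 78) (nat_lit 380) (nat_lit 0) (XT.lf (nat_lit 76) (nat_lit 909339424) (nat_lit 0) (nat_lit 2000352641) (nat_lit 228) (nat_lit 909339424) (nat_lit 158) (nat_lit 1) (nat_lit 157) (nat_lit 1) (nat_lit 160) (nat_lit 1) (nat_lit 360) (nat_lit 375) (nat_lit 285)) (XT.nd (nat_lit 78) (nat_lit 228) (nat_lit 0) (XT.lf (nat_lit 228) (nat_lit 696476953) (nat_lit 0) (nat_lit 1541349955) (nat_lit 152) (nat_lit 1541349955) (nat_lit 158) (nat_lit 1) (nat_lit 155) (nat_lit 1) (nat_lit 157) (nat_lit 1) (nat_lit 361) (nat_lit 375) (nat_lit 284)) (XT.lf (nat_lit 228) (nat_lit 3344036049) (nat_lit 0) (nat_lit 198007163) (nat_lit 152) (nat_lit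 198007163) (nat_lit 155) (nat_lit 1) (nat_lit 152) (nat_lit 1) (nat_lit 154) (nat_lit 1) (nat_lit 362) (nat_lit 375) (nat_lit 283))))) (XT.nd (nat_lit 156) (nat_lit 304) (nat_lit 0) (XT.nd (nat_lit 78) (nat_lit 152) (nat_lit 0) (XT.lf (nat_lit 76) (nat_lit 1112634340) (nat_lit 0) (nat_lit 1475635466) (nat_lit 228) (nat_lit 1112634340) (nat_lit 153) (nat_lit 1) (nat_lit 152) (nat_lit 1) (nat_lit 155) (nat_lit 1) (nat_lit 363) (nat_lit 375) (nat_lit 282)) (XT.lf (nat_lit 228) (nat_lit 1124619754) (nat_lit 0) (nat_lit 1268928487) (nat_lit 152) (nat_lit 1268928487) (nat_lit 153) (nat_lit 1) (nat_lit 150) (nat_lit 1) (nat_lit 152) (nat_lit 1) (nat_lit 364) (nat_lit 375) (nat_lit 281))) (XT.nd (nat_lit 78) (nat_lit 304) (nat_lit 0) (XT.lf (nat_lit 76) (nat_lit 22446857) (nat_lit 0) (nat_lit 3579950527) (nat_lit 228) (nat_lit 22446857) (nat_lit 151) (nat_lit 1) (nat_lit 150) (nat_lit 1) (nat_lit 153) (nat_lit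 1) (nat_lit 365) (nat_lit 375) (nat_lit 280)) (XT.nd (nat_lit 78) (nat_lit 152) (nat_lit 0) (XT.lf (nat_lit 76) (nat_lit 1284384539) (nat_lit 0) (nat_lit 1018217032) (nat_lit 152) (nat_lit 1284384539) (nat_lit 149) (nat_lit 1) (nat_lit 148) (nat_lit 1) (nat_lit 150) (nat_lit 1) (nat_lit 366) (nat_lit 375) (nat_lit 279)) (XT.lf (nat_lit 228) (nat_lit 1490286786) (nat_lit 0) (nat_lit 1029813920) (nat_lit 152) (nat_lit 1029813920) (nat_lit 149) (nat_lit 1) (nat_lit 146) (nat_lit 1) (nat_lit 148) (nat_lit 1) (nat_lit 367) (nat_lit 375) (nat_lit 278))))))))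
noncomputable def ec182 : XT := (XT.nd (nat_lit 1482) (nat_lit 1520) (nat_lit 0) (XT.nd (nat_lit 702) (nat_lit 912) (nat_lit 0) (XT.nd (nat_lit 312) (nat_lit 608) (nat_lit 0) (XT.nd (nat_lit 156) (nat_lit 152) (nat_lit 0) (XT.nd (nat_lit 78) (nat_lit 152) (nat_lit 0) (XT.lf (nat_lit 76) (nat_lit 214230641) (nat_lit 0) (nat_lit 3085031843) (nat_lit 228) (nat_lit 214230641) (nat_lit 147) (nat_lit 1) (nat_lit 146) (nat_lit 1) (nat_lit 149) (nat_lit 1) (nat_lit 368) (nat_lit 375) (nat_lit 277)) (XT.lf (nat_lit 76) (nat_lit 1428366153) (nat_lit 0) (nat_lit 620336754) (nat_lit 152) (nat_lit 1428366153) (nat_lit 145) (nat_lit 1) (nat_lit 144) (nat_lit 1) (nat_lit 146) (nat_lit 1) (nat_lit 369) (nat_lit 375) (nat_lit 276))) (XT.nd (nat_lit 78) (nat_lit 0) (nat_lit 0) (XT.lf (nat_lit 228) (nat_lit 1800874002) (nat_lit 0) (nat_lit 820206809) (nat_lit 152) (nat_lit 820206809) (nat_lit 145) (nat_lit 1) (nat_lit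 142) (nat_lit 1) (nat_lit 144) (nat_lit 1) (nat_lit 370) (nat_lit 375) (nat_lit 275)) (XT.lf (nat_lit 76) (nat_lit 378969208) (nat_lit 0) (nat_lit 2648090609) (nat_lit 228) (nat_lit 378969208) (nat_lit 143) (nat_lit 1) (nat_lit 142) (nat_lit 1) (nat_lit 145) (nat_lit 1) (nat_lit 371) (nat_lit 375) (nat_lit 274)))) (XT.nd (nat_lit 156) (nat_lit 304) (nat_lit 0) (XT.nd (nat_lit 78) (nat_lit 152) (nat_lit 0) (XT.lf (nat_lit 76) (nat_lit 1547926696) (nat_lit 0) (nat_lit 275106909) (nat_lit 152) (nat_lit 1547926696) (nat_lit 141) (nat_lit 1) (nat_lit 140) (nat_lit 1) (nat_lit 142) (nat_lit 1) (nat_lit 372) (nat_lit 375) (nat_lit 273)) (XT.lf (nat_lit 228) (nat_lit 2062940115) (nat_lit 0) (nat_lit 636733883) (nat_lit 152) (nat_lit 636733883) (nat_lit 141) (nat_lit 1) (nat_lit 138) (nat_lit 1) (nat_lit 140) (nat_lit 1) (nat_lit 373) (nat_lit 375) (nat_lit 272))) (XT.nd (nat_lit 78) (nat_lit 304) (nat_lit 0)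 (XT.lf (nat_lit 76) (nat_lit 519843270) (nat_lit 0) (nat_lit 2262580396) (nat_lit 228) (nat_lit 519843270) (nat_lit 139) (nat_lit 1) (nat_lit 138) (nat_lit 1) (nat_lit 141) (nat_lit 1) (nat_lit 374) (nat_lit 375) (nat_lit 271)) (XT.nd (nat_lit 78) (nat_lit 228) (nat_lit 0) (XT.lf (nat_lit 152) (nat_lit 24054308) (nat_lit 0) (nat_lit 1622209999) (nat_lit 76) (nat_lit 1622209999) (nat_lit 139) (nat_lit 1) (nat_lit 137) (nat_lit 1) (nat_lit 138) (nat_lit 1) (nat_lit 375) (nat_lit 375) (nat_lit 270)) (XT.lf (nat_lit 228) (nat_lit 2282300320) (nat_lit 0) (nat_lit 476400446) (nat_lit 152) (nat_lit 476400446) (nat_lit 137) (nat_lit 1) (nat_lit 134) (nat_lit 1) (nat_lit 136) (nat_lit 1) (nat_lit 376) (nat_lit 375) (nat_lit 269)))))) (XT.nd (nat_lit 390) (nat_lit 532) (nat_lit 0) (XT.nd (nat_lit 156) (nat_lit 304) (nat_lit 0) (XT.nd (nat_lit 78) (nat_lit 76) (nat_lit 0) (XT.lf (nat_lit 76) (nat_lit 639674048)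 (nat_lit 0) (nat_lit 1922687152) (nat_lit 228) (nat_lit 639674048) (nat_lit 135) (nat_lit 1) (nat_lit 134) (nat_lit 1) (nat_lit 137) (nat_lit 1) (nat_lit 377) (nat_lit 375) (nat_lit 268)) (XT.lf (nat_lit 152) (nat_lit 286758201) (nat_lit 0) (nat_lit 1441312573) (nat_lit 76) (nat_lit 1441312573) (nat_lit 135) (nat_lit 1) (nat_lit 133) (nat_lit 1) (nat_lit 134) (nat_lit 1) (nat_lit 378) (nat_lit 375) (nat_lit 267))) (XT.nd (nat_lit 78) (nat_lit 76) (nat_lit 0) (XT.lf (nat_lit 228) (nat_lit 2464109562) (nat_lit 0) (nat_lit 336548090) (nat_lit 152) (nat_lit 336548090) (nat_lit 133) (nat_lit 1) (nat_lit 130) (nat_lit 1) (nat_lit 132) (nat_lit 1) (nat_lit 379) (nat_lit 375) (nat_lit 266)) (XT.nd (nat_lit 78) (nat_lit 76) (nat_lit 0) (XT.lf (nat_lit 76) (nat_lit 740963501) (nat_lit 0) (nat_lit 1623247462) (nat_lit 228) (nat_lit 740963501) (nat_lit 131) (nat_lit 1) (nat_lit 130) (nat_lit 1) (nat_lit 133) (nat_lit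 1) (nat_lit 380) (nat_lit 375) (nat_lit 265)) (XT.lf (nat_lit 152) (nat_lit 512437511) (nat_lit 0) (nat_lit 1280587553) (nat_lit 76) (nat_lit 1280587553) (nat_lit 131) (nat_lit 1) (nat_lit 129) (nat_lit 1) (nat_lit 130) (nat_lit 1) (nat_lit 381) (nat_lit 375) (nat_lit 264))))) (XT.nd (nat_lit 156) (nat_lit 304) (nat_lit 0) (XT.nd (nat_lit 78) (nat_lit 0) (nat_lit 0) (XT.lf (nat_lit 228) (nat_lit 2612936506) (nat_lit 0) (nat_lit 214817127) (nat_lit 152) (nat_lit 214817127) (nat_lit 129) (nat_lit 1) (nat_lit 126) (nat_lit 1) (nat_lit 128) (nat_lit 1) (nat_lit 382) (nat_lit 375) (nat_lit 263)) (XT.lf (nat_lit 76) (nat_lit 825930060) (nat_lit 0) (nat_lit 1359675929) (nat_lit 228) (nat_lit 825930060) (nat_lit 127) (nat_lit 1) (nat_lit 126) (nat_lit 1) (nat_lit 129) (nat_lit 1) (nat_lit 383) (nat_lit 375) (nat_lit 262))) (XT.nd (nat_lit 78) (nat_lit 228) (nat_lit 0) (XT.lf (nat_lit 152) (nat_lit 705446095)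 (nat_lit 0) (nat_lit 1137785455) (nat_lit 76) (nat_lit 1137785455) (nat_lit 127) (nat_lit 1) (nat_lit 125) (nat_lit 1) (nat_lit 126) (nat_lit 1) (nat_lit 384) (nat_lit 375) (nat_lit 261)) (XT.nd (nat_lit 78) (nat_lit 0) (nat_lit 0) (XT.lf (nat_lit 228) (nat_lit 2732829248) (nat_lit 0) (nat_lit 109113214) (nat_lit 152) (nat_lit 109113214) (nat_lit 125) (nat_lit 1) (nat_lit 122) (nat_lit 1) (nat_lit 124) (nat_lit 1) (nat_lit 385) (nat_lit 375) (nat_lit 260)) (XT.lf (nat_lit 76) (nat_lit 896540381) (nat_lit 0) (nat_lit 1127900649) (nat_lit 228) (nat_lit 896540381) (nat_lit 123) (nat_lit 1) (nat_lit 122) (nat_lit 1) (nat_lit 125) (nat_lit 1) (nat_lit 386) (nat_lit 375) (nat_lit 259))))))) (XT.nd (nat_lit 702) (nat_lit 760) (nat_lit 0) (XT.nd (nat_lit 312) (nat_lit 380) (nat_lit 0) (XT.nd (nat_lit 156) (nat_lit 76) (nat_lit 0) (XT.nd (nat_lit 78) (nat_lit 228) (nat_lit 0) (XT.lf (nat_lit 152) (nat_lit 869645741)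 (nat_lit 0) (nat_lit 1010907640) (nat_lit 76) (nat_lit 1010907640) (nat_lit 123) (nat_lit 1) (nat_lit 121) (nat_lit 1) (nat_lit 122) (nat_lit 1) (nat_lit 387) (nat_lit 375) (nat_lit 258)) (XT.lf (nat_lit 228) (nat_lit 2827373688) (nat_lit 0) (nat_lit 17577696) (nat_lit 152) (nat_lit 17577696) (nat_lit 121) (nat_lit 1) (nat_lit 118) (nat_lit 1) (nat_lit 120) (nat_lit 1) (nat_lit 388) (nat_lit 375) (nat_lit 257))) (XT.nd (nat_lit 78) (nat_lit 76) (nat_lit 0) (XT.lf (nat_lit 76) (nat_lit 954537545) (nat_lit 0) (nat_lit 924305892) (nat_lit 228) (nat_lit 954537545) (nat_lit 119) (nat_lit 1) (nat_lit 118) (nat_lit 1) (nat_lit 121) (nat_lit 1) (nat_lit 389) (nat_lit 375) (nat_lit 256)) (XT.lf (nat_lit 152) (nat_lit 1008461233) (nat_lit 0) (nat_lit 898178344) (nat_lit 76) (nat_lit 898178344) (nat_lit 119) (nat_lit 1) (nat_lit 117) (nat_lit 1) (nat_lit 118) (nat_lit 1) (nat_lit 390) (nat_lit 375) (nat_lit 255))))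 (XT.nd (nat_lit 156) (nat_lit 228) (nat_lit 0) (XT.nd (nat_lit 78) (nat_lit 152) (nat_lit 0) (XT.lf (nat_lit 0) (nat_lit 62047040) (nat_lit 0) (nat_lit 2652701895) (nat_lit 152) (nat_lit 62047040) (nat_lit 117) (nat_lit 3) (nat_lit 117) (nat_lit 1) (nat_lit 119) (nat_lit 1) (nat_lit 391) (nat_lit 375) (nat_lit 254)) (XT.lf (nat_lit 76) (nat_lit 1001466119) (nat_lit 0) (nat_lit 745681167) (nat_lit 152) (nat_lit 1001466119) (nat_lit 116) (nat_lit 1) (nat_lit 115) (nat_lit 1) (nat_lit 117) (nat_lit 1) (nat_lit 392) (nat_lit 375) (nat_lit 253))) (XT.nd (nat_lit 78) (nat_lit 152) (nat_lit 0) (XT.lf (nat_lit 152) (nat_lit 1124929263) (nat_lit 0) (nat_lit 798019826) (nat_lit 76) (nat_lit 798019826) (nat_lit 116) (nat_lit 1) (nat_lit 114) (nat_lit 1) (nat_lit 115) (nat_lit 1) (nat_lit 393) (nat_lit 375) (nat_lit 252)) (XT.nd (nat_lit 78) (nat_lit 152) (nat_lit 0) (XT.lf (nat_lit 0) (nat_lit 130680638) (nat_lit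 0) (nat_lit 2432443922) (nat_lit 152) (nat_lit 130680638) (nat_lit 114) (nat_lit 3) (nat_lit 114) (nat_lit 1) (nat_lit 116) (nat_lit 1) (nat_lit 394) (nat_lit 375) (nat_lit 251)) (XT.lf (nat_lit 76) (nat_lit 1038694406) (nat_lit 0) (nat_lit 589175974) (nat_lit 152) (nat_lit 1038694406) (nat_lit 113) (nat_lit 1) (nat_lit 112) (nat_lit 1) (nat_lit 114) (nat_lit 1) (nat_lit 395) (nat_lit 375) (nat_lit 250)))))) (XT.nd (nat_lit 390) (nat_lit 456) (nat_lit 0) (XT.nd (nat_lit 156) (nat_lit 228) (nat_lit 0) (XT.nd (nat_lit 78) (nat_lit 0) (nat_lit 0) (XT.lf (nat_lit 152) (nat_lit 1221741895) (nat_lit 0) (nat_lit 709030279) (nat_lit 76) (nat_lit 709030279) (nat_lit 113) (nat_lit 1) (nat_lit 111) (nat_lit 1) (nat_lit 112) (nat_lit 1) (nat_lit 396) (nat_lit 375) (nat_lit 249)) (XT.lf (nat_lit 0) (nat_lit 189460139) (nat_lit 0) (nat_lit 2234547004) (nat_lit 152) (nat_lit 189460139) (nat_lit 111) (nat_lit 3) (nat_lit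 111) (nat_lit 1) (nat_lit 113) (nat_lit 1) (nat_lit 397) (nat_lit 375) (nat_lit 248))) (XT.nd (nat_lit 78) (nat_lit 76) (nat_lit 0) (XT.lf (nat_lit 76) (nat_lit 1067434226) (nat_lit 0) (nat_lit 452259606) (nat_lit 152) (nat_lit 1067434226) (nat_lit 110) (nat_lit 1) (nat_lit 109) (nat_lit 1) (nat_lit 111) (nat_lit 1) (nat_lit 398) (nat_lit 375) (nat_lit 247)) (XT.nd (nat_lit 78) (nat_lit 0) (nat_lit 0) (XT.lf (nat_lit 152) (nat_lit 1301285165) (nat_lit 0) (nat_lit 629964219) (nat_lit 76) (nat_lit 629964219) (nat_lit 110) (nat_lit 1) (nat_lit 108) (nat_lit 1) (nat_lit 109) (nat_lit 1) (nat_lit 399) (nat_lit 375) (nat_lit 246)) (XT.lf (nat_lit 0) (nat_lit 239548495) (nat_lit 0) (nat_lit 2056581687) (nat_lit 152) (nat_lit 239548495) (nat_lit 108) (nat_lit 3) (nat_lit 108) (nat_lit 1) (nat_lit 110) (nat_lit 1) (nat_lit 400) (nat_lit 375) (nat_lit 245))))) (XT.nd (nat_lit 156) (nat_lit 228) (nat_lit 0) (XT.nd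 (nat_lit 78) (nat_lit 76) (nat_lit 0) (XT.lf (nat_lit 76) (nat_lit 1088758475) (nat_lit 0) (nat_lit 332685428) (nat_lit 152) (nat_lit 1088758475) (nat_lit 107) (nat_lit 1) (nat_lit 106) (nat_lit 1) (nat_lit 108) (nat_lit 1) (nat_lit 401) (nat_lit 375) (nat_lit 244)) (XT.lf (nat_lit 152) (nat_lit 1365673380) (nat_lit 0) (nat_lit 559715050) (nat_lit 76) (nat_lit 559715050) (nat_lit 107) (nat_lit 1) (nat_lit 105) (nat_lit 1) (nat_lit 106) (nat_lit 1) (nat_lit 402) (nat_lit 375) (nat_lit 243))) (XT.nd (nat_lit 78) (nat_lit 228) (nat_lit 0) (XT.lf (nat_lit 0) (nat_lit 281977110) (nat_lit 0) (nat_lit 1896387566) (nat_lit 152) (nat_lit 281977110) (nat_lit 105) (nat_lit 3) (nat_lit 105) (nat_lit 1) (nat_lit 107) (nat_lit 1) (nat_lit 403) (nat_lit 375) (nat_lit 242)) (XT.nd (nat_lit 78) (nat_lit 76) (nat_lit 0) (XT.lf (nat_lit 76) (nat_lit 1103616726) (nat_lit 0) (nat_lit 228459145) (nat_lit 152) (nat_lit 1103616726)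 (nat_lit 104) (nat_lit 1) (nat_lit 103) (nat_lit 1) (nat_lit 105) (nat_lit 1) (nat_lit 404) (nat_lit 375) (nat_lit 241)) (XT.lf (nat_lit 152) (nat_lit 1416779580) (nat_lit 0) (nat_lit 497299572) (nat_lit 76) (nat_lit 497299572) (nat_lit 104) (nat_lit 1) (nat_lit 102) (nat_lit 1) (nat_lit 103) (nat_lit 1) (nat_lit 405) (nat_lit 375) (nat_lit 240))))))))
noncomputable def ec183 : XT := (XT.nd (nat_lit 1482) (nat_lit 684) (nat_lit 0) (XT.nd (nat_lit 702) (nat_lit 684) (nat_lit 0) (XT.nd (nat_lit 312) (nat_lit 456) (nat_lit 0) (XT.nd (nat_lit 156) (nat_lit 76) (nat_lit 0) (XT.nd (nat_lit 78) (nat_lit 152) (nat_lit 0) (XT.lf (nat_lit 0) (nat_lit 317660558) (nat_lit 0) (nat_lit 1752043338) (nat_lit 152) (nat_lit 317660558) (nat_lit 102) (nat_lit 3) (nat_lit 102) (nat_lit 1) (nat_lit 104) (nat_lit 1) (nat_lit 406) (nat_lit 375) (nat_lit 239)) (XT.lf (nat_lit 76) (nat_lit 1112849092) (nat_lit 0) (nat_lit 137810615)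 (nat_lit 152) (nat_lit 1112849092) (nat_lit 101) (nat_lit 1) (nat_lit 100) (nat_lit 1) (nat_lit 102) (nat_lit 1) (nat_lit 407) (nat_lit 375) (nat_lit 238))) (XT.nd (nat_lit 78) (nat_lit 0) (nat_lit 0) (XT.lf (nat_lit 152) (nat_lit 1456262608) (nat_lit 0) (nat_lit 441844229) (nat_lit 76) (nat_lit 441844229) (nat_lit 101) (nat_lit 1) (nat_lit 99) (nat_lit 1) (nat_lit 100) (nat_lit 1) (nat_lit 408) (nat_lit 375) (nat_lit 237)) (XT.lf (nat_lit 0) (nat_lit 347409668) (nat_lit 0) (nat_lit 1621840190) (nat_lit 152) (nat_lit 347409668) (nat_lit 99) (nat_lit 3) (nat_lit 99) (nat_lit 1) (nat_lit 101) (nat_lit 1) (nat_lit 409) (nat_lit 375) (nat_lit 236)))) (XT.nd (nat_lit 156) (nat_lit 228) (nat_lit 0) (XT.nd (nat_lit 78) (nat_lit 76) (nat_lit 0) (XT.lf (nat_lit 76) (nat_lit 1117198533) (nat_lit 0) (nat_lit 59168794) (nat_lit 152) (nat_lit 1117198533) (nat_lit 98) (nat_lit 1) (nat_lit 97) (nat_lit 1) (nat_lit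 99) (nat_lit 1) (nat_lit 410) (nat_lit 375) (nat_lit 235)) (XT.lf (nat_lit 152) (nat_lit 1485591147) (nat_lit 0) (nat_lit 392572874) (nat_lit 76) (nat_lit 392572874) (nat_lit 98) (nat_lit 1) (nat_lit 96) (nat_lit 1) (nat_lit 97) (nat_lit 1) (nat_lit 411) (nat_lit 375) (nat_lit 234))) (XT.nd (nat_lit 78) (nat_lit 228) (nat_lit 0) (XT.lf (nat_lit 0) (nat_lit 371943142) (nat_lit 0) (nat_lit 1504258155) (nat_lit 152) (nat_lit 371943142) (nat_lit 96) (nat_lit 3) (nat_lit 96) (nat_lit 1) (nat_lit 98) (nat_lit 1) (nat_lit 412) (nat_lit 375) (nat_lit 233)) (XT.nd (nat_lit 78) (nat_lit 152) (nat_lit 0) (XT.lf (nat_lit 76) (nat_lit 9036849) (nat_lit 0) (nat_lit 1108371813) (nat_lit 76) (nat_lit 1108371813) (nat_lit 96) (nat_lit 3) (nat_lit 95) (nat_lit 1) (nat_lit 96) (nat_lit 1) (nat_lit 413) (nat_lit 375) (nat_lit 232)) (XT.lf (nat_lit 152) (nat_lit 1506065076) (nat_lit 0) (nat_lit 348795914) (nat_lit 76) (nat_lit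 348795914) (nat_lit 95) (nat_lit 1) (nat_lit 93) (nat_lit 1) (nat_lit 94) (nat_lit 1) (nat_lit 414) (nat_lit 375) (nat_lit 231)))))) (XT.nd (nat_lit 390) (nat_lit 380) (nat_lit 0) (XT.nd (nat_lit 156) (nat_lit 228) (nat_lit 0) (XT.nd (nat_lit 78) (nat_lit 76) (nat_lit 0) (XT.lf (nat_lit 0) (nat_lit 391897880) (nat_lit 0) (nat_lit 1397945103) (nat_lit 152) (nat_lit 391897880) (nat_lit 93) (nat_lit 3) (nat_lit 93) (nat_lit 1) (nat_lit 95) (nat_lit 1) (nat_lit 415) (nat_lit 375) (nat_lit 230)) (XT.lf (nat_lit 76) (nat_lit 68858072) (nat_lit 0) (nat_lit 1045602949) (nat_lit 76) (nat_lit 1045602949) (nat_lit 93) (nat_lit 3) (nat_lit 92) (nat_lit 1) (nat_lit 93) (nat_lit 1) (nat_lit 416) (nat_lit 375) (nat_lit 229))) (XT.nd (nat_lit 78) (nat_lit 76) (nat_lit 0) (XT.lf (nat_lit 152) (nat_lit 1518834443) (nat_lit 0) (nat_lit 309900652) (nat_lit 76) (nat_lit 309900652) (nat_lit 92) (nat_lit 1) (nat_lit 90) (nat_lit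 1) (nat_lit 91) (nat_lit 1) (nat_lit 417) (nat_lit 375) (nat_lit 228)) (XT.nd (nat_lit 78) (nat_lit 76) (nat_lit 0) (XT.lf (nat_lit 0) (nat_lit 407838148) (nat_lit 0) (nat_lit 1301698075) (nat_lit 152) (nat_lit 407838148) (nat_lit 90) (nat_lit 3) (nat_lit 90) (nat_lit 1) (nat_lit 92) (nat_lit 1) (nat_lit 418) (nat_lit 375) (nat_lit 227)) (XT.lf (nat_lit 76) (nat_lit 120236737) (nat_lit 0) (nat_lit 988061909) (nat_lit 76) (nat_lit 988061909) (nat_lit 90) (nat_lit 3) (nat_lit 89) (nat_lit 1) (nat_lit 90) (nat_lit 1) (nat_lit 419) (nat_lit 375) (nat_lit 226))))) (XT.nd (nat_lit 156) (nat_lit 228) (nat_lit 0) (XT.nd (nat_lit 78) (nat_lit 0) (nat_lit 0) (XT.lf (nat_lit 152) (nat_lit 1524916313) (nat_lit 0) (nat_lit 275342715) (nat_lit 76) (nat_lit 275342715) (nat_lit 89) (nat_lit 1) (nat_lit 87) (nat_lit 1) (nat_lit 88) (nat_lit 1) (nat_lit 420) (nat_lit 375) (nat_lit 225)) (XT.lf (nat_lit 0) (nat_lit 420263724)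 (nat_lit 0) (nat_lit 1214446692) (nat_lit 152) (nat_lit 420263724) (nat_lit 87) (nat_lit 3) (nat_lit 87) (nat_lit 1) (nat_lit 89) (nat_lit 1) (nat_lit 421) (nat_lit 375) (nat_lit 224))) (XT.nd (nat_lit 78) (nat_lit 152) (nat_lit 0) (XT.lf (nat_lit 76) (nat_lit 164165902) (nat_lit 0) (nat_lit 935217327) (nat_lit 76) (nat_lit 935217327) (nat_lit 87) (nat_lit 3) (nat_lit 86) (nat_lit 1) (nat_lit 87) (nat_lit 1) (nat_lit 422) (nat_lit 375) (nat_lit 223)) (XT.nd (nat_lit 78) (nat_lit 0) (nat_lit 0) (XT.lf (nat_lit 152) (nat_lit 1525209735) (nat_lit 0) (nat_lit 244638436) (nat_lit 76) (nat_lit 244638436) (nat_lit 86) (nat_lit 1) (nat_lit 84) (nat_lit 1) (nat_lit 85) (nat_lit 1) (nat_lit 423) (nat_lit 375) (nat_lit 222)) (XT.lf (nat_lit 0) (nat_lit 429617141) (nat_lit 0) (nat_lit 1135238421) (nat_lit 152) (nat_lit 429617141) (nat_lit 84) (nat_lit 3) (nat_lit 84) (nat_lit 1) (nat_lit 86) (nat_lit 1) (nat_lit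 424) (nat_lit 375) (nat_lit 221))))))) (XT.nd (nat_lit 40872) (nat_lit 0) (nat_lit 22724) (XT.nd (nat_lit 312) (nat_lit 380) (nat_lit 0) (XT.nd (nat_lit 156) (nat_lit 76) (nat_lit 0) (XT.nd (nat_lit 78) (nat_lit 152) (nat_lit 0) (XT.lf (nat_lit 76) (nat_lit 201526383) (nat_lit 0) (nat_lit 886595587) (nat_lit 76) (nat_lit 886595587) (nat_lit 84) (nat_lit 3) (nat_lit 83) (nat_lit 1) (nat_lit 84) (nat_lit 1) (nat_lit 425) (nat_lit 375) (nat_lit 220)) (XT.lf (nat_lit 152) (nat_lit 1520509039) (nat_lit 0) (nat_lit 217358082) (nat_lit 76) (nat_lit 217358082) (nat_lit 83) (nat_lit 1) (nat_lit 81) (nat_lit 1) (nat_lit 82) (nat_lit 1) (nat_lit 426) (nat_lit 375) (nat_lit 219))) (XT.nd (nat_lit 78) (nat_lit 76) (nat_lit 0) (XT.lf (nat_lit 0) (nat_lit 436290104) (nat_lit 0) (nat_lit 1063225473) (nat_lit 152) (nat_lit 436290104) (nat_lit 81) (nat_lit 3) (nat_lit 81) (nat_lit 1) (nat_lit 83) (nat_lit 1) (nat_lit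 427) (nat_lit 375) (nat_lit 218)) (XT.lf (nat_lit 76) (nat_lit 233099314) (nat_lit 0) (nat_lit 841774429) (nat_lit 76) (nat_lit 841774429) (nat_lit 81) (nat_lit 3) (nat_lit 80) (nat_lit 1) (nat_lit 81) (nat_lit 1) (nat_lit 428) (nat_lit 375) (nat_lit 217)))) (XT.nd (nat_lit 156) (nat_lit 228) (nat_lit 0) (XT.nd (nat_lit 78) (nat_lit 0) (nat_lit 0) (XT.lf (nat_lit 152) (nat_lit 1511515639) (nat_lit 0) (nat_lit 193119841) (nat_lit 76) (nat_lit 193119841) (nat_lit 80) (nat_lit 1) (nat_lit 78) (nat_lit 1) (nat_lit 79) (nat_lit 1) (nat_lit 429) (nat_lit 375) (nat_lit 216)) (XT.lf (nat_lit 0) (nat_lit 440629213) (nat_lit 0) (nat_lit 997653168) (nat_lit 152) (nat_lit 440629213) (nat_lit 78) (nat_lit 3) (nat_lit 78) (nat_lit 1) (nat_lit 80) (nat_lit 1) (nat_lit 430) (nat_lit 375) (nat_lit 215))) (XT.nd (nat_lit 78) (nat_lit 152) (nat_lit 0) (XT.lf (nat_lit 76) (nat_lit 259577307) (nat_lit 0) (nat_lit 800377263)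 (nat_lit 76) (nat_lit 800377263) (nat_lit 78) (nat_lit 3) (nat_lit 77) (nat_lit 1) (nat_lit 78) (nat_lit 1) (nat_lit 431) (nat_lit 375) (nat_lit 214)) (XT.nd (nat_lit 78) (nat_lit 0) (nat_lit 0) (XT.lf (nat_lit 152) (nat_lit 1498848527) (nat_lit 0) (nat_lit 171584477) (nat_lit 76) (nat_lit 171584477) (nat_lit 77) (nat_lit 1) (nat_lit 75) (nat_lit 1) (nat_lit 76) (nat_lit 1) (nat_lit 432) (nat_lit 375) (nat_lit 213)) (XT.lf (nat_lit 0) (nat_lit 442941025) (nat_lit 0) (nat_lit 937849594) (nat_lit 152) (nat_lit 442941025) (nat_lit 75) (nat_lit 3) (nat_lit 75) (nat_lit 1) (nat_lit 77) (nat_lit 1) (nat_lit 433) (nat_lit 375) (nat_lit 212)))))) (XT.nd (nat_lit 390) (nat_lit 0) (nat_lit 152) (XT.nd (nat_lit 156) (nat_lit 0) (nat_lit 76) (XT.nd (nat_lit 78) (nat_lit 0) (nat_lit 0) (XT.lf (nat_lit 1292) (nat_lit 1080947911) (nat_lit 0) (nat_lit 3718963530) (nat_lit 1292) (nat_lit 1080947911) (nat_lit 391) (nat_lit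 1) (nat_lit 374) (nat_lit 0) (nat_lit 391) (nat_lit 0) (nat_lit 268) (nat_lit 376) (nat_lit 376)) (XT.lf (nat_lit 1292) (nat_lit 4224363379) (nat_lit 76) (nat_lit 3682503104) (nat_lit 0) (nat_lit 3682503104) (nat_lit 391) (nat_lit 1) (nat_lit 375) (nat_lit 1) (nat_lit 374) (nat_lit 0) (nat_lit 269) (nat_lit 376) (nat_lit 375))) (XT.nd (nat_lit 78) (nat_lit 0) (nat_lit 0) (XT.lf (nat_lit 1292) (nat_lit 2043002851) (nat_lit 0) (nat_lit 7334816428) (nat_lit 1216) (nat_lit 2043002851) (nat_lit 392) (nat_lit 1) (nat_lit 375) (nat_lit 1) (nat_lit 391) (nat_lit 1) (nat_lit 270) (nat_lit 376) (nat_lit 374)) (XT.nd (nat_lit 78) (nat_lit 0) (nat_lit 76) (XT.lf (nat_lit 1292) (nat_lit 3879767895) (nat_lit 76) (nat_lit 3687660730) (nat_lit 0) (nat_lit 3687660730) (nat_lit 392) (nat_lit 1) (nat_lit 376) (nat_lit 1) (nat_lit 375) (nat_lit 1) (nat_lit 271) (nat_lit 376) (nat_lit 373)) (XT.lf (nat_lit 1292) (nat_lit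 1820561735) (nat_lit 0) (nat_lit 7451941439) (nat_lit 1216) (nat_lit 1820561735) (nat_lit 393) (nat_lit 1) (nat_lit 376) (nat_lit 1) (nat_lit 392) (nat_lit 1) (nat_lit 272) (nat_lit 376) (nat_lit 372))))) (XT.nd (nat_lit 156) (nat_lit 0) (nat_lit 76) (XT.nd (nat_lit 78) (nat_lit 0) (nat_lit 76) (XT.lf (nat_lit 1292) (nat_lit 3336371605) (nat_lit 76) (nat_lit 3798630053) (nat_lit 0) (nat_lit 3798630053) (nat_lit 393) (nat_lit 1) (nat_lit 377) (nat_lit 1) (nat_lit 376) (nat_lit 1) (nat_lit 273) (nat_lit 376) (nat_lit 371)) (XT.lf (nat_lit 1292) (nat_lit 1503731313) (nat_lit 0) (nat_lit 7770417436) (nat_lit 1216) (nat_lit 1503731313) (nat_lit 394) (nat_lit 1) (nat_lit 377) (nat_lit 1) (nat_lit 393) (nat_lit 1) (nat_lit 274) (nat_lit 376) (nat_lit 370))) (XT.nd (nat_lit 78) (nat_lit 0) (nat_lit 76) (XT.lf (nat_lit 1292) (nat_lit 2611952957) (nat_lit 76) (nat_lit 4006246530) (nat_lit 0) (nat_lit 4006246530)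 (nat_lit 394) (nat_lit 1) (nat_lit 378) (nat_lit 1) (nat_lit 377) (nat_lit 1) (nat_lit 275) (nat_lit 376) (nat_lit 369)) (XT.nd (nat_lit 78) (nat_lit 0) (nat_lit 0) (XT.lf (nat_lit 1292) (nat_lit 1101051033) (nat_lit 0) (nat_lit 8272625628) (nat_lit 1216) (nat_lit 1101051033) (nat_lit 395) (nat_lit 1) (nat_lit 378) (nat_lit 1) (nat_lit 394) (nat_lit 1) (nat_lit 276) (nat_lit 376) (nat_lit 368)) (XT.lf (nat_lit 1292) (nat_lit 1723084407) (nat_lit 76) (nat_lit 4301961717) (nat_lit 0) (nat_lit 4301961717) (nat_lit 395) (nat_lit 1) (nat_lit 379) (nat_lit 1) (nat_lit 378) (nat_lit 1) (nat_lit 277) (nat_lit 376) (nat_lit 367))))))))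
noncomputable def ec184 : XT := (XT.nd (nat_lit 1404) (nat_lit 5016) (nat_lit 0) (XT.nd (nat_lit 702) (nat_lit 2964) (nat_lit 0) (XT.nd (nat_lit 312) (nat_lit 684) (nat_lit 0) (XT.nd (nat_lit 156) (nat_lit 1216) (nat_lit 0) (XT.nd (nat_lit 78) (nat_lit 0) (nat_lit 0) (XT.lf (nat_lit 1292) (nat_lit 620479238) (nat_lit 0) (nat_lit 8942135131) (nat_lit 1216) (nat_lit 620479238) (nat_lit 396) (nat_lit 1) (nat_lit 379) (nat_lit 1) (nat_lit 395) (nat_lit 1) (nat_lit 278) (nat_lit 376) (nat_lit 366)) (XT.lf (nat_lit 1292) (nat_lit 685207059) (nat_lit 76) (nat_lit 4677805278) (nat_lit 0) (nat_lit 4677805278) (nat_lit 396) (nat_lit 1) (nat_lit 380) (nat_lit 1) (nat_lit 379) (nat_lit 1) (nat_lit 279) (nat_lit 376) (nat_lit 365))) (XT.nd (nat_lit 78) (nat_lit 1292) (nat_lit 0) (XT.lf (nat_lit 1292) (nat_lit 69429173) (nat_lit 0) (nat_lit 9763629638) (nat_lit 1216) (nat_lit 69429173) (nat_lit 397) (nat_lit 1) (nat_lit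 380) (nat_lit 1) (nat_lit 396) (nat_lit 1) (nat_lit 280) (nat_lit 376) (nat_lit 364)) (XT.lf (nat_lit 1368) (nat_lit 4643734318) (nat_lit 0) (nat_lit 477790193) (nat_lit 1292) (nat_lit 4643734318) (nat_lit 381) (nat_lit 1) (nat_lit 363) (nat_lit 1) (nat_lit 380) (nat_lit 1) (nat_lit 281) (nat_lit 376) (nat_lit 363)))) (XT.nd (nat_lit 156) (nat_lit 684) (nat_lit 0) (XT.nd (nat_lit 78) (nat_lit 0) (nat_lit 76) (XT.lf (nat_lit 1368) (nat_lit 8552107885) (nat_lit 76) (nat_lit 539852087) (nat_lit 0) (nat_lit 539852087) (nat_lit 381) (nat_lit 1) (nat_lit 364) (nat_lit 1) (nat_lit 363) (nat_lit 1) (nat_lit 282) (nat_lit 376) (nat_lit 362)) (XT.lf (nat_lit 1368) (nat_lit 3876745536) (nat_lit 0) (nat_lit 1746294775) (nat_lit 1292) (nat_lit 3876745536) (nat_lit 382) (nat_lit 1) (nat_lit 364) (nat_lit 1) (nat_lit 381) (nat_lit 1) (nat_lit 283) (nat_lit 376) (nat_lit 361))) (XT.nd (nat_lit 78) (nat_lit 760) (nat_lit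 0) (XT.lf (nat_lit 1368) (nat_lit 6961014406) (nat_lit 76) (nat_lit 1205045997) (nat_lit 0) (nat_lit 1205045997) (nat_lit 382) (nat_lit 1) (nat_lit 365) (nat_lit 1) (nat_lit 364) (nat_lit 1) (nat_lit 284) (nat_lit 376) (nat_lit 360)) (XT.nd (nat_lit 78) (nat_lit 836) (nat_lit 0) (XT.lf (nat_lit 76) (nat_lit 3061349324) (nat_lit 0) (nat_lit 3121468845) (nat_lit 1292) (nat_lit 3061349324) (nat_lit 366) (nat_lit 1) (nat_lit 365) (nat_lit 1) (nat_lit 382) (nat_lit 1) (nat_lit 285) (nat_lit 376) (nat_lit 359)) (XT.lf (nat_lit 912) (nat_lit 5278197221) (nat_lit 0) (nat_lit 1920918638) (nat_lit 836) (nat_lit 1920918638) (nat_lit 366) (nat_lit 1) (nat_lit 354) (nat_lit 1) (nat_lit 365) (nat_lit 1) (nat_lit 286) (nat_lit 376) (nat_lit 358)))))) (XT.nd (nat_lit 312) (nat_lit 1748) (nat_lit 0) (XT.nd (nat_lit 156) (nat_lit 608) (nat_lit 0) (XT.nd (nat_lit 78) (nat_lit 608) (nat_lit 0) (XT.lf (nat_lit 76) (nat_lit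 2203016771) (nat_lit 0) (nat_lit 4591961365) (nat_lit 912) (nat_lit 2203016771) (nat_lit 355) (nat_lit 1) (nat_lit 354) (nat_lit 1) (nat_lit 366) (nat_lit 1) (nat_lit 287) (nat_lit 376) (nat_lit 357)) (XT.lf (nat_lit 684) (nat_lit 3514253462) (nat_lit 0) (nat_lit 2681972584) (nat_lit 608) (nat_lit 2681972584) (nat_lit 355) (nat_lit 1) (nat_lit 346) (nat_lit 1) (nat_lit 354) (nat_lit 1) (nat_lit 288) (nat_lit 376) (nat_lit 356))) (XT.nd (nat_lit 78) (nat_lit 608) (nat_lit 0) (XT.lf (nat_lit 76) (nat_lit 1306826484) (nat_lit 0) (nat_lit 6147225160) (nat_lit 684) (nat_lit 1306826484) (nat_lit 347) (nat_lit 1) (nat_lit 346) (nat_lit 1) (nat_lit 355) (nat_lit 1) (nat_lit 289) (nat_lit 376) (nat_lit 355)) (XT.lf (nat_lit 684) (nat_lit 1679016645) (nat_lit 0) (nat_lit 3483101369) (nat_lit 608) (nat_lit 3483101369) (nat_lit 347) (nat_lit 1) (nat_lit 338) (nat_lit 1) (nat_lit 346) (nat_lit 1) (nat_lit 290) (nat_lit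 376) (nat_lit 354)))) (XT.nd (nat_lit 156) (nat_lit 1140) (nat_lit 0) (XT.nd (nat_lit 78) (nat_lit 608) (nat_lit 0) (XT.lf (nat_lit 76) (nat_lit 377489405) (nat_lit 0) (nat_lit 7777466335) (nat_lit 684) (nat_lit 377489405) (nat_lit 339) (nat_lit 1) (nat_lit 338) (nat_lit 1) (nat_lit 347) (nat_lit 1) (nat_lit 291) (nat_lit 376) (nat_lit 353)) (XT.lf (nat_lit 76) (nat_lit 4103269228) (nat_lit 0) (nat_lit 214133296) (nat_lit 608) (nat_lit 4103269228) (nat_lit 331) (nat_lit 1) (nat_lit 330) (nat_lit 1) (nat_lit 338) (nat_lit 1) (nat_lit 292) (nat_lit 376) (nat_lit 352))) (XT.nd (nat_lit 78) (nat_lit 532) (nat_lit 0) (XT.lf (nat_lit 684) (nat_lit 7161796987) (nat_lit 0) (nat_lit 574935435) (nat_lit 608) (nat_lit 574935435) (nat_lit 331) (nat_lit 1) (nat_lit 322) (nat_lit 1) (nat_lit 330) (nat_lit 1) (nat_lit 293) (nat_lit 376) (nat_lit 351)) (XT.nd (nat_lit 78) (nat_lit 532) (nat_lit 0) (XT.lf (nat_lit 76)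 (nat_lit 3038287999) (nat_lit 0) (nat_lit 2127197525) (nat_lit 684) (nat_lit 3038287999) (nat_lit 323) (nat_lit 1) (nat_lit 322) (nat_lit 1) (nat_lit 331) (nat_lit 1) (nat_lit 294) (nat_lit 376) (nat_lit 350)) (XT.lf (nat_lit 608) (nat_lit 5002108512) (nat_lit 0) (nat_lit 1548152904) (nat_lit 532) (nat_lit 1548152904) (nat_lit 323) (nat_lit 1) (nat_lit 315) (nat_lit 1) (nat_lit 322) (nat_lit 1) (nat_lit 295) (nat_lit 376) (nat_lit 349))))))) (XT.nd (nat_lit 702) (nat_lit 2508) (nat_lit 0) (XT.nd (nat_lit 312) (nat_lit 1520) (nat_lit 0) (XT.nd (nat_lit 156) (nat_lit 456) (nat_lit 0) (XT.nd (nat_lit 78) (nat_lit 532) (nat_lit 0) (XT.lf (nat_lit 76) (nat_lit 1954705184) (nat_lit 0) (nat_lit 4085270966) (nat_lit 608) (nat_lit 1954705184) (nat_lit 316) (nat_lit 1) (nat_lit 315) (nat_lit 1) (nat_lit 323) (nat_lit 1) (nat_lit 296) (nat_lit 376) (nat_lit 348)) (XT.lf (nat_lit 608) (nat_lit 2808486707) (nat_lit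 0) (nat_lit 2542158217) (nat_lit 532) (nat_lit 2542158217) (nat_lit 316) (nat_lit 1) (nat_lit 308) (nat_lit 1) (nat_lit 315) (nat_lit 1) (nat_lit 297) (nat_lit 376) (nat_lit 347))) (XT.nd (nat_lit 78) (nat_lit 456) (nat_lit 0) (XT.lf (nat_lit 76) (nat_lit 855910992) (nat_lit 0) (nat_lit 6081260384) (nat_lit 608) (nat_lit 855910992) (nat_lit 309) (nat_lit 1) (nat_lit 308) (nat_lit 1) (nat_lit 316) (nat_lit 1) (nat_lit 298) (nat_lit 376) (nat_lit 346)) (XT.lf (nat_lit 532) (nat_lit 587478754) (nat_lit 0) (nat_lit 3553525410) (nat_lit 456) (nat_lit 3553525410) (nat_lit 309) (nat_lit 1) (nat_lit 302) (nat_lit 1) (nat_lit 308) (nat_lit 1) (nat_lit 299) (nat_lit 376) (nat_lit 345)))) (XT.nd (nat_lit 156) (nat_lit 912) (nat_lit 0) (XT.nd (nat_lit 78) (nat_lit 0) (nat_lit 0) (XT.lf (nat_lit 608) (nat_lit 7093448348) (nat_lit 0) (nat_lit 252466945) (nat_lit 532) (nat_lit 252466945) (nat_lit 302) (nat_lit 1)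 (nat_lit 294) (nat_lit 1) (nat_lit 301) (nat_lit 1) (nat_lit 300) (nat_lit 376) (nat_lit 344)) (XT.lf (nat_lit 76) (nat_lit 2940119952) (nat_lit 0) (nat_lit 1622585329) (nat_lit 608) (nat_lit 2940119952) (nat_lit 295) (nat_lit 1) (nat_lit 294) (nat_lit 1) (nat_lit 302) (nat_lit 1) (nat_lit 301) (nat_lit 376) (nat_lit 343))) (XT.nd (nat_lit 78) (nat_lit 456) (nat_lit 0) (XT.lf (nat_lit 532) (nat_lit 4686459931) (nat_lit 0) (nat_lit 1361564090) (nat_lit 456) (nat_lit 1361564090) (nat_lit 295) (nat_lit 1) (nat_lit 288) (nat_lit 1) (nat_lit 294) (nat_lit 1) (nat_lit 302) (nat_lit 376) (nat_lit 342)) (XT.nd (nat_lit 78) (nat_lit 456) (nat_lit 0) (XT.lf (nat_lit 76) (nat_lit 1740524827) (nat_lit 0) (nat_lit 3836665507) (nat_lit 532) (nat_lit 1740524827) (nat_lit 289) (nat_lit 1) (nat_lit 288) (nat_lit 1) (nat_lit 295) (nat_lit 1) (nat_lit 303) (nat_lit 376) (nat_lit 341)) (XT.lf (nat_lit 532) (nat_lit 2273134047)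 (nat_lit 0) (nat_lit 2477144255) (nat_lit 456) (nat_lit 2477144255) (nat_lit 289) (nat_lit 1) (nat_lit 282) (nat_lit 1) (nat_lit 288) (nat_lit 1) (nat_lit 304) (nat_lit 376) (nat_lit 340)))))) (XT.nd (nat_lit 390) (nat_lit 1216) (nat_lit 0) (XT.nd (nat_lit 156) (nat_lit 836) (nat_lit 0) (XT.nd (nat_lit 78) (nat_lit 456) (nat_lit 0) (XT.lf (nat_lit 76) (nat_lit 538947085) (nat_lit 0) (nat_lit 6061210142) (nat_lit 532) (nat_lit 538947085) (nat_lit 283) (nat_lit 1) (nat_lit 282) (nat_lit 1) (nat_lit 289) (nat_lit 1) (nat_lit 305) (nat_lit 376) (nat_lit 339)) (XT.lf (nat_lit 76) (nat_lit 3456200140) (nat_lit 0) (nat_lit 139186440) (nat_lit 456) (nat_lit 3456200140) (nat_lit 277) (nat_lit 1) (nat_lit 276) (nat_lit 1) (nat_lit 282) (nat_lit 1) (nat_lit 306) (nat_lit 376) (nat_lit 338))) (XT.nd (nat_lit 78) (nat_lit 380) (nat_lit 0) (XT.lf (nat_lit 532) (nat_lit 5654088684) (nat_lit 0) (nat_lit 655941566)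 (nat_lit 456) (nat_lit 655941566) (nat_lit 277) (nat_lit 1) (nat_lit 270) (nat_lit 1) (nat_lit 276) (nat_lit 1) (nat_lit 307) (nat_lit 376) (nat_lit 337)) (XT.nd (nat_lit 78) (nat_lit 380) (nat_lit 0) (XT.lf (nat_lit 76) (nat_lit 2188222931) (nat_lit 0) (nat_lit 2504774171) (nat_lit 532) (nat_lit 2188222931) (nat_lit 271) (nat_lit 1) (nat_lit 270) (nat_lit 1) (nat_lit 277) (nat_lit 1) (nat_lit 308) (nat_lit 376) (nat_lit 336)) (XT.lf (nat_lit 456) (nat_lit 3111459331) (nat_lit 0) (nat_lit 1843381089) (nat_lit 380) (nat_lit 1843381089) (nat_lit 271) (nat_lit 1) (nat_lit 265) (nat_lit 1) (nat_lit 270) (nat_lit 1) (nat_lit 309) (nat_lit 376) (nat_lit 335))))) (XT.nd (nat_lit 156) (nat_lit 836) (nat_lit 0) (XT.nd (nat_lit 78) (nat_lit 380) (nat_lit 0) (XT.lf (nat_lit 76) (nat_lit 926255269) (nat_lit 0) (nat_lit 4864232602) (nat_lit 456) (nat_lit 926255269) (nat_lit 266) (nat_lit 1) (nat_lit 265) (nat_lit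 1) (nat_lit 271) (nat_lit 1) (nat_lit 310) (nat_lit 376) (nat_lit 334)) (XT.lf (nat_lit 456) (nat_lit 582541603) (nat_lit 0) (nat_lit 3026853668) (nat_lit 380) (nat_lit 3026853668) (nat_lit 266) (nat_lit 1) (nat_lit 260) (nat_lit 1) (nat_lit 265) (nat_lit 1) (nat_lit 311) (nat_lit 376) (nat_lit 333))) (XT.nd (nat_lit 78) (nat_lit 380) (nat_lit 0) (XT.lf (nat_lit 456) (nat_lit 5907778563) (nat_lit 0) (nat_lit 324886147) (nat_lit 380) (nat_lit 324886147) (nat_lit 260) (nat_lit 1) (nat_lit 254) (nat_lit 1) (nat_lit 259) (nat_lit 1) (nat_lit 312) (nat_lit 376) (nat_lit 332)) (XT.nd (nat_lit 78) (nat_lit 380) (nat_lit 0) (XT.lf (nat_lit 76) (nat_lit 2293665916) (nat_lit 0) (nat_lit 1891946344) (nat_lit 456) (nat_lit 2293665916) (nat_lit 255) (nat_lit 1) (nat_lit 254) (nat_lit 1) (nat_lit 260) (nat_lit 1) (nat_lit 313) (nat_lit 376) (nat_lit 331)) (XT.lf (nat_lit 456) (nat_lit 3286796222) (nat_lit 0) (nat_lit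 1557974406) (nat_lit 380) (nat_lit 1557974406) (nat_lit 255) (nat_lit 1) (nat_lit 249) (nat_lit 1) (nat_lit 254) (nat_lit 1) (nat_lit 314) (nat_lit 376) (nat_lit 330))))))))
noncomputable def ec185 : XT := (XT.nd (nat_lit 1482) (nat_lit 2736) (nat_lit 0) (XT.nd (nat_lit 702) (nat_lit 1748) (nat_lit 0) (XT.nd (nat_lit 312) (nat_lit 988) (nat_lit 0) (XT.nd (nat_lit 156) (nat_lit 456) (nat_lit 0) (XT.nd (nat_lit 78) (nat_lit 304) (nat_lit 0) (XT.lf (nat_lit 76) (nat_lit 995798876) (nat_lit 0) (nat_lit 4335895421) (nat_lit 456) (nat_lit 995798876) (nat_lit 250) (nat_lit 1) (nat_lit 249) (nat_lit 1) (nat_lit 255) (nat_lit 1) (nat_lit 315) (nat_lit 376) (nat_lit 329)) (XT.lf (nat_lit 380) (nat_lit 691614732) (nat_lit 0) (nat_lit 2780790131) (nat_lit 304) (nat_lit 2780790131) (nat_lit 250) (nat_lit 1) (nat_lit 245) (nat_lit 1) (nat_lit 249) (nat_lit 1) (nat_lit 316) (nat_lit 376) (nat_lit 328))) (XT.nd (nat_lit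 78) (nat_lit 0) (nat_lit 0) (XT.lf (nat_lit 456) (nat_lit 5608834661) (nat_lit 0) (nat_lit 285846029) (nat_lit 380) (nat_lit 285846029) (nat_lit 245) (nat_lit 1) (nat_lit 239) (nat_lit 1) (nat_lit 244) (nat_lit 1) (nat_lit 317) (nat_lit 376) (nat_lit 327)) (XT.lf (nat_lit 76) (nat_lit 2134573823) (nat_lit 0) (nat_lit 1839016245) (nat_lit 456) (nat_lit 2134573823) (nat_lit 240) (nat_lit 1) (nat_lit 239) (nat_lit 1) (nat_lit 245) (nat_lit 1) (nat_lit 318) (nat_lit 376) (nat_lit 326)))) (XT.nd (nat_lit 156) (nat_lit 684) (nat_lit 0) (XT.nd (nat_lit 78) (nat_lit 0) (nat_lit 0) (XT.lf (nat_lit 380) (nat_lit 2950451072) (nat_lit 0) (nat_lit 1543466257) (nat_lit 304) (nat_lit 1543466257) (nat_lit 240) (nat_lit 1) (nat_lit 235) (nat_lit 1) (nat_lit 239) (nat_lit 1) (nat_lit 319) (nat_lit 376) (nat_lit 325)) (XT.lf (nat_lit 76) (nat_lit 820475374) (nat_lit 0) (nat_lit 4326863249) (nat_lit 380) (nat_lit 820475374)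 (nat_lit 236) (nat_lit 1) (nat_lit 235) (nat_lit 1) (nat_lit 240) (nat_lit 1) (nat_lit 320) (nat_lit 376) (nat_lit 324))) (XT.nd (nat_lit 78) (nat_lit 380) (nat_lit 0) (XT.lf (nat_lit 380) (nat_lit 327170982) (nat_lit 0) (nat_lit 2785932092) (nat_lit 304) (nat_lit 2785932092) (nat_lit 236) (nat_lit 1) (nat_lit 231) (nat_lit 1) (nat_lit 235) (nat_lit 1) (nat_lit 321) (nat_lit 376) (nat_lit 323)) (XT.nd (nat_lit 78) (nat_lit 0) (nat_lit 0) (XT.lf (nat_lit 380) (nat_lit 4889360224) (nat_lit 0) (nat_lit 471126713) (nat_lit 304) (nat_lit 471126713) (nat_lit 231) (nat_lit 1) (nat_lit 226) (nat_lit 1) (nat_lit 230) (nat_lit 1) (nat_lit 322) (nat_lit 376) (nat_lit 322)) (XT.lf (nat_lit 76) (nat_lit 1774574391) (nat_lit 0) (nat_lit 2215505498) (nat_lit 380) (nat_lit 1774574391) (nat_lit 227) (nat_lit 1) (nat_lit 226) (nat_lit 1) (nat_lit 231) (nat_lit 1) (nat_lit 323) (nat_lit 376) (nat_lit 321)))))) (XT.nd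 (nat_lit 390) (nat_lit 836) (nat_lit 0) (XT.nd (nat_lit 156) (nat_lit 608) (nat_lit 0) (XT.nd (nat_lit 78) (nat_lit 0) (nat_lit 0) (XT.lf (nat_lit 380) (nat_lit 2226251986) (nat_lit 0) (nat_lit 1736380280) (nat_lit 304) (nat_lit 1736380280) (nat_lit 227) (nat_lit 1) (nat_lit 222) (nat_lit 1) (nat_lit 226) (nat_lit 1) (nat_lit 324) (nat_lit 376) (nat_lit 320)) (XT.lf (nat_lit 76) (nat_lit 459922032) (nat_lit 0) (nat_lit 4714796638) (nat_lit 380) (nat_lit 459922032) (nat_lit 223) (nat_lit 1) (nat_lit 222) (nat_lit 1) (nat_lit 227) (nat_lit 1) (nat_lit 325) (nat_lit 376) (nat_lit 319))) (XT.nd (nat_lit 78) (nat_lit 304) (nat_lit 0) (XT.lf (nat_lit 76) (nat_lit 2591824856) (nat_lit 0) (nat_lit 387033904) (nat_lit 304) (nat_lit 2591824856) (nat_lit 219) (nat_lit 1) (nat_lit 218) (nat_lit 1) (nat_lit 222) (nat_lit 1) (nat_lit 326) (nat_lit 376) (nat_lit 318)) (XT.nd (nat_lit 78) (nat_lit 0) (nat_lit 0) (XT.lf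 (nat_lit 380) (nat_lit 3857185186) (nat_lit 0) (nat_lit 825387990) (nat_lit 304) (nat_lit 825387990) (nat_lit 219) (nat_lit 1) (nat_lit 214) (nat_lit 1) (nat_lit 218) (nat_lit 1) (nat_lit 327) (nat_lit 376) (nat_lit 317)) (XT.lf (nat_lit 76) (nat_lit 1265582798) (nat_lit 0) (nat_lit 2914787660) (nat_lit 380) (nat_lit 1265582798) (nat_lit 215) (nat_lit 1) (nat_lit 214) (nat_lit 1) (nat_lit 219) (nat_lit 1) (nat_lit 328) (nat_lit 376) (nat_lit 316))))) (XT.nd (nat_lit 156) (nat_lit 228) (nat_lit 0) (XT.nd (nat_lit 78) (nat_lit 380) (nat_lit 0) (XT.lf (nat_lit 304) (nat_lit 1215191586) (nat_lit 0) (nat_lit 2084863747) (nat_lit 228) (nat_lit 2084863747) (nat_lit 215) (nat_lit 1) (nat_lit 211) (nat_lit 1) (nat_lit 214) (nat_lit 1) (nat_lit 329) (nat_lit 376) (nat_lit 315)) (XT.lf (nat_lit 380) (nat_lit 5251514546) (nat_lit 0) (nat_lit 36877220) (nat_lit 304) (nat_lit 36877220) (nat_lit 211) (nat_lit 1) (nat_lit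 206) (nat_lit 1) (nat_lit 210) (nat_lit 1) (nat_lit 330) (nat_lit 376) (nat_lit 314))) (XT.nd (nat_lit 78) (nat_lit 228) (nat_lit 0) (XT.lf (nat_lit 76) (nat_lit 1956442302) (nat_lit 0) (nat_lit 1352617020) (nat_lit 380) (nat_lit 1956442302) (nat_lit 207) (nat_lit 1) (nat_lit 206) (nat_lit 1) (nat_lit 211) (nat_lit 1) (nat_lit 331) (nat_lit 376) (nat_lit 313)) (XT.nd (nat_lit 78) (nat_lit 0) (nat_lit 0) (XT.lf (nat_lit 304) (nat_lit 2599982933) (nat_lit 0) (nat_lit 1303552942) (nat_lit 228) (nat_lit 1303552942) (nat_lit 207) (nat_lit 1) (nat_lit 203) (nat_lit 1) (nat_lit 206) (nat_lit 1) (nat_lit 332) (nat_lit 376) (nat_lit 312)) (XT.lf (nat_lit 76) (nat_lit 649789355) (nat_lit 0) (nat_lit 3850048864) (nat_lit 304) (nat_lit 649789355) (nat_lit 204) (nat_lit 1) (nat_lit 203) (nat_lit 1) (nat_lit 207) (nat_lit 1) (nat_lit 333) (nat_lit 376) (nat_lit 311))))))) (XT.nd (nat_lit 702) (nat_lit 1216) (nat_lit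 0) (XT.nd (nat_lit 312) (nat_lit 760) (nat_lit 0) (XT.nd (nat_lit 156) (nat_lit 228) (nat_lit 0) (XT.nd (nat_lit 78) (nat_lit 228) (nat_lit 0) (XT.lf (nat_lit 76) (nat_lit 2546029352) (nat_lit 0) (nat_lit 681670) (nat_lit 304) (nat_lit 2546029352) (nat_lit 200) (nat_lit 1) (nat_lit 199) (nat_lit 1) (nat_lit 203) (nat_lit 1) (nat_lit 334) (nat_lit 376) (nat_lit 310)) (XT.lf (nat_lit 304) (nat_lit 3786071499) (nat_lit 0) (nat_lit 625353503) (nat_lit 228) (nat_lit 625353503) (nat_lit 200) (nat_lit 1) (nat_lit 196) (nat_lit 1) (nat_lit 199) (nat_lit 1) (nat_lit 335) (nat_lit 376) (nat_lit 309))) (XT.nd (nat_lit 78) (nat_lit 228) (nat_lit 0) (XT.lf (nat_lit 76) (nat_lit 1240318449) (nat_lit 0) (nat_lit 2500717874) (nat_lit 304) (nat_lit 1240318449) (nat_lit 197) (nat_lit 1) (nat_lit 196) (nat_lit 1) (nat_lit 200) (nat_lit 1) (nat_lit 336) (nat_lit 376) (nat_lit 308)) (XT.lf (nat_lit 304) (nat_lit 1188707823)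 (nat_lit 0) (nat_lit 1869061708) (nat_lit 228) (nat_lit 1869061708) (nat_lit 197) (nat_lit 1) (nat_lit 193) (nat_lit 1) (nat_lit 196) (nat_lit 1) (nat_lit 337) (nat_lit 376) (nat_lit 307)))) (XT.nd (nat_lit 156) (nat_lit 456) (nat_lit 0) (XT.nd (nat_lit 78) (nat_lit 0) (nat_lit 0) (XT.lf (nat_lit 304) (nat_lit 4796904943) (nat_lit 0) (nat_lit 38301593) (nat_lit 228) (nat_lit 38301593) (nat_lit 193) (nat_lit 1) (nat_lit 189) (nat_lit 1) (nat_lit 192) (nat_lit 1) (nat_lit 338) (nat_lit 376) (nat_lit 306)) (XT.lf (nat_lit 76) (nat_lit 1745685540) (nat_lit 0) (nat_lit 1328650902) (nat_lit 304) (nat_lit 1745685540) (nat_lit 190) (nat_lit 1) (nat_lit 189) (nat_lit 1) (nat_lit 193) (nat_lit 1) (nat_lit 339) (nat_lit 376) (nat_lit 305))) (XT.nd (nat_lit 78) (nat_lit 228) (nat_lit 0) (XT.lf (nat_lit 304) (nat_lit 2210836487) (nat_lit 0) (nat_lit 1278438900) (nat_lit 228) (nat_lit 1278438900) (nat_lit 190) (nat_lit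 1) (nat_lit 186) (nat_lit 1) (nat_lit 189) (nat_lit 1) (nat_lit 340) (nat_lit 376) (nat_lit 304)) (XT.nd (nat_lit 78) (nat_lit 228) (nat_lit 0) (XT.lf (nat_lit 76) (nat_lit 472854774) (nat_lit 0) (nat_lit 3770583012) (nat_lit 304) (nat_lit 472854774) (nat_lit 187) (nat_lit 1) (nat_lit 186) (nat_lit 1) (nat_lit 190) (nat_lit 1) (nat_lit 341) (nat_lit 376) (nat_lit 303)) (XT.lf (nat_lit 76) (nat_lit 2175949733) (nat_lit 0) (nat_lit 313300245) (nat_lit 228) (nat_lit 2175949733) (nat_lit 184) (nat_lit 1) (nat_lit 183) (nat_lit 1) (nat_lit 186) (nat_lit 1) (nat_lit 342) (nat_lit 376) (nat_lit 302)))))) (XT.nd (nat_lit 390) (nat_lit 532) (nat_lit 0) (XT.nd (nat_lit 156) (nat_lit 456) (nat_lit 0) (XT.nd (nat_lit 78) (nat_lit 0) (nat_lit 0) (XT.lf (nat_lit 304) (nat_lit 3085352966) (nat_lit 0) (nat_lit 764810171) (nat_lit 228) (nat_lit 764810171) (nat_lit 184) (nat_lit 1) (nat_lit 180) (nat_lit 1) (nat_lit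 183) (nat_lit 1) (nat_lit 343) (nat_lit 376) (nat_lit 301)) (XT.lf (nat_lit 76) (nat_lit 912574059) (nat_lit 0) (nat_lit 2740171944) (nat_lit 304) (nat_lit 912574059) (nat_lit 181) (nat_lit 1) (nat_lit 180) (nat_lit 1) (nat_lit 184) (nat_lit 1) (nat_lit 344) (nat_lit 376) (nat_lit 300))) (XT.nd (nat_lit 78) (nat_lit 304) (nat_lit 0) (XT.lf (nat_lit 228) (nat_lit 574783838) (nat_lit 0) (nat_lit 1970773365) (nat_lit 152) (nat_lit 1970773365) (nat_lit 181) (nat_lit 1) (nat_lit 178) (nat_lit 1) (nat_lit 180) (nat_lit 1) (nat_lit 345) (nat_lit 376) (nat_lit 299)) (XT.nd (nat_lit 78) (nat_lit 0) (nat_lit 0) (XT.lf (nat_lit 304) (nat_lit 3829697489) (nat_lit 0) (nat_lit 319265453) (nat_lit 228) (nat_lit 319265453) (nat_lit 178) (nat_lit 1) (nat_lit 174) (nat_lit 1) (nat_lit 177) (nat_lit 1) (nat_lit 346) (nat_lit 376) (nat_lit 298)) (XT.lf (nat_lit 76) (nat_lit 1288915783) (nat_lit 0) (nat_lit 1842430363)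 (nat_lit 304) (nat_lit 1288915783) (nat_lit 175) (nat_lit 1) (nat_lit 174) (nat_lit 1) (nat_lit 178) (nat_lit 1) (nat_lit 347) (nat_lit 376) (nat_lit 297))))) (XT.nd (nat_lit 156) (nat_lit 380) (nat_lit 0) (XT.nd (nat_lit 78) (nat_lit 0) (nat_lit 0) (XT.lf (nat_lit 228) (nat_lit 1344364715) (nat_lit 0) (nat_lit 1514400860) (nat_lit 152) (nat_lit 1514400860) (nat_lit 175) (nat_lit 1) (nat_lit 172) (nat_lit 1) (nat_lit 174) (nat_lit 1) (nat_lit 348) (nat_lit 376) (nat_lit 296)) (XT.lf (nat_lit 76) (nat_lit 66756770) (nat_lit 0) (nat_lit 4193541429) (nat_lit 228) (nat_lit 66756770) (nat_lit 173) (nat_lit 1) (nat_lit 172) (nat_lit 1) (nat_lit 175) (nat_lit 1) (nat_lit 349) (nat_lit 376) (nat_lit 295))) (XT.nd (nat_lit 78) (nat_lit 152) (nat_lit 0) (XT.lf (nat_lit 76) (nat_lit 1609365126) (nat_lit 0) (nat_lit 1062046467) (nat_lit 228) (nat_lit 1609365126) (nat_lit 170) (nat_lit 1) (nat_lit 169) (nat_lit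 1) (nat_lit 172) (nat_lit 1) (nat_lit 350) (nat_lit 376) (nat_lit 294)) (XT.nd (nat_lit 78) (nat_lit 0) (nat_lit 0) (XT.lf (nat_lit 228) (nat_lit 2003845511) (nat_lit 0) (nat_lit 1115811230) (nat_lit 152) (nat_lit 1115811230) (nat_lit 170) (nat_lit 1) (nat_lit 167) (nat_lit 1) (nat_lit 169) (nat_lit 1) (nat_lit 351) (nat_lit 376) (nat_lit 293)) (XT.lf (nat_lit 76) (nat_lit 402252853) (nat_lit 0) (nat_lit 3386395321) (nat_lit 228) (nat_lit 402252853) (nat_lit 168) (nat_lit 1) (nat_lit 167) (nat_lit 1) (nat_lit 170) (nat_lit 1) (nat_lit 352) (nat_lit 376) (nat_lit 292))))))))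
noncomputable def ec186 : XT := (XT.nd (nat_lit 1482) (nat_lit 1748) (nat_lit 0) (XT.nd (nat_lit 702) (nat_lit 1064) (nat_lit 0) (XT.nd (nat_lit 312) (nat_lit 608) (nat_lit 0) (XT.nd (nat_lit 156) (nat_lit 152) (nat_lit 0) (XT.nd (nat_lit 78) (nat_lit 152) (nat_lit 0) (XT.lf (nat_lit 76) (nat_lit 1880560406) (nat_lit 0) (nat_lit 385430989) (nat_lit 228) (nat_lit 1880560406) (nat_lit 165) (nat_lit 1) (nat_lit 164) (nat_lit 1) (nat_lit 167) (nat_lit 1) (nat_lit 353) (nat_lit 376) (nat_lit 291)) (XT.lf (nat_lit 228) (nat_lit 2566211048) (nat_lit 0) (nat_lit 768360214) (nat_lit 152) (nat_lit 768360214) (nat_lit 165) (nat_lit 1) (nat_lit 162) (nat_lit 1) (nat_lit 164) (nat_lit 1) (nat_lit 354) (nat_lit 376) (nat_lit 290))) (XT.nd (nat_lit 78) (nat_lit 152) (nat_lit 0) (XT.lf (nat_lit 76) (nat_lit 690348225) (nat_lit 0) (nat_lit 2679145155) (nat_lit 228) (nat_lit 690348225) (nat_lit 163) (nat_lit 1) (nat_lit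 162) (nat_lit 1) (nat_lit 165) (nat_lit 1) (nat_lit 355) (nat_lit 376) (nat_lit 289)) (XT.lf (nat_lit 228) (nat_lit 203445275) (nat_lit 0) (nat_lit 1906898236) (nat_lit 152) (nat_lit 1906898236) (nat_lit 163) (nat_lit 1) (nat_lit 160) (nat_lit 1) (nat_lit 162) (nat_lit 1) (nat_lit 356) (nat_lit 376) (nat_lit 288)))) (XT.nd (nat_lit 156) (nat_lit 380) (nat_lit 0) (XT.nd (nat_lit 78) (nat_lit 0) (nat_lit 0) (XT.lf (nat_lit 228) (nat_lit 3042977575) (nat_lit 0) (nat_lit 466150320) (nat_lit 152) (nat_lit 466150320) (nat_lit 160) (nat_lit 1) (nat_lit 157) (nat_lit 1) (nat_lit 159) (nat_lit 1) (nat_lit 357) (nat_lit 376) (nat_lit 287)) (XT.lf (nat_lit 76) (nat_lit 936619606) (nat_lit 0) (nat_lit 2060363220) (nat_lit 228) (nat_lit 936619606) (nat_lit 158) (nat_lit 1) (nat_lit 157) (nat_lit 1) (nat_lit 160) (nat_lit 1) (nat_lit 358) (nat_lit 376) (nat_lit 286))) (XT.nd (nat_lit 78) (nat_lit 228) (nat_lit 0)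 (XT.lf (nat_lit 228) (nat_lit 717371262) (nat_lit 0) (nat_lit 1587590454) (nat_lit 152) (nat_lit 1587590454) (nat_lit 158) (nat_lit 1) (nat_lit 155) (nat_lit 1) (nat_lit 157) (nat_lit 1) (nat_lit 359) (nat_lit 376) (nat_lit 285)) (XT.nd (nat_lit 78) (nat_lit 0) (nat_lit 0) (XT.lf (nat_lit 228) (nat_lit 3444357130) (nat_lit 0) (nat_lit 203947378) (nat_lit 152) (nat_lit 203947378) (nat_lit 155) (nat_lit 1) (nat_lit 152) (nat_lit 1) (nat_lit 154) (nat_lit 1) (nat_lit 360) (nat_lit 376) (nat_lit 284)) (XT.lf (nat_lit 76) (nat_lit 1146013370) (nat_lit 0) (nat_lit 1519904530) (nat_lit 228) (nat_lit 1146013370) (nat_lit 153) (nat_lit 1) (nat_lit 152) (nat_lit 1) (nat_lit 155) (nat_lit 1) (nat_lit 361) (nat_lit 376) (nat_lit 283)))))) (XT.nd (nat_lit 390) (nat_lit 608) (nat_lit 0) (XT.nd (nat_lit 156) (nat_lit 304) (nat_lit 0) (XT.nd (nat_lit 78) (nat_lit 0) (nat_lit 0) (XT.lf (nat_lit 228) (nat_lit 1158358346)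 (nat_lit 0) (nat_lit 1306996342) (nat_lit 152) (nat_lit 1306996342) (nat_lit 153) (nat_lit 1) (nat_lit 150) (nat_lit 1) (nat_lit 152) (nat_lit 1) (nat_lit 362) (nat_lit 376) (nat_lit 282)) (XT.lf (nat_lit 76) (nat_lit 23120263) (nat_lit 0) (nat_lit 3687349043) (nat_lit 228) (nat_lit 23120263) (nat_lit 151) (nat_lit 1) (nat_lit 150) (nat_lit 1) (nat_lit 153) (nat_lit 1) (nat_lit 363) (nat_lit 376) (nat_lit 281))) (XT.nd (nat_lit 78) (nat_lit 152) (nat_lit 0) (XT.lf (nat_lit 76) (nat_lit 1322916075) (nat_lit 0) (nat_lit 1048763543) (nat_lit 152) (nat_lit 1322916075) (nat_lit 149) (nat_lit 1) (nat_lit 148) (nat_lit 1) (nat_lit 150) (nat_lit 1) (nat_lit 364) (nat_lit 376) (nat_lit 280)) (XT.nd (nat_lit 78) (nat_lit 0) (nat_lit 0) (XT.lf (nat_lit 228) (nat_lit 1534995389) (nat_lit 0) (nat_lit 1060708337) (nat_lit 152) (nat_lit 1060708337) (nat_lit 149) (nat_lit 1) (nat_lit 146) (nat_lit 1) (nat_lit 148)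 (nat_lit 1) (nat_lit 365) (nat_lit 376) (nat_lit 279)) (XT.lf (nat_lit 76) (nat_lit 220657561) (nat_lit 0) (nat_lit 3177582798) (nat_lit 228) (nat_lit 220657561) (nat_lit 147) (nat_lit 1) (nat_lit 146) (nat_lit 1) (nat_lit 149) (nat_lit 1) (nat_lit 366) (nat_lit 376) (nat_lit 278))))) (XT.nd (nat_lit 156) (nat_lit 304) (nat_lit 0) (XT.nd (nat_lit 78) (nat_lit 152) (nat_lit 0) (XT.lf (nat_lit 76) (nat_lit 1471217138) (nat_lit 0) (nat_lit 638946857) (nat_lit 152) (nat_lit 1471217138) (nat_lit 145) (nat_lit 1) (nat_lit 144) (nat_lit 1) (nat_lit 146) (nat_lit 1) (nat_lit 367) (nat_lit 376) (nat_lit 277)) (XT.lf (nat_lit 228) (nat_lit 1854900223) (nat_lit 0) (nat_lit 844813013) (nat_lit 152) (nat_lit 844813013) (nat_lit 145) (nat_lit 1) (nat_lit 142) (nat_lit 1) (nat_lit 144) (nat_lit 1) (nat_lit 368) (nat_lit 376) (nat_lit 276))) (XT.nd (nat_lit 78) (nat_lit 304) (nat_lit 0) (XT.lf (nat_lit 76) (nat_lit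 390338285) (nat_lit 0) (nat_lit 2727533327) (nat_lit 228) (nat_lit 390338285) (nat_lit 143) (nat_lit 1) (nat_lit 142) (nat_lit 1) (nat_lit 145) (nat_lit 1) (nat_lit 369) (nat_lit 376) (nat_lit 275)) (XT.nd (nat_lit 78) (nat_lit 152) (nat_lit 0) (XT.lf (nat_lit 76) (nat_lit 1594364497) (nat_lit 0) (nat_lit 283360116) (nat_lit 152) (nat_lit 1594364497) (nat_lit 141) (nat_lit 1) (nat_lit 140) (nat_lit 1) (nat_lit 142) (nat_lit 1) (nat_lit 370) (nat_lit 376) (nat_lit 274)) (XT.lf (nat_lit 228) (nat_lit 2124828319) (nat_lit 0) (nat_lit 655835900) (nat_lit 152) (nat_lit 655835900) (nat_lit 141) (nat_lit 1) (nat_lit 138) (nat_lit 1) (nat_lit 140) (nat_lit 1) (nat_lit 371) (nat_lit 376) (nat_lit 273))))))) (XT.nd (nat_lit 702) (nat_lit 836) (nat_lit 0) (XT.nd (nat_lit 312) (nat_lit 608) (nat_lit 0) (XT.nd (nat_lit 156) (nat_lit 228) (nat_lit 0) (XT.nd (nat_lit 78) (nat_lit 76) (nat_lit 0) (XT.lf (nat_lit 76)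 (nat_lit 535438568) (nat_lit 0) (nat_lit 2330457808) (nat_lit 228) (nat_lit 535438568) (nat_lit 139) (nat_lit 1) (nat_lit 138) (nat_lit 1) (nat_lit 141) (nat_lit 1) (nat_lit 372) (nat_lit 376) (nat_lit 272)) (XT.lf (nat_lit 152) (nat_lit 24775937) (nat_lit 0) (nat_lit 1670876299) (nat_lit 76) (nat_lit 1670876299) (nat_lit 139) (nat_lit 1) (nat_lit 137) (nat_lit 1) (nat_lit 138) (nat_lit 1) (nat_lit 373) (nat_lit 376) (nat_lit 271))) (XT.nd (nat_lit 78) (nat_lit 0) (nat_lit 0) (XT.lf (nat_lit 228) (nat_lit 2350769329) (nat_lit 0) (nat_lit 490692459) (nat_lit 152) (nat_lit 490692459) (nat_lit 137) (nat_lit 1) (nat_lit 134) (nat_lit 1) (nat_lit 136) (nat_lit 1) (nat_lit 374) (nat_lit 376) (nat_lit 270)) (XT.lf (nat_lit 76) (nat_lit 658864270) (nat_lit 0) (nat_lit 1980367767) (nat_lit 228) (nat_lit 658864270) (nat_lit 135) (nat_lit 1) (nat_lit 134) (nat_lit 1) (nat_lit 137) (nat_lit 1) (nat_lit 375) (nat_lit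 376) (nat_lit 269)))) (XT.nd (nat_lit 156) (nat_lit 304) (nat_lit 0) (XT.nd (nat_lit 78) (nat_lit 228) (nat_lit 0) (XT.lf (nat_lit 152) (nat_lit 295360947) (nat_lit 0) (nat_lit 1484551950) (nat_lit 76) (nat_lit 1484551950) (nat_lit 135) (nat_lit 1) (nat_lit 133) (nat_lit 1) (nat_lit 134) (nat_lit 1) (nat_lit 376) (nat_lit 376) (nat_lit 268)) (XT.lf (nat_lit 228) (nat_lit 2538032848) (nat_lit 0) (nat_lit 346644532) (nat_lit 152) (nat_lit 346644532) (nat_lit 133) (nat_lit 1) (nat_lit 130) (nat_lit 1) (nat_lit 132) (nat_lit 1) (nat_lit 377) (nat_lit 376) (nat_lit 267))) (XT.nd (nat_lit 78) (nat_lit 304) (nat_lit 0) (XT.lf (nat_lit 76) (nat_lit 763192406) (nat_lit 0) (nat_lit 1671944886) (nat_lit 228) (nat_lit 763192406) (nat_lit 131) (nat_lit 1) (nat_lit 130) (nat_lit 1) (nat_lit 133) (nat_lit 1) (nat_lit 378) (nat_lit 376) (nat_lit 266)) (XT.nd (nat_lit 78) (nat_lit 228) (nat_lit 0) (XT.lf (nat_lit 152)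 (nat_lit 527810637) (nat_lit 0) (nat_lit 1319005180) (nat_lit 76) (nat_lit 1319005180) (nat_lit 131) (nat_lit 1) (nat_lit 129) (nat_lit 1) (nat_lit 130) (nat_lit 1) (nat_lit 379) (nat_lit 376) (nat_lit 265)) (XT.lf (nat_lit 228) (nat_lit 2691324601) (nat_lit 0) (nat_lit 221261641) (nat_lit 152) (nat_lit 221261641) (nat_lit 129) (nat_lit 1) (nat_lit 126) (nat_lit 1) (nat_lit 128) (nat_lit 1) (nat_lit 380) (nat_lit 376) (nat_lit 264)))))) (XT.nd (nat_lit 390) (nat_lit 456) (nat_lit 0) (XT.nd (nat_lit 156) (nat_lit 304) (nat_lit 0) (XT.nd (nat_lit 78) (nat_lit 76) (nat_lit 0) (XT.lf (nat_lit 76) (nat_lit 850707962) (nat_lit 0) (nat_lit 1400466207) (nat_lit 228) (nat_lit 850707962) (nat_lit 127) (nat_lit 1) (nat_lit 126) (nat_lit 1) (nat_lit 129) (nat_lit 1) (nat_lit 381) (nat_lit 376) (nat_lit 263)) (XT.lf (nat_lit 152) (nat_lit 726609478) (nat_lit 0) (nat_lit 1171919018) (nat_lit 76) (nat_lit 1171919018)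 (nat_lit 127) (nat_lit 1) (nat_lit 125) (nat_lit 1) (nat_lit 126) (nat_lit 1) (nat_lit 382) (nat_lit 376) (nat_lit 262))) (XT.nd (nat_lit 78) (nat_lit 76) (nat_lit 0) (XT.lf (nat_lit 228) (nat_lit 2814814126) (nat_lit 0) (nat_lit 112386611) (nat_lit 152) (nat_lit 112386611) (nat_lit 125) (nat_lit 1) (nat_lit 122) (nat_lit 1) (nat_lit 124) (nat_lit 1) (nat_lit 383) (nat_lit 376) (nat_lit 261)) (XT.nd (nat_lit 78) (nat_lit 76) (nat_lit 0) (XT.lf (nat_lit 76) (nat_lit 923436592) (nat_lit 0) (nat_lit 1161737669) (nat_lit 228) (nat_lit 923436592) (nat_lit 123) (nat_lit 1) (nat_lit 122) (nat_lit 1) (nat_lit 125) (nat_lit 1) (nat_lit 384) (nat_lit 376) (nat_lit 260)) (XT.lf (nat_lit 152) (nat_lit 895735114) (nat_lit 0) (nat_lit 1041234869) (nat_lit 76) (nat_lit 1041234869) (nat_lit 123) (nat_lit 1) (nat_lit 121) (nat_lit 1) (nat_lit 122) (nat_lit 1) (nat_lit 385) (nat_lit 376) (nat_lit 259))))) (XT.nd (nat_lit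 156) (nat_lit 228) (nat_lit 0) (XT.nd (nat_lit 78) (nat_lit 0) (nat_lit 0) (XT.lf (nat_lit 228) (nat_lit 2912194898) (nat_lit 0) (nat_lit 18105027) (nat_lit 152) (nat_lit 18105027) (nat_lit 121) (nat_lit 1) (nat_lit 118) (nat_lit 1) (nat_lit 120) (nat_lit 1) (nat_lit 386) (nat_lit 376) (nat_lit 258)) (XT.lf (nat_lit 76) (nat_lit 983173672) (nat_lit 0) (nat_lit 952035069) (nat_lit 228) (nat_lit 983173672) (nat_lit 119) (nat_lit 1) (nat_lit 118) (nat_lit 1) (nat_lit 121) (nat_lit 1) (nat_lit 387) (nat_lit 376) (nat_lit 257))) (XT.nd (nat_lit 78) (nat_lit 152) (nat_lit 0) (XT.lf (nat_lit 152) (nat_lit 1038715070) (nat_lit 0) (nat_lit 925123695) (nat_lit 76) (nat_lit 925123695) (nat_lit 119) (nat_lit 1) (nat_lit 117) (nat_lit 1) (nat_lit 118) (nat_lit 1) (nat_lit 388) (nat_lit 376) (nat_lit 256)) (XT.nd (nat_lit 78) (nat_lit 152) (nat_lit 0) (XT.lf (nat_lit 0) (nat_lit 63908452) (nat_lit 0) (nat_lit 2732282952)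 (nat_lit 152) (nat_lit 63908452) (nat_lit 117) (nat_lit 3) (nat_lit 117) (nat_lit 1) (nat_lit 119) (nat_lit 1) (nat_lit 389) (nat_lit 376) (nat_lit 255)) (XT.lf (nat_lit 76) (nat_lit 1031510102) (nat_lit 0) (nat_lit 768051602) (nat_lit 152) (nat_lit 1031510102) (nat_lit 116) (nat_lit 1) (nat_lit 115) (nat_lit 1) (nat_lit 117) (nat_lit 1) (nat_lit 390) (nat_lit 376) (nat_lit 254))))))))
noncomputable def ec187 : XT := (XT.nd (nat_lit 1482) (nat_lit 1368) (nat_lit 0) (XT.nd (nat_lit 702) (nat_lit 760) (nat_lit 0) (XT.nd (nat_lit 312) (nat_lit 380) (nat_lit 0) (XT.nd (nat_lit 156) (nat_lit 228) (nat_lit 0) (XT.nd (nat_lit 78) (nat_lit 0) (nat_lit 0) (XT.lf (nat_lit 152) (nat_lit 1158677141) (nat_lit 0) (nat_lit 821960420) (nat_lit 76) (nat_lit 821960420) (nat_lit 116) (nat_lit 1) (nat_lit 114) (nat_lit 1) (nat_lit 115) (nat_lit 1) (nat_lit 391) (nat_lit 376) (nat_lit 253)) (XT.lf (nat_lit 0) (nat_lit 134601058)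 (nat_lit 0) (nat_lit 2505417240) (nat_lit 152) (nat_lit 134601058) (nat_lit 114) (nat_lit 3) (nat_lit 114) (nat_lit 1) (nat_lit 116) (nat_lit 1) (nat_lit 392) (nat_lit 376) (nat_lit 252))) (XT.nd (nat_lit 78) (nat_lit 76) (nat_lit 0) (XT.lf (nat_lit 76) (nat_lit 1069855238) (nat_lit 0) (nat_lit 606851253) (nat_lit 152) (nat_lit 1069855238) (nat_lit 113) (nat_lit 1) (nat_lit 112) (nat_lit 1) (nat_lit 114) (nat_lit 1) (nat_lit 393) (nat_lit 376) (nat_lit 251)) (XT.lf (nat_lit 152) (nat_lit 1258394152) (nat_lit 0) (nat_lit 730301187) (nat_lit 76) (nat_lit 730301187) (nat_lit 113) (nat_lit 1) (nat_lit 111) (nat_lit 1) (nat_lit 112) (nat_lit 1) (nat_lit 394) (nat_lit 376) (nat_lit 250)))) (XT.nd (nat_lit 156) (nat_lit 228) (nat_lit 0) (XT.nd (nat_lit 78) (nat_lit 152) (nat_lit 0) (XT.lf (nat_lit 0) (nat_lit 195143943) (nat_lit 0) (nat_lit 2301583414) (nat_lit 152) (nat_lit 195143943) (nat_lit 111) (nat_lit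 3) (nat_lit 111) (nat_lit 1) (nat_lit 113) (nat_lit 1) (nat_lit 395) (nat_lit 376) (nat_lit 249)) (XT.lf (nat_lit 76) (nat_lit 1099457253) (nat_lit 0) (nat_lit 465827394) (nat_lit 152) (nat_lit 1099457253) (nat_lit 110) (nat_lit 1) (nat_lit 109) (nat_lit 1) (nat_lit 111) (nat_lit 1) (nat_lit 396) (nat_lit 376) (nat_lit 248))) (XT.nd (nat_lit 78) (nat_lit 152) (nat_lit 0) (XT.lf (nat_lit 152) (nat_lit 1340323720) (nat_lit 0) (nat_lit 648863146) (nat_lit 76) (nat_lit 648863146) (nat_lit 110) (nat_lit 1) (nat_lit 108) (nat_lit 1) (nat_lit 109) (nat_lit 1) (nat_lit 397) (nat_lit 376) (nat_lit 247)) (XT.nd (nat_lit 78) (nat_lit 152) (nat_lit 0) (XT.lf (nat_lit 0) (nat_lit 246734950) (nat_lit 0) (nat_lit 2118279137) (nat_lit 152) (nat_lit 246734950) (nat_lit 108) (nat_lit 3) (nat_lit 108) (nat_lit 1) (nat_lit 110) (nat_lit 1) (nat_lit 398) (nat_lit 376) (nat_lit 246)) (XT.lf (nat_lit 76) (nat_lit 1121421229)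 (nat_lit 0) (nat_lit 342665991) (nat_lit 152) (nat_lit 1121421229) (nat_lit 107) (nat_lit 1) (nat_lit 106) (nat_lit 1) (nat_lit 108) (nat_lit 1) (nat_lit 399) (nat_lit 376) (nat_lit 245)))))) (XT.nd (nat_lit 390) (nat_lit 456) (nat_lit 0) (XT.nd (nat_lit 156) (nat_lit 228) (nat_lit 0) (XT.nd (nat_lit 78) (nat_lit 0) (nat_lit 0) (XT.lf (nat_lit 152) (nat_lit 1406643581) (nat_lit 0) (nat_lit 576506501) (nat_lit 76) (nat_lit 576506501) (nat_lit 107) (nat_lit 1) (nat_lit 105) (nat_lit 1) (nat_lit 106) (nat_lit 1) (nat_lit 400) (nat_lit 376) (nat_lit 244)) (XT.lf (nat_lit 0) (nat_lit 290436423) (nat_lit 0) (nat_lit 1953279193) (nat_lit 152) (nat_lit 290436423) (nat_lit 105) (nat_lit 3) (nat_lit 105) (nat_lit 1) (nat_lit 107) (nat_lit 1) (nat_lit 401) (nat_lit 376) (nat_lit 243))) (XT.nd (nat_lit 78) (nat_lit 76) (nat_lit 0) (XT.lf (nat_lit 76) (nat_lit 1136725228) (nat_lit 0) (nat_lit 235312920) (nat_lit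 152) (nat_lit 1136725228) (nat_lit 104) (nat_lit 1) (nat_lit 103) (nat_lit 1) (nat_lit 105) (nat_lit 1) (nat_lit 402) (nat_lit 376) (nat_lit 242)) (XT.nd (nat_lit 78) (nat_lit 0) (nat_lit 0) (XT.lf (nat_lit 152) (nat_lit 1459282968) (nat_lit 0) (nat_lit 512218559) (nat_lit 76) (nat_lit 512218559) (nat_lit 104) (nat_lit 1) (nat_lit 102) (nat_lit 1) (nat_lit 103) (nat_lit 1) (nat_lit 403) (nat_lit 376) (nat_lit 241)) (XT.lf (nat_lit 0) (nat_lit 327190375) (nat_lit 0) (nat_lit 1804604638) (nat_lit 152) (nat_lit 327190375) (nat_lit 102) (nat_lit 3) (nat_lit 102) (nat_lit 1) (nat_lit 104) (nat_lit 1) (nat_lit 404) (nat_lit 376) (nat_lit 240))))) (XT.nd (nat_lit 156) (nat_lit 228) (nat_lit 0) (XT.nd (nat_lit 78) (nat_lit 76) (nat_lit 0) (XT.lf (nat_lit 76) (nat_lit 1146234564) (nat_lit 0) (nat_lit 141944933) (nat_lit 152) (nat_lit 1146234564) (nat_lit 101) (nat_lit 1) (nat_lit 100) (nat_lit 1) (nat_lit 102)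 (nat_lit 1) (nat_lit 405) (nat_lit 376) (nat_lit 239)) (XT.lf (nat_lit 152) (nat_lit 1499950487) (nat_lit 0) (nat_lit 455099555) (nat_lit 76) (nat_lit 455099555) (nat_lit 101) (nat_lit 1) (nat_lit 99) (nat_lit 1) (nat_lit 100) (nat_lit 1) (nat_lit 406) (nat_lit 376) (nat_lit 238))) (XT.nd (nat_lit 78) (nat_lit 228) (nat_lit 0) (XT.lf (nat_lit 0) (nat_lit 357831958) (nat_lit 0) (nat_lit 1670495396) (nat_lit 152) (nat_lit 357831958) (nat_lit 99) (nat_lit 3) (nat_lit 99) (nat_lit 1) (nat_lit 101) (nat_lit 1) (nat_lit 407) (nat_lit 376) (nat_lit 237)) (XT.nd (nat_lit 78) (nat_lit 76) (nat_lit 0) (XT.lf (nat_lit 76) (nat_lit 1150714489) (nat_lit 0) (nat_lit 60943858) (nat_lit 152) (nat_lit 1150714489) (nat_lit 98) (nat_lit 1) (nat_lit 97) (nat_lit 1) (nat_lit 99) (nat_lit 1) (nat_lit 408) (nat_lit 376) (nat_lit 236)) (XT.lf (nat_lit 152) (nat_lit 1530158881) (nat_lit 0) (nat_lit 404350060) (nat_lit 76) (nat_lit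 404350060) (nat_lit 98) (nat_lit 1) (nat_lit 96) (nat_lit 1) (nat_lit 97) (nat_lit 1) (nat_lit 409) (nat_lit 376) (nat_lit 235))))))) (XT.nd (nat_lit 702) (nat_lit 684) (nat_lit 0) (XT.nd (nat_lit 312) (nat_lit 456) (nat_lit 0) (XT.nd (nat_lit 156) (nat_lit 152) (nat_lit 0) (XT.nd (nat_lit 78) (nat_lit 76) (nat_lit 0) (XT.lf (nat_lit 0) (nat_lit 383101437) (nat_lit 0) (nat_lit 1549385900) (nat_lit 152) (nat_lit 383101437) (nat_lit 96) (nat_lit 3) (nat_lit 96) (nat_lit 1) (nat_lit 98) (nat_lit 1) (nat_lit 410) (nat_lit 376) (nat_lit 234)) (XT.lf (nat_lit 76) (nat_lit 9307955) (nat_lit 0) (nat_lit 1141622967) (nat_lit 76) (nat_lit 1141622967) (nat_lit 96) (nat_lit 3) (nat_lit 95) (nat_lit 1) (nat_lit 96) (nat_lit 1) (nat_lit 411) (nat_lit 376) (nat_lit 233))) (XT.nd (nat_lit 78) (nat_lit 0) (nat_lit 0) (XT.lf (nat_lit 152) (nat_lit 1551247029) (nat_lit 0) (nat_lit 359259792) (nat_lit 76) (nat_lit 359259792)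 (nat_lit 95) (nat_lit 1) (nat_lit 93) (nat_lit 1) (nat_lit 94) (nat_lit 1) (nat_lit 412) (nat_lit 376) (nat_lit 232)) (XT.lf (nat_lit 0) (nat_lit 403654817) (nat_lit 0) (nat_lit 1439883456) (nat_lit 152) (nat_lit 403654817) (nat_lit 93) (nat_lit 3) (nat_lit 93) (nat_lit 1) (nat_lit 95) (nat_lit 1) (nat_lit 413) (nat_lit 376) (nat_lit 231)))) (XT.nd (nat_lit 156) (nat_lit 228) (nat_lit 0) (XT.nd (nat_lit 78) (nat_lit 152) (nat_lit 0) (XT.lf (nat_lit 76) (nat_lit 70923814) (nat_lit 0) (nat_lit 1076971037) (nat_lit 76) (nat_lit 1076971037) (nat_lit 93) (nat_lit 3) (nat_lit 92) (nat_lit 1) (nat_lit 93) (nat_lit 1) (nat_lit 414) (nat_lit 376) (nat_lit 230)) (XT.lf (nat_lit 152) (nat_lit 1564399477) (nat_lit 0) (nat_lit 319197672) (nat_lit 76) (nat_lit 319197672) (nat_lit 92) (nat_lit 1) (nat_lit 90) (nat_lit 1) (nat_lit 91) (nat_lit 1) (nat_lit 415) (nat_lit 376) (nat_lit 229))) (XT.nd (nat_lit 78) (nat_lit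 228) (nat_lit 0) (XT.lf (nat_lit 0) (nat_lit 420073292) (nat_lit 0) (nat_lit 1340749017) (nat_lit 152) (nat_lit 420073292) (nat_lit 90) (nat_lit 3) (nat_lit 90) (nat_lit 1) (nat_lit 92) (nat_lit 1) (nat_lit 416) (nat_lit 376) (nat_lit 228)) (XT.nd (nat_lit 78) (nat_lit 152) (nat_lit 0) (XT.lf (nat_lit 76) (nat_lit 123843839) (nat_lit 0) (nat_lit 1017703766) (nat_lit 76) (nat_lit 1017703766) (nat_lit 90) (nat_lit 3) (nat_lit 89) (nat_lit 1) (nat_lit 90) (nat_lit 1) (nat_lit 417) (nat_lit 376) (nat_lit 227)) (XT.lf (nat_lit 152) (nat_lit 1570663802) (nat_lit 0) (nat_lit 283602997) (nat_lit 76) (nat_lit 283602997) (nat_lit 89) (nat_lit 1) (nat_lit 87) (nat_lit 1) (nat_lit 88) (nat_lit 1) (nat_lit 418) (nat_lit 376) (nat_lit 226)))))) (XT.nd (nat_lit 390) (nat_lit 380) (nat_lit 0) (XT.nd (nat_lit 156) (nat_lit 228) (nat_lit 0) (XT.nd (nat_lit 78) (nat_lit 76) (nat_lit 0) (XT.lf (nat_lit 0) (nat_lit 432871636)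 (nat_lit 0) (nat_lit 1250880093) (nat_lit 152) (nat_lit 432871636) (nat_lit 87) (nat_lit 3) (nat_lit 87) (nat_lit 1) (nat_lit 89) (nat_lit 1) (nat_lit 419) (nat_lit 376) (nat_lit 225)) (XT.lf (nat_lit 76) (nat_lit 169090879) (nat_lit 0) (nat_lit 963273847) (nat_lit 76) (nat_lit 963273847) (nat_lit 87) (nat_lit 3) (nat_lit 86) (nat_lit 1) (nat_lit 87) (nat_lit 1) (nat_lit 420) (nat_lit 376) (nat_lit 224))) (XT.nd (nat_lit 78) (nat_lit 76) (nat_lit 0) (XT.lf (nat_lit 152) (nat_lit 1570966027) (nat_lit 0) (nat_lit 251977589) (nat_lit 76) (nat_lit 251977589) (nat_lit 86) (nat_lit 1) (nat_lit 84) (nat_lit 1) (nat_lit 85) (nat_lit 1) (nat_lit 421) (nat_lit 376) (nat_lit 223)) (XT.nd (nat_lit 78) (nat_lit 76) (nat_lit 0) (XT.lf (nat_lit 0) (nat_lit 442505655) (nat_lit 0) (nat_lit 1169295574) (nat_lit 152) (nat_lit 442505655) (nat_lit 84) (nat_lit 3) (nat_lit 84) (nat_lit 1) (nat_lit 86) (nat_lit 1) (nat_lit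 422) (nat_lit 376) (nat_lit 222)) (XT.lf (nat_lit 76) (nat_lit 207572174) (nat_lit 0) (nat_lit 913193455) (nat_lit 76) (nat_lit 913193455) (nat_lit 84) (nat_lit 3) (nat_lit 83) (nat_lit 1) (nat_lit 84) (nat_lit 1) (nat_lit 423) (nat_lit 376) (nat_lit 221))))) (XT.nd (nat_lit 156) (nat_lit 228) (nat_lit 0) (XT.nd (nat_lit 78) (nat_lit 0) (nat_lit 0) (XT.lf (nat_lit 152) (nat_lit 1566124310) (nat_lit 0) (nat_lit 223878824) (nat_lit 76) (nat_lit 223878824) (nat_lit 83) (nat_lit 1) (nat_lit 81) (nat_lit 1) (nat_lit 82) (nat_lit 1) (nat_lit 424) (nat_lit 376) (nat_lit 220)) (XT.lf (nat_lit 0) (nat_lit 449378808) (nat_lit 0) (nat_lit 1095122237) (nat_lit 152) (nat_lit 449378808) (nat_lit 81) (nat_lit 3) (nat_lit 81) (nat_lit 1) (nat_lit 83) (nat_lit 1) (nat_lit 425) (nat_lit 376) (nat_lit 219))) (XT.nd (nat_lit 78) (nat_lit 152) (nat_lit 0) (XT.lf (nat_lit 76) (nat_lit 240092294) (nat_lit 0) (nat_lit 867027662)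 (nat_lit 76) (nat_lit 867027662) (nat_lit 81) (nat_lit 3) (nat_lit 80) (nat_lit 1) (nat_lit 81) (nat_lit 1) (nat_lit 426) (nat_lit 376) (nat_lit 218)) (XT.nd (nat_lit 78) (nat_lit 0) (nat_lit 0) (XT.lf (nat_lit 152) (nat_lit 1556861108) (nat_lit 0) (nat_lit 198913436) (nat_lit 76) (nat_lit 198913436) (nat_lit 80) (nat_lit 1) (nat_lit 78) (nat_lit 1) (nat_lit 79) (nat_lit 1) (nat_lit 427) (nat_lit 376) (nat_lit 217)) (XT.lf (nat_lit 0) (nat_lit 453848090) (nat_lit 0) (nat_lit 1027582763) (nat_lit 152) (nat_lit 453848090) (nat_lit 78) (nat_lit 3) (nat_lit 78) (nat_lit 1) (nat_lit 80) (nat_lit 1) (nat_lit 428) (nat_lit 376) (nat_lit 216))))))))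
noncomputable def ec188 : XT := (XT.nd (nat_lit 41574) (nat_lit 0) (nat_lit 16720) (XT.nd (nat_lit 40794) (nat_lit 0) (nat_lit 21964) (XT.nd (nat_lit 40404) (nat_lit 0) (nat_lit 22800) (XT.nd (nat_lit 156) (nat_lit 76) (nat_lit 0) (XT.nd (nat_lit 78) (nat_lit 152) (nat_lit 0) (XT.lf (nat_lit 76) (nat_lit 267364626) (nat_lit 0) (nat_lit 824388581) (nat_lit 76) (nat_lit 824388581) (nat_lit 78) (nat_lit 3) (nat_lit 77) (nat_lit 1) (nat_lit 78) (nat_lit 1) (nat_lit 429) (nat_lit 376) (nat_lit 215)) (XT.lf (nat_lit 152) (nat_lit 1543813982) (nat_lit 0) (nat_lit 176732011) (nat_lit 76) (nat_lit 176732011) (nat_lit 77) (nat_lit 1) (nat_lit 75) (nat_lit 1) (nat_lit 76) (nat_lit 1) (nat_lit 430) (nat_lit 376) (nat_lit 214))) (XT.nd (nat_lit 78) (nat_lit 76) (nat_lit 0) (XT.lf (nat_lit 0) (nat_lit 456229256) (nat_lit 0) (nat_lit 965985082) (nat_lit 152) (nat_lit 456229256) (nat_lit 75) (nat_lit 3) (nat_lit 75)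 (nat_lit 1) (nat_lit 77) (nat_lit 1) (nat_lit 431) (nat_lit 376) (nat_lit 213)) (XT.lf (nat_lit 76) (nat_lit 290021593) (nat_lit 0) (nat_lit 784930162) (nat_lit 76) (nat_lit 784930162) (nat_lit 75) (nat_lit 3) (nat_lit 74) (nat_lit 1) (nat_lit 75) (nat_lit 1) (nat_lit 432) (nat_lit 376) (nat_lit 212)))) (XT.nd (nat_lit 156) (nat_lit 0) (nat_lit 76) (XT.nd (nat_lit 78) (nat_lit 0) (nat_lit 0) (XT.lf (nat_lit 1292) (nat_lit 1113376348) (nat_lit 0) (nat_lit 3830532436) (nat_lit 1292) (nat_lit 1113376348) (nat_lit 391) (nat_lit 1) (nat_lit 374) (nat_lit 0) (nat_lit 391) (nat_lit 0) (nat_lit 266) (nat_lit 377) (nat_lit 377)) (XT.lf (nat_lit 1292) (nat_lit 4351094281) (nat_lit 76) (nat_lit 3792978197) (nat_lit 0) (nat_lit 3792978197) (nat_lit 391) (nat_lit 1) (nat_lit 375) (nat_lit 1) (nat_lit 374) (nat_lit 0) (nat_lit 267) (nat_lit 377) (nat_lit 376))) (XT.nd (nat_lit 78) (nat_lit 0) (nat_lit 0) (XT.lf (nat_lit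 1292) (nat_lit 2104292936) (nat_lit 0) (nat_lit 7554860920) (nat_lit 1216) (nat_lit 2104292936) (nat_lit 392) (nat_lit 1) (nat_lit 375) (nat_lit 1) (nat_lit 391) (nat_lit 1) (nat_lit 268) (nat_lit 377) (nat_lit 375)) (XT.nd (nat_lit 78) (nat_lit 0) (nat_lit 76) (XT.lf (nat_lit 1292) (nat_lit 3996160932) (nat_lit 76) (nat_lit 3798290552) (nat_lit 0) (nat_lit 3798290552) (nat_lit 392) (nat_lit 1) (nat_lit 376) (nat_lit 1) (nat_lit 375) (nat_lit 1) (nat_lit 269) (nat_lit 377) (nat_lit 374)) (XT.lf (nat_lit 1292) (nat_lit 1875178587) (nat_lit 0) (nat_lit 7675499683) (nat_lit 1216) (nat_lit 1875178587) (nat_lit 393) (nat_lit 1) (nat_lit 376) (nat_lit 1) (nat_lit 392) (nat_lit 1) (nat_lit 270) (nat_lit 377) (nat_lit 373)))))) (XT.nd (nat_lit 390) (nat_lit 988) (nat_lit 0) (XT.nd (nat_lit 156) (nat_lit 0) (nat_lit 76) (XT.nd (nat_lit 78) (nat_lit 0) (nat_lit 76) (XT.lf (nat_lit 1292) (nat_lit 3436462754) (nat_lit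 76) (nat_lit 3912588955) (nat_lit 0) (nat_lit 3912588955) (nat_lit 393) (nat_lit 1) (nat_lit 377) (nat_lit 1) (nat_lit 376) (nat_lit 1) (nat_lit 271) (nat_lit 377) (nat_lit 372)) (XT.lf (nat_lit 1292) (nat_lit 1548843252) (nat_lit 0) (nat_lit 8003529960) (nat_lit 1216) (nat_lit 1548843252) (nat_lit 394) (nat_lit 1) (nat_lit 377) (nat_lit 1) (nat_lit 393) (nat_lit 1) (nat_lit 272) (nat_lit 377) (nat_lit 371))) (XT.nd (nat_lit 78) (nat_lit 0) (nat_lit 76) (XT.lf (nat_lit 1292) (nat_lit 2690311545) (nat_lit 76) (nat_lit 4126433926) (nat_lit 0) (nat_lit 4126433926) (nat_lit 394) (nat_lit 1) (nat_lit 378) (nat_lit 1) (nat_lit 377) (nat_lit 1) (nat_lit 273) (nat_lit 377) (nat_lit 370)) (XT.nd (nat_lit 78) (nat_lit 0) (nat_lit 0) (XT.lf (nat_lit 1292) (nat_lit 1134082564) (nat_lit 0) (nat_lit 8520804397) (nat_lit 1216) (nat_lit 1134082564) (nat_lit 395) (nat_lit 1) (nat_lit 378) (nat_lit 1) (nat_lit 394) (nat_lit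 1) (nat_lit 274) (nat_lit 377) (nat_lit 369)) (XT.lf (nat_lit 1292) (nat_lit 1774776939) (nat_lit 76) (nat_lit 4431020568) (nat_lit 0) (nat_lit 4431020568) (nat_lit 395) (nat_lit 1) (nat_lit 379) (nat_lit 1) (nat_lit 378) (nat_lit 1) (nat_lit 275) (nat_lit 377) (nat_lit 368))))) (XT.nd (nat_lit 156) (nat_lit 1216) (nat_lit 0) (XT.nd (nat_lit 78) (nat_lit 0) (nat_lit 0) (XT.lf (nat_lit 1292) (nat_lit 639093616) (nat_lit 0) (nat_lit 9210399185) (nat_lit 1216) (nat_lit 639093616) (nat_lit 396) (nat_lit 1) (nat_lit 379) (nat_lit 1) (nat_lit 395) (nat_lit 1) (nat_lit 276) (nat_lit 377) (nat_lit 367)) (XT.lf (nat_lit 1292) (nat_lit 705763271) (nat_lit 76) (nat_lit 4818139436) (nat_lit 0) (nat_lit 4818139436) (nat_lit 396) (nat_lit 1) (nat_lit 380) (nat_lit 1) (nat_lit 379) (nat_lit 1) (nat_lit 277) (nat_lit 377) (nat_lit 366))) (XT.nd (nat_lit 78) (nat_lit 1292) (nat_lit 0) (XT.lf (nat_lit 1292) (nat_lit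 71512048) (nat_lit 0) (nat_lit 10056538527) (nat_lit 1216) (nat_lit 71512048) (nat_lit 397) (nat_lit 1) (nat_lit 380) (nat_lit 1) (nat_lit 396) (nat_lit 1) (nat_lit 278) (nat_lit 377) (nat_lit 365)) (XT.nd (nat_lit 78) (nat_lit 0) (nat_lit 0) (XT.lf (nat_lit 1368) (nat_lit 4783046348) (nat_lit 0) (nat_lit 492123899) (nat_lit 1292) (nat_lit 4783046348) (nat_lit 381) (nat_lit 1) (nat_lit 363) (nat_lit 1) (nat_lit 380) (nat_lit 1) (nat_lit 279) (nat_lit 377) (nat_lit 364)) (XT.lf (nat_lit 1368) (nat_lit 8808671122) (nat_lit 76) (nat_lit 556047650) (nat_lit 0) (nat_lit 556047650) (nat_lit 381) (nat_lit 1) (nat_lit 364) (nat_lit 1) (nat_lit 363) (nat_lit 1) (nat_lit 280) (nat_lit 377) (nat_lit 363))))))) (XT.nd (nat_lit 702) (nat_lit 3344) (nat_lit 0) (XT.nd (nat_lit 312) (nat_lit 1216) (nat_lit 0) (XT.nd (nat_lit 156) (nat_lit 760) (nat_lit 0) (XT.nd (nat_lit 78) (nat_lit 0) (nat_lit 0) (XT.lf (nat_lit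 1368) (nat_lit 3993047902) (nat_lit 0) (nat_lit 1798683619) (nat_lit 1292) (nat_lit 3993047902) (nat_lit 382) (nat_lit 1) (nat_lit 364) (nat_lit 1) (nat_lit 381) (nat_lit 1) (nat_lit 281) (nat_lit 377) (nat_lit 362)) (XT.lf (nat_lit 1368) (nat_lit 7169844838) (nat_lit 76) (nat_lit 1241197377) (nat_lit 0) (nat_lit 1241197377) (nat_lit 382) (nat_lit 1) (nat_lit 365) (nat_lit 1) (nat_lit 364) (nat_lit 1) (nat_lit 282) (nat_lit 377) (nat_lit 361))) (XT.nd (nat_lit 78) (nat_lit 836) (nat_lit 0) (XT.lf (nat_lit 76) (nat_lit 3153189804) (nat_lit 0) (nat_lit 3215112910) (nat_lit 1292) (nat_lit 3153189804) (nat_lit 366) (nat_lit 1) (nat_lit 365) (nat_lit 1) (nat_lit 382) (nat_lit 1) (nat_lit 283) (nat_lit 377) (nat_lit 360)) (XT.lf (nat_lit 912) (nat_lit 5436543138) (nat_lit 0) (nat_lit 1978546198) (nat_lit 836) (nat_lit 1978546198) (nat_lit 366) (nat_lit 1) (nat_lit 354) (nat_lit 1) (nat_lit 365) (nat_lit 1)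 (nat_lit 284) (nat_lit 377) (nat_lit 359)))) (XT.nd (nat_lit 156) (nat_lit 608) (nat_lit 0) (XT.nd (nat_lit 78) (nat_lit 608) (nat_lit 0) (XT.lf (nat_lit 76) (nat_lit 2269107275) (nat_lit 0) (nat_lit 4729720206) (nat_lit 912) (nat_lit 2269107275) (nat_lit 355) (nat_lit 1) (nat_lit 354) (nat_lit 1) (nat_lit 366) (nat_lit 1) (nat_lit 285) (nat_lit 377) (nat_lit 358)) (XT.lf (nat_lit 684) (nat_lit 3619681066) (nat_lit 0) (nat_lit 2762431761) (nat_lit 608) (nat_lit 2762431761) (nat_lit 355) (nat_lit 1) (nat_lit 346) (nat_lit 1) (nat_lit 354) (nat_lit 1) (nat_lit 286) (nat_lit 377) (nat_lit 357))) (XT.nd (nat_lit 78) (nat_lit 608) (nat_lit 0) (XT.lf (nat_lit 76) (nat_lit 1346031279) (nat_lit 0) (nat_lit 6331641915) (nat_lit 684) (nat_lit 1346031279) (nat_lit 347) (nat_lit 1) (nat_lit 346) (nat_lit 1) (nat_lit 355) (nat_lit 1) (nat_lit 287) (nat_lit 377) (nat_lit 356)) (XT.nd (nat_lit 78) (nat_lit 0) (nat_lit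 0) (XT.lf (nat_lit 684) (nat_lit 1729387145) (nat_lit 0) (nat_lit 3587594410) (nat_lit 608) (nat_lit 3587594410) (nat_lit 347) (nat_lit 1) (nat_lit 338) (nat_lit 1) (nat_lit 346) (nat_lit 1) (nat_lit 288) (nat_lit 377) (nat_lit 355)) (XT.lf (nat_lit 76) (nat_lit 388814088) (nat_lit 0) (nat_lit 8010790326) (nat_lit 684) (nat_lit 388814088) (nat_lit 339) (nat_lit 1) (nat_lit 338) (nat_lit 1) (nat_lit 347) (nat_lit 1) (nat_lit 289) (nat_lit 377) (nat_lit 354)))))) (XT.nd (nat_lit 390) (nat_lit 1596) (nat_lit 0) (XT.nd (nat_lit 156) (nat_lit 532) (nat_lit 0) (XT.nd (nat_lit 78) (nat_lit 608) (nat_lit 0) (XT.lf (nat_lit 76) (nat_lit 4226367305) (nat_lit 0) (nat_lit 220557295) (nat_lit 608) (nat_lit 4226367305) (nat_lit 331) (nat_lit 1) (nat_lit 330) (nat_lit 1) (nat_lit 338) (nat_lit 1) (nat_lit 290) (nat_lit 377) (nat_lit 353)) (XT.lf (nat_lit 684) (nat_lit 7376650896) (nat_lit 0) (nat_lit 592183498) (nat_lit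 608) (nat_lit 592183498) (nat_lit 331) (nat_lit 1) (nat_lit 322) (nat_lit 1) (nat_lit 330) (nat_lit 1) (nat_lit 291) (nat_lit 377) (nat_lit 352))) (XT.nd (nat_lit 78) (nat_lit 532) (nat_lit 0) (XT.lf (nat_lit 76) (nat_lit 3129436639) (nat_lit 0) (nat_lit 2191013451) (nat_lit 684) (nat_lit 3129436639) (nat_lit 323) (nat_lit 1) (nat_lit 322) (nat_lit 1) (nat_lit 331) (nat_lit 1) (nat_lit 292) (nat_lit 377) (nat_lit 351)) (XT.nd (nat_lit 78) (nat_lit 0) (nat_lit 0) (XT.lf (nat_lit 608) (nat_lit 5152171768) (nat_lit 0) (nat_lit 1594597492) (nat_lit 532) (nat_lit 1594597492) (nat_lit 323) (nat_lit 1) (nat_lit 315) (nat_lit 1) (nat_lit 322) (nat_lit 1) (nat_lit 293) (nat_lit 377) (nat_lit 350)) (XT.lf (nat_lit 76) (nat_lit 2013346339) (nat_lit 0) (nat_lit 4207829095) (nat_lit 608) (nat_lit 2013346339) (nat_lit 316) (nat_lit 1) (nat_lit 315) (nat_lit 1) (nat_lit 323) (nat_lit 1) (nat_lit 294) (nat_lit 377)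 (nat_lit 349))))) (XT.nd (nat_lit 156) (nat_lit 1064) (nat_lit 0) (XT.nd (nat_lit 78) (nat_lit 0) (nat_lit 0) (XT.lf (nat_lit 608) (nat_lit 2892741308) (nat_lit 0) (nat_lit 2618422963) (nat_lit 532) (nat_lit 2618422963) (nat_lit 316) (nat_lit 1) (nat_lit 308) (nat_lit 1) (nat_lit 315) (nat_lit 1) (nat_lit 295) (nat_lit 377) (nat_lit 348)) (XT.lf (nat_lit 76) (nat_lit 881588322) (nat_lit 0) (nat_lit 6263698195) (nat_lit 608) (nat_lit 881588322) (nat_lit 309) (nat_lit 1) (nat_lit 308) (nat_lit 1) (nat_lit 316) (nat_lit 1) (nat_lit 296) (nat_lit 377) (nat_lit 347))) (XT.nd (nat_lit 78) (nat_lit 608) (nat_lit 0) (XT.lf (nat_lit 532) (nat_lit 605103116) (nat_lit 0) (nat_lit 3660131172) (nat_lit 456) (nat_lit 3660131172) (nat_lit 309) (nat_lit 1) (nat_lit 302) (nat_lit 1) (nat_lit 308) (nat_lit 1) (nat_lit 297) (nat_lit 377) (nat_lit 346)) (XT.nd (nat_lit 78) (nat_lit 0) (nat_lit 0) (XT.lf (nat_lit 608) (nat_lit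 7306251799) (nat_lit 0) (nat_lit 260040954) (nat_lit 532) (nat_lit 260040954) (nat_lit 302) (nat_lit 1) (nat_lit 294) (nat_lit 1) (nat_lit 301) (nat_lit 1) (nat_lit 298) (nat_lit 377) (nat_lit 345)) (XT.lf (nat_lit 76) (nat_lit 3028323551) (nat_lit 0) (nat_lit 1671262889) (nat_lit 608) (nat_lit 3028323551) (nat_lit 295) (nat_lit 1) (nat_lit 294) (nat_lit 1) (nat_lit 302) (nat_lit 1) (nat_lit 299) (nat_lit 377) (nat_lit 344))))))))
noncomputable def ec189 : XT := (XT.nd (nat_lit 1482) (nat_lit 3496) (nat_lit 0) (XT.nd (nat_lit 702) (nat_lit 2280) (nat_lit 0) (XT.nd (nat_lit 312) (nat_lit 1292) (nat_lit 0) (XT.nd (nat_lit 156) (nat_lit 456) (nat_lit 0) (XT.nd (nat_lit 78) (nat_lit 0) (nat_lit 0) (XT.lf (nat_lit 532) (nat_lit 4827053729) (nat_lit 0) (nat_lit 1402411013) (nat_lit 456) (nat_lit 1402411013) (nat_lit 295) (nat_lit 1) (nat_lit 288) (nat_lit 1) (nat_lit 294) (nat_lit 1) (nat_lit 300) (nat_lit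 377) (nat_lit 343)) (XT.lf (nat_lit 76) (nat_lit 1792740572) (nat_lit 0) (nat_lit 3951765472) (nat_lit 532) (nat_lit 1792740572) (nat_lit 289) (nat_lit 1) (nat_lit 288) (nat_lit 1) (nat_lit 295) (nat_lit 1) (nat_lit 301) (nat_lit 377) (nat_lit 342))) (XT.nd (nat_lit 78) (nat_lit 0) (nat_lit 0) (XT.lf (nat_lit 532) (nat_lit 2341328068) (nat_lit 0) (nat_lit 2551458582) (nat_lit 456) (nat_lit 2551458582) (nat_lit 289) (nat_lit 1) (nat_lit 282) (nat_lit 1) (nat_lit 288) (nat_lit 1) (nat_lit 302) (nat_lit 377) (nat_lit 341)) (XT.lf (nat_lit 76) (nat_lit 555115497) (nat_lit 0) (nat_lit 6243046446) (nat_lit 532) (nat_lit 555115497) (nat_lit 283) (nat_lit 1) (nat_lit 282) (nat_lit 1) (nat_lit 289) (nat_lit 1) (nat_lit 303) (nat_lit 377) (nat_lit 340)))) (XT.nd (nat_lit 156) (nat_lit 380) (nat_lit 0) (XT.nd (nat_lit 78) (nat_lit 456) (nat_lit 0) (XT.lf (nat_lit 76) (nat_lit 3559886144) (nat_lit 0) (nat_lit 143362033)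 (nat_lit 456) (nat_lit 3559886144) (nat_lit 277) (nat_lit 1) (nat_lit 276) (nat_lit 1) (nat_lit 282) (nat_lit 1) (nat_lit 304) (nat_lit 377) (nat_lit 339)) (XT.lf (nat_lit 532) (nat_lit 5823711344) (nat_lit 0) (nat_lit 675619813) (nat_lit 456) (nat_lit 675619813) (nat_lit 277) (nat_lit 1) (nat_lit 270) (nat_lit 1) (nat_lit 276) (nat_lit 1) (nat_lit 305) (nat_lit 377) (nat_lit 338))) (XT.nd (nat_lit 78) (nat_lit 380) (nat_lit 0) (XT.lf (nat_lit 76) (nat_lit 2253869619) (nat_lit 0) (nat_lit 2579917396) (nat_lit 532) (nat_lit 2253869619) (nat_lit 271) (nat_lit 1) (nat_lit 270) (nat_lit 1) (nat_lit 277) (nat_lit 1) (nat_lit 306) (nat_lit 377) (nat_lit 337)) (XT.nd (nat_lit 78) (nat_lit 0) (nat_lit 0) (XT.lf (nat_lit 456) (nat_lit 3204803111) (nat_lit 0) (nat_lit 1898682522) (nat_lit 380) (nat_lit 1898682522) (nat_lit 271) (nat_lit 1) (nat_lit 265) (nat_lit 1) (nat_lit 270) (nat_lit 1) (nat_lit 307) (nat_lit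 377) (nat_lit 336)) (XT.lf (nat_lit 76) (nat_lit 954042927) (nat_lit 0) (nat_lit 5010159580) (nat_lit 456) (nat_lit 954042927) (nat_lit 266) (nat_lit 1) (nat_lit 265) (nat_lit 1) (nat_lit 271) (nat_lit 1) (nat_lit 308) (nat_lit 377) (nat_lit 335)))))) (XT.nd (nat_lit 390) (nat_lit 1064) (nat_lit 0) (XT.nd (nat_lit 156) (nat_lit 380) (nat_lit 0) (XT.nd (nat_lit 78) (nat_lit 456) (nat_lit 0) (XT.lf (nat_lit 456) (nat_lit 600017851) (nat_lit 0) (nat_lit 3117659278) (nat_lit 380) (nat_lit 3117659278) (nat_lit 266) (nat_lit 1) (nat_lit 260) (nat_lit 1) (nat_lit 265) (nat_lit 1) (nat_lit 309) (nat_lit 377) (nat_lit 334)) (XT.lf (nat_lit 456) (nat_lit 6085011920) (nat_lit 0) (nat_lit 334632731) (nat_lit 380) (nat_lit 334632731) (nat_lit 260) (nat_lit 1) (nat_lit 254) (nat_lit 1) (nat_lit 259) (nat_lit 1) (nat_lit 310) (nat_lit 377) (nat_lit 333))) (XT.nd (nat_lit 78) (nat_lit 380) (nat_lit 0) (XT.lf (nat_lit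 76) (nat_lit 2362475893) (nat_lit 0) (nat_lit 1948704734) (nat_lit 456) (nat_lit 2362475893) (nat_lit 255) (nat_lit 1) (nat_lit 254) (nat_lit 1) (nat_lit 260) (nat_lit 1) (nat_lit 311) (nat_lit 377) (nat_lit 332)) (XT.nd (nat_lit 78) (nat_lit 0) (nat_lit 0) (XT.lf (nat_lit 456) (nat_lit 3385400109) (nat_lit 0) (nat_lit 1604713638) (nat_lit 380) (nat_lit 1604713638) (nat_lit 255) (nat_lit 1) (nat_lit 249) (nat_lit 1) (nat_lit 254) (nat_lit 1) (nat_lit 312) (nat_lit 377) (nat_lit 331)) (XT.lf (nat_lit 76) (nat_lit 1025672842) (nat_lit 0) (nat_lit 4465972283) (nat_lit 456) (nat_lit 1025672842) (nat_lit 250) (nat_lit 1) (nat_lit 249) (nat_lit 1) (nat_lit 255) (nat_lit 1) (nat_lit 313) (nat_lit 377) (nat_lit 330))))) (XT.nd (nat_lit 156) (nat_lit 304) (nat_lit 0) (XT.nd (nat_lit 78) (nat_lit 456) (nat_lit 0) (XT.lf (nat_lit 380) (nat_lit 712363174) (nat_lit 0) (nat_lit 2864213835) (nat_lit 304) (nat_lit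 2864213835) (nat_lit 250) (nat_lit 1) (nat_lit 245) (nat_lit 1) (nat_lit 249) (nat_lit 1) (nat_lit 314) (nat_lit 377) (nat_lit 329)) (XT.lf (nat_lit 456) (nat_lit 5777099701) (nat_lit 0) (nat_lit 294421409) (nat_lit 380) (nat_lit 294421409) (nat_lit 245) (nat_lit 1) (nat_lit 239) (nat_lit 1) (nat_lit 244) (nat_lit 1) (nat_lit 315) (nat_lit 377) (nat_lit 328))) (XT.nd (nat_lit 78) (nat_lit 304) (nat_lit 0) (XT.lf (nat_lit 76) (nat_lit 2198611038) (nat_lit 0) (nat_lit 1894186732) (nat_lit 456) (nat_lit 2198611038) (nat_lit 240) (nat_lit 1) (nat_lit 239) (nat_lit 1) (nat_lit 245) (nat_lit 1) (nat_lit 316) (nat_lit 377) (nat_lit 327)) (XT.nd (nat_lit 78) (nat_lit 0) (nat_lit 0) (XT.lf (nat_lit 380) (nat_lit 3038964604) (nat_lit 0) (nat_lit 1589770245) (nat_lit 304) (nat_lit 1589770245) (nat_lit 240) (nat_lit 1) (nat_lit 235) (nat_lit 1) (nat_lit 239) (nat_lit 1) (nat_lit 317) (nat_lit 377) (nat_lit 326))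 (XT.lf (nat_lit 76) (nat_lit 845089635) (nat_lit 0) (nat_lit 4456669147) (nat_lit 380) (nat_lit 845089635) (nat_lit 236) (nat_lit 1) (nat_lit 235) (nat_lit 1) (nat_lit 240) (nat_lit 1) (nat_lit 318) (nat_lit 377) (nat_lit 325))))))) (XT.nd (nat_lit 702) (nat_lit 1672) (nat_lit 0) (XT.nd (nat_lit 312) (nat_lit 836) (nat_lit 0) (XT.nd (nat_lit 156) (nat_lit 304) (nat_lit 0) (XT.nd (nat_lit 78) (nat_lit 380) (nat_lit 0) (XT.lf (nat_lit 380) (nat_lit 336986112) (nat_lit 0) (nat_lit 2869510055) (nat_lit 304) (nat_lit 2869510055) (nat_lit 236) (nat_lit 1) (nat_lit 231) (nat_lit 1) (nat_lit 235) (nat_lit 1) (nat_lit 319) (nat_lit 377) (nat_lit 324)) (XT.lf (nat_lit 380) (nat_lit 5036041030) (nat_lit 0) (nat_lit 485260515) (nat_lit 304) (nat_lit 485260515) (nat_lit 231) (nat_lit 1) (nat_lit 226) (nat_lit 1) (nat_lit 230) (nat_lit 1) (nat_lit 320) (nat_lit 377) (nat_lit 323))) (XT.nd (nat_lit 78) (nat_lit 304)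 (nat_lit 0) (XT.lf (nat_lit 76) (nat_lit 1827811623) (nat_lit 0) (nat_lit 2281970663) (nat_lit 380) (nat_lit 1827811623) (nat_lit 227) (nat_lit 1) (nat_lit 226) (nat_lit 1) (nat_lit 231) (nat_lit 1) (nat_lit 321) (nat_lit 377) (nat_lit 322)) (XT.lf (nat_lit 380) (nat_lit 2293039545) (nat_lit 0) (nat_lit 1788471688) (nat_lit 304) (nat_lit 1788471688) (nat_lit 227) (nat_lit 1) (nat_lit 222) (nat_lit 1) (nat_lit 226) (nat_lit 1) (nat_lit 322) (nat_lit 377) (nat_lit 321)))) (XT.nd (nat_lit 156) (nat_lit 532) (nat_lit 0) (XT.nd (nat_lit 78) (nat_lit 304) (nat_lit 0) (XT.lf (nat_lit 76) (nat_lit 473719693) (nat_lit 0) (nat_lit 4856240537) (nat_lit 380) (nat_lit 473719693) (nat_lit 223) (nat_lit 1) (nat_lit 222) (nat_lit 1) (nat_lit 227) (nat_lit 1) (nat_lit 323) (nat_lit 377) (nat_lit 320)) (XT.lf (nat_lit 76) (nat_lit 2669579602) (nat_lit 0) (nat_lit 398644921) (nat_lit 304) (nat_lit 2669579602) (nat_lit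 219) (nat_lit 1) (nat_lit 218) (nat_lit 1) (nat_lit 222) (nat_lit 1) (nat_lit 324) (nat_lit 377) (nat_lit 319))) (XT.nd (nat_lit 78) (nat_lit 228) (nat_lit 0) (XT.lf (nat_lit 380) (nat_lit 3972900741) (nat_lit 0) (nat_lit 850149630) (nat_lit 304) (nat_lit 850149630) (nat_lit 219) (nat_lit 1) (nat_lit 214) (nat_lit 1) (nat_lit 218) (nat_lit 1) (nat_lit 325) (nat_lit 377) (nat_lit 318)) (XT.nd (nat_lit 78) (nat_lit 228) (nat_lit 0) (XT.lf (nat_lit 76) (nat_lit 1303550282) (nat_lit 0) (nat_lit 3002231290) (nat_lit 380) (nat_lit 1303550282) (nat_lit 215) (nat_lit 1) (nat_lit 214) (nat_lit 1) (nat_lit 219) (nat_lit 1) (nat_lit 326) (nat_lit 377) (nat_lit 317)) (XT.lf (nat_lit 304) (nat_lit 1251647333) (nat_lit 0) (nat_lit 2147409659) (nat_lit 228) (nat_lit 2147409659) (nat_lit 215) (nat_lit 1) (nat_lit 211) (nat_lit 1) (nat_lit 214) (nat_lit 1) (nat_lit 327) (nat_lit 377) (nat_lit 316)))))) (XT.nd (nat_lit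 390) (nat_lit 760) (nat_lit 0) (XT.nd (nat_lit 156) (nat_lit 532) (nat_lit 0) (XT.nd (nat_lit 78) (nat_lit 0) (nat_lit 0) (XT.lf (nat_lit 380) (nat_lit 5409059983) (nat_lit 0) (nat_lit 37983537) (nat_lit 304) (nat_lit 37983537) (nat_lit 211) (nat_lit 1) (nat_lit 206) (nat_lit 1) (nat_lit 210) (nat_lit 1) (nat_lit 328) (nat_lit 377) (nat_lit 315)) (XT.lf (nat_lit 76) (nat_lit 2015135571) (nat_lit 0) (nat_lit 1393195530) (nat_lit 380) (nat_lit 2015135571) (nat_lit 207) (nat_lit 1) (nat_lit 206) (nat_lit 1) (nat_lit 211) (nat_lit 1) (nat_lit 329) (nat_lit 377) (nat_lit 314))) (XT.nd (nat_lit 78) (nat_lit 304) (nat_lit 0) (XT.lf (nat_lit 304) (nat_lit 2677982421) (nat_lit 0) (nat_lit 1342659530) (nat_lit 228) (nat_lit 1342659530) (nat_lit 207) (nat_lit 1) (nat_lit 203) (nat_lit 1) (nat_lit 206) (nat_lit 1) (nat_lit 330) (nat_lit 377) (nat_lit 313)) (XT.nd (nat_lit 78) (nat_lit 304) (nat_lit 0) (XT.lf (nat_lit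 76) (nat_lit 669283036) (nat_lit 0) (nat_lit 3965550330) (nat_lit 304) (nat_lit 669283036) (nat_lit 204) (nat_lit 1) (nat_lit 203) (nat_lit 1) (nat_lit 207) (nat_lit 1) (nat_lit 331) (nat_lit 377) (nat_lit 312)) (XT.lf (nat_lit 76) (nat_lit 2622410233) (nat_lit 0) (nat_lit 702120) (nat_lit 304) (nat_lit 2622410233) (nat_lit 200) (nat_lit 1) (nat_lit 199) (nat_lit 1) (nat_lit 203) (nat_lit 1) (nat_lit 332) (nat_lit 377) (nat_lit 311))))) (XT.nd (nat_lit 156) (nat_lit 532) (nat_lit 0) (XT.nd (nat_lit 78) (nat_lit 0) (nat_lit 0) (XT.lf (nat_lit 304) (nat_lit 3899653644) (nat_lit 0) (nat_lit 644114108) (nat_lit 228) (nat_lit 644114108) (nat_lit 200) (nat_lit 1) (nat_lit 196) (nat_lit 1) (nat_lit 199) (nat_lit 1) (nat_lit 333) (nat_lit 377) (nat_lit 310)) (XT.lf (nat_lit 76) (nat_lit 1277528002) (nat_lit 0) (nat_lit 2575739410) (nat_lit 304) (nat_lit 1277528002) (nat_lit 197) (nat_lit 1) (nat_lit 196) (nat_lit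 1) (nat_lit 200) (nat_lit 1) (nat_lit 334) (nat_lit 377) (nat_lit 309))) (XT.nd (nat_lit 78) (nat_lit 304) (nat_lit 0) (XT.lf (nat_lit 304) (nat_lit 1224369058) (nat_lit 0) (nat_lit 1925133560) (nat_lit 228) (nat_lit 1925133560) (nat_lit 197) (nat_lit 1) (nat_lit 193) (nat_lit 1) (nat_lit 196) (nat_lit 1) (nat_lit 335) (nat_lit 377) (nat_lit 308)) (XT.nd (nat_lit 78) (nat_lit 0) (nat_lit 0) (XT.lf (nat_lit 304) (nat_lit 4940812092) (nat_lit 0) (nat_lit 39450641) (nat_lit 228) (nat_lit 39450641) (nat_lit 193) (nat_lit 1) (nat_lit 189) (nat_lit 1) (nat_lit 192) (nat_lit 1) (nat_lit 336) (nat_lit 377) (nat_lit 307)) (XT.lf (nat_lit 76) (nat_lit 1798056106) (nat_lit 0) (nat_lit 1368510429) (nat_lit 304) (nat_lit 1798056106) (nat_lit 190) (nat_lit 1) (nat_lit 189) (nat_lit 1) (nat_lit 193) (nat_lit 1) (nat_lit 337) (nat_lit 377) (nat_lit 306))))))))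
noncomputable def ec190 : XT := (XT.nd (nat_lit 1482) (nat_lit 2052) (nat_lit 0) (XT.nd (nat_lit 702) (nat_lit 1140) (nat_lit 0) (XT.nd (nat_lit 312) (nat_lit 608) (nat_lit 0) (XT.nd (nat_lit 156) (nat_lit 456) (nat_lit 0) (XT.nd (nat_lit 78) (nat_lit 0) (nat_lit 0) (XT.lf (nat_lit 304) (nat_lit 2277161582) (nat_lit 0) (nat_lit 1316792067) (nat_lit 228) (nat_lit 1316792067) (nat_lit 190) (nat_lit 1) (nat_lit 186) (nat_lit 1) (nat_lit 189) (nat_lit 1) (nat_lit 338) (nat_lit 377) (nat_lit 305)) (XT.lf (nat_lit 76) (nat_lit 487040417) (nat_lit 0) (nat_lit 3883700503) (nat_lit 304) (nat_lit 487040417) (nat_lit 187) (nat_lit 1) (nat_lit 186) (nat_lit 1) (nat_lit 190) (nat_lit 1) (nat_lit 339) (nat_lit 377) (nat_lit 304))) (XT.nd (nat_lit 78) (nat_lit 228) (nat_lit 0) (XT.lf (nat_lit 76) (nat_lit 2241228225) (nat_lit 0) (nat_lit 322699252) (nat_lit 228) (nat_lit 2241228225) (nat_lit 184) (nat_lit 1) (nat_lit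 183) (nat_lit 1) (nat_lit 186) (nat_lit 1) (nat_lit 340) (nat_lit 377) (nat_lit 303)) (XT.lf (nat_lit 304) (nat_lit 3177913555) (nat_lit 0) (nat_lit 787754477) (nat_lit 228) (nat_lit 787754477) (nat_lit 184) (nat_lit 1) (nat_lit 180) (nat_lit 1) (nat_lit 183) (nat_lit 1) (nat_lit 341) (nat_lit 377) (nat_lit 302)))) (XT.nd (nat_lit 156) (nat_lit 456) (nat_lit 0) (XT.nd (nat_lit 78) (nat_lit 152) (nat_lit 0) (XT.lf (nat_lit 76) (nat_lit 939951281) (nat_lit 0) (nat_lit 2822377102) (nat_lit 304) (nat_lit 939951281) (nat_lit 181) (nat_lit 1) (nat_lit 180) (nat_lit 1) (nat_lit 184) (nat_lit 1) (nat_lit 342) (nat_lit 377) (nat_lit 301)) (XT.lf (nat_lit 228) (nat_lit 592027353) (nat_lit 0) (nat_lit 2029896566) (nat_lit 152) (nat_lit 2029896566) (nat_lit 181) (nat_lit 1) (nat_lit 178) (nat_lit 1) (nat_lit 180) (nat_lit 1) (nat_lit 343) (nat_lit 377) (nat_lit 300))) (XT.nd (nat_lit 78) (nat_lit 152) (nat_lit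 0) (XT.lf (nat_lit 304) (nat_lit 3944588414) (nat_lit 0) (nat_lit 328843417) (nat_lit 228) (nat_lit 328843417) (nat_lit 178) (nat_lit 1) (nat_lit 174) (nat_lit 1) (nat_lit 177) (nat_lit 1) (nat_lit 344) (nat_lit 377) (nat_lit 299)) (XT.nd (nat_lit 78) (nat_lit 152) (nat_lit 0) (XT.lf (nat_lit 76) (nat_lit 1327583256) (nat_lit 0) (nat_lit 1897703273) (nat_lit 304) (nat_lit 1327583256) (nat_lit 175) (nat_lit 1) (nat_lit 174) (nat_lit 1) (nat_lit 178) (nat_lit 1) (nat_lit 345) (nat_lit 377) (nat_lit 298)) (XT.lf (nat_lit 228) (nat_lit 1384695656) (nat_lit 0) (nat_lit 1559832886) (nat_lit 152) (nat_lit 1559832886) (nat_lit 175) (nat_lit 1) (nat_lit 172) (nat_lit 1) (nat_lit 174) (nat_lit 1) (nat_lit 346) (nat_lit 377) (nat_lit 297)))))) (XT.nd (nat_lit 390) (nat_lit 532) (nat_lit 0) (XT.nd (nat_lit 156) (nat_lit 380) (nat_lit 0) (XT.nd (nat_lit 78) (nat_lit 228) (nat_lit 0) (XT.lf (nat_lit 76) (nat_lit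 68759473) (nat_lit 0) (nat_lit 4319347671) (nat_lit 228) (nat_lit 68759473) (nat_lit 173) (nat_lit 1) (nat_lit 172) (nat_lit 1) (nat_lit 175) (nat_lit 1) (nat_lit 347) (nat_lit 377) (nat_lit 296)) (XT.lf (nat_lit 76) (nat_lit 1657646079) (nat_lit 0) (nat_lit 1093907861) (nat_lit 228) (nat_lit 1657646079) (nat_lit 170) (nat_lit 1) (nat_lit 169) (nat_lit 1) (nat_lit 172) (nat_lit 1) (nat_lit 348) (nat_lit 377) (nat_lit 295))) (XT.nd (nat_lit 78) (nat_lit 228) (nat_lit 0) (XT.lf (nat_lit 228) (nat_lit 2063960876) (nat_lit 0) (nat_lit 1149285566) (nat_lit 152) (nat_lit 1149285566) (nat_lit 170) (nat_lit 1) (nat_lit 167) (nat_lit 1) (nat_lit 169) (nat_lit 1) (nat_lit 349) (nat_lit 377) (nat_lit 294)) (XT.nd (nat_lit 78) (nat_lit 228) (nat_lit 0) (XT.lf (nat_lit 76) (nat_lit 414320439) (nat_lit 0) (nat_lit 3487987181) (nat_lit 228) (nat_lit 414320439) (nat_lit 168) (nat_lit 1) (nat_lit 167) (nat_lit 1) (nat_lit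 170) (nat_lit 1) (nat_lit 350) (nat_lit 377) (nat_lit 293)) (XT.lf (nat_lit 76) (nat_lit 1936977218) (nat_lit 0) (nat_lit 396993919) (nat_lit 228) (nat_lit 1936977218) (nat_lit 165) (nat_lit 1) (nat_lit 164) (nat_lit 1) (nat_lit 167) (nat_lit 1) (nat_lit 351) (nat_lit 377) (nat_lit 292))))) (XT.nd (nat_lit 156) (nat_lit 380) (nat_lit 0) (XT.nd (nat_lit 78) (nat_lit 0) (nat_lit 0) (XT.lf (nat_lit 228) (nat_lit 2643197379) (nat_lit 0) (nat_lit 791411020) (nat_lit 152) (nat_lit 791411020) (nat_lit 165) (nat_lit 1) (nat_lit 162) (nat_lit 1) (nat_lit 164) (nat_lit 1) (nat_lit 352) (nat_lit 377) (nat_lit 291)) (XT.lf (nat_lit 76) (nat_lit 711058672) (nat_lit 0) (nat_lit 2759519510) (nat_lit 228) (nat_lit 711058672) (nat_lit 163) (nat_lit 1) (nat_lit 162) (nat_lit 1) (nat_lit 165) (nat_lit 1) (nat_lit 353) (nat_lit 377) (nat_lit 290))) (XT.nd (nat_lit 78) (nat_lit 228) (nat_lit 0) (XT.lf (nat_lit 228) (nat_lit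 209548633) (nat_lit 0) (nat_lit 1964105183) (nat_lit 152) (nat_lit 1964105183) (nat_lit 163) (nat_lit 1) (nat_lit 160) (nat_lit 1) (nat_lit 162) (nat_lit 1) (nat_lit 354) (nat_lit 377) (nat_lit 289)) (XT.nd (nat_lit 78) (nat_lit 0) (nat_lit 0) (XT.lf (nat_lit 228) (nat_lit 3134266902) (nat_lit 0) (nat_lit 480134830) (nat_lit 152) (nat_lit 480134830) (nat_lit 160) (nat_lit 1) (nat_lit 157) (nat_lit 1) (nat_lit 159) (nat_lit 1) (nat_lit 355) (nat_lit 377) (nat_lit 288)) (XT.lf (nat_lit 76) (nat_lit 964718195) (nat_lit 0) (nat_lit 2122174117) (nat_lit 228) (nat_lit 964718195) (nat_lit 158) (nat_lit 1) (nat_lit 157) (nat_lit 1) (nat_lit 160) (nat_lit 1) (nat_lit 356) (nat_lit 377) (nat_lit 287))))))) (XT.nd (nat_lit 702) (nat_lit 1064) (nat_lit 0) (XT.nd (nat_lit 312) (nat_lit 456) (nat_lit 0) (XT.nd (nat_lit 156) (nat_lit 152) (nat_lit 0) (XT.nd (nat_lit 78) (nat_lit 228) (nat_lit 0) (XT.lf (nat_lit 228)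 (nat_lit 738892399) (nat_lit 0) (nat_lit 1635218168) (nat_lit 152) (nat_lit 1635218168) (nat_lit 158) (nat_lit 1) (nat_lit 155) (nat_lit 1) (nat_lit 157) (nat_lit 1) (nat_lit 357) (nat_lit 377) (nat_lit 286)) (XT.lf (nat_lit 228) (nat_lit 3547687844) (nat_lit 0) (nat_lit 210065799) (nat_lit 152) (nat_lit 210065799) (nat_lit 155) (nat_lit 1) (nat_lit 152) (nat_lit 1) (nat_lit 154) (nat_lit 1) (nat_lit 358) (nat_lit 377) (nat_lit 285))) (XT.nd (nat_lit 78) (nat_lit 152) (nat_lit 0) (XT.lf (nat_lit 76) (nat_lit 1180393771) (nat_lit 0) (nat_lit 1565501666) (nat_lit 228) (nat_lit 1180393771) (nat_lit 153) (nat_lit 1) (nat_lit 152) (nat_lit 1) (nat_lit 155) (nat_lit 1) (nat_lit 359) (nat_lit 377) (nat_lit 284)) (XT.lf (nat_lit 228) (nat_lit 1193109097) (nat_lit 0) (nat_lit 1346206232) (nat_lit 152) (nat_lit 1346206232) (nat_lit 153) (nat_lit 1) (nat_lit 150) (nat_lit 1) (nat_lit 152) (nat_lit 1) (nat_lit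 360) (nat_lit 377) (nat_lit 283)))) (XT.nd (nat_lit 156) (nat_lit 304) (nat_lit 0) (XT.nd (nat_lit 78) (nat_lit 152) (nat_lit 0) (XT.lf (nat_lit 76) (nat_lit 23813870) (nat_lit 0) (nat_lit 3797969514) (nat_lit 228) (nat_lit 23813870) (nat_lit 151) (nat_lit 1) (nat_lit 150) (nat_lit 1) (nat_lit 153) (nat_lit 1) (nat_lit 361) (nat_lit 377) (nat_lit 282)) (XT.lf (nat_lit 76) (nat_lit 1362603558) (nat_lit 0) (nat_lit 1080226449) (nat_lit 152) (nat_lit 1362603558) (nat_lit 149) (nat_lit 1) (nat_lit 148) (nat_lit 1) (nat_lit 150) (nat_lit 1) (nat_lit 362) (nat_lit 377) (nat_lit 281))) (XT.nd (nat_lit 78) (nat_lit 152) (nat_lit 0) (XT.lf (nat_lit 228) (nat_lit 1581045251) (nat_lit 0) (nat_lit 1092529587) (nat_lit 152) (nat_lit 1092529587) (nat_lit 149) (nat_lit 1) (nat_lit 146) (nat_lit 1) (nat_lit 148) (nat_lit 1) (nat_lit 363) (nat_lit 377) (nat_lit 280)) (XT.nd (nat_lit 78) (nat_lit 152) (nat_lit 0) (XT.lf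 (nat_lit 76) (nat_lit 227277287) (nat_lit 0) (nat_lit 3272910282) (nat_lit 228) (nat_lit 227277287) (nat_lit 147) (nat_lit 1) (nat_lit 146) (nat_lit 1) (nat_lit 149) (nat_lit 1) (nat_lit 364) (nat_lit 377) (nat_lit 279)) (XT.lf (nat_lit 76) (nat_lit 1515353652) (nat_lit 0) (nat_lit 658115262) (nat_lit 152) (nat_lit 1515353652) (nat_lit 145) (nat_lit 1) (nat_lit 144) (nat_lit 1) (nat_lit 146) (nat_lit 1) (nat_lit 365) (nat_lit 377) (nat_lit 278)))))) (XT.nd (nat_lit 390) (nat_lit 608) (nat_lit 0) (XT.nd (nat_lit 156) (nat_lit 304) (nat_lit 0) (XT.nd (nat_lit 78) (nat_lit 0) (nat_lit 0) (XT.lf (nat_lit 228) (nat_lit 1910547229) (nat_lit 0) (nat_lit 870157404) (nat_lit 152) (nat_lit 870157404) (nat_lit 145) (nat_lit 1) (nat_lit 142) (nat_lit 1) (nat_lit 144) (nat_lit 1) (nat_lit 366) (nat_lit 377) (nat_lit 277)) (XT.lf (nat_lit 76) (nat_lit 402048433) (nat_lit 0) (nat_lit 2809359327) (nat_lit 228) (nat_lit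 402048433) (nat_lit 143) (nat_lit 1) (nat_lit 142) (nat_lit 1) (nat_lit 145) (nat_lit 1) (nat_lit 367) (nat_lit 377) (nat_lit 276))) (XT.nd (nat_lit 78) (nat_lit 152) (nat_lit 0) (XT.lf (nat_lit 76) (nat_lit 1642195432) (nat_lit 0) (nat_lit 291860919) (nat_lit 152) (nat_lit 1642195432) (nat_lit 141) (nat_lit 1) (nat_lit 140) (nat_lit 1) (nat_lit 142) (nat_lit 1) (nat_lit 368) (nat_lit 377) (nat_lit 275)) (XT.nd (nat_lit 78) (nat_lit 0) (nat_lit 0) (XT.lf (nat_lit 228) (nat_lit 2188573168) (nat_lit 0) (nat_lit 675510977) (nat_lit 152) (nat_lit 675510977) (nat_lit 141) (nat_lit 1) (nat_lit 138) (nat_lit 1) (nat_lit 140) (nat_lit 1) (nat_lit 369) (nat_lit 377) (nat_lit 274)) (XT.lf (nat_lit 76) (nat_lit 551501725) (nat_lit 0) (nat_lit 2400371543) (nat_lit 228) (nat_lit 551501725) (nat_lit 139) (nat_lit 1) (nat_lit 138) (nat_lit 1) (nat_lit 141) (nat_lit 1) (nat_lit 370) (nat_lit 377) (nat_lit 273)))))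 (XT.nd (nat_lit 156) (nat_lit 304) (nat_lit 0) (XT.nd (nat_lit 78) (nat_lit 228) (nat_lit 0) (XT.lf (nat_lit 152) (nat_lit 25519215) (nat_lit 0) (nat_lit 1721002588) (nat_lit 76) (nat_lit 1721002588) (nat_lit 139) (nat_lit 1) (nat_lit 137) (nat_lit 1) (nat_lit 138) (nat_lit 1) (nat_lit 371) (nat_lit 377) (nat_lit 272)) (XT.lf (nat_lit 228) (nat_lit 2421292409) (nat_lit 0) (nat_lit 505413233) (nat_lit 152) (nat_lit 505413233) (nat_lit 137) (nat_lit 1) (nat_lit 134) (nat_lit 1) (nat_lit 136) (nat_lit 1) (nat_lit 372) (nat_lit 377) (nat_lit 271))) (XT.nd (nat_lit 78) (nat_lit 304) (nat_lit 0) (XT.lf (nat_lit 76) (nat_lit 678630198) (nat_lit 0) (nat_lit 2039778800) (nat_lit 228) (nat_lit 678630198) (nat_lit 135) (nat_lit 1) (nat_lit 134) (nat_lit 1) (nat_lit 137) (nat_lit 1) (nat_lit 373) (nat_lit 377) (nat_lit 270)) (XT.nd (nat_lit 78) (nat_lit 228) (nat_lit 0) (XT.lf (nat_lit 152) (nat_lit 304221776)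 (nat_lit 0) (nat_lit 1529088509) (nat_lit 76) (nat_lit 1529088509) (nat_lit 135) (nat_lit 1) (nat_lit 133) (nat_lit 1) (nat_lit 134) (nat_lit 1) (nat_lit 374) (nat_lit 377) (nat_lit 269)) (XT.lf (nat_lit 228) (nat_lit 2614173834) (nat_lit 0) (nat_lit 357043868) (nat_lit 152) (nat_lit 357043868) (nat_lit 133) (nat_lit 1) (nat_lit 130) (nat_lit 1) (nat_lit 132) (nat_lit 1) (nat_lit 375) (nat_lit 377) (nat_lit 268))))))))
noncomputable def ec191 : XT := (XT.nd (nat_lit 1482) (nat_lit 1444) (nat_lit 0) (XT.nd (nat_lit 702) (nat_lit 684) (nat_lit 0) (XT.nd (nat_lit 312) (nat_lit 608) (nat_lit 0) (XT.nd (nat_lit 156) (nat_lit 228) (nat_lit 0) (XT.nd (nat_lit 78) (nat_lit 76) (nat_lit 0) (XT.lf (nat_lit 76) (nat_lit 786088178) (nat_lit 0) (nat_lit 1722103233) (nat_lit 228) (nat_lit 786088178) (nat_lit 131) (nat_lit 1) (nat_lit 130) (nat_lit 1) (nat_lit 133) (nat_lit 1) (nat_lit 376) (nat_lit 377) (nat_lit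 267)) (XT.lf (nat_lit 152) (nat_lit 543644956) (nat_lit 0) (nat_lit 1358575335) (nat_lit 76) (nat_lit 1358575335) (nat_lit 131) (nat_lit 1) (nat_lit 129) (nat_lit 1) (nat_lit 130) (nat_lit 1) (nat_lit 377) (nat_lit 377) (nat_lit 266))) (XT.nd (nat_lit 78) (nat_lit 0) (nat_lit 0) (XT.lf (nat_lit 228) (nat_lit 2772064339) (nat_lit 0) (nat_lit 227899490) (nat_lit 152) (nat_lit 227899490) (nat_lit 129) (nat_lit 1) (nat_lit 126) (nat_lit 1) (nat_lit 128) (nat_lit 1) (nat_lit 378) (nat_lit 377) (nat_lit 265)) (XT.lf (nat_lit 76) (nat_lit 876229201) (nat_lit 0) (nat_lit 1442480193) (nat_lit 228) (nat_lit 876229201) (nat_lit 127) (nat_lit 1) (nat_lit 126) (nat_lit 1) (nat_lit 129) (nat_lit 1) (nat_lit 379) (nat_lit 377) (nat_lit 264)))) (XT.nd (nat_lit 156) (nat_lit 304) (nat_lit 0) (XT.nd (nat_lit 78) (nat_lit 228) (nat_lit 0) (XT.lf (nat_lit 152) (nat_lit 748407762) (nat_lit 0) (nat_lit 1207076589) (nat_lit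 76) (nat_lit 1207076589) (nat_lit 127) (nat_lit 1) (nat_lit 125) (nat_lit 1) (nat_lit 126) (nat_lit 1) (nat_lit 380) (nat_lit 377) (nat_lit 263)) (XT.lf (nat_lit 228) (nat_lit 2899258549) (nat_lit 0) (nat_lit 115758209) (nat_lit 152) (nat_lit 115758209) (nat_lit 125) (nat_lit 1) (nat_lit 122) (nat_lit 1) (nat_lit 124) (nat_lit 1) (nat_lit 381) (nat_lit 377) (nat_lit 262))) (XT.nd (nat_lit 78) (nat_lit 304) (nat_lit 0) (XT.lf (nat_lit 76) (nat_lit 951139690) (nat_lit 0) (nat_lit 1196589799) (nat_lit 228) (nat_lit 951139690) (nat_lit 123) (nat_lit 1) (nat_lit 122) (nat_lit 1) (nat_lit 125) (nat_lit 1) (nat_lit 382) (nat_lit 377) (nat_lit 261)) (XT.nd (nat_lit 78) (nat_lit 228) (nat_lit 0) (XT.lf (nat_lit 152) (nat_lit 922607167) (nat_lit 0) (nat_lit 1072471915) (nat_lit 76) (nat_lit 1072471915) (nat_lit 123) (nat_lit 1) (nat_lit 121) (nat_lit 1) (nat_lit 122) (nat_lit 1) (nat_lit 383) (nat_lit 377) (nat_lit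 260)) (XT.lf (nat_lit 228) (nat_lit 2999560745) (nat_lit 0) (nat_lit 18648178) (nat_lit 152) (nat_lit 18648178) (nat_lit 121) (nat_lit 1) (nat_lit 118) (nat_lit 1) (nat_lit 120) (nat_lit 1) (nat_lit 384) (nat_lit 377) (nat_lit 259)))))) (XT.nd (nat_lit 390) (nat_lit 380) (nat_lit 0) (XT.nd (nat_lit 156) (nat_lit 228) (nat_lit 0) (XT.nd (nat_lit 78) (nat_lit 76) (nat_lit 0) (XT.lf (nat_lit 76) (nat_lit 1012668882) (nat_lit 0) (nat_lit 980596121) (nat_lit 228) (nat_lit 1012668882) (nat_lit 119) (nat_lit 1) (nat_lit 118) (nat_lit 1) (nat_lit 121) (nat_lit 1) (nat_lit 385) (nat_lit 377) (nat_lit 258)) (XT.lf (nat_lit 152) (nat_lit 1069876522) (nat_lit 0) (nat_lit 952877406) (nat_lit 76) (nat_lit 952877406) (nat_lit 119) (nat_lit 1) (nat_lit 117) (nat_lit 1) (nat_lit 118) (nat_lit 1) (nat_lit 386) (nat_lit 377) (nat_lit 257))) (XT.nd (nat_lit 78) (nat_lit 228) (nat_lit 0) (XT.lf (nat_lit 0) (nat_lit 65825705)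 (nat_lit 0) (nat_lit 2814251441) (nat_lit 152) (nat_lit 65825705) (nat_lit 117) (nat_lit 3) (nat_lit 117) (nat_lit 1) (nat_lit 119) (nat_lit 1) (nat_lit 387) (nat_lit 377) (nat_lit 256)) (XT.nd (nat_lit 78) (nat_lit 76) (nat_lit 0) (XT.lf (nat_lit 76) (nat_lit 1062455405) (nat_lit 0) (nat_lit 791093150) (nat_lit 152) (nat_lit 1062455405) (nat_lit 116) (nat_lit 1) (nat_lit 115) (nat_lit 1) (nat_lit 117) (nat_lit 1) (nat_lit 388) (nat_lit 377) (nat_lit 255)) (XT.lf (nat_lit 152) (nat_lit 1193437455) (nat_lit 0) (nat_lit 846619233) (nat_lit 76) (nat_lit 846619233) (nat_lit 116) (nat_lit 1) (nat_lit 114) (nat_lit 1) (nat_lit 115) (nat_lit 1) (nat_lit 389) (nat_lit 377) (nat_lit 254))))) (XT.nd (nat_lit 156) (nat_lit 228) (nat_lit 0) (XT.nd (nat_lit 78) (nat_lit 152) (nat_lit 0) (XT.lf (nat_lit 0) (nat_lit 138639089) (nat_lit 0) (nat_lit 2580579757) (nat_lit 152) (nat_lit 138639089) (nat_lit 114) (nat_lit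 3) (nat_lit 114) (nat_lit 1) (nat_lit 116) (nat_lit 1) (nat_lit 390) (nat_lit 377) (nat_lit 253)) (XT.lf (nat_lit 76) (nat_lit 1101950895) (nat_lit 0) (nat_lit 625056791) (nat_lit 152) (nat_lit 1101950895) (nat_lit 113) (nat_lit 1) (nat_lit 112) (nat_lit 1) (nat_lit 114) (nat_lit 1) (nat_lit 391) (nat_lit 377) (nat_lit 252))) (XT.nd (nat_lit 78) (nat_lit 152) (nat_lit 0) (XT.lf (nat_lit 152) (nat_lit 1296145977) (nat_lit 0) (nat_lit 752210223) (nat_lit 76) (nat_lit 752210223) (nat_lit 113) (nat_lit 1) (nat_lit 111) (nat_lit 1) (nat_lit 112) (nat_lit 1) (nat_lit 392) (nat_lit 377) (nat_lit 251)) (XT.nd (nat_lit 78) (nat_lit 152) (nat_lit 0) (XT.lf (nat_lit 0) (nat_lit 200998261) (nat_lit 0) (nat_lit 2370630917) (nat_lit 152) (nat_lit 200998261) (nat_lit 111) (nat_lit 3) (nat_lit 111) (nat_lit 1) (nat_lit 113) (nat_lit 1) (nat_lit 393) (nat_lit 377) (nat_lit 250)) (XT.lf (nat_lit 76) (nat_lit 1132440971)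 (nat_lit 0) (nat_lit 479802216) (nat_lit 152) (nat_lit 1132440971) (nat_lit 110) (nat_lit 1) (nat_lit 109) (nat_lit 1) (nat_lit 111) (nat_lit 1) (nat_lit 394) (nat_lit 377) (nat_lit 249))))))) (XT.nd (nat_lit 702) (nat_lit 760) (nat_lit 0) (XT.nd (nat_lit 312) (nat_lit 380) (nat_lit 0) (XT.nd (nat_lit 156) (nat_lit 228) (nat_lit 0) (XT.nd (nat_lit 78) (nat_lit 0) (nat_lit 0) (XT.lf (nat_lit 152) (nat_lit 1380533432) (nat_lit 0) (nat_lit 668329040) (nat_lit 76) (nat_lit 668329040) (nat_lit 110) (nat_lit 1) (nat_lit 108) (nat_lit 1) (nat_lit 109) (nat_lit 1) (nat_lit 395) (nat_lit 377) (nat_lit 248)) (XT.lf (nat_lit 0) (nat_lit 254136999) (nat_lit 0) (nat_lit 2181827511) (nat_lit 152) (nat_lit 254136999) (nat_lit 108) (nat_lit 3) (nat_lit 108) (nat_lit 1) (nat_lit 110) (nat_lit 1) (nat_lit 396) (nat_lit 377) (nat_lit 247))) (XT.nd (nat_lit 78) (nat_lit 76) (nat_lit 0) (XT.lf (nat_lit 76) (nat_lit 1155063866)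 (nat_lit 0) (nat_lit 352945970) (nat_lit 152) (nat_lit 1155063866) (nat_lit 107) (nat_lit 1) (nat_lit 106) (nat_lit 1) (nat_lit 108) (nat_lit 1) (nat_lit 397) (nat_lit 377) (nat_lit 246)) (XT.lf (nat_lit 152) (nat_lit 1448842889) (nat_lit 0) (nat_lit 593801696) (nat_lit 76) (nat_lit 593801696) (nat_lit 107) (nat_lit 1) (nat_lit 105) (nat_lit 1) (nat_lit 106) (nat_lit 1) (nat_lit 398) (nat_lit 377) (nat_lit 245)))) (XT.nd (nat_lit 156) (nat_lit 228) (nat_lit 0) (XT.nd (nat_lit 78) (nat_lit 152) (nat_lit 0) (XT.lf (nat_lit 0) (nat_lit 299149516) (nat_lit 0) (nat_lit 2011877569) (nat_lit 152) (nat_lit 299149516) (nat_lit 105) (nat_lit 3) (nat_lit 105) (nat_lit 1) (nat_lit 107) (nat_lit 1) (nat_lit 399) (nat_lit 377) (nat_lit 244)) (XT.lf (nat_lit 76) (nat_lit 1170826984) (nat_lit 0) (nat_lit 242372307) (nat_lit 152) (nat_lit 1170826984) (nat_lit 104) (nat_lit 1) (nat_lit 103) (nat_lit 1) (nat_lit 105)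 (nat_lit 1) (nat_lit 400) (nat_lit 377) (nat_lit 243))) (XT.nd (nat_lit 78) (nat_lit 152) (nat_lit 0) (XT.lf (nat_lit 152) (nat_lit 1503061457) (nat_lit 0) (nat_lit 527585116) (nat_lit 76) (nat_lit 527585116) (nat_lit 104) (nat_lit 1) (nat_lit 102) (nat_lit 1) (nat_lit 103) (nat_lit 1) (nat_lit 401) (nat_lit 377) (nat_lit 242)) (XT.nd (nat_lit 78) (nat_lit 152) (nat_lit 0) (XT.lf (nat_lit 0) (nat_lit 337006086) (nat_lit 0) (nat_lit 1858742778) (nat_lit 152) (nat_lit 337006086) (nat_lit 102) (nat_lit 3) (nat_lit 102) (nat_lit 1) (nat_lit 104) (nat_lit 1) (nat_lit 402) (nat_lit 377) (nat_lit 241)) (XT.lf (nat_lit 76) (nat_lit 1180621601) (nat_lit 0) (nat_lit 146203281) (nat_lit 152) (nat_lit 1180621601) (nat_lit 101) (nat_lit 1) (nat_lit 100) (nat_lit 1) (nat_lit 102) (nat_lit 1) (nat_lit 403) (nat_lit 377) (nat_lit 240)))))) (XT.nd (nat_lit 390) (nat_lit 456) (nat_lit 0) (XT.nd (nat_lit 156) (nat_lit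 228) (nat_lit 0) (XT.nd (nat_lit 78) (nat_lit 0) (nat_lit 0) (XT.lf (nat_lit 152) (nat_lit 1544949001) (nat_lit 0) (nat_lit 468752542) (nat_lit 76) (nat_lit 468752542) (nat_lit 101) (nat_lit 1) (nat_lit 99) (nat_lit 1) (nat_lit 100) (nat_lit 1) (nat_lit 404) (nat_lit 377) (nat_lit 239)) (XT.lf (nat_lit 0) (nat_lit 368566917) (nat_lit 0) (nat_lit 1720610258) (nat_lit 152) (nat_lit 368566917) (nat_lit 99) (nat_lit 3) (nat_lit 99) (nat_lit 1) (nat_lit 101) (nat_lit 1) (nat_lit 405) (nat_lit 377) (nat_lit 238))) (XT.nd (nat_lit 78) (nat_lit 76) (nat_lit 0) (XT.lf (nat_lit 76) (nat_lit 1185235924) (nat_lit 0) (nat_lit 62772174) (nat_lit 152) (nat_lit 1185235924) (nat_lit 98) (nat_lit 1) (nat_lit 97) (nat_lit 1) (nat_lit 99) (nat_lit 1) (nat_lit 406) (nat_lit 377) (nat_lit 237)) (XT.nd (nat_lit 78) (nat_lit 0) (nat_lit 0) (XT.lf (nat_lit 152) (nat_lit 1576063648) (nat_lit 0) (nat_lit 416480562) (nat_lit 76)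 (nat_lit 416480562) (nat_lit 98) (nat_lit 1) (nat_lit 96) (nat_lit 1) (nat_lit 97) (nat_lit 1) (nat_lit 407) (nat_lit 377) (nat_lit 236)) (XT.lf (nat_lit 0) (nat_lit 394594480) (nat_lit 0) (nat_lit 1595867477) (nat_lit 152) (nat_lit 394594480) (nat_lit 96) (nat_lit 3) (nat_lit 96) (nat_lit 1) (nat_lit 98) (nat_lit 1) (nat_lit 408) (nat_lit 377) (nat_lit 235))))) (XT.nd (nat_lit 156) (nat_lit 228) (nat_lit 0) (XT.nd (nat_lit 78) (nat_lit 152) (nat_lit 0) (XT.lf (nat_lit 76) (nat_lit 9587193) (nat_lit 0) (nat_lit 1175871656) (nat_lit 76) (nat_lit 1175871656) (nat_lit 96) (nat_lit 3) (nat_lit 95) (nat_lit 1) (nat_lit 96) (nat_lit 1) (nat_lit 409) (nat_lit 377) (nat_lit 234)) (XT.lf (nat_lit 152) (nat_lit 1597784439) (nat_lit 0) (nat_lit 370037585) (nat_lit 76) (nat_lit 370037585) (nat_lit 95) (nat_lit 1) (nat_lit 93) (nat_lit 1) (nat_lit 94) (nat_lit 1) (nat_lit 410) (nat_lit 377) (nat_lit 233))) (XT.nd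 (nat_lit 78) (nat_lit 228) (nat_lit 0) (XT.lf (nat_lit 0) (nat_lit 415764461) (nat_lit 0) (nat_lit 1483079960) (nat_lit 152) (nat_lit 415764461) (nat_lit 93) (nat_lit 3) (nat_lit 93) (nat_lit 1) (nat_lit 95) (nat_lit 1) (nat_lit 411) (nat_lit 377) (nat_lit 232)) (XT.nd (nat_lit 78) (nat_lit 152) (nat_lit 0) (XT.lf (nat_lit 76) (nat_lit 73051529) (nat_lit 0) (nat_lit 1109280168) (nat_lit 76) (nat_lit 1109280168) (nat_lit 93) (nat_lit 3) (nat_lit 92) (nat_lit 1) (nat_lit 93) (nat_lit 1) (nat_lit 412) (nat_lit 377) (nat_lit 231)) (XT.lf (nat_lit 152) (nat_lit 1611331461) (nat_lit 0) (nat_lit 328773602) (nat_lit 76) (nat_lit 328773602) (nat_lit 92) (nat_lit 1) (nat_lit 90) (nat_lit 1) (nat_lit 91) (nat_lit 1) (nat_lit 413) (nat_lit 377) (nat_lit 230))))))))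
noncomputable def ec192 : XT := (XT.nd (nat_lit 1404) (nat_lit 0) (nat_lit 0) (XT.nd (nat_lit 702) (nat_lit 684) (nat_lit 0) (XT.nd (nat_lit 312) (nat_lit 456) (nat_lit 0) (XT.nd (nat_lit 156) (nat_lit 152) (nat_lit 0) (XT.nd (nat_lit 78) (nat_lit 76) (nat_lit 0) (XT.lf (nat_lit 0) (nat_lit 432675491) (nat_lit 0) (nat_lit 1380971487) (nat_lit 152) (nat_lit 432675491) (nat_lit 90) (nat_lit 3) (nat_lit 90) (nat_lit 1) (nat_lit 92) (nat_lit 1) (nat_lit 414) (nat_lit 377) (nat_lit 229)) (XT.lf (nat_lit 76) (nat_lit 127559154) (nat_lit 0) (nat_lit 1048234879) (nat_lit 76) (nat_lit 1048234879) (nat_lit 90) (nat_lit 3) (nat_lit 89) (nat_lit 1) (nat_lit 90) (nat_lit 1) (nat_lit 415) (nat_lit 377) (nat_lit 228))) (XT.nd (nat_lit 78) (nat_lit 0) (nat_lit 0) (XT.lf (nat_lit 152) (nat_lit 1617783716) (nat_lit 0) (nat_lit 292111087) (nat_lit 76) (nat_lit 292111087) (nat_lit 89) (nat_lit 1) (nat_lit 87) (nat_lit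 1) (nat_lit 88) (nat_lit 1) (nat_lit 416) (nat_lit 377) (nat_lit 227)) (XT.lf (nat_lit 0) (nat_lit 445857785) (nat_lit 0) (nat_lit 1288406496) (nat_lit 152) (nat_lit 445857785) (nat_lit 87) (nat_lit 3) (nat_lit 87) (nat_lit 1) (nat_lit 89) (nat_lit 1) (nat_lit 417) (nat_lit 377) (nat_lit 226)))) (XT.nd (nat_lit 156) (nat_lit 228) (nat_lit 0) (XT.nd (nat_lit 78) (nat_lit 152) (nat_lit 0) (XT.lf (nat_lit 76) (nat_lit 174163605) (nat_lit 0) (nat_lit 992172062) (nat_lit 76) (nat_lit 992172062) (nat_lit 87) (nat_lit 3) (nat_lit 86) (nat_lit 1) (nat_lit 87) (nat_lit 1) (nat_lit 418) (nat_lit 377) (nat_lit 225)) (XT.lf (nat_lit 152) (nat_lit 1618095008) (nat_lit 0) (nat_lit 259536917) (nat_lit 76) (nat_lit 259536917) (nat_lit 86) (nat_lit 1) (nat_lit 84) (nat_lit 1) (nat_lit 85) (nat_lit 1) (nat_lit 419) (nat_lit 377) (nat_lit 224))) (XT.nd (nat_lit 78) (nat_lit 228) (nat_lit 0) (XT.lf (nat_lit 0) (nat_lit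 455780824) (nat_lit 0) (nat_lit 1204374441) (nat_lit 152) (nat_lit 455780824) (nat_lit 84) (nat_lit 3) (nat_lit 84) (nat_lit 1) (nat_lit 86) (nat_lit 1) (nat_lit 420) (nat_lit 377) (nat_lit 223)) (XT.nd (nat_lit 78) (nat_lit 152) (nat_lit 0) (XT.lf (nat_lit 76) (nat_lit 213799340) (nat_lit 0) (nat_lit 940589259) (nat_lit 76) (nat_lit 940589259) (nat_lit 84) (nat_lit 3) (nat_lit 83) (nat_lit 1) (nat_lit 84) (nat_lit 1) (nat_lit 421) (nat_lit 377) (nat_lit 222)) (XT.lf (nat_lit 152) (nat_lit 1613108039) (nat_lit 0) (nat_lit 230595189) (nat_lit 76) (nat_lit 230595189) (nat_lit 83) (nat_lit 1) (nat_lit 81) (nat_lit 1) (nat_lit 82) (nat_lit 1) (nat_lit 422) (nat_lit 377) (nat_lit 221)))))) (XT.nd (nat_lit 312) (nat_lit 456) (nat_lit 0) (XT.nd (nat_lit 156) (nat_lit 152) (nat_lit 0) (XT.nd (nat_lit 78) (nat_lit 76) (nat_lit 0) (XT.lf (nat_lit 0) (nat_lit 462860172) (nat_lit 0) (nat_lit 1127975904) (nat_lit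 152) (nat_lit 462860172) (nat_lit 81) (nat_lit 3) (nat_lit 81) (nat_lit 1) (nat_lit 83) (nat_lit 1) (nat_lit 423) (nat_lit 377) (nat_lit 220)) (XT.lf (nat_lit 76) (nat_lit 247295062) (nat_lit 0) (nat_lit 893038492) (nat_lit 76) (nat_lit 893038492) (nat_lit 81) (nat_lit 3) (nat_lit 80) (nat_lit 1) (nat_lit 81) (nat_lit 1) (nat_lit 424) (nat_lit 377) (nat_lit 219))) (XT.nd (nat_lit 78) (nat_lit 0) (nat_lit 0) (XT.lf (nat_lit 152) (nat_lit 1603566942) (nat_lit 0) (nat_lit 204880839) (nat_lit 76) (nat_lit 204880839) (nat_lit 80) (nat_lit 1) (nat_lit 78) (nat_lit 1) (nat_lit 79) (nat_lit 1) (nat_lit 425) (nat_lit 377) (nat_lit 218)) (XT.lf (nat_lit 0) (nat_lit 467463532) (nat_lit 0) (nat_lit 1058410246) (nat_lit 152) (nat_lit 467463532) (nat_lit 78) (nat_lit 3) (nat_lit 78) (nat_lit 1) (nat_lit 80) (nat_lit 1) (nat_lit 426) (nat_lit 377) (nat_lit 217)))) (XT.nd (nat_lit 156) (nat_lit 228) (nat_lit 0) (XT.nd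 (nat_lit 78) (nat_lit 152) (nat_lit 0) (XT.lf (nat_lit 76) (nat_lit 275385565) (nat_lit 0) (nat_lit 849120239) (nat_lit 76) (nat_lit 849120239) (nat_lit 78) (nat_lit 3) (nat_lit 77) (nat_lit 1) (nat_lit 78) (nat_lit 1) (nat_lit 427) (nat_lit 377) (nat_lit 216)) (XT.lf (nat_lit 152) (nat_lit 1590128402) (nat_lit 0) (nat_lit 182033972) (nat_lit 76) (nat_lit 182033972) (nat_lit 77) (nat_lit 1) (nat_lit 75) (nat_lit 1) (nat_lit 76) (nat_lit 1) (nat_lit 428) (nat_lit 377) (nat_lit 215))) (XT.nd (nat_lit 78) (nat_lit 228) (nat_lit 0) (XT.lf (nat_lit 0) (nat_lit 469916133) (nat_lit 0) (nat_lit 994964634) (nat_lit 152) (nat_lit 469916133) (nat_lit 75) (nat_lit 3) (nat_lit 75) (nat_lit 1) (nat_lit 77) (nat_lit 1) (nat_lit 429) (nat_lit 377) (nat_lit 214)) (XT.nd (nat_lit 78) (nat_lit 152) (nat_lit 0) (XT.lf (nat_lit 76) (nat_lit 298722241) (nat_lit 0) (nat_lit 808478067) (nat_lit 76) (nat_lit 808478067) (nat_lit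 75) (nat_lit 3) (nat_lit 74) (nat_lit 1) (nat_lit 75) (nat_lit 1) (nat_lit 430) (nat_lit 377) (nat_lit 213)) (XT.lf (nat_lit 152) (nat_lit 1573371542) (nat_lit 0) (nat_lit 161734826) (nat_lit 76) (nat_lit 161734826) (nat_lit 74) (nat_lit 1) (nat_lit 72) (nat_lit 1) (nat_lit 73) (nat_lit 1) (nat_lit 431) (nat_lit 377) (nat_lit 212))))))) (XT.nd (nat_lit 40638) (nat_lit 0) (nat_lit 22116) (XT.nd (nat_lit 40248) (nat_lit 0) (nat_lit 23028) (XT.nd (nat_lit 40092) (nat_lit 0) (nat_lit 22952) (XT.nd (nat_lit 40014) (nat_lit 0) (nat_lit 22952) (XT.lf (nat_lit 0) (nat_lit 470505504) (nat_lit 0) (nat_lit 937004297) (nat_lit 152) (nat_lit 470505504) (nat_lit 72) (nat_lit 3) (nat_lit 72) (nat_lit 1) (nat_lit 74) (nat_lit 1) (nat_lit 432) (nat_lit 377) (nat_lit 211)) (XT.lf (nat_lit 1292) (nat_lit 1146777639) (nat_lit 0) (nat_lit 3945448409) (nat_lit 1292) (nat_lit 1146777639) (nat_lit 391) (nat_lit 1) (nat_lit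 374) (nat_lit 0) (nat_lit 391) (nat_lit 0) (nat_lit 264) (nat_lit 378) (nat_lit 378))) (XT.nd (nat_lit 78) (nat_lit 0) (nat_lit 76) (XT.lf (nat_lit 1292) (nat_lit 4481627109) (nat_lit 76) (nat_lit 3906767543) (nat_lit 0) (nat_lit 3906767543) (nat_lit 391) (nat_lit 1) (nat_lit 375) (nat_lit 1) (nat_lit 374) (nat_lit 0) (nat_lit 265) (nat_lit 378) (nat_lit 377)) (XT.lf (nat_lit 1292) (nat_lit 2167421724) (nat_lit 0) (nat_lit 7781506748) (nat_lit 1216) (nat_lit 2167421724) (nat_lit 392) (nat_lit 1) (nat_lit 375) (nat_lit 1) (nat_lit 391) (nat_lit 1) (nat_lit 266) (nat_lit 378) (nat_lit 376)))) (XT.nd (nat_lit 156) (nat_lit 0) (nat_lit 76) (XT.nd (nat_lit 78) (nat_lit 0) (nat_lit 76) (XT.lf (nat_lit 1292) (nat_lit 4116045760) (nat_lit 76) (nat_lit 3912239269) (nat_lit 0) (nat_lit 3912239269) (nat_lit 392) (nat_lit 1) (nat_lit 376) (nat_lit 1) (nat_lit 375) (nat_lit 1) (nat_lit 267) (nat_lit 378) (nat_lit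 375)) (XT.lf (nat_lit 1292) (nat_lit 1931433945) (nat_lit 0) (nat_lit 7905764673) (nat_lit 1216) (nat_lit 1931433945) (nat_lit 393) (nat_lit 1) (nat_lit 376) (nat_lit 1) (nat_lit 392) (nat_lit 1) (nat_lit 268) (nat_lit 378) (nat_lit 374))) (XT.nd (nat_lit 78) (nat_lit 0) (nat_lit 76) (XT.lf (nat_lit 1292) (nat_lit 3539556636) (nat_lit 76) (nat_lit 4029966623) (nat_lit 0) (nat_lit 4029966623) (nat_lit 393) (nat_lit 1) (nat_lit 377) (nat_lit 1) (nat_lit 376) (nat_lit 1) (nat_lit 269) (nat_lit 378) (nat_lit 373)) (XT.nd (nat_lit 78) (nat_lit 0) (nat_lit 0) (XT.lf (nat_lit 1292) (nat_lit 1595308550) (nat_lit 0) (nat_lit 8243635858) (nat_lit 1216) (nat_lit 1595308550) (nat_lit 394) (nat_lit 1) (nat_lit 377) (nat_lit 1) (nat_lit 393) (nat_lit 1) (nat_lit 270) (nat_lit 378) (nat_lit 372)) (XT.lf (nat_lit 1292) (nat_lit 2771020892) (nat_lit 76) (nat_lit 4250226944) (nat_lit 0) (nat_lit 4250226944) (nat_lit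 394) (nat_lit 1) (nat_lit 378) (nat_lit 1) (nat_lit 377) (nat_lit 1) (nat_lit 271) (nat_lit 378) (nat_lit 371)))))) (XT.nd (nat_lit 390) (nat_lit 1140) (nat_lit 0) (XT.nd (nat_lit 156) (nat_lit 0) (nat_lit 76) (XT.nd (nat_lit 78) (nat_lit 0) (nat_lit 0) (XT.lf (nat_lit 1292) (nat_lit 1168105041) (nat_lit 0) (nat_lit 8776428529) (nat_lit 1216) (nat_lit 1168105041) (nat_lit 395) (nat_lit 1) (nat_lit 378) (nat_lit 1) (nat_lit 394) (nat_lit 1) (nat_lit 272) (nat_lit 378) (nat_lit 370)) (XT.lf (nat_lit 1292) (nat_lit 1828020248) (nat_lit 76) (nat_lit 4563951185) (nat_lit 0) (nat_lit 4563951185) (nat_lit 395) (nat_lit 1) (nat_lit 379) (nat_lit 1) (nat_lit 378) (nat_lit 1) (nat_lit 273) (nat_lit 378) (nat_lit 369))) (XT.nd (nat_lit 78) (nat_lit 0) (nat_lit 0) (XT.lf (nat_lit 1292) (nat_lit 658266424) (nat_lit 0) (nat_lit 9486711161) (nat_lit 1216) (nat_lit 658266424) (nat_lit 396) (nat_lit 1) (nat_lit 379)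 (nat_lit 1) (nat_lit 395) (nat_lit 1) (nat_lit 274) (nat_lit 378) (nat_lit 368)) (XT.nd (nat_lit 78) (nat_lit 0) (nat_lit 76) (XT.lf (nat_lit 1292) (nat_lit 726936169) (nat_lit 76) (nat_lit 4962683620) (nat_lit 0) (nat_lit 4962683620) (nat_lit 396) (nat_lit 1) (nat_lit 380) (nat_lit 1) (nat_lit 379) (nat_lit 1) (nat_lit 275) (nat_lit 378) (nat_lit 367)) (XT.lf (nat_lit 1292) (nat_lit 73657410) (nat_lit 0) (nat_lit 10358234683) (nat_lit 1216) (nat_lit 73657410) (nat_lit 397) (nat_lit 1) (nat_lit 380) (nat_lit 1) (nat_lit 396) (nat_lit 1) (nat_lit 276) (nat_lit 378) (nat_lit 366))))) (XT.nd (nat_lit 156) (nat_lit 0) (nat_lit 76) (XT.nd (nat_lit 78) (nat_lit 0) (nat_lit 0) (XT.lf (nat_lit 1368) (nat_lit 4926537738) (nat_lit 0) (nat_lit 506887616) (nat_lit 1292) (nat_lit 4926537738) (nat_lit 381) (nat_lit 1) (nat_lit 363) (nat_lit 1) (nat_lit 380) (nat_lit 1) (nat_lit 277) (nat_lit 378) (nat_lit 365)) (XT.lf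 (nat_lit 1368) (nat_lit 9072931255) (nat_lit 76) (nat_lit 572729080) (nat_lit 0) (nat_lit 572729080) (nat_lit 381) (nat_lit 1) (nat_lit 364) (nat_lit 1) (nat_lit 363) (nat_lit 1) (nat_lit 278) (nat_lit 378) (nat_lit 364))) (XT.nd (nat_lit 78) (nat_lit 0) (nat_lit 0) (XT.lf (nat_lit 1368) (nat_lit 4112839339) (nat_lit 0) (nat_lit 1852644127) (nat_lit 1292) (nat_lit 4112839339) (nat_lit 382) (nat_lit 1) (nat_lit 364) (nat_lit 1) (nat_lit 381) (nat_lit 1) (nat_lit 279) (nat_lit 378) (nat_lit 363)) (XT.nd (nat_lit 78) (nat_lit 0) (nat_lit 76) (XT.lf (nat_lit 1368) (nat_lit 7384940183) (nat_lit 76) (nat_lit 1278433299) (nat_lit 0) (nat_lit 1278433299) (nat_lit 382) (nat_lit 1) (nat_lit 365) (nat_lit 1) (nat_lit 364) (nat_lit 1) (nat_lit 280) (nat_lit 378) (nat_lit 362)) (XT.lf (nat_lit 76) (nat_lit 3247785498) (nat_lit 0) (nat_lit 3311566298) (nat_lit 1292) (nat_lit 3247785498) (nat_lit 366) (nat_lit 1)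 (nat_lit 365) (nat_lit 1) (nat_lit 382) (nat_lit 1) (nat_lit 281) (nat_lit 378) (nat_lit 361))))))))
noncomputable def ec193 : XT := (XT.nd (nat_lit 1482) (nat_lit 4256) (nat_lit 0) (XT.nd (nat_lit 702) (nat_lit 3040) (nat_lit 0) (XT.nd (nat_lit 312) (nat_lit 1824) (nat_lit 0) (XT.nd (nat_lit 156) (nat_lit 608) (nat_lit 0) (XT.nd (nat_lit 78) (nat_lit 0) (nat_lit 0) (XT.lf (nat_lit 912) (nat_lit 5599639432) (nat_lit 0) (nat_lit 2037902583) (nat_lit 836) (nat_lit 2037902583) (nat_lit 366) (nat_lit 1) (nat_lit 354) (nat_lit 1) (nat_lit 365) (nat_lit 1) (nat_lit 282) (nat_lit 378) (nat_lit 360)) (XT.lf (nat_lit 76) (nat_lit 2337180493) (nat_lit 0) (nat_lit 4871611812) (nat_lit 912) (nat_lit 2337180493) (nat_lit 355) (nat_lit 1) (nat_lit 354) (nat_lit 1) (nat_lit 366) (nat_lit 1) (nat_lit 283) (nat_lit 378) (nat_lit 359))) (XT.nd (nat_lit 78) (nat_lit 0) (nat_lit 0) (XT.lf (nat_lit 684) (nat_lit 3728271498)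 (nat_lit 0) (nat_lit 2845304714) (nat_lit 608) (nat_lit 2845304714) (nat_lit 355) (nat_lit 1) (nat_lit 346) (nat_lit 1) (nat_lit 354) (nat_lit 1) (nat_lit 284) (nat_lit 378) (nat_lit 358)) (XT.lf (nat_lit 76) (nat_lit 1386412217) (nat_lit 0) (nat_lit 6521591173) (nat_lit 684) (nat_lit 1386412217) (nat_lit 347) (nat_lit 1) (nat_lit 346) (nat_lit 1) (nat_lit 355) (nat_lit 1) (nat_lit 285) (nat_lit 378) (nat_lit 357)))) (XT.nd (nat_lit 156) (nat_lit 1216) (nat_lit 0) (XT.nd (nat_lit 78) (nat_lit 0) (nat_lit 0) (XT.lf (nat_lit 684) (nat_lit 1781268759) (nat_lit 0) (nat_lit 3695222242) (nat_lit 608) (nat_lit 3695222242) (nat_lit 347) (nat_lit 1) (nat_lit 338) (nat_lit 1) (nat_lit 346) (nat_lit 1) (nat_lit 286) (nat_lit 378) (nat_lit 356)) (XT.lf (nat_lit 76) (nat_lit 400478510) (nat_lit 0) (nat_lit 8251114035) (nat_lit 684) (nat_lit 400478510) (nat_lit 339) (nat_lit 1) (nat_lit 338) (nat_lit 1) (nat_lit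 347) (nat_lit 1) (nat_lit 287) (nat_lit 378) (nat_lit 355))) (XT.nd (nat_lit 78) (nat_lit 608) (nat_lit 0) (XT.lf (nat_lit 76) (nat_lit 4353158324) (nat_lit 0) (nat_lit 227174013) (nat_lit 608) (nat_lit 4353158324) (nat_lit 331) (nat_lit 1) (nat_lit 330) (nat_lit 1) (nat_lit 338) (nat_lit 1) (nat_lit 288) (nat_lit 378) (nat_lit 354)) (XT.nd (nat_lit 78) (nat_lit 0) (nat_lit 0) (XT.lf (nat_lit 684) (nat_lit 7597950423) (nat_lit 0) (nat_lit 609949003) (nat_lit 608) (nat_lit 609949003) (nat_lit 331) (nat_lit 1) (nat_lit 322) (nat_lit 1) (nat_lit 330) (nat_lit 1) (nat_lit 289) (nat_lit 378) (nat_lit 353)) (XT.lf (nat_lit 76) (nat_lit 3223319739) (nat_lit 0) (nat_lit 2256743854) (nat_lit 684) (nat_lit 3223319739) (nat_lit 323) (nat_lit 1) (nat_lit 322) (nat_lit 1) (nat_lit 331) (nat_lit 1) (nat_lit 290) (nat_lit 378) (nat_lit 352)))))) (XT.nd (nat_lit 390) (nat_lit 1520) (nat_lit 0) (XT.nd (nat_lit 156)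 (nat_lit 988) (nat_lit 0) (XT.nd (nat_lit 78) (nat_lit 0) (nat_lit 0) (XT.lf (nat_lit 608) (nat_lit 5306736921) (nat_lit 0) (nat_lit 1642435416) (nat_lit 532) (nat_lit 1642435416) (nat_lit 323) (nat_lit 1) (nat_lit 315) (nat_lit 1) (nat_lit 322) (nat_lit 1) (nat_lit 291) (nat_lit 378) (nat_lit 351)) (XT.lf (nat_lit 76) (nat_lit 2073746729) (nat_lit 0) (nat_lit 4334063968) (nat_lit 608) (nat_lit 2073746729) (nat_lit 316) (nat_lit 1) (nat_lit 315) (nat_lit 1) (nat_lit 323) (nat_lit 1) (nat_lit 292) (nat_lit 378) (nat_lit 350))) (XT.nd (nat_lit 78) (nat_lit 456) (nat_lit 0) (XT.lf (nat_lit 608) (nat_lit 2979523548) (nat_lit 0) (nat_lit 2696975652) (nat_lit 532) (nat_lit 2696975652) (nat_lit 316) (nat_lit 1) (nat_lit 308) (nat_lit 1) (nat_lit 315) (nat_lit 1) (nat_lit 293) (nat_lit 378) (nat_lit 349)) (XT.nd (nat_lit 78) (nat_lit 456) (nat_lit 0) (XT.lf (nat_lit 76) (nat_lit 908035972) (nat_lit 0) (nat_lit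 6451609141) (nat_lit 608) (nat_lit 908035972) (nat_lit 309) (nat_lit 1) (nat_lit 308) (nat_lit 1) (nat_lit 316) (nat_lit 1) (nat_lit 294) (nat_lit 378) (nat_lit 348)) (XT.lf (nat_lit 532) (nat_lit 623256210) (nat_lit 0) (nat_lit 3769935107) (nat_lit 456) (nat_lit 3769935107) (nat_lit 309) (nat_lit 1) (nat_lit 302) (nat_lit 1) (nat_lit 308) (nat_lit 1) (nat_lit 295) (nat_lit 378) (nat_lit 347))))) (XT.nd (nat_lit 156) (nat_lit 912) (nat_lit 0) (XT.nd (nat_lit 78) (nat_lit 0) (nat_lit 0) (XT.lf (nat_lit 608) (nat_lit 7525439353) (nat_lit 0) (nat_lit 267842182) (nat_lit 532) (nat_lit 267842182) (nat_lit 302) (nat_lit 1) (nat_lit 294) (nat_lit 1) (nat_lit 301) (nat_lit 1) (nat_lit 296) (nat_lit 378) (nat_lit 346)) (XT.lf (nat_lit 76) (nat_lit 3119173258) (nat_lit 0) (nat_lit 1721400776) (nat_lit 608) (nat_lit 3119173258) (nat_lit 295) (nat_lit 1) (nat_lit 294) (nat_lit 1) (nat_lit 302) (nat_lit 1) (nat_lit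 297) (nat_lit 378) (nat_lit 345))) (XT.nd (nat_lit 78) (nat_lit 456) (nat_lit 0) (XT.lf (nat_lit 532) (nat_lit 4971865341) (nat_lit 0) (nat_lit 1444483344) (nat_lit 456) (nat_lit 1444483344) (nat_lit 295) (nat_lit 1) (nat_lit 288) (nat_lit 1) (nat_lit 294) (nat_lit 1) (nat_lit 298) (nat_lit 378) (nat_lit 344)) (XT.nd (nat_lit 78) (nat_lit 456) (nat_lit 0) (XT.lf (nat_lit 76) (nat_lit 1846522789) (nat_lit 0) (nat_lit 4070318436) (nat_lit 532) (nat_lit 1846522789) (nat_lit 289) (nat_lit 1) (nat_lit 288) (nat_lit 1) (nat_lit 295) (nat_lit 1) (nat_lit 299) (nat_lit 378) (nat_lit 343)) (XT.lf (nat_lit 532) (nat_lit 2411567911) (nat_lit 0) (nat_lit 2628002340) (nat_lit 456) (nat_lit 2628002340) (nat_lit 289) (nat_lit 1) (nat_lit 282) (nat_lit 1) (nat_lit 288) (nat_lit 1) (nat_lit 300) (nat_lit 378) (nat_lit 342))))))) (XT.nd (nat_lit 702) (nat_lit 2128) (nat_lit 0) (XT.nd (nat_lit 312) (nat_lit 1216) (nat_lit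 0) (XT.nd (nat_lit 156) (nat_lit 456) (nat_lit 0) (XT.nd (nat_lit 78) (nat_lit 456) (nat_lit 0) (XT.lf (nat_lit 76) (nat_lit 571768962) (nat_lit 0) (nat_lit 6430337840) (nat_lit 532) (nat_lit 571768962) (nat_lit 283) (nat_lit 1) (nat_lit 282) (nat_lit 1) (nat_lit 289) (nat_lit 1) (nat_lit 301) (nat_lit 378) (nat_lit 341)) (XT.lf (nat_lit 76) (nat_lit 3666682728) (nat_lit 0) (nat_lit 147662894) (nat_lit 456) (nat_lit 3666682728) (nat_lit 277) (nat_lit 1) (nat_lit 276) (nat_lit 1) (nat_lit 282) (nat_lit 1) (nat_lit 302) (nat_lit 378) (nat_lit 340))) (XT.nd (nat_lit 78) (nat_lit 0) (nat_lit 0) (XT.lf (nat_lit 532) (nat_lit 5998422684) (nat_lit 0) (nat_lit 695888408) (nat_lit 456) (nat_lit 695888408) (nat_lit 277) (nat_lit 1) (nat_lit 270) (nat_lit 1) (nat_lit 276) (nat_lit 1) (nat_lit 303) (nat_lit 378) (nat_lit 339)) (XT.lf (nat_lit 76) (nat_lit 2321485708) (nat_lit 0) (nat_lit 2657314918) (nat_lit 532)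 (nat_lit 2321485708) (nat_lit 271) (nat_lit 1) (nat_lit 270) (nat_lit 1) (nat_lit 277) (nat_lit 1) (nat_lit 304) (nat_lit 378) (nat_lit 338)))) (XT.nd (nat_lit 156) (nat_lit 836) (nat_lit 0) (XT.nd (nat_lit 78) (nat_lit 0) (nat_lit 0) (XT.lf (nat_lit 456) (nat_lit 3300947205) (nat_lit 0) (nat_lit 1955642997) (nat_lit 380) (nat_lit 1955642997) (nat_lit 271) (nat_lit 1) (nat_lit 265) (nat_lit 1) (nat_lit 270) (nat_lit 1) (nat_lit 305) (nat_lit 378) (nat_lit 337)) (XT.lf (nat_lit 76) (nat_lit 982664215) (nat_lit 0) (nat_lit 5160464367) (nat_lit 456) (nat_lit 982664215) (nat_lit 266) (nat_lit 1) (nat_lit 265) (nat_lit 1) (nat_lit 271) (nat_lit 1) (nat_lit 306) (nat_lit 378) (nat_lit 336))) (XT.nd (nat_lit 78) (nat_lit 456) (nat_lit 0) (XT.lf (nat_lit 456) (nat_lit 618018387) (nat_lit 0) (nat_lit 3211189057) (nat_lit 380) (nat_lit 3211189057) (nat_lit 266) (nat_lit 1) (nat_lit 260) (nat_lit 1) (nat_lit 265)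 (nat_lit 1) (nat_lit 307) (nat_lit 378) (nat_lit 335)) (XT.nd (nat_lit 78) (nat_lit 0) (nat_lit 0) (XT.lf (nat_lit 456) (nat_lit 6267562277) (nat_lit 0) (nat_lit 344671713) (nat_lit 380) (nat_lit 344671713) (nat_lit 260) (nat_lit 1) (nat_lit 254) (nat_lit 1) (nat_lit 259) (nat_lit 1) (nat_lit 308) (nat_lit 378) (nat_lit 334)) (XT.lf (nat_lit 76) (nat_lit 2433350170) (nat_lit 0) (nat_lit 2007165876) (nat_lit 456) (nat_lit 2433350170) (nat_lit 255) (nat_lit 1) (nat_lit 254) (nat_lit 1) (nat_lit 260) (nat_lit 1) (nat_lit 309) (nat_lit 378) (nat_lit 333)))))) (XT.nd (nat_lit 390) (nat_lit 988) (nat_lit 0) (XT.nd (nat_lit 156) (nat_lit 760) (nat_lit 0) (XT.nd (nat_lit 78) (nat_lit 0) (nat_lit 0) (XT.lf (nat_lit 456) (nat_lit 3486962112) (nat_lit 0) (nat_lit 1652855048) (nat_lit 380) (nat_lit 1652855048) (nat_lit 255) (nat_lit 1) (nat_lit 249) (nat_lit 1) (nat_lit 254) (nat_lit 1) (nat_lit 310) (nat_lit 378)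 (nat_lit 332)) (XT.lf (nat_lit 76) (nat_lit 1056443028) (nat_lit 0) (nat_lit 4599951452) (nat_lit 456) (nat_lit 1056443028) (nat_lit 250) (nat_lit 1) (nat_lit 249) (nat_lit 1) (nat_lit 255) (nat_lit 1) (nat_lit 311) (nat_lit 378) (nat_lit 331))) (XT.nd (nat_lit 78) (nat_lit 456) (nat_lit 0) (XT.lf (nat_lit 380) (nat_lit 733734069) (nat_lit 0) (nat_lit 2950140250) (nat_lit 304) (nat_lit 2950140250) (nat_lit 250) (nat_lit 1) (nat_lit 245) (nat_lit 1) (nat_lit 249) (nat_lit 1) (nat_lit 312) (nat_lit 378) (nat_lit 330)) (XT.nd (nat_lit 78) (nat_lit 0) (nat_lit 0) (XT.lf (nat_lit 456) (nat_lit 5950412692) (nat_lit 0) (nat_lit 303254052) (nat_lit 380) (nat_lit 303254052) (nat_lit 245) (nat_lit 1) (nat_lit 239) (nat_lit 1) (nat_lit 244) (nat_lit 1) (nat_lit 313) (nat_lit 378) (nat_lit 329)) (XT.lf (nat_lit 76) (nat_lit 2264569369) (nat_lit 0) (nat_lit 1951012334) (nat_lit 456) (nat_lit 2264569369) (nat_lit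 240) (nat_lit 1) (nat_lit 239) (nat_lit 1) (nat_lit 245) (nat_lit 1) (nat_lit 314) (nat_lit 378) (nat_lit 328))))) (XT.nd (nat_lit 156) (nat_lit 684) (nat_lit 0) (XT.nd (nat_lit 78) (nat_lit 0) (nat_lit 0) (XT.lf (nat_lit 380) (nat_lit 3130133542) (nat_lit 0) (nat_lit 1637463352) (nat_lit 304) (nat_lit 1637463352) (nat_lit 240) (nat_lit 1) (nat_lit 235) (nat_lit 1) (nat_lit 239) (nat_lit 1) (nat_lit 315) (nat_lit 378) (nat_lit 327)) (XT.lf (nat_lit 76) (nat_lit 870442324) (nat_lit 0) (nat_lit 4590369221) (nat_lit 380) (nat_lit 870442324) (nat_lit 236) (nat_lit 1) (nat_lit 235) (nat_lit 1) (nat_lit 240) (nat_lit 1) (nat_lit 316) (nat_lit 378) (nat_lit 326))) (XT.nd (nat_lit 78) (nat_lit 380) (nat_lit 0) (XT.lf (nat_lit 380) (nat_lit 347095695) (nat_lit 0) (nat_lit 2955595356) (nat_lit 304) (nat_lit 2955595356) (nat_lit 236) (nat_lit 1) (nat_lit 231) (nat_lit 1) (nat_lit 235) (nat_lit 1) (nat_lit 317)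 (nat_lit 378) (nat_lit 325)) (XT.nd (nat_lit 78) (nat_lit 0) (nat_lit 0) (XT.lf (nat_lit 380) (nat_lit 5187122261) (nat_lit 0) (nat_lit 499818330) (nat_lit 304) (nat_lit 499818330) (nat_lit 231) (nat_lit 1) (nat_lit 226) (nat_lit 1) (nat_lit 230) (nat_lit 1) (nat_lit 318) (nat_lit 378) (nat_lit 324)) (XT.lf (nat_lit 76) (nat_lit 1882645972) (nat_lit 0) (nat_lit 2350429783) (nat_lit 380) (nat_lit 1882645972) (nat_lit 227) (nat_lit 1) (nat_lit 226) (nat_lit 1) (nat_lit 231) (nat_lit 1) (nat_lit 319) (nat_lit 378) (nat_lit 323))))))))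
noncomputable def ec194 : XT := (XT.nd (nat_lit 1482) (nat_lit 2356) (nat_lit 0) (XT.nd (nat_lit 702) (nat_lit 1520) (nat_lit 0) (XT.nd (nat_lit 312) (nat_lit 836) (nat_lit 0) (XT.nd (nat_lit 156) (nat_lit 608) (nat_lit 0) (XT.nd (nat_lit 78) (nat_lit 0) (nat_lit 0) (XT.lf (nat_lit 380) (nat_lit 2361830732) (nat_lit 0) (nat_lit 1842125839) (nat_lit 304) (nat_lit 1842125839) (nat_lit 227) (nat_lit 1) (nat_lit 222) (nat_lit 1) (nat_lit 226) (nat_lit 1) (nat_lit 320) (nat_lit 378) (nat_lit 322)) (XT.lf (nat_lit 76) (nat_lit 487931283) (nat_lit 0) (nat_lit 5001927753) (nat_lit 380) (nat_lit 487931283) (nat_lit 223) (nat_lit 1) (nat_lit 222) (nat_lit 1) (nat_lit 227) (nat_lit 1) (nat_lit 321) (nat_lit 378) (nat_lit 321))) (XT.nd (nat_lit 78) (nat_lit 304) (nat_lit 0) (XT.lf (nat_lit 76) (nat_lit 2749666990) (nat_lit 0) (nat_lit 410604269) (nat_lit 304) (nat_lit 2749666990) (nat_lit 219) (nat_lit 1) (nat_lit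 218) (nat_lit 1) (nat_lit 222) (nat_lit 1) (nat_lit 322) (nat_lit 378) (nat_lit 320)) (XT.lf (nat_lit 380) (nat_lit 4092087764) (nat_lit 0) (nat_lit 875654119) (nat_lit 304) (nat_lit 875654119) (nat_lit 219) (nat_lit 1) (nat_lit 214) (nat_lit 1) (nat_lit 218) (nat_lit 1) (nat_lit 323) (nat_lit 378) (nat_lit 319)))) (XT.nd (nat_lit 156) (nat_lit 608) (nat_lit 0) (XT.nd (nat_lit 78) (nat_lit 228) (nat_lit 0) (XT.lf (nat_lit 76) (nat_lit 1342656790) (nat_lit 0) (nat_lit 3092298229) (nat_lit 380) (nat_lit 1342656790) (nat_lit 215) (nat_lit 1) (nat_lit 214) (nat_lit 1) (nat_lit 219) (nat_lit 1) (nat_lit 324) (nat_lit 378) (nat_lit 318)) (XT.lf (nat_lit 304) (nat_lit 1289196754) (nat_lit 0) (nat_lit 2211831949) (nat_lit 228) (nat_lit 2211831949) (nat_lit 215) (nat_lit 1) (nat_lit 211) (nat_lit 1) (nat_lit 214) (nat_lit 1) (nat_lit 325) (nat_lit 378) (nat_lit 317))) (XT.nd (nat_lit 78) (nat_lit 228) (nat_lit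 0) (XT.lf (nat_lit 380) (nat_lit 5571331782) (nat_lit 0) (nat_lit 39123043) (nat_lit 304) (nat_lit 39123043) (nat_lit 211) (nat_lit 1) (nat_lit 206) (nat_lit 1) (nat_lit 210) (nat_lit 1) (nat_lit 326) (nat_lit 378) (nat_lit 316)) (XT.nd (nat_lit 78) (nat_lit 228) (nat_lit 0) (XT.lf (nat_lit 76) (nat_lit 2075589638) (nat_lit 0) (nat_lit 1434991396) (nat_lit 380) (nat_lit 2075589638) (nat_lit 207) (nat_lit 1) (nat_lit 206) (nat_lit 1) (nat_lit 211) (nat_lit 1) (nat_lit 327) (nat_lit 378) (nat_lit 315)) (XT.lf (nat_lit 304) (nat_lit 2758321894) (nat_lit 0) (nat_lit 1382939316) (nat_lit 228) (nat_lit 1382939316) (nat_lit 207) (nat_lit 1) (nat_lit 203) (nat_lit 1) (nat_lit 206) (nat_lit 1) (nat_lit 328) (nat_lit 378) (nat_lit 314)))))) (XT.nd (nat_lit 390) (nat_lit 760) (nat_lit 0) (XT.nd (nat_lit 156) (nat_lit 456) (nat_lit 0) (XT.nd (nat_lit 78) (nat_lit 304) (nat_lit 0) (XT.lf (nat_lit 76) (nat_lit 689361527)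 (nat_lit 0) (nat_lit 4084516840) (nat_lit 304) (nat_lit 689361527) (nat_lit 204) (nat_lit 1) (nat_lit 203) (nat_lit 1) (nat_lit 207) (nat_lit 1) (nat_lit 329) (nat_lit 378) (nat_lit 313)) (XT.lf (nat_lit 76) (nat_lit 2701082540) (nat_lit 0) (nat_lit 723184) (nat_lit 304) (nat_lit 2701082540) (nat_lit 200) (nat_lit 1) (nat_lit 199) (nat_lit 1) (nat_lit 203) (nat_lit 1) (nat_lit 330) (nat_lit 378) (nat_lit 312))) (XT.nd (nat_lit 78) (nat_lit 228) (nat_lit 0) (XT.lf (nat_lit 304) (nat_lit 4016643253) (nat_lit 0) (nat_lit 663437532) (nat_lit 228) (nat_lit 663437532) (nat_lit 200) (nat_lit 1) (nat_lit 196) (nat_lit 1) (nat_lit 199) (nat_lit 1) (nat_lit 331) (nat_lit 378) (nat_lit 311)) (XT.nd (nat_lit 78) (nat_lit 228) (nat_lit 0) (XT.lf (nat_lit 76) (nat_lit 1315853842) (nat_lit 0) (nat_lit 2653011593) (nat_lit 304) (nat_lit 1315853842) (nat_lit 197) (nat_lit 1) (nat_lit 196) (nat_lit 1) (nat_lit 200) (nat_lit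 1) (nat_lit 332) (nat_lit 378) (nat_lit 310)) (XT.lf (nat_lit 304) (nat_lit 1261100129) (nat_lit 0) (nat_lit 1982887566) (nat_lit 228) (nat_lit 1982887566) (nat_lit 197) (nat_lit 1) (nat_lit 193) (nat_lit 1) (nat_lit 196) (nat_lit 1) (nat_lit 333) (nat_lit 378) (nat_lit 309))))) (XT.nd (nat_lit 156) (nat_lit 456) (nat_lit 0) (XT.nd (nat_lit 78) (nat_lit 0) (nat_lit 0) (XT.lf (nat_lit 304) (nat_lit 5089036455) (nat_lit 0) (nat_lit 40634160) (nat_lit 228) (nat_lit 40634160) (nat_lit 193) (nat_lit 1) (nat_lit 189) (nat_lit 1) (nat_lit 192) (nat_lit 1) (nat_lit 334) (nat_lit 378) (nat_lit 308)) (XT.lf (nat_lit 76) (nat_lit 1851997790) (nat_lit 0) (nat_lit 1409565742) (nat_lit 304) (nat_lit 1851997790) (nat_lit 190) (nat_lit 1) (nat_lit 189) (nat_lit 1) (nat_lit 193) (nat_lit 1) (nat_lit 335) (nat_lit 378) (nat_lit 307))) (XT.nd (nat_lit 78) (nat_lit 228) (nat_lit 0) (XT.lf (nat_lit 304) (nat_lit 2345476429)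 (nat_lit 0) (nat_lit 1356295829) (nat_lit 228) (nat_lit 1356295829) (nat_lit 190) (nat_lit 1) (nat_lit 186) (nat_lit 1) (nat_lit 189) (nat_lit 1) (nat_lit 336) (nat_lit 378) (nat_lit 306)) (XT.nd (nat_lit 78) (nat_lit 228) (nat_lit 0) (XT.lf (nat_lit 76) (nat_lit 501651629) (nat_lit 0) (nat_lit 4000211518) (nat_lit 304) (nat_lit 501651629) (nat_lit 187) (nat_lit 1) (nat_lit 186) (nat_lit 1) (nat_lit 190) (nat_lit 1) (nat_lit 337) (nat_lit 378) (nat_lit 305)) (XT.lf (nat_lit 76) (nat_lit 2308465072) (nat_lit 0) (nat_lit 332380229) (nat_lit 228) (nat_lit 2308465072) (nat_lit 184) (nat_lit 1) (nat_lit 183) (nat_lit 1) (nat_lit 186) (nat_lit 1) (nat_lit 338) (nat_lit 378) (nat_lit 304))))))) (XT.nd (nat_lit 702) (nat_lit 1140) (nat_lit 0) (XT.nd (nat_lit 312) (nat_lit 532) (nat_lit 0) (XT.nd (nat_lit 156) (nat_lit 456) (nat_lit 0) (XT.nd (nat_lit 78) (nat_lit 0) (nat_lit 0) (XT.lf (nat_lit 304) (nat_lit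 3273250961) (nat_lit 0) (nat_lit 811387111) (nat_lit 228) (nat_lit 811387111) (nat_lit 184) (nat_lit 1) (nat_lit 180) (nat_lit 1) (nat_lit 183) (nat_lit 1) (nat_lit 339) (nat_lit 378) (nat_lit 303)) (XT.lf (nat_lit 76) (nat_lit 968149820) (nat_lit 0) (nat_lit 2907048415) (nat_lit 304) (nat_lit 968149820) (nat_lit 181) (nat_lit 1) (nat_lit 180) (nat_lit 1) (nat_lit 184) (nat_lit 1) (nat_lit 340) (nat_lit 378) (nat_lit 302))) (XT.nd (nat_lit 78) (nat_lit 304) (nat_lit 0) (XT.lf (nat_lit 228) (nat_lit 609788173) (nat_lit 0) (nat_lit 2090793463) (nat_lit 152) (nat_lit 2090793463) (nat_lit 181) (nat_lit 1) (nat_lit 178) (nat_lit 1) (nat_lit 180) (nat_lit 1) (nat_lit 341) (nat_lit 378) (nat_lit 301)) (XT.lf (nat_lit 304) (nat_lit 4062926067) (nat_lit 0) (nat_lit 338708719) (nat_lit 228) (nat_lit 338708719) (nat_lit 178) (nat_lit 1) (nat_lit 174) (nat_lit 1) (nat_lit 177) (nat_lit 1) (nat_lit 342) (nat_lit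 378) (nat_lit 300)))) (XT.nd (nat_lit 156) (nat_lit 380) (nat_lit 0) (XT.nd (nat_lit 78) (nat_lit 152) (nat_lit 0) (XT.lf (nat_lit 76) (nat_lit 1367410754) (nat_lit 0) (nat_lit 1954634372) (nat_lit 304) (nat_lit 1367410754) (nat_lit 175) (nat_lit 1) (nat_lit 174) (nat_lit 1) (nat_lit 178) (nat_lit 1) (nat_lit 343) (nat_lit 378) (nat_lit 299)) (XT.lf (nat_lit 228) (nat_lit 1426236526) (nat_lit 0) (nat_lit 1606627872) (nat_lit 152) (nat_lit 1606627872) (nat_lit 175) (nat_lit 1) (nat_lit 172) (nat_lit 1) (nat_lit 174) (nat_lit 1) (nat_lit 344) (nat_lit 378) (nat_lit 298))) (XT.nd (nat_lit 78) (nat_lit 380) (nat_lit 0) (XT.lf (nat_lit 76) (nat_lit 70822257) (nat_lit 0) (nat_lit 4448928102) (nat_lit 228) (nat_lit 70822257) (nat_lit 173) (nat_lit 1) (nat_lit 172) (nat_lit 1) (nat_lit 175) (nat_lit 1) (nat_lit 345) (nat_lit 378) (nat_lit 297)) (XT.nd (nat_lit 78) (nat_lit 152) (nat_lit 0) (XT.lf (nat_lit 76)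 (nat_lit 1707375462) (nat_lit 0) (nat_lit 1126725097) (nat_lit 228) (nat_lit 1707375462) (nat_lit 170) (nat_lit 1) (nat_lit 169) (nat_lit 1) (nat_lit 172) (nat_lit 1) (nat_lit 346) (nat_lit 378) (nat_lit 296)) (XT.lf (nat_lit 228) (nat_lit 2125879702) (nat_lit 0) (nat_lit 1183764133) (nat_lit 152) (nat_lit 1183764133) (nat_lit 170) (nat_lit 1) (nat_lit 167) (nat_lit 1) (nat_lit 169) (nat_lit 1) (nat_lit 347) (nat_lit 378) (nat_lit 295)))))) (XT.nd (nat_lit 390) (nat_lit 608) (nat_lit 0) (XT.nd (nat_lit 156) (nat_lit 304) (nat_lit 0) (XT.nd (nat_lit 78) (nat_lit 228) (nat_lit 0) (XT.lf (nat_lit 76) (nat_lit 426750052) (nat_lit 0) (nat_lit 3592626796) (nat_lit 228) (nat_lit 426750052) (nat_lit 168) (nat_lit 1) (nat_lit 167) (nat_lit 1) (nat_lit 170) (nat_lit 1) (nat_lit 348) (nat_lit 378) (nat_lit 294)) (XT.lf (nat_lit 76) (nat_lit 1995086535) (nat_lit 0) (nat_lit 408903737) (nat_lit 228) (nat_lit 1995086535)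 (nat_lit 165) (nat_lit 1) (nat_lit 164) (nat_lit 1) (nat_lit 167) (nat_lit 1) (nat_lit 349) (nat_lit 378) (nat_lit 293))) (XT.nd (nat_lit 78) (nat_lit 152) (nat_lit 0) (XT.lf (nat_lit 228) (nat_lit 2722493301) (nat_lit 0) (nat_lit 815153351) (nat_lit 152) (nat_lit 815153351) (nat_lit 165) (nat_lit 1) (nat_lit 162) (nat_lit 1) (nat_lit 164) (nat_lit 1) (nat_lit 350) (nat_lit 378) (nat_lit 292)) (XT.nd (nat_lit 78) (nat_lit 152) (nat_lit 0) (XT.lf (nat_lit 76) (nat_lit 732390432) (nat_lit 0) (nat_lit 2842305095) (nat_lit 228) (nat_lit 732390432) (nat_lit 163) (nat_lit 1) (nat_lit 162) (nat_lit 1) (nat_lit 165) (nat_lit 1) (nat_lit 351) (nat_lit 378) (nat_lit 291)) (XT.lf (nat_lit 228) (nat_lit 215835092) (nat_lit 0) (nat_lit 2023028338) (nat_lit 152) (nat_lit 2023028338) (nat_lit 163) (nat_lit 1) (nat_lit 160) (nat_lit 1) (nat_lit 162) (nat_lit 1) (nat_lit 352) (nat_lit 378) (nat_lit 290))))) (XT.nd (nat_lit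 156) (nat_lit 380) (nat_lit 0) (XT.nd (nat_lit 78) (nat_lit 0) (nat_lit 0) (XT.lf (nat_lit 228) (nat_lit 3228294909) (nat_lit 0) (nat_lit 494538874) (nat_lit 152) (nat_lit 494538874) (nat_lit 160) (nat_lit 1) (nat_lit 157) (nat_lit 1) (nat_lit 159) (nat_lit 1) (nat_lit 353) (nat_lit 378) (nat_lit 289)) (XT.lf (nat_lit 76) (nat_lit 993659740) (nat_lit 0) (nat_lit 2185839340) (nat_lit 228) (nat_lit 993659740) (nat_lit 158) (nat_lit 1) (nat_lit 157) (nat_lit 1) (nat_lit 160) (nat_lit 1) (nat_lit 354) (nat_lit 378) (nat_lit 288))) (XT.nd (nat_lit 78) (nat_lit 228) (nat_lit 0) (XT.lf (nat_lit 228) (nat_lit 761059171) (nat_lit 0) (nat_lit 1684274713) (nat_lit 152) (nat_lit 1684274713) (nat_lit 158) (nat_lit 1) (nat_lit 155) (nat_lit 1) (nat_lit 157) (nat_lit 1) (nat_lit 355) (nat_lit 378) (nat_lit 287)) (XT.nd (nat_lit 78) (nat_lit 0) (nat_lit 0) (XT.lf (nat_lit 228) (nat_lit 3654118480) (nat_lit 0) (nat_lit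 216367773) (nat_lit 152) (nat_lit 216367773) (nat_lit 155) (nat_lit 1) (nat_lit 152) (nat_lit 1) (nat_lit 154) (nat_lit 1) (nat_lit 356) (nat_lit 378) (nat_lit 286)) (XT.lf (nat_lit 76) (nat_lit 1215805584) (nat_lit 0) (nat_lit 1612466716) (nat_lit 228) (nat_lit 1215805584) (nat_lit 153) (nat_lit 1) (nat_lit 152) (nat_lit 1) (nat_lit 155) (nat_lit 1) (nat_lit 357) (nat_lit 378) (nat_lit 285))))))))
noncomputable def ec195 : XT := (XT.nd (nat_lit 1482) (nat_lit 1520) (nat_lit 0) (XT.nd (nat_lit 702) (nat_lit 1064) (nat_lit 0) (XT.nd (nat_lit 312) (nat_lit 456) (nat_lit 0) (XT.nd (nat_lit 156) (nat_lit 304) (nat_lit 0) (XT.nd (nat_lit 78) (nat_lit 0) (nat_lit 0) (XT.lf (nat_lit 228) (nat_lit 1228902370) (nat_lit 0) (nat_lit 1386592419) (nat_lit 152) (nat_lit 1386592419) (nat_lit 153) (nat_lit 1) (nat_lit 150) (nat_lit 1) (nat_lit 152) (nat_lit 1) (nat_lit 358) (nat_lit 378) (nat_lit 284)) (XT.lf (nat_lit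 76) (nat_lit 24528287) (nat_lit 0) (nat_lit 3911908599) (nat_lit 228) (nat_lit 24528287) (nat_lit 151) (nat_lit 1) (nat_lit 150) (nat_lit 1) (nat_lit 153) (nat_lit 1) (nat_lit 359) (nat_lit 378) (nat_lit 283))) (XT.nd (nat_lit 78) (nat_lit 152) (nat_lit 0) (XT.lf (nat_lit 76) (nat_lit 1403481664) (nat_lit 0) (nat_lit 1112633243) (nat_lit 152) (nat_lit 1403481664) (nat_lit 149) (nat_lit 1) (nat_lit 148) (nat_lit 1) (nat_lit 150) (nat_lit 1) (nat_lit 360) (nat_lit 378) (nat_lit 282)) (XT.lf (nat_lit 228) (nat_lit 1628476608) (nat_lit 0) (nat_lit 1125305475) (nat_lit 152) (nat_lit 1125305475) (nat_lit 149) (nat_lit 1) (nat_lit 146) (nat_lit 1) (nat_lit 148) (nat_lit 1) (nat_lit 361) (nat_lit 378) (nat_lit 281)))) (XT.nd (nat_lit 156) (nat_lit 304) (nat_lit 0) (XT.nd (nat_lit 78) (nat_lit 152) (nat_lit 0) (XT.lf (nat_lit 76) (nat_lit 234095606) (nat_lit 0) (nat_lit 3371097590) (nat_lit 228) (nat_lit 234095606)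 (nat_lit 147) (nat_lit 1) (nat_lit 146) (nat_lit 1) (nat_lit 149) (nat_lit 1) (nat_lit 362) (nat_lit 378) (nat_lit 280)) (XT.lf (nat_lit 76) (nat_lit 1560814261) (nat_lit 0) (nat_lit 677858720) (nat_lit 152) (nat_lit 1560814261) (nat_lit 145) (nat_lit 1) (nat_lit 144) (nat_lit 1) (nat_lit 146) (nat_lit 1) (nat_lit 363) (nat_lit 378) (nat_lit 279))) (XT.nd (nat_lit 78) (nat_lit 152) (nat_lit 0) (XT.lf (nat_lit 228) (nat_lit 1967863646) (nat_lit 0) (nat_lit 896262126) (nat_lit 152) (nat_lit 896262126) (nat_lit 145) (nat_lit 1) (nat_lit 142) (nat_lit 1) (nat_lit 144) (nat_lit 1) (nat_lit 364) (nat_lit 378) (nat_lit 278)) (XT.nd (nat_lit 78) (nat_lit 152) (nat_lit 0) (XT.lf (nat_lit 76) (nat_lit 414109886) (nat_lit 0) (nat_lit 2893640107) (nat_lit 228) (nat_lit 414109886) (nat_lit 143) (nat_lit 1) (nat_lit 142) (nat_lit 1) (nat_lit 145) (nat_lit 1) (nat_lit 365) (nat_lit 378) (nat_lit 277)) (XT.lf (nat_lit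 76) (nat_lit 1691461295) (nat_lit 0) (nat_lit 300616747) (nat_lit 152) (nat_lit 1691461295) (nat_lit 141) (nat_lit 1) (nat_lit 140) (nat_lit 1) (nat_lit 142) (nat_lit 1) (nat_lit 366) (nat_lit 378) (nat_lit 276)))))) (XT.nd (nat_lit 390) (nat_lit 608) (nat_lit 0) (XT.nd (nat_lit 156) (nat_lit 304) (nat_lit 0) (XT.nd (nat_lit 78) (nat_lit 0) (nat_lit 0) (XT.lf (nat_lit 228) (nat_lit 2254230363) (nat_lit 0) (nat_lit 695776306) (nat_lit 152) (nat_lit 695776306) (nat_lit 141) (nat_lit 1) (nat_lit 138) (nat_lit 1) (nat_lit 140) (nat_lit 1) (nat_lit 367) (nat_lit 378) (nat_lit 275)) (XT.lf (nat_lit 76) (nat_lit 568046777) (nat_lit 0) (nat_lit 2472382689) (nat_lit 228) (nat_lit 568046777) (nat_lit 139) (nat_lit 1) (nat_lit 138) (nat_lit 1) (nat_lit 141) (nat_lit 1) (nat_lit 368) (nat_lit 378) (nat_lit 274))) (XT.nd (nat_lit 78) (nat_lit 228) (nat_lit 0) (XT.lf (nat_lit 152) (nat_lit 26284791) (nat_lit 0) (nat_lit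 1772632666) (nat_lit 76) (nat_lit 1772632666) (nat_lit 139) (nat_lit 1) (nat_lit 137) (nat_lit 1) (nat_lit 138) (nat_lit 1) (nat_lit 369) (nat_lit 378) (nat_lit 273)) (XT.nd (nat_lit 78) (nat_lit 0) (nat_lit 0) (XT.lf (nat_lit 228) (nat_lit 2493931181) (nat_lit 0) (nat_lit 520575630) (nat_lit 152) (nat_lit 520575630) (nat_lit 137) (nat_lit 1) (nat_lit 134) (nat_lit 1) (nat_lit 136) (nat_lit 1) (nat_lit 370) (nat_lit 378) (nat_lit 272)) (XT.lf (nat_lit 76) (nat_lit 698989104) (nat_lit 0) (nat_lit 2100972164) (nat_lit 228) (nat_lit 698989104) (nat_lit 135) (nat_lit 1) (nat_lit 134) (nat_lit 1) (nat_lit 137) (nat_lit 1) (nat_lit 371) (nat_lit 378) (nat_lit 271))))) (XT.nd (nat_lit 156) (nat_lit 304) (nat_lit 0) (XT.nd (nat_lit 78) (nat_lit 228) (nat_lit 0) (XT.lf (nat_lit 152) (nat_lit 313348429) (nat_lit 0) (nat_lit 1574961164) (nat_lit 76) (nat_lit 1574961164) (nat_lit 135) (nat_lit 1) (nat_lit 133)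 (nat_lit 1) (nat_lit 134) (nat_lit 1) (nat_lit 372) (nat_lit 378) (nat_lit 270)) (XT.lf (nat_lit 228) (nat_lit 2692599049) (nat_lit 0) (nat_lit 367755184) (nat_lit 152) (nat_lit 367755184) (nat_lit 133) (nat_lit 1) (nat_lit 130) (nat_lit 1) (nat_lit 132) (nat_lit 1) (nat_lit 373) (nat_lit 378) (nat_lit 269))) (XT.nd (nat_lit 78) (nat_lit 304) (nat_lit 0) (XT.lf (nat_lit 76) (nat_lit 809670824) (nat_lit 0) (nat_lit 1773766330) (nat_lit 228) (nat_lit 809670824) (nat_lit 131) (nat_lit 1) (nat_lit 130) (nat_lit 1) (nat_lit 133) (nat_lit 1) (nat_lit 374) (nat_lit 378) (nat_lit 268)) (XT.nd (nat_lit 78) (nat_lit 228) (nat_lit 0) (XT.lf (nat_lit 152) (nat_lit 559954304) (nat_lit 0) (nat_lit 1399332595) (nat_lit 76) (nat_lit 1399332595) (nat_lit 131) (nat_lit 1) (nat_lit 129) (nat_lit 1) (nat_lit 130) (nat_lit 1) (nat_lit 375) (nat_lit 378) (nat_lit 267)) (XT.lf (nat_lit 228) (nat_lit 2855226269) (nat_lit 0)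 (nat_lit 234736475) (nat_lit 152) (nat_lit 234736475) (nat_lit 129) (nat_lit 1) (nat_lit 126) (nat_lit 1) (nat_lit 128) (nat_lit 1) (nat_lit 376) (nat_lit 378) (nat_lit 266))))))) (XT.nd (nat_lit 702) (nat_lit 836) (nat_lit 0) (XT.nd (nat_lit 312) (nat_lit 380) (nat_lit 0) (XT.nd (nat_lit 156) (nat_lit 228) (nat_lit 0) (XT.nd (nat_lit 78) (nat_lit 76) (nat_lit 0) (XT.lf (nat_lit 76) (nat_lit 902516077) (nat_lit 0) (nat_lit 1485754599) (nat_lit 228) (nat_lit 902516077) (nat_lit 127) (nat_lit 1) (nat_lit 126) (nat_lit 1) (nat_lit 129) (nat_lit 1) (nat_lit 377) (nat_lit 378) (nat_lit 265)) (XT.lf (nat_lit 152) (nat_lit 770859995) (nat_lit 0) (nat_lit 1243288886) (nat_lit 76) (nat_lit 1243288886) (nat_lit 127) (nat_lit 1) (nat_lit 125) (nat_lit 1) (nat_lit 126) (nat_lit 1) (nat_lit 378) (nat_lit 378) (nat_lit 264))) (XT.nd (nat_lit 78) (nat_lit 0) (nat_lit 0) (XT.lf (nat_lit 228) (nat_lit 2986236306) (nat_lit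 0) (nat_lit 119230955) (nat_lit 152) (nat_lit 119230955) (nat_lit 125) (nat_lit 1) (nat_lit 122) (nat_lit 1) (nat_lit 124) (nat_lit 1) (nat_lit 379) (nat_lit 378) (nat_lit 263)) (XT.lf (nat_lit 76) (nat_lit 979673881) (nat_lit 0) (nat_lit 1232487493) (nat_lit 228) (nat_lit 979673881) (nat_lit 123) (nat_lit 1) (nat_lit 122) (nat_lit 1) (nat_lit 125) (nat_lit 1) (nat_lit 380) (nat_lit 378) (nat_lit 262)))) (XT.nd (nat_lit 156) (nat_lit 76) (nat_lit 0) (XT.nd (nat_lit 78) (nat_lit 228) (nat_lit 0) (XT.lf (nat_lit 152) (nat_lit 950285382) (nat_lit 0) (nat_lit 1104646072) (nat_lit 76) (nat_lit 1104646072) (nat_lit 123) (nat_lit 1) (nat_lit 121) (nat_lit 1) (nat_lit 122) (nat_lit 1) (nat_lit 381) (nat_lit 378) (nat_lit 261)) (XT.lf (nat_lit 228) (nat_lit 3089547568) (nat_lit 0) (nat_lit 19207623) (nat_lit 152) (nat_lit 19207623) (nat_lit 121) (nat_lit 1) (nat_lit 118) (nat_lit 1) (nat_lit 120) (nat_lit 1)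 (nat_lit 382) (nat_lit 378) (nat_lit 260))) (XT.nd (nat_lit 78) (nat_lit 76) (nat_lit 0) (XT.lf (nat_lit 76) (nat_lit 1043048948) (nat_lit 0) (nat_lit 1010014004) (nat_lit 228) (nat_lit 1043048948) (nat_lit 119) (nat_lit 1) (nat_lit 118) (nat_lit 1) (nat_lit 121) (nat_lit 1) (nat_lit 383) (nat_lit 378) (nat_lit 259)) (XT.nd (nat_lit 78) (nat_lit 0) (nat_lit 0) (XT.lf (nat_lit 152) (nat_lit 1101972817) (nat_lit 0) (nat_lit 981463728) (nat_lit 76) (nat_lit 981463728) (nat_lit 119) (nat_lit 1) (nat_lit 117) (nat_lit 1) (nat_lit 118) (nat_lit 1) (nat_lit 384) (nat_lit 378) (nat_lit 258)) (XT.lf (nat_lit 0) (nat_lit 67800476) (nat_lit 0) (nat_lit 2898678984) (nat_lit 152) (nat_lit 67800476) (nat_lit 117) (nat_lit 3) (nat_lit 117) (nat_lit 1) (nat_lit 119) (nat_lit 1) (nat_lit 385) (nat_lit 378) (nat_lit 257)))))) (XT.nd (nat_lit 390) (nat_lit 380) (nat_lit 0) (XT.nd (nat_lit 156) (nat_lit 228) (nat_lit 0)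 (XT.nd (nat_lit 78) (nat_lit 76) (nat_lit 0) (XT.lf (nat_lit 76) (nat_lit 1094329067) (nat_lit 0) (nat_lit 814825944) (nat_lit 152) (nat_lit 1094329067) (nat_lit 116) (nat_lit 1) (nat_lit 115) (nat_lit 1) (nat_lit 117) (nat_lit 1) (nat_lit 386) (nat_lit 378) (nat_lit 256)) (XT.lf (nat_lit 152) (nat_lit 1229240579) (nat_lit 0) (nat_lit 872017810) (nat_lit 76) (nat_lit 872017810) (nat_lit 116) (nat_lit 1) (nat_lit 114) (nat_lit 1) (nat_lit 115) (nat_lit 1) (nat_lit 387) (nat_lit 378) (nat_lit 255))) (XT.nd (nat_lit 78) (nat_lit 228) (nat_lit 0) (XT.lf (nat_lit 0) (nat_lit 142798262) (nat_lit 0) (nat_lit 2657997150) (nat_lit 152) (nat_lit 142798262) (nat_lit 114) (nat_lit 3) (nat_lit 114) (nat_lit 1) (nat_lit 116) (nat_lit 1) (nat_lit 388) (nat_lit 378) (nat_lit 254)) (XT.nd (nat_lit 78) (nat_lit 76) (nat_lit 0) (XT.lf (nat_lit 76) (nat_lit 1135009422) (nat_lit 0) (nat_lit 643808495) (nat_lit 152) (nat_lit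 1135009422) (nat_lit 113) (nat_lit 1) (nat_lit 112) (nat_lit 1) (nat_lit 114) (nat_lit 1) (nat_lit 389) (nat_lit 378) (nat_lit 253)) (XT.lf (nat_lit 152) (nat_lit 1335030356) (nat_lit 0) (nat_lit 774776530) (nat_lit 76) (nat_lit 774776530) (nat_lit 113) (nat_lit 1) (nat_lit 111) (nat_lit 1) (nat_lit 112) (nat_lit 1) (nat_lit 390) (nat_lit 378) (nat_lit 252))))) (XT.nd (nat_lit 156) (nat_lit 228) (nat_lit 0) (XT.nd (nat_lit 78) (nat_lit 152) (nat_lit 0) (XT.lf (nat_lit 0) (nat_lit 207028209) (nat_lit 0) (nat_lit 2441749844) (nat_lit 152) (nat_lit 207028209) (nat_lit 111) (nat_lit 3) (nat_lit 111) (nat_lit 1) (nat_lit 113) (nat_lit 1) (nat_lit 391) (nat_lit 378) (nat_lit 251)) (XT.lf (nat_lit 76) (nat_lit 1166414200) (nat_lit 0) (nat_lit 494196283) (nat_lit 152) (nat_lit 1166414200) (nat_lit 110) (nat_lit 1) (nat_lit 109) (nat_lit 1) (nat_lit 111) (nat_lit 1) (nat_lit 392) (nat_lit 378) (nat_lit 250)))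 (XT.nd (nat_lit 78) (nat_lit 152) (nat_lit 0) (XT.lf (nat_lit 152) (nat_lit 1421949435) (nat_lit 0) (nat_lit 688378912) (nat_lit 76) (nat_lit 688378912) (nat_lit 110) (nat_lit 1) (nat_lit 108) (nat_lit 1) (nat_lit 109) (nat_lit 1) (nat_lit 393) (nat_lit 378) (nat_lit 249)) (XT.nd (nat_lit 78) (nat_lit 152) (nat_lit 0) (XT.lf (nat_lit 0) (nat_lit 261761108) (nat_lit 0) (nat_lit 2247282337) (nat_lit 152) (nat_lit 261761108) (nat_lit 108) (nat_lit 3) (nat_lit 108) (nat_lit 1) (nat_lit 110) (nat_lit 1) (nat_lit 394) (nat_lit 378) (nat_lit 248)) (XT.lf (nat_lit 76) (nat_lit 1189715782) (nat_lit 0) (nat_lit 363534349) (nat_lit 152) (nat_lit 1189715782) (nat_lit 107) (nat_lit 1) (nat_lit 106) (nat_lit 1) (nat_lit 108) (nat_lit 1) (nat_lit 395) (nat_lit 378) (nat_lit 247))))))))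
noncomputable def ec196 : XT := (XT.nd (nat_lit 1404) (nat_lit 1520) (nat_lit 0) (XT.nd (nat_lit 702) (nat_lit 608) (nat_lit 0) (XT.nd (nat_lit 312) (nat_lit 380) (nat_lit 0) (XT.nd (nat_lit 156) (nat_lit 228) (nat_lit 0) (XT.nd (nat_lit 78) (nat_lit 0) (nat_lit 0) (XT.lf (nat_lit 152) (nat_lit 1492308175) (nat_lit 0) (nat_lit 611615747) (nat_lit 76) (nat_lit 611615747) (nat_lit 107) (nat_lit 1) (nat_lit 105) (nat_lit 1) (nat_lit 106) (nat_lit 1) (nat_lit 396) (nat_lit 378) (nat_lit 246)) (XT.lf (nat_lit 0) (nat_lit 308124001) (nat_lit 0) (nat_lit 2072233896) (nat_lit 152) (nat_lit 308124001) (nat_lit 105) (nat_lit 3) (nat_lit 105) (nat_lit 1) (nat_lit 107) (nat_lit 1) (nat_lit 397) (nat_lit 378) (nat_lit 245))) (XT.nd (nat_lit 78) (nat_lit 76) (nat_lit 0) (XT.lf (nat_lit 76) (nat_lit 1205951794) (nat_lit 0) (nat_lit 249643477) (nat_lit 152) (nat_lit 1205951794) (nat_lit 104) (nat_lit 1) (nat_lit 103)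 (nat_lit 1) (nat_lit 105) (nat_lit 1) (nat_lit 398) (nat_lit 378) (nat_lit 244)) (XT.lf (nat_lit 152) (nat_lit 1548153300) (nat_lit 0) (nat_lit 543412669) (nat_lit 76) (nat_lit 543412669) (nat_lit 104) (nat_lit 1) (nat_lit 102) (nat_lit 1) (nat_lit 103) (nat_lit 1) (nat_lit 399) (nat_lit 378) (nat_lit 243)))) (XT.nd (nat_lit 156) (nat_lit 228) (nat_lit 0) (XT.nd (nat_lit 78) (nat_lit 152) (nat_lit 0) (XT.lf (nat_lit 0) (nat_lit 347116268) (nat_lit 0) (nat_lit 1914505061) (nat_lit 152) (nat_lit 347116268) (nat_lit 102) (nat_lit 3) (nat_lit 102) (nat_lit 1) (nat_lit 104) (nat_lit 1) (nat_lit 400) (nat_lit 378) (nat_lit 242)) (XT.lf (nat_lit 76) (nat_lit 1216040249) (nat_lit 0) (nat_lit 150589380) (nat_lit 152) (nat_lit 1216040249) (nat_lit 101) (nat_lit 1) (nat_lit 100) (nat_lit 1) (nat_lit 102) (nat_lit 1) (nat_lit 401) (nat_lit 378) (nat_lit 241))) (XT.nd (nat_lit 78) (nat_lit 152) (nat_lit 0) (XT.lf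 (nat_lit 152) (nat_lit 1591297471) (nat_lit 0) (nat_lit 482815118) (nat_lit 76) (nat_lit 482815118) (nat_lit 101) (nat_lit 1) (nat_lit 99) (nat_lit 1) (nat_lit 100) (nat_lit 1) (nat_lit 402) (nat_lit 378) (nat_lit 240)) (XT.nd (nat_lit 78) (nat_lit 152) (nat_lit 0) (XT.lf (nat_lit 0) (nat_lit 379623924) (nat_lit 0) (nat_lit 1772228566) (nat_lit 152) (nat_lit 379623924) (nat_lit 99) (nat_lit 3) (nat_lit 99) (nat_lit 1) (nat_lit 101) (nat_lit 1) (nat_lit 403) (nat_lit 378) (nat_lit 239)) (XT.lf (nat_lit 76) (nat_lit 1220793001) (nat_lit 0) (nat_lit 64655339) (nat_lit 152) (nat_lit 1220793001) (nat_lit 98) (nat_lit 1) (nat_lit 97) (nat_lit 1) (nat_lit 99) (nat_lit 1) (nat_lit 404) (nat_lit 378) (nat_lit 238)))))) (XT.nd (nat_lit 312) (nat_lit 304) (nat_lit 0) (XT.nd (nat_lit 156) (nat_lit 228) (nat_lit 0) (XT.nd (nat_lit 78) (nat_lit 0) (nat_lit 0) (XT.lf (nat_lit 152) (nat_lit 1623345557) (nat_lit 0)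 (nat_lit 428974979) (nat_lit 76) (nat_lit 428974979) (nat_lit 98) (nat_lit 1) (nat_lit 96) (nat_lit 1) (nat_lit 97) (nat_lit 1) (nat_lit 405) (nat_lit 378) (nat_lit 237)) (XT.lf (nat_lit 0) (nat_lit 406432314) (nat_lit 0) (nat_lit 1643743501) (nat_lit 152) (nat_lit 406432314) (nat_lit 96) (nat_lit 3) (nat_lit 96) (nat_lit 1) (nat_lit 98) (nat_lit 1) (nat_lit 406) (nat_lit 378) (nat_lit 236))) (XT.nd (nat_lit 78) (nat_lit 152) (nat_lit 0) (XT.lf (nat_lit 76) (nat_lit 9874809) (nat_lit 0) (nat_lit 1211147806) (nat_lit 76) (nat_lit 1211147806) (nat_lit 96) (nat_lit 3) (nat_lit 95) (nat_lit 1) (nat_lit 96) (nat_lit 1) (nat_lit 407) (nat_lit 378) (nat_lit 235)) (XT.lf (nat_lit 152) (nat_lit 1645717973) (nat_lit 0) (nat_lit 381138713) (nat_lit 76) (nat_lit 381138713) (nat_lit 95) (nat_lit 1) (nat_lit 93) (nat_lit 1) (nat_lit 94) (nat_lit 1) (nat_lit 408) (nat_lit 378) (nat_lit 234)))) (XT.nd (nat_lit 156)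 (nat_lit 228) (nat_lit 0) (XT.nd (nat_lit 78) (nat_lit 76) (nat_lit 0) (XT.lf (nat_lit 0) (nat_lit 428237395) (nat_lit 0) (nat_lit 1527572359) (nat_lit 152) (nat_lit 428237395) (nat_lit 93) (nat_lit 3) (nat_lit 93) (nat_lit 1) (nat_lit 95) (nat_lit 1) (nat_lit 409) (nat_lit 378) (nat_lit 233)) (XT.lf (nat_lit 76) (nat_lit 75243075) (nat_lit 0) (nat_lit 1142558573) (nat_lit 76) (nat_lit 1142558573) (nat_lit 93) (nat_lit 3) (nat_lit 92) (nat_lit 1) (nat_lit 93) (nat_lit 1) (nat_lit 410) (nat_lit 378) (nat_lit 232))) (XT.nd (nat_lit 78) (nat_lit 76) (nat_lit 0) (XT.lf (nat_lit 152) (nat_lit 1659671405) (nat_lit 0) (nat_lit 338636810) (nat_lit 76) (nat_lit 338636810) (nat_lit 92) (nat_lit 1) (nat_lit 90) (nat_lit 1) (nat_lit 91) (nat_lit 1) (nat_lit 411) (nat_lit 378) (nat_lit 231)) (XT.nd (nat_lit 78) (nat_lit 76) (nat_lit 0) (XT.lf (nat_lit 0) (nat_lit 445655756) (nat_lit 0) (nat_lit 1422400632) (nat_lit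 152) (nat_lit 445655756) (nat_lit 90) (nat_lit 3) (nat_lit 90) (nat_lit 1) (nat_lit 92) (nat_lit 1) (nat_lit 412) (nat_lit 378) (nat_lit 230)) (XT.lf (nat_lit 76) (nat_lit 131385929) (nat_lit 0) (nat_lit 1079681926) (nat_lit 76) (nat_lit 1079681926) (nat_lit 90) (nat_lit 3) (nat_lit 89) (nat_lit 1) (nat_lit 90) (nat_lit 1) (nat_lit 413) (nat_lit 378) (nat_lit 229))))))) (XT.nd (nat_lit 702) (nat_lit 836) (nat_lit 0) (XT.nd (nat_lit 312) (nat_lit 304) (nat_lit 0) (XT.nd (nat_lit 156) (nat_lit 228) (nat_lit 0) (XT.nd (nat_lit 78) (nat_lit 0) (nat_lit 0) (XT.lf (nat_lit 152) (nat_lit 1666317228) (nat_lit 0) (nat_lit 300874419) (nat_lit 76) (nat_lit 300874419) (nat_lit 89) (nat_lit 1) (nat_lit 87) (nat_lit 1) (nat_lit 88) (nat_lit 1) (nat_lit 414) (nat_lit 378) (nat_lit 228)) (XT.lf (nat_lit 0) (nat_lit 459233519) (nat_lit 0) (nat_lit 1327058691) (nat_lit 152) (nat_lit 459233519) (nat_lit 87) (nat_lit 3)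 (nat_lit 87) (nat_lit 1) (nat_lit 89) (nat_lit 1) (nat_lit 415) (nat_lit 378) (nat_lit 227))) (XT.nd (nat_lit 78) (nat_lit 152) (nat_lit 0) (XT.lf (nat_lit 76) (nat_lit 179388514) (nat_lit 0) (nat_lit 1021937224) (nat_lit 76) (nat_lit 1021937224) (nat_lit 87) (nat_lit 3) (nat_lit 86) (nat_lit 1) (nat_lit 87) (nat_lit 1) (nat_lit 416) (nat_lit 378) (nat_lit 226)) (XT.lf (nat_lit 152) (nat_lit 1666637858) (nat_lit 0) (nat_lit 267323025) (nat_lit 76) (nat_lit 267323025) (nat_lit 86) (nat_lit 1) (nat_lit 84) (nat_lit 1) (nat_lit 85) (nat_lit 1) (nat_lit 417) (nat_lit 378) (nat_lit 225)))) (XT.nd (nat_lit 156) (nat_lit 228) (nat_lit 0) (XT.nd (nat_lit 78) (nat_lit 76) (nat_lit 0) (XT.lf (nat_lit 0) (nat_lit 469454249) (nat_lit 0) (nat_lit 1240505674) (nat_lit 152) (nat_lit 469454249) (nat_lit 84) (nat_lit 3) (nat_lit 84) (nat_lit 1) (nat_lit 86) (nat_lit 1) (nat_lit 418) (nat_lit 378) (nat_lit 224)) (XT.lf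 (nat_lit 76) (nat_lit 220213320) (nat_lit 0) (nat_lit 968806936) (nat_lit 76) (nat_lit 968806936) (nat_lit 84) (nat_lit 3) (nat_lit 83) (nat_lit 1) (nat_lit 84) (nat_lit 1) (nat_lit 419) (nat_lit 378) (nat_lit 223))) (XT.nd (nat_lit 78) (nat_lit 76) (nat_lit 0) (XT.lf (nat_lit 152) (nat_lit 1661501280) (nat_lit 0) (nat_lit 237513045) (nat_lit 76) (nat_lit 237513045) (nat_lit 83) (nat_lit 1) (nat_lit 81) (nat_lit 1) (nat_lit 82) (nat_lit 1) (nat_lit 420) (nat_lit 378) (nat_lit 222)) (XT.nd (nat_lit 78) (nat_lit 76) (nat_lit 0) (XT.lf (nat_lit 0) (nat_lit 476745977) (nat_lit 0) (nat_lit 1161815181) (nat_lit 152) (nat_lit 476745977) (nat_lit 81) (nat_lit 3) (nat_lit 81) (nat_lit 1) (nat_lit 83) (nat_lit 1) (nat_lit 421) (nat_lit 378) (nat_lit 221)) (XT.lf (nat_lit 76) (nat_lit 254713914) (nat_lit 0) (nat_lit 919829647) (nat_lit 76) (nat_lit 919829647) (nat_lit 81) (nat_lit 3) (nat_lit 80) (nat_lit 1) (nat_lit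 81) (nat_lit 1) (nat_lit 422) (nat_lit 378) (nat_lit 220)))))) (XT.nd (nat_lit 390) (nat_lit 456) (nat_lit 0) (XT.nd (nat_lit 156) (nat_lit 228) (nat_lit 0) (XT.nd (nat_lit 78) (nat_lit 0) (nat_lit 0) (XT.lf (nat_lit 152) (nat_lit 1651673950) (nat_lit 0) (nat_lit 211027264) (nat_lit 76) (nat_lit 211027264) (nat_lit 80) (nat_lit 1) (nat_lit 78) (nat_lit 1) (nat_lit 79) (nat_lit 1) (nat_lit 423) (nat_lit 378) (nat_lit 219)) (XT.lf (nat_lit 0) (nat_lit 481487438) (nat_lit 0) (nat_lit 1090162553) (nat_lit 152) (nat_lit 481487438) (nat_lit 78) (nat_lit 3) (nat_lit 78) (nat_lit 1) (nat_lit 80) (nat_lit 1) (nat_lit 424) (nat_lit 378) (nat_lit 218))) (XT.nd (nat_lit 78) (nat_lit 152) (nat_lit 0) (XT.lf (nat_lit 76) (nat_lit 283647132) (nat_lit 0) (nat_lit 874593846) (nat_lit 76) (nat_lit 874593846) (nat_lit 78) (nat_lit 3) (nat_lit 77) (nat_lit 1) (nat_lit 78) (nat_lit 1) (nat_lit 425) (nat_lit 378) (nat_lit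 217)) (XT.nd (nat_lit 78) (nat_lit 0) (nat_lit 0) (XT.lf (nat_lit 152) (nat_lit 1637832254) (nat_lit 0) (nat_lit 187494991) (nat_lit 76) (nat_lit 187494991) (nat_lit 77) (nat_lit 1) (nat_lit 75) (nat_lit 1) (nat_lit 76) (nat_lit 1) (nat_lit 426) (nat_lit 378) (nat_lit 216)) (XT.lf (nat_lit 0) (nat_lit 484013617) (nat_lit 0) (nat_lit 1024813573) (nat_lit 152) (nat_lit 484013617) (nat_lit 75) (nat_lit 3) (nat_lit 75) (nat_lit 1) (nat_lit 77) (nat_lit 1) (nat_lit 427) (nat_lit 378) (nat_lit 215))))) (XT.nd (nat_lit 156) (nat_lit 228) (nat_lit 0) (XT.nd (nat_lit 78) (nat_lit 152) (nat_lit 0) (XT.lf (nat_lit 76) (nat_lit 307683908) (nat_lit 0) (nat_lit 832732409) (nat_lit 76) (nat_lit 832732409) (nat_lit 75) (nat_lit 3) (nat_lit 74) (nat_lit 1) (nat_lit 75) (nat_lit 1) (nat_lit 428) (nat_lit 378) (nat_lit 214)) (XT.lf (nat_lit 152) (nat_lit 1620572688) (nat_lit 0) (nat_lit 166586871) (nat_lit 76) (nat_lit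 166586871) (nat_lit 74) (nat_lit 1) (nat_lit 72) (nat_lit 1) (nat_lit 73) (nat_lit 1) (nat_lit 429) (nat_lit 378) (nat_lit 213))) (XT.nd (nat_lit 78) (nat_lit 228) (nat_lit 0) (XT.lf (nat_lit 0) (nat_lit 484620669) (nat_lit 0) (nat_lit 965114426) (nat_lit 152) (nat_lit 484620669) (nat_lit 72) (nat_lit 3) (nat_lit 72) (nat_lit 1) (nat_lit 74) (nat_lit 1) (nat_lit 430) (nat_lit 378) (nat_lit 212)) (XT.nd (nat_lit 78) (nat_lit 152) (nat_lit 0) (XT.lf (nat_lit 76) (nat_lit 327418900) (nat_lit 0) (nat_lit 793917693) (nat_lit 76) (nat_lit 793917693) (nat_lit 72) (nat_lit 3) (nat_lit 71) (nat_lit 1) (nat_lit 72) (nat_lit 1) (nat_lit 431) (nat_lit 378) (nat_lit 211)) (XT.lf (nat_lit 152) (nat_lit 1600420896) (nat_lit 0) (nat_lit 148010277) (nat_lit 76) (nat_lit 148010277) (nat_lit 71) (nat_lit 1) (nat_lit 69) (nat_lit 1) (nat_lit 70) (nat_lit 1) (nat_lit 432) (nat_lit 378) (nat_lit 210))))))))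
noncomputable def ec197 : XT := (XT.nd (nat_lit 1482) (nat_lit 5472) (nat_lit 0) (XT.nd (nat_lit 702) (nat_lit 1520) (nat_lit 0) (XT.nd (nat_lit 312) (nat_lit 0) (nat_lit 152) (XT.nd (nat_lit 156) (nat_lit 0) (nat_lit 76) (XT.nd (nat_lit 78) (nat_lit 0) (nat_lit 0) (XT.lf (nat_lit 1292) (nat_lit 1181180968) (nat_lit 0) (nat_lit 4063811862) (nat_lit 1292) (nat_lit 1181180968) (nat_lit 391) (nat_lit 1) (nat_lit 374) (nat_lit 0) (nat_lit 391) (nat_lit 0) (nat_lit 262) (nat_lit 379) (nat_lit 379)) (XT.lf (nat_lit 1292) (nat_lit 4616075922) (nat_lit 76) (nat_lit 4023970569) (nat_lit 0) (nat_lit 4023970569) (nat_lit 391) (nat_lit 1) (nat_lit 375) (nat_lit 1) (nat_lit 374) (nat_lit 0) (nat_lit 263) (nat_lit 379) (nat_lit 378))) (XT.nd (nat_lit 78) (nat_lit 0) (nat_lit 0) (XT.lf (nat_lit 1292) (nat_lit 2232444376) (nat_lit 0) (nat_lit 8014951950) (nat_lit 1216) (nat_lit 2232444376) (nat_lit 392) (nat_lit 1)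 (nat_lit 375) (nat_lit 1) (nat_lit 391) (nat_lit 1) (nat_lit 264) (nat_lit 379) (nat_lit 377)) (XT.lf (nat_lit 1292) (nat_lit 4239527132) (nat_lit 76) (nat_lit 4029606447) (nat_lit 0) (nat_lit 4029606447) (nat_lit 392) (nat_lit 1) (nat_lit 376) (nat_lit 1) (nat_lit 375) (nat_lit 1) (nat_lit 265) (nat_lit 379) (nat_lit 376)))) (XT.nd (nat_lit 156) (nat_lit 0) (nat_lit 76) (XT.nd (nat_lit 78) (nat_lit 0) (nat_lit 0) (XT.lf (nat_lit 1292) (nat_lit 1989376963) (nat_lit 0) (nat_lit 8142937613) (nat_lit 1216) (nat_lit 1989376963) (nat_lit 393) (nat_lit 1) (nat_lit 376) (nat_lit 1) (nat_lit 392) (nat_lit 1) (nat_lit 266) (nat_lit 379) (nat_lit 375)) (XT.lf (nat_lit 1292) (nat_lit 3645743335) (nat_lit 76) (nat_lit 4150865622) (nat_lit 0) (nat_lit 4150865622) (nat_lit 393) (nat_lit 1) (nat_lit 377) (nat_lit 1) (nat_lit 376) (nat_lit 1) (nat_lit 267) (nat_lit 379) (nat_lit 374))) (XT.nd (nat_lit 78) (nat_lit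 0) (nat_lit 0) (XT.lf (nat_lit 1292) (nat_lit 1643167806) (nat_lit 0) (nat_lit 8490944934) (nat_lit 1216) (nat_lit 1643167806) (nat_lit 394) (nat_lit 1) (nat_lit 377) (nat_lit 1) (nat_lit 393) (nat_lit 1) (nat_lit 268) (nat_lit 379) (nat_lit 373)) (XT.nd (nat_lit 78) (nat_lit 0) (nat_lit 76) (XT.lf (nat_lit 1292) (nat_lit 2854151519) (nat_lit 76) (nat_lit 4377733752) (nat_lit 0) (nat_lit 4377733752) (nat_lit 394) (nat_lit 1) (nat_lit 378) (nat_lit 1) (nat_lit 377) (nat_lit 1) (nat_lit 269) (nat_lit 379) (nat_lit 372)) (XT.lf (nat_lit 1292) (nat_lit 1203148192) (nat_lit 0) (nat_lit 9039721385) (nat_lit 1216) (nat_lit 1203148192) (nat_lit 395) (nat_lit 1) (nat_lit 378) (nat_lit 1) (nat_lit 394) (nat_lit 1) (nat_lit 270) (nat_lit 379) (nat_lit 371)))))) (XT.nd (nat_lit 390) (nat_lit 684) (nat_lit 0) (XT.nd (nat_lit 156) (nat_lit 1140) (nat_lit 0) (XT.nd (nat_lit 78) (nat_lit 0) (nat_lit 76) (XT.lf (nat_lit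 1292) (nat_lit 1882860855) (nat_lit 76) (nat_lit 4700869721) (nat_lit 0) (nat_lit 4700869721) (nat_lit 395) (nat_lit 1) (nat_lit 379) (nat_lit 1) (nat_lit 378) (nat_lit 1) (nat_lit 271) (nat_lit 379) (nat_lit 370)) (XT.lf (nat_lit 1292) (nat_lit 678014417) (nat_lit 0) (nat_lit 9771312495) (nat_lit 1216) (nat_lit 678014417) (nat_lit 396) (nat_lit 1) (nat_lit 379) (nat_lit 1) (nat_lit 395) (nat_lit 1) (nat_lit 272) (nat_lit 379) (nat_lit 369))) (XT.nd (nat_lit 78) (nat_lit 1216) (nat_lit 0) (XT.lf (nat_lit 1292) (nat_lit 748744254) (nat_lit 76) (nat_lit 5111564128) (nat_lit 0) (nat_lit 5111564128) (nat_lit 396) (nat_lit 1) (nat_lit 380) (nat_lit 1) (nat_lit 379) (nat_lit 1) (nat_lit 273) (nat_lit 379) (nat_lit 368)) (XT.nd (nat_lit 78) (nat_lit 1292) (nat_lit 0) (XT.lf (nat_lit 1292) (nat_lit 75867132) (nat_lit 0) (nat_lit 10668981724) (nat_lit 1216) (nat_lit 75867132) (nat_lit 397) (nat_lit 1) (nat_lit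 380) (nat_lit 1) (nat_lit 396) (nat_lit 1) (nat_lit 274) (nat_lit 379) (nat_lit 367)) (XT.lf (nat_lit 1368) (nat_lit 5074333870) (nat_lit 0) (nat_lit 522094244) (nat_lit 1292) (nat_lit 5074333870) (nat_lit 381) (nat_lit 1) (nat_lit 363) (nat_lit 1) (nat_lit 380) (nat_lit 1) (nat_lit 275) (nat_lit 379) (nat_lit 366))))) (XT.nd (nat_lit 156) (nat_lit 684) (nat_lit 0) (XT.nd (nat_lit 78) (nat_lit 0) (nat_lit 76) (XT.lf (nat_lit 1368) (nat_lit 9345119193) (nat_lit 76) (nat_lit 589910952) (nat_lit 0) (nat_lit 589910952) (nat_lit 381) (nat_lit 1) (nat_lit 364) (nat_lit 1) (nat_lit 363) (nat_lit 1) (nat_lit 276) (nat_lit 379) (nat_lit 365)) (XT.lf (nat_lit 1368) (nat_lit 4236224519) (nat_lit 0) (nat_lit 1908223451) (nat_lit 1292) (nat_lit 4236224519) (nat_lit 382) (nat_lit 1) (nat_lit 364) (nat_lit 1) (nat_lit 381) (nat_lit 1) (nat_lit 277) (nat_lit 379) (nat_lit 364))) (XT.nd (nat_lit 78) (nat_lit 760) (nat_lit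 0) (XT.lf (nat_lit 1368) (nat_lit 7606488388) (nat_lit 76) (nat_lit 1316786298) (nat_lit 0) (nat_lit 1316786298) (nat_lit 382) (nat_lit 1) (nat_lit 365) (nat_lit 1) (nat_lit 364) (nat_lit 1) (nat_lit 278) (nat_lit 379) (nat_lit 363)) (XT.nd (nat_lit 78) (nat_lit 836) (nat_lit 0) (XT.lf (nat_lit 76) (nat_lit 3345219063) (nat_lit 0) (nat_lit 3410913287) (nat_lit 1292) (nat_lit 3345219063) (nat_lit 366) (nat_lit 1) (nat_lit 365) (nat_lit 1) (nat_lit 382) (nat_lit 1) (nat_lit 279) (nat_lit 379) (nat_lit 362)) (XT.lf (nat_lit 912) (nat_lit 5767628615) (nat_lit 0) (nat_lit 2099039661) (nat_lit 836) (nat_lit 2099039661) (nat_lit 366) (nat_lit 1) (nat_lit 354) (nat_lit 1) (nat_lit 365) (nat_lit 1) (nat_lit 280) (nat_lit 379) (nat_lit 361))))))) (XT.nd (nat_lit 702) (nat_lit 2508) (nat_lit 0) (XT.nd (nat_lit 312) (nat_lit 1748) (nat_lit 0) (XT.nd (nat_lit 156) (nat_lit 608) (nat_lit 0) (XT.nd (nat_lit 78) (nat_lit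 608) (nat_lit 0) (XT.lf (nat_lit 76) (nat_lit 2407295908) (nat_lit 0) (nat_lit 5017760167) (nat_lit 912) (nat_lit 2407295908) (nat_lit 355) (nat_lit 1) (nat_lit 354) (nat_lit 1) (nat_lit 366) (nat_lit 1) (nat_lit 281) (nat_lit 379) (nat_lit 360)) (XT.lf (nat_lit 684) (nat_lit 3840119643) (nat_lit 0) (nat_lit 2930663856) (nat_lit 608) (nat_lit 2930663856) (nat_lit 355) (nat_lit 1) (nat_lit 346) (nat_lit 1) (nat_lit 354) (nat_lit 1) (nat_lit 282) (nat_lit 379) (nat_lit 359))) (XT.nd (nat_lit 78) (nat_lit 608) (nat_lit 0) (XT.lf (nat_lit 76) (nat_lit 1428004584) (nat_lit 0) (nat_lit 6717238908) (nat_lit 684) (nat_lit 1428004584) (nat_lit 347) (nat_lit 1) (nat_lit 346) (nat_lit 1) (nat_lit 355) (nat_lit 1) (nat_lit 283) (nat_lit 379) (nat_lit 358)) (XT.lf (nat_lit 684) (nat_lit 1834706822) (nat_lit 0) (nat_lit 3806078910) (nat_lit 608) (nat_lit 3806078910) (nat_lit 347) (nat_lit 1) (nat_lit 338) (nat_lit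 1) (nat_lit 346) (nat_lit 1) (nat_lit 284) (nat_lit 379) (nat_lit 357)))) (XT.nd (nat_lit 156) (nat_lit 1140) (nat_lit 0) (XT.nd (nat_lit 78) (nat_lit 608) (nat_lit 0) (XT.lf (nat_lit 76) (nat_lit 412492866) (nat_lit 0) (nat_lit 8498647456) (nat_lit 684) (nat_lit 412492866) (nat_lit 339) (nat_lit 1) (nat_lit 338) (nat_lit 1) (nat_lit 347) (nat_lit 1) (nat_lit 285) (nat_lit 379) (nat_lit 356)) (XT.lf (nat_lit 76) (nat_lit 4483753074) (nat_lit 0) (nat_lit 233989234) (nat_lit 608) (nat_lit 4483753074) (nat_lit 331) (nat_lit 1) (nat_lit 330) (nat_lit 1) (nat_lit 338) (nat_lit 1) (nat_lit 286) (nat_lit 379) (nat_lit 355))) (XT.nd (nat_lit 78) (nat_lit 532) (nat_lit 0) (XT.lf (nat_lit 684) (nat_lit 7825888936) (nat_lit 0) (nat_lit 628247473) (nat_lit 608) (nat_lit 628247473) (nat_lit 331) (nat_lit 1) (nat_lit 322) (nat_lit 1) (nat_lit 330) (nat_lit 1) (nat_lit 287) (nat_lit 379) (nat_lit 354)) (XT.nd (nat_lit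 78) (nat_lit 532) (nat_lit 0) (XT.lf (nat_lit 76) (nat_lit 3320019331) (nat_lit 0) (nat_lit 2324446170) (nat_lit 684) (nat_lit 3320019331) (nat_lit 323) (nat_lit 1) (nat_lit 322) (nat_lit 1) (nat_lit 331) (nat_lit 1) (nat_lit 288) (nat_lit 379) (nat_lit 353)) (XT.lf (nat_lit 608) (nat_lit 5465939028) (nat_lit 0) (nat_lit 1691708479) (nat_lit 532) (nat_lit 1691708479) (nat_lit 323) (nat_lit 1) (nat_lit 315) (nat_lit 1) (nat_lit 322) (nat_lit 1) (nat_lit 289) (nat_lit 379) (nat_lit 352)))))) (XT.nd (nat_lit 390) (nat_lit 912) (nat_lit 0) (XT.nd (nat_lit 156) (nat_lit 1064) (nat_lit 0) (XT.nd (nat_lit 78) (nat_lit 532) (nat_lit 0) (XT.lf (nat_lit 76) (nat_lit 2135959131) (nat_lit 0) (nat_lit 4464085887) (nat_lit 608) (nat_lit 2135959131) (nat_lit 316) (nat_lit 1) (nat_lit 315) (nat_lit 1) (nat_lit 323) (nat_lit 1) (nat_lit 290) (nat_lit 379) (nat_lit 351)) (XT.lf (nat_lit 608) (nat_lit 3068909254) (nat_lit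 0) (nat_lit 2777884922) (nat_lit 532) (nat_lit 2777884922) (nat_lit 316) (nat_lit 1) (nat_lit 308) (nat_lit 1) (nat_lit 315) (nat_lit 1) (nat_lit 291) (nat_lit 379) (nat_lit 350))) (XT.nd (nat_lit 78) (nat_lit 1064) (nat_lit 0) (XT.lf (nat_lit 76) (nat_lit 935277051) (nat_lit 0) (nat_lit 6645157415) (nat_lit 608) (nat_lit 935277051) (nat_lit 309) (nat_lit 1) (nat_lit 308) (nat_lit 1) (nat_lit 316) (nat_lit 1) (nat_lit 292) (nat_lit 379) (nat_lit 349)) (XT.nd (nat_lit 78) (nat_lit 608) (nat_lit 0) (XT.lf (nat_lit 532) (nat_lit 641953896) (nat_lit 0) (nat_lit 3883033160) (nat_lit 456) (nat_lit 3883033160) (nat_lit 309) (nat_lit 1) (nat_lit 302) (nat_lit 1) (nat_lit 308) (nat_lit 1) (nat_lit 293) (nat_lit 379) (nat_lit 348)) (XT.lf (nat_lit 608) (nat_lit 7751202533) (nat_lit 0) (nat_lit 275877448) (nat_lit 532) (nat_lit 275877448) (nat_lit 302) (nat_lit 1) (nat_lit 294) (nat_lit 1) (nat_lit 301) (nat_lit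 1) (nat_lit 294) (nat_lit 379) (nat_lit 347))))) (XT.nd (nat_lit 156) (nat_lit 456) (nat_lit 0) (XT.nd (nat_lit 78) (nat_lit 456) (nat_lit 0) (XT.lf (nat_lit 76) (nat_lit 3212748455) (nat_lit 0) (nat_lit 1773042799) (nat_lit 608) (nat_lit 3212748455) (nat_lit 295) (nat_lit 1) (nat_lit 294) (nat_lit 1) (nat_lit 302) (nat_lit 1) (nat_lit 295) (nat_lit 379) (nat_lit 346)) (XT.lf (nat_lit 532) (nat_lit 5121021301) (nat_lit 0) (nat_lit 1487817844) (nat_lit 456) (nat_lit 1487817844) (nat_lit 295) (nat_lit 1) (nat_lit 288) (nat_lit 1) (nat_lit 294) (nat_lit 1) (nat_lit 296) (nat_lit 379) (nat_lit 345))) (XT.nd (nat_lit 78) (nat_lit 456) (nat_lit 0) (XT.lf (nat_lit 76) (nat_lit 1901918473) (nat_lit 0) (nat_lit 4192427989) (nat_lit 532) (nat_lit 1901918473) (nat_lit 289) (nat_lit 1) (nat_lit 288) (nat_lit 1) (nat_lit 295) (nat_lit 1) (nat_lit 297) (nat_lit 379) (nat_lit 344)) (XT.nd (nat_lit 78) (nat_lit 0)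 (nat_lit 0) (XT.lf (nat_lit 532) (nat_lit 2483914948) (nat_lit 0) (nat_lit 2706842410) (nat_lit 456) (nat_lit 2706842410) (nat_lit 289) (nat_lit 1) (nat_lit 282) (nat_lit 1) (nat_lit 288) (nat_lit 1) (nat_lit 298) (nat_lit 379) (nat_lit 343)) (XT.lf (nat_lit 76) (nat_lit 588922031) (nat_lit 0) (nat_lit 6623247975) (nat_lit 532) (nat_lit 588922031) (nat_lit 283) (nat_lit 1) (nat_lit 282) (nat_lit 1) (nat_lit 289) (nat_lit 1) (nat_lit 299) (nat_lit 379) (nat_lit 342))))))))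
noncomputable def ec198 : XT := (XT.nd (nat_lit 1482) (nat_lit 3192) (nat_lit 0) (XT.nd (nat_lit 702) (nat_lit 2052) (nat_lit 0) (XT.nd (nat_lit 312) (nat_lit 1216) (nat_lit 0) (XT.nd (nat_lit 156) (nat_lit 380) (nat_lit 0) (XT.nd (nat_lit 78) (nat_lit 456) (nat_lit 0) (XT.lf (nat_lit 76) (nat_lit 3776683210) (nat_lit 0) (nat_lit 152092781) (nat_lit 456) (nat_lit 3776683210) (nat_lit 277) (nat_lit 1) (nat_lit 276) (nat_lit 1) (nat_lit 282) (nat_lit 1) (nat_lit 300) (nat_lit 379) (nat_lit 341)) (XT.lf (nat_lit 532) (nat_lit 6178375365) (nat_lit 0) (nat_lit 716765060) (nat_lit 456) (nat_lit 716765060) (nat_lit 277) (nat_lit 1) (nat_lit 270) (nat_lit 1) (nat_lit 276) (nat_lit 1) (nat_lit 301) (nat_lit 379) (nat_lit 340))) (XT.nd (nat_lit 78) (nat_lit 380) (nat_lit 0) (XT.lf (nat_lit 76) (nat_lit 2391130279) (nat_lit 0) (nat_lit 2737034366) (nat_lit 532) (nat_lit 2391130279) (nat_lit 271) (nat_lit 1) (nat_lit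 270) (nat_lit 1) (nat_lit 277) (nat_lit 1) (nat_lit 302) (nat_lit 379) (nat_lit 339)) (XT.lf (nat_lit 456) (nat_lit 3399975621) (nat_lit 0) (nat_lit 2014312287) (nat_lit 380) (nat_lit 2014312287) (nat_lit 271) (nat_lit 1) (nat_lit 265) (nat_lit 1) (nat_lit 270) (nat_lit 1) (nat_lit 303) (nat_lit 379) (nat_lit 338)))) (XT.nd (nat_lit 156) (nat_lit 836) (nat_lit 0) (XT.nd (nat_lit 78) (nat_lit 380) (nat_lit 0) (XT.lf (nat_lit 76) (nat_lit 1012144142) (nat_lit 0) (nat_lit 5315278298) (nat_lit 456) (nat_lit 1012144142) (nat_lit 266) (nat_lit 1) (nat_lit 265) (nat_lit 1) (nat_lit 271) (nat_lit 1) (nat_lit 304) (nat_lit 379) (nat_lit 337)) (XT.lf (nat_lit 456) (nat_lit 636558939) (nat_lit 0) (nat_lit 3307524728) (nat_lit 380) (nat_lit 3307524728) (nat_lit 266) (nat_lit 1) (nat_lit 260) (nat_lit 1) (nat_lit 265) (nat_lit 1) (nat_lit 305) (nat_lit 379) (nat_lit 336))) (XT.nd (nat_lit 78) (nat_lit 380) (nat_lit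 0) (XT.lf (nat_lit 456) (nat_lit 6455589146) (nat_lit 0) (nat_lit 355011865) (nat_lit 380) (nat_lit 355011865) (nat_lit 260) (nat_lit 1) (nat_lit 254) (nat_lit 1) (nat_lit 259) (nat_lit 1) (nat_lit 306) (nat_lit 379) (nat_lit 335)) (XT.nd (nat_lit 78) (nat_lit 380) (nat_lit 0) (XT.lf (nat_lit 76) (nat_lit 2506350675) (nat_lit 0) (nat_lit 2067380853) (nat_lit 456) (nat_lit 2506350675) (nat_lit 255) (nat_lit 1) (nat_lit 254) (nat_lit 1) (nat_lit 260) (nat_lit 1) (nat_lit 307) (nat_lit 379) (nat_lit 334)) (XT.lf (nat_lit 456) (nat_lit 3591570975) (nat_lit 0) (nat_lit 1702440699) (nat_lit 380) (nat_lit 1702440699) (nat_lit 255) (nat_lit 1) (nat_lit 249) (nat_lit 1) (nat_lit 254) (nat_lit 1) (nat_lit 308) (nat_lit 379) (nat_lit 333)))))) (XT.nd (nat_lit 390) (nat_lit 988) (nat_lit 0) (XT.nd (nat_lit 156) (nat_lit 760) (nat_lit 0) (XT.nd (nat_lit 78) (nat_lit 304) (nat_lit 0) (XT.lf (nat_lit 76) (nat_lit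 1088136319) (nat_lit 0) (nat_lit 4737949995) (nat_lit 456) (nat_lit 1088136319) (nat_lit 250) (nat_lit 1) (nat_lit 249) (nat_lit 1) (nat_lit 255) (nat_lit 1) (nat_lit 309) (nat_lit 379) (nat_lit 332)) (XT.lf (nat_lit 380) (nat_lit 755746091) (nat_lit 0) (nat_lit 3038644457) (nat_lit 304) (nat_lit 3038644457) (nat_lit 250) (nat_lit 1) (nat_lit 245) (nat_lit 1) (nat_lit 249) (nat_lit 1) (nat_lit 310) (nat_lit 379) (nat_lit 331))) (XT.nd (nat_lit 78) (nat_lit 304) (nat_lit 0) (XT.lf (nat_lit 456) (nat_lit 6128925073) (nat_lit 0) (nat_lit 312351673) (nat_lit 380) (nat_lit 312351673) (nat_lit 245) (nat_lit 1) (nat_lit 239) (nat_lit 1) (nat_lit 244) (nat_lit 1) (nat_lit 311) (nat_lit 379) (nat_lit 330)) (XT.nd (nat_lit 78) (nat_lit 304) (nat_lit 0) (XT.lf (nat_lit 76) (nat_lit 2332506450) (nat_lit 0) (nat_lit 2009542704) (nat_lit 456) (nat_lit 2332506450) (nat_lit 240) (nat_lit 1) (nat_lit 239) (nat_lit 1)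 (nat_lit 245) (nat_lit 1) (nat_lit 312) (nat_lit 379) (nat_lit 329)) (XT.lf (nat_lit 380) (nat_lit 3224037549) (nat_lit 0) (nat_lit 1686587253) (nat_lit 304) (nat_lit 1686587253) (nat_lit 240) (nat_lit 1) (nat_lit 235) (nat_lit 1) (nat_lit 239) (nat_lit 1) (nat_lit 313) (nat_lit 379) (nat_lit 328))))) (XT.nd (nat_lit 156) (nat_lit 684) (nat_lit 0) (XT.nd (nat_lit 78) (nat_lit 304) (nat_lit 0) (XT.lf (nat_lit 76) (nat_lit 896555594) (nat_lit 0) (nat_lit 4728080298) (nat_lit 380) (nat_lit 896555594) (nat_lit 236) (nat_lit 1) (nat_lit 235) (nat_lit 1) (nat_lit 240) (nat_lit 1) (nat_lit 314) (nat_lit 379) (nat_lit 327)) (XT.lf (nat_lit 380) (nat_lit 357508566) (nat_lit 0) (nat_lit 3044263217) (nat_lit 304) (nat_lit 3044263217) (nat_lit 236) (nat_lit 1) (nat_lit 231) (nat_lit 1) (nat_lit 235) (nat_lit 1) (nat_lit 315) (nat_lit 379) (nat_lit 326))) (XT.nd (nat_lit 78) (nat_lit 304) (nat_lit 0) (XT.lf (nat_lit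 380) (nat_lit 5342735929) (nat_lit 0) (nat_lit 514812880) (nat_lit 304) (nat_lit 514812880) (nat_lit 231) (nat_lit 1) (nat_lit 226) (nat_lit 1) (nat_lit 230) (nat_lit 1) (nat_lit 316) (nat_lit 379) (nat_lit 325)) (XT.nd (nat_lit 78) (nat_lit 304) (nat_lit 0) (XT.lf (nat_lit 76) (nat_lit 1939125351) (nat_lit 0) (nat_lit 2420942677) (nat_lit 380) (nat_lit 1939125351) (nat_lit 227) (nat_lit 1) (nat_lit 226) (nat_lit 1) (nat_lit 231) (nat_lit 1) (nat_lit 317) (nat_lit 379) (nat_lit 324)) (XT.lf (nat_lit 380) (nat_lit 2432685653) (nat_lit 0) (nat_lit 1897389614) (nat_lit 304) (nat_lit 1897389614) (nat_lit 227) (nat_lit 1) (nat_lit 222) (nat_lit 1) (nat_lit 226) (nat_lit 1) (nat_lit 318) (nat_lit 379) (nat_lit 323))))))) (XT.nd (nat_lit 702) (nat_lit 1748) (nat_lit 0) (XT.nd (nat_lit 312) (nat_lit 836) (nat_lit 0) (XT.nd (nat_lit 156) (nat_lit 304) (nat_lit 0) (XT.nd (nat_lit 78) (nat_lit 304) (nat_lit 0)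 (XT.lf (nat_lit 76) (nat_lit 502569222) (nat_lit 0) (nat_lit 5151985586) (nat_lit 380) (nat_lit 502569222) (nat_lit 223) (nat_lit 1) (nat_lit 222) (nat_lit 1) (nat_lit 227) (nat_lit 1) (nat_lit 319) (nat_lit 379) (nat_lit 322)) (XT.lf (nat_lit 76) (nat_lit 2832157000) (nat_lit 0) (nat_lit 422922397) (nat_lit 304) (nat_lit 2832157000) (nat_lit 219) (nat_lit 1) (nat_lit 218) (nat_lit 1) (nat_lit 222) (nat_lit 1) (nat_lit 320) (nat_lit 379) (nat_lit 321))) (XT.nd (nat_lit 78) (nat_lit 0) (nat_lit 0) (XT.lf (nat_lit 380) (nat_lit 4214850397) (nat_lit 0) (nat_lit 901923743) (nat_lit 304) (nat_lit 901923743) (nat_lit 219) (nat_lit 1) (nat_lit 214) (nat_lit 1) (nat_lit 218) (nat_lit 1) (nat_lit 321) (nat_lit 379) (nat_lit 320)) (XT.lf (nat_lit 76) (nat_lit 1382936494) (nat_lit 0) (nat_lit 3185067176) (nat_lit 380) (nat_lit 1382936494) (nat_lit 215) (nat_lit 1) (nat_lit 214) (nat_lit 1) (nat_lit 219) (nat_lit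 1) (nat_lit 322) (nat_lit 379) (nat_lit 319)))) (XT.nd (nat_lit 156) (nat_lit 228) (nat_lit 0) (XT.nd (nat_lit 78) (nat_lit 380) (nat_lit 0) (XT.lf (nat_lit 304) (nat_lit 1327872656) (nat_lit 0) (nat_lit 2278186908) (nat_lit 228) (nat_lit 2278186908) (nat_lit 215) (nat_lit 1) (nat_lit 211) (nat_lit 1) (nat_lit 214) (nat_lit 1) (nat_lit 323) (nat_lit 379) (nat_lit 318)) (XT.lf (nat_lit 380) (nat_lit 5738471736) (nat_lit 0) (nat_lit 40296734) (nat_lit 304) (nat_lit 40296734) (nat_lit 211) (nat_lit 1) (nat_lit 206) (nat_lit 1) (nat_lit 210) (nat_lit 1) (nat_lit 324) (nat_lit 379) (nat_lit 317))) (XT.nd (nat_lit 78) (nat_lit 228) (nat_lit 0) (XT.lf (nat_lit 76) (nat_lit 2137857327) (nat_lit 0) (nat_lit 1478041138) (nat_lit 380) (nat_lit 2137857327) (nat_lit 207) (nat_lit 1) (nat_lit 206) (nat_lit 1) (nat_lit 211) (nat_lit 1) (nat_lit 325) (nat_lit 379) (nat_lit 316)) (XT.nd (nat_lit 78) (nat_lit 0) (nat_lit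 0) (XT.lf (nat_lit 304) (nat_lit 2841071550) (nat_lit 0) (nat_lit 1424427496) (nat_lit 228) (nat_lit 1424427496) (nat_lit 207) (nat_lit 1) (nat_lit 203) (nat_lit 1) (nat_lit 206) (nat_lit 1) (nat_lit 326) (nat_lit 379) (nat_lit 315)) (XT.lf (nat_lit 76) (nat_lit 710042373) (nat_lit 0) (nat_lit 4207052345) (nat_lit 304) (nat_lit 710042373) (nat_lit 204) (nat_lit 1) (nat_lit 203) (nat_lit 1) (nat_lit 207) (nat_lit 1) (nat_lit 327) (nat_lit 379) (nat_lit 314)))))) (XT.nd (nat_lit 390) (nat_lit 684) (nat_lit 0) (XT.nd (nat_lit 156) (nat_lit 532) (nat_lit 0) (XT.nd (nat_lit 78) (nat_lit 228) (nat_lit 0) (XT.lf (nat_lit 76) (nat_lit 2782115016) (nat_lit 0) (nat_lit 744879) (nat_lit 304) (nat_lit 2782115016) (nat_lit 200) (nat_lit 1) (nat_lit 199) (nat_lit 1) (nat_lit 203) (nat_lit 1) (nat_lit 328) (nat_lit 379) (nat_lit 313)) (XT.lf (nat_lit 304) (nat_lit 4137142551) (nat_lit 0) (nat_lit 683340658) (nat_lit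 228) (nat_lit 683340658) (nat_lit 200) (nat_lit 1) (nat_lit 196) (nat_lit 1) (nat_lit 199) (nat_lit 1) (nat_lit 329) (nat_lit 379) (nat_lit 312))) (XT.nd (nat_lit 78) (nat_lit 532) (nat_lit 0) (XT.lf (nat_lit 76) (nat_lit 1355329458) (nat_lit 0) (nat_lit 2732601941) (nat_lit 304) (nat_lit 1355329458) (nat_lit 197) (nat_lit 1) (nat_lit 196) (nat_lit 1) (nat_lit 200) (nat_lit 1) (nat_lit 330) (nat_lit 379) (nat_lit 311)) (XT.nd (nat_lit 78) (nat_lit 304) (nat_lit 0) (XT.lf (nat_lit 304) (nat_lit 1298933133) (nat_lit 0) (nat_lit 2042374193) (nat_lit 228) (nat_lit 2042374193) (nat_lit 197) (nat_lit 1) (nat_lit 193) (nat_lit 1) (nat_lit 196) (nat_lit 1) (nat_lit 331) (nat_lit 379) (nat_lit 310)) (XT.lf (nat_lit 304) (nat_lit 5241707548) (nat_lit 0) (nat_lit 41853185) (nat_lit 228) (nat_lit 41853185) (nat_lit 193) (nat_lit 1) (nat_lit 189) (nat_lit 1) (nat_lit 192) (nat_lit 1) (nat_lit 332) (nat_lit 379)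 (nat_lit 309))))) (XT.nd (nat_lit 156) (nat_lit 456) (nat_lit 0) (XT.nd (nat_lit 78) (nat_lit 228) (nat_lit 0) (XT.lf (nat_lit 76) (nat_lit 1907557723) (nat_lit 0) (nat_lit 1451852714) (nat_lit 304) (nat_lit 1907557723) (nat_lit 190) (nat_lit 1) (nat_lit 189) (nat_lit 1) (nat_lit 193) (nat_lit 1) (nat_lit 333) (nat_lit 379) (nat_lit 308)) (XT.lf (nat_lit 304) (nat_lit 2415840722) (nat_lit 0) (nat_lit 1396984704) (nat_lit 228) (nat_lit 1396984704) (nat_lit 190) (nat_lit 1) (nat_lit 186) (nat_lit 1) (nat_lit 189) (nat_lit 1) (nat_lit 334) (nat_lit 379) (nat_lit 307))) (XT.nd (nat_lit 78) (nat_lit 456) (nat_lit 0) (XT.lf (nat_lit 76) (nat_lit 516701178) (nat_lit 0) (nat_lit 4120217863) (nat_lit 304) (nat_lit 516701178) (nat_lit 187) (nat_lit 1) (nat_lit 186) (nat_lit 1) (nat_lit 190) (nat_lit 1) (nat_lit 335) (nat_lit 379) (nat_lit 306)) (XT.nd (nat_lit 78) (nat_lit 228) (nat_lit 0) (XT.lf (nat_lit 76)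 (nat_lit 2377719024) (nat_lit 0) (nat_lit 342351636) (nat_lit 228) (nat_lit 2377719024) (nat_lit 184) (nat_lit 1) (nat_lit 183) (nat_lit 1) (nat_lit 186) (nat_lit 1) (nat_lit 336) (nat_lit 379) (nat_lit 305)) (XT.lf (nat_lit 304) (nat_lit 3371448490) (nat_lit 0) (nat_lit 835728724) (nat_lit 228) (nat_lit 835728724) (nat_lit 184) (nat_lit 1) (nat_lit 180) (nat_lit 1) (nat_lit 183) (nat_lit 1) (nat_lit 337) (nat_lit 379) (nat_lit 304))))))))
noncomputable def ec199 : XT := (XT.nd (nat_lit 1482) (nat_lit 1824) (nat_lit 0) (XT.nd (nat_lit 702) (nat_lit 1292) (nat_lit 0) (XT.nd (nat_lit 312) (nat_lit 532) (nat_lit 0) (XT.nd (nat_lit 156) (nat_lit 304) (nat_lit 0) (XT.nd (nat_lit 78) (nat_lit 152) (nat_lit 0) (XT.lf (nat_lit 76) (nat_lit 997194314) (nat_lit 0) (nat_lit 2994259867) (nat_lit 304) (nat_lit 997194314) (nat_lit 181) (nat_lit 1) (nat_lit 180) (nat_lit 1) (nat_lit 184) (nat_lit 1) (nat_lit 338)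 (nat_lit 379) (nat_lit 303)) (XT.lf (nat_lit 228) (nat_lit 628081819) (nat_lit 0) (nat_lit 2153517267) (nat_lit 152) (nat_lit 2153517267) (nat_lit 181) (nat_lit 1) (nat_lit 178) (nat_lit 1) (nat_lit 180) (nat_lit 1) (nat_lit 339) (nat_lit 379) (nat_lit 302))) (XT.nd (nat_lit 78) (nat_lit 0) (nat_lit 0) (XT.lf (nat_lit 304) (nat_lit 4184813849) (nat_lit 0) (nat_lit 348869981) (nat_lit 228) (nat_lit 348869981) (nat_lit 178) (nat_lit 1) (nat_lit 174) (nat_lit 1) (nat_lit 177) (nat_lit 1) (nat_lit 340) (nat_lit 379) (nat_lit 301)) (XT.lf (nat_lit 76) (nat_lit 1408433077) (nat_lit 0) (nat_lit 2013273403) (nat_lit 304) (nat_lit 1408433077) (nat_lit 175) (nat_lit 1) (nat_lit 174) (nat_lit 1) (nat_lit 178) (nat_lit 1) (nat_lit 341) (nat_lit 379) (nat_lit 300)))) (XT.nd (nat_lit 156) (nat_lit 380) (nat_lit 0) (XT.nd (nat_lit 78) (nat_lit 0) (nat_lit 0) (XT.lf (nat_lit 228) (nat_lit 1469023622) (nat_lit 0) (nat_lit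 1654826709) (nat_lit 152) (nat_lit 1654826709) (nat_lit 175) (nat_lit 1) (nat_lit 172) (nat_lit 1) (nat_lit 174) (nat_lit 1) (nat_lit 342) (nat_lit 379) (nat_lit 299)) (XT.lf (nat_lit 76) (nat_lit 72946925) (nat_lit 0) (nat_lit 4582395945) (nat_lit 228) (nat_lit 72946925) (nat_lit 173) (nat_lit 1) (nat_lit 172) (nat_lit 1) (nat_lit 175) (nat_lit 1) (nat_lit 343) (nat_lit 379) (nat_lit 298))) (XT.nd (nat_lit 78) (nat_lit 152) (nat_lit 0) (XT.lf (nat_lit 76) (nat_lit 1758596726) (nat_lit 0) (nat_lit 1160526850) (nat_lit 228) (nat_lit 1758596726) (nat_lit 170) (nat_lit 1) (nat_lit 169) (nat_lit 1) (nat_lit 172) (nat_lit 1) (nat_lit 344) (nat_lit 379) (nat_lit 297)) (XT.nd (nat_lit 78) (nat_lit 0) (nat_lit 0) (XT.lf (nat_lit 228) (nat_lit 2189656093) (nat_lit 0) (nat_lit 1219277057) (nat_lit 152) (nat_lit 1219277057) (nat_lit 170) (nat_lit 1) (nat_lit 167) (nat_lit 1) (nat_lit 169) (nat_lit 1) (nat_lit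 345) (nat_lit 379) (nat_lit 296)) (XT.lf (nat_lit 76) (nat_lit 439552554) (nat_lit 0) (nat_lit 3700405600) (nat_lit 228) (nat_lit 439552554) (nat_lit 168) (nat_lit 1) (nat_lit 167) (nat_lit 1) (nat_lit 170) (nat_lit 1) (nat_lit 346) (nat_lit 379) (nat_lit 295)))))) (XT.nd (nat_lit 390) (nat_lit 532) (nat_lit 0) (XT.nd (nat_lit 156) (nat_lit 380) (nat_lit 0) (XT.nd (nat_lit 78) (nat_lit 152) (nat_lit 0) (XT.lf (nat_lit 76) (nat_lit 2054939131) (nat_lit 0) (nat_lit 421170849) (nat_lit 228) (nat_lit 2054939131) (nat_lit 165) (nat_lit 1) (nat_lit 164) (nat_lit 1) (nat_lit 167) (nat_lit 1) (nat_lit 347) (nat_lit 379) (nat_lit 294)) (XT.lf (nat_lit 228) (nat_lit 2804168100) (nat_lit 0) (nat_lit 839607951) (nat_lit 152) (nat_lit 839607951) (nat_lit 165) (nat_lit 1) (nat_lit 162) (nat_lit 1) (nat_lit 164) (nat_lit 1) (nat_lit 348) (nat_lit 379) (nat_lit 293))) (XT.nd (nat_lit 78) (nat_lit 380) (nat_lit 0) (XT.lf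 (nat_lit 76) (nat_lit 754362145) (nat_lit 0) (nat_lit 2927574248) (nat_lit 228) (nat_lit 754362145) (nat_lit 163) (nat_lit 1) (nat_lit 162) (nat_lit 1) (nat_lit 165) (nat_lit 1) (nat_lit 349) (nat_lit 379) (nat_lit 292)) (XT.nd (nat_lit 78) (nat_lit 228) (nat_lit 0) (XT.lf (nat_lit 228) (nat_lit 222310145) (nat_lit 0) (nat_lit 2083719189) (nat_lit 152) (nat_lit 2083719189) (nat_lit 163) (nat_lit 1) (nat_lit 160) (nat_lit 1) (nat_lit 162) (nat_lit 1) (nat_lit 350) (nat_lit 379) (nat_lit 291)) (XT.lf (nat_lit 228) (nat_lit 3325143757) (nat_lit 0) (nat_lit 509375041) (nat_lit 152) (nat_lit 509375041) (nat_lit 160) (nat_lit 1) (nat_lit 157) (nat_lit 1) (nat_lit 159) (nat_lit 1) (nat_lit 351) (nat_lit 379) (nat_lit 290))))) (XT.nd (nat_lit 156) (nat_lit 380) (nat_lit 0) (XT.nd (nat_lit 78) (nat_lit 152) (nat_lit 0) (XT.lf (nat_lit 76) (nat_lit 1023469533) (nat_lit 0) (nat_lit 2251414520) (nat_lit 228) (nat_lit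 1023469533) (nat_lit 158) (nat_lit 1) (nat_lit 157) (nat_lit 1) (nat_lit 160) (nat_lit 1) (nat_lit 352) (nat_lit 379) (nat_lit 289)) (XT.lf (nat_lit 228) (nat_lit 783890947) (nat_lit 0) (nat_lit 1734802954) (nat_lit 152) (nat_lit 1734802954) (nat_lit 158) (nat_lit 1) (nat_lit 155) (nat_lit 1) (nat_lit 157) (nat_lit 1) (nat_lit 353) (nat_lit 379) (nat_lit 288))) (XT.nd (nat_lit 78) (nat_lit 152) (nat_lit 0) (XT.lf (nat_lit 228) (nat_lit 3763742034) (nat_lit 0) (nat_lit 222858806) (nat_lit 152) (nat_lit 222858806) (nat_lit 155) (nat_lit 1) (nat_lit 152) (nat_lit 1) (nat_lit 154) (nat_lit 1) (nat_lit 354) (nat_lit 379) (nat_lit 287)) (XT.nd (nat_lit 78) (nat_lit 152) (nat_lit 0) (XT.lf (nat_lit 76) (nat_lit 1252279752) (nat_lit 0) (nat_lit 1660840718) (nat_lit 228) (nat_lit 1252279752) (nat_lit 153) (nat_lit 1) (nat_lit 152) (nat_lit 1) (nat_lit 155) (nat_lit 1) (nat_lit 355) (nat_lit 379) (nat_lit 286))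 (XT.lf (nat_lit 228) (nat_lit 1265769441) (nat_lit 0) (nat_lit 1428190192) (nat_lit 152) (nat_lit 1428190192) (nat_lit 153) (nat_lit 1) (nat_lit 150) (nat_lit 1) (nat_lit 152) (nat_lit 1) (nat_lit 356) (nat_lit 379) (nat_lit 285))))))) (XT.nd (nat_lit 702) (nat_lit 912) (nat_lit 0) (XT.nd (nat_lit 312) (nat_lit 608) (nat_lit 0) (XT.nd (nat_lit 156) (nat_lit 152) (nat_lit 0) (XT.nd (nat_lit 78) (nat_lit 152) (nat_lit 0) (XT.lf (nat_lit 76) (nat_lit 25264135) (nat_lit 0) (nat_lit 4029265857) (nat_lit 228) (nat_lit 25264135) (nat_lit 151) (nat_lit 1) (nat_lit 150) (nat_lit 1) (nat_lit 153) (nat_lit 1) (nat_lit 357) (nat_lit 379) (nat_lit 284)) (XT.lf (nat_lit 76) (nat_lit 1445586114) (nat_lit 0) (nat_lit 1146012240) (nat_lit 152) (nat_lit 1445586114) (nat_lit 149) (nat_lit 1) (nat_lit 148) (nat_lit 1) (nat_lit 150) (nat_lit 1) (nat_lit 358) (nat_lit 379) (nat_lit 283))) (XT.nd (nat_lit 78) (nat_lit 0)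 (nat_lit 0) (XT.lf (nat_lit 228) (nat_lit 1677330907) (nat_lit 0) (nat_lit 1159064639) (nat_lit 152) (nat_lit 1159064639) (nat_lit 149) (nat_lit 1) (nat_lit 146) (nat_lit 1) (nat_lit 148) (nat_lit 1) (nat_lit 359) (nat_lit 379) (nat_lit 282)) (XT.lf (nat_lit 76) (nat_lit 241118474) (nat_lit 0) (nat_lit 3472230518) (nat_lit 228) (nat_lit 241118474) (nat_lit 147) (nat_lit 1) (nat_lit 146) (nat_lit 1) (nat_lit 149) (nat_lit 1) (nat_lit 360) (nat_lit 379) (nat_lit 281)))) (XT.nd (nat_lit 156) (nat_lit 304) (nat_lit 0) (XT.nd (nat_lit 78) (nat_lit 152) (nat_lit 0) (XT.lf (nat_lit 76) (nat_lit 1607638689) (nat_lit 0) (nat_lit 698194482) (nat_lit 152) (nat_lit 1607638689) (nat_lit 145) (nat_lit 1) (nat_lit 144) (nat_lit 1) (nat_lit 146) (nat_lit 1) (nat_lit 361) (nat_lit 379) (nat_lit 280)) (XT.lf (nat_lit 228) (nat_lit 2026899555) (nat_lit 0) (nat_lit 923149990) (nat_lit 152) (nat_lit 923149990) (nat_lit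 145) (nat_lit 1) (nat_lit 142) (nat_lit 1) (nat_lit 144) (nat_lit 1) (nat_lit 362) (nat_lit 379) (nat_lit 279))) (XT.nd (nat_lit 78) (nat_lit 304) (nat_lit 0) (XT.lf (nat_lit 76) (nat_lit 426533183) (nat_lit 0) (nat_lit 2980449310) (nat_lit 228) (nat_lit 426533183) (nat_lit 143) (nat_lit 1) (nat_lit 142) (nat_lit 1) (nat_lit 145) (nat_lit 1) (nat_lit 363) (nat_lit 379) (nat_lit 278)) (XT.nd (nat_lit 78) (nat_lit 152) (nat_lit 0) (XT.lf (nat_lit 76) (nat_lit 1742205134) (nat_lit 0) (nat_lit 309635249) (nat_lit 152) (nat_lit 1742205134) (nat_lit 141) (nat_lit 1) (nat_lit 140) (nat_lit 1) (nat_lit 142) (nat_lit 1) (nat_lit 364) (nat_lit 379) (nat_lit 277)) (XT.lf (nat_lit 228) (nat_lit 2321857274) (nat_lit 0) (nat_lit 716649595) (nat_lit 152) (nat_lit 716649595) (nat_lit 141) (nat_lit 1) (nat_lit 138) (nat_lit 1) (nat_lit 140) (nat_lit 1) (nat_lit 365) (nat_lit 379) (nat_lit 276)))))) (XT.nd (nat_lit 390)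 (nat_lit 532) (nat_lit 0) (XT.nd (nat_lit 156) (nat_lit 304) (nat_lit 0) (XT.nd (nat_lit 78) (nat_lit 76) (nat_lit 0) (XT.lf (nat_lit 76) (nat_lit 585088180) (nat_lit 0) (nat_lit 2546554169) (nat_lit 228) (nat_lit 585088180) (nat_lit 139) (nat_lit 1) (nat_lit 138) (nat_lit 1) (nat_lit 141) (nat_lit 1) (nat_lit 366) (nat_lit 379) (nat_lit 275)) (XT.lf (nat_lit 152) (nat_lit 27073335) (nat_lit 0) (nat_lit 1825811646) (nat_lit 76) (nat_lit 1825811646) (nat_lit 139) (nat_lit 1) (nat_lit 137) (nat_lit 1) (nat_lit 138) (nat_lit 1) (nat_lit 367) (nat_lit 379) (nat_lit 274))) (XT.nd (nat_lit 78) (nat_lit 76) (nat_lit 0) (XT.lf (nat_lit 228) (nat_lit 2568749117) (nat_lit 0) (nat_lit 536192899) (nat_lit 152) (nat_lit 536192899) (nat_lit 137) (nat_lit 1) (nat_lit 134) (nat_lit 1) (nat_lit 136) (nat_lit 1) (nat_lit 368) (nat_lit 379) (nat_lit 273)) (XT.nd (nat_lit 78) (nat_lit 76) (nat_lit 0) (XT.lf (nat_lit 76)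 (nat_lit 719958777) (nat_lit 0) (nat_lit 2164001329) (nat_lit 228) (nat_lit 719958777) (nat_lit 135) (nat_lit 1) (nat_lit 134) (nat_lit 1) (nat_lit 137) (nat_lit 1) (nat_lit 369) (nat_lit 379) (nat_lit 272)) (XT.lf (nat_lit 152) (nat_lit 322748882) (nat_lit 0) (nat_lit 1622209999) (nat_lit 76) (nat_lit 1622209999) (nat_lit 135) (nat_lit 1) (nat_lit 133) (nat_lit 1) (nat_lit 134) (nat_lit 1) (nat_lit 370) (nat_lit 379) (nat_lit 271))))) (XT.nd (nat_lit 156) (nat_lit 304) (nat_lit 0) (XT.nd (nat_lit 78) (nat_lit 0) (nat_lit 0) (XT.lf (nat_lit 228) (nat_lit 2773377020) (nat_lit 0) (nat_lit 378787840) (nat_lit 152) (nat_lit 378787840) (nat_lit 133) (nat_lit 1) (nat_lit 130) (nat_lit 1) (nat_lit 132) (nat_lit 1) (nat_lit 371) (nat_lit 379) (nat_lit 270)) (XT.lf (nat_lit 76) (nat_lit 833960948) (nat_lit 0) (nat_lit 1826979320) (nat_lit 228) (nat_lit 833960948) (nat_lit 131) (nat_lit 1) (nat_lit 130) (nat_lit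 1) (nat_lit 133) (nat_lit 1) (nat_lit 372) (nat_lit 379) (nat_lit 269))) (XT.nd (nat_lit 78) (nat_lit 228) (nat_lit 0) (XT.lf (nat_lit 152) (nat_lit 576752934) (nat_lit 0) (nat_lit 1441312573) (nat_lit 76) (nat_lit 1441312573) (nat_lit 131) (nat_lit 1) (nat_lit 129) (nat_lit 1) (nat_lit 130) (nat_lit 1) (nat_lit 373) (nat_lit 379) (nat_lit 268)) (XT.nd (nat_lit 78) (nat_lit 0) (nat_lit 0) (XT.lf (nat_lit 228) (nat_lit 2940883057) (nat_lit 0) (nat_lit 241778569) (nat_lit 152) (nat_lit 241778569) (nat_lit 129) (nat_lit 1) (nat_lit 126) (nat_lit 1) (nat_lit 128) (nat_lit 1) (nat_lit 374) (nat_lit 379) (nat_lit 267)) (XT.lf (nat_lit 76) (nat_lit 929591559) (nat_lit 0) (nat_lit 1530327237) (nat_lit 228) (nat_lit 929591559) (nat_lit 127) (nat_lit 1) (nat_lit 126) (nat_lit 1) (nat_lit 129) (nat_lit 1) (nat_lit 375) (nat_lit 379) (nat_lit 266))))))))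
noncomputable def ec200 : XT := (XT.nd (nat_lit 1404) (nat_lit 1444) (nat_lit 0) (XT.nd (nat_lit 702) (nat_lit 684) (nat_lit 0) (XT.nd (nat_lit 312) (nat_lit 456) (nat_lit 0) (XT.nd (nat_lit 156) (nat_lit 76) (nat_lit 0) (XT.nd (nat_lit 78) (nat_lit 228) (nat_lit 0) (XT.lf (nat_lit 152) (nat_lit 793985795) (nat_lit 0) (nat_lit 1280587553) (nat_lit 76) (nat_lit 1280587553) (nat_lit 127) (nat_lit 1) (nat_lit 125) (nat_lit 1) (nat_lit 126) (nat_lit 1) (nat_lit 376) (nat_lit 379) (nat_lit 265)) (XT.lf (nat_lit 228) (nat_lit 3075823395) (nat_lit 0) (nat_lit 122807884) (nat_lit 152) (nat_lit 122807884) (nat_lit 125) (nat_lit 1) (nat_lit 122) (nat_lit 1) (nat_lit 124) (nat_lit 1) (nat_lit 377) (nat_lit 379) (nat_lit 264))) (XT.nd (nat_lit 78) (nat_lit 76) (nat_lit 0) (XT.lf (nat_lit 76) (nat_lit 1009064097) (nat_lit 0) (nat_lit 1269462118) (nat_lit 228) (nat_lit 1009064097) (nat_lit 123) (nat_lit 1) (nat_lit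 122) (nat_lit 1) (nat_lit 125) (nat_lit 1) (nat_lit 378) (nat_lit 379) (nat_lit 263)) (XT.lf (nat_lit 152) (nat_lit 978793944) (nat_lit 0) (nat_lit 1137785455) (nat_lit 76) (nat_lit 1137785455) (nat_lit 123) (nat_lit 1) (nat_lit 121) (nat_lit 1) (nat_lit 122) (nat_lit 1) (nat_lit 379) (nat_lit 379) (nat_lit 262)))) (XT.nd (nat_lit 156) (nat_lit 228) (nat_lit 0) (XT.nd (nat_lit 78) (nat_lit 0) (nat_lit 0) (XT.lf (nat_lit 228) (nat_lit 3182233995) (nat_lit 0) (nat_lit 19783852) (nat_lit 152) (nat_lit 19783852) (nat_lit 121) (nat_lit 1) (nat_lit 118) (nat_lit 1) (nat_lit 120) (nat_lit 1) (nat_lit 380) (nat_lit 379) (nat_lit 261)) (XT.lf (nat_lit 76) (nat_lit 1074340417) (nat_lit 0) (nat_lit 1040314425) (nat_lit 228) (nat_lit 1074340417) (nat_lit 119) (nat_lit 1) (nat_lit 118) (nat_lit 1) (nat_lit 121) (nat_lit 1) (nat_lit 381) (nat_lit 379) (nat_lit 260))) (XT.nd (nat_lit 78) (nat_lit 152) (nat_lit 0)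 (XT.lf (nat_lit 152) (nat_lit 1135032002) (nat_lit 0) (nat_lit 1010907640) (nat_lit 76) (nat_lit 1010907640) (nat_lit 119) (nat_lit 1) (nat_lit 117) (nat_lit 1) (nat_lit 118) (nat_lit 1) (nat_lit 382) (nat_lit 379) (nat_lit 259)) (XT.nd (nat_lit 78) (nat_lit 152) (nat_lit 0) (XT.lf (nat_lit 0) (nat_lit 69834491) (nat_lit 0) (nat_lit 2985639353) (nat_lit 152) (nat_lit 69834491) (nat_lit 117) (nat_lit 3) (nat_lit 117) (nat_lit 1) (nat_lit 119) (nat_lit 1) (nat_lit 383) (nat_lit 379) (nat_lit 258)) (XT.lf (nat_lit 76) (nat_lit 1127158939) (nat_lit 0) (nat_lit 839270722) (nat_lit 152) (nat_lit 1127158939) (nat_lit 116) (nat_lit 1) (nat_lit 115) (nat_lit 1) (nat_lit 117) (nat_lit 1) (nat_lit 384) (nat_lit 379) (nat_lit 257)))))) (XT.nd (nat_lit 312) (nat_lit 380) (nat_lit 0) (XT.nd (nat_lit 156) (nat_lit 228) (nat_lit 0) (XT.nd (nat_lit 78) (nat_lit 0) (nat_lit 0) (XT.lf (nat_lit 152) (nat_lit 1266117796)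 (nat_lit 0) (nat_lit 898178344) (nat_lit 76) (nat_lit 898178344) (nat_lit 116) (nat_lit 1) (nat_lit 114) (nat_lit 1) (nat_lit 115) (nat_lit 1) (nat_lit 385) (nat_lit 379) (nat_lit 256)) (XT.lf (nat_lit 0) (nat_lit 147082210) (nat_lit 0) (nat_lit 2737737065) (nat_lit 152) (nat_lit 147082210) (nat_lit 114) (nat_lit 3) (nat_lit 114) (nat_lit 1) (nat_lit 116) (nat_lit 1) (nat_lit 386) (nat_lit 379) (nat_lit 255))) (XT.nd (nat_lit 78) (nat_lit 76) (nat_lit 0) (XT.lf (nat_lit 76) (nat_lit 1169059705) (nat_lit 0) (nat_lit 663122749) (nat_lit 152) (nat_lit 1169059705) (nat_lit 113) (nat_lit 1) (nat_lit 112) (nat_lit 1) (nat_lit 114) (nat_lit 1) (nat_lit 387) (nat_lit 379) (nat_lit 254)) (XT.lf (nat_lit 152) (nat_lit 1375081267) (nat_lit 0) (nat_lit 798019826) (nat_lit 76) (nat_lit 798019826) (nat_lit 113) (nat_lit 1) (nat_lit 111) (nat_lit 1) (nat_lit 112) (nat_lit 1) (nat_lit 388) (nat_lit 379) (nat_lit 253))))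 (XT.nd (nat_lit 156) (nat_lit 228) (nat_lit 0) (XT.nd (nat_lit 78) (nat_lit 152) (nat_lit 0) (XT.lf (nat_lit 0) (nat_lit 213239055) (nat_lit 0) (nat_lit 2515002339) (nat_lit 152) (nat_lit 213239055) (nat_lit 111) (nat_lit 3) (nat_lit 111) (nat_lit 1) (nat_lit 113) (nat_lit 1) (nat_lit 389) (nat_lit 379) (nat_lit 252)) (XT.lf (nat_lit 76) (nat_lit 1201406626) (nat_lit 0) (nat_lit 509022171) (nat_lit 152) (nat_lit 1201406626) (nat_lit 110) (nat_lit 1) (nat_lit 109) (nat_lit 1) (nat_lit 111) (nat_lit 1) (nat_lit 390) (nat_lit 379) (nat_lit 251))) (XT.nd (nat_lit 78) (nat_lit 152) (nat_lit 0) (XT.lf (nat_lit 152) (nat_lit 1464607918) (nat_lit 0) (nat_lit 709030279) (nat_lit 76) (nat_lit 709030279) (nat_lit 110) (nat_lit 1) (nat_lit 108) (nat_lit 1) (nat_lit 109) (nat_lit 1) (nat_lit 391) (nat_lit 379) (nat_lit 250)) (XT.nd (nat_lit 78) (nat_lit 152) (nat_lit 0) (XT.lf (nat_lit 0) (nat_lit 269613942) (nat_lit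 0) (nat_lit 2314700807) (nat_lit 152) (nat_lit 269613942) (nat_lit 108) (nat_lit 3) (nat_lit 108) (nat_lit 1) (nat_lit 110) (nat_lit 1) (nat_lit 392) (nat_lit 379) (nat_lit 249)) (XT.lf (nat_lit 76) (nat_lit 1225407256) (nat_lit 0) (nat_lit 374440380) (nat_lit 152) (nat_lit 1225407256) (nat_lit 107) (nat_lit 1) (nat_lit 106) (nat_lit 1) (nat_lit 108) (nat_lit 1) (nat_lit 393) (nat_lit 379) (nat_lit 248))))))) (XT.nd (nat_lit 702) (nat_lit 760) (nat_lit 0) (XT.nd (nat_lit 312) (nat_lit 380) (nat_lit 0) (XT.nd (nat_lit 156) (nat_lit 228) (nat_lit 0) (XT.nd (nat_lit 78) (nat_lit 0) (nat_lit 0) (XT.lf (nat_lit 152) (nat_lit 1537077421) (nat_lit 0) (nat_lit 629964219) (nat_lit 76) (nat_lit 629964219) (nat_lit 107) (nat_lit 1) (nat_lit 105) (nat_lit 1) (nat_lit 106) (nat_lit 1) (nat_lit 394) (nat_lit 379) (nat_lit 247)) (XT.lf (nat_lit 0) (nat_lit 317367721) (nat_lit 0) (nat_lit 2134400913) (nat_lit 152)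 (nat_lit 317367721) (nat_lit 105) (nat_lit 3) (nat_lit 105) (nat_lit 1) (nat_lit 107) (nat_lit 1) (nat_lit 395) (nat_lit 379) (nat_lit 246))) (XT.nd (nat_lit 78) (nat_lit 76) (nat_lit 0) (XT.lf (nat_lit 76) (nat_lit 1242130348) (nat_lit 0) (nat_lit 257132781) (nat_lit 152) (nat_lit 1242130348) (nat_lit 104) (nat_lit 1) (nat_lit 103) (nat_lit 1) (nat_lit 105) (nat_lit 1) (nat_lit 396) (nat_lit 379) (nat_lit 245)) (XT.lf (nat_lit 152) (nat_lit 1594597899) (nat_lit 0) (nat_lit 559715050) (nat_lit 76) (nat_lit 559715050) (nat_lit 104) (nat_lit 1) (nat_lit 102) (nat_lit 1) (nat_lit 103) (nat_lit 1) (nat_lit 397) (nat_lit 379) (nat_lit 244)))) (XT.nd (nat_lit 156) (nat_lit 228) (nat_lit 0) (XT.nd (nat_lit 78) (nat_lit 152) (nat_lit 0) (XT.lf (nat_lit 0) (nat_lit 357529756) (nat_lit 0) (nat_lit 1971940213) (nat_lit 152) (nat_lit 357529756) (nat_lit 102) (nat_lit 3) (nat_lit 102) (nat_lit 1) (nat_lit 104) (nat_lit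 1) (nat_lit 398) (nat_lit 379) (nat_lit 243)) (XT.lf (nat_lit 76) (nat_lit 1252521457) (nat_lit 0) (nat_lit 155107061) (nat_lit 152) (nat_lit 1252521457) (nat_lit 101) (nat_lit 1) (nat_lit 100) (nat_lit 1) (nat_lit 102) (nat_lit 1) (nat_lit 399) (nat_lit 379) (nat_lit 242))) (XT.nd (nat_lit 78) (nat_lit 152) (nat_lit 0) (XT.lf (nat_lit 152) (nat_lit 1639036395) (nat_lit 0) (nat_lit 497299572) (nat_lit 76) (nat_lit 497299572) (nat_lit 101) (nat_lit 1) (nat_lit 99) (nat_lit 1) (nat_lit 100) (nat_lit 1) (nat_lit 400) (nat_lit 379) (nat_lit 241)) (XT.nd (nat_lit 78) (nat_lit 152) (nat_lit 0) (XT.lf (nat_lit 0) (nat_lit 391012642) (nat_lit 0) (nat_lit 1825395423) (nat_lit 152) (nat_lit 391012642) (nat_lit 99) (nat_lit 3) (nat_lit 99) (nat_lit 1) (nat_lit 101) (nat_lit 1) (nat_lit 401) (nat_lit 379) (nat_lit 240)) (XT.lf (nat_lit 76) (nat_lit 1257416791) (nat_lit 0) (nat_lit 66594999) (nat_lit 152) (nat_lit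 1257416791) (nat_lit 98) (nat_lit 1) (nat_lit 97) (nat_lit 1) (nat_lit 99) (nat_lit 1) (nat_lit 402) (nat_lit 379) (nat_lit 239)))))) (XT.nd (nat_lit 390) (nat_lit 456) (nat_lit 0) (XT.nd (nat_lit 156) (nat_lit 228) (nat_lit 0) (XT.nd (nat_lit 78) (nat_lit 0) (nat_lit 0) (XT.lf (nat_lit 152) (nat_lit 1672045924) (nat_lit 0) (nat_lit 441844229) (nat_lit 76) (nat_lit 441844229) (nat_lit 98) (nat_lit 1) (nat_lit 96) (nat_lit 1) (nat_lit 97) (nat_lit 1) (nat_lit 403) (nat_lit 379) (nat_lit 238)) (XT.lf (nat_lit 0) (nat_lit 418625284) (nat_lit 0) (nat_lit 1693055806) (nat_lit 152) (nat_lit 418625284) (nat_lit 96) (nat_lit 3) (nat_lit 96) (nat_lit 1) (nat_lit 98) (nat_lit 1) (nat_lit 404) (nat_lit 379) (nat_lit 237))) (XT.nd (nat_lit 78) (nat_lit 152) (nat_lit 0) (XT.lf (nat_lit 76) (nat_lit 10171053) (nat_lit 0) (nat_lit 1247482240) (nat_lit 76) (nat_lit 1247482240) (nat_lit 96) (nat_lit 3) (nat_lit 95)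 (nat_lit 1) (nat_lit 96) (nat_lit 1) (nat_lit 405) (nat_lit 379) (nat_lit 236)) (XT.nd (nat_lit 78) (nat_lit 0) (nat_lit 0) (XT.lf (nat_lit 152) (nat_lit 1695089512) (nat_lit 0) (nat_lit 392572874) (nat_lit 76) (nat_lit 392572874) (nat_lit 95) (nat_lit 1) (nat_lit 93) (nat_lit 1) (nat_lit 94) (nat_lit 1) (nat_lit 406) (nat_lit 379) (nat_lit 235)) (XT.lf (nat_lit 0) (nat_lit 441084517) (nat_lit 0) (nat_lit 1573399529) (nat_lit 152) (nat_lit 441084517) (nat_lit 93) (nat_lit 3) (nat_lit 93) (nat_lit 1) (nat_lit 95) (nat_lit 1) (nat_lit 407) (nat_lit 379) (nat_lit 234))))) (XT.nd (nat_lit 156) (nat_lit 228) (nat_lit 0) (XT.nd (nat_lit 78) (nat_lit 152) (nat_lit 0) (XT.lf (nat_lit 76) (nat_lit 77500367) (nat_lit 0) (nat_lit 1176835330) (nat_lit 76) (nat_lit 1176835330) (nat_lit 93) (nat_lit 3) (nat_lit 92) (nat_lit 1) (nat_lit 93) (nat_lit 1) (nat_lit 408) (nat_lit 379) (nat_lit 233)) (XT.lf (nat_lit 152)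 (nat_lit 1709461547) (nat_lit 0) (nat_lit 348795914) (nat_lit 76) (nat_lit 348795914) (nat_lit 92) (nat_lit 1) (nat_lit 90) (nat_lit 1) (nat_lit 91) (nat_lit 1) (nat_lit 409) (nat_lit 379) (nat_lit 232))) (XT.nd (nat_lit 78) (nat_lit 228) (nat_lit 0) (XT.lf (nat_lit 0) (nat_lit 459025428) (nat_lit 0) (nat_lit 1465072651) (nat_lit 152) (nat_lit 459025428) (nat_lit 90) (nat_lit 3) (nat_lit 90) (nat_lit 1) (nat_lit 92) (nat_lit 1) (nat_lit 410) (nat_lit 379) (nat_lit 231)) (XT.nd (nat_lit 78) (nat_lit 152) (nat_lit 0) (XT.lf (nat_lit 76) (nat_lit 135327507) (nat_lit 0) (nat_lit 1112072383) (nat_lit 76) (nat_lit 1112072383) (nat_lit 90) (nat_lit 3) (nat_lit 89) (nat_lit 1) (nat_lit 90) (nat_lit 1) (nat_lit 411) (nat_lit 379) (nat_lit 230)) (XT.lf (nat_lit 152) (nat_lit 1716306745) (nat_lit 0) (nat_lit 309900652) (nat_lit 76) (nat_lit 309900652) (nat_lit 89) (nat_lit 1) (nat_lit 87) (nat_lit 1) (nat_lit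 88) (nat_lit 1) (nat_lit 412) (nat_lit 379) (nat_lit 229))))))))
noncomputable def ec201 : XT := (XT.nd (nat_lit 1482) (nat_lit 76) (nat_lit 0) (XT.nd (nat_lit 702) (nat_lit 684) (nat_lit 0) (XT.nd (nat_lit 312) (nat_lit 456) (nat_lit 0) (XT.nd (nat_lit 156) (nat_lit 152) (nat_lit 0) (XT.nd (nat_lit 78) (nat_lit 76) (nat_lit 0) (XT.lf (nat_lit 0) (nat_lit 473010524) (nat_lit 0) (nat_lit 1366870451) (nat_lit 152) (nat_lit 473010524) (nat_lit 87) (nat_lit 3) (nat_lit 87) (nat_lit 1) (nat_lit 89) (nat_lit 1) (nat_lit 413) (nat_lit 379) (nat_lit 228)) (XT.lf (nat_lit 76) (nat_lit 184770169) (nat_lit 0) (nat_lit 1052595341) (nat_lit 76) (nat_lit 1052595341) (nat_lit 87) (nat_lit 3) (nat_lit 86) (nat_lit 1) (nat_lit 87) (nat_lit 1) (nat_lit 414) (nat_lit 379) (nat_lit 227))) (XT.nd (nat_lit 78) (nat_lit 0) (nat_lit 0) (XT.lf (nat_lit 152) (nat_lit 1716636994) (nat_lit 0) (nat_lit 275342715) (nat_lit 76) (nat_lit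 275342715) (nat_lit 86) (nat_lit 1) (nat_lit 84) (nat_lit 1) (nat_lit 85) (nat_lit 1) (nat_lit 415) (nat_lit 379) (nat_lit 226)) (XT.lf (nat_lit 0) (nat_lit 483537877) (nat_lit 0) (nat_lit 1277720844) (nat_lit 152) (nat_lit 483537877) (nat_lit 84) (nat_lit 3) (nat_lit 84) (nat_lit 1) (nat_lit 86) (nat_lit 1) (nat_lit 416) (nat_lit 379) (nat_lit 225)))) (XT.nd (nat_lit 156) (nat_lit 228) (nat_lit 0) (XT.nd (nat_lit 78) (nat_lit 152) (nat_lit 0) (XT.lf (nat_lit 76) (nat_lit 226819719) (nat_lit 0) (nat_lit 997871144) (nat_lit 76) (nat_lit 997871144) (nat_lit 84) (nat_lit 3) (nat_lit 83) (nat_lit 1) (nat_lit 84) (nat_lit 1) (nat_lit 417) (nat_lit 379) (nat_lit 224)) (XT.lf (nat_lit 152) (nat_lit 1711346319) (nat_lit 0) (nat_lit 244638436) (nat_lit 76) (nat_lit 244638436) (nat_lit 83) (nat_lit 1) (nat_lit 81) (nat_lit 1) (nat_lit 82) (nat_lit 1) (nat_lit 418) (nat_lit 379) (nat_lit 223))) (XT.nd (nat_lit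 78) (nat_lit 228) (nat_lit 0) (XT.lf (nat_lit 0) (nat_lit 491048356) (nat_lit 0) (nat_lit 1196669637) (nat_lit 152) (nat_lit 491048356) (nat_lit 81) (nat_lit 3) (nat_lit 81) (nat_lit 1) (nat_lit 83) (nat_lit 1) (nat_lit 419) (nat_lit 379) (nat_lit 222)) (XT.nd (nat_lit 78) (nat_lit 152) (nat_lit 0) (XT.lf (nat_lit 76) (nat_lit 262355332) (nat_lit 0) (nat_lit 947424536) (nat_lit 76) (nat_lit 947424536) (nat_lit 81) (nat_lit 3) (nat_lit 80) (nat_lit 1) (nat_lit 81) (nat_lit 1) (nat_lit 420) (nat_lit 379) (nat_lit 221)) (XT.lf (nat_lit 152) (nat_lit 1701224169) (nat_lit 0) (nat_lit 217358082) (nat_lit 76) (nat_lit 217358082) (nat_lit 80) (nat_lit 1) (nat_lit 78) (nat_lit 1) (nat_lit 79) (nat_lit 1) (nat_lit 421) (nat_lit 379) (nat_lit 220)))))) (XT.nd (nat_lit 390) (nat_lit 380) (nat_lit 0) (XT.nd (nat_lit 156) (nat_lit 228) (nat_lit 0) (XT.nd (nat_lit 78) (nat_lit 76) (nat_lit 0) (XT.lf (nat_lit 0) (nat_lit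 495932061) (nat_lit 0) (nat_lit 1122867430) (nat_lit 152) (nat_lit 495932061) (nat_lit 78) (nat_lit 3) (nat_lit 78) (nat_lit 1) (nat_lit 80) (nat_lit 1) (nat_lit 422) (nat_lit 379) (nat_lit 219)) (XT.lf (nat_lit 76) (nat_lit 292156546) (nat_lit 0) (nat_lit 900831661) (nat_lit 76) (nat_lit 900831661) (nat_lit 78) (nat_lit 3) (nat_lit 77) (nat_lit 1) (nat_lit 78) (nat_lit 1) (nat_lit 423) (nat_lit 379) (nat_lit 218))) (XT.nd (nat_lit 78) (nat_lit 76) (nat_lit 0) (XT.lf (nat_lit 152) (nat_lit 1686967222) (nat_lit 0) (nat_lit 193119841) (nat_lit 76) (nat_lit 193119841) (nat_lit 77) (nat_lit 1) (nat_lit 75) (nat_lit 1) (nat_lit 76) (nat_lit 1) (nat_lit 424) (nat_lit 379) (nat_lit 217)) (XT.nd (nat_lit 78) (nat_lit 76) (nat_lit 0) (XT.lf (nat_lit 0) (nat_lit 498534026) (nat_lit 0) (nat_lit 1055557981) (nat_lit 152) (nat_lit 498534026) (nat_lit 75) (nat_lit 3) (nat_lit 75) (nat_lit 1) (nat_lit 77) (nat_lit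 1) (nat_lit 425) (nat_lit 379) (nat_lit 216)) (XT.lf (nat_lit 76) (nat_lit 316914425) (nat_lit 0) (nat_lit 857714382) (nat_lit 76) (nat_lit 857714382) (nat_lit 75) (nat_lit 3) (nat_lit 74) (nat_lit 1) (nat_lit 75) (nat_lit 1) (nat_lit 426) (nat_lit 379) (nat_lit 215))))) (XT.nd (nat_lit 156) (nat_lit 228) (nat_lit 0) (XT.nd (nat_lit 78) (nat_lit 0) (nat_lit 0) (XT.lf (nat_lit 152) (nat_lit 1669189869) (nat_lit 0) (nat_lit 171584477) (nat_lit 76) (nat_lit 171584477) (nat_lit 74) (nat_lit 1) (nat_lit 72) (nat_lit 1) (nat_lit 73) (nat_lit 1) (nat_lit 427) (nat_lit 379) (nat_lit 214)) (XT.lf (nat_lit 0) (nat_lit 499159289) (nat_lit 0) (nat_lit 994067859) (nat_lit 152) (nat_lit 499159289) (nat_lit 72) (nat_lit 3) (nat_lit 72) (nat_lit 1) (nat_lit 74) (nat_lit 1) (nat_lit 428) (nat_lit 379) (nat_lit 213))) (XT.nd (nat_lit 78) (nat_lit 152) (nat_lit 0) (XT.lf (nat_lit 76) (nat_lit 337241468) (nat_lit 0) (nat_lit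 817735224) (nat_lit 76) (nat_lit 817735224) (nat_lit 72) (nat_lit 3) (nat_lit 71) (nat_lit 1) (nat_lit 72) (nat_lit 1) (nat_lit 429) (nat_lit 379) (nat_lit 212)) (XT.nd (nat_lit 78) (nat_lit 0) (nat_lit 0) (XT.lf (nat_lit 152) (nat_lit 1648433522) (nat_lit 0) (nat_lit 152450585) (nat_lit 76) (nat_lit 152450585) (nat_lit 71) (nat_lit 1) (nat_lit 69) (nat_lit 1) (nat_lit 70) (nat_lit 1) (nat_lit 430) (nat_lit 379) (nat_lit 211)) (XT.lf (nat_lit 0) (nat_lit 498077403) (nat_lit 0) (nat_lit 937797257) (nat_lit 152) (nat_lit 498077403) (nat_lit 69) (nat_lit 3) (nat_lit 69) (nat_lit 1) (nat_lit 71) (nat_lit 1) (nat_lit 431) (nat_lit 379) (nat_lit 210))))))) (XT.nd (nat_lit 40326) (nat_lit 0) (nat_lit 22420) (XT.nd (nat_lit 39936) (nat_lit 0) (nat_lit 23332) (XT.nd (nat_lit 39780) (nat_lit 0) (nat_lit 23256) (XT.nd (nat_lit 39702) (nat_lit 0) (nat_lit 23256) (XT.lf (nat_lit 76) (nat_lit 353680409) (nat_lit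 0) (nat_lit 780592888) (nat_lit 76) (nat_lit 780592888) (nat_lit 69) (nat_lit 3) (nat_lit 68) (nat_lit 1) (nat_lit 69) (nat_lit 1) (nat_lit 432) (nat_lit 379) (nat_lit 209)) (XT.lf (nat_lit 1292) (nat_lit 1216616397) (nat_lit 0) (nat_lit 4185726218) (nat_lit 1292) (nat_lit 1216616397) (nat_lit 391) (nat_lit 1) (nat_lit 374) (nat_lit 0) (nat_lit 391) (nat_lit 0) (nat_lit 260) (nat_lit 380) (nat_lit 380))) (XT.nd (nat_lit 78) (nat_lit 0) (nat_lit 76) (XT.lf (nat_lit 1292) (nat_lit 4754558200) (nat_lit 76) (nat_lit 4144689686) (nat_lit 0) (nat_lit 4144689686) (nat_lit 391) (nat_lit 1) (nat_lit 375) (nat_lit 1) (nat_lit 374) (nat_lit 0) (nat_lit 261) (nat_lit 380) (nat_lit 379)) (XT.lf (nat_lit 1292) (nat_lit 2299417707) (nat_lit 0) (nat_lit 8255400509) (nat_lit 1216) (nat_lit 2299417707) (nat_lit 392) (nat_lit 1) (nat_lit 375) (nat_lit 1) (nat_lit 391) (nat_lit 1) (nat_lit 262) (nat_lit 380) (nat_lit 378))))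 (XT.nd (nat_lit 156) (nat_lit 0) (nat_lit 76) (XT.nd (nat_lit 78) (nat_lit 0) (nat_lit 76) (XT.lf (nat_lit 1292) (nat_lit 4366712946) (nat_lit 76) (nat_lit 4150494640) (nat_lit 0) (nat_lit 4150494640) (nat_lit 392) (nat_lit 1) (nat_lit 376) (nat_lit 1) (nat_lit 375) (nat_lit 1) (nat_lit 263) (nat_lit 380) (nat_lit 377)) (XT.lf (nat_lit 1292) (nat_lit 2049058272) (nat_lit 0) (nat_lit 8387225742) (nat_lit 1216) (nat_lit 2049058272) (nat_lit 393) (nat_lit 1) (nat_lit 376) (nat_lit 1) (nat_lit 392) (nat_lit 1) (nat_lit 264) (nat_lit 380) (nat_lit 376))) (XT.nd (nat_lit 78) (nat_lit 0) (nat_lit 76) (XT.lf (nat_lit 1292) (nat_lit 3755115635) (nat_lit 76) (nat_lit 4275391591) (nat_lit 0) (nat_lit 4275391591) (nat_lit 393) (nat_lit 1) (nat_lit 377) (nat_lit 1) (nat_lit 376) (nat_lit 1) (nat_lit 265) (nat_lit 380) (nat_lit 375)) (XT.nd (nat_lit 78) (nat_lit 0) (nat_lit 0) (XT.lf (nat_lit 1292) (nat_lit 1692462840)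 (nat_lit 0) (nat_lit 8745673282) (nat_lit 1216) (nat_lit 1692462840) (nat_lit 394) (nat_lit 1) (nat_lit 377) (nat_lit 1) (nat_lit 393) (nat_lit 1) (nat_lit 266) (nat_lit 380) (nat_lit 374)) (XT.lf (nat_lit 1292) (nat_lit 2939776064) (nat_lit 76) (nat_lit 4509065765) (nat_lit 0) (nat_lit 4509065765) (nat_lit 394) (nat_lit 1) (nat_lit 378) (nat_lit 1) (nat_lit 377) (nat_lit 1) (nat_lit 267) (nat_lit 380) (nat_lit 373)))))) (XT.nd (nat_lit 390) (nat_lit 1140) (nat_lit 0) (XT.nd (nat_lit 156) (nat_lit 0) (nat_lit 76) (XT.nd (nat_lit 78) (nat_lit 0) (nat_lit 0) (XT.lf (nat_lit 1292) (nat_lit 1239242638) (nat_lit 0) (nat_lit 9310913026) (nat_lit 1216) (nat_lit 1239242638) (nat_lit 395) (nat_lit 1) (nat_lit 378) (nat_lit 1) (nat_lit 394) (nat_lit 1) (nat_lit 268) (nat_lit 380) (nat_lit 372)) (XT.lf (nat_lit 1292) (nat_lit 1939346681) (nat_lit 76) (nat_lit 4841895813) (nat_lit 0) (nat_lit 4841895813) (nat_lit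 395) (nat_lit 1) (nat_lit 379) (nat_lit 1) (nat_lit 378) (nat_lit 1) (nat_lit 269) (nat_lit 380) (nat_lit 371))) (XT.nd (nat_lit 78) (nat_lit 0) (nat_lit 0) (XT.lf (nat_lit 1292) (nat_lit 698354849) (nat_lit 0) (nat_lit 10064451870) (nat_lit 1216) (nat_lit 698354849) (nat_lit 396) (nat_lit 1) (nat_lit 379) (nat_lit 1) (nat_lit 395) (nat_lit 1) (nat_lit 270) (nat_lit 380) (nat_lit 370)) (XT.nd (nat_lit 78) (nat_lit 0) (nat_lit 76) (XT.lf (nat_lit 1292) (nat_lit 771206581) (nat_lit 76) (nat_lit 5264911052) (nat_lit 0) (nat_lit 5264911052) (nat_lit 396) (nat_lit 1) (nat_lit 380) (nat_lit 1) (nat_lit 379) (nat_lit 1) (nat_lit 271) (nat_lit 380) (nat_lit 369)) (XT.lf (nat_lit 1292) (nat_lit 78143146) (nat_lit 0) (nat_lit 10989051175) (nat_lit 1216) (nat_lit 78143146) (nat_lit 397) (nat_lit 1) (nat_lit 380) (nat_lit 1) (nat_lit 396) (nat_lit 1) (nat_lit 272) (nat_lit 380) (nat_lit 368))))) (XT.nd (nat_lit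 156) (nat_lit 0) (nat_lit 76) (XT.nd (nat_lit 78) (nat_lit 0) (nat_lit 0) (XT.lf (nat_lit 1368) (nat_lit 5226563887) (nat_lit 0) (nat_lit 537757072) (nat_lit 1292) (nat_lit 5226563887) (nat_lit 381) (nat_lit 1) (nat_lit 363) (nat_lit 1) (nat_lit 380) (nat_lit 1) (nat_lit 273) (nat_lit 380) (nat_lit 367)) (XT.lf (nat_lit 1368) (nat_lit 9625472769) (nat_lit 76) (nat_lit 607608281) (nat_lit 0) (nat_lit 607608281) (nat_lit 381) (nat_lit 1) (nat_lit 364) (nat_lit 1) (nat_lit 363) (nat_lit 1) (nat_lit 274) (nat_lit 380) (nat_lit 366))) (XT.nd (nat_lit 78) (nat_lit 0) (nat_lit 0) (XT.lf (nat_lit 1368) (nat_lit 4363311255) (nat_lit 0) (nat_lit 1965470154) (nat_lit 1292) (nat_lit 4363311255) (nat_lit 382) (nat_lit 1) (nat_lit 364) (nat_lit 1) (nat_lit 381) (nat_lit 1) (nat_lit 275) (nat_lit 380) (nat_lit 365)) (XT.nd (nat_lit 78) (nat_lit 0) (nat_lit 76) (XT.lf (nat_lit 1368) (nat_lit 7834683040) (nat_lit 76)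 (nat_lit 1356289887) (nat_lit 0) (nat_lit 1356289887) (nat_lit 382) (nat_lit 1) (nat_lit 365) (nat_lit 1) (nat_lit 364) (nat_lit 1) (nat_lit 276) (nat_lit 380) (nat_lit 364)) (XT.lf (nat_lit 76) (nat_lit 3445575635) (nat_lit 0) (nat_lit 3513240685) (nat_lit 1292) (nat_lit 3445575635) (nat_lit 366) (nat_lit 1) (nat_lit 365) (nat_lit 1) (nat_lit 382) (nat_lit 1) (nat_lit 277) (nat_lit 380) (nat_lit 363))))))))
noncomputable def ec202 : XT := (XT.nd (nat_lit 1482) (nat_lit 4256) (nat_lit 0) (XT.nd (nat_lit 702) (nat_lit 3040) (nat_lit 0) (XT.nd (nat_lit 312) (nat_lit 1824) (nat_lit 0) (XT.nd (nat_lit 156) (nat_lit 608) (nat_lit 0) (XT.nd (nat_lit 78) (nat_lit 0) (nat_lit 0) (XT.lf (nat_lit 912) (nat_lit 5940657473) (nat_lit 0) (nat_lit 2162010851) (nat_lit 836) (nat_lit 2162010851) (nat_lit 366) (nat_lit 1) (nat_lit 354) (nat_lit 1) (nat_lit 365) (nat_lit 1) (nat_lit 278) (nat_lit 380) (nat_lit 362)) (XT.lf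 (nat_lit 76) (nat_lit 2479514785) (nat_lit 0) (nat_lit 5168292972) (nat_lit 912) (nat_lit 2479514785) (nat_lit 355) (nat_lit 1) (nat_lit 354) (nat_lit 1) (nat_lit 366) (nat_lit 1) (nat_lit 279) (nat_lit 380) (nat_lit 361))) (XT.nd (nat_lit 78) (nat_lit 0) (nat_lit 0) (XT.lf (nat_lit 684) (nat_lit 3955323232) (nat_lit 0) (nat_lit 3018583771) (nat_lit 608) (nat_lit 3018583771) (nat_lit 355) (nat_lit 1) (nat_lit 346) (nat_lit 1) (nat_lit 354) (nat_lit 1) (nat_lit 280) (nat_lit 380) (nat_lit 360)) (XT.lf (nat_lit 76) (nat_lit 1470844721) (nat_lit 0) (nat_lit 6918756075) (nat_lit 684) (nat_lit 1470844721) (nat_lit 347) (nat_lit 1) (nat_lit 346) (nat_lit 1) (nat_lit 355) (nat_lit 1) (nat_lit 281) (nat_lit 380) (nat_lit 359)))) (XT.nd (nat_lit 156) (nat_lit 1216) (nat_lit 0) (XT.nd (nat_lit 78) (nat_lit 0) (nat_lit 0) (XT.lf (nat_lit 684) (nat_lit 1889748026) (nat_lit 0) (nat_lit 3920261277) (nat_lit 608)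 (nat_lit 3920261277) (nat_lit 347) (nat_lit 1) (nat_lit 338) (nat_lit 1) (nat_lit 346) (nat_lit 1) (nat_lit 282) (nat_lit 380) (nat_lit 358)) (XT.lf (nat_lit 76) (nat_lit 424867652) (nat_lit 0) (nat_lit 8753606880) (nat_lit 684) (nat_lit 424867652) (nat_lit 339) (nat_lit 1) (nat_lit 338) (nat_lit 1) (nat_lit 347) (nat_lit 1) (nat_lit 283) (nat_lit 380) (nat_lit 357))) (XT.nd (nat_lit 78) (nat_lit 608) (nat_lit 0) (XT.lf (nat_lit 76) (nat_lit 4618265666) (nat_lit 0) (nat_lit 241008911) (nat_lit 608) (nat_lit 4618265666) (nat_lit 331) (nat_lit 1) (nat_lit 330) (nat_lit 1) (nat_lit 338) (nat_lit 1) (nat_lit 284) (nat_lit 380) (nat_lit 356)) (XT.nd (nat_lit 78) (nat_lit 0) (nat_lit 0) (XT.lf (nat_lit 684) (nat_lit 8060665604) (nat_lit 0) (nat_lit 647094897) (nat_lit 608) (nat_lit 647094897) (nat_lit 331) (nat_lit 1) (nat_lit 322) (nat_lit 1) (nat_lit 330) (nat_lit 1) (nat_lit 285) (nat_lit 380) (nat_lit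 355)) (XT.lf (nat_lit 76) (nat_lit 3419619911) (nat_lit 0) (nat_lit 2394179555) (nat_lit 684) (nat_lit 3419619911) (nat_lit 323) (nat_lit 1) (nat_lit 322) (nat_lit 1) (nat_lit 331) (nat_lit 1) (nat_lit 286) (nat_lit 380) (nat_lit 354)))))) (XT.nd (nat_lit 390) (nat_lit 1520) (nat_lit 0) (XT.nd (nat_lit 156) (nat_lit 988) (nat_lit 0) (XT.nd (nat_lit 78) (nat_lit 0) (nat_lit 0) (XT.lf (nat_lit 608) (nat_lit 5629917199) (nat_lit 0) (nat_lit 1742459733) (nat_lit 532) (nat_lit 1742459733) (nat_lit 323) (nat_lit 1) (nat_lit 315) (nat_lit 1) (nat_lit 322) (nat_lit 1) (nat_lit 287) (nat_lit 380) (nat_lit 353)) (XT.lf (nat_lit 76) (nat_lit 2200037905) (nat_lit 0) (nat_lit 4598008463) (nat_lit 608) (nat_lit 2200037905) (nat_lit 316) (nat_lit 1) (nat_lit 315) (nat_lit 1) (nat_lit 323) (nat_lit 1) (nat_lit 288) (nat_lit 380) (nat_lit 352))) (XT.nd (nat_lit 78) (nat_lit 456) (nat_lit 0) (XT.lf (nat_lit 608) (nat_lit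 3160976532) (nat_lit 0) (nat_lit 2861221470) (nat_lit 532) (nat_lit 2861221470) (nat_lit 316) (nat_lit 1) (nat_lit 308) (nat_lit 1) (nat_lit 315) (nat_lit 1) (nat_lit 289) (nat_lit 380) (nat_lit 351)) (XT.nd (nat_lit 78) (nat_lit 456) (nat_lit 0) (XT.lf (nat_lit 76) (nat_lit 963335362) (nat_lit 0) (nat_lit 6844512138) (nat_lit 608) (nat_lit 963335362) (nat_lit 309) (nat_lit 1) (nat_lit 308) (nat_lit 1) (nat_lit 316) (nat_lit 1) (nat_lit 290) (nat_lit 380) (nat_lit 350)) (XT.lf (nat_lit 532) (nat_lit 661212513) (nat_lit 0) (nat_lit 3999524155) (nat_lit 456) (nat_lit 3999524155) (nat_lit 309) (nat_lit 1) (nat_lit 302) (nat_lit 1) (nat_lit 308) (nat_lit 1) (nat_lit 291) (nat_lit 380) (nat_lit 349))))) (XT.nd (nat_lit 156) (nat_lit 912) (nat_lit 0) (XT.nd (nat_lit 78) (nat_lit 0) (nat_lit 0) (XT.lf (nat_lit 608) (nat_lit 7983738609) (nat_lit 0) (nat_lit 284153771) (nat_lit 532) (nat_lit 284153771) (nat_lit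 302) (nat_lit 1) (nat_lit 294) (nat_lit 1) (nat_lit 301) (nat_lit 1) (nat_lit 292) (nat_lit 380) (nat_lit 348)) (XT.lf (nat_lit 76) (nat_lit 3309130909) (nat_lit 0) (nat_lit 1826234083) (nat_lit 608) (nat_lit 3309130909) (nat_lit 295) (nat_lit 1) (nat_lit 294) (nat_lit 1) (nat_lit 302) (nat_lit 1) (nat_lit 293) (nat_lit 380) (nat_lit 347))) (XT.nd (nat_lit 78) (nat_lit 456) (nat_lit 0) (XT.lf (nat_lit 532) (nat_lit 5274651940) (nat_lit 0) (nat_lit 1532452379) (nat_lit 456) (nat_lit 1532452379) (nat_lit 295) (nat_lit 1) (nat_lit 288) (nat_lit 1) (nat_lit 294) (nat_lit 1) (nat_lit 294) (nat_lit 380) (nat_lit 346)) (XT.nd (nat_lit 78) (nat_lit 456) (nat_lit 0) (XT.lf (nat_lit 76) (nat_lit 1958976027) (nat_lit 0) (nat_lit 4318200829) (nat_lit 532) (nat_lit 1958976027) (nat_lit 289) (nat_lit 1) (nat_lit 288) (nat_lit 1) (nat_lit 295) (nat_lit 1) (nat_lit 295) (nat_lit 380) (nat_lit 345)) (XT.lf (nat_lit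 532) (nat_lit 2558432396) (nat_lit 0) (nat_lit 2788047682) (nat_lit 456) (nat_lit 2788047682) (nat_lit 289) (nat_lit 1) (nat_lit 282) (nat_lit 1) (nat_lit 288) (nat_lit 1) (nat_lit 296) (nat_lit 380) (nat_lit 344))))))) (XT.nd (nat_lit 702) (nat_lit 2128) (nat_lit 0) (XT.nd (nat_lit 312) (nat_lit 1216) (nat_lit 0) (XT.nd (nat_lit 156) (nat_lit 456) (nat_lit 0) (XT.nd (nat_lit 78) (nat_lit 456) (nat_lit 0) (XT.lf (nat_lit 76) (nat_lit 606589692) (nat_lit 0) (nat_lit 6821945414) (nat_lit 532) (nat_lit 606589692) (nat_lit 283) (nat_lit 1) (nat_lit 282) (nat_lit 1) (nat_lit 289) (nat_lit 1) (nat_lit 297) (nat_lit 380) (nat_lit 343)) (XT.lf (nat_lit 76) (nat_lit 3889983707) (nat_lit 0) (nat_lit 156655565) (nat_lit 456) (nat_lit 3889983707) (nat_lit 277) (nat_lit 1) (nat_lit 276) (nat_lit 1) (nat_lit 282) (nat_lit 1) (nat_lit 298) (nat_lit 380) (nat_lit 342))) (XT.nd (nat_lit 78) (nat_lit 0) (nat_lit 0) (XT.lf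 (nat_lit 532) (nat_lit 6363726626) (nat_lit 0) (nat_lit 738268012) (nat_lit 456) (nat_lit 738268012) (nat_lit 277) (nat_lit 1) (nat_lit 270) (nat_lit 1) (nat_lit 276) (nat_lit 1) (nat_lit 299) (nat_lit 380) (nat_lit 341)) (XT.lf (nat_lit 76) (nat_lit 2462864188) (nat_lit 0) (nat_lit 2819145397) (nat_lit 532) (nat_lit 2462864188) (nat_lit 271) (nat_lit 1) (nat_lit 270) (nat_lit 1) (nat_lit 277) (nat_lit 1) (nat_lit 300) (nat_lit 380) (nat_lit 340)))) (XT.nd (nat_lit 156) (nat_lit 836) (nat_lit 0) (XT.nd (nat_lit 78) (nat_lit 0) (nat_lit 0) (XT.lf (nat_lit 456) (nat_lit 3501974889) (nat_lit 0) (nat_lit 2074741656) (nat_lit 380) (nat_lit 2074741656) (nat_lit 271) (nat_lit 1) (nat_lit 265) (nat_lit 1) (nat_lit 270) (nat_lit 1) (nat_lit 301) (nat_lit 380) (nat_lit 339)) (XT.lf (nat_lit 76) (nat_lit 1042508466) (nat_lit 0) (nat_lit 5474736647) (nat_lit 456) (nat_lit 1042508466) (nat_lit 266) (nat_lit 1) (nat_lit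 265) (nat_lit 1) (nat_lit 271) (nat_lit 1) (nat_lit 302) (nat_lit 380) (nat_lit 338))) (XT.nd (nat_lit 78) (nat_lit 456) (nat_lit 0) (XT.lf (nat_lit 456) (nat_lit 655655707) (nat_lit 0) (nat_lit 3406750470) (nat_lit 380) (nat_lit 3406750470) (nat_lit 266) (nat_lit 1) (nat_lit 260) (nat_lit 1) (nat_lit 265) (nat_lit 1) (nat_lit 303) (nat_lit 380) (nat_lit 337)) (XT.nd (nat_lit 78) (nat_lit 0) (nat_lit 0) (XT.lf (nat_lit 456) (nat_lit 6649256820) (nat_lit 0) (nat_lit 365662221) (nat_lit 380) (nat_lit 365662221) (nat_lit 260) (nat_lit 1) (nat_lit 254) (nat_lit 1) (nat_lit 259) (nat_lit 1) (nat_lit 304) (nat_lit 380) (nat_lit 336)) (XT.lf (nat_lit 76) (nat_lit 2581541196) (nat_lit 0) (nat_lit 2129402278) (nat_lit 456) (nat_lit 2581541196) (nat_lit 255) (nat_lit 1) (nat_lit 254) (nat_lit 1) (nat_lit 260) (nat_lit 1) (nat_lit 305) (nat_lit 380) (nat_lit 335)))))) (XT.nd (nat_lit 390) (nat_lit 988) (nat_lit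 0) (XT.nd (nat_lit 156) (nat_lit 760) (nat_lit 0) (XT.nd (nat_lit 78) (nat_lit 0) (nat_lit 0) (XT.lf (nat_lit 456) (nat_lit 3699318105) (nat_lit 0) (nat_lit 1753513920) (nat_lit 380) (nat_lit 1753513920) (nat_lit 255) (nat_lit 1) (nat_lit 249) (nat_lit 1) (nat_lit 254) (nat_lit 1) (nat_lit 306) (nat_lit 380) (nat_lit 334)) (XT.lf (nat_lit 76) (nat_lit 1120780408) (nat_lit 0) (nat_lit 4880088495) (nat_lit 456) (nat_lit 1120780408) (nat_lit 250) (nat_lit 1) (nat_lit 249) (nat_lit 1) (nat_lit 255) (nat_lit 1) (nat_lit 307) (nat_lit 380) (nat_lit 333))) (XT.nd (nat_lit 78) (nat_lit 456) (nat_lit 0) (XT.lf (nat_lit 380) (nat_lit 778418474) (nat_lit 0) (nat_lit 3129803791) (nat_lit 304) (nat_lit 3129803791) (nat_lit 250) (nat_lit 1) (nat_lit 245) (nat_lit 1) (nat_lit 249) (nat_lit 1) (nat_lit 308) (nat_lit 380) (nat_lit 332)) (XT.nd (nat_lit 78) (nat_lit 0) (nat_lit 0) (XT.lf (nat_lit 456) (nat_lit 6312792825)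 (nat_lit 0) (nat_lit 321722223) (nat_lit 380) (nat_lit 321722223) (nat_lit 245) (nat_lit 1) (nat_lit 239) (nat_lit 1) (nat_lit 244) (nat_lit 1) (nat_lit 309) (nat_lit 380) (nat_lit 331)) (XT.lf (nat_lit 76) (nat_lit 2402481644) (nat_lit 0) (nat_lit 2069828985) (nat_lit 456) (nat_lit 2402481644) (nat_lit 240) (nat_lit 1) (nat_lit 239) (nat_lit 1) (nat_lit 245) (nat_lit 1) (nat_lit 310) (nat_lit 380) (nat_lit 330))))) (XT.nd (nat_lit 156) (nat_lit 684) (nat_lit 0) (XT.nd (nat_lit 78) (nat_lit 0) (nat_lit 0) (XT.lf (nat_lit 380) (nat_lit 3320758675) (nat_lit 0) (nat_lit 1737184870) (nat_lit 304) (nat_lit 1737184870) (nat_lit 240) (nat_lit 1) (nat_lit 235) (nat_lit 1) (nat_lit 239) (nat_lit 1) (nat_lit 311) (nat_lit 380) (nat_lit 329)) (XT.lf (nat_lit 76) (nat_lit 923452262) (nat_lit 0) (nat_lit 4869922707) (nat_lit 380) (nat_lit 923452262) (nat_lit 236) (nat_lit 1) (nat_lit 235) (nat_lit 1) (nat_lit 240)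 (nat_lit 1) (nat_lit 312) (nat_lit 380) (nat_lit 328))) (XT.nd (nat_lit 78) (nat_lit 380) (nat_lit 0) (XT.lf (nat_lit 380) (nat_lit 368233823) (nat_lit 0) (nat_lit 3135591113) (nat_lit 304) (nat_lit 3135591113) (nat_lit 236) (nat_lit 1) (nat_lit 231) (nat_lit 1) (nat_lit 235) (nat_lit 1) (nat_lit 313) (nat_lit 380) (nat_lit 327)) (XT.nd (nat_lit 78) (nat_lit 0) (nat_lit 0) (XT.lf (nat_lit 380) (nat_lit 5503018007) (nat_lit 0) (nat_lit 530257266) (nat_lit 304) (nat_lit 530257266) (nat_lit 231) (nat_lit 1) (nat_lit 226) (nat_lit 1) (nat_lit 230) (nat_lit 1) (nat_lit 314) (nat_lit 380) (nat_lit 326)) (XT.lf (nat_lit 76) (nat_lit 1997299112) (nat_lit 0) (nat_lit 2493570957) (nat_lit 380) (nat_lit 1997299112) (nat_lit 227) (nat_lit 1) (nat_lit 226) (nat_lit 1) (nat_lit 231) (nat_lit 1) (nat_lit 315) (nat_lit 380) (nat_lit 325))))))))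
noncomputable def ec203 : XT := (XT.nd (nat_lit 1482) (nat_lit 2356) (nat_lit 0) (XT.nd (nat_lit 702) (nat_lit 1520) (nat_lit 0) (XT.nd (nat_lit 312) (nat_lit 836) (nat_lit 0) (XT.nd (nat_lit 156) (nat_lit 608) (nat_lit 0) (XT.nd (nat_lit 78) (nat_lit 0) (nat_lit 0) (XT.lf (nat_lit 380) (nat_lit 2505666223) (nat_lit 0) (nat_lit 1954311302) (nat_lit 304) (nat_lit 1954311302) (nat_lit 227) (nat_lit 1) (nat_lit 222) (nat_lit 1) (nat_lit 226) (nat_lit 1) (nat_lit 316) (nat_lit 380) (nat_lit 324)) (XT.lf (nat_lit 76) (nat_lit 517646299) (nat_lit 0) (nat_lit 5306545153) (nat_lit 380) (nat_lit 517646299) (nat_lit 223) (nat_lit 1) (nat_lit 222) (nat_lit 1) (nat_lit 227) (nat_lit 1) (nat_lit 317) (nat_lit 380) (nat_lit 323))) (XT.nd (nat_lit 78) (nat_lit 304) (nat_lit 0) (XT.lf (nat_lit 76) (nat_lit 2917121710) (nat_lit 0) (nat_lit 435610069) (nat_lit 304) (nat_lit 2917121710) (nat_lit 219) (nat_lit 1) (nat_lit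 218) (nat_lit 1) (nat_lit 222) (nat_lit 1) (nat_lit 318) (nat_lit 380) (nat_lit 322)) (XT.lf (nat_lit 380) (nat_lit 4341295909) (nat_lit 0) (nat_lit 928981455) (nat_lit 304) (nat_lit 928981455) (nat_lit 219) (nat_lit 1) (nat_lit 214) (nat_lit 1) (nat_lit 218) (nat_lit 1) (nat_lit 319) (nat_lit 380) (nat_lit 321)))) (XT.nd (nat_lit 156) (nat_lit 608) (nat_lit 0) (XT.nd (nat_lit 78) (nat_lit 228) (nat_lit 0) (XT.lf (nat_lit 76) (nat_lit 1424424589) (nat_lit 0) (nat_lit 3280619191) (nat_lit 380) (nat_lit 1424424589) (nat_lit 215) (nat_lit 1) (nat_lit 214) (nat_lit 1) (nat_lit 219) (nat_lit 1) (nat_lit 320) (nat_lit 380) (nat_lit 320)) (XT.lf (nat_lit 304) (nat_lit 1367708836) (nat_lit 0) (nat_lit 2346532515) (nat_lit 228) (nat_lit 2346532515) (nat_lit 215) (nat_lit 1) (nat_lit 211) (nat_lit 1) (nat_lit 214) (nat_lit 1) (nat_lit 321) (nat_lit 380) (nat_lit 319))) (XT.nd (nat_lit 78) (nat_lit 228) (nat_lit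 0) (XT.lf (nat_lit 380) (nat_lit 5910625888) (nat_lit 0) (nat_lit 41505636) (nat_lit 304) (nat_lit 41505636) (nat_lit 211) (nat_lit 1) (nat_lit 206) (nat_lit 1) (nat_lit 210) (nat_lit 1) (nat_lit 322) (nat_lit 380) (nat_lit 318)) (XT.nd (nat_lit 78) (nat_lit 228) (nat_lit 0) (XT.lf (nat_lit 76) (nat_lit 2201993047) (nat_lit 0) (nat_lit 1522382372) (nat_lit 380) (nat_lit 2201993047) (nat_lit 207) (nat_lit 1) (nat_lit 206) (nat_lit 1) (nat_lit 211) (nat_lit 1) (nat_lit 323) (nat_lit 380) (nat_lit 317)) (XT.lf (nat_lit 304) (nat_lit 2926303697) (nat_lit 0) (nat_lit 1467160320) (nat_lit 228) (nat_lit 1467160320) (nat_lit 207) (nat_lit 1) (nat_lit 203) (nat_lit 1) (nat_lit 206) (nat_lit 1) (nat_lit 324) (nat_lit 380) (nat_lit 316)))))) (XT.nd (nat_lit 390) (nat_lit 760) (nat_lit 0) (XT.nd (nat_lit 156) (nat_lit 456) (nat_lit 0) (XT.nd (nat_lit 78) (nat_lit 304) (nat_lit 0) (XT.lf (nat_lit 76) (nat_lit 731343644)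 (nat_lit 0) (nat_lit 4333263916) (nat_lit 304) (nat_lit 731343644) (nat_lit 204) (nat_lit 1) (nat_lit 203) (nat_lit 1) (nat_lit 207) (nat_lit 1) (nat_lit 325) (nat_lit 380) (nat_lit 315)) (XT.lf (nat_lit 76) (nat_lit 2865578467) (nat_lit 0) (nat_lit 767226) (nat_lit 304) (nat_lit 2865578467) (nat_lit 200) (nat_lit 1) (nat_lit 199) (nat_lit 1) (nat_lit 203) (nat_lit 1) (nat_lit 326) (nat_lit 380) (nat_lit 314))) (XT.nd (nat_lit 78) (nat_lit 228) (nat_lit 0) (XT.lf (nat_lit 304) (nat_lit 4261256827) (nat_lit 0) (nat_lit 703840877) (nat_lit 228) (nat_lit 703840877) (nat_lit 200) (nat_lit 1) (nat_lit 196) (nat_lit 1) (nat_lit 199) (nat_lit 1) (nat_lit 327) (nat_lit 380) (nat_lit 313)) (XT.nd (nat_lit 78) (nat_lit 228) (nat_lit 0) (XT.lf (nat_lit 76) (nat_lit 1395989341) (nat_lit 0) (nat_lit 2814579999) (nat_lit 304) (nat_lit 1395989341) (nat_lit 197) (nat_lit 1) (nat_lit 196) (nat_lit 1) (nat_lit 200) (nat_lit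 1) (nat_lit 328) (nat_lit 380) (nat_lit 312)) (XT.lf (nat_lit 304) (nat_lit 1337901127) (nat_lit 0) (nat_lit 2103645419) (nat_lit 228) (nat_lit 2103645419) (nat_lit 197) (nat_lit 1) (nat_lit 193) (nat_lit 1) (nat_lit 196) (nat_lit 1) (nat_lit 329) (nat_lit 380) (nat_lit 311))))) (XT.nd (nat_lit 156) (nat_lit 456) (nat_lit 0) (XT.nd (nat_lit 78) (nat_lit 0) (nat_lit 0) (XT.lf (nat_lit 304) (nat_lit 5398958775) (nat_lit 0) (nat_lit 43108780) (nat_lit 228) (nat_lit 43108780) (nat_lit 193) (nat_lit 1) (nat_lit 189) (nat_lit 1) (nat_lit 192) (nat_lit 1) (nat_lit 330) (nat_lit 380) (nat_lit 310)) (XT.lf (nat_lit 76) (nat_lit 1964784455) (nat_lit 0) (nat_lit 1495408296) (nat_lit 304) (nat_lit 1964784455) (nat_lit 190) (nat_lit 1) (nat_lit 189) (nat_lit 1) (nat_lit 193) (nat_lit 1) (nat_lit 331) (nat_lit 380) (nat_lit 309))) (XT.nd (nat_lit 78) (nat_lit 228) (nat_lit 0) (XT.lf (nat_lit 304) (nat_lit 2488315944)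 (nat_lit 0) (nat_lit 1438894245) (nat_lit 228) (nat_lit 1438894245) (nat_lit 190) (nat_lit 1) (nat_lit 186) (nat_lit 1) (nat_lit 189) (nat_lit 1) (nat_lit 332) (nat_lit 380) (nat_lit 308)) (XT.nd (nat_lit 78) (nat_lit 228) (nat_lit 0) (XT.lf (nat_lit 76) (nat_lit 532202214) (nat_lit 0) (nat_lit 4243824399) (nat_lit 304) (nat_lit 532202214) (nat_lit 187) (nat_lit 1) (nat_lit 186) (nat_lit 1) (nat_lit 190) (nat_lit 1) (nat_lit 333) (nat_lit 380) (nat_lit 307)) (XT.lf (nat_lit 76) (nat_lit 2449050595) (nat_lit 0) (nat_lit 352622185) (nat_lit 228) (nat_lit 2449050595) (nat_lit 184) (nat_lit 1) (nat_lit 183) (nat_lit 1) (nat_lit 186) (nat_lit 1) (nat_lit 334) (nat_lit 380) (nat_lit 306))))))) (XT.nd (nat_lit 702) (nat_lit 1140) (nat_lit 0) (XT.nd (nat_lit 312) (nat_lit 532) (nat_lit 0) (XT.nd (nat_lit 156) (nat_lit 456) (nat_lit 0) (XT.nd (nat_lit 78) (nat_lit 0) (nat_lit 0) (XT.lf (nat_lit 304) (nat_lit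 3472591945) (nat_lit 0) (nat_lit 860800586) (nat_lit 228) (nat_lit 860800586) (nat_lit 184) (nat_lit 1) (nat_lit 180) (nat_lit 1) (nat_lit 183) (nat_lit 1) (nat_lit 335) (nat_lit 380) (nat_lit 305)) (XT.lf (nat_lit 76) (nat_lit 1027110144) (nat_lit 0) (nat_lit 3084087664) (nat_lit 304) (nat_lit 1027110144) (nat_lit 181) (nat_lit 1) (nat_lit 180) (nat_lit 1) (nat_lit 184) (nat_lit 1) (nat_lit 336) (nat_lit 380) (nat_lit 304))) (XT.nd (nat_lit 78) (nat_lit 304) (nat_lit 0) (XT.lf (nat_lit 228) (nat_lit 646924273) (nat_lit 0) (nat_lit 2218122785) (nat_lit 152) (nat_lit 2218122785) (nat_lit 181) (nat_lit 1) (nat_lit 178) (nat_lit 1) (nat_lit 180) (nat_lit 1) (nat_lit 337) (nat_lit 380) (nat_lit 303)) (XT.lf (nat_lit 304) (nat_lit 4310358264) (nat_lit 0) (nat_lit 359336080) (nat_lit 228) (nat_lit 359336080) (nat_lit 178) (nat_lit 1) (nat_lit 174) (nat_lit 1) (nat_lit 177) (nat_lit 1) (nat_lit 338) (nat_lit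 380) (nat_lit 302)))) (XT.nd (nat_lit 156) (nat_lit 380) (nat_lit 0) (XT.nd (nat_lit 78) (nat_lit 152) (nat_lit 0) (XT.lf (nat_lit 76) (nat_lit 1450686069) (nat_lit 0) (nat_lit 2073671605) (nat_lit 304) (nat_lit 1450686069) (nat_lit 175) (nat_lit 1) (nat_lit 174) (nat_lit 1) (nat_lit 178) (nat_lit 1) (nat_lit 339) (nat_lit 380) (nat_lit 301)) (XT.lf (nat_lit 228) (nat_lit 1513094331) (nat_lit 0) (nat_lit 1704471510) (nat_lit 152) (nat_lit 1704471510) (nat_lit 175) (nat_lit 1) (nat_lit 172) (nat_lit 1) (nat_lit 174) (nat_lit 1) (nat_lit 340) (nat_lit 380) (nat_lit 300))) (XT.nd (nat_lit 78) (nat_lit 380) (nat_lit 0) (XT.lf (nat_lit 76) (nat_lit 75135333) (nat_lit 0) (nat_lit 4719867823) (nat_lit 228) (nat_lit 75135333) (nat_lit 173) (nat_lit 1) (nat_lit 172) (nat_lit 1) (nat_lit 175) (nat_lit 1) (nat_lit 341) (nat_lit 380) (nat_lit 299)) (XT.nd (nat_lit 78) (nat_lit 152) (nat_lit 0) (XT.lf (nat_lit 76)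 (nat_lit 1811354627) (nat_lit 0) (nat_lit 1195342655) (nat_lit 228) (nat_lit 1811354627) (nat_lit 170) (nat_lit 1) (nat_lit 169) (nat_lit 1) (nat_lit 172) (nat_lit 1) (nat_lit 342) (nat_lit 380) (nat_lit 298)) (XT.lf (nat_lit 228) (nat_lit 2255345776) (nat_lit 0) (nat_lit 1255855369) (nat_lit 152) (nat_lit 1255855369) (nat_lit 170) (nat_lit 1) (nat_lit 167) (nat_lit 1) (nat_lit 169) (nat_lit 1) (nat_lit 343) (nat_lit 380) (nat_lit 297)))))) (XT.nd (nat_lit 390) (nat_lit 608) (nat_lit 0) (XT.nd (nat_lit 156) (nat_lit 304) (nat_lit 0) (XT.nd (nat_lit 78) (nat_lit 228) (nat_lit 0) (XT.lf (nat_lit 76) (nat_lit 452739130) (nat_lit 0) (nat_lit 3811417768) (nat_lit 228) (nat_lit 452739130) (nat_lit 168) (nat_lit 1) (nat_lit 167) (nat_lit 1) (nat_lit 170) (nat_lit 1) (nat_lit 344) (nat_lit 380) (nat_lit 296)) (XT.lf (nat_lit 76) (nat_lit 2116587305) (nat_lit 0) (nat_lit 433805974) (nat_lit 228) (nat_lit 2116587305)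 (nat_lit 165) (nat_lit 1) (nat_lit 164) (nat_lit 1) (nat_lit 167) (nat_lit 1) (nat_lit 345) (nat_lit 380) (nat_lit 295))) (XT.nd (nat_lit 78) (nat_lit 152) (nat_lit 0) (XT.lf (nat_lit 228) (nat_lit 2888293143) (nat_lit 0) (nat_lit 864796190) (nat_lit 152) (nat_lit 864796190) (nat_lit 165) (nat_lit 1) (nat_lit 162) (nat_lit 1) (nat_lit 164) (nat_lit 1) (nat_lit 346) (nat_lit 380) (nat_lit 294)) (XT.nd (nat_lit 78) (nat_lit 152) (nat_lit 0) (XT.lf (nat_lit 76) (nat_lit 776993009) (nat_lit 0) (nat_lit 3015401476) (nat_lit 228) (nat_lit 776993009) (nat_lit 163) (nat_lit 1) (nat_lit 162) (nat_lit 1) (nat_lit 165) (nat_lit 1) (nat_lit 347) (nat_lit 380) (nat_lit 293)) (XT.lf (nat_lit 228) (nat_lit 228979449) (nat_lit 0) (nat_lit 2146230764) (nat_lit 152) (nat_lit 2146230764) (nat_lit 163) (nat_lit 1) (nat_lit 160) (nat_lit 1) (nat_lit 162) (nat_lit 1) (nat_lit 348) (nat_lit 380) (nat_lit 292))))) (XT.nd (nat_lit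 156) (nat_lit 380) (nat_lit 0) (XT.nd (nat_lit 78) (nat_lit 0) (nat_lit 0) (XT.lf (nat_lit 228) (nat_lit 3424898069) (nat_lit 0) (nat_lit 524656292) (nat_lit 152) (nat_lit 524656292) (nat_lit 160) (nat_lit 1) (nat_lit 157) (nat_lit 1) (nat_lit 159) (nat_lit 1) (nat_lit 349) (nat_lit 380) (nat_lit 291)) (XT.lf (nat_lit 76) (nat_lit 1054173619) (nat_lit 0) (nat_lit 2318956956) (nat_lit 228) (nat_lit 1054173619) (nat_lit 158) (nat_lit 1) (nat_lit 157) (nat_lit 1) (nat_lit 160) (nat_lit 1) (nat_lit 350) (nat_lit 380) (nat_lit 290))) (XT.nd (nat_lit 78) (nat_lit 228) (nat_lit 0) (XT.lf (nat_lit 228) (nat_lit 807407675) (nat_lit 0) (nat_lit 1786847043) (nat_lit 152) (nat_lit 1786847043) (nat_lit 158) (nat_lit 1) (nat_lit 155) (nat_lit 1) (nat_lit 157) (nat_lit 1) (nat_lit 351) (nat_lit 380) (nat_lit 289)) (XT.nd (nat_lit 78) (nat_lit 0) (nat_lit 0) (XT.lf (nat_lit 228) (nat_lit 3876654295) (nat_lit 0) (nat_lit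 229544571) (nat_lit 152) (nat_lit 229544571) (nat_lit 155) (nat_lit 1) (nat_lit 152) (nat_lit 1) (nat_lit 154) (nat_lit 1) (nat_lit 352) (nat_lit 380) (nat_lit 288)) (XT.lf (nat_lit 76) (nat_lit 1289848144) (nat_lit 0) (nat_lit 1710665939) (nat_lit 228) (nat_lit 1289848144) (nat_lit 153) (nat_lit 1) (nat_lit 152) (nat_lit 1) (nat_lit 155) (nat_lit 1) (nat_lit 353) (nat_lit 380) (nat_lit 287))))))))
noncomputable def ec204 : XT := (XT.nd (nat_lit 1404) (nat_lit 1596) (nat_lit 0) (XT.nd (nat_lit 702) (nat_lit 836) (nat_lit 0) (XT.nd (nat_lit 312) (nat_lit 456) (nat_lit 0) (XT.nd (nat_lit 156) (nat_lit 304) (nat_lit 0) (XT.nd (nat_lit 78) (nat_lit 0) (nat_lit 0) (XT.lf (nat_lit 228) (nat_lit 1303742524) (nat_lit 0) (nat_lit 1471035898) (nat_lit 152) (nat_lit 1471035898) (nat_lit 153) (nat_lit 1) (nat_lit 150) (nat_lit 1) (nat_lit 152) (nat_lit 1) (nat_lit 354) (nat_lit 380) (nat_lit 286)) (XT.lf (nat_lit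 76) (nat_lit 26022059) (nat_lit 0) (nat_lit 4150143833) (nat_lit 228) (nat_lit 26022059) (nat_lit 151) (nat_lit 1) (nat_lit 150) (nat_lit 1) (nat_lit 153) (nat_lit 1) (nat_lit 355) (nat_lit 380) (nat_lit 285))) (XT.nd (nat_lit 78) (nat_lit 152) (nat_lit 0) (XT.lf (nat_lit 76) (nat_lit 1488953698) (nat_lit 0) (nat_lit 1180392607) (nat_lit 152) (nat_lit 1488953698) (nat_lit 149) (nat_lit 1) (nat_lit 148) (nat_lit 1) (nat_lit 150) (nat_lit 1) (nat_lit 356) (nat_lit 380) (nat_lit 284)) (XT.lf (nat_lit 228) (nat_lit 1727650834) (nat_lit 0) (nat_lit 1193836579) (nat_lit 152) (nat_lit 1193836579) (nat_lit 149) (nat_lit 1) (nat_lit 146) (nat_lit 1) (nat_lit 148) (nat_lit 1) (nat_lit 357) (nat_lit 380) (nat_lit 283)))) (XT.nd (nat_lit 156) (nat_lit 304) (nat_lit 0) (XT.nd (nat_lit 78) (nat_lit 152) (nat_lit 0) (XT.lf (nat_lit 76) (nat_lit 248352029) (nat_lit 0) (nat_lit 3576397434) (nat_lit 228) (nat_lit 248352029)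 (nat_lit 147) (nat_lit 1) (nat_lit 146) (nat_lit 1) (nat_lit 149) (nat_lit 1) (nat_lit 358) (nat_lit 380) (nat_lit 282)) (XT.lf (nat_lit 76) (nat_lit 1655867850) (nat_lit 0) (nat_lit 719140316) (nat_lit 152) (nat_lit 1655867850) (nat_lit 145) (nat_lit 1) (nat_lit 144) (nat_lit 1) (nat_lit 146) (nat_lit 1) (nat_lit 359) (nat_lit 380) (nat_lit 281))) (XT.nd (nat_lit 78) (nat_lit 152) (nat_lit 0) (XT.lf (nat_lit 228) (nat_lit 2087706542) (nat_lit 0) (nat_lit 950844489) (nat_lit 152) (nat_lit 950844489) (nat_lit 145) (nat_lit 1) (nat_lit 142) (nat_lit 1) (nat_lit 144) (nat_lit 1) (nat_lit 360) (nat_lit 380) (nat_lit 280)) (XT.nd (nat_lit 78) (nat_lit 152) (nat_lit 0) (XT.lf (nat_lit 76) (nat_lit 439329178) (nat_lit 0) (nat_lit 3069862789) (nat_lit 228) (nat_lit 439329178) (nat_lit 143) (nat_lit 1) (nat_lit 142) (nat_lit 1) (nat_lit 145) (nat_lit 1) (nat_lit 361) (nat_lit 380) (nat_lit 279)) (XT.lf (nat_lit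 76) (nat_lit 1794471288) (nat_lit 0) (nat_lit 318924307) (nat_lit 152) (nat_lit 1794471288) (nat_lit 141) (nat_lit 1) (nat_lit 140) (nat_lit 1) (nat_lit 142) (nat_lit 1) (nat_lit 362) (nat_lit 380) (nat_lit 278)))))) (XT.nd (nat_lit 312) (nat_lit 380) (nat_lit 0) (XT.nd (nat_lit 156) (nat_lit 304) (nat_lit 0) (XT.nd (nat_lit 78) (nat_lit 0) (nat_lit 0) (XT.lf (nat_lit 228) (nat_lit 2391512992) (nat_lit 0) (nat_lit 738149083) (nat_lit 152) (nat_lit 738149083) (nat_lit 141) (nat_lit 1) (nat_lit 138) (nat_lit 1) (nat_lit 140) (nat_lit 1) (nat_lit 363) (nat_lit 380) (nat_lit 277)) (XT.lf (nat_lit 76) (nat_lit 602640826) (nat_lit 0) (nat_lit 2622950795) (nat_lit 228) (nat_lit 602640826) (nat_lit 139) (nat_lit 1) (nat_lit 138) (nat_lit 1) (nat_lit 141) (nat_lit 1) (nat_lit 364) (nat_lit 380) (nat_lit 276))) (XT.nd (nat_lit 78) (nat_lit 228) (nat_lit 0) (XT.lf (nat_lit 152) (nat_lit 27885535) (nat_lit 0) (nat_lit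 1880585995) (nat_lit 76) (nat_lit 1880585995) (nat_lit 139) (nat_lit 1) (nat_lit 137) (nat_lit 1) (nat_lit 138) (nat_lit 1) (nat_lit 365) (nat_lit 380) (nat_lit 275)) (XT.lf (nat_lit 228) (nat_lit 2645811590) (nat_lit 0) (nat_lit 552278686) (nat_lit 152) (nat_lit 552278686) (nat_lit 137) (nat_lit 1) (nat_lit 134) (nat_lit 1) (nat_lit 136) (nat_lit 1) (nat_lit 366) (nat_lit 380) (nat_lit 274)))) (XT.nd (nat_lit 156) (nat_lit 304) (nat_lit 0) (XT.nd (nat_lit 78) (nat_lit 76) (nat_lit 0) (XT.lf (nat_lit 76) (nat_lit 741557540) (nat_lit 0) (nat_lit 2228921369) (nat_lit 228) (nat_lit 741557540) (nat_lit 135) (nat_lit 1) (nat_lit 134) (nat_lit 1) (nat_lit 137) (nat_lit 1) (nat_lit 367) (nat_lit 380) (nat_lit 273)) (XT.lf (nat_lit 152) (nat_lit 332431348) (nat_lit 0) (nat_lit 1670876299) (nat_lit 76) (nat_lit 1670876299) (nat_lit 135) (nat_lit 1) (nat_lit 133) (nat_lit 1) (nat_lit 134) (nat_lit 1) (nat_lit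 368) (nat_lit 380) (nat_lit 272))) (XT.nd (nat_lit 78) (nat_lit 76) (nat_lit 0) (XT.lf (nat_lit 228) (nat_lit 2856578331) (nat_lit 0) (nat_lit 390151475) (nat_lit 152) (nat_lit 390151475) (nat_lit 133) (nat_lit 1) (nat_lit 130) (nat_lit 1) (nat_lit 132) (nat_lit 1) (nat_lit 369) (nat_lit 380) (nat_lit 271)) (XT.nd (nat_lit 78) (nat_lit 76) (nat_lit 0) (XT.lf (nat_lit 76) (nat_lit 858979777) (nat_lit 0) (nat_lit 1881788699) (nat_lit 228) (nat_lit 858979777) (nat_lit 131) (nat_lit 1) (nat_lit 130) (nat_lit 1) (nat_lit 133) (nat_lit 1) (nat_lit 370) (nat_lit 380) (nat_lit 270)) (XT.lf (nat_lit 152) (nat_lit 594055522) (nat_lit 0) (nat_lit 1484551950) (nat_lit 76) (nat_lit 1484551950) (nat_lit 131) (nat_lit 1) (nat_lit 129) (nat_lit 1) (nat_lit 130) (nat_lit 1) (nat_lit 371) (nat_lit 380) (nat_lit 269))))))) (XT.nd (nat_lit 702) (nat_lit 684) (nat_lit 0) (XT.nd (nat_lit 312) (nat_lit 380) (nat_lit 0) (XT.nd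 (nat_lit 156) (nat_lit 304) (nat_lit 0) (XT.nd (nat_lit 78) (nat_lit 0) (nat_lit 0) (XT.lf (nat_lit 228) (nat_lit 3029109549) (nat_lit 0) (nat_lit 249031926) (nat_lit 152) (nat_lit 249031926) (nat_lit 129) (nat_lit 1) (nat_lit 126) (nat_lit 1) (nat_lit 128) (nat_lit 1) (nat_lit 372) (nat_lit 380) (nat_lit 268)) (XT.lf (nat_lit 76) (nat_lit 957479306) (nat_lit 0) (nat_lit 1576237054) (nat_lit 228) (nat_lit 957479306) (nat_lit 127) (nat_lit 1) (nat_lit 126) (nat_lit 1) (nat_lit 129) (nat_lit 1) (nat_lit 373) (nat_lit 380) (nat_lit 267))) (XT.nd (nat_lit 78) (nat_lit 228) (nat_lit 0) (XT.lf (nat_lit 152) (nat_lit 817805369) (nat_lit 0) (nat_lit 1319005180) (nat_lit 76) (nat_lit 1319005180) (nat_lit 127) (nat_lit 1) (nat_lit 125) (nat_lit 1) (nat_lit 126) (nat_lit 1) (nat_lit 374) (nat_lit 380) (nat_lit 266)) (XT.lf (nat_lit 228) (nat_lit 3168098097) (nat_lit 0) (nat_lit 126492121) (nat_lit 152) (nat_lit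 126492121) (nat_lit 125) (nat_lit 1) (nat_lit 122) (nat_lit 1) (nat_lit 124) (nat_lit 1) (nat_lit 375) (nat_lit 380) (nat_lit 265)))) (XT.nd (nat_lit 156) (nat_lit 304) (nat_lit 0) (XT.nd (nat_lit 78) (nat_lit 76) (nat_lit 0) (XT.lf (nat_lit 76) (nat_lit 1039336020) (nat_lit 0) (nat_lit 1307545981) (nat_lit 228) (nat_lit 1039336020) (nat_lit 123) (nat_lit 1) (nat_lit 122) (nat_lit 1) (nat_lit 125) (nat_lit 1) (nat_lit 376) (nat_lit 380) (nat_lit 264)) (XT.lf (nat_lit 152) (nat_lit 1008157762) (nat_lit 0) (nat_lit 1171919018) (nat_lit 76) (nat_lit 1171919018) (nat_lit 123) (nat_lit 1) (nat_lit 121) (nat_lit 1) (nat_lit 122) (nat_lit 1) (nat_lit 377) (nat_lit 380) (nat_lit 263))) (XT.nd (nat_lit 78) (nat_lit 76) (nat_lit 0) (XT.lf (nat_lit 228) (nat_lit 3277701015) (nat_lit 0) (nat_lit 20377368) (nat_lit 152) (nat_lit 20377368) (nat_lit 121) (nat_lit 1) (nat_lit 118) (nat_lit 1) (nat_lit 120) (nat_lit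 1) (nat_lit 378) (nat_lit 380) (nat_lit 262)) (XT.nd (nat_lit 78) (nat_lit 76) (nat_lit 0) (XT.lf (nat_lit 76) (nat_lit 1106570629) (nat_lit 0) (nat_lit 1071523857) (nat_lit 228) (nat_lit 1106570629) (nat_lit 119) (nat_lit 1) (nat_lit 118) (nat_lit 1) (nat_lit 121) (nat_lit 1) (nat_lit 379) (nat_lit 380) (nat_lit 261)) (XT.lf (nat_lit 152) (nat_lit 1169082962) (nat_lit 0) (nat_lit 1041234869) (nat_lit 76) (nat_lit 1041234869) (nat_lit 119) (nat_lit 1) (nat_lit 117) (nat_lit 1) (nat_lit 118) (nat_lit 1) (nat_lit 380) (nat_lit 380) (nat_lit 260)))))) (XT.nd (nat_lit 390) (nat_lit 304) (nat_lit 0) (XT.nd (nat_lit 156) (nat_lit 228) (nat_lit 0) (XT.nd (nat_lit 78) (nat_lit 152) (nat_lit 0) (XT.lf (nat_lit 0) (nat_lit 71929525) (nat_lit 0) (nat_lit 3075208534) (nat_lit 152) (nat_lit 71929525) (nat_lit 117) (nat_lit 3) (nat_lit 117) (nat_lit 1) (nat_lit 119) (nat_lit 1) (nat_lit 381) (nat_lit 380) (nat_lit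 259)) (XT.lf (nat_lit 76) (nat_lit 1160973708) (nat_lit 0) (nat_lit 864448844) (nat_lit 152) (nat_lit 1160973708) (nat_lit 116) (nat_lit 1) (nat_lit 115) (nat_lit 1) (nat_lit 117) (nat_lit 1) (nat_lit 382) (nat_lit 380) (nat_lit 258))) (XT.nd (nat_lit 78) (nat_lit 152) (nat_lit 0) (XT.lf (nat_lit 152) (nat_lit 1304101330) (nat_lit 0) (nat_lit 925123695) (nat_lit 76) (nat_lit 925123695) (nat_lit 116) (nat_lit 1) (nat_lit 114) (nat_lit 1) (nat_lit 115) (nat_lit 1) (nat_lit 383) (nat_lit 380) (nat_lit 257)) (XT.nd (nat_lit 78) (nat_lit 152) (nat_lit 0) (XT.lf (nat_lit 0) (nat_lit 151494676) (nat_lit 0) (nat_lit 2819869177) (nat_lit 152) (nat_lit 151494676) (nat_lit 114) (nat_lit 3) (nat_lit 114) (nat_lit 1) (nat_lit 116) (nat_lit 1) (nat_lit 384) (nat_lit 380) (nat_lit 256)) (XT.lf (nat_lit 76) (nat_lit 1204131496) (nat_lit 0) (nat_lit 683016432) (nat_lit 152) (nat_lit 1204131496) (nat_lit 113) (nat_lit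 1) (nat_lit 112) (nat_lit 1) (nat_lit 114) (nat_lit 1) (nat_lit 385) (nat_lit 380) (nat_lit 255))))) (XT.nd (nat_lit 156) (nat_lit 228) (nat_lit 0) (XT.nd (nat_lit 78) (nat_lit 0) (nat_lit 0) (XT.lf (nat_lit 152) (nat_lit 1416333705) (nat_lit 0) (nat_lit 821960420) (nat_lit 76) (nat_lit 821960420) (nat_lit 113) (nat_lit 1) (nat_lit 111) (nat_lit 1) (nat_lit 112) (nat_lit 1) (nat_lit 386) (nat_lit 380) (nat_lit 254)) (XT.lf (nat_lit 0) (nat_lit 219636227) (nat_lit 0) (nat_lit 2590452410) (nat_lit 152) (nat_lit 219636227) (nat_lit 111) (nat_lit 3) (nat_lit 111) (nat_lit 1) (nat_lit 113) (nat_lit 1) (nat_lit 387) (nat_lit 380) (nat_lit 253))) (XT.nd (nat_lit 78) (nat_lit 76) (nat_lit 0) (XT.lf (nat_lit 76) (nat_lit 1237448825) (nat_lit 0) (nat_lit 524292836) (nat_lit 152) (nat_lit 1237448825) (nat_lit 110) (nat_lit 1) (nat_lit 109) (nat_lit 1) (nat_lit 111) (nat_lit 1) (nat_lit 388) (nat_lit 380) (nat_lit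 252)) (XT.nd (nat_lit 78) (nat_lit 0) (nat_lit 0) (XT.lf (nat_lit 152) (nat_lit 1508546156) (nat_lit 0) (nat_lit 730301187) (nat_lit 76) (nat_lit 730301187) (nat_lit 110) (nat_lit 1) (nat_lit 108) (nat_lit 1) (nat_lit 109) (nat_lit 1) (nat_lit 389) (nat_lit 380) (nat_lit 251)) (XT.lf (nat_lit 0) (nat_lit 277702360) (nat_lit 0) (nat_lit 2384141831) (nat_lit 152) (nat_lit 277702360) (nat_lit 108) (nat_lit 3) (nat_lit 108) (nat_lit 1) (nat_lit 110) (nat_lit 1) (nat_lit 390) (nat_lit 380) (nat_lit 250))))))))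
noncomputable def ec205 : XT := (XT.nd (nat_lit 1482) (nat_lit 1520) (nat_lit 0) (XT.nd (nat_lit 702) (nat_lit 760) (nat_lit 0) (XT.nd (nat_lit 312) (nat_lit 304) (nat_lit 0) (XT.nd (nat_lit 156) (nat_lit 152) (nat_lit 0) (XT.nd (nat_lit 78) (nat_lit 76) (nat_lit 0) (XT.lf (nat_lit 76) (nat_lit 1262169473) (nat_lit 0) (nat_lit 385673591) (nat_lit 152) (nat_lit 1262169473) (nat_lit 107) (nat_lit 1) (nat_lit 106) (nat_lit 1) (nat_lit 108) (nat_lit 1) (nat_lit 391) (nat_lit 380) (nat_lit 249)) (XT.lf (nat_lit 152) (nat_lit 1583189743) (nat_lit 0) (nat_lit 648863146) (nat_lit 76) (nat_lit 648863146) (nat_lit 107) (nat_lit 1) (nat_lit 105) (nat_lit 1) (nat_lit 106) (nat_lit 1) (nat_lit 392) (nat_lit 380) (nat_lit 248))) (XT.nd (nat_lit 78) (nat_lit 152) (nat_lit 0) (XT.lf (nat_lit 0) (nat_lit 326888753) (nat_lit 0) (nat_lit 2198432940) (nat_lit 152) (nat_lit 326888753) (nat_lit 105) (nat_lit 3) (nat_lit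 105) (nat_lit 1) (nat_lit 107) (nat_lit 1) (nat_lit 393) (nat_lit 380) (nat_lit 247)) (XT.lf (nat_lit 76) (nat_lit 1279394258) (nat_lit 0) (nat_lit 264846764) (nat_lit 152) (nat_lit 1279394258) (nat_lit 104) (nat_lit 1) (nat_lit 103) (nat_lit 1) (nat_lit 105) (nat_lit 1) (nat_lit 394) (nat_lit 380) (nat_lit 246)))) (XT.nd (nat_lit 156) (nat_lit 228) (nat_lit 0) (XT.nd (nat_lit 78) (nat_lit 0) (nat_lit 0) (XT.lf (nat_lit 152) (nat_lit 1642435836) (nat_lit 0) (nat_lit 576506501) (nat_lit 76) (nat_lit 576506501) (nat_lit 104) (nat_lit 1) (nat_lit 102) (nat_lit 1) (nat_lit 103) (nat_lit 1) (nat_lit 395) (nat_lit 380) (nat_lit 245)) (XT.lf (nat_lit 0) (nat_lit 368255649) (nat_lit 0) (nat_lit 2031098419) (nat_lit 152) (nat_lit 368255649) (nat_lit 102) (nat_lit 3) (nat_lit 102) (nat_lit 1) (nat_lit 104) (nat_lit 1) (nat_lit 396) (nat_lit 380) (nat_lit 244))) (XT.nd (nat_lit 78) (nat_lit 76) (nat_lit 0) (XT.lf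 (nat_lit 76) (nat_lit 1290097100) (nat_lit 0) (nat_lit 159760273) (nat_lit 152) (nat_lit 1290097100) (nat_lit 101) (nat_lit 1) (nat_lit 100) (nat_lit 1) (nat_lit 102) (nat_lit 1) (nat_lit 397) (nat_lit 380) (nat_lit 243)) (XT.nd (nat_lit 78) (nat_lit 0) (nat_lit 0) (XT.lf (nat_lit 152) (nat_lit 1688207487) (nat_lit 0) (nat_lit 512218559) (nat_lit 76) (nat_lit 512218559) (nat_lit 101) (nat_lit 1) (nat_lit 99) (nat_lit 1) (nat_lit 100) (nat_lit 1) (nat_lit 398) (nat_lit 380) (nat_lit 242)) (XT.lf (nat_lit 0) (nat_lit 402743021) (nat_lit 0) (nat_lit 1880157285) (nat_lit 152) (nat_lit 402743021) (nat_lit 99) (nat_lit 3) (nat_lit 99) (nat_lit 1) (nat_lit 101) (nat_lit 1) (nat_lit 399) (nat_lit 380) (nat_lit 241)))))) (XT.nd (nat_lit 390) (nat_lit 304) (nat_lit 0) (XT.nd (nat_lit 156) (nat_lit 228) (nat_lit 0) (XT.nd (nat_lit 78) (nat_lit 76) (nat_lit 0) (XT.lf (nat_lit 76) (nat_lit 1295139295) (nat_lit 0)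 (nat_lit 68592849) (nat_lit 152) (nat_lit 1295139295) (nat_lit 98) (nat_lit 1) (nat_lit 97) (nat_lit 1) (nat_lit 99) (nat_lit 1) (nat_lit 400) (nat_lit 380) (nat_lit 240)) (XT.lf (nat_lit 152) (nat_lit 1722207302) (nat_lit 0) (nat_lit 455099555) (nat_lit 76) (nat_lit 455099555) (nat_lit 98) (nat_lit 1) (nat_lit 96) (nat_lit 1) (nat_lit 97) (nat_lit 1) (nat_lit 401) (nat_lit 380) (nat_lit 239))) (XT.nd (nat_lit 78) (nat_lit 228) (nat_lit 0) (XT.lf (nat_lit 0) (nat_lit 431184042) (nat_lit 0) (nat_lit 1743847480) (nat_lit 152) (nat_lit 431184042) (nat_lit 96) (nat_lit 3) (nat_lit 96) (nat_lit 1) (nat_lit 98) (nat_lit 1) (nat_lit 402) (nat_lit 380) (nat_lit 238)) (XT.nd (nat_lit 78) (nat_lit 152) (nat_lit 0) (XT.lf (nat_lit 76) (nat_lit 10476185) (nat_lit 0) (nat_lit 1284906707) (nat_lit 76) (nat_lit 1284906707) (nat_lit 96) (nat_lit 3) (nat_lit 95) (nat_lit 1) (nat_lit 96) (nat_lit 1) (nat_lit 403) (nat_lit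 380) (nat_lit 237)) (XT.lf (nat_lit 152) (nat_lit 1745942197) (nat_lit 0) (nat_lit 404350060) (nat_lit 76) (nat_lit 404350060) (nat_lit 95) (nat_lit 1) (nat_lit 93) (nat_lit 1) (nat_lit 94) (nat_lit 1) (nat_lit 404) (nat_lit 380) (nat_lit 236))))) (XT.nd (nat_lit 156) (nat_lit 228) (nat_lit 0) (XT.nd (nat_lit 78) (nat_lit 76) (nat_lit 0) (XT.lf (nat_lit 0) (nat_lit 454317052) (nat_lit 0) (nat_lit 1620601515) (nat_lit 152) (nat_lit 454317052) (nat_lit 93) (nat_lit 3) (nat_lit 93) (nat_lit 1) (nat_lit 95) (nat_lit 1) (nat_lit 405) (nat_lit 380) (nat_lit 235)) (XT.lf (nat_lit 76) (nat_lit 79825378) (nat_lit 0) (nat_lit 1212140390) (nat_lit 76) (nat_lit 1212140390) (nat_lit 93) (nat_lit 3) (nat_lit 92) (nat_lit 1) (nat_lit 93) (nat_lit 1) (nat_lit 406) (nat_lit 380) (nat_lit 234))) (XT.nd (nat_lit 78) (nat_lit 76) (nat_lit 0) (XT.lf (nat_lit 152) (nat_lit 1760745393) (nat_lit 0) (nat_lit 359259792) (nat_lit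 76) (nat_lit 359259792) (nat_lit 92) (nat_lit 1) (nat_lit 90) (nat_lit 1) (nat_lit 91) (nat_lit 1) (nat_lit 407) (nat_lit 380) (nat_lit 233)) (XT.nd (nat_lit 78) (nat_lit 76) (nat_lit 0) (XT.lf (nat_lit 0) (nat_lit 472796191) (nat_lit 0) (nat_lit 1509024831) (nat_lit 152) (nat_lit 472796191) (nat_lit 90) (nat_lit 3) (nat_lit 90) (nat_lit 1) (nat_lit 92) (nat_lit 1) (nat_lit 408) (nat_lit 380) (nat_lit 232)) (XT.lf (nat_lit 76) (nat_lit 139387332) (nat_lit 0) (nat_lit 1145434555) (nat_lit 76) (nat_lit 1145434555) (nat_lit 90) (nat_lit 3) (nat_lit 89) (nat_lit 1) (nat_lit 90) (nat_lit 1) (nat_lit 409) (nat_lit 380) (nat_lit 231))))))) (XT.nd (nat_lit 702) (nat_lit 836) (nat_lit 0) (XT.nd (nat_lit 312) (nat_lit 304) (nat_lit 0) (XT.nd (nat_lit 156) (nat_lit 228) (nat_lit 0) (XT.nd (nat_lit 78) (nat_lit 0) (nat_lit 0) (XT.lf (nat_lit 152) (nat_lit 1767795947) (nat_lit 0) (nat_lit 319197672) (nat_lit 76)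 (nat_lit 319197672) (nat_lit 89) (nat_lit 1) (nat_lit 87) (nat_lit 1) (nat_lit 88) (nat_lit 1) (nat_lit 410) (nat_lit 380) (nat_lit 230)) (XT.lf (nat_lit 0) (nat_lit 487200840) (nat_lit 0) (nat_lit 1407876565) (nat_lit 152) (nat_lit 487200840) (nat_lit 87) (nat_lit 3) (nat_lit 87) (nat_lit 1) (nat_lit 89) (nat_lit 1) (nat_lit 411) (nat_lit 380) (nat_lit 229))) (XT.nd (nat_lit 78) (nat_lit 152) (nat_lit 0) (XT.lf (nat_lit 76) (nat_lit 190313274) (nat_lit 0) (nat_lit 1084173201) (nat_lit 76) (nat_lit 1084173201) (nat_lit 87) (nat_lit 3) (nat_lit 86) (nat_lit 1) (nat_lit 87) (nat_lit 1) (nat_lit 412) (nat_lit 380) (nat_lit 228)) (XT.lf (nat_lit 152) (nat_lit 1768136104) (nat_lit 0) (nat_lit 283602997) (nat_lit 76) (nat_lit 283602997) (nat_lit 86) (nat_lit 1) (nat_lit 84) (nat_lit 1) (nat_lit 85) (nat_lit 1) (nat_lit 413) (nat_lit 380) (nat_lit 227)))) (XT.nd (nat_lit 156) (nat_lit 228) (nat_lit 0) (XT.nd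 (nat_lit 78) (nat_lit 76) (nat_lit 0) (XT.lf (nat_lit 0) (nat_lit 498044013) (nat_lit 0) (nat_lit 1316052470) (nat_lit 152) (nat_lit 498044013) (nat_lit 84) (nat_lit 3) (nat_lit 84) (nat_lit 1) (nat_lit 86) (nat_lit 1) (nat_lit 414) (nat_lit 380) (nat_lit 226)) (XT.lf (nat_lit 76) (nat_lit 233624311) (nat_lit 0) (nat_lit 1027807279) (nat_lit 76) (nat_lit 1027807279) (nat_lit 84) (nat_lit 3) (nat_lit 83) (nat_lit 1) (nat_lit 84) (nat_lit 1) (nat_lit 415) (nat_lit 380) (nat_lit 225))) (XT.nd (nat_lit 78) (nat_lit 76) (nat_lit 0) (XT.lf (nat_lit 152) (nat_lit 1762686708) (nat_lit 0) (nat_lit 251977589) (nat_lit 76) (nat_lit 251977589) (nat_lit 83) (nat_lit 1) (nat_lit 81) (nat_lit 1) (nat_lit 82) (nat_lit 1) (nat_lit 416) (nat_lit 380) (nat_lit 224)) (XT.nd (nat_lit 78) (nat_lit 76) (nat_lit 0) (XT.lf (nat_lit 0) (nat_lit 505779807) (nat_lit 0) (nat_lit 1232569726) (nat_lit 152) (nat_lit 505779807) (nat_lit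 81) (nat_lit 3) (nat_lit 81) (nat_lit 1) (nat_lit 83) (nat_lit 1) (nat_lit 417) (nat_lit 380) (nat_lit 223)) (XT.lf (nat_lit 76) (nat_lit 270225992) (nat_lit 0) (nat_lit 975847272) (nat_lit 76) (nat_lit 975847272) (nat_lit 81) (nat_lit 3) (nat_lit 80) (nat_lit 1) (nat_lit 81) (nat_lit 1) (nat_lit 418) (nat_lit 380) (nat_lit 222)))))) (XT.nd (nat_lit 390) (nat_lit 456) (nat_lit 0) (XT.nd (nat_lit 156) (nat_lit 228) (nat_lit 0) (XT.nd (nat_lit 78) (nat_lit 0) (nat_lit 0) (XT.lf (nat_lit 152) (nat_lit 1752260894) (nat_lit 0) (nat_lit 223878824) (nat_lit 76) (nat_lit 223878824) (nat_lit 80) (nat_lit 1) (nat_lit 78) (nat_lit 1) (nat_lit 79) (nat_lit 1) (nat_lit 419) (nat_lit 380) (nat_lit 221)) (XT.lf (nat_lit 0) (nat_lit 510810023) (nat_lit 0) (nat_lit 1156553453) (nat_lit 152) (nat_lit 510810023) (nat_lit 78) (nat_lit 3) (nat_lit 78) (nat_lit 1) (nat_lit 80) (nat_lit 1) (nat_lit 420) (nat_lit 380) (nat_lit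 220))) (XT.nd (nat_lit 78) (nat_lit 152) (nat_lit 0) (XT.lf (nat_lit 76) (nat_lit 300921242) (nat_lit 0) (nat_lit 927856611) (nat_lit 76) (nat_lit 927856611) (nat_lit 78) (nat_lit 3) (nat_lit 77) (nat_lit 1) (nat_lit 78) (nat_lit 1) (nat_lit 421) (nat_lit 380) (nat_lit 219)) (XT.nd (nat_lit 78) (nat_lit 0) (nat_lit 0) (XT.lf (nat_lit 152) (nat_lit 1737576238) (nat_lit 0) (nat_lit 198913436) (nat_lit 76) (nat_lit 198913436) (nat_lit 77) (nat_lit 1) (nat_lit 75) (nat_lit 1) (nat_lit 76) (nat_lit 1) (nat_lit 422) (nat_lit 380) (nat_lit 218)) (XT.lf (nat_lit 0) (nat_lit 513490047) (nat_lit 0) (nat_lit 1087224720) (nat_lit 152) (nat_lit 513490047) (nat_lit 75) (nat_lit 3) (nat_lit 75) (nat_lit 1) (nat_lit 77) (nat_lit 1) (nat_lit 423) (nat_lit 380) (nat_lit 217))))) (XT.nd (nat_lit 156) (nat_lit 228) (nat_lit 0) (XT.nd (nat_lit 78) (nat_lit 152) (nat_lit 0) (XT.lf (nat_lit 76) (nat_lit 326421858) (nat_lit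 0) (nat_lit 883445813) (nat_lit 76) (nat_lit 883445813) (nat_lit 75) (nat_lit 3) (nat_lit 74) (nat_lit 1) (nat_lit 75) (nat_lit 1) (nat_lit 424) (nat_lit 380) (nat_lit 216)) (XT.lf (nat_lit 152) (nat_lit 1719265565) (nat_lit 0) (nat_lit 176732011) (nat_lit 76) (nat_lit 176732011) (nat_lit 74) (nat_lit 1) (nat_lit 72) (nat_lit 1) (nat_lit 73) (nat_lit 1) (nat_lit 425) (nat_lit 380) (nat_lit 215))) (XT.nd (nat_lit 78) (nat_lit 228) (nat_lit 0) (XT.lf (nat_lit 0) (nat_lit 514134068) (nat_lit 0) (nat_lit 1023889894) (nat_lit 152) (nat_lit 514134068) (nat_lit 72) (nat_lit 3) (nat_lit 72) (nat_lit 1) (nat_lit 74) (nat_lit 1) (nat_lit 426) (nat_lit 380) (nat_lit 214)) (XT.nd (nat_lit 78) (nat_lit 152) (nat_lit 0) (XT.lf (nat_lit 76) (nat_lit 347358712) (nat_lit 0) (nat_lit 842267281) (nat_lit 76) (nat_lit 842267281) (nat_lit 72) (nat_lit 3) (nat_lit 71) (nat_lit 1) (nat_lit 72) (nat_lit 1) (nat_lit 427) (nat_lit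 380) (nat_lit 213)) (XT.lf (nat_lit 152) (nat_lit 1697886528) (nat_lit 0) (nat_lit 157024103) (nat_lit 76) (nat_lit 157024103) (nat_lit 71) (nat_lit 1) (nat_lit 69) (nat_lit 1) (nat_lit 70) (nat_lit 1) (nat_lit 428) (nat_lit 380) (nat_lit 212))))))))
noncomputable def ec206 : XT := (XT.nd (nat_lit 40950) (nat_lit 0) (nat_lit 17328) (XT.nd (nat_lit 40170) (nat_lit 0) (nat_lit 22572) (XT.nd (nat_lit 39780) (nat_lit 0) (nat_lit 23408) (XT.nd (nat_lit 156) (nat_lit 152) (nat_lit 0) (XT.nd (nat_lit 78) (nat_lit 76) (nat_lit 0) (XT.lf (nat_lit 0) (nat_lit 513019725) (nat_lit 0) (nat_lit 965931174) (nat_lit 152) (nat_lit 513019725) (nat_lit 69) (nat_lit 3) (nat_lit 69) (nat_lit 1) (nat_lit 71) (nat_lit 1) (nat_lit 429) (nat_lit 380) (nat_lit 211)) (XT.lf (nat_lit 76) (nat_lit 364290821) (nat_lit 0) (nat_lit 804010675) (nat_lit 76) (nat_lit 804010675) (nat_lit 69) (nat_lit 3) (nat_lit 68) (nat_lit 1) (nat_lit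 69) (nat_lit 1) (nat_lit 430) (nat_lit 380) (nat_lit 210))) (XT.nd (nat_lit 78) (nat_lit 0) (nat_lit 0) (XT.lf (nat_lit 152) (nat_lit 1673930133) (nat_lit 0) (nat_lit 139513882) (nat_lit 76) (nat_lit 139513882) (nat_lit 68) (nat_lit 1) (nat_lit 66) (nat_lit 1) (nat_lit 67) (nat_lit 1) (nat_lit 431) (nat_lit 380) (nat_lit 209)) (XT.lf (nat_lit 0) (nat_lit 510392221) (nat_lit 0) (nat_lit 912798177) (nat_lit 152) (nat_lit 510392221) (nat_lit 66) (nat_lit 3) (nat_lit 66) (nat_lit 1) (nat_lit 68) (nat_lit 1) (nat_lit 432) (nat_lit 380) (nat_lit 208)))) (XT.nd (nat_lit 156) (nat_lit 0) (nat_lit 76) (XT.nd (nat_lit 78) (nat_lit 0) (nat_lit 0) (XT.lf (nat_lit 1292) (nat_lit 1253114889) (nat_lit 0) (nat_lit 4311298004) (nat_lit 1292) (nat_lit 1253114889) (nat_lit 391) (nat_lit 1) (nat_lit 374) (nat_lit 0) (nat_lit 391) (nat_lit 0) (nat_lit 258) (nat_lit 381) (nat_lit 381)) (XT.lf (nat_lit 1292) (nat_lit 4897194946)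 (nat_lit 76) (nat_lit 4269030377) (nat_lit 0) (nat_lit 4269030377) (nat_lit 391) (nat_lit 1) (nat_lit 375) (nat_lit 1) (nat_lit 374) (nat_lit 0) (nat_lit 259) (nat_lit 381) (nat_lit 380))) (XT.nd (nat_lit 78) (nat_lit 0) (nat_lit 0) (XT.lf (nat_lit 1292) (nat_lit 2368400239) (nat_lit 0) (nat_lit 8503062524) (nat_lit 1216) (nat_lit 2368400239) (nat_lit 392) (nat_lit 1) (nat_lit 375) (nat_lit 1) (nat_lit 391) (nat_lit 1) (nat_lit 260) (nat_lit 381) (nat_lit 379)) (XT.nd (nat_lit 78) (nat_lit 0) (nat_lit 76) (XT.lf (nat_lit 1292) (nat_lit 4497714335) (nat_lit 76) (nat_lit 4275009480) (nat_lit 0) (nat_lit 4275009480) (nat_lit 392) (nat_lit 1) (nat_lit 376) (nat_lit 1) (nat_lit 375) (nat_lit 1) (nat_lit 261) (nat_lit 381) (nat_lit 378)) (XT.lf (nat_lit 1292) (nat_lit 2110530020) (nat_lit 0) (nat_lit 8638842514) (nat_lit 1216) (nat_lit 2110530020) (nat_lit 393) (nat_lit 1) (nat_lit 376) (nat_lit 1) (nat_lit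 392) (nat_lit 1) (nat_lit 262) (nat_lit 381) (nat_lit 377)))))) (XT.nd (nat_lit 390) (nat_lit 988) (nat_lit 0) (XT.nd (nat_lit 156) (nat_lit 0) (nat_lit 76) (XT.nd (nat_lit 78) (nat_lit 0) (nat_lit 76) (XT.lf (nat_lit 1292) (nat_lit 3867769104) (nat_lit 76) (nat_lit 4403653339) (nat_lit 0) (nat_lit 4403653339) (nat_lit 393) (nat_lit 1) (nat_lit 377) (nat_lit 1) (nat_lit 376) (nat_lit 1) (nat_lit 263) (nat_lit 381) (nat_lit 376)) (XT.lf (nat_lit 1292) (nat_lit 1743236726) (nat_lit 0) (nat_lit 9008043481) (nat_lit 1216) (nat_lit 1743236726) (nat_lit 394) (nat_lit 1) (nat_lit 377) (nat_lit 1) (nat_lit 393) (nat_lit 1) (nat_lit 264) (nat_lit 381) (nat_lit 375))) (XT.nd (nat_lit 78) (nat_lit 0) (nat_lit 76) (XT.lf (nat_lit 1292) (nat_lit 3027969346) (nat_lit 76) (nat_lit 4644337738) (nat_lit 0) (nat_lit 4644337738) (nat_lit 394) (nat_lit 1) (nat_lit 378) (nat_lit 1) (nat_lit 377) (nat_lit 1) (nat_lit 265)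 (nat_lit 381) (nat_lit 374)) (XT.nd (nat_lit 78) (nat_lit 0) (nat_lit 0) (XT.lf (nat_lit 1292) (nat_lit 1276419917) (nat_lit 0) (nat_lit 9590240417) (nat_lit 1216) (nat_lit 1276419917) (nat_lit 395) (nat_lit 1) (nat_lit 378) (nat_lit 1) (nat_lit 394) (nat_lit 1) (nat_lit 266) (nat_lit 381) (nat_lit 373)) (XT.lf (nat_lit 1292) (nat_lit 1997527081) (nat_lit 76) (nat_lit 4987152687) (nat_lit 0) (nat_lit 4987152687) (nat_lit 395) (nat_lit 1) (nat_lit 379) (nat_lit 1) (nat_lit 378) (nat_lit 1) (nat_lit 267) (nat_lit 381) (nat_lit 372))))) (XT.nd (nat_lit 156) (nat_lit 1216) (nat_lit 0) (XT.nd (nat_lit 78) (nat_lit 0) (nat_lit 0) (XT.lf (nat_lit 1292) (nat_lit 719305495) (nat_lit 0) (nat_lit 10366385426) (nat_lit 1216) (nat_lit 719305495) (nat_lit 396) (nat_lit 1) (nat_lit 379) (nat_lit 1) (nat_lit 395) (nat_lit 1) (nat_lit 268) (nat_lit 381) (nat_lit 371)) (XT.lf (nat_lit 1292) (nat_lit 794342779) (nat_lit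 76) (nat_lit 5422858384) (nat_lit 0) (nat_lit 5422858384) (nat_lit 396) (nat_lit 1) (nat_lit 380) (nat_lit 1) (nat_lit 379) (nat_lit 1) (nat_lit 269) (nat_lit 381) (nat_lit 370))) (XT.nd (nat_lit 78) (nat_lit 1292) (nat_lit 0) (XT.lf (nat_lit 1292) (nat_lit 80487440) (nat_lit 0) (nat_lit 11318722711) (nat_lit 1216) (nat_lit 80487440) (nat_lit 397) (nat_lit 1) (nat_lit 380) (nat_lit 1) (nat_lit 396) (nat_lit 1) (nat_lit 270) (nat_lit 381) (nat_lit 369)) (XT.nd (nat_lit 78) (nat_lit 0) (nat_lit 0) (XT.lf (nat_lit 1368) (nat_lit 5383360803) (nat_lit 0) (nat_lit 553889784) (nat_lit 1292) (nat_lit 5383360803) (nat_lit 381) (nat_lit 1) (nat_lit 363) (nat_lit 1) (nat_lit 380) (nat_lit 1) (nat_lit 271) (nat_lit 381) (nat_lit 368)) (XT.lf (nat_lit 1368) (nat_lit 9914236952) (nat_lit 76) (nat_lit 625836529) (nat_lit 0) (nat_lit 625836529) (nat_lit 381) (nat_lit 1) (nat_lit 364) (nat_lit 1) (nat_lit 363) (nat_lit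 1) (nat_lit 272) (nat_lit 381) (nat_lit 367))))))) (XT.nd (nat_lit 702) (nat_lit 3344) (nat_lit 0) (XT.nd (nat_lit 312) (nat_lit 1216) (nat_lit 0) (XT.nd (nat_lit 156) (nat_lit 760) (nat_lit 0) (XT.nd (nat_lit 78) (nat_lit 0) (nat_lit 0) (XT.lf (nat_lit 1368) (nat_lit 4494210592) (nat_lit 0) (nat_lit 2024434259) (nat_lit 1292) (nat_lit 4494210592) (nat_lit 382) (nat_lit 1) (nat_lit 364) (nat_lit 1) (nat_lit 381) (nat_lit 1) (nat_lit 273) (nat_lit 381) (nat_lit 366)) (XT.lf (nat_lit 1368) (nat_lit 8069723531) (nat_lit 76) (nat_lit 1396978583) (nat_lit 0) (nat_lit 1396978583) (nat_lit 382) (nat_lit 1) (nat_lit 365) (nat_lit 1) (nat_lit 364) (nat_lit 1) (nat_lit 274) (nat_lit 381) (nat_lit 365))) (XT.nd (nat_lit 78) (nat_lit 836) (nat_lit 0) (XT.lf (nat_lit 76) (nat_lit 3548942904) (nat_lit 0) (nat_lit 3618637906) (nat_lit 1292) (nat_lit 3548942904) (nat_lit 366) (nat_lit 1) (nat_lit 365) (nat_lit 1) (nat_lit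 382) (nat_lit 1) (nat_lit 275) (nat_lit 381) (nat_lit 364)) (XT.lf (nat_lit 912) (nat_lit 6118877197) (nat_lit 0) (nat_lit 2226871176) (nat_lit 836) (nat_lit 2226871176) (nat_lit 366) (nat_lit 1) (nat_lit 354) (nat_lit 1) (nat_lit 365) (nat_lit 1) (nat_lit 276) (nat_lit 381) (nat_lit 363)))) (XT.nd (nat_lit 156) (nat_lit 608) (nat_lit 0) (XT.nd (nat_lit 78) (nat_lit 608) (nat_lit 0) (XT.lf (nat_lit 76) (nat_lit 2553900228) (nat_lit 0) (nat_lit 5323341761) (nat_lit 912) (nat_lit 2553900228) (nat_lit 355) (nat_lit 1) (nat_lit 354) (nat_lit 1) (nat_lit 366) (nat_lit 1) (nat_lit 277) (nat_lit 381) (nat_lit 362)) (XT.lf (nat_lit 684) (nat_lit 4073982929) (nat_lit 0) (nat_lit 3109141285) (nat_lit 608) (nat_lit 3109141285) (nat_lit 355) (nat_lit 1) (nat_lit 346) (nat_lit 1) (nat_lit 354) (nat_lit 1) (nat_lit 278) (nat_lit 381) (nat_lit 361))) (XT.nd (nat_lit 78) (nat_lit 608) (nat_lit 0) (XT.lf (nat_lit 76)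 (nat_lit 1514970063) (nat_lit 0) (nat_lit 7126318757) (nat_lit 684) (nat_lit 1514970063) (nat_lit 347) (nat_lit 1) (nat_lit 346) (nat_lit 1) (nat_lit 355) (nat_lit 1) (nat_lit 279) (nat_lit 381) (nat_lit 360)) (XT.nd (nat_lit 78) (nat_lit 0) (nat_lit 0) (XT.lf (nat_lit 684) (nat_lit 1946440467) (nat_lit 0) (nat_lit 4037869115) (nat_lit 608) (nat_lit 4037869115) (nat_lit 347) (nat_lit 1) (nat_lit 338) (nat_lit 1) (nat_lit 346) (nat_lit 1) (nat_lit 280) (nat_lit 381) (nat_lit 359)) (XT.lf (nat_lit 76) (nat_lit 437613681) (nat_lit 0) (nat_lit 9016215087) (nat_lit 684) (nat_lit 437613681) (nat_lit 339) (nat_lit 1) (nat_lit 338) (nat_lit 1) (nat_lit 347) (nat_lit 1) (nat_lit 281) (nat_lit 381) (nat_lit 358)))))) (XT.nd (nat_lit 390) (nat_lit 1596) (nat_lit 0) (XT.nd (nat_lit 156) (nat_lit 532) (nat_lit 0) (XT.nd (nat_lit 78) (nat_lit 608) (nat_lit 0) (XT.lf (nat_lit 76) (nat_lit 4756813636) (nat_lit 0) (nat_lit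 248239178) (nat_lit 608) (nat_lit 4756813636) (nat_lit 331) (nat_lit 1) (nat_lit 330) (nat_lit 1) (nat_lit 338) (nat_lit 1) (nat_lit 282) (nat_lit 381) (nat_lit 357)) (XT.lf (nat_lit 684) (nat_lit 8302485572) (nat_lit 0) (nat_lit 666507744) (nat_lit 608) (nat_lit 666507744) (nat_lit 331) (nat_lit 1) (nat_lit 322) (nat_lit 1) (nat_lit 330) (nat_lit 1) (nat_lit 283) (nat_lit 381) (nat_lit 356))) (XT.nd (nat_lit 78) (nat_lit 532) (nat_lit 0) (XT.lf (nat_lit 76) (nat_lit 3522208508) (nat_lit 0) (nat_lit 2466004942) (nat_lit 684) (nat_lit 3522208508) (nat_lit 323) (nat_lit 1) (nat_lit 322) (nat_lit 1) (nat_lit 331) (nat_lit 1) (nat_lit 284) (nat_lit 381) (nat_lit 355)) (XT.nd (nat_lit 78) (nat_lit 0) (nat_lit 0) (XT.lf (nat_lit 608) (nat_lit 5798814715) (nat_lit 0) (nat_lit 1794733525) (nat_lit 532) (nat_lit 1794733525) (nat_lit 323) (nat_lit 1) (nat_lit 315) (nat_lit 1) (nat_lit 322) (nat_lit 1) (nat_lit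 285) (nat_lit 381) (nat_lit 354)) (XT.lf (nat_lit 76) (nat_lit 2266039043) (nat_lit 0) (nat_lit 4735948717) (nat_lit 608) (nat_lit 2266039043) (nat_lit 316) (nat_lit 1) (nat_lit 315) (nat_lit 1) (nat_lit 323) (nat_lit 1) (nat_lit 286) (nat_lit 381) (nat_lit 353))))) (XT.nd (nat_lit 156) (nat_lit 1064) (nat_lit 0) (XT.nd (nat_lit 78) (nat_lit 0) (nat_lit 0) (XT.lf (nat_lit 608) (nat_lit 3255805828) (nat_lit 0) (nat_lit 2947058114) (nat_lit 532) (nat_lit 2947058114) (nat_lit 316) (nat_lit 1) (nat_lit 308) (nat_lit 1) (nat_lit 315) (nat_lit 1) (nat_lit 287) (nat_lit 381) (nat_lit 352)) (XT.lf (nat_lit 76) (nat_lit 992235423) (nat_lit 0) (nat_lit 7049847502) (nat_lit 608) (nat_lit 992235423) (nat_lit 309) (nat_lit 1) (nat_lit 308) (nat_lit 1) (nat_lit 316) (nat_lit 1) (nat_lit 288) (nat_lit 381) (nat_lit 351))) (XT.nd (nat_lit 78) (nat_lit 608) (nat_lit 0) (XT.lf (nat_lit 532) (nat_lit 681048888) (nat_lit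 0) (nat_lit 4119509880) (nat_lit 456) (nat_lit 4119509880) (nat_lit 309) (nat_lit 1) (nat_lit 302) (nat_lit 1) (nat_lit 308) (nat_lit 1) (nat_lit 289) (nat_lit 381) (nat_lit 350)) (XT.nd (nat_lit 78) (nat_lit 0) (nat_lit 0) (XT.lf (nat_lit 608) (nat_lit 8223250768) (nat_lit 0) (nat_lit 292678384) (nat_lit 532) (nat_lit 292678384) (nat_lit 302) (nat_lit 1) (nat_lit 294) (nat_lit 1) (nat_lit 301) (nat_lit 1) (nat_lit 290) (nat_lit 381) (nat_lit 349)) (XT.lf (nat_lit 76) (nat_lit 3408404836) (nat_lit 0) (nat_lit 1881021106) (nat_lit 608) (nat_lit 3408404836) (nat_lit 295) (nat_lit 1) (nat_lit 294) (nat_lit 1) (nat_lit 302) (nat_lit 1) (nat_lit 291) (nat_lit 381) (nat_lit 348))))))))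
noncomputable def ec207 : XT := (XT.nd (nat_lit 1482) (nat_lit 3496) (nat_lit 0) (XT.nd (nat_lit 702) (nat_lit 2280) (nat_lit 0) (XT.nd (nat_lit 312) (nat_lit 1292) (nat_lit 0) (XT.nd (nat_lit 156) (nat_lit 456) (nat_lit 0) (XT.nd (nat_lit 78) (nat_lit 0) (nat_lit 0) (XT.lf (nat_lit 532) (nat_lit 5432891499) (nat_lit 0) (nat_lit 1578425951) (nat_lit 456) (nat_lit 1578425951) (nat_lit 295) (nat_lit 1) (nat_lit 288) (nat_lit 1) (nat_lit 294) (nat_lit 1) (nat_lit 292) (nat_lit 381) (nat_lit 347)) (XT.lf (nat_lit 76) (nat_lit 2017745308) (nat_lit 0) (nat_lit 4447746854) (nat_lit 532) (nat_lit 2017745308) (nat_lit 289) (nat_lit 1) (nat_lit 288) (nat_lit 1) (nat_lit 295) (nat_lit 1) (nat_lit 293) (nat_lit 381) (nat_lit 346))) (XT.nd (nat_lit 78) (nat_lit 0) (nat_lit 0) (XT.lf (nat_lit 532) (nat_lit 2635185368) (nat_lit 0) (nat_lit 2871689113) (nat_lit 456) (nat_lit 2871689113) (nat_lit 289) (nat_lit 1) (nat_lit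 282) (nat_lit 1) (nat_lit 288) (nat_lit 1) (nat_lit 294) (nat_lit 381) (nat_lit 345)) (XT.lf (nat_lit 76) (nat_lit 624787383) (nat_lit 0) (nat_lit 7026603776) (nat_lit 532) (nat_lit 624787383) (nat_lit 283) (nat_lit 1) (nat_lit 282) (nat_lit 1) (nat_lit 289) (nat_lit 1) (nat_lit 295) (nat_lit 381) (nat_lit 344)))) (XT.nd (nat_lit 156) (nat_lit 380) (nat_lit 0) (XT.nd (nat_lit 78) (nat_lit 456) (nat_lit 0) (XT.lf (nat_lit 76) (nat_lit 4006683218) (nat_lit 0) (nat_lit 161355232) (nat_lit 456) (nat_lit 4006683218) (nat_lit 277) (nat_lit 1) (nat_lit 276) (nat_lit 1) (nat_lit 282) (nat_lit 1) (nat_lit 296) (nat_lit 381) (nat_lit 343)) (XT.lf (nat_lit 532) (nat_lit 6554638425) (nat_lit 0) (nat_lit 760416052) (nat_lit 456) (nat_lit 760416052) (nat_lit 277) (nat_lit 1) (nat_lit 270) (nat_lit 1) (nat_lit 276) (nat_lit 1) (nat_lit 297) (nat_lit 381) (nat_lit 342))) (XT.nd (nat_lit 78) (nat_lit 380) (nat_lit 0)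 (XT.lf (nat_lit 76) (nat_lit 2536750113) (nat_lit 0) (nat_lit 2903719759) (nat_lit 532) (nat_lit 2536750113) (nat_lit 271) (nat_lit 1) (nat_lit 270) (nat_lit 1) (nat_lit 277) (nat_lit 1) (nat_lit 298) (nat_lit 381) (nat_lit 341)) (XT.nd (nat_lit 78) (nat_lit 0) (nat_lit 0) (XT.lf (nat_lit 456) (nat_lit 3607034136) (nat_lit 0) (nat_lit 2136983906) (nat_lit 380) (nat_lit 2136983906) (nat_lit 271) (nat_lit 1) (nat_lit 265) (nat_lit 1) (nat_lit 270) (nat_lit 1) (nat_lit 299) (nat_lit 381) (nat_lit 340)) (XT.lf (nat_lit 76) (nat_lit 1073783720) (nat_lit 0) (nat_lit 5638978746) (nat_lit 456) (nat_lit 1073783720) (nat_lit 266) (nat_lit 1) (nat_lit 265) (nat_lit 1) (nat_lit 271) (nat_lit 1) (nat_lit 300) (nat_lit 381) (nat_lit 339)))))) (XT.nd (nat_lit 390) (nat_lit 1064) (nat_lit 0) (XT.nd (nat_lit 156) (nat_lit 380) (nat_lit 0) (XT.nd (nat_lit 78) (nat_lit 456) (nat_lit 0) (XT.lf (nat_lit 456) (nat_lit 675325378)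 (nat_lit 0) (nat_lit 3508952984) (nat_lit 380) (nat_lit 3508952984) (nat_lit 266) (nat_lit 1) (nat_lit 260) (nat_lit 1) (nat_lit 265) (nat_lit 1) (nat_lit 301) (nat_lit 381) (nat_lit 338)) (XT.lf (nat_lit 456) (nat_lit 6848734525) (nat_lit 0) (nat_lit 376632087) (nat_lit 380) (nat_lit 376632087) (nat_lit 260) (nat_lit 1) (nat_lit 254) (nat_lit 1) (nat_lit 259) (nat_lit 1) (nat_lit 302) (nat_lit 381) (nat_lit 337))) (XT.nd (nat_lit 78) (nat_lit 380) (nat_lit 0) (XT.lf (nat_lit 76) (nat_lit 2658987432) (nat_lit 0) (nat_lit 2193284347) (nat_lit 456) (nat_lit 2658987432) (nat_lit 255) (nat_lit 1) (nat_lit 254) (nat_lit 1) (nat_lit 260) (nat_lit 1) (nat_lit 303) (nat_lit 381) (nat_lit 336)) (XT.nd (nat_lit 78) (nat_lit 0) (nat_lit 0) (XT.lf (nat_lit 456) (nat_lit 3810297648) (nat_lit 0) (nat_lit 1806119338) (nat_lit 380) (nat_lit 1806119338) (nat_lit 255) (nat_lit 1) (nat_lit 249) (nat_lit 1) (nat_lit 254)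 (nat_lit 1) (nat_lit 304) (nat_lit 381) (nat_lit 335)) (XT.lf (nat_lit 76) (nat_lit 1154403820) (nat_lit 0) (nat_lit 5026491150) (nat_lit 456) (nat_lit 1154403820) (nat_lit 250) (nat_lit 1) (nat_lit 249) (nat_lit 1) (nat_lit 255) (nat_lit 1) (nat_lit 305) (nat_lit 381) (nat_lit 334))))) (XT.nd (nat_lit 156) (nat_lit 304) (nat_lit 0) (XT.nd (nat_lit 78) (nat_lit 456) (nat_lit 0) (XT.lf (nat_lit 380) (nat_lit 801771028) (nat_lit 0) (nat_lit 3223697905) (nat_lit 304) (nat_lit 3223697905) (nat_lit 250) (nat_lit 1) (nat_lit 245) (nat_lit 1) (nat_lit 249) (nat_lit 1) (nat_lit 306) (nat_lit 381) (nat_lit 333)) (XT.lf (nat_lit 456) (nat_lit 6502176610) (nat_lit 0) (nat_lit 331373890) (nat_lit 380) (nat_lit 331373890) (nat_lit 245) (nat_lit 1) (nat_lit 239) (nat_lit 1) (nat_lit 244) (nat_lit 1) (nat_lit 307) (nat_lit 381) (nat_lit 332))) (XT.nd (nat_lit 78) (nat_lit 304) (nat_lit 0) (XT.lf (nat_lit 76) (nat_lit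 2474556093) (nat_lit 0) (nat_lit 2131923855) (nat_lit 456) (nat_lit 2474556093) (nat_lit 240) (nat_lit 1) (nat_lit 239) (nat_lit 1) (nat_lit 245) (nat_lit 1) (nat_lit 308) (nat_lit 381) (nat_lit 331)) (XT.nd (nat_lit 78) (nat_lit 0) (nat_lit 0) (XT.lf (nat_lit 380) (nat_lit 3420381435) (nat_lit 0) (nat_lit 1789300416) (nat_lit 304) (nat_lit 1789300416) (nat_lit 240) (nat_lit 1) (nat_lit 235) (nat_lit 1) (nat_lit 239) (nat_lit 1) (nat_lit 309) (nat_lit 381) (nat_lit 330)) (XT.lf (nat_lit 76) (nat_lit 951155830) (nat_lit 0) (nat_lit 5016020388) (nat_lit 380) (nat_lit 951155830) (nat_lit 236) (nat_lit 1) (nat_lit 235) (nat_lit 1) (nat_lit 240) (nat_lit 1) (nat_lit 310) (nat_lit 381) (nat_lit 329))))))) (XT.nd (nat_lit 702) (nat_lit 1672) (nat_lit 0) (XT.nd (nat_lit 312) (nat_lit 836) (nat_lit 0) (XT.nd (nat_lit 156) (nat_lit 304) (nat_lit 0) (XT.nd (nat_lit 78) (nat_lit 380) (nat_lit 0) (XT.lf (nat_lit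 380) (nat_lit 379280838) (nat_lit 0) (nat_lit 3229658847) (nat_lit 304) (nat_lit 3229658847) (nat_lit 236) (nat_lit 1) (nat_lit 231) (nat_lit 1) (nat_lit 235) (nat_lit 1) (nat_lit 311) (nat_lit 381) (nat_lit 328)) (XT.lf (nat_lit 380) (nat_lit 5668108547) (nat_lit 0) (nat_lit 546164985) (nat_lit 304) (nat_lit 546164985) (nat_lit 231) (nat_lit 1) (nat_lit 226) (nat_lit 1) (nat_lit 230) (nat_lit 1) (nat_lit 312) (nat_lit 381) (nat_lit 327))) (XT.nd (nat_lit 78) (nat_lit 304) (nat_lit 0) (XT.lf (nat_lit 76) (nat_lit 2057218085) (nat_lit 0) (nat_lit 2568378086) (nat_lit 380) (nat_lit 2057218085) (nat_lit 227) (nat_lit 1) (nat_lit 226) (nat_lit 1) (nat_lit 231) (nat_lit 1) (nat_lit 313) (nat_lit 381) (nat_lit 326)) (XT.lf (nat_lit 380) (nat_lit 2580836210) (nat_lit 0) (nat_lit 2012940641) (nat_lit 304) (nat_lit 2012940641) (nat_lit 227) (nat_lit 1) (nat_lit 222) (nat_lit 1) (nat_lit 226) (nat_lit 1) (nat_lit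 314) (nat_lit 381) (nat_lit 325)))) (XT.nd (nat_lit 156) (nat_lit 532) (nat_lit 0) (XT.nd (nat_lit 78) (nat_lit 304) (nat_lit 0) (XT.lf (nat_lit 76) (nat_lit 533175687) (nat_lit 0) (nat_lit 5465741508) (nat_lit 380) (nat_lit 533175687) (nat_lit 223) (nat_lit 1) (nat_lit 222) (nat_lit 1) (nat_lit 227) (nat_lit 1) (nat_lit 315) (nat_lit 381) (nat_lit 324)) (XT.lf (nat_lit 76) (nat_lit 3004635361) (nat_lit 0) (nat_lit 448678371) (nat_lit 304) (nat_lit 3004635361) (nat_lit 219) (nat_lit 1) (nat_lit 218) (nat_lit 1) (nat_lit 222) (nat_lit 1) (nat_lit 316) (nat_lit 381) (nat_lit 323))) (XT.nd (nat_lit 78) (nat_lit 228) (nat_lit 0) (XT.lf (nat_lit 380) (nat_lit 4471534786) (nat_lit 0) (nat_lit 956850899) (nat_lit 304) (nat_lit 956850899) (nat_lit 219) (nat_lit 1) (nat_lit 214) (nat_lit 1) (nat_lit 218) (nat_lit 1) (nat_lit 317) (nat_lit 381) (nat_lit 322)) (XT.nd (nat_lit 78) (nat_lit 228) (nat_lit 0) (XT.lf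 (nat_lit 76) (nat_lit 1467157326) (nat_lit 0) (nat_lit 3379037767) (nat_lit 380) (nat_lit 1467157326) (nat_lit 215) (nat_lit 1) (nat_lit 214) (nat_lit 1) (nat_lit 219) (nat_lit 1) (nat_lit 318) (nat_lit 381) (nat_lit 321)) (XT.lf (nat_lit 304) (nat_lit 1408740101) (nat_lit 0) (nat_lit 2416928490) (nat_lit 228) (nat_lit 2416928490) (nat_lit 215) (nat_lit 1) (nat_lit 211) (nat_lit 1) (nat_lit 214) (nat_lit 1) (nat_lit 319) (nat_lit 381) (nat_lit 320)))))) (XT.nd (nat_lit 390) (nat_lit 760) (nat_lit 0) (XT.nd (nat_lit 156) (nat_lit 532) (nat_lit 0) (XT.nd (nat_lit 78) (nat_lit 0) (nat_lit 0) (XT.lf (nat_lit 380) (nat_lit 6087944664) (nat_lit 0) (nat_lit 42750805) (nat_lit 304) (nat_lit 42750805) (nat_lit 211) (nat_lit 1) (nat_lit 206) (nat_lit 1) (nat_lit 210) (nat_lit 1) (nat_lit 320) (nat_lit 381) (nat_lit 319)) (XT.lf (nat_lit 76) (nat_lit 2268052839) (nat_lit 0) (nat_lit 1568053844) (nat_lit 380) (nat_lit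 2268052839) (nat_lit 207) (nat_lit 1) (nat_lit 206) (nat_lit 1) (nat_lit 211) (nat_lit 1) (nat_lit 321) (nat_lit 381) (nat_lit 318))) (XT.nd (nat_lit 78) (nat_lit 304) (nat_lit 0) (XT.lf (nat_lit 304) (nat_lit 3014092808) (nat_lit 0) (nat_lit 1511175130) (nat_lit 228) (nat_lit 1511175130) (nat_lit 207) (nat_lit 1) (nat_lit 203) (nat_lit 1) (nat_lit 206) (nat_lit 1) (nat_lit 322) (nat_lit 381) (nat_lit 317)) (XT.nd (nat_lit 78) (nat_lit 304) (nat_lit 0) (XT.lf (nat_lit 76) (nat_lit 753283953) (nat_lit 0) (nat_lit 4463261833) (nat_lit 304) (nat_lit 753283953) (nat_lit 204) (nat_lit 1) (nat_lit 203) (nat_lit 1) (nat_lit 207) (nat_lit 1) (nat_lit 323) (nat_lit 381) (nat_lit 316)) (XT.lf (nat_lit 76) (nat_lit 2951545821) (nat_lit 0) (nat_lit 790242) (nat_lit 304) (nat_lit 2951545821) (nat_lit 200) (nat_lit 1) (nat_lit 199) (nat_lit 1) (nat_lit 203) (nat_lit 1) (nat_lit 324) (nat_lit 381) (nat_lit 315)))))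 (XT.nd (nat_lit 156) (nat_lit 532) (nat_lit 0) (XT.nd (nat_lit 78) (nat_lit 0) (nat_lit 0) (XT.lf (nat_lit 304) (nat_lit 4389094532) (nat_lit 0) (nat_lit 724956104) (nat_lit 228) (nat_lit 724956104) (nat_lit 200) (nat_lit 1) (nat_lit 196) (nat_lit 1) (nat_lit 199) (nat_lit 1) (nat_lit 325) (nat_lit 381) (nat_lit 314)) (XT.lf (nat_lit 76) (nat_lit 1437869022) (nat_lit 0) (nat_lit 2899017399) (nat_lit 304) (nat_lit 1437869022) (nat_lit 197) (nat_lit 1) (nat_lit 196) (nat_lit 1) (nat_lit 200) (nat_lit 1) (nat_lit 326) (nat_lit 381) (nat_lit 313))) (XT.nd (nat_lit 78) (nat_lit 304) (nat_lit 0) (XT.lf (nat_lit 304) (nat_lit 1378038161) (nat_lit 0) (nat_lit 2166754782) (nat_lit 228) (nat_lit 2166754782) (nat_lit 197) (nat_lit 1) (nat_lit 193) (nat_lit 1) (nat_lit 196) (nat_lit 1) (nat_lit 327) (nat_lit 381) (nat_lit 312)) (XT.nd (nat_lit 78) (nat_lit 0) (nat_lit 0) (XT.lf (nat_lit 304) (nat_lit 5560927538)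 (nat_lit 0) (nat_lit 44402044) (nat_lit 228) (nat_lit 44402044) (nat_lit 193) (nat_lit 1) (nat_lit 189) (nat_lit 1) (nat_lit 192) (nat_lit 1) (nat_lit 328) (nat_lit 381) (nat_lit 311)) (XT.lf (nat_lit 76) (nat_lit 2023727989) (nat_lit 0) (nat_lit 1540270545) (nat_lit 304) (nat_lit 2023727989) (nat_lit 190) (nat_lit 1) (nat_lit 189) (nat_lit 1) (nat_lit 193) (nat_lit 1) (nat_lit 329) (nat_lit 381) (nat_lit 310))))))))
noncomputable def ec208 : XT := (XT.nd (nat_lit 1404) (nat_lit 1824) (nat_lit 0) (XT.nd (nat_lit 702) (nat_lit 1140) (nat_lit 0) (XT.nd (nat_lit 312) (nat_lit 608) (nat_lit 0) (XT.nd (nat_lit 156) (nat_lit 456) (nat_lit 0) (XT.nd (nat_lit 78) (nat_lit 0) (nat_lit 0) (XT.lf (nat_lit 304) (nat_lit 2562965422) (nat_lit 0) (nat_lit 1482061072) (nat_lit 228) (nat_lit 1482061072) (nat_lit 190) (nat_lit 1) (nat_lit 186) (nat_lit 1) (nat_lit 189) (nat_lit 1) (nat_lit 330) (nat_lit 381) (nat_lit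 309)) (XT.lf (nat_lit 76) (nat_lit 548168280) (nat_lit 0) (nat_lit 4371139131) (nat_lit 304) (nat_lit 548168280) (nat_lit 187) (nat_lit 1) (nat_lit 186) (nat_lit 1) (nat_lit 190) (nat_lit 1) (nat_lit 331) (nat_lit 381) (nat_lit 308))) (XT.nd (nat_lit 78) (nat_lit 228) (nat_lit 0) (XT.lf (nat_lit 76) (nat_lit 2522522113) (nat_lit 0) (nat_lit 363200851) (nat_lit 228) (nat_lit 2522522113) (nat_lit 184) (nat_lit 1) (nat_lit 183) (nat_lit 1) (nat_lit 186) (nat_lit 1) (nat_lit 332) (nat_lit 381) (nat_lit 307)) (XT.lf (nat_lit 304) (nat_lit 3576769703) (nat_lit 0) (nat_lit 886624604) (nat_lit 228) (nat_lit 886624604) (nat_lit 184) (nat_lit 1) (nat_lit 180) (nat_lit 1) (nat_lit 183) (nat_lit 1) (nat_lit 333) (nat_lit 381) (nat_lit 306)))) (XT.nd (nat_lit 156) (nat_lit 456) (nat_lit 0) (XT.nd (nat_lit 78) (nat_lit 152) (nat_lit 0) (XT.lf (nat_lit 76) (nat_lit 1057923448) (nat_lit 0) (nat_lit 3176610293) (nat_lit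 304) (nat_lit 1057923448) (nat_lit 181) (nat_lit 1) (nat_lit 180) (nat_lit 1) (nat_lit 184) (nat_lit 1) (nat_lit 334) (nat_lit 381) (nat_lit 305)) (XT.lf (nat_lit 228) (nat_lit 666332001) (nat_lit 0) (nat_lit 2284666469) (nat_lit 152) (nat_lit 2284666469) (nat_lit 181) (nat_lit 1) (nat_lit 178) (nat_lit 1) (nat_lit 180) (nat_lit 1) (nat_lit 335) (nat_lit 381) (nat_lit 304))) (XT.nd (nat_lit 78) (nat_lit 152) (nat_lit 0) (XT.lf (nat_lit 304) (nat_lit 4439669012) (nat_lit 0) (nat_lit 370116163) (nat_lit 228) (nat_lit 370116163) (nat_lit 178) (nat_lit 1) (nat_lit 174) (nat_lit 1) (nat_lit 177) (nat_lit 1) (nat_lit 336) (nat_lit 381) (nat_lit 303)) (XT.nd (nat_lit 78) (nat_lit 152) (nat_lit 0) (XT.lf (nat_lit 76) (nat_lit 1494206651) (nat_lit 0) (nat_lit 2135881753) (nat_lit 304) (nat_lit 1494206651) (nat_lit 175) (nat_lit 1) (nat_lit 174) (nat_lit 1) (nat_lit 178) (nat_lit 1) (nat_lit 337) (nat_lit 381)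 (nat_lit 302)) (XT.lf (nat_lit 228) (nat_lit 1558487160) (nat_lit 0) (nat_lit 1755605655) (nat_lit 152) (nat_lit 1755605655) (nat_lit 175) (nat_lit 1) (nat_lit 172) (nat_lit 1) (nat_lit 174) (nat_lit 1) (nat_lit 338) (nat_lit 381) (nat_lit 301)))))) (XT.nd (nat_lit 312) (nat_lit 760) (nat_lit 0) (XT.nd (nat_lit 156) (nat_lit 152) (nat_lit 0) (XT.nd (nat_lit 78) (nat_lit 228) (nat_lit 0) (XT.lf (nat_lit 76) (nat_lit 77389393) (nat_lit 0) (nat_lit 4861463858) (nat_lit 228) (nat_lit 77389393) (nat_lit 173) (nat_lit 1) (nat_lit 172) (nat_lit 1) (nat_lit 175) (nat_lit 1) (nat_lit 339) (nat_lit 381) (nat_lit 300)) (XT.lf (nat_lit 76) (nat_lit 1865695266) (nat_lit 0) (nat_lit 1231202935) (nat_lit 228) (nat_lit 1865695266) (nat_lit 170) (nat_lit 1) (nat_lit 169) (nat_lit 1) (nat_lit 172) (nat_lit 1) (nat_lit 340) (nat_lit 381) (nat_lit 299))) (XT.nd (nat_lit 78) (nat_lit 0) (nat_lit 0) (XT.lf (nat_lit 228)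 (nat_lit 2323006149) (nat_lit 0) (nat_lit 1293531030) (nat_lit 152) (nat_lit 1293531030) (nat_lit 170) (nat_lit 1) (nat_lit 167) (nat_lit 1) (nat_lit 169) (nat_lit 1) (nat_lit 341) (nat_lit 381) (nat_lit 298)) (XT.lf (nat_lit 76) (nat_lit 466321304) (nat_lit 0) (nat_lit 3925760301) (nat_lit 228) (nat_lit 466321304) (nat_lit 168) (nat_lit 1) (nat_lit 167) (nat_lit 1) (nat_lit 170) (nat_lit 1) (nat_lit 342) (nat_lit 381) (nat_lit 297)))) (XT.nd (nat_lit 156) (nat_lit 380) (nat_lit 0) (XT.nd (nat_lit 78) (nat_lit 152) (nat_lit 0) (XT.lf (nat_lit 76) (nat_lit 2180084924) (nat_lit 0) (nat_lit 446820153) (nat_lit 228) (nat_lit 2180084924) (nat_lit 165) (nat_lit 1) (nat_lit 164) (nat_lit 1) (nat_lit 167) (nat_lit 1) (nat_lit 343) (nat_lit 381) (nat_lit 296)) (XT.lf (nat_lit 228) (nat_lit 2974941937) (nat_lit 0) (nat_lit 890740076) (nat_lit 152) (nat_lit 890740076) (nat_lit 165) (nat_lit 1) (nat_lit 162) (nat_lit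 1) (nat_lit 164) (nat_lit 1) (nat_lit 344) (nat_lit 381) (nat_lit 295))) (XT.nd (nat_lit 78) (nat_lit 380) (nat_lit 0) (XT.lf (nat_lit 76) (nat_lit 800302799) (nat_lit 0) (nat_lit 3105863520) (nat_lit 228) (nat_lit 800302799) (nat_lit 163) (nat_lit 1) (nat_lit 162) (nat_lit 1) (nat_lit 165) (nat_lit 1) (nat_lit 345) (nat_lit 381) (nat_lit 294)) (XT.nd (nat_lit 78) (nat_lit 228) (nat_lit 0) (XT.lf (nat_lit 228) (nat_lit 235848833) (nat_lit 0) (nat_lit 2210617687) (nat_lit 152) (nat_lit 2210617687) (nat_lit 163) (nat_lit 1) (nat_lit 160) (nat_lit 1) (nat_lit 162) (nat_lit 1) (nat_lit 346) (nat_lit 381) (nat_lit 293)) (XT.lf (nat_lit 228) (nat_lit 3527645011) (nat_lit 0) (nat_lit 540395981) (nat_lit 152) (nat_lit 540395981) (nat_lit 160) (nat_lit 1) (nat_lit 157) (nat_lit 1) (nat_lit 159) (nat_lit 1) (nat_lit 347) (nat_lit 381) (nat_lit 292))))))) (XT.nd (nat_lit 702) (nat_lit 988) (nat_lit 0) (XT.nd (nat_lit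 312) (nat_lit 456) (nat_lit 0) (XT.nd (nat_lit 156) (nat_lit 228) (nat_lit 0) (XT.nd (nat_lit 78) (nat_lit 152) (nat_lit 0) (XT.lf (nat_lit 76) (nat_lit 1085798827) (nat_lit 0) (nat_lit 2388525665) (nat_lit 228) (nat_lit 1085798827) (nat_lit 158) (nat_lit 1) (nat_lit 157) (nat_lit 1) (nat_lit 160) (nat_lit 1) (nat_lit 348) (nat_lit 381) (nat_lit 291)) (XT.lf (nat_lit 228) (nat_lit 831629905) (nat_lit 0) (nat_lit 1840452454) (nat_lit 152) (nat_lit 1840452454) (nat_lit 158) (nat_lit 1) (nat_lit 155) (nat_lit 1) (nat_lit 157) (nat_lit 1) (nat_lit 349) (nat_lit 381) (nat_lit 290))) (XT.nd (nat_lit 78) (nat_lit 0) (nat_lit 0) (XT.lf (nat_lit 228) (nat_lit 3992953924) (nat_lit 0) (nat_lit 236430908) (nat_lit 152) (nat_lit 236430908) (nat_lit 155) (nat_lit 1) (nat_lit 152) (nat_lit 1) (nat_lit 154) (nat_lit 1) (nat_lit 350) (nat_lit 381) (nat_lit 289)) (XT.lf (nat_lit 76) (nat_lit 1328543588) (nat_lit 0) (nat_lit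 1761985917) (nat_lit 228) (nat_lit 1328543588) (nat_lit 153) (nat_lit 1) (nat_lit 152) (nat_lit 1) (nat_lit 155) (nat_lit 1) (nat_lit 351) (nat_lit 381) (nat_lit 288)))) (XT.nd (nat_lit 156) (nat_lit 304) (nat_lit 0) (XT.nd (nat_lit 78) (nat_lit 0) (nat_lit 0) (XT.lf (nat_lit 228) (nat_lit 1342854800) (nat_lit 0) (nat_lit 1515166975) (nat_lit 152) (nat_lit 1515166975) (nat_lit 153) (nat_lit 1) (nat_lit 150) (nat_lit 1) (nat_lit 152) (nat_lit 1) (nat_lit 352) (nat_lit 381) (nat_lit 287)) (XT.lf (nat_lit 76) (nat_lit 26802721) (nat_lit 0) (nat_lit 4274648148) (nat_lit 228) (nat_lit 26802721) (nat_lit 151) (nat_lit 1) (nat_lit 150) (nat_lit 1) (nat_lit 153) (nat_lit 1) (nat_lit 353) (nat_lit 381) (nat_lit 286))) (XT.nd (nat_lit 78) (nat_lit 152) (nat_lit 0) (XT.lf (nat_lit 76) (nat_lit 1533622309) (nat_lit 0) (nat_lit 1215804385) (nat_lit 152) (nat_lit 1533622309) (nat_lit 149) (nat_lit 1) (nat_lit 148)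 (nat_lit 1) (nat_lit 150) (nat_lit 1) (nat_lit 354) (nat_lit 381) (nat_lit 285)) (XT.nd (nat_lit 78) (nat_lit 0) (nat_lit 0) (XT.lf (nat_lit 228) (nat_lit 1779480359) (nat_lit 0) (nat_lit 1229651676) (nat_lit 152) (nat_lit 1229651676) (nat_lit 149) (nat_lit 1) (nat_lit 146) (nat_lit 1) (nat_lit 148) (nat_lit 1) (nat_lit 355) (nat_lit 381) (nat_lit 284)) (XT.lf (nat_lit 76) (nat_lit 255802589) (nat_lit 0) (nat_lit 3683689357) (nat_lit 228) (nat_lit 255802589) (nat_lit 147) (nat_lit 1) (nat_lit 146) (nat_lit 1) (nat_lit 149) (nat_lit 1) (nat_lit 356) (nat_lit 381) (nat_lit 283)))))) (XT.nd (nat_lit 390) (nat_lit 380) (nat_lit 0) (XT.nd (nat_lit 156) (nat_lit 304) (nat_lit 0) (XT.nd (nat_lit 78) (nat_lit 152) (nat_lit 0) (XT.lf (nat_lit 76) (nat_lit 1705543885) (nat_lit 0) (nat_lit 740714526) (nat_lit 152) (nat_lit 1705543885) (nat_lit 145) (nat_lit 1) (nat_lit 144) (nat_lit 1) (nat_lit 146) (nat_lit 1)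 (nat_lit 357) (nat_lit 381) (nat_lit 282)) (XT.lf (nat_lit 228) (nat_lit 2150337738) (nat_lit 0) (nat_lit 979369824) (nat_lit 152) (nat_lit 979369824) (nat_lit 145) (nat_lit 1) (nat_lit 142) (nat_lit 1) (nat_lit 144) (nat_lit 1) (nat_lit 358) (nat_lit 381) (nat_lit 281))) (XT.nd (nat_lit 78) (nat_lit 304) (nat_lit 0) (XT.lf (nat_lit 76) (nat_lit 452509054) (nat_lit 0) (nat_lit 3161958673) (nat_lit 228) (nat_lit 452509054) (nat_lit 143) (nat_lit 1) (nat_lit 142) (nat_lit 1) (nat_lit 145) (nat_lit 1) (nat_lit 359) (nat_lit 381) (nat_lit 280)) (XT.nd (nat_lit 78) (nat_lit 152) (nat_lit 0) (XT.lf (nat_lit 76) (nat_lit 1848305426) (nat_lit 0) (nat_lit 328492036) (nat_lit 152) (nat_lit 1848305426) (nat_lit 141) (nat_lit 1) (nat_lit 140) (nat_lit 1) (nat_lit 142) (nat_lit 1) (nat_lit 360) (nat_lit 381) (nat_lit 279)) (XT.lf (nat_lit 228) (nat_lit 2463258382) (nat_lit 0) (nat_lit 760293556) (nat_lit 152) (nat_lit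 760293556) (nat_lit 141) (nat_lit 1) (nat_lit 138) (nat_lit 1) (nat_lit 140) (nat_lit 1) (nat_lit 361) (nat_lit 381) (nat_lit 278))))) (XT.nd (nat_lit 156) (nat_lit 304) (nat_lit 0) (XT.nd (nat_lit 78) (nat_lit 76) (nat_lit 0) (XT.lf (nat_lit 76) (nat_lit 620720051) (nat_lit 0) (nat_lit 2701639318) (nat_lit 228) (nat_lit 620720051) (nat_lit 139) (nat_lit 1) (nat_lit 138) (nat_lit 1) (nat_lit 141) (nat_lit 1) (nat_lit 362) (nat_lit 381) (nat_lit 277)) (XT.lf (nat_lit 152) (nat_lit 28722101) (nat_lit 0) (nat_lit 1937003575) (nat_lit 76) (nat_lit 1937003575) (nat_lit 139) (nat_lit 1) (nat_lit 137) (nat_lit 1) (nat_lit 138) (nat_lit 1) (nat_lit 363) (nat_lit 381) (nat_lit 276))) (XT.nd (nat_lit 78) (nat_lit 76) (nat_lit 0) (XT.lf (nat_lit 228) (nat_lit 2725185938) (nat_lit 0) (nat_lit 568847047) (nat_lit 152) (nat_lit 568847047) (nat_lit 137) (nat_lit 1) (nat_lit 134) (nat_lit 1) (nat_lit 136) (nat_lit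 1) (nat_lit 364) (nat_lit 381) (nat_lit 275)) (XT.nd (nat_lit 78) (nat_lit 76) (nat_lit 0) (XT.lf (nat_lit 76) (nat_lit 763804267) (nat_lit 0) (nat_lit 2295789010) (nat_lit 228) (nat_lit 763804267) (nat_lit 135) (nat_lit 1) (nat_lit 134) (nat_lit 1) (nat_lit 137) (nat_lit 1) (nat_lit 365) (nat_lit 381) (nat_lit 274)) (XT.lf (nat_lit 152) (nat_lit 342404289) (nat_lit 0) (nat_lit 1721002588) (nat_lit 76) (nat_lit 1721002588) (nat_lit 135) (nat_lit 1) (nat_lit 133) (nat_lit 1) (nat_lit 134) (nat_lit 1) (nat_lit 366) (nat_lit 381) (nat_lit 273))))))))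
noncomputable def ec209 : XT := (XT.nd (nat_lit 1482) (nat_lit 1444) (nat_lit 0) (XT.nd (nat_lit 702) (nat_lit 760) (nat_lit 0) (XT.nd (nat_lit 312) (nat_lit 380) (nat_lit 0) (XT.nd (nat_lit 156) (nat_lit 304) (nat_lit 0) (XT.nd (nat_lit 78) (nat_lit 0) (nat_lit 0) (XT.lf (nat_lit 228) (nat_lit 2942275681) (nat_lit 0) (nat_lit 401856019) (nat_lit 152) (nat_lit 401856019) (nat_lit 133) (nat_lit 1) (nat_lit 130) (nat_lit 1) (nat_lit 132) (nat_lit 1) (nat_lit 367) (nat_lit 381) (nat_lit 272)) (XT.lf (nat_lit 76) (nat_lit 884749170) (nat_lit 0) (nat_lit 1938242360) (nat_lit 228) (nat_lit 884749170) (nat_lit 131) (nat_lit 1) (nat_lit 130) (nat_lit 1) (nat_lit 133) (nat_lit 1) (nat_lit 368) (nat_lit 381) (nat_lit 271))) (XT.nd (nat_lit 78) (nat_lit 228) (nat_lit 0) (XT.lf (nat_lit 152) (nat_lit 611877187) (nat_lit 0) (nat_lit 1529088509) (nat_lit 76) (nat_lit 1529088509) (nat_lit 131) (nat_lit 1) (nat_lit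 129) (nat_lit 1) (nat_lit 130) (nat_lit 1) (nat_lit 369) (nat_lit 381) (nat_lit 270)) (XT.lf (nat_lit 228) (nat_lit 3119982836) (nat_lit 0) (nat_lit 256502884) (nat_lit 152) (nat_lit 256502884) (nat_lit 129) (nat_lit 1) (nat_lit 126) (nat_lit 1) (nat_lit 128) (nat_lit 1) (nat_lit 370) (nat_lit 381) (nat_lit 269)))) (XT.nd (nat_lit 156) (nat_lit 304) (nat_lit 0) (XT.nd (nat_lit 78) (nat_lit 76) (nat_lit 0) (XT.lf (nat_lit 76) (nat_lit 986203685) (nat_lit 0) (nat_lit 1623524166) (nat_lit 228) (nat_lit 986203685) (nat_lit 127) (nat_lit 1) (nat_lit 126) (nat_lit 1) (nat_lit 129) (nat_lit 1) (nat_lit 371) (nat_lit 381) (nat_lit 268)) (XT.lf (nat_lit 152) (nat_lit 842339530) (nat_lit 0) (nat_lit 1358575335) (nat_lit 76) (nat_lit 1358575335) (nat_lit 127) (nat_lit 1) (nat_lit 125) (nat_lit 1) (nat_lit 126) (nat_lit 1) (nat_lit 372) (nat_lit 381) (nat_lit 267))) (XT.nd (nat_lit 78) (nat_lit 76) (nat_lit 0)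 (XT.lf (nat_lit 228) (nat_lit 3263141040) (nat_lit 0) (nat_lit 130286884) (nat_lit 152) (nat_lit 130286884) (nat_lit 125) (nat_lit 1) (nat_lit 122) (nat_lit 1) (nat_lit 124) (nat_lit 1) (nat_lit 373) (nat_lit 381) (nat_lit 266)) (XT.nd (nat_lit 78) (nat_lit 76) (nat_lit 0) (XT.lf (nat_lit 76) (nat_lit 1070516101) (nat_lit 0) (nat_lit 1346772361) (nat_lit 228) (nat_lit 1070516101) (nat_lit 123) (nat_lit 1) (nat_lit 122) (nat_lit 1) (nat_lit 125) (nat_lit 1) (nat_lit 374) (nat_lit 381) (nat_lit 265)) (XT.lf (nat_lit 152) (nat_lit 1038402495) (nat_lit 0) (nat_lit 1207076589) (nat_lit 76) (nat_lit 1207076589) (nat_lit 123) (nat_lit 1) (nat_lit 121) (nat_lit 1) (nat_lit 122) (nat_lit 1) (nat_lit 375) (nat_lit 381) (nat_lit 264)))))) (XT.nd (nat_lit 390) (nat_lit 304) (nat_lit 0) (XT.nd (nat_lit 156) (nat_lit 228) (nat_lit 0) (XT.nd (nat_lit 78) (nat_lit 0) (nat_lit 0) (XT.lf (nat_lit 228) (nat_lit 3376032045)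 (nat_lit 0) (nat_lit 20988689) (nat_lit 152) (nat_lit 20988689) (nat_lit 121) (nat_lit 1) (nat_lit 118) (nat_lit 1) (nat_lit 120) (nat_lit 1) (nat_lit 376) (nat_lit 381) (nat_lit 263)) (XT.lf (nat_lit 76) (nat_lit 1139767748) (nat_lit 0) (nat_lit 1103669573) (nat_lit 228) (nat_lit 1139767748) (nat_lit 119) (nat_lit 1) (nat_lit 118) (nat_lit 1) (nat_lit 121) (nat_lit 1) (nat_lit 377) (nat_lit 381) (nat_lit 262))) (XT.nd (nat_lit 78) (nat_lit 152) (nat_lit 0) (XT.lf (nat_lit 152) (nat_lit 1204155451) (nat_lit 0) (nat_lit 1072471915) (nat_lit 76) (nat_lit 1072471915) (nat_lit 119) (nat_lit 1) (nat_lit 117) (nat_lit 1) (nat_lit 118) (nat_lit 1) (nat_lit 378) (nat_lit 381) (nat_lit 261)) (XT.nd (nat_lit 78) (nat_lit 152) (nat_lit 0) (XT.lf (nat_lit 0) (nat_lit 74087411) (nat_lit 0) (nat_lit 3167464790) (nat_lit 152) (nat_lit 74087411) (nat_lit 117) (nat_lit 3) (nat_lit 117) (nat_lit 1) (nat_lit 119) (nat_lit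 1) (nat_lit 379) (nat_lit 381) (nat_lit 260)) (XT.lf (nat_lit 76) (nat_lit 1195802919) (nat_lit 0) (nat_lit 890382309) (nat_lit 152) (nat_lit 1195802919) (nat_lit 116) (nat_lit 1) (nat_lit 115) (nat_lit 1) (nat_lit 117) (nat_lit 1) (nat_lit 380) (nat_lit 381) (nat_lit 259))))) (XT.nd (nat_lit 156) (nat_lit 228) (nat_lit 0) (XT.nd (nat_lit 78) (nat_lit 0) (nat_lit 0) (XT.lf (nat_lit 152) (nat_lit 1343224370) (nat_lit 0) (nat_lit 952877406) (nat_lit 76) (nat_lit 952877406) (nat_lit 116) (nat_lit 1) (nat_lit 114) (nat_lit 1) (nat_lit 115) (nat_lit 1) (nat_lit 381) (nat_lit 381) (nat_lit 258)) (XT.lf (nat_lit 0) (nat_lit 156039517) (nat_lit 0) (nat_lit 2904465252) (nat_lit 152) (nat_lit 156039517) (nat_lit 114) (nat_lit 3) (nat_lit 114) (nat_lit 1) (nat_lit 116) (nat_lit 1) (nat_lit 382) (nat_lit 381) (nat_lit 257))) (XT.nd (nat_lit 78) (nat_lit 76) (nat_lit 0) (XT.lf (nat_lit 76) (nat_lit 1240255441) (nat_lit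 0) (nat_lit 703506925) (nat_lit 152) (nat_lit 1240255441) (nat_lit 113) (nat_lit 1) (nat_lit 112) (nat_lit 1) (nat_lit 114) (nat_lit 1) (nat_lit 383) (nat_lit 381) (nat_lit 256)) (XT.nd (nat_lit 78) (nat_lit 0) (nat_lit 0) (XT.lf (nat_lit 152) (nat_lit 1458823716) (nat_lit 0) (nat_lit 846619233) (nat_lit 76) (nat_lit 846619233) (nat_lit 113) (nat_lit 1) (nat_lit 111) (nat_lit 1) (nat_lit 112) (nat_lit 1) (nat_lit 384) (nat_lit 381) (nat_lit 255)) (XT.lf (nat_lit 0) (nat_lit 226225314) (nat_lit 0) (nat_lit 2668165982) (nat_lit 152) (nat_lit 226225314) (nat_lit 111) (nat_lit 3) (nat_lit 111) (nat_lit 1) (nat_lit 113) (nat_lit 1) (nat_lit 385) (nat_lit 381) (nat_lit 254))))))) (XT.nd (nat_lit 702) (nat_lit 760) (nat_lit 0) (XT.nd (nat_lit 312) (nat_lit 304) (nat_lit 0) (XT.nd (nat_lit 156) (nat_lit 152) (nat_lit 0) (XT.nd (nat_lit 78) (nat_lit 76) (nat_lit 0) (XT.lf (nat_lit 76) (nat_lit 1274572290) (nat_lit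 0) (nat_lit 540021621) (nat_lit 152) (nat_lit 1274572290) (nat_lit 110) (nat_lit 1) (nat_lit 109) (nat_lit 1) (nat_lit 111) (nat_lit 1) (nat_lit 386) (nat_lit 381) (nat_lit 253)) (XT.lf (nat_lit 152) (nat_lit 1553802540) (nat_lit 0) (nat_lit 752210223) (nat_lit 76) (nat_lit 752210223) (nat_lit 110) (nat_lit 1) (nat_lit 108) (nat_lit 1) (nat_lit 109) (nat_lit 1) (nat_lit 387) (nat_lit 381) (nat_lit 252))) (XT.nd (nat_lit 78) (nat_lit 152) (nat_lit 0) (XT.lf (nat_lit 0) (nat_lit 286033431) (nat_lit 0) (nat_lit 2455666086) (nat_lit 152) (nat_lit 286033431) (nat_lit 108) (nat_lit 3) (nat_lit 108) (nat_lit 1) (nat_lit 110) (nat_lit 1) (nat_lit 388) (nat_lit 381) (nat_lit 251)) (XT.lf (nat_lit 76) (nat_lit 1300034557) (nat_lit 0) (nat_lit 397243799) (nat_lit 152) (nat_lit 1300034557) (nat_lit 107) (nat_lit 1) (nat_lit 106) (nat_lit 1) (nat_lit 108) (nat_lit 1) (nat_lit 389) (nat_lit 381) (nat_lit 250))))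 (XT.nd (nat_lit 156) (nat_lit 228) (nat_lit 0) (XT.nd (nat_lit 78) (nat_lit 0) (nat_lit 0) (XT.lf (nat_lit 152) (nat_lit 1630685436) (nat_lit 0) (nat_lit 668329040) (nat_lit 76) (nat_lit 668329040) (nat_lit 107) (nat_lit 1) (nat_lit 105) (nat_lit 1) (nat_lit 106) (nat_lit 1) (nat_lit 390) (nat_lit 381) (nat_lit 249)) (XT.lf (nat_lit 0) (nat_lit 336695416) (nat_lit 0) (nat_lit 2264385929) (nat_lit 152) (nat_lit 336695416) (nat_lit 105) (nat_lit 3) (nat_lit 105) (nat_lit 1) (nat_lit 107) (nat_lit 1) (nat_lit 391) (nat_lit 381) (nat_lit 248))) (XT.nd (nat_lit 78) (nat_lit 76) (nat_lit 0) (XT.lf (nat_lit 76) (nat_lit 1317776086) (nat_lit 0) (nat_lit 272792167) (nat_lit 152) (nat_lit 1317776086) (nat_lit 104) (nat_lit 1) (nat_lit 103) (nat_lit 1) (nat_lit 105) (nat_lit 1) (nat_lit 392) (nat_lit 381) (nat_lit 247)) (XT.nd (nat_lit 78) (nat_lit 0) (nat_lit 0) (XT.lf (nat_lit 152) (nat_lit 1691708912) (nat_lit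 0) (nat_lit 593801696) (nat_lit 76) (nat_lit 593801696) (nat_lit 104) (nat_lit 1) (nat_lit 102) (nat_lit 1) (nat_lit 103) (nat_lit 1) (nat_lit 393) (nat_lit 381) (nat_lit 246)) (XT.lf (nat_lit 0) (nat_lit 379303319) (nat_lit 0) (nat_lit 2092031372) (nat_lit 152) (nat_lit 379303319) (nat_lit 102) (nat_lit 3) (nat_lit 102) (nat_lit 1) (nat_lit 104) (nat_lit 1) (nat_lit 394) (nat_lit 381) (nat_lit 245)))))) (XT.nd (nat_lit 390) (nat_lit 304) (nat_lit 0) (XT.nd (nat_lit 156) (nat_lit 228) (nat_lit 0) (XT.nd (nat_lit 78) (nat_lit 76) (nat_lit 0) (XT.lf (nat_lit 76) (nat_lit 1328800014) (nat_lit 0) (nat_lit 164553081) (nat_lit 152) (nat_lit 1328800014) (nat_lit 101) (nat_lit 1) (nat_lit 100) (nat_lit 1) (nat_lit 102) (nat_lit 1) (nat_lit 395) (nat_lit 381) (nat_lit 244)) (XT.lf (nat_lit 152) (nat_lit 1738853712) (nat_lit 0) (nat_lit 527585116) (nat_lit 76) (nat_lit 527585116) (nat_lit 101) (nat_lit 1) (nat_lit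 99) (nat_lit 1) (nat_lit 100) (nat_lit 1) (nat_lit 396) (nat_lit 381) (nat_lit 243))) (XT.nd (nat_lit 78) (nat_lit 228) (nat_lit 0) (XT.lf (nat_lit 0) (nat_lit 414825312) (nat_lit 0) (nat_lit 1936562004) (nat_lit 152) (nat_lit 414825312) (nat_lit 99) (nat_lit 3) (nat_lit 99) (nat_lit 1) (nat_lit 101) (nat_lit 1) (nat_lit 397) (nat_lit 381) (nat_lit 242)) (XT.nd (nat_lit 78) (nat_lit 76) (nat_lit 0) (XT.lf (nat_lit 76) (nat_lit 1333993474) (nat_lit 0) (nat_lit 70650635) (nat_lit 152) (nat_lit 1333993474) (nat_lit 98) (nat_lit 1) (nat_lit 97) (nat_lit 1) (nat_lit 99) (nat_lit 1) (nat_lit 398) (nat_lit 381) (nat_lit 241)) (XT.lf (nat_lit 152) (nat_lit 1773873521) (nat_lit 0) (nat_lit 468752542) (nat_lit 76) (nat_lit 468752542) (nat_lit 98) (nat_lit 1) (nat_lit 96) (nat_lit 1) (nat_lit 97) (nat_lit 1) (nat_lit 399) (nat_lit 381) (nat_lit 240))))) (XT.nd (nat_lit 156) (nat_lit 228) (nat_lit 0) (XT.nd (nat_lit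 78) (nat_lit 76) (nat_lit 0) (XT.lf (nat_lit 0) (nat_lit 444119564) (nat_lit 0) (nat_lit 1796162905) (nat_lit 152) (nat_lit 444119564) (nat_lit 96) (nat_lit 3) (nat_lit 96) (nat_lit 1) (nat_lit 98) (nat_lit 1) (nat_lit 400) (nat_lit 381) (nat_lit 239)) (XT.lf (nat_lit 76) (nat_lit 10790470) (nat_lit 0) (nat_lit 1323453908) (nat_lit 76) (nat_lit 1323453908) (nat_lit 96) (nat_lit 3) (nat_lit 95) (nat_lit 1) (nat_lit 96) (nat_lit 1) (nat_lit 401) (nat_lit 381) (nat_lit 238))) (XT.nd (nat_lit 78) (nat_lit 76) (nat_lit 0) (XT.lf (nat_lit 152) (nat_lit 1798320463) (nat_lit 0) (nat_lit 416480562) (nat_lit 76) (nat_lit 416480562) (nat_lit 95) (nat_lit 1) (nat_lit 93) (nat_lit 1) (nat_lit 94) (nat_lit 1) (nat_lit 402) (nat_lit 381) (nat_lit 237)) (XT.nd (nat_lit 78) (nat_lit 76) (nat_lit 0) (XT.lf (nat_lit 0) (nat_lit 467946564) (nat_lit 0) (nat_lit 1669219561) (nat_lit 152) (nat_lit 467946564) (nat_lit 93)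 (nat_lit 3) (nat_lit 93) (nat_lit 1) (nat_lit 95) (nat_lit 1) (nat_lit 403) (nat_lit 381) (nat_lit 236)) (XT.lf (nat_lit 76) (nat_lit 82220139) (nat_lit 0) (nat_lit 1248504602) (nat_lit 76) (nat_lit 1248504602) (nat_lit 93) (nat_lit 3) (nat_lit 92) (nat_lit 1) (nat_lit 93) (nat_lit 1) (nat_lit 404) (nat_lit 381) (nat_lit 235))))))))
noncomputable def ec210 : XT := (XT.nd (nat_lit 1482) (nat_lit 532) (nat_lit 0) (XT.nd (nat_lit 702) (nat_lit 836) (nat_lit 0) (XT.nd (nat_lit 312) (nat_lit 304) (nat_lit 0) (XT.nd (nat_lit 156) (nat_lit 228) (nat_lit 0) (XT.nd (nat_lit 78) (nat_lit 0) (nat_lit 0) (XT.lf (nat_lit 152) (nat_lit 1813567755) (nat_lit 0) (nat_lit 370037585) (nat_lit 76) (nat_lit 370037585) (nat_lit 92) (nat_lit 1) (nat_lit 90) (nat_lit 1) (nat_lit 91) (nat_lit 1) (nat_lit 405) (nat_lit 381) (nat_lit 234)) (XT.lf (nat_lit 0) (nat_lit 486980077) (nat_lit 0) (nat_lit 1554295576) (nat_lit 152) (nat_lit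 486980077) (nat_lit 90) (nat_lit 3) (nat_lit 90) (nat_lit 1) (nat_lit 92) (nat_lit 1) (nat_lit 406) (nat_lit 381) (nat_lit 233))) (XT.nd (nat_lit 78) (nat_lit 152) (nat_lit 0) (XT.lf (nat_lit 76) (nat_lit 143568952) (nat_lit 0) (nat_lit 1179797592) (nat_lit 76) (nat_lit 1179797592) (nat_lit 90) (nat_lit 3) (nat_lit 89) (nat_lit 1) (nat_lit 90) (nat_lit 1) (nat_lit 407) (nat_lit 381) (nat_lit 232)) (XT.lf (nat_lit 152) (nat_lit 1820829826) (nat_lit 0) (nat_lit 328773602) (nat_lit 76) (nat_lit 328773602) (nat_lit 89) (nat_lit 1) (nat_lit 87) (nat_lit 1) (nat_lit 88) (nat_lit 1) (nat_lit 408) (nat_lit 381) (nat_lit 231)))) (XT.nd (nat_lit 156) (nat_lit 228) (nat_lit 0) (XT.nd (nat_lit 78) (nat_lit 76) (nat_lit 0) (XT.lf (nat_lit 0) (nat_lit 501816865) (nat_lit 0) (nat_lit 1450112862) (nat_lit 152) (nat_lit 501816865) (nat_lit 87) (nat_lit 3) (nat_lit 87) (nat_lit 1) (nat_lit 89) (nat_lit 1) (nat_lit 409)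 (nat_lit 381) (nat_lit 230)) (XT.lf (nat_lit 76) (nat_lit 196022672) (nat_lit 0) (nat_lit 1116698397) (nat_lit 76) (nat_lit 1116698397) (nat_lit 87) (nat_lit 3) (nat_lit 86) (nat_lit 1) (nat_lit 87) (nat_lit 1) (nat_lit 410) (nat_lit 381) (nat_lit 229))) (XT.nd (nat_lit 78) (nat_lit 76) (nat_lit 0) (XT.lf (nat_lit 152) (nat_lit 1821180187) (nat_lit 0) (nat_lit 292111087) (nat_lit 76) (nat_lit 292111087) (nat_lit 86) (nat_lit 1) (nat_lit 84) (nat_lit 1) (nat_lit 85) (nat_lit 1) (nat_lit 411) (nat_lit 381) (nat_lit 228)) (XT.nd (nat_lit 78) (nat_lit 76) (nat_lit 0) (XT.lf (nat_lit 0) (nat_lit 512985333) (nat_lit 0) (nat_lit 1355534044) (nat_lit 152) (nat_lit 512985333) (nat_lit 84) (nat_lit 3) (nat_lit 84) (nat_lit 1) (nat_lit 86) (nat_lit 1) (nat_lit 412) (nat_lit 381) (nat_lit 227)) (XT.lf (nat_lit 76) (nat_lit 240633040) (nat_lit 0) (nat_lit 1058641497) (nat_lit 76) (nat_lit 1058641497) (nat_lit 84)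 (nat_lit 3) (nat_lit 83) (nat_lit 1) (nat_lit 84) (nat_lit 1) (nat_lit 413) (nat_lit 381) (nat_lit 226)))))) (XT.nd (nat_lit 390) (nat_lit 456) (nat_lit 0) (XT.nd (nat_lit 156) (nat_lit 228) (nat_lit 0) (XT.nd (nat_lit 78) (nat_lit 0) (nat_lit 0) (XT.lf (nat_lit 152) (nat_lit 1815567310) (nat_lit 0) (nat_lit 259536917) (nat_lit 76) (nat_lit 259536917) (nat_lit 83) (nat_lit 1) (nat_lit 81) (nat_lit 1) (nat_lit 82) (nat_lit 1) (nat_lit 414) (nat_lit 381) (nat_lit 225)) (XT.lf (nat_lit 0) (nat_lit 520953201) (nat_lit 0) (nat_lit 1269546818) (nat_lit 152) (nat_lit 520953201) (nat_lit 81) (nat_lit 3) (nat_lit 81) (nat_lit 1) (nat_lit 83) (nat_lit 1) (nat_lit 415) (nat_lit 381) (nat_lit 224))) (XT.nd (nat_lit 78) (nat_lit 152) (nat_lit 0) (XT.lf (nat_lit 76) (nat_lit 278332771) (nat_lit 0) (nat_lit 1005122690) (nat_lit 76) (nat_lit 1005122690) (nat_lit 81) (nat_lit 3) (nat_lit 80) (nat_lit 1) (nat_lit 81)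 (nat_lit 1) (nat_lit 416) (nat_lit 381) (nat_lit 223)) (XT.nd (nat_lit 78) (nat_lit 0) (nat_lit 0) (XT.lf (nat_lit 152) (nat_lit 1804828720) (nat_lit 0) (nat_lit 230595189) (nat_lit 76) (nat_lit 230595189) (nat_lit 80) (nat_lit 1) (nat_lit 78) (nat_lit 1) (nat_lit 79) (nat_lit 1) (nat_lit 417) (nat_lit 381) (nat_lit 222)) (XT.lf (nat_lit 0) (nat_lit 526134324) (nat_lit 0) (nat_lit 1191250056) (nat_lit 152) (nat_lit 526134324) (nat_lit 78) (nat_lit 3) (nat_lit 78) (nat_lit 1) (nat_lit 80) (nat_lit 1) (nat_lit 418) (nat_lit 381) (nat_lit 221))))) (XT.nd (nat_lit 156) (nat_lit 228) (nat_lit 0) (XT.nd (nat_lit 78) (nat_lit 152) (nat_lit 0) (XT.lf (nat_lit 76) (nat_lit 309948880) (nat_lit 0) (nat_lit 955692309) (nat_lit 76) (nat_lit 955692309) (nat_lit 78) (nat_lit 3) (nat_lit 77) (nat_lit 1) (nat_lit 78) (nat_lit 1) (nat_lit 419) (nat_lit 381) (nat_lit 220)) (XT.lf (nat_lit 152) (nat_lit 1789703525) (nat_lit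 0) (nat_lit 204880839) (nat_lit 76) (nat_lit 204880839) (nat_lit 77) (nat_lit 1) (nat_lit 75) (nat_lit 1) (nat_lit 76) (nat_lit 1) (nat_lit 420) (nat_lit 381) (nat_lit 219))) (XT.nd (nat_lit 78) (nat_lit 228) (nat_lit 0) (XT.lf (nat_lit 0) (nat_lit 528894748) (nat_lit 0) (nat_lit 1119841462) (nat_lit 152) (nat_lit 528894748) (nat_lit 75) (nat_lit 3) (nat_lit 75) (nat_lit 1) (nat_lit 77) (nat_lit 1) (nat_lit 421) (nat_lit 381) (nat_lit 218)) (XT.nd (nat_lit 78) (nat_lit 152) (nat_lit 0) (XT.lf (nat_lit 76) (nat_lit 336214514) (nat_lit 0) (nat_lit 909949187) (nat_lit 76) (nat_lit 909949187) (nat_lit 75) (nat_lit 3) (nat_lit 74) (nat_lit 1) (nat_lit 75) (nat_lit 1) (nat_lit 422) (nat_lit 381) (nat_lit 217)) (XT.lf (nat_lit 152) (nat_lit 1770843532) (nat_lit 0) (nat_lit 182033972) (nat_lit 76) (nat_lit 182033972) (nat_lit 74) (nat_lit 1) (nat_lit 72) (nat_lit 1) (nat_lit 73) (nat_lit 1) (nat_lit 423) (nat_lit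 381) (nat_lit 216))))))) (XT.nd (nat_lit 40092) (nat_lit 0) (nat_lit 23484) (XT.nd (nat_lit 312) (nat_lit 304) (nat_lit 0) (XT.nd (nat_lit 156) (nat_lit 152) (nat_lit 0) (XT.nd (nat_lit 78) (nat_lit 76) (nat_lit 0) (XT.lf (nat_lit 0) (nat_lit 529558090) (nat_lit 0) (nat_lit 1054606591) (nat_lit 152) (nat_lit 529558090) (nat_lit 72) (nat_lit 3) (nat_lit 72) (nat_lit 1) (nat_lit 74) (nat_lit 1) (nat_lit 424) (nat_lit 381) (nat_lit 215)) (XT.lf (nat_lit 76) (nat_lit 357779473) (nat_lit 0) (nat_lit 867535299) (nat_lit 76) (nat_lit 867535299) (nat_lit 72) (nat_lit 3) (nat_lit 71) (nat_lit 1) (nat_lit 72) (nat_lit 1) (nat_lit 425) (nat_lit 381) (nat_lit 214))) (XT.nd (nat_lit 78) (nat_lit 0) (nat_lit 0) (XT.lf (nat_lit 152) (nat_lit 1748823124) (nat_lit 0) (nat_lit 161734826) (nat_lit 76) (nat_lit 161734826) (nat_lit 71) (nat_lit 1) (nat_lit 69) (nat_lit 1) (nat_lit 70) (nat_lit 1) (nat_lit 426) (nat_lit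 381) (nat_lit 213)) (XT.lf (nat_lit 0) (nat_lit 528410317) (nat_lit 0) (nat_lit 994909110) (nat_lit 152) (nat_lit 528410317) (nat_lit 69) (nat_lit 3) (nat_lit 69) (nat_lit 1) (nat_lit 71) (nat_lit 1) (nat_lit 427) (nat_lit 381) (nat_lit 212)))) (XT.nd (nat_lit 156) (nat_lit 76) (nat_lit 0) (XT.nd (nat_lit 78) (nat_lit 152) (nat_lit 0) (XT.lf (nat_lit 76) (nat_lit 375219546) (nat_lit 0) (nat_lit 828130995) (nat_lit 76) (nat_lit 828130995) (nat_lit 69) (nat_lit 3) (nat_lit 68) (nat_lit 1) (nat_lit 69) (nat_lit 1) (nat_lit 428) (nat_lit 381) (nat_lit 211)) (XT.lf (nat_lit 152) (nat_lit 1724148037) (nat_lit 0) (nat_lit 143699298) (nat_lit 76) (nat_lit 143699298) (nat_lit 68) (nat_lit 1) (nat_lit 66) (nat_lit 1) (nat_lit 67) (nat_lit 1) (nat_lit 429) (nat_lit 381) (nat_lit 210))) (XT.nd (nat_lit 78) (nat_lit 76) (nat_lit 0) (XT.lf (nat_lit 0) (nat_lit 525703987) (nat_lit 0) (nat_lit 940182122) (nat_lit 152)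 (nat_lit 525703987) (nat_lit 66) (nat_lit 3) (nat_lit 66) (nat_lit 1) (nat_lit 68) (nat_lit 1) (nat_lit 430) (nat_lit 381) (nat_lit 209)) (XT.nd (nat_lit 39468) (nat_lit 0) (nat_lit 23484) (XT.lf (nat_lit 76) (nat_lit 389044812) (nat_lit 0) (nat_lit 791450768) (nat_lit 76) (nat_lit 791450768) (nat_lit 66) (nat_lit 3) (nat_lit 65) (nat_lit 1) (nat_lit 66) (nat_lit 1) (nat_lit 431) (nat_lit 381) (nat_lit 208)) (XT.lf (nat_lit 1292) (nat_lit 1290708336) (nat_lit 0) (nat_lit 4440636944) (nat_lit 1292) (nat_lit 1290708336) (nat_lit 391) (nat_lit 1) (nat_lit 374) (nat_lit 0) (nat_lit 391) (nat_lit 0) (nat_lit 256) (nat_lit 382) (nat_lit 382)))))) (XT.nd (nat_lit 390) (nat_lit 0) (nat_lit 228) (XT.nd (nat_lit 156) (nat_lit 0) (nat_lit 76) (XT.nd (nat_lit 78) (nat_lit 0) (nat_lit 76) (XT.lf (nat_lit 1292) (nat_lit 5044110794) (nat_lit 76) (nat_lit 4397101288) (nat_lit 0) (nat_lit 4397101288) (nat_lit 391) (nat_lit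 1) (nat_lit 375) (nat_lit 1) (nat_lit 374) (nat_lit 0) (nat_lit 257) (nat_lit 382) (nat_lit 381)) (XT.lf (nat_lit 1292) (nat_lit 2439452246) (nat_lit 0) (nat_lit 8758154400) (nat_lit 1216) (nat_lit 2439452246) (nat_lit 392) (nat_lit 1) (nat_lit 375) (nat_lit 1) (nat_lit 391) (nat_lit 1) (nat_lit 258) (nat_lit 382) (nat_lit 380))) (XT.nd (nat_lit 78) (nat_lit 0) (nat_lit 76) (XT.lf (nat_lit 1292) (nat_lit 4632645765) (nat_lit 76) (nat_lit 4403259764) (nat_lit 0) (nat_lit 4403259764) (nat_lit 392) (nat_lit 1) (nat_lit 376) (nat_lit 1) (nat_lit 375) (nat_lit 1) (nat_lit 259) (nat_lit 382) (nat_lit 379)) (XT.nd (nat_lit 78) (nat_lit 0) (nat_lit 0) (XT.lf (nat_lit 1292) (nat_lit 2173845921) (nat_lit 0) (nat_lit 8898007789) (nat_lit 1216) (nat_lit 2173845921) (nat_lit 393) (nat_lit 1) (nat_lit 376) (nat_lit 1) (nat_lit 392) (nat_lit 1) (nat_lit 260) (nat_lit 382) (nat_lit 378)) (XT.lf (nat_lit 1292) (nat_lit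 3983802178) (nat_lit 76) (nat_lit 4535762939) (nat_lit 0) (nat_lit 4535762939) (nat_lit 393) (nat_lit 1) (nat_lit 377) (nat_lit 1) (nat_lit 376) (nat_lit 1) (nat_lit 261) (nat_lit 382) (nat_lit 377))))) (XT.nd (nat_lit 156) (nat_lit 0) (nat_lit 76) (XT.nd (nat_lit 78) (nat_lit 0) (nat_lit 0) (XT.lf (nat_lit 1292) (nat_lit 1795533827) (nat_lit 0) (nat_lit 9278284785) (nat_lit 1216) (nat_lit 1795533827) (nat_lit 394) (nat_lit 1) (nat_lit 377) (nat_lit 1) (nat_lit 393) (nat_lit 1) (nat_lit 262) (nat_lit 382) (nat_lit 376)) (XT.lf (nat_lit 1292) (nat_lit 3118808426) (nat_lit 76) (nat_lit 4783667870) (nat_lit 0) (nat_lit 4783667870) (nat_lit 394) (nat_lit 1) (nat_lit 378) (nat_lit 1) (nat_lit 377) (nat_lit 1) (nat_lit 263) (nat_lit 382) (nat_lit 375))) (XT.nd (nat_lit 78) (nat_lit 0) (nat_lit 0) (XT.lf (nat_lit 1292) (nat_lit 1314712514) (nat_lit 0) (nat_lit 9877947630) (nat_lit 1216) (nat_lit 1314712514)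 (nat_lit 395) (nat_lit 1) (nat_lit 378) (nat_lit 1) (nat_lit 394) (nat_lit 1) (nat_lit 264) (nat_lit 382) (nat_lit 374)) (XT.nd (nat_lit 78) (nat_lit 0) (nat_lit 76) (XT.lf (nat_lit 1292) (nat_lit 2057452894) (nat_lit 76) (nat_lit 5136767268) (nat_lit 0) (nat_lit 5136767268) (nat_lit 395) (nat_lit 1) (nat_lit 379) (nat_lit 1) (nat_lit 378) (nat_lit 1) (nat_lit 265) (nat_lit 382) (nat_lit 373)) (XT.lf (nat_lit 1292) (nat_lit 740884660) (nat_lit 0) (nat_lit 10677376989) (nat_lit 1216) (nat_lit 740884660) (nat_lit 396) (nat_lit 1) (nat_lit 379) (nat_lit 1) (nat_lit 395) (nat_lit 1) (nat_lit 266) (nat_lit 382) (nat_lit 372))))))))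
noncomputable def ec211 : XT := (XT.nd (nat_lit 1482) (nat_lit 4788) (nat_lit 0) (XT.nd (nat_lit 702) (nat_lit 3496) (nat_lit 0) (XT.nd (nat_lit 312) (nat_lit 684) (nat_lit 0) (XT.nd (nat_lit 156) (nat_lit 1216) (nat_lit 0) (XT.nd (nat_lit 78) (nat_lit 0) (nat_lit 76) (XT.lf (nat_lit 1292) (nat_lit 818173062) (nat_lit 76) (nat_lit 5585544135) (nat_lit 0) (nat_lit 5585544135) (nat_lit 396) (nat_lit 1) (nat_lit 380) (nat_lit 1) (nat_lit 379) (nat_lit 1) (nat_lit 267) (nat_lit 382) (nat_lit 371)) (XT.lf (nat_lit 1292) (nat_lit 82902064) (nat_lit 0) (nat_lit 11658284392) (nat_lit 1216) (nat_lit 82902064) (nat_lit 397) (nat_lit 1) (nat_lit 380) (nat_lit 1) (nat_lit 396) (nat_lit 1) (nat_lit 268) (nat_lit 382) (nat_lit 370))) (XT.nd (nat_lit 78) (nat_lit 0) (nat_lit 0) (XT.lf (nat_lit 1368) (nat_lit 5544861627) (nat_lit 0) (nat_lit 570506477) (nat_lit 1292) (nat_lit 5544861627) (nat_lit 381) (nat_lit 1) (nat_lit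 363) (nat_lit 1) (nat_lit 380) (nat_lit 1) (nat_lit 269) (nat_lit 382) (nat_lit 369)) (XT.lf (nat_lit 1368) (nat_lit 10211664060) (nat_lit 76) (nat_lit 644611625) (nat_lit 0) (nat_lit 644611625) (nat_lit 381) (nat_lit 1) (nat_lit 364) (nat_lit 1) (nat_lit 363) (nat_lit 1) (nat_lit 270) (nat_lit 382) (nat_lit 368)))) (XT.nd (nat_lit 156) (nat_lit 760) (nat_lit 0) (XT.nd (nat_lit 78) (nat_lit 0) (nat_lit 0) (XT.lf (nat_lit 1368) (nat_lit 4629036910) (nat_lit 0) (nat_lit 2085167287) (nat_lit 1292) (nat_lit 4629036910) (nat_lit 382) (nat_lit 1) (nat_lit 364) (nat_lit 1) (nat_lit 381) (nat_lit 1) (nat_lit 271) (nat_lit 382) (nat_lit 367)) (XT.lf (nat_lit 1368) (nat_lit 8311815237) (nat_lit 76) (nat_lit 1438887941) (nat_lit 0) (nat_lit 1438887941) (nat_lit 382) (nat_lit 1) (nat_lit 365) (nat_lit 1) (nat_lit 364) (nat_lit 1) (nat_lit 272) (nat_lit 382) (nat_lit 366))) (XT.nd (nat_lit 78) (nat_lit 836) (nat_lit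 0) (XT.lf (nat_lit 76) (nat_lit 3655411191) (nat_lit 0) (nat_lit 3727197043) (nat_lit 1292) (nat_lit 3655411191) (nat_lit 366) (nat_lit 1) (nat_lit 365) (nat_lit 1) (nat_lit 382) (nat_lit 1) (nat_lit 273) (nat_lit 382) (nat_lit 365)) (XT.nd (nat_lit 78) (nat_lit 0) (nat_lit 0) (XT.lf (nat_lit 912) (nat_lit 6302443513) (nat_lit 0) (nat_lit 2293677312) (nat_lit 836) (nat_lit 2293677312) (nat_lit 366) (nat_lit 1) (nat_lit 354) (nat_lit 1) (nat_lit 365) (nat_lit 1) (nat_lit 274) (nat_lit 382) (nat_lit 364)) (XT.lf (nat_lit 76) (nat_lit 2630517235) (nat_lit 0) (nat_lit 5483042014) (nat_lit 912) (nat_lit 2630517235) (nat_lit 355) (nat_lit 1) (nat_lit 354) (nat_lit 1) (nat_lit 366) (nat_lit 1) (nat_lit 275) (nat_lit 382) (nat_lit 363)))))) (XT.nd (nat_lit 390) (nat_lit 1672) (nat_lit 0) (XT.nd (nat_lit 156) (nat_lit 1216) (nat_lit 0) (XT.nd (nat_lit 78) (nat_lit 0) (nat_lit 0) (XT.lf (nat_lit 684) (nat_lit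 4196202417) (nat_lit 0) (nat_lit 3202415523) (nat_lit 608) (nat_lit 3202415523) (nat_lit 355) (nat_lit 1) (nat_lit 346) (nat_lit 1) (nat_lit 354) (nat_lit 1) (nat_lit 276) (nat_lit 382) (nat_lit 362)) (XT.lf (nat_lit 76) (nat_lit 1560419165) (nat_lit 0) (nat_lit 7340108320) (nat_lit 684) (nat_lit 1560419165) (nat_lit 347) (nat_lit 1) (nat_lit 346) (nat_lit 1) (nat_lit 355) (nat_lit 1) (nat_lit 277) (nat_lit 382) (nat_lit 361))) (XT.nd (nat_lit 78) (nat_lit 608) (nat_lit 0) (XT.lf (nat_lit 684) (nat_lit 2004833681) (nat_lit 0) (nat_lit 4159005189) (nat_lit 608) (nat_lit 4159005189) (nat_lit 347) (nat_lit 1) (nat_lit 338) (nat_lit 1) (nat_lit 346) (nat_lit 1) (nat_lit 278) (nat_lit 382) (nat_lit 360)) (XT.nd (nat_lit 78) (nat_lit 608) (nat_lit 0) (XT.lf (nat_lit 76) (nat_lit 450742092) (nat_lit 0) (nat_lit 9286701539) (nat_lit 684) (nat_lit 450742092) (nat_lit 339) (nat_lit 1) (nat_lit 338) (nat_lit 1)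 (nat_lit 347) (nat_lit 1) (nat_lit 279) (nat_lit 382) (nat_lit 359)) (XT.lf (nat_lit 76) (nat_lit 4899518045) (nat_lit 0) (nat_lit 255686354) (nat_lit 608) (nat_lit 4899518045) (nat_lit 331) (nat_lit 1) (nat_lit 330) (nat_lit 1) (nat_lit 338) (nat_lit 1) (nat_lit 280) (nat_lit 382) (nat_lit 358))))) (XT.nd (nat_lit 156) (nat_lit 1064) (nat_lit 0) (XT.nd (nat_lit 78) (nat_lit 0) (nat_lit 0) (XT.lf (nat_lit 684) (nat_lit 8551560139) (nat_lit 0) (nat_lit 686502976) (nat_lit 608) (nat_lit 686502976) (nat_lit 331) (nat_lit 1) (nat_lit 322) (nat_lit 1) (nat_lit 330) (nat_lit 1) (nat_lit 281) (nat_lit 382) (nat_lit 357)) (XT.lf (nat_lit 76) (nat_lit 3627874763) (nat_lit 0) (nat_lit 2539985090) (nat_lit 684) (nat_lit 3627874763) (nat_lit 323) (nat_lit 1) (nat_lit 322) (nat_lit 1) (nat_lit 331) (nat_lit 1) (nat_lit 282) (nat_lit 382) (nat_lit 356))) (XT.nd (nat_lit 78) (nat_lit 532) (nat_lit 0) (XT.lf (nat_lit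 608) (nat_lit 5972779157) (nat_lit 0) (nat_lit 1848575531) (nat_lit 532) (nat_lit 1848575531) (nat_lit 323) (nat_lit 1) (nat_lit 315) (nat_lit 1) (nat_lit 322) (nat_lit 1) (nat_lit 283) (nat_lit 382) (nat_lit 355)) (XT.nd (nat_lit 78) (nat_lit 532) (nat_lit 0) (XT.lf (nat_lit 76) (nat_lit 2334020214) (nat_lit 0) (nat_lit 4878027179) (nat_lit 608) (nat_lit 2334020214) (nat_lit 316) (nat_lit 1) (nat_lit 315) (nat_lit 1) (nat_lit 323) (nat_lit 1) (nat_lit 284) (nat_lit 382) (nat_lit 354)) (XT.lf (nat_lit 608) (nat_lit 3353480003) (nat_lit 0) (nat_lit 3035469857) (nat_lit 532) (nat_lit 3035469857) (nat_lit 316) (nat_lit 1) (nat_lit 308) (nat_lit 1) (nat_lit 315) (nat_lit 1) (nat_lit 285) (nat_lit 382) (nat_lit 353))))))) (XT.nd (nat_lit 702) (nat_lit 2356) (nat_lit 0) (XT.nd (nat_lit 312) (nat_lit 1368) (nat_lit 0) (XT.nd (nat_lit 156) (nat_lit 608) (nat_lit 0) (XT.nd (nat_lit 78) (nat_lit 456) (nat_lit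 0) (XT.lf (nat_lit 76) (nat_lit 1022002486) (nat_lit 0) (nat_lit 7261342927) (nat_lit 608) (nat_lit 1022002486) (nat_lit 309) (nat_lit 1) (nat_lit 308) (nat_lit 1) (nat_lit 316) (nat_lit 1) (nat_lit 286) (nat_lit 382) (nat_lit 352)) (XT.lf (nat_lit 532) (nat_lit 701480355) (nat_lit 0) (nat_lit 4243095176) (nat_lit 456) (nat_lit 4243095176) (nat_lit 309) (nat_lit 1) (nat_lit 302) (nat_lit 1) (nat_lit 308) (nat_lit 1) (nat_lit 287) (nat_lit 382) (nat_lit 351))) (XT.nd (nat_lit 78) (nat_lit 0) (nat_lit 0) (XT.lf (nat_lit 608) (nat_lit 8469948291) (nat_lit 0) (nat_lit 301458736) (nat_lit 532) (nat_lit 301458736) (nat_lit 302) (nat_lit 1) (nat_lit 294) (nat_lit 1) (nat_lit 301) (nat_lit 1) (nat_lit 288) (nat_lit 382) (nat_lit 350)) (XT.lf (nat_lit 76) (nat_lit 3510656981) (nat_lit 0) (nat_lit 1937451739) (nat_lit 608) (nat_lit 3510656981) (nat_lit 295) (nat_lit 1) (nat_lit 294) (nat_lit 1) (nat_lit 302)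 (nat_lit 1) (nat_lit 289) (nat_lit 382) (nat_lit 349)))) (XT.nd (nat_lit 156) (nat_lit 912) (nat_lit 0) (XT.nd (nat_lit 78) (nat_lit 0) (nat_lit 0) (XT.lf (nat_lit 532) (nat_lit 5595878244) (nat_lit 0) (nat_lit 1625778729) (nat_lit 456) (nat_lit 1625778729) (nat_lit 295) (nat_lit 1) (nat_lit 288) (nat_lit 1) (nat_lit 294) (nat_lit 1) (nat_lit 290) (nat_lit 382) (nat_lit 348)) (XT.lf (nat_lit 76) (nat_lit 2078277667) (nat_lit 0) (nat_lit 4581179260) (nat_lit 532) (nat_lit 2078277667) (nat_lit 289) (nat_lit 1) (nat_lit 288) (nat_lit 1) (nat_lit 295) (nat_lit 1) (nat_lit 291) (nat_lit 382) (nat_lit 347))) (XT.nd (nat_lit 78) (nat_lit 456) (nat_lit 0) (XT.lf (nat_lit 532) (nat_lit 2714240929) (nat_lit 0) (nat_lit 2957839786) (nat_lit 456) (nat_lit 2957839786) (nat_lit 289) (nat_lit 1) (nat_lit 282) (nat_lit 1) (nat_lit 288) (nat_lit 1) (nat_lit 292) (nat_lit 382) (nat_lit 346)) (XT.nd (nat_lit 78) (nat_lit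 456) (nat_lit 0) (XT.lf (nat_lit 76) (nat_lit 643531004) (nat_lit 0) (nat_lit 7237401890) (nat_lit 532) (nat_lit 643531004) (nat_lit 283) (nat_lit 1) (nat_lit 282) (nat_lit 1) (nat_lit 289) (nat_lit 1) (nat_lit 293) (nat_lit 382) (nat_lit 345)) (XT.lf (nat_lit 76) (nat_lit 4126883714) (nat_lit 0) (nat_lit 166195888) (nat_lit 456) (nat_lit 4126883714) (nat_lit 277) (nat_lit 1) (nat_lit 276) (nat_lit 1) (nat_lit 282) (nat_lit 1) (nat_lit 294) (nat_lit 382) (nat_lit 344)))))) (XT.nd (nat_lit 390) (nat_lit 1140) (nat_lit 0) (XT.nd (nat_lit 156) (nat_lit 760) (nat_lit 0) (XT.nd (nat_lit 78) (nat_lit 0) (nat_lit 0) (XT.lf (nat_lit 532) (nat_lit 6751277578) (nat_lit 0) (nat_lit 783228534) (nat_lit 456) (nat_lit 783228534) (nat_lit 277) (nat_lit 1) (nat_lit 270) (nat_lit 1) (nat_lit 276) (nat_lit 1) (nat_lit 295) (nat_lit 382) (nat_lit 343)) (XT.lf (nat_lit 76) (nat_lit 2612852617) (nat_lit 0) (nat_lit 2990831352)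 (nat_lit 532) (nat_lit 2612852617) (nat_lit 271) (nat_lit 1) (nat_lit 270) (nat_lit 1) (nat_lit 277) (nat_lit 1) (nat_lit 296) (nat_lit 382) (nat_lit 342))) (XT.nd (nat_lit 78) (nat_lit 380) (nat_lit 0) (XT.lf (nat_lit 456) (nat_lit 3715245160) (nat_lit 0) (nat_lit 2201093423) (nat_lit 380) (nat_lit 2201093423) (nat_lit 271) (nat_lit 1) (nat_lit 265) (nat_lit 1) (nat_lit 270) (nat_lit 1) (nat_lit 297) (nat_lit 382) (nat_lit 341)) (XT.nd (nat_lit 78) (nat_lit 380) (nat_lit 0) (XT.lf (nat_lit 76) (nat_lit 1105997232) (nat_lit 0) (nat_lit 5808148109) (nat_lit 456) (nat_lit 1105997232) (nat_lit 266) (nat_lit 1) (nat_lit 265) (nat_lit 1) (nat_lit 271) (nat_lit 1) (nat_lit 298) (nat_lit 382) (nat_lit 340)) (XT.lf (nat_lit 456) (nat_lit 695585139) (nat_lit 0) (nat_lit 3614221574) (nat_lit 380) (nat_lit 3614221574) (nat_lit 266) (nat_lit 1) (nat_lit 260) (nat_lit 1) (nat_lit 265) (nat_lit 1) (nat_lit 299) (nat_lit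 382) (nat_lit 339))))) (XT.nd (nat_lit 156) (nat_lit 684) (nat_lit 0) (XT.nd (nat_lit 78) (nat_lit 0) (nat_lit 0) (XT.lf (nat_lit 456) (nat_lit 7054196560) (nat_lit 0) (nat_lit 387931050) (nat_lit 380) (nat_lit 387931050) (nat_lit 260) (nat_lit 1) (nat_lit 254) (nat_lit 1) (nat_lit 259) (nat_lit 1) (nat_lit 300) (nat_lit 382) (nat_lit 338)) (XT.lf (nat_lit 76) (nat_lit 2738757055) (nat_lit 0) (nat_lit 2259082877) (nat_lit 456) (nat_lit 2738757055) (nat_lit 255) (nat_lit 1) (nat_lit 254) (nat_lit 1) (nat_lit 260) (nat_lit 1) (nat_lit 301) (nat_lit 382) (nat_lit 337))) (XT.nd (nat_lit 78) (nat_lit 304) (nat_lit 0) (XT.lf (nat_lit 456) (nat_lit 3924606577) (nat_lit 0) (nat_lit 1860302918) (nat_lit 380) (nat_lit 1860302918) (nat_lit 255) (nat_lit 1) (nat_lit 249) (nat_lit 1) (nat_lit 254) (nat_lit 1) (nat_lit 302) (nat_lit 382) (nat_lit 336)) (XT.nd (nat_lit 78) (nat_lit 304) (nat_lit 0) (XT.lf (nat_lit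 76) (nat_lit 1189035935) (nat_lit 0) (nat_lit 5177285885) (nat_lit 456) (nat_lit 1189035935) (nat_lit 250) (nat_lit 1) (nat_lit 249) (nat_lit 1) (nat_lit 255) (nat_lit 1) (nat_lit 303) (nat_lit 382) (nat_lit 335)) (XT.lf (nat_lit 380) (nat_lit 825824159) (nat_lit 0) (nat_lit 3320408842) (nat_lit 304) (nat_lit 3320408842) (nat_lit 250) (nat_lit 1) (nat_lit 245) (nat_lit 1) (nat_lit 249) (nat_lit 1) (nat_lit 304) (nat_lit 382) (nat_lit 334))))))))
noncomputable def ec212 : XT := (XT.nd (nat_lit 1404) (nat_lit 2660) (nat_lit 0) (XT.nd (nat_lit 702) (nat_lit 1748) (nat_lit 0) (XT.nd (nat_lit 312) (nat_lit 988) (nat_lit 0) (XT.nd (nat_lit 156) (nat_lit 304) (nat_lit 0) (XT.nd (nat_lit 78) (nat_lit 0) (nat_lit 0) (XT.lf (nat_lit 456) (nat_lit 6697241908) (nat_lit 0) (nat_lit 341315107) (nat_lit 380) (nat_lit 341315107) (nat_lit 245) (nat_lit 1) (nat_lit 239) (nat_lit 1) (nat_lit 244) (nat_lit 1) (nat_lit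 305) (nat_lit 382) (nat_lit 333)) (XT.lf (nat_lit 76) (nat_lit 2548792776) (nat_lit 0) (nat_lit 2195881570) (nat_lit 456) (nat_lit 2548792776) (nat_lit 240) (nat_lit 1) (nat_lit 239) (nat_lit 1) (nat_lit 245) (nat_lit 1) (nat_lit 306) (nat_lit 382) (nat_lit 332))) (XT.nd (nat_lit 78) (nat_lit 0) (nat_lit 0) (XT.lf (nat_lit 380) (nat_lit 3522992878) (nat_lit 0) (nat_lit 1842979429) (nat_lit 304) (nat_lit 1842979429) (nat_lit 240) (nat_lit 1) (nat_lit 235) (nat_lit 1) (nat_lit 239) (nat_lit 1) (nat_lit 307) (nat_lit 382) (nat_lit 331)) (XT.lf (nat_lit 76) (nat_lit 979690504) (nat_lit 0) (nat_lit 5166501000) (nat_lit 380) (nat_lit 979690504) (nat_lit 236) (nat_lit 1) (nat_lit 235) (nat_lit 1) (nat_lit 240) (nat_lit 1) (nat_lit 308) (nat_lit 382) (nat_lit 330)))) (XT.nd (nat_lit 156) (nat_lit 304) (nat_lit 0) (XT.nd (nat_lit 78) (nat_lit 380) (nat_lit 0) (XT.lf (nat_lit 380) (nat_lit 390659263) (nat_lit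 0) (nat_lit 3326548612) (nat_lit 304) (nat_lit 3326548612) (nat_lit 236) (nat_lit 1) (nat_lit 231) (nat_lit 1) (nat_lit 235) (nat_lit 1) (nat_lit 309) (nat_lit 382) (nat_lit 329)) (XT.lf (nat_lit 380) (nat_lit 5838151804) (nat_lit 0) (nat_lit 562549934) (nat_lit 304) (nat_lit 562549934) (nat_lit 231) (nat_lit 1) (nat_lit 226) (nat_lit 1) (nat_lit 230) (nat_lit 1) (nat_lit 310) (nat_lit 382) (nat_lit 328))) (XT.nd (nat_lit 78) (nat_lit 304) (nat_lit 0) (XT.lf (nat_lit 76) (nat_lit 2118934628) (nat_lit 0) (nat_lit 2645429428) (nat_lit 380) (nat_lit 2118934628) (nat_lit 227) (nat_lit 1) (nat_lit 226) (nat_lit 1) (nat_lit 231) (nat_lit 1) (nat_lit 311) (nat_lit 382) (nat_lit 327)) (XT.nd (nat_lit 78) (nat_lit 0) (nat_lit 0) (XT.lf (nat_lit 380) (nat_lit 2658261296) (nat_lit 0) (nat_lit 2073328861) (nat_lit 304) (nat_lit 2073328861) (nat_lit 227) (nat_lit 1) (nat_lit 222) (nat_lit 1) (nat_lit 226) (nat_lit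 1) (nat_lit 312) (nat_lit 382) (nat_lit 326)) (XT.lf (nat_lit 76) (nat_lit 549170958) (nat_lit 0) (nat_lit 5629713753) (nat_lit 380) (nat_lit 549170958) (nat_lit 223) (nat_lit 1) (nat_lit 222) (nat_lit 1) (nat_lit 227) (nat_lit 1) (nat_lit 313) (nat_lit 382) (nat_lit 325)))))) (XT.nd (nat_lit 312) (nat_lit 912) (nat_lit 0) (XT.nd (nat_lit 156) (nat_lit 228) (nat_lit 0) (XT.nd (nat_lit 78) (nat_lit 304) (nat_lit 0) (XT.lf (nat_lit 76) (nat_lit 3094774422) (nat_lit 0) (nat_lit 462138722) (nat_lit 304) (nat_lit 3094774422) (nat_lit 219) (nat_lit 1) (nat_lit 218) (nat_lit 1) (nat_lit 222) (nat_lit 1) (nat_lit 314) (nat_lit 382) (nat_lit 324)) (XT.lf (nat_lit 380) (nat_lit 4605680829) (nat_lit 0) (nat_lit 985556426) (nat_lit 304) (nat_lit 985556426) (nat_lit 219) (nat_lit 1) (nat_lit 214) (nat_lit 1) (nat_lit 218) (nat_lit 1) (nat_lit 315) (nat_lit 382) (nat_lit 323))) (XT.nd (nat_lit 78) (nat_lit 228) (nat_lit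 0) (XT.lf (nat_lit 76) (nat_lit 1511172046) (nat_lit 0) (nat_lit 3480408900) (nat_lit 380) (nat_lit 1511172046) (nat_lit 215) (nat_lit 1) (nat_lit 214) (nat_lit 1) (nat_lit 219) (nat_lit 1) (nat_lit 316) (nat_lit 382) (nat_lit 322)) (XT.lf (nat_lit 304) (nat_lit 1451002304) (nat_lit 0) (nat_lit 2489436345) (nat_lit 228) (nat_lit 2489436345) (nat_lit 215) (nat_lit 1) (nat_lit 211) (nat_lit 1) (nat_lit 214) (nat_lit 1) (nat_lit 317) (nat_lit 382) (nat_lit 321)))) (XT.nd (nat_lit 156) (nat_lit 532) (nat_lit 0) (XT.nd (nat_lit 78) (nat_lit 0) (nat_lit 0) (XT.lf (nat_lit 380) (nat_lit 6270583004) (nat_lit 0) (nat_lit 44033329) (nat_lit 304) (nat_lit 44033329) (nat_lit 211) (nat_lit 1) (nat_lit 206) (nat_lit 1) (nat_lit 210) (nat_lit 1) (nat_lit 318) (nat_lit 382) (nat_lit 320)) (XT.lf (nat_lit 76) (nat_lit 2336094424) (nat_lit 0) (nat_lit 1615095459) (nat_lit 380) (nat_lit 2336094424) (nat_lit 207) (nat_lit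 1) (nat_lit 206) (nat_lit 1) (nat_lit 211) (nat_lit 1) (nat_lit 319) (nat_lit 382) (nat_lit 319))) (XT.nd (nat_lit 78) (nat_lit 304) (nat_lit 0) (XT.lf (nat_lit 304) (nat_lit 3104515592) (nat_lit 0) (nat_lit 1556510384) (nat_lit 228) (nat_lit 1556510384) (nat_lit 207) (nat_lit 1) (nat_lit 203) (nat_lit 1) (nat_lit 206) (nat_lit 1) (nat_lit 320) (nat_lit 382) (nat_lit 318)) (XT.nd (nat_lit 78) (nat_lit 304) (nat_lit 0) (XT.lf (nat_lit 76) (nat_lit 775882472) (nat_lit 0) (nat_lit 4597159688) (nat_lit 304) (nat_lit 775882472) (nat_lit 204) (nat_lit 1) (nat_lit 203) (nat_lit 1) (nat_lit 207) (nat_lit 1) (nat_lit 321) (nat_lit 382) (nat_lit 317)) (XT.lf (nat_lit 76) (nat_lit 3040092195) (nat_lit 0) (nat_lit 813950) (nat_lit 304) (nat_lit 3040092195) (nat_lit 200) (nat_lit 1) (nat_lit 199) (nat_lit 1) (nat_lit 203) (nat_lit 1) (nat_lit 322) (nat_lit 382) (nat_lit 316))))))) (XT.nd (nat_lit 702) (nat_lit 1216)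 (nat_lit 0) (XT.nd (nat_lit 312) (nat_lit 684) (nat_lit 0) (XT.nd (nat_lit 156) (nat_lit 532) (nat_lit 0) (XT.nd (nat_lit 78) (nat_lit 0) (nat_lit 0) (XT.lf (nat_lit 304) (nat_lit 4520767368) (nat_lit 0) (nat_lit 746704787) (nat_lit 228) (nat_lit 746704787) (nat_lit 200) (nat_lit 1) (nat_lit 196) (nat_lit 1) (nat_lit 199) (nat_lit 1) (nat_lit 323) (nat_lit 382) (nat_lit 315)) (XT.lf (nat_lit 76) (nat_lit 1481005092) (nat_lit 0) (nat_lit 2985987921) (nat_lit 304) (nat_lit 1481005092) (nat_lit 197) (nat_lit 1) (nat_lit 196) (nat_lit 1) (nat_lit 200) (nat_lit 1) (nat_lit 324) (nat_lit 382) (nat_lit 314))) (XT.nd (nat_lit 78) (nat_lit 304) (nat_lit 0) (XT.lf (nat_lit 304) (nat_lit 1419379306) (nat_lit 0) (nat_lit 2231757425) (nat_lit 228) (nat_lit 2231757425) (nat_lit 197) (nat_lit 1) (nat_lit 193) (nat_lit 1) (nat_lit 196) (nat_lit 1) (nat_lit 325) (nat_lit 382) (nat_lit 313)) (XT.lf (nat_lit 304) (nat_lit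 5727755364) (nat_lit 0) (nat_lit 45734105) (nat_lit 228) (nat_lit 45734105) (nat_lit 193) (nat_lit 1) (nat_lit 189) (nat_lit 1) (nat_lit 192) (nat_lit 1) (nat_lit 326) (nat_lit 382) (nat_lit 312)))) (XT.nd (nat_lit 156) (nat_lit 456) (nat_lit 0) (XT.nd (nat_lit 78) (nat_lit 228) (nat_lit 0) (XT.lf (nat_lit 76) (nat_lit 2084439828) (nat_lit 0) (nat_lit 1586478661) (nat_lit 304) (nat_lit 2084439828) (nat_lit 190) (nat_lit 1) (nat_lit 189) (nat_lit 1) (nat_lit 193) (nat_lit 1) (nat_lit 327) (nat_lit 382) (nat_lit 311)) (XT.lf (nat_lit 304) (nat_lit 2639854385) (nat_lit 0) (nat_lit 1526522905) (nat_lit 228) (nat_lit 1526522905) (nat_lit 190) (nat_lit 1) (nat_lit 186) (nat_lit 1) (nat_lit 189) (nat_lit 1) (nat_lit 328) (nat_lit 382) (nat_lit 310))) (XT.nd (nat_lit 78) (nat_lit 456) (nat_lit 0) (XT.lf (nat_lit 76) (nat_lit 564613328) (nat_lit 0) (nat_lit 4502273305) (nat_lit 304) (nat_lit 564613328) (nat_lit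 187) (nat_lit 1) (nat_lit 186) (nat_lit 1) (nat_lit 190) (nat_lit 1) (nat_lit 329) (nat_lit 382) (nat_lit 309)) (XT.nd (nat_lit 78) (nat_lit 228) (nat_lit 0) (XT.lf (nat_lit 76) (nat_lit 2598197776) (nat_lit 0) (nat_lit 374096877) (nat_lit 228) (nat_lit 2598197776) (nat_lit 184) (nat_lit 1) (nat_lit 183) (nat_lit 1) (nat_lit 186) (nat_lit 1) (nat_lit 330) (nat_lit 382) (nat_lit 308)) (XT.lf (nat_lit 304) (nat_lit 3684072794) (nat_lit 0) (nat_lit 913223342) (nat_lit 228) (nat_lit 913223342) (nat_lit 184) (nat_lit 1) (nat_lit 180) (nat_lit 1) (nat_lit 183) (nat_lit 1) (nat_lit 331) (nat_lit 382) (nat_lit 307)))))) (XT.nd (nat_lit 390) (nat_lit 608) (nat_lit 0) (XT.nd (nat_lit 156) (nat_lit 456) (nat_lit 0) (XT.nd (nat_lit 78) (nat_lit 152) (nat_lit 0) (XT.lf (nat_lit 76) (nat_lit 1089661151) (nat_lit 0) (nat_lit 3271908602) (nat_lit 304) (nat_lit 1089661151) (nat_lit 181) (nat_lit 1) (nat_lit 180) (nat_lit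 1) (nat_lit 184) (nat_lit 1) (nat_lit 332) (nat_lit 382) (nat_lit 306)) (XT.lf (nat_lit 228) (nat_lit 686321961) (nat_lit 0) (nat_lit 2353206463) (nat_lit 152) (nat_lit 2353206463) (nat_lit 181) (nat_lit 1) (nat_lit 178) (nat_lit 1) (nat_lit 180) (nat_lit 1) (nat_lit 333) (nat_lit 382) (nat_lit 305))) (XT.nd (nat_lit 78) (nat_lit 152) (nat_lit 0) (XT.lf (nat_lit 304) (nat_lit 4572859082) (nat_lit 0) (nat_lit 381219648) (nat_lit 228) (nat_lit 381219648) (nat_lit 178) (nat_lit 1) (nat_lit 174) (nat_lit 1) (nat_lit 177) (nat_lit 1) (nat_lit 334) (nat_lit 382) (nat_lit 304)) (XT.nd (nat_lit 78) (nat_lit 152) (nat_lit 0) (XT.lf (nat_lit 76) (nat_lit 1539032851) (nat_lit 0) (nat_lit 2199958206) (nat_lit 304) (nat_lit 1539032851) (nat_lit 175) (nat_lit 1) (nat_lit 174) (nat_lit 1) (nat_lit 178) (nat_lit 1) (nat_lit 335) (nat_lit 382) (nat_lit 303)) (XT.lf (nat_lit 228) (nat_lit 1605241775) (nat_lit 0) (nat_lit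 1808273825) (nat_lit 152) (nat_lit 1808273825) (nat_lit 175) (nat_lit 1) (nat_lit 172) (nat_lit 1) (nat_lit 174) (nat_lit 1) (nat_lit 336) (nat_lit 382) (nat_lit 302))))) (XT.nd (nat_lit 156) (nat_lit 380) (nat_lit 0) (XT.nd (nat_lit 78) (nat_lit 228) (nat_lit 0) (XT.lf (nat_lit 76) (nat_lit 79711075) (nat_lit 0) (nat_lit 5007307774) (nat_lit 228) (nat_lit 79711075) (nat_lit 173) (nat_lit 1) (nat_lit 172) (nat_lit 1) (nat_lit 175) (nat_lit 1) (nat_lit 337) (nat_lit 382) (nat_lit 301)) (XT.lf (nat_lit 76) (nat_lit 1921666124) (nat_lit 0) (nat_lit 1268139023) (nat_lit 228) (nat_lit 1921666124) (nat_lit 170) (nat_lit 1) (nat_lit 169) (nat_lit 1) (nat_lit 172) (nat_lit 1) (nat_lit 338) (nat_lit 382) (nat_lit 300))) (XT.nd (nat_lit 78) (nat_lit 228) (nat_lit 0) (XT.lf (nat_lit 228) (nat_lit 2392696334) (nat_lit 0) (nat_lit 1332336961) (nat_lit 152) (nat_lit 1332336961) (nat_lit 170) (nat_lit 1) (nat_lit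 167) (nat_lit 1) (nat_lit 169) (nat_lit 1) (nat_lit 339) (nat_lit 382) (nat_lit 299)) (XT.nd (nat_lit 78) (nat_lit 228) (nat_lit 0) (XT.lf (nat_lit 76) (nat_lit 480310943) (nat_lit 0) (nat_lit 4043533110) (nat_lit 228) (nat_lit 480310943) (nat_lit 168) (nat_lit 1) (nat_lit 167) (nat_lit 1) (nat_lit 170) (nat_lit 1) (nat_lit 340) (nat_lit 382) (nat_lit 298)) (XT.lf (nat_lit 76) (nat_lit 2245487472) (nat_lit 0) (nat_lit 460224758) (nat_lit 228) (nat_lit 2245487472) (nat_lit 165) (nat_lit 1) (nat_lit 164) (nat_lit 1) (nat_lit 167) (nat_lit 1) (nat_lit 341) (nat_lit 382) (nat_lit 297))))))))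
noncomputable def ec213 : XT := (XT.nd (nat_lit 1482) (nat_lit 1824) (nat_lit 0) (XT.nd (nat_lit 702) (nat_lit 912) (nat_lit 0) (XT.nd (nat_lit 312) (nat_lit 532) (nat_lit 0) (XT.nd (nat_lit 156) (nat_lit 380) (nat_lit 0) (XT.nd (nat_lit 78) (nat_lit 0) (nat_lit 0) (XT.lf (nat_lit 228) (nat_lit 3064190195) (nat_lit 0) (nat_lit 917462278) (nat_lit 152) (nat_lit 917462278) (nat_lit 165) (nat_lit 1) (nat_lit 162) (nat_lit 1) (nat_lit 164) (nat_lit 1) (nat_lit 342) (nat_lit 382) (nat_lit 296)) (XT.lf (nat_lit 76) (nat_lit 824311883) (nat_lit 0) (nat_lit 3199039426) (nat_lit 228) (nat_lit 824311883) (nat_lit 163) (nat_lit 1) (nat_lit 162) (nat_lit 1) (nat_lit 165) (nat_lit 1) (nat_lit 343) (nat_lit 382) (nat_lit 295))) (XT.nd (nat_lit 78) (nat_lit 228) (nat_lit 0) (XT.lf (nat_lit 228) (nat_lit 242924298) (nat_lit 0) (nat_lit 2276936218) (nat_lit 152) (nat_lit 2276936218) (nat_lit 163) (nat_lit 1) (nat_lit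 160) (nat_lit 1) (nat_lit 162) (nat_lit 1) (nat_lit 344) (nat_lit 382) (nat_lit 294)) (XT.lf (nat_lit 228) (nat_lit 3633474362) (nat_lit 0) (nat_lit 556607860) (nat_lit 152) (nat_lit 556607860) (nat_lit 160) (nat_lit 1) (nat_lit 157) (nat_lit 1) (nat_lit 159) (nat_lit 1) (nat_lit 345) (nat_lit 382) (nat_lit 293)))) (XT.nd (nat_lit 156) (nat_lit 380) (nat_lit 0) (XT.nd (nat_lit 78) (nat_lit 152) (nat_lit 0) (XT.lf (nat_lit 76) (nat_lit 1118372792) (nat_lit 0) (nat_lit 2460181435) (nat_lit 228) (nat_lit 1118372792) (nat_lit 158) (nat_lit 1) (nat_lit 157) (nat_lit 1) (nat_lit 160) (nat_lit 1) (nat_lit 346) (nat_lit 382) (nat_lit 292)) (XT.lf (nat_lit 228) (nat_lit 856578802) (nat_lit 0) (nat_lit 1895666028) (nat_lit 152) (nat_lit 1895666028) (nat_lit 158) (nat_lit 1) (nat_lit 155) (nat_lit 1) (nat_lit 157) (nat_lit 1) (nat_lit 347) (nat_lit 382) (nat_lit 291))) (XT.nd (nat_lit 78) (nat_lit 152) (nat_lit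 0) (XT.lf (nat_lit 228) (nat_lit 4112742542) (nat_lit 0) (nat_lit 243523835) (nat_lit 152) (nat_lit 243523835) (nat_lit 155) (nat_lit 1) (nat_lit 152) (nat_lit 1) (nat_lit 154) (nat_lit 1) (nat_lit 348) (nat_lit 382) (nat_lit 290)) (XT.nd (nat_lit 78) (nat_lit 152) (nat_lit 0) (XT.lf (nat_lit 76) (nat_lit 1368399896) (nat_lit 0) (nat_lit 1814845495) (nat_lit 228) (nat_lit 1368399896) (nat_lit 153) (nat_lit 1) (nat_lit 152) (nat_lit 1) (nat_lit 155) (nat_lit 1) (nat_lit 349) (nat_lit 382) (nat_lit 289)) (XT.lf (nat_lit 228) (nat_lit 1383140444) (nat_lit 0) (nat_lit 1560621984) (nat_lit 152) (nat_lit 1560621984) (nat_lit 153) (nat_lit 1) (nat_lit 150) (nat_lit 1) (nat_lit 152) (nat_lit 1) (nat_lit 350) (nat_lit 382) (nat_lit 288)))))) (XT.nd (nat_lit 390) (nat_lit 456) (nat_lit 0) (XT.nd (nat_lit 156) (nat_lit 304) (nat_lit 0) (XT.nd (nat_lit 78) (nat_lit 152) (nat_lit 0) (XT.lf (nat_lit 76) (nat_lit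 27606803) (nat_lit 0) (nat_lit 4402887593) (nat_lit 228) (nat_lit 27606803) (nat_lit 151) (nat_lit 1) (nat_lit 150) (nat_lit 1) (nat_lit 153) (nat_lit 1) (nat_lit 351) (nat_lit 382) (nat_lit 287)) (XT.lf (nat_lit 76) (nat_lit 1579630978) (nat_lit 0) (nat_lit 1252278517) (nat_lit 152) (nat_lit 1579630978) (nat_lit 149) (nat_lit 1) (nat_lit 148) (nat_lit 1) (nat_lit 150) (nat_lit 1) (nat_lit 352) (nat_lit 382) (nat_lit 286))) (XT.nd (nat_lit 78) (nat_lit 152) (nat_lit 0) (XT.lf (nat_lit 228) (nat_lit 1832864770) (nat_lit 0) (nat_lit 1266541226) (nat_lit 152) (nat_lit 1266541226) (nat_lit 149) (nat_lit 1) (nat_lit 146) (nat_lit 1) (nat_lit 148) (nat_lit 1) (nat_lit 353) (nat_lit 382) (nat_lit 285)) (XT.nd (nat_lit 78) (nat_lit 152) (nat_lit 0) (XT.lf (nat_lit 76) (nat_lit 263476667) (nat_lit 0) (nat_lit 3794200038) (nat_lit 228) (nat_lit 263476667) (nat_lit 147) (nat_lit 1) (nat_lit 146) (nat_lit 1) (nat_lit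 149) (nat_lit 1) (nat_lit 354) (nat_lit 382) (nat_lit 284)) (XT.lf (nat_lit 76) (nat_lit 1756710202) (nat_lit 0) (nat_lit 762935962) (nat_lit 152) (nat_lit 1756710202) (nat_lit 145) (nat_lit 1) (nat_lit 144) (nat_lit 1) (nat_lit 146) (nat_lit 1) (nat_lit 355) (nat_lit 382) (nat_lit 283))))) (XT.nd (nat_lit 156) (nat_lit 304) (nat_lit 0) (XT.nd (nat_lit 78) (nat_lit 0) (nat_lit 0) (XT.lf (nat_lit 228) (nat_lit 2214847871) (nat_lit 0) (nat_lit 1008750919) (nat_lit 152) (nat_lit 1008750919) (nat_lit 145) (nat_lit 1) (nat_lit 142) (nat_lit 1) (nat_lit 144) (nat_lit 1) (nat_lit 356) (nat_lit 382) (nat_lit 282)) (XT.lf (nat_lit 76) (nat_lit 466084325) (nat_lit 0) (nat_lit 3256817433) (nat_lit 228) (nat_lit 466084325) (nat_lit 143) (nat_lit 1) (nat_lit 142) (nat_lit 1) (nat_lit 145) (nat_lit 1) (nat_lit 357) (nat_lit 382) (nat_lit 281))) (XT.nd (nat_lit 78) (nat_lit 152) (nat_lit 0) (XT.lf (nat_lit 76) (nat_lit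 1903754589) (nat_lit 0) (nat_lit 338346797) (nat_lit 152) (nat_lit 1903754589) (nat_lit 141) (nat_lit 1) (nat_lit 140) (nat_lit 1) (nat_lit 142) (nat_lit 1) (nat_lit 358) (nat_lit 382) (nat_lit 280)) (XT.nd (nat_lit 78) (nat_lit 0) (nat_lit 0) (XT.lf (nat_lit 228) (nat_lit 2537156134) (nat_lit 0) (nat_lit 783102362) (nat_lit 152) (nat_lit 783102362) (nat_lit 141) (nat_lit 1) (nat_lit 138) (nat_lit 1) (nat_lit 140) (nat_lit 1) (nat_lit 359) (nat_lit 382) (nat_lit 279)) (XT.lf (nat_lit 76) (nat_lit 639341652) (nat_lit 0) (nat_lit 2782688498) (nat_lit 228) (nat_lit 639341652) (nat_lit 139) (nat_lit 1) (nat_lit 138) (nat_lit 1) (nat_lit 141) (nat_lit 1) (nat_lit 360) (nat_lit 382) (nat_lit 278))))))) (XT.nd (nat_lit 702) (nat_lit 912) (nat_lit 0) (XT.nd (nat_lit 312) (nat_lit 532) (nat_lit 0) (XT.nd (nat_lit 156) (nat_lit 76) (nat_lit 0) (XT.nd (nat_lit 78) (nat_lit 228) (nat_lit 0) (XT.lf (nat_lit 152)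 (nat_lit 29583764) (nat_lit 0) (nat_lit 1995113682) (nat_lit 76) (nat_lit 1995113682) (nat_lit 139) (nat_lit 1) (nat_lit 137) (nat_lit 1) (nat_lit 138) (nat_lit 1) (nat_lit 361) (nat_lit 382) (nat_lit 277)) (XT.lf (nat_lit 228) (nat_lit 2806941516) (nat_lit 0) (nat_lit 585912458) (nat_lit 152) (nat_lit 585912458) (nat_lit 137) (nat_lit 1) (nat_lit 134) (nat_lit 1) (nat_lit 136) (nat_lit 1) (nat_lit 362) (nat_lit 382) (nat_lit 276))) (XT.nd (nat_lit 78) (nat_lit 76) (nat_lit 0) (XT.lf (nat_lit 76) (nat_lit 786718395) (nat_lit 0) (nat_lit 2364662680) (nat_lit 228) (nat_lit 786718395) (nat_lit 135) (nat_lit 1) (nat_lit 134) (nat_lit 1) (nat_lit 137) (nat_lit 1) (nat_lit 363) (nat_lit 382) (nat_lit 275)) (XT.lf (nat_lit 152) (nat_lit 352676418) (nat_lit 0) (nat_lit 1772632666) (nat_lit 76) (nat_lit 1772632666) (nat_lit 135) (nat_lit 1) (nat_lit 133) (nat_lit 1) (nat_lit 134) (nat_lit 1) (nat_lit 364) (nat_lit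 382) (nat_lit 274)))) (XT.nd (nat_lit 156) (nat_lit 304) (nat_lit 0) (XT.nd (nat_lit 78) (nat_lit 0) (nat_lit 0) (XT.lf (nat_lit 228) (nat_lit 3030543951) (nat_lit 0) (nat_lit 413911700) (nat_lit 152) (nat_lit 413911700) (nat_lit 133) (nat_lit 1) (nat_lit 130) (nat_lit 1) (nat_lit 132) (nat_lit 1) (nat_lit 365) (nat_lit 382) (nat_lit 273)) (XT.lf (nat_lit 76) (nat_lit 911291645) (nat_lit 0) (nat_lit 1996389631) (nat_lit 228) (nat_lit 911291645) (nat_lit 131) (nat_lit 1) (nat_lit 130) (nat_lit 1) (nat_lit 133) (nat_lit 1) (nat_lit 366) (nat_lit 382) (nat_lit 272))) (XT.nd (nat_lit 78) (nat_lit 228) (nat_lit 0) (XT.lf (nat_lit 152) (nat_lit 630233503) (nat_lit 0) (nat_lit 1574961164) (nat_lit 76) (nat_lit 1574961164) (nat_lit 131) (nat_lit 1) (nat_lit 129) (nat_lit 1) (nat_lit 130) (nat_lit 1) (nat_lit 367) (nat_lit 382) (nat_lit 271)) (XT.nd (nat_lit 78) (nat_lit 0) (nat_lit 0) (XT.lf (nat_lit 228) (nat_lit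 3213582321) (nat_lit 0) (nat_lit 264197971) (nat_lit 152) (nat_lit 264197971) (nat_lit 129) (nat_lit 1) (nat_lit 126) (nat_lit 1) (nat_lit 128) (nat_lit 1) (nat_lit 368) (nat_lit 382) (nat_lit 270)) (XT.lf (nat_lit 76) (nat_lit 1015789796) (nat_lit 0) (nat_lit 1672229891) (nat_lit 228) (nat_lit 1015789796) (nat_lit 127) (nat_lit 1) (nat_lit 126) (nat_lit 1) (nat_lit 129) (nat_lit 1) (nat_lit 369) (nat_lit 382) (nat_lit 269)))))) (XT.nd (nat_lit 390) (nat_lit 304) (nat_lit 0) (XT.nd (nat_lit 156) (nat_lit 304) (nat_lit 0) (XT.nd (nat_lit 78) (nat_lit 228) (nat_lit 0) (XT.lf (nat_lit 152) (nat_lit 867609716) (nat_lit 0) (nat_lit 1399332595) (nat_lit 76) (nat_lit 1399332595) (nat_lit 127) (nat_lit 1) (nat_lit 125) (nat_lit 1) (nat_lit 126) (nat_lit 1) (nat_lit 370) (nat_lit 382) (nat_lit 268)) (XT.lf (nat_lit 228) (nat_lit 3361035271) (nat_lit 0) (nat_lit 134195491) (nat_lit 152) (nat_lit 134195491) (nat_lit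 125) (nat_lit 1) (nat_lit 122) (nat_lit 1) (nat_lit 124) (nat_lit 1) (nat_lit 371) (nat_lit 382) (nat_lit 267))) (XT.nd (nat_lit 78) (nat_lit 304) (nat_lit 0) (XT.lf (nat_lit 76) (nat_lit 1102631584) (nat_lit 0) (nat_lit 1387175531) (nat_lit 228) (nat_lit 1102631584) (nat_lit 123) (nat_lit 1) (nat_lit 122) (nat_lit 1) (nat_lit 125) (nat_lit 1) (nat_lit 372) (nat_lit 382) (nat_lit 266)) (XT.nd (nat_lit 78) (nat_lit 228) (nat_lit 0) (XT.lf (nat_lit 152) (nat_lit 1069554570) (nat_lit 0) (nat_lit 1243288886) (nat_lit 76) (nat_lit 1243288886) (nat_lit 123) (nat_lit 1) (nat_lit 121) (nat_lit 1) (nat_lit 122) (nat_lit 1) (nat_lit 373) (nat_lit 382) (nat_lit 265)) (XT.lf (nat_lit 228) (nat_lit 3477313007) (nat_lit 0) (nat_lit 21618349) (nat_lit 152) (nat_lit 21618349) (nat_lit 121) (nat_lit 1) (nat_lit 118) (nat_lit 1) (nat_lit 120) (nat_lit 1) (nat_lit 374) (nat_lit 382) (nat_lit 264))))) (XT.nd (nat_lit 156)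 (nat_lit 228) (nat_lit 0) (XT.nd (nat_lit 78) (nat_lit 76) (nat_lit 0) (XT.lf (nat_lit 76) (nat_lit 1173960781) (nat_lit 0) (nat_lit 1136779660) (nat_lit 228) (nat_lit 1173960781) (nat_lit 119) (nat_lit 1) (nat_lit 118) (nat_lit 1) (nat_lit 121) (nat_lit 1) (nat_lit 375) (nat_lit 382) (nat_lit 263)) (XT.lf (nat_lit 152) (nat_lit 1240280114) (nat_lit 0) (nat_lit 1104646072) (nat_lit 76) (nat_lit 1104646072) (nat_lit 119) (nat_lit 1) (nat_lit 117) (nat_lit 1) (nat_lit 118) (nat_lit 1) (nat_lit 376) (nat_lit 382) (nat_lit 262))) (XT.nd (nat_lit 78) (nat_lit 228) (nat_lit 0) (XT.lf (nat_lit 0) (nat_lit 76310034) (nat_lit 0) (nat_lit 3262488734) (nat_lit 152) (nat_lit 76310034) (nat_lit 117) (nat_lit 3) (nat_lit 117) (nat_lit 1) (nat_lit 119) (nat_lit 1) (nat_lit 377) (nat_lit 382) (nat_lit 261)) (XT.nd (nat_lit 78) (nat_lit 76) (nat_lit 0) (XT.lf (nat_lit 76) (nat_lit 1231677006) (nat_lit 0) (nat_lit 917093779)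 (nat_lit 152) (nat_lit 1231677006) (nat_lit 116) (nat_lit 1) (nat_lit 115) (nat_lit 1) (nat_lit 117) (nat_lit 1) (nat_lit 378) (nat_lit 382) (nat_lit 260)) (XT.lf (nat_lit 152) (nat_lit 1383521101) (nat_lit 0) (nat_lit 981463728) (nat_lit 76) (nat_lit 981463728) (nat_lit 116) (nat_lit 1) (nat_lit 114) (nat_lit 1) (nat_lit 115) (nat_lit 1) (nat_lit 379) (nat_lit 382) (nat_lit 259))))))))
noncomputable def ec214 : XT := (XT.nd (nat_lit 1482) (nat_lit 1444) (nat_lit 0) (XT.nd (nat_lit 702) (nat_lit 684) (nat_lit 0) (XT.nd (nat_lit 312) (nat_lit 456) (nat_lit 0) (XT.nd (nat_lit 156) (nat_lit 76) (nat_lit 0) (XT.nd (nat_lit 78) (nat_lit 152) (nat_lit 0) (XT.lf (nat_lit 0) (nat_lit 160720702) (nat_lit 0) (nat_lit 2991599209) (nat_lit 152) (nat_lit 160720702) (nat_lit 114) (nat_lit 3) (nat_lit 114) (nat_lit 1) (nat_lit 116) (nat_lit 1) (nat_lit 380) (nat_lit 382) (nat_lit 258)) (XT.lf (nat_lit 76) (nat_lit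 1277463104) (nat_lit 0) (nat_lit 724612133) (nat_lit 152) (nat_lit 1277463104) (nat_lit 113) (nat_lit 1) (nat_lit 112) (nat_lit 1) (nat_lit 114) (nat_lit 1) (nat_lit 381) (nat_lit 382) (nat_lit 257))) (XT.nd (nat_lit 78) (nat_lit 0) (nat_lit 0) (XT.lf (nat_lit 152) (nat_lit 1502588427) (nat_lit 0) (nat_lit 872017810) (nat_lit 76) (nat_lit 872017810) (nat_lit 113) (nat_lit 1) (nat_lit 111) (nat_lit 1) (nat_lit 112) (nat_lit 1) (nat_lit 382) (nat_lit 382) (nat_lit 256)) (XT.lf (nat_lit 0) (nat_lit 233012073) (nat_lit 0) (nat_lit 2748210961) (nat_lit 152) (nat_lit 233012073) (nat_lit 111) (nat_lit 3) (nat_lit 111) (nat_lit 1) (nat_lit 113) (nat_lit 1) (nat_lit 383) (nat_lit 382) (nat_lit 255)))) (XT.nd (nat_lit 156) (nat_lit 228) (nat_lit 0) (XT.nd (nat_lit 78) (nat_lit 76) (nat_lit 0) (XT.lf (nat_lit 76) (nat_lit 1312809458) (nat_lit 0) (nat_lit 556222270) (nat_lit 152) (nat_lit 1312809458) (nat_lit 110)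 (nat_lit 1) (nat_lit 109) (nat_lit 1) (nat_lit 111) (nat_lit 1) (nat_lit 384) (nat_lit 382) (nat_lit 254)) (XT.lf (nat_lit 152) (nat_lit 1600416617) (nat_lit 0) (nat_lit 774776530) (nat_lit 76) (nat_lit 774776530) (nat_lit 110) (nat_lit 1) (nat_lit 108) (nat_lit 1) (nat_lit 109) (nat_lit 1) (nat_lit 385) (nat_lit 382) (nat_lit 253))) (XT.nd (nat_lit 78) (nat_lit 228) (nat_lit 0) (XT.lf (nat_lit 0) (nat_lit 294614434) (nat_lit 0) (nat_lit 2529336069) (nat_lit 152) (nat_lit 294614434) (nat_lit 108) (nat_lit 3) (nat_lit 108) (nat_lit 1) (nat_lit 110) (nat_lit 1) (nat_lit 386) (nat_lit 382) (nat_lit 252)) (XT.nd (nat_lit 78) (nat_lit 76) (nat_lit 0) (XT.lf (nat_lit 76) (nat_lit 1339035594) (nat_lit 0) (nat_lit 409161113) (nat_lit 152) (nat_lit 1339035594) (nat_lit 107) (nat_lit 1) (nat_lit 106) (nat_lit 1) (nat_lit 108) (nat_lit 1) (nat_lit 387) (nat_lit 382) (nat_lit 251)) (XT.lf (nat_lit 152) (nat_lit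 1679605999) (nat_lit 0) (nat_lit 688378912) (nat_lit 76) (nat_lit 688378912) (nat_lit 107) (nat_lit 1) (nat_lit 105) (nat_lit 1) (nat_lit 106) (nat_lit 1) (nat_lit 388) (nat_lit 382) (nat_lit 250)))))) (XT.nd (nat_lit 390) (nat_lit 304) (nat_lit 0) (XT.nd (nat_lit 156) (nat_lit 228) (nat_lit 0) (XT.nd (nat_lit 78) (nat_lit 152) (nat_lit 0) (XT.lf (nat_lit 0) (nat_lit 346796278) (nat_lit 0) (nat_lit 2332317506) (nat_lit 152) (nat_lit 346796278) (nat_lit 105) (nat_lit 3) (nat_lit 105) (nat_lit 1) (nat_lit 107) (nat_lit 1) (nat_lit 389) (nat_lit 382) (nat_lit 249)) (XT.lf (nat_lit 76) (nat_lit 1357309369) (nat_lit 0) (nat_lit 280975932) (nat_lit 152) (nat_lit 1357309369) (nat_lit 104) (nat_lit 1) (nat_lit 103) (nat_lit 1) (nat_lit 105) (nat_lit 1) (nat_lit 390) (nat_lit 382) (nat_lit 248))) (XT.nd (nat_lit 78) (nat_lit 152) (nat_lit 0) (XT.lf (nat_lit 152) (nat_lit 1742460179) (nat_lit 0) (nat_lit 611615747)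 (nat_lit 76) (nat_lit 611615747) (nat_lit 104) (nat_lit 1) (nat_lit 102) (nat_lit 1) (nat_lit 103) (nat_lit 1) (nat_lit 391) (nat_lit 382) (nat_lit 247)) (XT.nd (nat_lit 78) (nat_lit 152) (nat_lit 0) (XT.lf (nat_lit 0) (nat_lit 390682418) (nat_lit 0) (nat_lit 2154792313) (nat_lit 152) (nat_lit 390682418) (nat_lit 102) (nat_lit 3) (nat_lit 102) (nat_lit 1) (nat_lit 104) (nat_lit 1) (nat_lit 392) (nat_lit 382) (nat_lit 246)) (XT.lf (nat_lit 76) (nat_lit 1368664014) (nat_lit 0) (nat_lit 169489674) (nat_lit 152) (nat_lit 1368664014) (nat_lit 101) (nat_lit 1) (nat_lit 100) (nat_lit 1) (nat_lit 102) (nat_lit 1) (nat_lit 393) (nat_lit 382) (nat_lit 245))))) (XT.nd (nat_lit 156) (nat_lit 228) (nat_lit 0) (XT.nd (nat_lit 78) (nat_lit 0) (nat_lit 0) (XT.lf (nat_lit 152) (nat_lit 1791019323) (nat_lit 0) (nat_lit 543412669) (nat_lit 76) (nat_lit 543412669) (nat_lit 101) (nat_lit 1) (nat_lit 99) (nat_lit 1) (nat_lit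 100) (nat_lit 1) (nat_lit 394) (nat_lit 382) (nat_lit 244)) (XT.lf (nat_lit 0) (nat_lit 427270071) (nat_lit 0) (nat_lit 1994658864) (nat_lit 152) (nat_lit 427270071) (nat_lit 99) (nat_lit 3) (nat_lit 99) (nat_lit 1) (nat_lit 101) (nat_lit 1) (nat_lit 395) (nat_lit 382) (nat_lit 243))) (XT.nd (nat_lit 78) (nat_lit 76) (nat_lit 0) (XT.lf (nat_lit 76) (nat_lit 1374013278) (nat_lit 0) (nat_lit 72770154) (nat_lit 152) (nat_lit 1374013278) (nat_lit 98) (nat_lit 1) (nat_lit 97) (nat_lit 1) (nat_lit 99) (nat_lit 1) (nat_lit 396) (nat_lit 382) (nat_lit 242)) (XT.nd (nat_lit 78) (nat_lit 0) (nat_lit 0) (XT.lf (nat_lit 152) (nat_lit 1827089727) (nat_lit 0) (nat_lit 482815118) (nat_lit 76) (nat_lit 482815118) (nat_lit 98) (nat_lit 1) (nat_lit 96) (nat_lit 1) (nat_lit 97) (nat_lit 1) (nat_lit 397) (nat_lit 382) (nat_lit 241)) (XT.lf (nat_lit 0) (nat_lit 457443150) (nat_lit 0) (nat_lit 1850047792) (nat_lit 152) (nat_lit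 457443150) (nat_lit 96) (nat_lit 3) (nat_lit 96) (nat_lit 1) (nat_lit 98) (nat_lit 1) (nat_lit 398) (nat_lit 382) (nat_lit 240))))))) (XT.nd (nat_lit 702) (nat_lit 760) (nat_lit 0) (XT.nd (nat_lit 312) (nat_lit 380) (nat_lit 0) (XT.nd (nat_lit 156) (nat_lit 76) (nat_lit 0) (XT.nd (nat_lit 78) (nat_lit 152) (nat_lit 0) (XT.lf (nat_lit 76) (nat_lit 11114185) (nat_lit 0) (nat_lit 1363157526) (nat_lit 76) (nat_lit 1363157526) (nat_lit 96) (nat_lit 3) (nat_lit 95) (nat_lit 1) (nat_lit 96) (nat_lit 1) (nat_lit 399) (nat_lit 382) (nat_lit 239)) (XT.lf (nat_lit 152) (nat_lit 1852270077) (nat_lit 0) (nat_lit 428974979) (nat_lit 76) (nat_lit 428974979) (nat_lit 95) (nat_lit 1) (nat_lit 93) (nat_lit 1) (nat_lit 94) (nat_lit 1) (nat_lit 400) (nat_lit 382) (nat_lit 238))) (XT.nd (nat_lit 78) (nat_lit 76) (nat_lit 0) (XT.lf (nat_lit 0) (nat_lit 481984961) (nat_lit 0) (nat_lit 1719296148) (nat_lit 152) (nat_lit 481984961)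 (nat_lit 93) (nat_lit 3) (nat_lit 93) (nat_lit 1) (nat_lit 95) (nat_lit 1) (nat_lit 401) (nat_lit 382) (nat_lit 237)) (XT.lf (nat_lit 76) (nat_lit 84686744) (nat_lit 0) (nat_lit 1285959740) (nat_lit 76) (nat_lit 1285959740) (nat_lit 93) (nat_lit 3) (nat_lit 92) (nat_lit 1) (nat_lit 93) (nat_lit 1) (nat_lit 402) (nat_lit 382) (nat_lit 236)))) (XT.nd (nat_lit 156) (nat_lit 228) (nat_lit 0) (XT.nd (nat_lit 78) (nat_lit 0) (nat_lit 0) (XT.lf (nat_lit 152) (nat_lit 1867974788) (nat_lit 0) (nat_lit 381138713) (nat_lit 76) (nat_lit 381138713) (nat_lit 92) (nat_lit 1) (nat_lit 90) (nat_lit 1) (nat_lit 91) (nat_lit 1) (nat_lit 403) (nat_lit 382) (nat_lit 235)) (XT.lf (nat_lit 0) (nat_lit 501589479) (nat_lit 0) (nat_lit 1600924443) (nat_lit 152) (nat_lit 501589479) (nat_lit 90) (nat_lit 3) (nat_lit 90) (nat_lit 1) (nat_lit 92) (nat_lit 1) (nat_lit 404) (nat_lit 382) (nat_lit 234))) (XT.nd (nat_lit 78) (nat_lit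 152) (nat_lit 0) (XT.lf (nat_lit 76) (nat_lit 147876021) (nat_lit 0) (nat_lit 1215191519) (nat_lit 76) (nat_lit 1215191519) (nat_lit 90) (nat_lit 3) (nat_lit 89) (nat_lit 1) (nat_lit 90) (nat_lit 1) (nat_lit 405) (nat_lit 382) (nat_lit 233)) (XT.nd (nat_lit 78) (nat_lit 0) (nat_lit 0) (XT.lf (nat_lit 152) (nat_lit 1875454720) (nat_lit 0) (nat_lit 338636810) (nat_lit 76) (nat_lit 338636810) (nat_lit 89) (nat_lit 1) (nat_lit 87) (nat_lit 1) (nat_lit 88) (nat_lit 1) (nat_lit 406) (nat_lit 382) (nat_lit 232)) (XT.lf (nat_lit 0) (nat_lit 516871371) (nat_lit 0) (nat_lit 1493616248) (nat_lit 152) (nat_lit 516871371) (nat_lit 87) (nat_lit 3) (nat_lit 87) (nat_lit 1) (nat_lit 89) (nat_lit 1) (nat_lit 407) (nat_lit 382) (nat_lit 231)))))) (XT.nd (nat_lit 390) (nat_lit 304) (nat_lit 0) (XT.nd (nat_lit 156) (nat_lit 228) (nat_lit 0) (XT.nd (nat_lit 78) (nat_lit 152) (nat_lit 0) (XT.lf (nat_lit 76) (nat_lit 201903353)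 (nat_lit 0) (nat_lit 1150199349) (nat_lit 76) (nat_lit 1150199349) (nat_lit 87) (nat_lit 3) (nat_lit 86) (nat_lit 1) (nat_lit 87) (nat_lit 1) (nat_lit 408) (nat_lit 382) (nat_lit 230)) (XT.lf (nat_lit 152) (nat_lit 1875815593) (nat_lit 0) (nat_lit 300874419) (nat_lit 76) (nat_lit 300874419) (nat_lit 86) (nat_lit 1) (nat_lit 84) (nat_lit 1) (nat_lit 85) (nat_lit 1) (nat_lit 409) (nat_lit 382) (nat_lit 229))) (XT.nd (nat_lit 78) (nat_lit 228) (nat_lit 0) (XT.lf (nat_lit 0) (nat_lit 528374893) (nat_lit 0) (nat_lit 1396200065) (nat_lit 152) (nat_lit 528374893) (nat_lit 84) (nat_lit 3) (nat_lit 84) (nat_lit 1) (nat_lit 86) (nat_lit 1) (nat_lit 410) (nat_lit 382) (nat_lit 228)) (XT.nd (nat_lit 78) (nat_lit 152) (nat_lit 0) (XT.lf (nat_lit 76) (nat_lit 247852032) (nat_lit 0) (nat_lit 1090400742) (nat_lit 76) (nat_lit 1090400742) (nat_lit 84) (nat_lit 3) (nat_lit 83) (nat_lit 1) (nat_lit 84) (nat_lit 1) (nat_lit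 411) (nat_lit 382) (nat_lit 227)) (XT.lf (nat_lit 152) (nat_lit 1870034329) (nat_lit 0) (nat_lit 267323025) (nat_lit 76) (nat_lit 267323025) (nat_lit 83) (nat_lit 1) (nat_lit 81) (nat_lit 1) (nat_lit 82) (nat_lit 1) (nat_lit 412) (nat_lit 382) (nat_lit 226))))) (XT.nd (nat_lit 156) (nat_lit 228) (nat_lit 0) (XT.nd (nat_lit 78) (nat_lit 76) (nat_lit 0) (XT.lf (nat_lit 0) (nat_lit 536581797) (nat_lit 0) (nat_lit 1307633222) (nat_lit 152) (nat_lit 536581797) (nat_lit 81) (nat_lit 3) (nat_lit 81) (nat_lit 1) (nat_lit 83) (nat_lit 1) (nat_lit 413) (nat_lit 382) (nat_lit 225)) (XT.lf (nat_lit 76) (nat_lit 286682755) (nat_lit 0) (nat_lit 1035276371) (nat_lit 76) (nat_lit 1035276371) (nat_lit 81) (nat_lit 3) (nat_lit 80) (nat_lit 1) (nat_lit 81) (nat_lit 1) (nat_lit 414) (nat_lit 382) (nat_lit 224))) (XT.nd (nat_lit 78) (nat_lit 76) (nat_lit 0) (XT.lf (nat_lit 152) (nat_lit 1858973582) (nat_lit 0) (nat_lit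 237513045) (nat_lit 76) (nat_lit 237513045) (nat_lit 80) (nat_lit 1) (nat_lit 78) (nat_lit 1) (nat_lit 79) (nat_lit 1) (nat_lit 415) (nat_lit 382) (nat_lit 223)) (XT.nd (nat_lit 78) (nat_lit 76) (nat_lit 0) (XT.lf (nat_lit 0) (nat_lit 541918354) (nat_lit 0) (nat_lit 1226987558) (nat_lit 152) (nat_lit 541918354) (nat_lit 78) (nat_lit 3) (nat_lit 78) (nat_lit 1) (nat_lit 80) (nat_lit 1) (nat_lit 416) (nat_lit 382) (nat_lit 222)) (XT.lf (nat_lit 76) (nat_lit 319247346) (nat_lit 0) (nat_lit 984363079) (nat_lit 76) (nat_lit 984363079) (nat_lit 78) (nat_lit 3) (nat_lit 77) (nat_lit 1) (nat_lit 78) (nat_lit 1) (nat_lit 417) (nat_lit 382) (nat_lit 221))))))))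
noncomputable def ec215 : XT := (XT.nd (nat_lit 40716) (nat_lit 0) (nat_lit 20900) (XT.nd (nat_lit 702) (nat_lit 380) (nat_lit 0) (XT.nd (nat_lit 312) (nat_lit 304) (nat_lit 0) (XT.nd (nat_lit 156) (nat_lit 228) (nat_lit 0) (XT.nd (nat_lit 78) (nat_lit 0) (nat_lit 0) (XT.lf (nat_lit 152) (nat_lit 1843394631) (nat_lit 0) (nat_lit 211027264) (nat_lit 76) (nat_lit 211027264) (nat_lit 77) (nat_lit 1) (nat_lit 75) (nat_lit 1) (nat_lit 76) (nat_lit 1) (nat_lit 418) (nat_lit 382) (nat_lit 220)) (XT.lf (nat_lit 0) (nat_lit 544761590) (nat_lit 0) (nat_lit 1153436705) (nat_lit 152) (nat_lit 544761590) (nat_lit 75) (nat_lit 3) (nat_lit 75) (nat_lit 1) (nat_lit 77) (nat_lit 1) (nat_lit 419) (nat_lit 382) (nat_lit 219))) (XT.nd (nat_lit 78) (nat_lit 152) (nat_lit 0) (XT.lf (nat_lit 76) (nat_lit 346300949) (nat_lit 0) (nat_lit 937247663) (nat_lit 76) (nat_lit 937247663) (nat_lit 75) (nat_lit 3) (nat_lit 74) (nat_lit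 1) (nat_lit 75) (nat_lit 1) (nat_lit 420) (nat_lit 382) (nat_lit 218)) (XT.lf (nat_lit 152) (nat_lit 1823968838) (nat_lit 0) (nat_lit 187494991) (nat_lit 76) (nat_lit 187494991) (nat_lit 74) (nat_lit 1) (nat_lit 72) (nat_lit 1) (nat_lit 73) (nat_lit 1) (nat_lit 421) (nat_lit 382) (nat_lit 217)))) (XT.nd (nat_lit 156) (nat_lit 228) (nat_lit 0) (XT.nd (nat_lit 78) (nat_lit 76) (nat_lit 0) (XT.lf (nat_lit 0) (nat_lit 545444833) (nat_lit 0) (nat_lit 1086244789) (nat_lit 152) (nat_lit 545444833) (nat_lit 72) (nat_lit 3) (nat_lit 72) (nat_lit 1) (nat_lit 74) (nat_lit 1) (nat_lit 422) (nat_lit 382) (nat_lit 216)) (XT.lf (nat_lit 76) (nat_lit 368512857) (nat_lit 0) (nat_lit 893561358) (nat_lit 76) (nat_lit 893561358) (nat_lit 72) (nat_lit 3) (nat_lit 71) (nat_lit 1) (nat_lit 72) (nat_lit 1) (nat_lit 423) (nat_lit 382) (nat_lit 215))) (XT.nd (nat_lit 78) (nat_lit 76) (nat_lit 0) (XT.lf (nat_lit 152) (nat_lit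 1801287818) (nat_lit 0) (nat_lit 166586871) (nat_lit 76) (nat_lit 166586871) (nat_lit 71) (nat_lit 1) (nat_lit 69) (nat_lit 1) (nat_lit 70) (nat_lit 1) (nat_lit 424) (nat_lit 382) (nat_lit 214)) (XT.nd (nat_lit 78) (nat_lit 76) (nat_lit 0) (XT.lf (nat_lit 0) (nat_lit 544262626) (nat_lit 0) (nat_lit 1024756383) (nat_lit 152) (nat_lit 544262626) (nat_lit 69) (nat_lit 3) (nat_lit 69) (nat_lit 1) (nat_lit 71) (nat_lit 1) (nat_lit 425) (nat_lit 382) (nat_lit 213)) (XT.lf (nat_lit 76) (nat_lit 386476132) (nat_lit 0) (nat_lit 852974925) (nat_lit 76) (nat_lit 852974925) (nat_lit 69) (nat_lit 3) (nat_lit 68) (nat_lit 1) (nat_lit 69) (nat_lit 1) (nat_lit 426) (nat_lit 382) (nat_lit 212)))))) (XT.nd (nat_lit 39624) (nat_lit 0) (nat_lit 23636) (XT.nd (nat_lit 156) (nat_lit 228) (nat_lit 0) (XT.nd (nat_lit 78) (nat_lit 0) (nat_lit 0) (XT.lf (nat_lit 152) (nat_lit 1775872478) (nat_lit 0) (nat_lit 148010277) (nat_lit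 76) (nat_lit 148010277) (nat_lit 68) (nat_lit 1) (nat_lit 66) (nat_lit 1) (nat_lit 67) (nat_lit 1) (nat_lit 427) (nat_lit 382) (nat_lit 211)) (XT.lf (nat_lit 0) (nat_lit 541475107) (nat_lit 0) (nat_lit 968387586) (nat_lit 152) (nat_lit 541475107) (nat_lit 66) (nat_lit 3) (nat_lit 66) (nat_lit 1) (nat_lit 68) (nat_lit 1) (nat_lit 428) (nat_lit 382) (nat_lit 210))) (XT.nd (nat_lit 78) (nat_lit 152) (nat_lit 0) (XT.lf (nat_lit 76) (nat_lit 400716156) (nat_lit 0) (nat_lit 815194292) (nat_lit 76) (nat_lit 815194292) (nat_lit 66) (nat_lit 3) (nat_lit 65) (nat_lit 1) (nat_lit 66) (nat_lit 1) (nat_lit 429) (nat_lit 382) (nat_lit 209)) (XT.nd (nat_lit 78) (nat_lit 0) (nat_lit 0) (XT.lf (nat_lit 152) (nat_lit 1748181037) (nat_lit 0) (nat_lit 131505214) (nat_lit 76) (nat_lit 131505214) (nat_lit 65) (nat_lit 1) (nat_lit 63) (nat_lit 1) (nat_lit 64) (nat_lit 1) (nat_lit 430) (nat_lit 382) (nat_lit 208)) (XT.lf (nat_lit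 0) (nat_lit 537311884) (nat_lit 0) (nat_lit 916618092) (nat_lit 152) (nat_lit 537311884) (nat_lit 63) (nat_lit 3) (nat_lit 63) (nat_lit 1) (nat_lit 65) (nat_lit 1) (nat_lit 431) (nat_lit 382) (nat_lit 207))))) (XT.nd (nat_lit 156) (nat_lit 0) (nat_lit 76) (XT.nd (nat_lit 78) (nat_lit 0) (nat_lit 0) (XT.lf (nat_lit 1292) (nat_lit 1329429586) (nat_lit 0) (nat_lit 4573856053) (nat_lit 1292) (nat_lit 1329429586) (nat_lit 391) (nat_lit 1) (nat_lit 374) (nat_lit 0) (nat_lit 391) (nat_lit 0) (nat_lit 254) (nat_lit 383) (nat_lit 383)) (XT.lf (nat_lit 1292) (nat_lit 5195434118) (nat_lit 76) (nat_lit 4529014327) (nat_lit 0) (nat_lit 4529014327) (nat_lit 391) (nat_lit 1) (nat_lit 375) (nat_lit 1) (nat_lit 374) (nat_lit 0) (nat_lit 255) (nat_lit 383) (nat_lit 382))) (XT.nd (nat_lit 78) (nat_lit 0) (nat_lit 0) (XT.lf (nat_lit 1292) (nat_lit 2512635813) (nat_lit 0) (nat_lit 9020899032) (nat_lit 1216) (nat_lit 2512635813)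 (nat_lit 392) (nat_lit 1) (nat_lit 375) (nat_lit 1) (nat_lit 391) (nat_lit 1) (nat_lit 256) (nat_lit 383) (nat_lit 381)) (XT.nd (nat_lit 78) (nat_lit 0) (nat_lit 76) (XT.lf (nat_lit 1292) (nat_lit 4771625138) (nat_lit 76) (nat_lit 4535357557) (nat_lit 0) (nat_lit 4535357557) (nat_lit 392) (nat_lit 1) (nat_lit 376) (nat_lit 1) (nat_lit 375) (nat_lit 1) (nat_lit 257) (nat_lit 383) (nat_lit 380)) (XT.lf (nat_lit 1292) (nat_lit 2239061298) (nat_lit 0) (nat_lit 9164948023) (nat_lit 1216) (nat_lit 2239061298) (nat_lit 393) (nat_lit 1) (nat_lit 376) (nat_lit 1) (nat_lit 392) (nat_lit 1) (nat_lit 258) (nat_lit 383) (nat_lit 379))))))) (XT.nd (nat_lit 702) (nat_lit 1900) (nat_lit 0) (XT.nd (nat_lit 312) (nat_lit 988) (nat_lit 0) (XT.nd (nat_lit 156) (nat_lit 0) (nat_lit 76) (XT.nd (nat_lit 78) (nat_lit 0) (nat_lit 76) (XT.lf (nat_lit 1292) (nat_lit 4103316243) (nat_lit 76) (nat_lit 4671835827) (nat_lit 0) (nat_lit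 4671835827) (nat_lit 393) (nat_lit 1) (nat_lit 377) (nat_lit 1) (nat_lit 376) (nat_lit 1) (nat_lit 259) (nat_lit 383) (nat_lit 378)) (XT.lf (nat_lit 1292) (nat_lit 1849399842) (nat_lit 0) (nat_lit 9556633329) (nat_lit 1216) (nat_lit 1849399842) (nat_lit 394) (nat_lit 1) (nat_lit 377) (nat_lit 1) (nat_lit 393) (nat_lit 1) (nat_lit 260) (nat_lit 383) (nat_lit 377))) (XT.nd (nat_lit 78) (nat_lit 0) (nat_lit 76) (XT.lf (nat_lit 1292) (nat_lit 3212372679) (nat_lit 76) (nat_lit 4927177906) (nat_lit 0) (nat_lit 4927177906) (nat_lit 394) (nat_lit 1) (nat_lit 378) (nat_lit 1) (nat_lit 377) (nat_lit 1) (nat_lit 261) (nat_lit 383) (nat_lit 376)) (XT.lf (nat_lit 1292) (nat_lit 1354153890) (nat_lit 0) (nat_lit 10174286059) (nat_lit 1216) (nat_lit 1354153890) (nat_lit 395) (nat_lit 1) (nat_lit 378) (nat_lit 1) (nat_lit 394) (nat_lit 1) (nat_lit 262) (nat_lit 383) (nat_lit 375)))) (XT.nd (nat_lit 156) (nat_lit 1140)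 (nat_lit 0) (XT.nd (nat_lit 78) (nat_lit 0) (nat_lit 76) (XT.lf (nat_lit 1292) (nat_lit 2119176480) (nat_lit 76) (nat_lit 5290870286) (nat_lit 0) (nat_lit 5290870286) (nat_lit 395) (nat_lit 1) (nat_lit 379) (nat_lit 1) (nat_lit 378) (nat_lit 1) (nat_lit 263) (nat_lit 383) (nat_lit 374)) (XT.lf (nat_lit 1292) (nat_lit 763111199) (nat_lit 0) (nat_lit 10997698299) (nat_lit 1216) (nat_lit 763111199) (nat_lit 396) (nat_lit 1) (nat_lit 379) (nat_lit 1) (nat_lit 395) (nat_lit 1) (nat_lit 264) (nat_lit 383) (nat_lit 373))) (XT.nd (nat_lit 78) (nat_lit 1216) (nat_lit 0) (XT.lf (nat_lit 1292) (nat_lit 842718254) (nat_lit 76) (nat_lit 5753110459) (nat_lit 0) (nat_lit 5753110459) (nat_lit 396) (nat_lit 1) (nat_lit 380) (nat_lit 1) (nat_lit 379) (nat_lit 1) (nat_lit 265) (nat_lit 383) (nat_lit 372)) (XT.nd (nat_lit 78) (nat_lit 1292) (nat_lit 0) (XT.lf (nat_lit 1292) (nat_lit 85389125) (nat_lit 0) (nat_lit 12008032924)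 (nat_lit 1216) (nat_lit 85389125) (nat_lit 397) (nat_lit 1) (nat_lit 380) (nat_lit 1) (nat_lit 396) (nat_lit 1) (nat_lit 266) (nat_lit 383) (nat_lit 371)) (XT.lf (nat_lit 1368) (nat_lit 5711207476) (nat_lit 0) (nat_lit 587621672) (nat_lit 1292) (nat_lit 5711207476) (nat_lit 381) (nat_lit 1) (nat_lit 363) (nat_lit 1) (nat_lit 380) (nat_lit 1) (nat_lit 267) (nat_lit 383) (nat_lit 370)))))) (XT.nd (nat_lit 390) (nat_lit 1216) (nat_lit 0) (XT.nd (nat_lit 156) (nat_lit 684) (nat_lit 0) (XT.nd (nat_lit 78) (nat_lit 0) (nat_lit 76) (XT.lf (nat_lit 1368) (nat_lit 10518013982) (nat_lit 76) (nat_lit 663949974) (nat_lit 0) (nat_lit 663949974) (nat_lit 381) (nat_lit 1) (nat_lit 364) (nat_lit 1) (nat_lit 363) (nat_lit 1) (nat_lit 268) (nat_lit 383) (nat_lit 369)) (XT.lf (nat_lit 1368) (nat_lit 4767908017) (nat_lit 0) (nat_lit 2147722306) (nat_lit 1292) (nat_lit 4767908017) (nat_lit 382) (nat_lit 1) (nat_lit 364)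 (nat_lit 1) (nat_lit 381) (nat_lit 1) (nat_lit 269) (nat_lit 383) (nat_lit 368))) (XT.nd (nat_lit 78) (nat_lit 760) (nat_lit 0) (XT.lf (nat_lit 1368) (nat_lit 8561169694) (nat_lit 76) (nat_lit 1482054579) (nat_lit 0) (nat_lit 1482054579) (nat_lit 382) (nat_lit 1) (nat_lit 365) (nat_lit 1) (nat_lit 364) (nat_lit 1) (nat_lit 270) (nat_lit 383) (nat_lit 367)) (XT.nd (nat_lit 78) (nat_lit 836) (nat_lit 0) (XT.lf (nat_lit 76) (nat_lit 3765073527) (nat_lit 0) (nat_lit 3839012954) (nat_lit 1292) (nat_lit 3765073527) (nat_lit 366) (nat_lit 1) (nat_lit 365) (nat_lit 1) (nat_lit 382) (nat_lit 1) (nat_lit 271) (nat_lit 383) (nat_lit 366)) (XT.lf (nat_lit 912) (nat_lit 6491516819) (nat_lit 0) (nat_lit 2362487631) (nat_lit 836) (nat_lit 2362487631) (nat_lit 366) (nat_lit 1) (nat_lit 354) (nat_lit 1) (nat_lit 365) (nat_lit 1) (nat_lit 272) (nat_lit 383) (nat_lit 365))))) (XT.nd (nat_lit 156) (nat_lit 608) (nat_lit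 0) (XT.nd (nat_lit 78) (nat_lit 608) (nat_lit 0) (XT.lf (nat_lit 76) (nat_lit 2709432752) (nat_lit 0) (nat_lit 5647533274) (nat_lit 912) (nat_lit 2709432752) (nat_lit 355) (nat_lit 1) (nat_lit 354) (nat_lit 1) (nat_lit 366) (nat_lit 1) (nat_lit 273) (nat_lit 383) (nat_lit 364)) (XT.lf (nat_lit 684) (nat_lit 4322088489) (nat_lit 0) (nat_lit 3298487989) (nat_lit 608) (nat_lit 3298487989) (nat_lit 355) (nat_lit 1) (nat_lit 346) (nat_lit 1) (nat_lit 354) (nat_lit 1) (nat_lit 274) (nat_lit 383) (nat_lit 363))) (XT.nd (nat_lit 78) (nat_lit 608) (nat_lit 0) (XT.lf (nat_lit 76) (nat_lit 1607231740) (nat_lit 0) (nat_lit 7560311570) (nat_lit 684) (nat_lit 1607231740) (nat_lit 347) (nat_lit 1) (nat_lit 346) (nat_lit 1) (nat_lit 355) (nat_lit 1) (nat_lit 275) (nat_lit 383) (nat_lit 362)) (XT.nd (nat_lit 78) (nat_lit 0) (nat_lit 0) (XT.lf (nat_lit 684) (nat_lit 2064978692) (nat_lit 0) (nat_lit 4283775344) (nat_lit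 608) (nat_lit 4283775344) (nat_lit 347) (nat_lit 1) (nat_lit 338) (nat_lit 1) (nat_lit 346) (nat_lit 1) (nat_lit 276) (nat_lit 383) (nat_lit 361)) (XT.lf (nat_lit 76) (nat_lit 464264354) (nat_lit 0) (nat_lit 9565302585) (nat_lit 684) (nat_lit 464264354) (nat_lit 339) (nat_lit 1) (nat_lit 338) (nat_lit 1) (nat_lit 347) (nat_lit 1) (nat_lit 277) (nat_lit 383) (nat_lit 360))))))))
noncomputable def ec216 : XT := (XT.nd (nat_lit 1404) (nat_lit 3876) (nat_lit 0) (XT.nd (nat_lit 702) (nat_lit 2204) (nat_lit 0) (XT.nd (nat_lit 312) (nat_lit 1596) (nat_lit 0) (XT.nd (nat_lit 156) (nat_lit 532) (nat_lit 0) (XT.nd (nat_lit 78) (nat_lit 608) (nat_lit 0) (XT.lf (nat_lit 76) (nat_lit 5046503586) (nat_lit 0) (nat_lit 263356944) (nat_lit 608) (nat_lit 5046503586) (nat_lit 331) (nat_lit 1) (nat_lit 330) (nat_lit 1) (nat_lit 338) (nat_lit 1) (nat_lit 278) (nat_lit 383) (nat_lit 359)) (XT.lf (nat_lit 684) (nat_lit 8808106944)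 (nat_lit 0) (nat_lit 707098065) (nat_lit 608) (nat_lit 707098065) (nat_lit 331) (nat_lit 1) (nat_lit 322) (nat_lit 1) (nat_lit 330) (nat_lit 1) (nat_lit 279) (nat_lit 383) (nat_lit 358))) (XT.nd (nat_lit 78) (nat_lit 532) (nat_lit 0) (XT.lf (nat_lit 76) (nat_lit 3736711006) (nat_lit 0) (nat_lit 2616184642) (nat_lit 684) (nat_lit 3736711006) (nat_lit 323) (nat_lit 1) (nat_lit 322) (nat_lit 1) (nat_lit 331) (nat_lit 1) (nat_lit 280) (nat_lit 383) (nat_lit 357)) (XT.lf (nat_lit 608) (nat_lit 6151962531) (nat_lit 0) (nat_lit 1904032797) (nat_lit 532) (nat_lit 1904032797) (nat_lit 323) (nat_lit 1) (nat_lit 315) (nat_lit 1) (nat_lit 322) (nat_lit 1) (nat_lit 281) (nat_lit 383) (nat_lit 356)))) (XT.nd (nat_lit 156) (nat_lit 1064) (nat_lit 0) (XT.nd (nat_lit 78) (nat_lit 532) (nat_lit 0) (XT.lf (nat_lit 76) (nat_lit 2404040820) (nat_lit 0) (nat_lit 5024367994) (nat_lit 608) (nat_lit 2404040820) (nat_lit 316)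 (nat_lit 1) (nat_lit 315) (nat_lit 1) (nat_lit 323) (nat_lit 1) (nat_lit 282) (nat_lit 383) (nat_lit 355)) (XT.lf (nat_lit 608) (nat_lit 3454084403) (nat_lit 0) (nat_lit 3126533953) (nat_lit 532) (nat_lit 3126533953) (nat_lit 316) (nat_lit 1) (nat_lit 308) (nat_lit 1) (nat_lit 315) (nat_lit 1) (nat_lit 283) (nat_lit 383) (nat_lit 354))) (XT.nd (nat_lit 78) (nat_lit 1064) (nat_lit 0) (XT.lf (nat_lit 76) (nat_lit 1052662561) (nat_lit 0) (nat_lit 7479183215) (nat_lit 608) (nat_lit 1052662561) (nat_lit 309) (nat_lit 1) (nat_lit 308) (nat_lit 1) (nat_lit 316) (nat_lit 1) (nat_lit 284) (nat_lit 383) (nat_lit 353)) (XT.nd (nat_lit 78) (nat_lit 608) (nat_lit 0) (XT.lf (nat_lit 532) (nat_lit 722524766) (nat_lit 0) (nat_lit 4370388032) (nat_lit 456) (nat_lit 4370388032) (nat_lit 309) (nat_lit 1) (nat_lit 302) (nat_lit 1) (nat_lit 308) (nat_lit 1) (nat_lit 285) (nat_lit 383) (nat_lit 352)) (XT.lf (nat_lit 608)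 (nat_lit 8724046739) (nat_lit 0) (nat_lit 310502498) (nat_lit 532) (nat_lit 310502498) (nat_lit 302) (nat_lit 1) (nat_lit 294) (nat_lit 1) (nat_lit 301) (nat_lit 1) (nat_lit 286) (nat_lit 383) (nat_lit 351)))))) (XT.nd (nat_lit 312) (nat_lit 1292) (nat_lit 0) (XT.nd (nat_lit 156) (nat_lit 456) (nat_lit 0) (XT.nd (nat_lit 78) (nat_lit 456) (nat_lit 0) (XT.lf (nat_lit 76) (nat_lit 3615976691) (nat_lit 0) (nat_lit 1995575291) (nat_lit 608) (nat_lit 3615976691) (nat_lit 295) (nat_lit 1) (nat_lit 294) (nat_lit 1) (nat_lit 302) (nat_lit 1) (nat_lit 287) (nat_lit 383) (nat_lit 350)) (XT.lf (nat_lit 532) (nat_lit 5763754591) (nat_lit 0) (nat_lit 1674552091) (nat_lit 456) (nat_lit 1674552091) (nat_lit 295) (nat_lit 1) (nat_lit 288) (nat_lit 1) (nat_lit 294) (nat_lit 1) (nat_lit 288) (nat_lit 383) (nat_lit 349))) (XT.nd (nat_lit 78) (nat_lit 456) (nat_lit 0) (XT.lf (nat_lit 76) (nat_lit 2140625997) (nat_lit 0)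 (nat_lit 4718614637) (nat_lit 532) (nat_lit 2140625997) (nat_lit 289) (nat_lit 1) (nat_lit 288) (nat_lit 1) (nat_lit 295) (nat_lit 1) (nat_lit 289) (nat_lit 383) (nat_lit 348)) (XT.lf (nat_lit 532) (nat_lit 2795668157) (nat_lit 0) (nat_lit 3046574980) (nat_lit 456) (nat_lit 3046574980) (nat_lit 289) (nat_lit 1) (nat_lit 282) (nat_lit 1) (nat_lit 288) (nat_lit 1) (nat_lit 290) (nat_lit 383) (nat_lit 347)))) (XT.nd (nat_lit 156) (nat_lit 836) (nat_lit 0) (XT.nd (nat_lit 78) (nat_lit 456) (nat_lit 0) (XT.lf (nat_lit 76) (nat_lit 662836934) (nat_lit 0) (nat_lit 7454523946) (nat_lit 532) (nat_lit 662836934) (nat_lit 283) (nat_lit 1) (nat_lit 282) (nat_lit 1) (nat_lit 289) (nat_lit 1) (nat_lit 291) (nat_lit 383) (nat_lit 346)) (XT.lf (nat_lit 76) (nat_lit 4250690226) (nat_lit 0) (nat_lit 171181765) (nat_lit 456) (nat_lit 4250690226) (nat_lit 277) (nat_lit 1) (nat_lit 276) (nat_lit 1) (nat_lit 282) (nat_lit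 1) (nat_lit 292) (nat_lit 383) (nat_lit 345))) (XT.nd (nat_lit 78) (nat_lit 380) (nat_lit 0) (XT.lf (nat_lit 532) (nat_lit 6953815905) (nat_lit 0) (nat_lit 806725390) (nat_lit 456) (nat_lit 806725390) (nat_lit 277) (nat_lit 1) (nat_lit 270) (nat_lit 1) (nat_lit 276) (nat_lit 1) (nat_lit 293) (nat_lit 383) (nat_lit 344)) (XT.nd (nat_lit 78) (nat_lit 380) (nat_lit 0) (XT.lf (nat_lit 76) (nat_lit 2691238195) (nat_lit 0) (nat_lit 3080556292) (nat_lit 532) (nat_lit 2691238195) (nat_lit 271) (nat_lit 1) (nat_lit 270) (nat_lit 1) (nat_lit 277) (nat_lit 1) (nat_lit 294) (nat_lit 383) (nat_lit 343)) (XT.lf (nat_lit 456) (nat_lit 3826702515) (nat_lit 0) (nat_lit 2267126226) (nat_lit 380) (nat_lit 2267126226) (nat_lit 271) (nat_lit 1) (nat_lit 265) (nat_lit 1) (nat_lit 270) (nat_lit 1) (nat_lit 295) (nat_lit 383) (nat_lit 342))))))) (XT.nd (nat_lit 702) (nat_lit 1900) (nat_lit 0) (XT.nd (nat_lit 312) (nat_lit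 1140) (nat_lit 0) (XT.nd (nat_lit 156) (nat_lit 456) (nat_lit 0) (XT.nd (nat_lit 78) (nat_lit 380) (nat_lit 0) (XT.lf (nat_lit 76) (nat_lit 1139177148) (nat_lit 0) (nat_lit 5982392552) (nat_lit 456) (nat_lit 1139177148) (nat_lit 266) (nat_lit 1) (nat_lit 265) (nat_lit 1) (nat_lit 271) (nat_lit 1) (nat_lit 296) (nat_lit 383) (nat_lit 341)) (XT.lf (nat_lit 456) (nat_lit 716452694) (nat_lit 0) (nat_lit 3722648221) (nat_lit 380) (nat_lit 3722648221) (nat_lit 266) (nat_lit 1) (nat_lit 260) (nat_lit 1) (nat_lit 265) (nat_lit 1) (nat_lit 297) (nat_lit 383) (nat_lit 340))) (XT.nd (nat_lit 78) (nat_lit 0) (nat_lit 0) (XT.lf (nat_lit 456) (nat_lit 7265822457) (nat_lit 0) (nat_lit 399568982) (nat_lit 380) (nat_lit 399568982) (nat_lit 260) (nat_lit 1) (nat_lit 254) (nat_lit 1) (nat_lit 259) (nat_lit 1) (nat_lit 298) (nat_lit 383) (nat_lit 339)) (XT.lf (nat_lit 76) (nat_lit 2820919766) (nat_lit 0) (nat_lit 2326855363)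 (nat_lit 456) (nat_lit 2820919766) (nat_lit 255) (nat_lit 1) (nat_lit 254) (nat_lit 1) (nat_lit 260) (nat_lit 1) (nat_lit 299) (nat_lit 383) (nat_lit 338)))) (XT.nd (nat_lit 156) (nat_lit 760) (nat_lit 0) (XT.nd (nat_lit 78) (nat_lit 0) (nat_lit 0) (XT.lf (nat_lit 456) (nat_lit 4042344775) (nat_lit 0) (nat_lit 1916112005) (nat_lit 380) (nat_lit 1916112005) (nat_lit 255) (nat_lit 1) (nat_lit 249) (nat_lit 1) (nat_lit 254) (nat_lit 1) (nat_lit 300) (nat_lit 383) (nat_lit 337)) (XT.lf (nat_lit 76) (nat_lit 1224707013) (nat_lit 0) (nat_lit 5332604461) (nat_lit 456) (nat_lit 1224707013) (nat_lit 250) (nat_lit 1) (nat_lit 249) (nat_lit 1) (nat_lit 255) (nat_lit 1) (nat_lit 301) (nat_lit 383) (nat_lit 336))) (XT.nd (nat_lit 78) (nat_lit 456) (nat_lit 0) (XT.lf (nat_lit 380) (nat_lit 850598884) (nat_lit 0) (nat_lit 3420021107) (nat_lit 304) (nat_lit 3420021107) (nat_lit 250) (nat_lit 1) (nat_lit 245) (nat_lit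 1) (nat_lit 249) (nat_lit 1) (nat_lit 302) (nat_lit 383) (nat_lit 335)) (XT.nd (nat_lit 78) (nat_lit 0) (nat_lit 0) (XT.lf (nat_lit 456) (nat_lit 6898159166) (nat_lit 0) (nat_lit 351554560) (nat_lit 380) (nat_lit 351554560) (nat_lit 245) (nat_lit 1) (nat_lit 239) (nat_lit 1) (nat_lit 244) (nat_lit 1) (nat_lit 303) (nat_lit 383) (nat_lit 334)) (XT.lf (nat_lit 76) (nat_lit 2625256559) (nat_lit 0) (nat_lit 2261758017) (nat_lit 456) (nat_lit 2625256559) (nat_lit 240) (nat_lit 1) (nat_lit 239) (nat_lit 1) (nat_lit 245) (nat_lit 1) (nat_lit 304) (nat_lit 383) (nat_lit 333)))))) (XT.nd (nat_lit 390) (nat_lit 912) (nat_lit 0) (XT.nd (nat_lit 156) (nat_lit 684) (nat_lit 0) (XT.nd (nat_lit 78) (nat_lit 0) (nat_lit 0) (XT.lf (nat_lit 380) (nat_lit 3628682665) (nat_lit 0) (nat_lit 1898268812) (nat_lit 304) (nat_lit 1898268812) (nat_lit 240) (nat_lit 1) (nat_lit 235) (nat_lit 1) (nat_lit 239) (nat_lit 1) (nat_lit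 305) (nat_lit 383) (nat_lit 332)) (XT.lf (nat_lit 76) (nat_lit 1009081220) (nat_lit 0) (nat_lit 5321496030) (nat_lit 380) (nat_lit 1009081220) (nat_lit 236) (nat_lit 1) (nat_lit 235) (nat_lit 1) (nat_lit 240) (nat_lit 1) (nat_lit 306) (nat_lit 383) (nat_lit 331))) (XT.nd (nat_lit 78) (nat_lit 380) (nat_lit 0) (XT.lf (nat_lit 380) (nat_lit 402379041) (nat_lit 0) (nat_lit 3426345071) (nat_lit 304) (nat_lit 3426345071) (nat_lit 236) (nat_lit 1) (nat_lit 231) (nat_lit 1) (nat_lit 235) (nat_lit 1) (nat_lit 307) (nat_lit 383) (nat_lit 330)) (XT.nd (nat_lit 78) (nat_lit 0) (nat_lit 0) (XT.lf (nat_lit 380) (nat_lit 6013296358) (nat_lit 0) (nat_lit 579426432) (nat_lit 304) (nat_lit 579426432) (nat_lit 231) (nat_lit 1) (nat_lit 226) (nat_lit 1) (nat_lit 230) (nat_lit 1) (nat_lit 308) (nat_lit 383) (nat_lit 329)) (XT.lf (nat_lit 76) (nat_lit 2182502666) (nat_lit 0) (nat_lit 2724792311) (nat_lit 380) (nat_lit 2182502666)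 (nat_lit 227) (nat_lit 1) (nat_lit 226) (nat_lit 1) (nat_lit 231) (nat_lit 1) (nat_lit 309) (nat_lit 383) (nat_lit 328))))) (XT.nd (nat_lit 156) (nat_lit 608) (nat_lit 0) (XT.nd (nat_lit 78) (nat_lit 0) (nat_lit 0) (XT.lf (nat_lit 380) (nat_lit 2738009135) (nat_lit 0) (nat_lit 2135528726) (nat_lit 304) (nat_lit 2135528726) (nat_lit 227) (nat_lit 1) (nat_lit 222) (nat_lit 1) (nat_lit 226) (nat_lit 1) (nat_lit 310) (nat_lit 383) (nat_lit 327)) (XT.lf (nat_lit 76) (nat_lit 565646087) (nat_lit 0) (nat_lit 5798605166) (nat_lit 380) (nat_lit 565646087) (nat_lit 223) (nat_lit 1) (nat_lit 222) (nat_lit 1) (nat_lit 227) (nat_lit 1) (nat_lit 311) (nat_lit 383) (nat_lit 326))) (XT.nd (nat_lit 78) (nat_lit 304) (nat_lit 0) (XT.lf (nat_lit 76) (nat_lit 3187617654) (nat_lit 0) (nat_lit 476002884) (nat_lit 304) (nat_lit 3187617654) (nat_lit 219) (nat_lit 1) (nat_lit 218) (nat_lit 1) (nat_lit 222) (nat_lit 1) (nat_lit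 312) (nat_lit 383) (nat_lit 325)) (XT.nd (nat_lit 78) (nat_lit 0) (nat_lit 0) (XT.lf (nat_lit 380) (nat_lit 4743851254) (nat_lit 0) (nat_lit 1015123118) (nat_lit 304) (nat_lit 1015123118) (nat_lit 219) (nat_lit 1) (nat_lit 214) (nat_lit 1) (nat_lit 218) (nat_lit 1) (nat_lit 313) (nat_lit 383) (nat_lit 324)) (XT.lf (nat_lit 76) (nat_lit 1556507207) (nat_lit 0) (nat_lit 3584821167) (nat_lit 380) (nat_lit 1556507207) (nat_lit 215) (nat_lit 1) (nat_lit 214) (nat_lit 1) (nat_lit 219) (nat_lit 1) (nat_lit 314) (nat_lit 383) (nat_lit 323))))))))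
noncomputable def ec217 : XT := (XT.nd (nat_lit 1482) (nat_lit 2128) (nat_lit 0) (XT.nd (nat_lit 702) (nat_lit 1444) (nat_lit 0) (XT.nd (nat_lit 312) (nat_lit 760) (nat_lit 0) (XT.nd (nat_lit 156) (nat_lit 228) (nat_lit 0) (XT.nd (nat_lit 78) (nat_lit 380) (nat_lit 0) (XT.lf (nat_lit 304) (nat_lit 1494532373) (nat_lit 0) (nat_lit 2564119435) (nat_lit 228) (nat_lit 2564119435) (nat_lit 215) (nat_lit 1) (nat_lit 211) (nat_lit 1) (nat_lit 214) (nat_lit 1) (nat_lit 315) (nat_lit 383) (nat_lit 322)) (XT.lf (nat_lit 380) (nat_lit 6458700495) (nat_lit 0) (nat_lit 45354329) (nat_lit 304) (nat_lit 45354329) (nat_lit 211) (nat_lit 1) (nat_lit 206) (nat_lit 1) (nat_lit 210) (nat_lit 1) (nat_lit 316) (nat_lit 383) (nat_lit 321))) (XT.nd (nat_lit 78) (nat_lit 228) (nat_lit 0) (XT.lf (nat_lit 76) (nat_lit 2406177257) (nat_lit 0) (nat_lit 1663548323) (nat_lit 380) (nat_lit 2406177257) (nat_lit 207) (nat_lit 1) (nat_lit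 206) (nat_lit 1) (nat_lit 211) (nat_lit 1) (nat_lit 317) (nat_lit 383) (nat_lit 320)) (XT.lf (nat_lit 304) (nat_lit 3197651060) (nat_lit 0) (nat_lit 1603205695) (nat_lit 228) (nat_lit 1603205695) (nat_lit 207) (nat_lit 1) (nat_lit 203) (nat_lit 1) (nat_lit 206) (nat_lit 1) (nat_lit 318) (nat_lit 383) (nat_lit 319)))) (XT.nd (nat_lit 156) (nat_lit 456) (nat_lit 0) (XT.nd (nat_lit 78) (nat_lit 304) (nat_lit 0) (XT.lf (nat_lit 76) (nat_lit 799158946) (nat_lit 0) (nat_lit 4735074479) (nat_lit 304) (nat_lit 799158946) (nat_lit 204) (nat_lit 1) (nat_lit 203) (nat_lit 1) (nat_lit 207) (nat_lit 1) (nat_lit 319) (nat_lit 383) (nat_lit 318)) (XT.lf (nat_lit 76) (nat_lit 3131294961) (nat_lit 0) (nat_lit 838368) (nat_lit 304) (nat_lit 3131294961) (nat_lit 200) (nat_lit 1) (nat_lit 199) (nat_lit 1) (nat_lit 203) (nat_lit 1) (nat_lit 320) (nat_lit 383) (nat_lit 317))) (XT.nd (nat_lit 78) (nat_lit 228) (nat_lit 0)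 (XT.lf (nat_lit 304) (nat_lit 4656390389) (nat_lit 0) (nat_lit 769105930) (nat_lit 228) (nat_lit 769105930) (nat_lit 200) (nat_lit 1) (nat_lit 196) (nat_lit 1) (nat_lit 199) (nat_lit 1) (nat_lit 321) (nat_lit 383) (nat_lit 316)) (XT.nd (nat_lit 78) (nat_lit 228) (nat_lit 0) (XT.lf (nat_lit 76) (nat_lit 1525435245) (nat_lit 0) (nat_lit 3075567558) (nat_lit 304) (nat_lit 1525435245) (nat_lit 197) (nat_lit 1) (nat_lit 196) (nat_lit 1) (nat_lit 200) (nat_lit 1) (nat_lit 322) (nat_lit 383) (nat_lit 315)) (XT.lf (nat_lit 304) (nat_lit 1461960685) (nat_lit 0) (nat_lit 2298710148) (nat_lit 228) (nat_lit 2298710148) (nat_lit 197) (nat_lit 1) (nat_lit 193) (nat_lit 1) (nat_lit 196) (nat_lit 1) (nat_lit 323) (nat_lit 383) (nat_lit 314)))))) (XT.nd (nat_lit 390) (nat_lit 684) (nat_lit 0) (XT.nd (nat_lit 156) (nat_lit 456) (nat_lit 0) (XT.nd (nat_lit 78) (nat_lit 0) (nat_lit 0) (XT.lf (nat_lit 304) (nat_lit 5899588025)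 (nat_lit 0) (nat_lit 47106128) (nat_lit 228) (nat_lit 47106128) (nat_lit 193) (nat_lit 1) (nat_lit 189) (nat_lit 1) (nat_lit 192) (nat_lit 1) (nat_lit 324) (nat_lit 383) (nat_lit 313)) (XT.lf (nat_lit 76) (nat_lit 2146973023) (nat_lit 0) (nat_lit 1634073021) (nat_lit 304) (nat_lit 2146973023) (nat_lit 190) (nat_lit 1) (nat_lit 189) (nat_lit 1) (nat_lit 193) (nat_lit 1) (nat_lit 325) (nat_lit 383) (nat_lit 312))) (XT.nd (nat_lit 78) (nat_lit 228) (nat_lit 0) (XT.lf (nat_lit 304) (nat_lit 2719050017) (nat_lit 0) (nat_lit 1572318592) (nat_lit 228) (nat_lit 1572318592) (nat_lit 190) (nat_lit 1) (nat_lit 186) (nat_lit 1) (nat_lit 189) (nat_lit 1) (nat_lit 326) (nat_lit 383) (nat_lit 311)) (XT.nd (nat_lit 78) (nat_lit 228) (nat_lit 0) (XT.lf (nat_lit 76) (nat_lit 581551728) (nat_lit 0) (nat_lit 4637341504) (nat_lit 304) (nat_lit 581551728) (nat_lit 187) (nat_lit 1) (nat_lit 186) (nat_lit 1) (nat_lit 190)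 (nat_lit 1) (nat_lit 327) (nat_lit 383) (nat_lit 310)) (XT.lf (nat_lit 76) (nat_lit 2676143709) (nat_lit 0) (nat_lit 385319783) (nat_lit 228) (nat_lit 2676143709) (nat_lit 184) (nat_lit 1) (nat_lit 183) (nat_lit 1) (nat_lit 186) (nat_lit 1) (nat_lit 328) (nat_lit 383) (nat_lit 309))))) (XT.nd (nat_lit 156) (nat_lit 456) (nat_lit 0) (XT.nd (nat_lit 78) (nat_lit 0) (nat_lit 0) (XT.lf (nat_lit 304) (nat_lit 3794594978) (nat_lit 0) (nat_lit 940620042) (nat_lit 228) (nat_lit 940620042) (nat_lit 184) (nat_lit 1) (nat_lit 180) (nat_lit 1) (nat_lit 183) (nat_lit 1) (nat_lit 329) (nat_lit 383) (nat_lit 308)) (XT.lf (nat_lit 76) (nat_lit 1122350986) (nat_lit 0) (nat_lit 3370065860) (nat_lit 304) (nat_lit 1122350986) (nat_lit 181) (nat_lit 1) (nat_lit 180) (nat_lit 1) (nat_lit 184) (nat_lit 1) (nat_lit 330) (nat_lit 383) (nat_lit 307))) (XT.nd (nat_lit 78) (nat_lit 304) (nat_lit 0) (XT.lf (nat_lit 228) (nat_lit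 706911620) (nat_lit 0) (nat_lit 2423802657) (nat_lit 152) (nat_lit 2423802657) (nat_lit 181) (nat_lit 1) (nat_lit 178) (nat_lit 1) (nat_lit 180) (nat_lit 1) (nat_lit 331) (nat_lit 383) (nat_lit 306)) (XT.nd (nat_lit 78) (nat_lit 0) (nat_lit 0) (XT.lf (nat_lit 304) (nat_lit 4710044855) (nat_lit 0) (nat_lit 392656237) (nat_lit 228) (nat_lit 392656237) (nat_lit 178) (nat_lit 1) (nat_lit 174) (nat_lit 1) (nat_lit 177) (nat_lit 1) (nat_lit 332) (nat_lit 383) (nat_lit 305)) (XT.lf (nat_lit 76) (nat_lit 1585203836) (nat_lit 0) (nat_lit 2265956952) (nat_lit 304) (nat_lit 1585203836) (nat_lit 175) (nat_lit 1) (nat_lit 174) (nat_lit 1) (nat_lit 178) (nat_lit 1) (nat_lit 333) (nat_lit 383) (nat_lit 304))))))) (XT.nd (nat_lit 702) (nat_lit 1064) (nat_lit 0) (XT.nd (nat_lit 312) (nat_lit 532) (nat_lit 0) (XT.nd (nat_lit 156) (nat_lit 380) (nat_lit 0) (XT.nd (nat_lit 78) (nat_lit 0) (nat_lit 0) (XT.lf (nat_lit 228)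 (nat_lit 1653399029) (nat_lit 0) (nat_lit 1862522040) (nat_lit 152) (nat_lit 1862522040) (nat_lit 175) (nat_lit 1) (nat_lit 172) (nat_lit 1) (nat_lit 174) (nat_lit 1) (nat_lit 334) (nat_lit 383) (nat_lit 303)) (XT.lf (nat_lit 76) (nat_lit 82102407) (nat_lit 0) (nat_lit 5157527007) (nat_lit 228) (nat_lit 82102407) (nat_lit 173) (nat_lit 1) (nat_lit 172) (nat_lit 1) (nat_lit 175) (nat_lit 1) (nat_lit 335) (nat_lit 383) (nat_lit 302))) (XT.nd (nat_lit 78) (nat_lit 152) (nat_lit 0) (XT.lf (nat_lit 76) (nat_lit 1979316108) (nat_lit 0) (nat_lit 1306183194) (nat_lit 228) (nat_lit 1979316108) (nat_lit 170) (nat_lit 1) (nat_lit 169) (nat_lit 1) (nat_lit 172) (nat_lit 1) (nat_lit 336) (nat_lit 383) (nat_lit 301)) (XT.lf (nat_lit 228) (nat_lit 2464477224) (nat_lit 0) (nat_lit 1372307070) (nat_lit 152) (nat_lit 1372307070) (nat_lit 170) (nat_lit 1) (nat_lit 167) (nat_lit 1) (nat_lit 169) (nat_lit 1) (nat_lit 337)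 (nat_lit 383) (nat_lit 300)))) (XT.nd (nat_lit 156) (nat_lit 304) (nat_lit 0) (XT.nd (nat_lit 78) (nat_lit 228) (nat_lit 0) (XT.lf (nat_lit 76) (nat_lit 494720272) (nat_lit 0) (nat_lit 4164839103) (nat_lit 228) (nat_lit 494720272) (nat_lit 168) (nat_lit 1) (nat_lit 167) (nat_lit 1) (nat_lit 170) (nat_lit 1) (nat_lit 338) (nat_lit 383) (nat_lit 299)) (XT.lf (nat_lit 76) (nat_lit 2312852096) (nat_lit 0) (nat_lit 474031501) (nat_lit 228) (nat_lit 2312852096) (nat_lit 165) (nat_lit 1) (nat_lit 164) (nat_lit 1) (nat_lit 167) (nat_lit 1) (nat_lit 339) (nat_lit 383) (nat_lit 298))) (XT.nd (nat_lit 78) (nat_lit 152) (nat_lit 0) (XT.lf (nat_lit 228) (nat_lit 3156115901) (nat_lit 0) (nat_lit 944986146) (nat_lit 152) (nat_lit 944986146) (nat_lit 165) (nat_lit 1) (nat_lit 162) (nat_lit 1) (nat_lit 164) (nat_lit 1) (nat_lit 340) (nat_lit 383) (nat_lit 297)) (XT.nd (nat_lit 78) (nat_lit 152) (nat_lit 0) (XT.lf (nat_lit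 76) (nat_lit 849041240) (nat_lit 0) (nat_lit 3295010608) (nat_lit 228) (nat_lit 849041240) (nat_lit 163) (nat_lit 1) (nat_lit 162) (nat_lit 1) (nat_lit 165) (nat_lit 1) (nat_lit 341) (nat_lit 383) (nat_lit 296)) (XT.lf (nat_lit 228) (nat_lit 250212027) (nat_lit 0) (nat_lit 2345244304) (nat_lit 152) (nat_lit 2345244304) (nat_lit 163) (nat_lit 1) (nat_lit 160) (nat_lit 1) (nat_lit 162) (nat_lit 1) (nat_lit 342) (nat_lit 383) (nat_lit 295)))))) (XT.nd (nat_lit 390) (nat_lit 456) (nat_lit 0) (XT.nd (nat_lit 156) (nat_lit 380) (nat_lit 0) (XT.nd (nat_lit 78) (nat_lit 0) (nat_lit 0) (XT.lf (nat_lit 228) (nat_lit 3742478593) (nat_lit 0) (nat_lit 573306096) (nat_lit 152) (nat_lit 573306096) (nat_lit 160) (nat_lit 1) (nat_lit 157) (nat_lit 1) (nat_lit 159) (nat_lit 1) (nat_lit 343) (nat_lit 383) (nat_lit 294)) (XT.lf (nat_lit 76) (nat_lit 1151923976) (nat_lit 0) (nat_lit 2533986878) (nat_lit 228) (nat_lit 1151923976)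 (nat_lit 158) (nat_lit 1) (nat_lit 157) (nat_lit 1) (nat_lit 160) (nat_lit 1) (nat_lit 344) (nat_lit 383) (nat_lit 293))) (XT.nd (nat_lit 78) (nat_lit 228) (nat_lit 0) (XT.lf (nat_lit 228) (nat_lit 882276167) (nat_lit 0) (nat_lit 1952536008) (nat_lit 152) (nat_lit 1952536008) (nat_lit 158) (nat_lit 1) (nat_lit 155) (nat_lit 1) (nat_lit 157) (nat_lit 1) (nat_lit 345) (nat_lit 383) (nat_lit 292)) (XT.nd (nat_lit 78) (nat_lit 0) (nat_lit 0) (XT.lf (nat_lit 228) (nat_lit 4236124818) (nat_lit 0) (nat_lit 250829550) (nat_lit 152) (nat_lit 250829550) (nat_lit 155) (nat_lit 1) (nat_lit 152) (nat_lit 1) (nat_lit 154) (nat_lit 1) (nat_lit 346) (nat_lit 383) (nat_lit 291)) (XT.lf (nat_lit 76) (nat_lit 1409451893) (nat_lit 0) (nat_lit 1869290860) (nat_lit 228) (nat_lit 1409451893) (nat_lit 153) (nat_lit 1) (nat_lit 152) (nat_lit 1) (nat_lit 155) (nat_lit 1) (nat_lit 347) (nat_lit 383) (nat_lit 290))))) (XT.nd (nat_lit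 156) (nat_lit 304) (nat_lit 0) (XT.nd (nat_lit 78) (nat_lit 0) (nat_lit 0) (XT.lf (nat_lit 228) (nat_lit 1424634657) (nat_lit 0) (nat_lit 1607440643) (nat_lit 152) (nat_lit 1607440643) (nat_lit 153) (nat_lit 1) (nat_lit 150) (nat_lit 1) (nat_lit 152) (nat_lit 1) (nat_lit 348) (nat_lit 383) (nat_lit 289)) (XT.lf (nat_lit 76) (nat_lit 28435007) (nat_lit 0) (nat_lit 4534974220) (nat_lit 228) (nat_lit 28435007) (nat_lit 151) (nat_lit 1) (nat_lit 150) (nat_lit 1) (nat_lit 153) (nat_lit 1) (nat_lit 349) (nat_lit 383) (nat_lit 288))) (XT.nd (nat_lit 78) (nat_lit 152) (nat_lit 0) (XT.lf (nat_lit 76) (nat_lit 1627019907) (nat_lit 0) (nat_lit 1289846872) (nat_lit 152) (nat_lit 1627019907) (nat_lit 149) (nat_lit 1) (nat_lit 148) (nat_lit 1) (nat_lit 150) (nat_lit 1) (nat_lit 350) (nat_lit 383) (nat_lit 287)) (XT.nd (nat_lit 78) (nat_lit 0) (nat_lit 0) (XT.lf (nat_lit 228) (nat_lit 1887850713) (nat_lit 0) (nat_lit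 1304537463) (nat_lit 152) (nat_lit 1304537463) (nat_lit 149) (nat_lit 1) (nat_lit 146) (nat_lit 1) (nat_lit 148) (nat_lit 1) (nat_lit 351) (nat_lit 383) (nat_lit 286)) (XT.lf (nat_lit 76) (nat_lit 271380967) (nat_lit 0) (nat_lit 3908026039) (nat_lit 228) (nat_lit 271380967) (nat_lit 147) (nat_lit 1) (nat_lit 146) (nat_lit 1) (nat_lit 149) (nat_lit 1) (nat_lit 352) (nat_lit 383) (nat_lit 285))))))))
noncomputable def ec218 : XT := (XT.nd (nat_lit 1482) (nat_lit 1444) (nat_lit 0) (XT.nd (nat_lit 702) (nat_lit 988) (nat_lit 0) (XT.nd (nat_lit 312) (nat_lit 456) (nat_lit 0) (XT.nd (nat_lit 156) (nat_lit 152) (nat_lit 0) (XT.nd (nat_lit 78) (nat_lit 152) (nat_lit 0) (XT.lf (nat_lit 76) (nat_lit 1809411508) (nat_lit 0) (nat_lit 785824041) (nat_lit 152) (nat_lit 1809411508) (nat_lit 145) (nat_lit 1) (nat_lit 144) (nat_lit 1) (nat_lit 146) (nat_lit 1) (nat_lit 353) (nat_lit 383) (nat_lit 284)) (XT.lf (nat_lit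 228) (nat_lit 2281293307) (nat_lit 0) (nat_lit 1039013446) (nat_lit 152) (nat_lit 1039013446) (nat_lit 145) (nat_lit 1) (nat_lit 142) (nat_lit 1) (nat_lit 144) (nat_lit 1) (nat_lit 354) (nat_lit 383) (nat_lit 283))) (XT.nd (nat_lit 78) (nat_lit 152) (nat_lit 0) (XT.lf (nat_lit 76) (nat_lit 480066855) (nat_lit 0) (nat_lit 3354521956) (nat_lit 228) (nat_lit 480066855) (nat_lit 143) (nat_lit 1) (nat_lit 142) (nat_lit 1) (nat_lit 145) (nat_lit 1) (nat_lit 355) (nat_lit 383) (nat_lit 282)) (XT.lf (nat_lit 76) (nat_lit 1960867227) (nat_lit 0) (nat_lit 348497201) (nat_lit 152) (nat_lit 1960867227) (nat_lit 141) (nat_lit 1) (nat_lit 140) (nat_lit 1) (nat_lit 142) (nat_lit 1) (nat_lit 356) (nat_lit 383) (nat_lit 281)))) (XT.nd (nat_lit 156) (nat_lit 304) (nat_lit 0) (XT.nd (nat_lit 78) (nat_lit 0) (nat_lit 0) (XT.lf (nat_lit 228) (nat_lit 2613270818) (nat_lit 0) (nat_lit 806595433) (nat_lit 152) (nat_lit 806595433)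 (nat_lit 141) (nat_lit 1) (nat_lit 138) (nat_lit 1) (nat_lit 140) (nat_lit 1) (nat_lit 357) (nat_lit 383) (nat_lit 280)) (XT.lf (nat_lit 76) (nat_lit 658521902) (nat_lit 0) (nat_lit 2866169153) (nat_lit 228) (nat_lit 658521902) (nat_lit 139) (nat_lit 1) (nat_lit 138) (nat_lit 1) (nat_lit 141) (nat_lit 1) (nat_lit 358) (nat_lit 383) (nat_lit 279))) (XT.nd (nat_lit 78) (nat_lit 228) (nat_lit 0) (XT.lf (nat_lit 152) (nat_lit 30471277) (nat_lit 0) (nat_lit 2054967092) (nat_lit 76) (nat_lit 2054967092) (nat_lit 139) (nat_lit 1) (nat_lit 137) (nat_lit 1) (nat_lit 138) (nat_lit 1) (nat_lit 359) (nat_lit 383) (nat_lit 278)) (XT.nd (nat_lit 78) (nat_lit 0) (nat_lit 0) (XT.lf (nat_lit 228) (nat_lit 2891149762) (nat_lit 0) (nat_lit 603489832) (nat_lit 152) (nat_lit 603489832) (nat_lit 137) (nat_lit 1) (nat_lit 134) (nat_lit 1) (nat_lit 136) (nat_lit 1) (nat_lit 360) (nat_lit 383) (nat_lit 277)) (XT.lf (nat_lit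 76) (nat_lit 810319946) (nat_lit 0) (nat_lit 2435602561) (nat_lit 228) (nat_lit 810319946) (nat_lit 135) (nat_lit 1) (nat_lit 134) (nat_lit 1) (nat_lit 137) (nat_lit 1) (nat_lit 361) (nat_lit 383) (nat_lit 276)))))) (XT.nd (nat_lit 390) (nat_lit 380) (nat_lit 0) (XT.nd (nat_lit 156) (nat_lit 304) (nat_lit 0) (XT.nd (nat_lit 78) (nat_lit 228) (nat_lit 0) (XT.lf (nat_lit 152) (nat_lit 363256710) (nat_lit 0) (nat_lit 1825811646) (nat_lit 76) (nat_lit 1825811646) (nat_lit 135) (nat_lit 1) (nat_lit 133) (nat_lit 1) (nat_lit 134) (nat_lit 1) (nat_lit 362) (nat_lit 383) (nat_lit 275)) (XT.lf (nat_lit 228) (nat_lit 3121460270) (nat_lit 0) (nat_lit 426329051) (nat_lit 152) (nat_lit 426329051) (nat_lit 133) (nat_lit 1) (nat_lit 130) (nat_lit 1) (nat_lit 132) (nat_lit 1) (nat_lit 363) (nat_lit 383) (nat_lit 274))) (XT.nd (nat_lit 78) (nat_lit 304) (nat_lit 0) (XT.lf (nat_lit 76) (nat_lit 938630394) (nat_lit 0)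 (nat_lit 2056281320) (nat_lit 228) (nat_lit 938630394) (nat_lit 131) (nat_lit 1) (nat_lit 130) (nat_lit 1) (nat_lit 133) (nat_lit 1) (nat_lit 364) (nat_lit 383) (nat_lit 273)) (XT.nd (nat_lit 78) (nat_lit 228) (nat_lit 0) (XT.lf (nat_lit 152) (nat_lit 649140508) (nat_lit 0) (nat_lit 1622209999) (nat_lit 76) (nat_lit 1622209999) (nat_lit 131) (nat_lit 1) (nat_lit 129) (nat_lit 1) (nat_lit 130) (nat_lit 1) (nat_lit 365) (nat_lit 383) (nat_lit 272)) (XT.lf (nat_lit 228) (nat_lit 3309989790) (nat_lit 0) (nat_lit 272123910) (nat_lit 152) (nat_lit 272123910) (nat_lit 129) (nat_lit 1) (nat_lit 126) (nat_lit 1) (nat_lit 128) (nat_lit 1) (nat_lit 366) (nat_lit 383) (nat_lit 271))))) (XT.nd (nat_lit 156) (nat_lit 304) (nat_lit 0) (XT.nd (nat_lit 78) (nat_lit 76) (nat_lit 0) (XT.lf (nat_lit 76) (nat_lit 1046263490) (nat_lit 0) (nat_lit 1722396787) (nat_lit 228) (nat_lit 1046263490) (nat_lit 127) (nat_lit 1) (nat_lit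 126) (nat_lit 1) (nat_lit 129) (nat_lit 1) (nat_lit 367) (nat_lit 383) (nat_lit 270)) (XT.lf (nat_lit 152) (nat_lit 893638008) (nat_lit 0) (nat_lit 1441312573) (nat_lit 76) (nat_lit 1441312573) (nat_lit 127) (nat_lit 1) (nat_lit 125) (nat_lit 1) (nat_lit 126) (nat_lit 1) (nat_lit 368) (nat_lit 383) (nat_lit 269))) (XT.nd (nat_lit 78) (nat_lit 76) (nat_lit 0) (XT.lf (nat_lit 228) (nat_lit 3461866329) (nat_lit 0) (nat_lit 138221356) (nat_lit 152) (nat_lit 138221356) (nat_lit 125) (nat_lit 1) (nat_lit 122) (nat_lit 1) (nat_lit 124) (nat_lit 1) (nat_lit 369) (nat_lit 383) (nat_lit 268)) (XT.nd (nat_lit 78) (nat_lit 76) (nat_lit 0) (XT.lf (nat_lit 76) (nat_lit 1135710531) (nat_lit 0) (nat_lit 1428790797) (nat_lit 228) (nat_lit 1135710531) (nat_lit 123) (nat_lit 1) (nat_lit 122) (nat_lit 1) (nat_lit 125) (nat_lit 1) (nat_lit 370) (nat_lit 383) (nat_lit 267)) (XT.lf (nat_lit 152) (nat_lit 1101641207) (nat_lit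 0) (nat_lit 1280587553) (nat_lit 76) (nat_lit 1280587553) (nat_lit 123) (nat_lit 1) (nat_lit 121) (nat_lit 1) (nat_lit 122) (nat_lit 1) (nat_lit 371) (nat_lit 383) (nat_lit 266))))))) (XT.nd (nat_lit 702) (nat_lit 684) (nat_lit 0) (XT.nd (nat_lit 312) (nat_lit 456) (nat_lit 0) (XT.nd (nat_lit 156) (nat_lit 76) (nat_lit 0) (XT.nd (nat_lit 78) (nat_lit 0) (nat_lit 0) (XT.lf (nat_lit 228) (nat_lit 3581632397) (nat_lit 0) (nat_lit 22266900) (nat_lit 152) (nat_lit 22266900) (nat_lit 121) (nat_lit 1) (nat_lit 118) (nat_lit 1) (nat_lit 120) (nat_lit 1) (nat_lit 372) (nat_lit 383) (nat_lit 265)) (XT.lf (nat_lit 76) (nat_lit 1209179604) (nat_lit 0) (nat_lit 1170883050) (nat_lit 228) (nat_lit 1209179604) (nat_lit 119) (nat_lit 1) (nat_lit 118) (nat_lit 1) (nat_lit 121) (nat_lit 1) (nat_lit 373) (nat_lit 383) (nat_lit 264))) (XT.nd (nat_lit 78) (nat_lit 0) (nat_lit 0) (XT.lf (nat_lit 152) (nat_lit 1277488518)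 (nat_lit 0) (nat_lit 1137785455) (nat_lit 76) (nat_lit 1137785455) (nat_lit 119) (nat_lit 1) (nat_lit 117) (nat_lit 1) (nat_lit 118) (nat_lit 1) (nat_lit 374) (nat_lit 383) (nat_lit 263)) (XT.lf (nat_lit 0) (nat_lit 78599335) (nat_lit 0) (nat_lit 3360363396) (nat_lit 152) (nat_lit 78599335) (nat_lit 117) (nat_lit 3) (nat_lit 117) (nat_lit 1) (nat_lit 119) (nat_lit 1) (nat_lit 375) (nat_lit 383) (nat_lit 262)))) (XT.nd (nat_lit 156) (nat_lit 228) (nat_lit 0) (XT.nd (nat_lit 78) (nat_lit 76) (nat_lit 0) (XT.lf (nat_lit 76) (nat_lit 1268627317) (nat_lit 0) (nat_lit 944606592) (nat_lit 152) (nat_lit 1268627317) (nat_lit 116) (nat_lit 1) (nat_lit 115) (nat_lit 1) (nat_lit 117) (nat_lit 1) (nat_lit 376) (nat_lit 383) (nat_lit 261)) (XT.lf (nat_lit 152) (nat_lit 1425026734) (nat_lit 0) (nat_lit 1010907640) (nat_lit 76) (nat_lit 1010907640) (nat_lit 116) (nat_lit 1) (nat_lit 114) (nat_lit 1) (nat_lit 115) (nat_lit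 1) (nat_lit 377) (nat_lit 383) (nat_lit 260))) (XT.nd (nat_lit 78) (nat_lit 228) (nat_lit 0) (XT.lf (nat_lit 0) (nat_lit 165542323) (nat_lit 0) (nat_lit 3081347186) (nat_lit 152) (nat_lit 165542323) (nat_lit 114) (nat_lit 3) (nat_lit 114) (nat_lit 1) (nat_lit 116) (nat_lit 1) (nat_lit 378) (nat_lit 383) (nat_lit 259)) (XT.nd (nat_lit 78) (nat_lit 76) (nat_lit 0) (XT.lf (nat_lit 76) (nat_lit 1315786998) (nat_lit 0) (nat_lit 746350497) (nat_lit 152) (nat_lit 1315786998) (nat_lit 113) (nat_lit 1) (nat_lit 112) (nat_lit 1) (nat_lit 114) (nat_lit 1) (nat_lit 379) (nat_lit 383) (nat_lit 258)) (XT.lf (nat_lit 152) (nat_lit 1547666080) (nat_lit 0) (nat_lit 898178344) (nat_lit 76) (nat_lit 898178344) (nat_lit 113) (nat_lit 1) (nat_lit 111) (nat_lit 1) (nat_lit 112) (nat_lit 1) (nat_lit 380) (nat_lit 383) (nat_lit 257)))))) (XT.nd (nat_lit 390) (nat_lit 304) (nat_lit 0) (XT.nd (nat_lit 156) (nat_lit 228) (nat_lit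 0) (XT.nd (nat_lit 78) (nat_lit 152) (nat_lit 0) (XT.lf (nat_lit 0) (nat_lit 240002436) (nat_lit 0) (nat_lit 2830657290) (nat_lit 152) (nat_lit 240002436) (nat_lit 111) (nat_lit 3) (nat_lit 111) (nat_lit 1) (nat_lit 113) (nat_lit 1) (nat_lit 381) (nat_lit 383) (nat_lit 256)) (XT.lf (nat_lit 76) (nat_lit 1352193742) (nat_lit 0) (nat_lit 572908938) (nat_lit 152) (nat_lit 1352193742) (nat_lit 110) (nat_lit 1) (nat_lit 109) (nat_lit 1) (nat_lit 111) (nat_lit 1) (nat_lit 382) (nat_lit 383) (nat_lit 255))) (XT.nd (nat_lit 78) (nat_lit 152) (nat_lit 0) (XT.lf (nat_lit 152) (nat_lit 1648429115) (nat_lit 0) (nat_lit 798019826) (nat_lit 76) (nat_lit 798019826) (nat_lit 110) (nat_lit 1) (nat_lit 108) (nat_lit 1) (nat_lit 109) (nat_lit 1) (nat_lit 383) (nat_lit 383) (nat_lit 254)) (XT.nd (nat_lit 78) (nat_lit 152) (nat_lit 0) (XT.lf (nat_lit 0) (nat_lit 303452867) (nat_lit 0) (nat_lit 2605216151) (nat_lit 152)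 (nat_lit 303452867) (nat_lit 108) (nat_lit 3) (nat_lit 108) (nat_lit 1) (nat_lit 110) (nat_lit 1) (nat_lit 384) (nat_lit 383) (nat_lit 253)) (XT.lf (nat_lit 76) (nat_lit 1379206662) (nat_lit 0) (nat_lit 421435946) (nat_lit 152) (nat_lit 1379206662) (nat_lit 107) (nat_lit 1) (nat_lit 106) (nat_lit 1) (nat_lit 108) (nat_lit 1) (nat_lit 385) (nat_lit 383) (nat_lit 252))))) (XT.nd (nat_lit 156) (nat_lit 228) (nat_lit 0) (XT.nd (nat_lit 78) (nat_lit 0) (nat_lit 0) (XT.lf (nat_lit 152) (nat_lit 1729994179) (nat_lit 0) (nat_lit 709030279) (nat_lit 76) (nat_lit 709030279) (nat_lit 107) (nat_lit 1) (nat_lit 105) (nat_lit 1) (nat_lit 106) (nat_lit 1) (nat_lit 386) (nat_lit 383) (nat_lit 251)) (XT.lf (nat_lit 0) (nat_lit 357200166) (nat_lit 0) (nat_lit 2402287032) (nat_lit 152) (nat_lit 357200166) (nat_lit 105) (nat_lit 3) (nat_lit 105) (nat_lit 1) (nat_lit 107) (nat_lit 1) (nat_lit 387) (nat_lit 383) (nat_lit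 250))) (XT.nd (nat_lit 78) (nat_lit 76) (nat_lit 0) (XT.lf (nat_lit 76) (nat_lit 1398028650) (nat_lit 0) (nat_lit 289405210) (nat_lit 152) (nat_lit 1398028650) (nat_lit 104) (nat_lit 1) (nat_lit 103) (nat_lit 1) (nat_lit 105) (nat_lit 1) (nat_lit 388) (nat_lit 383) (nat_lit 249)) (XT.nd (nat_lit 78) (nat_lit 0) (nat_lit 0) (XT.lf (nat_lit 152) (nat_lit 1794733984) (nat_lit 0) (nat_lit 629964219) (nat_lit 76) (nat_lit 629964219) (nat_lit 104) (nat_lit 1) (nat_lit 102) (nat_lit 1) (nat_lit 103) (nat_lit 1) (nat_lit 389) (nat_lit 383) (nat_lit 248)) (XT.lf (nat_lit 0) (nat_lit 402402891) (nat_lit 0) (nat_lit 2219436082) (nat_lit 152) (nat_lit 402402891) (nat_lit 102) (nat_lit 3) (nat_lit 102) (nat_lit 1) (nat_lit 104) (nat_lit 1) (nat_lit 390) (nat_lit 383) (nat_lit 247))))))))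
noncomputable def ec219 : XT := (XT.nd (nat_lit 1482) (nat_lit 1520) (nat_lit 0) (XT.nd (nat_lit 702) (nat_lit 760) (nat_lit 0) (XT.nd (nat_lit 312) (nat_lit 304) (nat_lit 0) (XT.nd (nat_lit 156) (nat_lit 152) (nat_lit 0) (XT.nd (nat_lit 78) (nat_lit 76) (nat_lit 0) (XT.lf (nat_lit 76) (nat_lit 1409723934) (nat_lit 0) (nat_lit 174574364) (nat_lit 152) (nat_lit 1409723934) (nat_lit 101) (nat_lit 1) (nat_lit 100) (nat_lit 1) (nat_lit 102) (nat_lit 1) (nat_lit 391) (nat_lit 383) (nat_lit 246)) (XT.lf (nat_lit 152) (nat_lit 1844749903) (nat_lit 0) (nat_lit 559715050) (nat_lit 76) (nat_lit 559715050) (nat_lit 101) (nat_lit 1) (nat_lit 99) (nat_lit 1) (nat_lit 100) (nat_lit 1) (nat_lit 392) (nat_lit 383) (nat_lit 245))) (XT.nd (nat_lit 78) (nat_lit 152) (nat_lit 0) (XT.lf (nat_lit 0) (nat_lit 440088173) (nat_lit 0) (nat_lit 2054498630) (nat_lit 152) (nat_lit 440088173) (nat_lit 99) (nat_lit 3) (nat_lit 99)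 (nat_lit 1) (nat_lit 101) (nat_lit 1) (nat_lit 393) (nat_lit 383) (nat_lit 244)) (XT.lf (nat_lit 76) (nat_lit 1415233677) (nat_lit 0) (nat_lit 74953258) (nat_lit 152) (nat_lit 1415233677) (nat_lit 98) (nat_lit 1) (nat_lit 97) (nat_lit 1) (nat_lit 99) (nat_lit 1) (nat_lit 394) (nat_lit 383) (nat_lit 243)))) (XT.nd (nat_lit 156) (nat_lit 228) (nat_lit 0) (XT.nd (nat_lit 78) (nat_lit 0) (nat_lit 0) (XT.lf (nat_lit 152) (nat_lit 1881902418) (nat_lit 0) (nat_lit 497299572) (nat_lit 76) (nat_lit 497299572) (nat_lit 98) (nat_lit 1) (nat_lit 96) (nat_lit 1) (nat_lit 97) (nat_lit 1) (nat_lit 395) (nat_lit 383) (nat_lit 242)) (XT.lf (nat_lit 0) (nat_lit 471166445) (nat_lit 0) (nat_lit 1905549225) (nat_lit 152) (nat_lit 471166445) (nat_lit 96) (nat_lit 3) (nat_lit 96) (nat_lit 1) (nat_lit 98) (nat_lit 1) (nat_lit 396) (nat_lit 383) (nat_lit 241))) (XT.nd (nat_lit 78) (nat_lit 152) (nat_lit 0) (XT.lf (nat_lit 76)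 (nat_lit 11447610) (nat_lit 0) (nat_lit 1404052251) (nat_lit 76) (nat_lit 1404052251) (nat_lit 96) (nat_lit 3) (nat_lit 95) (nat_lit 1) (nat_lit 96) (nat_lit 1) (nat_lit 397) (nat_lit 383) (nat_lit 240)) (XT.nd (nat_lit 78) (nat_lit 0) (nat_lit 0) (XT.lf (nat_lit 152) (nat_lit 1907838179) (nat_lit 0) (nat_lit 441844229) (nat_lit 76) (nat_lit 441844229) (nat_lit 95) (nat_lit 1) (nat_lit 93) (nat_lit 1) (nat_lit 94) (nat_lit 1) (nat_lit 398) (nat_lit 383) (nat_lit 239)) (XT.lf (nat_lit 0) (nat_lit 496444510) (nat_lit 0) (nat_lit 1770875032) (nat_lit 152) (nat_lit 496444510) (nat_lit 93) (nat_lit 3) (nat_lit 93) (nat_lit 1) (nat_lit 95) (nat_lit 1) (nat_lit 399) (nat_lit 383) (nat_lit 238)))))) (XT.nd (nat_lit 390) (nat_lit 304) (nat_lit 0) (XT.nd (nat_lit 156) (nat_lit 228) (nat_lit 0) (XT.nd (nat_lit 78) (nat_lit 152) (nat_lit 0) (XT.lf (nat_lit 76) (nat_lit 87227346) (nat_lit 0) (nat_lit 1324538532)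 (nat_lit 76) (nat_lit 1324538532) (nat_lit 93) (nat_lit 3) (nat_lit 92) (nat_lit 1) (nat_lit 93) (nat_lit 1) (nat_lit 400) (nat_lit 383) (nat_lit 237)) (XT.lf (nat_lit 152) (nat_lit 1924014031) (nat_lit 0) (nat_lit 392572874) (nat_lit 76) (nat_lit 392572874) (nat_lit 92) (nat_lit 1) (nat_lit 90) (nat_lit 1) (nat_lit 91) (nat_lit 1) (nat_lit 401) (nat_lit 383) (nat_lit 236))) (XT.nd (nat_lit 78) (nat_lit 228) (nat_lit 0) (XT.lf (nat_lit 0) (nat_lit 516637164) (nat_lit 0) (nat_lit 1648952176) (nat_lit 152) (nat_lit 516637164) (nat_lit 90) (nat_lit 3) (nat_lit 90) (nat_lit 1) (nat_lit 92) (nat_lit 1) (nat_lit 402) (nat_lit 383) (nat_lit 235)) (XT.nd (nat_lit 78) (nat_lit 152) (nat_lit 0) (XT.lf (nat_lit 76) (nat_lit 152312301) (nat_lit 0) (nat_lit 1251647265) (nat_lit 76) (nat_lit 1251647265) (nat_lit 90) (nat_lit 3) (nat_lit 89) (nat_lit 1) (nat_lit 90) (nat_lit 1) (nat_lit 403) (nat_lit 383) (nat_lit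 234)) (XT.lf (nat_lit 152) (nat_lit 1931718362) (nat_lit 0) (nat_lit 348795914) (nat_lit 76) (nat_lit 348795914) (nat_lit 89) (nat_lit 1) (nat_lit 87) (nat_lit 1) (nat_lit 88) (nat_lit 1) (nat_lit 404) (nat_lit 383) (nat_lit 233))))) (XT.nd (nat_lit 156) (nat_lit 228) (nat_lit 0) (XT.nd (nat_lit 78) (nat_lit 76) (nat_lit 0) (XT.lf (nat_lit 0) (nat_lit 532377513) (nat_lit 0) (nat_lit 1538424735) (nat_lit 152) (nat_lit 532377513) (nat_lit 87) (nat_lit 3) (nat_lit 87) (nat_lit 1) (nat_lit 89) (nat_lit 1) (nat_lit 405) (nat_lit 383) (nat_lit 232)) (XT.lf (nat_lit 76) (nat_lit 207960453) (nat_lit 0) (nat_lit 1184705330) (nat_lit 76) (nat_lit 1184705330) (nat_lit 87) (nat_lit 3) (nat_lit 86) (nat_lit 1) (nat_lit 87) (nat_lit 1) (nat_lit 406) (nat_lit 383) (nat_lit 231))) (XT.nd (nat_lit 78) (nat_lit 76) (nat_lit 0) (XT.lf (nat_lit 152) (nat_lit 1932090061) (nat_lit 0) (nat_lit 309900652) (nat_lit 76) (nat_lit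 309900652) (nat_lit 86) (nat_lit 1) (nat_lit 84) (nat_lit 1) (nat_lit 85) (nat_lit 1) (nat_lit 407) (nat_lit 383) (nat_lit 230)) (XT.nd (nat_lit 78) (nat_lit 76) (nat_lit 0) (XT.lf (nat_lit 0) (nat_lit 544226140) (nat_lit 0) (nat_lit 1438086067) (nat_lit 152) (nat_lit 544226140) (nat_lit 84) (nat_lit 3) (nat_lit 84) (nat_lit 1) (nat_lit 86) (nat_lit 1) (nat_lit 408) (nat_lit 383) (nat_lit 229)) (XT.lf (nat_lit 76) (nat_lit 255287592) (nat_lit 0) (nat_lit 1123112764) (nat_lit 76) (nat_lit 1123112764) (nat_lit 84) (nat_lit 3) (nat_lit 83) (nat_lit 1) (nat_lit 84) (nat_lit 1) (nat_lit 409) (nat_lit 383) (nat_lit 228))))))) (XT.nd (nat_lit 702) (nat_lit 836) (nat_lit 0) (XT.nd (nat_lit 312) (nat_lit 304) (nat_lit 0) (XT.nd (nat_lit 156) (nat_lit 228) (nat_lit 0) (XT.nd (nat_lit 78) (nat_lit 0) (nat_lit 0) (XT.lf (nat_lit 152) (nat_lit 1926135359) (nat_lit 0) (nat_lit 275342715) (nat_lit 76) (nat_lit 275342715)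 (nat_lit 83) (nat_lit 1) (nat_lit 81) (nat_lit 1) (nat_lit 82) (nat_lit 1) (nat_lit 410) (nat_lit 383) (nat_lit 227)) (XT.lf (nat_lit 0) (nat_lit 552679251) (nat_lit 0) (nat_lit 1346862219) (nat_lit 152) (nat_lit 552679251) (nat_lit 81) (nat_lit 3) (nat_lit 81) (nat_lit 1) (nat_lit 83) (nat_lit 1) (nat_lit 411) (nat_lit 383) (nat_lit 226))) (XT.nd (nat_lit 78) (nat_lit 152) (nat_lit 0) (XT.lf (nat_lit 76) (nat_lit 295283237) (nat_lit 0) (nat_lit 1066334662) (nat_lit 76) (nat_lit 1066334662) (nat_lit 81) (nat_lit 3) (nat_lit 80) (nat_lit 1) (nat_lit 81) (nat_lit 1) (nat_lit 412) (nat_lit 383) (nat_lit 225)) (XT.lf (nat_lit 152) (nat_lit 1914742790) (nat_lit 0) (nat_lit 244638436) (nat_lit 76) (nat_lit 244638436) (nat_lit 80) (nat_lit 1) (nat_lit 78) (nat_lit 1) (nat_lit 79) (nat_lit 1) (nat_lit 413) (nat_lit 383) (nat_lit 224)))) (XT.nd (nat_lit 156) (nat_lit 228) (nat_lit 0) (XT.nd (nat_lit 78) (nat_lit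 76) (nat_lit 0) (XT.lf (nat_lit 0) (nat_lit 558175904) (nat_lit 0) (nat_lit 1263797185) (nat_lit 152) (nat_lit 558175904) (nat_lit 78) (nat_lit 3) (nat_lit 78) (nat_lit 1) (nat_lit 80) (nat_lit 1) (nat_lit 414) (nat_lit 383) (nat_lit 223)) (XT.lf (nat_lit 76) (nat_lit 328824767) (nat_lit 0) (nat_lit 1013893971) (nat_lit 76) (nat_lit 1013893971) (nat_lit 78) (nat_lit 3) (nat_lit 77) (nat_lit 1) (nat_lit 78) (nat_lit 1) (nat_lit 415) (nat_lit 383) (nat_lit 222))) (XT.nd (nat_lit 78) (nat_lit 76) (nat_lit 0) (XT.lf (nat_lit 152) (nat_lit 1898696470) (nat_lit 0) (nat_lit 217358082) (nat_lit 76) (nat_lit 217358082) (nat_lit 77) (nat_lit 1) (nat_lit 75) (nat_lit 1) (nat_lit 76) (nat_lit 1) (nat_lit 416) (nat_lit 383) (nat_lit 221)) (XT.nd (nat_lit 78) (nat_lit 76) (nat_lit 0) (XT.lf (nat_lit 0) (nat_lit 561104438) (nat_lit 0) (nat_lit 1188039807) (nat_lit 152) (nat_lit 561104438) (nat_lit 75) (nat_lit 3)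 (nat_lit 75) (nat_lit 1) (nat_lit 77) (nat_lit 1) (nat_lit 417) (nat_lit 383) (nat_lit 220)) (XT.lf (nat_lit 76) (nat_lit 356689978) (nat_lit 0) (nat_lit 965365093) (nat_lit 76) (nat_lit 965365093) (nat_lit 75) (nat_lit 3) (nat_lit 74) (nat_lit 1) (nat_lit 75) (nat_lit 1) (nat_lit 418) (nat_lit 383) (nat_lit 219)))))) (XT.nd (nat_lit 390) (nat_lit 456) (nat_lit 0) (XT.nd (nat_lit 156) (nat_lit 228) (nat_lit 0) (XT.nd (nat_lit 78) (nat_lit 0) (nat_lit 0) (XT.lf (nat_lit 152) (nat_lit 1878687903) (nat_lit 0) (nat_lit 193119841) (nat_lit 76) (nat_lit 193119841) (nat_lit 74) (nat_lit 1) (nat_lit 72) (nat_lit 1) (nat_lit 73) (nat_lit 1) (nat_lit 419) (nat_lit 383) (nat_lit 218)) (XT.lf (nat_lit 0) (nat_lit 561808178) (nat_lit 0) (nat_lit 1118832133) (nat_lit 152) (nat_lit 561808178) (nat_lit 72) (nat_lit 3) (nat_lit 72) (nat_lit 1) (nat_lit 74) (nat_lit 1) (nat_lit 420) (nat_lit 383) (nat_lit 217))) (XT.nd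 (nat_lit 78) (nat_lit 152) (nat_lit 0) (XT.lf (nat_lit 76) (nat_lit 379568243) (nat_lit 0) (nat_lit 920368199) (nat_lit 76) (nat_lit 920368199) (nat_lit 72) (nat_lit 3) (nat_lit 71) (nat_lit 1) (nat_lit 72) (nat_lit 1) (nat_lit 421) (nat_lit 383) (nat_lit 216)) (XT.nd (nat_lit 78) (nat_lit 0) (nat_lit 0) (XT.lf (nat_lit 152) (nat_lit 1855326452) (nat_lit 0) (nat_lit 171584477) (nat_lit 76) (nat_lit 171584477) (nat_lit 71) (nat_lit 1) (nat_lit 69) (nat_lit 1) (nat_lit 70) (nat_lit 1) (nat_lit 422) (nat_lit 383) (nat_lit 215)) (XT.lf (nat_lit 0) (nat_lit 560590505) (nat_lit 0) (nat_lit 1055499074) (nat_lit 152) (nat_lit 560590505) (nat_lit 69) (nat_lit 3) (nat_lit 69) (nat_lit 1) (nat_lit 71) (nat_lit 1) (nat_lit 423) (nat_lit 383) (nat_lit 214))))) (XT.nd (nat_lit 156) (nat_lit 228) (nat_lit 0) (XT.nd (nat_lit 78) (nat_lit 152) (nat_lit 0) (XT.lf (nat_lit 76) (nat_lit 398070416) (nat_lit 0) (nat_lit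 878564173) (nat_lit 76) (nat_lit 878564173) (nat_lit 69) (nat_lit 3) (nat_lit 68) (nat_lit 1) (nat_lit 69) (nat_lit 1) (nat_lit 424) (nat_lit 383) (nat_lit 213)) (XT.lf (nat_lit 152) (nat_lit 1829148652) (nat_lit 0) (nat_lit 152450585) (nat_lit 76) (nat_lit 152450585) (nat_lit 68) (nat_lit 1) (nat_lit 66) (nat_lit 1) (nat_lit 67) (nat_lit 1) (nat_lit 425) (nat_lit 383) (nat_lit 212))) (XT.nd (nat_lit 78) (nat_lit 228) (nat_lit 0) (XT.lf (nat_lit 0) (nat_lit 557719360) (nat_lit 0) (nat_lit 997439214) (nat_lit 152) (nat_lit 557719360) (nat_lit 66) (nat_lit 3) (nat_lit 66) (nat_lit 1) (nat_lit 68) (nat_lit 1) (nat_lit 426) (nat_lit 383) (nat_lit 211)) (XT.nd (nat_lit 78) (nat_lit 152) (nat_lit 0) (XT.lf (nat_lit 76) (nat_lit 412737641) (nat_lit 0) (nat_lit 839650120) (nat_lit 76) (nat_lit 839650120) (nat_lit 66) (nat_lit 3) (nat_lit 65) (nat_lit 1) (nat_lit 66) (nat_lit 1) (nat_lit 427) (nat_lit 383) (nat_lit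 210)) (XT.lf (nat_lit 152) (nat_lit 1800626468) (nat_lit 0) (nat_lit 135450370) (nat_lit 76) (nat_lit 135450370) (nat_lit 65) (nat_lit 1) (nat_lit 63) (nat_lit 1) (nat_lit 64) (nat_lit 1) (nat_lit 428) (nat_lit 383) (nat_lit 209))))))))
noncomputable def ec220 : XT := (XT.nd (nat_lit 40560) (nat_lit 0) (nat_lit 17328) (XT.nd (nat_lit 39780) (nat_lit 0) (nat_lit 23028) (XT.nd (nat_lit 39390) (nat_lit 0) (nat_lit 23864) (XT.nd (nat_lit 156) (nat_lit 152) (nat_lit 0) (XT.nd (nat_lit 78) (nat_lit 76) (nat_lit 0) (XT.lf (nat_lit 0) (nat_lit 553431240) (nat_lit 0) (nat_lit 944116635) (nat_lit 152) (nat_lit 553431240) (nat_lit 63) (nat_lit 3) (nat_lit 63) (nat_lit 1) (nat_lit 65) (nat_lit 1) (nat_lit 429) (nat_lit 383) (nat_lit 208)) (XT.lf (nat_lit 76) (nat_lit 424049167) (nat_lit 0) (nat_lit 803355375) (nat_lit 76) (nat_lit 803355375) (nat_lit 63) (nat_lit 3) (nat_lit 62) (nat_lit 1) (nat_lit 63) (nat_lit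 1) (nat_lit 430) (nat_lit 383) (nat_lit 207))) (XT.nd (nat_lit 39156) (nat_lit 0) (nat_lit 23864) (XT.lf (nat_lit 152) (nat_lit 1770174637) (nat_lit 0) (nat_lit 120345900) (nat_lit 76) (nat_lit 120345900) (nat_lit 62) (nat_lit 1) (nat_lit 60) (nat_lit 1) (nat_lit 61) (nat_lit 1) (nat_lit 431) (nat_lit 383) (nat_lit 206)) (XT.lf (nat_lit 1292) (nat_lit 1369312473) (nat_lit 0) (nat_lit 4711071734) (nat_lit 1292) (nat_lit 1369312473) (nat_lit 391) (nat_lit 1) (nat_lit 374) (nat_lit 0) (nat_lit 391) (nat_lit 0) (nat_lit 252) (nat_lit 384) (nat_lit 384)))) (XT.nd (nat_lit 156) (nat_lit 0) (nat_lit 76) (XT.nd (nat_lit 78) (nat_lit 0) (nat_lit 76) (XT.lf (nat_lit 1292) (nat_lit 5351297142) (nat_lit 76) (nat_lit 4664884756) (nat_lit 0) (nat_lit 4664884756) (nat_lit 391) (nat_lit 1) (nat_lit 375) (nat_lit 1) (nat_lit 374) (nat_lit 0) (nat_lit 253) (nat_lit 384) (nat_lit 383)) (XT.lf (nat_lit 1292) (nat_lit 2588014888)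 (nat_lit 0) (nat_lit 9291526003) (nat_lit 1216) (nat_lit 2588014888) (nat_lit 392) (nat_lit 1) (nat_lit 375) (nat_lit 1) (nat_lit 391) (nat_lit 1) (nat_lit 254) (nat_lit 384) (nat_lit 382))) (XT.nd (nat_lit 78) (nat_lit 0) (nat_lit 76) (XT.lf (nat_lit 1292) (nat_lit 4914773892) (nat_lit 76) (nat_lit 4671418284) (nat_lit 0) (nat_lit 4671418284) (nat_lit 392) (nat_lit 1) (nat_lit 376) (nat_lit 1) (nat_lit 375) (nat_lit 1) (nat_lit 255) (nat_lit 384) (nat_lit 381)) (XT.nd (nat_lit 78) (nat_lit 0) (nat_lit 0) (XT.lf (nat_lit 1292) (nat_lit 2306233137) (nat_lit 0) (nat_lit 9439896464) (nat_lit 1216) (nat_lit 2306233137) (nat_lit 393) (nat_lit 1) (nat_lit 376) (nat_lit 1) (nat_lit 392) (nat_lit 1) (nat_lit 256) (nat_lit 384) (nat_lit 380)) (XT.lf (nat_lit 1292) (nat_lit 4226415730) (nat_lit 76) (nat_lit 4811990902) (nat_lit 0) (nat_lit 4811990902) (nat_lit 393) (nat_lit 1) (nat_lit 377) (nat_lit 1) (nat_lit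 376) (nat_lit 1) (nat_lit 257) (nat_lit 384) (nat_lit 379)))))) (XT.nd (nat_lit 390) (nat_lit 1064) (nat_lit 0) (XT.nd (nat_lit 156) (nat_lit 0) (nat_lit 76) (XT.nd (nat_lit 78) (nat_lit 0) (nat_lit 0) (XT.lf (nat_lit 1292) (nat_lit 1904881838) (nat_lit 0) (nat_lit 9843332329) (nat_lit 1216) (nat_lit 1904881838) (nat_lit 394) (nat_lit 1) (nat_lit 377) (nat_lit 1) (nat_lit 393) (nat_lit 1) (nat_lit 258) (nat_lit 384) (nat_lit 378)) (XT.lf (nat_lit 1292) (nat_lit 3308743860) (nat_lit 76) (nat_lit 5074993243) (nat_lit 0) (nat_lit 5074993243) (nat_lit 394) (nat_lit 1) (nat_lit 378) (nat_lit 1) (nat_lit 377) (nat_lit 1) (nat_lit 259) (nat_lit 384) (nat_lit 377))) (XT.nd (nat_lit 78) (nat_lit 0) (nat_lit 0) (XT.lf (nat_lit 1292) (nat_lit 1394778507) (nat_lit 0) (nat_lit 10479514640) (nat_lit 1216) (nat_lit 1394778507) (nat_lit 395) (nat_lit 1) (nat_lit 378) (nat_lit 1) (nat_lit 394) (nat_lit 1) (nat_lit 260)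 (nat_lit 384) (nat_lit 376)) (XT.nd (nat_lit 78) (nat_lit 0) (nat_lit 76) (XT.lf (nat_lit 1292) (nat_lit 2182751775) (nat_lit 76) (nat_lit 5449596394) (nat_lit 0) (nat_lit 5449596394) (nat_lit 395) (nat_lit 1) (nat_lit 379) (nat_lit 1) (nat_lit 378) (nat_lit 1) (nat_lit 261) (nat_lit 384) (nat_lit 375)) (XT.lf (nat_lit 1292) (nat_lit 786004535) (nat_lit 0) (nat_lit 11327629248) (nat_lit 1216) (nat_lit 786004535) (nat_lit 396) (nat_lit 1) (nat_lit 379) (nat_lit 1) (nat_lit 395) (nat_lit 1) (nat_lit 262) (nat_lit 384) (nat_lit 374))))) (XT.nd (nat_lit 156) (nat_lit 1216) (nat_lit 0) (XT.nd (nat_lit 78) (nat_lit 0) (nat_lit 76) (XT.lf (nat_lit 1292) (nat_lit 867999802) (nat_lit 76) (nat_lit 5925703773) (nat_lit 0) (nat_lit 5925703773) (nat_lit 396) (nat_lit 1) (nat_lit 380) (nat_lit 1) (nat_lit 379) (nat_lit 1) (nat_lit 263) (nat_lit 384) (nat_lit 373)) (XT.lf (nat_lit 1292) (nat_lit 87950799) (nat_lit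 0) (nat_lit 12368273911) (nat_lit 1216) (nat_lit 87950799) (nat_lit 397) (nat_lit 1) (nat_lit 380) (nat_lit 1) (nat_lit 396) (nat_lit 1) (nat_lit 264) (nat_lit 384) (nat_lit 372))) (XT.nd (nat_lit 78) (nat_lit 0) (nat_lit 0) (XT.lf (nat_lit 1368) (nat_lit 5882543700) (nat_lit 0) (nat_lit 605250322) (nat_lit 1292) (nat_lit 5882543700) (nat_lit 381) (nat_lit 1) (nat_lit 363) (nat_lit 1) (nat_lit 380) (nat_lit 1) (nat_lit 265) (nat_lit 384) (nat_lit 371)) (XT.nd (nat_lit 78) (nat_lit 0) (nat_lit 76) (XT.lf (nat_lit 1368) (nat_lit 10833554402) (nat_lit 76) (nat_lit 683868473) (nat_lit 0) (nat_lit 683868473) (nat_lit 381) (nat_lit 1) (nat_lit 364) (nat_lit 1) (nat_lit 363) (nat_lit 1) (nat_lit 266) (nat_lit 384) (nat_lit 370)) (XT.lf (nat_lit 1368) (nat_lit 4910945258) (nat_lit 0) (nat_lit 2212153975) (nat_lit 1292) (nat_lit 4910945258) (nat_lit 382) (nat_lit 1) (nat_lit 364) (nat_lit 1) (nat_lit 381) (nat_lit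 1) (nat_lit 267) (nat_lit 384) (nat_lit 369))))))) (XT.nd (nat_lit 702) (nat_lit 3192) (nat_lit 0) (XT.nd (nat_lit 312) (nat_lit 1824) (nat_lit 0) (XT.nd (nat_lit 156) (nat_lit 760) (nat_lit 0) (XT.nd (nat_lit 78) (nat_lit 0) (nat_lit 76) (XT.lf (nat_lit 1368) (nat_lit 8818004785) (nat_lit 76) (nat_lit 1526516216) (nat_lit 0) (nat_lit 1526516216) (nat_lit 382) (nat_lit 1) (nat_lit 365) (nat_lit 1) (nat_lit 364) (nat_lit 1) (nat_lit 268) (nat_lit 384) (nat_lit 368)) (XT.lf (nat_lit 76) (nat_lit 3878025733) (nat_lit 0) (nat_lit 3954183343) (nat_lit 1292) (nat_lit 3878025733) (nat_lit 366) (nat_lit 1) (nat_lit 365) (nat_lit 1) (nat_lit 382) (nat_lit 1) (nat_lit 269) (nat_lit 384) (nat_lit 367))) (XT.nd (nat_lit 78) (nat_lit 0) (nat_lit 0) (XT.lf (nat_lit 912) (nat_lit 6686262323) (nat_lit 0) (nat_lit 2433362260) (nat_lit 836) (nat_lit 2433362260) (nat_lit 366) (nat_lit 1) (nat_lit 354) (nat_lit 1) (nat_lit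 365) (nat_lit 1) (nat_lit 270) (nat_lit 384) (nat_lit 366)) (XT.lf (nat_lit 76) (nat_lit 2790715735) (nat_lit 0) (nat_lit 5816959272) (nat_lit 912) (nat_lit 2790715735) (nat_lit 355) (nat_lit 1) (nat_lit 354) (nat_lit 1) (nat_lit 366) (nat_lit 1) (nat_lit 271) (nat_lit 384) (nat_lit 365)))) (XT.nd (nat_lit 156) (nat_lit 1216) (nat_lit 0) (XT.nd (nat_lit 78) (nat_lit 0) (nat_lit 0) (XT.lf (nat_lit 684) (nat_lit 4451751144) (nat_lit 0) (nat_lit 3397442628) (nat_lit 608) (nat_lit 3397442628) (nat_lit 355) (nat_lit 1) (nat_lit 346) (nat_lit 1) (nat_lit 354) (nat_lit 1) (nat_lit 272) (nat_lit 384) (nat_lit 364)) (XT.lf (nat_lit 76) (nat_lit 1655448692) (nat_lit 0) (nat_lit 7787120917) (nat_lit 684) (nat_lit 1655448692) (nat_lit 347) (nat_lit 1) (nat_lit 346) (nat_lit 1) (nat_lit 355) (nat_lit 1) (nat_lit 273) (nat_lit 384) (nat_lit 363))) (XT.nd (nat_lit 78) (nat_lit 608) (nat_lit 0) (XT.lf (nat_lit 684)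 (nat_lit 2126928052) (nat_lit 0) (nat_lit 4412288605) (nat_lit 608) (nat_lit 4412288605) (nat_lit 347) (nat_lit 1) (nat_lit 338) (nat_lit 1) (nat_lit 346) (nat_lit 1) (nat_lit 274) (nat_lit 384) (nat_lit 362)) (XT.nd (nat_lit 78) (nat_lit 608) (nat_lit 0) (XT.lf (nat_lit 76) (nat_lit 478192285) (nat_lit 0) (nat_lit 9852261663) (nat_lit 684) (nat_lit 478192285) (nat_lit 339) (nat_lit 1) (nat_lit 338) (nat_lit 1) (nat_lit 347) (nat_lit 1) (nat_lit 275) (nat_lit 384) (nat_lit 361)) (XT.lf (nat_lit 76) (nat_lit 5197898694) (nat_lit 0) (nat_lit 271257653) (nat_lit 608) (nat_lit 5197898694) (nat_lit 331) (nat_lit 1) (nat_lit 330) (nat_lit 1) (nat_lit 338) (nat_lit 1) (nat_lit 276) (nat_lit 384) (nat_lit 360)))))) (XT.nd (nat_lit 390) (nat_lit 1520) (nat_lit 0) (XT.nd (nat_lit 156) (nat_lit 1064) (nat_lit 0) (XT.nd (nat_lit 78) (nat_lit 0) (nat_lit 0) (XT.lf (nat_lit 684) (nat_lit 9072350152) (nat_lit 0) (nat_lit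 728311007) (nat_lit 608) (nat_lit 728311007) (nat_lit 331) (nat_lit 1) (nat_lit 322) (nat_lit 1) (nat_lit 330) (nat_lit 1) (nat_lit 277) (nat_lit 384) (nat_lit 359)) (XT.lf (nat_lit 76) (nat_lit 3848812336) (nat_lit 0) (nat_lit 2694670182) (nat_lit 684) (nat_lit 3848812336) (nat_lit 323) (nat_lit 1) (nat_lit 322) (nat_lit 1) (nat_lit 331) (nat_lit 1) (nat_lit 278) (nat_lit 384) (nat_lit 358))) (XT.nd (nat_lit 78) (nat_lit 532) (nat_lit 0) (XT.lf (nat_lit 608) (nat_lit 6336521407) (nat_lit 0) (nat_lit 1961153781) (nat_lit 532) (nat_lit 1961153781) (nat_lit 323) (nat_lit 1) (nat_lit 315) (nat_lit 1) (nat_lit 322) (nat_lit 1) (nat_lit 279) (nat_lit 384) (nat_lit 357)) (XT.nd (nat_lit 78) (nat_lit 532) (nat_lit 0) (XT.lf (nat_lit 76) (nat_lit 2476162045) (nat_lit 0) (nat_lit 5175099034) (nat_lit 608) (nat_lit 2476162045) (nat_lit 316) (nat_lit 1) (nat_lit 315) (nat_lit 1) (nat_lit 323) (nat_lit 1) (nat_lit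 280) (nat_lit 384) (nat_lit 356)) (XT.lf (nat_lit 608) (nat_lit 3557706935) (nat_lit 0) (nat_lit 3220329972) (nat_lit 532) (nat_lit 3220329972) (nat_lit 316) (nat_lit 1) (nat_lit 308) (nat_lit 1) (nat_lit 315) (nat_lit 1) (nat_lit 281) (nat_lit 384) (nat_lit 355))))) (XT.nd (nat_lit 156) (nat_lit 1064) (nat_lit 0) (XT.nd (nat_lit 78) (nat_lit 456) (nat_lit 0) (XT.lf (nat_lit 76) (nat_lit 1084242437) (nat_lit 0) (nat_lit 7703558711) (nat_lit 608) (nat_lit 1084242437) (nat_lit 309) (nat_lit 1) (nat_lit 308) (nat_lit 1) (nat_lit 316) (nat_lit 1) (nat_lit 282) (nat_lit 384) (nat_lit 354)) (XT.lf (nat_lit 532) (nat_lit 744200509) (nat_lit 0) (nat_lit 4501499672) (nat_lit 456) (nat_lit 4501499672) (nat_lit 309) (nat_lit 1) (nat_lit 302) (nat_lit 1) (nat_lit 308) (nat_lit 1) (nat_lit 283) (nat_lit 384) (nat_lit 353))) (XT.nd (nat_lit 78) (nat_lit 456) (nat_lit 0) (XT.lf (nat_lit 608) (nat_lit 8985768142) (nat_lit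 0) (nat_lit 319817573) (nat_lit 532) (nat_lit 319817573) (nat_lit 302) (nat_lit 1) (nat_lit 294) (nat_lit 1) (nat_lit 301) (nat_lit 1) (nat_lit 284) (nat_lit 384) (nat_lit 352)) (XT.nd (nat_lit 78) (nat_lit 456) (nat_lit 0) (XT.lf (nat_lit 76) (nat_lit 3724455992) (nat_lit 0) (nat_lit 2055442550) (nat_lit 608) (nat_lit 3724455992) (nat_lit 295) (nat_lit 1) (nat_lit 294) (nat_lit 1) (nat_lit 302) (nat_lit 1) (nat_lit 285) (nat_lit 384) (nat_lit 351)) (XT.lf (nat_lit 532) (nat_lit 5936667229) (nat_lit 0) (nat_lit 1724788654) (nat_lit 456) (nat_lit 1724788654) (nat_lit 295) (nat_lit 1) (nat_lit 288) (nat_lit 1) (nat_lit 294) (nat_lit 1) (nat_lit 286) (nat_lit 384) (nat_lit 350))))))))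
noncomputable def ec221 : XT := (XT.nd (nat_lit 1482) (nat_lit 3420) (nat_lit 0) (XT.nd (nat_lit 702) (nat_lit 2204) (nat_lit 0) (XT.nd (nat_lit 312) (nat_lit 1216) (nat_lit 0) (XT.nd (nat_lit 156) (nat_lit 456) (nat_lit 0) (XT.nd (nat_lit 78) (nat_lit 456) (nat_lit 0) (XT.lf (nat_lit 76) (nat_lit 2204844777) (nat_lit 0) (nat_lit 4860173076) (nat_lit 532) (nat_lit 2204844777) (nat_lit 289) (nat_lit 1) (nat_lit 288) (nat_lit 1) (nat_lit 295) (nat_lit 1) (nat_lit 287) (nat_lit 384) (nat_lit 349)) (XT.lf (nat_lit 532) (nat_lit 2879538202) (nat_lit 0) (nat_lit 3137972229) (nat_lit 456) (nat_lit 3137972229) (nat_lit 289) (nat_lit 1) (nat_lit 282) (nat_lit 1) (nat_lit 288) (nat_lit 1) (nat_lit 288) (nat_lit 384) (nat_lit 348))) (XT.nd (nat_lit 78) (nat_lit 456) (nat_lit 0) (XT.lf (nat_lit 76) (nat_lit 682722042) (nat_lit 0) (nat_lit 7678159665) (nat_lit 532) (nat_lit 682722042) (nat_lit 283) (nat_lit 1) (nat_lit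 282) (nat_lit 1) (nat_lit 289) (nat_lit 1) (nat_lit 289) (nat_lit 384) (nat_lit 347)) (XT.lf (nat_lit 76) (nat_lit 4378210933) (nat_lit 0) (nat_lit 176317218) (nat_lit 456) (nat_lit 4378210933) (nat_lit 277) (nat_lit 1) (nat_lit 276) (nat_lit 1) (nat_lit 282) (nat_lit 1) (nat_lit 290) (nat_lit 384) (nat_lit 346)))) (XT.nd (nat_lit 156) (nat_lit 760) (nat_lit 0) (XT.nd (nat_lit 78) (nat_lit 0) (nat_lit 0) (XT.lf (nat_lit 532) (nat_lit 7162430382) (nat_lit 0) (nat_lit 830927152) (nat_lit 456) (nat_lit 830927152) (nat_lit 277) (nat_lit 1) (nat_lit 270) (nat_lit 1) (nat_lit 276) (nat_lit 1) (nat_lit 291) (nat_lit 384) (nat_lit 345)) (XT.lf (nat_lit 76) (nat_lit 2771975341) (nat_lit 0) (nat_lit 3172972981) (nat_lit 532) (nat_lit 2771975341) (nat_lit 271) (nat_lit 1) (nat_lit 270) (nat_lit 1) (nat_lit 277) (nat_lit 1) (nat_lit 292) (nat_lit 384) (nat_lit 344))) (XT.nd (nat_lit 78) (nat_lit 380) (nat_lit 0)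 (XT.lf (nat_lit 456) (nat_lit 3941503590) (nat_lit 0) (nat_lit 2335140012) (nat_lit 380) (nat_lit 2335140012) (nat_lit 271) (nat_lit 1) (nat_lit 265) (nat_lit 1) (nat_lit 270) (nat_lit 1) (nat_lit 293) (nat_lit 384) (nat_lit 343)) (XT.nd (nat_lit 78) (nat_lit 380) (nat_lit 0) (XT.lf (nat_lit 76) (nat_lit 1173352463) (nat_lit 0) (nat_lit 6161864329) (nat_lit 456) (nat_lit 1173352463) (nat_lit 266) (nat_lit 1) (nat_lit 265) (nat_lit 1) (nat_lit 271) (nat_lit 1) (nat_lit 294) (nat_lit 384) (nat_lit 342)) (XT.lf (nat_lit 456) (nat_lit 737946274) (nat_lit 0) (nat_lit 3834327668) (nat_lit 380) (nat_lit 3834327668) (nat_lit 266) (nat_lit 1) (nat_lit 260) (nat_lit 1) (nat_lit 265) (nat_lit 1) (nat_lit 295) (nat_lit 384) (nat_lit 341)))))) (XT.nd (nat_lit 390) (nat_lit 1064) (nat_lit 0) (XT.nd (nat_lit 156) (nat_lit 684) (nat_lit 0) (XT.nd (nat_lit 78) (nat_lit 0) (nat_lit 0) (XT.lf (nat_lit 456) (nat_lit 7483797131)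 (nat_lit 0) (nat_lit 411556051) (nat_lit 380) (nat_lit 411556051) (nat_lit 260) (nat_lit 1) (nat_lit 254) (nat_lit 1) (nat_lit 259) (nat_lit 1) (nat_lit 296) (nat_lit 384) (nat_lit 340)) (XT.lf (nat_lit 76) (nat_lit 2905547359) (nat_lit 0) (nat_lit 2396661024) (nat_lit 456) (nat_lit 2905547359) (nat_lit 255) (nat_lit 1) (nat_lit 254) (nat_lit 1) (nat_lit 260) (nat_lit 1) (nat_lit 297) (nat_lit 384) (nat_lit 339))) (XT.nd (nat_lit 78) (nat_lit 304) (nat_lit 0) (XT.lf (nat_lit 456) (nat_lit 4163615118) (nat_lit 0) (nat_lit 1973595366) (nat_lit 380) (nat_lit 1973595366) (nat_lit 255) (nat_lit 1) (nat_lit 249) (nat_lit 1) (nat_lit 254) (nat_lit 1) (nat_lit 298) (nat_lit 384) (nat_lit 338)) (XT.nd (nat_lit 78) (nat_lit 304) (nat_lit 0) (XT.lf (nat_lit 76) (nat_lit 1261448224) (nat_lit 0) (nat_lit 5492582595) (nat_lit 456) (nat_lit 1261448224) (nat_lit 250) (nat_lit 1) (nat_lit 249) (nat_lit 1) (nat_lit 255)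 (nat_lit 1) (nat_lit 299) (nat_lit 384) (nat_lit 337)) (XT.lf (nat_lit 380) (nat_lit 876116851) (nat_lit 0) (nat_lit 3522621740) (nat_lit 304) (nat_lit 3522621740) (nat_lit 250) (nat_lit 1) (nat_lit 245) (nat_lit 1) (nat_lit 249) (nat_lit 1) (nat_lit 300) (nat_lit 384) (nat_lit 336))))) (XT.nd (nat_lit 156) (nat_lit 608) (nat_lit 0) (XT.nd (nat_lit 78) (nat_lit 0) (nat_lit 0) (XT.lf (nat_lit 456) (nat_lit 7105103941) (nat_lit 0) (nat_lit 362101197) (nat_lit 380) (nat_lit 362101197) (nat_lit 245) (nat_lit 1) (nat_lit 239) (nat_lit 1) (nat_lit 244) (nat_lit 1) (nat_lit 301) (nat_lit 384) (nat_lit 335)) (XT.lf (nat_lit 76) (nat_lit 2704014256) (nat_lit 0) (nat_lit 2329610758) (nat_lit 456) (nat_lit 2704014256) (nat_lit 240) (nat_lit 1) (nat_lit 239) (nat_lit 1) (nat_lit 245) (nat_lit 1) (nat_lit 302) (nat_lit 384) (nat_lit 334))) (XT.nd (nat_lit 78) (nat_lit 304) (nat_lit 0) (XT.lf (nat_lit 380) (nat_lit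 3737543145) (nat_lit 0) (nat_lit 1955216876) (nat_lit 304) (nat_lit 1955216876) (nat_lit 240) (nat_lit 1) (nat_lit 235) (nat_lit 1) (nat_lit 239) (nat_lit 1) (nat_lit 303) (nat_lit 384) (nat_lit 333)) (XT.nd (nat_lit 78) (nat_lit 304) (nat_lit 0) (XT.lf (nat_lit 76) (nat_lit 1039353656) (nat_lit 0) (nat_lit 5481140911) (nat_lit 380) (nat_lit 1039353656) (nat_lit 236) (nat_lit 1) (nat_lit 235) (nat_lit 1) (nat_lit 240) (nat_lit 1) (nat_lit 304) (nat_lit 384) (nat_lit 332)) (XT.lf (nat_lit 380) (nat_lit 414450412) (nat_lit 0) (nat_lit 3529135423) (nat_lit 304) (nat_lit 3529135423) (nat_lit 236) (nat_lit 1) (nat_lit 231) (nat_lit 1) (nat_lit 235) (nat_lit 1) (nat_lit 305) (nat_lit 384) (nat_lit 331))))))) (XT.nd (nat_lit 702) (nat_lit 1520) (nat_lit 0) (XT.nd (nat_lit 312) (nat_lit 1216) (nat_lit 0) (XT.nd (nat_lit 156) (nat_lit 304) (nat_lit 0) (XT.nd (nat_lit 78) (nat_lit 0) (nat_lit 0) (XT.lf (nat_lit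 380) (nat_lit 6193695248) (nat_lit 0) (nat_lit 596809225) (nat_lit 304) (nat_lit 596809225) (nat_lit 231) (nat_lit 1) (nat_lit 226) (nat_lit 1) (nat_lit 230) (nat_lit 1) (nat_lit 306) (nat_lit 384) (nat_lit 330)) (XT.lf (nat_lit 76) (nat_lit 2247977746) (nat_lit 0) (nat_lit 2806536081) (nat_lit 380) (nat_lit 2247977746) (nat_lit 227) (nat_lit 1) (nat_lit 226) (nat_lit 1) (nat_lit 231) (nat_lit 1) (nat_lit 307) (nat_lit 384) (nat_lit 329))) (XT.nd (nat_lit 78) (nat_lit 0) (nat_lit 0) (XT.lf (nat_lit 380) (nat_lit 2820149409) (nat_lit 0) (nat_lit 2199594588) (nat_lit 304) (nat_lit 2199594588) (nat_lit 227) (nat_lit 1) (nat_lit 222) (nat_lit 1) (nat_lit 226) (nat_lit 1) (nat_lit 308) (nat_lit 384) (nat_lit 328)) (XT.lf (nat_lit 76) (nat_lit 582615470) (nat_lit 0) (nat_lit 5972563321) (nat_lit 380) (nat_lit 582615470) (nat_lit 223) (nat_lit 1) (nat_lit 222) (nat_lit 1) (nat_lit 227) (nat_lit 1) (nat_lit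 309) (nat_lit 384) (nat_lit 327)))) (XT.nd (nat_lit 156) (nat_lit 608) (nat_lit 0) (XT.nd (nat_lit 78) (nat_lit 304) (nat_lit 0) (XT.lf (nat_lit 76) (nat_lit 3283246184) (nat_lit 0) (nat_lit 490282970) (nat_lit 304) (nat_lit 3283246184) (nat_lit 219) (nat_lit 1) (nat_lit 218) (nat_lit 1) (nat_lit 222) (nat_lit 1) (nat_lit 310) (nat_lit 384) (nat_lit 326)) (XT.lf (nat_lit 380) (nat_lit 4886166792) (nat_lit 0) (nat_lit 1045576812) (nat_lit 304) (nat_lit 1045576812) (nat_lit 219) (nat_lit 1) (nat_lit 214) (nat_lit 1) (nat_lit 218) (nat_lit 1) (nat_lit 311) (nat_lit 384) (nat_lit 325))) (XT.nd (nat_lit 78) (nat_lit 608) (nat_lit 0) (XT.lf (nat_lit 76) (nat_lit 1603202424) (nat_lit 0) (nat_lit 3692365802) (nat_lit 380) (nat_lit 1603202424) (nat_lit 215) (nat_lit 1) (nat_lit 214) (nat_lit 1) (nat_lit 219) (nat_lit 1) (nat_lit 312) (nat_lit 384) (nat_lit 324)) (XT.nd (nat_lit 78) (nat_lit 380) (nat_lit 0)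 (XT.lf (nat_lit 304) (nat_lit 1539368344) (nat_lit 0) (nat_lit 2641043018) (nat_lit 228) (nat_lit 2641043018) (nat_lit 215) (nat_lit 1) (nat_lit 211) (nat_lit 1) (nat_lit 214) (nat_lit 1) (nat_lit 313) (nat_lit 384) (nat_lit 323)) (XT.lf (nat_lit 380) (nat_lit 6652461509) (nat_lit 0) (nat_lit 46714959) (nat_lit 304) (nat_lit 46714959) (nat_lit 211) (nat_lit 1) (nat_lit 206) (nat_lit 1) (nat_lit 210) (nat_lit 1) (nat_lit 314) (nat_lit 384) (nat_lit 322)))))) (XT.nd (nat_lit 390) (nat_lit 760) (nat_lit 0) (XT.nd (nat_lit 156) (nat_lit 532) (nat_lit 0) (XT.nd (nat_lit 78) (nat_lit 228) (nat_lit 0) (XT.lf (nat_lit 76) (nat_lit 2478362574) (nat_lit 0) (nat_lit 1713454772) (nat_lit 380) (nat_lit 2478362574) (nat_lit 207) (nat_lit 1) (nat_lit 206) (nat_lit 1) (nat_lit 211) (nat_lit 1) (nat_lit 315) (nat_lit 384) (nat_lit 321)) (XT.lf (nat_lit 304) (nat_lit 3293580592) (nat_lit 0) (nat_lit 1651301866) (nat_lit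 228) (nat_lit 1651301866) (nat_lit 207) (nat_lit 1) (nat_lit 203) (nat_lit 1) (nat_lit 206) (nat_lit 1) (nat_lit 316) (nat_lit 384) (nat_lit 320))) (XT.nd (nat_lit 78) (nat_lit 532) (nat_lit 0) (XT.lf (nat_lit 76) (nat_lit 823133714) (nat_lit 0) (nat_lit 4877126713) (nat_lit 304) (nat_lit 823133714) (nat_lit 204) (nat_lit 1) (nat_lit 203) (nat_lit 1) (nat_lit 207) (nat_lit 1) (nat_lit 317) (nat_lit 384) (nat_lit 319)) (XT.nd (nat_lit 78) (nat_lit 228) (nat_lit 0) (XT.lf (nat_lit 76) (nat_lit 3225233810) (nat_lit 0) (nat_lit 863519) (nat_lit 304) (nat_lit 3225233810) (nat_lit 200) (nat_lit 1) (nat_lit 199) (nat_lit 1) (nat_lit 203) (nat_lit 1) (nat_lit 318) (nat_lit 384) (nat_lit 318)) (XT.lf (nat_lit 304) (nat_lit 4796082101) (nat_lit 0) (nat_lit 792179108) (nat_lit 228) (nat_lit 792179108) (nat_lit 200) (nat_lit 1) (nat_lit 196) (nat_lit 1) (nat_lit 199) (nat_lit 1) (nat_lit 319) (nat_lit 384) (nat_lit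 317))))) (XT.nd (nat_lit 156) (nat_lit 532) (nat_lit 0) (XT.nd (nat_lit 78) (nat_lit 228) (nat_lit 0) (XT.lf (nat_lit 76) (nat_lit 1571198303) (nat_lit 0) (nat_lit 3167834585) (nat_lit 304) (nat_lit 1571198303) (nat_lit 197) (nat_lit 1) (nat_lit 196) (nat_lit 1) (nat_lit 200) (nat_lit 1) (nat_lit 320) (nat_lit 384) (nat_lit 316)) (XT.lf (nat_lit 304) (nat_lit 1505819506) (nat_lit 0) (nat_lit 2367671452) (nat_lit 228) (nat_lit 2367671452) (nat_lit 197) (nat_lit 1) (nat_lit 193) (nat_lit 1) (nat_lit 196) (nat_lit 1) (nat_lit 321) (nat_lit 384) (nat_lit 315))) (XT.nd (nat_lit 78) (nat_lit 228) (nat_lit 0) (XT.lf (nat_lit 304) (nat_lit 6076575666) (nat_lit 0) (nat_lit 48519312) (nat_lit 228) (nat_lit 48519312) (nat_lit 193) (nat_lit 1) (nat_lit 189) (nat_lit 1) (nat_lit 192) (nat_lit 1) (nat_lit 322) (nat_lit 384) (nat_lit 314)) (XT.nd (nat_lit 78) (nat_lit 228) (nat_lit 0) (XT.lf (nat_lit 76) (nat_lit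 2211382214) (nat_lit 0) (nat_lit 1683095212) (nat_lit 304) (nat_lit 2211382214) (nat_lit 190) (nat_lit 1) (nat_lit 189) (nat_lit 1) (nat_lit 193) (nat_lit 1) (nat_lit 323) (nat_lit 384) (nat_lit 313)) (XT.lf (nat_lit 304) (nat_lit 2800621517) (nat_lit 0) (nat_lit 1619488149) (nat_lit 228) (nat_lit 1619488149) (nat_lit 190) (nat_lit 1) (nat_lit 186) (nat_lit 1) (nat_lit 189) (nat_lit 1) (nat_lit 324) (nat_lit 384) (nat_lit 312))))))))
noncomputable def ec222 : XT := (XT.nd (nat_lit 1482) (nat_lit 1900) (nat_lit 0) (XT.nd (nat_lit 702) (nat_lit 1292) (nat_lit 0) (XT.nd (nat_lit 312) (nat_lit 608) (nat_lit 0) (XT.nd (nat_lit 156) (nat_lit 228) (nat_lit 0) (XT.nd (nat_lit 78) (nat_lit 228) (nat_lit 0) (XT.lf (nat_lit 76) (nat_lit 598998280) (nat_lit 0) (nat_lit 4776461750) (nat_lit 304) (nat_lit 598998280) (nat_lit 187) (nat_lit 1) (nat_lit 186) (nat_lit 1) (nat_lit 190) (nat_lit 1) (nat_lit 325) (nat_lit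 384) (nat_lit 311)) (XT.lf (nat_lit 76) (nat_lit 2756428021) (nat_lit 0) (nat_lit 396879376) (nat_lit 228) (nat_lit 2756428021) (nat_lit 184) (nat_lit 1) (nat_lit 183) (nat_lit 1) (nat_lit 186) (nat_lit 1) (nat_lit 326) (nat_lit 384) (nat_lit 310))) (XT.nd (nat_lit 78) (nat_lit 0) (nat_lit 0) (XT.lf (nat_lit 304) (nat_lit 3908432827) (nat_lit 0) (nat_lit 968838643) (nat_lit 228) (nat_lit 968838643) (nat_lit 184) (nat_lit 1) (nat_lit 180) (nat_lit 1) (nat_lit 183) (nat_lit 1) (nat_lit 327) (nat_lit 384) (nat_lit 309)) (XT.lf (nat_lit 76) (nat_lit 1156021516) (nat_lit 0) (nat_lit 3471167836) (nat_lit 304) (nat_lit 1156021516) (nat_lit 181) (nat_lit 1) (nat_lit 180) (nat_lit 1) (nat_lit 184) (nat_lit 1) (nat_lit 328) (nat_lit 384) (nat_lit 308)))) (XT.nd (nat_lit 156) (nat_lit 152) (nat_lit 0) (XT.nd (nat_lit 78) (nat_lit 304) (nat_lit 0) (XT.lf (nat_lit 228) (nat_lit 728118969) (nat_lit 0) (nat_lit 2496516736)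 (nat_lit 152) (nat_lit 2496516736) (nat_lit 181) (nat_lit 1) (nat_lit 178) (nat_lit 1) (nat_lit 180) (nat_lit 1) (nat_lit 329) (nat_lit 384) (nat_lit 307)) (XT.lf (nat_lit 304) (nat_lit 4851346201) (nat_lit 0) (nat_lit 404435924) (nat_lit 228) (nat_lit 404435924) (nat_lit 178) (nat_lit 1) (nat_lit 174) (nat_lit 1) (nat_lit 177) (nat_lit 1) (nat_lit 330) (nat_lit 384) (nat_lit 306))) (XT.nd (nat_lit 78) (nat_lit 152) (nat_lit 0) (XT.lf (nat_lit 76) (nat_lit 1632759951) (nat_lit 0) (nat_lit 2333935661) (nat_lit 304) (nat_lit 1632759951) (nat_lit 175) (nat_lit 1) (nat_lit 174) (nat_lit 1) (nat_lit 178) (nat_lit 1) (nat_lit 331) (nat_lit 384) (nat_lit 305)) (XT.nd (nat_lit 78) (nat_lit 0) (nat_lit 0) (XT.lf (nat_lit 228) (nat_lit 1703000999) (nat_lit 0) (nat_lit 1918397701) (nat_lit 152) (nat_lit 1918397701) (nat_lit 175) (nat_lit 1) (nat_lit 172) (nat_lit 1) (nat_lit 174) (nat_lit 1) (nat_lit 332) (nat_lit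 384) (nat_lit 304)) (XT.lf (nat_lit 76) (nat_lit 84565479) (nat_lit 0) (nat_lit 5312252817) (nat_lit 228) (nat_lit 84565479) (nat_lit 173) (nat_lit 1) (nat_lit 172) (nat_lit 1) (nat_lit 175) (nat_lit 1) (nat_lit 333) (nat_lit 384) (nat_lit 303)))))) (XT.nd (nat_lit 390) (nat_lit 532) (nat_lit 0) (XT.nd (nat_lit 156) (nat_lit 380) (nat_lit 0) (XT.nd (nat_lit 78) (nat_lit 152) (nat_lit 0) (XT.lf (nat_lit 76) (nat_lit 2038695591) (nat_lit 0) (nat_lit 1345368689) (nat_lit 228) (nat_lit 2038695591) (nat_lit 170) (nat_lit 1) (nat_lit 169) (nat_lit 1) (nat_lit 172) (nat_lit 1) (nat_lit 334) (nat_lit 384) (nat_lit 302)) (XT.lf (nat_lit 228) (nat_lit 2538411541) (nat_lit 0) (nat_lit 1413476282) (nat_lit 152) (nat_lit 1413476282) (nat_lit 170) (nat_lit 1) (nat_lit 167) (nat_lit 1) (nat_lit 169) (nat_lit 1) (nat_lit 335) (nat_lit 384) (nat_lit 301))) (XT.nd (nat_lit 78) (nat_lit 380) (nat_lit 0) (XT.lf (nat_lit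 76) (nat_lit 509561880) (nat_lit 0) (nat_lit 4289784277) (nat_lit 228) (nat_lit 509561880) (nat_lit 168) (nat_lit 1) (nat_lit 167) (nat_lit 1) (nat_lit 170) (nat_lit 1) (nat_lit 336) (nat_lit 384) (nat_lit 300)) (XT.nd (nat_lit 78) (nat_lit 152) (nat_lit 0) (XT.lf (nat_lit 76) (nat_lit 2382237659) (nat_lit 0) (nat_lit 488252446) (nat_lit 228) (nat_lit 2382237659) (nat_lit 165) (nat_lit 1) (nat_lit 164) (nat_lit 1) (nat_lit 167) (nat_lit 1) (nat_lit 337) (nat_lit 384) (nat_lit 299)) (XT.lf (nat_lit 228) (nat_lit 3250799378) (nat_lit 0) (nat_lit 973335731) (nat_lit 152) (nat_lit 973335731) (nat_lit 165) (nat_lit 1) (nat_lit 162) (nat_lit 1) (nat_lit 164) (nat_lit 1) (nat_lit 338) (nat_lit 384) (nat_lit 298))))) (XT.nd (nat_lit 156) (nat_lit 380) (nat_lit 0) (XT.nd (nat_lit 78) (nat_lit 152) (nat_lit 0) (XT.lf (nat_lit 76) (nat_lit 874512477) (nat_lit 0) (nat_lit 3393860927) (nat_lit 228) (nat_lit 874512477)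 (nat_lit 163) (nat_lit 1) (nat_lit 162) (nat_lit 1) (nat_lit 165) (nat_lit 1) (nat_lit 339) (nat_lit 384) (nat_lit 297)) (XT.lf (nat_lit 228) (nat_lit 257718388) (nat_lit 0) (nat_lit 2415601633) (nat_lit 152) (nat_lit 2415601633) (nat_lit 163) (nat_lit 1) (nat_lit 160) (nat_lit 1) (nat_lit 162) (nat_lit 1) (nat_lit 340) (nat_lit 384) (nat_lit 296))) (XT.nd (nat_lit 78) (nat_lit 152) (nat_lit 0) (XT.lf (nat_lit 228) (nat_lit 3854752950) (nat_lit 0) (nat_lit 590505279) (nat_lit 152) (nat_lit 590505279) (nat_lit 160) (nat_lit 1) (nat_lit 157) (nat_lit 1) (nat_lit 159) (nat_lit 1) (nat_lit 341) (nat_lit 384) (nat_lit 295)) (XT.nd (nat_lit 78) (nat_lit 152) (nat_lit 0) (XT.lf (nat_lit 76) (nat_lit 1186481695) (nat_lit 0) (nat_lit 2610006484) (nat_lit 228) (nat_lit 1186481695) (nat_lit 158) (nat_lit 1) (nat_lit 157) (nat_lit 1) (nat_lit 160) (nat_lit 1) (nat_lit 342) (nat_lit 384) (nat_lit 294)) (XT.lf (nat_lit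 228) (nat_lit 908744452) (nat_lit 0) (nat_lit 2011112089) (nat_lit 152) (nat_lit 2011112089) (nat_lit 158) (nat_lit 1) (nat_lit 155) (nat_lit 1) (nat_lit 157) (nat_lit 1) (nat_lit 343) (nat_lit 384) (nat_lit 293))))))) (XT.nd (nat_lit 702) (nat_lit 912) (nat_lit 0) (XT.nd (nat_lit 312) (nat_lit 608) (nat_lit 0) (XT.nd (nat_lit 156) (nat_lit 152) (nat_lit 0) (XT.nd (nat_lit 78) (nat_lit 0) (nat_lit 0) (XT.lf (nat_lit 228) (nat_lit 4363208562) (nat_lit 0) (nat_lit 258354437) (nat_lit 152) (nat_lit 258354437) (nat_lit 155) (nat_lit 1) (nat_lit 152) (nat_lit 1) (nat_lit 154) (nat_lit 1) (nat_lit 344) (nat_lit 384) (nat_lit 292)) (XT.lf (nat_lit 76) (nat_lit 1451735450) (nat_lit 0) (nat_lit 1925369586) (nat_lit 228) (nat_lit 1451735450) (nat_lit 153) (nat_lit 1) (nat_lit 152) (nat_lit 1) (nat_lit 155) (nat_lit 1) (nat_lit 345) (nat_lit 384) (nat_lit 291))) (XT.nd (nat_lit 78) (nat_lit 0) (nat_lit 0) (XT.lf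 (nat_lit 228) (nat_lit 1467373697) (nat_lit 0) (nat_lit 1655663863) (nat_lit 152) (nat_lit 1655663863) (nat_lit 153) (nat_lit 1) (nat_lit 150) (nat_lit 1) (nat_lit 152) (nat_lit 1) (nat_lit 346) (nat_lit 384) (nat_lit 290)) (XT.lf (nat_lit 76) (nat_lit 29288057) (nat_lit 0) (nat_lit 4671023447) (nat_lit 228) (nat_lit 29288057) (nat_lit 151) (nat_lit 1) (nat_lit 150) (nat_lit 1) (nat_lit 153) (nat_lit 1) (nat_lit 347) (nat_lit 384) (nat_lit 289)))) (XT.nd (nat_lit 156) (nat_lit 304) (nat_lit 0) (XT.nd (nat_lit 78) (nat_lit 152) (nat_lit 0) (XT.lf (nat_lit 76) (nat_lit 1675830505) (nat_lit 0) (nat_lit 1328542279) (nat_lit 152) (nat_lit 1675830505) (nat_lit 149) (nat_lit 1) (nat_lit 148) (nat_lit 1) (nat_lit 150) (nat_lit 1) (nat_lit 348) (nat_lit 384) (nat_lit 288)) (XT.lf (nat_lit 228) (nat_lit 1944486234) (nat_lit 0) (nat_lit 1343673587) (nat_lit 152) (nat_lit 1343673587) (nat_lit 149) (nat_lit 1) (nat_lit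 146) (nat_lit 1) (nat_lit 148) (nat_lit 1) (nat_lit 349) (nat_lit 384) (nat_lit 287))) (XT.nd (nat_lit 78) (nat_lit 304) (nat_lit 0) (XT.lf (nat_lit 76) (nat_lit 279522396) (nat_lit 0) (nat_lit 4025266820) (nat_lit 228) (nat_lit 279522396) (nat_lit 147) (nat_lit 1) (nat_lit 146) (nat_lit 1) (nat_lit 149) (nat_lit 1) (nat_lit 350) (nat_lit 384) (nat_lit 286)) (XT.nd (nat_lit 78) (nat_lit 152) (nat_lit 0) (XT.lf (nat_lit 76) (nat_lit 1863693853) (nat_lit 0) (nat_lit 809398762) (nat_lit 152) (nat_lit 1863693853) (nat_lit 145) (nat_lit 1) (nat_lit 144) (nat_lit 1) (nat_lit 146) (nat_lit 1) (nat_lit 351) (nat_lit 384) (nat_lit 285)) (XT.lf (nat_lit 228) (nat_lit 2349732106) (nat_lit 0) (nat_lit 1070183850) (nat_lit 152) (nat_lit 1070183850) (nat_lit 145) (nat_lit 1) (nat_lit 142) (nat_lit 1) (nat_lit 144) (nat_lit 1) (nat_lit 352) (nat_lit 384) (nat_lit 284)))))) (XT.nd (nat_lit 390) (nat_lit 532) (nat_lit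 0) (XT.nd (nat_lit 156) (nat_lit 228) (nat_lit 0) (XT.nd (nat_lit 78) (nat_lit 152) (nat_lit 0) (XT.lf (nat_lit 76) (nat_lit 494468861) (nat_lit 0) (nat_lit 3455157615) (nat_lit 228) (nat_lit 494468861) (nat_lit 143) (nat_lit 1) (nat_lit 142) (nat_lit 1) (nat_lit 145) (nat_lit 1) (nat_lit 353) (nat_lit 384) (nat_lit 283)) (XT.lf (nat_lit 76) (nat_lit 2019693244) (nat_lit 0) (nat_lit 358952117) (nat_lit 152) (nat_lit 2019693244) (nat_lit 141) (nat_lit 1) (nat_lit 140) (nat_lit 1) (nat_lit 142) (nat_lit 1) (nat_lit 354) (nat_lit 384) (nat_lit 282))) (XT.nd (nat_lit 78) (nat_lit 76) (nat_lit 0) (XT.lf (nat_lit 228) (nat_lit 2691668942) (nat_lit 0) (nat_lit 830793296) (nat_lit 152) (nat_lit 830793296) (nat_lit 141) (nat_lit 1) (nat_lit 138) (nat_lit 1) (nat_lit 140) (nat_lit 1) (nat_lit 355) (nat_lit 384) (nat_lit 281)) (XT.nd (nat_lit 78) (nat_lit 76) (nat_lit 0) (XT.lf (nat_lit 76) (nat_lit 678277559)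 (nat_lit 0) (nat_lit 2952154228) (nat_lit 228) (nat_lit 678277559) (nat_lit 139) (nat_lit 1) (nat_lit 138) (nat_lit 1) (nat_lit 141) (nat_lit 1) (nat_lit 356) (nat_lit 384) (nat_lit 280)) (XT.lf (nat_lit 152) (nat_lit 31385416) (nat_lit 0) (nat_lit 2116616105) (nat_lit 76) (nat_lit 2116616105) (nat_lit 139) (nat_lit 1) (nat_lit 137) (nat_lit 1) (nat_lit 138) (nat_lit 1) (nat_lit 357) (nat_lit 384) (nat_lit 279))))) (XT.nd (nat_lit 156) (nat_lit 304) (nat_lit 0) (XT.nd (nat_lit 78) (nat_lit 0) (nat_lit 0) (XT.lf (nat_lit 228) (nat_lit 2977884255) (nat_lit 0) (nat_lit 621594527) (nat_lit 152) (nat_lit 621594527) (nat_lit 137) (nat_lit 1) (nat_lit 134) (nat_lit 1) (nat_lit 136) (nat_lit 1) (nat_lit 358) (nat_lit 384) (nat_lit 278)) (XT.lf (nat_lit 76) (nat_lit 834629545) (nat_lit 0) (nat_lit 2508670637) (nat_lit 228) (nat_lit 834629545) (nat_lit 135) (nat_lit 1) (nat_lit 134) (nat_lit 1) (nat_lit 137)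 (nat_lit 1) (nat_lit 359) (nat_lit 384) (nat_lit 277))) (XT.nd (nat_lit 78) (nat_lit 228) (nat_lit 0) (XT.lf (nat_lit 152) (nat_lit 374154411) (nat_lit 0) (nat_lit 1880585995) (nat_lit 76) (nat_lit 1880585995) (nat_lit 135) (nat_lit 1) (nat_lit 133) (nat_lit 1) (nat_lit 134) (nat_lit 1) (nat_lit 360) (nat_lit 384) (nat_lit 276)) (XT.nd (nat_lit 78) (nat_lit 0) (nat_lit 0) (XT.lf (nat_lit 228) (nat_lit 3215104078) (nat_lit 0) (nat_lit 439118923) (nat_lit 152) (nat_lit 439118923) (nat_lit 133) (nat_lit 1) (nat_lit 130) (nat_lit 1) (nat_lit 132) (nat_lit 1) (nat_lit 361) (nat_lit 384) (nat_lit 275)) (XT.lf (nat_lit 76) (nat_lit 966789306) (nat_lit 0) (nat_lit 2117969760) (nat_lit 228) (nat_lit 966789306) (nat_lit 131) (nat_lit 1) (nat_lit 130) (nat_lit 1) (nat_lit 133) (nat_lit 1) (nat_lit 362) (nat_lit 384) (nat_lit 274))))))))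
noncomputable def ec223 : XT := (XT.nd (nat_lit 1482) (nat_lit 1368) (nat_lit 0) (XT.nd (nat_lit 702) (nat_lit 760) (nat_lit 0) (XT.nd (nat_lit 312) (nat_lit 532) (nat_lit 0) (XT.nd (nat_lit 156) (nat_lit 76) (nat_lit 0) (XT.nd (nat_lit 78) (nat_lit 228) (nat_lit 0) (XT.lf (nat_lit 152) (nat_lit 668614723) (nat_lit 0) (nat_lit 1670876299) (nat_lit 76) (nat_lit 1670876299) (nat_lit 131) (nat_lit 1) (nat_lit 129) (nat_lit 1) (nat_lit 130) (nat_lit 1) (nat_lit 363) (nat_lit 384) (nat_lit 273)) (XT.lf (nat_lit 228) (nat_lit 3409289484) (nat_lit 0) (nat_lit 280287627) (nat_lit 152) (nat_lit 280287627) (nat_lit 129) (nat_lit 1) (nat_lit 126) (nat_lit 1) (nat_lit 128) (nat_lit 1) (nat_lit 364) (nat_lit 384) (nat_lit 272))) (XT.nd (nat_lit 78) (nat_lit 76) (nat_lit 0) (XT.lf (nat_lit 76) (nat_lit 1077651394) (nat_lit 0) (nat_lit 1774068691) (nat_lit 228) (nat_lit 1077651394) (nat_lit 127) (nat_lit 1) (nat_lit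 126) (nat_lit 1) (nat_lit 129) (nat_lit 1) (nat_lit 365) (nat_lit 384) (nat_lit 271)) (XT.lf (nat_lit 152) (nat_lit 920447148) (nat_lit 0) (nat_lit 1484551950) (nat_lit 76) (nat_lit 1484551950) (nat_lit 127) (nat_lit 1) (nat_lit 125) (nat_lit 1) (nat_lit 126) (nat_lit 1) (nat_lit 366) (nat_lit 384) (nat_lit 270)))) (XT.nd (nat_lit 156) (nat_lit 304) (nat_lit 0) (XT.nd (nat_lit 78) (nat_lit 0) (nat_lit 0) (XT.lf (nat_lit 228) (nat_lit 3565722319) (nat_lit 0) (nat_lit 142367996) (nat_lit 152) (nat_lit 142367996) (nat_lit 125) (nat_lit 1) (nat_lit 122) (nat_lit 1) (nat_lit 124) (nat_lit 1) (nat_lit 367) (nat_lit 384) (nat_lit 269)) (XT.lf (nat_lit 76) (nat_lit 1169781847) (nat_lit 0) (nat_lit 1471654521) (nat_lit 228) (nat_lit 1169781847) (nat_lit 123) (nat_lit 1) (nat_lit 122) (nat_lit 1) (nat_lit 125) (nat_lit 1) (nat_lit 368) (nat_lit 384) (nat_lit 268))) (XT.nd (nat_lit 78) (nat_lit 228) (nat_lit 0)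 (XT.lf (nat_lit 152) (nat_lit 1134690443) (nat_lit 0) (nat_lit 1319005180) (nat_lit 76) (nat_lit 1319005180) (nat_lit 123) (nat_lit 1) (nat_lit 121) (nat_lit 1) (nat_lit 122) (nat_lit 1) (nat_lit 369) (nat_lit 384) (nat_lit 267)) (XT.nd (nat_lit 78) (nat_lit 0) (nat_lit 0) (XT.lf (nat_lit 228) (nat_lit 3689081369) (nat_lit 0) (nat_lit 22934907) (nat_lit 152) (nat_lit 22934907) (nat_lit 121) (nat_lit 1) (nat_lit 118) (nat_lit 1) (nat_lit 120) (nat_lit 1) (nat_lit 370) (nat_lit 384) (nat_lit 266)) (XT.lf (nat_lit 76) (nat_lit 1245454992) (nat_lit 0) (nat_lit 1206009542) (nat_lit 228) (nat_lit 1245454992) (nat_lit 119) (nat_lit 1) (nat_lit 118) (nat_lit 1) (nat_lit 121) (nat_lit 1) (nat_lit 371) (nat_lit 384) (nat_lit 265)))))) (XT.nd (nat_lit 390) (nat_lit 456) (nat_lit 0) (XT.nd (nat_lit 156) (nat_lit 228) (nat_lit 0) (XT.nd (nat_lit 78) (nat_lit 0) (nat_lit 0) (XT.lf (nat_lit 152) (nat_lit 1315813173)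 (nat_lit 0) (nat_lit 1171919018) (nat_lit 76) (nat_lit 1171919018) (nat_lit 119) (nat_lit 1) (nat_lit 117) (nat_lit 1) (nat_lit 118) (nat_lit 1) (nat_lit 372) (nat_lit 384) (nat_lit 264)) (XT.lf (nat_lit 0) (nat_lit 80957315) (nat_lit 0) (nat_lit 3461174298) (nat_lit 152) (nat_lit 80957315) (nat_lit 117) (nat_lit 3) (nat_lit 117) (nat_lit 1) (nat_lit 119) (nat_lit 1) (nat_lit 373) (nat_lit 384) (nat_lit 263))) (XT.nd (nat_lit 78) (nat_lit 76) (nat_lit 0) (XT.lf (nat_lit 76) (nat_lit 1306686136) (nat_lit 0) (nat_lit 972944790) (nat_lit 152) (nat_lit 1306686136) (nat_lit 116) (nat_lit 1) (nat_lit 115) (nat_lit 1) (nat_lit 117) (nat_lit 1) (nat_lit 374) (nat_lit 384) (nat_lit 262)) (XT.nd (nat_lit 78) (nat_lit 0) (nat_lit 0) (XT.lf (nat_lit 152) (nat_lit 1467777536) (nat_lit 0) (nat_lit 1041234869) (nat_lit 76) (nat_lit 1041234869) (nat_lit 116) (nat_lit 1) (nat_lit 114) (nat_lit 1) (nat_lit 115) (nat_lit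 1) (nat_lit 375) (nat_lit 384) (nat_lit 261)) (XT.lf (nat_lit 0) (nat_lit 170508593) (nat_lit 0) (nat_lit 3173787601) (nat_lit 152) (nat_lit 170508593) (nat_lit 114) (nat_lit 3) (nat_lit 114) (nat_lit 1) (nat_lit 116) (nat_lit 1) (nat_lit 376) (nat_lit 384) (nat_lit 260))))) (XT.nd (nat_lit 156) (nat_lit 228) (nat_lit 0) (XT.nd (nat_lit 78) (nat_lit 76) (nat_lit 0) (XT.lf (nat_lit 76) (nat_lit 1355260607) (nat_lit 0) (nat_lit 768741012) (nat_lit 152) (nat_lit 1355260607) (nat_lit 113) (nat_lit 1) (nat_lit 112) (nat_lit 1) (nat_lit 114) (nat_lit 1) (nat_lit 377) (nat_lit 384) (nat_lit 259)) (XT.lf (nat_lit 152) (nat_lit 1594096063) (nat_lit 0) (nat_lit 925123695) (nat_lit 76) (nat_lit 925123695) (nat_lit 113) (nat_lit 1) (nat_lit 111) (nat_lit 1) (nat_lit 112) (nat_lit 1) (nat_lit 378) (nat_lit 384) (nat_lit 258))) (XT.nd (nat_lit 78) (nat_lit 228) (nat_lit 0) (XT.lf (nat_lit 0) (nat_lit 247202509) (nat_lit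 0) (nat_lit 2915577009) (nat_lit 152) (nat_lit 247202509) (nat_lit 111) (nat_lit 3) (nat_lit 111) (nat_lit 1) (nat_lit 113) (nat_lit 1) (nat_lit 379) (nat_lit 384) (nat_lit 257)) (XT.nd (nat_lit 78) (nat_lit 76) (nat_lit 0) (XT.lf (nat_lit 76) (nat_lit 1392759554) (nat_lit 0) (nat_lit 590096206) (nat_lit 152) (nat_lit 1392759554) (nat_lit 110) (nat_lit 1) (nat_lit 109) (nat_lit 1) (nat_lit 111) (nat_lit 1) (nat_lit 380) (nat_lit 384) (nat_lit 256)) (XT.lf (nat_lit 152) (nat_lit 1697881989) (nat_lit 0) (nat_lit 821960420) (nat_lit 76) (nat_lit 821960420) (nat_lit 110) (nat_lit 1) (nat_lit 108) (nat_lit 1) (nat_lit 109) (nat_lit 1) (nat_lit 381) (nat_lit 384) (nat_lit 255))))))) (XT.nd (nat_lit 702) (nat_lit 684) (nat_lit 0) (XT.nd (nat_lit 312) (nat_lit 456) (nat_lit 0) (XT.nd (nat_lit 156) (nat_lit 76) (nat_lit 0) (XT.nd (nat_lit 78) (nat_lit 152) (nat_lit 0) (XT.lf (nat_lit 0) (nat_lit 312556453) (nat_lit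 0) (nat_lit 2683372635) (nat_lit 152) (nat_lit 312556453) (nat_lit 108) (nat_lit 3) (nat_lit 108) (nat_lit 1) (nat_lit 110) (nat_lit 1) (nat_lit 382) (nat_lit 384) (nat_lit 254)) (XT.lf (nat_lit 76) (nat_lit 1420582862) (nat_lit 0) (nat_lit 434079025) (nat_lit 152) (nat_lit 1420582862) (nat_lit 107) (nat_lit 1) (nat_lit 106) (nat_lit 1) (nat_lit 108) (nat_lit 1) (nat_lit 383) (nat_lit 384) (nat_lit 253))) (XT.nd (nat_lit 78) (nat_lit 0) (nat_lit 0) (XT.lf (nat_lit 152) (nat_lit 1781894004) (nat_lit 0) (nat_lit 730301187) (nat_lit 76) (nat_lit 730301187) (nat_lit 107) (nat_lit 1) (nat_lit 105) (nat_lit 1) (nat_lit 106) (nat_lit 1) (nat_lit 384) (nat_lit 384) (nat_lit 252)) (XT.lf (nat_lit 0) (nat_lit 367916171) (nat_lit 0) (nat_lit 2474355643) (nat_lit 152) (nat_lit 367916171) (nat_lit 105) (nat_lit 3) (nat_lit 105) (nat_lit 1) (nat_lit 107) (nat_lit 1) (nat_lit 385) (nat_lit 384) (nat_lit 251)))) (XT.nd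 (nat_lit 156) (nat_lit 228) (nat_lit 0) (XT.nd (nat_lit 78) (nat_lit 76) (nat_lit 0) (XT.lf (nat_lit 76) (nat_lit 1439969509) (nat_lit 0) (nat_lit 298087367) (nat_lit 152) (nat_lit 1439969509) (nat_lit 104) (nat_lit 1) (nat_lit 103) (nat_lit 1) (nat_lit 105) (nat_lit 1) (nat_lit 386) (nat_lit 384) (nat_lit 250)) (XT.lf (nat_lit 152) (nat_lit 1848576004) (nat_lit 0) (nat_lit 648863146) (nat_lit 76) (nat_lit 648863146) (nat_lit 104) (nat_lit 1) (nat_lit 102) (nat_lit 1) (nat_lit 103) (nat_lit 1) (nat_lit 387) (nat_lit 384) (nat_lit 249))) (XT.nd (nat_lit 78) (nat_lit 228) (nat_lit 0) (XT.lf (nat_lit 0) (nat_lit 414474978) (nat_lit 0) (nat_lit 2286019165) (nat_lit 152) (nat_lit 414474978) (nat_lit 102) (nat_lit 3) (nat_lit 102) (nat_lit 1) (nat_lit 104) (nat_lit 1) (nat_lit 388) (nat_lit 384) (nat_lit 248)) (XT.nd (nat_lit 78) (nat_lit 76) (nat_lit 0) (XT.lf (nat_lit 76) (nat_lit 1452015652) (nat_lit 0)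 (nat_lit 179811595) (nat_lit 152) (nat_lit 1452015652) (nat_lit 101) (nat_lit 1) (nat_lit 100) (nat_lit 1) (nat_lit 102) (nat_lit 1) (nat_lit 389) (nat_lit 384) (nat_lit 247)) (XT.lf (nat_lit 152) (nat_lit 1900092400) (nat_lit 0) (nat_lit 576506501) (nat_lit 76) (nat_lit 576506501) (nat_lit 101) (nat_lit 1) (nat_lit 99) (nat_lit 1) (nat_lit 100) (nat_lit 1) (nat_lit 390) (nat_lit 384) (nat_lit 246)))))) (XT.nd (nat_lit 390) (nat_lit 380) (nat_lit 0) (XT.nd (nat_lit 156) (nat_lit 152) (nat_lit 0) (XT.nd (nat_lit 78) (nat_lit 152) (nat_lit 0) (XT.lf (nat_lit 0) (nat_lit 453290819) (nat_lit 0) (nat_lit 2116133589) (nat_lit 152) (nat_lit 453290819) (nat_lit 99) (nat_lit 3) (nat_lit 99) (nat_lit 1) (nat_lit 101) (nat_lit 1) (nat_lit 391) (nat_lit 384) (nat_lit 245)) (XT.lf (nat_lit 76) (nat_lit 1457690687) (nat_lit 0) (nat_lit 77201856) (nat_lit 152) (nat_lit 1457690687) (nat_lit 98) (nat_lit 1) (nat_lit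 97) (nat_lit 1) (nat_lit 99) (nat_lit 1) (nat_lit 392) (nat_lit 384) (nat_lit 244))) (XT.nd (nat_lit 78) (nat_lit 76) (nat_lit 0) (XT.lf (nat_lit 152) (nat_lit 1938359491) (nat_lit 0) (nat_lit 512218559) (nat_lit 76) (nat_lit 512218559) (nat_lit 98) (nat_lit 1) (nat_lit 96) (nat_lit 1) (nat_lit 97) (nat_lit 1) (nat_lit 393) (nat_lit 384) (nat_lit 243)) (XT.nd (nat_lit 78) (nat_lit 76) (nat_lit 0) (XT.lf (nat_lit 0) (nat_lit 485301438) (nat_lit 0) (nat_lit 1962715702) (nat_lit 152) (nat_lit 485301438) (nat_lit 96) (nat_lit 3) (nat_lit 96) (nat_lit 1) (nat_lit 98) (nat_lit 1) (nat_lit 394) (nat_lit 384) (nat_lit 242)) (XT.lf (nat_lit 76) (nat_lit 11791038) (nat_lit 0) (nat_lit 1446173819) (nat_lit 76) (nat_lit 1446173819) (nat_lit 96) (nat_lit 3) (nat_lit 95) (nat_lit 1) (nat_lit 96) (nat_lit 1) (nat_lit 395) (nat_lit 384) (nat_lit 241))))) (XT.nd (nat_lit 156) (nat_lit 228) (nat_lit 0) (XT.nd (nat_lit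 78) (nat_lit 0) (nat_lit 0) (XT.lf (nat_lit 152) (nat_lit 1965073325) (nat_lit 0) (nat_lit 455099555) (nat_lit 76) (nat_lit 455099555) (nat_lit 95) (nat_lit 1) (nat_lit 93) (nat_lit 1) (nat_lit 94) (nat_lit 1) (nat_lit 396) (nat_lit 384) (nat_lit 240)) (XT.lf (nat_lit 0) (nat_lit 511337845) (nat_lit 0) (nat_lit 1824001283) (nat_lit 152) (nat_lit 511337845) (nat_lit 93) (nat_lit 3) (nat_lit 93) (nat_lit 1) (nat_lit 95) (nat_lit 1) (nat_lit 397) (nat_lit 384) (nat_lit 239))) (XT.nd (nat_lit 78) (nat_lit 152) (nat_lit 0) (XT.lf (nat_lit 76) (nat_lit 89844166) (nat_lit 0) (nat_lit 1364274688) (nat_lit 76) (nat_lit 1364274688) (nat_lit 93) (nat_lit 3) (nat_lit 92) (nat_lit 1) (nat_lit 93) (nat_lit 1) (nat_lit 398) (nat_lit 384) (nat_lit 238)) (XT.nd (nat_lit 78) (nat_lit 0) (nat_lit 0) (XT.lf (nat_lit 152) (nat_lit 1981734452) (nat_lit 0) (nat_lit 404350060) (nat_lit 76) (nat_lit 404350060) (nat_lit 92)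 (nat_lit 1) (nat_lit 90) (nat_lit 1) (nat_lit 91) (nat_lit 1) (nat_lit 399) (nat_lit 384) (nat_lit 237)) (XT.lf (nat_lit 0) (nat_lit 532136279) (nat_lit 0) (nat_lit 1698420741) (nat_lit 152) (nat_lit 532136279) (nat_lit 90) (nat_lit 3) (nat_lit 90) (nat_lit 1) (nat_lit 92) (nat_lit 1) (nat_lit 400) (nat_lit 384) (nat_lit 236))))))))
noncomputable def ec224 : XT := (XT.nd (nat_lit 1404) (nat_lit 988) (nat_lit 0) (XT.nd (nat_lit 702) (nat_lit 684) (nat_lit 0) (XT.nd (nat_lit 312) (nat_lit 380) (nat_lit 0) (XT.nd (nat_lit 156) (nat_lit 76) (nat_lit 0) (XT.nd (nat_lit 78) (nat_lit 152) (nat_lit 0) (XT.lf (nat_lit 76) (nat_lit 156881671) (nat_lit 0) (nat_lit 1289196683) (nat_lit 76) (nat_lit 1289196683) (nat_lit 90) (nat_lit 3) (nat_lit 89) (nat_lit 1) (nat_lit 90) (nat_lit 1) (nat_lit 401) (nat_lit 384) (nat_lit 235)) (XT.lf (nat_lit 152) (nat_lit 1989669913) (nat_lit 0) (nat_lit 359259792) (nat_lit 76)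 (nat_lit 359259792) (nat_lit 89) (nat_lit 1) (nat_lit 87) (nat_lit 1) (nat_lit 88) (nat_lit 1) (nat_lit 402) (nat_lit 384) (nat_lit 234))) (XT.nd (nat_lit 78) (nat_lit 76) (nat_lit 0) (XT.lf (nat_lit 0) (nat_lit 548348838) (nat_lit 0) (nat_lit 1584577477) (nat_lit 152) (nat_lit 548348838) (nat_lit 87) (nat_lit 3) (nat_lit 87) (nat_lit 1) (nat_lit 89) (nat_lit 1) (nat_lit 403) (nat_lit 384) (nat_lit 233)) (XT.lf (nat_lit 76) (nat_lit 214199267) (nat_lit 0) (nat_lit 1220246490) (nat_lit 76) (nat_lit 1220246490) (nat_lit 87) (nat_lit 3) (nat_lit 86) (nat_lit 1) (nat_lit 87) (nat_lit 1) (nat_lit 404) (nat_lit 384) (nat_lit 232)))) (XT.nd (nat_lit 156) (nat_lit 228) (nat_lit 0) (XT.nd (nat_lit 78) (nat_lit 0) (nat_lit 0) (XT.lf (nat_lit 152) (nat_lit 1990052762) (nat_lit 0) (nat_lit 319197672) (nat_lit 76) (nat_lit 319197672) (nat_lit 86) (nat_lit 1) (nat_lit 84) (nat_lit 1) (nat_lit 85) (nat_lit 1) (nat_lit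 405) (nat_lit 384) (nat_lit 231)) (XT.lf (nat_lit 0) (nat_lit 560552924) (nat_lit 0) (nat_lit 1481228649) (nat_lit 152) (nat_lit 560552924) (nat_lit 84) (nat_lit 3) (nat_lit 84) (nat_lit 1) (nat_lit 86) (nat_lit 1) (nat_lit 406) (nat_lit 384) (nat_lit 230))) (XT.nd (nat_lit 78) (nat_lit 152) (nat_lit 0) (XT.lf (nat_lit 76) (nat_lit 262946220) (nat_lit 0) (nat_lit 1156806147) (nat_lit 76) (nat_lit 1156806147) (nat_lit 84) (nat_lit 3) (nat_lit 83) (nat_lit 1) (nat_lit 84) (nat_lit 1) (nat_lit 407) (nat_lit 384) (nat_lit 229)) (XT.nd (nat_lit 78) (nat_lit 0) (nat_lit 0) (XT.lf (nat_lit 152) (nat_lit 1983919420) (nat_lit 0) (nat_lit 283602997) (nat_lit 76) (nat_lit 283602997) (nat_lit 83) (nat_lit 1) (nat_lit 81) (nat_lit 1) (nat_lit 82) (nat_lit 1) (nat_lit 408) (nat_lit 384) (nat_lit 228)) (XT.lf (nat_lit 0) (nat_lit 569259629) (nat_lit 0) (nat_lit 1387268086) (nat_lit 152) (nat_lit 569259629) (nat_lit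 81) (nat_lit 3) (nat_lit 81) (nat_lit 1) (nat_lit 83) (nat_lit 1) (nat_lit 409) (nat_lit 384) (nat_lit 227)))))) (XT.nd (nat_lit 312) (nat_lit 380) (nat_lit 0) (XT.nd (nat_lit 156) (nat_lit 76) (nat_lit 0) (XT.nd (nat_lit 78) (nat_lit 152) (nat_lit 0) (XT.lf (nat_lit 76) (nat_lit 304141734) (nat_lit 0) (nat_lit 1098324702) (nat_lit 76) (nat_lit 1098324702) (nat_lit 81) (nat_lit 3) (nat_lit 80) (nat_lit 1) (nat_lit 81) (nat_lit 1) (nat_lit 410) (nat_lit 384) (nat_lit 226)) (XT.lf (nat_lit 152) (nat_lit 1972185073) (nat_lit 0) (nat_lit 251977589) (nat_lit 76) (nat_lit 251977589) (nat_lit 80) (nat_lit 1) (nat_lit 78) (nat_lit 1) (nat_lit 79) (nat_lit 1) (nat_lit 411) (nat_lit 384) (nat_lit 225))) (XT.nd (nat_lit 78) (nat_lit 76) (nat_lit 0) (XT.lf (nat_lit 0) (nat_lit 574921181) (nat_lit 0) (nat_lit 1301711100) (nat_lit 152) (nat_lit 574921181) (nat_lit 78) (nat_lit 3) (nat_lit 78) (nat_lit 1) (nat_lit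 80) (nat_lit 1) (nat_lit 412) (nat_lit 384) (nat_lit 224)) (XT.lf (nat_lit 76) (nat_lit 338689510) (nat_lit 0) (nat_lit 1044310790) (nat_lit 76) (nat_lit 1044310790) (nat_lit 78) (nat_lit 3) (nat_lit 77) (nat_lit 1) (nat_lit 78) (nat_lit 1) (nat_lit 413) (nat_lit 384) (nat_lit 223)))) (XT.nd (nat_lit 156) (nat_lit 228) (nat_lit 0) (XT.nd (nat_lit 78) (nat_lit 0) (nat_lit 0) (XT.lf (nat_lit 152) (nat_lit 1955657364) (nat_lit 0) (nat_lit 223878824) (nat_lit 76) (nat_lit 223878824) (nat_lit 77) (nat_lit 1) (nat_lit 75) (nat_lit 1) (nat_lit 76) (nat_lit 1) (nat_lit 414) (nat_lit 384) (nat_lit 222)) (XT.lf (nat_lit 0) (nat_lit 577937571) (nat_lit 0) (nat_lit 1223681001) (nat_lit 152) (nat_lit 577937571) (nat_lit 75) (nat_lit 3) (nat_lit 75) (nat_lit 1) (nat_lit 77) (nat_lit 1) (nat_lit 415) (nat_lit 384) (nat_lit 221))) (XT.nd (nat_lit 78) (nat_lit 152) (nat_lit 0) (XT.lf (nat_lit 76) (nat_lit 367390677)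 (nat_lit 0) (nat_lit 994326046) (nat_lit 76) (nat_lit 994326046) (nat_lit 75) (nat_lit 3) (nat_lit 74) (nat_lit 1) (nat_lit 75) (nat_lit 1) (nat_lit 416) (nat_lit 384) (nat_lit 220)) (XT.nd (nat_lit 78) (nat_lit 0) (nat_lit 0) (XT.lf (nat_lit 152) (nat_lit 1935048540) (nat_lit 0) (nat_lit 198913436) (nat_lit 76) (nat_lit 198913436) (nat_lit 74) (nat_lit 1) (nat_lit 72) (nat_lit 1) (nat_lit 73) (nat_lit 1) (nat_lit 417) (nat_lit 384) (nat_lit 219)) (XT.lf (nat_lit 0) (nat_lit 578662423) (nat_lit 0) (nat_lit 1152397097) (nat_lit 152) (nat_lit 578662423) (nat_lit 72) (nat_lit 3) (nat_lit 72) (nat_lit 1) (nat_lit 74) (nat_lit 1) (nat_lit 418) (nat_lit 384) (nat_lit 218))))))) (XT.nd (nat_lit 702) (nat_lit 304) (nat_lit 0) (XT.nd (nat_lit 312) (nat_lit 380) (nat_lit 0) (XT.nd (nat_lit 156) (nat_lit 76) (nat_lit 0) (XT.nd (nat_lit 78) (nat_lit 152) (nat_lit 0) (XT.lf (nat_lit 76) (nat_lit 390955290) (nat_lit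 0) (nat_lit 947979245) (nat_lit 76) (nat_lit 947979245) (nat_lit 72) (nat_lit 3) (nat_lit 71) (nat_lit 1) (nat_lit 72) (nat_lit 1) (nat_lit 419) (nat_lit 384) (nat_lit 217)) (XT.lf (nat_lit 152) (nat_lit 1910986246) (nat_lit 0) (nat_lit 176732011) (nat_lit 76) (nat_lit 176732011) (nat_lit 71) (nat_lit 1) (nat_lit 69) (nat_lit 1) (nat_lit 70) (nat_lit 1) (nat_lit 420) (nat_lit 384) (nat_lit 216))) (XT.nd (nat_lit 78) (nat_lit 76) (nat_lit 0) (XT.lf (nat_lit 0) (nat_lit 577408220) (nat_lit 0) (nat_lit 1087164047) (nat_lit 152) (nat_lit 577408220) (nat_lit 69) (nat_lit 3) (nat_lit 69) (nat_lit 1) (nat_lit 71) (nat_lit 1) (nat_lit 421) (nat_lit 384) (nat_lit 215)) (XT.lf (nat_lit 76) (nat_lit 410012529) (nat_lit 0) (nat_lit 904921098) (nat_lit 76) (nat_lit 904921098) (nat_lit 69) (nat_lit 3) (nat_lit 68) (nat_lit 1) (nat_lit 69) (nat_lit 1) (nat_lit 422) (nat_lit 384) (nat_lit 214)))) (XT.nd (nat_lit 156)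 (nat_lit 228) (nat_lit 0) (XT.nd (nat_lit 78) (nat_lit 0) (nat_lit 0) (XT.lf (nat_lit 152) (nat_lit 1884023112) (nat_lit 0) (nat_lit 157024103) (nat_lit 76) (nat_lit 157024103) (nat_lit 68) (nat_lit 1) (nat_lit 66) (nat_lit 1) (nat_lit 67) (nat_lit 1) (nat_lit 423) (nat_lit 384) (nat_lit 213)) (XT.lf (nat_lit 0) (nat_lit 574450941) (nat_lit 0) (nat_lit 1027362390) (nat_lit 152) (nat_lit 574450941) (nat_lit 66) (nat_lit 3) (nat_lit 66) (nat_lit 1) (nat_lit 68) (nat_lit 1) (nat_lit 424) (nat_lit 384) (nat_lit 212))) (XT.nd (nat_lit 78) (nat_lit 152) (nat_lit 0) (XT.lf (nat_lit 76) (nat_lit 425119770) (nat_lit 0) (nat_lit 864839624) (nat_lit 76) (nat_lit 864839624) (nat_lit 66) (nat_lit 3) (nat_lit 65) (nat_lit 1) (nat_lit 66) (nat_lit 1) (nat_lit 425) (nat_lit 384) (nat_lit 211)) (XT.nd (nat_lit 78) (nat_lit 0) (nat_lit 0) (XT.lf (nat_lit 152) (nat_lit 1854645262) (nat_lit 0) (nat_lit 139513882) (nat_lit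 76) (nat_lit 139513882) (nat_lit 65) (nat_lit 1) (nat_lit 63) (nat_lit 1) (nat_lit 64) (nat_lit 1) (nat_lit 426) (nat_lit 384) (nat_lit 210)) (XT.lf (nat_lit 0) (nat_lit 570034178) (nat_lit 0) (nat_lit 972440134) (nat_lit 152) (nat_lit 570034178) (nat_lit 63) (nat_lit 3) (nat_lit 63) (nat_lit 1) (nat_lit 65) (nat_lit 1) (nat_lit 427) (nat_lit 384) (nat_lit 209)))))) (XT.nd (nat_lit 39312) (nat_lit 0) (nat_lit 23940) (XT.nd (nat_lit 156) (nat_lit 76) (nat_lit 0) (XT.nd (nat_lit 78) (nat_lit 152) (nat_lit 0) (XT.lf (nat_lit 76) (nat_lit 436770642) (nat_lit 0) (nat_lit 827456036) (nat_lit 76) (nat_lit 827456036) (nat_lit 63) (nat_lit 3) (nat_lit 62) (nat_lit 1) (nat_lit 63) (nat_lit 1) (nat_lit 428) (nat_lit 384) (nat_lit 208)) (XT.lf (nat_lit 152) (nat_lit 1823279876) (nat_lit 0) (nat_lit 123956277) (nat_lit 76) (nat_lit 123956277) (nat_lit 62) (nat_lit 1) (nat_lit 60) (nat_lit 1) (nat_lit 61) (nat_lit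 1) (nat_lit 429) (nat_lit 384) (nat_lit 207))) (XT.nd (nat_lit 78) (nat_lit 76) (nat_lit 0) (XT.lf (nat_lit 0) (nat_lit 564372796) (nat_lit 0) (nat_lit 921905277) (nat_lit 152) (nat_lit 564372796) (nat_lit 60) (nat_lit 3) (nat_lit 60) (nat_lit 1) (nat_lit 62) (nat_lit 1) (nat_lit 430) (nat_lit 384) (nat_lit 206)) (XT.nd (nat_lit 39000) (nat_lit 0) (nat_lit 23940) (XT.lf (nat_lit 76) (nat_lit 445402176) (nat_lit 0) (nat_lit 792521089) (nat_lit 76) (nat_lit 792521089) (nat_lit 60) (nat_lit 3) (nat_lit 59) (nat_lit 1) (nat_lit 60) (nat_lit 1) (nat_lit 431) (nat_lit 384) (nat_lit 205)) (XT.lf (nat_lit 1292) (nat_lit 1410391848) (nat_lit 0) (nat_lit 4852403886) (nat_lit 1292) (nat_lit 1410391848) (nat_lit 391) (nat_lit 1) (nat_lit 374) (nat_lit 0) (nat_lit 391) (nat_lit 0) (nat_lit 250) (nat_lit 385) (nat_lit 385))))) (XT.nd (nat_lit 156) (nat_lit 0) (nat_lit 76) (XT.nd (nat_lit 78) (nat_lit 0) (nat_lit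 76) (XT.lf (nat_lit 1292) (nat_lit 5511836056) (nat_lit 76) (nat_lit 4804831299) (nat_lit 0) (nat_lit 4804831299) (nat_lit 391) (nat_lit 1) (nat_lit 375) (nat_lit 1) (nat_lit 374) (nat_lit 0) (nat_lit 251) (nat_lit 385) (nat_lit 384)) (XT.lf (nat_lit 1292) (nat_lit 2665655334) (nat_lit 0) (nat_lit 9570271783) (nat_lit 1216) (nat_lit 2665655334) (nat_lit 392) (nat_lit 1) (nat_lit 375) (nat_lit 1) (nat_lit 391) (nat_lit 1) (nat_lit 252) (nat_lit 385) (nat_lit 383))) (XT.nd (nat_lit 78) (nat_lit 0) (nat_lit 76) (XT.lf (nat_lit 1292) (nat_lit 5062217109) (nat_lit 76) (nat_lit 4811560832) (nat_lit 0) (nat_lit 4811560832) (nat_lit 392) (nat_lit 1) (nat_lit 376) (nat_lit 1) (nat_lit 375) (nat_lit 1) (nat_lit 253) (nat_lit 385) (nat_lit 382)) (XT.nd (nat_lit 78) (nat_lit 0) (nat_lit 0) (XT.lf (nat_lit 1292) (nat_lit 2375420132) (nat_lit 0) (nat_lit 9723093358) (nat_lit 1216) (nat_lit 2375420132) (nat_lit 393)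 (nat_lit 1) (nat_lit 376) (nat_lit 1) (nat_lit 392) (nat_lit 1) (nat_lit 254) (nat_lit 385) (nat_lit 381)) (XT.lf (nat_lit 1292) (nat_lit 4353208202) (nat_lit 76) (nat_lit 4956350629) (nat_lit 0) (nat_lit 4956350629) (nat_lit 393) (nat_lit 1) (nat_lit 377) (nat_lit 1) (nat_lit 376) (nat_lit 1) (nat_lit 255) (nat_lit 385) (nat_lit 380))))))))
noncomputable def ec225 : XT := (XT.nd (nat_lit 1482) (nat_lit 5320) (nat_lit 0) (XT.nd (nat_lit 702) (nat_lit 2508) (nat_lit 0) (XT.nd (nat_lit 312) (nat_lit 1064) (nat_lit 0) (XT.nd (nat_lit 156) (nat_lit 0) (nat_lit 76) (XT.nd (nat_lit 78) (nat_lit 0) (nat_lit 0) (XT.lf (nat_lit 1292) (nat_lit 1962028293) (nat_lit 0) (nat_lit 10138632298) (nat_lit 1216) (nat_lit 1962028293) (nat_lit 394) (nat_lit 1) (nat_lit 377) (nat_lit 1) (nat_lit 393) (nat_lit 1) (nat_lit 256) (nat_lit 385) (nat_lit 379)) (XT.lf (nat_lit 1292) (nat_lit 3408006175) (nat_lit 76) (nat_lit 5227243040)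 (nat_lit 0) (nat_lit 5227243040) (nat_lit 394) (nat_lit 1) (nat_lit 378) (nat_lit 1) (nat_lit 377) (nat_lit 1) (nat_lit 257) (nat_lit 385) (nat_lit 378))) (XT.nd (nat_lit 78) (nat_lit 0) (nat_lit 0) (XT.lf (nat_lit 1292) (nat_lit 1436621862) (nat_lit 0) (nat_lit 10793900080) (nat_lit 1216) (nat_lit 1436621862) (nat_lit 395) (nat_lit 1) (nat_lit 378) (nat_lit 1) (nat_lit 394) (nat_lit 1) (nat_lit 258) (nat_lit 385) (nat_lit 377)) (XT.lf (nat_lit 1292) (nat_lit 2248234328) (nat_lit 76) (nat_lit 5613084286) (nat_lit 0) (nat_lit 5613084286) (nat_lit 395) (nat_lit 1) (nat_lit 379) (nat_lit 1) (nat_lit 378) (nat_lit 1) (nat_lit 259) (nat_lit 385) (nat_lit 376)))) (XT.nd (nat_lit 156) (nat_lit 1216) (nat_lit 0) (XT.nd (nat_lit 78) (nat_lit 0) (nat_lit 0) (XT.lf (nat_lit 1292) (nat_lit 809584672) (nat_lit 0) (nat_lit 11667458125) (nat_lit 1216) (nat_lit 809584672) (nat_lit 396) (nat_lit 1) (nat_lit 379) (nat_lit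 1) (nat_lit 395) (nat_lit 1) (nat_lit 260) (nat_lit 385) (nat_lit 375)) (XT.lf (nat_lit 1292) (nat_lit 894039796) (nat_lit 76) (nat_lit 6103474886) (nat_lit 0) (nat_lit 6103474886) (nat_lit 396) (nat_lit 1) (nat_lit 380) (nat_lit 1) (nat_lit 379) (nat_lit 1) (nat_lit 261) (nat_lit 385) (nat_lit 374))) (XT.nd (nat_lit 78) (nat_lit 1292) (nat_lit 0) (XT.lf (nat_lit 1292) (nat_lit 90589323) (nat_lit 0) (nat_lit 12739322129) (nat_lit 1216) (nat_lit 90589323) (nat_lit 397) (nat_lit 1) (nat_lit 380) (nat_lit 1) (nat_lit 396) (nat_lit 1) (nat_lit 262) (nat_lit 385) (nat_lit 373)) (XT.nd (nat_lit 78) (nat_lit 0) (nat_lit 0) (XT.lf (nat_lit 1368) (nat_lit 6059020011) (nat_lit 0) (nat_lit 623407832) (nat_lit 1292) (nat_lit 6059020011) (nat_lit 381) (nat_lit 1) (nat_lit 363) (nat_lit 1) (nat_lit 380) (nat_lit 1) (nat_lit 263) (nat_lit 385) (nat_lit 372)) (XT.lf (nat_lit 1368) (nat_lit 11158561034) (nat_lit 76)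 (nat_lit 704384527) (nat_lit 0) (nat_lit 704384527) (nat_lit 381) (nat_lit 1) (nat_lit 364) (nat_lit 1) (nat_lit 363) (nat_lit 1) (nat_lit 264) (nat_lit 385) (nat_lit 371)))))) (XT.nd (nat_lit 390) (nat_lit 1824) (nat_lit 0) (XT.nd (nat_lit 156) (nat_lit 760) (nat_lit 0) (XT.nd (nat_lit 78) (nat_lit 0) (nat_lit 0) (XT.lf (nat_lit 1368) (nat_lit 5058273616) (nat_lit 0) (nat_lit 2278518594) (nat_lit 1292) (nat_lit 5058273616) (nat_lit 382) (nat_lit 1) (nat_lit 364) (nat_lit 1) (nat_lit 381) (nat_lit 1) (nat_lit 265) (nat_lit 385) (nat_lit 370)) (XT.lf (nat_lit 1368) (nat_lit 9082544929) (nat_lit 76) (nat_lit 1572311703) (nat_lit 0) (nat_lit 1572311703) (nat_lit 382) (nat_lit 1) (nat_lit 365) (nat_lit 1) (nat_lit 364) (nat_lit 1) (nat_lit 266) (nat_lit 385) (nat_lit 369))) (XT.nd (nat_lit 78) (nat_lit 836) (nat_lit 0) (XT.lf (nat_lit 76) (nat_lit 3994366505) (nat_lit 0) (nat_lit 4072808843) (nat_lit 1292)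 (nat_lit 3994366505) (nat_lit 366) (nat_lit 1) (nat_lit 365) (nat_lit 1) (nat_lit 382) (nat_lit 1) (nat_lit 267) (nat_lit 385) (nat_lit 368)) (XT.nd (nat_lit 78) (nat_lit 0) (nat_lit 0) (XT.lf (nat_lit 912) (nat_lit 6886850193) (nat_lit 0) (nat_lit 2506363128) (nat_lit 836) (nat_lit 2506363128) (nat_lit 366) (nat_lit 1) (nat_lit 354) (nat_lit 1) (nat_lit 365) (nat_lit 1) (nat_lit 268) (nat_lit 385) (nat_lit 367)) (XT.lf (nat_lit 76) (nat_lit 2874437207) (nat_lit 0) (nat_lit 5991468051) (nat_lit 912) (nat_lit 2874437207) (nat_lit 355) (nat_lit 1) (nat_lit 354) (nat_lit 1) (nat_lit 366) (nat_lit 1) (nat_lit 269) (nat_lit 385) (nat_lit 366))))) (XT.nd (nat_lit 156) (nat_lit 1216) (nat_lit 0) (XT.nd (nat_lit 78) (nat_lit 0) (nat_lit 0) (XT.lf (nat_lit 684) (nat_lit 4585303679) (nat_lit 0) (nat_lit 3499365907) (nat_lit 608) (nat_lit 3499365907) (nat_lit 355) (nat_lit 1) (nat_lit 346) (nat_lit 1) (nat_lit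 354) (nat_lit 1) (nat_lit 270) (nat_lit 385) (nat_lit 365)) (XT.lf (nat_lit 76) (nat_lit 1705112153) (nat_lit 0) (nat_lit 8020734544) (nat_lit 684) (nat_lit 1705112153) (nat_lit 347) (nat_lit 1) (nat_lit 346) (nat_lit 1) (nat_lit 355) (nat_lit 1) (nat_lit 271) (nat_lit 385) (nat_lit 364))) (XT.nd (nat_lit 78) (nat_lit 608) (nat_lit 0) (XT.lf (nat_lit 684) (nat_lit 2190735894) (nat_lit 0) (nat_lit 4544657263) (nat_lit 608) (nat_lit 4544657263) (nat_lit 347) (nat_lit 1) (nat_lit 338) (nat_lit 1) (nat_lit 346) (nat_lit 1) (nat_lit 272) (nat_lit 385) (nat_lit 363)) (XT.nd (nat_lit 78) (nat_lit 608) (nat_lit 0) (XT.lf (nat_lit 76) (nat_lit 492538054) (nat_lit 0) (nat_lit 10147829513) (nat_lit 684) (nat_lit 492538054) (nat_lit 339) (nat_lit 1) (nat_lit 338) (nat_lit 1) (nat_lit 347) (nat_lit 1) (nat_lit 273) (nat_lit 385) (nat_lit 362)) (XT.lf (nat_lit 76) (nat_lit 5353835655) (nat_lit 0) (nat_lit 279395382)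 (nat_lit 608) (nat_lit 5353835655) (nat_lit 331) (nat_lit 1) (nat_lit 330) (nat_lit 1) (nat_lit 338) (nat_lit 1) (nat_lit 274) (nat_lit 385) (nat_lit 361))))))) (XT.nd (nat_lit 702) (nat_lit 2584) (nat_lit 0) (XT.nd (nat_lit 312) (nat_lit 1596) (nat_lit 0) (XT.nd (nat_lit 156) (nat_lit 532) (nat_lit 0) (XT.nd (nat_lit 78) (nat_lit 0) (nat_lit 0) (XT.lf (nat_lit 684) (nat_lit 9344520656) (nat_lit 0) (nat_lit 750160338) (nat_lit 608) (nat_lit 750160338) (nat_lit 331) (nat_lit 1) (nat_lit 322) (nat_lit 1) (nat_lit 330) (nat_lit 1) (nat_lit 275) (nat_lit 385) (nat_lit 360)) (XT.lf (nat_lit 76) (nat_lit 3964276706) (nat_lit 0) (nat_lit 2775510287) (nat_lit 684) (nat_lit 3964276706) (nat_lit 323) (nat_lit 1) (nat_lit 322) (nat_lit 1) (nat_lit 331) (nat_lit 1) (nat_lit 276) (nat_lit 385) (nat_lit 359))) (XT.nd (nat_lit 78) (nat_lit 0) (nat_lit 0) (XT.lf (nat_lit 608) (nat_lit 6526617050) (nat_lit 0) (nat_lit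 2019988394) (nat_lit 532) (nat_lit 2019988394) (nat_lit 323) (nat_lit 1) (nat_lit 315) (nat_lit 1) (nat_lit 322) (nat_lit 1) (nat_lit 277) (nat_lit 385) (nat_lit 358)) (XT.lf (nat_lit 76) (nat_lit 2550446906) (nat_lit 0) (nat_lit 5330352005) (nat_lit 608) (nat_lit 2550446906) (nat_lit 316) (nat_lit 1) (nat_lit 315) (nat_lit 1) (nat_lit 323) (nat_lit 1) (nat_lit 278) (nat_lit 385) (nat_lit 357)))) (XT.nd (nat_lit 156) (nat_lit 1064) (nat_lit 0) (XT.nd (nat_lit 78) (nat_lit 0) (nat_lit 0) (XT.lf (nat_lit 608) (nat_lit 3664438143) (nat_lit 0) (nat_lit 3316939871) (nat_lit 532) (nat_lit 3316939871) (nat_lit 316) (nat_lit 1) (nat_lit 308) (nat_lit 1) (nat_lit 315) (nat_lit 1) (nat_lit 279) (nat_lit 385) (nat_lit 356)) (XT.lf (nat_lit 76) (nat_lit 1116769710) (nat_lit 0) (nat_lit 7934665473) (nat_lit 608) (nat_lit 1116769710) (nat_lit 309) (nat_lit 1) (nat_lit 308) (nat_lit 1) (nat_lit 316) (nat_lit 1) (nat_lit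 280) (nat_lit 385) (nat_lit 355))) (XT.nd (nat_lit 78) (nat_lit 608) (nat_lit 0) (XT.lf (nat_lit 532) (nat_lit 766526524) (nat_lit 0) (nat_lit 4636544663) (nat_lit 456) (nat_lit 4636544663) (nat_lit 309) (nat_lit 1) (nat_lit 302) (nat_lit 1) (nat_lit 308) (nat_lit 1) (nat_lit 281) (nat_lit 385) (nat_lit 354)) (XT.nd (nat_lit 78) (nat_lit 0) (nat_lit 0) (XT.lf (nat_lit 608) (nat_lit 9255341186) (nat_lit 0) (nat_lit 329412100) (nat_lit 532) (nat_lit 329412100) (nat_lit 302) (nat_lit 1) (nat_lit 294) (nat_lit 1) (nat_lit 301) (nat_lit 1) (nat_lit 282) (nat_lit 385) (nat_lit 353)) (XT.lf (nat_lit 76) (nat_lit 3836189671) (nat_lit 0) (nat_lit 2117105826) (nat_lit 608) (nat_lit 3836189671) (nat_lit 295) (nat_lit 1) (nat_lit 294) (nat_lit 1) (nat_lit 302) (nat_lit 1) (nat_lit 283) (nat_lit 385) (nat_lit 352)))))) (XT.nd (nat_lit 390) (nat_lit 1216) (nat_lit 0) (XT.nd (nat_lit 156) (nat_lit 912) (nat_lit 0)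 (XT.nd (nat_lit 78) (nat_lit 0) (nat_lit 0) (XT.lf (nat_lit 532) (nat_lit 6114767246) (nat_lit 0) (nat_lit 1776532313) (nat_lit 456) (nat_lit 1776532313) (nat_lit 295) (nat_lit 1) (nat_lit 288) (nat_lit 1) (nat_lit 294) (nat_lit 1) (nat_lit 284) (nat_lit 385) (nat_lit 351)) (XT.lf (nat_lit 76) (nat_lit 2270990120) (nat_lit 0) (nat_lit 5005978269) (nat_lit 532) (nat_lit 2270990120) (nat_lit 289) (nat_lit 1) (nat_lit 288) (nat_lit 1) (nat_lit 295) (nat_lit 1) (nat_lit 285) (nat_lit 385) (nat_lit 350))) (XT.nd (nat_lit 78) (nat_lit 456) (nat_lit 0) (XT.lf (nat_lit 532) (nat_lit 2965924348) (nat_lit 0) (nat_lit 3232111396) (nat_lit 456) (nat_lit 3232111396) (nat_lit 289) (nat_lit 1) (nat_lit 282) (nat_lit 1) (nat_lit 288) (nat_lit 1) (nat_lit 286) (nat_lit 385) (nat_lit 349)) (XT.nd (nat_lit 78) (nat_lit 456) (nat_lit 0) (XT.lf (nat_lit 76) (nat_lit 703203704) (nat_lit 0) (nat_lit 7908504455) (nat_lit 532)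 (nat_lit 703203704) (nat_lit 283) (nat_lit 1) (nat_lit 282) (nat_lit 1) (nat_lit 289) (nat_lit 1) (nat_lit 287) (nat_lit 385) (nat_lit 348)) (XT.lf (nat_lit 76) (nat_lit 4509557261) (nat_lit 0) (nat_lit 181606735) (nat_lit 456) (nat_lit 4509557261) (nat_lit 277) (nat_lit 1) (nat_lit 276) (nat_lit 1) (nat_lit 282) (nat_lit 1) (nat_lit 288) (nat_lit 385) (nat_lit 347))))) (XT.nd (nat_lit 156) (nat_lit 760) (nat_lit 0) (XT.nd (nat_lit 78) (nat_lit 0) (nat_lit 0) (XT.lf (nat_lit 532) (nat_lit 7377303294) (nat_lit 0) (nat_lit 855854966) (nat_lit 456) (nat_lit 855854966) (nat_lit 277) (nat_lit 1) (nat_lit 270) (nat_lit 1) (nat_lit 276) (nat_lit 1) (nat_lit 289) (nat_lit 385) (nat_lit 346)) (XT.lf (nat_lit 76) (nat_lit 2855134601) (nat_lit 0) (nat_lit 3268162170) (nat_lit 532) (nat_lit 2855134601) (nat_lit 271) (nat_lit 1) (nat_lit 270) (nat_lit 1) (nat_lit 277) (nat_lit 1) (nat_lit 290) (nat_lit 385) (nat_lit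 345))) (XT.nd (nat_lit 78) (nat_lit 380) (nat_lit 0) (XT.lf (nat_lit 456) (nat_lit 4059748698) (nat_lit 0) (nat_lit 2405194213) (nat_lit 380) (nat_lit 2405194213) (nat_lit 271) (nat_lit 1) (nat_lit 265) (nat_lit 1) (nat_lit 270) (nat_lit 1) (nat_lit 291) (nat_lit 385) (nat_lit 344)) (XT.nd (nat_lit 78) (nat_lit 380) (nat_lit 0) (XT.lf (nat_lit 76) (nat_lit 1208553037) (nat_lit 0) (nat_lit 6346720259) (nat_lit 456) (nat_lit 1208553037) (nat_lit 266) (nat_lit 1) (nat_lit 265) (nat_lit 1) (nat_lit 271) (nat_lit 1) (nat_lit 292) (nat_lit 385) (nat_lit 343)) (XT.lf (nat_lit 456) (nat_lit 760084663) (nat_lit 0) (nat_lit 3949357498) (nat_lit 380) (nat_lit 3949357498) (nat_lit 266) (nat_lit 1) (nat_lit 260) (nat_lit 1) (nat_lit 265) (nat_lit 1) (nat_lit 293) (nat_lit 385) (nat_lit 342))))))))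
noncomputable def ec226 : XT := (XT.nd (nat_lit 1482) (nat_lit 2584) (nat_lit 0) (XT.nd (nat_lit 702) (nat_lit 2204) (nat_lit 0) (XT.nd (nat_lit 312) (nat_lit 1064) (nat_lit 0) (XT.nd (nat_lit 156) (nat_lit 380) (nat_lit 0) (XT.nd (nat_lit 78) (nat_lit 0) (nat_lit 0) (XT.lf (nat_lit 456) (nat_lit 7708311045) (nat_lit 0) (nat_lit 423902733) (nat_lit 380) (nat_lit 423902733) (nat_lit 260) (nat_lit 1) (nat_lit 254) (nat_lit 1) (nat_lit 259) (nat_lit 1) (nat_lit 294) (nat_lit 385) (nat_lit 341)) (XT.lf (nat_lit 76) (nat_lit 2992713780) (nat_lit 0) (nat_lit 2468560855) (nat_lit 456) (nat_lit 2992713780) (nat_lit 255) (nat_lit 1) (nat_lit 254) (nat_lit 1) (nat_lit 260) (nat_lit 1) (nat_lit 295) (nat_lit 385) (nat_lit 340))) (XT.nd (nat_lit 78) (nat_lit 0) (nat_lit 0) (XT.lf (nat_lit 456) (nat_lit 4288523571) (nat_lit 0) (nat_lit 2032803227) (nat_lit 380) (nat_lit 2032803227) (nat_lit 255) (nat_lit 1) (nat_lit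 249) (nat_lit 1) (nat_lit 254) (nat_lit 1) (nat_lit 296) (nat_lit 385) (nat_lit 339)) (XT.lf (nat_lit 76) (nat_lit 1299291670) (nat_lit 0) (nat_lit 5657360073) (nat_lit 456) (nat_lit 1299291670) (nat_lit 250) (nat_lit 1) (nat_lit 249) (nat_lit 1) (nat_lit 255) (nat_lit 1) (nat_lit 297) (nat_lit 385) (nat_lit 338)))) (XT.nd (nat_lit 156) (nat_lit 304) (nat_lit 0) (XT.nd (nat_lit 78) (nat_lit 456) (nat_lit 0) (XT.lf (nat_lit 380) (nat_lit 902400356) (nat_lit 0) (nat_lit 3628300392) (nat_lit 304) (nat_lit 3628300392) (nat_lit 250) (nat_lit 1) (nat_lit 245) (nat_lit 1) (nat_lit 249) (nat_lit 1) (nat_lit 298) (nat_lit 385) (nat_lit 337)) (XT.lf (nat_lit 456) (nat_lit 7318257059) (nat_lit 0) (nat_lit 372964233) (nat_lit 380) (nat_lit 372964233) (nat_lit 245) (nat_lit 1) (nat_lit 239) (nat_lit 1) (nat_lit 244) (nat_lit 1) (nat_lit 299) (nat_lit 385) (nat_lit 336))) (XT.nd (nat_lit 78) (nat_lit 304) (nat_lit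 0) (XT.lf (nat_lit 76) (nat_lit 2785134684) (nat_lit 0) (nat_lit 2399499081) (nat_lit 456) (nat_lit 2785134684) (nat_lit 240) (nat_lit 1) (nat_lit 239) (nat_lit 1) (nat_lit 245) (nat_lit 1) (nat_lit 300) (nat_lit 385) (nat_lit 335)) (XT.nd (nat_lit 78) (nat_lit 0) (nat_lit 0) (XT.lf (nat_lit 380) (nat_lit 3849669439) (nat_lit 0) (nat_lit 2013873383) (nat_lit 304) (nat_lit 2013873383) (nat_lit 240) (nat_lit 1) (nat_lit 235) (nat_lit 1) (nat_lit 239) (nat_lit 1) (nat_lit 301) (nat_lit 385) (nat_lit 334)) (XT.lf (nat_lit 76) (nat_lit 1070534266) (nat_lit 0) (nat_lit 5645575138) (nat_lit 380) (nat_lit 1070534266) (nat_lit 236) (nat_lit 1) (nat_lit 235) (nat_lit 1) (nat_lit 240) (nat_lit 1) (nat_lit 302) (nat_lit 385) (nat_lit 333)))))) (XT.nd (nat_lit 390) (nat_lit 1216) (nat_lit 0) (XT.nd (nat_lit 156) (nat_lit 304) (nat_lit 0) (XT.nd (nat_lit 78) (nat_lit 380) (nat_lit 0) (XT.lf (nat_lit 380) (nat_lit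 426883924) (nat_lit 0) (nat_lit 3635009486) (nat_lit 304) (nat_lit 3635009486) (nat_lit 236) (nat_lit 1) (nat_lit 231) (nat_lit 1) (nat_lit 235) (nat_lit 1) (nat_lit 303) (nat_lit 385) (nat_lit 332)) (XT.lf (nat_lit 380) (nat_lit 6379506106) (nat_lit 0) (nat_lit 614713502) (nat_lit 304) (nat_lit 614713502) (nat_lit 231) (nat_lit 1) (nat_lit 226) (nat_lit 1) (nat_lit 230) (nat_lit 1) (nat_lit 304) (nat_lit 385) (nat_lit 331))) (XT.nd (nat_lit 78) (nat_lit 304) (nat_lit 0) (XT.lf (nat_lit 76) (nat_lit 2315417079) (nat_lit 0) (nat_lit 2890732163) (nat_lit 380) (nat_lit 2315417079) (nat_lit 227) (nat_lit 1) (nat_lit 226) (nat_lit 1) (nat_lit 231) (nat_lit 1) (nat_lit 305) (nat_lit 385) (nat_lit 330)) (XT.nd (nat_lit 78) (nat_lit 0) (nat_lit 0) (XT.lf (nat_lit 380) (nat_lit 2904753891) (nat_lit 0) (nat_lit 2265582426) (nat_lit 304) (nat_lit 2265582426) (nat_lit 227) (nat_lit 1) (nat_lit 222) (nat_lit 1)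 (nat_lit 226) (nat_lit 1) (nat_lit 306) (nat_lit 385) (nat_lit 329)) (XT.lf (nat_lit 76) (nat_lit 600093934) (nat_lit 0) (nat_lit 6151740220) (nat_lit 380) (nat_lit 600093934) (nat_lit 223) (nat_lit 1) (nat_lit 222) (nat_lit 1) (nat_lit 227) (nat_lit 1) (nat_lit 307) (nat_lit 385) (nat_lit 328))))) (XT.nd (nat_lit 156) (nat_lit 608) (nat_lit 0) (XT.nd (nat_lit 78) (nat_lit 304) (nat_lit 0) (XT.lf (nat_lit 76) (nat_lit 3381743570) (nat_lit 0) (nat_lit 504991459) (nat_lit 304) (nat_lit 3381743570) (nat_lit 219) (nat_lit 1) (nat_lit 218) (nat_lit 1) (nat_lit 222) (nat_lit 1) (nat_lit 308) (nat_lit 385) (nat_lit 327)) (XT.lf (nat_lit 380) (nat_lit 5032751796) (nat_lit 0) (nat_lit 1076944116) (nat_lit 304) (nat_lit 1076944116) (nat_lit 219) (nat_lit 1) (nat_lit 214) (nat_lit 1) (nat_lit 218) (nat_lit 1) (nat_lit 309) (nat_lit 385) (nat_lit 326))) (XT.nd (nat_lit 78) (nat_lit 608) (nat_lit 0) (XT.lf (nat_lit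 76) (nat_lit 1651298496) (nat_lit 0) (nat_lit 3803136776) (nat_lit 380) (nat_lit 1651298496) (nat_lit 215) (nat_lit 1) (nat_lit 214) (nat_lit 1) (nat_lit 219) (nat_lit 1) (nat_lit 310) (nat_lit 385) (nat_lit 325)) (XT.nd (nat_lit 78) (nat_lit 380) (nat_lit 0) (XT.lf (nat_lit 304) (nat_lit 1585549395) (nat_lit 0) (nat_lit 2720274309) (nat_lit 228) (nat_lit 2720274309) (nat_lit 215) (nat_lit 1) (nat_lit 211) (nat_lit 1) (nat_lit 214) (nat_lit 1) (nat_lit 311) (nat_lit 385) (nat_lit 324)) (XT.lf (nat_lit 380) (nat_lit 6852035355) (nat_lit 0) (nat_lit 48116408) (nat_lit 304) (nat_lit 48116408) (nat_lit 211) (nat_lit 1) (nat_lit 206) (nat_lit 1) (nat_lit 210) (nat_lit 1) (nat_lit 312) (nat_lit 385) (nat_lit 323))))))) (XT.nd (nat_lit 702) (nat_lit 1292) (nat_lit 0) (XT.nd (nat_lit 312) (nat_lit 760) (nat_lit 0) (XT.nd (nat_lit 156) (nat_lit 304) (nat_lit 0) (XT.nd (nat_lit 78) (nat_lit 228) (nat_lit 0) (XT.lf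 (nat_lit 76) (nat_lit 2552713451) (nat_lit 0) (nat_lit 1764858416) (nat_lit 380) (nat_lit 2552713451) (nat_lit 207) (nat_lit 1) (nat_lit 206) (nat_lit 1) (nat_lit 211) (nat_lit 1) (nat_lit 313) (nat_lit 385) (nat_lit 322)) (XT.lf (nat_lit 304) (nat_lit 3392388009) (nat_lit 0) (nat_lit 1700840922) (nat_lit 228) (nat_lit 1700840922) (nat_lit 207) (nat_lit 1) (nat_lit 203) (nat_lit 1) (nat_lit 206) (nat_lit 1) (nat_lit 314) (nat_lit 385) (nat_lit 321))) (XT.nd (nat_lit 78) (nat_lit 304) (nat_lit 0) (XT.lf (nat_lit 76) (nat_lit 847827726) (nat_lit 0) (nat_lit 5023440515) (nat_lit 304) (nat_lit 847827726) (nat_lit 204) (nat_lit 1) (nat_lit 203) (nat_lit 1) (nat_lit 207) (nat_lit 1) (nat_lit 315) (nat_lit 385) (nat_lit 320)) (XT.lf (nat_lit 76) (nat_lit 3321990824) (nat_lit 0) (nat_lit 889425) (nat_lit 304) (nat_lit 3321990824) (nat_lit 200) (nat_lit 1) (nat_lit 199) (nat_lit 1) (nat_lit 203) (nat_lit 1)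 (nat_lit 316) (nat_lit 385) (nat_lit 319)))) (XT.nd (nat_lit 156) (nat_lit 532) (nat_lit 0) (XT.nd (nat_lit 78) (nat_lit 0) (nat_lit 0) (XT.lf (nat_lit 304) (nat_lit 4939964564) (nat_lit 0) (nat_lit 815944482) (nat_lit 228) (nat_lit 815944482) (nat_lit 200) (nat_lit 1) (nat_lit 196) (nat_lit 1) (nat_lit 199) (nat_lit 1) (nat_lit 317) (nat_lit 385) (nat_lit 318)) (XT.lf (nat_lit 76) (nat_lit 1618334252) (nat_lit 0) (nat_lit 3262869623) (nat_lit 304) (nat_lit 1618334252) (nat_lit 197) (nat_lit 1) (nat_lit 196) (nat_lit 1) (nat_lit 200) (nat_lit 1) (nat_lit 318) (nat_lit 385) (nat_lit 317))) (XT.nd (nat_lit 78) (nat_lit 304) (nat_lit 0) (XT.lf (nat_lit 304) (nat_lit 1550994091) (nat_lit 0) (nat_lit 2438701596) (nat_lit 228) (nat_lit 2438701596) (nat_lit 197) (nat_lit 1) (nat_lit 193) (nat_lit 1) (nat_lit 196) (nat_lit 1) (nat_lit 319) (nat_lit 385) (nat_lit 316)) (XT.nd (nat_lit 78) (nat_lit 0) (nat_lit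 0) (XT.lf (nat_lit 304) (nat_lit 6258872936) (nat_lit 0) (nat_lit 49974891) (nat_lit 228) (nat_lit 49974891) (nat_lit 193) (nat_lit 1) (nat_lit 189) (nat_lit 1) (nat_lit 192) (nat_lit 1) (nat_lit 320) (nat_lit 385) (nat_lit 315)) (XT.lf (nat_lit 76) (nat_lit 2277723680) (nat_lit 0) (nat_lit 1733588068) (nat_lit 304) (nat_lit 2277723680) (nat_lit 190) (nat_lit 1) (nat_lit 189) (nat_lit 1) (nat_lit 193) (nat_lit 1) (nat_lit 321) (nat_lit 385) (nat_lit 314)))))) (XT.nd (nat_lit 390) (nat_lit 608) (nat_lit 0) (XT.nd (nat_lit 156) (nat_lit 456) (nat_lit 0) (XT.nd (nat_lit 78) (nat_lit 0) (nat_lit 0) (XT.lf (nat_lit 304) (nat_lit 2884640163) (nat_lit 0) (nat_lit 1668072794) (nat_lit 228) (nat_lit 1668072794) (nat_lit 190) (nat_lit 1) (nat_lit 186) (nat_lit 1) (nat_lit 189) (nat_lit 1) (nat_lit 322) (nat_lit 385) (nat_lit 313)) (XT.lf (nat_lit 76) (nat_lit 616968229) (nat_lit 0) (nat_lit 4919755602) (nat_lit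 304) (nat_lit 616968229) (nat_lit 187) (nat_lit 1) (nat_lit 186) (nat_lit 1) (nat_lit 190) (nat_lit 1) (nat_lit 323) (nat_lit 385) (nat_lit 312))) (XT.nd (nat_lit 78) (nat_lit 228) (nat_lit 0) (XT.lf (nat_lit 76) (nat_lit 2839120861) (nat_lit 0) (nat_lit 408785758) (nat_lit 228) (nat_lit 2839120861) (nat_lit 184) (nat_lit 1) (nat_lit 183) (nat_lit 1) (nat_lit 186) (nat_lit 1) (nat_lit 324) (nat_lit 385) (nat_lit 311)) (XT.nd (nat_lit 78) (nat_lit 0) (nat_lit 0) (XT.lf (nat_lit 304) (nat_lit 4025685812) (nat_lit 0) (nat_lit 997903803) (nat_lit 228) (nat_lit 997903803) (nat_lit 184) (nat_lit 1) (nat_lit 180) (nat_lit 1) (nat_lit 183) (nat_lit 1) (nat_lit 325) (nat_lit 385) (nat_lit 310)) (XT.lf (nat_lit 76) (nat_lit 1190702161) (nat_lit 0) (nat_lit 3575302871) (nat_lit 304) (nat_lit 1190702161) (nat_lit 181) (nat_lit 1) (nat_lit 180) (nat_lit 1) (nat_lit 184) (nat_lit 1) (nat_lit 326) (nat_lit 385) (nat_lit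 309))))) (XT.nd (nat_lit 156) (nat_lit 152) (nat_lit 0) (XT.nd (nat_lit 78) (nat_lit 304) (nat_lit 0) (XT.lf (nat_lit 228) (nat_lit 749962538) (nat_lit 0) (nat_lit 2571412239) (nat_lit 152) (nat_lit 2571412239) (nat_lit 181) (nat_lit 1) (nat_lit 178) (nat_lit 1) (nat_lit 180) (nat_lit 1) (nat_lit 327) (nat_lit 385) (nat_lit 308)) (XT.lf (nat_lit 304) (nat_lit 4996886587) (nat_lit 0) (nat_lit 416569002) (nat_lit 228) (nat_lit 416569002) (nat_lit 178) (nat_lit 1) (nat_lit 174) (nat_lit 1) (nat_lit 177) (nat_lit 1) (nat_lit 328) (nat_lit 385) (nat_lit 307))) (XT.nd (nat_lit 78) (nat_lit 152) (nat_lit 0) (XT.lf (nat_lit 76) (nat_lit 1681742750) (nat_lit 0) (nat_lit 2403953730) (nat_lit 304) (nat_lit 1681742750) (nat_lit 175) (nat_lit 1) (nat_lit 174) (nat_lit 1) (nat_lit 178) (nat_lit 1) (nat_lit 329) (nat_lit 385) (nat_lit 306)) (XT.nd (nat_lit 78) (nat_lit 0) (nat_lit 0) (XT.lf (nat_lit 228) (nat_lit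 1754091029) (nat_lit 0) (nat_lit 1975949632) (nat_lit 152) (nat_lit 1975949632) (nat_lit 175) (nat_lit 1) (nat_lit 172) (nat_lit 1) (nat_lit 174) (nat_lit 1) (nat_lit 330) (nat_lit 385) (nat_lit 305)) (XT.lf (nat_lit 76) (nat_lit 87102444) (nat_lit 0) (nat_lit 5471620401) (nat_lit 228) (nat_lit 87102444) (nat_lit 173) (nat_lit 1) (nat_lit 172) (nat_lit 1) (nat_lit 175) (nat_lit 1) (nat_lit 331) (nat_lit 385) (nat_lit 304))))))))
noncomputable def ec227 : XT := (XT.nd (nat_lit 1482) (nat_lit 1824) (nat_lit 0) (XT.nd (nat_lit 702) (nat_lit 1140) (nat_lit 0) (XT.nd (nat_lit 312) (nat_lit 532) (nat_lit 0) (XT.nd (nat_lit 156) (nat_lit 228) (nat_lit 0) (XT.nd (nat_lit 78) (nat_lit 152) (nat_lit 0) (XT.lf (nat_lit 76) (nat_lit 2099856459) (nat_lit 0) (nat_lit 1385729750) (nat_lit 228) (nat_lit 2099856459) (nat_lit 170) (nat_lit 1) (nat_lit 169) (nat_lit 1) (nat_lit 172) (nat_lit 1) (nat_lit 332) (nat_lit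 385) (nat_lit 303)) (XT.lf (nat_lit 228) (nat_lit 2614563887) (nat_lit 0) (nat_lit 1455880571) (nat_lit 152) (nat_lit 1455880571) (nat_lit 170) (nat_lit 1) (nat_lit 167) (nat_lit 1) (nat_lit 169) (nat_lit 1) (nat_lit 333) (nat_lit 385) (nat_lit 302))) (XT.nd (nat_lit 78) (nat_lit 228) (nat_lit 0) (XT.lf (nat_lit 76) (nat_lit 524848736) (nat_lit 0) (nat_lit 4418477805) (nat_lit 228) (nat_lit 524848736) (nat_lit 168) (nat_lit 1) (nat_lit 167) (nat_lit 1) (nat_lit 170) (nat_lit 1) (nat_lit 334) (nat_lit 385) (nat_lit 301)) (XT.lf (nat_lit 76) (nat_lit 2453704788) (nat_lit 0) (nat_lit 502900019) (nat_lit 228) (nat_lit 2453704788) (nat_lit 165) (nat_lit 1) (nat_lit 164) (nat_lit 1) (nat_lit 167) (nat_lit 1) (nat_lit 335) (nat_lit 385) (nat_lit 300)))) (XT.nd (nat_lit 156) (nat_lit 380) (nat_lit 0) (XT.nd (nat_lit 78) (nat_lit 0) (nat_lit 0) (XT.lf (nat_lit 228) (nat_lit 3348323359) (nat_lit 0) (nat_lit 1002535803)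 (nat_lit 152) (nat_lit 1002535803) (nat_lit 165) (nat_lit 1) (nat_lit 162) (nat_lit 1) (nat_lit 164) (nat_lit 1) (nat_lit 336) (nat_lit 385) (nat_lit 299)) (XT.lf (nat_lit 76) (nat_lit 900747851) (nat_lit 0) (nat_lit 3495676754) (nat_lit 228) (nat_lit 900747851) (nat_lit 163) (nat_lit 1) (nat_lit 162) (nat_lit 1) (nat_lit 165) (nat_lit 1) (nat_lit 337) (nat_lit 385) (nat_lit 298))) (XT.nd (nat_lit 78) (nat_lit 228) (nat_lit 0) (XT.lf (nat_lit 228) (nat_lit 265449939) (nat_lit 0) (nat_lit 2488069682) (nat_lit 152) (nat_lit 2488069682) (nat_lit 163) (nat_lit 1) (nat_lit 160) (nat_lit 1) (nat_lit 162) (nat_lit 1) (nat_lit 338) (nat_lit 385) (nat_lit 297)) (XT.nd (nat_lit 78) (nat_lit 0) (nat_lit 0) (XT.lf (nat_lit 228) (nat_lit 3970395539) (nat_lit 0) (nat_lit 608220437) (nat_lit 152) (nat_lit 608220437) (nat_lit 160) (nat_lit 1) (nat_lit 157) (nat_lit 1) (nat_lit 159) (nat_lit 1) (nat_lit 339) (nat_lit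 385) (nat_lit 296)) (XT.lf (nat_lit 76) (nat_lit 1222076146) (nat_lit 0) (nat_lit 2688306679) (nat_lit 228) (nat_lit 1222076146) (nat_lit 158) (nat_lit 1) (nat_lit 157) (nat_lit 1) (nat_lit 160) (nat_lit 1) (nat_lit 340) (nat_lit 385) (nat_lit 295)))))) (XT.nd (nat_lit 390) (nat_lit 608) (nat_lit 0) (XT.nd (nat_lit 156) (nat_lit 152) (nat_lit 0) (XT.nd (nat_lit 78) (nat_lit 228) (nat_lit 0) (XT.lf (nat_lit 228) (nat_lit 936006785) (nat_lit 0) (nat_lit 2071445451) (nat_lit 152) (nat_lit 2071445451) (nat_lit 158) (nat_lit 1) (nat_lit 155) (nat_lit 1) (nat_lit 157) (nat_lit 1) (nat_lit 341) (nat_lit 385) (nat_lit 294)) (XT.lf (nat_lit 228) (nat_lit 4494104819) (nat_lit 0) (nat_lit 266105070) (nat_lit 152) (nat_lit 266105070) (nat_lit 155) (nat_lit 1) (nat_lit 152) (nat_lit 1) (nat_lit 154) (nat_lit 1) (nat_lit 342) (nat_lit 385) (nat_lit 293))) (XT.nd (nat_lit 78) (nat_lit 152) (nat_lit 0) (XT.lf (nat_lit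 76) (nat_lit 1495287513) (nat_lit 0) (nat_lit 1983130673) (nat_lit 228) (nat_lit 1495287513) (nat_lit 153) (nat_lit 1) (nat_lit 152) (nat_lit 1) (nat_lit 155) (nat_lit 1) (nat_lit 343) (nat_lit 385) (nat_lit 292)) (XT.nd (nat_lit 78) (nat_lit 0) (nat_lit 0) (XT.lf (nat_lit 228) (nat_lit 1511394908) (nat_lit 0) (nat_lit 1705333779) (nat_lit 152) (nat_lit 1705333779) (nat_lit 153) (nat_lit 1) (nat_lit 150) (nat_lit 1) (nat_lit 152) (nat_lit 1) (nat_lit 344) (nat_lit 385) (nat_lit 291)) (XT.lf (nat_lit 76) (nat_lit 30166699) (nat_lit 0) (nat_lit 4811154150) (nat_lit 228) (nat_lit 30166699) (nat_lit 151) (nat_lit 1) (nat_lit 150) (nat_lit 1) (nat_lit 153) (nat_lit 1) (nat_lit 345) (nat_lit 385) (nat_lit 290))))) (XT.nd (nat_lit 156) (nat_lit 304) (nat_lit 0) (XT.nd (nat_lit 78) (nat_lit 152) (nat_lit 0) (XT.lf (nat_lit 76) (nat_lit 1726105420) (nat_lit 0) (nat_lit 1368398547) (nat_lit 152) (nat_lit 1726105420)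 (nat_lit 149) (nat_lit 1) (nat_lit 148) (nat_lit 1) (nat_lit 150) (nat_lit 1) (nat_lit 346) (nat_lit 385) (nat_lit 289)) (XT.lf (nat_lit 228) (nat_lit 2002820821) (nat_lit 0) (nat_lit 1383983795) (nat_lit 152) (nat_lit 1383983795) (nat_lit 149) (nat_lit 1) (nat_lit 146) (nat_lit 1) (nat_lit 148) (nat_lit 1) (nat_lit 347) (nat_lit 385) (nat_lit 288))) (XT.nd (nat_lit 78) (nat_lit 304) (nat_lit 0) (XT.lf (nat_lit 76) (nat_lit 287908068) (nat_lit 0) (nat_lit 4146024824) (nat_lit 228) (nat_lit 287908068) (nat_lit 147) (nat_lit 1) (nat_lit 146) (nat_lit 1) (nat_lit 149) (nat_lit 1) (nat_lit 348) (nat_lit 385) (nat_lit 287)) (XT.nd (nat_lit 78) (nat_lit 152) (nat_lit 0) (XT.lf (nat_lit 76) (nat_lit 1919604669) (nat_lit 0) (nat_lit 833680725) (nat_lit 152) (nat_lit 1919604669) (nat_lit 145) (nat_lit 1) (nat_lit 144) (nat_lit 1) (nat_lit 146) (nat_lit 1) (nat_lit 349) (nat_lit 385) (nat_lit 286)) (XT.lf (nat_lit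 228) (nat_lit 2420224069) (nat_lit 0) (nat_lit 1102289365) (nat_lit 152) (nat_lit 1102289365) (nat_lit 145) (nat_lit 1) (nat_lit 142) (nat_lit 1) (nat_lit 144) (nat_lit 1) (nat_lit 350) (nat_lit 385) (nat_lit 285))))))) (XT.nd (nat_lit 702) (nat_lit 912) (nat_lit 0) (XT.nd (nat_lit 312) (nat_lit 608) (nat_lit 0) (XT.nd (nat_lit 156) (nat_lit 152) (nat_lit 0) (XT.nd (nat_lit 78) (nat_lit 152) (nat_lit 0) (XT.lf (nat_lit 76) (nat_lit 509302926) (nat_lit 0) (nat_lit 3558812344) (nat_lit 228) (nat_lit 509302926) (nat_lit 143) (nat_lit 1) (nat_lit 142) (nat_lit 1) (nat_lit 145) (nat_lit 1) (nat_lit 351) (nat_lit 385) (nat_lit 284)) (XT.lf (nat_lit 76) (nat_lit 2080284041) (nat_lit 0) (nat_lit 369720681) (nat_lit 152) (nat_lit 2080284041) (nat_lit 141) (nat_lit 1) (nat_lit 140) (nat_lit 1) (nat_lit 142) (nat_lit 1) (nat_lit 352) (nat_lit 385) (nat_lit 283))) (XT.nd (nat_lit 78) (nat_lit 0) (nat_lit 0) (XT.lf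 (nat_lit 228) (nat_lit 2772419011) (nat_lit 0) (nat_lit 855717095) (nat_lit 152) (nat_lit 855717095) (nat_lit 141) (nat_lit 1) (nat_lit 138) (nat_lit 1) (nat_lit 140) (nat_lit 1) (nat_lit 353) (nat_lit 385) (nat_lit 282)) (XT.lf (nat_lit 76) (nat_lit 698625886) (nat_lit 0) (nat_lit 3040718854) (nat_lit 228) (nat_lit 698625886) (nat_lit 139) (nat_lit 1) (nat_lit 138) (nat_lit 1) (nat_lit 141) (nat_lit 1) (nat_lit 354) (nat_lit 385) (nat_lit 281)))) (XT.nd (nat_lit 156) (nat_lit 304) (nat_lit 0) (XT.nd (nat_lit 78) (nat_lit 228) (nat_lit 0) (XT.lf (nat_lit 152) (nat_lit 32326978) (nat_lit 0) (nat_lit 2180114588) (nat_lit 76) (nat_lit 2180114588) (nat_lit 139) (nat_lit 1) (nat_lit 137) (nat_lit 1) (nat_lit 138) (nat_lit 1) (nat_lit 355) (nat_lit 385) (nat_lit 280)) (XT.lf (nat_lit 228) (nat_lit 3067220782) (nat_lit 0) (nat_lit 640242363) (nat_lit 152) (nat_lit 640242363) (nat_lit 137) (nat_lit 1) (nat_lit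 134) (nat_lit 1) (nat_lit 136) (nat_lit 1) (nat_lit 356) (nat_lit 385) (nat_lit 279))) (XT.nd (nat_lit 78) (nat_lit 304) (nat_lit 0) (XT.lf (nat_lit 76) (nat_lit 859668431) (nat_lit 0) (nat_lit 2583930757) (nat_lit 228) (nat_lit 859668431) (nat_lit 135) (nat_lit 1) (nat_lit 134) (nat_lit 1) (nat_lit 137) (nat_lit 1) (nat_lit 357) (nat_lit 385) (nat_lit 278)) (XT.nd (nat_lit 78) (nat_lit 228) (nat_lit 0) (XT.lf (nat_lit 152) (nat_lit 385379044) (nat_lit 0) (nat_lit 1937003575) (nat_lit 76) (nat_lit 1937003575) (nat_lit 135) (nat_lit 1) (nat_lit 133) (nat_lit 1) (nat_lit 134) (nat_lit 1) (nat_lit 358) (nat_lit 385) (nat_lit 277)) (XT.lf (nat_lit 228) (nat_lit 3311557200) (nat_lit 0) (nat_lit 452292490) (nat_lit 152) (nat_lit 452292490) (nat_lit 133) (nat_lit 1) (nat_lit 130) (nat_lit 1) (nat_lit 132) (nat_lit 1) (nat_lit 359) (nat_lit 385) (nat_lit 276)))))) (XT.nd (nat_lit 390) (nat_lit 532) (nat_lit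 0) (XT.nd (nat_lit 156) (nat_lit 304) (nat_lit 0) (XT.nd (nat_lit 78) (nat_lit 76) (nat_lit 0) (XT.lf (nat_lit 76) (nat_lit 995792986) (nat_lit 0) (nat_lit 2181508853) (nat_lit 228) (nat_lit 995792986) (nat_lit 131) (nat_lit 1) (nat_lit 130) (nat_lit 1) (nat_lit 133) (nat_lit 1) (nat_lit 360) (nat_lit 385) (nat_lit 275)) (XT.lf (nat_lit 152) (nat_lit 688673165) (nat_lit 0) (nat_lit 1721002588) (nat_lit 76) (nat_lit 1721002588) (nat_lit 131) (nat_lit 1) (nat_lit 129) (nat_lit 1) (nat_lit 130) (nat_lit 1) (nat_lit 361) (nat_lit 385) (nat_lit 274))) (XT.nd (nat_lit 78) (nat_lit 76) (nat_lit 0) (XT.lf (nat_lit 228) (nat_lit 3511568169) (nat_lit 0) (nat_lit 288696256) (nat_lit 152) (nat_lit 288696256) (nat_lit 129) (nat_lit 1) (nat_lit 126) (nat_lit 1) (nat_lit 128) (nat_lit 1) (nat_lit 362) (nat_lit 385) (nat_lit 273)) (XT.nd (nat_lit 78) (nat_lit 76) (nat_lit 0) (XT.lf (nat_lit 76) (nat_lit 1109980936)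 (nat_lit 0) (nat_lit 1827290752) (nat_lit 228) (nat_lit 1109980936) (nat_lit 127) (nat_lit 1) (nat_lit 126) (nat_lit 1) (nat_lit 129) (nat_lit 1) (nat_lit 363) (nat_lit 385) (nat_lit 272)) (XT.lf (nat_lit 152) (nat_lit 948060562) (nat_lit 0) (nat_lit 1529088509) (nat_lit 76) (nat_lit 1529088509) (nat_lit 127) (nat_lit 1) (nat_lit 125) (nat_lit 1) (nat_lit 126) (nat_lit 1) (nat_lit 364) (nat_lit 385) (nat_lit 271))))) (XT.nd (nat_lit 156) (nat_lit 304) (nat_lit 0) (XT.nd (nat_lit 78) (nat_lit 0) (nat_lit 0) (XT.lf (nat_lit 228) (nat_lit 3672693989) (nat_lit 0) (nat_lit 146639036) (nat_lit 152) (nat_lit 146639036) (nat_lit 125) (nat_lit 1) (nat_lit 122) (nat_lit 1) (nat_lit 124) (nat_lit 1) (nat_lit 365) (nat_lit 385) (nat_lit 270)) (XT.lf (nat_lit 76) (nat_lit 1204875303) (nat_lit 0) (nat_lit 1515804157) (nat_lit 228) (nat_lit 1204875303) (nat_lit 123) (nat_lit 1) (nat_lit 122) (nat_lit 1) (nat_lit 125)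 (nat_lit 1) (nat_lit 366) (nat_lit 385) (nat_lit 269))) (XT.nd (nat_lit 78) (nat_lit 228) (nat_lit 0) (XT.lf (nat_lit 152) (nat_lit 1168731156) (nat_lit 0) (nat_lit 1358575335) (nat_lit 76) (nat_lit 1358575335) (nat_lit 123) (nat_lit 1) (nat_lit 121) (nat_lit 1) (nat_lit 122) (nat_lit 1) (nat_lit 367) (nat_lit 385) (nat_lit 268)) (XT.nd (nat_lit 78) (nat_lit 0) (nat_lit 0) (XT.lf (nat_lit 228) (nat_lit 3799753810) (nat_lit 0) (nat_lit 23622954) (nat_lit 152) (nat_lit 23622954) (nat_lit 121) (nat_lit 1) (nat_lit 118) (nat_lit 1) (nat_lit 120) (nat_lit 1) (nat_lit 368) (nat_lit 385) (nat_lit 267)) (XT.lf (nat_lit 76) (nat_lit 1282818642) (nat_lit 0) (nat_lit 1242189828) (nat_lit 228) (nat_lit 1282818642) (nat_lit 119) (nat_lit 1) (nat_lit 118) (nat_lit 1) (nat_lit 121) (nat_lit 1) (nat_lit 369) (nat_lit 385) (nat_lit 266))))))))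
noncomputable def ec228 : XT := (XT.nd (nat_lit 1404) (nat_lit 1444) (nat_lit 0) (XT.nd (nat_lit 702) (nat_lit 684) (nat_lit 0) (XT.nd (nat_lit 312) (nat_lit 380) (nat_lit 0) (XT.nd (nat_lit 156) (nat_lit 228) (nat_lit 0) (XT.nd (nat_lit 78) (nat_lit 0) (nat_lit 0) (XT.lf (nat_lit 152) (nat_lit 1355287569) (nat_lit 0) (nat_lit 1207076589) (nat_lit 76) (nat_lit 1207076589) (nat_lit 119) (nat_lit 1) (nat_lit 117) (nat_lit 1) (nat_lit 118) (nat_lit 1) (nat_lit 370) (nat_lit 385) (nat_lit 265)) (XT.lf (nat_lit 0) (nat_lit 83386034) (nat_lit 0) (nat_lit 3565009526) (nat_lit 152) (nat_lit 83386034) (nat_lit 117) (nat_lit 3) (nat_lit 117) (nat_lit 1) (nat_lit 119) (nat_lit 1) (nat_lit 371) (nat_lit 385) (nat_lit 264))) (XT.nd (nat_lit 78) (nat_lit 76) (nat_lit 0) (XT.lf (nat_lit 76) (nat_lit 1345886720) (nat_lit 0) (nat_lit 1002133134) (nat_lit 152) (nat_lit 1345886720) (nat_lit 116) (nat_lit 1) (nat_lit 115)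 (nat_lit 1) (nat_lit 117) (nat_lit 1) (nat_lit 372) (nat_lit 385) (nat_lit 263)) (XT.lf (nat_lit 152) (nat_lit 1511810862) (nat_lit 0) (nat_lit 1072471915) (nat_lit 76) (nat_lit 1072471915) (nat_lit 116) (nat_lit 1) (nat_lit 114) (nat_lit 1) (nat_lit 115) (nat_lit 1) (nat_lit 373) (nat_lit 385) (nat_lit 262)))) (XT.nd (nat_lit 156) (nat_lit 228) (nat_lit 0) (XT.nd (nat_lit 78) (nat_lit 152) (nat_lit 0) (XT.lf (nat_lit 0) (nat_lit 175623851) (nat_lit 0) (nat_lit 3269001229) (nat_lit 152) (nat_lit 175623851) (nat_lit 114) (nat_lit 3) (nat_lit 114) (nat_lit 1) (nat_lit 116) (nat_lit 1) (nat_lit 374) (nat_lit 385) (nat_lit 261)) (XT.lf (nat_lit 76) (nat_lit 1395918426) (nat_lit 0) (nat_lit 791803242) (nat_lit 152) (nat_lit 1395918426) (nat_lit 113) (nat_lit 1) (nat_lit 112) (nat_lit 1) (nat_lit 114) (nat_lit 1) (nat_lit 375) (nat_lit 385) (nat_lit 260))) (XT.nd (nat_lit 78) (nat_lit 152) (nat_lit 0) (XT.lf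 (nat_lit 152) (nat_lit 1641918945) (nat_lit 0) (nat_lit 952877406) (nat_lit 76) (nat_lit 952877406) (nat_lit 113) (nat_lit 1) (nat_lit 111) (nat_lit 1) (nat_lit 112) (nat_lit 1) (nat_lit 376) (nat_lit 385) (nat_lit 259)) (XT.nd (nat_lit 78) (nat_lit 152) (nat_lit 0) (XT.lf (nat_lit 0) (nat_lit 254618584) (nat_lit 0) (nat_lit 3003044319) (nat_lit 152) (nat_lit 254618584) (nat_lit 111) (nat_lit 3) (nat_lit 111) (nat_lit 1) (nat_lit 113) (nat_lit 1) (nat_lit 377) (nat_lit 385) (nat_lit 258)) (XT.lf (nat_lit 76) (nat_lit 1434542341) (nat_lit 0) (nat_lit 607799092) (nat_lit 152) (nat_lit 1434542341) (nat_lit 110) (nat_lit 1) (nat_lit 109) (nat_lit 1) (nat_lit 111) (nat_lit 1) (nat_lit 378) (nat_lit 385) (nat_lit 257)))))) (XT.nd (nat_lit 312) (nat_lit 380) (nat_lit 0) (XT.nd (nat_lit 156) (nat_lit 228) (nat_lit 0) (XT.nd (nat_lit 78) (nat_lit 0) (nat_lit 0) (XT.lf (nat_lit 152) (nat_lit 1748818448) (nat_lit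 0) (nat_lit 846619233) (nat_lit 76) (nat_lit 846619233) (nat_lit 110) (nat_lit 1) (nat_lit 108) (nat_lit 1) (nat_lit 109) (nat_lit 1) (nat_lit 379) (nat_lit 385) (nat_lit 256)) (XT.lf (nat_lit 0) (nat_lit 321933146) (nat_lit 0) (nat_lit 2763873814) (nat_lit 152) (nat_lit 321933146) (nat_lit 108) (nat_lit 3) (nat_lit 108) (nat_lit 1) (nat_lit 110) (nat_lit 1) (nat_lit 380) (nat_lit 385) (nat_lit 255))) (XT.nd (nat_lit 78) (nat_lit 76) (nat_lit 0) (XT.lf (nat_lit 76) (nat_lit 1463200348) (nat_lit 0) (nat_lit 447101396) (nat_lit 152) (nat_lit 1463200348) (nat_lit 107) (nat_lit 1) (nat_lit 106) (nat_lit 1) (nat_lit 108) (nat_lit 1) (nat_lit 381) (nat_lit 385) (nat_lit 254)) (XT.lf (nat_lit 152) (nat_lit 1835350824) (nat_lit 0) (nat_lit 752210223) (nat_lit 76) (nat_lit 752210223) (nat_lit 107) (nat_lit 1) (nat_lit 105) (nat_lit 1) (nat_lit 106) (nat_lit 1) (nat_lit 382) (nat_lit 385) (nat_lit 253)))) (XT.nd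 (nat_lit 156) (nat_lit 228) (nat_lit 0) (XT.nd (nat_lit 78) (nat_lit 152) (nat_lit 0) (XT.lf (nat_lit 0) (nat_lit 378953657) (nat_lit 0) (nat_lit 2548586312) (nat_lit 152) (nat_lit 378953657) (nat_lit 105) (nat_lit 3) (nat_lit 105) (nat_lit 1) (nat_lit 107) (nat_lit 1) (nat_lit 383) (nat_lit 385) (nat_lit 252)) (XT.lf (nat_lit 76) (nat_lit 1483168595) (nat_lit 0) (nat_lit 307029988) (nat_lit 152) (nat_lit 1483168595) (nat_lit 104) (nat_lit 1) (nat_lit 103) (nat_lit 1) (nat_lit 105) (nat_lit 1) (nat_lit 384) (nat_lit 385) (nat_lit 251))) (XT.nd (nat_lit 78) (nat_lit 152) (nat_lit 0) (XT.lf (nat_lit 152) (nat_lit 1904033284) (nat_lit 0) (nat_lit 668329040) (nat_lit 76) (nat_lit 668329040) (nat_lit 104) (nat_lit 1) (nat_lit 102) (nat_lit 1) (nat_lit 103) (nat_lit 1) (nat_lit 385) (nat_lit 385) (nat_lit 250)) (XT.nd (nat_lit 78) (nat_lit 152) (nat_lit 0) (XT.lf (nat_lit 0) (nat_lit 426909227) (nat_lit 0)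 (nat_lit 2354599740) (nat_lit 152) (nat_lit 426909227) (nat_lit 102) (nat_lit 3) (nat_lit 102) (nat_lit 1) (nat_lit 104) (nat_lit 1) (nat_lit 386) (nat_lit 385) (nat_lit 249)) (XT.lf (nat_lit 76) (nat_lit 1495576122) (nat_lit 0) (nat_lit 185205943) (nat_lit 152) (nat_lit 1495576122) (nat_lit 101) (nat_lit 1) (nat_lit 100) (nat_lit 1) (nat_lit 102) (nat_lit 1) (nat_lit 387) (nat_lit 385) (nat_lit 248))))))) (XT.nd (nat_lit 702) (nat_lit 836) (nat_lit 0) (XT.nd (nat_lit 312) (nat_lit 304) (nat_lit 0) (XT.nd (nat_lit 156) (nat_lit 228) (nat_lit 0) (XT.nd (nat_lit 78) (nat_lit 0) (nat_lit 0) (XT.lf (nat_lit 152) (nat_lit 1957095172) (nat_lit 0) (nat_lit 593801696) (nat_lit 76) (nat_lit 593801696) (nat_lit 101) (nat_lit 1) (nat_lit 99) (nat_lit 1) (nat_lit 100) (nat_lit 1) (nat_lit 388) (nat_lit 385) (nat_lit 247)) (XT.lf (nat_lit 0) (nat_lit 466889543) (nat_lit 0) (nat_lit 2179617596) (nat_lit 152) (nat_lit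 466889543) (nat_lit 99) (nat_lit 3) (nat_lit 99) (nat_lit 1) (nat_lit 101) (nat_lit 1) (nat_lit 389) (nat_lit 385) (nat_lit 246))) (XT.nd (nat_lit 78) (nat_lit 76) (nat_lit 0) (XT.lf (nat_lit 76) (nat_lit 1501421408) (nat_lit 0) (nat_lit 79517912) (nat_lit 152) (nat_lit 1501421408) (nat_lit 98) (nat_lit 1) (nat_lit 97) (nat_lit 1) (nat_lit 99) (nat_lit 1) (nat_lit 390) (nat_lit 385) (nat_lit 245)) (XT.lf (nat_lit 152) (nat_lit 1996510276) (nat_lit 0) (nat_lit 527585116) (nat_lit 76) (nat_lit 527585116) (nat_lit 98) (nat_lit 1) (nat_lit 96) (nat_lit 1) (nat_lit 97) (nat_lit 1) (nat_lit 391) (nat_lit 385) (nat_lit 244)))) (XT.nd (nat_lit 156) (nat_lit 228) (nat_lit 0) (XT.nd (nat_lit 78) (nat_lit 76) (nat_lit 0) (XT.lf (nat_lit 0) (nat_lit 499860481) (nat_lit 0) (nat_lit 2021597173) (nat_lit 152) (nat_lit 499860481) (nat_lit 96) (nat_lit 3) (nat_lit 96) (nat_lit 1) (nat_lit 98) (nat_lit 1) (nat_lit 392)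 (nat_lit 385) (nat_lit 243)) (XT.lf (nat_lit 76) (nat_lit 12144770) (nat_lit 0) (nat_lit 1489559034) (nat_lit 76) (nat_lit 1489559034) (nat_lit 96) (nat_lit 3) (nat_lit 95) (nat_lit 1) (nat_lit 96) (nat_lit 1) (nat_lit 393) (nat_lit 385) (nat_lit 242))) (XT.nd (nat_lit 78) (nat_lit 76) (nat_lit 0) (XT.lf (nat_lit 152) (nat_lit 2024025524) (nat_lit 0) (nat_lit 468752542) (nat_lit 76) (nat_lit 468752542) (nat_lit 95) (nat_lit 1) (nat_lit 93) (nat_lit 1) (nat_lit 94) (nat_lit 1) (nat_lit 394) (nat_lit 385) (nat_lit 241)) (XT.nd (nat_lit 78) (nat_lit 76) (nat_lit 0) (XT.lf (nat_lit 0) (nat_lit 526677981) (nat_lit 0) (nat_lit 1878721322) (nat_lit 152) (nat_lit 526677981) (nat_lit 93) (nat_lit 3) (nat_lit 93) (nat_lit 1) (nat_lit 95) (nat_lit 1) (nat_lit 395) (nat_lit 385) (nat_lit 240)) (XT.lf (nat_lit 76) (nat_lit 92539491) (nat_lit 0) (nat_lit 1405202929) (nat_lit 76) (nat_lit 1405202929) (nat_lit 93)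 (nat_lit 3) (nat_lit 92) (nat_lit 1) (nat_lit 93) (nat_lit 1) (nat_lit 396) (nat_lit 385) (nat_lit 239)))))) (XT.nd (nat_lit 390) (nat_lit 456) (nat_lit 0) (XT.nd (nat_lit 156) (nat_lit 228) (nat_lit 0) (XT.nd (nat_lit 78) (nat_lit 0) (nat_lit 0) (XT.lf (nat_lit 152) (nat_lit 2041186486) (nat_lit 0) (nat_lit 416480562) (nat_lit 76) (nat_lit 416480562) (nat_lit 92) (nat_lit 1) (nat_lit 90) (nat_lit 1) (nat_lit 91) (nat_lit 1) (nat_lit 397) (nat_lit 385) (nat_lit 238)) (XT.lf (nat_lit 0) (nat_lit 548100367) (nat_lit 0) (nat_lit 1749373364) (nat_lit 152) (nat_lit 548100367) (nat_lit 90) (nat_lit 3) (nat_lit 90) (nat_lit 1) (nat_lit 92) (nat_lit 1) (nat_lit 398) (nat_lit 385) (nat_lit 237))) (XT.nd (nat_lit 78) (nat_lit 152) (nat_lit 0) (XT.lf (nat_lit 76) (nat_lit 161588121) (nat_lit 0) (nat_lit 1327872583) (nat_lit 76) (nat_lit 1327872583) (nat_lit 90) (nat_lit 3) (nat_lit 89) (nat_lit 1) (nat_lit 90)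 (nat_lit 1) (nat_lit 399) (nat_lit 385) (nat_lit 236)) (XT.nd (nat_lit 78) (nat_lit 0) (nat_lit 0) (XT.lf (nat_lit 152) (nat_lit 2049360010) (nat_lit 0) (nat_lit 370037585) (nat_lit 76) (nat_lit 370037585) (nat_lit 89) (nat_lit 1) (nat_lit 87) (nat_lit 1) (nat_lit 88) (nat_lit 1) (nat_lit 400) (nat_lit 385) (nat_lit 235)) (XT.lf (nat_lit 0) (nat_lit 564799303) (nat_lit 0) (nat_lit 1632114802) (nat_lit 152) (nat_lit 564799303) (nat_lit 87) (nat_lit 3) (nat_lit 87) (nat_lit 1) (nat_lit 89) (nat_lit 1) (nat_lit 401) (nat_lit 385) (nat_lit 234))))) (XT.nd (nat_lit 156) (nat_lit 228) (nat_lit 0) (XT.nd (nat_lit 78) (nat_lit 152) (nat_lit 0) (XT.lf (nat_lit 76) (nat_lit 220625245) (nat_lit 0) (nat_lit 1256853884) (nat_lit 76) (nat_lit 1256853884) (nat_lit 87) (nat_lit 3) (nat_lit 86) (nat_lit 1) (nat_lit 87) (nat_lit 1) (nat_lit 402) (nat_lit 385) (nat_lit 233)) (XT.lf (nat_lit 152) (nat_lit 2049754345) (nat_lit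 0) (nat_lit 328773602) (nat_lit 76) (nat_lit 328773602) (nat_lit 86) (nat_lit 1) (nat_lit 84) (nat_lit 1) (nat_lit 85) (nat_lit 1) (nat_lit 403) (nat_lit 385) (nat_lit 232))) (XT.nd (nat_lit 78) (nat_lit 228) (nat_lit 0) (XT.lf (nat_lit 0) (nat_lit 577369512) (nat_lit 0) (nat_lit 1525665509) (nat_lit 152) (nat_lit 577369512) (nat_lit 84) (nat_lit 3) (nat_lit 84) (nat_lit 1) (nat_lit 86) (nat_lit 1) (nat_lit 404) (nat_lit 385) (nat_lit 231)) (XT.nd (nat_lit 78) (nat_lit 152) (nat_lit 0) (XT.lf (nat_lit 76) (nat_lit 270834607) (nat_lit 0) (nat_lit 1191510332) (nat_lit 76) (nat_lit 1191510332) (nat_lit 84) (nat_lit 3) (nat_lit 83) (nat_lit 1) (nat_lit 84) (nat_lit 1) (nat_lit 405) (nat_lit 385) (nat_lit 230)) (XT.lf (nat_lit 152) (nat_lit 2043437002) (nat_lit 0) (nat_lit 292111087) (nat_lit 76) (nat_lit 292111087) (nat_lit 83) (nat_lit 1) (nat_lit 81) (nat_lit 1) (nat_lit 82) (nat_lit 1) (nat_lit 406)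 (nat_lit 385) (nat_lit 229))))))))
noncomputable def ec229 : XT := (XT.nd (nat_lit 1482) (nat_lit 456) (nat_lit 0) (XT.nd (nat_lit 702) (nat_lit 684) (nat_lit 0) (XT.nd (nat_lit 312) (nat_lit 456) (nat_lit 0) (XT.nd (nat_lit 156) (nat_lit 152) (nat_lit 0) (XT.nd (nat_lit 78) (nat_lit 76) (nat_lit 0) (XT.lf (nat_lit 0) (nat_lit 586337418) (nat_lit 0) (nat_lit 1428886128) (nat_lit 152) (nat_lit 586337418) (nat_lit 81) (nat_lit 3) (nat_lit 81) (nat_lit 1) (nat_lit 83) (nat_lit 1) (nat_lit 407) (nat_lit 385) (nat_lit 228)) (XT.lf (nat_lit 76) (nat_lit 313265986) (nat_lit 0) (nat_lit 1131274443) (nat_lit 76) (nat_lit 1131274443) (nat_lit 81) (nat_lit 3) (nat_lit 80) (nat_lit 1) (nat_lit 81) (nat_lit 1) (nat_lit 408) (nat_lit 385) (nat_lit 227))) (XT.nd (nat_lit 78) (nat_lit 0) (nat_lit 0) (XT.lf (nat_lit 152) (nat_lit 2031350625) (nat_lit 0) (nat_lit 259536917) (nat_lit 76) (nat_lit 259536917) (nat_lit 80)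 (nat_lit 1) (nat_lit 78) (nat_lit 1) (nat_lit 79) (nat_lit 1) (nat_lit 409) (nat_lit 385) (nat_lit 226)) (XT.lf (nat_lit 0) (nat_lit 592168817) (nat_lit 0) (nat_lit 1340762433) (nat_lit 152) (nat_lit 592168817) (nat_lit 78) (nat_lit 3) (nat_lit 78) (nat_lit 1) (nat_lit 80) (nat_lit 1) (nat_lit 410) (nat_lit 385) (nat_lit 225)))) (XT.nd (nat_lit 156) (nat_lit 228) (nat_lit 0) (XT.nd (nat_lit 78) (nat_lit 152) (nat_lit 0) (XT.lf (nat_lit 76) (nat_lit 348850195) (nat_lit 0) (nat_lit 1075640114) (nat_lit 76) (nat_lit 1075640114) (nat_lit 78) (nat_lit 3) (nat_lit 77) (nat_lit 1) (nat_lit 78) (nat_lit 1) (nat_lit 411) (nat_lit 385) (nat_lit 224)) (XT.lf (nat_lit 152) (nat_lit 2014327085) (nat_lit 0) (nat_lit 230595189) (nat_lit 76) (nat_lit 230595189) (nat_lit 77) (nat_lit 1) (nat_lit 75) (nat_lit 1) (nat_lit 76) (nat_lit 1) (nat_lit 412) (nat_lit 385) (nat_lit 223))) (XT.nd (nat_lit 78) (nat_lit 228) (nat_lit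 0) (XT.lf (nat_lit 0) (nat_lit 595275698) (nat_lit 0) (nat_lit 1260391431) (nat_lit 152) (nat_lit 595275698) (nat_lit 75) (nat_lit 3) (nat_lit 75) (nat_lit 1) (nat_lit 77) (nat_lit 1) (nat_lit 413) (nat_lit 385) (nat_lit 222)) (XT.nd (nat_lit 78) (nat_lit 152) (nat_lit 0) (XT.lf (nat_lit 76) (nat_lit 378412398) (nat_lit 0) (nat_lit 1024155827) (nat_lit 76) (nat_lit 1024155827) (nat_lit 75) (nat_lit 3) (nat_lit 74) (nat_lit 1) (nat_lit 75) (nat_lit 1) (nat_lit 414) (nat_lit 385) (nat_lit 221)) (XT.lf (nat_lit 152) (nat_lit 1993099996) (nat_lit 0) (nat_lit 204880839) (nat_lit 76) (nat_lit 204880839) (nat_lit 74) (nat_lit 1) (nat_lit 72) (nat_lit 1) (nat_lit 73) (nat_lit 1) (nat_lit 415) (nat_lit 385) (nat_lit 220)))))) (XT.nd (nat_lit 390) (nat_lit 380) (nat_lit 0) (XT.nd (nat_lit 156) (nat_lit 228) (nat_lit 0) (XT.nd (nat_lit 78) (nat_lit 76) (nat_lit 0) (XT.lf (nat_lit 0) (nat_lit 596022296) (nat_lit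 0) (nat_lit 1186969010) (nat_lit 152) (nat_lit 596022296) (nat_lit 72) (nat_lit 3) (nat_lit 72) (nat_lit 1) (nat_lit 74) (nat_lit 1) (nat_lit 416) (nat_lit 385) (nat_lit 219)) (XT.lf (nat_lit 76) (nat_lit 402683949) (nat_lit 0) (nat_lit 976418622) (nat_lit 76) (nat_lit 976418622) (nat_lit 72) (nat_lit 3) (nat_lit 71) (nat_lit 1) (nat_lit 72) (nat_lit 1) (nat_lit 417) (nat_lit 385) (nat_lit 218))) (XT.nd (nat_lit 78) (nat_lit 76) (nat_lit 0) (XT.lf (nat_lit 152) (nat_lit 1968315833) (nat_lit 0) (nat_lit 182033972) (nat_lit 76) (nat_lit 182033972) (nat_lit 71) (nat_lit 1) (nat_lit 69) (nat_lit 1) (nat_lit 70) (nat_lit 1) (nat_lit 418) (nat_lit 385) (nat_lit 217)) (XT.nd (nat_lit 78) (nat_lit 76) (nat_lit 0) (XT.lf (nat_lit 0) (nat_lit 594730467) (nat_lit 0) (nat_lit 1119778968) (nat_lit 152) (nat_lit 594730467) (nat_lit 69) (nat_lit 3) (nat_lit 69) (nat_lit 1) (nat_lit 71) (nat_lit 1) (nat_lit 419) (nat_lit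 385) (nat_lit 216)) (XT.lf (nat_lit 76) (nat_lit 422312905) (nat_lit 0) (nat_lit 932068731) (nat_lit 76) (nat_lit 932068731) (nat_lit 69) (nat_lit 3) (nat_lit 68) (nat_lit 1) (nat_lit 69) (nat_lit 1) (nat_lit 420) (nat_lit 385) (nat_lit 215))))) (XT.nd (nat_lit 156) (nat_lit 228) (nat_lit 0) (XT.nd (nat_lit 78) (nat_lit 0) (nat_lit 0) (XT.lf (nat_lit 152) (nat_lit 1940543805) (nat_lit 0) (nat_lit 161734826) (nat_lit 76) (nat_lit 161734826) (nat_lit 68) (nat_lit 1) (nat_lit 66) (nat_lit 1) (nat_lit 67) (nat_lit 1) (nat_lit 421) (nat_lit 385) (nat_lit 214)) (XT.lf (nat_lit 0) (nat_lit 591684469) (nat_lit 0) (nat_lit 1058183262) (nat_lit 152) (nat_lit 591684469) (nat_lit 66) (nat_lit 3) (nat_lit 66) (nat_lit 1) (nat_lit 68) (nat_lit 1) (nat_lit 422) (nat_lit 385) (nat_lit 213))) (XT.nd (nat_lit 78) (nat_lit 152) (nat_lit 0) (XT.lf (nat_lit 76) (nat_lit 437873363) (nat_lit 0) (nat_lit 890784813) (nat_lit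 76) (nat_lit 890784813) (nat_lit 66) (nat_lit 3) (nat_lit 65) (nat_lit 1) (nat_lit 66) (nat_lit 1) (nat_lit 423) (nat_lit 385) (nat_lit 212)) (XT.nd (nat_lit 78) (nat_lit 0) (nat_lit 0) (XT.lf (nat_lit 152) (nat_lit 1910284620) (nat_lit 0) (nat_lit 143699298) (nat_lit 76) (nat_lit 143699298) (nat_lit 65) (nat_lit 1) (nat_lit 63) (nat_lit 1) (nat_lit 64) (nat_lit 1) (nat_lit 424) (nat_lit 385) (nat_lit 211)) (XT.lf (nat_lit 0) (nat_lit 587135203) (nat_lit 0) (nat_lit 1001613338) (nat_lit 152) (nat_lit 587135203) (nat_lit 63) (nat_lit 3) (nat_lit 63) (nat_lit 1) (nat_lit 65) (nat_lit 1) (nat_lit 425) (nat_lit 385) (nat_lit 210))))))) (XT.nd (nat_lit 39546) (nat_lit 0) (nat_lit 23256) (XT.nd (nat_lit 312) (nat_lit 152) (nat_lit 0) (XT.nd (nat_lit 156) (nat_lit 76) (nat_lit 0) (XT.nd (nat_lit 78) (nat_lit 152) (nat_lit 0) (XT.lf (nat_lit 76) (nat_lit 449873761) (nat_lit 0) (nat_lit 852279717) (nat_lit 76)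 (nat_lit 852279717) (nat_lit 63) (nat_lit 3) (nat_lit 62) (nat_lit 1) (nat_lit 63) (nat_lit 1) (nat_lit 426) (nat_lit 385) (nat_lit 209)) (XT.lf (nat_lit 152) (nat_lit 1877978273) (nat_lit 0) (nat_lit 127674965) (nat_lit 76) (nat_lit 127674965) (nat_lit 62) (nat_lit 1) (nat_lit 60) (nat_lit 1) (nat_lit 61) (nat_lit 1) (nat_lit 427) (nat_lit 385) (nat_lit 208))) (XT.nd (nat_lit 78) (nat_lit 76) (nat_lit 0) (XT.lf (nat_lit 0) (nat_lit 581303980) (nat_lit 0) (nat_lit 949562435) (nat_lit 152) (nat_lit 581303980) (nat_lit 60) (nat_lit 3) (nat_lit 60) (nat_lit 1) (nat_lit 62) (nat_lit 1) (nat_lit 428) (nat_lit 385) (nat_lit 207)) (XT.lf (nat_lit 76) (nat_lit 458764242) (nat_lit 0) (nat_lit 816296722) (nat_lit 76) (nat_lit 816296722) (nat_lit 60) (nat_lit 3) (nat_lit 59) (nat_lit 1) (nat_lit 60) (nat_lit 1) (nat_lit 429) (nat_lit 385) (nat_lit 206)))) (XT.nd (nat_lit 39000) (nat_lit 0) (nat_lit 24092) (XT.nd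 (nat_lit 38922) (nat_lit 0) (nat_lit 24092) (XT.lf (nat_lit 152) (nat_lit 1844010954) (nat_lit 0) (nat_lit 113437553) (nat_lit 76) (nat_lit 113437553) (nat_lit 59) (nat_lit 1) (nat_lit 57) (nat_lit 1) (nat_lit 58) (nat_lit 1) (nat_lit 430) (nat_lit 385) (nat_lit 205)) (XT.lf (nat_lit 1292) (nat_lit 1452703603) (nat_lit 0) (nat_lit 4997976003) (nat_lit 1292) (nat_lit 1452703603) (nat_lit 391) (nat_lit 1) (nat_lit 374) (nat_lit 0) (nat_lit 391) (nat_lit 0) (nat_lit 248) (nat_lit 386) (nat_lit 386))) (XT.nd (nat_lit 78) (nat_lit 0) (nat_lit 76) (XT.lf (nat_lit 1292) (nat_lit 5677191138) (nat_lit 76) (nat_lit 4948976238) (nat_lit 0) (nat_lit 4948976238) (nat_lit 391) (nat_lit 1) (nat_lit 375) (nat_lit 1) (nat_lit 374) (nat_lit 0) (nat_lit 249) (nat_lit 386) (nat_lit 385)) (XT.nd (nat_lit 78) (nat_lit 0) (nat_lit 0) (XT.lf (nat_lit 1292) (nat_lit 2745624994) (nat_lit 0) (nat_lit 9857379937) (nat_lit 1216)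 (nat_lit 2745624994) (nat_lit 392) (nat_lit 1) (nat_lit 375) (nat_lit 1) (nat_lit 391) (nat_lit 1) (nat_lit 250) (nat_lit 386) (nat_lit 384)) (XT.lf (nat_lit 1292) (nat_lit 5214083622) (nat_lit 76) (nat_lit 4955907657) (nat_lit 0) (nat_lit 4955907657) (nat_lit 392) (nat_lit 1) (nat_lit 376) (nat_lit 1) (nat_lit 375) (nat_lit 1) (nat_lit 251) (nat_lit 386) (nat_lit 383)))))) (XT.nd (nat_lit 390) (nat_lit 988) (nat_lit 0) (XT.nd (nat_lit 156) (nat_lit 0) (nat_lit 76) (XT.nd (nat_lit 78) (nat_lit 0) (nat_lit 0) (XT.lf (nat_lit 1292) (nat_lit 2446682735) (nat_lit 0) (nat_lit 10014786158) (nat_lit 1216) (nat_lit 2446682735) (nat_lit 393) (nat_lit 1) (nat_lit 376) (nat_lit 1) (nat_lit 392) (nat_lit 1) (nat_lit 252) (nat_lit 386) (nat_lit 382)) (XT.lf (nat_lit 1292) (nat_lit 4483804448) (nat_lit 76) (nat_lit 5105041148) (nat_lit 0) (nat_lit 5105041148) (nat_lit 393) (nat_lit 1) (nat_lit 377) (nat_lit 1) (nat_lit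 376) (nat_lit 1) (nat_lit 253) (nat_lit 386) (nat_lit 381))) (XT.nd (nat_lit 78) (nat_lit 0) (nat_lit 0) (XT.lf (nat_lit 1292) (nat_lit 2020889142) (nat_lit 0) (nat_lit 10442791267) (nat_lit 1216) (nat_lit 2020889142) (nat_lit 394) (nat_lit 1) (nat_lit 377) (nat_lit 1) (nat_lit 393) (nat_lit 1) (nat_lit 254) (nat_lit 386) (nat_lit 380)) (XT.nd (nat_lit 78) (nat_lit 0) (nat_lit 76) (XT.lf (nat_lit 1292) (nat_lit 3510246361) (nat_lit 76) (nat_lit 5384060332) (nat_lit 0) (nat_lit 5384060332) (nat_lit 394) (nat_lit 1) (nat_lit 378) (nat_lit 1) (nat_lit 377) (nat_lit 1) (nat_lit 255) (nat_lit 386) (nat_lit 379)) (XT.lf (nat_lit 1292) (nat_lit 1479720518) (nat_lit 0) (nat_lit 11117717082) (nat_lit 1216) (nat_lit 1479720518) (nat_lit 395) (nat_lit 1) (nat_lit 378) (nat_lit 1) (nat_lit 394) (nat_lit 1) (nat_lit 256) (nat_lit 386) (nat_lit 378))))) (XT.nd (nat_lit 156) (nat_lit 1140) (nat_lit 0) (XT.nd (nat_lit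 78) (nat_lit 0) (nat_lit 76) (XT.lf (nat_lit 1292) (nat_lit 2315681358) (nat_lit 76) (nat_lit 5781476815) (nat_lit 0) (nat_lit 5781476815) (nat_lit 395) (nat_lit 1) (nat_lit 379) (nat_lit 1) (nat_lit 378) (nat_lit 1) (nat_lit 257) (nat_lit 386) (nat_lit 377)) (XT.lf (nat_lit 1292) (nat_lit 833872212) (nat_lit 0) (nat_lit 12017481869) (nat_lit 1216) (nat_lit 833872212) (nat_lit 396) (nat_lit 1) (nat_lit 379) (nat_lit 1) (nat_lit 395) (nat_lit 1) (nat_lit 258) (nat_lit 386) (nat_lit 376))) (XT.nd (nat_lit 78) (nat_lit 1216) (nat_lit 0) (XT.lf (nat_lit 1292) (nat_lit 920860990) (nat_lit 76) (nat_lit 6286579133) (nat_lit 0) (nat_lit 6286579133) (nat_lit 396) (nat_lit 1) (nat_lit 380) (nat_lit 1) (nat_lit 379) (nat_lit 1) (nat_lit 259) (nat_lit 386) (nat_lit 375)) (XT.nd (nat_lit 78) (nat_lit 1292) (nat_lit 0) (XT.lf (nat_lit 1292) (nat_lit 93307003) (nat_lit 0) (nat_lit 13121501793) (nat_lit 1216) (nat_lit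 93307003) (nat_lit 397) (nat_lit 1) (nat_lit 380) (nat_lit 1) (nat_lit 396) (nat_lit 1) (nat_lit 260) (nat_lit 386) (nat_lit 374)) (XT.lf (nat_lit 1368) (nat_lit 6240790612) (nat_lit 0) (nat_lit 642110067) (nat_lit 1292) (nat_lit 6240790612) (nat_lit 381) (nat_lit 1) (nat_lit 363) (nat_lit 1) (nat_lit 380) (nat_lit 1) (nat_lit 261) (nat_lit 386) (nat_lit 373))))))))
noncomputable def ec230 : XT := (XT.nd (nat_lit 1482) (nat_lit 4484) (nat_lit 0) (XT.nd (nat_lit 702) (nat_lit 3344) (nat_lit 0) (XT.nd (nat_lit 312) (nat_lit 1900) (nat_lit 0) (XT.nd (nat_lit 156) (nat_lit 0) (nat_lit 76) (XT.nd (nat_lit 78) (nat_lit 0) (nat_lit 76) (XT.lf (nat_lit 1368) (nat_lit 11493317865) (nat_lit 76) (nat_lit 725516063) (nat_lit 0) (nat_lit 725516063) (nat_lit 381) (nat_lit 1) (nat_lit 364) (nat_lit 1) (nat_lit 363) (nat_lit 1) (nat_lit 262) (nat_lit 386) (nat_lit 372)) (XT.lf (nat_lit 1368) (nat_lit 5210021824) (nat_lit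 0) (nat_lit 2346874152) (nat_lit 1292) (nat_lit 5210021824) (nat_lit 382) (nat_lit 1) (nat_lit 364) (nat_lit 1) (nat_lit 381) (nat_lit 1) (nat_lit 263) (nat_lit 386) (nat_lit 371))) (XT.nd (nat_lit 78) (nat_lit 0) (nat_lit 76) (XT.lf (nat_lit 1368) (nat_lit 9355021277) (nat_lit 76) (nat_lit 1619481054) (nat_lit 0) (nat_lit 1619481054) (nat_lit 382) (nat_lit 1) (nat_lit 365) (nat_lit 1) (nat_lit 364) (nat_lit 1) (nat_lit 264) (nat_lit 386) (nat_lit 370)) (XT.lf (nat_lit 76) (nat_lit 4114197500) (nat_lit 0) (nat_lit 4194993109) (nat_lit 1292) (nat_lit 4114197500) (nat_lit 366) (nat_lit 1) (nat_lit 365) (nat_lit 1) (nat_lit 382) (nat_lit 1) (nat_lit 265) (nat_lit 386) (nat_lit 369)))) (XT.nd (nat_lit 156) (nat_lit 1216) (nat_lit 0) (XT.nd (nat_lit 78) (nat_lit 0) (nat_lit 0) (XT.lf (nat_lit 912) (nat_lit 7093455699) (nat_lit 0) (nat_lit 2581554022) (nat_lit 836) (nat_lit 2581554022) (nat_lit 366) (nat_lit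 1) (nat_lit 354) (nat_lit 1) (nat_lit 365) (nat_lit 1) (nat_lit 266) (nat_lit 386) (nat_lit 368)) (XT.lf (nat_lit 76) (nat_lit 2960670323) (nat_lit 0) (nat_lit 6171212092) (nat_lit 912) (nat_lit 2960670323) (nat_lit 355) (nat_lit 1) (nat_lit 354) (nat_lit 1) (nat_lit 366) (nat_lit 1) (nat_lit 267) (nat_lit 386) (nat_lit 367))) (XT.nd (nat_lit 78) (nat_lit 608) (nat_lit 0) (XT.lf (nat_lit 684) (nat_lit 4722862789) (nat_lit 0) (nat_lit 3604346885) (nat_lit 608) (nat_lit 3604346885) (nat_lit 355) (nat_lit 1) (nat_lit 346) (nat_lit 1) (nat_lit 354) (nat_lit 1) (nat_lit 268) (nat_lit 386) (nat_lit 366)) (XT.nd (nat_lit 78) (nat_lit 608) (nat_lit 0) (XT.lf (nat_lit 76) (nat_lit 1756265517) (nat_lit 0) (nat_lit 8261356581) (nat_lit 684) (nat_lit 1756265517) (nat_lit 347) (nat_lit 1) (nat_lit 346) (nat_lit 1) (nat_lit 355) (nat_lit 1) (nat_lit 269) (nat_lit 386) (nat_lit 365)) (XT.lf (nat_lit 684) (nat_lit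 2256457971) (nat_lit 0) (nat_lit 4680996981) (nat_lit 608) (nat_lit 4680996981) (nat_lit 347) (nat_lit 1) (nat_lit 338) (nat_lit 1) (nat_lit 346) (nat_lit 1) (nat_lit 270) (nat_lit 386) (nat_lit 364)))))) (XT.nd (nat_lit 390) (nat_lit 1596) (nat_lit 0) (XT.nd (nat_lit 156) (nat_lit 1140) (nat_lit 0) (XT.nd (nat_lit 78) (nat_lit 608) (nat_lit 0) (XT.lf (nat_lit 76) (nat_lit 507314195) (nat_lit 0) (nat_lit 10452264398) (nat_lit 684) (nat_lit 507314195) (nat_lit 339) (nat_lit 1) (nat_lit 338) (nat_lit 1) (nat_lit 347) (nat_lit 1) (nat_lit 271) (nat_lit 386) (nat_lit 363)) (XT.lf (nat_lit 76) (nat_lit 5514450724) (nat_lit 0) (nat_lit 287777244) (nat_lit 608) (nat_lit 5514450724) (nat_lit 331) (nat_lit 1) (nat_lit 330) (nat_lit 1) (nat_lit 338) (nat_lit 1) (nat_lit 272) (nat_lit 386) (nat_lit 362))) (XT.nd (nat_lit 78) (nat_lit 532) (nat_lit 0) (XT.lf (nat_lit 684) (nat_lit 9624856276) (nat_lit 0) (nat_lit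 772665148) (nat_lit 608) (nat_lit 772665148) (nat_lit 331) (nat_lit 1) (nat_lit 322) (nat_lit 1) (nat_lit 330) (nat_lit 1) (nat_lit 273) (nat_lit 386) (nat_lit 361)) (XT.nd (nat_lit 78) (nat_lit 532) (nat_lit 0) (XT.lf (nat_lit 76) (nat_lit 4083205008) (nat_lit 0) (nat_lit 2858775596) (nat_lit 684) (nat_lit 4083205008) (nat_lit 323) (nat_lit 1) (nat_lit 322) (nat_lit 1) (nat_lit 331) (nat_lit 1) (nat_lit 274) (nat_lit 386) (nat_lit 360)) (XT.lf (nat_lit 608) (nat_lit 6722415561) (nat_lit 0) (nat_lit 2080588046) (nat_lit 532) (nat_lit 2080588046) (nat_lit 323) (nat_lit 1) (nat_lit 315) (nat_lit 1) (nat_lit 322) (nat_lit 1) (nat_lit 275) (nat_lit 386) (nat_lit 359))))) (XT.nd (nat_lit 156) (nat_lit 1064) (nat_lit 0) (XT.nd (nat_lit 78) (nat_lit 532) (nat_lit 0) (XT.lf (nat_lit 76) (nat_lit 2626960313) (nat_lit 0) (nat_lit 5490262565) (nat_lit 608) (nat_lit 2626960313) (nat_lit 316) (nat_lit 1) (nat_lit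 315) (nat_lit 1) (nat_lit 323) (nat_lit 1) (nat_lit 276) (nat_lit 386) (nat_lit 358)) (XT.lf (nat_lit 608) (nat_lit 3774371287) (nat_lit 0) (nat_lit 3416448067) (nat_lit 532) (nat_lit 3416448067) (nat_lit 316) (nat_lit 1) (nat_lit 308) (nat_lit 1) (nat_lit 315) (nat_lit 1) (nat_lit 277) (nat_lit 386) (nat_lit 357))) (XT.nd (nat_lit 78) (nat_lit 1064) (nat_lit 0) (XT.lf (nat_lit 76) (nat_lit 1150272802) (nat_lit 0) (nat_lit 8172705437) (nat_lit 608) (nat_lit 1150272802) (nat_lit 309) (nat_lit 1) (nat_lit 308) (nat_lit 1) (nat_lit 316) (nat_lit 1) (nat_lit 278) (nat_lit 386) (nat_lit 356)) (XT.nd (nat_lit 78) (nat_lit 608) (nat_lit 0) (XT.lf (nat_lit 532) (nat_lit 789522320) (nat_lit 0) (nat_lit 4775641003) (nat_lit 456) (nat_lit 4775641003) (nat_lit 309) (nat_lit 1) (nat_lit 302) (nat_lit 1) (nat_lit 308) (nat_lit 1) (nat_lit 279) (nat_lit 386) (nat_lit 355)) (XT.lf (nat_lit 608) (nat_lit 9533001421)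 (nat_lit 0) (nat_lit 339294463) (nat_lit 532) (nat_lit 339294463) (nat_lit 302) (nat_lit 1) (nat_lit 294) (nat_lit 1) (nat_lit 301) (nat_lit 1) (nat_lit 280) (nat_lit 386) (nat_lit 354))))))) (XT.nd (nat_lit 702) (nat_lit 2280) (nat_lit 0) (XT.nd (nat_lit 312) (nat_lit 1292) (nat_lit 0) (XT.nd (nat_lit 156) (nat_lit 456) (nat_lit 0) (XT.nd (nat_lit 78) (nat_lit 456) (nat_lit 0) (XT.lf (nat_lit 76) (nat_lit 3951275361) (nat_lit 0) (nat_lit 2180619001) (nat_lit 608) (nat_lit 3951275361) (nat_lit 295) (nat_lit 1) (nat_lit 294) (nat_lit 1) (nat_lit 302) (nat_lit 1) (nat_lit 281) (nat_lit 386) (nat_lit 353)) (XT.lf (nat_lit 532) (nat_lit 6298210263) (nat_lit 0) (nat_lit 1829828283) (nat_lit 456) (nat_lit 1829828283) (nat_lit 295) (nat_lit 1) (nat_lit 288) (nat_lit 1) (nat_lit 294) (nat_lit 1) (nat_lit 282) (nat_lit 386) (nat_lit 352))) (XT.nd (nat_lit 78) (nat_lit 456) (nat_lit 0) (XT.lf (nat_lit 76) (nat_lit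 2339119824) (nat_lit 0) (nat_lit 5156157617) (nat_lit 532) (nat_lit 2339119824) (nat_lit 289) (nat_lit 1) (nat_lit 288) (nat_lit 1) (nat_lit 295) (nat_lit 1) (nat_lit 283) (nat_lit 386) (nat_lit 351)) (XT.lf (nat_lit 532) (nat_lit 3054902078) (nat_lit 0) (nat_lit 3329074738) (nat_lit 456) (nat_lit 3329074738) (nat_lit 289) (nat_lit 1) (nat_lit 282) (nat_lit 1) (nat_lit 288) (nat_lit 1) (nat_lit 284) (nat_lit 386) (nat_lit 350)))) (XT.nd (nat_lit 156) (nat_lit 836) (nat_lit 0) (XT.nd (nat_lit 78) (nat_lit 456) (nat_lit 0) (XT.lf (nat_lit 76) (nat_lit 724299815) (nat_lit 0) (nat_lit 8145759588) (nat_lit 532) (nat_lit 724299815) (nat_lit 283) (nat_lit 1) (nat_lit 282) (nat_lit 1) (nat_lit 289) (nat_lit 1) (nat_lit 285) (nat_lit 386) (nat_lit 349)) (XT.lf (nat_lit 76) (nat_lit 4644843978) (nat_lit 0) (nat_lit 187054937) (nat_lit 456) (nat_lit 4644843978) (nat_lit 277) (nat_lit 1) (nat_lit 276) (nat_lit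 1) (nat_lit 282) (nat_lit 1) (nat_lit 286) (nat_lit 386) (nat_lit 348))) (XT.nd (nat_lit 78) (nat_lit 380) (nat_lit 0) (XT.lf (nat_lit 532) (nat_lit 7598622392) (nat_lit 0) (nat_lit 881530615) (nat_lit 456) (nat_lit 881530615) (nat_lit 277) (nat_lit 1) (nat_lit 270) (nat_lit 1) (nat_lit 276) (nat_lit 1) (nat_lit 287) (nat_lit 386) (nat_lit 347)) (XT.nd (nat_lit 78) (nat_lit 380) (nat_lit 0) (XT.lf (nat_lit 76) (nat_lit 2940788639) (nat_lit 0) (nat_lit 3366207036) (nat_lit 532) (nat_lit 2940788639) (nat_lit 271) (nat_lit 1) (nat_lit 270) (nat_lit 1) (nat_lit 277) (nat_lit 1) (nat_lit 288) (nat_lit 386) (nat_lit 346)) (XT.lf (nat_lit 456) (nat_lit 4181541159) (nat_lit 0) (nat_lit 2477350039) (nat_lit 380) (nat_lit 2477350039) (nat_lit 271) (nat_lit 1) (nat_lit 265) (nat_lit 1) (nat_lit 270) (nat_lit 1) (nat_lit 289) (nat_lit 386) (nat_lit 345)))))) (XT.nd (nat_lit 390) (nat_lit 1064) (nat_lit 0) (XT.nd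 (nat_lit 156) (nat_lit 836) (nat_lit 0) (XT.nd (nat_lit 78) (nat_lit 380) (nat_lit 0) (XT.lf (nat_lit 76) (nat_lit 1244809628) (nat_lit 0) (nat_lit 6537121866) (nat_lit 456) (nat_lit 1244809628) (nat_lit 266) (nat_lit 1) (nat_lit 265) (nat_lit 1) (nat_lit 271) (nat_lit 1) (nat_lit 290) (nat_lit 386) (nat_lit 344)) (XT.lf (nat_lit 456) (nat_lit 782887202) (nat_lit 0) (nat_lit 4067838223) (nat_lit 380) (nat_lit 4067838223) (nat_lit 266) (nat_lit 1) (nat_lit 260) (nat_lit 1) (nat_lit 265) (nat_lit 1) (nat_lit 291) (nat_lit 386) (nat_lit 343))) (XT.nd (nat_lit 78) (nat_lit 380) (nat_lit 0) (XT.lf (nat_lit 456) (nat_lit 7939560376) (nat_lit 0) (nat_lit 436619815) (nat_lit 380) (nat_lit 436619815) (nat_lit 260) (nat_lit 1) (nat_lit 254) (nat_lit 1) (nat_lit 259) (nat_lit 1) (nat_lit 292) (nat_lit 386) (nat_lit 342)) (XT.nd (nat_lit 78) (nat_lit 380) (nat_lit 0) (XT.lf (nat_lit 76) (nat_lit 3082495193) (nat_lit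 0) (nat_lit 2542617681) (nat_lit 456) (nat_lit 3082495193) (nat_lit 255) (nat_lit 1) (nat_lit 254) (nat_lit 1) (nat_lit 260) (nat_lit 1) (nat_lit 293) (nat_lit 386) (nat_lit 341)) (XT.lf (nat_lit 456) (nat_lit 4417179279) (nat_lit 0) (nat_lit 2093787323) (nat_lit 380) (nat_lit 2093787323) (nat_lit 255) (nat_lit 1) (nat_lit 249) (nat_lit 1) (nat_lit 254) (nat_lit 1) (nat_lit 294) (nat_lit 386) (nat_lit 340))))) (XT.nd (nat_lit 156) (nat_lit 760) (nat_lit 0) (XT.nd (nat_lit 78) (nat_lit 304) (nat_lit 0) (XT.lf (nat_lit 76) (nat_lit 1338270420) (nat_lit 0) (nat_lit 5827080875) (nat_lit 456) (nat_lit 1338270420) (nat_lit 250) (nat_lit 1) (nat_lit 249) (nat_lit 1) (nat_lit 255) (nat_lit 1) (nat_lit 295) (nat_lit 386) (nat_lit 339)) (XT.lf (nat_lit 380) (nat_lit 929472367) (nat_lit 0) (nat_lit 3737149404) (nat_lit 304) (nat_lit 3737149404) (nat_lit 250) (nat_lit 1) (nat_lit 245) (nat_lit 1) (nat_lit 249)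 (nat_lit 1) (nat_lit 296) (nat_lit 386) (nat_lit 338))) (XT.nd (nat_lit 78) (nat_lit 304) (nat_lit 0) (XT.lf (nat_lit 456) (nat_lit 7537804771) (nat_lit 0) (nat_lit 384153160) (nat_lit 380) (nat_lit 384153160) (nat_lit 245) (nat_lit 1) (nat_lit 239) (nat_lit 1) (nat_lit 244) (nat_lit 1) (nat_lit 297) (nat_lit 386) (nat_lit 337)) (XT.nd (nat_lit 78) (nat_lit 304) (nat_lit 0) (XT.lf (nat_lit 76) (nat_lit 2868688724) (nat_lit 0) (nat_lit 2471484053) (nat_lit 456) (nat_lit 2868688724) (nat_lit 240) (nat_lit 1) (nat_lit 239) (nat_lit 1) (nat_lit 245) (nat_lit 1) (nat_lit 298) (nat_lit 386) (nat_lit 336)) (XT.lf (nat_lit 380) (nat_lit 3965159522) (nat_lit 0) (nat_lit 2074289584) (nat_lit 304) (nat_lit 2074289584) (nat_lit 240) (nat_lit 1) (nat_lit 235) (nat_lit 1) (nat_lit 239) (nat_lit 1) (nat_lit 299) (nat_lit 386) (nat_lit 335))))))))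
noncomputable def ec231 : XT := (XT.nd (nat_lit 1482) (nat_lit 2432) (nat_lit 0) (XT.nd (nat_lit 702) (nat_lit 1900) (nat_lit 0) (XT.nd (nat_lit 312) (nat_lit 912) (nat_lit 0) (XT.nd (nat_lit 156) (nat_lit 380) (nat_lit 0) (XT.nd (nat_lit 78) (nat_lit 304) (nat_lit 0) (XT.lf (nat_lit 76) (nat_lit 1102650294) (nat_lit 0) (nat_lit 5814942392) (nat_lit 380) (nat_lit 1102650294) (nat_lit 236) (nat_lit 1) (nat_lit 235) (nat_lit 1) (nat_lit 240) (nat_lit 1) (nat_lit 300) (nat_lit 386) (nat_lit 334)) (XT.lf (nat_lit 380) (nat_lit 439690442) (nat_lit 0) (nat_lit 3744059770) (nat_lit 304) (nat_lit 3744059770) (nat_lit 236) (nat_lit 1) (nat_lit 231) (nat_lit 1) (nat_lit 235) (nat_lit 1) (nat_lit 301) (nat_lit 386) (nat_lit 333))) (XT.nd (nat_lit 78) (nat_lit 0) (nat_lit 0) (XT.lf (nat_lit 380) (nat_lit 6570891289) (nat_lit 0) (nat_lit 633154907) (nat_lit 304) (nat_lit 633154907) (nat_lit 231) (nat_lit 1) (nat_lit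 226) (nat_lit 1) (nat_lit 230) (nat_lit 1) (nat_lit 302) (nat_lit 386) (nat_lit 332)) (XT.lf (nat_lit 76) (nat_lit 2384879591) (nat_lit 0) (nat_lit 2977454128) (nat_lit 380) (nat_lit 2384879591) (nat_lit 227) (nat_lit 1) (nat_lit 226) (nat_lit 1) (nat_lit 231) (nat_lit 1) (nat_lit 303) (nat_lit 386) (nat_lit 331)))) (XT.nd (nat_lit 156) (nat_lit 608) (nat_lit 0) (XT.nd (nat_lit 78) (nat_lit 0) (nat_lit 0) (XT.lf (nat_lit 380) (nat_lit 2991896508) (nat_lit 0) (nat_lit 2333549899) (nat_lit 304) (nat_lit 2333549899) (nat_lit 227) (nat_lit 1) (nat_lit 222) (nat_lit 1) (nat_lit 226) (nat_lit 1) (nat_lit 304) (nat_lit 386) (nat_lit 330)) (XT.lf (nat_lit 76) (nat_lit 618096752) (nat_lit 0) (nat_lit 6336292427) (nat_lit 380) (nat_lit 618096752) (nat_lit 223) (nat_lit 1) (nat_lit 222) (nat_lit 1) (nat_lit 227) (nat_lit 1) (nat_lit 305) (nat_lit 386) (nat_lit 329))) (XT.nd (nat_lit 78) (nat_lit 304) (nat_lit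 0) (XT.lf (nat_lit 76) (nat_lit 3483195877) (nat_lit 0) (nat_lit 520141203) (nat_lit 304) (nat_lit 3483195877) (nat_lit 219) (nat_lit 1) (nat_lit 218) (nat_lit 1) (nat_lit 222) (nat_lit 1) (nat_lit 306) (nat_lit 386) (nat_lit 328)) (XT.nd (nat_lit 78) (nat_lit 0) (nat_lit 0) (XT.lf (nat_lit 380) (nat_lit 5183734350) (nat_lit 0) (nat_lit 1109252440) (nat_lit 304) (nat_lit 1109252440) (nat_lit 219) (nat_lit 1) (nat_lit 214) (nat_lit 1) (nat_lit 218) (nat_lit 1) (nat_lit 307) (nat_lit 386) (nat_lit 327)) (XT.lf (nat_lit 76) (nat_lit 1700837451) (nat_lit 0) (nat_lit 3917230879) (nat_lit 380) (nat_lit 1700837451) (nat_lit 215) (nat_lit 1) (nat_lit 214) (nat_lit 1) (nat_lit 219) (nat_lit 1) (nat_lit 308) (nat_lit 386) (nat_lit 326)))))) (XT.nd (nat_lit 390) (nat_lit 1064) (nat_lit 0) (XT.nd (nat_lit 156) (nat_lit 228) (nat_lit 0) (XT.nd (nat_lit 78) (nat_lit 380) (nat_lit 0) (XT.lf (nat_lit 304) (nat_lit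 1633115876) (nat_lit 0) (nat_lit 2801882538) (nat_lit 228) (nat_lit 2801882538) (nat_lit 215) (nat_lit 1) (nat_lit 211) (nat_lit 1) (nat_lit 214) (nat_lit 1) (nat_lit 309) (nat_lit 386) (nat_lit 325)) (XT.lf (nat_lit 380) (nat_lit 7057596415) (nat_lit 0) (nat_lit 49559900) (nat_lit 304) (nat_lit 49559900) (nat_lit 211) (nat_lit 1) (nat_lit 206) (nat_lit 1) (nat_lit 210) (nat_lit 1) (nat_lit 310) (nat_lit 386) (nat_lit 324))) (XT.nd (nat_lit 78) (nat_lit 228) (nat_lit 0) (XT.lf (nat_lit 76) (nat_lit 2629294855) (nat_lit 0) (nat_lit 1817804168) (nat_lit 380) (nat_lit 2629294855) (nat_lit 207) (nat_lit 1) (nat_lit 206) (nat_lit 1) (nat_lit 211) (nat_lit 1) (nat_lit 311) (nat_lit 386) (nat_lit 323)) (XT.nd (nat_lit 78) (nat_lit 0) (nat_lit 0) (XT.lf (nat_lit 304) (nat_lit 3494159650) (nat_lit 0) (nat_lit 1751866150) (nat_lit 228) (nat_lit 1751866150) (nat_lit 207) (nat_lit 1) (nat_lit 203) (nat_lit 1) (nat_lit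 206) (nat_lit 1) (nat_lit 312) (nat_lit 386) (nat_lit 322)) (XT.lf (nat_lit 76) (nat_lit 873262558) (nat_lit 0) (nat_lit 5174143730) (nat_lit 304) (nat_lit 873262558) (nat_lit 204) (nat_lit 1) (nat_lit 203) (nat_lit 1) (nat_lit 207) (nat_lit 1) (nat_lit 313) (nat_lit 386) (nat_lit 321))))) (XT.nd (nat_lit 156) (nat_lit 532) (nat_lit 0) (XT.nd (nat_lit 78) (nat_lit 228) (nat_lit 0) (XT.lf (nat_lit 76) (nat_lit 3421650549) (nat_lit 0) (nat_lit 916108) (nat_lit 304) (nat_lit 3421650549) (nat_lit 200) (nat_lit 1) (nat_lit 199) (nat_lit 1) (nat_lit 203) (nat_lit 1) (nat_lit 314) (nat_lit 386) (nat_lit 320)) (XT.lf (nat_lit 304) (nat_lit 5088163501) (nat_lit 0) (nat_lit 840422816) (nat_lit 228) (nat_lit 840422816) (nat_lit 200) (nat_lit 1) (nat_lit 196) (nat_lit 1) (nat_lit 199) (nat_lit 1) (nat_lit 315) (nat_lit 386) (nat_lit 319))) (XT.nd (nat_lit 78) (nat_lit 532) (nat_lit 0) (XT.lf (nat_lit 76) (nat_lit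 1666884279) (nat_lit 0) (nat_lit 3360755711) (nat_lit 304) (nat_lit 1666884279) (nat_lit 197) (nat_lit 1) (nat_lit 196) (nat_lit 1) (nat_lit 200) (nat_lit 1) (nat_lit 316) (nat_lit 386) (nat_lit 318)) (XT.nd (nat_lit 78) (nat_lit 304) (nat_lit 0) (XT.lf (nat_lit 304) (nat_lit 1597523914) (nat_lit 0) (nat_lit 2511862644) (nat_lit 228) (nat_lit 2511862644) (nat_lit 197) (nat_lit 1) (nat_lit 193) (nat_lit 1) (nat_lit 196) (nat_lit 1) (nat_lit 317) (nat_lit 386) (nat_lit 317)) (XT.lf (nat_lit 304) (nat_lit 6446639124) (nat_lit 0) (nat_lit 51474138) (nat_lit 228) (nat_lit 51474138) (nat_lit 193) (nat_lit 1) (nat_lit 189) (nat_lit 1) (nat_lit 192) (nat_lit 1) (nat_lit 318) (nat_lit 386) (nat_lit 316))))))) (XT.nd (nat_lit 702) (nat_lit 1292) (nat_lit 0) (XT.nd (nat_lit 312) (nat_lit 684) (nat_lit 0) (XT.nd (nat_lit 156) (nat_lit 228) (nat_lit 0) (XT.nd (nat_lit 78) (nat_lit 228) (nat_lit 0) (XT.lf (nat_lit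 76) (nat_lit 2346055391) (nat_lit 0) (nat_lit 1785595710) (nat_lit 304) (nat_lit 2346055391) (nat_lit 190) (nat_lit 1) (nat_lit 189) (nat_lit 1) (nat_lit 193) (nat_lit 1) (nat_lit 319) (nat_lit 386) (nat_lit 315)) (XT.lf (nat_lit 304) (nat_lit 2971179368) (nat_lit 0) (nat_lit 1718114978) (nat_lit 228) (nat_lit 1718114978) (nat_lit 190) (nat_lit 1) (nat_lit 186) (nat_lit 1) (nat_lit 189) (nat_lit 1) (nat_lit 320) (nat_lit 386) (nat_lit 314))) (XT.nd (nat_lit 78) (nat_lit 228) (nat_lit 0) (XT.lf (nat_lit 76) (nat_lit 635477275) (nat_lit 0) (nat_lit 5067348270) (nat_lit 304) (nat_lit 635477275) (nat_lit 187) (nat_lit 1) (nat_lit 186) (nat_lit 1) (nat_lit 190) (nat_lit 1) (nat_lit 321) (nat_lit 386) (nat_lit 313)) (XT.lf (nat_lit 76) (nat_lit 2924294487) (nat_lit 0) (nat_lit 421049330) (nat_lit 228) (nat_lit 2924294487) (nat_lit 184) (nat_lit 1) (nat_lit 183) (nat_lit 1) (nat_lit 186) (nat_lit 1) (nat_lit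 322) (nat_lit 386) (nat_lit 312)))) (XT.nd (nat_lit 156) (nat_lit 456) (nat_lit 0) (XT.nd (nat_lit 78) (nat_lit 0) (nat_lit 0) (XT.lf (nat_lit 304) (nat_lit 4146456387) (nat_lit 0) (nat_lit 1027840917) (nat_lit 228) (nat_lit 1027840917) (nat_lit 184) (nat_lit 1) (nat_lit 180) (nat_lit 1) (nat_lit 183) (nat_lit 1) (nat_lit 323) (nat_lit 386) (nat_lit 311)) (XT.lf (nat_lit 76) (nat_lit 1226423226) (nat_lit 0) (nat_lit 3682561957) (nat_lit 304) (nat_lit 1226423226) (nat_lit 181) (nat_lit 1) (nat_lit 180) (nat_lit 1) (nat_lit 184) (nat_lit 1) (nat_lit 324) (nat_lit 386) (nat_lit 310))) (XT.nd (nat_lit 78) (nat_lit 304) (nat_lit 0) (XT.lf (nat_lit 228) (nat_lit 772461414) (nat_lit 0) (nat_lit 2648554606) (nat_lit 152) (nat_lit 2648554606) (nat_lit 181) (nat_lit 1) (nat_lit 178) (nat_lit 1) (nat_lit 180) (nat_lit 1) (nat_lit 325) (nat_lit 386) (nat_lit 309)) (XT.nd (nat_lit 78) (nat_lit 0) (nat_lit 0) (XT.lf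 (nat_lit 304) (nat_lit 5146793184) (nat_lit 0) (nat_lit 429066072) (nat_lit 228) (nat_lit 429066072) (nat_lit 178) (nat_lit 1) (nat_lit 174) (nat_lit 1) (nat_lit 177) (nat_lit 1) (nat_lit 326) (nat_lit 386) (nat_lit 308)) (XT.lf (nat_lit 76) (nat_lit 1732195033) (nat_lit 0) (nat_lit 2476072342) (nat_lit 304) (nat_lit 1732195033) (nat_lit 175) (nat_lit 1) (nat_lit 174) (nat_lit 1) (nat_lit 178) (nat_lit 1) (nat_lit 327) (nat_lit 386) (nat_lit 307)))))) (XT.nd (nat_lit 390) (nat_lit 760) (nat_lit 0) (XT.nd (nat_lit 156) (nat_lit 380) (nat_lit 0) (XT.nd (nat_lit 78) (nat_lit 0) (nat_lit 0) (XT.lf (nat_lit 228) (nat_lit 1806713760) (nat_lit 0) (nat_lit 2035228121) (nat_lit 152) (nat_lit 2035228121) (nat_lit 175) (nat_lit 1) (nat_lit 172) (nat_lit 1) (nat_lit 174) (nat_lit 1) (nat_lit 328) (nat_lit 386) (nat_lit 306)) (XT.lf (nat_lit 76) (nat_lit 89715517) (nat_lit 0) (nat_lit 5635769014) (nat_lit 228) (nat_lit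 89715517) (nat_lit 173) (nat_lit 1) (nat_lit 172) (nat_lit 1) (nat_lit 175) (nat_lit 1) (nat_lit 329) (nat_lit 386) (nat_lit 305))) (XT.nd (nat_lit 78) (nat_lit 152) (nat_lit 0) (XT.lf (nat_lit 76) (nat_lit 2162852153) (nat_lit 0) (nat_lit 1427301643) (nat_lit 228) (nat_lit 2162852153) (nat_lit 170) (nat_lit 1) (nat_lit 169) (nat_lit 1) (nat_lit 172) (nat_lit 1) (nat_lit 330) (nat_lit 386) (nat_lit 304)) (XT.nd (nat_lit 78) (nat_lit 0) (nat_lit 0) (XT.lf (nat_lit 228) (nat_lit 2693000803) (nat_lit 0) (nat_lit 1499556988) (nat_lit 152) (nat_lit 1499556988) (nat_lit 170) (nat_lit 1) (nat_lit 167) (nat_lit 1) (nat_lit 169) (nat_lit 1) (nat_lit 331) (nat_lit 386) (nat_lit 303)) (XT.lf (nat_lit 76) (nat_lit 540594198) (nat_lit 0) (nat_lit 4551032139) (nat_lit 228) (nat_lit 540594198) (nat_lit 168) (nat_lit 1) (nat_lit 167) (nat_lit 1) (nat_lit 170) (nat_lit 1) (nat_lit 332) (nat_lit 386) (nat_lit 302)))))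 (XT.nd (nat_lit 156) (nat_lit 380) (nat_lit 0) (XT.nd (nat_lit 78) (nat_lit 152) (nat_lit 0) (XT.lf (nat_lit 76) (nat_lit 2527315932) (nat_lit 0) (nat_lit 517987020) (nat_lit 228) (nat_lit 2527315932) (nat_lit 165) (nat_lit 1) (nat_lit 164) (nat_lit 1) (nat_lit 167) (nat_lit 1) (nat_lit 333) (nat_lit 386) (nat_lit 301)) (XT.lf (nat_lit 228) (nat_lit 3448773060) (nat_lit 0) (nat_lit 1032611877) (nat_lit 152) (nat_lit 1032611877) (nat_lit 165) (nat_lit 1) (nat_lit 162) (nat_lit 1) (nat_lit 164) (nat_lit 1) (nat_lit 334) (nat_lit 386) (nat_lit 300))) (XT.nd (nat_lit 78) (nat_lit 380) (nat_lit 0) (XT.lf (nat_lit 76) (nat_lit 927770287) (nat_lit 0) (nat_lit 3600547057) (nat_lit 228) (nat_lit 927770287) (nat_lit 163) (nat_lit 1) (nat_lit 162) (nat_lit 1) (nat_lit 165) (nat_lit 1) (nat_lit 335) (nat_lit 386) (nat_lit 299)) (XT.nd (nat_lit 78) (nat_lit 228) (nat_lit 0) (XT.lf (nat_lit 228) (nat_lit 273413437)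 (nat_lit 0) (nat_lit 2562711773) (nat_lit 152) (nat_lit 2562711773) (nat_lit 163) (nat_lit 1) (nat_lit 160) (nat_lit 1) (nat_lit 162) (nat_lit 1) (nat_lit 336) (nat_lit 386) (nat_lit 298)) (XT.lf (nat_lit 228) (nat_lit 4089507405) (nat_lit 0) (nat_lit 626467050) (nat_lit 152) (nat_lit 626467050) (nat_lit 160) (nat_lit 1) (nat_lit 157) (nat_lit 1) (nat_lit 159) (nat_lit 1) (nat_lit 337) (nat_lit 386) (nat_lit 297))))))))
noncomputable def ec232 : XT := (XT.nd (nat_lit 1404) (nat_lit 1748) (nat_lit 0) (XT.nd (nat_lit 702) (nat_lit 912) (nat_lit 0) (XT.nd (nat_lit 312) (nat_lit 456) (nat_lit 0) (XT.nd (nat_lit 156) (nat_lit 228) (nat_lit 0) (XT.nd (nat_lit 78) (nat_lit 152) (nat_lit 0) (XT.lf (nat_lit 76) (nat_lit 1258738430) (nat_lit 0) (nat_lit 2768955879) (nat_lit 228) (nat_lit 1258738430) (nat_lit 158) (nat_lit 1) (nat_lit 157) (nat_lit 1) (nat_lit 160) (nat_lit 1) (nat_lit 338) (nat_lit 386) (nat_lit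 296)) (XT.lf (nat_lit 228) (nat_lit 964086989) (nat_lit 0) (nat_lit 2133588815) (nat_lit 152) (nat_lit 2133588815) (nat_lit 158) (nat_lit 1) (nat_lit 155) (nat_lit 1) (nat_lit 157) (nat_lit 1) (nat_lit 339) (nat_lit 386) (nat_lit 295))) (XT.nd (nat_lit 78) (nat_lit 0) (nat_lit 0) (XT.lf (nat_lit 228) (nat_lit 4628927964) (nat_lit 0) (nat_lit 274088222) (nat_lit 152) (nat_lit 274088222) (nat_lit 155) (nat_lit 1) (nat_lit 152) (nat_lit 1) (nat_lit 154) (nat_lit 1) (nat_lit 340) (nat_lit 386) (nat_lit 294)) (XT.lf (nat_lit 76) (nat_lit 1540146139) (nat_lit 0) (nat_lit 2042624593) (nat_lit 228) (nat_lit 1540146139) (nat_lit 153) (nat_lit 1) (nat_lit 152) (nat_lit 1) (nat_lit 155) (nat_lit 1) (nat_lit 341) (nat_lit 386) (nat_lit 293)))) (XT.nd (nat_lit 156) (nat_lit 304) (nat_lit 0) (XT.nd (nat_lit 78) (nat_lit 0) (nat_lit 0) (XT.lf (nat_lit 228) (nat_lit 1556736755) (nat_lit 0) (nat_lit 1756493792) (nat_lit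 152) (nat_lit 1756493792) (nat_lit 153) (nat_lit 1) (nat_lit 150) (nat_lit 1) (nat_lit 152) (nat_lit 1) (nat_lit 342) (nat_lit 386) (nat_lit 292)) (XT.lf (nat_lit 76) (nat_lit 31071700) (nat_lit 0) (nat_lit 4955488775) (nat_lit 228) (nat_lit 31071700) (nat_lit 151) (nat_lit 1) (nat_lit 150) (nat_lit 1) (nat_lit 153) (nat_lit 1) (nat_lit 343) (nat_lit 386) (nat_lit 291))) (XT.nd (nat_lit 78) (nat_lit 152) (nat_lit 0) (XT.lf (nat_lit 76) (nat_lit 1777888582) (nat_lit 0) (nat_lit 1409450503) (nat_lit 152) (nat_lit 1777888582) (nat_lit 149) (nat_lit 1) (nat_lit 148) (nat_lit 1) (nat_lit 150) (nat_lit 1) (nat_lit 344) (nat_lit 386) (nat_lit 290)) (XT.nd (nat_lit 78) (nat_lit 0) (nat_lit 0) (XT.lf (nat_lit 228) (nat_lit 2062905446) (nat_lit 0) (nat_lit 1425503308) (nat_lit 152) (nat_lit 1425503308) (nat_lit 149) (nat_lit 1) (nat_lit 146) (nat_lit 1) (nat_lit 148) (nat_lit 1) (nat_lit 345) (nat_lit 386) (nat_lit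 289)) (XT.lf (nat_lit 76) (nat_lit 296545310) (nat_lit 0) (nat_lit 4270405569) (nat_lit 228) (nat_lit 296545310) (nat_lit 147) (nat_lit 1) (nat_lit 146) (nat_lit 1) (nat_lit 149) (nat_lit 1) (nat_lit 346) (nat_lit 386) (nat_lit 288)))))) (XT.nd (nat_lit 312) (nat_lit 456) (nat_lit 0) (XT.nd (nat_lit 156) (nat_lit 152) (nat_lit 0) (XT.nd (nat_lit 78) (nat_lit 152) (nat_lit 0) (XT.lf (nat_lit 76) (nat_lit 1977192809) (nat_lit 0) (nat_lit 858691146) (nat_lit 152) (nat_lit 1977192809) (nat_lit 145) (nat_lit 1) (nat_lit 144) (nat_lit 1) (nat_lit 146) (nat_lit 1) (nat_lit 347) (nat_lit 386) (nat_lit 287)) (XT.lf (nat_lit 228) (nat_lit 2492830791) (nat_lit 0) (nat_lit 1135358046) (nat_lit 152) (nat_lit 1135358046) (nat_lit 145) (nat_lit 1) (nat_lit 142) (nat_lit 1) (nat_lit 144) (nat_lit 1) (nat_lit 348) (nat_lit 386) (nat_lit 286))) (XT.nd (nat_lit 78) (nat_lit 152) (nat_lit 0) (XT.lf (nat_lit 76) (nat_lit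 524582014) (nat_lit 0) (nat_lit 3665576714) (nat_lit 228) (nat_lit 524582014) (nat_lit 143) (nat_lit 1) (nat_lit 142) (nat_lit 1) (nat_lit 145) (nat_lit 1) (nat_lit 349) (nat_lit 386) (nat_lit 285)) (XT.lf (nat_lit 76) (nat_lit 2142692562) (nat_lit 0) (nat_lit 380812301) (nat_lit 152) (nat_lit 2142692562) (nat_lit 141) (nat_lit 1) (nat_lit 140) (nat_lit 1) (nat_lit 142) (nat_lit 1) (nat_lit 350) (nat_lit 386) (nat_lit 284)))) (XT.nd (nat_lit 156) (nat_lit 304) (nat_lit 0) (XT.nd (nat_lit 78) (nat_lit 0) (nat_lit 0) (XT.lf (nat_lit 228) (nat_lit 2855591581) (nat_lit 0) (nat_lit 881388608) (nat_lit 152) (nat_lit 881388608) (nat_lit 141) (nat_lit 1) (nat_lit 138) (nat_lit 1) (nat_lit 140) (nat_lit 1) (nat_lit 351) (nat_lit 386) (nat_lit 283)) (XT.lf (nat_lit 76) (nat_lit 719584662) (nat_lit 0) (nat_lit 3131940420) (nat_lit 228) (nat_lit 719584662) (nat_lit 139) (nat_lit 1) (nat_lit 138) (nat_lit 1) (nat_lit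 141) (nat_lit 1) (nat_lit 352) (nat_lit 386) (nat_lit 282))) (XT.nd (nat_lit 78) (nat_lit 228) (nat_lit 0) (XT.lf (nat_lit 152) (nat_lit 33296787) (nat_lit 0) (nat_lit 2245518026) (nat_lit 76) (nat_lit 2245518026) (nat_lit 139) (nat_lit 1) (nat_lit 137) (nat_lit 1) (nat_lit 138) (nat_lit 1) (nat_lit 353) (nat_lit 386) (nat_lit 281)) (XT.nd (nat_lit 78) (nat_lit 0) (nat_lit 0) (XT.lf (nat_lit 228) (nat_lit 3159237406) (nat_lit 0) (nat_lit 659449634) (nat_lit 152) (nat_lit 659449634) (nat_lit 137) (nat_lit 1) (nat_lit 134) (nat_lit 1) (nat_lit 136) (nat_lit 1) (nat_lit 354) (nat_lit 386) (nat_lit 280)) (XT.lf (nat_lit 76) (nat_lit 885458484) (nat_lit 0) (nat_lit 2661448679) (nat_lit 228) (nat_lit 885458484) (nat_lit 135) (nat_lit 1) (nat_lit 134) (nat_lit 1) (nat_lit 137) (nat_lit 1) (nat_lit 355) (nat_lit 386) (nat_lit 279))))))) (XT.nd (nat_lit 702) (nat_lit 836) (nat_lit 0) (XT.nd (nat_lit 312) (nat_lit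 532) (nat_lit 0) (XT.nd (nat_lit 156) (nat_lit 76) (nat_lit 0) (XT.nd (nat_lit 78) (nat_lit 228) (nat_lit 0) (XT.lf (nat_lit 152) (nat_lit 396940415) (nat_lit 0) (nat_lit 1995113682) (nat_lit 76) (nat_lit 1995113682) (nat_lit 135) (nat_lit 1) (nat_lit 133) (nat_lit 1) (nat_lit 134) (nat_lit 1) (nat_lit 356) (nat_lit 386) (nat_lit 278)) (XT.lf (nat_lit 228) (nat_lit 3410903916) (nat_lit 0) (nat_lit 465861265) (nat_lit 152) (nat_lit 465861265) (nat_lit 133) (nat_lit 1) (nat_lit 130) (nat_lit 1) (nat_lit 132) (nat_lit 1) (nat_lit 357) (nat_lit 386) (nat_lit 277))) (XT.nd (nat_lit 78) (nat_lit 76) (nat_lit 0) (XT.lf (nat_lit 76) (nat_lit 1025666775) (nat_lit 0) (nat_lit 2246954118) (nat_lit 228) (nat_lit 1025666775) (nat_lit 131) (nat_lit 1) (nat_lit 130) (nat_lit 1) (nat_lit 133) (nat_lit 1) (nat_lit 358) (nat_lit 386) (nat_lit 276)) (XT.lf (nat_lit 152) (nat_lit 709333360) (nat_lit 0) (nat_lit 1772632666)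 (nat_lit 76) (nat_lit 1772632666) (nat_lit 131) (nat_lit 1) (nat_lit 129) (nat_lit 1) (nat_lit 130) (nat_lit 1) (nat_lit 359) (nat_lit 386) (nat_lit 275)))) (XT.nd (nat_lit 156) (nat_lit 304) (nat_lit 0) (XT.nd (nat_lit 78) (nat_lit 0) (nat_lit 0) (XT.lf (nat_lit 228) (nat_lit 3616915214) (nat_lit 0) (nat_lit 297357144) (nat_lit 152) (nat_lit 297357144) (nat_lit 129) (nat_lit 1) (nat_lit 126) (nat_lit 1) (nat_lit 128) (nat_lit 1) (nat_lit 360) (nat_lit 386) (nat_lit 274)) (XT.lf (nat_lit 76) (nat_lit 1143280364) (nat_lit 0) (nat_lit 1882109474) (nat_lit 228) (nat_lit 1143280364) (nat_lit 127) (nat_lit 1) (nat_lit 126) (nat_lit 1) (nat_lit 129) (nat_lit 1) (nat_lit 361) (nat_lit 386) (nat_lit 273))) (XT.nd (nat_lit 78) (nat_lit 228) (nat_lit 0) (XT.lf (nat_lit 152) (nat_lit 976502379) (nat_lit 0) (nat_lit 1574961164) (nat_lit 76) (nat_lit 1574961164) (nat_lit 127) (nat_lit 1) (nat_lit 125) (nat_lit 1)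 (nat_lit 126) (nat_lit 1) (nat_lit 362) (nat_lit 386) (nat_lit 272)) (XT.nd (nat_lit 78) (nat_lit 0) (nat_lit 0) (XT.lf (nat_lit 228) (nat_lit 3782874808) (nat_lit 0) (nat_lit 151038207) (nat_lit 152) (nat_lit 151038207) (nat_lit 125) (nat_lit 1) (nat_lit 122) (nat_lit 1) (nat_lit 124) (nat_lit 1) (nat_lit 363) (nat_lit 386) (nat_lit 271)) (XT.lf (nat_lit 76) (nat_lit 1241021562) (nat_lit 0) (nat_lit 1561278282) (nat_lit 228) (nat_lit 1241021562) (nat_lit 123) (nat_lit 1) (nat_lit 122) (nat_lit 1) (nat_lit 125) (nat_lit 1) (nat_lit 364) (nat_lit 386) (nat_lit 270)))))) (XT.nd (nat_lit 390) (nat_lit 456) (nat_lit 0) (XT.nd (nat_lit 156) (nat_lit 76) (nat_lit 0) (XT.nd (nat_lit 78) (nat_lit 228) (nat_lit 0) (XT.lf (nat_lit 152) (nat_lit 1203793091) (nat_lit 0) (nat_lit 1399332595) (nat_lit 76) (nat_lit 1399332595) (nat_lit 123) (nat_lit 1) (nat_lit 121) (nat_lit 1) (nat_lit 122) (nat_lit 1) (nat_lit 365)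 (nat_lit 386) (nat_lit 269)) (XT.lf (nat_lit 228) (nat_lit 3913746424) (nat_lit 0) (nat_lit 24331643) (nat_lit 152) (nat_lit 24331643) (nat_lit 121) (nat_lit 1) (nat_lit 118) (nat_lit 1) (nat_lit 120) (nat_lit 1) (nat_lit 366) (nat_lit 386) (nat_lit 268))) (XT.nd (nat_lit 78) (nat_lit 76) (nat_lit 0) (XT.lf (nat_lit 76) (nat_lit 1321303201) (nat_lit 0) (nat_lit 1279455523) (nat_lit 228) (nat_lit 1321303201) (nat_lit 119) (nat_lit 1) (nat_lit 118) (nat_lit 1) (nat_lit 121) (nat_lit 1) (nat_lit 367) (nat_lit 386) (nat_lit 267)) (XT.nd (nat_lit 78) (nat_lit 0) (nat_lit 0) (XT.lf (nat_lit 152) (nat_lit 1395946196) (nat_lit 0) (nat_lit 1243288886) (nat_lit 76) (nat_lit 1243288886) (nat_lit 119) (nat_lit 1) (nat_lit 117) (nat_lit 1) (nat_lit 118) (nat_lit 1) (nat_lit 368) (nat_lit 386) (nat_lit 266)) (XT.lf (nat_lit 0) (nat_lit 85887615) (nat_lit 0) (nat_lit 3671959812) (nat_lit 152) (nat_lit 85887615) (nat_lit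 117) (nat_lit 3) (nat_lit 117) (nat_lit 1) (nat_lit 119) (nat_lit 1) (nat_lit 369) (nat_lit 386) (nat_lit 265))))) (XT.nd (nat_lit 156) (nat_lit 228) (nat_lit 0) (XT.nd (nat_lit 78) (nat_lit 76) (nat_lit 0) (XT.lf (nat_lit 76) (nat_lit 1386263322) (nat_lit 0) (nat_lit 1032197128) (nat_lit 152) (nat_lit 1386263322) (nat_lit 116) (nat_lit 1) (nat_lit 115) (nat_lit 1) (nat_lit 117) (nat_lit 1) (nat_lit 370) (nat_lit 386) (nat_lit 264)) (XT.lf (nat_lit 152) (nat_lit 1557165188) (nat_lit 0) (nat_lit 1104646072) (nat_lit 76) (nat_lit 1104646072) (nat_lit 116) (nat_lit 1) (nat_lit 114) (nat_lit 1) (nat_lit 115) (nat_lit 1) (nat_lit 371) (nat_lit 386) (nat_lit 263))) (XT.nd (nat_lit 78) (nat_lit 228) (nat_lit 0) (XT.lf (nat_lit 0) (nat_lit 180892566) (nat_lit 0) (nat_lit 3367071266) (nat_lit 152) (nat_lit 180892566) (nat_lit 114) (nat_lit 3) (nat_lit 114) (nat_lit 1) (nat_lit 116) (nat_lit 1) (nat_lit 372)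 (nat_lit 386) (nat_lit 262)) (XT.nd (nat_lit 78) (nat_lit 76) (nat_lit 0) (XT.lf (nat_lit 76) (nat_lit 1437795978) (nat_lit 0) (nat_lit 815557339) (nat_lit 152) (nat_lit 1437795978) (nat_lit 113) (nat_lit 1) (nat_lit 112) (nat_lit 1) (nat_lit 114) (nat_lit 1) (nat_lit 373) (nat_lit 386) (nat_lit 261)) (XT.lf (nat_lit 152) (nat_lit 1691176513) (nat_lit 0) (nat_lit 981463728) (nat_lit 76) (nat_lit 981463728) (nat_lit 113) (nat_lit 1) (nat_lit 111) (nat_lit 1) (nat_lit 112) (nat_lit 1) (nat_lit 374) (nat_lit 386) (nat_lit 260))))))))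
noncomputable def ec233 : XT := (XT.nd (nat_lit 1482) (nat_lit 1444) (nat_lit 0) (XT.nd (nat_lit 702) (nat_lit 684) (nat_lit 0) (XT.nd (nat_lit 312) (nat_lit 456) (nat_lit 0) (XT.nd (nat_lit 156) (nat_lit 76) (nat_lit 0) (XT.nd (nat_lit 78) (nat_lit 152) (nat_lit 0) (XT.lf (nat_lit 0) (nat_lit 262257142) (nat_lit 0) (nat_lit 3093135649) (nat_lit 152) (nat_lit 262257142) (nat_lit 111) (nat_lit 3) (nat_lit 111) (nat_lit 1) (nat_lit 113) (nat_lit 1) (nat_lit 375) (nat_lit 386) (nat_lit 259)) (XT.lf (nat_lit 76) (nat_lit 1477578611) (nat_lit 0) (nat_lit 626033065) (nat_lit 152) (nat_lit 1477578611) (nat_lit 110) (nat_lit 1) (nat_lit 109) (nat_lit 1) (nat_lit 111) (nat_lit 1) (nat_lit 376) (nat_lit 386) (nat_lit 258))) (XT.nd (nat_lit 78) (nat_lit 0) (nat_lit 0) (XT.lf (nat_lit 152) (nat_lit 1801283002) (nat_lit 0) (nat_lit 872017810) (nat_lit 76) (nat_lit 872017810) (nat_lit 110) (nat_lit 1) (nat_lit 108)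 (nat_lit 1) (nat_lit 109) (nat_lit 1) (nat_lit 377) (nat_lit 386) (nat_lit 257)) (XT.lf (nat_lit 0) (nat_lit 331591141) (nat_lit 0) (nat_lit 2846790029) (nat_lit 152) (nat_lit 331591141) (nat_lit 108) (nat_lit 3) (nat_lit 108) (nat_lit 1) (nat_lit 110) (nat_lit 1) (nat_lit 378) (nat_lit 386) (nat_lit 256)))) (XT.nd (nat_lit 156) (nat_lit 228) (nat_lit 0) (XT.nd (nat_lit 78) (nat_lit 76) (nat_lit 0) (XT.lf (nat_lit 76) (nat_lit 1507096358) (nat_lit 0) (nat_lit 460514438) (nat_lit 152) (nat_lit 1507096358) (nat_lit 107) (nat_lit 1) (nat_lit 106) (nat_lit 1) (nat_lit 108) (nat_lit 1) (nat_lit 379) (nat_lit 386) (nat_lit 255)) (XT.lf (nat_lit 152) (nat_lit 1890411349) (nat_lit 0) (nat_lit 774776530) (nat_lit 76) (nat_lit 774776530) (nat_lit 107) (nat_lit 1) (nat_lit 105) (nat_lit 1) (nat_lit 106) (nat_lit 1) (nat_lit 380) (nat_lit 386) (nat_lit 254))) (XT.nd (nat_lit 78) (nat_lit 228) (nat_lit 0) (XT.lf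 (nat_lit 0) (nat_lit 390322266) (nat_lit 0) (nat_lit 2625043901) (nat_lit 152) (nat_lit 390322266) (nat_lit 105) (nat_lit 3) (nat_lit 105) (nat_lit 1) (nat_lit 107) (nat_lit 1) (nat_lit 381) (nat_lit 386) (nat_lit 253)) (XT.nd (nat_lit 78) (nat_lit 76) (nat_lit 0) (XT.lf (nat_lit 76) (nat_lit 1527663652) (nat_lit 0) (nat_lit 316240887) (nat_lit 152) (nat_lit 1527663652) (nat_lit 104) (nat_lit 1) (nat_lit 103) (nat_lit 1) (nat_lit 105) (nat_lit 1) (nat_lit 382) (nat_lit 386) (nat_lit 252)) (XT.lf (nat_lit 152) (nat_lit 1961154283) (nat_lit 0) (nat_lit 688378912) (nat_lit 76) (nat_lit 688378912) (nat_lit 104) (nat_lit 1) (nat_lit 102) (nat_lit 1) (nat_lit 103) (nat_lit 1) (nat_lit 383) (nat_lit 386) (nat_lit 251)))))) (XT.nd (nat_lit 390) (nat_lit 304) (nat_lit 0) (XT.nd (nat_lit 156) (nat_lit 228) (nat_lit 0) (XT.nd (nat_lit 78) (nat_lit 152) (nat_lit 0) (XT.lf (nat_lit 0) (nat_lit 439716504) (nat_lit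 0) (nat_lit 2425237732) (nat_lit 152) (nat_lit 439716504) (nat_lit 102) (nat_lit 3) (nat_lit 102) (nat_lit 1) (nat_lit 104) (nat_lit 1) (nat_lit 384) (nat_lit 386) (nat_lit 250)) (XT.lf (nat_lit 76) (nat_lit 1540443406) (nat_lit 0) (nat_lit 190762121) (nat_lit 152) (nat_lit 1540443406) (nat_lit 101) (nat_lit 1) (nat_lit 100) (nat_lit 1) (nat_lit 102) (nat_lit 1) (nat_lit 385) (nat_lit 386) (nat_lit 249))) (XT.nd (nat_lit 78) (nat_lit 152) (nat_lit 0) (XT.lf (nat_lit 152) (nat_lit 2015808027) (nat_lit 0) (nat_lit 611615747) (nat_lit 76) (nat_lit 611615747) (nat_lit 101) (nat_lit 1) (nat_lit 99) (nat_lit 1) (nat_lit 100) (nat_lit 1) (nat_lit 386) (nat_lit 386) (nat_lit 248)) (XT.nd (nat_lit 78) (nat_lit 152) (nat_lit 0) (XT.lf (nat_lit 0) (nat_lit 480896230) (nat_lit 0) (nat_lit 2245006124) (nat_lit 152) (nat_lit 480896230) (nat_lit 99) (nat_lit 3) (nat_lit 99) (nat_lit 1) (nat_lit 101) (nat_lit 1) (nat_lit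 387) (nat_lit 386) (nat_lit 247)) (XT.lf (nat_lit 76) (nat_lit 1546464050) (nat_lit 0) (nat_lit 81903449) (nat_lit 152) (nat_lit 1546464050) (nat_lit 98) (nat_lit 1) (nat_lit 97) (nat_lit 1) (nat_lit 99) (nat_lit 1) (nat_lit 388) (nat_lit 386) (nat_lit 246))))) (XT.nd (nat_lit 156) (nat_lit 228) (nat_lit 0) (XT.nd (nat_lit 78) (nat_lit 0) (nat_lit 0) (XT.lf (nat_lit 152) (nat_lit 2056405584) (nat_lit 0) (nat_lit 543412669) (nat_lit 76) (nat_lit 543412669) (nat_lit 98) (nat_lit 1) (nat_lit 96) (nat_lit 1) (nat_lit 97) (nat_lit 1) (nat_lit 389) (nat_lit 386) (nat_lit 245)) (XT.lf (nat_lit 0) (nat_lit 514856296) (nat_lit 0) (nat_lit 2082245089) (nat_lit 152) (nat_lit 514856296) (nat_lit 96) (nat_lit 3) (nat_lit 96) (nat_lit 1) (nat_lit 98) (nat_lit 1) (nat_lit 390) (nat_lit 386) (nat_lit 244))) (XT.nd (nat_lit 78) (nat_lit 152) (nat_lit 0) (XT.lf (nat_lit 76) (nat_lit 12509113) (nat_lit 0) (nat_lit 1534245805)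 (nat_lit 76) (nat_lit 1534245805) (nat_lit 96) (nat_lit 3) (nat_lit 95) (nat_lit 1) (nat_lit 96) (nat_lit 1) (nat_lit 391) (nat_lit 386) (nat_lit 243)) (XT.nd (nat_lit 78) (nat_lit 0) (nat_lit 0) (XT.lf (nat_lit 152) (nat_lit 2084746290) (nat_lit 0) (nat_lit 482815118) (nat_lit 76) (nat_lit 482815118) (nat_lit 95) (nat_lit 1) (nat_lit 93) (nat_lit 1) (nat_lit 94) (nat_lit 1) (nat_lit 392) (nat_lit 386) (nat_lit 242)) (XT.lf (nat_lit 0) (nat_lit 542478320) (nat_lit 0) (nat_lit 1935082961) (nat_lit 152) (nat_lit 542478320) (nat_lit 93) (nat_lit 3) (nat_lit 93) (nat_lit 1) (nat_lit 95) (nat_lit 1) (nat_lit 393) (nat_lit 386) (nat_lit 241))))))) (XT.nd (nat_lit 702) (nat_lit 760) (nat_lit 0) (XT.nd (nat_lit 312) (nat_lit 380) (nat_lit 0) (XT.nd (nat_lit 156) (nat_lit 76) (nat_lit 0) (XT.nd (nat_lit 78) (nat_lit 152) (nat_lit 0) (XT.lf (nat_lit 76) (nat_lit 95315676) (nat_lit 0) (nat_lit 1447359017) (nat_lit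 76) (nat_lit 1447359017) (nat_lit 93) (nat_lit 3) (nat_lit 92) (nat_lit 1) (nat_lit 93) (nat_lit 1) (nat_lit 394) (nat_lit 386) (nat_lit 240)) (XT.lf (nat_lit 152) (nat_lit 2102422081) (nat_lit 0) (nat_lit 428974979) (nat_lit 76) (nat_lit 428974979) (nat_lit 92) (nat_lit 1) (nat_lit 90) (nat_lit 1) (nat_lit 91) (nat_lit 1) (nat_lit 395) (nat_lit 386) (nat_lit 239))) (XT.nd (nat_lit 78) (nat_lit 76) (nat_lit 0) (XT.lf (nat_lit 0) (nat_lit 564543378) (nat_lit 0) (nat_lit 1801854565) (nat_lit 152) (nat_lit 564543378) (nat_lit 90) (nat_lit 3) (nat_lit 90) (nat_lit 1) (nat_lit 92) (nat_lit 1) (nat_lit 396) (nat_lit 386) (nat_lit 238)) (XT.lf (nat_lit 76) (nat_lit 166435764) (nat_lit 0) (nat_lit 1367708761) (nat_lit 76) (nat_lit 1367708761) (nat_lit 90) (nat_lit 3) (nat_lit 89) (nat_lit 1) (nat_lit 90) (nat_lit 1) (nat_lit 397) (nat_lit 386) (nat_lit 237)))) (XT.nd (nat_lit 156) (nat_lit 228) (nat_lit 0)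 (XT.nd (nat_lit 78) (nat_lit 0) (nat_lit 0) (XT.lf (nat_lit 152) (nat_lit 2110840811) (nat_lit 0) (nat_lit 381138713) (nat_lit 76) (nat_lit 381138713) (nat_lit 89) (nat_lit 1) (nat_lit 87) (nat_lit 1) (nat_lit 88) (nat_lit 1) (nat_lit 398) (nat_lit 386) (nat_lit 236)) (XT.lf (nat_lit 0) (nat_lit 581743282) (nat_lit 0) (nat_lit 1681078246) (nat_lit 152) (nat_lit 581743282) (nat_lit 87) (nat_lit 3) (nat_lit 87) (nat_lit 1) (nat_lit 89) (nat_lit 1) (nat_lit 399) (nat_lit 386) (nat_lit 235))) (XT.nd (nat_lit 78) (nat_lit 152) (nat_lit 0) (XT.lf (nat_lit 76) (nat_lit 227244002) (nat_lit 0) (nat_lit 1294559501) (nat_lit 76) (nat_lit 1294559501) (nat_lit 87) (nat_lit 3) (nat_lit 86) (nat_lit 1) (nat_lit 87) (nat_lit 1) (nat_lit 400) (nat_lit 386) (nat_lit 234)) (XT.nd (nat_lit 78) (nat_lit 0) (nat_lit 0) (XT.lf (nat_lit 152) (nat_lit 2111246976) (nat_lit 0) (nat_lit 338636810) (nat_lit 76) (nat_lit 338636810)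 (nat_lit 86) (nat_lit 1) (nat_lit 84) (nat_lit 1) (nat_lit 85) (nat_lit 1) (nat_lit 401) (nat_lit 386) (nat_lit 233)) (XT.lf (nat_lit 0) (nat_lit 594690598) (nat_lit 0) (nat_lit 1571435474) (nat_lit 152) (nat_lit 594690598) (nat_lit 84) (nat_lit 3) (nat_lit 84) (nat_lit 1) (nat_lit 86) (nat_lit 1) (nat_lit 402) (nat_lit 386) (nat_lit 232)))))) (XT.nd (nat_lit 390) (nat_lit 304) (nat_lit 0) (XT.nd (nat_lit 156) (nat_lit 228) (nat_lit 0) (XT.nd (nat_lit 78) (nat_lit 152) (nat_lit 0) (XT.lf (nat_lit 76) (nat_lit 278959645) (nat_lit 0) (nat_lit 1227255642) (nat_lit 76) (nat_lit 1227255642) (nat_lit 84) (nat_lit 3) (nat_lit 83) (nat_lit 1) (nat_lit 84) (nat_lit 1) (nat_lit 403) (nat_lit 386) (nat_lit 231)) (XT.lf (nat_lit 152) (nat_lit 2104740112) (nat_lit 0) (nat_lit 300874419) (nat_lit 76) (nat_lit 300874419) (nat_lit 83) (nat_lit 1) (nat_lit 81) (nat_lit 1) (nat_lit 82) (nat_lit 1) (nat_lit 404) (nat_lit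 386) (nat_lit 230))) (XT.nd (nat_lit 78) (nat_lit 228) (nat_lit 0) (XT.lf (nat_lit 0) (nat_lit 603927540) (nat_lit 0) (nat_lit 1471752712) (nat_lit 152) (nat_lit 603927540) (nat_lit 81) (nat_lit 3) (nat_lit 81) (nat_lit 1) (nat_lit 83) (nat_lit 1) (nat_lit 405) (nat_lit 386) (nat_lit 229)) (XT.nd (nat_lit 78) (nat_lit 152) (nat_lit 0) (XT.lf (nat_lit 76) (nat_lit 322663966) (nat_lit 0) (nat_lit 1165212677) (nat_lit 76) (nat_lit 1165212677) (nat_lit 81) (nat_lit 3) (nat_lit 80) (nat_lit 1) (nat_lit 81) (nat_lit 1) (nat_lit 406) (nat_lit 386) (nat_lit 228)) (XT.lf (nat_lit 152) (nat_lit 2092291144) (nat_lit 0) (nat_lit 267323025) (nat_lit 76) (nat_lit 267323025) (nat_lit 80) (nat_lit 1) (nat_lit 78) (nat_lit 1) (nat_lit 79) (nat_lit 1) (nat_lit 407) (nat_lit 386) (nat_lit 227))))) (XT.nd (nat_lit 156) (nat_lit 228) (nat_lit 0) (XT.nd (nat_lit 78) (nat_lit 76) (nat_lit 0) (XT.lf (nat_lit 0) (nat_lit 609933881)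 (nat_lit 0) (nat_lit 1380985306) (nat_lit 152) (nat_lit 609933881) (nat_lit 78) (nat_lit 3) (nat_lit 78) (nat_lit 1) (nat_lit 80) (nat_lit 1) (nat_lit 408) (nat_lit 386) (nat_lit 226)) (XT.lf (nat_lit 76) (nat_lit 359315701) (nat_lit 0) (nat_lit 1107909317) (nat_lit 76) (nat_lit 1107909317) (nat_lit 78) (nat_lit 3) (nat_lit 77) (nat_lit 1) (nat_lit 78) (nat_lit 1) (nat_lit 409) (nat_lit 386) (nat_lit 225))) (XT.nd (nat_lit 78) (nat_lit 76) (nat_lit 0) (XT.lf (nat_lit 152) (nat_lit 2074756898) (nat_lit 0) (nat_lit 237513045) (nat_lit 76) (nat_lit 237513045) (nat_lit 77) (nat_lit 1) (nat_lit 75) (nat_lit 1) (nat_lit 76) (nat_lit 1) (nat_lit 410) (nat_lit 386) (nat_lit 224)) (XT.nd (nat_lit 78) (nat_lit 76) (nat_lit 0) (XT.lf (nat_lit 0) (nat_lit 613133969) (nat_lit 0) (nat_lit 1298203174) (nat_lit 152) (nat_lit 613133969) (nat_lit 75) (nat_lit 3) (nat_lit 75) (nat_lit 1) (nat_lit 77) (nat_lit 1) (nat_lit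 411) (nat_lit 386) (nat_lit 223)) (XT.lf (nat_lit 76) (nat_lit 389764770) (nat_lit 0) (nat_lit 1054880502) (nat_lit 76) (nat_lit 1054880502) (nat_lit 75) (nat_lit 3) (nat_lit 74) (nat_lit 1) (nat_lit 75) (nat_lit 1) (nat_lit 412) (nat_lit 386) (nat_lit 222))))))))
noncomputable def ec234 : XT := (XT.nd (nat_lit 40170) (nat_lit 0) (nat_lit 22648) (XT.nd (nat_lit 702) (nat_lit 684) (nat_lit 0) (XT.nd (nat_lit 312) (nat_lit 304) (nat_lit 0) (XT.nd (nat_lit 156) (nat_lit 228) (nat_lit 0) (XT.nd (nat_lit 78) (nat_lit 0) (nat_lit 0) (XT.lf (nat_lit 152) (nat_lit 2052892996) (nat_lit 0) (nat_lit 211027264) (nat_lit 76) (nat_lit 211027264) (nat_lit 74) (nat_lit 1) (nat_lit 72) (nat_lit 1) (nat_lit 73) (nat_lit 1) (nat_lit 413) (nat_lit 386) (nat_lit 221)) (XT.lf (nat_lit 0) (nat_lit 613902965) (nat_lit 0) (nat_lit 1222578080) (nat_lit 152) (nat_lit 613902965) (nat_lit 72) (nat_lit 3) (nat_lit 72) (nat_lit 1)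 (nat_lit 74) (nat_lit 1) (nat_lit 414) (nat_lit 386) (nat_lit 220))) (XT.nd (nat_lit 78) (nat_lit 152) (nat_lit 0) (XT.lf (nat_lit 76) (nat_lit 414764467) (nat_lit 0) (nat_lit 1005711181) (nat_lit 76) (nat_lit 1005711181) (nat_lit 72) (nat_lit 3) (nat_lit 71) (nat_lit 1) (nat_lit 72) (nat_lit 1) (nat_lit 415) (nat_lit 386) (nat_lit 219)) (XT.lf (nat_lit 152) (nat_lit 2027365308) (nat_lit 0) (nat_lit 187494991) (nat_lit 76) (nat_lit 187494991) (nat_lit 71) (nat_lit 1) (nat_lit 69) (nat_lit 1) (nat_lit 70) (nat_lit 1) (nat_lit 416) (nat_lit 386) (nat_lit 218)))) (XT.nd (nat_lit 156) (nat_lit 228) (nat_lit 0) (XT.nd (nat_lit 78) (nat_lit 76) (nat_lit 0) (XT.lf (nat_lit 0) (nat_lit 612572381) (nat_lit 0) (nat_lit 1153372337) (nat_lit 152) (nat_lit 612572381) (nat_lit 69) (nat_lit 3) (nat_lit 69) (nat_lit 1) (nat_lit 71) (nat_lit 1) (nat_lit 417) (nat_lit 386) (nat_lit 217)) (XT.lf (nat_lit 76) (nat_lit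 434982292) (nat_lit 0) (nat_lit 960030793) (nat_lit 76) (nat_lit 960030793) (nat_lit 69) (nat_lit 3) (nat_lit 68) (nat_lit 1) (nat_lit 69) (nat_lit 1) (nat_lit 418) (nat_lit 386) (nat_lit 216))) (XT.nd (nat_lit 78) (nat_lit 76) (nat_lit 0) (XT.lf (nat_lit 152) (nat_lit 1998760119) (nat_lit 0) (nat_lit 166586871) (nat_lit 76) (nat_lit 166586871) (nat_lit 68) (nat_lit 1) (nat_lit 66) (nat_lit 1) (nat_lit 67) (nat_lit 1) (nat_lit 419) (nat_lit 386) (nat_lit 215)) (XT.nd (nat_lit 78) (nat_lit 76) (nat_lit 0) (XT.lf (nat_lit 0) (nat_lit 609435003) (nat_lit 0) (nat_lit 1089928760) (nat_lit 152) (nat_lit 609435003) (nat_lit 66) (nat_lit 3) (nat_lit 66) (nat_lit 1) (nat_lit 68) (nat_lit 1) (nat_lit 420) (nat_lit 386) (nat_lit 214)) (XT.lf (nat_lit 76) (nat_lit 451009564) (nat_lit 0) (nat_lit 917508357) (nat_lit 76) (nat_lit 917508357) (nat_lit 66) (nat_lit 3) (nat_lit 65) (nat_lit 1) (nat_lit 66) (nat_lit 1)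 (nat_lit 421) (nat_lit 386) (nat_lit 213)))))) (XT.nd (nat_lit 390) (nat_lit 304) (nat_lit 0) (XT.nd (nat_lit 156) (nat_lit 228) (nat_lit 0) (XT.nd (nat_lit 78) (nat_lit 0) (nat_lit 0) (XT.lf (nat_lit 152) (nat_lit 1967593159) (nat_lit 0) (nat_lit 148010277) (nat_lit 76) (nat_lit 148010277) (nat_lit 65) (nat_lit 1) (nat_lit 63) (nat_lit 1) (nat_lit 64) (nat_lit 1) (nat_lit 422) (nat_lit 386) (nat_lit 212)) (XT.lf (nat_lit 0) (nat_lit 604749259) (nat_lit 0) (nat_lit 1031661738) (nat_lit 152) (nat_lit 604749259) (nat_lit 63) (nat_lit 3) (nat_lit 63) (nat_lit 1) (nat_lit 65) (nat_lit 1) (nat_lit 423) (nat_lit 386) (nat_lit 211))) (XT.nd (nat_lit 78) (nat_lit 152) (nat_lit 0) (XT.lf (nat_lit 76) (nat_lit 463369974) (nat_lit 0) (nat_lit 877848109) (nat_lit 76) (nat_lit 877848109) (nat_lit 63) (nat_lit 3) (nat_lit 62) (nat_lit 1) (nat_lit 63) (nat_lit 1) (nat_lit 424) (nat_lit 386) (nat_lit 210)) (XT.nd (nat_lit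 78) (nat_lit 0) (nat_lit 0) (XT.lf (nat_lit 152) (nat_lit 1934317621) (nat_lit 0) (nat_lit 131505214) (nat_lit 76) (nat_lit 131505214) (nat_lit 62) (nat_lit 1) (nat_lit 60) (nat_lit 1) (nat_lit 61) (nat_lit 1) (nat_lit 425) (nat_lit 386) (nat_lit 209)) (XT.lf (nat_lit 0) (nat_lit 598743100) (nat_lit 0) (nat_lit 978049308) (nat_lit 152) (nat_lit 598743100) (nat_lit 60) (nat_lit 3) (nat_lit 60) (nat_lit 1) (nat_lit 62) (nat_lit 1) (nat_lit 426) (nat_lit 386) (nat_lit 208))))) (XT.nd (nat_lit 156) (nat_lit 76) (nat_lit 0) (XT.nd (nat_lit 78) (nat_lit 152) (nat_lit 0) (XT.lf (nat_lit 76) (nat_lit 472527169) (nat_lit 0) (nat_lit 840785624) (nat_lit 76) (nat_lit 840785624) (nat_lit 60) (nat_lit 3) (nat_lit 59) (nat_lit 1) (nat_lit 60) (nat_lit 1) (nat_lit 427) (nat_lit 386) (nat_lit 207)) (XT.lf (nat_lit 152) (nat_lit 1899331282) (nat_lit 0) (nat_lit 116840679) (nat_lit 76) (nat_lit 116840679) (nat_lit 59)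 (nat_lit 1) (nat_lit 57) (nat_lit 1) (nat_lit 58) (nat_lit 1) (nat_lit 428) (nat_lit 386) (nat_lit 206))) (XT.nd (nat_lit 78) (nat_lit 76) (nat_lit 0) (XT.lf (nat_lit 0) (nat_lit 591617446) (nat_lit 0) (nat_lit 928626099) (nat_lit 152) (nat_lit 591617446) (nat_lit 57) (nat_lit 3) (nat_lit 57) (nat_lit 1) (nat_lit 59) (nat_lit 1) (nat_lit 429) (nat_lit 386) (nat_lit 205)) (XT.nd (nat_lit 38766) (nat_lit 0) (nat_lit 24168) (XT.lf (nat_lit 76) (nat_lit 478891501) (nat_lit 0) (nat_lit 806084369) (nat_lit 76) (nat_lit 806084369) (nat_lit 57) (nat_lit 3) (nat_lit 56) (nat_lit 1) (nat_lit 57) (nat_lit 1) (nat_lit 430) (nat_lit 386) (nat_lit 204)) (XT.lf (nat_lit 1292) (nat_lit 1496284711) (nat_lit 0) (nat_lit 5147915283) (nat_lit 1292) (nat_lit 1496284711) (nat_lit 391) (nat_lit 1) (nat_lit 374) (nat_lit 0) (nat_lit 391) (nat_lit 0) (nat_lit 246) (nat_lit 387) (nat_lit 387))))))) (XT.nd (nat_lit 702) (nat_lit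 1520) (nat_lit 0) (XT.nd (nat_lit 312) (nat_lit 0) (nat_lit 152) (XT.nd (nat_lit 156) (nat_lit 0) (nat_lit 76) (XT.nd (nat_lit 78) (nat_lit 0) (nat_lit 76) (XT.lf (nat_lit 1292) (nat_lit 5847506872) (nat_lit 76) (nat_lit 5097445525) (nat_lit 0) (nat_lit 5097445525) (nat_lit 391) (nat_lit 1) (nat_lit 375) (nat_lit 1) (nat_lit 374) (nat_lit 0) (nat_lit 247) (nat_lit 387) (nat_lit 386)) (XT.lf (nat_lit 1292) (nat_lit 2827993744) (nat_lit 0) (nat_lit 10153101335) (nat_lit 1216) (nat_lit 2827993744) (nat_lit 392) (nat_lit 1) (nat_lit 375) (nat_lit 1) (nat_lit 391) (nat_lit 1) (nat_lit 248) (nat_lit 387) (nat_lit 385))) (XT.nd (nat_lit 78) (nat_lit 0) (nat_lit 76) (XT.lf (nat_lit 1292) (nat_lit 5370506131) (nat_lit 76) (nat_lit 5104584887) (nat_lit 0) (nat_lit 5104584887) (nat_lit 392) (nat_lit 1) (nat_lit 376) (nat_lit 1) (nat_lit 375) (nat_lit 1) (nat_lit 249) (nat_lit 387) (nat_lit 384)) (XT.lf (nat_lit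 1292) (nat_lit 2520083218) (nat_lit 0) (nat_lit 10315229743) (nat_lit 1216) (nat_lit 2520083218) (nat_lit 393) (nat_lit 1) (nat_lit 376) (nat_lit 1) (nat_lit 392) (nat_lit 1) (nat_lit 250) (nat_lit 387) (nat_lit 383)))) (XT.nd (nat_lit 156) (nat_lit 0) (nat_lit 76) (XT.nd (nat_lit 78) (nat_lit 0) (nat_lit 76) (XT.lf (nat_lit 1292) (nat_lit 4618318582) (nat_lit 76) (nat_lit 5258192382) (nat_lit 0) (nat_lit 5258192382) (nat_lit 393) (nat_lit 1) (nat_lit 377) (nat_lit 1) (nat_lit 376) (nat_lit 1) (nat_lit 251) (nat_lit 387) (nat_lit 382)) (XT.lf (nat_lit 1292) (nat_lit 2081515816) (nat_lit 0) (nat_lit 10756075005) (nat_lit 1216) (nat_lit 2081515816) (nat_lit 394) (nat_lit 1) (nat_lit 377) (nat_lit 1) (nat_lit 393) (nat_lit 1) (nat_lit 252) (nat_lit 387) (nat_lit 381))) (XT.nd (nat_lit 78) (nat_lit 0) (nat_lit 76) (XT.lf (nat_lit 1292) (nat_lit 3615553752) (nat_lit 76) (nat_lit 5545582142) (nat_lit 0) (nat_lit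 5545582142) (nat_lit 394) (nat_lit 1) (nat_lit 378) (nat_lit 1) (nat_lit 377) (nat_lit 1) (nat_lit 253) (nat_lit 387) (nat_lit 380)) (XT.nd (nat_lit 78) (nat_lit 0) (nat_lit 0) (XT.lf (nat_lit 1292) (nat_lit 1524112133) (nat_lit 0) (nat_lit 11451248594) (nat_lit 1216) (nat_lit 1524112133) (nat_lit 395) (nat_lit 1) (nat_lit 378) (nat_lit 1) (nat_lit 394) (nat_lit 1) (nat_lit 254) (nat_lit 387) (nat_lit 379)) (XT.lf (nat_lit 1292) (nat_lit 2385151799) (nat_lit 76) (nat_lit 5954921119) (nat_lit 0) (nat_lit 5954921119) (nat_lit 395) (nat_lit 1) (nat_lit 379) (nat_lit 1) (nat_lit 378) (nat_lit 1) (nat_lit 255) (nat_lit 387) (nat_lit 378)))))) (XT.nd (nat_lit 390) (nat_lit 684) (nat_lit 0) (XT.nd (nat_lit 156) (nat_lit 1216) (nat_lit 0) (XT.nd (nat_lit 78) (nat_lit 0) (nat_lit 0) (XT.lf (nat_lit 1292) (nat_lit 858888378) (nat_lit 0) (nat_lit 12378006325) (nat_lit 1216) (nat_lit 858888378) (nat_lit 396) (nat_lit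 1) (nat_lit 379) (nat_lit 1) (nat_lit 395) (nat_lit 1) (nat_lit 256) (nat_lit 387) (nat_lit 377)) (XT.lf (nat_lit 1292) (nat_lit 948486819) (nat_lit 76) (nat_lit 6475176507) (nat_lit 0) (nat_lit 6475176507) (nat_lit 396) (nat_lit 1) (nat_lit 380) (nat_lit 1) (nat_lit 379) (nat_lit 1) (nat_lit 257) (nat_lit 387) (nat_lit 376))) (XT.nd (nat_lit 78) (nat_lit 1292) (nat_lit 0) (XT.lf (nat_lit 1292) (nat_lit 96106213) (nat_lit 0) (nat_lit 13515146846) (nat_lit 1216) (nat_lit 96106213) (nat_lit 397) (nat_lit 1) (nat_lit 380) (nat_lit 1) (nat_lit 396) (nat_lit 1) (nat_lit 258) (nat_lit 387) (nat_lit 375)) (XT.nd (nat_lit 78) (nat_lit 0) (nat_lit 0) (XT.lf (nat_lit 1368) (nat_lit 6428014330) (nat_lit 0) (nat_lit 661373369) (nat_lit 1292) (nat_lit 6428014330) (nat_lit 381) (nat_lit 1) (nat_lit 363) (nat_lit 1) (nat_lit 380) (nat_lit 1) (nat_lit 259) (nat_lit 387) (nat_lit 374)) (XT.lf (nat_lit 1368) (nat_lit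 11838117401) (nat_lit 76) (nat_lit 747281545) (nat_lit 0) (nat_lit 747281545) (nat_lit 381) (nat_lit 1) (nat_lit 364) (nat_lit 1) (nat_lit 363) (nat_lit 1) (nat_lit 260) (nat_lit 387) (nat_lit 373))))) (XT.nd (nat_lit 156) (nat_lit 760) (nat_lit 0) (XT.nd (nat_lit 78) (nat_lit 0) (nat_lit 0) (XT.lf (nat_lit 1368) (nat_lit 5366322479) (nat_lit 0) (nat_lit 2417280376) (nat_lit 1292) (nat_lit 5366322479) (nat_lit 382) (nat_lit 1) (nat_lit 364) (nat_lit 1) (nat_lit 381) (nat_lit 1) (nat_lit 261) (nat_lit 387) (nat_lit 372)) (XT.lf (nat_lit 1368) (nat_lit 9635671915) (nat_lit 76) (nat_lit 1668065486) (nat_lit 0) (nat_lit 1668065486) (nat_lit 382) (nat_lit 1) (nat_lit 365) (nat_lit 1) (nat_lit 364) (nat_lit 1) (nat_lit 262) (nat_lit 387) (nat_lit 371))) (XT.nd (nat_lit 78) (nat_lit 836) (nat_lit 0) (XT.lf (nat_lit 76) (nat_lit 4237623425) (nat_lit 0) (nat_lit 4320842902) (nat_lit 1292) (nat_lit 4237623425)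 (nat_lit 366) (nat_lit 1) (nat_lit 365) (nat_lit 1) (nat_lit 382) (nat_lit 1) (nat_lit 263) (nat_lit 387) (nat_lit 370)) (XT.nd (nat_lit 78) (nat_lit 0) (nat_lit 0) (XT.lf (nat_lit 912) (nat_lit 7306259370) (nat_lit 0) (nat_lit 2659000642) (nat_lit 836) (nat_lit 2659000642) (nat_lit 366) (nat_lit 1) (nat_lit 354) (nat_lit 1) (nat_lit 365) (nat_lit 1) (nat_lit 264) (nat_lit 387) (nat_lit 369)) (XT.lf (nat_lit 76) (nat_lit 3049490433) (nat_lit 0) (nat_lit 6356348455) (nat_lit 912) (nat_lit 3049490433) (nat_lit 355) (nat_lit 1) (nat_lit 354) (nat_lit 1) (nat_lit 366) (nat_lit 1) (nat_lit 265) (nat_lit 387) (nat_lit 368))))))))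
noncomputable def ec235 : XT := (XT.nd (nat_lit 1482) (nat_lit 4104) (nat_lit 0) (XT.nd (nat_lit 702) (nat_lit 2964) (nat_lit 0) (XT.nd (nat_lit 312) (nat_lit 1748) (nat_lit 0) (XT.nd (nat_lit 156) (nat_lit 608) (nat_lit 0) (XT.nd (nat_lit 78) (nat_lit 0) (nat_lit 0) (XT.lf (nat_lit 684) (nat_lit 4864548673) (nat_lit 0) (nat_lit 3712477291) (nat_lit 608) (nat_lit 3712477291) (nat_lit 355) (nat_lit 1) (nat_lit 346) (nat_lit 1) (nat_lit 354) (nat_lit 1) (nat_lit 266) (nat_lit 387) (nat_lit 367)) (XT.lf (nat_lit 76) (nat_lit 1808953483) (nat_lit 0) (nat_lit 8509197278) (nat_lit 684) (nat_lit 1808953483) (nat_lit 347) (nat_lit 1) (nat_lit 346) (nat_lit 1) (nat_lit 355) (nat_lit 1) (nat_lit 267) (nat_lit 387) (nat_lit 366))) (XT.nd (nat_lit 78) (nat_lit 0) (nat_lit 0) (XT.lf (nat_lit 684) (nat_lit 2324151710) (nat_lit 0) (nat_lit 4821426890) (nat_lit 608) (nat_lit 4821426890) (nat_lit 347) (nat_lit 1) (nat_lit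 338) (nat_lit 1) (nat_lit 346) (nat_lit 1) (nat_lit 268) (nat_lit 387) (nat_lit 365)) (XT.lf (nat_lit 76) (nat_lit 522533621) (nat_lit 0) (nat_lit 10765832330) (nat_lit 684) (nat_lit 522533621) (nat_lit 339) (nat_lit 1) (nat_lit 338) (nat_lit 1) (nat_lit 347) (nat_lit 1) (nat_lit 269) (nat_lit 387) (nat_lit 364)))) (XT.nd (nat_lit 156) (nat_lit 532) (nat_lit 0) (XT.nd (nat_lit 78) (nat_lit 608) (nat_lit 0) (XT.lf (nat_lit 76) (nat_lit 5679884246) (nat_lit 0) (nat_lit 296410561) (nat_lit 608) (nat_lit 5679884246) (nat_lit 331) (nat_lit 1) (nat_lit 330) (nat_lit 1) (nat_lit 338) (nat_lit 1) (nat_lit 270) (nat_lit 387) (nat_lit 363)) (XT.lf (nat_lit 684) (nat_lit 9913601964) (nat_lit 0) (nat_lit 795845102) (nat_lit 608) (nat_lit 795845102) (nat_lit 331) (nat_lit 1) (nat_lit 322) (nat_lit 1) (nat_lit 330) (nat_lit 1) (nat_lit 271) (nat_lit 387) (nat_lit 362))) (XT.nd (nat_lit 78) (nat_lit 532) (nat_lit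 0) (XT.lf (nat_lit 76) (nat_lit 4205701158) (nat_lit 0) (nat_lit 2944538864) (nat_lit 684) (nat_lit 4205701158) (nat_lit 323) (nat_lit 1) (nat_lit 322) (nat_lit 1) (nat_lit 331) (nat_lit 1) (nat_lit 272) (nat_lit 387) (nat_lit 361)) (XT.nd (nat_lit 78) (nat_lit 0) (nat_lit 0) (XT.lf (nat_lit 608) (nat_lit 6924088028) (nat_lit 0) (nat_lit 2143005687) (nat_lit 532) (nat_lit 2143005687) (nat_lit 323) (nat_lit 1) (nat_lit 315) (nat_lit 1) (nat_lit 322) (nat_lit 1) (nat_lit 273) (nat_lit 387) (nat_lit 360)) (XT.lf (nat_lit 76) (nat_lit 2705769123) (nat_lit 0) (nat_lit 5654970442) (nat_lit 608) (nat_lit 2705769123) (nat_lit 316) (nat_lit 1) (nat_lit 315) (nat_lit 1) (nat_lit 323) (nat_lit 1) (nat_lit 274) (nat_lit 387) (nat_lit 359)))))) (XT.nd (nat_lit 390) (nat_lit 1368) (nat_lit 0) (XT.nd (nat_lit 156) (nat_lit 1064) (nat_lit 0) (XT.nd (nat_lit 78) (nat_lit 0) (nat_lit 0) (XT.lf (nat_lit 608) (nat_lit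 3887602426) (nat_lit 0) (nat_lit 3518941509) (nat_lit 532) (nat_lit 3518941509) (nat_lit 316) (nat_lit 1) (nat_lit 308) (nat_lit 1) (nat_lit 315) (nat_lit 1) (nat_lit 275) (nat_lit 387) (nat_lit 358)) (XT.lf (nat_lit 76) (nat_lit 1184780986) (nat_lit 0) (nat_lit 8417886600) (nat_lit 608) (nat_lit 1184780986) (nat_lit 309) (nat_lit 1) (nat_lit 308) (nat_lit 1) (nat_lit 316) (nat_lit 1) (nat_lit 276) (nat_lit 387) (nat_lit 357))) (XT.nd (nat_lit 78) (nat_lit 608) (nat_lit 0) (XT.lf (nat_lit 532) (nat_lit 813207989) (nat_lit 0) (nat_lit 4918910233) (nat_lit 456) (nat_lit 4918910233) (nat_lit 309) (nat_lit 1) (nat_lit 302) (nat_lit 1) (nat_lit 308) (nat_lit 1) (nat_lit 277) (nat_lit 387) (nat_lit 356)) (XT.nd (nat_lit 78) (nat_lit 0) (nat_lit 0) (XT.lf (nat_lit 608) (nat_lit 9818991464) (nat_lit 0) (nat_lit 349473297) (nat_lit 532) (nat_lit 349473297) (nat_lit 302) (nat_lit 1) (nat_lit 294) (nat_lit 1)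 (nat_lit 301) (nat_lit 1) (nat_lit 278) (nat_lit 387) (nat_lit 355)) (XT.lf (nat_lit 76) (nat_lit 4069813622) (nat_lit 0) (nat_lit 2246037571) (nat_lit 608) (nat_lit 4069813622) (nat_lit 295) (nat_lit 1) (nat_lit 294) (nat_lit 1) (nat_lit 302) (nat_lit 1) (nat_lit 279) (nat_lit 387) (nat_lit 354))))) (XT.nd (nat_lit 156) (nat_lit 912) (nat_lit 0) (XT.nd (nat_lit 78) (nat_lit 0) (nat_lit 0) (XT.lf (nat_lit 532) (nat_lit 6487156571) (nat_lit 0) (nat_lit 1884723131) (nat_lit 456) (nat_lit 1884723131) (nat_lit 295) (nat_lit 1) (nat_lit 288) (nat_lit 1) (nat_lit 294) (nat_lit 1) (nat_lit 280) (nat_lit 387) (nat_lit 353)) (XT.lf (nat_lit 76) (nat_lit 2409293419) (nat_lit 0) (nat_lit 5310842345) (nat_lit 532) (nat_lit 2409293419) (nat_lit 289) (nat_lit 1) (nat_lit 288) (nat_lit 1) (nat_lit 295) (nat_lit 1) (nat_lit 281) (nat_lit 387) (nat_lit 352))) (XT.nd (nat_lit 78) (nat_lit 456) (nat_lit 0) (XT.lf (nat_lit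 532) (nat_lit 3146549141) (nat_lit 0) (nat_lit 3428946980) (nat_lit 456) (nat_lit 3428946980) (nat_lit 289) (nat_lit 1) (nat_lit 282) (nat_lit 1) (nat_lit 288) (nat_lit 1) (nat_lit 282) (nat_lit 387) (nat_lit 351)) (XT.nd (nat_lit 78) (nat_lit 456) (nat_lit 0) (XT.lf (nat_lit 76) (nat_lit 746028809) (nat_lit 0) (nat_lit 8390132376) (nat_lit 532) (nat_lit 746028809) (nat_lit 283) (nat_lit 1) (nat_lit 282) (nat_lit 1) (nat_lit 289) (nat_lit 1) (nat_lit 283) (nat_lit 387) (nat_lit 350)) (XT.lf (nat_lit 76) (nat_lit 4784189298) (nat_lit 0) (nat_lit 192666585) (nat_lit 456) (nat_lit 4784189298) (nat_lit 277) (nat_lit 1) (nat_lit 276) (nat_lit 1) (nat_lit 282) (nat_lit 1) (nat_lit 284) (nat_lit 387) (nat_lit 349))))))) (XT.nd (nat_lit 702) (nat_lit 2052) (nat_lit 0) (XT.nd (nat_lit 312) (nat_lit 1216) (nat_lit 0) (XT.nd (nat_lit 156) (nat_lit 380) (nat_lit 0) (XT.nd (nat_lit 78) (nat_lit 0) (nat_lit 0) (XT.lf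 (nat_lit 532) (nat_lit 7826581064) (nat_lit 0) (nat_lit 907976534) (nat_lit 456) (nat_lit 907976534) (nat_lit 277) (nat_lit 1) (nat_lit 270) (nat_lit 1) (nat_lit 276) (nat_lit 1) (nat_lit 285) (nat_lit 387) (nat_lit 348)) (XT.lf (nat_lit 76) (nat_lit 3029012299) (nat_lit 0) (nat_lit 3467193247) (nat_lit 532) (nat_lit 3029012299) (nat_lit 271) (nat_lit 1) (nat_lit 270) (nat_lit 1) (nat_lit 277) (nat_lit 1) (nat_lit 286) (nat_lit 387) (nat_lit 347))) (XT.nd (nat_lit 78) (nat_lit 0) (nat_lit 0) (XT.lf (nat_lit 456) (nat_lit 4306987394) (nat_lit 0) (nat_lit 2551670540) (nat_lit 380) (nat_lit 2551670540) (nat_lit 271) (nat_lit 1) (nat_lit 265) (nat_lit 1) (nat_lit 270) (nat_lit 1) (nat_lit 287) (nat_lit 387) (nat_lit 346)) (XT.lf (nat_lit 76) (nat_lit 1282153917) (nat_lit 0) (nat_lit 6733235522) (nat_lit 456) (nat_lit 1282153917) (nat_lit 266) (nat_lit 1) (nat_lit 265) (nat_lit 1) (nat_lit 271) (nat_lit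 1) (nat_lit 288) (nat_lit 387) (nat_lit 345)))) (XT.nd (nat_lit 156) (nat_lit 380) (nat_lit 0) (XT.nd (nat_lit 78) (nat_lit 456) (nat_lit 0) (XT.lf (nat_lit 456) (nat_lit 806373819) (nat_lit 0) (nat_lit 4189873370) (nat_lit 380) (nat_lit 4189873370) (nat_lit 266) (nat_lit 1) (nat_lit 260) (nat_lit 1) (nat_lit 265) (nat_lit 1) (nat_lit 289) (nat_lit 387) (nat_lit 344)) (XT.lf (nat_lit 456) (nat_lit 8177747188) (nat_lit 0) (nat_lit 449718409) (nat_lit 380) (nat_lit 449718409) (nat_lit 260) (nat_lit 1) (nat_lit 254) (nat_lit 1) (nat_lit 259) (nat_lit 1) (nat_lit 290) (nat_lit 387) (nat_lit 343))) (XT.nd (nat_lit 78) (nat_lit 380) (nat_lit 0) (XT.lf (nat_lit 76) (nat_lit 3174970049) (nat_lit 0) (nat_lit 2618896211) (nat_lit 456) (nat_lit 3174970049) (nat_lit 255) (nat_lit 1) (nat_lit 254) (nat_lit 1) (nat_lit 260) (nat_lit 1) (nat_lit 291) (nat_lit 387) (nat_lit 342)) (XT.nd (nat_lit 78) (nat_lit 0) (nat_lit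 0) (XT.lf (nat_lit 456) (nat_lit 4549694657) (nat_lit 0) (nat_lit 2156600943) (nat_lit 380) (nat_lit 2156600943) (nat_lit 255) (nat_lit 1) (nat_lit 249) (nat_lit 1) (nat_lit 254) (nat_lit 1) (nat_lit 292) (nat_lit 387) (nat_lit 341)) (XT.lf (nat_lit 76) (nat_lit 1378418533) (nat_lit 0) (nat_lit 6001893301) (nat_lit 456) (nat_lit 1378418533) (nat_lit 250) (nat_lit 1) (nat_lit 249) (nat_lit 1) (nat_lit 255) (nat_lit 1) (nat_lit 293) (nat_lit 387) (nat_lit 340)))))) (XT.nd (nat_lit 390) (nat_lit 988) (nat_lit 0) (XT.nd (nat_lit 156) (nat_lit 304) (nat_lit 0) (XT.nd (nat_lit 78) (nat_lit 456) (nat_lit 0) (XT.lf (nat_lit 380) (nat_lit 957356538) (nat_lit 0) (nat_lit 3849263886) (nat_lit 304) (nat_lit 3849263886) (nat_lit 250) (nat_lit 1) (nat_lit 245) (nat_lit 1) (nat_lit 249) (nat_lit 1) (nat_lit 294) (nat_lit 387) (nat_lit 339)) (XT.lf (nat_lit 456) (nat_lit 7763938914) (nat_lit 0) (nat_lit 395677755)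 (nat_lit 380) (nat_lit 395677755) (nat_lit 245) (nat_lit 1) (nat_lit 239) (nat_lit 1) (nat_lit 244) (nat_lit 1) (nat_lit 295) (nat_lit 387) (nat_lit 338))) (XT.nd (nat_lit 78) (nat_lit 304) (nat_lit 0) (XT.lf (nat_lit 76) (nat_lit 2954749386) (nat_lit 0) (nat_lit 2545628575) (nat_lit 456) (nat_lit 2954749386) (nat_lit 240) (nat_lit 1) (nat_lit 239) (nat_lit 1) (nat_lit 245) (nat_lit 1) (nat_lit 296) (nat_lit 387) (nat_lit 337)) (XT.nd (nat_lit 78) (nat_lit 0) (nat_lit 0) (XT.lf (nat_lit 380) (nat_lit 4084114308) (nat_lit 0) (nat_lit 2136518272) (nat_lit 304) (nat_lit 2136518272) (nat_lit 240) (nat_lit 1) (nat_lit 235) (nat_lit 1) (nat_lit 239) (nat_lit 1) (nat_lit 297) (nat_lit 387) (nat_lit 336)) (XT.lf (nat_lit 76) (nat_lit 1135729803) (nat_lit 0) (nat_lit 5989390664) (nat_lit 380) (nat_lit 1135729803) (nat_lit 236) (nat_lit 1) (nat_lit 235) (nat_lit 1) (nat_lit 240) (nat_lit 1) (nat_lit 298) (nat_lit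 387) (nat_lit 335))))) (XT.nd (nat_lit 156) (nat_lit 304) (nat_lit 0) (XT.nd (nat_lit 78) (nat_lit 380) (nat_lit 0) (XT.lf (nat_lit 380) (nat_lit 452881156) (nat_lit 0) (nat_lit 3856381563) (nat_lit 304) (nat_lit 3856381563) (nat_lit 236) (nat_lit 1) (nat_lit 231) (nat_lit 1) (nat_lit 235) (nat_lit 1) (nat_lit 299) (nat_lit 387) (nat_lit 334)) (XT.lf (nat_lit 380) (nat_lit 6768018028) (nat_lit 0) (nat_lit 652149554) (nat_lit 304) (nat_lit 652149554) (nat_lit 231) (nat_lit 1) (nat_lit 226) (nat_lit 1) (nat_lit 230) (nat_lit 1) (nat_lit 300) (nat_lit 387) (nat_lit 333))) (XT.nd (nat_lit 78) (nat_lit 304) (nat_lit 0) (XT.lf (nat_lit 76) (nat_lit 2456425979) (nat_lit 0) (nat_lit 3066777752) (nat_lit 380) (nat_lit 2456425979) (nat_lit 227) (nat_lit 1) (nat_lit 226) (nat_lit 1) (nat_lit 231) (nat_lit 1) (nat_lit 301) (nat_lit 387) (nat_lit 332)) (XT.nd (nat_lit 78) (nat_lit 0) (nat_lit 0) (XT.lf (nat_lit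 380) (nat_lit 3081653403) (nat_lit 0) (nat_lit 2403556396) (nat_lit 304) (nat_lit 2403556396) (nat_lit 227) (nat_lit 1) (nat_lit 222) (nat_lit 1) (nat_lit 226) (nat_lit 1) (nat_lit 302) (nat_lit 387) (nat_lit 331)) (XT.lf (nat_lit 76) (nat_lit 636639654) (nat_lit 0) (nat_lit 6526381200) (nat_lit 380) (nat_lit 636639654) (nat_lit 223) (nat_lit 1) (nat_lit 222) (nat_lit 1) (nat_lit 227) (nat_lit 1) (nat_lit 303) (nat_lit 387) (nat_lit 330))))))))
noncomputable def ec236 : XT := (XT.nd (nat_lit 1404) (nat_lit 2280) (nat_lit 0) (XT.nd (nat_lit 702) (nat_lit 1444) (nat_lit 0) (XT.nd (nat_lit 312) (nat_lit 912) (nat_lit 0) (XT.nd (nat_lit 156) (nat_lit 228) (nat_lit 0) (XT.nd (nat_lit 78) (nat_lit 304) (nat_lit 0) (XT.lf (nat_lit 76) (nat_lit 3587691753) (nat_lit 0) (nat_lit 535745439) (nat_lit 304) (nat_lit 3587691753) (nat_lit 219) (nat_lit 1) (nat_lit 218) (nat_lit 1) (nat_lit 222) (nat_lit 1) (nat_lit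 304) (nat_lit 387) (nat_lit 329)) (XT.lf (nat_lit 380) (nat_lit 5339246380) (nat_lit 0) (nat_lit 1142530013) (nat_lit 304) (nat_lit 1142530013) (nat_lit 219) (nat_lit 1) (nat_lit 214) (nat_lit 1) (nat_lit 218) (nat_lit 1) (nat_lit 305) (nat_lit 387) (nat_lit 328))) (XT.nd (nat_lit 78) (nat_lit 228) (nat_lit 0) (XT.lf (nat_lit 76) (nat_lit 1751862575) (nat_lit 0) (nat_lit 4034747806) (nat_lit 380) (nat_lit 1751862575) (nat_lit 215) (nat_lit 1) (nat_lit 214) (nat_lit 1) (nat_lit 219) (nat_lit 1) (nat_lit 306) (nat_lit 387) (nat_lit 327)) (XT.lf (nat_lit 304) (nat_lit 1682109353) (nat_lit 0) (nat_lit 2885939014) (nat_lit 228) (nat_lit 2885939014) (nat_lit 215) (nat_lit 1) (nat_lit 211) (nat_lit 1) (nat_lit 214) (nat_lit 1) (nat_lit 307) (nat_lit 387) (nat_lit 326)))) (XT.nd (nat_lit 156) (nat_lit 532) (nat_lit 0) (XT.nd (nat_lit 78) (nat_lit 0) (nat_lit 0) (XT.lf (nat_lit 380) (nat_lit 7269324308) (nat_lit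 0) (nat_lit 51046697) (nat_lit 304) (nat_lit 51046697) (nat_lit 211) (nat_lit 1) (nat_lit 206) (nat_lit 1) (nat_lit 210) (nat_lit 1) (nat_lit 308) (nat_lit 387) (nat_lit 325)) (XT.lf (nat_lit 76) (nat_lit 2708173701) (nat_lit 0) (nat_lit 1872338293) (nat_lit 380) (nat_lit 2708173701) (nat_lit 207) (nat_lit 1) (nat_lit 206) (nat_lit 1) (nat_lit 211) (nat_lit 1) (nat_lit 309) (nat_lit 387) (nat_lit 324))) (XT.nd (nat_lit 78) (nat_lit 304) (nat_lit 0) (XT.lf (nat_lit 304) (nat_lit 3598984439) (nat_lit 0) (nat_lit 1804422135) (nat_lit 228) (nat_lit 1804422135) (nat_lit 207) (nat_lit 1) (nat_lit 203) (nat_lit 1) (nat_lit 206) (nat_lit 1) (nat_lit 310) (nat_lit 387) (nat_lit 323)) (XT.nd (nat_lit 78) (nat_lit 304) (nat_lit 0) (XT.lf (nat_lit 76) (nat_lit 899460434) (nat_lit 0) (nat_lit 5329368042) (nat_lit 304) (nat_lit 899460434) (nat_lit 204) (nat_lit 1) (nat_lit 203) (nat_lit 1) (nat_lit 207) (nat_lit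 1) (nat_lit 311) (nat_lit 387) (nat_lit 322)) (XT.lf (nat_lit 76) (nat_lit 3524300065) (nat_lit 0) (nat_lit 943591) (nat_lit 304) (nat_lit 3524300065) (nat_lit 200) (nat_lit 1) (nat_lit 199) (nat_lit 1) (nat_lit 203) (nat_lit 1) (nat_lit 312) (nat_lit 387) (nat_lit 321)))))) (XT.nd (nat_lit 312) (nat_lit 684) (nat_lit 0) (XT.nd (nat_lit 156) (nat_lit 532) (nat_lit 0) (XT.nd (nat_lit 78) (nat_lit 0) (nat_lit 0) (XT.lf (nat_lit 304) (nat_lit 5240808406) (nat_lit 0) (nat_lit 865635500) (nat_lit 228) (nat_lit 865635500) (nat_lit 200) (nat_lit 1) (nat_lit 196) (nat_lit 1) (nat_lit 199) (nat_lit 1) (nat_lit 313) (nat_lit 387) (nat_lit 320)) (XT.lf (nat_lit 76) (nat_lit 1716890808) (nat_lit 0) (nat_lit 3461578383) (nat_lit 304) (nat_lit 1716890808) (nat_lit 197) (nat_lit 1) (nat_lit 196) (nat_lit 1) (nat_lit 200) (nat_lit 1) (nat_lit 314) (nat_lit 387) (nat_lit 319))) (XT.nd (nat_lit 78) (nat_lit 304) (nat_lit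 0) (XT.lf (nat_lit 304) (nat_lit 1645449631) (nat_lit 0) (nat_lit 2587218523) (nat_lit 228) (nat_lit 2587218523) (nat_lit 197) (nat_lit 1) (nat_lit 193) (nat_lit 1) (nat_lit 196) (nat_lit 1) (nat_lit 315) (nat_lit 387) (nat_lit 318)) (XT.lf (nat_lit 304) (nat_lit 6640038298) (nat_lit 0) (nat_lit 53018362) (nat_lit 228) (nat_lit 53018362) (nat_lit 193) (nat_lit 1) (nat_lit 189) (nat_lit 1) (nat_lit 192) (nat_lit 1) (nat_lit 316) (nat_lit 387) (nat_lit 317)))) (XT.nd (nat_lit 156) (nat_lit 456) (nat_lit 0) (XT.nd (nat_lit 78) (nat_lit 228) (nat_lit 0) (XT.lf (nat_lit 76) (nat_lit 2416437053) (nat_lit 0) (nat_lit 1839163581) (nat_lit 304) (nat_lit 2416437053) (nat_lit 190) (nat_lit 1) (nat_lit 189) (nat_lit 1) (nat_lit 193) (nat_lit 1) (nat_lit 317) (nat_lit 387) (nat_lit 316)) (XT.lf (nat_lit 304) (nat_lit 3060314749) (nat_lit 0) (nat_lit 1769658427) (nat_lit 228) (nat_lit 1769658427) (nat_lit 190) (nat_lit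 1) (nat_lit 186) (nat_lit 1) (nat_lit 189) (nat_lit 1) (nat_lit 318) (nat_lit 387) (nat_lit 315))) (XT.nd (nat_lit 78) (nat_lit 456) (nat_lit 0) (XT.lf (nat_lit 76) (nat_lit 654541594) (nat_lit 0) (nat_lit 5219368718) (nat_lit 304) (nat_lit 654541594) (nat_lit 187) (nat_lit 1) (nat_lit 186) (nat_lit 1) (nat_lit 190) (nat_lit 1) (nat_lit 319) (nat_lit 387) (nat_lit 314)) (XT.nd (nat_lit 78) (nat_lit 228) (nat_lit 0) (XT.lf (nat_lit 76) (nat_lit 3012023322) (nat_lit 0) (nat_lit 433680810) (nat_lit 228) (nat_lit 3012023322) (nat_lit 184) (nat_lit 1) (nat_lit 183) (nat_lit 1) (nat_lit 186) (nat_lit 1) (nat_lit 320) (nat_lit 387) (nat_lit 313)) (XT.lf (nat_lit 304) (nat_lit 4270850078) (nat_lit 0) (nat_lit 1058676144) (nat_lit 228) (nat_lit 1058676144) (nat_lit 184) (nat_lit 1) (nat_lit 180) (nat_lit 1) (nat_lit 183) (nat_lit 1) (nat_lit 321) (nat_lit 387) (nat_lit 312))))))) (XT.nd (nat_lit 702) (nat_lit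 1292) (nat_lit 0) (XT.nd (nat_lit 312) (nat_lit 532) (nat_lit 0) (XT.nd (nat_lit 156) (nat_lit 304) (nat_lit 0) (XT.nd (nat_lit 78) (nat_lit 152) (nat_lit 0) (XT.lf (nat_lit 76) (nat_lit 1263215923) (nat_lit 0) (nat_lit 3793038816) (nat_lit 304) (nat_lit 1263215923) (nat_lit 181) (nat_lit 1) (nat_lit 180) (nat_lit 1) (nat_lit 184) (nat_lit 1) (nat_lit 322) (nat_lit 387) (nat_lit 311)) (XT.lf (nat_lit 228) (nat_lit 795635256) (nat_lit 0) (nat_lit 2728011244) (nat_lit 152) (nat_lit 2728011244) (nat_lit 181) (nat_lit 1) (nat_lit 178) (nat_lit 1) (nat_lit 180) (nat_lit 1) (nat_lit 323) (nat_lit 387) (nat_lit 310))) (XT.nd (nat_lit 78) (nat_lit 0) (nat_lit 0) (XT.lf (nat_lit 304) (nat_lit 5301196980) (nat_lit 0) (nat_lit 441938054) (nat_lit 228) (nat_lit 441938054) (nat_lit 178) (nat_lit 1) (nat_lit 174) (nat_lit 1) (nat_lit 177) (nat_lit 1) (nat_lit 324) (nat_lit 387) (nat_lit 309)) (XT.lf (nat_lit 76)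 (nat_lit 1784160883) (nat_lit 0) (nat_lit 2550354513) (nat_lit 304) (nat_lit 1784160883) (nat_lit 175) (nat_lit 1) (nat_lit 174) (nat_lit 1) (nat_lit 178) (nat_lit 1) (nat_lit 325) (nat_lit 387) (nat_lit 308)))) (XT.nd (nat_lit 156) (nat_lit 380) (nat_lit 0) (XT.nd (nat_lit 78) (nat_lit 0) (nat_lit 0) (XT.lf (nat_lit 228) (nat_lit 1860915173) (nat_lit 0) (nat_lit 2096284964) (nat_lit 152) (nat_lit 2096284964) (nat_lit 175) (nat_lit 1) (nat_lit 172) (nat_lit 1) (nat_lit 174) (nat_lit 1) (nat_lit 326) (nat_lit 387) (nat_lit 307)) (XT.lf (nat_lit 76) (nat_lit 92406982) (nat_lit 0) (nat_lit 5804842084) (nat_lit 228) (nat_lit 92406982) (nat_lit 173) (nat_lit 1) (nat_lit 172) (nat_lit 1) (nat_lit 175) (nat_lit 1) (nat_lit 327) (nat_lit 387) (nat_lit 306))) (XT.nd (nat_lit 78) (nat_lit 152) (nat_lit 0) (XT.lf (nat_lit 76) (nat_lit 2227737717) (nat_lit 0) (nat_lit 1470120692) (nat_lit 228) (nat_lit 2227737717)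 (nat_lit 170) (nat_lit 1) (nat_lit 169) (nat_lit 1) (nat_lit 172) (nat_lit 1) (nat_lit 328) (nat_lit 387) (nat_lit 305)) (XT.nd (nat_lit 78) (nat_lit 0) (nat_lit 0) (XT.lf (nat_lit 228) (nat_lit 2773790828) (nat_lit 0) (nat_lit 1544543697) (nat_lit 152) (nat_lit 1544543697) (nat_lit 170) (nat_lit 1) (nat_lit 167) (nat_lit 1) (nat_lit 169) (nat_lit 1) (nat_lit 329) (nat_lit 387) (nat_lit 304)) (XT.lf (nat_lit 76) (nat_lit 556812024) (nat_lit 0) (nat_lit 4687563103) (nat_lit 228) (nat_lit 556812024) (nat_lit 168) (nat_lit 1) (nat_lit 167) (nat_lit 1) (nat_lit 170) (nat_lit 1) (nat_lit 330) (nat_lit 387) (nat_lit 303)))))) (XT.nd (nat_lit 390) (nat_lit 532) (nat_lit 0) (XT.nd (nat_lit 156) (nat_lit 380) (nat_lit 0) (XT.nd (nat_lit 78) (nat_lit 152) (nat_lit 0) (XT.lf (nat_lit 76) (nat_lit 2603135410) (nat_lit 0) (nat_lit 533526630) (nat_lit 228) (nat_lit 2603135410) (nat_lit 165) (nat_lit 1) (nat_lit 164)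 (nat_lit 1) (nat_lit 167) (nat_lit 1) (nat_lit 331) (nat_lit 387) (nat_lit 302)) (XT.lf (nat_lit 228) (nat_lit 3552236252) (nat_lit 0) (nat_lit 1063590233) (nat_lit 152) (nat_lit 1063590233) (nat_lit 165) (nat_lit 1) (nat_lit 162) (nat_lit 1) (nat_lit 164) (nat_lit 1) (nat_lit 332) (nat_lit 387) (nat_lit 301))) (XT.nd (nat_lit 78) (nat_lit 380) (nat_lit 0) (XT.lf (nat_lit 76) (nat_lit 955603396) (nat_lit 0) (nat_lit 3708563469) (nat_lit 228) (nat_lit 955603396) (nat_lit 163) (nat_lit 1) (nat_lit 162) (nat_lit 1) (nat_lit 165) (nat_lit 1) (nat_lit 333) (nat_lit 387) (nat_lit 300)) (XT.nd (nat_lit 78) (nat_lit 228) (nat_lit 0) (XT.lf (nat_lit 228) (nat_lit 281615841) (nat_lit 0) (nat_lit 2639593126) (nat_lit 152) (nat_lit 2639593126) (nat_lit 163) (nat_lit 1) (nat_lit 160) (nat_lit 1) (nat_lit 162) (nat_lit 1) (nat_lit 334) (nat_lit 387) (nat_lit 299)) (XT.lf (nat_lit 228) (nat_lit 4212192627) (nat_lit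 0) (nat_lit 645261062) (nat_lit 152) (nat_lit 645261062) (nat_lit 160) (nat_lit 1) (nat_lit 157) (nat_lit 1) (nat_lit 159) (nat_lit 1) (nat_lit 335) (nat_lit 387) (nat_lit 298))))) (XT.nd (nat_lit 156) (nat_lit 380) (nat_lit 0) (XT.nd (nat_lit 78) (nat_lit 152) (nat_lit 0) (XT.lf (nat_lit 76) (nat_lit 1296500583) (nat_lit 0) (nat_lit 2852024555) (nat_lit 228) (nat_lit 1296500583) (nat_lit 158) (nat_lit 1) (nat_lit 157) (nat_lit 1) (nat_lit 160) (nat_lit 1) (nat_lit 336) (nat_lit 387) (nat_lit 297)) (XT.lf (nat_lit 228) (nat_lit 993009598) (nat_lit 0) (nat_lit 2197596479) (nat_lit 152) (nat_lit 2197596479) (nat_lit 158) (nat_lit 1) (nat_lit 155) (nat_lit 1) (nat_lit 157) (nat_lit 1) (nat_lit 337) (nat_lit 387) (nat_lit 296))) (XT.nd (nat_lit 78) (nat_lit 152) (nat_lit 0) (XT.lf (nat_lit 228) (nat_lit 4767795803) (nat_lit 0) (nat_lit 282310868) (nat_lit 152) (nat_lit 282310868) (nat_lit 155) (nat_lit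 1) (nat_lit 152) (nat_lit 1) (nat_lit 154) (nat_lit 1) (nat_lit 338) (nat_lit 387) (nat_lit 295)) (XT.nd (nat_lit 78) (nat_lit 152) (nat_lit 0) (XT.lf (nat_lit 76) (nat_lit 1586350523) (nat_lit 0) (nat_lit 2103903331) (nat_lit 228) (nat_lit 1586350523) (nat_lit 153) (nat_lit 1) (nat_lit 152) (nat_lit 1) (nat_lit 155) (nat_lit 1) (nat_lit 339) (nat_lit 387) (nat_lit 294)) (XT.lf (nat_lit 228) (nat_lit 1603438857) (nat_lit 0) (nat_lit 1809188606) (nat_lit 152) (nat_lit 1809188606) (nat_lit 153) (nat_lit 1) (nat_lit 150) (nat_lit 1) (nat_lit 152) (nat_lit 1) (nat_lit 340) (nat_lit 387) (nat_lit 293))))))))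
noncomputable def ec237 : XT := (XT.nd (nat_lit 1482) (nat_lit 1596) (nat_lit 0) (XT.nd (nat_lit 702) (nat_lit 912) (nat_lit 0) (XT.nd (nat_lit 312) (nat_lit 608) (nat_lit 0) (XT.nd (nat_lit 156) (nat_lit 152) (nat_lit 0) (XT.nd (nat_lit 78) (nat_lit 152) (nat_lit 0) (XT.lf (nat_lit 76) (nat_lit 32003851) (nat_lit 0) (nat_lit 5104153438) (nat_lit 228) (nat_lit 32003851) (nat_lit 151) (nat_lit 1) (nat_lit 150) (nat_lit 1) (nat_lit 153) (nat_lit 1) (nat_lit 341) (nat_lit 387) (nat_lit 292)) (XT.lf (nat_lit 76) (nat_lit 1831225240) (nat_lit 0) (nat_lit 1451734018) (nat_lit 152) (nat_lit 1831225240) (nat_lit 149) (nat_lit 1) (nat_lit 148) (nat_lit 1) (nat_lit 150) (nat_lit 1) (nat_lit 342) (nat_lit 387) (nat_lit 291))) (XT.nd (nat_lit 78) (nat_lit 0) (nat_lit 0) (XT.lf (nat_lit 228) (nat_lit 2124792609) (nat_lit 0) (nat_lit 1468268408) (nat_lit 152) (nat_lit 1468268408) (nat_lit 149) (nat_lit 1) (nat_lit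 146) (nat_lit 1) (nat_lit 148) (nat_lit 1) (nat_lit 343) (nat_lit 387) (nat_lit 290)) (XT.lf (nat_lit 76) (nat_lit 305441669) (nat_lit 0) (nat_lit 4398517736) (nat_lit 228) (nat_lit 305441669) (nat_lit 147) (nat_lit 1) (nat_lit 146) (nat_lit 1) (nat_lit 149) (nat_lit 1) (nat_lit 344) (nat_lit 387) (nat_lit 289)))) (XT.nd (nat_lit 156) (nat_lit 304) (nat_lit 0) (XT.nd (nat_lit 78) (nat_lit 152) (nat_lit 0) (XT.lf (nat_lit 76) (nat_lit 2036508593) (nat_lit 0) (nat_lit 884451881) (nat_lit 152) (nat_lit 2036508593) (nat_lit 145) (nat_lit 1) (nat_lit 144) (nat_lit 1) (nat_lit 146) (nat_lit 1) (nat_lit 345) (nat_lit 387) (nat_lit 288)) (XT.lf (nat_lit 228) (nat_lit 2567615715) (nat_lit 0) (nat_lit 1169418788) (nat_lit 152) (nat_lit 1169418788) (nat_lit 145) (nat_lit 1) (nat_lit 142) (nat_lit 1) (nat_lit 144) (nat_lit 1) (nat_lit 346) (nat_lit 387) (nat_lit 287))) (XT.nd (nat_lit 78) (nat_lit 304) (nat_lit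 0) (XT.lf (nat_lit 76) (nat_lit 540319475) (nat_lit 0) (nat_lit 3775544015) (nat_lit 228) (nat_lit 540319475) (nat_lit 143) (nat_lit 1) (nat_lit 142) (nat_lit 1) (nat_lit 145) (nat_lit 1) (nat_lit 347) (nat_lit 387) (nat_lit 286)) (XT.nd (nat_lit 78) (nat_lit 152) (nat_lit 0) (XT.lf (nat_lit 76) (nat_lit 2206973339) (nat_lit 0) (nat_lit 392236670) (nat_lit 152) (nat_lit 2206973339) (nat_lit 141) (nat_lit 1) (nat_lit 140) (nat_lit 1) (nat_lit 142) (nat_lit 1) (nat_lit 348) (nat_lit 387) (nat_lit 285)) (XT.lf (nat_lit 228) (nat_lit 2941259328) (nat_lit 0) (nat_lit 907830266) (nat_lit 152) (nat_lit 907830266) (nat_lit 141) (nat_lit 1) (nat_lit 138) (nat_lit 1) (nat_lit 140) (nat_lit 1) (nat_lit 349) (nat_lit 387) (nat_lit 284)))))) (XT.nd (nat_lit 390) (nat_lit 532) (nat_lit 0) (XT.nd (nat_lit 156) (nat_lit 304) (nat_lit 0) (XT.nd (nat_lit 78) (nat_lit 76) (nat_lit 0) (XT.lf (nat_lit 76) (nat_lit 741172202)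 (nat_lit 0) (nat_lit 3225898633) (nat_lit 228) (nat_lit 741172202) (nat_lit 139) (nat_lit 1) (nat_lit 138) (nat_lit 1) (nat_lit 141) (nat_lit 1) (nat_lit 350) (nat_lit 387) (nat_lit 283)) (XT.lf (nat_lit 152) (nat_lit 34295691) (nat_lit 0) (nat_lit 2312883567) (nat_lit 76) (nat_lit 2312883567) (nat_lit 139) (nat_lit 1) (nat_lit 137) (nat_lit 1) (nat_lit 138) (nat_lit 1) (nat_lit 351) (nat_lit 387) (nat_lit 282))) (XT.nd (nat_lit 78) (nat_lit 76) (nat_lit 0) (XT.lf (nat_lit 228) (nat_lit 3254014528) (nat_lit 0) (nat_lit 679233123) (nat_lit 152) (nat_lit 679233123) (nat_lit 137) (nat_lit 1) (nat_lit 134) (nat_lit 1) (nat_lit 136) (nat_lit 1) (nat_lit 352) (nat_lit 387) (nat_lit 281)) (XT.nd (nat_lit 78) (nat_lit 76) (nat_lit 0) (XT.lf (nat_lit 76) (nat_lit 912022239) (nat_lit 0) (nat_lit 2741292140) (nat_lit 228) (nat_lit 912022239) (nat_lit 135) (nat_lit 1) (nat_lit 134) (nat_lit 1) (nat_lit 137) (nat_lit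 1) (nat_lit 353) (nat_lit 387) (nat_lit 280)) (XT.lf (nat_lit 152) (nat_lit 408848628) (nat_lit 0) (nat_lit 2054967092) (nat_lit 76) (nat_lit 2054967092) (nat_lit 135) (nat_lit 1) (nat_lit 133) (nat_lit 1) (nat_lit 134) (nat_lit 1) (nat_lit 354) (nat_lit 387) (nat_lit 279))))) (XT.nd (nat_lit 156) (nat_lit 304) (nat_lit 0) (XT.nd (nat_lit 78) (nat_lit 0) (nat_lit 0) (XT.lf (nat_lit 228) (nat_lit 3513231034) (nat_lit 0) (nat_lit 479837103) (nat_lit 152) (nat_lit 479837103) (nat_lit 133) (nat_lit 1) (nat_lit 130) (nat_lit 1) (nat_lit 132) (nat_lit 1) (nat_lit 355) (nat_lit 387) (nat_lit 278)) (XT.lf (nat_lit 76) (nat_lit 1056436778) (nat_lit 0) (nat_lit 2314362742) (nat_lit 228) (nat_lit 1056436778) (nat_lit 131) (nat_lit 1) (nat_lit 130) (nat_lit 1) (nat_lit 133) (nat_lit 1) (nat_lit 356) (nat_lit 387) (nat_lit 277))) (XT.nd (nat_lit 78) (nat_lit 228) (nat_lit 0) (XT.lf (nat_lit 152) (nat_lit 730613361)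 (nat_lit 0) (nat_lit 1825811646) (nat_lit 76) (nat_lit 1825811646) (nat_lit 131) (nat_lit 1) (nat_lit 129) (nat_lit 1) (nat_lit 130) (nat_lit 1) (nat_lit 357) (nat_lit 387) (nat_lit 276)) (XT.nd (nat_lit 78) (nat_lit 0) (nat_lit 0) (XT.lf (nat_lit 228) (nat_lit 3725422670) (nat_lit 0) (nat_lit 306277858) (nat_lit 152) (nat_lit 306277858) (nat_lit 129) (nat_lit 1) (nat_lit 126) (nat_lit 1) (nat_lit 128) (nat_lit 1) (nat_lit 358) (nat_lit 387) (nat_lit 275)) (XT.lf (nat_lit 76) (nat_lit 1177578775) (nat_lit 0) (nat_lit 1938572758) (nat_lit 228) (nat_lit 1177578775) (nat_lit 127) (nat_lit 1) (nat_lit 126) (nat_lit 1) (nat_lit 129) (nat_lit 1) (nat_lit 359) (nat_lit 387) (nat_lit 274))))))) (XT.nd (nat_lit 702) (nat_lit 760) (nat_lit 0) (XT.nd (nat_lit 312) (nat_lit 456) (nat_lit 0) (XT.nd (nat_lit 156) (nat_lit 76) (nat_lit 0) (XT.nd (nat_lit 78) (nat_lit 228) (nat_lit 0) (XT.lf (nat_lit 152) (nat_lit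 1005797450) (nat_lit 0) (nat_lit 1622209999) (nat_lit 76) (nat_lit 1622209999) (nat_lit 127) (nat_lit 1) (nat_lit 125) (nat_lit 1) (nat_lit 126) (nat_lit 1) (nat_lit 360) (nat_lit 387) (nat_lit 273)) (XT.lf (nat_lit 228) (nat_lit 3896361053) (nat_lit 0) (nat_lit 155569354) (nat_lit 152) (nat_lit 155569354) (nat_lit 125) (nat_lit 1) (nat_lit 122) (nat_lit 1) (nat_lit 124) (nat_lit 1) (nat_lit 361) (nat_lit 387) (nat_lit 272))) (XT.nd (nat_lit 78) (nat_lit 76) (nat_lit 0) (XT.lf (nat_lit 76) (nat_lit 1278252209) (nat_lit 0) (nat_lit 1608116630) (nat_lit 228) (nat_lit 1278252209) (nat_lit 123) (nat_lit 1) (nat_lit 122) (nat_lit 1) (nat_lit 125) (nat_lit 1) (nat_lit 362) (nat_lit 387) (nat_lit 271)) (XT.lf (nat_lit 152) (nat_lit 1239906884) (nat_lit 0) (nat_lit 1441312573) (nat_lit 76) (nat_lit 1441312573) (nat_lit 123) (nat_lit 1) (nat_lit 121) (nat_lit 1) (nat_lit 122) (nat_lit 1) (nat_lit 363) (nat_lit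 387) (nat_lit 270)))) (XT.nd (nat_lit 156) (nat_lit 228) (nat_lit 0) (XT.nd (nat_lit 78) (nat_lit 0) (nat_lit 0) (XT.lf (nat_lit 228) (nat_lit 4031158817) (nat_lit 0) (nat_lit 25061592) (nat_lit 152) (nat_lit 25061592) (nat_lit 121) (nat_lit 1) (nat_lit 118) (nat_lit 1) (nat_lit 120) (nat_lit 1) (nat_lit 364) (nat_lit 387) (nat_lit 269)) (XT.lf (nat_lit 76) (nat_lit 1360942297) (nat_lit 0) (nat_lit 1317839188) (nat_lit 228) (nat_lit 1360942297) (nat_lit 119) (nat_lit 1) (nat_lit 118) (nat_lit 1) (nat_lit 121) (nat_lit 1) (nat_lit 365) (nat_lit 387) (nat_lit 268))) (XT.nd (nat_lit 78) (nat_lit 152) (nat_lit 0) (XT.lf (nat_lit 152) (nat_lit 1437824582) (nat_lit 0) (nat_lit 1280587553) (nat_lit 76) (nat_lit 1280587553) (nat_lit 119) (nat_lit 1) (nat_lit 117) (nat_lit 1) (nat_lit 118) (nat_lit 1) (nat_lit 366) (nat_lit 387) (nat_lit 267)) (XT.nd (nat_lit 78) (nat_lit 152) (nat_lit 0) (XT.lf (nat_lit 0)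 (nat_lit 88464244) (nat_lit 0) (nat_lit 3782118607) (nat_lit 152) (nat_lit 88464244) (nat_lit 117) (nat_lit 3) (nat_lit 117) (nat_lit 1) (nat_lit 119) (nat_lit 1) (nat_lit 367) (nat_lit 387) (nat_lit 266)) (XT.lf (nat_lit 76) (nat_lit 1427851221) (nat_lit 0) (nat_lit 1063163041) (nat_lit 152) (nat_lit 1427851221) (nat_lit 116) (nat_lit 1) (nat_lit 115) (nat_lit 1) (nat_lit 117) (nat_lit 1) (nat_lit 368) (nat_lit 387) (nat_lit 265)))))) (XT.nd (nat_lit 390) (nat_lit 456) (nat_lit 0) (XT.nd (nat_lit 156) (nat_lit 228) (nat_lit 0) (XT.nd (nat_lit 78) (nat_lit 0) (nat_lit 0) (XT.lf (nat_lit 152) (nat_lit 1603880144) (nat_lit 0) (nat_lit 1137785455) (nat_lit 76) (nat_lit 1137785455) (nat_lit 116) (nat_lit 1) (nat_lit 114) (nat_lit 1) (nat_lit 115) (nat_lit 1) (nat_lit 369) (nat_lit 387) (nat_lit 264)) (XT.lf (nat_lit 0) (nat_lit 186319343) (nat_lit 0) (nat_lit 3468083404) (nat_lit 152) (nat_lit 186319343)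 (nat_lit 114) (nat_lit 3) (nat_lit 114) (nat_lit 1) (nat_lit 116) (nat_lit 1) (nat_lit 370) (nat_lit 387) (nat_lit 263))) (XT.nd (nat_lit 78) (nat_lit 76) (nat_lit 0) (XT.lf (nat_lit 76) (nat_lit 1480929858) (nat_lit 0) (nat_lit 840024059) (nat_lit 152) (nat_lit 1480929858) (nat_lit 113) (nat_lit 1) (nat_lit 112) (nat_lit 1) (nat_lit 114) (nat_lit 1) (nat_lit 371) (nat_lit 387) (nat_lit 262)) (XT.nd (nat_lit 78) (nat_lit 0) (nat_lit 0) (XT.lf (nat_lit 152) (nat_lit 1741911808) (nat_lit 0) (nat_lit 1010907640) (nat_lit 76) (nat_lit 1010907640) (nat_lit 113) (nat_lit 1) (nat_lit 111) (nat_lit 1) (nat_lit 112) (nat_lit 1) (nat_lit 372) (nat_lit 387) (nat_lit 261)) (XT.lf (nat_lit 0) (nat_lit 270124856) (nat_lit 0) (nat_lit 3185929718) (nat_lit 152) (nat_lit 270124856) (nat_lit 111) (nat_lit 3) (nat_lit 111) (nat_lit 1) (nat_lit 113) (nat_lit 1) (nat_lit 373) (nat_lit 387) (nat_lit 260))))) (XT.nd (nat_lit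 156) (nat_lit 228) (nat_lit 0) (XT.nd (nat_lit 78) (nat_lit 76) (nat_lit 0) (XT.lf (nat_lit 76) (nat_lit 1521905970) (nat_lit 0) (nat_lit 644814057) (nat_lit 152) (nat_lit 1521905970) (nat_lit 110) (nat_lit 1) (nat_lit 109) (nat_lit 1) (nat_lit 111) (nat_lit 1) (nat_lit 374) (nat_lit 387) (nat_lit 259)) (XT.lf (nat_lit 152) (nat_lit 1855321492) (nat_lit 0) (nat_lit 898178344) (nat_lit 76) (nat_lit 898178344) (nat_lit 110) (nat_lit 1) (nat_lit 108) (nat_lit 1) (nat_lit 109) (nat_lit 1) (nat_lit 375) (nat_lit 387) (nat_lit 258))) (XT.nd (nat_lit 78) (nat_lit 228) (nat_lit 0) (XT.lf (nat_lit 0) (nat_lit 341538875) (nat_lit 0) (nat_lit 2932193730) (nat_lit 152) (nat_lit 341538875) (nat_lit 108) (nat_lit 3) (nat_lit 108) (nat_lit 1) (nat_lit 110) (nat_lit 1) (nat_lit 376) (nat_lit 387) (nat_lit 257)) (XT.nd (nat_lit 78) (nat_lit 76) (nat_lit 0) (XT.lf (nat_lit 76) (nat_lit 1552309249) (nat_lit 0) (nat_lit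 474329871) (nat_lit 152) (nat_lit 1552309249) (nat_lit 107) (nat_lit 1) (nat_lit 106) (nat_lit 1) (nat_lit 108) (nat_lit 1) (nat_lit 377) (nat_lit 387) (nat_lit 256)) (XT.lf (nat_lit 152) (nat_lit 1947123689) (nat_lit 0) (nat_lit 798019826) (nat_lit 76) (nat_lit 798019826) (nat_lit 107) (nat_lit 1) (nat_lit 105) (nat_lit 1) (nat_lit 106) (nat_lit 1) (nat_lit 378) (nat_lit 387) (nat_lit 255))))))))
noncomputable def ec238 : XT := (XT.nd (nat_lit 1482) (nat_lit 1444) (nat_lit 0) (XT.nd (nat_lit 702) (nat_lit 684) (nat_lit 0) (XT.nd (nat_lit 312) (nat_lit 456) (nat_lit 0) (XT.nd (nat_lit 156) (nat_lit 76) (nat_lit 0) (XT.nd (nat_lit 78) (nat_lit 152) (nat_lit 0) (XT.lf (nat_lit 0) (nat_lit 402031934) (nat_lit 0) (nat_lit 2703795218) (nat_lit 152) (nat_lit 402031934) (nat_lit 105) (nat_lit 3) (nat_lit 105) (nat_lit 1) (nat_lit 107) (nat_lit 1) (nat_lit 379) (nat_lit 387) (nat_lit 254)) (XT.lf (nat_lit 76)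 (nat_lit 1573493562) (nat_lit 0) (nat_lit 325728114) (nat_lit 152) (nat_lit 1573493562) (nat_lit 104) (nat_lit 1) (nat_lit 103) (nat_lit 1) (nat_lit 105) (nat_lit 1) (nat_lit 380) (nat_lit 387) (nat_lit 253))) (XT.nd (nat_lit 78) (nat_lit 0) (nat_lit 0) (XT.lf (nat_lit 152) (nat_lit 2019988911) (nat_lit 0) (nat_lit 709030279) (nat_lit 76) (nat_lit 709030279) (nat_lit 104) (nat_lit 1) (nat_lit 102) (nat_lit 1) (nat_lit 103) (nat_lit 1) (nat_lit 381) (nat_lit 387) (nat_lit 252)) (XT.lf (nat_lit 0) (nat_lit 452907999) (nat_lit 0) (nat_lit 2497994864) (nat_lit 152) (nat_lit 452907999) (nat_lit 102) (nat_lit 3) (nat_lit 102) (nat_lit 1) (nat_lit 104) (nat_lit 1) (nat_lit 382) (nat_lit 387) (nat_lit 251)))) (XT.nd (nat_lit 156) (nat_lit 228) (nat_lit 0) (XT.nd (nat_lit 78) (nat_lit 76) (nat_lit 0) (XT.lf (nat_lit 76) (nat_lit 1586656708) (nat_lit 0) (nat_lit 196484985) (nat_lit 152) (nat_lit 1586656708) (nat_lit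 101) (nat_lit 1) (nat_lit 100) (nat_lit 1) (nat_lit 102) (nat_lit 1) (nat_lit 383) (nat_lit 387) (nat_lit 250)) (XT.lf (nat_lit 152) (nat_lit 2076282268) (nat_lit 0) (nat_lit 629964219) (nat_lit 76) (nat_lit 629964219) (nat_lit 101) (nat_lit 1) (nat_lit 99) (nat_lit 1) (nat_lit 100) (nat_lit 1) (nat_lit 384) (nat_lit 387) (nat_lit 249))) (XT.nd (nat_lit 78) (nat_lit 228) (nat_lit 0) (XT.lf (nat_lit 0) (nat_lit 495323117) (nat_lit 0) (nat_lit 2312356308) (nat_lit 152) (nat_lit 495323117) (nat_lit 99) (nat_lit 3) (nat_lit 99) (nat_lit 1) (nat_lit 101) (nat_lit 1) (nat_lit 385) (nat_lit 387) (nat_lit 248)) (XT.nd (nat_lit 78) (nat_lit 76) (nat_lit 0) (XT.lf (nat_lit 76) (nat_lit 1592857971) (nat_lit 0) (nat_lit 84360553) (nat_lit 152) (nat_lit 1592857971) (nat_lit 98) (nat_lit 1) (nat_lit 97) (nat_lit 1) (nat_lit 99) (nat_lit 1) (nat_lit 386) (nat_lit 387) (nat_lit 247)) (XT.lf (nat_lit 152) (nat_lit 2118097751)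 (nat_lit 0) (nat_lit 559715050) (nat_lit 76) (nat_lit 559715050) (nat_lit 98) (nat_lit 1) (nat_lit 96) (nat_lit 1) (nat_lit 97) (nat_lit 1) (nat_lit 387) (nat_lit 387) (nat_lit 246)))))) (XT.nd (nat_lit 390) (nat_lit 380) (nat_lit 0) (XT.nd (nat_lit 156) (nat_lit 228) (nat_lit 0) (XT.nd (nat_lit 78) (nat_lit 76) (nat_lit 0) (XT.lf (nat_lit 0) (nat_lit 530301985) (nat_lit 0) (nat_lit 2144712441) (nat_lit 152) (nat_lit 530301985) (nat_lit 96) (nat_lit 3) (nat_lit 96) (nat_lit 1) (nat_lit 98) (nat_lit 1) (nat_lit 388) (nat_lit 387) (nat_lit 245)) (XT.lf (nat_lit 76) (nat_lit 12884386) (nat_lit 0) (nat_lit 1580273179) (nat_lit 76) (nat_lit 1580273179) (nat_lit 96) (nat_lit 3) (nat_lit 95) (nat_lit 1) (nat_lit 96) (nat_lit 1) (nat_lit 389) (nat_lit 387) (nat_lit 244))) (XT.nd (nat_lit 78) (nat_lit 76) (nat_lit 0) (XT.lf (nat_lit 152) (nat_lit 2147288679) (nat_lit 0) (nat_lit 497299572) (nat_lit 76) (nat_lit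 497299572) (nat_lit 95) (nat_lit 1) (nat_lit 93) (nat_lit 1) (nat_lit 94) (nat_lit 1) (nat_lit 390) (nat_lit 387) (nat_lit 243)) (XT.nd (nat_lit 78) (nat_lit 76) (nat_lit 0) (XT.lf (nat_lit 0) (nat_lit 558752670) (nat_lit 0) (nat_lit 1993135450) (nat_lit 152) (nat_lit 558752670) (nat_lit 93) (nat_lit 3) (nat_lit 93) (nat_lit 1) (nat_lit 95) (nat_lit 1) (nat_lit 391) (nat_lit 387) (nat_lit 242)) (XT.lf (nat_lit 76) (nat_lit 98175146) (nat_lit 0) (nat_lit 1490779788) (nat_lit 76) (nat_lit 1490779788) (nat_lit 93) (nat_lit 3) (nat_lit 92) (nat_lit 1) (nat_lit 93) (nat_lit 1) (nat_lit 392) (nat_lit 387) (nat_lit 241))))) (XT.nd (nat_lit 156) (nat_lit 228) (nat_lit 0) (XT.nd (nat_lit 78) (nat_lit 0) (nat_lit 0) (XT.lf (nat_lit 152) (nat_lit 2165494743) (nat_lit 0) (nat_lit 441844229) (nat_lit 76) (nat_lit 441844229) (nat_lit 92) (nat_lit 1) (nat_lit 90) (nat_lit 1) (nat_lit 91) (nat_lit 1) (nat_lit 393)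 (nat_lit 387) (nat_lit 240)) (XT.lf (nat_lit 0) (nat_lit 581479679) (nat_lit 0) (nat_lit 1855910202) (nat_lit 152) (nat_lit 581479679) (nat_lit 90) (nat_lit 3) (nat_lit 90) (nat_lit 1) (nat_lit 92) (nat_lit 1) (nat_lit 394) (nat_lit 387) (nat_lit 239))) (XT.nd (nat_lit 78) (nat_lit 152) (nat_lit 0) (XT.lf (nat_lit 76) (nat_lit 171428837) (nat_lit 0) (nat_lit 1408740024) (nat_lit 76) (nat_lit 1408740024) (nat_lit 90) (nat_lit 3) (nat_lit 89) (nat_lit 1) (nat_lit 90) (nat_lit 1) (nat_lit 395) (nat_lit 387) (nat_lit 238)) (XT.nd (nat_lit 78) (nat_lit 0) (nat_lit 0) (XT.lf (nat_lit 152) (nat_lit 2174166035) (nat_lit 0) (nat_lit 392572874) (nat_lit 76) (nat_lit 392572874) (nat_lit 89) (nat_lit 1) (nat_lit 87) (nat_lit 1) (nat_lit 88) (nat_lit 1) (nat_lit 396) (nat_lit 387) (nat_lit 237)) (XT.lf (nat_lit 0) (nat_lit 599195581) (nat_lit 0) (nat_lit 1731510593) (nat_lit 152) (nat_lit 599195581) (nat_lit 87)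 (nat_lit 3) (nat_lit 87) (nat_lit 1) (nat_lit 89) (nat_lit 1) (nat_lit 397) (nat_lit 387) (nat_lit 236))))))) (XT.nd (nat_lit 702) (nat_lit 760) (nat_lit 0) (XT.nd (nat_lit 312) (nat_lit 380) (nat_lit 0) (XT.nd (nat_lit 156) (nat_lit 76) (nat_lit 0) (XT.nd (nat_lit 78) (nat_lit 152) (nat_lit 0) (XT.lf (nat_lit 76) (nat_lit 234061322) (nat_lit 0) (nat_lit 1333396286) (nat_lit 76) (nat_lit 1333396286) (nat_lit 87) (nat_lit 3) (nat_lit 86) (nat_lit 1) (nat_lit 87) (nat_lit 1) (nat_lit 398) (nat_lit 387) (nat_lit 235)) (XT.lf (nat_lit 152) (nat_lit 2174584385) (nat_lit 0) (nat_lit 348795914) (nat_lit 76) (nat_lit 348795914) (nat_lit 86) (nat_lit 1) (nat_lit 84) (nat_lit 1) (nat_lit 85) (nat_lit 1) (nat_lit 399) (nat_lit 387) (nat_lit 234))) (XT.nd (nat_lit 78) (nat_lit 76) (nat_lit 0) (XT.lf (nat_lit 0) (nat_lit 612531316) (nat_lit 0) (nat_lit 1618578538) (nat_lit 152) (nat_lit 612531316) (nat_lit 84) (nat_lit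 3) (nat_lit 84) (nat_lit 1) (nat_lit 86) (nat_lit 1) (nat_lit 400) (nat_lit 387) (nat_lit 233)) (XT.lf (nat_lit 76) (nat_lit 287328434) (nat_lit 0) (nat_lit 1264073311) (nat_lit 76) (nat_lit 1264073311) (nat_lit 84) (nat_lit 3) (nat_lit 83) (nat_lit 1) (nat_lit 84) (nat_lit 1) (nat_lit 401) (nat_lit 387) (nat_lit 232)))) (XT.nd (nat_lit 156) (nat_lit 228) (nat_lit 0) (XT.nd (nat_lit 78) (nat_lit 0) (nat_lit 0) (XT.lf (nat_lit 152) (nat_lit 2167882316) (nat_lit 0) (nat_lit 309900652) (nat_lit 76) (nat_lit 309900652) (nat_lit 83) (nat_lit 1) (nat_lit 81) (nat_lit 1) (nat_lit 82) (nat_lit 1) (nat_lit 402) (nat_lit 387) (nat_lit 231)) (XT.lf (nat_lit 0) (nat_lit 622045366) (nat_lit 0) (nat_lit 1515905293) (nat_lit 152) (nat_lit 622045366) (nat_lit 81) (nat_lit 3) (nat_lit 81) (nat_lit 1) (nat_lit 83) (nat_lit 1) (nat_lit 403) (nat_lit 387) (nat_lit 230))) (XT.nd (nat_lit 78) (nat_lit 152) (nat_lit 0) (XT.lf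 (nat_lit 76) (nat_lit 332343885) (nat_lit 0) (nat_lit 1200169057) (nat_lit 76) (nat_lit 1200169057) (nat_lit 81) (nat_lit 3) (nat_lit 80) (nat_lit 1) (nat_lit 81) (nat_lit 1) (nat_lit 404) (nat_lit 387) (nat_lit 229)) (XT.nd (nat_lit 78) (nat_lit 0) (nat_lit 0) (XT.lf (nat_lit 152) (nat_lit 2155059879) (nat_lit 0) (nat_lit 275342715) (nat_lit 76) (nat_lit 275342715) (nat_lit 80) (nat_lit 1) (nat_lit 78) (nat_lit 1) (nat_lit 79) (nat_lit 1) (nat_lit 405) (nat_lit 387) (nat_lit 228)) (XT.lf (nat_lit 0) (nat_lit 628231898) (nat_lit 0) (nat_lit 1422414866) (nat_lit 152) (nat_lit 628231898) (nat_lit 78) (nat_lit 3) (nat_lit 78) (nat_lit 1) (nat_lit 80) (nat_lit 1) (nat_lit 406) (nat_lit 387) (nat_lit 227)))))) (XT.nd (nat_lit 390) (nat_lit 304) (nat_lit 0) (XT.nd (nat_lit 156) (nat_lit 228) (nat_lit 0) (XT.nd (nat_lit 78) (nat_lit 152) (nat_lit 0) (XT.lf (nat_lit 76) (nat_lit 370095172) (nat_lit 0) (nat_lit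 1141146597) (nat_lit 76) (nat_lit 1141146597) (nat_lit 78) (nat_lit 3) (nat_lit 77) (nat_lit 1) (nat_lit 78) (nat_lit 1) (nat_lit 407) (nat_lit 387) (nat_lit 226)) (XT.lf (nat_lit 152) (nat_lit 2136999605) (nat_lit 0) (nat_lit 244638436) (nat_lit 76) (nat_lit 244638436) (nat_lit 77) (nat_lit 1) (nat_lit 75) (nat_lit 1) (nat_lit 76) (nat_lit 1) (nat_lit 408) (nat_lit 387) (nat_lit 225))) (XT.nd (nat_lit 78) (nat_lit 228) (nat_lit 0) (XT.lf (nat_lit 0) (nat_lit 631527989) (nat_lit 0) (nat_lit 1337149269) (nat_lit 152) (nat_lit 631527989) (nat_lit 75) (nat_lit 3) (nat_lit 75) (nat_lit 1) (nat_lit 77) (nat_lit 1) (nat_lit 409) (nat_lit 387) (nat_lit 224)) (XT.nd (nat_lit 78) (nat_lit 152) (nat_lit 0) (XT.lf (nat_lit 76) (nat_lit 401457713) (nat_lit 0) (nat_lit 1086526917) (nat_lit 76) (nat_lit 1086526917) (nat_lit 75) (nat_lit 3) (nat_lit 74) (nat_lit 1) (nat_lit 75) (nat_lit 1) (nat_lit 410) (nat_lit 387)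 (nat_lit 223)) (XT.lf (nat_lit 152) (nat_lit 2114479786) (nat_lit 0) (nat_lit 217358082) (nat_lit 76) (nat_lit 217358082) (nat_lit 74) (nat_lit 1) (nat_lit 72) (nat_lit 1) (nat_lit 73) (nat_lit 1) (nat_lit 411) (nat_lit 387) (nat_lit 222))))) (XT.nd (nat_lit 156) (nat_lit 228) (nat_lit 0) (XT.nd (nat_lit 78) (nat_lit 76) (nat_lit 0) (XT.lf (nat_lit 0) (nat_lit 632320054) (nat_lit 0) (nat_lit 1259255422) (nat_lit 152) (nat_lit 632320054) (nat_lit 72) (nat_lit 3) (nat_lit 72) (nat_lit 1) (nat_lit 74) (nat_lit 1) (nat_lit 412) (nat_lit 387) (nat_lit 221)) (XT.lf (nat_lit 76) (nat_lit 427207401) (nat_lit 0) (nat_lit 1035882516) (nat_lit 76) (nat_lit 1035882516) (nat_lit 72) (nat_lit 3) (nat_lit 71) (nat_lit 1) (nat_lit 72) (nat_lit 1) (nat_lit 413) (nat_lit 387) (nat_lit 220))) (XT.nd (nat_lit 78) (nat_lit 76) (nat_lit 0) (XT.lf (nat_lit 152) (nat_lit 2088186267) (nat_lit 0) (nat_lit 193119841) (nat_lit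 76) (nat_lit 193119841) (nat_lit 71) (nat_lit 1) (nat_lit 69) (nat_lit 1) (nat_lit 70) (nat_lit 1) (nat_lit 414) (nat_lit 387) (nat_lit 219)) (XT.nd (nat_lit 78) (nat_lit 76) (nat_lit 0) (XT.lf (nat_lit 0) (nat_lit 630949552) (nat_lit 0) (nat_lit 1187973507) (nat_lit 152) (nat_lit 630949552) (nat_lit 69) (nat_lit 3) (nat_lit 69) (nat_lit 1) (nat_lit 71) (nat_lit 1) (nat_lit 415) (nat_lit 387) (nat_lit 218)) (XT.lf (nat_lit 76) (nat_lit 448031761) (nat_lit 0) (nat_lit 988831717) (nat_lit 76) (nat_lit 988831717) (nat_lit 69) (nat_lit 3) (nat_lit 68) (nat_lit 1) (nat_lit 69) (nat_lit 1) (nat_lit 416) (nat_lit 387) (nat_lit 217))))))))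
noncomputable def ec239 : XT := (XT.nd (nat_lit 40014) (nat_lit 0) (nat_lit 21584) (XT.nd (nat_lit 702) (nat_lit 380) (nat_lit 0) (XT.nd (nat_lit 312) (nat_lit 304) (nat_lit 0) (XT.nd (nat_lit 156) (nat_lit 228) (nat_lit 0) (XT.nd (nat_lit 78) (nat_lit 0) (nat_lit 0) (XT.lf (nat_lit 152) (nat_lit 2058722923) (nat_lit 0) (nat_lit 171584477) (nat_lit 76) (nat_lit 171584477) (nat_lit 68) (nat_lit 1) (nat_lit 66) (nat_lit 1) (nat_lit 67) (nat_lit 1) (nat_lit 417) (nat_lit 387) (nat_lit 216)) (XT.lf (nat_lit 0) (nat_lit 627718053) (nat_lit 0) (nat_lit 1122626623) (nat_lit 152) (nat_lit 627718053) (nat_lit 66) (nat_lit 3) (nat_lit 66) (nat_lit 1) (nat_lit 68) (nat_lit 1) (nat_lit 418) (nat_lit 387) (nat_lit 215))) (XT.nd (nat_lit 78) (nat_lit 152) (nat_lit 0) (XT.lf (nat_lit 76) (nat_lit 464539851) (nat_lit 0) (nat_lit 945033608) (nat_lit 76) (nat_lit 945033608) (nat_lit 66) (nat_lit 3) (nat_lit 65) (nat_lit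 1) (nat_lit 66) (nat_lit 1) (nat_lit 419) (nat_lit 387) (nat_lit 214)) (XT.lf (nat_lit 152) (nat_lit 2026620954) (nat_lit 0) (nat_lit 152450585) (nat_lit 76) (nat_lit 152450585) (nat_lit 65) (nat_lit 1) (nat_lit 63) (nat_lit 1) (nat_lit 64) (nat_lit 1) (nat_lit 420) (nat_lit 387) (nat_lit 213)))) (XT.nd (nat_lit 156) (nat_lit 228) (nat_lit 0) (XT.nd (nat_lit 78) (nat_lit 76) (nat_lit 0) (XT.lf (nat_lit 0) (nat_lit 622891737) (nat_lit 0) (nat_lit 1062611590) (nat_lit 152) (nat_lit 622891737) (nat_lit 63) (nat_lit 3) (nat_lit 63) (nat_lit 1) (nat_lit 65) (nat_lit 1) (nat_lit 421) (nat_lit 387) (nat_lit 212)) (XT.lf (nat_lit 76) (nat_lit 477271073) (nat_lit 0) (nat_lit 904183552) (nat_lit 76) (nat_lit 904183552) (nat_lit 63) (nat_lit 3) (nat_lit 62) (nat_lit 1) (nat_lit 63) (nat_lit 1) (nat_lit 422) (nat_lit 387) (nat_lit 211))) (XT.nd (nat_lit 78) (nat_lit 76) (nat_lit 0) (XT.lf (nat_lit 152) (nat_lit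 1992347150) (nat_lit 0) (nat_lit 135450370) (nat_lit 76) (nat_lit 135450370) (nat_lit 62) (nat_lit 1) (nat_lit 60) (nat_lit 1) (nat_lit 61) (nat_lit 1) (nat_lit 423) (nat_lit 387) (nat_lit 210)) (XT.nd (nat_lit 78) (nat_lit 76) (nat_lit 0) (XT.lf (nat_lit 0) (nat_lit 616705393) (nat_lit 0) (nat_lit 1007390787) (nat_lit 152) (nat_lit 616705393) (nat_lit 60) (nat_lit 3) (nat_lit 60) (nat_lit 1) (nat_lit 62) (nat_lit 1) (nat_lit 424) (nat_lit 387) (nat_lit 209)) (XT.lf (nat_lit 76) (nat_lit 486702984) (nat_lit 0) (nat_lit 866009192) (nat_lit 76) (nat_lit 866009192) (nat_lit 60) (nat_lit 3) (nat_lit 59) (nat_lit 1) (nat_lit 60) (nat_lit 1) (nat_lit 425) (nat_lit 387) (nat_lit 208)))))) (XT.nd (nat_lit 38922) (nat_lit 0) (nat_lit 24320) (XT.nd (nat_lit 156) (nat_lit 228) (nat_lit 0) (XT.nd (nat_lit 78) (nat_lit 0) (nat_lit 0) (XT.lf (nat_lit 152) (nat_lit 1956311221) (nat_lit 0) (nat_lit 120345900) (nat_lit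 76) (nat_lit 120345900) (nat_lit 59) (nat_lit 1) (nat_lit 57) (nat_lit 1) (nat_lit 58) (nat_lit 1) (nat_lit 426) (nat_lit 387) (nat_lit 207)) (XT.lf (nat_lit 0) (nat_lit 609365969) (nat_lit 0) (nat_lit 956484882) (nat_lit 152) (nat_lit 609365969) (nat_lit 57) (nat_lit 3) (nat_lit 57) (nat_lit 1) (nat_lit 59) (nat_lit 1) (nat_lit 427) (nat_lit 387) (nat_lit 206))) (XT.nd (nat_lit 78) (nat_lit 152) (nat_lit 0) (XT.lf (nat_lit 76) (nat_lit 493258246) (nat_lit 0) (nat_lit 830266900) (nat_lit 76) (nat_lit 830266900) (nat_lit 57) (nat_lit 3) (nat_lit 56) (nat_lit 1) (nat_lit 57) (nat_lit 1) (nat_lit 428) (nat_lit 387) (nat_lit 205)) (XT.nd (nat_lit 78) (nat_lit 0) (nat_lit 0) (XT.lf (nat_lit 152) (nat_lit 1918872311) (nat_lit 0) (nat_lit 106925773) (nat_lit 76) (nat_lit 106925773) (nat_lit 56) (nat_lit 1) (nat_lit 54) (nat_lit 1) (nat_lit 55) (nat_lit 1) (nat_lit 429) (nat_lit 387) (nat_lit 204)) (XT.lf (nat_lit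 0) (nat_lit 601055728) (nat_lit 0) (nat_lit 909466386) (nat_lit 152) (nat_lit 601055728) (nat_lit 54) (nat_lit 3) (nat_lit 54) (nat_lit 1) (nat_lit 56) (nat_lit 1) (nat_lit 430) (nat_lit 387) (nat_lit 203))))) (XT.nd (nat_lit 156) (nat_lit 0) (nat_lit 76) (XT.nd (nat_lit 78) (nat_lit 0) (nat_lit 0) (XT.lf (nat_lit 1292) (nat_lit 1541173252) (nat_lit 0) (nat_lit 5302352741) (nat_lit 1292) (nat_lit 1541173252) (nat_lit 391) (nat_lit 1) (nat_lit 374) (nat_lit 0) (nat_lit 391) (nat_lit 0) (nat_lit 244) (nat_lit 388) (nat_lit 388)) (XT.lf (nat_lit 1292) (nat_lit 6022932078) (nat_lit 76) (nat_lit 5250368891) (nat_lit 0) (nat_lit 5250368891) (nat_lit 391) (nat_lit 1) (nat_lit 375) (nat_lit 1) (nat_lit 374) (nat_lit 0) (nat_lit 245) (nat_lit 388) (nat_lit 387))) (XT.nd (nat_lit 78) (nat_lit 0) (nat_lit 0) (XT.lf (nat_lit 1292) (nat_lit 2912833556) (nat_lit 0) (nat_lit 10457694375) (nat_lit 1216) (nat_lit 2912833556)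 (nat_lit 392) (nat_lit 1) (nat_lit 375) (nat_lit 1) (nat_lit 391) (nat_lit 1) (nat_lit 246) (nat_lit 388) (nat_lit 386)) (XT.nd (nat_lit 78) (nat_lit 0) (nat_lit 76) (XT.lf (nat_lit 1292) (nat_lit 5531621315) (nat_lit 76) (nat_lit 5257722434) (nat_lit 0) (nat_lit 5257722434) (nat_lit 392) (nat_lit 1) (nat_lit 376) (nat_lit 1) (nat_lit 375) (nat_lit 1) (nat_lit 247) (nat_lit 388) (nat_lit 385)) (XT.lf (nat_lit 1292) (nat_lit 2595685714) (nat_lit 0) (nat_lit 10624686636) (nat_lit 1216) (nat_lit 2595685714) (nat_lit 393) (nat_lit 1) (nat_lit 376) (nat_lit 1) (nat_lit 392) (nat_lit 1) (nat_lit 248) (nat_lit 388) (nat_lit 384))))))) (XT.nd (nat_lit 702) (nat_lit 1900) (nat_lit 0) (XT.nd (nat_lit 312) (nat_lit 988) (nat_lit 0) (XT.nd (nat_lit 156) (nat_lit 0) (nat_lit 76) (XT.nd (nat_lit 78) (nat_lit 0) (nat_lit 76) (XT.lf (nat_lit 1292) (nat_lit 4756868139) (nat_lit 76) (nat_lit 5415938154) (nat_lit 0) (nat_lit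 5415938154) (nat_lit 393) (nat_lit 1) (nat_lit 377) (nat_lit 1) (nat_lit 376) (nat_lit 1) (nat_lit 249) (nat_lit 388) (nat_lit 383)) (XT.lf (nat_lit 1292) (nat_lit 2143961290) (nat_lit 0) (nat_lit 11078757256) (nat_lit 1216) (nat_lit 2143961290) (nat_lit 394) (nat_lit 1) (nat_lit 377) (nat_lit 1) (nat_lit 393) (nat_lit 1) (nat_lit 250) (nat_lit 388) (nat_lit 382))) (XT.nd (nat_lit 78) (nat_lit 0) (nat_lit 76) (XT.lf (nat_lit 1292) (nat_lit 3724020364) (nat_lit 76) (nat_lit 5711949606) (nat_lit 0) (nat_lit 5711949606) (nat_lit 394) (nat_lit 1) (nat_lit 378) (nat_lit 1) (nat_lit 377) (nat_lit 1) (nat_lit 251) (nat_lit 388) (nat_lit 381)) (XT.lf (nat_lit 1292) (nat_lit 1569835497) (nat_lit 0) (nat_lit 11794786052) (nat_lit 1216) (nat_lit 1569835497) (nat_lit 395) (nat_lit 1) (nat_lit 378) (nat_lit 1) (nat_lit 394) (nat_lit 1) (nat_lit 252) (nat_lit 388) (nat_lit 380)))) (XT.nd (nat_lit 156) (nat_lit 1140)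 (nat_lit 0) (XT.nd (nat_lit 78) (nat_lit 0) (nat_lit 76) (XT.lf (nat_lit 1292) (nat_lit 2456706353) (nat_lit 76) (nat_lit 6133568753) (nat_lit 0) (nat_lit 6133568753) (nat_lit 395) (nat_lit 1) (nat_lit 379) (nat_lit 1) (nat_lit 378) (nat_lit 1) (nat_lit 253) (nat_lit 388) (nat_lit 379)) (XT.lf (nat_lit 1292) (nat_lit 884655029) (nat_lit 0) (nat_lit 12749346515) (nat_lit 1216) (nat_lit 884655029) (nat_lit 396) (nat_lit 1) (nat_lit 379) (nat_lit 1) (nat_lit 395) (nat_lit 1) (nat_lit 254) (nat_lit 388) (nat_lit 378))) (XT.nd (nat_lit 78) (nat_lit 1216) (nat_lit 0) (XT.lf (nat_lit 1292) (nat_lit 976941424) (nat_lit 76) (nat_lit 6669431802) (nat_lit 0) (nat_lit 6669431802) (nat_lit 396) (nat_lit 1) (nat_lit 380) (nat_lit 1) (nat_lit 379) (nat_lit 1) (nat_lit 255) (nat_lit 388) (nat_lit 377)) (XT.nd (nat_lit 78) (nat_lit 1292) (nat_lit 0) (XT.lf (nat_lit 1292) (nat_lit 98989399) (nat_lit 0) (nat_lit 13920601252)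 (nat_lit 1216) (nat_lit 98989399) (nat_lit 397) (nat_lit 1) (nat_lit 380) (nat_lit 1) (nat_lit 396) (nat_lit 1) (nat_lit 256) (nat_lit 388) (nat_lit 376)) (XT.lf (nat_lit 1368) (nat_lit 6620854760) (nat_lit 0) (nat_lit 681214570) (nat_lit 1292) (nat_lit 6620854760) (nat_lit 381) (nat_lit 1) (nat_lit 363) (nat_lit 1) (nat_lit 380) (nat_lit 1) (nat_lit 257) (nat_lit 388) (nat_lit 375)))))) (XT.nd (nat_lit 390) (nat_lit 1216) (nat_lit 0) (XT.nd (nat_lit 156) (nat_lit 684) (nat_lit 0) (XT.nd (nat_lit 78) (nat_lit 0) (nat_lit 76) (XT.lf (nat_lit 1368) (nat_lit 12193260923) (nat_lit 76) (nat_lit 769699991) (nat_lit 0) (nat_lit 769699991) (nat_lit 381) (nat_lit 1) (nat_lit 364) (nat_lit 1) (nat_lit 363) (nat_lit 1) (nat_lit 258) (nat_lit 388) (nat_lit 374)) (XT.lf (nat_lit 1368) (nat_lit 5527312153) (nat_lit 0) (nat_lit 2489798788) (nat_lit 1292) (nat_lit 5527312153) (nat_lit 382) (nat_lit 1) (nat_lit 364)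 (nat_lit 1) (nat_lit 381) (nat_lit 1) (nat_lit 259) (nat_lit 388) (nat_lit 373))) (XT.nd (nat_lit 78) (nat_lit 760) (nat_lit 0) (XT.lf (nat_lit 1368) (nat_lit 9924742073) (nat_lit 76) (nat_lit 1718107450) (nat_lit 0) (nat_lit 1718107450) (nat_lit 382) (nat_lit 1) (nat_lit 365) (nat_lit 1) (nat_lit 364) (nat_lit 1) (nat_lit 260) (nat_lit 388) (nat_lit 372)) (XT.nd (nat_lit 78) (nat_lit 836) (nat_lit 0) (XT.lf (nat_lit 76) (nat_lit 4364752128) (nat_lit 0) (nat_lit 4450468189) (nat_lit 1292) (nat_lit 4364752128) (nat_lit 366) (nat_lit 1) (nat_lit 365) (nat_lit 1) (nat_lit 382) (nat_lit 1) (nat_lit 261) (nat_lit 388) (nat_lit 371)) (XT.lf (nat_lit 912) (nat_lit 7525447151) (nat_lit 0) (nat_lit 2738770662) (nat_lit 836) (nat_lit 2738770662) (nat_lit 366) (nat_lit 1) (nat_lit 354) (nat_lit 1) (nat_lit 365) (nat_lit 1) (nat_lit 262) (nat_lit 388) (nat_lit 370))))) (XT.nd (nat_lit 156) (nat_lit 608) (nat_lit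 0) (XT.nd (nat_lit 78) (nat_lit 608) (nat_lit 0) (XT.lf (nat_lit 76) (nat_lit 3140975146) (nat_lit 0) (nat_lit 6547038909) (nat_lit 912) (nat_lit 3140975146) (nat_lit 355) (nat_lit 1) (nat_lit 354) (nat_lit 1) (nat_lit 366) (nat_lit 1) (nat_lit 263) (nat_lit 388) (nat_lit 369)) (XT.lf (nat_lit 684) (nat_lit 5010485133) (nat_lit 0) (nat_lit 3823851610) (nat_lit 608) (nat_lit 3823851610) (nat_lit 355) (nat_lit 1) (nat_lit 346) (nat_lit 1) (nat_lit 354) (nat_lit 1) (nat_lit 264) (nat_lit 388) (nat_lit 368))) (XT.nd (nat_lit 78) (nat_lit 608) (nat_lit 0) (XT.lf (nat_lit 76) (nat_lit 1863222087) (nat_lit 0) (nat_lit 8764473196) (nat_lit 684) (nat_lit 1863222087) (nat_lit 347) (nat_lit 1) (nat_lit 346) (nat_lit 1) (nat_lit 355) (nat_lit 1) (nat_lit 265) (nat_lit 388) (nat_lit 367)) (XT.nd (nat_lit 78) (nat_lit 0) (nat_lit 0) (XT.lf (nat_lit 684) (nat_lit 2393876261) (nat_lit 0) (nat_lit 4966069697) (nat_lit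 608) (nat_lit 4966069697) (nat_lit 347) (nat_lit 1) (nat_lit 338) (nat_lit 1) (nat_lit 346) (nat_lit 1) (nat_lit 266) (nat_lit 388) (nat_lit 366)) (XT.lf (nat_lit 76) (nat_lit 538209630) (nat_lit 0) (nat_lit 11088807300) (nat_lit 684) (nat_lit 538209630) (nat_lit 339) (nat_lit 1) (nat_lit 338) (nat_lit 1) (nat_lit 347) (nat_lit 1) (nat_lit 267) (nat_lit 388) (nat_lit 365))))))))
noncomputable def ec240 : XT := (XT.nd (nat_lit 1404) (nat_lit 3876) (nat_lit 0) (XT.nd (nat_lit 702) (nat_lit 2204) (nat_lit 0) (XT.nd (nat_lit 312) (nat_lit 1596) (nat_lit 0) (XT.nd (nat_lit 156) (nat_lit 532) (nat_lit 0) (XT.nd (nat_lit 78) (nat_lit 608) (nat_lit 0) (XT.lf (nat_lit 76) (nat_lit 5850280774) (nat_lit 0) (nat_lit 305302878) (nat_lit 608) (nat_lit 5850280774) (nat_lit 331) (nat_lit 1) (nat_lit 330) (nat_lit 1) (nat_lit 338) (nat_lit 1) (nat_lit 268) (nat_lit 388) (nat_lit 364)) (XT.lf (nat_lit 684) (nat_lit 10211010023)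 (nat_lit 0) (nat_lit 819720455) (nat_lit 608) (nat_lit 819720455) (nat_lit 331) (nat_lit 1) (nat_lit 322) (nat_lit 1) (nat_lit 330) (nat_lit 1) (nat_lit 269) (nat_lit 388) (nat_lit 363))) (XT.nd (nat_lit 78) (nat_lit 532) (nat_lit 0) (XT.lf (nat_lit 76) (nat_lit 4331872193) (nat_lit 0) (nat_lit 3032875030) (nat_lit 684) (nat_lit 4331872193) (nat_lit 323) (nat_lit 1) (nat_lit 322) (nat_lit 1) (nat_lit 331) (nat_lit 1) (nat_lit 270) (nat_lit 388) (nat_lit 362)) (XT.lf (nat_lit 608) (nat_lit 7131810669) (nat_lit 0) (nat_lit 2207295858) (nat_lit 532) (nat_lit 2207295858) (nat_lit 323) (nat_lit 1) (nat_lit 315) (nat_lit 1) (nat_lit 322) (nat_lit 1) (nat_lit 271) (nat_lit 388) (nat_lit 361)))) (XT.nd (nat_lit 156) (nat_lit 1064) (nat_lit 0) (XT.nd (nat_lit 78) (nat_lit 532) (nat_lit 0) (XT.lf (nat_lit 76) (nat_lit 2786942197) (nat_lit 0) (nat_lit 5824619555) (nat_lit 608) (nat_lit 2786942197) (nat_lit 316)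 (nat_lit 1) (nat_lit 315) (nat_lit 1) (nat_lit 323) (nat_lit 1) (nat_lit 272) (nat_lit 388) (nat_lit 360)) (XT.lf (nat_lit 608) (nat_lit 4004230498) (nat_lit 0) (nat_lit 3624509754) (nat_lit 532) (nat_lit 3624509754) (nat_lit 316) (nat_lit 1) (nat_lit 308) (nat_lit 1) (nat_lit 315) (nat_lit 1) (nat_lit 273) (nat_lit 388) (nat_lit 359))) (XT.nd (nat_lit 78) (nat_lit 1064) (nat_lit 0) (XT.lf (nat_lit 76) (nat_lit 1220324415) (nat_lit 0) (nat_lit 8670423198) (nat_lit 608) (nat_lit 1220324415) (nat_lit 309) (nat_lit 1) (nat_lit 308) (nat_lit 1) (nat_lit 316) (nat_lit 1) (nat_lit 274) (nat_lit 388) (nat_lit 358)) (XT.nd (nat_lit 78) (nat_lit 608) (nat_lit 0) (XT.lf (nat_lit 532) (nat_lit 837604229) (nat_lit 0) (nat_lit 5066477540) (nat_lit 456) (nat_lit 5066477540) (nat_lit 309) (nat_lit 1) (nat_lit 302) (nat_lit 1) (nat_lit 308) (nat_lit 1) (nat_lit 275) (nat_lit 388) (nat_lit 357)) (XT.lf (nat_lit 608)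 (nat_lit 10113561208) (nat_lit 0) (nat_lit 359957496) (nat_lit 532) (nat_lit 359957496) (nat_lit 302) (nat_lit 1) (nat_lit 294) (nat_lit 1) (nat_lit 301) (nat_lit 1) (nat_lit 276) (nat_lit 388) (nat_lit 356)))))) (XT.nd (nat_lit 312) (nat_lit 1292) (nat_lit 0) (XT.nd (nat_lit 156) (nat_lit 456) (nat_lit 0) (XT.nd (nat_lit 78) (nat_lit 456) (nat_lit 0) (XT.lf (nat_lit 76) (nat_lit 4191908031) (nat_lit 0) (nat_lit 2313418698) (nat_lit 608) (nat_lit 4191908031) (nat_lit 295) (nat_lit 1) (nat_lit 294) (nat_lit 1) (nat_lit 302) (nat_lit 1) (nat_lit 277) (nat_lit 388) (nat_lit 355)) (XT.lf (nat_lit 532) (nat_lit 6681771268) (nat_lit 0) (nat_lit 1941264825) (nat_lit 456) (nat_lit 1941264825) (nat_lit 295) (nat_lit 1) (nat_lit 288) (nat_lit 1) (nat_lit 294) (nat_lit 1) (nat_lit 278) (nat_lit 388) (nat_lit 354))) (XT.nd (nat_lit 78) (nat_lit 456) (nat_lit 0) (XT.lf (nat_lit 76) (nat_lit 2481572221) (nat_lit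 0) (nat_lit 5470167616) (nat_lit 532) (nat_lit 2481572221) (nat_lit 289) (nat_lit 1) (nat_lit 288) (nat_lit 1) (nat_lit 295) (nat_lit 1) (nat_lit 279) (nat_lit 388) (nat_lit 353)) (XT.lf (nat_lit 532) (nat_lit 3240945615) (nat_lit 0) (nat_lit 3531815390) (nat_lit 456) (nat_lit 3531815390) (nat_lit 289) (nat_lit 1) (nat_lit 282) (nat_lit 1) (nat_lit 288) (nat_lit 1) (nat_lit 280) (nat_lit 388) (nat_lit 352)))) (XT.nd (nat_lit 156) (nat_lit 836) (nat_lit 0) (XT.nd (nat_lit 78) (nat_lit 456) (nat_lit 0) (XT.lf (nat_lit 76) (nat_lit 768409674) (nat_lit 0) (nat_lit 8641836347) (nat_lit 532) (nat_lit 768409674) (nat_lit 283) (nat_lit 1) (nat_lit 282) (nat_lit 1) (nat_lit 289) (nat_lit 1) (nat_lit 281) (nat_lit 388) (nat_lit 351)) (XT.lf (nat_lit 76) (nat_lit 4927714977) (nat_lit 0) (nat_lit 198446582) (nat_lit 456) (nat_lit 4927714977) (nat_lit 277) (nat_lit 1) (nat_lit 276) (nat_lit 1) (nat_lit 282) (nat_lit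 1) (nat_lit 282) (nat_lit 388) (nat_lit 350))) (XT.nd (nat_lit 78) (nat_lit 380) (nat_lit 0) (XT.lf (nat_lit 532) (nat_lit 8061378496) (nat_lit 0) (nat_lit 935215830) (nat_lit 456) (nat_lit 935215830) (nat_lit 277) (nat_lit 1) (nat_lit 270) (nat_lit 1) (nat_lit 276) (nat_lit 1) (nat_lit 283) (nat_lit 388) (nat_lit 349)) (XT.nd (nat_lit 78) (nat_lit 380) (nat_lit 0) (XT.lf (nat_lit 76) (nat_lit 3119882668) (nat_lit 0) (nat_lit 3571209044) (nat_lit 532) (nat_lit 3119882668) (nat_lit 271) (nat_lit 1) (nat_lit 270) (nat_lit 1) (nat_lit 277) (nat_lit 1) (nat_lit 284) (nat_lit 388) (nat_lit 348)) (XT.lf (nat_lit 456) (nat_lit 4436197016) (nat_lit 0) (nat_lit 2628220657) (nat_lit 380) (nat_lit 2628220657) (nat_lit 271) (nat_lit 1) (nat_lit 265) (nat_lit 1) (nat_lit 270) (nat_lit 1) (nat_lit 285) (nat_lit 388) (nat_lit 347))))))) (XT.nd (nat_lit 702) (nat_lit 1900) (nat_lit 0) (XT.nd (nat_lit 312) (nat_lit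 1140) (nat_lit 0) (XT.nd (nat_lit 156) (nat_lit 456) (nat_lit 0) (XT.nd (nat_lit 78) (nat_lit 380) (nat_lit 0) (XT.lf (nat_lit 76) (nat_lit 1320618534) (nat_lit 0) (nat_lit 6935232588) (nat_lit 456) (nat_lit 1320618534) (nat_lit 266) (nat_lit 1) (nat_lit 265) (nat_lit 1) (nat_lit 271) (nat_lit 1) (nat_lit 286) (nat_lit 388) (nat_lit 346)) (XT.lf (nat_lit 456) (nat_lit 830565033) (nat_lit 0) (nat_lit 4315569571) (nat_lit 380) (nat_lit 4315569571) (nat_lit 266) (nat_lit 1) (nat_lit 260) (nat_lit 1) (nat_lit 265) (nat_lit 1) (nat_lit 287) (nat_lit 388) (nat_lit 345))) (XT.nd (nat_lit 78) (nat_lit 0) (nat_lit 0) (XT.lf (nat_lit 456) (nat_lit 8423079603) (nat_lit 0) (nat_lit 463209961) (nat_lit 380) (nat_lit 463209961) (nat_lit 260) (nat_lit 1) (nat_lit 254) (nat_lit 1) (nat_lit 259) (nat_lit 1) (nat_lit 288) (nat_lit 388) (nat_lit 344)) (XT.lf (nat_lit 76) (nat_lit 3270219151) (nat_lit 0) (nat_lit 2697463098)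 (nat_lit 456) (nat_lit 3270219151) (nat_lit 255) (nat_lit 1) (nat_lit 254) (nat_lit 1) (nat_lit 260) (nat_lit 1) (nat_lit 289) (nat_lit 388) (nat_lit 343)))) (XT.nd (nat_lit 156) (nat_lit 760) (nat_lit 0) (XT.nd (nat_lit 78) (nat_lit 0) (nat_lit 0) (XT.lf (nat_lit 456) (nat_lit 4686185497) (nat_lit 0) (nat_lit 2221298971) (nat_lit 380) (nat_lit 2221298971) (nat_lit 255) (nat_lit 1) (nat_lit 249) (nat_lit 1) (nat_lit 254) (nat_lit 1) (nat_lit 290) (nat_lit 388) (nat_lit 342)) (XT.lf (nat_lit 76) (nat_lit 1419771089) (nat_lit 0) (nat_lit 6181950100) (nat_lit 456) (nat_lit 1419771089) (nat_lit 250) (nat_lit 1) (nat_lit 249) (nat_lit 1) (nat_lit 255) (nat_lit 1) (nat_lit 291) (nat_lit 388) (nat_lit 341))) (XT.nd (nat_lit 78) (nat_lit 456) (nat_lit 0) (XT.lf (nat_lit 380) (nat_lit 986077234) (nat_lit 0) (nat_lit 3964741803) (nat_lit 304) (nat_lit 3964741803) (nat_lit 250) (nat_lit 1) (nat_lit 245) (nat_lit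 1) (nat_lit 249) (nat_lit 1) (nat_lit 292) (nat_lit 388) (nat_lit 340)) (XT.nd (nat_lit 78) (nat_lit 0) (nat_lit 0) (XT.lf (nat_lit 456) (nat_lit 7996857081) (nat_lit 0) (nat_lit 407548087) (nat_lit 380) (nat_lit 407548087) (nat_lit 245) (nat_lit 1) (nat_lit 239) (nat_lit 1) (nat_lit 244) (nat_lit 1) (nat_lit 293) (nat_lit 388) (nat_lit 339)) (XT.lf (nat_lit 76) (nat_lit 3043391868) (nat_lit 0) (nat_lit 2621997432) (nat_lit 456) (nat_lit 3043391868) (nat_lit 240) (nat_lit 1) (nat_lit 239) (nat_lit 1) (nat_lit 245) (nat_lit 1) (nat_lit 294) (nat_lit 388) (nat_lit 338)))))) (XT.nd (nat_lit 390) (nat_lit 912) (nat_lit 0) (XT.nd (nat_lit 156) (nat_lit 684) (nat_lit 0) (XT.nd (nat_lit 78) (nat_lit 0) (nat_lit 0) (XT.lf (nat_lit 380) (nat_lit 4206637737) (nat_lit 0) (nat_lit 2200613820) (nat_lit 304) (nat_lit 2200613820) (nat_lit 240) (nat_lit 1) (nat_lit 235) (nat_lit 1) (nat_lit 239) (nat_lit 1) (nat_lit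 295) (nat_lit 388) (nat_lit 337)) (XT.lf (nat_lit 76) (nat_lit 1169801697) (nat_lit 0) (nat_lit 6169072384) (nat_lit 380) (nat_lit 1169801697) (nat_lit 236) (nat_lit 1) (nat_lit 235) (nat_lit 1) (nat_lit 240) (nat_lit 1) (nat_lit 296) (nat_lit 388) (nat_lit 336))) (XT.nd (nat_lit 78) (nat_lit 380) (nat_lit 0) (XT.lf (nat_lit 380) (nat_lit 466467590) (nat_lit 0) (nat_lit 3972073010) (nat_lit 304) (nat_lit 3972073010) (nat_lit 236) (nat_lit 1) (nat_lit 231) (nat_lit 1) (nat_lit 235) (nat_lit 1) (nat_lit 297) (nat_lit 388) (nat_lit 335)) (XT.nd (nat_lit 78) (nat_lit 0) (nat_lit 0) (XT.lf (nat_lit 380) (nat_lit 6971058569) (nat_lit 0) (nat_lit 671714041) (nat_lit 304) (nat_lit 671714041) (nat_lit 231) (nat_lit 1) (nat_lit 226) (nat_lit 1) (nat_lit 230) (nat_lit 1) (nat_lit 298) (nat_lit 388) (nat_lit 334)) (XT.lf (nat_lit 76) (nat_lit 2530118758) (nat_lit 0) (nat_lit 3158781084) (nat_lit 380) (nat_lit 2530118758)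 (nat_lit 227) (nat_lit 1) (nat_lit 226) (nat_lit 1) (nat_lit 231) (nat_lit 1) (nat_lit 299) (nat_lit 388) (nat_lit 333))))) (XT.nd (nat_lit 156) (nat_lit 608) (nat_lit 0) (XT.nd (nat_lit 78) (nat_lit 0) (nat_lit 0) (XT.lf (nat_lit 380) (nat_lit 3174103005) (nat_lit 0) (nat_lit 2475663088) (nat_lit 304) (nat_lit 2475663088) (nat_lit 227) (nat_lit 1) (nat_lit 222) (nat_lit 1) (nat_lit 226) (nat_lit 1) (nat_lit 300) (nat_lit 388) (nat_lit 332)) (XT.lf (nat_lit 76) (nat_lit 655738844) (nat_lit 0) (nat_lit 6722172636) (nat_lit 380) (nat_lit 655738844) (nat_lit 223) (nat_lit 1) (nat_lit 222) (nat_lit 1) (nat_lit 227) (nat_lit 1) (nat_lit 301) (nat_lit 388) (nat_lit 331))) (XT.nd (nat_lit 78) (nat_lit 304) (nat_lit 0) (XT.lf (nat_lit 76) (nat_lit 3695322506) (nat_lit 0) (nat_lit 551817802) (nat_lit 304) (nat_lit 3695322506) (nat_lit 219) (nat_lit 1) (nat_lit 218) (nat_lit 1) (nat_lit 222) (nat_lit 1) (nat_lit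 302) (nat_lit 388) (nat_lit 330)) (XT.nd (nat_lit 78) (nat_lit 0) (nat_lit 0) (XT.lf (nat_lit 380) (nat_lit 5499423772) (nat_lit 0) (nat_lit 1176805913) (nat_lit 304) (nat_lit 1176805913) (nat_lit 219) (nat_lit 1) (nat_lit 214) (nat_lit 1) (nat_lit 218) (nat_lit 1) (nat_lit 303) (nat_lit 388) (nat_lit 329)) (XT.lf (nat_lit 76) (nat_lit 1804418452) (nat_lit 0) (nat_lit 4155790240) (nat_lit 380) (nat_lit 1804418452) (nat_lit 215) (nat_lit 1) (nat_lit 214) (nat_lit 1) (nat_lit 219) (nat_lit 1) (nat_lit 304) (nat_lit 388) (nat_lit 328))))))))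
noncomputable def ec241 : XT := (XT.nd (nat_lit 1482) (nat_lit 2128) (nat_lit 0) (XT.nd (nat_lit 702) (nat_lit 1444) (nat_lit 0) (XT.nd (nat_lit 312) (nat_lit 760) (nat_lit 0) (XT.nd (nat_lit 156) (nat_lit 228) (nat_lit 0) (XT.nd (nat_lit 78) (nat_lit 380) (nat_lit 0) (XT.lf (nat_lit 304) (nat_lit 1732572633) (nat_lit 0) (nat_lit 2972517185) (nat_lit 228) (nat_lit 2972517185) (nat_lit 215) (nat_lit 1) (nat_lit 211) (nat_lit 1) (nat_lit 214) (nat_lit 1) (nat_lit 305) (nat_lit 388) (nat_lit 327)) (XT.lf (nat_lit 380) (nat_lit 7487404037) (nat_lit 0) (nat_lit 52578098) (nat_lit 304) (nat_lit 52578098) (nat_lit 211) (nat_lit 1) (nat_lit 206) (nat_lit 1) (nat_lit 210) (nat_lit 1) (nat_lit 306) (nat_lit 388) (nat_lit 326))) (XT.nd (nat_lit 78) (nat_lit 228) (nat_lit 0) (XT.lf (nat_lit 76) (nat_lit 2789418912) (nat_lit 0) (nat_lit 1928508442) (nat_lit 380) (nat_lit 2789418912) (nat_lit 207) (nat_lit 1) (nat_lit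 206) (nat_lit 1) (nat_lit 211) (nat_lit 1) (nat_lit 307) (nat_lit 388) (nat_lit 325)) (XT.lf (nat_lit 304) (nat_lit 3706953972) (nat_lit 0) (nat_lit 1858554799) (nat_lit 228) (nat_lit 1858554799) (nat_lit 207) (nat_lit 1) (nat_lit 203) (nat_lit 1) (nat_lit 206) (nat_lit 1) (nat_lit 308) (nat_lit 388) (nat_lit 324)))) (XT.nd (nat_lit 156) (nat_lit 456) (nat_lit 0) (XT.nd (nat_lit 78) (nat_lit 304) (nat_lit 0) (XT.lf (nat_lit 76) (nat_lit 926444247) (nat_lit 0) (nat_lit 5489249083) (nat_lit 304) (nat_lit 926444247) (nat_lit 204) (nat_lit 1) (nat_lit 203) (nat_lit 1) (nat_lit 207) (nat_lit 1) (nat_lit 309) (nat_lit 388) (nat_lit 323)) (XT.lf (nat_lit 76) (nat_lit 3630029067) (nat_lit 0) (nat_lit 971899) (nat_lit 304) (nat_lit 3630029067) (nat_lit 200) (nat_lit 1) (nat_lit 199) (nat_lit 1) (nat_lit 203) (nat_lit 1) (nat_lit 310) (nat_lit 388) (nat_lit 322))) (XT.nd (nat_lit 78) (nat_lit 228) (nat_lit 0)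 (XT.lf (nat_lit 304) (nat_lit 5398032658) (nat_lit 0) (nat_lit 891604566) (nat_lit 228) (nat_lit 891604566) (nat_lit 200) (nat_lit 1) (nat_lit 196) (nat_lit 1) (nat_lit 199) (nat_lit 1) (nat_lit 311) (nat_lit 388) (nat_lit 321)) (XT.nd (nat_lit 78) (nat_lit 228) (nat_lit 0) (XT.lf (nat_lit 76) (nat_lit 1768397532) (nat_lit 0) (nat_lit 3565425734) (nat_lit 304) (nat_lit 1768397532) (nat_lit 197) (nat_lit 1) (nat_lit 196) (nat_lit 1) (nat_lit 200) (nat_lit 1) (nat_lit 312) (nat_lit 388) (nat_lit 320)) (XT.lf (nat_lit 304) (nat_lit 1694813120) (nat_lit 0) (nat_lit 2664835079) (nat_lit 228) (nat_lit 2664835079) (nat_lit 197) (nat_lit 1) (nat_lit 193) (nat_lit 1) (nat_lit 196) (nat_lit 1) (nat_lit 313) (nat_lit 388) (nat_lit 319)))))) (XT.nd (nat_lit 390) (nat_lit 684) (nat_lit 0) (XT.nd (nat_lit 156) (nat_lit 456) (nat_lit 0) (XT.nd (nat_lit 78) (nat_lit 0) (nat_lit 0) (XT.lf (nat_lit 304) (nat_lit 6839239446)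 (nat_lit 0) (nat_lit 54608913) (nat_lit 228) (nat_lit 54608913) (nat_lit 193) (nat_lit 1) (nat_lit 189) (nat_lit 1) (nat_lit 192) (nat_lit 1) (nat_lit 314) (nat_lit 388) (nat_lit 318)) (XT.lf (nat_lit 76) (nat_lit 2488930164) (nat_lit 0) (nat_lit 1894338489) (nat_lit 304) (nat_lit 2488930164) (nat_lit 190) (nat_lit 1) (nat_lit 189) (nat_lit 1) (nat_lit 193) (nat_lit 1) (nat_lit 315) (nat_lit 388) (nat_lit 317))) (XT.nd (nat_lit 78) (nat_lit 228) (nat_lit 0) (XT.lf (nat_lit 304) (nat_lit 3152124191) (nat_lit 0) (nat_lit 1822748180) (nat_lit 228) (nat_lit 1822748180) (nat_lit 190) (nat_lit 1) (nat_lit 186) (nat_lit 1) (nat_lit 189) (nat_lit 1) (nat_lit 316) (nat_lit 388) (nat_lit 316)) (XT.nd (nat_lit 78) (nat_lit 228) (nat_lit 0) (XT.lf (nat_lit 76) (nat_lit 674177842) (nat_lit 0) (nat_lit 5375949780) (nat_lit 304) (nat_lit 674177842) (nat_lit 187) (nat_lit 1) (nat_lit 186) (nat_lit 1) (nat_lit 190)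 (nat_lit 1) (nat_lit 317) (nat_lit 388) (nat_lit 315)) (XT.lf (nat_lit 76) (nat_lit 3102384021) (nat_lit 0) (nat_lit 446691235) (nat_lit 228) (nat_lit 3102384021) (nat_lit 184) (nat_lit 1) (nat_lit 183) (nat_lit 1) (nat_lit 186) (nat_lit 1) (nat_lit 318) (nat_lit 388) (nat_lit 314))))) (XT.nd (nat_lit 156) (nat_lit 456) (nat_lit 0) (XT.nd (nat_lit 78) (nat_lit 0) (nat_lit 0) (XT.lf (nat_lit 304) (nat_lit 4398975581) (nat_lit 0) (nat_lit 1090436429) (nat_lit 228) (nat_lit 1090436429) (nat_lit 184) (nat_lit 1) (nat_lit 180) (nat_lit 1) (nat_lit 183) (nat_lit 1) (nat_lit 319) (nat_lit 388) (nat_lit 313)) (XT.lf (nat_lit 76) (nat_lit 1301112400) (nat_lit 0) (nat_lit 3906829981) (nat_lit 304) (nat_lit 1301112400) (nat_lit 181) (nat_lit 1) (nat_lit 180) (nat_lit 1) (nat_lit 184) (nat_lit 1) (nat_lit 320) (nat_lit 388) (nat_lit 312))) (XT.nd (nat_lit 78) (nat_lit 304) (nat_lit 0) (XT.lf (nat_lit 228) (nat_lit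 819504314) (nat_lit 0) (nat_lit 2809851581) (nat_lit 152) (nat_lit 2809851581) (nat_lit 181) (nat_lit 1) (nat_lit 178) (nat_lit 1) (nat_lit 180) (nat_lit 1) (nat_lit 321) (nat_lit 388) (nat_lit 311)) (XT.nd (nat_lit 78) (nat_lit 0) (nat_lit 0) (XT.lf (nat_lit 304) (nat_lit 5460232889) (nat_lit 0) (nat_lit 455196196) (nat_lit 228) (nat_lit 455196196) (nat_lit 178) (nat_lit 1) (nat_lit 174) (nat_lit 1) (nat_lit 177) (nat_lit 1) (nat_lit 322) (nat_lit 388) (nat_lit 310)) (XT.lf (nat_lit 76) (nat_lit 1837685710) (nat_lit 0) (nat_lit 2626865148) (nat_lit 304) (nat_lit 1837685710) (nat_lit 175) (nat_lit 1) (nat_lit 174) (nat_lit 1) (nat_lit 178) (nat_lit 1) (nat_lit 323) (nat_lit 388) (nat_lit 309))))))) (XT.nd (nat_lit 702) (nat_lit 1064) (nat_lit 0) (XT.nd (nat_lit 312) (nat_lit 532) (nat_lit 0) (XT.nd (nat_lit 156) (nat_lit 380) (nat_lit 0) (XT.nd (nat_lit 78) (nat_lit 0) (nat_lit 0) (XT.lf (nat_lit 228)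 (nat_lit 1916742628) (nat_lit 0) (nat_lit 2159173513) (nat_lit 152) (nat_lit 2159173513) (nat_lit 175) (nat_lit 1) (nat_lit 172) (nat_lit 1) (nat_lit 174) (nat_lit 1) (nat_lit 324) (nat_lit 388) (nat_lit 308)) (XT.lf (nat_lit 76) (nat_lit 95179192) (nat_lit 0) (nat_lit 5978987347) (nat_lit 228) (nat_lit 95179192) (nat_lit 173) (nat_lit 1) (nat_lit 172) (nat_lit 1) (nat_lit 175) (nat_lit 1) (nat_lit 325) (nat_lit 388) (nat_lit 307))) (XT.nd (nat_lit 78) (nat_lit 152) (nat_lit 0) (XT.lf (nat_lit 76) (nat_lit 2294569849) (nat_lit 0) (nat_lit 1514224313) (nat_lit 228) (nat_lit 2294569849) (nat_lit 170) (nat_lit 1) (nat_lit 169) (nat_lit 1) (nat_lit 172) (nat_lit 1) (nat_lit 326) (nat_lit 388) (nat_lit 306)) (XT.lf (nat_lit 228) (nat_lit 2857004552) (nat_lit 0) (nat_lit 1590880008) (nat_lit 152) (nat_lit 1590880008) (nat_lit 170) (nat_lit 1) (nat_lit 167) (nat_lit 1) (nat_lit 169) (nat_lit 1) (nat_lit 327)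 (nat_lit 388) (nat_lit 305)))) (XT.nd (nat_lit 156) (nat_lit 304) (nat_lit 0) (XT.nd (nat_lit 78) (nat_lit 228) (nat_lit 0) (XT.lf (nat_lit 76) (nat_lit 573516385) (nat_lit 0) (nat_lit 4828189996) (nat_lit 228) (nat_lit 573516385) (nat_lit 168) (nat_lit 1) (nat_lit 167) (nat_lit 1) (nat_lit 170) (nat_lit 1) (nat_lit 328) (nat_lit 388) (nat_lit 304)) (XT.lf (nat_lit 76) (nat_lit 2681229472) (nat_lit 0) (nat_lit 549532429) (nat_lit 228) (nat_lit 2681229472) (nat_lit 165) (nat_lit 1) (nat_lit 164) (nat_lit 1) (nat_lit 167) (nat_lit 1) (nat_lit 329) (nat_lit 388) (nat_lit 303))) (XT.nd (nat_lit 78) (nat_lit 152) (nat_lit 0) (XT.lf (nat_lit 228) (nat_lit 3658803340) (nat_lit 0) (nat_lit 1095497940) (nat_lit 152) (nat_lit 1095497940) (nat_lit 165) (nat_lit 1) (nat_lit 162) (nat_lit 1) (nat_lit 164) (nat_lit 1) (nat_lit 330) (nat_lit 388) (nat_lit 302)) (XT.nd (nat_lit 78) (nat_lit 152) (nat_lit 0) (XT.lf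 (nat_lit 76) (nat_lit 984271497) (nat_lit 0) (nat_lit 3819820373) (nat_lit 228) (nat_lit 984271497) (nat_lit 163) (nat_lit 1) (nat_lit 162) (nat_lit 1) (nat_lit 165) (nat_lit 1) (nat_lit 331) (nat_lit 388) (nat_lit 301)) (XT.lf (nat_lit 228) (nat_lit 290064316) (nat_lit 0) (nat_lit 2718780920) (nat_lit 152) (nat_lit 2718780920) (nat_lit 163) (nat_lit 1) (nat_lit 160) (nat_lit 1) (nat_lit 162) (nat_lit 1) (nat_lit 332) (nat_lit 388) (nat_lit 300)))))) (XT.nd (nat_lit 390) (nat_lit 456) (nat_lit 0) (XT.nd (nat_lit 156) (nat_lit 380) (nat_lit 0) (XT.nd (nat_lit 78) (nat_lit 0) (nat_lit 0) (XT.lf (nat_lit 228) (nat_lit 4338558406) (nat_lit 0) (nat_lit 664618894) (nat_lit 152) (nat_lit 664618894) (nat_lit 160) (nat_lit 1) (nat_lit 157) (nat_lit 1) (nat_lit 159) (nat_lit 1) (nat_lit 333) (nat_lit 388) (nat_lit 299)) (XT.lf (nat_lit 76) (nat_lit 1335395601) (nat_lit 0) (nat_lit 2937585292) (nat_lit 228) (nat_lit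 1335395601) (nat_lit 158) (nat_lit 1) (nat_lit 157) (nat_lit 1) (nat_lit 160) (nat_lit 1) (nat_lit 334) (nat_lit 388) (nat_lit 298))) (XT.nd (nat_lit 78) (nat_lit 228) (nat_lit 0) (XT.lf (nat_lit 228) (nat_lit 1022799886) (nat_lit 0) (nat_lit 2263524374) (nat_lit 152) (nat_lit 2263524374) (nat_lit 158) (nat_lit 1) (nat_lit 155) (nat_lit 1) (nat_lit 157) (nat_lit 1) (nat_lit 335) (nat_lit 388) (nat_lit 297)) (XT.nd (nat_lit 78) (nat_lit 0) (nat_lit 0) (XT.lf (nat_lit 228) (nat_lit 4910829677) (nat_lit 0) (nat_lit 290780194) (nat_lit 152) (nat_lit 290780194) (nat_lit 155) (nat_lit 1) (nat_lit 152) (nat_lit 1) (nat_lit 154) (nat_lit 1) (nat_lit 336) (nat_lit 388) (nat_lit 296)) (XT.lf (nat_lit 76) (nat_lit 1633941039) (nat_lit 0) (nat_lit 2167020431) (nat_lit 228) (nat_lit 1633941039) (nat_lit 153) (nat_lit 1) (nat_lit 152) (nat_lit 1) (nat_lit 155) (nat_lit 1) (nat_lit 337) (nat_lit 388) (nat_lit 295)))))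 (XT.nd (nat_lit 156) (nat_lit 304) (nat_lit 0) (XT.nd (nat_lit 78) (nat_lit 0) (nat_lit 0) (XT.lf (nat_lit 228) (nat_lit 1651542023) (nat_lit 0) (nat_lit 1863464264) (nat_lit 152) (nat_lit 1863464264) (nat_lit 153) (nat_lit 1) (nat_lit 150) (nat_lit 1) (nat_lit 152) (nat_lit 1) (nat_lit 338) (nat_lit 388) (nat_lit 294)) (XT.lf (nat_lit 76) (nat_lit 32963966) (nat_lit 0) (nat_lit 5257278041) (nat_lit 228) (nat_lit 32963966) (nat_lit 151) (nat_lit 1) (nat_lit 150) (nat_lit 1) (nat_lit 153) (nat_lit 1) (nat_lit 339) (nat_lit 388) (nat_lit 293))) (XT.nd (nat_lit 78) (nat_lit 152) (nat_lit 0) (XT.lf (nat_lit 76) (nat_lit 1886161997) (nat_lit 0) (nat_lit 1495286039) (nat_lit 152) (nat_lit 1886161997) (nat_lit 149) (nat_lit 1) (nat_lit 148) (nat_lit 1) (nat_lit 150) (nat_lit 1) (nat_lit 340) (nat_lit 388) (nat_lit 292)) (XT.nd (nat_lit 78) (nat_lit 0) (nat_lit 0) (XT.lf (nat_lit 228) (nat_lit 2188536388) (nat_lit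 0) (nat_lit 1512316460) (nat_lit 152) (nat_lit 1512316460) (nat_lit 149) (nat_lit 1) (nat_lit 146) (nat_lit 1) (nat_lit 148) (nat_lit 1) (nat_lit 341) (nat_lit 388) (nat_lit 291)) (XT.lf (nat_lit 76) (nat_lit 314604920) (nat_lit 0) (nat_lit 4530473268) (nat_lit 228) (nat_lit 314604920) (nat_lit 147) (nat_lit 1) (nat_lit 146) (nat_lit 1) (nat_lit 149) (nat_lit 1) (nat_lit 342) (nat_lit 388) (nat_lit 290))))))))
noncomputable def ec242 : XT := (XT.nd (nat_lit 1482) (nat_lit 1444) (nat_lit 0) (XT.nd (nat_lit 702) (nat_lit 988) (nat_lit 0) (XT.nd (nat_lit 312) (nat_lit 456) (nat_lit 0) (XT.nd (nat_lit 156) (nat_lit 152) (nat_lit 0) (XT.nd (nat_lit 78) (nat_lit 152) (nat_lit 0) (XT.lf (nat_lit 76) (nat_lit 2097603851) (nat_lit 0) (nat_lit 910985437) (nat_lit 152) (nat_lit 2097603851) (nat_lit 145) (nat_lit 1) (nat_lit 144) (nat_lit 1) (nat_lit 146) (nat_lit 1) (nat_lit 343) (nat_lit 388) (nat_lit 289)) (XT.lf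 (nat_lit 228) (nat_lit 2644644186) (nat_lit 0) (nat_lit 1204501351) (nat_lit 152) (nat_lit 1204501351) (nat_lit 145) (nat_lit 1) (nat_lit 142) (nat_lit 1) (nat_lit 144) (nat_lit 1) (nat_lit 344) (nat_lit 388) (nat_lit 288))) (XT.nd (nat_lit 78) (nat_lit 152) (nat_lit 0) (XT.lf (nat_lit 76) (nat_lit 556529059) (nat_lit 0) (nat_lit 3888810336) (nat_lit 228) (nat_lit 556529059) (nat_lit 143) (nat_lit 1) (nat_lit 142) (nat_lit 1) (nat_lit 145) (nat_lit 1) (nat_lit 345) (nat_lit 388) (nat_lit 287)) (XT.lf (nat_lit 76) (nat_lit 2273182539) (nat_lit 0) (nat_lit 404003770) (nat_lit 152) (nat_lit 2273182539) (nat_lit 141) (nat_lit 1) (nat_lit 140) (nat_lit 1) (nat_lit 142) (nat_lit 1) (nat_lit 346) (nat_lit 388) (nat_lit 286)))) (XT.nd (nat_lit 156) (nat_lit 304) (nat_lit 0) (XT.nd (nat_lit 78) (nat_lit 0) (nat_lit 0) (XT.lf (nat_lit 228) (nat_lit 3029497108) (nat_lit 0) (nat_lit 935065174) (nat_lit 152) (nat_lit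 935065174) (nat_lit 141) (nat_lit 1) (nat_lit 138) (nat_lit 1) (nat_lit 140) (nat_lit 1) (nat_lit 347) (nat_lit 388) (nat_lit 285)) (XT.lf (nat_lit 76) (nat_lit 763407368) (nat_lit 0) (nat_lit 3322675592) (nat_lit 228) (nat_lit 763407368) (nat_lit 139) (nat_lit 1) (nat_lit 138) (nat_lit 1) (nat_lit 141) (nat_lit 1) (nat_lit 348) (nat_lit 388) (nat_lit 284))) (XT.nd (nat_lit 78) (nat_lit 228) (nat_lit 0) (XT.lf (nat_lit 152) (nat_lit 35324562) (nat_lit 0) (nat_lit 2382270074) (nat_lit 76) (nat_lit 2382270074) (nat_lit 139) (nat_lit 1) (nat_lit 137) (nat_lit 1) (nat_lit 138) (nat_lit 1) (nat_lit 349) (nat_lit 388) (nat_lit 283)) (XT.nd (nat_lit 78) (nat_lit 0) (nat_lit 0) (XT.lf (nat_lit 228) (nat_lit 3351634964) (nat_lit 0) (nat_lit 699610116) (nat_lit 152) (nat_lit 699610116) (nat_lit 137) (nat_lit 1) (nat_lit 134) (nat_lit 1) (nat_lit 136) (nat_lit 1) (nat_lit 350) (nat_lit 388) (nat_lit 282)) (XT.lf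 (nat_lit 76) (nat_lit 939382906) (nat_lit 0) (nat_lit 2823530904) (nat_lit 228) (nat_lit 939382906) (nat_lit 135) (nat_lit 1) (nat_lit 134) (nat_lit 1) (nat_lit 137) (nat_lit 1) (nat_lit 351) (nat_lit 388) (nat_lit 281)))))) (XT.nd (nat_lit 390) (nat_lit 380) (nat_lit 0) (XT.nd (nat_lit 156) (nat_lit 304) (nat_lit 0) (XT.nd (nat_lit 78) (nat_lit 228) (nat_lit 0) (XT.lf (nat_lit 152) (nat_lit 421114086) (nat_lit 0) (nat_lit 2116616105) (nat_lit 76) (nat_lit 2116616105) (nat_lit 135) (nat_lit 1) (nat_lit 133) (nat_lit 1) (nat_lit 134) (nat_lit 1) (nat_lit 352) (nat_lit 388) (nat_lit 280)) (XT.lf (nat_lit 228) (nat_lit 3618627965) (nat_lit 0) (nat_lit 494232216) (nat_lit 152) (nat_lit 494232216) (nat_lit 133) (nat_lit 1) (nat_lit 130) (nat_lit 1) (nat_lit 132) (nat_lit 1) (nat_lit 353) (nat_lit 388) (nat_lit 279))) (XT.nd (nat_lit 78) (nat_lit 304) (nat_lit 0) (XT.lf (nat_lit 76) (nat_lit 1088129882) (nat_lit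 0) (nat_lit 2383793624) (nat_lit 228) (nat_lit 1088129882) (nat_lit 131) (nat_lit 1) (nat_lit 130) (nat_lit 1) (nat_lit 133) (nat_lit 1) (nat_lit 354) (nat_lit 388) (nat_lit 278)) (XT.nd (nat_lit 78) (nat_lit 228) (nat_lit 0) (XT.lf (nat_lit 152) (nat_lit 752531762) (nat_lit 0) (nat_lit 1880585995) (nat_lit 76) (nat_lit 1880585995) (nat_lit 131) (nat_lit 1) (nat_lit 129) (nat_lit 1) (nat_lit 130) (nat_lit 1) (nat_lit 355) (nat_lit 388) (nat_lit 277)) (XT.lf (nat_lit 228) (nat_lit 3837185350) (nat_lit 0) (nat_lit 315466194) (nat_lit 152) (nat_lit 315466194) (nat_lit 129) (nat_lit 1) (nat_lit 126) (nat_lit 1) (nat_lit 128) (nat_lit 1) (nat_lit 356) (nat_lit 388) (nat_lit 276))))) (XT.nd (nat_lit 156) (nat_lit 304) (nat_lit 0) (XT.nd (nat_lit 78) (nat_lit 76) (nat_lit 0) (XT.lf (nat_lit 76) (nat_lit 1212906138) (nat_lit 0) (nat_lit 1996729941) (nat_lit 228) (nat_lit 1212906138) (nat_lit 127) (nat_lit 1)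 (nat_lit 126) (nat_lit 1) (nat_lit 129) (nat_lit 1) (nat_lit 357) (nat_lit 388) (nat_lit 275)) (XT.lf (nat_lit 152) (nat_lit 1035971374) (nat_lit 0) (nat_lit 1670876299) (nat_lit 76) (nat_lit 1670876299) (nat_lit 127) (nat_lit 1) (nat_lit 125) (nat_lit 1) (nat_lit 126) (nat_lit 1) (nat_lit 358) (nat_lit 388) (nat_lit 274))) (XT.nd (nat_lit 78) (nat_lit 76) (nat_lit 0) (XT.lf (nat_lit 228) (nat_lit 4013251884) (nat_lit 0) (nat_lit 160236434) (nat_lit 152) (nat_lit 160236434) (nat_lit 125) (nat_lit 1) (nat_lit 122) (nat_lit 1) (nat_lit 124) (nat_lit 1) (nat_lit 359) (nat_lit 388) (nat_lit 273)) (XT.nd (nat_lit 78) (nat_lit 76) (nat_lit 0) (XT.lf (nat_lit 76) (nat_lit 1316599775) (nat_lit 0) (nat_lit 1656360129) (nat_lit 228) (nat_lit 1316599775) (nat_lit 123) (nat_lit 1) (nat_lit 122) (nat_lit 1) (nat_lit 125) (nat_lit 1) (nat_lit 360) (nat_lit 388) (nat_lit 272)) (XT.lf (nat_lit 152) (nat_lit 1277104090)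 (nat_lit 0) (nat_lit 1484551950) (nat_lit 76) (nat_lit 1484551950) (nat_lit 123) (nat_lit 1) (nat_lit 121) (nat_lit 1) (nat_lit 122) (nat_lit 1) (nat_lit 361) (nat_lit 388) (nat_lit 271))))))) (XT.nd (nat_lit 702) (nat_lit 684) (nat_lit 0) (XT.nd (nat_lit 312) (nat_lit 456) (nat_lit 0) (XT.nd (nat_lit 156) (nat_lit 76) (nat_lit 0) (XT.nd (nat_lit 78) (nat_lit 0) (nat_lit 0) (XT.lf (nat_lit 228) (nat_lit 4152093581) (nat_lit 0) (nat_lit 25813440) (nat_lit 152) (nat_lit 25813440) (nat_lit 121) (nat_lit 1) (nat_lit 118) (nat_lit 1) (nat_lit 120) (nat_lit 1) (nat_lit 362) (nat_lit 388) (nat_lit 270)) (XT.lf (nat_lit 76) (nat_lit 1401770566) (nat_lit 0) (nat_lit 1357374364) (nat_lit 228) (nat_lit 1401770566) (nat_lit 119) (nat_lit 1) (nat_lit 118) (nat_lit 1) (nat_lit 121) (nat_lit 1) (nat_lit 363) (nat_lit 388) (nat_lit 269))) (XT.nd (nat_lit 78) (nat_lit 0) (nat_lit 0) (XT.lf (nat_lit 152) (nat_lit 1480959319)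 (nat_lit 0) (nat_lit 1319005180) (nat_lit 76) (nat_lit 1319005180) (nat_lit 119) (nat_lit 1) (nat_lit 117) (nat_lit 1) (nat_lit 118) (nat_lit 1) (nat_lit 364) (nat_lit 388) (nat_lit 268)) (XT.lf (nat_lit 0) (nat_lit 91118171) (nat_lit 0) (nat_lit 3895582165) (nat_lit 152) (nat_lit 91118171) (nat_lit 117) (nat_lit 3) (nat_lit 117) (nat_lit 1) (nat_lit 119) (nat_lit 1) (nat_lit 365) (nat_lit 388) (nat_lit 267)))) (XT.nd (nat_lit 156) (nat_lit 228) (nat_lit 0) (XT.nd (nat_lit 78) (nat_lit 76) (nat_lit 0) (XT.lf (nat_lit 76) (nat_lit 1470686758) (nat_lit 0) (nat_lit 1095057933) (nat_lit 152) (nat_lit 1470686758) (nat_lit 116) (nat_lit 1) (nat_lit 115) (nat_lit 1) (nat_lit 117) (nat_lit 1) (nat_lit 366) (nat_lit 388) (nat_lit 266)) (XT.lf (nat_lit 152) (nat_lit 1651996548) (nat_lit 0) (nat_lit 1171919018) (nat_lit 76) (nat_lit 1171919018) (nat_lit 116) (nat_lit 1) (nat_lit 114) (nat_lit 1) (nat_lit 115)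 (nat_lit 1) (nat_lit 367) (nat_lit 388) (nat_lit 265))) (XT.nd (nat_lit 78) (nat_lit 228) (nat_lit 0) (XT.lf (nat_lit 0) (nat_lit 191908923) (nat_lit 0) (nat_lit 3572125906) (nat_lit 152) (nat_lit 191908923) (nat_lit 114) (nat_lit 3) (nat_lit 114) (nat_lit 1) (nat_lit 116) (nat_lit 1) (nat_lit 368) (nat_lit 388) (nat_lit 264)) (XT.nd (nat_lit 78) (nat_lit 76) (nat_lit 0) (XT.lf (nat_lit 76) (nat_lit 1525357754) (nat_lit 0) (nat_lit 865224781) (nat_lit 152) (nat_lit 1525357754) (nat_lit 113) (nat_lit 1) (nat_lit 112) (nat_lit 1) (nat_lit 114) (nat_lit 1) (nat_lit 369) (nat_lit 388) (nat_lit 263)) (XT.lf (nat_lit 152) (nat_lit 1794169163) (nat_lit 0) (nat_lit 1041234869) (nat_lit 76) (nat_lit 1041234869) (nat_lit 113) (nat_lit 1) (nat_lit 111) (nat_lit 1) (nat_lit 112) (nat_lit 1) (nat_lit 370) (nat_lit 388) (nat_lit 262)))))) (XT.nd (nat_lit 390) (nat_lit 304) (nat_lit 0) (XT.nd (nat_lit 156) (nat_lit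 228) (nat_lit 0) (XT.nd (nat_lit 78) (nat_lit 152) (nat_lit 0) (XT.lf (nat_lit 0) (nat_lit 278228601) (nat_lit 0) (nat_lit 3281507610) (nat_lit 152) (nat_lit 278228601) (nat_lit 111) (nat_lit 3) (nat_lit 111) (nat_lit 1) (nat_lit 113) (nat_lit 1) (nat_lit 371) (nat_lit 388) (nat_lit 261)) (XT.lf (nat_lit 76) (nat_lit 1567563149) (nat_lit 0) (nat_lit 664158479) (nat_lit 152) (nat_lit 1567563149) (nat_lit 110) (nat_lit 1) (nat_lit 109) (nat_lit 1) (nat_lit 111) (nat_lit 1) (nat_lit 372) (nat_lit 388) (nat_lit 260))) (XT.nd (nat_lit 78) (nat_lit 152) (nat_lit 0) (XT.lf (nat_lit 152) (nat_lit 1910981137) (nat_lit 0) (nat_lit 925123695) (nat_lit 76) (nat_lit 925123695) (nat_lit 110) (nat_lit 1) (nat_lit 108) (nat_lit 1) (nat_lit 109) (nat_lit 1) (nat_lit 373) (nat_lit 388) (nat_lit 259)) (XT.nd (nat_lit 78) (nat_lit 152) (nat_lit 0) (XT.lf (nat_lit 0) (nat_lit 351785041) (nat_lit 0) (nat_lit 3020159542)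 (nat_lit 152) (nat_lit 351785041) (nat_lit 108) (nat_lit 3) (nat_lit 108) (nat_lit 1) (nat_lit 110) (nat_lit 1) (nat_lit 374) (nat_lit 388) (nat_lit 258)) (XT.lf (nat_lit 76) (nat_lit 1598878526) (nat_lit 0) (nat_lit 488559767) (nat_lit 152) (nat_lit 1598878526) (nat_lit 107) (nat_lit 1) (nat_lit 106) (nat_lit 1) (nat_lit 108) (nat_lit 1) (nat_lit 375) (nat_lit 388) (nat_lit 257))))) (XT.nd (nat_lit 156) (nat_lit 228) (nat_lit 0) (XT.nd (nat_lit 78) (nat_lit 0) (nat_lit 0) (XT.lf (nat_lit 152) (nat_lit 2005537400) (nat_lit 0) (nat_lit 821960420) (nat_lit 76) (nat_lit 821960420) (nat_lit 107) (nat_lit 1) (nat_lit 105) (nat_lit 1) (nat_lit 106) (nat_lit 1) (nat_lit 376) (nat_lit 388) (nat_lit 256)) (XT.lf (nat_lit 0) (nat_lit 414092892) (nat_lit 0) (nat_lit 2784909075) (nat_lit 152) (nat_lit 414092892) (nat_lit 105) (nat_lit 3) (nat_lit 105) (nat_lit 1) (nat_lit 107) (nat_lit 1) (nat_lit 377) (nat_lit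 388) (nat_lit 255))) (XT.nd (nat_lit 78) (nat_lit 76) (nat_lit 0) (XT.lf (nat_lit 76) (nat_lit 1620698369) (nat_lit 0) (nat_lit 335499957) (nat_lit 152) (nat_lit 1620698369) (nat_lit 104) (nat_lit 1) (nat_lit 103) (nat_lit 1) (nat_lit 105) (nat_lit 1) (nat_lit 378) (nat_lit 388) (nat_lit 254)) (XT.nd (nat_lit 78) (nat_lit 0) (nat_lit 0) (XT.lf (nat_lit 152) (nat_lit 2080588578) (nat_lit 0) (nat_lit 730301187) (nat_lit 76) (nat_lit 730301187) (nat_lit 104) (nat_lit 1) (nat_lit 102) (nat_lit 1) (nat_lit 103) (nat_lit 1) (nat_lit 379) (nat_lit 388) (nat_lit 253)) (XT.lf (nat_lit 0) (nat_lit 466495239) (nat_lit 0) (nat_lit 2572934710) (nat_lit 152) (nat_lit 466495239) (nat_lit 102) (nat_lit 3) (nat_lit 102) (nat_lit 1) (nat_lit 104) (nat_lit 1) (nat_lit 380) (nat_lit 388) (nat_lit 252))))))))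
noncomputable def ec243 : XT := (XT.nd (nat_lit 1482) (nat_lit 1520) (nat_lit 0) (XT.nd (nat_lit 702) (nat_lit 760) (nat_lit 0) (XT.nd (nat_lit 312) (nat_lit 304) (nat_lit 0) (XT.nd (nat_lit 156) (nat_lit 152) (nat_lit 0) (XT.nd (nat_lit 78) (nat_lit 76) (nat_lit 0) (XT.lf (nat_lit 76) (nat_lit 1634256409) (nat_lit 0) (nat_lit 202379534) (nat_lit 152) (nat_lit 1634256409) (nat_lit 101) (nat_lit 1) (nat_lit 100) (nat_lit 1) (nat_lit 102) (nat_lit 1) (nat_lit 381) (nat_lit 388) (nat_lit 251)) (XT.lf (nat_lit 152) (nat_lit 2138570736) (nat_lit 0) (nat_lit 648863146) (nat_lit 76) (nat_lit 648863146) (nat_lit 101) (nat_lit 1) (nat_lit 99) (nat_lit 1) (nat_lit 100) (nat_lit 1) (nat_lit 382) (nat_lit 388) (nat_lit 250))) (XT.nd (nat_lit 78) (nat_lit 152) (nat_lit 0) (XT.lf (nat_lit 0) (nat_lit 510182810) (nat_lit 0) (nat_lit 2381726997) (nat_lit 152) (nat_lit 510182810) (nat_lit 99) (nat_lit 3) (nat_lit 99)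 (nat_lit 1) (nat_lit 101) (nat_lit 1) (nat_lit 383) (nat_lit 388) (nat_lit 249)) (XT.lf (nat_lit 76) (nat_lit 1640643711) (nat_lit 0) (nat_lit 86891369) (nat_lit 152) (nat_lit 1640643711) (nat_lit 98) (nat_lit 1) (nat_lit 97) (nat_lit 1) (nat_lit 99) (nat_lit 1) (nat_lit 384) (nat_lit 388) (nat_lit 248)))) (XT.nd (nat_lit 156) (nat_lit 228) (nat_lit 0) (XT.nd (nat_lit 78) (nat_lit 0) (nat_lit 0) (XT.lf (nat_lit 152) (nat_lit 2181640684) (nat_lit 0) (nat_lit 576506501) (nat_lit 76) (nat_lit 576506501) (nat_lit 98) (nat_lit 1) (nat_lit 96) (nat_lit 1) (nat_lit 97) (nat_lit 1) (nat_lit 385) (nat_lit 388) (nat_lit 247)) (XT.lf (nat_lit 0) (nat_lit 546211044) (nat_lit 0) (nat_lit 2209053814) (nat_lit 152) (nat_lit 546211044) (nat_lit 96) (nat_lit 3) (nat_lit 96) (nat_lit 1) (nat_lit 98) (nat_lit 1) (nat_lit 386) (nat_lit 388) (nat_lit 246))) (XT.nd (nat_lit 78) (nat_lit 152) (nat_lit 0) (XT.lf (nat_lit 76)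 (nat_lit 13270918) (nat_lit 0) (nat_lit 1627681374) (nat_lit 76) (nat_lit 1627681374) (nat_lit 96) (nat_lit 3) (nat_lit 95) (nat_lit 1) (nat_lit 96) (nat_lit 1) (nat_lit 387) (nat_lit 388) (nat_lit 245)) (XT.nd (nat_lit 78) (nat_lit 0) (nat_lit 0) (XT.lf (nat_lit 152) (nat_lit 2211707339) (nat_lit 0) (nat_lit 512218559) (nat_lit 76) (nat_lit 512218559) (nat_lit 95) (nat_lit 1) (nat_lit 93) (nat_lit 1) (nat_lit 94) (nat_lit 1) (nat_lit 388) (nat_lit 388) (nat_lit 244)) (XT.lf (nat_lit 0) (nat_lit 575515250) (nat_lit 0) (nat_lit 2052929514) (nat_lit 152) (nat_lit 575515250) (nat_lit 93) (nat_lit 3) (nat_lit 93) (nat_lit 1) (nat_lit 95) (nat_lit 1) (nat_lit 389) (nat_lit 388) (nat_lit 243)))))) (XT.nd (nat_lit 390) (nat_lit 304) (nat_lit 0) (XT.nd (nat_lit 156) (nat_lit 228) (nat_lit 0) (XT.nd (nat_lit 78) (nat_lit 152) (nat_lit 0) (XT.lf (nat_lit 76) (nat_lit 101120401) (nat_lit 0) (nat_lit 1535503181)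 (nat_lit 76) (nat_lit 1535503181) (nat_lit 93) (nat_lit 3) (nat_lit 92) (nat_lit 1) (nat_lit 93) (nat_lit 1) (nat_lit 390) (nat_lit 388) (nat_lit 242)) (XT.lf (nat_lit 152) (nat_lit 2230459585) (nat_lit 0) (nat_lit 455099555) (nat_lit 76) (nat_lit 455099555) (nat_lit 92) (nat_lit 1) (nat_lit 90) (nat_lit 1) (nat_lit 91) (nat_lit 1) (nat_lit 391) (nat_lit 388) (nat_lit 241))) (XT.nd (nat_lit 78) (nat_lit 228) (nat_lit 0) (XT.lf (nat_lit 0) (nat_lit 598924070) (nat_lit 0) (nat_lit 1911587508) (nat_lit 152) (nat_lit 598924070) (nat_lit 90) (nat_lit 3) (nat_lit 90) (nat_lit 1) (nat_lit 92) (nat_lit 1) (nat_lit 392) (nat_lit 388) (nat_lit 240)) (XT.nd (nat_lit 78) (nat_lit 152) (nat_lit 0) (XT.lf (nat_lit 76) (nat_lit 176571702) (nat_lit 0) (nat_lit 1451002225) (nat_lit 76) (nat_lit 1451002225) (nat_lit 90) (nat_lit 3) (nat_lit 89) (nat_lit 1) (nat_lit 90) (nat_lit 1) (nat_lit 393) (nat_lit 388) (nat_lit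 239)) (XT.lf (nat_lit 152) (nat_lit 2239391016) (nat_lit 0) (nat_lit 404350060) (nat_lit 76) (nat_lit 404350060) (nat_lit 89) (nat_lit 1) (nat_lit 87) (nat_lit 1) (nat_lit 88) (nat_lit 1) (nat_lit 394) (nat_lit 388) (nat_lit 238))))) (XT.nd (nat_lit 156) (nat_lit 228) (nat_lit 0) (XT.nd (nat_lit 78) (nat_lit 76) (nat_lit 0) (XT.lf (nat_lit 0) (nat_lit 617171448) (nat_lit 0) (nat_lit 1783455911) (nat_lit 152) (nat_lit 617171448) (nat_lit 87) (nat_lit 3) (nat_lit 87) (nat_lit 1) (nat_lit 89) (nat_lit 1) (nat_lit 395) (nat_lit 388) (nat_lit 237)) (XT.lf (nat_lit 76) (nat_lit 241083162) (nat_lit 0) (nat_lit 1373398174) (nat_lit 76) (nat_lit 1373398174) (nat_lit 87) (nat_lit 3) (nat_lit 86) (nat_lit 1) (nat_lit 87) (nat_lit 1) (nat_lit 396) (nat_lit 388) (nat_lit 236))) (XT.nd (nat_lit 78) (nat_lit 76) (nat_lit 0) (XT.lf (nat_lit 152) (nat_lit 2239821916) (nat_lit 0) (nat_lit 359259792) (nat_lit 76) (nat_lit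 359259792) (nat_lit 86) (nat_lit 1) (nat_lit 84) (nat_lit 1) (nat_lit 85) (nat_lit 1) (nat_lit 397) (nat_lit 388) (nat_lit 235)) (XT.nd (nat_lit 78) (nat_lit 76) (nat_lit 0) (XT.lf (nat_lit 0) (nat_lit 630907255) (nat_lit 0) (nat_lit 1667135894) (nat_lit 152) (nat_lit 630907255) (nat_lit 84) (nat_lit 3) (nat_lit 84) (nat_lit 1) (nat_lit 86) (nat_lit 1) (nat_lit 398) (nat_lit 388) (nat_lit 234)) (XT.lf (nat_lit 76) (nat_lit 295948288) (nat_lit 0) (nat_lit 1301995510) (nat_lit 76) (nat_lit 1301995510) (nat_lit 84) (nat_lit 3) (nat_lit 83) (nat_lit 1) (nat_lit 84) (nat_lit 1) (nat_lit 399) (nat_lit 388) (nat_lit 233))))))) (XT.nd (nat_lit 702) (nat_lit 836) (nat_lit 0) (XT.nd (nat_lit 312) (nat_lit 304) (nat_lit 0) (XT.nd (nat_lit 156) (nat_lit 228) (nat_lit 0) (XT.nd (nat_lit 78) (nat_lit 0) (nat_lit 0) (XT.lf (nat_lit 152) (nat_lit 2232918785) (nat_lit 0) (nat_lit 319197672) (nat_lit 76) (nat_lit 319197672)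 (nat_lit 83) (nat_lit 1) (nat_lit 81) (nat_lit 1) (nat_lit 82) (nat_lit 1) (nat_lit 400) (nat_lit 388) (nat_lit 232)) (XT.lf (nat_lit 0) (nat_lit 640706727) (nat_lit 0) (nat_lit 1561382452) (nat_lit 152) (nat_lit 640706727) (nat_lit 81) (nat_lit 3) (nat_lit 81) (nat_lit 1) (nat_lit 83) (nat_lit 1) (nat_lit 401) (nat_lit 388) (nat_lit 231))) (XT.nd (nat_lit 78) (nat_lit 152) (nat_lit 0) (XT.lf (nat_lit 76) (nat_lit 342314202) (nat_lit 0) (nat_lit 1236174129) (nat_lit 76) (nat_lit 1236174129) (nat_lit 81) (nat_lit 3) (nat_lit 80) (nat_lit 1) (nat_lit 81) (nat_lit 1) (nat_lit 402) (nat_lit 388) (nat_lit 230)) (XT.lf (nat_lit 152) (nat_lit 2219711675) (nat_lit 0) (nat_lit 283602997) (nat_lit 76) (nat_lit 283602997) (nat_lit 80) (nat_lit 1) (nat_lit 78) (nat_lit 1) (nat_lit 79) (nat_lit 1) (nat_lit 403) (nat_lit 388) (nat_lit 229)))) (XT.nd (nat_lit 156) (nat_lit 228) (nat_lit 0) (XT.nd (nat_lit 78) (nat_lit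 76) (nat_lit 0) (XT.lf (nat_lit 0) (nat_lit 647078855) (nat_lit 0) (nat_lit 1465087312) (nat_lit 152) (nat_lit 647078855) (nat_lit 78) (nat_lit 3) (nat_lit 78) (nat_lit 1) (nat_lit 80) (nat_lit 1) (nat_lit 404) (nat_lit 388) (nat_lit 228)) (XT.lf (nat_lit 76) (nat_lit 381198027) (nat_lit 0) (nat_lit 1175380995) (nat_lit 76) (nat_lit 1175380995) (nat_lit 78) (nat_lit 3) (nat_lit 77) (nat_lit 1) (nat_lit 78) (nat_lit 1) (nat_lit 405) (nat_lit 388) (nat_lit 227))) (XT.nd (nat_lit 78) (nat_lit 76) (nat_lit 0) (XT.lf (nat_lit 152) (nat_lit 2201109593) (nat_lit 0) (nat_lit 251977589) (nat_lit 76) (nat_lit 251977589) (nat_lit 77) (nat_lit 1) (nat_lit 75) (nat_lit 1) (nat_lit 76) (nat_lit 1) (nat_lit 406) (nat_lit 388) (nat_lit 226)) (XT.nd (nat_lit 78) (nat_lit 76) (nat_lit 0) (XT.lf (nat_lit 0) (nat_lit 650473828) (nat_lit 0) (nat_lit 1377263747) (nat_lit 152) (nat_lit 650473828) (nat_lit 75) (nat_lit 3)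 (nat_lit 75) (nat_lit 1) (nat_lit 77) (nat_lit 1) (nat_lit 407) (nat_lit 388) (nat_lit 225)) (XT.lf (nat_lit 76) (nat_lit 413501444) (nat_lit 0) (nat_lit 1119122725) (nat_lit 76) (nat_lit 1119122725) (nat_lit 75) (nat_lit 3) (nat_lit 74) (nat_lit 1) (nat_lit 75) (nat_lit 1) (nat_lit 408) (nat_lit 388) (nat_lit 224)))))) (XT.nd (nat_lit 390) (nat_lit 456) (nat_lit 0) (XT.nd (nat_lit 156) (nat_lit 228) (nat_lit 0) (XT.nd (nat_lit 78) (nat_lit 0) (nat_lit 0) (XT.lf (nat_lit 152) (nat_lit 2177914179) (nat_lit 0) (nat_lit 223878824) (nat_lit 76) (nat_lit 223878824) (nat_lit 74) (nat_lit 1) (nat_lit 72) (nat_lit 1) (nat_lit 73) (nat_lit 1) (nat_lit 409) (nat_lit 388) (nat_lit 223)) (XT.lf (nat_lit 0) (nat_lit 651289656) (nat_lit 0) (nat_lit 1297033085) (nat_lit 152) (nat_lit 651289656) (nat_lit 72) (nat_lit 3) (nat_lit 72) (nat_lit 1) (nat_lit 74) (nat_lit 1) (nat_lit 410) (nat_lit 388) (nat_lit 222))) (XT.nd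 (nat_lit 78) (nat_lit 152) (nat_lit 0) (XT.lf (nat_lit 76) (nat_lit 440023623) (nat_lit 0) (nat_lit 1066958992) (nat_lit 76) (nat_lit 1066958992) (nat_lit 72) (nat_lit 3) (nat_lit 71) (nat_lit 1) (nat_lit 72) (nat_lit 1) (nat_lit 411) (nat_lit 388) (nat_lit 221)) (XT.nd (nat_lit 78) (nat_lit 0) (nat_lit 0) (XT.lf (nat_lit 152) (nat_lit 2150831856) (nat_lit 0) (nat_lit 198913436) (nat_lit 76) (nat_lit 198913436) (nat_lit 71) (nat_lit 1) (nat_lit 69) (nat_lit 1) (nat_lit 70) (nat_lit 1) (nat_lit 412) (nat_lit 388) (nat_lit 220)) (XT.lf (nat_lit 0) (nat_lit 649878039) (nat_lit 0) (nat_lit 1223612713) (nat_lit 152) (nat_lit 649878039) (nat_lit 69) (nat_lit 3) (nat_lit 69) (nat_lit 1) (nat_lit 71) (nat_lit 1) (nat_lit 413) (nat_lit 388) (nat_lit 219))))) (XT.nd (nat_lit 156) (nat_lit 228) (nat_lit 0) (XT.nd (nat_lit 78) (nat_lit 152) (nat_lit 0) (XT.lf (nat_lit 76) (nat_lit 461472714) (nat_lit 0) (nat_lit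 1018496668) (nat_lit 76) (nat_lit 1018496668) (nat_lit 69) (nat_lit 3) (nat_lit 68) (nat_lit 1) (nat_lit 69) (nat_lit 1) (nat_lit 414) (nat_lit 388) (nat_lit 218)) (XT.lf (nat_lit 152) (nat_lit 2120484611) (nat_lit 0) (nat_lit 176732011) (nat_lit 76) (nat_lit 176732011) (nat_lit 68) (nat_lit 1) (nat_lit 66) (nat_lit 1) (nat_lit 67) (nat_lit 1) (nat_lit 415) (nat_lit 388) (nat_lit 217))) (XT.nd (nat_lit 78) (nat_lit 228) (nat_lit 0) (XT.lf (nat_lit 0) (nat_lit 646549595) (nat_lit 0) (nat_lit 1156305421) (nat_lit 152) (nat_lit 646549595) (nat_lit 66) (nat_lit 3) (nat_lit 66) (nat_lit 1) (nat_lit 68) (nat_lit 1) (nat_lit 416) (nat_lit 388) (nat_lit 216)) (XT.nd (nat_lit 78) (nat_lit 152) (nat_lit 0) (XT.lf (nat_lit 76) (nat_lit 478476047) (nat_lit 0) (nat_lit 973384616) (nat_lit 76) (nat_lit 973384616) (nat_lit 66) (nat_lit 3) (nat_lit 65) (nat_lit 1) (nat_lit 66) (nat_lit 1) (nat_lit 417) (nat_lit 388)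 (nat_lit 215)) (XT.lf (nat_lit 152) (nat_lit 2087419582) (nat_lit 0) (nat_lit 157024103) (nat_lit 76) (nat_lit 157024103) (nat_lit 65) (nat_lit 1) (nat_lit 63) (nat_lit 1) (nat_lit 64) (nat_lit 1) (nat_lit 418) (nat_lit 388) (nat_lit 214))))))))
noncomputable def ec244 : XT := (XT.nd (nat_lit 39780) (nat_lit 0) (nat_lit 21204) (XT.nd (nat_lit 702) (nat_lit 228) (nat_lit 0) (XT.nd (nat_lit 312) (nat_lit 456) (nat_lit 0) (XT.nd (nat_lit 156) (nat_lit 152) (nat_lit 0) (XT.nd (nat_lit 78) (nat_lit 76) (nat_lit 0) (XT.lf (nat_lit 0) (nat_lit 641578489) (nat_lit 0) (nat_lit 1094489938) (nat_lit 152) (nat_lit 641578489) (nat_lit 63) (nat_lit 3) (nat_lit 63) (nat_lit 1) (nat_lit 65) (nat_lit 1) (nat_lit 419) (nat_lit 388) (nat_lit 213)) (XT.lf (nat_lit 76) (nat_lit 491589205) (nat_lit 0) (nat_lit 931309059) (nat_lit 76) (nat_lit 931309059) (nat_lit 63) (nat_lit 3) (nat_lit 62) (nat_lit 1) (nat_lit 63) (nat_lit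 1) (nat_lit 420) (nat_lit 388) (nat_lit 212))) (XT.nd (nat_lit 78) (nat_lit 0) (nat_lit 0) (XT.lf (nat_lit 152) (nat_lit 2052117564) (nat_lit 0) (nat_lit 139513882) (nat_lit 76) (nat_lit 139513882) (nat_lit 62) (nat_lit 1) (nat_lit 60) (nat_lit 1) (nat_lit 61) (nat_lit 1) (nat_lit 421) (nat_lit 388) (nat_lit 211)) (XT.lf (nat_lit 0) (nat_lit 635206554) (nat_lit 0) (nat_lit 1037612511) (nat_lit 152) (nat_lit 635206554) (nat_lit 60) (nat_lit 3) (nat_lit 60) (nat_lit 1) (nat_lit 62) (nat_lit 1) (nat_lit 422) (nat_lit 388) (nat_lit 210)))) (XT.nd (nat_lit 156) (nat_lit 228) (nat_lit 0) (XT.nd (nat_lit 78) (nat_lit 152) (nat_lit 0) (XT.lf (nat_lit 76) (nat_lit 501304074) (nat_lit 0) (nat_lit 891989468) (nat_lit 76) (nat_lit 891989468) (nat_lit 60) (nat_lit 3) (nat_lit 59) (nat_lit 1) (nat_lit 60) (nat_lit 1) (nat_lit 423) (nat_lit 388) (nat_lit 209)) (XT.lf (nat_lit 152) (nat_lit 2015000558) (nat_lit 0)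 (nat_lit 123956277) (nat_lit 76) (nat_lit 123956277) (nat_lit 59) (nat_lit 1) (nat_lit 57) (nat_lit 1) (nat_lit 58) (nat_lit 1) (nat_lit 424) (nat_lit 388) (nat_lit 208))) (XT.nd (nat_lit 78) (nat_lit 228) (nat_lit 0) (XT.lf (nat_lit 0) (nat_lit 627646948) (nat_lit 0) (nat_lit 985179429) (nat_lit 152) (nat_lit 627646948) (nat_lit 57) (nat_lit 3) (nat_lit 57) (nat_lit 1) (nat_lit 59) (nat_lit 1) (nat_lit 425) (nat_lit 388) (nat_lit 207)) (XT.nd (nat_lit 78) (nat_lit 152) (nat_lit 0) (XT.lf (nat_lit 76) (nat_lit 508055994) (nat_lit 0) (nat_lit 855174907) (nat_lit 76) (nat_lit 855174907) (nat_lit 57) (nat_lit 3) (nat_lit 56) (nat_lit 1) (nat_lit 57) (nat_lit 1) (nat_lit 426) (nat_lit 388) (nat_lit 206)) (XT.lf (nat_lit 152) (nat_lit 1976438481) (nat_lit 0) (nat_lit 110133546) (nat_lit 76) (nat_lit 110133546) (nat_lit 56) (nat_lit 1) (nat_lit 54) (nat_lit 1) (nat_lit 55) (nat_lit 1) (nat_lit 427) (nat_lit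 388) (nat_lit 205)))))) (XT.nd (nat_lit 38688) (nat_lit 0) (nat_lit 24548) (XT.nd (nat_lit 156) (nat_lit 152) (nat_lit 0) (XT.nd (nat_lit 78) (nat_lit 76) (nat_lit 0) (XT.lf (nat_lit 0) (nat_lit 619087400) (nat_lit 0) (nat_lit 936750378) (nat_lit 152) (nat_lit 619087400) (nat_lit 54) (nat_lit 3) (nat_lit 54) (nat_lit 1) (nat_lit 56) (nat_lit 1) (nat_lit 428) (nat_lit 388) (nat_lit 204)) (XT.lf (nat_lit 76) (nat_lit 512230119) (nat_lit 0) (nat_lit 820640777) (nat_lit 76) (nat_lit 820640777) (nat_lit 54) (nat_lit 3) (nat_lit 53) (nat_lit 1) (nat_lit 54) (nat_lit 1) (nat_lit 429) (nat_lit 388) (nat_lit 203))) (XT.nd (nat_lit 38454) (nat_lit 0) (nat_lit 24548) (XT.lf (nat_lit 152) (nat_lit 1936755121) (nat_lit 0) (nat_lit 97852229) (nat_lit 76) (nat_lit 97852229) (nat_lit 53) (nat_lit 1) (nat_lit 51) (nat_lit 1) (nat_lit 52) (nat_lit 1) (nat_lit 430) (nat_lit 388) (nat_lit 202)) (XT.lf (nat_lit 1292) (nat_lit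 1587408450) (nat_lit 0) (nat_lit 5461423324) (nat_lit 1292) (nat_lit 1587408450) (nat_lit 391) (nat_lit 1) (nat_lit 374) (nat_lit 0) (nat_lit 391) (nat_lit 0) (nat_lit 242) (nat_lit 389) (nat_lit 389)))) (XT.nd (nat_lit 156) (nat_lit 0) (nat_lit 76) (XT.nd (nat_lit 78) (nat_lit 0) (nat_lit 76) (XT.lf (nat_lit 1292) (nat_lit 6203620040) (nat_lit 76) (nat_lit 5407879958) (nat_lit 0) (nat_lit 5407879958) (nat_lit 391) (nat_lit 1) (nat_lit 375) (nat_lit 1) (nat_lit 374) (nat_lit 0) (nat_lit 243) (nat_lit 389) (nat_lit 388)) (XT.lf (nat_lit 1292) (nat_lit 3000218563) (nat_lit 0) (nat_lit 10771425206) (nat_lit 1216) (nat_lit 3000218563) (nat_lit 392) (nat_lit 1) (nat_lit 375) (nat_lit 1) (nat_lit 391) (nat_lit 1) (nat_lit 244) (nat_lit 389) (nat_lit 387))) (XT.nd (nat_lit 78) (nat_lit 0) (nat_lit 76) (XT.lf (nat_lit 1292) (nat_lit 5697569954) (nat_lit 76) (nat_lit 5415454107) (nat_lit 0) (nat_lit 5415454107)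 (nat_lit 392) (nat_lit 1) (nat_lit 376) (nat_lit 1) (nat_lit 375) (nat_lit 1) (nat_lit 245) (nat_lit 389) (nat_lit 386)) (XT.nd (nat_lit 78) (nat_lit 0) (nat_lit 0) (XT.lf (nat_lit 1292) (nat_lit 2673556286) (nat_lit 0) (nat_lit 10943427235) (nat_lit 1216) (nat_lit 2673556286) (nat_lit 393) (nat_lit 1) (nat_lit 376) (nat_lit 1) (nat_lit 392) (nat_lit 1) (nat_lit 246) (nat_lit 389) (nat_lit 385)) (XT.lf (nat_lit 1292) (nat_lit 4899574183) (nat_lit 76) (nat_lit 5578416298) (nat_lit 0) (nat_lit 5578416298) (nat_lit 393) (nat_lit 1) (nat_lit 377) (nat_lit 1) (nat_lit 376) (nat_lit 1) (nat_lit 247) (nat_lit 389) (nat_lit 384))))))) (XT.nd (nat_lit 702) (nat_lit 2508) (nat_lit 0) (XT.nd (nat_lit 312) (nat_lit 1064) (nat_lit 0) (XT.nd (nat_lit 156) (nat_lit 0) (nat_lit 76) (XT.nd (nat_lit 78) (nat_lit 0) (nat_lit 0) (XT.lf (nat_lit 1292) (nat_lit 2208280129) (nat_lit 0) (nat_lit 11411119973) (nat_lit 1216)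 (nat_lit 2208280129) (nat_lit 394) (nat_lit 1) (nat_lit 377) (nat_lit 1) (nat_lit 393) (nat_lit 1) (nat_lit 248) (nat_lit 389) (nat_lit 383)) (XT.lf (nat_lit 1292) (nat_lit 3835740975) (nat_lit 76) (nat_lit 5883308094) (nat_lit 0) (nat_lit 5883308094) (nat_lit 394) (nat_lit 1) (nat_lit 378) (nat_lit 1) (nat_lit 377) (nat_lit 1) (nat_lit 249) (nat_lit 389) (nat_lit 382))) (XT.nd (nat_lit 78) (nat_lit 0) (nat_lit 0) (XT.lf (nat_lit 1292) (nat_lit 1616930562) (nat_lit 0) (nat_lit 12148629634) (nat_lit 1216) (nat_lit 1616930562) (nat_lit 395) (nat_lit 1) (nat_lit 378) (nat_lit 1) (nat_lit 394) (nat_lit 1) (nat_lit 250) (nat_lit 389) (nat_lit 381)) (XT.lf (nat_lit 1292) (nat_lit 2530407543) (nat_lit 76) (nat_lit 6317575815) (nat_lit 0) (nat_lit 6317575815) (nat_lit 395) (nat_lit 1) (nat_lit 379) (nat_lit 1) (nat_lit 378) (nat_lit 1) (nat_lit 251) (nat_lit 389) (nat_lit 380)))) (XT.nd (nat_lit 156) (nat_lit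 1216) (nat_lit 0) (XT.nd (nat_lit 78) (nat_lit 0) (nat_lit 0) (XT.lf (nat_lit 1292) (nat_lit 911194680) (nat_lit 0) (nat_lit 13131826910) (nat_lit 1216) (nat_lit 911194680) (nat_lit 396) (nat_lit 1) (nat_lit 379) (nat_lit 1) (nat_lit 395) (nat_lit 1) (nat_lit 252) (nat_lit 389) (nat_lit 379)) (XT.lf (nat_lit 1292) (nat_lit 1006249667) (nat_lit 76) (nat_lit 6869514756) (nat_lit 0) (nat_lit 6869514756) (nat_lit 396) (nat_lit 1) (nat_lit 380) (nat_lit 1) (nat_lit 379) (nat_lit 1) (nat_lit 253) (nat_lit 389) (nat_lit 378))) (XT.nd (nat_lit 78) (nat_lit 1292) (nat_lit 0) (XT.lf (nat_lit 1292) (nat_lit 101959081) (nat_lit 0) (nat_lit 14338219289) (nat_lit 1216) (nat_lit 101959081) (nat_lit 397) (nat_lit 1) (nat_lit 380) (nat_lit 1) (nat_lit 396) (nat_lit 1) (nat_lit 254) (nat_lit 389) (nat_lit 377)) (XT.nd (nat_lit 78) (nat_lit 0) (nat_lit 0) (XT.lf (nat_lit 1368) (nat_lit 6819480403) (nat_lit 0) (nat_lit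 701651007) (nat_lit 1292) (nat_lit 6819480403) (nat_lit 381) (nat_lit 1) (nat_lit 363) (nat_lit 1) (nat_lit 380) (nat_lit 1) (nat_lit 255) (nat_lit 389) (nat_lit 376)) (XT.lf (nat_lit 1368) (nat_lit 12559058751) (nat_lit 76) (nat_lit 792790991) (nat_lit 0) (nat_lit 792790991) (nat_lit 381) (nat_lit 1) (nat_lit 364) (nat_lit 1) (nat_lit 363) (nat_lit 1) (nat_lit 256) (nat_lit 389) (nat_lit 375)))))) (XT.nd (nat_lit 390) (nat_lit 1824) (nat_lit 0) (XT.nd (nat_lit 156) (nat_lit 760) (nat_lit 0) (XT.nd (nat_lit 78) (nat_lit 0) (nat_lit 0) (XT.lf (nat_lit 1368) (nat_lit 5693131518) (nat_lit 0) (nat_lit 2564492751) (nat_lit 1292) (nat_lit 5693131518) (nat_lit 382) (nat_lit 1) (nat_lit 364) (nat_lit 1) (nat_lit 381) (nat_lit 1) (nat_lit 257) (nat_lit 389) (nat_lit 374)) (XT.lf (nat_lit 1368) (nat_lit 10222484335) (nat_lit 76) (nat_lit 1769650674) (nat_lit 0) (nat_lit 1769650674) (nat_lit 382) (nat_lit 1) (nat_lit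 365) (nat_lit 1) (nat_lit 364) (nat_lit 1) (nat_lit 258) (nat_lit 389) (nat_lit 373))) (XT.nd (nat_lit 78) (nat_lit 836) (nat_lit 0) (XT.lf (nat_lit 76) (nat_lit 4495694692) (nat_lit 0) (nat_lit 4583982235) (nat_lit 1292) (nat_lit 4495694692) (nat_lit 366) (nat_lit 1) (nat_lit 365) (nat_lit 1) (nat_lit 382) (nat_lit 1) (nat_lit 259) (nat_lit 389) (nat_lit 372)) (XT.nd (nat_lit 78) (nat_lit 0) (nat_lit 0) (XT.lf (nat_lit 912) (nat_lit 7751210566) (nat_lit 0) (nat_lit 2820933781) (nat_lit 836) (nat_lit 2820933781) (nat_lit 366) (nat_lit 1) (nat_lit 354) (nat_lit 1) (nat_lit 365) (nat_lit 1) (nat_lit 260) (nat_lit 389) (nat_lit 371)) (XT.lf (nat_lit 76) (nat_lit 3235204400) (nat_lit 0) (nat_lit 6743450076) (nat_lit 912) (nat_lit 3235204400) (nat_lit 355) (nat_lit 1) (nat_lit 354) (nat_lit 1) (nat_lit 366) (nat_lit 1) (nat_lit 261) (nat_lit 389) (nat_lit 370))))) (XT.nd (nat_lit 156) (nat_lit 1216) (nat_lit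 0) (XT.nd (nat_lit 78) (nat_lit 0) (nat_lit 0) (XT.lf (nat_lit 684) (nat_lit 5160799687) (nat_lit 0) (nat_lit 3938567158) (nat_lit 608) (nat_lit 3938567158) (nat_lit 355) (nat_lit 1) (nat_lit 346) (nat_lit 1) (nat_lit 354) (nat_lit 1) (nat_lit 262) (nat_lit 389) (nat_lit 369)) (XT.lf (nat_lit 76) (nat_lit 1919118750) (nat_lit 0) (nat_lit 9027407392) (nat_lit 684) (nat_lit 1919118750) (nat_lit 347) (nat_lit 1) (nat_lit 346) (nat_lit 1) (nat_lit 355) (nat_lit 1) (nat_lit 263) (nat_lit 389) (nat_lit 368))) (XT.nd (nat_lit 78) (nat_lit 608) (nat_lit 0) (XT.lf (nat_lit 684) (nat_lit 2465692549) (nat_lit 0) (nat_lit 5115051788) (nat_lit 608) (nat_lit 5115051788) (nat_lit 347) (nat_lit 1) (nat_lit 338) (nat_lit 1) (nat_lit 346) (nat_lit 1) (nat_lit 264) (nat_lit 389) (nat_lit 367)) (XT.nd (nat_lit 78) (nat_lit 608) (nat_lit 0) (XT.lf (nat_lit 76) (nat_lit 554355919) (nat_lit 0) (nat_lit 11421471519) (nat_lit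 684) (nat_lit 554355919) (nat_lit 339) (nat_lit 1) (nat_lit 338) (nat_lit 1) (nat_lit 347) (nat_lit 1) (nat_lit 265) (nat_lit 389) (nat_lit 366)) (XT.lf (nat_lit 76) (nat_lit 6025789197) (nat_lit 0) (nat_lit 314461964) (nat_lit 608) (nat_lit 6025789197) (nat_lit 331) (nat_lit 1) (nat_lit 330) (nat_lit 1) (nat_lit 338) (nat_lit 1) (nat_lit 266) (nat_lit 389) (nat_lit 365))))))))
noncomputable def ec245 : XT := (XT.nd (nat_lit 1482) (nat_lit 4104) (nat_lit 0) (XT.nd (nat_lit 702) (nat_lit 2584) (nat_lit 0) (XT.nd (nat_lit 312) (nat_lit 1596) (nat_lit 0) (XT.nd (nat_lit 156) (nat_lit 532) (nat_lit 0) (XT.nd (nat_lit 78) (nat_lit 0) (nat_lit 0) (XT.lf (nat_lit 684) (nat_lit 10517340324) (nat_lit 0) (nat_lit 844312069) (nat_lit 608) (nat_lit 844312069) (nat_lit 331) (nat_lit 1) (nat_lit 322) (nat_lit 1) (nat_lit 330) (nat_lit 1) (nat_lit 267) (nat_lit 389) (nat_lit 364)) (XT.lf (nat_lit 76) (nat_lit 4461828358)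 (nat_lit 0) (nat_lit 3123861281) (nat_lit 684) (nat_lit 4461828358) (nat_lit 323) (nat_lit 1) (nat_lit 322) (nat_lit 1) (nat_lit 331) (nat_lit 1) (nat_lit 268) (nat_lit 389) (nat_lit 363))) (XT.nd (nat_lit 78) (nat_lit 0) (nat_lit 0) (XT.lf (nat_lit 608) (nat_lit 7345764989) (nat_lit 0) (nat_lit 2273514734) (nat_lit 532) (nat_lit 2273514734) (nat_lit 323) (nat_lit 1) (nat_lit 315) (nat_lit 1) (nat_lit 322) (nat_lit 1) (nat_lit 269) (nat_lit 389) (nat_lit 362)) (XT.lf (nat_lit 76) (nat_lit 2870550462) (nat_lit 0) (nat_lit 5999358142) (nat_lit 608) (nat_lit 2870550462) (nat_lit 316) (nat_lit 1) (nat_lit 315) (nat_lit 1) (nat_lit 323) (nat_lit 1) (nat_lit 270) (nat_lit 389) (nat_lit 361)))) (XT.nd (nat_lit 156) (nat_lit 1064) (nat_lit 0) (XT.nd (nat_lit 78) (nat_lit 0) (nat_lit 0) (XT.lf (nat_lit 608) (nat_lit 4124357413) (nat_lit 0) (nat_lit 3733245047) (nat_lit 532) (nat_lit 3733245047) (nat_lit 316)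 (nat_lit 1) (nat_lit 308) (nat_lit 1) (nat_lit 315) (nat_lit 1) (nat_lit 271) (nat_lit 389) (nat_lit 360)) (XT.lf (nat_lit 76) (nat_lit 1256934148) (nat_lit 0) (nat_lit 8930535894) (nat_lit 608) (nat_lit 1256934148) (nat_lit 309) (nat_lit 1) (nat_lit 308) (nat_lit 1) (nat_lit 316) (nat_lit 1) (nat_lit 272) (nat_lit 389) (nat_lit 359))) (XT.nd (nat_lit 78) (nat_lit 608) (nat_lit 0) (XT.lf (nat_lit 532) (nat_lit 862732356) (nat_lit 0) (nat_lit 5218471866) (nat_lit 456) (nat_lit 5218471866) (nat_lit 309) (nat_lit 1) (nat_lit 302) (nat_lit 1) (nat_lit 308) (nat_lit 1) (nat_lit 273) (nat_lit 389) (nat_lit 358)) (XT.nd (nat_lit 78) (nat_lit 0) (nat_lit 0) (XT.lf (nat_lit 608) (nat_lit 10416968044) (nat_lit 0) (nat_lit 370756221) (nat_lit 532) (nat_lit 370756221) (nat_lit 302) (nat_lit 1) (nat_lit 294) (nat_lit 1) (nat_lit 301) (nat_lit 1) (nat_lit 274) (nat_lit 389) (nat_lit 357)) (XT.lf (nat_lit 76) (nat_lit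 4317665272) (nat_lit 0) (nat_lit 2382821259) (nat_lit 608) (nat_lit 4317665272) (nat_lit 295) (nat_lit 1) (nat_lit 294) (nat_lit 1) (nat_lit 302) (nat_lit 1) (nat_lit 275) (nat_lit 389) (nat_lit 356)))))) (XT.nd (nat_lit 390) (nat_lit 1216) (nat_lit 0) (XT.nd (nat_lit 156) (nat_lit 912) (nat_lit 0) (XT.nd (nat_lit 78) (nat_lit 0) (nat_lit 0) (XT.lf (nat_lit 532) (nat_lit 6882224406) (nat_lit 0) (nat_lit 1999502770) (nat_lit 456) (nat_lit 1999502770) (nat_lit 295) (nat_lit 1) (nat_lit 288) (nat_lit 1) (nat_lit 294) (nat_lit 1) (nat_lit 276) (nat_lit 389) (nat_lit 355)) (XT.lf (nat_lit 76) (nat_lit 2556019388) (nat_lit 0) (nat_lit 5634272644) (nat_lit 532) (nat_lit 2556019388) (nat_lit 289) (nat_lit 1) (nat_lit 288) (nat_lit 1) (nat_lit 295) (nat_lit 1) (nat_lit 277) (nat_lit 389) (nat_lit 354))) (XT.nd (nat_lit 78) (nat_lit 456) (nat_lit 0) (XT.lf (nat_lit 532) (nat_lit 3338173984) (nat_lit 0) (nat_lit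 3637769851) (nat_lit 456) (nat_lit 3637769851) (nat_lit 289) (nat_lit 1) (nat_lit 282) (nat_lit 1) (nat_lit 288) (nat_lit 1) (nat_lit 278) (nat_lit 389) (nat_lit 353)) (XT.nd (nat_lit 78) (nat_lit 456) (nat_lit 0) (XT.lf (nat_lit 76) (nat_lit 791461964) (nat_lit 0) (nat_lit 8901091438) (nat_lit 532) (nat_lit 791461964) (nat_lit 283) (nat_lit 1) (nat_lit 282) (nat_lit 1) (nat_lit 289) (nat_lit 1) (nat_lit 279) (nat_lit 389) (nat_lit 352)) (XT.lf (nat_lit 76) (nat_lit 5075546426) (nat_lit 0) (nat_lit 204399980) (nat_lit 456) (nat_lit 5075546426) (nat_lit 277) (nat_lit 1) (nat_lit 276) (nat_lit 1) (nat_lit 282) (nat_lit 1) (nat_lit 280) (nat_lit 389) (nat_lit 351))))) (XT.nd (nat_lit 156) (nat_lit 760) (nat_lit 0) (XT.nd (nat_lit 78) (nat_lit 0) (nat_lit 0) (XT.lf (nat_lit 532) (nat_lit 8303219851) (nat_lit 0) (nat_lit 963272304) (nat_lit 456) (nat_lit 963272304) (nat_lit 277) (nat_lit 1) (nat_lit 270)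 (nat_lit 1) (nat_lit 276) (nat_lit 1) (nat_lit 281) (nat_lit 389) (nat_lit 350)) (XT.lf (nat_lit 76) (nat_lit 3213479148) (nat_lit 0) (nat_lit 3678345315) (nat_lit 532) (nat_lit 3213479148) (nat_lit 271) (nat_lit 1) (nat_lit 270) (nat_lit 1) (nat_lit 277) (nat_lit 1) (nat_lit 282) (nat_lit 389) (nat_lit 349))) (XT.nd (nat_lit 78) (nat_lit 380) (nat_lit 0) (XT.lf (nat_lit 456) (nat_lit 4569282926) (nat_lit 0) (nat_lit 2707067276) (nat_lit 380) (nat_lit 2707067276) (nat_lit 271) (nat_lit 1) (nat_lit 265) (nat_lit 1) (nat_lit 270) (nat_lit 1) (nat_lit 283) (nat_lit 389) (nat_lit 348)) (XT.nd (nat_lit 78) (nat_lit 380) (nat_lit 0) (XT.lf (nat_lit 76) (nat_lit 1360237090) (nat_lit 0) (nat_lit 7143289566) (nat_lit 456) (nat_lit 1360237090) (nat_lit 266) (nat_lit 1) (nat_lit 265) (nat_lit 1) (nat_lit 271) (nat_lit 1) (nat_lit 284) (nat_lit 389) (nat_lit 347)) (XT.lf (nat_lit 456) (nat_lit 855481984) (nat_lit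 0) (nat_lit 4445036658) (nat_lit 380) (nat_lit 4445036658) (nat_lit 266) (nat_lit 1) (nat_lit 260) (nat_lit 1) (nat_lit 265) (nat_lit 1) (nat_lit 285) (nat_lit 389) (nat_lit 346))))))) (XT.nd (nat_lit 702) (nat_lit 2204) (nat_lit 0) (XT.nd (nat_lit 312) (nat_lit 1064) (nat_lit 0) (XT.nd (nat_lit 156) (nat_lit 380) (nat_lit 0) (XT.nd (nat_lit 78) (nat_lit 0) (nat_lit 0) (XT.lf (nat_lit 456) (nat_lit 8675771991) (nat_lit 0) (nat_lit 477106260) (nat_lit 380) (nat_lit 477106260) (nat_lit 260) (nat_lit 1) (nat_lit 254) (nat_lit 1) (nat_lit 259) (nat_lit 1) (nat_lit 286) (nat_lit 389) (nat_lit 345)) (XT.lf (nat_lit 76) (nat_lit 3368325725) (nat_lit 0) (nat_lit 2778386990) (nat_lit 456) (nat_lit 3368325725) (nat_lit 255) (nat_lit 1) (nat_lit 254) (nat_lit 1) (nat_lit 260) (nat_lit 1) (nat_lit 287) (nat_lit 389) (nat_lit 344))) (XT.nd (nat_lit 78) (nat_lit 0) (nat_lit 0) (XT.lf (nat_lit 456) (nat_lit 4826771062)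 (nat_lit 0) (nat_lit 2287937941) (nat_lit 380) (nat_lit 2287937941) (nat_lit 255) (nat_lit 1) (nat_lit 249) (nat_lit 1) (nat_lit 254) (nat_lit 1) (nat_lit 288) (nat_lit 389) (nat_lit 343)) (XT.lf (nat_lit 76) (nat_lit 1462364222) (nat_lit 0) (nat_lit 6367408603) (nat_lit 456) (nat_lit 1462364222) (nat_lit 250) (nat_lit 1) (nat_lit 249) (nat_lit 1) (nat_lit 255) (nat_lit 1) (nat_lit 289) (nat_lit 389) (nat_lit 342)))) (XT.nd (nat_lit 156) (nat_lit 304) (nat_lit 0) (XT.nd (nat_lit 78) (nat_lit 456) (nat_lit 0) (XT.lf (nat_lit 380) (nat_lit 1015659551) (nat_lit 0) (nat_lit 4083684057) (nat_lit 304) (nat_lit 4083684057) (nat_lit 250) (nat_lit 1) (nat_lit 245) (nat_lit 1) (nat_lit 249) (nat_lit 1) (nat_lit 290) (nat_lit 389) (nat_lit 341)) (XT.lf (nat_lit 456) (nat_lit 8236762794) (nat_lit 0) (nat_lit 419774530) (nat_lit 380) (nat_lit 419774530) (nat_lit 245) (nat_lit 1) (nat_lit 239) (nat_lit 1) (nat_lit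 244) (nat_lit 1) (nat_lit 291) (nat_lit 389) (nat_lit 340))) (XT.nd (nat_lit 78) (nat_lit 304) (nat_lit 0) (XT.lf (nat_lit 76) (nat_lit 3134693624) (nat_lit 0) (nat_lit 2700657355) (nat_lit 456) (nat_lit 3134693624) (nat_lit 240) (nat_lit 1) (nat_lit 239) (nat_lit 1) (nat_lit 245) (nat_lit 1) (nat_lit 292) (nat_lit 389) (nat_lit 339)) (XT.nd (nat_lit 78) (nat_lit 0) (nat_lit 0) (XT.lf (nat_lit 380) (nat_lit 4332836869) (nat_lit 0) (nat_lit 2266632234) (nat_lit 304) (nat_lit 2266632234) (nat_lit 240) (nat_lit 1) (nat_lit 235) (nat_lit 1) (nat_lit 239) (nat_lit 1) (nat_lit 293) (nat_lit 389) (nat_lit 338)) (XT.lf (nat_lit 76) (nat_lit 1204895748) (nat_lit 0) (nat_lit 6354144555) (nat_lit 380) (nat_lit 1204895748) (nat_lit 236) (nat_lit 1) (nat_lit 235) (nat_lit 1) (nat_lit 240) (nat_lit 1) (nat_lit 294) (nat_lit 389) (nat_lit 337)))))) (XT.nd (nat_lit 390) (nat_lit 1216) (nat_lit 0) (XT.nd (nat_lit 156)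 (nat_lit 304) (nat_lit 0) (XT.nd (nat_lit 78) (nat_lit 380) (nat_lit 0) (XT.lf (nat_lit 380) (nat_lit 480461618) (nat_lit 0) (nat_lit 4091235200) (nat_lit 304) (nat_lit 4091235200) (nat_lit 236) (nat_lit 1) (nat_lit 231) (nat_lit 1) (nat_lit 235) (nat_lit 1) (nat_lit 295) (nat_lit 389) (nat_lit 336)) (XT.lf (nat_lit 380) (nat_lit 7180190326) (nat_lit 0) (nat_lit 691865462) (nat_lit 304) (nat_lit 691865462) (nat_lit 231) (nat_lit 1) (nat_lit 226) (nat_lit 1) (nat_lit 230) (nat_lit 1) (nat_lit 296) (nat_lit 389) (nat_lit 335))) (XT.nd (nat_lit 78) (nat_lit 304) (nat_lit 0) (XT.lf (nat_lit 76) (nat_lit 2606022321) (nat_lit 0) (nat_lit 3253544517) (nat_lit 380) (nat_lit 2606022321) (nat_lit 227) (nat_lit 1) (nat_lit 226) (nat_lit 1) (nat_lit 231) (nat_lit 1) (nat_lit 297) (nat_lit 389) (nat_lit 334)) (XT.nd (nat_lit 78) (nat_lit 0) (nat_lit 0) (XT.lf (nat_lit 380) (nat_lit 3269326096) (nat_lit 0) (nat_lit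 2549932980) (nat_lit 304) (nat_lit 2549932980) (nat_lit 227) (nat_lit 1) (nat_lit 222) (nat_lit 1) (nat_lit 226) (nat_lit 1) (nat_lit 298) (nat_lit 389) (nat_lit 333)) (XT.lf (nat_lit 76) (nat_lit 675411009) (nat_lit 0) (nat_lit 6923837815) (nat_lit 380) (nat_lit 675411009) (nat_lit 223) (nat_lit 1) (nat_lit 222) (nat_lit 1) (nat_lit 227) (nat_lit 1) (nat_lit 299) (nat_lit 389) (nat_lit 332))))) (XT.nd (nat_lit 156) (nat_lit 608) (nat_lit 0) (XT.nd (nat_lit 78) (nat_lit 304) (nat_lit 0) (XT.lf (nat_lit 76) (nat_lit 3806182181) (nat_lit 0) (nat_lit 568372336) (nat_lit 304) (nat_lit 3806182181) (nat_lit 219) (nat_lit 1) (nat_lit 218) (nat_lit 1) (nat_lit 222) (nat_lit 1) (nat_lit 300) (nat_lit 389) (nat_lit 331)) (XT.lf (nat_lit 380) (nat_lit 5664406485) (nat_lit 0) (nat_lit 1212110091) (nat_lit 304) (nat_lit 1212110091) (nat_lit 219) (nat_lit 1) (nat_lit 214) (nat_lit 1) (nat_lit 218) (nat_lit 1) (nat_lit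 301) (nat_lit 389) (nat_lit 330))) (XT.nd (nat_lit 78) (nat_lit 608) (nat_lit 0) (XT.lf (nat_lit 76) (nat_lit 1858551006) (nat_lit 0) (nat_lit 4280463947) (nat_lit 380) (nat_lit 1858551006) (nat_lit 215) (nat_lit 1) (nat_lit 214) (nat_lit 1) (nat_lit 219) (nat_lit 1) (nat_lit 302) (nat_lit 389) (nat_lit 329)) (XT.nd (nat_lit 78) (nat_lit 380) (nat_lit 0) (XT.lf (nat_lit 304) (nat_lit 1784549812) (nat_lit 0) (nat_lit 3061692700) (nat_lit 228) (nat_lit 3061692700) (nat_lit 215) (nat_lit 1) (nat_lit 211) (nat_lit 1) (nat_lit 214) (nat_lit 1) (nat_lit 303) (nat_lit 389) (nat_lit 328)) (XT.lf (nat_lit 380) (nat_lit 7712026158) (nat_lit 0) (nat_lit 54155441) (nat_lit 304) (nat_lit 54155441) (nat_lit 211) (nat_lit 1) (nat_lit 206) (nat_lit 1) (nat_lit 210) (nat_lit 1) (nat_lit 304) (nat_lit 389) (nat_lit 327))))))))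
noncomputable def ec246 : XT := (XT.nd (nat_lit 1482) (nat_lit 2280) (nat_lit 0) (XT.nd (nat_lit 702) (nat_lit 1292) (nat_lit 0) (XT.nd (nat_lit 312) (nat_lit 760) (nat_lit 0) (XT.nd (nat_lit 156) (nat_lit 304) (nat_lit 0) (XT.nd (nat_lit 78) (nat_lit 228) (nat_lit 0) (XT.lf (nat_lit 76) (nat_lit 2873101479) (nat_lit 0) (nat_lit 1986363695) (nat_lit 380) (nat_lit 2873101479) (nat_lit 207) (nat_lit 1) (nat_lit 206) (nat_lit 1) (nat_lit 211) (nat_lit 1) (nat_lit 305) (nat_lit 389) (nat_lit 326)) (XT.lf (nat_lit 304) (nat_lit 3818162592) (nat_lit 0) (nat_lit 1914311443) (nat_lit 228) (nat_lit 1914311443) (nat_lit 207) (nat_lit 1) (nat_lit 203) (nat_lit 1) (nat_lit 206) (nat_lit 1) (nat_lit 306) (nat_lit 389) (nat_lit 325))) (XT.nd (nat_lit 78) (nat_lit 304) (nat_lit 0) (XT.lf (nat_lit 76) (nat_lit 954237575) (nat_lit 0) (nat_lit 5653926556) (nat_lit 304) (nat_lit 954237575) (nat_lit 204) (nat_lit 1) (nat_lit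 203) (nat_lit 1) (nat_lit 207) (nat_lit 1) (nat_lit 307) (nat_lit 389) (nat_lit 324)) (XT.lf (nat_lit 76) (nat_lit 3738929939) (nat_lit 0) (nat_lit 1001056) (nat_lit 304) (nat_lit 3738929939) (nat_lit 200) (nat_lit 1) (nat_lit 199) (nat_lit 1) (nat_lit 203) (nat_lit 1) (nat_lit 308) (nat_lit 389) (nat_lit 323)))) (XT.nd (nat_lit 156) (nat_lit 532) (nat_lit 0) (XT.nd (nat_lit 78) (nat_lit 0) (nat_lit 0) (XT.lf (nat_lit 304) (nat_lit 5559973638) (nat_lit 0) (nat_lit 918352702) (nat_lit 228) (nat_lit 918352702) (nat_lit 200) (nat_lit 1) (nat_lit 196) (nat_lit 1) (nat_lit 199) (nat_lit 1) (nat_lit 309) (nat_lit 389) (nat_lit 322)) (XT.lf (nat_lit 76) (nat_lit 1821449458) (nat_lit 0) (nat_lit 3672388506) (nat_lit 304) (nat_lit 1821449458) (nat_lit 197) (nat_lit 1) (nat_lit 196) (nat_lit 1) (nat_lit 200) (nat_lit 1) (nat_lit 310) (nat_lit 389) (nat_lit 321))) (XT.nd (nat_lit 78) (nat_lit 304) (nat_lit 0)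 (XT.lf (nat_lit 304) (nat_lit 1745657514) (nat_lit 0) (nat_lit 2744780131) (nat_lit 228) (nat_lit 2744780131) (nat_lit 197) (nat_lit 1) (nat_lit 193) (nat_lit 1) (nat_lit 196) (nat_lit 1) (nat_lit 311) (nat_lit 389) (nat_lit 320)) (XT.nd (nat_lit 78) (nat_lit 0) (nat_lit 0) (XT.lf (nat_lit 304) (nat_lit 7044416630) (nat_lit 0) (nat_lit 56247181) (nat_lit 228) (nat_lit 56247181) (nat_lit 193) (nat_lit 1) (nat_lit 189) (nat_lit 1) (nat_lit 192) (nat_lit 1) (nat_lit 312) (nat_lit 389) (nat_lit 319)) (XT.lf (nat_lit 76) (nat_lit 2563598069) (nat_lit 0) (nat_lit 1951168643) (nat_lit 304) (nat_lit 2563598069) (nat_lit 190) (nat_lit 1) (nat_lit 189) (nat_lit 1) (nat_lit 193) (nat_lit 1) (nat_lit 313) (nat_lit 389) (nat_lit 318)))))) (XT.nd (nat_lit 390) (nat_lit 608) (nat_lit 0) (XT.nd (nat_lit 156) (nat_lit 456) (nat_lit 0) (XT.nd (nat_lit 78) (nat_lit 0) (nat_lit 0) (XT.lf (nat_lit 304) (nat_lit 3246687917)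 (nat_lit 0) (nat_lit 1877430625) (nat_lit 228) (nat_lit 1877430625) (nat_lit 190) (nat_lit 1) (nat_lit 186) (nat_lit 1) (nat_lit 189) (nat_lit 1) (nat_lit 314) (nat_lit 389) (nat_lit 317)) (XT.lf (nat_lit 76) (nat_lit 694403177) (nat_lit 0) (nat_lit 5537228273) (nat_lit 304) (nat_lit 694403177) (nat_lit 187) (nat_lit 1) (nat_lit 186) (nat_lit 1) (nat_lit 190) (nat_lit 1) (nat_lit 315) (nat_lit 389) (nat_lit 316))) (XT.nd (nat_lit 78) (nat_lit 228) (nat_lit 0) (XT.lf (nat_lit 76) (nat_lit 3195455542) (nat_lit 0) (nat_lit 460091972) (nat_lit 228) (nat_lit 3195455542) (nat_lit 184) (nat_lit 1) (nat_lit 183) (nat_lit 1) (nat_lit 186) (nat_lit 1) (nat_lit 316) (nat_lit 389) (nat_lit 315)) (XT.nd (nat_lit 78) (nat_lit 0) (nat_lit 0) (XT.lf (nat_lit 304) (nat_lit 4530944848) (nat_lit 0) (nat_lit 1123149521) (nat_lit 228) (nat_lit 1123149521) (nat_lit 184) (nat_lit 1) (nat_lit 180) (nat_lit 1) (nat_lit 183)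 (nat_lit 1) (nat_lit 317) (nat_lit 389) (nat_lit 314)) (XT.lf (nat_lit 76) (nat_lit 1340145772) (nat_lit 0) (nat_lit 4024034880) (nat_lit 304) (nat_lit 1340145772) (nat_lit 181) (nat_lit 1) (nat_lit 180) (nat_lit 1) (nat_lit 184) (nat_lit 1) (nat_lit 318) (nat_lit 389) (nat_lit 313))))) (XT.nd (nat_lit 156) (nat_lit 152) (nat_lit 0) (XT.nd (nat_lit 78) (nat_lit 304) (nat_lit 0) (XT.lf (nat_lit 228) (nat_lit 844089444) (nat_lit 0) (nat_lit 2894147129) (nat_lit 152) (nat_lit 2894147129) (nat_lit 181) (nat_lit 1) (nat_lit 178) (nat_lit 1) (nat_lit 180) (nat_lit 1) (nat_lit 319) (nat_lit 389) (nat_lit 312)) (XT.lf (nat_lit 304) (nat_lit 5624039876) (nat_lit 0) (nat_lit 468852082) (nat_lit 228) (nat_lit 468852082) (nat_lit 178) (nat_lit 1) (nat_lit 174) (nat_lit 1) (nat_lit 177) (nat_lit 1) (nat_lit 320) (nat_lit 389) (nat_lit 311))) (XT.nd (nat_lit 78) (nat_lit 152) (nat_lit 0) (XT.lf (nat_lit 76) (nat_lit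 1892816281) (nat_lit 0) (nat_lit 2705671102) (nat_lit 304) (nat_lit 1892816281) (nat_lit 175) (nat_lit 1) (nat_lit 174) (nat_lit 1) (nat_lit 178) (nat_lit 1) (nat_lit 321) (nat_lit 389) (nat_lit 310)) (XT.nd (nat_lit 78) (nat_lit 0) (nat_lit 0) (XT.lf (nat_lit 228) (nat_lit 1974244907) (nat_lit 0) (nat_lit 2223948719) (nat_lit 152) (nat_lit 2223948719) (nat_lit 175) (nat_lit 1) (nat_lit 172) (nat_lit 1) (nat_lit 174) (nat_lit 1) (nat_lit 322) (nat_lit 389) (nat_lit 309)) (XT.lf (nat_lit 76) (nat_lit 98034568) (nat_lit 0) (nat_lit 6158356967) (nat_lit 228) (nat_lit 98034568) (nat_lit 173) (nat_lit 1) (nat_lit 172) (nat_lit 1) (nat_lit 175) (nat_lit 1) (nat_lit 323) (nat_lit 389) (nat_lit 308))))))) (XT.nd (nat_lit 702) (nat_lit 1140) (nat_lit 0) (XT.nd (nat_lit 312) (nat_lit 532) (nat_lit 0) (XT.nd (nat_lit 156) (nat_lit 228) (nat_lit 0) (XT.nd (nat_lit 78) (nat_lit 152) (nat_lit 0) (XT.lf (nat_lit 76)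 (nat_lit 2363406944) (nat_lit 0) (nat_lit 1559651042) (nat_lit 228) (nat_lit 2363406944) (nat_lit 170) (nat_lit 1) (nat_lit 169) (nat_lit 1) (nat_lit 172) (nat_lit 1) (nat_lit 324) (nat_lit 389) (nat_lit 307)) (XT.lf (nat_lit 228) (nat_lit 2942714689) (nat_lit 0) (nat_lit 1638606409) (nat_lit 152) (nat_lit 1638606409) (nat_lit 170) (nat_lit 1) (nat_lit 167) (nat_lit 1) (nat_lit 169) (nat_lit 1) (nat_lit 325) (nat_lit 389) (nat_lit 306))) (XT.nd (nat_lit 78) (nat_lit 228) (nat_lit 0) (XT.lf (nat_lit 76) (nat_lit 590721877) (nat_lit 0) (nat_lit 4973035696) (nat_lit 228) (nat_lit 590721877) (nat_lit 168) (nat_lit 1) (nat_lit 167) (nat_lit 1) (nat_lit 170) (nat_lit 1) (nat_lit 326) (nat_lit 389) (nat_lit 305)) (XT.lf (nat_lit 76) (nat_lit 2761666357) (nat_lit 0) (nat_lit 566018402) (nat_lit 228) (nat_lit 2761666357) (nat_lit 165) (nat_lit 1) (nat_lit 164) (nat_lit 1) (nat_lit 167) (nat_lit 1) (nat_lit 327)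 (nat_lit 389) (nat_lit 304)))) (XT.nd (nat_lit 156) (nat_lit 380) (nat_lit 0) (XT.nd (nat_lit 78) (nat_lit 0) (nat_lit 0) (XT.lf (nat_lit 228) (nat_lit 3768567440) (nat_lit 0) (nat_lit 1128362878) (nat_lit 152) (nat_lit 1128362878) (nat_lit 165) (nat_lit 1) (nat_lit 162) (nat_lit 1) (nat_lit 164) (nat_lit 1) (nat_lit 328) (nat_lit 389) (nat_lit 303)) (XT.lf (nat_lit 76) (nat_lit 1013799642) (nat_lit 0) (nat_lit 3934414984) (nat_lit 228) (nat_lit 1013799642) (nat_lit 163) (nat_lit 1) (nat_lit 162) (nat_lit 1) (nat_lit 165) (nat_lit 1) (nat_lit 329) (nat_lit 389) (nat_lit 302))) (XT.nd (nat_lit 78) (nat_lit 228) (nat_lit 0) (XT.lf (nat_lit 228) (nat_lit 298766245) (nat_lit 0) (nat_lit 2800344348) (nat_lit 152) (nat_lit 2800344348) (nat_lit 163) (nat_lit 1) (nat_lit 160) (nat_lit 1) (nat_lit 162) (nat_lit 1) (nat_lit 330) (nat_lit 389) (nat_lit 301)) (XT.nd (nat_lit 78) (nat_lit 0) (nat_lit 0) (XT.lf (nat_lit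 228) (nat_lit 4468715158) (nat_lit 0) (nat_lit 684557461) (nat_lit 152) (nat_lit 684557461) (nat_lit 160) (nat_lit 1) (nat_lit 157) (nat_lit 1) (nat_lit 159) (nat_lit 1) (nat_lit 331) (nat_lit 389) (nat_lit 300)) (XT.lf (nat_lit 76) (nat_lit 1375457469) (nat_lit 0) (nat_lit 3025712851) (nat_lit 228) (nat_lit 1375457469) (nat_lit 158) (nat_lit 1) (nat_lit 157) (nat_lit 1) (nat_lit 160) (nat_lit 1) (nat_lit 332) (nat_lit 389) (nat_lit 299)))))) (XT.nd (nat_lit 390) (nat_lit 608) (nat_lit 0) (XT.nd (nat_lit 156) (nat_lit 152) (nat_lit 0) (XT.nd (nat_lit 78) (nat_lit 228) (nat_lit 0) (XT.lf (nat_lit 228) (nat_lit 1053483883) (nat_lit 0) (nat_lit 2331430105) (nat_lit 152) (nat_lit 2331430105) (nat_lit 158) (nat_lit 1) (nat_lit 155) (nat_lit 1) (nat_lit 157) (nat_lit 1) (nat_lit 333) (nat_lit 389) (nat_lit 298)) (XT.lf (nat_lit 228) (nat_lit 5058154567) (nat_lit 0) (nat_lit 299503600) (nat_lit 152) (nat_lit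 299503600) (nat_lit 155) (nat_lit 1) (nat_lit 152) (nat_lit 1) (nat_lit 154) (nat_lit 1) (nat_lit 334) (nat_lit 389) (nat_lit 297))) (XT.nd (nat_lit 78) (nat_lit 152) (nat_lit 0) (XT.lf (nat_lit 76) (nat_lit 1682959270) (nat_lit 0) (nat_lit 2232031044) (nat_lit 228) (nat_lit 1682959270) (nat_lit 153) (nat_lit 1) (nat_lit 152) (nat_lit 1) (nat_lit 155) (nat_lit 1) (nat_lit 335) (nat_lit 389) (nat_lit 296)) (XT.nd (nat_lit 78) (nat_lit 0) (nat_lit 0) (XT.lf (nat_lit 228) (nat_lit 1701088284) (nat_lit 0) (nat_lit 1919368192) (nat_lit 152) (nat_lit 1919368192) (nat_lit 153) (nat_lit 1) (nat_lit 150) (nat_lit 1) (nat_lit 152) (nat_lit 1) (nat_lit 336) (nat_lit 389) (nat_lit 295)) (XT.lf (nat_lit 76) (nat_lit 33952885) (nat_lit 0) (nat_lit 5414996383) (nat_lit 228) (nat_lit 33952885) (nat_lit 151) (nat_lit 1) (nat_lit 150) (nat_lit 1) (nat_lit 153) (nat_lit 1) (nat_lit 337) (nat_lit 389) (nat_lit 294)))))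 (XT.nd (nat_lit 156) (nat_lit 304) (nat_lit 0) (XT.nd (nat_lit 78) (nat_lit 152) (nat_lit 0) (XT.lf (nat_lit 76) (nat_lit 1942746857) (nat_lit 0) (nat_lit 1540144620) (nat_lit 152) (nat_lit 1942746857) (nat_lit 149) (nat_lit 1) (nat_lit 148) (nat_lit 1) (nat_lit 150) (nat_lit 1) (nat_lit 338) (nat_lit 389) (nat_lit 293)) (XT.lf (nat_lit 228) (nat_lit 2254192479) (nat_lit 0) (nat_lit 1557685954) (nat_lit 152) (nat_lit 1557685954) (nat_lit 149) (nat_lit 1) (nat_lit 146) (nat_lit 1) (nat_lit 148) (nat_lit 1) (nat_lit 339) (nat_lit 389) (nat_lit 292))) (XT.nd (nat_lit 78) (nat_lit 304) (nat_lit 0) (XT.lf (nat_lit 76) (nat_lit 324043067) (nat_lit 0) (nat_lit 4666387466) (nat_lit 228) (nat_lit 324043067) (nat_lit 147) (nat_lit 1) (nat_lit 146) (nat_lit 1) (nat_lit 149) (nat_lit 1) (nat_lit 340) (nat_lit 389) (nat_lit 291)) (XT.nd (nat_lit 78) (nat_lit 152) (nat_lit 0) (XT.lf (nat_lit 76) (nat_lit 2160531967)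 (nat_lit 0) (nat_lit 938315000) (nat_lit 152) (nat_lit 2160531967) (nat_lit 145) (nat_lit 1) (nat_lit 144) (nat_lit 1) (nat_lit 146) (nat_lit 1) (nat_lit 341) (nat_lit 389) (nat_lit 290)) (XT.lf (nat_lit 228) (nat_lit 2723983512) (nat_lit 0) (nat_lit 1240636392) (nat_lit 152) (nat_lit 1240636392) (nat_lit 145) (nat_lit 1) (nat_lit 142) (nat_lit 1) (nat_lit 144) (nat_lit 1) (nat_lit 342) (nat_lit 389) (nat_lit 289))))))))
noncomputable def ec247 : XT := (XT.nd (nat_lit 1482) (nat_lit 1444) (nat_lit 0) (XT.nd (nat_lit 702) (nat_lit 912) (nat_lit 0) (XT.nd (nat_lit 312) (nat_lit 608) (nat_lit 0) (XT.nd (nat_lit 156) (nat_lit 152) (nat_lit 0) (XT.nd (nat_lit 78) (nat_lit 152) (nat_lit 0) (XT.lf (nat_lit 76) (nat_lit 573224931) (nat_lit 0) (nat_lit 4005474646) (nat_lit 228) (nat_lit 573224931) (nat_lit 143) (nat_lit 1) (nat_lit 142) (nat_lit 1) (nat_lit 145) (nat_lit 1) (nat_lit 343) (nat_lit 389) (nat_lit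 288)) (XT.lf (nat_lit 76) (nat_lit 2341378016) (nat_lit 0) (nat_lit 416123883) (nat_lit 152) (nat_lit 2341378016) (nat_lit 141) (nat_lit 1) (nat_lit 140) (nat_lit 1) (nat_lit 142) (nat_lit 1) (nat_lit 344) (nat_lit 389) (nat_lit 287))) (XT.nd (nat_lit 78) (nat_lit 0) (nat_lit 0) (XT.lf (nat_lit 228) (nat_lit 3120382021) (nat_lit 0) (nat_lit 963117130) (nat_lit 152) (nat_lit 963117130) (nat_lit 141) (nat_lit 1) (nat_lit 138) (nat_lit 1) (nat_lit 140) (nat_lit 1) (nat_lit 345) (nat_lit 389) (nat_lit 286)) (XT.lf (nat_lit 76) (nat_lit 786309589) (nat_lit 0) (nat_lit 3422355859) (nat_lit 228) (nat_lit 786309589) (nat_lit 139) (nat_lit 1) (nat_lit 138) (nat_lit 1) (nat_lit 141) (nat_lit 1) (nat_lit 346) (nat_lit 389) (nat_lit 285)))) (XT.nd (nat_lit 156) (nat_lit 304) (nat_lit 0) (XT.nd (nat_lit 78) (nat_lit 228) (nat_lit 0) (XT.lf (nat_lit 152) (nat_lit 36384299) (nat_lit 0) (nat_lit 2453738176) (nat_lit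 76) (nat_lit 2453738176) (nat_lit 139) (nat_lit 1) (nat_lit 137) (nat_lit 1) (nat_lit 138) (nat_lit 1) (nat_lit 347) (nat_lit 389) (nat_lit 284)) (XT.lf (nat_lit 228) (nat_lit 3452184013) (nat_lit 0) (nat_lit 720598420) (nat_lit 152) (nat_lit 720598420) (nat_lit 137) (nat_lit 1) (nat_lit 134) (nat_lit 1) (nat_lit 136) (nat_lit 1) (nat_lit 348) (nat_lit 389) (nat_lit 283))) (XT.nd (nat_lit 78) (nat_lit 304) (nat_lit 0) (XT.lf (nat_lit 76) (nat_lit 967564393) (nat_lit 0) (nat_lit 2908236831) (nat_lit 228) (nat_lit 967564393) (nat_lit 135) (nat_lit 1) (nat_lit 134) (nat_lit 1) (nat_lit 137) (nat_lit 1) (nat_lit 349) (nat_lit 389) (nat_lit 282)) (XT.nd (nat_lit 78) (nat_lit 228) (nat_lit 0) (XT.lf (nat_lit 152) (nat_lit 433747509) (nat_lit 0) (nat_lit 2180114588) (nat_lit 76) (nat_lit 2180114588) (nat_lit 135) (nat_lit 1) (nat_lit 133) (nat_lit 1) (nat_lit 134) (nat_lit 1) (nat_lit 350) (nat_lit 389) (nat_lit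 281)) (XT.lf (nat_lit 228) (nat_lit 3727186804) (nat_lit 0) (nat_lit 509059183) (nat_lit 152) (nat_lit 509059183) (nat_lit 133) (nat_lit 1) (nat_lit 130) (nat_lit 1) (nat_lit 132) (nat_lit 1) (nat_lit 351) (nat_lit 389) (nat_lit 280)))))) (XT.nd (nat_lit 390) (nat_lit 532) (nat_lit 0) (XT.nd (nat_lit 156) (nat_lit 304) (nat_lit 0) (XT.nd (nat_lit 78) (nat_lit 76) (nat_lit 0) (XT.lf (nat_lit 76) (nat_lit 1120773778) (nat_lit 0) (nat_lit 2455307433) (nat_lit 228) (nat_lit 1120773778) (nat_lit 131) (nat_lit 1) (nat_lit 130) (nat_lit 1) (nat_lit 133) (nat_lit 1) (nat_lit 352) (nat_lit 389) (nat_lit 279)) (XT.lf (nat_lit 152) (nat_lit 775107714) (nat_lit 0) (nat_lit 1937003575) (nat_lit 76) (nat_lit 1937003575) (nat_lit 131) (nat_lit 1) (nat_lit 129) (nat_lit 1) (nat_lit 130) (nat_lit 1) (nat_lit 353) (nat_lit 389) (nat_lit 278))) (XT.nd (nat_lit 78) (nat_lit 76) (nat_lit 0) (XT.lf (nat_lit 228) (nat_lit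 3952300911) (nat_lit 0) (nat_lit 324930180) (nat_lit 152) (nat_lit 324930180) (nat_lit 129) (nat_lit 1) (nat_lit 126) (nat_lit 1) (nat_lit 128) (nat_lit 1) (nat_lit 354) (nat_lit 389) (nat_lit 277)) (XT.nd (nat_lit 78) (nat_lit 76) (nat_lit 0) (XT.lf (nat_lit 76) (nat_lit 1249293323) (nat_lit 0) (nat_lit 2056631839) (nat_lit 228) (nat_lit 1249293323) (nat_lit 127) (nat_lit 1) (nat_lit 126) (nat_lit 1) (nat_lit 129) (nat_lit 1) (nat_lit 355) (nat_lit 389) (nat_lit 276)) (XT.lf (nat_lit 152) (nat_lit 1067050515) (nat_lit 0) (nat_lit 1721002588) (nat_lit 76) (nat_lit 1721002588) (nat_lit 127) (nat_lit 1) (nat_lit 125) (nat_lit 1) (nat_lit 126) (nat_lit 1) (nat_lit 356) (nat_lit 389) (nat_lit 275))))) (XT.nd (nat_lit 156) (nat_lit 304) (nat_lit 0) (XT.nd (nat_lit 78) (nat_lit 0) (nat_lit 0) (XT.lf (nat_lit 228) (nat_lit 4133649441) (nat_lit 0) (nat_lit 165043527) (nat_lit 152) (nat_lit 165043527) (nat_lit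 125) (nat_lit 1) (nat_lit 122) (nat_lit 1) (nat_lit 124) (nat_lit 1) (nat_lit 357) (nat_lit 389) (nat_lit 274)) (XT.lf (nat_lit 76) (nat_lit 1356097768) (nat_lit 0) (nat_lit 1706050933) (nat_lit 228) (nat_lit 1356097768) (nat_lit 123) (nat_lit 1) (nat_lit 122) (nat_lit 1) (nat_lit 125) (nat_lit 1) (nat_lit 358) (nat_lit 389) (nat_lit 273))) (XT.nd (nat_lit 78) (nat_lit 228) (nat_lit 0) (XT.lf (nat_lit 152) (nat_lit 1315417213) (nat_lit 0) (nat_lit 1529088509) (nat_lit 76) (nat_lit 1529088509) (nat_lit 123) (nat_lit 1) (nat_lit 121) (nat_lit 1) (nat_lit 122) (nat_lit 1) (nat_lit 359) (nat_lit 389) (nat_lit 272)) (XT.nd (nat_lit 78) (nat_lit 0) (nat_lit 0) (XT.lf (nat_lit 228) (nat_lit 4276656389) (nat_lit 0) (nat_lit 26587843) (nat_lit 152) (nat_lit 26587843) (nat_lit 121) (nat_lit 1) (nat_lit 118) (nat_lit 1) (nat_lit 120) (nat_lit 1) (nat_lit 360) (nat_lit 389) (nat_lit 271)) (XT.lf (nat_lit 76) (nat_lit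 1443823683) (nat_lit 0) (nat_lit 1398095595) (nat_lit 228) (nat_lit 1443823683) (nat_lit 119) (nat_lit 1) (nat_lit 118) (nat_lit 1) (nat_lit 121) (nat_lit 1) (nat_lit 361) (nat_lit 389) (nat_lit 270))))))) (XT.nd (nat_lit 702) (nat_lit 760) (nat_lit 0) (XT.nd (nat_lit 312) (nat_lit 380) (nat_lit 0) (XT.nd (nat_lit 156) (nat_lit 228) (nat_lit 0) (XT.nd (nat_lit 78) (nat_lit 0) (nat_lit 0) (XT.lf (nat_lit 152) (nat_lit 1525388099) (nat_lit 0) (nat_lit 1358575335) (nat_lit 76) (nat_lit 1358575335) (nat_lit 119) (nat_lit 1) (nat_lit 117) (nat_lit 1) (nat_lit 118) (nat_lit 1) (nat_lit 362) (nat_lit 389) (nat_lit 269)) (XT.lf (nat_lit 0) (nat_lit 93851716) (nat_lit 0) (nat_lit 4012449630) (nat_lit 152) (nat_lit 93851716) (nat_lit 117) (nat_lit 3) (nat_lit 117) (nat_lit 1) (nat_lit 119) (nat_lit 1) (nat_lit 363) (nat_lit 389) (nat_lit 268))) (XT.nd (nat_lit 78) (nat_lit 76) (nat_lit 0) (XT.lf (nat_lit 76)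 (nat_lit 1514807361) (nat_lit 0) (nat_lit 1127909671) (nat_lit 152) (nat_lit 1514807361) (nat_lit 116) (nat_lit 1) (nat_lit 115) (nat_lit 1) (nat_lit 117) (nat_lit 1) (nat_lit 364) (nat_lit 389) (nat_lit 267)) (XT.lf (nat_lit 152) (nat_lit 1701556445) (nat_lit 0) (nat_lit 1207076589) (nat_lit 76) (nat_lit 1207076589) (nat_lit 116) (nat_lit 1) (nat_lit 114) (nat_lit 1) (nat_lit 115) (nat_lit 1) (nat_lit 365) (nat_lit 389) (nat_lit 266)))) (XT.nd (nat_lit 156) (nat_lit 228) (nat_lit 0) (XT.nd (nat_lit 78) (nat_lit 152) (nat_lit 0) (XT.lf (nat_lit 0) (nat_lit 197666191) (nat_lit 0) (nat_lit 3679289684) (nat_lit 152) (nat_lit 197666191) (nat_lit 114) (nat_lit 3) (nat_lit 114) (nat_lit 1) (nat_lit 116) (nat_lit 1) (nat_lit 366) (nat_lit 389) (nat_lit 265)) (XT.lf (nat_lit 76) (nat_lit 1571118486) (nat_lit 0) (nat_lit 891181525) (nat_lit 152) (nat_lit 1571118486) (nat_lit 113) (nat_lit 1) (nat_lit 112) (nat_lit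 1) (nat_lit 114) (nat_lit 1) (nat_lit 367) (nat_lit 389) (nat_lit 264))) (XT.nd (nat_lit 78) (nat_lit 152) (nat_lit 0) (XT.lf (nat_lit 152) (nat_lit 1847994237) (nat_lit 0) (nat_lit 1072471915) (nat_lit 76) (nat_lit 1072471915) (nat_lit 113) (nat_lit 1) (nat_lit 111) (nat_lit 1) (nat_lit 112) (nat_lit 1) (nat_lit 368) (nat_lit 389) (nat_lit 263)) (XT.nd (nat_lit 78) (nat_lit 152) (nat_lit 0) (XT.lf (nat_lit 0) (nat_lit 286575460) (nat_lit 0) (nat_lit 3379952838) (nat_lit 152) (nat_lit 286575460) (nat_lit 111) (nat_lit 3) (nat_lit 111) (nat_lit 1) (nat_lit 113) (nat_lit 1) (nat_lit 369) (nat_lit 389) (nat_lit 262)) (XT.lf (nat_lit 76) (nat_lit 1614590043) (nat_lit 0) (nat_lit 684083233) (nat_lit 152) (nat_lit 1614590043) (nat_lit 110) (nat_lit 1) (nat_lit 109) (nat_lit 1) (nat_lit 111) (nat_lit 1) (nat_lit 370) (nat_lit 389) (nat_lit 261)))))) (XT.nd (nat_lit 390) (nat_lit 456) (nat_lit 0) (XT.nd (nat_lit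 156) (nat_lit 228) (nat_lit 0) (XT.nd (nat_lit 78) (nat_lit 0) (nat_lit 0) (XT.lf (nat_lit 152) (nat_lit 1968310571) (nat_lit 0) (nat_lit 952877406) (nat_lit 76) (nat_lit 952877406) (nat_lit 110) (nat_lit 1) (nat_lit 108) (nat_lit 1) (nat_lit 109) (nat_lit 1) (nat_lit 371) (nat_lit 389) (nat_lit 260)) (XT.lf (nat_lit 0) (nat_lit 362338593) (nat_lit 0) (nat_lit 3110764328) (nat_lit 152) (nat_lit 362338593) (nat_lit 108) (nat_lit 3) (nat_lit 108) (nat_lit 1) (nat_lit 110) (nat_lit 1) (nat_lit 372) (nat_lit 389) (nat_lit 259))) (XT.nd (nat_lit 78) (nat_lit 76) (nat_lit 0) (XT.lf (nat_lit 76) (nat_lit 1646844882) (nat_lit 0) (nat_lit 503216560) (nat_lit 152) (nat_lit 1646844882) (nat_lit 107) (nat_lit 1) (nat_lit 106) (nat_lit 1) (nat_lit 108) (nat_lit 1) (nat_lit 373) (nat_lit 389) (nat_lit 258)) (XT.nd (nat_lit 78) (nat_lit 0) (nat_lit 0) (XT.lf (nat_lit 152) (nat_lit 2065703522) (nat_lit 0) (nat_lit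 846619233) (nat_lit 76) (nat_lit 846619233) (nat_lit 107) (nat_lit 1) (nat_lit 105) (nat_lit 1) (nat_lit 106) (nat_lit 1) (nat_lit 374) (nat_lit 389) (nat_lit 257)) (XT.lf (nat_lit 0) (nat_lit 426515679) (nat_lit 0) (nat_lit 2868456347) (nat_lit 152) (nat_lit 426515679) (nat_lit 105) (nat_lit 3) (nat_lit 105) (nat_lit 1) (nat_lit 107) (nat_lit 1) (nat_lit 375) (nat_lit 389) (nat_lit 256))))) (XT.nd (nat_lit 156) (nat_lit 228) (nat_lit 0) (XT.nd (nat_lit 78) (nat_lit 76) (nat_lit 0) (XT.lf (nat_lit 76) (nat_lit 1669319320) (nat_lit 0) (nat_lit 345564956) (nat_lit 152) (nat_lit 1669319320) (nat_lit 104) (nat_lit 1) (nat_lit 103) (nat_lit 1) (nat_lit 105) (nat_lit 1) (nat_lit 376) (nat_lit 389) (nat_lit 255)) (XT.lf (nat_lit 152) (nat_lit 2143006236) (nat_lit 0) (nat_lit 752210223) (nat_lit 76) (nat_lit 752210223) (nat_lit 104) (nat_lit 1) (nat_lit 102) (nat_lit 1) (nat_lit 103) (nat_lit 1) (nat_lit 377)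 (nat_lit 389) (nat_lit 254))) (XT.nd (nat_lit 78) (nat_lit 228) (nat_lit 0) (XT.lf (nat_lit 0) (nat_lit 480490096) (nat_lit 0) (nat_lit 2650122751) (nat_lit 152) (nat_lit 480490096) (nat_lit 102) (nat_lit 3) (nat_lit 102) (nat_lit 1) (nat_lit 104) (nat_lit 1) (nat_lit 378) (nat_lit 389) (nat_lit 253)) (XT.nd (nat_lit 78) (nat_lit 76) (nat_lit 0) (XT.lf (nat_lit 76) (nat_lit 1683284101) (nat_lit 0) (nat_lit 208450920) (nat_lit 152) (nat_lit 1683284101) (nat_lit 101) (nat_lit 1) (nat_lit 100) (nat_lit 1) (nat_lit 102) (nat_lit 1) (nat_lit 379) (nat_lit 389) (nat_lit 252)) (XT.lf (nat_lit 152) (nat_lit 2202727858) (nat_lit 0) (nat_lit 668329040) (nat_lit 76) (nat_lit 668329040) (nat_lit 101) (nat_lit 1) (nat_lit 99) (nat_lit 1) (nat_lit 100) (nat_lit 1) (nat_lit 380) (nat_lit 389) (nat_lit 251))))))))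
noncomputable def ec248 : XT := (XT.nd (nat_lit 1404) (nat_lit 1368) (nat_lit 0) (XT.nd (nat_lit 702) (nat_lit 684) (nat_lit 0) (XT.nd (nat_lit 312) (nat_lit 456) (nat_lit 0) (XT.nd (nat_lit 156) (nat_lit 76) (nat_lit 0) (XT.nd (nat_lit 78) (nat_lit 152) (nat_lit 0) (XT.lf (nat_lit 0) (nat_lit 525488294) (nat_lit 0) (nat_lit 2453178807) (nat_lit 152) (nat_lit 525488294) (nat_lit 99) (nat_lit 3) (nat_lit 99) (nat_lit 1) (nat_lit 101) (nat_lit 1) (nat_lit 381) (nat_lit 389) (nat_lit 250)) (XT.lf (nat_lit 76) (nat_lit 1689863022) (nat_lit 0) (nat_lit 89498110) (nat_lit 152) (nat_lit 1689863022) (nat_lit 98) (nat_lit 1) (nat_lit 97) (nat_lit 1) (nat_lit 99) (nat_lit 1) (nat_lit 382) (nat_lit 389) (nat_lit 249))) (XT.nd (nat_lit 78) (nat_lit 0) (nat_lit 0) (XT.lf (nat_lit 152) (nat_lit 2247089905) (nat_lit 0) (nat_lit 593801696) (nat_lit 76) (nat_lit 593801696) (nat_lit 98) (nat_lit 1) (nat_lit 96) (nat_lit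 1) (nat_lit 97) (nat_lit 1) (nat_lit 383) (nat_lit 389) (nat_lit 248)) (XT.lf (nat_lit 0) (nat_lit 562597376) (nat_lit 0) (nat_lit 2275325429) (nat_lit 152) (nat_lit 562597376) (nat_lit 96) (nat_lit 3) (nat_lit 96) (nat_lit 1) (nat_lit 98) (nat_lit 1) (nat_lit 384) (nat_lit 389) (nat_lit 247)))) (XT.nd (nat_lit 156) (nat_lit 228) (nat_lit 0) (XT.nd (nat_lit 78) (nat_lit 152) (nat_lit 0) (XT.lf (nat_lit 76) (nat_lit 13669045) (nat_lit 0) (nat_lit 1676511815) (nat_lit 76) (nat_lit 1676511815) (nat_lit 96) (nat_lit 3) (nat_lit 95) (nat_lit 1) (nat_lit 96) (nat_lit 1) (nat_lit 385) (nat_lit 389) (nat_lit 246)) (XT.lf (nat_lit 152) (nat_lit 2278058559) (nat_lit 0) (nat_lit 527585116) (nat_lit 76) (nat_lit 527585116) (nat_lit 95) (nat_lit 1) (nat_lit 93) (nat_lit 1) (nat_lit 94) (nat_lit 1) (nat_lit 386) (nat_lit 389) (nat_lit 245))) (XT.nd (nat_lit 78) (nat_lit 228) (nat_lit 0) (XT.lf (nat_lit 0) (nat_lit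 592780707) (nat_lit 0) (nat_lit 2114517399) (nat_lit 152) (nat_lit 592780707) (nat_lit 93) (nat_lit 3) (nat_lit 93) (nat_lit 1) (nat_lit 95) (nat_lit 1) (nat_lit 387) (nat_lit 389) (nat_lit 244)) (XT.nd (nat_lit 78) (nat_lit 152) (nat_lit 0) (XT.lf (nat_lit 76) (nat_lit 104154013) (nat_lit 0) (nat_lit 1581568277) (nat_lit 76) (nat_lit 1581568277) (nat_lit 93) (nat_lit 3) (nat_lit 92) (nat_lit 1) (nat_lit 93) (nat_lit 1) (nat_lit 388) (nat_lit 389) (nat_lit 243)) (XT.lf (nat_lit 152) (nat_lit 2297373373) (nat_lit 0) (nat_lit 468752542) (nat_lit 76) (nat_lit 468752542) (nat_lit 92) (nat_lit 1) (nat_lit 90) (nat_lit 1) (nat_lit 91) (nat_lit 1) (nat_lit 389) (nat_lit 389) (nat_lit 242)))))) (XT.nd (nat_lit 312) (nat_lit 456) (nat_lit 0) (XT.nd (nat_lit 156) (nat_lit 152) (nat_lit 0) (XT.nd (nat_lit 78) (nat_lit 76) (nat_lit 0) (XT.lf (nat_lit 0) (nat_lit 616891792) (nat_lit 0) (nat_lit 1968935133) (nat_lit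 152) (nat_lit 616891792) (nat_lit 90) (nat_lit 3) (nat_lit 90) (nat_lit 1) (nat_lit 92) (nat_lit 1) (nat_lit 390) (nat_lit 389) (nat_lit 241)) (XT.lf (nat_lit 76) (nat_lit 181868853) (nat_lit 0) (nat_lit 1494532291) (nat_lit 76) (nat_lit 1494532291) (nat_lit 90) (nat_lit 3) (nat_lit 89) (nat_lit 1) (nat_lit 90) (nat_lit 1) (nat_lit 391) (nat_lit 389) (nat_lit 240))) (XT.nd (nat_lit 78) (nat_lit 0) (nat_lit 0) (XT.lf (nat_lit 152) (nat_lit 2306572747) (nat_lit 0) (nat_lit 416480562) (nat_lit 76) (nat_lit 416480562) (nat_lit 89) (nat_lit 1) (nat_lit 87) (nat_lit 1) (nat_lit 88) (nat_lit 1) (nat_lit 392) (nat_lit 389) (nat_lit 239)) (XT.lf (nat_lit 0) (nat_lit 635686592) (nat_lit 0) (nat_lit 1836959588) (nat_lit 152) (nat_lit 635686592) (nat_lit 87) (nat_lit 3) (nat_lit 87) (nat_lit 1) (nat_lit 89) (nat_lit 1) (nat_lit 393) (nat_lit 389) (nat_lit 238)))) (XT.nd (nat_lit 156) (nat_lit 228) (nat_lit 0) (XT.nd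 (nat_lit 78) (nat_lit 152) (nat_lit 0) (XT.lf (nat_lit 76) (nat_lit 248315657) (nat_lit 0) (nat_lit 1414600120) (nat_lit 76) (nat_lit 1414600120) (nat_lit 87) (nat_lit 3) (nat_lit 86) (nat_lit 1) (nat_lit 87) (nat_lit 1) (nat_lit 394) (nat_lit 389) (nat_lit 237)) (XT.lf (nat_lit 152) (nat_lit 2307016574) (nat_lit 0) (nat_lit 370037585) (nat_lit 76) (nat_lit 370037585) (nat_lit 86) (nat_lit 1) (nat_lit 84) (nat_lit 1) (nat_lit 85) (nat_lit 1) (nat_lit 395) (nat_lit 389) (nat_lit 236))) (XT.nd (nat_lit 78) (nat_lit 228) (nat_lit 0) (XT.lf (nat_lit 0) (nat_lit 649834473) (nat_lit 0) (nat_lit 1717149971) (nat_lit 152) (nat_lit 649834473) (nat_lit 84) (nat_lit 3) (nat_lit 84) (nat_lit 1) (nat_lit 86) (nat_lit 1) (nat_lit 396) (nat_lit 389) (nat_lit 235)) (XT.nd (nat_lit 78) (nat_lit 152) (nat_lit 0) (XT.lf (nat_lit 76) (nat_lit 304826736) (nat_lit 0) (nat_lit 1341055376) (nat_lit 76) (nat_lit 1341055376)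 (nat_lit 84) (nat_lit 3) (nat_lit 83) (nat_lit 1) (nat_lit 84) (nat_lit 1) (nat_lit 397) (nat_lit 389) (nat_lit 234)) (XT.lf (nat_lit 152) (nat_lit 2299906349) (nat_lit 0) (nat_lit 328773602) (nat_lit 76) (nat_lit 328773602) (nat_lit 83) (nat_lit 1) (nat_lit 81) (nat_lit 1) (nat_lit 82) (nat_lit 1) (nat_lit 398) (nat_lit 389) (nat_lit 233))))))) (XT.nd (nat_lit 702) (nat_lit 684) (nat_lit 0) (XT.nd (nat_lit 312) (nat_lit 456) (nat_lit 0) (XT.nd (nat_lit 156) (nat_lit 152) (nat_lit 0) (XT.nd (nat_lit 78) (nat_lit 76) (nat_lit 0) (XT.lf (nat_lit 0) (nat_lit 659927929) (nat_lit 0) (nat_lit 1608223926) (nat_lit 152) (nat_lit 659927929) (nat_lit 81) (nat_lit 3) (nat_lit 81) (nat_lit 1) (nat_lit 83) (nat_lit 1) (nat_lit 399) (nat_lit 389) (nat_lit 232)) (XT.lf (nat_lit 76) (nat_lit 352583628) (nat_lit 0) (nat_lit 1273259352) (nat_lit 76) (nat_lit 1273259352) (nat_lit 81) (nat_lit 3) (nat_lit 80) (nat_lit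 1) (nat_lit 81) (nat_lit 1) (nat_lit 400) (nat_lit 389) (nat_lit 231))) (XT.nd (nat_lit 78) (nat_lit 0) (nat_lit 0) (XT.lf (nat_lit 152) (nat_lit 2286303025) (nat_lit 0) (nat_lit 292111087) (nat_lit 76) (nat_lit 292111087) (nat_lit 80) (nat_lit 1) (nat_lit 78) (nat_lit 1) (nat_lit 79) (nat_lit 1) (nat_lit 401) (nat_lit 389) (nat_lit 230)) (XT.lf (nat_lit 0) (nat_lit 666491221) (nat_lit 0) (nat_lit 1509039931) (nat_lit 152) (nat_lit 666491221) (nat_lit 78) (nat_lit 3) (nat_lit 78) (nat_lit 1) (nat_lit 80) (nat_lit 1) (nat_lit 402) (nat_lit 389) (nat_lit 229)))) (XT.nd (nat_lit 156) (nat_lit 228) (nat_lit 0) (XT.nd (nat_lit 78) (nat_lit 152) (nat_lit 0) (XT.lf (nat_lit 76) (nat_lit 392633968) (nat_lit 0) (nat_lit 1210642425) (nat_lit 76) (nat_lit 1210642425) (nat_lit 78) (nat_lit 3) (nat_lit 77) (nat_lit 1) (nat_lit 78) (nat_lit 1) (nat_lit 403) (nat_lit 389) (nat_lit 228)) (XT.lf (nat_lit 152) (nat_lit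 2267142881) (nat_lit 0) (nat_lit 259536917) (nat_lit 76) (nat_lit 259536917) (nat_lit 77) (nat_lit 1) (nat_lit 75) (nat_lit 1) (nat_lit 76) (nat_lit 1) (nat_lit 404) (nat_lit 389) (nat_lit 227))) (XT.nd (nat_lit 78) (nat_lit 228) (nat_lit 0) (XT.lf (nat_lit 0) (nat_lit 669988043) (nat_lit 0) (nat_lit 1418581660) (nat_lit 152) (nat_lit 669988043) (nat_lit 75) (nat_lit 3) (nat_lit 75) (nat_lit 1) (nat_lit 77) (nat_lit 1) (nat_lit 405) (nat_lit 389) (nat_lit 226)) (XT.nd (nat_lit 78) (nat_lit 152) (nat_lit 0) (XT.lf (nat_lit 76) (nat_lit 425906487) (nat_lit 0) (nat_lit 1152696406) (nat_lit 76) (nat_lit 1152696406) (nat_lit 75) (nat_lit 3) (nat_lit 74) (nat_lit 1) (nat_lit 75) (nat_lit 1) (nat_lit 406) (nat_lit 389) (nat_lit 225)) (XT.lf (nat_lit 152) (nat_lit 2243251605) (nat_lit 0) (nat_lit 230595189) (nat_lit 76) (nat_lit 230595189) (nat_lit 74) (nat_lit 1) (nat_lit 72) (nat_lit 1) (nat_lit 73) (nat_lit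 1) (nat_lit 407) (nat_lit 389) (nat_lit 224)))))) (XT.nd (nat_lit 390) (nat_lit 380) (nat_lit 0) (XT.nd (nat_lit 156) (nat_lit 228) (nat_lit 0) (XT.nd (nat_lit 78) (nat_lit 76) (nat_lit 0) (XT.lf (nat_lit 0) (nat_lit 670828345) (nat_lit 0) (nat_lit 1335944078) (nat_lit 152) (nat_lit 670828345) (nat_lit 72) (nat_lit 3) (nat_lit 72) (nat_lit 1) (nat_lit 74) (nat_lit 1) (nat_lit 408) (nat_lit 389) (nat_lit 223)) (XT.lf (nat_lit 76) (nat_lit 453224332) (nat_lit 0) (nat_lit 1098967762) (nat_lit 76) (nat_lit 1098967762) (nat_lit 72) (nat_lit 3) (nat_lit 71) (nat_lit 1) (nat_lit 72) (nat_lit 1) (nat_lit 409) (nat_lit 389) (nat_lit 222))) (XT.nd (nat_lit 78) (nat_lit 76) (nat_lit 0) (XT.lf (nat_lit 152) (nat_lit 2215356811) (nat_lit 0) (nat_lit 204880839) (nat_lit 76) (nat_lit 204880839) (nat_lit 71) (nat_lit 1) (nat_lit 69) (nat_lit 1) (nat_lit 70) (nat_lit 1) (nat_lit 410) (nat_lit 389) (nat_lit 221)) (XT.nd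 (nat_lit 78) (nat_lit 76) (nat_lit 0) (XT.lf (nat_lit 0) (nat_lit 669374380) (nat_lit 0) (nat_lit 1260321094) (nat_lit 152) (nat_lit 669374380) (nat_lit 69) (nat_lit 3) (nat_lit 69) (nat_lit 1) (nat_lit 71) (nat_lit 1) (nat_lit 411) (nat_lit 389) (nat_lit 220)) (XT.lf (nat_lit 76) (nat_lit 475316895) (nat_lit 0) (nat_lit 1049051568) (nat_lit 76) (nat_lit 1049051568) (nat_lit 69) (nat_lit 3) (nat_lit 68) (nat_lit 1) (nat_lit 69) (nat_lit 1) (nat_lit 412) (nat_lit 389) (nat_lit 219))))) (XT.nd (nat_lit 156) (nat_lit 228) (nat_lit 0) (XT.nd (nat_lit 78) (nat_lit 0) (nat_lit 0) (XT.lf (nat_lit 152) (nat_lit 2184099149) (nat_lit 0) (nat_lit 182033972) (nat_lit 76) (nat_lit 182033972) (nat_lit 68) (nat_lit 1) (nat_lit 66) (nat_lit 1) (nat_lit 67) (nat_lit 1) (nat_lit 413) (nat_lit 389) (nat_lit 218)) (XT.lf (nat_lit 0) (nat_lit 665946083) (nat_lit 0) (nat_lit 1190994584) (nat_lit 152) (nat_lit 665946083)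 (nat_lit 66) (nat_lit 3) (nat_lit 66) (nat_lit 1) (nat_lit 68) (nat_lit 1) (nat_lit 414) (nat_lit 389) (nat_lit 217))) (XT.nd (nat_lit 78) (nat_lit 152) (nat_lit 0) (XT.lf (nat_lit 76) (nat_lit 492830328) (nat_lit 0) (nat_lit 1002586155) (nat_lit 76) (nat_lit 1002586155) (nat_lit 66) (nat_lit 3) (nat_lit 65) (nat_lit 1) (nat_lit 66) (nat_lit 1) (nat_lit 415) (nat_lit 389) (nat_lit 216)) (XT.nd (nat_lit 78) (nat_lit 0) (nat_lit 0) (XT.lf (nat_lit 152) (nat_lit 2150042170) (nat_lit 0) (nat_lit 161734826) (nat_lit 76) (nat_lit 161734826) (nat_lit 65) (nat_lit 1) (nat_lit 63) (nat_lit 1) (nat_lit 64) (nat_lit 1) (nat_lit 416) (nat_lit 389) (nat_lit 215)) (XT.lf (nat_lit 0) (nat_lit 660825844) (nat_lit 0) (nat_lit 1127324636) (nat_lit 152) (nat_lit 660825844) (nat_lit 63) (nat_lit 3) (nat_lit 63) (nat_lit 1) (nat_lit 65) (nat_lit 1) (nat_lit 417) (nat_lit 389) (nat_lit 214))))))))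
noncomputable def ec249 : XT := (XT.nd (nat_lit 39702) (nat_lit 0) (nat_lit 21280) (XT.nd (nat_lit 702) (nat_lit 304) (nat_lit 0) (XT.nd (nat_lit 312) (nat_lit 380) (nat_lit 0) (XT.nd (nat_lit 156) (nat_lit 76) (nat_lit 0) (XT.nd (nat_lit 78) (nat_lit 152) (nat_lit 0) (XT.lf (nat_lit 76) (nat_lit 506336881) (nat_lit 0) (nat_lit 959248331) (nat_lit 76) (nat_lit 959248331) (nat_lit 63) (nat_lit 3) (nat_lit 62) (nat_lit 1) (nat_lit 63) (nat_lit 1) (nat_lit 418) (nat_lit 389) (nat_lit 213)) (XT.lf (nat_lit 152) (nat_lit 2113681091) (nat_lit 0) (nat_lit 143699298) (nat_lit 76) (nat_lit 143699298) (nat_lit 62) (nat_lit 1) (nat_lit 60) (nat_lit 1) (nat_lit 61) (nat_lit 1) (nat_lit 419) (nat_lit 389) (nat_lit 212))) (XT.nd (nat_lit 78) (nat_lit 76) (nat_lit 0) (XT.lf (nat_lit 0) (nat_lit 654262751) (nat_lit 0) (nat_lit 1068740886) (nat_lit 152) (nat_lit 654262751) (nat_lit 60) (nat_lit 3) (nat_lit 60) (nat_lit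 1) (nat_lit 62) (nat_lit 1) (nat_lit 420) (nat_lit 389) (nat_lit 211)) (XT.lf (nat_lit 76) (nat_lit 516343196) (nat_lit 0) (nat_lit 918749152) (nat_lit 76) (nat_lit 918749152) (nat_lit 60) (nat_lit 3) (nat_lit 59) (nat_lit 1) (nat_lit 60) (nat_lit 1) (nat_lit 421) (nat_lit 389) (nat_lit 210)))) (XT.nd (nat_lit 156) (nat_lit 228) (nat_lit 0) (XT.nd (nat_lit 78) (nat_lit 0) (nat_lit 0) (XT.lf (nat_lit 152) (nat_lit 2075450574) (nat_lit 0) (nat_lit 127674965) (nat_lit 76) (nat_lit 127674965) (nat_lit 59) (nat_lit 1) (nat_lit 57) (nat_lit 1) (nat_lit 58) (nat_lit 1) (nat_lit 422) (nat_lit 389) (nat_lit 209)) (XT.lf (nat_lit 0) (nat_lit 646476357) (nat_lit 0) (nat_lit 1014734812) (nat_lit 152) (nat_lit 646476357) (nat_lit 57) (nat_lit 3) (nat_lit 57) (nat_lit 1) (nat_lit 59) (nat_lit 1) (nat_lit 423) (nat_lit 389) (nat_lit 208))) (XT.nd (nat_lit 78) (nat_lit 152) (nat_lit 0) (XT.lf (nat_lit 76) (nat_lit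 523297674) (nat_lit 0) (nat_lit 880830154) (nat_lit 76) (nat_lit 880830154) (nat_lit 57) (nat_lit 3) (nat_lit 56) (nat_lit 1) (nat_lit 57) (nat_lit 1) (nat_lit 424) (nat_lit 389) (nat_lit 207)) (XT.nd (nat_lit 78) (nat_lit 0) (nat_lit 0) (XT.lf (nat_lit 152) (nat_lit 2035731635) (nat_lit 0) (nat_lit 113437553) (nat_lit 76) (nat_lit 113437553) (nat_lit 56) (nat_lit 1) (nat_lit 54) (nat_lit 1) (nat_lit 55) (nat_lit 1) (nat_lit 425) (nat_lit 389) (nat_lit 206)) (XT.lf (nat_lit 0) (nat_lit 637660022) (nat_lit 0) (nat_lit 964852889) (nat_lit 152) (nat_lit 637660022) (nat_lit 54) (nat_lit 3) (nat_lit 54) (nat_lit 1) (nat_lit 56) (nat_lit 1) (nat_lit 426) (nat_lit 389) (nat_lit 205)))))) (XT.nd (nat_lit 38610) (nat_lit 0) (nat_lit 24624) (XT.nd (nat_lit 156) (nat_lit 76) (nat_lit 0) (XT.nd (nat_lit 78) (nat_lit 152) (nat_lit 0) (XT.lf (nat_lit 76) (nat_lit 527597022) (nat_lit 0) (nat_lit 845260000) (nat_lit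 76) (nat_lit 845260000) (nat_lit 54) (nat_lit 3) (nat_lit 53) (nat_lit 1) (nat_lit 54) (nat_lit 1) (nat_lit 427) (nat_lit 389) (nat_lit 204)) (XT.lf (nat_lit 152) (nat_lit 1994857774) (nat_lit 0) (nat_lit 100787796) (nat_lit 76) (nat_lit 100787796) (nat_lit 53) (nat_lit 1) (nat_lit 51) (nat_lit 1) (nat_lit 52) (nat_lit 1) (nat_lit 428) (nat_lit 389) (nat_lit 203))) (XT.nd (nat_lit 78) (nat_lit 76) (nat_lit 0) (XT.lf (nat_lit 0) (nat_lit 627983886) (nat_lit 0) (nat_lit 918690511) (nat_lit 152) (nat_lit 627983886) (nat_lit 51) (nat_lit 3) (nat_lit 51) (nat_lit 1) (nat_lit 53) (nat_lit 1) (nat_lit 429) (nat_lit 389) (nat_lit 202)) (XT.nd (nat_lit 38298) (nat_lit 0) (nat_lit 24624) (XT.lf (nat_lit 76) (nat_lit 529592070) (nat_lit 0) (nat_lit 811831511) (nat_lit 76) (nat_lit 811831511) (nat_lit 51) (nat_lit 3) (nat_lit 50) (nat_lit 1) (nat_lit 51) (nat_lit 1) (nat_lit 430) (nat_lit 389) (nat_lit 201)) (XT.lf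 (nat_lit 1292) (nat_lit 1635030704) (nat_lit 0) (nat_lit 5625266023) (nat_lit 1292) (nat_lit 1635030704) (nat_lit 391) (nat_lit 1) (nat_lit 374) (nat_lit 0) (nat_lit 391) (nat_lit 0) (nat_lit 240) (nat_lit 390) (nat_lit 390))))) (XT.nd (nat_lit 156) (nat_lit 0) (nat_lit 76) (XT.nd (nat_lit 78) (nat_lit 0) (nat_lit 76) (XT.lf (nat_lit 1292) (nat_lit 6389728642) (nat_lit 76) (nat_lit 5570116357) (nat_lit 0) (nat_lit 5570116357) (nat_lit 391) (nat_lit 1) (nat_lit 375) (nat_lit 1) (nat_lit 374) (nat_lit 0) (nat_lit 241) (nat_lit 390) (nat_lit 389)) (XT.lf (nat_lit 1292) (nat_lit 3090225120) (nat_lit 0) (nat_lit 11094567962) (nat_lit 1216) (nat_lit 3090225120) (nat_lit 392) (nat_lit 1) (nat_lit 375) (nat_lit 1) (nat_lit 391) (nat_lit 1) (nat_lit 242) (nat_lit 390) (nat_lit 388))) (XT.nd (nat_lit 78) (nat_lit 0) (nat_lit 76) (XT.lf (nat_lit 1292) (nat_lit 5868497053) (nat_lit 76) (nat_lit 5577917730) (nat_lit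 0) (nat_lit 5577917730) (nat_lit 392) (nat_lit 1) (nat_lit 376) (nat_lit 1) (nat_lit 375) (nat_lit 1) (nat_lit 243) (nat_lit 390) (nat_lit 387)) (XT.nd (nat_lit 78) (nat_lit 0) (nat_lit 0) (XT.lf (nat_lit 1292) (nat_lit 2753762974) (nat_lit 0) (nat_lit 11271730052) (nat_lit 1216) (nat_lit 2753762974) (nat_lit 393) (nat_lit 1) (nat_lit 376) (nat_lit 1) (nat_lit 392) (nat_lit 1) (nat_lit 244) (nat_lit 390) (nat_lit 386)) (XT.lf (nat_lit 1292) (nat_lit 5046561409) (nat_lit 76) (nat_lit 5745768787) (nat_lit 0) (nat_lit 5745768787) (nat_lit 393) (nat_lit 1) (nat_lit 377) (nat_lit 1) (nat_lit 376) (nat_lit 1) (nat_lit 245) (nat_lit 390) (nat_lit 385))))))) (XT.nd (nat_lit 702) (nat_lit 2508) (nat_lit 0) (XT.nd (nat_lit 312) (nat_lit 1064) (nat_lit 0) (XT.nd (nat_lit 156) (nat_lit 0) (nat_lit 76) (XT.nd (nat_lit 78) (nat_lit 0) (nat_lit 0) (XT.lf (nat_lit 1292) (nat_lit 2274528533) (nat_lit 0) (nat_lit 11753453573)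 (nat_lit 1216) (nat_lit 2274528533) (nat_lit 394) (nat_lit 1) (nat_lit 377) (nat_lit 1) (nat_lit 393) (nat_lit 1) (nat_lit 246) (nat_lit 390) (nat_lit 384)) (XT.lf (nat_lit 1292) (nat_lit 3950813204) (nat_lit 76) (nat_lit 6059807337) (nat_lit 0) (nat_lit 6059807337) (nat_lit 394) (nat_lit 1) (nat_lit 378) (nat_lit 1) (nat_lit 377) (nat_lit 1) (nat_lit 247) (nat_lit 390) (nat_lit 383))) (XT.nd (nat_lit 78) (nat_lit 0) (nat_lit 0) (XT.lf (nat_lit 1292) (nat_lit 1665438479) (nat_lit 0) (nat_lit 12513088523) (nat_lit 1216) (nat_lit 1665438479) (nat_lit 395) (nat_lit 1) (nat_lit 378) (nat_lit 1) (nat_lit 394) (nat_lit 1) (nat_lit 248) (nat_lit 390) (nat_lit 382)) (XT.lf (nat_lit 1292) (nat_lit 2606319770) (nat_lit 76) (nat_lit 6507103090) (nat_lit 0) (nat_lit 6507103090) (nat_lit 395) (nat_lit 1) (nat_lit 379) (nat_lit 1) (nat_lit 378) (nat_lit 1) (nat_lit 249) (nat_lit 390) (nat_lit 381)))) (XT.nd (nat_lit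 156) (nat_lit 1216) (nat_lit 0) (XT.nd (nat_lit 78) (nat_lit 0) (nat_lit 0) (XT.lf (nat_lit 1292) (nat_lit 938530521) (nat_lit 0) (nat_lit 13525781718) (nat_lit 1216) (nat_lit 938530521) (nat_lit 396) (nat_lit 1) (nat_lit 379) (nat_lit 1) (nat_lit 395) (nat_lit 1) (nat_lit 250) (nat_lit 390) (nat_lit 380)) (XT.lf (nat_lit 1292) (nat_lit 1036437157) (nat_lit 76) (nat_lit 7075600199) (nat_lit 0) (nat_lit 7075600199) (nat_lit 396) (nat_lit 1) (nat_lit 380) (nat_lit 1) (nat_lit 379) (nat_lit 1) (nat_lit 251) (nat_lit 390) (nat_lit 379))) (XT.nd (nat_lit 78) (nat_lit 1292) (nat_lit 0) (XT.lf (nat_lit 1292) (nat_lit 105017854) (nat_lit 0) (nat_lit 14768365868) (nat_lit 1216) (nat_lit 105017854) (nat_lit 397) (nat_lit 1) (nat_lit 380) (nat_lit 1) (nat_lit 396) (nat_lit 1) (nat_lit 252) (nat_lit 390) (nat_lit 378)) (XT.nd (nat_lit 78) (nat_lit 0) (nat_lit 0) (XT.lf (nat_lit 1368) (nat_lit 7024064815) (nat_lit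 0) (nat_lit 722700537) (nat_lit 1292) (nat_lit 7024064815) (nat_lit 381) (nat_lit 1) (nat_lit 363) (nat_lit 1) (nat_lit 380) (nat_lit 1) (nat_lit 253) (nat_lit 390) (nat_lit 377)) (XT.lf (nat_lit 1368) (nat_lit 12935830513) (nat_lit 76) (nat_lit 816574721) (nat_lit 0) (nat_lit 816574721) (nat_lit 381) (nat_lit 1) (nat_lit 364) (nat_lit 1) (nat_lit 363) (nat_lit 1) (nat_lit 254) (nat_lit 390) (nat_lit 376)))))) (XT.nd (nat_lit 390) (nat_lit 1824) (nat_lit 0) (XT.nd (nat_lit 156) (nat_lit 760) (nat_lit 0) (XT.nd (nat_lit 78) (nat_lit 0) (nat_lit 0) (XT.lf (nat_lit 1368) (nat_lit 5863925463) (nat_lit 0) (nat_lit 2641427534) (nat_lit 1292) (nat_lit 5863925463) (nat_lit 382) (nat_lit 1) (nat_lit 364) (nat_lit 1) (nat_lit 381) (nat_lit 1) (nat_lit 255) (nat_lit 390) (nat_lit 375)) (XT.lf (nat_lit 1368) (nat_lit 10529158865) (nat_lit 76) (nat_lit 1822740194) (nat_lit 0) (nat_lit 1822740194) (nat_lit 382) (nat_lit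 1) (nat_lit 365) (nat_lit 1) (nat_lit 364) (nat_lit 1) (nat_lit 256) (nat_lit 390) (nat_lit 374))) (XT.nd (nat_lit 78) (nat_lit 836) (nat_lit 0) (XT.lf (nat_lit 76) (nat_lit 4630565533) (nat_lit 0) (nat_lit 4721501702) (nat_lit 1292) (nat_lit 4630565533) (nat_lit 366) (nat_lit 1) (nat_lit 365) (nat_lit 1) (nat_lit 382) (nat_lit 1) (nat_lit 257) (nat_lit 390) (nat_lit 373)) (XT.nd (nat_lit 78) (nat_lit 0) (nat_lit 0) (XT.lf (nat_lit 912) (nat_lit 7983746883) (nat_lit 0) (nat_lit 2905561795) (nat_lit 836) (nat_lit 2905561795) (nat_lit 366) (nat_lit 1) (nat_lit 354) (nat_lit 1) (nat_lit 365) (nat_lit 1) (nat_lit 258) (nat_lit 390) (nat_lit 372)) (XT.lf (nat_lit 76) (nat_lit 3332260532) (nat_lit 0) (nat_lit 6945753578) (nat_lit 912) (nat_lit 3332260532) (nat_lit 355) (nat_lit 1) (nat_lit 354) (nat_lit 1) (nat_lit 366) (nat_lit 1) (nat_lit 259) (nat_lit 390) (nat_lit 371))))) (XT.nd (nat_lit 156) (nat_lit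 1216) (nat_lit 0) (XT.nd (nat_lit 78) (nat_lit 0) (nat_lit 0) (XT.lf (nat_lit 684) (nat_lit 5315623677) (nat_lit 0) (nat_lit 4056724173) (nat_lit 608) (nat_lit 4056724173) (nat_lit 355) (nat_lit 1) (nat_lit 346) (nat_lit 1) (nat_lit 354) (nat_lit 1) (nat_lit 260) (nat_lit 390) (nat_lit 370)) (XT.lf (nat_lit 76) (nat_lit 1976692313) (nat_lit 0) (nat_lit 9298229614) (nat_lit 684) (nat_lit 1976692313) (nat_lit 347) (nat_lit 1) (nat_lit 346) (nat_lit 1) (nat_lit 355) (nat_lit 1) (nat_lit 261) (nat_lit 390) (nat_lit 369))) (XT.nd (nat_lit 78) (nat_lit 608) (nat_lit 0) (XT.lf (nat_lit 684) (nat_lit 2539663326) (nat_lit 0) (nat_lit 5268503341) (nat_lit 608) (nat_lit 5268503341) (nat_lit 347) (nat_lit 1) (nat_lit 338) (nat_lit 1) (nat_lit 346) (nat_lit 1) (nat_lit 262) (nat_lit 390) (nat_lit 368)) (XT.nd (nat_lit 78) (nat_lit 608) (nat_lit 0) (XT.lf (nat_lit 76) (nat_lit 570986596) (nat_lit 0) (nat_lit 11764115665)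 (nat_lit 684) (nat_lit 570986596) (nat_lit 339) (nat_lit 1) (nat_lit 338) (nat_lit 1) (nat_lit 347) (nat_lit 1) (nat_lit 263) (nat_lit 390) (nat_lit 367)) (XT.lf (nat_lit 76) (nat_lit 6206562873) (nat_lit 0) (nat_lit 323895823) (nat_lit 608) (nat_lit 6206562873) (nat_lit 331) (nat_lit 1) (nat_lit 330) (nat_lit 1) (nat_lit 338) (nat_lit 1) (nat_lit 264) (nat_lit 390) (nat_lit 366))))))))
noncomputable def ec250 : XT := (XT.nd (nat_lit 1482) (nat_lit 4104) (nat_lit 0) (XT.nd (nat_lit 702) (nat_lit 2584) (nat_lit 0) (XT.nd (nat_lit 312) (nat_lit 1596) (nat_lit 0) (XT.nd (nat_lit 156) (nat_lit 532) (nat_lit 0) (XT.nd (nat_lit 78) (nat_lit 0) (nat_lit 0) (XT.lf (nat_lit 684) (nat_lit 10832860534) (nat_lit 0) (nat_lit 869641431) (nat_lit 608) (nat_lit 869641431) (nat_lit 331) (nat_lit 1) (nat_lit 322) (nat_lit 1) (nat_lit 330) (nat_lit 1) (nat_lit 265) (nat_lit 390) (nat_lit 365)) (XT.lf (nat_lit 76) (nat_lit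 4595683209) (nat_lit 0) (nat_lit 3217577119) (nat_lit 684) (nat_lit 4595683209) (nat_lit 323) (nat_lit 1) (nat_lit 322) (nat_lit 1) (nat_lit 331) (nat_lit 1) (nat_lit 266) (nat_lit 390) (nat_lit 364))) (XT.nd (nat_lit 78) (nat_lit 0) (nat_lit 0) (XT.lf (nat_lit 608) (nat_lit 7566137939) (nat_lit 0) (nat_lit 2341720176) (nat_lit 532) (nat_lit 2341720176) (nat_lit 323) (nat_lit 1) (nat_lit 315) (nat_lit 1) (nat_lit 322) (nat_lit 1) (nat_lit 267) (nat_lit 390) (nat_lit 363)) (XT.lf (nat_lit 76) (nat_lit 2956666976) (nat_lit 0) (nat_lit 6179338886) (nat_lit 608) (nat_lit 2956666976) (nat_lit 316) (nat_lit 1) (nat_lit 315) (nat_lit 1) (nat_lit 323) (nat_lit 1) (nat_lit 268) (nat_lit 390) (nat_lit 362)))) (XT.nd (nat_lit 156) (nat_lit 1064) (nat_lit 0) (XT.nd (nat_lit 78) (nat_lit 0) (nat_lit 0) (XT.lf (nat_lit 608) (nat_lit 4248088136) (nat_lit 0) (nat_lit 3845242398) (nat_lit 532) (nat_lit 3845242398) (nat_lit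 316) (nat_lit 1) (nat_lit 308) (nat_lit 1) (nat_lit 315) (nat_lit 1) (nat_lit 269) (nat_lit 390) (nat_lit 361)) (XT.lf (nat_lit 76) (nat_lit 1294642172) (nat_lit 0) (nat_lit 9198451971) (nat_lit 608) (nat_lit 1294642172) (nat_lit 309) (nat_lit 1) (nat_lit 308) (nat_lit 1) (nat_lit 316) (nat_lit 1) (nat_lit 270) (nat_lit 390) (nat_lit 360))) (XT.nd (nat_lit 78) (nat_lit 608) (nat_lit 0) (XT.lf (nat_lit 532) (nat_lit 888614327) (nat_lit 0) (nat_lit 5375026022) (nat_lit 456) (nat_lit 5375026022) (nat_lit 309) (nat_lit 1) (nat_lit 302) (nat_lit 1) (nat_lit 308) (nat_lit 1) (nat_lit 271) (nat_lit 390) (nat_lit 359)) (XT.nd (nat_lit 78) (nat_lit 0) (nat_lit 0) (XT.lf (nat_lit 608) (nat_lit 10729477086) (nat_lit 0) (nat_lit 381878908) (nat_lit 532) (nat_lit 381878908) (nat_lit 302) (nat_lit 1) (nat_lit 294) (nat_lit 1) (nat_lit 301) (nat_lit 1) (nat_lit 272) (nat_lit 390) (nat_lit 358)) (XT.lf (nat_lit 76)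 (nat_lit 4447195230) (nat_lit 0) (nat_lit 2454305897) (nat_lit 608) (nat_lit 4447195230) (nat_lit 295) (nat_lit 1) (nat_lit 294) (nat_lit 1) (nat_lit 302) (nat_lit 1) (nat_lit 273) (nat_lit 390) (nat_lit 357)))))) (XT.nd (nat_lit 390) (nat_lit 1216) (nat_lit 0) (XT.nd (nat_lit 156) (nat_lit 912) (nat_lit 0) (XT.nd (nat_lit 78) (nat_lit 0) (nat_lit 0) (XT.lf (nat_lit 532) (nat_lit 7088691138) (nat_lit 0) (nat_lit 2059487853) (nat_lit 456) (nat_lit 2059487853) (nat_lit 295) (nat_lit 1) (nat_lit 288) (nat_lit 1) (nat_lit 294) (nat_lit 1) (nat_lit 274) (nat_lit 390) (nat_lit 356)) (XT.lf (nat_lit 76) (nat_lit 2632699969) (nat_lit 0) (nat_lit 5803300824) (nat_lit 532) (nat_lit 2632699969) (nat_lit 289) (nat_lit 1) (nat_lit 288) (nat_lit 1) (nat_lit 295) (nat_lit 1) (nat_lit 275) (nat_lit 390) (nat_lit 355))) (XT.nd (nat_lit 78) (nat_lit 456) (nat_lit 0) (XT.lf (nat_lit 532) (nat_lit 3438319203) (nat_lit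 0) (nat_lit 3746902947) (nat_lit 456) (nat_lit 3746902947) (nat_lit 289) (nat_lit 1) (nat_lit 282) (nat_lit 1) (nat_lit 288) (nat_lit 1) (nat_lit 276) (nat_lit 390) (nat_lit 354)) (XT.nd (nat_lit 78) (nat_lit 456) (nat_lit 0) (XT.lf (nat_lit 76) (nat_lit 815205823) (nat_lit 0) (nat_lit 9168124181) (nat_lit 532) (nat_lit 815205823) (nat_lit 283) (nat_lit 1) (nat_lit 282) (nat_lit 1) (nat_lit 289) (nat_lit 1) (nat_lit 277) (nat_lit 390) (nat_lit 353)) (XT.lf (nat_lit 76) (nat_lit 5227812819) (nat_lit 0) (nat_lit 210531979) (nat_lit 456) (nat_lit 5227812819) (nat_lit 277) (nat_lit 1) (nat_lit 276) (nat_lit 1) (nat_lit 282) (nat_lit 1) (nat_lit 278) (nat_lit 390) (nat_lit 352))))) (XT.nd (nat_lit 156) (nat_lit 760) (nat_lit 0) (XT.nd (nat_lit 78) (nat_lit 0) (nat_lit 0) (XT.lf (nat_lit 532) (nat_lit 8552316446) (nat_lit 0) (nat_lit 992170474) (nat_lit 456) (nat_lit 992170474) (nat_lit 277) (nat_lit 1) (nat_lit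 270) (nat_lit 1) (nat_lit 276) (nat_lit 1) (nat_lit 279) (nat_lit 390) (nat_lit 351)) (XT.lf (nat_lit 76) (nat_lit 3309883522) (nat_lit 0) (nat_lit 3788695675) (nat_lit 532) (nat_lit 3309883522) (nat_lit 271) (nat_lit 1) (nat_lit 270) (nat_lit 1) (nat_lit 277) (nat_lit 1) (nat_lit 280) (nat_lit 390) (nat_lit 350))) (XT.nd (nat_lit 78) (nat_lit 380) (nat_lit 0) (XT.lf (nat_lit 456) (nat_lit 4706361414) (nat_lit 0) (nat_lit 2788279295) (nat_lit 380) (nat_lit 2788279295) (nat_lit 271) (nat_lit 1) (nat_lit 265) (nat_lit 1) (nat_lit 270) (nat_lit 1) (nat_lit 281) (nat_lit 390) (nat_lit 349)) (XT.nd (nat_lit 78) (nat_lit 380) (nat_lit 0) (XT.lf (nat_lit 76) (nat_lit 1401044203) (nat_lit 0) (nat_lit 7357588253) (nat_lit 456) (nat_lit 1401044203) (nat_lit 266) (nat_lit 1) (nat_lit 265) (nat_lit 1) (nat_lit 271) (nat_lit 1) (nat_lit 282) (nat_lit 390) (nat_lit 348)) (XT.lf (nat_lit 456) (nat_lit 881146444) (nat_lit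 0) (nat_lit 4578387758) (nat_lit 380) (nat_lit 4578387758) (nat_lit 266) (nat_lit 1) (nat_lit 260) (nat_lit 1) (nat_lit 265) (nat_lit 1) (nat_lit 283) (nat_lit 390) (nat_lit 347))))))) (XT.nd (nat_lit 702) (nat_lit 2204) (nat_lit 0) (XT.nd (nat_lit 312) (nat_lit 1064) (nat_lit 0) (XT.nd (nat_lit 156) (nat_lit 380) (nat_lit 0) (XT.nd (nat_lit 78) (nat_lit 0) (nat_lit 0) (XT.lf (nat_lit 456) (nat_lit 8936045151) (nat_lit 0) (nat_lit 491419448) (nat_lit 380) (nat_lit 491419448) (nat_lit 260) (nat_lit 1) (nat_lit 254) (nat_lit 1) (nat_lit 259) (nat_lit 1) (nat_lit 284) (nat_lit 390) (nat_lit 346)) (XT.lf (nat_lit 76) (nat_lit 3469375497) (nat_lit 0) (nat_lit 2861738600) (nat_lit 456) (nat_lit 3469375497) (nat_lit 255) (nat_lit 1) (nat_lit 254) (nat_lit 1) (nat_lit 260) (nat_lit 1) (nat_lit 285) (nat_lit 390) (nat_lit 345))) (XT.nd (nat_lit 78) (nat_lit 0) (nat_lit 0) (XT.lf (nat_lit 456) (nat_lit 4971574193)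 (nat_lit 0) (nat_lit 2356576079) (nat_lit 380) (nat_lit 2356576079) (nat_lit 255) (nat_lit 1) (nat_lit 249) (nat_lit 1) (nat_lit 254) (nat_lit 1) (nat_lit 286) (nat_lit 390) (nat_lit 344)) (XT.lf (nat_lit 76) (nat_lit 1506235148) (nat_lit 0) (nat_lit 6558430862) (nat_lit 456) (nat_lit 1506235148) (nat_lit 250) (nat_lit 1) (nat_lit 249) (nat_lit 1) (nat_lit 255) (nat_lit 1) (nat_lit 287) (nat_lit 390) (nat_lit 343)))) (XT.nd (nat_lit 156) (nat_lit 304) (nat_lit 0) (XT.nd (nat_lit 78) (nat_lit 456) (nat_lit 0) (XT.lf (nat_lit 380) (nat_lit 1046129338) (nat_lit 0) (nat_lit 4206194579) (nat_lit 304) (nat_lit 4206194579) (nat_lit 250) (nat_lit 1) (nat_lit 245) (nat_lit 1) (nat_lit 249) (nat_lit 1) (nat_lit 288) (nat_lit 390) (nat_lit 342)) (XT.lf (nat_lit 456) (nat_lit 8483865678) (nat_lit 0) (nat_lit 432367766) (nat_lit 380) (nat_lit 432367766) (nat_lit 245) (nat_lit 1) (nat_lit 239) (nat_lit 1) (nat_lit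 244) (nat_lit 1) (nat_lit 289) (nat_lit 390) (nat_lit 341))) (XT.nd (nat_lit 78) (nat_lit 304) (nat_lit 0) (XT.lf (nat_lit 76) (nat_lit 3228734432) (nat_lit 0) (nat_lit 2781677076) (nat_lit 456) (nat_lit 3228734432) (nat_lit 240) (nat_lit 1) (nat_lit 239) (nat_lit 1) (nat_lit 245) (nat_lit 1) (nat_lit 290) (nat_lit 390) (nat_lit 340)) (XT.nd (nat_lit 78) (nat_lit 0) (nat_lit 0) (XT.lf (nat_lit 380) (nat_lit 4462821975) (nat_lit 0) (nat_lit 2334631201) (nat_lit 304) (nat_lit 2334631201) (nat_lit 240) (nat_lit 1) (nat_lit 235) (nat_lit 1) (nat_lit 239) (nat_lit 1) (nat_lit 291) (nat_lit 390) (nat_lit 339)) (XT.lf (nat_lit 76) (nat_lit 1241042620) (nat_lit 0) (nat_lit 6544768892) (nat_lit 380) (nat_lit 1241042620) (nat_lit 236) (nat_lit 1) (nat_lit 235) (nat_lit 1) (nat_lit 240) (nat_lit 1) (nat_lit 292) (nat_lit 390) (nat_lit 338)))))) (XT.nd (nat_lit 390) (nat_lit 1216) (nat_lit 0) (XT.nd (nat_lit 156)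 (nat_lit 304) (nat_lit 0) (XT.nd (nat_lit 78) (nat_lit 380) (nat_lit 0) (XT.lf (nat_lit 380) (nat_lit 494875466) (nat_lit 0) (nat_lit 4213972256) (nat_lit 304) (nat_lit 4213972256) (nat_lit 236) (nat_lit 1) (nat_lit 231) (nat_lit 1) (nat_lit 235) (nat_lit 1) (nat_lit 293) (nat_lit 390) (nat_lit 337)) (XT.lf (nat_lit 380) (nat_lit 7395596035) (nat_lit 0) (nat_lit 712621426) (nat_lit 304) (nat_lit 712621426) (nat_lit 231) (nat_lit 1) (nat_lit 226) (nat_lit 1) (nat_lit 230) (nat_lit 1) (nat_lit 294) (nat_lit 390) (nat_lit 336))) (XT.nd (nat_lit 78) (nat_lit 304) (nat_lit 0) (XT.lf (nat_lit 76) (nat_lit 2684202991) (nat_lit 0) (nat_lit 3351150852) (nat_lit 380) (nat_lit 2684202991) (nat_lit 227) (nat_lit 1) (nat_lit 226) (nat_lit 1) (nat_lit 231) (nat_lit 1) (nat_lit 295) (nat_lit 390) (nat_lit 335)) (XT.nd (nat_lit 78) (nat_lit 0) (nat_lit 0) (XT.lf (nat_lit 380) (nat_lit 3367405879) (nat_lit 0) (nat_lit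 2626430970) (nat_lit 304) (nat_lit 2626430970) (nat_lit 227) (nat_lit 1) (nat_lit 222) (nat_lit 1) (nat_lit 226) (nat_lit 1) (nat_lit 296) (nat_lit 390) (nat_lit 334)) (XT.lf (nat_lit 76) (nat_lit 695673339) (nat_lit 0) (nat_lit 7131552949) (nat_lit 380) (nat_lit 695673339) (nat_lit 223) (nat_lit 1) (nat_lit 222) (nat_lit 1) (nat_lit 227) (nat_lit 1) (nat_lit 297) (nat_lit 390) (nat_lit 333))))) (XT.nd (nat_lit 156) (nat_lit 608) (nat_lit 0) (XT.nd (nat_lit 78) (nat_lit 304) (nat_lit 0) (XT.lf (nat_lit 76) (nat_lit 3920367646) (nat_lit 0) (nat_lit 585423507) (nat_lit 304) (nat_lit 3920367646) (nat_lit 219) (nat_lit 1) (nat_lit 218) (nat_lit 1) (nat_lit 222) (nat_lit 1) (nat_lit 298) (nat_lit 390) (nat_lit 332)) (XT.lf (nat_lit 380) (nat_lit 5834338679) (nat_lit 0) (nat_lit 1248473393) (nat_lit 304) (nat_lit 1248473393) (nat_lit 219) (nat_lit 1) (nat_lit 214) (nat_lit 1) (nat_lit 218) (nat_lit 1) (nat_lit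 299) (nat_lit 390) (nat_lit 331))) (XT.nd (nat_lit 78) (nat_lit 608) (nat_lit 0) (XT.lf (nat_lit 76) (nat_lit 1914307536) (nat_lit 0) (nat_lit 4408877866) (nat_lit 380) (nat_lit 1914307536) (nat_lit 215) (nat_lit 1) (nat_lit 214) (nat_lit 1) (nat_lit 219) (nat_lit 1) (nat_lit 300) (nat_lit 390) (nat_lit 330)) (XT.nd (nat_lit 78) (nat_lit 380) (nat_lit 0) (XT.lf (nat_lit 304) (nat_lit 1838086307) (nat_lit 0) (nat_lit 3153543482) (nat_lit 228) (nat_lit 3153543482) (nat_lit 215) (nat_lit 1) (nat_lit 211) (nat_lit 1) (nat_lit 214) (nat_lit 1) (nat_lit 301) (nat_lit 390) (nat_lit 329)) (XT.lf (nat_lit 380) (nat_lit 7943386943) (nat_lit 0) (nat_lit 55780105) (nat_lit 304) (nat_lit 55780105) (nat_lit 211) (nat_lit 1) (nat_lit 206) (nat_lit 1) (nat_lit 210) (nat_lit 1) (nat_lit 302) (nat_lit 390) (nat_lit 328))))))))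
noncomputable def ec251 : XT := (XT.nd (nat_lit 1482) (nat_lit 2280) (nat_lit 0) (XT.nd (nat_lit 702) (nat_lit 1292) (nat_lit 0) (XT.nd (nat_lit 312) (nat_lit 760) (nat_lit 0) (XT.nd (nat_lit 156) (nat_lit 304) (nat_lit 0) (XT.nd (nat_lit 78) (nat_lit 228) (nat_lit 0) (XT.lf (nat_lit 76) (nat_lit 2959294523) (nat_lit 0) (nat_lit 2045954606) (nat_lit 380) (nat_lit 2959294523) (nat_lit 207) (nat_lit 1) (nat_lit 206) (nat_lit 1) (nat_lit 211) (nat_lit 1) (nat_lit 303) (nat_lit 390) (nat_lit 327)) (XT.lf (nat_lit 304) (nat_lit 3932707469) (nat_lit 0) (nat_lit 1971740786) (nat_lit 228) (nat_lit 1971740786) (nat_lit 207) (nat_lit 1) (nat_lit 203) (nat_lit 1) (nat_lit 206) (nat_lit 1) (nat_lit 304) (nat_lit 390) (nat_lit 326))) (XT.nd (nat_lit 78) (nat_lit 304) (nat_lit 0) (XT.lf (nat_lit 76) (nat_lit 982864702) (nat_lit 0) (nat_lit 5823544353) (nat_lit 304) (nat_lit 982864702) (nat_lit 204) (nat_lit 1) (nat_lit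 203) (nat_lit 1) (nat_lit 207) (nat_lit 1) (nat_lit 305) (nat_lit 390) (nat_lit 325)) (XT.lf (nat_lit 76) (nat_lit 3851097838) (nat_lit 0) (nat_lit 1031087) (nat_lit 304) (nat_lit 3851097838) (nat_lit 200) (nat_lit 1) (nat_lit 199) (nat_lit 1) (nat_lit 203) (nat_lit 1) (nat_lit 306) (nat_lit 390) (nat_lit 324)))) (XT.nd (nat_lit 156) (nat_lit 532) (nat_lit 0) (XT.nd (nat_lit 78) (nat_lit 0) (nat_lit 0) (XT.lf (nat_lit 304) (nat_lit 5726772847) (nat_lit 0) (nat_lit 945903284) (nat_lit 228) (nat_lit 945903284) (nat_lit 200) (nat_lit 1) (nat_lit 196) (nat_lit 1) (nat_lit 199) (nat_lit 1) (nat_lit 307) (nat_lit 390) (nat_lit 323)) (XT.lf (nat_lit 76) (nat_lit 1876092942) (nat_lit 0) (nat_lit 3782560161) (nat_lit 304) (nat_lit 1876092942) (nat_lit 197) (nat_lit 1) (nat_lit 196) (nat_lit 1) (nat_lit 200) (nat_lit 1) (nat_lit 308) (nat_lit 390) (nat_lit 322))) (XT.nd (nat_lit 78) (nat_lit 304) (nat_lit 0)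 (XT.lf (nat_lit 304) (nat_lit 1798027239) (nat_lit 0) (nat_lit 2827123535) (nat_lit 228) (nat_lit 2827123535) (nat_lit 197) (nat_lit 1) (nat_lit 193) (nat_lit 1) (nat_lit 196) (nat_lit 1) (nat_lit 309) (nat_lit 390) (nat_lit 321)) (XT.nd (nat_lit 78) (nat_lit 0) (nat_lit 0) (XT.lf (nat_lit 304) (nat_lit 7255749129) (nat_lit 0) (nat_lit 57934596) (nat_lit 228) (nat_lit 57934596) (nat_lit 193) (nat_lit 1) (nat_lit 189) (nat_lit 1) (nat_lit 192) (nat_lit 1) (nat_lit 310) (nat_lit 390) (nat_lit 320)) (XT.lf (nat_lit 76) (nat_lit 2640506011) (nat_lit 0) (nat_lit 2009703703) (nat_lit 304) (nat_lit 2640506011) (nat_lit 190) (nat_lit 1) (nat_lit 189) (nat_lit 1) (nat_lit 193) (nat_lit 1) (nat_lit 311) (nat_lit 390) (nat_lit 319)))))) (XT.nd (nat_lit 390) (nat_lit 608) (nat_lit 0) (XT.nd (nat_lit 156) (nat_lit 456) (nat_lit 0) (XT.nd (nat_lit 78) (nat_lit 0) (nat_lit 0) (XT.lf (nat_lit 304) (nat_lit 3344088554)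 (nat_lit 0) (nat_lit 1933753544) (nat_lit 228) (nat_lit 1933753544) (nat_lit 190) (nat_lit 1) (nat_lit 186) (nat_lit 1) (nat_lit 189) (nat_lit 1) (nat_lit 312) (nat_lit 390) (nat_lit 318)) (XT.lf (nat_lit 76) (nat_lit 715235272) (nat_lit 0) (nat_lit 5703345121) (nat_lit 304) (nat_lit 715235272) (nat_lit 187) (nat_lit 1) (nat_lit 186) (nat_lit 1) (nat_lit 190) (nat_lit 1) (nat_lit 313) (nat_lit 390) (nat_lit 317))) (XT.nd (nat_lit 78) (nat_lit 228) (nat_lit 0) (XT.lf (nat_lit 76) (nat_lit 3291319208) (nat_lit 0) (nat_lit 473894731) (nat_lit 228) (nat_lit 3291319208) (nat_lit 184) (nat_lit 1) (nat_lit 183) (nat_lit 1) (nat_lit 186) (nat_lit 1) (nat_lit 314) (nat_lit 390) (nat_lit 316)) (XT.nd (nat_lit 78) (nat_lit 0) (nat_lit 0) (XT.lf (nat_lit 304) (nat_lit 4666873194) (nat_lit 0) (nat_lit 1156844007) (nat_lit 228) (nat_lit 1156844007) (nat_lit 184) (nat_lit 1) (nat_lit 180) (nat_lit 1) (nat_lit 183)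 (nat_lit 1) (nat_lit 315) (nat_lit 390) (nat_lit 315)) (XT.lf (nat_lit 76) (nat_lit 1380350146) (nat_lit 0) (nat_lit 4144755927) (nat_lit 304) (nat_lit 1380350146) (nat_lit 181) (nat_lit 1) (nat_lit 180) (nat_lit 1) (nat_lit 184) (nat_lit 1) (nat_lit 316) (nat_lit 390) (nat_lit 314))))) (XT.nd (nat_lit 156) (nat_lit 152) (nat_lit 0) (XT.nd (nat_lit 78) (nat_lit 304) (nat_lit 0) (XT.lf (nat_lit 228) (nat_lit 869412127) (nat_lit 0) (nat_lit 2980971543) (nat_lit 152) (nat_lit 2980971543) (nat_lit 181) (nat_lit 1) (nat_lit 178) (nat_lit 1) (nat_lit 180) (nat_lit 1) (nat_lit 317) (nat_lit 390) (nat_lit 313)) (XT.lf (nat_lit 304) (nat_lit 5792761072) (nat_lit 0) (nat_lit 482917644) (nat_lit 228) (nat_lit 482917644) (nat_lit 178) (nat_lit 1) (nat_lit 174) (nat_lit 1) (nat_lit 177) (nat_lit 1) (nat_lit 318) (nat_lit 390) (nat_lit 312))) (XT.nd (nat_lit 78) (nat_lit 152) (nat_lit 0) (XT.lf (nat_lit 76) (nat_lit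 1949600770) (nat_lit 0) (nat_lit 2786841235) (nat_lit 304) (nat_lit 1949600770) (nat_lit 175) (nat_lit 1) (nat_lit 174) (nat_lit 1) (nat_lit 178) (nat_lit 1) (nat_lit 319) (nat_lit 390) (nat_lit 311)) (XT.nd (nat_lit 78) (nat_lit 0) (nat_lit 0) (XT.lf (nat_lit 228) (nat_lit 2033472254) (nat_lit 0) (nat_lit 2290667180) (nat_lit 152) (nat_lit 2290667180) (nat_lit 175) (nat_lit 1) (nat_lit 172) (nat_lit 1) (nat_lit 174) (nat_lit 1) (nat_lit 320) (nat_lit 390) (nat_lit 310)) (XT.lf (nat_lit 76) (nat_lit 100975605) (nat_lit 0) (nat_lit 6343107676) (nat_lit 228) (nat_lit 100975605) (nat_lit 173) (nat_lit 1) (nat_lit 172) (nat_lit 1) (nat_lit 175) (nat_lit 1) (nat_lit 321) (nat_lit 390) (nat_lit 309))))))) (XT.nd (nat_lit 702) (nat_lit 1140) (nat_lit 0) (XT.nd (nat_lit 312) (nat_lit 532) (nat_lit 0) (XT.nd (nat_lit 156) (nat_lit 228) (nat_lit 0) (XT.nd (nat_lit 78) (nat_lit 152) (nat_lit 0) (XT.lf (nat_lit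 76) (nat_lit 2434309153) (nat_lit 0) (nat_lit 1606440573) (nat_lit 228) (nat_lit 2434309153) (nat_lit 170) (nat_lit 1) (nat_lit 169) (nat_lit 1) (nat_lit 172) (nat_lit 1) (nat_lit 322) (nat_lit 390) (nat_lit 308)) (XT.lf (nat_lit 228) (nat_lit 3030996130) (nat_lit 0) (nat_lit 1687764601) (nat_lit 152) (nat_lit 1687764601) (nat_lit 170) (nat_lit 1) (nat_lit 167) (nat_lit 1) (nat_lit 169) (nat_lit 1) (nat_lit 323) (nat_lit 390) (nat_lit 307))) (XT.nd (nat_lit 78) (nat_lit 228) (nat_lit 0) (XT.lf (nat_lit 76) (nat_lit 608443533) (nat_lit 0) (nat_lit 5122226767) (nat_lit 228) (nat_lit 608443533) (nat_lit 168) (nat_lit 1) (nat_lit 167) (nat_lit 1) (nat_lit 170) (nat_lit 1) (nat_lit 324) (nat_lit 390) (nat_lit 306)) (XT.lf (nat_lit 76) (nat_lit 2844516347) (nat_lit 0) (nat_lit 582998954) (nat_lit 228) (nat_lit 2844516347) (nat_lit 165) (nat_lit 1) (nat_lit 164) (nat_lit 1) (nat_lit 167) (nat_lit 1) (nat_lit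 325) (nat_lit 390) (nat_lit 305)))) (XT.nd (nat_lit 156) (nat_lit 380) (nat_lit 0) (XT.nd (nat_lit 78) (nat_lit 0) (nat_lit 0) (XT.lf (nat_lit 228) (nat_lit 3881624463) (nat_lit 0) (nat_lit 1162213765) (nat_lit 152) (nat_lit 1162213765) (nat_lit 165) (nat_lit 1) (nat_lit 162) (nat_lit 1) (nat_lit 164) (nat_lit 1) (nat_lit 326) (nat_lit 390) (nat_lit 304)) (XT.lf (nat_lit 76) (nat_lit 1044213632) (nat_lit 0) (nat_lit 4052447434) (nat_lit 228) (nat_lit 1044213632) (nat_lit 163) (nat_lit 1) (nat_lit 162) (nat_lit 1) (nat_lit 165) (nat_lit 1) (nat_lit 327) (nat_lit 390) (nat_lit 303))) (XT.nd (nat_lit 78) (nat_lit 228) (nat_lit 0) (XT.lf (nat_lit 228) (nat_lit 307729233) (nat_lit 0) (nat_lit 2884354678) (nat_lit 152) (nat_lit 2884354678) (nat_lit 163) (nat_lit 1) (nat_lit 160) (nat_lit 1) (nat_lit 162) (nat_lit 1) (nat_lit 328) (nat_lit 390) (nat_lit 302)) (XT.nd (nat_lit 78) (nat_lit 0) (nat_lit 0) (XT.lf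 (nat_lit 228) (nat_lit 4602776613) (nat_lit 0) (nat_lit 705094184) (nat_lit 152) (nat_lit 705094184) (nat_lit 160) (nat_lit 1) (nat_lit 157) (nat_lit 1) (nat_lit 159) (nat_lit 1) (nat_lit 329) (nat_lit 390) (nat_lit 301)) (XT.lf (nat_lit 76) (nat_lit 1416721193) (nat_lit 0) (nat_lit 3116484236) (nat_lit 228) (nat_lit 1416721193) (nat_lit 158) (nat_lit 1) (nat_lit 157) (nat_lit 1) (nat_lit 160) (nat_lit 1) (nat_lit 330) (nat_lit 390) (nat_lit 300)))))) (XT.nd (nat_lit 390) (nat_lit 608) (nat_lit 0) (XT.nd (nat_lit 156) (nat_lit 152) (nat_lit 0) (XT.nd (nat_lit 78) (nat_lit 228) (nat_lit 0) (XT.lf (nat_lit 228) (nat_lit 1085088399) (nat_lit 0) (nat_lit 2401373008) (nat_lit 152) (nat_lit 2401373008) (nat_lit 158) (nat_lit 1) (nat_lit 155) (nat_lit 1) (nat_lit 157) (nat_lit 1) (nat_lit 331) (nat_lit 390) (nat_lit 299)) (XT.lf (nat_lit 228) (nat_lit 5209899204) (nat_lit 0) (nat_lit 308488708) (nat_lit 152)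 (nat_lit 308488708) (nat_lit 155) (nat_lit 1) (nat_lit 152) (nat_lit 1) (nat_lit 154) (nat_lit 1) (nat_lit 332) (nat_lit 390) (nat_lit 298))) (XT.nd (nat_lit 78) (nat_lit 152) (nat_lit 0) (XT.lf (nat_lit 76) (nat_lit 1733448048) (nat_lit 0) (nat_lit 2298991975) (nat_lit 228) (nat_lit 1733448048) (nat_lit 153) (nat_lit 1) (nat_lit 152) (nat_lit 1) (nat_lit 155) (nat_lit 1) (nat_lit 333) (nat_lit 390) (nat_lit 297)) (XT.nd (nat_lit 78) (nat_lit 0) (nat_lit 0) (XT.lf (nat_lit 228) (nat_lit 1752120932) (nat_lit 0) (nat_lit 1976949238) (nat_lit 152) (nat_lit 1976949238) (nat_lit 153) (nat_lit 1) (nat_lit 150) (nat_lit 1) (nat_lit 152) (nat_lit 1) (nat_lit 334) (nat_lit 390) (nat_lit 296)) (XT.lf (nat_lit 76) (nat_lit 34971472) (nat_lit 0) (nat_lit 5577446274) (nat_lit 228) (nat_lit 34971472) (nat_lit 151) (nat_lit 1) (nat_lit 150) (nat_lit 1) (nat_lit 153) (nat_lit 1) (nat_lit 335) (nat_lit 390) (nat_lit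 295))))) (XT.nd (nat_lit 156) (nat_lit 304) (nat_lit 0) (XT.nd (nat_lit 78) (nat_lit 152) (nat_lit 0) (XT.lf (nat_lit 76) (nat_lit 2001029263) (nat_lit 0) (nat_lit 1586348959) (nat_lit 152) (nat_lit 2001029263) (nat_lit 149) (nat_lit 1) (nat_lit 148) (nat_lit 1) (nat_lit 150) (nat_lit 1) (nat_lit 336) (nat_lit 390) (nat_lit 294)) (XT.lf (nat_lit 228) (nat_lit 2321818254) (nat_lit 0) (nat_lit 1604416532) (nat_lit 152) (nat_lit 1604416532) (nat_lit 149) (nat_lit 1) (nat_lit 146) (nat_lit 1) (nat_lit 148) (nat_lit 1) (nat_lit 337) (nat_lit 390) (nat_lit 293))) (XT.nd (nat_lit 78) (nat_lit 304) (nat_lit 0) (XT.lf (nat_lit 76) (nat_lit 333764359) (nat_lit 0) (nat_lit 4806379090) (nat_lit 228) (nat_lit 333764359) (nat_lit 147) (nat_lit 1) (nat_lit 146) (nat_lit 1) (nat_lit 149) (nat_lit 1) (nat_lit 338) (nat_lit 390) (nat_lit 292)) (XT.nd (nat_lit 78) (nat_lit 152) (nat_lit 0) (XT.lf (nat_lit 76) (nat_lit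 2225347926) (nat_lit 0) (nat_lit 966464450) (nat_lit 152) (nat_lit 2225347926) (nat_lit 145) (nat_lit 1) (nat_lit 144) (nat_lit 1) (nat_lit 146) (nat_lit 1) (nat_lit 339) (nat_lit 390) (nat_lit 291)) (XT.lf (nat_lit 228) (nat_lit 2805703017) (nat_lit 0) (nat_lit 1277855484) (nat_lit 152) (nat_lit 1277855484) (nat_lit 145) (nat_lit 1) (nat_lit 142) (nat_lit 1) (nat_lit 144) (nat_lit 1) (nat_lit 340) (nat_lit 390) (nat_lit 290))))))))
noncomputable def ec252 : XT := (XT.nd (nat_lit 1482) (nat_lit 1444) (nat_lit 0) (XT.nd (nat_lit 702) (nat_lit 912) (nat_lit 0) (XT.nd (nat_lit 312) (nat_lit 608) (nat_lit 0) (XT.nd (nat_lit 156) (nat_lit 152) (nat_lit 0) (XT.nd (nat_lit 78) (nat_lit 152) (nat_lit 0) (XT.lf (nat_lit 76) (nat_lit 590421679) (nat_lit 0) (nat_lit 4125638885) (nat_lit 228) (nat_lit 590421679) (nat_lit 143) (nat_lit 1) (nat_lit 142) (nat_lit 1) (nat_lit 145) (nat_lit 1) (nat_lit 341) (nat_lit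 390) (nat_lit 289)) (XT.lf (nat_lit 76) (nat_lit 2411619356) (nat_lit 0) (nat_lit 428607600) (nat_lit 152) (nat_lit 2411619356) (nat_lit 141) (nat_lit 1) (nat_lit 140) (nat_lit 1) (nat_lit 142) (nat_lit 1) (nat_lit 342) (nat_lit 390) (nat_lit 288))) (XT.nd (nat_lit 78) (nat_lit 0) (nat_lit 0) (XT.lf (nat_lit 228) (nat_lit 3213993482) (nat_lit 0) (nat_lit 992010643) (nat_lit 152) (nat_lit 992010643) (nat_lit 141) (nat_lit 1) (nat_lit 138) (nat_lit 1) (nat_lit 140) (nat_lit 1) (nat_lit 343) (nat_lit 390) (nat_lit 287)) (XT.lf (nat_lit 76) (nat_lit 809898877) (nat_lit 0) (nat_lit 3525026535) (nat_lit 228) (nat_lit 809898877) (nat_lit 139) (nat_lit 1) (nat_lit 138) (nat_lit 1) (nat_lit 141) (nat_lit 1) (nat_lit 344) (nat_lit 390) (nat_lit 286)))) (XT.nd (nat_lit 156) (nat_lit 304) (nat_lit 0) (XT.nd (nat_lit 78) (nat_lit 228) (nat_lit 0) (XT.lf (nat_lit 152) (nat_lit 37475828) (nat_lit 0) (nat_lit 2527350321)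 (nat_lit 76) (nat_lit 2527350321) (nat_lit 139) (nat_lit 1) (nat_lit 137) (nat_lit 1) (nat_lit 138) (nat_lit 1) (nat_lit 345) (nat_lit 390) (nat_lit 285)) (XT.lf (nat_lit 228) (nat_lit 3555749533) (nat_lit 0) (nat_lit 742216372) (nat_lit 152) (nat_lit 742216372) (nat_lit 137) (nat_lit 1) (nat_lit 134) (nat_lit 1) (nat_lit 136) (nat_lit 1) (nat_lit 346) (nat_lit 390) (nat_lit 284))) (XT.nd (nat_lit 78) (nat_lit 304) (nat_lit 0) (XT.lf (nat_lit 76) (nat_lit 996591325) (nat_lit 0) (nat_lit 2995483936) (nat_lit 228) (nat_lit 996591325) (nat_lit 135) (nat_lit 1) (nat_lit 134) (nat_lit 1) (nat_lit 137) (nat_lit 1) (nat_lit 347) (nat_lit 390) (nat_lit 283)) (XT.nd (nat_lit 78) (nat_lit 228) (nat_lit 0) (XT.lf (nat_lit 152) (nat_lit 446759934) (nat_lit 0) (nat_lit 2245518026) (nat_lit 76) (nat_lit 2245518026) (nat_lit 135) (nat_lit 1) (nat_lit 133) (nat_lit 1) (nat_lit 134) (nat_lit 1) (nat_lit 348) (nat_lit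 390) (nat_lit 282)) (XT.lf (nat_lit 228) (nat_lit 3839002408) (nat_lit 0) (nat_lit 524330958) (nat_lit 152) (nat_lit 524330958) (nat_lit 133) (nat_lit 1) (nat_lit 130) (nat_lit 1) (nat_lit 132) (nat_lit 1) (nat_lit 349) (nat_lit 390) (nat_lit 281)))))) (XT.nd (nat_lit 390) (nat_lit 532) (nat_lit 0) (XT.nd (nat_lit 156) (nat_lit 304) (nat_lit 0) (XT.nd (nat_lit 78) (nat_lit 76) (nat_lit 0) (XT.lf (nat_lit 76) (nat_lit 1154396992) (nat_lit 0) (nat_lit 2528966656) (nat_lit 228) (nat_lit 1154396992) (nat_lit 131) (nat_lit 1) (nat_lit 130) (nat_lit 1) (nat_lit 133) (nat_lit 1) (nat_lit 350) (nat_lit 390) (nat_lit 280)) (XT.lf (nat_lit 152) (nat_lit 798360946) (nat_lit 0) (nat_lit 1995113682) (nat_lit 76) (nat_lit 1995113682) (nat_lit 131) (nat_lit 1) (nat_lit 129) (nat_lit 1) (nat_lit 130) (nat_lit 1) (nat_lit 351) (nat_lit 390) (nat_lit 279))) (XT.nd (nat_lit 78) (nat_lit 76) (nat_lit 0) (XT.lf (nat_lit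 228) (nat_lit 4070869938) (nat_lit 0) (nat_lit 334678085) (nat_lit 152) (nat_lit 334678085) (nat_lit 129) (nat_lit 1) (nat_lit 126) (nat_lit 1) (nat_lit 128) (nat_lit 1) (nat_lit 352) (nat_lit 390) (nat_lit 278)) (XT.nd (nat_lit 78) (nat_lit 76) (nat_lit 0) (XT.lf (nat_lit 76) (nat_lit 1286772122) (nat_lit 0) (nat_lit 2118330795) (nat_lit 228) (nat_lit 1286772122) (nat_lit 127) (nat_lit 1) (nat_lit 126) (nat_lit 1) (nat_lit 129) (nat_lit 1) (nat_lit 353) (nat_lit 390) (nat_lit 277)) (XT.lf (nat_lit 152) (nat_lit 1099062031) (nat_lit 0) (nat_lit 1772632666) (nat_lit 76) (nat_lit 1772632666) (nat_lit 127) (nat_lit 1) (nat_lit 125) (nat_lit 1) (nat_lit 126) (nat_lit 1) (nat_lit 354) (nat_lit 390) (nat_lit 276))))) (XT.nd (nat_lit 156) (nat_lit 304) (nat_lit 0) (XT.nd (nat_lit 78) (nat_lit 0) (nat_lit 0) (XT.lf (nat_lit 228) (nat_lit 4257658924) (nat_lit 0) (nat_lit 169994833) (nat_lit 152) (nat_lit 169994833)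 (nat_lit 125) (nat_lit 1) (nat_lit 122) (nat_lit 1) (nat_lit 124) (nat_lit 1) (nat_lit 355) (nat_lit 390) (nat_lit 275)) (XT.lf (nat_lit 76) (nat_lit 1396780701) (nat_lit 0) (nat_lit 1757232461) (nat_lit 228) (nat_lit 1396780701) (nat_lit 123) (nat_lit 1) (nat_lit 122) (nat_lit 1) (nat_lit 125) (nat_lit 1) (nat_lit 356) (nat_lit 390) (nat_lit 274))) (XT.nd (nat_lit 78) (nat_lit 228) (nat_lit 0) (XT.lf (nat_lit 152) (nat_lit 1354879729) (nat_lit 0) (nat_lit 1574961164) (nat_lit 76) (nat_lit 1574961164) (nat_lit 123) (nat_lit 1) (nat_lit 121) (nat_lit 1) (nat_lit 122) (nat_lit 1) (nat_lit 357) (nat_lit 390) (nat_lit 273)) (XT.nd (nat_lit 78) (nat_lit 0) (nat_lit 0) (XT.lf (nat_lit 228) (nat_lit 4404956080) (nat_lit 0) (nat_lit 27385478) (nat_lit 152) (nat_lit 27385478) (nat_lit 121) (nat_lit 1) (nat_lit 118) (nat_lit 1) (nat_lit 120) (nat_lit 1) (nat_lit 358) (nat_lit 390) (nat_lit 272)) (XT.lf (nat_lit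 76) (nat_lit 1487138394) (nat_lit 0) (nat_lit 1440038463) (nat_lit 228) (nat_lit 1487138394) (nat_lit 119) (nat_lit 1) (nat_lit 118) (nat_lit 1) (nat_lit 121) (nat_lit 1) (nat_lit 359) (nat_lit 390) (nat_lit 271))))))) (XT.nd (nat_lit 702) (nat_lit 760) (nat_lit 0) (XT.nd (nat_lit 312) (nat_lit 380) (nat_lit 0) (XT.nd (nat_lit 156) (nat_lit 228) (nat_lit 0) (XT.nd (nat_lit 78) (nat_lit 0) (nat_lit 0) (XT.lf (nat_lit 152) (nat_lit 1571149742) (nat_lit 0) (nat_lit 1399332595) (nat_lit 76) (nat_lit 1399332595) (nat_lit 119) (nat_lit 1) (nat_lit 117) (nat_lit 1) (nat_lit 118) (nat_lit 1) (nat_lit 360) (nat_lit 390) (nat_lit 270)) (XT.lf (nat_lit 0) (nat_lit 96667268) (nat_lit 0) (nat_lit 4132823119) (nat_lit 152) (nat_lit 96667268) (nat_lit 117) (nat_lit 3) (nat_lit 117) (nat_lit 1) (nat_lit 119) (nat_lit 1) (nat_lit 361) (nat_lit 390) (nat_lit 269))) (XT.nd (nat_lit 78) (nat_lit 76) (nat_lit 0) (XT.lf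 (nat_lit 76) (nat_lit 1560251582) (nat_lit 0) (nat_lit 1161746961) (nat_lit 152) (nat_lit 1560251582) (nat_lit 116) (nat_lit 1) (nat_lit 115) (nat_lit 1) (nat_lit 117) (nat_lit 1) (nat_lit 362) (nat_lit 390) (nat_lit 268)) (XT.lf (nat_lit 152) (nat_lit 1752603138) (nat_lit 0) (nat_lit 1243288886) (nat_lit 76) (nat_lit 1243288886) (nat_lit 116) (nat_lit 1) (nat_lit 114) (nat_lit 1) (nat_lit 115) (nat_lit 1) (nat_lit 363) (nat_lit 390) (nat_lit 267)))) (XT.nd (nat_lit 156) (nat_lit 228) (nat_lit 0) (XT.nd (nat_lit 78) (nat_lit 152) (nat_lit 0) (XT.lf (nat_lit 0) (nat_lit 203596177) (nat_lit 0) (nat_lit 3789668374) (nat_lit 152) (nat_lit 203596177) (nat_lit 114) (nat_lit 3) (nat_lit 114) (nat_lit 1) (nat_lit 116) (nat_lit 1) (nat_lit 364) (nat_lit 390) (nat_lit 266)) (XT.lf (nat_lit 76) (nat_lit 1618252041) (nat_lit 0) (nat_lit 917916970) (nat_lit 152) (nat_lit 1618252041) (nat_lit 113) (nat_lit 1) (nat_lit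 112) (nat_lit 1) (nat_lit 114) (nat_lit 1) (nat_lit 365) (nat_lit 390) (nat_lit 265))) (XT.nd (nat_lit 78) (nat_lit 152) (nat_lit 0) (XT.lf (nat_lit 152) (nat_lit 1903434065) (nat_lit 0) (nat_lit 1104646072) (nat_lit 76) (nat_lit 1104646072) (nat_lit 113) (nat_lit 1) (nat_lit 111) (nat_lit 1) (nat_lit 112) (nat_lit 1) (nat_lit 366) (nat_lit 390) (nat_lit 264)) (XT.nd (nat_lit 78) (nat_lit 152) (nat_lit 0) (XT.lf (nat_lit 0) (nat_lit 295172723) (nat_lit 0) (nat_lit 3481351423) (nat_lit 152) (nat_lit 295172723) (nat_lit 111) (nat_lit 3) (nat_lit 111) (nat_lit 1) (nat_lit 113) (nat_lit 1) (nat_lit 367) (nat_lit 390) (nat_lit 263)) (XT.lf (nat_lit 76) (nat_lit 1663027745) (nat_lit 0) (nat_lit 704605730) (nat_lit 152) (nat_lit 1663027745) (nat_lit 110) (nat_lit 1) (nat_lit 109) (nat_lit 1) (nat_lit 111) (nat_lit 1) (nat_lit 368) (nat_lit 390) (nat_lit 262)))))) (XT.nd (nat_lit 390) (nat_lit 456) (nat_lit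 0) (XT.nd (nat_lit 156) (nat_lit 228) (nat_lit 0) (XT.nd (nat_lit 78) (nat_lit 0) (nat_lit 0) (XT.lf (nat_lit 152) (nat_lit 2027359888) (nat_lit 0) (nat_lit 981463728) (nat_lit 76) (nat_lit 981463728) (nat_lit 110) (nat_lit 1) (nat_lit 108) (nat_lit 1) (nat_lit 109) (nat_lit 1) (nat_lit 369) (nat_lit 390) (nat_lit 261)) (XT.lf (nat_lit 0) (nat_lit 373208750) (nat_lit 0) (nat_lit 3204087258) (nat_lit 152) (nat_lit 373208750) (nat_lit 108) (nat_lit 3) (nat_lit 108) (nat_lit 1) (nat_lit 110) (nat_lit 1) (nat_lit 370) (nat_lit 390) (nat_lit 260))) (XT.nd (nat_lit 78) (nat_lit 76) (nat_lit 0) (XT.lf (nat_lit 76) (nat_lit 1696250229) (nat_lit 0) (nat_lit 518313057) (nat_lit 152) (nat_lit 1696250229) (nat_lit 107) (nat_lit 1) (nat_lit 106) (nat_lit 1) (nat_lit 108) (nat_lit 1) (nat_lit 371) (nat_lit 390) (nat_lit 259)) (XT.nd (nat_lit 78) (nat_lit 0) (nat_lit 0) (XT.lf (nat_lit 152) (nat_lit 2127674628) (nat_lit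 0) (nat_lit 872017810) (nat_lit 76) (nat_lit 872017810) (nat_lit 107) (nat_lit 1) (nat_lit 105) (nat_lit 1) (nat_lit 106) (nat_lit 1) (nat_lit 372) (nat_lit 390) (nat_lit 258)) (XT.lf (nat_lit 0) (nat_lit 439311149) (nat_lit 0) (nat_lit 2954510038) (nat_lit 152) (nat_lit 439311149) (nat_lit 105) (nat_lit 3) (nat_lit 105) (nat_lit 1) (nat_lit 107) (nat_lit 1) (nat_lit 373) (nat_lit 390) (nat_lit 257))))) (XT.nd (nat_lit 156) (nat_lit 228) (nat_lit 0) (XT.nd (nat_lit 78) (nat_lit 76) (nat_lit 0) (XT.lf (nat_lit 76) (nat_lit 1719398900) (nat_lit 0) (nat_lit 355931905) (nat_lit 152) (nat_lit 1719398900) (nat_lit 104) (nat_lit 1) (nat_lit 103) (nat_lit 1) (nat_lit 105) (nat_lit 1) (nat_lit 374) (nat_lit 390) (nat_lit 256)) (XT.lf (nat_lit 152) (nat_lit 2207296423) (nat_lit 0) (nat_lit 774776530) (nat_lit 76) (nat_lit 774776530) (nat_lit 104) (nat_lit 1) (nat_lit 102) (nat_lit 1) (nat_lit 103) (nat_lit 1)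 (nat_lit 375) (nat_lit 390) (nat_lit 255))) (XT.nd (nat_lit 78) (nat_lit 228) (nat_lit 0) (XT.lf (nat_lit 0) (nat_lit 494904799) (nat_lit 0) (nat_lit 2729626434) (nat_lit 152) (nat_lit 494904799) (nat_lit 102) (nat_lit 3) (nat_lit 102) (nat_lit 1) (nat_lit 104) (nat_lit 1) (nat_lit 376) (nat_lit 390) (nat_lit 254)) (XT.nd (nat_lit 78) (nat_lit 76) (nat_lit 0) (XT.lf (nat_lit 76) (nat_lit 1733782624) (nat_lit 0) (nat_lit 214704448) (nat_lit 152) (nat_lit 1733782624) (nat_lit 101) (nat_lit 1) (nat_lit 100) (nat_lit 1) (nat_lit 102) (nat_lit 1) (nat_lit 377) (nat_lit 390) (nat_lit 253)) (XT.lf (nat_lit 152) (nat_lit 2268809694) (nat_lit 0) (nat_lit 688378912) (nat_lit 76) (nat_lit 688378912) (nat_lit 101) (nat_lit 1) (nat_lit 99) (nat_lit 1) (nat_lit 100) (nat_lit 1) (nat_lit 378) (nat_lit 390) (nat_lit 252))))))))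
noncomputable def ec253 : XT := (XT.nd (nat_lit 1482) (nat_lit 1444) (nat_lit 0) (XT.nd (nat_lit 702) (nat_lit 684) (nat_lit 0) (XT.nd (nat_lit 312) (nat_lit 456) (nat_lit 0) (XT.nd (nat_lit 156) (nat_lit 76) (nat_lit 0) (XT.nd (nat_lit 78) (nat_lit 152) (nat_lit 0) (XT.lf (nat_lit 0) (nat_lit 541252943) (nat_lit 0) (nat_lit 2526774172) (nat_lit 152) (nat_lit 541252943) (nat_lit 99) (nat_lit 3) (nat_lit 99) (nat_lit 1) (nat_lit 101) (nat_lit 1) (nat_lit 379) (nat_lit 390) (nat_lit 251)) (XT.lf (nat_lit 76) (nat_lit 1740558913) (nat_lit 0) (nat_lit 92183054) (nat_lit 152) (nat_lit 1740558913) (nat_lit 98) (nat_lit 1) (nat_lit 97) (nat_lit 1) (nat_lit 99) (nat_lit 1) (nat_lit 380) (nat_lit 390) (nat_lit 250))) (XT.nd (nat_lit 78) (nat_lit 0) (nat_lit 0) (XT.lf (nat_lit 152) (nat_lit 2314502602) (nat_lit 0) (nat_lit 611615747) (nat_lit 76) (nat_lit 611615747) (nat_lit 98) (nat_lit 1) (nat_lit 96) (nat_lit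 1) (nat_lit 97) (nat_lit 1) (nat_lit 381) (nat_lit 390) (nat_lit 249)) (XT.lf (nat_lit 0) (nat_lit 579475297) (nat_lit 0) (nat_lit 2343585192) (nat_lit 152) (nat_lit 579475297) (nat_lit 96) (nat_lit 3) (nat_lit 96) (nat_lit 1) (nat_lit 98) (nat_lit 1) (nat_lit 382) (nat_lit 390) (nat_lit 248)))) (XT.nd (nat_lit 156) (nat_lit 228) (nat_lit 0) (XT.nd (nat_lit 78) (nat_lit 152) (nat_lit 0) (XT.lf (nat_lit 76) (nat_lit 14079117) (nat_lit 0) (nat_lit 1726807170) (nat_lit 76) (nat_lit 1726807170) (nat_lit 96) (nat_lit 3) (nat_lit 95) (nat_lit 1) (nat_lit 96) (nat_lit 1) (nat_lit 383) (nat_lit 390) (nat_lit 247)) (XT.lf (nat_lit 152) (nat_lit 2346400316) (nat_lit 0) (nat_lit 543412669) (nat_lit 76) (nat_lit 543412669) (nat_lit 95) (nat_lit 1) (nat_lit 93) (nat_lit 1) (nat_lit 94) (nat_lit 1) (nat_lit 384) (nat_lit 390) (nat_lit 246))) (XT.nd (nat_lit 78) (nat_lit 228) (nat_lit 0) (XT.lf (nat_lit 0) (nat_lit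 610564128) (nat_lit 0) (nat_lit 2177952921) (nat_lit 152) (nat_lit 610564128) (nat_lit 93) (nat_lit 3) (nat_lit 93) (nat_lit 1) (nat_lit 95) (nat_lit 1) (nat_lit 385) (nat_lit 390) (nat_lit 245)) (XT.nd (nat_lit 78) (nat_lit 152) (nat_lit 0) (XT.lf (nat_lit 76) (nat_lit 107278633) (nat_lit 0) (nat_lit 1629015325) (nat_lit 76) (nat_lit 1629015325) (nat_lit 93) (nat_lit 3) (nat_lit 92) (nat_lit 1) (nat_lit 93) (nat_lit 1) (nat_lit 386) (nat_lit 390) (nat_lit 244)) (XT.lf (nat_lit 152) (nat_lit 2366294574) (nat_lit 0) (nat_lit 482815118) (nat_lit 76) (nat_lit 482815118) (nat_lit 92) (nat_lit 1) (nat_lit 90) (nat_lit 1) (nat_lit 91) (nat_lit 1) (nat_lit 387) (nat_lit 390) (nat_lit 243)))))) (XT.nd (nat_lit 390) (nat_lit 380) (nat_lit 0) (XT.nd (nat_lit 156) (nat_lit 228) (nat_lit 0) (XT.nd (nat_lit 78) (nat_lit 76) (nat_lit 0) (XT.lf (nat_lit 0) (nat_lit 635398546) (nat_lit 0) (nat_lit 2028003187) (nat_lit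 152) (nat_lit 635398546) (nat_lit 90) (nat_lit 3) (nat_lit 90) (nat_lit 1) (nat_lit 92) (nat_lit 1) (nat_lit 388) (nat_lit 390) (nat_lit 242)) (XT.lf (nat_lit 76) (nat_lit 187324919) (nat_lit 0) (nat_lit 1539368260) (nat_lit 76) (nat_lit 1539368260) (nat_lit 90) (nat_lit 3) (nat_lit 89) (nat_lit 1) (nat_lit 90) (nat_lit 1) (nat_lit 389) (nat_lit 390) (nat_lit 241))) (XT.nd (nat_lit 78) (nat_lit 76) (nat_lit 0) (XT.lf (nat_lit 152) (nat_lit 2375769929) (nat_lit 0) (nat_lit 428974979) (nat_lit 76) (nat_lit 428974979) (nat_lit 89) (nat_lit 1) (nat_lit 87) (nat_lit 1) (nat_lit 88) (nat_lit 1) (nat_lit 390) (nat_lit 390) (nat_lit 240)) (XT.nd (nat_lit 78) (nat_lit 76) (nat_lit 0) (XT.lf (nat_lit 0) (nat_lit 654757189) (nat_lit 0) (nat_lit 1892068376) (nat_lit 152) (nat_lit 654757189) (nat_lit 87) (nat_lit 3) (nat_lit 87) (nat_lit 1) (nat_lit 89) (nat_lit 1) (nat_lit 391) (nat_lit 390) (nat_lit 239)) (XT.lf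 (nat_lit 76) (nat_lit 255765126) (nat_lit 0) (nat_lit 1457038123) (nat_lit 76) (nat_lit 1457038123) (nat_lit 87) (nat_lit 3) (nat_lit 86) (nat_lit 1) (nat_lit 87) (nat_lit 1) (nat_lit 392) (nat_lit 390) (nat_lit 238))))) (XT.nd (nat_lit 156) (nat_lit 228) (nat_lit 0) (XT.nd (nat_lit 78) (nat_lit 0) (nat_lit 0) (XT.lf (nat_lit 152) (nat_lit 2376227071) (nat_lit 0) (nat_lit 381138713) (nat_lit 76) (nat_lit 381138713) (nat_lit 86) (nat_lit 1) (nat_lit 84) (nat_lit 1) (nat_lit 85) (nat_lit 1) (nat_lit 393) (nat_lit 390) (nat_lit 237)) (XT.lf (nat_lit 0) (nat_lit 669329507) (nat_lit 0) (nat_lit 1768664470) (nat_lit 152) (nat_lit 669329507) (nat_lit 84) (nat_lit 3) (nat_lit 84) (nat_lit 1) (nat_lit 86) (nat_lit 1) (nat_lit 394) (nat_lit 390) (nat_lit 236))) (XT.nd (nat_lit 78) (nat_lit 152) (nat_lit 0) (XT.lf (nat_lit 76) (nat_lit 313971538) (nat_lit 0) (nat_lit 1381287037) (nat_lit 76) (nat_lit 1381287037)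 (nat_lit 84) (nat_lit 3) (nat_lit 83) (nat_lit 1) (nat_lit 84) (nat_lit 1) (nat_lit 395) (nat_lit 390) (nat_lit 235)) (XT.nd (nat_lit 78) (nat_lit 0) (nat_lit 0) (XT.lf (nat_lit 152) (nat_lit 2368903539) (nat_lit 0) (nat_lit 338636810) (nat_lit 76) (nat_lit 338636810) (nat_lit 83) (nat_lit 1) (nat_lit 81) (nat_lit 1) (nat_lit 82) (nat_lit 1) (nat_lit 396) (nat_lit 390) (nat_lit 234)) (XT.lf (nat_lit 0) (nat_lit 679725767) (nat_lit 0) (nat_lit 1656470644) (nat_lit 152) (nat_lit 679725767) (nat_lit 81) (nat_lit 3) (nat_lit 81) (nat_lit 1) (nat_lit 83) (nat_lit 1) (nat_lit 397) (nat_lit 390) (nat_lit 233))))))) (XT.nd (nat_lit 702) (nat_lit 760) (nat_lit 0) (XT.nd (nat_lit 312) (nat_lit 380) (nat_lit 0) (XT.nd (nat_lit 156) (nat_lit 76) (nat_lit 0) (XT.nd (nat_lit 78) (nat_lit 152) (nat_lit 0) (XT.lf (nat_lit 76) (nat_lit 363161137) (nat_lit 0) (nat_lit 1311457133) (nat_lit 76) (nat_lit 1311457133) (nat_lit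 81) (nat_lit 3) (nat_lit 80) (nat_lit 1) (nat_lit 81) (nat_lit 1) (nat_lit 398) (nat_lit 390) (nat_lit 232)) (XT.lf (nat_lit 152) (nat_lit 2354892116) (nat_lit 0) (nat_lit 300874419) (nat_lit 76) (nat_lit 300874419) (nat_lit 80) (nat_lit 1) (nat_lit 78) (nat_lit 1) (nat_lit 79) (nat_lit 1) (nat_lit 399) (nat_lit 390) (nat_lit 231))) (XT.nd (nat_lit 78) (nat_lit 76) (nat_lit 0) (XT.lf (nat_lit 0) (nat_lit 686485957) (nat_lit 0) (nat_lit 1554311129) (nat_lit 152) (nat_lit 686485957) (nat_lit 78) (nat_lit 3) (nat_lit 78) (nat_lit 1) (nat_lit 80) (nat_lit 1) (nat_lit 400) (nat_lit 390) (nat_lit 230)) (XT.lf (nat_lit 76) (nat_lit 404412987) (nat_lit 0) (nat_lit 1246961697) (nat_lit 76) (nat_lit 1246961697) (nat_lit 78) (nat_lit 3) (nat_lit 77) (nat_lit 1) (nat_lit 78) (nat_lit 1) (nat_lit 401) (nat_lit 390) (nat_lit 229)))) (XT.nd (nat_lit 156) (nat_lit 228) (nat_lit 0) (XT.nd (nat_lit 78) (nat_lit 0) (nat_lit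 0) (XT.lf (nat_lit 152) (nat_lit 2335157167) (nat_lit 0) (nat_lit 267323025) (nat_lit 76) (nat_lit 267323025) (nat_lit 77) (nat_lit 1) (nat_lit 75) (nat_lit 1) (nat_lit 76) (nat_lit 1) (nat_lit 402) (nat_lit 390) (nat_lit 228)) (XT.lf (nat_lit 0) (nat_lit 690087684) (nat_lit 0) (nat_lit 1461139109) (nat_lit 152) (nat_lit 690087684) (nat_lit 75) (nat_lit 3) (nat_lit 75) (nat_lit 1) (nat_lit 77) (nat_lit 1) (nat_lit 403) (nat_lit 390) (nat_lit 227))) (XT.nd (nat_lit 78) (nat_lit 152) (nat_lit 0) (XT.lf (nat_lit 76) (nat_lit 438683682) (nat_lit 0) (nat_lit 1187277299) (nat_lit 76) (nat_lit 1187277299) (nat_lit 75) (nat_lit 3) (nat_lit 74) (nat_lit 1) (nat_lit 75) (nat_lit 1) (nat_lit 404) (nat_lit 390) (nat_lit 226)) (XT.nd (nat_lit 78) (nat_lit 0) (nat_lit 0) (XT.lf (nat_lit 152) (nat_lit 2310549153) (nat_lit 0) (nat_lit 237513045) (nat_lit 76) (nat_lit 237513045) (nat_lit 74) (nat_lit 1) (nat_lit 72)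 (nat_lit 1) (nat_lit 73) (nat_lit 1) (nat_lit 405) (nat_lit 390) (nat_lit 225)) (XT.lf (nat_lit 0) (nat_lit 690953196) (nat_lit 0) (nat_lit 1376022400) (nat_lit 152) (nat_lit 690953196) (nat_lit 72) (nat_lit 3) (nat_lit 72) (nat_lit 1) (nat_lit 74) (nat_lit 1) (nat_lit 406) (nat_lit 390) (nat_lit 224)))))) (XT.nd (nat_lit 390) (nat_lit 304) (nat_lit 0) (XT.nd (nat_lit 156) (nat_lit 228) (nat_lit 0) (XT.nd (nat_lit 78) (nat_lit 152) (nat_lit 0) (XT.lf (nat_lit 76) (nat_lit 466821062) (nat_lit 0) (nat_lit 1131936795) (nat_lit 76) (nat_lit 1131936795) (nat_lit 72) (nat_lit 3) (nat_lit 71) (nat_lit 1) (nat_lit 72) (nat_lit 1) (nat_lit 407) (nat_lit 390) (nat_lit 223)) (XT.lf (nat_lit 152) (nat_lit 2281817516) (nat_lit 0) (nat_lit 211027264) (nat_lit 76) (nat_lit 211027264) (nat_lit 71) (nat_lit 1) (nat_lit 69) (nat_lit 1) (nat_lit 70) (nat_lit 1) (nat_lit 408) (nat_lit 390) (nat_lit 222))) (XT.nd (nat_lit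 78) (nat_lit 228) (nat_lit 0) (XT.lf (nat_lit 0) (nat_lit 689455612) (nat_lit 0) (nat_lit 1298130727) (nat_lit 152) (nat_lit 689455612) (nat_lit 69) (nat_lit 3) (nat_lit 69) (nat_lit 1) (nat_lit 71) (nat_lit 1) (nat_lit 409) (nat_lit 390) (nat_lit 221)) (XT.nd (nat_lit 78) (nat_lit 152) (nat_lit 0) (XT.lf (nat_lit 76) (nat_lit 489576402) (nat_lit 0) (nat_lit 1080523116) (nat_lit 76) (nat_lit 1080523116) (nat_lit 69) (nat_lit 3) (nat_lit 68) (nat_lit 1) (nat_lit 69) (nat_lit 1) (nat_lit 410) (nat_lit 390) (nat_lit 220)) (XT.lf (nat_lit 152) (nat_lit 2249622123) (nat_lit 0) (nat_lit 187494991) (nat_lit 76) (nat_lit 187494991) (nat_lit 68) (nat_lit 1) (nat_lit 66) (nat_lit 1) (nat_lit 67) (nat_lit 1) (nat_lit 411) (nat_lit 390) (nat_lit 219))))) (XT.nd (nat_lit 156) (nat_lit 228) (nat_lit 0) (XT.nd (nat_lit 78) (nat_lit 76) (nat_lit 0) (XT.lf (nat_lit 0) (nat_lit 685924465) (nat_lit 0) (nat_lit 1226724421)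 (nat_lit 152) (nat_lit 685924465) (nat_lit 66) (nat_lit 3) (nat_lit 66) (nat_lit 1) (nat_lit 68) (nat_lit 1) (nat_lit 412) (nat_lit 390) (nat_lit 218)) (XT.lf (nat_lit 76) (nat_lit 507615238) (nat_lit 0) (nat_lit 1032663739) (nat_lit 76) (nat_lit 1032663739) (nat_lit 66) (nat_lit 3) (nat_lit 65) (nat_lit 1) (nat_lit 66) (nat_lit 1) (nat_lit 413) (nat_lit 390) (nat_lit 217))) (XT.nd (nat_lit 78) (nat_lit 76) (nat_lit 0) (XT.lf (nat_lit 152) (nat_lit 2214543435) (nat_lit 0) (nat_lit 166586871) (nat_lit 76) (nat_lit 166586871) (nat_lit 65) (nat_lit 1) (nat_lit 63) (nat_lit 1) (nat_lit 64) (nat_lit 1) (nat_lit 414) (nat_lit 390) (nat_lit 216)) (XT.nd (nat_lit 78) (nat_lit 76) (nat_lit 0) (XT.lf (nat_lit 0) (nat_lit 680650619) (nat_lit 0) (nat_lit 1161144375) (nat_lit 152) (nat_lit 680650619) (nat_lit 63) (nat_lit 3) (nat_lit 63) (nat_lit 1) (nat_lit 65) (nat_lit 1) (nat_lit 415) (nat_lit 390) (nat_lit 215))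 (XT.lf (nat_lit 76) (nat_lit 521526988) (nat_lit 0) (nat_lit 988025781) (nat_lit 76) (nat_lit 988025781) (nat_lit 63) (nat_lit 3) (nat_lit 62) (nat_lit 1) (nat_lit 63) (nat_lit 1) (nat_lit 416) (nat_lit 390) (nat_lit 214))))))))
noncomputable def ec254 : XT := (XT.nd (nat_lit 39624) (nat_lit 0) (nat_lit 21432) (XT.nd (nat_lit 702) (nat_lit 380) (nat_lit 0) (XT.nd (nat_lit 312) (nat_lit 304) (nat_lit 0) (XT.nd (nat_lit 156) (nat_lit 228) (nat_lit 0) (XT.nd (nat_lit 78) (nat_lit 0) (nat_lit 0) (XT.lf (nat_lit 152) (nat_lit 2177091524) (nat_lit 0) (nat_lit 148010277) (nat_lit 76) (nat_lit 148010277) (nat_lit 62) (nat_lit 1) (nat_lit 60) (nat_lit 1) (nat_lit 61) (nat_lit 1) (nat_lit 417) (nat_lit 390) (nat_lit 213)) (XT.lf (nat_lit 0) (nat_lit 673890634) (nat_lit 0) (nat_lit 1100803113) (nat_lit 152) (nat_lit 673890634) (nat_lit 60) (nat_lit 3) (nat_lit 60) (nat_lit 1) (nat_lit 62) (nat_lit 1) (nat_lit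 418) (nat_lit 390) (nat_lit 212))) (XT.nd (nat_lit 78) (nat_lit 152) (nat_lit 0) (XT.lf (nat_lit 76) (nat_lit 531833492) (nat_lit 0) (nat_lit 946311627) (nat_lit 76) (nat_lit 946311627) (nat_lit 60) (nat_lit 3) (nat_lit 59) (nat_lit 1) (nat_lit 60) (nat_lit 1) (nat_lit 419) (nat_lit 390) (nat_lit 211)) (XT.lf (nat_lit 152) (nat_lit 2137714092) (nat_lit 0) (nat_lit 131505214) (nat_lit 76) (nat_lit 131505214) (nat_lit 59) (nat_lit 1) (nat_lit 57) (nat_lit 1) (nat_lit 58) (nat_lit 1) (nat_lit 420) (nat_lit 390) (nat_lit 210)))) (XT.nd (nat_lit 156) (nat_lit 228) (nat_lit 0) (XT.nd (nat_lit 78) (nat_lit 76) (nat_lit 0) (XT.lf (nat_lit 0) (nat_lit 665870648) (nat_lit 0) (nat_lit 1045176856) (nat_lit 152) (nat_lit 665870648) (nat_lit 57) (nat_lit 3) (nat_lit 57) (nat_lit 1) (nat_lit 59) (nat_lit 1) (nat_lit 421) (nat_lit 390) (nat_lit 209)) (XT.lf (nat_lit 76) (nat_lit 538996604) (nat_lit 0) (nat_lit 907255059)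 (nat_lit 76) (nat_lit 907255059) (nat_lit 57) (nat_lit 3) (nat_lit 56) (nat_lit 1) (nat_lit 57) (nat_lit 1) (nat_lit 422) (nat_lit 390) (nat_lit 208))) (XT.nd (nat_lit 78) (nat_lit 76) (nat_lit 0) (XT.lf (nat_lit 152) (nat_lit 2096803584) (nat_lit 0) (nat_lit 116840679) (nat_lit 76) (nat_lit 116840679) (nat_lit 56) (nat_lit 1) (nat_lit 54) (nat_lit 1) (nat_lit 55) (nat_lit 1) (nat_lit 423) (nat_lit 390) (nat_lit 207)) (XT.nd (nat_lit 78) (nat_lit 76) (nat_lit 0) (XT.lf (nat_lit 0) (nat_lit 656789823) (nat_lit 0) (nat_lit 993798476) (nat_lit 152) (nat_lit 656789823) (nat_lit 54) (nat_lit 3) (nat_lit 54) (nat_lit 1) (nat_lit 56) (nat_lit 1) (nat_lit 424) (nat_lit 390) (nat_lit 206)) (XT.lf (nat_lit 76) (nat_lit 543424933) (nat_lit 0) (nat_lit 870617800) (nat_lit 76) (nat_lit 870617800) (nat_lit 54) (nat_lit 3) (nat_lit 53) (nat_lit 1) (nat_lit 54) (nat_lit 1) (nat_lit 425) (nat_lit 390) (nat_lit 205))))))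 (XT.nd (nat_lit 38532) (nat_lit 0) (nat_lit 24776) (XT.nd (nat_lit 156) (nat_lit 228) (nat_lit 0) (XT.nd (nat_lit 78) (nat_lit 0) (nat_lit 0) (XT.lf (nat_lit 152) (nat_lit 2054703508) (nat_lit 0) (nat_lit 103811430) (nat_lit 76) (nat_lit 103811430) (nat_lit 53) (nat_lit 1) (nat_lit 51) (nat_lit 1) (nat_lit 52) (nat_lit 1) (nat_lit 426) (nat_lit 390) (nat_lit 204)) (XT.lf (nat_lit 0) (nat_lit 646823403) (nat_lit 0) (nat_lit 946251226) (nat_lit 152) (nat_lit 646823403) (nat_lit 51) (nat_lit 3) (nat_lit 51) (nat_lit 1) (nat_lit 53) (nat_lit 1) (nat_lit 427) (nat_lit 390) (nat_lit 203))) (XT.nd (nat_lit 78) (nat_lit 152) (nat_lit 0) (XT.lf (nat_lit 76) (nat_lit 545479832) (nat_lit 0) (nat_lit 836186457) (nat_lit 76) (nat_lit 836186457) (nat_lit 51) (nat_lit 3) (nat_lit 50) (nat_lit 1) (nat_lit 51) (nat_lit 1) (nat_lit 428) (nat_lit 390) (nat_lit 202)) (XT.nd (nat_lit 38220) (nat_lit 0) (nat_lit 24776) (XT.lf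 (nat_lit 152) (nat_lit 2011714037) (nat_lit 0) (nat_lit 92235111) (nat_lit 76) (nat_lit 92235111) (nat_lit 50) (nat_lit 1) (nat_lit 48) (nat_lit 1) (nat_lit 49) (nat_lit 1) (nat_lit 429) (nat_lit 390) (nat_lit 201)) (XT.lf (nat_lit 1292) (nat_lit 1684081625) (nat_lit 0) (nat_lit 5794024004) (nat_lit 1292) (nat_lit 1684081625) (nat_lit 391) (nat_lit 1) (nat_lit 374) (nat_lit 0) (nat_lit 391) (nat_lit 0) (nat_lit 238) (nat_lit 391) (nat_lit 391))))) (XT.nd (nat_lit 156) (nat_lit 0) (nat_lit 76) (XT.nd (nat_lit 78) (nat_lit 0) (nat_lit 76) (XT.lf (nat_lit 1292) (nat_lit 6581420501) (nat_lit 76) (nat_lit 5737219847) (nat_lit 0) (nat_lit 5737219847) (nat_lit 391) (nat_lit 1) (nat_lit 375) (nat_lit 1) (nat_lit 374) (nat_lit 0) (nat_lit 239) (nat_lit 391) (nat_lit 390)) (XT.lf (nat_lit 1292) (nat_lit 3182931874) (nat_lit 0) (nat_lit 11427405001) (nat_lit 1216) (nat_lit 3182931874) (nat_lit 392) (nat_lit 1)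 (nat_lit 375) (nat_lit 1) (nat_lit 391) (nat_lit 1) (nat_lit 240) (nat_lit 391) (nat_lit 389))) (XT.nd (nat_lit 78) (nat_lit 0) (nat_lit 76) (XT.lf (nat_lit 1292) (nat_lit 6044551964) (nat_lit 76) (nat_lit 5745255262) (nat_lit 0) (nat_lit 5745255262) (nat_lit 392) (nat_lit 1) (nat_lit 376) (nat_lit 1) (nat_lit 375) (nat_lit 1) (nat_lit 241) (nat_lit 391) (nat_lit 388)) (XT.nd (nat_lit 78) (nat_lit 0) (nat_lit 0) (XT.lf (nat_lit 1292) (nat_lit 2836375863) (nat_lit 0) (nat_lit 11609881953) (nat_lit 1216) (nat_lit 2836375863) (nat_lit 393) (nat_lit 1) (nat_lit 376) (nat_lit 1) (nat_lit 392) (nat_lit 1) (nat_lit 242) (nat_lit 391) (nat_lit 387)) (XT.lf (nat_lit 1292) (nat_lit 5197958251) (nat_lit 76) (nat_lit 5918141851) (nat_lit 0) (nat_lit 5918141851) (nat_lit 393) (nat_lit 1) (nat_lit 377) (nat_lit 1) (nat_lit 376) (nat_lit 1) (nat_lit 243) (nat_lit 391) (nat_lit 386))))))) (XT.nd (nat_lit 702) (nat_lit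 2508) (nat_lit 0) (XT.nd (nat_lit 312) (nat_lit 1064) (nat_lit 0) (XT.nd (nat_lit 156) (nat_lit 0) (nat_lit 76) (XT.nd (nat_lit 78) (nat_lit 0) (nat_lit 0) (XT.lf (nat_lit 1292) (nat_lit 2342764389) (nat_lit 0) (nat_lit 12106057180) (nat_lit 1216) (nat_lit 2342764389) (nat_lit 394) (nat_lit 1) (nat_lit 377) (nat_lit 1) (nat_lit 393) (nat_lit 1) (nat_lit 244) (nat_lit 391) (nat_lit 385)) (XT.lf (nat_lit 1292) (nat_lit 4069337600) (nat_lit 76) (nat_lit 6241601557) (nat_lit 0) (nat_lit 6241601557) (nat_lit 394) (nat_lit 1) (nat_lit 378) (nat_lit 1) (nat_lit 377) (nat_lit 1) (nat_lit 245) (nat_lit 391) (nat_lit 384))) (XT.nd (nat_lit 78) (nat_lit 0) (nat_lit 0) (XT.lf (nat_lit 1292) (nat_lit 1715401633) (nat_lit 0) (nat_lit 12888481179) (nat_lit 1216) (nat_lit 1715401633) (nat_lit 395) (nat_lit 1) (nat_lit 378) (nat_lit 1) (nat_lit 394) (nat_lit 1) (nat_lit 246) (nat_lit 391) (nat_lit 383)) (XT.lf (nat_lit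 1292) (nat_lit 2684509363) (nat_lit 76) (nat_lit 6702316183) (nat_lit 0) (nat_lit 6702316183) (nat_lit 395) (nat_lit 1) (nat_lit 379) (nat_lit 1) (nat_lit 378) (nat_lit 1) (nat_lit 247) (nat_lit 391) (nat_lit 382)))) (XT.nd (nat_lit 156) (nat_lit 1216) (nat_lit 0) (XT.nd (nat_lit 78) (nat_lit 0) (nat_lit 0) (XT.lf (nat_lit 1292) (nat_lit 966686436) (nat_lit 0) (nat_lit 13931555169) (nat_lit 1216) (nat_lit 966686436) (nat_lit 396) (nat_lit 1) (nat_lit 379) (nat_lit 1) (nat_lit 395) (nat_lit 1) (nat_lit 248) (nat_lit 391) (nat_lit 381)) (XT.lf (nat_lit 1292) (nat_lit 1067530271) (nat_lit 76) (nat_lit 7287868205) (nat_lit 0) (nat_lit 7287868205) (nat_lit 396) (nat_lit 1) (nat_lit 380) (nat_lit 1) (nat_lit 379) (nat_lit 1) (nat_lit 249) (nat_lit 391) (nat_lit 380))) (XT.nd (nat_lit 78) (nat_lit 1292) (nat_lit 0) (XT.lf (nat_lit 1292) (nat_lit 108168390) (nat_lit 0) (nat_lit 15211416844) (nat_lit 1216) (nat_lit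 108168390) (nat_lit 397) (nat_lit 1) (nat_lit 380) (nat_lit 1) (nat_lit 396) (nat_lit 1) (nat_lit 250) (nat_lit 391) (nat_lit 379)) (XT.nd (nat_lit 78) (nat_lit 0) (nat_lit 0) (XT.lf (nat_lit 1368) (nat_lit 7234786759) (nat_lit 0) (nat_lit 744381553) (nat_lit 1292) (nat_lit 7234786759) (nat_lit 381) (nat_lit 1) (nat_lit 363) (nat_lit 1) (nat_lit 380) (nat_lit 1) (nat_lit 251) (nat_lit 391) (nat_lit 378)) (XT.lf (nat_lit 1368) (nat_lit 13323905428) (nat_lit 76) (nat_lit 841071962) (nat_lit 0) (nat_lit 841071962) (nat_lit 381) (nat_lit 1) (nat_lit 364) (nat_lit 1) (nat_lit 363) (nat_lit 1) (nat_lit 252) (nat_lit 391) (nat_lit 377)))))) (XT.nd (nat_lit 390) (nat_lit 1824) (nat_lit 0) (XT.nd (nat_lit 156) (nat_lit 760) (nat_lit 0) (XT.nd (nat_lit 78) (nat_lit 0) (nat_lit 0) (XT.lf (nat_lit 1368) (nat_lit 6039843227) (nat_lit 0) (nat_lit 2720670360) (nat_lit 1292) (nat_lit 6039843227) (nat_lit 382) (nat_lit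 1) (nat_lit 364) (nat_lit 1) (nat_lit 381) (nat_lit 1) (nat_lit 253) (nat_lit 391) (nat_lit 376)) (XT.lf (nat_lit 1368) (nat_lit 10845033631) (nat_lit 76) (nat_lit 1877422400) (nat_lit 0) (nat_lit 1877422400) (nat_lit 382) (nat_lit 1) (nat_lit 365) (nat_lit 1) (nat_lit 364) (nat_lit 1) (nat_lit 254) (nat_lit 391) (nat_lit 375))) (XT.nd (nat_lit 78) (nat_lit 836) (nat_lit 0) (XT.lf (nat_lit 76) (nat_lit 4769482499) (nat_lit 0) (nat_lit 4863146753) (nat_lit 1292) (nat_lit 4769482499) (nat_lit 366) (nat_lit 1) (nat_lit 365) (nat_lit 1) (nat_lit 382) (nat_lit 1) (nat_lit 255) (nat_lit 391) (nat_lit 374)) (XT.nd (nat_lit 78) (nat_lit 0) (nat_lit 0) (XT.lf (nat_lit 912) (nat_lit 8223259289) (nat_lit 0) (nat_lit 2992728649) (nat_lit 836) (nat_lit 2992728649) (nat_lit 366) (nat_lit 1) (nat_lit 354) (nat_lit 1) (nat_lit 365) (nat_lit 1) (nat_lit 256) (nat_lit 391) (nat_lit 373)) (XT.lf (nat_lit 76) (nat_lit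 3432228348) (nat_lit 0) (nat_lit 7154126186) (nat_lit 912) (nat_lit 3432228348) (nat_lit 355) (nat_lit 1) (nat_lit 354) (nat_lit 1) (nat_lit 366) (nat_lit 1) (nat_lit 257) (nat_lit 391) (nat_lit 372))))) (XT.nd (nat_lit 156) (nat_lit 1216) (nat_lit 0) (XT.nd (nat_lit 78) (nat_lit 0) (nat_lit 0) (XT.lf (nat_lit 684) (nat_lit 5475092388) (nat_lit 0) (nat_lit 4178425898) (nat_lit 608) (nat_lit 4178425898) (nat_lit 355) (nat_lit 1) (nat_lit 346) (nat_lit 1) (nat_lit 354) (nat_lit 1) (nat_lit 258) (nat_lit 391) (nat_lit 371)) (XT.lf (nat_lit 76) (nat_lit 2035993082) (nat_lit 0) (nat_lit 9577176502) (nat_lit 684) (nat_lit 2035993082) (nat_lit 347) (nat_lit 1) (nat_lit 346) (nat_lit 1) (nat_lit 355) (nat_lit 1) (nat_lit 259) (nat_lit 391) (nat_lit 370))) (XT.nd (nat_lit 78) (nat_lit 608) (nat_lit 0) (XT.lf (nat_lit 684) (nat_lit 2615853225) (nat_lit 0) (nat_lit 5426558442) (nat_lit 608) (nat_lit 5426558442)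 (nat_lit 347) (nat_lit 1) (nat_lit 338) (nat_lit 1) (nat_lit 346) (nat_lit 1) (nat_lit 260) (nat_lit 391) (nat_lit 369)) (XT.nd (nat_lit 78) (nat_lit 608) (nat_lit 0) (XT.lf (nat_lit 76) (nat_lit 588116194) (nat_lit 0) (nat_lit 12117039135) (nat_lit 684) (nat_lit 588116194) (nat_lit 339) (nat_lit 1) (nat_lit 338) (nat_lit 1) (nat_lit 347) (nat_lit 1) (nat_lit 261) (nat_lit 391) (nat_lit 368)) (XT.lf (nat_lit 76) (nat_lit 6392759759) (nat_lit 0) (nat_lit 333612698) (nat_lit 608) (nat_lit 6392759759) (nat_lit 331) (nat_lit 1) (nat_lit 330) (nat_lit 1) (nat_lit 338) (nat_lit 1) (nat_lit 262) (nat_lit 391) (nat_lit 367))))))))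
noncomputable def ec255 : XT := (XT.nd (nat_lit 1482) (nat_lit 4104) (nat_lit 0) (XT.nd (nat_lit 702) (nat_lit 2584) (nat_lit 0) (XT.nd (nat_lit 312) (nat_lit 1596) (nat_lit 0) (XT.nd (nat_lit 156) (nat_lit 532) (nat_lit 0) (XT.nd (nat_lit 78) (nat_lit 0) (nat_lit 0) (XT.lf (nat_lit 684) (nat_lit 11157846350) (nat_lit 0) (nat_lit 895730674) (nat_lit 608) (nat_lit 895730674) (nat_lit 331) (nat_lit 1) (nat_lit 322) (nat_lit 1) (nat_lit 330) (nat_lit 1) (nat_lit 263) (nat_lit 391) (nat_lit 366)) (XT.lf (nat_lit 76) (nat_lit 4733553706) (nat_lit 0) (nat_lit 3314104433) (nat_lit 684) (nat_lit 4733553706) (nat_lit 323) (nat_lit 1) (nat_lit 322) (nat_lit 1) (nat_lit 331) (nat_lit 1) (nat_lit 264) (nat_lit 391) (nat_lit 365))) (XT.nd (nat_lit 78) (nat_lit 0) (nat_lit 0) (XT.lf (nat_lit 608) (nat_lit 7793122077) (nat_lit 0) (nat_lit 2411971781) (nat_lit 532) (nat_lit 2411971781) (nat_lit 323) (nat_lit 1) (nat_lit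 315) (nat_lit 1) (nat_lit 322) (nat_lit 1) (nat_lit 265) (nat_lit 391) (nat_lit 364)) (XT.lf (nat_lit 76) (nat_lit 3045366986) (nat_lit 0) (nat_lit 6364719053) (nat_lit 608) (nat_lit 3045366986) (nat_lit 316) (nat_lit 1) (nat_lit 315) (nat_lit 1) (nat_lit 323) (nat_lit 1) (nat_lit 266) (nat_lit 391) (nat_lit 363)))) (XT.nd (nat_lit 156) (nat_lit 1064) (nat_lit 0) (XT.nd (nat_lit 78) (nat_lit 0) (nat_lit 0) (XT.lf (nat_lit 608) (nat_lit 4375530780) (nat_lit 0) (nat_lit 3960599670) (nat_lit 532) (nat_lit 3960599670) (nat_lit 316) (nat_lit 1) (nat_lit 308) (nat_lit 1) (nat_lit 315) (nat_lit 1) (nat_lit 267) (nat_lit 391) (nat_lit 362)) (XT.lf (nat_lit 76) (nat_lit 1333481438) (nat_lit 0) (nat_lit 9474405530) (nat_lit 608) (nat_lit 1333481438) (nat_lit 309) (nat_lit 1) (nat_lit 308) (nat_lit 1) (nat_lit 316) (nat_lit 1) (nat_lit 268) (nat_lit 391) (nat_lit 361))) (XT.nd (nat_lit 78) (nat_lit 608) (nat_lit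 0) (XT.lf (nat_lit 532) (nat_lit 915272756) (nat_lit 0) (nat_lit 5536276803) (nat_lit 456) (nat_lit 5536276803) (nat_lit 309) (nat_lit 1) (nat_lit 302) (nat_lit 1) (nat_lit 308) (nat_lit 1) (nat_lit 269) (nat_lit 391) (nat_lit 360)) (XT.nd (nat_lit 78) (nat_lit 0) (nat_lit 0) (XT.lf (nat_lit 608) (nat_lit 11051361398) (nat_lit 0) (nat_lit 393335275) (nat_lit 532) (nat_lit 393335275) (nat_lit 302) (nat_lit 1) (nat_lit 294) (nat_lit 1) (nat_lit 301) (nat_lit 1) (nat_lit 270) (nat_lit 391) (nat_lit 359)) (XT.lf (nat_lit 76) (nat_lit 4580611087) (nat_lit 0) (nat_lit 2527935074) (nat_lit 608) (nat_lit 4580611087) (nat_lit 295) (nat_lit 1) (nat_lit 294) (nat_lit 1) (nat_lit 302) (nat_lit 1) (nat_lit 271) (nat_lit 391) (nat_lit 358)))))) (XT.nd (nat_lit 390) (nat_lit 1216) (nat_lit 0) (XT.nd (nat_lit 156) (nat_lit 912) (nat_lit 0) (XT.nd (nat_lit 78) (nat_lit 0) (nat_lit 0) (XT.lf (nat_lit 532) (nat_lit 7301351873)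 (nat_lit 0) (nat_lit 2121272489) (nat_lit 456) (nat_lit 2121272489) (nat_lit 295) (nat_lit 1) (nat_lit 288) (nat_lit 1) (nat_lit 294) (nat_lit 1) (nat_lit 272) (nat_lit 391) (nat_lit 357)) (XT.lf (nat_lit 76) (nat_lit 2711680968) (nat_lit 0) (nat_lit 5977399848) (nat_lit 532) (nat_lit 2711680968) (nat_lit 289) (nat_lit 1) (nat_lit 288) (nat_lit 1) (nat_lit 295) (nat_lit 1) (nat_lit 273) (nat_lit 391) (nat_lit 356))) (XT.nd (nat_lit 78) (nat_lit 456) (nat_lit 0) (XT.lf (nat_lit 532) (nat_lit 3541468779) (nat_lit 0) (nat_lit 3859310035) (nat_lit 456) (nat_lit 3859310035) (nat_lit 289) (nat_lit 1) (nat_lit 282) (nat_lit 1) (nat_lit 288) (nat_lit 1) (nat_lit 274) (nat_lit 391) (nat_lit 355)) (XT.nd (nat_lit 78) (nat_lit 456) (nat_lit 0) (XT.lf (nat_lit 76) (nat_lit 839661998) (nat_lit 0) (nat_lit 9443167907) (nat_lit 532) (nat_lit 839661998) (nat_lit 283) (nat_lit 1) (nat_lit 282) (nat_lit 1) (nat_lit 289)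 (nat_lit 1) (nat_lit 275) (nat_lit 391) (nat_lit 354)) (XT.lf (nat_lit 76) (nat_lit 5384647203) (nat_lit 0) (nat_lit 216847939) (nat_lit 456) (nat_lit 5384647203) (nat_lit 277) (nat_lit 1) (nat_lit 276) (nat_lit 1) (nat_lit 282) (nat_lit 1) (nat_lit 276) (nat_lit 391) (nat_lit 353))))) (XT.nd (nat_lit 156) (nat_lit 760) (nat_lit 0) (XT.nd (nat_lit 78) (nat_lit 0) (nat_lit 0) (XT.lf (nat_lit 532) (nat_lit 8808885940) (nat_lit 0) (nat_lit 1021935588) (nat_lit 456) (nat_lit 1021935588) (nat_lit 277) (nat_lit 1) (nat_lit 270) (nat_lit 1) (nat_lit 276) (nat_lit 1) (nat_lit 277) (nat_lit 391) (nat_lit 352)) (XT.lf (nat_lit 76) (nat_lit 3409180028) (nat_lit 0) (nat_lit 3902356545) (nat_lit 532) (nat_lit 3409180028) (nat_lit 271) (nat_lit 1) (nat_lit 270) (nat_lit 1) (nat_lit 277) (nat_lit 1) (nat_lit 278) (nat_lit 391) (nat_lit 351))) (XT.nd (nat_lit 78) (nat_lit 380) (nat_lit 0) (XT.lf (nat_lit 456) (nat_lit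 4847552256) (nat_lit 0) (nat_lit 2871927674) (nat_lit 380) (nat_lit 2871927674) (nat_lit 271) (nat_lit 1) (nat_lit 265) (nat_lit 1) (nat_lit 270) (nat_lit 1) (nat_lit 279) (nat_lit 391) (nat_lit 350)) (XT.nd (nat_lit 78) (nat_lit 380) (nat_lit 0) (XT.lf (nat_lit 76) (nat_lit 1443075529) (nat_lit 0) (nat_lit 7578315900) (nat_lit 456) (nat_lit 1443075529) (nat_lit 266) (nat_lit 1) (nat_lit 265) (nat_lit 1) (nat_lit 271) (nat_lit 1) (nat_lit 280) (nat_lit 391) (nat_lit 349)) (XT.lf (nat_lit 456) (nat_lit 907580837) (nat_lit 0) (nat_lit 4715739390) (nat_lit 380) (nat_lit 4715739390) (nat_lit 266) (nat_lit 1) (nat_lit 260) (nat_lit 1) (nat_lit 265) (nat_lit 1) (nat_lit 281) (nat_lit 391) (nat_lit 348))))))) (XT.nd (nat_lit 702) (nat_lit 2204) (nat_lit 0) (XT.nd (nat_lit 312) (nat_lit 1064) (nat_lit 0) (XT.nd (nat_lit 156) (nat_lit 380) (nat_lit 0) (XT.nd (nat_lit 78) (nat_lit 0) (nat_lit 0) (XT.lf (nat_lit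 456) (nat_lit 9204126506) (nat_lit 0) (nat_lit 506162031) (nat_lit 380) (nat_lit 506162031) (nat_lit 260) (nat_lit 1) (nat_lit 254) (nat_lit 1) (nat_lit 259) (nat_lit 1) (nat_lit 282) (nat_lit 391) (nat_lit 347)) (XT.lf (nat_lit 76) (nat_lit 3573456762) (nat_lit 0) (nat_lit 2947590758) (nat_lit 456) (nat_lit 3573456762) (nat_lit 255) (nat_lit 1) (nat_lit 254) (nat_lit 1) (nat_lit 260) (nat_lit 1) (nat_lit 283) (nat_lit 391) (nat_lit 346))) (XT.nd (nat_lit 78) (nat_lit 0) (nat_lit 0) (XT.lf (nat_lit 456) (nat_lit 5120721419) (nat_lit 0) (nat_lit 2427273361) (nat_lit 380) (nat_lit 2427273361) (nat_lit 255) (nat_lit 1) (nat_lit 249) (nat_lit 1) (nat_lit 254) (nat_lit 1) (nat_lit 284) (nat_lit 391) (nat_lit 345)) (XT.lf (nat_lit 76) (nat_lit 1551422203) (nat_lit 0) (nat_lit 6755183787) (nat_lit 456) (nat_lit 1551422203) (nat_lit 250) (nat_lit 1) (nat_lit 249) (nat_lit 1) (nat_lit 255) (nat_lit 1) (nat_lit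 285) (nat_lit 391) (nat_lit 344)))) (XT.nd (nat_lit 156) (nat_lit 304) (nat_lit 0) (XT.nd (nat_lit 78) (nat_lit 456) (nat_lit 0) (XT.lf (nat_lit 380) (nat_lit 1077513218) (nat_lit 0) (nat_lit 4332380416) (nat_lit 304) (nat_lit 4332380416) (nat_lit 250) (nat_lit 1) (nat_lit 245) (nat_lit 1) (nat_lit 249) (nat_lit 1) (nat_lit 286) (nat_lit 391) (nat_lit 343)) (XT.lf (nat_lit 456) (nat_lit 8738381648) (nat_lit 0) (nat_lit 445338799) (nat_lit 380) (nat_lit 445338799) (nat_lit 245) (nat_lit 1) (nat_lit 239) (nat_lit 1) (nat_lit 244) (nat_lit 1) (nat_lit 287) (nat_lit 391) (nat_lit 342))) (XT.nd (nat_lit 78) (nat_lit 304) (nat_lit 0) (XT.lf (nat_lit 76) (nat_lit 3325596465) (nat_lit 0) (nat_lit 2865127388) (nat_lit 456) (nat_lit 3325596465) (nat_lit 240) (nat_lit 1) (nat_lit 239) (nat_lit 1) (nat_lit 245) (nat_lit 1) (nat_lit 288) (nat_lit 391) (nat_lit 341)) (XT.nd (nat_lit 78) (nat_lit 0) (nat_lit 0) (XT.lf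 (nat_lit 380) (nat_lit 4596706635) (nat_lit 0) (nat_lit 2404670137) (nat_lit 304) (nat_lit 2404670137) (nat_lit 240) (nat_lit 1) (nat_lit 235) (nat_lit 1) (nat_lit 239) (nat_lit 1) (nat_lit 289) (nat_lit 391) (nat_lit 340)) (XT.lf (nat_lit 76) (nat_lit 1278273899) (nat_lit 0) (nat_lit 6741111959) (nat_lit 380) (nat_lit 1278273899) (nat_lit 236) (nat_lit 1) (nat_lit 235) (nat_lit 1) (nat_lit 240) (nat_lit 1) (nat_lit 290) (nat_lit 391) (nat_lit 339)))))) (XT.nd (nat_lit 390) (nat_lit 1216) (nat_lit 0) (XT.nd (nat_lit 156) (nat_lit 304) (nat_lit 0) (XT.nd (nat_lit 78) (nat_lit 380) (nat_lit 0) (XT.lf (nat_lit 380) (nat_lit 509721730) (nat_lit 0) (nat_lit 4340391424) (nat_lit 304) (nat_lit 4340391424) (nat_lit 236) (nat_lit 1) (nat_lit 231) (nat_lit 1) (nat_lit 235) (nat_lit 1) (nat_lit 291) (nat_lit 391) (nat_lit 338)) (XT.lf (nat_lit 380) (nat_lit 7617463917) (nat_lit 0) (nat_lit 734000069) (nat_lit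 304) (nat_lit 734000069) (nat_lit 231) (nat_lit 1) (nat_lit 226) (nat_lit 1) (nat_lit 230) (nat_lit 1) (nat_lit 292) (nat_lit 391) (nat_lit 337))) (XT.nd (nat_lit 78) (nat_lit 304) (nat_lit 0) (XT.lf (nat_lit 76) (nat_lit 2764729080) (nat_lit 0) (nat_lit 3451685378) (nat_lit 380) (nat_lit 2764729080) (nat_lit 227) (nat_lit 1) (nat_lit 226) (nat_lit 1) (nat_lit 231) (nat_lit 1) (nat_lit 293) (nat_lit 391) (nat_lit 336)) (XT.nd (nat_lit 78) (nat_lit 0) (nat_lit 0) (XT.lf (nat_lit 380) (nat_lit 3468428055) (nat_lit 0) (nat_lit 2705223899) (nat_lit 304) (nat_lit 2705223899) (nat_lit 227) (nat_lit 1) (nat_lit 222) (nat_lit 1) (nat_lit 226) (nat_lit 1) (nat_lit 294) (nat_lit 391) (nat_lit 335)) (XT.lf (nat_lit 76) (nat_lit 716543540) (nat_lit 0) (nat_lit 7345499538) (nat_lit 380) (nat_lit 716543540) (nat_lit 223) (nat_lit 1) (nat_lit 222) (nat_lit 1) (nat_lit 227) (nat_lit 1) (nat_lit 295) (nat_lit 391) (nat_lit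 334))))) (XT.nd (nat_lit 156) (nat_lit 608) (nat_lit 0) (XT.nd (nat_lit 78) (nat_lit 304) (nat_lit 0) (XT.lf (nat_lit 76) (nat_lit 4037978676) (nat_lit 0) (nat_lit 602986212) (nat_lit 304) (nat_lit 4037978676) (nat_lit 219) (nat_lit 1) (nat_lit 218) (nat_lit 1) (nat_lit 222) (nat_lit 1) (nat_lit 296) (nat_lit 391) (nat_lit 333)) (XT.lf (nat_lit 380) (nat_lit 6009368840) (nat_lit 0) (nat_lit 1285927595) (nat_lit 304) (nat_lit 1285927595) (nat_lit 219) (nat_lit 1) (nat_lit 214) (nat_lit 1) (nat_lit 218) (nat_lit 1) (nat_lit 297) (nat_lit 391) (nat_lit 332))) (XT.nd (nat_lit 78) (nat_lit 608) (nat_lit 0) (XT.lf (nat_lit 76) (nat_lit 1971736762) (nat_lit 0) (nat_lit 4541144202) (nat_lit 380) (nat_lit 1971736762) (nat_lit 215) (nat_lit 1) (nat_lit 214) (nat_lit 1) (nat_lit 219) (nat_lit 1) (nat_lit 298) (nat_lit 391) (nat_lit 331)) (XT.nd (nat_lit 78) (nat_lit 380) (nat_lit 0) (XT.lf (nat_lit 304) (nat_lit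 1893228896) (nat_lit 0) (nat_lit 3248149786) (nat_lit 228) (nat_lit 3248149786) (nat_lit 215) (nat_lit 1) (nat_lit 211) (nat_lit 1) (nat_lit 214) (nat_lit 1) (nat_lit 299) (nat_lit 391) (nat_lit 330)) (XT.lf (nat_lit 380) (nat_lit 8181688551) (nat_lit 0) (nat_lit 57453508) (nat_lit 304) (nat_lit 57453508) (nat_lit 211) (nat_lit 1) (nat_lit 206) (nat_lit 1) (nat_lit 210) (nat_lit 1) (nat_lit 300) (nat_lit 391) (nat_lit 329))))))))
noncomputable def ec256 : XT := (XT.nd (nat_lit 1404) (nat_lit 2128) (nat_lit 0) (XT.nd (nat_lit 702) (nat_lit 1292) (nat_lit 0) (XT.nd (nat_lit 312) (nat_lit 760) (nat_lit 0) (XT.nd (nat_lit 156) (nat_lit 304) (nat_lit 0) (XT.nd (nat_lit 78) (nat_lit 228) (nat_lit 0) (XT.lf (nat_lit 76) (nat_lit 3048073359) (nat_lit 0) (nat_lit 2107333244) (nat_lit 380) (nat_lit 3048073359) (nat_lit 207) (nat_lit 1) (nat_lit 206) (nat_lit 1) (nat_lit 211) (nat_lit 1) (nat_lit 301) (nat_lit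 391) (nat_lit 328)) (XT.lf (nat_lit 304) (nat_lit 4050688693) (nat_lit 0) (nat_lit 2030893009) (nat_lit 228) (nat_lit 2030893009) (nat_lit 207) (nat_lit 1) (nat_lit 203) (nat_lit 1) (nat_lit 206) (nat_lit 1) (nat_lit 302) (nat_lit 391) (nat_lit 327))) (XT.nd (nat_lit 78) (nat_lit 304) (nat_lit 0) (XT.lf (nat_lit 76) (nat_lit 1012350643) (nat_lit 0) (nat_lit 5998250683) (nat_lit 304) (nat_lit 1012350643) (nat_lit 204) (nat_lit 1) (nat_lit 203) (nat_lit 1) (nat_lit 207) (nat_lit 1) (nat_lit 303) (nat_lit 391) (nat_lit 326)) (XT.lf (nat_lit 76) (nat_lit 3966630773) (nat_lit 0) (nat_lit 1062020) (nat_lit 304) (nat_lit 3966630773) (nat_lit 200) (nat_lit 1) (nat_lit 199) (nat_lit 1) (nat_lit 203) (nat_lit 1) (nat_lit 304) (nat_lit 391) (nat_lit 325)))) (XT.nd (nat_lit 156) (nat_lit 532) (nat_lit 0) (XT.nd (nat_lit 78) (nat_lit 0) (nat_lit 0) (XT.lf (nat_lit 304) (nat_lit 5898576032) (nat_lit 0) (nat_lit 974280382)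 (nat_lit 228) (nat_lit 974280382) (nat_lit 200) (nat_lit 1) (nat_lit 196) (nat_lit 1) (nat_lit 199) (nat_lit 1) (nat_lit 305) (nat_lit 391) (nat_lit 324)) (XT.lf (nat_lit 76) (nat_lit 1932375730) (nat_lit 0) (nat_lit 3896036966) (nat_lit 304) (nat_lit 1932375730) (nat_lit 197) (nat_lit 1) (nat_lit 196) (nat_lit 1) (nat_lit 200) (nat_lit 1) (nat_lit 306) (nat_lit 391) (nat_lit 323))) (XT.nd (nat_lit 78) (nat_lit 304) (nat_lit 0) (XT.lf (nat_lit 304) (nat_lit 1851968056) (nat_lit 0) (nat_lit 2911937241) (nat_lit 228) (nat_lit 2911937241) (nat_lit 197) (nat_lit 1) (nat_lit 193) (nat_lit 1) (nat_lit 196) (nat_lit 1) (nat_lit 307) (nat_lit 391) (nat_lit 322)) (XT.nd (nat_lit 78) (nat_lit 0) (nat_lit 0) (XT.lf (nat_lit 304) (nat_lit 7473421603) (nat_lit 0) (nat_lit 59672634) (nat_lit 228) (nat_lit 59672634) (nat_lit 193) (nat_lit 1) (nat_lit 189) (nat_lit 1) (nat_lit 192) (nat_lit 1) (nat_lit 308) (nat_lit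 391) (nat_lit 321)) (XT.lf (nat_lit 76) (nat_lit 2719721192) (nat_lit 0) (nat_lit 2069994814) (nat_lit 304) (nat_lit 2719721192) (nat_lit 190) (nat_lit 1) (nat_lit 189) (nat_lit 1) (nat_lit 193) (nat_lit 1) (nat_lit 309) (nat_lit 391) (nat_lit 320)))))) (XT.nd (nat_lit 312) (nat_lit 608) (nat_lit 0) (XT.nd (nat_lit 156) (nat_lit 456) (nat_lit 0) (XT.nd (nat_lit 78) (nat_lit 0) (nat_lit 0) (XT.lf (nat_lit 304) (nat_lit 3444411211) (nat_lit 0) (nat_lit 1991766150) (nat_lit 228) (nat_lit 1991766150) (nat_lit 190) (nat_lit 1) (nat_lit 186) (nat_lit 1) (nat_lit 189) (nat_lit 1) (nat_lit 310) (nat_lit 391) (nat_lit 319)) (XT.lf (nat_lit 76) (nat_lit 736692330) (nat_lit 0) (nat_lit 5874445475) (nat_lit 304) (nat_lit 736692330) (nat_lit 187) (nat_lit 1) (nat_lit 186) (nat_lit 1) (nat_lit 190) (nat_lit 1) (nat_lit 311) (nat_lit 391) (nat_lit 318))) (XT.nd (nat_lit 78) (nat_lit 228) (nat_lit 0) (XT.lf (nat_lit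 76) (nat_lit 3390058785) (nat_lit 0) (nat_lit 488111573) (nat_lit 228) (nat_lit 3390058785) (nat_lit 184) (nat_lit 1) (nat_lit 183) (nat_lit 1) (nat_lit 186) (nat_lit 1) (nat_lit 312) (nat_lit 391) (nat_lit 317)) (XT.lf (nat_lit 304) (nat_lit 4806879389) (nat_lit 0) (nat_lit 1191549327) (nat_lit 228) (nat_lit 1191549327) (nat_lit 184) (nat_lit 1) (nat_lit 180) (nat_lit 1) (nat_lit 183) (nat_lit 1) (nat_lit 313) (nat_lit 391) (nat_lit 316)))) (XT.nd (nat_lit 156) (nat_lit 456) (nat_lit 0) (XT.nd (nat_lit 78) (nat_lit 152) (nat_lit 0) (XT.lf (nat_lit 76) (nat_lit 1421760650) (nat_lit 0) (nat_lit 4269098604) (nat_lit 304) (nat_lit 1421760650) (nat_lit 181) (nat_lit 1) (nat_lit 180) (nat_lit 1) (nat_lit 184) (nat_lit 1) (nat_lit 314) (nat_lit 391) (nat_lit 315)) (XT.lf (nat_lit 228) (nat_lit 895494491) (nat_lit 0) (nat_lit 3070400689) (nat_lit 152) (nat_lit 3070400689) (nat_lit 181) (nat_lit 1) (nat_lit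 178) (nat_lit 1) (nat_lit 180) (nat_lit 1) (nat_lit 315) (nat_lit 391) (nat_lit 314))) (XT.nd (nat_lit 78) (nat_lit 152) (nat_lit 0) (XT.lf (nat_lit 304) (nat_lit 5966543904) (nat_lit 0) (nat_lit 497405174) (nat_lit 228) (nat_lit 497405174) (nat_lit 178) (nat_lit 1) (nat_lit 174) (nat_lit 1) (nat_lit 177) (nat_lit 1) (nat_lit 316) (nat_lit 391) (nat_lit 313)) (XT.nd (nat_lit 78) (nat_lit 152) (nat_lit 0) (XT.lf (nat_lit 76) (nat_lit 2008088793) (nat_lit 0) (nat_lit 2870446473) (nat_lit 304) (nat_lit 2008088793) (nat_lit 175) (nat_lit 1) (nat_lit 174) (nat_lit 1) (nat_lit 178) (nat_lit 1) (nat_lit 317) (nat_lit 391) (nat_lit 312)) (XT.lf (nat_lit 228) (nat_lit 2094476422) (nat_lit 0) (nat_lit 2359387196) (nat_lit 152) (nat_lit 2359387196) (nat_lit 175) (nat_lit 1) (nat_lit 172) (nat_lit 1) (nat_lit 174) (nat_lit 1) (nat_lit 318) (nat_lit 391) (nat_lit 311))))))) (XT.nd (nat_lit 702) (nat_lit 988) (nat_lit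 0) (XT.nd (nat_lit 312) (nat_lit 760) (nat_lit 0) (XT.nd (nat_lit 156) (nat_lit 152) (nat_lit 0) (XT.nd (nat_lit 78) (nat_lit 228) (nat_lit 0) (XT.lf (nat_lit 76) (nat_lit 104004873) (nat_lit 0) (nat_lit 6533400906) (nat_lit 228) (nat_lit 104004873) (nat_lit 173) (nat_lit 1) (nat_lit 172) (nat_lit 1) (nat_lit 175) (nat_lit 1) (nat_lit 319) (nat_lit 391) (nat_lit 310)) (XT.lf (nat_lit 76) (nat_lit 2507338427) (nat_lit 0) (nat_lit 1654633791) (nat_lit 228) (nat_lit 2507338427) (nat_lit 170) (nat_lit 1) (nat_lit 169) (nat_lit 1) (nat_lit 172) (nat_lit 1) (nat_lit 320) (nat_lit 391) (nat_lit 309))) (XT.nd (nat_lit 78) (nat_lit 0) (nat_lit 0) (XT.lf (nat_lit 228) (nat_lit 3121926014) (nat_lit 0) (nat_lit 1738397539) (nat_lit 152) (nat_lit 1738397539) (nat_lit 170) (nat_lit 1) (nat_lit 167) (nat_lit 1) (nat_lit 169) (nat_lit 1) (nat_lit 321) (nat_lit 391) (nat_lit 308)) (XT.lf (nat_lit 76) (nat_lit 626696839)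 (nat_lit 0) (nat_lit 5275893570) (nat_lit 228) (nat_lit 626696839) (nat_lit 168) (nat_lit 1) (nat_lit 167) (nat_lit 1) (nat_lit 170) (nat_lit 1) (nat_lit 322) (nat_lit 391) (nat_lit 307)))) (XT.nd (nat_lit 156) (nat_lit 380) (nat_lit 0) (XT.nd (nat_lit 78) (nat_lit 152) (nat_lit 0) (XT.lf (nat_lit 76) (nat_lit 2929851838) (nat_lit 0) (nat_lit 600488923) (nat_lit 228) (nat_lit 2929851838) (nat_lit 165) (nat_lit 1) (nat_lit 164) (nat_lit 1) (nat_lit 167) (nat_lit 1) (nat_lit 323) (nat_lit 391) (nat_lit 306)) (XT.lf (nat_lit 228) (nat_lit 3998073197) (nat_lit 0) (nat_lit 1197080178) (nat_lit 152) (nat_lit 1197080178) (nat_lit 165) (nat_lit 1) (nat_lit 162) (nat_lit 1) (nat_lit 164) (nat_lit 1) (nat_lit 324) (nat_lit 391) (nat_lit 305))) (XT.nd (nat_lit 78) (nat_lit 380) (nat_lit 0) (XT.lf (nat_lit 76) (nat_lit 1075540041) (nat_lit 0) (nat_lit 4174020857) (nat_lit 228) (nat_lit 1075540041) (nat_lit 163)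 (nat_lit 1) (nat_lit 162) (nat_lit 1) (nat_lit 165) (nat_lit 1) (nat_lit 325) (nat_lit 391) (nat_lit 304)) (XT.nd (nat_lit 78) (nat_lit 228) (nat_lit 0) (XT.lf (nat_lit 228) (nat_lit 316961110) (nat_lit 0) (nat_lit 2970885318) (nat_lit 152) (nat_lit 2970885318) (nat_lit 163) (nat_lit 1) (nat_lit 160) (nat_lit 1) (nat_lit 162) (nat_lit 1) (nat_lit 326) (nat_lit 391) (nat_lit 303)) (XT.lf (nat_lit 228) (nat_lit 4740859912) (nat_lit 0) (nat_lit 726247010) (nat_lit 152) (nat_lit 726247010) (nat_lit 160) (nat_lit 1) (nat_lit 157) (nat_lit 1) (nat_lit 159) (nat_lit 1) (nat_lit 327) (nat_lit 391) (nat_lit 302)))))) (XT.nd (nat_lit 390) (nat_lit 456) (nat_lit 0) (XT.nd (nat_lit 156) (nat_lit 380) (nat_lit 0) (XT.nd (nat_lit 78) (nat_lit 152) (nat_lit 0) (XT.lf (nat_lit 76) (nat_lit 1459222829) (nat_lit 0) (nat_lit 3209978764) (nat_lit 228) (nat_lit 1459222829) (nat_lit 158) (nat_lit 1) (nat_lit 157) (nat_lit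 1) (nat_lit 160) (nat_lit 1) (nat_lit 328) (nat_lit 391) (nat_lit 301)) (XT.lf (nat_lit 228) (nat_lit 1117641051) (nat_lit 0) (nat_lit 2473414199) (nat_lit 152) (nat_lit 2473414199) (nat_lit 158) (nat_lit 1) (nat_lit 155) (nat_lit 1) (nat_lit 157) (nat_lit 1) (nat_lit 329) (nat_lit 391) (nat_lit 300))) (XT.nd (nat_lit 78) (nat_lit 152) (nat_lit 0) (XT.lf (nat_lit 228) (nat_lit 5366196180) (nat_lit 0) (nat_lit 317743370) (nat_lit 152) (nat_lit 317743370) (nat_lit 155) (nat_lit 1) (nat_lit 152) (nat_lit 1) (nat_lit 154) (nat_lit 1) (nat_lit 330) (nat_lit 391) (nat_lit 299)) (XT.nd (nat_lit 78) (nat_lit 152) (nat_lit 0) (XT.lf (nat_lit 76) (nat_lit 1785451489) (nat_lit 0) (nat_lit 2367961735) (nat_lit 228) (nat_lit 1785451489) (nat_lit 153) (nat_lit 1) (nat_lit 152) (nat_lit 1) (nat_lit 155) (nat_lit 1) (nat_lit 331) (nat_lit 391) (nat_lit 298)) (XT.lf (nat_lit 228) (nat_lit 1804684560) (nat_lit 0) (nat_lit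 2036257715) (nat_lit 152) (nat_lit 2036257715) (nat_lit 153) (nat_lit 1) (nat_lit 150) (nat_lit 1) (nat_lit 152) (nat_lit 1) (nat_lit 332) (nat_lit 391) (nat_lit 297))))) (XT.nd (nat_lit 156) (nat_lit 304) (nat_lit 0) (XT.nd (nat_lit 78) (nat_lit 152) (nat_lit 0) (XT.lf (nat_lit 76) (nat_lit 36020616) (nat_lit 0) (nat_lit 5744769662) (nat_lit 228) (nat_lit 36020616) (nat_lit 151) (nat_lit 1) (nat_lit 150) (nat_lit 1) (nat_lit 153) (nat_lit 1) (nat_lit 333) (nat_lit 391) (nat_lit 296)) (XT.lf (nat_lit 76) (nat_lit 2061060140) (nat_lit 0) (nat_lit 1633939428) (nat_lit 152) (nat_lit 2061060140) (nat_lit 149) (nat_lit 1) (nat_lit 148) (nat_lit 1) (nat_lit 150) (nat_lit 1) (nat_lit 334) (nat_lit 391) (nat_lit 295))) (XT.nd (nat_lit 78) (nat_lit 152) (nat_lit 0) (XT.lf (nat_lit 228) (nat_lit 2391472801) (nat_lit 0) (nat_lit 1652549028) (nat_lit 152) (nat_lit 1652549028) (nat_lit 149) (nat_lit 1) (nat_lit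 146) (nat_lit 1) (nat_lit 148) (nat_lit 1) (nat_lit 335) (nat_lit 391) (nat_lit 294)) (XT.nd (nat_lit 78) (nat_lit 152) (nat_lit 0) (XT.lf (nat_lit 76) (nat_lit 343777290) (nat_lit 0) (nat_lit 4950570463) (nat_lit 228) (nat_lit 343777290) (nat_lit 147) (nat_lit 1) (nat_lit 146) (nat_lit 1) (nat_lit 149) (nat_lit 1) (nat_lit 336) (nat_lit 391) (nat_lit 293)) (XT.lf (nat_lit 76) (nat_lit 2292108364) (nat_lit 0) (nat_lit 995458384) (nat_lit 152) (nat_lit 2292108364) (nat_lit 145) (nat_lit 1) (nat_lit 144) (nat_lit 1) (nat_lit 146) (nat_lit 1) (nat_lit 337) (nat_lit 391) (nat_lit 292))))))))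
noncomputable def ec257 : XT := (XT.nd (nat_lit 1482) (nat_lit 1368) (nat_lit 0) (XT.nd (nat_lit 702) (nat_lit 1140) (nat_lit 0) (XT.nd (nat_lit 312) (nat_lit 380) (nat_lit 0) (XT.nd (nat_lit 156) (nat_lit 304) (nat_lit 0) (XT.nd (nat_lit 78) (nat_lit 0) (nat_lit 0) (XT.lf (nat_lit 228) (nat_lit 2889874108) (nat_lit 0) (nat_lit 1316191148) (nat_lit 152) (nat_lit 1316191148) (nat_lit 145) (nat_lit 1) (nat_lit 142) (nat_lit 1) (nat_lit 144) (nat_lit 1) (nat_lit 338) (nat_lit 391) (nat_lit 291)) (XT.lf (nat_lit 76) (nat_lit 608134329) (nat_lit 0) (nat_lit 4249408052) (nat_lit 228) (nat_lit 608134329) (nat_lit 143) (nat_lit 1) (nat_lit 142) (nat_lit 1) (nat_lit 145) (nat_lit 1) (nat_lit 339) (nat_lit 391) (nat_lit 290))) (XT.nd (nat_lit 78) (nat_lit 152) (nat_lit 0) (XT.lf (nat_lit 76) (nat_lit 2483967937) (nat_lit 0) (nat_lit 441465828) (nat_lit 152) (nat_lit 2483967937) (nat_lit 141) (nat_lit 1) (nat_lit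 140) (nat_lit 1) (nat_lit 142) (nat_lit 1) (nat_lit 340) (nat_lit 391) (nat_lit 289)) (XT.lf (nat_lit 228) (nat_lit 3310413287) (nat_lit 0) (nat_lit 1021770963) (nat_lit 152) (nat_lit 1021770963) (nat_lit 141) (nat_lit 1) (nat_lit 138) (nat_lit 1) (nat_lit 140) (nat_lit 1) (nat_lit 341) (nat_lit 391) (nat_lit 288)))) (XT.nd (nat_lit 156) (nat_lit 304) (nat_lit 0) (XT.nd (nat_lit 78) (nat_lit 76) (nat_lit 0) (XT.lf (nat_lit 76) (nat_lit 834195843) (nat_lit 0) (nat_lit 3630777331) (nat_lit 228) (nat_lit 834195843) (nat_lit 139) (nat_lit 1) (nat_lit 138) (nat_lit 1) (nat_lit 141) (nat_lit 1) (nat_lit 342) (nat_lit 391) (nat_lit 287)) (XT.lf (nat_lit 152) (nat_lit 38600103) (nat_lit 0) (nat_lit 2603170831) (nat_lit 76) (nat_lit 2603170831) (nat_lit 139) (nat_lit 1) (nat_lit 137) (nat_lit 1) (nat_lit 138) (nat_lit 1) (nat_lit 343) (nat_lit 391) (nat_lit 286))) (XT.nd (nat_lit 78) (nat_lit 76) (nat_lit 0)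 (XT.lf (nat_lit 228) (nat_lit 3662422019) (nat_lit 0) (nat_lit 764482864) (nat_lit 152) (nat_lit 764482864) (nat_lit 137) (nat_lit 1) (nat_lit 134) (nat_lit 1) (nat_lit 136) (nat_lit 1) (nat_lit 344) (nat_lit 391) (nat_lit 285)) (XT.nd (nat_lit 78) (nat_lit 76) (nat_lit 0) (XT.lf (nat_lit 76) (nat_lit 1026489065) (nat_lit 0) (nat_lit 3085348454) (nat_lit 228) (nat_lit 1026489065) (nat_lit 135) (nat_lit 1) (nat_lit 134) (nat_lit 1) (nat_lit 137) (nat_lit 1) (nat_lit 345) (nat_lit 391) (nat_lit 284)) (XT.lf (nat_lit 152) (nat_lit 460162732) (nat_lit 0) (nat_lit 2312883567) (nat_lit 76) (nat_lit 2312883567) (nat_lit 135) (nat_lit 1) (nat_lit 133) (nat_lit 1) (nat_lit 134) (nat_lit 1) (nat_lit 346) (nat_lit 391) (nat_lit 283)))))) (XT.nd (nat_lit 390) (nat_lit 608) (nat_lit 0) (XT.nd (nat_lit 156) (nat_lit 304) (nat_lit 0) (XT.nd (nat_lit 78) (nat_lit 0) (nat_lit 0) (XT.lf (nat_lit 228) (nat_lit 3954172480)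 (nat_lit 0) (nat_lit 540060887) (nat_lit 152) (nat_lit 540060887) (nat_lit 133) (nat_lit 1) (nat_lit 130) (nat_lit 1) (nat_lit 132) (nat_lit 1) (nat_lit 347) (nat_lit 391) (nat_lit 282)) (XT.lf (nat_lit 76) (nat_lit 1189028901) (nat_lit 0) (nat_lit 2604835656) (nat_lit 228) (nat_lit 1189028901) (nat_lit 131) (nat_lit 1) (nat_lit 130) (nat_lit 1) (nat_lit 133) (nat_lit 1) (nat_lit 348) (nat_lit 391) (nat_lit 281))) (XT.nd (nat_lit 78) (nat_lit 228) (nat_lit 0) (XT.lf (nat_lit 152) (nat_lit 822311774) (nat_lit 0) (nat_lit 2054967092) (nat_lit 76) (nat_lit 2054967092) (nat_lit 131) (nat_lit 1) (nat_lit 129) (nat_lit 1) (nat_lit 130) (nat_lit 1) (nat_lit 349) (nat_lit 391) (nat_lit 280)) (XT.nd (nat_lit 78) (nat_lit 0) (nat_lit 0) (XT.lf (nat_lit 228) (nat_lit 4192996036) (nat_lit 0) (nat_lit 344718428) (nat_lit 152) (nat_lit 344718428) (nat_lit 129) (nat_lit 1) (nat_lit 126) (nat_lit 1) (nat_lit 128) (nat_lit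 1) (nat_lit 350) (nat_lit 391) (nat_lit 279)) (XT.lf (nat_lit 76) (nat_lit 1325375286) (nat_lit 0) (nat_lit 2181880718) (nat_lit 228) (nat_lit 1325375286) (nat_lit 127) (nat_lit 1) (nat_lit 126) (nat_lit 1) (nat_lit 129) (nat_lit 1) (nat_lit 351) (nat_lit 391) (nat_lit 278))))) (XT.nd (nat_lit 156) (nat_lit 304) (nat_lit 0) (XT.nd (nat_lit 78) (nat_lit 228) (nat_lit 0) (XT.lf (nat_lit 152) (nat_lit 1132033892) (nat_lit 0) (nat_lit 1825811646) (nat_lit 76) (nat_lit 1825811646) (nat_lit 127) (nat_lit 1) (nat_lit 125) (nat_lit 1) (nat_lit 126) (nat_lit 1) (nat_lit 352) (nat_lit 391) (nat_lit 277)) (XT.lf (nat_lit 228) (nat_lit 4385388692) (nat_lit 0) (nat_lit 175094678) (nat_lit 152) (nat_lit 175094678) (nat_lit 125) (nat_lit 1) (nat_lit 122) (nat_lit 1) (nat_lit 124) (nat_lit 1) (nat_lit 353) (nat_lit 391) (nat_lit 276))) (XT.nd (nat_lit 78) (nat_lit 304) (nat_lit 0) (XT.lf (nat_lit 76) (nat_lit 1438684122)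 (nat_lit 0) (nat_lit 1809949435) (nat_lit 228) (nat_lit 1438684122) (nat_lit 123) (nat_lit 1) (nat_lit 122) (nat_lit 1) (nat_lit 125) (nat_lit 1) (nat_lit 354) (nat_lit 391) (nat_lit 275)) (XT.nd (nat_lit 78) (nat_lit 228) (nat_lit 0) (XT.lf (nat_lit 152) (nat_lit 1395526121) (nat_lit 0) (nat_lit 1622209999) (nat_lit 76) (nat_lit 1622209999) (nat_lit 123) (nat_lit 1) (nat_lit 121) (nat_lit 1) (nat_lit 122) (nat_lit 1) (nat_lit 355) (nat_lit 391) (nat_lit 274)) (XT.lf (nat_lit 228) (nat_lit 4537104763) (nat_lit 0) (nat_lit 28207043) (nat_lit 152) (nat_lit 28207043) (nat_lit 121) (nat_lit 1) (nat_lit 118) (nat_lit 1) (nat_lit 120) (nat_lit 1) (nat_lit 356) (nat_lit 391) (nat_lit 273))))))) (XT.nd (nat_lit 702) (nat_lit 836) (nat_lit 0) (XT.nd (nat_lit 312) (nat_lit 304) (nat_lit 0) (XT.nd (nat_lit 156) (nat_lit 152) (nat_lit 0) (XT.nd (nat_lit 78) (nat_lit 76) (nat_lit 0) (XT.lf (nat_lit 76) (nat_lit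 1531752545) (nat_lit 0) (nat_lit 1483239617) (nat_lit 228) (nat_lit 1531752545) (nat_lit 119) (nat_lit 1) (nat_lit 118) (nat_lit 1) (nat_lit 121) (nat_lit 1) (nat_lit 357) (nat_lit 391) (nat_lit 272)) (XT.lf (nat_lit 152) (nat_lit 1618284234) (nat_lit 0) (nat_lit 1441312573) (nat_lit 76) (nat_lit 1441312573) (nat_lit 119) (nat_lit 1) (nat_lit 117) (nat_lit 1) (nat_lit 118) (nat_lit 1) (nat_lit 358) (nat_lit 391) (nat_lit 271))) (XT.nd (nat_lit 78) (nat_lit 152) (nat_lit 0) (XT.lf (nat_lit 0) (nat_lit 99567286) (nat_lit 0) (nat_lit 4256807812) (nat_lit 152) (nat_lit 99567286) (nat_lit 117) (nat_lit 3) (nat_lit 117) (nat_lit 1) (nat_lit 119) (nat_lit 1) (nat_lit 359) (nat_lit 391) (nat_lit 270)) (XT.lf (nat_lit 76) (nat_lit 1607059129) (nat_lit 0) (nat_lit 1196599370) (nat_lit 152) (nat_lit 1607059129) (nat_lit 116) (nat_lit 1) (nat_lit 115) (nat_lit 1) (nat_lit 117) (nat_lit 1) (nat_lit 360) (nat_lit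 391) (nat_lit 269)))) (XT.nd (nat_lit 156) (nat_lit 228) (nat_lit 0) (XT.nd (nat_lit 78) (nat_lit 0) (nat_lit 0) (XT.lf (nat_lit 152) (nat_lit 1805181232) (nat_lit 0) (nat_lit 1280587553) (nat_lit 76) (nat_lit 1280587553) (nat_lit 116) (nat_lit 1) (nat_lit 114) (nat_lit 1) (nat_lit 115) (nat_lit 1) (nat_lit 361) (nat_lit 391) (nat_lit 268)) (XT.lf (nat_lit 0) (nat_lit 209704062) (nat_lit 0) (nat_lit 3903358425) (nat_lit 152) (nat_lit 209704062) (nat_lit 114) (nat_lit 3) (nat_lit 114) (nat_lit 1) (nat_lit 116) (nat_lit 1) (nat_lit 362) (nat_lit 391) (nat_lit 267))) (XT.nd (nat_lit 78) (nat_lit 76) (nat_lit 0) (XT.lf (nat_lit 76) (nat_lit 1666799602) (nat_lit 0) (nat_lit 945454480) (nat_lit 152) (nat_lit 1666799602) (nat_lit 113) (nat_lit 1) (nat_lit 112) (nat_lit 1) (nat_lit 114) (nat_lit 1) (nat_lit 363) (nat_lit 391) (nat_lit 266)) (XT.nd (nat_lit 78) (nat_lit 0) (nat_lit 0) (XT.lf (nat_lit 152) (nat_lit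 1960537086) (nat_lit 0) (nat_lit 1137785455) (nat_lit 76) (nat_lit 1137785455) (nat_lit 113) (nat_lit 1) (nat_lit 111) (nat_lit 1) (nat_lit 112) (nat_lit 1) (nat_lit 364) (nat_lit 391) (nat_lit 265)) (XT.lf (nat_lit 0) (nat_lit 304027905) (nat_lit 0) (nat_lit 3585791966) (nat_lit 152) (nat_lit 304027905) (nat_lit 111) (nat_lit 3) (nat_lit 111) (nat_lit 1) (nat_lit 113) (nat_lit 1) (nat_lit 365) (nat_lit 391) (nat_lit 264)))))) (XT.nd (nat_lit 390) (nat_lit 380) (nat_lit 0) (XT.nd (nat_lit 156) (nat_lit 228) (nat_lit 0) (XT.nd (nat_lit 78) (nat_lit 76) (nat_lit 0) (XT.lf (nat_lit 76) (nat_lit 1712918577) (nat_lit 0) (nat_lit 725743902) (nat_lit 152) (nat_lit 1712918577) (nat_lit 110) (nat_lit 1) (nat_lit 109) (nat_lit 1) (nat_lit 111) (nat_lit 1) (nat_lit 366) (nat_lit 391) (nat_lit 263)) (XT.lf (nat_lit 152) (nat_lit 2088180684) (nat_lit 0) (nat_lit 1010907640) (nat_lit 76) (nat_lit 1010907640) (nat_lit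 110) (nat_lit 1) (nat_lit 108) (nat_lit 1) (nat_lit 109) (nat_lit 1) (nat_lit 367) (nat_lit 391) (nat_lit 262))) (XT.nd (nat_lit 78) (nat_lit 228) (nat_lit 0) (XT.lf (nat_lit 0) (nat_lit 384405013) (nat_lit 0) (nat_lit 3300209876) (nat_lit 152) (nat_lit 384405013) (nat_lit 108) (nat_lit 3) (nat_lit 108) (nat_lit 1) (nat_lit 110) (nat_lit 1) (nat_lit 368) (nat_lit 391) (nat_lit 261)) (XT.nd (nat_lit 78) (nat_lit 76) (nat_lit 0) (XT.lf (nat_lit 76) (nat_lit 1747137736) (nat_lit 0) (nat_lit 533862448) (nat_lit 152) (nat_lit 1747137736) (nat_lit 107) (nat_lit 1) (nat_lit 106) (nat_lit 1) (nat_lit 108) (nat_lit 1) (nat_lit 369) (nat_lit 391) (nat_lit 260)) (XT.lf (nat_lit 152) (nat_lit 2191504867) (nat_lit 0) (nat_lit 898178344) (nat_lit 76) (nat_lit 898178344) (nat_lit 107) (nat_lit 1) (nat_lit 105) (nat_lit 1) (nat_lit 106) (nat_lit 1) (nat_lit 370) (nat_lit 391) (nat_lit 259))))) (XT.nd (nat_lit 156)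 (nat_lit 228) (nat_lit 0) (XT.nd (nat_lit 78) (nat_lit 152) (nat_lit 0) (XT.lf (nat_lit 0) (nat_lit 452490484) (nat_lit 0) (nat_lit 3043145339) (nat_lit 152) (nat_lit 452490484) (nat_lit 105) (nat_lit 3) (nat_lit 105) (nat_lit 1) (nat_lit 107) (nat_lit 1) (nat_lit 371) (nat_lit 391) (nat_lit 258)) (XT.lf (nat_lit 76) (nat_lit 1770980867) (nat_lit 0) (nat_lit 366609862) (nat_lit 152) (nat_lit 1770980867) (nat_lit 104) (nat_lit 1) (nat_lit 103) (nat_lit 1) (nat_lit 105) (nat_lit 1) (nat_lit 372) (nat_lit 391) (nat_lit 257))) (XT.nd (nat_lit 78) (nat_lit 152) (nat_lit 0) (XT.lf (nat_lit 152) (nat_lit 2273515316) (nat_lit 0) (nat_lit 798019826) (nat_lit 76) (nat_lit 798019826) (nat_lit 104) (nat_lit 1) (nat_lit 102) (nat_lit 1) (nat_lit 103) (nat_lit 1) (nat_lit 373) (nat_lit 391) (nat_lit 256)) (XT.nd (nat_lit 78) (nat_lit 152) (nat_lit 0) (XT.lf (nat_lit 0) (nat_lit 509751943) (nat_lit 0) (nat_lit 2811515227)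 (nat_lit 152) (nat_lit 509751943) (nat_lit 102) (nat_lit 3) (nat_lit 102) (nat_lit 1) (nat_lit 104) (nat_lit 1) (nat_lit 374) (nat_lit 391) (nat_lit 255)) (XT.lf (nat_lit 76) (nat_lit 1785796103) (nat_lit 0) (nat_lit 221145581) (nat_lit 152) (nat_lit 1785796103) (nat_lit 101) (nat_lit 1) (nat_lit 100) (nat_lit 1) (nat_lit 102) (nat_lit 1) (nat_lit 375) (nat_lit 391) (nat_lit 254))))))))
noncomputable def ec258 : XT := (XT.nd (nat_lit 1482) (nat_lit 1368) (nat_lit 0) (XT.nd (nat_lit 702) (nat_lit 836) (nat_lit 0) (XT.nd (nat_lit 312) (nat_lit 304) (nat_lit 0) (XT.nd (nat_lit 156) (nat_lit 228) (nat_lit 0) (XT.nd (nat_lit 78) (nat_lit 0) (nat_lit 0) (XT.lf (nat_lit 152) (nat_lit 2336873985) (nat_lit 0) (nat_lit 709030279) (nat_lit 76) (nat_lit 709030279) (nat_lit 101) (nat_lit 1) (nat_lit 99) (nat_lit 1) (nat_lit 100) (nat_lit 1) (nat_lit 376) (nat_lit 391) (nat_lit 253)) (XT.lf (nat_lit 0) (nat_lit 557490531)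 (nat_lit 0) (nat_lit 2602577397) (nat_lit 152) (nat_lit 557490531) (nat_lit 99) (nat_lit 3) (nat_lit 99) (nat_lit 1) (nat_lit 101) (nat_lit 1) (nat_lit 377) (nat_lit 391) (nat_lit 252))) (XT.nd (nat_lit 78) (nat_lit 76) (nat_lit 0) (XT.lf (nat_lit 76) (nat_lit 1792775680) (nat_lit 0) (nat_lit 94948545) (nat_lit 152) (nat_lit 1792775680) (nat_lit 98) (nat_lit 1) (nat_lit 97) (nat_lit 1) (nat_lit 99) (nat_lit 1) (nat_lit 378) (nat_lit 391) (nat_lit 251)) (XT.lf (nat_lit 152) (nat_lit 2383937680) (nat_lit 0) (nat_lit 629964219) (nat_lit 76) (nat_lit 629964219) (nat_lit 98) (nat_lit 1) (nat_lit 96) (nat_lit 1) (nat_lit 97) (nat_lit 1) (nat_lit 379) (nat_lit 391) (nat_lit 250)))) (XT.nd (nat_lit 156) (nat_lit 228) (nat_lit 0) (XT.nd (nat_lit 78) (nat_lit 76) (nat_lit 0) (XT.lf (nat_lit 0) (nat_lit 596859556) (nat_lit 0) (nat_lit 2413892748) (nat_lit 152) (nat_lit 596859556) (nat_lit 96) (nat_lit 3) (nat_lit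 96) (nat_lit 1) (nat_lit 98) (nat_lit 1) (nat_lit 380) (nat_lit 391) (nat_lit 249)) (XT.lf (nat_lit 76) (nat_lit 14501490) (nat_lit 0) (nat_lit 1778611385) (nat_lit 76) (nat_lit 1778611385) (nat_lit 96) (nat_lit 3) (nat_lit 95) (nat_lit 1) (nat_lit 96) (nat_lit 1) (nat_lit 381) (nat_lit 391) (nat_lit 248))) (XT.nd (nat_lit 78) (nat_lit 76) (nat_lit 0) (XT.lf (nat_lit 152) (nat_lit 2416792326) (nat_lit 0) (nat_lit 559715050) (nat_lit 76) (nat_lit 559715050) (nat_lit 95) (nat_lit 1) (nat_lit 93) (nat_lit 1) (nat_lit 94) (nat_lit 1) (nat_lit 382) (nat_lit 391) (nat_lit 247)) (XT.nd (nat_lit 78) (nat_lit 76) (nat_lit 0) (XT.lf (nat_lit 0) (nat_lit 628881052) (nat_lit 0) (nat_lit 2243291509) (nat_lit 152) (nat_lit 628881052) (nat_lit 93) (nat_lit 3) (nat_lit 93) (nat_lit 1) (nat_lit 95) (nat_lit 1) (nat_lit 383) (nat_lit 391) (nat_lit 246)) (XT.lf (nat_lit 76) (nat_lit 110496992) (nat_lit 0) (nat_lit 1677885785)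 (nat_lit 76) (nat_lit 1677885785) (nat_lit 93) (nat_lit 3) (nat_lit 92) (nat_lit 1) (nat_lit 93) (nat_lit 1) (nat_lit 384) (nat_lit 391) (nat_lit 245)))))) (XT.nd (nat_lit 390) (nat_lit 456) (nat_lit 0) (XT.nd (nat_lit 156) (nat_lit 228) (nat_lit 0) (XT.nd (nat_lit 78) (nat_lit 0) (nat_lit 0) (XT.lf (nat_lit 152) (nat_lit 2437283411) (nat_lit 0) (nat_lit 497299572) (nat_lit 76) (nat_lit 497299572) (nat_lit 92) (nat_lit 1) (nat_lit 90) (nat_lit 1) (nat_lit 91) (nat_lit 1) (nat_lit 385) (nat_lit 391) (nat_lit 244)) (XT.lf (nat_lit 0) (nat_lit 654460502) (nat_lit 0) (nat_lit 2088843283) (nat_lit 152) (nat_lit 654460502) (nat_lit 90) (nat_lit 3) (nat_lit 90) (nat_lit 1) (nat_lit 92) (nat_lit 1) (nat_lit 386) (nat_lit 391) (nat_lit 243))) (XT.nd (nat_lit 78) (nat_lit 152) (nat_lit 0) (XT.lf (nat_lit 76) (nat_lit 192944667) (nat_lit 0) (nat_lit 1585549308) (nat_lit 76) (nat_lit 1585549308) (nat_lit 90) (nat_lit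 3) (nat_lit 89) (nat_lit 1) (nat_lit 90) (nat_lit 1) (nat_lit 387) (nat_lit 391) (nat_lit 242)) (XT.nd (nat_lit 78) (nat_lit 0) (nat_lit 0) (XT.lf (nat_lit 152) (nat_lit 2447043027) (nat_lit 0) (nat_lit 441844229) (nat_lit 76) (nat_lit 441844229) (nat_lit 89) (nat_lit 1) (nat_lit 87) (nat_lit 1) (nat_lit 88) (nat_lit 1) (nat_lit 388) (nat_lit 391) (nat_lit 241)) (XT.lf (nat_lit 0) (nat_lit 674399905) (nat_lit 0) (nat_lit 1948830427) (nat_lit 152) (nat_lit 674399905) (nat_lit 87) (nat_lit 3) (nat_lit 87) (nat_lit 1) (nat_lit 89) (nat_lit 1) (nat_lit 389) (nat_lit 391) (nat_lit 240))))) (XT.nd (nat_lit 156) (nat_lit 228) (nat_lit 0) (XT.nd (nat_lit 78) (nat_lit 152) (nat_lit 0) (XT.lf (nat_lit 76) (nat_lit 263438080) (nat_lit 0) (nat_lit 1500749267) (nat_lit 76) (nat_lit 1500749267) (nat_lit 87) (nat_lit 3) (nat_lit 86) (nat_lit 1) (nat_lit 87) (nat_lit 1) (nat_lit 390) (nat_lit 391) (nat_lit 239)) (XT.lf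 (nat_lit 152) (nat_lit 2447513883) (nat_lit 0) (nat_lit 392572874) (nat_lit 76) (nat_lit 392572874) (nat_lit 86) (nat_lit 1) (nat_lit 84) (nat_lit 1) (nat_lit 85) (nat_lit 1) (nat_lit 391) (nat_lit 391) (nat_lit 238))) (XT.nd (nat_lit 78) (nat_lit 228) (nat_lit 0) (XT.lf (nat_lit 0) (nat_lit 689409392) (nat_lit 0) (nat_lit 1821724405) (nat_lit 152) (nat_lit 689409392) (nat_lit 84) (nat_lit 3) (nat_lit 84) (nat_lit 1) (nat_lit 86) (nat_lit 1) (nat_lit 392) (nat_lit 391) (nat_lit 237)) (XT.nd (nat_lit 78) (nat_lit 152) (nat_lit 0) (XT.lf (nat_lit 76) (nat_lit 323390684) (nat_lit 0) (nat_lit 1422725648) (nat_lit 76) (nat_lit 1422725648) (nat_lit 84) (nat_lit 3) (nat_lit 83) (nat_lit 1) (nat_lit 84) (nat_lit 1) (nat_lit 393) (nat_lit 391) (nat_lit 236)) (XT.lf (nat_lit 152) (nat_lit 2439970645) (nat_lit 0) (nat_lit 348795914) (nat_lit 76) (nat_lit 348795914) (nat_lit 83) (nat_lit 1) (nat_lit 81) (nat_lit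 1) (nat_lit 82) (nat_lit 1) (nat_lit 394) (nat_lit 391) (nat_lit 235))))))) (XT.nd (nat_lit 702) (nat_lit 684) (nat_lit 0) (XT.nd (nat_lit 312) (nat_lit 456) (nat_lit 0) (XT.nd (nat_lit 156) (nat_lit 152) (nat_lit 0) (XT.nd (nat_lit 78) (nat_lit 76) (nat_lit 0) (XT.lf (nat_lit 0) (nat_lit 700117540) (nat_lit 0) (nat_lit 1706164763) (nat_lit 152) (nat_lit 700117540) (nat_lit 81) (nat_lit 3) (nat_lit 81) (nat_lit 1) (nat_lit 83) (nat_lit 1) (nat_lit 395) (nat_lit 391) (nat_lit 234)) (XT.lf (nat_lit 76) (nat_lit 374055971) (nat_lit 0) (nat_lit 1350800847) (nat_lit 76) (nat_lit 1350800847) (nat_lit 81) (nat_lit 3) (nat_lit 80) (nat_lit 1) (nat_lit 81) (nat_lit 1) (nat_lit 396) (nat_lit 391) (nat_lit 233))) (XT.nd (nat_lit 78) (nat_lit 0) (nat_lit 0) (XT.lf (nat_lit 152) (nat_lit 2425538879) (nat_lit 0) (nat_lit 309900652) (nat_lit 76) (nat_lit 309900652) (nat_lit 80) (nat_lit 1) (nat_lit 78) (nat_lit 1)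 (nat_lit 79) (nat_lit 1) (nat_lit 397) (nat_lit 391) (nat_lit 232)) (XT.lf (nat_lit 0) (nat_lit 707080536) (nat_lit 0) (nat_lit 1600940463) (nat_lit 152) (nat_lit 707080536) (nat_lit 78) (nat_lit 3) (nat_lit 78) (nat_lit 1) (nat_lit 80) (nat_lit 1) (nat_lit 398) (nat_lit 391) (nat_lit 231)))) (XT.nd (nat_lit 156) (nat_lit 228) (nat_lit 0) (XT.nd (nat_lit 78) (nat_lit 152) (nat_lit 0) (XT.lf (nat_lit 76) (nat_lit 416545376) (nat_lit 0) (nat_lit 1284370548) (nat_lit 76) (nat_lit 1284370548) (nat_lit 78) (nat_lit 3) (nat_lit 77) (nat_lit 1) (nat_lit 78) (nat_lit 1) (nat_lit 399) (nat_lit 391) (nat_lit 230)) (XT.lf (nat_lit 152) (nat_lit 2405211882) (nat_lit 0) (nat_lit 275342715) (nat_lit 76) (nat_lit 275342715) (nat_lit 77) (nat_lit 1) (nat_lit 75) (nat_lit 1) (nat_lit 76) (nat_lit 1) (nat_lit 400) (nat_lit 391) (nat_lit 229))) (XT.nd (nat_lit 78) (nat_lit 228) (nat_lit 0) (XT.lf (nat_lit 0) (nat_lit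 710790315) (nat_lit 0) (nat_lit 1504973283) (nat_lit 152) (nat_lit 710790315) (nat_lit 75) (nat_lit 3) (nat_lit 75) (nat_lit 1) (nat_lit 77) (nat_lit 1) (nat_lit 401) (nat_lit 391) (nat_lit 228)) (XT.nd (nat_lit 78) (nat_lit 152) (nat_lit 0) (XT.lf (nat_lit 76) (nat_lit 451844193) (nat_lit 0) (nat_lit 1222895618) (nat_lit 76) (nat_lit 1222895618) (nat_lit 75) (nat_lit 3) (nat_lit 74) (nat_lit 1) (nat_lit 75) (nat_lit 1) (nat_lit 402) (nat_lit 391) (nat_lit 227)) (XT.lf (nat_lit 152) (nat_lit 2379865628) (nat_lit 0) (nat_lit 244638436) (nat_lit 76) (nat_lit 244638436) (nat_lit 74) (nat_lit 1) (nat_lit 72) (nat_lit 1) (nat_lit 73) (nat_lit 1) (nat_lit 403) (nat_lit 391) (nat_lit 226)))))) (XT.nd (nat_lit 390) (nat_lit 380) (nat_lit 0) (XT.nd (nat_lit 156) (nat_lit 228) (nat_lit 0) (XT.nd (nat_lit 78) (nat_lit 76) (nat_lit 0) (XT.lf (nat_lit 0) (nat_lit 711681791) (nat_lit 0) (nat_lit 1417303072) (nat_lit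 152) (nat_lit 711681791) (nat_lit 72) (nat_lit 3) (nat_lit 72) (nat_lit 1) (nat_lit 74) (nat_lit 1) (nat_lit 404) (nat_lit 391) (nat_lit 225)) (XT.lf (nat_lit 76) (nat_lit 480825694) (nat_lit 0) (nat_lit 1165894898) (nat_lit 76) (nat_lit 1165894898) (nat_lit 72) (nat_lit 3) (nat_lit 71) (nat_lit 1) (nat_lit 72) (nat_lit 1) (nat_lit 405) (nat_lit 391) (nat_lit 224))) (XT.nd (nat_lit 78) (nat_lit 76) (nat_lit 0) (XT.lf (nat_lit 152) (nat_lit 2350272041) (nat_lit 0) (nat_lit 217358082) (nat_lit 76) (nat_lit 217358082) (nat_lit 71) (nat_lit 1) (nat_lit 69) (nat_lit 1) (nat_lit 70) (nat_lit 1) (nat_lit 406) (nat_lit 391) (nat_lit 223)) (XT.nd (nat_lit 78) (nat_lit 76) (nat_lit 0) (XT.lf (nat_lit 0) (nat_lit 710139280) (nat_lit 0) (nat_lit 1337074649) (nat_lit 152) (nat_lit 710139280) (nat_lit 69) (nat_lit 3) (nat_lit 69) (nat_lit 1) (nat_lit 71) (nat_lit 1) (nat_lit 407) (nat_lit 391) (nat_lit 222)) (XT.lf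 (nat_lit 76) (nat_lit 504263694) (nat_lit 0) (nat_lit 1112938809) (nat_lit 76) (nat_lit 1112938809) (nat_lit 69) (nat_lit 3) (nat_lit 68) (nat_lit 1) (nat_lit 69) (nat_lit 1) (nat_lit 408) (nat_lit 391) (nat_lit 221))))) (XT.nd (nat_lit 156) (nat_lit 228) (nat_lit 0) (XT.nd (nat_lit 78) (nat_lit 0) (nat_lit 0) (XT.lf (nat_lit 152) (nat_lit 2317110787) (nat_lit 0) (nat_lit 193119841) (nat_lit 76) (nat_lit 193119841) (nat_lit 68) (nat_lit 1) (nat_lit 66) (nat_lit 1) (nat_lit 67) (nat_lit 1) (nat_lit 409) (nat_lit 391) (nat_lit 220)) (XT.lf (nat_lit 0) (nat_lit 706502199) (nat_lit 0) (nat_lit 1263526154) (nat_lit 152) (nat_lit 706502199) (nat_lit 66) (nat_lit 3) (nat_lit 66) (nat_lit 1) (nat_lit 68) (nat_lit 1) (nat_lit 410) (nat_lit 391) (nat_lit 219))) (XT.nd (nat_lit 78) (nat_lit 152) (nat_lit 0) (XT.lf (nat_lit 76) (nat_lit 522843695) (nat_lit 0) (nat_lit 1063643651) (nat_lit 76) (nat_lit 1063643651)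 (nat_lit 66) (nat_lit 3) (nat_lit 65) (nat_lit 1) (nat_lit 66) (nat_lit 1) (nat_lit 411) (nat_lit 391) (nat_lit 218)) (XT.nd (nat_lit 78) (nat_lit 0) (nat_lit 0) (XT.lf (nat_lit 152) (nat_lit 2280979738) (nat_lit 0) (nat_lit 171584477) (nat_lit 76) (nat_lit 171584477) (nat_lit 65) (nat_lit 1) (nat_lit 63) (nat_lit 1) (nat_lit 64) (nat_lit 1) (nat_lit 412) (nat_lit 391) (nat_lit 217)) (XT.lf (nat_lit 0) (nat_lit 701070138) (nat_lit 0) (nat_lit 1195978707) (nat_lit 152) (nat_lit 701070138) (nat_lit 63) (nat_lit 3) (nat_lit 63) (nat_lit 1) (nat_lit 65) (nat_lit 1) (nat_lit 413) (nat_lit 391) (nat_lit 216))))))))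
noncomputable def ec259 : XT := (XT.nd (nat_lit 39468) (nat_lit 0) (nat_lit 22724) (XT.nd (nat_lit 702) (nat_lit 532) (nat_lit 0) (XT.nd (nat_lit 312) (nat_lit 380) (nat_lit 0) (XT.nd (nat_lit 156) (nat_lit 76) (nat_lit 0) (XT.nd (nat_lit 78) (nat_lit 152) (nat_lit 0) (XT.lf (nat_lit 76) (nat_lit 537172797) (nat_lit 0) (nat_lit 1017666554) (nat_lit 76) (nat_lit 1017666554) (nat_lit 63) (nat_lit 3) (nat_lit 62) (nat_lit 1) (nat_lit 63) (nat_lit 1) (nat_lit 414) (nat_lit 391) (nat_lit 215)) (XT.lf (nat_lit 152) (nat_lit 2242404269) (nat_lit 0) (nat_lit 152450585) (nat_lit 76) (nat_lit 152450585) (nat_lit 62) (nat_lit 1) (nat_lit 60) (nat_lit 1) (nat_lit 61) (nat_lit 1) (nat_lit 415) (nat_lit 391) (nat_lit 214))) (XT.nd (nat_lit 78) (nat_lit 76) (nat_lit 0) (XT.lf (nat_lit 0) (nat_lit 694107353) (nat_lit 0) (nat_lit 1133827206) (nat_lit 152) (nat_lit 694107353) (nat_lit 60) (nat_lit 3) (nat_lit 60) (nat_lit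 1) (nat_lit 62) (nat_lit 1) (nat_lit 416) (nat_lit 391) (nat_lit 213)) (XT.lf (nat_lit 76) (nat_lit 547788496) (nat_lit 0) (nat_lit 974700976) (nat_lit 76) (nat_lit 974700976) (nat_lit 60) (nat_lit 3) (nat_lit 59) (nat_lit 1) (nat_lit 60) (nat_lit 1) (nat_lit 417) (nat_lit 391) (nat_lit 212)))) (XT.nd (nat_lit 156) (nat_lit 228) (nat_lit 0) (XT.nd (nat_lit 78) (nat_lit 0) (nat_lit 0) (XT.lf (nat_lit 152) (nat_lit 2201845514) (nat_lit 0) (nat_lit 135450370) (nat_lit 76) (nat_lit 135450370) (nat_lit 59) (nat_lit 1) (nat_lit 57) (nat_lit 1) (nat_lit 58) (nat_lit 1) (nat_lit 418) (nat_lit 391) (nat_lit 211)) (XT.lf (nat_lit 0) (nat_lit 685846767) (nat_lit 0) (nat_lit 1076532162) (nat_lit 152) (nat_lit 685846767) (nat_lit 57) (nat_lit 3) (nat_lit 57) (nat_lit 1) (nat_lit 59) (nat_lit 1) (nat_lit 419) (nat_lit 391) (nat_lit 210))) (XT.nd (nat_lit 78) (nat_lit 152) (nat_lit 0) (XT.lf (nat_lit 76) (nat_lit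 555166502) (nat_lit 0) (nat_lit 934472710) (nat_lit 76) (nat_lit 934472710) (nat_lit 57) (nat_lit 3) (nat_lit 56) (nat_lit 1) (nat_lit 57) (nat_lit 1) (nat_lit 420) (nat_lit 391) (nat_lit 209)) (XT.nd (nat_lit 78) (nat_lit 0) (nat_lit 0) (XT.lf (nat_lit 152) (nat_lit 2159707692) (nat_lit 0) (nat_lit 120345900) (nat_lit 76) (nat_lit 120345900) (nat_lit 56) (nat_lit 1) (nat_lit 54) (nat_lit 1) (nat_lit 55) (nat_lit 1) (nat_lit 421) (nat_lit 391) (nat_lit 208)) (XT.lf (nat_lit 0) (nat_lit 676493517) (nat_lit 0) (nat_lit 1023612430) (nat_lit 152) (nat_lit 676493517) (nat_lit 54) (nat_lit 3) (nat_lit 54) (nat_lit 1) (nat_lit 56) (nat_lit 1) (nat_lit 422) (nat_lit 391) (nat_lit 207)))))) (XT.nd (nat_lit 390) (nat_lit 76) (nat_lit 0) (XT.nd (nat_lit 156) (nat_lit 228) (nat_lit 0) (XT.nd (nat_lit 78) (nat_lit 152) (nat_lit 0) (XT.lf (nat_lit 76) (nat_lit 559727681) (nat_lit 0) (nat_lit 896736335) (nat_lit 76)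 (nat_lit 896736335) (nat_lit 54) (nat_lit 3) (nat_lit 53) (nat_lit 1) (nat_lit 54) (nat_lit 1) (nat_lit 423) (nat_lit 391) (nat_lit 206)) (XT.lf (nat_lit 152) (nat_lit 2116344613) (nat_lit 0) (nat_lit 106925773) (nat_lit 76) (nat_lit 106925773) (nat_lit 53) (nat_lit 1) (nat_lit 51) (nat_lit 1) (nat_lit 52) (nat_lit 1) (nat_lit 424) (nat_lit 391) (nat_lit 205))) (XT.nd (nat_lit 78) (nat_lit 228) (nat_lit 0) (XT.lf (nat_lit 0) (nat_lit 666228105) (nat_lit 0) (nat_lit 974638763) (nat_lit 152) (nat_lit 666228105) (nat_lit 51) (nat_lit 3) (nat_lit 51) (nat_lit 1) (nat_lit 53) (nat_lit 1) (nat_lit 425) (nat_lit 391) (nat_lit 204)) (XT.nd (nat_lit 78) (nat_lit 152) (nat_lit 0) (XT.lf (nat_lit 76) (nat_lit 561844227) (nat_lit 0) (nat_lit 861272050) (nat_lit 76) (nat_lit 861272050) (nat_lit 51) (nat_lit 3) (nat_lit 50) (nat_lit 1) (nat_lit 51) (nat_lit 1) (nat_lit 426) (nat_lit 391) (nat_lit 203)) (XT.lf (nat_lit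 152) (nat_lit 2072065459) (nat_lit 0) (nat_lit 95002164) (nat_lit 76) (nat_lit 95002164) (nat_lit 50) (nat_lit 1) (nat_lit 48) (nat_lit 1) (nat_lit 49) (nat_lit 1) (nat_lit 427) (nat_lit 391) (nat_lit 202))))) (XT.nd (nat_lit 38142) (nat_lit 0) (nat_lit 24852) (XT.nd (nat_lit 78) (nat_lit 76) (nat_lit 0) (XT.lf (nat_lit 0) (nat_lit 655209194) (nat_lit 0) (nat_lit 929228070) (nat_lit 152) (nat_lit 655209194) (nat_lit 48) (nat_lit 3) (nat_lit 48) (nat_lit 1) (nat_lit 50) (nat_lit 1) (nat_lit 428) (nat_lit 391) (nat_lit 201)) (XT.lf (nat_lit 76) (nat_lit 561845136) (nat_lit 0) (nat_lit 827882879) (nat_lit 76) (nat_lit 827882879) (nat_lit 48) (nat_lit 3) (nat_lit 47) (nat_lit 1) (nat_lit 48) (nat_lit 1) (nat_lit 429) (nat_lit 391) (nat_lit 200))) (XT.nd (nat_lit 78) (nat_lit 0) (nat_lit 0) (XT.lf (nat_lit 1292) (nat_lit 1734604073) (nat_lit 0) (nat_lit 5967844724) (nat_lit 1292) (nat_lit 1734604073) (nat_lit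 391) (nat_lit 1) (nat_lit 374) (nat_lit 0) (nat_lit 391) (nat_lit 0) (nat_lit 236) (nat_lit 392) (nat_lit 392)) (XT.nd (nat_lit 78) (nat_lit 0) (nat_lit 76) (XT.lf (nat_lit 1292) (nat_lit 6778863116) (nat_lit 76) (nat_lit 5909336443) (nat_lit 0) (nat_lit 5909336443) (nat_lit 391) (nat_lit 1) (nat_lit 375) (nat_lit 1) (nat_lit 374) (nat_lit 0) (nat_lit 237) (nat_lit 392) (nat_lit 391)) (XT.lf (nat_lit 1292) (nat_lit 3278419830) (nat_lit 0) (nat_lit 11770227151) (nat_lit 1216) (nat_lit 3278419830) (nat_lit 392) (nat_lit 1) (nat_lit 375) (nat_lit 1) (nat_lit 391) (nat_lit 1) (nat_lit 238) (nat_lit 392) (nat_lit 390))))))) (XT.nd (nat_lit 702) (nat_lit 2204) (nat_lit 0) (XT.nd (nat_lit 312) (nat_lit 0) (nat_lit 152) (XT.nd (nat_lit 156) (nat_lit 0) (nat_lit 76) (XT.nd (nat_lit 78) (nat_lit 0) (nat_lit 76) (XT.lf (nat_lit 1292) (nat_lit 6225888523) (nat_lit 76) (nat_lit 5917612920) (nat_lit 0) (nat_lit 5917612920)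 (nat_lit 392) (nat_lit 1) (nat_lit 376) (nat_lit 1) (nat_lit 375) (nat_lit 1) (nat_lit 239) (nat_lit 392) (nat_lit 389)) (XT.lf (nat_lit 1292) (nat_lit 2921467139) (nat_lit 0) (nat_lit 11958178412) (nat_lit 1216) (nat_lit 2921467139) (nat_lit 393) (nat_lit 1) (nat_lit 376) (nat_lit 1) (nat_lit 392) (nat_lit 1) (nat_lit 240) (nat_lit 392) (nat_lit 388))) (XT.nd (nat_lit 78) (nat_lit 0) (nat_lit 76) (XT.lf (nat_lit 1292) (nat_lit 5353896999) (nat_lit 76) (nat_lit 6095686106) (nat_lit 0) (nat_lit 6095686106) (nat_lit 393) (nat_lit 1) (nat_lit 377) (nat_lit 1) (nat_lit 376) (nat_lit 1) (nat_lit 241) (nat_lit 392) (nat_lit 387)) (XT.lf (nat_lit 1292) (nat_lit 2413047321) (nat_lit 0) (nat_lit 12469238895) (nat_lit 1216) (nat_lit 2413047321) (nat_lit 394) (nat_lit 1) (nat_lit 377) (nat_lit 1) (nat_lit 393) (nat_lit 1) (nat_lit 242) (nat_lit 392) (nat_lit 386)))) (XT.nd (nat_lit 156) (nat_lit 0) (nat_lit 76)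 (XT.nd (nat_lit 78) (nat_lit 0) (nat_lit 76) (XT.lf (nat_lit 1292) (nat_lit 4191417728) (nat_lit 76) (nat_lit 6428849604) (nat_lit 0) (nat_lit 6428849604) (nat_lit 394) (nat_lit 1) (nat_lit 378) (nat_lit 1) (nat_lit 377) (nat_lit 1) (nat_lit 243) (nat_lit 392) (nat_lit 385)) (XT.lf (nat_lit 1292) (nat_lit 1766863682) (nat_lit 0) (nat_lit 13275135614) (nat_lit 1216) (nat_lit 1766863682) (nat_lit 395) (nat_lit 1) (nat_lit 378) (nat_lit 1) (nat_lit 394) (nat_lit 1) (nat_lit 244) (nat_lit 392) (nat_lit 384))) (XT.nd (nat_lit 78) (nat_lit 0) (nat_lit 76) (XT.lf (nat_lit 1292) (nat_lit 2765044644) (nat_lit 76) (nat_lit 6903385668) (nat_lit 0) (nat_lit 6903385668) (nat_lit 395) (nat_lit 1) (nat_lit 379) (nat_lit 1) (nat_lit 378) (nat_lit 1) (nat_lit 245) (nat_lit 392) (nat_lit 383)) (XT.nd (nat_lit 78) (nat_lit 0) (nat_lit 0) (XT.lf (nat_lit 1292) (nat_lit 995687030) (nat_lit 0) (nat_lit 14349501824) (nat_lit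 1216) (nat_lit 995687030) (nat_lit 396) (nat_lit 1) (nat_lit 379) (nat_lit 1) (nat_lit 395) (nat_lit 1) (nat_lit 246) (nat_lit 392) (nat_lit 382)) (XT.lf (nat_lit 1292) (nat_lit 1099556180) (nat_lit 76) (nat_lit 7506504251) (nat_lit 0) (nat_lit 7506504251) (nat_lit 396) (nat_lit 1) (nat_lit 380) (nat_lit 1) (nat_lit 379) (nat_lit 1) (nat_lit 247) (nat_lit 392) (nat_lit 381)))))) (XT.nd (nat_lit 390) (nat_lit 1292) (nat_lit 0) (XT.nd (nat_lit 156) (nat_lit 0) (nat_lit 0) (XT.nd (nat_lit 78) (nat_lit 1292) (nat_lit 0) (XT.lf (nat_lit 1292) (nat_lit 111413441) (nat_lit 0) (nat_lit 15667759349) (nat_lit 1216) (nat_lit 111413441) (nat_lit 397) (nat_lit 1) (nat_lit 380) (nat_lit 1) (nat_lit 396) (nat_lit 1) (nat_lit 248) (nat_lit 392) (nat_lit 380)) (XT.lf (nat_lit 1368) (nat_lit 7451830362) (nat_lit 0) (nat_lit 766713000) (nat_lit 1292) (nat_lit 7451830362) (nat_lit 381) (nat_lit 1) (nat_lit 363) (nat_lit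 1) (nat_lit 380) (nat_lit 1) (nat_lit 249) (nat_lit 392) (nat_lit 379))) (XT.nd (nat_lit 78) (nat_lit 0) (nat_lit 76) (XT.lf (nat_lit 1368) (nat_lit 13723622591) (nat_lit 76) (nat_lit 866304121) (nat_lit 0) (nat_lit 866304121) (nat_lit 381) (nat_lit 1) (nat_lit 364) (nat_lit 1) (nat_lit 363) (nat_lit 1) (nat_lit 250) (nat_lit 392) (nat_lit 378)) (XT.nd (nat_lit 78) (nat_lit 0) (nat_lit 0) (XT.lf (nat_lit 1368) (nat_lit 6221038524) (nat_lit 0) (nat_lit 2802290471) (nat_lit 1292) (nat_lit 6221038524) (nat_lit 382) (nat_lit 1) (nat_lit 364) (nat_lit 1) (nat_lit 381) (nat_lit 1) (nat_lit 251) (nat_lit 392) (nat_lit 377)) (XT.lf (nat_lit 1368) (nat_lit 11170384640) (nat_lit 76) (nat_lit 1933745072) (nat_lit 0) (nat_lit 1933745072) (nat_lit 382) (nat_lit 1) (nat_lit 365) (nat_lit 1) (nat_lit 364) (nat_lit 1) (nat_lit 252) (nat_lit 392) (nat_lit 376))))) (XT.nd (nat_lit 156) (nat_lit 608) (nat_lit 0) (XT.nd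 (nat_lit 78) (nat_lit 836) (nat_lit 0) (XT.lf (nat_lit 76) (nat_lit 4912566974) (nat_lit 0) (nat_lit 5009041155) (nat_lit 1292) (nat_lit 4912566974) (nat_lit 366) (nat_lit 1) (nat_lit 365) (nat_lit 1) (nat_lit 382) (nat_lit 1) (nat_lit 253) (nat_lit 392) (nat_lit 375)) (XT.lf (nat_lit 912) (nat_lit 8469957068) (nat_lit 0) (nat_lit 3082510508) (nat_lit 836) (nat_lit 3082510508) (nat_lit 366) (nat_lit 1) (nat_lit 354) (nat_lit 1) (nat_lit 365) (nat_lit 1) (nat_lit 254) (nat_lit 392) (nat_lit 374))) (XT.nd (nat_lit 78) (nat_lit 608) (nat_lit 0) (XT.lf (nat_lit 76) (nat_lit 3535195199) (nat_lit 0) (nat_lit 7368749971) (nat_lit 912) (nat_lit 3535195199) (nat_lit 355) (nat_lit 1) (nat_lit 354) (nat_lit 1) (nat_lit 366) (nat_lit 1) (nat_lit 255) (nat_lit 392) (nat_lit 373)) (XT.nd (nat_lit 78) (nat_lit 0) (nat_lit 0) (XT.lf (nat_lit 684) (nat_lit 5639345159) (nat_lit 0) (nat_lit 4303778675) (nat_lit 608) (nat_lit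 4303778675) (nat_lit 355) (nat_lit 1) (nat_lit 346) (nat_lit 1) (nat_lit 354) (nat_lit 1) (nat_lit 256) (nat_lit 392) (nat_lit 372)) (XT.lf (nat_lit 76) (nat_lit 2097072874) (nat_lit 0) (nat_lit 9864491798) (nat_lit 684) (nat_lit 2097072874) (nat_lit 347) (nat_lit 1) (nat_lit 346) (nat_lit 1) (nat_lit 355) (nat_lit 1) (nat_lit 257) (nat_lit 392) (nat_lit 371))))))))
noncomputable def ec260 : XT := (XT.nd (nat_lit 1404) (nat_lit 3952) (nat_lit 0) (XT.nd (nat_lit 702) (nat_lit 2888) (nat_lit 0) (XT.nd (nat_lit 312) (nat_lit 1064) (nat_lit 0) (XT.nd (nat_lit 156) (nat_lit 1216) (nat_lit 0) (XT.nd (nat_lit 78) (nat_lit 0) (nat_lit 0) (XT.lf (nat_lit 684) (nat_lit 2694328822) (nat_lit 0) (nat_lit 5589355195) (nat_lit 608) (nat_lit 5589355195) (nat_lit 347) (nat_lit 1) (nat_lit 338) (nat_lit 1) (nat_lit 346) (nat_lit 1) (nat_lit 258) (nat_lit 392) (nat_lit 370)) (XT.lf (nat_lit 76) (nat_lit 605759680) (nat_lit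 0) (nat_lit 12480550309) (nat_lit 684) (nat_lit 605759680) (nat_lit 339) (nat_lit 1) (nat_lit 338) (nat_lit 1) (nat_lit 347) (nat_lit 1) (nat_lit 259) (nat_lit 392) (nat_lit 369))) (XT.nd (nat_lit 78) (nat_lit 608) (nat_lit 0) (XT.lf (nat_lit 76) (nat_lit 6584542552) (nat_lit 0) (nat_lit 343621079) (nat_lit 608) (nat_lit 6584542552) (nat_lit 331) (nat_lit 1) (nat_lit 330) (nat_lit 1) (nat_lit 338) (nat_lit 1) (nat_lit 260) (nat_lit 392) (nat_lit 368)) (XT.lf (nat_lit 684) (nat_lit 11492581740) (nat_lit 0) (nat_lit 922602594) (nat_lit 608) (nat_lit 922602594) (nat_lit 331) (nat_lit 1) (nat_lit 322) (nat_lit 1) (nat_lit 330) (nat_lit 1) (nat_lit 261) (nat_lit 392) (nat_lit 367)))) (XT.nd (nat_lit 156) (nat_lit 532) (nat_lit 0) (XT.nd (nat_lit 78) (nat_lit 532) (nat_lit 0) (XT.lf (nat_lit 76) (nat_lit 4875560317) (nat_lit 0) (nat_lit 3413527566) (nat_lit 684) (nat_lit 4875560317) (nat_lit 323) (nat_lit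 1) (nat_lit 322) (nat_lit 1) (nat_lit 331) (nat_lit 1) (nat_lit 262) (nat_lit 392) (nat_lit 366)) (XT.lf (nat_lit 608) (nat_lit 8026915739) (nat_lit 0) (nat_lit 2484330935) (nat_lit 532) (nat_lit 2484330935) (nat_lit 323) (nat_lit 1) (nat_lit 315) (nat_lit 1) (nat_lit 322) (nat_lit 1) (nat_lit 263) (nat_lit 392) (nat_lit 365))) (XT.nd (nat_lit 78) (nat_lit 532) (nat_lit 0) (XT.lf (nat_lit 76) (nat_lit 3136727995) (nat_lit 0) (nat_lit 6555660625) (nat_lit 608) (nat_lit 3136727995) (nat_lit 316) (nat_lit 1) (nat_lit 315) (nat_lit 1) (nat_lit 323) (nat_lit 1) (nat_lit 264) (nat_lit 392) (nat_lit 364)) (XT.nd (nat_lit 78) (nat_lit 0) (nat_lit 0) (XT.lf (nat_lit 608) (nat_lit 4506796703) (nat_lit 0) (nat_lit 4079417660) (nat_lit 532) (nat_lit 4079417660) (nat_lit 316) (nat_lit 1) (nat_lit 308) (nat_lit 1) (nat_lit 315) (nat_lit 1) (nat_lit 265) (nat_lit 392) (nat_lit 363)) (XT.lf (nat_lit 76) (nat_lit 1373485881)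 (nat_lit 0) (nat_lit 9758637696) (nat_lit 608) (nat_lit 1373485881) (nat_lit 309) (nat_lit 1) (nat_lit 308) (nat_lit 1) (nat_lit 316) (nat_lit 1) (nat_lit 266) (nat_lit 392) (nat_lit 362)))))) (XT.nd (nat_lit 312) (nat_lit 1368) (nat_lit 0) (XT.nd (nat_lit 156) (nat_lit 456) (nat_lit 0) (XT.nd (nat_lit 78) (nat_lit 608) (nat_lit 0) (XT.lf (nat_lit 532) (nat_lit 942730939) (nat_lit 0) (nat_lit 5702365107) (nat_lit 456) (nat_lit 5702365107) (nat_lit 309) (nat_lit 1) (nat_lit 302) (nat_lit 1) (nat_lit 308) (nat_lit 1) (nat_lit 267) (nat_lit 392) (nat_lit 361)) (XT.lf (nat_lit 608) (nat_lit 11382902240) (nat_lit 0) (nat_lit 405135333) (nat_lit 532) (nat_lit 405135333) (nat_lit 302) (nat_lit 1) (nat_lit 294) (nat_lit 1) (nat_lit 301) (nat_lit 1) (nat_lit 268) (nat_lit 392) (nat_lit 360))) (XT.nd (nat_lit 78) (nat_lit 456) (nat_lit 0) (XT.lf (nat_lit 76) (nat_lit 4718029420) (nat_lit 0) (nat_lit 2603773126)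 (nat_lit 608) (nat_lit 4718029420) (nat_lit 295) (nat_lit 1) (nat_lit 294) (nat_lit 1) (nat_lit 302) (nat_lit 1) (nat_lit 269) (nat_lit 392) (nat_lit 359)) (XT.lf (nat_lit 532) (nat_lit 7520392429) (nat_lit 0) (nat_lit 2184910663) (nat_lit 456) (nat_lit 2184910663) (nat_lit 295) (nat_lit 1) (nat_lit 288) (nat_lit 1) (nat_lit 294) (nat_lit 1) (nat_lit 270) (nat_lit 392) (nat_lit 358)))) (XT.nd (nat_lit 156) (nat_lit 912) (nat_lit 0) (XT.nd (nat_lit 78) (nat_lit 456) (nat_lit 0) (XT.lf (nat_lit 76) (nat_lit 2793031398) (nat_lit 0) (nat_lit 6156721844) (nat_lit 532) (nat_lit 2793031398) (nat_lit 289) (nat_lit 1) (nat_lit 288) (nat_lit 1) (nat_lit 295) (nat_lit 1) (nat_lit 271) (nat_lit 392) (nat_lit 357)) (XT.lf (nat_lit 532) (nat_lit 3647712843) (nat_lit 0) (nat_lit 3975089336) (nat_lit 456) (nat_lit 3975089336) (nat_lit 289) (nat_lit 1) (nat_lit 282) (nat_lit 1) (nat_lit 288) (nat_lit 1) (nat_lit 272)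 (nat_lit 392) (nat_lit 356))) (XT.nd (nat_lit 78) (nat_lit 912) (nat_lit 0) (XT.lf (nat_lit 76) (nat_lit 864851857) (nat_lit 0) (nat_lit 9726462944) (nat_lit 532) (nat_lit 864851857) (nat_lit 283) (nat_lit 1) (nat_lit 282) (nat_lit 1) (nat_lit 289) (nat_lit 1) (nat_lit 273) (nat_lit 392) (nat_lit 355)) (XT.nd (nat_lit 78) (nat_lit 456) (nat_lit 0) (XT.lf (nat_lit 76) (nat_lit 5546186619) (nat_lit 0) (nat_lit 223353377) (nat_lit 456) (nat_lit 5546186619) (nat_lit 277) (nat_lit 1) (nat_lit 276) (nat_lit 1) (nat_lit 282) (nat_lit 1) (nat_lit 274) (nat_lit 392) (nat_lit 354)) (XT.lf (nat_lit 532) (nat_lit 9073152518) (nat_lit 0) (nat_lit 1052593656) (nat_lit 456) (nat_lit 1052593656) (nat_lit 277) (nat_lit 1) (nat_lit 270) (nat_lit 1) (nat_lit 276) (nat_lit 1) (nat_lit 275) (nat_lit 392) (nat_lit 353))))))) (XT.nd (nat_lit 702) (nat_lit 2052) (nat_lit 0) (XT.nd (nat_lit 312) (nat_lit 1140) (nat_lit 0) (XT.nd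 (nat_lit 156) (nat_lit 380) (nat_lit 0) (XT.nd (nat_lit 78) (nat_lit 380) (nat_lit 0) (XT.lf (nat_lit 76) (nat_lit 3511455429) (nat_lit 0) (nat_lit 4019427242) (nat_lit 532) (nat_lit 3511455429) (nat_lit 271) (nat_lit 1) (nat_lit 270) (nat_lit 1) (nat_lit 277) (nat_lit 1) (nat_lit 276) (nat_lit 392) (nat_lit 352)) (XT.lf (nat_lit 456) (nat_lit 4992978824) (nat_lit 0) (nat_lit 2958085504) (nat_lit 380) (nat_lit 2958085504) (nat_lit 271) (nat_lit 1) (nat_lit 265) (nat_lit 1) (nat_lit 270) (nat_lit 1) (nat_lit 277) (nat_lit 392) (nat_lit 351))) (XT.nd (nat_lit 78) (nat_lit 380) (nat_lit 0) (XT.lf (nat_lit 76) (nat_lit 1486367795) (nat_lit 0) (nat_lit 7805665377) (nat_lit 456) (nat_lit 1486367795) (nat_lit 266) (nat_lit 1) (nat_lit 265) (nat_lit 1) (nat_lit 271) (nat_lit 1) (nat_lit 278) (nat_lit 392) (nat_lit 350)) (XT.lf (nat_lit 456) (nat_lit 934808262) (nat_lit 0) (nat_lit 4857211572) (nat_lit 380)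 (nat_lit 4857211572) (nat_lit 266) (nat_lit 1) (nat_lit 260) (nat_lit 1) (nat_lit 265) (nat_lit 1) (nat_lit 279) (nat_lit 392) (nat_lit 349)))) (XT.nd (nat_lit 156) (nat_lit 684) (nat_lit 0) (XT.nd (nat_lit 78) (nat_lit 0) (nat_lit 0) (XT.lf (nat_lit 456) (nat_lit 9480250301) (nat_lit 0) (nat_lit 521346892) (nat_lit 380) (nat_lit 521346892) (nat_lit 260) (nat_lit 1) (nat_lit 254) (nat_lit 1) (nat_lit 259) (nat_lit 1) (nat_lit 280) (nat_lit 392) (nat_lit 348)) (XT.lf (nat_lit 76) (nat_lit 3680660465) (nat_lit 0) (nat_lit 3036018481) (nat_lit 456) (nat_lit 3680660465) (nat_lit 255) (nat_lit 1) (nat_lit 254) (nat_lit 1) (nat_lit 260) (nat_lit 1) (nat_lit 281) (nat_lit 392) (nat_lit 347))) (XT.nd (nat_lit 78) (nat_lit 304) (nat_lit 0) (XT.lf (nat_lit 456) (nat_lit 5274343062) (nat_lit 0) (nat_lit 2500091562) (nat_lit 380) (nat_lit 2500091562) (nat_lit 255) (nat_lit 1) (nat_lit 249) (nat_lit 1) (nat_lit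 254) (nat_lit 1) (nat_lit 282) (nat_lit 392) (nat_lit 346)) (XT.nd (nat_lit 78) (nat_lit 304) (nat_lit 0) (XT.lf (nat_lit 76) (nat_lit 1597964869) (nat_lit 0) (nat_lit 6957839301) (nat_lit 456) (nat_lit 1597964869) (nat_lit 250) (nat_lit 1) (nat_lit 249) (nat_lit 1) (nat_lit 255) (nat_lit 1) (nat_lit 283) (nat_lit 392) (nat_lit 345)) (XT.lf (nat_lit 380) (nat_lit 1109838614) (nat_lit 0) (nat_lit 4462351829) (nat_lit 304) (nat_lit 4462351829) (nat_lit 250) (nat_lit 1) (nat_lit 245) (nat_lit 1) (nat_lit 249) (nat_lit 1) (nat_lit 284) (nat_lit 392) (nat_lit 344)))))) (XT.nd (nat_lit 390) (nat_lit 988) (nat_lit 0) (XT.nd (nat_lit 156) (nat_lit 608) (nat_lit 0) (XT.nd (nat_lit 78) (nat_lit 0) (nat_lit 0) (XT.lf (nat_lit 456) (nat_lit 9000533097) (nat_lit 0) (nat_lit 458698963) (nat_lit 380) (nat_lit 458698963) (nat_lit 245) (nat_lit 1) (nat_lit 239) (nat_lit 1) (nat_lit 244) (nat_lit 1) (nat_lit 285) (nat_lit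 392) (nat_lit 343)) (XT.lf (nat_lit 76) (nat_lit 3425364359) (nat_lit 0) (nat_lit 2951081210) (nat_lit 456) (nat_lit 3425364359) (nat_lit 240) (nat_lit 1) (nat_lit 239) (nat_lit 1) (nat_lit 245) (nat_lit 1) (nat_lit 286) (nat_lit 392) (nat_lit 342))) (XT.nd (nat_lit 78) (nat_lit 304) (nat_lit 0) (XT.lf (nat_lit 380) (nat_lit 4734607834) (nat_lit 0) (nat_lit 2476810242) (nat_lit 304) (nat_lit 2476810242) (nat_lit 240) (nat_lit 1) (nat_lit 235) (nat_lit 1) (nat_lit 239) (nat_lit 1) (nat_lit 287) (nat_lit 392) (nat_lit 341)) (XT.nd (nat_lit 78) (nat_lit 304) (nat_lit 0) (XT.lf (nat_lit 76) (nat_lit 1316622116) (nat_lit 0) (nat_lit 6943345318) (nat_lit 380) (nat_lit 1316622116) (nat_lit 236) (nat_lit 1) (nat_lit 235) (nat_lit 1) (nat_lit 240) (nat_lit 1) (nat_lit 288) (nat_lit 392) (nat_lit 340)) (XT.lf (nat_lit 380) (nat_lit 525013382) (nat_lit 0) (nat_lit 4470603167) (nat_lit 304) (nat_lit 4470603167)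 (nat_lit 236) (nat_lit 1) (nat_lit 231) (nat_lit 1) (nat_lit 235) (nat_lit 1) (nat_lit 289) (nat_lit 392) (nat_lit 339))))) (XT.nd (nat_lit 156) (nat_lit 608) (nat_lit 0) (XT.nd (nat_lit 78) (nat_lit 0) (nat_lit 0) (XT.lf (nat_lit 380) (nat_lit 7845987834) (nat_lit 0) (nat_lit 756020071) (nat_lit 304) (nat_lit 756020071) (nat_lit 231) (nat_lit 1) (nat_lit 226) (nat_lit 1) (nat_lit 230) (nat_lit 1) (nat_lit 290) (nat_lit 392) (nat_lit 338)) (XT.lf (nat_lit 76) (nat_lit 2847670953) (nat_lit 0) (nat_lit 3555235939) (nat_lit 380) (nat_lit 2847670953) (nat_lit 227) (nat_lit 1) (nat_lit 226) (nat_lit 1) (nat_lit 231) (nat_lit 1) (nat_lit 291) (nat_lit 392) (nat_lit 337))) (XT.nd (nat_lit 78) (nat_lit 304) (nat_lit 0) (XT.lf (nat_lit 380) (nat_lit 3572480897) (nat_lit 0) (nat_lit 2786380616) (nat_lit 304) (nat_lit 2786380616) (nat_lit 227) (nat_lit 1) (nat_lit 222) (nat_lit 1) (nat_lit 226) (nat_lit 1) (nat_lit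 292) (nat_lit 392) (nat_lit 336)) (XT.nd (nat_lit 78) (nat_lit 304) (nat_lit 0) (XT.lf (nat_lit 76) (nat_lit 738039846) (nat_lit 0) (nat_lit 7565864524) (nat_lit 380) (nat_lit 738039846) (nat_lit 223) (nat_lit 1) (nat_lit 222) (nat_lit 1) (nat_lit 227) (nat_lit 1) (nat_lit 293) (nat_lit 392) (nat_lit 335)) (XT.lf (nat_lit 76) (nat_lit 4159118036) (nat_lit 0) (nat_lit 621075798) (nat_lit 304) (nat_lit 4159118036) (nat_lit 219) (nat_lit 1) (nat_lit 218) (nat_lit 1) (nat_lit 222) (nat_lit 1) (nat_lit 294) (nat_lit 392) (nat_lit 334))))))))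
noncomputable def ec261 : XT := (XT.nd (nat_lit 1482) (nat_lit 2280) (nat_lit 0) (XT.nd (nat_lit 702) (nat_lit 1368) (nat_lit 0) (XT.nd (nat_lit 312) (nat_lit 760) (nat_lit 0) (XT.nd (nat_lit 156) (nat_lit 608) (nat_lit 0) (XT.nd (nat_lit 78) (nat_lit 0) (nat_lit 0) (XT.lf (nat_lit 380) (nat_lit 6189649905) (nat_lit 0) (nat_lit 1324505423) (nat_lit 304) (nat_lit 1324505423) (nat_lit 219) (nat_lit 1) (nat_lit 214) (nat_lit 1) (nat_lit 218) (nat_lit 1) (nat_lit 295) (nat_lit 392) (nat_lit 333)) (XT.lf (nat_lit 76) (nat_lit 2030888865) (nat_lit 0) (nat_lit 4677378528) (nat_lit 380) (nat_lit 2030888865) (nat_lit 215) (nat_lit 1) (nat_lit 214) (nat_lit 1) (nat_lit 219) (nat_lit 1) (nat_lit 296) (nat_lit 392) (nat_lit 332))) (XT.nd (nat_lit 78) (nat_lit 380) (nat_lit 0) (XT.lf (nat_lit 304) (nat_lit 1950025763) (nat_lit 0) (nat_lit 3345594280) (nat_lit 228) (nat_lit 3345594280) (nat_lit 215) (nat_lit 1) (nat_lit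 211) (nat_lit 1) (nat_lit 214) (nat_lit 1) (nat_lit 297) (nat_lit 392) (nat_lit 331)) (XT.lf (nat_lit 380) (nat_lit 8427139208) (nat_lit 0) (nat_lit 59177113) (nat_lit 304) (nat_lit 59177113) (nat_lit 211) (nat_lit 1) (nat_lit 206) (nat_lit 1) (nat_lit 210) (nat_lit 1) (nat_lit 298) (nat_lit 392) (nat_lit 330)))) (XT.nd (nat_lit 156) (nat_lit 532) (nat_lit 0) (XT.nd (nat_lit 78) (nat_lit 228) (nat_lit 0) (XT.lf (nat_lit 76) (nat_lit 3139515560) (nat_lit 0) (nat_lit 2170553242) (nat_lit 380) (nat_lit 3139515560) (nat_lit 207) (nat_lit 1) (nat_lit 206) (nat_lit 1) (nat_lit 211) (nat_lit 1) (nat_lit 299) (nat_lit 392) (nat_lit 329)) (XT.lf (nat_lit 304) (nat_lit 4172209354) (nat_lit 0) (nat_lit 2091819800) (nat_lit 228) (nat_lit 2091819800) (nat_lit 207) (nat_lit 1) (nat_lit 203) (nat_lit 1) (nat_lit 206) (nat_lit 1) (nat_lit 300) (nat_lit 392) (nat_lit 328))) (XT.nd (nat_lit 78) (nat_lit 532) (nat_lit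 0) (XT.lf (nat_lit 76) (nat_lit 1042721162) (nat_lit 0) (nat_lit 6178198204) (nat_lit 304) (nat_lit 1042721162) (nat_lit 204) (nat_lit 1) (nat_lit 203) (nat_lit 1) (nat_lit 207) (nat_lit 1) (nat_lit 301) (nat_lit 392) (nat_lit 327)) (XT.nd (nat_lit 78) (nat_lit 228) (nat_lit 0) (XT.lf (nat_lit 76) (nat_lit 4085629696) (nat_lit 0) (nat_lit 1093881) (nat_lit 304) (nat_lit 4085629696) (nat_lit 200) (nat_lit 1) (nat_lit 199) (nat_lit 1) (nat_lit 203) (nat_lit 1) (nat_lit 302) (nat_lit 392) (nat_lit 326)) (XT.lf (nat_lit 304) (nat_lit 6075533313) (nat_lit 0) (nat_lit 1003508794) (nat_lit 228) (nat_lit 1003508794) (nat_lit 200) (nat_lit 1) (nat_lit 196) (nat_lit 1) (nat_lit 199) (nat_lit 1) (nat_lit 303) (nat_lit 392) (nat_lit 325)))))) (XT.nd (nat_lit 390) (nat_lit 608) (nat_lit 0) (XT.nd (nat_lit 156) (nat_lit 532) (nat_lit 0) (XT.nd (nat_lit 78) (nat_lit 228) (nat_lit 0) (XT.lf (nat_lit 76) (nat_lit 1990347002)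 (nat_lit 0) (nat_lit 4012918075) (nat_lit 304) (nat_lit 1990347002) (nat_lit 197) (nat_lit 1) (nat_lit 196) (nat_lit 1) (nat_lit 200) (nat_lit 1) (nat_lit 304) (nat_lit 392) (nat_lit 324)) (XT.lf (nat_lit 304) (nat_lit 1907527098) (nat_lit 0) (nat_lit 2999295359) (nat_lit 228) (nat_lit 2999295359) (nat_lit 197) (nat_lit 1) (nat_lit 193) (nat_lit 1) (nat_lit 196) (nat_lit 1) (nat_lit 305) (nat_lit 392) (nat_lit 323))) (XT.nd (nat_lit 78) (nat_lit 228) (nat_lit 0) (XT.lf (nat_lit 304) (nat_lit 7697624251) (nat_lit 0) (nat_lit 61462813) (nat_lit 228) (nat_lit 61462813) (nat_lit 193) (nat_lit 1) (nat_lit 189) (nat_lit 1) (nat_lit 192) (nat_lit 1) (nat_lit 306) (nat_lit 392) (nat_lit 322)) (XT.nd (nat_lit 78) (nat_lit 228) (nat_lit 0) (XT.lf (nat_lit 76) (nat_lit 2801312827) (nat_lit 0) (nat_lit 2132094658) (nat_lit 304) (nat_lit 2801312827) (nat_lit 190) (nat_lit 1) (nat_lit 189) (nat_lit 1) (nat_lit 193)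 (nat_lit 1) (nat_lit 307) (nat_lit 392) (nat_lit 321)) (XT.lf (nat_lit 304) (nat_lit 3547743547) (nat_lit 0) (nat_lit 2051519135) (nat_lit 228) (nat_lit 2051519135) (nat_lit 190) (nat_lit 1) (nat_lit 186) (nat_lit 1) (nat_lit 189) (nat_lit 1) (nat_lit 308) (nat_lit 392) (nat_lit 320))))) (XT.nd (nat_lit 156) (nat_lit 380) (nat_lit 0) (XT.nd (nat_lit 78) (nat_lit 228) (nat_lit 0) (XT.lf (nat_lit 76) (nat_lit 758793100) (nat_lit 0) (nat_lit 6050678839) (nat_lit 304) (nat_lit 758793100) (nat_lit 187) (nat_lit 1) (nat_lit 186) (nat_lit 1) (nat_lit 190) (nat_lit 1) (nat_lit 309) (nat_lit 392) (nat_lit 319)) (XT.lf (nat_lit 76) (nat_lit 3491760548) (nat_lit 0) (nat_lit 502754920) (nat_lit 228) (nat_lit 3491760548) (nat_lit 184) (nat_lit 1) (nat_lit 183) (nat_lit 1) (nat_lit 186) (nat_lit 1) (nat_lit 310) (nat_lit 392) (nat_lit 318))) (XT.nd (nat_lit 78) (nat_lit 152) (nat_lit 0) (XT.lf (nat_lit 304) (nat_lit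 4951085771) (nat_lit 0) (nat_lit 1227295807) (nat_lit 228) (nat_lit 1227295807) (nat_lit 184) (nat_lit 1) (nat_lit 180) (nat_lit 1) (nat_lit 183) (nat_lit 1) (nat_lit 311) (nat_lit 392) (nat_lit 317)) (XT.nd (nat_lit 78) (nat_lit 152) (nat_lit 0) (XT.lf (nat_lit 76) (nat_lit 1464413470) (nat_lit 0) (nat_lit 4397171562) (nat_lit 304) (nat_lit 1464413470) (nat_lit 181) (nat_lit 1) (nat_lit 180) (nat_lit 1) (nat_lit 184) (nat_lit 1) (nat_lit 312) (nat_lit 392) (nat_lit 316)) (XT.lf (nat_lit 228) (nat_lit 922359326) (nat_lit 0) (nat_lit 3162512710) (nat_lit 152) (nat_lit 3162512710) (nat_lit 181) (nat_lit 1) (nat_lit 178) (nat_lit 1) (nat_lit 180) (nat_lit 1) (nat_lit 313) (nat_lit 392) (nat_lit 315))))))) (XT.nd (nat_lit 702) (nat_lit 1064) (nat_lit 0) (XT.nd (nat_lit 312) (nat_lit 760) (nat_lit 0) (XT.nd (nat_lit 156) (nat_lit 152) (nat_lit 0) (XT.nd (nat_lit 78) (nat_lit 0) (nat_lit 0) (XT.lf (nat_lit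 304) (nat_lit 6145540221) (nat_lit 0) (nat_lit 512327329) (nat_lit 228) (nat_lit 512327329) (nat_lit 178) (nat_lit 1) (nat_lit 174) (nat_lit 1) (nat_lit 177) (nat_lit 1) (nat_lit 314) (nat_lit 392) (nat_lit 314)) (XT.lf (nat_lit 76) (nat_lit 2068331457) (nat_lit 0) (nat_lit 2956559867) (nat_lit 304) (nat_lit 2068331457) (nat_lit 175) (nat_lit 1) (nat_lit 174) (nat_lit 1) (nat_lit 178) (nat_lit 1) (nat_lit 315) (nat_lit 392) (nat_lit 313))) (XT.nd (nat_lit 78) (nat_lit 0) (nat_lit 0) (XT.lf (nat_lit 228) (nat_lit 2157310715) (nat_lit 0) (nat_lit 2430168812) (nat_lit 152) (nat_lit 2430168812) (nat_lit 175) (nat_lit 1) (nat_lit 172) (nat_lit 1) (nat_lit 174) (nat_lit 1) (nat_lit 316) (nat_lit 392) (nat_lit 312)) (XT.lf (nat_lit 76) (nat_lit 107125019) (nat_lit 0) (nat_lit 6729402933) (nat_lit 228) (nat_lit 107125019) (nat_lit 173) (nat_lit 1) (nat_lit 172) (nat_lit 1) (nat_lit 175) (nat_lit 1) (nat_lit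 317) (nat_lit 392) (nat_lit 311)))) (XT.nd (nat_lit 156) (nat_lit 380) (nat_lit 0) (XT.nd (nat_lit 78) (nat_lit 152) (nat_lit 0) (XT.lf (nat_lit 76) (nat_lit 2582558580) (nat_lit 0) (nat_lit 1704272804) (nat_lit 228) (nat_lit 2582558580) (nat_lit 170) (nat_lit 1) (nat_lit 169) (nat_lit 1) (nat_lit 172) (nat_lit 1) (nat_lit 318) (nat_lit 392) (nat_lit 310)) (XT.lf (nat_lit 228) (nat_lit 3215583794) (nat_lit 0) (nat_lit 1790549465) (nat_lit 152) (nat_lit 1790549465) (nat_lit 170) (nat_lit 1) (nat_lit 167) (nat_lit 1) (nat_lit 169) (nat_lit 1) (nat_lit 319) (nat_lit 392) (nat_lit 309))) (XT.nd (nat_lit 78) (nat_lit 380) (nat_lit 0) (XT.lf (nat_lit 76) (nat_lit 645497744) (nat_lit 0) (nat_lit 5434170377) (nat_lit 228) (nat_lit 645497744) (nat_lit 168) (nat_lit 1) (nat_lit 167) (nat_lit 1) (nat_lit 170) (nat_lit 1) (nat_lit 320) (nat_lit 392) (nat_lit 308)) (XT.nd (nat_lit 78) (nat_lit 152) (nat_lit 0) (XT.lf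 (nat_lit 76) (nat_lit 3017747393) (nat_lit 0) (nat_lit 618503591) (nat_lit 228) (nat_lit 3017747393) (nat_lit 165) (nat_lit 1) (nat_lit 164) (nat_lit 1) (nat_lit 167) (nat_lit 1) (nat_lit 321) (nat_lit 392) (nat_lit 307)) (XT.lf (nat_lit 228) (nat_lit 4118015393) (nat_lit 0) (nat_lit 1232992583) (nat_lit 152) (nat_lit 1232992583) (nat_lit 165) (nat_lit 1) (nat_lit 162) (nat_lit 1) (nat_lit 164) (nat_lit 1) (nat_lit 322) (nat_lit 392) (nat_lit 306)))))) (XT.nd (nat_lit 390) (nat_lit 532) (nat_lit 0) (XT.nd (nat_lit 156) (nat_lit 380) (nat_lit 0) (XT.nd (nat_lit 78) (nat_lit 152) (nat_lit 0) (XT.lf (nat_lit 76) (nat_lit 1107806242) (nat_lit 0) (nat_lit 4299241482) (nat_lit 228) (nat_lit 1107806242) (nat_lit 163) (nat_lit 1) (nat_lit 162) (nat_lit 1) (nat_lit 165) (nat_lit 1) (nat_lit 323) (nat_lit 392) (nat_lit 305)) (XT.lf (nat_lit 228) (nat_lit 326469943) (nat_lit 0) (nat_lit 3060011878) (nat_lit 152)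 (nat_lit 3060011878) (nat_lit 163) (nat_lit 1) (nat_lit 160) (nat_lit 1) (nat_lit 162) (nat_lit 1) (nat_lit 324) (nat_lit 392) (nat_lit 304))) (XT.nd (nat_lit 78) (nat_lit 152) (nat_lit 0) (XT.lf (nat_lit 228) (nat_lit 4883085709) (nat_lit 0) (nat_lit 748034420) (nat_lit 152) (nat_lit 748034420) (nat_lit 160) (nat_lit 1) (nat_lit 157) (nat_lit 1) (nat_lit 159) (nat_lit 1) (nat_lit 325) (nat_lit 392) (nat_lit 303)) (XT.nd (nat_lit 78) (nat_lit 152) (nat_lit 0) (XT.lf (nat_lit 76) (nat_lit 1502999514) (nat_lit 0) (nat_lit 3306278126) (nat_lit 228) (nat_lit 1502999514) (nat_lit 158) (nat_lit 1) (nat_lit 157) (nat_lit 1) (nat_lit 160) (nat_lit 1) (nat_lit 326) (nat_lit 392) (nat_lit 302)) (XT.lf (nat_lit 228) (nat_lit 1151170283) (nat_lit 0) (nat_lit 2547616624) (nat_lit 152) (nat_lit 2547616624) (nat_lit 158) (nat_lit 1) (nat_lit 155) (nat_lit 1) (nat_lit 157) (nat_lit 1) (nat_lit 327) (nat_lit 392) (nat_lit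 301))))) (XT.nd (nat_lit 156) (nat_lit 304) (nat_lit 0) (XT.nd (nat_lit 78) (nat_lit 0) (nat_lit 0) (XT.lf (nat_lit 228) (nat_lit 5527182066) (nat_lit 0) (nat_lit 327275671) (nat_lit 152) (nat_lit 327275671) (nat_lit 155) (nat_lit 1) (nat_lit 152) (nat_lit 1) (nat_lit 154) (nat_lit 1) (nat_lit 328) (nat_lit 392) (nat_lit 300)) (XT.lf (nat_lit 76) (nat_lit 1839015034) (nat_lit 0) (nat_lit 2439000587) (nat_lit 228) (nat_lit 1839015034) (nat_lit 153) (nat_lit 1) (nat_lit 152) (nat_lit 1) (nat_lit 155) (nat_lit 1) (nat_lit 329) (nat_lit 392) (nat_lit 299))) (XT.nd (nat_lit 78) (nat_lit 152) (nat_lit 0) (XT.lf (nat_lit 228) (nat_lit 1858825097) (nat_lit 0) (nat_lit 2097345446) (nat_lit 152) (nat_lit 2097345446) (nat_lit 153) (nat_lit 1) (nat_lit 150) (nat_lit 1) (nat_lit 152) (nat_lit 1) (nat_lit 330) (nat_lit 392) (nat_lit 298)) (XT.nd (nat_lit 78) (nat_lit 152) (nat_lit 0) (XT.lf (nat_lit 76) (nat_lit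 37101234) (nat_lit 0) (nat_lit 5917112752) (nat_lit 228) (nat_lit 37101234) (nat_lit 151) (nat_lit 1) (nat_lit 150) (nat_lit 1) (nat_lit 153) (nat_lit 1) (nat_lit 331) (nat_lit 392) (nat_lit 297)) (XT.lf (nat_lit 76) (nat_lit 2122891945) (nat_lit 0) (nat_lit 1682957610) (nat_lit 152) (nat_lit 2122891945) (nat_lit 149) (nat_lit 1) (nat_lit 148) (nat_lit 1) (nat_lit 150) (nat_lit 1) (nat_lit 332) (nat_lit 392) (nat_lit 296))))))))
noncomputable def ec262 : XT := (XT.nd (nat_lit 1482) (nat_lit 1444) (nat_lit 0) (XT.nd (nat_lit 702) (nat_lit 1140) (nat_lit 0) (XT.nd (nat_lit 312) (nat_lit 380) (nat_lit 0) (XT.nd (nat_lit 156) (nat_lit 304) (nat_lit 0) (XT.nd (nat_lit 78) (nat_lit 0) (nat_lit 0) (XT.lf (nat_lit 228) (nat_lit 2463216985) (nat_lit 0) (nat_lit 1702125499) (nat_lit 152) (nat_lit 1702125499) (nat_lit 149) (nat_lit 1) (nat_lit 146) (nat_lit 1) (nat_lit 148) (nat_lit 1) (nat_lit 333) (nat_lit 392)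 (nat_lit 295)) (XT.lf (nat_lit 76) (nat_lit 354090609) (nat_lit 0) (nat_lit 5099087577) (nat_lit 228) (nat_lit 354090609) (nat_lit 147) (nat_lit 1) (nat_lit 146) (nat_lit 1) (nat_lit 149) (nat_lit 1) (nat_lit 334) (nat_lit 392) (nat_lit 294))) (XT.nd (nat_lit 78) (nat_lit 152) (nat_lit 0) (XT.lf (nat_lit 76) (nat_lit 2360871614) (nat_lit 0) (nat_lit 1025322135) (nat_lit 152) (nat_lit 2360871614) (nat_lit 145) (nat_lit 1) (nat_lit 144) (nat_lit 1) (nat_lit 146) (nat_lit 1) (nat_lit 335) (nat_lit 392) (nat_lit 293)) (XT.lf (nat_lit 228) (nat_lit 2976570331) (nat_lit 0) (nat_lit 1355676883) (nat_lit 152) (nat_lit 1355676883) (nat_lit 145) (nat_lit 1) (nat_lit 142) (nat_lit 1) (nat_lit 144) (nat_lit 1) (nat_lit 336) (nat_lit 392) (nat_lit 292)))) (XT.nd (nat_lit 156) (nat_lit 228) (nat_lit 0) (XT.nd (nat_lit 78) (nat_lit 152) (nat_lit 0) (XT.lf (nat_lit 76) (nat_lit 626378359) (nat_lit 0) (nat_lit 4376890293)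 (nat_lit 228) (nat_lit 626378359) (nat_lit 143) (nat_lit 1) (nat_lit 142) (nat_lit 1) (nat_lit 145) (nat_lit 1) (nat_lit 337) (nat_lit 392) (nat_lit 291)) (XT.lf (nat_lit 76) (nat_lit 2558486975) (nat_lit 0) (nat_lit 454709803) (nat_lit 152) (nat_lit 2558486975) (nat_lit 141) (nat_lit 1) (nat_lit 140) (nat_lit 1) (nat_lit 142) (nat_lit 1) (nat_lit 338) (nat_lit 392) (nat_lit 290))) (XT.nd (nat_lit 78) (nat_lit 76) (nat_lit 0) (XT.lf (nat_lit 228) (nat_lit 3409725685) (nat_lit 0) (nat_lit 1052424092) (nat_lit 152) (nat_lit 1052424092) (nat_lit 141) (nat_lit 1) (nat_lit 138) (nat_lit 1) (nat_lit 140) (nat_lit 1) (nat_lit 339) (nat_lit 392) (nat_lit 289)) (XT.nd (nat_lit 78) (nat_lit 76) (nat_lit 0) (XT.lf (nat_lit 76) (nat_lit 859221718) (nat_lit 0) (nat_lit 3739700651) (nat_lit 228) (nat_lit 859221718) (nat_lit 139) (nat_lit 1) (nat_lit 138) (nat_lit 1) (nat_lit 141) (nat_lit 1) (nat_lit 340) (nat_lit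 392) (nat_lit 288)) (XT.lf (nat_lit 152) (nat_lit 39758106) (nat_lit 0) (nat_lit 2681265956) (nat_lit 76) (nat_lit 2681265956) (nat_lit 139) (nat_lit 1) (nat_lit 137) (nat_lit 1) (nat_lit 138) (nat_lit 1) (nat_lit 341) (nat_lit 392) (nat_lit 287)))))) (XT.nd (nat_lit 390) (nat_lit 608) (nat_lit 0) (XT.nd (nat_lit 156) (nat_lit 304) (nat_lit 0) (XT.nd (nat_lit 78) (nat_lit 0) (nat_lit 0) (XT.lf (nat_lit 228) (nat_lit 3772294680) (nat_lit 0) (nat_lit 787417349) (nat_lit 152) (nat_lit 787417349) (nat_lit 137) (nat_lit 1) (nat_lit 134) (nat_lit 1) (nat_lit 136) (nat_lit 1) (nat_lit 342) (nat_lit 392) (nat_lit 286)) (XT.lf (nat_lit 76) (nat_lit 1057283737) (nat_lit 0) (nat_lit 3177908908) (nat_lit 228) (nat_lit 1057283737) (nat_lit 135) (nat_lit 1) (nat_lit 134) (nat_lit 1) (nat_lit 137) (nat_lit 1) (nat_lit 343) (nat_lit 392) (nat_lit 285))) (XT.nd (nat_lit 78) (nat_lit 228) (nat_lit 0) (XT.lf (nat_lit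 152) (nat_lit 473967614) (nat_lit 0) (nat_lit 2382270074) (nat_lit 76) (nat_lit 2382270074) (nat_lit 135) (nat_lit 1) (nat_lit 133) (nat_lit 1) (nat_lit 134) (nat_lit 1) (nat_lit 344) (nat_lit 392) (nat_lit 284)) (XT.nd (nat_lit 78) (nat_lit 0) (nat_lit 0) (XT.lf (nat_lit 228) (nat_lit 4072797655) (nat_lit 0) (nat_lit 556262713) (nat_lit 152) (nat_lit 556262713) (nat_lit 133) (nat_lit 1) (nat_lit 130) (nat_lit 1) (nat_lit 132) (nat_lit 1) (nat_lit 345) (nat_lit 392) (nat_lit 283)) (XT.lf (nat_lit 76) (nat_lit 1224699768) (nat_lit 0) (nat_lit 2682980725) (nat_lit 228) (nat_lit 1224699768) (nat_lit 131) (nat_lit 1) (nat_lit 130) (nat_lit 1) (nat_lit 133) (nat_lit 1) (nat_lit 346) (nat_lit 392) (nat_lit 282))))) (XT.nd (nat_lit 156) (nat_lit 304) (nat_lit 0) (XT.nd (nat_lit 78) (nat_lit 228) (nat_lit 0) (XT.lf (nat_lit 152) (nat_lit 846981128) (nat_lit 0) (nat_lit 2116616105) (nat_lit 76) (nat_lit 2116616105)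 (nat_lit 131) (nat_lit 1) (nat_lit 129) (nat_lit 1) (nat_lit 130) (nat_lit 1) (nat_lit 347) (nat_lit 392) (nat_lit 281)) (XT.lf (nat_lit 228) (nat_lit 4318785917) (nat_lit 0) (nat_lit 355059980) (nat_lit 152) (nat_lit 355059980) (nat_lit 129) (nat_lit 1) (nat_lit 126) (nat_lit 1) (nat_lit 128) (nat_lit 1) (nat_lit 348) (nat_lit 392) (nat_lit 280))) (XT.nd (nat_lit 78) (nat_lit 304) (nat_lit 0) (XT.lf (nat_lit 76) (nat_lit 1365136544) (nat_lit 0) (nat_lit 2247337140) (nat_lit 228) (nat_lit 1365136544) (nat_lit 127) (nat_lit 1) (nat_lit 126) (nat_lit 1) (nat_lit 129) (nat_lit 1) (nat_lit 349) (nat_lit 392) (nat_lit 279)) (XT.nd (nat_lit 78) (nat_lit 228) (nat_lit 0) (XT.lf (nat_lit 152) (nat_lit 1165994908) (nat_lit 0) (nat_lit 1880585995) (nat_lit 76) (nat_lit 1880585995) (nat_lit 127) (nat_lit 1) (nat_lit 125) (nat_lit 1) (nat_lit 126) (nat_lit 1) (nat_lit 350) (nat_lit 392) (nat_lit 278)) (XT.lf (nat_lit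 228) (nat_lit 4516950352) (nat_lit 0) (nat_lit 180347518) (nat_lit 152) (nat_lit 180347518) (nat_lit 125) (nat_lit 1) (nat_lit 122) (nat_lit 1) (nat_lit 124) (nat_lit 1) (nat_lit 351) (nat_lit 392) (nat_lit 277))))))) (XT.nd (nat_lit 702) (nat_lit 836) (nat_lit 0) (XT.nd (nat_lit 312) (nat_lit 304) (nat_lit 0) (XT.nd (nat_lit 156) (nat_lit 228) (nat_lit 0) (XT.nd (nat_lit 78) (nat_lit 76) (nat_lit 0) (XT.lf (nat_lit 76) (nat_lit 1481844646) (nat_lit 0) (nat_lit 1864247918) (nat_lit 228) (nat_lit 1481844646) (nat_lit 123) (nat_lit 1) (nat_lit 122) (nat_lit 1) (nat_lit 125) (nat_lit 1) (nat_lit 352) (nat_lit 392) (nat_lit 276)) (XT.lf (nat_lit 152) (nat_lit 1437391905) (nat_lit 0) (nat_lit 1670876299) (nat_lit 76) (nat_lit 1670876299) (nat_lit 123) (nat_lit 1) (nat_lit 121) (nat_lit 1) (nat_lit 122) (nat_lit 1) (nat_lit 353) (nat_lit 392) (nat_lit 275))) (XT.nd (nat_lit 78) (nat_lit 0) (nat_lit 0) (XT.lf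 (nat_lit 228) (nat_lit 4673217906) (nat_lit 0) (nat_lit 29053254) (nat_lit 152) (nat_lit 29053254) (nat_lit 121) (nat_lit 1) (nat_lit 118) (nat_lit 1) (nat_lit 120) (nat_lit 1) (nat_lit 354) (nat_lit 392) (nat_lit 274)) (XT.lf (nat_lit 76) (nat_lit 1577705122) (nat_lit 0) (nat_lit 1527736805) (nat_lit 228) (nat_lit 1577705122) (nat_lit 119) (nat_lit 1) (nat_lit 118) (nat_lit 1) (nat_lit 121) (nat_lit 1) (nat_lit 355) (nat_lit 392) (nat_lit 273)))) (XT.nd (nat_lit 156) (nat_lit 228) (nat_lit 0) (XT.nd (nat_lit 78) (nat_lit 0) (nat_lit 0) (XT.lf (nat_lit 152) (nat_lit 1666832761) (nat_lit 0) (nat_lit 1484551950) (nat_lit 76) (nat_lit 1484551950) (nat_lit 119) (nat_lit 1) (nat_lit 117) (nat_lit 1) (nat_lit 118) (nat_lit 1) (nat_lit 356) (nat_lit 392) (nat_lit 272)) (XT.lf (nat_lit 0) (nat_lit 102554304) (nat_lit 0) (nat_lit 4384512047) (nat_lit 152) (nat_lit 102554304) (nat_lit 117) (nat_lit 3) (nat_lit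 117) (nat_lit 1) (nat_lit 119) (nat_lit 1) (nat_lit 357) (nat_lit 392) (nat_lit 271))) (XT.nd (nat_lit 78) (nat_lit 76) (nat_lit 0) (XT.lf (nat_lit 76) (nat_lit 1655270903) (nat_lit 0) (nat_lit 1232497351) (nat_lit 152) (nat_lit 1655270903) (nat_lit 116) (nat_lit 1) (nat_lit 115) (nat_lit 1) (nat_lit 117) (nat_lit 1) (nat_lit 358) (nat_lit 392) (nat_lit 270)) (XT.nd (nat_lit 78) (nat_lit 0) (nat_lit 0) (XT.lf (nat_lit 152) (nat_lit 1859336669) (nat_lit 0) (nat_lit 1319005180) (nat_lit 76) (nat_lit 1319005180) (nat_lit 116) (nat_lit 1) (nat_lit 114) (nat_lit 1) (nat_lit 115) (nat_lit 1) (nat_lit 359) (nat_lit 392) (nat_lit 269)) (XT.lf (nat_lit 0) (nat_lit 215995184) (nat_lit 0) (nat_lit 4020459178) (nat_lit 152) (nat_lit 215995184) (nat_lit 114) (nat_lit 3) (nat_lit 114) (nat_lit 1) (nat_lit 116) (nat_lit 1) (nat_lit 360) (nat_lit 392) (nat_lit 268)))))) (XT.nd (nat_lit 390) (nat_lit 380) (nat_lit 0)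 (XT.nd (nat_lit 156) (nat_lit 228) (nat_lit 0) (XT.nd (nat_lit 78) (nat_lit 76) (nat_lit 0) (XT.lf (nat_lit 76) (nat_lit 1716803590) (nat_lit 0) (nat_lit 973818114) (nat_lit 152) (nat_lit 1716803590) (nat_lit 113) (nat_lit 1) (nat_lit 112) (nat_lit 1) (nat_lit 114) (nat_lit 1) (nat_lit 361) (nat_lit 392) (nat_lit 267)) (XT.lf (nat_lit 152) (nat_lit 2019353199) (nat_lit 0) (nat_lit 1171919018) (nat_lit 76) (nat_lit 1171919018) (nat_lit 113) (nat_lit 1) (nat_lit 111) (nat_lit 1) (nat_lit 112) (nat_lit 1) (nat_lit 362) (nat_lit 392) (nat_lit 266))) (XT.nd (nat_lit 78) (nat_lit 228) (nat_lit 0) (XT.lf (nat_lit 0) (nat_lit 313148742) (nat_lit 0) (nat_lit 3693365725) (nat_lit 152) (nat_lit 313148742) (nat_lit 111) (nat_lit 3) (nat_lit 111) (nat_lit 1) (nat_lit 113) (nat_lit 1) (nat_lit 363) (nat_lit 392) (nat_lit 265)) (XT.nd (nat_lit 78) (nat_lit 76) (nat_lit 0) (XT.lf (nat_lit 76) (nat_lit 1764306134) (nat_lit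 0) (nat_lit 747516219) (nat_lit 152) (nat_lit 1764306134) (nat_lit 110) (nat_lit 1) (nat_lit 109) (nat_lit 1) (nat_lit 111) (nat_lit 1) (nat_lit 364) (nat_lit 392) (nat_lit 264)) (XT.lf (nat_lit 152) (nat_lit 2150826105) (nat_lit 0) (nat_lit 1041234869) (nat_lit 76) (nat_lit 1041234869) (nat_lit 110) (nat_lit 1) (nat_lit 108) (nat_lit 1) (nat_lit 109) (nat_lit 1) (nat_lit 365) (nat_lit 392) (nat_lit 263))))) (XT.nd (nat_lit 156) (nat_lit 228) (nat_lit 0) (XT.nd (nat_lit 78) (nat_lit 152) (nat_lit 0) (XT.lf (nat_lit 0) (nat_lit 395937163) (nat_lit 0) (nat_lit 3399216172) (nat_lit 152) (nat_lit 395937163) (nat_lit 108) (nat_lit 3) (nat_lit 108) (nat_lit 1) (nat_lit 110) (nat_lit 1) (nat_lit 366) (nat_lit 392) (nat_lit 262)) (XT.lf (nat_lit 76) (nat_lit 1799551868) (nat_lit 0) (nat_lit 549878322) (nat_lit 152) (nat_lit 1799551868) (nat_lit 107) (nat_lit 1) (nat_lit 106) (nat_lit 1) (nat_lit 108) (nat_lit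 1) (nat_lit 367) (nat_lit 392) (nat_lit 261))) (XT.nd (nat_lit 78) (nat_lit 152) (nat_lit 0) (XT.lf (nat_lit 152) (nat_lit 2257250013) (nat_lit 0) (nat_lit 925123695) (nat_lit 76) (nat_lit 925123695) (nat_lit 107) (nat_lit 1) (nat_lit 105) (nat_lit 1) (nat_lit 106) (nat_lit 1) (nat_lit 368) (nat_lit 392) (nat_lit 260)) (XT.nd (nat_lit 78) (nat_lit 152) (nat_lit 0) (XT.lf (nat_lit 0) (nat_lit 466065199) (nat_lit 0) (nat_lit 3134439699) (nat_lit 152) (nat_lit 466065199) (nat_lit 105) (nat_lit 3) (nat_lit 105) (nat_lit 1) (nat_lit 107) (nat_lit 1) (nat_lit 369) (nat_lit 392) (nat_lit 259)) (XT.lf (nat_lit 76) (nat_lit 1824110293) (nat_lit 0) (nat_lit 377608158) (nat_lit 152) (nat_lit 1824110293) (nat_lit 104) (nat_lit 1) (nat_lit 103) (nat_lit 1) (nat_lit 105) (nat_lit 1) (nat_lit 370) (nat_lit 392) (nat_lit 258))))))))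
noncomputable def ec263 : XT := (XT.nd (nat_lit 1482) (nat_lit 1368) (nat_lit 0) (XT.nd (nat_lit 702) (nat_lit 836) (nat_lit 0) (XT.nd (nat_lit 312) (nat_lit 304) (nat_lit 0) (XT.nd (nat_lit 156) (nat_lit 228) (nat_lit 0) (XT.nd (nat_lit 78) (nat_lit 0) (nat_lit 0) (XT.lf (nat_lit 152) (nat_lit 2341720775) (nat_lit 0) (nat_lit 821960420) (nat_lit 76) (nat_lit 821960420) (nat_lit 104) (nat_lit 1) (nat_lit 102) (nat_lit 1) (nat_lit 103) (nat_lit 1) (nat_lit 371) (nat_lit 392) (nat_lit 257)) (XT.lf (nat_lit 0) (nat_lit 525044501) (nat_lit 0) (nat_lit 2895860684) (nat_lit 152) (nat_lit 525044501) (nat_lit 102) (nat_lit 3) (nat_lit 102) (nat_lit 1) (nat_lit 104) (nat_lit 1) (nat_lit 372) (nat_lit 392) (nat_lit 256))) (XT.nd (nat_lit 78) (nat_lit 76) (nat_lit 0) (XT.lf (nat_lit 76) (nat_lit 1839369986) (nat_lit 0) (nat_lit 227779949) (nat_lit 152) (nat_lit 1839369986) (nat_lit 101) (nat_lit 1) (nat_lit 100)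 (nat_lit 1) (nat_lit 102) (nat_lit 1) (nat_lit 373) (nat_lit 392) (nat_lit 255)) (XT.lf (nat_lit 152) (nat_lit 2406980205) (nat_lit 0) (nat_lit 730301187) (nat_lit 76) (nat_lit 730301187) (nat_lit 101) (nat_lit 1) (nat_lit 99) (nat_lit 1) (nat_lit 100) (nat_lit 1) (nat_lit 374) (nat_lit 392) (nat_lit 254)))) (XT.nd (nat_lit 156) (nat_lit 152) (nat_lit 0) (XT.nd (nat_lit 78) (nat_lit 152) (nat_lit 0) (XT.lf (nat_lit 0) (nat_lit 574215247) (nat_lit 0) (nat_lit 2680654719) (nat_lit 152) (nat_lit 574215247) (nat_lit 99) (nat_lit 3) (nat_lit 99) (nat_lit 1) (nat_lit 101) (nat_lit 1) (nat_lit 375) (nat_lit 392) (nat_lit 253)) (XT.lf (nat_lit 76) (nat_lit 1846558950) (nat_lit 0) (nat_lit 97797002) (nat_lit 152) (nat_lit 1846558950) (nat_lit 98) (nat_lit 1) (nat_lit 97) (nat_lit 1) (nat_lit 99) (nat_lit 1) (nat_lit 376) (nat_lit 392) (nat_lit 252))) (XT.nd (nat_lit 78) (nat_lit 76) (nat_lit 0) (XT.lf (nat_lit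 152) (nat_lit 2455455810) (nat_lit 0) (nat_lit 648863146) (nat_lit 76) (nat_lit 648863146) (nat_lit 98) (nat_lit 1) (nat_lit 96) (nat_lit 1) (nat_lit 97) (nat_lit 1) (nat_lit 377) (nat_lit 392) (nat_lit 251)) (XT.nd (nat_lit 78) (nat_lit 76) (nat_lit 0) (XT.lf (nat_lit 0) (nat_lit 614765343) (nat_lit 0) (nat_lit 2486309530) (nat_lit 152) (nat_lit 614765343) (nat_lit 96) (nat_lit 3) (nat_lit 96) (nat_lit 1) (nat_lit 98) (nat_lit 1) (nat_lit 378) (nat_lit 392) (nat_lit 250)) (XT.lf (nat_lit 76) (nat_lit 14936535) (nat_lit 0) (nat_lit 1831969726) (nat_lit 76) (nat_lit 1831969726) (nat_lit 96) (nat_lit 3) (nat_lit 95) (nat_lit 1) (nat_lit 96) (nat_lit 1) (nat_lit 379) (nat_lit 392) (nat_lit 249)))))) (XT.nd (nat_lit 390) (nat_lit 456) (nat_lit 0) (XT.nd (nat_lit 156) (nat_lit 228) (nat_lit 0) (XT.nd (nat_lit 78) (nat_lit 0) (nat_lit 0) (XT.lf (nat_lit 152) (nat_lit 2489296096) (nat_lit 0) (nat_lit 576506501)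 (nat_lit 76) (nat_lit 576506501) (nat_lit 95) (nat_lit 1) (nat_lit 93) (nat_lit 1) (nat_lit 94) (nat_lit 1) (nat_lit 380) (nat_lit 392) (nat_lit 248)) (XT.lf (nat_lit 0) (nat_lit 647747484) (nat_lit 0) (nat_lit 2310590254) (nat_lit 152) (nat_lit 647747484) (nat_lit 93) (nat_lit 3) (nat_lit 93) (nat_lit 1) (nat_lit 95) (nat_lit 1) (nat_lit 381) (nat_lit 392) (nat_lit 247))) (XT.nd (nat_lit 78) (nat_lit 152) (nat_lit 0) (XT.lf (nat_lit 76) (nat_lit 113811902) (nat_lit 0) (nat_lit 1728222358) (nat_lit 76) (nat_lit 1728222358) (nat_lit 93) (nat_lit 3) (nat_lit 92) (nat_lit 1) (nat_lit 93) (nat_lit 1) (nat_lit 382) (nat_lit 392) (nat_lit 246)) (XT.nd (nat_lit 78) (nat_lit 0) (nat_lit 0) (XT.lf (nat_lit 152) (nat_lit 2510401914) (nat_lit 0) (nat_lit 512218559) (nat_lit 76) (nat_lit 512218559) (nat_lit 92) (nat_lit 1) (nat_lit 90) (nat_lit 1) (nat_lit 91) (nat_lit 1) (nat_lit 383) (nat_lit 392) (nat_lit 245))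 (XT.lf (nat_lit 0) (nat_lit 674094317) (nat_lit 0) (nat_lit 2151508581) (nat_lit 152) (nat_lit 674094317) (nat_lit 90) (nat_lit 3) (nat_lit 90) (nat_lit 1) (nat_lit 92) (nat_lit 1) (nat_lit 384) (nat_lit 392) (nat_lit 244))))) (XT.nd (nat_lit 156) (nat_lit 228) (nat_lit 0) (XT.nd (nat_lit 78) (nat_lit 152) (nat_lit 0) (XT.lf (nat_lit 76) (nat_lit 198733007) (nat_lit 0) (nat_lit 1633115787) (nat_lit 76) (nat_lit 1633115787) (nat_lit 90) (nat_lit 3) (nat_lit 89) (nat_lit 1) (nat_lit 90) (nat_lit 1) (nat_lit 385) (nat_lit 392) (nat_lit 243)) (XT.lf (nat_lit 152) (nat_lit 2520454318) (nat_lit 0) (nat_lit 455099555) (nat_lit 76) (nat_lit 455099555) (nat_lit 89) (nat_lit 1) (nat_lit 87) (nat_lit 1) (nat_lit 88) (nat_lit 1) (nat_lit 386) (nat_lit 392) (nat_lit 242))) (XT.nd (nat_lit 78) (nat_lit 228) (nat_lit 0) (XT.lf (nat_lit 0) (nat_lit 694631902) (nat_lit 0) (nat_lit 2007295340) (nat_lit 152) (nat_lit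 694631902) (nat_lit 87) (nat_lit 3) (nat_lit 87) (nat_lit 1) (nat_lit 89) (nat_lit 1) (nat_lit 387) (nat_lit 392) (nat_lit 241)) (XT.nd (nat_lit 78) (nat_lit 152) (nat_lit 0) (XT.lf (nat_lit 76) (nat_lit 271341223) (nat_lit 0) (nat_lit 1545771745) (nat_lit 76) (nat_lit 1545771745) (nat_lit 87) (nat_lit 3) (nat_lit 86) (nat_lit 1) (nat_lit 87) (nat_lit 1) (nat_lit 388) (nat_lit 392) (nat_lit 240)) (XT.lf (nat_lit 152) (nat_lit 2520939300) (nat_lit 0) (nat_lit 404350060) (nat_lit 76) (nat_lit 404350060) (nat_lit 86) (nat_lit 1) (nat_lit 84) (nat_lit 1) (nat_lit 85) (nat_lit 1) (nat_lit 389) (nat_lit 392) (nat_lit 239))))))) (XT.nd (nat_lit 702) (nat_lit 684) (nat_lit 0) (XT.nd (nat_lit 312) (nat_lit 456) (nat_lit 0) (XT.nd (nat_lit 156) (nat_lit 152) (nat_lit 0) (XT.nd (nat_lit 78) (nat_lit 76) (nat_lit 0) (XT.lf (nat_lit 0) (nat_lit 710091674) (nat_lit 0) (nat_lit 1876376137) (nat_lit 152) (nat_lit 710091674)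 (nat_lit 84) (nat_lit 3) (nat_lit 84) (nat_lit 1) (nat_lit 86) (nat_lit 1) (nat_lit 390) (nat_lit 392) (nat_lit 238)) (XT.lf (nat_lit 76) (nat_lit 333092405) (nat_lit 0) (nat_lit 1465407417) (nat_lit 76) (nat_lit 1465407417) (nat_lit 84) (nat_lit 3) (nat_lit 83) (nat_lit 1) (nat_lit 84) (nat_lit 1) (nat_lit 391) (nat_lit 392) (nat_lit 237))) (XT.nd (nat_lit 78) (nat_lit 0) (nat_lit 0) (XT.lf (nat_lit 152) (nat_lit 2513169765) (nat_lit 0) (nat_lit 359259792) (nat_lit 76) (nat_lit 359259792) (nat_lit 83) (nat_lit 1) (nat_lit 81) (nat_lit 1) (nat_lit 82) (nat_lit 1) (nat_lit 392) (nat_lit 392) (nat_lit 236)) (XT.lf (nat_lit 0) (nat_lit 721121066) (nat_lit 0) (nat_lit 1757349706) (nat_lit 152) (nat_lit 721121066) (nat_lit 81) (nat_lit 3) (nat_lit 81) (nat_lit 1) (nat_lit 83) (nat_lit 1) (nat_lit 393) (nat_lit 392) (nat_lit 235)))) (XT.nd (nat_lit 156) (nat_lit 228) (nat_lit 0) (XT.nd (nat_lit 78) (nat_lit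 152) (nat_lit 0) (XT.lf (nat_lit 76) (nat_lit 385277650) (nat_lit 0) (nat_lit 1391324873) (nat_lit 76) (nat_lit 1391324873) (nat_lit 81) (nat_lit 3) (nat_lit 80) (nat_lit 1) (nat_lit 81) (nat_lit 1) (nat_lit 394) (nat_lit 392) (nat_lit 234)) (XT.lf (nat_lit 152) (nat_lit 2498305046) (nat_lit 0) (nat_lit 319197672) (nat_lit 76) (nat_lit 319197672) (nat_lit 80) (nat_lit 1) (nat_lit 78) (nat_lit 1) (nat_lit 79) (nat_lit 1) (nat_lit 395) (nat_lit 392) (nat_lit 233))) (XT.nd (nat_lit 78) (nat_lit 228) (nat_lit 0) (XT.lf (nat_lit 0) (nat_lit 728292952) (nat_lit 0) (nat_lit 1648968677) (nat_lit 152) (nat_lit 728292952) (nat_lit 78) (nat_lit 3) (nat_lit 78) (nat_lit 1) (nat_lit 80) (nat_lit 1) (nat_lit 396) (nat_lit 392) (nat_lit 232)) (XT.nd (nat_lit 78) (nat_lit 152) (nat_lit 0) (XT.lf (nat_lit 76) (nat_lit 429041738) (nat_lit 0) (nat_lit 1322901665) (nat_lit 76) (nat_lit 1322901665) (nat_lit 78) (nat_lit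 3) (nat_lit 77) (nat_lit 1) (nat_lit 78) (nat_lit 1) (nat_lit 397) (nat_lit 392) (nat_lit 231)) (XT.lf (nat_lit 152) (nat_lit 2477368239) (nat_lit 0) (nat_lit 283602997) (nat_lit 76) (nat_lit 283602997) (nat_lit 77) (nat_lit 1) (nat_lit 75) (nat_lit 1) (nat_lit 76) (nat_lit 1) (nat_lit 398) (nat_lit 392) (nat_lit 230)))))) (XT.nd (nat_lit 390) (nat_lit 380) (nat_lit 0) (XT.nd (nat_lit 156) (nat_lit 228) (nat_lit 0) (XT.nd (nat_lit 78) (nat_lit 76) (nat_lit 0) (XT.lf (nat_lit 0) (nat_lit 732114024) (nat_lit 0) (nat_lit 1550122481) (nat_lit 152) (nat_lit 732114024) (nat_lit 75) (nat_lit 3) (nat_lit 75) (nat_lit 1) (nat_lit 77) (nat_lit 1) (nat_lit 399) (nat_lit 392) (nat_lit 229)) (XT.lf (nat_lit 76) (nat_lit 465399518) (nat_lit 0) (nat_lit 1259582486) (nat_lit 76) (nat_lit 1259582486) (nat_lit 75) (nat_lit 3) (nat_lit 74) (nat_lit 1) (nat_lit 75) (nat_lit 1) (nat_lit 400) (nat_lit 392) (nat_lit 228)))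 (XT.nd (nat_lit 78) (nat_lit 76) (nat_lit 0) (XT.lf (nat_lit 152) (nat_lit 2451261596) (nat_lit 0) (nat_lit 251977589) (nat_lit 76) (nat_lit 251977589) (nat_lit 74) (nat_lit 1) (nat_lit 72) (nat_lit 1) (nat_lit 73) (nat_lit 1) (nat_lit 401) (nat_lit 392) (nat_lit 227)) (XT.nd (nat_lit 78) (nat_lit 76) (nat_lit 0) (XT.lf (nat_lit 0) (nat_lit 733032245) (nat_lit 0) (nat_lit 1459822164) (nat_lit 152) (nat_lit 733032245) (nat_lit 72) (nat_lit 3) (nat_lit 72) (nat_lit 1) (nat_lit 74) (nat_lit 1) (nat_lit 402) (nat_lit 392) (nat_lit 226)) (XT.lf (nat_lit 76) (nat_lit 495250465) (nat_lit 0) (nat_lit 1200871745) (nat_lit 76) (nat_lit 1200871745) (nat_lit 72) (nat_lit 3) (nat_lit 71) (nat_lit 1) (nat_lit 72) (nat_lit 1) (nat_lit 403) (nat_lit 392) (nat_lit 225))))) (XT.nd (nat_lit 156) (nat_lit 228) (nat_lit 0) (XT.nd (nat_lit 78) (nat_lit 0) (nat_lit 0) (XT.lf (nat_lit 152) (nat_lit 2420780202) (nat_lit 0)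 (nat_lit 223878824) (nat_lit 76) (nat_lit 223878824) (nat_lit 71) (nat_lit 1) (nat_lit 69) (nat_lit 1) (nat_lit 70) (nat_lit 1) (nat_lit 404) (nat_lit 392) (nat_lit 224)) (XT.lf (nat_lit 0) (nat_lit 731443458) (nat_lit 0) (nat_lit 1377186888) (nat_lit 152) (nat_lit 731443458) (nat_lit 69) (nat_lit 3) (nat_lit 69) (nat_lit 1) (nat_lit 71) (nat_lit 1) (nat_lit 405) (nat_lit 392) (nat_lit 223))) (XT.nd (nat_lit 78) (nat_lit 152) (nat_lit 0) (XT.lf (nat_lit 76) (nat_lit 519391605) (nat_lit 0) (nat_lit 1146326973) (nat_lit 76) (nat_lit 1146326973) (nat_lit 69) (nat_lit 3) (nat_lit 68) (nat_lit 1) (nat_lit 69) (nat_lit 1) (nat_lit 406) (nat_lit 392) (nat_lit 222)) (XT.nd (nat_lit 78) (nat_lit 0) (nat_lit 0) (XT.lf (nat_lit 152) (nat_lit 2386624111) (nat_lit 0) (nat_lit 198913436) (nat_lit 76) (nat_lit 198913436) (nat_lit 68) (nat_lit 1) (nat_lit 66) (nat_lit 1) (nat_lit 67) (nat_lit 1) (nat_lit 407) (nat_lit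 392) (nat_lit 221)) (XT.lf (nat_lit 0) (nat_lit 727697265) (nat_lit 0) (nat_lit 1301431939) (nat_lit 152) (nat_lit 727697265) (nat_lit 66) (nat_lit 3) (nat_lit 66) (nat_lit 1) (nat_lit 68) (nat_lit 1) (nat_lit 408) (nat_lit 392) (nat_lit 220))))))))
noncomputable def ec264 : XT := (XT.nd (nat_lit 1404) (nat_lit 228) (nat_lit 0) (XT.nd (nat_lit 702) (nat_lit 684) (nat_lit 0) (XT.nd (nat_lit 312) (nat_lit 380) (nat_lit 0) (XT.nd (nat_lit 156) (nat_lit 76) (nat_lit 0) (XT.nd (nat_lit 78) (nat_lit 152) (nat_lit 0) (XT.lf (nat_lit 76) (nat_lit 538529006) (nat_lit 0) (nat_lit 1095552961) (nat_lit 76) (nat_lit 1095552961) (nat_lit 66) (nat_lit 3) (nat_lit 65) (nat_lit 1) (nat_lit 66) (nat_lit 1) (nat_lit 409) (nat_lit 392) (nat_lit 219)) (XT.lf (nat_lit 152) (nat_lit 2349409130) (nat_lit 0) (nat_lit 176732011) (nat_lit 76) (nat_lit 176732011) (nat_lit 65) (nat_lit 1) (nat_lit 63) (nat_lit 1) (nat_lit 64) (nat_lit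 1) (nat_lit 410) (nat_lit 392) (nat_lit 218))) (XT.nd (nat_lit 78) (nat_lit 76) (nat_lit 0) (XT.lf (nat_lit 0) (nat_lit 722102242) (nat_lit 0) (nat_lit 1231858068) (nat_lit 152) (nat_lit 722102242) (nat_lit 63) (nat_lit 3) (nat_lit 63) (nat_lit 1) (nat_lit 65) (nat_lit 1) (nat_lit 411) (nat_lit 392) (nat_lit 217)) (XT.lf (nat_lit 76) (nat_lit 553287981) (nat_lit 0) (nat_lit 1048196551) (nat_lit 76) (nat_lit 1048196551) (nat_lit 63) (nat_lit 3) (nat_lit 62) (nat_lit 1) (nat_lit 63) (nat_lit 1) (nat_lit 412) (nat_lit 392) (nat_lit 216)))) (XT.nd (nat_lit 156) (nat_lit 228) (nat_lit 0) (XT.nd (nat_lit 78) (nat_lit 0) (nat_lit 0) (XT.lf (nat_lit 152) (nat_lit 2309676398) (nat_lit 0) (nat_lit 157024103) (nat_lit 76) (nat_lit 157024103) (nat_lit 62) (nat_lit 1) (nat_lit 60) (nat_lit 1) (nat_lit 61) (nat_lit 1) (nat_lit 413) (nat_lit 392) (nat_lit 215)) (XT.lf (nat_lit 0) (nat_lit 714930573) (nat_lit 0) (nat_lit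 1167842022) (nat_lit 152) (nat_lit 714930573) (nat_lit 60) (nat_lit 3) (nat_lit 60) (nat_lit 1) (nat_lit 62) (nat_lit 1) (nat_lit 414) (nat_lit 392) (nat_lit 214))) (XT.nd (nat_lit 78) (nat_lit 152) (nat_lit 0) (XT.lf (nat_lit 76) (nat_lit 564222151) (nat_lit 0) (nat_lit 1003942005) (nat_lit 76) (nat_lit 1003942005) (nat_lit 60) (nat_lit 3) (nat_lit 59) (nat_lit 1) (nat_lit 60) (nat_lit 1) (nat_lit 415) (nat_lit 392) (nat_lit 213)) (XT.nd (nat_lit 78) (nat_lit 0) (nat_lit 0) (XT.lf (nat_lit 152) (nat_lit 2267900880) (nat_lit 0) (nat_lit 139513882) (nat_lit 76) (nat_lit 139513882) (nat_lit 59) (nat_lit 1) (nat_lit 57) (nat_lit 1) (nat_lit 58) (nat_lit 1) (nat_lit 416) (nat_lit 392) (nat_lit 212)) (XT.lf (nat_lit 0) (nat_lit 706422170) (nat_lit 0) (nat_lit 1108828127) (nat_lit 152) (nat_lit 706422170) (nat_lit 57) (nat_lit 3) (nat_lit 57) (nat_lit 1) (nat_lit 59) (nat_lit 1) (nat_lit 417) (nat_lit 392)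 (nat_lit 211)))))) (XT.nd (nat_lit 312) (nat_lit 380) (nat_lit 0) (XT.nd (nat_lit 156) (nat_lit 76) (nat_lit 0) (XT.nd (nat_lit 78) (nat_lit 152) (nat_lit 0) (XT.lf (nat_lit 76) (nat_lit 571821497) (nat_lit 0) (nat_lit 962506892) (nat_lit 76) (nat_lit 962506892) (nat_lit 57) (nat_lit 3) (nat_lit 56) (nat_lit 1) (nat_lit 57) (nat_lit 1) (nat_lit 418) (nat_lit 392) (nat_lit 210)) (XT.lf (nat_lit 152) (nat_lit 2224498922) (nat_lit 0) (nat_lit 123956277) (nat_lit 76) (nat_lit 123956277) (nat_lit 56) (nat_lit 1) (nat_lit 54) (nat_lit 1) (nat_lit 55) (nat_lit 1) (nat_lit 419) (nat_lit 392) (nat_lit 209))) (XT.nd (nat_lit 78) (nat_lit 76) (nat_lit 0) (XT.lf (nat_lit 0) (nat_lit 696788323) (nat_lit 0) (nat_lit 1054320803) (nat_lit 152) (nat_lit 696788323) (nat_lit 54) (nat_lit 3) (nat_lit 54) (nat_lit 1) (nat_lit 56) (nat_lit 1) (nat_lit 420) (nat_lit 392) (nat_lit 208)) (XT.lf (nat_lit 76) (nat_lit 576519512)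 (nat_lit 0) (nat_lit 923638425) (nat_lit 76) (nat_lit 923638425) (nat_lit 54) (nat_lit 3) (nat_lit 53) (nat_lit 1) (nat_lit 54) (nat_lit 1) (nat_lit 421) (nat_lit 392) (nat_lit 207)))) (XT.nd (nat_lit 156) (nat_lit 228) (nat_lit 0) (XT.nd (nat_lit 78) (nat_lit 0) (nat_lit 0) (XT.lf (nat_lit 152) (nat_lit 2179834951) (nat_lit 0) (nat_lit 110133546) (nat_lit 76) (nat_lit 110133546) (nat_lit 53) (nat_lit 1) (nat_lit 51) (nat_lit 1) (nat_lit 52) (nat_lit 1) (nat_lit 422) (nat_lit 392) (nat_lit 206)) (XT.lf (nat_lit 0) (nat_lit 686214948) (nat_lit 0) (nat_lit 1003877926) (nat_lit 152) (nat_lit 686214948) (nat_lit 51) (nat_lit 3) (nat_lit 51) (nat_lit 1) (nat_lit 53) (nat_lit 1) (nat_lit 423) (nat_lit 392) (nat_lit 205))) (XT.nd (nat_lit 78) (nat_lit 152) (nat_lit 0) (XT.lf (nat_lit 76) (nat_lit 578699554) (nat_lit 0) (nat_lit 887110212) (nat_lit 76) (nat_lit 887110212) (nat_lit 51) (nat_lit 3) (nat_lit 50)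 (nat_lit 1) (nat_lit 51) (nat_lit 1) (nat_lit 424) (nat_lit 392) (nat_lit 204)) (XT.nd (nat_lit 78) (nat_lit 0) (nat_lit 0) (XT.lf (nat_lit 152) (nat_lit 2134227422) (nat_lit 0) (nat_lit 97852229) (nat_lit 76) (nat_lit 97852229) (nat_lit 50) (nat_lit 1) (nat_lit 48) (nat_lit 1) (nat_lit 49) (nat_lit 1) (nat_lit 425) (nat_lit 392) (nat_lit 203)) (XT.lf (nat_lit 0) (nat_lit 674865470) (nat_lit 0) (nat_lit 957104912) (nat_lit 152) (nat_lit 674865470) (nat_lit 48) (nat_lit 3) (nat_lit 48) (nat_lit 1) (nat_lit 50) (nat_lit 1) (nat_lit 426) (nat_lit 392) (nat_lit 202))))))) (XT.nd (nat_lit 38532) (nat_lit 0) (nat_lit 24168) (XT.nd (nat_lit 38142) (nat_lit 0) (nat_lit 25004) (XT.nd (nat_lit 156) (nat_lit 0) (nat_lit 0) (XT.nd (nat_lit 78) (nat_lit 152) (nat_lit 0) (XT.lf (nat_lit 76) (nat_lit 578700490) (nat_lit 0) (nat_lit 852719365) (nat_lit 76) (nat_lit 852719365) (nat_lit 48) (nat_lit 3) (nat_lit 47) (nat_lit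 1) (nat_lit 48) (nat_lit 1) (nat_lit 427) (nat_lit 392) (nat_lit 201)) (XT.lf (nat_lit 152) (nat_lit 2087954103) (nat_lit 0) (nat_lit 86940438) (nat_lit 76) (nat_lit 86940438) (nat_lit 47) (nat_lit 1) (nat_lit 45) (nat_lit 1) (nat_lit 46) (nat_lit 1) (nat_lit 428) (nat_lit 392) (nat_lit 200))) (XT.nd (nat_lit 37908) (nat_lit 0) (nat_lit 25004) (XT.lf (nat_lit 0) (nat_lit 662883381) (nat_lit 0) (nat_lit 913649470) (nat_lit 152) (nat_lit 662883381) (nat_lit 45) (nat_lit 3) (nat_lit 45) (nat_lit 1) (nat_lit 47) (nat_lit 1) (nat_lit 429) (nat_lit 392) (nat_lit 199)) (XT.lf (nat_lit 1292) (nat_lit 1786642196) (nat_lit 0) (nat_lit 6146880066) (nat_lit 1292) (nat_lit 1786642196) (nat_lit 391) (nat_lit 1) (nat_lit 374) (nat_lit 0) (nat_lit 391) (nat_lit 0) (nat_lit 234) (nat_lit 393) (nat_lit 393)))) (XT.nd (nat_lit 156) (nat_lit 0) (nat_lit 76) (XT.nd (nat_lit 78) (nat_lit 0) (nat_lit 76) (XT.lf (nat_lit 1292)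 (nat_lit 6982229009) (nat_lit 76) (nat_lit 6086616536) (nat_lit 0) (nat_lit 6086616536) (nat_lit 391) (nat_lit 1) (nat_lit 375) (nat_lit 1) (nat_lit 374) (nat_lit 0) (nat_lit 235) (nat_lit 393) (nat_lit 392)) (XT.lf (nat_lit 1292) (nat_lit 3376772425) (nat_lit 0) (nat_lit 12123333966) (nat_lit 1216) (nat_lit 3376772425) (nat_lit 392) (nat_lit 1) (nat_lit 375) (nat_lit 1) (nat_lit 391) (nat_lit 1) (nat_lit 236) (nat_lit 393) (nat_lit 391))) (XT.nd (nat_lit 78) (nat_lit 0) (nat_lit 76) (XT.lf (nat_lit 1292) (nat_lit 6412665179) (nat_lit 76) (nat_lit 6095141307) (nat_lit 0) (nat_lit 6095141307) (nat_lit 392) (nat_lit 1) (nat_lit 376) (nat_lit 1) (nat_lit 375) (nat_lit 1) (nat_lit 237) (nat_lit 393) (nat_lit 390)) (XT.nd (nat_lit 78) (nat_lit 0) (nat_lit 0) (XT.lf (nat_lit 1292) (nat_lit 3009111153) (nat_lit 0) (nat_lit 12316923764) (nat_lit 1216) (nat_lit 3009111153) (nat_lit 393) (nat_lit 1) (nat_lit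 376) (nat_lit 1) (nat_lit 392) (nat_lit 1) (nat_lit 238) (nat_lit 393) (nat_lit 389)) (XT.lf (nat_lit 1292) (nat_lit 5514513909) (nat_lit 76) (nat_lit 6278556690) (nat_lit 0) (nat_lit 6278556690) (nat_lit 393) (nat_lit 1) (nat_lit 377) (nat_lit 1) (nat_lit 376) (nat_lit 1) (nat_lit 239) (nat_lit 393) (nat_lit 388)))))) (XT.nd (nat_lit 390) (nat_lit 1064) (nat_lit 0) (XT.nd (nat_lit 156) (nat_lit 0) (nat_lit 76) (XT.nd (nat_lit 78) (nat_lit 0) (nat_lit 0) (XT.lf (nat_lit 1292) (nat_lit 2485438740) (nat_lit 0) (nat_lit 12843316062) (nat_lit 1216) (nat_lit 2485438740) (nat_lit 394) (nat_lit 1) (nat_lit 377) (nat_lit 1) (nat_lit 393) (nat_lit 1) (nat_lit 240) (nat_lit 393) (nat_lit 387)) (XT.lf (nat_lit 1292) (nat_lit 4317160260) (nat_lit 76) (nat_lit 6621715092) (nat_lit 0) (nat_lit 6621715092) (nat_lit 394) (nat_lit 1) (nat_lit 378) (nat_lit 1) (nat_lit 377) (nat_lit 1) (nat_lit 241) (nat_lit 393) (nat_lit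 386))) (XT.nd (nat_lit 78) (nat_lit 0) (nat_lit 0) (XT.lf (nat_lit 1292) (nat_lit 1819869593) (nat_lit 0) (nat_lit 13673389682) (nat_lit 1216) (nat_lit 1819869593) (nat_lit 395) (nat_lit 1) (nat_lit 378) (nat_lit 1) (nat_lit 394) (nat_lit 1) (nat_lit 242) (nat_lit 393) (nat_lit 385)) (XT.nd (nat_lit 78) (nat_lit 0) (nat_lit 76) (XT.lf (nat_lit 1292) (nat_lit 2847995983) (nat_lit 76) (nat_lit 7110487238) (nat_lit 0) (nat_lit 7110487238) (nat_lit 395) (nat_lit 1) (nat_lit 379) (nat_lit 1) (nat_lit 378) (nat_lit 1) (nat_lit 243) (nat_lit 393) (nat_lit 384)) (XT.lf (nat_lit 1292) (nat_lit 1025557640) (nat_lit 0) (nat_lit 14779986879) (nat_lit 1216) (nat_lit 1025557640) (nat_lit 396) (nat_lit 1) (nat_lit 379) (nat_lit 1) (nat_lit 395) (nat_lit 1) (nat_lit 244) (nat_lit 393) (nat_lit 383))))) (XT.nd (nat_lit 156) (nat_lit 1216) (nat_lit 0) (XT.nd (nat_lit 78) (nat_lit 0) (nat_lit 76) (XT.lf (nat_lit 1292)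 (nat_lit 1132542865) (nat_lit 76) (nat_lit 7731699378) (nat_lit 0) (nat_lit 7731699378) (nat_lit 396) (nat_lit 1) (nat_lit 380) (nat_lit 1) (nat_lit 379) (nat_lit 1) (nat_lit 245) (nat_lit 393) (nat_lit 382)) (XT.lf (nat_lit 1292) (nat_lit 114755844) (nat_lit 0) (nat_lit 16137792130) (nat_lit 1216) (nat_lit 114755844) (nat_lit 397) (nat_lit 1) (nat_lit 380) (nat_lit 1) (nat_lit 396) (nat_lit 1) (nat_lit 246) (nat_lit 393) (nat_lit 381))) (XT.nd (nat_lit 78) (nat_lit 0) (nat_lit 0) (XT.lf (nat_lit 1368) (nat_lit 7675385273) (nat_lit 0) (nat_lit 789714390) (nat_lit 1292) (nat_lit 7675385273) (nat_lit 381) (nat_lit 1) (nat_lit 363) (nat_lit 1) (nat_lit 380) (nat_lit 1) (nat_lit 247) (nat_lit 393) (nat_lit 380)) (XT.nd (nat_lit 78) (nat_lit 0) (nat_lit 76) (XT.lf (nat_lit 1368) (nat_lit 14135331269) (nat_lit 76) (nat_lit 892293245) (nat_lit 0) (nat_lit 892293245) (nat_lit 381) (nat_lit 1) (nat_lit 364)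 (nat_lit 1) (nat_lit 363) (nat_lit 1) (nat_lit 248) (nat_lit 393) (nat_lit 379)) (XT.lf (nat_lit 1368) (nat_lit 6407669680) (nat_lit 0) (nat_lit 2886359185) (nat_lit 1292) (nat_lit 6407669680) (nat_lit 382) (nat_lit 1) (nat_lit 364) (nat_lit 1) (nat_lit 381) (nat_lit 1) (nat_lit 249) (nat_lit 393) (nat_lit 378))))))))
noncomputable def ec265 : XT := (XT.nd (nat_lit 1482) (nat_lit 4332) (nat_lit 0) (XT.nd (nat_lit 702) (nat_lit 3192) (nat_lit 0) (XT.nd (nat_lit 312) (nat_lit 1824) (nat_lit 0) (XT.nd (nat_lit 156) (nat_lit 760) (nat_lit 0) (XT.nd (nat_lit 78) (nat_lit 0) (nat_lit 76) (XT.lf (nat_lit 1368) (nat_lit 11505496179) (nat_lit 76) (nat_lit 1991757424) (nat_lit 0) (nat_lit 1991757424) (nat_lit 382) (nat_lit 1) (nat_lit 365) (nat_lit 1) (nat_lit 364) (nat_lit 1) (nat_lit 250) (nat_lit 393) (nat_lit 377)) (XT.lf (nat_lit 76) (nat_lit 5059943983) (nat_lit 0) (nat_lit 5159312390) (nat_lit 1292) (nat_lit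 5059943983) (nat_lit 366) (nat_lit 1) (nat_lit 365) (nat_lit 1) (nat_lit 382) (nat_lit 1) (nat_lit 251) (nat_lit 393) (nat_lit 376))) (XT.nd (nat_lit 78) (nat_lit 0) (nat_lit 0) (XT.lf (nat_lit 912) (nat_lit 8724055780) (nat_lit 0) (nat_lit 3174985824) (nat_lit 836) (nat_lit 3174985824) (nat_lit 366) (nat_lit 1) (nat_lit 354) (nat_lit 1) (nat_lit 365) (nat_lit 1) (nat_lit 252) (nat_lit 393) (nat_lit 375)) (XT.lf (nat_lit 76) (nat_lit 3641251055) (nat_lit 0) (nat_lit 7589812470) (nat_lit 912) (nat_lit 3641251055) (nat_lit 355) (nat_lit 1) (nat_lit 354) (nat_lit 1) (nat_lit 366) (nat_lit 1) (nat_lit 253) (nat_lit 393) (nat_lit 374)))) (XT.nd (nat_lit 156) (nat_lit 1216) (nat_lit 0) (XT.nd (nat_lit 78) (nat_lit 0) (nat_lit 0) (XT.lf (nat_lit 684) (nat_lit 5808525514) (nat_lit 0) (nat_lit 4432892035) (nat_lit 608) (nat_lit 4432892035) (nat_lit 355) (nat_lit 1) (nat_lit 346) (nat_lit 1) (nat_lit 354) (nat_lit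 1) (nat_lit 254) (nat_lit 393) (nat_lit 373)) (XT.lf (nat_lit 76) (nat_lit 2159985061) (nat_lit 0) (nat_lit 10160426551) (nat_lit 684) (nat_lit 2159985061) (nat_lit 347) (nat_lit 1) (nat_lit 346) (nat_lit 1) (nat_lit 355) (nat_lit 1) (nat_lit 255) (nat_lit 393) (nat_lit 372))) (XT.nd (nat_lit 78) (nat_lit 608) (nat_lit 0) (XT.lf (nat_lit 684) (nat_lit 2775158687) (nat_lit 0) (nat_lit 5757035851) (nat_lit 608) (nat_lit 5757035851) (nat_lit 347) (nat_lit 1) (nat_lit 338) (nat_lit 1) (nat_lit 346) (nat_lit 1) (nat_lit 256) (nat_lit 393) (nat_lit 371)) (XT.nd (nat_lit 78) (nat_lit 608) (nat_lit 0) (XT.lf (nat_lit 76) (nat_lit 623932470) (nat_lit 0) (nat_lit 12854966818) (nat_lit 684) (nat_lit 623932470) (nat_lit 339) (nat_lit 1) (nat_lit 338) (nat_lit 1) (nat_lit 347) (nat_lit 1) (nat_lit 257) (nat_lit 393) (nat_lit 370)) (XT.lf (nat_lit 76) (nat_lit 6782078828) (nat_lit 0) (nat_lit 353929711) (nat_lit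 608) (nat_lit 6782078828) (nat_lit 331) (nat_lit 1) (nat_lit 330) (nat_lit 1) (nat_lit 338) (nat_lit 1) (nat_lit 258) (nat_lit 393) (nat_lit 369)))))) (XT.nd (nat_lit 390) (nat_lit 1520) (nat_lit 0) (XT.nd (nat_lit 156) (nat_lit 1064) (nat_lit 0) (XT.nd (nat_lit 78) (nat_lit 0) (nat_lit 0) (XT.lf (nat_lit 684) (nat_lit 11837359193) (nat_lit 0) (nat_lit 950280672) (nat_lit 608) (nat_lit 950280672) (nat_lit 331) (nat_lit 1) (nat_lit 322) (nat_lit 1) (nat_lit 330) (nat_lit 1) (nat_lit 259) (nat_lit 393) (nat_lit 368)) (XT.lf (nat_lit 76) (nat_lit 5021827126) (nat_lit 0) (nat_lit 3515933393) (nat_lit 684) (nat_lit 5021827126) (nat_lit 323) (nat_lit 1) (nat_lit 322) (nat_lit 1) (nat_lit 331) (nat_lit 1) (nat_lit 260) (nat_lit 393) (nat_lit 367))) (XT.nd (nat_lit 78) (nat_lit 532) (nat_lit 0) (XT.lf (nat_lit 608) (nat_lit 8267723211) (nat_lit 0) (nat_lit 2558860863) (nat_lit 532) (nat_lit 2558860863) (nat_lit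 323) (nat_lit 1) (nat_lit 315) (nat_lit 1) (nat_lit 322) (nat_lit 1) (nat_lit 261) (nat_lit 393) (nat_lit 366)) (XT.nd (nat_lit 78) (nat_lit 532) (nat_lit 0) (XT.lf (nat_lit 76) (nat_lit 3230829835) (nat_lit 0) (nat_lit 6752330443) (nat_lit 608) (nat_lit 3230829835) (nat_lit 316) (nat_lit 1) (nat_lit 315) (nat_lit 1) (nat_lit 323) (nat_lit 1) (nat_lit 262) (nat_lit 393) (nat_lit 365)) (XT.lf (nat_lit 608) (nat_lit 4642000604) (nat_lit 0) (nat_lit 4201800190) (nat_lit 532) (nat_lit 4201800190) (nat_lit 316) (nat_lit 1) (nat_lit 308) (nat_lit 1) (nat_lit 315) (nat_lit 1) (nat_lit 263) (nat_lit 393) (nat_lit 364))))) (XT.nd (nat_lit 156) (nat_lit 1064) (nat_lit 0) (XT.nd (nat_lit 78) (nat_lit 456) (nat_lit 0) (XT.lf (nat_lit 76) (nat_lit 1414690457) (nat_lit 0) (nat_lit 10051396827) (nat_lit 608) (nat_lit 1414690457) (nat_lit 309) (nat_lit 1) (nat_lit 308) (nat_lit 1) (nat_lit 316) (nat_lit 1) (nat_lit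 264) (nat_lit 393) (nat_lit 363)) (XT.lf (nat_lit 532) (nat_lit 971012867) (nat_lit 0) (nat_lit 5873436060) (nat_lit 456) (nat_lit 5873436060) (nat_lit 309) (nat_lit 1) (nat_lit 302) (nat_lit 1) (nat_lit 308) (nat_lit 1) (nat_lit 265) (nat_lit 393) (nat_lit 362))) (XT.nd (nat_lit 78) (nat_lit 456) (nat_lit 0) (XT.lf (nat_lit 608) (nat_lit 11724389307) (nat_lit 0) (nat_lit 417289393) (nat_lit 532) (nat_lit 417289393) (nat_lit 302) (nat_lit 1) (nat_lit 294) (nat_lit 1) (nat_lit 301) (nat_lit 1) (nat_lit 266) (nat_lit 393) (nat_lit 361)) (XT.nd (nat_lit 78) (nat_lit 456) (nat_lit 0) (XT.lf (nat_lit 76) (nat_lit 4859570302) (nat_lit 0) (nat_lit 2681886320) (nat_lit 608) (nat_lit 4859570302) (nat_lit 295) (nat_lit 1) (nat_lit 294) (nat_lit 1) (nat_lit 302) (nat_lit 1) (nat_lit 267) (nat_lit 393) (nat_lit 360)) (XT.lf (nat_lit 532) (nat_lit 7746004202) (nat_lit 0) (nat_lit 2250457983) (nat_lit 456) (nat_lit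 2250457983) (nat_lit 295) (nat_lit 1) (nat_lit 288) (nat_lit 1) (nat_lit 294) (nat_lit 1) (nat_lit 268) (nat_lit 393) (nat_lit 359))))))) (XT.nd (nat_lit 702) (nat_lit 2204) (nat_lit 0) (XT.nd (nat_lit 312) (nat_lit 1216) (nat_lit 0) (XT.nd (nat_lit 156) (nat_lit 456) (nat_lit 0) (XT.nd (nat_lit 78) (nat_lit 456) (nat_lit 0) (XT.lf (nat_lit 76) (nat_lit 2876822340) (nat_lit 0) (nat_lit 6341423499) (nat_lit 532) (nat_lit 2876822340) (nat_lit 289) (nat_lit 1) (nat_lit 288) (nat_lit 1) (nat_lit 295) (nat_lit 1) (nat_lit 269) (nat_lit 393) (nat_lit 358)) (XT.lf (nat_lit 532) (nat_lit 3757144228) (nat_lit 0) (nat_lit 4094342017) (nat_lit 456) (nat_lit 4094342017) (nat_lit 289) (nat_lit 1) (nat_lit 282) (nat_lit 1) (nat_lit 288) (nat_lit 1) (nat_lit 270) (nat_lit 393) (nat_lit 357))) (XT.nd (nat_lit 78) (nat_lit 456) (nat_lit 0) (XT.lf (nat_lit 76) (nat_lit 890797413) (nat_lit 0) (nat_lit 10018256832) (nat_lit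 532) (nat_lit 890797413) (nat_lit 283) (nat_lit 1) (nat_lit 282) (nat_lit 1) (nat_lit 289) (nat_lit 1) (nat_lit 271) (nat_lit 393) (nat_lit 356)) (XT.lf (nat_lit 76) (nat_lit 5712572218) (nat_lit 0) (nat_lit 230053978) (nat_lit 456) (nat_lit 5712572218) (nat_lit 277) (nat_lit 1) (nat_lit 276) (nat_lit 1) (nat_lit 282) (nat_lit 1) (nat_lit 272) (nat_lit 393) (nat_lit 355)))) (XT.nd (nat_lit 156) (nat_lit 760) (nat_lit 0) (XT.nd (nat_lit 78) (nat_lit 0) (nat_lit 0) (XT.lf (nat_lit 532) (nat_lit 9345347094) (nat_lit 0) (nat_lit 1084171465) (nat_lit 456) (nat_lit 1084171465) (nat_lit 277) (nat_lit 1) (nat_lit 270) (nat_lit 1) (nat_lit 276) (nat_lit 1) (nat_lit 273) (nat_lit 393) (nat_lit 354)) (XT.lf (nat_lit 76) (nat_lit 3616799091) (nat_lit 0) (nat_lit 4140010059) (nat_lit 532) (nat_lit 3616799091) (nat_lit 271) (nat_lit 1) (nat_lit 270) (nat_lit 1) (nat_lit 277) (nat_lit 1) (nat_lit 274) (nat_lit 393)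 (nat_lit 353))) (XT.nd (nat_lit 78) (nat_lit 380) (nat_lit 0) (XT.lf (nat_lit 456) (nat_lit 5142768189) (nat_lit 0) (nat_lit 3046828069) (nat_lit 380) (nat_lit 3046828069) (nat_lit 271) (nat_lit 1) (nat_lit 265) (nat_lit 1) (nat_lit 270) (nat_lit 1) (nat_lit 275) (nat_lit 393) (nat_lit 352)) (XT.nd (nat_lit 78) (nat_lit 380) (nat_lit 0) (XT.lf (nat_lit 76) (nat_lit 1530958829) (nat_lit 0) (nat_lit 8039835339) (nat_lit 456) (nat_lit 1530958829) (nat_lit 266) (nat_lit 1) (nat_lit 265) (nat_lit 1) (nat_lit 271) (nat_lit 1) (nat_lit 276) (nat_lit 393) (nat_lit 351)) (XT.lf (nat_lit 456) (nat_lit 962852510) (nat_lit 0) (nat_lit 5002927919) (nat_lit 380) (nat_lit 5002927919) (nat_lit 266) (nat_lit 1) (nat_lit 260) (nat_lit 1) (nat_lit 265) (nat_lit 1) (nat_lit 277) (nat_lit 393) (nat_lit 350)))))) (XT.nd (nat_lit 390) (nat_lit 1064) (nat_lit 0) (XT.nd (nat_lit 156) (nat_lit 684) (nat_lit 0) (XT.nd (nat_lit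 78) (nat_lit 0) (nat_lit 0) (XT.lf (nat_lit 456) (nat_lit 9764657810) (nat_lit 0) (nat_lit 536987299) (nat_lit 380) (nat_lit 536987299) (nat_lit 260) (nat_lit 1) (nat_lit 254) (nat_lit 1) (nat_lit 259) (nat_lit 1) (nat_lit 278) (nat_lit 393) (nat_lit 349)) (XT.lf (nat_lit 76) (nat_lit 3791080279) (nat_lit 0) (nat_lit 3127099035) (nat_lit 456) (nat_lit 3791080279) (nat_lit 255) (nat_lit 1) (nat_lit 254) (nat_lit 1) (nat_lit 260) (nat_lit 1) (nat_lit 279) (nat_lit 393) (nat_lit 348))) (XT.nd (nat_lit 78) (nat_lit 304) (nat_lit 0) (XT.lf (nat_lit 456) (nat_lit 5432573354) (nat_lit 0) (nat_lit 2575094309) (nat_lit 380) (nat_lit 2575094309) (nat_lit 255) (nat_lit 1) (nat_lit 249) (nat_lit 1) (nat_lit 254) (nat_lit 1) (nat_lit 280) (nat_lit 393) (nat_lit 347)) (XT.nd (nat_lit 78) (nat_lit 304) (nat_lit 0) (XT.lf (nat_lit 76) (nat_lit 1645903815) (nat_lit 0) (nat_lit 7166574480) (nat_lit 456) (nat_lit 1645903815)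 (nat_lit 250) (nat_lit 1) (nat_lit 249) (nat_lit 1) (nat_lit 255) (nat_lit 1) (nat_lit 281) (nat_lit 393) (nat_lit 346)) (XT.lf (nat_lit 380) (nat_lit 1143133773) (nat_lit 0) (nat_lit 4596222384) (nat_lit 304) (nat_lit 4596222384) (nat_lit 250) (nat_lit 1) (nat_lit 245) (nat_lit 1) (nat_lit 249) (nat_lit 1) (nat_lit 282) (nat_lit 393) (nat_lit 345))))) (XT.nd (nat_lit 156) (nat_lit 608) (nat_lit 0) (XT.nd (nat_lit 78) (nat_lit 0) (nat_lit 0) (XT.lf (nat_lit 456) (nat_lit 9270549090) (nat_lit 0) (nat_lit 472459932) (nat_lit 380) (nat_lit 472459932) (nat_lit 245) (nat_lit 1) (nat_lit 239) (nat_lit 1) (nat_lit 244) (nat_lit 1) (nat_lit 283) (nat_lit 393) (nat_lit 344)) (XT.lf (nat_lit 76) (nat_lit 3528125290) (nat_lit 0) (nat_lit 3039613646) (nat_lit 456) (nat_lit 3528125290) (nat_lit 240) (nat_lit 1) (nat_lit 239) (nat_lit 1) (nat_lit 245) (nat_lit 1) (nat_lit 284) (nat_lit 393) (nat_lit 343))) (XT.nd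 (nat_lit 78) (nat_lit 304) (nat_lit 0) (XT.lf (nat_lit 380) (nat_lit 4876646069) (nat_lit 0) (nat_lit 2551114549) (nat_lit 304) (nat_lit 2551114549) (nat_lit 240) (nat_lit 1) (nat_lit 235) (nat_lit 1) (nat_lit 239) (nat_lit 1) (nat_lit 285) (nat_lit 393) (nat_lit 342)) (XT.nd (nat_lit 78) (nat_lit 304) (nat_lit 0) (XT.lf (nat_lit 76) (nat_lit 1356120779) (nat_lit 0) (nat_lit 7151645677) (nat_lit 380) (nat_lit 1356120779) (nat_lit 236) (nat_lit 1) (nat_lit 235) (nat_lit 1) (nat_lit 240) (nat_lit 1) (nat_lit 286) (nat_lit 393) (nat_lit 341)) (XT.lf (nat_lit 380) (nat_lit 540763784) (nat_lit 0) (nat_lit 4604721262) (nat_lit 304) (nat_lit 4604721262) (nat_lit 236) (nat_lit 1) (nat_lit 231) (nat_lit 1) (nat_lit 235) (nat_lit 1) (nat_lit 287) (nat_lit 393) (nat_lit 340))))))))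
noncomputable def ec266 : XT := (XT.nd (nat_lit 1482) (nat_lit 2356) (nat_lit 0) (XT.nd (nat_lit 702) (nat_lit 1520) (nat_lit 0) (XT.nd (nat_lit 312) (nat_lit 1216) (nat_lit 0) (XT.nd (nat_lit 156) (nat_lit 304) (nat_lit 0) (XT.nd (nat_lit 78) (nat_lit 0) (nat_lit 0) (XT.lf (nat_lit 380) (nat_lit 8081367469) (nat_lit 0) (nat_lit 778700673) (nat_lit 304) (nat_lit 778700673) (nat_lit 231) (nat_lit 1) (nat_lit 226) (nat_lit 1) (nat_lit 230) (nat_lit 1) (nat_lit 288) (nat_lit 393) (nat_lit 339)) (XT.lf (nat_lit 76) (nat_lit 2933101081) (nat_lit 0) (nat_lit 3661893017) (nat_lit 380) (nat_lit 2933101081) (nat_lit 227) (nat_lit 1) (nat_lit 226) (nat_lit 1) (nat_lit 231) (nat_lit 1) (nat_lit 289) (nat_lit 393) (nat_lit 338))) (XT.nd (nat_lit 78) (nat_lit 0) (nat_lit 0) (XT.lf (nat_lit 380) (nat_lit 3679655324) (nat_lit 0) (nat_lit 2869972034) (nat_lit 304) (nat_lit 2869972034) (nat_lit 227) (nat_lit 1) (nat_lit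 222) (nat_lit 1) (nat_lit 226) (nat_lit 1) (nat_lit 290) (nat_lit 393) (nat_lit 337)) (XT.lf (nat_lit 76) (nat_lit 760181041) (nat_lit 0) (nat_lit 7792840460) (nat_lit 380) (nat_lit 760181041) (nat_lit 223) (nat_lit 1) (nat_lit 222) (nat_lit 1) (nat_lit 227) (nat_lit 1) (nat_lit 291) (nat_lit 393) (nat_lit 336)))) (XT.nd (nat_lit 156) (nat_lit 608) (nat_lit 0) (XT.nd (nat_lit 78) (nat_lit 304) (nat_lit 0) (XT.lf (nat_lit 76) (nat_lit 4283891577) (nat_lit 0) (nat_lit 639708072) (nat_lit 304) (nat_lit 4283891577) (nat_lit 219) (nat_lit 1) (nat_lit 218) (nat_lit 1) (nat_lit 222) (nat_lit 1) (nat_lit 292) (nat_lit 393) (nat_lit 335)) (XT.lf (nat_lit 380) (nat_lit 6375339402) (nat_lit 0) (nat_lit 1364240586) (nat_lit 304) (nat_lit 1364240586) (nat_lit 219) (nat_lit 1) (nat_lit 214) (nat_lit 1) (nat_lit 218) (nat_lit 1) (nat_lit 293) (nat_lit 393) (nat_lit 334))) (XT.nd (nat_lit 78) (nat_lit 608) (nat_lit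 0) (XT.lf (nat_lit 76) (nat_lit 2091815531) (nat_lit 0) (nat_lit 4817699883) (nat_lit 380) (nat_lit 2091815531) (nat_lit 215) (nat_lit 1) (nat_lit 214) (nat_lit 1) (nat_lit 219) (nat_lit 1) (nat_lit 294) (nat_lit 393) (nat_lit 333)) (XT.nd (nat_lit 78) (nat_lit 380) (nat_lit 0) (XT.lf (nat_lit 304) (nat_lit 2008526536) (nat_lit 0) (nat_lit 3445962108) (nat_lit 228) (nat_lit 3445962108) (nat_lit 215) (nat_lit 1) (nat_lit 211) (nat_lit 1) (nat_lit 214) (nat_lit 1) (nat_lit 295) (nat_lit 393) (nat_lit 332)) (XT.lf (nat_lit 380) (nat_lit 8679953384) (nat_lit 0) (nat_lit 60952426) (nat_lit 304) (nat_lit 60952426) (nat_lit 211) (nat_lit 1) (nat_lit 206) (nat_lit 1) (nat_lit 210) (nat_lit 1) (nat_lit 296) (nat_lit 393) (nat_lit 331)))))) (XT.nd (nat_lit 390) (nat_lit 760) (nat_lit 0) (XT.nd (nat_lit 156) (nat_lit 532) (nat_lit 0) (XT.nd (nat_lit 78) (nat_lit 228) (nat_lit 0) (XT.lf (nat_lit 76) (nat_lit 3233701027)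 (nat_lit 0) (nat_lit 2235669839) (nat_lit 380) (nat_lit 3233701027) (nat_lit 207) (nat_lit 1) (nat_lit 206) (nat_lit 1) (nat_lit 211) (nat_lit 1) (nat_lit 297) (nat_lit 393) (nat_lit 330)) (XT.lf (nat_lit 304) (nat_lit 4297375635) (nat_lit 0) (nat_lit 2154574394) (nat_lit 228) (nat_lit 2154574394) (nat_lit 207) (nat_lit 1) (nat_lit 203) (nat_lit 1) (nat_lit 206) (nat_lit 1) (nat_lit 298) (nat_lit 393) (nat_lit 329))) (XT.nd (nat_lit 78) (nat_lit 532) (nat_lit 0) (XT.lf (nat_lit 76) (nat_lit 1074002797) (nat_lit 0) (nat_lit 6363544150) (nat_lit 304) (nat_lit 1074002797) (nat_lit 204) (nat_lit 1) (nat_lit 203) (nat_lit 1) (nat_lit 207) (nat_lit 1) (nat_lit 299) (nat_lit 393) (nat_lit 328)) (XT.nd (nat_lit 78) (nat_lit 228) (nat_lit 0) (XT.lf (nat_lit 76) (nat_lit 4208198587) (nat_lit 0) (nat_lit 1126697) (nat_lit 304) (nat_lit 4208198587) (nat_lit 200) (nat_lit 1) (nat_lit 199) (nat_lit 1) (nat_lit 203)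 (nat_lit 1) (nat_lit 300) (nat_lit 393) (nat_lit 327)) (XT.lf (nat_lit 304) (nat_lit 6257799313) (nat_lit 0) (nat_lit 1033614057) (nat_lit 228) (nat_lit 1033614057) (nat_lit 200) (nat_lit 1) (nat_lit 196) (nat_lit 1) (nat_lit 199) (nat_lit 1) (nat_lit 301) (nat_lit 393) (nat_lit 326))))) (XT.nd (nat_lit 156) (nat_lit 532) (nat_lit 0) (XT.nd (nat_lit 78) (nat_lit 228) (nat_lit 0) (XT.lf (nat_lit 76) (nat_lit 2050057412) (nat_lit 0) (nat_lit 4133305618) (nat_lit 304) (nat_lit 2050057412) (nat_lit 197) (nat_lit 1) (nat_lit 196) (nat_lit 1) (nat_lit 200) (nat_lit 1) (nat_lit 302) (nat_lit 393) (nat_lit 325)) (XT.lf (nat_lit 304) (nat_lit 1964752911) (nat_lit 0) (nat_lit 3089274219) (nat_lit 228) (nat_lit 3089274219) (nat_lit 197) (nat_lit 1) (nat_lit 193) (nat_lit 1) (nat_lit 196) (nat_lit 1) (nat_lit 303) (nat_lit 393) (nat_lit 324))) (XT.nd (nat_lit 78) (nat_lit 228) (nat_lit 0) (XT.lf (nat_lit 304) (nat_lit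 7928552978) (nat_lit 0) (nat_lit 63306697) (nat_lit 228) (nat_lit 63306697) (nat_lit 193) (nat_lit 1) (nat_lit 189) (nat_lit 1) (nat_lit 192) (nat_lit 1) (nat_lit 304) (nat_lit 393) (nat_lit 323)) (XT.nd (nat_lit 78) (nat_lit 228) (nat_lit 0) (XT.lf (nat_lit 76) (nat_lit 2885352212) (nat_lit 0) (nat_lit 2196057498) (nat_lit 304) (nat_lit 2885352212) (nat_lit 190) (nat_lit 1) (nat_lit 189) (nat_lit 1) (nat_lit 193) (nat_lit 1) (nat_lit 305) (nat_lit 393) (nat_lit 322)) (XT.lf (nat_lit 304) (nat_lit 3654175854) (nat_lit 0) (nat_lit 2113064709) (nat_lit 228) (nat_lit 2113064709) (nat_lit 190) (nat_lit 1) (nat_lit 186) (nat_lit 1) (nat_lit 189) (nat_lit 1) (nat_lit 306) (nat_lit 393) (nat_lit 321))))))) (XT.nd (nat_lit 702) (nat_lit 1292) (nat_lit 0) (XT.nd (nat_lit 312) (nat_lit 608) (nat_lit 0) (XT.nd (nat_lit 156) (nat_lit 228) (nat_lit 0) (XT.nd (nat_lit 78) (nat_lit 228) (nat_lit 0) (XT.lf (nat_lit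 76) (nat_lit 781556893) (nat_lit 0) (nat_lit 6232199205) (nat_lit 304) (nat_lit 781556893) (nat_lit 187) (nat_lit 1) (nat_lit 186) (nat_lit 1) (nat_lit 190) (nat_lit 1) (nat_lit 307) (nat_lit 393) (nat_lit 320)) (XT.lf (nat_lit 76) (nat_lit 3596513365) (nat_lit 0) (nat_lit 517837568) (nat_lit 228) (nat_lit 3596513365) (nat_lit 184) (nat_lit 1) (nat_lit 183) (nat_lit 1) (nat_lit 186) (nat_lit 1) (nat_lit 308) (nat_lit 393) (nat_lit 319))) (XT.nd (nat_lit 78) (nat_lit 0) (nat_lit 0) (XT.lf (nat_lit 304) (nat_lit 5099618344) (nat_lit 0) (nat_lit 1264114681) (nat_lit 228) (nat_lit 1264114681) (nat_lit 184) (nat_lit 1) (nat_lit 180) (nat_lit 1) (nat_lit 183) (nat_lit 1) (nat_lit 309) (nat_lit 393) (nat_lit 318)) (XT.lf (nat_lit 76) (nat_lit 1508345874) (nat_lit 0) (nat_lit 4529086709) (nat_lit 304) (nat_lit 1508345874) (nat_lit 181) (nat_lit 1) (nat_lit 180) (nat_lit 1) (nat_lit 184) (nat_lit 1) (nat_lit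 310) (nat_lit 393) (nat_lit 317)))) (XT.nd (nat_lit 156) (nat_lit 152) (nat_lit 0) (XT.nd (nat_lit 78) (nat_lit 304) (nat_lit 0) (XT.lf (nat_lit 228) (nat_lit 950030105) (nat_lit 0) (nat_lit 3257388091) (nat_lit 152) (nat_lit 3257388091) (nat_lit 181) (nat_lit 1) (nat_lit 178) (nat_lit 1) (nat_lit 180) (nat_lit 1) (nat_lit 311) (nat_lit 393) (nat_lit 316)) (XT.lf (nat_lit 304) (nat_lit 6329906428) (nat_lit 0) (nat_lit 527697149) (nat_lit 228) (nat_lit 527697149) (nat_lit 178) (nat_lit 1) (nat_lit 174) (nat_lit 1) (nat_lit 177) (nat_lit 1) (nat_lit 312) (nat_lit 393) (nat_lit 315))) (XT.nd (nat_lit 78) (nat_lit 152) (nat_lit 0) (XT.lf (nat_lit 76) (nat_lit 2130381400) (nat_lit 0) (nat_lit 3045256663) (nat_lit 304) (nat_lit 2130381400) (nat_lit 175) (nat_lit 1) (nat_lit 174) (nat_lit 1) (nat_lit 178) (nat_lit 1) (nat_lit 313) (nat_lit 393) (nat_lit 314)) (XT.nd (nat_lit 78) (nat_lit 0) (nat_lit 0) (XT.lf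 (nat_lit 228) (nat_lit 2222030036) (nat_lit 0) (nat_lit 2503073876) (nat_lit 152) (nat_lit 2503073876) (nat_lit 175) (nat_lit 1) (nat_lit 172) (nat_lit 1) (nat_lit 174) (nat_lit 1) (nat_lit 314) (nat_lit 393) (nat_lit 313)) (XT.lf (nat_lit 76) (nat_lit 110338770) (nat_lit 0) (nat_lit 6931285021) (nat_lit 228) (nat_lit 110338770) (nat_lit 173) (nat_lit 1) (nat_lit 172) (nat_lit 1) (nat_lit 175) (nat_lit 1) (nat_lit 315) (nat_lit 393) (nat_lit 312)))))) (XT.nd (nat_lit 390) (nat_lit 532) (nat_lit 0) (XT.nd (nat_lit 156) (nat_lit 380) (nat_lit 0) (XT.nd (nat_lit 78) (nat_lit 152) (nat_lit 0) (XT.lf (nat_lit 76) (nat_lit 2660035338) (nat_lit 0) (nat_lit 1755400988) (nat_lit 228) (nat_lit 2660035338) (nat_lit 170) (nat_lit 1) (nat_lit 169) (nat_lit 1) (nat_lit 172) (nat_lit 1) (nat_lit 316) (nat_lit 393) (nat_lit 311)) (XT.lf (nat_lit 228) (nat_lit 3312051308) (nat_lit 0) (nat_lit 1844265949) (nat_lit 152)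 (nat_lit 1844265949) (nat_lit 170) (nat_lit 1) (nat_lit 167) (nat_lit 1) (nat_lit 169) (nat_lit 1) (nat_lit 317) (nat_lit 393) (nat_lit 310))) (XT.nd (nat_lit 78) (nat_lit 380) (nat_lit 0) (XT.lf (nat_lit 76) (nat_lit 664862677) (nat_lit 0) (nat_lit 5597195489) (nat_lit 228) (nat_lit 664862677) (nat_lit 168) (nat_lit 1) (nat_lit 167) (nat_lit 1) (nat_lit 170) (nat_lit 1) (nat_lit 318) (nat_lit 393) (nat_lit 309)) (XT.nd (nat_lit 78) (nat_lit 152) (nat_lit 0) (XT.lf (nat_lit 76) (nat_lit 3108279815) (nat_lit 0) (nat_lit 637058698) (nat_lit 228) (nat_lit 3108279815) (nat_lit 165) (nat_lit 1) (nat_lit 164) (nat_lit 1) (nat_lit 167) (nat_lit 1) (nat_lit 319) (nat_lit 393) (nat_lit 308)) (XT.lf (nat_lit 228) (nat_lit 4241555855) (nat_lit 0) (nat_lit 1269982361) (nat_lit 152) (nat_lit 1269982361) (nat_lit 165) (nat_lit 1) (nat_lit 162) (nat_lit 1) (nat_lit 164) (nat_lit 1) (nat_lit 320) (nat_lit 393) (nat_lit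 307))))) (XT.nd (nat_lit 156) (nat_lit 380) (nat_lit 0) (XT.nd (nat_lit 78) (nat_lit 152) (nat_lit 0) (XT.lf (nat_lit 76) (nat_lit 1141040429) (nat_lit 0) (nat_lit 4428218727) (nat_lit 228) (nat_lit 1141040429) (nat_lit 163) (nat_lit 1) (nat_lit 162) (nat_lit 1) (nat_lit 165) (nat_lit 1) (nat_lit 321) (nat_lit 393) (nat_lit 306)) (XT.lf (nat_lit 228) (nat_lit 336264041) (nat_lit 0) (nat_lit 3151812234) (nat_lit 152) (nat_lit 3151812234) (nat_lit 163) (nat_lit 1) (nat_lit 160) (nat_lit 1) (nat_lit 162) (nat_lit 1) (nat_lit 322) (nat_lit 393) (nat_lit 305))) (XT.nd (nat_lit 78) (nat_lit 152) (nat_lit 0) (XT.lf (nat_lit 228) (nat_lit 5029578280) (nat_lit 0) (nat_lit 770475453) (nat_lit 152) (nat_lit 770475453) (nat_lit 160) (nat_lit 1) (nat_lit 157) (nat_lit 1) (nat_lit 159) (nat_lit 1) (nat_lit 323) (nat_lit 393) (nat_lit 304)) (XT.nd (nat_lit 78) (nat_lit 152) (nat_lit 0) (XT.lf (nat_lit 76) (nat_lit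 1548089499) (nat_lit 0) (nat_lit 3405466470) (nat_lit 228) (nat_lit 1548089499) (nat_lit 158) (nat_lit 1) (nat_lit 157) (nat_lit 1) (nat_lit 160) (nat_lit 1) (nat_lit 324) (nat_lit 393) (nat_lit 303)) (XT.lf (nat_lit 228) (nat_lit 1185705392) (nat_lit 0) (nat_lit 2624045123) (nat_lit 152) (nat_lit 2624045123) (nat_lit 158) (nat_lit 1) (nat_lit 155) (nat_lit 1) (nat_lit 157) (nat_lit 1) (nat_lit 325) (nat_lit 393) (nat_lit 302))))))))
noncomputable def ec267 : XT := (XT.nd (nat_lit 1482) (nat_lit 1672) (nat_lit 0) (XT.nd (nat_lit 702) (nat_lit 912) (nat_lit 0) (XT.nd (nat_lit 312) (nat_lit 608) (nat_lit 0) (XT.nd (nat_lit 156) (nat_lit 152) (nat_lit 0) (XT.nd (nat_lit 78) (nat_lit 0) (nat_lit 0) (XT.lf (nat_lit 228) (nat_lit 5692997528) (nat_lit 0) (nat_lit 337093941) (nat_lit 152) (nat_lit 337093941) (nat_lit 155) (nat_lit 1) (nat_lit 152) (nat_lit 1) (nat_lit 154) (nat_lit 1) (nat_lit 326) (nat_lit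 393) (nat_lit 301)) (XT.lf (nat_lit 76) (nat_lit 1894185485) (nat_lit 0) (nat_lit 2512170604) (nat_lit 228) (nat_lit 1894185485) (nat_lit 153) (nat_lit 1) (nat_lit 152) (nat_lit 1) (nat_lit 155) (nat_lit 1) (nat_lit 327) (nat_lit 393) (nat_lit 300))) (XT.nd (nat_lit 78) (nat_lit 0) (nat_lit 0) (XT.lf (nat_lit 228) (nat_lit 1914589850) (nat_lit 0) (nat_lit 2160265810) (nat_lit 152) (nat_lit 2160265810) (nat_lit 153) (nat_lit 1) (nat_lit 150) (nat_lit 1) (nat_lit 152) (nat_lit 1) (nat_lit 328) (nat_lit 393) (nat_lit 299)) (XT.lf (nat_lit 76) (nat_lit 38214272) (nat_lit 0) (nat_lit 6094626135) (nat_lit 228) (nat_lit 38214272) (nat_lit 151) (nat_lit 1) (nat_lit 150) (nat_lit 1) (nat_lit 153) (nat_lit 1) (nat_lit 329) (nat_lit 393) (nat_lit 298)))) (XT.nd (nat_lit 156) (nat_lit 304) (nat_lit 0) (XT.nd (nat_lit 78) (nat_lit 152) (nat_lit 0) (XT.lf (nat_lit 76) (nat_lit 2186578703) (nat_lit 0) (nat_lit 1733446339)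 (nat_lit 152) (nat_lit 2186578703) (nat_lit 149) (nat_lit 1) (nat_lit 148) (nat_lit 1) (nat_lit 150) (nat_lit 1) (nat_lit 330) (nat_lit 393) (nat_lit 297)) (XT.lf (nat_lit 228) (nat_lit 2537113495) (nat_lit 0) (nat_lit 1753189264) (nat_lit 152) (nat_lit 1753189264) (nat_lit 149) (nat_lit 1) (nat_lit 146) (nat_lit 1) (nat_lit 148) (nat_lit 1) (nat_lit 331) (nat_lit 393) (nat_lit 296))) (XT.nd (nat_lit 78) (nat_lit 304) (nat_lit 0) (XT.lf (nat_lit 76) (nat_lit 364713327) (nat_lit 0) (nat_lit 5252060204) (nat_lit 228) (nat_lit 364713327) (nat_lit 147) (nat_lit 1) (nat_lit 146) (nat_lit 1) (nat_lit 149) (nat_lit 1) (nat_lit 332) (nat_lit 393) (nat_lit 295)) (XT.nd (nat_lit 78) (nat_lit 152) (nat_lit 0) (XT.lf (nat_lit 76) (nat_lit 2431697763) (nat_lit 0) (nat_lit 1056081800) (nat_lit 152) (nat_lit 2431697763) (nat_lit 145) (nat_lit 1) (nat_lit 144) (nat_lit 1) (nat_lit 146) (nat_lit 1) (nat_lit 333) (nat_lit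 393) (nat_lit 294)) (XT.lf (nat_lit 228) (nat_lit 3065867441) (nat_lit 0) (nat_lit 1396347189) (nat_lit 152) (nat_lit 1396347189) (nat_lit 145) (nat_lit 1) (nat_lit 142) (nat_lit 1) (nat_lit 144) (nat_lit 1) (nat_lit 334) (nat_lit 393) (nat_lit 293)))))) (XT.nd (nat_lit 390) (nat_lit 532) (nat_lit 0) (XT.nd (nat_lit 156) (nat_lit 228) (nat_lit 0) (XT.nd (nat_lit 78) (nat_lit 152) (nat_lit 0) (XT.lf (nat_lit 76) (nat_lit 645169710) (nat_lit 0) (nat_lit 4508197002) (nat_lit 228) (nat_lit 645169710) (nat_lit 143) (nat_lit 1) (nat_lit 142) (nat_lit 1) (nat_lit 145) (nat_lit 1) (nat_lit 335) (nat_lit 393) (nat_lit 292)) (XT.lf (nat_lit 76) (nat_lit 2635241584) (nat_lit 0) (nat_lit 468351097) (nat_lit 152) (nat_lit 2635241584) (nat_lit 141) (nat_lit 1) (nat_lit 140) (nat_lit 1) (nat_lit 142) (nat_lit 1) (nat_lit 336) (nat_lit 393) (nat_lit 291))) (XT.nd (nat_lit 78) (nat_lit 76) (nat_lit 0) (XT.lf (nat_lit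 228) (nat_lit 3512017456) (nat_lit 0) (nat_lit 1083996814) (nat_lit 152) (nat_lit 1083996814) (nat_lit 141) (nat_lit 1) (nat_lit 138) (nat_lit 1) (nat_lit 140) (nat_lit 1) (nat_lit 337) (nat_lit 393) (nat_lit 290)) (XT.nd (nat_lit 78) (nat_lit 76) (nat_lit 0) (XT.lf (nat_lit 76) (nat_lit 884998370) (nat_lit 0) (nat_lit 3851891671) (nat_lit 228) (nat_lit 884998370) (nat_lit 139) (nat_lit 1) (nat_lit 138) (nat_lit 1) (nat_lit 141) (nat_lit 1) (nat_lit 338) (nat_lit 393) (nat_lit 289)) (XT.lf (nat_lit 152) (nat_lit 40950849) (nat_lit 0) (nat_lit 2761703935) (nat_lit 76) (nat_lit 2761703935) (nat_lit 139) (nat_lit 1) (nat_lit 137) (nat_lit 1) (nat_lit 138) (nat_lit 1) (nat_lit 339) (nat_lit 393) (nat_lit 288))))) (XT.nd (nat_lit 156) (nat_lit 304) (nat_lit 0) (XT.nd (nat_lit 78) (nat_lit 0) (nat_lit 0) (XT.lf (nat_lit 228) (nat_lit 3885463520) (nat_lit 0) (nat_lit 811039870) (nat_lit 152) (nat_lit 811039870)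 (nat_lit 137) (nat_lit 1) (nat_lit 134) (nat_lit 1) (nat_lit 136) (nat_lit 1) (nat_lit 340) (nat_lit 393) (nat_lit 287)) (XT.lf (nat_lit 76) (nat_lit 1089002249) (nat_lit 0) (nat_lit 3273246175) (nat_lit 228) (nat_lit 1089002249) (nat_lit 135) (nat_lit 1) (nat_lit 134) (nat_lit 1) (nat_lit 137) (nat_lit 1) (nat_lit 341) (nat_lit 393) (nat_lit 286))) (XT.nd (nat_lit 78) (nat_lit 228) (nat_lit 0) (XT.lf (nat_lit 152) (nat_lit 488186643) (nat_lit 0) (nat_lit 2453738176) (nat_lit 76) (nat_lit 2453738176) (nat_lit 135) (nat_lit 1) (nat_lit 133) (nat_lit 1) (nat_lit 134) (nat_lit 1) (nat_lit 342) (nat_lit 393) (nat_lit 285)) (XT.nd (nat_lit 78) (nat_lit 0) (nat_lit 0) (XT.lf (nat_lit 228) (nat_lit 4194981584) (nat_lit 0) (nat_lit 572950595) (nat_lit 152) (nat_lit 572950595) (nat_lit 133) (nat_lit 1) (nat_lit 130) (nat_lit 1) (nat_lit 132) (nat_lit 1) (nat_lit 343) (nat_lit 393) (nat_lit 284)) (XT.lf (nat_lit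 76) (nat_lit 1261440761) (nat_lit 0) (nat_lit 2763470147) (nat_lit 228) (nat_lit 1261440761) (nat_lit 131) (nat_lit 1) (nat_lit 130) (nat_lit 1) (nat_lit 133) (nat_lit 1) (nat_lit 344) (nat_lit 393) (nat_lit 283))))))) (XT.nd (nat_lit 702) (nat_lit 760) (nat_lit 0) (XT.nd (nat_lit 312) (nat_lit 532) (nat_lit 0) (XT.nd (nat_lit 156) (nat_lit 76) (nat_lit 0) (XT.nd (nat_lit 78) (nat_lit 228) (nat_lit 0) (XT.lf (nat_lit 152) (nat_lit 872390561) (nat_lit 0) (nat_lit 2180114588) (nat_lit 76) (nat_lit 2180114588) (nat_lit 131) (nat_lit 1) (nat_lit 129) (nat_lit 1) (nat_lit 130) (nat_lit 1) (nat_lit 345) (nat_lit 393) (nat_lit 282)) (XT.lf (nat_lit 228) (nat_lit 4448349495) (nat_lit 0) (nat_lit 365711780) (nat_lit 152) (nat_lit 365711780) (nat_lit 129) (nat_lit 1) (nat_lit 126) (nat_lit 1) (nat_lit 128) (nat_lit 1) (nat_lit 346) (nat_lit 393) (nat_lit 281))) (XT.nd (nat_lit 78) (nat_lit 76) (nat_lit 0) (XT.lf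 (nat_lit 76) (nat_lit 1406090641) (nat_lit 0) (nat_lit 2314757254) (nat_lit 228) (nat_lit 1406090641) (nat_lit 127) (nat_lit 1) (nat_lit 126) (nat_lit 1) (nat_lit 129) (nat_lit 1) (nat_lit 347) (nat_lit 393) (nat_lit 280)) (XT.lf (nat_lit 152) (nat_lit 1200974756) (nat_lit 0) (nat_lit 1937003575) (nat_lit 76) (nat_lit 1937003575) (nat_lit 127) (nat_lit 1) (nat_lit 125) (nat_lit 1) (nat_lit 126) (nat_lit 1) (nat_lit 348) (nat_lit 393) (nat_lit 279)))) (XT.nd (nat_lit 156) (nat_lit 304) (nat_lit 0) (XT.nd (nat_lit 78) (nat_lit 0) (nat_lit 0) (XT.lf (nat_lit 228) (nat_lit 4652458863) (nat_lit 0) (nat_lit 185757944) (nat_lit 152) (nat_lit 185757944) (nat_lit 125) (nat_lit 1) (nat_lit 122) (nat_lit 1) (nat_lit 124) (nat_lit 1) (nat_lit 349) (nat_lit 393) (nat_lit 278)) (XT.lf (nat_lit 76) (nat_lit 1526299985) (nat_lit 0) (nat_lit 1920175355) (nat_lit 228) (nat_lit 1526299985) (nat_lit 123) (nat_lit 1) (nat_lit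 122) (nat_lit 1) (nat_lit 125) (nat_lit 1) (nat_lit 350) (nat_lit 393) (nat_lit 277))) (XT.nd (nat_lit 78) (nat_lit 228) (nat_lit 0) (XT.lf (nat_lit 152) (nat_lit 1480513662) (nat_lit 0) (nat_lit 1721002588) (nat_lit 76) (nat_lit 1721002588) (nat_lit 123) (nat_lit 1) (nat_lit 121) (nat_lit 1) (nat_lit 122) (nat_lit 1) (nat_lit 351) (nat_lit 393) (nat_lit 276)) (XT.nd (nat_lit 78) (nat_lit 0) (nat_lit 0) (XT.lf (nat_lit 228) (nat_lit 4813414443) (nat_lit 0) (nat_lit 29924852) (nat_lit 152) (nat_lit 29924852) (nat_lit 121) (nat_lit 1) (nat_lit 118) (nat_lit 1) (nat_lit 120) (nat_lit 1) (nat_lit 352) (nat_lit 393) (nat_lit 275)) (XT.lf (nat_lit 76) (nat_lit 1625036276) (nat_lit 0) (nat_lit 1573568909) (nat_lit 228) (nat_lit 1625036276) (nat_lit 119) (nat_lit 1) (nat_lit 118) (nat_lit 1) (nat_lit 121) (nat_lit 1) (nat_lit 353) (nat_lit 393) (nat_lit 274)))))) (XT.nd (nat_lit 390) (nat_lit 456) (nat_lit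 0) (XT.nd (nat_lit 156) (nat_lit 228) (nat_lit 0) (XT.nd (nat_lit 78) (nat_lit 0) (nat_lit 0) (XT.lf (nat_lit 152) (nat_lit 1716837744) (nat_lit 0) (nat_lit 1529088509) (nat_lit 76) (nat_lit 1529088509) (nat_lit 119) (nat_lit 1) (nat_lit 117) (nat_lit 1) (nat_lit 118) (nat_lit 1) (nat_lit 354) (nat_lit 393) (nat_lit 273)) (XT.lf (nat_lit 0) (nat_lit 105630933) (nat_lit 0) (nat_lit 4516047408) (nat_lit 152) (nat_lit 105630933) (nat_lit 117) (nat_lit 3) (nat_lit 117) (nat_lit 1) (nat_lit 119) (nat_lit 1) (nat_lit 355) (nat_lit 393) (nat_lit 272))) (XT.nd (nat_lit 78) (nat_lit 76) (nat_lit 0) (XT.lf (nat_lit 76) (nat_lit 1704929030) (nat_lit 0) (nat_lit 1269472271) (nat_lit 152) (nat_lit 1704929030) (nat_lit 116) (nat_lit 1) (nat_lit 115) (nat_lit 1) (nat_lit 117) (nat_lit 1) (nat_lit 356) (nat_lit 393) (nat_lit 271)) (XT.nd (nat_lit 78) (nat_lit 0) (nat_lit 0) (XT.lf (nat_lit 152) (nat_lit 1915116769)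 (nat_lit 0) (nat_lit 1358575335) (nat_lit 76) (nat_lit 1358575335) (nat_lit 116) (nat_lit 1) (nat_lit 114) (nat_lit 1) (nat_lit 115) (nat_lit 1) (nat_lit 357) (nat_lit 393) (nat_lit 270)) (XT.lf (nat_lit 0) (nat_lit 222475040) (nat_lit 0) (nat_lit 4141072954) (nat_lit 152) (nat_lit 222475040) (nat_lit 114) (nat_lit 3) (nat_lit 114) (nat_lit 1) (nat_lit 116) (nat_lit 1) (nat_lit 358) (nat_lit 393) (nat_lit 269))))) (XT.nd (nat_lit 156) (nat_lit 228) (nat_lit 0) (XT.nd (nat_lit 78) (nat_lit 76) (nat_lit 0) (XT.lf (nat_lit 76) (nat_lit 1768307698) (nat_lit 0) (nat_lit 1003032657) (nat_lit 152) (nat_lit 1768307698) (nat_lit 113) (nat_lit 1) (nat_lit 112) (nat_lit 1) (nat_lit 114) (nat_lit 1) (nat_lit 359) (nat_lit 393) (nat_lit 268)) (XT.lf (nat_lit 152) (nat_lit 2079933795) (nat_lit 0) (nat_lit 1207076589) (nat_lit 76) (nat_lit 1207076589) (nat_lit 113) (nat_lit 1) (nat_lit 111) (nat_lit 1) (nat_lit 112)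 (nat_lit 1) (nat_lit 360) (nat_lit 393) (nat_lit 267))) (XT.nd (nat_lit 78) (nat_lit 228) (nat_lit 0) (XT.lf (nat_lit 0) (nat_lit 322543204) (nat_lit 0) (nat_lit 3804166697) (nat_lit 152) (nat_lit 322543204) (nat_lit 111) (nat_lit 3) (nat_lit 111) (nat_lit 1) (nat_lit 113) (nat_lit 1) (nat_lit 361) (nat_lit 393) (nat_lit 266)) (XT.nd (nat_lit 78) (nat_lit 76) (nat_lit 0) (XT.lf (nat_lit 76) (nat_lit 1817235318) (nat_lit 0) (nat_lit 769941706) (nat_lit 152) (nat_lit 1817235318) (nat_lit 110) (nat_lit 1) (nat_lit 109) (nat_lit 1) (nat_lit 111) (nat_lit 1) (nat_lit 362) (nat_lit 393) (nat_lit 265)) (XT.lf (nat_lit 152) (nat_lit 2215350888) (nat_lit 0) (nat_lit 1072471915) (nat_lit 76) (nat_lit 1072471915) (nat_lit 110) (nat_lit 1) (nat_lit 108) (nat_lit 1) (nat_lit 109) (nat_lit 1) (nat_lit 363) (nat_lit 393) (nat_lit 264))))))))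
noncomputable def ec268 : XT := (XT.nd (nat_lit 1404) (nat_lit 1368) (nat_lit 0) (XT.nd (nat_lit 702) (nat_lit 684) (nat_lit 0) (XT.nd (nat_lit 312) (nat_lit 456) (nat_lit 0) (XT.nd (nat_lit 156) (nat_lit 76) (nat_lit 0) (XT.nd (nat_lit 78) (nat_lit 152) (nat_lit 0) (XT.lf (nat_lit 0) (nat_lit 407815278) (nat_lit 0) (nat_lit 3501192657) (nat_lit 152) (nat_lit 407815278) (nat_lit 108) (nat_lit 3) (nat_lit 108) (nat_lit 1) (nat_lit 110) (nat_lit 1) (nat_lit 364) (nat_lit 393) (nat_lit 263)) (XT.lf (nat_lit 76) (nat_lit 1853538424) (nat_lit 0) (nat_lit 566374672) (nat_lit 152) (nat_lit 1853538424) (nat_lit 107) (nat_lit 1) (nat_lit 106) (nat_lit 1) (nat_lit 108) (nat_lit 1) (nat_lit 365) (nat_lit 393) (nat_lit 262))) (XT.nd (nat_lit 78) (nat_lit 0) (nat_lit 0) (XT.lf (nat_lit 152) (nat_lit 2324967513) (nat_lit 0) (nat_lit 952877406) (nat_lit 76) (nat_lit 952877406) (nat_lit 107) (nat_lit 1) (nat_lit 105)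 (nat_lit 1) (nat_lit 106) (nat_lit 1) (nat_lit 366) (nat_lit 393) (nat_lit 261)) (XT.lf (nat_lit 0) (nat_lit 480047154) (nat_lit 0) (nat_lit 3228472890) (nat_lit 152) (nat_lit 480047154) (nat_lit 105) (nat_lit 3) (nat_lit 105) (nat_lit 1) (nat_lit 107) (nat_lit 1) (nat_lit 367) (nat_lit 393) (nat_lit 260)))) (XT.nd (nat_lit 156) (nat_lit 228) (nat_lit 0) (XT.nd (nat_lit 78) (nat_lit 76) (nat_lit 0) (XT.lf (nat_lit 76) (nat_lit 1878833601) (nat_lit 0) (nat_lit 388936403) (nat_lit 152) (nat_lit 1878833601) (nat_lit 104) (nat_lit 1) (nat_lit 103) (nat_lit 1) (nat_lit 105) (nat_lit 1) (nat_lit 368) (nat_lit 393) (nat_lit 259)) (XT.lf (nat_lit 152) (nat_lit 2411972398) (nat_lit 0) (nat_lit 846619233) (nat_lit 76) (nat_lit 846619233) (nat_lit 104) (nat_lit 1) (nat_lit 102) (nat_lit 1) (nat_lit 103) (nat_lit 1) (nat_lit 369) (nat_lit 393) (nat_lit 258))) (XT.nd (nat_lit 78) (nat_lit 228) (nat_lit 0) (XT.lf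 (nat_lit 0) (nat_lit 540795836) (nat_lit 0) (nat_lit 2982736504) (nat_lit 152) (nat_lit 540795836) (nat_lit 102) (nat_lit 3) (nat_lit 102) (nat_lit 1) (nat_lit 104) (nat_lit 1) (nat_lit 370) (nat_lit 393) (nat_lit 257)) (XT.nd (nat_lit 78) (nat_lit 76) (nat_lit 0) (XT.lf (nat_lit 76) (nat_lit 1894551086) (nat_lit 0) (nat_lit 234613347) (nat_lit 152) (nat_lit 1894551086) (nat_lit 101) (nat_lit 1) (nat_lit 100) (nat_lit 1) (nat_lit 102) (nat_lit 1) (nat_lit 371) (nat_lit 393) (nat_lit 256)) (XT.lf (nat_lit 152) (nat_lit 2479189611) (nat_lit 0) (nat_lit 752210223) (nat_lit 76) (nat_lit 752210223) (nat_lit 101) (nat_lit 1) (nat_lit 99) (nat_lit 1) (nat_lit 100) (nat_lit 1) (nat_lit 372) (nat_lit 393) (nat_lit 255)))))) (XT.nd (nat_lit 312) (nat_lit 456) (nat_lit 0) (XT.nd (nat_lit 156) (nat_lit 76) (nat_lit 0) (XT.nd (nat_lit 78) (nat_lit 152) (nat_lit 0) (XT.lf (nat_lit 0) (nat_lit 591441705) (nat_lit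 0) (nat_lit 2761074360) (nat_lit 152) (nat_lit 591441705) (nat_lit 99) (nat_lit 3) (nat_lit 99) (nat_lit 1) (nat_lit 101) (nat_lit 1) (nat_lit 373) (nat_lit 393) (nat_lit 254)) (XT.lf (nat_lit 76) (nat_lit 1901955719) (nat_lit 0) (nat_lit 100730912) (nat_lit 152) (nat_lit 1901955719) (nat_lit 98) (nat_lit 1) (nat_lit 97) (nat_lit 1) (nat_lit 99) (nat_lit 1) (nat_lit 374) (nat_lit 393) (nat_lit 253))) (XT.nd (nat_lit 78) (nat_lit 0) (nat_lit 0) (XT.lf (nat_lit 152) (nat_lit 2529119485) (nat_lit 0) (nat_lit 668329040) (nat_lit 76) (nat_lit 668329040) (nat_lit 98) (nat_lit 1) (nat_lit 96) (nat_lit 1) (nat_lit 97) (nat_lit 1) (nat_lit 375) (nat_lit 393) (nat_lit 252)) (XT.lf (nat_lit 0) (nat_lit 633208303) (nat_lit 0) (nat_lit 2560898816) (nat_lit 152) (nat_lit 633208303) (nat_lit 96) (nat_lit 3) (nat_lit 96) (nat_lit 1) (nat_lit 98) (nat_lit 1) (nat_lit 376) (nat_lit 393) (nat_lit 251)))) (XT.nd (nat_lit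 156) (nat_lit 228) (nat_lit 0) (XT.nd (nat_lit 78) (nat_lit 152) (nat_lit 0) (XT.lf (nat_lit 76) (nat_lit 15384631) (nat_lit 0) (nat_lit 1886928818) (nat_lit 76) (nat_lit 1886928818) (nat_lit 96) (nat_lit 3) (nat_lit 95) (nat_lit 1) (nat_lit 96) (nat_lit 1) (nat_lit 377) (nat_lit 393) (nat_lit 250)) (XT.lf (nat_lit 152) (nat_lit 2563974978) (nat_lit 0) (nat_lit 593801696) (nat_lit 76) (nat_lit 593801696) (nat_lit 95) (nat_lit 1) (nat_lit 93) (nat_lit 1) (nat_lit 94) (nat_lit 1) (nat_lit 378) (nat_lit 393) (nat_lit 249))) (XT.nd (nat_lit 78) (nat_lit 228) (nat_lit 0) (XT.lf (nat_lit 0) (nat_lit 667179908) (nat_lit 0) (nat_lit 2379907962) (nat_lit 152) (nat_lit 667179908) (nat_lit 93) (nat_lit 3) (nat_lit 93) (nat_lit 1) (nat_lit 95) (nat_lit 1) (nat_lit 379) (nat_lit 393) (nat_lit 248)) (XT.nd (nat_lit 78) (nat_lit 152) (nat_lit 0) (XT.lf (nat_lit 76) (nat_lit 117226259) (nat_lit 0) (nat_lit 1780069029)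 (nat_lit 76) (nat_lit 1780069029) (nat_lit 93) (nat_lit 3) (nat_lit 92) (nat_lit 1) (nat_lit 93) (nat_lit 1) (nat_lit 380) (nat_lit 393) (nat_lit 247)) (XT.lf (nat_lit 152) (nat_lit 2585713971) (nat_lit 0) (nat_lit 527585116) (nat_lit 76) (nat_lit 527585116) (nat_lit 92) (nat_lit 1) (nat_lit 90) (nat_lit 1) (nat_lit 91) (nat_lit 1) (nat_lit 381) (nat_lit 393) (nat_lit 246))))))) (XT.nd (nat_lit 702) (nat_lit 684) (nat_lit 0) (XT.nd (nat_lit 312) (nat_lit 456) (nat_lit 0) (XT.nd (nat_lit 156) (nat_lit 152) (nat_lit 0) (XT.nd (nat_lit 78) (nat_lit 76) (nat_lit 0) (XT.lf (nat_lit 0) (nat_lit 694317147) (nat_lit 0) (nat_lit 2216053838) (nat_lit 152) (nat_lit 694317147) (nat_lit 90) (nat_lit 3) (nat_lit 90) (nat_lit 1) (nat_lit 92) (nat_lit 1) (nat_lit 382) (nat_lit 393) (nat_lit 245)) (XT.lf (nat_lit 76) (nat_lit 204694997) (nat_lit 0) (nat_lit 1682109261) (nat_lit 76) (nat_lit 1682109261) (nat_lit 90)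 (nat_lit 3) (nat_lit 89) (nat_lit 1) (nat_lit 90) (nat_lit 1) (nat_lit 383) (nat_lit 393) (nat_lit 244))) (XT.nd (nat_lit 78) (nat_lit 0) (nat_lit 0) (XT.lf (nat_lit 152) (nat_lit 2596067947) (nat_lit 0) (nat_lit 468752542) (nat_lit 76) (nat_lit 468752542) (nat_lit 89) (nat_lit 1) (nat_lit 87) (nat_lit 1) (nat_lit 88) (nat_lit 1) (nat_lit 384) (nat_lit 393) (nat_lit 243)) (XT.lf (nat_lit 0) (nat_lit 715470859) (nat_lit 0) (nat_lit 2067514200) (nat_lit 152) (nat_lit 715470859) (nat_lit 87) (nat_lit 3) (nat_lit 87) (nat_lit 1) (nat_lit 89) (nat_lit 1) (nat_lit 385) (nat_lit 393) (nat_lit 242)))) (XT.nd (nat_lit 156) (nat_lit 228) (nat_lit 0) (XT.nd (nat_lit 78) (nat_lit 152) (nat_lit 0) (XT.lf (nat_lit 76) (nat_lit 279481459) (nat_lit 0) (nat_lit 1592144897) (nat_lit 76) (nat_lit 1592144897) (nat_lit 87) (nat_lit 3) (nat_lit 86) (nat_lit 1) (nat_lit 87) (nat_lit 1) (nat_lit 386) (nat_lit 393) (nat_lit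 241)) (XT.lf (nat_lit 152) (nat_lit 2596567479) (nat_lit 0) (nat_lit 416480562) (nat_lit 76) (nat_lit 416480562) (nat_lit 86) (nat_lit 1) (nat_lit 84) (nat_lit 1) (nat_lit 85) (nat_lit 1) (nat_lit 387) (nat_lit 393) (nat_lit 240))) (XT.nd (nat_lit 78) (nat_lit 228) (nat_lit 0) (XT.lf (nat_lit 0) (nat_lit 731394424) (nat_lit 0) (nat_lit 1932667421) (nat_lit 152) (nat_lit 731394424) (nat_lit 84) (nat_lit 3) (nat_lit 84) (nat_lit 1) (nat_lit 86) (nat_lit 1) (nat_lit 388) (nat_lit 393) (nat_lit 239)) (XT.nd (nat_lit 78) (nat_lit 152) (nat_lit 0) (XT.lf (nat_lit 76) (nat_lit 343085177) (nat_lit 0) (nat_lit 1509369640) (nat_lit 76) (nat_lit 1509369640) (nat_lit 84) (nat_lit 3) (nat_lit 83) (nat_lit 1) (nat_lit 84) (nat_lit 1) (nat_lit 389) (nat_lit 393) (nat_lit 238)) (XT.lf (nat_lit 152) (nat_lit 2588564858) (nat_lit 0) (nat_lit 370037585) (nat_lit 76) (nat_lit 370037585) (nat_lit 83) (nat_lit 1) (nat_lit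 81) (nat_lit 1) (nat_lit 82) (nat_lit 1) (nat_lit 390) (nat_lit 393) (nat_lit 237)))))) (XT.nd (nat_lit 390) (nat_lit 380) (nat_lit 0) (XT.nd (nat_lit 156) (nat_lit 228) (nat_lit 0) (XT.nd (nat_lit 78) (nat_lit 76) (nat_lit 0) (XT.lf (nat_lit 0) (nat_lit 742754698) (nat_lit 0) (nat_lit 1810070197) (nat_lit 152) (nat_lit 742754698) (nat_lit 81) (nat_lit 3) (nat_lit 81) (nat_lit 1) (nat_lit 83) (nat_lit 1) (nat_lit 391) (nat_lit 393) (nat_lit 236)) (XT.lf (nat_lit 76) (nat_lit 396835979) (nat_lit 0) (nat_lit 1433064619) (nat_lit 76) (nat_lit 1433064619) (nat_lit 81) (nat_lit 3) (nat_lit 80) (nat_lit 1) (nat_lit 81) (nat_lit 1) (nat_lit 392) (nat_lit 393) (nat_lit 235))) (XT.nd (nat_lit 78) (nat_lit 76) (nat_lit 0) (XT.lf (nat_lit 152) (nat_lit 2573254197) (nat_lit 0) (nat_lit 328773602) (nat_lit 76) (nat_lit 328773602) (nat_lit 80) (nat_lit 1) (nat_lit 78) (nat_lit 1) (nat_lit 79) (nat_lit 1) (nat_lit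 393) (nat_lit 393) (nat_lit 234)) (XT.nd (nat_lit 78) (nat_lit 76) (nat_lit 0) (XT.lf (nat_lit 0) (nat_lit 750141741) (nat_lit 0) (nat_lit 1698437737) (nat_lit 152) (nat_lit 750141741) (nat_lit 78) (nat_lit 3) (nat_lit 78) (nat_lit 1) (nat_lit 80) (nat_lit 1) (nat_lit 394) (nat_lit 393) (nat_lit 233)) (XT.lf (nat_lit 76) (nat_lit 441912990) (nat_lit 0) (nat_lit 1362588715) (nat_lit 76) (nat_lit 1362588715) (nat_lit 78) (nat_lit 3) (nat_lit 77) (nat_lit 1) (nat_lit 78) (nat_lit 1) (nat_lit 395) (nat_lit 393) (nat_lit 232))))) (XT.nd (nat_lit 156) (nat_lit 228) (nat_lit 0) (XT.nd (nat_lit 78) (nat_lit 0) (nat_lit 0) (XT.lf (nat_lit 152) (nat_lit 2551689286) (nat_lit 0) (nat_lit 292111087) (nat_lit 76) (nat_lit 292111087) (nat_lit 77) (nat_lit 1) (nat_lit 75) (nat_lit 1) (nat_lit 76) (nat_lit 1) (nat_lit 396) (nat_lit 393) (nat_lit 231)) (XT.lf (nat_lit 0) (nat_lit 754077445) (nat_lit 0) (nat_lit 1596626156)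 (nat_lit 152) (nat_lit 754077445) (nat_lit 75) (nat_lit 3) (nat_lit 75) (nat_lit 1) (nat_lit 77) (nat_lit 1) (nat_lit 397) (nat_lit 393) (nat_lit 230))) (XT.nd (nat_lit 78) (nat_lit 152) (nat_lit 0) (XT.lf (nat_lit 76) (nat_lit 479361504) (nat_lit 0) (nat_lit 1297369961) (nat_lit 76) (nat_lit 1297369961) (nat_lit 75) (nat_lit 3) (nat_lit 74) (nat_lit 1) (nat_lit 75) (nat_lit 1) (nat_lit 398) (nat_lit 393) (nat_lit 229)) (XT.nd (nat_lit 78) (nat_lit 0) (nat_lit 0) (XT.lf (nat_lit 152) (nat_lit 2524799444) (nat_lit 0) (nat_lit 259536917) (nat_lit 76) (nat_lit 259536917) (nat_lit 74) (nat_lit 1) (nat_lit 72) (nat_lit 1) (nat_lit 73) (nat_lit 1) (nat_lit 399) (nat_lit 393) (nat_lit 228)) (XT.lf (nat_lit 0) (nat_lit 755023213) (nat_lit 0) (nat_lit 1503616829) (nat_lit 152) (nat_lit 755023213) (nat_lit 72) (nat_lit 3) (nat_lit 72) (nat_lit 1) (nat_lit 74) (nat_lit 1) (nat_lit 400) (nat_lit 393) (nat_lit 227))))))))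
noncomputable def ec269 : XT := (XT.nd (nat_lit 1482) (nat_lit 684) (nat_lit 0) (XT.nd (nat_lit 702) (nat_lit 760) (nat_lit 0) (XT.nd (nat_lit 312) (nat_lit 380) (nat_lit 0) (XT.nd (nat_lit 156) (nat_lit 76) (nat_lit 0) (XT.nd (nat_lit 78) (nat_lit 152) (nat_lit 0) (XT.lf (nat_lit 76) (nat_lit 510107979) (nat_lit 0) (nat_lit 1236897898) (nat_lit 76) (nat_lit 1236897898) (nat_lit 72) (nat_lit 3) (nat_lit 71) (nat_lit 1) (nat_lit 72) (nat_lit 1) (nat_lit 401) (nat_lit 393) (nat_lit 226)) (XT.lf (nat_lit 152) (nat_lit 2493403608) (nat_lit 0) (nat_lit 230595189) (nat_lit 76) (nat_lit 230595189) (nat_lit 71) (nat_lit 1) (nat_lit 69) (nat_lit 1) (nat_lit 70) (nat_lit 1) (nat_lit 402) (nat_lit 393) (nat_lit 225))) (XT.nd (nat_lit 78) (nat_lit 76) (nat_lit 0) (XT.lf (nat_lit 0) (nat_lit 753386762) (nat_lit 0) (nat_lit 1418502495) (nat_lit 152) (nat_lit 753386762) (nat_lit 69) (nat_lit 3) (nat_lit 69) (nat_lit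 1) (nat_lit 71) (nat_lit 1) (nat_lit 403) (nat_lit 393) (nat_lit 224)) (XT.lf (nat_lit 76) (nat_lit 534973353) (nat_lit 0) (nat_lit 1180716783) (nat_lit 76) (nat_lit 1180716783) (nat_lit 69) (nat_lit 3) (nat_lit 68) (nat_lit 1) (nat_lit 69) (nat_lit 1) (nat_lit 404) (nat_lit 393) (nat_lit 223)))) (XT.nd (nat_lit 156) (nat_lit 228) (nat_lit 0) (XT.nd (nat_lit 78) (nat_lit 0) (nat_lit 0) (XT.lf (nat_lit 152) (nat_lit 2458222834) (nat_lit 0) (nat_lit 204880839) (nat_lit 76) (nat_lit 204880839) (nat_lit 68) (nat_lit 1) (nat_lit 66) (nat_lit 1) (nat_lit 67) (nat_lit 1) (nat_lit 405) (nat_lit 393) (nat_lit 222)) (XT.lf (nat_lit 0) (nat_lit 749528183) (nat_lit 0) (nat_lit 1340474897) (nat_lit 152) (nat_lit 749528183) (nat_lit 66) (nat_lit 3) (nat_lit 66) (nat_lit 1) (nat_lit 68) (nat_lit 1) (nat_lit 406) (nat_lit 393) (nat_lit 221))) (XT.nd (nat_lit 78) (nat_lit 152) (nat_lit 0) (XT.lf (nat_lit 76) (nat_lit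 554684876) (nat_lit 0) (nat_lit 1128419550) (nat_lit 76) (nat_lit 1128419550) (nat_lit 66) (nat_lit 3) (nat_lit 65) (nat_lit 1) (nat_lit 66) (nat_lit 1) (nat_lit 407) (nat_lit 393) (nat_lit 220)) (XT.nd (nat_lit 78) (nat_lit 0) (nat_lit 0) (XT.lf (nat_lit 152) (nat_lit 2419891404) (nat_lit 0) (nat_lit 182033972) (nat_lit 76) (nat_lit 182033972) (nat_lit 65) (nat_lit 1) (nat_lit 63) (nat_lit 1) (nat_lit 64) (nat_lit 1) (nat_lit 408) (nat_lit 393) (nat_lit 219)) (XT.lf (nat_lit 0) (nat_lit 743765309) (nat_lit 0) (nat_lit 1268813810) (nat_lit 152) (nat_lit 743765309) (nat_lit 63) (nat_lit 3) (nat_lit 63) (nat_lit 1) (nat_lit 65) (nat_lit 1) (nat_lit 409) (nat_lit 393) (nat_lit 218)))))) (XT.nd (nat_lit 390) (nat_lit 304) (nat_lit 0) (XT.nd (nat_lit 156) (nat_lit 228) (nat_lit 0) (XT.nd (nat_lit 78) (nat_lit 152) (nat_lit 0) (XT.lf (nat_lit 76) (nat_lit 569886621) (nat_lit 0) (nat_lit 1079642447) (nat_lit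 76) (nat_lit 1079642447) (nat_lit 63) (nat_lit 3) (nat_lit 62) (nat_lit 1) (nat_lit 63) (nat_lit 1) (nat_lit 410) (nat_lit 393) (nat_lit 217)) (XT.lf (nat_lit 152) (nat_lit 2378966690) (nat_lit 0) (nat_lit 161734826) (nat_lit 76) (nat_lit 161734826) (nat_lit 62) (nat_lit 1) (nat_lit 60) (nat_lit 1) (nat_lit 61) (nat_lit 1) (nat_lit 411) (nat_lit 393) (nat_lit 216))) (XT.nd (nat_lit 78) (nat_lit 228) (nat_lit 0) (XT.lf (nat_lit 0) (nat_lit 736378490) (nat_lit 0) (nat_lit 1202877283) (nat_lit 152) (nat_lit 736378490) (nat_lit 60) (nat_lit 3) (nat_lit 60) (nat_lit 1) (nat_lit 62) (nat_lit 1) (nat_lit 412) (nat_lit 393) (nat_lit 215)) (XT.nd (nat_lit 78) (nat_lit 152) (nat_lit 0) (XT.lf (nat_lit 76) (nat_lit 581148816) (nat_lit 0) (nat_lit 1034060265) (nat_lit 76) (nat_lit 1034060265) (nat_lit 60) (nat_lit 3) (nat_lit 59) (nat_lit 1) (nat_lit 60) (nat_lit 1) (nat_lit 413) (nat_lit 393) (nat_lit 214)) (XT.lf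 (nat_lit 152) (nat_lit 2335937906) (nat_lit 0) (nat_lit 143699298) (nat_lit 76) (nat_lit 143699298) (nat_lit 59) (nat_lit 1) (nat_lit 57) (nat_lit 1) (nat_lit 58) (nat_lit 1) (nat_lit 414) (nat_lit 393) (nat_lit 213))))) (XT.nd (nat_lit 156) (nat_lit 228) (nat_lit 0) (XT.nd (nat_lit 78) (nat_lit 76) (nat_lit 0) (XT.lf (nat_lit 0) (nat_lit 727614835) (nat_lit 0) (nat_lit 1142092970) (nat_lit 152) (nat_lit 727614835) (nat_lit 57) (nat_lit 3) (nat_lit 57) (nat_lit 1) (nat_lit 59) (nat_lit 1) (nat_lit 415) (nat_lit 393) (nat_lit 212)) (XT.lf (nat_lit 76) (nat_lit 588976142) (nat_lit 0) (nat_lit 991382098) (nat_lit 76) (nat_lit 991382098) (nat_lit 57) (nat_lit 3) (nat_lit 56) (nat_lit 1) (nat_lit 57) (nat_lit 1) (nat_lit 416) (nat_lit 393) (nat_lit 211))) (XT.nd (nat_lit 78) (nat_lit 76) (nat_lit 0) (XT.lf (nat_lit 152) (nat_lit 2291233890) (nat_lit 0) (nat_lit 127674965) (nat_lit 76) (nat_lit 127674965)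 (nat_lit 56) (nat_lit 1) (nat_lit 54) (nat_lit 1) (nat_lit 55) (nat_lit 1) (nat_lit 417) (nat_lit 393) (nat_lit 210)) (XT.nd (nat_lit 78) (nat_lit 76) (nat_lit 0) (XT.lf (nat_lit 0) (nat_lit 717691973) (nat_lit 0) (nat_lit 1085950427) (nat_lit 152) (nat_lit 717691973) (nat_lit 54) (nat_lit 3) (nat_lit 54) (nat_lit 1) (nat_lit 56) (nat_lit 1) (nat_lit 418) (nat_lit 393) (nat_lit 209)) (XT.lf (nat_lit 76) (nat_lit 593815097) (nat_lit 0) (nat_lit 951347577) (nat_lit 76) (nat_lit 951347577) (nat_lit 54) (nat_lit 3) (nat_lit 53) (nat_lit 1) (nat_lit 54) (nat_lit 1) (nat_lit 419) (nat_lit 393) (nat_lit 208))))))) (XT.nd (nat_lit 38454) (nat_lit 0) (nat_lit 25080) (XT.nd (nat_lit 312) (nat_lit 304) (nat_lit 0) (XT.nd (nat_lit 156) (nat_lit 228) (nat_lit 0) (XT.nd (nat_lit 78) (nat_lit 0) (nat_lit 0) (XT.lf (nat_lit 152) (nat_lit 2245230000) (nat_lit 0) (nat_lit 113437553) (nat_lit 76) (nat_lit 113437553) (nat_lit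 53) (nat_lit 1) (nat_lit 51) (nat_lit 1) (nat_lit 52) (nat_lit 1) (nat_lit 420) (nat_lit 393) (nat_lit 207)) (XT.lf (nat_lit 0) (nat_lit 706801397) (nat_lit 0) (nat_lit 1033994264) (nat_lit 152) (nat_lit 706801397) (nat_lit 51) (nat_lit 3) (nat_lit 51) (nat_lit 1) (nat_lit 53) (nat_lit 1) (nat_lit 421) (nat_lit 393) (nat_lit 206))) (XT.nd (nat_lit 78) (nat_lit 152) (nat_lit 0) (XT.lf (nat_lit 76) (nat_lit 596060540) (nat_lit 0) (nat_lit 913723518) (nat_lit 76) (nat_lit 913723518) (nat_lit 51) (nat_lit 3) (nat_lit 50) (nat_lit 1) (nat_lit 51) (nat_lit 1) (nat_lit 422) (nat_lit 393) (nat_lit 205)) (XT.lf (nat_lit 152) (nat_lit 2198254245) (nat_lit 0) (nat_lit 100787796) (nat_lit 76) (nat_lit 100787796) (nat_lit 50) (nat_lit 1) (nat_lit 48) (nat_lit 1) (nat_lit 49) (nat_lit 1) (nat_lit 423) (nat_lit 393) (nat_lit 204)))) (XT.nd (nat_lit 156) (nat_lit 228) (nat_lit 0) (XT.nd (nat_lit 78) (nat_lit 76) (nat_lit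 0) (XT.lf (nat_lit 0) (nat_lit 695111434) (nat_lit 0) (nat_lit 985818059) (nat_lit 152) (nat_lit 695111434) (nat_lit 48) (nat_lit 3) (nat_lit 48) (nat_lit 1) (nat_lit 50) (nat_lit 1) (nat_lit 424) (nat_lit 393) (nat_lit 203)) (XT.lf (nat_lit 76) (nat_lit 596061505) (nat_lit 0) (nat_lit 878300946) (nat_lit 76) (nat_lit 878300946) (nat_lit 48) (nat_lit 3) (nat_lit 47) (nat_lit 1) (nat_lit 48) (nat_lit 1) (nat_lit 425) (nat_lit 393) (nat_lit 202))) (XT.nd (nat_lit 78) (nat_lit 76) (nat_lit 0) (XT.lf (nat_lit 152) (nat_lit 2150592726) (nat_lit 0) (nat_lit 89548652) (nat_lit 76) (nat_lit 89548652) (nat_lit 47) (nat_lit 1) (nat_lit 45) (nat_lit 1) (nat_lit 46) (nat_lit 1) (nat_lit 426) (nat_lit 393) (nat_lit 201)) (XT.nd (nat_lit 78) (nat_lit 76) (nat_lit 0) (XT.lf (nat_lit 0) (nat_lit 682769883) (nat_lit 0) (nat_lit 941058954) (nat_lit 152) (nat_lit 682769883) (nat_lit 45) (nat_lit 3) (nat_lit 45) (nat_lit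 1) (nat_lit 47) (nat_lit 1) (nat_lit 427) (nat_lit 393) (nat_lit 200)) (XT.lf (nat_lit 76) (nat_lit 594126358) (nat_lit 0) (nat_lit 844892447) (nat_lit 76) (nat_lit 844892447) (nat_lit 45) (nat_lit 3) (nat_lit 44) (nat_lit 1) (nat_lit 45) (nat_lit 1) (nat_lit 428) (nat_lit 393) (nat_lit 199)))))) (XT.nd (nat_lit 390) (nat_lit 0) (nat_lit 152) (XT.nd (nat_lit 156) (nat_lit 0) (nat_lit 76) (XT.nd (nat_lit 78) (nat_lit 0) (nat_lit 0) (XT.lf (nat_lit 1292) (nat_lit 1840241461) (nat_lit 0) (nat_lit 6331286468) (nat_lit 1292) (nat_lit 1840241461) (nat_lit 391) (nat_lit 1) (nat_lit 374) (nat_lit 0) (nat_lit 391) (nat_lit 0) (nat_lit 232) (nat_lit 394) (nat_lit 394)) (XT.lf (nat_lit 1292) (nat_lit 7191695880) (nat_lit 76) (nat_lit 6269215032) (nat_lit 0) (nat_lit 6269215032) (nat_lit 391) (nat_lit 1) (nat_lit 375) (nat_lit 1) (nat_lit 374) (nat_lit 0) (nat_lit 233) (nat_lit 394) (nat_lit 393))) (XT.nd (nat_lit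 78) (nat_lit 0) (nat_lit 0) (XT.lf (nat_lit 1292) (nat_lit 3478075597) (nat_lit 0) (nat_lit 12487033985) (nat_lit 1216) (nat_lit 3478075597) (nat_lit 392) (nat_lit 1) (nat_lit 375) (nat_lit 1) (nat_lit 391) (nat_lit 1) (nat_lit 234) (nat_lit 394) (nat_lit 392)) (XT.nd (nat_lit 78) (nat_lit 0) (nat_lit 76) (XT.lf (nat_lit 1292) (nat_lit 6605045134) (nat_lit 76) (nat_lit 6277995546) (nat_lit 0) (nat_lit 6277995546) (nat_lit 392) (nat_lit 1) (nat_lit 376) (nat_lit 1) (nat_lit 375) (nat_lit 1) (nat_lit 235) (nat_lit 394) (nat_lit 391)) (XT.lf (nat_lit 1292) (nat_lit 3099384488) (nat_lit 0) (nat_lit 12686431477) (nat_lit 1216) (nat_lit 3099384488) (nat_lit 393) (nat_lit 1) (nat_lit 376) (nat_lit 1) (nat_lit 392) (nat_lit 1) (nat_lit 236) (nat_lit 394) (nat_lit 390))))) (XT.nd (nat_lit 156) (nat_lit 0) (nat_lit 76) (XT.nd (nat_lit 78) (nat_lit 0) (nat_lit 76) (XT.lf (nat_lit 1292) (nat_lit 5679949326) (nat_lit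 76) (nat_lit 6466913390) (nat_lit 0) (nat_lit 6466913390) (nat_lit 393) (nat_lit 1) (nat_lit 377) (nat_lit 1) (nat_lit 376) (nat_lit 1) (nat_lit 237) (nat_lit 394) (nat_lit 389)) (XT.lf (nat_lit 1292) (nat_lit 2560001902) (nat_lit 0) (nat_lit 13228615544) (nat_lit 1216) (nat_lit 2560001902) (nat_lit 394) (nat_lit 1) (nat_lit 377) (nat_lit 1) (nat_lit 393) (nat_lit 1) (nat_lit 238) (nat_lit 394) (nat_lit 388))) (XT.nd (nat_lit 78) (nat_lit 0) (nat_lit 76) (XT.lf (nat_lit 1292) (nat_lit 4446675068) (nat_lit 76) (nat_lit 6820366545) (nat_lit 0) (nat_lit 6820366545) (nat_lit 394) (nat_lit 1) (nat_lit 378) (nat_lit 1) (nat_lit 377) (nat_lit 1) (nat_lit 239) (nat_lit 394) (nat_lit 387)) (XT.nd (nat_lit 78) (nat_lit 0) (nat_lit 0) (XT.lf (nat_lit 1292) (nat_lit 1874465681) (nat_lit 0) (nat_lit 14083591373) (nat_lit 1216) (nat_lit 1874465681) (nat_lit 395) (nat_lit 1) (nat_lit 378) (nat_lit 1) (nat_lit 394)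 (nat_lit 1) (nat_lit 240) (nat_lit 394) (nat_lit 386)) (XT.lf (nat_lit 1292) (nat_lit 2933435862) (nat_lit 76) (nat_lit 7323801855) (nat_lit 0) (nat_lit 7323801855) (nat_lit 395) (nat_lit 1) (nat_lit 379) (nat_lit 1) (nat_lit 378) (nat_lit 1) (nat_lit 241) (nat_lit 394) (nat_lit 385))))))))
noncomputable def ec270 : XT := (XT.nd (nat_lit 1482) (nat_lit 5016) (nat_lit 0) (XT.nd (nat_lit 702) (nat_lit 2964) (nat_lit 0) (XT.nd (nat_lit 312) (nat_lit 684) (nat_lit 0) (XT.nd (nat_lit 156) (nat_lit 1216) (nat_lit 0) (XT.nd (nat_lit 78) (nat_lit 0) (nat_lit 0) (XT.lf (nat_lit 1292) (nat_lit 1056324370) (nat_lit 0) (nat_lit 15223386485) (nat_lit 1216) (nat_lit 1056324370) (nat_lit 396) (nat_lit 1) (nat_lit 379) (nat_lit 1) (nat_lit 395) (nat_lit 1) (nat_lit 242) (nat_lit 394) (nat_lit 384)) (XT.lf (nat_lit 1292) (nat_lit 1166519151) (nat_lit 76) (nat_lit 7963650360) (nat_lit 0) (nat_lit 7963650360) (nat_lit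 396) (nat_lit 1) (nat_lit 380) (nat_lit 1) (nat_lit 379) (nat_lit 1) (nat_lit 243) (nat_lit 394) (nat_lit 383))) (XT.nd (nat_lit 78) (nat_lit 1292) (nat_lit 0) (XT.lf (nat_lit 1292) (nat_lit 118198520) (nat_lit 0) (nat_lit 16621925894) (nat_lit 1216) (nat_lit 118198520) (nat_lit 397) (nat_lit 1) (nat_lit 380) (nat_lit 1) (nat_lit 396) (nat_lit 1) (nat_lit 244) (nat_lit 394) (nat_lit 382)) (XT.lf (nat_lit 1368) (nat_lit 7905646831) (nat_lit 0) (nat_lit 813405821) (nat_lit 1292) (nat_lit 7905646831) (nat_lit 381) (nat_lit 1) (nat_lit 363) (nat_lit 1) (nat_lit 380) (nat_lit 1) (nat_lit 245) (nat_lit 394) (nat_lit 381)))) (XT.nd (nat_lit 156) (nat_lit 684) (nat_lit 0) (XT.nd (nat_lit 78) (nat_lit 0) (nat_lit 76) (XT.lf (nat_lit 1368) (nat_lit 14559391207) (nat_lit 76) (nat_lit 919062042) (nat_lit 0) (nat_lit 919062042) (nat_lit 381) (nat_lit 1) (nat_lit 364) (nat_lit 1) (nat_lit 363) (nat_lit 1) (nat_lit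 246) (nat_lit 394) (nat_lit 380)) (XT.lf (nat_lit 1368) (nat_lit 6599899770) (nat_lit 0) (nat_lit 2972949960) (nat_lit 1292) (nat_lit 6599899770) (nat_lit 382) (nat_lit 1) (nat_lit 364) (nat_lit 1) (nat_lit 381) (nat_lit 1) (nat_lit 247) (nat_lit 394) (nat_lit 379))) (XT.nd (nat_lit 78) (nat_lit 760) (nat_lit 0) (XT.lf (nat_lit 1368) (nat_lit 11850661064) (nat_lit 76) (nat_lit 2051510147) (nat_lit 0) (nat_lit 2051510147) (nat_lit 382) (nat_lit 1) (nat_lit 365) (nat_lit 1) (nat_lit 364) (nat_lit 1) (nat_lit 248) (nat_lit 394) (nat_lit 378)) (XT.nd (nat_lit 78) (nat_lit 836) (nat_lit 0) (XT.lf (nat_lit 76) (nat_lit 5211742302) (nat_lit 0) (nat_lit 5314091762) (nat_lit 1292) (nat_lit 5211742302) (nat_lit 366) (nat_lit 1) (nat_lit 365) (nat_lit 1) (nat_lit 382) (nat_lit 1) (nat_lit 249) (nat_lit 394) (nat_lit 377)) (XT.lf (nat_lit 912) (nat_lit 8985777453) (nat_lit 0) (nat_lit 3270235398) (nat_lit 836)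 (nat_lit 3270235398) (nat_lit 366) (nat_lit 1) (nat_lit 354) (nat_lit 1) (nat_lit 365) (nat_lit 1) (nat_lit 250) (nat_lit 394) (nat_lit 376)))))) (XT.nd (nat_lit 390) (nat_lit 1748) (nat_lit 0) (XT.nd (nat_lit 156) (nat_lit 608) (nat_lit 0) (XT.nd (nat_lit 78) (nat_lit 608) (nat_lit 0) (XT.lf (nat_lit 76) (nat_lit 3750488586) (nat_lit 0) (nat_lit 7817506844) (nat_lit 912) (nat_lit 3750488586) (nat_lit 355) (nat_lit 1) (nat_lit 354) (nat_lit 1) (nat_lit 366) (nat_lit 1) (nat_lit 251) (nat_lit 394) (nat_lit 375)) (XT.lf (nat_lit 684) (nat_lit 5982781280) (nat_lit 0) (nat_lit 4565878796) (nat_lit 608) (nat_lit 4565878796) (nat_lit 355) (nat_lit 1) (nat_lit 346) (nat_lit 1) (nat_lit 354) (nat_lit 1) (nat_lit 252) (nat_lit 394) (nat_lit 374))) (XT.nd (nat_lit 78) (nat_lit 608) (nat_lit 0) (XT.lf (nat_lit 76) (nat_lit 2224784613) (nat_lit 0) (nat_lit 10465239348) (nat_lit 684) (nat_lit 2224784613) (nat_lit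 347) (nat_lit 1) (nat_lit 346) (nat_lit 1) (nat_lit 355) (nat_lit 1) (nat_lit 253) (nat_lit 394) (nat_lit 373)) (XT.nd (nat_lit 78) (nat_lit 0) (nat_lit 0) (XT.lf (nat_lit 684) (nat_lit 2858413448) (nat_lit 0) (nat_lit 5929746926) (nat_lit 608) (nat_lit 5929746926) (nat_lit 347) (nat_lit 1) (nat_lit 338) (nat_lit 1) (nat_lit 346) (nat_lit 1) (nat_lit 254) (nat_lit 394) (nat_lit 372)) (XT.lf (nat_lit 76) (nat_lit 642650444) (nat_lit 0) (nat_lit 13240615823) (nat_lit 684) (nat_lit 642650444) (nat_lit 339) (nat_lit 1) (nat_lit 338) (nat_lit 1) (nat_lit 347) (nat_lit 1) (nat_lit 255) (nat_lit 394) (nat_lit 371))))) (XT.nd (nat_lit 156) (nat_lit 532) (nat_lit 0) (XT.nd (nat_lit 78) (nat_lit 608) (nat_lit 0) (XT.lf (nat_lit 76) (nat_lit 6985541193) (nat_lit 0) (nat_lit 364547603) (nat_lit 608) (nat_lit 6985541193) (nat_lit 331) (nat_lit 1) (nat_lit 330) (nat_lit 1) (nat_lit 338) (nat_lit 1) (nat_lit 256)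 (nat_lit 394) (nat_lit 370)) (XT.lf (nat_lit 684) (nat_lit 12192479968) (nat_lit 0) (nat_lit 978789092) (nat_lit 608) (nat_lit 978789092) (nat_lit 331) (nat_lit 1) (nat_lit 322) (nat_lit 1) (nat_lit 330) (nat_lit 1) (nat_lit 257) (nat_lit 394) (nat_lit 369))) (XT.nd (nat_lit 78) (nat_lit 532) (nat_lit 0) (XT.lf (nat_lit 76) (nat_lit 5172481940) (nat_lit 0) (nat_lit 3621411394) (nat_lit 684) (nat_lit 5172481940) (nat_lit 323) (nat_lit 1) (nat_lit 322) (nat_lit 1) (nat_lit 331) (nat_lit 1) (nat_lit 258) (nat_lit 394) (nat_lit 368)) (XT.nd (nat_lit 78) (nat_lit 0) (nat_lit 0) (XT.lf (nat_lit 608) (nat_lit 8515754908) (nat_lit 0) (nat_lit 2635626689) (nat_lit 532) (nat_lit 2635626689) (nat_lit 323) (nat_lit 1) (nat_lit 315) (nat_lit 1) (nat_lit 322) (nat_lit 1) (nat_lit 259) (nat_lit 394) (nat_lit 367)) (XT.lf (nat_lit 76) (nat_lit 3327754730) (nat_lit 0) (nat_lit 6954900357) (nat_lit 608) (nat_lit 3327754730)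 (nat_lit 316) (nat_lit 1) (nat_lit 315) (nat_lit 1) (nat_lit 323) (nat_lit 1) (nat_lit 260) (nat_lit 394) (nat_lit 366))))))) (XT.nd (nat_lit 702) (nat_lit 2508) (nat_lit 0) (XT.nd (nat_lit 312) (nat_lit 912) (nat_lit 0) (XT.nd (nat_lit 156) (nat_lit 1064) (nat_lit 0) (XT.nd (nat_lit 78) (nat_lit 0) (nat_lit 0) (XT.lf (nat_lit 608) (nat_lit 4781260623) (nat_lit 0) (nat_lit 4327854196) (nat_lit 532) (nat_lit 4327854196) (nat_lit 316) (nat_lit 1) (nat_lit 308) (nat_lit 1) (nat_lit 315) (nat_lit 1) (nat_lit 261) (nat_lit 394) (nat_lit 365)) (XT.lf (nat_lit 76) (nat_lit 1457131171) (nat_lit 0) (nat_lit 10352938732) (nat_lit 608) (nat_lit 1457131171) (nat_lit 309) (nat_lit 1) (nat_lit 308) (nat_lit 1) (nat_lit 316) (nat_lit 1) (nat_lit 262) (nat_lit 394) (nat_lit 364))) (XT.nd (nat_lit 78) (nat_lit 608) (nat_lit 0) (XT.lf (nat_lit 532) (nat_lit 1000143253) (nat_lit 0) (nat_lit 6049639142) (nat_lit 456) (nat_lit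 6049639142) (nat_lit 309) (nat_lit 1) (nat_lit 302) (nat_lit 1) (nat_lit 308) (nat_lit 1) (nat_lit 263) (nat_lit 394) (nat_lit 363)) (XT.lf (nat_lit 608) (nat_lit 12076120987) (nat_lit 0) (nat_lit 429808075) (nat_lit 532) (nat_lit 429808075) (nat_lit 302) (nat_lit 1) (nat_lit 294) (nat_lit 1) (nat_lit 301) (nat_lit 1) (nat_lit 264) (nat_lit 394) (nat_lit 362)))) (XT.nd (nat_lit 156) (nat_lit 456) (nat_lit 0) (XT.nd (nat_lit 78) (nat_lit 456) (nat_lit 0) (XT.lf (nat_lit 76) (nat_lit 5005357411) (nat_lit 0) (nat_lit 2762342910) (nat_lit 608) (nat_lit 5005357411) (nat_lit 295) (nat_lit 1) (nat_lit 294) (nat_lit 1) (nat_lit 302) (nat_lit 1) (nat_lit 265) (nat_lit 394) (nat_lit 361)) (XT.lf (nat_lit 532) (nat_lit 7978384328) (nat_lit 0) (nat_lit 2317971723) (nat_lit 456) (nat_lit 2317971723) (nat_lit 295) (nat_lit 1) (nat_lit 288) (nat_lit 1) (nat_lit 294) (nat_lit 1) (nat_lit 266) (nat_lit 394) (nat_lit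 360))) (XT.nd (nat_lit 78) (nat_lit 456) (nat_lit 0) (XT.lf (nat_lit 76) (nat_lit 2963127010) (nat_lit 0) (nat_lit 6531666204) (nat_lit 532) (nat_lit 2963127010) (nat_lit 289) (nat_lit 1) (nat_lit 288) (nat_lit 1) (nat_lit 295) (nat_lit 1) (nat_lit 267) (nat_lit 394) (nat_lit 359)) (XT.nd (nat_lit 78) (nat_lit 0) (nat_lit 0) (XT.lf (nat_lit 532) (nat_lit 3869858555) (nat_lit 0) (nat_lit 4217172277) (nat_lit 456) (nat_lit 4217172277) (nat_lit 289) (nat_lit 1) (nat_lit 282) (nat_lit 1) (nat_lit 288) (nat_lit 1) (nat_lit 268) (nat_lit 394) (nat_lit 358)) (XT.lf (nat_lit 76) (nat_lit 917521336) (nat_lit 0) (nat_lit 10318804537) (nat_lit 532) (nat_lit 917521336) (nat_lit 283) (nat_lit 1) (nat_lit 282) (nat_lit 1) (nat_lit 289) (nat_lit 1) (nat_lit 269) (nat_lit 394) (nat_lit 357)))))) (XT.nd (nat_lit 390) (nat_lit 1216) (nat_lit 0) (XT.nd (nat_lit 156) (nat_lit 380) (nat_lit 0) (XT.nd (nat_lit 78) (nat_lit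 456) (nat_lit 0) (XT.lf (nat_lit 76) (nat_lit 5883949385) (nat_lit 0) (nat_lit 236955598) (nat_lit 456) (nat_lit 5883949385) (nat_lit 277) (nat_lit 1) (nat_lit 276) (nat_lit 1) (nat_lit 282) (nat_lit 1) (nat_lit 270) (nat_lit 394) (nat_lit 356)) (XT.lf (nat_lit 532) (nat_lit 9625707506) (nat_lit 0) (nat_lit 1116696609) (nat_lit 456) (nat_lit 1116696609) (nat_lit 277) (nat_lit 1) (nat_lit 270) (nat_lit 1) (nat_lit 276) (nat_lit 1) (nat_lit 271) (nat_lit 394) (nat_lit 355))) (XT.nd (nat_lit 78) (nat_lit 380) (nat_lit 0) (XT.lf (nat_lit 76) (nat_lit 3725303064) (nat_lit 0) (nat_lit 4264210361) (nat_lit 532) (nat_lit 3725303064) (nat_lit 271) (nat_lit 1) (nat_lit 270) (nat_lit 1) (nat_lit 277) (nat_lit 1) (nat_lit 272) (nat_lit 394) (nat_lit 354)) (XT.nd (nat_lit 78) (nat_lit 0) (nat_lit 0) (XT.lf (nat_lit 456) (nat_lit 5297051235) (nat_lit 0) (nat_lit 3138232911) (nat_lit 380) (nat_lit 3138232911) (nat_lit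 271) (nat_lit 1) (nat_lit 265) (nat_lit 1) (nat_lit 270) (nat_lit 1) (nat_lit 273) (nat_lit 394) (nat_lit 353)) (XT.lf (nat_lit 76) (nat_lit 1576887594) (nat_lit 0) (nat_lit 8281030399) (nat_lit 456) (nat_lit 1576887594) (nat_lit 266) (nat_lit 1) (nat_lit 265) (nat_lit 1) (nat_lit 271) (nat_lit 1) (nat_lit 274) (nat_lit 394) (nat_lit 352))))) (XT.nd (nat_lit 156) (nat_lit 380) (nat_lit 0) (XT.nd (nat_lit 78) (nat_lit 456) (nat_lit 0) (XT.lf (nat_lit 456) (nat_lit 991738085) (nat_lit 0) (nat_lit 5153015757) (nat_lit 380) (nat_lit 5153015757) (nat_lit 266) (nat_lit 1) (nat_lit 260) (nat_lit 1) (nat_lit 265) (nat_lit 1) (nat_lit 275) (nat_lit 394) (nat_lit 351)) (XT.lf (nat_lit 456) (nat_lit 10057597544) (nat_lit 0) (nat_lit 553096918) (nat_lit 380) (nat_lit 553096918) (nat_lit 260) (nat_lit 1) (nat_lit 254) (nat_lit 1) (nat_lit 259) (nat_lit 1) (nat_lit 276) (nat_lit 394) (nat_lit 350))) (XT.nd (nat_lit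 78) (nat_lit 380) (nat_lit 0) (XT.lf (nat_lit 76) (nat_lit 3904812687) (nat_lit 0) (nat_lit 3220912007) (nat_lit 456) (nat_lit 3904812687) (nat_lit 255) (nat_lit 1) (nat_lit 254) (nat_lit 1) (nat_lit 260) (nat_lit 1) (nat_lit 277) (nat_lit 394) (nat_lit 349)) (XT.nd (nat_lit 78) (nat_lit 0) (nat_lit 0) (XT.lf (nat_lit 456) (nat_lit 5595550554) (nat_lit 0) (nat_lit 2652347138) (nat_lit 380) (nat_lit 2652347138) (nat_lit 255) (nat_lit 1) (nat_lit 249) (nat_lit 1) (nat_lit 254) (nat_lit 1) (nat_lit 278) (nat_lit 394) (nat_lit 348)) (XT.lf (nat_lit 76) (nat_lit 1695280929) (nat_lit 0) (nat_lit 7381571715) (nat_lit 456) (nat_lit 1695280929) (nat_lit 250) (nat_lit 1) (nat_lit 249) (nat_lit 1) (nat_lit 255) (nat_lit 1) (nat_lit 279) (nat_lit 394) (nat_lit 347))))))))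
noncomputable def ec271 : XT := (XT.nd (nat_lit 1482) (nat_lit 2660) (nat_lit 0) (XT.nd (nat_lit 702) (nat_lit 1748) (nat_lit 0) (XT.nd (nat_lit 312) (nat_lit 988) (nat_lit 0) (XT.nd (nat_lit 156) (nat_lit 304) (nat_lit 0) (XT.nd (nat_lit 78) (nat_lit 456) (nat_lit 0) (XT.lf (nat_lit 380) (nat_lit 1177427786) (nat_lit 0) (nat_lit 4734109055) (nat_lit 304) (nat_lit 4734109055) (nat_lit 250) (nat_lit 1) (nat_lit 245) (nat_lit 1) (nat_lit 249) (nat_lit 1) (nat_lit 280) (nat_lit 394) (nat_lit 346)) (XT.lf (nat_lit 456) (nat_lit 9548665563) (nat_lit 0) (nat_lit 486633730) (nat_lit 380) (nat_lit 486633730) (nat_lit 245) (nat_lit 1) (nat_lit 239) (nat_lit 1) (nat_lit 244) (nat_lit 1) (nat_lit 281) (nat_lit 394) (nat_lit 345))) (XT.nd (nat_lit 78) (nat_lit 304) (nat_lit 0) (XT.lf (nat_lit 76) (nat_lit 3633969049) (nat_lit 0) (nat_lit 3130802055) (nat_lit 456) (nat_lit 3633969049) (nat_lit 240) (nat_lit 1) (nat_lit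 239) (nat_lit 1) (nat_lit 245) (nat_lit 1) (nat_lit 282) (nat_lit 394) (nat_lit 344)) (XT.lf (nat_lit 380) (nat_lit 5022945451) (nat_lit 0) (nat_lit 2627647985) (nat_lit 304) (nat_lit 2627647985) (nat_lit 240) (nat_lit 1) (nat_lit 235) (nat_lit 1) (nat_lit 239) (nat_lit 1) (nat_lit 283) (nat_lit 394) (nat_lit 343)))) (XT.nd (nat_lit 156) (nat_lit 684) (nat_lit 0) (XT.nd (nat_lit 78) (nat_lit 304) (nat_lit 0) (XT.lf (nat_lit 76) (nat_lit 1396804403) (nat_lit 0) (nat_lit 7366195048) (nat_lit 380) (nat_lit 1396804403) (nat_lit 236) (nat_lit 1) (nat_lit 235) (nat_lit 1) (nat_lit 240) (nat_lit 1) (nat_lit 284) (nat_lit 394) (nat_lit 342)) (XT.lf (nat_lit 380) (nat_lit 556986697) (nat_lit 0) (nat_lit 4742862900) (nat_lit 304) (nat_lit 4742862900) (nat_lit 236) (nat_lit 1) (nat_lit 231) (nat_lit 1) (nat_lit 235) (nat_lit 1) (nat_lit 285) (nat_lit 394) (nat_lit 341))) (XT.nd (nat_lit 78) (nat_lit 304) (nat_lit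 0) (XT.lf (nat_lit 380) (nat_lit 8323808493) (nat_lit 0) (nat_lit 802061693) (nat_lit 304) (nat_lit 802061693) (nat_lit 231) (nat_lit 1) (nat_lit 226) (nat_lit 1) (nat_lit 230) (nat_lit 1) (nat_lit 286) (nat_lit 394) (nat_lit 340)) (XT.nd (nat_lit 78) (nat_lit 304) (nat_lit 0) (XT.lf (nat_lit 76) (nat_lit 3021094114) (nat_lit 0) (nat_lit 3771749808) (nat_lit 380) (nat_lit 3021094114) (nat_lit 227) (nat_lit 1) (nat_lit 226) (nat_lit 1) (nat_lit 231) (nat_lit 1) (nat_lit 287) (nat_lit 394) (nat_lit 339)) (XT.lf (nat_lit 380) (nat_lit 3790044983) (nat_lit 0) (nat_lit 2956071195) (nat_lit 304) (nat_lit 2956071195) (nat_lit 227) (nat_lit 1) (nat_lit 222) (nat_lit 1) (nat_lit 226) (nat_lit 1) (nat_lit 288) (nat_lit 394) (nat_lit 338)))))) (XT.nd (nat_lit 390) (nat_lit 912) (nat_lit 0) (XT.nd (nat_lit 156) (nat_lit 532) (nat_lit 0) (XT.nd (nat_lit 78) (nat_lit 304) (nat_lit 0) (XT.lf (nat_lit 76) (nat_lit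 782986472) (nat_lit 0) (nat_lit 8026625674) (nat_lit 380) (nat_lit 782986472) (nat_lit 223) (nat_lit 1) (nat_lit 222) (nat_lit 1) (nat_lit 227) (nat_lit 1) (nat_lit 289) (nat_lit 394) (nat_lit 337)) (XT.lf (nat_lit 76) (nat_lit 4412408324) (nat_lit 0) (nat_lit 658899314) (nat_lit 304) (nat_lit 4412408324) (nat_lit 219) (nat_lit 1) (nat_lit 218) (nat_lit 1) (nat_lit 222) (nat_lit 1) (nat_lit 290) (nat_lit 394) (nat_lit 336))) (XT.nd (nat_lit 78) (nat_lit 228) (nat_lit 0) (XT.lf (nat_lit 380) (nat_lit 6566599584) (nat_lit 0) (nat_lit 1405167803) (nat_lit 304) (nat_lit 1405167803) (nat_lit 219) (nat_lit 1) (nat_lit 214) (nat_lit 1) (nat_lit 218) (nat_lit 1) (nat_lit 291) (nat_lit 394) (nat_lit 335)) (XT.nd (nat_lit 78) (nat_lit 228) (nat_lit 0) (XT.lf (nat_lit 76) (nat_lit 2154569997) (nat_lit 0) (nat_lit 4962230880) (nat_lit 380) (nat_lit 2154569997) (nat_lit 215) (nat_lit 1) (nat_lit 214) (nat_lit 1)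 (nat_lit 219) (nat_lit 1) (nat_lit 292) (nat_lit 394) (nat_lit 334)) (XT.lf (nat_lit 304) (nat_lit 2068782332) (nat_lit 0) (nat_lit 3549340971) (nat_lit 228) (nat_lit 3549340971) (nat_lit 215) (nat_lit 1) (nat_lit 211) (nat_lit 1) (nat_lit 214) (nat_lit 1) (nat_lit 293) (nat_lit 394) (nat_lit 333))))) (XT.nd (nat_lit 156) (nat_lit 532) (nat_lit 0) (XT.nd (nat_lit 78) (nat_lit 0) (nat_lit 0) (XT.lf (nat_lit 380) (nat_lit 8940351986) (nat_lit 0) (nat_lit 62780999) (nat_lit 304) (nat_lit 62780999) (nat_lit 211) (nat_lit 1) (nat_lit 206) (nat_lit 1) (nat_lit 210) (nat_lit 1) (nat_lit 294) (nat_lit 394) (nat_lit 332)) (XT.lf (nat_lit 76) (nat_lit 3330712058) (nat_lit 0) (nat_lit 2302739934) (nat_lit 380) (nat_lit 3330712058) (nat_lit 207) (nat_lit 1) (nat_lit 206) (nat_lit 1) (nat_lit 211) (nat_lit 1) (nat_lit 295) (nat_lit 394) (nat_lit 331))) (XT.nd (nat_lit 78) (nat_lit 304) (nat_lit 0) (XT.lf (nat_lit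 304) (nat_lit 4426296904) (nat_lit 0) (nat_lit 2219211626) (nat_lit 228) (nat_lit 2219211626) (nat_lit 207) (nat_lit 1) (nat_lit 203) (nat_lit 1) (nat_lit 206) (nat_lit 1) (nat_lit 296) (nat_lit 394) (nat_lit 330)) (XT.nd (nat_lit 78) (nat_lit 304) (nat_lit 0) (XT.lf (nat_lit 76) (nat_lit 1106222881) (nat_lit 0) (nat_lit 6554450474) (nat_lit 304) (nat_lit 1106222881) (nat_lit 204) (nat_lit 1) (nat_lit 203) (nat_lit 1) (nat_lit 207) (nat_lit 1) (nat_lit 297) (nat_lit 394) (nat_lit 329)) (XT.lf (nat_lit 76) (nat_lit 4334444545) (nat_lit 0) (nat_lit 1160498) (nat_lit 304) (nat_lit 4334444545) (nat_lit 200) (nat_lit 1) (nat_lit 199) (nat_lit 1) (nat_lit 203) (nat_lit 1) (nat_lit 298) (nat_lit 394) (nat_lit 328))))))) (XT.nd (nat_lit 702) (nat_lit 1216) (nat_lit 0) (XT.nd (nat_lit 312) (nat_lit 684) (nat_lit 0) (XT.nd (nat_lit 156) (nat_lit 532) (nat_lit 0) (XT.nd (nat_lit 78) (nat_lit 0) (nat_lit 0) (XT.lf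 (nat_lit 304) (nat_lit 6445533292) (nat_lit 0) (nat_lit 1064622479) (nat_lit 228) (nat_lit 1064622479) (nat_lit 200) (nat_lit 1) (nat_lit 196) (nat_lit 1) (nat_lit 199) (nat_lit 1) (nat_lit 299) (nat_lit 394) (nat_lit 327)) (XT.lf (nat_lit 76) (nat_lit 2111559134) (nat_lit 0) (nat_lit 4257304786) (nat_lit 304) (nat_lit 2111559134) (nat_lit 197) (nat_lit 1) (nat_lit 196) (nat_lit 1) (nat_lit 200) (nat_lit 1) (nat_lit 300) (nat_lit 394) (nat_lit 326))) (XT.nd (nat_lit 78) (nat_lit 304) (nat_lit 0) (XT.lf (nat_lit 304) (nat_lit 2023695498) (nat_lit 0) (nat_lit 3181952446) (nat_lit 228) (nat_lit 3181952446) (nat_lit 197) (nat_lit 1) (nat_lit 193) (nat_lit 1) (nat_lit 196) (nat_lit 1) (nat_lit 301) (nat_lit 394) (nat_lit 325)) (XT.lf (nat_lit 304) (nat_lit 8166409568) (nat_lit 0) (nat_lit 65205898) (nat_lit 228) (nat_lit 65205898) (nat_lit 193) (nat_lit 1) (nat_lit 189) (nat_lit 1) (nat_lit 192) (nat_lit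 1) (nat_lit 302) (nat_lit 394) (nat_lit 324)))) (XT.nd (nat_lit 156) (nat_lit 456) (nat_lit 0) (XT.nd (nat_lit 78) (nat_lit 228) (nat_lit 0) (XT.lf (nat_lit 76) (nat_lit 2971912779) (nat_lit 0) (nat_lit 2261939223) (nat_lit 304) (nat_lit 2971912779) (nat_lit 190) (nat_lit 1) (nat_lit 189) (nat_lit 1) (nat_lit 193) (nat_lit 1) (nat_lit 303) (nat_lit 394) (nat_lit 323)) (XT.lf (nat_lit 304) (nat_lit 3763801129) (nat_lit 0) (nat_lit 2176456650) (nat_lit 228) (nat_lit 2176456650) (nat_lit 190) (nat_lit 1) (nat_lit 186) (nat_lit 1) (nat_lit 189) (nat_lit 1) (nat_lit 304) (nat_lit 394) (nat_lit 322))) (XT.nd (nat_lit 78) (nat_lit 456) (nat_lit 0) (XT.lf (nat_lit 76) (nat_lit 805003600) (nat_lit 0) (nat_lit 6419165181) (nat_lit 304) (nat_lit 805003600) (nat_lit 187) (nat_lit 1) (nat_lit 186) (nat_lit 1) (nat_lit 190) (nat_lit 1) (nat_lit 305) (nat_lit 394) (nat_lit 321)) (XT.nd (nat_lit 78) (nat_lit 228) (nat_lit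 0) (XT.lf (nat_lit 76) (nat_lit 3704408766) (nat_lit 0) (nat_lit 533372695) (nat_lit 228) (nat_lit 3704408766) (nat_lit 184) (nat_lit 1) (nat_lit 183) (nat_lit 1) (nat_lit 186) (nat_lit 1) (nat_lit 306) (nat_lit 394) (nat_lit 320)) (XT.lf (nat_lit 304) (nat_lit 5252606895) (nat_lit 0) (nat_lit 1302038122) (nat_lit 228) (nat_lit 1302038122) (nat_lit 184) (nat_lit 1) (nat_lit 180) (nat_lit 1) (nat_lit 183) (nat_lit 1) (nat_lit 307) (nat_lit 394) (nat_lit 319)))))) (XT.nd (nat_lit 390) (nat_lit 608) (nat_lit 0) (XT.nd (nat_lit 156) (nat_lit 456) (nat_lit 0) (XT.nd (nat_lit 78) (nat_lit 152) (nat_lit 0) (XT.lf (nat_lit 76) (nat_lit 1553596250) (nat_lit 0) (nat_lit 4664959311) (nat_lit 304) (nat_lit 1553596250) (nat_lit 181) (nat_lit 1) (nat_lit 180) (nat_lit 1) (nat_lit 184) (nat_lit 1) (nat_lit 308) (nat_lit 394) (nat_lit 318)) (XT.lf (nat_lit 228) (nat_lit 978531008) (nat_lit 0) (nat_lit 3355109734) (nat_lit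 152) (nat_lit 3355109734) (nat_lit 181) (nat_lit 1) (nat_lit 178) (nat_lit 1) (nat_lit 180) (nat_lit 1) (nat_lit 309) (nat_lit 394) (nat_lit 317))) (XT.nd (nat_lit 78) (nat_lit 152) (nat_lit 0) (XT.lf (nat_lit 304) (nat_lit 6519803621) (nat_lit 0) (nat_lit 543528063) (nat_lit 228) (nat_lit 543528063) (nat_lit 178) (nat_lit 1) (nat_lit 174) (nat_lit 1) (nat_lit 177) (nat_lit 1) (nat_lit 310) (nat_lit 394) (nat_lit 316)) (XT.nd (nat_lit 78) (nat_lit 152) (nat_lit 0) (XT.lf (nat_lit 76) (nat_lit 2194292842) (nat_lit 0) (nat_lit 3136614363) (nat_lit 304) (nat_lit 2194292842) (nat_lit 175) (nat_lit 1) (nat_lit 174) (nat_lit 1) (nat_lit 178) (nat_lit 1) (nat_lit 311) (nat_lit 394) (nat_lit 315)) (XT.lf (nat_lit 228) (nat_lit 2288690937) (nat_lit 0) (nat_lit 2578166092) (nat_lit 152) (nat_lit 2578166092) (nat_lit 175) (nat_lit 1) (nat_lit 172) (nat_lit 1) (nat_lit 174) (nat_lit 1) (nat_lit 312) (nat_lit 394)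 (nat_lit 314))))) (XT.nd (nat_lit 156) (nat_lit 380) (nat_lit 0) (XT.nd (nat_lit 78) (nat_lit 228) (nat_lit 0) (XT.lf (nat_lit 76) (nat_lit 113648933) (nat_lit 0) (nat_lit 7139223572) (nat_lit 228) (nat_lit 113648933) (nat_lit 173) (nat_lit 1) (nat_lit 172) (nat_lit 1) (nat_lit 175) (nat_lit 1) (nat_lit 313) (nat_lit 394) (nat_lit 313)) (XT.lf (nat_lit 76) (nat_lit 2739836398) (nat_lit 0) (nat_lit 1808063018) (nat_lit 228) (nat_lit 2739836398) (nat_lit 170) (nat_lit 1) (nat_lit 169) (nat_lit 1) (nat_lit 172) (nat_lit 1) (nat_lit 314) (nat_lit 394) (nat_lit 312))) (XT.nd (nat_lit 78) (nat_lit 228) (nat_lit 0) (XT.lf (nat_lit 228) (nat_lit 3411412847) (nat_lit 0) (nat_lit 1899593928) (nat_lit 152) (nat_lit 1899593928) (nat_lit 170) (nat_lit 1) (nat_lit 167) (nat_lit 1) (nat_lit 169) (nat_lit 1) (nat_lit 315) (nat_lit 394) (nat_lit 311)) (XT.nd (nat_lit 78) (nat_lit 228) (nat_lit 0) (XT.lf (nat_lit 76)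 (nat_lit 684808557) (nat_lit 0) (nat_lit 5765111353) (nat_lit 228) (nat_lit 684808557) (nat_lit 168) (nat_lit 1) (nat_lit 167) (nat_lit 1) (nat_lit 170) (nat_lit 1) (nat_lit 316) (nat_lit 394) (nat_lit 310)) (XT.lf (nat_lit 76) (nat_lit 3201528209) (nat_lit 0) (nat_lit 656170459) (nat_lit 228) (nat_lit 3201528209) (nat_lit 165) (nat_lit 1) (nat_lit 164) (nat_lit 1) (nat_lit 167) (nat_lit 1) (nat_lit 317) (nat_lit 394) (nat_lit 309))))))))
noncomputable def ec272 : XT := (XT.nd (nat_lit 1404) (nat_lit 1748) (nat_lit 0) (XT.nd (nat_lit 702) (nat_lit 912) (nat_lit 0) (XT.nd (nat_lit 312) (nat_lit 532) (nat_lit 0) (XT.nd (nat_lit 156) (nat_lit 380) (nat_lit 0) (XT.nd (nat_lit 78) (nat_lit 0) (nat_lit 0) (XT.lf (nat_lit 228) (nat_lit 4368802530) (nat_lit 0) (nat_lit 1308081831) (nat_lit 152) (nat_lit 1308081831) (nat_lit 165) (nat_lit 1) (nat_lit 162) (nat_lit 1) (nat_lit 164) (nat_lit 1) (nat_lit 318) (nat_lit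 394) (nat_lit 308)) (XT.lf (nat_lit 76) (nat_lit 1175271642) (nat_lit 0) (nat_lit 4561065289) (nat_lit 228) (nat_lit 1175271642) (nat_lit 163) (nat_lit 1) (nat_lit 162) (nat_lit 1) (nat_lit 165) (nat_lit 1) (nat_lit 319) (nat_lit 394) (nat_lit 307))) (XT.nd (nat_lit 78) (nat_lit 228) (nat_lit 0) (XT.lf (nat_lit 228) (nat_lit 346351963) (nat_lit 0) (nat_lit 3246366601) (nat_lit 152) (nat_lit 3246366601) (nat_lit 163) (nat_lit 1) (nat_lit 160) (nat_lit 1) (nat_lit 162) (nat_lit 1) (nat_lit 320) (nat_lit 394) (nat_lit 306)) (XT.lf (nat_lit 228) (nat_lit 5180465629) (nat_lit 0) (nat_lit 793589717) (nat_lit 152) (nat_lit 793589717) (nat_lit 160) (nat_lit 1) (nat_lit 157) (nat_lit 1) (nat_lit 159) (nat_lit 1) (nat_lit 321) (nat_lit 394) (nat_lit 305)))) (XT.nd (nat_lit 156) (nat_lit 380) (nat_lit 0) (XT.nd (nat_lit 78) (nat_lit 152) (nat_lit 0) (XT.lf (nat_lit 76) (nat_lit 1594532184) (nat_lit 0) (nat_lit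 3507630464) (nat_lit 228) (nat_lit 1594532184) (nat_lit 158) (nat_lit 1) (nat_lit 157) (nat_lit 1) (nat_lit 160) (nat_lit 1) (nat_lit 322) (nat_lit 394) (nat_lit 304)) (XT.lf (nat_lit 228) (nat_lit 1221276553) (nat_lit 0) (nat_lit 2702766477) (nat_lit 152) (nat_lit 2702766477) (nat_lit 158) (nat_lit 1) (nat_lit 155) (nat_lit 1) (nat_lit 157) (nat_lit 1) (nat_lit 323) (nat_lit 394) (nat_lit 303))) (XT.nd (nat_lit 78) (nat_lit 152) (nat_lit 0) (XT.lf (nat_lit 228) (nat_lit 5863787454) (nat_lit 0) (nat_lit 347206759) (nat_lit 152) (nat_lit 347206759) (nat_lit 155) (nat_lit 1) (nat_lit 152) (nat_lit 1) (nat_lit 154) (nat_lit 1) (nat_lit 324) (nat_lit 394) (nat_lit 302)) (XT.nd (nat_lit 78) (nat_lit 152) (nat_lit 0) (XT.lf (nat_lit 76) (nat_lit 1951011050) (nat_lit 0) (nat_lit 2587535723) (nat_lit 228) (nat_lit 1951011050) (nat_lit 153) (nat_lit 1) (nat_lit 152) (nat_lit 1) (nat_lit 155) (nat_lit 1) (nat_lit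 325) (nat_lit 394) (nat_lit 301)) (XT.lf (nat_lit 228) (nat_lit 1972027546) (nat_lit 0) (nat_lit 2225073784) (nat_lit 152) (nat_lit 2225073784) (nat_lit 153) (nat_lit 1) (nat_lit 150) (nat_lit 1) (nat_lit 152) (nat_lit 1) (nat_lit 326) (nat_lit 394) (nat_lit 300)))))) (XT.nd (nat_lit 312) (nat_lit 608) (nat_lit 0) (XT.nd (nat_lit 156) (nat_lit 152) (nat_lit 0) (XT.nd (nat_lit 78) (nat_lit 152) (nat_lit 0) (XT.lf (nat_lit 76) (nat_lit 39360700) (nat_lit 0) (nat_lit 6277464919) (nat_lit 228) (nat_lit 39360700) (nat_lit 151) (nat_lit 1) (nat_lit 150) (nat_lit 1) (nat_lit 153) (nat_lit 1) (nat_lit 327) (nat_lit 394) (nat_lit 299)) (XT.lf (nat_lit 76) (nat_lit 2252176064) (nat_lit 0) (nat_lit 1785449729) (nat_lit 152) (nat_lit 2252176064) (nat_lit 149) (nat_lit 1) (nat_lit 148) (nat_lit 1) (nat_lit 150) (nat_lit 1) (nat_lit 328) (nat_lit 394) (nat_lit 298))) (XT.nd (nat_lit 78) (nat_lit 0) (nat_lit 0) (XT.lf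 (nat_lit 228) (nat_lit 2613226900) (nat_lit 0) (nat_lit 1805784942) (nat_lit 152) (nat_lit 1805784942) (nat_lit 149) (nat_lit 1) (nat_lit 146) (nat_lit 1) (nat_lit 148) (nat_lit 1) (nat_lit 329) (nat_lit 394) (nat_lit 297)) (XT.lf (nat_lit 76) (nat_lit 375654727) (nat_lit 0) (nat_lit 5409622011) (nat_lit 228) (nat_lit 375654727) (nat_lit 147) (nat_lit 1) (nat_lit 146) (nat_lit 1) (nat_lit 149) (nat_lit 1) (nat_lit 330) (nat_lit 394) (nat_lit 296)))) (XT.nd (nat_lit 156) (nat_lit 304) (nat_lit 0) (XT.nd (nat_lit 78) (nat_lit 152) (nat_lit 0) (XT.lf (nat_lit 76) (nat_lit 2504648696) (nat_lit 0) (nat_lit 1087764254) (nat_lit 152) (nat_lit 2504648696) (nat_lit 145) (nat_lit 1) (nat_lit 144) (nat_lit 1) (nat_lit 146) (nat_lit 1) (nat_lit 331) (nat_lit 394) (nat_lit 295)) (XT.lf (nat_lit 228) (nat_lit 3157843464) (nat_lit 0) (nat_lit 1438237605) (nat_lit 152) (nat_lit 1438237605) (nat_lit 145) (nat_lit 1)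 (nat_lit 142) (nat_lit 1) (nat_lit 144) (nat_lit 1) (nat_lit 332) (nat_lit 394) (nat_lit 294))) (XT.nd (nat_lit 78) (nat_lit 304) (nat_lit 0) (XT.lf (nat_lit 76) (nat_lit 664524801) (nat_lit 0) (nat_lit 4643442912) (nat_lit 228) (nat_lit 664524801) (nat_lit 143) (nat_lit 1) (nat_lit 142) (nat_lit 1) (nat_lit 145) (nat_lit 1) (nat_lit 333) (nat_lit 394) (nat_lit 293)) (XT.nd (nat_lit 78) (nat_lit 152) (nat_lit 0) (XT.lf (nat_lit 76) (nat_lit 2714298832) (nat_lit 0) (nat_lit 482401630) (nat_lit 152) (nat_lit 2714298832) (nat_lit 141) (nat_lit 1) (nat_lit 140) (nat_lit 1) (nat_lit 142) (nat_lit 1) (nat_lit 334) (nat_lit 394) (nat_lit 292)) (XT.lf (nat_lit 228) (nat_lit 3617377980) (nat_lit 0) (nat_lit 1116516719) (nat_lit 152) (nat_lit 1116516719) (nat_lit 141) (nat_lit 1) (nat_lit 138) (nat_lit 1) (nat_lit 140) (nat_lit 1) (nat_lit 335) (nat_lit 394) (nat_lit 291))))))) (XT.nd (nat_lit 702) (nat_lit 836)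 (nat_lit 0) (XT.nd (nat_lit 312) (nat_lit 608) (nat_lit 0) (XT.nd (nat_lit 156) (nat_lit 228) (nat_lit 0) (XT.nd (nat_lit 78) (nat_lit 76) (nat_lit 0) (XT.lf (nat_lit 76) (nat_lit 911548321) (nat_lit 0) (nat_lit 3967448421) (nat_lit 228) (nat_lit 911548321) (nat_lit 139) (nat_lit 1) (nat_lit 138) (nat_lit 1) (nat_lit 141) (nat_lit 1) (nat_lit 336) (nat_lit 394) (nat_lit 290)) (XT.lf (nat_lit 152) (nat_lit 42179374) (nat_lit 0) (nat_lit 2844555053) (nat_lit 76) (nat_lit 2844555053) (nat_lit 139) (nat_lit 1) (nat_lit 137) (nat_lit 1) (nat_lit 138) (nat_lit 1) (nat_lit 337) (nat_lit 394) (nat_lit 289))) (XT.nd (nat_lit 78) (nat_lit 0) (nat_lit 0) (XT.lf (nat_lit 228) (nat_lit 4002027426) (nat_lit 0) (nat_lit 835371066) (nat_lit 152) (nat_lit 835371066) (nat_lit 137) (nat_lit 1) (nat_lit 134) (nat_lit 1) (nat_lit 136) (nat_lit 1) (nat_lit 338) (nat_lit 394) (nat_lit 288)) (XT.lf (nat_lit 76) (nat_lit 1121672316)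 (nat_lit 0) (nat_lit 3371443560) (nat_lit 228) (nat_lit 1121672316) (nat_lit 135) (nat_lit 1) (nat_lit 134) (nat_lit 1) (nat_lit 137) (nat_lit 1) (nat_lit 339) (nat_lit 394) (nat_lit 287)))) (XT.nd (nat_lit 156) (nat_lit 304) (nat_lit 0) (XT.nd (nat_lit 78) (nat_lit 228) (nat_lit 0) (XT.lf (nat_lit 152) (nat_lit 502832242) (nat_lit 0) (nat_lit 2527350321) (nat_lit 76) (nat_lit 2527350321) (nat_lit 135) (nat_lit 1) (nat_lit 133) (nat_lit 1) (nat_lit 134) (nat_lit 1) (nat_lit 340) (nat_lit 394) (nat_lit 286)) (XT.lf (nat_lit 228) (nat_lit 4320831032) (nat_lit 0) (nat_lit 590139113) (nat_lit 152) (nat_lit 590139113) (nat_lit 133) (nat_lit 1) (nat_lit 130) (nat_lit 1) (nat_lit 132) (nat_lit 1) (nat_lit 341) (nat_lit 394) (nat_lit 285))) (XT.nd (nat_lit 78) (nat_lit 304) (nat_lit 0) (XT.lf (nat_lit 76) (nat_lit 1299283984) (nat_lit 0) (nat_lit 2846374251) (nat_lit 228) (nat_lit 1299283984) (nat_lit 131)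 (nat_lit 1) (nat_lit 130) (nat_lit 1) (nat_lit 133) (nat_lit 1) (nat_lit 342) (nat_lit 394) (nat_lit 284)) (XT.nd (nat_lit 78) (nat_lit 228) (nat_lit 0) (XT.lf (nat_lit 152) (nat_lit 898562278) (nat_lit 0) (nat_lit 2245518026) (nat_lit 76) (nat_lit 2245518026) (nat_lit 131) (nat_lit 1) (nat_lit 129) (nat_lit 1) (nat_lit 130) (nat_lit 1) (nat_lit 343) (nat_lit 394) (nat_lit 283)) (XT.lf (nat_lit 228) (nat_lit 4581799980) (nat_lit 0) (nat_lit 376683133) (nat_lit 152) (nat_lit 376683133) (nat_lit 129) (nat_lit 1) (nat_lit 126) (nat_lit 1) (nat_lit 128) (nat_lit 1) (nat_lit 344) (nat_lit 394) (nat_lit 282)))))) (XT.nd (nat_lit 390) (nat_lit 456) (nat_lit 0) (XT.nd (nat_lit 156) (nat_lit 304) (nat_lit 0) (XT.nd (nat_lit 78) (nat_lit 76) (nat_lit 0) (XT.lf (nat_lit 76) (nat_lit 1448273360) (nat_lit 0) (nat_lit 2384199972) (nat_lit 228) (nat_lit 1448273360) (nat_lit 127) (nat_lit 1) (nat_lit 126) (nat_lit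 1) (nat_lit 129) (nat_lit 1) (nat_lit 345) (nat_lit 394) (nat_lit 281)) (XT.lf (nat_lit 152) (nat_lit 1237003998) (nat_lit 0) (nat_lit 1995113682) (nat_lit 76) (nat_lit 1995113682) (nat_lit 127) (nat_lit 1) (nat_lit 125) (nat_lit 1) (nat_lit 126) (nat_lit 1) (nat_lit 346) (nat_lit 394) (nat_lit 280))) (XT.nd (nat_lit 78) (nat_lit 76) (nat_lit 0) (XT.lf (nat_lit 228) (nat_lit 4792032629) (nat_lit 0) (nat_lit 191330682) (nat_lit 152) (nat_lit 191330682) (nat_lit 125) (nat_lit 1) (nat_lit 122) (nat_lit 1) (nat_lit 124) (nat_lit 1) (nat_lit 347) (nat_lit 394) (nat_lit 279)) (XT.nd (nat_lit 78) (nat_lit 76) (nat_lit 0) (XT.lf (nat_lit 76) (nat_lit 1572088985) (nat_lit 0) (nat_lit 1977780616) (nat_lit 228) (nat_lit 1572088985) (nat_lit 123) (nat_lit 1) (nat_lit 122) (nat_lit 1) (nat_lit 125) (nat_lit 1) (nat_lit 348) (nat_lit 394) (nat_lit 278)) (XT.lf (nat_lit 152) (nat_lit 1524929072) (nat_lit 0) (nat_lit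 1772632666) (nat_lit 76) (nat_lit 1772632666) (nat_lit 123) (nat_lit 1) (nat_lit 121) (nat_lit 1) (nat_lit 122) (nat_lit 1) (nat_lit 349) (nat_lit 394) (nat_lit 277))))) (XT.nd (nat_lit 156) (nat_lit 228) (nat_lit 0) (XT.nd (nat_lit 78) (nat_lit 0) (nat_lit 0) (XT.lf (nat_lit 228) (nat_lit 4957816876) (nat_lit 0) (nat_lit 30822597) (nat_lit 152) (nat_lit 30822597) (nat_lit 121) (nat_lit 1) (nat_lit 118) (nat_lit 1) (nat_lit 120) (nat_lit 1) (nat_lit 350) (nat_lit 394) (nat_lit 276)) (XT.lf (nat_lit 76) (nat_lit 1673787364) (nat_lit 0) (nat_lit 1620775977) (nat_lit 228) (nat_lit 1673787364) (nat_lit 119) (nat_lit 1) (nat_lit 118) (nat_lit 1) (nat_lit 121) (nat_lit 1) (nat_lit 351) (nat_lit 394) (nat_lit 275))) (XT.nd (nat_lit 78) (nat_lit 152) (nat_lit 0) (XT.lf (nat_lit 152) (nat_lit 1768342876) (nat_lit 0) (nat_lit 1574961164) (nat_lit 76) (nat_lit 1574961164) (nat_lit 119) (nat_lit 1) (nat_lit 117)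 (nat_lit 1) (nat_lit 118) (nat_lit 1) (nat_lit 352) (nat_lit 394) (nat_lit 274)) (XT.nd (nat_lit 78) (nat_lit 152) (nat_lit 0) (XT.lf (nat_lit 0) (nat_lit 108799861) (nat_lit 0) (nat_lit 4651528830) (nat_lit 152) (nat_lit 108799861) (nat_lit 117) (nat_lit 3) (nat_lit 117) (nat_lit 1) (nat_lit 119) (nat_lit 1) (nat_lit 353) (nat_lit 394) (nat_lit 273)) (XT.lf (nat_lit 76) (nat_lit 1756076901) (nat_lit 0) (nat_lit 1307556440) (nat_lit 152) (nat_lit 1756076901) (nat_lit 116) (nat_lit 1) (nat_lit 115) (nat_lit 1) (nat_lit 117) (nat_lit 1) (nat_lit 354) (nat_lit 394) (nat_lit 272))))))))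
noncomputable def ec273 : XT := (XT.nd (nat_lit 1482) (nat_lit 1368) (nat_lit 0) (XT.nd (nat_lit 702) (nat_lit 760) (nat_lit 0) (XT.nd (nat_lit 312) (nat_lit 380) (nat_lit 0) (XT.nd (nat_lit 156) (nat_lit 228) (nat_lit 0) (XT.nd (nat_lit 78) (nat_lit 0) (nat_lit 0) (XT.lf (nat_lit 152) (nat_lit 1972570273) (nat_lit 0) (nat_lit 1399332595) (nat_lit 76) (nat_lit 1399332595) (nat_lit 116) (nat_lit 1) (nat_lit 114) (nat_lit 1) (nat_lit 115) (nat_lit 1) (nat_lit 355) (nat_lit 394) (nat_lit 271)) (XT.lf (nat_lit 0) (nat_lit 229149291) (nat_lit 0) (nat_lit 4265305142) (nat_lit 152) (nat_lit 229149291) (nat_lit 114) (nat_lit 3) (nat_lit 114) (nat_lit 1) (nat_lit 116) (nat_lit 1) (nat_lit 356) (nat_lit 394) (nat_lit 270))) (XT.nd (nat_lit 78) (nat_lit 76) (nat_lit 0) (XT.lf (nat_lit 76) (nat_lit 1821356929) (nat_lit 0) (nat_lit 1033123637) (nat_lit 152) (nat_lit 1821356929) (nat_lit 113) (nat_lit 1) (nat_lit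 112) (nat_lit 1) (nat_lit 114) (nat_lit 1) (nat_lit 357) (nat_lit 394) (nat_lit 269)) (XT.lf (nat_lit 152) (nat_lit 2142331809) (nat_lit 0) (nat_lit 1243288886) (nat_lit 76) (nat_lit 1243288886) (nat_lit 113) (nat_lit 1) (nat_lit 111) (nat_lit 1) (nat_lit 112) (nat_lit 1) (nat_lit 358) (nat_lit 394) (nat_lit 268)))) (XT.nd (nat_lit 156) (nat_lit 228) (nat_lit 0) (XT.nd (nat_lit 78) (nat_lit 152) (nat_lit 0) (XT.lf (nat_lit 0) (nat_lit 332219501) (nat_lit 0) (nat_lit 3918291698) (nat_lit 152) (nat_lit 332219501) (nat_lit 111) (nat_lit 3) (nat_lit 111) (nat_lit 1) (nat_lit 113) (nat_lit 1) (nat_lit 359) (nat_lit 394) (nat_lit 267)) (XT.lf (nat_lit 76) (nat_lit 1871752378) (nat_lit 0) (nat_lit 793039957) (nat_lit 152) (nat_lit 1871752378) (nat_lit 110) (nat_lit 1) (nat_lit 109) (nat_lit 1) (nat_lit 111) (nat_lit 1) (nat_lit 360) (nat_lit 394) (nat_lit 266))) (XT.nd (nat_lit 78) (nat_lit 152) (nat_lit 0)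 (XT.lf (nat_lit 152) (nat_lit 2281811415) (nat_lit 0) (nat_lit 1104646072) (nat_lit 76) (nat_lit 1104646072) (nat_lit 110) (nat_lit 1) (nat_lit 108) (nat_lit 1) (nat_lit 109) (nat_lit 1) (nat_lit 361) (nat_lit 394) (nat_lit 265)) (XT.nd (nat_lit 78) (nat_lit 152) (nat_lit 0) (XT.lf (nat_lit 0) (nat_lit 420049737) (nat_lit 0) (nat_lit 3606228437) (nat_lit 152) (nat_lit 420049737) (nat_lit 108) (nat_lit 3) (nat_lit 108) (nat_lit 1) (nat_lit 110) (nat_lit 1) (nat_lit 362) (nat_lit 394) (nat_lit 264)) (XT.lf (nat_lit 76) (nat_lit 1909144577) (nat_lit 0) (nat_lit 583365912) (nat_lit 152) (nat_lit 1909144577) (nat_lit 107) (nat_lit 1) (nat_lit 106) (nat_lit 1) (nat_lit 108) (nat_lit 1) (nat_lit 363) (nat_lit 394) (nat_lit 263)))))) (XT.nd (nat_lit 390) (nat_lit 456) (nat_lit 0) (XT.nd (nat_lit 156) (nat_lit 228) (nat_lit 0) (XT.nd (nat_lit 78) (nat_lit 0) (nat_lit 0) (XT.lf (nat_lit 152) (nat_lit 2394716538)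 (nat_lit 0) (nat_lit 981463728) (nat_lit 76) (nat_lit 981463728) (nat_lit 107) (nat_lit 1) (nat_lit 105) (nat_lit 1) (nat_lit 106) (nat_lit 1) (nat_lit 364) (nat_lit 394) (nat_lit 262)) (XT.lf (nat_lit 0) (nat_lit 494448569) (nat_lit 0) (nat_lit 3325327077) (nat_lit 152) (nat_lit 494448569) (nat_lit 105) (nat_lit 3) (nat_lit 105) (nat_lit 1) (nat_lit 107) (nat_lit 1) (nat_lit 365) (nat_lit 394) (nat_lit 261))) (XT.nd (nat_lit 78) (nat_lit 76) (nat_lit 0) (XT.lf (nat_lit 76) (nat_lit 1935198609) (nat_lit 0) (nat_lit 400604495) (nat_lit 152) (nat_lit 1935198609) (nat_lit 104) (nat_lit 1) (nat_lit 103) (nat_lit 1) (nat_lit 105) (nat_lit 1) (nat_lit 366) (nat_lit 394) (nat_lit 260)) (XT.nd (nat_lit 78) (nat_lit 0) (nat_lit 0) (XT.lf (nat_lit 152) (nat_lit 2484331570) (nat_lit 0) (nat_lit 872017810) (nat_lit 76) (nat_lit 872017810) (nat_lit 104) (nat_lit 1) (nat_lit 102) (nat_lit 1) (nat_lit 103) (nat_lit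 1) (nat_lit 367) (nat_lit 394) (nat_lit 259)) (XT.lf (nat_lit 0) (nat_lit 557019711) (nat_lit 0) (nat_lit 3072218599) (nat_lit 152) (nat_lit 557019711) (nat_lit 102) (nat_lit 3) (nat_lit 102) (nat_lit 1) (nat_lit 104) (nat_lit 1) (nat_lit 368) (nat_lit 394) (nat_lit 258))))) (XT.nd (nat_lit 156) (nat_lit 228) (nat_lit 0) (XT.nd (nat_lit 78) (nat_lit 76) (nat_lit 0) (XT.lf (nat_lit 76) (nat_lit 1951387619) (nat_lit 0) (nat_lit 241651748) (nat_lit 152) (nat_lit 1951387619) (nat_lit 101) (nat_lit 1) (nat_lit 100) (nat_lit 1) (nat_lit 102) (nat_lit 1) (nat_lit 369) (nat_lit 394) (nat_lit 257)) (XT.lf (nat_lit 152) (nat_lit 2553565299) (nat_lit 0) (nat_lit 774776530) (nat_lit 76) (nat_lit 774776530) (nat_lit 101) (nat_lit 1) (nat_lit 99) (nat_lit 1) (nat_lit 100) (nat_lit 1) (nat_lit 370) (nat_lit 394) (nat_lit 256))) (XT.nd (nat_lit 78) (nat_lit 228) (nat_lit 0) (XT.lf (nat_lit 0) (nat_lit 609184956) (nat_lit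 0) (nat_lit 2843906591) (nat_lit 152) (nat_lit 609184956) (nat_lit 99) (nat_lit 3) (nat_lit 99) (nat_lit 1) (nat_lit 101) (nat_lit 1) (nat_lit 371) (nat_lit 394) (nat_lit 255)) (XT.nd (nat_lit 78) (nat_lit 76) (nat_lit 0) (XT.lf (nat_lit 76) (nat_lit 1959014391) (nat_lit 0) (nat_lit 103752839) (nat_lit 152) (nat_lit 1959014391) (nat_lit 98) (nat_lit 1) (nat_lit 97) (nat_lit 1) (nat_lit 99) (nat_lit 1) (nat_lit 372) (nat_lit 394) (nat_lit 254)) (XT.lf (nat_lit 152) (nat_lit 2604993069) (nat_lit 0) (nat_lit 688378912) (nat_lit 76) (nat_lit 688378912) (nat_lit 98) (nat_lit 1) (nat_lit 96) (nat_lit 1) (nat_lit 97) (nat_lit 1) (nat_lit 373) (nat_lit 394) (nat_lit 253))))))) (XT.nd (nat_lit 702) (nat_lit 684) (nat_lit 0) (XT.nd (nat_lit 312) (nat_lit 456) (nat_lit 0) (XT.nd (nat_lit 156) (nat_lit 152) (nat_lit 0) (XT.nd (nat_lit 78) (nat_lit 76) (nat_lit 0) (XT.lf (nat_lit 0) (nat_lit 652204552) (nat_lit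 0) (nat_lit 2637725780) (nat_lit 152) (nat_lit 652204552) (nat_lit 96) (nat_lit 3) (nat_lit 96) (nat_lit 1) (nat_lit 98) (nat_lit 1) (nat_lit 374) (nat_lit 394) (nat_lit 252)) (XT.lf (nat_lit 76) (nat_lit 15846170) (nat_lit 0) (nat_lit 1943536683) (nat_lit 76) (nat_lit 1943536683) (nat_lit 96) (nat_lit 3) (nat_lit 95) (nat_lit 1) (nat_lit 96) (nat_lit 1) (nat_lit 375) (nat_lit 394) (nat_lit 251))) (XT.nd (nat_lit 78) (nat_lit 0) (nat_lit 0) (XT.lf (nat_lit 152) (nat_lit 2640894228) (nat_lit 0) (nat_lit 611615747) (nat_lit 76) (nat_lit 611615747) (nat_lit 95) (nat_lit 1) (nat_lit 93) (nat_lit 1) (nat_lit 94) (nat_lit 1) (nat_lit 376) (nat_lit 394) (nat_lit 250)) (XT.lf (nat_lit 0) (nat_lit 687195306) (nat_lit 0) (nat_lit 2451305200) (nat_lit 152) (nat_lit 687195306) (nat_lit 93) (nat_lit 3) (nat_lit 93) (nat_lit 1) (nat_lit 95) (nat_lit 1) (nat_lit 377) (nat_lit 394) (nat_lit 249)))) (XT.nd (nat_lit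 156) (nat_lit 228) (nat_lit 0) (XT.nd (nat_lit 78) (nat_lit 152) (nat_lit 0) (XT.lf (nat_lit 76) (nat_lit 120743047) (nat_lit 0) (nat_lit 1833471100) (nat_lit 76) (nat_lit 1833471100) (nat_lit 93) (nat_lit 3) (nat_lit 92) (nat_lit 1) (nat_lit 93) (nat_lit 1) (nat_lit 378) (nat_lit 394) (nat_lit 248)) (XT.lf (nat_lit 152) (nat_lit 2663285390) (nat_lit 0) (nat_lit 543412669) (nat_lit 76) (nat_lit 543412669) (nat_lit 92) (nat_lit 1) (nat_lit 90) (nat_lit 1) (nat_lit 91) (nat_lit 1) (nat_lit 379) (nat_lit 394) (nat_lit 247))) (XT.nd (nat_lit 78) (nat_lit 228) (nat_lit 0) (XT.lf (nat_lit 0) (nat_lit 715146661) (nat_lit 0) (nat_lit 2282535454) (nat_lit 152) (nat_lit 715146661) (nat_lit 90) (nat_lit 3) (nat_lit 90) (nat_lit 1) (nat_lit 92) (nat_lit 1) (nat_lit 380) (nat_lit 394) (nat_lit 246)) (XT.nd (nat_lit 78) (nat_lit 152) (nat_lit 0) (XT.lf (nat_lit 76) (nat_lit 210835847) (nat_lit 0) (nat_lit 1732572539)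 (nat_lit 76) (nat_lit 1732572539) (nat_lit 90) (nat_lit 3) (nat_lit 89) (nat_lit 1) (nat_lit 90) (nat_lit 1) (nat_lit 381) (nat_lit 394) (nat_lit 245)) (XT.lf (nat_lit 152) (nat_lit 2673949986) (nat_lit 0) (nat_lit 482815118) (nat_lit 76) (nat_lit 482815118) (nat_lit 89) (nat_lit 1) (nat_lit 87) (nat_lit 1) (nat_lit 88) (nat_lit 1) (nat_lit 382) (nat_lit 394) (nat_lit 244)))))) (XT.nd (nat_lit 390) (nat_lit 380) (nat_lit 0) (XT.nd (nat_lit 156) (nat_lit 228) (nat_lit 0) (XT.nd (nat_lit 78) (nat_lit 76) (nat_lit 0) (XT.lf (nat_lit 0) (nat_lit 736934985) (nat_lit 0) (nat_lit 2129539626) (nat_lit 152) (nat_lit 736934985) (nat_lit 87) (nat_lit 3) (nat_lit 87) (nat_lit 1) (nat_lit 89) (nat_lit 1) (nat_lit 383) (nat_lit 394) (nat_lit 243)) (XT.lf (nat_lit 76) (nat_lit 287865903) (nat_lit 0) (nat_lit 1639909244) (nat_lit 76) (nat_lit 1639909244) (nat_lit 87) (nat_lit 3) (nat_lit 86) (nat_lit 1) (nat_lit 87)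 (nat_lit 1) (nat_lit 384) (nat_lit 394) (nat_lit 242))) (XT.nd (nat_lit 78) (nat_lit 76) (nat_lit 0) (XT.lf (nat_lit 152) (nat_lit 2674464503) (nat_lit 0) (nat_lit 428974979) (nat_lit 76) (nat_lit 428974979) (nat_lit 86) (nat_lit 1) (nat_lit 84) (nat_lit 1) (nat_lit 85) (nat_lit 1) (nat_lit 385) (nat_lit 394) (nat_lit 241)) (XT.nd (nat_lit 78) (nat_lit 76) (nat_lit 0) (XT.lf (nat_lit 0) (nat_lit 753336257) (nat_lit 0) (nat_lit 1990647443) (nat_lit 152) (nat_lit 753336257) (nat_lit 84) (nat_lit 3) (nat_lit 84) (nat_lit 1) (nat_lit 86) (nat_lit 1) (nat_lit 386) (nat_lit 394) (nat_lit 240)) (XT.lf (nat_lit 76) (nat_lit 353377732) (nat_lit 0) (nat_lit 1554650729) (nat_lit 76) (nat_lit 1554650729) (nat_lit 84) (nat_lit 3) (nat_lit 83) (nat_lit 1) (nat_lit 84) (nat_lit 1) (nat_lit 387) (nat_lit 394) (nat_lit 239))))) (XT.nd (nat_lit 156) (nat_lit 228) (nat_lit 0) (XT.nd (nat_lit 78) (nat_lit 0) (nat_lit 0)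 (XT.lf (nat_lit 152) (nat_lit 2666221804) (nat_lit 0) (nat_lit 381138713) (nat_lit 76) (nat_lit 381138713) (nat_lit 83) (nat_lit 1) (nat_lit 81) (nat_lit 1) (nat_lit 82) (nat_lit 1) (nat_lit 388) (nat_lit 394) (nat_lit 238)) (XT.lf (nat_lit 0) (nat_lit 765037339) (nat_lit 0) (nat_lit 1864372303) (nat_lit 152) (nat_lit 765037339) (nat_lit 81) (nat_lit 3) (nat_lit 81) (nat_lit 1) (nat_lit 83) (nat_lit 1) (nat_lit 389) (nat_lit 394) (nat_lit 237))) (XT.nd (nat_lit 78) (nat_lit 152) (nat_lit 0) (XT.lf (nat_lit 76) (nat_lit 408741059) (nat_lit 0) (nat_lit 1476056557) (nat_lit 76) (nat_lit 1476056557) (nat_lit 81) (nat_lit 3) (nat_lit 80) (nat_lit 1) (nat_lit 81) (nat_lit 1) (nat_lit 390) (nat_lit 394) (nat_lit 236)) (XT.nd (nat_lit 78) (nat_lit 0) (nat_lit 0) (XT.lf (nat_lit 152) (nat_lit 2650451823) (nat_lit 0) (nat_lit 338636810) (nat_lit 76) (nat_lit 338636810) (nat_lit 80) (nat_lit 1) (nat_lit 78) (nat_lit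 1) (nat_lit 79) (nat_lit 1) (nat_lit 391) (nat_lit 394) (nat_lit 235)) (XT.lf (nat_lit 0) (nat_lit 772645993) (nat_lit 0) (nat_lit 1749390869) (nat_lit 152) (nat_lit 772645993) (nat_lit 78) (nat_lit 3) (nat_lit 78) (nat_lit 1) (nat_lit 80) (nat_lit 1) (nat_lit 392) (nat_lit 394) (nat_lit 234))))))))
noncomputable def ec274 : XT := (XT.nd (nat_lit 1482) (nat_lit 1292) (nat_lit 0) (XT.nd (nat_lit 702) (nat_lit 760) (nat_lit 0) (XT.nd (nat_lit 312) (nat_lit 380) (nat_lit 0) (XT.nd (nat_lit 156) (nat_lit 76) (nat_lit 0) (XT.nd (nat_lit 78) (nat_lit 152) (nat_lit 0) (XT.lf (nat_lit 76) (nat_lit 455170380) (nat_lit 0) (nat_lit 1403466376) (nat_lit 76) (nat_lit 1403466376) (nat_lit 78) (nat_lit 3) (nat_lit 77) (nat_lit 1) (nat_lit 78) (nat_lit 1) (nat_lit 393) (nat_lit 394) (nat_lit 233)) (XT.lf (nat_lit 152) (nat_lit 2628239964) (nat_lit 0) (nat_lit 300874419) (nat_lit 76) (nat_lit 300874419) (nat_lit 77)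 (nat_lit 1) (nat_lit 75) (nat_lit 1) (nat_lit 76) (nat_lit 1) (nat_lit 394) (nat_lit 394) (nat_lit 232))) (XT.nd (nat_lit 78) (nat_lit 76) (nat_lit 0) (XT.lf (nat_lit 0) (nat_lit 776699769) (nat_lit 0) (nat_lit 1644524940) (nat_lit 152) (nat_lit 776699769) (nat_lit 75) (nat_lit 3) (nat_lit 75) (nat_lit 1) (nat_lit 77) (nat_lit 1) (nat_lit 395) (nat_lit 394) (nat_lit 231)) (XT.lf (nat_lit 76) (nat_lit 493742349) (nat_lit 0) (nat_lit 1336291060) (nat_lit 76) (nat_lit 1336291060) (nat_lit 75) (nat_lit 3) (nat_lit 74) (nat_lit 1) (nat_lit 75) (nat_lit 1) (nat_lit 396) (nat_lit 394) (nat_lit 230)))) (XT.nd (nat_lit 156) (nat_lit 228) (nat_lit 0) (XT.nd (nat_lit 78) (nat_lit 0) (nat_lit 0) (XT.lf (nat_lit 152) (nat_lit 2600543428) (nat_lit 0) (nat_lit 267323025) (nat_lit 76) (nat_lit 267323025) (nat_lit 74) (nat_lit 1) (nat_lit 72) (nat_lit 1) (nat_lit 73) (nat_lit 1) (nat_lit 397) (nat_lit 394) (nat_lit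 229)) (XT.lf (nat_lit 0) (nat_lit 777673909) (nat_lit 0) (nat_lit 1548725334) (nat_lit 152) (nat_lit 777673909) (nat_lit 72) (nat_lit 3) (nat_lit 72) (nat_lit 1) (nat_lit 74) (nat_lit 1) (nat_lit 398) (nat_lit 394) (nat_lit 228))) (XT.nd (nat_lit 78) (nat_lit 152) (nat_lit 0) (XT.lf (nat_lit 76) (nat_lit 525411218) (nat_lit 0) (nat_lit 1274004835) (nat_lit 76) (nat_lit 1274004835) (nat_lit 72) (nat_lit 3) (nat_lit 71) (nat_lit 1) (nat_lit 72) (nat_lit 1) (nat_lit 399) (nat_lit 394) (nat_lit 227)) (XT.nd (nat_lit 78) (nat_lit 0) (nat_lit 0) (XT.lf (nat_lit 152) (nat_lit 2568205717) (nat_lit 0) (nat_lit 237513045) (nat_lit 76) (nat_lit 237513045) (nat_lit 71) (nat_lit 1) (nat_lit 69) (nat_lit 1) (nat_lit 70) (nat_lit 1) (nat_lit 400) (nat_lit 394) (nat_lit 226)) (XT.lf (nat_lit 0) (nat_lit 775988365) (nat_lit 0) (nat_lit 1461057570) (nat_lit 152) (nat_lit 775988365) (nat_lit 69) (nat_lit 3) (nat_lit 69)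 (nat_lit 1) (nat_lit 71) (nat_lit 1) (nat_lit 401) (nat_lit 394) (nat_lit 225)))))) (XT.nd (nat_lit 390) (nat_lit 304) (nat_lit 0) (XT.nd (nat_lit 156) (nat_lit 228) (nat_lit 0) (XT.nd (nat_lit 78) (nat_lit 152) (nat_lit 0) (XT.lf (nat_lit 76) (nat_lit 551022554) (nat_lit 0) (nat_lit 1216138286) (nat_lit 76) (nat_lit 1216138286) (nat_lit 69) (nat_lit 3) (nat_lit 68) (nat_lit 1) (nat_lit 69) (nat_lit 1) (nat_lit 402) (nat_lit 394) (nat_lit 224)) (XT.lf (nat_lit 152) (nat_lit 2531969519) (nat_lit 0) (nat_lit 211027264) (nat_lit 76) (nat_lit 211027264) (nat_lit 68) (nat_lit 1) (nat_lit 66) (nat_lit 1) (nat_lit 67) (nat_lit 1) (nat_lit 403) (nat_lit 394) (nat_lit 223))) (XT.nd (nat_lit 78) (nat_lit 228) (nat_lit 0) (XT.lf (nat_lit 0) (nat_lit 772014029) (nat_lit 0) (nat_lit 1380689144) (nat_lit 152) (nat_lit 772014029) (nat_lit 66) (nat_lit 3) (nat_lit 66) (nat_lit 1) (nat_lit 68) (nat_lit 1) (nat_lit 404)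 (nat_lit 394) (nat_lit 222)) (XT.nd (nat_lit 78) (nat_lit 152) (nat_lit 0) (XT.lf (nat_lit 76) (nat_lit 571325423) (nat_lit 0) (nat_lit 1162272136) (nat_lit 76) (nat_lit 1162272136) (nat_lit 66) (nat_lit 3) (nat_lit 65) (nat_lit 1) (nat_lit 66) (nat_lit 1) (nat_lit 405) (nat_lit 394) (nat_lit 221)) (XT.lf (nat_lit 152) (nat_lit 2492488146) (nat_lit 0) (nat_lit 187494991) (nat_lit 76) (nat_lit 187494991) (nat_lit 65) (nat_lit 1) (nat_lit 63) (nat_lit 1) (nat_lit 64) (nat_lit 1) (nat_lit 406) (nat_lit 394) (nat_lit 220))))) (XT.nd (nat_lit 156) (nat_lit 228) (nat_lit 0) (XT.nd (nat_lit 78) (nat_lit 76) (nat_lit 0) (XT.lf (nat_lit 0) (nat_lit 766078268) (nat_lit 0) (nat_lit 1306878224) (nat_lit 152) (nat_lit 766078268) (nat_lit 63) (nat_lit 3) (nat_lit 63) (nat_lit 1) (nat_lit 65) (nat_lit 1) (nat_lit 407) (nat_lit 394) (nat_lit 219)) (XT.lf (nat_lit 76) (nat_lit 586983219) (nat_lit 0) (nat_lit 1112031721)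 (nat_lit 76) (nat_lit 1112031721) (nat_lit 63) (nat_lit 3) (nat_lit 62) (nat_lit 1) (nat_lit 63) (nat_lit 1) (nat_lit 408) (nat_lit 394) (nat_lit 218))) (XT.nd (nat_lit 78) (nat_lit 76) (nat_lit 0) (XT.lf (nat_lit 152) (nat_lit 2450335690) (nat_lit 0) (nat_lit 166586871) (nat_lit 76) (nat_lit 166586871) (nat_lit 62) (nat_lit 1) (nat_lit 60) (nat_lit 1) (nat_lit 61) (nat_lit 1) (nat_lit 409) (nat_lit 394) (nat_lit 217)) (XT.nd (nat_lit 78) (nat_lit 76) (nat_lit 0) (XT.lf (nat_lit 0) (nat_lit 758469845) (nat_lit 0) (nat_lit 1238963602) (nat_lit 152) (nat_lit 758469845) (nat_lit 60) (nat_lit 3) (nat_lit 60) (nat_lit 1) (nat_lit 62) (nat_lit 1) (nat_lit 410) (nat_lit 394) (nat_lit 216)) (XT.lf (nat_lit 76) (nat_lit 598583280) (nat_lit 0) (nat_lit 1065082073) (nat_lit 76) (nat_lit 1065082073) (nat_lit 60) (nat_lit 3) (nat_lit 59) (nat_lit 1) (nat_lit 60) (nat_lit 1) (nat_lit 411) (nat_lit 394) (nat_lit 215)))))))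 (XT.nd (nat_lit 702) (nat_lit 608) (nat_lit 0) (XT.nd (nat_lit 312) (nat_lit 304) (nat_lit 0) (XT.nd (nat_lit 156) (nat_lit 228) (nat_lit 0) (XT.nd (nat_lit 78) (nat_lit 0) (nat_lit 0) (XT.lf (nat_lit 152) (nat_lit 2406016043) (nat_lit 0) (nat_lit 148010277) (nat_lit 76) (nat_lit 148010277) (nat_lit 59) (nat_lit 1) (nat_lit 57) (nat_lit 1) (nat_lit 58) (nat_lit 1) (nat_lit 412) (nat_lit 394) (nat_lit 214)) (XT.lf (nat_lit 0) (nat_lit 749443280) (nat_lit 0) (nat_lit 1176355760) (nat_lit 152) (nat_lit 749443280) (nat_lit 57) (nat_lit 3) (nat_lit 57) (nat_lit 1) (nat_lit 59) (nat_lit 1) (nat_lit 413) (nat_lit 394) (nat_lit 213))) (XT.nd (nat_lit 78) (nat_lit 152) (nat_lit 0) (XT.lf (nat_lit 76) (nat_lit 606645426) (nat_lit 0) (nat_lit 1021123561) (nat_lit 76) (nat_lit 1021123561) (nat_lit 57) (nat_lit 3) (nat_lit 56) (nat_lit 1) (nat_lit 57) (nat_lit 1) (nat_lit 414) (nat_lit 394) (nat_lit 212)) (XT.lf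 (nat_lit 152) (nat_lit 2359970907) (nat_lit 0) (nat_lit 131505214) (nat_lit 76) (nat_lit 131505214) (nat_lit 56) (nat_lit 1) (nat_lit 54) (nat_lit 1) (nat_lit 55) (nat_lit 1) (nat_lit 415) (nat_lit 394) (nat_lit 211)))) (XT.nd (nat_lit 156) (nat_lit 228) (nat_lit 0) (XT.nd (nat_lit 78) (nat_lit 76) (nat_lit 0) (XT.lf (nat_lit 0) (nat_lit 739222732) (nat_lit 0) (nat_lit 1118528940) (nat_lit 152) (nat_lit 739222732) (nat_lit 54) (nat_lit 3) (nat_lit 54) (nat_lit 1) (nat_lit 56) (nat_lit 1) (nat_lit 416) (nat_lit 394) (nat_lit 210)) (XT.lf (nat_lit 76) (nat_lit 611629550) (nat_lit 0) (nat_lit 979888005) (nat_lit 76) (nat_lit 979888005) (nat_lit 54) (nat_lit 3) (nat_lit 53) (nat_lit 1) (nat_lit 54) (nat_lit 1) (nat_lit 417) (nat_lit 394) (nat_lit 209))) (XT.nd (nat_lit 78) (nat_lit 76) (nat_lit 0) (XT.lf (nat_lit 152) (nat_lit 2312586900) (nat_lit 0) (nat_lit 116840679) (nat_lit 76) (nat_lit 116840679)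 (nat_lit 53) (nat_lit 1) (nat_lit 51) (nat_lit 1) (nat_lit 52) (nat_lit 1) (nat_lit 418) (nat_lit 394) (nat_lit 208)) (XT.nd (nat_lit 78) (nat_lit 76) (nat_lit 0) (XT.lf (nat_lit 0) (nat_lit 728005438) (nat_lit 0) (nat_lit 1065014092) (nat_lit 152) (nat_lit 728005438) (nat_lit 51) (nat_lit 3) (nat_lit 51) (nat_lit 1) (nat_lit 53) (nat_lit 1) (nat_lit 419) (nat_lit 394) (nat_lit 207)) (XT.lf (nat_lit 76) (nat_lit 613942357) (nat_lit 0) (nat_lit 941135224) (nat_lit 76) (nat_lit 941135224) (nat_lit 51) (nat_lit 3) (nat_lit 50) (nat_lit 1) (nat_lit 51) (nat_lit 1) (nat_lit 420) (nat_lit 394) (nat_lit 206)))))) (XT.nd (nat_lit 390) (nat_lit 228) (nat_lit 0) (XT.nd (nat_lit 156) (nat_lit 228) (nat_lit 0) (XT.nd (nat_lit 78) (nat_lit 0) (nat_lit 0) (XT.lf (nat_lit 152) (nat_lit 2264201872) (nat_lit 0) (nat_lit 103811430) (nat_lit 76) (nat_lit 103811430) (nat_lit 50) (nat_lit 1) (nat_lit 48) (nat_lit 1) (nat_lit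 49) (nat_lit 1) (nat_lit 421) (nat_lit 394) (nat_lit 205)) (XT.lf (nat_lit 0) (nat_lit 715964777) (nat_lit 0) (nat_lit 1015392601) (nat_lit 152) (nat_lit 715964777) (nat_lit 48) (nat_lit 3) (nat_lit 48) (nat_lit 1) (nat_lit 50) (nat_lit 1) (nat_lit 422) (nat_lit 394) (nat_lit 204))) (XT.nd (nat_lit 78) (nat_lit 152) (nat_lit 0) (XT.lf (nat_lit 76) (nat_lit 613943350) (nat_lit 0) (nat_lit 904649975) (nat_lit 76) (nat_lit 904649975) (nat_lit 48) (nat_lit 3) (nat_lit 47) (nat_lit 1) (nat_lit 48) (nat_lit 1) (nat_lit 423) (nat_lit 394) (nat_lit 203)) (XT.nd (nat_lit 78) (nat_lit 0) (nat_lit 0) (XT.lf (nat_lit 152) (nat_lit 2215110508) (nat_lit 0) (nat_lit 92235111) (nat_lit 76) (nat_lit 92235111) (nat_lit 47) (nat_lit 1) (nat_lit 45) (nat_lit 1) (nat_lit 46) (nat_lit 1) (nat_lit 424) (nat_lit 394) (nat_lit 202)) (XT.lf (nat_lit 0) (nat_lit 703252979) (nat_lit 0) (nat_lit 969290722) (nat_lit 152) (nat_lit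 703252979) (nat_lit 45) (nat_lit 3) (nat_lit 45) (nat_lit 1) (nat_lit 47) (nat_lit 1) (nat_lit 425) (nat_lit 394) (nat_lit 201))))) (XT.nd (nat_lit 156) (nat_lit 0) (nat_lit 0) (XT.nd (nat_lit 78) (nat_lit 152) (nat_lit 0) (XT.lf (nat_lit 76) (nat_lit 611950149) (nat_lit 0) (nat_lit 870239220) (nat_lit 76) (nat_lit 870239220) (nat_lit 45) (nat_lit 3) (nat_lit 44) (nat_lit 1) (nat_lit 45) (nat_lit 1) (nat_lit 426) (nat_lit 394) (nat_lit 200)) (XT.lf (nat_lit 152) (nat_lit 2165569298) (nat_lit 0) (nat_lit 81949702) (nat_lit 76) (nat_lit 81949702) (nat_lit 44) (nat_lit 1) (nat_lit 42) (nat_lit 1) (nat_lit 43) (nat_lit 1) (nat_lit 427) (nat_lit 394) (nat_lit 199))) (XT.nd (nat_lit 37674) (nat_lit 0) (nat_lit 25232) (XT.lf (nat_lit 0) (nat_lit 690003540) (nat_lit 0) (nat_lit 926374629) (nat_lit 152) (nat_lit 690003540) (nat_lit 42) (nat_lit 3) (nat_lit 42) (nat_lit 1) (nat_lit 44) (nat_lit 1) (nat_lit 428)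 (nat_lit 394) (nat_lit 198)) (XT.nd (nat_lit 78) (nat_lit 0) (nat_lit 0) (XT.lf (nat_lit 1292) (nat_lit 1895448705) (nat_lit 0) (nat_lit 6521225062) (nat_lit 1292) (nat_lit 1895448705) (nat_lit 391) (nat_lit 1) (nat_lit 374) (nat_lit 0) (nat_lit 391) (nat_lit 0) (nat_lit 230) (nat_lit 395) (nat_lit 395)) (XT.lf (nat_lit 1292) (nat_lit 7407446756) (nat_lit 76) (nat_lit 6457291483) (nat_lit 0) (nat_lit 6457291483) (nat_lit 391) (nat_lit 1) (nat_lit 375) (nat_lit 1) (nat_lit 374) (nat_lit 0) (nat_lit 231) (nat_lit 395) (nat_lit 394))))))))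
noncomputable def ec275 : XT := (XT.nd (nat_lit 1482) (nat_lit 5776) (nat_lit 0) (XT.nd (nat_lit 702) (nat_lit 2204) (nat_lit 0) (XT.nd (nat_lit 312) (nat_lit 0) (nat_lit 152) (XT.nd (nat_lit 156) (nat_lit 0) (nat_lit 76) (XT.nd (nat_lit 78) (nat_lit 0) (nat_lit 0) (XT.lf (nat_lit 1292) (nat_lit 3582417865) (nat_lit 0) (nat_lit 12861645004) (nat_lit 1216) (nat_lit 3582417865) (nat_lit 392) (nat_lit 1) (nat_lit 375) (nat_lit 1) (nat_lit 391) (nat_lit 1) (nat_lit 232) (nat_lit 395) (nat_lit 393)) (XT.lf (nat_lit 1292) (nat_lit 6803196488) (nat_lit 76) (nat_lit 6466335413) (nat_lit 0) (nat_lit 6466335413) (nat_lit 392) (nat_lit 1) (nat_lit 376) (nat_lit 1) (nat_lit 375) (nat_lit 1) (nat_lit 233) (nat_lit 395) (nat_lit 392))) (XT.nd (nat_lit 78) (nat_lit 0) (nat_lit 0) (XT.lf (nat_lit 1292) (nat_lit 3192366023) (nat_lit 0) (nat_lit 13067024421) (nat_lit 1216) (nat_lit 3192366023) (nat_lit 393) (nat_lit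 1) (nat_lit 376) (nat_lit 1) (nat_lit 392) (nat_lit 1) (nat_lit 234) (nat_lit 395) (nat_lit 391)) (XT.lf (nat_lit 1292) (nat_lit 5850347806) (nat_lit 76) (nat_lit 6660920792) (nat_lit 0) (nat_lit 6660920792) (nat_lit 393) (nat_lit 1) (nat_lit 377) (nat_lit 1) (nat_lit 376) (nat_lit 1) (nat_lit 235) (nat_lit 395) (nat_lit 390)))) (XT.nd (nat_lit 156) (nat_lit 0) (nat_lit 76) (XT.nd (nat_lit 78) (nat_lit 0) (nat_lit 0) (XT.lf (nat_lit 1292) (nat_lit 2636801959) (nat_lit 0) (nat_lit 13625474010) (nat_lit 1216) (nat_lit 2636801959) (nat_lit 394) (nat_lit 1) (nat_lit 377) (nat_lit 1) (nat_lit 393) (nat_lit 1) (nat_lit 236) (nat_lit 395) (nat_lit 389)) (XT.lf (nat_lit 1292) (nat_lit 4580075320) (nat_lit 76) (nat_lit 7024977541) (nat_lit 0) (nat_lit 7024977541) (nat_lit 394) (nat_lit 1) (nat_lit 378) (nat_lit 1) (nat_lit 377) (nat_lit 1) (nat_lit 237) (nat_lit 395) (nat_lit 388))) (XT.nd (nat_lit 78) (nat_lit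 0) (nat_lit 0) (XT.lf (nat_lit 1292) (nat_lit 1930699651) (nat_lit 0) (nat_lit 14506099114) (nat_lit 1216) (nat_lit 1930699651) (nat_lit 395) (nat_lit 1) (nat_lit 378) (nat_lit 1) (nat_lit 394) (nat_lit 1) (nat_lit 238) (nat_lit 395) (nat_lit 387)) (XT.nd (nat_lit 78) (nat_lit 0) (nat_lit 76) (XT.lf (nat_lit 1292) (nat_lit 3021438938) (nat_lit 76) (nat_lit 7543515911) (nat_lit 0) (nat_lit 7543515911) (nat_lit 395) (nat_lit 1) (nat_lit 379) (nat_lit 1) (nat_lit 378) (nat_lit 1) (nat_lit 239) (nat_lit 395) (nat_lit 386)) (XT.lf (nat_lit 1292) (nat_lit 1088014101) (nat_lit 0) (nat_lit 15680088080) (nat_lit 1216) (nat_lit 1088014101) (nat_lit 396) (nat_lit 1) (nat_lit 379) (nat_lit 1) (nat_lit 395) (nat_lit 1) (nat_lit 240) (nat_lit 395) (nat_lit 385)))))) (XT.nd (nat_lit 390) (nat_lit 1292) (nat_lit 0) (XT.nd (nat_lit 156) (nat_lit 1216) (nat_lit 0) (XT.nd (nat_lit 78) (nat_lit 0) (nat_lit 76) (XT.lf (nat_lit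 1292) (nat_lit 1201514726) (nat_lit 76) (nat_lit 8202559871) (nat_lit 0) (nat_lit 8202559871) (nat_lit 396) (nat_lit 1) (nat_lit 380) (nat_lit 1) (nat_lit 379) (nat_lit 1) (nat_lit 241) (nat_lit 395) (nat_lit 384)) (XT.lf (nat_lit 1292) (nat_lit 121744475) (nat_lit 0) (nat_lit 17120583671) (nat_lit 1216) (nat_lit 121744475) (nat_lit 397) (nat_lit 1) (nat_lit 380) (nat_lit 1) (nat_lit 396) (nat_lit 1) (nat_lit 242) (nat_lit 395) (nat_lit 383))) (XT.nd (nat_lit 78) (nat_lit 0) (nat_lit 0) (XT.lf (nat_lit 1368) (nat_lit 8142816236) (nat_lit 0) (nat_lit 837807996) (nat_lit 1292) (nat_lit 8142816236) (nat_lit 381) (nat_lit 1) (nat_lit 363) (nat_lit 1) (nat_lit 380) (nat_lit 1) (nat_lit 243) (nat_lit 395) (nat_lit 382)) (XT.nd (nat_lit 78) (nat_lit 0) (nat_lit 76) (XT.lf (nat_lit 1368) (nat_lit 14996172943) (nat_lit 76) (nat_lit 946633904) (nat_lit 0) (nat_lit 946633904) (nat_lit 381) (nat_lit 1) (nat_lit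 364) (nat_lit 1) (nat_lit 363) (nat_lit 1) (nat_lit 244) (nat_lit 395) (nat_lit 381)) (XT.lf (nat_lit 1368) (nat_lit 6797896763) (nat_lit 0) (nat_lit 3062138459) (nat_lit 1292) (nat_lit 6797896763) (nat_lit 382) (nat_lit 1) (nat_lit 364) (nat_lit 1) (nat_lit 381) (nat_lit 1) (nat_lit 245) (nat_lit 395) (nat_lit 380))))) (XT.nd (nat_lit 156) (nat_lit 1368) (nat_lit 0) (XT.nd (nat_lit 78) (nat_lit 0) (nat_lit 76) (XT.lf (nat_lit 1368) (nat_lit 12206180896) (nat_lit 76) (nat_lit 2113055451) (nat_lit 0) (nat_lit 2113055451) (nat_lit 382) (nat_lit 1) (nat_lit 365) (nat_lit 1) (nat_lit 364) (nat_lit 1) (nat_lit 246) (nat_lit 395) (nat_lit 379)) (XT.lf (nat_lit 76) (nat_lit 5368094571) (nat_lit 0) (nat_lit 5473514515) (nat_lit 1292) (nat_lit 5368094571) (nat_lit 366) (nat_lit 1) (nat_lit 365) (nat_lit 1) (nat_lit 382) (nat_lit 1) (nat_lit 247) (nat_lit 395) (nat_lit 378))) (XT.nd (nat_lit 78) (nat_lit 608)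 (nat_lit 0) (XT.lf (nat_lit 912) (nat_lit 9255350777) (nat_lit 0) (nat_lit 3368342460) (nat_lit 836) (nat_lit 3368342460) (nat_lit 366) (nat_lit 1) (nat_lit 354) (nat_lit 1) (nat_lit 365) (nat_lit 1) (nat_lit 248) (nat_lit 395) (nat_lit 377)) (XT.nd (nat_lit 78) (nat_lit 608) (nat_lit 0) (XT.lf (nat_lit 76) (nat_lit 3863003244) (nat_lit 0) (nat_lit 8052032050) (nat_lit 912) (nat_lit 3863003244) (nat_lit 355) (nat_lit 1) (nat_lit 354) (nat_lit 1) (nat_lit 366) (nat_lit 1) (nat_lit 249) (nat_lit 395) (nat_lit 376)) (XT.lf (nat_lit 684) (nat_lit 6162264718) (nat_lit 0) (nat_lit 4702855160) (nat_lit 608) (nat_lit 4702855160) (nat_lit 355) (nat_lit 1) (nat_lit 346) (nat_lit 1) (nat_lit 354) (nat_lit 1) (nat_lit 250) (nat_lit 395) (nat_lit 375))))))) (XT.nd (nat_lit 702) (nat_lit 2888) (nat_lit 0) (XT.nd (nat_lit 312) (nat_lit 1672) (nat_lit 0) (XT.nd (nat_lit 156) (nat_lit 608) (nat_lit 0) (XT.nd (nat_lit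 78) (nat_lit 608) (nat_lit 0) (XT.lf (nat_lit 76) (nat_lit 2291528151) (nat_lit 0) (nat_lit 10779196528) (nat_lit 684) (nat_lit 2291528151) (nat_lit 347) (nat_lit 1) (nat_lit 346) (nat_lit 1) (nat_lit 355) (nat_lit 1) (nat_lit 251) (nat_lit 395) (nat_lit 374)) (XT.lf (nat_lit 684) (nat_lit 2944165851) (nat_lit 0) (nat_lit 6107639334) (nat_lit 608) (nat_lit 6107639334) (nat_lit 347) (nat_lit 1) (nat_lit 338) (nat_lit 1) (nat_lit 346) (nat_lit 1) (nat_lit 252) (nat_lit 395) (nat_lit 373))) (XT.nd (nat_lit 78) (nat_lit 608) (nat_lit 0) (XT.lf (nat_lit 76) (nat_lit 661929958) (nat_lit 0) (nat_lit 13637834297) (nat_lit 684) (nat_lit 661929958) (nat_lit 339) (nat_lit 1) (nat_lit 338) (nat_lit 1) (nat_lit 347) (nat_lit 1) (nat_lit 253) (nat_lit 395) (nat_lit 372)) (XT.lf (nat_lit 76) (nat_lit 7195107429) (nat_lit 0) (nat_lit 375484031) (nat_lit 608) (nat_lit 7195107429) (nat_lit 331) (nat_lit 1) (nat_lit 330)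 (nat_lit 1) (nat_lit 338) (nat_lit 1) (nat_lit 254) (nat_lit 395) (nat_lit 371)))) (XT.nd (nat_lit 156) (nat_lit 1064) (nat_lit 0) (XT.nd (nat_lit 78) (nat_lit 0) (nat_lit 0) (XT.lf (nat_lit 684) (nat_lit 12558254368) (nat_lit 0) (nat_lit 1008152765) (nat_lit 608) (nat_lit 1008152765) (nat_lit 331) (nat_lit 1) (nat_lit 322) (nat_lit 1) (nat_lit 330) (nat_lit 1) (nat_lit 255) (nat_lit 395) (nat_lit 370)) (XT.lf (nat_lit 76) (nat_lit 5327656398) (nat_lit 0) (nat_lit 3730053736) (nat_lit 684) (nat_lit 5327656398) (nat_lit 323) (nat_lit 1) (nat_lit 322) (nat_lit 1) (nat_lit 331) (nat_lit 1) (nat_lit 256) (nat_lit 395) (nat_lit 369))) (XT.nd (nat_lit 78) (nat_lit 532) (nat_lit 0) (XT.lf (nat_lit 608) (nat_lit 8771227555) (nat_lit 0) (nat_lit 2714695489) (nat_lit 532) (nat_lit 2714695489) (nat_lit 323) (nat_lit 1) (nat_lit 315) (nat_lit 1) (nat_lit 322) (nat_lit 1) (nat_lit 257) (nat_lit 395) (nat_lit 368))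 (XT.nd (nat_lit 78) (nat_lit 532) (nat_lit 0) (XT.lf (nat_lit 76) (nat_lit 3427587372) (nat_lit 0) (nat_lit 7163547367) (nat_lit 608) (nat_lit 3427587372) (nat_lit 316) (nat_lit 1) (nat_lit 315) (nat_lit 1) (nat_lit 323) (nat_lit 1) (nat_lit 258) (nat_lit 395) (nat_lit 367)) (XT.lf (nat_lit 608) (nat_lit 4924698441) (nat_lit 0) (nat_lit 4457689822) (nat_lit 532) (nat_lit 4457689822) (nat_lit 316) (nat_lit 1) (nat_lit 308) (nat_lit 1) (nat_lit 315) (nat_lit 1) (nat_lit 259) (nat_lit 395) (nat_lit 366)))))) (XT.nd (nat_lit 390) (nat_lit 1368) (nat_lit 0) (XT.nd (nat_lit 156) (nat_lit 1064) (nat_lit 0) (XT.nd (nat_lit 78) (nat_lit 456) (nat_lit 0) (XT.lf (nat_lit 76) (nat_lit 1500845106) (nat_lit 0) (nat_lit 10663526894) (nat_lit 608) (nat_lit 1500845106) (nat_lit 309) (nat_lit 1) (nat_lit 308) (nat_lit 1) (nat_lit 316) (nat_lit 1) (nat_lit 260) (nat_lit 395) (nat_lit 365)) (XT.lf (nat_lit 532) (nat_lit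 1030147551) (nat_lit 0) (nat_lit 6231128316) (nat_lit 456) (nat_lit 6231128316) (nat_lit 309) (nat_lit 1) (nat_lit 302) (nat_lit 1) (nat_lit 308) (nat_lit 1) (nat_lit 261) (nat_lit 395) (nat_lit 364))) (XT.nd (nat_lit 78) (nat_lit 456) (nat_lit 0) (XT.lf (nat_lit 608) (nat_lit 12438404616) (nat_lit 0) (nat_lit 442702317) (nat_lit 532) (nat_lit 442702317) (nat_lit 302) (nat_lit 1) (nat_lit 294) (nat_lit 1) (nat_lit 301) (nat_lit 1) (nat_lit 262) (nat_lit 395) (nat_lit 363)) (XT.nd (nat_lit 78) (nat_lit 456) (nat_lit 0) (XT.lf (nat_lit 76) (nat_lit 5155518134) (nat_lit 0) (nat_lit 2845213197) (nat_lit 608) (nat_lit 5155518134) (nat_lit 295) (nat_lit 1) (nat_lit 294) (nat_lit 1) (nat_lit 302) (nat_lit 1) (nat_lit 263) (nat_lit 395) (nat_lit 362)) (XT.lf (nat_lit 532) (nat_lit 8217735857) (nat_lit 0) (nat_lit 2387510875) (nat_lit 456) (nat_lit 2387510875) (nat_lit 295) (nat_lit 1) (nat_lit 288) (nat_lit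 1) (nat_lit 294) (nat_lit 1) (nat_lit 264) (nat_lit 395) (nat_lit 361))))) (XT.nd (nat_lit 156) (nat_lit 912) (nat_lit 0) (XT.nd (nat_lit 78) (nat_lit 456) (nat_lit 0) (XT.lf (nat_lit 76) (nat_lit 3052020820) (nat_lit 0) (nat_lit 6727616190) (nat_lit 532) (nat_lit 3052020820) (nat_lit 289) (nat_lit 1) (nat_lit 288) (nat_lit 1) (nat_lit 295) (nat_lit 1) (nat_lit 265) (nat_lit 395) (nat_lit 360)) (XT.lf (nat_lit 532) (nat_lit 3985954311) (nat_lit 0) (nat_lit 4343687445) (nat_lit 456) (nat_lit 4343687445) (nat_lit 289) (nat_lit 1) (nat_lit 282) (nat_lit 1) (nat_lit 288) (nat_lit 1) (nat_lit 266) (nat_lit 395) (nat_lit 359))) (XT.nd (nat_lit 78) (nat_lit 912) (nat_lit 0) (XT.lf (nat_lit 76) (nat_lit 945046976) (nat_lit 0) (nat_lit 10628368673) (nat_lit 532) (nat_lit 945046976) (nat_lit 283) (nat_lit 1) (nat_lit 282) (nat_lit 1) (nat_lit 289) (nat_lit 1) (nat_lit 267) (nat_lit 395) (nat_lit 358)) (XT.nd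 (nat_lit 78) (nat_lit 456) (nat_lit 0) (XT.lf (nat_lit 76) (nat_lit 6060467866) (nat_lit 0) (nat_lit 244064265) (nat_lit 456) (nat_lit 6060467866) (nat_lit 277) (nat_lit 1) (nat_lit 276) (nat_lit 1) (nat_lit 282) (nat_lit 1) (nat_lit 268) (nat_lit 395) (nat_lit 357)) (XT.lf (nat_lit 532) (nat_lit 9914478732) (nat_lit 0) (nat_lit 1150197507) (nat_lit 456) (nat_lit 1150197507) (nat_lit 277) (nat_lit 1) (nat_lit 270) (nat_lit 1) (nat_lit 276) (nat_lit 1) (nat_lit 269) (nat_lit 395) (nat_lit 356))))))))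
noncomputable def ec276 : XT := (XT.nd (nat_lit 1404) (nat_lit 3192) (nat_lit 0) (XT.nd (nat_lit 702) (nat_lit 1748) (nat_lit 0) (XT.nd (nat_lit 312) (nat_lit 1140) (nat_lit 0) (XT.nd (nat_lit 156) (nat_lit 380) (nat_lit 0) (XT.nd (nat_lit 78) (nat_lit 380) (nat_lit 0) (XT.lf (nat_lit 76) (nat_lit 3837062156) (nat_lit 0) (nat_lit 4392136671) (nat_lit 532) (nat_lit 3837062156) (nat_lit 271) (nat_lit 1) (nat_lit 270) (nat_lit 1) (nat_lit 277) (nat_lit 1) (nat_lit 270) (nat_lit 395) (nat_lit 355)) (XT.lf (nat_lit 456) (nat_lit 5455962772) (nat_lit 0) (nat_lit 3232379898) (nat_lit 380) (nat_lit 3232379898) (nat_lit 271) (nat_lit 1) (nat_lit 265) (nat_lit 1) (nat_lit 270) (nat_lit 1) (nat_lit 271) (nat_lit 395) (nat_lit 354))) (XT.nd (nat_lit 78) (nat_lit 380) (nat_lit 0) (XT.lf (nat_lit 76) (nat_lit 1624194222) (nat_lit 0) (nat_lit 8529461311) (nat_lit 456) (nat_lit 1624194222) (nat_lit 266) (nat_lit 1)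 (nat_lit 265) (nat_lit 1) (nat_lit 271) (nat_lit 1) (nat_lit 272) (nat_lit 395) (nat_lit 353)) (XT.lf (nat_lit 456) (nat_lit 1021490228) (nat_lit 0) (nat_lit 5307606230) (nat_lit 380) (nat_lit 5307606230) (nat_lit 266) (nat_lit 1) (nat_lit 260) (nat_lit 1) (nat_lit 265) (nat_lit 1) (nat_lit 273) (nat_lit 395) (nat_lit 352)))) (XT.nd (nat_lit 156) (nat_lit 684) (nat_lit 0) (XT.nd (nat_lit 78) (nat_lit 0) (nat_lit 0) (XT.lf (nat_lit 456) (nat_lit 10359325470) (nat_lit 0) (nat_lit 569689826) (nat_lit 380) (nat_lit 569689826) (nat_lit 260) (nat_lit 1) (nat_lit 254) (nat_lit 1) (nat_lit 259) (nat_lit 1) (nat_lit 274) (nat_lit 395) (nat_lit 351)) (XT.lf (nat_lit 76) (nat_lit 4021957068) (nat_lit 0) (nat_lit 3317539367) (nat_lit 456) (nat_lit 4021957068) (nat_lit 255) (nat_lit 1) (nat_lit 254) (nat_lit 1) (nat_lit 260) (nat_lit 1) (nat_lit 275) (nat_lit 395) (nat_lit 350))) (XT.nd (nat_lit 78) (nat_lit 304)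 (nat_lit 0) (XT.lf (nat_lit 456) (nat_lit 5763417071) (nat_lit 0) (nat_lit 2731917552) (nat_lit 380) (nat_lit 2731917552) (nat_lit 255) (nat_lit 1) (nat_lit 249) (nat_lit 1) (nat_lit 254) (nat_lit 1) (nat_lit 276) (nat_lit 395) (nat_lit 349)) (XT.nd (nat_lit 78) (nat_lit 304) (nat_lit 0) (XT.lf (nat_lit 76) (nat_lit 1746139357) (nat_lit 0) (nat_lit 7603018866) (nat_lit 456) (nat_lit 1746139357) (nat_lit 250) (nat_lit 1) (nat_lit 249) (nat_lit 1) (nat_lit 255) (nat_lit 1) (nat_lit 277) (nat_lit 395) (nat_lit 348)) (XT.lf (nat_lit 380) (nat_lit 1212750620) (nat_lit 0) (nat_lit 4876132327) (nat_lit 304) (nat_lit 4876132327) (nat_lit 250) (nat_lit 1) (nat_lit 245) (nat_lit 1) (nat_lit 249) (nat_lit 1) (nat_lit 278) (nat_lit 395) (nat_lit 347)))))) (XT.nd (nat_lit 312) (nat_lit 988) (nat_lit 0) (XT.nd (nat_lit 156) (nat_lit 304) (nat_lit 0) (XT.nd (nat_lit 78) (nat_lit 0) (nat_lit 0) (XT.lf (nat_lit 456)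 (nat_lit 9835125530) (nat_lit 0) (nat_lit 501232742) (nat_lit 380) (nat_lit 501232742) (nat_lit 245) (nat_lit 1) (nat_lit 239) (nat_lit 1) (nat_lit 244) (nat_lit 1) (nat_lit 279) (nat_lit 395) (nat_lit 346)) (XT.lf (nat_lit 76) (nat_lit 3742988120) (nat_lit 0) (nat_lit 3224726117) (nat_lit 456) (nat_lit 3742988120) (nat_lit 240) (nat_lit 1) (nat_lit 239) (nat_lit 1) (nat_lit 245) (nat_lit 1) (nat_lit 280) (nat_lit 395) (nat_lit 345))) (XT.nd (nat_lit 78) (nat_lit 0) (nat_lit 0) (XT.lf (nat_lit 380) (nat_lit 5173633814) (nat_lit 0) (nat_lit 2706477425) (nat_lit 304) (nat_lit 2706477425) (nat_lit 240) (nat_lit 1) (nat_lit 235) (nat_lit 1) (nat_lit 239) (nat_lit 1) (nat_lit 281) (nat_lit 395) (nat_lit 344)) (XT.lf (nat_lit 76) (nat_lit 1438708535) (nat_lit 0) (nat_lit 7587180899) (nat_lit 380) (nat_lit 1438708535) (nat_lit 236) (nat_lit 1) (nat_lit 235) (nat_lit 1) (nat_lit 240) (nat_lit 1) (nat_lit 282)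 (nat_lit 395) (nat_lit 343)))) (XT.nd (nat_lit 156) (nat_lit 304) (nat_lit 0) (XT.nd (nat_lit 78) (nat_lit 380) (nat_lit 0) (XT.lf (nat_lit 380) (nat_lit 573696298) (nat_lit 0) (nat_lit 4885148787) (nat_lit 304) (nat_lit 4885148787) (nat_lit 236) (nat_lit 1) (nat_lit 231) (nat_lit 1) (nat_lit 235) (nat_lit 1) (nat_lit 283) (nat_lit 395) (nat_lit 342)) (XT.lf (nat_lit 380) (nat_lit 8573522748) (nat_lit 0) (nat_lit 826123544) (nat_lit 304) (nat_lit 826123544) (nat_lit 231) (nat_lit 1) (nat_lit 226) (nat_lit 1) (nat_lit 230) (nat_lit 1) (nat_lit 284) (nat_lit 395) (nat_lit 341))) (XT.nd (nat_lit 78) (nat_lit 304) (nat_lit 0) (XT.lf (nat_lit 76) (nat_lit 3111726937) (nat_lit 0) (nat_lit 3884902302) (nat_lit 380) (nat_lit 3111726937) (nat_lit 227) (nat_lit 1) (nat_lit 226) (nat_lit 1) (nat_lit 231) (nat_lit 1) (nat_lit 285) (nat_lit 395) (nat_lit 340)) (XT.nd (nat_lit 78) (nat_lit 0) (nat_lit 0) (XT.lf (nat_lit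 380) (nat_lit 3903746333) (nat_lit 0) (nat_lit 3044753331) (nat_lit 304) (nat_lit 3044753331) (nat_lit 227) (nat_lit 1) (nat_lit 222) (nat_lit 1) (nat_lit 226) (nat_lit 1) (nat_lit 286) (nat_lit 395) (nat_lit 339)) (XT.lf (nat_lit 76) (nat_lit 806476067) (nat_lit 0) (nat_lit 8267424444) (nat_lit 380) (nat_lit 806476067) (nat_lit 223) (nat_lit 1) (nat_lit 222) (nat_lit 1) (nat_lit 227) (nat_lit 1) (nat_lit 287) (nat_lit 395) (nat_lit 338))))))) (XT.nd (nat_lit 702) (nat_lit 1444) (nat_lit 0) (XT.nd (nat_lit 312) (nat_lit 912) (nat_lit 0) (XT.nd (nat_lit 156) (nat_lit 228) (nat_lit 0) (XT.nd (nat_lit 78) (nat_lit 304) (nat_lit 0) (XT.lf (nat_lit 76) (nat_lit 4544780574) (nat_lit 0) (nat_lit 678666294) (nat_lit 304) (nat_lit 4544780574) (nat_lit 219) (nat_lit 1) (nat_lit 218) (nat_lit 1) (nat_lit 222) (nat_lit 1) (nat_lit 288) (nat_lit 395) (nat_lit 337)) (XT.lf (nat_lit 380) (nat_lit 6763597572) (nat_lit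 0) (nat_lit 1447322838) (nat_lit 304) (nat_lit 1447322838) (nat_lit 219) (nat_lit 1) (nat_lit 214) (nat_lit 1) (nat_lit 218) (nat_lit 1) (nat_lit 289) (nat_lit 395) (nat_lit 336))) (XT.nd (nat_lit 78) (nat_lit 228) (nat_lit 0) (XT.lf (nat_lit 76) (nat_lit 2219207097) (nat_lit 0) (nat_lit 5111097806) (nat_lit 380) (nat_lit 2219207097) (nat_lit 215) (nat_lit 1) (nat_lit 214) (nat_lit 1) (nat_lit 219) (nat_lit 1) (nat_lit 290) (nat_lit 395) (nat_lit 335)) (XT.lf (nat_lit 304) (nat_lit 2130845802) (nat_lit 0) (nat_lit 3655821200) (nat_lit 228) (nat_lit 3655821200) (nat_lit 215) (nat_lit 1) (nat_lit 211) (nat_lit 1) (nat_lit 214) (nat_lit 1) (nat_lit 291) (nat_lit 395) (nat_lit 334)))) (XT.nd (nat_lit 156) (nat_lit 532) (nat_lit 0) (XT.nd (nat_lit 78) (nat_lit 0) (nat_lit 0) (XT.lf (nat_lit 380) (nat_lit 9208562545) (nat_lit 0) (nat_lit 64664429) (nat_lit 304) (nat_lit 64664429) (nat_lit 211) (nat_lit 1)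 (nat_lit 206) (nat_lit 1) (nat_lit 210) (nat_lit 1) (nat_lit 292) (nat_lit 395) (nat_lit 333)) (XT.lf (nat_lit 76) (nat_lit 3430633419) (nat_lit 0) (nat_lit 2371822132) (nat_lit 380) (nat_lit 3430633419) (nat_lit 207) (nat_lit 1) (nat_lit 206) (nat_lit 1) (nat_lit 211) (nat_lit 1) (nat_lit 293) (nat_lit 395) (nat_lit 332))) (XT.nd (nat_lit 78) (nat_lit 304) (nat_lit 0) (XT.lf (nat_lit 304) (nat_lit 4559085811) (nat_lit 0) (nat_lit 2285787974) (nat_lit 228) (nat_lit 2285787974) (nat_lit 207) (nat_lit 1) (nat_lit 203) (nat_lit 1) (nat_lit 206) (nat_lit 1) (nat_lit 294) (nat_lit 395) (nat_lit 331)) (XT.nd (nat_lit 78) (nat_lit 304) (nat_lit 0) (XT.lf (nat_lit 76) (nat_lit 1139409568) (nat_lit 0) (nat_lit 6751083989) (nat_lit 304) (nat_lit 1139409568) (nat_lit 204) (nat_lit 1) (nat_lit 203) (nat_lit 1) (nat_lit 207) (nat_lit 1) (nat_lit 295) (nat_lit 395) (nat_lit 330)) (XT.lf (nat_lit 76) (nat_lit 4464477881)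 (nat_lit 0) (nat_lit 1195313) (nat_lit 304) (nat_lit 4464477881) (nat_lit 200) (nat_lit 1) (nat_lit 199) (nat_lit 1) (nat_lit 203) (nat_lit 1) (nat_lit 296) (nat_lit 395) (nat_lit 329)))))) (XT.nd (nat_lit 390) (nat_lit 684) (nat_lit 0) (XT.nd (nat_lit 156) (nat_lit 532) (nat_lit 0) (XT.nd (nat_lit 78) (nat_lit 0) (nat_lit 0) (XT.lf (nat_lit 304) (nat_lit 6638899291) (nat_lit 0) (nat_lit 1096561154) (nat_lit 228) (nat_lit 1096561154) (nat_lit 200) (nat_lit 1) (nat_lit 196) (nat_lit 1) (nat_lit 199) (nat_lit 1) (nat_lit 297) (nat_lit 395) (nat_lit 328)) (XT.lf (nat_lit 76) (nat_lit 2174905908) (nat_lit 0) (nat_lit 4385023930) (nat_lit 304) (nat_lit 2174905908) (nat_lit 197) (nat_lit 1) (nat_lit 196) (nat_lit 1) (nat_lit 200) (nat_lit 1) (nat_lit 298) (nat_lit 395) (nat_lit 327))) (XT.nd (nat_lit 78) (nat_lit 304) (nat_lit 0) (XT.lf (nat_lit 304) (nat_lit 2084406363) (nat_lit 0) (nat_lit 3277411019) (nat_lit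 228) (nat_lit 3277411019) (nat_lit 197) (nat_lit 1) (nat_lit 193) (nat_lit 1) (nat_lit 196) (nat_lit 1) (nat_lit 299) (nat_lit 395) (nat_lit 326)) (XT.nd (nat_lit 78) (nat_lit 0) (nat_lit 0) (XT.lf (nat_lit 304) (nat_lit 8411401855) (nat_lit 0) (nat_lit 67162075) (nat_lit 228) (nat_lit 67162075) (nat_lit 193) (nat_lit 1) (nat_lit 189) (nat_lit 1) (nat_lit 192) (nat_lit 1) (nat_lit 300) (nat_lit 395) (nat_lit 325)) (XT.lf (nat_lit 76) (nat_lit 3061070162) (nat_lit 0) (nat_lit 2329797400) (nat_lit 304) (nat_lit 3061070162) (nat_lit 190) (nat_lit 1) (nat_lit 189) (nat_lit 1) (nat_lit 193) (nat_lit 1) (nat_lit 301) (nat_lit 395) (nat_lit 324))))) (XT.nd (nat_lit 156) (nat_lit 456) (nat_lit 0) (XT.nd (nat_lit 78) (nat_lit 0) (nat_lit 0) (XT.lf (nat_lit 304) (nat_lit 3876715163) (nat_lit 0) (nat_lit 2241750350) (nat_lit 228) (nat_lit 2241750350) (nat_lit 190) (nat_lit 1) (nat_lit 186) (nat_lit 1) (nat_lit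 189) (nat_lit 1) (nat_lit 302) (nat_lit 395) (nat_lit 323)) (XT.lf (nat_lit 76) (nat_lit 829153708) (nat_lit 0) (nat_lit 6611740136) (nat_lit 304) (nat_lit 829153708) (nat_lit 187) (nat_lit 1) (nat_lit 186) (nat_lit 1) (nat_lit 190) (nat_lit 1) (nat_lit 303) (nat_lit 395) (nat_lit 322))) (XT.nd (nat_lit 78) (nat_lit 228) (nat_lit 0) (XT.lf (nat_lit 76) (nat_lit 3815541029) (nat_lit 0) (nat_lit 549373876) (nat_lit 228) (nat_lit 3815541029) (nat_lit 184) (nat_lit 1) (nat_lit 183) (nat_lit 1) (nat_lit 186) (nat_lit 1) (nat_lit 304) (nat_lit 395) (nat_lit 321)) (XT.nd (nat_lit 78) (nat_lit 0) (nat_lit 0) (XT.lf (nat_lit 304) (nat_lit 5410185101) (nat_lit 0) (nat_lit 1341099266) (nat_lit 228) (nat_lit 1341099266) (nat_lit 184) (nat_lit 1) (nat_lit 180) (nat_lit 1) (nat_lit 183) (nat_lit 1) (nat_lit 305) (nat_lit 395) (nat_lit 320)) (XT.lf (nat_lit 76) (nat_lit 1600204137) (nat_lit 0) (nat_lit 4804908090)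 (nat_lit 304) (nat_lit 1600204137) (nat_lit 181) (nat_lit 1) (nat_lit 180) (nat_lit 1) (nat_lit 184) (nat_lit 1) (nat_lit 306) (nat_lit 395) (nat_lit 319))))))))
noncomputable def ec277 : XT := (XT.nd (nat_lit 1482) (nat_lit 1900) (nat_lit 0) (XT.nd (nat_lit 702) (nat_lit 1064) (nat_lit 0) (XT.nd (nat_lit 312) (nat_lit 608) (nat_lit 0) (XT.nd (nat_lit 156) (nat_lit 152) (nat_lit 0) (XT.nd (nat_lit 78) (nat_lit 304) (nat_lit 0) (XT.lf (nat_lit 228) (nat_lit 1007886939) (nat_lit 0) (nat_lit 3455763026) (nat_lit 152) (nat_lit 3455763026) (nat_lit 181) (nat_lit 1) (nat_lit 178) (nat_lit 1) (nat_lit 180) (nat_lit 1) (nat_lit 307) (nat_lit 395) (nat_lit 318)) (XT.lf (nat_lit 304) (nat_lit 6715397730) (nat_lit 0) (nat_lit 559833905) (nat_lit 228) (nat_lit 559833905) (nat_lit 178) (nat_lit 1) (nat_lit 174) (nat_lit 1) (nat_lit 177) (nat_lit 1) (nat_lit 308) (nat_lit 395) (nat_lit 317))) (XT.nd (nat_lit 78)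 (nat_lit 152) (nat_lit 0) (XT.lf (nat_lit 76) (nat_lit 2260121628) (nat_lit 0) (nat_lit 3230712794) (nat_lit 304) (nat_lit 2260121628) (nat_lit 175) (nat_lit 1) (nat_lit 174) (nat_lit 1) (nat_lit 178) (nat_lit 1) (nat_lit 309) (nat_lit 395) (nat_lit 316)) (XT.lf (nat_lit 228) (nat_lit 2357351666) (nat_lit 0) (nat_lit 2655511075) (nat_lit 152) (nat_lit 2655511075) (nat_lit 175) (nat_lit 1) (nat_lit 172) (nat_lit 1) (nat_lit 174) (nat_lit 1) (nat_lit 310) (nat_lit 395) (nat_lit 315)))) (XT.nd (nat_lit 156) (nat_lit 380) (nat_lit 0) (XT.nd (nat_lit 78) (nat_lit 228) (nat_lit 0) (XT.lf (nat_lit 76) (nat_lit 117058401) (nat_lit 0) (nat_lit 7353400279) (nat_lit 228) (nat_lit 117058401) (nat_lit 173) (nat_lit 1) (nat_lit 172) (nat_lit 1) (nat_lit 175) (nat_lit 1) (nat_lit 311) (nat_lit 395) (nat_lit 314)) (XT.lf (nat_lit 76) (nat_lit 2822031490) (nat_lit 0) (nat_lit 1862304909) (nat_lit 228) (nat_lit 2822031490)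 (nat_lit 170) (nat_lit 1) (nat_lit 169) (nat_lit 1) (nat_lit 172) (nat_lit 1) (nat_lit 312) (nat_lit 395) (nat_lit 313))) (XT.nd (nat_lit 78) (nat_lit 228) (nat_lit 0) (XT.lf (nat_lit 228) (nat_lit 3513755233) (nat_lit 0) (nat_lit 1956581745) (nat_lit 152) (nat_lit 1956581745) (nat_lit 170) (nat_lit 1) (nat_lit 167) (nat_lit 1) (nat_lit 169) (nat_lit 1) (nat_lit 313) (nat_lit 395) (nat_lit 312)) (XT.nd (nat_lit 78) (nat_lit 228) (nat_lit 0) (XT.lf (nat_lit 76) (nat_lit 705352814) (nat_lit 0) (nat_lit 5938064694) (nat_lit 228) (nat_lit 705352814) (nat_lit 168) (nat_lit 1) (nat_lit 167) (nat_lit 1) (nat_lit 170) (nat_lit 1) (nat_lit 314) (nat_lit 395) (nat_lit 311)) (XT.lf (nat_lit 76) (nat_lit 3297574055) (nat_lit 0) (nat_lit 675855573) (nat_lit 228) (nat_lit 3297574055) (nat_lit 165) (nat_lit 1) (nat_lit 164) (nat_lit 1) (nat_lit 167) (nat_lit 1) (nat_lit 315) (nat_lit 395) (nat_lit 310)))))) (XT.nd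 (nat_lit 390) (nat_lit 532) (nat_lit 0) (XT.nd (nat_lit 156) (nat_lit 380) (nat_lit 0) (XT.nd (nat_lit 78) (nat_lit 0) (nat_lit 0) (XT.lf (nat_lit 228) (nat_lit 4499866606) (nat_lit 0) (nat_lit 1347324286) (nat_lit 152) (nat_lit 1347324286) (nat_lit 165) (nat_lit 1) (nat_lit 162) (nat_lit 1) (nat_lit 164) (nat_lit 1) (nat_lit 316) (nat_lit 395) (nat_lit 309)) (XT.lf (nat_lit 76) (nat_lit 1210529791) (nat_lit 0) (nat_lit 4697897247) (nat_lit 228) (nat_lit 1210529791) (nat_lit 163) (nat_lit 1) (nat_lit 162) (nat_lit 1) (nat_lit 165) (nat_lit 1) (nat_lit 317) (nat_lit 395) (nat_lit 308))) (XT.nd (nat_lit 78) (nat_lit 228) (nat_lit 0) (XT.lf (nat_lit 228) (nat_lit 356742521) (nat_lit 0) (nat_lit 3343757599) (nat_lit 152) (nat_lit 3343757599) (nat_lit 163) (nat_lit 1) (nat_lit 160) (nat_lit 1) (nat_lit 162) (nat_lit 1) (nat_lit 318) (nat_lit 395) (nat_lit 307)) (XT.nd (nat_lit 78) (nat_lit 0) (nat_lit 0)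 (XT.lf (nat_lit 228) (nat_lit 5335879598) (nat_lit 0) (nat_lit 817397408) (nat_lit 152) (nat_lit 817397408) (nat_lit 160) (nat_lit 1) (nat_lit 157) (nat_lit 1) (nat_lit 159) (nat_lit 1) (nat_lit 319) (nat_lit 395) (nat_lit 306)) (XT.lf (nat_lit 76) (nat_lit 1642368150) (nat_lit 0) (nat_lit 3612859378) (nat_lit 228) (nat_lit 1642368150) (nat_lit 158) (nat_lit 1) (nat_lit 157) (nat_lit 1) (nat_lit 160) (nat_lit 1) (nat_lit 320) (nat_lit 395) (nat_lit 305))))) (XT.nd (nat_lit 156) (nat_lit 152) (nat_lit 0) (XT.nd (nat_lit 78) (nat_lit 228) (nat_lit 0) (XT.lf (nat_lit 228) (nat_lit 1257914850) (nat_lit 0) (nat_lit 2783849471) (nat_lit 152) (nat_lit 2783849471) (nat_lit 158) (nat_lit 1) (nat_lit 155) (nat_lit 1) (nat_lit 157) (nat_lit 1) (nat_lit 321) (nat_lit 395) (nat_lit 304)) (XT.lf (nat_lit 228) (nat_lit 6039701077) (nat_lit 0) (nat_lit 357622962) (nat_lit 152) (nat_lit 357622962) (nat_lit 155) (nat_lit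 1) (nat_lit 152) (nat_lit 1) (nat_lit 154) (nat_lit 1) (nat_lit 322) (nat_lit 395) (nat_lit 303))) (XT.nd (nat_lit 78) (nat_lit 152) (nat_lit 0) (XT.lf (nat_lit 76) (nat_lit 2009541381) (nat_lit 0) (nat_lit 2665161794) (nat_lit 228) (nat_lit 2009541381) (nat_lit 153) (nat_lit 1) (nat_lit 152) (nat_lit 1) (nat_lit 155) (nat_lit 1) (nat_lit 323) (nat_lit 395) (nat_lit 302)) (XT.nd (nat_lit 78) (nat_lit 0) (nat_lit 0) (XT.lf (nat_lit 228) (nat_lit 2031188372) (nat_lit 0) (nat_lit 2291825997) (nat_lit 152) (nat_lit 2291825997) (nat_lit 153) (nat_lit 1) (nat_lit 150) (nat_lit 1) (nat_lit 152) (nat_lit 1) (nat_lit 324) (nat_lit 395) (nat_lit 301)) (XT.lf (nat_lit 76) (nat_lit 40541521) (nat_lit 0) (nat_lit 6465788866) (nat_lit 228) (nat_lit 40541521) (nat_lit 151) (nat_lit 1) (nat_lit 150) (nat_lit 1) (nat_lit 153) (nat_lit 1) (nat_lit 325) (nat_lit 395) (nat_lit 300))))))) (XT.nd (nat_lit 702) (nat_lit 988)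 (nat_lit 0) (XT.nd (nat_lit 312) (nat_lit 456) (nat_lit 0) (XT.nd (nat_lit 156) (nat_lit 152) (nat_lit 0) (XT.nd (nat_lit 78) (nat_lit 152) (nat_lit 0) (XT.lf (nat_lit 76) (nat_lit 2319741346) (nat_lit 0) (nat_lit 1839013221) (nat_lit 152) (nat_lit 2319741346) (nat_lit 149) (nat_lit 1) (nat_lit 148) (nat_lit 1) (nat_lit 150) (nat_lit 1) (nat_lit 326) (nat_lit 395) (nat_lit 299)) (XT.lf (nat_lit 228) (nat_lit 2691623707) (nat_lit 0) (nat_lit 1859958490) (nat_lit 152) (nat_lit 1859958490) (nat_lit 149) (nat_lit 1) (nat_lit 146) (nat_lit 1) (nat_lit 148) (nat_lit 1) (nat_lit 327) (nat_lit 395) (nat_lit 298))) (XT.nd (nat_lit 78) (nat_lit 152) (nat_lit 0) (XT.lf (nat_lit 76) (nat_lit 386924369) (nat_lit 0) (nat_lit 5571910671) (nat_lit 228) (nat_lit 386924369) (nat_lit 147) (nat_lit 1) (nat_lit 146) (nat_lit 1) (nat_lit 149) (nat_lit 1) (nat_lit 328) (nat_lit 395) (nat_lit 297)) (XT.lf (nat_lit 76) (nat_lit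 2579788157) (nat_lit 0) (nat_lit 1120397181) (nat_lit 152) (nat_lit 2579788157) (nat_lit 145) (nat_lit 1) (nat_lit 144) (nat_lit 1) (nat_lit 146) (nat_lit 1) (nat_lit 329) (nat_lit 395) (nat_lit 296)))) (XT.nd (nat_lit 156) (nat_lit 304) (nat_lit 0) (XT.nd (nat_lit 78) (nat_lit 0) (nat_lit 0) (XT.lf (nat_lit 228) (nat_lit 3252578768) (nat_lit 0) (nat_lit 1481384733) (nat_lit 152) (nat_lit 1481384733) (nat_lit 145) (nat_lit 1) (nat_lit 142) (nat_lit 1) (nat_lit 144) (nat_lit 1) (nat_lit 330) (nat_lit 395) (nat_lit 295)) (XT.lf (nat_lit 76) (nat_lit 684460545) (nat_lit 0) (nat_lit 4782746200) (nat_lit 228) (nat_lit 684460545) (nat_lit 143) (nat_lit 1) (nat_lit 142) (nat_lit 1) (nat_lit 145) (nat_lit 1) (nat_lit 331) (nat_lit 395) (nat_lit 294))) (XT.nd (nat_lit 78) (nat_lit 152) (nat_lit 0) (XT.lf (nat_lit 76) (nat_lit 2795727797) (nat_lit 0) (nat_lit 496873679) (nat_lit 152) (nat_lit 2795727797) (nat_lit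 141) (nat_lit 1) (nat_lit 140) (nat_lit 1) (nat_lit 142) (nat_lit 1) (nat_lit 332) (nat_lit 395) (nat_lit 293)) (XT.nd (nat_lit 78) (nat_lit 0) (nat_lit 0) (XT.lf (nat_lit 228) (nat_lit 3725899319) (nat_lit 0) (nat_lit 1150012220) (nat_lit 152) (nat_lit 1150012220) (nat_lit 141) (nat_lit 1) (nat_lit 138) (nat_lit 1) (nat_lit 140) (nat_lit 1) (nat_lit 333) (nat_lit 395) (nat_lit 292)) (XT.lf (nat_lit 76) (nat_lit 938894771) (nat_lit 0) (nat_lit 4086471874) (nat_lit 228) (nat_lit 938894771) (nat_lit 139) (nat_lit 1) (nat_lit 138) (nat_lit 1) (nat_lit 141) (nat_lit 1) (nat_lit 334) (nat_lit 395) (nat_lit 291)))))) (XT.nd (nat_lit 390) (nat_lit 380) (nat_lit 0) (XT.nd (nat_lit 156) (nat_lit 304) (nat_lit 0) (XT.nd (nat_lit 78) (nat_lit 228) (nat_lit 0) (XT.lf (nat_lit 152) (nat_lit 43444756) (nat_lit 0) (nat_lit 2929891704) (nat_lit 76) (nat_lit 2929891704) (nat_lit 139) (nat_lit 1) (nat_lit 137) (nat_lit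 1) (nat_lit 138) (nat_lit 1) (nat_lit 335) (nat_lit 395) (nat_lit 290)) (XT.lf (nat_lit 228) (nat_lit 4122088249) (nat_lit 0) (nat_lit 860432198) (nat_lit 152) (nat_lit 860432198) (nat_lit 137) (nat_lit 1) (nat_lit 134) (nat_lit 1) (nat_lit 136) (nat_lit 1) (nat_lit 336) (nat_lit 395) (nat_lit 289))) (XT.nd (nat_lit 78) (nat_lit 304) (nat_lit 0) (XT.lf (nat_lit 76) (nat_lit 1155322486) (nat_lit 0) (nat_lit 3472586867) (nat_lit 228) (nat_lit 1155322486) (nat_lit 135) (nat_lit 1) (nat_lit 134) (nat_lit 1) (nat_lit 137) (nat_lit 1) (nat_lit 337) (nat_lit 395) (nat_lit 288)) (XT.nd (nat_lit 78) (nat_lit 228) (nat_lit 0) (XT.lf (nat_lit 152) (nat_lit 517917209) (nat_lit 0) (nat_lit 2603170831) (nat_lit 76) (nat_lit 2603170831) (nat_lit 135) (nat_lit 1) (nat_lit 133) (nat_lit 1) (nat_lit 134) (nat_lit 1) (nat_lit 338) (nat_lit 395) (nat_lit 287)) (XT.lf (nat_lit 228) (nat_lit 4450455963) (nat_lit 0) (nat_lit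 607843286) (nat_lit 152) (nat_lit 607843286) (nat_lit 133) (nat_lit 1) (nat_lit 130) (nat_lit 1) (nat_lit 132) (nat_lit 1) (nat_lit 339) (nat_lit 395) (nat_lit 286))))) (XT.nd (nat_lit 156) (nat_lit 304) (nat_lit 0) (XT.nd (nat_lit 78) (nat_lit 76) (nat_lit 0) (XT.lf (nat_lit 76) (nat_lit 1338262504) (nat_lit 0) (nat_lit 2931765479) (nat_lit 228) (nat_lit 1338262504) (nat_lit 131) (nat_lit 1) (nat_lit 130) (nat_lit 1) (nat_lit 133) (nat_lit 1) (nat_lit 340) (nat_lit 395) (nat_lit 285)) (XT.lf (nat_lit 152) (nat_lit 925519147) (nat_lit 0) (nat_lit 2312883567) (nat_lit 76) (nat_lit 2312883567) (nat_lit 131) (nat_lit 1) (nat_lit 129) (nat_lit 1) (nat_lit 130) (nat_lit 1) (nat_lit 341) (nat_lit 395) (nat_lit 284))) (XT.nd (nat_lit 78) (nat_lit 76) (nat_lit 0) (XT.lf (nat_lit 228) (nat_lit 4719253979) (nat_lit 0) (nat_lit 387983627) (nat_lit 152) (nat_lit 387983627) (nat_lit 129) (nat_lit 1) (nat_lit 126)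 (nat_lit 1) (nat_lit 128) (nat_lit 1) (nat_lit 342) (nat_lit 395) (nat_lit 283)) (XT.nd (nat_lit 78) (nat_lit 76) (nat_lit 0) (XT.lf (nat_lit 76) (nat_lit 1491721561) (nat_lit 0) (nat_lit 2455725971) (nat_lit 228) (nat_lit 1491721561) (nat_lit 127) (nat_lit 1) (nat_lit 126) (nat_lit 1) (nat_lit 129) (nat_lit 1) (nat_lit 343) (nat_lit 395) (nat_lit 282)) (XT.lf (nat_lit 152) (nat_lit 1274114118) (nat_lit 0) (nat_lit 2054967092) (nat_lit 76) (nat_lit 2054967092) (nat_lit 127) (nat_lit 1) (nat_lit 125) (nat_lit 1) (nat_lit 126) (nat_lit 1) (nat_lit 344) (nat_lit 395) (nat_lit 281))))))))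
noncomputable def ec278 : XT := (XT.nd (nat_lit 1482) (nat_lit 1444) (nat_lit 0) (XT.nd (nat_lit 702) (nat_lit 684) (nat_lit 0) (XT.nd (nat_lit 312) (nat_lit 304) (nat_lit 0) (XT.nd (nat_lit 156) (nat_lit 304) (nat_lit 0) (XT.nd (nat_lit 78) (nat_lit 0) (nat_lit 0) (XT.lf (nat_lit 228) (nat_lit 4935793608) (nat_lit 0) (nat_lit 197070603) (nat_lit 152) (nat_lit 197070603) (nat_lit 125) (nat_lit 1) (nat_lit 122) (nat_lit 1) (nat_lit 124) (nat_lit 1) (nat_lit 345) (nat_lit 395) (nat_lit 280)) (XT.lf (nat_lit 76) (nat_lit 1619251654) (nat_lit 0) (nat_lit 2037114035) (nat_lit 228) (nat_lit 1619251654) (nat_lit 123) (nat_lit 1) (nat_lit 122) (nat_lit 1) (nat_lit 125) (nat_lit 1) (nat_lit 346) (nat_lit 395) (nat_lit 279))) (XT.nd (nat_lit 78) (nat_lit 228) (nat_lit 0) (XT.lf (nat_lit 152) (nat_lit 1570676944) (nat_lit 0) (nat_lit 1825811646) (nat_lit 76) (nat_lit 1825811646) (nat_lit 123) (nat_lit 1) (nat_lit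 121) (nat_lit 1) (nat_lit 122) (nat_lit 1) (nat_lit 347) (nat_lit 395) (nat_lit 278)) (XT.lf (nat_lit 228) (nat_lit 5106551383) (nat_lit 0) (nat_lit 31747275) (nat_lit 152) (nat_lit 31747275) (nat_lit 121) (nat_lit 1) (nat_lit 118) (nat_lit 1) (nat_lit 120) (nat_lit 1) (nat_lit 348) (nat_lit 395) (nat_lit 277)))) (XT.nd (nat_lit 156) (nat_lit 228) (nat_lit 0) (XT.nd (nat_lit 78) (nat_lit 76) (nat_lit 0) (XT.lf (nat_lit 76) (nat_lit 1724000985) (nat_lit 0) (nat_lit 1669399256) (nat_lit 228) (nat_lit 1724000985) (nat_lit 119) (nat_lit 1) (nat_lit 118) (nat_lit 1) (nat_lit 121) (nat_lit 1) (nat_lit 349) (nat_lit 395) (nat_lit 276)) (XT.lf (nat_lit 152) (nat_lit 1821393162) (nat_lit 0) (nat_lit 1622209999) (nat_lit 76) (nat_lit 1622209999) (nat_lit 119) (nat_lit 1) (nat_lit 117) (nat_lit 1) (nat_lit 118) (nat_lit 1) (nat_lit 350) (nat_lit 395) (nat_lit 275))) (XT.nd (nat_lit 78) (nat_lit 228) (nat_lit 0)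 (XT.lf (nat_lit 0) (nat_lit 112063857) (nat_lit 0) (nat_lit 4791074695) (nat_lit 152) (nat_lit 112063857) (nat_lit 117) (nat_lit 3) (nat_lit 117) (nat_lit 1) (nat_lit 119) (nat_lit 1) (nat_lit 351) (nat_lit 395) (nat_lit 274)) (XT.nd (nat_lit 78) (nat_lit 76) (nat_lit 0) (XT.lf (nat_lit 76) (nat_lit 1808759208) (nat_lit 0) (nat_lit 1346783133) (nat_lit 152) (nat_lit 1808759208) (nat_lit 116) (nat_lit 1) (nat_lit 115) (nat_lit 1) (nat_lit 117) (nat_lit 1) (nat_lit 352) (nat_lit 395) (nat_lit 273)) (XT.lf (nat_lit 152) (nat_lit 2031747381) (nat_lit 0) (nat_lit 1441312573) (nat_lit 76) (nat_lit 1441312573) (nat_lit 116) (nat_lit 1) (nat_lit 114) (nat_lit 1) (nat_lit 115) (nat_lit 1) (nat_lit 353) (nat_lit 395) (nat_lit 272)))))) (XT.nd (nat_lit 390) (nat_lit 304) (nat_lit 0) (XT.nd (nat_lit 156) (nat_lit 228) (nat_lit 0) (XT.nd (nat_lit 78) (nat_lit 152) (nat_lit 0) (XT.lf (nat_lit 0) (nat_lit 236023770)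 (nat_lit 0) (nat_lit 4393264296) (nat_lit 152) (nat_lit 236023770) (nat_lit 114) (nat_lit 3) (nat_lit 114) (nat_lit 1) (nat_lit 116) (nat_lit 1) (nat_lit 354) (nat_lit 395) (nat_lit 271)) (XT.lf (nat_lit 76) (nat_lit 1875997637) (nat_lit 0) (nat_lit 1064117346) (nat_lit 152) (nat_lit 1875997637) (nat_lit 113) (nat_lit 1) (nat_lit 112) (nat_lit 1) (nat_lit 114) (nat_lit 1) (nat_lit 355) (nat_lit 395) (nat_lit 270))) (XT.nd (nat_lit 78) (nat_lit 152) (nat_lit 0) (XT.lf (nat_lit 152) (nat_lit 2206601763) (nat_lit 0) (nat_lit 1280587553) (nat_lit 76) (nat_lit 1280587553) (nat_lit 113) (nat_lit 1) (nat_lit 111) (nat_lit 1) (nat_lit 112) (nat_lit 1) (nat_lit 356) (nat_lit 395) (nat_lit 269)) (XT.nd (nat_lit 78) (nat_lit 152) (nat_lit 0) (XT.lf (nat_lit 0) (nat_lit 342186086) (nat_lit 0) (nat_lit 4035840449) (nat_lit 152) (nat_lit 342186086) (nat_lit 111) (nat_lit 3) (nat_lit 111) (nat_lit 1) (nat_lit 113)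 (nat_lit 1) (nat_lit 357) (nat_lit 395) (nat_lit 268)) (XT.lf (nat_lit 76) (nat_lit 1927904949) (nat_lit 0) (nat_lit 816831156) (nat_lit 152) (nat_lit 1927904949) (nat_lit 110) (nat_lit 1) (nat_lit 109) (nat_lit 1) (nat_lit 111) (nat_lit 1) (nat_lit 358) (nat_lit 395) (nat_lit 267))))) (XT.nd (nat_lit 156) (nat_lit 228) (nat_lit 0) (XT.nd (nat_lit 78) (nat_lit 0) (nat_lit 0) (XT.lf (nat_lit 152) (nat_lit 2350265757) (nat_lit 0) (nat_lit 1137785455) (nat_lit 76) (nat_lit 1137785455) (nat_lit 110) (nat_lit 1) (nat_lit 108) (nat_lit 1) (nat_lit 109) (nat_lit 1) (nat_lit 359) (nat_lit 395) (nat_lit 266)) (XT.lf (nat_lit 0) (nat_lit 432651229) (nat_lit 0) (nat_lit 3714415290) (nat_lit 152) (nat_lit 432651229) (nat_lit 108) (nat_lit 3) (nat_lit 108) (nat_lit 1) (nat_lit 110) (nat_lit 1) (nat_lit 360) (nat_lit 395) (nat_lit 265))) (XT.nd (nat_lit 78) (nat_lit 76) (nat_lit 0) (XT.lf (nat_lit 76) (nat_lit 1966418914)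 (nat_lit 0) (nat_lit 600866889) (nat_lit 152) (nat_lit 1966418914) (nat_lit 107) (nat_lit 1) (nat_lit 106) (nat_lit 1) (nat_lit 108) (nat_lit 1) (nat_lit 361) (nat_lit 395) (nat_lit 264)) (XT.nd (nat_lit 78) (nat_lit 0) (nat_lit 0) (XT.lf (nat_lit 152) (nat_lit 2466558035) (nat_lit 0) (nat_lit 1010907640) (nat_lit 76) (nat_lit 1010907640) (nat_lit 107) (nat_lit 1) (nat_lit 105) (nat_lit 1) (nat_lit 106) (nat_lit 1) (nat_lit 362) (nat_lit 395) (nat_lit 263)) (XT.lf (nat_lit 0) (nat_lit 509282026) (nat_lit 0) (nat_lit 3425086889) (nat_lit 152) (nat_lit 509282026) (nat_lit 105) (nat_lit 3) (nat_lit 105) (nat_lit 1) (nat_lit 107) (nat_lit 1) (nat_lit 363) (nat_lit 395) (nat_lit 262))))))) (XT.nd (nat_lit 702) (nat_lit 760) (nat_lit 0) (XT.nd (nat_lit 312) (nat_lit 304) (nat_lit 0) (XT.nd (nat_lit 156) (nat_lit 152) (nat_lit 0) (XT.nd (nat_lit 78) (nat_lit 76) (nat_lit 0) (XT.lf (nat_lit 76) (nat_lit 1993254568)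 (nat_lit 0) (nat_lit 412622630) (nat_lit 152) (nat_lit 1993254568) (nat_lit 104) (nat_lit 1) (nat_lit 103) (nat_lit 1) (nat_lit 105) (nat_lit 1) (nat_lit 364) (nat_lit 395) (nat_lit 261)) (XT.lf (nat_lit 152) (nat_lit 2558861517) (nat_lit 0) (nat_lit 898178344) (nat_lit 76) (nat_lit 898178344) (nat_lit 104) (nat_lit 1) (nat_lit 102) (nat_lit 1) (nat_lit 103) (nat_lit 1) (nat_lit 365) (nat_lit 395) (nat_lit 260))) (XT.nd (nat_lit 78) (nat_lit 152) (nat_lit 0) (XT.lf (nat_lit 0) (nat_lit 573730303) (nat_lit 0) (nat_lit 3164385157) (nat_lit 152) (nat_lit 573730303) (nat_lit 102) (nat_lit 3) (nat_lit 102) (nat_lit 1) (nat_lit 104) (nat_lit 1) (nat_lit 366) (nat_lit 395) (nat_lit 259)) (XT.lf (nat_lit 76) (nat_lit 2009929247) (nat_lit 0) (nat_lit 248901300) (nat_lit 152) (nat_lit 2009929247) (nat_lit 101) (nat_lit 1) (nat_lit 100) (nat_lit 1) (nat_lit 102) (nat_lit 1) (nat_lit 367) (nat_lit 395) (nat_lit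 258)))) (XT.nd (nat_lit 156) (nat_lit 228) (nat_lit 0) (XT.nd (nat_lit 78) (nat_lit 0) (nat_lit 0) (XT.lf (nat_lit 152) (nat_lit 2630172258) (nat_lit 0) (nat_lit 798019826) (nat_lit 76) (nat_lit 798019826) (nat_lit 101) (nat_lit 1) (nat_lit 99) (nat_lit 1) (nat_lit 100) (nat_lit 1) (nat_lit 368) (nat_lit 395) (nat_lit 257)) (XT.lf (nat_lit 0) (nat_lit 627460505) (nat_lit 0) (nat_lit 2929223789) (nat_lit 152) (nat_lit 627460505) (nat_lit 99) (nat_lit 3) (nat_lit 99) (nat_lit 1) (nat_lit 101) (nat_lit 1) (nat_lit 369) (nat_lit 395) (nat_lit 256))) (XT.nd (nat_lit 78) (nat_lit 76) (nat_lit 0) (XT.lf (nat_lit 76) (nat_lit 2017784822) (nat_lit 0) (nat_lit 106865424) (nat_lit 152) (nat_lit 2017784822) (nat_lit 98) (nat_lit 1) (nat_lit 97) (nat_lit 1) (nat_lit 99) (nat_lit 1) (nat_lit 370) (nat_lit 395) (nat_lit 255)) (XT.nd (nat_lit 78) (nat_lit 0) (nat_lit 0) (XT.lf (nat_lit 152) (nat_lit 2683142861) (nat_lit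 0) (nat_lit 709030279) (nat_lit 76) (nat_lit 709030279) (nat_lit 98) (nat_lit 1) (nat_lit 96) (nat_lit 1) (nat_lit 97) (nat_lit 1) (nat_lit 371) (nat_lit 395) (nat_lit 254)) (XT.lf (nat_lit 0) (nat_lit 671770689) (nat_lit 0) (nat_lit 2716857554) (nat_lit 152) (nat_lit 671770689) (nat_lit 96) (nat_lit 3) (nat_lit 96) (nat_lit 1) (nat_lit 98) (nat_lit 1) (nat_lit 372) (nat_lit 395) (nat_lit 253)))))) (XT.nd (nat_lit 390) (nat_lit 304) (nat_lit 0) (XT.nd (nat_lit 156) (nat_lit 228) (nat_lit 0) (XT.nd (nat_lit 78) (nat_lit 152) (nat_lit 0) (XT.lf (nat_lit 76) (nat_lit 16321555) (nat_lit 0) (nat_lit 2001842783) (nat_lit 76) (nat_lit 2001842783) (nat_lit 96) (nat_lit 3) (nat_lit 95) (nat_lit 1) (nat_lit 96) (nat_lit 1) (nat_lit 373) (nat_lit 395) (nat_lit 252)) (XT.lf (nat_lit 152) (nat_lit 2720121055) (nat_lit 0) (nat_lit 629964219) (nat_lit 76) (nat_lit 629964219) (nat_lit 95) (nat_lit 1) (nat_lit 93) (nat_lit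 1) (nat_lit 94) (nat_lit 1) (nat_lit 374) (nat_lit 395) (nat_lit 251))) (XT.nd (nat_lit 78) (nat_lit 228) (nat_lit 0) (XT.lf (nat_lit 0) (nat_lit 707811165) (nat_lit 0) (nat_lit 2524844356) (nat_lit 152) (nat_lit 707811165) (nat_lit 93) (nat_lit 3) (nat_lit 93) (nat_lit 1) (nat_lit 95) (nat_lit 1) (nat_lit 375) (nat_lit 395) (nat_lit 250)) (XT.nd (nat_lit 78) (nat_lit 152) (nat_lit 0) (XT.lf (nat_lit 76) (nat_lit 124365338) (nat_lit 0) (nat_lit 1888475233) (nat_lit 76) (nat_lit 1888475233) (nat_lit 93) (nat_lit 3) (nat_lit 92) (nat_lit 1) (nat_lit 93) (nat_lit 1) (nat_lit 376) (nat_lit 395) (nat_lit 249)) (XT.lf (nat_lit 152) (nat_lit 2743183952) (nat_lit 0) (nat_lit 559715050) (nat_lit 76) (nat_lit 559715050) (nat_lit 92) (nat_lit 1) (nat_lit 90) (nat_lit 1) (nat_lit 91) (nat_lit 1) (nat_lit 377) (nat_lit 395) (nat_lit 248))))) (XT.nd (nat_lit 156) (nat_lit 228) (nat_lit 0) (XT.nd (nat_lit 78) (nat_lit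 76) (nat_lit 0) (XT.lf (nat_lit 0) (nat_lit 736601061) (nat_lit 0) (nat_lit 2351011517) (nat_lit 152) (nat_lit 736601061) (nat_lit 90) (nat_lit 3) (nat_lit 90) (nat_lit 1) (nat_lit 92) (nat_lit 1) (nat_lit 378) (nat_lit 395) (nat_lit 247)) (XT.lf (nat_lit 76) (nat_lit 217160922) (nat_lit 0) (nat_lit 1784549715) (nat_lit 76) (nat_lit 1784549715) (nat_lit 90) (nat_lit 3) (nat_lit 89) (nat_lit 1) (nat_lit 90) (nat_lit 1) (nat_lit 379) (nat_lit 395) (nat_lit 246))) (XT.nd (nat_lit 78) (nat_lit 76) (nat_lit 0) (XT.lf (nat_lit 152) (nat_lit 2754168485) (nat_lit 0) (nat_lit 497299572) (nat_lit 76) (nat_lit 497299572) (nat_lit 89) (nat_lit 1) (nat_lit 87) (nat_lit 1) (nat_lit 88) (nat_lit 1) (nat_lit 380) (nat_lit 395) (nat_lit 245)) (XT.nd (nat_lit 78) (nat_lit 76) (nat_lit 0) (XT.lf (nat_lit 0) (nat_lit 759043035) (nat_lit 0) (nat_lit 2193425815) (nat_lit 152) (nat_lit 759043035) (nat_lit 87) (nat_lit 3)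 (nat_lit 87) (nat_lit 1) (nat_lit 89) (nat_lit 1) (nat_lit 381) (nat_lit 395) (nat_lit 244)) (XT.lf (nat_lit 76) (nat_lit 296501880) (nat_lit 0) (nat_lit 1689106522) (nat_lit 76) (nat_lit 1689106522) (nat_lit 87) (nat_lit 3) (nat_lit 86) (nat_lit 1) (nat_lit 87) (nat_lit 1) (nat_lit 382) (nat_lit 395) (nat_lit 243))))))))
noncomputable def ec279 : XT := (XT.nd (nat_lit 1482) (nat_lit 1368) (nat_lit 0) (XT.nd (nat_lit 702) (nat_lit 836) (nat_lit 0) (XT.nd (nat_lit 312) (nat_lit 304) (nat_lit 0) (XT.nd (nat_lit 156) (nat_lit 228) (nat_lit 0) (XT.nd (nat_lit 78) (nat_lit 0) (nat_lit 0) (XT.lf (nat_lit 152) (nat_lit 2754698438) (nat_lit 0) (nat_lit 441844229) (nat_lit 76) (nat_lit 441844229) (nat_lit 86) (nat_lit 1) (nat_lit 84) (nat_lit 1) (nat_lit 85) (nat_lit 1) (nat_lit 383) (nat_lit 395) (nat_lit 242)) (XT.lf (nat_lit 0) (nat_lit 775936345) (nat_lit 0) (nat_lit 2050366867) (nat_lit 152) (nat_lit 775936345)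 (nat_lit 84) (nat_lit 3) (nat_lit 84) (nat_lit 1) (nat_lit 86) (nat_lit 1) (nat_lit 384) (nat_lit 395) (nat_lit 241))) (XT.nd (nat_lit 78) (nat_lit 152) (nat_lit 0) (XT.lf (nat_lit 76) (nat_lit 363979064) (nat_lit 0) (nat_lit 1601290251) (nat_lit 76) (nat_lit 1601290251) (nat_lit 84) (nat_lit 3) (nat_lit 83) (nat_lit 1) (nat_lit 84) (nat_lit 1) (nat_lit 385) (nat_lit 395) (nat_lit 240)) (XT.lf (nat_lit 152) (nat_lit 2746208458) (nat_lit 0) (nat_lit 392572874) (nat_lit 76) (nat_lit 392572874) (nat_lit 83) (nat_lit 1) (nat_lit 81) (nat_lit 1) (nat_lit 82) (nat_lit 1) (nat_lit 386) (nat_lit 395) (nat_lit 239)))) (XT.nd (nat_lit 156) (nat_lit 228) (nat_lit 0) (XT.nd (nat_lit 78) (nat_lit 76) (nat_lit 0) (XT.lf (nat_lit 0) (nat_lit 787988460) (nat_lit 0) (nat_lit 1920303472) (nat_lit 152) (nat_lit 787988460) (nat_lit 81) (nat_lit 3) (nat_lit 81) (nat_lit 1) (nat_lit 83) (nat_lit 1) (nat_lit 387) (nat_lit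 395) (nat_lit 238)) (XT.lf (nat_lit 76) (nat_lit 421003290) (nat_lit 0) (nat_lit 1520338254) (nat_lit 76) (nat_lit 1520338254) (nat_lit 81) (nat_lit 3) (nat_lit 80) (nat_lit 1) (nat_lit 81) (nat_lit 1) (nat_lit 388) (nat_lit 395) (nat_lit 237))) (XT.nd (nat_lit 78) (nat_lit 76) (nat_lit 0) (XT.lf (nat_lit 152) (nat_lit 2729965378) (nat_lit 0) (nat_lit 348795914) (nat_lit 76) (nat_lit 348795914) (nat_lit 80) (nat_lit 1) (nat_lit 78) (nat_lit 1) (nat_lit 79) (nat_lit 1) (nat_lit 389) (nat_lit 395) (nat_lit 236)) (XT.nd (nat_lit 78) (nat_lit 76) (nat_lit 0) (XT.lf (nat_lit 0) (nat_lit 795825373) (nat_lit 0) (nat_lit 1801872595) (nat_lit 152) (nat_lit 795825373) (nat_lit 78) (nat_lit 3) (nat_lit 78) (nat_lit 1) (nat_lit 80) (nat_lit 1) (nat_lit 390) (nat_lit 395) (nat_lit 235)) (XT.lf (nat_lit 76) (nat_lit 468825491) (nat_lit 0) (nat_lit 1445570367) (nat_lit 76) (nat_lit 1445570367) (nat_lit 78) (nat_lit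 3) (nat_lit 77) (nat_lit 1) (nat_lit 78) (nat_lit 1) (nat_lit 391) (nat_lit 395) (nat_lit 234)))))) (XT.nd (nat_lit 390) (nat_lit 456) (nat_lit 0) (XT.nd (nat_lit 156) (nat_lit 228) (nat_lit 0) (XT.nd (nat_lit 78) (nat_lit 0) (nat_lit 0) (XT.lf (nat_lit 152) (nat_lit 2707087163) (nat_lit 0) (nat_lit 309900652) (nat_lit 76) (nat_lit 309900652) (nat_lit 77) (nat_lit 1) (nat_lit 75) (nat_lit 1) (nat_lit 76) (nat_lit 1) (nat_lit 392) (nat_lit 395) (nat_lit 233)) (XT.lf (nat_lit 0) (nat_lit 800000762) (nat_lit 0) (nat_lit 1693860689) (nat_lit 152) (nat_lit 800000762) (nat_lit 75) (nat_lit 3) (nat_lit 75) (nat_lit 1) (nat_lit 77) (nat_lit 1) (nat_lit 393) (nat_lit 395) (nat_lit 232))) (XT.nd (nat_lit 78) (nat_lit 152) (nat_lit 0) (XT.lf (nat_lit 76) (nat_lit 508554620) (nat_lit 0) (nat_lit 1376379791) (nat_lit 76) (nat_lit 1376379791) (nat_lit 75) (nat_lit 3) (nat_lit 74) (nat_lit 1) (nat_lit 75) (nat_lit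 1) (nat_lit 394) (nat_lit 395) (nat_lit 231)) (XT.nd (nat_lit 78) (nat_lit 0) (nat_lit 0) (XT.lf (nat_lit 152) (nat_lit 2678559731) (nat_lit 0) (nat_lit 275342715) (nat_lit 76) (nat_lit 275342715) (nat_lit 74) (nat_lit 1) (nat_lit 72) (nat_lit 1) (nat_lit 73) (nat_lit 1) (nat_lit 395) (nat_lit 395) (nat_lit 230)) (XT.lf (nat_lit 0) (nat_lit 801004126) (nat_lit 0) (nat_lit 1595187094) (nat_lit 152) (nat_lit 801004126) (nat_lit 72) (nat_lit 3) (nat_lit 72) (nat_lit 1) (nat_lit 74) (nat_lit 1) (nat_lit 396) (nat_lit 395) (nat_lit 229))))) (XT.nd (nat_lit 156) (nat_lit 228) (nat_lit 0) (XT.nd (nat_lit 78) (nat_lit 152) (nat_lit 0) (XT.lf (nat_lit 76) (nat_lit 541173555) (nat_lit 0) (nat_lit 1312224980) (nat_lit 76) (nat_lit 1312224980) (nat_lit 72) (nat_lit 3) (nat_lit 71) (nat_lit 1) (nat_lit 72) (nat_lit 1) (nat_lit 397) (nat_lit 395) (nat_lit 228)) (XT.lf (nat_lit 152) (nat_lit 2645251888) (nat_lit 0)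 (nat_lit 244638436) (nat_lit 76) (nat_lit 244638436) (nat_lit 71) (nat_lit 1) (nat_lit 69) (nat_lit 1) (nat_lit 70) (nat_lit 1) (nat_lit 398) (nat_lit 395) (nat_lit 227))) (XT.nd (nat_lit 78) (nat_lit 228) (nat_lit 0) (XT.lf (nat_lit 0) (nat_lit 799268016) (nat_lit 0) (nat_lit 1504889297) (nat_lit 152) (nat_lit 799268016) (nat_lit 69) (nat_lit 3) (nat_lit 69) (nat_lit 1) (nat_lit 71) (nat_lit 1) (nat_lit 399) (nat_lit 395) (nat_lit 226)) (XT.nd (nat_lit 78) (nat_lit 152) (nat_lit 0) (XT.lf (nat_lit 76) (nat_lit 567553230) (nat_lit 0) (nat_lit 1252622435) (nat_lit 76) (nat_lit 1252622435) (nat_lit 69) (nat_lit 3) (nat_lit 68) (nat_lit 1) (nat_lit 69) (nat_lit 1) (nat_lit 400) (nat_lit 395) (nat_lit 225)) (XT.lf (nat_lit 152) (nat_lit 2607928605) (nat_lit 0) (nat_lit 217358082) (nat_lit 76) (nat_lit 217358082) (nat_lit 68) (nat_lit 1) (nat_lit 66) (nat_lit 1) (nat_lit 67) (nat_lit 1) (nat_lit 401) (nat_lit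 395) (nat_lit 224))))))) (XT.nd (nat_lit 702) (nat_lit 684) (nat_lit 0) (XT.nd (nat_lit 312) (nat_lit 456) (nat_lit 0) (XT.nd (nat_lit 156) (nat_lit 152) (nat_lit 0) (XT.nd (nat_lit 78) (nat_lit 76) (nat_lit 0) (XT.lf (nat_lit 0) (nat_lit 795174450) (nat_lit 0) (nat_lit 1422109818) (nat_lit 152) (nat_lit 795174450) (nat_lit 66) (nat_lit 3) (nat_lit 66) (nat_lit 1) (nat_lit 68) (nat_lit 1) (nat_lit 402) (nat_lit 395) (nat_lit 223)) (XT.lf (nat_lit 76) (nat_lit 588465185) (nat_lit 0) (nat_lit 1197140300) (nat_lit 76) (nat_lit 1197140300) (nat_lit 66) (nat_lit 3) (nat_lit 65) (nat_lit 1) (nat_lit 66) (nat_lit 1) (nat_lit 403) (nat_lit 395) (nat_lit 222))) (XT.nd (nat_lit 78) (nat_lit 0) (nat_lit 0) (XT.lf (nat_lit 152) (nat_lit 2567262791) (nat_lit 0) (nat_lit 193119841) (nat_lit 76) (nat_lit 193119841) (nat_lit 65) (nat_lit 1) (nat_lit 63) (nat_lit 1) (nat_lit 64) (nat_lit 1) (nat_lit 404) (nat_lit 395)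 (nat_lit 221)) (XT.lf (nat_lit 0) (nat_lit 789060616) (nat_lit 0) (nat_lit 1346084571) (nat_lit 152) (nat_lit 789060616) (nat_lit 63) (nat_lit 3) (nat_lit 63) (nat_lit 1) (nat_lit 65) (nat_lit 1) (nat_lit 405) (nat_lit 395) (nat_lit 220)))) (XT.nd (nat_lit 156) (nat_lit 228) (nat_lit 0) (XT.nd (nat_lit 78) (nat_lit 152) (nat_lit 0) (XT.lf (nat_lit 76) (nat_lit 604592716) (nat_lit 0) (nat_lit 1145392672) (nat_lit 76) (nat_lit 1145392672) (nat_lit 63) (nat_lit 3) (nat_lit 62) (nat_lit 1) (nat_lit 63) (nat_lit 1) (nat_lit 406) (nat_lit 395) (nat_lit 219)) (XT.lf (nat_lit 152) (nat_lit 2523845761) (nat_lit 0) (nat_lit 171584477) (nat_lit 76) (nat_lit 171584477) (nat_lit 62) (nat_lit 1) (nat_lit 60) (nat_lit 1) (nat_lit 61) (nat_lit 1) (nat_lit 407) (nat_lit 395) (nat_lit 218))) (XT.nd (nat_lit 78) (nat_lit 228) (nat_lit 0) (XT.lf (nat_lit 0) (nat_lit 781223940) (nat_lit 0) (nat_lit 1276132510) (nat_lit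 152) (nat_lit 781223940) (nat_lit 60) (nat_lit 3) (nat_lit 60) (nat_lit 1) (nat_lit 62) (nat_lit 1) (nat_lit 408) (nat_lit 395) (nat_lit 217)) (XT.nd (nat_lit 78) (nat_lit 152) (nat_lit 0) (XT.lf (nat_lit 76) (nat_lit 616540779) (nat_lit 0) (nat_lit 1097034535) (nat_lit 76) (nat_lit 1097034535) (nat_lit 60) (nat_lit 3) (nat_lit 59) (nat_lit 1) (nat_lit 60) (nat_lit 1) (nat_lit 409) (nat_lit 395) (nat_lit 216)) (XT.lf (nat_lit 152) (nat_lit 2478196525) (nat_lit 0) (nat_lit 152450585) (nat_lit 76) (nat_lit 152450585) (nat_lit 59) (nat_lit 1) (nat_lit 57) (nat_lit 1) (nat_lit 58) (nat_lit 1) (nat_lit 410) (nat_lit 395) (nat_lit 215)))))) (XT.nd (nat_lit 390) (nat_lit 380) (nat_lit 0) (XT.nd (nat_lit 156) (nat_lit 228) (nat_lit 0) (XT.nd (nat_lit 78) (nat_lit 76) (nat_lit 0) (XT.lf (nat_lit 0) (nat_lit 771926579) (nat_lit 0) (nat_lit 1211646432) (nat_lit 152) (nat_lit 771926579) (nat_lit 57) (nat_lit 3)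 (nat_lit 57) (nat_lit 1) (nat_lit 59) (nat_lit 1) (nat_lit 411) (nat_lit 395) (nat_lit 214)) (XT.lf (nat_lit 76) (nat_lit 624844789) (nat_lit 0) (nat_lit 1051757268) (nat_lit 76) (nat_lit 1051757268) (nat_lit 57) (nat_lit 3) (nat_lit 56) (nat_lit 1) (nat_lit 57) (nat_lit 1) (nat_lit 412) (nat_lit 395) (nat_lit 213))) (XT.nd (nat_lit 78) (nat_lit 76) (nat_lit 0) (XT.lf (nat_lit 152) (nat_lit 2430770034) (nat_lit 0) (nat_lit 135450370) (nat_lit 76) (nat_lit 135450370) (nat_lit 56) (nat_lit 1) (nat_lit 54) (nat_lit 1) (nat_lit 55) (nat_lit 1) (nat_lit 413) (nat_lit 395) (nat_lit 212)) (XT.nd (nat_lit 78) (nat_lit 76) (nat_lit 0) (XT.lf (nat_lit 0) (nat_lit 761399414) (nat_lit 0) (nat_lit 1152084808) (nat_lit 152) (nat_lit 761399414) (nat_lit 54) (nat_lit 3) (nat_lit 54) (nat_lit 1) (nat_lit 56) (nat_lit 1) (nat_lit 414) (nat_lit 395) (nat_lit 211)) (XT.lf (nat_lit 76) (nat_lit 629978436) (nat_lit 0) (nat_lit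 1009284645) (nat_lit 76) (nat_lit 1009284645) (nat_lit 54) (nat_lit 3) (nat_lit 53) (nat_lit 1) (nat_lit 54) (nat_lit 1) (nat_lit 415) (nat_lit 395) (nat_lit 210))))) (XT.nd (nat_lit 156) (nat_lit 228) (nat_lit 0) (XT.nd (nat_lit 78) (nat_lit 0) (nat_lit 0) (XT.lf (nat_lit 152) (nat_lit 2381964507) (nat_lit 0) (nat_lit 120345900) (nat_lit 76) (nat_lit 120345900) (nat_lit 53) (nat_lit 1) (nat_lit 51) (nat_lit 1) (nat_lit 52) (nat_lit 1) (nat_lit 416) (nat_lit 395) (nat_lit 209)) (XT.lf (nat_lit 0) (nat_lit 749845602) (nat_lit 0) (nat_lit 1096964515) (nat_lit 152) (nat_lit 749845602) (nat_lit 51) (nat_lit 3) (nat_lit 51) (nat_lit 1) (nat_lit 53) (nat_lit 1) (nat_lit 417) (nat_lit 395) (nat_lit 208))) (XT.nd (nat_lit 78) (nat_lit 152) (nat_lit 0) (XT.lf (nat_lit 76) (nat_lit 632360627) (nat_lit 0) (nat_lit 969369281) (nat_lit 76) (nat_lit 969369281) (nat_lit 51) (nat_lit 3) (nat_lit 50) (nat_lit 1) (nat_lit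 51) (nat_lit 1) (nat_lit 418) (nat_lit 395) (nat_lit 207)) (XT.nd (nat_lit 78) (nat_lit 0) (nat_lit 0) (XT.lf (nat_lit 152) (nat_lit 2332127929) (nat_lit 0) (nat_lit 106925773) (nat_lit 76) (nat_lit 106925773) (nat_lit 50) (nat_lit 1) (nat_lit 48) (nat_lit 1) (nat_lit 49) (nat_lit 1) (nat_lit 419) (nat_lit 395) (nat_lit 206)) (XT.lf (nat_lit 0) (nat_lit 737443721) (nat_lit 0) (nat_lit 1045854379) (nat_lit 152) (nat_lit 737443721) (nat_lit 48) (nat_lit 3) (nat_lit 48) (nat_lit 1) (nat_lit 50) (nat_lit 1) (nat_lit 420) (nat_lit 395) (nat_lit 205))))))))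
noncomputable def ec280 : XT := (XT.nd (nat_lit 38844) (nat_lit 0) (nat_lit 20976) (XT.nd (nat_lit 38142) (nat_lit 0) (nat_lit 25460) (XT.nd (nat_lit 312) (nat_lit 380) (nat_lit 0) (XT.nd (nat_lit 156) (nat_lit 76) (nat_lit 0) (XT.nd (nat_lit 78) (nat_lit 152) (nat_lit 0) (XT.lf (nat_lit 76) (nat_lit 632361650) (nat_lit 0) (nat_lit 931789474) (nat_lit 76) (nat_lit 931789474) (nat_lit 48) (nat_lit 3) (nat_lit 47) (nat_lit 1) (nat_lit 48) (nat_lit 1) (nat_lit 421) (nat_lit 395) (nat_lit 204)) (XT.lf (nat_lit 152) (nat_lit 2281563823) (nat_lit 0) (nat_lit 95002164) (nat_lit 76) (nat_lit 95002164) (nat_lit 47) (nat_lit 1) (nat_lit 45) (nat_lit 1) (nat_lit 46) (nat_lit 1) (nat_lit 422) (nat_lit 395) (nat_lit 203))) (XT.nd (nat_lit 78) (nat_lit 76) (nat_lit 0) (XT.lf (nat_lit 0) (nat_lit 724350569) (nat_lit 0) (nat_lit 998369444) (nat_lit 152) (nat_lit 724350569) (nat_lit 45) (nat_lit 3) (nat_lit 45) (nat_lit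 1) (nat_lit 47) (nat_lit 1) (nat_lit 423) (nat_lit 395) (nat_lit 202)) (XT.lf (nat_lit 76) (nat_lit 630308654) (nat_lit 0) (nat_lit 896346397) (nat_lit 76) (nat_lit 896346397) (nat_lit 45) (nat_lit 3) (nat_lit 44) (nat_lit 1) (nat_lit 45) (nat_lit 1) (nat_lit 424) (nat_lit 395) (nat_lit 201)))) (XT.nd (nat_lit 156) (nat_lit 228) (nat_lit 0) (XT.nd (nat_lit 78) (nat_lit 0) (nat_lit 0) (XT.lf (nat_lit 152) (nat_lit 2230536377) (nat_lit 0) (nat_lit 84408193) (nat_lit 76) (nat_lit 84408193) (nat_lit 44) (nat_lit 1) (nat_lit 42) (nat_lit 1) (nat_lit 43) (nat_lit 1) (nat_lit 425) (nat_lit 395) (nat_lit 200)) (XT.lf (nat_lit 0) (nat_lit 710703647) (nat_lit 0) (nat_lit 954165868) (nat_lit 152) (nat_lit 710703647) (nat_lit 42) (nat_lit 3) (nat_lit 42) (nat_lit 1) (nat_lit 44) (nat_lit 1) (nat_lit 426) (nat_lit 395) (nat_lit 199))) (XT.nd (nat_lit 78) (nat_lit 152) (nat_lit 0) (XT.lf (nat_lit 76) (nat_lit 626490510)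 (nat_lit 0) (nat_lit 862861599) (nat_lit 76) (nat_lit 862861599) (nat_lit 42) (nat_lit 3) (nat_lit 41) (nat_lit 1) (nat_lit 42) (nat_lit 1) (nat_lit 427) (nat_lit 395) (nat_lit 198)) (XT.nd (nat_lit 37518) (nat_lit 0) (nat_lit 25460) (XT.lf (nat_lit 152) (nat_lit 2179274982) (nat_lit 0) (nat_lit 74995586) (nat_lit 76) (nat_lit 74995586) (nat_lit 41) (nat_lit 1) (nat_lit 39) (nat_lit 1) (nat_lit 40) (nat_lit 1) (nat_lit 428) (nat_lit 395) (nat_lit 197)) (XT.lf (nat_lit 1292) (nat_lit 1952312167) (nat_lit 0) (nat_lit 6716861814) (nat_lit 1292) (nat_lit 1952312167) (nat_lit 391) (nat_lit 1) (nat_lit 374) (nat_lit 0) (nat_lit 391) (nat_lit 0) (nat_lit 228) (nat_lit 396) (nat_lit 396)))))) (XT.nd (nat_lit 312) (nat_lit 0) (nat_lit 152) (XT.nd (nat_lit 156) (nat_lit 0) (nat_lit 76) (XT.nd (nat_lit 78) (nat_lit 0) (nat_lit 76) (XT.lf (nat_lit 1292) (nat_lit 7629670159) (nat_lit 76) (nat_lit 6651010228) (nat_lit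 0) (nat_lit 6651010228) (nat_lit 391) (nat_lit 1) (nat_lit 375) (nat_lit 1) (nat_lit 374) (nat_lit 0) (nat_lit 229) (nat_lit 396) (nat_lit 395)) (XT.lf (nat_lit 1292) (nat_lit 3689890401) (nat_lit 0) (nat_lit 13247494354) (nat_lit 1216) (nat_lit 3689890401) (nat_lit 392) (nat_lit 1) (nat_lit 375) (nat_lit 1) (nat_lit 391) (nat_lit 1) (nat_lit 230) (nat_lit 396) (nat_lit 394))) (XT.nd (nat_lit 78) (nat_lit 0) (nat_lit 76) (XT.lf (nat_lit 1292) (nat_lit 7007292383) (nat_lit 76) (nat_lit 6660325475) (nat_lit 0) (nat_lit 6660325475) (nat_lit 392) (nat_lit 1) (nat_lit 376) (nat_lit 1) (nat_lit 375) (nat_lit 1) (nat_lit 231) (nat_lit 396) (nat_lit 393)) (XT.lf (nat_lit 1292) (nat_lit 3288137003) (nat_lit 0) (nat_lit 13459035154) (nat_lit 1216) (nat_lit 3288137003) (nat_lit 393) (nat_lit 1) (nat_lit 376) (nat_lit 1) (nat_lit 392) (nat_lit 1) (nat_lit 232) (nat_lit 396) (nat_lit 392)))) (XT.nd (nat_lit 156)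 (nat_lit 0) (nat_lit 76) (XT.nd (nat_lit 78) (nat_lit 0) (nat_lit 76) (XT.lf (nat_lit 1292) (nat_lit 6025858240) (nat_lit 76) (nat_lit 6860748416) (nat_lit 0) (nat_lit 6860748416) (nat_lit 393) (nat_lit 1) (nat_lit 377) (nat_lit 1) (nat_lit 376) (nat_lit 1) (nat_lit 233) (nat_lit 396) (nat_lit 391)) (XT.lf (nat_lit 1292) (nat_lit 2715906018) (nat_lit 0) (nat_lit 14034238231) (nat_lit 1216) (nat_lit 2715906018) (nat_lit 394) (nat_lit 1) (nat_lit 377) (nat_lit 1) (nat_lit 393) (nat_lit 1) (nat_lit 234) (nat_lit 396) (nat_lit 390))) (XT.nd (nat_lit 78) (nat_lit 0) (nat_lit 76) (XT.lf (nat_lit 1292) (nat_lit 4717477580) (nat_lit 76) (nat_lit 7235726867) (nat_lit 0) (nat_lit 7235726867) (nat_lit 394) (nat_lit 1) (nat_lit 378) (nat_lit 1) (nat_lit 377) (nat_lit 1) (nat_lit 235) (nat_lit 396) (nat_lit 389)) (XT.nd (nat_lit 78) (nat_lit 0) (nat_lit 0) (XT.lf (nat_lit 1292) (nat_lit 1988620641) (nat_lit 0) (nat_lit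 14941282087) (nat_lit 1216) (nat_lit 1988620641) (nat_lit 395) (nat_lit 1) (nat_lit 378) (nat_lit 1) (nat_lit 394) (nat_lit 1) (nat_lit 236) (nat_lit 396) (nat_lit 388)) (XT.lf (nat_lit 1292) (nat_lit 3112082107) (nat_lit 76) (nat_lit 7769821388) (nat_lit 0) (nat_lit 7769821388) (nat_lit 395) (nat_lit 1) (nat_lit 379) (nat_lit 1) (nat_lit 378) (nat_lit 1) (nat_lit 237) (nat_lit 396) (nat_lit 387))))))) (XT.nd (nat_lit 702) (nat_lit 2964) (nat_lit 0) (XT.nd (nat_lit 312) (nat_lit 684) (nat_lit 0) (XT.nd (nat_lit 156) (nat_lit 1216) (nat_lit 0) (XT.nd (nat_lit 78) (nat_lit 0) (nat_lit 0) (XT.lf (nat_lit 1292) (nat_lit 1120654524) (nat_lit 0) (nat_lit 16150490722) (nat_lit 1216) (nat_lit 1120654524) (nat_lit 396) (nat_lit 1) (nat_lit 379) (nat_lit 1) (nat_lit 395) (nat_lit 1) (nat_lit 238) (nat_lit 396) (nat_lit 386)) (XT.lf (nat_lit 1292) (nat_lit 1237560167) (nat_lit 76) (nat_lit 8448636667) (nat_lit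 0) (nat_lit 8448636667) (nat_lit 396) (nat_lit 1) (nat_lit 380) (nat_lit 1) (nat_lit 379) (nat_lit 1) (nat_lit 239) (nat_lit 396) (nat_lit 385))) (XT.nd (nat_lit 78) (nat_lit 1292) (nat_lit 0) (XT.lf (nat_lit 1292) (nat_lit 125396810) (nat_lit 0) (nat_lit 17634201181) (nat_lit 1216) (nat_lit 125396810) (nat_lit 397) (nat_lit 1) (nat_lit 380) (nat_lit 1) (nat_lit 396) (nat_lit 1) (nat_lit 240) (nat_lit 396) (nat_lit 384)) (XT.lf (nat_lit 1368) (nat_lit 8387100723) (nat_lit 0) (nat_lit 862942236) (nat_lit 1292) (nat_lit 8387100723) (nat_lit 381) (nat_lit 1) (nat_lit 363) (nat_lit 1) (nat_lit 380) (nat_lit 1) (nat_lit 241) (nat_lit 396) (nat_lit 383)))) (XT.nd (nat_lit 156) (nat_lit 684) (nat_lit 0) (XT.nd (nat_lit 78) (nat_lit 0) (nat_lit 76) (XT.lf (nat_lit 1368) (nat_lit 15446058132) (nat_lit 76) (nat_lit 975032921) (nat_lit 0) (nat_lit 975032921) (nat_lit 381) (nat_lit 1) (nat_lit 364) (nat_lit 1)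 (nat_lit 363) (nat_lit 1) (nat_lit 242) (nat_lit 396) (nat_lit 382)) (XT.lf (nat_lit 1368) (nat_lit 7001833666) (nat_lit 0) (nat_lit 3154002613) (nat_lit 1292) (nat_lit 7001833666) (nat_lit 382) (nat_lit 1) (nat_lit 364) (nat_lit 1) (nat_lit 381) (nat_lit 1) (nat_lit 243) (nat_lit 396) (nat_lit 381))) (XT.nd (nat_lit 78) (nat_lit 760) (nat_lit 0) (XT.lf (nat_lit 1368) (nat_lit 12572366323) (nat_lit 76) (nat_lit 2176447115) (nat_lit 0) (nat_lit 2176447115) (nat_lit 382) (nat_lit 1) (nat_lit 365) (nat_lit 1) (nat_lit 364) (nat_lit 1) (nat_lit 244) (nat_lit 396) (nat_lit 380)) (XT.nd (nat_lit 78) (nat_lit 836) (nat_lit 0) (XT.lf (nat_lit 76) (nat_lit 5529137408) (nat_lit 0) (nat_lit 5637719950) (nat_lit 1292) (nat_lit 5529137408) (nat_lit 366) (nat_lit 1) (nat_lit 365) (nat_lit 1) (nat_lit 382) (nat_lit 1) (nat_lit 245) (nat_lit 396) (nat_lit 379)) (XT.lf (nat_lit 912) (nat_lit 9533011300) (nat_lit 0)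 (nat_lit 3469392734) (nat_lit 836) (nat_lit 3469392734) (nat_lit 366) (nat_lit 1) (nat_lit 354) (nat_lit 1) (nat_lit 365) (nat_lit 1) (nat_lit 246) (nat_lit 396) (nat_lit 378)))))) (XT.nd (nat_lit 390) (nat_lit 1748) (nat_lit 0) (XT.nd (nat_lit 156) (nat_lit 608) (nat_lit 0) (XT.nd (nat_lit 78) (nat_lit 608) (nat_lit 0) (XT.lf (nat_lit 76) (nat_lit 3978893341) (nat_lit 0) (nat_lit 8293593011) (nat_lit 912) (nat_lit 3978893341) (nat_lit 355) (nat_lit 1) (nat_lit 354) (nat_lit 1) (nat_lit 366) (nat_lit 1) (nat_lit 247) (nat_lit 396) (nat_lit 377)) (XT.lf (nat_lit 684) (nat_lit 6347132660) (nat_lit 0) (nat_lit 4843940815) (nat_lit 608) (nat_lit 4843940815) (nat_lit 355) (nat_lit 1) (nat_lit 346) (nat_lit 1) (nat_lit 354) (nat_lit 1) (nat_lit 248) (nat_lit 396) (nat_lit 376))) (XT.nd (nat_lit 78) (nat_lit 608) (nat_lit 0) (XT.lf (nat_lit 76) (nat_lit 2360273995) (nat_lit 0) (nat_lit 11102572424) (nat_lit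 684) (nat_lit 2360273995) (nat_lit 347) (nat_lit 1) (nat_lit 346) (nat_lit 1) (nat_lit 355) (nat_lit 1) (nat_lit 249) (nat_lit 396) (nat_lit 375)) (XT.nd (nat_lit 78) (nat_lit 0) (nat_lit 0) (XT.lf (nat_lit 684) (nat_lit 3032490827) (nat_lit 0) (nat_lit 6290868514) (nat_lit 608) (nat_lit 6290868514) (nat_lit 347) (nat_lit 1) (nat_lit 338) (nat_lit 1) (nat_lit 346) (nat_lit 1) (nat_lit 250) (nat_lit 396) (nat_lit 374)) (XT.lf (nat_lit 76) (nat_lit 681787856) (nat_lit 0) (nat_lit 14046969326) (nat_lit 684) (nat_lit 681787856) (nat_lit 339) (nat_lit 1) (nat_lit 338) (nat_lit 1) (nat_lit 347) (nat_lit 1) (nat_lit 251) (nat_lit 396) (nat_lit 373))))) (XT.nd (nat_lit 156) (nat_lit 532) (nat_lit 0) (XT.nd (nat_lit 78) (nat_lit 608) (nat_lit 0) (XT.lf (nat_lit 76) (nat_lit 7410960652) (nat_lit 0) (nat_lit 386748552) (nat_lit 608) (nat_lit 7410960652) (nat_lit 331) (nat_lit 1) (nat_lit 330) (nat_lit 1) (nat_lit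 338) (nat_lit 1) (nat_lit 252) (nat_lit 396) (nat_lit 372)) (XT.lf (nat_lit 684) (nat_lit 12935001999) (nat_lit 0) (nat_lit 1038397348) (nat_lit 608) (nat_lit 1038397348) (nat_lit 331) (nat_lit 1) (nat_lit 322) (nat_lit 1) (nat_lit 330) (nat_lit 1) (nat_lit 253) (nat_lit 396) (nat_lit 371))) (XT.nd (nat_lit 78) (nat_lit 532) (nat_lit 0) (XT.lf (nat_lit 76) (nat_lit 5487486090) (nat_lit 0) (nat_lit 3841955348) (nat_lit 684) (nat_lit 5487486090) (nat_lit 323) (nat_lit 1) (nat_lit 322) (nat_lit 1) (nat_lit 331) (nat_lit 1) (nat_lit 254) (nat_lit 396) (nat_lit 370)) (XT.nd (nat_lit 78) (nat_lit 0) (nat_lit 0) (XT.lf (nat_lit 608) (nat_lit 9034364381) (nat_lit 0) (nat_lit 2796136354) (nat_lit 532) (nat_lit 2796136354) (nat_lit 323) (nat_lit 1) (nat_lit 315) (nat_lit 1) (nat_lit 322) (nat_lit 1) (nat_lit 255) (nat_lit 396) (nat_lit 369)) (XT.lf (nat_lit 76) (nat_lit 3530414993) (nat_lit 0) (nat_lit 7378453788)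 (nat_lit 608) (nat_lit 3530414993) (nat_lit 316) (nat_lit 1) (nat_lit 315) (nat_lit 1) (nat_lit 323) (nat_lit 1) (nat_lit 256) (nat_lit 396) (nat_lit 368))))))))
noncomputable def ec281 : XT := (XT.nd (nat_lit 1482) (nat_lit 3800) (nat_lit 0) (XT.nd (nat_lit 702) (nat_lit 2508) (nat_lit 0) (XT.nd (nat_lit 312) (nat_lit 912) (nat_lit 0) (XT.nd (nat_lit 156) (nat_lit 1064) (nat_lit 0) (XT.nd (nat_lit 78) (nat_lit 0) (nat_lit 0) (XT.lf (nat_lit 608) (nat_lit 5072439395) (nat_lit 0) (nat_lit 4591420516) (nat_lit 532) (nat_lit 4591420516) (nat_lit 316) (nat_lit 1) (nat_lit 308) (nat_lit 1) (nat_lit 315) (nat_lit 1) (nat_lit 257) (nat_lit 396) (nat_lit 367)) (XT.lf (nat_lit 76) (nat_lit 1545870459) (nat_lit 0) (nat_lit 10983432700) (nat_lit 608) (nat_lit 1545870459) (nat_lit 309) (nat_lit 1) (nat_lit 308) (nat_lit 1) (nat_lit 316) (nat_lit 1) (nat_lit 258) (nat_lit 396) (nat_lit 366))) (XT.nd (nat_lit 78)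 (nat_lit 608) (nat_lit 0) (XT.lf (nat_lit 532) (nat_lit 1061051978) (nat_lit 0) (nat_lit 6418062165) (nat_lit 456) (nat_lit 6418062165) (nat_lit 309) (nat_lit 1) (nat_lit 302) (nat_lit 1) (nat_lit 308) (nat_lit 1) (nat_lit 259) (nat_lit 396) (nat_lit 365)) (XT.lf (nat_lit 608) (nat_lit 12811556755) (nat_lit 0) (nat_lit 455983387) (nat_lit 532) (nat_lit 455983387) (nat_lit 302) (nat_lit 1) (nat_lit 294) (nat_lit 1) (nat_lit 301) (nat_lit 1) (nat_lit 260) (nat_lit 396) (nat_lit 364)))) (XT.nd (nat_lit 156) (nat_lit 456) (nat_lit 0) (XT.nd (nat_lit 78) (nat_lit 456) (nat_lit 0) (XT.lf (nat_lit 76) (nat_lit 5310183678) (nat_lit 0) (nat_lit 2930569593) (nat_lit 608) (nat_lit 5310183678) (nat_lit 295) (nat_lit 1) (nat_lit 294) (nat_lit 1) (nat_lit 302) (nat_lit 1) (nat_lit 261) (nat_lit 396) (nat_lit 363)) (XT.lf (nat_lit 532) (nat_lit 8464267933) (nat_lit 0) (nat_lit 2459136201) (nat_lit 456) (nat_lit 2459136201)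 (nat_lit 295) (nat_lit 1) (nat_lit 288) (nat_lit 1) (nat_lit 294) (nat_lit 1) (nat_lit 262) (nat_lit 396) (nat_lit 362))) (XT.nd (nat_lit 78) (nat_lit 456) (nat_lit 0) (XT.lf (nat_lit 76) (nat_lit 3143581445) (nat_lit 0) (nat_lit 6929444676) (nat_lit 532) (nat_lit 3143581445) (nat_lit 289) (nat_lit 1) (nat_lit 288) (nat_lit 1) (nat_lit 295) (nat_lit 1) (nat_lit 263) (nat_lit 396) (nat_lit 361)) (XT.nd (nat_lit 78) (nat_lit 0) (nat_lit 0) (XT.lf (nat_lit 532) (nat_lit 4105532941) (nat_lit 0) (nat_lit 4473998069) (nat_lit 456) (nat_lit 4473998069) (nat_lit 289) (nat_lit 1) (nat_lit 282) (nat_lit 1) (nat_lit 288) (nat_lit 1) (nat_lit 264) (nat_lit 396) (nat_lit 360)) (XT.lf (nat_lit 76) (nat_lit 973398385) (nat_lit 0) (nat_lit 10947219733) (nat_lit 532) (nat_lit 973398385) (nat_lit 283) (nat_lit 1) (nat_lit 282) (nat_lit 1) (nat_lit 289) (nat_lit 1) (nat_lit 265) (nat_lit 396) (nat_lit 359)))))) (XT.nd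 (nat_lit 390) (nat_lit 1216) (nat_lit 0) (XT.nd (nat_lit 156) (nat_lit 380) (nat_lit 0) (XT.nd (nat_lit 78) (nat_lit 456) (nat_lit 0) (XT.lf (nat_lit 76) (nat_lit 6242281902) (nat_lit 0) (nat_lit 251386193) (nat_lit 456) (nat_lit 6242281902) (nat_lit 277) (nat_lit 1) (nat_lit 276) (nat_lit 1) (nat_lit 282) (nat_lit 1) (nat_lit 266) (nat_lit 396) (nat_lit 358)) (XT.lf (nat_lit 532) (nat_lit 10211913094) (nat_lit 0) (nat_lit 1184703433) (nat_lit 456) (nat_lit 1184703433) (nat_lit 277) (nat_lit 1) (nat_lit 270) (nat_lit 1) (nat_lit 276) (nat_lit 1) (nat_lit 267) (nat_lit 396) (nat_lit 357))) (XT.nd (nat_lit 78) (nat_lit 380) (nat_lit 0) (XT.lf (nat_lit 76) (nat_lit 3952174021) (nat_lit 0) (nat_lit 4523900772) (nat_lit 532) (nat_lit 3952174021) (nat_lit 271) (nat_lit 1) (nat_lit 270) (nat_lit 1) (nat_lit 277) (nat_lit 1) (nat_lit 268) (nat_lit 396) (nat_lit 356)) (XT.nd (nat_lit 78) (nat_lit 0) (nat_lit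 0) (XT.lf (nat_lit 456) (nat_lit 5619641655) (nat_lit 0) (nat_lit 3329351295) (nat_lit 380) (nat_lit 3329351295) (nat_lit 271) (nat_lit 1) (nat_lit 265) (nat_lit 1) (nat_lit 270) (nat_lit 1) (nat_lit 269) (nat_lit 396) (nat_lit 355)) (XT.lf (nat_lit 76) (nat_lit 1672920048) (nat_lit 0) (nat_lit 8785345150) (nat_lit 456) (nat_lit 1672920048) (nat_lit 266) (nat_lit 1) (nat_lit 265) (nat_lit 1) (nat_lit 271) (nat_lit 1) (nat_lit 270) (nat_lit 396) (nat_lit 354))))) (XT.nd (nat_lit 156) (nat_lit 380) (nat_lit 0) (XT.nd (nat_lit 78) (nat_lit 456) (nat_lit 0) (XT.lf (nat_lit 456) (nat_lit 1052134935) (nat_lit 0) (nat_lit 5466834416) (nat_lit 380) (nat_lit 5466834416) (nat_lit 266) (nat_lit 1) (nat_lit 260) (nat_lit 1) (nat_lit 265) (nat_lit 1) (nat_lit 271) (nat_lit 396) (nat_lit 353)) (XT.lf (nat_lit 456) (nat_lit 10670105235) (nat_lit 0) (nat_lit 586780521) (nat_lit 380) (nat_lit 586780521) (nat_lit 260)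 (nat_lit 1) (nat_lit 254) (nat_lit 1) (nat_lit 259) (nat_lit 1) (nat_lit 272) (nat_lit 396) (nat_lit 352))) (XT.nd (nat_lit 78) (nat_lit 380) (nat_lit 0) (XT.lf (nat_lit 76) (nat_lit 4142615780) (nat_lit 0) (nat_lit 3417065548) (nat_lit 456) (nat_lit 4142615780) (nat_lit 255) (nat_lit 1) (nat_lit 254) (nat_lit 1) (nat_lit 260) (nat_lit 1) (nat_lit 273) (nat_lit 396) (nat_lit 351)) (XT.nd (nat_lit 78) (nat_lit 0) (nat_lit 0) (XT.lf (nat_lit 456) (nat_lit 5936319583) (nat_lit 0) (nat_lit 2813875079) (nat_lit 380) (nat_lit 2813875079) (nat_lit 255) (nat_lit 1) (nat_lit 249) (nat_lit 1) (nat_lit 254) (nat_lit 1) (nat_lit 274) (nat_lit 396) (nat_lit 350)) (XT.lf (nat_lit 76) (nat_lit 1798523538) (nat_lit 0) (nat_lit 7831109432) (nat_lit 456) (nat_lit 1798523538) (nat_lit 250) (nat_lit 1) (nat_lit 249) (nat_lit 1) (nat_lit 255) (nat_lit 1) (nat_lit 275) (nat_lit 396) (nat_lit 349))))))) (XT.nd (nat_lit 702)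 (nat_lit 1748) (nat_lit 0) (XT.nd (nat_lit 312) (nat_lit 988) (nat_lit 0) (XT.nd (nat_lit 156) (nat_lit 304) (nat_lit 0) (XT.nd (nat_lit 78) (nat_lit 456) (nat_lit 0) (XT.lf (nat_lit 380) (nat_lit 1249133138) (nat_lit 0) (nat_lit 5022416297) (nat_lit 304) (nat_lit 5022416297) (nat_lit 250) (nat_lit 1) (nat_lit 245) (nat_lit 1) (nat_lit 249) (nat_lit 1) (nat_lit 276) (nat_lit 396) (nat_lit 348)) (XT.lf (nat_lit 456) (nat_lit 10130179296) (nat_lit 0) (nat_lit 516269724) (nat_lit 380) (nat_lit 516269724) (nat_lit 245) (nat_lit 1) (nat_lit 239) (nat_lit 1) (nat_lit 244) (nat_lit 1) (nat_lit 277) (nat_lit 396) (nat_lit 347))) (XT.nd (nat_lit 78) (nat_lit 304) (nat_lit 0) (XT.lf (nat_lit 76) (nat_lit 3855277764) (nat_lit 0) (nat_lit 3321467901) (nat_lit 456) (nat_lit 3855277764) (nat_lit 240) (nat_lit 1) (nat_lit 239) (nat_lit 1) (nat_lit 245) (nat_lit 1) (nat_lit 278) (nat_lit 396) (nat_lit 346)) (XT.lf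 (nat_lit 380) (nat_lit 5328842829) (nat_lit 0) (nat_lit 2787671748) (nat_lit 304) (nat_lit 2787671748) (nat_lit 240) (nat_lit 1) (nat_lit 235) (nat_lit 1) (nat_lit 239) (nat_lit 1) (nat_lit 279) (nat_lit 396) (nat_lit 345)))) (XT.nd (nat_lit 156) (nat_lit 684) (nat_lit 0) (XT.nd (nat_lit 78) (nat_lit 304) (nat_lit 0) (XT.lf (nat_lit 76) (nat_lit 1481869791) (nat_lit 0) (nat_lit 7814796326) (nat_lit 380) (nat_lit 1481869791) (nat_lit 236) (nat_lit 1) (nat_lit 235) (nat_lit 1) (nat_lit 240) (nat_lit 1) (nat_lit 280) (nat_lit 396) (nat_lit 344)) (XT.lf (nat_lit 380) (nat_lit 590907187) (nat_lit 0) (nat_lit 5031703250) (nat_lit 304) (nat_lit 5031703250) (nat_lit 236) (nat_lit 1) (nat_lit 231) (nat_lit 1) (nat_lit 235) (nat_lit 1) (nat_lit 281) (nat_lit 396) (nat_lit 343))) (XT.nd (nat_lit 78) (nat_lit 304) (nat_lit 0) (XT.lf (nat_lit 380) (nat_lit 8830728430) (nat_lit 0) (nat_lit 850907250) (nat_lit 304)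 (nat_lit 850907250) (nat_lit 231) (nat_lit 1) (nat_lit 226) (nat_lit 1) (nat_lit 230) (nat_lit 1) (nat_lit 282) (nat_lit 396) (nat_lit 342)) (XT.nd (nat_lit 78) (nat_lit 304) (nat_lit 0) (XT.lf (nat_lit 76) (nat_lit 3205078745) (nat_lit 0) (nat_lit 4001449371) (nat_lit 380) (nat_lit 3205078745) (nat_lit 227) (nat_lit 1) (nat_lit 226) (nat_lit 1) (nat_lit 231) (nat_lit 1) (nat_lit 283) (nat_lit 396) (nat_lit 341)) (XT.lf (nat_lit 380) (nat_lit 4020858723) (nat_lit 0) (nat_lit 3136095931) (nat_lit 304) (nat_lit 3136095931) (nat_lit 227) (nat_lit 1) (nat_lit 222) (nat_lit 1) (nat_lit 226) (nat_lit 1) (nat_lit 284) (nat_lit 396) (nat_lit 340)))))) (XT.nd (nat_lit 390) (nat_lit 912) (nat_lit 0) (XT.nd (nat_lit 156) (nat_lit 532) (nat_lit 0) (XT.nd (nat_lit 78) (nat_lit 304) (nat_lit 0) (XT.lf (nat_lit 76) (nat_lit 830670349) (nat_lit 0) (nat_lit 8515447177) (nat_lit 380) (nat_lit 830670349) (nat_lit 223)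 (nat_lit 1) (nat_lit 222) (nat_lit 1) (nat_lit 227) (nat_lit 1) (nat_lit 285) (nat_lit 396) (nat_lit 339)) (XT.lf (nat_lit 76) (nat_lit 4681123991) (nat_lit 0) (nat_lit 699026283) (nat_lit 304) (nat_lit 4681123991) (nat_lit 219) (nat_lit 1) (nat_lit 218) (nat_lit 1) (nat_lit 222) (nat_lit 1) (nat_lit 286) (nat_lit 396) (nat_lit 338))) (XT.nd (nat_lit 78) (nat_lit 228) (nat_lit 0) (XT.lf (nat_lit 380) (nat_lit 6966505499) (nat_lit 0) (nat_lit 1490742523) (nat_lit 304) (nat_lit 1490742523) (nat_lit 219) (nat_lit 1) (nat_lit 214) (nat_lit 1) (nat_lit 218) (nat_lit 1) (nat_lit 287) (nat_lit 396) (nat_lit 337)) (XT.nd (nat_lit 78) (nat_lit 228) (nat_lit 0) (XT.lf (nat_lit 76) (nat_lit 2285783310) (nat_lit 0) (nat_lit 5264430741) (nat_lit 380) (nat_lit 2285783310) (nat_lit 215) (nat_lit 1) (nat_lit 214) (nat_lit 1) (nat_lit 219) (nat_lit 1) (nat_lit 288) (nat_lit 396) (nat_lit 336)) (XT.lf (nat_lit 304) (nat_lit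 2194771176) (nat_lit 0) (nat_lit 3765495836) (nat_lit 228) (nat_lit 3765495836) (nat_lit 215) (nat_lit 1) (nat_lit 211) (nat_lit 1) (nat_lit 214) (nat_lit 1) (nat_lit 289) (nat_lit 396) (nat_lit 335))))) (XT.nd (nat_lit 156) (nat_lit 532) (nat_lit 0) (XT.nd (nat_lit 78) (nat_lit 0) (nat_lit 0) (XT.lf (nat_lit 380) (nat_lit 9484819422) (nat_lit 0) (nat_lit 66604362) (nat_lit 304) (nat_lit 66604362) (nat_lit 211) (nat_lit 1) (nat_lit 206) (nat_lit 1) (nat_lit 210) (nat_lit 1) (nat_lit 290) (nat_lit 396) (nat_lit 334)) (XT.lf (nat_lit 76) (nat_lit 3533552422) (nat_lit 0) (nat_lit 2442976796) (nat_lit 380) (nat_lit 3533552422) (nat_lit 207) (nat_lit 1) (nat_lit 206) (nat_lit 1) (nat_lit 211) (nat_lit 1) (nat_lit 291) (nat_lit 396) (nat_lit 333))) (XT.nd (nat_lit 78) (nat_lit 304) (nat_lit 0) (XT.lf (nat_lit 304) (nat_lit 4695858386) (nat_lit 0) (nat_lit 2354361614) (nat_lit 228) (nat_lit 2354361614) (nat_lit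 207) (nat_lit 1) (nat_lit 203) (nat_lit 1) (nat_lit 206) (nat_lit 1) (nat_lit 292) (nat_lit 396) (nat_lit 332)) (XT.nd (nat_lit 78) (nat_lit 304) (nat_lit 0) (XT.lf (nat_lit 76) (nat_lit 1173591855) (nat_lit 0) (nat_lit 6953616508) (nat_lit 304) (nat_lit 1173591855) (nat_lit 204) (nat_lit 1) (nat_lit 203) (nat_lit 1) (nat_lit 207) (nat_lit 1) (nat_lit 293) (nat_lit 396) (nat_lit 331)) (XT.lf (nat_lit 76) (nat_lit 4598412217) (nat_lit 0) (nat_lit 1231172) (nat_lit 304) (nat_lit 4598412217) (nat_lit 200) (nat_lit 1) (nat_lit 199) (nat_lit 1) (nat_lit 203) (nat_lit 1) (nat_lit 294) (nat_lit 396) (nat_lit 330))))))))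
noncomputable def ec282 : XT := (XT.nd (nat_lit 1482) (nat_lit 1976) (nat_lit 0) (XT.nd (nat_lit 702) (nat_lit 1216) (nat_lit 0) (XT.nd (nat_lit 312) (nat_lit 684) (nat_lit 0) (XT.nd (nat_lit 156) (nat_lit 532) (nat_lit 0) (XT.nd (nat_lit 78) (nat_lit 0) (nat_lit 0) (XT.lf (nat_lit 304) (nat_lit 6838066269) (nat_lit 0) (nat_lit 1129457988) (nat_lit 228) (nat_lit 1129457988) (nat_lit 200) (nat_lit 1) (nat_lit 196) (nat_lit 1) (nat_lit 199) (nat_lit 1) (nat_lit 295) (nat_lit 396) (nat_lit 329)) (XT.lf (nat_lit 76) (nat_lit 2240153085) (nat_lit 0) (nat_lit 4516574648) (nat_lit 304) (nat_lit 2240153085) (nat_lit 197) (nat_lit 1) (nat_lit 196) (nat_lit 1) (nat_lit 200) (nat_lit 1) (nat_lit 296) (nat_lit 396) (nat_lit 328))) (XT.nd (nat_lit 78) (nat_lit 304) (nat_lit 0) (XT.lf (nat_lit 304) (nat_lit 2146938554) (nat_lit 0) (nat_lit 3375733350) (nat_lit 228) (nat_lit 3375733350) (nat_lit 197) (nat_lit 1) (nat_lit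 193) (nat_lit 1) (nat_lit 196) (nat_lit 1) (nat_lit 297) (nat_lit 396) (nat_lit 327)) (XT.lf (nat_lit 304) (nat_lit 8663743910) (nat_lit 0) (nat_lit 69176938) (nat_lit 228) (nat_lit 69176938) (nat_lit 193) (nat_lit 1) (nat_lit 189) (nat_lit 1) (nat_lit 192) (nat_lit 1) (nat_lit 298) (nat_lit 396) (nat_lit 326)))) (XT.nd (nat_lit 156) (nat_lit 456) (nat_lit 0) (XT.nd (nat_lit 78) (nat_lit 228) (nat_lit 0) (XT.lf (nat_lit 76) (nat_lit 3152902267) (nat_lit 0) (nat_lit 2399691322) (nat_lit 304) (nat_lit 3152902267) (nat_lit 190) (nat_lit 1) (nat_lit 189) (nat_lit 1) (nat_lit 193) (nat_lit 1) (nat_lit 299) (nat_lit 396) (nat_lit 325)) (XT.lf (nat_lit 304) (nat_lit 3993016618) (nat_lit 0) (nat_lit 2309002860) (nat_lit 228) (nat_lit 2309002860) (nat_lit 190) (nat_lit 1) (nat_lit 186) (nat_lit 1) (nat_lit 189) (nat_lit 1) (nat_lit 300) (nat_lit 396) (nat_lit 324))) (XT.nd (nat_lit 78) (nat_lit 456) (nat_lit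 0) (XT.lf (nat_lit 76) (nat_lit 854028319) (nat_lit 0) (nat_lit 6810092340) (nat_lit 304) (nat_lit 854028319) (nat_lit 187) (nat_lit 1) (nat_lit 186) (nat_lit 1) (nat_lit 190) (nat_lit 1) (nat_lit 301) (nat_lit 396) (nat_lit 323)) (XT.nd (nat_lit 78) (nat_lit 228) (nat_lit 0) (XT.lf (nat_lit 76) (nat_lit 3930007259) (nat_lit 0) (nat_lit 565855092) (nat_lit 228) (nat_lit 3930007259) (nat_lit 184) (nat_lit 1) (nat_lit 183) (nat_lit 1) (nat_lit 186) (nat_lit 1) (nat_lit 302) (nat_lit 396) (nat_lit 322)) (XT.lf (nat_lit 304) (nat_lit 5572490654) (nat_lit 0) (nat_lit 1381332244) (nat_lit 228) (nat_lit 1381332244) (nat_lit 184) (nat_lit 1) (nat_lit 180) (nat_lit 1) (nat_lit 183) (nat_lit 1) (nat_lit 303) (nat_lit 396) (nat_lit 321)))))) (XT.nd (nat_lit 390) (nat_lit 608) (nat_lit 0) (XT.nd (nat_lit 156) (nat_lit 456) (nat_lit 0) (XT.nd (nat_lit 78) (nat_lit 152) (nat_lit 0) (XT.lf (nat_lit 76) (nat_lit 1648210261)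 (nat_lit 0) (nat_lit 4949055333) (nat_lit 304) (nat_lit 1648210261) (nat_lit 181) (nat_lit 1) (nat_lit 180) (nat_lit 1) (nat_lit 184) (nat_lit 1) (nat_lit 304) (nat_lit 396) (nat_lit 320)) (XT.lf (nat_lit 228) (nat_lit 1038123547) (nat_lit 0) (nat_lit 3559435916) (nat_lit 152) (nat_lit 3559435916) (nat_lit 181) (nat_lit 1) (nat_lit 178) (nat_lit 1) (nat_lit 180) (nat_lit 1) (nat_lit 305) (nat_lit 396) (nat_lit 319))) (XT.nd (nat_lit 78) (nat_lit 152) (nat_lit 0) (XT.lf (nat_lit 304) (nat_lit 6916859662) (nat_lit 0) (nat_lit 576628922) (nat_lit 228) (nat_lit 576628922) (nat_lit 178) (nat_lit 1) (nat_lit 174) (nat_lit 1) (nat_lit 177) (nat_lit 1) (nat_lit 306) (nat_lit 396) (nat_lit 318)) (XT.nd (nat_lit 78) (nat_lit 152) (nat_lit 0) (XT.lf (nat_lit 76) (nat_lit 2327925277) (nat_lit 0) (nat_lit 3327634177) (nat_lit 304) (nat_lit 2327925277) (nat_lit 175) (nat_lit 1) (nat_lit 174) (nat_lit 1) (nat_lit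 178) (nat_lit 1) (nat_lit 307) (nat_lit 396) (nat_lit 317)) (XT.lf (nat_lit 228) (nat_lit 2428072215) (nat_lit 0) (nat_lit 2735176407) (nat_lit 152) (nat_lit 2735176407) (nat_lit 175) (nat_lit 1) (nat_lit 172) (nat_lit 1) (nat_lit 174) (nat_lit 1) (nat_lit 308) (nat_lit 396) (nat_lit 316))))) (XT.nd (nat_lit 156) (nat_lit 380) (nat_lit 0) (XT.nd (nat_lit 78) (nat_lit 228) (nat_lit 0) (XT.lf (nat_lit 76) (nat_lit 120570153) (nat_lit 0) (nat_lit 7574002288) (nat_lit 228) (nat_lit 120570153) (nat_lit 173) (nat_lit 1) (nat_lit 172) (nat_lit 1) (nat_lit 175) (nat_lit 1) (nat_lit 309) (nat_lit 396) (nat_lit 315)) (XT.lf (nat_lit 76) (nat_lit 2906692434) (nat_lit 0) (nat_lit 1918174056) (nat_lit 228) (nat_lit 2906692434) (nat_lit 170) (nat_lit 1) (nat_lit 169) (nat_lit 1) (nat_lit 172) (nat_lit 1) (nat_lit 310) (nat_lit 396) (nat_lit 314))) (XT.nd (nat_lit 78) (nat_lit 228) (nat_lit 0) (XT.lf (nat_lit 228)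 (nat_lit 3619167890) (nat_lit 0) (nat_lit 2015279198) (nat_lit 152) (nat_lit 2015279198) (nat_lit 170) (nat_lit 1) (nat_lit 167) (nat_lit 1) (nat_lit 169) (nat_lit 1) (nat_lit 311) (nat_lit 396) (nat_lit 313)) (XT.nd (nat_lit 78) (nat_lit 228) (nat_lit 0) (XT.lf (nat_lit 76) (nat_lit 726513398) (nat_lit 0) (nat_lit 6116206635) (nat_lit 228) (nat_lit 726513398) (nat_lit 168) (nat_lit 1) (nat_lit 167) (nat_lit 1) (nat_lit 170) (nat_lit 1) (nat_lit 312) (nat_lit 396) (nat_lit 312)) (XT.lf (nat_lit 76) (nat_lit 3396501277) (nat_lit 0) (nat_lit 696131240) (nat_lit 228) (nat_lit 3396501277) (nat_lit 165) (nat_lit 1) (nat_lit 164) (nat_lit 1) (nat_lit 167) (nat_lit 1) (nat_lit 313) (nat_lit 396) (nat_lit 311))))))) (XT.nd (nat_lit 702) (nat_lit 912) (nat_lit 0) (XT.nd (nat_lit 312) (nat_lit 532) (nat_lit 0) (XT.nd (nat_lit 156) (nat_lit 380) (nat_lit 0) (XT.nd (nat_lit 78) (nat_lit 0) (nat_lit 0) (XT.lf (nat_lit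 228) (nat_lit 4634862604) (nat_lit 0) (nat_lit 1387744015) (nat_lit 152) (nat_lit 1387744015) (nat_lit 165) (nat_lit 1) (nat_lit 162) (nat_lit 1) (nat_lit 164) (nat_lit 1) (nat_lit 314) (nat_lit 396) (nat_lit 310)) (XT.lf (nat_lit 76) (nat_lit 1246845685) (nat_lit 0) (nat_lit 4838834165) (nat_lit 228) (nat_lit 1246845685) (nat_lit 163) (nat_lit 1) (nat_lit 162) (nat_lit 1) (nat_lit 165) (nat_lit 1) (nat_lit 315) (nat_lit 396) (nat_lit 309))) (XT.nd (nat_lit 78) (nat_lit 228) (nat_lit 0) (XT.lf (nat_lit 228) (nat_lit 367444797) (nat_lit 0) (nat_lit 3444070327) (nat_lit 152) (nat_lit 3444070327) (nat_lit 163) (nat_lit 1) (nat_lit 160) (nat_lit 1) (nat_lit 162) (nat_lit 1) (nat_lit 316) (nat_lit 396) (nat_lit 308)) (XT.lf (nat_lit 228) (nat_lit 5495955985) (nat_lit 0) (nat_lit 841919330) (nat_lit 152) (nat_lit 841919330) (nat_lit 160) (nat_lit 1) (nat_lit 157) (nat_lit 1) (nat_lit 159) (nat_lit 1) (nat_lit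 317) (nat_lit 396) (nat_lit 307)))) (XT.nd (nat_lit 156) (nat_lit 380) (nat_lit 0) (XT.nd (nat_lit 78) (nat_lit 152) (nat_lit 0) (XT.lf (nat_lit 76) (nat_lit 1691639194) (nat_lit 0) (nat_lit 3721245160) (nat_lit 228) (nat_lit 1691639194) (nat_lit 158) (nat_lit 1) (nat_lit 157) (nat_lit 1) (nat_lit 160) (nat_lit 1) (nat_lit 318) (nat_lit 396) (nat_lit 306)) (XT.lf (nat_lit 228) (nat_lit 1295652295) (nat_lit 0) (nat_lit 2867364955) (nat_lit 152) (nat_lit 2867364955) (nat_lit 158) (nat_lit 1) (nat_lit 155) (nat_lit 1) (nat_lit 157) (nat_lit 1) (nat_lit 319) (nat_lit 396) (nat_lit 305))) (XT.nd (nat_lit 78) (nat_lit 152) (nat_lit 0) (XT.lf (nat_lit 228) (nat_lit 6220892110) (nat_lit 0) (nat_lit 368351651) (nat_lit 152) (nat_lit 368351651) (nat_lit 155) (nat_lit 1) (nat_lit 152) (nat_lit 1) (nat_lit 154) (nat_lit 1) (nat_lit 320) (nat_lit 396) (nat_lit 304)) (XT.nd (nat_lit 78) (nat_lit 152) (nat_lit 0)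 (XT.lf (nat_lit 76) (nat_lit 2069827623) (nat_lit 0) (nat_lit 2745116648) (nat_lit 228) (nat_lit 2069827623) (nat_lit 153) (nat_lit 1) (nat_lit 152) (nat_lit 1) (nat_lit 155) (nat_lit 1) (nat_lit 321) (nat_lit 396) (nat_lit 303)) (XT.lf (nat_lit 228) (nat_lit 2092124023) (nat_lit 0) (nat_lit 2360580777) (nat_lit 152) (nat_lit 2360580777) (nat_lit 153) (nat_lit 1) (nat_lit 150) (nat_lit 1) (nat_lit 152) (nat_lit 1) (nat_lit 322) (nat_lit 396) (nat_lit 302)))))) (XT.nd (nat_lit 390) (nat_lit 456) (nat_lit 0) (XT.nd (nat_lit 156) (nat_lit 304) (nat_lit 0) (XT.nd (nat_lit 78) (nat_lit 152) (nat_lit 0) (XT.lf (nat_lit 76) (nat_lit 41757766) (nat_lit 0) (nat_lit 6659762532) (nat_lit 228) (nat_lit 41757766) (nat_lit 151) (nat_lit 1) (nat_lit 150) (nat_lit 1) (nat_lit 153) (nat_lit 1) (nat_lit 323) (nat_lit 396) (nat_lit 301)) (XT.lf (nat_lit 76) (nat_lit 2389333587) (nat_lit 0) (nat_lit 1894183617) (nat_lit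 152) (nat_lit 2389333587) (nat_lit 149) (nat_lit 1) (nat_lit 148) (nat_lit 1) (nat_lit 150) (nat_lit 1) (nat_lit 324) (nat_lit 396) (nat_lit 300))) (XT.nd (nat_lit 78) (nat_lit 152) (nat_lit 0) (XT.lf (nat_lit 228) (nat_lit 2772372418) (nat_lit 0) (nat_lit 1915757245) (nat_lit 152) (nat_lit 1915757245) (nat_lit 149) (nat_lit 1) (nat_lit 146) (nat_lit 1) (nat_lit 148) (nat_lit 1) (nat_lit 325) (nat_lit 396) (nat_lit 299)) (XT.nd (nat_lit 78) (nat_lit 152) (nat_lit 0) (XT.lf (nat_lit 76) (nat_lit 398532100) (nat_lit 0) (nat_lit 5739067991) (nat_lit 228) (nat_lit 398532100) (nat_lit 147) (nat_lit 1) (nat_lit 146) (nat_lit 1) (nat_lit 149) (nat_lit 1) (nat_lit 326) (nat_lit 396) (nat_lit 298)) (XT.lf (nat_lit 76) (nat_lit 2657181801) (nat_lit 0) (nat_lit 1154009097) (nat_lit 152) (nat_lit 2657181801) (nat_lit 145) (nat_lit 1) (nat_lit 144) (nat_lit 1) (nat_lit 146) (nat_lit 1) (nat_lit 327) (nat_lit 396)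 (nat_lit 297))))) (XT.nd (nat_lit 156) (nat_lit 304) (nat_lit 0) (XT.nd (nat_lit 78) (nat_lit 0) (nat_lit 0) (XT.lf (nat_lit 228) (nat_lit 3350156131) (nat_lit 0) (nat_lit 1525826275) (nat_lit 152) (nat_lit 1525826275) (nat_lit 145) (nat_lit 1) (nat_lit 142) (nat_lit 1) (nat_lit 144) (nat_lit 1) (nat_lit 328) (nat_lit 396) (nat_lit 296)) (XT.lf (nat_lit 76) (nat_lit 704994361) (nat_lit 0) (nat_lit 4926228586) (nat_lit 228) (nat_lit 704994361) (nat_lit 143) (nat_lit 1) (nat_lit 142) (nat_lit 1) (nat_lit 145) (nat_lit 1) (nat_lit 329) (nat_lit 396) (nat_lit 295))) (XT.nd (nat_lit 78) (nat_lit 152) (nat_lit 0) (XT.lf (nat_lit 76) (nat_lit 2879599631) (nat_lit 0) (nat_lit 511779889) (nat_lit 152) (nat_lit 2879599631) (nat_lit 141) (nat_lit 1) (nat_lit 140) (nat_lit 1) (nat_lit 142) (nat_lit 1) (nat_lit 330) (nat_lit 396) (nat_lit 294)) (XT.nd (nat_lit 78) (nat_lit 0) (nat_lit 0) (XT.lf (nat_lit 228) (nat_lit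 3837676298) (nat_lit 0) (nat_lit 1184512587) (nat_lit 152) (nat_lit 1184512587) (nat_lit 141) (nat_lit 1) (nat_lit 138) (nat_lit 1) (nat_lit 140) (nat_lit 1) (nat_lit 331) (nat_lit 396) (nat_lit 293)) (XT.lf (nat_lit 76) (nat_lit 967061614) (nat_lit 0) (nat_lit 4209066030) (nat_lit 228) (nat_lit 967061614) (nat_lit 139) (nat_lit 1) (nat_lit 138) (nat_lit 1) (nat_lit 141) (nat_lit 1) (nat_lit 332) (nat_lit 396) (nat_lit 292))))))))
noncomputable def ec283 : XT := (XT.nd (nat_lit 1482) (nat_lit 1368) (nat_lit 0) (XT.nd (nat_lit 702) (nat_lit 912) (nat_lit 0) (XT.nd (nat_lit 312) (nat_lit 532) (nat_lit 0) (XT.nd (nat_lit 156) (nat_lit 76) (nat_lit 0) (XT.nd (nat_lit 78) (nat_lit 228) (nat_lit 0) (XT.lf (nat_lit 152) (nat_lit 44748098) (nat_lit 0) (nat_lit 3017788456) (nat_lit 76) (nat_lit 3017788456) (nat_lit 139) (nat_lit 1) (nat_lit 137) (nat_lit 1) (nat_lit 138) (nat_lit 1) (nat_lit 333) (nat_lit 396)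 (nat_lit 291)) (XT.lf (nat_lit 228) (nat_lit 4245750896) (nat_lit 0) (nat_lit 886245164) (nat_lit 152) (nat_lit 886245164) (nat_lit 137) (nat_lit 1) (nat_lit 134) (nat_lit 1) (nat_lit 136) (nat_lit 1) (nat_lit 334) (nat_lit 396) (nat_lit 290))) (XT.nd (nat_lit 78) (nat_lit 76) (nat_lit 0) (XT.lf (nat_lit 76) (nat_lit 1189982160) (nat_lit 0) (nat_lit 3576764473) (nat_lit 228) (nat_lit 1189982160) (nat_lit 135) (nat_lit 1) (nat_lit 134) (nat_lit 1) (nat_lit 137) (nat_lit 1) (nat_lit 335) (nat_lit 396) (nat_lit 289)) (XT.lf (nat_lit 152) (nat_lit 533454726) (nat_lit 0) (nat_lit 2681265956) (nat_lit 76) (nat_lit 2681265956) (nat_lit 135) (nat_lit 1) (nat_lit 133) (nat_lit 1) (nat_lit 134) (nat_lit 1) (nat_lit 336) (nat_lit 396) (nat_lit 288)))) (XT.nd (nat_lit 156) (nat_lit 304) (nat_lit 0) (XT.nd (nat_lit 78) (nat_lit 0) (nat_lit 0) (XT.lf (nat_lit 228) (nat_lit 4583969642) (nat_lit 0) (nat_lit 626078585)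 (nat_lit 152) (nat_lit 626078585) (nat_lit 133) (nat_lit 1) (nat_lit 130) (nat_lit 1) (nat_lit 132) (nat_lit 1) (nat_lit 337) (nat_lit 396) (nat_lit 287)) (XT.lf (nat_lit 76) (nat_lit 1378410379) (nat_lit 0) (nat_lit 3019718443) (nat_lit 228) (nat_lit 1378410379) (nat_lit 131) (nat_lit 1) (nat_lit 130) (nat_lit 1) (nat_lit 133) (nat_lit 1) (nat_lit 338) (nat_lit 396) (nat_lit 286))) (XT.nd (nat_lit 78) (nat_lit 228) (nat_lit 0) (XT.lf (nat_lit 152) (nat_lit 953284721) (nat_lit 0) (nat_lit 2382270074) (nat_lit 76) (nat_lit 2382270074) (nat_lit 131) (nat_lit 1) (nat_lit 129) (nat_lit 1) (nat_lit 130) (nat_lit 1) (nat_lit 339) (nat_lit 396) (nat_lit 285)) (XT.nd (nat_lit 78) (nat_lit 0) (nat_lit 0) (XT.lf (nat_lit 228) (nat_lit 4860831599) (nat_lit 0) (nat_lit 399623136) (nat_lit 152) (nat_lit 399623136) (nat_lit 129) (nat_lit 1) (nat_lit 126) (nat_lit 1) (nat_lit 128) (nat_lit 1) (nat_lit 340) (nat_lit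 396) (nat_lit 284)) (XT.lf (nat_lit 76) (nat_lit 1536473208) (nat_lit 0) (nat_lit 2529397750) (nat_lit 228) (nat_lit 1536473208) (nat_lit 127) (nat_lit 1) (nat_lit 126) (nat_lit 1) (nat_lit 129) (nat_lit 1) (nat_lit 341) (nat_lit 396) (nat_lit 283)))))) (XT.nd (nat_lit 390) (nat_lit 304) (nat_lit 0) (XT.nd (nat_lit 156) (nat_lit 304) (nat_lit 0) (XT.nd (nat_lit 78) (nat_lit 228) (nat_lit 0) (XT.lf (nat_lit 152) (nat_lit 1312337542) (nat_lit 0) (nat_lit 2116616105) (nat_lit 76) (nat_lit 2116616105) (nat_lit 127) (nat_lit 1) (nat_lit 125) (nat_lit 1) (nat_lit 126) (nat_lit 1) (nat_lit 342) (nat_lit 396) (nat_lit 282)) (XT.lf (nat_lit 228) (nat_lit 5083867416) (nat_lit 0) (nat_lit 202982721) (nat_lit 152) (nat_lit 202982721) (nat_lit 125) (nat_lit 1) (nat_lit 122) (nat_lit 1) (nat_lit 124) (nat_lit 1) (nat_lit 343) (nat_lit 396) (nat_lit 281))) (XT.nd (nat_lit 78) (nat_lit 304) (nat_lit 0) (XT.lf (nat_lit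 76) (nat_lit 1667829204) (nat_lit 0) (nat_lit 2098227456) (nat_lit 228) (nat_lit 1667829204) (nat_lit 123) (nat_lit 1) (nat_lit 122) (nat_lit 1) (nat_lit 125) (nat_lit 1) (nat_lit 344) (nat_lit 396) (nat_lit 280)) (XT.nd (nat_lit 78) (nat_lit 228) (nat_lit 0) (XT.lf (nat_lit 152) (nat_lit 1617797252) (nat_lit 0) (nat_lit 1880585995) (nat_lit 76) (nat_lit 1880585995) (nat_lit 123) (nat_lit 1) (nat_lit 121) (nat_lit 1) (nat_lit 122) (nat_lit 1) (nat_lit 345) (nat_lit 396) (nat_lit 279)) (XT.lf (nat_lit 228) (nat_lit 5259747924) (nat_lit 0) (nat_lit 32699694) (nat_lit 152) (nat_lit 32699694) (nat_lit 121) (nat_lit 1) (nat_lit 118) (nat_lit 1) (nat_lit 120) (nat_lit 1) (nat_lit 346) (nat_lit 396) (nat_lit 278))))) (XT.nd (nat_lit 156) (nat_lit 228) (nat_lit 0) (XT.nd (nat_lit 78) (nat_lit 76) (nat_lit 0) (XT.lf (nat_lit 76) (nat_lit 1775721014) (nat_lit 0) (nat_lit 1719481234) (nat_lit 228) (nat_lit 1775721014)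 (nat_lit 119) (nat_lit 1) (nat_lit 118) (nat_lit 1) (nat_lit 121) (nat_lit 1) (nat_lit 347) (nat_lit 396) (nat_lit 277)) (XT.lf (nat_lit 152) (nat_lit 1876034957) (nat_lit 0) (nat_lit 1670876299) (nat_lit 76) (nat_lit 1670876299) (nat_lit 119) (nat_lit 1) (nat_lit 117) (nat_lit 1) (nat_lit 118) (nat_lit 1) (nat_lit 348) (nat_lit 396) (nat_lit 276))) (XT.nd (nat_lit 78) (nat_lit 228) (nat_lit 0) (XT.lf (nat_lit 0) (nat_lit 115425773) (nat_lit 0) (nat_lit 4934806936) (nat_lit 152) (nat_lit 115425773) (nat_lit 117) (nat_lit 3) (nat_lit 117) (nat_lit 1) (nat_lit 119) (nat_lit 1) (nat_lit 349) (nat_lit 396) (nat_lit 275)) (XT.nd (nat_lit 78) (nat_lit 76) (nat_lit 0) (XT.lf (nat_lit 76) (nat_lit 1863021984) (nat_lit 0) (nat_lit 1387186627) (nat_lit 152) (nat_lit 1863021984) (nat_lit 116) (nat_lit 1) (nat_lit 115) (nat_lit 1) (nat_lit 117) (nat_lit 1) (nat_lit 350) (nat_lit 396) (nat_lit 274)) (XT.lf (nat_lit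 152) (nat_lit 2092699802) (nat_lit 0) (nat_lit 1484551950) (nat_lit 76) (nat_lit 1484551950) (nat_lit 116) (nat_lit 1) (nat_lit 114) (nat_lit 1) (nat_lit 115) (nat_lit 1) (nat_lit 351) (nat_lit 396) (nat_lit 273))))))) (XT.nd (nat_lit 702) (nat_lit 684) (nat_lit 0) (XT.nd (nat_lit 312) (nat_lit 456) (nat_lit 0) (XT.nd (nat_lit 156) (nat_lit 76) (nat_lit 0) (XT.nd (nat_lit 78) (nat_lit 152) (nat_lit 0) (XT.lf (nat_lit 0) (nat_lit 243104483) (nat_lit 0) (nat_lit 4525062225) (nat_lit 152) (nat_lit 243104483) (nat_lit 114) (nat_lit 3) (nat_lit 114) (nat_lit 1) (nat_lit 116) (nat_lit 1) (nat_lit 352) (nat_lit 396) (nat_lit 272)) (XT.lf (nat_lit 76) (nat_lit 1932277566) (nat_lit 0) (nat_lit 1096040867) (nat_lit 152) (nat_lit 1932277566) (nat_lit 113) (nat_lit 1) (nat_lit 112) (nat_lit 1) (nat_lit 114) (nat_lit 1) (nat_lit 353) (nat_lit 396) (nat_lit 271))) (XT.nd (nat_lit 78) (nat_lit 0) (nat_lit 0) (XT.lf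 (nat_lit 152) (nat_lit 2272799816) (nat_lit 0) (nat_lit 1319005180) (nat_lit 76) (nat_lit 1319005180) (nat_lit 113) (nat_lit 1) (nat_lit 111) (nat_lit 1) (nat_lit 112) (nat_lit 1) (nat_lit 354) (nat_lit 396) (nat_lit 270)) (XT.lf (nat_lit 0) (nat_lit 352451668) (nat_lit 0) (nat_lit 4156915662) (nat_lit 152) (nat_lit 352451668) (nat_lit 111) (nat_lit 3) (nat_lit 111) (nat_lit 1) (nat_lit 113) (nat_lit 1) (nat_lit 355) (nat_lit 396) (nat_lit 269)))) (XT.nd (nat_lit 156) (nat_lit 228) (nat_lit 0) (XT.nd (nat_lit 78) (nat_lit 76) (nat_lit 0) (XT.lf (nat_lit 76) (nat_lit 1985742098) (nat_lit 0) (nat_lit 841336091) (nat_lit 152) (nat_lit 1985742098) (nat_lit 110) (nat_lit 1) (nat_lit 109) (nat_lit 1) (nat_lit 111) (nat_lit 1) (nat_lit 356) (nat_lit 396) (nat_lit 268)) (XT.lf (nat_lit 152) (nat_lit 2420773730) (nat_lit 0) (nat_lit 1171919018) (nat_lit 76) (nat_lit 1171919018) (nat_lit 110) (nat_lit 1) (nat_lit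 108) (nat_lit 1) (nat_lit 109) (nat_lit 1) (nat_lit 357) (nat_lit 396) (nat_lit 267))) (XT.nd (nat_lit 78) (nat_lit 228) (nat_lit 0) (XT.lf (nat_lit 0) (nat_lit 445630766) (nat_lit 0) (nat_lit 3825847749) (nat_lit 152) (nat_lit 445630766) (nat_lit 108) (nat_lit 3) (nat_lit 108) (nat_lit 1) (nat_lit 110) (nat_lit 1) (nat_lit 358) (nat_lit 396) (nat_lit 266)) (XT.nd (nat_lit 78) (nat_lit 76) (nat_lit 0) (XT.lf (nat_lit 76) (nat_lit 2025411481) (nat_lit 0) (nat_lit 618892896) (nat_lit 152) (nat_lit 2025411481) (nat_lit 107) (nat_lit 1) (nat_lit 106) (nat_lit 1) (nat_lit 108) (nat_lit 1) (nat_lit 359) (nat_lit 396) (nat_lit 265)) (XT.lf (nat_lit 152) (nat_lit 2540554776) (nat_lit 0) (nat_lit 1041234869) (nat_lit 76) (nat_lit 1041234869) (nat_lit 107) (nat_lit 1) (nat_lit 105) (nat_lit 1) (nat_lit 106) (nat_lit 1) (nat_lit 360) (nat_lit 396) (nat_lit 264)))))) (XT.nd (nat_lit 390) (nat_lit 304) (nat_lit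 0) (XT.nd (nat_lit 156) (nat_lit 228) (nat_lit 0) (XT.nd (nat_lit 78) (nat_lit 152) (nat_lit 0) (XT.lf (nat_lit 0) (nat_lit 524560487) (nat_lit 0) (nat_lit 3527839495) (nat_lit 152) (nat_lit 524560487) (nat_lit 105) (nat_lit 3) (nat_lit 105) (nat_lit 1) (nat_lit 107) (nat_lit 1) (nat_lit 361) (nat_lit 396) (nat_lit 263)) (XT.lf (nat_lit 76) (nat_lit 2053052205) (nat_lit 0) (nat_lit 425001309) (nat_lit 152) (nat_lit 2053052205) (nat_lit 104) (nat_lit 1) (nat_lit 103) (nat_lit 1) (nat_lit 105) (nat_lit 1) (nat_lit 362) (nat_lit 396) (nat_lit 262))) (XT.nd (nat_lit 78) (nat_lit 152) (nat_lit 0) (XT.lf (nat_lit 152) (nat_lit 2635627363) (nat_lit 0) (nat_lit 925123695) (nat_lit 76) (nat_lit 925123695) (nat_lit 104) (nat_lit 1) (nat_lit 102) (nat_lit 1) (nat_lit 103) (nat_lit 1) (nat_lit 363) (nat_lit 396) (nat_lit 261)) (XT.nd (nat_lit 78) (nat_lit 152) (nat_lit 0) (XT.lf (nat_lit 0) (nat_lit 590942212)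 (nat_lit 0) (nat_lit 3259316712) (nat_lit 152) (nat_lit 590942212) (nat_lit 102) (nat_lit 3) (nat_lit 102) (nat_lit 1) (nat_lit 104) (nat_lit 1) (nat_lit 364) (nat_lit 396) (nat_lit 260)) (XT.lf (nat_lit 76) (nat_lit 2070227125) (nat_lit 0) (nat_lit 256368339) (nat_lit 152) (nat_lit 2070227125) (nat_lit 101) (nat_lit 1) (nat_lit 100) (nat_lit 1) (nat_lit 102) (nat_lit 1) (nat_lit 365) (nat_lit 396) (nat_lit 259))))) (XT.nd (nat_lit 156) (nat_lit 228) (nat_lit 0) (XT.nd (nat_lit 78) (nat_lit 0) (nat_lit 0) (XT.lf (nat_lit 152) (nat_lit 2709077426) (nat_lit 0) (nat_lit 821960420) (nat_lit 76) (nat_lit 821960420) (nat_lit 101) (nat_lit 1) (nat_lit 99) (nat_lit 1) (nat_lit 100) (nat_lit 1) (nat_lit 366) (nat_lit 396) (nat_lit 258)) (XT.lf (nat_lit 0) (nat_lit 646284320) (nat_lit 0) (nat_lit 3017100502) (nat_lit 152) (nat_lit 646284320) (nat_lit 99) (nat_lit 3) (nat_lit 99) (nat_lit 1) (nat_lit 101) (nat_lit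 1) (nat_lit 367) (nat_lit 396) (nat_lit 257))) (XT.nd (nat_lit 78) (nat_lit 76) (nat_lit 0) (XT.lf (nat_lit 76) (nat_lit 2078318367) (nat_lit 0) (nat_lit 110071387) (nat_lit 152) (nat_lit 2078318367) (nat_lit 98) (nat_lit 1) (nat_lit 97) (nat_lit 1) (nat_lit 99) (nat_lit 1) (nat_lit 368) (nat_lit 396) (nat_lit 256)) (XT.nd (nat_lit 78) (nat_lit 0) (nat_lit 0) (XT.lf (nat_lit 152) (nat_lit 2763637147) (nat_lit 0) (nat_lit 730301187) (nat_lit 76) (nat_lit 730301187) (nat_lit 98) (nat_lit 1) (nat_lit 96) (nat_lit 1) (nat_lit 97) (nat_lit 1) (nat_lit 369) (nat_lit 396) (nat_lit 255)) (XT.lf (nat_lit 0) (nat_lit 691923809) (nat_lit 0) (nat_lit 2798363280) (nat_lit 152) (nat_lit 691923809) (nat_lit 96) (nat_lit 3) (nat_lit 96) (nat_lit 1) (nat_lit 98) (nat_lit 1) (nat_lit 370) (nat_lit 396) (nat_lit 254))))))))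
noncomputable def ec284 : XT := (XT.nd (nat_lit 1482) (nat_lit 1520) (nat_lit 0) (XT.nd (nat_lit 702) (nat_lit 760) (nat_lit 0) (XT.nd (nat_lit 312) (nat_lit 380) (nat_lit 0) (XT.nd (nat_lit 156) (nat_lit 76) (nat_lit 0) (XT.nd (nat_lit 78) (nat_lit 152) (nat_lit 0) (XT.lf (nat_lit 76) (nat_lit 16811202) (nat_lit 0) (nat_lit 2061898067) (nat_lit 76) (nat_lit 2061898067) (nat_lit 96) (nat_lit 3) (nat_lit 95) (nat_lit 1) (nat_lit 96) (nat_lit 1) (nat_lit 371) (nat_lit 396) (nat_lit 253)) (XT.lf (nat_lit 152) (nat_lit 2801724686) (nat_lit 0) (nat_lit 648863146) (nat_lit 76) (nat_lit 648863146) (nat_lit 95) (nat_lit 1) (nat_lit 93) (nat_lit 1) (nat_lit 94) (nat_lit 1) (nat_lit 372) (nat_lit 396) (nat_lit 252))) (XT.nd (nat_lit 78) (nat_lit 76) (nat_lit 0) (XT.lf (nat_lit 0) (nat_lit 729045500) (nat_lit 0) (nat_lit 2600589687) (nat_lit 152) (nat_lit 729045500) (nat_lit 93) (nat_lit 3) (nat_lit 93) (nat_lit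 1) (nat_lit 95) (nat_lit 1) (nat_lit 373) (nat_lit 396) (nat_lit 251)) (XT.lf (nat_lit 76) (nat_lit 128096298) (nat_lit 0) (nat_lit 1945129490) (nat_lit 76) (nat_lit 1945129490) (nat_lit 93) (nat_lit 3) (nat_lit 92) (nat_lit 1) (nat_lit 93) (nat_lit 1) (nat_lit 374) (nat_lit 396) (nat_lit 250)))) (XT.nd (nat_lit 156) (nat_lit 228) (nat_lit 0) (XT.nd (nat_lit 78) (nat_lit 0) (nat_lit 0) (XT.lf (nat_lit 152) (nat_lit 2825479471) (nat_lit 0) (nat_lit 576506501) (nat_lit 76) (nat_lit 576506501) (nat_lit 92) (nat_lit 1) (nat_lit 90) (nat_lit 1) (nat_lit 91) (nat_lit 1) (nat_lit 375) (nat_lit 396) (nat_lit 249)) (XT.lf (nat_lit 0) (nat_lit 758699093) (nat_lit 0) (nat_lit 2421541863) (nat_lit 152) (nat_lit 758699093) (nat_lit 90) (nat_lit 3) (nat_lit 90) (nat_lit 1) (nat_lit 92) (nat_lit 1) (nat_lit 376) (nat_lit 396) (nat_lit 248))) (XT.nd (nat_lit 78) (nat_lit 152) (nat_lit 0) (XT.lf (nat_lit 76) (nat_lit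 223675750) (nat_lit 0) (nat_lit 1838086206) (nat_lit 76) (nat_lit 1838086206) (nat_lit 90) (nat_lit 3) (nat_lit 89) (nat_lit 1) (nat_lit 90) (nat_lit 1) (nat_lit 377) (nat_lit 396) (nat_lit 247)) (XT.nd (nat_lit 78) (nat_lit 0) (nat_lit 0) (XT.lf (nat_lit 152) (nat_lit 2836793540) (nat_lit 0) (nat_lit 512218559) (nat_lit 76) (nat_lit 512218559) (nat_lit 89) (nat_lit 1) (nat_lit 87) (nat_lit 1) (nat_lit 88) (nat_lit 1) (nat_lit 378) (nat_lit 396) (nat_lit 246)) (XT.lf (nat_lit 0) (nat_lit 781814326) (nat_lit 0) (nat_lit 2259228590) (nat_lit 152) (nat_lit 781814326) (nat_lit 87) (nat_lit 3) (nat_lit 87) (nat_lit 1) (nat_lit 89) (nat_lit 1) (nat_lit 379) (nat_lit 396) (nat_lit 245)))))) (XT.nd (nat_lit 390) (nat_lit 304) (nat_lit 0) (XT.nd (nat_lit 156) (nat_lit 228) (nat_lit 0) (XT.nd (nat_lit 78) (nat_lit 152) (nat_lit 0) (XT.lf (nat_lit 76) (nat_lit 305396937) (nat_lit 0) (nat_lit 1739779717) (nat_lit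 76) (nat_lit 1739779717) (nat_lit 87) (nat_lit 3) (nat_lit 86) (nat_lit 1) (nat_lit 87) (nat_lit 1) (nat_lit 380) (nat_lit 396) (nat_lit 244)) (XT.lf (nat_lit 152) (nat_lit 2837339392) (nat_lit 0) (nat_lit 455099555) (nat_lit 76) (nat_lit 455099555) (nat_lit 86) (nat_lit 1) (nat_lit 84) (nat_lit 1) (nat_lit 85) (nat_lit 1) (nat_lit 381) (nat_lit 396) (nat_lit 243))) (XT.nd (nat_lit 78) (nat_lit 228) (nat_lit 0) (XT.lf (nat_lit 0) (nat_lit 799214435) (nat_lit 0) (nat_lit 2111877873) (nat_lit 152) (nat_lit 799214435) (nat_lit 84) (nat_lit 3) (nat_lit 84) (nat_lit 1) (nat_lit 86) (nat_lit 1) (nat_lit 382) (nat_lit 396) (nat_lit 242)) (XT.nd (nat_lit 78) (nat_lit 152) (nat_lit 0) (XT.lf (nat_lit 76) (nat_lit 374898436) (nat_lit 0) (nat_lit 1649328959) (nat_lit 76) (nat_lit 1649328959) (nat_lit 84) (nat_lit 3) (nat_lit 83) (nat_lit 1) (nat_lit 84) (nat_lit 1) (nat_lit 383) (nat_lit 396) (nat_lit 241)) (XT.lf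 (nat_lit 152) (nat_lit 2828594711) (nat_lit 0) (nat_lit 404350060) (nat_lit 76) (nat_lit 404350060) (nat_lit 83) (nat_lit 1) (nat_lit 81) (nat_lit 1) (nat_lit 82) (nat_lit 1) (nat_lit 384) (nat_lit 396) (nat_lit 240))))) (XT.nd (nat_lit 156) (nat_lit 228) (nat_lit 0) (XT.nd (nat_lit 78) (nat_lit 76) (nat_lit 0) (XT.lf (nat_lit 0) (nat_lit 811628113) (nat_lit 0) (nat_lit 1977912576) (nat_lit 152) (nat_lit 811628113) (nat_lit 81) (nat_lit 3) (nat_lit 81) (nat_lit 1) (nat_lit 83) (nat_lit 1) (nat_lit 385) (nat_lit 396) (nat_lit 239)) (XT.lf (nat_lit 76) (nat_lit 433633389) (nat_lit 0) (nat_lit 1565948402) (nat_lit 76) (nat_lit 1565948402) (nat_lit 81) (nat_lit 3) (nat_lit 80) (nat_lit 1) (nat_lit 81) (nat_lit 1) (nat_lit 386) (nat_lit 396) (nat_lit 238))) (XT.nd (nat_lit 78) (nat_lit 76) (nat_lit 0) (XT.lf (nat_lit 152) (nat_lit 2811864339) (nat_lit 0) (nat_lit 359259792) (nat_lit 76) (nat_lit 359259792)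 (nat_lit 80) (nat_lit 1) (nat_lit 78) (nat_lit 1) (nat_lit 79) (nat_lit 1) (nat_lit 387) (nat_lit 396) (nat_lit 237)) (XT.nd (nat_lit 78) (nat_lit 76) (nat_lit 0) (XT.lf (nat_lit 0) (nat_lit 819700134) (nat_lit 0) (nat_lit 1855928773) (nat_lit 152) (nat_lit 819700134) (nat_lit 78) (nat_lit 3) (nat_lit 78) (nat_lit 1) (nat_lit 80) (nat_lit 1) (nat_lit 388) (nat_lit 396) (nat_lit 236)) (XT.lf (nat_lit 76) (nat_lit 482890256) (nat_lit 0) (nat_lit 1488937478) (nat_lit 76) (nat_lit 1488937478) (nat_lit 78) (nat_lit 3) (nat_lit 77) (nat_lit 1) (nat_lit 78) (nat_lit 1) (nat_lit 389) (nat_lit 396) (nat_lit 235))))))) (XT.nd (nat_lit 702) (nat_lit 836) (nat_lit 0) (XT.nd (nat_lit 312) (nat_lit 304) (nat_lit 0) (XT.nd (nat_lit 156) (nat_lit 228) (nat_lit 0) (XT.nd (nat_lit 78) (nat_lit 0) (nat_lit 0) (XT.lf (nat_lit 152) (nat_lit 2788299778) (nat_lit 0) (nat_lit 319197672) (nat_lit 76) (nat_lit 319197672) (nat_lit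 77) (nat_lit 1) (nat_lit 75) (nat_lit 1) (nat_lit 76) (nat_lit 1) (nat_lit 390) (nat_lit 396) (nat_lit 234)) (XT.lf (nat_lit 0) (nat_lit 824000784) (nat_lit 0) (nat_lit 1744676509) (nat_lit 152) (nat_lit 824000784) (nat_lit 75) (nat_lit 3) (nat_lit 75) (nat_lit 1) (nat_lit 77) (nat_lit 1) (nat_lit 391) (nat_lit 396) (nat_lit 233))) (XT.nd (nat_lit 78) (nat_lit 152) (nat_lit 0) (XT.lf (nat_lit 76) (nat_lit 523811258) (nat_lit 0) (nat_lit 1417671185) (nat_lit 76) (nat_lit 1417671185) (nat_lit 75) (nat_lit 3) (nat_lit 74) (nat_lit 1) (nat_lit 75) (nat_lit 1) (nat_lit 392) (nat_lit 396) (nat_lit 232)) (XT.lf (nat_lit 152) (nat_lit 2758916522) (nat_lit 0) (nat_lit 283602997) (nat_lit 76) (nat_lit 283602997) (nat_lit 74) (nat_lit 1) (nat_lit 72) (nat_lit 1) (nat_lit 73) (nat_lit 1) (nat_lit 393) (nat_lit 396) (nat_lit 231)))) (XT.nd (nat_lit 156) (nat_lit 228) (nat_lit 0) (XT.nd (nat_lit 78) (nat_lit 76)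 (nat_lit 0) (XT.lf (nat_lit 0) (nat_lit 825034250) (nat_lit 0) (nat_lit 1643042707) (nat_lit 152) (nat_lit 825034250) (nat_lit 72) (nat_lit 3) (nat_lit 72) (nat_lit 1) (nat_lit 74) (nat_lit 1) (nat_lit 394) (nat_lit 396) (nat_lit 230)) (XT.lf (nat_lit 76) (nat_lit 557408761) (nat_lit 0) (nat_lit 1351591729) (nat_lit 76) (nat_lit 1351591729) (nat_lit 72) (nat_lit 3) (nat_lit 71) (nat_lit 1) (nat_lit 72) (nat_lit 1) (nat_lit 395) (nat_lit 396) (nat_lit 229))) (XT.nd (nat_lit 78) (nat_lit 76) (nat_lit 0) (XT.lf (nat_lit 152) (nat_lit 2724609445) (nat_lit 0) (nat_lit 251977589) (nat_lit 76) (nat_lit 251977589) (nat_lit 71) (nat_lit 1) (nat_lit 69) (nat_lit 1) (nat_lit 70) (nat_lit 1) (nat_lit 396) (nat_lit 396) (nat_lit 228)) (XT.nd (nat_lit 78) (nat_lit 76) (nat_lit 0) (XT.lf (nat_lit 0) (nat_lit 823246057) (nat_lit 0) (nat_lit 1550035976) (nat_lit 152) (nat_lit 823246057) (nat_lit 69) (nat_lit 3) (nat_lit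 69) (nat_lit 1) (nat_lit 71) (nat_lit 1) (nat_lit 397) (nat_lit 396) (nat_lit 227)) (XT.lf (nat_lit 76) (nat_lit 584579827) (nat_lit 0) (nat_lit 1290201108) (nat_lit 76) (nat_lit 1290201108) (nat_lit 69) (nat_lit 3) (nat_lit 68) (nat_lit 1) (nat_lit 69) (nat_lit 1) (nat_lit 398) (nat_lit 396) (nat_lit 226)))))) (XT.nd (nat_lit 390) (nat_lit 456) (nat_lit 0) (XT.nd (nat_lit 156) (nat_lit 228) (nat_lit 0) (XT.nd (nat_lit 78) (nat_lit 0) (nat_lit 0) (XT.lf (nat_lit 152) (nat_lit 2686166463) (nat_lit 0) (nat_lit 223878824) (nat_lit 76) (nat_lit 223878824) (nat_lit 68) (nat_lit 1) (nat_lit 66) (nat_lit 1) (nat_lit 67) (nat_lit 1) (nat_lit 399) (nat_lit 396) (nat_lit 225)) (XT.lf (nat_lit 0) (nat_lit 819029683) (nat_lit 0) (nat_lit 1464773113) (nat_lit 152) (nat_lit 819029683) (nat_lit 66) (nat_lit 3) (nat_lit 66) (nat_lit 1) (nat_lit 68) (nat_lit 1) (nat_lit 400) (nat_lit 396) (nat_lit 224))) (XT.nd (nat_lit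 78) (nat_lit 152) (nat_lit 0) (XT.lf (nat_lit 76) (nat_lit 606119141) (nat_lit 0) (nat_lit 1233054509) (nat_lit 76) (nat_lit 1233054509) (nat_lit 66) (nat_lit 3) (nat_lit 65) (nat_lit 1) (nat_lit 66) (nat_lit 1) (nat_lit 401) (nat_lit 396) (nat_lit 223)) (XT.nd (nat_lit 78) (nat_lit 0) (nat_lit 0) (XT.lf (nat_lit 152) (nat_lit 2644280674) (nat_lit 0) (nat_lit 198913436) (nat_lit 76) (nat_lit 198913436) (nat_lit 65) (nat_lit 1) (nat_lit 63) (nat_lit 1) (nat_lit 64) (nat_lit 1) (nat_lit 402) (nat_lit 396) (nat_lit 222)) (XT.lf (nat_lit 0) (nat_lit 812732435) (nat_lit 0) (nat_lit 1386467108) (nat_lit 152) (nat_lit 812732435) (nat_lit 63) (nat_lit 3) (nat_lit 63) (nat_lit 1) (nat_lit 65) (nat_lit 1) (nat_lit 403) (nat_lit 396) (nat_lit 221))))) (XT.nd (nat_lit 156) (nat_lit 228) (nat_lit 0) (XT.nd (nat_lit 78) (nat_lit 152) (nat_lit 0) (XT.lf (nat_lit 76) (nat_lit 622730498) (nat_lit 0) (nat_lit 1179754452)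 (nat_lit 76) (nat_lit 1179754452) (nat_lit 63) (nat_lit 3) (nat_lit 62) (nat_lit 1) (nat_lit 63) (nat_lit 1) (nat_lit 404) (nat_lit 396) (nat_lit 220)) (XT.lf (nat_lit 152) (nat_lit 2599561134) (nat_lit 0) (nat_lit 176732011) (nat_lit 76) (nat_lit 176732011) (nat_lit 62) (nat_lit 1) (nat_lit 60) (nat_lit 1) (nat_lit 61) (nat_lit 1) (nat_lit 405) (nat_lit 396) (nat_lit 219))) (XT.nd (nat_lit 78) (nat_lit 228) (nat_lit 0) (XT.lf (nat_lit 0) (nat_lit 804660659) (nat_lit 0) (nat_lit 1314416485) (nat_lit 152) (nat_lit 804660659) (nat_lit 60) (nat_lit 3) (nat_lit 60) (nat_lit 1) (nat_lit 62) (nat_lit 1) (nat_lit 406) (nat_lit 396) (nat_lit 218)) (XT.nd (nat_lit 78) (nat_lit 152) (nat_lit 0) (XT.lf (nat_lit 76) (nat_lit 635037002) (nat_lit 0) (nat_lit 1129945571) (nat_lit 76) (nat_lit 1129945571) (nat_lit 60) (nat_lit 3) (nat_lit 59) (nat_lit 1) (nat_lit 60) (nat_lit 1) (nat_lit 407) (nat_lit 396) (nat_lit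 217)) (XT.lf (nat_lit 152) (nat_lit 2552542420) (nat_lit 0) (nat_lit 157024103) (nat_lit 76) (nat_lit 157024103) (nat_lit 59) (nat_lit 1) (nat_lit 57) (nat_lit 1) (nat_lit 58) (nat_lit 1) (nat_lit 408) (nat_lit 396) (nat_lit 216))))))))
noncomputable def ec285 : XT := (XT.nd (nat_lit 1482) (nat_lit 76) (nat_lit 0) (XT.nd (nat_lit 702) (nat_lit 684) (nat_lit 0) (XT.nd (nat_lit 312) (nat_lit 456) (nat_lit 0) (XT.nd (nat_lit 156) (nat_lit 152) (nat_lit 0) (XT.nd (nat_lit 78) (nat_lit 76) (nat_lit 0) (XT.lf (nat_lit 0) (nat_lit 795084376) (nat_lit 0) (nat_lit 1247995825) (nat_lit 152) (nat_lit 795084376) (nat_lit 57) (nat_lit 3) (nat_lit 57) (nat_lit 1) (nat_lit 59) (nat_lit 1) (nat_lit 409) (nat_lit 396) (nat_lit 215)) (XT.lf (nat_lit 76) (nat_lit 643590133) (nat_lit 0) (nat_lit 1083309986) (nat_lit 76) (nat_lit 1083309986) (nat_lit 57) (nat_lit 3) (nat_lit 56) (nat_lit 1) (nat_lit 57) (nat_lit 1) (nat_lit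 410) (nat_lit 396) (nat_lit 214))) (XT.nd (nat_lit 78) (nat_lit 0) (nat_lit 0) (XT.lf (nat_lit 152) (nat_lit 2503693135) (nat_lit 0) (nat_lit 139513882) (nat_lit 76) (nat_lit 139513882) (nat_lit 56) (nat_lit 1) (nat_lit 54) (nat_lit 1) (nat_lit 55) (nat_lit 1) (nat_lit 411) (nat_lit 396) (nat_lit 213)) (XT.lf (nat_lit 0) (nat_lit 784241396) (nat_lit 0) (nat_lit 1186647353) (nat_lit 152) (nat_lit 784241396) (nat_lit 54) (nat_lit 3) (nat_lit 54) (nat_lit 1) (nat_lit 56) (nat_lit 1) (nat_lit 412) (nat_lit 396) (nat_lit 212)))) (XT.nd (nat_lit 156) (nat_lit 228) (nat_lit 0) (XT.nd (nat_lit 78) (nat_lit 152) (nat_lit 0) (XT.lf (nat_lit 76) (nat_lit 648877790) (nat_lit 0) (nat_lit 1039563184) (nat_lit 76) (nat_lit 1039563184) (nat_lit 54) (nat_lit 3) (nat_lit 53) (nat_lit 1) (nat_lit 54) (nat_lit 1) (nat_lit 413) (nat_lit 396) (nat_lit 211)) (XT.lf (nat_lit 152) (nat_lit 2453423442) (nat_lit 0) (nat_lit 123956277)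 (nat_lit 76) (nat_lit 123956277) (nat_lit 53) (nat_lit 1) (nat_lit 51) (nat_lit 1) (nat_lit 52) (nat_lit 1) (nat_lit 414) (nat_lit 396) (nat_lit 210))) (XT.nd (nat_lit 78) (nat_lit 228) (nat_lit 0) (XT.lf (nat_lit 0) (nat_lit 772340970) (nat_lit 0) (nat_lit 1129873450) (nat_lit 152) (nat_lit 772340970) (nat_lit 51) (nat_lit 3) (nat_lit 51) (nat_lit 1) (nat_lit 53) (nat_lit 1) (nat_lit 415) (nat_lit 396) (nat_lit 209)) (XT.nd (nat_lit 78) (nat_lit 152) (nat_lit 0) (XT.lf (nat_lit 76) (nat_lit 651331446) (nat_lit 0) (nat_lit 998450359) (nat_lit 76) (nat_lit 998450359) (nat_lit 51) (nat_lit 3) (nat_lit 50) (nat_lit 1) (nat_lit 51) (nat_lit 1) (nat_lit 416) (nat_lit 396) (nat_lit 208)) (XT.lf (nat_lit 152) (nat_lit 2402091766) (nat_lit 0) (nat_lit 110133546) (nat_lit 76) (nat_lit 110133546) (nat_lit 50) (nat_lit 1) (nat_lit 48) (nat_lit 1) (nat_lit 49) (nat_lit 1) (nat_lit 417) (nat_lit 396) (nat_lit 207))))))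 (XT.nd (nat_lit 390) (nat_lit 380) (nat_lit 0) (XT.nd (nat_lit 156) (nat_lit 228) (nat_lit 0) (XT.nd (nat_lit 78) (nat_lit 76) (nat_lit 0) (XT.lf (nat_lit 0) (nat_lit 759567032) (nat_lit 0) (nat_lit 1077230010) (nat_lit 152) (nat_lit 759567032) (nat_lit 48) (nat_lit 3) (nat_lit 48) (nat_lit 1) (nat_lit 50) (nat_lit 1) (nat_lit 418) (nat_lit 396) (nat_lit 206)) (XT.lf (nat_lit 76) (nat_lit 651332500) (nat_lit 0) (nat_lit 959743158) (nat_lit 76) (nat_lit 959743158) (nat_lit 48) (nat_lit 3) (nat_lit 47) (nat_lit 1) (nat_lit 48) (nat_lit 1) (nat_lit 419) (nat_lit 396) (nat_lit 205))) (XT.nd (nat_lit 78) (nat_lit 76) (nat_lit 0) (XT.lf (nat_lit 152) (nat_lit 2350010738) (nat_lit 0) (nat_lit 97852229) (nat_lit 76) (nat_lit 97852229) (nat_lit 47) (nat_lit 1) (nat_lit 45) (nat_lit 1) (nat_lit 46) (nat_lit 1) (nat_lit 420) (nat_lit 396) (nat_lit 204)) (XT.nd (nat_lit 78) (nat_lit 76) (nat_lit 0) (XT.lf (nat_lit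 0) (nat_lit 746081086) (nat_lit 0) (nat_lit 1028320527) (nat_lit 152) (nat_lit 746081086) (nat_lit 45) (nat_lit 3) (nat_lit 45) (nat_lit 1) (nat_lit 47) (nat_lit 1) (nat_lit 421) (nat_lit 396) (nat_lit 203)) (XT.lf (nat_lit 76) (nat_lit 649217913) (nat_lit 0) (nat_lit 923236789) (nat_lit 76) (nat_lit 923236789) (nat_lit 45) (nat_lit 3) (nat_lit 44) (nat_lit 1) (nat_lit 45) (nat_lit 1) (nat_lit 422) (nat_lit 396) (nat_lit 202))))) (XT.nd (nat_lit 156) (nat_lit 228) (nat_lit 0) (XT.nd (nat_lit 78) (nat_lit 0) (nat_lit 0) (XT.lf (nat_lit 152) (nat_lit 2297452468) (nat_lit 0) (nat_lit 86940438) (nat_lit 76) (nat_lit 86940438) (nat_lit 44) (nat_lit 1) (nat_lit 42) (nat_lit 1) (nat_lit 43) (nat_lit 1) (nat_lit 423) (nat_lit 396) (nat_lit 201)) (XT.lf (nat_lit 0) (nat_lit 732024756) (nat_lit 0) (nat_lit 982790844) (nat_lit 152) (nat_lit 732024756) (nat_lit 42) (nat_lit 3) (nat_lit 42) (nat_lit 1) (nat_lit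 44) (nat_lit 1) (nat_lit 424) (nat_lit 396) (nat_lit 200))) (XT.nd (nat_lit 78) (nat_lit 152) (nat_lit 0) (XT.lf (nat_lit 76) (nat_lit 645285225) (nat_lit 0) (nat_lit 888747447) (nat_lit 76) (nat_lit 888747447) (nat_lit 42) (nat_lit 3) (nat_lit 41) (nat_lit 1) (nat_lit 42) (nat_lit 1) (nat_lit 425) (nat_lit 396) (nat_lit 199)) (XT.nd (nat_lit 78) (nat_lit 0) (nat_lit 0) (XT.lf (nat_lit 152) (nat_lit 2244653231) (nat_lit 0) (nat_lit 77245453) (nat_lit 76) (nat_lit 77245453) (nat_lit 41) (nat_lit 1) (nat_lit 39) (nat_lit 1) (nat_lit 40) (nat_lit 1) (nat_lit 426) (nat_lit 396) (nat_lit 198)) (XT.lf (nat_lit 0) (nat_lit 717522062) (nat_lit 0) (nat_lit 940324484) (nat_lit 152) (nat_lit 717522062) (nat_lit 39) (nat_lit 3) (nat_lit 39) (nat_lit 1) (nat_lit 41) (nat_lit 1) (nat_lit 427) (nat_lit 396) (nat_lit 197))))))) (XT.nd (nat_lit 37986) (nat_lit 0) (nat_lit 24700) (XT.nd (nat_lit 37596) (nat_lit 0) (nat_lit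 25612) (XT.nd (nat_lit 37440) (nat_lit 0) (nat_lit 25536) (XT.nd (nat_lit 37362) (nat_lit 0) (nat_lit 25536) (XT.lf (nat_lit 76) (nat_lit 639797000) (nat_lit 0) (nat_lit 856110030) (nat_lit 76) (nat_lit 856110030) (nat_lit 39) (nat_lit 3) (nat_lit 38) (nat_lit 1) (nat_lit 39) (nat_lit 1) (nat_lit 428) (nat_lit 396) (nat_lit 196)) (XT.lf (nat_lit 1292) (nat_lit 2010881532) (nat_lit 0) (nat_lit 6918367668) (nat_lit 1292) (nat_lit 2010881532) (nat_lit 391) (nat_lit 1) (nat_lit 374) (nat_lit 0) (nat_lit 391) (nat_lit 0) (nat_lit 226) (nat_lit 397) (nat_lit 397))) (XT.nd (nat_lit 78) (nat_lit 0) (nat_lit 76) (XT.lf (nat_lit 1292) (nat_lit 7858560264) (nat_lit 76) (nat_lit 6850540534) (nat_lit 0) (nat_lit 6850540534) (nat_lit 391) (nat_lit 1) (nat_lit 375) (nat_lit 1) (nat_lit 374) (nat_lit 0) (nat_lit 227) (nat_lit 397) (nat_lit 396)) (XT.lf (nat_lit 1292) (nat_lit 3800587113) (nat_lit 0) (nat_lit 13644919185)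 (nat_lit 1216) (nat_lit 3800587113) (nat_lit 392) (nat_lit 1) (nat_lit 375) (nat_lit 1) (nat_lit 391) (nat_lit 1) (nat_lit 228) (nat_lit 397) (nat_lit 395)))) (XT.nd (nat_lit 156) (nat_lit 0) (nat_lit 76) (XT.nd (nat_lit 78) (nat_lit 0) (nat_lit 76) (XT.lf (nat_lit 1292) (nat_lit 7217511154) (nat_lit 76) (nat_lit 6860135240) (nat_lit 0) (nat_lit 6860135240) (nat_lit 392) (nat_lit 1) (nat_lit 376) (nat_lit 1) (nat_lit 375) (nat_lit 1) (nat_lit 229) (nat_lit 397) (nat_lit 394)) (XT.lf (nat_lit 1292) (nat_lit 3386781114) (nat_lit 0) (nat_lit 13862806209) (nat_lit 1216) (nat_lit 3386781114) (nat_lit 393) (nat_lit 1) (nat_lit 376) (nat_lit 1) (nat_lit 392) (nat_lit 1) (nat_lit 230) (nat_lit 397) (nat_lit 393))) (XT.nd (nat_lit 78) (nat_lit 0) (nat_lit 76) (XT.lf (nat_lit 1292) (nat_lit 6206633987) (nat_lit 76) (nat_lit 7066570868) (nat_lit 0) (nat_lit 7066570868) (nat_lit 393) (nat_lit 1) (nat_lit 377) (nat_lit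 1) (nat_lit 376) (nat_lit 1) (nat_lit 231) (nat_lit 397) (nat_lit 392)) (XT.nd (nat_lit 78) (nat_lit 0) (nat_lit 0) (XT.lf (nat_lit 1292) (nat_lit 2797383199) (nat_lit 0) (nat_lit 14455265377) (nat_lit 1216) (nat_lit 2797383199) (nat_lit 394) (nat_lit 1) (nat_lit 377) (nat_lit 1) (nat_lit 393) (nat_lit 1) (nat_lit 232) (nat_lit 397) (nat_lit 391)) (XT.lf (nat_lit 1292) (nat_lit 4859001907) (nat_lit 76) (nat_lit 7452798673) (nat_lit 0) (nat_lit 7452798673) (nat_lit 394) (nat_lit 1) (nat_lit 378) (nat_lit 1) (nat_lit 377) (nat_lit 1) (nat_lit 233) (nat_lit 397) (nat_lit 390)))))) (XT.nd (nat_lit 390) (nat_lit 1140) (nat_lit 0) (XT.nd (nat_lit 156) (nat_lit 0) (nat_lit 76) (XT.nd (nat_lit 78) (nat_lit 0) (nat_lit 0) (XT.lf (nat_lit 1292) (nat_lit 2048279260) (nat_lit 0) (nat_lit 15389520550) (nat_lit 1216) (nat_lit 2048279260) (nat_lit 395) (nat_lit 1) (nat_lit 378) (nat_lit 1) (nat_lit 394) (nat_lit 1)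 (nat_lit 234) (nat_lit 397) (nat_lit 389)) (XT.lf (nat_lit 1292) (nat_lit 3205444570) (nat_lit 76) (nat_lit 8002916030) (nat_lit 0) (nat_lit 8002916030) (nat_lit 395) (nat_lit 1) (nat_lit 379) (nat_lit 1) (nat_lit 378) (nat_lit 1) (nat_lit 235) (nat_lit 397) (nat_lit 388))) (XT.nd (nat_lit 78) (nat_lit 0) (nat_lit 0) (XT.lf (nat_lit 1292) (nat_lit 1154274160) (nat_lit 0) (nat_lit 16635005444) (nat_lit 1216) (nat_lit 1154274160) (nat_lit 396) (nat_lit 1) (nat_lit 379) (nat_lit 1) (nat_lit 395) (nat_lit 1) (nat_lit 236) (nat_lit 397) (nat_lit 387)) (XT.nd (nat_lit 78) (nat_lit 0) (nat_lit 76) (XT.lf (nat_lit 1292) (nat_lit 1274686972) (nat_lit 76) (nat_lit 8702095767) (nat_lit 0) (nat_lit 8702095767) (nat_lit 396) (nat_lit 1) (nat_lit 380) (nat_lit 1) (nat_lit 379) (nat_lit 1) (nat_lit 237) (nat_lit 397) (nat_lit 386)) (XT.lf (nat_lit 1292) (nat_lit 129158714) (nat_lit 0) (nat_lit 18163227216) (nat_lit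 1216) (nat_lit 129158714) (nat_lit 397) (nat_lit 1) (nat_lit 380) (nat_lit 1) (nat_lit 396) (nat_lit 1) (nat_lit 238) (nat_lit 397) (nat_lit 385))))) (XT.nd (nat_lit 156) (nat_lit 0) (nat_lit 76) (XT.nd (nat_lit 78) (nat_lit 0) (nat_lit 0) (XT.lf (nat_lit 1368) (nat_lit 8638713745) (nat_lit 0) (nat_lit 888830503) (nat_lit 1292) (nat_lit 8638713745) (nat_lit 381) (nat_lit 1) (nat_lit 363) (nat_lit 1) (nat_lit 380) (nat_lit 1) (nat_lit 239) (nat_lit 397) (nat_lit 384)) (XT.lf (nat_lit 1368) (nat_lit 15909439876) (nat_lit 76) (nat_lit 1004283908) (nat_lit 0) (nat_lit 1004283908) (nat_lit 381) (nat_lit 1) (nat_lit 364) (nat_lit 1) (nat_lit 363) (nat_lit 1) (nat_lit 240) (nat_lit 397) (nat_lit 383))) (XT.nd (nat_lit 78) (nat_lit 0) (nat_lit 0) (XT.lf (nat_lit 1368) (nat_lit 7211888676) (nat_lit 0) (nat_lit 3248622691) (nat_lit 1292) (nat_lit 7211888676) (nat_lit 382) (nat_lit 1) (nat_lit 364) (nat_lit 1)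 (nat_lit 381) (nat_lit 1) (nat_lit 241) (nat_lit 397) (nat_lit 382)) (XT.nd (nat_lit 78) (nat_lit 0) (nat_lit 76) (XT.lf (nat_lit 1368) (nat_lit 12949537313) (nat_lit 76) (nat_lit 2241740528) (nat_lit 0) (nat_lit 2241740528) (nat_lit 382) (nat_lit 1) (nat_lit 365) (nat_lit 1) (nat_lit 364) (nat_lit 1) (nat_lit 242) (nat_lit 397) (nat_lit 381)) (XT.lf (nat_lit 76) (nat_lit 5695011531) (nat_lit 0) (nat_lit 5806851548) (nat_lit 1292) (nat_lit 5695011531) (nat_lit 366) (nat_lit 1) (nat_lit 365) (nat_lit 1) (nat_lit 382) (nat_lit 1) (nat_lit 243) (nat_lit 397) (nat_lit 380))))))))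
noncomputable def ec286 : XT := (XT.nd (nat_lit 1482) (nat_lit 4256) (nat_lit 0) (XT.nd (nat_lit 702) (nat_lit 3040) (nat_lit 0) (XT.nd (nat_lit 312) (nat_lit 1824) (nat_lit 0) (XT.nd (nat_lit 156) (nat_lit 608) (nat_lit 0) (XT.nd (nat_lit 78) (nat_lit 0) (nat_lit 0) (XT.lf (nat_lit 912) (nat_lit 9819001639) (nat_lit 0) (nat_lit 3573474516) (nat_lit 836) (nat_lit 3573474516) (nat_lit 366) (nat_lit 1) (nat_lit 354) (nat_lit 1) (nat_lit 365) (nat_lit 1) (nat_lit 244) (nat_lit 397) (nat_lit 379)) (XT.lf (nat_lit 76) (nat_lit 4098260142) (nat_lit 0) (nat_lit 8542400802) (nat_lit 912) (nat_lit 4098260142) (nat_lit 355) (nat_lit 1) (nat_lit 354) (nat_lit 1) (nat_lit 366) (nat_lit 1) (nat_lit 245) (nat_lit 397) (nat_lit 378))) (XT.nd (nat_lit 78) (nat_lit 0) (nat_lit 0) (XT.lf (nat_lit 684) (nat_lit 6537546639) (nat_lit 0) (nat_lit 4989259040) (nat_lit 608) (nat_lit 4989259040) (nat_lit 355) (nat_lit 1) (nat_lit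 346) (nat_lit 1) (nat_lit 354) (nat_lit 1) (nat_lit 246) (nat_lit 397) (nat_lit 377)) (XT.lf (nat_lit 76) (nat_lit 2431082215) (nat_lit 0) (nat_lit 11435649597) (nat_lit 684) (nat_lit 2431082215) (nat_lit 347) (nat_lit 1) (nat_lit 346) (nat_lit 1) (nat_lit 355) (nat_lit 1) (nat_lit 247) (nat_lit 397) (nat_lit 376)))) (XT.nd (nat_lit 156) (nat_lit 1216) (nat_lit 0) (XT.nd (nat_lit 78) (nat_lit 0) (nat_lit 0) (XT.lf (nat_lit 684) (nat_lit 3123465551) (nat_lit 0) (nat_lit 6479594570) (nat_lit 608) (nat_lit 6479594570) (nat_lit 347) (nat_lit 1) (nat_lit 338) (nat_lit 1) (nat_lit 346) (nat_lit 1) (nat_lit 248) (nat_lit 397) (nat_lit 375)) (XT.lf (nat_lit 76) (nat_lit 702241492) (nat_lit 0) (nat_lit 14468378406) (nat_lit 684) (nat_lit 702241492) (nat_lit 339) (nat_lit 1) (nat_lit 338) (nat_lit 1) (nat_lit 347) (nat_lit 1) (nat_lit 249) (nat_lit 397) (nat_lit 374))) (XT.nd (nat_lit 78) (nat_lit 608) (nat_lit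 0) (XT.lf (nat_lit 76) (nat_lit 7633289471) (nat_lit 0) (nat_lit 398351008) (nat_lit 608) (nat_lit 7633289471) (nat_lit 331) (nat_lit 1) (nat_lit 330) (nat_lit 1) (nat_lit 338) (nat_lit 1) (nat_lit 250) (nat_lit 397) (nat_lit 373)) (XT.nd (nat_lit 78) (nat_lit 0) (nat_lit 0) (XT.lf (nat_lit 684) (nat_lit 13323052059) (nat_lit 0) (nat_lit 1069549268) (nat_lit 608) (nat_lit 1069549268) (nat_lit 331) (nat_lit 1) (nat_lit 322) (nat_lit 1) (nat_lit 330) (nat_lit 1) (nat_lit 251) (nat_lit 397) (nat_lit 372)) (XT.lf (nat_lit 76) (nat_lit 5652110673) (nat_lit 0) (nat_lit 3957214009) (nat_lit 684) (nat_lit 5652110673) (nat_lit 323) (nat_lit 1) (nat_lit 322) (nat_lit 1) (nat_lit 331) (nat_lit 1) (nat_lit 252) (nat_lit 397) (nat_lit 371)))))) (XT.nd (nat_lit 390) (nat_lit 1520) (nat_lit 0) (XT.nd (nat_lit 156) (nat_lit 988) (nat_lit 0) (XT.nd (nat_lit 78) (nat_lit 0) (nat_lit 0) (XT.lf (nat_lit 608) (nat_lit 9305395313)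 (nat_lit 0) (nat_lit 2880020445) (nat_lit 532) (nat_lit 2880020445) (nat_lit 323) (nat_lit 1) (nat_lit 315) (nat_lit 1) (nat_lit 322) (nat_lit 1) (nat_lit 253) (nat_lit 397) (nat_lit 370)) (XT.lf (nat_lit 76) (nat_lit 3636327443) (nat_lit 0) (nat_lit 7599807402) (nat_lit 608) (nat_lit 3636327443) (nat_lit 316) (nat_lit 1) (nat_lit 315) (nat_lit 1) (nat_lit 323) (nat_lit 1) (nat_lit 254) (nat_lit 397) (nat_lit 369))) (XT.nd (nat_lit 78) (nat_lit 456) (nat_lit 0) (XT.lf (nat_lit 608) (nat_lit 5224612576) (nat_lit 0) (nat_lit 4729163132) (nat_lit 532) (nat_lit 4729163132) (nat_lit 316) (nat_lit 1) (nat_lit 308) (nat_lit 1) (nat_lit 315) (nat_lit 1) (nat_lit 255) (nat_lit 397) (nat_lit 368)) (XT.nd (nat_lit 78) (nat_lit 456) (nat_lit 0) (XT.lf (nat_lit 76) (nat_lit 1592246573) (nat_lit 0) (nat_lit 11312935681) (nat_lit 608) (nat_lit 1592246573) (nat_lit 309) (nat_lit 1) (nat_lit 308) (nat_lit 1) (nat_lit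 316) (nat_lit 1) (nat_lit 256) (nat_lit 397) (nat_lit 367)) (XT.lf (nat_lit 532) (nat_lit 1092883537) (nat_lit 0) (nat_lit 6610604030) (nat_lit 456) (nat_lit 6610604030) (nat_lit 309) (nat_lit 1) (nat_lit 302) (nat_lit 1) (nat_lit 308) (nat_lit 1) (nat_lit 257) (nat_lit 397) (nat_lit 366))))) (XT.nd (nat_lit 156) (nat_lit 912) (nat_lit 0) (XT.nd (nat_lit 78) (nat_lit 0) (nat_lit 0) (XT.lf (nat_lit 608) (nat_lit 13195903457) (nat_lit 0) (nat_lit 469662888) (nat_lit 532) (nat_lit 469662888) (nat_lit 302) (nat_lit 1) (nat_lit 294) (nat_lit 1) (nat_lit 301) (nat_lit 1) (nat_lit 258) (nat_lit 397) (nat_lit 365)) (XT.lf (nat_lit 76) (nat_lit 5469489188) (nat_lit 0) (nat_lit 3018486681) (nat_lit 608) (nat_lit 5469489188) (nat_lit 295) (nat_lit 1) (nat_lit 294) (nat_lit 1) (nat_lit 302) (nat_lit 1) (nat_lit 259) (nat_lit 397) (nat_lit 364))) (XT.nd (nat_lit 78) (nat_lit 456) (nat_lit 0) (XT.lf (nat_lit 532)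 (nat_lit 8718195971) (nat_lit 0) (nat_lit 2532910287) (nat_lit 456) (nat_lit 2532910287) (nat_lit 295) (nat_lit 1) (nat_lit 288) (nat_lit 1) (nat_lit 294) (nat_lit 1) (nat_lit 260) (nat_lit 397) (nat_lit 363)) (XT.nd (nat_lit 78) (nat_lit 456) (nat_lit 0) (XT.lf (nat_lit 76) (nat_lit 3237888888) (nat_lit 0) (nat_lit 7137328016) (nat_lit 532) (nat_lit 3237888888) (nat_lit 289) (nat_lit 1) (nat_lit 288) (nat_lit 1) (nat_lit 295) (nat_lit 1) (nat_lit 261) (nat_lit 397) (nat_lit 362)) (XT.lf (nat_lit 532) (nat_lit 4228698929) (nat_lit 0) (nat_lit 4608218011) (nat_lit 456) (nat_lit 4608218011) (nat_lit 289) (nat_lit 1) (nat_lit 282) (nat_lit 1) (nat_lit 288) (nat_lit 1) (nat_lit 262) (nat_lit 397) (nat_lit 361))))))) (XT.nd (nat_lit 702) (nat_lit 2128) (nat_lit 0) (XT.nd (nat_lit 312) (nat_lit 1216) (nat_lit 0) (XT.nd (nat_lit 156) (nat_lit 456) (nat_lit 0) (XT.nd (nat_lit 78) (nat_lit 456) (nat_lit 0) (XT.lf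 (nat_lit 76) (nat_lit 1002600337) (nat_lit 0) (nat_lit 11275636325) (nat_lit 532) (nat_lit 1002600337) (nat_lit 283) (nat_lit 1) (nat_lit 282) (nat_lit 1) (nat_lit 289) (nat_lit 1) (nat_lit 263) (nat_lit 397) (nat_lit 360)) (XT.lf (nat_lit 76) (nat_lit 6429550359) (nat_lit 0) (nat_lit 258927779) (nat_lit 456) (nat_lit 6429550359) (nat_lit 277) (nat_lit 1) (nat_lit 276) (nat_lit 1) (nat_lit 282) (nat_lit 1) (nat_lit 264) (nat_lit 397) (nat_lit 359))) (XT.nd (nat_lit 78) (nat_lit 0) (nat_lit 0) (XT.lf (nat_lit 532) (nat_lit 10518270486) (nat_lit 0) (nat_lit 1220244536) (nat_lit 456) (nat_lit 1220244536) (nat_lit 277) (nat_lit 1) (nat_lit 270) (nat_lit 1) (nat_lit 276) (nat_lit 1) (nat_lit 265) (nat_lit 397) (nat_lit 358)) (XT.lf (nat_lit 76) (nat_lit 4070739241) (nat_lit 0) (nat_lit 4659617795) (nat_lit 532) (nat_lit 4070739241) (nat_lit 271) (nat_lit 1) (nat_lit 270) (nat_lit 1) (nat_lit 277) (nat_lit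 1) (nat_lit 266) (nat_lit 397) (nat_lit 357)))) (XT.nd (nat_lit 156) (nat_lit 836) (nat_lit 0) (XT.nd (nat_lit 78) (nat_lit 0) (nat_lit 0) (XT.lf (nat_lit 456) (nat_lit 5788230904) (nat_lit 0) (nat_lit 3429231834) (nat_lit 380) (nat_lit 3429231834) (nat_lit 271) (nat_lit 1) (nat_lit 265) (nat_lit 1) (nat_lit 270) (nat_lit 1) (nat_lit 267) (nat_lit 397) (nat_lit 356)) (XT.lf (nat_lit 76) (nat_lit 1723107650) (nat_lit 0) (nat_lit 9048905505) (nat_lit 456) (nat_lit 1723107650) (nat_lit 266) (nat_lit 1) (nat_lit 265) (nat_lit 1) (nat_lit 271) (nat_lit 1) (nat_lit 268) (nat_lit 397) (nat_lit 355))) (XT.nd (nat_lit 78) (nat_lit 456) (nat_lit 0) (XT.lf (nat_lit 456) (nat_lit 1083698983) (nat_lit 0) (nat_lit 5630839449) (nat_lit 380) (nat_lit 5630839449) (nat_lit 266) (nat_lit 1) (nat_lit 260) (nat_lit 1) (nat_lit 265) (nat_lit 1) (nat_lit 269) (nat_lit 397) (nat_lit 354)) (XT.nd (nat_lit 78) (nat_lit 0) (nat_lit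 0) (XT.lf (nat_lit 456) (nat_lit 10990208392) (nat_lit 0) (nat_lit 604383936) (nat_lit 380) (nat_lit 604383936) (nat_lit 260) (nat_lit 1) (nat_lit 254) (nat_lit 1) (nat_lit 259) (nat_lit 1) (nat_lit 270) (nat_lit 397) (nat_lit 353)) (XT.lf (nat_lit 76) (nat_lit 4266894253) (nat_lit 0) (nat_lit 3519577514) (nat_lit 456) (nat_lit 4266894253) (nat_lit 255) (nat_lit 1) (nat_lit 254) (nat_lit 1) (nat_lit 260) (nat_lit 1) (nat_lit 271) (nat_lit 397) (nat_lit 352)))))) (XT.nd (nat_lit 390) (nat_lit 988) (nat_lit 0) (XT.nd (nat_lit 156) (nat_lit 760) (nat_lit 0) (XT.nd (nat_lit 78) (nat_lit 0) (nat_lit 0) (XT.lf (nat_lit 456) (nat_lit 6114409171) (nat_lit 0) (nat_lit 2898291331) (nat_lit 380) (nat_lit 2898291331) (nat_lit 255) (nat_lit 1) (nat_lit 249) (nat_lit 1) (nat_lit 254) (nat_lit 1) (nat_lit 272) (nat_lit 397) (nat_lit 351)) (XT.lf (nat_lit 76) (nat_lit 1852479244) (nat_lit 0) (nat_lit 8066042715) (nat_lit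 456) (nat_lit 1852479244) (nat_lit 250) (nat_lit 1) (nat_lit 249) (nat_lit 1) (nat_lit 255) (nat_lit 1) (nat_lit 273) (nat_lit 397) (nat_lit 350))) (XT.nd (nat_lit 78) (nat_lit 456) (nat_lit 0) (XT.lf (nat_lit 380) (nat_lit 1286607132) (nat_lit 0) (nat_lit 5173088785) (nat_lit 304) (nat_lit 5173088785) (nat_lit 250) (nat_lit 1) (nat_lit 245) (nat_lit 1) (nat_lit 249) (nat_lit 1) (nat_lit 274) (nat_lit 397) (nat_lit 349)) (XT.nd (nat_lit 78) (nat_lit 0) (nat_lit 0) (XT.lf (nat_lit 456) (nat_lit 10434084675) (nat_lit 0) (nat_lit 531757816) (nat_lit 380) (nat_lit 531757816) (nat_lit 245) (nat_lit 1) (nat_lit 239) (nat_lit 1) (nat_lit 244) (nat_lit 1) (nat_lit 275) (nat_lit 397) (nat_lit 348)) (XT.lf (nat_lit 76) (nat_lit 3970936097) (nat_lit 0) (nat_lit 3421111938) (nat_lit 456) (nat_lit 3970936097) (nat_lit 240) (nat_lit 1) (nat_lit 239) (nat_lit 1) (nat_lit 245) (nat_lit 1) (nat_lit 276) (nat_lit 397)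 (nat_lit 347))))) (XT.nd (nat_lit 156) (nat_lit 684) (nat_lit 0) (XT.nd (nat_lit 78) (nat_lit 0) (nat_lit 0) (XT.lf (nat_lit 380) (nat_lit 5488708114) (nat_lit 0) (nat_lit 2871301900) (nat_lit 304) (nat_lit 2871301900) (nat_lit 240) (nat_lit 1) (nat_lit 235) (nat_lit 1) (nat_lit 239) (nat_lit 1) (nat_lit 277) (nat_lit 397) (nat_lit 346)) (XT.lf (nat_lit 76) (nat_lit 1526325885) (nat_lit 0) (nat_lit 8049240216) (nat_lit 380) (nat_lit 1526325885) (nat_lit 236) (nat_lit 1) (nat_lit 235) (nat_lit 1) (nat_lit 240) (nat_lit 1) (nat_lit 278) (nat_lit 397) (nat_lit 345))) (XT.nd (nat_lit 78) (nat_lit 380) (nat_lit 0) (XT.lf (nat_lit 380) (nat_lit 608634403) (nat_lit 0) (nat_lit 5182654348) (nat_lit 304) (nat_lit 5182654348) (nat_lit 236) (nat_lit 1) (nat_lit 231) (nat_lit 1) (nat_lit 235) (nat_lit 1) (nat_lit 279) (nat_lit 397) (nat_lit 344)) (XT.nd (nat_lit 78) (nat_lit 0) (nat_lit 0) (XT.lf (nat_lit 380)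 (nat_lit 9095650283) (nat_lit 0) (nat_lit 876434468) (nat_lit 304) (nat_lit 876434468) (nat_lit 231) (nat_lit 1) (nat_lit 226) (nat_lit 1) (nat_lit 230) (nat_lit 1) (nat_lit 280) (nat_lit 397) (nat_lit 343)) (XT.lf (nat_lit 76) (nat_lit 3301231108) (nat_lit 0) (nat_lit 4121492852) (nat_lit 380) (nat_lit 3301231108) (nat_lit 227) (nat_lit 1) (nat_lit 226) (nat_lit 1) (nat_lit 231) (nat_lit 1) (nat_lit 281) (nat_lit 397) (nat_lit 342))))))))
noncomputable def ec287 : XT := (XT.nd (nat_lit 1482) (nat_lit 2356) (nat_lit 0) (XT.nd (nat_lit 702) (nat_lit 1520) (nat_lit 0) (XT.nd (nat_lit 312) (nat_lit 836) (nat_lit 0) (XT.nd (nat_lit 156) (nat_lit 608) (nat_lit 0) (XT.nd (nat_lit 78) (nat_lit 0) (nat_lit 0) (XT.lf (nat_lit 380) (nat_lit 4141484484) (nat_lit 0) (nat_lit 3230178809) (nat_lit 304) (nat_lit 3230178809) (nat_lit 227) (nat_lit 1) (nat_lit 222) (nat_lit 1) (nat_lit 226) (nat_lit 1) (nat_lit 282)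 (nat_lit 397) (nat_lit 341)) (XT.lf (nat_lit 76) (nat_lit 855590459) (nat_lit 0) (nat_lit 8770910592) (nat_lit 380) (nat_lit 855590459) (nat_lit 223) (nat_lit 1) (nat_lit 222) (nat_lit 1) (nat_lit 227) (nat_lit 1) (nat_lit 283) (nat_lit 397) (nat_lit 340))) (XT.nd (nat_lit 78) (nat_lit 304) (nat_lit 0) (XT.lf (nat_lit 76) (nat_lit 4821557711) (nat_lit 0) (nat_lit 719997071) (nat_lit 304) (nat_lit 4821557711) (nat_lit 219) (nat_lit 1) (nat_lit 218) (nat_lit 1) (nat_lit 222) (nat_lit 1) (nat_lit 284) (nat_lit 397) (nat_lit 339)) (XT.lf (nat_lit 380) (nat_lit 7175500664) (nat_lit 0) (nat_lit 1535464798) (nat_lit 304) (nat_lit 1535464798) (nat_lit 219) (nat_lit 1) (nat_lit 214) (nat_lit 1) (nat_lit 218) (nat_lit 1) (nat_lit 285) (nat_lit 397) (nat_lit 338)))) (XT.nd (nat_lit 156) (nat_lit 608) (nat_lit 0) (XT.nd (nat_lit 78) (nat_lit 228) (nat_lit 0) (XT.lf (nat_lit 76) (nat_lit 2354356809) (nat_lit 0)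 (nat_lit 5422363663) (nat_lit 380) (nat_lit 2354356809) (nat_lit 215) (nat_lit 1) (nat_lit 214) (nat_lit 1) (nat_lit 219) (nat_lit 1) (nat_lit 286) (nat_lit 397) (nat_lit 337)) (XT.lf (nat_lit 304) (nat_lit 2260614311) (nat_lit 0) (nat_lit 3878460712) (nat_lit 228) (nat_lit 3878460712) (nat_lit 215) (nat_lit 1) (nat_lit 211) (nat_lit 1) (nat_lit 214) (nat_lit 1) (nat_lit 287) (nat_lit 397) (nat_lit 336))) (XT.nd (nat_lit 78) (nat_lit 228) (nat_lit 0) (XT.lf (nat_lit 380) (nat_lit 9769364004) (nat_lit 0) (nat_lit 68602493) (nat_lit 304) (nat_lit 68602493) (nat_lit 211) (nat_lit 1) (nat_lit 206) (nat_lit 1) (nat_lit 210) (nat_lit 1) (nat_lit 288) (nat_lit 397) (nat_lit 335)) (XT.nd (nat_lit 78) (nat_lit 228) (nat_lit 0) (XT.lf (nat_lit 76) (nat_lit 3639558995) (nat_lit 0) (nat_lit 2516266100) (nat_lit 380) (nat_lit 3639558995) (nat_lit 207) (nat_lit 1) (nat_lit 206) (nat_lit 1) (nat_lit 211) (nat_lit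 1) (nat_lit 289) (nat_lit 397) (nat_lit 334)) (XT.lf (nat_lit 304) (nat_lit 4836734137) (nat_lit 0) (nat_lit 2424992462) (nat_lit 228) (nat_lit 2424992462) (nat_lit 207) (nat_lit 1) (nat_lit 203) (nat_lit 1) (nat_lit 206) (nat_lit 1) (nat_lit 290) (nat_lit 397) (nat_lit 333)))))) (XT.nd (nat_lit 390) (nat_lit 760) (nat_lit 0) (XT.nd (nat_lit 156) (nat_lit 456) (nat_lit 0) (XT.nd (nat_lit 78) (nat_lit 304) (nat_lit 0) (XT.lf (nat_lit 76) (nat_lit 1208799610) (nat_lit 0) (nat_lit 7162225004) (nat_lit 304) (nat_lit 1208799610) (nat_lit 204) (nat_lit 1) (nat_lit 203) (nat_lit 1) (nat_lit 207) (nat_lit 1) (nat_lit 291) (nat_lit 397) (nat_lit 332)) (XT.lf (nat_lit 76) (nat_lit 4736364584) (nat_lit 0) (nat_lit 1268107) (nat_lit 304) (nat_lit 4736364584) (nat_lit 200) (nat_lit 1) (nat_lit 199) (nat_lit 1) (nat_lit 203) (nat_lit 1) (nat_lit 292) (nat_lit 397) (nat_lit 331))) (XT.nd (nat_lit 78) (nat_lit 228)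 (nat_lit 0) (XT.lf (nat_lit 304) (nat_lit 7043208258) (nat_lit 0) (nat_lit 1163341728) (nat_lit 228) (nat_lit 1163341728) (nat_lit 200) (nat_lit 1) (nat_lit 196) (nat_lit 1) (nat_lit 199) (nat_lit 1) (nat_lit 293) (nat_lit 397) (nat_lit 330)) (XT.nd (nat_lit 78) (nat_lit 228) (nat_lit 0) (XT.lf (nat_lit 76) (nat_lit 2307357678) (nat_lit 0) (nat_lit 4652071887) (nat_lit 304) (nat_lit 2307357678) (nat_lit 197) (nat_lit 1) (nat_lit 196) (nat_lit 1) (nat_lit 200) (nat_lit 1) (nat_lit 294) (nat_lit 397) (nat_lit 329)) (XT.lf (nat_lit 304) (nat_lit 2211346711) (nat_lit 0) (nat_lit 3477005351) (nat_lit 228) (nat_lit 3477005351) (nat_lit 197) (nat_lit 1) (nat_lit 193) (nat_lit 1) (nat_lit 196) (nat_lit 1) (nat_lit 295) (nat_lit 397) (nat_lit 328))))) (XT.nd (nat_lit 156) (nat_lit 456) (nat_lit 0) (XT.nd (nat_lit 78) (nat_lit 0) (nat_lit 0) (XT.lf (nat_lit 304) (nat_lit 8923656228) (nat_lit 0) (nat_lit 71252246)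 (nat_lit 228) (nat_lit 71252246) (nat_lit 193) (nat_lit 1) (nat_lit 189) (nat_lit 1) (nat_lit 192) (nat_lit 1) (nat_lit 296) (nat_lit 397) (nat_lit 327)) (XT.lf (nat_lit 76) (nat_lit 3247489335) (nat_lit 0) (nat_lit 2471682061) (nat_lit 304) (nat_lit 3247489335) (nat_lit 190) (nat_lit 1) (nat_lit 189) (nat_lit 1) (nat_lit 193) (nat_lit 1) (nat_lit 297) (nat_lit 397) (nat_lit 326))) (XT.nd (nat_lit 78) (nat_lit 228) (nat_lit 0) (XT.lf (nat_lit 304) (nat_lit 4112807117) (nat_lit 0) (nat_lit 2378272946) (nat_lit 228) (nat_lit 2378272946) (nat_lit 190) (nat_lit 1) (nat_lit 186) (nat_lit 1) (nat_lit 189) (nat_lit 1) (nat_lit 298) (nat_lit 397) (nat_lit 325)) (XT.nd (nat_lit 78) (nat_lit 228) (nat_lit 0) (XT.lf (nat_lit 76) (nat_lit 879649169) (nat_lit 0) (nat_lit 7014395110) (nat_lit 304) (nat_lit 879649169) (nat_lit 187) (nat_lit 1) (nat_lit 186) (nat_lit 1) (nat_lit 190) (nat_lit 1) (nat_lit 299) (nat_lit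 397) (nat_lit 324)) (XT.lf (nat_lit 76) (nat_lit 4047907477) (nat_lit 0) (nat_lit 582830745) (nat_lit 228) (nat_lit 4047907477) (nat_lit 184) (nat_lit 1) (nat_lit 183) (nat_lit 1) (nat_lit 186) (nat_lit 1) (nat_lit 300) (nat_lit 397) (nat_lit 323))))))) (XT.nd (nat_lit 702) (nat_lit 1140) (nat_lit 0) (XT.nd (nat_lit 312) (nat_lit 532) (nat_lit 0) (XT.nd (nat_lit 156) (nat_lit 456) (nat_lit 0) (XT.nd (nat_lit 78) (nat_lit 0) (nat_lit 0) (XT.lf (nat_lit 304) (nat_lit 5739665374) (nat_lit 0) (nat_lit 1422772211) (nat_lit 228) (nat_lit 1422772211) (nat_lit 184) (nat_lit 1) (nat_lit 180) (nat_lit 1) (nat_lit 183) (nat_lit 1) (nat_lit 301) (nat_lit 397) (nat_lit 322)) (XT.lf (nat_lit 76) (nat_lit 1697656569) (nat_lit 0) (nat_lit 5097526993) (nat_lit 304) (nat_lit 1697656569) (nat_lit 181) (nat_lit 1) (nat_lit 180) (nat_lit 1) (nat_lit 184) (nat_lit 1) (nat_lit 302) (nat_lit 397) (nat_lit 321))) (XT.nd (nat_lit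 78) (nat_lit 304) (nat_lit 0) (XT.lf (nat_lit 228) (nat_lit 1069267253) (nat_lit 0) (nat_lit 3666218994) (nat_lit 152) (nat_lit 3666218994) (nat_lit 181) (nat_lit 1) (nat_lit 178) (nat_lit 1) (nat_lit 180) (nat_lit 1) (nat_lit 303) (nat_lit 397) (nat_lit 320)) (XT.lf (nat_lit 304) (nat_lit 7124365451) (nat_lit 0) (nat_lit 593927790) (nat_lit 228) (nat_lit 593927790) (nat_lit 178) (nat_lit 1) (nat_lit 174) (nat_lit 1) (nat_lit 177) (nat_lit 1) (nat_lit 304) (nat_lit 397) (nat_lit 319)))) (XT.nd (nat_lit 156) (nat_lit 380) (nat_lit 0) (XT.nd (nat_lit 78) (nat_lit 152) (nat_lit 0) (XT.lf (nat_lit 76) (nat_lit 2397763035) (nat_lit 0) (nat_lit 3427463203) (nat_lit 304) (nat_lit 2397763035) (nat_lit 175) (nat_lit 1) (nat_lit 174) (nat_lit 1) (nat_lit 178) (nat_lit 1) (nat_lit 305) (nat_lit 397) (nat_lit 318)) (XT.lf (nat_lit 228) (nat_lit 2500914382) (nat_lit 0) (nat_lit 2817231700) (nat_lit 152) (nat_lit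 2817231700) (nat_lit 175) (nat_lit 1) (nat_lit 172) (nat_lit 1) (nat_lit 174) (nat_lit 1) (nat_lit 306) (nat_lit 397) (nat_lit 317))) (XT.nd (nat_lit 78) (nat_lit 380) (nat_lit 0) (XT.lf (nat_lit 76) (nat_lit 124187257) (nat_lit 0) (nat_lit 7801222356) (nat_lit 228) (nat_lit 124187257) (nat_lit 173) (nat_lit 1) (nat_lit 172) (nat_lit 1) (nat_lit 175) (nat_lit 1) (nat_lit 307) (nat_lit 397) (nat_lit 316)) (XT.nd (nat_lit 78) (nat_lit 152) (nat_lit 0) (XT.lf (nat_lit 76) (nat_lit 2993893207) (nat_lit 0) (nat_lit 1975719278) (nat_lit 228) (nat_lit 2993893207) (nat_lit 170) (nat_lit 1) (nat_lit 169) (nat_lit 1) (nat_lit 172) (nat_lit 1) (nat_lit 308) (nat_lit 397) (nat_lit 315)) (XT.lf (nat_lit 228) (nat_lit 3727742926) (nat_lit 0) (nat_lit 2075737574) (nat_lit 152) (nat_lit 2075737574) (nat_lit 170) (nat_lit 1) (nat_lit 167) (nat_lit 1) (nat_lit 169) (nat_lit 1) (nat_lit 309) (nat_lit 397) (nat_lit 314))))))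 (XT.nd (nat_lit 390) (nat_lit 608) (nat_lit 0) (XT.nd (nat_lit 156) (nat_lit 304) (nat_lit 0) (XT.nd (nat_lit 78) (nat_lit 228) (nat_lit 0) (XT.lf (nat_lit 76) (nat_lit 748308800) (nat_lit 0) (nat_lit 6299692834) (nat_lit 228) (nat_lit 748308800) (nat_lit 168) (nat_lit 1) (nat_lit 167) (nat_lit 1) (nat_lit 170) (nat_lit 1) (nat_lit 310) (nat_lit 397) (nat_lit 313)) (XT.lf (nat_lit 76) (nat_lit 3498396315) (nat_lit 0) (nat_lit 717015178) (nat_lit 228) (nat_lit 3498396315) (nat_lit 165) (nat_lit 1) (nat_lit 164) (nat_lit 1) (nat_lit 167) (nat_lit 1) (nat_lit 311) (nat_lit 397) (nat_lit 312))) (XT.nd (nat_lit 78) (nat_lit 152) (nat_lit 0) (XT.lf (nat_lit 228) (nat_lit 4773908483) (nat_lit 0) (nat_lit 1429376335) (nat_lit 152) (nat_lit 1429376335) (nat_lit 165) (nat_lit 1) (nat_lit 162) (nat_lit 1) (nat_lit 164) (nat_lit 1) (nat_lit 312) (nat_lit 397) (nat_lit 311)) (XT.nd (nat_lit 78) (nat_lit 152) (nat_lit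 0) (XT.lf (nat_lit 76) (nat_lit 1284251056) (nat_lit 0) (nat_lit 4983999190) (nat_lit 228) (nat_lit 1284251056) (nat_lit 163) (nat_lit 1) (nat_lit 162) (nat_lit 1) (nat_lit 165) (nat_lit 1) (nat_lit 313) (nat_lit 397) (nat_lit 310)) (XT.lf (nat_lit 228) (nat_lit 378468141) (nat_lit 0) (nat_lit 3547392437) (nat_lit 152) (nat_lit 3547392437) (nat_lit 163) (nat_lit 1) (nat_lit 160) (nat_lit 1) (nat_lit 162) (nat_lit 1) (nat_lit 314) (nat_lit 397) (nat_lit 309))))) (XT.nd (nat_lit 156) (nat_lit 380) (nat_lit 0) (XT.nd (nat_lit 78) (nat_lit 0) (nat_lit 0) (XT.lf (nat_lit 228) (nat_lit 5660834665) (nat_lit 0) (nat_lit 867176910) (nat_lit 152) (nat_lit 867176910) (nat_lit 160) (nat_lit 1) (nat_lit 157) (nat_lit 1) (nat_lit 159) (nat_lit 1) (nat_lit 315) (nat_lit 397) (nat_lit 308)) (XT.lf (nat_lit 76) (nat_lit 1742388370) (nat_lit 0) (nat_lit 3832882514) (nat_lit 228) (nat_lit 1742388370) (nat_lit 158) (nat_lit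 1) (nat_lit 157) (nat_lit 1) (nat_lit 160) (nat_lit 1) (nat_lit 316) (nat_lit 397) (nat_lit 307))) (XT.nd (nat_lit 78) (nat_lit 228) (nat_lit 0) (XT.lf (nat_lit 228) (nat_lit 1334521864) (nat_lit 0) (nat_lit 2953385904) (nat_lit 152) (nat_lit 2953385904) (nat_lit 158) (nat_lit 1) (nat_lit 155) (nat_lit 1) (nat_lit 157) (nat_lit 1) (nat_lit 317) (nat_lit 397) (nat_lit 306)) (XT.nd (nat_lit 78) (nat_lit 0) (nat_lit 0) (XT.lf (nat_lit 228) (nat_lit 6407518873) (nat_lit 0) (nat_lit 379402200) (nat_lit 152) (nat_lit 379402200) (nat_lit 155) (nat_lit 1) (nat_lit 152) (nat_lit 1) (nat_lit 154) (nat_lit 1) (nat_lit 318) (nat_lit 397) (nat_lit 305)) (XT.lf (nat_lit 76) (nat_lit 2131922451) (nat_lit 0) (nat_lit 2827470148) (nat_lit 228) (nat_lit 2131922451) (nat_lit 153) (nat_lit 1) (nat_lit 152) (nat_lit 1) (nat_lit 155) (nat_lit 1) (nat_lit 319) (nat_lit 397) (nat_lit 304))))))))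
noncomputable def ec288 : XT := (XT.nd (nat_lit 1404) (nat_lit 1596) (nat_lit 0) (XT.nd (nat_lit 702) (nat_lit 836) (nat_lit 0) (XT.nd (nat_lit 312) (nat_lit 456) (nat_lit 0) (XT.nd (nat_lit 156) (nat_lit 304) (nat_lit 0) (XT.nd (nat_lit 78) (nat_lit 0) (nat_lit 0) (XT.lf (nat_lit 228) (nat_lit 2154887744) (nat_lit 0) (nat_lit 2431398201) (nat_lit 152) (nat_lit 2431398201) (nat_lit 153) (nat_lit 1) (nat_lit 150) (nat_lit 1) (nat_lit 152) (nat_lit 1) (nat_lit 320) (nat_lit 397) (nat_lit 303)) (XT.lf (nat_lit 76) (nat_lit 43010499) (nat_lit 0) (nat_lit 6859555408) (nat_lit 228) (nat_lit 43010499) (nat_lit 151) (nat_lit 1) (nat_lit 150) (nat_lit 1) (nat_lit 153) (nat_lit 1) (nat_lit 321) (nat_lit 397) (nat_lit 302))) (XT.nd (nat_lit 78) (nat_lit 152) (nat_lit 0) (XT.lf (nat_lit 76) (nat_lit 2461013594) (nat_lit 0) (nat_lit 1951009126) (nat_lit 152) (nat_lit 2461013594) (nat_lit 149) (nat_lit 1) (nat_lit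 148) (nat_lit 1) (nat_lit 150) (nat_lit 1) (nat_lit 322) (nat_lit 397) (nat_lit 301)) (XT.lf (nat_lit 228) (nat_lit 2855543590) (nat_lit 0) (nat_lit 1973229963) (nat_lit 152) (nat_lit 1973229963) (nat_lit 149) (nat_lit 1) (nat_lit 146) (nat_lit 1) (nat_lit 148) (nat_lit 1) (nat_lit 323) (nat_lit 397) (nat_lit 300)))) (XT.nd (nat_lit 156) (nat_lit 304) (nat_lit 0) (XT.nd (nat_lit 78) (nat_lit 152) (nat_lit 0) (XT.lf (nat_lit 76) (nat_lit 410488063) (nat_lit 0) (nat_lit 5911240031) (nat_lit 228) (nat_lit 410488063) (nat_lit 147) (nat_lit 1) (nat_lit 146) (nat_lit 1) (nat_lit 149) (nat_lit 1) (nat_lit 324) (nat_lit 397) (nat_lit 299)) (XT.lf (nat_lit 76) (nat_lit 2736897255) (nat_lit 0) (nat_lit 1188629370) (nat_lit 152) (nat_lit 2736897255) (nat_lit 145) (nat_lit 1) (nat_lit 144) (nat_lit 1) (nat_lit 146) (nat_lit 1) (nat_lit 325) (nat_lit 397) (nat_lit 298))) (XT.nd (nat_lit 78) (nat_lit 152) (nat_lit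 0) (XT.lf (nat_lit 228) (nat_lit 3450660815) (nat_lit 0) (nat_lit 1571601063) (nat_lit 152) (nat_lit 1571601063) (nat_lit 145) (nat_lit 1) (nat_lit 142) (nat_lit 1) (nat_lit 144) (nat_lit 1) (nat_lit 326) (nat_lit 397) (nat_lit 297)) (XT.nd (nat_lit 78) (nat_lit 152) (nat_lit 0) (XT.lf (nat_lit 76) (nat_lit 726144192) (nat_lit 0) (nat_lit 5074015443) (nat_lit 228) (nat_lit 726144192) (nat_lit 143) (nat_lit 1) (nat_lit 142) (nat_lit 1) (nat_lit 145) (nat_lit 1) (nat_lit 327) (nat_lit 397) (nat_lit 296)) (XT.lf (nat_lit 76) (nat_lit 2965987620) (nat_lit 0) (nat_lit 527133286) (nat_lit 152) (nat_lit 2965987620) (nat_lit 141) (nat_lit 1) (nat_lit 140) (nat_lit 1) (nat_lit 142) (nat_lit 1) (nat_lit 328) (nat_lit 397) (nat_lit 295)))))) (XT.nd (nat_lit 312) (nat_lit 380) (nat_lit 0) (XT.nd (nat_lit 156) (nat_lit 304) (nat_lit 0) (XT.nd (nat_lit 78) (nat_lit 0) (nat_lit 0) (XT.lf (nat_lit 228) (nat_lit 3952806587)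 (nat_lit 0) (nat_lit 1220047965) (nat_lit 152) (nat_lit 1220047965) (nat_lit 141) (nat_lit 1) (nat_lit 138) (nat_lit 1) (nat_lit 140) (nat_lit 1) (nat_lit 329) (nat_lit 397) (nat_lit 294)) (XT.lf (nat_lit 76) (nat_lit 996073462) (nat_lit 0) (nat_lit 4335338011) (nat_lit 228) (nat_lit 996073462) (nat_lit 139) (nat_lit 1) (nat_lit 138) (nat_lit 1) (nat_lit 141) (nat_lit 1) (nat_lit 330) (nat_lit 397) (nat_lit 293))) (XT.nd (nat_lit 78) (nat_lit 228) (nat_lit 0) (XT.lf (nat_lit 152) (nat_lit 46090541) (nat_lit 0) (nat_lit 3108322109) (nat_lit 76) (nat_lit 3108322109) (nat_lit 139) (nat_lit 1) (nat_lit 137) (nat_lit 1) (nat_lit 138) (nat_lit 1) (nat_lit 331) (nat_lit 397) (nat_lit 292)) (XT.lf (nat_lit 228) (nat_lit 4373123423) (nat_lit 0) (nat_lit 912832519) (nat_lit 152) (nat_lit 912832519) (nat_lit 137) (nat_lit 1) (nat_lit 134) (nat_lit 1) (nat_lit 136) (nat_lit 1) (nat_lit 332) (nat_lit 397) (nat_lit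 291)))) (XT.nd (nat_lit 156) (nat_lit 304) (nat_lit 0) (XT.nd (nat_lit 78) (nat_lit 76) (nat_lit 0) (XT.lf (nat_lit 76) (nat_lit 1225681625) (nat_lit 0) (nat_lit 3684067407) (nat_lit 228) (nat_lit 1225681625) (nat_lit 135) (nat_lit 1) (nat_lit 134) (nat_lit 1) (nat_lit 137) (nat_lit 1) (nat_lit 333) (nat_lit 397) (nat_lit 290)) (XT.lf (nat_lit 152) (nat_lit 549458367) (nat_lit 0) (nat_lit 2761703935) (nat_lit 76) (nat_lit 2761703935) (nat_lit 135) (nat_lit 1) (nat_lit 133) (nat_lit 1) (nat_lit 134) (nat_lit 1) (nat_lit 334) (nat_lit 397) (nat_lit 289))) (XT.nd (nat_lit 78) (nat_lit 76) (nat_lit 0) (XT.lf (nat_lit 228) (nat_lit 4721488731) (nat_lit 0) (nat_lit 644860942) (nat_lit 152) (nat_lit 644860942) (nat_lit 133) (nat_lit 1) (nat_lit 130) (nat_lit 1) (nat_lit 132) (nat_lit 1) (nat_lit 335) (nat_lit 397) (nat_lit 288)) (XT.nd (nat_lit 78) (nat_lit 76) (nat_lit 0) (XT.lf (nat_lit 76) (nat_lit 1419762690)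 (nat_lit 0) (nat_lit 3110309997) (nat_lit 228) (nat_lit 1419762690) (nat_lit 131) (nat_lit 1) (nat_lit 130) (nat_lit 1) (nat_lit 133) (nat_lit 1) (nat_lit 336) (nat_lit 397) (nat_lit 287)) (XT.lf (nat_lit 152) (nat_lit 981883263) (nat_lit 0) (nat_lit 2453738176) (nat_lit 76) (nat_lit 2453738176) (nat_lit 131) (nat_lit 1) (nat_lit 129) (nat_lit 1) (nat_lit 130) (nat_lit 1) (nat_lit 337) (nat_lit 397) (nat_lit 286))))))) (XT.nd (nat_lit 702) (nat_lit 684) (nat_lit 0) (XT.nd (nat_lit 312) (nat_lit 380) (nat_lit 0) (XT.nd (nat_lit 156) (nat_lit 304) (nat_lit 0) (XT.nd (nat_lit 78) (nat_lit 0) (nat_lit 0) (XT.lf (nat_lit 228) (nat_lit 5006656546) (nat_lit 0) (nat_lit 411611830) (nat_lit 152) (nat_lit 411611830) (nat_lit 129) (nat_lit 1) (nat_lit 126) (nat_lit 1) (nat_lit 128) (nat_lit 1) (nat_lit 338) (nat_lit 397) (nat_lit 285)) (XT.lf (nat_lit 76) (nat_lit 1582567404) (nat_lit 0) (nat_lit 2605279683) (nat_lit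 228) (nat_lit 1582567404) (nat_lit 127) (nat_lit 1) (nat_lit 126) (nat_lit 1) (nat_lit 129) (nat_lit 1) (nat_lit 339) (nat_lit 397) (nat_lit 284))) (XT.nd (nat_lit 78) (nat_lit 228) (nat_lit 0) (XT.lf (nat_lit 152) (nat_lit 1351707668) (nat_lit 0) (nat_lit 2180114588) (nat_lit 76) (nat_lit 2180114588) (nat_lit 127) (nat_lit 1) (nat_lit 125) (nat_lit 1) (nat_lit 126) (nat_lit 1) (nat_lit 340) (nat_lit 397) (nat_lit 283)) (XT.lf (nat_lit 228) (nat_lit 5236383439) (nat_lit 0) (nat_lit 209072202) (nat_lit 152) (nat_lit 209072202) (nat_lit 125) (nat_lit 1) (nat_lit 122) (nat_lit 1) (nat_lit 124) (nat_lit 1) (nat_lit 341) (nat_lit 397) (nat_lit 282)))) (XT.nd (nat_lit 156) (nat_lit 304) (nat_lit 0) (XT.nd (nat_lit 78) (nat_lit 76) (nat_lit 0) (XT.lf (nat_lit 76) (nat_lit 1717864080) (nat_lit 0) (nat_lit 2161174279) (nat_lit 228) (nat_lit 1717864080) (nat_lit 123) (nat_lit 1) (nat_lit 122) (nat_lit 1) (nat_lit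 125) (nat_lit 1) (nat_lit 342) (nat_lit 397) (nat_lit 281)) (XT.lf (nat_lit 152) (nat_lit 1666331170) (nat_lit 0) (nat_lit 1937003575) (nat_lit 76) (nat_lit 1937003575) (nat_lit 123) (nat_lit 1) (nat_lit 121) (nat_lit 1) (nat_lit 122) (nat_lit 1) (nat_lit 343) (nat_lit 397) (nat_lit 280))) (XT.nd (nat_lit 78) (nat_lit 76) (nat_lit 0) (XT.lf (nat_lit 228) (nat_lit 5417540362) (nat_lit 0) (nat_lit 33680684) (nat_lit 152) (nat_lit 33680684) (nat_lit 121) (nat_lit 1) (nat_lit 118) (nat_lit 1) (nat_lit 120) (nat_lit 1) (nat_lit 344) (nat_lit 397) (nat_lit 279)) (XT.nd (nat_lit 78) (nat_lit 76) (nat_lit 0) (XT.lf (nat_lit 76) (nat_lit 1828992645) (nat_lit 0) (nat_lit 1771065671) (nat_lit 228) (nat_lit 1828992645) (nat_lit 119) (nat_lit 1) (nat_lit 118) (nat_lit 1) (nat_lit 121) (nat_lit 1) (nat_lit 345) (nat_lit 397) (nat_lit 278)) (XT.lf (nat_lit 152) (nat_lit 1932316006) (nat_lit 0) (nat_lit 1721002588)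 (nat_lit 76) (nat_lit 1721002588) (nat_lit 119) (nat_lit 1) (nat_lit 117) (nat_lit 1) (nat_lit 118) (nat_lit 1) (nat_lit 346) (nat_lit 397) (nat_lit 277)))))) (XT.nd (nat_lit 390) (nat_lit 304) (nat_lit 0) (XT.nd (nat_lit 156) (nat_lit 228) (nat_lit 0) (XT.nd (nat_lit 78) (nat_lit 152) (nat_lit 0) (XT.lf (nat_lit 0) (nat_lit 118888546) (nat_lit 0) (nat_lit 5082851144) (nat_lit 152) (nat_lit 118888546) (nat_lit 117) (nat_lit 3) (nat_lit 117) (nat_lit 1) (nat_lit 119) (nat_lit 1) (nat_lit 347) (nat_lit 397) (nat_lit 276)) (XT.lf (nat_lit 76) (nat_lit 1918912644) (nat_lit 0) (nat_lit 1428802226) (nat_lit 152) (nat_lit 1918912644) (nat_lit 116) (nat_lit 1) (nat_lit 115) (nat_lit 1) (nat_lit 117) (nat_lit 1) (nat_lit 348) (nat_lit 397) (nat_lit 275))) (XT.nd (nat_lit 78) (nat_lit 152) (nat_lit 0) (XT.lf (nat_lit 152) (nat_lit 2155480796) (nat_lit 0) (nat_lit 1529088509) (nat_lit 76) (nat_lit 1529088509)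 (nat_lit 116) (nat_lit 1) (nat_lit 114) (nat_lit 1) (nat_lit 115) (nat_lit 1) (nat_lit 349) (nat_lit 397) (nat_lit 274)) (XT.nd (nat_lit 78) (nat_lit 152) (nat_lit 0) (XT.lf (nat_lit 0) (nat_lit 250397617) (nat_lit 0) (nat_lit 4660814092) (nat_lit 152) (nat_lit 250397617) (nat_lit 114) (nat_lit 3) (nat_lit 114) (nat_lit 1) (nat_lit 116) (nat_lit 1) (nat_lit 350) (nat_lit 397) (nat_lit 273)) (XT.lf (nat_lit 76) (nat_lit 1990245893) (nat_lit 0) (nat_lit 1128922093) (nat_lit 152) (nat_lit 1990245893) (nat_lit 113) (nat_lit 1) (nat_lit 112) (nat_lit 1) (nat_lit 114) (nat_lit 1) (nat_lit 351) (nat_lit 397) (nat_lit 272))))) (XT.nd (nat_lit 156) (nat_lit 228) (nat_lit 0) (XT.nd (nat_lit 78) (nat_lit 0) (nat_lit 0) (XT.lf (nat_lit 152) (nat_lit 2340983811) (nat_lit 0) (nat_lit 1358575335) (nat_lit 76) (nat_lit 1358575335) (nat_lit 113) (nat_lit 1) (nat_lit 111) (nat_lit 1) (nat_lit 112) (nat_lit 1) (nat_lit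 352) (nat_lit 397) (nat_lit 271)) (XT.lf (nat_lit 0) (nat_lit 363025218) (nat_lit 0) (nat_lit 4281623132) (nat_lit 152) (nat_lit 363025218) (nat_lit 111) (nat_lit 3) (nat_lit 111) (nat_lit 1) (nat_lit 113) (nat_lit 1) (nat_lit 353) (nat_lit 397) (nat_lit 270))) (XT.nd (nat_lit 78) (nat_lit 76) (nat_lit 0) (XT.lf (nat_lit 76) (nat_lit 2045314361) (nat_lit 0) (nat_lit 866576173) (nat_lit 152) (nat_lit 2045314361) (nat_lit 110) (nat_lit 1) (nat_lit 109) (nat_lit 1) (nat_lit 111) (nat_lit 1) (nat_lit 354) (nat_lit 397) (nat_lit 269)) (XT.nd (nat_lit 78) (nat_lit 0) (nat_lit 0) (XT.lf (nat_lit 152) (nat_lit 2493396942) (nat_lit 0) (nat_lit 1207076589) (nat_lit 76) (nat_lit 1207076589) (nat_lit 110) (nat_lit 1) (nat_lit 108) (nat_lit 1) (nat_lit 109) (nat_lit 1) (nat_lit 355) (nat_lit 397) (nat_lit 268)) (XT.lf (nat_lit 0) (nat_lit 458999689) (nat_lit 0) (nat_lit 3940623181) (nat_lit 152) (nat_lit 458999689)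 (nat_lit 108) (nat_lit 3) (nat_lit 108) (nat_lit 1) (nat_lit 110) (nat_lit 1) (nat_lit 356) (nat_lit 397) (nat_lit 267))))))))
noncomputable def ec289 : XT := (XT.nd (nat_lit 1482) (nat_lit 1520) (nat_lit 0) (XT.nd (nat_lit 702) (nat_lit 760) (nat_lit 0) (XT.nd (nat_lit 312) (nat_lit 304) (nat_lit 0) (XT.nd (nat_lit 156) (nat_lit 152) (nat_lit 0) (XT.nd (nat_lit 78) (nat_lit 76) (nat_lit 0) (XT.lf (nat_lit 76) (nat_lit 2086173826) (nat_lit 0) (nat_lit 637459683) (nat_lit 152) (nat_lit 2086173826) (nat_lit 107) (nat_lit 1) (nat_lit 106) (nat_lit 1) (nat_lit 108) (nat_lit 1) (nat_lit 357) (nat_lit 397) (nat_lit 266)) (XT.lf (nat_lit 152) (nat_lit 2616771419) (nat_lit 0) (nat_lit 1072471915) (nat_lit 76) (nat_lit 1072471915) (nat_lit 107) (nat_lit 1) (nat_lit 105) (nat_lit 1) (nat_lit 106) (nat_lit 1) (nat_lit 358) (nat_lit 397) (nat_lit 265))) (XT.nd (nat_lit 78) (nat_lit 152) (nat_lit 0) (XT.lf (nat_lit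 0) (nat_lit 540297302) (nat_lit 0) (nat_lit 3633674680) (nat_lit 152) (nat_lit 540297302) (nat_lit 105) (nat_lit 3) (nat_lit 105) (nat_lit 1) (nat_lit 107) (nat_lit 1) (nat_lit 359) (nat_lit 397) (nat_lit 264)) (XT.lf (nat_lit 76) (nat_lit 2114643771) (nat_lit 0) (nat_lit 437751348) (nat_lit 152) (nat_lit 2114643771) (nat_lit 104) (nat_lit 1) (nat_lit 103) (nat_lit 1) (nat_lit 105) (nat_lit 1) (nat_lit 360) (nat_lit 397) (nat_lit 263)))) (XT.nd (nat_lit 156) (nat_lit 228) (nat_lit 0) (XT.nd (nat_lit 78) (nat_lit 0) (nat_lit 0) (XT.lf (nat_lit 152) (nat_lit 2714696184) (nat_lit 0) (nat_lit 952877406) (nat_lit 76) (nat_lit 952877406) (nat_lit 104) (nat_lit 1) (nat_lit 102) (nat_lit 1) (nat_lit 103) (nat_lit 1) (nat_lit 361) (nat_lit 397) (nat_lit 262)) (XT.lf (nat_lit 0) (nat_lit 608670478) (nat_lit 0) (nat_lit 3357096213) (nat_lit 152) (nat_lit 608670478) (nat_lit 102) (nat_lit 3) (nat_lit 102) (nat_lit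 1) (nat_lit 104) (nat_lit 1) (nat_lit 362) (nat_lit 397) (nat_lit 261))) (XT.nd (nat_lit 78) (nat_lit 76) (nat_lit 0) (XT.lf (nat_lit 76) (nat_lit 2132333938) (nat_lit 0) (nat_lit 264059389) (nat_lit 152) (nat_lit 2132333938) (nat_lit 101) (nat_lit 1) (nat_lit 100) (nat_lit 1) (nat_lit 102) (nat_lit 1) (nat_lit 363) (nat_lit 397) (nat_lit 260)) (XT.nd (nat_lit 78) (nat_lit 0) (nat_lit 0) (XT.lf (nat_lit 152) (nat_lit 2790349749) (nat_lit 0) (nat_lit 846619233) (nat_lit 76) (nat_lit 846619233) (nat_lit 101) (nat_lit 1) (nat_lit 99) (nat_lit 1) (nat_lit 100) (nat_lit 1) (nat_lit 364) (nat_lit 397) (nat_lit 259)) (XT.lf (nat_lit 0) (nat_lit 665672850) (nat_lit 0) (nat_lit 3107613518) (nat_lit 152) (nat_lit 665672850) (nat_lit 99) (nat_lit 3) (nat_lit 99) (nat_lit 1) (nat_lit 101) (nat_lit 1) (nat_lit 365) (nat_lit 397) (nat_lit 258)))))) (XT.nd (nat_lit 390) (nat_lit 304) (nat_lit 0) (XT.nd (nat_lit 156)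 (nat_lit 228) (nat_lit 0) (XT.nd (nat_lit 78) (nat_lit 76) (nat_lit 0) (XT.lf (nat_lit 76) (nat_lit 2140667918) (nat_lit 0) (nat_lit 113373529) (nat_lit 152) (nat_lit 2140667918) (nat_lit 98) (nat_lit 1) (nat_lit 97) (nat_lit 1) (nat_lit 99) (nat_lit 1) (nat_lit 366) (nat_lit 397) (nat_lit 257)) (XT.lf (nat_lit 152) (nat_lit 2846546261) (nat_lit 0) (nat_lit 752210223) (nat_lit 76) (nat_lit 752210223) (nat_lit 98) (nat_lit 1) (nat_lit 96) (nat_lit 1) (nat_lit 97) (nat_lit 1) (nat_lit 367) (nat_lit 397) (nat_lit 256))) (XT.nd (nat_lit 78) (nat_lit 228) (nat_lit 0) (XT.lf (nat_lit 0) (nat_lit 712681524) (nat_lit 0) (nat_lit 2882314179) (nat_lit 152) (nat_lit 712681524) (nat_lit 96) (nat_lit 3) (nat_lit 96) (nat_lit 1) (nat_lit 98) (nat_lit 1) (nat_lit 368) (nat_lit 397) (nat_lit 255)) (XT.nd (nat_lit 78) (nat_lit 152) (nat_lit 0) (XT.lf (nat_lit 76) (nat_lit 17315538) (nat_lit 0) (nat_lit 2123755009) (nat_lit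 76) (nat_lit 2123755009) (nat_lit 96) (nat_lit 3) (nat_lit 95) (nat_lit 1) (nat_lit 96) (nat_lit 1) (nat_lit 369) (nat_lit 397) (nat_lit 254)) (XT.lf (nat_lit 152) (nat_lit 2885776427) (nat_lit 0) (nat_lit 668329040) (nat_lit 76) (nat_lit 668329040) (nat_lit 95) (nat_lit 1) (nat_lit 93) (nat_lit 1) (nat_lit 94) (nat_lit 1) (nat_lit 370) (nat_lit 397) (nat_lit 253))))) (XT.nd (nat_lit 156) (nat_lit 228) (nat_lit 0) (XT.nd (nat_lit 78) (nat_lit 76) (nat_lit 0) (XT.lf (nat_lit 0) (nat_lit 750916865) (nat_lit 0) (nat_lit 2678607378) (nat_lit 152) (nat_lit 750916865) (nat_lit 93) (nat_lit 3) (nat_lit 93) (nat_lit 1) (nat_lit 95) (nat_lit 1) (nat_lit 371) (nat_lit 397) (nat_lit 252)) (XT.lf (nat_lit 76) (nat_lit 131939187) (nat_lit 0) (nat_lit 2003483375) (nat_lit 76) (nat_lit 2003483375) (nat_lit 93) (nat_lit 3) (nat_lit 92) (nat_lit 1) (nat_lit 93) (nat_lit 1) (nat_lit 372) (nat_lit 397) (nat_lit 251)))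 (XT.nd (nat_lit 78) (nat_lit 76) (nat_lit 0) (XT.lf (nat_lit 152) (nat_lit 2910243855) (nat_lit 0) (nat_lit 593801696) (nat_lit 76) (nat_lit 593801696) (nat_lit 92) (nat_lit 1) (nat_lit 90) (nat_lit 1) (nat_lit 91) (nat_lit 1) (nat_lit 373) (nat_lit 397) (nat_lit 250)) (XT.nd (nat_lit 78) (nat_lit 76) (nat_lit 0) (XT.lf (nat_lit 0) (nat_lit 781460066) (nat_lit 0) (nat_lit 2494188119) (nat_lit 152) (nat_lit 781460066) (nat_lit 90) (nat_lit 3) (nat_lit 90) (nat_lit 1) (nat_lit 92) (nat_lit 1) (nat_lit 374) (nat_lit 397) (nat_lit 249)) (XT.lf (nat_lit 76) (nat_lit 230386022) (nat_lit 0) (nat_lit 1893228792) (nat_lit 76) (nat_lit 1893228792) (nat_lit 90) (nat_lit 3) (nat_lit 89) (nat_lit 1) (nat_lit 90) (nat_lit 1) (nat_lit 375) (nat_lit 397) (nat_lit 248))))))) (XT.nd (nat_lit 702) (nat_lit 836) (nat_lit 0) (XT.nd (nat_lit 312) (nat_lit 304) (nat_lit 0) (XT.nd (nat_lit 156) (nat_lit 228) (nat_lit 0) (XT.nd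 (nat_lit 78) (nat_lit 0) (nat_lit 0) (XT.lf (nat_lit 152) (nat_lit 2921897346) (nat_lit 0) (nat_lit 527585116) (nat_lit 76) (nat_lit 527585116) (nat_lit 89) (nat_lit 1) (nat_lit 87) (nat_lit 1) (nat_lit 88) (nat_lit 1) (nat_lit 376) (nat_lit 397) (nat_lit 247)) (XT.lf (nat_lit 0) (nat_lit 805268756) (nat_lit 0) (nat_lit 2327005447) (nat_lit 152) (nat_lit 805268756) (nat_lit 87) (nat_lit 3) (nat_lit 87) (nat_lit 1) (nat_lit 89) (nat_lit 1) (nat_lit 377) (nat_lit 397) (nat_lit 246))) (XT.nd (nat_lit 78) (nat_lit 152) (nat_lit 0) (XT.lf (nat_lit 76) (nat_lit 314558845) (nat_lit 0) (nat_lit 1791973109) (nat_lit 76) (nat_lit 1791973109) (nat_lit 87) (nat_lit 3) (nat_lit 86) (nat_lit 1) (nat_lit 87) (nat_lit 1) (nat_lit 378) (nat_lit 397) (nat_lit 245)) (XT.lf (nat_lit 152) (nat_lit 2922459573) (nat_lit 0) (nat_lit 468752542) (nat_lit 76) (nat_lit 468752542) (nat_lit 86) (nat_lit 1) (nat_lit 84) (nat_lit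 1) (nat_lit 85) (nat_lit 1) (nat_lit 379) (nat_lit 397) (nat_lit 244)))) (XT.nd (nat_lit 156) (nat_lit 228) (nat_lit 0) (XT.nd (nat_lit 78) (nat_lit 76) (nat_lit 0) (XT.lf (nat_lit 0) (nat_lit 823190868) (nat_lit 0) (nat_lit 2175234209) (nat_lit 152) (nat_lit 823190868) (nat_lit 84) (nat_lit 3) (nat_lit 84) (nat_lit 1) (nat_lit 86) (nat_lit 1) (nat_lit 380) (nat_lit 397) (nat_lit 243)) (XT.lf (nat_lit 76) (nat_lit 386145390) (nat_lit 0) (nat_lit 1698808827) (nat_lit 76) (nat_lit 1698808827) (nat_lit 84) (nat_lit 3) (nat_lit 83) (nat_lit 1) (nat_lit 84) (nat_lit 1) (nat_lit 381) (nat_lit 397) (nat_lit 242))) (XT.nd (nat_lit 78) (nat_lit 76) (nat_lit 0) (XT.lf (nat_lit 152) (nat_lit 2913452553) (nat_lit 0) (nat_lit 416480562) (nat_lit 76) (nat_lit 416480562) (nat_lit 83) (nat_lit 1) (nat_lit 81) (nat_lit 1) (nat_lit 82) (nat_lit 1) (nat_lit 382) (nat_lit 397) (nat_lit 241)) (XT.nd (nat_lit 78) (nat_lit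 76) (nat_lit 0) (XT.lf (nat_lit 0) (nat_lit 835976957) (nat_lit 0) (nat_lit 2037249953) (nat_lit 152) (nat_lit 835976957) (nat_lit 81) (nat_lit 3) (nat_lit 81) (nat_lit 1) (nat_lit 83) (nat_lit 1) (nat_lit 383) (nat_lit 397) (nat_lit 240)) (XT.lf (nat_lit 76) (nat_lit 446642391) (nat_lit 0) (nat_lit 1612926854) (nat_lit 76) (nat_lit 1612926854) (nat_lit 81) (nat_lit 3) (nat_lit 80) (nat_lit 1) (nat_lit 81) (nat_lit 1) (nat_lit 384) (nat_lit 397) (nat_lit 239)))))) (XT.nd (nat_lit 390) (nat_lit 456) (nat_lit 0) (XT.nd (nat_lit 156) (nat_lit 228) (nat_lit 0) (XT.nd (nat_lit 78) (nat_lit 0) (nat_lit 0) (XT.lf (nat_lit 152) (nat_lit 2896220269) (nat_lit 0) (nat_lit 370037585) (nat_lit 76) (nat_lit 370037585) (nat_lit 80) (nat_lit 1) (nat_lit 78) (nat_lit 1) (nat_lit 79) (nat_lit 1) (nat_lit 385) (nat_lit 397) (nat_lit 238)) (XT.lf (nat_lit 0) (nat_lit 844291138) (nat_lit 0) (nat_lit 1911606636) (nat_lit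 152) (nat_lit 844291138) (nat_lit 78) (nat_lit 3) (nat_lit 78) (nat_lit 1) (nat_lit 80) (nat_lit 1) (nat_lit 386) (nat_lit 397) (nat_lit 237))) (XT.nd (nat_lit 78) (nat_lit 152) (nat_lit 0) (XT.lf (nat_lit 76) (nat_lit 497376963) (nat_lit 0) (nat_lit 1533605603) (nat_lit 76) (nat_lit 1533605603) (nat_lit 78) (nat_lit 3) (nat_lit 77) (nat_lit 1) (nat_lit 78) (nat_lit 1) (nat_lit 387) (nat_lit 397) (nat_lit 236)) (XT.nd (nat_lit 78) (nat_lit 0) (nat_lit 0) (XT.lf (nat_lit 152) (nat_lit 2871948772) (nat_lit 0) (nat_lit 328773602) (nat_lit 76) (nat_lit 328773602) (nat_lit 77) (nat_lit 1) (nat_lit 75) (nat_lit 1) (nat_lit 76) (nat_lit 1) (nat_lit 388) (nat_lit 397) (nat_lit 235)) (XT.lf (nat_lit 0) (nat_lit 848720808) (nat_lit 0) (nat_lit 1797016805) (nat_lit 152) (nat_lit 848720808) (nat_lit 75) (nat_lit 3) (nat_lit 75) (nat_lit 1) (nat_lit 77) (nat_lit 1) (nat_lit 389) (nat_lit 397) (nat_lit 234))))) (XT.nd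 (nat_lit 156) (nat_lit 228) (nat_lit 0) (XT.nd (nat_lit 78) (nat_lit 152) (nat_lit 0) (XT.lf (nat_lit 76) (nat_lit 539525596) (nat_lit 0) (nat_lit 1460201321) (nat_lit 76) (nat_lit 1460201321) (nat_lit 75) (nat_lit 3) (nat_lit 74) (nat_lit 1) (nat_lit 75) (nat_lit 1) (nat_lit 390) (nat_lit 397) (nat_lit 233)) (XT.lf (nat_lit 152) (nat_lit 2841684018) (nat_lit 0) (nat_lit 292111087) (nat_lit 76) (nat_lit 292111087) (nat_lit 74) (nat_lit 1) (nat_lit 72) (nat_lit 1) (nat_lit 73) (nat_lit 1) (nat_lit 391) (nat_lit 397) (nat_lit 232))) (XT.nd (nat_lit 78) (nat_lit 228) (nat_lit 0) (XT.lf (nat_lit 0) (nat_lit 849785278) (nat_lit 0) (nat_lit 1692333988) (nat_lit 152) (nat_lit 849785278) (nat_lit 72) (nat_lit 3) (nat_lit 72) (nat_lit 1) (nat_lit 74) (nat_lit 1) (nat_lit 392) (nat_lit 397) (nat_lit 231)) (XT.nd (nat_lit 78) (nat_lit 152) (nat_lit 0) (XT.lf (nat_lit 76) (nat_lit 574131024) (nat_lit 0) (nat_lit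 1392139481) (nat_lit 76) (nat_lit 1392139481) (nat_lit 72) (nat_lit 3) (nat_lit 71) (nat_lit 1) (nat_lit 72) (nat_lit 1) (nat_lit 393) (nat_lit 397) (nat_lit 230)) (XT.lf (nat_lit 152) (nat_lit 2806347728) (nat_lit 0) (nat_lit 259536917) (nat_lit 76) (nat_lit 259536917) (nat_lit 71) (nat_lit 1) (nat_lit 69) (nat_lit 1) (nat_lit 70) (nat_lit 1) (nat_lit 394) (nat_lit 397) (nat_lit 229))))))))
noncomputable def ec290 : XT := (XT.nd (nat_lit 1482) (nat_lit 1140) (nat_lit 0) (XT.nd (nat_lit 702) (nat_lit 684) (nat_lit 0) (XT.nd (nat_lit 312) (nat_lit 456) (nat_lit 0) (XT.nd (nat_lit 156) (nat_lit 152) (nat_lit 0) (XT.nd (nat_lit 78) (nat_lit 76) (nat_lit 0) (XT.lf (nat_lit 0) (nat_lit 847943438) (nat_lit 0) (nat_lit 1596537055) (nat_lit 152) (nat_lit 847943438) (nat_lit 69) (nat_lit 3) (nat_lit 69) (nat_lit 1) (nat_lit 71) (nat_lit 1) (nat_lit 395) (nat_lit 397) (nat_lit 228)) (XT.lf (nat_lit 76) (nat_lit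 602117222) (nat_lit 0) (nat_lit 1328907141) (nat_lit 76) (nat_lit 1328907141) (nat_lit 69) (nat_lit 3) (nat_lit 68) (nat_lit 1) (nat_lit 69) (nat_lit 1) (nat_lit 396) (nat_lit 397) (nat_lit 227))) (XT.nd (nat_lit 78) (nat_lit 0) (nat_lit 0) (XT.lf (nat_lit 152) (nat_lit 2766751457) (nat_lit 0) (nat_lit 230595189) (nat_lit 76) (nat_lit 230595189) (nat_lit 68) (nat_lit 1) (nat_lit 66) (nat_lit 1) (nat_lit 67) (nat_lit 1) (nat_lit 397) (nat_lit 397) (nat_lit 226)) (XT.lf (nat_lit 0) (nat_lit 843600574) (nat_lit 0) (nat_lit 1508716306) (nat_lit 152) (nat_lit 843600574) (nat_lit 66) (nat_lit 3) (nat_lit 66) (nat_lit 1) (nat_lit 68) (nat_lit 1) (nat_lit 398) (nat_lit 397) (nat_lit 225)))) (XT.nd (nat_lit 156) (nat_lit 228) (nat_lit 0) (XT.nd (nat_lit 78) (nat_lit 152) (nat_lit 0) (XT.lf (nat_lit 76) (nat_lit 624302715) (nat_lit 0) (nat_lit 1270046145) (nat_lit 76) (nat_lit 1270046145) (nat_lit 66) (nat_lit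 3) (nat_lit 65) (nat_lit 1) (nat_lit 66) (nat_lit 1) (nat_lit 399) (nat_lit 397) (nat_lit 224)) (XT.lf (nat_lit 152) (nat_lit 2723609095) (nat_lit 0) (nat_lit 204880839) (nat_lit 76) (nat_lit 204880839) (nat_lit 65) (nat_lit 1) (nat_lit 63) (nat_lit 1) (nat_lit 64) (nat_lit 1) (nat_lit 400) (nat_lit 397) (nat_lit 223))) (XT.nd (nat_lit 78) (nat_lit 228) (nat_lit 0) (XT.lf (nat_lit 0) (nat_lit 837114408) (nat_lit 0) (nat_lit 1428061121) (nat_lit 152) (nat_lit 837114408) (nat_lit 63) (nat_lit 3) (nat_lit 63) (nat_lit 1) (nat_lit 65) (nat_lit 1) (nat_lit 401) (nat_lit 397) (nat_lit 222)) (XT.nd (nat_lit 78) (nat_lit 152) (nat_lit 0) (XT.lf (nat_lit 76) (nat_lit 641412412) (nat_lit 0) (nat_lit 1215147086) (nat_lit 76) (nat_lit 1215147086) (nat_lit 63) (nat_lit 3) (nat_lit 62) (nat_lit 1) (nat_lit 63) (nat_lit 1) (nat_lit 402) (nat_lit 397) (nat_lit 221)) (XT.lf (nat_lit 152) (nat_lit 2677547968) (nat_lit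 0) (nat_lit 182033972) (nat_lit 76) (nat_lit 182033972) (nat_lit 62) (nat_lit 1) (nat_lit 60) (nat_lit 1) (nat_lit 61) (nat_lit 1) (nat_lit 403) (nat_lit 397) (nat_lit 220)))))) (XT.nd (nat_lit 390) (nat_lit 380) (nat_lit 0) (XT.nd (nat_lit 156) (nat_lit 228) (nat_lit 0) (XT.nd (nat_lit 78) (nat_lit 76) (nat_lit 0) (XT.lf (nat_lit 0) (nat_lit 828800478) (nat_lit 0) (nat_lit 1353848980) (nat_lit 152) (nat_lit 828800478) (nat_lit 60) (nat_lit 3) (nat_lit 60) (nat_lit 1) (nat_lit 62) (nat_lit 1) (nat_lit 404) (nat_lit 397) (nat_lit 219)) (XT.lf (nat_lit 76) (nat_lit 654088112) (nat_lit 0) (nat_lit 1163843939) (nat_lit 76) (nat_lit 1163843939) (nat_lit 60) (nat_lit 3) (nat_lit 59) (nat_lit 1) (nat_lit 60) (nat_lit 1) (nat_lit 405) (nat_lit 397) (nat_lit 218))) (XT.nd (nat_lit 78) (nat_lit 76) (nat_lit 0) (XT.lf (nat_lit 152) (nat_lit 2629118693) (nat_lit 0) (nat_lit 161734826) (nat_lit 76) (nat_lit 161734826)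 (nat_lit 59) (nat_lit 1) (nat_lit 57) (nat_lit 1) (nat_lit 58) (nat_lit 1) (nat_lit 406) (nat_lit 397) (nat_lit 217)) (XT.nd (nat_lit 78) (nat_lit 76) (nat_lit 0) (XT.lf (nat_lit 0) (nat_lit 818936907) (nat_lit 0) (nat_lit 1285435700) (nat_lit 152) (nat_lit 818936907) (nat_lit 57) (nat_lit 3) (nat_lit 57) (nat_lit 1) (nat_lit 59) (nat_lit 1) (nat_lit 407) (nat_lit 397) (nat_lit 216)) (XT.lf (nat_lit 76) (nat_lit 662897837) (nat_lit 0) (nat_lit 1115809286) (nat_lit 76) (nat_lit 1115809286) (nat_lit 57) (nat_lit 3) (nat_lit 56) (nat_lit 1) (nat_lit 57) (nat_lit 1) (nat_lit 408) (nat_lit 397) (nat_lit 215))))) (XT.nd (nat_lit 156) (nat_lit 228) (nat_lit 0) (XT.nd (nat_lit 78) (nat_lit 0) (nat_lit 0) (XT.lf (nat_lit 152) (nat_lit 2578803929) (nat_lit 0) (nat_lit 143699298) (nat_lit 76) (nat_lit 143699298) (nat_lit 56) (nat_lit 1) (nat_lit 54) (nat_lit 1) (nat_lit 55) (nat_lit 1) (nat_lit 409) (nat_lit 397)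 (nat_lit 214)) (XT.lf (nat_lit 0) (nat_lit 807768638) (nat_lit 0) (nat_lit 1222246773) (nat_lit 152) (nat_lit 807768638) (nat_lit 54) (nat_lit 3) (nat_lit 54) (nat_lit 1) (nat_lit 56) (nat_lit 1) (nat_lit 410) (nat_lit 397) (nat_lit 213))) (XT.nd (nat_lit 78) (nat_lit 152) (nat_lit 0) (XT.lf (nat_lit 76) (nat_lit 668344123) (nat_lit 0) (nat_lit 1070750080) (nat_lit 76) (nat_lit 1070750080) (nat_lit 54) (nat_lit 3) (nat_lit 53) (nat_lit 1) (nat_lit 54) (nat_lit 1) (nat_lit 411) (nat_lit 397) (nat_lit 212)) (XT.nd (nat_lit 78) (nat_lit 0) (nat_lit 0) (XT.lf (nat_lit 152) (nat_lit 2527026145) (nat_lit 0) (nat_lit 127674965) (nat_lit 76) (nat_lit 127674965) (nat_lit 53) (nat_lit 1) (nat_lit 51) (nat_lit 1) (nat_lit 52) (nat_lit 1) (nat_lit 412) (nat_lit 397) (nat_lit 211)) (XT.lf (nat_lit 0) (nat_lit 795511199) (nat_lit 0) (nat_lit 1163769654) (nat_lit 152) (nat_lit 795511199) (nat_lit 51) (nat_lit 3) (nat_lit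 51) (nat_lit 1) (nat_lit 53) (nat_lit 1) (nat_lit 413) (nat_lit 397) (nat_lit 210))))))) (XT.nd (nat_lit 702) (nat_lit 456) (nat_lit 0) (XT.nd (nat_lit 312) (nat_lit 380) (nat_lit 0) (XT.nd (nat_lit 156) (nat_lit 76) (nat_lit 0) (XT.nd (nat_lit 78) (nat_lit 152) (nat_lit 0) (XT.lf (nat_lit 76) (nat_lit 670871390) (nat_lit 0) (nat_lit 1028403870) (nat_lit 76) (nat_lit 1028403870) (nat_lit 51) (nat_lit 3) (nat_lit 50) (nat_lit 1) (nat_lit 51) (nat_lit 1) (nat_lit 414) (nat_lit 397) (nat_lit 209)) (XT.lf (nat_lit 152) (nat_lit 2474154519) (nat_lit 0) (nat_lit 113437553) (nat_lit 76) (nat_lit 113437553) (nat_lit 50) (nat_lit 1) (nat_lit 48) (nat_lit 1) (nat_lit 49) (nat_lit 1) (nat_lit 415) (nat_lit 397) (nat_lit 208))) (XT.nd (nat_lit 78) (nat_lit 76) (nat_lit 0) (XT.lf (nat_lit 0) (nat_lit 782354043) (nat_lit 0) (nat_lit 1109546911) (nat_lit 152) (nat_lit 782354043) (nat_lit 48) (nat_lit 3) (nat_lit 48)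 (nat_lit 1) (nat_lit 50) (nat_lit 1) (nat_lit 416) (nat_lit 397) (nat_lit 207)) (XT.lf (nat_lit 76) (nat_lit 670872475) (nat_lit 0) (nat_lit 988535453) (nat_lit 76) (nat_lit 988535453) (nat_lit 48) (nat_lit 3) (nat_lit 47) (nat_lit 1) (nat_lit 48) (nat_lit 1) (nat_lit 417) (nat_lit 397) (nat_lit 206)))) (XT.nd (nat_lit 156) (nat_lit 228) (nat_lit 0) (XT.nd (nat_lit 78) (nat_lit 0) (nat_lit 0) (XT.lf (nat_lit 152) (nat_lit 2420511060) (nat_lit 0) (nat_lit 100787796) (nat_lit 76) (nat_lit 100787796) (nat_lit 47) (nat_lit 1) (nat_lit 45) (nat_lit 1) (nat_lit 46) (nat_lit 1) (nat_lit 418) (nat_lit 397) (nat_lit 205)) (XT.lf (nat_lit 0) (nat_lit 768463518) (nat_lit 0) (nat_lit 1059170143) (nat_lit 152) (nat_lit 768463518) (nat_lit 45) (nat_lit 3) (nat_lit 45) (nat_lit 1) (nat_lit 47) (nat_lit 1) (nat_lit 419) (nat_lit 397) (nat_lit 204))) (XT.nd (nat_lit 78) (nat_lit 152) (nat_lit 0) (XT.lf (nat_lit 76)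 (nat_lit 668694451) (nat_lit 0) (nat_lit 950933892) (nat_lit 76) (nat_lit 950933892) (nat_lit 45) (nat_lit 3) (nat_lit 44) (nat_lit 1) (nat_lit 45) (nat_lit 1) (nat_lit 420) (nat_lit 397) (nat_lit 203)) (XT.nd (nat_lit 78) (nat_lit 0) (nat_lit 0) (XT.lf (nat_lit 152) (nat_lit 2366376042) (nat_lit 0) (nat_lit 89548652) (nat_lit 76) (nat_lit 89548652) (nat_lit 44) (nat_lit 1) (nat_lit 42) (nat_lit 1) (nat_lit 43) (nat_lit 1) (nat_lit 421) (nat_lit 397) (nat_lit 202)) (XT.lf (nat_lit 0) (nat_lit 753985499) (nat_lit 0) (nat_lit 1012274570) (nat_lit 152) (nat_lit 753985499) (nat_lit 42) (nat_lit 3) (nat_lit 42) (nat_lit 1) (nat_lit 44) (nat_lit 1) (nat_lit 422) (nat_lit 397) (nat_lit 201)))))) (XT.nd (nat_lit 37596) (nat_lit 0) (nat_lit 25688) (XT.nd (nat_lit 156) (nat_lit 228) (nat_lit 0) (XT.nd (nat_lit 78) (nat_lit 152) (nat_lit 0) (XT.lf (nat_lit 76) (nat_lit 664643782) (nat_lit 0) (nat_lit 915409870)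 (nat_lit 76) (nat_lit 915409870) (nat_lit 42) (nat_lit 3) (nat_lit 41) (nat_lit 1) (nat_lit 42) (nat_lit 1) (nat_lit 423) (nat_lit 397) (nat_lit 200)) (XT.lf (nat_lit 152) (nat_lit 2311992828) (nat_lit 0) (nat_lit 79562817) (nat_lit 76) (nat_lit 79562817) (nat_lit 41) (nat_lit 1) (nat_lit 39) (nat_lit 1) (nat_lit 40) (nat_lit 1) (nat_lit 424) (nat_lit 397) (nat_lit 199))) (XT.nd (nat_lit 78) (nat_lit 228) (nat_lit 0) (XT.lf (nat_lit 0) (nat_lit 739047724) (nat_lit 0) (nat_lit 968534218) (nat_lit 152) (nat_lit 739047724) (nat_lit 39) (nat_lit 3) (nat_lit 39) (nat_lit 1) (nat_lit 41) (nat_lit 1) (nat_lit 425) (nat_lit 397) (nat_lit 198)) (XT.nd (nat_lit 78) (nat_lit 152) (nat_lit 0) (XT.lf (nat_lit 76) (nat_lit 658990910) (nat_lit 0) (nat_lit 881793331) (nat_lit 76) (nat_lit 881793331) (nat_lit 39) (nat_lit 3) (nat_lit 38) (nat_lit 1) (nat_lit 39) (nat_lit 1) (nat_lit 426) (nat_lit 397) (nat_lit 197))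 (XT.lf (nat_lit 152) (nat_lit 2257572154) (nat_lit 0) (nat_lit 70690532) (nat_lit 76) (nat_lit 70690532) (nat_lit 38) (nat_lit 1) (nat_lit 36) (nat_lit 1) (nat_lit 37) (nat_lit 1) (nat_lit 427) (nat_lit 397) (nat_lit 196))))) (XT.nd (nat_lit 156) (nat_lit 0) (nat_lit 76) (XT.nd (nat_lit 78) (nat_lit 0) (nat_lit 0) (XT.lf (nat_lit 1292) (nat_lit 2071207977) (nat_lit 0) (nat_lit 7125918698) (nat_lit 1292) (nat_lit 2071207977) (nat_lit 391) (nat_lit 1) (nat_lit 374) (nat_lit 0) (nat_lit 391) (nat_lit 0) (nat_lit 224) (nat_lit 398) (nat_lit 398)) (XT.lf (nat_lit 1292) (nat_lit 8094317071) (nat_lit 76) (nat_lit 7056056750) (nat_lit 0) (nat_lit 7056056750) (nat_lit 391) (nat_lit 1) (nat_lit 375) (nat_lit 1) (nat_lit 374) (nat_lit 0) (nat_lit 225) (nat_lit 398) (nat_lit 397))) (XT.nd (nat_lit 78) (nat_lit 0) (nat_lit 0) (XT.lf (nat_lit 1292) (nat_lit 3914604727) (nat_lit 0) (nat_lit 14054266761) (nat_lit 1216)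 (nat_lit 3914604727) (nat_lit 392) (nat_lit 1) (nat_lit 375) (nat_lit 1) (nat_lit 391) (nat_lit 1) (nat_lit 226) (nat_lit 398) (nat_lit 396)) (XT.nd (nat_lit 78) (nat_lit 0) (nat_lit 76) (XT.lf (nat_lit 1292) (nat_lit 7434036489) (nat_lit 76) (nat_lit 7065939297) (nat_lit 0) (nat_lit 7065939297) (nat_lit 392) (nat_lit 1) (nat_lit 376) (nat_lit 1) (nat_lit 375) (nat_lit 1) (nat_lit 227) (nat_lit 398) (nat_lit 395)) (XT.lf (nat_lit 1292) (nat_lit 3488384547) (nat_lit 0) (nat_lit 14278690395) (nat_lit 1216) (nat_lit 3488384547) (nat_lit 393) (nat_lit 1) (nat_lit 376) (nat_lit 1) (nat_lit 392) (nat_lit 1) (nat_lit 228) (nat_lit 398) (nat_lit 394))))))))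
noncomputable def ec291 : XT := (XT.nd (nat_lit 1482) (nat_lit 5548) (nat_lit 0) (XT.nd (nat_lit 702) (nat_lit 1900) (nat_lit 0) (XT.nd (nat_lit 312) (nat_lit 988) (nat_lit 0) (XT.nd (nat_lit 156) (nat_lit 0) (nat_lit 76) (XT.nd (nat_lit 78) (nat_lit 0) (nat_lit 76) (XT.lf (nat_lit 1292) (nat_lit 6392833007) (nat_lit 76) (nat_lit 7278567994) (nat_lit 0) (nat_lit 7278567994) (nat_lit 393) (nat_lit 1) (nat_lit 377) (nat_lit 1) (nat_lit 376) (nat_lit 1) (nat_lit 229) (nat_lit 398) (nat_lit 393)) (XT.lf (nat_lit 1292) (nat_lit 2881304695) (nat_lit 0) (nat_lit 14888923339) (nat_lit 1216) (nat_lit 2881304695) (nat_lit 394) (nat_lit 1) (nat_lit 377) (nat_lit 1) (nat_lit 393) (nat_lit 1) (nat_lit 230) (nat_lit 398) (nat_lit 392))) (XT.nd (nat_lit 78) (nat_lit 0) (nat_lit 76) (XT.lf (nat_lit 1292) (nat_lit 5004771964) (nat_lit 76) (nat_lit 7676382633) (nat_lit 0) (nat_lit 7676382633) (nat_lit 394) (nat_lit 1)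 (nat_lit 378) (nat_lit 1) (nat_lit 377) (nat_lit 1) (nat_lit 231) (nat_lit 398) (nat_lit 391)) (XT.lf (nat_lit 1292) (nat_lit 2109727638) (nat_lit 0) (nat_lit 15851206167) (nat_lit 1216) (nat_lit 2109727638) (nat_lit 395) (nat_lit 1) (nat_lit 378) (nat_lit 1) (nat_lit 394) (nat_lit 1) (nat_lit 232) (nat_lit 398) (nat_lit 390)))) (XT.nd (nat_lit 156) (nat_lit 1140) (nat_lit 0) (XT.nd (nat_lit 78) (nat_lit 0) (nat_lit 76) (XT.lf (nat_lit 1292) (nat_lit 3301607907) (nat_lit 76) (nat_lit 8243003511) (nat_lit 0) (nat_lit 8243003511) (nat_lit 395) (nat_lit 1) (nat_lit 379) (nat_lit 1) (nat_lit 378) (nat_lit 1) (nat_lit 233) (nat_lit 398) (nat_lit 389)) (XT.lf (nat_lit 1292) (nat_lit 1188902384) (nat_lit 0) (nat_lit 17134055608) (nat_lit 1216) (nat_lit 1188902384) (nat_lit 396) (nat_lit 1) (nat_lit 379) (nat_lit 1) (nat_lit 395) (nat_lit 1) (nat_lit 234) (nat_lit 398) (nat_lit 388))) (XT.nd (nat_lit 78) (nat_lit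 1216) (nat_lit 0) (XT.lf (nat_lit 1292) (nat_lit 1312927582) (nat_lit 76) (nat_lit 8963158640) (nat_lit 0) (nat_lit 8963158640) (nat_lit 396) (nat_lit 1) (nat_lit 380) (nat_lit 1) (nat_lit 379) (nat_lit 1) (nat_lit 235) (nat_lit 398) (nat_lit 387)) (XT.nd (nat_lit 78) (nat_lit 1292) (nat_lit 0) (XT.lf (nat_lit 1292) (nat_lit 133033475) (nat_lit 0) (nat_lit 18708124033) (nat_lit 1216) (nat_lit 133033475) (nat_lit 397) (nat_lit 1) (nat_lit 380) (nat_lit 1) (nat_lit 396) (nat_lit 1) (nat_lit 236) (nat_lit 398) (nat_lit 386)) (XT.lf (nat_lit 1368) (nat_lit 8897875158) (nat_lit 0) (nat_lit 915495418) (nat_lit 1292) (nat_lit 8897875158) (nat_lit 381) (nat_lit 1) (nat_lit 363) (nat_lit 1) (nat_lit 380) (nat_lit 1) (nat_lit 237) (nat_lit 398) (nat_lit 385)))))) (XT.nd (nat_lit 390) (nat_lit 1216) (nat_lit 0) (XT.nd (nat_lit 156) (nat_lit 684) (nat_lit 0) (XT.nd (nat_lit 78) (nat_lit 0) (nat_lit 76) (XT.lf (nat_lit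 1368) (nat_lit 16386723072) (nat_lit 76) (nat_lit 1034412426) (nat_lit 0) (nat_lit 1034412426) (nat_lit 381) (nat_lit 1) (nat_lit 364) (nat_lit 1) (nat_lit 363) (nat_lit 1) (nat_lit 238) (nat_lit 398) (nat_lit 384)) (XT.lf (nat_lit 1368) (nat_lit 7428245337) (nat_lit 0) (nat_lit 3346081372) (nat_lit 1292) (nat_lit 7428245337) (nat_lit 382) (nat_lit 1) (nat_lit 364) (nat_lit 1) (nat_lit 381) (nat_lit 1) (nat_lit 239) (nat_lit 398) (nat_lit 383))) (XT.nd (nat_lit 78) (nat_lit 760) (nat_lit 0) (XT.lf (nat_lit 1368) (nat_lit 13338023432) (nat_lit 76) (nat_lit 2308992744) (nat_lit 0) (nat_lit 2308992744) (nat_lit 382) (nat_lit 1) (nat_lit 365) (nat_lit 1) (nat_lit 364) (nat_lit 1) (nat_lit 240) (nat_lit 398) (nat_lit 382)) (XT.nd (nat_lit 78) (nat_lit 836) (nat_lit 0) (XT.lf (nat_lit 76) (nat_lit 5865861877) (nat_lit 0) (nat_lit 5981057095) (nat_lit 1292) (nat_lit 5865861877) (nat_lit 366) (nat_lit 1) (nat_lit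 365) (nat_lit 1) (nat_lit 382) (nat_lit 1) (nat_lit 241) (nat_lit 398) (nat_lit 381)) (XT.lf (nat_lit 912) (nat_lit 10113571688) (nat_lit 0) (nat_lit 3680678752) (nat_lit 836) (nat_lit 3680678752) (nat_lit 366) (nat_lit 1) (nat_lit 354) (nat_lit 1) (nat_lit 365) (nat_lit 1) (nat_lit 242) (nat_lit 398) (nat_lit 380))))) (XT.nd (nat_lit 156) (nat_lit 608) (nat_lit 0) (XT.nd (nat_lit 78) (nat_lit 608) (nat_lit 0) (XT.lf (nat_lit 76) (nat_lit 4221207946) (nat_lit 0) (nat_lit 8798672826) (nat_lit 912) (nat_lit 4221207946) (nat_lit 355) (nat_lit 1) (nat_lit 354) (nat_lit 1) (nat_lit 366) (nat_lit 1) (nat_lit 243) (nat_lit 398) (nat_lit 379)) (XT.lf (nat_lit 684) (nat_lit 6733673039) (nat_lit 0) (nat_lit 5138936811) (nat_lit 608) (nat_lit 5138936811) (nat_lit 355) (nat_lit 1) (nat_lit 346) (nat_lit 1) (nat_lit 354) (nat_lit 1) (nat_lit 244) (nat_lit 398) (nat_lit 378))) (XT.nd (nat_lit 78) (nat_lit 608) (nat_lit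 0) (XT.lf (nat_lit 76) (nat_lit 2504014682) (nat_lit 0) (nat_lit 11778719085) (nat_lit 684) (nat_lit 2504014682) (nat_lit 347) (nat_lit 1) (nat_lit 346) (nat_lit 1) (nat_lit 355) (nat_lit 1) (nat_lit 245) (nat_lit 398) (nat_lit 377)) (XT.nd (nat_lit 78) (nat_lit 0) (nat_lit 0) (XT.lf (nat_lit 684) (nat_lit 3217169518) (nat_lit 0) (nat_lit 6673982407) (nat_lit 608) (nat_lit 6673982407) (nat_lit 347) (nat_lit 1) (nat_lit 338) (nat_lit 1) (nat_lit 346) (nat_lit 1) (nat_lit 246) (nat_lit 398) (nat_lit 376)) (XT.lf (nat_lit 76) (nat_lit 723308737) (nat_lit 0) (nat_lit 14902429758) (nat_lit 684) (nat_lit 723308737) (nat_lit 339) (nat_lit 1) (nat_lit 338) (nat_lit 1) (nat_lit 347) (nat_lit 1) (nat_lit 247) (nat_lit 398) (nat_lit 375))))))) (XT.nd (nat_lit 702) (nat_lit 2204) (nat_lit 0) (XT.nd (nat_lit 312) (nat_lit 1596) (nat_lit 0) (XT.nd (nat_lit 156) (nat_lit 532) (nat_lit 0) (XT.nd (nat_lit 78) (nat_lit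 608) (nat_lit 0) (XT.lf (nat_lit 76) (nat_lit 7862288156) (nat_lit 0) (nat_lit 410301538) (nat_lit 608) (nat_lit 7862288156) (nat_lit 331) (nat_lit 1) (nat_lit 330) (nat_lit 1) (nat_lit 338) (nat_lit 1) (nat_lit 248) (nat_lit 398) (nat_lit 374)) (XT.lf (nat_lit 684) (nat_lit 13722743620) (nat_lit 0) (nat_lit 1101635746) (nat_lit 608) (nat_lit 1101635746) (nat_lit 331) (nat_lit 1) (nat_lit 322) (nat_lit 1) (nat_lit 330) (nat_lit 1) (nat_lit 249) (nat_lit 398) (nat_lit 373))) (XT.nd (nat_lit 78) (nat_lit 532) (nat_lit 0) (XT.lf (nat_lit 76) (nat_lit 5821673993) (nat_lit 0) (nat_lit 4075930429) (nat_lit 684) (nat_lit 5821673993) (nat_lit 323) (nat_lit 1) (nat_lit 322) (nat_lit 1) (nat_lit 331) (nat_lit 1) (nat_lit 250) (nat_lit 398) (nat_lit 372)) (XT.lf (nat_lit 608) (nat_lit 9584557172) (nat_lit 0) (nat_lit 2966421058) (nat_lit 532) (nat_lit 2966421058) (nat_lit 323) (nat_lit 1) (nat_lit 315) (nat_lit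 1) (nat_lit 322) (nat_lit 1) (nat_lit 251) (nat_lit 398) (nat_lit 371)))) (XT.nd (nat_lit 156) (nat_lit 1064) (nat_lit 0) (XT.nd (nat_lit 78) (nat_lit 532) (nat_lit 0) (XT.lf (nat_lit 76) (nat_lit 3745417266) (nat_lit 0) (nat_lit 7827801624) (nat_lit 608) (nat_lit 3745417266) (nat_lit 316) (nat_lit 1) (nat_lit 315) (nat_lit 1) (nat_lit 323) (nat_lit 1) (nat_lit 252) (nat_lit 398) (nat_lit 370)) (XT.lf (nat_lit 608) (nat_lit 5381350954) (nat_lit 0) (nat_lit 4871038026) (nat_lit 532) (nat_lit 4871038026) (nat_lit 316) (nat_lit 1) (nat_lit 308) (nat_lit 1) (nat_lit 315) (nat_lit 1) (nat_lit 253) (nat_lit 398) (nat_lit 369))) (XT.nd (nat_lit 78) (nat_lit 1064) (nat_lit 0) (XT.lf (nat_lit 76) (nat_lit 1640013970) (nat_lit 0) (nat_lit 11652323752) (nat_lit 608) (nat_lit 1640013970) (nat_lit 309) (nat_lit 1) (nat_lit 308) (nat_lit 1) (nat_lit 316) (nat_lit 1) (nat_lit 254) (nat_lit 398) (nat_lit 368)) (XT.nd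 (nat_lit 78) (nat_lit 608) (nat_lit 0) (XT.lf (nat_lit 532) (nat_lit 1125670043) (nat_lit 0) (nat_lit 6808922151) (nat_lit 456) (nat_lit 6808922151) (nat_lit 309) (nat_lit 1) (nat_lit 302) (nat_lit 1) (nat_lit 308) (nat_lit 1) (nat_lit 255) (nat_lit 398) (nat_lit 367)) (XT.lf (nat_lit 608) (nat_lit 13591780561) (nat_lit 0) (nat_lit 483752775) (nat_lit 532) (nat_lit 483752775) (nat_lit 302) (nat_lit 1) (nat_lit 294) (nat_lit 1) (nat_lit 301) (nat_lit 1) (nat_lit 256) (nat_lit 398) (nat_lit 366)))))) (XT.nd (nat_lit 390) (nat_lit 1292) (nat_lit 0) (XT.nd (nat_lit 156) (nat_lit 456) (nat_lit 0) (XT.nd (nat_lit 78) (nat_lit 456) (nat_lit 0) (XT.lf (nat_lit 76) (nat_lit 5633573864) (nat_lit 0) (nat_lit 3109041281) (nat_lit 608) (nat_lit 5633573864) (nat_lit 295) (nat_lit 1) (nat_lit 294) (nat_lit 1) (nat_lit 302) (nat_lit 1) (nat_lit 257) (nat_lit 398) (nat_lit 365)) (XT.lf (nat_lit 532) (nat_lit 8979741850)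 (nat_lit 0) (nat_lit 2608897595) (nat_lit 456) (nat_lit 2608897595) (nat_lit 295) (nat_lit 1) (nat_lit 288) (nat_lit 1) (nat_lit 294) (nat_lit 1) (nat_lit 258) (nat_lit 398) (nat_lit 364))) (XT.nd (nat_lit 78) (nat_lit 456) (nat_lit 0) (XT.lf (nat_lit 76) (nat_lit 3335025555) (nat_lit 0) (nat_lit 7351447857) (nat_lit 532) (nat_lit 3335025555) (nat_lit 289) (nat_lit 1) (nat_lit 288) (nat_lit 1) (nat_lit 295) (nat_lit 1) (nat_lit 259) (nat_lit 398) (nat_lit 363)) (XT.nd (nat_lit 78) (nat_lit 0) (nat_lit 0) (XT.lf (nat_lit 532) (nat_lit 4355559897) (nat_lit 0) (nat_lit 4746464551) (nat_lit 456) (nat_lit 4746464551) (nat_lit 289) (nat_lit 1) (nat_lit 282) (nat_lit 1) (nat_lit 288) (nat_lit 1) (nat_lit 260) (nat_lit 398) (nat_lit 362)) (XT.lf (nat_lit 76) (nat_lit 1032678347) (nat_lit 0) (nat_lit 11613905415) (nat_lit 532) (nat_lit 1032678347) (nat_lit 283) (nat_lit 1) (nat_lit 282) (nat_lit 1) (nat_lit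 289) (nat_lit 1) (nat_lit 261) (nat_lit 398) (nat_lit 361))))) (XT.nd (nat_lit 156) (nat_lit 380) (nat_lit 0) (XT.nd (nat_lit 78) (nat_lit 456) (nat_lit 0) (XT.lf (nat_lit 76) (nat_lit 6622436870) (nat_lit 0) (nat_lit 266695613) (nat_lit 456) (nat_lit 6622436870) (nat_lit 277) (nat_lit 1) (nat_lit 276) (nat_lit 1) (nat_lit 282) (nat_lit 1) (nat_lit 262) (nat_lit 398) (nat_lit 360)) (XT.lf (nat_lit 532) (nat_lit 10833818601) (nat_lit 0) (nat_lit 1256851872) (nat_lit 456) (nat_lit 1256851872) (nat_lit 277) (nat_lit 1) (nat_lit 270) (nat_lit 1) (nat_lit 276) (nat_lit 1) (nat_lit 263) (nat_lit 398) (nat_lit 359))) (XT.nd (nat_lit 78) (nat_lit 380) (nat_lit 0) (XT.lf (nat_lit 76) (nat_lit 4192861419) (nat_lit 0) (nat_lit 4799406329) (nat_lit 532) (nat_lit 4192861419) (nat_lit 271) (nat_lit 1) (nat_lit 270) (nat_lit 1) (nat_lit 277) (nat_lit 1) (nat_lit 264) (nat_lit 398) (nat_lit 358)) (XT.nd (nat_lit 78)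 (nat_lit 0) (nat_lit 0) (XT.lf (nat_lit 456) (nat_lit 5961877832) (nat_lit 0) (nat_lit 3532108789) (nat_lit 380) (nat_lit 3532108789) (nat_lit 271) (nat_lit 1) (nat_lit 265) (nat_lit 1) (nat_lit 270) (nat_lit 1) (nat_lit 265) (nat_lit 398) (nat_lit 357)) (XT.lf (nat_lit 76) (nat_lit 1774800879) (nat_lit 0) (nat_lit 9320372670) (nat_lit 456) (nat_lit 1774800879) (nat_lit 266) (nat_lit 1) (nat_lit 265) (nat_lit 1) (nat_lit 271) (nat_lit 1) (nat_lit 266) (nat_lit 398) (nat_lit 356))))))))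
noncomputable def ec292 : XT := (XT.nd (nat_lit 1404) (nat_lit 3040) (nat_lit 0) (XT.nd (nat_lit 702) (nat_lit 1596) (nat_lit 0) (XT.nd (nat_lit 312) (nat_lit 1064) (nat_lit 0) (XT.nd (nat_lit 156) (nat_lit 380) (nat_lit 0) (XT.nd (nat_lit 78) (nat_lit 456) (nat_lit 0) (XT.lf (nat_lit 456) (nat_lit 1116209952) (nat_lit 0) (nat_lit 5799764632) (nat_lit 380) (nat_lit 5799764632) (nat_lit 266) (nat_lit 1) (nat_lit 260) (nat_lit 1) (nat_lit 265) (nat_lit 1) (nat_lit 267) (nat_lit 398) (nat_lit 355)) (XT.lf (nat_lit 456) (nat_lit 11319914643) (nat_lit 0) (nat_lit 622515454) (nat_lit 380) (nat_lit 622515454) (nat_lit 260) (nat_lit 1) (nat_lit 254) (nat_lit 1) (nat_lit 259) (nat_lit 1) (nat_lit 268) (nat_lit 398) (nat_lit 354))) (XT.nd (nat_lit 78) (nat_lit 380) (nat_lit 0) (XT.lf (nat_lit 76) (nat_lit 4394901081) (nat_lit 0) (nat_lit 3625164840) (nat_lit 456) (nat_lit 4394901081) (nat_lit 255) (nat_lit 1)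 (nat_lit 254) (nat_lit 1) (nat_lit 260) (nat_lit 1) (nat_lit 269) (nat_lit 398) (nat_lit 353)) (XT.lf (nat_lit 456) (nat_lit 6297841446) (nat_lit 0) (nat_lit 2985240071) (nat_lit 380) (nat_lit 2985240071) (nat_lit 255) (nat_lit 1) (nat_lit 249) (nat_lit 1) (nat_lit 254) (nat_lit 1) (nat_lit 270) (nat_lit 398) (nat_lit 352)))) (XT.nd (nat_lit 156) (nat_lit 760) (nat_lit 0) (XT.nd (nat_lit 78) (nat_lit 304) (nat_lit 0) (XT.lf (nat_lit 76) (nat_lit 1908053622) (nat_lit 0) (nat_lit 8308023996) (nat_lit 456) (nat_lit 1908053622) (nat_lit 250) (nat_lit 1) (nat_lit 249) (nat_lit 1) (nat_lit 255) (nat_lit 1) (nat_lit 271) (nat_lit 398) (nat_lit 351)) (XT.lf (nat_lit 380) (nat_lit 1325205346) (nat_lit 0) (nat_lit 5328281449) (nat_lit 304) (nat_lit 5328281449) (nat_lit 250) (nat_lit 1) (nat_lit 245) (nat_lit 1) (nat_lit 249) (nat_lit 1) (nat_lit 272) (nat_lit 398) (nat_lit 350))) (XT.nd (nat_lit 78) (nat_lit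 304) (nat_lit 0) (XT.lf (nat_lit 456) (nat_lit 10747107215) (nat_lit 0) (nat_lit 547710550) (nat_lit 380) (nat_lit 547710550) (nat_lit 245) (nat_lit 1) (nat_lit 239) (nat_lit 1) (nat_lit 244) (nat_lit 1) (nat_lit 273) (nat_lit 398) (nat_lit 349)) (XT.nd (nat_lit 78) (nat_lit 304) (nat_lit 0) (XT.lf (nat_lit 76) (nat_lit 4090064180) (nat_lit 0) (nat_lit 3523745296) (nat_lit 456) (nat_lit 4090064180) (nat_lit 240) (nat_lit 1) (nat_lit 239) (nat_lit 1) (nat_lit 245) (nat_lit 1) (nat_lit 274) (nat_lit 398) (nat_lit 348)) (XT.lf (nat_lit 380) (nat_lit 5653369357) (nat_lit 0) (nat_lit 2957440957) (nat_lit 304) (nat_lit 2957440957) (nat_lit 240) (nat_lit 1) (nat_lit 235) (nat_lit 1) (nat_lit 239) (nat_lit 1) (nat_lit 275) (nat_lit 398) (nat_lit 347)))))) (XT.nd (nat_lit 312) (nat_lit 912) (nat_lit 0) (XT.nd (nat_lit 156) (nat_lit 380) (nat_lit 0) (XT.nd (nat_lit 78) (nat_lit 304) (nat_lit 0) (XT.lf (nat_lit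 76) (nat_lit 1572115661) (nat_lit 0) (nat_lit 8290717422) (nat_lit 380) (nat_lit 1572115661) (nat_lit 236) (nat_lit 1) (nat_lit 235) (nat_lit 1) (nat_lit 240) (nat_lit 1) (nat_lit 276) (nat_lit 398) (nat_lit 346)) (XT.lf (nat_lit 380) (nat_lit 626893435) (nat_lit 0) (nat_lit 5338133978) (nat_lit 304) (nat_lit 5338133978) (nat_lit 236) (nat_lit 1) (nat_lit 231) (nat_lit 1) (nat_lit 235) (nat_lit 1) (nat_lit 277) (nat_lit 398) (nat_lit 345))) (XT.nd (nat_lit 78) (nat_lit 0) (nat_lit 0) (XT.lf (nat_lit 380) (nat_lit 9368519792) (nat_lit 0) (nat_lit 902727502) (nat_lit 304) (nat_lit 902727502) (nat_lit 231) (nat_lit 1) (nat_lit 226) (nat_lit 1) (nat_lit 230) (nat_lit 1) (nat_lit 278) (nat_lit 398) (nat_lit 344)) (XT.lf (nat_lit 76) (nat_lit 3400268041) (nat_lit 0) (nat_lit 4245137638) (nat_lit 380) (nat_lit 3400268041) (nat_lit 227) (nat_lit 1) (nat_lit 226) (nat_lit 1) (nat_lit 231) (nat_lit 1) (nat_lit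 279) (nat_lit 398) (nat_lit 343)))) (XT.nd (nat_lit 156) (nat_lit 608) (nat_lit 0) (XT.nd (nat_lit 78) (nat_lit 0) (nat_lit 0) (XT.lf (nat_lit 380) (nat_lit 4265729019) (nat_lit 0) (nat_lit 3327084173) (nat_lit 304) (nat_lit 3327084173) (nat_lit 227) (nat_lit 1) (nat_lit 222) (nat_lit 1) (nat_lit 226) (nat_lit 1) (nat_lit 280) (nat_lit 398) (nat_lit 342)) (XT.lf (nat_lit 76) (nat_lit 881258173) (nat_lit 0) (nat_lit 9034037910) (nat_lit 380) (nat_lit 881258173) (nat_lit 223) (nat_lit 1) (nat_lit 222) (nat_lit 1) (nat_lit 227) (nat_lit 1) (nat_lit 281) (nat_lit 398) (nat_lit 341))) (XT.nd (nat_lit 78) (nat_lit 304) (nat_lit 0) (XT.lf (nat_lit 76) (nat_lit 4966204442) (nat_lit 0) (nat_lit 741596983) (nat_lit 304) (nat_lit 4966204442) (nat_lit 219) (nat_lit 1) (nat_lit 218) (nat_lit 1) (nat_lit 222) (nat_lit 1) (nat_lit 282) (nat_lit 398) (nat_lit 340)) (XT.nd (nat_lit 78) (nat_lit 0) (nat_lit 0) (XT.lf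 (nat_lit 380) (nat_lit 7390765684) (nat_lit 0) (nat_lit 1581528742) (nat_lit 304) (nat_lit 1581528742) (nat_lit 219) (nat_lit 1) (nat_lit 214) (nat_lit 1) (nat_lit 218) (nat_lit 1) (nat_lit 283) (nat_lit 398) (nat_lit 339)) (XT.lf (nat_lit 76) (nat_lit 2424987513) (nat_lit 0) (nat_lit 5585034573) (nat_lit 380) (nat_lit 2424987513) (nat_lit 215) (nat_lit 1) (nat_lit 214) (nat_lit 1) (nat_lit 219) (nat_lit 1) (nat_lit 284) (nat_lit 398) (nat_lit 338))))))) (XT.nd (nat_lit 702) (nat_lit 1444) (nat_lit 0) (XT.nd (nat_lit 312) (nat_lit 760) (nat_lit 0) (XT.nd (nat_lit 156) (nat_lit 228) (nat_lit 0) (XT.nd (nat_lit 78) (nat_lit 380) (nat_lit 0) (XT.lf (nat_lit 304) (nat_lit 2328432741) (nat_lit 0) (nat_lit 3994814533) (nat_lit 228) (nat_lit 3994814533) (nat_lit 215) (nat_lit 1) (nat_lit 211) (nat_lit 1) (nat_lit 214) (nat_lit 1) (nat_lit 285) (nat_lit 398) (nat_lit 337)) (XT.lf (nat_lit 380) (nat_lit 10062444924)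 (nat_lit 0) (nat_lit 70660568) (nat_lit 304) (nat_lit 70660568) (nat_lit 211) (nat_lit 1) (nat_lit 206) (nat_lit 1) (nat_lit 210) (nat_lit 1) (nat_lit 286) (nat_lit 398) (nat_lit 336))) (XT.nd (nat_lit 78) (nat_lit 228) (nat_lit 0) (XT.lf (nat_lit 76) (nat_lit 3748745764) (nat_lit 0) (nat_lit 2591754083) (nat_lit 380) (nat_lit 3748745764) (nat_lit 207) (nat_lit 1) (nat_lit 206) (nat_lit 1) (nat_lit 211) (nat_lit 1) (nat_lit 287) (nat_lit 398) (nat_lit 335)) (XT.lf (nat_lit 304) (nat_lit 4981836161) (nat_lit 0) (nat_lit 2497742236) (nat_lit 228) (nat_lit 2497742236) (nat_lit 207) (nat_lit 1) (nat_lit 203) (nat_lit 1) (nat_lit 206) (nat_lit 1) (nat_lit 288) (nat_lit 398) (nat_lit 334)))) (XT.nd (nat_lit 156) (nat_lit 456) (nat_lit 0) (XT.nd (nat_lit 78) (nat_lit 304) (nat_lit 0) (XT.lf (nat_lit 76) (nat_lit 1245063599) (nat_lit 0) (nat_lit 7377091754) (nat_lit 304) (nat_lit 1245063599) (nat_lit 204) (nat_lit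 1) (nat_lit 203) (nat_lit 1) (nat_lit 207) (nat_lit 1) (nat_lit 289) (nat_lit 398) (nat_lit 333)) (XT.lf (nat_lit 76) (nat_lit 4878455521) (nat_lit 0) (nat_lit 1306151) (nat_lit 304) (nat_lit 4878455521) (nat_lit 200) (nat_lit 1) (nat_lit 199) (nat_lit 1) (nat_lit 203) (nat_lit 1) (nat_lit 290) (nat_lit 398) (nat_lit 332))) (XT.nd (nat_lit 78) (nat_lit 228) (nat_lit 0) (XT.lf (nat_lit 304) (nat_lit 7254504505) (nat_lit 0) (nat_lit 1198241980) (nat_lit 228) (nat_lit 1198241980) (nat_lit 200) (nat_lit 1) (nat_lit 196) (nat_lit 1) (nat_lit 199) (nat_lit 1) (nat_lit 291) (nat_lit 398) (nat_lit 331)) (XT.nd (nat_lit 78) (nat_lit 228) (nat_lit 0) (XT.lf (nat_lit 76) (nat_lit 2376578408) (nat_lit 0) (nat_lit 4791634044) (nat_lit 304) (nat_lit 2376578408) (nat_lit 197) (nat_lit 1) (nat_lit 196) (nat_lit 1) (nat_lit 200) (nat_lit 1) (nat_lit 292) (nat_lit 398) (nat_lit 330)) (XT.lf (nat_lit 304) (nat_lit 2277687112)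 (nat_lit 0) (nat_lit 3581315511) (nat_lit 228) (nat_lit 3581315511) (nat_lit 197) (nat_lit 1) (nat_lit 193) (nat_lit 1) (nat_lit 196) (nat_lit 1) (nat_lit 293) (nat_lit 398) (nat_lit 329)))))) (XT.nd (nat_lit 390) (nat_lit 684) (nat_lit 0) (XT.nd (nat_lit 156) (nat_lit 456) (nat_lit 0) (XT.nd (nat_lit 78) (nat_lit 0) (nat_lit 0) (XT.lf (nat_lit 304) (nat_lit 9191365915) (nat_lit 0) (nat_lit 73389813) (nat_lit 228) (nat_lit 73389813) (nat_lit 193) (nat_lit 1) (nat_lit 189) (nat_lit 1) (nat_lit 192) (nat_lit 1) (nat_lit 294) (nat_lit 398) (nat_lit 328)) (XT.lf (nat_lit 76) (nat_lit 3344914015) (nat_lit 0) (nat_lit 2545832523) (nat_lit 304) (nat_lit 3344914015) (nat_lit 190) (nat_lit 1) (nat_lit 189) (nat_lit 1) (nat_lit 193) (nat_lit 1) (nat_lit 295) (nat_lit 398) (nat_lit 327))) (XT.nd (nat_lit 78) (nat_lit 228) (nat_lit 0) (XT.lf (nat_lit 304) (nat_lit 4236191330) (nat_lit 0) (nat_lit 2449621135) (nat_lit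 228) (nat_lit 2449621135) (nat_lit 190) (nat_lit 1) (nat_lit 186) (nat_lit 1) (nat_lit 189) (nat_lit 1) (nat_lit 296) (nat_lit 398) (nat_lit 326)) (XT.nd (nat_lit 78) (nat_lit 228) (nat_lit 0) (XT.lf (nat_lit 76) (nat_lit 906038644) (nat_lit 0) (nat_lit 7224826964) (nat_lit 304) (nat_lit 906038644) (nat_lit 187) (nat_lit 1) (nat_lit 186) (nat_lit 1) (nat_lit 190) (nat_lit 1) (nat_lit 297) (nat_lit 398) (nat_lit 325)) (XT.lf (nat_lit 76) (nat_lit 4169344702) (nat_lit 0) (nat_lit 600315667) (nat_lit 228) (nat_lit 4169344702) (nat_lit 184) (nat_lit 1) (nat_lit 183) (nat_lit 1) (nat_lit 186) (nat_lit 1) (nat_lit 298) (nat_lit 398) (nat_lit 324))))) (XT.nd (nat_lit 156) (nat_lit 456) (nat_lit 0) (XT.nd (nat_lit 78) (nat_lit 0) (nat_lit 0) (XT.lf (nat_lit 304) (nat_lit 5911855335) (nat_lit 0) (nat_lit 1465455377) (nat_lit 228) (nat_lit 1465455377) (nat_lit 184) (nat_lit 1) (nat_lit 180) (nat_lit 1) (nat_lit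 183) (nat_lit 1) (nat_lit 299) (nat_lit 398) (nat_lit 323)) (XT.lf (nat_lit 76) (nat_lit 1748586266) (nat_lit 0) (nat_lit 5250452803) (nat_lit 304) (nat_lit 1748586266) (nat_lit 181) (nat_lit 1) (nat_lit 180) (nat_lit 1) (nat_lit 184) (nat_lit 1) (nat_lit 300) (nat_lit 398) (nat_lit 322))) (XT.nd (nat_lit 78) (nat_lit 304) (nat_lit 0) (XT.lf (nat_lit 228) (nat_lit 1101345271) (nat_lit 0) (nat_lit 3776205564) (nat_lit 152) (nat_lit 3776205564) (nat_lit 181) (nat_lit 1) (nat_lit 178) (nat_lit 1) (nat_lit 180) (nat_lit 1) (nat_lit 301) (nat_lit 398) (nat_lit 321)) (XT.nd (nat_lit 78) (nat_lit 0) (nat_lit 0) (XT.lf (nat_lit 304) (nat_lit 7338096415) (nat_lit 0) (nat_lit 611745624) (nat_lit 228) (nat_lit 611745624) (nat_lit 178) (nat_lit 1) (nat_lit 174) (nat_lit 1) (nat_lit 177) (nat_lit 1) (nat_lit 302) (nat_lit 398) (nat_lit 320)) (XT.lf (nat_lit 76) (nat_lit 2469695926) (nat_lit 0) (nat_lit 3530287099)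 (nat_lit 304) (nat_lit 2469695926) (nat_lit 175) (nat_lit 1) (nat_lit 174) (nat_lit 1) (nat_lit 178) (nat_lit 1) (nat_lit 303) (nat_lit 398) (nat_lit 319))))))))
noncomputable def ec293 : XT := (XT.nd (nat_lit 1482) (nat_lit 1900) (nat_lit 0) (XT.nd (nat_lit 702) (nat_lit 1064) (nat_lit 0) (XT.nd (nat_lit 312) (nat_lit 532) (nat_lit 0) (XT.nd (nat_lit 156) (nat_lit 380) (nat_lit 0) (XT.nd (nat_lit 78) (nat_lit 0) (nat_lit 0) (XT.lf (nat_lit 228) (nat_lit 2575941813) (nat_lit 0) (nat_lit 2901748651) (nat_lit 152) (nat_lit 2901748651) (nat_lit 175) (nat_lit 1) (nat_lit 172) (nat_lit 1) (nat_lit 174) (nat_lit 1) (nat_lit 304) (nat_lit 398) (nat_lit 318)) (XT.lf (nat_lit 76) (nat_lit 127912875) (nat_lit 0) (nat_lit 8035259027) (nat_lit 228) (nat_lit 127912875) (nat_lit 173) (nat_lit 1) (nat_lit 172) (nat_lit 1) (nat_lit 175) (nat_lit 1) (nat_lit 305) (nat_lit 398) (nat_lit 317))) (XT.nd (nat_lit 78) (nat_lit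 152) (nat_lit 0) (XT.lf (nat_lit 76) (nat_lit 3083710004) (nat_lit 0) (nat_lit 2034990856) (nat_lit 228) (nat_lit 3083710004) (nat_lit 170) (nat_lit 1) (nat_lit 169) (nat_lit 1) (nat_lit 172) (nat_lit 1) (nat_lit 306) (nat_lit 398) (nat_lit 316)) (XT.lf (nat_lit 228) (nat_lit 3839575214) (nat_lit 0) (nat_lit 2138009701) (nat_lit 152) (nat_lit 2138009701) (nat_lit 170) (nat_lit 1) (nat_lit 167) (nat_lit 1) (nat_lit 169) (nat_lit 1) (nat_lit 307) (nat_lit 398) (nat_lit 315)))) (XT.nd (nat_lit 156) (nat_lit 304) (nat_lit 0) (XT.nd (nat_lit 78) (nat_lit 228) (nat_lit 0) (XT.lf (nat_lit 76) (nat_lit 770758064) (nat_lit 0) (nat_lit 6488683619) (nat_lit 228) (nat_lit 770758064) (nat_lit 168) (nat_lit 1) (nat_lit 167) (nat_lit 1) (nat_lit 170) (nat_lit 1) (nat_lit 308) (nat_lit 398) (nat_lit 314)) (XT.lf (nat_lit 76) (nat_lit 3603348205) (nat_lit 0) (nat_lit 738525633) (nat_lit 228) (nat_lit 3603348205) (nat_lit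 165) (nat_lit 1) (nat_lit 164) (nat_lit 1) (nat_lit 167) (nat_lit 1) (nat_lit 309) (nat_lit 398) (nat_lit 313))) (XT.nd (nat_lit 78) (nat_lit 152) (nat_lit 0) (XT.lf (nat_lit 228) (nat_lit 4917125737) (nat_lit 0) (nat_lit 1472257625) (nat_lit 152) (nat_lit 1472257625) (nat_lit 165) (nat_lit 1) (nat_lit 162) (nat_lit 1) (nat_lit 164) (nat_lit 1) (nat_lit 310) (nat_lit 398) (nat_lit 312)) (XT.nd (nat_lit 78) (nat_lit 152) (nat_lit 0) (XT.lf (nat_lit 76) (nat_lit 1322778587) (nat_lit 0) (nat_lit 5133519165) (nat_lit 228) (nat_lit 1322778587) (nat_lit 163) (nat_lit 1) (nat_lit 162) (nat_lit 1) (nat_lit 165) (nat_lit 1) (nat_lit 311) (nat_lit 398) (nat_lit 311)) (XT.lf (nat_lit 228) (nat_lit 389822185) (nat_lit 0) (nat_lit 3653814210) (nat_lit 152) (nat_lit 3653814210) (nat_lit 163) (nat_lit 1) (nat_lit 160) (nat_lit 1) (nat_lit 162) (nat_lit 1) (nat_lit 312) (nat_lit 398) (nat_lit 310)))))) (XT.nd (nat_lit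 390) (nat_lit 456) (nat_lit 0) (XT.nd (nat_lit 156) (nat_lit 380) (nat_lit 0) (XT.nd (nat_lit 78) (nat_lit 0) (nat_lit 0) (XT.lf (nat_lit 228) (nat_lit 5830659705) (nat_lit 0) (nat_lit 893192218) (nat_lit 152) (nat_lit 893192218) (nat_lit 160) (nat_lit 1) (nat_lit 157) (nat_lit 1) (nat_lit 159) (nat_lit 1) (nat_lit 313) (nat_lit 398) (nat_lit 309)) (XT.lf (nat_lit 76) (nat_lit 1794660021) (nat_lit 0) (nat_lit 3947868990) (nat_lit 228) (nat_lit 1794660021) (nat_lit 158) (nat_lit 1) (nat_lit 157) (nat_lit 1) (nat_lit 160) (nat_lit 1) (nat_lit 314) (nat_lit 398) (nat_lit 308))) (XT.nd (nat_lit 78) (nat_lit 228) (nat_lit 0) (XT.lf (nat_lit 228) (nat_lit 1374557520) (nat_lit 0) (nat_lit 3041987481) (nat_lit 152) (nat_lit 3041987481) (nat_lit 158) (nat_lit 1) (nat_lit 155) (nat_lit 1) (nat_lit 157) (nat_lit 1) (nat_lit 315) (nat_lit 398) (nat_lit 307)) (XT.nd (nat_lit 78) (nat_lit 0) (nat_lit 0) (XT.lf (nat_lit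 228) (nat_lit 6599744439) (nat_lit 0) (nat_lit 390784266) (nat_lit 152) (nat_lit 390784266) (nat_lit 155) (nat_lit 1) (nat_lit 152) (nat_lit 1) (nat_lit 154) (nat_lit 1) (nat_lit 316) (nat_lit 398) (nat_lit 306)) (XT.lf (nat_lit 76) (nat_lit 2195880125) (nat_lit 0) (nat_lit 2912294252) (nat_lit 228) (nat_lit 2195880125) (nat_lit 153) (nat_lit 1) (nat_lit 152) (nat_lit 1) (nat_lit 155) (nat_lit 1) (nat_lit 317) (nat_lit 398) (nat_lit 305))))) (XT.nd (nat_lit 156) (nat_lit 304) (nat_lit 0) (XT.nd (nat_lit 78) (nat_lit 0) (nat_lit 0) (XT.lf (nat_lit 228) (nat_lit 2219534376) (nat_lit 0) (nat_lit 2504340147) (nat_lit 152) (nat_lit 2504340147) (nat_lit 153) (nat_lit 1) (nat_lit 150) (nat_lit 1) (nat_lit 152) (nat_lit 1) (nat_lit 318) (nat_lit 398) (nat_lit 304)) (XT.lf (nat_lit 76) (nat_lit 44300814) (nat_lit 0) (nat_lit 7065342071) (nat_lit 228) (nat_lit 44300814) (nat_lit 151) (nat_lit 1) (nat_lit 150)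 (nat_lit 1) (nat_lit 153) (nat_lit 1) (nat_lit 319) (nat_lit 398) (nat_lit 303))) (XT.nd (nat_lit 78) (nat_lit 152) (nat_lit 0) (XT.lf (nat_lit 76) (nat_lit 2534844002) (nat_lit 0) (nat_lit 2009539400) (nat_lit 152) (nat_lit 2534844002) (nat_lit 149) (nat_lit 1) (nat_lit 148) (nat_lit 1) (nat_lit 150) (nat_lit 1) (nat_lit 320) (nat_lit 398) (nat_lit 302)) (XT.nd (nat_lit 78) (nat_lit 0) (nat_lit 0) (XT.lf (nat_lit 228) (nat_lit 2941209898) (nat_lit 0) (nat_lit 2032426861) (nat_lit 152) (nat_lit 2032426861) (nat_lit 149) (nat_lit 1) (nat_lit 146) (nat_lit 1) (nat_lit 148) (nat_lit 1) (nat_lit 321) (nat_lit 398) (nat_lit 301)) (XT.lf (nat_lit 76) (nat_lit 422802705) (nat_lit 0) (nat_lit 6088577232) (nat_lit 228) (nat_lit 422802705) (nat_lit 147) (nat_lit 1) (nat_lit 146) (nat_lit 1) (nat_lit 149) (nat_lit 1) (nat_lit 322) (nat_lit 398) (nat_lit 300))))))) (XT.nd (nat_lit 702) (nat_lit 988) (nat_lit 0)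 (XT.nd (nat_lit 312) (nat_lit 456) (nat_lit 0) (XT.nd (nat_lit 156) (nat_lit 152) (nat_lit 0) (XT.nd (nat_lit 78) (nat_lit 152) (nat_lit 0) (XT.lf (nat_lit 76) (nat_lit 2819004173) (nat_lit 0) (nat_lit 1224288251) (nat_lit 152) (nat_lit 2819004173) (nat_lit 145) (nat_lit 1) (nat_lit 144) (nat_lit 1) (nat_lit 146) (nat_lit 1) (nat_lit 323) (nat_lit 398) (nat_lit 299)) (XT.lf (nat_lit 228) (nat_lit 3554180640) (nat_lit 0) (nat_lit 1618749095) (nat_lit 152) (nat_lit 1618749095) (nat_lit 145) (nat_lit 1) (nat_lit 142) (nat_lit 1) (nat_lit 144) (nat_lit 1) (nat_lit 324) (nat_lit 398) (nat_lit 298))) (XT.nd (nat_lit 78) (nat_lit 152) (nat_lit 0) (XT.lf (nat_lit 76) (nat_lit 747928518) (nat_lit 0) (nat_lit 5226235907) (nat_lit 228) (nat_lit 747928518) (nat_lit 143) (nat_lit 1) (nat_lit 142) (nat_lit 1) (nat_lit 145) (nat_lit 1) (nat_lit 325) (nat_lit 398) (nat_lit 297)) (XT.lf (nat_lit 76) (nat_lit 3054967248)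 (nat_lit 0) (nat_lit 542947284) (nat_lit 152) (nat_lit 3054967248) (nat_lit 141) (nat_lit 1) (nat_lit 140) (nat_lit 1) (nat_lit 142) (nat_lit 1) (nat_lit 326) (nat_lit 398) (nat_lit 296)))) (XT.nd (nat_lit 156) (nat_lit 304) (nat_lit 0) (XT.nd (nat_lit 78) (nat_lit 0) (nat_lit 0) (XT.lf (nat_lit 228) (nat_lit 4071390785) (nat_lit 0) (nat_lit 1256649404) (nat_lit 152) (nat_lit 1256649404) (nat_lit 141) (nat_lit 1) (nat_lit 138) (nat_lit 1) (nat_lit 140) (nat_lit 1) (nat_lit 327) (nat_lit 398) (nat_lit 295)) (XT.lf (nat_lit 76) (nat_lit 1025955666) (nat_lit 0) (nat_lit 4465398151) (nat_lit 228) (nat_lit 1025955666) (nat_lit 139) (nat_lit 1) (nat_lit 138) (nat_lit 1) (nat_lit 141) (nat_lit 1) (nat_lit 328) (nat_lit 398) (nat_lit 294))) (XT.nd (nat_lit 78) (nat_lit 228) (nat_lit 0) (XT.lf (nat_lit 152) (nat_lit 47473257) (nat_lit 0) (nat_lit 3201571773) (nat_lit 76) (nat_lit 3201571773) (nat_lit 139) (nat_lit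 1) (nat_lit 137) (nat_lit 1) (nat_lit 138) (nat_lit 1) (nat_lit 329) (nat_lit 398) (nat_lit 293)) (XT.nd (nat_lit 78) (nat_lit 0) (nat_lit 0) (XT.lf (nat_lit 228) (nat_lit 4504317126) (nat_lit 0) (nat_lit 940217495) (nat_lit 152) (nat_lit 940217495) (nat_lit 137) (nat_lit 1) (nat_lit 134) (nat_lit 1) (nat_lit 136) (nat_lit 1) (nat_lit 330) (nat_lit 398) (nat_lit 292)) (XT.lf (nat_lit 76) (nat_lit 1262452074) (nat_lit 0) (nat_lit 3794589429) (nat_lit 228) (nat_lit 1262452074) (nat_lit 135) (nat_lit 1) (nat_lit 134) (nat_lit 1) (nat_lit 137) (nat_lit 1) (nat_lit 331) (nat_lit 398) (nat_lit 291)))))) (XT.nd (nat_lit 390) (nat_lit 380) (nat_lit 0) (XT.nd (nat_lit 156) (nat_lit 304) (nat_lit 0) (XT.nd (nat_lit 78) (nat_lit 228) (nat_lit 0) (XT.lf (nat_lit 152) (nat_lit 565942118) (nat_lit 0) (nat_lit 2844555053) (nat_lit 76) (nat_lit 2844555053) (nat_lit 135) (nat_lit 1) (nat_lit 133) (nat_lit 1) (nat_lit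 134) (nat_lit 1) (nat_lit 332) (nat_lit 398) (nat_lit 290)) (XT.lf (nat_lit 228) (nat_lit 4863133393) (nat_lit 0) (nat_lit 664206771) (nat_lit 152) (nat_lit 664206771) (nat_lit 133) (nat_lit 1) (nat_lit 130) (nat_lit 1) (nat_lit 132) (nat_lit 1) (nat_lit 333) (nat_lit 398) (nat_lit 289))) (XT.nd (nat_lit 78) (nat_lit 304) (nat_lit 0) (XT.lf (nat_lit 76) (nat_lit 1462355571) (nat_lit 0) (nat_lit 3203619297) (nat_lit 228) (nat_lit 1462355571) (nat_lit 131) (nat_lit 1) (nat_lit 130) (nat_lit 1) (nat_lit 133) (nat_lit 1) (nat_lit 334) (nat_lit 398) (nat_lit 288)) (XT.nd (nat_lit 78) (nat_lit 228) (nat_lit 0) (XT.lf (nat_lit 152) (nat_lit 1011339761) (nat_lit 0) (nat_lit 2527350321) (nat_lit 76) (nat_lit 2527350321) (nat_lit 131) (nat_lit 1) (nat_lit 129) (nat_lit 1) (nat_lit 130) (nat_lit 1) (nat_lit 335) (nat_lit 398) (nat_lit 287)) (XT.lf (nat_lit 228) (nat_lit 5156856243) (nat_lit 0) (nat_lit 423960185)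 (nat_lit 152) (nat_lit 423960185) (nat_lit 129) (nat_lit 1) (nat_lit 126) (nat_lit 1) (nat_lit 128) (nat_lit 1) (nat_lit 336) (nat_lit 398) (nat_lit 286))))) (XT.nd (nat_lit 156) (nat_lit 304) (nat_lit 0) (XT.nd (nat_lit 78) (nat_lit 76) (nat_lit 0) (XT.lf (nat_lit 76) (nat_lit 1630044426) (nat_lit 0) (nat_lit 2683438073) (nat_lit 228) (nat_lit 1630044426) (nat_lit 127) (nat_lit 1) (nat_lit 126) (nat_lit 1) (nat_lit 129) (nat_lit 1) (nat_lit 337) (nat_lit 398) (nat_lit 285)) (XT.lf (nat_lit 152) (nat_lit 1392258898) (nat_lit 0) (nat_lit 2245518026) (nat_lit 76) (nat_lit 2245518026) (nat_lit 127) (nat_lit 1) (nat_lit 125) (nat_lit 1) (nat_lit 126) (nat_lit 1) (nat_lit 338) (nat_lit 398) (nat_lit 284))) (XT.nd (nat_lit 78) (nat_lit 76) (nat_lit 0) (XT.lf (nat_lit 228) (nat_lit 5393474942) (nat_lit 0) (nat_lit 215344369) (nat_lit 152) (nat_lit 215344369) (nat_lit 125) (nat_lit 1) (nat_lit 122) (nat_lit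 1) (nat_lit 124) (nat_lit 1) (nat_lit 339) (nat_lit 398) (nat_lit 283)) (XT.nd (nat_lit 78) (nat_lit 76) (nat_lit 0) (XT.lf (nat_lit 76) (nat_lit 1769400003) (nat_lit 0) (nat_lit 2226009508) (nat_lit 228) (nat_lit 1769400003) (nat_lit 123) (nat_lit 1) (nat_lit 122) (nat_lit 1) (nat_lit 125) (nat_lit 1) (nat_lit 340) (nat_lit 398) (nat_lit 282)) (XT.lf (nat_lit 152) (nat_lit 1716321105) (nat_lit 0) (nat_lit 1995113682) (nat_lit 76) (nat_lit 1995113682) (nat_lit 123) (nat_lit 1) (nat_lit 121) (nat_lit 1) (nat_lit 122) (nat_lit 1) (nat_lit 341) (nat_lit 398) (nat_lit 281))))))))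
noncomputable def ec294 : XT := (XT.nd (nat_lit 1482) (nat_lit 1444) (nat_lit 0) (XT.nd (nat_lit 702) (nat_lit 684) (nat_lit 0) (XT.nd (nat_lit 312) (nat_lit 456) (nat_lit 0) (XT.nd (nat_lit 156) (nat_lit 76) (nat_lit 0) (XT.nd (nat_lit 78) (nat_lit 0) (nat_lit 0) (XT.lf (nat_lit 228) (nat_lit 5580066573) (nat_lit 0) (nat_lit 34691105) (nat_lit 152) (nat_lit 34691105) (nat_lit 121) (nat_lit 1) (nat_lit 118) (nat_lit 1) (nat_lit 120) (nat_lit 1) (nat_lit 342) (nat_lit 398) (nat_lit 280)) (XT.lf (nat_lit 76) (nat_lit 1883862424) (nat_lit 0) (nat_lit 1824197641) (nat_lit 228) (nat_lit 1883862424) (nat_lit 119) (nat_lit 1) (nat_lit 118) (nat_lit 1) (nat_lit 121) (nat_lit 1) (nat_lit 343) (nat_lit 398) (nat_lit 279))) (XT.nd (nat_lit 78) (nat_lit 0) (nat_lit 0) (XT.lf (nat_lit 152) (nat_lit 1990285486) (nat_lit 0) (nat_lit 1772632666) (nat_lit 76) (nat_lit 1772632666) (nat_lit 119) (nat_lit 1) (nat_lit 117)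 (nat_lit 1) (nat_lit 118) (nat_lit 1) (nat_lit 344) (nat_lit 398) (nat_lit 278)) (XT.lf (nat_lit 0) (nat_lit 122455202) (nat_lit 0) (nat_lit 5235336679) (nat_lit 152) (nat_lit 122455202) (nat_lit 117) (nat_lit 3) (nat_lit 117) (nat_lit 1) (nat_lit 119) (nat_lit 1) (nat_lit 345) (nat_lit 398) (nat_lit 277)))) (XT.nd (nat_lit 156) (nat_lit 228) (nat_lit 0) (XT.nd (nat_lit 78) (nat_lit 76) (nat_lit 0) (XT.lf (nat_lit 76) (nat_lit 1976480023) (nat_lit 0) (nat_lit 1471666292) (nat_lit 152) (nat_lit 1976480023) (nat_lit 116) (nat_lit 1) (nat_lit 115) (nat_lit 1) (nat_lit 117) (nat_lit 1) (nat_lit 346) (nat_lit 398) (nat_lit 276)) (XT.lf (nat_lit 152) (nat_lit 2220145220) (nat_lit 0) (nat_lit 1574961164) (nat_lit 76) (nat_lit 1574961164) (nat_lit 116) (nat_lit 1) (nat_lit 114) (nat_lit 1) (nat_lit 115) (nat_lit 1) (nat_lit 347) (nat_lit 398) (nat_lit 275))) (XT.nd (nat_lit 78) (nat_lit 228) (nat_lit 0) (XT.lf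 (nat_lit 0) (nat_lit 257909546) (nat_lit 0) (nat_lit 4800638515) (nat_lit 152) (nat_lit 257909546) (nat_lit 114) (nat_lit 3) (nat_lit 114) (nat_lit 1) (nat_lit 116) (nat_lit 1) (nat_lit 348) (nat_lit 398) (nat_lit 274)) (XT.nd (nat_lit 78) (nat_lit 76) (nat_lit 0) (XT.lf (nat_lit 76) (nat_lit 2049953270) (nat_lit 0) (nat_lit 1162789756) (nat_lit 152) (nat_lit 2049953270) (nat_lit 113) (nat_lit 1) (nat_lit 112) (nat_lit 1) (nat_lit 114) (nat_lit 1) (nat_lit 349) (nat_lit 398) (nat_lit 273)) (XT.lf (nat_lit 152) (nat_lit 2411213325) (nat_lit 0) (nat_lit 1399332595) (nat_lit 76) (nat_lit 1399332595) (nat_lit 113) (nat_lit 1) (nat_lit 111) (nat_lit 1) (nat_lit 112) (nat_lit 1) (nat_lit 350) (nat_lit 398) (nat_lit 272)))))) (XT.nd (nat_lit 390) (nat_lit 304) (nat_lit 0) (XT.nd (nat_lit 156) (nat_lit 228) (nat_lit 0) (XT.nd (nat_lit 78) (nat_lit 152) (nat_lit 0) (XT.lf (nat_lit 0) (nat_lit 373915975) (nat_lit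 0) (nat_lit 4410071826) (nat_lit 152) (nat_lit 373915975) (nat_lit 111) (nat_lit 3) (nat_lit 111) (nat_lit 1) (nat_lit 113) (nat_lit 1) (nat_lit 351) (nat_lit 398) (nat_lit 271)) (XT.lf (nat_lit 76) (nat_lit 2106673791) (nat_lit 0) (nat_lit 892573459) (nat_lit 152) (nat_lit 2106673791) (nat_lit 110) (nat_lit 1) (nat_lit 109) (nat_lit 1) (nat_lit 111) (nat_lit 1) (nat_lit 352) (nat_lit 398) (nat_lit 270))) (XT.nd (nat_lit 78) (nat_lit 152) (nat_lit 0) (XT.lf (nat_lit 152) (nat_lit 2568198850) (nat_lit 0) (nat_lit 1243288886) (nat_lit 76) (nat_lit 1243288886) (nat_lit 110) (nat_lit 1) (nat_lit 108) (nat_lit 1) (nat_lit 109) (nat_lit 1) (nat_lit 353) (nat_lit 398) (nat_lit 269)) (XT.nd (nat_lit 78) (nat_lit 152) (nat_lit 0) (XT.lf (nat_lit 0) (nat_lit 472769679) (nat_lit 0) (nat_lit 4058841876) (nat_lit 152) (nat_lit 472769679) (nat_lit 108) (nat_lit 3) (nat_lit 108) (nat_lit 1) (nat_lit 110) (nat_lit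 1) (nat_lit 354) (nat_lit 398) (nat_lit 268)) (XT.lf (nat_lit 76) (nat_lit 2148759041) (nat_lit 0) (nat_lit 656583473) (nat_lit 152) (nat_lit 2148759041) (nat_lit 107) (nat_lit 1) (nat_lit 106) (nat_lit 1) (nat_lit 108) (nat_lit 1) (nat_lit 355) (nat_lit 398) (nat_lit 267))))) (XT.nd (nat_lit 156) (nat_lit 228) (nat_lit 0) (XT.nd (nat_lit 78) (nat_lit 0) (nat_lit 0) (XT.lf (nat_lit 152) (nat_lit 2695274562) (nat_lit 0) (nat_lit 1104646072) (nat_lit 76) (nat_lit 1104646072) (nat_lit 107) (nat_lit 1) (nat_lit 105) (nat_lit 1) (nat_lit 106) (nat_lit 1) (nat_lit 356) (nat_lit 398) (nat_lit 266)) (XT.lf (nat_lit 0) (nat_lit 556506221) (nat_lit 0) (nat_lit 3742684921) (nat_lit 152) (nat_lit 556506221) (nat_lit 105) (nat_lit 3) (nat_lit 105) (nat_lit 1) (nat_lit 107) (nat_lit 1) (nat_lit 357) (nat_lit 398) (nat_lit 265))) (XT.nd (nat_lit 78) (nat_lit 76) (nat_lit 0) (XT.lf (nat_lit 76) (nat_lit 2178083084)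 (nat_lit 0) (nat_lit 450883888) (nat_lit 152) (nat_lit 2178083084) (nat_lit 104) (nat_lit 1) (nat_lit 103) (nat_lit 1) (nat_lit 105) (nat_lit 1) (nat_lit 358) (nat_lit 398) (nat_lit 264)) (XT.nd (nat_lit 78) (nat_lit 0) (nat_lit 0) (XT.lf (nat_lit 152) (nat_lit 2796137069) (nat_lit 0) (nat_lit 981463728) (nat_lit 76) (nat_lit 981463728) (nat_lit 104) (nat_lit 1) (nat_lit 102) (nat_lit 1) (nat_lit 103) (nat_lit 1) (nat_lit 359) (nat_lit 398) (nat_lit 263)) (XT.lf (nat_lit 0) (nat_lit 626930593) (nat_lit 0) (nat_lit 3457809100) (nat_lit 152) (nat_lit 626930593) (nat_lit 102) (nat_lit 3) (nat_lit 102) (nat_lit 1) (nat_lit 104) (nat_lit 1) (nat_lit 360) (nat_lit 398) (nat_lit 262))))))) (XT.nd (nat_lit 702) (nat_lit 760) (nat_lit 0) (XT.nd (nat_lit 312) (nat_lit 304) (nat_lit 0) (XT.nd (nat_lit 156) (nat_lit 152) (nat_lit 0) (XT.nd (nat_lit 78) (nat_lit 76) (nat_lit 0) (XT.lf (nat_lit 76) (nat_lit 2196303956)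 (nat_lit 0) (nat_lit 271981171) (nat_lit 152) (nat_lit 2196303956) (nat_lit 101) (nat_lit 1) (nat_lit 100) (nat_lit 1) (nat_lit 102) (nat_lit 1) (nat_lit 361) (nat_lit 398) (nat_lit 261)) (XT.lf (nat_lit 152) (nat_lit 2874060241) (nat_lit 0) (nat_lit 872017810) (nat_lit 76) (nat_lit 872017810) (nat_lit 101) (nat_lit 1) (nat_lit 99) (nat_lit 1) (nat_lit 100) (nat_lit 1) (nat_lit 362) (nat_lit 398) (nat_lit 260))) (XT.nd (nat_lit 78) (nat_lit 152) (nat_lit 0) (XT.lf (nat_lit 0) (nat_lit 685643035) (nat_lit 0) (nat_lit 3200841923) (nat_lit 152) (nat_lit 685643035) (nat_lit 99) (nat_lit 3) (nat_lit 99) (nat_lit 1) (nat_lit 101) (nat_lit 1) (nat_lit 363) (nat_lit 398) (nat_lit 259)) (XT.lf (nat_lit 76) (nat_lit 2204887955) (nat_lit 0) (nat_lit 116774734) (nat_lit 152) (nat_lit 2204887955) (nat_lit 98) (nat_lit 1) (nat_lit 97) (nat_lit 1) (nat_lit 99) (nat_lit 1) (nat_lit 364) (nat_lit 398) (nat_lit 258))))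 (XT.nd (nat_lit 156) (nat_lit 228) (nat_lit 0) (XT.nd (nat_lit 78) (nat_lit 0) (nat_lit 0) (XT.lf (nat_lit 152) (nat_lit 2931942649) (nat_lit 0) (nat_lit 774776530) (nat_lit 76) (nat_lit 774776530) (nat_lit 98) (nat_lit 1) (nat_lit 96) (nat_lit 1) (nat_lit 97) (nat_lit 1) (nat_lit 365) (nat_lit 398) (nat_lit 257)) (XT.lf (nat_lit 0) (nat_lit 734061969) (nat_lit 0) (nat_lit 2968783604) (nat_lit 152) (nat_lit 734061969) (nat_lit 96) (nat_lit 3) (nat_lit 96) (nat_lit 1) (nat_lit 98) (nat_lit 1) (nat_lit 366) (nat_lit 398) (nat_lit 256))) (XT.nd (nat_lit 78) (nat_lit 152) (nat_lit 0) (XT.lf (nat_lit 76) (nat_lit 17835004) (nat_lit 0) (nat_lit 2187467659) (nat_lit 76) (nat_lit 2187467659) (nat_lit 96) (nat_lit 3) (nat_lit 95) (nat_lit 1) (nat_lit 96) (nat_lit 1) (nat_lit 367) (nat_lit 398) (nat_lit 255)) (XT.nd (nat_lit 78) (nat_lit 0) (nat_lit 0) (XT.lf (nat_lit 152) (nat_lit 2972349720) (nat_lit 0) (nat_lit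 688378912) (nat_lit 76) (nat_lit 688378912) (nat_lit 95) (nat_lit 1) (nat_lit 93) (nat_lit 1) (nat_lit 94) (nat_lit 1) (nat_lit 368) (nat_lit 398) (nat_lit 254)) (XT.lf (nat_lit 0) (nat_lit 773444371) (nat_lit 0) (nat_lit 2758965599) (nat_lit 152) (nat_lit 773444371) (nat_lit 93) (nat_lit 3) (nat_lit 93) (nat_lit 1) (nat_lit 95) (nat_lit 1) (nat_lit 369) (nat_lit 398) (nat_lit 253)))))) (XT.nd (nat_lit 390) (nat_lit 304) (nat_lit 0) (XT.nd (nat_lit 156) (nat_lit 228) (nat_lit 0) (XT.nd (nat_lit 78) (nat_lit 152) (nat_lit 0) (XT.lf (nat_lit 76) (nat_lit 135897363) (nat_lit 0) (nat_lit 2063587876) (nat_lit 76) (nat_lit 2063587876) (nat_lit 93) (nat_lit 3) (nat_lit 92) (nat_lit 1) (nat_lit 93) (nat_lit 1) (nat_lit 370) (nat_lit 398) (nat_lit 252)) (XT.lf (nat_lit 152) (nat_lit 2997551170) (nat_lit 0) (nat_lit 611615747) (nat_lit 76) (nat_lit 611615747) (nat_lit 92) (nat_lit 1) (nat_lit 90) (nat_lit 1)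 (nat_lit 91) (nat_lit 1) (nat_lit 371) (nat_lit 398) (nat_lit 251))) (XT.nd (nat_lit 78) (nat_lit 228) (nat_lit 0) (XT.lf (nat_lit 0) (nat_lit 804903868) (nat_lit 0) (nat_lit 2569013762) (nat_lit 152) (nat_lit 804903868) (nat_lit 90) (nat_lit 3) (nat_lit 90) (nat_lit 1) (nat_lit 92) (nat_lit 1) (nat_lit 372) (nat_lit 398) (nat_lit 250)) (XT.nd (nat_lit 78) (nat_lit 152) (nat_lit 0) (XT.lf (nat_lit 76) (nat_lit 237297603) (nat_lit 0) (nat_lit 1950025656) (nat_lit 76) (nat_lit 1950025656) (nat_lit 90) (nat_lit 3) (nat_lit 89) (nat_lit 1) (nat_lit 90) (nat_lit 1) (nat_lit 373) (nat_lit 398) (nat_lit 249)) (XT.lf (nat_lit 152) (nat_lit 3009554266) (nat_lit 0) (nat_lit 543412669) (nat_lit 76) (nat_lit 543412669) (nat_lit 89) (nat_lit 1) (nat_lit 87) (nat_lit 1) (nat_lit 88) (nat_lit 1) (nat_lit 374) (nat_lit 398) (nat_lit 248))))) (XT.nd (nat_lit 156) (nat_lit 228) (nat_lit 0) (XT.nd (nat_lit 78) (nat_lit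 76) (nat_lit 0) (XT.lf (nat_lit 0) (nat_lit 829426818) (nat_lit 0) (nat_lit 2396815611) (nat_lit 152) (nat_lit 829426818) (nat_lit 87) (nat_lit 3) (nat_lit 87) (nat_lit 1) (nat_lit 89) (nat_lit 1) (nat_lit 375) (nat_lit 398) (nat_lit 247)) (XT.lf (nat_lit 76) (nat_lit 323995610) (nat_lit 0) (nat_lit 1845732302) (nat_lit 76) (nat_lit 1845732302) (nat_lit 87) (nat_lit 3) (nat_lit 86) (nat_lit 1) (nat_lit 87) (nat_lit 1) (nat_lit 376) (nat_lit 398) (nat_lit 246))) (XT.nd (nat_lit 78) (nat_lit 76) (nat_lit 0) (XT.lf (nat_lit 152) (nat_lit 3010133361) (nat_lit 0) (nat_lit 482815118) (nat_lit 76) (nat_lit 482815118) (nat_lit 86) (nat_lit 1) (nat_lit 84) (nat_lit 1) (nat_lit 85) (nat_lit 1) (nat_lit 377) (nat_lit 398) (nat_lit 245)) (XT.nd (nat_lit 78) (nat_lit 76) (nat_lit 0) (XT.lf (nat_lit 0) (nat_lit 847886594) (nat_lit 0) (nat_lit 2240491235) (nat_lit 152) (nat_lit 847886594) (nat_lit 84) (nat_lit 3)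 (nat_lit 84) (nat_lit 1) (nat_lit 86) (nat_lit 1) (nat_lit 378) (nat_lit 398) (nat_lit 244)) (XT.lf (nat_lit 76) (nat_lit 397729751) (nat_lit 0) (nat_lit 1749773092) (nat_lit 76) (nat_lit 1749773092) (nat_lit 84) (nat_lit 3) (nat_lit 83) (nat_lit 1) (nat_lit 84) (nat_lit 1) (nat_lit 379) (nat_lit 398) (nat_lit 243))))))))
noncomputable def ec295 : XT := (XT.nd (nat_lit 1482) (nat_lit 1368) (nat_lit 0) (XT.nd (nat_lit 702) (nat_lit 836) (nat_lit 0) (XT.nd (nat_lit 312) (nat_lit 304) (nat_lit 0) (XT.nd (nat_lit 156) (nat_lit 228) (nat_lit 0) (XT.nd (nat_lit 78) (nat_lit 0) (nat_lit 0) (XT.lf (nat_lit 152) (nat_lit 3000856129) (nat_lit 0) (nat_lit 428974979) (nat_lit 76) (nat_lit 428974979) (nat_lit 83) (nat_lit 1) (nat_lit 81) (nat_lit 1) (nat_lit 82) (nat_lit 1) (nat_lit 380) (nat_lit 398) (nat_lit 242)) (XT.lf (nat_lit 0) (nat_lit 861056265) (nat_lit 0) (nat_lit 2098367452) (nat_lit 152) (nat_lit 861056265)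 (nat_lit 81) (nat_lit 3) (nat_lit 81) (nat_lit 1) (nat_lit 83) (nat_lit 1) (nat_lit 381) (nat_lit 398) (nat_lit 241))) (XT.nd (nat_lit 78) (nat_lit 152) (nat_lit 0) (XT.lf (nat_lit 76) (nat_lit 460041663) (nat_lit 0) (nat_lit 1661314659) (nat_lit 76) (nat_lit 1661314659) (nat_lit 81) (nat_lit 3) (nat_lit 80) (nat_lit 1) (nat_lit 81) (nat_lit 1) (nat_lit 382) (nat_lit 398) (nat_lit 240)) (XT.lf (nat_lit 152) (nat_lit 2983106878) (nat_lit 0) (nat_lit 381138713) (nat_lit 76) (nat_lit 381138713) (nat_lit 80) (nat_lit 1) (nat_lit 78) (nat_lit 1) (nat_lit 79) (nat_lit 1) (nat_lit 383) (nat_lit 398) (nat_lit 239)))) (XT.nd (nat_lit 156) (nat_lit 228) (nat_lit 0) (XT.nd (nat_lit 78) (nat_lit 76) (nat_lit 0) (XT.lf (nat_lit 0) (nat_lit 869619872) (nat_lit 0) (nat_lit 1968954836) (nat_lit 152) (nat_lit 869619872) (nat_lit 78) (nat_lit 3) (nat_lit 78) (nat_lit 1) (nat_lit 80) (nat_lit 1) (nat_lit 384) (nat_lit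 398) (nat_lit 238)) (XT.lf (nat_lit 76) (nat_lit 512298272) (nat_lit 0) (nat_lit 1579613771) (nat_lit 76) (nat_lit 1579613771) (nat_lit 78) (nat_lit 3) (nat_lit 77) (nat_lit 1) (nat_lit 78) (nat_lit 1) (nat_lit 385) (nat_lit 398) (nat_lit 237))) (XT.nd (nat_lit 78) (nat_lit 76) (nat_lit 0) (XT.lf (nat_lit 152) (nat_lit 2958107235) (nat_lit 0) (nat_lit 338636810) (nat_lit 76) (nat_lit 338636810) (nat_lit 77) (nat_lit 1) (nat_lit 75) (nat_lit 1) (nat_lit 76) (nat_lit 1) (nat_lit 386) (nat_lit 398) (nat_lit 236)) (XT.nd (nat_lit 78) (nat_lit 76) (nat_lit 0) (XT.lf (nat_lit 0) (nat_lit 874182432) (nat_lit 0) (nat_lit 1850927309) (nat_lit 152) (nat_lit 874182432) (nat_lit 75) (nat_lit 3) (nat_lit 75) (nat_lit 1) (nat_lit 77) (nat_lit 1) (nat_lit 387) (nat_lit 398) (nat_lit 235)) (XT.lf (nat_lit 76) (nat_lit 555711364) (nat_lit 0) (nat_lit 1504007360) (nat_lit 76) (nat_lit 1504007360) (nat_lit 75) (nat_lit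 3) (nat_lit 74) (nat_lit 1) (nat_lit 75) (nat_lit 1) (nat_lit 388) (nat_lit 398) (nat_lit 234)))))) (XT.nd (nat_lit 390) (nat_lit 456) (nat_lit 0) (XT.nd (nat_lit 156) (nat_lit 228) (nat_lit 0) (XT.nd (nat_lit 78) (nat_lit 0) (nat_lit 0) (XT.lf (nat_lit 152) (nat_lit 2926934539) (nat_lit 0) (nat_lit 300874419) (nat_lit 76) (nat_lit 300874419) (nat_lit 74) (nat_lit 1) (nat_lit 72) (nat_lit 1) (nat_lit 73) (nat_lit 1) (nat_lit 389) (nat_lit 398) (nat_lit 233)) (XT.lf (nat_lit 0) (nat_lit 875278836) (nat_lit 0) (nat_lit 1743104008) (nat_lit 152) (nat_lit 875278836) (nat_lit 72) (nat_lit 3) (nat_lit 72) (nat_lit 1) (nat_lit 74) (nat_lit 1) (nat_lit 390) (nat_lit 398) (nat_lit 232))) (XT.nd (nat_lit 78) (nat_lit 152) (nat_lit 0) (XT.lf (nat_lit 76) (nat_lit 591354955) (nat_lit 0) (nat_lit 1433903666) (nat_lit 76) (nat_lit 1433903666) (nat_lit 72) (nat_lit 3) (nat_lit 71) (nat_lit 1) (nat_lit 72) (nat_lit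 1) (nat_lit 391) (nat_lit 398) (nat_lit 231)) (XT.nd (nat_lit 78) (nat_lit 0) (nat_lit 0) (XT.lf (nat_lit 152) (nat_lit 2890538160) (nat_lit 0) (nat_lit 267323025) (nat_lit 76) (nat_lit 267323025) (nat_lit 71) (nat_lit 1) (nat_lit 69) (nat_lit 1) (nat_lit 70) (nat_lit 1) (nat_lit 392) (nat_lit 398) (nat_lit 230)) (XT.lf (nat_lit 0) (nat_lit 873381741) (nat_lit 0) (nat_lit 1644433167) (nat_lit 152) (nat_lit 873381741) (nat_lit 69) (nat_lit 3) (nat_lit 69) (nat_lit 1) (nat_lit 71) (nat_lit 1) (nat_lit 393) (nat_lit 398) (nat_lit 229))))) (XT.nd (nat_lit 156) (nat_lit 228) (nat_lit 0) (XT.nd (nat_lit 78) (nat_lit 152) (nat_lit 0) (XT.lf (nat_lit 76) (nat_lit 620180739) (nat_lit 0) (nat_lit 1368774355) (nat_lit 76) (nat_lit 1368774355) (nat_lit 69) (nat_lit 3) (nat_lit 68) (nat_lit 1) (nat_lit 69) (nat_lit 1) (nat_lit 394) (nat_lit 398) (nat_lit 228)) (XT.lf (nat_lit 152) (nat_lit 2849754000) (nat_lit 0)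 (nat_lit 237513045) (nat_lit 76) (nat_lit 237513045) (nat_lit 68) (nat_lit 1) (nat_lit 66) (nat_lit 1) (nat_lit 67) (nat_lit 1) (nat_lit 395) (nat_lit 398) (nat_lit 227))) (XT.nd (nat_lit 78) (nat_lit 228) (nat_lit 0) (XT.lf (nat_lit 0) (nat_lit 868908591) (nat_lit 0) (nat_lit 1553977795) (nat_lit 152) (nat_lit 868908591) (nat_lit 66) (nat_lit 3) (nat_lit 66) (nat_lit 1) (nat_lit 68) (nat_lit 1) (nat_lit 396) (nat_lit 398) (nat_lit 226)) (XT.nd (nat_lit 78) (nat_lit 152) (nat_lit 0) (XT.lf (nat_lit 76) (nat_lit 643031797) (nat_lit 0) (nat_lit 1308147529) (nat_lit 76) (nat_lit 1308147529) (nat_lit 66) (nat_lit 3) (nat_lit 65) (nat_lit 1) (nat_lit 66) (nat_lit 1) (nat_lit 397) (nat_lit 398) (nat_lit 225)) (XT.lf (nat_lit 152) (nat_lit 2805317368) (nat_lit 0) (nat_lit 211027264) (nat_lit 76) (nat_lit 211027264) (nat_lit 65) (nat_lit 1) (nat_lit 63) (nat_lit 1) (nat_lit 64) (nat_lit 1) (nat_lit 398) (nat_lit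 398) (nat_lit 224))))))) (XT.nd (nat_lit 702) (nat_lit 684) (nat_lit 0) (XT.nd (nat_lit 312) (nat_lit 456) (nat_lit 0) (XT.nd (nat_lit 156) (nat_lit 152) (nat_lit 0) (XT.nd (nat_lit 78) (nat_lit 76) (nat_lit 0) (XT.lf (nat_lit 0) (nat_lit 862227840) (nat_lit 0) (nat_lit 1470902955) (nat_lit 152) (nat_lit 862227840) (nat_lit 63) (nat_lit 3) (nat_lit 63) (nat_lit 1) (nat_lit 65) (nat_lit 1) (nat_lit 399) (nat_lit 398) (nat_lit 223)) (XT.lf (nat_lit 76) (nat_lit 660654785) (nat_lit 0) (nat_lit 1251601499) (nat_lit 76) (nat_lit 1251601499) (nat_lit 63) (nat_lit 3) (nat_lit 62) (nat_lit 1) (nat_lit 63) (nat_lit 1) (nat_lit 400) (nat_lit 398) (nat_lit 222))) (XT.nd (nat_lit 78) (nat_lit 0) (nat_lit 0) (XT.lf (nat_lit 152) (nat_lit 2757874407) (nat_lit 0) (nat_lit 187494991) (nat_lit 76) (nat_lit 187494991) (nat_lit 62) (nat_lit 1) (nat_lit 60) (nat_lit 1) (nat_lit 61) (nat_lit 1) (nat_lit 401) (nat_lit 398)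 (nat_lit 221)) (XT.lf (nat_lit 0) (nat_lit 853664493) (nat_lit 0) (nat_lit 1394464449) (nat_lit 152) (nat_lit 853664493) (nat_lit 60) (nat_lit 3) (nat_lit 60) (nat_lit 1) (nat_lit 62) (nat_lit 1) (nat_lit 402) (nat_lit 398) (nat_lit 220)))) (XT.nd (nat_lit 156) (nat_lit 228) (nat_lit 0) (XT.nd (nat_lit 78) (nat_lit 152) (nat_lit 0) (XT.lf (nat_lit 76) (nat_lit 673710756) (nat_lit 0) (nat_lit 1198759257) (nat_lit 76) (nat_lit 1198759257) (nat_lit 60) (nat_lit 3) (nat_lit 59) (nat_lit 1) (nat_lit 60) (nat_lit 1) (nat_lit 403) (nat_lit 398) (nat_lit 219)) (XT.lf (nat_lit 152) (nat_lit 2707992254) (nat_lit 0) (nat_lit 166586871) (nat_lit 76) (nat_lit 166586871) (nat_lit 59) (nat_lit 1) (nat_lit 57) (nat_lit 1) (nat_lit 58) (nat_lit 1) (nat_lit 404) (nat_lit 398) (nat_lit 218))) (XT.nd (nat_lit 78) (nat_lit 228) (nat_lit 0) (XT.lf (nat_lit 0) (nat_lit 843505015) (nat_lit 0) (nat_lit 1323998771) (nat_lit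 152) (nat_lit 843505015) (nat_lit 57) (nat_lit 3) (nat_lit 57) (nat_lit 1) (nat_lit 59) (nat_lit 1) (nat_lit 405) (nat_lit 398) (nat_lit 217)) (XT.nd (nat_lit 78) (nat_lit 152) (nat_lit 0) (XT.lf (nat_lit 76) (nat_lit 682784772) (nat_lit 0) (nat_lit 1149283564) (nat_lit 76) (nat_lit 1149283564) (nat_lit 57) (nat_lit 3) (nat_lit 56) (nat_lit 1) (nat_lit 57) (nat_lit 1) (nat_lit 406) (nat_lit 398) (nat_lit 216)) (XT.lf (nat_lit 152) (nat_lit 2656168047) (nat_lit 0) (nat_lit 148010277) (nat_lit 76) (nat_lit 148010277) (nat_lit 56) (nat_lit 1) (nat_lit 54) (nat_lit 1) (nat_lit 55) (nat_lit 1) (nat_lit 407) (nat_lit 398) (nat_lit 215)))))) (XT.nd (nat_lit 390) (nat_lit 380) (nat_lit 0) (XT.nd (nat_lit 156) (nat_lit 228) (nat_lit 0) (XT.nd (nat_lit 78) (nat_lit 76) (nat_lit 0) (XT.lf (nat_lit 0) (nat_lit 832001697) (nat_lit 0) (nat_lit 1258914177) (nat_lit 152) (nat_lit 832001697) (nat_lit 54) (nat_lit 3)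 (nat_lit 54) (nat_lit 1) (nat_lit 56) (nat_lit 1) (nat_lit 408) (nat_lit 398) (nat_lit 214)) (XT.lf (nat_lit 76) (nat_lit 688394447) (nat_lit 0) (nat_lit 1102872582) (nat_lit 76) (nat_lit 1102872582) (nat_lit 54) (nat_lit 3) (nat_lit 53) (nat_lit 1) (nat_lit 54) (nat_lit 1) (nat_lit 409) (nat_lit 398) (nat_lit 213))) (XT.nd (nat_lit 78) (nat_lit 76) (nat_lit 0) (XT.lf (nat_lit 152) (nat_lit 2602836930) (nat_lit 0) (nat_lit 131505214) (nat_lit 76) (nat_lit 131505214) (nat_lit 53) (nat_lit 1) (nat_lit 51) (nat_lit 1) (nat_lit 52) (nat_lit 1) (nat_lit 410) (nat_lit 398) (nat_lit 212)) (XT.nd (nat_lit 78) (nat_lit 76) (nat_lit 0) (XT.lf (nat_lit 0) (nat_lit 819376535) (nat_lit 0) (nat_lit 1198682743) (nat_lit 152) (nat_lit 819376535) (nat_lit 51) (nat_lit 3) (nat_lit 51) (nat_lit 1) (nat_lit 53) (nat_lit 1) (nat_lit 411) (nat_lit 398) (nat_lit 211)) (XT.lf (nat_lit 76) (nat_lit 690997531) (nat_lit 0) (nat_lit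 1059255986) (nat_lit 76) (nat_lit 1059255986) (nat_lit 51) (nat_lit 3) (nat_lit 50) (nat_lit 1) (nat_lit 51) (nat_lit 1) (nat_lit 412) (nat_lit 398) (nat_lit 210))))) (XT.nd (nat_lit 156) (nat_lit 228) (nat_lit 0) (XT.nd (nat_lit 78) (nat_lit 0) (nat_lit 0) (XT.lf (nat_lit 152) (nat_lit 2548379155) (nat_lit 0) (nat_lit 116840679) (nat_lit 76) (nat_lit 116840679) (nat_lit 50) (nat_lit 1) (nat_lit 48) (nat_lit 1) (nat_lit 49) (nat_lit 1) (nat_lit 413) (nat_lit 398) (nat_lit 209)) (XT.lf (nat_lit 0) (nat_lit 805824665) (nat_lit 0) (nat_lit 1142833318) (nat_lit 152) (nat_lit 805824665) (nat_lit 48) (nat_lit 3) (nat_lit 48) (nat_lit 1) (nat_lit 50) (nat_lit 1) (nat_lit 414) (nat_lit 398) (nat_lit 208))) (XT.nd (nat_lit 78) (nat_lit 152) (nat_lit 0) (XT.lf (nat_lit 76) (nat_lit 690998649) (nat_lit 0) (nat_lit 1018191516) (nat_lit 76) (nat_lit 1018191516) (nat_lit 48) (nat_lit 3) (nat_lit 47) (nat_lit 1) (nat_lit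 48) (nat_lit 1) (nat_lit 415) (nat_lit 398) (nat_lit 207)) (XT.nd (nat_lit 78) (nat_lit 0) (nat_lit 0) (XT.lf (nat_lit 152) (nat_lit 2493126392) (nat_lit 0) (nat_lit 103811430) (nat_lit 76) (nat_lit 103811430) (nat_lit 47) (nat_lit 1) (nat_lit 45) (nat_lit 1) (nat_lit 46) (nat_lit 1) (nat_lit 416) (nat_lit 398) (nat_lit 206)) (XT.lf (nat_lit 0) (nat_lit 791517424) (nat_lit 0) (nat_lit 1090945248) (nat_lit 152) (nat_lit 791517424) (nat_lit 45) (nat_lit 3) (nat_lit 45) (nat_lit 1) (nat_lit 47) (nat_lit 1) (nat_lit 417) (nat_lit 398) (nat_lit 205))))))))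
noncomputable def ec296 : XT := (XT.nd (nat_lit 38454) (nat_lit 0) (nat_lit 21812) (XT.nd (nat_lit 702) (nat_lit 76) (nat_lit 0) (XT.nd (nat_lit 312) (nat_lit 380) (nat_lit 0) (XT.nd (nat_lit 156) (nat_lit 76) (nat_lit 0) (XT.nd (nat_lit 78) (nat_lit 152) (nat_lit 0) (XT.lf (nat_lit 76) (nat_lit 688755284) (nat_lit 0) (nat_lit 979461909) (nat_lit 76) (nat_lit 979461909) (nat_lit 45) (nat_lit 3) (nat_lit 44) (nat_lit 1) (nat_lit 45) (nat_lit 1) (nat_lit 418) (nat_lit 398) (nat_lit 204)) (XT.lf (nat_lit 152) (nat_lit 2437367323) (nat_lit 0) (nat_lit 92235111) (nat_lit 76) (nat_lit 92235111) (nat_lit 44) (nat_lit 1) (nat_lit 42) (nat_lit 1) (nat_lit 43) (nat_lit 1) (nat_lit 419) (nat_lit 398) (nat_lit 203))) (XT.nd (nat_lit 78) (nat_lit 76) (nat_lit 0) (XT.lf (nat_lit 0) (nat_lit 776605064) (nat_lit 0) (nat_lit 1042642807) (nat_lit 152) (nat_lit 776605064) (nat_lit 42) (nat_lit 3) (nat_lit 42) (nat_lit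 1) (nat_lit 44) (nat_lit 1) (nat_lit 420) (nat_lit 398) (nat_lit 202)) (XT.lf (nat_lit 76) (nat_lit 684583095) (nat_lit 0) (nat_lit 942872166) (nat_lit 76) (nat_lit 942872166) (nat_lit 42) (nat_lit 3) (nat_lit 41) (nat_lit 1) (nat_lit 42) (nat_lit 1) (nat_lit 421) (nat_lit 398) (nat_lit 201)))) (XT.nd (nat_lit 156) (nat_lit 228) (nat_lit 0) (XT.nd (nat_lit 78) (nat_lit 0) (nat_lit 0) (XT.lf (nat_lit 152) (nat_lit 2381352613) (nat_lit 0) (nat_lit 81949702) (nat_lit 76) (nat_lit 81949702) (nat_lit 41) (nat_lit 1) (nat_lit 39) (nat_lit 1) (nat_lit 40) (nat_lit 1) (nat_lit 422) (nat_lit 398) (nat_lit 200)) (XT.lf (nat_lit 0) (nat_lit 761219156) (nat_lit 0) (nat_lit 997590245) (nat_lit 152) (nat_lit 761219156) (nat_lit 39) (nat_lit 3) (nat_lit 39) (nat_lit 1) (nat_lit 41) (nat_lit 1) (nat_lit 423) (nat_lit 398) (nat_lit 199))) (XT.nd (nat_lit 78) (nat_lit 152) (nat_lit 0) (XT.lf (nat_lit 76) (nat_lit 678760637)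 (nat_lit 0) (nat_lit 908247131) (nat_lit 76) (nat_lit 908247131) (nat_lit 39) (nat_lit 3) (nat_lit 38) (nat_lit 1) (nat_lit 39) (nat_lit 1) (nat_lit 424) (nat_lit 398) (nat_lit 198)) (XT.nd (nat_lit 78) (nat_lit 0) (nat_lit 0) (XT.lf (nat_lit 152) (nat_lit 2325299318) (nat_lit 0) (nat_lit 72811248) (nat_lit 76) (nat_lit 72811248) (nat_lit 38) (nat_lit 1) (nat_lit 36) (nat_lit 1) (nat_lit 37) (nat_lit 1) (nat_lit 425) (nat_lit 398) (nat_lit 197)) (XT.lf (nat_lit 0) (nat_lit 745474735) (nat_lit 0) (nat_lit 955487386) (nat_lit 152) (nat_lit 745474735) (nat_lit 36) (nat_lit 3) (nat_lit 36) (nat_lit 1) (nat_lit 38) (nat_lit 1) (nat_lit 426) (nat_lit 398) (nat_lit 196)))))) (XT.nd (nat_lit 37362) (nat_lit 0) (nat_lit 25840) (XT.nd (nat_lit 37206) (nat_lit 0) (nat_lit 25764) (XT.nd (nat_lit 37128) (nat_lit 0) (nat_lit 25764) (XT.lf (nat_lit 76) (nat_lit 671533552) (nat_lit 0) (nat_lit 875429330) (nat_lit 76)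 (nat_lit 875429330) (nat_lit 36) (nat_lit 3) (nat_lit 35) (nat_lit 1) (nat_lit 36) (nat_lit 1) (nat_lit 427) (nat_lit 398) (nat_lit 195)) (XT.lf (nat_lit 1292) (nat_lit 2133344217) (nat_lit 0) (nat_lit 7339696259) (nat_lit 1292) (nat_lit 2133344217) (nat_lit 391) (nat_lit 1) (nat_lit 374) (nat_lit 0) (nat_lit 391) (nat_lit 0) (nat_lit 222) (nat_lit 399) (nat_lit 399))) (XT.nd (nat_lit 78) (nat_lit 0) (nat_lit 76) (XT.lf (nat_lit 1292) (nat_lit 8337146584) (nat_lit 76) (nat_lit 7267738453) (nat_lit 0) (nat_lit 7267738453) (nat_lit 391) (nat_lit 1) (nat_lit 375) (nat_lit 1) (nat_lit 374) (nat_lit 0) (nat_lit 223) (nat_lit 399) (nat_lit 398)) (XT.lf (nat_lit 1292) (nat_lit 4032042869) (nat_lit 0) (nat_lit 14475894763) (nat_lit 1216) (nat_lit 4032042869) (nat_lit 392) (nat_lit 1) (nat_lit 375) (nat_lit 1) (nat_lit 391) (nat_lit 1) (nat_lit 224) (nat_lit 399) (nat_lit 397)))) (XT.nd (nat_lit 156) (nat_lit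 0) (nat_lit 76) (XT.nd (nat_lit 78) (nat_lit 0) (nat_lit 76) (XT.lf (nat_lit 1292) (nat_lit 7657057584) (nat_lit 76) (nat_lit 7277917476) (nat_lit 0) (nat_lit 7277917476) (nat_lit 392) (nat_lit 1) (nat_lit 376) (nat_lit 1) (nat_lit 375) (nat_lit 1) (nat_lit 225) (nat_lit 399) (nat_lit 396)) (XT.lf (nat_lit 1292) (nat_lit 3593036083) (nat_lit 0) (nat_lit 14707051107) (nat_lit 1216) (nat_lit 3593036083) (nat_lit 393) (nat_lit 1) (nat_lit 376) (nat_lit 1) (nat_lit 392) (nat_lit 1) (nat_lit 226) (nat_lit 399) (nat_lit 395))) (XT.nd (nat_lit 78) (nat_lit 0) (nat_lit 76) (XT.lf (nat_lit 1292) (nat_lit 6584617997) (nat_lit 76) (nat_lit 7496925034) (nat_lit 0) (nat_lit 7496925034) (nat_lit 393) (nat_lit 1) (nat_lit 377) (nat_lit 1) (nat_lit 376) (nat_lit 1) (nat_lit 227) (nat_lit 399) (nat_lit 394)) (XT.nd (nat_lit 78) (nat_lit 0) (nat_lit 0) (XT.lf (nat_lit 1292) (nat_lit 2967743836) (nat_lit 0) (nat_lit 15335591039)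 (nat_lit 1216) (nat_lit 2967743836) (nat_lit 394) (nat_lit 1) (nat_lit 377) (nat_lit 1) (nat_lit 393) (nat_lit 1) (nat_lit 228) (nat_lit 399) (nat_lit 393)) (XT.lf (nat_lit 1292) (nat_lit 5154915123) (nat_lit 76) (nat_lit 7906674112) (nat_lit 0) (nat_lit 7906674112) (nat_lit 394) (nat_lit 1) (nat_lit 378) (nat_lit 1) (nat_lit 377) (nat_lit 1) (nat_lit 229) (nat_lit 399) (nat_lit 392))))))) (XT.nd (nat_lit 702) (nat_lit 3116) (nat_lit 0) (XT.nd (nat_lit 312) (nat_lit 1140) (nat_lit 0) (XT.nd (nat_lit 156) (nat_lit 0) (nat_lit 76) (XT.nd (nat_lit 78) (nat_lit 0) (nat_lit 0) (XT.lf (nat_lit 1292) (nat_lit 2173019467) (nat_lit 0) (nat_lit 16326742352) (nat_lit 1216) (nat_lit 2173019467) (nat_lit 395) (nat_lit 1) (nat_lit 378) (nat_lit 1) (nat_lit 394) (nat_lit 1) (nat_lit 230) (nat_lit 399) (nat_lit 391)) (XT.lf (nat_lit 1292) (nat_lit 3400656144) (nat_lit 76) (nat_lit 8490293616) (nat_lit 0) (nat_lit 8490293616)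 (nat_lit 395) (nat_lit 1) (nat_lit 379) (nat_lit 1) (nat_lit 378) (nat_lit 1) (nat_lit 231) (nat_lit 399) (nat_lit 390))) (XT.nd (nat_lit 78) (nat_lit 0) (nat_lit 0) (XT.lf (nat_lit 1292) (nat_lit 1224569456) (nat_lit 0) (nat_lit 17648077276) (nat_lit 1216) (nat_lit 1224569456) (nat_lit 396) (nat_lit 1) (nat_lit 379) (nat_lit 1) (nat_lit 395) (nat_lit 1) (nat_lit 232) (nat_lit 399) (nat_lit 389)) (XT.lf (nat_lit 1292) (nat_lit 1352315409) (nat_lit 76) (nat_lit 9232053399) (nat_lit 0) (nat_lit 9232053399) (nat_lit 396) (nat_lit 1) (nat_lit 380) (nat_lit 1) (nat_lit 379) (nat_lit 1) (nat_lit 233) (nat_lit 399) (nat_lit 388)))) (XT.nd (nat_lit 156) (nat_lit 0) (nat_lit 0) (XT.nd (nat_lit 78) (nat_lit 1292) (nat_lit 0) (XT.lf (nat_lit 1292) (nat_lit 137024480) (nat_lit 0) (nat_lit 19269367754) (nat_lit 1216) (nat_lit 137024480) (nat_lit 397) (nat_lit 1) (nat_lit 380) (nat_lit 1) (nat_lit 396) (nat_lit 1)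 (nat_lit 234) (nat_lit 399) (nat_lit 387)) (XT.lf (nat_lit 1368) (nat_lit 9164811412) (nat_lit 0) (nat_lit 942960281) (nat_lit 1292) (nat_lit 9164811412) (nat_lit 381) (nat_lit 1) (nat_lit 363) (nat_lit 1) (nat_lit 380) (nat_lit 1) (nat_lit 235) (nat_lit 399) (nat_lit 386))) (XT.nd (nat_lit 78) (nat_lit 0) (nat_lit 76) (XT.lf (nat_lit 1368) (nat_lit 16878324764) (nat_lit 76) (nat_lit 1065444798) (nat_lit 0) (nat_lit 1065444798) (nat_lit 381) (nat_lit 1) (nat_lit 364) (nat_lit 1) (nat_lit 363) (nat_lit 1) (nat_lit 236) (nat_lit 399) (nat_lit 385)) (XT.nd (nat_lit 78) (nat_lit 0) (nat_lit 0) (XT.lf (nat_lit 1368) (nat_lit 7651092697) (nat_lit 0) (nat_lit 3446463813) (nat_lit 1292) (nat_lit 7651092697) (nat_lit 382) (nat_lit 1) (nat_lit 364) (nat_lit 1) (nat_lit 381) (nat_lit 1) (nat_lit 237) (nat_lit 399) (nat_lit 384)) (XT.lf (nat_lit 1368) (nat_lit 13738164135) (nat_lit 76) (nat_lit 2378262526) (nat_lit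 0) (nat_lit 2378262526) (nat_lit 382) (nat_lit 1) (nat_lit 365) (nat_lit 1) (nat_lit 364) (nat_lit 1) (nat_lit 238) (nat_lit 399) (nat_lit 383)))))) (XT.nd (nat_lit 390) (nat_lit 1824) (nat_lit 0) (XT.nd (nat_lit 156) (nat_lit 608) (nat_lit 0) (XT.nd (nat_lit 78) (nat_lit 836) (nat_lit 0) (XT.lf (nat_lit 76) (nat_lit 6041837733) (nat_lit 0) (nat_lit 6160488808) (nat_lit 1292) (nat_lit 6041837733) (nat_lit 366) (nat_lit 1) (nat_lit 365) (nat_lit 1) (nat_lit 382) (nat_lit 1) (nat_lit 239) (nat_lit 399) (nat_lit 382)) (XT.lf (nat_lit 912) (nat_lit 10416978839) (nat_lit 0) (nat_lit 3791099114) (nat_lit 836) (nat_lit 3791099114) (nat_lit 366) (nat_lit 1) (nat_lit 354) (nat_lit 1) (nat_lit 365) (nat_lit 1) (nat_lit 240) (nat_lit 399) (nat_lit 381))) (XT.nd (nat_lit 78) (nat_lit 608) (nat_lit 0) (XT.lf (nat_lit 76) (nat_lit 4347844184) (nat_lit 0) (nat_lit 9062633011) (nat_lit 912) (nat_lit 4347844184) (nat_lit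 355) (nat_lit 1) (nat_lit 354) (nat_lit 1) (nat_lit 366) (nat_lit 1) (nat_lit 241) (nat_lit 399) (nat_lit 380)) (XT.nd (nat_lit 78) (nat_lit 0) (nat_lit 0) (XT.lf (nat_lit 684) (nat_lit 6935683230) (nat_lit 0) (nat_lit 5293104915) (nat_lit 608) (nat_lit 5293104915) (nat_lit 355) (nat_lit 1) (nat_lit 346) (nat_lit 1) (nat_lit 354) (nat_lit 1) (nat_lit 242) (nat_lit 399) (nat_lit 379)) (XT.lf (nat_lit 76) (nat_lit 2579135122) (nat_lit 0) (nat_lit 12132080658) (nat_lit 684) (nat_lit 2579135122) (nat_lit 347) (nat_lit 1) (nat_lit 346) (nat_lit 1) (nat_lit 355) (nat_lit 1) (nat_lit 243) (nat_lit 399) (nat_lit 378))))) (XT.nd (nat_lit 156) (nat_lit 1216) (nat_lit 0) (XT.nd (nat_lit 78) (nat_lit 0) (nat_lit 0) (XT.lf (nat_lit 684) (nat_lit 3313684603) (nat_lit 0) (nat_lit 6874201879) (nat_lit 608) (nat_lit 6874201879) (nat_lit 347) (nat_lit 1) (nat_lit 338) (nat_lit 1) (nat_lit 346) (nat_lit 1) (nat_lit 244)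 (nat_lit 399) (nat_lit 377)) (XT.lf (nat_lit 76) (nat_lit 745007999) (nat_lit 0) (nat_lit 15349502651) (nat_lit 684) (nat_lit 745007999) (nat_lit 339) (nat_lit 1) (nat_lit 338) (nat_lit 1) (nat_lit 347) (nat_lit 1) (nat_lit 245) (nat_lit 399) (nat_lit 376))) (XT.nd (nat_lit 78) (nat_lit 608) (nat_lit 0) (XT.lf (nat_lit 76) (nat_lit 8098156800) (nat_lit 0) (nat_lit 422610585) (nat_lit 608) (nat_lit 8098156800) (nat_lit 331) (nat_lit 1) (nat_lit 330) (nat_lit 1) (nat_lit 338) (nat_lit 1) (nat_lit 246) (nat_lit 399) (nat_lit 375)) (XT.nd (nat_lit 78) (nat_lit 0) (nat_lit 0) (XT.lf (nat_lit 684) (nat_lit 14134425929) (nat_lit 0) (nat_lit 1134684819) (nat_lit 608) (nat_lit 1134684819) (nat_lit 331) (nat_lit 1) (nat_lit 322) (nat_lit 1) (nat_lit 330) (nat_lit 1) (nat_lit 247) (nat_lit 399) (nat_lit 374)) (XT.lf (nat_lit 76) (nat_lit 5996324213) (nat_lit 0) (nat_lit 4198208342) (nat_lit 684) (nat_lit 5996324213)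 (nat_lit 323) (nat_lit 1) (nat_lit 322) (nat_lit 1) (nat_lit 331) (nat_lit 1) (nat_lit 248) (nat_lit 399) (nat_lit 373))))))))
noncomputable def ec297 : XT := (XT.nd (nat_lit 1482) (nat_lit 3876) (nat_lit 0) (XT.nd (nat_lit 702) (nat_lit 2584) (nat_lit 0) (XT.nd (nat_lit 312) (nat_lit 1520) (nat_lit 0) (XT.nd (nat_lit 156) (nat_lit 532) (nat_lit 0) (XT.nd (nat_lit 78) (nat_lit 0) (nat_lit 0) (XT.lf (nat_lit 608) (nat_lit 9872093888) (nat_lit 0) (nat_lit 3055413690) (nat_lit 532) (nat_lit 3055413690) (nat_lit 323) (nat_lit 1) (nat_lit 315) (nat_lit 1) (nat_lit 322) (nat_lit 1) (nat_lit 249) (nat_lit 399) (nat_lit 372)) (XT.lf (nat_lit 76) (nat_lit 3857779784) (nat_lit 0) (nat_lit 8062635673) (nat_lit 608) (nat_lit 3857779784) (nat_lit 316) (nat_lit 1) (nat_lit 315) (nat_lit 1) (nat_lit 323) (nat_lit 1) (nat_lit 250) (nat_lit 399) (nat_lit 371))) (XT.nd (nat_lit 78) (nat_lit 0) (nat_lit 0) (XT.lf (nat_lit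 608) (nat_lit 5542791482) (nat_lit 0) (nat_lit 5017169167) (nat_lit 532) (nat_lit 5017169167) (nat_lit 316) (nat_lit 1) (nat_lit 308) (nat_lit 1) (nat_lit 315) (nat_lit 1) (nat_lit 251) (nat_lit 399) (nat_lit 370)) (XT.lf (nat_lit 76) (nat_lit 1689214389) (nat_lit 0) (nat_lit 12001893464) (nat_lit 608) (nat_lit 1689214389) (nat_lit 309) (nat_lit 1) (nat_lit 308) (nat_lit 1) (nat_lit 316) (nat_lit 1) (nat_lit 252) (nat_lit 399) (nat_lit 369)))) (XT.nd (nat_lit 156) (nat_lit 456) (nat_lit 0) (XT.nd (nat_lit 78) (nat_lit 608) (nat_lit 0) (XT.lf (nat_lit 532) (nat_lit 1159440144) (nat_lit 0) (nat_lit 7013189816) (nat_lit 456) (nat_lit 7013189816) (nat_lit 309) (nat_lit 1) (nat_lit 302) (nat_lit 1) (nat_lit 308) (nat_lit 1) (nat_lit 253) (nat_lit 399) (nat_lit 368)) (XT.lf (nat_lit 608) (nat_lit 13999533978) (nat_lit 0) (nat_lit 498265358) (nat_lit 532) (nat_lit 498265358) (nat_lit 302) (nat_lit 1) (nat_lit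 294) (nat_lit 1) (nat_lit 301) (nat_lit 1) (nat_lit 254) (nat_lit 399) (nat_lit 367))) (XT.nd (nat_lit 78) (nat_lit 456) (nat_lit 0) (XT.lf (nat_lit 76) (nat_lit 5802581080) (nat_lit 0) (nat_lit 3202312520) (nat_lit 608) (nat_lit 5802581080) (nat_lit 295) (nat_lit 1) (nat_lit 294) (nat_lit 1) (nat_lit 302) (nat_lit 1) (nat_lit 255) (nat_lit 399) (nat_lit 366)) (XT.nd (nat_lit 78) (nat_lit 0) (nat_lit 0) (XT.lf (nat_lit 532) (nat_lit 9249134106) (nat_lit 0) (nat_lit 2687164523) (nat_lit 456) (nat_lit 2687164523) (nat_lit 295) (nat_lit 1) (nat_lit 288) (nat_lit 1) (nat_lit 294) (nat_lit 1) (nat_lit 256) (nat_lit 399) (nat_lit 365)) (XT.lf (nat_lit 76) (nat_lit 3435076321) (nat_lit 0) (nat_lit 7571991292) (nat_lit 532) (nat_lit 3435076321) (nat_lit 289) (nat_lit 1) (nat_lit 288) (nat_lit 1) (nat_lit 295) (nat_lit 1) (nat_lit 257) (nat_lit 399) (nat_lit 364)))))) (XT.nd (nat_lit 390) (nat_lit 1216) (nat_lit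 0) (XT.nd (nat_lit 156) (nat_lit 912) (nat_lit 0) (XT.nd (nat_lit 78) (nat_lit 0) (nat_lit 0) (XT.lf (nat_lit 532) (nat_lit 4486226694) (nat_lit 0) (nat_lit 4888858488) (nat_lit 456) (nat_lit 4888858488) (nat_lit 289) (nat_lit 1) (nat_lit 282) (nat_lit 1) (nat_lit 288) (nat_lit 1) (nat_lit 258) (nat_lit 399) (nat_lit 363)) (XT.lf (nat_lit 76) (nat_lit 1063658697) (nat_lit 0) (nat_lit 11962322578) (nat_lit 532) (nat_lit 1063658697) (nat_lit 283) (nat_lit 1) (nat_lit 282) (nat_lit 1) (nat_lit 289) (nat_lit 1) (nat_lit 259) (nat_lit 399) (nat_lit 362))) (XT.nd (nat_lit 78) (nat_lit 456) (nat_lit 0) (XT.lf (nat_lit 76) (nat_lit 6821109976) (nat_lit 0) (nat_lit 274696481) (nat_lit 456) (nat_lit 6821109976) (nat_lit 277) (nat_lit 1) (nat_lit 276) (nat_lit 1) (nat_lit 282) (nat_lit 1) (nat_lit 260) (nat_lit 399) (nat_lit 361)) (XT.nd (nat_lit 78) (nat_lit 0) (nat_lit 0) (XT.lf (nat_lit 532) (nat_lit 11158833159)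 (nat_lit 0) (nat_lit 1294557428) (nat_lit 456) (nat_lit 1294557428) (nat_lit 277) (nat_lit 1) (nat_lit 270) (nat_lit 1) (nat_lit 276) (nat_lit 1) (nat_lit 261) (nat_lit 399) (nat_lit 360)) (XT.lf (nat_lit 76) (nat_lit 4318647261) (nat_lit 0) (nat_lit 4943388518) (nat_lit 532) (nat_lit 4318647261) (nat_lit 271) (nat_lit 1) (nat_lit 270) (nat_lit 1) (nat_lit 277) (nat_lit 1) (nat_lit 262) (nat_lit 399) (nat_lit 359))))) (XT.nd (nat_lit 156) (nat_lit 836) (nat_lit 0) (XT.nd (nat_lit 78) (nat_lit 0) (nat_lit 0) (XT.lf (nat_lit 456) (nat_lit 6140734167) (nat_lit 0) (nat_lit 3638072053) (nat_lit 380) (nat_lit 3638072053) (nat_lit 271) (nat_lit 1) (nat_lit 265) (nat_lit 1) (nat_lit 270) (nat_lit 1) (nat_lit 263) (nat_lit 399) (nat_lit 358)) (XT.lf (nat_lit 76) (nat_lit 1828044906) (nat_lit 0) (nat_lit 9599983850) (nat_lit 456) (nat_lit 1828044906) (nat_lit 266) (nat_lit 1) (nat_lit 265) (nat_lit 1) (nat_lit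 271) (nat_lit 1) (nat_lit 264) (nat_lit 399) (nat_lit 357))) (XT.nd (nat_lit 78) (nat_lit 456) (nat_lit 0) (XT.lf (nat_lit 456) (nat_lit 1149696251) (nat_lit 0) (nat_lit 5973757571) (nat_lit 380) (nat_lit 5973757571) (nat_lit 266) (nat_lit 1) (nat_lit 260) (nat_lit 1) (nat_lit 265) (nat_lit 1) (nat_lit 265) (nat_lit 399) (nat_lit 356)) (XT.nd (nat_lit 78) (nat_lit 0) (nat_lit 0) (XT.lf (nat_lit 456) (nat_lit 11659512083) (nat_lit 0) (nat_lit 641190918) (nat_lit 380) (nat_lit 641190918) (nat_lit 260) (nat_lit 1) (nat_lit 254) (nat_lit 1) (nat_lit 259) (nat_lit 1) (nat_lit 266) (nat_lit 399) (nat_lit 355)) (XT.lf (nat_lit 76) (nat_lit 4526748113) (nat_lit 0) (nat_lit 3733919785) (nat_lit 456) (nat_lit 4526748113) (nat_lit 255) (nat_lit 1) (nat_lit 254) (nat_lit 1) (nat_lit 260) (nat_lit 1) (nat_lit 267) (nat_lit 399) (nat_lit 354))))))) (XT.nd (nat_lit 702) (nat_lit 1748) (nat_lit 0) (XT.nd (nat_lit 312)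 (nat_lit 988) (nat_lit 0) (XT.nd (nat_lit 156) (nat_lit 760) (nat_lit 0) (XT.nd (nat_lit 78) (nat_lit 0) (nat_lit 0) (XT.lf (nat_lit 456) (nat_lit 6486776689) (nat_lit 0) (nat_lit 3074797273) (nat_lit 380) (nat_lit 3074797273) (nat_lit 255) (nat_lit 1) (nat_lit 249) (nat_lit 1) (nat_lit 254) (nat_lit 1) (nat_lit 268) (nat_lit 399) (nat_lit 353)) (XT.lf (nat_lit 76) (nat_lit 1965295230) (nat_lit 0) (nat_lit 8557264716) (nat_lit 456) (nat_lit 1965295230) (nat_lit 250) (nat_lit 1) (nat_lit 249) (nat_lit 1) (nat_lit 255) (nat_lit 1) (nat_lit 269) (nat_lit 399) (nat_lit 352))) (XT.nd (nat_lit 78) (nat_lit 456) (nat_lit 0) (XT.lf (nat_lit 380) (nat_lit 1364961507) (nat_lit 0) (nat_lit 5488129893) (nat_lit 304) (nat_lit 5488129893) (nat_lit 250) (nat_lit 1) (nat_lit 245) (nat_lit 1) (nat_lit 249) (nat_lit 1) (nat_lit 270) (nat_lit 399) (nat_lit 351)) (XT.lf (nat_lit 456) (nat_lit 11069520432) (nat_lit 0) (nat_lit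 564141867) (nat_lit 380) (nat_lit 564141867) (nat_lit 245) (nat_lit 1) (nat_lit 239) (nat_lit 1) (nat_lit 244) (nat_lit 1) (nat_lit 271) (nat_lit 399) (nat_lit 350)))) (XT.nd (nat_lit 156) (nat_lit 684) (nat_lit 0) (XT.nd (nat_lit 78) (nat_lit 304) (nat_lit 0) (XT.lf (nat_lit 76) (nat_lit 4212766105) (nat_lit 0) (nat_lit 3629457655) (nat_lit 456) (nat_lit 4212766105) (nat_lit 240) (nat_lit 1) (nat_lit 239) (nat_lit 1) (nat_lit 245) (nat_lit 1) (nat_lit 272) (nat_lit 399) (nat_lit 349)) (XT.lf (nat_lit 380) (nat_lit 5822970438) (nat_lit 0) (nat_lit 3046164186) (nat_lit 304) (nat_lit 3046164186) (nat_lit 240) (nat_lit 1) (nat_lit 235) (nat_lit 1) (nat_lit 239) (nat_lit 1) (nat_lit 273) (nat_lit 399) (nat_lit 348))) (XT.nd (nat_lit 78) (nat_lit 684) (nat_lit 0) (XT.lf (nat_lit 76) (nat_lit 1619279131) (nat_lit 0) (nat_lit 8539438945) (nat_lit 380) (nat_lit 1619279131) (nat_lit 236) (nat_lit 1) (nat_lit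 235) (nat_lit 1) (nat_lit 240) (nat_lit 1) (nat_lit 274) (nat_lit 399) (nat_lit 347)) (XT.nd (nat_lit 78) (nat_lit 380) (nat_lit 0) (XT.lf (nat_lit 380) (nat_lit 645700238) (nat_lit 0) (nat_lit 5498277998) (nat_lit 304) (nat_lit 5498277998) (nat_lit 236) (nat_lit 1) (nat_lit 231) (nat_lit 1) (nat_lit 235) (nat_lit 1) (nat_lit 275) (nat_lit 399) (nat_lit 346)) (XT.lf (nat_lit 380) (nat_lit 9649575386) (nat_lit 0) (nat_lit 929809327) (nat_lit 304) (nat_lit 929809327) (nat_lit 231) (nat_lit 1) (nat_lit 226) (nat_lit 1) (nat_lit 230) (nat_lit 1) (nat_lit 276) (nat_lit 399) (nat_lit 345)))))) (XT.nd (nat_lit 390) (nat_lit 836) (nat_lit 0) (XT.nd (nat_lit 156) (nat_lit 608) (nat_lit 0) (XT.nd (nat_lit 78) (nat_lit 304) (nat_lit 0) (XT.lf (nat_lit 76) (nat_lit 3502276082) (nat_lit 0) (nat_lit 4372491767) (nat_lit 380) (nat_lit 3502276082) (nat_lit 227) (nat_lit 1) (nat_lit 226) (nat_lit 1) (nat_lit 231) (nat_lit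 1) (nat_lit 277) (nat_lit 399) (nat_lit 344)) (XT.lf (nat_lit 380) (nat_lit 4393700890) (nat_lit 0) (nat_lit 3426896699) (nat_lit 304) (nat_lit 3426896699) (nat_lit 227) (nat_lit 1) (nat_lit 222) (nat_lit 1) (nat_lit 226) (nat_lit 1) (nat_lit 278) (nat_lit 399) (nat_lit 343))) (XT.nd (nat_lit 78) (nat_lit 608) (nat_lit 0) (XT.lf (nat_lit 76) (nat_lit 907695918) (nat_lit 0) (nat_lit 9305059048) (nat_lit 380) (nat_lit 907695918) (nat_lit 223) (nat_lit 1) (nat_lit 222) (nat_lit 1) (nat_lit 227) (nat_lit 1) (nat_lit 279) (nat_lit 399) (nat_lit 342)) (XT.nd (nat_lit 78) (nat_lit 304) (nat_lit 0) (XT.lf (nat_lit 76) (nat_lit 5115190576) (nat_lit 0) (nat_lit 763844893) (nat_lit 304) (nat_lit 5115190576) (nat_lit 219) (nat_lit 1) (nat_lit 218) (nat_lit 1) (nat_lit 222) (nat_lit 1) (nat_lit 280) (nat_lit 399) (nat_lit 341)) (XT.lf (nat_lit 380) (nat_lit 7612488654) (nat_lit 0) (nat_lit 1628974605) (nat_lit 304)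 (nat_lit 1628974605) (nat_lit 219) (nat_lit 1) (nat_lit 214) (nat_lit 1) (nat_lit 218) (nat_lit 1) (nat_lit 281) (nat_lit 399) (nat_lit 340))))) (XT.nd (nat_lit 156) (nat_lit 608) (nat_lit 0) (XT.nd (nat_lit 78) (nat_lit 228) (nat_lit 0) (XT.lf (nat_lit 76) (nat_lit 2497737139) (nat_lit 0) (nat_lit 5752585610) (nat_lit 380) (nat_lit 2497737139) (nat_lit 215) (nat_lit 1) (nat_lit 214) (nat_lit 1) (nat_lit 219) (nat_lit 1) (nat_lit 282) (nat_lit 399) (nat_lit 339)) (XT.lf (nat_lit 304) (nat_lit 2398285723) (nat_lit 0) (nat_lit 4114658969) (nat_lit 228) (nat_lit 4114658969) (nat_lit 215) (nat_lit 1) (nat_lit 211) (nat_lit 1) (nat_lit 214) (nat_lit 1) (nat_lit 283) (nat_lit 399) (nat_lit 338))) (XT.nd (nat_lit 78) (nat_lit 228) (nat_lit 0) (XT.lf (nat_lit 380) (nat_lit 10364318272) (nat_lit 0) (nat_lit 72780385) (nat_lit 304) (nat_lit 72780385) (nat_lit 211) (nat_lit 1) (nat_lit 206) (nat_lit 1) (nat_lit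 210) (nat_lit 1) (nat_lit 284) (nat_lit 399) (nat_lit 337)) (XT.nd (nat_lit 78) (nat_lit 228) (nat_lit 0) (XT.lf (nat_lit 76) (nat_lit 3861208137) (nat_lit 0) (nat_lit 2669506706) (nat_lit 380) (nat_lit 3861208137) (nat_lit 207) (nat_lit 1) (nat_lit 206) (nat_lit 1) (nat_lit 211) (nat_lit 1) (nat_lit 285) (nat_lit 399) (nat_lit 336)) (XT.lf (nat_lit 304) (nat_lit 5131291246) (nat_lit 0) (nat_lit 2572674503) (nat_lit 228) (nat_lit 2572674503) (nat_lit 207) (nat_lit 1) (nat_lit 203) (nat_lit 1) (nat_lit 206) (nat_lit 1) (nat_lit 286) (nat_lit 399) (nat_lit 335))))))))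
noncomputable def ec298 : XT := (XT.nd (nat_lit 1482) (nat_lit 2052) (nat_lit 0) (XT.nd (nat_lit 702) (nat_lit 1444) (nat_lit 0) (XT.nd (nat_lit 312) (nat_lit 760) (nat_lit 0) (XT.nd (nat_lit 156) (nat_lit 228) (nat_lit 0) (XT.nd (nat_lit 78) (nat_lit 304) (nat_lit 0) (XT.lf (nat_lit 76) (nat_lit 1282415507) (nat_lit 0) (nat_lit 7598404506) (nat_lit 304) (nat_lit 1282415507) (nat_lit 204) (nat_lit 1) (nat_lit 203) (nat_lit 1) (nat_lit 207) (nat_lit 1) (nat_lit 287) (nat_lit 399) (nat_lit 334)) (XT.lf (nat_lit 76) (nat_lit 5024809187) (nat_lit 0) (nat_lit 1345335) (nat_lit 304) (nat_lit 5024809187) (nat_lit 200) (nat_lit 1) (nat_lit 199) (nat_lit 1) (nat_lit 203) (nat_lit 1) (nat_lit 288) (nat_lit 399) (nat_lit 333))) (XT.nd (nat_lit 78) (nat_lit 0) (nat_lit 0) (XT.lf (nat_lit 304) (nat_lit 7472139640) (nat_lit 0) (nat_lit 1234189239) (nat_lit 228) (nat_lit 1234189239) (nat_lit 200) (nat_lit 1) (nat_lit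 196) (nat_lit 1) (nat_lit 199) (nat_lit 1) (nat_lit 289) (nat_lit 399) (nat_lit 332)) (XT.lf (nat_lit 76) (nat_lit 2447875761) (nat_lit 0) (nat_lit 4935383065) (nat_lit 304) (nat_lit 2447875761) (nat_lit 197) (nat_lit 1) (nat_lit 196) (nat_lit 1) (nat_lit 200) (nat_lit 1) (nat_lit 290) (nat_lit 399) (nat_lit 331)))) (XT.nd (nat_lit 156) (nat_lit 228) (nat_lit 0) (XT.nd (nat_lit 78) (nat_lit 304) (nat_lit 0) (XT.lf (nat_lit 304) (nat_lit 2346017725) (nat_lit 0) (nat_lit 3688754976) (nat_lit 228) (nat_lit 3688754976) (nat_lit 197) (nat_lit 1) (nat_lit 193) (nat_lit 1) (nat_lit 196) (nat_lit 1) (nat_lit 291) (nat_lit 399) (nat_lit 330)) (XT.lf (nat_lit 304) (nat_lit 9467106892) (nat_lit 0) (nat_lit 75591508) (nat_lit 228) (nat_lit 75591508) (nat_lit 193) (nat_lit 1) (nat_lit 189) (nat_lit 1) (nat_lit 192) (nat_lit 1) (nat_lit 292) (nat_lit 399) (nat_lit 329))) (XT.nd (nat_lit 78) (nat_lit 228) (nat_lit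 0) (XT.lf (nat_lit 76) (nat_lit 3445261435) (nat_lit 0) (nat_lit 2622207499) (nat_lit 304) (nat_lit 3445261435) (nat_lit 190) (nat_lit 1) (nat_lit 189) (nat_lit 1) (nat_lit 193) (nat_lit 1) (nat_lit 293) (nat_lit 399) (nat_lit 328)) (XT.nd (nat_lit 78) (nat_lit 0) (nat_lit 0) (XT.lf (nat_lit 304) (nat_lit 4363277070) (nat_lit 0) (nat_lit 2523109769) (nat_lit 228) (nat_lit 2523109769) (nat_lit 190) (nat_lit 1) (nat_lit 186) (nat_lit 1) (nat_lit 189) (nat_lit 1) (nat_lit 294) (nat_lit 399) (nat_lit 327)) (XT.lf (nat_lit 76) (nat_lit 933219803) (nat_lit 0) (nat_lit 7441571773) (nat_lit 304) (nat_lit 933219803) (nat_lit 187) (nat_lit 1) (nat_lit 186) (nat_lit 1) (nat_lit 190) (nat_lit 1) (nat_lit 295) (nat_lit 399) (nat_lit 326)))))) (XT.nd (nat_lit 390) (nat_lit 532) (nat_lit 0) (XT.nd (nat_lit 156) (nat_lit 456) (nat_lit 0) (XT.nd (nat_lit 78) (nat_lit 228) (nat_lit 0) (XT.lf (nat_lit 76) (nat_lit 4294425043)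 (nat_lit 0) (nat_lit 618325137) (nat_lit 228) (nat_lit 4294425043) (nat_lit 184) (nat_lit 1) (nat_lit 183) (nat_lit 1) (nat_lit 186) (nat_lit 1) (nat_lit 296) (nat_lit 399) (nat_lit 325)) (XT.lf (nat_lit 304) (nat_lit 6089210995) (nat_lit 0) (nat_lit 1509419039) (nat_lit 228) (nat_lit 1509419039) (nat_lit 184) (nat_lit 1) (nat_lit 180) (nat_lit 1) (nat_lit 183) (nat_lit 1) (nat_lit 297) (nat_lit 399) (nat_lit 324))) (XT.nd (nat_lit 78) (nat_lit 456) (nat_lit 0) (XT.lf (nat_lit 76) (nat_lit 1801043854) (nat_lit 0) (nat_lit 5407966387) (nat_lit 304) (nat_lit 1801043854) (nat_lit 181) (nat_lit 1) (nat_lit 180) (nat_lit 1) (nat_lit 184) (nat_lit 1) (nat_lit 298) (nat_lit 399) (nat_lit 323)) (XT.nd (nat_lit 78) (nat_lit 304) (nat_lit 0) (XT.lf (nat_lit 228) (nat_lit 1134385629) (nat_lit 0) (nat_lit 3889491731) (nat_lit 152) (nat_lit 3889491731) (nat_lit 181) (nat_lit 1) (nat_lit 178) (nat_lit 1) (nat_lit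 180) (nat_lit 1) (nat_lit 299) (nat_lit 399) (nat_lit 322)) (XT.lf (nat_lit 304) (nat_lit 7558239307) (nat_lit 0) (nat_lit 630097992) (nat_lit 228) (nat_lit 630097992) (nat_lit 178) (nat_lit 1) (nat_lit 174) (nat_lit 1) (nat_lit 177) (nat_lit 1) (nat_lit 300) (nat_lit 399) (nat_lit 321))))) (XT.nd (nat_lit 156) (nat_lit 380) (nat_lit 0) (XT.nd (nat_lit 78) (nat_lit 152) (nat_lit 0) (XT.lf (nat_lit 76) (nat_lit 2543786804) (nat_lit 0) (nat_lit 3636195712) (nat_lit 304) (nat_lit 2543786804) (nat_lit 175) (nat_lit 1) (nat_lit 174) (nat_lit 1) (nat_lit 178) (nat_lit 1) (nat_lit 301) (nat_lit 399) (nat_lit 320)) (XT.lf (nat_lit 228) (nat_lit 2653220068) (nat_lit 0) (nat_lit 2988801110) (nat_lit 152) (nat_lit 2988801110) (nat_lit 175) (nat_lit 1) (nat_lit 172) (nat_lit 1) (nat_lit 174) (nat_lit 1) (nat_lit 302) (nat_lit 399) (nat_lit 319))) (XT.nd (nat_lit 78) (nat_lit 380) (nat_lit 0) (XT.lf (nat_lit 76)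 (nat_lit 131750261) (nat_lit 0) (nat_lit 8276316798) (nat_lit 228) (nat_lit 131750261) (nat_lit 173) (nat_lit 1) (nat_lit 172) (nat_lit 1) (nat_lit 175) (nat_lit 1) (nat_lit 303) (nat_lit 399) (nat_lit 318)) (XT.nd (nat_lit 78) (nat_lit 152) (nat_lit 0) (XT.lf (nat_lit 76) (nat_lit 3176221304) (nat_lit 0) (nat_lit 2096040582) (nat_lit 228) (nat_lit 3176221304) (nat_lit 170) (nat_lit 1) (nat_lit 169) (nat_lit 1) (nat_lit 172) (nat_lit 1) (nat_lit 304) (nat_lit 399) (nat_lit 317)) (XT.lf (nat_lit 228) (nat_lit 3954762470) (nat_lit 0) (nat_lit 2202149992) (nat_lit 152) (nat_lit 2202149992) (nat_lit 170) (nat_lit 1) (nat_lit 167) (nat_lit 1) (nat_lit 169) (nat_lit 1) (nat_lit 305) (nat_lit 399) (nat_lit 316))))))) (XT.nd (nat_lit 702) (nat_lit 912) (nat_lit 0) (XT.nd (nat_lit 312) (nat_lit 760) (nat_lit 0) (XT.nd (nat_lit 156) (nat_lit 152) (nat_lit 0) (XT.nd (nat_lit 78) (nat_lit 228) (nat_lit 0) (XT.lf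 (nat_lit 76) (nat_lit 793880806) (nat_lit 0) (nat_lit 6683344127) (nat_lit 228) (nat_lit 793880806) (nat_lit 168) (nat_lit 1) (nat_lit 167) (nat_lit 1) (nat_lit 170) (nat_lit 1) (nat_lit 306) (nat_lit 399) (nat_lit 315)) (XT.lf (nat_lit 76) (nat_lit 3711448651) (nat_lit 0) (nat_lit 760681402) (nat_lit 228) (nat_lit 3711448651) (nat_lit 165) (nat_lit 1) (nat_lit 164) (nat_lit 1) (nat_lit 167) (nat_lit 1) (nat_lit 307) (nat_lit 399) (nat_lit 314))) (XT.nd (nat_lit 78) (nat_lit 0) (nat_lit 0) (XT.lf (nat_lit 228) (nat_lit 5064639509) (nat_lit 0) (nat_lit 1516425354) (nat_lit 152) (nat_lit 1516425354) (nat_lit 165) (nat_lit 1) (nat_lit 162) (nat_lit 1) (nat_lit 164) (nat_lit 1) (nat_lit 308) (nat_lit 399) (nat_lit 313)) (XT.lf (nat_lit 76) (nat_lit 1362461945) (nat_lit 0) (nat_lit 5287524740) (nat_lit 228) (nat_lit 1362461945) (nat_lit 163) (nat_lit 1) (nat_lit 162) (nat_lit 1) (nat_lit 165) (nat_lit 1)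 (nat_lit 309) (nat_lit 399) (nat_lit 312)))) (XT.nd (nat_lit 156) (nat_lit 380) (nat_lit 0) (XT.nd (nat_lit 78) (nat_lit 228) (nat_lit 0) (XT.lf (nat_lit 228) (nat_lit 401516851) (nat_lit 0) (nat_lit 3763428637) (nat_lit 152) (nat_lit 3763428637) (nat_lit 163) (nat_lit 1) (nat_lit 160) (nat_lit 1) (nat_lit 162) (nat_lit 1) (nat_lit 310) (nat_lit 399) (nat_lit 311)) (XT.lf (nat_lit 228) (nat_lit 6005579496) (nat_lit 0) (nat_lit 919987984) (nat_lit 152) (nat_lit 919987984) (nat_lit 160) (nat_lit 1) (nat_lit 157) (nat_lit 1) (nat_lit 159) (nat_lit 1) (nat_lit 311) (nat_lit 399) (nat_lit 310))) (XT.nd (nat_lit 78) (nat_lit 380) (nat_lit 0) (XT.lf (nat_lit 76) (nat_lit 1848499822) (nat_lit 0) (nat_lit 4066305060) (nat_lit 228) (nat_lit 1848499822) (nat_lit 158) (nat_lit 1) (nat_lit 157) (nat_lit 1) (nat_lit 160) (nat_lit 1) (nat_lit 312) (nat_lit 399) (nat_lit 309)) (XT.nd (nat_lit 78) (nat_lit 228) (nat_lit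 0) (XT.lf (nat_lit 228) (nat_lit 1415794246) (nat_lit 0) (nat_lit 3133247106) (nat_lit 152) (nat_lit 3133247106) (nat_lit 158) (nat_lit 1) (nat_lit 155) (nat_lit 1) (nat_lit 157) (nat_lit 1) (nat_lit 313) (nat_lit 399) (nat_lit 308)) (XT.lf (nat_lit 228) (nat_lit 6797736772) (nat_lit 0) (nat_lit 402507794) (nat_lit 152) (nat_lit 402507794) (nat_lit 155) (nat_lit 1) (nat_lit 152) (nat_lit 1) (nat_lit 154) (nat_lit 1) (nat_lit 314) (nat_lit 399) (nat_lit 307)))))) (XT.nd (nat_lit 390) (nat_lit 456) (nat_lit 0) (XT.nd (nat_lit 156) (nat_lit 304) (nat_lit 0) (XT.nd (nat_lit 78) (nat_lit 152) (nat_lit 0) (XT.lf (nat_lit 76) (nat_lit 2261756529) (nat_lit 0) (nat_lit 2999663080) (nat_lit 228) (nat_lit 2261756529) (nat_lit 153) (nat_lit 1) (nat_lit 152) (nat_lit 1) (nat_lit 155) (nat_lit 1) (nat_lit 315) (nat_lit 399) (nat_lit 306)) (XT.lf (nat_lit 228) (nat_lit 2286120408) (nat_lit 0) (nat_lit 2579470351)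 (nat_lit 152) (nat_lit 2579470351) (nat_lit 153) (nat_lit 1) (nat_lit 150) (nat_lit 1) (nat_lit 152) (nat_lit 1) (nat_lit 316) (nat_lit 399) (nat_lit 305))) (XT.nd (nat_lit 78) (nat_lit 304) (nat_lit 0) (XT.lf (nat_lit 76) (nat_lit 45629839) (nat_lit 0) (nat_lit 7277302333) (nat_lit 228) (nat_lit 45629839) (nat_lit 151) (nat_lit 1) (nat_lit 150) (nat_lit 1) (nat_lit 153) (nat_lit 1) (nat_lit 317) (nat_lit 399) (nat_lit 304)) (XT.nd (nat_lit 78) (nat_lit 152) (nat_lit 0) (XT.lf (nat_lit 76) (nat_lit 2610889322) (nat_lit 0) (nat_lit 2069825582) (nat_lit 152) (nat_lit 2610889322) (nat_lit 149) (nat_lit 1) (nat_lit 148) (nat_lit 1) (nat_lit 150) (nat_lit 1) (nat_lit 318) (nat_lit 399) (nat_lit 303)) (XT.lf (nat_lit 228) (nat_lit 3029446195) (nat_lit 0) (nat_lit 2093399667) (nat_lit 152) (nat_lit 2093399667) (nat_lit 149) (nat_lit 1) (nat_lit 146) (nat_lit 1) (nat_lit 148) (nat_lit 1) (nat_lit 319) (nat_lit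 399) (nat_lit 302))))) (XT.nd (nat_lit 156) (nat_lit 304) (nat_lit 0) (XT.nd (nat_lit 78) (nat_lit 152) (nat_lit 0) (XT.lf (nat_lit 76) (nat_lit 435486786) (nat_lit 0) (nat_lit 6271234549) (nat_lit 228) (nat_lit 435486786) (nat_lit 147) (nat_lit 1) (nat_lit 146) (nat_lit 1) (nat_lit 149) (nat_lit 1) (nat_lit 320) (nat_lit 399) (nat_lit 301)) (XT.lf (nat_lit 76) (nat_lit 2903574298) (nat_lit 0) (nat_lit 1261016898) (nat_lit 152) (nat_lit 2903574298) (nat_lit 145) (nat_lit 1) (nat_lit 144) (nat_lit 1) (nat_lit 146) (nat_lit 1) (nat_lit 321) (nat_lit 399) (nat_lit 300))) (XT.nd (nat_lit 78) (nat_lit 152) (nat_lit 0) (XT.lf (nat_lit 228) (nat_lit 3660806059) (nat_lit 0) (nat_lit 1667311568) (nat_lit 152) (nat_lit 1667311568) (nat_lit 145) (nat_lit 1) (nat_lit 142) (nat_lit 1) (nat_lit 144) (nat_lit 1) (nat_lit 322) (nat_lit 399) (nat_lit 299)) (XT.nd (nat_lit 78) (nat_lit 152) (nat_lit 0) (XT.lf (nat_lit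 76) (nat_lit 770366374) (nat_lit 0) (nat_lit 5383022984) (nat_lit 228) (nat_lit 770366374) (nat_lit 143) (nat_lit 1) (nat_lit 142) (nat_lit 1) (nat_lit 145) (nat_lit 1) (nat_lit 323) (nat_lit 399) (nat_lit 298)) (XT.lf (nat_lit 76) (nat_lit 3146616266) (nat_lit 0) (nat_lit 559235703) (nat_lit 152) (nat_lit 3146616266) (nat_lit 141) (nat_lit 1) (nat_lit 140) (nat_lit 1) (nat_lit 142) (nat_lit 1) (nat_lit 324) (nat_lit 399) (nat_lit 297))))))))
noncomputable def ec299 : XT := (XT.nd (nat_lit 1482) (nat_lit 1520) (nat_lit 0) (XT.nd (nat_lit 702) (nat_lit 912) (nat_lit 0) (XT.nd (nat_lit 312) (nat_lit 380) (nat_lit 0) (XT.nd (nat_lit 156) (nat_lit 304) (nat_lit 0) (XT.nd (nat_lit 78) (nat_lit 0) (nat_lit 0) (XT.lf (nat_lit 228) (nat_lit 4193532509) (nat_lit 0) (nat_lit 1294348886) (nat_lit 152) (nat_lit 1294348886) (nat_lit 141) (nat_lit 1) (nat_lit 138) (nat_lit 1) (nat_lit 140) (nat_lit 1) (nat_lit 325)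 (nat_lit 399) (nat_lit 296)) (XT.lf (nat_lit 76) (nat_lit 1056734336) (nat_lit 0) (nat_lit 4599360096) (nat_lit 228) (nat_lit 1056734336) (nat_lit 139) (nat_lit 1) (nat_lit 138) (nat_lit 1) (nat_lit 141) (nat_lit 1) (nat_lit 326) (nat_lit 399) (nat_lit 295))) (XT.nd (nat_lit 78) (nat_lit 228) (nat_lit 0) (XT.lf (nat_lit 152) (nat_lit 48897455) (nat_lit 0) (nat_lit 3297618926) (nat_lit 76) (nat_lit 3297618926) (nat_lit 139) (nat_lit 1) (nat_lit 137) (nat_lit 1) (nat_lit 138) (nat_lit 1) (nat_lit 327) (nat_lit 399) (nat_lit 294)) (XT.lf (nat_lit 228) (nat_lit 4639446640) (nat_lit 0) (nat_lit 968424019) (nat_lit 152) (nat_lit 968424019) (nat_lit 137) (nat_lit 1) (nat_lit 134) (nat_lit 1) (nat_lit 136) (nat_lit 1) (nat_lit 328) (nat_lit 399) (nat_lit 293)))) (XT.nd (nat_lit 156) (nat_lit 304) (nat_lit 0) (XT.nd (nat_lit 78) (nat_lit 76) (nat_lit 0) (XT.lf (nat_lit 76) (nat_lit 1300325636) (nat_lit 0) (nat_lit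 3908427112) (nat_lit 228) (nat_lit 1300325636) (nat_lit 135) (nat_lit 1) (nat_lit 134) (nat_lit 1) (nat_lit 137) (nat_lit 1) (nat_lit 329) (nat_lit 399) (nat_lit 292)) (XT.lf (nat_lit 152) (nat_lit 582920382) (nat_lit 0) (nat_lit 2929891704) (nat_lit 76) (nat_lit 2929891704) (nat_lit 135) (nat_lit 1) (nat_lit 133) (nat_lit 1) (nat_lit 134) (nat_lit 1) (nat_lit 330) (nat_lit 399) (nat_lit 291))) (XT.nd (nat_lit 78) (nat_lit 76) (nat_lit 0) (XT.lf (nat_lit 228) (nat_lit 5009027395) (nat_lit 0) (nat_lit 684132974) (nat_lit 152) (nat_lit 684132974) (nat_lit 133) (nat_lit 1) (nat_lit 130) (nat_lit 1) (nat_lit 132) (nat_lit 1) (nat_lit 331) (nat_lit 399) (nat_lit 290)) (XT.nd (nat_lit 78) (nat_lit 76) (nat_lit 0) (XT.lf (nat_lit 76) (nat_lit 1506226238) (nat_lit 0) (nat_lit 3299727876) (nat_lit 228) (nat_lit 1506226238) (nat_lit 131) (nat_lit 1) (nat_lit 130) (nat_lit 1) (nat_lit 133) (nat_lit 1) (nat_lit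 332) (nat_lit 399) (nat_lit 289)) (XT.lf (nat_lit 152) (nat_lit 1041679953) (nat_lit 0) (nat_lit 2603170831) (nat_lit 76) (nat_lit 2603170831) (nat_lit 131) (nat_lit 1) (nat_lit 129) (nat_lit 1) (nat_lit 130) (nat_lit 1) (nat_lit 333) (nat_lit 399) (nat_lit 288)))))) (XT.nd (nat_lit 390) (nat_lit 380) (nat_lit 0) (XT.nd (nat_lit 156) (nat_lit 304) (nat_lit 0) (XT.nd (nat_lit 78) (nat_lit 0) (nat_lit 0) (XT.lf (nat_lit 228) (nat_lit 5311561930) (nat_lit 0) (nat_lit 436678991) (nat_lit 152) (nat_lit 436678991) (nat_lit 129) (nat_lit 1) (nat_lit 126) (nat_lit 1) (nat_lit 128) (nat_lit 1) (nat_lit 334) (nat_lit 399) (nat_lit 287)) (XT.lf (nat_lit 76) (nat_lit 1678945759) (nat_lit 0) (nat_lit 2763941215) (nat_lit 228) (nat_lit 1678945759) (nat_lit 127) (nat_lit 1) (nat_lit 126) (nat_lit 1) (nat_lit 129) (nat_lit 1) (nat_lit 335) (nat_lit 399) (nat_lit 286))) (XT.nd (nat_lit 78) (nat_lit 228) (nat_lit 0)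 (XT.lf (nat_lit 152) (nat_lit 1434026665) (nat_lit 0) (nat_lit 2312883567) (nat_lit 76) (nat_lit 2312883567) (nat_lit 127) (nat_lit 1) (nat_lit 125) (nat_lit 1) (nat_lit 126) (nat_lit 1) (nat_lit 336) (nat_lit 399) (nat_lit 285)) (XT.nd (nat_lit 78) (nat_lit 0) (nat_lit 0) (XT.lf (nat_lit 228) (nat_lit 5555279190) (nat_lit 0) (nat_lit 221804700) (nat_lit 152) (nat_lit 221804700) (nat_lit 125) (nat_lit 1) (nat_lit 122) (nat_lit 1) (nat_lit 124) (nat_lit 1) (nat_lit 337) (nat_lit 399) (nat_lit 284)) (XT.lf (nat_lit 76) (nat_lit 1822482003) (nat_lit 0) (nat_lit 2292789793) (nat_lit 228) (nat_lit 1822482003) (nat_lit 123) (nat_lit 1) (nat_lit 122) (nat_lit 1) (nat_lit 125) (nat_lit 1) (nat_lit 338) (nat_lit 399) (nat_lit 283))))) (XT.nd (nat_lit 156) (nat_lit 76) (nat_lit 0) (XT.nd (nat_lit 78) (nat_lit 228) (nat_lit 0) (XT.lf (nat_lit 152) (nat_lit 1767810738) (nat_lit 0) (nat_lit 2054967092) (nat_lit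 76) (nat_lit 2054967092) (nat_lit 123) (nat_lit 1) (nat_lit 121) (nat_lit 1) (nat_lit 122) (nat_lit 1) (nat_lit 339) (nat_lit 399) (nat_lit 282)) (XT.lf (nat_lit 228) (nat_lit 5747468570) (nat_lit 0) (nat_lit 35731838) (nat_lit 152) (nat_lit 35731838) (nat_lit 121) (nat_lit 1) (nat_lit 118) (nat_lit 1) (nat_lit 120) (nat_lit 1) (nat_lit 340) (nat_lit 399) (nat_lit 281))) (XT.nd (nat_lit 78) (nat_lit 76) (nat_lit 0) (XT.lf (nat_lit 76) (nat_lit 1940378297) (nat_lit 0) (nat_lit 1878923570) (nat_lit 228) (nat_lit 1940378297) (nat_lit 119) (nat_lit 1) (nat_lit 118) (nat_lit 1) (nat_lit 121) (nat_lit 1) (nat_lit 341) (nat_lit 399) (nat_lit 280)) (XT.nd (nat_lit 78) (nat_lit 0) (nat_lit 0) (XT.lf (nat_lit 152) (nat_lit 2049994051) (nat_lit 0) (nat_lit 1825811646) (nat_lit 76) (nat_lit 1825811646) (nat_lit 119) (nat_lit 1) (nat_lit 117) (nat_lit 1) (nat_lit 118) (nat_lit 1) (nat_lit 342) (nat_lit 399) (nat_lit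 279)) (XT.lf (nat_lit 0) (nat_lit 126128859) (nat_lit 0) (nat_lit 5392396779) (nat_lit 152) (nat_lit 126128859) (nat_lit 117) (nat_lit 3) (nat_lit 117) (nat_lit 1) (nat_lit 119) (nat_lit 1) (nat_lit 343) (nat_lit 399) (nat_lit 278))))))) (XT.nd (nat_lit 702) (nat_lit 836) (nat_lit 0) (XT.nd (nat_lit 312) (nat_lit 304) (nat_lit 0) (XT.nd (nat_lit 156) (nat_lit 152) (nat_lit 0) (XT.nd (nat_lit 78) (nat_lit 76) (nat_lit 0) (XT.lf (nat_lit 76) (nat_lit 2035774424) (nat_lit 0) (nat_lit 1515816281) (nat_lit 152) (nat_lit 2035774424) (nat_lit 116) (nat_lit 1) (nat_lit 115) (nat_lit 1) (nat_lit 117) (nat_lit 1) (nat_lit 344) (nat_lit 399) (nat_lit 277)) (XT.lf (nat_lit 152) (nat_lit 2286749577) (nat_lit 0) (nat_lit 1622209999) (nat_lit 76) (nat_lit 1622209999) (nat_lit 116) (nat_lit 1) (nat_lit 114) (nat_lit 1) (nat_lit 115) (nat_lit 1) (nat_lit 345) (nat_lit 399) (nat_lit 276))) (XT.nd (nat_lit 78) (nat_lit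 152) (nat_lit 0) (XT.lf (nat_lit 0) (nat_lit 265646832) (nat_lit 0) (nat_lit 4944657670) (nat_lit 152) (nat_lit 265646832) (nat_lit 114) (nat_lit 3) (nat_lit 114) (nat_lit 1) (nat_lit 116) (nat_lit 1) (nat_lit 346) (nat_lit 399) (nat_lit 275)) (XT.lf (nat_lit 76) (nat_lit 2111451868) (nat_lit 0) (nat_lit 1197673448) (nat_lit 152) (nat_lit 2111451868) (nat_lit 113) (nat_lit 1) (nat_lit 112) (nat_lit 1) (nat_lit 114) (nat_lit 1) (nat_lit 347) (nat_lit 399) (nat_lit 274)))) (XT.nd (nat_lit 156) (nat_lit 228) (nat_lit 0) (XT.nd (nat_lit 78) (nat_lit 0) (nat_lit 0) (XT.lf (nat_lit 152) (nat_lit 2483549725) (nat_lit 0) (nat_lit 1441312573) (nat_lit 76) (nat_lit 1441312573) (nat_lit 113) (nat_lit 1) (nat_lit 111) (nat_lit 1) (nat_lit 112) (nat_lit 1) (nat_lit 348) (nat_lit 399) (nat_lit 273)) (XT.lf (nat_lit 0) (nat_lit 385133454) (nat_lit 0) (nat_lit 4542373981) (nat_lit 152) (nat_lit 385133454) (nat_lit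 111) (nat_lit 3) (nat_lit 111) (nat_lit 1) (nat_lit 113) (nat_lit 1) (nat_lit 349) (nat_lit 399) (nat_lit 272))) (XT.nd (nat_lit 78) (nat_lit 76) (nat_lit 0) (XT.lf (nat_lit 76) (nat_lit 2169874005) (nat_lit 0) (nat_lit 919350662) (nat_lit 152) (nat_lit 2169874005) (nat_lit 110) (nat_lit 1) (nat_lit 109) (nat_lit 1) (nat_lit 111) (nat_lit 1) (nat_lit 350) (nat_lit 399) (nat_lit 271)) (XT.nd (nat_lit 78) (nat_lit 0) (nat_lit 0) (XT.lf (nat_lit 152) (nat_lit 2645244816) (nat_lit 0) (nat_lit 1280587553) (nat_lit 76) (nat_lit 1280587553) (nat_lit 110) (nat_lit 1) (nat_lit 108) (nat_lit 1) (nat_lit 109) (nat_lit 1) (nat_lit 351) (nat_lit 399) (nat_lit 270)) (XT.lf (nat_lit 0) (nat_lit 486952770) (nat_lit 0) (nat_lit 4180607133) (nat_lit 152) (nat_lit 486952770) (nat_lit 108) (nat_lit 3) (nat_lit 108) (nat_lit 1) (nat_lit 110) (nat_lit 1) (nat_lit 352) (nat_lit 399) (nat_lit 269)))))) (XT.nd (nat_lit 390)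 (nat_lit 380) (nat_lit 0) (XT.nd (nat_lit 156) (nat_lit 228) (nat_lit 0) (XT.nd (nat_lit 78) (nat_lit 76) (nat_lit 0) (XT.lf (nat_lit 76) (nat_lit 2213221812) (nat_lit 0) (nat_lit 676280977) (nat_lit 152) (nat_lit 2213221812) (nat_lit 107) (nat_lit 1) (nat_lit 106) (nat_lit 1) (nat_lit 108) (nat_lit 1) (nat_lit 353) (nat_lit 399) (nat_lit 268)) (XT.lf (nat_lit 152) (nat_lit 2776132798) (nat_lit 0) (nat_lit 1137785455) (nat_lit 76) (nat_lit 1137785455) (nat_lit 107) (nat_lit 1) (nat_lit 105) (nat_lit 1) (nat_lit 106) (nat_lit 1) (nat_lit 354) (nat_lit 399) (nat_lit 267))) (XT.nd (nat_lit 78) (nat_lit 228) (nat_lit 0) (XT.lf (nat_lit 0) (nat_lit 573201407) (nat_lit 0) (nat_lit 3854965468) (nat_lit 152) (nat_lit 573201407) (nat_lit 105) (nat_lit 3) (nat_lit 105) (nat_lit 1) (nat_lit 107) (nat_lit 1) (nat_lit 355) (nat_lit 399) (nat_lit 266)) (XT.nd (nat_lit 78) (nat_lit 76) (nat_lit 0) (XT.lf (nat_lit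 76) (nat_lit 2243425577) (nat_lit 0) (nat_lit 464410405) (nat_lit 152) (nat_lit 2243425577) (nat_lit 104) (nat_lit 1) (nat_lit 103) (nat_lit 1) (nat_lit 105) (nat_lit 1) (nat_lit 356) (nat_lit 399) (nat_lit 265)) (XT.lf (nat_lit 152) (nat_lit 2880021181) (nat_lit 0) (nat_lit 1010907640) (nat_lit 76) (nat_lit 1010907640) (nat_lit 104) (nat_lit 1) (nat_lit 102) (nat_lit 1) (nat_lit 103) (nat_lit 1) (nat_lit 357) (nat_lit 399) (nat_lit 264))))) (XT.nd (nat_lit 156) (nat_lit 228) (nat_lit 0) (XT.nd (nat_lit 78) (nat_lit 152) (nat_lit 0) (XT.lf (nat_lit 0) (nat_lit 645738510) (nat_lit 0) (nat_lit 3561543373) (nat_lit 152) (nat_lit 645738510) (nat_lit 102) (nat_lit 3) (nat_lit 102) (nat_lit 1) (nat_lit 104) (nat_lit 1) (nat_lit 358) (nat_lit 399) (nat_lit 263)) (XT.lf (nat_lit 76) (nat_lit 2262193075) (nat_lit 0) (nat_lit 280140606) (nat_lit 152) (nat_lit 2262193075) (nat_lit 101) (nat_lit 1) (nat_lit 100)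 (nat_lit 1) (nat_lit 102) (nat_lit 1) (nat_lit 359) (nat_lit 399) (nat_lit 262))) (XT.nd (nat_lit 78) (nat_lit 152) (nat_lit 0) (XT.lf (nat_lit 152) (nat_lit 2960282048) (nat_lit 0) (nat_lit 898178344) (nat_lit 76) (nat_lit 898178344) (nat_lit 101) (nat_lit 1) (nat_lit 99) (nat_lit 1) (nat_lit 100) (nat_lit 1) (nat_lit 360) (nat_lit 399) (nat_lit 261)) (XT.nd (nat_lit 78) (nat_lit 152) (nat_lit 0) (XT.lf (nat_lit 0) (nat_lit 706212326) (nat_lit 0) (nat_lit 3296867181) (nat_lit 152) (nat_lit 706212326) (nat_lit 99) (nat_lit 3) (nat_lit 99) (nat_lit 1) (nat_lit 101) (nat_lit 1) (nat_lit 361) (nat_lit 399) (nat_lit 260)) (XT.lf (nat_lit 76) (nat_lit 2271034594) (nat_lit 0) (nat_lit 120277977) (nat_lit 152) (nat_lit 2271034594) (nat_lit 98) (nat_lit 1) (nat_lit 97) (nat_lit 1) (nat_lit 99) (nat_lit 1) (nat_lit 362) (nat_lit 399) (nat_lit 259))))))))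
noncomputable def ec300 : XT := (XT.nd (nat_lit 1404) (nat_lit 1520) (nat_lit 0) (XT.nd (nat_lit 702) (nat_lit 684) (nat_lit 0) (XT.nd (nat_lit 312) (nat_lit 304) (nat_lit 0) (XT.nd (nat_lit 156) (nat_lit 228) (nat_lit 0) (XT.nd (nat_lit 78) (nat_lit 0) (nat_lit 0) (XT.lf (nat_lit 152) (nat_lit 3019900929) (nat_lit 0) (nat_lit 798019826) (nat_lit 76) (nat_lit 798019826) (nat_lit 98) (nat_lit 1) (nat_lit 96) (nat_lit 1) (nat_lit 97) (nat_lit 1) (nat_lit 363) (nat_lit 399) (nat_lit 258)) (XT.lf (nat_lit 0) (nat_lit 756083828) (nat_lit 0) (nat_lit 3057847112) (nat_lit 152) (nat_lit 756083828) (nat_lit 96) (nat_lit 3) (nat_lit 96) (nat_lit 1) (nat_lit 98) (nat_lit 1) (nat_lit 364) (nat_lit 399) (nat_lit 257))) (XT.nd (nat_lit 78) (nat_lit 152) (nat_lit 0) (XT.lf (nat_lit 76) (nat_lit 18370054) (nat_lit 0) (nat_lit 2253091689) (nat_lit 76) (nat_lit 2253091689) (nat_lit 96) (nat_lit 3) (nat_lit 95) (nat_lit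 1) (nat_lit 96) (nat_lit 1) (nat_lit 365) (nat_lit 399) (nat_lit 256)) (XT.lf (nat_lit 152) (nat_lit 3061520211) (nat_lit 0) (nat_lit 709030279) (nat_lit 76) (nat_lit 709030279) (nat_lit 95) (nat_lit 1) (nat_lit 93) (nat_lit 1) (nat_lit 94) (nat_lit 1) (nat_lit 366) (nat_lit 399) (nat_lit 255)))) (XT.nd (nat_lit 156) (nat_lit 228) (nat_lit 0) (XT.nd (nat_lit 78) (nat_lit 76) (nat_lit 0) (XT.lf (nat_lit 0) (nat_lit 796647702) (nat_lit 0) (nat_lit 2841734567) (nat_lit 152) (nat_lit 796647702) (nat_lit 93) (nat_lit 3) (nat_lit 93) (nat_lit 1) (nat_lit 95) (nat_lit 1) (nat_lit 367) (nat_lit 399) (nat_lit 254)) (XT.lf (nat_lit 76) (nat_lit 139974284) (nat_lit 0) (nat_lit 2125495512) (nat_lit 76) (nat_lit 2125495512) (nat_lit 93) (nat_lit 3) (nat_lit 92) (nat_lit 1) (nat_lit 93) (nat_lit 1) (nat_lit 368) (nat_lit 399) (nat_lit 253))) (XT.nd (nat_lit 78) (nat_lit 76) (nat_lit 0) (XT.lf (nat_lit 152) (nat_lit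 3087477705) (nat_lit 0) (nat_lit 629964219) (nat_lit 76) (nat_lit 629964219) (nat_lit 92) (nat_lit 1) (nat_lit 90) (nat_lit 1) (nat_lit 91) (nat_lit 1) (nat_lit 369) (nat_lit 399) (nat_lit 252)) (XT.nd (nat_lit 78) (nat_lit 76) (nat_lit 0) (XT.lf (nat_lit 0) (nat_lit 829050984) (nat_lit 0) (nat_lit 2646084175) (nat_lit 152) (nat_lit 829050984) (nat_lit 90) (nat_lit 3) (nat_lit 90) (nat_lit 1) (nat_lit 92) (nat_lit 1) (nat_lit 370) (nat_lit 399) (nat_lit 251)) (XT.lf (nat_lit 76) (nat_lit 244416531) (nat_lit 0) (nat_lit 2008526426) (nat_lit 76) (nat_lit 2008526426) (nat_lit 90) (nat_lit 3) (nat_lit 89) (nat_lit 1) (nat_lit 90) (nat_lit 1) (nat_lit 371) (nat_lit 399) (nat_lit 250)))))) (XT.nd (nat_lit 312) (nat_lit 304) (nat_lit 0) (XT.nd (nat_lit 156) (nat_lit 228) (nat_lit 0) (XT.nd (nat_lit 78) (nat_lit 0) (nat_lit 0) (XT.lf (nat_lit 152) (nat_lit 3099840894) (nat_lit 0) (nat_lit 559715050) (nat_lit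 76) (nat_lit 559715050) (nat_lit 89) (nat_lit 1) (nat_lit 87) (nat_lit 1) (nat_lit 88) (nat_lit 1) (nat_lit 372) (nat_lit 399) (nat_lit 249)) (XT.lf (nat_lit 0) (nat_lit 854309623) (nat_lit 0) (nat_lit 2468720079) (nat_lit 152) (nat_lit 854309623) (nat_lit 87) (nat_lit 3) (nat_lit 87) (nat_lit 1) (nat_lit 89) (nat_lit 1) (nat_lit 373) (nat_lit 399) (nat_lit 248))) (XT.nd (nat_lit 78) (nat_lit 152) (nat_lit 0) (XT.lf (nat_lit 76) (nat_lit 333715479) (nat_lit 0) (nat_lit 1901104271) (nat_lit 76) (nat_lit 1901104271) (nat_lit 87) (nat_lit 3) (nat_lit 86) (nat_lit 1) (nat_lit 87) (nat_lit 1) (nat_lit 374) (nat_lit 399) (nat_lit 247)) (XT.lf (nat_lit 152) (nat_lit 3100437361) (nat_lit 0) (nat_lit 497299572) (nat_lit 76) (nat_lit 497299572) (nat_lit 86) (nat_lit 1) (nat_lit 84) (nat_lit 1) (nat_lit 85) (nat_lit 1) (nat_lit 375) (nat_lit 399) (nat_lit 246)))) (XT.nd (nat_lit 156) (nat_lit 228) (nat_lit 0)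 (XT.nd (nat_lit 78) (nat_lit 76) (nat_lit 0) (XT.lf (nat_lit 0) (nat_lit 873323192) (nat_lit 0) (nat_lit 2307705972) (nat_lit 152) (nat_lit 873323192) (nat_lit 84) (nat_lit 3) (nat_lit 84) (nat_lit 1) (nat_lit 86) (nat_lit 1) (nat_lit 376) (nat_lit 399) (nat_lit 245)) (XT.lf (nat_lit 76) (nat_lit 409661644) (nat_lit 0) (nat_lit 1802266285) (nat_lit 76) (nat_lit 1802266285) (nat_lit 84) (nat_lit 3) (nat_lit 83) (nat_lit 1) (nat_lit 84) (nat_lit 1) (nat_lit 377) (nat_lit 399) (nat_lit 244))) (XT.nd (nat_lit 78) (nat_lit 76) (nat_lit 0) (XT.lf (nat_lit 152) (nat_lit 3090881813) (nat_lit 0) (nat_lit 441844229) (nat_lit 76) (nat_lit 441844229) (nat_lit 83) (nat_lit 1) (nat_lit 81) (nat_lit 1) (nat_lit 82) (nat_lit 1) (nat_lit 378) (nat_lit 399) (nat_lit 243)) (XT.nd (nat_lit 78) (nat_lit 76) (nat_lit 0) (XT.lf (nat_lit 0) (nat_lit 886887953) (nat_lit 0) (nat_lit 2161318476) (nat_lit 152) (nat_lit 886887953)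 (nat_lit 81) (nat_lit 3) (nat_lit 81) (nat_lit 1) (nat_lit 83) (nat_lit 1) (nat_lit 379) (nat_lit 399) (nat_lit 242)) (XT.lf (nat_lit 76) (nat_lit 473842912) (nat_lit 0) (nat_lit 1711154099) (nat_lit 76) (nat_lit 1711154099) (nat_lit 81) (nat_lit 3) (nat_lit 80) (nat_lit 1) (nat_lit 81) (nat_lit 1) (nat_lit 380) (nat_lit 399) (nat_lit 241))))))) (XT.nd (nat_lit 702) (nat_lit 836) (nat_lit 0) (XT.nd (nat_lit 312) (nat_lit 304) (nat_lit 0) (XT.nd (nat_lit 156) (nat_lit 228) (nat_lit 0) (XT.nd (nat_lit 78) (nat_lit 0) (nat_lit 0) (XT.lf (nat_lit 152) (nat_lit 3072600084) (nat_lit 0) (nat_lit 392572874) (nat_lit 76) (nat_lit 392572874) (nat_lit 80) (nat_lit 1) (nat_lit 78) (nat_lit 1) (nat_lit 79) (nat_lit 1) (nat_lit 381) (nat_lit 399) (nat_lit 240)) (XT.lf (nat_lit 0) (nat_lit 895708468) (nat_lit 0) (nat_lit 2028023481) (nat_lit 152) (nat_lit 895708468) (nat_lit 78) (nat_lit 3) (nat_lit 78) (nat_lit 1)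 (nat_lit 80) (nat_lit 1) (nat_lit 382) (nat_lit 399) (nat_lit 239))) (XT.nd (nat_lit 78) (nat_lit 152) (nat_lit 0) (XT.lf (nat_lit 76) (nat_lit 527667221) (nat_lit 0) (nat_lit 1627002184) (nat_lit 76) (nat_lit 1627002184) (nat_lit 78) (nat_lit 3) (nat_lit 77) (nat_lit 1) (nat_lit 78) (nat_lit 1) (nat_lit 383) (nat_lit 399) (nat_lit 238)) (XT.lf (nat_lit 152) (nat_lit 3046850452) (nat_lit 0) (nat_lit 348795914) (nat_lit 76) (nat_lit 348795914) (nat_lit 77) (nat_lit 1) (nat_lit 75) (nat_lit 1) (nat_lit 76) (nat_lit 1) (nat_lit 384) (nat_lit 399) (nat_lit 237)))) (XT.nd (nat_lit 156) (nat_lit 228) (nat_lit 0) (XT.nd (nat_lit 78) (nat_lit 76) (nat_lit 0) (XT.lf (nat_lit 0) (nat_lit 900407905) (nat_lit 0) (nat_lit 1906455128) (nat_lit 152) (nat_lit 900407905) (nat_lit 75) (nat_lit 3) (nat_lit 75) (nat_lit 1) (nat_lit 77) (nat_lit 1) (nat_lit 385) (nat_lit 399) (nat_lit 236)) (XT.lf (nat_lit 76) (nat_lit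 572382705) (nat_lit 0) (nat_lit 1549127581) (nat_lit 76) (nat_lit 1549127581) (nat_lit 75) (nat_lit 3) (nat_lit 74) (nat_lit 1) (nat_lit 75) (nat_lit 1) (nat_lit 386) (nat_lit 399) (nat_lit 235))) (XT.nd (nat_lit 78) (nat_lit 76) (nat_lit 0) (XT.lf (nat_lit 152) (nat_lit 3014742575) (nat_lit 0) (nat_lit 309900652) (nat_lit 76) (nat_lit 309900652) (nat_lit 74) (nat_lit 1) (nat_lit 72) (nat_lit 1) (nat_lit 73) (nat_lit 1) (nat_lit 387) (nat_lit 399) (nat_lit 234)) (XT.nd (nat_lit 78) (nat_lit 76) (nat_lit 0) (XT.lf (nat_lit 0) (nat_lit 901537201) (nat_lit 0) (nat_lit 1795397128) (nat_lit 152) (nat_lit 901537201) (nat_lit 72) (nat_lit 3) (nat_lit 72) (nat_lit 1) (nat_lit 74) (nat_lit 1) (nat_lit 388) (nat_lit 399) (nat_lit 233)) (XT.lf (nat_lit 76) (nat_lit 609095604) (nat_lit 0) (nat_lit 1476920776) (nat_lit 76) (nat_lit 1476920776) (nat_lit 72) (nat_lit 3) (nat_lit 71) (nat_lit 1) (nat_lit 72) (nat_lit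 1) (nat_lit 389) (nat_lit 399) (nat_lit 232)))))) (XT.nd (nat_lit 390) (nat_lit 456) (nat_lit 0) (XT.nd (nat_lit 156) (nat_lit 228) (nat_lit 0) (XT.nd (nat_lit 78) (nat_lit 0) (nat_lit 0) (XT.lf (nat_lit 152) (nat_lit 2977254305) (nat_lit 0) (nat_lit 275342715) (nat_lit 76) (nat_lit 275342715) (nat_lit 71) (nat_lit 1) (nat_lit 69) (nat_lit 1) (nat_lit 70) (nat_lit 1) (nat_lit 390) (nat_lit 399) (nat_lit 231)) (XT.lf (nat_lit 0) (nat_lit 899583194) (nat_lit 0) (nat_lit 1693766162) (nat_lit 152) (nat_lit 899583194) (nat_lit 69) (nat_lit 3) (nat_lit 69) (nat_lit 1) (nat_lit 71) (nat_lit 1) (nat_lit 391) (nat_lit 399) (nat_lit 230))) (XT.nd (nat_lit 78) (nat_lit 152) (nat_lit 0) (XT.lf (nat_lit 76) (nat_lit 638786161) (nat_lit 0) (nat_lit 1409837586) (nat_lit 76) (nat_lit 1409837586) (nat_lit 69) (nat_lit 3) (nat_lit 68) (nat_lit 1) (nat_lit 69) (nat_lit 1) (nat_lit 392) (nat_lit 399) (nat_lit 229)) (XT.nd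 (nat_lit 78) (nat_lit 0) (nat_lit 0) (XT.lf (nat_lit 152) (nat_lit 2935246621) (nat_lit 0) (nat_lit 244638436) (nat_lit 76) (nat_lit 244638436) (nat_lit 68) (nat_lit 1) (nat_lit 66) (nat_lit 1) (nat_lit 67) (nat_lit 1) (nat_lit 393) (nat_lit 399) (nat_lit 228)) (XT.lf (nat_lit 0) (nat_lit 894975849) (nat_lit 0) (nat_lit 1600597129) (nat_lit 152) (nat_lit 894975849) (nat_lit 66) (nat_lit 3) (nat_lit 66) (nat_lit 1) (nat_lit 68) (nat_lit 1) (nat_lit 394) (nat_lit 399) (nat_lit 227))))) (XT.nd (nat_lit 156) (nat_lit 228) (nat_lit 0) (XT.nd (nat_lit 78) (nat_lit 152) (nat_lit 0) (XT.lf (nat_lit 76) (nat_lit 662322751) (nat_lit 0) (nat_lit 1347391955) (nat_lit 76) (nat_lit 1347391955) (nat_lit 66) (nat_lit 3) (nat_lit 65) (nat_lit 1) (nat_lit 66) (nat_lit 1) (nat_lit 395) (nat_lit 399) (nat_lit 226)) (XT.lf (nat_lit 152) (nat_lit 2889476889) (nat_lit 0) (nat_lit 217358082) (nat_lit 76) (nat_lit 217358082)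 (nat_lit 65) (nat_lit 1) (nat_lit 63) (nat_lit 1) (nat_lit 64) (nat_lit 1) (nat_lit 396) (nat_lit 399) (nat_lit 225))) (XT.nd (nat_lit 78) (nat_lit 228) (nat_lit 0) (XT.lf (nat_lit 0) (nat_lit 888094675) (nat_lit 0) (nat_lit 1515030044) (nat_lit 152) (nat_lit 888094675) (nat_lit 63) (nat_lit 3) (nat_lit 63) (nat_lit 1) (nat_lit 65) (nat_lit 1) (nat_lit 397) (nat_lit 399) (nat_lit 224)) (XT.nd (nat_lit 78) (nat_lit 152) (nat_lit 0) (XT.lf (nat_lit 76) (nat_lit 680474428) (nat_lit 0) (nat_lit 1289149543) (nat_lit 76) (nat_lit 1289149543) (nat_lit 63) (nat_lit 3) (nat_lit 62) (nat_lit 1) (nat_lit 63) (nat_lit 1) (nat_lit 398) (nat_lit 399) (nat_lit 223)) (XT.lf (nat_lit 152) (nat_lit 2840610639) (nat_lit 0) (nat_lit 193119841) (nat_lit 76) (nat_lit 193119841) (nat_lit 62) (nat_lit 1) (nat_lit 60) (nat_lit 1) (nat_lit 61) (nat_lit 1) (nat_lit 399) (nat_lit 399) (nat_lit 222))))))))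
noncomputable def ec301 : XT := (XT.nd (nat_lit 1482) (nat_lit 684) (nat_lit 0) (XT.nd (nat_lit 702) (nat_lit 684) (nat_lit 0) (XT.nd (nat_lit 312) (nat_lit 456) (nat_lit 0) (XT.nd (nat_lit 156) (nat_lit 152) (nat_lit 0) (XT.nd (nat_lit 78) (nat_lit 76) (nat_lit 0) (XT.lf (nat_lit 0) (nat_lit 879274428) (nat_lit 0) (nat_lit 1436298382) (nat_lit 152) (nat_lit 879274428) (nat_lit 60) (nat_lit 3) (nat_lit 60) (nat_lit 1) (nat_lit 62) (nat_lit 1) (nat_lit 400) (nat_lit 399) (nat_lit 221)) (XT.lf (nat_lit 76) (nat_lit 693922078) (nat_lit 0) (nat_lit 1234722034) (nat_lit 76) (nat_lit 1234722034) (nat_lit 60) (nat_lit 3) (nat_lit 59) (nat_lit 1) (nat_lit 60) (nat_lit 1) (nat_lit 401) (nat_lit 399) (nat_lit 220))) (XT.nd (nat_lit 78) (nat_lit 0) (nat_lit 0) (XT.lf (nat_lit 152) (nat_lit 2789232022) (nat_lit 0) (nat_lit 171584477) (nat_lit 76) (nat_lit 171584477) (nat_lit 59) (nat_lit 1) (nat_lit 57) (nat_lit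 1) (nat_lit 58) (nat_lit 1) (nat_lit 402) (nat_lit 399) (nat_lit 219)) (XT.lf (nat_lit 0) (nat_lit 868810165) (nat_lit 0) (nat_lit 1363718734) (nat_lit 152) (nat_lit 868810165) (nat_lit 57) (nat_lit 3) (nat_lit 57) (nat_lit 1) (nat_lit 59) (nat_lit 1) (nat_lit 403) (nat_lit 399) (nat_lit 218)))) (XT.nd (nat_lit 156) (nat_lit 228) (nat_lit 0) (XT.nd (nat_lit 78) (nat_lit 152) (nat_lit 0) (XT.lf (nat_lit 76) (nat_lit 703268315) (nat_lit 0) (nat_lit 1183762071) (nat_lit 76) (nat_lit 1183762071) (nat_lit 57) (nat_lit 3) (nat_lit 56) (nat_lit 1) (nat_lit 57) (nat_lit 1) (nat_lit 404) (nat_lit 399) (nat_lit 217)) (XT.lf (nat_lit 152) (nat_lit 2735853088) (nat_lit 0) (nat_lit 152450585) (nat_lit 76) (nat_lit 152450585) (nat_lit 56) (nat_lit 1) (nat_lit 54) (nat_lit 1) (nat_lit 55) (nat_lit 1) (nat_lit 405) (nat_lit 399) (nat_lit 216))) (XT.nd (nat_lit 78) (nat_lit 228) (nat_lit 0) (XT.lf (nat_lit 0) (nat_lit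 856961748) (nat_lit 0) (nat_lit 1296681602) (nat_lit 152) (nat_lit 856961748) (nat_lit 54) (nat_lit 3) (nat_lit 54) (nat_lit 1) (nat_lit 56) (nat_lit 1) (nat_lit 406) (nat_lit 399) (nat_lit 215)) (XT.nd (nat_lit 78) (nat_lit 152) (nat_lit 0) (XT.lf (nat_lit 76) (nat_lit 709046280) (nat_lit 0) (nat_lit 1135958760) (nat_lit 76) (nat_lit 1135958760) (nat_lit 54) (nat_lit 3) (nat_lit 53) (nat_lit 1) (nat_lit 54) (nat_lit 1) (nat_lit 407) (nat_lit 399) (nat_lit 214)) (XT.lf (nat_lit 152) (nat_lit 2680922038) (nat_lit 0) (nat_lit 135450370) (nat_lit 76) (nat_lit 135450370) (nat_lit 53) (nat_lit 1) (nat_lit 51) (nat_lit 1) (nat_lit 52) (nat_lit 1) (nat_lit 408) (nat_lit 399) (nat_lit 213)))))) (XT.nd (nat_lit 390) (nat_lit 380) (nat_lit 0) (XT.nd (nat_lit 156) (nat_lit 228) (nat_lit 0) (XT.nd (nat_lit 78) (nat_lit 76) (nat_lit 0) (XT.lf (nat_lit 0) (nat_lit 843957831) (nat_lit 0) (nat_lit 1234643225) (nat_lit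 152) (nat_lit 843957831) (nat_lit 51) (nat_lit 3) (nat_lit 51) (nat_lit 1) (nat_lit 53) (nat_lit 1) (nat_lit 409) (nat_lit 399) (nat_lit 212)) (XT.lf (nat_lit 76) (nat_lit 711727457) (nat_lit 0) (nat_lit 1091033666) (nat_lit 76) (nat_lit 1091033666) (nat_lit 51) (nat_lit 3) (nat_lit 50) (nat_lit 1) (nat_lit 51) (nat_lit 1) (nat_lit 410) (nat_lit 399) (nat_lit 211))) (XT.nd (nat_lit 78) (nat_lit 76) (nat_lit 0) (XT.lf (nat_lit 152) (nat_lit 2624830530) (nat_lit 0) (nat_lit 120345900) (nat_lit 76) (nat_lit 120345900) (nat_lit 50) (nat_lit 1) (nat_lit 48) (nat_lit 1) (nat_lit 49) (nat_lit 1) (nat_lit 411) (nat_lit 399) (nat_lit 210)) (XT.nd (nat_lit 78) (nat_lit 76) (nat_lit 0) (XT.lf (nat_lit 0) (nat_lit 829999405) (nat_lit 0) (nat_lit 1177118318) (nat_lit 152) (nat_lit 829999405) (nat_lit 48) (nat_lit 3) (nat_lit 48) (nat_lit 1) (nat_lit 50) (nat_lit 1) (nat_lit 412) (nat_lit 399) (nat_lit 209)) (XT.lf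 (nat_lit 76) (nat_lit 711728609) (nat_lit 0) (nat_lit 1048737262) (nat_lit 76) (nat_lit 1048737262) (nat_lit 48) (nat_lit 3) (nat_lit 47) (nat_lit 1) (nat_lit 48) (nat_lit 1) (nat_lit 413) (nat_lit 399) (nat_lit 208))))) (XT.nd (nat_lit 156) (nat_lit 228) (nat_lit 0) (XT.nd (nat_lit 78) (nat_lit 0) (nat_lit 0) (XT.lf (nat_lit 152) (nat_lit 2567920184) (nat_lit 0) (nat_lit 106925773) (nat_lit 76) (nat_lit 106925773) (nat_lit 47) (nat_lit 1) (nat_lit 45) (nat_lit 1) (nat_lit 46) (nat_lit 1) (nat_lit 414) (nat_lit 399) (nat_lit 207)) (XT.lf (nat_lit 0) (nat_lit 815262947) (nat_lit 0) (nat_lit 1123673605) (nat_lit 152) (nat_lit 815262947) (nat_lit 45) (nat_lit 3) (nat_lit 45) (nat_lit 1) (nat_lit 47) (nat_lit 1) (nat_lit 415) (nat_lit 399) (nat_lit 206))) (XT.nd (nat_lit 78) (nat_lit 152) (nat_lit 0) (XT.lf (nat_lit 76) (nat_lit 709417943) (nat_lit 0) (nat_lit 1008845766) (nat_lit 76) (nat_lit 1008845766)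 (nat_lit 45) (nat_lit 3) (nat_lit 44) (nat_lit 1) (nat_lit 45) (nat_lit 1) (nat_lit 416) (nat_lit 399) (nat_lit 205)) (XT.nd (nat_lit 78) (nat_lit 0) (nat_lit 0) (XT.lf (nat_lit 152) (nat_lit 2510488343) (nat_lit 0) (nat_lit 95002164) (nat_lit 76) (nat_lit 95002164) (nat_lit 44) (nat_lit 1) (nat_lit 42) (nat_lit 1) (nat_lit 43) (nat_lit 1) (nat_lit 417) (nat_lit 399) (nat_lit 204)) (XT.lf (nat_lit 0) (nat_lit 799903216) (nat_lit 0) (nat_lit 1073922091) (nat_lit 152) (nat_lit 799903216) (nat_lit 42) (nat_lit 3) (nat_lit 42) (nat_lit 1) (nat_lit 44) (nat_lit 1) (nat_lit 418) (nat_lit 399) (nat_lit 203))))))) (XT.nd (nat_lit 37596) (nat_lit 0) (nat_lit 25916) (XT.nd (nat_lit 312) (nat_lit 380) (nat_lit 0) (XT.nd (nat_lit 156) (nat_lit 76) (nat_lit 0) (XT.nd (nat_lit 78) (nat_lit 152) (nat_lit 0) (XT.lf (nat_lit 76) (nat_lit 705120588) (nat_lit 0) (nat_lit 971158331) (nat_lit 76) (nat_lit 971158331) (nat_lit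 42) (nat_lit 3) (nat_lit 41) (nat_lit 1) (nat_lit 42) (nat_lit 1) (nat_lit 419) (nat_lit 399) (nat_lit 202)) (XT.lf (nat_lit 152) (nat_lit 2452793192) (nat_lit 0) (nat_lit 84408193) (nat_lit 76) (nat_lit 84408193) (nat_lit 41) (nat_lit 1) (nat_lit 39) (nat_lit 1) (nat_lit 40) (nat_lit 1) (nat_lit 420) (nat_lit 399) (nat_lit 201))) (XT.nd (nat_lit 78) (nat_lit 76) (nat_lit 0) (XT.lf (nat_lit 0) (nat_lit 784055731) (nat_lit 0) (nat_lit 1027517952) (nat_lit 152) (nat_lit 784055731) (nat_lit 39) (nat_lit 3) (nat_lit 39) (nat_lit 1) (nat_lit 41) (nat_lit 1) (nat_lit 421) (nat_lit 399) (nat_lit 200)) (XT.lf (nat_lit 76) (nat_lit 699123456) (nat_lit 0) (nat_lit 935494545) (nat_lit 76) (nat_lit 935494545) (nat_lit 39) (nat_lit 3) (nat_lit 38) (nat_lit 1) (nat_lit 39) (nat_lit 1) (nat_lit 422) (nat_lit 399) (nat_lit 199)))) (XT.nd (nat_lit 156) (nat_lit 228) (nat_lit 0) (XT.nd (nat_lit 78) (nat_lit 0) (nat_lit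 0) (XT.lf (nat_lit 152) (nat_lit 2395058298) (nat_lit 0) (nat_lit 74995586) (nat_lit 76) (nat_lit 74995586) (nat_lit 38) (nat_lit 1) (nat_lit 36) (nat_lit 1) (nat_lit 37) (nat_lit 1) (nat_lit 423) (nat_lit 399) (nat_lit 198)) (XT.lf (nat_lit 0) (nat_lit 767838977) (nat_lit 0) (nat_lit 984152008) (nat_lit 152) (nat_lit 767838977) (nat_lit 36) (nat_lit 3) (nat_lit 36) (nat_lit 1) (nat_lit 38) (nat_lit 1) (nat_lit 424) (nat_lit 399) (nat_lit 197))) (XT.nd (nat_lit 78) (nat_lit 152) (nat_lit 0) (XT.lf (nat_lit 76) (nat_lit 691679559) (nat_lit 0) (nat_lit 901692210) (nat_lit 76) (nat_lit 901692210) (nat_lit 36) (nat_lit 3) (nat_lit 35) (nat_lit 1) (nat_lit 36) (nat_lit 1) (nat_lit 425) (nat_lit 399) (nat_lit 196)) (XT.nd (nat_lit 78) (nat_lit 0) (nat_lit 0) (XT.lf (nat_lit 152) (nat_lit 2337476641) (nat_lit 0) (nat_lit 66632607) (nat_lit 76) (nat_lit 66632607) (nat_lit 35) (nat_lit 1) (nat_lit 33) (nat_lit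 1) (nat_lit 34) (nat_lit 1) (nat_lit 426) (nat_lit 399) (nat_lit 195)) (XT.lf (nat_lit 0) (nat_lit 751356361) (nat_lit 0) (nat_lit 943547687) (nat_lit 152) (nat_lit 751356361) (nat_lit 33) (nat_lit 3) (nat_lit 33) (nat_lit 1) (nat_lit 35) (nat_lit 1) (nat_lit 427) (nat_lit 399) (nat_lit 194)))))) (XT.nd (nat_lit 390) (nat_lit 0) (nat_lit 152) (XT.nd (nat_lit 156) (nat_lit 0) (nat_lit 76) (XT.nd (nat_lit 78) (nat_lit 0) (nat_lit 0) (XT.lf (nat_lit 1292) (nat_lit 2197344543) (nat_lit 0) (nat_lit 7559887147) (nat_lit 1292) (nat_lit 2197344543) (nat_lit 391) (nat_lit 1) (nat_lit 374) (nat_lit 0) (nat_lit 391) (nat_lit 0) (nat_lit 220) (nat_lit 400) (nat_lit 400)) (XT.lf (nat_lit 1292) (nat_lit 8587260981) (nat_lit 76) (nat_lit 7485770607) (nat_lit 0) (nat_lit 7485770607) (nat_lit 391) (nat_lit 1) (nat_lit 375) (nat_lit 1) (nat_lit 374) (nat_lit 0) (nat_lit 221) (nat_lit 400) (nat_lit 399))) (XT.nd (nat_lit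 78) (nat_lit 0) (nat_lit 0) (XT.lf (nat_lit 1292) (nat_lit 4153004155) (nat_lit 0) (nat_lit 14910171606) (nat_lit 1216) (nat_lit 4153004155) (nat_lit 392) (nat_lit 1) (nat_lit 375) (nat_lit 1) (nat_lit 391) (nat_lit 1) (nat_lit 222) (nat_lit 400) (nat_lit 398)) (XT.nd (nat_lit 78) (nat_lit 0) (nat_lit 76) (XT.lf (nat_lit 1292) (nat_lit 7886769311) (nat_lit 76) (nat_lit 7496255000) (nat_lit 0) (nat_lit 7496255000) (nat_lit 392) (nat_lit 1) (nat_lit 376) (nat_lit 1) (nat_lit 375) (nat_lit 1) (nat_lit 223) (nat_lit 400) (nat_lit 397)) (XT.lf (nat_lit 1292) (nat_lit 3700827166) (nat_lit 0) (nat_lit 15148262640) (nat_lit 1216) (nat_lit 3700827166) (nat_lit 393) (nat_lit 1) (nat_lit 376) (nat_lit 1) (nat_lit 392) (nat_lit 1) (nat_lit 224) (nat_lit 400) (nat_lit 396))))) (XT.nd (nat_lit 156) (nat_lit 0) (nat_lit 76) (XT.nd (nat_lit 78) (nat_lit 0) (nat_lit 76) (XT.lf (nat_lit 1292) (nat_lit 6782156537) (nat_lit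 76) (nat_lit 7721832785) (nat_lit 0) (nat_lit 7721832785) (nat_lit 393) (nat_lit 1) (nat_lit 377) (nat_lit 1) (nat_lit 376) (nat_lit 1) (nat_lit 225) (nat_lit 400) (nat_lit 395)) (XT.lf (nat_lit 1292) (nat_lit 3056776151) (nat_lit 0) (nat_lit 15795658770) (nat_lit 1216) (nat_lit 3056776151) (nat_lit 394) (nat_lit 1) (nat_lit 377) (nat_lit 1) (nat_lit 393) (nat_lit 1) (nat_lit 226) (nat_lit 400) (nat_lit 394))) (XT.nd (nat_lit 78) (nat_lit 0) (nat_lit 76) (XT.lf (nat_lit 1292) (nat_lit 5309562577) (nat_lit 76) (nat_lit 8143874336) (nat_lit 0) (nat_lit 8143874336) (nat_lit 394) (nat_lit 1) (nat_lit 378) (nat_lit 1) (nat_lit 377) (nat_lit 1) (nat_lit 227) (nat_lit 400) (nat_lit 393)) (XT.nd (nat_lit 78) (nat_lit 0) (nat_lit 0) (XT.lf (nat_lit 1292) (nat_lit 2238210051) (nat_lit 0) (nat_lit 16816544622) (nat_lit 1216) (nat_lit 2238210051) (nat_lit 395) (nat_lit 1) (nat_lit 378) (nat_lit 1) (nat_lit 394)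 (nat_lit 1) (nat_lit 228) (nat_lit 400) (nat_lit 392)) (XT.lf (nat_lit 1292) (nat_lit 3502675828) (nat_lit 76) (nat_lit 8745002425) (nat_lit 0) (nat_lit 8745002425) (nat_lit 395) (nat_lit 1) (nat_lit 379) (nat_lit 1) (nat_lit 378) (nat_lit 1) (nat_lit 229) (nat_lit 400) (nat_lit 391))))))))
noncomputable def ec302 : XT := (XT.nd (nat_lit 1482) (nat_lit 5016) (nat_lit 0) (XT.nd (nat_lit 702) (nat_lit 2964) (nat_lit 0) (XT.nd (nat_lit 312) (nat_lit 684) (nat_lit 0) (XT.nd (nat_lit 156) (nat_lit 1216) (nat_lit 0) (XT.nd (nat_lit 78) (nat_lit 0) (nat_lit 0) (XT.lf (nat_lit 1292) (nat_lit 1261306540) (nat_lit 0) (nat_lit 18177519594) (nat_lit 1216) (nat_lit 1261306540) (nat_lit 396) (nat_lit 1) (nat_lit 379) (nat_lit 1) (nat_lit 395) (nat_lit 1) (nat_lit 230) (nat_lit 400) (nat_lit 390)) (XT.lf (nat_lit 1292) (nat_lit 1392884871) (nat_lit 76) (nat_lit 9509015001) (nat_lit 0) (nat_lit 9509015001) (nat_lit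 396) (nat_lit 1) (nat_lit 380) (nat_lit 1) (nat_lit 379) (nat_lit 1) (nat_lit 231) (nat_lit 400) (nat_lit 389))) (XT.nd (nat_lit 78) (nat_lit 1292) (nat_lit 0) (XT.lf (nat_lit 1292) (nat_lit 141135214) (nat_lit 0) (nat_lit 19847448786) (nat_lit 1216) (nat_lit 141135214) (nat_lit 397) (nat_lit 1) (nat_lit 380) (nat_lit 1) (nat_lit 396) (nat_lit 1) (nat_lit 232) (nat_lit 400) (nat_lit 388)) (XT.lf (nat_lit 1368) (nat_lit 9439755755) (nat_lit 0) (nat_lit 971249089) (nat_lit 1292) (nat_lit 9439755755) (nat_lit 381) (nat_lit 1) (nat_lit 363) (nat_lit 1) (nat_lit 380) (nat_lit 1) (nat_lit 233) (nat_lit 400) (nat_lit 387)))) (XT.nd (nat_lit 156) (nat_lit 684) (nat_lit 0) (XT.nd (nat_lit 78) (nat_lit 0) (nat_lit 76) (XT.lf (nat_lit 1368) (nat_lit 17384674507) (nat_lit 76) (nat_lit 1097408142) (nat_lit 0) (nat_lit 1097408142) (nat_lit 381) (nat_lit 1) (nat_lit 364) (nat_lit 1) (nat_lit 363) (nat_lit 1) (nat_lit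 234) (nat_lit 400) (nat_lit 386)) (XT.lf (nat_lit 1368) (nat_lit 7880625478) (nat_lit 0) (nat_lit 3549857728) (nat_lit 1292) (nat_lit 7880625478) (nat_lit 382) (nat_lit 1) (nat_lit 364) (nat_lit 1) (nat_lit 381) (nat_lit 1) (nat_lit 235) (nat_lit 400) (nat_lit 385))) (XT.nd (nat_lit 78) (nat_lit 760) (nat_lit 0) (XT.lf (nat_lit 1368) (nat_lit 14150309059) (nat_lit 76) (nat_lit 2449610402) (nat_lit 0) (nat_lit 2449610402) (nat_lit 382) (nat_lit 1) (nat_lit 365) (nat_lit 1) (nat_lit 364) (nat_lit 1) (nat_lit 236) (nat_lit 400) (nat_lit 384)) (XT.nd (nat_lit 78) (nat_lit 836) (nat_lit 0) (XT.lf (nat_lit 76) (nat_lit 6223092865) (nat_lit 0) (nat_lit 6345303472) (nat_lit 1292) (nat_lit 6223092865) (nat_lit 366) (nat_lit 1) (nat_lit 365) (nat_lit 1) (nat_lit 382) (nat_lit 1) (nat_lit 237) (nat_lit 400) (nat_lit 383)) (XT.lf (nat_lit 912) (nat_lit 10729488204) (nat_lit 0) (nat_lit 3904832088) (nat_lit 836)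 (nat_lit 3904832088) (nat_lit 366) (nat_lit 1) (nat_lit 354) (nat_lit 1) (nat_lit 365) (nat_lit 1) (nat_lit 238) (nat_lit 400) (nat_lit 382)))))) (XT.nd (nat_lit 390) (nat_lit 1748) (nat_lit 0) (XT.nd (nat_lit 156) (nat_lit 608) (nat_lit 0) (XT.nd (nat_lit 78) (nat_lit 608) (nat_lit 0) (XT.lf (nat_lit 76) (nat_lit 4478279510) (nat_lit 0) (nat_lit 9334512001) (nat_lit 912) (nat_lit 4478279510) (nat_lit 355) (nat_lit 1) (nat_lit 354) (nat_lit 1) (nat_lit 366) (nat_lit 1) (nat_lit 239) (nat_lit 400) (nat_lit 381)) (XT.lf (nat_lit 684) (nat_lit 7143753727) (nat_lit 0) (nat_lit 5451898063) (nat_lit 608) (nat_lit 5451898063) (nat_lit 355) (nat_lit 1) (nat_lit 346) (nat_lit 1) (nat_lit 354) (nat_lit 1) (nat_lit 240) (nat_lit 400) (nat_lit 380))) (XT.nd (nat_lit 78) (nat_lit 608) (nat_lit 0) (XT.lf (nat_lit 76) (nat_lit 2656509176) (nat_lit 0) (nat_lit 12496043077) (nat_lit 684) (nat_lit 2656509176) (nat_lit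 347) (nat_lit 1) (nat_lit 346) (nat_lit 1) (nat_lit 355) (nat_lit 1) (nat_lit 241) (nat_lit 400) (nat_lit 379)) (XT.nd (nat_lit 78) (nat_lit 0) (nat_lit 0) (XT.lf (nat_lit 684) (nat_lit 3413095142) (nat_lit 0) (nat_lit 7080427935) (nat_lit 608) (nat_lit 7080427935) (nat_lit 347) (nat_lit 1) (nat_lit 338) (nat_lit 1) (nat_lit 346) (nat_lit 1) (nat_lit 242) (nat_lit 400) (nat_lit 378)) (XT.lf (nat_lit 76) (nat_lit 767358239) (nat_lit 0) (nat_lit 15809987731) (nat_lit 684) (nat_lit 767358239) (nat_lit 339) (nat_lit 1) (nat_lit 338) (nat_lit 1) (nat_lit 347) (nat_lit 1) (nat_lit 243) (nat_lit 400) (nat_lit 377))))) (XT.nd (nat_lit 156) (nat_lit 532) (nat_lit 0) (XT.nd (nat_lit 78) (nat_lit 608) (nat_lit 0) (XT.lf (nat_lit 76) (nat_lit 8341101504) (nat_lit 0) (nat_lit 435288902) (nat_lit 608) (nat_lit 8341101504) (nat_lit 331) (nat_lit 1) (nat_lit 330) (nat_lit 1) (nat_lit 338) (nat_lit 1) (nat_lit 244)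 (nat_lit 400) (nat_lit 376)) (XT.lf (nat_lit 684) (nat_lit 14558458707) (nat_lit 0) (nat_lit 1168725363) (nat_lit 608) (nat_lit 1168725363) (nat_lit 331) (nat_lit 1) (nat_lit 322) (nat_lit 1) (nat_lit 330) (nat_lit 1) (nat_lit 245) (nat_lit 400) (nat_lit 375))) (XT.nd (nat_lit 78) (nat_lit 532) (nat_lit 0) (XT.lf (nat_lit 76) (nat_lit 6176213939) (nat_lit 0) (nat_lit 4324154592) (nat_lit 684) (nat_lit 6176213939) (nat_lit 323) (nat_lit 1) (nat_lit 322) (nat_lit 1) (nat_lit 331) (nat_lit 1) (nat_lit 246) (nat_lit 400) (nat_lit 374)) (XT.nd (nat_lit 78) (nat_lit 0) (nat_lit 0) (XT.lf (nat_lit 608) (nat_lit 10168256704) (nat_lit 0) (nat_lit 3147076100) (nat_lit 532) (nat_lit 3147076100) (nat_lit 323) (nat_lit 1) (nat_lit 315) (nat_lit 1) (nat_lit 322) (nat_lit 1) (nat_lit 247) (nat_lit 400) (nat_lit 373)) (XT.lf (nat_lit 76) (nat_lit 3973513178) (nat_lit 0) (nat_lit 8304514743) (nat_lit 608) (nat_lit 3973513178)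 (nat_lit 316) (nat_lit 1) (nat_lit 315) (nat_lit 1) (nat_lit 323) (nat_lit 1) (nat_lit 248) (nat_lit 400) (nat_lit 372))))))) (XT.nd (nat_lit 702) (nat_lit 2508) (nat_lit 0) (XT.nd (nat_lit 312) (nat_lit 912) (nat_lit 0) (XT.nd (nat_lit 156) (nat_lit 1064) (nat_lit 0) (XT.nd (nat_lit 78) (nat_lit 0) (nat_lit 0) (XT.lf (nat_lit 608) (nat_lit 5709075227) (nat_lit 0) (nat_lit 5167684242) (nat_lit 532) (nat_lit 5167684242) (nat_lit 316) (nat_lit 1) (nat_lit 308) (nat_lit 1) (nat_lit 315) (nat_lit 1) (nat_lit 249) (nat_lit 400) (nat_lit 371)) (XT.lf (nat_lit 76) (nat_lit 1739890821) (nat_lit 0) (nat_lit 12361950268) (nat_lit 608) (nat_lit 1739890821) (nat_lit 309) (nat_lit 1) (nat_lit 308) (nat_lit 1) (nat_lit 316) (nat_lit 1) (nat_lit 250) (nat_lit 400) (nat_lit 370))) (XT.nd (nat_lit 78) (nat_lit 608) (nat_lit 0) (XT.lf (nat_lit 532) (nat_lit 1194223349) (nat_lit 0) (nat_lit 7223585510) (nat_lit 456) (nat_lit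 7223585510) (nat_lit 309) (nat_lit 1) (nat_lit 302) (nat_lit 1) (nat_lit 308) (nat_lit 1) (nat_lit 251) (nat_lit 400) (nat_lit 369)) (XT.lf (nat_lit 608) (nat_lit 14419519997) (nat_lit 0) (nat_lit 513213319) (nat_lit 532) (nat_lit 513213319) (nat_lit 302) (nat_lit 1) (nat_lit 294) (nat_lit 1) (nat_lit 301) (nat_lit 1) (nat_lit 252) (nat_lit 400) (nat_lit 368)))) (XT.nd (nat_lit 156) (nat_lit 456) (nat_lit 0) (XT.nd (nat_lit 78) (nat_lit 456) (nat_lit 0) (XT.lf (nat_lit 76) (nat_lit 5976658512) (nat_lit 0) (nat_lit 3298381895) (nat_lit 608) (nat_lit 5976658512) (nat_lit 295) (nat_lit 1) (nat_lit 294) (nat_lit 1) (nat_lit 302) (nat_lit 1) (nat_lit 253) (nat_lit 400) (nat_lit 367)) (XT.lf (nat_lit 532) (nat_lit 9526608129) (nat_lit 0) (nat_lit 2767779459) (nat_lit 456) (nat_lit 2767779459) (nat_lit 295) (nat_lit 1) (nat_lit 288) (nat_lit 1) (nat_lit 294) (nat_lit 1) (nat_lit 254) (nat_lit 400) (nat_lit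 366))) (XT.nd (nat_lit 78) (nat_lit 456) (nat_lit 0) (XT.lf (nat_lit 76) (nat_lit 3538128611) (nat_lit 0) (nat_lit 7799151031) (nat_lit 532) (nat_lit 3538128611) (nat_lit 289) (nat_lit 1) (nat_lit 288) (nat_lit 1) (nat_lit 295) (nat_lit 1) (nat_lit 255) (nat_lit 400) (nat_lit 365)) (XT.nd (nat_lit 78) (nat_lit 0) (nat_lit 0) (XT.lf (nat_lit 532) (nat_lit 4620813495) (nat_lit 0) (nat_lit 5035524242) (nat_lit 456) (nat_lit 5035524242) (nat_lit 289) (nat_lit 1) (nat_lit 282) (nat_lit 1) (nat_lit 288) (nat_lit 1) (nat_lit 256) (nat_lit 400) (nat_lit 364)) (XT.lf (nat_lit 76) (nat_lit 1095568458) (nat_lit 0) (nat_lit 12321192255) (nat_lit 532) (nat_lit 1095568458) (nat_lit 283) (nat_lit 1) (nat_lit 282) (nat_lit 1) (nat_lit 289) (nat_lit 1) (nat_lit 257) (nat_lit 400) (nat_lit 363)))))) (XT.nd (nat_lit 390) (nat_lit 1216) (nat_lit 0) (XT.nd (nat_lit 156) (nat_lit 380) (nat_lit 0) (XT.nd (nat_lit 78) (nat_lit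 456) (nat_lit 0) (XT.lf (nat_lit 76) (nat_lit 7025743275) (nat_lit 0) (nat_lit 282937376) (nat_lit 456) (nat_lit 7025743275) (nat_lit 277) (nat_lit 1) (nat_lit 276) (nat_lit 1) (nat_lit 282) (nat_lit 1) (nat_lit 258) (nat_lit 400) (nat_lit 362)) (XT.lf (nat_lit 532) (nat_lit 11493598154) (nat_lit 0) (nat_lit 1333394151) (nat_lit 456) (nat_lit 1333394151) (nat_lit 277) (nat_lit 1) (nat_lit 270) (nat_lit 1) (nat_lit 276) (nat_lit 1) (nat_lit 259) (nat_lit 400) (nat_lit 361))) (XT.nd (nat_lit 78) (nat_lit 380) (nat_lit 0) (XT.lf (nat_lit 76) (nat_lit 4448206679) (nat_lit 0) (nat_lit 5091690174) (nat_lit 532) (nat_lit 4448206679) (nat_lit 271) (nat_lit 1) (nat_lit 270) (nat_lit 1) (nat_lit 277) (nat_lit 1) (nat_lit 260) (nat_lit 400) (nat_lit 360)) (XT.nd (nat_lit 78) (nat_lit 0) (nat_lit 0) (XT.lf (nat_lit 456) (nat_lit 6324956192) (nat_lit 0) (nat_lit 3747214214) (nat_lit 380) (nat_lit 3747214214) (nat_lit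 271) (nat_lit 1) (nat_lit 265) (nat_lit 1) (nat_lit 270) (nat_lit 1) (nat_lit 261) (nat_lit 400) (nat_lit 359)) (XT.lf (nat_lit 76) (nat_lit 1882886253) (nat_lit 0) (nat_lit 9887983365) (nat_lit 456) (nat_lit 1882886253) (nat_lit 266) (nat_lit 1) (nat_lit 265) (nat_lit 1) (nat_lit 271) (nat_lit 1) (nat_lit 262) (nat_lit 400) (nat_lit 358))))) (XT.nd (nat_lit 156) (nat_lit 380) (nat_lit 0) (XT.nd (nat_lit 78) (nat_lit 456) (nat_lit 0) (XT.lf (nat_lit 456) (nat_lit 1184187138) (nat_lit 0) (nat_lit 6152970299) (nat_lit 380) (nat_lit 6152970299) (nat_lit 266) (nat_lit 1) (nat_lit 260) (nat_lit 1) (nat_lit 265) (nat_lit 1) (nat_lit 263) (nat_lit 400) (nat_lit 357)) (XT.lf (nat_lit 456) (nat_lit 12009297445) (nat_lit 0) (nat_lit 660426645) (nat_lit 380) (nat_lit 660426645) (nat_lit 260) (nat_lit 1) (nat_lit 254) (nat_lit 1) (nat_lit 259) (nat_lit 1) (nat_lit 264) (nat_lit 400) (nat_lit 356))) (XT.nd (nat_lit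 78) (nat_lit 380) (nat_lit 0) (XT.lf (nat_lit 76) (nat_lit 4662550557) (nat_lit 0) (nat_lit 3845937378) (nat_lit 456) (nat_lit 4662550557) (nat_lit 255) (nat_lit 1) (nat_lit 254) (nat_lit 1) (nat_lit 260) (nat_lit 1) (nat_lit 265) (nat_lit 400) (nat_lit 355)) (XT.nd (nat_lit 78) (nat_lit 0) (nat_lit 0) (XT.lf (nat_lit 456) (nat_lit 6681379990) (nat_lit 0) (nat_lit 3167041192) (nat_lit 380) (nat_lit 3167041192) (nat_lit 255) (nat_lit 1) (nat_lit 249) (nat_lit 1) (nat_lit 254) (nat_lit 1) (nat_lit 266) (nat_lit 400) (nat_lit 354)) (XT.lf (nat_lit 76) (nat_lit 2024254087) (nat_lit 0) (nat_lit 8813982658) (nat_lit 456) (nat_lit 2024254087) (nat_lit 250) (nat_lit 1) (nat_lit 249) (nat_lit 1) (nat_lit 255) (nat_lit 1) (nat_lit 267) (nat_lit 400) (nat_lit 353))))))))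
noncomputable def ec303 : XT := (XT.nd (nat_lit 1482) (nat_lit 2660) (nat_lit 0) (XT.nd (nat_lit 702) (nat_lit 1748) (nat_lit 0) (XT.nd (nat_lit 312) (nat_lit 988) (nat_lit 0) (XT.nd (nat_lit 156) (nat_lit 304) (nat_lit 0) (XT.nd (nat_lit 78) (nat_lit 456) (nat_lit 0) (XT.lf (nat_lit 380) (nat_lit 1405910352) (nat_lit 0) (nat_lit 5652773789) (nat_lit 304) (nat_lit 5652773789) (nat_lit 250) (nat_lit 1) (nat_lit 245) (nat_lit 1) (nat_lit 249) (nat_lit 1) (nat_lit 268) (nat_lit 400) (nat_lit 352)) (XT.lf (nat_lit 456) (nat_lit 11401606044) (nat_lit 0) (nat_lit 581066123) (nat_lit 380) (nat_lit 581066123) (nat_lit 245) (nat_lit 1) (nat_lit 239) (nat_lit 1) (nat_lit 244) (nat_lit 1) (nat_lit 269) (nat_lit 400) (nat_lit 351))) (XT.nd (nat_lit 78) (nat_lit 304) (nat_lit 0) (XT.lf (nat_lit 76) (nat_lit 4339149088) (nat_lit 0) (nat_lit 3738341384) (nat_lit 456) (nat_lit 4339149088) (nat_lit 240) (nat_lit 1)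 (nat_lit 239) (nat_lit 1) (nat_lit 245) (nat_lit 1) (nat_lit 270) (nat_lit 400) (nat_lit 350)) (XT.lf (nat_lit 380) (nat_lit 5997659551) (nat_lit 0) (nat_lit 3137549111) (nat_lit 304) (nat_lit 3137549111) (nat_lit 240) (nat_lit 1) (nat_lit 235) (nat_lit 1) (nat_lit 239) (nat_lit 1) (nat_lit 271) (nat_lit 400) (nat_lit 349)))) (XT.nd (nat_lit 156) (nat_lit 684) (nat_lit 0) (XT.nd (nat_lit 78) (nat_lit 304) (nat_lit 0) (XT.lf (nat_lit 76) (nat_lit 1667857505) (nat_lit 0) (nat_lit 8795622113) (nat_lit 380) (nat_lit 1667857505) (nat_lit 236) (nat_lit 1) (nat_lit 235) (nat_lit 1) (nat_lit 240) (nat_lit 1) (nat_lit 272) (nat_lit 400) (nat_lit 348)) (XT.lf (nat_lit 380) (nat_lit 665071245) (nat_lit 0) (nat_lit 5663226338) (nat_lit 304) (nat_lit 5663226338) (nat_lit 236) (nat_lit 1) (nat_lit 231) (nat_lit 1) (nat_lit 235) (nat_lit 1) (nat_lit 273) (nat_lit 400) (nat_lit 347))) (XT.nd (nat_lit 78) (nat_lit 304)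 (nat_lit 0) (XT.lf (nat_lit 380) (nat_lit 9939062647) (nat_lit 0) (nat_lit 957703607) (nat_lit 304) (nat_lit 957703607) (nat_lit 231) (nat_lit 1) (nat_lit 226) (nat_lit 1) (nat_lit 230) (nat_lit 1) (nat_lit 274) (nat_lit 400) (nat_lit 346)) (XT.nd (nat_lit 78) (nat_lit 304) (nat_lit 0) (XT.lf (nat_lit 76) (nat_lit 3607344365) (nat_lit 0) (nat_lit 4503666520) (nat_lit 380) (nat_lit 3607344365) (nat_lit 227) (nat_lit 1) (nat_lit 226) (nat_lit 1) (nat_lit 231) (nat_lit 1) (nat_lit 275) (nat_lit 400) (nat_lit 345)) (XT.lf (nat_lit 380) (nat_lit 4525511916) (nat_lit 0) (nat_lit 3529703600) (nat_lit 304) (nat_lit 3529703600) (nat_lit 227) (nat_lit 1) (nat_lit 222) (nat_lit 1) (nat_lit 226) (nat_lit 1) (nat_lit 276) (nat_lit 400) (nat_lit 344)))))) (XT.nd (nat_lit 390) (nat_lit 912) (nat_lit 0) (XT.nd (nat_lit 156) (nat_lit 532) (nat_lit 0) (XT.nd (nat_lit 78) (nat_lit 304) (nat_lit 0) (XT.lf (nat_lit 76)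 (nat_lit 934926796) (nat_lit 0) (nat_lit 9584210819) (nat_lit 380) (nat_lit 934926796) (nat_lit 223) (nat_lit 1) (nat_lit 222) (nat_lit 1) (nat_lit 227) (nat_lit 1) (nat_lit 277) (nat_lit 400) (nat_lit 343)) (XT.lf (nat_lit 76) (nat_lit 5268646293) (nat_lit 0) (nat_lit 786760239) (nat_lit 304) (nat_lit 5268646293) (nat_lit 219) (nat_lit 1) (nat_lit 218) (nat_lit 1) (nat_lit 222) (nat_lit 1) (nat_lit 278) (nat_lit 400) (nat_lit 342))) (XT.nd (nat_lit 78) (nat_lit 228) (nat_lit 0) (XT.lf (nat_lit 380) (nat_lit 7840863314) (nat_lit 0) (nat_lit 1677843843) (nat_lit 304) (nat_lit 1677843843) (nat_lit 219) (nat_lit 1) (nat_lit 214) (nat_lit 1) (nat_lit 218) (nat_lit 1) (nat_lit 279) (nat_lit 400) (nat_lit 341)) (XT.nd (nat_lit 78) (nat_lit 228) (nat_lit 0) (XT.lf (nat_lit 76) (nat_lit 2572669253) (nat_lit 0) (nat_lit 5925163178) (nat_lit 380) (nat_lit 2572669253) (nat_lit 215) (nat_lit 1) (nat_lit 214) (nat_lit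 1) (nat_lit 219) (nat_lit 1) (nat_lit 280) (nat_lit 400) (nat_lit 340)) (XT.lf (nat_lit 304) (nat_lit 2470234295) (nat_lit 0) (nat_lit 4238098738) (nat_lit 228) (nat_lit 4238098738) (nat_lit 215) (nat_lit 1) (nat_lit 211) (nat_lit 1) (nat_lit 214) (nat_lit 1) (nat_lit 281) (nat_lit 400) (nat_lit 339))))) (XT.nd (nat_lit 156) (nat_lit 532) (nat_lit 0) (XT.nd (nat_lit 78) (nat_lit 0) (nat_lit 0) (XT.lf (nat_lit 380) (nat_lit 10675247820) (nat_lit 0) (nat_lit 74963796) (nat_lit 304) (nat_lit 74963796) (nat_lit 211) (nat_lit 1) (nat_lit 206) (nat_lit 1) (nat_lit 210) (nat_lit 1) (nat_lit 282) (nat_lit 400) (nat_lit 338)) (XT.lf (nat_lit 76) (nat_lit 3977044382) (nat_lit 0) (nat_lit 2749591907) (nat_lit 380) (nat_lit 3977044382) (nat_lit 207) (nat_lit 1) (nat_lit 206) (nat_lit 1) (nat_lit 211) (nat_lit 1) (nat_lit 283) (nat_lit 400) (nat_lit 337))) (XT.nd (nat_lit 78) (nat_lit 304) (nat_lit 0) (XT.lf (nat_lit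 304) (nat_lit 5285229983) (nat_lit 0) (nat_lit 2649854738) (nat_lit 228) (nat_lit 2649854738) (nat_lit 207) (nat_lit 1) (nat_lit 203) (nat_lit 1) (nat_lit 206) (nat_lit 1) (nat_lit 284) (nat_lit 400) (nat_lit 336)) (XT.nd (nat_lit 78) (nat_lit 304) (nat_lit 0) (XT.lf (nat_lit 76) (nat_lit 1320887972) (nat_lit 0) (nat_lit 7826356642) (nat_lit 304) (nat_lit 1320887972) (nat_lit 204) (nat_lit 1) (nat_lit 203) (nat_lit 1) (nat_lit 207) (nat_lit 1) (nat_lit 285) (nat_lit 400) (nat_lit 335)) (XT.lf (nat_lit 76) (nat_lit 5175553463) (nat_lit 0) (nat_lit 1385695) (nat_lit 304) (nat_lit 5175553463) (nat_lit 200) (nat_lit 1) (nat_lit 199) (nat_lit 1) (nat_lit 203) (nat_lit 1) (nat_lit 286) (nat_lit 400) (nat_lit 334))))))) (XT.nd (nat_lit 702) (nat_lit 1216) (nat_lit 0) (XT.nd (nat_lit 312) (nat_lit 684) (nat_lit 0) (XT.nd (nat_lit 156) (nat_lit 532) (nat_lit 0) (XT.nd (nat_lit 78) (nat_lit 0) (nat_lit 0) (XT.lf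 (nat_lit 304) (nat_lit 7696303830) (nat_lit 0) (nat_lit 1271214916) (nat_lit 228) (nat_lit 1271214916) (nat_lit 200) (nat_lit 1) (nat_lit 196) (nat_lit 1) (nat_lit 199) (nat_lit 1) (nat_lit 287) (nat_lit 400) (nat_lit 333)) (XT.lf (nat_lit 76) (nat_lit 2521312034) (nat_lit 0) (nat_lit 5083444557) (nat_lit 304) (nat_lit 2521312034) (nat_lit 197) (nat_lit 1) (nat_lit 196) (nat_lit 1) (nat_lit 200) (nat_lit 1) (nat_lit 288) (nat_lit 400) (nat_lit 332))) (XT.nd (nat_lit 78) (nat_lit 304) (nat_lit 0) (XT.lf (nat_lit 304) (nat_lit 2416398257) (nat_lit 0) (nat_lit 3799417626) (nat_lit 228) (nat_lit 3799417626) (nat_lit 197) (nat_lit 1) (nat_lit 193) (nat_lit 1) (nat_lit 196) (nat_lit 1) (nat_lit 289) (nat_lit 400) (nat_lit 331)) (XT.lf (nat_lit 304) (nat_lit 9751120099) (nat_lit 0) (nat_lit 77859253) (nat_lit 228) (nat_lit 77859253) (nat_lit 193) (nat_lit 1) (nat_lit 189) (nat_lit 1) (nat_lit 192) (nat_lit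 1) (nat_lit 290) (nat_lit 400) (nat_lit 330)))) (XT.nd (nat_lit 156) (nat_lit 456) (nat_lit 0) (XT.nd (nat_lit 78) (nat_lit 228) (nat_lit 0) (XT.lf (nat_lit 76) (nat_lit 3548619278) (nat_lit 0) (nat_lit 2700873724) (nat_lit 304) (nat_lit 3548619278) (nat_lit 190) (nat_lit 1) (nat_lit 189) (nat_lit 1) (nat_lit 193) (nat_lit 1) (nat_lit 291) (nat_lit 400) (nat_lit 329)) (XT.lf (nat_lit 304) (nat_lit 4494175382) (nat_lit 0) (nat_lit 2598803062) (nat_lit 228) (nat_lit 2598803062) (nat_lit 190) (nat_lit 1) (nat_lit 186) (nat_lit 1) (nat_lit 189) (nat_lit 1) (nat_lit 292) (nat_lit 400) (nat_lit 328))) (XT.nd (nat_lit 78) (nat_lit 456) (nat_lit 0) (XT.lf (nat_lit 76) (nat_lit 961216397) (nat_lit 0) (nat_lit 7664818926) (nat_lit 304) (nat_lit 961216397) (nat_lit 187) (nat_lit 1) (nat_lit 186) (nat_lit 1) (nat_lit 190) (nat_lit 1) (nat_lit 293) (nat_lit 400) (nat_lit 327)) (XT.nd (nat_lit 78) (nat_lit 228) (nat_lit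 0) (XT.lf (nat_lit 76) (nat_lit 4423257794) (nat_lit 0) (nat_lit 636874891) (nat_lit 228) (nat_lit 4423257794) (nat_lit 184) (nat_lit 1) (nat_lit 183) (nat_lit 1) (nat_lit 186) (nat_lit 1) (nat_lit 294) (nat_lit 400) (nat_lit 326)) (XT.lf (nat_lit 304) (nat_lit 6271887325) (nat_lit 0) (nat_lit 1554701610) (nat_lit 228) (nat_lit 1554701610) (nat_lit 184) (nat_lit 1) (nat_lit 180) (nat_lit 1) (nat_lit 183) (nat_lit 1) (nat_lit 295) (nat_lit 400) (nat_lit 325)))))) (XT.nd (nat_lit 390) (nat_lit 608) (nat_lit 0) (XT.nd (nat_lit 156) (nat_lit 456) (nat_lit 0) (XT.nd (nat_lit 78) (nat_lit 152) (nat_lit 0) (XT.lf (nat_lit 76) (nat_lit 1855075170) (nat_lit 0) (nat_lit 5570205378) (nat_lit 304) (nat_lit 1855075170) (nat_lit 181) (nat_lit 1) (nat_lit 180) (nat_lit 1) (nat_lit 184) (nat_lit 1) (nat_lit 296) (nat_lit 400) (nat_lit 324)) (XT.lf (nat_lit 228) (nat_lit 1168417198) (nat_lit 0) (nat_lit 4006176483)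 (nat_lit 152) (nat_lit 4006176483) (nat_lit 181) (nat_lit 1) (nat_lit 178) (nat_lit 1) (nat_lit 180) (nat_lit 1) (nat_lit 297) (nat_lit 400) (nat_lit 323))) (XT.nd (nat_lit 78) (nat_lit 152) (nat_lit 0) (XT.lf (nat_lit 304) (nat_lit 7784986487) (nat_lit 0) (nat_lit 649000932) (nat_lit 228) (nat_lit 649000932) (nat_lit 178) (nat_lit 1) (nat_lit 174) (nat_lit 1) (nat_lit 177) (nat_lit 1) (nat_lit 298) (nat_lit 400) (nat_lit 322)) (XT.nd (nat_lit 78) (nat_lit 152) (nat_lit 0) (XT.lf (nat_lit 76) (nat_lit 2620100408) (nat_lit 0) (nat_lit 3745281583) (nat_lit 304) (nat_lit 2620100408) (nat_lit 175) (nat_lit 1) (nat_lit 174) (nat_lit 1) (nat_lit 178) (nat_lit 1) (nat_lit 299) (nat_lit 400) (nat_lit 321)) (XT.lf (nat_lit 228) (nat_lit 2732816670) (nat_lit 0) (nat_lit 3078465143) (nat_lit 152) (nat_lit 3078465143) (nat_lit 175) (nat_lit 1) (nat_lit 172) (nat_lit 1) (nat_lit 174) (nat_lit 1) (nat_lit 300) (nat_lit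 400) (nat_lit 320))))) (XT.nd (nat_lit 156) (nat_lit 380) (nat_lit 0) (XT.nd (nat_lit 78) (nat_lit 228) (nat_lit 0) (XT.lf (nat_lit 76) (nat_lit 135702769) (nat_lit 0) (nat_lit 8524606302) (nat_lit 228) (nat_lit 135702769) (nat_lit 173) (nat_lit 1) (nat_lit 172) (nat_lit 1) (nat_lit 175) (nat_lit 1) (nat_lit 301) (nat_lit 400) (nat_lit 319)) (XT.lf (nat_lit 76) (nat_lit 3271507943) (nat_lit 0) (nat_lit 2158921799) (nat_lit 228) (nat_lit 3271507943) (nat_lit 170) (nat_lit 1) (nat_lit 169) (nat_lit 1) (nat_lit 172) (nat_lit 1) (nat_lit 302) (nat_lit 400) (nat_lit 318))) (XT.nd (nat_lit 78) (nat_lit 228) (nat_lit 0) (XT.lf (nat_lit 228) (nat_lit 4073405345) (nat_lit 0) (nat_lit 2268214492) (nat_lit 152) (nat_lit 2268214492) (nat_lit 170) (nat_lit 1) (nat_lit 167) (nat_lit 1) (nat_lit 169) (nat_lit 1) (nat_lit 303) (nat_lit 400) (nat_lit 317)) (XT.nd (nat_lit 78) (nat_lit 228) (nat_lit 0) (XT.lf (nat_lit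 76) (nat_lit 817697230) (nat_lit 0) (nat_lit 6883844451) (nat_lit 228) (nat_lit 817697230) (nat_lit 168) (nat_lit 1) (nat_lit 167) (nat_lit 1) (nat_lit 170) (nat_lit 1) (nat_lit 304) (nat_lit 400) (nat_lit 316)) (XT.lf (nat_lit 76) (nat_lit 3822792111) (nat_lit 0) (nat_lit 783501844) (nat_lit 228) (nat_lit 3822792111) (nat_lit 165) (nat_lit 1) (nat_lit 164) (nat_lit 1) (nat_lit 167) (nat_lit 1) (nat_lit 305) (nat_lit 400) (nat_lit 315))))))))
noncomputable def ec304 : XT := (XT.nd (nat_lit 1404) (nat_lit 1748) (nat_lit 0) (XT.nd (nat_lit 702) (nat_lit 912) (nat_lit 0) (XT.nd (nat_lit 312) (nat_lit 532) (nat_lit 0) (XT.nd (nat_lit 156) (nat_lit 380) (nat_lit 0) (XT.nd (nat_lit 78) (nat_lit 0) (nat_lit 0) (XT.lf (nat_lit 228) (nat_lit 5216578694) (nat_lit 0) (nat_lit 1561918115) (nat_lit 152) (nat_lit 1561918115) (nat_lit 165) (nat_lit 1) (nat_lit 162) (nat_lit 1) (nat_lit 164) (nat_lit 1) (nat_lit 306)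 (nat_lit 400) (nat_lit 314)) (XT.lf (nat_lit 76) (nat_lit 1403335803) (nat_lit 0) (nat_lit 5446150483) (nat_lit 228) (nat_lit 1403335803) (nat_lit 163) (nat_lit 1) (nat_lit 162) (nat_lit 1) (nat_lit 165) (nat_lit 1) (nat_lit 307) (nat_lit 400) (nat_lit 313))) (XT.nd (nat_lit 78) (nat_lit 228) (nat_lit 0) (XT.lf (nat_lit 228) (nat_lit 413562356) (nat_lit 0) (nat_lit 3876331496) (nat_lit 152) (nat_lit 3876331496) (nat_lit 163) (nat_lit 1) (nat_lit 160) (nat_lit 1) (nat_lit 162) (nat_lit 1) (nat_lit 308) (nat_lit 400) (nat_lit 312)) (XT.lf (nat_lit 228) (nat_lit 6185746881) (nat_lit 0) (nat_lit 947587624) (nat_lit 152) (nat_lit 947587624) (nat_lit 160) (nat_lit 1) (nat_lit 157) (nat_lit 1) (nat_lit 159) (nat_lit 1) (nat_lit 309) (nat_lit 400) (nat_lit 311)))) (XT.nd (nat_lit 156) (nat_lit 380) (nat_lit 0) (XT.nd (nat_lit 78) (nat_lit 152) (nat_lit 0) (XT.lf (nat_lit 76) (nat_lit 1903954816) (nat_lit 0)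 (nat_lit 4188294211) (nat_lit 228) (nat_lit 1903954816) (nat_lit 158) (nat_lit 1) (nat_lit 157) (nat_lit 1) (nat_lit 160) (nat_lit 1) (nat_lit 310) (nat_lit 400) (nat_lit 310)) (XT.lf (nat_lit 228) (nat_lit 1458268073) (nat_lit 0) (nat_lit 3227244519) (nat_lit 152) (nat_lit 3227244519) (nat_lit 158) (nat_lit 1) (nat_lit 155) (nat_lit 1) (nat_lit 157) (nat_lit 1) (nat_lit 311) (nat_lit 400) (nat_lit 309))) (XT.nd (nat_lit 78) (nat_lit 152) (nat_lit 0) (XT.lf (nat_lit 228) (nat_lit 7001668875) (nat_lit 0) (nat_lit 414583028) (nat_lit 152) (nat_lit 414583028) (nat_lit 155) (nat_lit 1) (nat_lit 152) (nat_lit 1) (nat_lit 154) (nat_lit 1) (nat_lit 312) (nat_lit 400) (nat_lit 308)) (XT.nd (nat_lit 78) (nat_lit 152) (nat_lit 0) (XT.lf (nat_lit 76) (nat_lit 2329609225) (nat_lit 0) (nat_lit 3089652972) (nat_lit 228) (nat_lit 2329609225) (nat_lit 153) (nat_lit 1) (nat_lit 152) (nat_lit 1) (nat_lit 155) (nat_lit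 1) (nat_lit 313) (nat_lit 400) (nat_lit 307)) (XT.lf (nat_lit 228) (nat_lit 2354704020) (nat_lit 0) (nat_lit 2656854462) (nat_lit 152) (nat_lit 2656854462) (nat_lit 153) (nat_lit 1) (nat_lit 150) (nat_lit 1) (nat_lit 152) (nat_lit 1) (nat_lit 314) (nat_lit 400) (nat_lit 306)))))) (XT.nd (nat_lit 312) (nat_lit 608) (nat_lit 0) (XT.nd (nat_lit 156) (nat_lit 152) (nat_lit 0) (XT.nd (nat_lit 78) (nat_lit 152) (nat_lit 0) (XT.lf (nat_lit 76) (nat_lit 46998734) (nat_lit 0) (nat_lit 7495621403) (nat_lit 228) (nat_lit 46998734) (nat_lit 151) (nat_lit 1) (nat_lit 150) (nat_lit 1) (nat_lit 153) (nat_lit 1) (nat_lit 315) (nat_lit 400) (nat_lit 305)) (XT.lf (nat_lit 76) (nat_lit 2689216002) (nat_lit 0) (nat_lit 2131920349) (nat_lit 152) (nat_lit 2689216002) (nat_lit 149) (nat_lit 1) (nat_lit 148) (nat_lit 1) (nat_lit 150) (nat_lit 1) (nat_lit 316) (nat_lit 400) (nat_lit 304))) (XT.nd (nat_lit 78) (nat_lit 0) (nat_lit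 0) (XT.lf (nat_lit 228) (nat_lit 3120329581) (nat_lit 0) (nat_lit 2156201657) (nat_lit 152) (nat_lit 2156201657) (nat_lit 149) (nat_lit 1) (nat_lit 146) (nat_lit 1) (nat_lit 148) (nat_lit 1) (nat_lit 317) (nat_lit 400) (nat_lit 303)) (XT.lf (nat_lit 76) (nat_lit 448551389) (nat_lit 0) (nat_lit 6459371585) (nat_lit 228) (nat_lit 448551389) (nat_lit 147) (nat_lit 1) (nat_lit 146) (nat_lit 1) (nat_lit 149) (nat_lit 1) (nat_lit 318) (nat_lit 400) (nat_lit 302)))) (XT.nd (nat_lit 156) (nat_lit 304) (nat_lit 0) (XT.nd (nat_lit 78) (nat_lit 152) (nat_lit 0) (XT.lf (nat_lit 76) (nat_lit 2990681527) (nat_lit 0) (nat_lit 1298847405) (nat_lit 152) (nat_lit 2990681527) (nat_lit 145) (nat_lit 1) (nat_lit 144) (nat_lit 1) (nat_lit 146) (nat_lit 1) (nat_lit 319) (nat_lit 400) (nat_lit 301)) (XT.lf (nat_lit 228) (nat_lit 3770630241) (nat_lit 0) (nat_lit 1717330915) (nat_lit 152) (nat_lit 1717330915) (nat_lit 145) (nat_lit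 1) (nat_lit 142) (nat_lit 1) (nat_lit 144) (nat_lit 1) (nat_lit 320) (nat_lit 400) (nat_lit 300))) (XT.nd (nat_lit 78) (nat_lit 304) (nat_lit 0) (XT.lf (nat_lit 76) (nat_lit 793477365) (nat_lit 0) (nat_lit 5544513673) (nat_lit 228) (nat_lit 793477365) (nat_lit 143) (nat_lit 1) (nat_lit 142) (nat_lit 1) (nat_lit 145) (nat_lit 1) (nat_lit 321) (nat_lit 400) (nat_lit 299)) (XT.nd (nat_lit 78) (nat_lit 152) (nat_lit 0) (XT.lf (nat_lit 76) (nat_lit 3241014754) (nat_lit 0) (nat_lit 576012774) (nat_lit 152) (nat_lit 3241014754) (nat_lit 141) (nat_lit 1) (nat_lit 140) (nat_lit 1) (nat_lit 142) (nat_lit 1) (nat_lit 322) (nat_lit 400) (nat_lit 298)) (XT.lf (nat_lit 228) (nat_lit 4319338484) (nat_lit 0) (nat_lit 1333179352) (nat_lit 152) (nat_lit 1333179352) (nat_lit 141) (nat_lit 1) (nat_lit 138) (nat_lit 1) (nat_lit 140) (nat_lit 1) (nat_lit 323) (nat_lit 400) (nat_lit 297))))))) (XT.nd (nat_lit 702) (nat_lit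 836) (nat_lit 0) (XT.nd (nat_lit 312) (nat_lit 608) (nat_lit 0) (XT.nd (nat_lit 156) (nat_lit 228) (nat_lit 0) (XT.nd (nat_lit 78) (nat_lit 76) (nat_lit 0) (XT.lf (nat_lit 76) (nat_lit 1088436366) (nat_lit 0) (nat_lit 4737340898) (nat_lit 228) (nat_lit 1088436366) (nat_lit 139) (nat_lit 1) (nat_lit 138) (nat_lit 1) (nat_lit 141) (nat_lit 1) (nat_lit 324) (nat_lit 400) (nat_lit 296)) (XT.lf (nat_lit 152) (nat_lit 50364379) (nat_lit 0) (nat_lit 3396547494) (nat_lit 76) (nat_lit 3396547494) (nat_lit 139) (nat_lit 1) (nat_lit 137) (nat_lit 1) (nat_lit 138) (nat_lit 1) (nat_lit 325) (nat_lit 400) (nat_lit 295))) (XT.nd (nat_lit 78) (nat_lit 0) (nat_lit 0) (XT.lf (nat_lit 228) (nat_lit 4778630039) (nat_lit 0) (nat_lit 997476740) (nat_lit 152) (nat_lit 997476740) (nat_lit 137) (nat_lit 1) (nat_lit 134) (nat_lit 1) (nat_lit 136) (nat_lit 1) (nat_lit 326) (nat_lit 400) (nat_lit 294)) (XT.lf (nat_lit 76) (nat_lit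 1339335405) (nat_lit 0) (nat_lit 4025679926) (nat_lit 228) (nat_lit 1339335405) (nat_lit 135) (nat_lit 1) (nat_lit 134) (nat_lit 1) (nat_lit 137) (nat_lit 1) (nat_lit 327) (nat_lit 400) (nat_lit 293)))) (XT.nd (nat_lit 156) (nat_lit 304) (nat_lit 0) (XT.nd (nat_lit 78) (nat_lit 228) (nat_lit 0) (XT.lf (nat_lit 152) (nat_lit 600407993) (nat_lit 0) (nat_lit 3017788456) (nat_lit 76) (nat_lit 3017788456) (nat_lit 135) (nat_lit 1) (nat_lit 133) (nat_lit 1) (nat_lit 134) (nat_lit 1) (nat_lit 328) (nat_lit 400) (nat_lit 292)) (XT.lf (nat_lit 228) (nat_lit 5159298217) (nat_lit 0) (nat_lit 704656963) (nat_lit 152) (nat_lit 704656963) (nat_lit 133) (nat_lit 1) (nat_lit 130) (nat_lit 1) (nat_lit 132) (nat_lit 1) (nat_lit 329) (nat_lit 400) (nat_lit 291))) (XT.nd (nat_lit 78) (nat_lit 304) (nat_lit 0) (XT.lf (nat_lit 76) (nat_lit 1551413025) (nat_lit 0) (nat_lit 3398719712) (nat_lit 228) (nat_lit 1551413025) (nat_lit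 131) (nat_lit 1) (nat_lit 130) (nat_lit 1) (nat_lit 133) (nat_lit 1) (nat_lit 330) (nat_lit 400) (nat_lit 290)) (XT.nd (nat_lit 78) (nat_lit 228) (nat_lit 0) (XT.lf (nat_lit 152) (nat_lit 1072930352) (nat_lit 0) (nat_lit 2681265956) (nat_lit 76) (nat_lit 2681265956) (nat_lit 131) (nat_lit 1) (nat_lit 129) (nat_lit 1) (nat_lit 130) (nat_lit 1) (nat_lit 331) (nat_lit 400) (nat_lit 289)) (XT.lf (nat_lit 228) (nat_lit 5470908788) (nat_lit 0) (nat_lit 449779360) (nat_lit 152) (nat_lit 449779360) (nat_lit 129) (nat_lit 1) (nat_lit 126) (nat_lit 1) (nat_lit 128) (nat_lit 1) (nat_lit 332) (nat_lit 400) (nat_lit 288)))))) (XT.nd (nat_lit 390) (nat_lit 456) (nat_lit 0) (XT.nd (nat_lit 156) (nat_lit 304) (nat_lit 0) (XT.nd (nat_lit 78) (nat_lit 76) (nat_lit 0) (XT.lf (nat_lit 76) (nat_lit 1729314132) (nat_lit 0) (nat_lit 2846859452) (nat_lit 228) (nat_lit 1729314132) (nat_lit 127) (nat_lit 1) (nat_lit 126) (nat_lit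 1) (nat_lit 129) (nat_lit 1) (nat_lit 333) (nat_lit 400) (nat_lit 287)) (XT.lf (nat_lit 152) (nat_lit 1477047465) (nat_lit 0) (nat_lit 2382270074) (nat_lit 76) (nat_lit 2382270074) (nat_lit 127) (nat_lit 1) (nat_lit 125) (nat_lit 1) (nat_lit 126) (nat_lit 1) (nat_lit 334) (nat_lit 400) (nat_lit 286))) (XT.nd (nat_lit 78) (nat_lit 76) (nat_lit 0) (XT.lf (nat_lit 228) (nat_lit 5721937566) (nat_lit 0) (nat_lit 228458841) (nat_lit 152) (nat_lit 228458841) (nat_lit 125) (nat_lit 1) (nat_lit 122) (nat_lit 1) (nat_lit 124) (nat_lit 1) (nat_lit 335) (nat_lit 400) (nat_lit 285)) (XT.nd (nat_lit 78) (nat_lit 76) (nat_lit 0) (XT.lf (nat_lit 76) (nat_lit 1877156463) (nat_lit 0) (nat_lit 2361573487) (nat_lit 228) (nat_lit 1877156463) (nat_lit 123) (nat_lit 1) (nat_lit 122) (nat_lit 1) (nat_lit 125) (nat_lit 1) (nat_lit 336) (nat_lit 400) (nat_lit 284)) (XT.lf (nat_lit 152) (nat_lit 1820845060) (nat_lit 0) (nat_lit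 2116616105) (nat_lit 76) (nat_lit 2116616105) (nat_lit 123) (nat_lit 1) (nat_lit 121) (nat_lit 1) (nat_lit 122) (nat_lit 1) (nat_lit 337) (nat_lit 400) (nat_lit 283))))) (XT.nd (nat_lit 156) (nat_lit 228) (nat_lit 0) (XT.nd (nat_lit 78) (nat_lit 0) (nat_lit 0) (XT.lf (nat_lit 228) (nat_lit 5919892627) (nat_lit 0) (nat_lit 36803793) (nat_lit 152) (nat_lit 36803793) (nat_lit 121) (nat_lit 1) (nat_lit 118) (nat_lit 1) (nat_lit 120) (nat_lit 1) (nat_lit 338) (nat_lit 400) (nat_lit 282)) (XT.lf (nat_lit 76) (nat_lit 1998589646) (nat_lit 0) (nat_lit 1935291277) (nat_lit 228) (nat_lit 1998589646) (nat_lit 119) (nat_lit 1) (nat_lit 118) (nat_lit 1) (nat_lit 121) (nat_lit 1) (nat_lit 339) (nat_lit 400) (nat_lit 281))) (XT.nd (nat_lit 78) (nat_lit 152) (nat_lit 0) (XT.lf (nat_lit 152) (nat_lit 2111493872) (nat_lit 0) (nat_lit 1880585995) (nat_lit 76) (nat_lit 1880585995) (nat_lit 119) (nat_lit 1) (nat_lit 117)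 (nat_lit 1) (nat_lit 118) (nat_lit 1) (nat_lit 340) (nat_lit 400) (nat_lit 280)) (XT.nd (nat_lit 78) (nat_lit 152) (nat_lit 0) (XT.lf (nat_lit 0) (nat_lit 129912724) (nat_lit 0) (nat_lit 5554168682) (nat_lit 152) (nat_lit 129912724) (nat_lit 117) (nat_lit 3) (nat_lit 117) (nat_lit 1) (nat_lit 119) (nat_lit 1) (nat_lit 341) (nat_lit 400) (nat_lit 279)) (XT.lf (nat_lit 76) (nat_lit 2096847657) (nat_lit 0) (nat_lit 1561290770) (nat_lit 152) (nat_lit 2096847657) (nat_lit 116) (nat_lit 1) (nat_lit 115) (nat_lit 1) (nat_lit 117) (nat_lit 1) (nat_lit 342) (nat_lit 400) (nat_lit 278))))))))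
noncomputable def ec305 : XT := (XT.nd (nat_lit 1482) (nat_lit 1368) (nat_lit 0) (XT.nd (nat_lit 702) (nat_lit 760) (nat_lit 0) (XT.nd (nat_lit 312) (nat_lit 380) (nat_lit 0) (XT.nd (nat_lit 156) (nat_lit 228) (nat_lit 0) (XT.nd (nat_lit 78) (nat_lit 0) (nat_lit 0) (XT.lf (nat_lit 152) (nat_lit 2355352064) (nat_lit 0) (nat_lit 1670876299) (nat_lit 76) (nat_lit 1670876299) (nat_lit 116) (nat_lit 1) (nat_lit 114) (nat_lit 1) (nat_lit 115) (nat_lit 1) (nat_lit 343) (nat_lit 400) (nat_lit 277)) (XT.lf (nat_lit 0) (nat_lit 273616237) (nat_lit 0) (nat_lit 5092997400) (nat_lit 152) (nat_lit 273616237) (nat_lit 114) (nat_lit 3) (nat_lit 114) (nat_lit 1) (nat_lit 116) (nat_lit 1) (nat_lit 344) (nat_lit 400) (nat_lit 276))) (XT.nd (nat_lit 78) (nat_lit 76) (nat_lit 0) (XT.lf (nat_lit 76) (nat_lit 2174795424) (nat_lit 0) (nat_lit 1233603652) (nat_lit 152) (nat_lit 2174795424) (nat_lit 113) (nat_lit 1) (nat_lit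 112) (nat_lit 1) (nat_lit 114) (nat_lit 1) (nat_lit 345) (nat_lit 400) (nat_lit 275)) (XT.lf (nat_lit 152) (nat_lit 2558056217) (nat_lit 0) (nat_lit 1484551950) (nat_lit 76) (nat_lit 1484551950) (nat_lit 113) (nat_lit 1) (nat_lit 111) (nat_lit 1) (nat_lit 112) (nat_lit 1) (nat_lit 346) (nat_lit 400) (nat_lit 274)))) (XT.nd (nat_lit 156) (nat_lit 228) (nat_lit 0) (XT.nd (nat_lit 78) (nat_lit 152) (nat_lit 0) (XT.lf (nat_lit 0) (nat_lit 396687458) (nat_lit 0) (nat_lit 4678645200) (nat_lit 152) (nat_lit 396687458) (nat_lit 111) (nat_lit 3) (nat_lit 111) (nat_lit 1) (nat_lit 113) (nat_lit 1) (nat_lit 347) (nat_lit 400) (nat_lit 273)) (XT.lf (nat_lit 76) (nat_lit 2234970225) (nat_lit 0) (nat_lit 946931182) (nat_lit 152) (nat_lit 2234970225) (nat_lit 110) (nat_lit 1) (nat_lit 109) (nat_lit 1) (nat_lit 111) (nat_lit 1) (nat_lit 348) (nat_lit 400) (nat_lit 272))) (XT.nd (nat_lit 78) (nat_lit 152) (nat_lit 0)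 (XT.lf (nat_lit 152) (nat_lit 2724602160) (nat_lit 0) (nat_lit 1319005180) (nat_lit 76) (nat_lit 1319005180) (nat_lit 110) (nat_lit 1) (nat_lit 108) (nat_lit 1) (nat_lit 109) (nat_lit 1) (nat_lit 349) (nat_lit 400) (nat_lit 271)) (XT.nd (nat_lit 78) (nat_lit 152) (nat_lit 0) (XT.lf (nat_lit 0) (nat_lit 501561353) (nat_lit 0) (nat_lit 4306025347) (nat_lit 152) (nat_lit 501561353) (nat_lit 108) (nat_lit 3) (nat_lit 108) (nat_lit 1) (nat_lit 110) (nat_lit 1) (nat_lit 350) (nat_lit 400) (nat_lit 270)) (XT.lf (nat_lit 76) (nat_lit 2279618466) (nat_lit 0) (nat_lit 696569407) (nat_lit 152) (nat_lit 2279618466) (nat_lit 107) (nat_lit 1) (nat_lit 106) (nat_lit 1) (nat_lit 108) (nat_lit 1) (nat_lit 351) (nat_lit 400) (nat_lit 269)))))) (XT.nd (nat_lit 390) (nat_lit 456) (nat_lit 0) (XT.nd (nat_lit 156) (nat_lit 228) (nat_lit 0) (XT.nd (nat_lit 78) (nat_lit 0) (nat_lit 0) (XT.lf (nat_lit 152) (nat_lit 2859416782)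 (nat_lit 0) (nat_lit 1171919018) (nat_lit 76) (nat_lit 1171919018) (nat_lit 107) (nat_lit 1) (nat_lit 105) (nat_lit 1) (nat_lit 106) (nat_lit 1) (nat_lit 352) (nat_lit 400) (nat_lit 268)) (XT.lf (nat_lit 0) (nat_lit 590397450) (nat_lit 0) (nat_lit 3970614433) (nat_lit 152) (nat_lit 590397450) (nat_lit 105) (nat_lit 3) (nat_lit 105) (nat_lit 1) (nat_lit 107) (nat_lit 1) (nat_lit 353) (nat_lit 400) (nat_lit 267))) (XT.nd (nat_lit 78) (nat_lit 76) (nat_lit 0) (XT.lf (nat_lit 76) (nat_lit 2310728344) (nat_lit 0) (nat_lit 478342717) (nat_lit 152) (nat_lit 2310728344) (nat_lit 104) (nat_lit 1) (nat_lit 103) (nat_lit 1) (nat_lit 105) (nat_lit 1) (nat_lit 354) (nat_lit 400) (nat_lit 266)) (XT.nd (nat_lit 78) (nat_lit 0) (nat_lit 0) (XT.lf (nat_lit 152) (nat_lit 2966421817) (nat_lit 0) (nat_lit 1041234869) (nat_lit 76) (nat_lit 1041234869) (nat_lit 104) (nat_lit 1) (nat_lit 102) (nat_lit 1) (nat_lit 103) (nat_lit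 1) (nat_lit 355) (nat_lit 400) (nat_lit 265)) (XT.lf (nat_lit 0) (nat_lit 665110666) (nat_lit 0) (nat_lit 3668389674) (nat_lit 152) (nat_lit 665110666) (nat_lit 102) (nat_lit 3) (nat_lit 102) (nat_lit 1) (nat_lit 104) (nat_lit 1) (nat_lit 356) (nat_lit 400) (nat_lit 264))))) (XT.nd (nat_lit 156) (nat_lit 228) (nat_lit 0) (XT.nd (nat_lit 78) (nat_lit 76) (nat_lit 0) (XT.lf (nat_lit 76) (nat_lit 2330058867) (nat_lit 0) (nat_lit 288544824) (nat_lit 152) (nat_lit 2330058867) (nat_lit 101) (nat_lit 1) (nat_lit 100) (nat_lit 1) (nat_lit 102) (nat_lit 1) (nat_lit 357) (nat_lit 400) (nat_lit 263)) (XT.lf (nat_lit 152) (nat_lit 3049090510) (nat_lit 0) (nat_lit 925123695) (nat_lit 76) (nat_lit 925123695) (nat_lit 101) (nat_lit 1) (nat_lit 99) (nat_lit 1) (nat_lit 100) (nat_lit 1) (nat_lit 358) (nat_lit 400) (nat_lit 262))) (XT.nd (nat_lit 78) (nat_lit 228) (nat_lit 0) (XT.lf (nat_lit 0) (nat_lit 727398696) (nat_lit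 0) (nat_lit 3395773196) (nat_lit 152) (nat_lit 727398696) (nat_lit 99) (nat_lit 3) (nat_lit 99) (nat_lit 1) (nat_lit 101) (nat_lit 1) (nat_lit 359) (nat_lit 400) (nat_lit 261)) (XT.nd (nat_lit 78) (nat_lit 76) (nat_lit 0) (XT.lf (nat_lit 76) (nat_lit 2339165632) (nat_lit 0) (nat_lit 123886316) (nat_lit 152) (nat_lit 2339165632) (nat_lit 98) (nat_lit 1) (nat_lit 97) (nat_lit 1) (nat_lit 99) (nat_lit 1) (nat_lit 360) (nat_lit 400) (nat_lit 260)) (XT.lf (nat_lit 152) (nat_lit 3110497957) (nat_lit 0) (nat_lit 821960420) (nat_lit 76) (nat_lit 821960420) (nat_lit 98) (nat_lit 1) (nat_lit 96) (nat_lit 1) (nat_lit 97) (nat_lit 1) (nat_lit 361) (nat_lit 400) (nat_lit 259))))))) (XT.nd (nat_lit 702) (nat_lit 684) (nat_lit 0) (XT.nd (nat_lit 312) (nat_lit 456) (nat_lit 0) (XT.nd (nat_lit 156) (nat_lit 152) (nat_lit 0) (XT.nd (nat_lit 78) (nat_lit 76) (nat_lit 0) (XT.lf (nat_lit 0) (nat_lit 778766343) (nat_lit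 0) (nat_lit 3149582526) (nat_lit 152) (nat_lit 778766343) (nat_lit 96) (nat_lit 3) (nat_lit 96) (nat_lit 1) (nat_lit 98) (nat_lit 1) (nat_lit 362) (nat_lit 400) (nat_lit 258)) (XT.lf (nat_lit 76) (nat_lit 18921156) (nat_lit 0) (nat_lit 2320684440) (nat_lit 76) (nat_lit 2320684440) (nat_lit 96) (nat_lit 3) (nat_lit 95) (nat_lit 1) (nat_lit 96) (nat_lit 1) (nat_lit 363) (nat_lit 400) (nat_lit 257))) (XT.nd (nat_lit 78) (nat_lit 0) (nat_lit 0) (XT.lf (nat_lit 152) (nat_lit 3153365818) (nat_lit 0) (nat_lit 730301187) (nat_lit 76) (nat_lit 730301187) (nat_lit 95) (nat_lit 1) (nat_lit 93) (nat_lit 1) (nat_lit 94) (nat_lit 1) (nat_lit 364) (nat_lit 400) (nat_lit 256)) (XT.lf (nat_lit 0) (nat_lit 820547133) (nat_lit 0) (nat_lit 2926986604) (nat_lit 152) (nat_lit 820547133) (nat_lit 93) (nat_lit 3) (nat_lit 93) (nat_lit 1) (nat_lit 95) (nat_lit 1) (nat_lit 365) (nat_lit 400) (nat_lit 255)))) (XT.nd (nat_lit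 156) (nat_lit 228) (nat_lit 0) (XT.nd (nat_lit 78) (nat_lit 152) (nat_lit 0) (XT.lf (nat_lit 76) (nat_lit 144173512) (nat_lit 0) (nat_lit 2189260378) (nat_lit 76) (nat_lit 2189260378) (nat_lit 93) (nat_lit 3) (nat_lit 92) (nat_lit 1) (nat_lit 93) (nat_lit 1) (nat_lit 366) (nat_lit 400) (nat_lit 254)) (XT.lf (nat_lit 152) (nat_lit 3180102037) (nat_lit 0) (nat_lit 648863146) (nat_lit 76) (nat_lit 648863146) (nat_lit 92) (nat_lit 1) (nat_lit 90) (nat_lit 1) (nat_lit 91) (nat_lit 1) (nat_lit 367) (nat_lit 400) (nat_lit 253))) (XT.nd (nat_lit 78) (nat_lit 228) (nat_lit 0) (XT.lf (nat_lit 0) (nat_lit 853922513) (nat_lit 0) (nat_lit 2725466700) (nat_lit 152) (nat_lit 853922513) (nat_lit 90) (nat_lit 3) (nat_lit 90) (nat_lit 1) (nat_lit 92) (nat_lit 1) (nat_lit 368) (nat_lit 400) (nat_lit 252)) (XT.nd (nat_lit 78) (nat_lit 152) (nat_lit 0) (XT.lf (nat_lit 76) (nat_lit 251749027) (nat_lit 0) (nat_lit 2068782219)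 (nat_lit 76) (nat_lit 2068782219) (nat_lit 90) (nat_lit 3) (nat_lit 89) (nat_lit 1) (nat_lit 90) (nat_lit 1) (nat_lit 369) (nat_lit 400) (nat_lit 251)) (XT.lf (nat_lit 152) (nat_lit 3192836121) (nat_lit 0) (nat_lit 576506501) (nat_lit 76) (nat_lit 576506501) (nat_lit 89) (nat_lit 1) (nat_lit 87) (nat_lit 1) (nat_lit 88) (nat_lit 1) (nat_lit 370) (nat_lit 400) (nat_lit 250)))))) (XT.nd (nat_lit 390) (nat_lit 380) (nat_lit 0) (XT.nd (nat_lit 156) (nat_lit 228) (nat_lit 0) (XT.nd (nat_lit 78) (nat_lit 76) (nat_lit 0) (XT.lf (nat_lit 0) (nat_lit 879938911) (nat_lit 0) (nat_lit 2542781682) (nat_lit 152) (nat_lit 879938911) (nat_lit 87) (nat_lit 3) (nat_lit 87) (nat_lit 1) (nat_lit 89) (nat_lit 1) (nat_lit 371) (nat_lit 400) (nat_lit 249)) (XT.lf (nat_lit 76) (nat_lit 343726943) (nat_lit 0) (nat_lit 1958137399) (nat_lit 76) (nat_lit 1958137399) (nat_lit 87) (nat_lit 3) (nat_lit 86) (nat_lit 1) (nat_lit 87)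 (nat_lit 1) (nat_lit 372) (nat_lit 400) (nat_lit 248))) (XT.nd (nat_lit 78) (nat_lit 76) (nat_lit 0) (XT.lf (nat_lit 152) (nat_lit 3193450482) (nat_lit 0) (nat_lit 512218559) (nat_lit 76) (nat_lit 512218559) (nat_lit 86) (nat_lit 1) (nat_lit 84) (nat_lit 1) (nat_lit 85) (nat_lit 1) (nat_lit 373) (nat_lit 400) (nat_lit 247)) (XT.nd (nat_lit 78) (nat_lit 76) (nat_lit 0) (XT.lf (nat_lit 0) (nat_lit 899522888) (nat_lit 0) (nat_lit 2376937152) (nat_lit 152) (nat_lit 899522888) (nat_lit 84) (nat_lit 3) (nat_lit 84) (nat_lit 1) (nat_lit 86) (nat_lit 1) (nat_lit 374) (nat_lit 400) (nat_lit 246)) (XT.lf (nat_lit 76) (nat_lit 421951493) (nat_lit 0) (nat_lit 1856334274) (nat_lit 76) (nat_lit 1856334274) (nat_lit 84) (nat_lit 3) (nat_lit 83) (nat_lit 1) (nat_lit 84) (nat_lit 1) (nat_lit 375) (nat_lit 400) (nat_lit 245))))) (XT.nd (nat_lit 156) (nat_lit 228) (nat_lit 0) (XT.nd (nat_lit 78) (nat_lit 0) (nat_lit 0)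 (XT.lf (nat_lit 152) (nat_lit 3183608268) (nat_lit 0) (nat_lit 455099555) (nat_lit 76) (nat_lit 455099555) (nat_lit 83) (nat_lit 1) (nat_lit 81) (nat_lit 1) (nat_lit 82) (nat_lit 1) (nat_lit 376) (nat_lit 400) (nat_lit 244)) (XT.lf (nat_lit 0) (nat_lit 913494592) (nat_lit 0) (nat_lit 2226158030) (nat_lit 152) (nat_lit 913494592) (nat_lit 81) (nat_lit 3) (nat_lit 81) (nat_lit 1) (nat_lit 83) (nat_lit 1) (nat_lit 377) (nat_lit 400) (nat_lit 243))) (XT.nd (nat_lit 78) (nat_lit 152) (nat_lit 0) (XT.lf (nat_lit 76) (nat_lit 488058200) (nat_lit 0) (nat_lit 1762488722) (nat_lit 76) (nat_lit 1762488722) (nat_lit 81) (nat_lit 3) (nat_lit 80) (nat_lit 1) (nat_lit 81) (nat_lit 1) (nat_lit 378) (nat_lit 400) (nat_lit 242)) (XT.nd (nat_lit 78) (nat_lit 0) (nat_lit 0) (XT.lf (nat_lit 152) (nat_lit 3164778086) (nat_lit 0) (nat_lit 404350060) (nat_lit 76) (nat_lit 404350060) (nat_lit 80) (nat_lit 1) (nat_lit 78) (nat_lit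 1) (nat_lit 79) (nat_lit 1) (nat_lit 379) (nat_lit 400) (nat_lit 241)) (XT.lf (nat_lit 0) (nat_lit 922579722) (nat_lit 0) (nat_lit 2088864185) (nat_lit 152) (nat_lit 922579722) (nat_lit 78) (nat_lit 3) (nat_lit 78) (nat_lit 1) (nat_lit 80) (nat_lit 1) (nat_lit 380) (nat_lit 400) (nat_lit 240))))))))
noncomputable def ec306 : XT := (XT.nd (nat_lit 1482) (nat_lit 1520) (nat_lit 0) (XT.nd (nat_lit 702) (nat_lit 760) (nat_lit 0) (XT.nd (nat_lit 312) (nat_lit 380) (nat_lit 0) (XT.nd (nat_lit 156) (nat_lit 76) (nat_lit 0) (XT.nd (nat_lit 78) (nat_lit 152) (nat_lit 0) (XT.lf (nat_lit 76) (nat_lit 543497237) (nat_lit 0) (nat_lit 1675812250) (nat_lit 76) (nat_lit 1675812250) (nat_lit 78) (nat_lit 3) (nat_lit 77) (nat_lit 1) (nat_lit 78) (nat_lit 1) (nat_lit 381) (nat_lit 400) (nat_lit 239)) (XT.lf (nat_lit 152) (nat_lit 3138255965) (nat_lit 0) (nat_lit 359259792) (nat_lit 76) (nat_lit 359259792) (nat_lit 77)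 (nat_lit 1) (nat_lit 75) (nat_lit 1) (nat_lit 76) (nat_lit 1) (nat_lit 382) (nat_lit 400) (nat_lit 238))) (XT.nd (nat_lit 78) (nat_lit 76) (nat_lit 0) (XT.lf (nat_lit 0) (nat_lit 927420142) (nat_lit 0) (nat_lit 1963648782) (nat_lit 152) (nat_lit 927420142) (nat_lit 75) (nat_lit 3) (nat_lit 75) (nat_lit 1) (nat_lit 77) (nat_lit 1) (nat_lit 383) (nat_lit 400) (nat_lit 237)) (XT.lf (nat_lit 76) (nat_lit 589554186) (nat_lit 0) (nat_lit 1595601409) (nat_lit 76) (nat_lit 1595601409) (nat_lit 75) (nat_lit 3) (nat_lit 74) (nat_lit 1) (nat_lit 75) (nat_lit 1) (nat_lit 384) (nat_lit 400) (nat_lit 236)))) (XT.nd (nat_lit 156) (nat_lit 228) (nat_lit 0) (XT.nd (nat_lit 78) (nat_lit 0) (nat_lit 0) (XT.lf (nat_lit 152) (nat_lit 3105184852) (nat_lit 0) (nat_lit 319197672) (nat_lit 76) (nat_lit 319197672) (nat_lit 74) (nat_lit 1) (nat_lit 72) (nat_lit 1) (nat_lit 73) (nat_lit 1) (nat_lit 385) (nat_lit 400) (nat_lit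 235)) (XT.lf (nat_lit 0) (nat_lit 928583317) (nat_lit 0) (nat_lit 1849259042) (nat_lit 152) (nat_lit 928583317) (nat_lit 72) (nat_lit 3) (nat_lit 72) (nat_lit 1) (nat_lit 74) (nat_lit 1) (nat_lit 386) (nat_lit 400) (nat_lit 234))) (XT.nd (nat_lit 78) (nat_lit 152) (nat_lit 0) (XT.lf (nat_lit 76) (nat_lit 627368472) (nat_lit 0) (nat_lit 1521228399) (nat_lit 76) (nat_lit 1521228399) (nat_lit 72) (nat_lit 3) (nat_lit 71) (nat_lit 1) (nat_lit 72) (nat_lit 1) (nat_lit 387) (nat_lit 400) (nat_lit 233)) (XT.nd (nat_lit 78) (nat_lit 0) (nat_lit 0) (XT.lf (nat_lit 152) (nat_lit 3066571934) (nat_lit 0) (nat_lit 283602997) (nat_lit 76) (nat_lit 283602997) (nat_lit 71) (nat_lit 1) (nat_lit 69) (nat_lit 1) (nat_lit 70) (nat_lit 1) (nat_lit 388) (nat_lit 400) (nat_lit 232)) (XT.lf (nat_lit 0) (nat_lit 926570690) (nat_lit 0) (nat_lit 1744579146) (nat_lit 152) (nat_lit 926570690) (nat_lit 69) (nat_lit 3) (nat_lit 69)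 (nat_lit 1) (nat_lit 71) (nat_lit 1) (nat_lit 389) (nat_lit 400) (nat_lit 231)))))) (XT.nd (nat_lit 390) (nat_lit 304) (nat_lit 0) (XT.nd (nat_lit 156) (nat_lit 228) (nat_lit 0) (XT.nd (nat_lit 78) (nat_lit 152) (nat_lit 0) (XT.lf (nat_lit 76) (nat_lit 657949746) (nat_lit 0) (nat_lit 1452132713) (nat_lit 76) (nat_lit 1452132713) (nat_lit 69) (nat_lit 3) (nat_lit 68) (nat_lit 1) (nat_lit 69) (nat_lit 1) (nat_lit 390) (nat_lit 400) (nat_lit 230)) (XT.lf (nat_lit 152) (nat_lit 3023304019) (nat_lit 0) (nat_lit 251977589) (nat_lit 76) (nat_lit 251977589) (nat_lit 68) (nat_lit 1) (nat_lit 66) (nat_lit 1) (nat_lit 67) (nat_lit 1) (nat_lit 391) (nat_lit 400) (nat_lit 229))) (XT.nd (nat_lit 78) (nat_lit 228) (nat_lit 0) (XT.lf (nat_lit 0) (nat_lit 921825124) (nat_lit 0) (nat_lit 1648615043) (nat_lit 152) (nat_lit 921825124) (nat_lit 66) (nat_lit 3) (nat_lit 66) (nat_lit 1) (nat_lit 68) (nat_lit 1) (nat_lit 392)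 (nat_lit 400) (nat_lit 228)) (XT.nd (nat_lit 78) (nat_lit 152) (nat_lit 0) (XT.lf (nat_lit 76) (nat_lit 682192433) (nat_lit 0) (nat_lit 1387813714) (nat_lit 76) (nat_lit 1387813714) (nat_lit 66) (nat_lit 3) (nat_lit 65) (nat_lit 1) (nat_lit 66) (nat_lit 1) (nat_lit 393) (nat_lit 400) (nat_lit 227)) (XT.lf (nat_lit 152) (nat_lit 2976161195) (nat_lit 0) (nat_lit 223878824) (nat_lit 76) (nat_lit 223878824) (nat_lit 65) (nat_lit 1) (nat_lit 63) (nat_lit 1) (nat_lit 64) (nat_lit 1) (nat_lit 394) (nat_lit 400) (nat_lit 226))))) (XT.nd (nat_lit 156) (nat_lit 228) (nat_lit 0) (XT.nd (nat_lit 78) (nat_lit 76) (nat_lit 0) (XT.lf (nat_lit 0) (nat_lit 914737516) (nat_lit 0) (nat_lit 1560480945) (nat_lit 152) (nat_lit 914737516) (nat_lit 63) (nat_lit 3) (nat_lit 63) (nat_lit 1) (nat_lit 65) (nat_lit 1) (nat_lit 395) (nat_lit 400) (nat_lit 225)) (XT.lf (nat_lit 76) (nat_lit 700888661) (nat_lit 0) (nat_lit 1327824030)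 (nat_lit 76) (nat_lit 1327824030) (nat_lit 63) (nat_lit 3) (nat_lit 62) (nat_lit 1) (nat_lit 63) (nat_lit 1) (nat_lit 396) (nat_lit 400) (nat_lit 224))) (XT.nd (nat_lit 78) (nat_lit 76) (nat_lit 0) (XT.lf (nat_lit 152) (nat_lit 2925828958) (nat_lit 0) (nat_lit 198913436) (nat_lit 76) (nat_lit 198913436) (nat_lit 62) (nat_lit 1) (nat_lit 60) (nat_lit 1) (nat_lit 61) (nat_lit 1) (nat_lit 397) (nat_lit 400) (nat_lit 223)) (XT.nd (nat_lit 78) (nat_lit 76) (nat_lit 0) (XT.lf (nat_lit 0) (nat_lit 905652660) (nat_lit 0) (nat_lit 1479387334) (nat_lit 152) (nat_lit 905652660) (nat_lit 60) (nat_lit 3) (nat_lit 60) (nat_lit 1) (nat_lit 62) (nat_lit 1) (nat_lit 398) (nat_lit 400) (nat_lit 222)) (XT.lf (nat_lit 76) (nat_lit 714739741) (nat_lit 0) (nat_lit 1271763695) (nat_lit 76) (nat_lit 1271763695) (nat_lit 60) (nat_lit 3) (nat_lit 59) (nat_lit 1) (nat_lit 60) (nat_lit 1) (nat_lit 399) (nat_lit 400) (nat_lit 221)))))))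 (XT.nd (nat_lit 702) (nat_lit 836) (nat_lit 0) (XT.nd (nat_lit 312) (nat_lit 304) (nat_lit 0) (XT.nd (nat_lit 156) (nat_lit 228) (nat_lit 0) (XT.nd (nat_lit 78) (nat_lit 0) (nat_lit 0) (XT.lf (nat_lit 152) (nat_lit 2872908982) (nat_lit 0) (nat_lit 176732011) (nat_lit 76) (nat_lit 176732011) (nat_lit 59) (nat_lit 1) (nat_lit 57) (nat_lit 1) (nat_lit 58) (nat_lit 1) (nat_lit 400) (nat_lit 400) (nat_lit 220)) (XT.lf (nat_lit 0) (nat_lit 894874470) (nat_lit 0) (nat_lit 1404630296) (nat_lit 152) (nat_lit 894874470) (nat_lit 57) (nat_lit 3) (nat_lit 57) (nat_lit 1) (nat_lit 59) (nat_lit 1) (nat_lit 401) (nat_lit 400) (nat_lit 219))) (XT.nd (nat_lit 78) (nat_lit 152) (nat_lit 0) (XT.lf (nat_lit 76) (nat_lit 724366364) (nat_lit 0) (nat_lit 1219274934) (nat_lit 76) (nat_lit 1219274934) (nat_lit 57) (nat_lit 3) (nat_lit 56) (nat_lit 1) (nat_lit 57) (nat_lit 1) (nat_lit 402) (nat_lit 400) (nat_lit 218)) (XT.lf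 (nat_lit 152) (nat_lit 2817928681) (nat_lit 0) (nat_lit 157024103) (nat_lit 76) (nat_lit 157024103) (nat_lit 56) (nat_lit 1) (nat_lit 54) (nat_lit 1) (nat_lit 55) (nat_lit 1) (nat_lit 403) (nat_lit 400) (nat_lit 217)))) (XT.nd (nat_lit 156) (nat_lit 228) (nat_lit 0) (XT.nd (nat_lit 78) (nat_lit 76) (nat_lit 0) (XT.lf (nat_lit 0) (nat_lit 882670601) (nat_lit 0) (nat_lit 1335582050) (nat_lit 152) (nat_lit 882670601) (nat_lit 54) (nat_lit 3) (nat_lit 54) (nat_lit 1) (nat_lit 56) (nat_lit 1) (nat_lit 404) (nat_lit 400) (nat_lit 216)) (XT.lf (nat_lit 76) (nat_lit 730317669) (nat_lit 0) (nat_lit 1170037522) (nat_lit 76) (nat_lit 1170037522) (nat_lit 54) (nat_lit 3) (nat_lit 53) (nat_lit 1) (nat_lit 54) (nat_lit 1) (nat_lit 405) (nat_lit 400) (nat_lit 215))) (XT.nd (nat_lit 78) (nat_lit 76) (nat_lit 0) (XT.lf (nat_lit 152) (nat_lit 2761349699) (nat_lit 0) (nat_lit 139513882) (nat_lit 76) (nat_lit 139513882)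 (nat_lit 53) (nat_lit 1) (nat_lit 51) (nat_lit 1) (nat_lit 52) (nat_lit 1) (nat_lit 406) (nat_lit 400) (nat_lit 214)) (XT.nd (nat_lit 78) (nat_lit 76) (nat_lit 0) (XT.lf (nat_lit 0) (nat_lit 869276566) (nat_lit 0) (nat_lit 1271682522) (nat_lit 152) (nat_lit 869276566) (nat_lit 51) (nat_lit 3) (nat_lit 51) (nat_lit 1) (nat_lit 53) (nat_lit 1) (nat_lit 407) (nat_lit 400) (nat_lit 213)) (XT.lf (nat_lit 76) (nat_lit 733079281) (nat_lit 0) (nat_lit 1123764676) (nat_lit 76) (nat_lit 1123764676) (nat_lit 51) (nat_lit 3) (nat_lit 50) (nat_lit 1) (nat_lit 51) (nat_lit 1) (nat_lit 408) (nat_lit 400) (nat_lit 212)))))) (XT.nd (nat_lit 390) (nat_lit 456) (nat_lit 0) (XT.nd (nat_lit 156) (nat_lit 228) (nat_lit 0) (XT.nd (nat_lit 78) (nat_lit 0) (nat_lit 0) (XT.lf (nat_lit 152) (nat_lit 2703575446) (nat_lit 0) (nat_lit 123956277) (nat_lit 76) (nat_lit 123956277) (nat_lit 50) (nat_lit 1) (nat_lit 48) (nat_lit 1) (nat_lit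 49) (nat_lit 1) (nat_lit 409) (nat_lit 400) (nat_lit 211)) (XT.lf (nat_lit 0) (nat_lit 854899387) (nat_lit 0) (nat_lit 1212431867) (nat_lit 152) (nat_lit 854899387) (nat_lit 48) (nat_lit 3) (nat_lit 48) (nat_lit 1) (nat_lit 50) (nat_lit 1) (nat_lit 410) (nat_lit 400) (nat_lit 210))) (XT.nd (nat_lit 78) (nat_lit 152) (nat_lit 0) (XT.lf (nat_lit 76) (nat_lit 733080467) (nat_lit 0) (nat_lit 1080199380) (nat_lit 76) (nat_lit 1080199380) (nat_lit 48) (nat_lit 3) (nat_lit 47) (nat_lit 1) (nat_lit 48) (nat_lit 1) (nat_lit 411) (nat_lit 400) (nat_lit 209)) (XT.nd (nat_lit 78) (nat_lit 0) (nat_lit 0) (XT.lf (nat_lit 152) (nat_lit 2644957789) (nat_lit 0) (nat_lit 110133546) (nat_lit 76) (nat_lit 110133546) (nat_lit 47) (nat_lit 1) (nat_lit 45) (nat_lit 1) (nat_lit 46) (nat_lit 1) (nat_lit 412) (nat_lit 400) (nat_lit 208)) (XT.lf (nat_lit 0) (nat_lit 839720835) (nat_lit 0) (nat_lit 1157383813) (nat_lit 152) (nat_lit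 839720835) (nat_lit 45) (nat_lit 3) (nat_lit 45) (nat_lit 1) (nat_lit 47) (nat_lit 1) (nat_lit 413) (nat_lit 400) (nat_lit 207))))) (XT.nd (nat_lit 156) (nat_lit 228) (nat_lit 0) (XT.nd (nat_lit 78) (nat_lit 152) (nat_lit 0) (XT.lf (nat_lit 76) (nat_lit 730700481) (nat_lit 0) (nat_lit 1039111139) (nat_lit 76) (nat_lit 1039111139) (nat_lit 45) (nat_lit 3) (nat_lit 44) (nat_lit 1) (nat_lit 45) (nat_lit 1) (nat_lit 414) (nat_lit 400) (nat_lit 206)) (XT.lf (nat_lit 152) (nat_lit 2585802993) (nat_lit 0) (nat_lit 97852229) (nat_lit 76) (nat_lit 97852229) (nat_lit 44) (nat_lit 1) (nat_lit 42) (nat_lit 1) (nat_lit 43) (nat_lit 1) (nat_lit 415) (nat_lit 400) (nat_lit 205))) (XT.nd (nat_lit 78) (nat_lit 228) (nat_lit 0) (XT.lf (nat_lit 0) (nat_lit 823900312) (nat_lit 0) (nat_lit 1106139754) (nat_lit 152) (nat_lit 823900312) (nat_lit 42) (nat_lit 3) (nat_lit 42) (nat_lit 1) (nat_lit 44) (nat_lit 1) (nat_lit 416)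 (nat_lit 400) (nat_lit 204)) (XT.nd (nat_lit 78) (nat_lit 152) (nat_lit 0) (XT.lf (nat_lit 76) (nat_lit 726274206) (nat_lit 0) (nat_lit 1000293081) (nat_lit 76) (nat_lit 1000293081) (nat_lit 42) (nat_lit 3) (nat_lit 41) (nat_lit 1) (nat_lit 42) (nat_lit 1) (nat_lit 417) (nat_lit 400) (nat_lit 203)) (XT.lf (nat_lit 152) (nat_lit 2526376988) (nat_lit 0) (nat_lit 86940438) (nat_lit 76) (nat_lit 86940438) (nat_lit 41) (nat_lit 1) (nat_lit 39) (nat_lit 1) (nat_lit 40) (nat_lit 1) (nat_lit 418) (nat_lit 400) (nat_lit 202))))))))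
noncomputable def ec307 : XT := (XT.nd (nat_lit 38298) (nat_lit 0) (nat_lit 20976) (XT.nd (nat_lit 37518) (nat_lit 0) (nat_lit 25992) (XT.nd (nat_lit 312) (nat_lit 304) (nat_lit 0) (XT.nd (nat_lit 156) (nat_lit 152) (nat_lit 0) (XT.nd (nat_lit 78) (nat_lit 76) (nat_lit 0) (XT.lf (nat_lit 0) (nat_lit 807577403) (nat_lit 0) (nat_lit 1058343491) (nat_lit 152) (nat_lit 807577403) (nat_lit 39) (nat_lit 3) (nat_lit 39) (nat_lit 1) (nat_lit 41) (nat_lit 1) (nat_lit 419) (nat_lit 400) (nat_lit 201)) (XT.lf (nat_lit 76) (nat_lit 720097160) (nat_lit 0) (nat_lit 963559381) (nat_lit 76) (nat_lit 963559381) (nat_lit 39) (nat_lit 3) (nat_lit 38) (nat_lit 1) (nat_lit 39) (nat_lit 1) (nat_lit 420) (nat_lit 400) (nat_lit 200))) (XT.nd (nat_lit 78) (nat_lit 0) (nat_lit 0) (XT.lf (nat_lit 152) (nat_lit 2466910047) (nat_lit 0) (nat_lit 77245453) (nat_lit 76) (nat_lit 77245453) (nat_lit 38) (nat_lit 1) (nat_lit 36) (nat_lit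 1) (nat_lit 37) (nat_lit 1) (nat_lit 421) (nat_lit 400) (nat_lit 199)) (XT.lf (nat_lit 0) (nat_lit 790874147) (nat_lit 0) (nat_lit 1013676568) (nat_lit 152) (nat_lit 790874147) (nat_lit 36) (nat_lit 3) (nat_lit 36) (nat_lit 1) (nat_lit 38) (nat_lit 1) (nat_lit 422) (nat_lit 400) (nat_lit 198)))) (XT.nd (nat_lit 156) (nat_lit 76) (nat_lit 0) (XT.nd (nat_lit 78) (nat_lit 152) (nat_lit 0) (XT.lf (nat_lit 76) (nat_lit 712429946) (nat_lit 0) (nat_lit 928742976) (nat_lit 76) (nat_lit 928742976) (nat_lit 36) (nat_lit 3) (nat_lit 35) (nat_lit 1) (nat_lit 36) (nat_lit 1) (nat_lit 423) (nat_lit 400) (nat_lit 197)) (XT.lf (nat_lit 152) (nat_lit 2407600940) (nat_lit 0) (nat_lit 68631585) (nat_lit 76) (nat_lit 68631585) (nat_lit 35) (nat_lit 1) (nat_lit 33) (nat_lit 1) (nat_lit 34) (nat_lit 1) (nat_lit 424) (nat_lit 400) (nat_lit 196))) (XT.nd (nat_lit 78) (nat_lit 76) (nat_lit 0) (XT.lf (nat_lit 0) (nat_lit 773897052)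 (nat_lit 0) (nat_lit 971854117) (nat_lit 152) (nat_lit 773897052) (nat_lit 33) (nat_lit 3) (nat_lit 33) (nat_lit 1) (nat_lit 35) (nat_lit 1) (nat_lit 425) (nat_lit 400) (nat_lit 195)) (XT.nd (nat_lit 36894) (nat_lit 0) (nat_lit 25992) (XT.lf (nat_lit 76) (nat_lit 703502203) (nat_lit 0) (nat_lit 895693529) (nat_lit 76) (nat_lit 895693529) (nat_lit 33) (nat_lit 3) (nat_lit 32) (nat_lit 1) (nat_lit 33) (nat_lit 1) (nat_lit 426) (nat_lit 400) (nat_lit 194)) (XT.lf (nat_lit 1292) (nat_lit 2263264880) (nat_lit 0) (nat_lit 7786683762) (nat_lit 1292) (nat_lit 2263264880) (nat_lit 391) (nat_lit 1) (nat_lit 374) (nat_lit 0) (nat_lit 391) (nat_lit 0) (nat_lit 218) (nat_lit 401) (nat_lit 401)))))) (XT.nd (nat_lit 390) (nat_lit 0) (nat_lit 228) (XT.nd (nat_lit 156) (nat_lit 0) (nat_lit 76) (XT.nd (nat_lit 78) (nat_lit 0) (nat_lit 76) (XT.lf (nat_lit 1292) (nat_lit 8844878811) (nat_lit 76) (nat_lit 7710343725) (nat_lit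 0) (nat_lit 7710343725) (nat_lit 391) (nat_lit 1) (nat_lit 375) (nat_lit 1) (nat_lit 374) (nat_lit 0) (nat_lit 219) (nat_lit 401) (nat_lit 400)) (XT.lf (nat_lit 1292) (nat_lit 4277594279) (nat_lit 0) (nat_lit 15357476755) (nat_lit 1216) (nat_lit 4277594279) (nat_lit 392) (nat_lit 1) (nat_lit 375) (nat_lit 1) (nat_lit 391) (nat_lit 1) (nat_lit 220) (nat_lit 401) (nat_lit 399))) (XT.nd (nat_lit 78) (nat_lit 0) (nat_lit 76) (XT.lf (nat_lit 1292) (nat_lit 8123372391) (nat_lit 76) (nat_lit 7721142650) (nat_lit 0) (nat_lit 7721142650) (nat_lit 392) (nat_lit 1) (nat_lit 376) (nat_lit 1) (nat_lit 375) (nat_lit 1) (nat_lit 221) (nat_lit 401) (nat_lit 398)) (XT.nd (nat_lit 78) (nat_lit 0) (nat_lit 0) (XT.lf (nat_lit 1292) (nat_lit 3811851981) (nat_lit 0) (nat_lit 15602710519) (nat_lit 1216) (nat_lit 3811851981) (nat_lit 393) (nat_lit 1) (nat_lit 376) (nat_lit 1) (nat_lit 392) (nat_lit 1) (nat_lit 222) (nat_lit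 401) (nat_lit 397)) (XT.lf (nat_lit 1292) (nat_lit 6985621233) (nat_lit 76) (nat_lit 7953487769) (nat_lit 0) (nat_lit 7953487769) (nat_lit 393) (nat_lit 1) (nat_lit 377) (nat_lit 1) (nat_lit 376) (nat_lit 1) (nat_lit 223) (nat_lit 401) (nat_lit 396))))) (XT.nd (nat_lit 156) (nat_lit 0) (nat_lit 76) (XT.nd (nat_lit 78) (nat_lit 0) (nat_lit 0) (XT.lf (nat_lit 1292) (nat_lit 3148479435) (nat_lit 0) (nat_lit 16269528533) (nat_lit 1216) (nat_lit 3148479435) (nat_lit 394) (nat_lit 1) (nat_lit 377) (nat_lit 1) (nat_lit 393) (nat_lit 1) (nat_lit 224) (nat_lit 401) (nat_lit 395)) (XT.lf (nat_lit 1292) (nat_lit 5468849454) (nat_lit 76) (nat_lit 8388190566) (nat_lit 0) (nat_lit 8388190566) (nat_lit 394) (nat_lit 1) (nat_lit 378) (nat_lit 1) (nat_lit 377) (nat_lit 1) (nat_lit 225) (nat_lit 401) (nat_lit 394))) (XT.nd (nat_lit 78) (nat_lit 0) (nat_lit 0) (XT.lf (nat_lit 1292) (nat_lit 2305356352) (nat_lit 0) (nat_lit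 17321040961) (nat_lit 1216) (nat_lit 2305356352) (nat_lit 395) (nat_lit 1) (nat_lit 378) (nat_lit 1) (nat_lit 394) (nat_lit 1) (nat_lit 226) (nat_lit 401) (nat_lit 393)) (XT.nd (nat_lit 78) (nat_lit 0) (nat_lit 76) (XT.lf (nat_lit 1292) (nat_lit 3607756103) (nat_lit 76) (nat_lit 9007352497) (nat_lit 0) (nat_lit 9007352497) (nat_lit 395) (nat_lit 1) (nat_lit 379) (nat_lit 1) (nat_lit 378) (nat_lit 1) (nat_lit 227) (nat_lit 401) (nat_lit 392)) (XT.lf (nat_lit 1292) (nat_lit 1299145736) (nat_lit 0) (nat_lit 18722845182) (nat_lit 1216) (nat_lit 1299145736) (nat_lit 396) (nat_lit 1) (nat_lit 379) (nat_lit 1) (nat_lit 395) (nat_lit 1) (nat_lit 228) (nat_lit 401) (nat_lit 391))))))) (XT.nd (nat_lit 702) (nat_lit 3496) (nat_lit 0) (XT.nd (nat_lit 312) (nat_lit 684) (nat_lit 0) (XT.nd (nat_lit 156) (nat_lit 1216) (nat_lit 0) (XT.nd (nat_lit 78) (nat_lit 0) (nat_lit 76) (XT.lf (nat_lit 1292) (nat_lit 1434671417)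 (nat_lit 76) (nat_lit 9794285451) (nat_lit 0) (nat_lit 9794285451) (nat_lit 396) (nat_lit 1) (nat_lit 380) (nat_lit 1) (nat_lit 379) (nat_lit 1) (nat_lit 229) (nat_lit 401) (nat_lit 390)) (XT.lf (nat_lit 1292) (nat_lit 145369271) (nat_lit 0) (nat_lit 20442872250) (nat_lit 1216) (nat_lit 145369271) (nat_lit 397) (nat_lit 1) (nat_lit 380) (nat_lit 1) (nat_lit 396) (nat_lit 1) (nat_lit 230) (nat_lit 401) (nat_lit 389))) (XT.nd (nat_lit 78) (nat_lit 0) (nat_lit 0) (XT.lf (nat_lit 1368) (nat_lit 9722948427) (nat_lit 0) (nat_lit 1000386562) (nat_lit 1292) (nat_lit 9722948427) (nat_lit 381) (nat_lit 1) (nat_lit 363) (nat_lit 1) (nat_lit 380) (nat_lit 1) (nat_lit 231) (nat_lit 401) (nat_lit 388)) (XT.lf (nat_lit 1368) (nat_lit 17906214742) (nat_lit 76) (nat_lit 1130330387) (nat_lit 0) (nat_lit 1130330387) (nat_lit 381) (nat_lit 1) (nat_lit 364) (nat_lit 1) (nat_lit 363) (nat_lit 1) (nat_lit 232) (nat_lit 401)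 (nat_lit 387)))) (XT.nd (nat_lit 156) (nat_lit 760) (nat_lit 0) (XT.nd (nat_lit 78) (nat_lit 0) (nat_lit 0) (XT.lf (nat_lit 1368) (nat_lit 8117044242) (nat_lit 0) (nat_lit 3656353460) (nat_lit 1292) (nat_lit 8117044242) (nat_lit 382) (nat_lit 1) (nat_lit 364) (nat_lit 1) (nat_lit 381) (nat_lit 1) (nat_lit 233) (nat_lit 401) (nat_lit 386)) (XT.lf (nat_lit 1368) (nat_lit 14574818331) (nat_lit 76) (nat_lit 2523098714) (nat_lit 0) (nat_lit 2523098714) (nat_lit 382) (nat_lit 1) (nat_lit 365) (nat_lit 1) (nat_lit 364) (nat_lit 1) (nat_lit 234) (nat_lit 401) (nat_lit 385))) (XT.nd (nat_lit 78) (nat_lit 836) (nat_lit 0) (XT.lf (nat_lit 76) (nat_lit 6409785651) (nat_lit 0) (nat_lit 6535662576) (nat_lit 1292) (nat_lit 6409785651) (nat_lit 366) (nat_lit 1) (nat_lit 365) (nat_lit 1) (nat_lit 382) (nat_lit 1) (nat_lit 235) (nat_lit 401) (nat_lit 384)) (XT.nd (nat_lit 78) (nat_lit 0) (nat_lit 0) (XT.lf (nat_lit 912)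 (nat_lit 11051372850) (nat_lit 0) (nat_lit 4021977050) (nat_lit 836) (nat_lit 4021977050) (nat_lit 366) (nat_lit 1) (nat_lit 354) (nat_lit 1) (nat_lit 365) (nat_lit 1) (nat_lit 236) (nat_lit 401) (nat_lit 383)) (XT.lf (nat_lit 76) (nat_lit 4612627895) (nat_lit 0) (nat_lit 9614547361) (nat_lit 912) (nat_lit 4612627895) (nat_lit 355) (nat_lit 1) (nat_lit 354) (nat_lit 1) (nat_lit 366) (nat_lit 1) (nat_lit 237) (nat_lit 401) (nat_lit 382)))))) (XT.nd (nat_lit 390) (nat_lit 1672) (nat_lit 0) (XT.nd (nat_lit 156) (nat_lit 1216) (nat_lit 0) (XT.nd (nat_lit 78) (nat_lit 0) (nat_lit 0) (XT.lf (nat_lit 684) (nat_lit 7358066338) (nat_lit 0) (nat_lit 5615455005) (nat_lit 608) (nat_lit 5615455005) (nat_lit 355) (nat_lit 1) (nat_lit 346) (nat_lit 1) (nat_lit 354) (nat_lit 1) (nat_lit 238) (nat_lit 401) (nat_lit 381)) (XT.lf (nat_lit 76) (nat_lit 2736204451) (nat_lit 0) (nat_lit 12870924370) (nat_lit 684) (nat_lit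 2736204451) (nat_lit 347) (nat_lit 1) (nat_lit 346) (nat_lit 1) (nat_lit 355) (nat_lit 1) (nat_lit 239) (nat_lit 401) (nat_lit 380))) (XT.nd (nat_lit 78) (nat_lit 608) (nat_lit 0) (XT.lf (nat_lit 684) (nat_lit 3515487996) (nat_lit 0) (nat_lit 7292840773) (nat_lit 608) (nat_lit 7292840773) (nat_lit 347) (nat_lit 1) (nat_lit 338) (nat_lit 1) (nat_lit 346) (nat_lit 1) (nat_lit 240) (nat_lit 401) (nat_lit 379)) (XT.nd (nat_lit 78) (nat_lit 608) (nat_lit 0) (XT.lf (nat_lit 76) (nat_lit 790378986) (nat_lit 0) (nat_lit 16284287362) (nat_lit 684) (nat_lit 790378986) (nat_lit 339) (nat_lit 1) (nat_lit 338) (nat_lit 1) (nat_lit 347) (nat_lit 1) (nat_lit 241) (nat_lit 401) (nat_lit 378)) (XT.lf (nat_lit 76) (nat_lit 8591334549) (nat_lit 0) (nat_lit 448347569) (nat_lit 608) (nat_lit 8591334549) (nat_lit 331) (nat_lit 1) (nat_lit 330) (nat_lit 1) (nat_lit 338) (nat_lit 1) (nat_lit 242) (nat_lit 401) (nat_lit 377)))))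 (XT.nd (nat_lit 156) (nat_lit 1064) (nat_lit 0) (XT.nd (nat_lit 78) (nat_lit 0) (nat_lit 0) (XT.lf (nat_lit 684) (nat_lit 14995212468) (nat_lit 0) (nat_lit 1203787124) (nat_lit 608) (nat_lit 1203787124) (nat_lit 331) (nat_lit 1) (nat_lit 322) (nat_lit 1) (nat_lit 330) (nat_lit 1) (nat_lit 243) (nat_lit 401) (nat_lit 376)) (XT.lf (nat_lit 76) (nat_lit 6361500358) (nat_lit 0) (nat_lit 4453879230) (nat_lit 684) (nat_lit 6361500358) (nat_lit 323) (nat_lit 1) (nat_lit 322) (nat_lit 1) (nat_lit 331) (nat_lit 1) (nat_lit 244) (nat_lit 401) (nat_lit 375))) (XT.nd (nat_lit 78) (nat_lit 532) (nat_lit 0) (XT.lf (nat_lit 608) (nat_lit 10473304405) (nat_lit 0) (nat_lit 3241488383) (nat_lit 532) (nat_lit 3241488383) (nat_lit 323) (nat_lit 1) (nat_lit 315) (nat_lit 1) (nat_lit 322) (nat_lit 1) (nat_lit 245) (nat_lit 401) (nat_lit 374)) (XT.nd (nat_lit 78) (nat_lit 532) (nat_lit 0) (XT.lf (nat_lit 76) (nat_lit 4092718573)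 (nat_lit 0) (nat_lit 8553650185) (nat_lit 608) (nat_lit 4092718573) (nat_lit 316) (nat_lit 1) (nat_lit 315) (nat_lit 1) (nat_lit 323) (nat_lit 1) (nat_lit 246) (nat_lit 401) (nat_lit 373)) (XT.lf (nat_lit 608) (nat_lit 5880347484) (nat_lit 0) (nat_lit 5322714769) (nat_lit 532) (nat_lit 5322714769) (nat_lit 316) (nat_lit 1) (nat_lit 308) (nat_lit 1) (nat_lit 315) (nat_lit 1) (nat_lit 247) (nat_lit 401) (nat_lit 372))))))))
noncomputable def ec308 : XT := (XT.nd (nat_lit 1404) (nat_lit 3800) (nat_lit 0) (XT.nd (nat_lit 702) (nat_lit 2052) (nat_lit 0) (XT.nd (nat_lit 312) (nat_lit 1368) (nat_lit 0) (XT.nd (nat_lit 156) (nat_lit 608) (nat_lit 0) (XT.nd (nat_lit 78) (nat_lit 456) (nat_lit 0) (XT.lf (nat_lit 76) (nat_lit 1792087546) (nat_lit 0) (nat_lit 12732808776) (nat_lit 608) (nat_lit 1792087546) (nat_lit 309) (nat_lit 1) (nat_lit 308) (nat_lit 1) (nat_lit 316) (nat_lit 1) (nat_lit 248) (nat_lit 401)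 (nat_lit 371)) (XT.lf (nat_lit 532) (nat_lit 1230050049) (nat_lit 0) (nat_lit 7440293076) (nat_lit 456) (nat_lit 7440293076) (nat_lit 309) (nat_lit 1) (nat_lit 302) (nat_lit 1) (nat_lit 308) (nat_lit 1) (nat_lit 249) (nat_lit 401) (nat_lit 370))) (XT.nd (nat_lit 78) (nat_lit 0) (nat_lit 0) (XT.lf (nat_lit 608) (nat_lit 14852105597) (nat_lit 0) (nat_lit 528609719) (nat_lit 532) (nat_lit 528609719) (nat_lit 302) (nat_lit 1) (nat_lit 294) (nat_lit 1) (nat_lit 301) (nat_lit 1) (nat_lit 250) (nat_lit 401) (nat_lit 369)) (XT.lf (nat_lit 76) (nat_lit 6155958267) (nat_lit 0) (nat_lit 3397333352) (nat_lit 608) (nat_lit 6155958267) (nat_lit 295) (nat_lit 1) (nat_lit 294) (nat_lit 1) (nat_lit 302) (nat_lit 1) (nat_lit 251) (nat_lit 401) (nat_lit 368)))) (XT.nd (nat_lit 156) (nat_lit 912) (nat_lit 0) (XT.nd (nat_lit 78) (nat_lit 0) (nat_lit 0) (XT.lf (nat_lit 532) (nat_lit 9812406373) (nat_lit 0) (nat_lit 2850812843)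 (nat_lit 456) (nat_lit 2850812843) (nat_lit 295) (nat_lit 1) (nat_lit 288) (nat_lit 1) (nat_lit 294) (nat_lit 1) (nat_lit 252) (nat_lit 401) (nat_lit 367)) (XT.lf (nat_lit 76) (nat_lit 3644272469) (nat_lit 0) (nat_lit 8033125562) (nat_lit 532) (nat_lit 3644272469) (nat_lit 289) (nat_lit 1) (nat_lit 288) (nat_lit 1) (nat_lit 295) (nat_lit 1) (nat_lit 253) (nat_lit 401) (nat_lit 366))) (XT.nd (nat_lit 78) (nat_lit 456) (nat_lit 0) (XT.lf (nat_lit 532) (nat_lit 4759437899) (nat_lit 0) (nat_lit 5186589970) (nat_lit 456) (nat_lit 5186589970) (nat_lit 289) (nat_lit 1) (nat_lit 282) (nat_lit 1) (nat_lit 288) (nat_lit 1) (nat_lit 254) (nat_lit 401) (nat_lit 365)) (XT.nd (nat_lit 78) (nat_lit 456) (nat_lit 0) (XT.lf (nat_lit 76) (nat_lit 1128435512) (nat_lit 0) (nat_lit 12690828023) (nat_lit 532) (nat_lit 1128435512) (nat_lit 283) (nat_lit 1) (nat_lit 282) (nat_lit 1) (nat_lit 289) (nat_lit 1) (nat_lit 255)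 (nat_lit 401) (nat_lit 364)) (XT.lf (nat_lit 76) (nat_lit 7236515574) (nat_lit 0) (nat_lit 291425497) (nat_lit 456) (nat_lit 7236515574) (nat_lit 277) (nat_lit 1) (nat_lit 276) (nat_lit 1) (nat_lit 282) (nat_lit 1) (nat_lit 256) (nat_lit 401) (nat_lit 363)))))) (XT.nd (nat_lit 312) (nat_lit 1216) (nat_lit 0) (XT.nd (nat_lit 156) (nat_lit 380) (nat_lit 0) (XT.nd (nat_lit 78) (nat_lit 0) (nat_lit 0) (XT.lf (nat_lit 532) (nat_lit 11838406099) (nat_lit 0) (nat_lit 1373395975) (nat_lit 456) (nat_lit 1373395975) (nat_lit 277) (nat_lit 1) (nat_lit 270) (nat_lit 1) (nat_lit 276) (nat_lit 1) (nat_lit 257) (nat_lit 401) (nat_lit 362)) (XT.lf (nat_lit 76) (nat_lit 4581652880) (nat_lit 0) (nat_lit 5244440879) (nat_lit 532) (nat_lit 4581652880) (nat_lit 271) (nat_lit 1) (nat_lit 270) (nat_lit 1) (nat_lit 277) (nat_lit 1) (nat_lit 258) (nat_lit 401) (nat_lit 361))) (XT.nd (nat_lit 78) (nat_lit 0) (nat_lit 0) (XT.lf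 (nat_lit 456) (nat_lit 6514704877) (nat_lit 0) (nat_lit 3859630641) (nat_lit 380) (nat_lit 3859630641) (nat_lit 271) (nat_lit 1) (nat_lit 265) (nat_lit 1) (nat_lit 270) (nat_lit 1) (nat_lit 259) (nat_lit 401) (nat_lit 360)) (XT.lf (nat_lit 76) (nat_lit 1939372841) (nat_lit 0) (nat_lit 10184622866) (nat_lit 456) (nat_lit 1939372841) (nat_lit 266) (nat_lit 1) (nat_lit 265) (nat_lit 1) (nat_lit 271) (nat_lit 1) (nat_lit 260) (nat_lit 401) (nat_lit 359)))) (XT.nd (nat_lit 156) (nat_lit 380) (nat_lit 0) (XT.nd (nat_lit 78) (nat_lit 456) (nat_lit 0) (XT.lf (nat_lit 456) (nat_lit 1219712753) (nat_lit 0) (nat_lit 6337559408) (nat_lit 380) (nat_lit 6337559408) (nat_lit 266) (nat_lit 1) (nat_lit 260) (nat_lit 1) (nat_lit 265) (nat_lit 1) (nat_lit 261) (nat_lit 401) (nat_lit 358)) (XT.lf (nat_lit 456) (nat_lit 12369576369) (nat_lit 0) (nat_lit 680239445) (nat_lit 380) (nat_lit 680239445) (nat_lit 260) (nat_lit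 1) (nat_lit 254) (nat_lit 1) (nat_lit 259) (nat_lit 1) (nat_lit 262) (nat_lit 401) (nat_lit 357))) (XT.nd (nat_lit 78) (nat_lit 380) (nat_lit 0) (XT.lf (nat_lit 76) (nat_lit 4802427073) (nat_lit 0) (nat_lit 3961315500) (nat_lit 456) (nat_lit 4802427073) (nat_lit 255) (nat_lit 1) (nat_lit 254) (nat_lit 1) (nat_lit 260) (nat_lit 1) (nat_lit 263) (nat_lit 401) (nat_lit 356)) (XT.nd (nat_lit 78) (nat_lit 0) (nat_lit 0) (XT.lf (nat_lit 456) (nat_lit 6881821390) (nat_lit 0) (nat_lit 3262052427) (nat_lit 380) (nat_lit 3262052427) (nat_lit 255) (nat_lit 1) (nat_lit 249) (nat_lit 1) (nat_lit 254) (nat_lit 1) (nat_lit 264) (nat_lit 401) (nat_lit 355)) (XT.lf (nat_lit 76) (nat_lit 2084981710) (nat_lit 0) (nat_lit 9078402138) (nat_lit 456) (nat_lit 2084981710) (nat_lit 250) (nat_lit 1) (nat_lit 249) (nat_lit 1) (nat_lit 255) (nat_lit 1) (nat_lit 265) (nat_lit 401) (nat_lit 354))))))) (XT.nd (nat_lit 702) (nat_lit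 1748) (nat_lit 0) (XT.nd (nat_lit 312) (nat_lit 988) (nat_lit 0) (XT.nd (nat_lit 156) (nat_lit 304) (nat_lit 0) (XT.nd (nat_lit 78) (nat_lit 456) (nat_lit 0) (XT.lf (nat_lit 380) (nat_lit 1448087663) (nat_lit 0) (nat_lit 5822357003) (nat_lit 304) (nat_lit 5822357003) (nat_lit 250) (nat_lit 1) (nat_lit 245) (nat_lit 1) (nat_lit 249) (nat_lit 1) (nat_lit 266) (nat_lit 401) (nat_lit 353)) (XT.lf (nat_lit 456) (nat_lit 11743654226) (nat_lit 0) (nat_lit 598498106) (nat_lit 380) (nat_lit 598498106) (nat_lit 245) (nat_lit 1) (nat_lit 239) (nat_lit 1) (nat_lit 244) (nat_lit 1) (nat_lit 267) (nat_lit 401) (nat_lit 352))) (XT.nd (nat_lit 78) (nat_lit 304) (nat_lit 0) (XT.lf (nat_lit 76) (nat_lit 4469323561) (nat_lit 0) (nat_lit 3850491626) (nat_lit 456) (nat_lit 4469323561) (nat_lit 240) (nat_lit 1) (nat_lit 239) (nat_lit 1) (nat_lit 245) (nat_lit 1) (nat_lit 268) (nat_lit 401) (nat_lit 351)) (XT.lf (nat_lit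 380) (nat_lit 6177589338) (nat_lit 0) (nat_lit 3231675585) (nat_lit 304) (nat_lit 3231675585) (nat_lit 240) (nat_lit 1) (nat_lit 235) (nat_lit 1) (nat_lit 239) (nat_lit 1) (nat_lit 269) (nat_lit 401) (nat_lit 350)))) (XT.nd (nat_lit 156) (nat_lit 684) (nat_lit 0) (XT.nd (nat_lit 78) (nat_lit 304) (nat_lit 0) (XT.lf (nat_lit 76) (nat_lit 1717893230) (nat_lit 0) (nat_lit 9059490777) (nat_lit 380) (nat_lit 1717893230) (nat_lit 236) (nat_lit 1) (nat_lit 235) (nat_lit 1) (nat_lit 240) (nat_lit 1) (nat_lit 270) (nat_lit 401) (nat_lit 349)) (XT.lf (nat_lit 380) (nat_lit 685023383) (nat_lit 0) (nat_lit 5833123128) (nat_lit 304) (nat_lit 5833123128) (nat_lit 236) (nat_lit 1) (nat_lit 231) (nat_lit 1) (nat_lit 235) (nat_lit 1) (nat_lit 271) (nat_lit 401) (nat_lit 348))) (XT.nd (nat_lit 78) (nat_lit 304) (nat_lit 0) (XT.lf (nat_lit 380) (nat_lit 10237234527) (nat_lit 0) (nat_lit 986434715) (nat_lit 304) (nat_lit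 986434715) (nat_lit 231) (nat_lit 1) (nat_lit 226) (nat_lit 1) (nat_lit 230) (nat_lit 1) (nat_lit 272) (nat_lit 401) (nat_lit 347)) (XT.nd (nat_lit 78) (nat_lit 304) (nat_lit 0) (XT.lf (nat_lit 76) (nat_lit 3715564696) (nat_lit 0) (nat_lit 4638776516) (nat_lit 380) (nat_lit 3715564696) (nat_lit 227) (nat_lit 1) (nat_lit 226) (nat_lit 1) (nat_lit 231) (nat_lit 1) (nat_lit 273) (nat_lit 401) (nat_lit 346)) (XT.lf (nat_lit 380) (nat_lit 4661277274) (nat_lit 0) (nat_lit 3635594708) (nat_lit 304) (nat_lit 3635594708) (nat_lit 227) (nat_lit 1) (nat_lit 222) (nat_lit 1) (nat_lit 226) (nat_lit 1) (nat_lit 274) (nat_lit 401) (nat_lit 345)))))) (XT.nd (nat_lit 390) (nat_lit 912) (nat_lit 0) (XT.nd (nat_lit 156) (nat_lit 532) (nat_lit 0) (XT.nd (nat_lit 78) (nat_lit 304) (nat_lit 0) (XT.lf (nat_lit 76) (nat_lit 962974600) (nat_lit 0) (nat_lit 9871737144) (nat_lit 380) (nat_lit 962974600) (nat_lit 223) (nat_lit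 1) (nat_lit 222) (nat_lit 1) (nat_lit 227) (nat_lit 1) (nat_lit 275) (nat_lit 401) (nat_lit 344)) (XT.lf (nat_lit 76) (nat_lit 5426705682) (nat_lit 0) (nat_lit 810363047) (nat_lit 304) (nat_lit 5426705682) (nat_lit 219) (nat_lit 1) (nat_lit 218) (nat_lit 1) (nat_lit 222) (nat_lit 1) (nat_lit 276) (nat_lit 401) (nat_lit 343))) (XT.nd (nat_lit 78) (nat_lit 228) (nat_lit 0) (XT.lf (nat_lit 380) (nat_lit 8076089213) (nat_lit 0) (nat_lit 1728179158) (nat_lit 304) (nat_lit 1728179158) (nat_lit 219) (nat_lit 1) (nat_lit 214) (nat_lit 1) (nat_lit 218) (nat_lit 1) (nat_lit 277) (nat_lit 401) (nat_lit 342)) (XT.nd (nat_lit 78) (nat_lit 228) (nat_lit 0) (XT.lf (nat_lit 76) (nat_lit 2649849330) (nat_lit 0) (nat_lit 6102918074) (nat_lit 380) (nat_lit 2649849330) (nat_lit 215) (nat_lit 1) (nat_lit 214) (nat_lit 1) (nat_lit 219) (nat_lit 1) (nat_lit 278) (nat_lit 401) (nat_lit 341)) (XT.lf (nat_lit 304) (nat_lit 2544341323)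 (nat_lit 0) (nat_lit 4365241700) (nat_lit 228) (nat_lit 4365241700) (nat_lit 215) (nat_lit 1) (nat_lit 211) (nat_lit 1) (nat_lit 214) (nat_lit 1) (nat_lit 279) (nat_lit 401) (nat_lit 340))))) (XT.nd (nat_lit 156) (nat_lit 532) (nat_lit 0) (XT.nd (nat_lit 78) (nat_lit 0) (nat_lit 0) (XT.lf (nat_lit 380) (nat_lit 10995505255) (nat_lit 0) (nat_lit 77212710) (nat_lit 304) (nat_lit 77212710) (nat_lit 211) (nat_lit 1) (nat_lit 206) (nat_lit 1) (nat_lit 210) (nat_lit 1) (nat_lit 280) (nat_lit 401) (nat_lit 339)) (XT.lf (nat_lit 76) (nat_lit 4096355713) (nat_lit 0) (nat_lit 2832079664) (nat_lit 380) (nat_lit 4096355713) (nat_lit 207) (nat_lit 1) (nat_lit 206) (nat_lit 1) (nat_lit 211) (nat_lit 1) (nat_lit 281) (nat_lit 401) (nat_lit 338))) (XT.nd (nat_lit 78) (nat_lit 304) (nat_lit 0) (XT.lf (nat_lit 304) (nat_lit 5443786883) (nat_lit 0) (nat_lit 2729350380) (nat_lit 228) (nat_lit 2729350380) (nat_lit 207)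 (nat_lit 1) (nat_lit 203) (nat_lit 1) (nat_lit 206) (nat_lit 1) (nat_lit 282) (nat_lit 401) (nat_lit 337)) (XT.nd (nat_lit 78) (nat_lit 304) (nat_lit 0) (XT.lf (nat_lit 76) (nat_lit 1360514611) (nat_lit 0) (nat_lit 8061147341) (nat_lit 304) (nat_lit 1360514611) (nat_lit 204) (nat_lit 1) (nat_lit 203) (nat_lit 1) (nat_lit 207) (nat_lit 1) (nat_lit 283) (nat_lit 401) (nat_lit 336)) (XT.lf (nat_lit 76) (nat_lit 5330820067) (nat_lit 0) (nat_lit 1427266) (nat_lit 304) (nat_lit 5330820067) (nat_lit 200) (nat_lit 1) (nat_lit 199) (nat_lit 1) (nat_lit 203) (nat_lit 1) (nat_lit 284) (nat_lit 401) (nat_lit 335))))))))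
noncomputable def ec309 : XT := (XT.nd (nat_lit 1482) (nat_lit 1976) (nat_lit 0) (XT.nd (nat_lit 702) (nat_lit 1216) (nat_lit 0) (XT.nd (nat_lit 312) (nat_lit 684) (nat_lit 0) (XT.nd (nat_lit 156) (nat_lit 532) (nat_lit 0) (XT.nd (nat_lit 78) (nat_lit 0) (nat_lit 0) (XT.lf (nat_lit 304) (nat_lit 7927192945) (nat_lit 0) (nat_lit 1309351364) (nat_lit 228) (nat_lit 1309351364) (nat_lit 200) (nat_lit 1) (nat_lit 196) (nat_lit 1) (nat_lit 199) (nat_lit 1) (nat_lit 285) (nat_lit 401) (nat_lit 334)) (XT.lf (nat_lit 76) (nat_lit 2596951395) (nat_lit 0) (nat_lit 5235947894) (nat_lit 304) (nat_lit 2596951395) (nat_lit 197) (nat_lit 1) (nat_lit 196) (nat_lit 1) (nat_lit 200) (nat_lit 1) (nat_lit 286) (nat_lit 401) (nat_lit 333))) (XT.nd (nat_lit 78) (nat_lit 304) (nat_lit 0) (XT.lf (nat_lit 304) (nat_lit 2488890205) (nat_lit 0) (nat_lit 3913400154) (nat_lit 228) (nat_lit 3913400154) (nat_lit 197) (nat_lit 1) (nat_lit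 193) (nat_lit 1) (nat_lit 196) (nat_lit 1) (nat_lit 287) (nat_lit 401) (nat_lit 332)) (XT.lf (nat_lit 304) (nat_lit 10043653702) (nat_lit 0) (nat_lit 80195030) (nat_lit 228) (nat_lit 80195030) (nat_lit 193) (nat_lit 1) (nat_lit 189) (nat_lit 1) (nat_lit 192) (nat_lit 1) (nat_lit 288) (nat_lit 401) (nat_lit 331)))) (XT.nd (nat_lit 156) (nat_lit 456) (nat_lit 0) (XT.nd (nat_lit 78) (nat_lit 228) (nat_lit 0) (XT.lf (nat_lit 76) (nat_lit 3655077857) (nat_lit 0) (nat_lit 2781899936) (nat_lit 304) (nat_lit 3655077857) (nat_lit 190) (nat_lit 1) (nat_lit 189) (nat_lit 1) (nat_lit 193) (nat_lit 1) (nat_lit 289) (nat_lit 401) (nat_lit 330)) (XT.lf (nat_lit 304) (nat_lit 4629000644) (nat_lit 0) (nat_lit 2676767154) (nat_lit 228) (nat_lit 2676767154) (nat_lit 190) (nat_lit 1) (nat_lit 186) (nat_lit 1) (nat_lit 189) (nat_lit 1) (nat_lit 290) (nat_lit 401) (nat_lit 329))) (XT.nd (nat_lit 78) (nat_lit 456) (nat_lit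 0) (XT.lf (nat_lit 76) (nat_lit 990052889) (nat_lit 0) (nat_lit 7894763494) (nat_lit 304) (nat_lit 990052889) (nat_lit 187) (nat_lit 1) (nat_lit 186) (nat_lit 1) (nat_lit 190) (nat_lit 1) (nat_lit 291) (nat_lit 401) (nat_lit 328)) (XT.nd (nat_lit 78) (nat_lit 228) (nat_lit 0) (XT.lf (nat_lit 76) (nat_lit 4555955528) (nat_lit 0) (nat_lit 655981138) (nat_lit 228) (nat_lit 4555955528) (nat_lit 184) (nat_lit 1) (nat_lit 183) (nat_lit 1) (nat_lit 186) (nat_lit 1) (nat_lit 292) (nat_lit 401) (nat_lit 327)) (XT.lf (nat_lit 304) (nat_lit 6460043945) (nat_lit 0) (nat_lit 1601342658) (nat_lit 228) (nat_lit 1601342658) (nat_lit 184) (nat_lit 1) (nat_lit 180) (nat_lit 1) (nat_lit 183) (nat_lit 1) (nat_lit 293) (nat_lit 401) (nat_lit 326)))))) (XT.nd (nat_lit 390) (nat_lit 608) (nat_lit 0) (XT.nd (nat_lit 156) (nat_lit 456) (nat_lit 0) (XT.nd (nat_lit 78) (nat_lit 152) (nat_lit 0) (XT.lf (nat_lit 76) (nat_lit 1910727425)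 (nat_lit 0) (nat_lit 5737311540) (nat_lit 304) (nat_lit 1910727425) (nat_lit 181) (nat_lit 1) (nat_lit 180) (nat_lit 1) (nat_lit 184) (nat_lit 1) (nat_lit 294) (nat_lit 401) (nat_lit 325)) (XT.lf (nat_lit 228) (nat_lit 1203469714) (nat_lit 0) (nat_lit 4126361777) (nat_lit 152) (nat_lit 4126361777) (nat_lit 181) (nat_lit 1) (nat_lit 178) (nat_lit 1) (nat_lit 180) (nat_lit 1) (nat_lit 295) (nat_lit 401) (nat_lit 324))) (XT.nd (nat_lit 78) (nat_lit 152) (nat_lit 0) (XT.lf (nat_lit 304) (nat_lit 8018536081) (nat_lit 0) (nat_lit 668470960) (nat_lit 228) (nat_lit 668470960) (nat_lit 178) (nat_lit 1) (nat_lit 174) (nat_lit 1) (nat_lit 177) (nat_lit 1) (nat_lit 296) (nat_lit 401) (nat_lit 323)) (XT.nd (nat_lit 78) (nat_lit 152) (nat_lit 0) (XT.lf (nat_lit 76) (nat_lit 2698703420) (nat_lit 0) (nat_lit 3857640031) (nat_lit 304) (nat_lit 2698703420) (nat_lit 175) (nat_lit 1) (nat_lit 174) (nat_lit 1) (nat_lit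 178) (nat_lit 1) (nat_lit 297) (nat_lit 401) (nat_lit 322)) (XT.lf (nat_lit 228) (nat_lit 2814801170) (nat_lit 0) (nat_lit 3170819098) (nat_lit 152) (nat_lit 3170819098) (nat_lit 175) (nat_lit 1) (nat_lit 172) (nat_lit 1) (nat_lit 174) (nat_lit 1) (nat_lit 298) (nat_lit 401) (nat_lit 321))))) (XT.nd (nat_lit 156) (nat_lit 380) (nat_lit 0) (XT.nd (nat_lit 78) (nat_lit 228) (nat_lit 0) (XT.lf (nat_lit 76) (nat_lit 139773852) (nat_lit 0) (nat_lit 8780344491) (nat_lit 228) (nat_lit 139773852) (nat_lit 173) (nat_lit 1) (nat_lit 172) (nat_lit 1) (nat_lit 175) (nat_lit 1) (nat_lit 299) (nat_lit 401) (nat_lit 320)) (XT.lf (nat_lit 76) (nat_lit 3369653181) (nat_lit 0) (nat_lit 2223689453) (nat_lit 228) (nat_lit 3369653181) (nat_lit 170) (nat_lit 1) (nat_lit 169) (nat_lit 1) (nat_lit 172) (nat_lit 1) (nat_lit 300) (nat_lit 401) (nat_lit 319))) (XT.nd (nat_lit 78) (nat_lit 228) (nat_lit 0) (XT.lf (nat_lit 228)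 (nat_lit 4195607505) (nat_lit 0) (nat_lit 2336260927) (nat_lit 152) (nat_lit 2336260927) (nat_lit 170) (nat_lit 1) (nat_lit 167) (nat_lit 1) (nat_lit 169) (nat_lit 1) (nat_lit 301) (nat_lit 401) (nat_lit 318)) (XT.nd (nat_lit 78) (nat_lit 228) (nat_lit 0) (XT.lf (nat_lit 76) (nat_lit 842228147) (nat_lit 0) (nat_lit 7090359785) (nat_lit 228) (nat_lit 842228147) (nat_lit 168) (nat_lit 1) (nat_lit 167) (nat_lit 1) (nat_lit 170) (nat_lit 1) (nat_lit 302) (nat_lit 401) (nat_lit 317)) (XT.lf (nat_lit 76) (nat_lit 3937475874) (nat_lit 0) (nat_lit 807006899) (nat_lit 228) (nat_lit 3937475874) (nat_lit 165) (nat_lit 1) (nat_lit 164) (nat_lit 1) (nat_lit 167) (nat_lit 1) (nat_lit 303) (nat_lit 401) (nat_lit 316))))))) (XT.nd (nat_lit 702) (nat_lit 912) (nat_lit 0) (XT.nd (nat_lit 312) (nat_lit 532) (nat_lit 0) (XT.nd (nat_lit 156) (nat_lit 380) (nat_lit 0) (XT.nd (nat_lit 78) (nat_lit 0) (nat_lit 0) (XT.lf (nat_lit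 228) (nat_lit 5373076055) (nat_lit 0) (nat_lit 1608775658) (nat_lit 152) (nat_lit 1608775658) (nat_lit 165) (nat_lit 1) (nat_lit 162) (nat_lit 1) (nat_lit 164) (nat_lit 1) (nat_lit 304) (nat_lit 401) (nat_lit 315)) (XT.lf (nat_lit 76) (nat_lit 1445435877) (nat_lit 0) (nat_lit 5609534997) (nat_lit 228) (nat_lit 1445435877) (nat_lit 163) (nat_lit 1) (nat_lit 162) (nat_lit 1) (nat_lit 165) (nat_lit 1) (nat_lit 305) (nat_lit 401) (nat_lit 314))) (XT.nd (nat_lit 78) (nat_lit 228) (nat_lit 0) (XT.lf (nat_lit 228) (nat_lit 425969227) (nat_lit 0) (nat_lit 3992621441) (nat_lit 152) (nat_lit 3992621441) (nat_lit 163) (nat_lit 1) (nat_lit 160) (nat_lit 1) (nat_lit 162) (nat_lit 1) (nat_lit 306) (nat_lit 401) (nat_lit 313)) (XT.lf (nat_lit 228) (nat_lit 6371319288) (nat_lit 0) (nat_lit 976015252) (nat_lit 152) (nat_lit 976015252) (nat_lit 160) (nat_lit 1) (nat_lit 157) (nat_lit 1) (nat_lit 159) (nat_lit 1) (nat_lit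 307) (nat_lit 401) (nat_lit 312)))) (XT.nd (nat_lit 156) (nat_lit 380) (nat_lit 0) (XT.nd (nat_lit 78) (nat_lit 152) (nat_lit 0) (XT.lf (nat_lit 76) (nat_lit 1961073461) (nat_lit 0) (nat_lit 4313943038) (nat_lit 228) (nat_lit 1961073461) (nat_lit 158) (nat_lit 1) (nat_lit 157) (nat_lit 1) (nat_lit 160) (nat_lit 1) (nat_lit 308) (nat_lit 401) (nat_lit 311)) (XT.lf (nat_lit 228) (nat_lit 1502016115) (nat_lit 0) (nat_lit 3324061854) (nat_lit 152) (nat_lit 3324061854) (nat_lit 158) (nat_lit 1) (nat_lit 155) (nat_lit 1) (nat_lit 157) (nat_lit 1) (nat_lit 309) (nat_lit 401) (nat_lit 310))) (XT.nd (nat_lit 78) (nat_lit 152) (nat_lit 0) (XT.lf (nat_lit 228) (nat_lit 7211718942) (nat_lit 0) (nat_lit 427020519) (nat_lit 152) (nat_lit 427020519) (nat_lit 155) (nat_lit 1) (nat_lit 152) (nat_lit 1) (nat_lit 154) (nat_lit 1) (nat_lit 310) (nat_lit 401) (nat_lit 309)) (XT.nd (nat_lit 78) (nat_lit 152) (nat_lit 0)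 (XT.lf (nat_lit 76) (nat_lit 2399497501) (nat_lit 0) (nat_lit 3182342561) (nat_lit 228) (nat_lit 2399497501) (nat_lit 153) (nat_lit 1) (nat_lit 152) (nat_lit 1) (nat_lit 155) (nat_lit 1) (nat_lit 311) (nat_lit 401) (nat_lit 308)) (XT.lf (nat_lit 228) (nat_lit 2425345140) (nat_lit 0) (nat_lit 2736560096) (nat_lit 152) (nat_lit 2736560096) (nat_lit 153) (nat_lit 1) (nat_lit 150) (nat_lit 1) (nat_lit 152) (nat_lit 1) (nat_lit 312) (nat_lit 401) (nat_lit 307)))))) (XT.nd (nat_lit 390) (nat_lit 456) (nat_lit 0) (XT.nd (nat_lit 156) (nat_lit 304) (nat_lit 0) (XT.nd (nat_lit 78) (nat_lit 152) (nat_lit 0) (XT.lf (nat_lit 76) (nat_lit 48408696) (nat_lit 0) (nat_lit 7720490045) (nat_lit 228) (nat_lit 48408696) (nat_lit 151) (nat_lit 1) (nat_lit 150) (nat_lit 1) (nat_lit 153) (nat_lit 1) (nat_lit 313) (nat_lit 401) (nat_lit 306)) (XT.lf (nat_lit 76) (nat_lit 2769892482) (nat_lit 0) (nat_lit 2195877960) (nat_lit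 152) (nat_lit 2769892482) (nat_lit 149) (nat_lit 1) (nat_lit 148) (nat_lit 1) (nat_lit 150) (nat_lit 1) (nat_lit 314) (nat_lit 401) (nat_lit 305))) (XT.nd (nat_lit 78) (nat_lit 152) (nat_lit 0) (XT.lf (nat_lit 228) (nat_lit 3213939468) (nat_lit 0) (nat_lit 2220887707) (nat_lit 152) (nat_lit 2220887707) (nat_lit 149) (nat_lit 1) (nat_lit 146) (nat_lit 1) (nat_lit 148) (nat_lit 1) (nat_lit 315) (nat_lit 401) (nat_lit 304)) (XT.nd (nat_lit 78) (nat_lit 152) (nat_lit 0) (XT.lf (nat_lit 76) (nat_lit 462007931) (nat_lit 0) (nat_lit 6653152733) (nat_lit 228) (nat_lit 462007931) (nat_lit 147) (nat_lit 1) (nat_lit 146) (nat_lit 1) (nat_lit 149) (nat_lit 1) (nat_lit 316) (nat_lit 401) (nat_lit 303)) (XT.lf (nat_lit 76) (nat_lit 3080401973) (nat_lit 0) (nat_lit 1337812827) (nat_lit 152) (nat_lit 3080401973) (nat_lit 145) (nat_lit 1) (nat_lit 144) (nat_lit 1) (nat_lit 146) (nat_lit 1) (nat_lit 317) (nat_lit 401)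 (nat_lit 302))))) (XT.nd (nat_lit 156) (nat_lit 304) (nat_lit 0) (XT.nd (nat_lit 78) (nat_lit 0) (nat_lit 0) (XT.lf (nat_lit 228) (nat_lit 3883749148) (nat_lit 0) (nat_lit 1768850842) (nat_lit 152) (nat_lit 1768850842) (nat_lit 145) (nat_lit 1) (nat_lit 142) (nat_lit 1) (nat_lit 144) (nat_lit 1) (nat_lit 318) (nat_lit 401) (nat_lit 301)) (XT.lf (nat_lit 76) (nat_lit 817281686) (nat_lit 0) (nat_lit 5710849083) (nat_lit 228) (nat_lit 817281686) (nat_lit 143) (nat_lit 1) (nat_lit 142) (nat_lit 1) (nat_lit 145) (nat_lit 1) (nat_lit 319) (nat_lit 401) (nat_lit 300))) (XT.nd (nat_lit 78) (nat_lit 152) (nat_lit 0) (XT.lf (nat_lit 76) (nat_lit 3338245196) (nat_lit 0) (nat_lit 593293157) (nat_lit 152) (nat_lit 3338245196) (nat_lit 141) (nat_lit 1) (nat_lit 140) (nat_lit 1) (nat_lit 142) (nat_lit 1) (nat_lit 320) (nat_lit 401) (nat_lit 299)) (XT.nd (nat_lit 78) (nat_lit 0) (nat_lit 0) (XT.lf (nat_lit 228) (nat_lit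 4448918638) (nat_lit 0) (nat_lit 1373174733) (nat_lit 152) (nat_lit 1373174733) (nat_lit 141) (nat_lit 1) (nat_lit 138) (nat_lit 1) (nat_lit 140) (nat_lit 1) (nat_lit 321) (nat_lit 401) (nat_lit 298)) (XT.lf (nat_lit 76) (nat_lit 1121089457) (nat_lit 0) (nat_lit 4879461125) (nat_lit 228) (nat_lit 1121089457) (nat_lit 139) (nat_lit 1) (nat_lit 138) (nat_lit 1) (nat_lit 141) (nat_lit 1) (nat_lit 322) (nat_lit 401) (nat_lit 297))))))))
noncomputable def ec310 : XT := (XT.nd (nat_lit 1482) (nat_lit 1368) (nat_lit 0) (XT.nd (nat_lit 702) (nat_lit 912) (nat_lit 0) (XT.nd (nat_lit 312) (nat_lit 532) (nat_lit 0) (XT.nd (nat_lit 156) (nat_lit 76) (nat_lit 0) (XT.nd (nat_lit 78) (nat_lit 228) (nat_lit 0) (XT.lf (nat_lit 152) (nat_lit 51875310) (nat_lit 0) (nat_lit 3498443918) (nat_lit 76) (nat_lit 3498443918) (nat_lit 139) (nat_lit 1) (nat_lit 137) (nat_lit 1) (nat_lit 138) (nat_lit 1) (nat_lit 323) (nat_lit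 401) (nat_lit 296)) (XT.lf (nat_lit 228) (nat_lit 4921988940) (nat_lit 0) (nat_lit 1027401042) (nat_lit 152) (nat_lit 1027401042) (nat_lit 137) (nat_lit 1) (nat_lit 134) (nat_lit 1) (nat_lit 136) (nat_lit 1) (nat_lit 324) (nat_lit 401) (nat_lit 295))) (XT.nd (nat_lit 78) (nat_lit 76) (nat_lit 0) (XT.lf (nat_lit 76) (nat_lit 1379515467) (nat_lit 0) (nat_lit 4146450324) (nat_lit 228) (nat_lit 1379515467) (nat_lit 135) (nat_lit 1) (nat_lit 134) (nat_lit 1) (nat_lit 137) (nat_lit 1) (nat_lit 325) (nat_lit 401) (nat_lit 294)) (XT.lf (nat_lit 152) (nat_lit 618420233) (nat_lit 0) (nat_lit 3108322109) (nat_lit 76) (nat_lit 3108322109) (nat_lit 135) (nat_lit 1) (nat_lit 133) (nat_lit 1) (nat_lit 134) (nat_lit 1) (nat_lit 326) (nat_lit 401) (nat_lit 293)))) (XT.nd (nat_lit 156) (nat_lit 304) (nat_lit 0) (XT.nd (nat_lit 78) (nat_lit 0) (nat_lit 0) (XT.lf (nat_lit 228) (nat_lit 5314077163) (nat_lit 0) (nat_lit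 725796672) (nat_lit 152) (nat_lit 725796672) (nat_lit 133) (nat_lit 1) (nat_lit 130) (nat_lit 1) (nat_lit 132) (nat_lit 1) (nat_lit 327) (nat_lit 401) (nat_lit 292)) (XT.lf (nat_lit 76) (nat_lit 1597955416) (nat_lit 0) (nat_lit 3500681303) (nat_lit 228) (nat_lit 1597955416) (nat_lit 131) (nat_lit 1) (nat_lit 130) (nat_lit 1) (nat_lit 133) (nat_lit 1) (nat_lit 328) (nat_lit 401) (nat_lit 291))) (XT.nd (nat_lit 78) (nat_lit 228) (nat_lit 0) (XT.lf (nat_lit 152) (nat_lit 1105118263) (nat_lit 0) (nat_lit 2761703935) (nat_lit 76) (nat_lit 2761703935) (nat_lit 131) (nat_lit 1) (nat_lit 129) (nat_lit 1) (nat_lit 130) (nat_lit 1) (nat_lit 329) (nat_lit 401) (nat_lit 290)) (XT.nd (nat_lit 78) (nat_lit 0) (nat_lit 0) (XT.lf (nat_lit 228) (nat_lit 5635036052) (nat_lit 0) (nat_lit 463272741) (nat_lit 152) (nat_lit 463272741) (nat_lit 129) (nat_lit 1) (nat_lit 126) (nat_lit 1) (nat_lit 128) (nat_lit 1) (nat_lit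 330) (nat_lit 401) (nat_lit 289)) (XT.lf (nat_lit 76) (nat_lit 1781193556) (nat_lit 0) (nat_lit 2932265236) (nat_lit 228) (nat_lit 1781193556) (nat_lit 127) (nat_lit 1) (nat_lit 126) (nat_lit 1) (nat_lit 129) (nat_lit 1) (nat_lit 331) (nat_lit 401) (nat_lit 288)))))) (XT.nd (nat_lit 390) (nat_lit 304) (nat_lit 0) (XT.nd (nat_lit 156) (nat_lit 304) (nat_lit 0) (XT.nd (nat_lit 78) (nat_lit 228) (nat_lit 0) (XT.lf (nat_lit 152) (nat_lit 1521358889) (nat_lit 0) (nat_lit 2453738176) (nat_lit 76) (nat_lit 2453738176) (nat_lit 127) (nat_lit 1) (nat_lit 125) (nat_lit 1) (nat_lit 126) (nat_lit 1) (nat_lit 332) (nat_lit 401) (nat_lit 287)) (XT.lf (nat_lit 228) (nat_lit 5893595693) (nat_lit 0) (nat_lit 235312606) (nat_lit 152) (nat_lit 235312606) (nat_lit 125) (nat_lit 1) (nat_lit 122) (nat_lit 1) (nat_lit 124) (nat_lit 1) (nat_lit 333) (nat_lit 401) (nat_lit 286))) (XT.nd (nat_lit 78) (nat_lit 304) (nat_lit 0)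 (XT.lf (nat_lit 76) (nat_lit 1933471157) (nat_lit 0) (nat_lit 2432420691) (nat_lit 228) (nat_lit 1933471157) (nat_lit 123) (nat_lit 1) (nat_lit 122) (nat_lit 1) (nat_lit 125) (nat_lit 1) (nat_lit 334) (nat_lit 401) (nat_lit 285)) (XT.nd (nat_lit 78) (nat_lit 228) (nat_lit 0) (XT.lf (nat_lit 152) (nat_lit 1875470412) (nat_lit 0) (nat_lit 2180114588) (nat_lit 76) (nat_lit 2180114588) (nat_lit 123) (nat_lit 1) (nat_lit 121) (nat_lit 1) (nat_lit 122) (nat_lit 1) (nat_lit 335) (nat_lit 401) (nat_lit 284)) (XT.lf (nat_lit 228) (nat_lit 6097489406) (nat_lit 0) (nat_lit 37907907) (nat_lit 152) (nat_lit 37907907) (nat_lit 121) (nat_lit 1) (nat_lit 118) (nat_lit 1) (nat_lit 120) (nat_lit 1) (nat_lit 336) (nat_lit 401) (nat_lit 283))))) (XT.nd (nat_lit 156) (nat_lit 228) (nat_lit 0) (XT.nd (nat_lit 78) (nat_lit 76) (nat_lit 0) (XT.lf (nat_lit 76) (nat_lit 2058547335) (nat_lit 0) (nat_lit 1993350016) (nat_lit 228)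 (nat_lit 2058547335) (nat_lit 119) (nat_lit 1) (nat_lit 118) (nat_lit 1) (nat_lit 121) (nat_lit 1) (nat_lit 337) (nat_lit 401) (nat_lit 282)) (XT.lf (nat_lit 152) (nat_lit 2174838689) (nat_lit 0) (nat_lit 1937003575) (nat_lit 76) (nat_lit 1937003575) (nat_lit 119) (nat_lit 1) (nat_lit 117) (nat_lit 1) (nat_lit 118) (nat_lit 1) (nat_lit 338) (nat_lit 401) (nat_lit 281))) (XT.nd (nat_lit 78) (nat_lit 228) (nat_lit 0) (XT.lf (nat_lit 0) (nat_lit 133810106) (nat_lit 0) (nat_lit 5720793743) (nat_lit 152) (nat_lit 133810106) (nat_lit 117) (nat_lit 3) (nat_lit 117) (nat_lit 1) (nat_lit 119) (nat_lit 1) (nat_lit 339) (nat_lit 401) (nat_lit 280)) (XT.nd (nat_lit 78) (nat_lit 76) (nat_lit 0) (XT.lf (nat_lit 76) (nat_lit 2159753087) (nat_lit 0) (nat_lit 1608129493) (nat_lit 152) (nat_lit 2159753087) (nat_lit 116) (nat_lit 1) (nat_lit 115) (nat_lit 1) (nat_lit 117) (nat_lit 1) (nat_lit 340) (nat_lit 401) (nat_lit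 279)) (XT.lf (nat_lit 152) (nat_lit 2426012626) (nat_lit 0) (nat_lit 1721002588) (nat_lit 76) (nat_lit 1721002588) (nat_lit 116) (nat_lit 1) (nat_lit 114) (nat_lit 1) (nat_lit 115) (nat_lit 1) (nat_lit 341) (nat_lit 401) (nat_lit 278))))))) (XT.nd (nat_lit 702) (nat_lit 684) (nat_lit 0) (XT.nd (nat_lit 312) (nat_lit 456) (nat_lit 0) (XT.nd (nat_lit 156) (nat_lit 76) (nat_lit 0) (XT.nd (nat_lit 78) (nat_lit 152) (nat_lit 0) (XT.lf (nat_lit 0) (nat_lit 281824724) (nat_lit 0) (nat_lit 5245787323) (nat_lit 152) (nat_lit 281824724) (nat_lit 114) (nat_lit 3) (nat_lit 114) (nat_lit 1) (nat_lit 116) (nat_lit 1) (nat_lit 342) (nat_lit 401) (nat_lit 277)) (XT.lf (nat_lit 76) (nat_lit 2240039286) (nat_lit 0) (nat_lit 1270611761) (nat_lit 152) (nat_lit 2240039286) (nat_lit 113) (nat_lit 1) (nat_lit 112) (nat_lit 1) (nat_lit 114) (nat_lit 1) (nat_lit 343) (nat_lit 401) (nat_lit 276))) (XT.nd (nat_lit 78) (nat_lit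 0) (nat_lit 0) (XT.lf (nat_lit 152) (nat_lit 2634797903) (nat_lit 0) (nat_lit 1529088509) (nat_lit 76) (nat_lit 1529088509) (nat_lit 113) (nat_lit 1) (nat_lit 111) (nat_lit 1) (nat_lit 112) (nat_lit 1) (nat_lit 344) (nat_lit 401) (nat_lit 275)) (XT.lf (nat_lit 0) (nat_lit 408588082) (nat_lit 0) (nat_lit 4819004556) (nat_lit 152) (nat_lit 408588082) (nat_lit 111) (nat_lit 3) (nat_lit 111) (nat_lit 1) (nat_lit 113) (nat_lit 1) (nat_lit 345) (nat_lit 401) (nat_lit 274)))) (XT.nd (nat_lit 156) (nat_lit 228) (nat_lit 0) (XT.nd (nat_lit 78) (nat_lit 76) (nat_lit 0) (XT.lf (nat_lit 76) (nat_lit 2302019332) (nat_lit 0) (nat_lit 975339118) (nat_lit 152) (nat_lit 2302019332) (nat_lit 110) (nat_lit 1) (nat_lit 109) (nat_lit 1) (nat_lit 111) (nat_lit 1) (nat_lit 346) (nat_lit 401) (nat_lit 273)) (XT.lf (nat_lit 152) (nat_lit 2806340225) (nat_lit 0) (nat_lit 1358575335) (nat_lit 76) (nat_lit 1358575335) (nat_lit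 110) (nat_lit 1) (nat_lit 108) (nat_lit 1) (nat_lit 109) (nat_lit 1) (nat_lit 347) (nat_lit 401) (nat_lit 272))) (XT.nd (nat_lit 78) (nat_lit 228) (nat_lit 0) (XT.lf (nat_lit 0) (nat_lit 516608193) (nat_lit 0) (nat_lit 4435206107) (nat_lit 152) (nat_lit 516608193) (nat_lit 108) (nat_lit 3) (nat_lit 108) (nat_lit 1) (nat_lit 110) (nat_lit 1) (nat_lit 348) (nat_lit 401) (nat_lit 271)) (XT.nd (nat_lit 78) (nat_lit 76) (nat_lit 0) (XT.lf (nat_lit 76) (nat_lit 2348007020) (nat_lit 0) (nat_lit 717466489) (nat_lit 152) (nat_lit 2348007020) (nat_lit 107) (nat_lit 1) (nat_lit 106) (nat_lit 1) (nat_lit 108) (nat_lit 1) (nat_lit 349) (nat_lit 401) (nat_lit 270)) (XT.lf (nat_lit 152) (nat_lit 2945199286) (nat_lit 0) (nat_lit 1207076589) (nat_lit 76) (nat_lit 1207076589) (nat_lit 107) (nat_lit 1) (nat_lit 105) (nat_lit 1) (nat_lit 106) (nat_lit 1) (nat_lit 350) (nat_lit 401) (nat_lit 269)))))) (XT.nd (nat_lit 390)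 (nat_lit 304) (nat_lit 0) (XT.nd (nat_lit 156) (nat_lit 228) (nat_lit 0) (XT.nd (nat_lit 78) (nat_lit 152) (nat_lit 0) (XT.lf (nat_lit 0) (nat_lit 608109373) (nat_lit 0) (nat_lit 4089732865) (nat_lit 152) (nat_lit 608109373) (nat_lit 105) (nat_lit 3) (nat_lit 105) (nat_lit 1) (nat_lit 107) (nat_lit 1) (nat_lit 351) (nat_lit 401) (nat_lit 268)) (XT.lf (nat_lit 76) (nat_lit 2380050194) (nat_lit 0) (nat_lit 492692999) (nat_lit 152) (nat_lit 2380050194) (nat_lit 104) (nat_lit 1) (nat_lit 103) (nat_lit 1) (nat_lit 105) (nat_lit 1) (nat_lit 352) (nat_lit 401) (nat_lit 267))) (XT.nd (nat_lit 78) (nat_lit 152) (nat_lit 0) (XT.lf (nat_lit 152) (nat_lit 3055414471) (nat_lit 0) (nat_lit 1072471915) (nat_lit 76) (nat_lit 1072471915) (nat_lit 104) (nat_lit 1) (nat_lit 102) (nat_lit 1) (nat_lit 103) (nat_lit 1) (nat_lit 353) (nat_lit 401) (nat_lit 266)) (XT.nd (nat_lit 78) (nat_lit 152) (nat_lit 0) (XT.lf (nat_lit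 0) (nat_lit 685063986) (nat_lit 0) (nat_lit 3778441364) (nat_lit 152) (nat_lit 685063986) (nat_lit 102) (nat_lit 3) (nat_lit 102) (nat_lit 1) (nat_lit 104) (nat_lit 1) (nat_lit 354) (nat_lit 401) (nat_lit 265)) (XT.lf (nat_lit 76) (nat_lit 2399960633) (nat_lit 0) (nat_lit 297201169) (nat_lit 152) (nat_lit 2399960633) (nat_lit 101) (nat_lit 1) (nat_lit 100) (nat_lit 1) (nat_lit 102) (nat_lit 1) (nat_lit 355) (nat_lit 401) (nat_lit 264))))) (XT.nd (nat_lit 156) (nat_lit 228) (nat_lit 0) (XT.nd (nat_lit 78) (nat_lit 0) (nat_lit 0) (XT.lf (nat_lit 152) (nat_lit 3140563225) (nat_lit 0) (nat_lit 952877406) (nat_lit 76) (nat_lit 952877406) (nat_lit 101) (nat_lit 1) (nat_lit 99) (nat_lit 1) (nat_lit 100) (nat_lit 1) (nat_lit 356) (nat_lit 401) (nat_lit 263)) (XT.lf (nat_lit 0) (nat_lit 749220657) (nat_lit 0) (nat_lit 3497646392) (nat_lit 152) (nat_lit 749220657) (nat_lit 99) (nat_lit 3) (nat_lit 99) (nat_lit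 1) (nat_lit 101) (nat_lit 1) (nat_lit 357) (nat_lit 401) (nat_lit 262))) (XT.nd (nat_lit 78) (nat_lit 76) (nat_lit 0) (XT.lf (nat_lit 76) (nat_lit 2409340601) (nat_lit 0) (nat_lit 127602905) (nat_lit 152) (nat_lit 2409340601) (nat_lit 98) (nat_lit 1) (nat_lit 97) (nat_lit 1) (nat_lit 99) (nat_lit 1) (nat_lit 358) (nat_lit 401) (nat_lit 261)) (XT.nd (nat_lit 78) (nat_lit 0) (nat_lit 0) (XT.lf (nat_lit 152) (nat_lit 3203812895) (nat_lit 0) (nat_lit 846619233) (nat_lit 76) (nat_lit 846619233) (nat_lit 98) (nat_lit 1) (nat_lit 96) (nat_lit 1) (nat_lit 97) (nat_lit 1) (nat_lit 359) (nat_lit 401) (nat_lit 260)) (XT.lf (nat_lit 0) (nat_lit 802129334) (nat_lit 0) (nat_lit 3244070002) (nat_lit 152) (nat_lit 802129334) (nat_lit 96) (nat_lit 3) (nat_lit 96) (nat_lit 1) (nat_lit 98) (nat_lit 1) (nat_lit 360) (nat_lit 401) (nat_lit 259))))))))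
noncomputable def ec311 : XT := (XT.nd (nat_lit 1482) (nat_lit 1520) (nat_lit 0) (XT.nd (nat_lit 702) (nat_lit 760) (nat_lit 0) (XT.nd (nat_lit 312) (nat_lit 380) (nat_lit 0) (XT.nd (nat_lit 156) (nat_lit 76) (nat_lit 0) (XT.nd (nat_lit 78) (nat_lit 152) (nat_lit 0) (XT.lf (nat_lit 76) (nat_lit 19488790) (nat_lit 0) (nat_lit 2390304973) (nat_lit 76) (nat_lit 2390304973) (nat_lit 96) (nat_lit 3) (nat_lit 95) (nat_lit 1) (nat_lit 96) (nat_lit 1) (nat_lit 361) (nat_lit 401) (nat_lit 258)) (XT.lf (nat_lit 152) (nat_lit 3247966792) (nat_lit 0) (nat_lit 752210223) (nat_lit 76) (nat_lit 752210223) (nat_lit 95) (nat_lit 1) (nat_lit 93) (nat_lit 1) (nat_lit 94) (nat_lit 1) (nat_lit 362) (nat_lit 401) (nat_lit 257))) (XT.nd (nat_lit 78) (nat_lit 76) (nat_lit 0) (XT.lf (nat_lit 0) (nat_lit 845163547) (nat_lit 0) (nat_lit 3014796202) (nat_lit 152) (nat_lit 845163547) (nat_lit 93) (nat_lit 3) (nat_lit 93) (nat_lit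 1) (nat_lit 95) (nat_lit 1) (nat_lit 363) (nat_lit 401) (nat_lit 256)) (XT.lf (nat_lit 76) (nat_lit 148498718) (nat_lit 0) (nat_lit 2254938189) (nat_lit 76) (nat_lit 2254938189) (nat_lit 93) (nat_lit 3) (nat_lit 92) (nat_lit 1) (nat_lit 93) (nat_lit 1) (nat_lit 364) (nat_lit 401) (nat_lit 255)))) (XT.nd (nat_lit 156) (nat_lit 228) (nat_lit 0) (XT.nd (nat_lit 78) (nat_lit 0) (nat_lit 0) (XT.lf (nat_lit 152) (nat_lit 3275505098) (nat_lit 0) (nat_lit 668329040) (nat_lit 76) (nat_lit 668329040) (nat_lit 92) (nat_lit 1) (nat_lit 90) (nat_lit 1) (nat_lit 91) (nat_lit 1) (nat_lit 365) (nat_lit 401) (nat_lit 254)) (XT.lf (nat_lit 0) (nat_lit 879540189) (nat_lit 0) (nat_lit 2807230701) (nat_lit 152) (nat_lit 879540189) (nat_lit 90) (nat_lit 3) (nat_lit 90) (nat_lit 1) (nat_lit 92) (nat_lit 1) (nat_lit 366) (nat_lit 401) (nat_lit 253))) (XT.nd (nat_lit 78) (nat_lit 152) (nat_lit 0) (XT.lf (nat_lit 76) (nat_lit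 259301498) (nat_lit 0) (nat_lit 2130845685) (nat_lit 76) (nat_lit 2130845685) (nat_lit 90) (nat_lit 3) (nat_lit 89) (nat_lit 1) (nat_lit 90) (nat_lit 1) (nat_lit 367) (nat_lit 401) (nat_lit 252)) (XT.nd (nat_lit 78) (nat_lit 0) (nat_lit 0) (XT.lf (nat_lit 152) (nat_lit 3288621205) (nat_lit 0) (nat_lit 593801696) (nat_lit 76) (nat_lit 593801696) (nat_lit 89) (nat_lit 1) (nat_lit 87) (nat_lit 1) (nat_lit 88) (nat_lit 1) (nat_lit 368) (nat_lit 401) (nat_lit 251)) (XT.lf (nat_lit 0) (nat_lit 906337079) (nat_lit 0) (nat_lit 2619065132) (nat_lit 152) (nat_lit 906337079) (nat_lit 87) (nat_lit 3) (nat_lit 87) (nat_lit 1) (nat_lit 89) (nat_lit 1) (nat_lit 369) (nat_lit 401) (nat_lit 250)))))) (XT.nd (nat_lit 390) (nat_lit 304) (nat_lit 0) (XT.nd (nat_lit 156) (nat_lit 228) (nat_lit 0) (XT.nd (nat_lit 78) (nat_lit 152) (nat_lit 0) (XT.lf (nat_lit 76) (nat_lit 354038751) (nat_lit 0) (nat_lit 2016881521) (nat_lit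 76) (nat_lit 2016881521) (nat_lit 87) (nat_lit 3) (nat_lit 86) (nat_lit 1) (nat_lit 87) (nat_lit 1) (nat_lit 370) (nat_lit 401) (nat_lit 249)) (XT.lf (nat_lit 152) (nat_lit 3289253997) (nat_lit 0) (nat_lit 527585116) (nat_lit 76) (nat_lit 527585116) (nat_lit 86) (nat_lit 1) (nat_lit 84) (nat_lit 1) (nat_lit 85) (nat_lit 1) (nat_lit 371) (nat_lit 401) (nat_lit 248))) (XT.nd (nat_lit 78) (nat_lit 228) (nat_lit 0) (XT.lf (nat_lit 0) (nat_lit 926508574) (nat_lit 0) (nat_lit 2448245266) (nat_lit 152) (nat_lit 926508574) (nat_lit 84) (nat_lit 3) (nat_lit 84) (nat_lit 1) (nat_lit 86) (nat_lit 1) (nat_lit 372) (nat_lit 401) (nat_lit 247)) (XT.nd (nat_lit 78) (nat_lit 152) (nat_lit 0) (XT.lf (nat_lit 76) (nat_lit 434610038) (nat_lit 0) (nat_lit 1912024302) (nat_lit 76) (nat_lit 1912024302) (nat_lit 84) (nat_lit 3) (nat_lit 83) (nat_lit 1) (nat_lit 84) (nat_lit 1) (nat_lit 373) (nat_lit 401) (nat_lit 246)) (XT.lf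 (nat_lit 152) (nat_lit 3279116516) (nat_lit 0) (nat_lit 468752542) (nat_lit 76) (nat_lit 468752542) (nat_lit 83) (nat_lit 1) (nat_lit 81) (nat_lit 1) (nat_lit 82) (nat_lit 1) (nat_lit 374) (nat_lit 401) (nat_lit 245))))) (XT.nd (nat_lit 156) (nat_lit 228) (nat_lit 0) (XT.nd (nat_lit 78) (nat_lit 76) (nat_lit 0) (XT.lf (nat_lit 0) (nat_lit 940899430) (nat_lit 0) (nat_lit 2292942771) (nat_lit 152) (nat_lit 940899430) (nat_lit 81) (nat_lit 3) (nat_lit 81) (nat_lit 1) (nat_lit 83) (nat_lit 1) (nat_lit 375) (nat_lit 401) (nat_lit 244)) (XT.lf (nat_lit 76) (nat_lit 502699946) (nat_lit 0) (nat_lit 1815363384) (nat_lit 76) (nat_lit 1815363384) (nat_lit 81) (nat_lit 3) (nat_lit 80) (nat_lit 1) (nat_lit 81) (nat_lit 1) (nat_lit 376) (nat_lit 401) (nat_lit 243))) (XT.nd (nat_lit 78) (nat_lit 76) (nat_lit 0) (XT.lf (nat_lit 152) (nat_lit 3259721429) (nat_lit 0) (nat_lit 416480562) (nat_lit 76) (nat_lit 416480562)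 (nat_lit 80) (nat_lit 1) (nat_lit 78) (nat_lit 1) (nat_lit 79) (nat_lit 1) (nat_lit 377) (nat_lit 401) (nat_lit 242)) (XT.nd (nat_lit 78) (nat_lit 76) (nat_lit 0) (XT.lf (nat_lit 0) (nat_lit 950257114) (nat_lit 0) (nat_lit 2151530111) (nat_lit 152) (nat_lit 950257114) (nat_lit 78) (nat_lit 3) (nat_lit 78) (nat_lit 1) (nat_lit 80) (nat_lit 1) (nat_lit 378) (nat_lit 401) (nat_lit 241)) (XT.lf (nat_lit 76) (nat_lit 559802154) (nat_lit 0) (nat_lit 1726086617) (nat_lit 76) (nat_lit 1726086617) (nat_lit 78) (nat_lit 3) (nat_lit 77) (nat_lit 1) (nat_lit 78) (nat_lit 1) (nat_lit 379) (nat_lit 401) (nat_lit 240))))))) (XT.nd (nat_lit 702) (nat_lit 836) (nat_lit 0) (XT.nd (nat_lit 312) (nat_lit 304) (nat_lit 0) (XT.nd (nat_lit 156) (nat_lit 228) (nat_lit 0) (XT.nd (nat_lit 78) (nat_lit 0) (nat_lit 0) (XT.lf (nat_lit 152) (nat_lit 3232403644) (nat_lit 0) (nat_lit 370037585) (nat_lit 76) (nat_lit 370037585) (nat_lit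 77) (nat_lit 1) (nat_lit 75) (nat_lit 1) (nat_lit 76) (nat_lit 1) (nat_lit 380) (nat_lit 401) (nat_lit 239)) (XT.lf (nat_lit 0) (nat_lit 955242747) (nat_lit 0) (nat_lit 2022558245) (nat_lit 152) (nat_lit 955242747) (nat_lit 75) (nat_lit 3) (nat_lit 75) (nat_lit 1) (nat_lit 77) (nat_lit 1) (nat_lit 381) (nat_lit 401) (nat_lit 238))) (XT.nd (nat_lit 78) (nat_lit 152) (nat_lit 0) (XT.lf (nat_lit 76) (nat_lit 607240811) (nat_lit 0) (nat_lit 1643469451) (nat_lit 76) (nat_lit 1643469451) (nat_lit 75) (nat_lit 3) (nat_lit 74) (nat_lit 1) (nat_lit 75) (nat_lit 1) (nat_lit 382) (nat_lit 401) (nat_lit 237)) (XT.lf (nat_lit 152) (nat_lit 3198340398) (nat_lit 0) (nat_lit 328773602) (nat_lit 76) (nat_lit 328773602) (nat_lit 74) (nat_lit 1) (nat_lit 72) (nat_lit 1) (nat_lit 73) (nat_lit 1) (nat_lit 383) (nat_lit 401) (nat_lit 236)))) (XT.nd (nat_lit 156) (nat_lit 228) (nat_lit 0) (XT.nd (nat_lit 78) (nat_lit 76)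 (nat_lit 0) (XT.lf (nat_lit 0) (nat_lit 956440817) (nat_lit 0) (nat_lit 1904736813) (nat_lit 152) (nat_lit 956440817) (nat_lit 72) (nat_lit 3) (nat_lit 72) (nat_lit 1) (nat_lit 74) (nat_lit 1) (nat_lit 384) (nat_lit 401) (nat_lit 235)) (XT.lf (nat_lit 76) (nat_lit 646189526) (nat_lit 0) (nat_lit 1566865251) (nat_lit 76) (nat_lit 1566865251) (nat_lit 72) (nat_lit 3) (nat_lit 71) (nat_lit 1) (nat_lit 72) (nat_lit 1) (nat_lit 385) (nat_lit 401) (nat_lit 234))) (XT.nd (nat_lit 78) (nat_lit 76) (nat_lit 0) (XT.lf (nat_lit 152) (nat_lit 3158569092) (nat_lit 0) (nat_lit 292111087) (nat_lit 76) (nat_lit 292111087) (nat_lit 71) (nat_lit 1) (nat_lit 69) (nat_lit 1) (nat_lit 70) (nat_lit 1) (nat_lit 386) (nat_lit 401) (nat_lit 233)) (XT.nd (nat_lit 78) (nat_lit 76) (nat_lit 0) (XT.lf (nat_lit 0) (nat_lit 954367810) (nat_lit 0) (nat_lit 1796916521) (nat_lit 152) (nat_lit 954367810) (nat_lit 69) (nat_lit 3) (nat_lit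 69) (nat_lit 1) (nat_lit 71) (nat_lit 1) (nat_lit 387) (nat_lit 401) (nat_lit 232)) (XT.lf (nat_lit 76) (nat_lit 677688238) (nat_lit 0) (nat_lit 1495696695) (nat_lit 76) (nat_lit 1495696695) (nat_lit 69) (nat_lit 3) (nat_lit 68) (nat_lit 1) (nat_lit 69) (nat_lit 1) (nat_lit 388) (nat_lit 401) (nat_lit 231)))))) (XT.nd (nat_lit 390) (nat_lit 456) (nat_lit 0) (XT.nd (nat_lit 156) (nat_lit 228) (nat_lit 0) (XT.nd (nat_lit 78) (nat_lit 0) (nat_lit 0) (XT.lf (nat_lit 152) (nat_lit 3114003140) (nat_lit 0) (nat_lit 259536917) (nat_lit 76) (nat_lit 259536917) (nat_lit 68) (nat_lit 1) (nat_lit 66) (nat_lit 1) (nat_lit 67) (nat_lit 1) (nat_lit 389) (nat_lit 401) (nat_lit 230)) (XT.lf (nat_lit 0) (nat_lit 949479878) (nat_lit 0) (nat_lit 1698073494) (nat_lit 152) (nat_lit 949479878) (nat_lit 66) (nat_lit 3) (nat_lit 66) (nat_lit 1) (nat_lit 68) (nat_lit 1) (nat_lit 390) (nat_lit 401) (nat_lit 229))) (XT.nd (nat_lit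 78) (nat_lit 152) (nat_lit 0) (XT.lf (nat_lit 76) (nat_lit 702658206) (nat_lit 0) (nat_lit 1429448125) (nat_lit 76) (nat_lit 1429448125) (nat_lit 66) (nat_lit 3) (nat_lit 65) (nat_lit 1) (nat_lit 66) (nat_lit 1) (nat_lit 391) (nat_lit 401) (nat_lit 228)) (XT.nd (nat_lit 78) (nat_lit 0) (nat_lit 0) (XT.lf (nat_lit 152) (nat_lit 3065446031) (nat_lit 0) (nat_lit 230595189) (nat_lit 76) (nat_lit 230595189) (nat_lit 65) (nat_lit 1) (nat_lit 63) (nat_lit 1) (nat_lit 64) (nat_lit 1) (nat_lit 392) (nat_lit 401) (nat_lit 227)) (XT.lf (nat_lit 0) (nat_lit 942179641) (nat_lit 0) (nat_lit 1607295373) (nat_lit 152) (nat_lit 942179641) (nat_lit 63) (nat_lit 3) (nat_lit 63) (nat_lit 1) (nat_lit 65) (nat_lit 1) (nat_lit 393) (nat_lit 401) (nat_lit 226))))) (XT.nd (nat_lit 156) (nat_lit 228) (nat_lit 0) (XT.nd (nat_lit 78) (nat_lit 152) (nat_lit 0) (XT.lf (nat_lit 76) (nat_lit 721915321) (nat_lit 0) (nat_lit 1367658751)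 (nat_lit 76) (nat_lit 1367658751) (nat_lit 63) (nat_lit 3) (nat_lit 62) (nat_lit 1) (nat_lit 63) (nat_lit 1) (nat_lit 394) (nat_lit 401) (nat_lit 225)) (XT.lf (nat_lit 152) (nat_lit 3013603827) (nat_lit 0) (nat_lit 204880839) (nat_lit 76) (nat_lit 204880839) (nat_lit 62) (nat_lit 1) (nat_lit 60) (nat_lit 1) (nat_lit 61) (nat_lit 1) (nat_lit 395) (nat_lit 401) (nat_lit 224))) (XT.nd (nat_lit 78) (nat_lit 228) (nat_lit 0) (XT.lf (nat_lit 0) (nat_lit 932822240) (nat_lit 0) (nat_lit 1523768954) (nat_lit 152) (nat_lit 932822240) (nat_lit 60) (nat_lit 3) (nat_lit 60) (nat_lit 1) (nat_lit 62) (nat_lit 1) (nat_lit 396) (nat_lit 401) (nat_lit 223)) (XT.nd (nat_lit 78) (nat_lit 152) (nat_lit 0) (XT.lf (nat_lit 76) (nat_lit 736181933) (nat_lit 0) (nat_lit 1309916606) (nat_lit 76) (nat_lit 1309916606) (nat_lit 60) (nat_lit 3) (nat_lit 59) (nat_lit 1) (nat_lit 60) (nat_lit 1) (nat_lit 397) (nat_lit 401) (nat_lit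 222)) (XT.lf (nat_lit 152) (nat_lit 2959096252) (nat_lit 0) (nat_lit 182033972) (nat_lit 76) (nat_lit 182033972) (nat_lit 59) (nat_lit 1) (nat_lit 57) (nat_lit 1) (nat_lit 58) (nat_lit 1) (nat_lit 398) (nat_lit 401) (nat_lit 221))))))))
noncomputable def ec312 : XT := (XT.nd (nat_lit 1404) (nat_lit 684) (nat_lit 0) (XT.nd (nat_lit 702) (nat_lit 684) (nat_lit 0) (XT.nd (nat_lit 312) (nat_lit 456) (nat_lit 0) (XT.nd (nat_lit 156) (nat_lit 152) (nat_lit 0) (XT.nd (nat_lit 78) (nat_lit 76) (nat_lit 0) (XT.lf (nat_lit 0) (nat_lit 921720704) (nat_lit 0) (nat_lit 1446769205) (nat_lit 152) (nat_lit 921720704) (nat_lit 57) (nat_lit 3) (nat_lit 57) (nat_lit 1) (nat_lit 59) (nat_lit 1) (nat_lit 399) (nat_lit 401) (nat_lit 220)) (XT.lf (nat_lit 76) (nat_lit 746097355) (nat_lit 0) (nat_lit 1255853182) (nat_lit 76) (nat_lit 1255853182) (nat_lit 57) (nat_lit 3) (nat_lit 56) (nat_lit 1) (nat_lit 57) (nat_lit 1) (nat_lit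 400) (nat_lit 401) (nat_lit 219))) (XT.nd (nat_lit 78) (nat_lit 0) (nat_lit 0) (XT.lf (nat_lit 152) (nat_lit 2902466541) (nat_lit 0) (nat_lit 161734826) (nat_lit 76) (nat_lit 161734826) (nat_lit 56) (nat_lit 1) (nat_lit 54) (nat_lit 1) (nat_lit 55) (nat_lit 1) (nat_lit 401) (nat_lit 401) (nat_lit 218)) (XT.lf (nat_lit 0) (nat_lit 909150719) (nat_lit 0) (nat_lit 1375649511) (nat_lit 152) (nat_lit 909150719) (nat_lit 54) (nat_lit 3) (nat_lit 54) (nat_lit 1) (nat_lit 56) (nat_lit 1) (nat_lit 402) (nat_lit 401) (nat_lit 217)))) (XT.nd (nat_lit 156) (nat_lit 228) (nat_lit 0) (XT.nd (nat_lit 78) (nat_lit 152) (nat_lit 0) (XT.lf (nat_lit 76) (nat_lit 752227199) (nat_lit 0) (nat_lit 1205138648) (nat_lit 76) (nat_lit 1205138648) (nat_lit 54) (nat_lit 3) (nat_lit 53) (nat_lit 1) (nat_lit 54) (nat_lit 1) (nat_lit 403) (nat_lit 401) (nat_lit 216)) (XT.lf (nat_lit 152) (nat_lit 2844190190) (nat_lit 0) (nat_lit 143699298)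 (nat_lit 76) (nat_lit 143699298) (nat_lit 53) (nat_lit 1) (nat_lit 51) (nat_lit 1) (nat_lit 52) (nat_lit 1) (nat_lit 404) (nat_lit 401) (nat_lit 215))) (XT.nd (nat_lit 78) (nat_lit 228) (nat_lit 0) (XT.lf (nat_lit 0) (nat_lit 895354863) (nat_lit 0) (nat_lit 1309832998) (nat_lit 152) (nat_lit 895354863) (nat_lit 51) (nat_lit 3) (nat_lit 51) (nat_lit 1) (nat_lit 53) (nat_lit 1) (nat_lit 405) (nat_lit 401) (nat_lit 214)) (XT.nd (nat_lit 78) (nat_lit 152) (nat_lit 0) (XT.lf (nat_lit 76) (nat_lit 755071659) (nat_lit 0) (nat_lit 1157477616) (nat_lit 76) (nat_lit 1157477616) (nat_lit 51) (nat_lit 3) (nat_lit 50) (nat_lit 1) (nat_lit 51) (nat_lit 1) (nat_lit 406) (nat_lit 401) (nat_lit 213)) (XT.lf (nat_lit 152) (nat_lit 2784682709) (nat_lit 0) (nat_lit 127674965) (nat_lit 76) (nat_lit 127674965) (nat_lit 50) (nat_lit 1) (nat_lit 48) (nat_lit 1) (nat_lit 49) (nat_lit 1) (nat_lit 407) (nat_lit 401) (nat_lit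 212)))))) (XT.nd (nat_lit 312) (nat_lit 456) (nat_lit 0) (XT.nd (nat_lit 156) (nat_lit 152) (nat_lit 0) (XT.nd (nat_lit 78) (nat_lit 76) (nat_lit 0) (XT.lf (nat_lit 0) (nat_lit 880546368) (nat_lit 0) (nat_lit 1248804823) (nat_lit 152) (nat_lit 880546368) (nat_lit 48) (nat_lit 3) (nat_lit 48) (nat_lit 1) (nat_lit 50) (nat_lit 1) (nat_lit 408) (nat_lit 401) (nat_lit 211)) (XT.lf (nat_lit 76) (nat_lit 755072881) (nat_lit 0) (nat_lit 1112605361) (nat_lit 76) (nat_lit 1112605361) (nat_lit 48) (nat_lit 3) (nat_lit 47) (nat_lit 1) (nat_lit 48) (nat_lit 1) (nat_lit 409) (nat_lit 401) (nat_lit 210))) (XT.nd (nat_lit 78) (nat_lit 0) (nat_lit 0) (XT.lf (nat_lit 152) (nat_lit 2724306523) (nat_lit 0) (nat_lit 113437553) (nat_lit 76) (nat_lit 113437553) (nat_lit 47) (nat_lit 1) (nat_lit 45) (nat_lit 1) (nat_lit 46) (nat_lit 1) (nat_lit 410) (nat_lit 401) (nat_lit 209)) (XT.lf (nat_lit 0) (nat_lit 864912460) (nat_lit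 0) (nat_lit 1192105328) (nat_lit 152) (nat_lit 864912460) (nat_lit 45) (nat_lit 3) (nat_lit 45) (nat_lit 1) (nat_lit 47) (nat_lit 1) (nat_lit 411) (nat_lit 401) (nat_lit 208)))) (XT.nd (nat_lit 156) (nat_lit 228) (nat_lit 0) (XT.nd (nat_lit 78) (nat_lit 152) (nat_lit 0) (XT.lf (nat_lit 76) (nat_lit 752621496) (nat_lit 0) (nat_lit 1070284474) (nat_lit 76) (nat_lit 1070284474) (nat_lit 45) (nat_lit 3) (nat_lit 44) (nat_lit 1) (nat_lit 45) (nat_lit 1) (nat_lit 412) (nat_lit 401) (nat_lit 207)) (XT.lf (nat_lit 152) (nat_lit 2663377083) (nat_lit 0) (nat_lit 100787796) (nat_lit 76) (nat_lit 100787796) (nat_lit 44) (nat_lit 1) (nat_lit 42) (nat_lit 1) (nat_lit 43) (nat_lit 1) (nat_lit 413) (nat_lit 401) (nat_lit 206))) (XT.nd (nat_lit 78) (nat_lit 228) (nat_lit 0) (XT.lf (nat_lit 0) (nat_lit 848617321) (nat_lit 0) (nat_lit 1139323946) (nat_lit 152) (nat_lit 848617321) (nat_lit 42) (nat_lit 3) (nat_lit 42)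 (nat_lit 1) (nat_lit 44) (nat_lit 1) (nat_lit 414) (nat_lit 401) (nat_lit 205)) (XT.nd (nat_lit 78) (nat_lit 152) (nat_lit 0) (XT.lf (nat_lit 76) (nat_lit 748062432) (nat_lit 0) (nat_lit 1030301874) (nat_lit 76) (nat_lit 1030301874) (nat_lit 42) (nat_lit 3) (nat_lit 41) (nat_lit 1) (nat_lit 42) (nat_lit 1) (nat_lit 415) (nat_lit 401) (nat_lit 204)) (XT.lf (nat_lit 152) (nat_lit 2602168297) (nat_lit 0) (nat_lit 89548652) (nat_lit 76) (nat_lit 89548652) (nat_lit 41) (nat_lit 1) (nat_lit 39) (nat_lit 1) (nat_lit 40) (nat_lit 1) (nat_lit 416) (nat_lit 401) (nat_lit 203))))))) (XT.nd (nat_lit 702) (nat_lit 0) (nat_lit 0) (XT.nd (nat_lit 312) (nat_lit 456) (nat_lit 0) (XT.nd (nat_lit 156) (nat_lit 152) (nat_lit 0) (XT.nd (nat_lit 78) (nat_lit 76) (nat_lit 0) (XT.lf (nat_lit 0) (nat_lit 831804725) (nat_lit 0) (nat_lit 1090093796) (nat_lit 152) (nat_lit 831804725) (nat_lit 39) (nat_lit 3) (nat_lit 39) (nat_lit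 1) (nat_lit 41) (nat_lit 1) (nat_lit 417) (nat_lit 401) (nat_lit 202)) (XT.lf (nat_lit 76) (nat_lit 741700074) (nat_lit 0) (nat_lit 992466163) (nat_lit 76) (nat_lit 992466163) (nat_lit 39) (nat_lit 3) (nat_lit 38) (nat_lit 1) (nat_lit 39) (nat_lit 1) (nat_lit 418) (nat_lit 401) (nat_lit 201))) (XT.nd (nat_lit 78) (nat_lit 0) (nat_lit 0) (XT.lf (nat_lit 152) (nat_lit 2540917348) (nat_lit 0) (nat_lit 79562817) (nat_lit 76) (nat_lit 79562817) (nat_lit 38) (nat_lit 1) (nat_lit 36) (nat_lit 1) (nat_lit 37) (nat_lit 1) (nat_lit 419) (nat_lit 401) (nat_lit 200)) (XT.lf (nat_lit 0) (nat_lit 814600371) (nat_lit 0) (nat_lit 1044086865) (nat_lit 152) (nat_lit 814600371) (nat_lit 36) (nat_lit 3) (nat_lit 36) (nat_lit 1) (nat_lit 38) (nat_lit 1) (nat_lit 420) (nat_lit 401) (nat_lit 199)))) (XT.nd (nat_lit 156) (nat_lit 228) (nat_lit 0) (XT.nd (nat_lit 78) (nat_lit 152) (nat_lit 0) (XT.lf (nat_lit 76) (nat_lit 733802844)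 (nat_lit 0) (nat_lit 956605266) (nat_lit 76) (nat_lit 956605266) (nat_lit 36) (nat_lit 3) (nat_lit 35) (nat_lit 1) (nat_lit 36) (nat_lit 1) (nat_lit 421) (nat_lit 401) (nat_lit 198)) (XT.lf (nat_lit 152) (nat_lit 2479828969) (nat_lit 0) (nat_lit 70690532) (nat_lit 76) (nat_lit 70690532) (nat_lit 35) (nat_lit 1) (nat_lit 33) (nat_lit 1) (nat_lit 34) (nat_lit 1) (nat_lit 422) (nat_lit 401) (nat_lit 197))) (XT.nd (nat_lit 78) (nat_lit 228) (nat_lit 0) (XT.lf (nat_lit 0) (nat_lit 797113963) (nat_lit 0) (nat_lit 1001009741) (nat_lit 152) (nat_lit 797113963) (nat_lit 33) (nat_lit 3) (nat_lit 33) (nat_lit 1) (nat_lit 35) (nat_lit 1) (nat_lit 423) (nat_lit 401) (nat_lit 196)) (XT.nd (nat_lit 78) (nat_lit 152) (nat_lit 0) (XT.lf (nat_lit 76) (nat_lit 724607269) (nat_lit 0) (nat_lit 922564334) (nat_lit 76) (nat_lit 922564334) (nat_lit 33) (nat_lit 3) (nat_lit 32) (nat_lit 1) (nat_lit 33) (nat_lit 1) (nat_lit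 424) (nat_lit 401) (nat_lit 195)) (XT.lf (nat_lit 152) (nat_lit 2419079235) (nat_lit 0) (nat_lit 62807622) (nat_lit 76) (nat_lit 62807622) (nat_lit 32) (nat_lit 1) (nat_lit 30) (nat_lit 1) (nat_lit 31) (nat_lit 1) (nat_lit 425) (nat_lit 401) (nat_lit 194)))))) (XT.nd (nat_lit 37050) (nat_lit 0) (nat_lit 26296) (XT.nd (nat_lit 36816) (nat_lit 0) (nat_lit 26144) (XT.nd (nat_lit 36738) (nat_lit 0) (nat_lit 26144) (XT.lf (nat_lit 0) (nat_lit 779441048) (nat_lit 0) (nat_lit 960599805) (nat_lit 152) (nat_lit 779441048) (nat_lit 30) (nat_lit 3) (nat_lit 30) (nat_lit 1) (nat_lit 32) (nat_lit 1) (nat_lit 426) (nat_lit 401) (nat_lit 193)) (XT.lf (nat_lit 1292) (nat_lit 2331162826) (nat_lit 0) (nat_lit 8020284274) (nat_lit 1292) (nat_lit 2331162826) (nat_lit 391) (nat_lit 1) (nat_lit 374) (nat_lit 0) (nat_lit 391) (nat_lit 0) (nat_lit 216) (nat_lit 402) (nat_lit 402))) (XT.nd (nat_lit 78) (nat_lit 0) (nat_lit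 76) (XT.lf (nat_lit 1292) (nat_lit 9110225175) (nat_lit 76) (nat_lit 7941654037) (nat_lit 0) (nat_lit 7941654037) (nat_lit 391) (nat_lit 1) (nat_lit 375) (nat_lit 1) (nat_lit 374) (nat_lit 0) (nat_lit 217) (nat_lit 402) (nat_lit 401)) (XT.nd (nat_lit 78) (nat_lit 0) (nat_lit 0) (XT.lf (nat_lit 1292) (nat_lit 4405922108) (nat_lit 0) (nat_lit 15818201057) (nat_lit 1216) (nat_lit 4405922108) (nat_lit 392) (nat_lit 1) (nat_lit 375) (nat_lit 1) (nat_lit 391) (nat_lit 1) (nat_lit 218) (nat_lit 402) (nat_lit 400)) (XT.lf (nat_lit 1292) (nat_lit 8367073562) (nat_lit 76) (nat_lit 7952776930) (nat_lit 0) (nat_lit 7952776930) (nat_lit 392) (nat_lit 1) (nat_lit 376) (nat_lit 1) (nat_lit 375) (nat_lit 1) (nat_lit 219) (nat_lit 402) (nat_lit 399))))) (XT.nd (nat_lit 156) (nat_lit 0) (nat_lit 76) (XT.nd (nat_lit 78) (nat_lit 0) (nat_lit 0) (XT.lf (nat_lit 1292) (nat_lit 3926207540) (nat_lit 0) (nat_lit 16070791835)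 (nat_lit 1216) (nat_lit 3926207540) (nat_lit 393) (nat_lit 1) (nat_lit 376) (nat_lit 1) (nat_lit 392) (nat_lit 1) (nat_lit 220) (nat_lit 402) (nat_lit 398)) (XT.lf (nat_lit 1292) (nat_lit 7195189870) (nat_lit 76) (nat_lit 8192092402) (nat_lit 0) (nat_lit 8192092402) (nat_lit 393) (nat_lit 1) (nat_lit 377) (nat_lit 1) (nat_lit 376) (nat_lit 1) (nat_lit 221) (nat_lit 402) (nat_lit 397))) (XT.nd (nat_lit 78) (nat_lit 0) (nat_lit 0) (XT.lf (nat_lit 1292) (nat_lit 3242933818) (nat_lit 0) (nat_lit 16757614389) (nat_lit 1216) (nat_lit 3242933818) (nat_lit 394) (nat_lit 1) (nat_lit 377) (nat_lit 1) (nat_lit 393) (nat_lit 1) (nat_lit 222) (nat_lit 402) (nat_lit 396)) (XT.nd (nat_lit 78) (nat_lit 0) (nat_lit 76) (XT.lf (nat_lit 1292) (nat_lit 5632914938) (nat_lit 76) (nat_lit 8639836283) (nat_lit 0) (nat_lit 8639836283) (nat_lit 394) (nat_lit 1) (nat_lit 378) (nat_lit 1) (nat_lit 377) (nat_lit 1) (nat_lit 223)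 (nat_lit 402) (nat_lit 395)) (XT.lf (nat_lit 1292) (nat_lit 2374517043) (nat_lit 0) (nat_lit 17840672190) (nat_lit 1216) (nat_lit 2374517043) (nat_lit 395) (nat_lit 1) (nat_lit 378) (nat_lit 1) (nat_lit 394) (nat_lit 1) (nat_lit 224) (nat_lit 402) (nat_lit 394))))))))
noncomputable def ec313 : XT := (XT.nd (nat_lit 1482) (nat_lit 5016) (nat_lit 0) (XT.nd (nat_lit 702) (nat_lit 3648) (nat_lit 0) (XT.nd (nat_lit 312) (nat_lit 1140) (nat_lit 0) (XT.nd (nat_lit 156) (nat_lit 0) (nat_lit 76) (XT.nd (nat_lit 78) (nat_lit 0) (nat_lit 76) (XT.lf (nat_lit 1292) (nat_lit 3715988786) (nat_lit 76) (nat_lit 9277573072) (nat_lit 0) (nat_lit 9277573072) (nat_lit 395) (nat_lit 1) (nat_lit 379) (nat_lit 1) (nat_lit 378) (nat_lit 1) (nat_lit 225) (nat_lit 402) (nat_lit 393)) (XT.lf (nat_lit 1292) (nat_lit 1338120108) (nat_lit 0) (nat_lit 19284530537) (nat_lit 1216) (nat_lit 1338120108) (nat_lit 396) (nat_lit 1) (nat_lit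 379) (nat_lit 1) (nat_lit 395) (nat_lit 1) (nat_lit 226) (nat_lit 402) (nat_lit 392))) (XT.nd (nat_lit 78) (nat_lit 0) (nat_lit 76) (XT.lf (nat_lit 1292) (nat_lit 1477711560) (nat_lit 76) (nat_lit 10088114014) (nat_lit 0) (nat_lit 10088114014) (nat_lit 396) (nat_lit 1) (nat_lit 380) (nat_lit 1) (nat_lit 379) (nat_lit 1) (nat_lit 227) (nat_lit 402) (nat_lit 391)) (XT.lf (nat_lit 1292) (nat_lit 149730349) (nat_lit 0) (nat_lit 21056158418) (nat_lit 1216) (nat_lit 149730349) (nat_lit 397) (nat_lit 1) (nat_lit 380) (nat_lit 1) (nat_lit 396) (nat_lit 1) (nat_lit 228) (nat_lit 402) (nat_lit 390)))) (XT.nd (nat_lit 156) (nat_lit 0) (nat_lit 76) (XT.nd (nat_lit 78) (nat_lit 0) (nat_lit 0) (XT.lf (nat_lit 1368) (nat_lit 10014636880) (nat_lit 0) (nat_lit 1030398159) (nat_lit 1292) (nat_lit 10014636880) (nat_lit 381) (nat_lit 1) (nat_lit 363) (nat_lit 1) (nat_lit 380) (nat_lit 1) (nat_lit 229) (nat_lit 402) (nat_lit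 389)) (XT.lf (nat_lit 1368) (nat_lit 18443401185) (nat_lit 76) (nat_lit 1164240298) (nat_lit 0) (nat_lit 1164240298) (nat_lit 381) (nat_lit 1) (nat_lit 364) (nat_lit 1) (nat_lit 363) (nat_lit 1) (nat_lit 230) (nat_lit 402) (nat_lit 388))) (XT.nd (nat_lit 78) (nat_lit 0) (nat_lit 0) (XT.lf (nat_lit 1368) (nat_lit 8360555569) (nat_lit 0) (nat_lit 3766044063) (nat_lit 1292) (nat_lit 8360555569) (nat_lit 382) (nat_lit 1) (nat_lit 364) (nat_lit 1) (nat_lit 381) (nat_lit 1) (nat_lit 231) (nat_lit 402) (nat_lit 387)) (XT.nd (nat_lit 78) (nat_lit 0) (nat_lit 76) (XT.lf (nat_lit 1368) (nat_lit 15012062881) (nat_lit 76) (nat_lit 2598791676) (nat_lit 0) (nat_lit 2598791676) (nat_lit 382) (nat_lit 1) (nat_lit 365) (nat_lit 1) (nat_lit 364) (nat_lit 1) (nat_lit 232) (nat_lit 402) (nat_lit 386)) (XT.lf (nat_lit 76) (nat_lit 6602079220) (nat_lit 0) (nat_lit 6731732454) (nat_lit 1292) (nat_lit 6602079220) (nat_lit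 366) (nat_lit 1) (nat_lit 365) (nat_lit 1) (nat_lit 382) (nat_lit 1) (nat_lit 233) (nat_lit 402) (nat_lit 385)))))) (XT.nd (nat_lit 390) (nat_lit 1748) (nat_lit 0) (XT.nd (nat_lit 156) (nat_lit 1216) (nat_lit 0) (XT.nd (nat_lit 78) (nat_lit 0) (nat_lit 0) (XT.lf (nat_lit 912) (nat_lit 11382914036) (nat_lit 0) (nat_lit 4142636362) (nat_lit 836) (nat_lit 4142636362) (nat_lit 366) (nat_lit 1) (nat_lit 354) (nat_lit 1) (nat_lit 365) (nat_lit 1) (nat_lit 234) (nat_lit 402) (nat_lit 384)) (XT.lf (nat_lit 76) (nat_lit 4751006732) (nat_lit 0) (nat_lit 9902983782) (nat_lit 912) (nat_lit 4751006732) (nat_lit 355) (nat_lit 1) (nat_lit 354) (nat_lit 1) (nat_lit 366) (nat_lit 1) (nat_lit 235) (nat_lit 402) (nat_lit 383))) (XT.nd (nat_lit 78) (nat_lit 608) (nat_lit 0) (XT.lf (nat_lit 684) (nat_lit 7578808329) (nat_lit 0) (nat_lit 5783918655) (nat_lit 608) (nat_lit 5783918655) (nat_lit 355) (nat_lit 1) (nat_lit 346)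 (nat_lit 1) (nat_lit 354) (nat_lit 1) (nat_lit 236) (nat_lit 402) (nat_lit 382)) (XT.nd (nat_lit 78) (nat_lit 608) (nat_lit 0) (XT.lf (nat_lit 76) (nat_lit 2818290585) (nat_lit 0) (nat_lit 13257052101) (nat_lit 684) (nat_lit 2818290585) (nat_lit 347) (nat_lit 1) (nat_lit 346) (nat_lit 1) (nat_lit 355) (nat_lit 1) (nat_lit 237) (nat_lit 402) (nat_lit 381)) (XT.lf (nat_lit 684) (nat_lit 3620952636) (nat_lit 0) (nat_lit 7511625997) (nat_lit 608) (nat_lit 7511625997) (nat_lit 347) (nat_lit 1) (nat_lit 338) (nat_lit 1) (nat_lit 346) (nat_lit 1) (nat_lit 238) (nat_lit 402) (nat_lit 380))))) (XT.nd (nat_lit 156) (nat_lit 1140) (nat_lit 0) (XT.nd (nat_lit 78) (nat_lit 608) (nat_lit 0) (XT.lf (nat_lit 76) (nat_lit 814090356) (nat_lit 0) (nat_lit 16772815983) (nat_lit 684) (nat_lit 814090356) (nat_lit 339) (nat_lit 1) (nat_lit 338) (nat_lit 1) (nat_lit 347) (nat_lit 1) (nat_lit 239) (nat_lit 402) (nat_lit 379))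 (XT.lf (nat_lit 76) (nat_lit 8849074586) (nat_lit 0) (nat_lit 461797996) (nat_lit 608) (nat_lit 8849074586) (nat_lit 331) (nat_lit 1) (nat_lit 330) (nat_lit 1) (nat_lit 338) (nat_lit 1) (nat_lit 240) (nat_lit 402) (nat_lit 378))) (XT.nd (nat_lit 78) (nat_lit 532) (nat_lit 0) (XT.lf (nat_lit 684) (nat_lit 15445068842) (nat_lit 0) (nat_lit 1239900738) (nat_lit 608) (nat_lit 1239900738) (nat_lit 331) (nat_lit 1) (nat_lit 322) (nat_lit 1) (nat_lit 330) (nat_lit 1) (nat_lit 241) (nat_lit 402) (nat_lit 377)) (XT.nd (nat_lit 78) (nat_lit 532) (nat_lit 0) (XT.lf (nat_lit 76) (nat_lit 6552345368) (nat_lit 0) (nat_lit 4587495607) (nat_lit 684) (nat_lit 6552345368) (nat_lit 323) (nat_lit 1) (nat_lit 322) (nat_lit 1) (nat_lit 331) (nat_lit 1) (nat_lit 242) (nat_lit 402) (nat_lit 376)) (XT.lf (nat_lit 608) (nat_lit 10787503537) (nat_lit 0) (nat_lit 3338733035) (nat_lit 532) (nat_lit 3338733035) (nat_lit 323) (nat_lit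 1) (nat_lit 315) (nat_lit 1) (nat_lit 322) (nat_lit 1) (nat_lit 243) (nat_lit 402) (nat_lit 375))))))) (XT.nd (nat_lit 702) (nat_lit 2508) (nat_lit 0) (XT.nd (nat_lit 312) (nat_lit 1520) (nat_lit 0) (XT.nd (nat_lit 156) (nat_lit 456) (nat_lit 0) (XT.nd (nat_lit 78) (nat_lit 532) (nat_lit 0) (XT.lf (nat_lit 76) (nat_lit 4215500130) (nat_lit 0) (nat_lit 8810259691) (nat_lit 608) (nat_lit 4215500130) (nat_lit 316) (nat_lit 1) (nat_lit 315) (nat_lit 1) (nat_lit 323) (nat_lit 1) (nat_lit 244) (nat_lit 402) (nat_lit 374)) (XT.lf (nat_lit 608) (nat_lit 6056757908) (nat_lit 0) (nat_lit 5482396212) (nat_lit 532) (nat_lit 5482396212) (nat_lit 316) (nat_lit 1) (nat_lit 308) (nat_lit 1) (nat_lit 315) (nat_lit 1) (nat_lit 245) (nat_lit 402) (nat_lit 373))) (XT.nd (nat_lit 78) (nat_lit 456) (nat_lit 0) (XT.lf (nat_lit 76) (nat_lit 1845850172) (nat_lit 0) (nat_lit 13114793040) (nat_lit 608) (nat_lit 1845850172) (nat_lit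 309) (nat_lit 1) (nat_lit 308) (nat_lit 1) (nat_lit 316) (nat_lit 1) (nat_lit 246) (nat_lit 402) (nat_lit 372)) (XT.lf (nat_lit 532) (nat_lit 1266951551) (nat_lit 0) (nat_lit 7663501868) (nat_lit 456) (nat_lit 7663501868) (nat_lit 309) (nat_lit 1) (nat_lit 302) (nat_lit 1) (nat_lit 308) (nat_lit 1) (nat_lit 247) (nat_lit 402) (nat_lit 371)))) (XT.nd (nat_lit 156) (nat_lit 912) (nat_lit 0) (XT.nd (nat_lit 78) (nat_lit 0) (nat_lit 0) (XT.lf (nat_lit 608) (nat_lit 15297668765) (nat_lit 0) (nat_lit 544468010) (nat_lit 532) (nat_lit 544468010) (nat_lit 302) (nat_lit 1) (nat_lit 294) (nat_lit 1) (nat_lit 301) (nat_lit 1) (nat_lit 248) (nat_lit 402) (nat_lit 370)) (XT.lf (nat_lit 76) (nat_lit 6340637015) (nat_lit 0) (nat_lit 3499253353) (nat_lit 608) (nat_lit 6340637015) (nat_lit 295) (nat_lit 1) (nat_lit 294) (nat_lit 1) (nat_lit 302) (nat_lit 1) (nat_lit 249) (nat_lit 402) (nat_lit 369))) (XT.nd (nat_lit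 78) (nat_lit 456) (nat_lit 0) (XT.lf (nat_lit 532) (nat_lit 10106778564) (nat_lit 0) (nat_lit 2936337228) (nat_lit 456) (nat_lit 2936337228) (nat_lit 295) (nat_lit 1) (nat_lit 288) (nat_lit 1) (nat_lit 294) (nat_lit 1) (nat_lit 250) (nat_lit 402) (nat_lit 368)) (XT.nd (nat_lit 78) (nat_lit 456) (nat_lit 0) (XT.lf (nat_lit 76) (nat_lit 3753600643) (nat_lit 0) (nat_lit 8274119329) (nat_lit 532) (nat_lit 3753600643) (nat_lit 289) (nat_lit 1) (nat_lit 288) (nat_lit 1) (nat_lit 295) (nat_lit 1) (nat_lit 251) (nat_lit 402) (nat_lit 367)) (XT.lf (nat_lit 532) (nat_lit 4902221036) (nat_lit 0) (nat_lit 5342187669) (nat_lit 456) (nat_lit 5342187669) (nat_lit 289) (nat_lit 1) (nat_lit 282) (nat_lit 1) (nat_lit 288) (nat_lit 1) (nat_lit 252) (nat_lit 402) (nat_lit 366)))))) (XT.nd (nat_lit 390) (nat_lit 1216) (nat_lit 0) (XT.nd (nat_lit 156) (nat_lit 836) (nat_lit 0) (XT.nd (nat_lit 78) (nat_lit 456) (nat_lit 0)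 (XT.lf (nat_lit 76) (nat_lit 1162288577) (nat_lit 0) (nat_lit 13071552863) (nat_lit 532) (nat_lit 1162288577) (nat_lit 283) (nat_lit 1) (nat_lit 282) (nat_lit 1) (nat_lit 289) (nat_lit 1) (nat_lit 253) (nat_lit 402) (nat_lit 365)) (XT.lf (nat_lit 76) (nat_lit 7453611041) (nat_lit 0) (nat_lit 300168262) (nat_lit 456) (nat_lit 7453611041) (nat_lit 277) (nat_lit 1) (nat_lit 276) (nat_lit 1) (nat_lit 282) (nat_lit 1) (nat_lit 254) (nat_lit 402) (nat_lit 364))) (XT.nd (nat_lit 78) (nat_lit 380) (nat_lit 0) (XT.lf (nat_lit 532) (nat_lit 12193558282) (nat_lit 0) (nat_lit 1414597855) (nat_lit 456) (nat_lit 1414597855) (nat_lit 277) (nat_lit 1) (nat_lit 270) (nat_lit 1) (nat_lit 276) (nat_lit 1) (nat_lit 255) (nat_lit 402) (nat_lit 363)) (XT.nd (nat_lit 78) (nat_lit 380) (nat_lit 0) (XT.lf (nat_lit 76) (nat_lit 4719102466) (nat_lit 0) (nat_lit 5401774106) (nat_lit 532) (nat_lit 4719102466) (nat_lit 271) (nat_lit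 1) (nat_lit 270) (nat_lit 1) (nat_lit 277) (nat_lit 1) (nat_lit 256) (nat_lit 402) (nat_lit 362)) (XT.lf (nat_lit 456) (nat_lit 6710146024) (nat_lit 0) (nat_lit 3975419560) (nat_lit 380) (nat_lit 3975419560) (nat_lit 271) (nat_lit 1) (nat_lit 265) (nat_lit 1) (nat_lit 270) (nat_lit 1) (nat_lit 257) (nat_lit 402) (nat_lit 361))))) (XT.nd (nat_lit 156) (nat_lit 836) (nat_lit 0) (XT.nd (nat_lit 78) (nat_lit 380) (nat_lit 0) (XT.lf (nat_lit 76) (nat_lit 1997554026) (nat_lit 0) (nat_lit 10490161552) (nat_lit 456) (nat_lit 1997554026) (nat_lit 266) (nat_lit 1) (nat_lit 265) (nat_lit 1) (nat_lit 271) (nat_lit 1) (nat_lit 258) (nat_lit 402) (nat_lit 360)) (XT.lf (nat_lit 456) (nat_lit 1256304135) (nat_lit 0) (nat_lit 6527686190) (nat_lit 380) (nat_lit 6527686190) (nat_lit 266) (nat_lit 1) (nat_lit 260) (nat_lit 1) (nat_lit 265) (nat_lit 1) (nat_lit 259) (nat_lit 402) (nat_lit 359))) (XT.nd (nat_lit 78) (nat_lit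 380) (nat_lit 0) (XT.lf (nat_lit 456) (nat_lit 12740663660) (nat_lit 0) (nat_lit 700646628) (nat_lit 380) (nat_lit 700646628) (nat_lit 260) (nat_lit 1) (nat_lit 254) (nat_lit 1) (nat_lit 259) (nat_lit 1) (nat_lit 260) (nat_lit 402) (nat_lit 358)) (XT.nd (nat_lit 78) (nat_lit 380) (nat_lit 0) (XT.lf (nat_lit 76) (nat_lit 4946499886) (nat_lit 0) (nat_lit 4080154965) (nat_lit 456) (nat_lit 4946499886) (nat_lit 255) (nat_lit 1) (nat_lit 254) (nat_lit 1) (nat_lit 260) (nat_lit 1) (nat_lit 261) (nat_lit 402) (nat_lit 357)) (XT.lf (nat_lit 456) (nat_lit 7088276031) (nat_lit 0) (nat_lit 3359914000) (nat_lit 380) (nat_lit 3359914000) (nat_lit 255) (nat_lit 1) (nat_lit 249) (nat_lit 1) (nat_lit 254) (nat_lit 1) (nat_lit 262) (nat_lit 402) (nat_lit 356))))))))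
noncomputable def ec314 : XT := (XT.nd (nat_lit 1482) (nat_lit 2736) (nat_lit 0) (XT.nd (nat_lit 702) (nat_lit 1748) (nat_lit 0) (XT.nd (nat_lit 312) (nat_lit 988) (nat_lit 0) (XT.nd (nat_lit 156) (nat_lit 456) (nat_lit 0) (XT.nd (nat_lit 78) (nat_lit 304) (nat_lit 0) (XT.lf (nat_lit 76) (nat_lit 2147531161) (nat_lit 0) (nat_lit 9350754202) (nat_lit 456) (nat_lit 2147531161) (nat_lit 250) (nat_lit 1) (nat_lit 249) (nat_lit 1) (nat_lit 255) (nat_lit 1) (nat_lit 263) (nat_lit 402) (nat_lit 355)) (XT.lf (nat_lit 380) (nat_lit 1491530292) (nat_lit 0) (nat_lit 5997027713) (nat_lit 304) (nat_lit 5997027713) (nat_lit 250) (nat_lit 1) (nat_lit 245) (nat_lit 1) (nat_lit 249) (nat_lit 1) (nat_lit 264) (nat_lit 402) (nat_lit 354))) (XT.nd (nat_lit 78) (nat_lit 0) (nat_lit 0) (XT.lf (nat_lit 456) (nat_lit 12095963853) (nat_lit 0) (nat_lit 616453050) (nat_lit 380) (nat_lit 616453050) (nat_lit 245) (nat_lit 1) (nat_lit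 239) (nat_lit 1) (nat_lit 244) (nat_lit 1) (nat_lit 265) (nat_lit 402) (nat_lit 353)) (XT.lf (nat_lit 76) (nat_lit 4603403268) (nat_lit 0) (nat_lit 3966006375) (nat_lit 456) (nat_lit 4603403268) (nat_lit 240) (nat_lit 1) (nat_lit 239) (nat_lit 1) (nat_lit 245) (nat_lit 1) (nat_lit 266) (nat_lit 402) (nat_lit 352)))) (XT.nd (nat_lit 156) (nat_lit 684) (nat_lit 0) (XT.nd (nat_lit 78) (nat_lit 0) (nat_lit 0) (XT.lf (nat_lit 380) (nat_lit 6362917018) (nat_lit 0) (nat_lit 3328625852) (nat_lit 304) (nat_lit 3328625852) (nat_lit 240) (nat_lit 1) (nat_lit 235) (nat_lit 1) (nat_lit 239) (nat_lit 1) (nat_lit 267) (nat_lit 402) (nat_lit 351)) (XT.lf (nat_lit 76) (nat_lit 1769430027) (nat_lit 0) (nat_lit 9331275500) (nat_lit 380) (nat_lit 1769430027) (nat_lit 236) (nat_lit 1) (nat_lit 235) (nat_lit 1) (nat_lit 240) (nat_lit 1) (nat_lit 268) (nat_lit 402) (nat_lit 350))) (XT.nd (nat_lit 78) (nat_lit 380) (nat_lit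 0) (XT.lf (nat_lit 380) (nat_lit 705574084) (nat_lit 0) (nat_lit 6008116822) (nat_lit 304) (nat_lit 6008116822) (nat_lit 236) (nat_lit 1) (nat_lit 231) (nat_lit 1) (nat_lit 235) (nat_lit 1) (nat_lit 269) (nat_lit 402) (nat_lit 349)) (XT.nd (nat_lit 78) (nat_lit 0) (nat_lit 0) (XT.lf (nat_lit 380) (nat_lit 10544351563) (nat_lit 0) (nat_lit 1016027756) (nat_lit 304) (nat_lit 1016027756) (nat_lit 231) (nat_lit 1) (nat_lit 226) (nat_lit 1) (nat_lit 230) (nat_lit 1) (nat_lit 270) (nat_lit 402) (nat_lit 348)) (XT.lf (nat_lit 76) (nat_lit 3827031637) (nat_lit 0) (nat_lit 4777939811) (nat_lit 380) (nat_lit 3827031637) (nat_lit 227) (nat_lit 1) (nat_lit 226) (nat_lit 1) (nat_lit 231) (nat_lit 1) (nat_lit 271) (nat_lit 402) (nat_lit 347)))))) (XT.nd (nat_lit 390) (nat_lit 836) (nat_lit 0) (XT.nd (nat_lit 156) (nat_lit 608) (nat_lit 0) (XT.nd (nat_lit 78) (nat_lit 0) (nat_lit 0) (XT.lf (nat_lit 380) (nat_lit 4801115592)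 (nat_lit 0) (nat_lit 3744662549) (nat_lit 304) (nat_lit 3744662549) (nat_lit 227) (nat_lit 1) (nat_lit 222) (nat_lit 1) (nat_lit 226) (nat_lit 1) (nat_lit 272) (nat_lit 402) (nat_lit 346)) (XT.lf (nat_lit 76) (nat_lit 991863838) (nat_lit 0) (nat_lit 10167889258) (nat_lit 380) (nat_lit 991863838) (nat_lit 223) (nat_lit 1) (nat_lit 222) (nat_lit 1) (nat_lit 227) (nat_lit 1) (nat_lit 273) (nat_lit 402) (nat_lit 345))) (XT.nd (nat_lit 78) (nat_lit 304) (nat_lit 0) (XT.lf (nat_lit 76) (nat_lit 5589506852) (nat_lit 0) (nat_lit 834673938) (nat_lit 304) (nat_lit 5589506852) (nat_lit 219) (nat_lit 1) (nat_lit 218) (nat_lit 1) (nat_lit 222) (nat_lit 1) (nat_lit 274) (nat_lit 402) (nat_lit 344)) (XT.nd (nat_lit 78) (nat_lit 0) (nat_lit 0) (XT.lf (nat_lit 380) (nat_lit 8318371890) (nat_lit 0) (nat_lit 1780024533) (nat_lit 304) (nat_lit 1780024533) (nat_lit 219) (nat_lit 1) (nat_lit 214) (nat_lit 1) (nat_lit 218)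 (nat_lit 1) (nat_lit 275) (nat_lit 402) (nat_lit 343)) (XT.lf (nat_lit 76) (nat_lit 2729344810) (nat_lit 0) (nat_lit 6286005616) (nat_lit 380) (nat_lit 2729344810) (nat_lit 215) (nat_lit 1) (nat_lit 214) (nat_lit 1) (nat_lit 219) (nat_lit 1) (nat_lit 276) (nat_lit 402) (nat_lit 342))))) (XT.nd (nat_lit 156) (nat_lit 228) (nat_lit 0) (XT.nd (nat_lit 78) (nat_lit 380) (nat_lit 0) (XT.lf (nat_lit 304) (nat_lit 2620671563) (nat_lit 0) (nat_lit 4496198951) (nat_lit 228) (nat_lit 4496198951) (nat_lit 215) (nat_lit 1) (nat_lit 211) (nat_lit 1) (nat_lit 214) (nat_lit 1) (nat_lit 277) (nat_lit 402) (nat_lit 341)) (XT.lf (nat_lit 380) (nat_lit 11325370413) (nat_lit 0) (nat_lit 79529092) (nat_lit 304) (nat_lit 79529092) (nat_lit 211) (nat_lit 1) (nat_lit 206) (nat_lit 1) (nat_lit 210) (nat_lit 1) (nat_lit 278) (nat_lit 402) (nat_lit 340))) (XT.nd (nat_lit 78) (nat_lit 228) (nat_lit 0) (XT.lf (nat_lit 76) (nat_lit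 4219246384) (nat_lit 0) (nat_lit 2917042054) (nat_lit 380) (nat_lit 4219246384) (nat_lit 207) (nat_lit 1) (nat_lit 206) (nat_lit 1) (nat_lit 211) (nat_lit 1) (nat_lit 279) (nat_lit 402) (nat_lit 339)) (XT.nd (nat_lit 78) (nat_lit 0) (nat_lit 0) (XT.lf (nat_lit 304) (nat_lit 5607100489) (nat_lit 0) (nat_lit 2811230892) (nat_lit 228) (nat_lit 2811230892) (nat_lit 207) (nat_lit 1) (nat_lit 203) (nat_lit 1) (nat_lit 206) (nat_lit 1) (nat_lit 280) (nat_lit 402) (nat_lit 338)) (XT.lf (nat_lit 76) (nat_lit 1401330049) (nat_lit 0) (nat_lit 8302981761) (nat_lit 304) (nat_lit 1401330049) (nat_lit 204) (nat_lit 1) (nat_lit 203) (nat_lit 1) (nat_lit 207) (nat_lit 1) (nat_lit 281) (nat_lit 402) (nat_lit 337))))))) (XT.nd (nat_lit 702) (nat_lit 1216) (nat_lit 0) (XT.nd (nat_lit 312) (nat_lit 760) (nat_lit 0) (XT.nd (nat_lit 156) (nat_lit 228) (nat_lit 0) (XT.nd (nat_lit 78) (nat_lit 228) (nat_lit 0) (XT.lf (nat_lit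 76) (nat_lit 5490744669) (nat_lit 0) (nat_lit 1470084) (nat_lit 304) (nat_lit 5490744669) (nat_lit 200) (nat_lit 1) (nat_lit 199) (nat_lit 1) (nat_lit 203) (nat_lit 1) (nat_lit 282) (nat_lit 402) (nat_lit 336)) (XT.lf (nat_lit 304) (nat_lit 8165008733) (nat_lit 0) (nat_lit 1348631905) (nat_lit 228) (nat_lit 1348631905) (nat_lit 200) (nat_lit 1) (nat_lit 196) (nat_lit 1) (nat_lit 199) (nat_lit 1) (nat_lit 283) (nat_lit 402) (nat_lit 335))) (XT.nd (nat_lit 78) (nat_lit 228) (nat_lit 0) (XT.lf (nat_lit 76) (nat_lit 2674859936) (nat_lit 0) (nat_lit 5393026331) (nat_lit 304) (nat_lit 2674859936) (nat_lit 197) (nat_lit 1) (nat_lit 196) (nat_lit 1) (nat_lit 200) (nat_lit 1) (nat_lit 284) (nat_lit 402) (nat_lit 334)) (XT.lf (nat_lit 304) (nat_lit 2563556911) (nat_lit 0) (nat_lit 4030802159) (nat_lit 228) (nat_lit 4030802159) (nat_lit 197) (nat_lit 1) (nat_lit 193) (nat_lit 1) (nat_lit 196) (nat_lit 1) (nat_lit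 285) (nat_lit 402) (nat_lit 333)))) (XT.nd (nat_lit 156) (nat_lit 456) (nat_lit 0) (XT.nd (nat_lit 78) (nat_lit 0) (nat_lit 0) (XT.lf (nat_lit 304) (nat_lit 10344963313) (nat_lit 0) (nat_lit 82600881) (nat_lit 228) (nat_lit 82600881) (nat_lit 193) (nat_lit 1) (nat_lit 189) (nat_lit 1) (nat_lit 192) (nat_lit 1) (nat_lit 286) (nat_lit 402) (nat_lit 332)) (XT.lf (nat_lit 76) (nat_lit 3764730192) (nat_lit 0) (nat_lit 2865356934) (nat_lit 304) (nat_lit 3764730192) (nat_lit 190) (nat_lit 1) (nat_lit 189) (nat_lit 1) (nat_lit 193) (nat_lit 1) (nat_lit 287) (nat_lit 402) (nat_lit 331))) (XT.nd (nat_lit 78) (nat_lit 228) (nat_lit 0) (XT.lf (nat_lit 304) (nat_lit 4767870663) (nat_lit 0) (nat_lit 2757070168) (nat_lit 228) (nat_lit 2757070168) (nat_lit 190) (nat_lit 1) (nat_lit 186) (nat_lit 1) (nat_lit 189) (nat_lit 1) (nat_lit 288) (nat_lit 402) (nat_lit 330)) (XT.nd (nat_lit 78) (nat_lit 228) (nat_lit 0) (XT.lf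 (nat_lit 76) (nat_lit 1019754476) (nat_lit 0) (nat_lit 8131606399) (nat_lit 304) (nat_lit 1019754476) (nat_lit 187) (nat_lit 1) (nat_lit 186) (nat_lit 1) (nat_lit 190) (nat_lit 1) (nat_lit 289) (nat_lit 402) (nat_lit 329)) (XT.lf (nat_lit 76) (nat_lit 4692634194) (nat_lit 0) (nat_lit 675660572) (nat_lit 228) (nat_lit 4692634194) (nat_lit 184) (nat_lit 1) (nat_lit 183) (nat_lit 1) (nat_lit 186) (nat_lit 1) (nat_lit 290) (nat_lit 402) (nat_lit 328)))))) (XT.nd (nat_lit 390) (nat_lit 532) (nat_lit 0) (XT.nd (nat_lit 156) (nat_lit 456) (nat_lit 0) (XT.nd (nat_lit 78) (nat_lit 0) (nat_lit 0) (XT.lf (nat_lit 304) (nat_lit 6653845263) (nat_lit 0) (nat_lit 1649382938) (nat_lit 228) (nat_lit 1649382938) (nat_lit 184) (nat_lit 1) (nat_lit 180) (nat_lit 1) (nat_lit 183) (nat_lit 1) (nat_lit 291) (nat_lit 402) (nat_lit 327)) (XT.lf (nat_lit 76) (nat_lit 1968049248) (nat_lit 0) (nat_lit 5909430886) (nat_lit 304)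 (nat_lit 1968049248) (nat_lit 181) (nat_lit 1) (nat_lit 180) (nat_lit 1) (nat_lit 184) (nat_lit 1) (nat_lit 292) (nat_lit 402) (nat_lit 326))) (XT.nd (nat_lit 78) (nat_lit 304) (nat_lit 0) (XT.lf (nat_lit 228) (nat_lit 1239573805) (nat_lit 0) (nat_lit 4250152630) (nat_lit 152) (nat_lit 4250152630) (nat_lit 181) (nat_lit 1) (nat_lit 178) (nat_lit 1) (nat_lit 180) (nat_lit 1) (nat_lit 293) (nat_lit 402) (nat_lit 325)) (XT.nd (nat_lit 78) (nat_lit 0) (nat_lit 0) (XT.lf (nat_lit 304) (nat_lit 8259092164) (nat_lit 0) (nat_lit 688525089) (nat_lit 228) (nat_lit 688525089) (nat_lit 178) (nat_lit 1) (nat_lit 174) (nat_lit 1) (nat_lit 177) (nat_lit 1) (nat_lit 294) (nat_lit 402) (nat_lit 324)) (XT.lf (nat_lit 76) (nat_lit 2779664523) (nat_lit 0) (nat_lit 3973369232) (nat_lit 304) (nat_lit 2779664523) (nat_lit 175) (nat_lit 1) (nat_lit 174) (nat_lit 1) (nat_lit 178) (nat_lit 1) (nat_lit 295) (nat_lit 402) (nat_lit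 323))))) (XT.nd (nat_lit 156) (nat_lit 380) (nat_lit 0) (XT.nd (nat_lit 78) (nat_lit 0) (nat_lit 0) (XT.lf (nat_lit 228) (nat_lit 2899245205) (nat_lit 0) (nat_lit 3265943671) (nat_lit 152) (nat_lit 3265943671) (nat_lit 175) (nat_lit 1) (nat_lit 172) (nat_lit 1) (nat_lit 174) (nat_lit 1) (nat_lit 296) (nat_lit 402) (nat_lit 322)) (XT.lf (nat_lit 76) (nat_lit 143967068) (nat_lit 0) (nat_lit 9043754826) (nat_lit 228) (nat_lit 143967068) (nat_lit 173) (nat_lit 1) (nat_lit 172) (nat_lit 1) (nat_lit 175) (nat_lit 1) (nat_lit 297) (nat_lit 402) (nat_lit 321))) (XT.nd (nat_lit 78) (nat_lit 152) (nat_lit 0) (XT.lf (nat_lit 76) (nat_lit 3470742777) (nat_lit 0) (nat_lit 2290400137) (nat_lit 228) (nat_lit 3470742777) (nat_lit 170) (nat_lit 1) (nat_lit 169) (nat_lit 1) (nat_lit 172) (nat_lit 1) (nat_lit 298) (nat_lit 402) (nat_lit 320)) (XT.nd (nat_lit 78) (nat_lit 0) (nat_lit 0) (XT.lf (nat_lit 228) (nat_lit 4321475730)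 (nat_lit 0) (nat_lit 2406348754) (nat_lit 152) (nat_lit 2406348754) (nat_lit 170) (nat_lit 1) (nat_lit 167) (nat_lit 1) (nat_lit 169) (nat_lit 1) (nat_lit 299) (nat_lit 402) (nat_lit 319)) (XT.lf (nat_lit 76) (nat_lit 867494992) (nat_lit 0) (nat_lit 7303070578) (nat_lit 228) (nat_lit 867494992) (nat_lit 168) (nat_lit 1) (nat_lit 167) (nat_lit 1) (nat_lit 170) (nat_lit 1) (nat_lit 300) (nat_lit 402) (nat_lit 318))))))))
noncomputable def ec315 : XT := (XT.nd (nat_lit 1482) (nat_lit 1748) (nat_lit 0) (XT.nd (nat_lit 702) (nat_lit 1064) (nat_lit 0) (XT.nd (nat_lit 312) (nat_lit 608) (nat_lit 0) (XT.nd (nat_lit 156) (nat_lit 152) (nat_lit 0) (XT.nd (nat_lit 78) (nat_lit 152) (nat_lit 0) (XT.lf (nat_lit 76) (nat_lit 4055600150) (nat_lit 0) (nat_lit 831217106) (nat_lit 228) (nat_lit 4055600150) (nat_lit 165) (nat_lit 1) (nat_lit 164) (nat_lit 1) (nat_lit 167) (nat_lit 1) (nat_lit 301) (nat_lit 402) (nat_lit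 317)) (XT.lf (nat_lit 228) (nat_lit 5534268337) (nat_lit 0) (nat_lit 1657038928) (nat_lit 152) (nat_lit 1657038928) (nat_lit 165) (nat_lit 1) (nat_lit 162) (nat_lit 1) (nat_lit 164) (nat_lit 1) (nat_lit 302) (nat_lit 402) (nat_lit 316))) (XT.nd (nat_lit 78) (nat_lit 152) (nat_lit 0) (XT.lf (nat_lit 76) (nat_lit 1488798954) (nat_lit 0) (nat_lit 5777821047) (nat_lit 228) (nat_lit 1488798954) (nat_lit 163) (nat_lit 1) (nat_lit 162) (nat_lit 1) (nat_lit 165) (nat_lit 1) (nat_lit 303) (nat_lit 402) (nat_lit 315)) (XT.lf (nat_lit 228) (nat_lit 438748304) (nat_lit 0) (nat_lit 4112400084) (nat_lit 152) (nat_lit 4112400084) (nat_lit 163) (nat_lit 1) (nat_lit 160) (nat_lit 1) (nat_lit 162) (nat_lit 1) (nat_lit 304) (nat_lit 402) (nat_lit 314)))) (XT.nd (nat_lit 156) (nat_lit 380) (nat_lit 0) (XT.nd (nat_lit 78) (nat_lit 0) (nat_lit 0) (XT.lf (nat_lit 228) (nat_lit 6562458866) (nat_lit 0) (nat_lit 1005295710)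 (nat_lit 152) (nat_lit 1005295710) (nat_lit 160) (nat_lit 1) (nat_lit 157) (nat_lit 1) (nat_lit 159) (nat_lit 1) (nat_lit 305) (nat_lit 402) (nat_lit 313)) (XT.lf (nat_lit 76) (nat_lit 2019905665) (nat_lit 0) (nat_lit 4443361329) (nat_lit 228) (nat_lit 2019905665) (nat_lit 158) (nat_lit 1) (nat_lit 157) (nat_lit 1) (nat_lit 160) (nat_lit 1) (nat_lit 306) (nat_lit 402) (nat_lit 312))) (XT.nd (nat_lit 78) (nat_lit 228) (nat_lit 0) (XT.lf (nat_lit 228) (nat_lit 1547076599) (nat_lit 0) (nat_lit 3423783710) (nat_lit 152) (nat_lit 3423783710) (nat_lit 158) (nat_lit 1) (nat_lit 155) (nat_lit 1) (nat_lit 157) (nat_lit 1) (nat_lit 307) (nat_lit 402) (nat_lit 311)) (XT.nd (nat_lit 78) (nat_lit 0) (nat_lit 0) (XT.lf (nat_lit 228) (nat_lit 7428070510) (nat_lit 0) (nat_lit 439831135) (nat_lit 152) (nat_lit 439831135) (nat_lit 155) (nat_lit 1) (nat_lit 152) (nat_lit 1) (nat_lit 154) (nat_lit 1) (nat_lit 308) (nat_lit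 402) (nat_lit 310)) (XT.lf (nat_lit 76) (nat_lit 2471482426) (nat_lit 0) (nat_lit 3277812838) (nat_lit 228) (nat_lit 2471482426) (nat_lit 153) (nat_lit 1) (nat_lit 152) (nat_lit 1) (nat_lit 155) (nat_lit 1) (nat_lit 309) (nat_lit 402) (nat_lit 309)))))) (XT.nd (nat_lit 390) (nat_lit 608) (nat_lit 0) (XT.nd (nat_lit 156) (nat_lit 304) (nat_lit 0) (XT.nd (nat_lit 78) (nat_lit 0) (nat_lit 0) (XT.lf (nat_lit 228) (nat_lit 2498105495) (nat_lit 0) (nat_lit 2818656899) (nat_lit 152) (nat_lit 2818656899) (nat_lit 153) (nat_lit 1) (nat_lit 150) (nat_lit 1) (nat_lit 152) (nat_lit 1) (nat_lit 310) (nat_lit 402) (nat_lit 308)) (XT.lf (nat_lit 76) (nat_lit 49860957) (nat_lit 0) (nat_lit 7952104746) (nat_lit 228) (nat_lit 49860957) (nat_lit 151) (nat_lit 1) (nat_lit 150) (nat_lit 1) (nat_lit 153) (nat_lit 1) (nat_lit 311) (nat_lit 402) (nat_lit 307))) (XT.nd (nat_lit 78) (nat_lit 152) (nat_lit 0) (XT.lf (nat_lit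 76) (nat_lit 2852989256) (nat_lit 0) (nat_lit 2261754299) (nat_lit 152) (nat_lit 2852989256) (nat_lit 149) (nat_lit 1) (nat_lit 148) (nat_lit 1) (nat_lit 150) (nat_lit 1) (nat_lit 312) (nat_lit 402) (nat_lit 306)) (XT.nd (nat_lit 78) (nat_lit 0) (nat_lit 0) (XT.lf (nat_lit 228) (nat_lit 3310357653) (nat_lit 0) (nat_lit 2287514338) (nat_lit 152) (nat_lit 2287514338) (nat_lit 149) (nat_lit 1) (nat_lit 146) (nat_lit 1) (nat_lit 148) (nat_lit 1) (nat_lit 313) (nat_lit 402) (nat_lit 305)) (XT.lf (nat_lit 76) (nat_lit 475868169) (nat_lit 0) (nat_lit 6852747315) (nat_lit 228) (nat_lit 475868169) (nat_lit 147) (nat_lit 1) (nat_lit 146) (nat_lit 1) (nat_lit 149) (nat_lit 1) (nat_lit 314) (nat_lit 402) (nat_lit 304))))) (XT.nd (nat_lit 156) (nat_lit 304) (nat_lit 0) (XT.nd (nat_lit 78) (nat_lit 152) (nat_lit 0) (XT.lf (nat_lit 76) (nat_lit 3172814032) (nat_lit 0) (nat_lit 1377947212) (nat_lit 152) (nat_lit 3172814032)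 (nat_lit 145) (nat_lit 1) (nat_lit 144) (nat_lit 1) (nat_lit 146) (nat_lit 1) (nat_lit 315) (nat_lit 402) (nat_lit 303)) (XT.lf (nat_lit 228) (nat_lit 4000261623) (nat_lit 0) (nat_lit 1821916368) (nat_lit 152) (nat_lit 1821916368) (nat_lit 145) (nat_lit 1) (nat_lit 142) (nat_lit 1) (nat_lit 144) (nat_lit 1) (nat_lit 316) (nat_lit 402) (nat_lit 302))) (XT.nd (nat_lit 78) (nat_lit 304) (nat_lit 0) (XT.lf (nat_lit 76) (nat_lit 841800136) (nat_lit 0) (nat_lit 5882174556) (nat_lit 228) (nat_lit 841800136) (nat_lit 143) (nat_lit 1) (nat_lit 142) (nat_lit 1) (nat_lit 145) (nat_lit 1) (nat_lit 317) (nat_lit 402) (nat_lit 301)) (XT.nd (nat_lit 78) (nat_lit 152) (nat_lit 0) (XT.lf (nat_lit 76) (nat_lit 3438392552) (nat_lit 0) (nat_lit 611091952) (nat_lit 152) (nat_lit 3438392552) (nat_lit 141) (nat_lit 1) (nat_lit 140) (nat_lit 1) (nat_lit 142) (nat_lit 1) (nat_lit 318) (nat_lit 402) (nat_lit 300)) (XT.lf (nat_lit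 228) (nat_lit 4582386198) (nat_lit 0) (nat_lit 1414369975) (nat_lit 152) (nat_lit 1414369975) (nat_lit 141) (nat_lit 1) (nat_lit 138) (nat_lit 1) (nat_lit 140) (nat_lit 1) (nat_lit 319) (nat_lit 402) (nat_lit 299))))))) (XT.nd (nat_lit 702) (nat_lit 836) (nat_lit 0) (XT.nd (nat_lit 312) (nat_lit 608) (nat_lit 0) (XT.nd (nat_lit 156) (nat_lit 228) (nat_lit 0) (XT.nd (nat_lit 78) (nat_lit 76) (nat_lit 0) (XT.lf (nat_lit 76) (nat_lit 1154722141) (nat_lit 0) (nat_lit 5025844959) (nat_lit 228) (nat_lit 1154722141) (nat_lit 139) (nat_lit 1) (nat_lit 138) (nat_lit 1) (nat_lit 141) (nat_lit 1) (nat_lit 320) (nat_lit 402) (nat_lit 298)) (XT.lf (nat_lit 152) (nat_lit 53431570) (nat_lit 0) (nat_lit 3603397236) (nat_lit 76) (nat_lit 3603397236) (nat_lit 139) (nat_lit 1) (nat_lit 137) (nat_lit 1) (nat_lit 138) (nat_lit 1) (nat_lit 321) (nat_lit 402) (nat_lit 297))) (XT.nd (nat_lit 78) (nat_lit 0) (nat_lit 0) (XT.lf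 (nat_lit 228) (nat_lit 5069648608) (nat_lit 0) (nat_lit 1058223074) (nat_lit 152) (nat_lit 1058223074) (nat_lit 137) (nat_lit 1) (nat_lit 134) (nat_lit 1) (nat_lit 136) (nat_lit 1) (nat_lit 322) (nat_lit 402) (nat_lit 296)) (XT.lf (nat_lit 76) (nat_lit 1420900931) (nat_lit 0) (nat_lit 4270843833) (nat_lit 228) (nat_lit 1420900931) (nat_lit 135) (nat_lit 1) (nat_lit 134) (nat_lit 1) (nat_lit 137) (nat_lit 1) (nat_lit 323) (nat_lit 402) (nat_lit 295)))) (XT.nd (nat_lit 156) (nat_lit 304) (nat_lit 0) (XT.nd (nat_lit 78) (nat_lit 228) (nat_lit 0) (XT.lf (nat_lit 152) (nat_lit 636972840) (nat_lit 0) (nat_lit 3201571773) (nat_lit 76) (nat_lit 3201571773) (nat_lit 135) (nat_lit 1) (nat_lit 133) (nat_lit 1) (nat_lit 134) (nat_lit 1) (nat_lit 324) (nat_lit 402) (nat_lit 294)) (XT.lf (nat_lit 228) (nat_lit 5473499478) (nat_lit 0) (nat_lit 747570572) (nat_lit 152) (nat_lit 747570572) (nat_lit 133) (nat_lit 1)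 (nat_lit 130) (nat_lit 1) (nat_lit 132) (nat_lit 1) (nat_lit 325) (nat_lit 402) (nat_lit 293))) (XT.nd (nat_lit 78) (nat_lit 304) (nat_lit 0) (XT.lf (nat_lit 76) (nat_lit 1645894079) (nat_lit 0) (nat_lit 3605701742) (nat_lit 228) (nat_lit 1645894079) (nat_lit 131) (nat_lit 1) (nat_lit 130) (nat_lit 1) (nat_lit 133) (nat_lit 1) (nat_lit 326) (nat_lit 402) (nat_lit 292)) (XT.nd (nat_lit 78) (nat_lit 228) (nat_lit 0) (XT.lf (nat_lit 152) (nat_lit 1138271811) (nat_lit 0) (nat_lit 2844555053) (nat_lit 76) (nat_lit 2844555053) (nat_lit 131) (nat_lit 1) (nat_lit 129) (nat_lit 1) (nat_lit 130) (nat_lit 1) (nat_lit 327) (nat_lit 402) (nat_lit 291)) (XT.lf (nat_lit 228) (nat_lit 5804087133) (nat_lit 0) (nat_lit 477170924) (nat_lit 152) (nat_lit 477170924) (nat_lit 129) (nat_lit 1) (nat_lit 126) (nat_lit 1) (nat_lit 128) (nat_lit 1) (nat_lit 328) (nat_lit 402) (nat_lit 290)))))) (XT.nd (nat_lit 390) (nat_lit 456)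 (nat_lit 0) (XT.nd (nat_lit 156) (nat_lit 304) (nat_lit 0) (XT.nd (nat_lit 78) (nat_lit 76) (nat_lit 0) (XT.lf (nat_lit 76) (nat_lit 1834629362) (nat_lit 0) (nat_lit 3020233193) (nat_lit 228) (nat_lit 1834629362) (nat_lit 127) (nat_lit 1) (nat_lit 126) (nat_lit 1) (nat_lit 129) (nat_lit 1) (nat_lit 329) (nat_lit 402) (nat_lit 289)) (XT.lf (nat_lit 152) (nat_lit 1566999656) (nat_lit 0) (nat_lit 2527350321) (nat_lit 76) (nat_lit 2527350321) (nat_lit 127) (nat_lit 1) (nat_lit 125) (nat_lit 1) (nat_lit 126) (nat_lit 1) (nat_lit 330) (nat_lit 402) (nat_lit 288))) (XT.nd (nat_lit 78) (nat_lit 76) (nat_lit 0) (XT.lf (nat_lit 228) (nat_lit 6070403564) (nat_lit 0) (nat_lit 242371984) (nat_lit 152) (nat_lit 242371984) (nat_lit 125) (nat_lit 1) (nat_lit 122) (nat_lit 1) (nat_lit 124) (nat_lit 1) (nat_lit 331) (nat_lit 402) (nat_lit 287)) (XT.nd (nat_lit 78) (nat_lit 76) (nat_lit 0) (XT.lf (nat_lit 76) (nat_lit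 1991475291) (nat_lit 0) (nat_lit 2505393312) (nat_lit 228) (nat_lit 1991475291) (nat_lit 123) (nat_lit 1) (nat_lit 122) (nat_lit 1) (nat_lit 125) (nat_lit 1) (nat_lit 332) (nat_lit 402) (nat_lit 286)) (XT.lf (nat_lit 152) (nat_lit 1931734525) (nat_lit 0) (nat_lit 2245518026) (nat_lit 76) (nat_lit 2245518026) (nat_lit 123) (nat_lit 1) (nat_lit 121) (nat_lit 1) (nat_lit 122) (nat_lit 1) (nat_lit 333) (nat_lit 402) (nat_lit 285))))) (XT.nd (nat_lit 156) (nat_lit 228) (nat_lit 0) (XT.nd (nat_lit 78) (nat_lit 0) (nat_lit 0) (XT.lf (nat_lit 228) (nat_lit 6280414088) (nat_lit 0) (nat_lit 39045144) (nat_lit 152) (nat_lit 39045144) (nat_lit 121) (nat_lit 1) (nat_lit 118) (nat_lit 1) (nat_lit 120) (nat_lit 1) (nat_lit 334) (nat_lit 402) (nat_lit 284)) (XT.lf (nat_lit 76) (nat_lit 2120303755) (nat_lit 0) (nat_lit 2053150516) (nat_lit 228) (nat_lit 2120303755) (nat_lit 119) (nat_lit 1) (nat_lit 118) (nat_lit 1)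 (nat_lit 121) (nat_lit 1) (nat_lit 335) (nat_lit 402) (nat_lit 283))) (XT.nd (nat_lit 78) (nat_lit 152) (nat_lit 0) (XT.lf (nat_lit 152) (nat_lit 2240083849) (nat_lit 0) (nat_lit 1995113682) (nat_lit 76) (nat_lit 1995113682) (nat_lit 119) (nat_lit 1) (nat_lit 117) (nat_lit 1) (nat_lit 118) (nat_lit 1) (nat_lit 336) (nat_lit 402) (nat_lit 282)) (XT.nd (nat_lit 78) (nat_lit 152) (nat_lit 0) (XT.lf (nat_lit 0) (nat_lit 137824409) (nat_lit 0) (nat_lit 5892417555) (nat_lit 152) (nat_lit 137824409) (nat_lit 117) (nat_lit 3) (nat_lit 117) (nat_lit 1) (nat_lit 119) (nat_lit 1) (nat_lit 337) (nat_lit 402) (nat_lit 281)) (XT.lf (nat_lit 76) (nat_lit 2224545679) (nat_lit 0) (nat_lit 1656373377) (nat_lit 152) (nat_lit 2224545679) (nat_lit 116) (nat_lit 1) (nat_lit 115) (nat_lit 1) (nat_lit 117) (nat_lit 1) (nat_lit 338) (nat_lit 402) (nat_lit 280))))))))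
noncomputable def ec316 : XT := (XT.nd (nat_lit 1482) (nat_lit 1368) (nat_lit 0) (XT.nd (nat_lit 702) (nat_lit 760) (nat_lit 0) (XT.nd (nat_lit 312) (nat_lit 380) (nat_lit 0) (XT.nd (nat_lit 156) (nat_lit 228) (nat_lit 0) (XT.nd (nat_lit 78) (nat_lit 0) (nat_lit 0) (XT.lf (nat_lit 152) (nat_lit 2498793005) (nat_lit 0) (nat_lit 1772632666) (nat_lit 76) (nat_lit 1772632666) (nat_lit 116) (nat_lit 1) (nat_lit 114) (nat_lit 1) (nat_lit 115) (nat_lit 1) (nat_lit 339) (nat_lit 402) (nat_lit 279)) (XT.lf (nat_lit 0) (nat_lit 290279466) (nat_lit 0) (nat_lit 5403160942) (nat_lit 152) (nat_lit 290279466) (nat_lit 114) (nat_lit 3) (nat_lit 114) (nat_lit 1) (nat_lit 116) (nat_lit 1) (nat_lit 340) (nat_lit 402) (nat_lit 278))) (XT.nd (nat_lit 78) (nat_lit 76) (nat_lit 0) (XT.lf (nat_lit 76) (nat_lit 2307240465) (nat_lit 0) (nat_lit 1308730114) (nat_lit 152) (nat_lit 2307240465) (nat_lit 113) (nat_lit 1) (nat_lit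 112) (nat_lit 1) (nat_lit 114) (nat_lit 1) (nat_lit 341) (nat_lit 402) (nat_lit 277)) (XT.lf (nat_lit 152) (nat_lit 2713841840) (nat_lit 0) (nat_lit 1574961164) (nat_lit 76) (nat_lit 1574961164) (nat_lit 113) (nat_lit 1) (nat_lit 111) (nat_lit 1) (nat_lit 112) (nat_lit 1) (nat_lit 342) (nat_lit 402) (nat_lit 276)))) (XT.nd (nat_lit 156) (nat_lit 228) (nat_lit 0) (XT.nd (nat_lit 78) (nat_lit 152) (nat_lit 0) (XT.lf (nat_lit 0) (nat_lit 420845724) (nat_lit 0) (nat_lit 4963574693) (nat_lit 152) (nat_lit 420845724) (nat_lit 111) (nat_lit 3) (nat_lit 111) (nat_lit 1) (nat_lit 113) (nat_lit 1) (nat_lit 343) (nat_lit 402) (nat_lit 275)) (XT.lf (nat_lit 76) (nat_lit 2371079912) (nat_lit 0) (nat_lit 1004599291) (nat_lit 152) (nat_lit 2371079912) (nat_lit 110) (nat_lit 1) (nat_lit 109) (nat_lit 1) (nat_lit 111) (nat_lit 1) (nat_lit 344) (nat_lit 402) (nat_lit 274))) (XT.nd (nat_lit 78) (nat_lit 152) (nat_lit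 0) (XT.lf (nat_lit 152) (nat_lit 2890530432) (nat_lit 0) (nat_lit 1399332595) (nat_lit 76) (nat_lit 1399332595) (nat_lit 110) (nat_lit 1) (nat_lit 108) (nat_lit 1) (nat_lit 109) (nat_lit 1) (nat_lit 345) (nat_lit 402) (nat_lit 273)) (XT.nd (nat_lit 78) (nat_lit 152) (nat_lit 0) (XT.lf (nat_lit 0) (nat_lit 532106439) (nat_lit 0) (nat_lit 4568262290) (nat_lit 152) (nat_lit 532106439) (nat_lit 108) (nat_lit 3) (nat_lit 108) (nat_lit 1) (nat_lit 110) (nat_lit 1) (nat_lit 346) (nat_lit 402) (nat_lit 272)) (XT.lf (nat_lit 76) (nat_lit 2418447231) (nat_lit 0) (nat_lit 738990484) (nat_lit 152) (nat_lit 2418447231) (nat_lit 107) (nat_lit 1) (nat_lit 106) (nat_lit 1) (nat_lit 108) (nat_lit 1) (nat_lit 347) (nat_lit 402) (nat_lit 271)))))) (XT.nd (nat_lit 390) (nat_lit 456) (nat_lit 0) (XT.nd (nat_lit 156) (nat_lit 228) (nat_lit 0) (XT.nd (nat_lit 78) (nat_lit 0) (nat_lit 0) (XT.lf (nat_lit 152) (nat_lit 3033555265)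 (nat_lit 0) (nat_lit 1243288886) (nat_lit 76) (nat_lit 1243288886) (nat_lit 107) (nat_lit 1) (nat_lit 105) (nat_lit 1) (nat_lit 106) (nat_lit 1) (nat_lit 348) (nat_lit 402) (nat_lit 270)) (XT.lf (nat_lit 0) (nat_lit 626352654) (nat_lit 0) (nat_lit 4212424851) (nat_lit 152) (nat_lit 626352654) (nat_lit 105) (nat_lit 3) (nat_lit 105) (nat_lit 1) (nat_lit 107) (nat_lit 1) (nat_lit 349) (nat_lit 402) (nat_lit 269))) (XT.nd (nat_lit 78) (nat_lit 76) (nat_lit 0) (XT.lf (nat_lit 76) (nat_lit 2451451700) (nat_lit 0) (nat_lit 507473789) (nat_lit 152) (nat_lit 2451451700) (nat_lit 104) (nat_lit 1) (nat_lit 103) (nat_lit 1) (nat_lit 105) (nat_lit 1) (nat_lit 350) (nat_lit 402) (nat_lit 268)) (XT.nd (nat_lit 78) (nat_lit 0) (nat_lit 0) (XT.lf (nat_lit 152) (nat_lit 3147076906) (nat_lit 0) (nat_lit 1104646072) (nat_lit 76) (nat_lit 1104646072) (nat_lit 104) (nat_lit 1) (nat_lit 102) (nat_lit 1) (nat_lit 103) (nat_lit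 1) (nat_lit 351) (nat_lit 402) (nat_lit 267)) (XT.lf (nat_lit 0) (nat_lit 705615905) (nat_lit 0) (nat_lit 3891794605) (nat_lit 152) (nat_lit 705615905) (nat_lit 102) (nat_lit 3) (nat_lit 102) (nat_lit 1) (nat_lit 104) (nat_lit 1) (nat_lit 352) (nat_lit 402) (nat_lit 266))))) (XT.nd (nat_lit 156) (nat_lit 228) (nat_lit 0) (XT.nd (nat_lit 78) (nat_lit 76) (nat_lit 0) (XT.lf (nat_lit 76) (nat_lit 2471959452) (nat_lit 0) (nat_lit 306117204) (nat_lit 152) (nat_lit 2471959452) (nat_lit 101) (nat_lit 1) (nat_lit 100) (nat_lit 1) (nat_lit 102) (nat_lit 1) (nat_lit 353) (nat_lit 402) (nat_lit 265)) (XT.lf (nat_lit 152) (nat_lit 3234780122) (nat_lit 0) (nat_lit 981463728) (nat_lit 76) (nat_lit 981463728) (nat_lit 101) (nat_lit 1) (nat_lit 99) (nat_lit 1) (nat_lit 100) (nat_lit 1) (nat_lit 354) (nat_lit 402) (nat_lit 264))) (XT.nd (nat_lit 78) (nat_lit 228) (nat_lit 0) (XT.lf (nat_lit 0) (nat_lit 771697276) (nat_lit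 0) (nat_lit 3602575784) (nat_lit 152) (nat_lit 771697276) (nat_lit 99) (nat_lit 3) (nat_lit 99) (nat_lit 1) (nat_lit 101) (nat_lit 1) (nat_lit 355) (nat_lit 402) (nat_lit 263)) (XT.nd (nat_lit 78) (nat_lit 76) (nat_lit 0) (XT.lf (nat_lit 76) (nat_lit 2481620819) (nat_lit 0) (nat_lit 131430992) (nat_lit 152) (nat_lit 2481620819) (nat_lit 98) (nat_lit 1) (nat_lit 97) (nat_lit 1) (nat_lit 99) (nat_lit 1) (nat_lit 356) (nat_lit 402) (nat_lit 262)) (XT.lf (nat_lit 152) (nat_lit 3299927282) (nat_lit 0) (nat_lit 872017810) (nat_lit 76) (nat_lit 872017810) (nat_lit 98) (nat_lit 1) (nat_lit 96) (nat_lit 1) (nat_lit 97) (nat_lit 1) (nat_lit 357) (nat_lit 402) (nat_lit 261))))))) (XT.nd (nat_lit 702) (nat_lit 684) (nat_lit 0) (XT.nd (nat_lit 312) (nat_lit 456) (nat_lit 0) (XT.nd (nat_lit 156) (nat_lit 152) (nat_lit 0) (XT.nd (nat_lit 78) (nat_lit 76) (nat_lit 0) (XT.lf (nat_lit 0) (nat_lit 826193214) (nat_lit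 0) (nat_lit 3341392102) (nat_lit 152) (nat_lit 826193214) (nat_lit 96) (nat_lit 3) (nat_lit 96) (nat_lit 1) (nat_lit 98) (nat_lit 1) (nat_lit 358) (nat_lit 402) (nat_lit 260)) (XT.lf (nat_lit 76) (nat_lit 20073454) (nat_lit 0) (nat_lit 2462014122) (nat_lit 76) (nat_lit 2462014122) (nat_lit 96) (nat_lit 3) (nat_lit 95) (nat_lit 1) (nat_lit 96) (nat_lit 1) (nat_lit 359) (nat_lit 402) (nat_lit 259))) (XT.nd (nat_lit 78) (nat_lit 0) (nat_lit 0) (XT.lf (nat_lit 152) (nat_lit 3345405796) (nat_lit 0) (nat_lit 774776530) (nat_lit 76) (nat_lit 774776530) (nat_lit 95) (nat_lit 1) (nat_lit 93) (nat_lit 1) (nat_lit 94) (nat_lit 1) (nat_lit 360) (nat_lit 402) (nat_lit 258)) (XT.lf (nat_lit 0) (nat_lit 870518453) (nat_lit 0) (nat_lit 3105240088) (nat_lit 152) (nat_lit 870518453) (nat_lit 93) (nat_lit 3) (nat_lit 93) (nat_lit 1) (nat_lit 95) (nat_lit 1) (nat_lit 361) (nat_lit 402) (nat_lit 257)))) (XT.nd (nat_lit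 156) (nat_lit 228) (nat_lit 0) (XT.nd (nat_lit 78) (nat_lit 152) (nat_lit 0) (XT.lf (nat_lit 76) (nat_lit 152953679) (nat_lit 0) (nat_lit 2322586335) (nat_lit 76) (nat_lit 2322586335) (nat_lit 93) (nat_lit 3) (nat_lit 92) (nat_lit 1) (nat_lit 93) (nat_lit 1) (nat_lit 362) (nat_lit 402) (nat_lit 256)) (XT.lf (nat_lit 152) (nat_lit 3373770251) (nat_lit 0) (nat_lit 688378912) (nat_lit 76) (nat_lit 688378912) (nat_lit 92) (nat_lit 1) (nat_lit 90) (nat_lit 1) (nat_lit 91) (nat_lit 1) (nat_lit 363) (nat_lit 402) (nat_lit 255))) (XT.nd (nat_lit 78) (nat_lit 228) (nat_lit 0) (XT.lf (nat_lit 0) (nat_lit 905926394) (nat_lit 0) (nat_lit 2891447623) (nat_lit 152) (nat_lit 905926394) (nat_lit 90) (nat_lit 3) (nat_lit 90) (nat_lit 1) (nat_lit 92) (nat_lit 1) (nat_lit 364) (nat_lit 402) (nat_lit 254)) (XT.nd (nat_lit 78) (nat_lit 152) (nat_lit 0) (XT.lf (nat_lit 76) (nat_lit 267080543) (nat_lit 0) (nat_lit 2194771056)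 (nat_lit 76) (nat_lit 2194771056) (nat_lit 90) (nat_lit 3) (nat_lit 89) (nat_lit 1) (nat_lit 90) (nat_lit 1) (nat_lit 365) (nat_lit 402) (nat_lit 253)) (XT.lf (nat_lit 152) (nat_lit 3387279841) (nat_lit 0) (nat_lit 611615747) (nat_lit 76) (nat_lit 611615747) (nat_lit 89) (nat_lit 1) (nat_lit 87) (nat_lit 1) (nat_lit 88) (nat_lit 1) (nat_lit 366) (nat_lit 402) (nat_lit 252)))))) (XT.nd (nat_lit 390) (nat_lit 380) (nat_lit 0) (XT.nd (nat_lit 156) (nat_lit 228) (nat_lit 0) (XT.nd (nat_lit 78) (nat_lit 76) (nat_lit 0) (XT.lf (nat_lit 0) (nat_lit 933527191) (nat_lit 0) (nat_lit 2697637086) (nat_lit 152) (nat_lit 933527191) (nat_lit 87) (nat_lit 3) (nat_lit 87) (nat_lit 1) (nat_lit 89) (nat_lit 1) (nat_lit 367) (nat_lit 402) (nat_lit 251)) (XT.lf (nat_lit 76) (nat_lit 364659914) (nat_lit 0) (nat_lit 2077387967) (nat_lit 76) (nat_lit 2077387967) (nat_lit 87) (nat_lit 3) (nat_lit 86) (nat_lit 1) (nat_lit 87)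 (nat_lit 1) (nat_lit 368) (nat_lit 402) (nat_lit 250))) (XT.nd (nat_lit 78) (nat_lit 76) (nat_lit 0) (XT.lf (nat_lit 152) (nat_lit 3387931617) (nat_lit 0) (nat_lit 543412669) (nat_lit 76) (nat_lit 543412669) (nat_lit 86) (nat_lit 1) (nat_lit 84) (nat_lit 1) (nat_lit 85) (nat_lit 1) (nat_lit 369) (nat_lit 402) (nat_lit 249)) (XT.nd (nat_lit 78) (nat_lit 76) (nat_lit 0) (XT.lf (nat_lit 0) (nat_lit 954303831) (nat_lit 0) (nat_lit 2521692624) (nat_lit 152) (nat_lit 954303831) (nat_lit 84) (nat_lit 3) (nat_lit 84) (nat_lit 1) (nat_lit 86) (nat_lit 1) (nat_lit 370) (nat_lit 402) (nat_lit 248)) (XT.lf (nat_lit 76) (nat_lit 447648339) (nat_lit 0) (nat_lit 1969385031) (nat_lit 76) (nat_lit 1969385031) (nat_lit 84) (nat_lit 3) (nat_lit 83) (nat_lit 1) (nat_lit 84) (nat_lit 1) (nat_lit 371) (nat_lit 402) (nat_lit 247))))) (XT.nd (nat_lit 156) (nat_lit 228) (nat_lit 0) (XT.nd (nat_lit 78) (nat_lit 0) (nat_lit 0)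 (XT.lf (nat_lit 152) (nat_lit 3377490011) (nat_lit 0) (nat_lit 482815118) (nat_lit 76) (nat_lit 482815118) (nat_lit 83) (nat_lit 1) (nat_lit 81) (nat_lit 1) (nat_lit 82) (nat_lit 1) (nat_lit 372) (nat_lit 402) (nat_lit 246)) (XT.lf (nat_lit 0) (nat_lit 969126413) (nat_lit 0) (nat_lit 2361731054) (nat_lit 152) (nat_lit 969126413) (nat_lit 81) (nat_lit 3) (nat_lit 81) (nat_lit 1) (nat_lit 83) (nat_lit 1) (nat_lit 373) (nat_lit 402) (nat_lit 245))) (XT.nd (nat_lit 78) (nat_lit 152) (nat_lit 0) (XT.lf (nat_lit 76) (nat_lit 517780944) (nat_lit 0) (nat_lit 1869824285) (nat_lit 76) (nat_lit 1869824285) (nat_lit 81) (nat_lit 3) (nat_lit 80) (nat_lit 1) (nat_lit 81) (nat_lit 1) (nat_lit 374) (nat_lit 402) (nat_lit 244)) (XT.nd (nat_lit 78) (nat_lit 0) (nat_lit 0) (XT.lf (nat_lit 152) (nat_lit 3357513072) (nat_lit 0) (nat_lit 428974979) (nat_lit 76) (nat_lit 428974979) (nat_lit 80) (nat_lit 1) (nat_lit 78) (nat_lit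 1) (nat_lit 79) (nat_lit 1) (nat_lit 375) (nat_lit 402) (nat_lit 243)) (XT.lf (nat_lit 0) (nat_lit 978764827) (nat_lit 0) (nat_lit 2216076014) (nat_lit 152) (nat_lit 978764827) (nat_lit 78) (nat_lit 3) (nat_lit 78) (nat_lit 1) (nat_lit 80) (nat_lit 1) (nat_lit 376) (nat_lit 402) (nat_lit 242))))))))
noncomputable def ec317 : XT := (XT.nd (nat_lit 1482) (nat_lit 1520) (nat_lit 0) (XT.nd (nat_lit 702) (nat_lit 760) (nat_lit 0) (XT.nd (nat_lit 312) (nat_lit 380) (nat_lit 0) (XT.nd (nat_lit 156) (nat_lit 76) (nat_lit 0) (XT.nd (nat_lit 78) (nat_lit 152) (nat_lit 0) (XT.lf (nat_lit 76) (nat_lit 576596219) (nat_lit 0) (nat_lit 1777869216) (nat_lit 76) (nat_lit 1777869216) (nat_lit 78) (nat_lit 3) (nat_lit 77) (nat_lit 1) (nat_lit 78) (nat_lit 1) (nat_lit 377) (nat_lit 402) (nat_lit 241)) (XT.lf (nat_lit 152) (nat_lit 3329375754) (nat_lit 0) (nat_lit 381138713) (nat_lit 76) (nat_lit 381138713) (nat_lit 77)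 (nat_lit 1) (nat_lit 75) (nat_lit 1) (nat_lit 76) (nat_lit 1) (nat_lit 378) (nat_lit 402) (nat_lit 240))) (XT.nd (nat_lit 78) (nat_lit 76) (nat_lit 0) (XT.lf (nat_lit 0) (nat_lit 983900029) (nat_lit 0) (nat_lit 2083234993) (nat_lit 152) (nat_lit 983900029) (nat_lit 75) (nat_lit 3) (nat_lit 75) (nat_lit 1) (nat_lit 77) (nat_lit 1) (nat_lit 379) (nat_lit 402) (nat_lit 239)) (XT.lf (nat_lit 76) (nat_lit 625458036) (nat_lit 0) (nat_lit 1692773534) (nat_lit 76) (nat_lit 1692773534) (nat_lit 75) (nat_lit 3) (nat_lit 74) (nat_lit 1) (nat_lit 75) (nat_lit 1) (nat_lit 380) (nat_lit 402) (nat_lit 238)))) (XT.nd (nat_lit 156) (nat_lit 228) (nat_lit 0) (XT.nd (nat_lit 78) (nat_lit 0) (nat_lit 0) (XT.lf (nat_lit 152) (nat_lit 3294290610) (nat_lit 0) (nat_lit 338636810) (nat_lit 76) (nat_lit 338636810) (nat_lit 74) (nat_lit 1) (nat_lit 72) (nat_lit 1) (nat_lit 73) (nat_lit 1) (nat_lit 381) (nat_lit 402) (nat_lit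 237)) (XT.lf (nat_lit 0) (nat_lit 985134041) (nat_lit 0) (nat_lit 1961878918) (nat_lit 152) (nat_lit 985134041) (nat_lit 72) (nat_lit 3) (nat_lit 72) (nat_lit 1) (nat_lit 74) (nat_lit 1) (nat_lit 382) (nat_lit 402) (nat_lit 236))) (XT.nd (nat_lit 78) (nat_lit 152) (nat_lit 0) (XT.lf (nat_lit 76) (nat_lit 665575212) (nat_lit 0) (nat_lit 1613871208) (nat_lit 76) (nat_lit 1613871208) (nat_lit 72) (nat_lit 3) (nat_lit 71) (nat_lit 1) (nat_lit 72) (nat_lit 1) (nat_lit 383) (nat_lit 402) (nat_lit 235)) (XT.nd (nat_lit 78) (nat_lit 0) (nat_lit 0) (XT.lf (nat_lit 152) (nat_lit 3253326165) (nat_lit 0) (nat_lit 300874419) (nat_lit 76) (nat_lit 300874419) (nat_lit 71) (nat_lit 1) (nat_lit 69) (nat_lit 1) (nat_lit 70) (nat_lit 1) (nat_lit 384) (nat_lit 402) (nat_lit 234)) (XT.lf (nat_lit 0) (nat_lit 982998845) (nat_lit 0) (nat_lit 1850824016) (nat_lit 152) (nat_lit 982998845) (nat_lit 69) (nat_lit 3) (nat_lit 69)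 (nat_lit 1) (nat_lit 71) (nat_lit 1) (nat_lit 385) (nat_lit 402) (nat_lit 233)))))) (XT.nd (nat_lit 390) (nat_lit 304) (nat_lit 0) (XT.nd (nat_lit 156) (nat_lit 228) (nat_lit 0) (XT.nd (nat_lit 78) (nat_lit 152) (nat_lit 0) (XT.lf (nat_lit 76) (nat_lit 698018885) (nat_lit 0) (nat_lit 1540567596) (nat_lit 76) (nat_lit 1540567596) (nat_lit 69) (nat_lit 3) (nat_lit 68) (nat_lit 1) (nat_lit 69) (nat_lit 1) (nat_lit 386) (nat_lit 402) (nat_lit 232)) (XT.lf (nat_lit 152) (nat_lit 3207423234) (nat_lit 0) (nat_lit 267323025) (nat_lit 76) (nat_lit 267323025) (nat_lit 68) (nat_lit 1) (nat_lit 66) (nat_lit 1) (nat_lit 67) (nat_lit 1) (nat_lit 387) (nat_lit 402) (nat_lit 231))) (XT.nd (nat_lit 78) (nat_lit 228) (nat_lit 0) (XT.lf (nat_lit 0) (nat_lit 977964274) (nat_lit 0) (nat_lit 1749015699) (nat_lit 152) (nat_lit 977964274) (nat_lit 66) (nat_lit 3) (nat_lit 66) (nat_lit 1) (nat_lit 68) (nat_lit 1) (nat_lit 388)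 (nat_lit 402) (nat_lit 230)) (XT.nd (nat_lit 78) (nat_lit 152) (nat_lit 0) (XT.lf (nat_lit 76) (nat_lit 723737952) (nat_lit 0) (nat_lit 1472331569) (nat_lit 76) (nat_lit 1472331569) (nat_lit 66) (nat_lit 3) (nat_lit 65) (nat_lit 1) (nat_lit 66) (nat_lit 1) (nat_lit 389) (nat_lit 402) (nat_lit 229)) (XT.lf (nat_lit 152) (nat_lit 3157409412) (nat_lit 0) (nat_lit 237513045) (nat_lit 76) (nat_lit 237513045) (nat_lit 65) (nat_lit 1) (nat_lit 63) (nat_lit 1) (nat_lit 64) (nat_lit 1) (nat_lit 390) (nat_lit 402) (nat_lit 228))))) (XT.nd (nat_lit 156) (nat_lit 228) (nat_lit 0) (XT.nd (nat_lit 78) (nat_lit 76) (nat_lit 0) (XT.lf (nat_lit 0) (nat_lit 970445030) (nat_lit 0) (nat_lit 1655514235) (nat_lit 152) (nat_lit 970445030) (nat_lit 63) (nat_lit 3) (nat_lit 63) (nat_lit 1) (nat_lit 65) (nat_lit 1) (nat_lit 391) (nat_lit 402) (nat_lit 227)) (XT.lf (nat_lit 76) (nat_lit 743572781) (nat_lit 0) (nat_lit 1408688513)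 (nat_lit 76) (nat_lit 1408688513) (nat_lit 63) (nat_lit 3) (nat_lit 62) (nat_lit 1) (nat_lit 63) (nat_lit 1) (nat_lit 392) (nat_lit 402) (nat_lit 226))) (XT.nd (nat_lit 78) (nat_lit 76) (nat_lit 0) (XT.lf (nat_lit 152) (nat_lit 3104011942) (nat_lit 0) (nat_lit 211027264) (nat_lit 76) (nat_lit 211027264) (nat_lit 62) (nat_lit 1) (nat_lit 60) (nat_lit 1) (nat_lit 61) (nat_lit 1) (nat_lit 393) (nat_lit 402) (nat_lit 225)) (XT.nd (nat_lit 78) (nat_lit 76) (nat_lit 0) (XT.lf (nat_lit 0) (nat_lit 960806908) (nat_lit 0) (nat_lit 1569482023) (nat_lit 152) (nat_lit 960806908) (nat_lit 60) (nat_lit 3) (nat_lit 60) (nat_lit 1) (nat_lit 62) (nat_lit 1) (nat_lit 394) (nat_lit 402) (nat_lit 224)) (XT.lf (nat_lit 76) (nat_lit 758267391) (nat_lit 0) (nat_lit 1349214105) (nat_lit 76) (nat_lit 1349214105) (nat_lit 60) (nat_lit 3) (nat_lit 59) (nat_lit 1) (nat_lit 60) (nat_lit 1) (nat_lit 395) (nat_lit 402) (nat_lit 223)))))))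 (XT.nd (nat_lit 702) (nat_lit 836) (nat_lit 0) (XT.nd (nat_lit 312) (nat_lit 304) (nat_lit 0) (XT.nd (nat_lit 156) (nat_lit 228) (nat_lit 0) (XT.nd (nat_lit 78) (nat_lit 0) (nat_lit 0) (XT.lf (nat_lit 152) (nat_lit 3047869139) (nat_lit 0) (nat_lit 187494991) (nat_lit 76) (nat_lit 187494991) (nat_lit 59) (nat_lit 1) (nat_lit 57) (nat_lit 1) (nat_lit 58) (nat_lit 1) (nat_lit 396) (nat_lit 402) (nat_lit 222)) (XT.lf (nat_lit 0) (nat_lit 949372325) (nat_lit 0) (nat_lit 1490172281) (nat_lit 152) (nat_lit 949372325) (nat_lit 57) (nat_lit 3) (nat_lit 57) (nat_lit 1) (nat_lit 59) (nat_lit 1) (nat_lit 397) (nat_lit 402) (nat_lit 221))) (XT.nd (nat_lit 78) (nat_lit 152) (nat_lit 0) (XT.lf (nat_lit 76) (nat_lit 768480276) (nat_lit 0) (nat_lit 1293528777) (nat_lit 76) (nat_lit 1293528777) (nat_lit 57) (nat_lit 3) (nat_lit 56) (nat_lit 1) (nat_lit 57) (nat_lit 1) (nat_lit 398) (nat_lit 402) (nat_lit 220)) (XT.lf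 (nat_lit 152) (nat_lit 2989540538) (nat_lit 0) (nat_lit 166586871) (nat_lit 76) (nat_lit 166586871) (nat_lit 56) (nat_lit 1) (nat_lit 54) (nat_lit 1) (nat_lit 55) (nat_lit 1) (nat_lit 399) (nat_lit 402) (nat_lit 219)))) (XT.nd (nat_lit 156) (nat_lit 228) (nat_lit 0) (XT.nd (nat_lit 78) (nat_lit 76) (nat_lit 0) (XT.lf (nat_lit 0) (nat_lit 936425240) (nat_lit 0) (nat_lit 1416918997) (nat_lit 152) (nat_lit 936425240) (nat_lit 54) (nat_lit 3) (nat_lit 54) (nat_lit 1) (nat_lit 56) (nat_lit 1) (nat_lit 400) (nat_lit 402) (nat_lit 218)) (XT.lf (nat_lit 76) (nat_lit 774794015) (nat_lit 0) (nat_lit 1241292808) (nat_lit 76) (nat_lit 1241292808) (nat_lit 54) (nat_lit 3) (nat_lit 53) (nat_lit 1) (nat_lit 54) (nat_lit 1) (nat_lit 401) (nat_lit 402) (nat_lit 217))) (XT.nd (nat_lit 78) (nat_lit 76) (nat_lit 0) (XT.lf (nat_lit 152) (nat_lit 2929515895) (nat_lit 0) (nat_lit 148010277) (nat_lit 76) (nat_lit 148010277)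 (nat_lit 53) (nat_lit 1) (nat_lit 51) (nat_lit 1) (nat_lit 52) (nat_lit 1) (nat_lit 402) (nat_lit 402) (nat_lit 216)) (XT.nd (nat_lit 78) (nat_lit 76) (nat_lit 0) (XT.lf (nat_lit 0) (nat_lit 922215509) (nat_lit 0) (nat_lit 1349127988) (nat_lit 152) (nat_lit 922215509) (nat_lit 51) (nat_lit 3) (nat_lit 51) (nat_lit 1) (nat_lit 53) (nat_lit 1) (nat_lit 403) (nat_lit 402) (nat_lit 215)) (XT.lf (nat_lit 76) (nat_lit 777723809) (nat_lit 0) (nat_lit 1192201944) (nat_lit 76) (nat_lit 1192201944) (nat_lit 51) (nat_lit 3) (nat_lit 50) (nat_lit 1) (nat_lit 51) (nat_lit 1) (nat_lit 404) (nat_lit 402) (nat_lit 214)))))) (XT.nd (nat_lit 390) (nat_lit 456) (nat_lit 0) (XT.nd (nat_lit 156) (nat_lit 228) (nat_lit 0) (XT.nd (nat_lit 78) (nat_lit 0) (nat_lit 0) (XT.lf (nat_lit 152) (nat_lit 2868223190) (nat_lit 0) (nat_lit 131505214) (nat_lit 76) (nat_lit 131505214) (nat_lit 50) (nat_lit 1) (nat_lit 48) (nat_lit 1) (nat_lit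 49) (nat_lit 1) (nat_lit 405) (nat_lit 402) (nat_lit 213)) (XT.lf (nat_lit 0) (nat_lit 906962759) (nat_lit 0) (nat_lit 1286268968) (nat_lit 152) (nat_lit 906962759) (nat_lit 48) (nat_lit 3) (nat_lit 48) (nat_lit 1) (nat_lit 50) (nat_lit 1) (nat_lit 406) (nat_lit 402) (nat_lit 212))) (XT.nd (nat_lit 78) (nat_lit 152) (nat_lit 0) (XT.lf (nat_lit 76) (nat_lit 777725067) (nat_lit 0) (nat_lit 1145983522) (nat_lit 76) (nat_lit 1145983522) (nat_lit 48) (nat_lit 3) (nat_lit 47) (nat_lit 1) (nat_lit 48) (nat_lit 1) (nat_lit 407) (nat_lit 402) (nat_lit 211)) (XT.nd (nat_lit 78) (nat_lit 0) (nat_lit 0) (XT.lf (nat_lit 152) (nat_lit 2806035719) (nat_lit 0) (nat_lit 116840679) (nat_lit 76) (nat_lit 116840679) (nat_lit 47) (nat_lit 1) (nat_lit 45) (nat_lit 1) (nat_lit 46) (nat_lit 1) (nat_lit 408) (nat_lit 402) (nat_lit 210)) (XT.lf (nat_lit 0) (nat_lit 890859834) (nat_lit 0) (nat_lit 1227868487) (nat_lit 152) (nat_lit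 890859834) (nat_lit 45) (nat_lit 3) (nat_lit 45) (nat_lit 1) (nat_lit 47) (nat_lit 1) (nat_lit 409) (nat_lit 402) (nat_lit 209))))) (XT.nd (nat_lit 156) (nat_lit 228) (nat_lit 0) (XT.nd (nat_lit 78) (nat_lit 152) (nat_lit 0) (XT.lf (nat_lit 76) (nat_lit 775200141) (nat_lit 0) (nat_lit 1102393008) (nat_lit 76) (nat_lit 1102393008) (nat_lit 45) (nat_lit 3) (nat_lit 44) (nat_lit 1) (nat_lit 45) (nat_lit 1) (nat_lit 410) (nat_lit 402) (nat_lit 208)) (XT.lf (nat_lit 152) (nat_lit 2743278396) (nat_lit 0) (nat_lit 103811430) (nat_lit 76) (nat_lit 103811430) (nat_lit 44) (nat_lit 1) (nat_lit 42) (nat_lit 1) (nat_lit 43) (nat_lit 1) (nat_lit 411) (nat_lit 402) (nat_lit 207))) (XT.nd (nat_lit 78) (nat_lit 228) (nat_lit 0) (XT.lf (nat_lit 0) (nat_lit 874075841) (nat_lit 0) (nat_lit 1173503665) (nat_lit 152) (nat_lit 874075841) (nat_lit 42) (nat_lit 3) (nat_lit 42) (nat_lit 1) (nat_lit 44) (nat_lit 1) (nat_lit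 412) (nat_lit 402) (nat_lit 206)) (XT.nd (nat_lit 78) (nat_lit 152) (nat_lit 0) (XT.lf (nat_lit 76) (nat_lit 770504305) (nat_lit 0) (nat_lit 1061210930) (nat_lit 76) (nat_lit 1061210930) (nat_lit 42) (nat_lit 3) (nat_lit 41) (nat_lit 1) (nat_lit 42) (nat_lit 1) (nat_lit 413) (nat_lit 402) (nat_lit 205)) (XT.lf (nat_lit 152) (nat_lit 2680233346) (nat_lit 0) (nat_lit 92235111) (nat_lit 76) (nat_lit 92235111) (nat_lit 41) (nat_lit 1) (nat_lit 39) (nat_lit 1) (nat_lit 40) (nat_lit 1) (nat_lit 414) (nat_lit 402) (nat_lit 204))))))))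
noncomputable def ec318 : XT := (XT.nd (nat_lit 37986) (nat_lit 0) (nat_lit 22420) (XT.nd (nat_lit 702) (nat_lit 228) (nat_lit 0) (XT.nd (nat_lit 312) (nat_lit 456) (nat_lit 0) (XT.nd (nat_lit 156) (nat_lit 152) (nat_lit 0) (XT.nd (nat_lit 78) (nat_lit 76) (nat_lit 0) (XT.lf (nat_lit 0) (nat_lit 856758867) (nat_lit 0) (nat_lit 1122796610) (nat_lit 152) (nat_lit 856758867) (nat_lit 39) (nat_lit 3) (nat_lit 39) (nat_lit 1) (nat_lit 41) (nat_lit 1) (nat_lit 415) (nat_lit 402) (nat_lit 203)) (XT.lf (nat_lit 76) (nat_lit 763951077) (nat_lit 0) (nat_lit 1022240148) (nat_lit 76) (nat_lit 1022240148) (nat_lit 39) (nat_lit 3) (nat_lit 38) (nat_lit 1) (nat_lit 39) (nat_lit 1) (nat_lit 416) (nat_lit 402) (nat_lit 202))) (XT.nd (nat_lit 78) (nat_lit 0) (nat_lit 0) (XT.lf (nat_lit 152) (nat_lit 2617144869) (nat_lit 0) (nat_lit 81949702) (nat_lit 76) (nat_lit 81949702) (nat_lit 38) (nat_lit 1) (nat_lit 36) (nat_lit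 1) (nat_lit 37) (nat_lit 1) (nat_lit 417) (nat_lit 402) (nat_lit 201)) (XT.lf (nat_lit 0) (nat_lit 839038382) (nat_lit 0) (nat_lit 1075409471) (nat_lit 152) (nat_lit 839038382) (nat_lit 36) (nat_lit 3) (nat_lit 36) (nat_lit 1) (nat_lit 38) (nat_lit 1) (nat_lit 418) (nat_lit 402) (nat_lit 200)))) (XT.nd (nat_lit 156) (nat_lit 228) (nat_lit 0) (XT.nd (nat_lit 78) (nat_lit 152) (nat_lit 0) (XT.lf (nat_lit 76) (nat_lit 755816929) (nat_lit 0) (nat_lit 985303424) (nat_lit 76) (nat_lit 985303424) (nat_lit 36) (nat_lit 3) (nat_lit 35) (nat_lit 1) (nat_lit 36) (nat_lit 1) (nat_lit 419) (nat_lit 402) (nat_lit 199)) (XT.lf (nat_lit 152) (nat_lit 2554223838) (nat_lit 0) (nat_lit 72811248) (nat_lit 76) (nat_lit 72811248) (nat_lit 35) (nat_lit 1) (nat_lit 33) (nat_lit 1) (nat_lit 34) (nat_lit 1) (nat_lit 420) (nat_lit 402) (nat_lit 198))) (XT.nd (nat_lit 78) (nat_lit 228) (nat_lit 0) (XT.lf (nat_lit 0) (nat_lit 821027382)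 (nat_lit 0) (nat_lit 1031040033) (nat_lit 152) (nat_lit 821027382) (nat_lit 33) (nat_lit 3) (nat_lit 33) (nat_lit 1) (nat_lit 35) (nat_lit 1) (nat_lit 421) (nat_lit 402) (nat_lit 197)) (XT.nd (nat_lit 78) (nat_lit 152) (nat_lit 0) (XT.lf (nat_lit 76) (nat_lit 746345487) (nat_lit 0) (nat_lit 950241265) (nat_lit 76) (nat_lit 950241265) (nat_lit 33) (nat_lit 3) (nat_lit 32) (nat_lit 1) (nat_lit 33) (nat_lit 1) (nat_lit 422) (nat_lit 402) (nat_lit 196)) (XT.lf (nat_lit 152) (nat_lit 2491651612) (nat_lit 0) (nat_lit 64691851) (nat_lit 76) (nat_lit 64691851) (nat_lit 32) (nat_lit 1) (nat_lit 30) (nat_lit 1) (nat_lit 31) (nat_lit 1) (nat_lit 423) (nat_lit 402) (nat_lit 195)))))) (XT.nd (nat_lit 36894) (nat_lit 0) (nat_lit 26448) (XT.nd (nat_lit 156) (nat_lit 152) (nat_lit 0) (XT.nd (nat_lit 78) (nat_lit 76) (nat_lit 0) (XT.lf (nat_lit 0) (nat_lit 802824279) (nat_lit 0) (nat_lit 989417799) (nat_lit 152) (nat_lit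 802824279) (nat_lit 30) (nat_lit 3) (nat_lit 30) (nat_lit 1) (nat_lit 32) (nat_lit 1) (nat_lit 424) (nat_lit 402) (nat_lit 194)) (XT.lf (nat_lit 76) (nat_lit 735751244) (nat_lit 0) (nat_lit 916910002) (nat_lit 76) (nat_lit 916910002) (nat_lit 30) (nat_lit 3) (nat_lit 29) (nat_lit 1) (nat_lit 30) (nat_lit 1) (nat_lit 425) (nat_lit 402) (nat_lit 193))) (XT.nd (nat_lit 36582) (nat_lit 0) (nat_lit 26372) (XT.lf (nat_lit 152) (nat_lit 2429583501) (nat_lit 0) (nat_lit 57477872) (nat_lit 76) (nat_lit 57477872) (nat_lit 29) (nat_lit 1) (nat_lit 27) (nat_lit 1) (nat_lit 28) (nat_lit 1) (nat_lit 426) (nat_lit 402) (nat_lit 192)) (XT.nd (nat_lit 78) (nat_lit 0) (nat_lit 0) (XT.lf (nat_lit 1292) (nat_lit 2401097711) (nat_lit 0) (nat_lit 8260892803) (nat_lit 1292) (nat_lit 2401097711) (nat_lit 391) (nat_lit 1) (nat_lit 374) (nat_lit 0) (nat_lit 391) (nat_lit 0) (nat_lit 214) (nat_lit 403) (nat_lit 403)) (XT.lf (nat_lit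 1292) (nat_lit 9383531930) (nat_lit 76) (nat_lit 8179903658) (nat_lit 0) (nat_lit 8179903658) (nat_lit 391) (nat_lit 1) (nat_lit 375) (nat_lit 1) (nat_lit 374) (nat_lit 0) (nat_lit 215) (nat_lit 403) (nat_lit 402))))) (XT.nd (nat_lit 156) (nat_lit 0) (nat_lit 76) (XT.nd (nat_lit 78) (nat_lit 0) (nat_lit 0) (XT.lf (nat_lit 1292) (nat_lit 4538099771) (nat_lit 0) (nat_lit 16292747089) (nat_lit 1216) (nat_lit 4538099771) (nat_lit 392) (nat_lit 1) (nat_lit 375) (nat_lit 1) (nat_lit 391) (nat_lit 1) (nat_lit 216) (nat_lit 403) (nat_lit 401)) (XT.lf (nat_lit 1292) (nat_lit 8618085769) (nat_lit 76) (nat_lit 8191360237) (nat_lit 0) (nat_lit 8191360237) (nat_lit 392) (nat_lit 1) (nat_lit 376) (nat_lit 1) (nat_lit 375) (nat_lit 1) (nat_lit 217) (nat_lit 403) (nat_lit 400))) (XT.nd (nat_lit 78) (nat_lit 0) (nat_lit 0) (XT.lf (nat_lit 1292) (nat_lit 4043993767) (nat_lit 0) (nat_lit 16552915590) (nat_lit 1216) (nat_lit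 4043993767) (nat_lit 393) (nat_lit 1) (nat_lit 376) (nat_lit 1) (nat_lit 392) (nat_lit 1) (nat_lit 218) (nat_lit 403) (nat_lit 399)) (XT.nd (nat_lit 78) (nat_lit 0) (nat_lit 76) (XT.lf (nat_lit 1292) (nat_lit 7411045566) (nat_lit 76) (nat_lit 8437855174) (nat_lit 0) (nat_lit 8437855174) (nat_lit 393) (nat_lit 1) (nat_lit 377) (nat_lit 1) (nat_lit 376) (nat_lit 1) (nat_lit 219) (nat_lit 403) (nat_lit 398)) (XT.lf (nat_lit 1292) (nat_lit 3340221833) (nat_lit 0) (nat_lit 17260342821) (nat_lit 1216) (nat_lit 3340221833) (nat_lit 394) (nat_lit 1) (nat_lit 377) (nat_lit 1) (nat_lit 393) (nat_lit 1) (nat_lit 220) (nat_lit 403) (nat_lit 397))))))) (XT.nd (nat_lit 702) (nat_lit 3116) (nat_lit 0) (XT.nd (nat_lit 312) (nat_lit 1064) (nat_lit 0) (XT.nd (nat_lit 156) (nat_lit 0) (nat_lit 76) (XT.nd (nat_lit 78) (nat_lit 0) (nat_lit 76) (XT.lf (nat_lit 1292) (nat_lit 5801902386) (nat_lit 76) (nat_lit 8899031371)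 (nat_lit 0) (nat_lit 8899031371) (nat_lit 394) (nat_lit 1) (nat_lit 378) (nat_lit 1) (nat_lit 377) (nat_lit 1) (nat_lit 221) (nat_lit 403) (nat_lit 396)) (XT.lf (nat_lit 1292) (nat_lit 2445752554) (nat_lit 0) (nat_lit 18375892355) (nat_lit 1216) (nat_lit 2445752554) (nat_lit 395) (nat_lit 1) (nat_lit 378) (nat_lit 1) (nat_lit 394) (nat_lit 1) (nat_lit 222) (nat_lit 403) (nat_lit 395))) (XT.nd (nat_lit 78) (nat_lit 0) (nat_lit 76) (XT.lf (nat_lit 1292) (nat_lit 3827468450) (nat_lit 76) (nat_lit 9555900265) (nat_lit 0) (nat_lit 9555900265) (nat_lit 395) (nat_lit 1) (nat_lit 379) (nat_lit 1) (nat_lit 378) (nat_lit 1) (nat_lit 223) (nat_lit 403) (nat_lit 394)) (XT.lf (nat_lit 1292) (nat_lit 1378263711) (nat_lit 0) (nat_lit 19863066453) (nat_lit 1216) (nat_lit 1378263711) (nat_lit 396) (nat_lit 1) (nat_lit 379) (nat_lit 1) (nat_lit 395) (nat_lit 1) (nat_lit 224) (nat_lit 403) (nat_lit 393)))) (XT.nd (nat_lit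 156) (nat_lit 1216) (nat_lit 0) (XT.nd (nat_lit 78) (nat_lit 0) (nat_lit 76) (XT.lf (nat_lit 1292) (nat_lit 1522042907) (nat_lit 76) (nat_lit 10390757435) (nat_lit 0) (nat_lit 10390757435) (nat_lit 396) (nat_lit 1) (nat_lit 380) (nat_lit 1) (nat_lit 379) (nat_lit 1) (nat_lit 225) (nat_lit 403) (nat_lit 392)) (XT.lf (nat_lit 1292) (nat_lit 154222259) (nat_lit 0) (nat_lit 21687843170) (nat_lit 1216) (nat_lit 154222259) (nat_lit 397) (nat_lit 1) (nat_lit 380) (nat_lit 1) (nat_lit 396) (nat_lit 1) (nat_lit 226) (nat_lit 403) (nat_lit 391))) (XT.nd (nat_lit 78) (nat_lit 0) (nat_lit 0) (XT.lf (nat_lit 1368) (nat_lit 10315075987) (nat_lit 0) (nat_lit 1061310104) (nat_lit 1292) (nat_lit 10315075987) (nat_lit 381) (nat_lit 1) (nat_lit 363) (nat_lit 1) (nat_lit 380) (nat_lit 1) (nat_lit 227) (nat_lit 403) (nat_lit 390)) (XT.nd (nat_lit 78) (nat_lit 0) (nat_lit 76) (XT.lf (nat_lit 1368) (nat_lit 18996703220) (nat_lit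 76) (nat_lit 1199167507) (nat_lit 0) (nat_lit 1199167507) (nat_lit 381) (nat_lit 1) (nat_lit 364) (nat_lit 1) (nat_lit 363) (nat_lit 1) (nat_lit 228) (nat_lit 403) (nat_lit 389)) (XT.lf (nat_lit 1368) (nat_lit 8611372236) (nat_lit 0) (nat_lit 3879025385) (nat_lit 1292) (nat_lit 8611372236) (nat_lit 382) (nat_lit 1) (nat_lit 364) (nat_lit 1) (nat_lit 381) (nat_lit 1) (nat_lit 229) (nat_lit 403) (nat_lit 388)))))) (XT.nd (nat_lit 390) (nat_lit 1824) (nat_lit 0) (XT.nd (nat_lit 156) (nat_lit 1368) (nat_lit 0) (XT.nd (nat_lit 78) (nat_lit 0) (nat_lit 76) (XT.lf (nat_lit 1368) (nat_lit 15462424767) (nat_lit 76) (nat_lit 2676755426) (nat_lit 0) (nat_lit 2676755426) (nat_lit 382) (nat_lit 1) (nat_lit 365) (nat_lit 1) (nat_lit 364) (nat_lit 1) (nat_lit 230) (nat_lit 403) (nat_lit 387)) (XT.lf (nat_lit 76) (nat_lit 6800141597) (nat_lit 0) (nat_lit 6933684427) (nat_lit 1292) (nat_lit 6800141597) (nat_lit 366)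 (nat_lit 1) (nat_lit 365) (nat_lit 1) (nat_lit 382) (nat_lit 1) (nat_lit 231) (nat_lit 403) (nat_lit 386))) (XT.nd (nat_lit 78) (nat_lit 608) (nat_lit 0) (XT.lf (nat_lit 912) (nat_lit 11724401457) (nat_lit 0) (nat_lit 4266915453) (nat_lit 836) (nat_lit 4266915453) (nat_lit 366) (nat_lit 1) (nat_lit 354) (nat_lit 1) (nat_lit 365) (nat_lit 1) (nat_lit 232) (nat_lit 403) (nat_lit 385)) (XT.nd (nat_lit 78) (nat_lit 608) (nat_lit 0) (XT.lf (nat_lit 76) (nat_lit 4893536934) (nat_lit 0) (nat_lit 10200073295) (nat_lit 912) (nat_lit 4893536934) (nat_lit 355) (nat_lit 1) (nat_lit 354) (nat_lit 1) (nat_lit 366) (nat_lit 1) (nat_lit 233) (nat_lit 403) (nat_lit 384)) (XT.lf (nat_lit 684) (nat_lit 7806172578) (nat_lit 0) (nat_lit 5957436214) (nat_lit 608) (nat_lit 5957436214) (nat_lit 355) (nat_lit 1) (nat_lit 346) (nat_lit 1) (nat_lit 354) (nat_lit 1) (nat_lit 234) (nat_lit 403) (nat_lit 383))))) (XT.nd (nat_lit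 156) (nat_lit 1216) (nat_lit 0) (XT.nd (nat_lit 78) (nat_lit 608) (nat_lit 0) (XT.lf (nat_lit 76) (nat_lit 2902839302) (nat_lit 0) (nat_lit 13654763664) (nat_lit 684) (nat_lit 2902839302) (nat_lit 347) (nat_lit 1) (nat_lit 346) (nat_lit 1) (nat_lit 355) (nat_lit 1) (nat_lit 235) (nat_lit 403) (nat_lit 382)) (XT.lf (nat_lit 684) (nat_lit 3729581215) (nat_lit 0) (nat_lit 7736974777) (nat_lit 608) (nat_lit 7736974777) (nat_lit 347) (nat_lit 1) (nat_lit 338) (nat_lit 1) (nat_lit 346) (nat_lit 1) (nat_lit 236) (nat_lit 403) (nat_lit 381))) (XT.nd (nat_lit 78) (nat_lit 1216) (nat_lit 0) (XT.lf (nat_lit 76) (nat_lit 838513067) (nat_lit 0) (nat_lit 17276000463) (nat_lit 684) (nat_lit 838513067) (nat_lit 339) (nat_lit 1) (nat_lit 338) (nat_lit 1) (nat_lit 347) (nat_lit 1) (nat_lit 237) (nat_lit 403) (nat_lit 380)) (XT.nd (nat_lit 78) (nat_lit 608) (nat_lit 0) (XT.lf (nat_lit 76) (nat_lit 9114546824) (nat_lit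 0) (nat_lit 475651936) (nat_lit 608) (nat_lit 9114546824) (nat_lit 331) (nat_lit 1) (nat_lit 330) (nat_lit 1) (nat_lit 338) (nat_lit 1) (nat_lit 238) (nat_lit 403) (nat_lit 379)) (XT.lf (nat_lit 684) (nat_lit 15908420907) (nat_lit 0) (nat_lit 1277097760) (nat_lit 608) (nat_lit 1277097760) (nat_lit 331) (nat_lit 1) (nat_lit 322) (nat_lit 1) (nat_lit 330) (nat_lit 1) (nat_lit 239) (nat_lit 403) (nat_lit 378))))))))
noncomputable def ec319 : XT := (XT.nd (nat_lit 1482) (nat_lit 3648) (nat_lit 0) (XT.nd (nat_lit 702) (nat_lit 2584) (nat_lit 0) (XT.nd (nat_lit 312) (nat_lit 1520) (nat_lit 0) (XT.nd (nat_lit 156) (nat_lit 532) (nat_lit 0) (XT.nd (nat_lit 78) (nat_lit 532) (nat_lit 0) (XT.lf (nat_lit 76) (nat_lit 6748915729) (nat_lit 0) (nat_lit 4725120475) (nat_lit 684) (nat_lit 6748915729) (nat_lit 323) (nat_lit 1) (nat_lit 322) (nat_lit 1) (nat_lit 331) (nat_lit 1) (nat_lit 240) (nat_lit 403) (nat_lit 377))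 (XT.lf (nat_lit 608) (nat_lit 11111128644) (nat_lit 0) (nat_lit 3438895026) (nat_lit 532) (nat_lit 3438895026) (nat_lit 323) (nat_lit 1) (nat_lit 315) (nat_lit 1) (nat_lit 322) (nat_lit 1) (nat_lit 241) (nat_lit 403) (nat_lit 376))) (XT.nd (nat_lit 78) (nat_lit 532) (nat_lit 0) (XT.lf (nat_lit 76) (nat_lit 4341965134) (nat_lit 0) (nat_lit 9074567482) (nat_lit 608) (nat_lit 4341965134) (nat_lit 316) (nat_lit 1) (nat_lit 315) (nat_lit 1) (nat_lit 323) (nat_lit 1) (nat_lit 242) (nat_lit 403) (nat_lit 375)) (XT.lf (nat_lit 608) (nat_lit 6238460645) (nat_lit 0) (nat_lit 5646868098) (nat_lit 532) (nat_lit 5646868098) (nat_lit 316) (nat_lit 1) (nat_lit 308) (nat_lit 1) (nat_lit 315) (nat_lit 1) (nat_lit 243) (nat_lit 403) (nat_lit 374)))) (XT.nd (nat_lit 156) (nat_lit 1064) (nat_lit 0) (XT.nd (nat_lit 78) (nat_lit 456) (nat_lit 0) (XT.lf (nat_lit 76) (nat_lit 1901225677) (nat_lit 0) (nat_lit 13508236831) (nat_lit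 608) (nat_lit 1901225677) (nat_lit 309) (nat_lit 1) (nat_lit 308) (nat_lit 1) (nat_lit 316) (nat_lit 1) (nat_lit 244) (nat_lit 403) (nat_lit 373)) (XT.lf (nat_lit 532) (nat_lit 1304960097) (nat_lit 0) (nat_lit 7893406924) (nat_lit 456) (nat_lit 7893406924) (nat_lit 309) (nat_lit 1) (nat_lit 302) (nat_lit 1) (nat_lit 308) (nat_lit 1) (nat_lit 245) (nat_lit 403) (nat_lit 372))) (XT.nd (nat_lit 78) (nat_lit 456) (nat_lit 0) (XT.lf (nat_lit 608) (nat_lit 15756598828) (nat_lit 0) (nat_lit 560802051) (nat_lit 532) (nat_lit 560802051) (nat_lit 302) (nat_lit 1) (nat_lit 294) (nat_lit 1) (nat_lit 301) (nat_lit 1) (nat_lit 246) (nat_lit 403) (nat_lit 371)) (XT.nd (nat_lit 78) (nat_lit 456) (nat_lit 0) (XT.lf (nat_lit 76) (nat_lit 6530856126) (nat_lit 0) (nat_lit 3604230953) (nat_lit 608) (nat_lit 6530856126) (nat_lit 295) (nat_lit 1) (nat_lit 294) (nat_lit 1) (nat_lit 302) (nat_lit 1) (nat_lit 247) (nat_lit 403)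 (nat_lit 370)) (XT.lf (nat_lit 532) (nat_lit 10409981921) (nat_lit 0) (nat_lit 3024427345) (nat_lit 456) (nat_lit 3024427345) (nat_lit 295) (nat_lit 1) (nat_lit 288) (nat_lit 1) (nat_lit 294) (nat_lit 1) (nat_lit 248) (nat_lit 403) (nat_lit 369)))))) (XT.nd (nat_lit 390) (nat_lit 1216) (nat_lit 0) (XT.nd (nat_lit 156) (nat_lit 912) (nat_lit 0) (XT.nd (nat_lit 78) (nat_lit 456) (nat_lit 0) (XT.lf (nat_lit 76) (nat_lit 3866208663) (nat_lit 0) (nat_lit 8522342909) (nat_lit 532) (nat_lit 3866208663) (nat_lit 289) (nat_lit 1) (nat_lit 288) (nat_lit 1) (nat_lit 295) (nat_lit 1) (nat_lit 249) (nat_lit 403) (nat_lit 368)) (XT.lf (nat_lit 532) (nat_lit 5049287667) (nat_lit 0) (nat_lit 5502453299) (nat_lit 456) (nat_lit 5502453299) (nat_lit 289) (nat_lit 1) (nat_lit 282) (nat_lit 1) (nat_lit 288) (nat_lit 1) (nat_lit 250) (nat_lit 403) (nat_lit 367))) (XT.nd (nat_lit 78) (nat_lit 912) (nat_lit 0) (XT.lf (nat_lit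 76) (nat_lit 1197157234) (nat_lit 0) (nat_lit 13463699449) (nat_lit 532) (nat_lit 1197157234) (nat_lit 283) (nat_lit 1) (nat_lit 282) (nat_lit 1) (nat_lit 289) (nat_lit 1) (nat_lit 251) (nat_lit 403) (nat_lit 366)) (XT.nd (nat_lit 78) (nat_lit 456) (nat_lit 0) (XT.lf (nat_lit 76) (nat_lit 7677219372) (nat_lit 0) (nat_lit 309173310) (nat_lit 456) (nat_lit 7677219372) (nat_lit 277) (nat_lit 1) (nat_lit 276) (nat_lit 1) (nat_lit 282) (nat_lit 1) (nat_lit 252) (nat_lit 403) (nat_lit 365)) (XT.lf (nat_lit 532) (nat_lit 12559365030) (nat_lit 0) (nat_lit 1457035790) (nat_lit 456) (nat_lit 1457035790) (nat_lit 277) (nat_lit 1) (nat_lit 270) (nat_lit 1) (nat_lit 276) (nat_lit 1) (nat_lit 253) (nat_lit 403) (nat_lit 364))))) (XT.nd (nat_lit 156) (nat_lit 836) (nat_lit 0) (XT.nd (nat_lit 78) (nat_lit 380) (nat_lit 0) (XT.lf (nat_lit 76) (nat_lit 4860675540) (nat_lit 0) (nat_lit 5563827329) (nat_lit 532) (nat_lit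 4860675540) (nat_lit 271) (nat_lit 1) (nat_lit 270) (nat_lit 1) (nat_lit 277) (nat_lit 1) (nat_lit 254) (nat_lit 403) (nat_lit 363)) (XT.lf (nat_lit 456) (nat_lit 6911450404) (nat_lit 0) (nat_lit 4094682147) (nat_lit 380) (nat_lit 4094682147) (nat_lit 271) (nat_lit 1) (nat_lit 265) (nat_lit 1) (nat_lit 270) (nat_lit 1) (nat_lit 255) (nat_lit 403) (nat_lit 362))) (XT.nd (nat_lit 78) (nat_lit 836) (nat_lit 0) (XT.lf (nat_lit 76) (nat_lit 2057480647) (nat_lit 0) (nat_lit 10804866399) (nat_lit 456) (nat_lit 2057480647) (nat_lit 266) (nat_lit 1) (nat_lit 265) (nat_lit 1) (nat_lit 271) (nat_lit 1) (nat_lit 256) (nat_lit 403) (nat_lit 361)) (XT.nd (nat_lit 78) (nat_lit 456) (nat_lit 0) (XT.lf (nat_lit 456) (nat_lit 1293993259) (nat_lit 0) (nat_lit 6723516776) (nat_lit 380) (nat_lit 6723516776) (nat_lit 266) (nat_lit 1) (nat_lit 260) (nat_lit 1) (nat_lit 265) (nat_lit 1) (nat_lit 257) (nat_lit 403) (nat_lit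 360)) (XT.lf (nat_lit 456) (nat_lit 13122883569) (nat_lit 0) (nat_lit 721666027) (nat_lit 380) (nat_lit 721666027) (nat_lit 260) (nat_lit 1) (nat_lit 254) (nat_lit 1) (nat_lit 259) (nat_lit 1) (nat_lit 258) (nat_lit 403) (nat_lit 359))))))) (XT.nd (nat_lit 702) (nat_lit 1900) (nat_lit 0) (XT.nd (nat_lit 312) (nat_lit 1064) (nat_lit 0) (XT.nd (nat_lit 156) (nat_lit 304) (nat_lit 0) (XT.nd (nat_lit 78) (nat_lit 380) (nat_lit 0) (XT.lf (nat_lit 76) (nat_lit 5094894882) (nat_lit 0) (nat_lit 4202559614) (nat_lit 456) (nat_lit 5094894882) (nat_lit 255) (nat_lit 1) (nat_lit 254) (nat_lit 1) (nat_lit 260) (nat_lit 1) (nat_lit 259) (nat_lit 403) (nat_lit 358)) (XT.lf (nat_lit 456) (nat_lit 7300924312) (nat_lit 0) (nat_lit 3460711420) (nat_lit 380) (nat_lit 3460711420) (nat_lit 255) (nat_lit 1) (nat_lit 249) (nat_lit 1) (nat_lit 254) (nat_lit 1) (nat_lit 260) (nat_lit 403) (nat_lit 357))) (XT.nd (nat_lit 78)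 (nat_lit 304) (nat_lit 0) (XT.lf (nat_lit 76) (nat_lit 2211957096) (nat_lit 0) (nat_lit 9631276828) (nat_lit 456) (nat_lit 2211957096) (nat_lit 250) (nat_lit 1) (nat_lit 249) (nat_lit 1) (nat_lit 255) (nat_lit 1) (nat_lit 261) (nat_lit 403) (nat_lit 356)) (XT.lf (nat_lit 380) (nat_lit 1536276201) (nat_lit 0) (nat_lit 6176938545) (nat_lit 304) (nat_lit 6176938545) (nat_lit 250) (nat_lit 1) (nat_lit 245) (nat_lit 1) (nat_lit 249) (nat_lit 1) (nat_lit 262) (nat_lit 403) (nat_lit 355)))) (XT.nd (nat_lit 156) (nat_lit 608) (nat_lit 0) (XT.nd (nat_lit 78) (nat_lit 0) (nat_lit 0) (XT.lf (nat_lit 456) (nat_lit 12458842768) (nat_lit 0) (nat_lit 634946641) (nat_lit 380) (nat_lit 634946641) (nat_lit 245) (nat_lit 1) (nat_lit 239) (nat_lit 1) (nat_lit 244) (nat_lit 1) (nat_lit 263) (nat_lit 403) (nat_lit 354)) (XT.lf (nat_lit 76) (nat_lit 4741505366) (nat_lit 0) (nat_lit 4084986566) (nat_lit 456) (nat_lit 4741505366)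 (nat_lit 240) (nat_lit 1) (nat_lit 239) (nat_lit 1) (nat_lit 245) (nat_lit 1) (nat_lit 264) (nat_lit 403) (nat_lit 353))) (XT.nd (nat_lit 78) (nat_lit 304) (nat_lit 0) (XT.lf (nat_lit 380) (nat_lit 6553804528) (nat_lit 0) (nat_lit 3428484628) (nat_lit 304) (nat_lit 3428484628) (nat_lit 240) (nat_lit 1) (nat_lit 235) (nat_lit 1) (nat_lit 239) (nat_lit 1) (nat_lit 265) (nat_lit 403) (nat_lit 352)) (XT.nd (nat_lit 78) (nat_lit 304) (nat_lit 0) (XT.lf (nat_lit 76) (nat_lit 1822512928) (nat_lit 0) (nat_lit 9611213765) (nat_lit 380) (nat_lit 1822512928) (nat_lit 236) (nat_lit 1) (nat_lit 235) (nat_lit 1) (nat_lit 240) (nat_lit 1) (nat_lit 266) (nat_lit 403) (nat_lit 351)) (XT.lf (nat_lit 380) (nat_lit 726741307) (nat_lit 0) (nat_lit 6188360326) (nat_lit 304) (nat_lit 6188360326) (nat_lit 236) (nat_lit 1) (nat_lit 231) (nat_lit 1) (nat_lit 235) (nat_lit 1) (nat_lit 267) (nat_lit 403) (nat_lit 350)))))) (XT.nd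 (nat_lit 390) (nat_lit 912) (nat_lit 0) (XT.nd (nat_lit 156) (nat_lit 608) (nat_lit 0) (XT.nd (nat_lit 78) (nat_lit 0) (nat_lit 0) (XT.lf (nat_lit 380) (nat_lit 10860682109) (nat_lit 0) (nat_lit 1046508589) (nat_lit 304) (nat_lit 1046508589) (nat_lit 231) (nat_lit 1) (nat_lit 226) (nat_lit 1) (nat_lit 230) (nat_lit 1) (nat_lit 268) (nat_lit 403) (nat_lit 349)) (XT.lf (nat_lit 76) (nat_lit 3941842586) (nat_lit 0) (nat_lit 4921278006) (nat_lit 380) (nat_lit 3941842586) (nat_lit 227) (nat_lit 1) (nat_lit 226) (nat_lit 1) (nat_lit 231) (nat_lit 1) (nat_lit 269) (nat_lit 403) (nat_lit 348))) (XT.nd (nat_lit 78) (nat_lit 304) (nat_lit 0) (XT.lf (nat_lit 380) (nat_lit 4945149060) (nat_lit 0) (nat_lit 3857002425) (nat_lit 304) (nat_lit 3857002425) (nat_lit 227) (nat_lit 1) (nat_lit 222) (nat_lit 1) (nat_lit 226) (nat_lit 1) (nat_lit 270) (nat_lit 403) (nat_lit 347)) (XT.nd (nat_lit 78) (nat_lit 304) (nat_lit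 0) (XT.lf (nat_lit 76) (nat_lit 1021619753) (nat_lit 0) (nat_lit 10472925936) (nat_lit 380) (nat_lit 1021619753) (nat_lit 223) (nat_lit 1) (nat_lit 222) (nat_lit 1) (nat_lit 227) (nat_lit 1) (nat_lit 271) (nat_lit 403) (nat_lit 346)) (XT.lf (nat_lit 76) (nat_lit 5757192058) (nat_lit 0) (nat_lit 859714156) (nat_lit 304) (nat_lit 5757192058) (nat_lit 219) (nat_lit 1) (nat_lit 218) (nat_lit 1) (nat_lit 222) (nat_lit 1) (nat_lit 272) (nat_lit 403) (nat_lit 345))))) (XT.nd (nat_lit 156) (nat_lit 608) (nat_lit 0) (XT.nd (nat_lit 78) (nat_lit 0) (nat_lit 0) (XT.lf (nat_lit 380) (nat_lit 8567923046) (nat_lit 0) (nat_lit 1833425269) (nat_lit 304) (nat_lit 1833425269) (nat_lit 219) (nat_lit 1) (nat_lit 214) (nat_lit 1) (nat_lit 218) (nat_lit 1) (nat_lit 273) (nat_lit 403) (nat_lit 344)) (XT.lf (nat_lit 76) (nat_lit 2811225155) (nat_lit 0) (nat_lit 6474585784) (nat_lit 380) (nat_lit 2811225155) (nat_lit 215) (nat_lit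 1) (nat_lit 214) (nat_lit 1) (nat_lit 219) (nat_lit 1) (nat_lit 274) (nat_lit 403) (nat_lit 343))) (XT.nd (nat_lit 78) (nat_lit 380) (nat_lit 0) (XT.lf (nat_lit 304) (nat_lit 2699291710) (nat_lit 0) (nat_lit 4631084920) (nat_lit 228) (nat_lit 4631084920) (nat_lit 215) (nat_lit 1) (nat_lit 211) (nat_lit 1) (nat_lit 214) (nat_lit 1) (nat_lit 275) (nat_lit 403) (nat_lit 342)) (XT.nd (nat_lit 78) (nat_lit 0) (nat_lit 0) (XT.lf (nat_lit 380) (nat_lit 11665131525) (nat_lit 0) (nat_lit 81914964) (nat_lit 304) (nat_lit 81914964) (nat_lit 211) (nat_lit 1) (nat_lit 206) (nat_lit 1) (nat_lit 210) (nat_lit 1) (nat_lit 276) (nat_lit 403) (nat_lit 341)) (XT.lf (nat_lit 76) (nat_lit 4345823776) (nat_lit 0) (nat_lit 3004553316) (nat_lit 380) (nat_lit 4345823776) (nat_lit 207) (nat_lit 1) (nat_lit 206) (nat_lit 1) (nat_lit 211) (nat_lit 1) (nat_lit 277) (nat_lit 403) (nat_lit 340))))))))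
noncomputable def ec320 : XT := (XT.nd (nat_lit 1404) (nat_lit 2280) (nat_lit 0) (XT.nd (nat_lit 702) (nat_lit 1064) (nat_lit 0) (XT.nd (nat_lit 312) (nat_lit 760) (nat_lit 0) (XT.nd (nat_lit 156) (nat_lit 532) (nat_lit 0) (XT.nd (nat_lit 78) (nat_lit 0) (nat_lit 0) (XT.lf (nat_lit 304) (nat_lit 5775313504) (nat_lit 0) (nat_lit 2895567818) (nat_lit 228) (nat_lit 2895567818) (nat_lit 207) (nat_lit 1) (nat_lit 203) (nat_lit 1) (nat_lit 206) (nat_lit 1) (nat_lit 278) (nat_lit 403) (nat_lit 339)) (XT.lf (nat_lit 76) (nat_lit 1443369951) (nat_lit 0) (nat_lit 8552071214) (nat_lit 304) (nat_lit 1443369951) (nat_lit 204) (nat_lit 1) (nat_lit 203) (nat_lit 1) (nat_lit 207) (nat_lit 1) (nat_lit 279) (nat_lit 403) (nat_lit 338))) (XT.nd (nat_lit 78) (nat_lit 228) (nat_lit 0) (XT.lf (nat_lit 76) (nat_lit 5655467009) (nat_lit 0) (nat_lit 1514187) (nat_lit 304) (nat_lit 5655467009) (nat_lit 200) (nat_lit 1) (nat_lit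 199) (nat_lit 1) (nat_lit 203) (nat_lit 1) (nat_lit 280) (nat_lit 403) (nat_lit 337)) (XT.lf (nat_lit 304) (nat_lit 8409958995) (nat_lit 0) (nat_lit 1389090862) (nat_lit 228) (nat_lit 1389090862) (nat_lit 200) (nat_lit 1) (nat_lit 196) (nat_lit 1) (nat_lit 199) (nat_lit 1) (nat_lit 281) (nat_lit 403) (nat_lit 336)))) (XT.nd (nat_lit 156) (nat_lit 532) (nat_lit 0) (XT.nd (nat_lit 78) (nat_lit 228) (nat_lit 0) (XT.lf (nat_lit 76) (nat_lit 2755105734) (nat_lit 0) (nat_lit 5554817120) (nat_lit 304) (nat_lit 2755105734) (nat_lit 197) (nat_lit 1) (nat_lit 196) (nat_lit 1) (nat_lit 200) (nat_lit 1) (nat_lit 282) (nat_lit 403) (nat_lit 335)) (XT.lf (nat_lit 304) (nat_lit 2640463618) (nat_lit 0) (nat_lit 4151726224) (nat_lit 228) (nat_lit 4151726224) (nat_lit 197) (nat_lit 1) (nat_lit 193) (nat_lit 1) (nat_lit 196) (nat_lit 1) (nat_lit 283) (nat_lit 403) (nat_lit 334))) (XT.nd (nat_lit 78) (nat_lit 228) (nat_lit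 0) (XT.lf (nat_lit 304) (nat_lit 10655312212) (nat_lit 0) (nat_lit 85078908) (nat_lit 228) (nat_lit 85078908) (nat_lit 193) (nat_lit 1) (nat_lit 189) (nat_lit 1) (nat_lit 192) (nat_lit 1) (nat_lit 284) (nat_lit 403) (nat_lit 333)) (XT.nd (nat_lit 78) (nat_lit 228) (nat_lit 0) (XT.lf (nat_lit 76) (nat_lit 3877672098) (nat_lit 0) (nat_lit 2951317642) (nat_lit 304) (nat_lit 3877672098) (nat_lit 190) (nat_lit 1) (nat_lit 189) (nat_lit 1) (nat_lit 193) (nat_lit 1) (nat_lit 285) (nat_lit 403) (nat_lit 332)) (XT.lf (nat_lit 304) (nat_lit 4910906783) (nat_lit 0) (nat_lit 2839782273) (nat_lit 228) (nat_lit 2839782273) (nat_lit 190) (nat_lit 1) (nat_lit 186) (nat_lit 1) (nat_lit 189) (nat_lit 1) (nat_lit 286) (nat_lit 403) (nat_lit 331)))))) (XT.nd (nat_lit 312) (nat_lit 608) (nat_lit 0) (XT.nd (nat_lit 156) (nat_lit 228) (nat_lit 0) (XT.nd (nat_lit 78) (nat_lit 228) (nat_lit 0) (XT.lf (nat_lit 76) (nat_lit 1050347110)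 (nat_lit 0) (nat_lit 8375554591) (nat_lit 304) (nat_lit 1050347110) (nat_lit 187) (nat_lit 1) (nat_lit 186) (nat_lit 1) (nat_lit 190) (nat_lit 1) (nat_lit 287) (nat_lit 403) (nat_lit 330)) (XT.lf (nat_lit 76) (nat_lit 4833413219) (nat_lit 0) (nat_lit 695930389) (nat_lit 228) (nat_lit 4833413219) (nat_lit 184) (nat_lit 1) (nat_lit 183) (nat_lit 1) (nat_lit 186) (nat_lit 1) (nat_lit 288) (nat_lit 403) (nat_lit 329))) (XT.nd (nat_lit 78) (nat_lit 0) (nat_lit 0) (XT.lf (nat_lit 304) (nat_lit 6853460621) (nat_lit 0) (nat_lit 1698864426) (nat_lit 228) (nat_lit 1698864426) (nat_lit 184) (nat_lit 1) (nat_lit 180) (nat_lit 1) (nat_lit 183) (nat_lit 1) (nat_lit 289) (nat_lit 403) (nat_lit 328)) (XT.lf (nat_lit 76) (nat_lit 2027090725) (nat_lit 0) (nat_lit 6086713812) (nat_lit 304) (nat_lit 2027090725) (nat_lit 181) (nat_lit 1) (nat_lit 180) (nat_lit 1) (nat_lit 184) (nat_lit 1) (nat_lit 290) (nat_lit 403) (nat_lit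 327)))) (XT.nd (nat_lit 156) (nat_lit 152) (nat_lit 0) (XT.nd (nat_lit 78) (nat_lit 304) (nat_lit 0) (XT.lf (nat_lit 228) (nat_lit 1276761020) (nat_lit 0) (nat_lit 4377657209) (nat_lit 152) (nat_lit 4377657209) (nat_lit 181) (nat_lit 1) (nat_lit 178) (nat_lit 1) (nat_lit 180) (nat_lit 1) (nat_lit 291) (nat_lit 403) (nat_lit 326)) (XT.lf (nat_lit 304) (nat_lit 8506864929) (nat_lit 0) (nat_lit 709180842) (nat_lit 228) (nat_lit 709180842) (nat_lit 178) (nat_lit 1) (nat_lit 174) (nat_lit 1) (nat_lit 177) (nat_lit 1) (nat_lit 292) (nat_lit 403) (nat_lit 325))) (XT.nd (nat_lit 78) (nat_lit 152) (nat_lit 0) (XT.lf (nat_lit 76) (nat_lit 2863054458) (nat_lit 0) (nat_lit 4092570309) (nat_lit 304) (nat_lit 2863054458) (nat_lit 175) (nat_lit 1) (nat_lit 174) (nat_lit 1) (nat_lit 178) (nat_lit 1) (nat_lit 293) (nat_lit 403) (nat_lit 324)) (XT.nd (nat_lit 78) (nat_lit 0) (nat_lit 0) (XT.lf (nat_lit 228) (nat_lit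 2986222561) (nat_lit 0) (nat_lit 3363921981) (nat_lit 152) (nat_lit 3363921981) (nat_lit 175) (nat_lit 1) (nat_lit 172) (nat_lit 1) (nat_lit 174) (nat_lit 1) (nat_lit 294) (nat_lit 403) (nat_lit 323)) (XT.lf (nat_lit 76) (nat_lit 148286080) (nat_lit 0) (nat_lit 9315067470) (nat_lit 228) (nat_lit 148286080) (nat_lit 173) (nat_lit 1) (nat_lit 172) (nat_lit 1) (nat_lit 175) (nat_lit 1) (nat_lit 295) (nat_lit 403) (nat_lit 322))))))) (XT.nd (nat_lit 702) (nat_lit 1140) (nat_lit 0) (XT.nd (nat_lit 312) (nat_lit 532) (nat_lit 0) (XT.nd (nat_lit 156) (nat_lit 228) (nat_lit 0) (XT.nd (nat_lit 78) (nat_lit 152) (nat_lit 0) (XT.lf (nat_lit 76) (nat_lit 3574865060) (nat_lit 0) (nat_lit 2359112141) (nat_lit 228) (nat_lit 3574865060) (nat_lit 170) (nat_lit 1) (nat_lit 169) (nat_lit 1) (nat_lit 172) (nat_lit 1) (nat_lit 296) (nat_lit 403) (nat_lit 321)) (XT.lf (nat_lit 228) (nat_lit 4451120002) (nat_lit 0) (nat_lit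 2478539217) (nat_lit 152) (nat_lit 2478539217) (nat_lit 170) (nat_lit 1) (nat_lit 167) (nat_lit 1) (nat_lit 169) (nat_lit 1) (nat_lit 297) (nat_lit 403) (nat_lit 320))) (XT.nd (nat_lit 78) (nat_lit 228) (nat_lit 0) (XT.lf (nat_lit 76) (nat_lit 893519841) (nat_lit 0) (nat_lit 7522162696) (nat_lit 228) (nat_lit 893519841) (nat_lit 168) (nat_lit 1) (nat_lit 167) (nat_lit 1) (nat_lit 170) (nat_lit 1) (nat_lit 298) (nat_lit 403) (nat_lit 319)) (XT.lf (nat_lit 76) (nat_lit 4177268155) (nat_lit 0) (nat_lit 856153620) (nat_lit 228) (nat_lit 4177268155) (nat_lit 165) (nat_lit 1) (nat_lit 164) (nat_lit 1) (nat_lit 167) (nat_lit 1) (nat_lit 299) (nat_lit 403) (nat_lit 318)))) (XT.nd (nat_lit 156) (nat_lit 380) (nat_lit 0) (XT.nd (nat_lit 78) (nat_lit 0) (nat_lit 0) (XT.lf (nat_lit 228) (nat_lit 5700296387) (nat_lit 0) (nat_lit 1706750096) (nat_lit 152) (nat_lit 1706750096) (nat_lit 165) (nat_lit 1) (nat_lit 162)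 (nat_lit 1) (nat_lit 164) (nat_lit 1) (nat_lit 300) (nat_lit 403) (nat_lit 317)) (XT.lf (nat_lit 76) (nat_lit 1533462922) (nat_lit 0) (nat_lit 5951155679) (nat_lit 228) (nat_lit 1533462922) (nat_lit 163) (nat_lit 1) (nat_lit 162) (nat_lit 1) (nat_lit 165) (nat_lit 1) (nat_lit 301) (nat_lit 403) (nat_lit 316))) (XT.nd (nat_lit 78) (nat_lit 228) (nat_lit 0) (XT.lf (nat_lit 228) (nat_lit 451910753) (nat_lit 0) (nat_lit 4235772086) (nat_lit 152) (nat_lit 4235772086) (nat_lit 163) (nat_lit 1) (nat_lit 160) (nat_lit 1) (nat_lit 162) (nat_lit 1) (nat_lit 302) (nat_lit 403) (nat_lit 315)) (XT.nd (nat_lit 78) (nat_lit 0) (nat_lit 0) (XT.lf (nat_lit 228) (nat_lit 6759332632) (nat_lit 0) (nat_lit 1035454581) (nat_lit 152) (nat_lit 1035454581) (nat_lit 160) (nat_lit 1) (nat_lit 157) (nat_lit 1) (nat_lit 159) (nat_lit 1) (nat_lit 303) (nat_lit 403) (nat_lit 314)) (XT.lf (nat_lit 76) (nat_lit 2080502835) (nat_lit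 0) (nat_lit 4576662169) (nat_lit 228) (nat_lit 2080502835) (nat_lit 158) (nat_lit 1) (nat_lit 157) (nat_lit 1) (nat_lit 160) (nat_lit 1) (nat_lit 304) (nat_lit 403) (nat_lit 313)))))) (XT.nd (nat_lit 390) (nat_lit 608) (nat_lit 0) (XT.nd (nat_lit 156) (nat_lit 152) (nat_lit 0) (XT.nd (nat_lit 78) (nat_lit 228) (nat_lit 0) (XT.lf (nat_lit 228) (nat_lit 1593488897) (nat_lit 0) (nat_lit 3526497221) (nat_lit 152) (nat_lit 3526497221) (nat_lit 158) (nat_lit 1) (nat_lit 155) (nat_lit 1) (nat_lit 157) (nat_lit 1) (nat_lit 305) (nat_lit 403) (nat_lit 312)) (XT.lf (nat_lit 228) (nat_lit 7650912625) (nat_lit 0) (nat_lit 453026069) (nat_lit 152) (nat_lit 453026069) (nat_lit 155) (nat_lit 1) (nat_lit 152) (nat_lit 1) (nat_lit 154) (nat_lit 1) (nat_lit 306) (nat_lit 403) (nat_lit 311))) (XT.nd (nat_lit 78) (nat_lit 152) (nat_lit 0) (XT.lf (nat_lit 76) (nat_lit 2545626899) (nat_lit 0) (nat_lit 3376147223) (nat_lit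 228) (nat_lit 2545626899) (nat_lit 153) (nat_lit 1) (nat_lit 152) (nat_lit 1) (nat_lit 155) (nat_lit 1) (nat_lit 307) (nat_lit 403) (nat_lit 310)) (XT.nd (nat_lit 78) (nat_lit 0) (nat_lit 0) (XT.lf (nat_lit 228) (nat_lit 2573048660) (nat_lit 0) (nat_lit 2903216605) (nat_lit 152) (nat_lit 2903216605) (nat_lit 153) (nat_lit 1) (nat_lit 150) (nat_lit 1) (nat_lit 152) (nat_lit 1) (nat_lit 308) (nat_lit 403) (nat_lit 309)) (XT.lf (nat_lit 76) (nat_lit 51356786) (nat_lit 0) (nat_lit 8190667889) (nat_lit 228) (nat_lit 51356786) (nat_lit 151) (nat_lit 1) (nat_lit 150) (nat_lit 1) (nat_lit 153) (nat_lit 1) (nat_lit 309) (nat_lit 403) (nat_lit 308))))) (XT.nd (nat_lit 156) (nat_lit 304) (nat_lit 0) (XT.nd (nat_lit 78) (nat_lit 152) (nat_lit 0) (XT.lf (nat_lit 76) (nat_lit 2938578934) (nat_lit 0) (nat_lit 2329606928) (nat_lit 152) (nat_lit 2938578934) (nat_lit 149) (nat_lit 1) (nat_lit 148) (nat_lit 1) (nat_lit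 150) (nat_lit 1) (nat_lit 310) (nat_lit 403) (nat_lit 307)) (XT.lf (nat_lit 228) (nat_lit 3409668382) (nat_lit 0) (nat_lit 2356139768) (nat_lit 152) (nat_lit 2356139768) (nat_lit 149) (nat_lit 1) (nat_lit 146) (nat_lit 1) (nat_lit 148) (nat_lit 1) (nat_lit 311) (nat_lit 403) (nat_lit 306))) (XT.nd (nat_lit 78) (nat_lit 304) (nat_lit 0) (XT.lf (nat_lit 76) (nat_lit 490144214) (nat_lit 0) (nat_lit 7058329734) (nat_lit 228) (nat_lit 490144214) (nat_lit 147) (nat_lit 1) (nat_lit 146) (nat_lit 1) (nat_lit 149) (nat_lit 1) (nat_lit 312) (nat_lit 403) (nat_lit 305)) (XT.nd (nat_lit 78) (nat_lit 152) (nat_lit 0) (XT.lf (nat_lit 76) (nat_lit 3267998453) (nat_lit 0) (nat_lit 1419285628) (nat_lit 152) (nat_lit 3267998453) (nat_lit 145) (nat_lit 1) (nat_lit 144) (nat_lit 1) (nat_lit 146) (nat_lit 1) (nat_lit 313) (nat_lit 403) (nat_lit 304)) (XT.lf (nat_lit 228) (nat_lit 4120269471) (nat_lit 0) (nat_lit 1876573859)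 (nat_lit 152) (nat_lit 1876573859) (nat_lit 145) (nat_lit 1) (nat_lit 142) (nat_lit 1) (nat_lit 144) (nat_lit 1) (nat_lit 314) (nat_lit 403) (nat_lit 303))))))))
noncomputable def ec321 : XT := (XT.nd (nat_lit 1482) (nat_lit 1444) (nat_lit 0) (XT.nd (nat_lit 702) (nat_lit 912) (nat_lit 0) (XT.nd (nat_lit 312) (nat_lit 608) (nat_lit 0) (XT.nd (nat_lit 156) (nat_lit 152) (nat_lit 0) (XT.nd (nat_lit 78) (nat_lit 152) (nat_lit 0) (XT.lf (nat_lit 76) (nat_lit 867054140) (nat_lit 0) (nat_lit 6058639793) (nat_lit 228) (nat_lit 867054140) (nat_lit 143) (nat_lit 1) (nat_lit 142) (nat_lit 1) (nat_lit 145) (nat_lit 1) (nat_lit 315) (nat_lit 403) (nat_lit 302)) (XT.lf (nat_lit 76) (nat_lit 3541544329) (nat_lit 0) (nat_lit 629424710) (nat_lit 152) (nat_lit 3541544329) (nat_lit 141) (nat_lit 1) (nat_lit 140) (nat_lit 1) (nat_lit 142) (nat_lit 1) (nat_lit 316) (nat_lit 403) (nat_lit 301))) (XT.nd (nat_lit 78) (nat_lit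 0) (nat_lit 0) (XT.lf (nat_lit 228) (nat_lit 4719857784) (nat_lit 0) (nat_lit 1456801074) (nat_lit 152) (nat_lit 1456801074) (nat_lit 141) (nat_lit 1) (nat_lit 138) (nat_lit 1) (nat_lit 140) (nat_lit 1) (nat_lit 317) (nat_lit 403) (nat_lit 300)) (XT.lf (nat_lit 76) (nat_lit 1189363805) (nat_lit 0) (nat_lit 5176620308) (nat_lit 228) (nat_lit 1189363805) (nat_lit 139) (nat_lit 1) (nat_lit 138) (nat_lit 1) (nat_lit 141) (nat_lit 1) (nat_lit 318) (nat_lit 403) (nat_lit 299)))) (XT.nd (nat_lit 156) (nat_lit 304) (nat_lit 0) (XT.nd (nat_lit 78) (nat_lit 228) (nat_lit 0) (XT.lf (nat_lit 152) (nat_lit 55034517) (nat_lit 0) (nat_lit 3711499153) (nat_lit 76) (nat_lit 3711499153) (nat_lit 139) (nat_lit 1) (nat_lit 137) (nat_lit 1) (nat_lit 138) (nat_lit 1) (nat_lit 319) (nat_lit 403) (nat_lit 298)) (XT.lf (nat_lit 228) (nat_lit 5221738066) (nat_lit 0) (nat_lit 1089969766) (nat_lit 152) (nat_lit 1089969766) (nat_lit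 137) (nat_lit 1) (nat_lit 134) (nat_lit 1) (nat_lit 136) (nat_lit 1) (nat_lit 320) (nat_lit 403) (nat_lit 297))) (XT.nd (nat_lit 78) (nat_lit 304) (nat_lit 0) (XT.lf (nat_lit 76) (nat_lit 1463527959) (nat_lit 0) (nat_lit 4398969148) (nat_lit 228) (nat_lit 1463527959) (nat_lit 135) (nat_lit 1) (nat_lit 134) (nat_lit 1) (nat_lit 137) (nat_lit 1) (nat_lit 321) (nat_lit 403) (nat_lit 296)) (XT.nd (nat_lit 78) (nat_lit 228) (nat_lit 0) (XT.lf (nat_lit 152) (nat_lit 656082026) (nat_lit 0) (nat_lit 3297618926) (nat_lit 76) (nat_lit 3297618926) (nat_lit 135) (nat_lit 1) (nat_lit 133) (nat_lit 1) (nat_lit 134) (nat_lit 1) (nat_lit 322) (nat_lit 403) (nat_lit 295)) (XT.lf (nat_lit 228) (nat_lit 5637704463) (nat_lit 0) (nat_lit 769997689) (nat_lit 152) (nat_lit 769997689) (nat_lit 133) (nat_lit 1) (nat_lit 130) (nat_lit 1) (nat_lit 132) (nat_lit 1) (nat_lit 323) (nat_lit 403) (nat_lit 294)))))) (XT.nd (nat_lit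 390) (nat_lit 532) (nat_lit 0) (XT.nd (nat_lit 156) (nat_lit 304) (nat_lit 0) (XT.nd (nat_lit 78) (nat_lit 76) (nat_lit 0) (XT.lf (nat_lit 76) (nat_lit 1695270901) (nat_lit 0) (nat_lit 3713872795) (nat_lit 228) (nat_lit 1695270901) (nat_lit 131) (nat_lit 1) (nat_lit 130) (nat_lit 1) (nat_lit 133) (nat_lit 1) (nat_lit 324) (nat_lit 403) (nat_lit 293)) (XT.lf (nat_lit 152) (nat_lit 1172419965) (nat_lit 0) (nat_lit 2929891704) (nat_lit 76) (nat_lit 2929891704) (nat_lit 131) (nat_lit 1) (nat_lit 129) (nat_lit 1) (nat_lit 130) (nat_lit 1) (nat_lit 325) (nat_lit 403) (nat_lit 292))) (XT.nd (nat_lit 78) (nat_lit 76) (nat_lit 0) (XT.lf (nat_lit 228) (nat_lit 5978209747) (nat_lit 0) (nat_lit 491486051) (nat_lit 152) (nat_lit 491486051) (nat_lit 129) (nat_lit 1) (nat_lit 126) (nat_lit 1) (nat_lit 128) (nat_lit 1) (nat_lit 326) (nat_lit 403) (nat_lit 291)) (XT.nd (nat_lit 78) (nat_lit 76) (nat_lit 0) (XT.lf (nat_lit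 76) (nat_lit 1889668243) (nat_lit 0) (nat_lit 3110840188) (nat_lit 228) (nat_lit 1889668243) (nat_lit 127) (nat_lit 1) (nat_lit 126) (nat_lit 1) (nat_lit 129) (nat_lit 1) (nat_lit 327) (nat_lit 403) (nat_lit 290)) (XT.lf (nat_lit 152) (nat_lit 1614009646) (nat_lit 0) (nat_lit 2603170831) (nat_lit 76) (nat_lit 2603170831) (nat_lit 127) (nat_lit 1) (nat_lit 125) (nat_lit 1) (nat_lit 126) (nat_lit 1) (nat_lit 328) (nat_lit 403) (nat_lit 289))))) (XT.nd (nat_lit 156) (nat_lit 304) (nat_lit 0) (XT.nd (nat_lit 78) (nat_lit 0) (nat_lit 0) (XT.lf (nat_lit 228) (nat_lit 6252515670) (nat_lit 0) (nat_lit 249643144) (nat_lit 152) (nat_lit 249643144) (nat_lit 125) (nat_lit 1) (nat_lit 122) (nat_lit 1) (nat_lit 124) (nat_lit 1) (nat_lit 329) (nat_lit 403) (nat_lit 288)) (XT.lf (nat_lit 76) (nat_lit 2051219550) (nat_lit 0) (nat_lit 2580555111) (nat_lit 228) (nat_lit 2051219550) (nat_lit 123) (nat_lit 1) (nat_lit 122)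 (nat_lit 1) (nat_lit 125) (nat_lit 1) (nat_lit 330) (nat_lit 403) (nat_lit 287))) (XT.nd (nat_lit 78) (nat_lit 228) (nat_lit 0) (XT.lf (nat_lit 152) (nat_lit 1989686560) (nat_lit 0) (nat_lit 2312883567) (nat_lit 76) (nat_lit 2312883567) (nat_lit 123) (nat_lit 1) (nat_lit 121) (nat_lit 1) (nat_lit 122) (nat_lit 1) (nat_lit 331) (nat_lit 403) (nat_lit 286)) (XT.nd (nat_lit 78) (nat_lit 0) (nat_lit 0) (XT.lf (nat_lit 228) (nat_lit 6468826511) (nat_lit 0) (nat_lit 40216499) (nat_lit 152) (nat_lit 40216499) (nat_lit 121) (nat_lit 1) (nat_lit 118) (nat_lit 1) (nat_lit 120) (nat_lit 1) (nat_lit 332) (nat_lit 403) (nat_lit 285)) (XT.lf (nat_lit 76) (nat_lit 2183912868) (nat_lit 0) (nat_lit 2114745032) (nat_lit 228) (nat_lit 2183912868) (nat_lit 119) (nat_lit 1) (nat_lit 118) (nat_lit 1) (nat_lit 121) (nat_lit 1) (nat_lit 333) (nat_lit 403) (nat_lit 284))))))) (XT.nd (nat_lit 702) (nat_lit 760) (nat_lit 0) (XT.nd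 (nat_lit 312) (nat_lit 380) (nat_lit 0) (XT.nd (nat_lit 156) (nat_lit 228) (nat_lit 0) (XT.nd (nat_lit 78) (nat_lit 0) (nat_lit 0) (XT.lf (nat_lit 152) (nat_lit 2307286365) (nat_lit 0) (nat_lit 2054967092) (nat_lit 76) (nat_lit 2054967092) (nat_lit 119) (nat_lit 1) (nat_lit 117) (nat_lit 1) (nat_lit 118) (nat_lit 1) (nat_lit 334) (nat_lit 403) (nat_lit 283)) (XT.lf (nat_lit 0) (nat_lit 141959142) (nat_lit 0) (nat_lit 6069190082) (nat_lit 152) (nat_lit 141959142) (nat_lit 117) (nat_lit 3) (nat_lit 117) (nat_lit 1) (nat_lit 119) (nat_lit 1) (nat_lit 335) (nat_lit 403) (nat_lit 282))) (XT.nd (nat_lit 78) (nat_lit 76) (nat_lit 0) (XT.lf (nat_lit 76) (nat_lit 2291282050) (nat_lit 0) (nat_lit 1706064579) (nat_lit 152) (nat_lit 2291282050) (nat_lit 116) (nat_lit 1) (nat_lit 115) (nat_lit 1) (nat_lit 117) (nat_lit 1) (nat_lit 336) (nat_lit 403) (nat_lit 281)) (XT.lf (nat_lit 152) (nat_lit 2573756795) (nat_lit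 0) (nat_lit 1825811646) (nat_lit 76) (nat_lit 1825811646) (nat_lit 116) (nat_lit 1) (nat_lit 114) (nat_lit 1) (nat_lit 115) (nat_lit 1) (nat_lit 337) (nat_lit 403) (nat_lit 280)))) (XT.nd (nat_lit 156) (nat_lit 228) (nat_lit 0) (XT.nd (nat_lit 78) (nat_lit 152) (nat_lit 0) (XT.lf (nat_lit 0) (nat_lit 298987850) (nat_lit 0) (nat_lit 5565255770) (nat_lit 152) (nat_lit 298987850) (nat_lit 114) (nat_lit 3) (nat_lit 114) (nat_lit 1) (nat_lit 116) (nat_lit 1) (nat_lit 338) (nat_lit 403) (nat_lit 279)) (XT.lf (nat_lit 76) (nat_lit 2376457679) (nat_lit 0) (nat_lit 1347992018) (nat_lit 152) (nat_lit 2376457679) (nat_lit 113) (nat_lit 1) (nat_lit 112) (nat_lit 1) (nat_lit 114) (nat_lit 1) (nat_lit 339) (nat_lit 403) (nat_lit 278))) (XT.nd (nat_lit 78) (nat_lit 152) (nat_lit 0) (XT.lf (nat_lit 152) (nat_lit 2795257095) (nat_lit 0) (nat_lit 1622209999) (nat_lit 76) (nat_lit 1622209999) (nat_lit 113) (nat_lit 1)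 (nat_lit 111) (nat_lit 1) (nat_lit 112) (nat_lit 1) (nat_lit 340) (nat_lit 403) (nat_lit 277)) (XT.nd (nat_lit 78) (nat_lit 152) (nat_lit 0) (XT.lf (nat_lit 0) (nat_lit 433471096) (nat_lit 0) (nat_lit 5112481934) (nat_lit 152) (nat_lit 433471096) (nat_lit 111) (nat_lit 3) (nat_lit 111) (nat_lit 1) (nat_lit 113) (nat_lit 1) (nat_lit 341) (nat_lit 403) (nat_lit 276)) (XT.lf (nat_lit 76) (nat_lit 2442212309) (nat_lit 0) (nat_lit 1034737270) (nat_lit 152) (nat_lit 2442212309) (nat_lit 110) (nat_lit 1) (nat_lit 109) (nat_lit 1) (nat_lit 111) (nat_lit 1) (nat_lit 342) (nat_lit 403) (nat_lit 275)))))) (XT.nd (nat_lit 390) (nat_lit 456) (nat_lit 0) (XT.nd (nat_lit 156) (nat_lit 228) (nat_lit 0) (XT.nd (nat_lit 78) (nat_lit 0) (nat_lit 0) (XT.lf (nat_lit 152) (nat_lit 2977246345) (nat_lit 0) (nat_lit 1441312573) (nat_lit 76) (nat_lit 1441312573) (nat_lit 110) (nat_lit 1) (nat_lit 108) (nat_lit 1) (nat_lit 109)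 (nat_lit 1) (nat_lit 343) (nat_lit 403) (nat_lit 274)) (XT.lf (nat_lit 0) (nat_lit 548069632) (nat_lit 0) (nat_lit 4705310159) (nat_lit 152) (nat_lit 548069632) (nat_lit 108) (nat_lit 3) (nat_lit 108) (nat_lit 1) (nat_lit 110) (nat_lit 1) (nat_lit 344) (nat_lit 403) (nat_lit 273))) (XT.nd (nat_lit 78) (nat_lit 76) (nat_lit 0) (XT.lf (nat_lit 76) (nat_lit 2491000648) (nat_lit 0) (nat_lit 761160198) (nat_lit 152) (nat_lit 2491000648) (nat_lit 107) (nat_lit 1) (nat_lit 106) (nat_lit 1) (nat_lit 108) (nat_lit 1) (nat_lit 345) (nat_lit 403) (nat_lit 272)) (XT.nd (nat_lit 78) (nat_lit 0) (nat_lit 0) (XT.lf (nat_lit 152) (nat_lit 3124561922) (nat_lit 0) (nat_lit 1280587553) (nat_lit 76) (nat_lit 1280587553) (nat_lit 107) (nat_lit 1) (nat_lit 105) (nat_lit 1) (nat_lit 106) (nat_lit 1) (nat_lit 346) (nat_lit 403) (nat_lit 271)) (XT.lf (nat_lit 0) (nat_lit 645143234) (nat_lit 0) (nat_lit 4338797597) (nat_lit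 152) (nat_lit 645143234) (nat_lit 105) (nat_lit 3) (nat_lit 105) (nat_lit 1) (nat_lit 107) (nat_lit 1) (nat_lit 347) (nat_lit 403) (nat_lit 270))))) (XT.nd (nat_lit 156) (nat_lit 228) (nat_lit 0) (XT.nd (nat_lit 78) (nat_lit 76) (nat_lit 0) (XT.lf (nat_lit 76) (nat_lit 2524995251) (nat_lit 0) (nat_lit 522698002) (nat_lit 152) (nat_lit 2524995251) (nat_lit 104) (nat_lit 1) (nat_lit 103) (nat_lit 1) (nat_lit 105) (nat_lit 1) (nat_lit 348) (nat_lit 403) (nat_lit 269)) (XT.lf (nat_lit 152) (nat_lit 3241489213) (nat_lit 0) (nat_lit 1137785455) (nat_lit 76) (nat_lit 1137785455) (nat_lit 104) (nat_lit 1) (nat_lit 102) (nat_lit 1) (nat_lit 103) (nat_lit 1) (nat_lit 349) (nat_lit 403) (nat_lit 268))) (XT.nd (nat_lit 78) (nat_lit 228) (nat_lit 0) (XT.lf (nat_lit 0) (nat_lit 726784382) (nat_lit 0) (nat_lit 4008548443) (nat_lit 152) (nat_lit 726784382) (nat_lit 102) (nat_lit 3) (nat_lit 102) (nat_lit 1) (nat_lit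 104) (nat_lit 1) (nat_lit 350) (nat_lit 403) (nat_lit 267)) (XT.nd (nat_lit 78) (nat_lit 76) (nat_lit 0) (XT.lf (nat_lit 76) (nat_lit 2546118236) (nat_lit 0) (nat_lit 315300720) (nat_lit 152) (nat_lit 2546118236) (nat_lit 101) (nat_lit 1) (nat_lit 100) (nat_lit 1) (nat_lit 102) (nat_lit 1) (nat_lit 351) (nat_lit 403) (nat_lit 266)) (XT.lf (nat_lit 152) (nat_lit 3331823525) (nat_lit 0) (nat_lit 1010907640) (nat_lit 76) (nat_lit 1010907640) (nat_lit 101) (nat_lit 1) (nat_lit 99) (nat_lit 1) (nat_lit 100) (nat_lit 1) (nat_lit 352) (nat_lit 403) (nat_lit 265))))))))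
noncomputable def ec322 : XT := (XT.nd (nat_lit 1482) (nat_lit 1444) (nat_lit 0) (XT.nd (nat_lit 702) (nat_lit 684) (nat_lit 0) (XT.nd (nat_lit 312) (nat_lit 456) (nat_lit 0) (XT.nd (nat_lit 156) (nat_lit 76) (nat_lit 0) (XT.nd (nat_lit 78) (nat_lit 152) (nat_lit 0) (XT.lf (nat_lit 0) (nat_lit 794848195) (nat_lit 0) (nat_lit 3710653057) (nat_lit 152) (nat_lit 794848195) (nat_lit 99) (nat_lit 3) (nat_lit 99) (nat_lit 1) (nat_lit 101) (nat_lit 1) (nat_lit 353) (nat_lit 403) (nat_lit 264)) (XT.lf (nat_lit 76) (nat_lit 2556069444) (nat_lit 0) (nat_lit 135373922) (nat_lit 152) (nat_lit 2556069444) (nat_lit 98) (nat_lit 1) (nat_lit 97) (nat_lit 1) (nat_lit 99) (nat_lit 1) (nat_lit 354) (nat_lit 403) (nat_lit 263))) (XT.nd (nat_lit 78) (nat_lit 0) (nat_lit 0) (XT.lf (nat_lit 152) (nat_lit 3398925101) (nat_lit 0) (nat_lit 898178344) (nat_lit 76) (nat_lit 898178344) (nat_lit 98) (nat_lit 1) (nat_lit 96) (nat_lit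 1) (nat_lit 97) (nat_lit 1) (nat_lit 355) (nat_lit 403) (nat_lit 262)) (XT.lf (nat_lit 0) (nat_lit 850979010) (nat_lit 0) (nat_lit 3441633865) (nat_lit 152) (nat_lit 850979010) (nat_lit 96) (nat_lit 3) (nat_lit 96) (nat_lit 1) (nat_lit 98) (nat_lit 1) (nat_lit 356) (nat_lit 403) (nat_lit 261)))) (XT.nd (nat_lit 156) (nat_lit 228) (nat_lit 0) (XT.nd (nat_lit 78) (nat_lit 152) (nat_lit 0) (XT.lf (nat_lit 76) (nat_lit 20675658) (nat_lit 0) (nat_lit 2535874546) (nat_lit 76) (nat_lit 2535874546) (nat_lit 96) (nat_lit 3) (nat_lit 95) (nat_lit 1) (nat_lit 96) (nat_lit 1) (nat_lit 357) (nat_lit 403) (nat_lit 260)) (XT.lf (nat_lit 152) (nat_lit 3445767970) (nat_lit 0) (nat_lit 798019826) (nat_lit 76) (nat_lit 798019826) (nat_lit 95) (nat_lit 1) (nat_lit 93) (nat_lit 1) (nat_lit 94) (nat_lit 1) (nat_lit 358) (nat_lit 403) (nat_lit 259))) (XT.nd (nat_lit 78) (nat_lit 228) (nat_lit 0) (XT.lf (nat_lit 0) (nat_lit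 896634007) (nat_lit 0) (nat_lit 3198397291) (nat_lit 152) (nat_lit 896634007) (nat_lit 93) (nat_lit 3) (nat_lit 93) (nat_lit 1) (nat_lit 95) (nat_lit 1) (nat_lit 359) (nat_lit 403) (nat_lit 258)) (XT.nd (nat_lit 78) (nat_lit 152) (nat_lit 0) (XT.lf (nat_lit 76) (nat_lit 157542290) (nat_lit 0) (nat_lit 2392263925) (nat_lit 76) (nat_lit 2392263925) (nat_lit 93) (nat_lit 3) (nat_lit 92) (nat_lit 1) (nat_lit 93) (nat_lit 1) (nat_lit 360) (nat_lit 403) (nat_lit 257)) (XT.lf (nat_lit 152) (nat_lit 3474983358) (nat_lit 0) (nat_lit 709030279) (nat_lit 76) (nat_lit 709030279) (nat_lit 92) (nat_lit 1) (nat_lit 90) (nat_lit 1) (nat_lit 91) (nat_lit 1) (nat_lit 361) (nat_lit 403) (nat_lit 256)))))) (XT.nd (nat_lit 390) (nat_lit 380) (nat_lit 0) (XT.nd (nat_lit 156) (nat_lit 228) (nat_lit 0) (XT.nd (nat_lit 78) (nat_lit 76) (nat_lit 0) (XT.lf (nat_lit 0) (nat_lit 933104186) (nat_lit 0) (nat_lit 2978191051) (nat_lit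 152) (nat_lit 933104186) (nat_lit 90) (nat_lit 3) (nat_lit 90) (nat_lit 1) (nat_lit 92) (nat_lit 1) (nat_lit 362) (nat_lit 403) (nat_lit 255)) (XT.lf (nat_lit 76) (nat_lit 275092959) (nat_lit 0) (nat_lit 2260614188) (nat_lit 76) (nat_lit 2260614188) (nat_lit 90) (nat_lit 3) (nat_lit 89) (nat_lit 1) (nat_lit 90) (nat_lit 1) (nat_lit 363) (nat_lit 403) (nat_lit 254))) (XT.nd (nat_lit 78) (nat_lit 76) (nat_lit 0) (XT.lf (nat_lit 152) (nat_lit 3488898236) (nat_lit 0) (nat_lit 629964219) (nat_lit 76) (nat_lit 629964219) (nat_lit 89) (nat_lit 1) (nat_lit 87) (nat_lit 1) (nat_lit 88) (nat_lit 1) (nat_lit 364) (nat_lit 403) (nat_lit 253)) (XT.nd (nat_lit 78) (nat_lit 76) (nat_lit 0) (XT.lf (nat_lit 0) (nat_lit 961533007) (nat_lit 0) (nat_lit 2778566199) (nat_lit 152) (nat_lit 961533007) (nat_lit 87) (nat_lit 3) (nat_lit 87) (nat_lit 1) (nat_lit 89) (nat_lit 1) (nat_lit 365) (nat_lit 403) (nat_lit 252)) (XT.lf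 (nat_lit 76) (nat_lit 375599711) (nat_lit 0) (nat_lit 2139709606) (nat_lit 76) (nat_lit 2139709606) (nat_lit 87) (nat_lit 3) (nat_lit 86) (nat_lit 1) (nat_lit 87) (nat_lit 1) (nat_lit 366) (nat_lit 403) (nat_lit 251))))) (XT.nd (nat_lit 156) (nat_lit 228) (nat_lit 0) (XT.nd (nat_lit 78) (nat_lit 0) (nat_lit 0) (XT.lf (nat_lit 152) (nat_lit 3489569565) (nat_lit 0) (nat_lit 559715050) (nat_lit 76) (nat_lit 559715050) (nat_lit 86) (nat_lit 1) (nat_lit 84) (nat_lit 1) (nat_lit 85) (nat_lit 1) (nat_lit 367) (nat_lit 403) (nat_lit 250)) (XT.lf (nat_lit 0) (nat_lit 982932946) (nat_lit 0) (nat_lit 2597343403) (nat_lit 152) (nat_lit 982932946) (nat_lit 84) (nat_lit 3) (nat_lit 84) (nat_lit 1) (nat_lit 86) (nat_lit 1) (nat_lit 368) (nat_lit 403) (nat_lit 249))) (XT.nd (nat_lit 78) (nat_lit 152) (nat_lit 0) (XT.lf (nat_lit 76) (nat_lit 461077789) (nat_lit 0) (nat_lit 2028466582) (nat_lit 76) (nat_lit 2028466582)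 (nat_lit 84) (nat_lit 3) (nat_lit 83) (nat_lit 1) (nat_lit 84) (nat_lit 1) (nat_lit 369) (nat_lit 403) (nat_lit 248)) (XT.nd (nat_lit 78) (nat_lit 0) (nat_lit 0) (XT.lf (nat_lit 152) (nat_lit 3478814712) (nat_lit 0) (nat_lit 497299572) (nat_lit 76) (nat_lit 497299572) (nat_lit 83) (nat_lit 1) (nat_lit 81) (nat_lit 1) (nat_lit 82) (nat_lit 1) (nat_lit 370) (nat_lit 403) (nat_lit 247)) (XT.lf (nat_lit 0) (nat_lit 998200205) (nat_lit 0) (nat_lit 2432582986) (nat_lit 152) (nat_lit 998200205) (nat_lit 81) (nat_lit 3) (nat_lit 81) (nat_lit 1) (nat_lit 83) (nat_lit 1) (nat_lit 371) (nat_lit 403) (nat_lit 246))))))) (XT.nd (nat_lit 702) (nat_lit 760) (nat_lit 0) (XT.nd (nat_lit 312) (nat_lit 380) (nat_lit 0) (XT.nd (nat_lit 156) (nat_lit 76) (nat_lit 0) (XT.nd (nat_lit 78) (nat_lit 152) (nat_lit 0) (XT.lf (nat_lit 76) (nat_lit 533314373) (nat_lit 0) (nat_lit 1925919014) (nat_lit 76) (nat_lit 1925919014) (nat_lit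 81) (nat_lit 3) (nat_lit 80) (nat_lit 1) (nat_lit 81) (nat_lit 1) (nat_lit 372) (nat_lit 403) (nat_lit 245)) (XT.lf (nat_lit 152) (nat_lit 3458238464) (nat_lit 0) (nat_lit 441844229) (nat_lit 76) (nat_lit 441844229) (nat_lit 80) (nat_lit 1) (nat_lit 78) (nat_lit 1) (nat_lit 79) (nat_lit 1) (nat_lit 373) (nat_lit 403) (nat_lit 244))) (XT.nd (nat_lit 78) (nat_lit 76) (nat_lit 0) (XT.lf (nat_lit 0) (nat_lit 1008127772) (nat_lit 0) (nat_lit 2282558294) (nat_lit 152) (nat_lit 1008127772) (nat_lit 78) (nat_lit 3) (nat_lit 78) (nat_lit 1) (nat_lit 80) (nat_lit 1) (nat_lit 374) (nat_lit 403) (nat_lit 243)) (XT.lf (nat_lit 76) (nat_lit 593894106) (nat_lit 0) (nat_lit 1831205292) (nat_lit 76) (nat_lit 1831205292) (nat_lit 78) (nat_lit 3) (nat_lit 77) (nat_lit 1) (nat_lit 78) (nat_lit 1) (nat_lit 375) (nat_lit 403) (nat_lit 242)))) (XT.nd (nat_lit 156) (nat_lit 228) (nat_lit 0) (XT.nd (nat_lit 78) (nat_lit 0)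 (nat_lit 0) (XT.lf (nat_lit 152) (nat_lit 3429257026) (nat_lit 0) (nat_lit 392572874) (nat_lit 76) (nat_lit 392572874) (nat_lit 77) (nat_lit 1) (nat_lit 75) (nat_lit 1) (nat_lit 76) (nat_lit 1) (nat_lit 376) (nat_lit 403) (nat_lit 241)) (XT.lf (nat_lit 0) (nat_lit 1013417030) (nat_lit 0) (nat_lit 2145732042) (nat_lit 152) (nat_lit 1013417030) (nat_lit 75) (nat_lit 3) (nat_lit 75) (nat_lit 1) (nat_lit 77) (nat_lit 1) (nat_lit 377) (nat_lit 403) (nat_lit 240))) (XT.nd (nat_lit 78) (nat_lit 152) (nat_lit 0) (XT.lf (nat_lit 76) (nat_lit 644221777) (nat_lit 0) (nat_lit 1743556740) (nat_lit 76) (nat_lit 1743556740) (nat_lit 75) (nat_lit 3) (nat_lit 74) (nat_lit 1) (nat_lit 75) (nat_lit 1) (nat_lit 378) (nat_lit 403) (nat_lit 239)) (XT.nd (nat_lit 78) (nat_lit 0) (nat_lit 0) (XT.lf (nat_lit 152) (nat_lit 3393119328) (nat_lit 0) (nat_lit 348795914) (nat_lit 76) (nat_lit 348795914) (nat_lit 74) (nat_lit 1) (nat_lit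 72) (nat_lit 1) (nat_lit 73) (nat_lit 1) (nat_lit 379) (nat_lit 403) (nat_lit 238)) (XT.lf (nat_lit 0) (nat_lit 1014688062) (nat_lit 0) (nat_lit 2020735285) (nat_lit 152) (nat_lit 1014688062) (nat_lit 72) (nat_lit 3) (nat_lit 72) (nat_lit 1) (nat_lit 74) (nat_lit 1) (nat_lit 380) (nat_lit 403) (nat_lit 237)))))) (XT.nd (nat_lit 390) (nat_lit 304) (nat_lit 0) (XT.nd (nat_lit 156) (nat_lit 228) (nat_lit 0) (XT.nd (nat_lit 78) (nat_lit 152) (nat_lit 0) (XT.lf (nat_lit 76) (nat_lit 685542468) (nat_lit 0) (nat_lit 1662287345) (nat_lit 76) (nat_lit 1662287345) (nat_lit 72) (nat_lit 3) (nat_lit 71) (nat_lit 1) (nat_lit 72) (nat_lit 1) (nat_lit 381) (nat_lit 403) (nat_lit 236)) (XT.lf (nat_lit 152) (nat_lit 3350925950) (nat_lit 0) (nat_lit 309900652) (nat_lit 76) (nat_lit 309900652) (nat_lit 71) (nat_lit 1) (nat_lit 69) (nat_lit 1) (nat_lit 70) (nat_lit 1) (nat_lit 382) (nat_lit 403) (nat_lit 235))) (XT.nd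 (nat_lit 78) (nat_lit 228) (nat_lit 0) (XT.lf (nat_lit 0) (nat_lit 1012488810) (nat_lit 0) (nat_lit 1906348737) (nat_lit 152) (nat_lit 1012488810) (nat_lit 69) (nat_lit 3) (nat_lit 69) (nat_lit 1) (nat_lit 71) (nat_lit 1) (nat_lit 383) (nat_lit 403) (nat_lit 234)) (XT.nd (nat_lit 78) (nat_lit 152) (nat_lit 0) (XT.lf (nat_lit 76) (nat_lit 718959452) (nat_lit 0) (nat_lit 1586784624) (nat_lit 76) (nat_lit 1586784624) (nat_lit 69) (nat_lit 3) (nat_lit 68) (nat_lit 1) (nat_lit 69) (nat_lit 1) (nat_lit 384) (nat_lit 403) (nat_lit 233)) (XT.lf (nat_lit 152) (nat_lit 3303645931) (nat_lit 0) (nat_lit 275342715) (nat_lit 76) (nat_lit 275342715) (nat_lit 68) (nat_lit 1) (nat_lit 66) (nat_lit 1) (nat_lit 67) (nat_lit 1) (nat_lit 385) (nat_lit 403) (nat_lit 232))))) (XT.nd (nat_lit 156) (nat_lit 228) (nat_lit 0) (XT.nd (nat_lit 78) (nat_lit 76) (nat_lit 0) (XT.lf (nat_lit 0) (nat_lit 1007303202) (nat_lit 0) (nat_lit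 1801486170) (nat_lit 152) (nat_lit 1007303202) (nat_lit 66) (nat_lit 3) (nat_lit 66) (nat_lit 1) (nat_lit 68) (nat_lit 1) (nat_lit 386) (nat_lit 403) (nat_lit 231)) (XT.lf (nat_lit 76) (nat_lit 745450091) (nat_lit 0) (nat_lit 1516501516) (nat_lit 76) (nat_lit 1516501516) (nat_lit 66) (nat_lit 3) (nat_lit 65) (nat_lit 1) (nat_lit 66) (nat_lit 1) (nat_lit 387) (nat_lit 403) (nat_lit 230))) (XT.nd (nat_lit 78) (nat_lit 76) (nat_lit 0) (XT.lf (nat_lit 152) (nat_lit 3252131694) (nat_lit 0) (nat_lit 244638436) (nat_lit 76) (nat_lit 244638436) (nat_lit 65) (nat_lit 1) (nat_lit 63) (nat_lit 1) (nat_lit 64) (nat_lit 1) (nat_lit 388) (nat_lit 403) (nat_lit 229)) (XT.nd (nat_lit 78) (nat_lit 76) (nat_lit 0) (XT.lf (nat_lit 0) (nat_lit 999558381) (nat_lit 0) (nat_lit 1705179662) (nat_lit 152) (nat_lit 999558381) (nat_lit 63) (nat_lit 3) (nat_lit 63) (nat_lit 1) (nat_lit 65) (nat_lit 1) (nat_lit 389) (nat_lit 403)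 (nat_lit 228)) (XT.lf (nat_lit 76) (nat_lit 765879964) (nat_lit 0) (nat_lit 1450949169) (nat_lit 76) (nat_lit 1450949169) (nat_lit 63) (nat_lit 3) (nat_lit 62) (nat_lit 1) (nat_lit 63) (nat_lit 1) (nat_lit 390) (nat_lit 403) (nat_lit 227))))))))
noncomputable def ec323 : XT := (XT.nd (nat_lit 1482) (nat_lit 1140) (nat_lit 0) (XT.nd (nat_lit 702) (nat_lit 836) (nat_lit 0) (XT.nd (nat_lit 312) (nat_lit 304) (nat_lit 0) (XT.nd (nat_lit 156) (nat_lit 228) (nat_lit 0) (XT.nd (nat_lit 78) (nat_lit 0) (nat_lit 0) (XT.lf (nat_lit 152) (nat_lit 3197132300) (nat_lit 0) (nat_lit 217358082) (nat_lit 76) (nat_lit 217358082) (nat_lit 62) (nat_lit 1) (nat_lit 60) (nat_lit 1) (nat_lit 61) (nat_lit 1) (nat_lit 391) (nat_lit 403) (nat_lit 226)) (XT.lf (nat_lit 0) (nat_lit 989631115) (nat_lit 0) (nat_lit 1616566483) (nat_lit 152) (nat_lit 989631115) (nat_lit 60) (nat_lit 3) (nat_lit 60) (nat_lit 1) (nat_lit 62) (nat_lit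 1) (nat_lit 392) (nat_lit 403) (nat_lit 225))) (XT.nd (nat_lit 78) (nat_lit 152) (nat_lit 0) (XT.lf (nat_lit 76) (nat_lit 781015413) (nat_lit 0) (nat_lit 1389690528) (nat_lit 76) (nat_lit 1389690528) (nat_lit 60) (nat_lit 3) (nat_lit 59) (nat_lit 1) (nat_lit 60) (nat_lit 1) (nat_lit 393) (nat_lit 403) (nat_lit 224)) (XT.lf (nat_lit 152) (nat_lit 3139305213) (nat_lit 0) (nat_lit 193119841) (nat_lit 76) (nat_lit 193119841) (nat_lit 59) (nat_lit 1) (nat_lit 57) (nat_lit 1) (nat_lit 58) (nat_lit 1) (nat_lit 394) (nat_lit 403) (nat_lit 223)))) (XT.nd (nat_lit 156) (nat_lit 228) (nat_lit 0) (XT.nd (nat_lit 78) (nat_lit 76) (nat_lit 0) (XT.lf (nat_lit 0) (nat_lit 977853495) (nat_lit 0) (nat_lit 1534877450) (nat_lit 152) (nat_lit 977853495) (nat_lit 57) (nat_lit 3) (nat_lit 57) (nat_lit 1) (nat_lit 59) (nat_lit 1) (nat_lit 395) (nat_lit 403) (nat_lit 222)) (XT.lf (nat_lit 76) (nat_lit 791534684) (nat_lit 0)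 (nat_lit 1332334640) (nat_lit 76) (nat_lit 1332334640) (nat_lit 57) (nat_lit 3) (nat_lit 56) (nat_lit 1) (nat_lit 57) (nat_lit 1) (nat_lit 396) (nat_lit 403) (nat_lit 221))) (XT.nd (nat_lit 78) (nat_lit 76) (nat_lit 0) (XT.lf (nat_lit 152) (nat_lit 3079226754) (nat_lit 0) (nat_lit 171584477) (nat_lit 76) (nat_lit 171584477) (nat_lit 56) (nat_lit 1) (nat_lit 54) (nat_lit 1) (nat_lit 55) (nat_lit 1) (nat_lit 397) (nat_lit 403) (nat_lit 220)) (XT.nd (nat_lit 78) (nat_lit 76) (nat_lit 0) (XT.lf (nat_lit 0) (nat_lit 964517998) (nat_lit 0) (nat_lit 1459426567) (nat_lit 152) (nat_lit 964517998) (nat_lit 54) (nat_lit 3) (nat_lit 54) (nat_lit 1) (nat_lit 56) (nat_lit 1) (nat_lit 398) (nat_lit 403) (nat_lit 219)) (XT.lf (nat_lit 76) (nat_lit 798037835) (nat_lit 0) (nat_lit 1278531592) (nat_lit 76) (nat_lit 1278531592) (nat_lit 54) (nat_lit 3) (nat_lit 53) (nat_lit 1) (nat_lit 54) (nat_lit 1) (nat_lit 399) (nat_lit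 403) (nat_lit 218)))))) (XT.nd (nat_lit 390) (nat_lit 456) (nat_lit 0) (XT.nd (nat_lit 156) (nat_lit 228) (nat_lit 0) (XT.nd (nat_lit 78) (nat_lit 0) (nat_lit 0) (XT.lf (nat_lit 152) (nat_lit 3017401372) (nat_lit 0) (nat_lit 152450585) (nat_lit 76) (nat_lit 152450585) (nat_lit 53) (nat_lit 1) (nat_lit 51) (nat_lit 1) (nat_lit 52) (nat_lit 1) (nat_lit 400) (nat_lit 403) (nat_lit 217)) (XT.lf (nat_lit 0) (nat_lit 949881974) (nat_lit 0) (nat_lit 1389601828) (nat_lit 152) (nat_lit 949881974) (nat_lit 51) (nat_lit 3) (nat_lit 51) (nat_lit 1) (nat_lit 53) (nat_lit 1) (nat_lit 401) (nat_lit 403) (nat_lit 216))) (XT.nd (nat_lit 78) (nat_lit 152) (nat_lit 0) (XT.lf (nat_lit 76) (nat_lit 801055523) (nat_lit 0) (nat_lit 1227968003) (nat_lit 76) (nat_lit 1227968003) (nat_lit 51) (nat_lit 3) (nat_lit 50) (nat_lit 1) (nat_lit 51) (nat_lit 1) (nat_lit 402) (nat_lit 403) (nat_lit 215)) (XT.nd (nat_lit 78) (nat_lit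 0) (nat_lit 0) (XT.lf (nat_lit 152) (nat_lit 2954269886) (nat_lit 0) (nat_lit 135450370) (nat_lit 76) (nat_lit 135450370) (nat_lit 50) (nat_lit 1) (nat_lit 48) (nat_lit 1) (nat_lit 49) (nat_lit 1) (nat_lit 403) (nat_lit 403) (nat_lit 214)) (XT.lf (nat_lit 0) (nat_lit 934171642) (nat_lit 0) (nat_lit 1324857037) (nat_lit 152) (nat_lit 934171642) (nat_lit 48) (nat_lit 3) (nat_lit 48) (nat_lit 1) (nat_lit 50) (nat_lit 1) (nat_lit 404) (nat_lit 403) (nat_lit 213))))) (XT.nd (nat_lit 156) (nat_lit 228) (nat_lit 0) (XT.nd (nat_lit 78) (nat_lit 152) (nat_lit 0) (XT.lf (nat_lit 76) (nat_lit 801056819) (nat_lit 0) (nat_lit 1180363028) (nat_lit 76) (nat_lit 1180363028) (nat_lit 48) (nat_lit 3) (nat_lit 47) (nat_lit 1) (nat_lit 48) (nat_lit 1) (nat_lit 405) (nat_lit 403) (nat_lit 212)) (XT.lf (nat_lit 152) (nat_lit 2890216790) (nat_lit 0) (nat_lit 120345900) (nat_lit 76) (nat_lit 120345900) (nat_lit 47) (nat_lit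 1) (nat_lit 45) (nat_lit 1) (nat_lit 46) (nat_lit 1) (nat_lit 406) (nat_lit 403) (nat_lit 211))) (XT.nd (nat_lit 78) (nat_lit 228) (nat_lit 0) (XT.lf (nat_lit 0) (nat_lit 917585629) (nat_lit 0) (nat_lit 1264704542) (nat_lit 152) (nat_lit 917585629) (nat_lit 45) (nat_lit 3) (nat_lit 45) (nat_lit 1) (nat_lit 47) (nat_lit 1) (nat_lit 407) (nat_lit 403) (nat_lit 210)) (XT.nd (nat_lit 78) (nat_lit 152) (nat_lit 0) (XT.lf (nat_lit 76) (nat_lit 798456145) (nat_lit 0) (nat_lit 1135464798) (nat_lit 76) (nat_lit 1135464798) (nat_lit 45) (nat_lit 3) (nat_lit 44) (nat_lit 1) (nat_lit 45) (nat_lit 1) (nat_lit 408) (nat_lit 403) (nat_lit 209)) (XT.lf (nat_lit 152) (nat_lit 2825576747) (nat_lit 0) (nat_lit 106925773) (nat_lit 76) (nat_lit 106925773) (nat_lit 44) (nat_lit 1) (nat_lit 42) (nat_lit 1) (nat_lit 43) (nat_lit 1) (nat_lit 409) (nat_lit 403) (nat_lit 208))))))) (XT.nd (nat_lit 702) (nat_lit 456) (nat_lit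 0) (XT.nd (nat_lit 312) (nat_lit 456) (nat_lit 0) (XT.nd (nat_lit 156) (nat_lit 152) (nat_lit 0) (XT.nd (nat_lit 78) (nat_lit 76) (nat_lit 0) (XT.lf (nat_lit 0) (nat_lit 900298116) (nat_lit 0) (nat_lit 1208708775) (nat_lit 152) (nat_lit 900298116) (nat_lit 42) (nat_lit 3) (nat_lit 42) (nat_lit 1) (nat_lit 44) (nat_lit 1) (nat_lit 410) (nat_lit 403) (nat_lit 207)) (XT.lf (nat_lit 76) (nat_lit 793619434) (nat_lit 0) (nat_lit 1093047258) (nat_lit 76) (nat_lit 1093047258) (nat_lit 42) (nat_lit 3) (nat_lit 41) (nat_lit 1) (nat_lit 42) (nat_lit 1) (nat_lit 411) (nat_lit 403) (nat_lit 206))) (XT.nd (nat_lit 78) (nat_lit 0) (nat_lit 0) (XT.lf (nat_lit 152) (nat_lit 2760640346) (nat_lit 0) (nat_lit 95002164) (nat_lit 76) (nat_lit 95002164) (nat_lit 41) (nat_lit 1) (nat_lit 39) (nat_lit 1) (nat_lit 40) (nat_lit 1) (nat_lit 412) (nat_lit 403) (nat_lit 205)) (XT.lf (nat_lit 0) (nat_lit 882461633) (nat_lit 0) (nat_lit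 1156480508) (nat_lit 152) (nat_lit 882461633) (nat_lit 39) (nat_lit 3) (nat_lit 39) (nat_lit 1) (nat_lit 41) (nat_lit 1) (nat_lit 413) (nat_lit 403) (nat_lit 204)))) (XT.nd (nat_lit 156) (nat_lit 228) (nat_lit 0) (XT.nd (nat_lit 78) (nat_lit 152) (nat_lit 0) (XT.lf (nat_lit 76) (nat_lit 786869609) (nat_lit 0) (nat_lit 1052907352) (nat_lit 76) (nat_lit 1052907352) (nat_lit 39) (nat_lit 3) (nat_lit 38) (nat_lit 1) (nat_lit 39) (nat_lit 1) (nat_lit 414) (nat_lit 403) (nat_lit 203)) (XT.lf (nat_lit 152) (nat_lit 2695659215) (nat_lit 0) (nat_lit 84408193) (nat_lit 76) (nat_lit 84408193) (nat_lit 38) (nat_lit 1) (nat_lit 36) (nat_lit 1) (nat_lit 37) (nat_lit 1) (nat_lit 415) (nat_lit 403) (nat_lit 202))) (XT.nd (nat_lit 78) (nat_lit 228) (nat_lit 0) (XT.lf (nat_lit 0) (nat_lit 864209534) (nat_lit 0) (nat_lit 1107671755) (nat_lit 152) (nat_lit 864209534) (nat_lit 36) (nat_lit 3) (nat_lit 36) (nat_lit 1) (nat_lit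 38) (nat_lit 1) (nat_lit 416) (nat_lit 403) (nat_lit 201)) (XT.nd (nat_lit 78) (nat_lit 152) (nat_lit 0) (XT.lf (nat_lit 76) (nat_lit 778491437) (nat_lit 0) (nat_lit 1014862526) (nat_lit 76) (nat_lit 1014862526) (nat_lit 36) (nat_lit 3) (nat_lit 35) (nat_lit 1) (nat_lit 36) (nat_lit 1) (nat_lit 417) (nat_lit 403) (nat_lit 200)) (XT.lf (nat_lit 152) (nat_lit 2630850553) (nat_lit 0) (nat_lit 74995586) (nat_lit 76) (nat_lit 74995586) (nat_lit 35) (nat_lit 1) (nat_lit 33) (nat_lit 1) (nat_lit 34) (nat_lit 1) (nat_lit 418) (nat_lit 403) (nat_lit 199)))))) (XT.nd (nat_lit 390) (nat_lit 152) (nat_lit 0) (XT.nd (nat_lit 156) (nat_lit 228) (nat_lit 0) (XT.nd (nat_lit 78) (nat_lit 76) (nat_lit 0) (XT.lf (nat_lit 0) (nat_lit 845658203) (nat_lit 0) (nat_lit 1061971234) (nat_lit 152) (nat_lit 845658203) (nat_lit 33) (nat_lit 3) (nat_lit 33) (nat_lit 1) (nat_lit 35) (nat_lit 1) (nat_lit 419) (nat_lit 403) (nat_lit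 198)) (XT.lf (nat_lit 76) (nat_lit 768735851) (nat_lit 0) (nat_lit 978748502) (nat_lit 76) (nat_lit 978748502) (nat_lit 33) (nat_lit 3) (nat_lit 32) (nat_lit 1) (nat_lit 33) (nat_lit 1) (nat_lit 420) (nat_lit 403) (nat_lit 197))) (XT.nd (nat_lit 78) (nat_lit 76) (nat_lit 0) (XT.lf (nat_lit 152) (nat_lit 2566401161) (nat_lit 0) (nat_lit 66632607) (nat_lit 76) (nat_lit 66632607) (nat_lit 32) (nat_lit 1) (nat_lit 30) (nat_lit 1) (nat_lit 31) (nat_lit 1) (nat_lit 421) (nat_lit 403) (nat_lit 196)) (XT.nd (nat_lit 78) (nat_lit 76) (nat_lit 0) (XT.lf (nat_lit 0) (nat_lit 826909007) (nat_lit 0) (nat_lit 1019100333) (nat_lit 152) (nat_lit 826909007) (nat_lit 30) (nat_lit 3) (nat_lit 30) (nat_lit 1) (nat_lit 32) (nat_lit 1) (nat_lit 422) (nat_lit 403) (nat_lit 195)) (XT.lf (nat_lit 76) (nat_lit 757823782) (nat_lit 0) (nat_lit 944417302) (nat_lit 76) (nat_lit 944417302) (nat_lit 30) (nat_lit 3) (nat_lit 29) (nat_lit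 1) (nat_lit 30) (nat_lit 1) (nat_lit 423) (nat_lit 403) (nat_lit 194))))) (XT.nd (nat_lit 36582) (nat_lit 0) (nat_lit 26372) (XT.nd (nat_lit 78) (nat_lit 0) (nat_lit 0) (XT.lf (nat_lit 152) (nat_lit 2502471006) (nat_lit 0) (nat_lit 59202208) (nat_lit 76) (nat_lit 59202208) (nat_lit 29) (nat_lit 1) (nat_lit 27) (nat_lit 1) (nat_lit 28) (nat_lit 1) (nat_lit 424) (nat_lit 403) (nat_lit 193)) (XT.lf (nat_lit 0) (nat_lit 808050027) (nat_lit 0) (nat_lit 978809531) (nat_lit 152) (nat_lit 808050027) (nat_lit 27) (nat_lit 3) (nat_lit 27) (nat_lit 1) (nat_lit 29) (nat_lit 1) (nat_lit 425) (nat_lit 403) (nat_lit 192))) (XT.nd (nat_lit 78) (nat_lit 0) (nat_lit 0) (XT.lf (nat_lit 1292) (nat_lit 2473130642) (nat_lit 0) (nat_lit 8508719587) (nat_lit 1292) (nat_lit 2473130642) (nat_lit 391) (nat_lit 1) (nat_lit 374) (nat_lit 0) (nat_lit 391) (nat_lit 0) (nat_lit 212) (nat_lit 404) (nat_lit 404)) (XT.nd (nat_lit 78)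 (nat_lit 0) (nat_lit 76) (XT.lf (nat_lit 1292) (nat_lit 9665037888) (nat_lit 76) (nat_lit 8425300767) (nat_lit 0) (nat_lit 8425300767) (nat_lit 391) (nat_lit 1) (nat_lit 375) (nat_lit 1) (nat_lit 374) (nat_lit 0) (nat_lit 213) (nat_lit 404) (nat_lit 403)) (XT.lf (nat_lit 1292) (nat_lit 4674242764) (nat_lit 0) (nat_lit 16781529502) (nat_lit 1216) (nat_lit 4674242764) (nat_lit 392) (nat_lit 1) (nat_lit 375) (nat_lit 1) (nat_lit 391) (nat_lit 1) (nat_lit 214) (nat_lit 404) (nat_lit 402))))))))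
noncomputable def ec324 : XT := (XT.nd (nat_lit 1404) (nat_lit 5776) (nat_lit 0) (XT.nd (nat_lit 702) (nat_lit 2204) (nat_lit 0) (XT.nd (nat_lit 312) (nat_lit 0) (nat_lit 152) (XT.nd (nat_lit 156) (nat_lit 0) (nat_lit 76) (XT.nd (nat_lit 78) (nat_lit 0) (nat_lit 76) (XT.lf (nat_lit 1292) (nat_lit 8876628342) (nat_lit 76) (nat_lit 8437101045) (nat_lit 0) (nat_lit 8437101045) (nat_lit 392) (nat_lit 1) (nat_lit 376) (nat_lit 1) (nat_lit 375) (nat_lit 1) (nat_lit 215) (nat_lit 404) (nat_lit 401)) (XT.lf (nat_lit 1292) (nat_lit 4165313580) (nat_lit 0) (nat_lit 17049503058) (nat_lit 1216) (nat_lit 4165313580) (nat_lit 393) (nat_lit 1) (nat_lit 376) (nat_lit 1) (nat_lit 392) (nat_lit 1) (nat_lit 216) (nat_lit 404) (nat_lit 400))) (XT.nd (nat_lit 78) (nat_lit 0) (nat_lit 76) (XT.lf (nat_lit 1292) (nat_lit 7633376933) (nat_lit 76) (nat_lit 8690990829) (nat_lit 0) (nat_lit 8690990829) (nat_lit 393) (nat_lit 1)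 (nat_lit 377) (nat_lit 1) (nat_lit 376) (nat_lit 1) (nat_lit 217) (nat_lit 404) (nat_lit 399)) (XT.lf (nat_lit 1292) (nat_lit 3440428488) (nat_lit 0) (nat_lit 17778153106) (nat_lit 1216) (nat_lit 3440428488) (nat_lit 394) (nat_lit 1) (nat_lit 377) (nat_lit 1) (nat_lit 393) (nat_lit 1) (nat_lit 218) (nat_lit 404) (nat_lit 398)))) (XT.nd (nat_lit 156) (nat_lit 0) (nat_lit 76) (XT.nd (nat_lit 78) (nat_lit 0) (nat_lit 76) (XT.lf (nat_lit 1292) (nat_lit 5975959458) (nat_lit 76) (nat_lit 9166002313) (nat_lit 0) (nat_lit 9166002313) (nat_lit 394) (nat_lit 1) (nat_lit 378) (nat_lit 1) (nat_lit 377) (nat_lit 1) (nat_lit 219) (nat_lit 404) (nat_lit 397)) (XT.lf (nat_lit 1292) (nat_lit 2519125131) (nat_lit 0) (nat_lit 18927169126) (nat_lit 1216) (nat_lit 2519125131) (nat_lit 395) (nat_lit 1) (nat_lit 378) (nat_lit 1) (nat_lit 394) (nat_lit 1) (nat_lit 220) (nat_lit 404) (nat_lit 396))) (XT.nd (nat_lit 78) (nat_lit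 0) (nat_lit 76) (XT.lf (nat_lit 1292) (nat_lit 3942292503) (nat_lit 76) (nat_lit 9842577273) (nat_lit 0) (nat_lit 9842577273) (nat_lit 395) (nat_lit 1) (nat_lit 379) (nat_lit 1) (nat_lit 378) (nat_lit 1) (nat_lit 221) (nat_lit 404) (nat_lit 395)) (XT.nd (nat_lit 78) (nat_lit 0) (nat_lit 0) (XT.lf (nat_lit 1292) (nat_lit 1419611622) (nat_lit 0) (nat_lit 20458958447) (nat_lit 1216) (nat_lit 1419611622) (nat_lit 396) (nat_lit 1) (nat_lit 379) (nat_lit 1) (nat_lit 395) (nat_lit 1) (nat_lit 222) (nat_lit 404) (nat_lit 394)) (XT.lf (nat_lit 1292) (nat_lit 1567704194) (nat_lit 76) (nat_lit 10702480158) (nat_lit 0) (nat_lit 10702480158) (nat_lit 396) (nat_lit 1) (nat_lit 380) (nat_lit 1) (nat_lit 379) (nat_lit 1) (nat_lit 223) (nat_lit 404) (nat_lit 393)))))) (XT.nd (nat_lit 312) (nat_lit 1292) (nat_lit 0) (XT.nd (nat_lit 156) (nat_lit 0) (nat_lit 0) (XT.nd (nat_lit 78) (nat_lit 1292) (nat_lit 0) (XT.lf (nat_lit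 1292) (nat_lit 158848927) (nat_lit 0) (nat_lit 22338478465) (nat_lit 1216) (nat_lit 158848927) (nat_lit 397) (nat_lit 1) (nat_lit 380) (nat_lit 1) (nat_lit 396) (nat_lit 1) (nat_lit 224) (nat_lit 404) (nat_lit 392)) (XT.lf (nat_lit 1368) (nat_lit 10624528266) (nat_lit 0) (nat_lit 1093149407) (nat_lit 1292) (nat_lit 10624528266) (nat_lit 381) (nat_lit 1) (nat_lit 363) (nat_lit 1) (nat_lit 380) (nat_lit 1) (nat_lit 225) (nat_lit 404) (nat_lit 391))) (XT.nd (nat_lit 78) (nat_lit 0) (nat_lit 76) (XT.lf (nat_lit 1368) (nat_lit 19566604317) (nat_lit 76) (nat_lit 1235142532) (nat_lit 0) (nat_lit 1235142532) (nat_lit 381) (nat_lit 1) (nat_lit 364) (nat_lit 1) (nat_lit 363) (nat_lit 1) (nat_lit 226) (nat_lit 404) (nat_lit 390)) (XT.lf (nat_lit 1368) (nat_lit 8869713404) (nat_lit 0) (nat_lit 3995396147) (nat_lit 1292) (nat_lit 8869713404) (nat_lit 382) (nat_lit 1) (nat_lit 364) (nat_lit 1) (nat_lit 381) (nat_lit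 1) (nat_lit 227) (nat_lit 404) (nat_lit 389)))) (XT.nd (nat_lit 156) (nat_lit 1368) (nat_lit 0) (XT.nd (nat_lit 78) (nat_lit 0) (nat_lit 76) (XT.lf (nat_lit 1368) (nat_lit 15926297511) (nat_lit 76) (nat_lit 2757058089) (nat_lit 0) (nat_lit 2757058089) (nat_lit 382) (nat_lit 1) (nat_lit 365) (nat_lit 1) (nat_lit 364) (nat_lit 1) (nat_lit 228) (nat_lit 404) (nat_lit 388)) (XT.lf (nat_lit 76) (nat_lit 7004145845) (nat_lit 0) (nat_lit 7141694960) (nat_lit 1292) (nat_lit 7004145845) (nat_lit 366) (nat_lit 1) (nat_lit 365) (nat_lit 1) (nat_lit 382) (nat_lit 1) (nat_lit 229) (nat_lit 404) (nat_lit 387))) (XT.nd (nat_lit 78) (nat_lit 608) (nat_lit 0) (XT.lf (nat_lit 912) (nat_lit 12076133501) (nat_lit 0) (nat_lit 4394922916) (nat_lit 836) (nat_lit 4394922916) (nat_lit 366) (nat_lit 1) (nat_lit 354) (nat_lit 1) (nat_lit 365) (nat_lit 1) (nat_lit 230) (nat_lit 404) (nat_lit 386)) (XT.nd (nat_lit 78) (nat_lit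 608) (nat_lit 0) (XT.lf (nat_lit 76) (nat_lit 5040343042) (nat_lit 0) (nat_lit 10506075494) (nat_lit 912) (nat_lit 5040343042) (nat_lit 355) (nat_lit 1) (nat_lit 354) (nat_lit 1) (nat_lit 366) (nat_lit 1) (nat_lit 231) (nat_lit 404) (nat_lit 385)) (XT.lf (nat_lit 684) (nat_lit 8040357756) (nat_lit 0) (nat_lit 6136159301) (nat_lit 608) (nat_lit 6136159301) (nat_lit 355) (nat_lit 1) (nat_lit 346) (nat_lit 1) (nat_lit 354) (nat_lit 1) (nat_lit 232) (nat_lit 404) (nat_lit 384))))))) (XT.nd (nat_lit 702) (nat_lit 2888) (nat_lit 0) (XT.nd (nat_lit 312) (nat_lit 1672) (nat_lit 0) (XT.nd (nat_lit 156) (nat_lit 608) (nat_lit 0) (XT.nd (nat_lit 78) (nat_lit 608) (nat_lit 0) (XT.lf (nat_lit 76) (nat_lit 2989924481) (nat_lit 0) (nat_lit 14064406574) (nat_lit 684) (nat_lit 2989924481) (nat_lit 347) (nat_lit 1) (nat_lit 346) (nat_lit 1) (nat_lit 355) (nat_lit 1) (nat_lit 233) (nat_lit 404) (nat_lit 383)) (XT.lf (nat_lit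 684) (nat_lit 3841468651) (nat_lit 0) (nat_lit 7969084020) (nat_lit 608) (nat_lit 7969084020) (nat_lit 347) (nat_lit 1) (nat_lit 338) (nat_lit 1) (nat_lit 346) (nat_lit 1) (nat_lit 234) (nat_lit 404) (nat_lit 382))) (XT.nd (nat_lit 78) (nat_lit 608) (nat_lit 0) (XT.lf (nat_lit 76) (nat_lit 863668459) (nat_lit 0) (nat_lit 17794280477) (nat_lit 684) (nat_lit 863668459) (nat_lit 339) (nat_lit 1) (nat_lit 338) (nat_lit 1) (nat_lit 347) (nat_lit 1) (nat_lit 235) (nat_lit 404) (nat_lit 381)) (XT.lf (nat_lit 76) (nat_lit 9387983228) (nat_lit 0) (nat_lit 489921494) (nat_lit 608) (nat_lit 9387983228) (nat_lit 331) (nat_lit 1) (nat_lit 330) (nat_lit 1) (nat_lit 338) (nat_lit 1) (nat_lit 236) (nat_lit 404) (nat_lit 380)))) (XT.nd (nat_lit 156) (nat_lit 1064) (nat_lit 0) (XT.nd (nat_lit 78) (nat_lit 0) (nat_lit 0) (XT.lf (nat_lit 684) (nat_lit 16385673535) (nat_lit 0) (nat_lit 1315410693) (nat_lit 608) (nat_lit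 1315410693) (nat_lit 331) (nat_lit 1) (nat_lit 322) (nat_lit 1) (nat_lit 330) (nat_lit 1) (nat_lit 237) (nat_lit 404) (nat_lit 379)) (XT.lf (nat_lit 76) (nat_lit 6951383201) (nat_lit 0) (nat_lit 4866874089) (nat_lit 684) (nat_lit 6951383201) (nat_lit 323) (nat_lit 1) (nat_lit 322) (nat_lit 1) (nat_lit 331) (nat_lit 1) (nat_lit 238) (nat_lit 404) (nat_lit 378))) (XT.nd (nat_lit 78) (nat_lit 532) (nat_lit 0) (XT.lf (nat_lit 608) (nat_lit 11444462503) (nat_lit 0) (nat_lit 3542061877) (nat_lit 532) (nat_lit 3542061877) (nat_lit 323) (nat_lit 1) (nat_lit 315) (nat_lit 1) (nat_lit 322) (nat_lit 1) (nat_lit 239) (nat_lit 404) (nat_lit 377)) (XT.nd (nat_lit 78) (nat_lit 532) (nat_lit 0) (XT.lf (nat_lit 76) (nat_lit 4472224088) (nat_lit 0) (nat_lit 9346804506) (nat_lit 608) (nat_lit 4472224088) (nat_lit 316) (nat_lit 1) (nat_lit 315) (nat_lit 1) (nat_lit 323) (nat_lit 1) (nat_lit 240) (nat_lit 404) (nat_lit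 376)) (XT.lf (nat_lit 608) (nat_lit 6425614465) (nat_lit 0) (nat_lit 5816274141) (nat_lit 532) (nat_lit 5816274141) (nat_lit 316) (nat_lit 1) (nat_lit 308) (nat_lit 1) (nat_lit 315) (nat_lit 1) (nat_lit 241) (nat_lit 404) (nat_lit 375)))))) (XT.nd (nat_lit 390) (nat_lit 1368) (nat_lit 0) (XT.nd (nat_lit 156) (nat_lit 1064) (nat_lit 0) (XT.nd (nat_lit 78) (nat_lit 456) (nat_lit 0) (XT.lf (nat_lit 76) (nat_lit 1958262448) (nat_lit 0) (nat_lit 13913483936) (nat_lit 608) (nat_lit 1958262448) (nat_lit 309) (nat_lit 1) (nat_lit 308) (nat_lit 1) (nat_lit 316) (nat_lit 1) (nat_lit 242) (nat_lit 404) (nat_lit 374)) (XT.lf (nat_lit 532) (nat_lit 1344108900) (nat_lit 0) (nat_lit 8130209132) (nat_lit 456) (nat_lit 8130209132) (nat_lit 309) (nat_lit 1) (nat_lit 302) (nat_lit 1) (nat_lit 308) (nat_lit 1) (nat_lit 243) (nat_lit 404) (nat_lit 373))) (XT.nd (nat_lit 78) (nat_lit 456) (nat_lit 0) (XT.lf (nat_lit 608)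 (nat_lit 16229296793) (nat_lit 0) (nat_lit 577626112) (nat_lit 532) (nat_lit 577626112) (nat_lit 302) (nat_lit 1) (nat_lit 294) (nat_lit 1) (nat_lit 301) (nat_lit 1) (nat_lit 244) (nat_lit 404) (nat_lit 372)) (XT.nd (nat_lit 78) (nat_lit 456) (nat_lit 0) (XT.lf (nat_lit 76) (nat_lit 6726781810) (nat_lit 0) (nat_lit 3712357882) (nat_lit 608) (nat_lit 6726781810) (nat_lit 295) (nat_lit 1) (nat_lit 294) (nat_lit 1) (nat_lit 302) (nat_lit 1) (nat_lit 245) (nat_lit 404) (nat_lit 371)) (XT.lf (nat_lit 532) (nat_lit 10722281379) (nat_lit 0) (nat_lit 3115160165) (nat_lit 456) (nat_lit 3115160165) (nat_lit 295) (nat_lit 1) (nat_lit 288) (nat_lit 1) (nat_lit 294) (nat_lit 1) (nat_lit 246) (nat_lit 404) (nat_lit 370))))) (XT.nd (nat_lit 156) (nat_lit 912) (nat_lit 0) (XT.nd (nat_lit 78) (nat_lit 456) (nat_lit 0) (XT.lf (nat_lit 76) (nat_lit 3982194923) (nat_lit 0) (nat_lit 8778013196) (nat_lit 532) (nat_lit 3982194923)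 (nat_lit 289) (nat_lit 1) (nat_lit 288) (nat_lit 1) (nat_lit 295) (nat_lit 1) (nat_lit 247) (nat_lit 404) (nat_lit 369)) (XT.lf (nat_lit 532) (nat_lit 5200766298) (nat_lit 0) (nat_lit 5667526898) (nat_lit 456) (nat_lit 5667526898) (nat_lit 289) (nat_lit 1) (nat_lit 282) (nat_lit 1) (nat_lit 288) (nat_lit 1) (nat_lit 248) (nat_lit 404) (nat_lit 368))) (XT.nd (nat_lit 78) (nat_lit 912) (nat_lit 0) (XT.lf (nat_lit 76) (nat_lit 1233071951) (nat_lit 0) (nat_lit 13867610433) (nat_lit 532) (nat_lit 1233071951) (nat_lit 283) (nat_lit 1) (nat_lit 282) (nat_lit 1) (nat_lit 289) (nat_lit 1) (nat_lit 249) (nat_lit 404) (nat_lit 367)) (XT.nd (nat_lit 78) (nat_lit 456) (nat_lit 0) (XT.lf (nat_lit 76) (nat_lit 7907535953) (nat_lit 0) (nat_lit 318448509) (nat_lit 456) (nat_lit 7907535953) (nat_lit 277) (nat_lit 1) (nat_lit 276) (nat_lit 1) (nat_lit 282) (nat_lit 1) (nat_lit 250) (nat_lit 404) (nat_lit 366)) (XT.lf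 (nat_lit 532) (nat_lit 12936145981) (nat_lit 0) (nat_lit 1500746864) (nat_lit 456) (nat_lit 1500746864) (nat_lit 277) (nat_lit 1) (nat_lit 270) (nat_lit 1) (nat_lit 276) (nat_lit 1) (nat_lit 251) (nat_lit 404) (nat_lit 365))))))))
noncomputable def ec325 : XT := (XT.nd (nat_lit 1482) (nat_lit 3040) (nat_lit 0) (XT.nd (nat_lit 702) (nat_lit 2052) (nat_lit 0) (XT.nd (nat_lit 312) (nat_lit 1140) (nat_lit 0) (XT.nd (nat_lit 156) (nat_lit 380) (nat_lit 0) (XT.nd (nat_lit 78) (nat_lit 380) (nat_lit 0) (XT.lf (nat_lit 76) (nat_lit 5006495806) (nat_lit 0) (nat_lit 5730742149) (nat_lit 532) (nat_lit 5006495806) (nat_lit 271) (nat_lit 1) (nat_lit 270) (nat_lit 1) (nat_lit 277) (nat_lit 1) (nat_lit 252) (nat_lit 404) (nat_lit 364)) (XT.lf (nat_lit 456) (nat_lit 7118793916) (nat_lit 0) (nat_lit 4217522611) (nat_lit 380) (nat_lit 4217522611) (nat_lit 271) (nat_lit 1) (nat_lit 265) (nat_lit 1) (nat_lit 270) (nat_lit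 1) (nat_lit 253) (nat_lit 404) (nat_lit 363))) (XT.nd (nat_lit 78) (nat_lit 380) (nat_lit 0) (XT.lf (nat_lit 76) (nat_lit 2119205066) (nat_lit 0) (nat_lit 11129012391) (nat_lit 456) (nat_lit 2119205066) (nat_lit 266) (nat_lit 1) (nat_lit 265) (nat_lit 1) (nat_lit 271) (nat_lit 1) (nat_lit 254) (nat_lit 404) (nat_lit 362)) (XT.lf (nat_lit 456) (nat_lit 1332813057) (nat_lit 0) (nat_lit 6925222279) (nat_lit 380) (nat_lit 6925222279) (nat_lit 266) (nat_lit 1) (nat_lit 260) (nat_lit 1) (nat_lit 265) (nat_lit 1) (nat_lit 255) (nat_lit 404) (nat_lit 361)))) (XT.nd (nat_lit 156) (nat_lit 684) (nat_lit 0) (XT.nd (nat_lit 78) (nat_lit 0) (nat_lit 0) (XT.lf (nat_lit 456) (nat_lit 13516570077) (nat_lit 0) (nat_lit 743316008) (nat_lit 380) (nat_lit 743316008) (nat_lit 260) (nat_lit 1) (nat_lit 254) (nat_lit 1) (nat_lit 259) (nat_lit 1) (nat_lit 256) (nat_lit 404) (nat_lit 360)) (XT.lf (nat_lit 76) (nat_lit 5247741729)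 (nat_lit 0) (nat_lit 4328636402) (nat_lit 456) (nat_lit 5247741729) (nat_lit 255) (nat_lit 1) (nat_lit 254) (nat_lit 1) (nat_lit 260) (nat_lit 1) (nat_lit 257) (nat_lit 404) (nat_lit 359))) (XT.nd (nat_lit 78) (nat_lit 304) (nat_lit 0) (XT.lf (nat_lit 456) (nat_lit 7519952042) (nat_lit 0) (nat_lit 3564532763) (nat_lit 380) (nat_lit 3564532763) (nat_lit 255) (nat_lit 1) (nat_lit 249) (nat_lit 1) (nat_lit 254) (nat_lit 1) (nat_lit 258) (nat_lit 404) (nat_lit 358)) (XT.nd (nat_lit 78) (nat_lit 304) (nat_lit 0) (XT.lf (nat_lit 76) (nat_lit 2278315809) (nat_lit 0) (nat_lit 9920215133) (nat_lit 456) (nat_lit 2278315809) (nat_lit 250) (nat_lit 1) (nat_lit 249) (nat_lit 1) (nat_lit 255) (nat_lit 1) (nat_lit 259) (nat_lit 404) (nat_lit 357)) (XT.lf (nat_lit 380) (nat_lit 1582364487) (nat_lit 0) (nat_lit 6362246701) (nat_lit 304) (nat_lit 6362246701) (nat_lit 250) (nat_lit 1) (nat_lit 245) (nat_lit 1) (nat_lit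 249) (nat_lit 1) (nat_lit 260) (nat_lit 404) (nat_lit 356)))))) (XT.nd (nat_lit 390) (nat_lit 988) (nat_lit 0) (XT.nd (nat_lit 156) (nat_lit 608) (nat_lit 0) (XT.nd (nat_lit 78) (nat_lit 0) (nat_lit 0) (XT.lf (nat_lit 456) (nat_lit 12832608051) (nat_lit 0) (nat_lit 653995040) (nat_lit 380) (nat_lit 653995040) (nat_lit 245) (nat_lit 1) (nat_lit 239) (nat_lit 1) (nat_lit 244) (nat_lit 1) (nat_lit 261) (nat_lit 404) (nat_lit 355)) (XT.lf (nat_lit 76) (nat_lit 4883750527) (nat_lit 0) (nat_lit 4207536163) (nat_lit 456) (nat_lit 4883750527) (nat_lit 240) (nat_lit 1) (nat_lit 239) (nat_lit 1) (nat_lit 245) (nat_lit 1) (nat_lit 262) (nat_lit 404) (nat_lit 354))) (XT.nd (nat_lit 78) (nat_lit 304) (nat_lit 0) (XT.lf (nat_lit 380) (nat_lit 6750418664) (nat_lit 0) (nat_lit 3531339167) (nat_lit 304) (nat_lit 3531339167) (nat_lit 240) (nat_lit 1) (nat_lit 235) (nat_lit 1) (nat_lit 239) (nat_lit 1) (nat_lit 263) (nat_lit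 404) (nat_lit 353)) (XT.nd (nat_lit 78) (nat_lit 304) (nat_lit 0) (XT.lf (nat_lit 76) (nat_lit 1877188316) (nat_lit 0) (nat_lit 9899550178) (nat_lit 380) (nat_lit 1877188316) (nat_lit 236) (nat_lit 1) (nat_lit 235) (nat_lit 1) (nat_lit 240) (nat_lit 1) (nat_lit 264) (nat_lit 404) (nat_lit 352)) (XT.lf (nat_lit 380) (nat_lit 748543546) (nat_lit 0) (nat_lit 6374011136) (nat_lit 304) (nat_lit 6374011136) (nat_lit 236) (nat_lit 1) (nat_lit 231) (nat_lit 1) (nat_lit 235) (nat_lit 1) (nat_lit 265) (nat_lit 404) (nat_lit 351))))) (XT.nd (nat_lit 156) (nat_lit 608) (nat_lit 0) (XT.nd (nat_lit 78) (nat_lit 0) (nat_lit 0) (XT.lf (nat_lit 380) (nat_lit 11186502573) (nat_lit 0) (nat_lit 1077903847) (nat_lit 304) (nat_lit 1077903847) (nat_lit 231) (nat_lit 1) (nat_lit 226) (nat_lit 1) (nat_lit 230) (nat_lit 1) (nat_lit 266) (nat_lit 404) (nat_lit 350)) (XT.lf (nat_lit 76) (nat_lit 4060097863) (nat_lit 0) (nat_lit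 5068916346) (nat_lit 380) (nat_lit 4060097863) (nat_lit 227) (nat_lit 1) (nat_lit 226) (nat_lit 1) (nat_lit 231) (nat_lit 1) (nat_lit 267) (nat_lit 404) (nat_lit 349))) (XT.nd (nat_lit 78) (nat_lit 304) (nat_lit 0) (XT.lf (nat_lit 380) (nat_lit 5093503532) (nat_lit 0) (nat_lit 3972712498) (nat_lit 304) (nat_lit 3972712498) (nat_lit 227) (nat_lit 1) (nat_lit 222) (nat_lit 1) (nat_lit 226) (nat_lit 1) (nat_lit 268) (nat_lit 404) (nat_lit 348)) (XT.nd (nat_lit 78) (nat_lit 304) (nat_lit 0) (XT.lf (nat_lit 76) (nat_lit 1052268345) (nat_lit 0) (nat_lit 10787113714) (nat_lit 380) (nat_lit 1052268345) (nat_lit 223) (nat_lit 1) (nat_lit 222) (nat_lit 1) (nat_lit 227) (nat_lit 1) (nat_lit 269) (nat_lit 404) (nat_lit 347)) (XT.lf (nat_lit 76) (nat_lit 5929907820) (nat_lit 0) (nat_lit 885505581) (nat_lit 304) (nat_lit 5929907820) (nat_lit 219) (nat_lit 1) (nat_lit 218) (nat_lit 1) (nat_lit 222) (nat_lit 1) (nat_lit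 270) (nat_lit 404) (nat_lit 346))))))) (XT.nd (nat_lit 702) (nat_lit 1368) (nat_lit 0) (XT.nd (nat_lit 312) (nat_lit 760) (nat_lit 0) (XT.nd (nat_lit 156) (nat_lit 608) (nat_lit 0) (XT.nd (nat_lit 78) (nat_lit 0) (nat_lit 0) (XT.lf (nat_lit 380) (nat_lit 8824960738) (nat_lit 0) (nat_lit 1888428027) (nat_lit 304) (nat_lit 1888428027) (nat_lit 219) (nat_lit 1) (nat_lit 214) (nat_lit 1) (nat_lit 218) (nat_lit 1) (nat_lit 271) (nat_lit 404) (nat_lit 345)) (XT.lf (nat_lit 76) (nat_lit 2895561909) (nat_lit 0) (nat_lit 6668823358) (nat_lit 380) (nat_lit 2895561909) (nat_lit 215) (nat_lit 1) (nat_lit 214) (nat_lit 1) (nat_lit 219) (nat_lit 1) (nat_lit 272) (nat_lit 404) (nat_lit 344))) (XT.nd (nat_lit 78) (nat_lit 380) (nat_lit 0) (XT.lf (nat_lit 304) (nat_lit 2780270461) (nat_lit 0) (nat_lit 4770017467) (nat_lit 228) (nat_lit 4770017467) (nat_lit 215) (nat_lit 1) (nat_lit 211) (nat_lit 1) (nat_lit 214) (nat_lit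 1) (nat_lit 273) (nat_lit 404) (nat_lit 343)) (XT.lf (nat_lit 380) (nat_lit 12015085471) (nat_lit 0) (nat_lit 84372413) (nat_lit 304) (nat_lit 84372413) (nat_lit 211) (nat_lit 1) (nat_lit 206) (nat_lit 1) (nat_lit 210) (nat_lit 1) (nat_lit 274) (nat_lit 404) (nat_lit 342)))) (XT.nd (nat_lit 156) (nat_lit 532) (nat_lit 0) (XT.nd (nat_lit 78) (nat_lit 228) (nat_lit 0) (XT.lf (nat_lit 76) (nat_lit 4476198489) (nat_lit 0) (nat_lit 3094689915) (nat_lit 380) (nat_lit 4476198489) (nat_lit 207) (nat_lit 1) (nat_lit 206) (nat_lit 1) (nat_lit 211) (nat_lit 1) (nat_lit 275) (nat_lit 404) (nat_lit 341)) (XT.lf (nat_lit 304) (nat_lit 5948572909) (nat_lit 0) (nat_lit 2982434853) (nat_lit 228) (nat_lit 2982434853) (nat_lit 207) (nat_lit 1) (nat_lit 203) (nat_lit 1) (nat_lit 206) (nat_lit 1) (nat_lit 276) (nat_lit 404) (nat_lit 340))) (XT.nd (nat_lit 78) (nat_lit 532) (nat_lit 0) (XT.lf (nat_lit 76) (nat_lit 1486671050)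 (nat_lit 0) (nat_lit 8808633350) (nat_lit 304) (nat_lit 1486671050) (nat_lit 204) (nat_lit 1) (nat_lit 203) (nat_lit 1) (nat_lit 207) (nat_lit 1) (nat_lit 277) (nat_lit 404) (nat_lit 339)) (XT.nd (nat_lit 78) (nat_lit 228) (nat_lit 0) (XT.lf (nat_lit 76) (nat_lit 5825131019) (nat_lit 0) (nat_lit 1559612) (nat_lit 304) (nat_lit 5825131019) (nat_lit 200) (nat_lit 1) (nat_lit 199) (nat_lit 1) (nat_lit 203) (nat_lit 1) (nat_lit 278) (nat_lit 404) (nat_lit 338)) (XT.lf (nat_lit 304) (nat_lit 8662257765) (nat_lit 0) (nat_lit 1430763588) (nat_lit 228) (nat_lit 1430763588) (nat_lit 200) (nat_lit 1) (nat_lit 196) (nat_lit 1) (nat_lit 199) (nat_lit 1) (nat_lit 279) (nat_lit 404) (nat_lit 337)))))) (XT.nd (nat_lit 390) (nat_lit 608) (nat_lit 0) (XT.nd (nat_lit 156) (nat_lit 532) (nat_lit 0) (XT.nd (nat_lit 78) (nat_lit 228) (nat_lit 0) (XT.lf (nat_lit 76) (nat_lit 2837758907) (nat_lit 0) (nat_lit 5721461634) (nat_lit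 304) (nat_lit 2837758907) (nat_lit 197) (nat_lit 1) (nat_lit 196) (nat_lit 1) (nat_lit 200) (nat_lit 1) (nat_lit 280) (nat_lit 404) (nat_lit 336)) (XT.lf (nat_lit 304) (nat_lit 2719677527) (nat_lit 0) (nat_lit 4276278011) (nat_lit 228) (nat_lit 4276278011) (nat_lit 197) (nat_lit 1) (nat_lit 193) (nat_lit 1) (nat_lit 196) (nat_lit 1) (nat_lit 281) (nat_lit 404) (nat_lit 335))) (XT.nd (nat_lit 78) (nat_lit 228) (nat_lit 0) (XT.lf (nat_lit 304) (nat_lit 10974971579) (nat_lit 0) (nat_lit 87631275) (nat_lit 228) (nat_lit 87631275) (nat_lit 193) (nat_lit 1) (nat_lit 189) (nat_lit 1) (nat_lit 192) (nat_lit 1) (nat_lit 282) (nat_lit 404) (nat_lit 334)) (XT.nd (nat_lit 78) (nat_lit 228) (nat_lit 0) (XT.lf (nat_lit 76) (nat_lit 3994002261) (nat_lit 0) (nat_lit 3039857171) (nat_lit 304) (nat_lit 3994002261) (nat_lit 190) (nat_lit 1) (nat_lit 189) (nat_lit 1) (nat_lit 193) (nat_lit 1) (nat_lit 283) (nat_lit 404)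 (nat_lit 333)) (XT.lf (nat_lit 304) (nat_lit 5058233987) (nat_lit 0) (nat_lit 2924975742) (nat_lit 228) (nat_lit 2924975742) (nat_lit 190) (nat_lit 1) (nat_lit 186) (nat_lit 1) (nat_lit 189) (nat_lit 1) (nat_lit 284) (nat_lit 404) (nat_lit 332))))) (XT.nd (nat_lit 156) (nat_lit 380) (nat_lit 0) (XT.nd (nat_lit 78) (nat_lit 228) (nat_lit 0) (XT.lf (nat_lit 76) (nat_lit 1081857524) (nat_lit 0) (nat_lit 8626821228) (nat_lit 304) (nat_lit 1081857524) (nat_lit 187) (nat_lit 1) (nat_lit 186) (nat_lit 1) (nat_lit 190) (nat_lit 1) (nat_lit 285) (nat_lit 404) (nat_lit 331)) (XT.lf (nat_lit 76) (nat_lit 4978415616) (nat_lit 0) (nat_lit 716808301) (nat_lit 228) (nat_lit 4978415616) (nat_lit 184) (nat_lit 1) (nat_lit 183) (nat_lit 1) (nat_lit 186) (nat_lit 1) (nat_lit 286) (nat_lit 404) (nat_lit 330))) (XT.nd (nat_lit 78) (nat_lit 152) (nat_lit 0) (XT.lf (nat_lit 304) (nat_lit 7059064440) (nat_lit 0) (nat_lit 1749830359)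 (nat_lit 228) (nat_lit 1749830359) (nat_lit 184) (nat_lit 1) (nat_lit 180) (nat_lit 1) (nat_lit 183) (nat_lit 1) (nat_lit 287) (nat_lit 404) (nat_lit 329)) (XT.nd (nat_lit 78) (nat_lit 152) (nat_lit 0) (XT.lf (nat_lit 76) (nat_lit 2087903447) (nat_lit 0) (nat_lit 6269315227) (nat_lit 304) (nat_lit 2087903447) (nat_lit 181) (nat_lit 1) (nat_lit 180) (nat_lit 1) (nat_lit 184) (nat_lit 1) (nat_lit 288) (nat_lit 404) (nat_lit 328)) (XT.lf (nat_lit 228) (nat_lit 1315063850) (nat_lit 0) (nat_lit 4508986926) (nat_lit 152) (nat_lit 4508986926) (nat_lit 181) (nat_lit 1) (nat_lit 178) (nat_lit 1) (nat_lit 180) (nat_lit 1) (nat_lit 289) (nat_lit 404) (nat_lit 327))))))))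
noncomputable def ec326 : XT := (XT.nd (nat_lit 1482) (nat_lit 1976) (nat_lit 0) (XT.nd (nat_lit 702) (nat_lit 1064) (nat_lit 0) (XT.nd (nat_lit 312) (nat_lit 760) (nat_lit 0) (XT.nd (nat_lit 156) (nat_lit 152) (nat_lit 0) (XT.nd (nat_lit 78) (nat_lit 0) (nat_lit 0) (XT.lf (nat_lit 304) (nat_lit 8762070876) (nat_lit 0) (nat_lit 730456267) (nat_lit 228) (nat_lit 730456267) (nat_lit 178) (nat_lit 1) (nat_lit 174) (nat_lit 1) (nat_lit 177) (nat_lit 1) (nat_lit 290) (nat_lit 404) (nat_lit 326)) (XT.lf (nat_lit 76) (nat_lit 2948946092) (nat_lit 0) (nat_lit 4215347418) (nat_lit 304) (nat_lit 2948946092) (nat_lit 175) (nat_lit 1) (nat_lit 174) (nat_lit 1) (nat_lit 178) (nat_lit 1) (nat_lit 291) (nat_lit 404) (nat_lit 325))) (XT.nd (nat_lit 78) (nat_lit 0) (nat_lit 0) (XT.lf (nat_lit 228) (nat_lit 3075809238) (nat_lit 0) (nat_lit 3464839640) (nat_lit 152) (nat_lit 3464839640) (nat_lit 175) (nat_lit 1) (nat_lit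 172) (nat_lit 1) (nat_lit 174) (nat_lit 1) (nat_lit 292) (nat_lit 404) (nat_lit 324)) (XT.lf (nat_lit 76) (nat_lit 152734662) (nat_lit 0) (nat_lit 9594519495) (nat_lit 228) (nat_lit 152734662) (nat_lit 173) (nat_lit 1) (nat_lit 172) (nat_lit 1) (nat_lit 175) (nat_lit 1) (nat_lit 293) (nat_lit 404) (nat_lit 323)))) (XT.nd (nat_lit 156) (nat_lit 380) (nat_lit 0) (XT.nd (nat_lit 78) (nat_lit 152) (nat_lit 0) (XT.lf (nat_lit 76) (nat_lit 3682111012) (nat_lit 0) (nat_lit 2429885505) (nat_lit 228) (nat_lit 3682111012) (nat_lit 170) (nat_lit 1) (nat_lit 169) (nat_lit 1) (nat_lit 172) (nat_lit 1) (nat_lit 294) (nat_lit 404) (nat_lit 322)) (XT.lf (nat_lit 228) (nat_lit 4584653602) (nat_lit 0) (nat_lit 2552895394) (nat_lit 152) (nat_lit 2552895394) (nat_lit 170) (nat_lit 1) (nat_lit 167) (nat_lit 1) (nat_lit 169) (nat_lit 1) (nat_lit 295) (nat_lit 404) (nat_lit 321))) (XT.nd (nat_lit 78) (nat_lit 380) (nat_lit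 0) (XT.lf (nat_lit 76) (nat_lit 920325437) (nat_lit 0) (nat_lit 7747827577) (nat_lit 228) (nat_lit 920325437) (nat_lit 168) (nat_lit 1) (nat_lit 167) (nat_lit 1) (nat_lit 170) (nat_lit 1) (nat_lit 296) (nat_lit 404) (nat_lit 320)) (XT.nd (nat_lit 78) (nat_lit 152) (nat_lit 0) (XT.lf (nat_lit 76) (nat_lit 4302586199) (nat_lit 0) (nat_lit 881838228) (nat_lit 228) (nat_lit 4302586199) (nat_lit 165) (nat_lit 1) (nat_lit 164) (nat_lit 1) (nat_lit 167) (nat_lit 1) (nat_lit 297) (nat_lit 404) (nat_lit 319)) (XT.lf (nat_lit 228) (nat_lit 5871305279) (nat_lit 0) (nat_lit 1757952599) (nat_lit 152) (nat_lit 1757952599) (nat_lit 165) (nat_lit 1) (nat_lit 162) (nat_lit 1) (nat_lit 164) (nat_lit 1) (nat_lit 298) (nat_lit 404) (nat_lit 318)))))) (XT.nd (nat_lit 390) (nat_lit 532) (nat_lit 0) (XT.nd (nat_lit 156) (nat_lit 380) (nat_lit 0) (XT.nd (nat_lit 78) (nat_lit 152) (nat_lit 0) (XT.lf (nat_lit 76) (nat_lit 1579466810)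 (nat_lit 0) (nat_lit 6129690349) (nat_lit 228) (nat_lit 1579466810) (nat_lit 163) (nat_lit 1) (nat_lit 162) (nat_lit 1) (nat_lit 165) (nat_lit 1) (nat_lit 299) (nat_lit 404) (nat_lit 317)) (XT.lf (nat_lit 228) (nat_lit 465468076) (nat_lit 0) (nat_lit 4362845249) (nat_lit 152) (nat_lit 4362845249) (nat_lit 163) (nat_lit 1) (nat_lit 160) (nat_lit 1) (nat_lit 162) (nat_lit 1) (nat_lit 300) (nat_lit 404) (nat_lit 316))) (XT.nd (nat_lit 78) (nat_lit 152) (nat_lit 0) (XT.lf (nat_lit 228) (nat_lit 6962112611) (nat_lit 0) (nat_lit 1066518219) (nat_lit 152) (nat_lit 1066518219) (nat_lit 160) (nat_lit 1) (nat_lit 157) (nat_lit 1) (nat_lit 159) (nat_lit 1) (nat_lit 301) (nat_lit 404) (nat_lit 315)) (XT.nd (nat_lit 78) (nat_lit 152) (nat_lit 0) (XT.lf (nat_lit 76) (nat_lit 2142917920) (nat_lit 0) (nat_lit 4713962034) (nat_lit 228) (nat_lit 2142917920) (nat_lit 158) (nat_lit 1) (nat_lit 157) (nat_lit 1) (nat_lit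 160) (nat_lit 1) (nat_lit 302) (nat_lit 404) (nat_lit 314)) (XT.lf (nat_lit 228) (nat_lit 1641293564) (nat_lit 0) (nat_lit 3632292138) (nat_lit 152) (nat_lit 3632292138) (nat_lit 158) (nat_lit 1) (nat_lit 155) (nat_lit 1) (nat_lit 157) (nat_lit 1) (nat_lit 303) (nat_lit 404) (nat_lit 313))))) (XT.nd (nat_lit 156) (nat_lit 304) (nat_lit 0) (XT.nd (nat_lit 78) (nat_lit 0) (nat_lit 0) (XT.lf (nat_lit 228) (nat_lit 7880440004) (nat_lit 0) (nat_lit 466616851) (nat_lit 152) (nat_lit 466616851) (nat_lit 155) (nat_lit 1) (nat_lit 152) (nat_lit 1) (nat_lit 154) (nat_lit 1) (nat_lit 304) (nat_lit 404) (nat_lit 312)) (XT.lf (nat_lit 76) (nat_lit 2621995706) (nat_lit 0) (nat_lit 3477431640) (nat_lit 228) (nat_lit 2621995706) (nat_lit 153) (nat_lit 1) (nat_lit 152) (nat_lit 1) (nat_lit 155) (nat_lit 1) (nat_lit 305) (nat_lit 404) (nat_lit 311))) (XT.nd (nat_lit 78) (nat_lit 152) (nat_lit 0) (XT.lf (nat_lit 228)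 (nat_lit 2650240119) (nat_lit 0) (nat_lit 2990313104) (nat_lit 152) (nat_lit 2990313104) (nat_lit 153) (nat_lit 1) (nat_lit 150) (nat_lit 1) (nat_lit 152) (nat_lit 1) (nat_lit 306) (nat_lit 404) (nat_lit 310)) (XT.nd (nat_lit 78) (nat_lit 152) (nat_lit 0) (XT.lf (nat_lit 76) (nat_lit 52897489) (nat_lit 0) (nat_lit 8436387925) (nat_lit 228) (nat_lit 52897489) (nat_lit 151) (nat_lit 1) (nat_lit 150) (nat_lit 1) (nat_lit 153) (nat_lit 1) (nat_lit 307) (nat_lit 404) (nat_lit 309)) (XT.lf (nat_lit 76) (nat_lit 3026736302) (nat_lit 0) (nat_lit 2399495135) (nat_lit 152) (nat_lit 3026736302) (nat_lit 149) (nat_lit 1) (nat_lit 148) (nat_lit 1) (nat_lit 150) (nat_lit 1) (nat_lit 308) (nat_lit 404) (nat_lit 308))))))) (XT.nd (nat_lit 702) (nat_lit 1140) (nat_lit 0) (XT.nd (nat_lit 312) (nat_lit 380) (nat_lit 0) (XT.nd (nat_lit 156) (nat_lit 304) (nat_lit 0) (XT.nd (nat_lit 78) (nat_lit 0) (nat_lit 0) (XT.lf (nat_lit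 228) (nat_lit 3511958434) (nat_lit 0) (nat_lit 2426823962) (nat_lit 152) (nat_lit 2426823962) (nat_lit 149) (nat_lit 1) (nat_lit 146) (nat_lit 1) (nat_lit 148) (nat_lit 1) (nat_lit 309) (nat_lit 404) (nat_lit 307)) (XT.lf (nat_lit 76) (nat_lit 504848541) (nat_lit 0) (nat_lit 7270079626) (nat_lit 228) (nat_lit 504848541) (nat_lit 147) (nat_lit 1) (nat_lit 146) (nat_lit 1) (nat_lit 149) (nat_lit 1) (nat_lit 310) (nat_lit 404) (nat_lit 306))) (XT.nd (nat_lit 78) (nat_lit 152) (nat_lit 0) (XT.lf (nat_lit 76) (nat_lit 3366038407) (nat_lit 0) (nat_lit 1461864197) (nat_lit 152) (nat_lit 3366038407) (nat_lit 145) (nat_lit 1) (nat_lit 144) (nat_lit 1) (nat_lit 146) (nat_lit 1) (nat_lit 311) (nat_lit 404) (nat_lit 305)) (XT.lf (nat_lit 228) (nat_lit 4243877555) (nat_lit 0) (nat_lit 1932871075) (nat_lit 152) (nat_lit 1932871075) (nat_lit 145) (nat_lit 1) (nat_lit 142) (nat_lit 1) (nat_lit 144) (nat_lit 1) (nat_lit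 312) (nat_lit 404) (nat_lit 304)))) (XT.nd (nat_lit 156) (nat_lit 228) (nat_lit 0) (XT.nd (nat_lit 78) (nat_lit 152) (nat_lit 0) (XT.lf (nat_lit 76) (nat_lit 893065765) (nat_lit 0) (nat_lit 6240398986) (nat_lit 228) (nat_lit 893065765) (nat_lit 143) (nat_lit 1) (nat_lit 142) (nat_lit 1) (nat_lit 145) (nat_lit 1) (nat_lit 313) (nat_lit 404) (nat_lit 303)) (XT.lf (nat_lit 76) (nat_lit 3647790659) (nat_lit 0) (nat_lit 648307452) (nat_lit 152) (nat_lit 3647790659) (nat_lit 141) (nat_lit 1) (nat_lit 140) (nat_lit 1) (nat_lit 142) (nat_lit 1) (nat_lit 314) (nat_lit 404) (nat_lit 302))) (XT.nd (nat_lit 78) (nat_lit 76) (nat_lit 0) (XT.lf (nat_lit 228) (nat_lit 4861453517) (nat_lit 0) (nat_lit 1500505106) (nat_lit 152) (nat_lit 1500505106) (nat_lit 141) (nat_lit 1) (nat_lit 138) (nat_lit 1) (nat_lit 140) (nat_lit 1) (nat_lit 315) (nat_lit 404) (nat_lit 301)) (XT.nd (nat_lit 78) (nat_lit 76) (nat_lit 0) (XT.lf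 (nat_lit 76) (nat_lit 1225044719) (nat_lit 0) (nat_lit 5331918917) (nat_lit 228) (nat_lit 1225044719) (nat_lit 139) (nat_lit 1) (nat_lit 138) (nat_lit 1) (nat_lit 141) (nat_lit 1) (nat_lit 316) (nat_lit 404) (nat_lit 300)) (XT.lf (nat_lit 152) (nat_lit 56685552) (nat_lit 0) (nat_lit 3822844128) (nat_lit 76) (nat_lit 3822844128) (nat_lit 139) (nat_lit 1) (nat_lit 137) (nat_lit 1) (nat_lit 138) (nat_lit 1) (nat_lit 317) (nat_lit 404) (nat_lit 299)))))) (XT.nd (nat_lit 390) (nat_lit 608) (nat_lit 0) (XT.nd (nat_lit 156) (nat_lit 304) (nat_lit 0) (XT.nd (nat_lit 78) (nat_lit 0) (nat_lit 0) (XT.lf (nat_lit 228) (nat_lit 5378390208) (nat_lit 0) (nat_lit 1122668859) (nat_lit 152) (nat_lit 1122668859) (nat_lit 137) (nat_lit 1) (nat_lit 134) (nat_lit 1) (nat_lit 136) (nat_lit 1) (nat_lit 318) (nat_lit 404) (nat_lit 298)) (XT.lf (nat_lit 76) (nat_lit 1507433798) (nat_lit 0) (nat_lit 4530938223) (nat_lit 228)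 (nat_lit 1507433798) (nat_lit 135) (nat_lit 1) (nat_lit 134) (nat_lit 1) (nat_lit 137) (nat_lit 1) (nat_lit 319) (nat_lit 404) (nat_lit 297))) (XT.nd (nat_lit 78) (nat_lit 228) (nat_lit 0) (XT.lf (nat_lit 152) (nat_lit 675764486) (nat_lit 0) (nat_lit 3396547494) (nat_lit 76) (nat_lit 3396547494) (nat_lit 135) (nat_lit 1) (nat_lit 133) (nat_lit 1) (nat_lit 134) (nat_lit 1) (nat_lit 320) (nat_lit 404) (nat_lit 296)) (XT.nd (nat_lit 78) (nat_lit 0) (nat_lit 0) (XT.lf (nat_lit 228) (nat_lit 5806835596) (nat_lit 0) (nat_lit 793097620) (nat_lit 152) (nat_lit 793097620) (nat_lit 133) (nat_lit 1) (nat_lit 130) (nat_lit 1) (nat_lit 132) (nat_lit 1) (nat_lit 321) (nat_lit 404) (nat_lit 295)) (XT.lf (nat_lit 76) (nat_lit 1746129028) (nat_lit 0) (nat_lit 3825288978) (nat_lit 228) (nat_lit 1746129028) (nat_lit 131) (nat_lit 1) (nat_lit 130) (nat_lit 1) (nat_lit 133) (nat_lit 1) (nat_lit 322) (nat_lit 404) (nat_lit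 294))))) (XT.nd (nat_lit 156) (nat_lit 304) (nat_lit 0) (XT.nd (nat_lit 78) (nat_lit 228) (nat_lit 0) (XT.lf (nat_lit 152) (nat_lit 1207592564) (nat_lit 0) (nat_lit 3017788456) (nat_lit 76) (nat_lit 3017788456) (nat_lit 131) (nat_lit 1) (nat_lit 129) (nat_lit 1) (nat_lit 130) (nat_lit 1) (nat_lit 323) (nat_lit 404) (nat_lit 293)) (XT.lf (nat_lit 228) (nat_lit 6157556040) (nat_lit 0) (nat_lit 506230633) (nat_lit 152) (nat_lit 506230633) (nat_lit 129) (nat_lit 1) (nat_lit 126) (nat_lit 1) (nat_lit 128) (nat_lit 1) (nat_lit 324) (nat_lit 404) (nat_lit 292))) (XT.nd (nat_lit 78) (nat_lit 304) (nat_lit 0) (XT.lf (nat_lit 76) (nat_lit 1946358291) (nat_lit 0) (nat_lit 3204165394) (nat_lit 228) (nat_lit 1946358291) (nat_lit 127) (nat_lit 1) (nat_lit 126) (nat_lit 1) (nat_lit 129) (nat_lit 1) (nat_lit 325) (nat_lit 404) (nat_lit 291)) (XT.nd (nat_lit 78) (nat_lit 228) (nat_lit 0) (XT.lf (nat_lit 152) (nat_lit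 1662429935) (nat_lit 0) (nat_lit 2681265956) (nat_lit 76) (nat_lit 2681265956) (nat_lit 127) (nat_lit 1) (nat_lit 125) (nat_lit 1) (nat_lit 126) (nat_lit 1) (nat_lit 326) (nat_lit 404) (nat_lit 290)) (XT.lf (nat_lit 228) (nat_lit 6440091141) (nat_lit 0) (nat_lit 257132438) (nat_lit 152) (nat_lit 257132438) (nat_lit 125) (nat_lit 1) (nat_lit 122) (nat_lit 1) (nat_lit 124) (nat_lit 1) (nat_lit 327) (nat_lit 404) (nat_lit 289))))))))
noncomputable def ec327 : XT := (XT.nd (nat_lit 1482) (nat_lit 1444) (nat_lit 0) (XT.nd (nat_lit 702) (nat_lit 836) (nat_lit 0) (XT.nd (nat_lit 312) (nat_lit 304) (nat_lit 0) (XT.nd (nat_lit 156) (nat_lit 228) (nat_lit 0) (XT.nd (nat_lit 78) (nat_lit 76) (nat_lit 0) (XT.lf (nat_lit 76) (nat_lit 2112756137) (nat_lit 0) (nat_lit 2657971765) (nat_lit 228) (nat_lit 2112756137) (nat_lit 123) (nat_lit 1) (nat_lit 122) (nat_lit 1) (nat_lit 125) (nat_lit 1) (nat_lit 328) (nat_lit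 404) (nat_lit 288)) (XT.lf (nat_lit 152) (nat_lit 2049377157) (nat_lit 0) (nat_lit 2382270074) (nat_lit 76) (nat_lit 2382270074) (nat_lit 123) (nat_lit 1) (nat_lit 121) (nat_lit 1) (nat_lit 122) (nat_lit 1) (nat_lit 329) (nat_lit 404) (nat_lit 287))) (XT.nd (nat_lit 78) (nat_lit 0) (nat_lit 0) (XT.lf (nat_lit 228) (nat_lit 6662891306) (nat_lit 0) (nat_lit 41422994) (nat_lit 152) (nat_lit 41422994) (nat_lit 121) (nat_lit 1) (nat_lit 118) (nat_lit 1) (nat_lit 120) (nat_lit 1) (nat_lit 330) (nat_lit 404) (nat_lit 286)) (XT.lf (nat_lit 76) (nat_lit 2249430254) (nat_lit 0) (nat_lit 2178187383) (nat_lit 228) (nat_lit 2249430254) (nat_lit 119) (nat_lit 1) (nat_lit 118) (nat_lit 1) (nat_lit 121) (nat_lit 1) (nat_lit 331) (nat_lit 404) (nat_lit 285)))) (XT.nd (nat_lit 156) (nat_lit 228) (nat_lit 0) (XT.nd (nat_lit 78) (nat_lit 0) (nat_lit 0) (XT.lf (nat_lit 152) (nat_lit 2376504956) (nat_lit 0) (nat_lit 2116616105)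 (nat_lit 76) (nat_lit 2116616105) (nat_lit 119) (nat_lit 1) (nat_lit 117) (nat_lit 1) (nat_lit 118) (nat_lit 1) (nat_lit 332) (nat_lit 404) (nat_lit 284)) (XT.lf (nat_lit 0) (nat_lit 146217916) (nat_lit 0) (nat_lit 6251265784) (nat_lit 152) (nat_lit 146217916) (nat_lit 117) (nat_lit 3) (nat_lit 117) (nat_lit 1) (nat_lit 119) (nat_lit 1) (nat_lit 333) (nat_lit 404) (nat_lit 283))) (XT.nd (nat_lit 78) (nat_lit 76) (nat_lit 0) (XT.lf (nat_lit 76) (nat_lit 2360020511) (nat_lit 0) (nat_lit 1757246516) (nat_lit 152) (nat_lit 2360020511) (nat_lit 116) (nat_lit 1) (nat_lit 115) (nat_lit 1) (nat_lit 117) (nat_lit 1) (nat_lit 334) (nat_lit 404) (nat_lit 282)) (XT.nd (nat_lit 78) (nat_lit 0) (nat_lit 0) (XT.lf (nat_lit 152) (nat_lit 2650969499) (nat_lit 0) (nat_lit 1880585995) (nat_lit 76) (nat_lit 1880585995) (nat_lit 116) (nat_lit 1) (nat_lit 114) (nat_lit 1) (nat_lit 115) (nat_lit 1) (nat_lit 335) (nat_lit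 404) (nat_lit 281)) (XT.lf (nat_lit 0) (nat_lit 307957486) (nat_lit 0) (nat_lit 5732213444) (nat_lit 152) (nat_lit 307957486) (nat_lit 114) (nat_lit 3) (nat_lit 114) (nat_lit 1) (nat_lit 116) (nat_lit 1) (nat_lit 336) (nat_lit 404) (nat_lit 280)))))) (XT.nd (nat_lit 390) (nat_lit 380) (nat_lit 0) (XT.nd (nat_lit 156) (nat_lit 228) (nat_lit 0) (XT.nd (nat_lit 78) (nat_lit 76) (nat_lit 0) (XT.lf (nat_lit 76) (nat_lit 2447751409) (nat_lit 0) (nat_lit 1388431778) (nat_lit 152) (nat_lit 2447751409) (nat_lit 113) (nat_lit 1) (nat_lit 112) (nat_lit 1) (nat_lit 114) (nat_lit 1) (nat_lit 337) (nat_lit 404) (nat_lit 279)) (XT.lf (nat_lit 152) (nat_lit 2879114808) (nat_lit 0) (nat_lit 1670876299) (nat_lit 76) (nat_lit 1670876299) (nat_lit 113) (nat_lit 1) (nat_lit 111) (nat_lit 1) (nat_lit 112) (nat_lit 1) (nat_lit 338) (nat_lit 404) (nat_lit 278))) (XT.nd (nat_lit 78) (nat_lit 228) (nat_lit 0) (XT.lf (nat_lit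 0) (nat_lit 446475229) (nat_lit 0) (nat_lit 5265856392) (nat_lit 152) (nat_lit 446475229) (nat_lit 111) (nat_lit 3) (nat_lit 111) (nat_lit 1) (nat_lit 113) (nat_lit 1) (nat_lit 339) (nat_lit 404) (nat_lit 277)) (XT.nd (nat_lit 78) (nat_lit 76) (nat_lit 0) (XT.lf (nat_lit 76) (nat_lit 2515478679) (nat_lit 0) (nat_lit 1065779388) (nat_lit 152) (nat_lit 2515478679) (nat_lit 110) (nat_lit 1) (nat_lit 109) (nat_lit 1) (nat_lit 111) (nat_lit 1) (nat_lit 340) (nat_lit 404) (nat_lit 276)) (XT.lf (nat_lit 152) (nat_lit 3066563735) (nat_lit 0) (nat_lit 1484551950) (nat_lit 76) (nat_lit 1484551950) (nat_lit 110) (nat_lit 1) (nat_lit 108) (nat_lit 1) (nat_lit 109) (nat_lit 1) (nat_lit 341) (nat_lit 404) (nat_lit 275))))) (XT.nd (nat_lit 156) (nat_lit 228) (nat_lit 0) (XT.nd (nat_lit 78) (nat_lit 152) (nat_lit 0) (XT.lf (nat_lit 0) (nat_lit 564511721) (nat_lit 0) (nat_lit 4846469464) (nat_lit 152) (nat_lit 564511721)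 (nat_lit 108) (nat_lit 3) (nat_lit 108) (nat_lit 1) (nat_lit 110) (nat_lit 1) (nat_lit 342) (nat_lit 404) (nat_lit 274)) (XT.lf (nat_lit 76) (nat_lit 2565730667) (nat_lit 0) (nat_lit 783995004) (nat_lit 152) (nat_lit 2565730667) (nat_lit 107) (nat_lit 1) (nat_lit 106) (nat_lit 1) (nat_lit 108) (nat_lit 1) (nat_lit 343) (nat_lit 404) (nat_lit 273))) (XT.nd (nat_lit 78) (nat_lit 152) (nat_lit 0) (XT.lf (nat_lit 152) (nat_lit 3218298780) (nat_lit 0) (nat_lit 1319005180) (nat_lit 76) (nat_lit 1319005180) (nat_lit 107) (nat_lit 1) (nat_lit 105) (nat_lit 1) (nat_lit 106) (nat_lit 1) (nat_lit 344) (nat_lit 404) (nat_lit 272)) (XT.nd (nat_lit 78) (nat_lit 152) (nat_lit 0) (XT.lf (nat_lit 0) (nat_lit 664497531) (nat_lit 0) (nat_lit 4468961525) (nat_lit 152) (nat_lit 664497531) (nat_lit 105) (nat_lit 3) (nat_lit 105) (nat_lit 1) (nat_lit 107) (nat_lit 1) (nat_lit 345) (nat_lit 404) (nat_lit 271)) (XT.lf (nat_lit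 76) (nat_lit 2600745109) (nat_lit 0) (nat_lit 538378942) (nat_lit 152) (nat_lit 2600745109) (nat_lit 104) (nat_lit 1) (nat_lit 103) (nat_lit 1) (nat_lit 105) (nat_lit 1) (nat_lit 346) (nat_lit 404) (nat_lit 270))))))) (XT.nd (nat_lit 702) (nat_lit 836) (nat_lit 0) (XT.nd (nat_lit 312) (nat_lit 304) (nat_lit 0) (XT.nd (nat_lit 156) (nat_lit 228) (nat_lit 0) (XT.nd (nat_lit 78) (nat_lit 0) (nat_lit 0) (XT.lf (nat_lit 152) (nat_lit 3338733889) (nat_lit 0) (nat_lit 1171919018) (nat_lit 76) (nat_lit 1171919018) (nat_lit 104) (nat_lit 1) (nat_lit 102) (nat_lit 1) (nat_lit 103) (nat_lit 1) (nat_lit 347) (nat_lit 404) (nat_lit 269)) (XT.lf (nat_lit 0) (nat_lit 748587914) (nat_lit 0) (nat_lit 4128804897) (nat_lit 152) (nat_lit 748587914) (nat_lit 102) (nat_lit 3) (nat_lit 102) (nat_lit 1) (nat_lit 104) (nat_lit 1) (nat_lit 348) (nat_lit 404) (nat_lit 268))) (XT.nd (nat_lit 78) (nat_lit 76) (nat_lit 0) (XT.lf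 (nat_lit 76) (nat_lit 2622501783) (nat_lit 0) (nat_lit 324759742) (nat_lit 152) (nat_lit 2622501783) (nat_lit 101) (nat_lit 1) (nat_lit 100) (nat_lit 1) (nat_lit 102) (nat_lit 1) (nat_lit 349) (nat_lit 404) (nat_lit 267)) (XT.lf (nat_lit 152) (nat_lit 3431778231) (nat_lit 0) (nat_lit 1041234869) (nat_lit 76) (nat_lit 1041234869) (nat_lit 101) (nat_lit 1) (nat_lit 99) (nat_lit 1) (nat_lit 100) (nat_lit 1) (nat_lit 350) (nat_lit 404) (nat_lit 266)))) (XT.nd (nat_lit 156) (nat_lit 152) (nat_lit 0) (XT.nd (nat_lit 78) (nat_lit 152) (nat_lit 0) (XT.lf (nat_lit 0) (nat_lit 818693641) (nat_lit 0) (nat_lit 3821972649) (nat_lit 152) (nat_lit 818693641) (nat_lit 99) (nat_lit 3) (nat_lit 99) (nat_lit 1) (nat_lit 101) (nat_lit 1) (nat_lit 351) (nat_lit 404) (nat_lit 265)) (XT.lf (nat_lit 76) (nat_lit 2632751527) (nat_lit 0) (nat_lit 139435140) (nat_lit 152) (nat_lit 2632751527) (nat_lit 98) (nat_lit 1) (nat_lit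 97) (nat_lit 1) (nat_lit 99) (nat_lit 1) (nat_lit 352) (nat_lit 404) (nat_lit 264))) (XT.nd (nat_lit 78) (nat_lit 76) (nat_lit 0) (XT.lf (nat_lit 152) (nat_lit 3500892854) (nat_lit 0) (nat_lit 925123695) (nat_lit 76) (nat_lit 925123695) (nat_lit 98) (nat_lit 1) (nat_lit 96) (nat_lit 1) (nat_lit 97) (nat_lit 1) (nat_lit 353) (nat_lit 404) (nat_lit 263)) (XT.nd (nat_lit 78) (nat_lit 76) (nat_lit 0) (XT.lf (nat_lit 0) (nat_lit 876508380) (nat_lit 0) (nat_lit 3544882881) (nat_lit 152) (nat_lit 876508380) (nat_lit 96) (nat_lit 3) (nat_lit 96) (nat_lit 1) (nat_lit 98) (nat_lit 1) (nat_lit 354) (nat_lit 404) (nat_lit 262)) (XT.lf (nat_lit 76) (nat_lit 21295927) (nat_lit 0) (nat_lit 2611950782) (nat_lit 76) (nat_lit 2611950782) (nat_lit 96) (nat_lit 3) (nat_lit 95) (nat_lit 1) (nat_lit 96) (nat_lit 1) (nat_lit 355) (nat_lit 404) (nat_lit 261)))))) (XT.nd (nat_lit 390) (nat_lit 456) (nat_lit 0) (XT.nd (nat_lit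 156) (nat_lit 228) (nat_lit 0) (XT.nd (nat_lit 78) (nat_lit 0) (nat_lit 0) (XT.lf (nat_lit 152) (nat_lit 3549141009) (nat_lit 0) (nat_lit 821960420) (nat_lit 76) (nat_lit 821960420) (nat_lit 95) (nat_lit 1) (nat_lit 93) (nat_lit 1) (nat_lit 94) (nat_lit 1) (nat_lit 356) (nat_lit 404) (nat_lit 260)) (XT.lf (nat_lit 0) (nat_lit 923533027) (nat_lit 0) (nat_lit 3294349210) (nat_lit 152) (nat_lit 923533027) (nat_lit 93) (nat_lit 3) (nat_lit 93) (nat_lit 1) (nat_lit 95) (nat_lit 1) (nat_lit 357) (nat_lit 404) (nat_lit 259))) (XT.nd (nat_lit 78) (nat_lit 152) (nat_lit 0) (XT.lf (nat_lit 76) (nat_lit 162268558) (nat_lit 0) (nat_lit 2464031842) (nat_lit 76) (nat_lit 2464031842) (nat_lit 93) (nat_lit 3) (nat_lit 92) (nat_lit 1) (nat_lit 93) (nat_lit 1) (nat_lit 358) (nat_lit 404) (nat_lit 258)) (XT.nd (nat_lit 78) (nat_lit 0) (nat_lit 0) (XT.lf (nat_lit 152) (nat_lit 3579232859) (nat_lit 0) (nat_lit 730301187)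 (nat_lit 76) (nat_lit 730301187) (nat_lit 92) (nat_lit 1) (nat_lit 90) (nat_lit 1) (nat_lit 91) (nat_lit 1) (nat_lit 359) (nat_lit 404) (nat_lit 257)) (XT.lf (nat_lit 0) (nat_lit 961097312) (nat_lit 0) (nat_lit 3067536783) (nat_lit 152) (nat_lit 961097312) (nat_lit 90) (nat_lit 3) (nat_lit 90) (nat_lit 1) (nat_lit 92) (nat_lit 1) (nat_lit 360) (nat_lit 404) (nat_lit 256))))) (XT.nd (nat_lit 156) (nat_lit 228) (nat_lit 0) (XT.nd (nat_lit 78) (nat_lit 152) (nat_lit 0) (XT.lf (nat_lit 76) (nat_lit 283345748) (nat_lit 0) (nat_lit 2328432613) (nat_lit 76) (nat_lit 2328432613) (nat_lit 90) (nat_lit 3) (nat_lit 89) (nat_lit 1) (nat_lit 90) (nat_lit 1) (nat_lit 361) (nat_lit 404) (nat_lit 255)) (XT.lf (nat_lit 152) (nat_lit 3593565183) (nat_lit 0) (nat_lit 648863146) (nat_lit 76) (nat_lit 648863146) (nat_lit 89) (nat_lit 1) (nat_lit 87) (nat_lit 1) (nat_lit 88) (nat_lit 1) (nat_lit 362) (nat_lit 404) (nat_lit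 254))) (XT.nd (nat_lit 78) (nat_lit 228) (nat_lit 0) (XT.lf (nat_lit 0) (nat_lit 990378997) (nat_lit 0) (nat_lit 2861923185) (nat_lit 152) (nat_lit 990378997) (nat_lit 87) (nat_lit 3) (nat_lit 87) (nat_lit 1) (nat_lit 89) (nat_lit 1) (nat_lit 363) (nat_lit 404) (nat_lit 253)) (XT.nd (nat_lit 78) (nat_lit 152) (nat_lit 0) (XT.lf (nat_lit 76) (nat_lit 386867703) (nat_lit 0) (nat_lit 2203900894) (nat_lit 76) (nat_lit 2203900894) (nat_lit 87) (nat_lit 3) (nat_lit 86) (nat_lit 1) (nat_lit 87) (nat_lit 1) (nat_lit 364) (nat_lit 404) (nat_lit 252)) (XT.lf (nat_lit 152) (nat_lit 3594256652) (nat_lit 0) (nat_lit 576506501) (nat_lit 76) (nat_lit 576506501) (nat_lit 86) (nat_lit 1) (nat_lit 84) (nat_lit 1) (nat_lit 85) (nat_lit 1) (nat_lit 365) (nat_lit 404) (nat_lit 251))))))))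
noncomputable def ec328 : XT := (XT.nd (nat_lit 1404) (nat_lit 1368) (nat_lit 0) (XT.nd (nat_lit 702) (nat_lit 684) (nat_lit 0) (XT.nd (nat_lit 312) (nat_lit 456) (nat_lit 0) (XT.nd (nat_lit 156) (nat_lit 152) (nat_lit 0) (XT.nd (nat_lit 78) (nat_lit 76) (nat_lit 0) (XT.lf (nat_lit 0) (nat_lit 1012420935) (nat_lit 0) (nat_lit 2675263705) (nat_lit 152) (nat_lit 1012420935) (nat_lit 84) (nat_lit 3) (nat_lit 84) (nat_lit 1) (nat_lit 86) (nat_lit 1) (nat_lit 366) (nat_lit 404) (nat_lit 250)) (XT.lf (nat_lit 76) (nat_lit 474910123) (nat_lit 0) (nat_lit 2089320579) (nat_lit 76) (nat_lit 2089320579) (nat_lit 84) (nat_lit 3) (nat_lit 83) (nat_lit 1) (nat_lit 84) (nat_lit 1) (nat_lit 367) (nat_lit 404) (nat_lit 249))) (XT.nd (nat_lit 78) (nat_lit 0) (nat_lit 0) (XT.lf (nat_lit 152) (nat_lit 3583179153) (nat_lit 0) (nat_lit 512218559) (nat_lit 76) (nat_lit 512218559) (nat_lit 83) (nat_lit 1) (nat_lit 81) (nat_lit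 1) (nat_lit 82) (nat_lit 1) (nat_lit 368) (nat_lit 404) (nat_lit 248)) (XT.lf (nat_lit 0) (nat_lit 1028146211) (nat_lit 0) (nat_lit 2505560475) (nat_lit 152) (nat_lit 1028146211) (nat_lit 81) (nat_lit 3) (nat_lit 81) (nat_lit 1) (nat_lit 83) (nat_lit 1) (nat_lit 369) (nat_lit 404) (nat_lit 247)))) (XT.nd (nat_lit 156) (nat_lit 228) (nat_lit 0) (XT.nd (nat_lit 78) (nat_lit 152) (nat_lit 0) (XT.lf (nat_lit 76) (nat_lit 549313804) (nat_lit 0) (nat_lit 1983696584) (nat_lit 76) (nat_lit 1983696584) (nat_lit 81) (nat_lit 3) (nat_lit 80) (nat_lit 1) (nat_lit 81) (nat_lit 1) (nat_lit 370) (nat_lit 404) (nat_lit 246)) (XT.lf (nat_lit 152) (nat_lit 3561985618) (nat_lit 0) (nat_lit 455099555) (nat_lit 76) (nat_lit 455099555) (nat_lit 80) (nat_lit 1) (nat_lit 78) (nat_lit 1) (nat_lit 79) (nat_lit 1) (nat_lit 371) (nat_lit 404) (nat_lit 245))) (XT.nd (nat_lit 78) (nat_lit 228) (nat_lit 0) (XT.lf (nat_lit 0) (nat_lit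 1038371605) (nat_lit 0) (nat_lit 2351035043) (nat_lit 152) (nat_lit 1038371605) (nat_lit 78) (nat_lit 3) (nat_lit 78) (nat_lit 1) (nat_lit 80) (nat_lit 1) (nat_lit 372) (nat_lit 404) (nat_lit 244)) (XT.nd (nat_lit 78) (nat_lit 152) (nat_lit 0) (XT.lf (nat_lit 76) (nat_lit 611710929) (nat_lit 0) (nat_lit 1886141451) (nat_lit 76) (nat_lit 1886141451) (nat_lit 78) (nat_lit 3) (nat_lit 77) (nat_lit 1) (nat_lit 78) (nat_lit 1) (nat_lit 373) (nat_lit 404) (nat_lit 243)) (XT.lf (nat_lit 152) (nat_lit 3532134737) (nat_lit 0) (nat_lit 404350060) (nat_lit 76) (nat_lit 404350060) (nat_lit 77) (nat_lit 1) (nat_lit 75) (nat_lit 1) (nat_lit 76) (nat_lit 1) (nat_lit 374) (nat_lit 404) (nat_lit 242)))))) (XT.nd (nat_lit 312) (nat_lit 456) (nat_lit 0) (XT.nd (nat_lit 156) (nat_lit 152) (nat_lit 0) (XT.nd (nat_lit 78) (nat_lit 76) (nat_lit 0) (XT.lf (nat_lit 0) (nat_lit 1043819541) (nat_lit 0) (nat_lit 2210104004) (nat_lit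 152) (nat_lit 1043819541) (nat_lit 75) (nat_lit 3) (nat_lit 75) (nat_lit 1) (nat_lit 77) (nat_lit 1) (nat_lit 375) (nat_lit 404) (nat_lit 241)) (XT.lf (nat_lit 76) (nat_lit 663548430) (nat_lit 0) (nat_lit 1795863443) (nat_lit 76) (nat_lit 1795863443) (nat_lit 75) (nat_lit 3) (nat_lit 74) (nat_lit 1) (nat_lit 75) (nat_lit 1) (nat_lit 376) (nat_lit 404) (nat_lit 240))) (XT.nd (nat_lit 78) (nat_lit 0) (nat_lit 0) (XT.lf (nat_lit 152) (nat_lit 3494912908) (nat_lit 0) (nat_lit 359259792) (nat_lit 76) (nat_lit 359259792) (nat_lit 74) (nat_lit 1) (nat_lit 72) (nat_lit 1) (nat_lit 73) (nat_lit 1) (nat_lit 377) (nat_lit 404) (nat_lit 239)) (XT.lf (nat_lit 0) (nat_lit 1045128704) (nat_lit 0) (nat_lit 2081357344) (nat_lit 152) (nat_lit 1045128704) (nat_lit 72) (nat_lit 3) (nat_lit 72) (nat_lit 1) (nat_lit 74) (nat_lit 1) (nat_lit 378) (nat_lit 404) (nat_lit 238)))) (XT.nd (nat_lit 156) (nat_lit 228) (nat_lit 0)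 (XT.nd (nat_lit 78) (nat_lit 152) (nat_lit 0) (XT.lf (nat_lit 76) (nat_lit 706108742) (nat_lit 0) (nat_lit 1712155965) (nat_lit 76) (nat_lit 1712155965) (nat_lit 72) (nat_lit 3) (nat_lit 71) (nat_lit 1) (nat_lit 72) (nat_lit 1) (nat_lit 379) (nat_lit 404) (nat_lit 237)) (XT.lf (nat_lit 152) (nat_lit 3451453728) (nat_lit 0) (nat_lit 319197672) (nat_lit 76) (nat_lit 319197672) (nat_lit 71) (nat_lit 1) (nat_lit 69) (nat_lit 1) (nat_lit 70) (nat_lit 1) (nat_lit 380) (nat_lit 404) (nat_lit 236))) (XT.nd (nat_lit 78) (nat_lit 228) (nat_lit 0) (XT.lf (nat_lit 0) (nat_lit 1042863474) (nat_lit 0) (nat_lit 1963539199) (nat_lit 152) (nat_lit 1042863474) (nat_lit 69) (nat_lit 3) (nat_lit 69) (nat_lit 1) (nat_lit 71) (nat_lit 1) (nat_lit 381) (nat_lit 404) (nat_lit 235)) (XT.nd (nat_lit 78) (nat_lit 152) (nat_lit 0) (XT.lf (nat_lit 76) (nat_lit 740528235) (nat_lit 0) (nat_lit 1634388162) (nat_lit 76) (nat_lit 1634388162)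 (nat_lit 69) (nat_lit 3) (nat_lit 68) (nat_lit 1) (nat_lit 69) (nat_lit 1) (nat_lit 382) (nat_lit 404) (nat_lit 234)) (XT.lf (nat_lit 152) (nat_lit 3402755309) (nat_lit 0) (nat_lit 283602997) (nat_lit 76) (nat_lit 283602997) (nat_lit 68) (nat_lit 1) (nat_lit 66) (nat_lit 1) (nat_lit 67) (nat_lit 1) (nat_lit 383) (nat_lit 404) (nat_lit 233))))))) (XT.nd (nat_lit 702) (nat_lit 684) (nat_lit 0) (XT.nd (nat_lit 312) (nat_lit 456) (nat_lit 0) (XT.nd (nat_lit 156) (nat_lit 152) (nat_lit 0) (XT.nd (nat_lit 78) (nat_lit 76) (nat_lit 0) (XT.lf (nat_lit 0) (nat_lit 1037522298) (nat_lit 0) (nat_lit 1855530755) (nat_lit 152) (nat_lit 1037522298) (nat_lit 66) (nat_lit 3) (nat_lit 66) (nat_lit 1) (nat_lit 68) (nat_lit 1) (nat_lit 384) (nat_lit 404) (nat_lit 232)) (XT.lf (nat_lit 76) (nat_lit 767813594) (nat_lit 0) (nat_lit 1561996561) (nat_lit 76) (nat_lit 1561996561) (nat_lit 66) (nat_lit 3) (nat_lit 65) (nat_lit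 1) (nat_lit 66) (nat_lit 1) (nat_lit 385) (nat_lit 404) (nat_lit 231))) (XT.nd (nat_lit 78) (nat_lit 0) (nat_lit 0) (XT.lf (nat_lit 152) (nat_lit 3349695645) (nat_lit 0) (nat_lit 251977589) (nat_lit 76) (nat_lit 251977589) (nat_lit 65) (nat_lit 1) (nat_lit 63) (nat_lit 1) (nat_lit 64) (nat_lit 1) (nat_lit 386) (nat_lit 404) (nat_lit 230)) (XT.lf (nat_lit 0) (nat_lit 1029545133) (nat_lit 0) (nat_lit 1756335052) (nat_lit 152) (nat_lit 1029545133) (nat_lit 63) (nat_lit 3) (nat_lit 63) (nat_lit 1) (nat_lit 65) (nat_lit 1) (nat_lit 387) (nat_lit 404) (nat_lit 229)))) (XT.nd (nat_lit 156) (nat_lit 228) (nat_lit 0) (XT.nd (nat_lit 78) (nat_lit 152) (nat_lit 0) (XT.lf (nat_lit 76) (nat_lit 788856363) (nat_lit 0) (nat_lit 1494477644) (nat_lit 76) (nat_lit 1494477644) (nat_lit 63) (nat_lit 3) (nat_lit 62) (nat_lit 1) (nat_lit 63) (nat_lit 1) (nat_lit 388) (nat_lit 404) (nat_lit 228)) (XT.lf (nat_lit 152) (nat_lit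 3293046269) (nat_lit 0) (nat_lit 223878824) (nat_lit 76) (nat_lit 223878824) (nat_lit 62) (nat_lit 1) (nat_lit 60) (nat_lit 1) (nat_lit 61) (nat_lit 1) (nat_lit 389) (nat_lit 404) (nat_lit 227))) (XT.nd (nat_lit 78) (nat_lit 228) (nat_lit 0) (XT.lf (nat_lit 0) (nat_lit 1019320048) (nat_lit 0) (nat_lit 1665063478) (nat_lit 152) (nat_lit 1019320048) (nat_lit 60) (nat_lit 3) (nat_lit 60) (nat_lit 1) (nat_lit 62) (nat_lit 1) (nat_lit 390) (nat_lit 404) (nat_lit 226)) (XT.nd (nat_lit 78) (nat_lit 152) (nat_lit 0) (XT.lf (nat_lit 76) (nat_lit 804445875) (nat_lit 0) (nat_lit 1431381244) (nat_lit 76) (nat_lit 1431381244) (nat_lit 60) (nat_lit 3) (nat_lit 59) (nat_lit 1) (nat_lit 60) (nat_lit 1) (nat_lit 391) (nat_lit 404) (nat_lit 225)) (XT.lf (nat_lit 152) (nat_lit 3233484370) (nat_lit 0) (nat_lit 198913436) (nat_lit 76) (nat_lit 198913436) (nat_lit 59) (nat_lit 1) (nat_lit 57) (nat_lit 1) (nat_lit 58) (nat_lit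 1) (nat_lit 392) (nat_lit 404) (nat_lit 224)))))) (XT.nd (nat_lit 390) (nat_lit 380) (nat_lit 0) (XT.nd (nat_lit 156) (nat_lit 228) (nat_lit 0) (XT.nd (nat_lit 78) (nat_lit 76) (nat_lit 0) (XT.lf (nat_lit 0) (nat_lit 1007189100) (nat_lit 0) (nat_lit 1580923773) (nat_lit 152) (nat_lit 1007189100) (nat_lit 57) (nat_lit 3) (nat_lit 57) (nat_lit 1) (nat_lit 59) (nat_lit 1) (nat_lit 393) (nat_lit 404) (nat_lit 223)) (XT.lf (nat_lit 76) (nat_lit 815280725) (nat_lit 0) (nat_lit 1372304680) (nat_lit 76) (nat_lit 1372304680) (nat_lit 57) (nat_lit 3) (nat_lit 56) (nat_lit 1) (nat_lit 57) (nat_lit 1) (nat_lit 394) (nat_lit 404) (nat_lit 222))) (XT.nd (nat_lit 78) (nat_lit 76) (nat_lit 0) (XT.lf (nat_lit 152) (nat_lit 3171603557) (nat_lit 0) (nat_lit 176732011) (nat_lit 76) (nat_lit 176732011) (nat_lit 56) (nat_lit 1) (nat_lit 54) (nat_lit 1) (nat_lit 55) (nat_lit 1) (nat_lit 395) (nat_lit 404) (nat_lit 221)) (XT.nd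 (nat_lit 78) (nat_lit 76) (nat_lit 0) (XT.lf (nat_lit 0) (nat_lit 993453537) (nat_lit 0) (nat_lit 1503209364) (nat_lit 152) (nat_lit 993453537) (nat_lit 54) (nat_lit 3) (nat_lit 54) (nat_lit 1) (nat_lit 56) (nat_lit 1) (nat_lit 396) (nat_lit 404) (nat_lit 220)) (XT.lf (nat_lit 76) (nat_lit 821978970) (nat_lit 0) (nat_lit 1316887540) (nat_lit 76) (nat_lit 1316887540) (nat_lit 54) (nat_lit 3) (nat_lit 53) (nat_lit 1) (nat_lit 54) (nat_lit 1) (nat_lit 397) (nat_lit 404) (nat_lit 219))))) (XT.nd (nat_lit 156) (nat_lit 228) (nat_lit 0) (XT.nd (nat_lit 78) (nat_lit 0) (nat_lit 0) (XT.lf (nat_lit 152) (nat_lit 3107923413) (nat_lit 0) (nat_lit 157024103) (nat_lit 76) (nat_lit 157024103) (nat_lit 53) (nat_lit 1) (nat_lit 51) (nat_lit 1) (nat_lit 52) (nat_lit 1) (nat_lit 398) (nat_lit 404) (nat_lit 218)) (XT.lf (nat_lit 0) (nat_lit 978378433) (nat_lit 0) (nat_lit 1431289882) (nat_lit 152) (nat_lit 978378433)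 (nat_lit 51) (nat_lit 3) (nat_lit 51) (nat_lit 1) (nat_lit 53) (nat_lit 1) (nat_lit 399) (nat_lit 404) (nat_lit 217))) (XT.nd (nat_lit 78) (nat_lit 152) (nat_lit 0) (XT.lf (nat_lit 76) (nat_lit 825087189) (nat_lit 0) (nat_lit 1264807043) (nat_lit 76) (nat_lit 1264807043) (nat_lit 51) (nat_lit 3) (nat_lit 50) (nat_lit 1) (nat_lit 51) (nat_lit 1) (nat_lit 400) (nat_lit 404) (nat_lit 216)) (XT.nd (nat_lit 78) (nat_lit 0) (nat_lit 0) (XT.lf (nat_lit 152) (nat_lit 3042897983) (nat_lit 0) (nat_lit 139513882) (nat_lit 76) (nat_lit 139513882) (nat_lit 50) (nat_lit 1) (nat_lit 48) (nat_lit 1) (nat_lit 49) (nat_lit 1) (nat_lit 401) (nat_lit 404) (nat_lit 215)) (XT.lf (nat_lit 0) (nat_lit 962196791) (nat_lit 0) (nat_lit 1364602748) (nat_lit 152) (nat_lit 962196791) (nat_lit 48) (nat_lit 3) (nat_lit 48) (nat_lit 1) (nat_lit 50) (nat_lit 1) (nat_lit 402) (nat_lit 404) (nat_lit 214))))))))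
noncomputable def ec329 : XT := (XT.nd (nat_lit 1482) (nat_lit 380) (nat_lit 0) (XT.nd (nat_lit 702) (nat_lit 760) (nat_lit 0) (XT.nd (nat_lit 312) (nat_lit 380) (nat_lit 0) (XT.nd (nat_lit 156) (nat_lit 76) (nat_lit 0) (XT.nd (nat_lit 78) (nat_lit 152) (nat_lit 0) (XT.lf (nat_lit 76) (nat_lit 825088524) (nat_lit 0) (nat_lit 1215773919) (nat_lit 76) (nat_lit 1215773919) (nat_lit 48) (nat_lit 3) (nat_lit 47) (nat_lit 1) (nat_lit 48) (nat_lit 1) (nat_lit 403) (nat_lit 404) (nat_lit 213)) (XT.lf (nat_lit 152) (nat_lit 2976923294) (nat_lit 0) (nat_lit 123956277) (nat_lit 76) (nat_lit 123956277) (nat_lit 47) (nat_lit 1) (nat_lit 45) (nat_lit 1) (nat_lit 46) (nat_lit 1) (nat_lit 404) (nat_lit 404) (nat_lit 212))) (XT.nd (nat_lit 78) (nat_lit 76) (nat_lit 0) (XT.lf (nat_lit 0) (nat_lit 945113198) (nat_lit 0) (nat_lit 1302645678) (nat_lit 152) (nat_lit 945113198) (nat_lit 45) (nat_lit 3) (nat_lit 45) (nat_lit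 1) (nat_lit 47) (nat_lit 1) (nat_lit 405) (nat_lit 404) (nat_lit 211)) (XT.lf (nat_lit 76) (nat_lit 822409829) (nat_lit 0) (nat_lit 1169528742) (nat_lit 76) (nat_lit 1169528742) (nat_lit 45) (nat_lit 3) (nat_lit 44) (nat_lit 1) (nat_lit 45) (nat_lit 1) (nat_lit 406) (nat_lit 404) (nat_lit 210)))) (XT.nd (nat_lit 156) (nat_lit 228) (nat_lit 0) (XT.nd (nat_lit 78) (nat_lit 0) (nat_lit 0) (XT.lf (nat_lit 152) (nat_lit 2910344050) (nat_lit 0) (nat_lit 110133546) (nat_lit 76) (nat_lit 110133546) (nat_lit 44) (nat_lit 1) (nat_lit 42) (nat_lit 1) (nat_lit 43) (nat_lit 1) (nat_lit 407) (nat_lit 404) (nat_lit 209)) (XT.lf (nat_lit 0) (nat_lit 927307060) (nat_lit 0) (nat_lit 1244970038) (nat_lit 152) (nat_lit 927307060) (nat_lit 42) (nat_lit 3) (nat_lit 42) (nat_lit 1) (nat_lit 44) (nat_lit 1) (nat_lit 408) (nat_lit 404) (nat_lit 208))) (XT.nd (nat_lit 78) (nat_lit 152) (nat_lit 0) (XT.lf (nat_lit 76) (nat_lit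 817428017) (nat_lit 0) (nat_lit 1125838676) (nat_lit 76) (nat_lit 1125838676) (nat_lit 42) (nat_lit 3) (nat_lit 41) (nat_lit 1) (nat_lit 42) (nat_lit 1) (nat_lit 409) (nat_lit 404) (nat_lit 207)) (XT.nd (nat_lit 78) (nat_lit 0) (nat_lit 0) (XT.lf (nat_lit 152) (nat_lit 2843459557) (nat_lit 0) (nat_lit 97852229) (nat_lit 76) (nat_lit 97852229) (nat_lit 41) (nat_lit 1) (nat_lit 39) (nat_lit 1) (nat_lit 40) (nat_lit 1) (nat_lit 410) (nat_lit 404) (nat_lit 206)) (XT.lf (nat_lit 0) (nat_lit 908935482) (nat_lit 0) (nat_lit 1191174923) (nat_lit 152) (nat_lit 908935482) (nat_lit 39) (nat_lit 3) (nat_lit 39) (nat_lit 1) (nat_lit 41) (nat_lit 1) (nat_lit 411) (nat_lit 404) (nat_lit 205)))))) (XT.nd (nat_lit 390) (nat_lit 304) (nat_lit 0) (XT.nd (nat_lit 156) (nat_lit 228) (nat_lit 0) (XT.nd (nat_lit 78) (nat_lit 152) (nat_lit 0) (XT.lf (nat_lit 76) (nat_lit 810475697) (nat_lit 0) (nat_lit 1084494573) (nat_lit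 76) (nat_lit 1084494573) (nat_lit 39) (nat_lit 3) (nat_lit 38) (nat_lit 1) (nat_lit 39) (nat_lit 1) (nat_lit 412) (nat_lit 404) (nat_lit 204)) (XT.lf (nat_lit 152) (nat_lit 2776528991) (nat_lit 0) (nat_lit 86940438) (nat_lit 76) (nat_lit 86940438) (nat_lit 38) (nat_lit 1) (nat_lit 36) (nat_lit 1) (nat_lit 37) (nat_lit 1) (nat_lit 413) (nat_lit 404) (nat_lit 203))) (XT.nd (nat_lit 78) (nat_lit 228) (nat_lit 0) (XT.lf (nat_lit 0) (nat_lit 890135820) (nat_lit 0) (nat_lit 1140901908) (nat_lit 152) (nat_lit 890135820) (nat_lit 36) (nat_lit 3) (nat_lit 36) (nat_lit 1) (nat_lit 38) (nat_lit 1) (nat_lit 414) (nat_lit 404) (nat_lit 202)) (XT.nd (nat_lit 78) (nat_lit 152) (nat_lit 0) (XT.lf (nat_lit 76) (nat_lit 801846180) (nat_lit 0) (nat_lit 1045308402) (nat_lit 76) (nat_lit 1045308402) (nat_lit 36) (nat_lit 3) (nat_lit 35) (nat_lit 1) (nat_lit 36) (nat_lit 1) (nat_lit 415) (nat_lit 404) (nat_lit 201)) (XT.lf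 (nat_lit 152) (nat_lit 2709776070) (nat_lit 0) (nat_lit 77245453) (nat_lit 76) (nat_lit 77245453) (nat_lit 35) (nat_lit 1) (nat_lit 33) (nat_lit 1) (nat_lit 34) (nat_lit 1) (nat_lit 416) (nat_lit 404) (nat_lit 200))))) (XT.nd (nat_lit 156) (nat_lit 228) (nat_lit 0) (XT.nd (nat_lit 78) (nat_lit 76) (nat_lit 0) (XT.lf (nat_lit 0) (nat_lit 871027950) (nat_lit 0) (nat_lit 1093830371) (nat_lit 152) (nat_lit 871027950) (nat_lit 33) (nat_lit 3) (nat_lit 33) (nat_lit 1) (nat_lit 35) (nat_lit 1) (nat_lit 417) (nat_lit 404) (nat_lit 199)) (XT.lf (nat_lit 76) (nat_lit 791797927) (nat_lit 0) (nat_lit 1008110958) (nat_lit 76) (nat_lit 1008110958) (nat_lit 33) (nat_lit 3) (nat_lit 32) (nat_lit 1) (nat_lit 33) (nat_lit 1) (nat_lit 418) (nat_lit 404) (nat_lit 198))) (XT.nd (nat_lit 78) (nat_lit 76) (nat_lit 0) (XT.lf (nat_lit 152) (nat_lit 2643393196) (nat_lit 0) (nat_lit 68631585) (nat_lit 76) (nat_lit 68631585) (nat_lit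 32) (nat_lit 1) (nat_lit 30) (nat_lit 1) (nat_lit 31) (nat_lit 1) (nat_lit 419) (nat_lit 404) (nat_lit 197)) (XT.nd (nat_lit 78) (nat_lit 76) (nat_lit 0) (XT.lf (nat_lit 0) (nat_lit 851716278) (nat_lit 0) (nat_lit 1049673343) (nat_lit 152) (nat_lit 851716278) (nat_lit 30) (nat_lit 3) (nat_lit 30) (nat_lit 1) (nat_lit 32) (nat_lit 1) (nat_lit 420) (nat_lit 404) (nat_lit 196)) (XT.lf (nat_lit 76) (nat_lit 780558495) (nat_lit 0) (nat_lit 972749821) (nat_lit 76) (nat_lit 972749821) (nat_lit 30) (nat_lit 3) (nat_lit 29) (nat_lit 1) (nat_lit 30) (nat_lit 1) (nat_lit 421) (nat_lit 404) (nat_lit 195))))))) (XT.nd (nat_lit 36972) (nat_lit 0) (nat_lit 25764) (XT.nd (nat_lit 36582) (nat_lit 0) (nat_lit 26600) (XT.nd (nat_lit 156) (nat_lit 228) (nat_lit 0) (XT.nd (nat_lit 78) (nat_lit 0) (nat_lit 0) (XT.lf (nat_lit 152) (nat_lit 2577545137) (nat_lit 0) (nat_lit 60978274) (nat_lit 76) (nat_lit 60978274) (nat_lit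 29) (nat_lit 1) (nat_lit 27) (nat_lit 1) (nat_lit 28) (nat_lit 1) (nat_lit 422) (nat_lit 404) (nat_lit 194)) (XT.lf (nat_lit 0) (nat_lit 832291528) (nat_lit 0) (nat_lit 1008173817) (nat_lit 152) (nat_lit 832291528) (nat_lit 27) (nat_lit 3) (nat_lit 27) (nat_lit 1) (nat_lit 29) (nat_lit 1) (nat_lit 423) (nat_lit 404) (nat_lit 193))) (XT.nd (nat_lit 78) (nat_lit 152) (nat_lit 0) (XT.lf (nat_lit 76) (nat_lit 768328048) (nat_lit 0) (nat_lit 939087551) (nat_lit 76) (nat_lit 939087551) (nat_lit 27) (nat_lit 3) (nat_lit 26) (nat_lit 1) (nat_lit 27) (nat_lit 1) (nat_lit 424) (nat_lit 404) (nat_lit 192)) (XT.lf (nat_lit 152) (nat_lit 2512372284) (nat_lit 0) (nat_lit 54178407) (nat_lit 76) (nat_lit 54178407) (nat_lit 26) (nat_lit 1) (nat_lit 24) (nat_lit 1) (nat_lit 25) (nat_lit 1) (nat_lit 425) (nat_lit 404) (nat_lit 191)))) (XT.nd (nat_lit 156) (nat_lit 0) (nat_lit 76) (XT.nd (nat_lit 78) (nat_lit 0) (nat_lit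 0) (XT.lf (nat_lit 1292) (nat_lit 2547324561) (nat_lit 0) (nat_lit 8763981174) (nat_lit 1292) (nat_lit 2547324561) (nat_lit 391) (nat_lit 1) (nat_lit 374) (nat_lit 0) (nat_lit 391) (nat_lit 0) (nat_lit 210) (nat_lit 405) (nat_lit 405)) (XT.lf (nat_lit 1292) (nat_lit 9954989025) (nat_lit 76) (nat_lit 8678059790) (nat_lit 0) (nat_lit 8678059790) (nat_lit 391) (nat_lit 1) (nat_lit 375) (nat_lit 1) (nat_lit 374) (nat_lit 0) (nat_lit 211) (nat_lit 405) (nat_lit 404))) (XT.nd (nat_lit 78) (nat_lit 0) (nat_lit 0) (XT.lf (nat_lit 1292) (nat_lit 4814470047) (nat_lit 0) (nat_lit 17284975387) (nat_lit 1216) (nat_lit 4814470047) (nat_lit 392) (nat_lit 1) (nat_lit 375) (nat_lit 1) (nat_lit 391) (nat_lit 1) (nat_lit 212) (nat_lit 405) (nat_lit 403)) (XT.nd (nat_lit 78) (nat_lit 0) (nat_lit 76) (XT.lf (nat_lit 1292) (nat_lit 9142927193) (nat_lit 76) (nat_lit 8690214076) (nat_lit 0) (nat_lit 8690214076) (nat_lit 392)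 (nat_lit 1) (nat_lit 376) (nat_lit 1) (nat_lit 375) (nat_lit 1) (nat_lit 213) (nat_lit 405) (nat_lit 402)) (XT.lf (nat_lit 1292) (nat_lit 4290272987) (nat_lit 0) (nat_lit 17560988149) (nat_lit 1216) (nat_lit 4290272987) (nat_lit 393) (nat_lit 1) (nat_lit 376) (nat_lit 1) (nat_lit 392) (nat_lit 1) (nat_lit 214) (nat_lit 405) (nat_lit 401)))))) (XT.nd (nat_lit 390) (nat_lit 988) (nat_lit 0) (XT.nd (nat_lit 156) (nat_lit 0) (nat_lit 76) (XT.nd (nat_lit 78) (nat_lit 0) (nat_lit 76) (XT.lf (nat_lit 1292) (nat_lit 7862378241) (nat_lit 76) (nat_lit 8951720554) (nat_lit 0) (nat_lit 8951720554) (nat_lit 393) (nat_lit 1) (nat_lit 377) (nat_lit 1) (nat_lit 376) (nat_lit 1) (nat_lit 215) (nat_lit 405) (nat_lit 400)) (XT.lf (nat_lit 1292) (nat_lit 3543641343) (nat_lit 0) (nat_lit 18311497699) (nat_lit 1216) (nat_lit 3543641343) (nat_lit 394) (nat_lit 1) (nat_lit 377) (nat_lit 1) (nat_lit 393) (nat_lit 1) (nat_lit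 216) (nat_lit 405) (nat_lit 399))) (XT.nd (nat_lit 78) (nat_lit 0) (nat_lit 76) (XT.lf (nat_lit 1292) (nat_lit 6155238242) (nat_lit 76) (nat_lit 9440982382) (nat_lit 0) (nat_lit 9440982382) (nat_lit 394) (nat_lit 1) (nat_lit 378) (nat_lit 1) (nat_lit 377) (nat_lit 1) (nat_lit 217) (nat_lit 405) (nat_lit 398)) (XT.nd (nat_lit 78) (nat_lit 0) (nat_lit 0) (XT.lf (nat_lit 1292) (nat_lit 2594698885) (nat_lit 0) (nat_lit 19494984200) (nat_lit 1216) (nat_lit 2594698885) (nat_lit 395) (nat_lit 1) (nat_lit 378) (nat_lit 1) (nat_lit 394) (nat_lit 1) (nat_lit 218) (nat_lit 405) (nat_lit 397)) (XT.lf (nat_lit 1292) (nat_lit 4060561279) (nat_lit 76) (nat_lit 10137854591) (nat_lit 0) (nat_lit 10137854591) (nat_lit 395) (nat_lit 1) (nat_lit 379) (nat_lit 1) (nat_lit 378) (nat_lit 1) (nat_lit 219) (nat_lit 405) (nat_lit 396))))) (XT.nd (nat_lit 156) (nat_lit 1216) (nat_lit 0) (XT.nd (nat_lit 78) (nat_lit 0) (nat_lit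 0) (XT.lf (nat_lit 1292) (nat_lit 1462199971) (nat_lit 0) (nat_lit 21072727201) (nat_lit 1216) (nat_lit 1462199971) (nat_lit 396) (nat_lit 1) (nat_lit 379) (nat_lit 1) (nat_lit 395) (nat_lit 1) (nat_lit 220) (nat_lit 405) (nat_lit 395)) (XT.lf (nat_lit 1292) (nat_lit 1614735320) (nat_lit 76) (nat_lit 11023554563) (nat_lit 0) (nat_lit 11023554563) (nat_lit 396) (nat_lit 1) (nat_lit 380) (nat_lit 1) (nat_lit 379) (nat_lit 1) (nat_lit 221) (nat_lit 405) (nat_lit 394))) (XT.nd (nat_lit 78) (nat_lit 1292) (nat_lit 0) (XT.lf (nat_lit 1292) (nat_lit 163614395) (nat_lit 0) (nat_lit 23008632819) (nat_lit 1216) (nat_lit 163614395) (nat_lit 397) (nat_lit 1) (nat_lit 380) (nat_lit 1) (nat_lit 396) (nat_lit 1) (nat_lit 222) (nat_lit 405) (nat_lit 393)) (XT.nd (nat_lit 78) (nat_lit 0) (nat_lit 0) (XT.lf (nat_lit 1368) (nat_lit 10943264114) (nat_lit 0) (nat_lit 1125943889) (nat_lit 1292) (nat_lit 10943264114) (nat_lit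 381) (nat_lit 1) (nat_lit 363) (nat_lit 1) (nat_lit 380) (nat_lit 1) (nat_lit 223) (nat_lit 405) (nat_lit 392)) (XT.lf (nat_lit 1368) (nat_lit 20153602446) (nat_lit 76) (nat_lit 1272196808) (nat_lit 0) (nat_lit 1272196808) (nat_lit 381) (nat_lit 1) (nat_lit 364) (nat_lit 1) (nat_lit 363) (nat_lit 1) (nat_lit 224) (nat_lit 405) (nat_lit 391))))))))
noncomputable def ec330 : XT := (XT.nd (nat_lit 1482) (nat_lit 4484) (nat_lit 0) (XT.nd (nat_lit 702) (nat_lit 3344) (nat_lit 0) (XT.nd (nat_lit 312) (nat_lit 1216) (nat_lit 0) (XT.nd (nat_lit 156) (nat_lit 760) (nat_lit 0) (XT.nd (nat_lit 78) (nat_lit 0) (nat_lit 0) (XT.lf (nat_lit 1368) (nat_lit 9135804806) (nat_lit 0) (nat_lit 4115258031) (nat_lit 1292) (nat_lit 9135804806) (nat_lit 382) (nat_lit 1) (nat_lit 364) (nat_lit 1) (nat_lit 381) (nat_lit 1) (nat_lit 225) (nat_lit 405) (nat_lit 390)) (XT.lf (nat_lit 1368) (nat_lit 16404086436) (nat_lit 76) (nat_lit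 2839769832) (nat_lit 0) (nat_lit 2839769832) (nat_lit 382) (nat_lit 1) (nat_lit 365) (nat_lit 1) (nat_lit 364) (nat_lit 1) (nat_lit 226) (nat_lit 405) (nat_lit 389))) (XT.nd (nat_lit 78) (nat_lit 836) (nat_lit 0) (XT.lf (nat_lit 76) (nat_lit 7214270220) (nat_lit 0) (nat_lit 7355945809) (nat_lit 1292) (nat_lit 7214270220) (nat_lit 366) (nat_lit 1) (nat_lit 365) (nat_lit 1) (nat_lit 382) (nat_lit 1) (nat_lit 227) (nat_lit 405) (nat_lit 388)) (XT.lf (nat_lit 912) (nat_lit 12438417506) (nat_lit 0) (nat_lit 4526770604) (nat_lit 836) (nat_lit 4526770604) (nat_lit 366) (nat_lit 1) (nat_lit 354) (nat_lit 1) (nat_lit 365) (nat_lit 1) (nat_lit 228) (nat_lit 405) (nat_lit 387)))) (XT.nd (nat_lit 156) (nat_lit 608) (nat_lit 0) (XT.nd (nat_lit 78) (nat_lit 608) (nat_lit 0) (XT.lf (nat_lit 76) (nat_lit 5191553333) (nat_lit 0) (nat_lit 10821257759) (nat_lit 912) (nat_lit 5191553333) (nat_lit 355) (nat_lit 1) (nat_lit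 354) (nat_lit 1) (nat_lit 366) (nat_lit 1) (nat_lit 229) (nat_lit 405) (nat_lit 386)) (XT.lf (nat_lit 684) (nat_lit 8281568489) (nat_lit 0) (nat_lit 6320244080) (nat_lit 608) (nat_lit 6320244080) (nat_lit 355) (nat_lit 1) (nat_lit 346) (nat_lit 1) (nat_lit 354) (nat_lit 1) (nat_lit 230) (nat_lit 405) (nat_lit 385))) (XT.nd (nat_lit 78) (nat_lit 608) (nat_lit 0) (XT.lf (nat_lit 76) (nat_lit 3079622216) (nat_lit 0) (nat_lit 14486338771) (nat_lit 684) (nat_lit 3079622216) (nat_lit 347) (nat_lit 1) (nat_lit 346) (nat_lit 1) (nat_lit 355) (nat_lit 1) (nat_lit 231) (nat_lit 405) (nat_lit 384)) (XT.nd (nat_lit 78) (nat_lit 0) (nat_lit 0) (XT.lf (nat_lit 684) (nat_lit 3956712711) (nat_lit 0) (nat_lit 8208156540) (nat_lit 608) (nat_lit 8208156540) (nat_lit 347) (nat_lit 1) (nat_lit 338) (nat_lit 1) (nat_lit 346) (nat_lit 1) (nat_lit 232) (nat_lit 405) (nat_lit 383)) (XT.lf (nat_lit 76) (nat_lit 889578512) (nat_lit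 0) (nat_lit 18328108891) (nat_lit 684) (nat_lit 889578512) (nat_lit 339) (nat_lit 1) (nat_lit 338) (nat_lit 1) (nat_lit 347) (nat_lit 1) (nat_lit 233) (nat_lit 405) (nat_lit 382)))))) (XT.nd (nat_lit 390) (nat_lit 1596) (nat_lit 0) (XT.nd (nat_lit 156) (nat_lit 532) (nat_lit 0) (XT.nd (nat_lit 78) (nat_lit 608) (nat_lit 0) (XT.lf (nat_lit 76) (nat_lit 9669622725) (nat_lit 0) (nat_lit 504619139) (nat_lit 608) (nat_lit 9669622725) (nat_lit 331) (nat_lit 1) (nat_lit 330) (nat_lit 1) (nat_lit 338) (nat_lit 1) (nat_lit 234) (nat_lit 405) (nat_lit 381)) (XT.lf (nat_lit 684) (nat_lit 16877243741) (nat_lit 0) (nat_lit 1354873014) (nat_lit 608) (nat_lit 1354873014) (nat_lit 331) (nat_lit 1) (nat_lit 322) (nat_lit 1) (nat_lit 330) (nat_lit 1) (nat_lit 235) (nat_lit 405) (nat_lit 380))) (XT.nd (nat_lit 78) (nat_lit 532) (nat_lit 0) (XT.lf (nat_lit 76) (nat_lit 7159924697) (nat_lit 0) (nat_lit 5012880312) (nat_lit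 684) (nat_lit 7159924697) (nat_lit 323) (nat_lit 1) (nat_lit 322) (nat_lit 1) (nat_lit 331) (nat_lit 1) (nat_lit 236) (nat_lit 405) (nat_lit 379)) (XT.nd (nat_lit 78) (nat_lit 0) (nat_lit 0) (XT.lf (nat_lit 608) (nat_lit 11787796378) (nat_lit 0) (nat_lit 3648323733) (nat_lit 532) (nat_lit 3648323733) (nat_lit 323) (nat_lit 1) (nat_lit 315) (nat_lit 1) (nat_lit 322) (nat_lit 1) (nat_lit 237) (nat_lit 405) (nat_lit 378)) (XT.lf (nat_lit 76) (nat_lit 4606390811) (nat_lit 0) (nat_lit 9627208641) (nat_lit 608) (nat_lit 4606390811) (nat_lit 316) (nat_lit 1) (nat_lit 315) (nat_lit 1) (nat_lit 323) (nat_lit 1) (nat_lit 238) (nat_lit 405) (nat_lit 377))))) (XT.nd (nat_lit 156) (nat_lit 1064) (nat_lit 0) (XT.nd (nat_lit 78) (nat_lit 0) (nat_lit 0) (XT.lf (nat_lit 608) (nat_lit 6618382899) (nat_lit 0) (nat_lit 5990762366) (nat_lit 532) (nat_lit 5990762366) (nat_lit 316) (nat_lit 1) (nat_lit 308) (nat_lit 1) (nat_lit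 315) (nat_lit 1) (nat_lit 239) (nat_lit 405) (nat_lit 376)) (XT.lf (nat_lit 76) (nat_lit 2017010321) (nat_lit 0) (nat_lit 14330888454) (nat_lit 608) (nat_lit 2017010321) (nat_lit 309) (nat_lit 1) (nat_lit 308) (nat_lit 1) (nat_lit 316) (nat_lit 1) (nat_lit 240) (nat_lit 405) (nat_lit 375))) (XT.nd (nat_lit 78) (nat_lit 608) (nat_lit 0) (XT.lf (nat_lit 532) (nat_lit 1384432167) (nat_lit 0) (nat_lit 8374115406) (nat_lit 456) (nat_lit 8374115406) (nat_lit 309) (nat_lit 1) (nat_lit 302) (nat_lit 1) (nat_lit 308) (nat_lit 1) (nat_lit 241) (nat_lit 405) (nat_lit 374)) (XT.nd (nat_lit 78) (nat_lit 0) (nat_lit 0) (XT.lf (nat_lit 608) (nat_lit 16716175697) (nat_lit 0) (nat_lit 594954896) (nat_lit 532) (nat_lit 594954896) (nat_lit 302) (nat_lit 1) (nat_lit 294) (nat_lit 1) (nat_lit 301) (nat_lit 1) (nat_lit 242) (nat_lit 405) (nat_lit 373)) (XT.lf (nat_lit 76) (nat_lit 6928585264) (nat_lit 0) (nat_lit 3823728618)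 (nat_lit 608) (nat_lit 6928585264) (nat_lit 295) (nat_lit 1) (nat_lit 294) (nat_lit 1) (nat_lit 302) (nat_lit 1) (nat_lit 243) (nat_lit 405) (nat_lit 372))))))) (XT.nd (nat_lit 702) (nat_lit 2280) (nat_lit 0) (XT.nd (nat_lit 312) (nat_lit 1292) (nat_lit 0) (XT.nd (nat_lit 156) (nat_lit 456) (nat_lit 0) (XT.nd (nat_lit 78) (nat_lit 0) (nat_lit 0) (XT.lf (nat_lit 532) (nat_lit 11043949820) (nat_lit 0) (nat_lit 3208614970) (nat_lit 456) (nat_lit 3208614970) (nat_lit 295) (nat_lit 1) (nat_lit 288) (nat_lit 1) (nat_lit 294) (nat_lit 1) (nat_lit 244) (nat_lit 405) (nat_lit 371)) (XT.lf (nat_lit 76) (nat_lit 4101660770) (nat_lit 0) (nat_lit 9041353592) (nat_lit 532) (nat_lit 4101660770) (nat_lit 289) (nat_lit 1) (nat_lit 288) (nat_lit 1) (nat_lit 295) (nat_lit 1) (nat_lit 245) (nat_lit 405) (nat_lit 370))) (XT.nd (nat_lit 78) (nat_lit 0) (nat_lit 0) (XT.lf (nat_lit 532) (nat_lit 5356789286) (nat_lit 0) (nat_lit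 5837552705) (nat_lit 456) (nat_lit 5837552705) (nat_lit 289) (nat_lit 1) (nat_lit 282) (nat_lit 1) (nat_lit 288) (nat_lit 1) (nat_lit 246) (nat_lit 405) (nat_lit 369)) (XT.lf (nat_lit 76) (nat_lit 1270064110) (nat_lit 0) (nat_lit 14283638746) (nat_lit 532) (nat_lit 1270064110) (nat_lit 283) (nat_lit 1) (nat_lit 282) (nat_lit 1) (nat_lit 289) (nat_lit 1) (nat_lit 247) (nat_lit 405) (nat_lit 368)))) (XT.nd (nat_lit 156) (nat_lit 380) (nat_lit 0) (XT.nd (nat_lit 78) (nat_lit 456) (nat_lit 0) (XT.lf (nat_lit 76) (nat_lit 8144762032) (nat_lit 0) (nat_lit 328001964) (nat_lit 456) (nat_lit 8144762032) (nat_lit 277) (nat_lit 1) (nat_lit 276) (nat_lit 1) (nat_lit 282) (nat_lit 1) (nat_lit 248) (nat_lit 405) (nat_lit 367)) (XT.lf (nat_lit 532) (nat_lit 13324230360) (nat_lit 0) (nat_lit 1545769270) (nat_lit 456) (nat_lit 1545769270) (nat_lit 277) (nat_lit 1) (nat_lit 270) (nat_lit 1) (nat_lit 276) (nat_lit 1)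 (nat_lit 249) (nat_lit 405) (nat_lit 366))) (XT.nd (nat_lit 78) (nat_lit 380) (nat_lit 0) (XT.lf (nat_lit 76) (nat_lit 5156690680) (nat_lit 0) (nat_lit 5902664413) (nat_lit 532) (nat_lit 5156690680) (nat_lit 271) (nat_lit 1) (nat_lit 270) (nat_lit 1) (nat_lit 277) (nat_lit 1) (nat_lit 250) (nat_lit 405) (nat_lit 365)) (XT.nd (nat_lit 78) (nat_lit 0) (nat_lit 0) (XT.lf (nat_lit 456) (nat_lit 7332357734) (nat_lit 0) (nat_lit 4344048290) (nat_lit 380) (nat_lit 4344048290) (nat_lit 271) (nat_lit 1) (nat_lit 265) (nat_lit 1) (nat_lit 270) (nat_lit 1) (nat_lit 251) (nat_lit 405) (nat_lit 364)) (XT.lf (nat_lit 76) (nat_lit 2182781218) (nat_lit 0) (nat_lit 11462882763) (nat_lit 456) (nat_lit 2182781218) (nat_lit 266) (nat_lit 1) (nat_lit 265) (nat_lit 1) (nat_lit 271) (nat_lit 1) (nat_lit 252) (nat_lit 405) (nat_lit 363)))))) (XT.nd (nat_lit 390) (nat_lit 1064) (nat_lit 0) (XT.nd (nat_lit 156) (nat_lit 380)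 (nat_lit 0) (XT.nd (nat_lit 78) (nat_lit 456) (nat_lit 0) (XT.lf (nat_lit 456) (nat_lit 1372797449) (nat_lit 0) (nat_lit 7132978947) (nat_lit 380) (nat_lit 7132978947) (nat_lit 266) (nat_lit 1) (nat_lit 260) (nat_lit 1) (nat_lit 265) (nat_lit 1) (nat_lit 253) (nat_lit 405) (nat_lit 362)) (XT.lf (nat_lit 456) (nat_lit 13922067179) (nat_lit 0) (nat_lit 765615488) (nat_lit 380) (nat_lit 765615488) (nat_lit 260) (nat_lit 1) (nat_lit 254) (nat_lit 1) (nat_lit 259) (nat_lit 1) (nat_lit 254) (nat_lit 405) (nat_lit 361))) (XT.nd (nat_lit 78) (nat_lit 380) (nat_lit 0) (XT.lf (nat_lit 76) (nat_lit 5405173981) (nat_lit 0) (nat_lit 4458495494) (nat_lit 456) (nat_lit 5405173981) (nat_lit 255) (nat_lit 1) (nat_lit 254) (nat_lit 1) (nat_lit 260) (nat_lit 1) (nat_lit 255) (nat_lit 405) (nat_lit 360)) (XT.nd (nat_lit 78) (nat_lit 0) (nat_lit 0) (XT.lf (nat_lit 456) (nat_lit 7745550603) (nat_lit 0) (nat_lit 3671468746)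 (nat_lit 380) (nat_lit 3671468746) (nat_lit 255) (nat_lit 1) (nat_lit 249) (nat_lit 1) (nat_lit 254) (nat_lit 1) (nat_lit 256) (nat_lit 405) (nat_lit 359)) (XT.lf (nat_lit 76) (nat_lit 2346665283) (nat_lit 0) (nat_lit 10217821587) (nat_lit 456) (nat_lit 2346665283) (nat_lit 250) (nat_lit 1) (nat_lit 249) (nat_lit 1) (nat_lit 255) (nat_lit 1) (nat_lit 257) (nat_lit 405) (nat_lit 358))))) (XT.nd (nat_lit 156) (nat_lit 304) (nat_lit 0) (XT.nd (nat_lit 78) (nat_lit 456) (nat_lit 0) (XT.lf (nat_lit 380) (nat_lit 1629835422) (nat_lit 0) (nat_lit 6553114102) (nat_lit 304) (nat_lit 6553114102) (nat_lit 250) (nat_lit 1) (nat_lit 245) (nat_lit 1) (nat_lit 249) (nat_lit 1) (nat_lit 258) (nat_lit 405) (nat_lit 357)) (XT.lf (nat_lit 456) (nat_lit 13217586293) (nat_lit 0) (nat_lit 673614892) (nat_lit 380) (nat_lit 673614892) (nat_lit 245) (nat_lit 1) (nat_lit 239) (nat_lit 1) (nat_lit 244) (nat_lit 1) (nat_lit 259)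 (nat_lit 405) (nat_lit 356))) (XT.nd (nat_lit 78) (nat_lit 304) (nat_lit 0) (XT.lf (nat_lit 76) (nat_lit 5030263043) (nat_lit 0) (nat_lit 4333762248) (nat_lit 456) (nat_lit 5030263043) (nat_lit 240) (nat_lit 1) (nat_lit 239) (nat_lit 1) (nat_lit 245) (nat_lit 1) (nat_lit 260) (nat_lit 405) (nat_lit 355)) (XT.nd (nat_lit 78) (nat_lit 0) (nat_lit 0) (XT.lf (nat_lit 380) (nat_lit 6952931224) (nat_lit 0) (nat_lit 3637279342) (nat_lit 304) (nat_lit 3637279342) (nat_lit 240) (nat_lit 1) (nat_lit 235) (nat_lit 1) (nat_lit 239) (nat_lit 1) (nat_lit 261) (nat_lit 405) (nat_lit 354)) (XT.lf (nat_lit 76) (nat_lit 1933503965) (nat_lit 0) (nat_lit 10196536683) (nat_lit 380) (nat_lit 1933503965) (nat_lit 236) (nat_lit 1) (nat_lit 235) (nat_lit 1) (nat_lit 240) (nat_lit 1) (nat_lit 262) (nat_lit 405) (nat_lit 353))))))))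
noncomputable def ec331 : XT := (XT.nd (nat_lit 1482) (nat_lit 2432) (nat_lit 0) (XT.nd (nat_lit 702) (nat_lit 1672) (nat_lit 0) (XT.nd (nat_lit 312) (nat_lit 836) (nat_lit 0) (XT.nd (nat_lit 156) (nat_lit 304) (nat_lit 0) (XT.nd (nat_lit 78) (nat_lit 380) (nat_lit 0) (XT.lf (nat_lit 380) (nat_lit 770999852) (nat_lit 0) (nat_lit 6565231470) (nat_lit 304) (nat_lit 6565231470) (nat_lit 236) (nat_lit 1) (nat_lit 231) (nat_lit 1) (nat_lit 235) (nat_lit 1) (nat_lit 263) (nat_lit 405) (nat_lit 352)) (XT.lf (nat_lit 380) (nat_lit 11522097650) (nat_lit 0) (nat_lit 1110240962) (nat_lit 304) (nat_lit 1110240962) (nat_lit 231) (nat_lit 1) (nat_lit 226) (nat_lit 1) (nat_lit 230) (nat_lit 1) (nat_lit 264) (nat_lit 405) (nat_lit 351))) (XT.nd (nat_lit 78) (nat_lit 304) (nat_lit 0) (XT.lf (nat_lit 76) (nat_lit 4181900799) (nat_lit 0) (nat_lit 5220983836) (nat_lit 380) (nat_lit 4181900799) (nat_lit 227) (nat_lit 1)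 (nat_lit 226) (nat_lit 1) (nat_lit 231) (nat_lit 1) (nat_lit 265) (nat_lit 405) (nat_lit 350)) (XT.lf (nat_lit 380) (nat_lit 5246308638) (nat_lit 0) (nat_lit 4091893873) (nat_lit 304) (nat_lit 4091893873) (nat_lit 227) (nat_lit 1) (nat_lit 222) (nat_lit 1) (nat_lit 226) (nat_lit 1) (nat_lit 266) (nat_lit 405) (nat_lit 349)))) (XT.nd (nat_lit 156) (nat_lit 532) (nat_lit 0) (XT.nd (nat_lit 78) (nat_lit 304) (nat_lit 0) (XT.lf (nat_lit 76) (nat_lit 1083836396) (nat_lit 0) (nat_lit 11110727125) (nat_lit 380) (nat_lit 1083836396) (nat_lit 223) (nat_lit 1) (nat_lit 222) (nat_lit 1) (nat_lit 227) (nat_lit 1) (nat_lit 267) (nat_lit 405) (nat_lit 348)) (XT.lf (nat_lit 76) (nat_lit 6107805054) (nat_lit 0) (nat_lit 912070748) (nat_lit 304) (nat_lit 6107805054) (nat_lit 219) (nat_lit 1) (nat_lit 218) (nat_lit 1) (nat_lit 222) (nat_lit 1) (nat_lit 268) (nat_lit 405) (nat_lit 347))) (XT.nd (nat_lit 78) (nat_lit 228)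 (nat_lit 0) (XT.lf (nat_lit 380) (nat_lit 9089709560) (nat_lit 0) (nat_lit 1945080868) (nat_lit 304) (nat_lit 1945080868) (nat_lit 219) (nat_lit 1) (nat_lit 214) (nat_lit 1) (nat_lit 218) (nat_lit 1) (nat_lit 269) (nat_lit 405) (nat_lit 346)) (XT.nd (nat_lit 78) (nat_lit 228) (nat_lit 0) (XT.lf (nat_lit 76) (nat_lit 2982428767) (nat_lit 0) (nat_lit 6868888059) (nat_lit 380) (nat_lit 2982428767) (nat_lit 215) (nat_lit 1) (nat_lit 214) (nat_lit 1) (nat_lit 219) (nat_lit 1) (nat_lit 270) (nat_lit 405) (nat_lit 345)) (XT.lf (nat_lit 304) (nat_lit 2863678575) (nat_lit 0) (nat_lit 4913117991) (nat_lit 228) (nat_lit 4913117991) (nat_lit 215) (nat_lit 1) (nat_lit 211) (nat_lit 1) (nat_lit 214) (nat_lit 1) (nat_lit 271) (nat_lit 405) (nat_lit 344)))))) (XT.nd (nat_lit 390) (nat_lit 760) (nat_lit 0) (XT.nd (nat_lit 156) (nat_lit 532) (nat_lit 0) (XT.nd (nat_lit 78) (nat_lit 0) (nat_lit 0) (XT.lf (nat_lit 380)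 (nat_lit 12375538035) (nat_lit 0) (nat_lit 86903586) (nat_lit 304) (nat_lit 86903586) (nat_lit 211) (nat_lit 1) (nat_lit 206) (nat_lit 1) (nat_lit 210) (nat_lit 1) (nat_lit 272) (nat_lit 405) (nat_lit 343)) (XT.lf (nat_lit 76) (nat_lit 4610484444) (nat_lit 0) (nat_lit 3187530612) (nat_lit 380) (nat_lit 4610484444) (nat_lit 207) (nat_lit 1) (nat_lit 206) (nat_lit 1) (nat_lit 211) (nat_lit 1) (nat_lit 273) (nat_lit 405) (nat_lit 342))) (XT.nd (nat_lit 78) (nat_lit 304) (nat_lit 0) (XT.lf (nat_lit 304) (nat_lit 6127030097) (nat_lit 0) (nat_lit 3071907899) (nat_lit 228) (nat_lit 3071907899) (nat_lit 207) (nat_lit 1) (nat_lit 203) (nat_lit 1) (nat_lit 206) (nat_lit 1) (nat_lit 274) (nat_lit 405) (nat_lit 341)) (XT.nd (nat_lit 78) (nat_lit 304) (nat_lit 0) (XT.lf (nat_lit 76) (nat_lit 1531271181) (nat_lit 0) (nat_lit 9072892351) (nat_lit 304) (nat_lit 1531271181) (nat_lit 204) (nat_lit 1) (nat_lit 203) (nat_lit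 1) (nat_lit 207) (nat_lit 1) (nat_lit 275) (nat_lit 405) (nat_lit 340)) (XT.lf (nat_lit 76) (nat_lit 5999884950) (nat_lit 0) (nat_lit 1606401) (nat_lit 304) (nat_lit 5999884950) (nat_lit 200) (nat_lit 1) (nat_lit 199) (nat_lit 1) (nat_lit 203) (nat_lit 1) (nat_lit 276) (nat_lit 405) (nat_lit 339))))) (XT.nd (nat_lit 156) (nat_lit 532) (nat_lit 0) (XT.nd (nat_lit 78) (nat_lit 0) (nat_lit 0) (XT.lf (nat_lit 304) (nat_lit 8922125498) (nat_lit 0) (nat_lit 1473686495) (nat_lit 228) (nat_lit 1473686495) (nat_lit 200) (nat_lit 1) (nat_lit 196) (nat_lit 1) (nat_lit 199) (nat_lit 1) (nat_lit 277) (nat_lit 405) (nat_lit 338)) (XT.lf (nat_lit 76) (nat_lit 2922891674) (nat_lit 0) (nat_lit 5893105483) (nat_lit 304) (nat_lit 2922891674) (nat_lit 197) (nat_lit 1) (nat_lit 196) (nat_lit 1) (nat_lit 200) (nat_lit 1) (nat_lit 278) (nat_lit 405) (nat_lit 337))) (XT.nd (nat_lit 78) (nat_lit 304) (nat_lit 0) (XT.lf (nat_lit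 304) (nat_lit 2801267853) (nat_lit 0) (nat_lit 4404566351) (nat_lit 228) (nat_lit 4404566351) (nat_lit 197) (nat_lit 1) (nat_lit 193) (nat_lit 1) (nat_lit 196) (nat_lit 1) (nat_lit 279) (nat_lit 405) (nat_lit 336)) (XT.nd (nat_lit 78) (nat_lit 0) (nat_lit 0) (XT.lf (nat_lit 304) (nat_lit 11304220726) (nat_lit 0) (nat_lit 90260213) (nat_lit 228) (nat_lit 90260213) (nat_lit 193) (nat_lit 1) (nat_lit 189) (nat_lit 1) (nat_lit 192) (nat_lit 1) (nat_lit 280) (nat_lit 405) (nat_lit 335)) (XT.lf (nat_lit 76) (nat_lit 4113822329) (nat_lit 0) (nat_lit 3131052886) (nat_lit 304) (nat_lit 4113822329) (nat_lit 190) (nat_lit 1) (nat_lit 189) (nat_lit 1) (nat_lit 193) (nat_lit 1) (nat_lit 281) (nat_lit 405) (nat_lit 334))))))) (XT.nd (nat_lit 702) (nat_lit 1140) (nat_lit 0) (XT.nd (nat_lit 312) (nat_lit 608) (nat_lit 0) (XT.nd (nat_lit 156) (nat_lit 456) (nat_lit 0) (XT.nd (nat_lit 78) (nat_lit 0) (nat_lit 0) (XT.lf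 (nat_lit 304) (nat_lit 5209981006) (nat_lit 0) (nat_lit 3012725014) (nat_lit 228) (nat_lit 3012725014) (nat_lit 190) (nat_lit 1) (nat_lit 186) (nat_lit 1) (nat_lit 189) (nat_lit 1) (nat_lit 282) (nat_lit 405) (nat_lit 333)) (XT.lf (nat_lit 76) (nat_lit 1114313249) (nat_lit 0) (nat_lit 8885625865) (nat_lit 304) (nat_lit 1114313249) (nat_lit 187) (nat_lit 1) (nat_lit 186) (nat_lit 1) (nat_lit 190) (nat_lit 1) (nat_lit 283) (nat_lit 405) (nat_lit 332))) (XT.nd (nat_lit 78) (nat_lit 228) (nat_lit 0) (XT.lf (nat_lit 76) (nat_lit 5127768085) (nat_lit 0) (nat_lit 738312550) (nat_lit 228) (nat_lit 5127768085) (nat_lit 184) (nat_lit 1) (nat_lit 183) (nat_lit 1) (nat_lit 186) (nat_lit 1) (nat_lit 284) (nat_lit 405) (nat_lit 331)) (XT.lf (nat_lit 304) (nat_lit 7270836373) (nat_lit 0) (nat_lit 1802325269) (nat_lit 228) (nat_lit 1802325269) (nat_lit 184) (nat_lit 1) (nat_lit 180) (nat_lit 1) (nat_lit 183) (nat_lit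 1) (nat_lit 285) (nat_lit 405) (nat_lit 330)))) (XT.nd (nat_lit 156) (nat_lit 456) (nat_lit 0) (XT.nd (nat_lit 78) (nat_lit 152) (nat_lit 0) (XT.lf (nat_lit 76) (nat_lit 2150540551) (nat_lit 0) (nat_lit 6457394684) (nat_lit 304) (nat_lit 2150540551) (nat_lit 181) (nat_lit 1) (nat_lit 180) (nat_lit 1) (nat_lit 184) (nat_lit 1) (nat_lit 286) (nat_lit 405) (nat_lit 329)) (XT.lf (nat_lit 228) (nat_lit 1354515766) (nat_lit 0) (nat_lit 4644256533) (nat_lit 152) (nat_lit 4644256533) (nat_lit 181) (nat_lit 1) (nat_lit 178) (nat_lit 1) (nat_lit 180) (nat_lit 1) (nat_lit 287) (nat_lit 405) (nat_lit 328))) (XT.nd (nat_lit 78) (nat_lit 152) (nat_lit 0) (XT.lf (nat_lit 304) (nat_lit 9024933003) (nat_lit 0) (nat_lit 752369955) (nat_lit 228) (nat_lit 752369955) (nat_lit 178) (nat_lit 1) (nat_lit 174) (nat_lit 1) (nat_lit 177) (nat_lit 1) (nat_lit 288) (nat_lit 405) (nat_lit 327)) (XT.nd (nat_lit 78) (nat_lit 152)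 (nat_lit 0) (XT.lf (nat_lit 76) (nat_lit 3037414475) (nat_lit 0) (nat_lit 4341807840) (nat_lit 304) (nat_lit 3037414475) (nat_lit 175) (nat_lit 1) (nat_lit 174) (nat_lit 1) (nat_lit 178) (nat_lit 1) (nat_lit 289) (nat_lit 405) (nat_lit 326)) (XT.lf (nat_lit 228) (nat_lit 3168083515) (nat_lit 0) (nat_lit 3568784829) (nat_lit 152) (nat_lit 3568784829) (nat_lit 175) (nat_lit 1) (nat_lit 172) (nat_lit 1) (nat_lit 174) (nat_lit 1) (nat_lit 290) (nat_lit 405) (nat_lit 325)))))) (XT.nd (nat_lit 390) (nat_lit 532) (nat_lit 0) (XT.nd (nat_lit 156) (nat_lit 380) (nat_lit 0) (XT.nd (nat_lit 78) (nat_lit 228) (nat_lit 0) (XT.lf (nat_lit 76) (nat_lit 157316702) (nat_lit 0) (nat_lit 9882355079) (nat_lit 228) (nat_lit 157316702) (nat_lit 173) (nat_lit 1) (nat_lit 172) (nat_lit 1) (nat_lit 175) (nat_lit 1) (nat_lit 291) (nat_lit 405) (nat_lit 324)) (XT.lf (nat_lit 76) (nat_lit 3792574342) (nat_lit 0) (nat_lit 2502782070)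 (nat_lit 228) (nat_lit 3792574342) (nat_lit 170) (nat_lit 1) (nat_lit 169) (nat_lit 1) (nat_lit 172) (nat_lit 1) (nat_lit 292) (nat_lit 405) (nat_lit 323))) (XT.nd (nat_lit 78) (nat_lit 228) (nat_lit 0) (XT.lf (nat_lit 228) (nat_lit 4722193210) (nat_lit 0) (nat_lit 2629482255) (nat_lit 152) (nat_lit 2629482255) (nat_lit 170) (nat_lit 1) (nat_lit 167) (nat_lit 1) (nat_lit 169) (nat_lit 1) (nat_lit 293) (nat_lit 405) (nat_lit 322)) (XT.nd (nat_lit 78) (nat_lit 228) (nat_lit 0) (XT.lf (nat_lit 76) (nat_lit 947935200) (nat_lit 0) (nat_lit 7980262404) (nat_lit 228) (nat_lit 947935200) (nat_lit 168) (nat_lit 1) (nat_lit 167) (nat_lit 1) (nat_lit 170) (nat_lit 1) (nat_lit 294) (nat_lit 405) (nat_lit 321)) (XT.lf (nat_lit 76) (nat_lit 4431663785) (nat_lit 0) (nat_lit 908293375) (nat_lit 228) (nat_lit 4431663785) (nat_lit 165) (nat_lit 1) (nat_lit 164) (nat_lit 1) (nat_lit 167) (nat_lit 1) (nat_lit 295) (nat_lit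 405) (nat_lit 320))))) (XT.nd (nat_lit 156) (nat_lit 380) (nat_lit 0) (XT.nd (nat_lit 78) (nat_lit 0) (nat_lit 0) (XT.lf (nat_lit 228) (nat_lit 6047444437) (nat_lit 0) (nat_lit 1810691177) (nat_lit 152) (nat_lit 1810691177) (nat_lit 165) (nat_lit 1) (nat_lit 162) (nat_lit 1) (nat_lit 164) (nat_lit 1) (nat_lit 296) (nat_lit 405) (nat_lit 319)) (XT.lf (nat_lit 76) (nat_lit 1626850814) (nat_lit 0) (nat_lit 6313581059) (nat_lit 228) (nat_lit 1626850814) (nat_lit 163) (nat_lit 1) (nat_lit 162) (nat_lit 1) (nat_lit 165) (nat_lit 1) (nat_lit 297) (nat_lit 405) (nat_lit 318))) (XT.nd (nat_lit 78) (nat_lit 228) (nat_lit 0) (XT.lf (nat_lit 228) (nat_lit 479432118) (nat_lit 0) (nat_lit 4493730607) (nat_lit 152) (nat_lit 4493730607) (nat_lit 163) (nat_lit 1) (nat_lit 160) (nat_lit 1) (nat_lit 162) (nat_lit 1) (nat_lit 298) (nat_lit 405) (nat_lit 317)) (XT.nd (nat_lit 78) (nat_lit 0) (nat_lit 0) (XT.lf (nat_lit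 228) (nat_lit 7170975989) (nat_lit 0) (nat_lit 1098513765) (nat_lit 152) (nat_lit 1098513765) (nat_lit 160) (nat_lit 1) (nat_lit 157) (nat_lit 1) (nat_lit 159) (nat_lit 1) (nat_lit 299) (nat_lit 405) (nat_lit 316)) (XT.lf (nat_lit 76) (nat_lit 2207205457) (nat_lit 0) (nat_lit 4855380895) (nat_lit 228) (nat_lit 2207205457) (nat_lit 158) (nat_lit 1) (nat_lit 157) (nat_lit 1) (nat_lit 160) (nat_lit 1) (nat_lit 300) (nat_lit 405) (nat_lit 315))))))))
noncomputable def ec332 : XT := (XT.nd (nat_lit 1404) (nat_lit 1672) (nat_lit 0) (XT.nd (nat_lit 702) (nat_lit 836) (nat_lit 0) (XT.nd (nat_lit 312) (nat_lit 456) (nat_lit 0) (XT.nd (nat_lit 156) (nat_lit 152) (nat_lit 0) (XT.nd (nat_lit 78) (nat_lit 228) (nat_lit 0) (XT.lf (nat_lit 228) (nat_lit 1690532371) (nat_lit 0) (nat_lit 3741260902) (nat_lit 152) (nat_lit 3741260902) (nat_lit 158) (nat_lit 1) (nat_lit 155) (nat_lit 1) (nat_lit 157) (nat_lit 1) (nat_lit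 301) (nat_lit 405) (nat_lit 314)) (XT.lf (nat_lit 228) (nat_lit 8116853204) (nat_lit 0) (nat_lit 480615356) (nat_lit 152) (nat_lit 480615356) (nat_lit 155) (nat_lit 1) (nat_lit 152) (nat_lit 1) (nat_lit 154) (nat_lit 1) (nat_lit 302) (nat_lit 405) (nat_lit 313))) (XT.nd (nat_lit 78) (nat_lit 152) (nat_lit 0) (XT.lf (nat_lit 76) (nat_lit 2700655577) (nat_lit 0) (nat_lit 3581754589) (nat_lit 228) (nat_lit 2700655577) (nat_lit 153) (nat_lit 1) (nat_lit 152) (nat_lit 1) (nat_lit 155) (nat_lit 1) (nat_lit 303) (nat_lit 405) (nat_lit 312)) (XT.lf (nat_lit 228) (nat_lit 2729747323) (nat_lit 0) (nat_lit 3080022497) (nat_lit 152) (nat_lit 3080022497) (nat_lit 153) (nat_lit 1) (nat_lit 150) (nat_lit 1) (nat_lit 152) (nat_lit 1) (nat_lit 304) (nat_lit 405) (nat_lit 311)))) (XT.nd (nat_lit 156) (nat_lit 304) (nat_lit 0) (XT.nd (nat_lit 78) (nat_lit 152) (nat_lit 0) (XT.lf (nat_lit 76) (nat_lit 54484414) (nat_lit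 0) (nat_lit 8689479563) (nat_lit 228) (nat_lit 54484414) (nat_lit 151) (nat_lit 1) (nat_lit 150) (nat_lit 1) (nat_lit 153) (nat_lit 1) (nat_lit 305) (nat_lit 405) (nat_lit 310)) (XT.lf (nat_lit 76) (nat_lit 3117538391) (nat_lit 0) (nat_lit 2471479990) (nat_lit 152) (nat_lit 3117538391) (nat_lit 149) (nat_lit 1) (nat_lit 148) (nat_lit 1) (nat_lit 150) (nat_lit 1) (nat_lit 306) (nat_lit 405) (nat_lit 309))) (XT.nd (nat_lit 78) (nat_lit 152) (nat_lit 0) (XT.lf (nat_lit 228) (nat_lit 3617317187) (nat_lit 0) (nat_lit 2499628680) (nat_lit 152) (nat_lit 2499628680) (nat_lit 149) (nat_lit 1) (nat_lit 146) (nat_lit 1) (nat_lit 148) (nat_lit 1) (nat_lit 307) (nat_lit 405) (nat_lit 308)) (XT.nd (nat_lit 78) (nat_lit 152) (nat_lit 0) (XT.lf (nat_lit 76) (nat_lit 519993997) (nat_lit 0) (nat_lit 7488182015) (nat_lit 228) (nat_lit 519993997) (nat_lit 147) (nat_lit 1) (nat_lit 146) (nat_lit 1) (nat_lit 149) (nat_lit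 1) (nat_lit 308) (nat_lit 405) (nat_lit 307)) (XT.lf (nat_lit 76) (nat_lit 3467019559) (nat_lit 0) (nat_lit 1505720123) (nat_lit 152) (nat_lit 3467019559) (nat_lit 145) (nat_lit 1) (nat_lit 144) (nat_lit 1) (nat_lit 146) (nat_lit 1) (nat_lit 309) (nat_lit 405) (nat_lit 306)))))) (XT.nd (nat_lit 312) (nat_lit 380) (nat_lit 0) (XT.nd (nat_lit 156) (nat_lit 304) (nat_lit 0) (XT.nd (nat_lit 78) (nat_lit 0) (nat_lit 0) (XT.lf (nat_lit 228) (nat_lit 4371193882) (nat_lit 0) (nat_lit 1990857207) (nat_lit 152) (nat_lit 1990857207) (nat_lit 145) (nat_lit 1) (nat_lit 142) (nat_lit 1) (nat_lit 144) (nat_lit 1) (nat_lit 310) (nat_lit 405) (nat_lit 305)) (XT.lf (nat_lit 76) (nat_lit 919857738) (nat_lit 0) (nat_lit 6427610956) (nat_lit 228) (nat_lit 919857738) (nat_lit 143) (nat_lit 1) (nat_lit 142) (nat_lit 1) (nat_lit 145) (nat_lit 1) (nat_lit 311) (nat_lit 405) (nat_lit 304))) (XT.nd (nat_lit 78) (nat_lit 152)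 (nat_lit 0) (XT.lf (nat_lit 76) (nat_lit 3757224378) (nat_lit 0) (nat_lit 667756675) (nat_lit 152) (nat_lit 3757224378) (nat_lit 141) (nat_lit 1) (nat_lit 140) (nat_lit 1) (nat_lit 142) (nat_lit 1) (nat_lit 312) (nat_lit 405) (nat_lit 303)) (XT.lf (nat_lit 228) (nat_lit 5007297123) (nat_lit 0) (nat_lit 1545520260) (nat_lit 152) (nat_lit 1545520260) (nat_lit 141) (nat_lit 1) (nat_lit 138) (nat_lit 1) (nat_lit 140) (nat_lit 1) (nat_lit 313) (nat_lit 405) (nat_lit 302)))) (XT.nd (nat_lit 156) (nat_lit 304) (nat_lit 0) (XT.nd (nat_lit 78) (nat_lit 76) (nat_lit 0) (XT.lf (nat_lit 76) (nat_lit 1261796061) (nat_lit 0) (nat_lit 5491876485) (nat_lit 228) (nat_lit 1261796061) (nat_lit 139) (nat_lit 1) (nat_lit 138) (nat_lit 1) (nat_lit 141) (nat_lit 1) (nat_lit 314) (nat_lit 405) (nat_lit 301)) (XT.lf (nat_lit 152) (nat_lit 58386119) (nat_lit 0) (nat_lit 3937529451) (nat_lit 76) (nat_lit 3937529451) (nat_lit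 139) (nat_lit 1) (nat_lit 137) (nat_lit 1) (nat_lit 138) (nat_lit 1) (nat_lit 315) (nat_lit 405) (nat_lit 300))) (XT.nd (nat_lit 78) (nat_lit 76) (nat_lit 0) (XT.lf (nat_lit 228) (nat_lit 5539741915) (nat_lit 0) (nat_lit 1156348924) (nat_lit 152) (nat_lit 1156348924) (nat_lit 137) (nat_lit 1) (nat_lit 134) (nat_lit 1) (nat_lit 136) (nat_lit 1) (nat_lit 316) (nat_lit 405) (nat_lit 299)) (XT.nd (nat_lit 78) (nat_lit 76) (nat_lit 0) (XT.lf (nat_lit 76) (nat_lit 1552656812) (nat_lit 0) (nat_lit 4666866369) (nat_lit 228) (nat_lit 1552656812) (nat_lit 135) (nat_lit 1) (nat_lit 134) (nat_lit 1) (nat_lit 137) (nat_lit 1) (nat_lit 317) (nat_lit 405) (nat_lit 298)) (XT.lf (nat_lit 152) (nat_lit 696037421) (nat_lit 0) (nat_lit 3498443918) (nat_lit 76) (nat_lit 3498443918) (nat_lit 135) (nat_lit 1) (nat_lit 133) (nat_lit 1) (nat_lit 134) (nat_lit 1) (nat_lit 318) (nat_lit 405) (nat_lit 297))))))) (XT.nd (nat_lit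 702) (nat_lit 760) (nat_lit 0) (XT.nd (nat_lit 312) (nat_lit 380) (nat_lit 0) (XT.nd (nat_lit 156) (nat_lit 304) (nat_lit 0) (XT.nd (nat_lit 78) (nat_lit 0) (nat_lit 0) (XT.lf (nat_lit 228) (nat_lit 5981040664) (nat_lit 0) (nat_lit 816890549) (nat_lit 152) (nat_lit 816890549) (nat_lit 133) (nat_lit 1) (nat_lit 130) (nat_lit 1) (nat_lit 132) (nat_lit 1) (nat_lit 319) (nat_lit 405) (nat_lit 296)) (XT.lf (nat_lit 76) (nat_lit 1798512899) (nat_lit 0) (nat_lit 3940047648) (nat_lit 228) (nat_lit 1798512899) (nat_lit 131) (nat_lit 1) (nat_lit 130) (nat_lit 1) (nat_lit 133) (nat_lit 1) (nat_lit 320) (nat_lit 405) (nat_lit 295))) (XT.nd (nat_lit 78) (nat_lit 228) (nat_lit 0) (XT.lf (nat_lit 152) (nat_lit 1243820341) (nat_lit 0) (nat_lit 3108322109) (nat_lit 76) (nat_lit 3108322109) (nat_lit 131) (nat_lit 1) (nat_lit 129) (nat_lit 1) (nat_lit 130) (nat_lit 1) (nat_lit 321) (nat_lit 405) (nat_lit 294)) (XT.lf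 (nat_lit 228) (nat_lit 6342282721) (nat_lit 0) (nat_lit 521417552) (nat_lit 152) (nat_lit 521417552) (nat_lit 129) (nat_lit 1) (nat_lit 126) (nat_lit 1) (nat_lit 128) (nat_lit 1) (nat_lit 322) (nat_lit 405) (nat_lit 293)))) (XT.nd (nat_lit 156) (nat_lit 304) (nat_lit 0) (XT.nd (nat_lit 78) (nat_lit 76) (nat_lit 0) (XT.lf (nat_lit 76) (nat_lit 2004749039) (nat_lit 0) (nat_lit 3300290356) (nat_lit 228) (nat_lit 2004749039) (nat_lit 127) (nat_lit 1) (nat_lit 126) (nat_lit 1) (nat_lit 129) (nat_lit 1) (nat_lit 323) (nat_lit 405) (nat_lit 292)) (XT.lf (nat_lit 152) (nat_lit 1712302833) (nat_lit 0) (nat_lit 2761703935) (nat_lit 76) (nat_lit 2761703935) (nat_lit 127) (nat_lit 1) (nat_lit 125) (nat_lit 1) (nat_lit 126) (nat_lit 1) (nat_lit 324) (nat_lit 405) (nat_lit 291))) (XT.nd (nat_lit 78) (nat_lit 76) (nat_lit 0) (XT.lf (nat_lit 228) (nat_lit 6633293875) (nat_lit 0) (nat_lit 264846411) (nat_lit 152) (nat_lit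 264846411) (nat_lit 125) (nat_lit 1) (nat_lit 122) (nat_lit 1) (nat_lit 124) (nat_lit 1) (nat_lit 325) (nat_lit 405) (nat_lit 290)) (XT.nd (nat_lit 78) (nat_lit 76) (nat_lit 0) (XT.lf (nat_lit 76) (nat_lit 2176138821) (nat_lit 0) (nat_lit 2737710918) (nat_lit 228) (nat_lit 2176138821) (nat_lit 123) (nat_lit 1) (nat_lit 122) (nat_lit 1) (nat_lit 125) (nat_lit 1) (nat_lit 326) (nat_lit 405) (nat_lit 289)) (XT.lf (nat_lit 152) (nat_lit 2110858472) (nat_lit 0) (nat_lit 2453738176) (nat_lit 76) (nat_lit 2453738176) (nat_lit 123) (nat_lit 1) (nat_lit 121) (nat_lit 1) (nat_lit 122) (nat_lit 1) (nat_lit 327) (nat_lit 405) (nat_lit 288)))))) (XT.nd (nat_lit 390) (nat_lit 304) (nat_lit 0) (XT.nd (nat_lit 156) (nat_lit 228) (nat_lit 0) (XT.nd (nat_lit 78) (nat_lit 0) (nat_lit 0) (XT.lf (nat_lit 228) (nat_lit 6862778045) (nat_lit 0) (nat_lit 42665683) (nat_lit 152) (nat_lit 42665683) (nat_lit 121) (nat_lit 1) (nat_lit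 118) (nat_lit 1) (nat_lit 120) (nat_lit 1) (nat_lit 328) (nat_lit 405) (nat_lit 287)) (XT.lf (nat_lit 76) (nat_lit 2316913162) (nat_lit 0) (nat_lit 2243533004) (nat_lit 228) (nat_lit 2316913162) (nat_lit 119) (nat_lit 1) (nat_lit 118) (nat_lit 1) (nat_lit 121) (nat_lit 1) (nat_lit 329) (nat_lit 405) (nat_lit 286))) (XT.nd (nat_lit 78) (nat_lit 152) (nat_lit 0) (XT.lf (nat_lit 152) (nat_lit 2447800104) (nat_lit 0) (nat_lit 2180114588) (nat_lit 76) (nat_lit 2180114588) (nat_lit 119) (nat_lit 1) (nat_lit 117) (nat_lit 1) (nat_lit 118) (nat_lit 1) (nat_lit 330) (nat_lit 405) (nat_lit 285)) (XT.nd (nat_lit 78) (nat_lit 152) (nat_lit 0) (XT.lf (nat_lit 0) (nat_lit 150604453) (nat_lit 0) (nat_lit 6438803758) (nat_lit 152) (nat_lit 150604453) (nat_lit 117) (nat_lit 3) (nat_lit 117) (nat_lit 1) (nat_lit 119) (nat_lit 1) (nat_lit 331) (nat_lit 405) (nat_lit 284)) (XT.lf (nat_lit 76) (nat_lit 2430821126) (nat_lit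 0) (nat_lit 1809963912) (nat_lit 152) (nat_lit 2430821126) (nat_lit 116) (nat_lit 1) (nat_lit 115) (nat_lit 1) (nat_lit 117) (nat_lit 1) (nat_lit 332) (nat_lit 405) (nat_lit 283))))) (XT.nd (nat_lit 156) (nat_lit 228) (nat_lit 0) (XT.nd (nat_lit 78) (nat_lit 0) (nat_lit 0) (XT.lf (nat_lit 152) (nat_lit 2730498584) (nat_lit 0) (nat_lit 1937003575) (nat_lit 76) (nat_lit 1937003575) (nat_lit 116) (nat_lit 1) (nat_lit 114) (nat_lit 1) (nat_lit 115) (nat_lit 1) (nat_lit 333) (nat_lit 405) (nat_lit 282)) (XT.lf (nat_lit 0) (nat_lit 317196210) (nat_lit 0) (nat_lit 5904179847) (nat_lit 152) (nat_lit 317196210) (nat_lit 114) (nat_lit 3) (nat_lit 114) (nat_lit 1) (nat_lit 116) (nat_lit 1) (nat_lit 334) (nat_lit 405) (nat_lit 281))) (XT.nd (nat_lit 78) (nat_lit 76) (nat_lit 0) (XT.lf (nat_lit 76) (nat_lit 2521183952) (nat_lit 0) (nat_lit 1430084731) (nat_lit 152) (nat_lit 2521183952) (nat_lit 113) (nat_lit 1)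 (nat_lit 112) (nat_lit 1) (nat_lit 114) (nat_lit 1) (nat_lit 335) (nat_lit 405) (nat_lit 280)) (XT.nd (nat_lit 78) (nat_lit 0) (nat_lit 0) (XT.lf (nat_lit 152) (nat_lit 2965488252) (nat_lit 0) (nat_lit 1721002588) (nat_lit 76) (nat_lit 1721002588) (nat_lit 113) (nat_lit 1) (nat_lit 111) (nat_lit 1) (nat_lit 112) (nat_lit 1) (nat_lit 336) (nat_lit 405) (nat_lit 279)) (XT.lf (nat_lit 0) (nat_lit 459869485) (nat_lit 0) (nat_lit 5423832084) (nat_lit 152) (nat_lit 459869485) (nat_lit 111) (nat_lit 3) (nat_lit 111) (nat_lit 1) (nat_lit 113) (nat_lit 1) (nat_lit 337) (nat_lit 405) (nat_lit 278))))))))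
noncomputable def ec333 : XT := (XT.nd (nat_lit 1482) (nat_lit 1520) (nat_lit 0) (XT.nd (nat_lit 702) (nat_lit 760) (nat_lit 0) (XT.nd (nat_lit 312) (nat_lit 304) (nat_lit 0) (XT.nd (nat_lit 156) (nat_lit 152) (nat_lit 0) (XT.nd (nat_lit 78) (nat_lit 76) (nat_lit 0) (XT.lf (nat_lit 76) (nat_lit 2590943039) (nat_lit 0) (nat_lit 1097752770) (nat_lit 152) (nat_lit 2590943039) (nat_lit 110) (nat_lit 1) (nat_lit 109) (nat_lit 1) (nat_lit 111) (nat_lit 1) (nat_lit 338) (nat_lit 405) (nat_lit 277)) (XT.lf (nat_lit 152) (nat_lit 3158560647) (nat_lit 0) (nat_lit 1529088509) (nat_lit 76) (nat_lit 1529088509) (nat_lit 110) (nat_lit 1) (nat_lit 108) (nat_lit 1) (nat_lit 109) (nat_lit 1) (nat_lit 339) (nat_lit 405) (nat_lit 276))) (XT.nd (nat_lit 78) (nat_lit 152) (nat_lit 0) (XT.lf (nat_lit 0) (nat_lit 581447073) (nat_lit 0) (nat_lit 4991863548) (nat_lit 152) (nat_lit 581447073) (nat_lit 108) (nat_lit 3) (nat_lit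 108) (nat_lit 1) (nat_lit 110) (nat_lit 1) (nat_lit 340) (nat_lit 405) (nat_lit 275)) (XT.lf (nat_lit 76) (nat_lit 2642702587) (nat_lit 0) (nat_lit 807514854) (nat_lit 152) (nat_lit 2642702587) (nat_lit 107) (nat_lit 1) (nat_lit 106) (nat_lit 1) (nat_lit 108) (nat_lit 1) (nat_lit 341) (nat_lit 405) (nat_lit 274)))) (XT.nd (nat_lit 156) (nat_lit 228) (nat_lit 0) (XT.nd (nat_lit 78) (nat_lit 0) (nat_lit 0) (XT.lf (nat_lit 152) (nat_lit 3314847744) (nat_lit 0) (nat_lit 1358575335) (nat_lit 76) (nat_lit 1358575335) (nat_lit 107) (nat_lit 1) (nat_lit 105) (nat_lit 1) (nat_lit 106) (nat_lit 1) (nat_lit 342) (nat_lit 405) (nat_lit 273)) (XT.lf (nat_lit 0) (nat_lit 684432457) (nat_lit 0) (nat_lit 4603030371) (nat_lit 152) (nat_lit 684432457) (nat_lit 105) (nat_lit 3) (nat_lit 105) (nat_lit 1) (nat_lit 107) (nat_lit 1) (nat_lit 343) (nat_lit 405) (nat_lit 272))) (XT.nd (nat_lit 78) (nat_lit 76) (nat_lit 0) (XT.lf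 (nat_lit 76) (nat_lit 2678767462) (nat_lit 0) (nat_lit 554530311) (nat_lit 152) (nat_lit 2678767462) (nat_lit 104) (nat_lit 1) (nat_lit 103) (nat_lit 1) (nat_lit 105) (nat_lit 1) (nat_lit 344) (nat_lit 405) (nat_lit 271)) (XT.nd (nat_lit 78) (nat_lit 0) (nat_lit 0) (XT.lf (nat_lit 152) (nat_lit 3438895906) (nat_lit 0) (nat_lit 1207076589) (nat_lit 76) (nat_lit 1207076589) (nat_lit 104) (nat_lit 1) (nat_lit 102) (nat_lit 1) (nat_lit 103) (nat_lit 1) (nat_lit 345) (nat_lit 405) (nat_lit 270)) (XT.lf (nat_lit 0) (nat_lit 771045551) (nat_lit 0) (nat_lit 4252669044) (nat_lit 152) (nat_lit 771045551) (nat_lit 102) (nat_lit 3) (nat_lit 102) (nat_lit 1) (nat_lit 104) (nat_lit 1) (nat_lit 346) (nat_lit 405) (nat_lit 269)))))) (XT.nd (nat_lit 390) (nat_lit 304) (nat_lit 0) (XT.nd (nat_lit 156) (nat_lit 228) (nat_lit 0) (XT.nd (nat_lit 78) (nat_lit 76) (nat_lit 0) (XT.lf (nat_lit 76) (nat_lit 2701176837) (nat_lit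 0) (nat_lit 334502534) (nat_lit 152) (nat_lit 2701176837) (nat_lit 101) (nat_lit 1) (nat_lit 100) (nat_lit 1) (nat_lit 102) (nat_lit 1) (nat_lit 347) (nat_lit 405) (nat_lit 268)) (XT.lf (nat_lit 152) (nat_lit 3534731578) (nat_lit 0) (nat_lit 1072471915) (nat_lit 76) (nat_lit 1072471915) (nat_lit 101) (nat_lit 1) (nat_lit 99) (nat_lit 1) (nat_lit 100) (nat_lit 1) (nat_lit 348) (nat_lit 405) (nat_lit 267))) (XT.nd (nat_lit 78) (nat_lit 228) (nat_lit 0) (XT.lf (nat_lit 0) (nat_lit 843254450) (nat_lit 0) (nat_lit 3936631829) (nat_lit 152) (nat_lit 843254450) (nat_lit 99) (nat_lit 3) (nat_lit 99) (nat_lit 1) (nat_lit 101) (nat_lit 1) (nat_lit 349) (nat_lit 405) (nat_lit 266)) (XT.nd (nat_lit 78) (nat_lit 76) (nat_lit 0) (XT.lf (nat_lit 76) (nat_lit 2711734073) (nat_lit 0) (nat_lit 143618194) (nat_lit 152) (nat_lit 2711734073) (nat_lit 98) (nat_lit 1) (nat_lit 97) (nat_lit 1) (nat_lit 99) (nat_lit 1) (nat_lit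 350) (nat_lit 405) (nat_lit 265)) (XT.lf (nat_lit 152) (nat_lit 3605919639) (nat_lit 0) (nat_lit 952877406) (nat_lit 76) (nat_lit 952877406) (nat_lit 98) (nat_lit 1) (nat_lit 96) (nat_lit 1) (nat_lit 97) (nat_lit 1) (nat_lit 351) (nat_lit 405) (nat_lit 264))))) (XT.nd (nat_lit 156) (nat_lit 228) (nat_lit 0) (XT.nd (nat_lit 78) (nat_lit 76) (nat_lit 0) (XT.lf (nat_lit 0) (nat_lit 902803632) (nat_lit 0) (nat_lit 3651229367) (nat_lit 152) (nat_lit 902803632) (nat_lit 96) (nat_lit 3) (nat_lit 96) (nat_lit 1) (nat_lit 98) (nat_lit 1) (nat_lit 352) (nat_lit 405) (nat_lit 263)) (XT.lf (nat_lit 76) (nat_lit 21934805) (nat_lit 0) (nat_lit 2690309306) (nat_lit 76) (nat_lit 2690309306) (nat_lit 96) (nat_lit 3) (nat_lit 95) (nat_lit 1) (nat_lit 96) (nat_lit 1) (nat_lit 353) (nat_lit 405) (nat_lit 262))) (XT.nd (nat_lit 78) (nat_lit 76) (nat_lit 0) (XT.lf (nat_lit 152) (nat_lit 3655615239) (nat_lit 0) (nat_lit 846619233)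 (nat_lit 76) (nat_lit 846619233) (nat_lit 95) (nat_lit 1) (nat_lit 93) (nat_lit 1) (nat_lit 94) (nat_lit 1) (nat_lit 354) (nat_lit 405) (nat_lit 261)) (XT.nd (nat_lit 78) (nat_lit 76) (nat_lit 0) (XT.lf (nat_lit 0) (nat_lit 951239018) (nat_lit 0) (nat_lit 3393179686) (nat_lit 152) (nat_lit 951239018) (nat_lit 93) (nat_lit 3) (nat_lit 93) (nat_lit 1) (nat_lit 95) (nat_lit 1) (nat_lit 355) (nat_lit 405) (nat_lit 260)) (XT.lf (nat_lit 76) (nat_lit 167136615) (nat_lit 0) (nat_lit 2537952798) (nat_lit 76) (nat_lit 2537952798) (nat_lit 93) (nat_lit 3) (nat_lit 92) (nat_lit 1) (nat_lit 93) (nat_lit 1) (nat_lit 356) (nat_lit 405) (nat_lit 259))))))) (XT.nd (nat_lit 702) (nat_lit 836) (nat_lit 0) (XT.nd (nat_lit 312) (nat_lit 304) (nat_lit 0) (XT.nd (nat_lit 156) (nat_lit 228) (nat_lit 0) (XT.nd (nat_lit 78) (nat_lit 0) (nat_lit 0) (XT.lf (nat_lit 152) (nat_lit 3686609845) (nat_lit 0) (nat_lit 752210223) (nat_lit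 76) (nat_lit 752210223) (nat_lit 92) (nat_lit 1) (nat_lit 90) (nat_lit 1) (nat_lit 91) (nat_lit 1) (nat_lit 357) (nat_lit 405) (nat_lit 258)) (XT.lf (nat_lit 0) (nat_lit 989930231) (nat_lit 0) (nat_lit 3159562886) (nat_lit 152) (nat_lit 989930231) (nat_lit 90) (nat_lit 3) (nat_lit 90) (nat_lit 1) (nat_lit 92) (nat_lit 1) (nat_lit 358) (nat_lit 405) (nat_lit 257))) (XT.nd (nat_lit 78) (nat_lit 152) (nat_lit 0) (XT.lf (nat_lit 76) (nat_lit 291846120) (nat_lit 0) (nat_lit 2398285592) (nat_lit 76) (nat_lit 2398285592) (nat_lit 90) (nat_lit 3) (nat_lit 89) (nat_lit 1) (nat_lit 90) (nat_lit 1) (nat_lit 359) (nat_lit 405) (nat_lit 256)) (XT.lf (nat_lit 152) (nat_lit 3701372139) (nat_lit 0) (nat_lit 668329040) (nat_lit 76) (nat_lit 668329040) (nat_lit 89) (nat_lit 1) (nat_lit 87) (nat_lit 1) (nat_lit 88) (nat_lit 1) (nat_lit 360) (nat_lit 405) (nat_lit 255)))) (XT.nd (nat_lit 156) (nat_lit 228) (nat_lit 0)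 (XT.nd (nat_lit 78) (nat_lit 76) (nat_lit 0) (XT.lf (nat_lit 0) (nat_lit 1020090367) (nat_lit 0) (nat_lit 2947780880) (nat_lit 152) (nat_lit 1020090367) (nat_lit 87) (nat_lit 3) (nat_lit 87) (nat_lit 1) (nat_lit 89) (nat_lit 1) (nat_lit 361) (nat_lit 405) (nat_lit 254)) (XT.lf (nat_lit 76) (nat_lit 398473734) (nat_lit 0) (nat_lit 2270017921) (nat_lit 76) (nat_lit 2270017921) (nat_lit 87) (nat_lit 3) (nat_lit 86) (nat_lit 1) (nat_lit 87) (nat_lit 1) (nat_lit 362) (nat_lit 405) (nat_lit 253))) (XT.nd (nat_lit 78) (nat_lit 76) (nat_lit 0) (XT.lf (nat_lit 152) (nat_lit 3702084352) (nat_lit 0) (nat_lit 593801696) (nat_lit 76) (nat_lit 593801696) (nat_lit 86) (nat_lit 1) (nat_lit 84) (nat_lit 1) (nat_lit 85) (nat_lit 1) (nat_lit 363) (nat_lit 405) (nat_lit 252)) (XT.nd (nat_lit 78) (nat_lit 76) (nat_lit 0) (XT.lf (nat_lit 0) (nat_lit 1042793563) (nat_lit 0) (nat_lit 2755521616) (nat_lit 152) (nat_lit 1042793563)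 (nat_lit 84) (nat_lit 3) (nat_lit 84) (nat_lit 1) (nat_lit 86) (nat_lit 1) (nat_lit 364) (nat_lit 405) (nat_lit 251)) (XT.lf (nat_lit 76) (nat_lit 489157427) (nat_lit 0) (nat_lit 2152000197) (nat_lit 76) (nat_lit 2152000197) (nat_lit 84) (nat_lit 3) (nat_lit 83) (nat_lit 1) (nat_lit 84) (nat_lit 1) (nat_lit 365) (nat_lit 405) (nat_lit 250)))))) (XT.nd (nat_lit 390) (nat_lit 456) (nat_lit 0) (XT.nd (nat_lit 156) (nat_lit 228) (nat_lit 0) (XT.nd (nat_lit 78) (nat_lit 0) (nat_lit 0) (XT.lf (nat_lit 152) (nat_lit 3690674528) (nat_lit 0) (nat_lit 527585116) (nat_lit 76) (nat_lit 527585116) (nat_lit 83) (nat_lit 1) (nat_lit 81) (nat_lit 1) (nat_lit 82) (nat_lit 1) (nat_lit 366) (nat_lit 405) (nat_lit 249)) (XT.lf (nat_lit 0) (nat_lit 1058990598) (nat_lit 0) (nat_lit 2580727289) (nat_lit 152) (nat_lit 1058990598) (nat_lit 81) (nat_lit 3) (nat_lit 81) (nat_lit 1) (nat_lit 83) (nat_lit 1) (nat_lit 367) (nat_lit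 405) (nat_lit 248))) (XT.nd (nat_lit 78) (nat_lit 152) (nat_lit 0) (XT.lf (nat_lit 76) (nat_lit 565793218) (nat_lit 0) (nat_lit 2043207482) (nat_lit 76) (nat_lit 2043207482) (nat_lit 81) (nat_lit 3) (nat_lit 80) (nat_lit 1) (nat_lit 81) (nat_lit 1) (nat_lit 368) (nat_lit 405) (nat_lit 247)) (XT.nd (nat_lit 78) (nat_lit 0) (nat_lit 0) (XT.lf (nat_lit 152) (nat_lit 3668845187) (nat_lit 0) (nat_lit 468752542) (nat_lit 76) (nat_lit 468752542) (nat_lit 80) (nat_lit 1) (nat_lit 78) (nat_lit 1) (nat_lit 79) (nat_lit 1) (nat_lit 369) (nat_lit 405) (nat_lit 246)) (XT.lf (nat_lit 0) (nat_lit 1069522753) (nat_lit 0) (nat_lit 2421566095) (nat_lit 152) (nat_lit 1069522753) (nat_lit 78) (nat_lit 3) (nat_lit 78) (nat_lit 1) (nat_lit 80) (nat_lit 1) (nat_lit 370) (nat_lit 405) (nat_lit 245))))) (XT.nd (nat_lit 156) (nat_lit 228) (nat_lit 0) (XT.nd (nat_lit 78) (nat_lit 152) (nat_lit 0) (XT.lf (nat_lit 76) (nat_lit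 630062257) (nat_lit 0) (nat_lit 1942725694) (nat_lit 76) (nat_lit 1942725694) (nat_lit 78) (nat_lit 3) (nat_lit 77) (nat_lit 1) (nat_lit 78) (nat_lit 1) (nat_lit 371) (nat_lit 405) (nat_lit 244)) (XT.lf (nat_lit 152) (nat_lit 3638098779) (nat_lit 0) (nat_lit 416480562) (nat_lit 76) (nat_lit 416480562) (nat_lit 77) (nat_lit 1) (nat_lit 75) (nat_lit 1) (nat_lit 76) (nat_lit 1) (nat_lit 372) (nat_lit 405) (nat_lit 243))) (XT.nd (nat_lit 78) (nat_lit 228) (nat_lit 0) (XT.lf (nat_lit 0) (nat_lit 1075134127) (nat_lit 0) (nat_lit 2276407124) (nat_lit 152) (nat_lit 1075134127) (nat_lit 75) (nat_lit 3) (nat_lit 75) (nat_lit 1) (nat_lit 77) (nat_lit 1) (nat_lit 373) (nat_lit 405) (nat_lit 242)) (XT.nd (nat_lit 78) (nat_lit 152) (nat_lit 0) (XT.lf (nat_lit 76) (nat_lit 683454883) (nat_lit 0) (nat_lit 1849739346) (nat_lit 76) (nat_lit 1849739346) (nat_lit 75) (nat_lit 3) (nat_lit 74) (nat_lit 1) (nat_lit 75) (nat_lit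 1) (nat_lit 374) (nat_lit 405) (nat_lit 241)) (XT.lf (nat_lit 152) (nat_lit 3599760295) (nat_lit 0) (nat_lit 370037585) (nat_lit 76) (nat_lit 370037585) (nat_lit 74) (nat_lit 1) (nat_lit 72) (nat_lit 1) (nat_lit 73) (nat_lit 1) (nat_lit 375) (nat_lit 405) (nat_lit 240))))))))
noncomputable def ec334 : XT := (XT.nd (nat_lit 1482) (nat_lit 1444) (nat_lit 0) (XT.nd (nat_lit 702) (nat_lit 684) (nat_lit 0) (XT.nd (nat_lit 312) (nat_lit 456) (nat_lit 0) (XT.nd (nat_lit 156) (nat_lit 152) (nat_lit 0) (XT.nd (nat_lit 78) (nat_lit 76) (nat_lit 0) (XT.lf (nat_lit 0) (nat_lit 1076482565) (nat_lit 0) (nat_lit 2143798064) (nat_lit 152) (nat_lit 1076482565) (nat_lit 72) (nat_lit 3) (nat_lit 72) (nat_lit 1) (nat_lit 74) (nat_lit 1) (nat_lit 376) (nat_lit 405) (nat_lit 239)) (XT.lf (nat_lit 76) (nat_lit 727292005) (nat_lit 0) (nat_lit 1763520644) (nat_lit 76) (nat_lit 1763520644) (nat_lit 72) (nat_lit 3) (nat_lit 71)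 (nat_lit 1) (nat_lit 72) (nat_lit 1) (nat_lit 377) (nat_lit 405) (nat_lit 238))) (XT.nd (nat_lit 78) (nat_lit 0) (nat_lit 0) (XT.lf (nat_lit 152) (nat_lit 3554997340) (nat_lit 0) (nat_lit 328773602) (nat_lit 76) (nat_lit 328773602) (nat_lit 71) (nat_lit 1) (nat_lit 69) (nat_lit 1) (nat_lit 70) (nat_lit 1) (nat_lit 378) (nat_lit 405) (nat_lit 237)) (XT.lf (nat_lit 0) (nat_lit 1074149378) (nat_lit 0) (nat_lit 2022445375) (nat_lit 152) (nat_lit 1074149378) (nat_lit 69) (nat_lit 3) (nat_lit 69) (nat_lit 1) (nat_lit 71) (nat_lit 1) (nat_lit 379) (nat_lit 405) (nat_lit 236)))) (XT.nd (nat_lit 156) (nat_lit 228) (nat_lit 0) (XT.nd (nat_lit 78) (nat_lit 152) (nat_lit 0) (XT.lf (nat_lit 76) (nat_lit 762744082) (nat_lit 0) (nat_lit 1683419807) (nat_lit 76) (nat_lit 1683419807) (nat_lit 69) (nat_lit 3) (nat_lit 68) (nat_lit 1) (nat_lit 69) (nat_lit 1) (nat_lit 380) (nat_lit 405) (nat_lit 235)) (XT.lf (nat_lit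 152) (nat_lit 3504837968) (nat_lit 0) (nat_lit 292111087) (nat_lit 76) (nat_lit 292111087) (nat_lit 68) (nat_lit 1) (nat_lit 66) (nat_lit 1) (nat_lit 67) (nat_lit 1) (nat_lit 381) (nat_lit 405) (nat_lit 234))) (XT.nd (nat_lit 78) (nat_lit 228) (nat_lit 0) (XT.lf (nat_lit 0) (nat_lit 1068647967) (nat_lit 0) (nat_lit 1911196678) (nat_lit 152) (nat_lit 1068647967) (nat_lit 66) (nat_lit 3) (nat_lit 66) (nat_lit 1) (nat_lit 68) (nat_lit 1) (nat_lit 382) (nat_lit 405) (nat_lit 233)) (XT.nd (nat_lit 78) (nat_lit 152) (nat_lit 0) (XT.lf (nat_lit 76) (nat_lit 790848001) (nat_lit 0) (nat_lit 1608856458) (nat_lit 76) (nat_lit 1608856458) (nat_lit 66) (nat_lit 3) (nat_lit 65) (nat_lit 1) (nat_lit 66) (nat_lit 1) (nat_lit 383) (nat_lit 405) (nat_lit 232)) (XT.lf (nat_lit 152) (nat_lit 3450186515) (nat_lit 0) (nat_lit 259536917) (nat_lit 76) (nat_lit 259536917) (nat_lit 65) (nat_lit 1) (nat_lit 63) (nat_lit 1) (nat_lit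 64) (nat_lit 1) (nat_lit 384) (nat_lit 405) (nat_lit 231)))))) (XT.nd (nat_lit 390) (nat_lit 380) (nat_lit 0) (XT.nd (nat_lit 156) (nat_lit 228) (nat_lit 0) (XT.nd (nat_lit 78) (nat_lit 76) (nat_lit 0) (XT.lf (nat_lit 0) (nat_lit 1060431487) (nat_lit 0) (nat_lit 1809025103) (nat_lit 152) (nat_lit 1060431487) (nat_lit 63) (nat_lit 3) (nat_lit 63) (nat_lit 1) (nat_lit 65) (nat_lit 1) (nat_lit 385) (nat_lit 405) (nat_lit 230)) (XT.lf (nat_lit 76) (nat_lit 812522054) (nat_lit 0) (nat_lit 1539311973) (nat_lit 76) (nat_lit 1539311973) (nat_lit 63) (nat_lit 3) (nat_lit 62) (nat_lit 1) (nat_lit 63) (nat_lit 1) (nat_lit 386) (nat_lit 405) (nat_lit 229))) (XT.nd (nat_lit 78) (nat_lit 76) (nat_lit 0) (XT.lf (nat_lit 152) (nat_lit 3391837657) (nat_lit 0) (nat_lit 230595189) (nat_lit 76) (nat_lit 230595189) (nat_lit 62) (nat_lit 1) (nat_lit 60) (nat_lit 1) (nat_lit 61) (nat_lit 1) (nat_lit 387) (nat_lit 405) (nat_lit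 228)) (XT.nd (nat_lit 78) (nat_lit 76) (nat_lit 0) (XT.lf (nat_lit 0) (nat_lit 1049899650) (nat_lit 0) (nat_lit 1715015382) (nat_lit 152) (nat_lit 1049899650) (nat_lit 60) (nat_lit 3) (nat_lit 60) (nat_lit 1) (nat_lit 62) (nat_lit 1) (nat_lit 388) (nat_lit 405) (nat_lit 227)) (XT.lf (nat_lit 76) (nat_lit 828579251) (nat_lit 0) (nat_lit 1474322681) (nat_lit 76) (nat_lit 1474322681) (nat_lit 60) (nat_lit 3) (nat_lit 59) (nat_lit 1) (nat_lit 60) (nat_lit 1) (nat_lit 389) (nat_lit 405) (nat_lit 226))))) (XT.nd (nat_lit 156) (nat_lit 228) (nat_lit 0) (XT.nd (nat_lit 78) (nat_lit 0) (nat_lit 0) (XT.lf (nat_lit 152) (nat_lit 3330488901) (nat_lit 0) (nat_lit 204880839) (nat_lit 76) (nat_lit 204880839) (nat_lit 59) (nat_lit 1) (nat_lit 57) (nat_lit 1) (nat_lit 58) (nat_lit 1) (nat_lit 390) (nat_lit 405) (nat_lit 225)) (XT.lf (nat_lit 0) (nat_lit 1037404773) (nat_lit 0) (nat_lit 1628351487) (nat_lit 152) (nat_lit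 1037404773) (nat_lit 57) (nat_lit 3) (nat_lit 57) (nat_lit 1) (nat_lit 59) (nat_lit 1) (nat_lit 391) (nat_lit 405) (nat_lit 224))) (XT.nd (nat_lit 78) (nat_lit 152) (nat_lit 0) (XT.lf (nat_lit 76) (nat_lit 839739147) (nat_lit 0) (nat_lit 1413473820) (nat_lit 76) (nat_lit 1413473820) (nat_lit 57) (nat_lit 3) (nat_lit 56) (nat_lit 1) (nat_lit 57) (nat_lit 1) (nat_lit 392) (nat_lit 405) (nat_lit 223)) (XT.nd (nat_lit 78) (nat_lit 0) (nat_lit 0) (XT.lf (nat_lit 152) (nat_lit 3266751663) (nat_lit 0) (nat_lit 182033972) (nat_lit 76) (nat_lit 182033972) (nat_lit 56) (nat_lit 1) (nat_lit 54) (nat_lit 1) (nat_lit 55) (nat_lit 1) (nat_lit 393) (nat_lit 405) (nat_lit 222)) (XT.lf (nat_lit 0) (nat_lit 1023257144) (nat_lit 0) (nat_lit 1548305645) (nat_lit 152) (nat_lit 1023257144) (nat_lit 54) (nat_lit 3) (nat_lit 54) (nat_lit 1) (nat_lit 56) (nat_lit 1) (nat_lit 394) (nat_lit 405) (nat_lit 221))))))) (XT.nd (nat_lit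 702) (nat_lit 760) (nat_lit 0) (XT.nd (nat_lit 312) (nat_lit 380) (nat_lit 0) (XT.nd (nat_lit 156) (nat_lit 76) (nat_lit 0) (XT.nd (nat_lit 78) (nat_lit 152) (nat_lit 0) (XT.lf (nat_lit 76) (nat_lit 846638339) (nat_lit 0) (nat_lit 1356394166) (nat_lit 76) (nat_lit 1356394166) (nat_lit 54) (nat_lit 3) (nat_lit 53) (nat_lit 1) (nat_lit 54) (nat_lit 1) (nat_lit 395) (nat_lit 405) (nat_lit 220)) (XT.lf (nat_lit 152) (nat_lit 3201161116) (nat_lit 0) (nat_lit 161734826) (nat_lit 76) (nat_lit 161734826) (nat_lit 53) (nat_lit 1) (nat_lit 51) (nat_lit 1) (nat_lit 52) (nat_lit 1) (nat_lit 396) (nat_lit 405) (nat_lit 219))) (XT.nd (nat_lit 78) (nat_lit 76) (nat_lit 0) (XT.lf (nat_lit 0) (nat_lit 1007729786) (nat_lit 0) (nat_lit 1474228579) (nat_lit 152) (nat_lit 1007729786) (nat_lit 51) (nat_lit 3) (nat_lit 51) (nat_lit 1) (nat_lit 53) (nat_lit 1) (nat_lit 397) (nat_lit 405) (nat_lit 218)) (XT.lf (nat_lit 76)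 (nat_lit 849839805) (nat_lit 0) (nat_lit 1302751254) (nat_lit 76) (nat_lit 1302751254) (nat_lit 51) (nat_lit 3) (nat_lit 50) (nat_lit 1) (nat_lit 51) (nat_lit 1) (nat_lit 398) (nat_lit 405) (nat_lit 217)))) (XT.nd (nat_lit 156) (nat_lit 228) (nat_lit 0) (XT.nd (nat_lit 78) (nat_lit 0) (nat_lit 0) (XT.lf (nat_lit 152) (nat_lit 3134184922) (nat_lit 0) (nat_lit 143699298) (nat_lit 76) (nat_lit 143699298) (nat_lit 50) (nat_lit 1) (nat_lit 48) (nat_lit 1) (nat_lit 49) (nat_lit 1) (nat_lit 399) (nat_lit 405) (nat_lit 216)) (XT.lf (nat_lit 0) (nat_lit 991062695) (nat_lit 0) (nat_lit 1405540830) (nat_lit 152) (nat_lit 991062695) (nat_lit 48) (nat_lit 3) (nat_lit 48) (nat_lit 1) (nat_lit 50) (nat_lit 1) (nat_lit 400) (nat_lit 405) (nat_lit 215))) (XT.nd (nat_lit 78) (nat_lit 152) (nat_lit 0) (XT.lf (nat_lit 76) (nat_lit 849841180) (nat_lit 0) (nat_lit 1252247136) (nat_lit 76) (nat_lit 1252247136) (nat_lit 48)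 (nat_lit 3) (nat_lit 47) (nat_lit 1) (nat_lit 48) (nat_lit 1) (nat_lit 401) (nat_lit 405) (nat_lit 214)) (XT.nd (nat_lit 78) (nat_lit 0) (nat_lit 0) (XT.lf (nat_lit 152) (nat_lit 3066230993) (nat_lit 0) (nat_lit 127674965) (nat_lit 76) (nat_lit 127674965) (nat_lit 47) (nat_lit 1) (nat_lit 45) (nat_lit 1) (nat_lit 46) (nat_lit 1) (nat_lit 402) (nat_lit 405) (nat_lit 213)) (XT.lf (nat_lit 0) (nat_lit 973466594) (nat_lit 0) (nat_lit 1341725049) (nat_lit 152) (nat_lit 973466594) (nat_lit 45) (nat_lit 3) (nat_lit 45) (nat_lit 1) (nat_lit 47) (nat_lit 1) (nat_lit 403) (nat_lit 405) (nat_lit 212)))))) (XT.nd (nat_lit 390) (nat_lit 304) (nat_lit 0) (XT.nd (nat_lit 156) (nat_lit 228) (nat_lit 0) (XT.nd (nat_lit 78) (nat_lit 152) (nat_lit 0) (XT.lf (nat_lit 76) (nat_lit 847082124) (nat_lit 0) (nat_lit 1204614604) (nat_lit 76) (nat_lit 1204614604) (nat_lit 45) (nat_lit 3) (nat_lit 44) (nat_lit 1) (nat_lit 45)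 (nat_lit 1) (nat_lit 404) (nat_lit 405) (nat_lit 211)) (XT.lf (nat_lit 152) (nat_lit 2997654371) (nat_lit 0) (nat_lit 113437553) (nat_lit 76) (nat_lit 113437553) (nat_lit 44) (nat_lit 1) (nat_lit 42) (nat_lit 1) (nat_lit 43) (nat_lit 1) (nat_lit 405) (nat_lit 405) (nat_lit 210))) (XT.nd (nat_lit 78) (nat_lit 228) (nat_lit 0) (XT.lf (nat_lit 0) (nat_lit 955126272) (nat_lit 0) (nat_lit 1282319139) (nat_lit 152) (nat_lit 955126272) (nat_lit 42) (nat_lit 3) (nat_lit 42) (nat_lit 1) (nat_lit 44) (nat_lit 1) (nat_lit 406) (nat_lit 405) (nat_lit 209)) (XT.nd (nat_lit 78) (nat_lit 152) (nat_lit 0) (XT.lf (nat_lit 76) (nat_lit 841950858) (nat_lit 0) (nat_lit 1159613836) (nat_lit 76) (nat_lit 1159613836) (nat_lit 42) (nat_lit 3) (nat_lit 41) (nat_lit 1) (nat_lit 42) (nat_lit 1) (nat_lit 407) (nat_lit 405) (nat_lit 208)) (XT.lf (nat_lit 152) (nat_lit 2928763344) (nat_lit 0) (nat_lit 100787796) (nat_lit 76) (nat_lit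 100787796) (nat_lit 41) (nat_lit 1) (nat_lit 39) (nat_lit 1) (nat_lit 40) (nat_lit 1) (nat_lit 408) (nat_lit 405) (nat_lit 207))))) (XT.nd (nat_lit 156) (nat_lit 228) (nat_lit 0) (XT.nd (nat_lit 78) (nat_lit 76) (nat_lit 0) (XT.lf (nat_lit 0) (nat_lit 936203546) (nat_lit 0) (nat_lit 1226910171) (nat_lit 152) (nat_lit 936203546) (nat_lit 39) (nat_lit 3) (nat_lit 39) (nat_lit 1) (nat_lit 41) (nat_lit 1) (nat_lit 409) (nat_lit 405) (nat_lit 206)) (XT.lf (nat_lit 76) (nat_lit 834789968) (nat_lit 0) (nat_lit 1117029410) (nat_lit 76) (nat_lit 1117029410) (nat_lit 39) (nat_lit 3) (nat_lit 38) (nat_lit 1) (nat_lit 39) (nat_lit 1) (nat_lit 410) (nat_lit 405) (nat_lit 205))) (XT.nd (nat_lit 78) (nat_lit 76) (nat_lit 0) (XT.lf (nat_lit 152) (nat_lit 2859824861) (nat_lit 0) (nat_lit 89548652) (nat_lit 76) (nat_lit 89548652) (nat_lit 38) (nat_lit 1) (nat_lit 36) (nat_lit 1) (nat_lit 37) (nat_lit 1) (nat_lit 411)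 (nat_lit 405) (nat_lit 204)) (XT.nd (nat_lit 78) (nat_lit 76) (nat_lit 0) (XT.lf (nat_lit 0) (nat_lit 916839894) (nat_lit 0) (nat_lit 1175128965) (nat_lit 152) (nat_lit 916839894) (nat_lit 36) (nat_lit 3) (nat_lit 36) (nat_lit 1) (nat_lit 38) (nat_lit 1) (nat_lit 412) (nat_lit 405) (nat_lit 203)) (XT.lf (nat_lit 76) (nat_lit 825901566) (nat_lit 0) (nat_lit 1076667654) (nat_lit 76) (nat_lit 1076667654) (nat_lit 36) (nat_lit 3) (nat_lit 35) (nat_lit 1) (nat_lit 36) (nat_lit 1) (nat_lit 413) (nat_lit 405) (nat_lit 202))))))))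
noncomputable def ec335 : XT := (XT.nd (nat_lit 37674) (nat_lit 0) (nat_lit 22648) (XT.nd (nat_lit 702) (nat_lit 152) (nat_lit 0) (XT.nd (nat_lit 312) (nat_lit 304) (nat_lit 0) (XT.nd (nat_lit 156) (nat_lit 228) (nat_lit 0) (XT.nd (nat_lit 78) (nat_lit 0) (nat_lit 0) (XT.lf (nat_lit 152) (nat_lit 2791069352) (nat_lit 0) (nat_lit 79562817) (nat_lit 76) (nat_lit 79562817) (nat_lit 35) (nat_lit 1) (nat_lit 33) (nat_lit 1) (nat_lit 34) (nat_lit 1) (nat_lit 414) (nat_lit 405) (nat_lit 201)) (XT.lf (nat_lit 0) (nat_lit 897158788) (nat_lit 0) (nat_lit 1126645282) (nat_lit 152) (nat_lit 897158788) (nat_lit 33) (nat_lit 3) (nat_lit 33) (nat_lit 1) (nat_lit 35) (nat_lit 1) (nat_lit 415) (nat_lit 405) (nat_lit 200))) (XT.nd (nat_lit 78) (nat_lit 152) (nat_lit 0) (XT.lf (nat_lit 76) (nat_lit 815551865) (nat_lit 0) (nat_lit 1038354286) (nat_lit 76) (nat_lit 1038354286) (nat_lit 33) (nat_lit 3) (nat_lit 32) (nat_lit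 1) (nat_lit 33) (nat_lit 1) (nat_lit 416) (nat_lit 405) (nat_lit 199)) (XT.lf (nat_lit 152) (nat_lit 2722694992) (nat_lit 0) (nat_lit 70690532) (nat_lit 76) (nat_lit 70690532) (nat_lit 32) (nat_lit 1) (nat_lit 30) (nat_lit 1) (nat_lit 31) (nat_lit 1) (nat_lit 417) (nat_lit 405) (nat_lit 198)))) (XT.nd (nat_lit 156) (nat_lit 228) (nat_lit 0) (XT.nd (nat_lit 78) (nat_lit 76) (nat_lit 0) (XT.lf (nat_lit 0) (nat_lit 877267766) (nat_lit 0) (nat_lit 1081163544) (nat_lit 152) (nat_lit 877267766) (nat_lit 30) (nat_lit 3) (nat_lit 30) (nat_lit 1) (nat_lit 32) (nat_lit 1) (nat_lit 418) (nat_lit 405) (nat_lit 197)) (XT.lf (nat_lit 76) (nat_lit 803975250) (nat_lit 0) (nat_lit 1001932316) (nat_lit 76) (nat_lit 1001932316) (nat_lit 30) (nat_lit 3) (nat_lit 29) (nat_lit 1) (nat_lit 30) (nat_lit 1) (nat_lit 419) (nat_lit 405) (nat_lit 196))) (XT.nd (nat_lit 78) (nat_lit 76) (nat_lit 0) (XT.lf (nat_lit 152) (nat_lit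 2654871491) (nat_lit 0) (nat_lit 62807622) (nat_lit 76) (nat_lit 62807622) (nat_lit 29) (nat_lit 1) (nat_lit 27) (nat_lit 1) (nat_lit 28) (nat_lit 1) (nat_lit 420) (nat_lit 405) (nat_lit 195)) (XT.nd (nat_lit 78) (nat_lit 76) (nat_lit 0) (XT.lf (nat_lit 0) (nat_lit 857260274) (nat_lit 0) (nat_lit 1038419031) (nat_lit 152) (nat_lit 857260274) (nat_lit 27) (nat_lit 3) (nat_lit 27) (nat_lit 1) (nat_lit 29) (nat_lit 1) (nat_lit 421) (nat_lit 405) (nat_lit 194)) (XT.lf (nat_lit 76) (nat_lit 791377889) (nat_lit 0) (nat_lit 967260178) (nat_lit 76) (nat_lit 967260178) (nat_lit 27) (nat_lit 3) (nat_lit 26) (nat_lit 1) (nat_lit 27) (nat_lit 1) (nat_lit 422) (nat_lit 405) (nat_lit 193)))))) (XT.nd (nat_lit 36582) (nat_lit 0) (nat_lit 26676) (XT.nd (nat_lit 36348) (nat_lit 0) (nat_lit 26600) (XT.nd (nat_lit 78) (nat_lit 0) (nat_lit 0) (XT.lf (nat_lit 152) (nat_lit 2587743453) (nat_lit 0) (nat_lit 55803759) (nat_lit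 76) (nat_lit 55803759) (nat_lit 26) (nat_lit 1) (nat_lit 24) (nat_lit 1) (nat_lit 25) (nat_lit 1) (nat_lit 423) (nat_lit 405) (nat_lit 192)) (XT.lf (nat_lit 0) (nat_lit 837217297) (nat_lit 0) (nat_lit 998174506) (nat_lit 152) (nat_lit 837217297) (nat_lit 24) (nat_lit 3) (nat_lit 24) (nat_lit 1) (nat_lit 26) (nat_lit 1) (nat_lit 424) (nat_lit 405) (nat_lit 191))) (XT.nd (nat_lit 78) (nat_lit 0) (nat_lit 0) (XT.lf (nat_lit 1292) (nat_lit 2623744298) (nat_lit 0) (nat_lit 9026900610) (nat_lit 1292) (nat_lit 2623744298) (nat_lit 391) (nat_lit 1) (nat_lit 374) (nat_lit 0) (nat_lit 391) (nat_lit 0) (nat_lit 208) (nat_lit 406) (nat_lit 406)) (XT.nd (nat_lit 78) (nat_lit 0) (nat_lit 76) (XT.lf (nat_lit 1292) (nat_lit 10253638696) (nat_lit 76) (nat_lit 8938401584) (nat_lit 0) (nat_lit 8938401584) (nat_lit 391) (nat_lit 1) (nat_lit 375) (nat_lit 1) (nat_lit 374) (nat_lit 0) (nat_lit 209) (nat_lit 406) (nat_lit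 405)) (XT.lf (nat_lit 1292) (nat_lit 4958904149) (nat_lit 0) (nat_lit 17803524648) (nat_lit 1216) (nat_lit 4958904149) (nat_lit 392) (nat_lit 1) (nat_lit 375) (nat_lit 1) (nat_lit 391) (nat_lit 1) (nat_lit 210) (nat_lit 406) (nat_lit 404))))) (XT.nd (nat_lit 156) (nat_lit 0) (nat_lit 76) (XT.nd (nat_lit 78) (nat_lit 0) (nat_lit 76) (XT.lf (nat_lit 1292) (nat_lit 9417215008) (nat_lit 76) (nat_lit 8950920498) (nat_lit 0) (nat_lit 8950920498) (nat_lit 392) (nat_lit 1) (nat_lit 376) (nat_lit 1) (nat_lit 375) (nat_lit 1) (nat_lit 211) (nat_lit 406) (nat_lit 403)) (XT.lf (nat_lit 1292) (nat_lit 4418981177) (nat_lit 0) (nat_lit 18087817794) (nat_lit 1216) (nat_lit 4418981177) (nat_lit 393) (nat_lit 1) (nat_lit 376) (nat_lit 1) (nat_lit 392) (nat_lit 1) (nat_lit 212) (nat_lit 406) (nat_lit 402))) (XT.nd (nat_lit 78) (nat_lit 0) (nat_lit 76) (XT.lf (nat_lit 1292) (nat_lit 8098249589) (nat_lit 76) (nat_lit 9220272171)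 (nat_lit 0) (nat_lit 9220272171) (nat_lit 393) (nat_lit 1) (nat_lit 377) (nat_lit 1) (nat_lit 376) (nat_lit 1) (nat_lit 213) (nat_lit 406) (nat_lit 401)) (XT.nd (nat_lit 78) (nat_lit 0) (nat_lit 0) (XT.lf (nat_lit 1292) (nat_lit 3649950583) (nat_lit 0) (nat_lit 18860842630) (nat_lit 1216) (nat_lit 3649950583) (nat_lit 394) (nat_lit 1) (nat_lit 377) (nat_lit 1) (nat_lit 393) (nat_lit 1) (nat_lit 214) (nat_lit 406) (nat_lit 400)) (XT.lf (nat_lit 1292) (nat_lit 6339895389) (nat_lit 76) (nat_lit 9724211853) (nat_lit 0) (nat_lit 9724211853) (nat_lit 394) (nat_lit 1) (nat_lit 378) (nat_lit 1) (nat_lit 377) (nat_lit 1) (nat_lit 215) (nat_lit 406) (nat_lit 399))))))) (XT.nd (nat_lit 702) (nat_lit 3116) (nat_lit 0) (XT.nd (nat_lit 312) (nat_lit 1140) (nat_lit 0) (XT.nd (nat_lit 156) (nat_lit 0) (nat_lit 76) (XT.nd (nat_lit 78) (nat_lit 0) (nat_lit 0) (XT.lf (nat_lit 1292) (nat_lit 2672539851) (nat_lit 0) (nat_lit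 20079833726) (nat_lit 1216) (nat_lit 2672539851) (nat_lit 395) (nat_lit 1) (nat_lit 378) (nat_lit 1) (nat_lit 394) (nat_lit 1) (nat_lit 216) (nat_lit 406) (nat_lit 398)) (XT.lf (nat_lit 1292) (nat_lit 4182378117) (nat_lit 76) (nat_lit 10441990228) (nat_lit 0) (nat_lit 10441990228) (nat_lit 395) (nat_lit 1) (nat_lit 379) (nat_lit 1) (nat_lit 378) (nat_lit 1) (nat_lit 217) (nat_lit 406) (nat_lit 397))) (XT.nd (nat_lit 78) (nat_lit 0) (nat_lit 0) (XT.lf (nat_lit 1292) (nat_lit 1506065970) (nat_lit 0) (nat_lit 21704909017) (nat_lit 1216) (nat_lit 1506065970) (nat_lit 396) (nat_lit 1) (nat_lit 379) (nat_lit 1) (nat_lit 395) (nat_lit 1) (nat_lit 218) (nat_lit 406) (nat_lit 396)) (XT.lf (nat_lit 1292) (nat_lit 1663177379) (nat_lit 76) (nat_lit 11354261200) (nat_lit 0) (nat_lit 11354261200) (nat_lit 396) (nat_lit 1) (nat_lit 380) (nat_lit 1) (nat_lit 379) (nat_lit 1) (nat_lit 219) (nat_lit 406) (nat_lit 395))))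 (XT.nd (nat_lit 156) (nat_lit 0) (nat_lit 0) (XT.nd (nat_lit 78) (nat_lit 1292) (nat_lit 0) (XT.lf (nat_lit 1292) (nat_lit 168522827) (nat_lit 0) (nat_lit 23698891804) (nat_lit 1216) (nat_lit 168522827) (nat_lit 397) (nat_lit 1) (nat_lit 380) (nat_lit 1) (nat_lit 396) (nat_lit 1) (nat_lit 220) (nat_lit 406) (nat_lit 394)) (XT.lf (nat_lit 1368) (nat_lit 11271562038) (nat_lit 0) (nat_lit 1159722206) (nat_lit 1292) (nat_lit 11271562038) (nat_lit 381) (nat_lit 1) (nat_lit 363) (nat_lit 1) (nat_lit 380) (nat_lit 1) (nat_lit 221) (nat_lit 406) (nat_lit 393))) (XT.nd (nat_lit 78) (nat_lit 0) (nat_lit 76) (XT.lf (nat_lit 1368) (nat_lit 20758210520) (nat_lit 76) (nat_lit 1310362713) (nat_lit 0) (nat_lit 1310362713) (nat_lit 381) (nat_lit 1) (nat_lit 364) (nat_lit 1) (nat_lit 363) (nat_lit 1) (nat_lit 222) (nat_lit 406) (nat_lit 392)) (XT.nd (nat_lit 78) (nat_lit 0) (nat_lit 0) (XT.lf (nat_lit 1368) (nat_lit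 9409878950) (nat_lit 0) (nat_lit 4238715772) (nat_lit 1292) (nat_lit 9409878950) (nat_lit 382) (nat_lit 1) (nat_lit 364) (nat_lit 1) (nat_lit 381) (nat_lit 1) (nat_lit 223) (nat_lit 406) (nat_lit 391)) (XT.lf (nat_lit 1368) (nat_lit 16896209029) (nat_lit 76) (nat_lit 2924962926) (nat_lit 0) (nat_lit 2924962926) (nat_lit 382) (nat_lit 1) (nat_lit 365) (nat_lit 1) (nat_lit 364) (nat_lit 1) (nat_lit 224) (nat_lit 406) (nat_lit 390)))))) (XT.nd (nat_lit 390) (nat_lit 1824) (nat_lit 0) (XT.nd (nat_lit 156) (nat_lit 608) (nat_lit 0) (XT.nd (nat_lit 78) (nat_lit 836) (nat_lit 0) (XT.lf (nat_lit 76) (nat_lit 7430698327) (nat_lit 0) (nat_lit 7576624183) (nat_lit 1292) (nat_lit 7430698327) (nat_lit 366) (nat_lit 1) (nat_lit 365) (nat_lit 1) (nat_lit 382) (nat_lit 1) (nat_lit 225) (nat_lit 406) (nat_lit 389)) (XT.lf (nat_lit 912) (nat_lit 12811570031) (nat_lit 0) (nat_lit 4662573722) (nat_lit 836) (nat_lit 4662573722)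 (nat_lit 366) (nat_lit 1) (nat_lit 354) (nat_lit 1) (nat_lit 365) (nat_lit 1) (nat_lit 226) (nat_lit 406) (nat_lit 388))) (XT.nd (nat_lit 78) (nat_lit 608) (nat_lit 0) (XT.lf (nat_lit 76) (nat_lit 5347299933) (nat_lit 0) (nat_lit 11145895492) (nat_lit 912) (nat_lit 5347299933) (nat_lit 355) (nat_lit 1) (nat_lit 354) (nat_lit 1) (nat_lit 366) (nat_lit 1) (nat_lit 227) (nat_lit 406) (nat_lit 387)) (XT.nd (nat_lit 78) (nat_lit 0) (nat_lit 0) (XT.lf (nat_lit 684) (nat_lit 8530015543) (nat_lit 0) (nat_lit 6509851402) (nat_lit 608) (nat_lit 6509851402) (nat_lit 355) (nat_lit 1) (nat_lit 346) (nat_lit 1) (nat_lit 354) (nat_lit 1) (nat_lit 228) (nat_lit 406) (nat_lit 386)) (XT.lf (nat_lit 76) (nat_lit 3172010882) (nat_lit 0) (nat_lit 14920928934) (nat_lit 684) (nat_lit 3172010882) (nat_lit 347) (nat_lit 1) (nat_lit 346) (nat_lit 1) (nat_lit 355) (nat_lit 1) (nat_lit 229) (nat_lit 406) (nat_lit 385))))) (XT.nd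 (nat_lit 156) (nat_lit 1216) (nat_lit 0) (XT.nd (nat_lit 78) (nat_lit 0) (nat_lit 0) (XT.lf (nat_lit 684) (nat_lit 4075414092) (nat_lit 0) (nat_lit 8454401237) (nat_lit 608) (nat_lit 8454401237) (nat_lit 347) (nat_lit 1) (nat_lit 338) (nat_lit 1) (nat_lit 346) (nat_lit 1) (nat_lit 230) (nat_lit 406) (nat_lit 384)) (XT.lf (nat_lit 76) (nat_lit 916265868) (nat_lit 0) (nat_lit 18877952158) (nat_lit 684) (nat_lit 916265868) (nat_lit 339) (nat_lit 1) (nat_lit 338) (nat_lit 1) (nat_lit 347) (nat_lit 1) (nat_lit 231) (nat_lit 406) (nat_lit 383))) (XT.nd (nat_lit 78) (nat_lit 608) (nat_lit 0) (XT.lf (nat_lit 76) (nat_lit 9959711407) (nat_lit 0) (nat_lit 519757713) (nat_lit 608) (nat_lit 9959711407) (nat_lit 331) (nat_lit 1) (nat_lit 330) (nat_lit 1) (nat_lit 338) (nat_lit 1) (nat_lit 232) (nat_lit 406) (nat_lit 382)) (XT.nd (nat_lit 78) (nat_lit 0) (nat_lit 0) (XT.lf (nat_lit 684) (nat_lit 17383561053) (nat_lit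 0) (nat_lit 1395519204) (nat_lit 608) (nat_lit 1395519204) (nat_lit 331) (nat_lit 1) (nat_lit 322) (nat_lit 1) (nat_lit 330) (nat_lit 1) (nat_lit 233) (nat_lit 406) (nat_lit 381)) (XT.lf (nat_lit 76) (nat_lit 7374722438) (nat_lit 0) (nat_lit 5163266722) (nat_lit 684) (nat_lit 7374722438) (nat_lit 323) (nat_lit 1) (nat_lit 322) (nat_lit 1) (nat_lit 331) (nat_lit 1) (nat_lit 234) (nat_lit 406) (nat_lit 380))))))))
noncomputable def ec336 : XT := (XT.nd (nat_lit 1404) (nat_lit 3648) (nat_lit 0) (XT.nd (nat_lit 702) (nat_lit 2584) (nat_lit 0) (XT.nd (nat_lit 312) (nat_lit 1520) (nat_lit 0) (XT.nd (nat_lit 156) (nat_lit 532) (nat_lit 0) (XT.nd (nat_lit 78) (nat_lit 0) (nat_lit 0) (XT.lf (nat_lit 608) (nat_lit 12141430269) (nat_lit 0) (nat_lit 3757773445) (nat_lit 532) (nat_lit 3757773445) (nat_lit 323) (nat_lit 1) (nat_lit 315) (nat_lit 1) (nat_lit 322) (nat_lit 1) (nat_lit 235) (nat_lit 406) (nat_lit 379))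 (XT.lf (nat_lit 76) (nat_lit 4744582535) (nat_lit 0) (nat_lit 9916024901) (nat_lit 608) (nat_lit 4744582535) (nat_lit 316) (nat_lit 1) (nat_lit 315) (nat_lit 1) (nat_lit 323) (nat_lit 1) (nat_lit 236) (nat_lit 406) (nat_lit 378))) (XT.nd (nat_lit 78) (nat_lit 0) (nat_lit 0) (XT.lf (nat_lit 608) (nat_lit 6816934386) (nat_lit 0) (nat_lit 6170485237) (nat_lit 532) (nat_lit 6170485237) (nat_lit 316) (nat_lit 1) (nat_lit 308) (nat_lit 1) (nat_lit 315) (nat_lit 1) (nat_lit 237) (nat_lit 406) (nat_lit 377)) (XT.lf (nat_lit 76) (nat_lit 2077520631) (nat_lit 0) (nat_lit 14760815108) (nat_lit 608) (nat_lit 2077520631) (nat_lit 309) (nat_lit 1) (nat_lit 308) (nat_lit 1) (nat_lit 316) (nat_lit 1) (nat_lit 238) (nat_lit 406) (nat_lit 376)))) (XT.nd (nat_lit 156) (nat_lit 456) (nat_lit 0) (XT.nd (nat_lit 78) (nat_lit 608) (nat_lit 0) (XT.lf (nat_lit 532) (nat_lit 1425965132) (nat_lit 0) (nat_lit 8625338868) (nat_lit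 456) (nat_lit 8625338868) (nat_lit 309) (nat_lit 1) (nat_lit 302) (nat_lit 1) (nat_lit 308) (nat_lit 1) (nat_lit 239) (nat_lit 406) (nat_lit 375)) (XT.lf (nat_lit 608) (nat_lit 17217660968) (nat_lit 0) (nat_lit 612803542) (nat_lit 532) (nat_lit 612803542) (nat_lit 302) (nat_lit 1) (nat_lit 294) (nat_lit 1) (nat_lit 301) (nat_lit 1) (nat_lit 240) (nat_lit 406) (nat_lit 374))) (XT.nd (nat_lit 78) (nat_lit 456) (nat_lit 0) (XT.lf (nat_lit 76) (nat_lit 7136442822) (nat_lit 0) (nat_lit 3938440477) (nat_lit 608) (nat_lit 7136442822) (nat_lit 295) (nat_lit 1) (nat_lit 294) (nat_lit 1) (nat_lit 302) (nat_lit 1) (nat_lit 241) (nat_lit 406) (nat_lit 373)) (XT.nd (nat_lit 78) (nat_lit 0) (nat_lit 0) (XT.lf (nat_lit 532) (nat_lit 11375268315) (nat_lit 0) (nat_lit 3304873419) (nat_lit 456) (nat_lit 3304873419) (nat_lit 295) (nat_lit 1) (nat_lit 288) (nat_lit 1) (nat_lit 294) (nat_lit 1) (nat_lit 242) (nat_lit 406)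 (nat_lit 372)) (XT.lf (nat_lit 76) (nat_lit 4224710593) (nat_lit 0) (nat_lit 9312594200) (nat_lit 532) (nat_lit 4224710593) (nat_lit 289) (nat_lit 1) (nat_lit 288) (nat_lit 1) (nat_lit 295) (nat_lit 1) (nat_lit 243) (nat_lit 406) (nat_lit 371)))))) (XT.nd (nat_lit 312) (nat_lit 1216) (nat_lit 0) (XT.nd (nat_lit 156) (nat_lit 912) (nat_lit 0) (XT.nd (nat_lit 78) (nat_lit 0) (nat_lit 0) (XT.lf (nat_lit 532) (nat_lit 5517492965) (nat_lit 0) (nat_lit 6012679286) (nat_lit 456) (nat_lit 6012679286) (nat_lit 289) (nat_lit 1) (nat_lit 282) (nat_lit 1) (nat_lit 288) (nat_lit 1) (nat_lit 244) (nat_lit 406) (nat_lit 370)) (XT.lf (nat_lit 76) (nat_lit 1308166033) (nat_lit 0) (nat_lit 14712147908) (nat_lit 532) (nat_lit 1308166033) (nat_lit 283) (nat_lit 1) (nat_lit 282) (nat_lit 1) (nat_lit 289) (nat_lit 1) (nat_lit 245) (nat_lit 406) (nat_lit 369))) (XT.nd (nat_lit 78) (nat_lit 456) (nat_lit 0) (XT.lf (nat_lit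 76) (nat_lit 8389104893) (nat_lit 0) (nat_lit 337842023) (nat_lit 456) (nat_lit 8389104893) (nat_lit 277) (nat_lit 1) (nat_lit 276) (nat_lit 1) (nat_lit 282) (nat_lit 1) (nat_lit 246) (nat_lit 406) (nat_lit 368)) (XT.lf (nat_lit 532) (nat_lit 13723957271) (nat_lit 0) (nat_lit 1592142348) (nat_lit 456) (nat_lit 1592142348) (nat_lit 277) (nat_lit 1) (nat_lit 270) (nat_lit 1) (nat_lit 276) (nat_lit 1) (nat_lit 247) (nat_lit 406) (nat_lit 367)))) (XT.nd (nat_lit 156) (nat_lit 836) (nat_lit 0) (XT.nd (nat_lit 78) (nat_lit 380) (nat_lit 0) (XT.lf (nat_lit 76) (nat_lit 5311391401) (nat_lit 0) (nat_lit 6079744346) (nat_lit 532) (nat_lit 5311391401) (nat_lit 271) (nat_lit 1) (nat_lit 270) (nat_lit 1) (nat_lit 277) (nat_lit 1) (nat_lit 248) (nat_lit 406) (nat_lit 366)) (XT.lf (nat_lit 456) (nat_lit 7552328466) (nat_lit 0) (nat_lit 4474369738) (nat_lit 380) (nat_lit 4474369738) (nat_lit 271) (nat_lit 1) (nat_lit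 265) (nat_lit 1) (nat_lit 270) (nat_lit 1) (nat_lit 249) (nat_lit 406) (nat_lit 365))) (XT.nd (nat_lit 78) (nat_lit 836) (nat_lit 0) (XT.lf (nat_lit 76) (nat_lit 2248264655) (nat_lit 0) (nat_lit 11806769246) (nat_lit 456) (nat_lit 2248264655) (nat_lit 266) (nat_lit 1) (nat_lit 265) (nat_lit 1) (nat_lit 271) (nat_lit 1) (nat_lit 250) (nat_lit 406) (nat_lit 364)) (XT.nd (nat_lit 78) (nat_lit 456) (nat_lit 0) (XT.lf (nat_lit 456) (nat_lit 1413981372) (nat_lit 0) (nat_lit 7346968316) (nat_lit 380) (nat_lit 7346968316) (nat_lit 266) (nat_lit 1) (nat_lit 260) (nat_lit 1) (nat_lit 265) (nat_lit 1) (nat_lit 251) (nat_lit 406) (nat_lit 363)) (XT.lf (nat_lit 456) (nat_lit 14339729194) (nat_lit 0) (nat_lit 788583953) (nat_lit 380) (nat_lit 788583953) (nat_lit 260) (nat_lit 1) (nat_lit 254) (nat_lit 1) (nat_lit 259) (nat_lit 1) (nat_lit 252) (nat_lit 406) (nat_lit 362))))))) (XT.nd (nat_lit 702) (nat_lit 1900)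 (nat_lit 0) (XT.nd (nat_lit 312) (nat_lit 1064) (nat_lit 0) (XT.nd (nat_lit 156) (nat_lit 304) (nat_lit 0) (XT.nd (nat_lit 78) (nat_lit 380) (nat_lit 0) (XT.lf (nat_lit 76) (nat_lit 5567329200) (nat_lit 0) (nat_lit 4592250359) (nat_lit 456) (nat_lit 5567329200) (nat_lit 255) (nat_lit 1) (nat_lit 254) (nat_lit 1) (nat_lit 260) (nat_lit 1) (nat_lit 253) (nat_lit 406) (nat_lit 361)) (XT.lf (nat_lit 456) (nat_lit 7977917121) (nat_lit 0) (nat_lit 3781612808) (nat_lit 380) (nat_lit 3781612808) (nat_lit 255) (nat_lit 1) (nat_lit 249) (nat_lit 1) (nat_lit 254) (nat_lit 1) (nat_lit 254) (nat_lit 406) (nat_lit 360))) (XT.nd (nat_lit 78) (nat_lit 304) (nat_lit 0) (XT.lf (nat_lit 76) (nat_lit 2417065242) (nat_lit 0) (nat_lit 10524356234) (nat_lit 456) (nat_lit 2417065242) (nat_lit 250) (nat_lit 1) (nat_lit 249) (nat_lit 1) (nat_lit 255) (nat_lit 1) (nat_lit 255) (nat_lit 406) (nat_lit 359)) (XT.lf (nat_lit 380)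 (nat_lit 1678730485) (nat_lit 0) (nat_lit 6749707525) (nat_lit 304) (nat_lit 6749707525) (nat_lit 250) (nat_lit 1) (nat_lit 245) (nat_lit 1) (nat_lit 249) (nat_lit 1) (nat_lit 256) (nat_lit 406) (nat_lit 358)))) (XT.nd (nat_lit 156) (nat_lit 608) (nat_lit 0) (XT.nd (nat_lit 78) (nat_lit 0) (nat_lit 0) (XT.lf (nat_lit 456) (nat_lit 13614113882) (nat_lit 0) (nat_lit 693823338) (nat_lit 380) (nat_lit 693823338) (nat_lit 245) (nat_lit 1) (nat_lit 239) (nat_lit 1) (nat_lit 244) (nat_lit 1) (nat_lit 257) (nat_lit 406) (nat_lit 357)) (XT.lf (nat_lit 76) (nat_lit 5181170934) (nat_lit 0) (nat_lit 4463775115) (nat_lit 456) (nat_lit 5181170934) (nat_lit 240) (nat_lit 1) (nat_lit 239) (nat_lit 1) (nat_lit 245) (nat_lit 1) (nat_lit 258) (nat_lit 406) (nat_lit 356))) (XT.nd (nat_lit 78) (nat_lit 304) (nat_lit 0) (XT.lf (nat_lit 380) (nat_lit 7161519161) (nat_lit 0) (nat_lit 3746397722) (nat_lit 304) (nat_lit 3746397722)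 (nat_lit 240) (nat_lit 1) (nat_lit 235) (nat_lit 1) (nat_lit 239) (nat_lit 1) (nat_lit 259) (nat_lit 406) (nat_lit 355)) (XT.nd (nat_lit 78) (nat_lit 304) (nat_lit 0) (XT.lf (nat_lit 76) (nat_lit 1991509084) (nat_lit 0) (nat_lit 10502432784) (nat_lit 380) (nat_lit 1991509084) (nat_lit 236) (nat_lit 1) (nat_lit 235) (nat_lit 1) (nat_lit 240) (nat_lit 1) (nat_lit 260) (nat_lit 406) (nat_lit 354)) (XT.lf (nat_lit 380) (nat_lit 794129848) (nat_lit 0) (nat_lit 6762188414) (nat_lit 304) (nat_lit 6762188414) (nat_lit 236) (nat_lit 1) (nat_lit 231) (nat_lit 1) (nat_lit 235) (nat_lit 1) (nat_lit 261) (nat_lit 406) (nat_lit 353)))))) (XT.nd (nat_lit 390) (nat_lit 912) (nat_lit 0) (XT.nd (nat_lit 156) (nat_lit 608) (nat_lit 0) (XT.nd (nat_lit 78) (nat_lit 0) (nat_lit 0) (XT.lf (nat_lit 380) (nat_lit 11867760579) (nat_lit 0) (nat_lit 1143548191) (nat_lit 304) (nat_lit 1143548191) (nat_lit 231) (nat_lit 1) (nat_lit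 226) (nat_lit 1) (nat_lit 230) (nat_lit 1) (nat_lit 262) (nat_lit 406) (nat_lit 352)) (XT.lf (nat_lit 76) (nat_lit 4307357823) (nat_lit 0) (nat_lit 5377613351) (nat_lit 380) (nat_lit 4307357823) (nat_lit 227) (nat_lit 1) (nat_lit 226) (nat_lit 1) (nat_lit 231) (nat_lit 1) (nat_lit 263) (nat_lit 406) (nat_lit 351))) (XT.nd (nat_lit 78) (nat_lit 304) (nat_lit 0) (XT.lf (nat_lit 380) (nat_lit 5403697897) (nat_lit 0) (nat_lit 4214650689) (nat_lit 304) (nat_lit 4214650689) (nat_lit 227) (nat_lit 1) (nat_lit 222) (nat_lit 1) (nat_lit 226) (nat_lit 1) (nat_lit 264) (nat_lit 406) (nat_lit 350)) (XT.nd (nat_lit 78) (nat_lit 304) (nat_lit 0) (XT.lf (nat_lit 76) (nat_lit 1116351488) (nat_lit 0) (nat_lit 11444048939) (nat_lit 380) (nat_lit 1116351488) (nat_lit 223) (nat_lit 1) (nat_lit 222) (nat_lit 1) (nat_lit 227) (nat_lit 1) (nat_lit 265) (nat_lit 406) (nat_lit 349)) (XT.lf (nat_lit 76) (nat_lit 6291039206)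 (nat_lit 0) (nat_lit 939432871) (nat_lit 304) (nat_lit 6291039206) (nat_lit 219) (nat_lit 1) (nat_lit 218) (nat_lit 1) (nat_lit 222) (nat_lit 1) (nat_lit 266) (nat_lit 406) (nat_lit 348))))) (XT.nd (nat_lit 156) (nat_lit 608) (nat_lit 0) (XT.nd (nat_lit 78) (nat_lit 0) (nat_lit 0) (XT.lf (nat_lit 380) (nat_lit 9362400847) (nat_lit 0) (nat_lit 2003433294) (nat_lit 304) (nat_lit 2003433294) (nat_lit 219) (nat_lit 1) (nat_lit 214) (nat_lit 1) (nat_lit 218) (nat_lit 1) (nat_lit 267) (nat_lit 406) (nat_lit 347)) (XT.lf (nat_lit 76) (nat_lit 3071901630) (nat_lit 0) (nat_lit 7074954700) (nat_lit 380) (nat_lit 3071901630) (nat_lit 215) (nat_lit 1) (nat_lit 214) (nat_lit 1) (nat_lit 219) (nat_lit 1) (nat_lit 268) (nat_lit 406) (nat_lit 346))) (XT.nd (nat_lit 78) (nat_lit 380) (nat_lit 0) (XT.lf (nat_lit 304) (nat_lit 2949588932) (nat_lit 0) (nat_lit 5060511531) (nat_lit 228) (nat_lit 5060511531) (nat_lit 215)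 (nat_lit 1) (nat_lit 211) (nat_lit 1) (nat_lit 214) (nat_lit 1) (nat_lit 269) (nat_lit 406) (nat_lit 345)) (XT.nd (nat_lit 78) (nat_lit 0) (nat_lit 0) (XT.lf (nat_lit 380) (nat_lit 12746804176) (nat_lit 0) (nat_lit 89510693) (nat_lit 304) (nat_lit 89510693) (nat_lit 211) (nat_lit 1) (nat_lit 206) (nat_lit 1) (nat_lit 210) (nat_lit 1) (nat_lit 270) (nat_lit 406) (nat_lit 344)) (XT.lf (nat_lit 76) (nat_lit 4748798977) (nat_lit 0) (nat_lit 3283156531) (nat_lit 380) (nat_lit 4748798977) (nat_lit 207) (nat_lit 1) (nat_lit 206) (nat_lit 1) (nat_lit 211) (nat_lit 1) (nat_lit 271) (nat_lit 406) (nat_lit 343))))))))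
noncomputable def ec337 : XT := (XT.nd (nat_lit 1482) (nat_lit 2052) (nat_lit 0) (XT.nd (nat_lit 702) (nat_lit 1292) (nat_lit 0) (XT.nd (nat_lit 312) (nat_lit 760) (nat_lit 0) (XT.nd (nat_lit 156) (nat_lit 532) (nat_lit 0) (XT.nd (nat_lit 78) (nat_lit 0) (nat_lit 0) (XT.lf (nat_lit 304) (nat_lit 6310841000) (nat_lit 0) (nat_lit 3164065136) (nat_lit 228) (nat_lit 3164065136) (nat_lit 207) (nat_lit 1) (nat_lit 203) (nat_lit 1) (nat_lit 206) (nat_lit 1) (nat_lit 272) (nat_lit 406) (nat_lit 342)) (XT.lf (nat_lit 76) (nat_lit 1577209316) (nat_lit 0) (nat_lit 9345079121) (nat_lit 304) (nat_lit 1577209316) (nat_lit 204) (nat_lit 1) (nat_lit 203) (nat_lit 1) (nat_lit 207) (nat_lit 1) (nat_lit 273) (nat_lit 406) (nat_lit 341))) (XT.nd (nat_lit 78) (nat_lit 228) (nat_lit 0) (XT.lf (nat_lit 76) (nat_lit 6179881498) (nat_lit 0) (nat_lit 1654593) (nat_lit 304) (nat_lit 6179881498) (nat_lit 200) (nat_lit 1) (nat_lit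 199) (nat_lit 1) (nat_lit 203) (nat_lit 1) (nat_lit 274) (nat_lit 406) (nat_lit 340)) (XT.lf (nat_lit 304) (nat_lit 9189789263) (nat_lit 0) (nat_lit 1517897090) (nat_lit 228) (nat_lit 1517897090) (nat_lit 200) (nat_lit 1) (nat_lit 196) (nat_lit 1) (nat_lit 199) (nat_lit 1) (nat_lit 275) (nat_lit 406) (nat_lit 339)))) (XT.nd (nat_lit 156) (nat_lit 532) (nat_lit 0) (XT.nd (nat_lit 78) (nat_lit 228) (nat_lit 0) (XT.lf (nat_lit 76) (nat_lit 3010578424) (nat_lit 0) (nat_lit 6069898648) (nat_lit 304) (nat_lit 3010578424) (nat_lit 197) (nat_lit 1) (nat_lit 196) (nat_lit 1) (nat_lit 200) (nat_lit 1) (nat_lit 276) (nat_lit 406) (nat_lit 338)) (XT.lf (nat_lit 304) (nat_lit 2885305888) (nat_lit 0) (nat_lit 4536703342) (nat_lit 228) (nat_lit 4536703342) (nat_lit 197) (nat_lit 1) (nat_lit 193) (nat_lit 1) (nat_lit 196) (nat_lit 1) (nat_lit 277) (nat_lit 406) (nat_lit 337))) (XT.nd (nat_lit 78) (nat_lit 228) (nat_lit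 0) (XT.lf (nat_lit 304) (nat_lit 11643347348) (nat_lit 0) (nat_lit 92968020) (nat_lit 228) (nat_lit 92968020) (nat_lit 193) (nat_lit 1) (nat_lit 189) (nat_lit 1) (nat_lit 192) (nat_lit 1) (nat_lit 278) (nat_lit 406) (nat_lit 336)) (XT.nd (nat_lit 78) (nat_lit 228) (nat_lit 0) (XT.lf (nat_lit 76) (nat_lit 4237236999) (nat_lit 0) (nat_lit 3224984473) (nat_lit 304) (nat_lit 4237236999) (nat_lit 190) (nat_lit 1) (nat_lit 189) (nat_lit 1) (nat_lit 193) (nat_lit 1) (nat_lit 279) (nat_lit 406) (nat_lit 335)) (XT.lf (nat_lit 304) (nat_lit 5366280436) (nat_lit 0) (nat_lit 3103106764) (nat_lit 228) (nat_lit 3103106764) (nat_lit 190) (nat_lit 1) (nat_lit 186) (nat_lit 1) (nat_lit 189) (nat_lit 1) (nat_lit 280) (nat_lit 406) (nat_lit 334)))))) (XT.nd (nat_lit 390) (nat_lit 684) (nat_lit 0) (XT.nd (nat_lit 156) (nat_lit 380) (nat_lit 0) (XT.nd (nat_lit 78) (nat_lit 228) (nat_lit 0) (XT.lf (nat_lit 76) (nat_lit 1147742647)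 (nat_lit 0) (nat_lit 9152194641) (nat_lit 304) (nat_lit 1147742647) (nat_lit 187) (nat_lit 1) (nat_lit 186) (nat_lit 1) (nat_lit 190) (nat_lit 1) (nat_lit 281) (nat_lit 406) (nat_lit 333)) (XT.lf (nat_lit 76) (nat_lit 5281601127) (nat_lit 0) (nat_lit 760461926) (nat_lit 228) (nat_lit 5281601127) (nat_lit 184) (nat_lit 1) (nat_lit 183) (nat_lit 1) (nat_lit 186) (nat_lit 1) (nat_lit 282) (nat_lit 406) (nat_lit 332))) (XT.nd (nat_lit 78) (nat_lit 152) (nat_lit 0) (XT.lf (nat_lit 304) (nat_lit 7488961464) (nat_lit 0) (nat_lit 1856395028) (nat_lit 228) (nat_lit 1856395028) (nat_lit 184) (nat_lit 1) (nat_lit 180) (nat_lit 1) (nat_lit 183) (nat_lit 1) (nat_lit 283) (nat_lit 406) (nat_lit 331)) (XT.nd (nat_lit 78) (nat_lit 152) (nat_lit 0) (XT.lf (nat_lit 76) (nat_lit 2215056767) (nat_lit 0) (nat_lit 6651116524) (nat_lit 304) (nat_lit 2215056767) (nat_lit 181) (nat_lit 1) (nat_lit 180) (nat_lit 1) (nat_lit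 184) (nat_lit 1) (nat_lit 284) (nat_lit 406) (nat_lit 330)) (XT.lf (nat_lit 228) (nat_lit 1395151239) (nat_lit 0) (nat_lit 4783584229) (nat_lit 152) (nat_lit 4783584229) (nat_lit 181) (nat_lit 1) (nat_lit 178) (nat_lit 1) (nat_lit 180) (nat_lit 1) (nat_lit 285) (nat_lit 406) (nat_lit 329))))) (XT.nd (nat_lit 156) (nat_lit 380) (nat_lit 0) (XT.nd (nat_lit 78) (nat_lit 0) (nat_lit 0) (XT.lf (nat_lit 304) (nat_lit 9295680993) (nat_lit 0) (nat_lit 774941054) (nat_lit 228) (nat_lit 774941054) (nat_lit 178) (nat_lit 1) (nat_lit 174) (nat_lit 1) (nat_lit 177) (nat_lit 1) (nat_lit 286) (nat_lit 406) (nat_lit 328)) (XT.lf (nat_lit 76) (nat_lit 3128536909) (nat_lit 0) (nat_lit 4472062076) (nat_lit 304) (nat_lit 3128536909) (nat_lit 175) (nat_lit 1) (nat_lit 174) (nat_lit 1) (nat_lit 178) (nat_lit 1) (nat_lit 287) (nat_lit 406) (nat_lit 327))) (XT.nd (nat_lit 78) (nat_lit 228) (nat_lit 0) (XT.lf (nat_lit 228)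 (nat_lit 3263126021) (nat_lit 0) (nat_lit 3675848374) (nat_lit 152) (nat_lit 3675848374) (nat_lit 175) (nat_lit 1) (nat_lit 172) (nat_lit 1) (nat_lit 174) (nat_lit 1) (nat_lit 288) (nat_lit 406) (nat_lit 326)) (XT.nd (nat_lit 78) (nat_lit 228) (nat_lit 0) (XT.lf (nat_lit 76) (nat_lit 162036203) (nat_lit 0) (nat_lit 10178825732) (nat_lit 228) (nat_lit 162036203) (nat_lit 173) (nat_lit 1) (nat_lit 172) (nat_lit 1) (nat_lit 175) (nat_lit 1) (nat_lit 289) (nat_lit 406) (nat_lit 325)) (XT.lf (nat_lit 76) (nat_lit 3906351572) (nat_lit 0) (nat_lit 2577865532) (nat_lit 228) (nat_lit 3906351572) (nat_lit 170) (nat_lit 1) (nat_lit 169) (nat_lit 1) (nat_lit 172) (nat_lit 1) (nat_lit 290) (nat_lit 406) (nat_lit 324))))))) (XT.nd (nat_lit 702) (nat_lit 988) (nat_lit 0) (XT.nd (nat_lit 312) (nat_lit 532) (nat_lit 0) (XT.nd (nat_lit 156) (nat_lit 380) (nat_lit 0) (XT.nd (nat_lit 78) (nat_lit 0) (nat_lit 0) (XT.lf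 (nat_lit 228) (nat_lit 4863859006) (nat_lit 0) (nat_lit 2708366723) (nat_lit 152) (nat_lit 2708366723) (nat_lit 170) (nat_lit 1) (nat_lit 167) (nat_lit 1) (nat_lit 169) (nat_lit 1) (nat_lit 291) (nat_lit 406) (nat_lit 323)) (XT.lf (nat_lit 76) (nat_lit 976373256) (nat_lit 0) (nat_lit 8219670276) (nat_lit 228) (nat_lit 976373256) (nat_lit 168) (nat_lit 1) (nat_lit 167) (nat_lit 1) (nat_lit 170) (nat_lit 1) (nat_lit 292) (nat_lit 406) (nat_lit 322))) (XT.nd (nat_lit 78) (nat_lit 152) (nat_lit 0) (XT.lf (nat_lit 76) (nat_lit 4564613699) (nat_lit 0) (nat_lit 935542176) (nat_lit 228) (nat_lit 4564613699) (nat_lit 165) (nat_lit 1) (nat_lit 164) (nat_lit 1) (nat_lit 167) (nat_lit 1) (nat_lit 293) (nat_lit 406) (nat_lit 321)) (XT.lf (nat_lit 228) (nat_lit 6228867770) (nat_lit 0) (nat_lit 1865011912) (nat_lit 152) (nat_lit 1865011912) (nat_lit 165) (nat_lit 1) (nat_lit 162) (nat_lit 1) (nat_lit 164) (nat_lit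 1) (nat_lit 294) (nat_lit 406) (nat_lit 320)))) (XT.nd (nat_lit 156) (nat_lit 380) (nat_lit 0) (XT.nd (nat_lit 78) (nat_lit 152) (nat_lit 0) (XT.lf (nat_lit 76) (nat_lit 1675656339) (nat_lit 0) (nat_lit 6502988491) (nat_lit 228) (nat_lit 1675656339) (nat_lit 163) (nat_lit 1) (nat_lit 162) (nat_lit 1) (nat_lit 165) (nat_lit 1) (nat_lit 295) (nat_lit 406) (nat_lit 319)) (XT.lf (nat_lit 228) (nat_lit 493815081) (nat_lit 0) (nat_lit 4628542525) (nat_lit 152) (nat_lit 4628542525) (nat_lit 163) (nat_lit 1) (nat_lit 160) (nat_lit 1) (nat_lit 162) (nat_lit 1) (nat_lit 296) (nat_lit 406) (nat_lit 318))) (XT.nd (nat_lit 78) (nat_lit 152) (nat_lit 0) (XT.lf (nat_lit 228) (nat_lit 7386105269) (nat_lit 0) (nat_lit 1131469178) (nat_lit 152) (nat_lit 1131469178) (nat_lit 160) (nat_lit 1) (nat_lit 157) (nat_lit 1) (nat_lit 159) (nat_lit 1) (nat_lit 297) (nat_lit 406) (nat_lit 317)) (XT.nd (nat_lit 78) (nat_lit 152)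 (nat_lit 0) (XT.lf (nat_lit 76) (nat_lit 2273421621) (nat_lit 0) (nat_lit 5001042322) (nat_lit 228) (nat_lit 2273421621) (nat_lit 158) (nat_lit 1) (nat_lit 157) (nat_lit 1) (nat_lit 160) (nat_lit 1) (nat_lit 298) (nat_lit 406) (nat_lit 316)) (XT.lf (nat_lit 228) (nat_lit 1741248342) (nat_lit 0) (nat_lit 3853498729) (nat_lit 152) (nat_lit 3853498729) (nat_lit 158) (nat_lit 1) (nat_lit 155) (nat_lit 1) (nat_lit 157) (nat_lit 1) (nat_lit 299) (nat_lit 406) (nat_lit 315)))))) (XT.nd (nat_lit 390) (nat_lit 456) (nat_lit 0) (XT.nd (nat_lit 156) (nat_lit 304) (nat_lit 0) (XT.nd (nat_lit 78) (nat_lit 0) (nat_lit 0) (XT.lf (nat_lit 228) (nat_lit 8360358800) (nat_lit 0) (nat_lit 495033817) (nat_lit 152) (nat_lit 495033817) (nat_lit 155) (nat_lit 1) (nat_lit 152) (nat_lit 1) (nat_lit 154) (nat_lit 1) (nat_lit 300) (nat_lit 406) (nat_lit 314)) (XT.lf (nat_lit 76) (nat_lit 2781675245) (nat_lit 0) (nat_lit 3689207227)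 (nat_lit 228) (nat_lit 2781675245) (nat_lit 153) (nat_lit 1) (nat_lit 152) (nat_lit 1) (nat_lit 155) (nat_lit 1) (nat_lit 301) (nat_lit 406) (nat_lit 313))) (XT.nd (nat_lit 78) (nat_lit 152) (nat_lit 0) (XT.lf (nat_lit 228) (nat_lit 2811639743) (nat_lit 0) (nat_lit 3172423172) (nat_lit 152) (nat_lit 3172423172) (nat_lit 153) (nat_lit 1) (nat_lit 150) (nat_lit 1) (nat_lit 152) (nat_lit 1) (nat_lit 302) (nat_lit 406) (nat_lit 312)) (XT.nd (nat_lit 78) (nat_lit 152) (nat_lit 0) (XT.lf (nat_lit 76) (nat_lit 56118946) (nat_lit 0) (nat_lit 8950163950) (nat_lit 228) (nat_lit 56118946) (nat_lit 151) (nat_lit 1) (nat_lit 150) (nat_lit 1) (nat_lit 153) (nat_lit 1) (nat_lit 303) (nat_lit 406) (nat_lit 311)) (XT.lf (nat_lit 76) (nat_lit 3211064543) (nat_lit 0) (nat_lit 2545624389) (nat_lit 152) (nat_lit 3211064543) (nat_lit 149) (nat_lit 1) (nat_lit 148) (nat_lit 1) (nat_lit 150) (nat_lit 1) (nat_lit 304) (nat_lit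 406) (nat_lit 310))))) (XT.nd (nat_lit 156) (nat_lit 304) (nat_lit 0) (XT.nd (nat_lit 78) (nat_lit 0) (nat_lit 0) (XT.lf (nat_lit 228) (nat_lit 3725836702) (nat_lit 0) (nat_lit 2574617541) (nat_lit 152) (nat_lit 2574617541) (nat_lit 149) (nat_lit 1) (nat_lit 146) (nat_lit 1) (nat_lit 148) (nat_lit 1) (nat_lit 305) (nat_lit 406) (nat_lit 309)) (XT.lf (nat_lit 76) (nat_lit 535593817) (nat_lit 0) (nat_lit 7712827476) (nat_lit 228) (nat_lit 535593817) (nat_lit 147) (nat_lit 1) (nat_lit 146) (nat_lit 1) (nat_lit 149) (nat_lit 1) (nat_lit 306) (nat_lit 406) (nat_lit 308))) (XT.nd (nat_lit 78) (nat_lit 152) (nat_lit 0) (XT.lf (nat_lit 76) (nat_lit 3571030146) (nat_lit 0) (nat_lit 1550891727) (nat_lit 152) (nat_lit 3571030146) (nat_lit 145) (nat_lit 1) (nat_lit 144) (nat_lit 1) (nat_lit 146) (nat_lit 1) (nat_lit 307) (nat_lit 406) (nat_lit 307)) (XT.nd (nat_lit 78) (nat_lit 0) (nat_lit 0) (XT.lf (nat_lit 228)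 (nat_lit 4502329699) (nat_lit 0) (nat_lit 2050582923) (nat_lit 152) (nat_lit 2050582923) (nat_lit 145) (nat_lit 1) (nat_lit 142) (nat_lit 1) (nat_lit 144) (nat_lit 1) (nat_lit 308) (nat_lit 406) (nat_lit 306)) (XT.lf (nat_lit 76) (nat_lit 947453470) (nat_lit 0) (nat_lit 6620439285) (nat_lit 228) (nat_lit 947453470) (nat_lit 143) (nat_lit 1) (nat_lit 142) (nat_lit 1) (nat_lit 145) (nat_lit 1) (nat_lit 309) (nat_lit 406) (nat_lit 305))))))))
noncomputable def ec338 : XT := (XT.nd (nat_lit 1482) (nat_lit 1368) (nat_lit 0) (XT.nd (nat_lit 702) (nat_lit 988) (nat_lit 0) (XT.nd (nat_lit 312) (nat_lit 532) (nat_lit 0) (XT.nd (nat_lit 156) (nat_lit 76) (nat_lit 0) (XT.nd (nat_lit 78) (nat_lit 152) (nat_lit 0) (XT.lf (nat_lit 76) (nat_lit 3869941110) (nat_lit 0) (nat_lit 687789376) (nat_lit 152) (nat_lit 3869941110) (nat_lit 141) (nat_lit 1) (nat_lit 140) (nat_lit 1) (nat_lit 142) (nat_lit 1) (nat_lit 310) (nat_lit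 406) (nat_lit 304)) (XT.lf (nat_lit 228) (nat_lit 5157516036) (nat_lit 0) (nat_lit 1591885868) (nat_lit 152) (nat_lit 1591885868) (nat_lit 141) (nat_lit 1) (nat_lit 138) (nat_lit 1) (nat_lit 140) (nat_lit 1) (nat_lit 311) (nat_lit 406) (nat_lit 303))) (XT.nd (nat_lit 78) (nat_lit 76) (nat_lit 0) (XT.lf (nat_lit 76) (nat_lit 1299649943) (nat_lit 0) (nat_lit 5656632779) (nat_lit 228) (nat_lit 1299649943) (nat_lit 139) (nat_lit 1) (nat_lit 138) (nat_lit 1) (nat_lit 141) (nat_lit 1) (nat_lit 312) (nat_lit 406) (nat_lit 302)) (XT.lf (nat_lit 152) (nat_lit 60137702) (nat_lit 0) (nat_lit 4055655335) (nat_lit 76) (nat_lit 4055655335) (nat_lit 139) (nat_lit 1) (nat_lit 137) (nat_lit 1) (nat_lit 138) (nat_lit 1) (nat_lit 313) (nat_lit 406) (nat_lit 301)))) (XT.nd (nat_lit 156) (nat_lit 304) (nat_lit 0) (XT.nd (nat_lit 78) (nat_lit 0) (nat_lit 0) (XT.lf (nat_lit 228) (nat_lit 5705934172) (nat_lit 0) (nat_lit 1191039392)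 (nat_lit 152) (nat_lit 1191039392) (nat_lit 137) (nat_lit 1) (nat_lit 134) (nat_lit 1) (nat_lit 136) (nat_lit 1) (nat_lit 314) (nat_lit 406) (nat_lit 300)) (XT.lf (nat_lit 76) (nat_lit 1599236516) (nat_lit 0) (nat_lit 4806872361) (nat_lit 228) (nat_lit 1599236516) (nat_lit 135) (nat_lit 1) (nat_lit 134) (nat_lit 1) (nat_lit 137) (nat_lit 1) (nat_lit 315) (nat_lit 406) (nat_lit 299))) (XT.nd (nat_lit 78) (nat_lit 228) (nat_lit 0) (XT.lf (nat_lit 152) (nat_lit 716918544) (nat_lit 0) (nat_lit 3603397236) (nat_lit 76) (nat_lit 3603397236) (nat_lit 135) (nat_lit 1) (nat_lit 133) (nat_lit 1) (nat_lit 134) (nat_lit 1) (nat_lit 316) (nat_lit 406) (nat_lit 298)) (XT.nd (nat_lit 78) (nat_lit 0) (nat_lit 0) (XT.lf (nat_lit 228) (nat_lit 6160471884) (nat_lit 0) (nat_lit 841397265) (nat_lit 152) (nat_lit 841397265) (nat_lit 133) (nat_lit 1) (nat_lit 130) (nat_lit 1) (nat_lit 132) (nat_lit 1) (nat_lit 317) (nat_lit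 406) (nat_lit 297)) (XT.lf (nat_lit 76) (nat_lit 1852468286) (nat_lit 0) (nat_lit 4058249077) (nat_lit 228) (nat_lit 1852468286) (nat_lit 131) (nat_lit 1) (nat_lit 130) (nat_lit 1) (nat_lit 133) (nat_lit 1) (nat_lit 318) (nat_lit 406) (nat_lit 296)))))) (XT.nd (nat_lit 390) (nat_lit 380) (nat_lit 0) (XT.nd (nat_lit 156) (nat_lit 304) (nat_lit 0) (XT.nd (nat_lit 78) (nat_lit 228) (nat_lit 0) (XT.lf (nat_lit 152) (nat_lit 1281134951) (nat_lit 0) (nat_lit 3201571773) (nat_lit 76) (nat_lit 3201571773) (nat_lit 131) (nat_lit 1) (nat_lit 129) (nat_lit 1) (nat_lit 130) (nat_lit 1) (nat_lit 319) (nat_lit 406) (nat_lit 295)) (XT.lf (nat_lit 228) (nat_lit 6532551203) (nat_lit 0) (nat_lit 537060078) (nat_lit 152) (nat_lit 537060078) (nat_lit 129) (nat_lit 1) (nat_lit 126) (nat_lit 1) (nat_lit 128) (nat_lit 1) (nat_lit 320) (nat_lit 406) (nat_lit 294))) (XT.nd (nat_lit 78) (nat_lit 304) (nat_lit 0) (XT.lf (nat_lit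 76) (nat_lit 2064891510) (nat_lit 0) (nat_lit 3399299067) (nat_lit 228) (nat_lit 2064891510) (nat_lit 127) (nat_lit 1) (nat_lit 126) (nat_lit 1) (nat_lit 129) (nat_lit 1) (nat_lit 321) (nat_lit 406) (nat_lit 293)) (XT.nd (nat_lit 78) (nat_lit 228) (nat_lit 0) (XT.lf (nat_lit 152) (nat_lit 1763671918) (nat_lit 0) (nat_lit 2844555053) (nat_lit 76) (nat_lit 2844555053) (nat_lit 127) (nat_lit 1) (nat_lit 125) (nat_lit 1) (nat_lit 126) (nat_lit 1) (nat_lit 322) (nat_lit 406) (nat_lit 292)) (XT.lf (nat_lit 228) (nat_lit 6832292691) (nat_lit 0) (nat_lit 272791803) (nat_lit 152) (nat_lit 272791803) (nat_lit 125) (nat_lit 1) (nat_lit 122) (nat_lit 1) (nat_lit 124) (nat_lit 1) (nat_lit 323) (nat_lit 406) (nat_lit 291))))) (XT.nd (nat_lit 156) (nat_lit 304) (nat_lit 0) (XT.nd (nat_lit 78) (nat_lit 76) (nat_lit 0) (XT.lf (nat_lit 76) (nat_lit 2241422985) (nat_lit 0) (nat_lit 2819842245) (nat_lit 228) (nat_lit 2241422985)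 (nat_lit 123) (nat_lit 1) (nat_lit 122) (nat_lit 1) (nat_lit 125) (nat_lit 1) (nat_lit 324) (nat_lit 406) (nat_lit 290)) (XT.lf (nat_lit 152) (nat_lit 2174184226) (nat_lit 0) (nat_lit 2527350321) (nat_lit 76) (nat_lit 2527350321) (nat_lit 123) (nat_lit 1) (nat_lit 121) (nat_lit 1) (nat_lit 122) (nat_lit 1) (nat_lit 325) (nat_lit 406) (nat_lit 289))) (XT.nd (nat_lit 78) (nat_lit 76) (nat_lit 0) (XT.lf (nat_lit 228) (nat_lit 7068661387) (nat_lit 0) (nat_lit 43945654) (nat_lit 152) (nat_lit 43945654) (nat_lit 121) (nat_lit 1) (nat_lit 118) (nat_lit 1) (nat_lit 120) (nat_lit 1) (nat_lit 326) (nat_lit 406) (nat_lit 288)) (XT.nd (nat_lit 78) (nat_lit 76) (nat_lit 0) (XT.lf (nat_lit 76) (nat_lit 2386420556) (nat_lit 0) (nat_lit 2310838994) (nat_lit 228) (nat_lit 2386420556) (nat_lit 119) (nat_lit 1) (nat_lit 118) (nat_lit 1) (nat_lit 121) (nat_lit 1) (nat_lit 327) (nat_lit 406) (nat_lit 287)) (XT.lf (nat_lit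 152) (nat_lit 2521234108) (nat_lit 0) (nat_lit 2245518026) (nat_lit 76) (nat_lit 2245518026) (nat_lit 119) (nat_lit 1) (nat_lit 117) (nat_lit 1) (nat_lit 118) (nat_lit 1) (nat_lit 328) (nat_lit 406) (nat_lit 286))))))) (XT.nd (nat_lit 702) (nat_lit 684) (nat_lit 0) (XT.nd (nat_lit 312) (nat_lit 456) (nat_lit 0) (XT.nd (nat_lit 156) (nat_lit 76) (nat_lit 0) (XT.nd (nat_lit 78) (nat_lit 152) (nat_lit 0) (XT.lf (nat_lit 0) (nat_lit 155122587) (nat_lit 0) (nat_lit 6631967871) (nat_lit 152) (nat_lit 155122587) (nat_lit 117) (nat_lit 3) (nat_lit 117) (nat_lit 1) (nat_lit 119) (nat_lit 1) (nat_lit 329) (nat_lit 406) (nat_lit 285)) (XT.lf (nat_lit 76) (nat_lit 2503745760) (nat_lit 0) (nat_lit 1864262829) (nat_lit 152) (nat_lit 2503745760) (nat_lit 116) (nat_lit 1) (nat_lit 115) (nat_lit 1) (nat_lit 117) (nat_lit 1) (nat_lit 330) (nat_lit 406) (nat_lit 284))) (XT.nd (nat_lit 78) (nat_lit 0) (nat_lit 0) (XT.lf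 (nat_lit 152) (nat_lit 2812413541) (nat_lit 0) (nat_lit 1995113682) (nat_lit 76) (nat_lit 1995113682) (nat_lit 116) (nat_lit 1) (nat_lit 114) (nat_lit 1) (nat_lit 115) (nat_lit 1) (nat_lit 331) (nat_lit 406) (nat_lit 283)) (XT.lf (nat_lit 0) (nat_lit 326712096) (nat_lit 0) (nat_lit 6081305242) (nat_lit 152) (nat_lit 326712096) (nat_lit 114) (nat_lit 3) (nat_lit 114) (nat_lit 1) (nat_lit 116) (nat_lit 1) (nat_lit 332) (nat_lit 406) (nat_lit 282)))) (XT.nd (nat_lit 156) (nat_lit 228) (nat_lit 0) (XT.nd (nat_lit 78) (nat_lit 76) (nat_lit 0) (XT.lf (nat_lit 76) (nat_lit 2596819470) (nat_lit 0) (nat_lit 1472987273) (nat_lit 152) (nat_lit 2596819470) (nat_lit 113) (nat_lit 1) (nat_lit 112) (nat_lit 1) (nat_lit 114) (nat_lit 1) (nat_lit 333) (nat_lit 406) (nat_lit 281)) (XT.lf (nat_lit 152) (nat_lit 3054452900) (nat_lit 0) (nat_lit 1772632666) (nat_lit 76) (nat_lit 1772632666) (nat_lit 113) (nat_lit 1) (nat_lit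 111) (nat_lit 1) (nat_lit 112) (nat_lit 1) (nat_lit 334) (nat_lit 406) (nat_lit 280))) (XT.nd (nat_lit 78) (nat_lit 228) (nat_lit 0) (XT.lf (nat_lit 0) (nat_lit 473665570) (nat_lit 0) (nat_lit 5586547046) (nat_lit 152) (nat_lit 473665570) (nat_lit 111) (nat_lit 3) (nat_lit 111) (nat_lit 1) (nat_lit 113) (nat_lit 1) (nat_lit 335) (nat_lit 406) (nat_lit 279)) (XT.nd (nat_lit 78) (nat_lit 76) (nat_lit 0) (XT.lf (nat_lit 76) (nat_lit 2668671330) (nat_lit 0) (nat_lit 1130685353) (nat_lit 152) (nat_lit 2668671330) (nat_lit 110) (nat_lit 1) (nat_lit 109) (nat_lit 1) (nat_lit 111) (nat_lit 1) (nat_lit 336) (nat_lit 406) (nat_lit 278)) (XT.lf (nat_lit 152) (nat_lit 3253317467) (nat_lit 0) (nat_lit 1574961164) (nat_lit 76) (nat_lit 1574961164) (nat_lit 110) (nat_lit 1) (nat_lit 108) (nat_lit 1) (nat_lit 109) (nat_lit 1) (nat_lit 337) (nat_lit 406) (nat_lit 277)))))) (XT.nd (nat_lit 390) (nat_lit 304) (nat_lit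 0) (XT.nd (nat_lit 156) (nat_lit 228) (nat_lit 0) (XT.nd (nat_lit 78) (nat_lit 152) (nat_lit 0) (XT.lf (nat_lit 0) (nat_lit 598890485) (nat_lit 0) (nat_lit 5141619454) (nat_lit 152) (nat_lit 598890485) (nat_lit 108) (nat_lit 3) (nat_lit 108) (nat_lit 1) (nat_lit 110) (nat_lit 1) (nat_lit 338) (nat_lit 406) (nat_lit 276)) (XT.lf (nat_lit 76) (nat_lit 2721983665) (nat_lit 0) (nat_lit 831740300) (nat_lit 152) (nat_lit 2721983665) (nat_lit 107) (nat_lit 1) (nat_lit 106) (nat_lit 1) (nat_lit 108) (nat_lit 1) (nat_lit 339) (nat_lit 406) (nat_lit 275))) (XT.nd (nat_lit 78) (nat_lit 152) (nat_lit 0) (XT.lf (nat_lit 152) (nat_lit 3414293176) (nat_lit 0) (nat_lit 1399332595) (nat_lit 76) (nat_lit 1399332595) (nat_lit 107) (nat_lit 1) (nat_lit 105) (nat_lit 1) (nat_lit 106) (nat_lit 1) (nat_lit 340) (nat_lit 406) (nat_lit 274)) (XT.nd (nat_lit 78) (nat_lit 152) (nat_lit 0) (XT.lf (nat_lit 0) (nat_lit 704965431)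 (nat_lit 0) (nat_lit 4741121282) (nat_lit 152) (nat_lit 704965431) (nat_lit 105) (nat_lit 3) (nat_lit 105) (nat_lit 1) (nat_lit 107) (nat_lit 1) (nat_lit 341) (nat_lit 406) (nat_lit 273)) (XT.lf (nat_lit 76) (nat_lit 2759130486) (nat_lit 0) (nat_lit 571166220) (nat_lit 152) (nat_lit 2759130486) (nat_lit 104) (nat_lit 1) (nat_lit 103) (nat_lit 1) (nat_lit 105) (nat_lit 1) (nat_lit 342) (nat_lit 406) (nat_lit 272))))) (XT.nd (nat_lit 156) (nat_lit 228) (nat_lit 0) (XT.nd (nat_lit 78) (nat_lit 0) (nat_lit 0) (XT.lf (nat_lit 152) (nat_lit 3542062783) (nat_lit 0) (nat_lit 1243288886) (nat_lit 76) (nat_lit 1243288886) (nat_lit 104) (nat_lit 1) (nat_lit 102) (nat_lit 1) (nat_lit 103) (nat_lit 1) (nat_lit 343) (nat_lit 406) (nat_lit 271)) (XT.lf (nat_lit 0) (nat_lit 794176918) (nat_lit 0) (nat_lit 4380249115) (nat_lit 152) (nat_lit 794176918) (nat_lit 102) (nat_lit 3) (nat_lit 102) (nat_lit 1) (nat_lit 104)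 (nat_lit 1) (nat_lit 344) (nat_lit 406) (nat_lit 270))) (XT.nd (nat_lit 78) (nat_lit 76) (nat_lit 0) (XT.lf (nat_lit 76) (nat_lit 2782212142) (nat_lit 0) (nat_lit 344537610) (nat_lit 152) (nat_lit 2782212142) (nat_lit 101) (nat_lit 1) (nat_lit 100) (nat_lit 1) (nat_lit 102) (nat_lit 1) (nat_lit 345) (nat_lit 406) (nat_lit 269)) (XT.nd (nat_lit 78) (nat_lit 0) (nat_lit 0) (XT.lf (nat_lit 152) (nat_lit 3640773526) (nat_lit 0) (nat_lit 1104646072) (nat_lit 76) (nat_lit 1104646072) (nat_lit 101) (nat_lit 1) (nat_lit 99) (nat_lit 1) (nat_lit 100) (nat_lit 1) (nat_lit 346) (nat_lit 406) (nat_lit 268)) (XT.lf (nat_lit 0) (nat_lit 868552083) (nat_lit 0) (nat_lit 4054730784) (nat_lit 152) (nat_lit 868552083) (nat_lit 99) (nat_lit 3) (nat_lit 99) (nat_lit 1) (nat_lit 101) (nat_lit 1) (nat_lit 347) (nat_lit 406) (nat_lit 267))))))))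
noncomputable def ec339 : XT := (XT.nd (nat_lit 1482) (nat_lit 1520) (nat_lit 0) (XT.nd (nat_lit 702) (nat_lit 760) (nat_lit 0) (XT.nd (nat_lit 312) (nat_lit 380) (nat_lit 0) (XT.nd (nat_lit 156) (nat_lit 76) (nat_lit 0) (XT.nd (nat_lit 78) (nat_lit 76) (nat_lit 0) (XT.lf (nat_lit 76) (nat_lit 2793086095) (nat_lit 0) (nat_lit 147926740) (nat_lit 152) (nat_lit 2793086095) (nat_lit 98) (nat_lit 1) (nat_lit 97) (nat_lit 1) (nat_lit 99) (nat_lit 1) (nat_lit 348) (nat_lit 406) (nat_lit 266)) (XT.lf (nat_lit 152) (nat_lit 3714097229) (nat_lit 0) (nat_lit 981463728) (nat_lit 76) (nat_lit 981463728) (nat_lit 98) (nat_lit 1) (nat_lit 96) (nat_lit 1) (nat_lit 97) (nat_lit 1) (nat_lit 349) (nat_lit 406) (nat_lit 265))) (XT.nd (nat_lit 78) (nat_lit 76) (nat_lit 0) (XT.lf (nat_lit 0) (nat_lit 929887741) (nat_lit 0) (nat_lit 3760766248) (nat_lit 152) (nat_lit 929887741) (nat_lit 96) (nat_lit 3) (nat_lit 96) (nat_lit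 1) (nat_lit 98) (nat_lit 1) (nat_lit 350) (nat_lit 406) (nat_lit 264)) (XT.lf (nat_lit 76) (nat_lit 22592849) (nat_lit 0) (nat_lit 2771018585) (nat_lit 76) (nat_lit 2771018585) (nat_lit 96) (nat_lit 3) (nat_lit 95) (nat_lit 1) (nat_lit 96) (nat_lit 1) (nat_lit 351) (nat_lit 406) (nat_lit 263)))) (XT.nd (nat_lit 156) (nat_lit 228) (nat_lit 0) (XT.nd (nat_lit 78) (nat_lit 0) (nat_lit 0) (XT.lf (nat_lit 152) (nat_lit 3765283697) (nat_lit 0) (nat_lit 872017810) (nat_lit 76) (nat_lit 872017810) (nat_lit 95) (nat_lit 1) (nat_lit 93) (nat_lit 1) (nat_lit 94) (nat_lit 1) (nat_lit 352) (nat_lit 406) (nat_lit 262)) (XT.lf (nat_lit 0) (nat_lit 979776189) (nat_lit 0) (nat_lit 3494975077) (nat_lit 152) (nat_lit 979776189) (nat_lit 93) (nat_lit 3) (nat_lit 93) (nat_lit 1) (nat_lit 95) (nat_lit 1) (nat_lit 353) (nat_lit 406) (nat_lit 261))) (XT.nd (nat_lit 78) (nat_lit 152) (nat_lit 0) (XT.lf (nat_lit 76) (nat_lit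 172150714) (nat_lit 0) (nat_lit 2614091382) (nat_lit 76) (nat_lit 2614091382) (nat_lit 93) (nat_lit 3) (nat_lit 92) (nat_lit 1) (nat_lit 93) (nat_lit 1) (nat_lit 354) (nat_lit 406) (nat_lit 260)) (XT.nd (nat_lit 78) (nat_lit 0) (nat_lit 0) (XT.lf (nat_lit 152) (nat_lit 3797208140) (nat_lit 0) (nat_lit 774776530) (nat_lit 76) (nat_lit 774776530) (nat_lit 92) (nat_lit 1) (nat_lit 90) (nat_lit 1) (nat_lit 91) (nat_lit 1) (nat_lit 355) (nat_lit 406) (nat_lit 259)) (XT.lf (nat_lit 0) (nat_lit 1019628138) (nat_lit 0) (nat_lit 3254349773) (nat_lit 152) (nat_lit 1019628138) (nat_lit 90) (nat_lit 3) (nat_lit 90) (nat_lit 1) (nat_lit 92) (nat_lit 1) (nat_lit 356) (nat_lit 406) (nat_lit 258)))))) (XT.nd (nat_lit 390) (nat_lit 304) (nat_lit 0) (XT.nd (nat_lit 156) (nat_lit 228) (nat_lit 0) (XT.nd (nat_lit 78) (nat_lit 152) (nat_lit 0) (XT.lf (nat_lit 76) (nat_lit 300601504) (nat_lit 0) (nat_lit 2470234159) (nat_lit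 76) (nat_lit 2470234159) (nat_lit 90) (nat_lit 3) (nat_lit 89) (nat_lit 1) (nat_lit 90) (nat_lit 1) (nat_lit 357) (nat_lit 406) (nat_lit 257)) (XT.lf (nat_lit 152) (nat_lit 3812413303) (nat_lit 0) (nat_lit 688378912) (nat_lit 76) (nat_lit 688378912) (nat_lit 89) (nat_lit 1) (nat_lit 87) (nat_lit 1) (nat_lit 88) (nat_lit 1) (nat_lit 358) (nat_lit 406) (nat_lit 256))) (XT.nd (nat_lit 78) (nat_lit 228) (nat_lit 0) (XT.lf (nat_lit 0) (nat_lit 1050693078) (nat_lit 0) (nat_lit 3036214306) (nat_lit 152) (nat_lit 1050693078) (nat_lit 87) (nat_lit 3) (nat_lit 87) (nat_lit 1) (nat_lit 89) (nat_lit 1) (nat_lit 359) (nat_lit 406) (nat_lit 255)) (XT.nd (nat_lit 78) (nat_lit 152) (nat_lit 0) (XT.lf (nat_lit 76) (nat_lit 410427946) (nat_lit 0) (nat_lit 2338118459) (nat_lit 76) (nat_lit 2338118459) (nat_lit 87) (nat_lit 3) (nat_lit 86) (nat_lit 1) (nat_lit 87) (nat_lit 1) (nat_lit 360) (nat_lit 406) (nat_lit 254))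 (XT.lf (nat_lit 152) (nat_lit 3813146882) (nat_lit 0) (nat_lit 611615747) (nat_lit 76) (nat_lit 611615747) (nat_lit 86) (nat_lit 1) (nat_lit 84) (nat_lit 1) (nat_lit 85) (nat_lit 1) (nat_lit 361) (nat_lit 406) (nat_lit 253))))) (XT.nd (nat_lit 156) (nat_lit 228) (nat_lit 0) (XT.nd (nat_lit 78) (nat_lit 76) (nat_lit 0) (XT.lf (nat_lit 0) (nat_lit 1074077370) (nat_lit 0) (nat_lit 2838187265) (nat_lit 152) (nat_lit 1074077370) (nat_lit 84) (nat_lit 3) (nat_lit 84) (nat_lit 1) (nat_lit 86) (nat_lit 1) (nat_lit 362) (nat_lit 406) (nat_lit 252)) (XT.lf (nat_lit 76) (nat_lit 503832149) (nat_lit 0) (nat_lit 2216560203) (nat_lit 76) (nat_lit 2216560203) (nat_lit 84) (nat_lit 3) (nat_lit 83) (nat_lit 1) (nat_lit 84) (nat_lit 1) (nat_lit 363) (nat_lit 406) (nat_lit 251))) (XT.nd (nat_lit 78) (nat_lit 76) (nat_lit 0) (XT.lf (nat_lit 152) (nat_lit 3801394763) (nat_lit 0) (nat_lit 543412669) (nat_lit 76) (nat_lit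 543412669) (nat_lit 83) (nat_lit 1) (nat_lit 81) (nat_lit 1) (nat_lit 82) (nat_lit 1) (nat_lit 364) (nat_lit 406) (nat_lit 250)) (XT.nd (nat_lit 78) (nat_lit 76) (nat_lit 0) (XT.lf (nat_lit 0) (nat_lit 1090760316) (nat_lit 0) (nat_lit 2658149108) (nat_lit 152) (nat_lit 1090760316) (nat_lit 81) (nat_lit 3) (nat_lit 81) (nat_lit 1) (nat_lit 83) (nat_lit 1) (nat_lit 365) (nat_lit 406) (nat_lit 249)) (XT.lf (nat_lit 76) (nat_lit 582767015) (nat_lit 0) (nat_lit 2104503706) (nat_lit 76) (nat_lit 2104503706) (nat_lit 81) (nat_lit 3) (nat_lit 80) (nat_lit 1) (nat_lit 81) (nat_lit 1) (nat_lit 366) (nat_lit 406) (nat_lit 248))))))) (XT.nd (nat_lit 702) (nat_lit 836) (nat_lit 0) (XT.nd (nat_lit 312) (nat_lit 304) (nat_lit 0) (XT.nd (nat_lit 156) (nat_lit 228) (nat_lit 0) (XT.nd (nat_lit 78) (nat_lit 0) (nat_lit 0) (XT.lf (nat_lit 152) (nat_lit 3778910542) (nat_lit 0) (nat_lit 482815118) (nat_lit 76) (nat_lit 482815118)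 (nat_lit 80) (nat_lit 1) (nat_lit 78) (nat_lit 1) (nat_lit 79) (nat_lit 1) (nat_lit 367) (nat_lit 406) (nat_lit 247)) (XT.lf (nat_lit 0) (nat_lit 1101608436) (nat_lit 0) (nat_lit 2494213077) (nat_lit 152) (nat_lit 1101608436) (nat_lit 78) (nat_lit 3) (nat_lit 78) (nat_lit 1) (nat_lit 80) (nat_lit 1) (nat_lit 368) (nat_lit 406) (nat_lit 246))) (XT.nd (nat_lit 78) (nat_lit 152) (nat_lit 0) (XT.lf (nat_lit 76) (nat_lit 648964124) (nat_lit 0) (nat_lit 2001007465) (nat_lit 76) (nat_lit 2001007465) (nat_lit 78) (nat_lit 3) (nat_lit 77) (nat_lit 1) (nat_lit 78) (nat_lit 1) (nat_lit 369) (nat_lit 406) (nat_lit 245)) (XT.lf (nat_lit 152) (nat_lit 3747241743) (nat_lit 0) (nat_lit 428974979) (nat_lit 76) (nat_lit 428974979) (nat_lit 77) (nat_lit 1) (nat_lit 75) (nat_lit 1) (nat_lit 76) (nat_lit 1) (nat_lit 370) (nat_lit 406) (nat_lit 244)))) (XT.nd (nat_lit 156) (nat_lit 228) (nat_lit 0) (XT.nd (nat_lit 78) (nat_lit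 76) (nat_lit 0) (XT.lf (nat_lit 0) (nat_lit 1107388151) (nat_lit 0) (nat_lit 2344699338) (nat_lit 152) (nat_lit 1107388151) (nat_lit 75) (nat_lit 3) (nat_lit 75) (nat_lit 1) (nat_lit 77) (nat_lit 1) (nat_lit 371) (nat_lit 406) (nat_lit 243)) (XT.lf (nat_lit 76) (nat_lit 703958530) (nat_lit 0) (nat_lit 1905231526) (nat_lit 76) (nat_lit 1905231526) (nat_lit 75) (nat_lit 3) (nat_lit 74) (nat_lit 1) (nat_lit 75) (nat_lit 1) (nat_lit 372) (nat_lit 406) (nat_lit 242))) (XT.nd (nat_lit 78) (nat_lit 76) (nat_lit 0) (XT.lf (nat_lit 152) (nat_lit 3707753104) (nat_lit 0) (nat_lit 381138713) (nat_lit 76) (nat_lit 381138713) (nat_lit 74) (nat_lit 1) (nat_lit 72) (nat_lit 1) (nat_lit 73) (nat_lit 1) (nat_lit 373) (nat_lit 406) (nat_lit 241)) (XT.nd (nat_lit 78) (nat_lit 76) (nat_lit 0) (XT.lf (nat_lit 0) (nat_lit 1108777042) (nat_lit 0) (nat_lit 2208112006) (nat_lit 152) (nat_lit 1108777042) (nat_lit 72) (nat_lit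 3) (nat_lit 72) (nat_lit 1) (nat_lit 74) (nat_lit 1) (nat_lit 374) (nat_lit 406) (nat_lit 240)) (XT.lf (nat_lit 76) (nat_lit 749110765) (nat_lit 0) (nat_lit 1816426263) (nat_lit 76) (nat_lit 1816426263) (nat_lit 72) (nat_lit 3) (nat_lit 71) (nat_lit 1) (nat_lit 72) (nat_lit 1) (nat_lit 375) (nat_lit 406) (nat_lit 239)))))) (XT.nd (nat_lit 390) (nat_lit 456) (nat_lit 0) (XT.nd (nat_lit 156) (nat_lit 228) (nat_lit 0) (XT.nd (nat_lit 78) (nat_lit 0) (nat_lit 0) (XT.lf (nat_lit 152) (nat_lit 3661647260) (nat_lit 0) (nat_lit 338636810) (nat_lit 76) (nat_lit 338636810) (nat_lit 71) (nat_lit 1) (nat_lit 69) (nat_lit 1) (nat_lit 70) (nat_lit 1) (nat_lit 376) (nat_lit 406) (nat_lit 238)) (XT.lf (nat_lit 0) (nat_lit 1106373860) (nat_lit 0) (nat_lit 2083118736) (nat_lit 152) (nat_lit 1106373860) (nat_lit 69) (nat_lit 3) (nat_lit 69) (nat_lit 1) (nat_lit 71) (nat_lit 1) (nat_lit 377) (nat_lit 406) (nat_lit 237)))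 (XT.nd (nat_lit 78) (nat_lit 152) (nat_lit 0) (XT.lf (nat_lit 76) (nat_lit 785626405) (nat_lit 0) (nat_lit 1733922401) (nat_lit 76) (nat_lit 1733922401) (nat_lit 69) (nat_lit 3) (nat_lit 68) (nat_lit 1) (nat_lit 69) (nat_lit 1) (nat_lit 378) (nat_lit 406) (nat_lit 236)) (XT.nd (nat_lit 78) (nat_lit 0) (nat_lit 0) (XT.lf (nat_lit 152) (nat_lit 3609983107) (nat_lit 0) (nat_lit 300874419) (nat_lit 76) (nat_lit 300874419) (nat_lit 68) (nat_lit 1) (nat_lit 66) (nat_lit 1) (nat_lit 67) (nat_lit 1) (nat_lit 379) (nat_lit 406) (nat_lit 235)) (XT.lf (nat_lit 0) (nat_lit 1100707406) (nat_lit 0) (nat_lit 1968532578) (nat_lit 152) (nat_lit 1100707406) (nat_lit 66) (nat_lit 3) (nat_lit 66) (nat_lit 1) (nat_lit 68) (nat_lit 1) (nat_lit 380) (nat_lit 406) (nat_lit 234))))) (XT.nd (nat_lit 156) (nat_lit 228) (nat_lit 0) (XT.nd (nat_lit 78) (nat_lit 152) (nat_lit 0) (XT.lf (nat_lit 76) (nat_lit 814573442) (nat_lit 0)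 (nat_lit 1657122152) (nat_lit 76) (nat_lit 1657122152) (nat_lit 66) (nat_lit 3) (nat_lit 65) (nat_lit 1) (nat_lit 66) (nat_lit 1) (nat_lit 381) (nat_lit 406) (nat_lit 233)) (XT.lf (nat_lit 152) (nat_lit 3553692110) (nat_lit 0) (nat_lit 267323025) (nat_lit 76) (nat_lit 267323025) (nat_lit 65) (nat_lit 1) (nat_lit 63) (nat_lit 1) (nat_lit 64) (nat_lit 1) (nat_lit 382) (nat_lit 406) (nat_lit 232))) (XT.nd (nat_lit 78) (nat_lit 228) (nat_lit 0) (XT.lf (nat_lit 0) (nat_lit 1092244431) (nat_lit 0) (nat_lit 1863295856) (nat_lit 152) (nat_lit 1092244431) (nat_lit 63) (nat_lit 3) (nat_lit 63) (nat_lit 1) (nat_lit 65) (nat_lit 1) (nat_lit 383) (nat_lit 406) (nat_lit 231)) (XT.nd (nat_lit 78) (nat_lit 152) (nat_lit 0) (XT.lf (nat_lit 76) (nat_lit 836897716) (nat_lit 0) (nat_lit 1585491332) (nat_lit 76) (nat_lit 1585491332) (nat_lit 63) (nat_lit 3) (nat_lit 62) (nat_lit 1) (nat_lit 63) (nat_lit 1) (nat_lit 384)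 (nat_lit 406) (nat_lit 230)) (XT.lf (nat_lit 152) (nat_lit 3493592787) (nat_lit 0) (nat_lit 237513045) (nat_lit 76) (nat_lit 237513045) (nat_lit 62) (nat_lit 1) (nat_lit 60) (nat_lit 1) (nat_lit 61) (nat_lit 1) (nat_lit 385) (nat_lit 406) (nat_lit 229))))))))
noncomputable def ec340 : XT := (XT.nd (nat_lit 1404) (nat_lit 1368) (nat_lit 0) (XT.nd (nat_lit 702) (nat_lit 684) (nat_lit 0) (XT.nd (nat_lit 312) (nat_lit 456) (nat_lit 0) (XT.nd (nat_lit 156) (nat_lit 152) (nat_lit 0) (XT.nd (nat_lit 78) (nat_lit 76) (nat_lit 0) (XT.lf (nat_lit 0) (nat_lit 1081396639) (nat_lit 0) (nat_lit 1766465844) (nat_lit 152) (nat_lit 1081396639) (nat_lit 60) (nat_lit 3) (nat_lit 60) (nat_lit 1) (nat_lit 62) (nat_lit 1) (nat_lit 386) (nat_lit 406) (nat_lit 228)) (XT.lf (nat_lit 76) (nat_lit 853436629) (nat_lit 0) (nat_lit 1518552361) (nat_lit 76) (nat_lit 1518552361) (nat_lit 60) (nat_lit 3) (nat_lit 59) (nat_lit 1) (nat_lit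 60) (nat_lit 1) (nat_lit 387) (nat_lit 406) (nat_lit 227))) (XT.nd (nat_lit 78) (nat_lit 0) (nat_lit 0) (XT.lf (nat_lit 152) (nat_lit 3430403568) (nat_lit 0) (nat_lit 211027264) (nat_lit 76) (nat_lit 211027264) (nat_lit 59) (nat_lit 1) (nat_lit 57) (nat_lit 1) (nat_lit 58) (nat_lit 1) (nat_lit 388) (nat_lit 406) (nat_lit 226)) (XT.lf (nat_lit 0) (nat_lit 1068526916) (nat_lit 0) (nat_lit 1677202031) (nat_lit 152) (nat_lit 1068526916) (nat_lit 57) (nat_lit 3) (nat_lit 57) (nat_lit 1) (nat_lit 59) (nat_lit 1) (nat_lit 389) (nat_lit 406) (nat_lit 225)))) (XT.nd (nat_lit 156) (nat_lit 228) (nat_lit 0) (XT.nd (nat_lit 78) (nat_lit 152) (nat_lit 0) (XT.lf (nat_lit 76) (nat_lit 864931321) (nat_lit 0) (nat_lit 1455878035) (nat_lit 76) (nat_lit 1455878035) (nat_lit 57) (nat_lit 3) (nat_lit 56) (nat_lit 1) (nat_lit 57) (nat_lit 1) (nat_lit 390) (nat_lit 406) (nat_lit 224)) (XT.lf (nat_lit 152) (nat_lit 3364754213)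 (nat_lit 0) (nat_lit 187494991) (nat_lit 76) (nat_lit 187494991) (nat_lit 56) (nat_lit 1) (nat_lit 54) (nat_lit 1) (nat_lit 55) (nat_lit 1) (nat_lit 391) (nat_lit 406) (nat_lit 223))) (XT.nd (nat_lit 78) (nat_lit 228) (nat_lit 0) (XT.lf (nat_lit 0) (nat_lit 1053954858) (nat_lit 0) (nat_lit 1594754814) (nat_lit 152) (nat_lit 1053954858) (nat_lit 54) (nat_lit 3) (nat_lit 54) (nat_lit 1) (nat_lit 56) (nat_lit 1) (nat_lit 392) (nat_lit 406) (nat_lit 222)) (XT.nd (nat_lit 78) (nat_lit 152) (nat_lit 0) (XT.lf (nat_lit 76) (nat_lit 872037490) (nat_lit 0) (nat_lit 1397085991) (nat_lit 76) (nat_lit 1397085991) (nat_lit 54) (nat_lit 3) (nat_lit 53) (nat_lit 1) (nat_lit 54) (nat_lit 1) (nat_lit 393) (nat_lit 406) (nat_lit 221)) (XT.lf (nat_lit 152) (nat_lit 3297195949) (nat_lit 0) (nat_lit 166586871) (nat_lit 76) (nat_lit 166586871) (nat_lit 53) (nat_lit 1) (nat_lit 51) (nat_lit 1) (nat_lit 52) (nat_lit 1) (nat_lit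 394) (nat_lit 406) (nat_lit 220)))))) (XT.nd (nat_lit 312) (nat_lit 456) (nat_lit 0) (XT.nd (nat_lit 156) (nat_lit 152) (nat_lit 0) (XT.nd (nat_lit 78) (nat_lit 76) (nat_lit 0) (XT.lf (nat_lit 0) (nat_lit 1037961680) (nat_lit 0) (nat_lit 1518455436) (nat_lit 152) (nat_lit 1037961680) (nat_lit 51) (nat_lit 3) (nat_lit 51) (nat_lit 1) (nat_lit 53) (nat_lit 1) (nat_lit 395) (nat_lit 406) (nat_lit 219)) (XT.lf (nat_lit 76) (nat_lit 875334999) (nat_lit 0) (nat_lit 1341833792) (nat_lit 76) (nat_lit 1341833792) (nat_lit 51) (nat_lit 3) (nat_lit 50) (nat_lit 1) (nat_lit 51) (nat_lit 1) (nat_lit 396) (nat_lit 406) (nat_lit 218))) (XT.nd (nat_lit 78) (nat_lit 0) (nat_lit 0) (XT.lf (nat_lit 152) (nat_lit 3228210470) (nat_lit 0) (nat_lit 148010277) (nat_lit 76) (nat_lit 148010277) (nat_lit 50) (nat_lit 1) (nat_lit 48) (nat_lit 1) (nat_lit 49) (nat_lit 1) (nat_lit 397) (nat_lit 406) (nat_lit 217)) (XT.lf (nat_lit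 0) (nat_lit 1020794576) (nat_lit 0) (nat_lit 1447707055) (nat_lit 152) (nat_lit 1020794576) (nat_lit 48) (nat_lit 3) (nat_lit 48) (nat_lit 1) (nat_lit 50) (nat_lit 1) (nat_lit 398) (nat_lit 406) (nat_lit 216)))) (XT.nd (nat_lit 156) (nat_lit 228) (nat_lit 0) (XT.nd (nat_lit 78) (nat_lit 152) (nat_lit 0) (XT.lf (nat_lit 76) (nat_lit 875336415) (nat_lit 0) (nat_lit 1289814550) (nat_lit 76) (nat_lit 1289814550) (nat_lit 48) (nat_lit 3) (nat_lit 47) (nat_lit 1) (nat_lit 48) (nat_lit 1) (nat_lit 399) (nat_lit 406) (nat_lit 215)) (XT.lf (nat_lit 152) (nat_lit 3158217923) (nat_lit 0) (nat_lit 131505214) (nat_lit 76) (nat_lit 131505214) (nat_lit 47) (nat_lit 1) (nat_lit 45) (nat_lit 1) (nat_lit 46) (nat_lit 1) (nat_lit 400) (nat_lit 406) (nat_lit 214))) (XT.nd (nat_lit 78) (nat_lit 228) (nat_lit 0) (XT.lf (nat_lit 0) (nat_lit 1002670592) (nat_lit 0) (nat_lit 1381976800) (nat_lit 152) (nat_lit 1002670592) (nat_lit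 45) (nat_lit 3) (nat_lit 45) (nat_lit 1) (nat_lit 47) (nat_lit 1) (nat_lit 401) (nat_lit 406) (nat_lit 213)) (XT.nd (nat_lit 78) (nat_lit 152) (nat_lit 0) (XT.lf (nat_lit 76) (nat_lit 872494588) (nat_lit 0) (nat_lit 1240753043) (nat_lit 76) (nat_lit 1240753043) (nat_lit 45) (nat_lit 3) (nat_lit 44) (nat_lit 1) (nat_lit 45) (nat_lit 1) (nat_lit 402) (nat_lit 406) (nat_lit 212)) (XT.lf (nat_lit 152) (nat_lit 3087584003) (nat_lit 0) (nat_lit 116840679) (nat_lit 76) (nat_lit 116840679) (nat_lit 44) (nat_lit 1) (nat_lit 42) (nat_lit 1) (nat_lit 43) (nat_lit 1) (nat_lit 403) (nat_lit 406) (nat_lit 211))))))) (XT.nd (nat_lit 702) (nat_lit 684) (nat_lit 0) (XT.nd (nat_lit 312) (nat_lit 456) (nat_lit 0) (XT.nd (nat_lit 156) (nat_lit 152) (nat_lit 0) (XT.nd (nat_lit 78) (nat_lit 76) (nat_lit 0) (XT.lf (nat_lit 0) (nat_lit 983780060) (nat_lit 0) (nat_lit 1320788713) (nat_lit 152) (nat_lit 983780060) (nat_lit 42)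 (nat_lit 3) (nat_lit 42) (nat_lit 1) (nat_lit 44) (nat_lit 1) (nat_lit 404) (nat_lit 406) (nat_lit 210)) (XT.lf (nat_lit 76) (nat_lit 867209384) (nat_lit 0) (nat_lit 1194402251) (nat_lit 76) (nat_lit 1194402251) (nat_lit 42) (nat_lit 3) (nat_lit 41) (nat_lit 1) (nat_lit 42) (nat_lit 1) (nat_lit 405) (nat_lit 406) (nat_lit 209))) (XT.nd (nat_lit 78) (nat_lit 0) (nat_lit 0) (XT.lf (nat_lit 152) (nat_lit 3016626244) (nat_lit 0) (nat_lit 103811430) (nat_lit 76) (nat_lit 103811430) (nat_lit 41) (nat_lit 1) (nat_lit 39) (nat_lit 1) (nat_lit 40) (nat_lit 1) (nat_lit 406) (nat_lit 406) (nat_lit 208)) (XT.lf (nat_lit 0) (nat_lit 964289652) (nat_lit 0) (nat_lit 1263717476) (nat_lit 152) (nat_lit 964289652) (nat_lit 39) (nat_lit 3) (nat_lit 39) (nat_lit 1) (nat_lit 41) (nat_lit 1) (nat_lit 407) (nat_lit 406) (nat_lit 207)))) (XT.nd (nat_lit 156) (nat_lit 228) (nat_lit 0) (XT.nd (nat_lit 78) (nat_lit 152) (nat_lit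 0) (XT.lf (nat_lit 76) (nat_lit 859833667) (nat_lit 0) (nat_lit 1150540292) (nat_lit 76) (nat_lit 1150540292) (nat_lit 39) (nat_lit 3) (nat_lit 38) (nat_lit 1) (nat_lit 39) (nat_lit 1) (nat_lit 408) (nat_lit 406) (nat_lit 206)) (XT.lf (nat_lit 152) (nat_lit 2945619607) (nat_lit 0) (nat_lit 92235111) (nat_lit 76) (nat_lit 92235111) (nat_lit 38) (nat_lit 1) (nat_lit 36) (nat_lit 1) (nat_lit 37) (nat_lit 1) (nat_lit 409) (nat_lit 406) (nat_lit 205))) (XT.nd (nat_lit 78) (nat_lit 228) (nat_lit 0) (XT.lf (nat_lit 0) (nat_lit 944345091) (nat_lit 0) (nat_lit 1210382834) (nat_lit 152) (nat_lit 944345091) (nat_lit 36) (nat_lit 3) (nat_lit 36) (nat_lit 1) (nat_lit 38) (nat_lit 1) (nat_lit 410) (nat_lit 406) (nat_lit 204)) (XT.nd (nat_lit 78) (nat_lit 152) (nat_lit 0) (XT.lf (nat_lit 76) (nat_lit 850678613) (nat_lit 0) (nat_lit 1108967684) (nat_lit 76) (nat_lit 1108967684) (nat_lit 36) (nat_lit 3) (nat_lit 35)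 (nat_lit 1) (nat_lit 36) (nat_lit 1) (nat_lit 411) (nat_lit 406) (nat_lit 203)) (XT.lf (nat_lit 152) (nat_lit 2874801432) (nat_lit 0) (nat_lit 81949702) (nat_lit 76) (nat_lit 81949702) (nat_lit 35) (nat_lit 1) (nat_lit 33) (nat_lit 1) (nat_lit 34) (nat_lit 1) (nat_lit 412) (nat_lit 406) (nat_lit 202)))))) (XT.nd (nat_lit 390) (nat_lit 380) (nat_lit 0) (XT.nd (nat_lit 156) (nat_lit 228) (nat_lit 0) (XT.nd (nat_lit 78) (nat_lit 76) (nat_lit 0) (XT.lf (nat_lit 0) (nat_lit 924073552) (nat_lit 0) (nat_lit 1160444641) (nat_lit 152) (nat_lit 924073552) (nat_lit 33) (nat_lit 3) (nat_lit 33) (nat_lit 1) (nat_lit 35) (nat_lit 1) (nat_lit 413) (nat_lit 406) (nat_lit 201)) (XT.lf (nat_lit 76) (nat_lit 840018421) (nat_lit 0) (nat_lit 1069504915) (nat_lit 76) (nat_lit 1069504915) (nat_lit 33) (nat_lit 3) (nat_lit 32) (nat_lit 1) (nat_lit 33) (nat_lit 1) (nat_lit 414) (nat_lit 406) (nat_lit 200))) (XT.nd (nat_lit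 78) (nat_lit 76) (nat_lit 0) (XT.lf (nat_lit 152) (nat_lit 2804375841) (nat_lit 0) (nat_lit 72811248) (nat_lit 76) (nat_lit 72811248) (nat_lit 32) (nat_lit 1) (nat_lit 30) (nat_lit 1) (nat_lit 31) (nat_lit 1) (nat_lit 415) (nat_lit 406) (nat_lit 199)) (XT.nd (nat_lit 78) (nat_lit 76) (nat_lit 0) (XT.lf (nat_lit 0) (nat_lit 903585799) (nat_lit 0) (nat_lit 1113598450) (nat_lit 152) (nat_lit 903585799) (nat_lit 30) (nat_lit 3) (nat_lit 30) (nat_lit 1) (nat_lit 32) (nat_lit 1) (nat_lit 416) (nat_lit 406) (nat_lit 198)) (XT.lf (nat_lit 76) (nat_lit 828094508) (nat_lit 0) (nat_lit 1031990285) (nat_lit 76) (nat_lit 1031990285) (nat_lit 30) (nat_lit 3) (nat_lit 29) (nat_lit 1) (nat_lit 30) (nat_lit 1) (nat_lit 417) (nat_lit 406) (nat_lit 197))))) (XT.nd (nat_lit 156) (nat_lit 228) (nat_lit 0) (XT.nd (nat_lit 78) (nat_lit 0) (nat_lit 0) (XT.lf (nat_lit 152) (nat_lit 2734517635) (nat_lit 0) (nat_lit 64691851)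 (nat_lit 76) (nat_lit 64691851) (nat_lit 29) (nat_lit 1) (nat_lit 27) (nat_lit 1) (nat_lit 28) (nat_lit 1) (nat_lit 418) (nat_lit 406) (nat_lit 196)) (XT.lf (nat_lit 0) (nat_lit 882978082) (nat_lit 0) (nat_lit 1069571602) (nat_lit 152) (nat_lit 882978082) (nat_lit 27) (nat_lit 3) (nat_lit 27) (nat_lit 1) (nat_lit 29) (nat_lit 1) (nat_lit 419) (nat_lit 406) (nat_lit 195))) (XT.nd (nat_lit 78) (nat_lit 152) (nat_lit 0) (XT.lf (nat_lit 76) (nat_lit 815119226) (nat_lit 0) (nat_lit 996277983) (nat_lit 76) (nat_lit 996277983) (nat_lit 27) (nat_lit 3) (nat_lit 26) (nat_lit 1) (nat_lit 27) (nat_lit 1) (nat_lit 420) (nat_lit 406) (nat_lit 194)) (XT.nd (nat_lit 78) (nat_lit 0) (nat_lit 0) (XT.lf (nat_lit 152) (nat_lit 2665375756) (nat_lit 0) (nat_lit 57477872) (nat_lit 76) (nat_lit 57477872) (nat_lit 26) (nat_lit 1) (nat_lit 24) (nat_lit 1) (nat_lit 25) (nat_lit 1) (nat_lit 421) (nat_lit 406) (nat_lit 193)) (XT.lf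 (nat_lit 0) (nat_lit 862333816) (nat_lit 0) (nat_lit 1028119742) (nat_lit 152) (nat_lit 862333816) (nat_lit 24) (nat_lit 3) (nat_lit 24) (nat_lit 1) (nat_lit 26) (nat_lit 1) (nat_lit 422) (nat_lit 406) (nat_lit 192))))))))
noncomputable def ec341 : XT := (XT.nd (nat_lit 37518) (nat_lit 0) (nat_lit 20292) (XT.nd (nat_lit 36738) (nat_lit 0) (nat_lit 25992) (XT.nd (nat_lit 36348) (nat_lit 0) (nat_lit 26904) (XT.nd (nat_lit 36192) (nat_lit 0) (nat_lit 26828) (XT.nd (nat_lit 78) (nat_lit 152) (nat_lit 0) (XT.lf (nat_lit 76) (nat_lit 801279167) (nat_lit 0) (nat_lit 962236377) (nat_lit 76) (nat_lit 962236377) (nat_lit 24) (nat_lit 3) (nat_lit 23) (nat_lit 1) (nat_lit 24) (nat_lit 1) (nat_lit 423) (nat_lit 406) (nat_lit 191)) (XT.lf (nat_lit 152) (nat_lit 2597076357) (nat_lit 0) (nat_lit 51068344) (nat_lit 76) (nat_lit 51068344) (nat_lit 23) (nat_lit 1) (nat_lit 21) (nat_lit 1) (nat_lit 22) (nat_lit 1) (nat_lit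 424) (nat_lit 406) (nat_lit 190))) (XT.nd (nat_lit 78) (nat_lit 0) (nat_lit 0) (XT.lf (nat_lit 1292) (nat_lit 2702456627) (nat_lit 0) (nat_lit 9297707628) (nat_lit 1292) (nat_lit 2702456627) (nat_lit 391) (nat_lit 1) (nat_lit 374) (nat_lit 0) (nat_lit 391) (nat_lit 0) (nat_lit 206) (nat_lit 407) (nat_lit 407)) (XT.lf (nat_lit 1292) (nat_lit 10561247856) (nat_lit 76) (nat_lit 9206553632) (nat_lit 0) (nat_lit 9206553632) (nat_lit 391) (nat_lit 1) (nat_lit 375) (nat_lit 1) (nat_lit 374) (nat_lit 0) (nat_lit 207) (nat_lit 407) (nat_lit 406)))) (XT.nd (nat_lit 156) (nat_lit 0) (nat_lit 76) (XT.nd (nat_lit 78) (nat_lit 0) (nat_lit 0) (XT.lf (nat_lit 1292) (nat_lit 5107671273) (nat_lit 0) (nat_lit 18337630388) (nat_lit 1216) (nat_lit 5107671273) (nat_lit 392) (nat_lit 1) (nat_lit 375) (nat_lit 1) (nat_lit 391) (nat_lit 1) (nat_lit 208) (nat_lit 407) (nat_lit 405)) (XT.lf (nat_lit 1292) (nat_lit 9699731459)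 (nat_lit 76) (nat_lit 9219448113) (nat_lit 0) (nat_lit 9219448113) (nat_lit 392) (nat_lit 1) (nat_lit 376) (nat_lit 1) (nat_lit 375) (nat_lit 1) (nat_lit 209) (nat_lit 407) (nat_lit 404))) (XT.nd (nat_lit 78) (nat_lit 0) (nat_lit 0) (XT.lf (nat_lit 1292) (nat_lit 4551550612) (nat_lit 0) (nat_lit 18630452328) (nat_lit 1216) (nat_lit 4551550612) (nat_lit 393) (nat_lit 1) (nat_lit 376) (nat_lit 1) (nat_lit 392) (nat_lit 1) (nat_lit 210) (nat_lit 407) (nat_lit 403)) (XT.nd (nat_lit 78) (nat_lit 0) (nat_lit 76) (XT.lf (nat_lit 1292) (nat_lit 8341197076) (nat_lit 76) (nat_lit 9496880336) (nat_lit 0) (nat_lit 9496880336) (nat_lit 393) (nat_lit 1) (nat_lit 377) (nat_lit 1) (nat_lit 376) (nat_lit 1) (nat_lit 211) (nat_lit 407) (nat_lit 402)) (XT.lf (nat_lit 1292) (nat_lit 3759449100) (nat_lit 0) (nat_lit 19426667909) (nat_lit 1216) (nat_lit 3759449100) (nat_lit 394) (nat_lit 1) (nat_lit 377) (nat_lit 1) (nat_lit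 393) (nat_lit 1) (nat_lit 212) (nat_lit 407) (nat_lit 401)))))) (XT.nd (nat_lit 390) (nat_lit 1064) (nat_lit 0) (XT.nd (nat_lit 156) (nat_lit 0) (nat_lit 76) (XT.nd (nat_lit 78) (nat_lit 0) (nat_lit 76) (XT.lf (nat_lit 1292) (nat_lit 6530092251) (nat_lit 76) (nat_lit 10015938209) (nat_lit 0) (nat_lit 10015938209) (nat_lit 394) (nat_lit 1) (nat_lit 378) (nat_lit 1) (nat_lit 377) (nat_lit 1) (nat_lit 213) (nat_lit 407) (nat_lit 400)) (XT.lf (nat_lit 1292) (nat_lit 2752716047) (nat_lit 0) (nat_lit 20682228738) (nat_lit 1216) (nat_lit 2752716047) (nat_lit 395) (nat_lit 1) (nat_lit 378) (nat_lit 1) (nat_lit 394) (nat_lit 1) (nat_lit 214) (nat_lit 407) (nat_lit 399))) (XT.nd (nat_lit 78) (nat_lit 0) (nat_lit 76) (XT.lf (nat_lit 1292) (nat_lit 4307849461) (nat_lit 76) (nat_lit 10755249935) (nat_lit 0) (nat_lit 10755249935) (nat_lit 395) (nat_lit 1) (nat_lit 379) (nat_lit 1) (nat_lit 378) (nat_lit 1) (nat_lit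 215) (nat_lit 407) (nat_lit 398)) (XT.nd (nat_lit 78) (nat_lit 0) (nat_lit 0) (XT.lf (nat_lit 1292) (nat_lit 1551247949) (nat_lit 0) (nat_lit 22356056287) (nat_lit 1216) (nat_lit 1551247949) (nat_lit 396) (nat_lit 1) (nat_lit 379) (nat_lit 1) (nat_lit 395) (nat_lit 1) (nat_lit 216) (nat_lit 407) (nat_lit 397)) (XT.lf (nat_lit 1292) (nat_lit 1713072701) (nat_lit 76) (nat_lit 11694889036) (nat_lit 0) (nat_lit 11694889036) (nat_lit 396) (nat_lit 1) (nat_lit 380) (nat_lit 1) (nat_lit 379) (nat_lit 1) (nat_lit 217) (nat_lit 407) (nat_lit 396))))) (XT.nd (nat_lit 156) (nat_lit 0) (nat_lit 0) (XT.nd (nat_lit 78) (nat_lit 1292) (nat_lit 0) (XT.lf (nat_lit 1292) (nat_lit 173578511) (nat_lit 0) (nat_lit 24409858558) (nat_lit 1216) (nat_lit 173578511) (nat_lit 397) (nat_lit 1) (nat_lit 380) (nat_lit 1) (nat_lit 396) (nat_lit 1) (nat_lit 218) (nat_lit 407) (nat_lit 395)) (XT.lf (nat_lit 1368) (nat_lit 11609708899)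 (nat_lit 0) (nat_lit 1194513872) (nat_lit 1292) (nat_lit 11609708899) (nat_lit 381) (nat_lit 1) (nat_lit 363) (nat_lit 1) (nat_lit 380) (nat_lit 1) (nat_lit 219) (nat_lit 407) (nat_lit 394))) (XT.nd (nat_lit 78) (nat_lit 0) (nat_lit 76) (XT.lf (nat_lit 1368) (nat_lit 21380956835) (nat_lit 76) (nat_lit 1349673594) (nat_lit 0) (nat_lit 1349673594) (nat_lit 381) (nat_lit 1) (nat_lit 364) (nat_lit 1) (nat_lit 363) (nat_lit 1) (nat_lit 220) (nat_lit 407) (nat_lit 393)) (XT.nd (nat_lit 78) (nat_lit 0) (nat_lit 0) (XT.lf (nat_lit 1368) (nat_lit 9692175318) (nat_lit 0) (nat_lit 4365877246) (nat_lit 1292) (nat_lit 9692175318) (nat_lit 382) (nat_lit 1) (nat_lit 364) (nat_lit 1) (nat_lit 381) (nat_lit 1) (nat_lit 221) (nat_lit 407) (nat_lit 392)) (XT.lf (nat_lit 1368) (nat_lit 17403095300) (nat_lit 76) (nat_lit 3012711814) (nat_lit 0) (nat_lit 3012711814) (nat_lit 382) (nat_lit 1) (nat_lit 365) (nat_lit 1) (nat_lit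 364) (nat_lit 1) (nat_lit 222) (nat_lit 407) (nat_lit 391))))))) (XT.nd (nat_lit 702) (nat_lit 2584) (nat_lit 0) (XT.nd (nat_lit 312) (nat_lit 1824) (nat_lit 0) (XT.nd (nat_lit 156) (nat_lit 608) (nat_lit 0) (XT.nd (nat_lit 78) (nat_lit 836) (nat_lit 0) (XT.lf (nat_lit 76) (nat_lit 7653619277) (nat_lit 0) (nat_lit 7803922909) (nat_lit 1292) (nat_lit 7653619277) (nat_lit 366) (nat_lit 1) (nat_lit 365) (nat_lit 1) (nat_lit 382) (nat_lit 1) (nat_lit 223) (nat_lit 407) (nat_lit 390)) (XT.lf (nat_lit 912) (nat_lit 13195917132) (nat_lit 0) (nat_lit 4802450933) (nat_lit 836) (nat_lit 4802450933) (nat_lit 366) (nat_lit 1) (nat_lit 354) (nat_lit 1) (nat_lit 365) (nat_lit 1) (nat_lit 224) (nat_lit 407) (nat_lit 389))) (XT.nd (nat_lit 78) (nat_lit 608) (nat_lit 0) (XT.lf (nat_lit 76) (nat_lit 5507718931) (nat_lit 0) (nat_lit 11480272356) (nat_lit 912) (nat_lit 5507718931) (nat_lit 355) (nat_lit 1) (nat_lit 354)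 (nat_lit 1) (nat_lit 366) (nat_lit 1) (nat_lit 225) (nat_lit 407) (nat_lit 388)) (XT.lf (nat_lit 684) (nat_lit 8785916010) (nat_lit 0) (nat_lit 6705146944) (nat_lit 608) (nat_lit 6705146944) (nat_lit 355) (nat_lit 1) (nat_lit 346) (nat_lit 1) (nat_lit 354) (nat_lit 1) (nat_lit 226) (nat_lit 407) (nat_lit 387)))) (XT.nd (nat_lit 156) (nat_lit 1216) (nat_lit 0) (XT.nd (nat_lit 78) (nat_lit 608) (nat_lit 0) (XT.lf (nat_lit 76) (nat_lit 3267171209) (nat_lit 0) (nat_lit 15368556802) (nat_lit 684) (nat_lit 3267171209) (nat_lit 347) (nat_lit 1) (nat_lit 346) (nat_lit 1) (nat_lit 355) (nat_lit 1) (nat_lit 227) (nat_lit 407) (nat_lit 386)) (XT.lf (nat_lit 684) (nat_lit 4197676515) (nat_lit 0) (nat_lit 8708033274) (nat_lit 608) (nat_lit 8708033274) (nat_lit 347) (nat_lit 1) (nat_lit 338) (nat_lit 1) (nat_lit 346) (nat_lit 1) (nat_lit 228) (nat_lit 407) (nat_lit 385))) (XT.nd (nat_lit 78) (nat_lit 1216) (nat_lit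 0) (XT.lf (nat_lit 76) (nat_lit 943753844) (nat_lit 0) (nat_lit 19444290723) (nat_lit 684) (nat_lit 943753844) (nat_lit 339) (nat_lit 1) (nat_lit 338) (nat_lit 1) (nat_lit 347) (nat_lit 1) (nat_lit 229) (nat_lit 407) (nat_lit 384)) (XT.nd (nat_lit 78) (nat_lit 608) (nat_lit 0) (XT.lf (nat_lit 76) (nat_lit 10258502749) (nat_lit 0) (nat_lit 535350445) (nat_lit 608) (nat_lit 10258502749) (nat_lit 331) (nat_lit 1) (nat_lit 330) (nat_lit 1) (nat_lit 338) (nat_lit 1) (nat_lit 230) (nat_lit 407) (nat_lit 383)) (XT.lf (nat_lit 684) (nat_lit 17905067885) (nat_lit 0) (nat_lit 1437384780) (nat_lit 608) (nat_lit 1437384780) (nat_lit 331) (nat_lit 1) (nat_lit 322) (nat_lit 1) (nat_lit 330) (nat_lit 1) (nat_lit 231) (nat_lit 407) (nat_lit 382)))))) (XT.nd (nat_lit 390) (nat_lit 1520) (nat_lit 0) (XT.nd (nat_lit 156) (nat_lit 532) (nat_lit 0) (XT.nd (nat_lit 78) (nat_lit 532) (nat_lit 0) (XT.lf (nat_lit 76) (nat_lit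 7595964111) (nat_lit 0) (nat_lit 5318164723) (nat_lit 684) (nat_lit 7595964111) (nat_lit 323) (nat_lit 1) (nat_lit 322) (nat_lit 1) (nat_lit 331) (nat_lit 1) (nat_lit 232) (nat_lit 407) (nat_lit 381)) (XT.lf (nat_lit 608) (nat_lit 12505673177) (nat_lit 0) (nat_lit 3870506649) (nat_lit 532) (nat_lit 3870506649) (nat_lit 323) (nat_lit 1) (nat_lit 315) (nat_lit 1) (nat_lit 322) (nat_lit 1) (nat_lit 233) (nat_lit 407) (nat_lit 380))) (XT.nd (nat_lit 78) (nat_lit 532) (nat_lit 0) (XT.lf (nat_lit 76) (nat_lit 4886920012) (nat_lit 0) (nat_lit 10213505648) (nat_lit 608) (nat_lit 4886920012) (nat_lit 316) (nat_lit 1) (nat_lit 315) (nat_lit 1) (nat_lit 323) (nat_lit 1) (nat_lit 234) (nat_lit 407) (nat_lit 379)) (XT.nd (nat_lit 78) (nat_lit 0) (nat_lit 0) (XT.lf (nat_lit 608) (nat_lit 7021442417) (nat_lit 0) (nat_lit 6355599794) (nat_lit 532) (nat_lit 6355599794) (nat_lit 316) (nat_lit 1) (nat_lit 308) (nat_lit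 1) (nat_lit 315) (nat_lit 1) (nat_lit 235) (nat_lit 407) (nat_lit 378)) (XT.lf (nat_lit 76) (nat_lit 2139846250) (nat_lit 0) (nat_lit 15203639561) (nat_lit 608) (nat_lit 2139846250) (nat_lit 309) (nat_lit 1) (nat_lit 308) (nat_lit 1) (nat_lit 316) (nat_lit 1) (nat_lit 236) (nat_lit 407) (nat_lit 377))))) (XT.nd (nat_lit 156) (nat_lit 456) (nat_lit 0) (XT.nd (nat_lit 78) (nat_lit 608) (nat_lit 0) (XT.lf (nat_lit 532) (nat_lit 1468744086) (nat_lit 0) (nat_lit 8884099034) (nat_lit 456) (nat_lit 8884099034) (nat_lit 309) (nat_lit 1) (nat_lit 302) (nat_lit 1) (nat_lit 308) (nat_lit 1) (nat_lit 237) (nat_lit 407) (nat_lit 376)) (XT.lf (nat_lit 608) (nat_lit 17734190797) (nat_lit 0) (nat_lit 631187649) (nat_lit 532) (nat_lit 631187649) (nat_lit 302) (nat_lit 1) (nat_lit 294) (nat_lit 1) (nat_lit 301) (nat_lit 1) (nat_lit 238) (nat_lit 407) (nat_lit 375))) (XT.nd (nat_lit 78) (nat_lit 456) (nat_lit 0) (XT.lf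 (nat_lit 76) (nat_lit 7350536107) (nat_lit 0) (nat_lit 4056593691) (nat_lit 608) (nat_lit 7350536107) (nat_lit 295) (nat_lit 1) (nat_lit 294) (nat_lit 1) (nat_lit 302) (nat_lit 1) (nat_lit 239) (nat_lit 407) (nat_lit 374)) (XT.nd (nat_lit 78) (nat_lit 0) (nat_lit 0) (XT.lf (nat_lit 532) (nat_lit 11716526364) (nat_lit 0) (nat_lit 3404019622) (nat_lit 456) (nat_lit 3404019622) (nat_lit 295) (nat_lit 1) (nat_lit 288) (nat_lit 1) (nat_lit 294) (nat_lit 1) (nat_lit 240) (nat_lit 407) (nat_lit 373)) (XT.lf (nat_lit 76) (nat_lit 4351451911) (nat_lit 0) (nat_lit 9591972026) (nat_lit 532) (nat_lit 4351451911) (nat_lit 289) (nat_lit 1) (nat_lit 288) (nat_lit 1) (nat_lit 295) (nat_lit 1) (nat_lit 241) (nat_lit 407) (nat_lit 372))))))))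
noncomputable def ec342 : XT := (XT.nd (nat_lit 1482) (nat_lit 3040) (nat_lit 0) (XT.nd (nat_lit 702) (nat_lit 2128) (nat_lit 0) (XT.nd (nat_lit 312) (nat_lit 1216) (nat_lit 0) (XT.nd (nat_lit 156) (nat_lit 912) (nat_lit 0) (XT.nd (nat_lit 78) (nat_lit 0) (nat_lit 0) (XT.lf (nat_lit 532) (nat_lit 5683017754) (nat_lit 0) (nat_lit 6193059665) (nat_lit 456) (nat_lit 6193059665) (nat_lit 289) (nat_lit 1) (nat_lit 282) (nat_lit 1) (nat_lit 288) (nat_lit 1) (nat_lit 242) (nat_lit 407) (nat_lit 371)) (XT.lf (nat_lit 76) (nat_lit 1347411014) (nat_lit 0) (nat_lit 15153512345) (nat_lit 532) (nat_lit 1347411014) (nat_lit 283) (nat_lit 1) (nat_lit 282) (nat_lit 1) (nat_lit 289) (nat_lit 1) (nat_lit 243) (nat_lit 407) (nat_lit 370))) (XT.nd (nat_lit 78) (nat_lit 456) (nat_lit 0) (XT.lf (nat_lit 76) (nat_lit 8640778040) (nat_lit 0) (nat_lit 347977284) (nat_lit 456) (nat_lit 8640778040) (nat_lit 277) (nat_lit 1) (nat_lit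 276) (nat_lit 1) (nat_lit 282) (nat_lit 1) (nat_lit 244) (nat_lit 407) (nat_lit 369)) (XT.lf (nat_lit 532) (nat_lit 14135675989) (nat_lit 0) (nat_lit 1639906618) (nat_lit 456) (nat_lit 1639906618) (nat_lit 277) (nat_lit 1) (nat_lit 270) (nat_lit 1) (nat_lit 276) (nat_lit 1) (nat_lit 245) (nat_lit 407) (nat_lit 368)))) (XT.nd (nat_lit 156) (nat_lit 836) (nat_lit 0) (XT.nd (nat_lit 78) (nat_lit 380) (nat_lit 0) (XT.lf (nat_lit 76) (nat_lit 5470733143) (nat_lit 0) (nat_lit 6262136676) (nat_lit 532) (nat_lit 5470733143) (nat_lit 271) (nat_lit 1) (nat_lit 270) (nat_lit 1) (nat_lit 277) (nat_lit 1) (nat_lit 246) (nat_lit 407) (nat_lit 367)) (XT.lf (nat_lit 456) (nat_lit 7778898320) (nat_lit 0) (nat_lit 4608600831) (nat_lit 380) (nat_lit 4608600831) (nat_lit 271) (nat_lit 1) (nat_lit 265) (nat_lit 1) (nat_lit 270) (nat_lit 1) (nat_lit 247) (nat_lit 407) (nat_lit 366))) (XT.nd (nat_lit 78) (nat_lit 836) (nat_lit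 0) (XT.lf (nat_lit 76) (nat_lit 2315712594) (nat_lit 0) (nat_lit 12160972323) (nat_lit 456) (nat_lit 2315712594) (nat_lit 266) (nat_lit 1) (nat_lit 265) (nat_lit 1) (nat_lit 271) (nat_lit 1) (nat_lit 248) (nat_lit 407) (nat_lit 365)) (XT.nd (nat_lit 78) (nat_lit 456) (nat_lit 0) (XT.lf (nat_lit 456) (nat_lit 1456400813) (nat_lit 0) (nat_lit 7567377365) (nat_lit 380) (nat_lit 7567377365) (nat_lit 266) (nat_lit 1) (nat_lit 260) (nat_lit 1) (nat_lit 265) (nat_lit 1) (nat_lit 249) (nat_lit 407) (nat_lit 364)) (XT.lf (nat_lit 456) (nat_lit 14769921070) (nat_lit 0) (nat_lit 812241471) (nat_lit 380) (nat_lit 812241471) (nat_lit 260) (nat_lit 1) (nat_lit 254) (nat_lit 1) (nat_lit 259) (nat_lit 1) (nat_lit 250) (nat_lit 407) (nat_lit 363)))))) (XT.nd (nat_lit 390) (nat_lit 988) (nat_lit 0) (XT.nd (nat_lit 156) (nat_lit 760) (nat_lit 0) (XT.nd (nat_lit 78) (nat_lit 380) (nat_lit 0) (XT.lf (nat_lit 76) (nat_lit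 5734349076) (nat_lit 0) (nat_lit 4730017870) (nat_lit 456) (nat_lit 5734349076) (nat_lit 255) (nat_lit 1) (nat_lit 254) (nat_lit 1) (nat_lit 260) (nat_lit 1) (nat_lit 251) (nat_lit 407) (nat_lit 362)) (XT.lf (nat_lit 456) (nat_lit 8217254635) (nat_lit 0) (nat_lit 3895061192) (nat_lit 380) (nat_lit 3895061192) (nat_lit 255) (nat_lit 1) (nat_lit 249) (nat_lit 1) (nat_lit 254) (nat_lit 1) (nat_lit 252) (nat_lit 407) (nat_lit 361))) (XT.nd (nat_lit 78) (nat_lit 760) (nat_lit 0) (XT.lf (nat_lit 76) (nat_lit 2489577199) (nat_lit 0) (nat_lit 10840086921) (nat_lit 456) (nat_lit 2489577199) (nat_lit 250) (nat_lit 1) (nat_lit 249) (nat_lit 1) (nat_lit 255) (nat_lit 1) (nat_lit 253) (nat_lit 407) (nat_lit 360)) (XT.nd (nat_lit 78) (nat_lit 456) (nat_lit 0) (XT.lf (nat_lit 380) (nat_lit 1729092399) (nat_lit 0) (nat_lit 6952198751) (nat_lit 304) (nat_lit 6952198751) (nat_lit 250) (nat_lit 1) (nat_lit 245) (nat_lit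 1) (nat_lit 249) (nat_lit 1) (nat_lit 254) (nat_lit 407) (nat_lit 359)) (XT.lf (nat_lit 456) (nat_lit 14022537298) (nat_lit 0) (nat_lit 714638038) (nat_lit 380) (nat_lit 714638038) (nat_lit 245) (nat_lit 1) (nat_lit 239) (nat_lit 1) (nat_lit 244) (nat_lit 1) (nat_lit 255) (nat_lit 407) (nat_lit 358))))) (XT.nd (nat_lit 156) (nat_lit 684) (nat_lit 0) (XT.nd (nat_lit 78) (nat_lit 304) (nat_lit 0) (XT.lf (nat_lit 76) (nat_lit 5336606062) (nat_lit 0) (nat_lit 4597688369) (nat_lit 456) (nat_lit 5336606062) (nat_lit 240) (nat_lit 1) (nat_lit 239) (nat_lit 1) (nat_lit 245) (nat_lit 1) (nat_lit 256) (nat_lit 407) (nat_lit 357)) (XT.lf (nat_lit 380) (nat_lit 7376364736) (nat_lit 0) (nat_lit 3858789654) (nat_lit 304) (nat_lit 3858789654) (nat_lit 240) (nat_lit 1) (nat_lit 235) (nat_lit 1) (nat_lit 239) (nat_lit 1) (nat_lit 257) (nat_lit 407) (nat_lit 356))) (XT.nd (nat_lit 78) (nat_lit 684) (nat_lit 0) (XT.lf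 (nat_lit 76) (nat_lit 2051254357) (nat_lit 0) (nat_lit 10817505768) (nat_lit 380) (nat_lit 2051254357) (nat_lit 236) (nat_lit 1) (nat_lit 235) (nat_lit 1) (nat_lit 240) (nat_lit 1) (nat_lit 258) (nat_lit 407) (nat_lit 355)) (XT.nd (nat_lit 78) (nat_lit 380) (nat_lit 0) (XT.lf (nat_lit 380) (nat_lit 817953743) (nat_lit 0) (nat_lit 6965054067) (nat_lit 304) (nat_lit 6965054067) (nat_lit 236) (nat_lit 1) (nat_lit 231) (nat_lit 1) (nat_lit 235) (nat_lit 1) (nat_lit 259) (nat_lit 407) (nat_lit 354)) (XT.lf (nat_lit 380) (nat_lit 12223793397) (nat_lit 0) (nat_lit 1177854637) (nat_lit 304) (nat_lit 1177854637) (nat_lit 231) (nat_lit 1) (nat_lit 226) (nat_lit 1) (nat_lit 230) (nat_lit 1) (nat_lit 260) (nat_lit 407) (nat_lit 353))))))) (XT.nd (nat_lit 702) (nat_lit 1520) (nat_lit 0) (XT.nd (nat_lit 312) (nat_lit 912) (nat_lit 0) (XT.nd (nat_lit 156) (nat_lit 304) (nat_lit 0) (XT.nd (nat_lit 78) (nat_lit 304)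 (nat_lit 0) (XT.lf (nat_lit 76) (nat_lit 4436578558) (nat_lit 0) (nat_lit 5538941752) (nat_lit 380) (nat_lit 4436578558) (nat_lit 227) (nat_lit 1) (nat_lit 226) (nat_lit 1) (nat_lit 231) (nat_lit 1) (nat_lit 261) (nat_lit 407) (nat_lit 352)) (XT.lf (nat_lit 380) (nat_lit 5565808834) (nat_lit 0) (nat_lit 4341090210) (nat_lit 304) (nat_lit 4341090210) (nat_lit 227) (nat_lit 1) (nat_lit 222) (nat_lit 1) (nat_lit 226) (nat_lit 1) (nat_lit 262) (nat_lit 407) (nat_lit 351))) (XT.nd (nat_lit 78) (nat_lit 304) (nat_lit 0) (XT.lf (nat_lit 76) (nat_lit 1149842032) (nat_lit 0) (nat_lit 11787370407) (nat_lit 380) (nat_lit 1149842032) (nat_lit 223) (nat_lit 1) (nat_lit 222) (nat_lit 1) (nat_lit 227) (nat_lit 1) (nat_lit 263) (nat_lit 407) (nat_lit 350)) (XT.lf (nat_lit 76) (nat_lit 6479770382) (nat_lit 0) (nat_lit 967615857) (nat_lit 304) (nat_lit 6479770382) (nat_lit 219) (nat_lit 1) (nat_lit 218) (nat_lit 1) (nat_lit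 222) (nat_lit 1) (nat_lit 264) (nat_lit 407) (nat_lit 349)))) (XT.nd (nat_lit 156) (nat_lit 608) (nat_lit 0) (XT.nd (nat_lit 78) (nat_lit 0) (nat_lit 0) (XT.lf (nat_lit 380) (nat_lit 9643272872) (nat_lit 0) (nat_lit 2063536293) (nat_lit 304) (nat_lit 2063536293) (nat_lit 219) (nat_lit 1) (nat_lit 214) (nat_lit 1) (nat_lit 218) (nat_lit 1) (nat_lit 265) (nat_lit 407) (nat_lit 348)) (XT.lf (nat_lit 76) (nat_lit 3164058679) (nat_lit 0) (nat_lit 7287203341) (nat_lit 380) (nat_lit 3164058679) (nat_lit 215) (nat_lit 1) (nat_lit 214) (nat_lit 1) (nat_lit 219) (nat_lit 1) (nat_lit 266) (nat_lit 407) (nat_lit 347))) (XT.nd (nat_lit 78) (nat_lit 380) (nat_lit 0) (XT.lf (nat_lit 304) (nat_lit 3038076600) (nat_lit 0) (nat_lit 5212326877) (nat_lit 228) (nat_lit 5212326877) (nat_lit 215) (nat_lit 1) (nat_lit 211) (nat_lit 1) (nat_lit 214) (nat_lit 1) (nat_lit 267) (nat_lit 407) (nat_lit 346)) (XT.nd (nat_lit 78)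 (nat_lit 0) (nat_lit 0) (XT.lf (nat_lit 380) (nat_lit 13129208301) (nat_lit 0) (nat_lit 92196014) (nat_lit 304) (nat_lit 92196014) (nat_lit 211) (nat_lit 1) (nat_lit 206) (nat_lit 1) (nat_lit 210) (nat_lit 1) (nat_lit 268) (nat_lit 407) (nat_lit 345)) (XT.lf (nat_lit 76) (nat_lit 4891262947) (nat_lit 0) (nat_lit 3381651227) (nat_lit 380) (nat_lit 4891262947) (nat_lit 207) (nat_lit 1) (nat_lit 206) (nat_lit 1) (nat_lit 211) (nat_lit 1) (nat_lit 269) (nat_lit 407) (nat_lit 344)))))) (XT.nd (nat_lit 390) (nat_lit 760) (nat_lit 0) (XT.nd (nat_lit 156) (nat_lit 532) (nat_lit 0) (XT.nd (nat_lit 78) (nat_lit 0) (nat_lit 0) (XT.lf (nat_lit 304) (nat_lit 6500166230) (nat_lit 0) (nat_lit 3258987090) (nat_lit 228) (nat_lit 3258987090) (nat_lit 207) (nat_lit 1) (nat_lit 203) (nat_lit 1) (nat_lit 206) (nat_lit 1) (nat_lit 270) (nat_lit 407) (nat_lit 343)) (XT.lf (nat_lit 76) (nat_lit 1624525596) (nat_lit 0) (nat_lit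 9625431495) (nat_lit 304) (nat_lit 1624525596) (nat_lit 204) (nat_lit 1) (nat_lit 203) (nat_lit 1) (nat_lit 207) (nat_lit 1) (nat_lit 271) (nat_lit 407) (nat_lit 342))) (XT.nd (nat_lit 78) (nat_lit 228) (nat_lit 0) (XT.lf (nat_lit 76) (nat_lit 6365277943) (nat_lit 0) (nat_lit 1704231) (nat_lit 304) (nat_lit 6365277943) (nat_lit 200) (nat_lit 1) (nat_lit 199) (nat_lit 1) (nat_lit 203) (nat_lit 1) (nat_lit 272) (nat_lit 407) (nat_lit 341)) (XT.nd (nat_lit 78) (nat_lit 0) (nat_lit 0) (XT.lf (nat_lit 304) (nat_lit 9465482941) (nat_lit 0) (nat_lit 1563434003) (nat_lit 228) (nat_lit 1563434003) (nat_lit 200) (nat_lit 1) (nat_lit 196) (nat_lit 1) (nat_lit 199) (nat_lit 1) (nat_lit 273) (nat_lit 407) (nat_lit 340)) (XT.lf (nat_lit 76) (nat_lit 3100895777) (nat_lit 0) (nat_lit 6251995607) (nat_lit 304) (nat_lit 3100895777) (nat_lit 197) (nat_lit 1) (nat_lit 196) (nat_lit 1) (nat_lit 200) (nat_lit 1) (nat_lit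 274) (nat_lit 407) (nat_lit 339))))) (XT.nd (nat_lit 156) (nat_lit 228) (nat_lit 0) (XT.nd (nat_lit 78) (nat_lit 304) (nat_lit 0) (XT.lf (nat_lit 304) (nat_lit 2971865065) (nat_lit 0) (nat_lit 4672804442) (nat_lit 228) (nat_lit 4672804442) (nat_lit 197) (nat_lit 1) (nat_lit 193) (nat_lit 1) (nat_lit 196) (nat_lit 1) (nat_lit 275) (nat_lit 407) (nat_lit 338)) (XT.lf (nat_lit 304) (nat_lit 11992647768) (nat_lit 0) (nat_lit 95757060) (nat_lit 228) (nat_lit 95757060) (nat_lit 193) (nat_lit 1) (nat_lit 189) (nat_lit 1) (nat_lit 192) (nat_lit 1) (nat_lit 276) (nat_lit 407) (nat_lit 337))) (XT.nd (nat_lit 78) (nat_lit 228) (nat_lit 0) (XT.lf (nat_lit 76) (nat_lit 4364354109) (nat_lit 0) (nat_lit 3321734007) (nat_lit 304) (nat_lit 4364354109) (nat_lit 190) (nat_lit 1) (nat_lit 189) (nat_lit 1) (nat_lit 193) (nat_lit 1) (nat_lit 277) (nat_lit 407) (nat_lit 336)) (XT.nd (nat_lit 78) (nat_lit 0) (nat_lit 0) (XT.lf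 (nat_lit 304) (nat_lit 5527268849) (nat_lit 0) (nat_lit 3196199967) (nat_lit 228) (nat_lit 3196199967) (nat_lit 190) (nat_lit 1) (nat_lit 186) (nat_lit 1) (nat_lit 189) (nat_lit 1) (nat_lit 278) (nat_lit 407) (nat_lit 335)) (XT.lf (nat_lit 76) (nat_lit 1182174926) (nat_lit 0) (nat_lit 9426760480) (nat_lit 304) (nat_lit 1182174926) (nat_lit 187) (nat_lit 1) (nat_lit 186) (nat_lit 1) (nat_lit 190) (nat_lit 1) (nat_lit 279) (nat_lit 407) (nat_lit 334))))))))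
noncomputable def ec343 : XT := (XT.nd (nat_lit 1482) (nat_lit 1748) (nat_lit 0) (XT.nd (nat_lit 702) (nat_lit 1292) (nat_lit 0) (XT.nd (nat_lit 312) (nat_lit 684) (nat_lit 0) (XT.nd (nat_lit 156) (nat_lit 152) (nat_lit 0) (XT.nd (nat_lit 78) (nat_lit 228) (nat_lit 0) (XT.lf (nat_lit 76) (nat_lit 5440049161) (nat_lit 0) (nat_lit 783275784) (nat_lit 228) (nat_lit 5440049161) (nat_lit 184) (nat_lit 1) (nat_lit 183) (nat_lit 1) (nat_lit 186) (nat_lit 1) (nat_lit 280) (nat_lit 407) (nat_lit 333)) (XT.lf (nat_lit 304) (nat_lit 7713630308) (nat_lit 0) (nat_lit 1912086878) (nat_lit 228) (nat_lit 1912086878) (nat_lit 184) (nat_lit 1) (nat_lit 180) (nat_lit 1) (nat_lit 183) (nat_lit 1) (nat_lit 281) (nat_lit 407) (nat_lit 332))) (XT.nd (nat_lit 78) (nat_lit 152) (nat_lit 0) (XT.lf (nat_lit 76) (nat_lit 2281508470) (nat_lit 0) (nat_lit 6850650020) (nat_lit 304) (nat_lit 2281508470) (nat_lit 181) (nat_lit 1) (nat_lit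 180) (nat_lit 1) (nat_lit 184) (nat_lit 1) (nat_lit 282) (nat_lit 407) (nat_lit 331)) (XT.lf (nat_lit 228) (nat_lit 1437005776) (nat_lit 0) (nat_lit 4927091756) (nat_lit 152) (nat_lit 4927091756) (nat_lit 181) (nat_lit 1) (nat_lit 178) (nat_lit 1) (nat_lit 180) (nat_lit 1) (nat_lit 283) (nat_lit 407) (nat_lit 330)))) (XT.nd (nat_lit 156) (nat_lit 380) (nat_lit 0) (XT.nd (nat_lit 78) (nat_lit 0) (nat_lit 0) (XT.lf (nat_lit 304) (nat_lit 9574551423) (nat_lit 0) (nat_lit 798189285) (nat_lit 228) (nat_lit 798189285) (nat_lit 178) (nat_lit 1) (nat_lit 174) (nat_lit 1) (nat_lit 177) (nat_lit 1) (nat_lit 284) (nat_lit 407) (nat_lit 329)) (XT.lf (nat_lit 76) (nat_lit 3222393017) (nat_lit 0) (nat_lit 4606223938) (nat_lit 304) (nat_lit 3222393017) (nat_lit 175) (nat_lit 1) (nat_lit 174) (nat_lit 1) (nat_lit 178) (nat_lit 1) (nat_lit 285) (nat_lit 407) (nat_lit 328))) (XT.nd (nat_lit 78) (nat_lit 228) (nat_lit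 0) (XT.lf (nat_lit 228) (nat_lit 3361019801) (nat_lit 0) (nat_lit 3786123826) (nat_lit 152) (nat_lit 3786123826) (nat_lit 175) (nat_lit 1) (nat_lit 172) (nat_lit 1) (nat_lit 174) (nat_lit 1) (nat_lit 286) (nat_lit 407) (nat_lit 327)) (XT.nd (nat_lit 78) (nat_lit 228) (nat_lit 0) (XT.lf (nat_lit 76) (nat_lit 166897289) (nat_lit 0) (nat_lit 10484190504) (nat_lit 228) (nat_lit 166897289) (nat_lit 173) (nat_lit 1) (nat_lit 172) (nat_lit 1) (nat_lit 175) (nat_lit 1) (nat_lit 287) (nat_lit 407) (nat_lit 326)) (XT.lf (nat_lit 76) (nat_lit 4023542120) (nat_lit 0) (nat_lit 2655201498) (nat_lit 228) (nat_lit 4023542120) (nat_lit 170) (nat_lit 1) (nat_lit 169) (nat_lit 1) (nat_lit 172) (nat_lit 1) (nat_lit 288) (nat_lit 407) (nat_lit 325)))))) (XT.nd (nat_lit 390) (nat_lit 760) (nat_lit 0) (XT.nd (nat_lit 156) (nat_lit 380) (nat_lit 0) (XT.nd (nat_lit 78) (nat_lit 0) (nat_lit 0) (XT.lf (nat_lit 228) (nat_lit 5009774777)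 (nat_lit 0) (nat_lit 2789617725) (nat_lit 152) (nat_lit 2789617725) (nat_lit 170) (nat_lit 1) (nat_lit 167) (nat_lit 1) (nat_lit 169) (nat_lit 1) (nat_lit 289) (nat_lit 407) (nat_lit 324)) (XT.lf (nat_lit 76) (nat_lit 1005664453) (nat_lit 0) (nat_lit 8466260384) (nat_lit 228) (nat_lit 1005664453) (nat_lit 168) (nat_lit 1) (nat_lit 167) (nat_lit 1) (nat_lit 170) (nat_lit 1) (nat_lit 290) (nat_lit 407) (nat_lit 323))) (XT.nd (nat_lit 78) (nat_lit 152) (nat_lit 0) (XT.lf (nat_lit 76) (nat_lit 4701552110) (nat_lit 0) (nat_lit 963608442) (nat_lit 228) (nat_lit 4701552110) (nat_lit 165) (nat_lit 1) (nat_lit 164) (nat_lit 1) (nat_lit 167) (nat_lit 1) (nat_lit 291) (nat_lit 407) (nat_lit 322)) (XT.nd (nat_lit 78) (nat_lit 0) (nat_lit 0) (XT.lf (nat_lit 228) (nat_lit 6415733803) (nat_lit 0) (nat_lit 1920962270) (nat_lit 152) (nat_lit 1920962270) (nat_lit 165) (nat_lit 1) (nat_lit 162) (nat_lit 1) (nat_lit 164)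 (nat_lit 1) (nat_lit 292) (nat_lit 407) (nat_lit 321)) (XT.lf (nat_lit 76) (nat_lit 1725926029) (nat_lit 0) (nat_lit 6698078146) (nat_lit 228) (nat_lit 1725926029) (nat_lit 163) (nat_lit 1) (nat_lit 162) (nat_lit 1) (nat_lit 165) (nat_lit 1) (nat_lit 293) (nat_lit 407) (nat_lit 320))))) (XT.nd (nat_lit 156) (nat_lit 380) (nat_lit 0) (XT.nd (nat_lit 78) (nat_lit 228) (nat_lit 0) (XT.lf (nat_lit 228) (nat_lit 508629534) (nat_lit 0) (nat_lit 4767398801) (nat_lit 152) (nat_lit 4767398801) (nat_lit 163) (nat_lit 1) (nat_lit 160) (nat_lit 1) (nat_lit 162) (nat_lit 1) (nat_lit 294) (nat_lit 407) (nat_lit 319)) (XT.lf (nat_lit 228) (nat_lit 7607688427) (nat_lit 0) (nat_lit 1165413254) (nat_lit 152) (nat_lit 1165413254) (nat_lit 160) (nat_lit 1) (nat_lit 157) (nat_lit 1) (nat_lit 159) (nat_lit 1) (nat_lit 295) (nat_lit 407) (nat_lit 318))) (XT.nd (nat_lit 78) (nat_lit 380) (nat_lit 0) (XT.lf (nat_lit 76) (nat_lit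 2341624270) (nat_lit 0) (nat_lit 5151073591) (nat_lit 228) (nat_lit 2341624270) (nat_lit 158) (nat_lit 1) (nat_lit 157) (nat_lit 1) (nat_lit 160) (nat_lit 1) (nat_lit 296) (nat_lit 407) (nat_lit 317)) (XT.nd (nat_lit 78) (nat_lit 228) (nat_lit 0) (XT.lf (nat_lit 228) (nat_lit 1793485792) (nat_lit 0) (nat_lit 3969103691) (nat_lit 152) (nat_lit 3969103691) (nat_lit 158) (nat_lit 1) (nat_lit 155) (nat_lit 1) (nat_lit 157) (nat_lit 1) (nat_lit 297) (nat_lit 407) (nat_lit 316)) (XT.lf (nat_lit 228) (nat_lit 8611169564) (nat_lit 0) (nat_lit 509884831) (nat_lit 152) (nat_lit 509884831) (nat_lit 155) (nat_lit 1) (nat_lit 152) (nat_lit 1) (nat_lit 154) (nat_lit 1) (nat_lit 298) (nat_lit 407) (nat_lit 315))))))) (XT.nd (nat_lit 702) (nat_lit 988) (nat_lit 0) (XT.nd (nat_lit 312) (nat_lit 456) (nat_lit 0) (XT.nd (nat_lit 156) (nat_lit 152) (nat_lit 0) (XT.nd (nat_lit 78) (nat_lit 152) (nat_lit 0) (XT.lf (nat_lit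 76) (nat_lit 2865125502) (nat_lit 0) (nat_lit 3799883444) (nat_lit 228) (nat_lit 2865125502) (nat_lit 153) (nat_lit 1) (nat_lit 152) (nat_lit 1) (nat_lit 155) (nat_lit 1) (nat_lit 299) (nat_lit 407) (nat_lit 314)) (XT.lf (nat_lit 228) (nat_lit 2895988935) (nat_lit 0) (nat_lit 3267595867) (nat_lit 152) (nat_lit 3267595867) (nat_lit 153) (nat_lit 1) (nat_lit 150) (nat_lit 1) (nat_lit 152) (nat_lit 1) (nat_lit 300) (nat_lit 407) (nat_lit 313))) (XT.nd (nat_lit 78) (nat_lit 152) (nat_lit 0) (XT.lf (nat_lit 76) (nat_lit 57802515) (nat_lit 0) (nat_lit 9218668869) (nat_lit 228) (nat_lit 57802515) (nat_lit 151) (nat_lit 1) (nat_lit 150) (nat_lit 1) (nat_lit 153) (nat_lit 1) (nat_lit 301) (nat_lit 407) (nat_lit 312)) (XT.lf (nat_lit 76) (nat_lit 3307396479) (nat_lit 0) (nat_lit 2621993121) (nat_lit 152) (nat_lit 3307396479) (nat_lit 149) (nat_lit 1) (nat_lit 148) (nat_lit 1) (nat_lit 150) (nat_lit 1) (nat_lit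 302) (nat_lit 407) (nat_lit 311)))) (XT.nd (nat_lit 156) (nat_lit 304) (nat_lit 0) (XT.nd (nat_lit 78) (nat_lit 0) (nat_lit 0) (XT.lf (nat_lit 228) (nat_lit 3837611803) (nat_lit 0) (nat_lit 2651856067) (nat_lit 152) (nat_lit 2651856067) (nat_lit 149) (nat_lit 1) (nat_lit 146) (nat_lit 1) (nat_lit 148) (nat_lit 1) (nat_lit 303) (nat_lit 407) (nat_lit 310)) (XT.lf (nat_lit 76) (nat_lit 551661631) (nat_lit 0) (nat_lit 7944212300) (nat_lit 228) (nat_lit 551661631) (nat_lit 147) (nat_lit 1) (nat_lit 146) (nat_lit 1) (nat_lit 149) (nat_lit 1) (nat_lit 304) (nat_lit 407) (nat_lit 309))) (XT.nd (nat_lit 78) (nat_lit 152) (nat_lit 0) (XT.lf (nat_lit 76) (nat_lit 3678161050) (nat_lit 0) (nat_lit 1597418479) (nat_lit 152) (nat_lit 3678161050) (nat_lit 145) (nat_lit 1) (nat_lit 144) (nat_lit 1) (nat_lit 146) (nat_lit 1) (nat_lit 305) (nat_lit 407) (nat_lit 308)) (XT.nd (nat_lit 78) (nat_lit 0) (nat_lit 0) (XT.lf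 (nat_lit 228) (nat_lit 4637399590) (nat_lit 0) (nat_lit 2112100411) (nat_lit 152) (nat_lit 2112100411) (nat_lit 145) (nat_lit 1) (nat_lit 142) (nat_lit 1) (nat_lit 144) (nat_lit 1) (nat_lit 306) (nat_lit 407) (nat_lit 307)) (XT.lf (nat_lit 76) (nat_lit 975877074) (nat_lit 0) (nat_lit 6819052463) (nat_lit 228) (nat_lit 975877074) (nat_lit 143) (nat_lit 1) (nat_lit 142) (nat_lit 1) (nat_lit 145) (nat_lit 1) (nat_lit 307) (nat_lit 407) (nat_lit 306)))))) (XT.nd (nat_lit 390) (nat_lit 380) (nat_lit 0) (XT.nd (nat_lit 156) (nat_lit 304) (nat_lit 0) (XT.nd (nat_lit 78) (nat_lit 152) (nat_lit 0) (XT.lf (nat_lit 76) (nat_lit 3986039343) (nat_lit 0) (nat_lit 708423057) (nat_lit 152) (nat_lit 3986039343) (nat_lit 141) (nat_lit 1) (nat_lit 140) (nat_lit 1) (nat_lit 142) (nat_lit 1) (nat_lit 308) (nat_lit 407) (nat_lit 305)) (XT.lf (nat_lit 228) (nat_lit 5312241517) (nat_lit 0) (nat_lit 1639642444) (nat_lit 152)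 (nat_lit 1639642444) (nat_lit 141) (nat_lit 1) (nat_lit 138) (nat_lit 1) (nat_lit 140) (nat_lit 1) (nat_lit 309) (nat_lit 407) (nat_lit 304))) (XT.nd (nat_lit 78) (nat_lit 304) (nat_lit 0) (XT.lf (nat_lit 76) (nat_lit 1338639441) (nat_lit 0) (nat_lit 5826331763) (nat_lit 228) (nat_lit 1338639441) (nat_lit 139) (nat_lit 1) (nat_lit 138) (nat_lit 1) (nat_lit 141) (nat_lit 1) (nat_lit 310) (nat_lit 407) (nat_lit 303)) (XT.nd (nat_lit 78) (nat_lit 228) (nat_lit 0) (XT.lf (nat_lit 152) (nat_lit 61941833) (nat_lit 0) (nat_lit 4177324995) (nat_lit 76) (nat_lit 4177324995) (nat_lit 139) (nat_lit 1) (nat_lit 137) (nat_lit 1) (nat_lit 138) (nat_lit 1) (nat_lit 311) (nat_lit 407) (nat_lit 302)) (XT.lf (nat_lit 228) (nat_lit 5877112197) (nat_lit 0) (nat_lit 1226770574) (nat_lit 152) (nat_lit 1226770574) (nat_lit 137) (nat_lit 1) (nat_lit 134) (nat_lit 1) (nat_lit 136) (nat_lit 1) (nat_lit 312) (nat_lit 407) (nat_lit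 301))))) (XT.nd (nat_lit 156) (nat_lit 304) (nat_lit 0) (XT.nd (nat_lit 78) (nat_lit 76) (nat_lit 0) (XT.lf (nat_lit 76) (nat_lit 1647213612) (nat_lit 0) (nat_lit 4951078531) (nat_lit 228) (nat_lit 1647213612) (nat_lit 135) (nat_lit 1) (nat_lit 134) (nat_lit 1) (nat_lit 137) (nat_lit 1) (nat_lit 313) (nat_lit 407) (nat_lit 300)) (XT.lf (nat_lit 152) (nat_lit 738426100) (nat_lit 0) (nat_lit 3711499153) (nat_lit 76) (nat_lit 3711499153) (nat_lit 135) (nat_lit 1) (nat_lit 133) (nat_lit 1) (nat_lit 134) (nat_lit 1) (nat_lit 314) (nat_lit 407) (nat_lit 299))) (XT.nd (nat_lit 78) (nat_lit 76) (nat_lit 0) (XT.lf (nat_lit 228) (nat_lit 6345286041) (nat_lit 0) (nat_lit 866639183) (nat_lit 152) (nat_lit 866639183) (nat_lit 133) (nat_lit 1) (nat_lit 130) (nat_lit 1) (nat_lit 132) (nat_lit 1) (nat_lit 315) (nat_lit 407) (nat_lit 298)) (XT.nd (nat_lit 78) (nat_lit 76) (nat_lit 0) (XT.lf (nat_lit 76) (nat_lit 1908042335)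 (nat_lit 0) (nat_lit 4179996550) (nat_lit 228) (nat_lit 1908042335) (nat_lit 131) (nat_lit 1) (nat_lit 130) (nat_lit 1) (nat_lit 133) (nat_lit 1) (nat_lit 316) (nat_lit 407) (nat_lit 297)) (XT.lf (nat_lit 152) (nat_lit 1319569000) (nat_lit 0) (nat_lit 3297618926) (nat_lit 76) (nat_lit 3297618926) (nat_lit 131) (nat_lit 1) (nat_lit 129) (nat_lit 1) (nat_lit 130) (nat_lit 1) (nat_lit 317) (nat_lit 407) (nat_lit 296))))))))
noncomputable def ec344 : XT := (XT.nd (nat_lit 1404) (nat_lit 1368) (nat_lit 0) (XT.nd (nat_lit 702) (nat_lit 684) (nat_lit 0) (XT.nd (nat_lit 312) (nat_lit 380) (nat_lit 0) (XT.nd (nat_lit 156) (nat_lit 304) (nat_lit 0) (XT.nd (nat_lit 78) (nat_lit 0) (nat_lit 0) (XT.lf (nat_lit 228) (nat_lit 6728527739) (nat_lit 0) (nat_lit 553171881) (nat_lit 152) (nat_lit 553171881) (nat_lit 129) (nat_lit 1) (nat_lit 126) (nat_lit 1) (nat_lit 128) (nat_lit 1) (nat_lit 318) (nat_lit 407) (nat_lit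 295)) (XT.lf (nat_lit 76) (nat_lit 2126838256) (nat_lit 0) (nat_lit 3501278039) (nat_lit 228) (nat_lit 2126838256) (nat_lit 127) (nat_lit 1) (nat_lit 126) (nat_lit 1) (nat_lit 129) (nat_lit 1) (nat_lit 319) (nat_lit 407) (nat_lit 294))) (XT.nd (nat_lit 78) (nat_lit 228) (nat_lit 0) (XT.lf (nat_lit 152) (nat_lit 1816582076) (nat_lit 0) (nat_lit 2929891704) (nat_lit 76) (nat_lit 2929891704) (nat_lit 127) (nat_lit 1) (nat_lit 125) (nat_lit 1) (nat_lit 126) (nat_lit 1) (nat_lit 320) (nat_lit 407) (nat_lit 293)) (XT.lf (nat_lit 228) (nat_lit 7037261472) (nat_lit 0) (nat_lit 280975558) (nat_lit 152) (nat_lit 280975558) (nat_lit 125) (nat_lit 1) (nat_lit 122) (nat_lit 1) (nat_lit 124) (nat_lit 1) (nat_lit 321) (nat_lit 407) (nat_lit 292)))) (XT.nd (nat_lit 156) (nat_lit 304) (nat_lit 0) (XT.nd (nat_lit 78) (nat_lit 76) (nat_lit 0) (XT.lf (nat_lit 76) (nat_lit 2308665675) (nat_lit 0) (nat_lit 2904437513) (nat_lit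 228) (nat_lit 2308665675) (nat_lit 123) (nat_lit 1) (nat_lit 122) (nat_lit 1) (nat_lit 125) (nat_lit 1) (nat_lit 322) (nat_lit 407) (nat_lit 291)) (XT.lf (nat_lit 152) (nat_lit 2239409753) (nat_lit 0) (nat_lit 2603170831) (nat_lit 76) (nat_lit 2603170831) (nat_lit 123) (nat_lit 1) (nat_lit 121) (nat_lit 1) (nat_lit 122) (nat_lit 1) (nat_lit 323) (nat_lit 407) (nat_lit 290))) (XT.nd (nat_lit 78) (nat_lit 76) (nat_lit 0) (XT.lf (nat_lit 228) (nat_lit 7280721228) (nat_lit 0) (nat_lit 45264024) (nat_lit 152) (nat_lit 45264024) (nat_lit 121) (nat_lit 1) (nat_lit 118) (nat_lit 1) (nat_lit 120) (nat_lit 1) (nat_lit 324) (nat_lit 407) (nat_lit 289)) (XT.nd (nat_lit 78) (nat_lit 76) (nat_lit 0) (XT.lf (nat_lit 76) (nat_lit 2458013173) (nat_lit 0) (nat_lit 2380164164) (nat_lit 228) (nat_lit 2458013173) (nat_lit 119) (nat_lit 1) (nat_lit 118) (nat_lit 1) (nat_lit 121) (nat_lit 1) (nat_lit 325) (nat_lit 407) (nat_lit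 288)) (XT.lf (nat_lit 152) (nat_lit 2596871131) (nat_lit 0) (nat_lit 2312883567) (nat_lit 76) (nat_lit 2312883567) (nat_lit 119) (nat_lit 1) (nat_lit 117) (nat_lit 1) (nat_lit 118) (nat_lit 1) (nat_lit 326) (nat_lit 407) (nat_lit 287)))))) (XT.nd (nat_lit 312) (nat_lit 456) (nat_lit 0) (XT.nd (nat_lit 156) (nat_lit 76) (nat_lit 0) (XT.nd (nat_lit 78) (nat_lit 152) (nat_lit 0) (XT.lf (nat_lit 0) (nat_lit 159776265) (nat_lit 0) (nat_lit 6830926907) (nat_lit 152) (nat_lit 159776265) (nat_lit 117) (nat_lit 3) (nat_lit 117) (nat_lit 1) (nat_lit 119) (nat_lit 1) (nat_lit 327) (nat_lit 407) (nat_lit 286)) (XT.lf (nat_lit 76) (nat_lit 2578858133) (nat_lit 0) (nat_lit 1920190714) (nat_lit 152) (nat_lit 2578858133) (nat_lit 116) (nat_lit 1) (nat_lit 115) (nat_lit 1) (nat_lit 117) (nat_lit 1) (nat_lit 328) (nat_lit 407) (nat_lit 285))) (XT.nd (nat_lit 78) (nat_lit 0) (nat_lit 0) (XT.lf (nat_lit 152) (nat_lit 2896785948)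 (nat_lit 0) (nat_lit 2054967092) (nat_lit 76) (nat_lit 2054967092) (nat_lit 116) (nat_lit 1) (nat_lit 114) (nat_lit 1) (nat_lit 115) (nat_lit 1) (nat_lit 329) (nat_lit 407) (nat_lit 284)) (XT.lf (nat_lit 0) (nat_lit 336513459) (nat_lit 0) (nat_lit 6263744400) (nat_lit 152) (nat_lit 336513459) (nat_lit 114) (nat_lit 3) (nat_lit 114) (nat_lit 1) (nat_lit 116) (nat_lit 1) (nat_lit 330) (nat_lit 407) (nat_lit 283)))) (XT.nd (nat_lit 156) (nat_lit 228) (nat_lit 0) (XT.nd (nat_lit 78) (nat_lit 76) (nat_lit 0) (XT.lf (nat_lit 76) (nat_lit 2674724054) (nat_lit 0) (nat_lit 1517176892) (nat_lit 152) (nat_lit 2674724054) (nat_lit 113) (nat_lit 1) (nat_lit 112) (nat_lit 1) (nat_lit 114) (nat_lit 1) (nat_lit 331) (nat_lit 407) (nat_lit 282)) (XT.lf (nat_lit 152) (nat_lit 3146086487) (nat_lit 0) (nat_lit 1825811646) (nat_lit 76) (nat_lit 1825811646) (nat_lit 113) (nat_lit 1) (nat_lit 111) (nat_lit 1) (nat_lit 112)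 (nat_lit 1) (nat_lit 332) (nat_lit 407) (nat_lit 281))) (XT.nd (nat_lit 78) (nat_lit 228) (nat_lit 0) (XT.lf (nat_lit 0) (nat_lit 487875537) (nat_lit 0) (nat_lit 5754143458) (nat_lit 152) (nat_lit 487875537) (nat_lit 111) (nat_lit 3) (nat_lit 111) (nat_lit 1) (nat_lit 113) (nat_lit 1) (nat_lit 333) (nat_lit 407) (nat_lit 280)) (XT.nd (nat_lit 78) (nat_lit 76) (nat_lit 0) (XT.lf (nat_lit 76) (nat_lit 2748731470) (nat_lit 0) (nat_lit 1164605913) (nat_lit 152) (nat_lit 2748731470) (nat_lit 110) (nat_lit 1) (nat_lit 109) (nat_lit 1) (nat_lit 111) (nat_lit 1) (nat_lit 334) (nat_lit 407) (nat_lit 279)) (XT.lf (nat_lit 152) (nat_lit 3350916991) (nat_lit 0) (nat_lit 1622209999) (nat_lit 76) (nat_lit 1622209999) (nat_lit 110) (nat_lit 1) (nat_lit 108) (nat_lit 1) (nat_lit 109) (nat_lit 1) (nat_lit 335) (nat_lit 407) (nat_lit 278))))))) (XT.nd (nat_lit 702) (nat_lit 684) (nat_lit 0) (XT.nd (nat_lit 312) (nat_lit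 456) (nat_lit 0) (XT.nd (nat_lit 156) (nat_lit 76) (nat_lit 0) (XT.nd (nat_lit 78) (nat_lit 152) (nat_lit 0) (XT.lf (nat_lit 0) (nat_lit 616857200) (nat_lit 0) (nat_lit 5295868038) (nat_lit 152) (nat_lit 616857200) (nat_lit 108) (nat_lit 3) (nat_lit 108) (nat_lit 1) (nat_lit 110) (nat_lit 1) (nat_lit 336) (nat_lit 407) (nat_lit 277)) (XT.lf (nat_lit 76) (nat_lit 2803643175) (nat_lit 0) (nat_lit 856692509) (nat_lit 152) (nat_lit 2803643175) (nat_lit 107) (nat_lit 1) (nat_lit 106) (nat_lit 1) (nat_lit 108) (nat_lit 1) (nat_lit 337) (nat_lit 407) (nat_lit 276))) (XT.nd (nat_lit 78) (nat_lit 0) (nat_lit 0) (XT.lf (nat_lit 152) (nat_lit 3516721971) (nat_lit 0) (nat_lit 1441312573) (nat_lit 76) (nat_lit 1441312573) (nat_lit 107) (nat_lit 1) (nat_lit 105) (nat_lit 1) (nat_lit 106) (nat_lit 1) (nat_lit 338) (nat_lit 407) (nat_lit 275)) (XT.lf (nat_lit 0) (nat_lit 726114394) (nat_lit 0) (nat_lit 4883354920)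 (nat_lit 152) (nat_lit 726114394) (nat_lit 105) (nat_lit 3) (nat_lit 105) (nat_lit 1) (nat_lit 107) (nat_lit 1) (nat_lit 339) (nat_lit 407) (nat_lit 274)))) (XT.nd (nat_lit 156) (nat_lit 228) (nat_lit 0) (XT.nd (nat_lit 78) (nat_lit 76) (nat_lit 0) (XT.lf (nat_lit 76) (nat_lit 2841904400) (nat_lit 0) (nat_lit 588301207) (nat_lit 152) (nat_lit 2841904400) (nat_lit 104) (nat_lit 1) (nat_lit 103) (nat_lit 1) (nat_lit 105) (nat_lit 1) (nat_lit 340) (nat_lit 407) (nat_lit 273)) (XT.lf (nat_lit 152) (nat_lit 3648324667) (nat_lit 0) (nat_lit 1280587553) (nat_lit 76) (nat_lit 1280587553) (nat_lit 104) (nat_lit 1) (nat_lit 102) (nat_lit 1) (nat_lit 103) (nat_lit 1) (nat_lit 341) (nat_lit 407) (nat_lit 272))) (XT.nd (nat_lit 78) (nat_lit 228) (nat_lit 0) (XT.lf (nat_lit 0) (nat_lit 818002225) (nat_lit 0) (nat_lit 4511656588) (nat_lit 152) (nat_lit 818002225) (nat_lit 102) (nat_lit 3) (nat_lit 102) (nat_lit 1)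 (nat_lit 104) (nat_lit 1) (nat_lit 342) (nat_lit 407) (nat_lit 271)) (XT.nd (nat_lit 78) (nat_lit 76) (nat_lit 0) (XT.lf (nat_lit 76) (nat_lit 2865678506) (nat_lit 0) (nat_lit 354873739) (nat_lit 152) (nat_lit 2865678506) (nat_lit 101) (nat_lit 1) (nat_lit 100) (nat_lit 1) (nat_lit 102) (nat_lit 1) (nat_lit 343) (nat_lit 407) (nat_lit 270)) (XT.lf (nat_lit 152) (nat_lit 3749996731) (nat_lit 0) (nat_lit 1137785455) (nat_lit 76) (nat_lit 1137785455) (nat_lit 101) (nat_lit 1) (nat_lit 99) (nat_lit 1) (nat_lit 100) (nat_lit 1) (nat_lit 344) (nat_lit 407) (nat_lit 269)))))) (XT.nd (nat_lit 390) (nat_lit 380) (nat_lit 0) (XT.nd (nat_lit 156) (nat_lit 152) (nat_lit 0) (XT.nd (nat_lit 78) (nat_lit 152) (nat_lit 0) (XT.lf (nat_lit 0) (nat_lit 894608646) (nat_lit 0) (nat_lit 4176372707) (nat_lit 152) (nat_lit 894608646) (nat_lit 99) (nat_lit 3) (nat_lit 99) (nat_lit 1) (nat_lit 101) (nat_lit 1) (nat_lit 345)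 (nat_lit 407) (nat_lit 268)) (XT.lf (nat_lit 76) (nat_lit 2876878678) (nat_lit 0) (nat_lit 152364542) (nat_lit 152) (nat_lit 2876878678) (nat_lit 98) (nat_lit 1) (nat_lit 97) (nat_lit 1) (nat_lit 99) (nat_lit 1) (nat_lit 346) (nat_lit 407) (nat_lit 267))) (XT.nd (nat_lit 78) (nat_lit 76) (nat_lit 0) (XT.lf (nat_lit 152) (nat_lit 3825520145) (nat_lit 0) (nat_lit 1010907640) (nat_lit 76) (nat_lit 1010907640) (nat_lit 98) (nat_lit 1) (nat_lit 96) (nat_lit 1) (nat_lit 97) (nat_lit 1) (nat_lit 347) (nat_lit 407) (nat_lit 266)) (XT.nd (nat_lit 78) (nat_lit 76) (nat_lit 0) (XT.lf (nat_lit 0) (nat_lit 957784373) (nat_lit 0) (nat_lit 3873589236) (nat_lit 152) (nat_lit 957784373) (nat_lit 96) (nat_lit 3) (nat_lit 96) (nat_lit 1) (nat_lit 98) (nat_lit 1) (nat_lit 348) (nat_lit 407) (nat_lit 265)) (XT.lf (nat_lit 76) (nat_lit 23270635) (nat_lit 0) (nat_lit 2854149142) (nat_lit 76) (nat_lit 2854149142) (nat_lit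 96) (nat_lit 3) (nat_lit 95) (nat_lit 1) (nat_lit 96) (nat_lit 1) (nat_lit 349) (nat_lit 407) (nat_lit 264))))) (XT.nd (nat_lit 156) (nat_lit 228) (nat_lit 0) (XT.nd (nat_lit 78) (nat_lit 0) (nat_lit 0) (XT.lf (nat_lit 152) (nat_lit 3878242207) (nat_lit 0) (nat_lit 898178344) (nat_lit 76) (nat_lit 898178344) (nat_lit 95) (nat_lit 1) (nat_lit 93) (nat_lit 1) (nat_lit 94) (nat_lit 1) (nat_lit 350) (nat_lit 407) (nat_lit 263)) (XT.lf (nat_lit 0) (nat_lit 1009169474) (nat_lit 0) (nat_lit 3599824329) (nat_lit 152) (nat_lit 1009169474) (nat_lit 93) (nat_lit 3) (nat_lit 93) (nat_lit 1) (nat_lit 95) (nat_lit 1) (nat_lit 351) (nat_lit 407) (nat_lit 262))) (XT.nd (nat_lit 78) (nat_lit 152) (nat_lit 0) (XT.lf (nat_lit 76) (nat_lit 177315235) (nat_lit 0) (nat_lit 2692514123) (nat_lit 76) (nat_lit 2692514123) (nat_lit 93) (nat_lit 3) (nat_lit 92) (nat_lit 1) (nat_lit 93) (nat_lit 1) (nat_lit 352) (nat_lit 407) (nat_lit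 261)) (XT.nd (nat_lit 78) (nat_lit 0) (nat_lit 0) (XT.lf (nat_lit 152) (nat_lit 3911124384) (nat_lit 0) (nat_lit 798019826) (nat_lit 76) (nat_lit 798019826) (nat_lit 92) (nat_lit 1) (nat_lit 90) (nat_lit 1) (nat_lit 91) (nat_lit 1) (nat_lit 353) (nat_lit 407) (nat_lit 260)) (XT.lf (nat_lit 0) (nat_lit 1050216982) (nat_lit 0) (nat_lit 3351980266) (nat_lit 152) (nat_lit 1050216982) (nat_lit 90) (nat_lit 3) (nat_lit 90) (nat_lit 1) (nat_lit 92) (nat_lit 1) (nat_lit 354) (nat_lit 407) (nat_lit 259))))))))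
noncomputable def ec345 : XT := (XT.nd (nat_lit 1482) (nat_lit 1520) (nat_lit 0) (XT.nd (nat_lit 702) (nat_lit 760) (nat_lit 0) (XT.nd (nat_lit 312) (nat_lit 380) (nat_lit 0) (XT.nd (nat_lit 156) (nat_lit 76) (nat_lit 0) (XT.nd (nat_lit 78) (nat_lit 152) (nat_lit 0) (XT.lf (nat_lit 76) (nat_lit 309619549) (nat_lit 0) (nat_lit 2544341184) (nat_lit 76) (nat_lit 2544341184) (nat_lit 90) (nat_lit 3) (nat_lit 89) (nat_lit 1) (nat_lit 90) (nat_lit 1) (nat_lit 355) (nat_lit 407) (nat_lit 258)) (XT.lf (nat_lit 152) (nat_lit 3926785702) (nat_lit 0) (nat_lit 709030279) (nat_lit 76) (nat_lit 709030279) (nat_lit 89) (nat_lit 1) (nat_lit 87) (nat_lit 1) (nat_lit 88) (nat_lit 1) (nat_lit 356) (nat_lit 407) (nat_lit 257))) (XT.nd (nat_lit 78) (nat_lit 76) (nat_lit 0) (XT.lf (nat_lit 0) (nat_lit 1082213871) (nat_lit 0) (nat_lit 3127300736) (nat_lit 152) (nat_lit 1082213871) (nat_lit 87) (nat_lit 3) (nat_lit 87) (nat_lit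 1) (nat_lit 89) (nat_lit 1) (nat_lit 357) (nat_lit 407) (nat_lit 256)) (XT.lf (nat_lit 76) (nat_lit 422740784) (nat_lit 0) (nat_lit 2408262012) (nat_lit 76) (nat_lit 2408262012) (nat_lit 87) (nat_lit 3) (nat_lit 86) (nat_lit 1) (nat_lit 87) (nat_lit 1) (nat_lit 358) (nat_lit 407) (nat_lit 255)))) (XT.nd (nat_lit 156) (nat_lit 228) (nat_lit 0) (XT.nd (nat_lit 78) (nat_lit 0) (nat_lit 0) (XT.lf (nat_lit 152) (nat_lit 3927541289) (nat_lit 0) (nat_lit 629964219) (nat_lit 76) (nat_lit 629964219) (nat_lit 86) (nat_lit 1) (nat_lit 84) (nat_lit 1) (nat_lit 85) (nat_lit 1) (nat_lit 359) (nat_lit 407) (nat_lit 254)) (XT.lf (nat_lit 0) (nat_lit 1106299691) (nat_lit 0) (nat_lit 2923332883) (nat_lit 152) (nat_lit 1106299691) (nat_lit 84) (nat_lit 3) (nat_lit 84) (nat_lit 1) (nat_lit 86) (nat_lit 1) (nat_lit 360) (nat_lit 407) (nat_lit 253))) (XT.nd (nat_lit 78) (nat_lit 152) (nat_lit 0) (XT.lf (nat_lit 76) (nat_lit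 518947114) (nat_lit 0) (nat_lit 2283057009) (nat_lit 76) (nat_lit 2283057009) (nat_lit 84) (nat_lit 3) (nat_lit 83) (nat_lit 1) (nat_lit 84) (nat_lit 1) (nat_lit 361) (nat_lit 407) (nat_lit 252)) (XT.nd (nat_lit 78) (nat_lit 0) (nat_lit 0) (XT.lf (nat_lit 152) (nat_lit 3915436606) (nat_lit 0) (nat_lit 559715050) (nat_lit 76) (nat_lit 559715050) (nat_lit 83) (nat_lit 1) (nat_lit 81) (nat_lit 1) (nat_lit 82) (nat_lit 1) (nat_lit 362) (nat_lit 407) (nat_lit 251)) (XT.lf (nat_lit 0) (nat_lit 1123483125) (nat_lit 0) (nat_lit 2737893581) (nat_lit 152) (nat_lit 1123483125) (nat_lit 81) (nat_lit 3) (nat_lit 81) (nat_lit 1) (nat_lit 83) (nat_lit 1) (nat_lit 363) (nat_lit 407) (nat_lit 250)))))) (XT.nd (nat_lit 390) (nat_lit 304) (nat_lit 0) (XT.nd (nat_lit 156) (nat_lit 228) (nat_lit 0) (XT.nd (nat_lit 78) (nat_lit 152) (nat_lit 0) (XT.lf (nat_lit 76) (nat_lit 600250025) (nat_lit 0) (nat_lit 2167638818) (nat_lit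 76) (nat_lit 2167638818) (nat_lit 81) (nat_lit 3) (nat_lit 80) (nat_lit 1) (nat_lit 81) (nat_lit 1) (nat_lit 364) (nat_lit 407) (nat_lit 249)) (XT.lf (nat_lit 152) (nat_lit 3892277858) (nat_lit 0) (nat_lit 497299572) (nat_lit 76) (nat_lit 497299572) (nat_lit 80) (nat_lit 1) (nat_lit 78) (nat_lit 1) (nat_lit 79) (nat_lit 1) (nat_lit 365) (nat_lit 407) (nat_lit 248))) (XT.nd (nat_lit 78) (nat_lit 228) (nat_lit 0) (XT.lf (nat_lit 0) (nat_lit 1134656689) (nat_lit 0) (nat_lit 2569039470) (nat_lit 152) (nat_lit 1134656689) (nat_lit 78) (nat_lit 3) (nat_lit 78) (nat_lit 1) (nat_lit 80) (nat_lit 1) (nat_lit 366) (nat_lit 407) (nat_lit 247)) (XT.nd (nat_lit 78) (nat_lit 152) (nat_lit 0) (XT.lf (nat_lit 76) (nat_lit 668433048) (nat_lit 0) (nat_lit 2061037689) (nat_lit 76) (nat_lit 2061037689) (nat_lit 78) (nat_lit 3) (nat_lit 77) (nat_lit 1) (nat_lit 78) (nat_lit 1) (nat_lit 367) (nat_lit 407) (nat_lit 246))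 (XT.lf (nat_lit 152) (nat_lit 3859658995) (nat_lit 0) (nat_lit 441844229) (nat_lit 76) (nat_lit 441844229) (nat_lit 77) (nat_lit 1) (nat_lit 75) (nat_lit 1) (nat_lit 76) (nat_lit 1) (nat_lit 368) (nat_lit 407) (nat_lit 245))))) (XT.nd (nat_lit 156) (nat_lit 228) (nat_lit 0) (XT.nd (nat_lit 78) (nat_lit 76) (nat_lit 0) (XT.lf (nat_lit 0) (nat_lit 1140609796) (nat_lit 0) (nat_lit 2415040318) (nat_lit 152) (nat_lit 1140609796) (nat_lit 75) (nat_lit 3) (nat_lit 75) (nat_lit 1) (nat_lit 77) (nat_lit 1) (nat_lit 369) (nat_lit 407) (nat_lit 244)) (XT.lf (nat_lit 76) (nat_lit 725077286) (nat_lit 0) (nat_lit 1962388472) (nat_lit 76) (nat_lit 1962388472) (nat_lit 75) (nat_lit 3) (nat_lit 74) (nat_lit 1) (nat_lit 75) (nat_lit 1) (nat_lit 370) (nat_lit 407) (nat_lit 243))) (XT.nd (nat_lit 78) (nat_lit 76) (nat_lit 0) (XT.lf (nat_lit 152) (nat_lit 3818985697) (nat_lit 0) (nat_lit 392572874) (nat_lit 76) (nat_lit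 392572874) (nat_lit 74) (nat_lit 1) (nat_lit 72) (nat_lit 1) (nat_lit 73) (nat_lit 1) (nat_lit 371) (nat_lit 407) (nat_lit 242)) (XT.nd (nat_lit 78) (nat_lit 76) (nat_lit 0) (XT.lf (nat_lit 0) (nat_lit 1142040354) (nat_lit 0) (nat_lit 2274355366) (nat_lit 152) (nat_lit 1142040354) (nat_lit 72) (nat_lit 3) (nat_lit 72) (nat_lit 1) (nat_lit 74) (nat_lit 1) (nat_lit 372) (nat_lit 407) (nat_lit 241)) (XT.lf (nat_lit 76) (nat_lit 771584088) (nat_lit 0) (nat_lit 1870919051) (nat_lit 76) (nat_lit 1870919051) (nat_lit 72) (nat_lit 3) (nat_lit 71) (nat_lit 1) (nat_lit 72) (nat_lit 1) (nat_lit 373) (nat_lit 407) (nat_lit 240))))))) (XT.nd (nat_lit 702) (nat_lit 836) (nat_lit 0) (XT.nd (nat_lit 312) (nat_lit 304) (nat_lit 0) (XT.nd (nat_lit 156) (nat_lit 228) (nat_lit 0) (XT.nd (nat_lit 78) (nat_lit 0) (nat_lit 0) (XT.lf (nat_lit 152) (nat_lit 3771496678) (nat_lit 0) (nat_lit 348795914) (nat_lit 76) (nat_lit 348795914)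 (nat_lit 71) (nat_lit 1) (nat_lit 69) (nat_lit 1) (nat_lit 70) (nat_lit 1) (nat_lit 374) (nat_lit 407) (nat_lit 239)) (XT.lf (nat_lit 0) (nat_lit 1139565076) (nat_lit 0) (nat_lit 2145612298) (nat_lit 152) (nat_lit 1139565076) (nat_lit 69) (nat_lit 3) (nat_lit 69) (nat_lit 1) (nat_lit 71) (nat_lit 1) (nat_lit 375) (nat_lit 407) (nat_lit 238))) (XT.nd (nat_lit 78) (nat_lit 152) (nat_lit 0) (XT.lf (nat_lit 76) (nat_lit 809195197) (nat_lit 0) (nat_lit 1785940073) (nat_lit 76) (nat_lit 1785940073) (nat_lit 69) (nat_lit 3) (nat_lit 68) (nat_lit 1) (nat_lit 69) (nat_lit 1) (nat_lit 376) (nat_lit 407) (nat_lit 237)) (XT.lf (nat_lit 152) (nat_lit 3718282601) (nat_lit 0) (nat_lit 309900652) (nat_lit 76) (nat_lit 309900652) (nat_lit 68) (nat_lit 1) (nat_lit 66) (nat_lit 1) (nat_lit 67) (nat_lit 1) (nat_lit 377) (nat_lit 407) (nat_lit 236)))) (XT.nd (nat_lit 156) (nat_lit 228) (nat_lit 0) (XT.nd (nat_lit 78) (nat_lit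 76) (nat_lit 0) (XT.lf (nat_lit 0) (nat_lit 1133728629) (nat_lit 0) (nat_lit 2027588556) (nat_lit 152) (nat_lit 1133728629) (nat_lit 66) (nat_lit 3) (nat_lit 66) (nat_lit 1) (nat_lit 68) (nat_lit 1) (nat_lit 378) (nat_lit 407) (nat_lit 235)) (XT.lf (nat_lit 76) (nat_lit 839010645) (nat_lit 0) (nat_lit 1706835817) (nat_lit 76) (nat_lit 1706835817) (nat_lit 66) (nat_lit 3) (nat_lit 65) (nat_lit 1) (nat_lit 66) (nat_lit 1) (nat_lit 379) (nat_lit 407) (nat_lit 234))) (XT.nd (nat_lit 78) (nat_lit 76) (nat_lit 0) (XT.lf (nat_lit 152) (nat_lit 3660302873) (nat_lit 0) (nat_lit 275342715) (nat_lit 76) (nat_lit 275342715) (nat_lit 65) (nat_lit 1) (nat_lit 63) (nat_lit 1) (nat_lit 64) (nat_lit 1) (nat_lit 380) (nat_lit 407) (nat_lit 233)) (XT.nd (nat_lit 78) (nat_lit 76) (nat_lit 0) (XT.lf (nat_lit 0) (nat_lit 1125011764) (nat_lit 0) (nat_lit 1919194732) (nat_lit 152) (nat_lit 1125011764) (nat_lit 63) (nat_lit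 3) (nat_lit 63) (nat_lit 1) (nat_lit 65) (nat_lit 1) (nat_lit 381) (nat_lit 407) (nat_lit 232)) (XT.lf (nat_lit 76) (nat_lit 862004647) (nat_lit 0) (nat_lit 1633056072) (nat_lit 76) (nat_lit 1633056072) (nat_lit 63) (nat_lit 3) (nat_lit 62) (nat_lit 1) (nat_lit 63) (nat_lit 1) (nat_lit 382) (nat_lit 407) (nat_lit 231)))))) (XT.nd (nat_lit 390) (nat_lit 456) (nat_lit 0) (XT.nd (nat_lit 156) (nat_lit 228) (nat_lit 0) (XT.nd (nat_lit 78) (nat_lit 0) (nat_lit 0) (XT.lf (nat_lit 152) (nat_lit 3598400571) (nat_lit 0) (nat_lit 244638436) (nat_lit 76) (nat_lit 244638436) (nat_lit 62) (nat_lit 1) (nat_lit 60) (nat_lit 1) (nat_lit 61) (nat_lit 1) (nat_lit 383) (nat_lit 407) (nat_lit 230)) (XT.lf (nat_lit 0) (nat_lit 1113838538) (nat_lit 0) (nat_lit 1819459819) (nat_lit 152) (nat_lit 1113838538) (nat_lit 60) (nat_lit 3) (nat_lit 60) (nat_lit 1) (nat_lit 62) (nat_lit 1) (nat_lit 384) (nat_lit 407) (nat_lit 229)))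 (XT.nd (nat_lit 78) (nat_lit 152) (nat_lit 0) (XT.lf (nat_lit 76) (nat_lit 879039728) (nat_lit 0) (nat_lit 1564108932) (nat_lit 76) (nat_lit 1564108932) (nat_lit 60) (nat_lit 3) (nat_lit 59) (nat_lit 1) (nat_lit 60) (nat_lit 1) (nat_lit 385) (nat_lit 407) (nat_lit 228)) (XT.nd (nat_lit 78) (nat_lit 0) (nat_lit 0) (XT.lf (nat_lit 152) (nat_lit 3533315675) (nat_lit 0) (nat_lit 217358082) (nat_lit 76) (nat_lit 217358082) (nat_lit 59) (nat_lit 1) (nat_lit 57) (nat_lit 1) (nat_lit 58) (nat_lit 1) (nat_lit 386) (nat_lit 407) (nat_lit 227)) (XT.lf (nat_lit 0) (nat_lit 1100582724) (nat_lit 0) (nat_lit 1727518092) (nat_lit 152) (nat_lit 1100582724) (nat_lit 57) (nat_lit 3) (nat_lit 57) (nat_lit 1) (nat_lit 59) (nat_lit 1) (nat_lit 387) (nat_lit 407) (nat_lit 226))))) (XT.nd (nat_lit 156) (nat_lit 228) (nat_lit 0) (XT.nd (nat_lit 78) (nat_lit 152) (nat_lit 0) (XT.lf (nat_lit 76) (nat_lit 890879261) (nat_lit 0)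 (nat_lit 1499554376) (nat_lit 76) (nat_lit 1499554376) (nat_lit 57) (nat_lit 3) (nat_lit 56) (nat_lit 1) (nat_lit 57) (nat_lit 1) (nat_lit 388) (nat_lit 407) (nat_lit 225)) (XT.lf (nat_lit 152) (nat_lit 3465696840) (nat_lit 0) (nat_lit 193119841) (nat_lit 76) (nat_lit 193119841) (nat_lit 56) (nat_lit 1) (nat_lit 54) (nat_lit 1) (nat_lit 55) (nat_lit 1) (nat_lit 389) (nat_lit 407) (nat_lit 224))) (XT.nd (nat_lit 78) (nat_lit 228) (nat_lit 0) (XT.lf (nat_lit 0) (nat_lit 1085573504) (nat_lit 0) (nat_lit 1642597458) (nat_lit 152) (nat_lit 1085573504) (nat_lit 54) (nat_lit 3) (nat_lit 54) (nat_lit 1) (nat_lit 56) (nat_lit 1) (nat_lit 390) (nat_lit 407) (nat_lit 223)) (XT.nd (nat_lit 78) (nat_lit 152) (nat_lit 0) (XT.lf (nat_lit 76) (nat_lit 898198614) (nat_lit 0) (nat_lit 1438998570) (nat_lit 76) (nat_lit 1438998570) (nat_lit 54) (nat_lit 3) (nat_lit 53) (nat_lit 1) (nat_lit 54) (nat_lit 1) (nat_lit 391)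 (nat_lit 407) (nat_lit 222)) (XT.lf (nat_lit 152) (nat_lit 3396111828) (nat_lit 0) (nat_lit 171584477) (nat_lit 76) (nat_lit 171584477) (nat_lit 53) (nat_lit 1) (nat_lit 51) (nat_lit 1) (nat_lit 52) (nat_lit 1) (nat_lit 392) (nat_lit 407) (nat_lit 221))))))))
noncomputable def ec346 : XT := (XT.nd (nat_lit 1482) (nat_lit 988) (nat_lit 0) (XT.nd (nat_lit 702) (nat_lit 684) (nat_lit 0) (XT.nd (nat_lit 312) (nat_lit 456) (nat_lit 0) (XT.nd (nat_lit 156) (nat_lit 152) (nat_lit 0) (XT.nd (nat_lit 78) (nat_lit 76) (nat_lit 0) (XT.lf (nat_lit 0) (nat_lit 1069100530) (nat_lit 0) (nat_lit 1564009099) (nat_lit 152) (nat_lit 1069100530) (nat_lit 51) (nat_lit 3) (nat_lit 51) (nat_lit 1) (nat_lit 53) (nat_lit 1) (nat_lit 393) (nat_lit 407) (nat_lit 220)) (XT.lf (nat_lit 76) (nat_lit 901595049) (nat_lit 0) (nat_lit 1382088805) (nat_lit 76) (nat_lit 1382088805) (nat_lit 51) (nat_lit 3) (nat_lit 50) (nat_lit 1) (nat_lit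 51) (nat_lit 1) (nat_lit 394) (nat_lit 407) (nat_lit 219))) (XT.nd (nat_lit 78) (nat_lit 0) (nat_lit 0) (XT.lf (nat_lit 152) (nat_lit 3325056784) (nat_lit 0) (nat_lit 152450585) (nat_lit 76) (nat_lit 152450585) (nat_lit 50) (nat_lit 1) (nat_lit 48) (nat_lit 1) (nat_lit 49) (nat_lit 1) (nat_lit 395) (nat_lit 407) (nat_lit 218)) (XT.lf (nat_lit 0) (nat_lit 1051418413) (nat_lit 0) (nat_lit 1491138267) (nat_lit 152) (nat_lit 1051418413) (nat_lit 48) (nat_lit 3) (nat_lit 48) (nat_lit 1) (nat_lit 50) (nat_lit 1) (nat_lit 396) (nat_lit 407) (nat_lit 217)))) (XT.nd (nat_lit 156) (nat_lit 228) (nat_lit 0) (XT.nd (nat_lit 78) (nat_lit 152) (nat_lit 0) (XT.lf (nat_lit 76) (nat_lit 901596508) (nat_lit 0) (nat_lit 1328508987) (nat_lit 76) (nat_lit 1328508987) (nat_lit 48) (nat_lit 3) (nat_lit 47) (nat_lit 1) (nat_lit 48) (nat_lit 1) (nat_lit 397) (nat_lit 407) (nat_lit 216)) (XT.lf (nat_lit 152) (nat_lit 3252964460)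 (nat_lit 0) (nat_lit 135450370) (nat_lit 76) (nat_lit 135450370) (nat_lit 47) (nat_lit 1) (nat_lit 45) (nat_lit 1) (nat_lit 46) (nat_lit 1) (nat_lit 398) (nat_lit 407) (nat_lit 215))) (XT.nd (nat_lit 78) (nat_lit 228) (nat_lit 0) (XT.lf (nat_lit 0) (nat_lit 1032750710) (nat_lit 0) (nat_lit 1423436104) (nat_lit 152) (nat_lit 1032750710) (nat_lit 45) (nat_lit 3) (nat_lit 45) (nat_lit 1) (nat_lit 47) (nat_lit 1) (nat_lit 399) (nat_lit 407) (nat_lit 214)) (XT.nd (nat_lit 78) (nat_lit 152) (nat_lit 0) (XT.lf (nat_lit 76) (nat_lit 898669425) (nat_lit 0) (nat_lit 1277975634) (nat_lit 76) (nat_lit 1277975634) (nat_lit 45) (nat_lit 3) (nat_lit 44) (nat_lit 1) (nat_lit 45) (nat_lit 1) (nat_lit 400) (nat_lit 407) (nat_lit 213)) (XT.lf (nat_lit 152) (nat_lit 3180211523) (nat_lit 0) (nat_lit 120345900) (nat_lit 76) (nat_lit 120345900) (nat_lit 44) (nat_lit 1) (nat_lit 42) (nat_lit 1) (nat_lit 43) (nat_lit 1) (nat_lit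 401) (nat_lit 407) (nat_lit 212)))))) (XT.nd (nat_lit 390) (nat_lit 380) (nat_lit 0) (XT.nd (nat_lit 156) (nat_lit 228) (nat_lit 0) (XT.nd (nat_lit 78) (nat_lit 76) (nat_lit 0) (XT.lf (nat_lit 0) (nat_lit 1013293462) (nat_lit 0) (nat_lit 1360412375) (nat_lit 152) (nat_lit 1013293462) (nat_lit 42) (nat_lit 3) (nat_lit 42) (nat_lit 1) (nat_lit 44) (nat_lit 1) (nat_lit 402) (nat_lit 407) (nat_lit 211)) (XT.lf (nat_lit 76) (nat_lit 893225665) (nat_lit 0) (nat_lit 1230234319) (nat_lit 76) (nat_lit 1230234319) (nat_lit 42) (nat_lit 3) (nat_lit 41) (nat_lit 1) (nat_lit 42) (nat_lit 1) (nat_lit 403) (nat_lit 407) (nat_lit 210))) (XT.nd (nat_lit 78) (nat_lit 76) (nat_lit 0) (XT.lf (nat_lit 152) (nat_lit 3107125031) (nat_lit 0) (nat_lit 106925773) (nat_lit 76) (nat_lit 106925773) (nat_lit 41) (nat_lit 1) (nat_lit 39) (nat_lit 1) (nat_lit 40) (nat_lit 1) (nat_lit 404) (nat_lit 407) (nat_lit 209)) (XT.nd (nat_lit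 78) (nat_lit 76) (nat_lit 0) (XT.lf (nat_lit 0) (nat_lit 993218342) (nat_lit 0) (nat_lit 1301629000) (nat_lit 152) (nat_lit 993218342) (nat_lit 39) (nat_lit 3) (nat_lit 39) (nat_lit 1) (nat_lit 41) (nat_lit 1) (nat_lit 405) (nat_lit 407) (nat_lit 208)) (XT.lf (nat_lit 76) (nat_lit 885628677) (nat_lit 0) (nat_lit 1185056501) (nat_lit 76) (nat_lit 1185056501) (nat_lit 39) (nat_lit 3) (nat_lit 38) (nat_lit 1) (nat_lit 39) (nat_lit 1) (nat_lit 406) (nat_lit 407) (nat_lit 207))))) (XT.nd (nat_lit 156) (nat_lit 228) (nat_lit 0) (XT.nd (nat_lit 78) (nat_lit 0) (nat_lit 0) (XT.lf (nat_lit 152) (nat_lit 3033988195) (nat_lit 0) (nat_lit 95002164) (nat_lit 76) (nat_lit 95002164) (nat_lit 38) (nat_lit 1) (nat_lit 36) (nat_lit 1) (nat_lit 37) (nat_lit 1) (nat_lit 407) (nat_lit 407) (nat_lit 206)) (XT.lf (nat_lit 0) (nat_lit 972675444) (nat_lit 0) (nat_lit 1246694319) (nat_lit 152) (nat_lit 972675444) (nat_lit 36)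 (nat_lit 3) (nat_lit 36) (nat_lit 1) (nat_lit 38) (nat_lit 1) (nat_lit 408) (nat_lit 407) (nat_lit 205))) (XT.nd (nat_lit 78) (nat_lit 152) (nat_lit 0) (XT.lf (nat_lit 76) (nat_lit 876198971) (nat_lit 0) (nat_lit 1142236714) (nat_lit 76) (nat_lit 1142236714) (nat_lit 36) (nat_lit 3) (nat_lit 35) (nat_lit 1) (nat_lit 36) (nat_lit 1) (nat_lit 409) (nat_lit 407) (nat_lit 204)) (XT.nd (nat_lit 78) (nat_lit 0) (nat_lit 0) (XT.lf (nat_lit 152) (nat_lit 2961045475) (nat_lit 0) (nat_lit 84408193) (nat_lit 76) (nat_lit 84408193) (nat_lit 35) (nat_lit 1) (nat_lit 33) (nat_lit 1) (nat_lit 34) (nat_lit 1) (nat_lit 410) (nat_lit 407) (nat_lit 203)) (XT.lf (nat_lit 0) (nat_lit 951795758) (nat_lit 0) (nat_lit 1195257980) (nat_lit 152) (nat_lit 951795758) (nat_lit 33) (nat_lit 3) (nat_lit 33) (nat_lit 1) (nat_lit 35) (nat_lit 1) (nat_lit 411) (nat_lit 407) (nat_lit 202))))))) (XT.nd (nat_lit 702) (nat_lit 304) (nat_lit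 0) (XT.nd (nat_lit 312) (nat_lit 380) (nat_lit 0) (XT.nd (nat_lit 156) (nat_lit 76) (nat_lit 0) (XT.nd (nat_lit 78) (nat_lit 152) (nat_lit 0) (XT.lf (nat_lit 76) (nat_lit 865218973) (nat_lit 0) (nat_lit 1101590062) (nat_lit 76) (nat_lit 1101590062) (nat_lit 33) (nat_lit 3) (nat_lit 32) (nat_lit 1) (nat_lit 33) (nat_lit 1) (nat_lit 412) (nat_lit 407) (nat_lit 201)) (XT.lf (nat_lit 152) (nat_lit 2888507117) (nat_lit 0) (nat_lit 74995586) (nat_lit 76) (nat_lit 74995586) (nat_lit 32) (nat_lit 1) (nat_lit 30) (nat_lit 1) (nat_lit 31) (nat_lit 1) (nat_lit 413) (nat_lit 407) (nat_lit 200))) (XT.nd (nat_lit 78) (nat_lit 76) (nat_lit 0) (XT.lf (nat_lit 0) (nat_lit 930693373) (nat_lit 0) (nat_lit 1147006404) (nat_lit 152) (nat_lit 930693373) (nat_lit 30) (nat_lit 3) (nat_lit 30) (nat_lit 1) (nat_lit 32) (nat_lit 1) (nat_lit 414) (nat_lit 407) (nat_lit 199)) (XT.lf (nat_lit 76) (nat_lit 852937343) (nat_lit 0)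 (nat_lit 1062949994) (nat_lit 76) (nat_lit 1062949994) (nat_lit 30) (nat_lit 3) (nat_lit 29) (nat_lit 1) (nat_lit 30) (nat_lit 1) (nat_lit 415) (nat_lit 407) (nat_lit 198)))) (XT.nd (nat_lit 156) (nat_lit 228) (nat_lit 0) (XT.nd (nat_lit 78) (nat_lit 0) (nat_lit 0) (XT.lf (nat_lit 152) (nat_lit 2816553164) (nat_lit 0) (nat_lit 66632607) (nat_lit 76) (nat_lit 66632607) (nat_lit 29) (nat_lit 1) (nat_lit 27) (nat_lit 1) (nat_lit 28) (nat_lit 1) (nat_lit 416) (nat_lit 407) (nat_lit 197)) (XT.lf (nat_lit 0) (nat_lit 909467424) (nat_lit 0) (nat_lit 1101658750) (nat_lit 152) (nat_lit 909467424) (nat_lit 27) (nat_lit 3) (nat_lit 27) (nat_lit 1) (nat_lit 29) (nat_lit 1) (nat_lit 417) (nat_lit 407) (nat_lit 196))) (XT.nd (nat_lit 78) (nat_lit 152) (nat_lit 0) (XT.lf (nat_lit 76) (nat_lit 839572803) (nat_lit 0) (nat_lit 1026166323) (nat_lit 76) (nat_lit 1026166323) (nat_lit 27) (nat_lit 3) (nat_lit 26) (nat_lit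 1) (nat_lit 27) (nat_lit 1) (nat_lit 418) (nat_lit 407) (nat_lit 195)) (XT.nd (nat_lit 78) (nat_lit 0) (nat_lit 0) (XT.lf (nat_lit 152) (nat_lit 2745337029) (nat_lit 0) (nat_lit 59202208) (nat_lit 76) (nat_lit 59202208) (nat_lit 26) (nat_lit 1) (nat_lit 24) (nat_lit 1) (nat_lit 25) (nat_lit 1) (nat_lit 419) (nat_lit 407) (nat_lit 194)) (XT.lf (nat_lit 0) (nat_lit 888203830) (nat_lit 0) (nat_lit 1058963334) (nat_lit 152) (nat_lit 888203830) (nat_lit 24) (nat_lit 3) (nat_lit 24) (nat_lit 1) (nat_lit 26) (nat_lit 1) (nat_lit 420) (nat_lit 407) (nat_lit 193)))))) (XT.nd (nat_lit 36270) (nat_lit 0) (nat_lit 26904) (XT.nd (nat_lit 156) (nat_lit 76) (nat_lit 0) (XT.nd (nat_lit 78) (nat_lit 152) (nat_lit 0) (XT.lf (nat_lit 76) (nat_lit 825317542) (nat_lit 0) (nat_lit 991103468) (nat_lit 76) (nat_lit 991103468) (nat_lit 24) (nat_lit 3) (nat_lit 23) (nat_lit 1) (nat_lit 24) (nat_lit 1) (nat_lit 421) (nat_lit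 407) (nat_lit 192)) (XT.lf (nat_lit 152) (nat_lit 2674988648) (nat_lit 0) (nat_lit 52600395) (nat_lit 76) (nat_lit 52600395) (nat_lit 23) (nat_lit 1) (nat_lit 21) (nat_lit 1) (nat_lit 22) (nat_lit 1) (nat_lit 422) (nat_lit 407) (nat_lit 191))) (XT.nd (nat_lit 78) (nat_lit 76) (nat_lit 0) (XT.lf (nat_lit 0) (nat_lit 866976825) (nat_lit 0) (nat_lit 1018694432) (nat_lit 152) (nat_lit 866976825) (nat_lit 21) (nat_lit 3) (nat_lit 21) (nat_lit 1) (nat_lit 23) (nat_lit 1) (nat_lit 423) (nat_lit 407) (nat_lit 190)) (XT.nd (nat_lit 35958) (nat_lit 0) (nat_lit 26904) (XT.lf (nat_lit 76) (nat_lit 810340239) (nat_lit 0) (nat_lit 957638887) (nat_lit 76) (nat_lit 957638887) (nat_lit 21) (nat_lit 3) (nat_lit 20) (nat_lit 1) (nat_lit 21) (nat_lit 1) (nat_lit 424) (nat_lit 407) (nat_lit 189)) (XT.lf (nat_lit 1292) (nat_lit 2783530326) (nat_lit 0) (nat_lit 9576638857) (nat_lit 1292) (nat_lit 2783530326) (nat_lit 391)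 (nat_lit 1) (nat_lit 374) (nat_lit 0) (nat_lit 391) (nat_lit 0) (nat_lit 204) (nat_lit 408) (nat_lit 408))))) (XT.nd (nat_lit 156) (nat_lit 0) (nat_lit 76) (XT.nd (nat_lit 78) (nat_lit 0) (nat_lit 76) (XT.lf (nat_lit 1292) (nat_lit 10878085292) (nat_lit 76) (nat_lit 9482750241) (nat_lit 0) (nat_lit 9482750241) (nat_lit 391) (nat_lit 1) (nat_lit 375) (nat_lit 1) (nat_lit 374) (nat_lit 0) (nat_lit 205) (nat_lit 408) (nat_lit 407)) (XT.lf (nat_lit 1292) (nat_lit 5260901411) (nat_lit 0) (nat_lit 18887759299) (nat_lit 1216) (nat_lit 5260901411) (nat_lit 392) (nat_lit 1) (nat_lit 375) (nat_lit 1) (nat_lit 391) (nat_lit 1) (nat_lit 206) (nat_lit 408) (nat_lit 406))) (XT.nd (nat_lit 78) (nat_lit 0) (nat_lit 76) (XT.lf (nat_lit 1292) (nat_lit 9990723403) (nat_lit 76) (nat_lit 9496031557) (nat_lit 0) (nat_lit 9496031557) (nat_lit 392) (nat_lit 1) (nat_lit 376) (nat_lit 1) (nat_lit 375) (nat_lit 1) (nat_lit 207)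 (nat_lit 408) (nat_lit 405)) (XT.nd (nat_lit 78) (nat_lit 0) (nat_lit 0) (XT.lf (nat_lit 1292) (nat_lit 4688097130) (nat_lit 0) (nat_lit 19189365898) (nat_lit 1216) (nat_lit 4688097130) (nat_lit 393) (nat_lit 1) (nat_lit 376) (nat_lit 1) (nat_lit 392) (nat_lit 1) (nat_lit 208) (nat_lit 408) (nat_lit 404)) (XT.lf (nat_lit 1292) (nat_lit 8591432989) (nat_lit 76) (nat_lit 9781786746) (nat_lit 0) (nat_lit 9781786746) (nat_lit 393) (nat_lit 1) (nat_lit 377) (nat_lit 1) (nat_lit 376) (nat_lit 1) (nat_lit 209) (nat_lit 408) (nat_lit 403))))))))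
noncomputable def ec347 : XT := (XT.nd (nat_lit 1482) (nat_lit 5320) (nat_lit 0) (XT.nd (nat_lit 702) (nat_lit 2508) (nat_lit 0) (XT.nd (nat_lit 312) (nat_lit 1064) (nat_lit 0) (XT.nd (nat_lit 156) (nat_lit 0) (nat_lit 76) (XT.nd (nat_lit 78) (nat_lit 0) (nat_lit 0) (XT.lf (nat_lit 1292) (nat_lit 3872232573) (nat_lit 0) (nat_lit 20009467946) (nat_lit 1216) (nat_lit 3872232573) (nat_lit 394) (nat_lit 1) (nat_lit 377) (nat_lit 1) (nat_lit 393) (nat_lit 1) (nat_lit 210) (nat_lit 408) (nat_lit 402)) (XT.lf (nat_lit 1292) (nat_lit 6725995018) (nat_lit 76) (nat_lit 10316416355) (nat_lit 0) (nat_lit 10316416355) (nat_lit 394) (nat_lit 1) (nat_lit 378) (nat_lit 1) (nat_lit 377) (nat_lit 1) (nat_lit 211) (nat_lit 408) (nat_lit 401))) (XT.nd (nat_lit 78) (nat_lit 0) (nat_lit 0) (XT.lf (nat_lit 1292) (nat_lit 2835297528) (nat_lit 0) (nat_lit 21302695600) (nat_lit 1216) (nat_lit 2835297528) (nat_lit 395) (nat_lit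 1) (nat_lit 378) (nat_lit 1) (nat_lit 394) (nat_lit 1) (nat_lit 212) (nat_lit 408) (nat_lit 400)) (XT.lf (nat_lit 1292) (nat_lit 4437084944) (nat_lit 76) (nat_lit 11077907433) (nat_lit 0) (nat_lit 11077907433) (nat_lit 395) (nat_lit 1) (nat_lit 379) (nat_lit 1) (nat_lit 378) (nat_lit 1) (nat_lit 213) (nat_lit 408) (nat_lit 399)))) (XT.nd (nat_lit 156) (nat_lit 1216) (nat_lit 0) (XT.nd (nat_lit 78) (nat_lit 0) (nat_lit 0) (XT.lf (nat_lit 1292) (nat_lit 1597785388) (nat_lit 0) (nat_lit 23026737976) (nat_lit 1216) (nat_lit 1597785388) (nat_lit 396) (nat_lit 1) (nat_lit 379) (nat_lit 1) (nat_lit 395) (nat_lit 1) (nat_lit 214) (nat_lit 408) (nat_lit 398)) (XT.lf (nat_lit 1292) (nat_lit 1764464882) (nat_lit 76) (nat_lit 12045735707) (nat_lit 0) (nat_lit 12045735707) (nat_lit 396) (nat_lit 1) (nat_lit 380) (nat_lit 1) (nat_lit 379) (nat_lit 1) (nat_lit 215) (nat_lit 408) (nat_lit 397))) (XT.nd (nat_lit 78)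 (nat_lit 1292) (nat_lit 0) (XT.lf (nat_lit 1292) (nat_lit 178785867) (nat_lit 0) (nat_lit 25142154315) (nat_lit 1216) (nat_lit 178785867) (nat_lit 397) (nat_lit 1) (nat_lit 380) (nat_lit 1) (nat_lit 396) (nat_lit 1) (nat_lit 216) (nat_lit 408) (nat_lit 396)) (XT.nd (nat_lit 78) (nat_lit 0) (nat_lit 0) (XT.lf (nat_lit 1368) (nat_lit 11958000166) (nat_lit 0) (nat_lit 1230349288) (nat_lit 1292) (nat_lit 11958000166) (nat_lit 381) (nat_lit 1) (nat_lit 363) (nat_lit 1) (nat_lit 380) (nat_lit 1) (nat_lit 217) (nat_lit 408) (nat_lit 395)) (XT.lf (nat_lit 1368) (nat_lit 22022385540) (nat_lit 76) (nat_lit 1390163802) (nat_lit 0) (nat_lit 1390163802) (nat_lit 381) (nat_lit 1) (nat_lit 364) (nat_lit 1) (nat_lit 363) (nat_lit 1) (nat_lit 218) (nat_lit 408) (nat_lit 394)))))) (XT.nd (nat_lit 390) (nat_lit 1824) (nat_lit 0) (XT.nd (nat_lit 156) (nat_lit 760) (nat_lit 0) (XT.nd (nat_lit 78) (nat_lit 0) (nat_lit 0)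 (XT.lf (nat_lit 1368) (nat_lit 9982940578) (nat_lit 0) (nat_lit 4496853563) (nat_lit 1292) (nat_lit 9982940578) (nat_lit 382) (nat_lit 1) (nat_lit 364) (nat_lit 1) (nat_lit 381) (nat_lit 1) (nat_lit 219) (nat_lit 408) (nat_lit 393)) (XT.lf (nat_lit 1368) (nat_lit 17925188159) (nat_lit 76) (nat_lit 3103093169) (nat_lit 0) (nat_lit 3103093169) (nat_lit 382) (nat_lit 1) (nat_lit 365) (nat_lit 1) (nat_lit 364) (nat_lit 1) (nat_lit 220) (nat_lit 408) (nat_lit 392))) (XT.nd (nat_lit 78) (nat_lit 836) (nat_lit 0) (XT.lf (nat_lit 76) (nat_lit 7883227855) (nat_lit 0) (nat_lit 8038040596) (nat_lit 1292) (nat_lit 7883227855) (nat_lit 366) (nat_lit 1) (nat_lit 365) (nat_lit 1) (nat_lit 382) (nat_lit 1) (nat_lit 221) (nat_lit 408) (nat_lit 391)) (XT.nd (nat_lit 78) (nat_lit 0) (nat_lit 0) (XT.lf (nat_lit 912) (nat_lit 13591794646) (nat_lit 0) (nat_lit 4946524461) (nat_lit 836) (nat_lit 4946524461) (nat_lit 366)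 (nat_lit 1) (nat_lit 354) (nat_lit 1) (nat_lit 365) (nat_lit 1) (nat_lit 222) (nat_lit 408) (nat_lit 390)) (XT.lf (nat_lit 76) (nat_lit 5672950499) (nat_lit 0) (nat_lit 11824680527) (nat_lit 912) (nat_lit 5672950499) (nat_lit 355) (nat_lit 1) (nat_lit 354) (nat_lit 1) (nat_lit 366) (nat_lit 1) (nat_lit 223) (nat_lit 408) (nat_lit 389))))) (XT.nd (nat_lit 156) (nat_lit 1216) (nat_lit 0) (XT.nd (nat_lit 78) (nat_lit 0) (nat_lit 0) (XT.lf (nat_lit 684) (nat_lit 9049493490) (nat_lit 0) (nat_lit 6906301353) (nat_lit 608) (nat_lit 6906301353) (nat_lit 355) (nat_lit 1) (nat_lit 346) (nat_lit 1) (nat_lit 354) (nat_lit 1) (nat_lit 224) (nat_lit 408) (nat_lit 388)) (XT.lf (nat_lit 76) (nat_lit 3365186345) (nat_lit 0) (nat_lit 15829613506) (nat_lit 684) (nat_lit 3365186345) (nat_lit 347) (nat_lit 1) (nat_lit 346) (nat_lit 1) (nat_lit 355) (nat_lit 1) (nat_lit 225) (nat_lit 408) (nat_lit 387))) (XT.nd (nat_lit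 78) (nat_lit 608) (nat_lit 0) (XT.lf (nat_lit 684) (nat_lit 4323606810) (nat_lit 0) (nat_lit 8969274272) (nat_lit 608) (nat_lit 8969274272) (nat_lit 347) (nat_lit 1) (nat_lit 338) (nat_lit 1) (nat_lit 346) (nat_lit 1) (nat_lit 226) (nat_lit 408) (nat_lit 386)) (XT.nd (nat_lit 78) (nat_lit 608) (nat_lit 0) (XT.lf (nat_lit 76) (nat_lit 972066459) (nat_lit 0) (nat_lit 20027619444) (nat_lit 684) (nat_lit 972066459) (nat_lit 339) (nat_lit 1) (nat_lit 338) (nat_lit 1) (nat_lit 347) (nat_lit 1) (nat_lit 227) (nat_lit 408) (nat_lit 385)) (XT.lf (nat_lit 76) (nat_lit 10566257832) (nat_lit 0) (nat_lit 551410958) (nat_lit 608) (nat_lit 10566257832) (nat_lit 331) (nat_lit 1) (nat_lit 330) (nat_lit 1) (nat_lit 338) (nat_lit 1) (nat_lit 228) (nat_lit 408) (nat_lit 384))))))) (XT.nd (nat_lit 702) (nat_lit 2584) (nat_lit 0) (XT.nd (nat_lit 312) (nat_lit 1596) (nat_lit 0) (XT.nd (nat_lit 156) (nat_lit 532) (nat_lit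 0) (XT.nd (nat_lit 78) (nat_lit 0) (nat_lit 0) (XT.lf (nat_lit 684) (nat_lit 18442219921) (nat_lit 0) (nat_lit 1480506324) (nat_lit 608) (nat_lit 1480506324) (nat_lit 331) (nat_lit 1) (nat_lit 322) (nat_lit 1) (nat_lit 330) (nat_lit 1) (nat_lit 229) (nat_lit 408) (nat_lit 383)) (XT.lf (nat_lit 76) (nat_lit 7823843035) (nat_lit 0) (nat_lit 5477709665) (nat_lit 684) (nat_lit 7823843035) (nat_lit 323) (nat_lit 1) (nat_lit 322) (nat_lit 1) (nat_lit 331) (nat_lit 1) (nat_lit 230) (nat_lit 408) (nat_lit 382))) (XT.nd (nat_lit 78) (nat_lit 0) (nat_lit 0) (XT.lf (nat_lit 608) (nat_lit 12880843373) (nat_lit 0) (nat_lit 3986621848) (nat_lit 532) (nat_lit 3986621848) (nat_lit 323) (nat_lit 1) (nat_lit 315) (nat_lit 1) (nat_lit 322) (nat_lit 1) (nat_lit 231) (nat_lit 408) (nat_lit 381)) (XT.lf (nat_lit 76) (nat_lit 5033527612) (nat_lit 0) (nat_lit 10519910817) (nat_lit 608) (nat_lit 5033527612) (nat_lit 316) (nat_lit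 1) (nat_lit 315) (nat_lit 1) (nat_lit 323) (nat_lit 1) (nat_lit 232) (nat_lit 408) (nat_lit 380)))) (XT.nd (nat_lit 156) (nat_lit 1064) (nat_lit 0) (XT.nd (nat_lit 78) (nat_lit 0) (nat_lit 0) (XT.lf (nat_lit 608) (nat_lit 7232085690) (nat_lit 0) (nat_lit 6546267788) (nat_lit 532) (nat_lit 6546267788) (nat_lit 316) (nat_lit 1) (nat_lit 308) (nat_lit 1) (nat_lit 315) (nat_lit 1) (nat_lit 233) (nat_lit 408) (nat_lit 379)) (XT.lf (nat_lit 76) (nat_lit 2204041637) (nat_lit 0) (nat_lit 15659748748) (nat_lit 608) (nat_lit 2204041637) (nat_lit 309) (nat_lit 1) (nat_lit 308) (nat_lit 1) (nat_lit 316) (nat_lit 1) (nat_lit 234) (nat_lit 408) (nat_lit 378))) (XT.nd (nat_lit 78) (nat_lit 608) (nat_lit 0) (XT.lf (nat_lit 532) (nat_lit 1512806409) (nat_lit 0) (nat_lit 9150622005) (nat_lit 456) (nat_lit 9150622005) (nat_lit 309) (nat_lit 1) (nat_lit 302) (nat_lit 1) (nat_lit 308) (nat_lit 1) (nat_lit 235) (nat_lit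 408) (nat_lit 377)) (XT.nd (nat_lit 78) (nat_lit 0) (nat_lit 0) (XT.lf (nat_lit 608) (nat_lit 18266216521) (nat_lit 0) (nat_lit 650123278) (nat_lit 532) (nat_lit 650123278) (nat_lit 302) (nat_lit 1) (nat_lit 294) (nat_lit 1) (nat_lit 301) (nat_lit 1) (nat_lit 236) (nat_lit 408) (nat_lit 376)) (XT.lf (nat_lit 76) (nat_lit 7571052190) (nat_lit 0) (nat_lit 4178291502) (nat_lit 608) (nat_lit 7571052190) (nat_lit 295) (nat_lit 1) (nat_lit 294) (nat_lit 1) (nat_lit 302) (nat_lit 1) (nat_lit 237) (nat_lit 408) (nat_lit 375)))))) (XT.nd (nat_lit 390) (nat_lit 1216) (nat_lit 0) (XT.nd (nat_lit 156) (nat_lit 912) (nat_lit 0) (XT.nd (nat_lit 78) (nat_lit 0) (nat_lit 0) (XT.lf (nat_lit 532) (nat_lit 12068022155) (nat_lit 0) (nat_lit 3506140211) (nat_lit 456) (nat_lit 3506140211) (nat_lit 295) (nat_lit 1) (nat_lit 288) (nat_lit 1) (nat_lit 294) (nat_lit 1) (nat_lit 238) (nat_lit 408) (nat_lit 374)) (XT.lf (nat_lit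 76) (nat_lit 4481995469) (nat_lit 0) (nat_lit 9879731187) (nat_lit 532) (nat_lit 4481995469) (nat_lit 289) (nat_lit 1) (nat_lit 288) (nat_lit 1) (nat_lit 295) (nat_lit 1) (nat_lit 239) (nat_lit 408) (nat_lit 373))) (XT.nd (nat_lit 78) (nat_lit 456) (nat_lit 0) (XT.lf (nat_lit 532) (nat_lit 5853508287) (nat_lit 0) (nat_lit 6378851455) (nat_lit 456) (nat_lit 6378851455) (nat_lit 289) (nat_lit 1) (nat_lit 282) (nat_lit 1) (nat_lit 288) (nat_lit 1) (nat_lit 240) (nat_lit 408) (nat_lit 372)) (XT.nd (nat_lit 78) (nat_lit 456) (nat_lit 0) (XT.lf (nat_lit 76) (nat_lit 1387833345) (nat_lit 0) (nat_lit 15608117716) (nat_lit 532) (nat_lit 1387833345) (nat_lit 283) (nat_lit 1) (nat_lit 282) (nat_lit 1) (nat_lit 289) (nat_lit 1) (nat_lit 241) (nat_lit 408) (nat_lit 371)) (XT.lf (nat_lit 76) (nat_lit 8900001381) (nat_lit 0) (nat_lit 358416602) (nat_lit 456) (nat_lit 8900001381) (nat_lit 277) (nat_lit 1) (nat_lit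 276) (nat_lit 1) (nat_lit 282) (nat_lit 1) (nat_lit 242) (nat_lit 408) (nat_lit 370))))) (XT.nd (nat_lit 156) (nat_lit 760) (nat_lit 0) (XT.nd (nat_lit 78) (nat_lit 0) (nat_lit 0) (XT.lf (nat_lit 532) (nat_lit 14559746269) (nat_lit 0) (nat_lit 1689103817) (nat_lit 456) (nat_lit 1689103817) (nat_lit 277) (nat_lit 1) (nat_lit 270) (nat_lit 1) (nat_lit 276) (nat_lit 1) (nat_lit 243) (nat_lit 408) (nat_lit 369)) (XT.lf (nat_lit 76) (nat_lit 5634855137) (nat_lit 0) (nat_lit 6450000776) (nat_lit 532) (nat_lit 5634855137) (nat_lit 271) (nat_lit 1) (nat_lit 270) (nat_lit 1) (nat_lit 277) (nat_lit 1) (nat_lit 244) (nat_lit 408) (nat_lit 368))) (XT.nd (nat_lit 78) (nat_lit 380) (nat_lit 0) (XT.lf (nat_lit 456) (nat_lit 8012265270) (nat_lit 0) (nat_lit 4746858856) (nat_lit 380) (nat_lit 4746858856) (nat_lit 271) (nat_lit 1) (nat_lit 265) (nat_lit 1) (nat_lit 270) (nat_lit 1) (nat_lit 245) (nat_lit 408) (nat_lit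 367)) (XT.nd (nat_lit 78) (nat_lit 380) (nat_lit 0) (XT.lf (nat_lit 76) (nat_lit 2385183972) (nat_lit 0) (nat_lit 12525801493) (nat_lit 456) (nat_lit 2385183972) (nat_lit 266) (nat_lit 1) (nat_lit 265) (nat_lit 1) (nat_lit 271) (nat_lit 1) (nat_lit 246) (nat_lit 408) (nat_lit 366)) (XT.lf (nat_lit 456) (nat_lit 1500092838) (nat_lit 0) (nat_lit 7794398686) (nat_lit 380) (nat_lit 7794398686) (nat_lit 266) (nat_lit 1) (nat_lit 260) (nat_lit 1) (nat_lit 265) (nat_lit 1) (nat_lit 247) (nat_lit 408) (nat_lit 365))))))))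
noncomputable def ec348 : XT := (XT.nd (nat_lit 1482) (nat_lit 2584) (nat_lit 0) (XT.nd (nat_lit 702) (nat_lit 2204) (nat_lit 0) (XT.nd (nat_lit 312) (nat_lit 1064) (nat_lit 0) (XT.nd (nat_lit 156) (nat_lit 380) (nat_lit 0) (XT.nd (nat_lit 78) (nat_lit 0) (nat_lit 0) (XT.lf (nat_lit 456) (nat_lit 15213018702) (nat_lit 0) (nat_lit 836608716) (nat_lit 380) (nat_lit 836608716) (nat_lit 260) (nat_lit 1) (nat_lit 254) (nat_lit 1) (nat_lit 259) (nat_lit 1) (nat_lit 248) (nat_lit 408) (nat_lit 364)) (XT.lf (nat_lit 76) (nat_lit 5906379548) (nat_lit 0) (nat_lit 4871918406) (nat_lit 456) (nat_lit 5906379548) (nat_lit 255) (nat_lit 1) (nat_lit 254) (nat_lit 1) (nat_lit 260) (nat_lit 1) (nat_lit 249) (nat_lit 408) (nat_lit 363))) (XT.nd (nat_lit 78) (nat_lit 0) (nat_lit 0) (XT.lf (nat_lit 456) (nat_lit 8463772274) (nat_lit 0) (nat_lit 4011913028) (nat_lit 380) (nat_lit 4011913028) (nat_lit 255) (nat_lit 1) (nat_lit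 249) (nat_lit 1) (nat_lit 254) (nat_lit 1) (nat_lit 250) (nat_lit 408) (nat_lit 362)) (XT.lf (nat_lit 76) (nat_lit 2564264515) (nat_lit 0) (nat_lit 11165289529) (nat_lit 456) (nat_lit 2564264515) (nat_lit 250) (nat_lit 1) (nat_lit 249) (nat_lit 1) (nat_lit 255) (nat_lit 1) (nat_lit 251) (nat_lit 408) (nat_lit 361)))) (XT.nd (nat_lit 156) (nat_lit 304) (nat_lit 0) (XT.nd (nat_lit 78) (nat_lit 456) (nat_lit 0) (XT.lf (nat_lit 380) (nat_lit 1780965171) (nat_lit 0) (nat_lit 7160764713) (nat_lit 304) (nat_lit 7160764713) (nat_lit 250) (nat_lit 1) (nat_lit 245) (nat_lit 1) (nat_lit 249) (nat_lit 1) (nat_lit 252) (nat_lit 408) (nat_lit 360)) (XT.lf (nat_lit 456) (nat_lit 14443213417) (nat_lit 0) (nat_lit 736077180) (nat_lit 380) (nat_lit 736077180) (nat_lit 245) (nat_lit 1) (nat_lit 239) (nat_lit 1) (nat_lit 244) (nat_lit 1) (nat_lit 253) (nat_lit 408) (nat_lit 359))) (XT.nd (nat_lit 78) (nat_lit 304) (nat_lit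 0) (XT.lf (nat_lit 76) (nat_lit 5496704244) (nat_lit 0) (nat_lit 4735619020) (nat_lit 456) (nat_lit 5496704244) (nat_lit 240) (nat_lit 1) (nat_lit 239) (nat_lit 1) (nat_lit 245) (nat_lit 1) (nat_lit 254) (nat_lit 408) (nat_lit 358)) (XT.nd (nat_lit 78) (nat_lit 0) (nat_lit 0) (XT.lf (nat_lit 380) (nat_lit 7597655678) (nat_lit 0) (nat_lit 3974553343) (nat_lit 304) (nat_lit 3974553343) (nat_lit 240) (nat_lit 1) (nat_lit 235) (nat_lit 1) (nat_lit 239) (nat_lit 1) (nat_lit 255) (nat_lit 408) (nat_lit 357)) (XT.lf (nat_lit 76) (nat_lit 2112791987) (nat_lit 0) (nat_lit 11142030941) (nat_lit 380) (nat_lit 2112791987) (nat_lit 236) (nat_lit 1) (nat_lit 235) (nat_lit 1) (nat_lit 240) (nat_lit 1) (nat_lit 256) (nat_lit 408) (nat_lit 356)))))) (XT.nd (nat_lit 390) (nat_lit 1216) (nat_lit 0) (XT.nd (nat_lit 156) (nat_lit 304) (nat_lit 0) (XT.nd (nat_lit 78) (nat_lit 380) (nat_lit 0) (XT.lf (nat_lit 380) (nat_lit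 842492356) (nat_lit 0) (nat_lit 7174005689) (nat_lit 304) (nat_lit 7174005689) (nat_lit 236) (nat_lit 1) (nat_lit 231) (nat_lit 1) (nat_lit 235) (nat_lit 1) (nat_lit 257) (nat_lit 408) (nat_lit 355)) (XT.lf (nat_lit 380) (nat_lit 12590507199) (nat_lit 0) (nat_lit 1213190276) (nat_lit 304) (nat_lit 1213190276) (nat_lit 231) (nat_lit 1) (nat_lit 226) (nat_lit 1) (nat_lit 230) (nat_lit 1) (nat_lit 258) (nat_lit 408) (nat_lit 354))) (XT.nd (nat_lit 78) (nat_lit 304) (nat_lit 0) (XT.lf (nat_lit 76) (nat_lit 4569675915) (nat_lit 0) (nat_lit 5705110005) (nat_lit 380) (nat_lit 4569675915) (nat_lit 227) (nat_lit 1) (nat_lit 226) (nat_lit 1) (nat_lit 231) (nat_lit 1) (nat_lit 259) (nat_lit 408) (nat_lit 353)) (XT.nd (nat_lit 78) (nat_lit 0) (nat_lit 0) (XT.lf (nat_lit 380) (nat_lit 5732783099) (nat_lit 0) (nat_lit 4471322916) (nat_lit 304) (nat_lit 4471322916) (nat_lit 227) (nat_lit 1) (nat_lit 222) (nat_lit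 1) (nat_lit 226) (nat_lit 1) (nat_lit 260) (nat_lit 408) (nat_lit 352)) (XT.lf (nat_lit 76) (nat_lit 1184337293) (nat_lit 0) (nat_lit 12140991519) (nat_lit 380) (nat_lit 1184337293) (nat_lit 223) (nat_lit 1) (nat_lit 222) (nat_lit 1) (nat_lit 227) (nat_lit 1) (nat_lit 261) (nat_lit 408) (nat_lit 351))))) (XT.nd (nat_lit 156) (nat_lit 608) (nat_lit 0) (XT.nd (nat_lit 78) (nat_lit 304) (nat_lit 0) (XT.lf (nat_lit 76) (nat_lit 6674163494) (nat_lit 0) (nat_lit 996644333) (nat_lit 304) (nat_lit 6674163494) (nat_lit 219) (nat_lit 1) (nat_lit 218) (nat_lit 1) (nat_lit 222) (nat_lit 1) (nat_lit 262) (nat_lit 408) (nat_lit 350)) (XT.lf (nat_lit 380) (nat_lit 9932571058) (nat_lit 0) (nat_lit 2125442382) (nat_lit 304) (nat_lit 2125442382) (nat_lit 219) (nat_lit 1) (nat_lit 214) (nat_lit 1) (nat_lit 218) (nat_lit 1) (nat_lit 263) (nat_lit 408) (nat_lit 349))) (XT.nd (nat_lit 78) (nat_lit 608) (nat_lit 0) (XT.lf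 (nat_lit 76) (nat_lit 3258980439) (nat_lit 0) (nat_lit 7505819442) (nat_lit 380) (nat_lit 3258980439) (nat_lit 215) (nat_lit 1) (nat_lit 214) (nat_lit 1) (nat_lit 219) (nat_lit 1) (nat_lit 264) (nat_lit 408) (nat_lit 348)) (XT.nd (nat_lit 78) (nat_lit 380) (nat_lit 0) (XT.lf (nat_lit 304) (nat_lit 3129218898) (nat_lit 0) (nat_lit 5368696683) (nat_lit 228) (nat_lit 5368696683) (nat_lit 215) (nat_lit 1) (nat_lit 211) (nat_lit 1) (nat_lit 214) (nat_lit 1) (nat_lit 265) (nat_lit 408) (nat_lit 347)) (XT.lf (nat_lit 380) (nat_lit 13523084550) (nat_lit 0) (nat_lit 94961894) (nat_lit 304) (nat_lit 94961894) (nat_lit 211) (nat_lit 1) (nat_lit 206) (nat_lit 1) (nat_lit 210) (nat_lit 1) (nat_lit 266) (nat_lit 408) (nat_lit 346))))))) (XT.nd (nat_lit 702) (nat_lit 1292) (nat_lit 0) (XT.nd (nat_lit 312) (nat_lit 760) (nat_lit 0) (XT.nd (nat_lit 156) (nat_lit 304) (nat_lit 0) (XT.nd (nat_lit 78) (nat_lit 228) (nat_lit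 0) (XT.lf (nat_lit 76) (nat_lit 5038000835) (nat_lit 0) (nat_lit 3483100764) (nat_lit 380) (nat_lit 5038000835) (nat_lit 207) (nat_lit 1) (nat_lit 206) (nat_lit 1) (nat_lit 211) (nat_lit 1) (nat_lit 267) (nat_lit 408) (nat_lit 345)) (XT.lf (nat_lit 304) (nat_lit 6695171216) (nat_lit 0) (nat_lit 3356756702) (nat_lit 228) (nat_lit 3356756702) (nat_lit 207) (nat_lit 1) (nat_lit 203) (nat_lit 1) (nat_lit 206) (nat_lit 1) (nat_lit 268) (nat_lit 408) (nat_lit 344))) (XT.nd (nat_lit 78) (nat_lit 304) (nat_lit 0) (XT.lf (nat_lit 76) (nat_lit 1673261364) (nat_lit 0) (nat_lit 9914194440) (nat_lit 304) (nat_lit 1673261364) (nat_lit 204) (nat_lit 1) (nat_lit 203) (nat_lit 1) (nat_lit 207) (nat_lit 1) (nat_lit 269) (nat_lit 408) (nat_lit 343)) (XT.lf (nat_lit 76) (nat_lit 6556236281) (nat_lit 0) (nat_lit 1755358) (nat_lit 304) (nat_lit 6556236281) (nat_lit 200) (nat_lit 1) (nat_lit 199) (nat_lit 1) (nat_lit 203)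 (nat_lit 1) (nat_lit 270) (nat_lit 408) (nat_lit 342)))) (XT.nd (nat_lit 156) (nat_lit 532) (nat_lit 0) (XT.nd (nat_lit 78) (nat_lit 0) (nat_lit 0) (XT.lf (nat_lit 304) (nat_lit 9749447429) (nat_lit 0) (nat_lit 1610337023) (nat_lit 228) (nat_lit 1610337023) (nat_lit 200) (nat_lit 1) (nat_lit 196) (nat_lit 1) (nat_lit 199) (nat_lit 1) (nat_lit 271) (nat_lit 408) (nat_lit 341)) (XT.lf (nat_lit 76) (nat_lit 3193922650) (nat_lit 0) (nat_lit 6439555475) (nat_lit 304) (nat_lit 3193922650) (nat_lit 197) (nat_lit 1) (nat_lit 196) (nat_lit 1) (nat_lit 200) (nat_lit 1) (nat_lit 272) (nat_lit 408) (nat_lit 340))) (XT.nd (nat_lit 78) (nat_lit 304) (nat_lit 0) (XT.lf (nat_lit 304) (nat_lit 3061021017) (nat_lit 0) (nat_lit 4812988575) (nat_lit 228) (nat_lit 4812988575) (nat_lit 197) (nat_lit 1) (nat_lit 193) (nat_lit 1) (nat_lit 196) (nat_lit 1) (nat_lit 273) (nat_lit 408) (nat_lit 339)) (XT.nd (nat_lit 78) (nat_lit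 0) (nat_lit 0) (XT.lf (nat_lit 304) (nat_lit 12352427201) (nat_lit 0) (nat_lit 98629772) (nat_lit 228) (nat_lit 98629772) (nat_lit 193) (nat_lit 1) (nat_lit 189) (nat_lit 1) (nat_lit 192) (nat_lit 1) (nat_lit 274) (nat_lit 408) (nat_lit 338)) (XT.lf (nat_lit 76) (nat_lit 4495284732) (nat_lit 0) (nat_lit 3421386027) (nat_lit 304) (nat_lit 4495284732) (nat_lit 190) (nat_lit 1) (nat_lit 189) (nat_lit 1) (nat_lit 193) (nat_lit 1) (nat_lit 275) (nat_lit 408) (nat_lit 337)))))) (XT.nd (nat_lit 390) (nat_lit 608) (nat_lit 0) (XT.nd (nat_lit 156) (nat_lit 456) (nat_lit 0) (XT.nd (nat_lit 78) (nat_lit 0) (nat_lit 0) (XT.lf (nat_lit 304) (nat_lit 5693086915) (nat_lit 0) (nat_lit 3292085966) (nat_lit 228) (nat_lit 3292085966) (nat_lit 190) (nat_lit 1) (nat_lit 186) (nat_lit 1) (nat_lit 189) (nat_lit 1) (nat_lit 276) (nat_lit 408) (nat_lit 336)) (XT.lf (nat_lit 76) (nat_lit 1217640174) (nat_lit 0) (nat_lit 9709563295)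 (nat_lit 304) (nat_lit 1217640174) (nat_lit 187) (nat_lit 1) (nat_lit 186) (nat_lit 1) (nat_lit 190) (nat_lit 1) (nat_lit 277) (nat_lit 408) (nat_lit 335))) (XT.nd (nat_lit 78) (nat_lit 228) (nat_lit 0) (XT.lf (nat_lit 76) (nat_lit 5603250636) (nat_lit 0) (nat_lit 806774058) (nat_lit 228) (nat_lit 5603250636) (nat_lit 184) (nat_lit 1) (nat_lit 183) (nat_lit 1) (nat_lit 186) (nat_lit 1) (nat_lit 278) (nat_lit 408) (nat_lit 334)) (XT.nd (nat_lit 78) (nat_lit 0) (nat_lit 0) (XT.lf (nat_lit 304) (nat_lit 7945039218) (nat_lit 0) (nat_lit 1969449485) (nat_lit 228) (nat_lit 1969449485) (nat_lit 184) (nat_lit 1) (nat_lit 180) (nat_lit 1) (nat_lit 183) (nat_lit 1) (nat_lit 279) (nat_lit 408) (nat_lit 333)) (XT.lf (nat_lit 76) (nat_lit 2349953724) (nat_lit 0) (nat_lit 7056169520) (nat_lit 304) (nat_lit 2349953724) (nat_lit 181) (nat_lit 1) (nat_lit 180) (nat_lit 1) (nat_lit 184) (nat_lit 1) (nat_lit 280) (nat_lit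 408) (nat_lit 332))))) (XT.nd (nat_lit 156) (nat_lit 152) (nat_lit 0) (XT.nd (nat_lit 78) (nat_lit 304) (nat_lit 0) (XT.lf (nat_lit 228) (nat_lit 1480115949) (nat_lit 0) (nat_lit 5074904509) (nat_lit 152) (nat_lit 5074904509) (nat_lit 181) (nat_lit 1) (nat_lit 178) (nat_lit 1) (nat_lit 180) (nat_lit 1) (nat_lit 281) (nat_lit 408) (nat_lit 331)) (XT.lf (nat_lit 304) (nat_lit 9861787965) (nat_lit 0) (nat_lit 822134964) (nat_lit 228) (nat_lit 822134964) (nat_lit 178) (nat_lit 1) (nat_lit 174) (nat_lit 1) (nat_lit 177) (nat_lit 1) (nat_lit 282) (nat_lit 408) (nat_lit 330))) (XT.nd (nat_lit 78) (nat_lit 152) (nat_lit 0) (XT.lf (nat_lit 76) (nat_lit 3319064807) (nat_lit 0) (nat_lit 4744410656) (nat_lit 304) (nat_lit 3319064807) (nat_lit 175) (nat_lit 1) (nat_lit 174) (nat_lit 1) (nat_lit 178) (nat_lit 1) (nat_lit 283) (nat_lit 408) (nat_lit 329)) (XT.nd (nat_lit 78) (nat_lit 0) (nat_lit 0) (XT.lf (nat_lit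 228) (nat_lit 3461850395) (nat_lit 0) (nat_lit 3899707540) (nat_lit 152) (nat_lit 3899707540) (nat_lit 175) (nat_lit 1) (nat_lit 172) (nat_lit 1) (nat_lit 174) (nat_lit 1) (nat_lit 284) (nat_lit 408) (nat_lit 328)) (XT.lf (nat_lit 76) (nat_lit 171904208) (nat_lit 0) (nat_lit 10798716219) (nat_lit 228) (nat_lit 171904208) (nat_lit 173) (nat_lit 1) (nat_lit 172) (nat_lit 1) (nat_lit 175) (nat_lit 1) (nat_lit 285) (nat_lit 408) (nat_lit 327))))))))
noncomputable def ec349 : XT := (XT.nd (nat_lit 1482) (nat_lit 1824) (nat_lit 0) (XT.nd (nat_lit 702) (nat_lit 1140) (nat_lit 0) (XT.nd (nat_lit 312) (nat_lit 532) (nat_lit 0) (XT.nd (nat_lit 156) (nat_lit 228) (nat_lit 0) (XT.nd (nat_lit 78) (nat_lit 152) (nat_lit 0) (XT.lf (nat_lit 76) (nat_lit 4144248383) (nat_lit 0) (nat_lit 2734857543) (nat_lit 228) (nat_lit 4144248383) (nat_lit 170) (nat_lit 1) (nat_lit 169) (nat_lit 1) (nat_lit 172) (nat_lit 1) (nat_lit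 286) (nat_lit 408) (nat_lit 326)) (XT.lf (nat_lit 228) (nat_lit 5160068020) (nat_lit 0) (nat_lit 2873306257) (nat_lit 152) (nat_lit 2873306257) (nat_lit 170) (nat_lit 1) (nat_lit 167) (nat_lit 1) (nat_lit 169) (nat_lit 1) (nat_lit 287) (nat_lit 408) (nat_lit 325))) (XT.nd (nat_lit 78) (nat_lit 228) (nat_lit 0) (XT.lf (nat_lit 76) (nat_lit 1035834387) (nat_lit 0) (nat_lit 8720248196) (nat_lit 228) (nat_lit 1035834387) (nat_lit 168) (nat_lit 1) (nat_lit 167) (nat_lit 1) (nat_lit 170) (nat_lit 1) (nat_lit 288) (nat_lit 408) (nat_lit 324)) (XT.lf (nat_lit 76) (nat_lit 4842598673) (nat_lit 0) (nat_lit 992516695) (nat_lit 228) (nat_lit 4842598673) (nat_lit 165) (nat_lit 1) (nat_lit 164) (nat_lit 1) (nat_lit 167) (nat_lit 1) (nat_lit 289) (nat_lit 408) (nat_lit 323)))) (XT.nd (nat_lit 156) (nat_lit 380) (nat_lit 0) (XT.nd (nat_lit 78) (nat_lit 0) (nat_lit 0) (XT.lf (nat_lit 228) (nat_lit 6608205818) (nat_lit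 0) (nat_lit 1978591138) (nat_lit 152) (nat_lit 1978591138) (nat_lit 165) (nat_lit 1) (nat_lit 162) (nat_lit 1) (nat_lit 164) (nat_lit 1) (nat_lit 290) (nat_lit 408) (nat_lit 322)) (XT.lf (nat_lit 76) (nat_lit 1777703810) (nat_lit 0) (nat_lit 6899020490) (nat_lit 228) (nat_lit 1777703810) (nat_lit 163) (nat_lit 1) (nat_lit 162) (nat_lit 1) (nat_lit 165) (nat_lit 1) (nat_lit 291) (nat_lit 408) (nat_lit 321))) (XT.nd (nat_lit 78) (nat_lit 228) (nat_lit 0) (XT.lf (nat_lit 228) (nat_lit 523888420) (nat_lit 0) (nat_lit 4910420765) (nat_lit 152) (nat_lit 4910420765) (nat_lit 163) (nat_lit 1) (nat_lit 160) (nat_lit 1) (nat_lit 162) (nat_lit 1) (nat_lit 292) (nat_lit 408) (nat_lit 320)) (XT.nd (nat_lit 78) (nat_lit 0) (nat_lit 0) (XT.lf (nat_lit 228) (nat_lit 7835919080) (nat_lit 0) (nat_lit 1200375651) (nat_lit 152) (nat_lit 1200375651) (nat_lit 160) (nat_lit 1) (nat_lit 157) (nat_lit 1) (nat_lit 159) (nat_lit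 1) (nat_lit 293) (nat_lit 408) (nat_lit 319)) (XT.lf (nat_lit 76) (nat_lit 2411872998) (nat_lit 0) (nat_lit 5305605799) (nat_lit 228) (nat_lit 2411872998) (nat_lit 158) (nat_lit 1) (nat_lit 157) (nat_lit 1) (nat_lit 160) (nat_lit 1) (nat_lit 294) (nat_lit 408) (nat_lit 318)))))) (XT.nd (nat_lit 390) (nat_lit 608) (nat_lit 0) (XT.nd (nat_lit 156) (nat_lit 152) (nat_lit 0) (XT.nd (nat_lit 78) (nat_lit 228) (nat_lit 0) (XT.lf (nat_lit 228) (nat_lit 1847290366) (nat_lit 0) (nat_lit 4088176802) (nat_lit 152) (nat_lit 4088176802) (nat_lit 158) (nat_lit 1) (nat_lit 155) (nat_lit 1) (nat_lit 157) (nat_lit 1) (nat_lit 295) (nat_lit 408) (nat_lit 317)) (XT.lf (nat_lit 228) (nat_lit 8869504651) (nat_lit 0) (nat_lit 525181376) (nat_lit 152) (nat_lit 525181376) (nat_lit 155) (nat_lit 1) (nat_lit 152) (nat_lit 1) (nat_lit 154) (nat_lit 1) (nat_lit 296) (nat_lit 408) (nat_lit 316))) (XT.nd (nat_lit 78) (nat_lit 152)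 (nat_lit 0) (XT.lf (nat_lit 76) (nat_lit 2951079267) (nat_lit 0) (nat_lit 3913879947) (nat_lit 228) (nat_lit 2951079267) (nat_lit 153) (nat_lit 1) (nat_lit 152) (nat_lit 1) (nat_lit 155) (nat_lit 1) (nat_lit 297) (nat_lit 408) (nat_lit 315)) (XT.nd (nat_lit 78) (nat_lit 0) (nat_lit 0) (XT.lf (nat_lit 228) (nat_lit 2982868603) (nat_lit 0) (nat_lit 3365623743) (nat_lit 152) (nat_lit 3365623743) (nat_lit 153) (nat_lit 1) (nat_lit 150) (nat_lit 1) (nat_lit 152) (nat_lit 1) (nat_lit 298) (nat_lit 408) (nat_lit 314)) (XT.lf (nat_lit 76) (nat_lit 59536590) (nat_lit 0) (nat_lit 9495228935) (nat_lit 228) (nat_lit 59536590) (nat_lit 151) (nat_lit 1) (nat_lit 150) (nat_lit 1) (nat_lit 153) (nat_lit 1) (nat_lit 299) (nat_lit 408) (nat_lit 313))))) (XT.nd (nat_lit 156) (nat_lit 304) (nat_lit 0) (XT.nd (nat_lit 78) (nat_lit 152) (nat_lit 0) (XT.lf (nat_lit 76) (nat_lit 3406618373) (nat_lit 0) (nat_lit 2700652915)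 (nat_lit 152) (nat_lit 3406618373) (nat_lit 149) (nat_lit 1) (nat_lit 148) (nat_lit 1) (nat_lit 150) (nat_lit 1) (nat_lit 300) (nat_lit 408) (nat_lit 312)) (XT.lf (nat_lit 228) (nat_lit 3952740157) (nat_lit 0) (nat_lit 2731411749) (nat_lit 152) (nat_lit 2731411749) (nat_lit 149) (nat_lit 1) (nat_lit 146) (nat_lit 1) (nat_lit 148) (nat_lit 1) (nat_lit 301) (nat_lit 408) (nat_lit 311))) (XT.nd (nat_lit 78) (nat_lit 304) (nat_lit 0) (XT.lf (nat_lit 76) (nat_lit 568211480) (nat_lit 0) (nat_lit 8182538669) (nat_lit 228) (nat_lit 568211480) (nat_lit 147) (nat_lit 1) (nat_lit 146) (nat_lit 1) (nat_lit 149) (nat_lit 1) (nat_lit 302) (nat_lit 408) (nat_lit 310)) (XT.nd (nat_lit 78) (nat_lit 152) (nat_lit 0) (XT.lf (nat_lit 76) (nat_lit 3788505882) (nat_lit 0) (nat_lit 1645341033) (nat_lit 152) (nat_lit 3788505882) (nat_lit 145) (nat_lit 1) (nat_lit 144) (nat_lit 1) (nat_lit 146) (nat_lit 1) (nat_lit 303) (nat_lit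 408) (nat_lit 309)) (XT.lf (nat_lit 228) (nat_lit 4776521577) (nat_lit 0) (nat_lit 2175463423) (nat_lit 152) (nat_lit 2175463423) (nat_lit 145) (nat_lit 1) (nat_lit 142) (nat_lit 1) (nat_lit 144) (nat_lit 1) (nat_lit 304) (nat_lit 408) (nat_lit 308))))))) (XT.nd (nat_lit 702) (nat_lit 912) (nat_lit 0) (XT.nd (nat_lit 312) (nat_lit 608) (nat_lit 0) (XT.nd (nat_lit 156) (nat_lit 152) (nat_lit 0) (XT.nd (nat_lit 78) (nat_lit 152) (nat_lit 0) (XT.lf (nat_lit 76) (nat_lit 1005153386) (nat_lit 0) (nat_lit 7023624037) (nat_lit 228) (nat_lit 1005153386) (nat_lit 143) (nat_lit 1) (nat_lit 142) (nat_lit 1) (nat_lit 145) (nat_lit 1) (nat_lit 305) (nat_lit 408) (nat_lit 307)) (XT.lf (nat_lit 76) (nat_lit 4105620523) (nat_lit 0) (nat_lit 729675749) (nat_lit 152) (nat_lit 4105620523) (nat_lit 141) (nat_lit 1) (nat_lit 140) (nat_lit 1) (nat_lit 142) (nat_lit 1) (nat_lit 306) (nat_lit 408) (nat_lit 306))) (XT.nd (nat_lit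 78) (nat_lit 0) (nat_lit 0) (XT.lf (nat_lit 228) (nat_lit 5471608763) (nat_lit 0) (nat_lit 1688831717) (nat_lit 152) (nat_lit 1688831717) (nat_lit 141) (nat_lit 1) (nat_lit 138) (nat_lit 1) (nat_lit 140) (nat_lit 1) (nat_lit 307) (nat_lit 408) (nat_lit 305)) (XT.lf (nat_lit 76) (nat_lit 1378798624) (nat_lit 0) (nat_lit 6001121716) (nat_lit 228) (nat_lit 1378798624) (nat_lit 139) (nat_lit 1) (nat_lit 138) (nat_lit 1) (nat_lit 141) (nat_lit 1) (nat_lit 308) (nat_lit 408) (nat_lit 304)))) (XT.nd (nat_lit 156) (nat_lit 304) (nat_lit 0) (XT.nd (nat_lit 78) (nat_lit 228) (nat_lit 0) (XT.lf (nat_lit 152) (nat_lit 63800088) (nat_lit 0) (nat_lit 4302644745) (nat_lit 76) (nat_lit 4302644745) (nat_lit 139) (nat_lit 1) (nat_lit 137) (nat_lit 1) (nat_lit 138) (nat_lit 1) (nat_lit 309) (nat_lit 408) (nat_lit 303)) (XT.lf (nat_lit 228) (nat_lit 6053425563) (nat_lit 0) (nat_lit 1263573691) (nat_lit 152) (nat_lit 1263573691)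 (nat_lit 137) (nat_lit 1) (nat_lit 134) (nat_lit 1) (nat_lit 136) (nat_lit 1) (nat_lit 310) (nat_lit 408) (nat_lit 302))) (XT.nd (nat_lit 78) (nat_lit 304) (nat_lit 0) (XT.lf (nat_lit 76) (nat_lit 1696630020) (nat_lit 0) (nat_lit 5099610887) (nat_lit 228) (nat_lit 1696630020) (nat_lit 135) (nat_lit 1) (nat_lit 134) (nat_lit 1) (nat_lit 137) (nat_lit 1) (nat_lit 311) (nat_lit 408) (nat_lit 301)) (XT.nd (nat_lit 78) (nat_lit 228) (nat_lit 0) (XT.lf (nat_lit 152) (nat_lit 760578883) (nat_lit 0) (nat_lit 3822844128) (nat_lit 76) (nat_lit 3822844128) (nat_lit 135) (nat_lit 1) (nat_lit 133) (nat_lit 1) (nat_lit 134) (nat_lit 1) (nat_lit 312) (nat_lit 408) (nat_lit 300)) (XT.lf (nat_lit 228) (nat_lit 6535644622) (nat_lit 0) (nat_lit 892638358) (nat_lit 152) (nat_lit 892638358) (nat_lit 133) (nat_lit 1) (nat_lit 130) (nat_lit 1) (nat_lit 132) (nat_lit 1) (nat_lit 313) (nat_lit 408) (nat_lit 299)))))) (XT.nd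 (nat_lit 390) (nat_lit 532) (nat_lit 0) (XT.nd (nat_lit 156) (nat_lit 304) (nat_lit 0) (XT.nd (nat_lit 78) (nat_lit 76) (nat_lit 0) (XT.lf (nat_lit 76) (nat_lit 1965283605) (nat_lit 0) (nat_lit 4305396446) (nat_lit 228) (nat_lit 1965283605) (nat_lit 131) (nat_lit 1) (nat_lit 130) (nat_lit 1) (nat_lit 133) (nat_lit 1) (nat_lit 314) (nat_lit 408) (nat_lit 298)) (XT.lf (nat_lit 152) (nat_lit 1359156070) (nat_lit 0) (nat_lit 3396547494) (nat_lit 76) (nat_lit 3396547494) (nat_lit 131) (nat_lit 1) (nat_lit 129) (nat_lit 1) (nat_lit 130) (nat_lit 1) (nat_lit 315) (nat_lit 408) (nat_lit 297))) (XT.nd (nat_lit 78) (nat_lit 76) (nat_lit 0) (XT.lf (nat_lit 228) (nat_lit 6930383571) (nat_lit 0) (nat_lit 569767037) (nat_lit 152) (nat_lit 569767037) (nat_lit 129) (nat_lit 1) (nat_lit 126) (nat_lit 1) (nat_lit 128) (nat_lit 1) (nat_lit 316) (nat_lit 408) (nat_lit 296)) (XT.nd (nat_lit 78) (nat_lit 76) (nat_lit 0)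 (XT.lf (nat_lit 76) (nat_lit 2190643403) (nat_lit 0) (nat_lit 3606316380) (nat_lit 228) (nat_lit 2190643403) (nat_lit 127) (nat_lit 1) (nat_lit 126) (nat_lit 1) (nat_lit 129) (nat_lit 1) (nat_lit 317) (nat_lit 408) (nat_lit 295)) (XT.lf (nat_lit 152) (nat_lit 1871079538) (nat_lit 0) (nat_lit 3017788456) (nat_lit 76) (nat_lit 3017788456) (nat_lit 127) (nat_lit 1) (nat_lit 125) (nat_lit 1) (nat_lit 126) (nat_lit 1) (nat_lit 318) (nat_lit 408) (nat_lit 294))))) (XT.nd (nat_lit 156) (nat_lit 304) (nat_lit 0) (XT.nd (nat_lit 78) (nat_lit 0) (nat_lit 0) (XT.lf (nat_lit 228) (nat_lit 7248379316) (nat_lit 0) (nat_lit 289404824) (nat_lit 152) (nat_lit 289404824) (nat_lit 125) (nat_lit 1) (nat_lit 122) (nat_lit 1) (nat_lit 124) (nat_lit 1) (nat_lit 319) (nat_lit 408) (nat_lit 293)) (XT.lf (nat_lit 76) (nat_lit 2377925645) (nat_lit 0) (nat_lit 2991570638) (nat_lit 228) (nat_lit 2377925645) (nat_lit 123) (nat_lit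 1) (nat_lit 122) (nat_lit 1) (nat_lit 125) (nat_lit 1) (nat_lit 320) (nat_lit 408) (nat_lit 292))) (XT.nd (nat_lit 78) (nat_lit 228) (nat_lit 0) (XT.lf (nat_lit 152) (nat_lit 2306592046) (nat_lit 0) (nat_lit 2681265956) (nat_lit 76) (nat_lit 2681265956) (nat_lit 123) (nat_lit 1) (nat_lit 121) (nat_lit 1) (nat_lit 122) (nat_lit 1) (nat_lit 321) (nat_lit 408) (nat_lit 291)) (XT.nd (nat_lit 78) (nat_lit 0) (nat_lit 0) (XT.lf (nat_lit 228) (nat_lit 7499142865) (nat_lit 0) (nat_lit 46621944) (nat_lit 152) (nat_lit 46621944) (nat_lit 121) (nat_lit 1) (nat_lit 118) (nat_lit 1) (nat_lit 120) (nat_lit 1) (nat_lit 322) (nat_lit 408) (nat_lit 290)) (XT.lf (nat_lit 76) (nat_lit 2531753568) (nat_lit 0) (nat_lit 2451569089) (nat_lit 228) (nat_lit 2531753568) (nat_lit 119) (nat_lit 1) (nat_lit 118) (nat_lit 1) (nat_lit 121) (nat_lit 1) (nat_lit 323) (nat_lit 408) (nat_lit 289))))))))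
noncomputable def ec350 : XT := (XT.nd (nat_lit 1482) (nat_lit 1368) (nat_lit 0) (XT.nd (nat_lit 702) (nat_lit 760) (nat_lit 0) (XT.nd (nat_lit 312) (nat_lit 380) (nat_lit 0) (XT.nd (nat_lit 156) (nat_lit 228) (nat_lit 0) (XT.nd (nat_lit 78) (nat_lit 0) (nat_lit 0) (XT.lf (nat_lit 152) (nat_lit 2674777265) (nat_lit 0) (nat_lit 2382270074) (nat_lit 76) (nat_lit 2382270074) (nat_lit 119) (nat_lit 1) (nat_lit 117) (nat_lit 1) (nat_lit 118) (nat_lit 1) (nat_lit 324) (nat_lit 408) (nat_lit 288)) (XT.lf (nat_lit 0) (nat_lit 164569553) (nat_lit 0) (nat_lit 7035854714) (nat_lit 152) (nat_lit 164569553) (nat_lit 117) (nat_lit 3) (nat_lit 117) (nat_lit 1) (nat_lit 119) (nat_lit 1) (nat_lit 325) (nat_lit 408) (nat_lit 287))) (XT.nd (nat_lit 78) (nat_lit 76) (nat_lit 0) (XT.lf (nat_lit 76) (nat_lit 2656223877) (nat_lit 0) (nat_lit 1977796435) (nat_lit 152) (nat_lit 2656223877) (nat_lit 116) (nat_lit 1) (nat_lit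 115) (nat_lit 1) (nat_lit 117) (nat_lit 1) (nat_lit 326) (nat_lit 408) (nat_lit 286)) (XT.lf (nat_lit 152) (nat_lit 2983689526) (nat_lit 0) (nat_lit 2116616105) (nat_lit 76) (nat_lit 2116616105) (nat_lit 116) (nat_lit 1) (nat_lit 114) (nat_lit 1) (nat_lit 115) (nat_lit 1) (nat_lit 327) (nat_lit 408) (nat_lit 285)))) (XT.nd (nat_lit 156) (nat_lit 228) (nat_lit 0) (XT.nd (nat_lit 78) (nat_lit 152) (nat_lit 0) (XT.lf (nat_lit 0) (nat_lit 346608863) (nat_lit 0) (nat_lit 6451656732) (nat_lit 152) (nat_lit 346608863) (nat_lit 114) (nat_lit 3) (nat_lit 114) (nat_lit 1) (nat_lit 116) (nat_lit 1) (nat_lit 328) (nat_lit 408) (nat_lit 284)) (XT.lf (nat_lit 76) (nat_lit 2754965776) (nat_lit 0) (nat_lit 1562692198) (nat_lit 152) (nat_lit 2754965776) (nat_lit 113) (nat_lit 1) (nat_lit 112) (nat_lit 1) (nat_lit 114) (nat_lit 1) (nat_lit 329) (nat_lit 408) (nat_lit 283))) (XT.nd (nat_lit 78) (nat_lit 152) (nat_lit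 0) (XT.lf (nat_lit 152) (nat_lit 3240469082) (nat_lit 0) (nat_lit 1880585995) (nat_lit 76) (nat_lit 1880585995) (nat_lit 113) (nat_lit 1) (nat_lit 111) (nat_lit 1) (nat_lit 112) (nat_lit 1) (nat_lit 330) (nat_lit 408) (nat_lit 282)) (XT.nd (nat_lit 78) (nat_lit 152) (nat_lit 0) (XT.lf (nat_lit 0) (nat_lit 502511803) (nat_lit 0) (nat_lit 5926767761) (nat_lit 152) (nat_lit 502511803) (nat_lit 111) (nat_lit 3) (nat_lit 111) (nat_lit 1) (nat_lit 113) (nat_lit 1) (nat_lit 331) (nat_lit 408) (nat_lit 281)) (XT.lf (nat_lit 76) (nat_lit 2831193414) (nat_lit 0) (nat_lit 1199544091) (nat_lit 152) (nat_lit 2831193414) (nat_lit 110) (nat_lit 1) (nat_lit 109) (nat_lit 1) (nat_lit 111) (nat_lit 1) (nat_lit 332) (nat_lit 408) (nat_lit 280)))))) (XT.nd (nat_lit 390) (nat_lit 456) (nat_lit 0) (XT.nd (nat_lit 156) (nat_lit 228) (nat_lit 0) (XT.nd (nat_lit 78) (nat_lit 0) (nat_lit 0) (XT.lf (nat_lit 152) (nat_lit 3451444500)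 (nat_lit 0) (nat_lit 1670876299) (nat_lit 76) (nat_lit 1670876299) (nat_lit 110) (nat_lit 1) (nat_lit 108) (nat_lit 1) (nat_lit 109) (nat_lit 1) (nat_lit 333) (nat_lit 408) (nat_lit 279)) (XT.lf (nat_lit 0) (nat_lit 635362916) (nat_lit 0) (nat_lit 5454744079) (nat_lit 152) (nat_lit 635362916) (nat_lit 108) (nat_lit 3) (nat_lit 108) (nat_lit 1) (nat_lit 110) (nat_lit 1) (nat_lit 334) (nat_lit 408) (nat_lit 278))) (XT.nd (nat_lit 78) (nat_lit 76) (nat_lit 0) (XT.lf (nat_lit 76) (nat_lit 2887752470) (nat_lit 0) (nat_lit 882393284) (nat_lit 152) (nat_lit 2887752470) (nat_lit 107) (nat_lit 1) (nat_lit 106) (nat_lit 1) (nat_lit 108) (nat_lit 1) (nat_lit 335) (nat_lit 408) (nat_lit 277)) (XT.nd (nat_lit 78) (nat_lit 0) (nat_lit 0) (XT.lf (nat_lit 152) (nat_lit 3622223630) (nat_lit 0) (nat_lit 1484551950) (nat_lit 76) (nat_lit 1484551950) (nat_lit 107) (nat_lit 1) (nat_lit 105) (nat_lit 1) (nat_lit 106) (nat_lit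 1) (nat_lit 336) (nat_lit 408) (nat_lit 276)) (XT.lf (nat_lit 0) (nat_lit 747897825) (nat_lit 0) (nat_lit 5029855568) (nat_lit 152) (nat_lit 747897825) (nat_lit 105) (nat_lit 3) (nat_lit 105) (nat_lit 1) (nat_lit 107) (nat_lit 1) (nat_lit 337) (nat_lit 408) (nat_lit 275))))) (XT.nd (nat_lit 156) (nat_lit 228) (nat_lit 0) (XT.nd (nat_lit 78) (nat_lit 76) (nat_lit 0) (XT.lf (nat_lit 76) (nat_lit 2927161532) (nat_lit 0) (nat_lit 605950243) (nat_lit 152) (nat_lit 2927161532) (nat_lit 104) (nat_lit 1) (nat_lit 103) (nat_lit 1) (nat_lit 105) (nat_lit 1) (nat_lit 338) (nat_lit 408) (nat_lit 274)) (XT.lf (nat_lit 152) (nat_lit 3757774407) (nat_lit 0) (nat_lit 1319005180) (nat_lit 76) (nat_lit 1319005180) (nat_lit 104) (nat_lit 1) (nat_lit 102) (nat_lit 1) (nat_lit 103) (nat_lit 1) (nat_lit 339) (nat_lit 408) (nat_lit 273))) (XT.nd (nat_lit 78) (nat_lit 228) (nat_lit 0) (XT.lf (nat_lit 0) (nat_lit 842542292)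 (nat_lit 0) (nat_lit 4647006286) (nat_lit 152) (nat_lit 842542292) (nat_lit 102) (nat_lit 3) (nat_lit 102) (nat_lit 1) (nat_lit 104) (nat_lit 1) (nat_lit 340) (nat_lit 408) (nat_lit 272)) (XT.nd (nat_lit 78) (nat_lit 76) (nat_lit 0) (XT.lf (nat_lit 76) (nat_lit 2951648861) (nat_lit 0) (nat_lit 365519951) (nat_lit 152) (nat_lit 2951648861) (nat_lit 101) (nat_lit 1) (nat_lit 100) (nat_lit 1) (nat_lit 102) (nat_lit 1) (nat_lit 341) (nat_lit 408) (nat_lit 271)) (XT.lf (nat_lit 152) (nat_lit 3862496633) (nat_lit 0) (nat_lit 1171919018) (nat_lit 76) (nat_lit 1171919018) (nat_lit 101) (nat_lit 1) (nat_lit 99) (nat_lit 1) (nat_lit 100) (nat_lit 1) (nat_lit 342) (nat_lit 408) (nat_lit 270))))))) (XT.nd (nat_lit 702) (nat_lit 684) (nat_lit 0) (XT.nd (nat_lit 312) (nat_lit 456) (nat_lit 0) (XT.nd (nat_lit 156) (nat_lit 76) (nat_lit 0) (XT.nd (nat_lit 78) (nat_lit 152) (nat_lit 0) (XT.lf (nat_lit 0) (nat_lit 921446905)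 (nat_lit 0) (nat_lit 4301663888) (nat_lit 152) (nat_lit 921446905) (nat_lit 99) (nat_lit 3) (nat_lit 99) (nat_lit 1) (nat_lit 101) (nat_lit 1) (nat_lit 343) (nat_lit 408) (nat_lit 269)) (XT.lf (nat_lit 76) (nat_lit 2963185038) (nat_lit 0) (nat_lit 156935479) (nat_lit 152) (nat_lit 2963185038) (nat_lit 98) (nat_lit 1) (nat_lit 97) (nat_lit 1) (nat_lit 99) (nat_lit 1) (nat_lit 344) (nat_lit 408) (nat_lit 268))) (XT.nd (nat_lit 78) (nat_lit 0) (nat_lit 0) (XT.lf (nat_lit 152) (nat_lit 3940285750) (nat_lit 0) (nat_lit 1041234869) (nat_lit 76) (nat_lit 1041234869) (nat_lit 98) (nat_lit 1) (nat_lit 96) (nat_lit 1) (nat_lit 97) (nat_lit 1) (nat_lit 345) (nat_lit 408) (nat_lit 267)) (XT.lf (nat_lit 0) (nat_lit 986517904) (nat_lit 0) (nat_lit 3989796913) (nat_lit 152) (nat_lit 986517904) (nat_lit 96) (nat_lit 3) (nat_lit 96) (nat_lit 1) (nat_lit 98) (nat_lit 1) (nat_lit 346) (nat_lit 408) (nat_lit 266)))) (XT.nd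 (nat_lit 156) (nat_lit 228) (nat_lit 0) (XT.nd (nat_lit 78) (nat_lit 152) (nat_lit 0) (XT.lf (nat_lit 76) (nat_lit 23968754) (nat_lit 0) (nat_lit 2939773617) (nat_lit 76) (nat_lit 2939773617) (nat_lit 96) (nat_lit 3) (nat_lit 95) (nat_lit 1) (nat_lit 96) (nat_lit 1) (nat_lit 347) (nat_lit 408) (nat_lit 265)) (XT.lf (nat_lit 152) (nat_lit 3994589474) (nat_lit 0) (nat_lit 925123695) (nat_lit 76) (nat_lit 925123695) (nat_lit 95) (nat_lit 1) (nat_lit 93) (nat_lit 1) (nat_lit 94) (nat_lit 1) (nat_lit 348) (nat_lit 408) (nat_lit 264))) (XT.nd (nat_lit 78) (nat_lit 228) (nat_lit 0) (XT.lf (nat_lit 0) (nat_lit 1039444559) (nat_lit 0) (nat_lit 3707819059) (nat_lit 152) (nat_lit 1039444559) (nat_lit 93) (nat_lit 3) (nat_lit 93) (nat_lit 1) (nat_lit 95) (nat_lit 1) (nat_lit 349) (nat_lit 408) (nat_lit 263)) (XT.nd (nat_lit 78) (nat_lit 152) (nat_lit 0) (XT.lf (nat_lit 76) (nat_lit 182634692) (nat_lit 0) (nat_lit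 2773289547) (nat_lit 76) (nat_lit 2773289547) (nat_lit 93) (nat_lit 3) (nat_lit 92) (nat_lit 1) (nat_lit 93) (nat_lit 1) (nat_lit 350) (nat_lit 408) (nat_lit 262)) (XT.lf (nat_lit 152) (nat_lit 4028458116) (nat_lit 0) (nat_lit 821960420) (nat_lit 76) (nat_lit 821960420) (nat_lit 92) (nat_lit 1) (nat_lit 90) (nat_lit 1) (nat_lit 91) (nat_lit 1) (nat_lit 351) (nat_lit 408) (nat_lit 261)))))) (XT.nd (nat_lit 390) (nat_lit 380) (nat_lit 0) (XT.nd (nat_lit 156) (nat_lit 228) (nat_lit 0) (XT.nd (nat_lit 78) (nat_lit 76) (nat_lit 0) (XT.lf (nat_lit 0) (nat_lit 1081723492) (nat_lit 0) (nat_lit 3452539674) (nat_lit 152) (nat_lit 1081723492) (nat_lit 90) (nat_lit 3) (nat_lit 90) (nat_lit 1) (nat_lit 92) (nat_lit 1) (nat_lit 352) (nat_lit 408) (nat_lit 260)) (XT.lf (nat_lit 76) (nat_lit 318908136) (nat_lit 0) (nat_lit 2620671420) (nat_lit 76) (nat_lit 2620671420) (nat_lit 90) (nat_lit 3) (nat_lit 89) (nat_lit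 1) (nat_lit 90) (nat_lit 1) (nat_lit 353) (nat_lit 408) (nat_lit 259))) (XT.nd (nat_lit 78) (nat_lit 76) (nat_lit 0) (XT.lf (nat_lit 152) (nat_lit 4044589273) (nat_lit 0) (nat_lit 730301187) (nat_lit 76) (nat_lit 730301187) (nat_lit 89) (nat_lit 1) (nat_lit 87) (nat_lit 1) (nat_lit 88) (nat_lit 1) (nat_lit 354) (nat_lit 408) (nat_lit 258)) (XT.nd (nat_lit 78) (nat_lit 76) (nat_lit 0) (XT.lf (nat_lit 0) (nat_lit 1114680287) (nat_lit 0) (nat_lit 3221119758) (nat_lit 152) (nat_lit 1114680287) (nat_lit 87) (nat_lit 3) (nat_lit 87) (nat_lit 1) (nat_lit 89) (nat_lit 1) (nat_lit 355) (nat_lit 408) (nat_lit 257)) (XT.lf (nat_lit 76) (nat_lit 435423008) (nat_lit 0) (nat_lit 2480509873) (nat_lit 76) (nat_lit 2480509873) (nat_lit 87) (nat_lit 3) (nat_lit 86) (nat_lit 1) (nat_lit 87) (nat_lit 1) (nat_lit 356) (nat_lit 408) (nat_lit 256))))) (XT.nd (nat_lit 156) (nat_lit 228) (nat_lit 0) (XT.nd (nat_lit 78) (nat_lit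 0) (nat_lit 0) (XT.lf (nat_lit 152) (nat_lit 4045367527) (nat_lit 0) (nat_lit 648863146) (nat_lit 76) (nat_lit 648863146) (nat_lit 86) (nat_lit 1) (nat_lit 84) (nat_lit 1) (nat_lit 85) (nat_lit 1) (nat_lit 357) (nat_lit 408) (nat_lit 255)) (XT.lf (nat_lit 0) (nat_lit 1139488682) (nat_lit 0) (nat_lit 3011032869) (nat_lit 152) (nat_lit 1139488682) (nat_lit 84) (nat_lit 3) (nat_lit 84) (nat_lit 1) (nat_lit 86) (nat_lit 1) (nat_lit 358) (nat_lit 408) (nat_lit 254))) (XT.nd (nat_lit 78) (nat_lit 152) (nat_lit 0) (XT.lf (nat_lit 76) (nat_lit 534515527) (nat_lit 0) (nat_lit 2351548719) (nat_lit 76) (nat_lit 2351548719) (nat_lit 84) (nat_lit 3) (nat_lit 83) (nat_lit 1) (nat_lit 84) (nat_lit 1) (nat_lit 359) (nat_lit 408) (nat_lit 253)) (XT.nd (nat_lit 78) (nat_lit 0) (nat_lit 0) (XT.lf (nat_lit 152) (nat_lit 4032899705) (nat_lit 0) (nat_lit 576506501) (nat_lit 76) (nat_lit 576506501) (nat_lit 83) (nat_lit 1)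 (nat_lit 81) (nat_lit 1) (nat_lit 82) (nat_lit 1) (nat_lit 360) (nat_lit 408) (nat_lit 252)) (XT.lf (nat_lit 0) (nat_lit 1157187619) (nat_lit 0) (nat_lit 2820030389) (nat_lit 152) (nat_lit 1157187619) (nat_lit 81) (nat_lit 3) (nat_lit 81) (nat_lit 1) (nat_lit 83) (nat_lit 1) (nat_lit 361) (nat_lit 408) (nat_lit 251))))))))
noncomputable def ec351 : XT := (XT.nd (nat_lit 1482) (nat_lit 1520) (nat_lit 0) (XT.nd (nat_lit 702) (nat_lit 760) (nat_lit 0) (XT.nd (nat_lit 312) (nat_lit 380) (nat_lit 0) (XT.nd (nat_lit 156) (nat_lit 76) (nat_lit 0) (XT.nd (nat_lit 78) (nat_lit 152) (nat_lit 0) (XT.lf (nat_lit 76) (nat_lit 618257526) (nat_lit 0) (nat_lit 2232667982) (nat_lit 76) (nat_lit 2232667982) (nat_lit 81) (nat_lit 3) (nat_lit 80) (nat_lit 1) (nat_lit 81) (nat_lit 1) (nat_lit 362) (nat_lit 408) (nat_lit 250)) (XT.lf (nat_lit 152) (nat_lit 4009046194) (nat_lit 0) (nat_lit 512218559) (nat_lit 76) (nat_lit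 512218559) (nat_lit 80) (nat_lit 1) (nat_lit 78) (nat_lit 1) (nat_lit 79) (nat_lit 1) (nat_lit 363) (nat_lit 408) (nat_lit 249))) (XT.nd (nat_lit 78) (nat_lit 76) (nat_lit 0) (XT.lf (nat_lit 0) (nat_lit 1168696390) (nat_lit 0) (nat_lit 2646110654) (nat_lit 152) (nat_lit 1168696390) (nat_lit 78) (nat_lit 3) (nat_lit 78) (nat_lit 1) (nat_lit 80) (nat_lit 1) (nat_lit 364) (nat_lit 408) (nat_lit 248)) (XT.lf (nat_lit 76) (nat_lit 688486040) (nat_lit 0) (nat_lit 2122868820) (nat_lit 76) (nat_lit 2122868820) (nat_lit 78) (nat_lit 3) (nat_lit 77) (nat_lit 1) (nat_lit 78) (nat_lit 1) (nat_lit 365) (nat_lit 408) (nat_lit 247)))) (XT.nd (nat_lit 156) (nat_lit 228) (nat_lit 0) (XT.nd (nat_lit 78) (nat_lit 0) (nat_lit 0) (XT.lf (nat_lit 152) (nat_lit 3975448765) (nat_lit 0) (nat_lit 455099555) (nat_lit 76) (nat_lit 455099555) (nat_lit 77) (nat_lit 1) (nat_lit 75) (nat_lit 1) (nat_lit 76) (nat_lit 1) (nat_lit 366)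 (nat_lit 408) (nat_lit 246)) (XT.lf (nat_lit 0) (nat_lit 1174828089) (nat_lit 0) (nat_lit 2487491527) (nat_lit 152) (nat_lit 1174828089) (nat_lit 75) (nat_lit 3) (nat_lit 75) (nat_lit 1) (nat_lit 77) (nat_lit 1) (nat_lit 367) (nat_lit 408) (nat_lit 245))) (XT.nd (nat_lit 78) (nat_lit 152) (nat_lit 0) (XT.lf (nat_lit 76) (nat_lit 746829604) (nat_lit 0) (nat_lit 2021260126) (nat_lit 76) (nat_lit 2021260126) (nat_lit 75) (nat_lit 3) (nat_lit 74) (nat_lit 1) (nat_lit 75) (nat_lit 1) (nat_lit 368) (nat_lit 408) (nat_lit 244)) (XT.nd (nat_lit 78) (nat_lit 0) (nat_lit 0) (XT.lf (nat_lit 152) (nat_lit 3933555268) (nat_lit 0) (nat_lit 404350060) (nat_lit 76) (nat_lit 404350060) (nat_lit 74) (nat_lit 1) (nat_lit 72) (nat_lit 1) (nat_lit 73) (nat_lit 1) (nat_lit 369) (nat_lit 408) (nat_lit 243)) (XT.lf (nat_lit 0) (nat_lit 1176301564) (nat_lit 0) (nat_lit 2342586027) (nat_lit 152) (nat_lit 1176301564) (nat_lit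 72) (nat_lit 3) (nat_lit 72) (nat_lit 1) (nat_lit 74) (nat_lit 1) (nat_lit 370) (nat_lit 408) (nat_lit 242)))))) (XT.nd (nat_lit 390) (nat_lit 304) (nat_lit 0) (XT.nd (nat_lit 156) (nat_lit 228) (nat_lit 0) (XT.nd (nat_lit 78) (nat_lit 152) (nat_lit 0) (XT.lf (nat_lit 76) (nat_lit 794731610) (nat_lit 0) (nat_lit 1927046623) (nat_lit 76) (nat_lit 1927046623) (nat_lit 72) (nat_lit 3) (nat_lit 71) (nat_lit 1) (nat_lit 72) (nat_lit 1) (nat_lit 371) (nat_lit 408) (nat_lit 241)) (XT.lf (nat_lit 152) (nat_lit 3884641579) (nat_lit 0) (nat_lit 359259792) (nat_lit 76) (nat_lit 359259792) (nat_lit 71) (nat_lit 1) (nat_lit 69) (nat_lit 1) (nat_lit 70) (nat_lit 1) (nat_lit 372) (nat_lit 408) (nat_lit 240))) (XT.nd (nat_lit 78) (nat_lit 228) (nat_lit 0) (XT.lf (nat_lit 0) (nat_lit 1173752028) (nat_lit 0) (nat_lit 2209980667) (nat_lit 152) (nat_lit 1173752028) (nat_lit 69) (nat_lit 3) (nat_lit 69) (nat_lit 1) (nat_lit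 71) (nat_lit 1) (nat_lit 373) (nat_lit 408) (nat_lit 239)) (XT.nd (nat_lit 78) (nat_lit 152) (nat_lit 0) (XT.lf (nat_lit 76) (nat_lit 833471053) (nat_lit 0) (nat_lit 1839518276) (nat_lit 76) (nat_lit 1839518276) (nat_lit 69) (nat_lit 3) (nat_lit 68) (nat_lit 1) (nat_lit 69) (nat_lit 1) (nat_lit 374) (nat_lit 408) (nat_lit 238)) (XT.lf (nat_lit 152) (nat_lit 3829831079) (nat_lit 0) (nat_lit 319197672) (nat_lit 76) (nat_lit 319197672) (nat_lit 68) (nat_lit 1) (nat_lit 66) (nat_lit 1) (nat_lit 67) (nat_lit 1) (nat_lit 375) (nat_lit 408) (nat_lit 237))))) (XT.nd (nat_lit 156) (nat_lit 228) (nat_lit 0) (XT.nd (nat_lit 78) (nat_lit 76) (nat_lit 0) (XT.lf (nat_lit 0) (nat_lit 1167740488) (nat_lit 0) (nat_lit 2088416212) (nat_lit 152) (nat_lit 1167740488) (nat_lit 66) (nat_lit 3) (nat_lit 66) (nat_lit 1) (nat_lit 68) (nat_lit 1) (nat_lit 376) (nat_lit 408) (nat_lit 236)) (XT.lf (nat_lit 76) (nat_lit 864180964)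 (nat_lit 0) (nat_lit 1758040891) (nat_lit 76) (nat_lit 1758040891) (nat_lit 66) (nat_lit 3) (nat_lit 65) (nat_lit 1) (nat_lit 66) (nat_lit 1) (nat_lit 377) (nat_lit 408) (nat_lit 235))) (XT.nd (nat_lit 78) (nat_lit 76) (nat_lit 0) (XT.lf (nat_lit 152) (nat_lit 3770111960) (nat_lit 0) (nat_lit 283602997) (nat_lit 76) (nat_lit 283602997) (nat_lit 65) (nat_lit 1) (nat_lit 63) (nat_lit 1) (nat_lit 64) (nat_lit 1) (nat_lit 378) (nat_lit 408) (nat_lit 234)) (XT.nd (nat_lit 78) (nat_lit 76) (nat_lit 0) (XT.lf (nat_lit 0) (nat_lit 1158762117) (nat_lit 0) (nat_lit 1976770574) (nat_lit 152) (nat_lit 1158762117) (nat_lit 63) (nat_lit 3) (nat_lit 63) (nat_lit 1) (nat_lit 65) (nat_lit 1) (nat_lit 379) (nat_lit 408) (nat_lit 233)) (XT.lf (nat_lit 76) (nat_lit 887864787) (nat_lit 0) (nat_lit 1682047754) (nat_lit 76) (nat_lit 1682047754) (nat_lit 63) (nat_lit 3) (nat_lit 62) (nat_lit 1) (nat_lit 63) (nat_lit 1) (nat_lit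 380) (nat_lit 408) (nat_lit 232))))))) (XT.nd (nat_lit 702) (nat_lit 836) (nat_lit 0) (XT.nd (nat_lit 312) (nat_lit 304) (nat_lit 0) (XT.nd (nat_lit 156) (nat_lit 228) (nat_lit 0) (XT.nd (nat_lit 78) (nat_lit 0) (nat_lit 0) (XT.lf (nat_lit 152) (nat_lit 3706352588) (nat_lit 0) (nat_lit 251977589) (nat_lit 76) (nat_lit 251977589) (nat_lit 62) (nat_lit 1) (nat_lit 60) (nat_lit 1) (nat_lit 61) (nat_lit 1) (nat_lit 381) (nat_lit 408) (nat_lit 231)) (XT.lf (nat_lit 0) (nat_lit 1147253695) (nat_lit 0) (nat_lit 1874043613) (nat_lit 152) (nat_lit 1147253695) (nat_lit 60) (nat_lit 3) (nat_lit 60) (nat_lit 1) (nat_lit 62) (nat_lit 1) (nat_lit 382) (nat_lit 408) (nat_lit 230))) (XT.nd (nat_lit 78) (nat_lit 152) (nat_lit 0) (XT.lf (nat_lit 76) (nat_lit 905410920) (nat_lit 0) (nat_lit 1611032200) (nat_lit 76) (nat_lit 1611032200) (nat_lit 60) (nat_lit 3) (nat_lit 59) (nat_lit 1) (nat_lit 60) (nat_lit 1) (nat_lit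 383) (nat_lit 408) (nat_lit 229)) (XT.lf (nat_lit 152) (nat_lit 3639315145) (nat_lit 0) (nat_lit 223878824) (nat_lit 76) (nat_lit 223878824) (nat_lit 59) (nat_lit 1) (nat_lit 57) (nat_lit 1) (nat_lit 58) (nat_lit 1) (nat_lit 384) (nat_lit 408) (nat_lit 228)))) (XT.nd (nat_lit 156) (nat_lit 228) (nat_lit 0) (XT.nd (nat_lit 78) (nat_lit 76) (nat_lit 0) (XT.lf (nat_lit 0) (nat_lit 1133600205) (nat_lit 0) (nat_lit 1779343635) (nat_lit 152) (nat_lit 1133600205) (nat_lit 57) (nat_lit 3) (nat_lit 57) (nat_lit 1) (nat_lit 59) (nat_lit 1) (nat_lit 385) (nat_lit 408) (nat_lit 227)) (XT.lf (nat_lit 76) (nat_lit 917605638) (nat_lit 0) (nat_lit 1544541007) (nat_lit 76) (nat_lit 1544541007) (nat_lit 57) (nat_lit 3) (nat_lit 56) (nat_lit 1) (nat_lit 57) (nat_lit 1) (nat_lit 386) (nat_lit 408) (nat_lit 226))) (XT.nd (nat_lit 78) (nat_lit 76) (nat_lit 0) (XT.lf (nat_lit 152) (nat_lit 3569667745) (nat_lit 0) (nat_lit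 198913436) (nat_lit 76) (nat_lit 198913436) (nat_lit 56) (nat_lit 1) (nat_lit 54) (nat_lit 1) (nat_lit 55) (nat_lit 1) (nat_lit 387) (nat_lit 408) (nat_lit 225)) (XT.nd (nat_lit 78) (nat_lit 76) (nat_lit 0) (XT.lf (nat_lit 0) (nat_lit 1118140709) (nat_lit 0) (nat_lit 1691875382) (nat_lit 152) (nat_lit 1118140709) (nat_lit 54) (nat_lit 3) (nat_lit 54) (nat_lit 1) (nat_lit 56) (nat_lit 1) (nat_lit 388) (nat_lit 408) (nat_lit 224)) (XT.lf (nat_lit 76) (nat_lit 925144573) (nat_lit 0) (nat_lit 1482168528) (nat_lit 76) (nat_lit 1482168528) (nat_lit 54) (nat_lit 3) (nat_lit 53) (nat_lit 1) (nat_lit 54) (nat_lit 1) (nat_lit 389) (nat_lit 408) (nat_lit 223)))))) (XT.nd (nat_lit 390) (nat_lit 456) (nat_lit 0) (XT.nd (nat_lit 156) (nat_lit 228) (nat_lit 0) (XT.nd (nat_lit 78) (nat_lit 0) (nat_lit 0) (XT.lf (nat_lit 152) (nat_lit 3497995183) (nat_lit 0) (nat_lit 176732011) (nat_lit 76) (nat_lit 176732011) (nat_lit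 53) (nat_lit 1) (nat_lit 51) (nat_lit 1) (nat_lit 52) (nat_lit 1) (nat_lit 390) (nat_lit 408) (nat_lit 222)) (XT.lf (nat_lit 0) (nat_lit 1101173546) (nat_lit 0) (nat_lit 1610929372) (nat_lit 152) (nat_lit 1101173546) (nat_lit 51) (nat_lit 3) (nat_lit 51) (nat_lit 1) (nat_lit 53) (nat_lit 1) (nat_lit 391) (nat_lit 408) (nat_lit 221))) (XT.nd (nat_lit 78) (nat_lit 152) (nat_lit 0) (XT.lf (nat_lit 76) (nat_lit 928642900) (nat_lit 0) (nat_lit 1423551470) (nat_lit 76) (nat_lit 1423551470) (nat_lit 51) (nat_lit 3) (nat_lit 50) (nat_lit 1) (nat_lit 51) (nat_lit 1) (nat_lit 392) (nat_lit 408) (nat_lit 220)) (XT.nd (nat_lit 78) (nat_lit 0) (nat_lit 0) (XT.lf (nat_lit 152) (nat_lit 3424808487) (nat_lit 0) (nat_lit 157024103) (nat_lit 76) (nat_lit 157024103) (nat_lit 50) (nat_lit 1) (nat_lit 48) (nat_lit 1) (nat_lit 49) (nat_lit 1) (nat_lit 393) (nat_lit 408) (nat_lit 219)) (XT.lf (nat_lit 0) (nat_lit 1082960966)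 (nat_lit 0) (nat_lit 1535872415) (nat_lit 152) (nat_lit 1082960966) (nat_lit 48) (nat_lit 3) (nat_lit 48) (nat_lit 1) (nat_lit 50) (nat_lit 1) (nat_lit 394) (nat_lit 408) (nat_lit 218))))) (XT.nd (nat_lit 156) (nat_lit 228) (nat_lit 0) (XT.nd (nat_lit 78) (nat_lit 152) (nat_lit 0) (XT.lf (nat_lit 76) (nat_lit 928644403) (nat_lit 0) (nat_lit 1368364256) (nat_lit 76) (nat_lit 1368364256) (nat_lit 48) (nat_lit 3) (nat_lit 47) (nat_lit 1) (nat_lit 48) (nat_lit 1) (nat_lit 395) (nat_lit 408) (nat_lit 217)) (XT.lf (nat_lit 152) (nat_lit 3350553394) (nat_lit 0) (nat_lit 139513882) (nat_lit 76) (nat_lit 139513882) (nat_lit 47) (nat_lit 1) (nat_lit 45) (nat_lit 1) (nat_lit 46) (nat_lit 1) (nat_lit 396) (nat_lit 408) (nat_lit 216))) (XT.nd (nat_lit 78) (nat_lit 228) (nat_lit 0) (XT.lf (nat_lit 0) (nat_lit 1063733231) (nat_lit 0) (nat_lit 1466139187) (nat_lit 152) (nat_lit 1063733231) (nat_lit 45) (nat_lit 3)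 (nat_lit 45) (nat_lit 1) (nat_lit 47) (nat_lit 1) (nat_lit 397) (nat_lit 408) (nat_lit 215)) (XT.nd (nat_lit 78) (nat_lit 152) (nat_lit 0) (XT.lf (nat_lit 76) (nat_lit 925629508) (nat_lit 0) (nat_lit 1316314903) (nat_lit 76) (nat_lit 1316314903) (nat_lit 45) (nat_lit 3) (nat_lit 44) (nat_lit 1) (nat_lit 45) (nat_lit 1) (nat_lit 398) (nat_lit 408) (nat_lit 214)) (XT.lf (nat_lit 152) (nat_lit 3275617868) (nat_lit 0) (nat_lit 123956277) (nat_lit 76) (nat_lit 123956277) (nat_lit 44) (nat_lit 1) (nat_lit 42) (nat_lit 1) (nat_lit 43) (nat_lit 1) (nat_lit 399) (nat_lit 408) (nat_lit 213))))))))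
noncomputable def ec352 : XT := (XT.nd (nat_lit 1404) (nat_lit 456) (nat_lit 0) (XT.nd (nat_lit 702) (nat_lit 684) (nat_lit 0) (XT.nd (nat_lit 312) (nat_lit 456) (nat_lit 0) (XT.nd (nat_lit 156) (nat_lit 152) (nat_lit 0) (XT.nd (nat_lit 78) (nat_lit 76) (nat_lit 0) (XT.lf (nat_lit 0) (nat_lit 1043692265) (nat_lit 0) (nat_lit 1401224746) (nat_lit 152) (nat_lit 1043692265) (nat_lit 42) (nat_lit 3) (nat_lit 42) (nat_lit 1) (nat_lit 44) (nat_lit 1) (nat_lit 400) (nat_lit 408) (nat_lit 212)) (XT.lf (nat_lit 76) (nat_lit 920022435) (nat_lit 0) (nat_lit 1267141348) (nat_lit 76) (nat_lit 1267141348) (nat_lit 42) (nat_lit 3) (nat_lit 41) (nat_lit 1) (nat_lit 42) (nat_lit 1) (nat_lit 401) (nat_lit 408) (nat_lit 211))) (XT.nd (nat_lit 78) (nat_lit 0) (nat_lit 0) (XT.lf (nat_lit 152) (nat_lit 3200338782) (nat_lit 0) (nat_lit 110133546) (nat_lit 76) (nat_lit 110133546) (nat_lit 41) (nat_lit 1) (nat_lit 39) (nat_lit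 1) (nat_lit 40) (nat_lit 1) (nat_lit 402) (nat_lit 408) (nat_lit 210)) (XT.lf (nat_lit 0) (nat_lit 1023014892) (nat_lit 0) (nat_lit 1340677870) (nat_lit 152) (nat_lit 1023014892) (nat_lit 39) (nat_lit 3) (nat_lit 39) (nat_lit 1) (nat_lit 41) (nat_lit 1) (nat_lit 403) (nat_lit 408) (nat_lit 209)))) (XT.nd (nat_lit 156) (nat_lit 228) (nat_lit 0) (XT.nd (nat_lit 78) (nat_lit 152) (nat_lit 0) (XT.lf (nat_lit 76) (nat_lit 912197538) (nat_lit 0) (nat_lit 1220608196) (nat_lit 76) (nat_lit 1220608196) (nat_lit 39) (nat_lit 3) (nat_lit 38) (nat_lit 1) (nat_lit 39) (nat_lit 1) (nat_lit 404) (nat_lit 408) (nat_lit 208)) (XT.lf (nat_lit 152) (nat_lit 3125007841) (nat_lit 0) (nat_lit 97852229) (nat_lit 76) (nat_lit 97852229) (nat_lit 38) (nat_lit 1) (nat_lit 36) (nat_lit 1) (nat_lit 37) (nat_lit 1) (nat_lit 405) (nat_lit 408) (nat_lit 207))) (XT.nd (nat_lit 78) (nat_lit 228) (nat_lit 0) (XT.lf (nat_lit 0) (nat_lit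 1001855707) (nat_lit 0) (nat_lit 1284095149) (nat_lit 152) (nat_lit 1001855707) (nat_lit 36) (nat_lit 3) (nat_lit 36) (nat_lit 1) (nat_lit 38) (nat_lit 1) (nat_lit 406) (nat_lit 408) (nat_lit 206)) (XT.nd (nat_lit 78) (nat_lit 152) (nat_lit 0) (XT.lf (nat_lit 76) (nat_lit 902484940) (nat_lit 0) (nat_lit 1176503816) (nat_lit 76) (nat_lit 1176503816) (nat_lit 36) (nat_lit 3) (nat_lit 35) (nat_lit 1) (nat_lit 36) (nat_lit 1) (nat_lit 407) (nat_lit 408) (nat_lit 205)) (XT.lf (nat_lit 152) (nat_lit 3049876839) (nat_lit 0) (nat_lit 86940438) (nat_lit 76) (nat_lit 86940438) (nat_lit 35) (nat_lit 1) (nat_lit 33) (nat_lit 1) (nat_lit 34) (nat_lit 1) (nat_lit 408) (nat_lit 408) (nat_lit 204)))))) (XT.nd (nat_lit 312) (nat_lit 456) (nat_lit 0) (XT.nd (nat_lit 156) (nat_lit 152) (nat_lit 0) (XT.nd (nat_lit 78) (nat_lit 76) (nat_lit 0) (XT.lf (nat_lit 0) (nat_lit 980349631) (nat_lit 0) (nat_lit 1231115719) (nat_lit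 152) (nat_lit 980349631) (nat_lit 33) (nat_lit 3) (nat_lit 33) (nat_lit 1) (nat_lit 35) (nat_lit 1) (nat_lit 409) (nat_lit 408) (nat_lit 203)) (XT.lf (nat_lit 76) (nat_lit 891175543) (nat_lit 0) (nat_lit 1134637764) (nat_lit 76) (nat_lit 1134637764) (nat_lit 33) (nat_lit 3) (nat_lit 32) (nat_lit 1) (nat_lit 33) (nat_lit 1) (nat_lit 410) (nat_lit 408) (nat_lit 202))) (XT.nd (nat_lit 78) (nat_lit 0) (nat_lit 0) (XT.lf (nat_lit 152) (nat_lit 2975162330) (nat_lit 0) (nat_lit 77245453) (nat_lit 76) (nat_lit 77245453) (nat_lit 32) (nat_lit 1) (nat_lit 30) (nat_lit 1) (nat_lit 31) (nat_lit 1) (nat_lit 411) (nat_lit 408) (nat_lit 201)) (XT.lf (nat_lit 0) (nat_lit 958614174) (nat_lit 0) (nat_lit 1181416596) (nat_lit 152) (nat_lit 958614174) (nat_lit 30) (nat_lit 3) (nat_lit 30) (nat_lit 1) (nat_lit 32) (nat_lit 1) (nat_lit 412) (nat_lit 408) (nat_lit 200)))) (XT.nd (nat_lit 156) (nat_lit 228) (nat_lit 0) (XT.nd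 (nat_lit 78) (nat_lit 152) (nat_lit 0) (XT.lf (nat_lit 76) (nat_lit 878525463) (nat_lit 0) (nat_lit 1094838494) (nat_lit 76) (nat_lit 1094838494) (nat_lit 30) (nat_lit 3) (nat_lit 29) (nat_lit 1) (nat_lit 30) (nat_lit 1) (nat_lit 413) (nat_lit 408) (nat_lit 199)) (XT.lf (nat_lit 152) (nat_lit 2901049759) (nat_lit 0) (nat_lit 68631585) (nat_lit 76) (nat_lit 68631585) (nat_lit 29) (nat_lit 1) (nat_lit 27) (nat_lit 1) (nat_lit 28) (nat_lit 1) (nat_lit 414) (nat_lit 408) (nat_lit 198))) (XT.nd (nat_lit 78) (nat_lit 228) (nat_lit 0) (XT.lf (nat_lit 0) (nat_lit 936751447) (nat_lit 0) (nat_lit 1134708513) (nat_lit 152) (nat_lit 936751447) (nat_lit 27) (nat_lit 3) (nat_lit 27) (nat_lit 1) (nat_lit 29) (nat_lit 1) (nat_lit 415) (nat_lit 408) (nat_lit 197)) (XT.nd (nat_lit 78) (nat_lit 152) (nat_lit 0) (XT.lf (nat_lit 76) (nat_lit 864759987) (nat_lit 0) (nat_lit 1056951313) (nat_lit 76) (nat_lit 1056951313) (nat_lit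 27) (nat_lit 3) (nat_lit 26) (nat_lit 1) (nat_lit 27) (nat_lit 1) (nat_lit 416) (nat_lit 408) (nat_lit 196)) (XT.lf (nat_lit 152) (nat_lit 2827697140) (nat_lit 0) (nat_lit 60978274) (nat_lit 76) (nat_lit 60978274) (nat_lit 26) (nat_lit 1) (nat_lit 24) (nat_lit 1) (nat_lit 25) (nat_lit 1) (nat_lit 417) (nat_lit 408) (nat_lit 195))))))) (XT.nd (nat_lit 36504) (nat_lit 0) (nat_lit 27132) (XT.nd (nat_lit 312) (nat_lit 228) (nat_lit 0) (XT.nd (nat_lit 156) (nat_lit 152) (nat_lit 0) (XT.nd (nat_lit 78) (nat_lit 76) (nat_lit 0) (XT.lf (nat_lit 0) (nat_lit 914849945) (nat_lit 0) (nat_lit 1090732234) (nat_lit 152) (nat_lit 914849945) (nat_lit 24) (nat_lit 3) (nat_lit 24) (nat_lit 1) (nat_lit 26) (nat_lit 1) (nat_lit 418) (nat_lit 408) (nat_lit 194)) (XT.lf (nat_lit 76) (nat_lit 850077068) (nat_lit 0) (nat_lit 1020836572) (nat_lit 76) (nat_lit 1020836572) (nat_lit 24) (nat_lit 3) (nat_lit 23) (nat_lit 1) (nat_lit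 24) (nat_lit 1) (nat_lit 419) (nat_lit 408) (nat_lit 193))) (XT.nd (nat_lit 78) (nat_lit 0) (nat_lit 0) (XT.lf (nat_lit 152) (nat_lit 2755238307) (nat_lit 0) (nat_lit 54178407) (nat_lit 76) (nat_lit 54178407) (nat_lit 23) (nat_lit 1) (nat_lit 21) (nat_lit 1) (nat_lit 22) (nat_lit 1) (nat_lit 420) (nat_lit 408) (nat_lit 192)) (XT.lf (nat_lit 0) (nat_lit 892986130) (nat_lit 0) (nat_lit 1049255265) (nat_lit 152) (nat_lit 892986130) (nat_lit 21) (nat_lit 3) (nat_lit 21) (nat_lit 1) (nat_lit 23) (nat_lit 1) (nat_lit 421) (nat_lit 408) (nat_lit 191)))) (XT.nd (nat_lit 35958) (nat_lit 0) (nat_lit 27056) (XT.nd (nat_lit 78) (nat_lit 152) (nat_lit 0) (XT.lf (nat_lit 76) (nat_lit 834650446) (nat_lit 0) (nat_lit 986368054) (nat_lit 76) (nat_lit 986368054) (nat_lit 21) (nat_lit 3) (nat_lit 20) (nat_lit 1) (nat_lit 21) (nat_lit 1) (nat_lit 422) (nat_lit 408) (nat_lit 190)) (XT.lf (nat_lit 152) (nat_lit 2683785805)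 (nat_lit 0) (nat_lit 48136813) (nat_lit 76) (nat_lit 48136813) (nat_lit 20) (nat_lit 1) (nat_lit 18) (nat_lit 1) (nat_lit 19) (nat_lit 1) (nat_lit 423) (nat_lit 408) (nat_lit 189))) (XT.nd (nat_lit 78) (nat_lit 0) (nat_lit 0) (XT.lf (nat_lit 1292) (nat_lit 2867036236) (nat_lit 0) (nat_lit 9863938023) (nat_lit 1292) (nat_lit 2867036236) (nat_lit 391) (nat_lit 1) (nat_lit 374) (nat_lit 0) (nat_lit 391) (nat_lit 0) (nat_lit 202) (nat_lit 409) (nat_lit 409)) (XT.nd (nat_lit 78) (nat_lit 0) (nat_lit 76) (XT.lf (nat_lit 1292) (nat_lit 11204427851) (nat_lit 76) (nat_lit 9767232748) (nat_lit 0) (nat_lit 9767232748) (nat_lit 391) (nat_lit 1) (nat_lit 375) (nat_lit 1) (nat_lit 374) (nat_lit 0) (nat_lit 203) (nat_lit 409) (nat_lit 408)) (XT.lf (nat_lit 1292) (nat_lit 5418728454) (nat_lit 0) (nat_lit 19454392078) (nat_lit 1216) (nat_lit 5418728454) (nat_lit 392) (nat_lit 1) (nat_lit 375) (nat_lit 1) (nat_lit 391)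 (nat_lit 1) (nat_lit 204) (nat_lit 409) (nat_lit 407)))))) (XT.nd (nat_lit 390) (nat_lit 0) (nat_lit 228) (XT.nd (nat_lit 156) (nat_lit 0) (nat_lit 76) (XT.nd (nat_lit 78) (nat_lit 0) (nat_lit 76) (XT.lf (nat_lit 1292) (nat_lit 10290445105) (nat_lit 76) (nat_lit 9780912503) (nat_lit 0) (nat_lit 9780912503) (nat_lit 392) (nat_lit 1) (nat_lit 376) (nat_lit 1) (nat_lit 375) (nat_lit 1) (nat_lit 205) (nat_lit 409) (nat_lit 406)) (XT.lf (nat_lit 1292) (nat_lit 4828740044) (nat_lit 0) (nat_lit 19765046875) (nat_lit 1216) (nat_lit 4828740044) (nat_lit 393) (nat_lit 1) (nat_lit 376) (nat_lit 1) (nat_lit 392) (nat_lit 1) (nat_lit 206) (nat_lit 409) (nat_lit 405))) (XT.nd (nat_lit 78) (nat_lit 0) (nat_lit 76) (XT.lf (nat_lit 1292) (nat_lit 8849175978) (nat_lit 76) (nat_lit 10075240348) (nat_lit 0) (nat_lit 10075240348) (nat_lit 393) (nat_lit 1) (nat_lit 377) (nat_lit 1) (nat_lit 376) (nat_lit 1) (nat_lit 207)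 (nat_lit 409) (nat_lit 404)) (XT.nd (nat_lit 78) (nat_lit 0) (nat_lit 0) (XT.lf (nat_lit 1292) (nat_lit 3988399551) (nat_lit 0) (nat_lit 20609751984) (nat_lit 1216) (nat_lit 3988399551) (nat_lit 394) (nat_lit 1) (nat_lit 377) (nat_lit 1) (nat_lit 393) (nat_lit 1) (nat_lit 208) (nat_lit 409) (nat_lit 403)) (XT.lf (nat_lit 1292) (nat_lit 6927774869) (nat_lit 76) (nat_lit 10625908846) (nat_lit 0) (nat_lit 10625908846) (nat_lit 394) (nat_lit 1) (nat_lit 378) (nat_lit 1) (nat_lit 377) (nat_lit 1) (nat_lit 209) (nat_lit 409) (nat_lit 402))))) (XT.nd (nat_lit 156) (nat_lit 0) (nat_lit 76) (XT.nd (nat_lit 78) (nat_lit 0) (nat_lit 0) (XT.lf (nat_lit 1292) (nat_lit 2920356454) (nat_lit 0) (nat_lit 21941776468) (nat_lit 1216) (nat_lit 2920356454) (nat_lit 395) (nat_lit 1) (nat_lit 378) (nat_lit 1) (nat_lit 394) (nat_lit 1) (nat_lit 210) (nat_lit 409) (nat_lit 401)) (XT.lf (nat_lit 1292) (nat_lit 4570197493) (nat_lit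 76) (nat_lit 11410244656) (nat_lit 0) (nat_lit 11410244656) (nat_lit 395) (nat_lit 1) (nat_lit 379) (nat_lit 1) (nat_lit 378) (nat_lit 1) (nat_lit 211) (nat_lit 409) (nat_lit 400))) (XT.nd (nat_lit 78) (nat_lit 0) (nat_lit 0) (XT.lf (nat_lit 1292) (nat_lit 1645718950) (nat_lit 0) (nat_lit 23717540115) (nat_lit 1216) (nat_lit 1645718950) (nat_lit 396) (nat_lit 1) (nat_lit 379) (nat_lit 1) (nat_lit 395) (nat_lit 1) (nat_lit 212) (nat_lit 409) (nat_lit 399)) (XT.nd (nat_lit 78) (nat_lit 0) (nat_lit 76) (XT.lf (nat_lit 1292) (nat_lit 1817398828) (nat_lit 76) (nat_lit 12407107778) (nat_lit 0) (nat_lit 12407107778) (nat_lit 396) (nat_lit 1) (nat_lit 380) (nat_lit 1) (nat_lit 379) (nat_lit 1) (nat_lit 213) (nat_lit 409) (nat_lit 398)) (XT.lf (nat_lit 1292) (nat_lit 184149443) (nat_lit 0) (nat_lit 25896418944) (nat_lit 1216) (nat_lit 184149443) (nat_lit 397) (nat_lit 1) (nat_lit 380) (nat_lit 1) (nat_lit 396)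 (nat_lit 1) (nat_lit 214) (nat_lit 409) (nat_lit 397))))))))
noncomputable def ec353 : XT := (XT.nd (nat_lit 1482) (nat_lit 4788) (nat_lit 0) (XT.nd (nat_lit 702) (nat_lit 3344) (nat_lit 0) (XT.nd (nat_lit 312) (nat_lit 1292) (nat_lit 0) (XT.nd (nat_lit 156) (nat_lit 0) (nat_lit 76) (XT.nd (nat_lit 78) (nat_lit 0) (nat_lit 0) (XT.lf (nat_lit 1368) (nat_lit 12316740171) (nat_lit 0) (nat_lit 1267259767) (nat_lit 1292) (nat_lit 12316740171) (nat_lit 381) (nat_lit 1) (nat_lit 363) (nat_lit 1) (nat_lit 380) (nat_lit 1) (nat_lit 215) (nat_lit 409) (nat_lit 396)) (XT.lf (nat_lit 1368) (nat_lit 22683057107) (nat_lit 76) (nat_lit 1431868716) (nat_lit 0) (nat_lit 1431868716) (nat_lit 381) (nat_lit 1) (nat_lit 364) (nat_lit 1) (nat_lit 363) (nat_lit 1) (nat_lit 216) (nat_lit 409) (nat_lit 395))) (XT.nd (nat_lit 78) (nat_lit 0) (nat_lit 0) (XT.lf (nat_lit 1368) (nat_lit 10282428795) (nat_lit 0) (nat_lit 4631759170)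 (nat_lit 1292) (nat_lit 10282428795) (nat_lit 382) (nat_lit 1) (nat_lit 364) (nat_lit 1) (nat_lit 381) (nat_lit 1) (nat_lit 217) (nat_lit 409) (nat_lit 394)) (XT.lf (nat_lit 1368) (nat_lit 18462943804) (nat_lit 76) (nat_lit 3196185964) (nat_lit 0) (nat_lit 3196185964) (nat_lit 382) (nat_lit 1) (nat_lit 365) (nat_lit 1) (nat_lit 364) (nat_lit 1) (nat_lit 218) (nat_lit 409) (nat_lit 393)))) (XT.nd (nat_lit 156) (nat_lit 608) (nat_lit 0) (XT.nd (nat_lit 78) (nat_lit 836) (nat_lit 0) (XT.lf (nat_lit 76) (nat_lit 8119724691) (nat_lit 0) (nat_lit 8279181814) (nat_lit 1292) (nat_lit 8119724691) (nat_lit 366) (nat_lit 1) (nat_lit 365) (nat_lit 1) (nat_lit 382) (nat_lit 1) (nat_lit 219) (nat_lit 409) (nat_lit 392)) (XT.lf (nat_lit 912) (nat_lit 13999548485) (nat_lit 0) (nat_lit 5094920195) (nat_lit 836) (nat_lit 5094920195) (nat_lit 366) (nat_lit 1) (nat_lit 354) (nat_lit 1) (nat_lit 365) (nat_lit 1) (nat_lit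 220) (nat_lit 409) (nat_lit 391))) (XT.nd (nat_lit 78) (nat_lit 608) (nat_lit 0) (XT.lf (nat_lit 76) (nat_lit 5843139014) (nat_lit 0) (nat_lit 12179420943) (nat_lit 912) (nat_lit 5843139014) (nat_lit 355) (nat_lit 1) (nat_lit 354) (nat_lit 1) (nat_lit 366) (nat_lit 1) (nat_lit 221) (nat_lit 409) (nat_lit 390)) (XT.nd (nat_lit 78) (nat_lit 0) (nat_lit 0) (XT.lf (nat_lit 684) (nat_lit 9320978295) (nat_lit 0) (nat_lit 7113490393) (nat_lit 608) (nat_lit 7113490393) (nat_lit 355) (nat_lit 1) (nat_lit 346) (nat_lit 1) (nat_lit 354) (nat_lit 1) (nat_lit 222) (nat_lit 409) (nat_lit 389)) (XT.lf (nat_lit 76) (nat_lit 3466141936) (nat_lit 0) (nat_lit 16304501911) (nat_lit 684) (nat_lit 3466141936) (nat_lit 347) (nat_lit 1) (nat_lit 346) (nat_lit 1) (nat_lit 355) (nat_lit 1) (nat_lit 223) (nat_lit 409) (nat_lit 388)))))) (XT.nd (nat_lit 390) (nat_lit 1520) (nat_lit 0) (XT.nd (nat_lit 156) (nat_lit 1216) (nat_lit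 0) (XT.nd (nat_lit 78) (nat_lit 0) (nat_lit 0) (XT.lf (nat_lit 684) (nat_lit 4453315015) (nat_lit 0) (nat_lit 9238352500) (nat_lit 608) (nat_lit 9238352500) (nat_lit 347) (nat_lit 1) (nat_lit 338) (nat_lit 1) (nat_lit 346) (nat_lit 1) (nat_lit 224) (nat_lit 409) (nat_lit 387)) (XT.lf (nat_lit 76) (nat_lit 1001228453) (nat_lit 0) (nat_lit 20628448028) (nat_lit 684) (nat_lit 1001228453) (nat_lit 339) (nat_lit 1) (nat_lit 338) (nat_lit 1) (nat_lit 347) (nat_lit 1) (nat_lit 225) (nat_lit 409) (nat_lit 386))) (XT.nd (nat_lit 78) (nat_lit 608) (nat_lit 0) (XT.lf (nat_lit 76) (nat_lit 10883245567) (nat_lit 0) (nat_lit 567953287) (nat_lit 608) (nat_lit 10883245567) (nat_lit 331) (nat_lit 1) (nat_lit 330) (nat_lit 1) (nat_lit 338) (nat_lit 1) (nat_lit 226) (nat_lit 409) (nat_lit 385)) (XT.nd (nat_lit 78) (nat_lit 0) (nat_lit 0) (XT.lf (nat_lit 684) (nat_lit 18995486519) (nat_lit 0) (nat_lit 1524921514) (nat_lit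 608) (nat_lit 1524921514) (nat_lit 331) (nat_lit 1) (nat_lit 322) (nat_lit 1) (nat_lit 330) (nat_lit 1) (nat_lit 227) (nat_lit 409) (nat_lit 384)) (XT.lf (nat_lit 76) (nat_lit 8058558326) (nat_lit 0) (nat_lit 5642040955) (nat_lit 684) (nat_lit 8058558326) (nat_lit 323) (nat_lit 1) (nat_lit 322) (nat_lit 1) (nat_lit 331) (nat_lit 1) (nat_lit 228) (nat_lit 409) (nat_lit 383))))) (XT.nd (nat_lit 156) (nat_lit 988) (nat_lit 0) (XT.nd (nat_lit 78) (nat_lit 0) (nat_lit 0) (XT.lf (nat_lit 608) (nat_lit 13267268674) (nat_lit 0) (nat_lit 4106220503) (nat_lit 532) (nat_lit 4106220503) (nat_lit 323) (nat_lit 1) (nat_lit 315) (nat_lit 1) (nat_lit 322) (nat_lit 1) (nat_lit 229) (nat_lit 409) (nat_lit 382)) (XT.lf (nat_lit 76) (nat_lit 5184533440) (nat_lit 0) (nat_lit 10835508142) (nat_lit 608) (nat_lit 5184533440) (nat_lit 316) (nat_lit 1) (nat_lit 315) (nat_lit 1) (nat_lit 323) (nat_lit 1) (nat_lit 230) (nat_lit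 409) (nat_lit 381))) (XT.nd (nat_lit 78) (nat_lit 456) (nat_lit 0) (XT.lf (nat_lit 608) (nat_lit 7449048261) (nat_lit 0) (nat_lit 6742655821) (nat_lit 532) (nat_lit 6742655821) (nat_lit 316) (nat_lit 1) (nat_lit 308) (nat_lit 1) (nat_lit 315) (nat_lit 1) (nat_lit 231) (nat_lit 409) (nat_lit 380)) (XT.nd (nat_lit 78) (nat_lit 456) (nat_lit 0) (XT.lf (nat_lit 76) (nat_lit 2270162886) (nat_lit 0) (nat_lit 16129541210) (nat_lit 608) (nat_lit 2270162886) (nat_lit 309) (nat_lit 1) (nat_lit 308) (nat_lit 1) (nat_lit 316) (nat_lit 1) (nat_lit 232) (nat_lit 409) (nat_lit 379)) (XT.lf (nat_lit 532) (nat_lit 1558190601) (nat_lit 0) (nat_lit 9425140665) (nat_lit 456) (nat_lit 9425140665) (nat_lit 309) (nat_lit 1) (nat_lit 302) (nat_lit 1) (nat_lit 308) (nat_lit 1) (nat_lit 233) (nat_lit 409) (nat_lit 378))))))) (XT.nd (nat_lit 702) (nat_lit 2356) (nat_lit 0) (XT.nd (nat_lit 312) (nat_lit 1368) (nat_lit 0) (XT.nd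 (nat_lit 156) (nat_lit 456) (nat_lit 0) (XT.nd (nat_lit 78) (nat_lit 0) (nat_lit 0) (XT.lf (nat_lit 608) (nat_lit 18814203016) (nat_lit 0) (nat_lit 669626977) (nat_lit 532) (nat_lit 669626977) (nat_lit 302) (nat_lit 1) (nat_lit 294) (nat_lit 1) (nat_lit 301) (nat_lit 1) (nat_lit 234) (nat_lit 409) (nat_lit 377)) (XT.lf (nat_lit 76) (nat_lit 7798183756) (nat_lit 0) (nat_lit 4303640247) (nat_lit 608) (nat_lit 7798183756) (nat_lit 295) (nat_lit 1) (nat_lit 294) (nat_lit 1) (nat_lit 302) (nat_lit 1) (nat_lit 235) (nat_lit 409) (nat_lit 376))) (XT.nd (nat_lit 78) (nat_lit 0) (nat_lit 0) (XT.lf (nat_lit 532) (nat_lit 12430062820) (nat_lit 0) (nat_lit 3611324417) (nat_lit 456) (nat_lit 3611324417) (nat_lit 295) (nat_lit 1) (nat_lit 288) (nat_lit 1) (nat_lit 294) (nat_lit 1) (nat_lit 236) (nat_lit 409) (nat_lit 375)) (XT.lf (nat_lit 76) (nat_lit 4616455333) (nat_lit 0) (nat_lit 10176123122) (nat_lit 532) (nat_lit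 4616455333) (nat_lit 289) (nat_lit 1) (nat_lit 288) (nat_lit 1) (nat_lit 295) (nat_lit 1) (nat_lit 237) (nat_lit 409) (nat_lit 374)))) (XT.nd (nat_lit 156) (nat_lit 912) (nat_lit 0) (XT.nd (nat_lit 78) (nat_lit 0) (nat_lit 0) (XT.lf (nat_lit 532) (nat_lit 6029113535) (nat_lit 0) (nat_lit 6570216998) (nat_lit 456) (nat_lit 6570216998) (nat_lit 289) (nat_lit 1) (nat_lit 282) (nat_lit 1) (nat_lit 288) (nat_lit 1) (nat_lit 238) (nat_lit 409) (nat_lit 373)) (XT.lf (nat_lit 76) (nat_lit 1429468345) (nat_lit 0) (nat_lit 16076361247) (nat_lit 532) (nat_lit 1429468345) (nat_lit 283) (nat_lit 1) (nat_lit 282) (nat_lit 1) (nat_lit 289) (nat_lit 1) (nat_lit 239) (nat_lit 409) (nat_lit 372))) (XT.nd (nat_lit 78) (nat_lit 456) (nat_lit 0) (XT.lf (nat_lit 76) (nat_lit 9167001422) (nat_lit 0) (nat_lit 369169100) (nat_lit 456) (nat_lit 9167001422) (nat_lit 277) (nat_lit 1) (nat_lit 276) (nat_lit 1) (nat_lit 282) (nat_lit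 1) (nat_lit 240) (nat_lit 409) (nat_lit 371)) (XT.nd (nat_lit 78) (nat_lit 0) (nat_lit 0) (XT.lf (nat_lit 532) (nat_lit 14996538657) (nat_lit 0) (nat_lit 1739776932) (nat_lit 456) (nat_lit 1739776932) (nat_lit 277) (nat_lit 1) (nat_lit 270) (nat_lit 1) (nat_lit 276) (nat_lit 1) (nat_lit 241) (nat_lit 409) (nat_lit 370)) (XT.lf (nat_lit 76) (nat_lit 5803900791) (nat_lit 0) (nat_lit 6643500800) (nat_lit 532) (nat_lit 5803900791) (nat_lit 271) (nat_lit 1) (nat_lit 270) (nat_lit 1) (nat_lit 277) (nat_lit 1) (nat_lit 242) (nat_lit 409) (nat_lit 369)))))) (XT.nd (nat_lit 390) (nat_lit 1140) (nat_lit 0) (XT.nd (nat_lit 156) (nat_lit 836) (nat_lit 0) (XT.nd (nat_lit 78) (nat_lit 0) (nat_lit 0) (XT.lf (nat_lit 456) (nat_lit 8252633228) (nat_lit 0) (nat_lit 4889264621) (nat_lit 380) (nat_lit 4889264621) (nat_lit 271) (nat_lit 1) (nat_lit 265) (nat_lit 1) (nat_lit 270) (nat_lit 1) (nat_lit 243) (nat_lit 409) (nat_lit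 368)) (XT.lf (nat_lit 76) (nat_lit 2456739491) (nat_lit 0) (nat_lit 12901575537) (nat_lit 456) (nat_lit 2456739491) (nat_lit 266) (nat_lit 1) (nat_lit 265) (nat_lit 1) (nat_lit 271) (nat_lit 1) (nat_lit 244) (nat_lit 409) (nat_lit 367))) (XT.nd (nat_lit 78) (nat_lit 456) (nat_lit 0) (XT.lf (nat_lit 456) (nat_lit 1545095623) (nat_lit 0) (nat_lit 8028230647) (nat_lit 380) (nat_lit 8028230647) (nat_lit 266) (nat_lit 1) (nat_lit 260) (nat_lit 1) (nat_lit 265) (nat_lit 1) (nat_lit 245) (nat_lit 409) (nat_lit 366)) (XT.nd (nat_lit 78) (nat_lit 0) (nat_lit 0) (XT.lf (nat_lit 456) (nat_lit 15669409263) (nat_lit 0) (nat_lit 861706977) (nat_lit 380) (nat_lit 861706977) (nat_lit 260) (nat_lit 1) (nat_lit 254) (nat_lit 1) (nat_lit 259) (nat_lit 1) (nat_lit 246) (nat_lit 409) (nat_lit 365)) (XT.lf (nat_lit 76) (nat_lit 6083570935) (nat_lit 0) (nat_lit 5018075958) (nat_lit 456) (nat_lit 6083570935) (nat_lit 255)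 (nat_lit 1) (nat_lit 254) (nat_lit 1) (nat_lit 260) (nat_lit 1) (nat_lit 247) (nat_lit 409) (nat_lit 364))))) (XT.nd (nat_lit 156) (nat_lit 760) (nat_lit 0) (XT.nd (nat_lit 78) (nat_lit 0) (nat_lit 0) (XT.lf (nat_lit 456) (nat_lit 8717685442) (nat_lit 0) (nat_lit 4132270419) (nat_lit 380) (nat_lit 4132270419) (nat_lit 255) (nat_lit 1) (nat_lit 249) (nat_lit 1) (nat_lit 254) (nat_lit 1) (nat_lit 248) (nat_lit 409) (nat_lit 363)) (XT.lf (nat_lit 76) (nat_lit 2641192450) (nat_lit 0) (nat_lit 11500248215) (nat_lit 456) (nat_lit 2641192450) (nat_lit 250) (nat_lit 1) (nat_lit 249) (nat_lit 1) (nat_lit 255) (nat_lit 1) (nat_lit 249) (nat_lit 409) (nat_lit 362))) (XT.nd (nat_lit 78) (nat_lit 456) (nat_lit 0) (XT.lf (nat_lit 380) (nat_lit 1834394126) (nat_lit 0) (nat_lit 7375587655) (nat_lit 304) (nat_lit 7375587655) (nat_lit 250) (nat_lit 1) (nat_lit 245) (nat_lit 1) (nat_lit 249) (nat_lit 1) (nat_lit 250)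 (nat_lit 409) (nat_lit 361)) (XT.nd (nat_lit 78) (nat_lit 0) (nat_lit 0) (XT.lf (nat_lit 456) (nat_lit 14876509820) (nat_lit 0) (nat_lit 758159495) (nat_lit 380) (nat_lit 758159495) (nat_lit 245) (nat_lit 1) (nat_lit 239) (nat_lit 1) (nat_lit 244) (nat_lit 1) (nat_lit 251) (nat_lit 409) (nat_lit 360)) (XT.lf (nat_lit 76) (nat_lit 5661605371) (nat_lit 0) (nat_lit 4877687590) (nat_lit 456) (nat_lit 5661605371) (nat_lit 240) (nat_lit 1) (nat_lit 239) (nat_lit 1) (nat_lit 245) (nat_lit 1) (nat_lit 252) (nat_lit 409) (nat_lit 359))))))))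
noncomputable def ec354 : XT := (XT.nd (nat_lit 1482) (nat_lit 2508) (nat_lit 0) (XT.nd (nat_lit 702) (nat_lit 1596) (nat_lit 0) (XT.nd (nat_lit 312) (nat_lit 912) (nat_lit 0) (XT.nd (nat_lit 156) (nat_lit 684) (nat_lit 0) (XT.nd (nat_lit 78) (nat_lit 0) (nat_lit 0) (XT.lf (nat_lit 380) (nat_lit 7825585348) (nat_lit 0) (nat_lit 4093789944) (nat_lit 304) (nat_lit 4093789944) (nat_lit 240) (nat_lit 1) (nat_lit 235) (nat_lit 1) (nat_lit 239) (nat_lit 1) (nat_lit 253) (nat_lit 409) (nat_lit 358)) (XT.lf (nat_lit 76) (nat_lit 2176175747) (nat_lit 0) (nat_lit 11476291869) (nat_lit 380) (nat_lit 2176175747) (nat_lit 236) (nat_lit 1) (nat_lit 235) (nat_lit 1) (nat_lit 240) (nat_lit 1) (nat_lit 254) (nat_lit 409) (nat_lit 357))) (XT.nd (nat_lit 78) (nat_lit 380) (nat_lit 0) (XT.lf (nat_lit 380) (nat_lit 867767126) (nat_lit 0) (nat_lit 7389225860) (nat_lit 304) (nat_lit 7389225860) (nat_lit 236) (nat_lit 1) (nat_lit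 231) (nat_lit 1) (nat_lit 235) (nat_lit 1) (nat_lit 255) (nat_lit 409) (nat_lit 356)) (XT.lf (nat_lit 380) (nat_lit 12968222415) (nat_lit 0) (nat_lit 1249585984) (nat_lit 304) (nat_lit 1249585984) (nat_lit 231) (nat_lit 1) (nat_lit 226) (nat_lit 1) (nat_lit 230) (nat_lit 1) (nat_lit 256) (nat_lit 409) (nat_lit 355)))) (XT.nd (nat_lit 156) (nat_lit 608) (nat_lit 0) (XT.nd (nat_lit 78) (nat_lit 304) (nat_lit 0) (XT.lf (nat_lit 76) (nat_lit 4706766192) (nat_lit 0) (nat_lit 5876263305) (nat_lit 380) (nat_lit 4706766192) (nat_lit 227) (nat_lit 1) (nat_lit 226) (nat_lit 1) (nat_lit 231) (nat_lit 1) (nat_lit 257) (nat_lit 409) (nat_lit 354)) (XT.lf (nat_lit 380) (nat_lit 5904766592) (nat_lit 0) (nat_lit 4605462604) (nat_lit 304) (nat_lit 4605462604) (nat_lit 227) (nat_lit 1) (nat_lit 222) (nat_lit 1) (nat_lit 226) (nat_lit 1) (nat_lit 258) (nat_lit 409) (nat_lit 353))) (XT.nd (nat_lit 78) (nat_lit 608) (nat_lit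 0) (XT.lf (nat_lit 76) (nat_lit 1219867412) (nat_lit 0) (nat_lit 12505221265) (nat_lit 380) (nat_lit 1219867412) (nat_lit 223) (nat_lit 1) (nat_lit 222) (nat_lit 1) (nat_lit 227) (nat_lit 1) (nat_lit 259) (nat_lit 409) (nat_lit 352)) (XT.nd (nat_lit 78) (nat_lit 304) (nat_lit 0) (XT.lf (nat_lit 76) (nat_lit 6874388398) (nat_lit 0) (nat_lit 1026543663) (nat_lit 304) (nat_lit 6874388398) (nat_lit 219) (nat_lit 1) (nat_lit 218) (nat_lit 1) (nat_lit 222) (nat_lit 1) (nat_lit 260) (nat_lit 409) (nat_lit 351)) (XT.lf (nat_lit 380) (nat_lit 10230548190) (nat_lit 0) (nat_lit 2189205653) (nat_lit 304) (nat_lit 2189205653) (nat_lit 219) (nat_lit 1) (nat_lit 214) (nat_lit 1) (nat_lit 218) (nat_lit 1) (nat_lit 261) (nat_lit 409) (nat_lit 350)))))) (XT.nd (nat_lit 390) (nat_lit 760) (nat_lit 0) (XT.nd (nat_lit 156) (nat_lit 608) (nat_lit 0) (XT.nd (nat_lit 78) (nat_lit 228) (nat_lit 0) (XT.lf (nat_lit 76) (nat_lit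 3356749852) (nat_lit 0) (nat_lit 7730994025) (nat_lit 380) (nat_lit 3356749852) (nat_lit 215) (nat_lit 1) (nat_lit 214) (nat_lit 1) (nat_lit 219) (nat_lit 1) (nat_lit 262) (nat_lit 409) (nat_lit 349)) (XT.lf (nat_lit 304) (nat_lit 3223095465) (nat_lit 0) (nat_lit 5529757584) (nat_lit 228) (nat_lit 5529757584) (nat_lit 215) (nat_lit 1) (nat_lit 211) (nat_lit 1) (nat_lit 214) (nat_lit 1) (nat_lit 263) (nat_lit 409) (nat_lit 348))) (XT.nd (nat_lit 78) (nat_lit 228) (nat_lit 0) (XT.lf (nat_lit 380) (nat_lit 13928777087) (nat_lit 0) (nat_lit 97810751) (nat_lit 304) (nat_lit 97810751) (nat_lit 211) (nat_lit 1) (nat_lit 206) (nat_lit 1) (nat_lit 210) (nat_lit 1) (nat_lit 264) (nat_lit 409) (nat_lit 347)) (XT.nd (nat_lit 78) (nat_lit 228) (nat_lit 0) (XT.lf (nat_lit 76) (nat_lit 5189140860) (nat_lit 0) (nat_lit 3587593787) (nat_lit 380) (nat_lit 5189140860) (nat_lit 207) (nat_lit 1) (nat_lit 206) (nat_lit 1)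 (nat_lit 211) (nat_lit 1) (nat_lit 265) (nat_lit 409) (nat_lit 346)) (XT.lf (nat_lit 304) (nat_lit 6896026353) (nat_lit 0) (nat_lit 3457459403) (nat_lit 228) (nat_lit 3457459403) (nat_lit 207) (nat_lit 1) (nat_lit 203) (nat_lit 1) (nat_lit 206) (nat_lit 1) (nat_lit 266) (nat_lit 409) (nat_lit 345))))) (XT.nd (nat_lit 156) (nat_lit 456) (nat_lit 0) (XT.nd (nat_lit 78) (nat_lit 304) (nat_lit 0) (XT.lf (nat_lit 76) (nat_lit 1723459205) (nat_lit 0) (nat_lit 10211620273) (nat_lit 304) (nat_lit 1723459205) (nat_lit 204) (nat_lit 1) (nat_lit 203) (nat_lit 1) (nat_lit 207) (nat_lit 1) (nat_lit 267) (nat_lit 409) (nat_lit 344)) (XT.lf (nat_lit 76) (nat_lit 6752923370) (nat_lit 0) (nat_lit 1808018) (nat_lit 304) (nat_lit 6752923370) (nat_lit 200) (nat_lit 1) (nat_lit 199) (nat_lit 1) (nat_lit 203) (nat_lit 1) (nat_lit 268) (nat_lit 409) (nat_lit 343))) (XT.nd (nat_lit 78) (nat_lit 228) (nat_lit 0) (XT.lf (nat_lit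 304) (nat_lit 10041930852) (nat_lit 0) (nat_lit 1658647134) (nat_lit 228) (nat_lit 1658647134) (nat_lit 200) (nat_lit 1) (nat_lit 196) (nat_lit 1) (nat_lit 199) (nat_lit 1) (nat_lit 269) (nat_lit 409) (nat_lit 342)) (XT.nd (nat_lit 78) (nat_lit 228) (nat_lit 0) (XT.lf (nat_lit 76) (nat_lit 3289740330) (nat_lit 0) (nat_lit 6632742140) (nat_lit 304) (nat_lit 3289740330) (nat_lit 197) (nat_lit 1) (nat_lit 196) (nat_lit 1) (nat_lit 200) (nat_lit 1) (nat_lit 270) (nat_lit 409) (nat_lit 341)) (XT.lf (nat_lit 304) (nat_lit 3152851648) (nat_lit 0) (nat_lit 4957378232) (nat_lit 228) (nat_lit 4957378232) (nat_lit 197) (nat_lit 1) (nat_lit 193) (nat_lit 1) (nat_lit 196) (nat_lit 1) (nat_lit 271) (nat_lit 409) (nat_lit 340))))))) (XT.nd (nat_lit 702) (nat_lit 1064) (nat_lit 0) (XT.nd (nat_lit 312) (nat_lit 912) (nat_lit 0) (XT.nd (nat_lit 156) (nat_lit 228) (nat_lit 0) (XT.nd (nat_lit 78) (nat_lit 0) (nat_lit 0)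 (XT.lf (nat_lit 304) (nat_lit 12723000017) (nat_lit 0) (nat_lit 101588665) (nat_lit 228) (nat_lit 101588665) (nat_lit 193) (nat_lit 1) (nat_lit 189) (nat_lit 1) (nat_lit 192) (nat_lit 1) (nat_lit 272) (nat_lit 409) (nat_lit 339)) (XT.lf (nat_lit 76) (nat_lit 4630143274) (nat_lit 0) (nat_lit 3524027608) (nat_lit 304) (nat_lit 4630143274) (nat_lit 190) (nat_lit 1) (nat_lit 189) (nat_lit 1) (nat_lit 193) (nat_lit 1) (nat_lit 273) (nat_lit 409) (nat_lit 338))) (XT.nd (nat_lit 78) (nat_lit 0) (nat_lit 0) (XT.lf (nat_lit 304) (nat_lit 5863879522) (nat_lit 0) (nat_lit 3390848545) (nat_lit 228) (nat_lit 3390848545) (nat_lit 190) (nat_lit 1) (nat_lit 186) (nat_lit 1) (nat_lit 189) (nat_lit 1) (nat_lit 274) (nat_lit 409) (nat_lit 337)) (XT.lf (nat_lit 76) (nat_lit 1254169379) (nat_lit 0) (nat_lit 10000850194) (nat_lit 304) (nat_lit 1254169379) (nat_lit 187) (nat_lit 1) (nat_lit 186) (nat_lit 1) (nat_lit 190)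 (nat_lit 1) (nat_lit 275) (nat_lit 409) (nat_lit 336)))) (XT.nd (nat_lit 156) (nat_lit 456) (nat_lit 0) (XT.nd (nat_lit 78) (nat_lit 228) (nat_lit 0) (XT.lf (nat_lit 76) (nat_lit 5771348155) (nat_lit 0) (nat_lit 830977279) (nat_lit 228) (nat_lit 5771348155) (nat_lit 184) (nat_lit 1) (nat_lit 183) (nat_lit 1) (nat_lit 186) (nat_lit 1) (nat_lit 276) (nat_lit 409) (nat_lit 335)) (XT.lf (nat_lit 304) (nat_lit 8183390394) (nat_lit 0) (nat_lit 2028532969) (nat_lit 228) (nat_lit 2028532969) (nat_lit 184) (nat_lit 1) (nat_lit 180) (nat_lit 1) (nat_lit 183) (nat_lit 1) (nat_lit 277) (nat_lit 409) (nat_lit 334))) (XT.nd (nat_lit 78) (nat_lit 456) (nat_lit 0) (XT.lf (nat_lit 76) (nat_lit 2420452336) (nat_lit 0) (nat_lit 7267854606) (nat_lit 304) (nat_lit 2420452336) (nat_lit 181) (nat_lit 1) (nat_lit 180) (nat_lit 1) (nat_lit 184) (nat_lit 1) (nat_lit 278) (nat_lit 409) (nat_lit 333)) (XT.nd (nat_lit 78) (nat_lit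 304) (nat_lit 0) (XT.lf (nat_lit 228) (nat_lit 1524519428) (nat_lit 0) (nat_lit 5227151644) (nat_lit 152) (nat_lit 5227151644) (nat_lit 181) (nat_lit 1) (nat_lit 178) (nat_lit 1) (nat_lit 180) (nat_lit 1) (nat_lit 279) (nat_lit 409) (nat_lit 332)) (XT.lf (nat_lit 304) (nat_lit 10157641604) (nat_lit 0) (nat_lit 846799013) (nat_lit 228) (nat_lit 846799013) (nat_lit 178) (nat_lit 1) (nat_lit 174) (nat_lit 1) (nat_lit 177) (nat_lit 1) (nat_lit 280) (nat_lit 409) (nat_lit 331)))))) (XT.nd (nat_lit 390) (nat_lit 532) (nat_lit 0) (XT.nd (nat_lit 156) (nat_lit 380) (nat_lit 0) (XT.nd (nat_lit 78) (nat_lit 152) (nat_lit 0) (XT.lf (nat_lit 76) (nat_lit 3418636751) (nat_lit 0) (nat_lit 4886742976) (nat_lit 304) (nat_lit 3418636751) (nat_lit 175) (nat_lit 1) (nat_lit 174) (nat_lit 1) (nat_lit 178) (nat_lit 1) (nat_lit 281) (nat_lit 409) (nat_lit 330)) (XT.lf (nat_lit 228) (nat_lit 3565705907) (nat_lit 0) (nat_lit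 4016698767) (nat_lit 152) (nat_lit 4016698767) (nat_lit 175) (nat_lit 1) (nat_lit 172) (nat_lit 1) (nat_lit 174) (nat_lit 1) (nat_lit 282) (nat_lit 409) (nat_lit 329))) (XT.nd (nat_lit 78) (nat_lit 380) (nat_lit 0) (XT.lf (nat_lit 76) (nat_lit 177061334) (nat_lit 0) (nat_lit 11122677705) (nat_lit 228) (nat_lit 177061334) (nat_lit 173) (nat_lit 1) (nat_lit 172) (nat_lit 1) (nat_lit 175) (nat_lit 1) (nat_lit 283) (nat_lit 409) (nat_lit 328)) (XT.nd (nat_lit 78) (nat_lit 152) (nat_lit 0) (XT.lf (nat_lit 76) (nat_lit 4268575835) (nat_lit 0) (nat_lit 2816903270) (nat_lit 228) (nat_lit 4268575835) (nat_lit 170) (nat_lit 1) (nat_lit 169) (nat_lit 1) (nat_lit 172) (nat_lit 1) (nat_lit 284) (nat_lit 409) (nat_lit 327)) (XT.lf (nat_lit 228) (nat_lit 5314870061) (nat_lit 0) (nat_lit 2959505444) (nat_lit 152) (nat_lit 2959505444) (nat_lit 170) (nat_lit 1) (nat_lit 167) (nat_lit 1) (nat_lit 169) (nat_lit 1) (nat_lit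 285) (nat_lit 409) (nat_lit 326))))) (XT.nd (nat_lit 156) (nat_lit 304) (nat_lit 0) (XT.nd (nat_lit 78) (nat_lit 228) (nat_lit 0) (XT.lf (nat_lit 76) (nat_lit 1066909419) (nat_lit 0) (nat_lit 8981855642) (nat_lit 228) (nat_lit 1066909419) (nat_lit 168) (nat_lit 1) (nat_lit 167) (nat_lit 1) (nat_lit 170) (nat_lit 1) (nat_lit 286) (nat_lit 409) (nat_lit 325)) (XT.lf (nat_lit 76) (nat_lit 4987876633) (nat_lit 0) (nat_lit 1022292196) (nat_lit 228) (nat_lit 4987876633) (nat_lit 165) (nat_lit 1) (nat_lit 164) (nat_lit 1) (nat_lit 167) (nat_lit 1) (nat_lit 287) (nat_lit 409) (nat_lit 324))) (XT.nd (nat_lit 78) (nat_lit 152) (nat_lit 0) (XT.lf (nat_lit 228) (nat_lit 6806451992) (nat_lit 0) (nat_lit 2037948872) (nat_lit 152) (nat_lit 2037948872) (nat_lit 165) (nat_lit 1) (nat_lit 162) (nat_lit 1) (nat_lit 164) (nat_lit 1) (nat_lit 288) (nat_lit 409) (nat_lit 323)) (XT.nd (nat_lit 78) (nat_lit 152) (nat_lit 0)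 (XT.lf (nat_lit 76) (nat_lit 1831034924) (nat_lit 0) (nat_lit 7105991105) (nat_lit 228) (nat_lit 1831034924) (nat_lit 163) (nat_lit 1) (nat_lit 162) (nat_lit 1) (nat_lit 165) (nat_lit 1) (nat_lit 289) (nat_lit 409) (nat_lit 322)) (XT.lf (nat_lit 228) (nat_lit 539605073) (nat_lit 0) (nat_lit 5057733388) (nat_lit 152) (nat_lit 5057733388) (nat_lit 163) (nat_lit 1) (nat_lit 160) (nat_lit 1) (nat_lit 162) (nat_lit 1) (nat_lit 290) (nat_lit 409) (nat_lit 321))))))))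
noncomputable def ec355 : XT := (XT.nd (nat_lit 1482) (nat_lit 1748) (nat_lit 0) (XT.nd (nat_lit 702) (nat_lit 912) (nat_lit 0) (XT.nd (nat_lit 312) (nat_lit 456) (nat_lit 0) (XT.nd (nat_lit 156) (nat_lit 380) (nat_lit 0) (XT.nd (nat_lit 78) (nat_lit 0) (nat_lit 0) (XT.lf (nat_lit 228) (nat_lit 8070996653) (nat_lit 0) (nat_lit 1236386921) (nat_lit 152) (nat_lit 1236386921) (nat_lit 160) (nat_lit 1) (nat_lit 157) (nat_lit 1) (nat_lit 159) (nat_lit 1) (nat_lit 291) (nat_lit 409) (nat_lit 320)) (XT.lf (nat_lit 76) (nat_lit 2484229188) (nat_lit 0) (nat_lit 5464773973) (nat_lit 228) (nat_lit 2484229188) (nat_lit 158) (nat_lit 1) (nat_lit 157) (nat_lit 1) (nat_lit 160) (nat_lit 1) (nat_lit 292) (nat_lit 409) (nat_lit 319))) (XT.nd (nat_lit 78) (nat_lit 228) (nat_lit 0) (XT.lf (nat_lit 228) (nat_lit 1902709077) (nat_lit 0) (nat_lit 4210822106) (nat_lit 152) (nat_lit 4210822106) (nat_lit 158) (nat_lit 1) (nat_lit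 155) (nat_lit 1) (nat_lit 157) (nat_lit 1) (nat_lit 293) (nat_lit 409) (nat_lit 318)) (XT.lf (nat_lit 228) (nat_lit 9135589791) (nat_lit 0) (nat_lit 540936818) (nat_lit 152) (nat_lit 540936818) (nat_lit 155) (nat_lit 1) (nat_lit 152) (nat_lit 1) (nat_lit 154) (nat_lit 1) (nat_lit 294) (nat_lit 409) (nat_lit 317)))) (XT.nd (nat_lit 156) (nat_lit 304) (nat_lit 0) (XT.nd (nat_lit 78) (nat_lit 152) (nat_lit 0) (XT.lf (nat_lit 76) (nat_lit 3039611645) (nat_lit 0) (nat_lit 4031296345) (nat_lit 228) (nat_lit 3039611645) (nat_lit 153) (nat_lit 1) (nat_lit 152) (nat_lit 1) (nat_lit 155) (nat_lit 1) (nat_lit 295) (nat_lit 409) (nat_lit 316)) (XT.lf (nat_lit 228) (nat_lit 3072354661) (nat_lit 0) (nat_lit 3466592455) (nat_lit 152) (nat_lit 3466592455) (nat_lit 153) (nat_lit 1) (nat_lit 150) (nat_lit 1) (nat_lit 152) (nat_lit 1) (nat_lit 296) (nat_lit 409) (nat_lit 315))) (XT.nd (nat_lit 78) (nat_lit 304) (nat_lit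 0) (XT.lf (nat_lit 76) (nat_lit 61322688) (nat_lit 0) (nat_lit 9780085803) (nat_lit 228) (nat_lit 61322688) (nat_lit 151) (nat_lit 1) (nat_lit 150) (nat_lit 1) (nat_lit 153) (nat_lit 1) (nat_lit 297) (nat_lit 409) (nat_lit 314)) (XT.nd (nat_lit 78) (nat_lit 152) (nat_lit 0) (XT.lf (nat_lit 76) (nat_lit 3508816925) (nat_lit 0) (nat_lit 2781672502) (nat_lit 152) (nat_lit 3508816925) (nat_lit 149) (nat_lit 1) (nat_lit 148) (nat_lit 1) (nat_lit 150) (nat_lit 1) (nat_lit 298) (nat_lit 409) (nat_lit 313)) (XT.lf (nat_lit 228) (nat_lit 4071322362) (nat_lit 0) (nat_lit 2813354102) (nat_lit 152) (nat_lit 2813354102) (nat_lit 149) (nat_lit 1) (nat_lit 146) (nat_lit 1) (nat_lit 148) (nat_lit 1) (nat_lit 299) (nat_lit 409) (nat_lit 312)))))) (XT.nd (nat_lit 390) (nat_lit 456) (nat_lit 0) (XT.nd (nat_lit 156) (nat_lit 304) (nat_lit 0) (XT.nd (nat_lit 78) (nat_lit 152) (nat_lit 0) (XT.lf (nat_lit 76) (nat_lit 585257825)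 (nat_lit 0) (nat_lit 8428014829) (nat_lit 228) (nat_lit 585257825) (nat_lit 147) (nat_lit 1) (nat_lit 146) (nat_lit 1) (nat_lit 149) (nat_lit 1) (nat_lit 300) (nat_lit 409) (nat_lit 311)) (XT.lf (nat_lit 76) (nat_lit 3902161058) (nat_lit 0) (nat_lit 1694701264) (nat_lit 152) (nat_lit 3902161058) (nat_lit 145) (nat_lit 1) (nat_lit 144) (nat_lit 1) (nat_lit 146) (nat_lit 1) (nat_lit 301) (nat_lit 409) (nat_lit 310))) (XT.nd (nat_lit 78) (nat_lit 152) (nat_lit 0) (XT.lf (nat_lit 228) (nat_lit 4919817225) (nat_lit 0) (nat_lit 2240727326) (nat_lit 152) (nat_lit 2240727326) (nat_lit 145) (nat_lit 1) (nat_lit 142) (nat_lit 1) (nat_lit 144) (nat_lit 1) (nat_lit 302) (nat_lit 409) (nat_lit 309)) (XT.nd (nat_lit 78) (nat_lit 152) (nat_lit 0) (XT.lf (nat_lit 76) (nat_lit 1035307988) (nat_lit 0) (nat_lit 7234332758) (nat_lit 228) (nat_lit 1035307988) (nat_lit 143) (nat_lit 1) (nat_lit 142) (nat_lit 1) (nat_lit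 145) (nat_lit 1) (nat_lit 303) (nat_lit 409) (nat_lit 308)) (XT.lf (nat_lit 76) (nat_lit 4228789139) (nat_lit 0) (nat_lit 751566021) (nat_lit 152) (nat_lit 4228789139) (nat_lit 141) (nat_lit 1) (nat_lit 140) (nat_lit 1) (nat_lit 142) (nat_lit 1) (nat_lit 304) (nat_lit 409) (nat_lit 307))))) (XT.nd (nat_lit 156) (nat_lit 304) (nat_lit 0) (XT.nd (nat_lit 78) (nat_lit 0) (nat_lit 0) (XT.lf (nat_lit 228) (nat_lit 5635757026) (nat_lit 0) (nat_lit 1739496668) (nat_lit 152) (nat_lit 1739496668) (nat_lit 141) (nat_lit 1) (nat_lit 138) (nat_lit 1) (nat_lit 140) (nat_lit 1) (nat_lit 305) (nat_lit 409) (nat_lit 306)) (XT.lf (nat_lit 76) (nat_lit 1420162583) (nat_lit 0) (nat_lit 6181155367) (nat_lit 228) (nat_lit 1420162583) (nat_lit 139) (nat_lit 1) (nat_lit 138) (nat_lit 1) (nat_lit 141) (nat_lit 1) (nat_lit 306) (nat_lit 409) (nat_lit 305))) (XT.nd (nat_lit 78) (nat_lit 228) (nat_lit 0) (XT.lf (nat_lit 152)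 (nat_lit 65714091) (nat_lit 0) (nat_lit 4431724087) (nat_lit 76) (nat_lit 4431724087) (nat_lit 139) (nat_lit 1) (nat_lit 137) (nat_lit 1) (nat_lit 138) (nat_lit 1) (nat_lit 307) (nat_lit 409) (nat_lit 304)) (XT.nd (nat_lit 78) (nat_lit 0) (nat_lit 0) (XT.lf (nat_lit 228) (nat_lit 6235028330) (nat_lit 0) (nat_lit 1301480902) (nat_lit 152) (nat_lit 1301480902) (nat_lit 137) (nat_lit 1) (nat_lit 134) (nat_lit 1) (nat_lit 136) (nat_lit 1) (nat_lit 308) (nat_lit 409) (nat_lit 303)) (XT.lf (nat_lit 76) (nat_lit 1747528921) (nat_lit 0) (nat_lit 5252599214) (nat_lit 228) (nat_lit 1747528921) (nat_lit 135) (nat_lit 1) (nat_lit 134) (nat_lit 1) (nat_lit 137) (nat_lit 1) (nat_lit 309) (nat_lit 409) (nat_lit 302))))))) (XT.nd (nat_lit 702) (nat_lit 836) (nat_lit 0) (XT.nd (nat_lit 312) (nat_lit 532) (nat_lit 0) (XT.nd (nat_lit 156) (nat_lit 76) (nat_lit 0) (XT.nd (nat_lit 78) (nat_lit 228) (nat_lit 0) (XT.lf (nat_lit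 152) (nat_lit 783396249) (nat_lit 0) (nat_lit 3937529451) (nat_lit 76) (nat_lit 3937529451) (nat_lit 135) (nat_lit 1) (nat_lit 133) (nat_lit 1) (nat_lit 134) (nat_lit 1) (nat_lit 310) (nat_lit 409) (nat_lit 301)) (XT.lf (nat_lit 228) (nat_lit 6731713961) (nat_lit 0) (nat_lit 919417509) (nat_lit 152) (nat_lit 919417509) (nat_lit 133) (nat_lit 1) (nat_lit 130) (nat_lit 1) (nat_lit 132) (nat_lit 1) (nat_lit 311) (nat_lit 409) (nat_lit 300))) (XT.nd (nat_lit 78) (nat_lit 76) (nat_lit 0) (XT.lf (nat_lit 76) (nat_lit 2024242113) (nat_lit 0) (nat_lit 4434558339) (nat_lit 228) (nat_lit 2024242113) (nat_lit 131) (nat_lit 1) (nat_lit 130) (nat_lit 1) (nat_lit 133) (nat_lit 1) (nat_lit 312) (nat_lit 409) (nat_lit 299)) (XT.lf (nat_lit 152) (nat_lit 1399930752) (nat_lit 0) (nat_lit 3498443918) (nat_lit 76) (nat_lit 3498443918) (nat_lit 131) (nat_lit 1) (nat_lit 129) (nat_lit 1) (nat_lit 130) (nat_lit 1) (nat_lit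 313) (nat_lit 409) (nat_lit 298)))) (XT.nd (nat_lit 156) (nat_lit 304) (nat_lit 0) (XT.nd (nat_lit 78) (nat_lit 0) (nat_lit 0) (XT.lf (nat_lit 228) (nat_lit 7138295078) (nat_lit 0) (nat_lit 586860048) (nat_lit 152) (nat_lit 586860048) (nat_lit 129) (nat_lit 1) (nat_lit 126) (nat_lit 1) (nat_lit 128) (nat_lit 1) (nat_lit 314) (nat_lit 409) (nat_lit 297)) (XT.lf (nat_lit 76) (nat_lit 2256362706) (nat_lit 0) (nat_lit 3714505871) (nat_lit 228) (nat_lit 2256362706) (nat_lit 127) (nat_lit 1) (nat_lit 126) (nat_lit 1) (nat_lit 129) (nat_lit 1) (nat_lit 315) (nat_lit 409) (nat_lit 296))) (XT.nd (nat_lit 78) (nat_lit 228) (nat_lit 0) (XT.lf (nat_lit 152) (nat_lit 1927211924) (nat_lit 0) (nat_lit 3108322109) (nat_lit 76) (nat_lit 3108322109) (nat_lit 127) (nat_lit 1) (nat_lit 125) (nat_lit 1) (nat_lit 126) (nat_lit 1) (nat_lit 316) (nat_lit 409) (nat_lit 295)) (XT.nd (nat_lit 78) (nat_lit 0) (nat_lit 0) (XT.lf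 (nat_lit 228) (nat_lit 7465830695) (nat_lit 0) (nat_lit 298086969) (nat_lit 152) (nat_lit 298086969) (nat_lit 125) (nat_lit 1) (nat_lit 122) (nat_lit 1) (nat_lit 124) (nat_lit 1) (nat_lit 317) (nat_lit 409) (nat_lit 294)) (XT.lf (nat_lit 76) (nat_lit 2449263415) (nat_lit 0) (nat_lit 3081317757) (nat_lit 228) (nat_lit 2449263415) (nat_lit 123) (nat_lit 1) (nat_lit 122) (nat_lit 1) (nat_lit 125) (nat_lit 1) (nat_lit 318) (nat_lit 409) (nat_lit 293)))))) (XT.nd (nat_lit 390) (nat_lit 456) (nat_lit 0) (XT.nd (nat_lit 156) (nat_lit 76) (nat_lit 0) (XT.nd (nat_lit 78) (nat_lit 228) (nat_lit 0) (XT.lf (nat_lit 152) (nat_lit 2375789807) (nat_lit 0) (nat_lit 2761703935) (nat_lit 76) (nat_lit 2761703935) (nat_lit 123) (nat_lit 1) (nat_lit 121) (nat_lit 1) (nat_lit 122) (nat_lit 1) (nat_lit 319) (nat_lit 409) (nat_lit 292)) (XT.lf (nat_lit 228) (nat_lit 7724117151) (nat_lit 0) (nat_lit 48020603) (nat_lit 152)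 (nat_lit 48020603) (nat_lit 121) (nat_lit 1) (nat_lit 118) (nat_lit 1) (nat_lit 120) (nat_lit 1) (nat_lit 320) (nat_lit 409) (nat_lit 291))) (XT.nd (nat_lit 78) (nat_lit 76) (nat_lit 0) (XT.lf (nat_lit 76) (nat_lit 2607706175) (nat_lit 0) (nat_lit 2525116162) (nat_lit 228) (nat_lit 2607706175) (nat_lit 119) (nat_lit 1) (nat_lit 118) (nat_lit 1) (nat_lit 121) (nat_lit 1) (nat_lit 321) (nat_lit 409) (nat_lit 290)) (XT.nd (nat_lit 78) (nat_lit 0) (nat_lit 0) (XT.lf (nat_lit 152) (nat_lit 2755020583) (nat_lit 0) (nat_lit 2453738176) (nat_lit 76) (nat_lit 2453738176) (nat_lit 119) (nat_lit 1) (nat_lit 117) (nat_lit 1) (nat_lit 118) (nat_lit 1) (nat_lit 322) (nat_lit 409) (nat_lit 289)) (XT.lf (nat_lit 0) (nat_lit 169506639) (nat_lit 0) (nat_lit 7246930355) (nat_lit 152) (nat_lit 169506639) (nat_lit 117) (nat_lit 3) (nat_lit 117) (nat_lit 1) (nat_lit 119) (nat_lit 1) (nat_lit 323) (nat_lit 409) (nat_lit 288)))))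 (XT.nd (nat_lit 156) (nat_lit 228) (nat_lit 0) (XT.nd (nat_lit 78) (nat_lit 76) (nat_lit 0) (XT.lf (nat_lit 76) (nat_lit 2735910593) (nat_lit 0) (nat_lit 2037130328) (nat_lit 152) (nat_lit 2735910593) (nat_lit 116) (nat_lit 1) (nat_lit 115) (nat_lit 1) (nat_lit 117) (nat_lit 1) (nat_lit 324) (nat_lit 409) (nat_lit 287)) (XT.lf (nat_lit 152) (nat_lit 3073200212) (nat_lit 0) (nat_lit 2180114588) (nat_lit 76) (nat_lit 2180114588) (nat_lit 116) (nat_lit 1) (nat_lit 114) (nat_lit 1) (nat_lit 115) (nat_lit 1) (nat_lit 325) (nat_lit 409) (nat_lit 286))) (XT.nd (nat_lit 78) (nat_lit 228) (nat_lit 0) (XT.lf (nat_lit 0) (nat_lit 357007129) (nat_lit 0) (nat_lit 6645206434) (nat_lit 152) (nat_lit 357007129) (nat_lit 114) (nat_lit 3) (nat_lit 114) (nat_lit 1) (nat_lit 116) (nat_lit 1) (nat_lit 326) (nat_lit 409) (nat_lit 285)) (XT.nd (nat_lit 78) (nat_lit 76) (nat_lit 0) (XT.lf (nat_lit 76) (nat_lit 2837614749)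 (nat_lit 0) (nat_lit 1609572964) (nat_lit 152) (nat_lit 2837614749) (nat_lit 113) (nat_lit 1) (nat_lit 112) (nat_lit 1) (nat_lit 114) (nat_lit 1) (nat_lit 327) (nat_lit 409) (nat_lit 284)) (XT.lf (nat_lit 152) (nat_lit 3337683154) (nat_lit 0) (nat_lit 1937003575) (nat_lit 76) (nat_lit 1937003575) (nat_lit 113) (nat_lit 1) (nat_lit 111) (nat_lit 1) (nat_lit 112) (nat_lit 1) (nat_lit 328) (nat_lit 409) (nat_lit 283))))))))
noncomputable def ec356 : XT := (XT.nd (nat_lit 1404) (nat_lit 1368) (nat_lit 0) (XT.nd (nat_lit 702) (nat_lit 684) (nat_lit 0) (XT.nd (nat_lit 312) (nat_lit 456) (nat_lit 0) (XT.nd (nat_lit 156) (nat_lit 76) (nat_lit 0) (XT.nd (nat_lit 78) (nat_lit 152) (nat_lit 0) (XT.lf (nat_lit 0) (nat_lit 517587157) (nat_lit 0) (nat_lit 6104570794) (nat_lit 152) (nat_lit 517587157) (nat_lit 111) (nat_lit 3) (nat_lit 111) (nat_lit 1) (nat_lit 113) (nat_lit 1) (nat_lit 329) (nat_lit 409) (nat_lit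 282)) (XT.lf (nat_lit 76) (nat_lit 2916129217) (nat_lit 0) (nat_lit 1235530414) (nat_lit 152) (nat_lit 2916129217) (nat_lit 110) (nat_lit 1) (nat_lit 109) (nat_lit 1) (nat_lit 111) (nat_lit 1) (nat_lit 330) (nat_lit 409) (nat_lit 281))) (XT.nd (nat_lit 78) (nat_lit 0) (nat_lit 0) (XT.lf (nat_lit 152) (nat_lit 3554987835) (nat_lit 0) (nat_lit 1721002588) (nat_lit 76) (nat_lit 1721002588) (nat_lit 110) (nat_lit 1) (nat_lit 108) (nat_lit 1) (nat_lit 109) (nat_lit 1) (nat_lit 331) (nat_lit 409) (nat_lit 280)) (XT.lf (nat_lit 0) (nat_lit 654423803) (nat_lit 0) (nat_lit 5618386401) (nat_lit 152) (nat_lit 654423803) (nat_lit 108) (nat_lit 3) (nat_lit 108) (nat_lit 1) (nat_lit 110) (nat_lit 1) (nat_lit 332) (nat_lit 409) (nat_lit 279)))) (XT.nd (nat_lit 156) (nat_lit 228) (nat_lit 0) (XT.nd (nat_lit 78) (nat_lit 76) (nat_lit 0) (XT.lf (nat_lit 76) (nat_lit 2974385044) (nat_lit 0) (nat_lit 908865083) (nat_lit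 152) (nat_lit 2974385044) (nat_lit 107) (nat_lit 1) (nat_lit 106) (nat_lit 1) (nat_lit 108) (nat_lit 1) (nat_lit 333) (nat_lit 409) (nat_lit 278)) (XT.lf (nat_lit 152) (nat_lit 3730890339) (nat_lit 0) (nat_lit 1529088509) (nat_lit 76) (nat_lit 1529088509) (nat_lit 107) (nat_lit 1) (nat_lit 105) (nat_lit 1) (nat_lit 106) (nat_lit 1) (nat_lit 334) (nat_lit 409) (nat_lit 277))) (XT.nd (nat_lit 78) (nat_lit 228) (nat_lit 0) (XT.lf (nat_lit 0) (nat_lit 770334760) (nat_lit 0) (nat_lit 5180751235) (nat_lit 152) (nat_lit 770334760) (nat_lit 105) (nat_lit 3) (nat_lit 105) (nat_lit 1) (nat_lit 107) (nat_lit 1) (nat_lit 335) (nat_lit 409) (nat_lit 276)) (XT.nd (nat_lit 78) (nat_lit 76) (nat_lit 0) (XT.lf (nat_lit 76) (nat_lit 3014976378) (nat_lit 0) (nat_lit 624128750) (nat_lit 152) (nat_lit 3014976378) (nat_lit 104) (nat_lit 1) (nat_lit 103) (nat_lit 1) (nat_lit 105) (nat_lit 1) (nat_lit 336) (nat_lit 409) (nat_lit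 275)) (XT.lf (nat_lit 152) (nat_lit 3870507639) (nat_lit 0) (nat_lit 1358575335) (nat_lit 76) (nat_lit 1358575335) (nat_lit 104) (nat_lit 1) (nat_lit 102) (nat_lit 1) (nat_lit 103) (nat_lit 1) (nat_lit 337) (nat_lit 409) (nat_lit 274)))))) (XT.nd (nat_lit 312) (nat_lit 456) (nat_lit 0) (XT.nd (nat_lit 156) (nat_lit 76) (nat_lit 0) (XT.nd (nat_lit 78) (nat_lit 152) (nat_lit 0) (XT.lf (nat_lit 0) (nat_lit 867818561) (nat_lit 0) (nat_lit 4786416475) (nat_lit 152) (nat_lit 867818561) (nat_lit 102) (nat_lit 3) (nat_lit 102) (nat_lit 1) (nat_lit 104) (nat_lit 1) (nat_lit 338) (nat_lit 409) (nat_lit 273)) (XT.lf (nat_lit 76) (nat_lit 3040198327) (nat_lit 0) (nat_lit 376485549) (nat_lit 152) (nat_lit 3040198327) (nat_lit 101) (nat_lit 1) (nat_lit 100) (nat_lit 1) (nat_lit 102) (nat_lit 1) (nat_lit 339) (nat_lit 409) (nat_lit 272))) (XT.nd (nat_lit 78) (nat_lit 0) (nat_lit 0) (XT.lf (nat_lit 152) (nat_lit 3978371532)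 (nat_lit 0) (nat_lit 1207076589) (nat_lit 76) (nat_lit 1207076589) (nat_lit 101) (nat_lit 1) (nat_lit 99) (nat_lit 1) (nat_lit 100) (nat_lit 1) (nat_lit 340) (nat_lit 409) (nat_lit 271)) (XT.lf (nat_lit 0) (nat_lit 949090312) (nat_lit 0) (nat_lit 4430713805) (nat_lit 152) (nat_lit 949090312) (nat_lit 99) (nat_lit 3) (nat_lit 99) (nat_lit 1) (nat_lit 101) (nat_lit 1) (nat_lit 341) (nat_lit 409) (nat_lit 270)))) (XT.nd (nat_lit 156) (nat_lit 228) (nat_lit 0) (XT.nd (nat_lit 78) (nat_lit 76) (nat_lit 0) (XT.lf (nat_lit 76) (nat_lit 3052080589) (nat_lit 0) (nat_lit 161643543) (nat_lit 152) (nat_lit 3052080589) (nat_lit 98) (nat_lit 1) (nat_lit 97) (nat_lit 1) (nat_lit 99) (nat_lit 1) (nat_lit 342) (nat_lit 409) (nat_lit 269)) (XT.lf (nat_lit 152) (nat_lit 4058494322) (nat_lit 0) (nat_lit 1072471915) (nat_lit 76) (nat_lit 1072471915) (nat_lit 98) (nat_lit 1) (nat_lit 96) (nat_lit 1) (nat_lit 97) (nat_lit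 1) (nat_lit 343) (nat_lit 409) (nat_lit 268))) (XT.nd (nat_lit 78) (nat_lit 228) (nat_lit 0) (XT.lf (nat_lit 0) (nat_lit 1016113441) (nat_lit 0) (nat_lit 4109490820) (nat_lit 152) (nat_lit 1016113441) (nat_lit 96) (nat_lit 3) (nat_lit 96) (nat_lit 1) (nat_lit 98) (nat_lit 1) (nat_lit 344) (nat_lit 409) (nat_lit 267)) (XT.nd (nat_lit 78) (nat_lit 152) (nat_lit 0) (XT.lf (nat_lit 76) (nat_lit 24687817) (nat_lit 0) (nat_lit 3027966825) (nat_lit 76) (nat_lit 3027966825) (nat_lit 96) (nat_lit 3) (nat_lit 95) (nat_lit 1) (nat_lit 96) (nat_lit 1) (nat_lit 345) (nat_lit 409) (nat_lit 266)) (XT.lf (nat_lit 152) (nat_lit 4114427158) (nat_lit 0) (nat_lit 952877406) (nat_lit 76) (nat_lit 952877406) (nat_lit 95) (nat_lit 1) (nat_lit 93) (nat_lit 1) (nat_lit 94) (nat_lit 1) (nat_lit 346) (nat_lit 409) (nat_lit 265))))))) (XT.nd (nat_lit 702) (nat_lit 684) (nat_lit 0) (XT.nd (nat_lit 312) (nat_lit 456) (nat_lit 0)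 (XT.nd (nat_lit 156) (nat_lit 152) (nat_lit 0) (XT.nd (nat_lit 78) (nat_lit 76) (nat_lit 0) (XT.lf (nat_lit 0) (nat_lit 1070627895) (nat_lit 0) (nat_lit 3819053631) (nat_lit 152) (nat_lit 1070627895) (nat_lit 93) (nat_lit 3) (nat_lit 93) (nat_lit 1) (nat_lit 95) (nat_lit 1) (nat_lit 347) (nat_lit 409) (nat_lit 264)) (XT.lf (nat_lit 76) (nat_lit 188113733) (nat_lit 0) (nat_lit 2856488233) (nat_lit 76) (nat_lit 2856488233) (nat_lit 93) (nat_lit 3) (nat_lit 92) (nat_lit 1) (nat_lit 93) (nat_lit 1) (nat_lit 348) (nat_lit 409) (nat_lit 263))) (XT.nd (nat_lit 78) (nat_lit 0) (nat_lit 0) (XT.lf (nat_lit 152) (nat_lit 4149311859) (nat_lit 0) (nat_lit 846619233) (nat_lit 76) (nat_lit 846619233) (nat_lit 92) (nat_lit 1) (nat_lit 90) (nat_lit 1) (nat_lit 91) (nat_lit 1) (nat_lit 349) (nat_lit 409) (nat_lit 262)) (XT.lf (nat_lit 0) (nat_lit 1114175196) (nat_lit 0) (nat_lit 3556115864) (nat_lit 152) (nat_lit 1114175196)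 (nat_lit 90) (nat_lit 3) (nat_lit 90) (nat_lit 1) (nat_lit 92) (nat_lit 1) (nat_lit 350) (nat_lit 409) (nat_lit 261)))) (XT.nd (nat_lit 156) (nat_lit 228) (nat_lit 0) (XT.nd (nat_lit 78) (nat_lit 152) (nat_lit 0) (XT.lf (nat_lit 76) (nat_lit 328475380) (nat_lit 0) (nat_lit 2699291562) (nat_lit 76) (nat_lit 2699291562) (nat_lit 90) (nat_lit 3) (nat_lit 89) (nat_lit 1) (nat_lit 90) (nat_lit 1) (nat_lit 351) (nat_lit 409) (nat_lit 260)) (XT.lf (nat_lit 152) (nat_lit 4165926952) (nat_lit 0) (nat_lit 752210223) (nat_lit 76) (nat_lit 752210223) (nat_lit 89) (nat_lit 1) (nat_lit 87) (nat_lit 1) (nat_lit 88) (nat_lit 1) (nat_lit 352) (nat_lit 409) (nat_lit 259))) (XT.nd (nat_lit 78) (nat_lit 228) (nat_lit 0) (XT.lf (nat_lit 0) (nat_lit 1148120695) (nat_lit 0) (nat_lit 3317753351) (nat_lit 152) (nat_lit 1148120695) (nat_lit 87) (nat_lit 3) (nat_lit 87) (nat_lit 1) (nat_lit 89) (nat_lit 1) (nat_lit 353) (nat_lit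 409) (nat_lit 258)) (XT.nd (nat_lit 78) (nat_lit 152) (nat_lit 0) (XT.lf (nat_lit 76) (nat_lit 448485698) (nat_lit 0) (nat_lit 2554925169) (nat_lit 76) (nat_lit 2554925169) (nat_lit 87) (nat_lit 3) (nat_lit 86) (nat_lit 1) (nat_lit 87) (nat_lit 1) (nat_lit 354) (nat_lit 409) (nat_lit 257)) (XT.lf (nat_lit 152) (nat_lit 4166728553) (nat_lit 0) (nat_lit 668329040) (nat_lit 76) (nat_lit 668329040) (nat_lit 86) (nat_lit 1) (nat_lit 84) (nat_lit 1) (nat_lit 85) (nat_lit 1) (nat_lit 355) (nat_lit 409) (nat_lit 256)))))) (XT.nd (nat_lit 390) (nat_lit 380) (nat_lit 0) (XT.nd (nat_lit 156) (nat_lit 228) (nat_lit 0) (XT.nd (nat_lit 78) (nat_lit 76) (nat_lit 0) (XT.lf (nat_lit 0) (nat_lit 1173673342) (nat_lit 0) (nat_lit 3101363855) (nat_lit 152) (nat_lit 1173673342) (nat_lit 84) (nat_lit 3) (nat_lit 84) (nat_lit 1) (nat_lit 86) (nat_lit 1) (nat_lit 356) (nat_lit 409) (nat_lit 255)) (XT.lf (nat_lit 76) (nat_lit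 550550993) (nat_lit 0) (nat_lit 2422095181) (nat_lit 76) (nat_lit 2422095181) (nat_lit 84) (nat_lit 3) (nat_lit 83) (nat_lit 1) (nat_lit 84) (nat_lit 1) (nat_lit 357) (nat_lit 409) (nat_lit 254))) (XT.nd (nat_lit 78) (nat_lit 76) (nat_lit 0) (XT.lf (nat_lit 152) (nat_lit 4153886696) (nat_lit 0) (nat_lit 593801696) (nat_lit 76) (nat_lit 593801696) (nat_lit 83) (nat_lit 1) (nat_lit 81) (nat_lit 1) (nat_lit 82) (nat_lit 1) (nat_lit 358) (nat_lit 409) (nat_lit 253)) (XT.nd (nat_lit 78) (nat_lit 76) (nat_lit 0) (XT.lf (nat_lit 0) (nat_lit 1191903247) (nat_lit 0) (nat_lit 2904631301) (nat_lit 152) (nat_lit 1191903247) (nat_lit 81) (nat_lit 3) (nat_lit 81) (nat_lit 1) (nat_lit 83) (nat_lit 1) (nat_lit 359) (nat_lit 409) (nat_lit 252)) (XT.lf (nat_lit 76) (nat_lit 636805252) (nat_lit 0) (nat_lit 2299648022) (nat_lit 76) (nat_lit 2299648022) (nat_lit 81) (nat_lit 3) (nat_lit 80) (nat_lit 1) (nat_lit 81) (nat_lit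 1) (nat_lit 360) (nat_lit 409) (nat_lit 251))))) (XT.nd (nat_lit 156) (nat_lit 228) (nat_lit 0) (XT.nd (nat_lit 78) (nat_lit 0) (nat_lit 0) (XT.lf (nat_lit 152) (nat_lit 4129317580) (nat_lit 0) (nat_lit 527585116) (nat_lit 76) (nat_lit 527585116) (nat_lit 80) (nat_lit 1) (nat_lit 78) (nat_lit 1) (nat_lit 79) (nat_lit 1) (nat_lit 361) (nat_lit 409) (nat_lit 250)) (XT.lf (nat_lit 0) (nat_lit 1203757282) (nat_lit 0) (nat_lit 2725493973) (nat_lit 152) (nat_lit 1203757282) (nat_lit 78) (nat_lit 3) (nat_lit 78) (nat_lit 1) (nat_lit 80) (nat_lit 1) (nat_lit 362) (nat_lit 409) (nat_lit 249))) (XT.nd (nat_lit 78) (nat_lit 152) (nat_lit 0) (XT.lf (nat_lit 76) (nat_lit 709140621) (nat_lit 0) (nat_lit 2186554885) (nat_lit 76) (nat_lit 2186554885) (nat_lit 78) (nat_lit 3) (nat_lit 77) (nat_lit 1) (nat_lit 78) (nat_lit 1) (nat_lit 363) (nat_lit 409) (nat_lit 248)) (XT.nd (nat_lit 78) (nat_lit 0) (nat_lit 0) (XT.lf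 (nat_lit 152) (nat_lit 4094712228) (nat_lit 0) (nat_lit 468752542) (nat_lit 76) (nat_lit 468752542) (nat_lit 77) (nat_lit 1) (nat_lit 75) (nat_lit 1) (nat_lit 76) (nat_lit 1) (nat_lit 364) (nat_lit 409) (nat_lit 247)) (XT.lf (nat_lit 0) (nat_lit 1210072932) (nat_lit 0) (nat_lit 2562116273) (nat_lit 152) (nat_lit 1210072932) (nat_lit 75) (nat_lit 3) (nat_lit 75) (nat_lit 1) (nat_lit 77) (nat_lit 1) (nat_lit 365) (nat_lit 409) (nat_lit 246))))))))
noncomputable def ec357 : XT := (XT.nd (nat_lit 1482) (nat_lit 1520) (nat_lit 0) (XT.nd (nat_lit 702) (nat_lit 760) (nat_lit 0) (XT.nd (nat_lit 312) (nat_lit 380) (nat_lit 0) (XT.nd (nat_lit 156) (nat_lit 76) (nat_lit 0) (XT.nd (nat_lit 78) (nat_lit 152) (nat_lit 0) (XT.lf (nat_lit 76) (nat_lit 769234492) (nat_lit 0) (nat_lit 2081897930) (nat_lit 76) (nat_lit 2081897930) (nat_lit 75) (nat_lit 3) (nat_lit 74) (nat_lit 1) (nat_lit 75) (nat_lit 1) (nat_lit 366)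 (nat_lit 409) (nat_lit 245)) (XT.lf (nat_lit 152) (nat_lit 4051561926) (nat_lit 0) (nat_lit 416480562) (nat_lit 76) (nat_lit 416480562) (nat_lit 74) (nat_lit 1) (nat_lit 72) (nat_lit 1) (nat_lit 73) (nat_lit 1) (nat_lit 367) (nat_lit 409) (nat_lit 244))) (XT.nd (nat_lit 78) (nat_lit 76) (nat_lit 0) (XT.lf (nat_lit 0) (nat_lit 1211590611) (nat_lit 0) (nat_lit 2412863608) (nat_lit 152) (nat_lit 1211590611) (nat_lit 72) (nat_lit 3) (nat_lit 72) (nat_lit 1) (nat_lit 74) (nat_lit 1) (nat_lit 368) (nat_lit 409) (nat_lit 243)) (XT.lf (nat_lit 76) (nat_lit 818573559) (nat_lit 0) (nat_lit 1984858021) (nat_lit 76) (nat_lit 1984858021) (nat_lit 72) (nat_lit 3) (nat_lit 71) (nat_lit 1) (nat_lit 72) (nat_lit 1) (nat_lit 369) (nat_lit 409) (nat_lit 242)))) (XT.nd (nat_lit 156) (nat_lit 228) (nat_lit 0) (XT.nd (nat_lit 78) (nat_lit 0) (nat_lit 0) (XT.lf (nat_lit 152) (nat_lit 4001180826) (nat_lit 0) (nat_lit 370037585)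 (nat_lit 76) (nat_lit 370037585) (nat_lit 71) (nat_lit 1) (nat_lit 69) (nat_lit 1) (nat_lit 70) (nat_lit 1) (nat_lit 370) (nat_lit 409) (nat_lit 241)) (XT.lf (nat_lit 0) (nat_lit 1208964589) (nat_lit 0) (nat_lit 2276280087) (nat_lit 152) (nat_lit 1208964589) (nat_lit 69) (nat_lit 3) (nat_lit 69) (nat_lit 1) (nat_lit 71) (nat_lit 1) (nat_lit 371) (nat_lit 409) (nat_lit 240))) (XT.nd (nat_lit 78) (nat_lit 152) (nat_lit 0) (XT.lf (nat_lit 76) (nat_lit 858475185) (nat_lit 0) (nat_lit 1894703824) (nat_lit 76) (nat_lit 1894703824) (nat_lit 69) (nat_lit 3) (nat_lit 68) (nat_lit 1) (nat_lit 69) (nat_lit 1) (nat_lit 372) (nat_lit 409) (nat_lit 239)) (XT.nd (nat_lit 78) (nat_lit 0) (nat_lit 0) (XT.lf (nat_lit 152) (nat_lit 3944726011) (nat_lit 0) (nat_lit 328773602) (nat_lit 76) (nat_lit 328773602) (nat_lit 68) (nat_lit 1) (nat_lit 66) (nat_lit 1) (nat_lit 67) (nat_lit 1) (nat_lit 373) (nat_lit 409) (nat_lit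 238)) (XT.lf (nat_lit 0) (nat_lit 1202772702) (nat_lit 0) (nat_lit 2151068699) (nat_lit 152) (nat_lit 1202772702) (nat_lit 66) (nat_lit 3) (nat_lit 66) (nat_lit 1) (nat_lit 68) (nat_lit 1) (nat_lit 374) (nat_lit 409) (nat_lit 237)))))) (XT.nd (nat_lit 390) (nat_lit 304) (nat_lit 0) (XT.nd (nat_lit 156) (nat_lit 228) (nat_lit 0) (XT.nd (nat_lit 78) (nat_lit 152) (nat_lit 0) (XT.lf (nat_lit 76) (nat_lit 890106393) (nat_lit 0) (nat_lit 1810782118) (nat_lit 76) (nat_lit 1810782118) (nat_lit 66) (nat_lit 3) (nat_lit 65) (nat_lit 1) (nat_lit 66) (nat_lit 1) (nat_lit 375) (nat_lit 409) (nat_lit 236)) (XT.lf (nat_lit 152) (nat_lit 3883215318) (nat_lit 0) (nat_lit 292111087) (nat_lit 76) (nat_lit 292111087) (nat_lit 65) (nat_lit 1) (nat_lit 63) (nat_lit 1) (nat_lit 64) (nat_lit 1) (nat_lit 376) (nat_lit 409) (nat_lit 235))) (XT.nd (nat_lit 78) (nat_lit 228) (nat_lit 0) (XT.lf (nat_lit 0) (nat_lit 1193524981)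 (nat_lit 0) (nat_lit 2036073691) (nat_lit 152) (nat_lit 1193524981) (nat_lit 63) (nat_lit 3) (nat_lit 63) (nat_lit 1) (nat_lit 65) (nat_lit 1) (nat_lit 377) (nat_lit 409) (nat_lit 234)) (XT.nd (nat_lit 78) (nat_lit 152) (nat_lit 0) (XT.lf (nat_lit 76) (nat_lit 914500730) (nat_lit 0) (nat_lit 1732509187) (nat_lit 76) (nat_lit 1732509187) (nat_lit 63) (nat_lit 3) (nat_lit 62) (nat_lit 1) (nat_lit 63) (nat_lit 1) (nat_lit 378) (nat_lit 409) (nat_lit 233)) (XT.lf (nat_lit 152) (nat_lit 3817543165) (nat_lit 0) (nat_lit 259536917) (nat_lit 76) (nat_lit 259536917) (nat_lit 62) (nat_lit 1) (nat_lit 60) (nat_lit 1) (nat_lit 61) (nat_lit 1) (nat_lit 379) (nat_lit 409) (nat_lit 232))))) (XT.nd (nat_lit 156) (nat_lit 228) (nat_lit 0) (XT.nd (nat_lit 78) (nat_lit 76) (nat_lit 0) (XT.lf (nat_lit 0) (nat_lit 1181671305) (nat_lit 0) (nat_lit 1930264922) (nat_lit 152) (nat_lit 1181671305) (nat_lit 60) (nat_lit 3) (nat_lit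 60) (nat_lit 1) (nat_lit 62) (nat_lit 1) (nat_lit 380) (nat_lit 409) (nat_lit 231)) (XT.lf (nat_lit 76) (nat_lit 932573247) (nat_lit 0) (nat_lit 1659363166) (nat_lit 76) (nat_lit 1659363166) (nat_lit 60) (nat_lit 3) (nat_lit 59) (nat_lit 1) (nat_lit 60) (nat_lit 1) (nat_lit 381) (nat_lit 409) (nat_lit 230))) (XT.nd (nat_lit 78) (nat_lit 76) (nat_lit 0) (XT.lf (nat_lit 152) (nat_lit 3748494600) (nat_lit 0) (nat_lit 230595189) (nat_lit 76) (nat_lit 230595189) (nat_lit 59) (nat_lit 1) (nat_lit 57) (nat_lit 1) (nat_lit 58) (nat_lit 1) (nat_lit 382) (nat_lit 409) (nat_lit 229)) (XT.nd (nat_lit 78) (nat_lit 76) (nat_lit 0) (XT.lf (nat_lit 0) (nat_lit 1167608212) (nat_lit 0) (nat_lit 1832723944) (nat_lit 152) (nat_lit 1167608212) (nat_lit 57) (nat_lit 3) (nat_lit 57) (nat_lit 1) (nat_lit 59) (nat_lit 1) (nat_lit 383) (nat_lit 409) (nat_lit 228)) (XT.lf (nat_lit 76) (nat_lit 945133808) (nat_lit 0) (nat_lit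 1590877237) (nat_lit 76) (nat_lit 1590877237) (nat_lit 57) (nat_lit 3) (nat_lit 56) (nat_lit 1) (nat_lit 57) (nat_lit 1) (nat_lit 384) (nat_lit 409) (nat_lit 227))))))) (XT.nd (nat_lit 702) (nat_lit 836) (nat_lit 0) (XT.nd (nat_lit 312) (nat_lit 304) (nat_lit 0) (XT.nd (nat_lit 156) (nat_lit 228) (nat_lit 0) (XT.nd (nat_lit 78) (nat_lit 0) (nat_lit 0) (XT.lf (nat_lit 152) (nat_lit 3676757777) (nat_lit 0) (nat_lit 204880839) (nat_lit 76) (nat_lit 204880839) (nat_lit 56) (nat_lit 1) (nat_lit 54) (nat_lit 1) (nat_lit 55) (nat_lit 1) (nat_lit 385) (nat_lit 409) (nat_lit 226)) (XT.lf (nat_lit 0) (nat_lit 1151684930) (nat_lit 0) (nat_lit 1742631644) (nat_lit 152) (nat_lit 1151684930) (nat_lit 54) (nat_lit 3) (nat_lit 54) (nat_lit 1) (nat_lit 56) (nat_lit 1) (nat_lit 386) (nat_lit 409) (nat_lit 225))) (XT.nd (nat_lit 78) (nat_lit 152) (nat_lit 0) (XT.lf (nat_lit 76) (nat_lit 952898910) (nat_lit 0) (nat_lit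 1526633583) (nat_lit 76) (nat_lit 1526633583) (nat_lit 54) (nat_lit 3) (nat_lit 53) (nat_lit 1) (nat_lit 54) (nat_lit 1) (nat_lit 387) (nat_lit 409) (nat_lit 224)) (XT.lf (nat_lit 152) (nat_lit 3602935038) (nat_lit 0) (nat_lit 182033972) (nat_lit 76) (nat_lit 182033972) (nat_lit 53) (nat_lit 1) (nat_lit 51) (nat_lit 1) (nat_lit 52) (nat_lit 1) (nat_lit 388) (nat_lit 409) (nat_lit 223)))) (XT.nd (nat_lit 156) (nat_lit 228) (nat_lit 0) (XT.nd (nat_lit 78) (nat_lit 76) (nat_lit 0) (XT.lf (nat_lit 0) (nat_lit 1134208752) (nat_lit 0) (nat_lit 1659257254) (nat_lit 152) (nat_lit 1134208752) (nat_lit 51) (nat_lit 3) (nat_lit 51) (nat_lit 1) (nat_lit 53) (nat_lit 1) (nat_lit 389) (nat_lit 409) (nat_lit 222)) (XT.lf (nat_lit 76) (nat_lit 956502187) (nat_lit 0) (nat_lit 1466258014) (nat_lit 76) (nat_lit 1466258014) (nat_lit 51) (nat_lit 3) (nat_lit 50) (nat_lit 1) (nat_lit 51) (nat_lit 1) (nat_lit 390) (nat_lit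 409) (nat_lit 221))) (XT.nd (nat_lit 78) (nat_lit 76) (nat_lit 0) (XT.lf (nat_lit 152) (nat_lit 3527552742) (nat_lit 0) (nat_lit 161734826) (nat_lit 76) (nat_lit 161734826) (nat_lit 50) (nat_lit 1) (nat_lit 48) (nat_lit 1) (nat_lit 49) (nat_lit 1) (nat_lit 391) (nat_lit 409) (nat_lit 220)) (XT.nd (nat_lit 78) (nat_lit 76) (nat_lit 0) (XT.lf (nat_lit 0) (nat_lit 1115449795) (nat_lit 0) (nat_lit 1581948588) (nat_lit 152) (nat_lit 1115449795) (nat_lit 48) (nat_lit 3) (nat_lit 48) (nat_lit 1) (nat_lit 50) (nat_lit 1) (nat_lit 392) (nat_lit 409) (nat_lit 219)) (XT.lf (nat_lit 76) (nat_lit 956503735) (nat_lit 0) (nat_lit 1409415184) (nat_lit 76) (nat_lit 1409415184) (nat_lit 48) (nat_lit 3) (nat_lit 47) (nat_lit 1) (nat_lit 48) (nat_lit 1) (nat_lit 393) (nat_lit 409) (nat_lit 218)))))) (XT.nd (nat_lit 390) (nat_lit 456) (nat_lit 0) (XT.nd (nat_lit 156) (nat_lit 228) (nat_lit 0) (XT.nd (nat_lit 78) (nat_lit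 0) (nat_lit 0) (XT.lf (nat_lit 152) (nat_lit 3451069996) (nat_lit 0) (nat_lit 143699298) (nat_lit 76) (nat_lit 143699298) (nat_lit 47) (nat_lit 1) (nat_lit 45) (nat_lit 1) (nat_lit 46) (nat_lit 1) (nat_lit 394) (nat_lit 409) (nat_lit 217)) (XT.lf (nat_lit 0) (nat_lit 1095645228) (nat_lit 0) (nat_lit 1510123363) (nat_lit 152) (nat_lit 1095645228) (nat_lit 45) (nat_lit 3) (nat_lit 45) (nat_lit 1) (nat_lit 47) (nat_lit 1) (nat_lit 395) (nat_lit 409) (nat_lit 216))) (XT.nd (nat_lit 78) (nat_lit 152) (nat_lit 0) (XT.lf (nat_lit 76) (nat_lit 953398393) (nat_lit 0) (nat_lit 1355804350) (nat_lit 76) (nat_lit 1355804350) (nat_lit 45) (nat_lit 3) (nat_lit 44) (nat_lit 1) (nat_lit 45) (nat_lit 1) (nat_lit 396) (nat_lit 409) (nat_lit 215)) (XT.nd (nat_lit 78) (nat_lit 0) (nat_lit 0) (XT.lf (nat_lit 152) (nat_lit 3373886404) (nat_lit 0) (nat_lit 127674965) (nat_lit 76) (nat_lit 127674965) (nat_lit 44) (nat_lit 1)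 (nat_lit 42) (nat_lit 1) (nat_lit 43) (nat_lit 1) (nat_lit 397) (nat_lit 409) (nat_lit 214)) (XT.lf (nat_lit 0) (nat_lit 1075003033) (nat_lit 0) (nat_lit 1443261488) (nat_lit 152) (nat_lit 1075003033) (nat_lit 42) (nat_lit 3) (nat_lit 42) (nat_lit 1) (nat_lit 44) (nat_lit 1) (nat_lit 398) (nat_lit 409) (nat_lit 213))))) (XT.nd (nat_lit 156) (nat_lit 228) (nat_lit 0) (XT.nd (nat_lit 78) (nat_lit 152) (nat_lit 0) (XT.lf (nat_lit 76) (nat_lit 947623108) (nat_lit 0) (nat_lit 1305155589) (nat_lit 76) (nat_lit 1305155589) (nat_lit 42) (nat_lit 3) (nat_lit 41) (nat_lit 1) (nat_lit 42) (nat_lit 1) (nat_lit 399) (nat_lit 409) (nat_lit 212)) (XT.lf (nat_lit 152) (nat_lit 3296348946) (nat_lit 0) (nat_lit 113437553) (nat_lit 76) (nat_lit 113437553) (nat_lit 41) (nat_lit 1) (nat_lit 39) (nat_lit 1) (nat_lit 40) (nat_lit 1) (nat_lit 400) (nat_lit 409) (nat_lit 211))) (XT.nd (nat_lit 78) (nat_lit 228) (nat_lit 0)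 (XT.lf (nat_lit 0) (nat_lit 1053705339) (nat_lit 0) (nat_lit 1380898206) (nat_lit 152) (nat_lit 1053705339) (nat_lit 39) (nat_lit 3) (nat_lit 39) (nat_lit 1) (nat_lit 41) (nat_lit 1) (nat_lit 401) (nat_lit 409) (nat_lit 210)) (XT.nd (nat_lit 78) (nat_lit 152) (nat_lit 0) (XT.lf (nat_lit 76) (nat_lit 939563464) (nat_lit 0) (nat_lit 1257226442) (nat_lit 76) (nat_lit 1257226442) (nat_lit 39) (nat_lit 3) (nat_lit 38) (nat_lit 1) (nat_lit 39) (nat_lit 1) (nat_lit 402) (nat_lit 409) (nat_lit 209)) (XT.lf (nat_lit 152) (nat_lit 3218758076) (nat_lit 0) (nat_lit 100787796) (nat_lit 76) (nat_lit 100787796) (nat_lit 38) (nat_lit 1) (nat_lit 36) (nat_lit 1) (nat_lit 37) (nat_lit 1) (nat_lit 403) (nat_lit 409) (nat_lit 208))))))))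
noncomputable def ec358 : XT := (XT.nd (nat_lit 1482) (nat_lit 76) (nat_lit 0) (XT.nd (nat_lit 702) (nat_lit 684) (nat_lit 0) (XT.nd (nat_lit 312) (nat_lit 456) (nat_lit 0) (XT.nd (nat_lit 156) (nat_lit 152) (nat_lit 0) (XT.nd (nat_lit 78) (nat_lit 76) (nat_lit 0) (XT.lf (nat_lit 0) (nat_lit 1031911379) (nat_lit 0) (nat_lit 1322618003) (nat_lit 152) (nat_lit 1031911379) (nat_lit 36) (nat_lit 3) (nat_lit 36) (nat_lit 1) (nat_lit 38) (nat_lit 1) (nat_lit 404) (nat_lit 409) (nat_lit 207)) (XT.lf (nat_lit 76) (nat_lit 929559489) (nat_lit 0) (nat_lit 1211798930) (nat_lit 76) (nat_lit 1211798930) (nat_lit 36) (nat_lit 3) (nat_lit 35) (nat_lit 1) (nat_lit 36) (nat_lit 1) (nat_lit 405) (nat_lit 409) (nat_lit 206))) (XT.nd (nat_lit 78) (nat_lit 0) (nat_lit 0) (XT.lf (nat_lit 152) (nat_lit 3141373145) (nat_lit 0) (nat_lit 89548652) (nat_lit 76) (nat_lit 89548652) (nat_lit 35) (nat_lit 1) (nat_lit 33) (nat_lit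 1) (nat_lit 34) (nat_lit 1) (nat_lit 406) (nat_lit 409) (nat_lit 205)) (XT.lf (nat_lit 0) (nat_lit 1009760120) (nat_lit 0) (nat_lit 1268049191) (nat_lit 152) (nat_lit 1009760120) (nat_lit 33) (nat_lit 3) (nat_lit 33) (nat_lit 1) (nat_lit 35) (nat_lit 1) (nat_lit 407) (nat_lit 409) (nat_lit 204)))) (XT.nd (nat_lit 156) (nat_lit 228) (nat_lit 0) (XT.nd (nat_lit 78) (nat_lit 152) (nat_lit 0) (XT.lf (nat_lit 76) (nat_lit 917910809) (nat_lit 0) (nat_lit 1168676897) (nat_lit 76) (nat_lit 1168676897) (nat_lit 33) (nat_lit 3) (nat_lit 32) (nat_lit 1) (nat_lit 33) (nat_lit 1) (nat_lit 408) (nat_lit 409) (nat_lit 203)) (XT.lf (nat_lit 152) (nat_lit 3064417200) (nat_lit 0) (nat_lit 79562817) (nat_lit 76) (nat_lit 79562817) (nat_lit 32) (nat_lit 1) (nat_lit 30) (nat_lit 1) (nat_lit 31) (nat_lit 1) (nat_lit 409) (nat_lit 409) (nat_lit 202))) (XT.nd (nat_lit 78) (nat_lit 228) (nat_lit 0) (XT.lf (nat_lit 0) (nat_lit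 987372599) (nat_lit 0) (nat_lit 1216859094) (nat_lit 152) (nat_lit 987372599) (nat_lit 30) (nat_lit 3) (nat_lit 30) (nat_lit 1) (nat_lit 32) (nat_lit 1) (nat_lit 410) (nat_lit 409) (nat_lit 201)) (XT.nd (nat_lit 78) (nat_lit 152) (nat_lit 0) (XT.lf (nat_lit 76) (nat_lit 904881227) (nat_lit 0) (nat_lit 1127683649) (nat_lit 76) (nat_lit 1127683649) (nat_lit 30) (nat_lit 3) (nat_lit 29) (nat_lit 1) (nat_lit 30) (nat_lit 1) (nat_lit 411) (nat_lit 409) (nat_lit 200)) (XT.lf (nat_lit 152) (nat_lit 2988081252) (nat_lit 0) (nat_lit 70690532) (nat_lit 76) (nat_lit 70690532) (nat_lit 29) (nat_lit 1) (nat_lit 27) (nat_lit 1) (nat_lit 28) (nat_lit 1) (nat_lit 412) (nat_lit 409) (nat_lit 199)))))) (XT.nd (nat_lit 390) (nat_lit 380) (nat_lit 0) (XT.nd (nat_lit 156) (nat_lit 228) (nat_lit 0) (XT.nd (nat_lit 78) (nat_lit 76) (nat_lit 0) (XT.lf (nat_lit 0) (nat_lit 964853991) (nat_lit 0) (nat_lit 1168749768) (nat_lit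 152) (nat_lit 964853991) (nat_lit 27) (nat_lit 3) (nat_lit 27) (nat_lit 1) (nat_lit 29) (nat_lit 1) (nat_lit 413) (nat_lit 409) (nat_lit 198)) (XT.lf (nat_lit 76) (nat_lit 890702786) (nat_lit 0) (nat_lit 1088659852) (nat_lit 76) (nat_lit 1088659852) (nat_lit 27) (nat_lit 3) (nat_lit 26) (nat_lit 1) (nat_lit 27) (nat_lit 1) (nat_lit 414) (nat_lit 409) (nat_lit 197))) (XT.nd (nat_lit 78) (nat_lit 76) (nat_lit 0) (XT.lf (nat_lit 152) (nat_lit 2912528054) (nat_lit 0) (nat_lit 62807622) (nat_lit 76) (nat_lit 62807622) (nat_lit 26) (nat_lit 1) (nat_lit 24) (nat_lit 1) (nat_lit 25) (nat_lit 1) (nat_lit 415) (nat_lit 409) (nat_lit 196)) (XT.nd (nat_lit 78) (nat_lit 76) (nat_lit 0) (XT.lf (nat_lit 0) (nat_lit 942295443) (nat_lit 0) (nat_lit 1123454201) (nat_lit 152) (nat_lit 942295443) (nat_lit 24) (nat_lit 3) (nat_lit 24) (nat_lit 1) (nat_lit 26) (nat_lit 1) (nat_lit 416) (nat_lit 409) (nat_lit 195)) (XT.lf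 (nat_lit 76) (nat_lit 875579380) (nat_lit 0) (nat_lit 1051461669) (nat_lit 76) (nat_lit 1051461669) (nat_lit 24) (nat_lit 3) (nat_lit 23) (nat_lit 1) (nat_lit 24) (nat_lit 1) (nat_lit 417) (nat_lit 409) (nat_lit 194))))) (XT.nd (nat_lit 156) (nat_lit 228) (nat_lit 0) (XT.nd (nat_lit 78) (nat_lit 0) (nat_lit 0) (XT.lf (nat_lit 152) (nat_lit 2837895456) (nat_lit 0) (nat_lit 55803759) (nat_lit 76) (nat_lit 55803759) (nat_lit 23) (nat_lit 1) (nat_lit 21) (nat_lit 1) (nat_lit 22) (nat_lit 1) (nat_lit 418) (nat_lit 409) (nat_lit 193)) (XT.lf (nat_lit 0) (nat_lit 919775714) (nat_lit 0) (nat_lit 1080732923) (nat_lit 152) (nat_lit 919775714) (nat_lit 21) (nat_lit 3) (nat_lit 21) (nat_lit 1) (nat_lit 23) (nat_lit 1) (nat_lit 419) (nat_lit 409) (nat_lit 192))) (XT.nd (nat_lit 78) (nat_lit 152) (nat_lit 0) (XT.lf (nat_lit 76) (nat_lit 859689960) (nat_lit 0) (nat_lit 1015959095) (nat_lit 76) (nat_lit 1015959095)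 (nat_lit 21) (nat_lit 3) (nat_lit 20) (nat_lit 1) (nat_lit 21) (nat_lit 1) (nat_lit 420) (nat_lit 409) (nat_lit 191)) (XT.nd (nat_lit 78) (nat_lit 0) (nat_lit 0) (XT.lf (nat_lit 152) (nat_lit 2764299379) (nat_lit 0) (nat_lit 49580917) (nat_lit 76) (nat_lit 49580917) (nat_lit 20) (nat_lit 1) (nat_lit 18) (nat_lit 1) (nat_lit 19) (nat_lit 1) (nat_lit 421) (nat_lit 409) (nat_lit 190)) (XT.lf (nat_lit 0) (nat_lit 897362611) (nat_lit 0) (nat_lit 1040371008) (nat_lit 152) (nat_lit 897362611) (nat_lit 18) (nat_lit 3) (nat_lit 18) (nat_lit 1) (nat_lit 20) (nat_lit 1) (nat_lit 422) (nat_lit 409) (nat_lit 189))))))) (XT.nd (nat_lit 36348) (nat_lit 0) (nat_lit 26296) (XT.nd (nat_lit 35958) (nat_lit 0) (nat_lit 27208) (XT.nd (nat_lit 35802) (nat_lit 0) (nat_lit 27132) (XT.nd (nat_lit 35724) (nat_lit 0) (nat_lit 27132) (XT.lf (nat_lit 76) (nat_lit 843191376) (nat_lit 0) (nat_lit 982034479) (nat_lit 76) (nat_lit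 982034479) (nat_lit 18) (nat_lit 3) (nat_lit 17) (nat_lit 1) (nat_lit 18) (nat_lit 1) (nat_lit 423) (nat_lit 409) (nat_lit 188)) (XT.lf (nat_lit 1292) (nat_lit 2953047323) (nat_lit 0) (nat_lit 10159856163) (nat_lit 1292) (nat_lit 2953047323) (nat_lit 391) (nat_lit 1) (nat_lit 374) (nat_lit 0) (nat_lit 391) (nat_lit 0) (nat_lit 200) (nat_lit 410) (nat_lit 410))) (XT.nd (nat_lit 78) (nat_lit 0) (nat_lit 76) (XT.lf (nat_lit 1292) (nat_lit 11540560686) (nat_lit 76) (nat_lit 10060249730) (nat_lit 0) (nat_lit 10060249730) (nat_lit 391) (nat_lit 1) (nat_lit 375) (nat_lit 1) (nat_lit 374) (nat_lit 0) (nat_lit 201) (nat_lit 410) (nat_lit 409)) (XT.lf (nat_lit 1292) (nat_lit 5581290307) (nat_lit 0) (nat_lit 20038023841) (nat_lit 1216) (nat_lit 5581290307) (nat_lit 392) (nat_lit 1) (nat_lit 375) (nat_lit 1) (nat_lit 391) (nat_lit 1) (nat_lit 202) (nat_lit 410) (nat_lit 408)))) (XT.nd (nat_lit 156) (nat_lit 0)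 (nat_lit 76) (XT.nd (nat_lit 78) (nat_lit 0) (nat_lit 76) (XT.lf (nat_lit 1292) (nat_lit 10599158458) (nat_lit 76) (nat_lit 10074339878) (nat_lit 0) (nat_lit 10074339878) (nat_lit 392) (nat_lit 1) (nat_lit 376) (nat_lit 1) (nat_lit 375) (nat_lit 1) (nat_lit 203) (nat_lit 410) (nat_lit 407)) (XT.lf (nat_lit 1292) (nat_lit 4973602246) (nat_lit 0) (nat_lit 20357998281) (nat_lit 1216) (nat_lit 4973602246) (nat_lit 393) (nat_lit 1) (nat_lit 376) (nat_lit 1) (nat_lit 392) (nat_lit 1) (nat_lit 204) (nat_lit 410) (nat_lit 406))) (XT.nd (nat_lit 78) (nat_lit 0) (nat_lit 76) (XT.lf (nat_lit 1292) (nat_lit 9114651258) (nat_lit 76) (nat_lit 10377497559) (nat_lit 0) (nat_lit 10377497559) (nat_lit 393) (nat_lit 1) (nat_lit 377) (nat_lit 1) (nat_lit 376) (nat_lit 1) (nat_lit 205) (nat_lit 410) (nat_lit 405)) (XT.nd (nat_lit 78) (nat_lit 0) (nat_lit 0) (XT.lf (nat_lit 1292) (nat_lit 4108051537) (nat_lit 0) (nat_lit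 21228044544) (nat_lit 1216) (nat_lit 4108051537) (nat_lit 394) (nat_lit 1) (nat_lit 377) (nat_lit 1) (nat_lit 393) (nat_lit 1) (nat_lit 206) (nat_lit 410) (nat_lit 404)) (XT.lf (nat_lit 1292) (nat_lit 7135608115) (nat_lit 76) (nat_lit 10944686111) (nat_lit 0) (nat_lit 10944686111) (nat_lit 394) (nat_lit 1) (nat_lit 378) (nat_lit 1) (nat_lit 377) (nat_lit 1) (nat_lit 207) (nat_lit 410) (nat_lit 403)))))) (XT.nd (nat_lit 390) (nat_lit 1140) (nat_lit 0) (XT.nd (nat_lit 156) (nat_lit 0) (nat_lit 76) (XT.nd (nat_lit 78) (nat_lit 0) (nat_lit 0) (XT.lf (nat_lit 1292) (nat_lit 3007967148) (nat_lit 0) (nat_lit 22600029762) (nat_lit 1216) (nat_lit 3007967148) (nat_lit 395) (nat_lit 1) (nat_lit 378) (nat_lit 1) (nat_lit 394) (nat_lit 1) (nat_lit 208) (nat_lit 410) (nat_lit 402)) (XT.lf (nat_lit 1292) (nat_lit 4707303417) (nat_lit 76) (nat_lit 11752551996) (nat_lit 0) (nat_lit 11752551996) (nat_lit 395) (nat_lit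 1) (nat_lit 379) (nat_lit 1) (nat_lit 378) (nat_lit 1) (nat_lit 209) (nat_lit 410) (nat_lit 401))) (XT.nd (nat_lit 78) (nat_lit 0) (nat_lit 0) (XT.lf (nat_lit 1292) (nat_lit 1695090518) (nat_lit 0) (nat_lit 24429066318) (nat_lit 1216) (nat_lit 1695090518) (nat_lit 396) (nat_lit 1) (nat_lit 379) (nat_lit 1) (nat_lit 395) (nat_lit 1) (nat_lit 210) (nat_lit 410) (nat_lit 400)) (XT.nd (nat_lit 78) (nat_lit 0) (nat_lit 76) (XT.lf (nat_lit 1292) (nat_lit 1871920793) (nat_lit 76) (nat_lit 12779321011) (nat_lit 0) (nat_lit 12779321011) (nat_lit 396) (nat_lit 1) (nat_lit 380) (nat_lit 1) (nat_lit 379) (nat_lit 1) (nat_lit 211) (nat_lit 410) (nat_lit 399)) (XT.lf (nat_lit 1292) (nat_lit 189673926) (nat_lit 0) (nat_lit 26673311512) (nat_lit 1216) (nat_lit 189673926) (nat_lit 397) (nat_lit 1) (nat_lit 380) (nat_lit 1) (nat_lit 396) (nat_lit 1) (nat_lit 212) (nat_lit 410) (nat_lit 398))))) (XT.nd (nat_lit 156) (nat_lit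 0) (nat_lit 76) (XT.nd (nat_lit 78) (nat_lit 0) (nat_lit 0) (XT.lf (nat_lit 1368) (nat_lit 12686242376) (nat_lit 0) (nat_lit 1305277560) (nat_lit 1292) (nat_lit 12686242376) (nat_lit 381) (nat_lit 1) (nat_lit 363) (nat_lit 1) (nat_lit 380) (nat_lit 1) (nat_lit 213) (nat_lit 410) (nat_lit 397)) (XT.lf (nat_lit 1368) (nat_lit 23363548820) (nat_lit 76) (nat_lit 1474824777) (nat_lit 0) (nat_lit 1474824777) (nat_lit 381) (nat_lit 1) (nat_lit 364) (nat_lit 1) (nat_lit 363) (nat_lit 1) (nat_lit 214) (nat_lit 410) (nat_lit 396))) (XT.nd (nat_lit 78) (nat_lit 0) (nat_lit 0) (XT.lf (nat_lit 1368) (nat_lit 10590901659) (nat_lit 0) (nat_lit 4770711945) (nat_lit 1292) (nat_lit 10590901659) (nat_lit 382) (nat_lit 1) (nat_lit 364) (nat_lit 1) (nat_lit 381) (nat_lit 1) (nat_lit 215) (nat_lit 410) (nat_lit 395)) (XT.nd (nat_lit 78) (nat_lit 0) (nat_lit 76) (XT.lf (nat_lit 1368) (nat_lit 19016832118) (nat_lit 76) (nat_lit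 3292071543) (nat_lit 0) (nat_lit 3292071543) (nat_lit 382) (nat_lit 1) (nat_lit 365) (nat_lit 1) (nat_lit 364) (nat_lit 1) (nat_lit 216) (nat_lit 410) (nat_lit 394)) (XT.lf (nat_lit 76) (nat_lit 8363316432) (nat_lit 0) (nat_lit 8527557268) (nat_lit 1292) (nat_lit 8363316432) (nat_lit 366) (nat_lit 1) (nat_lit 365) (nat_lit 1) (nat_lit 382) (nat_lit 1) (nat_lit 217) (nat_lit 410) (nat_lit 393))))))))
noncomputable def ec359 : XT := (XT.nd (nat_lit 1482) (nat_lit 4256) (nat_lit 0) (XT.nd (nat_lit 702) (nat_lit 3040) (nat_lit 0) (XT.nd (nat_lit 312) (nat_lit 1824) (nat_lit 0) (XT.nd (nat_lit 156) (nat_lit 608) (nat_lit 0) (XT.nd (nat_lit 78) (nat_lit 0) (nat_lit 0) (XT.lf (nat_lit 912) (nat_lit 14419534940) (nat_lit 0) (nat_lit 5247767801) (nat_lit 836) (nat_lit 5247767801) (nat_lit 366) (nat_lit 1) (nat_lit 354) (nat_lit 1) (nat_lit 365) (nat_lit 1) (nat_lit 218) (nat_lit 410) (nat_lit 392)) (XT.lf (nat_lit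 76) (nat_lit 6018433185) (nat_lit 0) (nat_lit 12544803571) (nat_lit 912) (nat_lit 6018433185) (nat_lit 355) (nat_lit 1) (nat_lit 354) (nat_lit 1) (nat_lit 366) (nat_lit 1) (nat_lit 219) (nat_lit 410) (nat_lit 391))) (XT.nd (nat_lit 78) (nat_lit 0) (nat_lit 0) (XT.lf (nat_lit 684) (nat_lit 9600607643) (nat_lit 0) (nat_lit 7326895105) (nat_lit 608) (nat_lit 7326895105) (nat_lit 355) (nat_lit 1) (nat_lit 346) (nat_lit 1) (nat_lit 354) (nat_lit 1) (nat_lit 220) (nat_lit 410) (nat_lit 390)) (XT.lf (nat_lit 76) (nat_lit 3570126194) (nat_lit 0) (nat_lit 16793636969) (nat_lit 684) (nat_lit 3570126194) (nat_lit 347) (nat_lit 1) (nat_lit 346) (nat_lit 1) (nat_lit 355) (nat_lit 1) (nat_lit 221) (nat_lit 410) (nat_lit 389)))) (XT.nd (nat_lit 156) (nat_lit 1216) (nat_lit 0) (XT.nd (nat_lit 78) (nat_lit 0) (nat_lit 0) (XT.lf (nat_lit 684) (nat_lit 4586914465) (nat_lit 0) (nat_lit 9515503075) (nat_lit 608) (nat_lit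 9515503075) (nat_lit 347) (nat_lit 1) (nat_lit 338) (nat_lit 1) (nat_lit 346) (nat_lit 1) (nat_lit 222) (nat_lit 410) (nat_lit 388)) (XT.lf (nat_lit 76) (nat_lit 1031265307) (nat_lit 0) (nat_lit 21247301468) (nat_lit 684) (nat_lit 1031265307) (nat_lit 339) (nat_lit 1) (nat_lit 338) (nat_lit 1) (nat_lit 347) (nat_lit 1) (nat_lit 223) (nat_lit 410) (nat_lit 387))) (XT.nd (nat_lit 78) (nat_lit 608) (nat_lit 0) (XT.lf (nat_lit 76) (nat_lit 11209742934) (nat_lit 0) (nat_lit 584991885) (nat_lit 608) (nat_lit 11209742934) (nat_lit 331) (nat_lit 1) (nat_lit 330) (nat_lit 1) (nat_lit 338) (nat_lit 1) (nat_lit 224) (nat_lit 410) (nat_lit 386)) (XT.nd (nat_lit 78) (nat_lit 0) (nat_lit 0) (XT.lf (nat_lit 684) (nat_lit 19565351114) (nat_lit 0) (nat_lit 1570669159) (nat_lit 608) (nat_lit 1570669159) (nat_lit 331) (nat_lit 1) (nat_lit 322) (nat_lit 1) (nat_lit 330) (nat_lit 1) (nat_lit 225) (nat_lit 410) (nat_lit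 385)) (XT.lf (nat_lit 76) (nat_lit 8300315076) (nat_lit 0) (nat_lit 5811302184) (nat_lit 684) (nat_lit 8300315076) (nat_lit 323) (nat_lit 1) (nat_lit 322) (nat_lit 1) (nat_lit 331) (nat_lit 1) (nat_lit 226) (nat_lit 410) (nat_lit 384)))))) (XT.nd (nat_lit 390) (nat_lit 1520) (nat_lit 0) (XT.nd (nat_lit 156) (nat_lit 988) (nat_lit 0) (XT.nd (nat_lit 78) (nat_lit 0) (nat_lit 0) (XT.lf (nat_lit 608) (nat_lit 13665286734) (nat_lit 0) (nat_lit 4229407119) (nat_lit 532) (nat_lit 4229407119) (nat_lit 323) (nat_lit 1) (nat_lit 315) (nat_lit 1) (nat_lit 322) (nat_lit 1) (nat_lit 227) (nat_lit 410) (nat_lit 383)) (XT.lf (nat_lit 76) (nat_lit 5340069444) (nat_lit 0) (nat_lit 11160573386) (nat_lit 608) (nat_lit 5340069444) (nat_lit 316) (nat_lit 1) (nat_lit 315) (nat_lit 1) (nat_lit 323) (nat_lit 1) (nat_lit 228) (nat_lit 410) (nat_lit 382))) (XT.nd (nat_lit 78) (nat_lit 456) (nat_lit 0) (XT.lf (nat_lit 608) (nat_lit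 7672519708) (nat_lit 0) (nat_lit 6944935496) (nat_lit 532) (nat_lit 6944935496) (nat_lit 316) (nat_lit 1) (nat_lit 308) (nat_lit 1) (nat_lit 315) (nat_lit 1) (nat_lit 229) (nat_lit 410) (nat_lit 381)) (XT.nd (nat_lit 78) (nat_lit 456) (nat_lit 0) (XT.lf (nat_lit 76) (nat_lit 2338267773) (nat_lit 0) (nat_lit 16613427446) (nat_lit 608) (nat_lit 2338267773) (nat_lit 309) (nat_lit 1) (nat_lit 308) (nat_lit 1) (nat_lit 316) (nat_lit 1) (nat_lit 230) (nat_lit 410) (nat_lit 380)) (XT.lf (nat_lit 532) (nat_lit 1604936319) (nat_lit 0) (nat_lit 9707894885) (nat_lit 456) (nat_lit 9707894885) (nat_lit 309) (nat_lit 1) (nat_lit 302) (nat_lit 1) (nat_lit 308) (nat_lit 1) (nat_lit 231) (nat_lit 410) (nat_lit 379))))) (XT.nd (nat_lit 156) (nat_lit 912) (nat_lit 0) (XT.nd (nat_lit 78) (nat_lit 0) (nat_lit 0) (XT.lf (nat_lit 608) (nat_lit 19378629107) (nat_lit 0) (nat_lit 689715786) (nat_lit 532) (nat_lit 689715786)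 (nat_lit 302) (nat_lit 1) (nat_lit 294) (nat_lit 1) (nat_lit 301) (nat_lit 1) (nat_lit 232) (nat_lit 410) (nat_lit 378)) (XT.lf (nat_lit 76) (nat_lit 8032129268) (nat_lit 0) (nat_lit 4432749455) (nat_lit 608) (nat_lit 8032129268) (nat_lit 295) (nat_lit 1) (nat_lit 294) (nat_lit 1) (nat_lit 302) (nat_lit 1) (nat_lit 233) (nat_lit 410) (nat_lit 377))) (XT.nd (nat_lit 78) (nat_lit 456) (nat_lit 0) (XT.lf (nat_lit 532) (nat_lit 12802964704) (nat_lit 0) (nat_lit 3719664150) (nat_lit 456) (nat_lit 3719664150) (nat_lit 295) (nat_lit 1) (nat_lit 288) (nat_lit 1) (nat_lit 294) (nat_lit 1) (nat_lit 234) (nat_lit 410) (nat_lit 376)) (XT.nd (nat_lit 78) (nat_lit 456) (nat_lit 0) (XT.lf (nat_lit 76) (nat_lit 4754948993) (nat_lit 0) (nat_lit 10481406816) (nat_lit 532) (nat_lit 4754948993) (nat_lit 289) (nat_lit 1) (nat_lit 288) (nat_lit 1) (nat_lit 295) (nat_lit 1) (nat_lit 235) (nat_lit 410) (nat_lit 375)) (XT.lf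 (nat_lit 532) (nat_lit 6209986941) (nat_lit 0) (nat_lit 6767323508) (nat_lit 456) (nat_lit 6767323508) (nat_lit 289) (nat_lit 1) (nat_lit 282) (nat_lit 1) (nat_lit 288) (nat_lit 1) (nat_lit 236) (nat_lit 410) (nat_lit 374))))))) (XT.nd (nat_lit 702) (nat_lit 2128) (nat_lit 0) (XT.nd (nat_lit 312) (nat_lit 1216) (nat_lit 0) (XT.nd (nat_lit 156) (nat_lit 456) (nat_lit 0) (XT.nd (nat_lit 78) (nat_lit 456) (nat_lit 0) (XT.lf (nat_lit 76) (nat_lit 1472352396) (nat_lit 0) (nat_lit 16558652085) (nat_lit 532) (nat_lit 1472352396) (nat_lit 283) (nat_lit 1) (nat_lit 282) (nat_lit 1) (nat_lit 289) (nat_lit 1) (nat_lit 237) (nat_lit 410) (nat_lit 373)) (XT.lf (nat_lit 76) (nat_lit 9442011465) (nat_lit 0) (nat_lit 380244173) (nat_lit 456) (nat_lit 9442011465) (nat_lit 277) (nat_lit 1) (nat_lit 276) (nat_lit 1) (nat_lit 282) (nat_lit 1) (nat_lit 238) (nat_lit 410) (nat_lit 372))) (XT.nd (nat_lit 78) (nat_lit 0) (nat_lit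 0) (XT.lf (nat_lit 532) (nat_lit 15446434817) (nat_lit 0) (nat_lit 1791970240) (nat_lit 456) (nat_lit 1791970240) (nat_lit 277) (nat_lit 1) (nat_lit 270) (nat_lit 1) (nat_lit 276) (nat_lit 1) (nat_lit 239) (nat_lit 410) (nat_lit 371)) (XT.lf (nat_lit 76) (nat_lit 5978017815) (nat_lit 0) (nat_lit 6842805824) (nat_lit 532) (nat_lit 5978017815) (nat_lit 271) (nat_lit 1) (nat_lit 270) (nat_lit 1) (nat_lit 277) (nat_lit 1) (nat_lit 240) (nat_lit 410) (nat_lit 370)))) (XT.nd (nat_lit 156) (nat_lit 836) (nat_lit 0) (XT.nd (nat_lit 78) (nat_lit 0) (nat_lit 0) (XT.lf (nat_lit 456) (nat_lit 8500212225) (nat_lit 0) (nat_lit 5035942560) (nat_lit 380) (nat_lit 5035942560) (nat_lit 271) (nat_lit 1) (nat_lit 265) (nat_lit 1) (nat_lit 270) (nat_lit 1) (nat_lit 241) (nat_lit 410) (nat_lit 369)) (XT.lf (nat_lit 76) (nat_lit 2530441676) (nat_lit 0) (nat_lit 13288622804) (nat_lit 456) (nat_lit 2530441676) (nat_lit 266)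 (nat_lit 1) (nat_lit 265) (nat_lit 1) (nat_lit 271) (nat_lit 1) (nat_lit 242) (nat_lit 410) (nat_lit 368))) (XT.nd (nat_lit 78) (nat_lit 456) (nat_lit 0) (XT.lf (nat_lit 456) (nat_lit 1591448492) (nat_lit 0) (nat_lit 8269077566) (nat_lit 380) (nat_lit 8269077566) (nat_lit 266) (nat_lit 1) (nat_lit 260) (nat_lit 1) (nat_lit 265) (nat_lit 1) (nat_lit 243) (nat_lit 410) (nat_lit 367)) (XT.nd (nat_lit 78) (nat_lit 0) (nat_lit 0) (XT.lf (nat_lit 456) (nat_lit 16139491541) (nat_lit 0) (nat_lit 887558186) (nat_lit 380) (nat_lit 887558186) (nat_lit 260) (nat_lit 1) (nat_lit 254) (nat_lit 1) (nat_lit 259) (nat_lit 1) (nat_lit 244) (nat_lit 410) (nat_lit 366)) (XT.lf (nat_lit 76) (nat_lit 6266078063) (nat_lit 0) (nat_lit 5168618237) (nat_lit 456) (nat_lit 6266078063) (nat_lit 255) (nat_lit 1) (nat_lit 254) (nat_lit 1) (nat_lit 260) (nat_lit 1) (nat_lit 245) (nat_lit 410) (nat_lit 365)))))) (XT.nd (nat_lit 390)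 (nat_lit 988) (nat_lit 0) (XT.nd (nat_lit 156) (nat_lit 760) (nat_lit 0) (XT.nd (nat_lit 78) (nat_lit 0) (nat_lit 0) (XT.lf (nat_lit 456) (nat_lit 8979216005) (nat_lit 0) (nat_lit 4256238532) (nat_lit 380) (nat_lit 4256238532) (nat_lit 255) (nat_lit 1) (nat_lit 249) (nat_lit 1) (nat_lit 254) (nat_lit 1) (nat_lit 246) (nat_lit 410) (nat_lit 364)) (XT.lf (nat_lit 76) (nat_lit 2720428224) (nat_lit 0) (nat_lit 11845255661) (nat_lit 456) (nat_lit 2720428224) (nat_lit 250) (nat_lit 1) (nat_lit 249) (nat_lit 1) (nat_lit 255) (nat_lit 1) (nat_lit 247) (nat_lit 410) (nat_lit 363))) (XT.nd (nat_lit 78) (nat_lit 456) (nat_lit 0) (XT.lf (nat_lit 380) (nat_lit 1889425950) (nat_lit 0) (nat_lit 7596855284) (nat_lit 304) (nat_lit 7596855284) (nat_lit 250) (nat_lit 1) (nat_lit 245) (nat_lit 1) (nat_lit 249) (nat_lit 1) (nat_lit 248) (nat_lit 410) (nat_lit 362)) (XT.nd (nat_lit 78) (nat_lit 0) (nat_lit 0) (XT.lf (nat_lit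 456) (nat_lit 15322805114) (nat_lit 0) (nat_lit 780904280) (nat_lit 380) (nat_lit 780904280) (nat_lit 245) (nat_lit 1) (nat_lit 239) (nat_lit 1) (nat_lit 244) (nat_lit 1) (nat_lit 249) (nat_lit 410) (nat_lit 361)) (XT.lf (nat_lit 76) (nat_lit 5831453533) (nat_lit 0) (nat_lit 5024018218) (nat_lit 456) (nat_lit 5831453533) (nat_lit 240) (nat_lit 1) (nat_lit 239) (nat_lit 1) (nat_lit 245) (nat_lit 1) (nat_lit 250) (nat_lit 410) (nat_lit 360))))) (XT.nd (nat_lit 156) (nat_lit 684) (nat_lit 0) (XT.nd (nat_lit 78) (nat_lit 0) (nat_lit 0) (XT.lf (nat_lit 380) (nat_lit 8060352909) (nat_lit 0) (nat_lit 4216603642) (nat_lit 304) (nat_lit 4216603642) (nat_lit 240) (nat_lit 1) (nat_lit 235) (nat_lit 1) (nat_lit 239) (nat_lit 1) (nat_lit 251) (nat_lit 410) (nat_lit 359)) (XT.lf (nat_lit 76) (nat_lit 2241461019) (nat_lit 0) (nat_lit 11820580625) (nat_lit 380) (nat_lit 2241461019) (nat_lit 236) (nat_lit 1) (nat_lit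 235) (nat_lit 1) (nat_lit 240) (nat_lit 1) (nat_lit 252) (nat_lit 410) (nat_lit 358))) (XT.nd (nat_lit 78) (nat_lit 380) (nat_lit 0) (XT.lf (nat_lit 380) (nat_lit 893800140) (nat_lit 0) (nat_lit 7610902635) (nat_lit 304) (nat_lit 7610902635) (nat_lit 236) (nat_lit 1) (nat_lit 231) (nat_lit 1) (nat_lit 235) (nat_lit 1) (nat_lit 253) (nat_lit 410) (nat_lit 357)) (XT.nd (nat_lit 78) (nat_lit 0) (nat_lit 0) (XT.lf (nat_lit 380) (nat_lit 13357269087) (nat_lit 0) (nat_lit 1287073564) (nat_lit 304) (nat_lit 1287073564) (nat_lit 231) (nat_lit 1) (nat_lit 226) (nat_lit 1) (nat_lit 230) (nat_lit 1) (nat_lit 254) (nat_lit 410) (nat_lit 356)) (XT.lf (nat_lit 76) (nat_lit 4847969178) (nat_lit 0) (nat_lit 6052551204) (nat_lit 380) (nat_lit 4847969178) (nat_lit 227) (nat_lit 1) (nat_lit 226) (nat_lit 1) (nat_lit 231) (nat_lit 1) (nat_lit 255) (nat_lit 410) (nat_lit 355))))))))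
noncomputable def ec360 : XT := (XT.nd (nat_lit 1404) (nat_lit 2584) (nat_lit 0) (XT.nd (nat_lit 702) (nat_lit 1292) (nat_lit 0) (XT.nd (nat_lit 312) (nat_lit 836) (nat_lit 0) (XT.nd (nat_lit 156) (nat_lit 608) (nat_lit 0) (XT.nd (nat_lit 78) (nat_lit 0) (nat_lit 0) (XT.lf (nat_lit 380) (nat_lit 6081909589) (nat_lit 0) (nat_lit 4743626482) (nat_lit 304) (nat_lit 4743626482) (nat_lit 227) (nat_lit 1) (nat_lit 222) (nat_lit 1) (nat_lit 226) (nat_lit 1) (nat_lit 256) (nat_lit 410) (nat_lit 354)) (XT.lf (nat_lit 76) (nat_lit 1256463434) (nat_lit 0) (nat_lit 12880377903) (nat_lit 380) (nat_lit 1256463434) (nat_lit 223) (nat_lit 1) (nat_lit 222) (nat_lit 1) (nat_lit 227) (nat_lit 1) (nat_lit 257) (nat_lit 410) (nat_lit 353))) (XT.nd (nat_lit 78) (nat_lit 304) (nat_lit 0) (XT.lf (nat_lit 76) (nat_lit 7080620050) (nat_lit 0) (nat_lit 1057339973) (nat_lit 304) (nat_lit 7080620050) (nat_lit 219) (nat_lit 1) (nat_lit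 218) (nat_lit 1) (nat_lit 222) (nat_lit 1) (nat_lit 258) (nat_lit 410) (nat_lit 352)) (XT.lf (nat_lit 380) (nat_lit 10537464636) (nat_lit 0) (nat_lit 2254881823) (nat_lit 304) (nat_lit 2254881823) (nat_lit 219) (nat_lit 1) (nat_lit 214) (nat_lit 1) (nat_lit 218) (nat_lit 1) (nat_lit 259) (nat_lit 410) (nat_lit 351)))) (XT.nd (nat_lit 156) (nat_lit 608) (nat_lit 0) (XT.nd (nat_lit 78) (nat_lit 228) (nat_lit 0) (XT.lf (nat_lit 76) (nat_lit 3457452348) (nat_lit 0) (nat_lit 7962923846) (nat_lit 380) (nat_lit 3457452348) (nat_lit 215) (nat_lit 1) (nat_lit 214) (nat_lit 1) (nat_lit 219) (nat_lit 1) (nat_lit 260) (nat_lit 410) (nat_lit 350)) (XT.lf (nat_lit 304) (nat_lit 3319788329) (nat_lit 0) (nat_lit 5695650311) (nat_lit 228) (nat_lit 5695650311) (nat_lit 215) (nat_lit 1) (nat_lit 211) (nat_lit 1) (nat_lit 214) (nat_lit 1) (nat_lit 261) (nat_lit 410) (nat_lit 349))) (XT.nd (nat_lit 78) (nat_lit 228) (nat_lit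 0) (XT.lf (nat_lit 380) (nat_lit 14346640400) (nat_lit 0) (nat_lit 100745074) (nat_lit 304) (nat_lit 100745074) (nat_lit 211) (nat_lit 1) (nat_lit 206) (nat_lit 1) (nat_lit 210) (nat_lit 1) (nat_lit 262) (nat_lit 410) (nat_lit 348)) (XT.nd (nat_lit 78) (nat_lit 228) (nat_lit 0) (XT.lf (nat_lit 76) (nat_lit 5344815086) (nat_lit 0) (nat_lit 3695221600) (nat_lit 380) (nat_lit 5344815086) (nat_lit 207) (nat_lit 1) (nat_lit 206) (nat_lit 1) (nat_lit 211) (nat_lit 1) (nat_lit 263) (nat_lit 410) (nat_lit 347)) (XT.lf (nat_lit 304) (nat_lit 7102907144) (nat_lit 0) (nat_lit 3561183186) (nat_lit 228) (nat_lit 3561183186) (nat_lit 207) (nat_lit 1) (nat_lit 203) (nat_lit 1) (nat_lit 206) (nat_lit 1) (nat_lit 264) (nat_lit 410) (nat_lit 346)))))) (XT.nd (nat_lit 312) (nat_lit 760) (nat_lit 0) (XT.nd (nat_lit 156) (nat_lit 228) (nat_lit 0) (XT.nd (nat_lit 78) (nat_lit 304) (nat_lit 0) (XT.lf (nat_lit 76) (nat_lit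 1775162981) (nat_lit 0) (nat_lit 10517968881) (nat_lit 304) (nat_lit 1775162981) (nat_lit 204) (nat_lit 1) (nat_lit 203) (nat_lit 1) (nat_lit 207) (nat_lit 1) (nat_lit 265) (nat_lit 410) (nat_lit 345)) (XT.lf (nat_lit 76) (nat_lit 6955511071) (nat_lit 0) (nat_lit 1862259) (nat_lit 304) (nat_lit 6955511071) (nat_lit 200) (nat_lit 1) (nat_lit 199) (nat_lit 1) (nat_lit 203) (nat_lit 1) (nat_lit 266) (nat_lit 410) (nat_lit 344))) (XT.nd (nat_lit 78) (nat_lit 0) (nat_lit 0) (XT.lf (nat_lit 304) (nat_lit 10343188777) (nat_lit 0) (nat_lit 1708406548) (nat_lit 228) (nat_lit 1708406548) (nat_lit 200) (nat_lit 1) (nat_lit 196) (nat_lit 1) (nat_lit 199) (nat_lit 1) (nat_lit 267) (nat_lit 410) (nat_lit 343)) (XT.lf (nat_lit 76) (nat_lit 3388432539) (nat_lit 0) (nat_lit 6831724404) (nat_lit 304) (nat_lit 3388432539) (nat_lit 197) (nat_lit 1) (nat_lit 196) (nat_lit 1) (nat_lit 200) (nat_lit 1) (nat_lit 268) (nat_lit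 410) (nat_lit 342)))) (XT.nd (nat_lit 156) (nat_lit 228) (nat_lit 0) (XT.nd (nat_lit 78) (nat_lit 304) (nat_lit 0) (XT.lf (nat_lit 304) (nat_lit 3247437197) (nat_lit 0) (nat_lit 5106099579) (nat_lit 228) (nat_lit 5106099579) (nat_lit 197) (nat_lit 1) (nat_lit 193) (nat_lit 1) (nat_lit 196) (nat_lit 1) (nat_lit 269) (nat_lit 410) (nat_lit 341)) (XT.lf (nat_lit 304) (nat_lit 13104690018) (nat_lit 0) (nat_lit 104636325) (nat_lit 228) (nat_lit 104636325) (nat_lit 193) (nat_lit 1) (nat_lit 189) (nat_lit 1) (nat_lit 192) (nat_lit 1) (nat_lit 270) (nat_lit 410) (nat_lit 340))) (XT.nd (nat_lit 78) (nat_lit 228) (nat_lit 0) (XT.lf (nat_lit 76) (nat_lit 4769047572) (nat_lit 0) (nat_lit 3629748436) (nat_lit 304) (nat_lit 4769047572) (nat_lit 190) (nat_lit 1) (nat_lit 189) (nat_lit 1) (nat_lit 193) (nat_lit 1) (nat_lit 271) (nat_lit 410) (nat_lit 339)) (XT.nd (nat_lit 78) (nat_lit 0) (nat_lit 0) (XT.lf (nat_lit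 304) (nat_lit 6039795908) (nat_lit 0) (nat_lit 3492574002) (nat_lit 228) (nat_lit 3492574002) (nat_lit 190) (nat_lit 1) (nat_lit 186) (nat_lit 1) (nat_lit 189) (nat_lit 1) (nat_lit 272) (nat_lit 410) (nat_lit 338)) (XT.lf (nat_lit 76) (nat_lit 1291794461) (nat_lit 0) (nat_lit 10300875699) (nat_lit 304) (nat_lit 1291794461) (nat_lit 187) (nat_lit 1) (nat_lit 186) (nat_lit 1) (nat_lit 190) (nat_lit 1) (nat_lit 273) (nat_lit 410) (nat_lit 337))))))) (XT.nd (nat_lit 702) (nat_lit 1292) (nat_lit 0) (XT.nd (nat_lit 312) (nat_lit 684) (nat_lit 0) (XT.nd (nat_lit 156) (nat_lit 152) (nat_lit 0) (XT.nd (nat_lit 78) (nat_lit 228) (nat_lit 0) (XT.lf (nat_lit 76) (nat_lit 5944488599) (nat_lit 0) (nat_lit 855906598) (nat_lit 228) (nat_lit 5944488599) (nat_lit 184) (nat_lit 1) (nat_lit 183) (nat_lit 1) (nat_lit 186) (nat_lit 1) (nat_lit 274) (nat_lit 410) (nat_lit 336)) (XT.lf (nat_lit 304) (nat_lit 8428892106) (nat_lit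 0) (nat_lit 2089388958) (nat_lit 228) (nat_lit 2089388958) (nat_lit 184) (nat_lit 1) (nat_lit 180) (nat_lit 1) (nat_lit 183) (nat_lit 1) (nat_lit 275) (nat_lit 410) (nat_lit 335))) (XT.nd (nat_lit 78) (nat_lit 152) (nat_lit 0) (XT.lf (nat_lit 76) (nat_lit 2493065906) (nat_lit 0) (nat_lit 7485890244) (nat_lit 304) (nat_lit 2493065906) (nat_lit 181) (nat_lit 1) (nat_lit 180) (nat_lit 1) (nat_lit 184) (nat_lit 1) (nat_lit 276) (nat_lit 410) (nat_lit 334)) (XT.lf (nat_lit 228) (nat_lit 1570255010) (nat_lit 0) (nat_lit 5383966194) (nat_lit 152) (nat_lit 5383966194) (nat_lit 181) (nat_lit 1) (nat_lit 178) (nat_lit 1) (nat_lit 180) (nat_lit 1) (nat_lit 277) (nat_lit 410) (nat_lit 333)))) (XT.nd (nat_lit 156) (nat_lit 380) (nat_lit 0) (XT.nd (nat_lit 78) (nat_lit 0) (nat_lit 0) (XT.lf (nat_lit 304) (nat_lit 10462370853) (nat_lit 0) (nat_lit 872202983) (nat_lit 228) (nat_lit 872202983) (nat_lit 178) (nat_lit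 1) (nat_lit 174) (nat_lit 1) (nat_lit 177) (nat_lit 1) (nat_lit 278) (nat_lit 410) (nat_lit 332)) (XT.lf (nat_lit 76) (nat_lit 3521195854) (nat_lit 0) (nat_lit 5033345265) (nat_lit 304) (nat_lit 3521195854) (nat_lit 175) (nat_lit 1) (nat_lit 174) (nat_lit 1) (nat_lit 178) (nat_lit 1) (nat_lit 279) (nat_lit 410) (nat_lit 331))) (XT.nd (nat_lit 78) (nat_lit 228) (nat_lit 0) (XT.lf (nat_lit 228) (nat_lit 3672677085) (nat_lit 0) (nat_lit 4137199730) (nat_lit 152) (nat_lit 4137199730) (nat_lit 175) (nat_lit 1) (nat_lit 172) (nat_lit 1) (nat_lit 174) (nat_lit 1) (nat_lit 280) (nat_lit 410) (nat_lit 330)) (XT.nd (nat_lit 78) (nat_lit 228) (nat_lit 0) (XT.lf (nat_lit 76) (nat_lit 182373174) (nat_lit 0) (nat_lit 11456358037) (nat_lit 228) (nat_lit 182373174) (nat_lit 173) (nat_lit 1) (nat_lit 172) (nat_lit 1) (nat_lit 175) (nat_lit 1) (nat_lit 281) (nat_lit 410) (nat_lit 329)) (XT.lf (nat_lit 76) (nat_lit 4396633110)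 (nat_lit 0) (nat_lit 2901410368) (nat_lit 228) (nat_lit 4396633110) (nat_lit 170) (nat_lit 1) (nat_lit 169) (nat_lit 1) (nat_lit 172) (nat_lit 1) (nat_lit 282) (nat_lit 410) (nat_lit 328)))))) (XT.nd (nat_lit 390) (nat_lit 760) (nat_lit 0) (XT.nd (nat_lit 156) (nat_lit 380) (nat_lit 0) (XT.nd (nat_lit 78) (nat_lit 0) (nat_lit 0) (XT.lf (nat_lit 228) (nat_lit 5474316162) (nat_lit 0) (nat_lit 3048290608) (nat_lit 152) (nat_lit 3048290608) (nat_lit 170) (nat_lit 1) (nat_lit 167) (nat_lit 1) (nat_lit 169) (nat_lit 1) (nat_lit 283) (nat_lit 410) (nat_lit 327)) (XT.lf (nat_lit 76) (nat_lit 1098916701) (nat_lit 0) (nat_lit 9251311311) (nat_lit 228) (nat_lit 1098916701) (nat_lit 168) (nat_lit 1) (nat_lit 167) (nat_lit 1) (nat_lit 170) (nat_lit 1) (nat_lit 284) (nat_lit 410) (nat_lit 326))) (XT.nd (nat_lit 78) (nat_lit 152) (nat_lit 0) (XT.lf (nat_lit 76) (nat_lit 5137512932) (nat_lit 0) (nat_lit 1052960962)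 (nat_lit 228) (nat_lit 5137512932) (nat_lit 165) (nat_lit 1) (nat_lit 164) (nat_lit 1) (nat_lit 167) (nat_lit 1) (nat_lit 285) (nat_lit 410) (nat_lit 325)) (XT.nd (nat_lit 78) (nat_lit 0) (nat_lit 0) (XT.lf (nat_lit 228) (nat_lit 7010645552) (nat_lit 0) (nat_lit 2099087338) (nat_lit 152) (nat_lit 2099087338) (nat_lit 165) (nat_lit 1) (nat_lit 162) (nat_lit 1) (nat_lit 164) (nat_lit 1) (nat_lit 286) (nat_lit 410) (nat_lit 324)) (XT.lf (nat_lit 76) (nat_lit 1885965972) (nat_lit 0) (nat_lit 7319170838) (nat_lit 228) (nat_lit 1885965972) (nat_lit 163) (nat_lit 1) (nat_lit 162) (nat_lit 1) (nat_lit 165) (nat_lit 1) (nat_lit 287) (nat_lit 410) (nat_lit 323))))) (XT.nd (nat_lit 156) (nat_lit 380) (nat_lit 0) (XT.nd (nat_lit 78) (nat_lit 228) (nat_lit 0) (XT.lf (nat_lit 228) (nat_lit 555793225) (nat_lit 0) (nat_lit 5209465389) (nat_lit 152) (nat_lit 5209465389) (nat_lit 163) (nat_lit 1) (nat_lit 160) (nat_lit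 1) (nat_lit 162) (nat_lit 1) (nat_lit 288) (nat_lit 410) (nat_lit 322)) (XT.lf (nat_lit 228) (nat_lit 8313126552) (nat_lit 0) (nat_lit 1273478528) (nat_lit 152) (nat_lit 1273478528) (nat_lit 160) (nat_lit 1) (nat_lit 157) (nat_lit 1) (nat_lit 159) (nat_lit 1) (nat_lit 289) (nat_lit 410) (nat_lit 321))) (XT.nd (nat_lit 78) (nat_lit 380) (nat_lit 0) (XT.lf (nat_lit 76) (nat_lit 2558756064) (nat_lit 0) (nat_lit 5628717192) (nat_lit 228) (nat_lit 2558756064) (nat_lit 158) (nat_lit 1) (nat_lit 157) (nat_lit 1) (nat_lit 160) (nat_lit 1) (nat_lit 290) (nat_lit 410) (nat_lit 320)) (XT.nd (nat_lit 78) (nat_lit 228) (nat_lit 0) (XT.lf (nat_lit 228) (nat_lit 1959790349) (nat_lit 0) (nat_lit 4337146769) (nat_lit 152) (nat_lit 4337146769) (nat_lit 158) (nat_lit 1) (nat_lit 155) (nat_lit 1) (nat_lit 157) (nat_lit 1) (nat_lit 291) (nat_lit 410) (nat_lit 319)) (XT.lf (nat_lit 228) (nat_lit 9409657485) (nat_lit 0) (nat_lit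 557164922) (nat_lit 152) (nat_lit 557164922) (nat_lit 155) (nat_lit 1) (nat_lit 152) (nat_lit 1) (nat_lit 154) (nat_lit 1) (nat_lit 292) (nat_lit 410) (nat_lit 318))))))))
noncomputable def ec361 : XT := (XT.nd (nat_lit 1482) (nat_lit 1596) (nat_lit 0) (XT.nd (nat_lit 702) (nat_lit 988) (nat_lit 0) (XT.nd (nat_lit 312) (nat_lit 456) (nat_lit 0) (XT.nd (nat_lit 156) (nat_lit 152) (nat_lit 0) (XT.nd (nat_lit 78) (nat_lit 152) (nat_lit 0) (XT.lf (nat_lit 76) (nat_lit 3130799995) (nat_lit 0) (nat_lit 4152235236) (nat_lit 228) (nat_lit 3130799995) (nat_lit 153) (nat_lit 1) (nat_lit 152) (nat_lit 1) (nat_lit 155) (nat_lit 1) (nat_lit 293) (nat_lit 410) (nat_lit 317)) (XT.lf (nat_lit 228) (nat_lit 3164525301) (nat_lit 0) (nat_lit 3570590229) (nat_lit 152) (nat_lit 3570590229) (nat_lit 153) (nat_lit 1) (nat_lit 150) (nat_lit 1) (nat_lit 152) (nat_lit 1) (nat_lit 294) (nat_lit 410) (nat_lit 316))) (XT.nd (nat_lit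 78) (nat_lit 152) (nat_lit 0) (XT.lf (nat_lit 76) (nat_lit 63162369) (nat_lit 0) (nat_lit 10073488377) (nat_lit 228) (nat_lit 63162369) (nat_lit 151) (nat_lit 1) (nat_lit 150) (nat_lit 1) (nat_lit 153) (nat_lit 1) (nat_lit 295) (nat_lit 410) (nat_lit 315)) (XT.lf (nat_lit 76) (nat_lit 3614081432) (nat_lit 0) (nat_lit 2865122677) (nat_lit 152) (nat_lit 3614081432) (nat_lit 149) (nat_lit 1) (nat_lit 148) (nat_lit 1) (nat_lit 150) (nat_lit 1) (nat_lit 296) (nat_lit 410) (nat_lit 314)))) (XT.nd (nat_lit 156) (nat_lit 304) (nat_lit 0) (XT.nd (nat_lit 78) (nat_lit 0) (nat_lit 0) (XT.lf (nat_lit 228) (nat_lit 4193462033) (nat_lit 0) (nat_lit 2897754725) (nat_lit 152) (nat_lit 2897754725) (nat_lit 149) (nat_lit 1) (nat_lit 146) (nat_lit 1) (nat_lit 148) (nat_lit 1) (nat_lit 297) (nat_lit 410) (nat_lit 313)) (XT.lf (nat_lit 76) (nat_lit 602815559) (nat_lit 0) (nat_lit 8680855274) (nat_lit 228) (nat_lit 602815559)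 (nat_lit 147) (nat_lit 1) (nat_lit 146) (nat_lit 1) (nat_lit 149) (nat_lit 1) (nat_lit 298) (nat_lit 410) (nat_lit 312))) (XT.nd (nat_lit 78) (nat_lit 152) (nat_lit 0) (XT.lf (nat_lit 76) (nat_lit 4019225890) (nat_lit 0) (nat_lit 1745542302) (nat_lit 152) (nat_lit 4019225890) (nat_lit 145) (nat_lit 1) (nat_lit 144) (nat_lit 1) (nat_lit 146) (nat_lit 1) (nat_lit 299) (nat_lit 410) (nat_lit 311)) (XT.nd (nat_lit 78) (nat_lit 0) (nat_lit 0) (XT.lf (nat_lit 228) (nat_lit 5067411741) (nat_lit 0) (nat_lit 2307949146) (nat_lit 152) (nat_lit 2307949146) (nat_lit 145) (nat_lit 1) (nat_lit 142) (nat_lit 1) (nat_lit 144) (nat_lit 1) (nat_lit 300) (nat_lit 410) (nat_lit 310)) (XT.lf (nat_lit 76) (nat_lit 1066367227) (nat_lit 0) (nat_lit 7451362741) (nat_lit 228) (nat_lit 1066367227) (nat_lit 143) (nat_lit 1) (nat_lit 142) (nat_lit 1) (nat_lit 145) (nat_lit 1) (nat_lit 301) (nat_lit 410) (nat_lit 309)))))) (XT.nd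 (nat_lit 390) (nat_lit 380) (nat_lit 0) (XT.nd (nat_lit 156) (nat_lit 304) (nat_lit 0) (XT.nd (nat_lit 78) (nat_lit 152) (nat_lit 0) (XT.lf (nat_lit 76) (nat_lit 4355652813) (nat_lit 0) (nat_lit 774113002) (nat_lit 152) (nat_lit 4355652813) (nat_lit 141) (nat_lit 1) (nat_lit 140) (nat_lit 1) (nat_lit 142) (nat_lit 1) (nat_lit 302) (nat_lit 410) (nat_lit 308)) (XT.lf (nat_lit 228) (nat_lit 5804829737) (nat_lit 0) (nat_lit 1791681568) (nat_lit 152) (nat_lit 1791681568) (nat_lit 141) (nat_lit 1) (nat_lit 138) (nat_lit 1) (nat_lit 140) (nat_lit 1) (nat_lit 303) (nat_lit 410) (nat_lit 307))) (XT.nd (nat_lit 78) (nat_lit 304) (nat_lit 0) (XT.lf (nat_lit 76) (nat_lit 1462767461) (nat_lit 0) (nat_lit 6366590028) (nat_lit 228) (nat_lit 1462767461) (nat_lit 139) (nat_lit 1) (nat_lit 138) (nat_lit 1) (nat_lit 141) (nat_lit 1) (nat_lit 304) (nat_lit 410) (nat_lit 306)) (XT.nd (nat_lit 78) (nat_lit 228) (nat_lit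 0) (XT.lf (nat_lit 152) (nat_lit 67685514) (nat_lit 0) (nat_lit 4564675810) (nat_lit 76) (nat_lit 4564675810) (nat_lit 139) (nat_lit 1) (nat_lit 137) (nat_lit 1) (nat_lit 138) (nat_lit 1) (nat_lit 305) (nat_lit 410) (nat_lit 305)) (XT.lf (nat_lit 228) (nat_lit 6422079180) (nat_lit 0) (nat_lit 1340525329) (nat_lit 152) (nat_lit 1340525329) (nat_lit 137) (nat_lit 1) (nat_lit 134) (nat_lit 1) (nat_lit 136) (nat_lit 1) (nat_lit 306) (nat_lit 410) (nat_lit 304))))) (XT.nd (nat_lit 156) (nat_lit 304) (nat_lit 0) (XT.nd (nat_lit 78) (nat_lit 76) (nat_lit 0) (XT.lf (nat_lit 76) (nat_lit 1799954789) (nat_lit 0) (nat_lit 5410177190) (nat_lit 228) (nat_lit 1799954789) (nat_lit 135) (nat_lit 1) (nat_lit 134) (nat_lit 1) (nat_lit 137) (nat_lit 1) (nat_lit 307) (nat_lit 410) (nat_lit 303)) (XT.lf (nat_lit 152) (nat_lit 806898137) (nat_lit 0) (nat_lit 4055655335) (nat_lit 76) (nat_lit 4055655335) (nat_lit 135) (nat_lit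 1) (nat_lit 133) (nat_lit 1) (nat_lit 134) (nat_lit 1) (nat_lit 308) (nat_lit 410) (nat_lit 302))) (XT.nd (nat_lit 78) (nat_lit 76) (nat_lit 0) (XT.lf (nat_lit 228) (nat_lit 6933665380) (nat_lit 0) (nat_lit 947000035) (nat_lit 152) (nat_lit 947000035) (nat_lit 133) (nat_lit 1) (nat_lit 130) (nat_lit 1) (nat_lit 132) (nat_lit 1) (nat_lit 309) (nat_lit 410) (nat_lit 301)) (XT.nd (nat_lit 78) (nat_lit 76) (nat_lit 0) (XT.lf (nat_lit 76) (nat_lit 2084969376) (nat_lit 0) (nat_lit 4567595090) (nat_lit 228) (nat_lit 2084969376) (nat_lit 131) (nat_lit 1) (nat_lit 130) (nat_lit 1) (nat_lit 133) (nat_lit 1) (nat_lit 310) (nat_lit 410) (nat_lit 300)) (XT.lf (nat_lit 152) (nat_lit 1441928674) (nat_lit 0) (nat_lit 3603397236) (nat_lit 76) (nat_lit 3603397236) (nat_lit 131) (nat_lit 1) (nat_lit 129) (nat_lit 1) (nat_lit 130) (nat_lit 1) (nat_lit 311) (nat_lit 410) (nat_lit 299))))))) (XT.nd (nat_lit 702) (nat_lit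 684) (nat_lit 0) (XT.nd (nat_lit 312) (nat_lit 380) (nat_lit 0) (XT.nd (nat_lit 156) (nat_lit 304) (nat_lit 0) (XT.nd (nat_lit 78) (nat_lit 0) (nat_lit 0) (XT.lf (nat_lit 228) (nat_lit 7352443930) (nat_lit 0) (nat_lit 604465850) (nat_lit 152) (nat_lit 604465850) (nat_lit 129) (nat_lit 1) (nat_lit 126) (nat_lit 1) (nat_lit 128) (nat_lit 1) (nat_lit 312) (nat_lit 410) (nat_lit 298)) (XT.lf (nat_lit 76) (nat_lit 2324053587) (nat_lit 0) (nat_lit 3825941047) (nat_lit 228) (nat_lit 2324053587) (nat_lit 127) (nat_lit 1) (nat_lit 126) (nat_lit 1) (nat_lit 129) (nat_lit 1) (nat_lit 313) (nat_lit 410) (nat_lit 297))) (XT.nd (nat_lit 78) (nat_lit 228) (nat_lit 0) (XT.lf (nat_lit 152) (nat_lit 1985028282) (nat_lit 0) (nat_lit 3201571773) (nat_lit 76) (nat_lit 3201571773) (nat_lit 127) (nat_lit 1) (nat_lit 125) (nat_lit 1) (nat_lit 126) (nat_lit 1) (nat_lit 314) (nat_lit 410) (nat_lit 296)) (XT.lf (nat_lit 228)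 (nat_lit 7689805616) (nat_lit 0) (nat_lit 307029578) (nat_lit 152) (nat_lit 307029578) (nat_lit 125) (nat_lit 1) (nat_lit 122) (nat_lit 1) (nat_lit 124) (nat_lit 1) (nat_lit 315) (nat_lit 410) (nat_lit 295)))) (XT.nd (nat_lit 156) (nat_lit 304) (nat_lit 0) (XT.nd (nat_lit 78) (nat_lit 76) (nat_lit 0) (XT.lf (nat_lit 76) (nat_lit 2522741317) (nat_lit 0) (nat_lit 3173757290) (nat_lit 228) (nat_lit 2522741317) (nat_lit 123) (nat_lit 1) (nat_lit 122) (nat_lit 1) (nat_lit 125) (nat_lit 1) (nat_lit 316) (nat_lit 410) (nat_lit 294)) (XT.lf (nat_lit 152) (nat_lit 2447063501) (nat_lit 0) (nat_lit 2844555053) (nat_lit 76) (nat_lit 2844555053) (nat_lit 123) (nat_lit 1) (nat_lit 121) (nat_lit 1) (nat_lit 122) (nat_lit 1) (nat_lit 317) (nat_lit 410) (nat_lit 293))) (XT.nd (nat_lit 78) (nat_lit 76) (nat_lit 0) (XT.lf (nat_lit 228) (nat_lit 7955840666) (nat_lit 0) (nat_lit 49461221) (nat_lit 152) (nat_lit 49461221)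 (nat_lit 121) (nat_lit 1) (nat_lit 118) (nat_lit 1) (nat_lit 120) (nat_lit 1) (nat_lit 318) (nat_lit 410) (nat_lit 292)) (XT.nd (nat_lit 78) (nat_lit 76) (nat_lit 0) (XT.lf (nat_lit 76) (nat_lit 2685937361) (nat_lit 0) (nat_lit 2600869647) (nat_lit 228) (nat_lit 2685937361) (nat_lit 119) (nat_lit 1) (nat_lit 118) (nat_lit 1) (nat_lit 121) (nat_lit 1) (nat_lit 319) (nat_lit 410) (nat_lit 291)) (XT.lf (nat_lit 152) (nat_lit 2837671200) (nat_lit 0) (nat_lit 2527350321) (nat_lit 76) (nat_lit 2527350321) (nat_lit 119) (nat_lit 1) (nat_lit 117) (nat_lit 1) (nat_lit 118) (nat_lit 1) (nat_lit 320) (nat_lit 410) (nat_lit 290)))))) (XT.nd (nat_lit 390) (nat_lit 304) (nat_lit 0) (XT.nd (nat_lit 156) (nat_lit 228) (nat_lit 0) (XT.nd (nat_lit 78) (nat_lit 152) (nat_lit 0) (XT.lf (nat_lit 0) (nat_lit 174591838) (nat_lit 0) (nat_lit 7464338266) (nat_lit 152) (nat_lit 174591838) (nat_lit 117) (nat_lit 3) (nat_lit 117)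 (nat_lit 1) (nat_lit 119) (nat_lit 1) (nat_lit 321) (nat_lit 410) (nat_lit 289)) (XT.lf (nat_lit 76) (nat_lit 2817987911) (nat_lit 0) (nat_lit 2098244238) (nat_lit 152) (nat_lit 2817987911) (nat_lit 116) (nat_lit 1) (nat_lit 115) (nat_lit 1) (nat_lit 117) (nat_lit 1) (nat_lit 322) (nat_lit 410) (nat_lit 288))) (XT.nd (nat_lit 78) (nat_lit 152) (nat_lit 0) (XT.lf (nat_lit 152) (nat_lit 3165396218) (nat_lit 0) (nat_lit 2245518026) (nat_lit 76) (nat_lit 2245518026) (nat_lit 116) (nat_lit 1) (nat_lit 114) (nat_lit 1) (nat_lit 115) (nat_lit 1) (nat_lit 323) (nat_lit 410) (nat_lit 287)) (XT.nd (nat_lit 78) (nat_lit 152) (nat_lit 0) (XT.lf (nat_lit 0) (nat_lit 367717343) (nat_lit 0) (nat_lit 6844562627) (nat_lit 152) (nat_lit 367717343) (nat_lit 114) (nat_lit 3) (nat_lit 114) (nat_lit 1) (nat_lit 116) (nat_lit 1) (nat_lit 324) (nat_lit 410) (nat_lit 286)) (XT.lf (nat_lit 76) (nat_lit 2922743192) (nat_lit 0)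 (nat_lit 1657860153) (nat_lit 152) (nat_lit 2922743192) (nat_lit 113) (nat_lit 1) (nat_lit 112) (nat_lit 1) (nat_lit 114) (nat_lit 1) (nat_lit 325) (nat_lit 410) (nat_lit 285))))) (XT.nd (nat_lit 156) (nat_lit 228) (nat_lit 0) (XT.nd (nat_lit 78) (nat_lit 0) (nat_lit 0) (XT.lf (nat_lit 152) (nat_lit 3437813649) (nat_lit 0) (nat_lit 1995113682) (nat_lit 76) (nat_lit 1995113682) (nat_lit 113) (nat_lit 1) (nat_lit 111) (nat_lit 1) (nat_lit 112) (nat_lit 1) (nat_lit 326) (nat_lit 410) (nat_lit 284)) (XT.lf (nat_lit 0) (nat_lit 533114772) (nat_lit 0) (nat_lit 6287707918) (nat_lit 152) (nat_lit 533114772) (nat_lit 111) (nat_lit 3) (nat_lit 111) (nat_lit 1) (nat_lit 113) (nat_lit 1) (nat_lit 327) (nat_lit 410) (nat_lit 283))) (XT.nd (nat_lit 78) (nat_lit 76) (nat_lit 0) (XT.lf (nat_lit 76) (nat_lit 3003613093) (nat_lit 0) (nat_lit 1272596326) (nat_lit 152) (nat_lit 3003613093) (nat_lit 110) (nat_lit 1) (nat_lit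 109) (nat_lit 1) (nat_lit 111) (nat_lit 1) (nat_lit 328) (nat_lit 410) (nat_lit 282)) (XT.nd (nat_lit 78) (nat_lit 0) (nat_lit 0) (XT.lf (nat_lit 152) (nat_lit 3661637470) (nat_lit 0) (nat_lit 1772632666) (nat_lit 76) (nat_lit 1772632666) (nat_lit 110) (nat_lit 1) (nat_lit 108) (nat_lit 1) (nat_lit 109) (nat_lit 1) (nat_lit 329) (nat_lit 410) (nat_lit 281)) (XT.lf (nat_lit 0) (nat_lit 674056517) (nat_lit 0) (nat_lit 5786937994) (nat_lit 152) (nat_lit 674056517) (nat_lit 108) (nat_lit 3) (nat_lit 108) (nat_lit 1) (nat_lit 110) (nat_lit 1) (nat_lit 330) (nat_lit 410) (nat_lit 280))))))))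
noncomputable def ec362 : XT := (XT.nd (nat_lit 1482) (nat_lit 1520) (nat_lit 0) (XT.nd (nat_lit 702) (nat_lit 760) (nat_lit 0) (XT.nd (nat_lit 312) (nat_lit 304) (nat_lit 0) (XT.nd (nat_lit 156) (nat_lit 152) (nat_lit 0) (XT.nd (nat_lit 78) (nat_lit 76) (nat_lit 0) (XT.lf (nat_lit 76) (nat_lit 3063616595) (nat_lit 0) (nat_lit 936131035) (nat_lit 152) (nat_lit 3063616595) (nat_lit 107) (nat_lit 1) (nat_lit 106) (nat_lit 1) (nat_lit 108) (nat_lit 1) (nat_lit 331) (nat_lit 410) (nat_lit 279)) (XT.lf (nat_lit 152) (nat_lit 3842817049) (nat_lit 0) (nat_lit 1574961164) (nat_lit 76) (nat_lit 1574961164) (nat_lit 107) (nat_lit 1) (nat_lit 105) (nat_lit 1) (nat_lit 106) (nat_lit 1) (nat_lit 332) (nat_lit 410) (nat_lit 278))) (XT.nd (nat_lit 78) (nat_lit 152) (nat_lit 0) (XT.lf (nat_lit 0) (nat_lit 793444803) (nat_lit 0) (nat_lit 5336173772) (nat_lit 152) (nat_lit 793444803) (nat_lit 105) (nat_lit 3) (nat_lit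 105) (nat_lit 1) (nat_lit 107) (nat_lit 1) (nat_lit 333) (nat_lit 410) (nat_lit 277)) (XT.lf (nat_lit 76) (nat_lit 3105425670) (nat_lit 0) (nat_lit 642852613) (nat_lit 152) (nat_lit 3105425670) (nat_lit 104) (nat_lit 1) (nat_lit 103) (nat_lit 1) (nat_lit 105) (nat_lit 1) (nat_lit 334) (nat_lit 410) (nat_lit 276)))) (XT.nd (nat_lit 156) (nat_lit 228) (nat_lit 0) (XT.nd (nat_lit 78) (nat_lit 0) (nat_lit 0) (XT.lf (nat_lit 152) (nat_lit 3986622868) (nat_lit 0) (nat_lit 1399332595) (nat_lit 76) (nat_lit 1399332595) (nat_lit 104) (nat_lit 1) (nat_lit 102) (nat_lit 1) (nat_lit 103) (nat_lit 1) (nat_lit 335) (nat_lit 410) (nat_lit 275)) (XT.lf (nat_lit 0) (nat_lit 893853118) (nat_lit 0) (nat_lit 4930008969) (nat_lit 152) (nat_lit 893853118) (nat_lit 102) (nat_lit 3) (nat_lit 102) (nat_lit 1) (nat_lit 104) (nat_lit 1) (nat_lit 336) (nat_lit 410) (nat_lit 274))) (XT.nd (nat_lit 78) (nat_lit 76) (nat_lit 0) (XT.lf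 (nat_lit 76) (nat_lit 3131404277) (nat_lit 0) (nat_lit 387780116) (nat_lit 152) (nat_lit 3131404277) (nat_lit 101) (nat_lit 1) (nat_lit 100) (nat_lit 1) (nat_lit 102) (nat_lit 1) (nat_lit 337) (nat_lit 410) (nat_lit 273)) (XT.nd (nat_lit 78) (nat_lit 0) (nat_lit 0) (XT.lf (nat_lit 152) (nat_lit 4097722678) (nat_lit 0) (nat_lit 1243288886) (nat_lit 76) (nat_lit 1243288886) (nat_lit 101) (nat_lit 1) (nat_lit 99) (nat_lit 1) (nat_lit 100) (nat_lit 1) (nat_lit 338) (nat_lit 410) (nat_lit 272)) (XT.lf (nat_lit 0) (nat_lit 977563022) (nat_lit 0) (nat_lit 4563635219) (nat_lit 152) (nat_lit 977563022) (nat_lit 99) (nat_lit 3) (nat_lit 99) (nat_lit 1) (nat_lit 101) (nat_lit 1) (nat_lit 339) (nat_lit 410) (nat_lit 271)))))) (XT.nd (nat_lit 390) (nat_lit 304) (nat_lit 0) (XT.nd (nat_lit 156) (nat_lit 228) (nat_lit 0) (XT.nd (nat_lit 78) (nat_lit 76) (nat_lit 0) (XT.lf (nat_lit 76) (nat_lit 3143643007) (nat_lit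 0) (nat_lit 166492849) (nat_lit 152) (nat_lit 3143643007) (nat_lit 98) (nat_lit 1) (nat_lit 97) (nat_lit 1) (nat_lit 99) (nat_lit 1) (nat_lit 340) (nat_lit 410) (nat_lit 270)) (XT.lf (nat_lit 152) (nat_lit 4180249152) (nat_lit 0) (nat_lit 1104646072) (nat_lit 76) (nat_lit 1104646072) (nat_lit 98) (nat_lit 1) (nat_lit 96) (nat_lit 1) (nat_lit 97) (nat_lit 1) (nat_lit 341) (nat_lit 410) (nat_lit 269))) (XT.nd (nat_lit 78) (nat_lit 228) (nat_lit 0) (XT.lf (nat_lit 0) (nat_lit 1046596845) (nat_lit 0) (nat_lit 4232775545) (nat_lit 152) (nat_lit 1046596845) (nat_lit 96) (nat_lit 3) (nat_lit 96) (nat_lit 1) (nat_lit 98) (nat_lit 1) (nat_lit 342) (nat_lit 410) (nat_lit 268)) (XT.nd (nat_lit 78) (nat_lit 152) (nat_lit 0) (XT.lf (nat_lit 76) (nat_lit 25428451) (nat_lit 0) (nat_lit 3118805830) (nat_lit 76) (nat_lit 3118805830) (nat_lit 96) (nat_lit 3) (nat_lit 95) (nat_lit 1) (nat_lit 96) (nat_lit 1) (nat_lit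 343) (nat_lit 410) (nat_lit 267)) (XT.lf (nat_lit 152) (nat_lit 4237859973) (nat_lit 0) (nat_lit 981463728) (nat_lit 76) (nat_lit 981463728) (nat_lit 95) (nat_lit 1) (nat_lit 93) (nat_lit 1) (nat_lit 94) (nat_lit 1) (nat_lit 344) (nat_lit 410) (nat_lit 266))))) (XT.nd (nat_lit 156) (nat_lit 228) (nat_lit 0) (XT.nd (nat_lit 78) (nat_lit 76) (nat_lit 0) (XT.lf (nat_lit 0) (nat_lit 1102746732) (nat_lit 0) (nat_lit 3933625240) (nat_lit 152) (nat_lit 1102746732) (nat_lit 93) (nat_lit 3) (nat_lit 93) (nat_lit 1) (nat_lit 95) (nat_lit 1) (nat_lit 345) (nat_lit 410) (nat_lit 265)) (XT.lf (nat_lit 76) (nat_lit 193757145) (nat_lit 0) (nat_lit 2942182880) (nat_lit 76) (nat_lit 2942182880) (nat_lit 93) (nat_lit 3) (nat_lit 92) (nat_lit 1) (nat_lit 93) (nat_lit 1) (nat_lit 346) (nat_lit 410) (nat_lit 264))) (XT.nd (nat_lit 78) (nat_lit 76) (nat_lit 0) (XT.lf (nat_lit 152) (nat_lit 4273791215) (nat_lit 0) (nat_lit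 872017810) (nat_lit 76) (nat_lit 872017810) (nat_lit 92) (nat_lit 1) (nat_lit 90) (nat_lit 1) (nat_lit 91) (nat_lit 1) (nat_lit 347) (nat_lit 410) (nat_lit 263)) (XT.nd (nat_lit 78) (nat_lit 76) (nat_lit 0) (XT.lf (nat_lit 0) (nat_lit 1147600452) (nat_lit 0) (nat_lit 3662799340) (nat_lit 152) (nat_lit 1147600452) (nat_lit 90) (nat_lit 3) (nat_lit 90) (nat_lit 1) (nat_lit 92) (nat_lit 1) (nat_lit 348) (nat_lit 410) (nat_lit 262)) (XT.lf (nat_lit 76) (nat_lit 338329641) (nat_lit 0) (nat_lit 2780270309) (nat_lit 76) (nat_lit 2780270309) (nat_lit 90) (nat_lit 3) (nat_lit 89) (nat_lit 1) (nat_lit 90) (nat_lit 1) (nat_lit 349) (nat_lit 410) (nat_lit 261))))))) (XT.nd (nat_lit 702) (nat_lit 836) (nat_lit 0) (XT.nd (nat_lit 312) (nat_lit 304) (nat_lit 0) (XT.nd (nat_lit 156) (nat_lit 228) (nat_lit 0) (XT.nd (nat_lit 78) (nat_lit 0) (nat_lit 0) (XT.lf (nat_lit 152) (nat_lit 4290904760) (nat_lit 0) (nat_lit 774776530)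 (nat_lit 76) (nat_lit 774776530) (nat_lit 89) (nat_lit 1) (nat_lit 87) (nat_lit 1) (nat_lit 88) (nat_lit 1) (nat_lit 350) (nat_lit 410) (nat_lit 260)) (XT.lf (nat_lit 0) (nat_lit 1182564316) (nat_lit 0) (nat_lit 3417285951) (nat_lit 152) (nat_lit 1182564316) (nat_lit 87) (nat_lit 3) (nat_lit 87) (nat_lit 1) (nat_lit 89) (nat_lit 1) (nat_lit 351) (nat_lit 410) (nat_lit 259))) (XT.nd (nat_lit 78) (nat_lit 152) (nat_lit 0) (XT.lf (nat_lit 76) (nat_lit 461940269) (nat_lit 0) (nat_lit 2631572924) (nat_lit 76) (nat_lit 2631572924) (nat_lit 87) (nat_lit 3) (nat_lit 86) (nat_lit 1) (nat_lit 87) (nat_lit 1) (nat_lit 352) (nat_lit 410) (nat_lit 258)) (XT.lf (nat_lit 152) (nat_lit 4291730410) (nat_lit 0) (nat_lit 688378912) (nat_lit 76) (nat_lit 688378912) (nat_lit 86) (nat_lit 1) (nat_lit 84) (nat_lit 1) (nat_lit 85) (nat_lit 1) (nat_lit 353) (nat_lit 410) (nat_lit 257)))) (XT.nd (nat_lit 156) (nat_lit 228) (nat_lit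 0) (XT.nd (nat_lit 78) (nat_lit 76) (nat_lit 0) (XT.lf (nat_lit 0) (nat_lit 1208883542) (nat_lit 0) (nat_lit 3194404771) (nat_lit 152) (nat_lit 1208883542) (nat_lit 84) (nat_lit 3) (nat_lit 84) (nat_lit 1) (nat_lit 86) (nat_lit 1) (nat_lit 354) (nat_lit 410) (nat_lit 256)) (XT.lf (nat_lit 76) (nat_lit 567067523) (nat_lit 0) (nat_lit 2494758036) (nat_lit 76) (nat_lit 2494758036) (nat_lit 84) (nat_lit 3) (nat_lit 83) (nat_lit 1) (nat_lit 84) (nat_lit 1) (nat_lit 355) (nat_lit 410) (nat_lit 255))) (XT.nd (nat_lit 78) (nat_lit 76) (nat_lit 0) (XT.lf (nat_lit 152) (nat_lit 4278503297) (nat_lit 0) (nat_lit 611615747) (nat_lit 76) (nat_lit 611615747) (nat_lit 83) (nat_lit 1) (nat_lit 81) (nat_lit 1) (nat_lit 82) (nat_lit 1) (nat_lit 356) (nat_lit 410) (nat_lit 254)) (XT.nd (nat_lit 78) (nat_lit 76) (nat_lit 0) (XT.lf (nat_lit 0) (nat_lit 1227660345) (nat_lit 0) (nat_lit 2991770240) (nat_lit 152) (nat_lit 1227660345)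 (nat_lit 81) (nat_lit 3) (nat_lit 81) (nat_lit 1) (nat_lit 83) (nat_lit 1) (nat_lit 357) (nat_lit 410) (nat_lit 253)) (XT.lf (nat_lit 76) (nat_lit 655909409) (nat_lit 0) (nat_lit 2368637462) (nat_lit 76) (nat_lit 2368637462) (nat_lit 81) (nat_lit 3) (nat_lit 80) (nat_lit 1) (nat_lit 81) (nat_lit 1) (nat_lit 358) (nat_lit 410) (nat_lit 252)))))) (XT.nd (nat_lit 390) (nat_lit 456) (nat_lit 0) (XT.nd (nat_lit 156) (nat_lit 228) (nat_lit 0) (XT.nd (nat_lit 78) (nat_lit 0) (nat_lit 0) (XT.lf (nat_lit 152) (nat_lit 4253197107) (nat_lit 0) (nat_lit 543412669) (nat_lit 76) (nat_lit 543412669) (nat_lit 80) (nat_lit 1) (nat_lit 78) (nat_lit 1) (nat_lit 79) (nat_lit 1) (nat_lit 359) (nat_lit 410) (nat_lit 251)) (XT.lf (nat_lit 0) (nat_lit 1239870000) (nat_lit 0) (nat_lit 2807258793) (nat_lit 152) (nat_lit 1239870000) (nat_lit 78) (nat_lit 3) (nat_lit 78) (nat_lit 1) (nat_lit 80) (nat_lit 1) (nat_lit 360) (nat_lit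 410) (nat_lit 250))) (XT.nd (nat_lit 78) (nat_lit 152) (nat_lit 0) (XT.lf (nat_lit 76) (nat_lit 730414839) (nat_lit 0) (nat_lit 2252151531) (nat_lit 76) (nat_lit 2252151531) (nat_lit 78) (nat_lit 3) (nat_lit 77) (nat_lit 1) (nat_lit 78) (nat_lit 1) (nat_lit 361) (nat_lit 410) (nat_lit 249)) (XT.nd (nat_lit 78) (nat_lit 0) (nat_lit 0) (XT.lf (nat_lit 152) (nat_lit 4217553595) (nat_lit 0) (nat_lit 482815118) (nat_lit 76) (nat_lit 482815118) (nat_lit 77) (nat_lit 1) (nat_lit 75) (nat_lit 1) (nat_lit 76) (nat_lit 1) (nat_lit 362) (nat_lit 410) (nat_lit 248)) (XT.lf (nat_lit 0) (nat_lit 1246375120) (nat_lit 0) (nat_lit 2638979761) (nat_lit 152) (nat_lit 1246375120) (nat_lit 75) (nat_lit 3) (nat_lit 75) (nat_lit 1) (nat_lit 77) (nat_lit 1) (nat_lit 363) (nat_lit 410) (nat_lit 247))))) (XT.nd (nat_lit 156) (nat_lit 228) (nat_lit 0) (XT.nd (nat_lit 78) (nat_lit 152) (nat_lit 0) (XT.lf (nat_lit 76) (nat_lit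 792311527) (nat_lit 0) (nat_lit 2144354868) (nat_lit 76) (nat_lit 2144354868) (nat_lit 75) (nat_lit 3) (nat_lit 74) (nat_lit 1) (nat_lit 75) (nat_lit 1) (nat_lit 364) (nat_lit 410) (nat_lit 246)) (XT.lf (nat_lit 152) (nat_lit 4173108784) (nat_lit 0) (nat_lit 428974979) (nat_lit 76) (nat_lit 428974979) (nat_lit 74) (nat_lit 1) (nat_lit 72) (nat_lit 1) (nat_lit 73) (nat_lit 1) (nat_lit 365) (nat_lit 410) (nat_lit 245))) (XT.nd (nat_lit 78) (nat_lit 228) (nat_lit 0) (XT.lf (nat_lit 0) (nat_lit 1247938330) (nat_lit 0) (nat_lit 2485249516) (nat_lit 152) (nat_lit 1247938330) (nat_lit 72) (nat_lit 3) (nat_lit 72) (nat_lit 1) (nat_lit 74) (nat_lit 1) (nat_lit 366) (nat_lit 410) (nat_lit 244)) (XT.nd (nat_lit 78) (nat_lit 152) (nat_lit 0) (XT.lf (nat_lit 76) (nat_lit 843130765) (nat_lit 0) (nat_lit 2044403762) (nat_lit 76) (nat_lit 2044403762) (nat_lit 72) (nat_lit 3) (nat_lit 71) (nat_lit 1) (nat_lit 72) (nat_lit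 1) (nat_lit 367) (nat_lit 410) (nat_lit 243)) (XT.lf (nat_lit 152) (nat_lit 4121216251) (nat_lit 0) (nat_lit 381138713) (nat_lit 76) (nat_lit 381138713) (nat_lit 71) (nat_lit 1) (nat_lit 69) (nat_lit 1) (nat_lit 70) (nat_lit 1) (nat_lit 368) (nat_lit 410) (nat_lit 242))))))))
noncomputable def ec363 : XT := (XT.nd (nat_lit 1482) (nat_lit 1444) (nat_lit 0) (XT.nd (nat_lit 702) (nat_lit 684) (nat_lit 0) (XT.nd (nat_lit 312) (nat_lit 456) (nat_lit 0) (XT.nd (nat_lit 156) (nat_lit 152) (nat_lit 0) (XT.nd (nat_lit 78) (nat_lit 76) (nat_lit 0) (XT.lf (nat_lit 0) (nat_lit 1245233526) (nat_lit 0) (nat_lit 2344568490) (nat_lit 152) (nat_lit 1245233526) (nat_lit 69) (nat_lit 3) (nat_lit 69) (nat_lit 1) (nat_lit 71) (nat_lit 1) (nat_lit 369) (nat_lit 410) (nat_lit 241)) (XT.lf (nat_lit 76) (nat_lit 884229440) (nat_lit 0) (nat_lit 1951544939) (nat_lit 76) (nat_lit 1951544939) (nat_lit 69) (nat_lit 3) (nat_lit 68)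 (nat_lit 1) (nat_lit 69) (nat_lit 1) (nat_lit 370) (nat_lit 410) (nat_lit 240))) (XT.nd (nat_lit 78) (nat_lit 0) (nat_lit 0) (XT.lf (nat_lit 152) (nat_lit 4063067791) (nat_lit 0) (nat_lit 338636810) (nat_lit 76) (nat_lit 338636810) (nat_lit 68) (nat_lit 1) (nat_lit 66) (nat_lit 1) (nat_lit 67) (nat_lit 1) (nat_lit 371) (nat_lit 410) (nat_lit 239)) (XT.lf (nat_lit 0) (nat_lit 1238855883) (nat_lit 0) (nat_lit 2215600760) (nat_lit 152) (nat_lit 1238855883) (nat_lit 66) (nat_lit 3) (nat_lit 66) (nat_lit 1) (nat_lit 68) (nat_lit 1) (nat_lit 372) (nat_lit 410) (nat_lit 238)))) (XT.nd (nat_lit 156) (nat_lit 228) (nat_lit 0) (XT.nd (nat_lit 78) (nat_lit 152) (nat_lit 0) (XT.lf (nat_lit 76) (nat_lit 916809585) (nat_lit 0) (nat_lit 1865105581) (nat_lit 76) (nat_lit 1865105581) (nat_lit 66) (nat_lit 3) (nat_lit 65) (nat_lit 1) (nat_lit 66) (nat_lit 1) (nat_lit 373) (nat_lit 410) (nat_lit 237)) (XT.lf (nat_lit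 152) (nat_lit 3999711778) (nat_lit 0) (nat_lit 300874419) (nat_lit 76) (nat_lit 300874419) (nat_lit 65) (nat_lit 1) (nat_lit 63) (nat_lit 1) (nat_lit 64) (nat_lit 1) (nat_lit 374) (nat_lit 410) (nat_lit 236))) (XT.nd (nat_lit 78) (nat_lit 228) (nat_lit 0) (XT.lf (nat_lit 0) (nat_lit 1229330730) (nat_lit 0) (nat_lit 2097155902) (nat_lit 152) (nat_lit 1229330730) (nat_lit 63) (nat_lit 3) (nat_lit 63) (nat_lit 1) (nat_lit 65) (nat_lit 1) (nat_lit 375) (nat_lit 410) (nat_lit 235)) (XT.nd (nat_lit 78) (nat_lit 152) (nat_lit 0) (XT.lf (nat_lit 76) (nat_lit 941935752) (nat_lit 0) (nat_lit 1784484463) (nat_lit 76) (nat_lit 1784484463) (nat_lit 63) (nat_lit 3) (nat_lit 62) (nat_lit 1) (nat_lit 63) (nat_lit 1) (nat_lit 376) (nat_lit 410) (nat_lit 234)) (XT.lf (nat_lit 152) (nat_lit 3932069460) (nat_lit 0) (nat_lit 267323025) (nat_lit 76) (nat_lit 267323025) (nat_lit 62) (nat_lit 1) (nat_lit 60) (nat_lit 1) (nat_lit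 61) (nat_lit 1) (nat_lit 377) (nat_lit 410) (nat_lit 233)))))) (XT.nd (nat_lit 390) (nat_lit 380) (nat_lit 0) (XT.nd (nat_lit 156) (nat_lit 228) (nat_lit 0) (XT.nd (nat_lit 78) (nat_lit 76) (nat_lit 0) (XT.lf (nat_lit 0) (nat_lit 1217121445) (nat_lit 0) (nat_lit 1988172870) (nat_lit 152) (nat_lit 1217121445) (nat_lit 60) (nat_lit 3) (nat_lit 60) (nat_lit 1) (nat_lit 62) (nat_lit 1) (nat_lit 378) (nat_lit 410) (nat_lit 232)) (XT.lf (nat_lit 76) (nat_lit 960550445) (nat_lit 0) (nat_lit 1709144061) (nat_lit 76) (nat_lit 1709144061) (nat_lit 60) (nat_lit 3) (nat_lit 59) (nat_lit 1) (nat_lit 60) (nat_lit 1) (nat_lit 379) (nat_lit 410) (nat_lit 231))) (XT.nd (nat_lit 78) (nat_lit 76) (nat_lit 0) (XT.lf (nat_lit 152) (nat_lit 3860949438) (nat_lit 0) (nat_lit 237513045) (nat_lit 76) (nat_lit 237513045) (nat_lit 59) (nat_lit 1) (nat_lit 57) (nat_lit 1) (nat_lit 58) (nat_lit 1) (nat_lit 380) (nat_lit 410) (nat_lit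 230)) (XT.nd (nat_lit 78) (nat_lit 76) (nat_lit 0) (XT.lf (nat_lit 0) (nat_lit 1202636458) (nat_lit 0) (nat_lit 1887705662) (nat_lit 152) (nat_lit 1202636458) (nat_lit 57) (nat_lit 3) (nat_lit 57) (nat_lit 1) (nat_lit 59) (nat_lit 1) (nat_lit 381) (nat_lit 410) (nat_lit 229)) (XT.lf (nat_lit 76) (nat_lit 973487822) (nat_lit 0) (nat_lit 1638603554) (nat_lit 76) (nat_lit 1638603554) (nat_lit 57) (nat_lit 3) (nat_lit 56) (nat_lit 1) (nat_lit 57) (nat_lit 1) (nat_lit 382) (nat_lit 410) (nat_lit 228))))) (XT.nd (nat_lit 156) (nat_lit 228) (nat_lit 0) (XT.nd (nat_lit 78) (nat_lit 0) (nat_lit 0) (XT.lf (nat_lit 152) (nat_lit 3787060510) (nat_lit 0) (nat_lit 211027264) (nat_lit 76) (nat_lit 211027264) (nat_lit 56) (nat_lit 1) (nat_lit 54) (nat_lit 1) (nat_lit 55) (nat_lit 1) (nat_lit 383) (nat_lit 410) (nat_lit 227)) (XT.lf (nat_lit 0) (nat_lit 1186235478) (nat_lit 0) (nat_lit 1794910593) (nat_lit 152) (nat_lit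 1186235478) (nat_lit 54) (nat_lit 3) (nat_lit 54) (nat_lit 1) (nat_lit 56) (nat_lit 1) (nat_lit 384) (nat_lit 410) (nat_lit 226))) (XT.nd (nat_lit 78) (nat_lit 152) (nat_lit 0) (XT.lf (nat_lit 76) (nat_lit 981485877) (nat_lit 0) (nat_lit 1572432591) (nat_lit 76) (nat_lit 1572432591) (nat_lit 54) (nat_lit 3) (nat_lit 53) (nat_lit 1) (nat_lit 54) (nat_lit 1) (nat_lit 385) (nat_lit 410) (nat_lit 225)) (XT.nd (nat_lit 78) (nat_lit 0) (nat_lit 0) (XT.lf (nat_lit 152) (nat_lit 3711023089) (nat_lit 0) (nat_lit 187494991) (nat_lit 76) (nat_lit 187494991) (nat_lit 53) (nat_lit 1) (nat_lit 51) (nat_lit 1) (nat_lit 52) (nat_lit 1) (nat_lit 386) (nat_lit 410) (nat_lit 224)) (XT.lf (nat_lit 0) (nat_lit 1168235015) (nat_lit 0) (nat_lit 1709034971) (nat_lit 152) (nat_lit 1168235015) (nat_lit 51) (nat_lit 3) (nat_lit 51) (nat_lit 1) (nat_lit 53) (nat_lit 1) (nat_lit 387) (nat_lit 410) (nat_lit 223))))))) (XT.nd (nat_lit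 702) (nat_lit 760) (nat_lit 0) (XT.nd (nat_lit 312) (nat_lit 380) (nat_lit 0) (XT.nd (nat_lit 156) (nat_lit 76) (nat_lit 0) (XT.nd (nat_lit 78) (nat_lit 152) (nat_lit 0) (XT.lf (nat_lit 76) (nat_lit 985197253) (nat_lit 0) (nat_lit 1510245754) (nat_lit 76) (nat_lit 1510245754) (nat_lit 51) (nat_lit 3) (nat_lit 50) (nat_lit 1) (nat_lit 51) (nat_lit 1) (nat_lit 388) (nat_lit 410) (nat_lit 222)) (XT.lf (nat_lit 152) (nat_lit 3633379324) (nat_lit 0) (nat_lit 166586871) (nat_lit 76) (nat_lit 166586871) (nat_lit 50) (nat_lit 1) (nat_lit 48) (nat_lit 1) (nat_lit 49) (nat_lit 1) (nat_lit 389) (nat_lit 410) (nat_lit 221))) (XT.nd (nat_lit 78) (nat_lit 76) (nat_lit 0) (XT.lf (nat_lit 0) (nat_lit 1148913289) (nat_lit 0) (nat_lit 1629407045) (nat_lit 152) (nat_lit 1148913289) (nat_lit 48) (nat_lit 3) (nat_lit 48) (nat_lit 1) (nat_lit 50) (nat_lit 1) (nat_lit 390) (nat_lit 410) (nat_lit 220)) (XT.lf (nat_lit 76)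 (nat_lit 985198847) (nat_lit 0) (nat_lit 1451697640) (nat_lit 76) (nat_lit 1451697640) (nat_lit 48) (nat_lit 3) (nat_lit 47) (nat_lit 1) (nat_lit 48) (nat_lit 1) (nat_lit 391) (nat_lit 410) (nat_lit 219)))) (XT.nd (nat_lit 156) (nat_lit 228) (nat_lit 0) (XT.nd (nat_lit 78) (nat_lit 0) (nat_lit 0) (XT.lf (nat_lit 152) (nat_lit 3554602096) (nat_lit 0) (nat_lit 148010277) (nat_lit 76) (nat_lit 148010277) (nat_lit 47) (nat_lit 1) (nat_lit 45) (nat_lit 1) (nat_lit 46) (nat_lit 1) (nat_lit 392) (nat_lit 410) (nat_lit 218)) (XT.lf (nat_lit 0) (nat_lit 1128514585) (nat_lit 0) (nat_lit 1555427064) (nat_lit 152) (nat_lit 1128514585) (nat_lit 45) (nat_lit 3) (nat_lit 45) (nat_lit 1) (nat_lit 47) (nat_lit 1) (nat_lit 393) (nat_lit 410) (nat_lit 217))) (XT.nd (nat_lit 78) (nat_lit 152) (nat_lit 0) (XT.lf (nat_lit 76) (nat_lit 982000345) (nat_lit 0) (nat_lit 1396478480) (nat_lit 76) (nat_lit 1396478480) (nat_lit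 45) (nat_lit 3) (nat_lit 44) (nat_lit 1) (nat_lit 45) (nat_lit 1) (nat_lit 394) (nat_lit 410) (nat_lit 216)) (XT.nd (nat_lit 78) (nat_lit 0) (nat_lit 0) (XT.lf (nat_lit 152) (nat_lit 3475102996) (nat_lit 0) (nat_lit 131505214) (nat_lit 76) (nat_lit 131505214) (nat_lit 44) (nat_lit 1) (nat_lit 42) (nat_lit 1) (nat_lit 43) (nat_lit 1) (nat_lit 395) (nat_lit 410) (nat_lit 215)) (XT.lf (nat_lit 0) (nat_lit 1107253124) (nat_lit 0) (nat_lit 1486559333) (nat_lit 152) (nat_lit 1107253124) (nat_lit 42) (nat_lit 3) (nat_lit 42) (nat_lit 1) (nat_lit 44) (nat_lit 1) (nat_lit 396) (nat_lit 410) (nat_lit 214)))))) (XT.nd (nat_lit 390) (nat_lit 304) (nat_lit 0) (XT.nd (nat_lit 156) (nat_lit 228) (nat_lit 0) (XT.nd (nat_lit 78) (nat_lit 152) (nat_lit 0) (XT.lf (nat_lit 76) (nat_lit 976051801) (nat_lit 0) (nat_lit 1344310256) (nat_lit 76) (nat_lit 1344310256) (nat_lit 42) (nat_lit 3) (nat_lit 41) (nat_lit 1) (nat_lit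 42) (nat_lit 1) (nat_lit 397) (nat_lit 410) (nat_lit 213)) (XT.lf (nat_lit 152) (nat_lit 3395239414) (nat_lit 0) (nat_lit 116840679) (nat_lit 76) (nat_lit 116840679) (nat_lit 41) (nat_lit 1) (nat_lit 39) (nat_lit 1) (nat_lit 40) (nat_lit 1) (nat_lit 398) (nat_lit 410) (nat_lit 212))) (XT.nd (nat_lit 78) (nat_lit 228) (nat_lit 0) (XT.lf (nat_lit 0) (nat_lit 1085316499) (nat_lit 0) (nat_lit 1422325153) (nat_lit 152) (nat_lit 1085316499) (nat_lit 39) (nat_lit 3) (nat_lit 39) (nat_lit 1) (nat_lit 41) (nat_lit 1) (nat_lit 399) (nat_lit 410) (nat_lit 211)) (XT.nd (nat_lit 78) (nat_lit 152) (nat_lit 0) (XT.lf (nat_lit 76) (nat_lit 967750368) (nat_lit 0) (nat_lit 1294943235) (nat_lit 76) (nat_lit 1294943235) (nat_lit 39) (nat_lit 3) (nat_lit 38) (nat_lit 1) (nat_lit 39) (nat_lit 1) (nat_lit 400) (nat_lit 410) (nat_lit 210)) (XT.lf (nat_lit 152) (nat_lit 3315320818) (nat_lit 0) (nat_lit 103811430) (nat_lit 76)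 (nat_lit 103811430) (nat_lit 38) (nat_lit 1) (nat_lit 36) (nat_lit 1) (nat_lit 37) (nat_lit 1) (nat_lit 401) (nat_lit 410) (nat_lit 209))))) (XT.nd (nat_lit 156) (nat_lit 228) (nat_lit 0) (XT.nd (nat_lit 78) (nat_lit 76) (nat_lit 0) (XT.lf (nat_lit 0) (nat_lit 1062868720) (nat_lit 0) (nat_lit 1362296543) (nat_lit 152) (nat_lit 1062868720) (nat_lit 36) (nat_lit 3) (nat_lit 36) (nat_lit 1) (nat_lit 38) (nat_lit 1) (nat_lit 402) (nat_lit 410) (nat_lit 208)) (XT.lf (nat_lit 76) (nat_lit 957446273) (nat_lit 0) (nat_lit 1248152898) (nat_lit 76) (nat_lit 1248152898) (nat_lit 36) (nat_lit 3) (nat_lit 35) (nat_lit 1) (nat_lit 36) (nat_lit 1) (nat_lit 403) (nat_lit 410) (nat_lit 207))) (XT.nd (nat_lit 78) (nat_lit 76) (nat_lit 0) (XT.lf (nat_lit 152) (nat_lit 3235614339) (nat_lit 0) (nat_lit 92235111) (nat_lit 76) (nat_lit 92235111) (nat_lit 35) (nat_lit 1) (nat_lit 33) (nat_lit 1) (nat_lit 34) (nat_lit 1) (nat_lit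 404) (nat_lit 410) (nat_lit 206)) (XT.nd (nat_lit 78) (nat_lit 76) (nat_lit 0) (XT.lf (nat_lit 0) (nat_lit 1040052924) (nat_lit 0) (nat_lit 1306090667) (nat_lit 152) (nat_lit 1040052924) (nat_lit 33) (nat_lit 3) (nat_lit 33) (nat_lit 1) (nat_lit 35) (nat_lit 1) (nat_lit 405) (nat_lit 410) (nat_lit 205)) (XT.lf (nat_lit 76) (nat_lit 945448133) (nat_lit 0) (nat_lit 1203737204) (nat_lit 76) (nat_lit 1203737204) (nat_lit 33) (nat_lit 3) (nat_lit 32) (nat_lit 1) (nat_lit 33) (nat_lit 1) (nat_lit 406) (nat_lit 410) (nat_lit 204))))))))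
noncomputable def ec364 : XT := (XT.nd (nat_lit 36972) (nat_lit 0) (nat_lit 25156) (XT.nd (nat_lit 702) (nat_lit 608) (nat_lit 0) (XT.nd (nat_lit 312) (nat_lit 304) (nat_lit 0) (XT.nd (nat_lit 156) (nat_lit 228) (nat_lit 0) (XT.nd (nat_lit 78) (nat_lit 0) (nat_lit 0) (XT.lf (nat_lit 152) (nat_lit 3156349716) (nat_lit 0) (nat_lit 81949702) (nat_lit 76) (nat_lit 81949702) (nat_lit 32) (nat_lit 1) (nat_lit 30) (nat_lit 1) (nat_lit 31) (nat_lit 1) (nat_lit 407) (nat_lit 410) (nat_lit 203)) (XT.lf (nat_lit 0) (nat_lit 1016993777) (nat_lit 0) (nat_lit 1253364866) (nat_lit 152) (nat_lit 1016993777) (nat_lit 30) (nat_lit 3) (nat_lit 30) (nat_lit 1) (nat_lit 32) (nat_lit 1) (nat_lit 408) (nat_lit 410) (nat_lit 202))) (XT.nd (nat_lit 78) (nat_lit 152) (nat_lit 0) (XT.lf (nat_lit 76) (nat_lit 932027664) (nat_lit 0) (nat_lit 1161514158) (nat_lit 76) (nat_lit 1161514158) (nat_lit 30) (nat_lit 3) (nat_lit 29) (nat_lit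 1) (nat_lit 30) (nat_lit 1) (nat_lit 409) (nat_lit 410) (nat_lit 201)) (XT.lf (nat_lit 152) (nat_lit 3077723690) (nat_lit 0) (nat_lit 72811248) (nat_lit 76) (nat_lit 72811248) (nat_lit 29) (nat_lit 1) (nat_lit 27) (nat_lit 1) (nat_lit 28) (nat_lit 1) (nat_lit 410) (nat_lit 410) (nat_lit 200)))) (XT.nd (nat_lit 156) (nat_lit 228) (nat_lit 0) (XT.nd (nat_lit 78) (nat_lit 76) (nat_lit 0) (XT.lf (nat_lit 0) (nat_lit 993799610) (nat_lit 0) (nat_lit 1203812261) (nat_lit 152) (nat_lit 993799610) (nat_lit 27) (nat_lit 3) (nat_lit 27) (nat_lit 1) (nat_lit 29) (nat_lit 1) (nat_lit 411) (nat_lit 410) (nat_lit 199)) (XT.lf (nat_lit 76) (nat_lit 917423870) (nat_lit 0) (nat_lit 1121319648) (nat_lit 76) (nat_lit 1121319648) (nat_lit 27) (nat_lit 3) (nat_lit 26) (nat_lit 1) (nat_lit 27) (nat_lit 1) (nat_lit 412) (nat_lit 410) (nat_lit 198))) (XT.nd (nat_lit 78) (nat_lit 76) (nat_lit 0) (XT.lf (nat_lit 152) (nat_lit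 2999903896) (nat_lit 0) (nat_lit 64691851) (nat_lit 76) (nat_lit 64691851) (nat_lit 26) (nat_lit 1) (nat_lit 24) (nat_lit 1) (nat_lit 25) (nat_lit 1) (nat_lit 413) (nat_lit 410) (nat_lit 197)) (XT.nd (nat_lit 78) (nat_lit 76) (nat_lit 0) (XT.lf (nat_lit 0) (nat_lit 970564307) (nat_lit 0) (nat_lit 1157157827) (nat_lit 152) (nat_lit 970564307) (nat_lit 24) (nat_lit 3) (nat_lit 24) (nat_lit 1) (nat_lit 26) (nat_lit 1) (nat_lit 414) (nat_lit 410) (nat_lit 196)) (XT.lf (nat_lit 76) (nat_lit 901846762) (nat_lit 0) (nat_lit 1083005519) (nat_lit 76) (nat_lit 1083005519) (nat_lit 24) (nat_lit 3) (nat_lit 23) (nat_lit 1) (nat_lit 24) (nat_lit 1) (nat_lit 415) (nat_lit 410) (nat_lit 195)))))) (XT.nd (nat_lit 312) (nat_lit 228) (nat_lit 0) (XT.nd (nat_lit 156) (nat_lit 228) (nat_lit 0) (XT.nd (nat_lit 78) (nat_lit 0) (nat_lit 0) (XT.lf (nat_lit 152) (nat_lit 2923032320) (nat_lit 0) (nat_lit 57477872) (nat_lit 76)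 (nat_lit 57477872) (nat_lit 23) (nat_lit 1) (nat_lit 21) (nat_lit 1) (nat_lit 22) (nat_lit 1) (nat_lit 416) (nat_lit 410) (nat_lit 194)) (XT.lf (nat_lit 0) (nat_lit 947368985) (nat_lit 0) (nat_lit 1113154911) (nat_lit 152) (nat_lit 947368985) (nat_lit 21) (nat_lit 3) (nat_lit 21) (nat_lit 1) (nat_lit 23) (nat_lit 1) (nat_lit 417) (nat_lit 410) (nat_lit 193))) (XT.nd (nat_lit 78) (nat_lit 152) (nat_lit 0) (XT.lf (nat_lit 76) (nat_lit 885480658) (nat_lit 0) (nat_lit 1046437868) (nat_lit 76) (nat_lit 1046437868) (nat_lit 21) (nat_lit 3) (nat_lit 20) (nat_lit 1) (nat_lit 21) (nat_lit 1) (nat_lit 418) (nat_lit 410) (nat_lit 192)) (XT.lf (nat_lit 152) (nat_lit 2847228361) (nat_lit 0) (nat_lit 51068344) (nat_lit 76) (nat_lit 51068344) (nat_lit 20) (nat_lit 1) (nat_lit 18) (nat_lit 1) (nat_lit 19) (nat_lit 1) (nat_lit 419) (nat_lit 410) (nat_lit 191)))) (XT.nd (nat_lit 156) (nat_lit 152) (nat_lit 0) (XT.nd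 (nat_lit 78) (nat_lit 76) (nat_lit 0) (XT.lf (nat_lit 0) (nat_lit 924283490) (nat_lit 0) (nat_lit 1071582138) (nat_lit 152) (nat_lit 924283490) (nat_lit 18) (nat_lit 3) (nat_lit 18) (nat_lit 1) (nat_lit 20) (nat_lit 1) (nat_lit 420) (nat_lit 410) (nat_lit 190)) (XT.lf (nat_lit 76) (nat_lit 868487117) (nat_lit 0) (nat_lit 1011495513) (nat_lit 76) (nat_lit 1011495513) (nat_lit 18) (nat_lit 3) (nat_lit 17) (nat_lit 1) (nat_lit 18) (nat_lit 1) (nat_lit 421) (nat_lit 410) (nat_lit 189))) (XT.nd (nat_lit 35646) (nat_lit 0) (nat_lit 27284) (XT.lf (nat_lit 152) (nat_lit 2772591544) (nat_lit 0) (nat_lit 45373563) (nat_lit 76) (nat_lit 45373563) (nat_lit 17) (nat_lit 1) (nat_lit 15) (nat_lit 1) (nat_lit 16) (nat_lit 1) (nat_lit 422) (nat_lit 410) (nat_lit 188)) (XT.nd (nat_lit 78) (nat_lit 0) (nat_lit 0) (XT.lf (nat_lit 1292) (nat_lit 3041638743) (nat_lit 0) (nat_lit 10464651848) (nat_lit 1292) (nat_lit 3041638743)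 (nat_lit 391) (nat_lit 1) (nat_lit 374) (nat_lit 0) (nat_lit 391) (nat_lit 0) (nat_lit 198) (nat_lit 411) (nat_lit 411)) (XT.lf (nat_lit 1292) (nat_lit 11886777507) (nat_lit 76) (nat_lit 10362057222) (nat_lit 0) (nat_lit 10362057222) (nat_lit 391) (nat_lit 1) (nat_lit 375) (nat_lit 1) (nat_lit 374) (nat_lit 0) (nat_lit 199) (nat_lit 411) (nat_lit 410))))))) (XT.nd (nat_lit 702) (nat_lit 2204) (nat_lit 0) (XT.nd (nat_lit 312) (nat_lit 0) (nat_lit 152) (XT.nd (nat_lit 156) (nat_lit 0) (nat_lit 76) (XT.nd (nat_lit 78) (nat_lit 0) (nat_lit 0) (XT.lf (nat_lit 1292) (nat_lit 5748729017) (nat_lit 0) (nat_lit 20639164556) (nat_lit 1216) (nat_lit 5748729017) (nat_lit 392) (nat_lit 1) (nat_lit 375) (nat_lit 1) (nat_lit 391) (nat_lit 1) (nat_lit 200) (nat_lit 411) (nat_lit 409)) (XT.lf (nat_lit 1292) (nat_lit 10917133212) (nat_lit 76) (nat_lit 10376570075) (nat_lit 0) (nat_lit 10376570075) (nat_lit 392) (nat_lit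 1) (nat_lit 376) (nat_lit 1) (nat_lit 375) (nat_lit 1) (nat_lit 201) (nat_lit 411) (nat_lit 408))) (XT.nd (nat_lit 78) (nat_lit 0) (nat_lit 0) (XT.lf (nat_lit 1292) (nat_lit 5122810313) (nat_lit 0) (nat_lit 20968738229) (nat_lit 1216) (nat_lit 5122810313) (nat_lit 393) (nat_lit 1) (nat_lit 376) (nat_lit 1) (nat_lit 392) (nat_lit 1) (nat_lit 202) (nat_lit 411) (nat_lit 407)) (XT.lf (nat_lit 1292) (nat_lit 9388090795) (nat_lit 76) (nat_lit 10688822485) (nat_lit 0) (nat_lit 10688822485) (nat_lit 393) (nat_lit 1) (nat_lit 377) (nat_lit 1) (nat_lit 376) (nat_lit 1) (nat_lit 203) (nat_lit 411) (nat_lit 406)))) (XT.nd (nat_lit 156) (nat_lit 0) (nat_lit 76) (XT.nd (nat_lit 78) (nat_lit 0) (nat_lit 0) (XT.lf (nat_lit 1292) (nat_lit 4231293083) (nat_lit 0) (nat_lit 21864885880) (nat_lit 1216) (nat_lit 4231293083) (nat_lit 394) (nat_lit 1) (nat_lit 377) (nat_lit 1) (nat_lit 393) (nat_lit 1) (nat_lit 204) (nat_lit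 411) (nat_lit 405)) (XT.lf (nat_lit 1292) (nat_lit 7349676358) (nat_lit 76) (nat_lit 11273026695) (nat_lit 0) (nat_lit 11273026695) (nat_lit 394) (nat_lit 1) (nat_lit 378) (nat_lit 1) (nat_lit 377) (nat_lit 1) (nat_lit 205) (nat_lit 411) (nat_lit 404))) (XT.nd (nat_lit 78) (nat_lit 0) (nat_lit 0) (XT.lf (nat_lit 1292) (nat_lit 3098206162) (nat_lit 0) (nat_lit 23278030655) (nat_lit 1216) (nat_lit 3098206162) (nat_lit 395) (nat_lit 1) (nat_lit 378) (nat_lit 1) (nat_lit 394) (nat_lit 1) (nat_lit 206) (nat_lit 411) (nat_lit 403)) (XT.nd (nat_lit 78) (nat_lit 0) (nat_lit 76) (XT.lf (nat_lit 1292) (nat_lit 4848522520) (nat_lit 76) (nat_lit 12105128556) (nat_lit 0) (nat_lit 12105128556) (nat_lit 395) (nat_lit 1) (nat_lit 379) (nat_lit 1) (nat_lit 378) (nat_lit 1) (nat_lit 207) (nat_lit 411) (nat_lit 402)) (XT.lf (nat_lit 1292) (nat_lit 1745943234) (nat_lit 0) (nat_lit 25161938308) (nat_lit 1216) (nat_lit 1745943234)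 (nat_lit 396) (nat_lit 1) (nat_lit 379) (nat_lit 1) (nat_lit 395) (nat_lit 1) (nat_lit 208) (nat_lit 411) (nat_lit 401)))))) (XT.nd (nat_lit 390) (nat_lit 1292) (nat_lit 0) (XT.nd (nat_lit 156) (nat_lit 1216) (nat_lit 0) (XT.nd (nat_lit 78) (nat_lit 0) (nat_lit 76) (XT.lf (nat_lit 1292) (nat_lit 1928078417) (nat_lit 76) (nat_lit 13162700642) (nat_lit 0) (nat_lit 13162700642) (nat_lit 396) (nat_lit 1) (nat_lit 380) (nat_lit 1) (nat_lit 379) (nat_lit 1) (nat_lit 209) (nat_lit 411) (nat_lit 400)) (XT.lf (nat_lit 1292) (nat_lit 195364144) (nat_lit 0) (nat_lit 27473510858) (nat_lit 1216) (nat_lit 195364144) (nat_lit 397) (nat_lit 1) (nat_lit 380) (nat_lit 1) (nat_lit 396) (nat_lit 1) (nat_lit 210) (nat_lit 411) (nat_lit 399))) (XT.nd (nat_lit 78) (nat_lit 0) (nat_lit 0) (XT.lf (nat_lit 1368) (nat_lit 13066829647) (nat_lit 0) (nat_lit 1344435886) (nat_lit 1292) (nat_lit 13066829647) (nat_lit 381) (nat_lit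 1) (nat_lit 363) (nat_lit 1) (nat_lit 380) (nat_lit 1) (nat_lit 211) (nat_lit 411) (nat_lit 398)) (XT.nd (nat_lit 78) (nat_lit 0) (nat_lit 76) (XT.lf (nat_lit 1368) (nat_lit 24064455284) (nat_lit 76) (nat_lit 1519069521) (nat_lit 0) (nat_lit 1519069521) (nat_lit 381) (nat_lit 1) (nat_lit 364) (nat_lit 1) (nat_lit 363) (nat_lit 1) (nat_lit 212) (nat_lit 411) (nat_lit 397)) (XT.lf (nat_lit 1368) (nat_lit 10908628709) (nat_lit 0) (nat_lit 4913833303) (nat_lit 1292) (nat_lit 10908628709) (nat_lit 382) (nat_lit 1) (nat_lit 364) (nat_lit 1) (nat_lit 381) (nat_lit 1) (nat_lit 213) (nat_lit 411) (nat_lit 396))))) (XT.nd (nat_lit 156) (nat_lit 1368) (nat_lit 0) (XT.nd (nat_lit 78) (nat_lit 0) (nat_lit 76) (XT.lf (nat_lit 1368) (nat_lit 19587337081) (nat_lit 76) (nat_lit 3390833689) (nat_lit 0) (nat_lit 3390833689) (nat_lit 382) (nat_lit 1) (nat_lit 365) (nat_lit 1) (nat_lit 364) (nat_lit 1) (nat_lit 214) (nat_lit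 411) (nat_lit 395)) (XT.lf (nat_lit 76) (nat_lit 8614215925) (nat_lit 0) (nat_lit 8783383986) (nat_lit 1292) (nat_lit 8614215925) (nat_lit 366) (nat_lit 1) (nat_lit 365) (nat_lit 1) (nat_lit 382) (nat_lit 1) (nat_lit 215) (nat_lit 411) (nat_lit 394))) (XT.nd (nat_lit 78) (nat_lit 608) (nat_lit 0) (XT.lf (nat_lit 912) (nat_lit 14852120988) (nat_lit 0) (nat_lit 5405200835) (nat_lit 836) (nat_lit 5405200835) (nat_lit 366) (nat_lit 1) (nat_lit 354) (nat_lit 1) (nat_lit 365) (nat_lit 1) (nat_lit 216) (nat_lit 411) (nat_lit 393)) (XT.nd (nat_lit 78) (nat_lit 608) (nat_lit 0) (XT.lf (nat_lit 76) (nat_lit 6198986180) (nat_lit 0) (nat_lit 12921147678) (nat_lit 912) (nat_lit 6198986180) (nat_lit 355) (nat_lit 1) (nat_lit 354) (nat_lit 1) (nat_lit 366) (nat_lit 1) (nat_lit 217) (nat_lit 411) (nat_lit 392)) (XT.lf (nat_lit 684) (nat_lit 9888625873) (nat_lit 0) (nat_lit 7546701958) (nat_lit 608) (nat_lit 7546701958)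 (nat_lit 355) (nat_lit 1) (nat_lit 346) (nat_lit 1) (nat_lit 354) (nat_lit 1) (nat_lit 218) (nat_lit 411) (nat_lit 391))))))))
noncomputable def ec365 : XT := (XT.nd (nat_lit 1482) (nat_lit 3952) (nat_lit 0) (XT.nd (nat_lit 702) (nat_lit 2888) (nat_lit 0) (XT.nd (nat_lit 312) (nat_lit 1672) (nat_lit 0) (XT.nd (nat_lit 156) (nat_lit 608) (nat_lit 0) (XT.nd (nat_lit 78) (nat_lit 608) (nat_lit 0) (XT.lf (nat_lit 76) (nat_lit 3677229979) (nat_lit 0) (nat_lit 17297446078) (nat_lit 684) (nat_lit 3677229979) (nat_lit 347) (nat_lit 1) (nat_lit 346) (nat_lit 1) (nat_lit 355) (nat_lit 1) (nat_lit 219) (nat_lit 411) (nat_lit 390)) (XT.lf (nat_lit 684) (nat_lit 4724521899) (nat_lit 0) (nat_lit 9800968168) (nat_lit 608) (nat_lit 9800968168) (nat_lit 347) (nat_lit 1) (nat_lit 338) (nat_lit 1) (nat_lit 346) (nat_lit 1) (nat_lit 220) (nat_lit 411) (nat_lit 389))) (XT.nd (nat_lit 78) (nat_lit 608) (nat_lit 0) (XT.lf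 (nat_lit 76) (nat_lit 1062203266) (nat_lit 0) (nat_lit 21884720512) (nat_lit 684) (nat_lit 1062203266) (nat_lit 339) (nat_lit 1) (nat_lit 338) (nat_lit 1) (nat_lit 347) (nat_lit 1) (nat_lit 221) (nat_lit 411) (nat_lit 388)) (XT.lf (nat_lit 76) (nat_lit 11546035222) (nat_lit 0) (nat_lit 602541642) (nat_lit 608) (nat_lit 11546035222) (nat_lit 331) (nat_lit 1) (nat_lit 330) (nat_lit 1) (nat_lit 338) (nat_lit 1) (nat_lit 222) (nat_lit 411) (nat_lit 387)))) (XT.nd (nat_lit 156) (nat_lit 1064) (nat_lit 0) (XT.nd (nat_lit 78) (nat_lit 0) (nat_lit 0) (XT.lf (nat_lit 684) (nat_lit 20152311648) (nat_lit 0) (nat_lit 1617789234) (nat_lit 608) (nat_lit 1617789234) (nat_lit 331) (nat_lit 1) (nat_lit 322) (nat_lit 1) (nat_lit 330) (nat_lit 1) (nat_lit 223) (nat_lit 411) (nat_lit 386)) (XT.lf (nat_lit 76) (nat_lit 8549324528) (nat_lit 0) (nat_lit 5985641249) (nat_lit 684) (nat_lit 8549324528) (nat_lit 323) (nat_lit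 1) (nat_lit 322) (nat_lit 1) (nat_lit 331) (nat_lit 1) (nat_lit 224) (nat_lit 411) (nat_lit 385))) (XT.nd (nat_lit 78) (nat_lit 532) (nat_lit 0) (XT.lf (nat_lit 608) (nat_lit 14075245336) (nat_lit 0) (nat_lit 4356289332) (nat_lit 532) (nat_lit 4356289332) (nat_lit 323) (nat_lit 1) (nat_lit 315) (nat_lit 1) (nat_lit 322) (nat_lit 1) (nat_lit 225) (nat_lit 411) (nat_lit 384)) (XT.nd (nat_lit 78) (nat_lit 532) (nat_lit 0) (XT.lf (nat_lit 76) (nat_lit 5500271527) (nat_lit 0) (nat_lit 11495390587) (nat_lit 608) (nat_lit 5500271527) (nat_lit 316) (nat_lit 1) (nat_lit 315) (nat_lit 1) (nat_lit 323) (nat_lit 1) (nat_lit 226) (nat_lit 411) (nat_lit 383)) (XT.lf (nat_lit 608) (nat_lit 7902695300) (nat_lit 0) (nat_lit 7153283561) (nat_lit 532) (nat_lit 7153283561) (nat_lit 316) (nat_lit 1) (nat_lit 308) (nat_lit 1) (nat_lit 315) (nat_lit 1) (nat_lit 227) (nat_lit 411) (nat_lit 382)))))) (XT.nd (nat_lit 390) (nat_lit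 1368) (nat_lit 0) (XT.nd (nat_lit 156) (nat_lit 1064) (nat_lit 0) (XT.nd (nat_lit 78) (nat_lit 456) (nat_lit 0) (XT.lf (nat_lit 76) (nat_lit 2408415806) (nat_lit 0) (nat_lit 17111830270) (nat_lit 608) (nat_lit 2408415806) (nat_lit 309) (nat_lit 1) (nat_lit 308) (nat_lit 1) (nat_lit 316) (nat_lit 1) (nat_lit 228) (nat_lit 411) (nat_lit 381)) (XT.lf (nat_lit 532) (nat_lit 1653084409) (nat_lit 0) (nat_lit 9999131732) (nat_lit 456) (nat_lit 9999131732) (nat_lit 309) (nat_lit 1) (nat_lit 302) (nat_lit 1) (nat_lit 308) (nat_lit 1) (nat_lit 229) (nat_lit 411) (nat_lit 380))) (XT.nd (nat_lit 78) (nat_lit 456) (nat_lit 0) (XT.lf (nat_lit 608) (nat_lit 19959987980) (nat_lit 0) (nat_lit 710407259) (nat_lit 532) (nat_lit 710407259) (nat_lit 302) (nat_lit 1) (nat_lit 294) (nat_lit 1) (nat_lit 301) (nat_lit 1) (nat_lit 230) (nat_lit 411) (nat_lit 379)) (XT.nd (nat_lit 78) (nat_lit 456) (nat_lit 0) (XT.lf (nat_lit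 76) (nat_lit 8273093146) (nat_lit 0) (nat_lit 4565731938) (nat_lit 608) (nat_lit 8273093146) (nat_lit 295) (nat_lit 1) (nat_lit 294) (nat_lit 1) (nat_lit 302) (nat_lit 1) (nat_lit 231) (nat_lit 411) (nat_lit 378)) (XT.lf (nat_lit 532) (nat_lit 13187053646) (nat_lit 0) (nat_lit 3831254074) (nat_lit 456) (nat_lit 3831254074) (nat_lit 295) (nat_lit 1) (nat_lit 288) (nat_lit 1) (nat_lit 294) (nat_lit 1) (nat_lit 232) (nat_lit 411) (nat_lit 377))))) (XT.nd (nat_lit 156) (nat_lit 912) (nat_lit 0) (XT.nd (nat_lit 78) (nat_lit 456) (nat_lit 0) (XT.lf (nat_lit 76) (nat_lit 4897597462) (nat_lit 0) (nat_lit 10795849021) (nat_lit 532) (nat_lit 4897597462) (nat_lit 289) (nat_lit 1) (nat_lit 288) (nat_lit 1) (nat_lit 295) (nat_lit 1) (nat_lit 233) (nat_lit 411) (nat_lit 376)) (XT.lf (nat_lit 532) (nat_lit 6396286550) (nat_lit 0) (nat_lit 6970343213) (nat_lit 456) (nat_lit 6970343213) (nat_lit 289) (nat_lit 1) (nat_lit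 282) (nat_lit 1) (nat_lit 288) (nat_lit 1) (nat_lit 234) (nat_lit 411) (nat_lit 375))) (XT.nd (nat_lit 78) (nat_lit 912) (nat_lit 0) (XT.lf (nat_lit 76) (nat_lit 1516522967) (nat_lit 0) (nat_lit 17055411647) (nat_lit 532) (nat_lit 1516522967) (nat_lit 283) (nat_lit 1) (nat_lit 282) (nat_lit 1) (nat_lit 289) (nat_lit 1) (nat_lit 235) (nat_lit 411) (nat_lit 374)) (XT.nd (nat_lit 78) (nat_lit 456) (nat_lit 0) (XT.lf (nat_lit 76) (nat_lit 9725271809) (nat_lit 0) (nat_lit 391651499) (nat_lit 456) (nat_lit 9725271809) (nat_lit 277) (nat_lit 1) (nat_lit 276) (nat_lit 1) (nat_lit 282) (nat_lit 1) (nat_lit 236) (nat_lit 411) (nat_lit 373)) (XT.lf (nat_lit 532) (nat_lit 15909827861) (nat_lit 0) (nat_lit 1845729347) (nat_lit 456) (nat_lit 1845729347) (nat_lit 277) (nat_lit 1) (nat_lit 270) (nat_lit 1) (nat_lit 276) (nat_lit 1) (nat_lit 237) (nat_lit 411) (nat_lit 372))))))) (XT.nd (nat_lit 702) (nat_lit 2052)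 (nat_lit 0) (XT.nd (nat_lit 312) (nat_lit 1140) (nat_lit 0) (XT.nd (nat_lit 156) (nat_lit 380) (nat_lit 0) (XT.nd (nat_lit 78) (nat_lit 380) (nat_lit 0) (XT.lf (nat_lit 76) (nat_lit 6157358349) (nat_lit 0) (nat_lit 7048089998) (nat_lit 532) (nat_lit 6157358349) (nat_lit 271) (nat_lit 1) (nat_lit 270) (nat_lit 1) (nat_lit 277) (nat_lit 1) (nat_lit 238) (nat_lit 411) (nat_lit 371)) (XT.lf (nat_lit 456) (nat_lit 8755218591) (nat_lit 0) (nat_lit 5187020837) (nat_lit 380) (nat_lit 5187020837) (nat_lit 271) (nat_lit 1) (nat_lit 265) (nat_lit 1) (nat_lit 270) (nat_lit 1) (nat_lit 239) (nat_lit 411) (nat_lit 370))) (XT.nd (nat_lit 78) (nat_lit 380) (nat_lit 0) (XT.lf (nat_lit 76) (nat_lit 2606354926) (nat_lit 0) (nat_lit 13687281488) (nat_lit 456) (nat_lit 2606354926) (nat_lit 266) (nat_lit 1) (nat_lit 265) (nat_lit 1) (nat_lit 271) (nat_lit 1) (nat_lit 240) (nat_lit 411) (nat_lit 369)) (XT.lf (nat_lit 456)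 (nat_lit 1639191947) (nat_lit 0) (nat_lit 8517149893) (nat_lit 380) (nat_lit 8517149893) (nat_lit 266) (nat_lit 1) (nat_lit 260) (nat_lit 1) (nat_lit 265) (nat_lit 1) (nat_lit 241) (nat_lit 411) (nat_lit 368)))) (XT.nd (nat_lit 156) (nat_lit 684) (nat_lit 0) (XT.nd (nat_lit 78) (nat_lit 0) (nat_lit 0) (XT.lf (nat_lit 456) (nat_lit 16623676287) (nat_lit 0) (nat_lit 914184932) (nat_lit 380) (nat_lit 914184932) (nat_lit 260) (nat_lit 1) (nat_lit 254) (nat_lit 1) (nat_lit 259) (nat_lit 1) (nat_lit 242) (nat_lit 411) (nat_lit 367)) (XT.lf (nat_lit 76) (nat_lit 6454060405) (nat_lit 0) (nat_lit 5323676784) (nat_lit 456) (nat_lit 6454060405) (nat_lit 255) (nat_lit 1) (nat_lit 254) (nat_lit 1) (nat_lit 260) (nat_lit 1) (nat_lit 243) (nat_lit 411) (nat_lit 366))) (XT.nd (nat_lit 78) (nat_lit 304) (nat_lit 0) (XT.lf (nat_lit 456) (nat_lit 9248592485) (nat_lit 0) (nat_lit 4383925688) (nat_lit 380) (nat_lit 4383925688)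 (nat_lit 255) (nat_lit 1) (nat_lit 249) (nat_lit 1) (nat_lit 254) (nat_lit 1) (nat_lit 244) (nat_lit 411) (nat_lit 365)) (XT.nd (nat_lit 78) (nat_lit 304) (nat_lit 0) (XT.lf (nat_lit 76) (nat_lit 2802041071) (nat_lit 0) (nat_lit 12200613331) (nat_lit 456) (nat_lit 2802041071) (nat_lit 250) (nat_lit 1) (nat_lit 249) (nat_lit 1) (nat_lit 255) (nat_lit 1) (nat_lit 245) (nat_lit 411) (nat_lit 364)) (XT.lf (nat_lit 380) (nat_lit 1946108729) (nat_lit 0) (nat_lit 7824760943) (nat_lit 304) (nat_lit 7824760943) (nat_lit 250) (nat_lit 1) (nat_lit 245) (nat_lit 1) (nat_lit 249) (nat_lit 1) (nat_lit 246) (nat_lit 411) (nat_lit 363)))))) (XT.nd (nat_lit 390) (nat_lit 988) (nat_lit 0) (XT.nd (nat_lit 156) (nat_lit 608) (nat_lit 0) (XT.nd (nat_lit 78) (nat_lit 0) (nat_lit 0) (XT.lf (nat_lit 456) (nat_lit 15782489268) (nat_lit 0) (nat_lit 804331408) (nat_lit 380) (nat_lit 804331408) (nat_lit 245) (nat_lit 1) (nat_lit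 239) (nat_lit 1) (nat_lit 244) (nat_lit 1) (nat_lit 247) (nat_lit 411) (nat_lit 362)) (XT.lf (nat_lit 76) (nat_lit 6006397139) (nat_lit 0) (nat_lit 5174738765) (nat_lit 456) (nat_lit 6006397139) (nat_lit 240) (nat_lit 1) (nat_lit 239) (nat_lit 1) (nat_lit 245) (nat_lit 1) (nat_lit 248) (nat_lit 411) (nat_lit 361))) (XT.nd (nat_lit 78) (nat_lit 304) (nat_lit 0) (XT.lf (nat_lit 380) (nat_lit 8302163496) (nat_lit 0) (nat_lit 4343101751) (nat_lit 304) (nat_lit 4343101751) (nat_lit 240) (nat_lit 1) (nat_lit 235) (nat_lit 1) (nat_lit 239) (nat_lit 1) (nat_lit 249) (nat_lit 411) (nat_lit 360)) (XT.nd (nat_lit 78) (nat_lit 304) (nat_lit 0) (XT.lf (nat_lit 76) (nat_lit 2308704850) (nat_lit 0) (nat_lit 12175198044) (nat_lit 380) (nat_lit 2308704850) (nat_lit 236) (nat_lit 1) (nat_lit 235) (nat_lit 1) (nat_lit 240) (nat_lit 1) (nat_lit 250) (nat_lit 411) (nat_lit 359)) (XT.lf (nat_lit 380) (nat_lit 920614144)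 (nat_lit 0) (nat_lit 7839229714) (nat_lit 304) (nat_lit 7839229714) (nat_lit 236) (nat_lit 1) (nat_lit 231) (nat_lit 1) (nat_lit 235) (nat_lit 1) (nat_lit 251) (nat_lit 411) (nat_lit 358))))) (XT.nd (nat_lit 156) (nat_lit 608) (nat_lit 0) (XT.nd (nat_lit 78) (nat_lit 0) (nat_lit 0) (XT.lf (nat_lit 380) (nat_lit 13757987160) (nat_lit 0) (nat_lit 1325685771) (nat_lit 304) (nat_lit 1325685771) (nat_lit 231) (nat_lit 1) (nat_lit 226) (nat_lit 1) (nat_lit 230) (nat_lit 1) (nat_lit 252) (nat_lit 411) (nat_lit 357)) (XT.lf (nat_lit 76) (nat_lit 4993408253) (nat_lit 0) (nat_lit 6234127740) (nat_lit 380) (nat_lit 4993408253) (nat_lit 227) (nat_lit 1) (nat_lit 226) (nat_lit 1) (nat_lit 231) (nat_lit 1) (nat_lit 253) (nat_lit 411) (nat_lit 356))) (XT.nd (nat_lit 78) (nat_lit 304) (nat_lit 0) (XT.lf (nat_lit 380) (nat_lit 6264366877) (nat_lit 0) (nat_lit 4885935276) (nat_lit 304) (nat_lit 4885935276) (nat_lit 227)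 (nat_lit 1) (nat_lit 222) (nat_lit 1) (nat_lit 226) (nat_lit 1) (nat_lit 254) (nat_lit 411) (nat_lit 355)) (XT.nd (nat_lit 78) (nat_lit 304) (nat_lit 0) (XT.lf (nat_lit 76) (nat_lit 1294157337) (nat_lit 0) (nat_lit 13266789240) (nat_lit 380) (nat_lit 1294157337) (nat_lit 223) (nat_lit 1) (nat_lit 222) (nat_lit 1) (nat_lit 227) (nat_lit 1) (nat_lit 255) (nat_lit 411) (nat_lit 354)) (XT.lf (nat_lit 76) (nat_lit 7293038652) (nat_lit 0) (nat_lit 1089060172) (nat_lit 304) (nat_lit 7293038652) (nat_lit 219) (nat_lit 1) (nat_lit 218) (nat_lit 1) (nat_lit 222) (nat_lit 1) (nat_lit 256) (nat_lit 411) (nat_lit 353))))))))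
noncomputable def ec366 : XT := (XT.nd (nat_lit 1482) (nat_lit 2280) (nat_lit 0) (XT.nd (nat_lit 702) (nat_lit 1368) (nat_lit 0) (XT.nd (nat_lit 312) (nat_lit 760) (nat_lit 0) (XT.nd (nat_lit 156) (nat_lit 608) (nat_lit 0) (XT.nd (nat_lit 78) (nat_lit 0) (nat_lit 0) (XT.lf (nat_lit 380) (nat_lit 10853588575) (nat_lit 0) (nat_lit 2322528277) (nat_lit 304) (nat_lit 2322528277) (nat_lit 219) (nat_lit 1) (nat_lit 214) (nat_lit 1) (nat_lit 218) (nat_lit 1) (nat_lit 257) (nat_lit 411) (nat_lit 352)) (XT.lf (nat_lit 76) (nat_lit 3561175918) (nat_lit 0) (nat_lit 8201811561) (nat_lit 380) (nat_lit 3561175918) (nat_lit 215) (nat_lit 1) (nat_lit 214) (nat_lit 1) (nat_lit 219) (nat_lit 1) (nat_lit 258) (nat_lit 411) (nat_lit 351))) (XT.nd (nat_lit 78) (nat_lit 380) (nat_lit 0) (XT.lf (nat_lit 304) (nat_lit 3419381979) (nat_lit 0) (nat_lit 5866519821) (nat_lit 228) (nat_lit 5866519821) (nat_lit 215) (nat_lit 1)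 (nat_lit 211) (nat_lit 1) (nat_lit 214) (nat_lit 1) (nat_lit 259) (nat_lit 411) (nat_lit 350)) (XT.lf (nat_lit 380) (nat_lit 14777039612) (nat_lit 0) (nat_lit 103767426) (nat_lit 304) (nat_lit 103767426) (nat_lit 211) (nat_lit 1) (nat_lit 206) (nat_lit 1) (nat_lit 210) (nat_lit 1) (nat_lit 260) (nat_lit 411) (nat_lit 349)))) (XT.nd (nat_lit 156) (nat_lit 532) (nat_lit 0) (XT.nd (nat_lit 78) (nat_lit 228) (nat_lit 0) (XT.lf (nat_lit 76) (nat_lit 5505159539) (nat_lit 0) (nat_lit 3806078248) (nat_lit 380) (nat_lit 5505159539) (nat_lit 207) (nat_lit 1) (nat_lit 206) (nat_lit 1) (nat_lit 211) (nat_lit 1) (nat_lit 261) (nat_lit 411) (nat_lit 348)) (XT.lf (nat_lit 304) (nat_lit 7315994358) (nat_lit 0) (nat_lit 3668018681) (nat_lit 228) (nat_lit 3668018681) (nat_lit 207) (nat_lit 1) (nat_lit 203) (nat_lit 1) (nat_lit 206) (nat_lit 1) (nat_lit 262) (nat_lit 411) (nat_lit 347))) (XT.nd (nat_lit 78) (nat_lit 532)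 (nat_lit 0) (XT.lf (nat_lit 76) (nat_lit 1828417870) (nat_lit 0) (nat_lit 10833507948) (nat_lit 304) (nat_lit 1828417870) (nat_lit 204) (nat_lit 1) (nat_lit 203) (nat_lit 1) (nat_lit 207) (nat_lit 1) (nat_lit 263) (nat_lit 411) (nat_lit 346)) (XT.nd (nat_lit 78) (nat_lit 228) (nat_lit 0) (XT.lf (nat_lit 76) (nat_lit 7164176403) (nat_lit 0) (nat_lit 1918127) (nat_lit 304) (nat_lit 7164176403) (nat_lit 200) (nat_lit 1) (nat_lit 199) (nat_lit 1) (nat_lit 203) (nat_lit 1) (nat_lit 264) (nat_lit 411) (nat_lit 345)) (XT.lf (nat_lit 304) (nat_lit 10653484441) (nat_lit 0) (nat_lit 1759658744) (nat_lit 228) (nat_lit 1759658744) (nat_lit 200) (nat_lit 1) (nat_lit 196) (nat_lit 1) (nat_lit 199) (nat_lit 1) (nat_lit 265) (nat_lit 411) (nat_lit 344)))))) (XT.nd (nat_lit 390) (nat_lit 608) (nat_lit 0) (XT.nd (nat_lit 156) (nat_lit 532) (nat_lit 0) (XT.nd (nat_lit 78) (nat_lit 228) (nat_lit 0) (XT.lf (nat_lit 76)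 (nat_lit 3490085516) (nat_lit 0) (nat_lit 7036676136) (nat_lit 304) (nat_lit 3490085516) (nat_lit 197) (nat_lit 1) (nat_lit 196) (nat_lit 1) (nat_lit 200) (nat_lit 1) (nat_lit 266) (nat_lit 411) (nat_lit 343)) (XT.lf (nat_lit 304) (nat_lit 3344860313) (nat_lit 0) (nat_lit 5259282567) (nat_lit 228) (nat_lit 5259282567) (nat_lit 197) (nat_lit 1) (nat_lit 193) (nat_lit 1) (nat_lit 196) (nat_lit 1) (nat_lit 267) (nat_lit 411) (nat_lit 342))) (XT.nd (nat_lit 78) (nat_lit 228) (nat_lit 0) (XT.lf (nat_lit 304) (nat_lit 13497830718) (nat_lit 0) (nat_lit 107775415) (nat_lit 228) (nat_lit 107775415) (nat_lit 193) (nat_lit 1) (nat_lit 189) (nat_lit 1) (nat_lit 192) (nat_lit 1) (nat_lit 268) (nat_lit 411) (nat_lit 341)) (XT.nd (nat_lit 78) (nat_lit 228) (nat_lit 0) (XT.lf (nat_lit 76) (nat_lit 4912119000) (nat_lit 0) (nat_lit 3738640890) (nat_lit 304) (nat_lit 4912119000) (nat_lit 190) (nat_lit 1) (nat_lit 189)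 (nat_lit 1) (nat_lit 193) (nat_lit 1) (nat_lit 269) (nat_lit 411) (nat_lit 340)) (XT.lf (nat_lit 304) (nat_lit 6220989785) (nat_lit 0) (nat_lit 3597351222) (nat_lit 228) (nat_lit 3597351222) (nat_lit 190) (nat_lit 1) (nat_lit 186) (nat_lit 1) (nat_lit 189) (nat_lit 1) (nat_lit 270) (nat_lit 411) (nat_lit 339))))) (XT.nd (nat_lit 156) (nat_lit 380) (nat_lit 0) (XT.nd (nat_lit 78) (nat_lit 228) (nat_lit 0) (XT.lf (nat_lit 76) (nat_lit 1330548295) (nat_lit 0) (nat_lit 10609901970) (nat_lit 304) (nat_lit 1330548295) (nat_lit 187) (nat_lit 1) (nat_lit 186) (nat_lit 1) (nat_lit 190) (nat_lit 1) (nat_lit 271) (nat_lit 411) (nat_lit 338)) (XT.lf (nat_lit 76) (nat_lit 6122823257) (nat_lit 0) (nat_lit 881583796) (nat_lit 228) (nat_lit 6122823257) (nat_lit 184) (nat_lit 1) (nat_lit 183) (nat_lit 1) (nat_lit 186) (nat_lit 1) (nat_lit 272) (nat_lit 411) (nat_lit 337))) (XT.nd (nat_lit 78) (nat_lit 152) (nat_lit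 0) (XT.lf (nat_lit 304) (nat_lit 8681758869) (nat_lit 0) (nat_lit 2152070627) (nat_lit 228) (nat_lit 2152070627) (nat_lit 184) (nat_lit 1) (nat_lit 180) (nat_lit 1) (nat_lit 183) (nat_lit 1) (nat_lit 273) (nat_lit 411) (nat_lit 336)) (XT.nd (nat_lit 78) (nat_lit 152) (nat_lit 0) (XT.lf (nat_lit 76) (nat_lit 2567857883) (nat_lit 0) (nat_lit 7710466952) (nat_lit 304) (nat_lit 2567857883) (nat_lit 181) (nat_lit 1) (nat_lit 180) (nat_lit 1) (nat_lit 184) (nat_lit 1) (nat_lit 274) (nat_lit 411) (nat_lit 335)) (XT.lf (nat_lit 228) (nat_lit 1617362661) (nat_lit 0) (nat_lit 5545485179) (nat_lit 152) (nat_lit 5545485179) (nat_lit 181) (nat_lit 1) (nat_lit 178) (nat_lit 1) (nat_lit 180) (nat_lit 1) (nat_lit 275) (nat_lit 411) (nat_lit 334))))))) (XT.nd (nat_lit 702) (nat_lit 1064) (nat_lit 0) (XT.nd (nat_lit 312) (nat_lit 760) (nat_lit 0) (XT.nd (nat_lit 156) (nat_lit 152) (nat_lit 0) (XT.nd (nat_lit 78) (nat_lit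 0) (nat_lit 0) (XT.lf (nat_lit 304) (nat_lit 10776241978) (nat_lit 0) (nat_lit 898369073) (nat_lit 228) (nat_lit 898369073) (nat_lit 178) (nat_lit 1) (nat_lit 174) (nat_lit 1) (nat_lit 177) (nat_lit 1) (nat_lit 276) (nat_lit 411) (nat_lit 333)) (XT.lf (nat_lit 76) (nat_lit 3626831729) (nat_lit 0) (nat_lit 5184345623) (nat_lit 304) (nat_lit 3626831729) (nat_lit 175) (nat_lit 1) (nat_lit 174) (nat_lit 1) (nat_lit 178) (nat_lit 1) (nat_lit 277) (nat_lit 411) (nat_lit 332))) (XT.nd (nat_lit 78) (nat_lit 0) (nat_lit 0) (XT.lf (nat_lit 228) (nat_lit 3782857397) (nat_lit 0) (nat_lit 4261315722) (nat_lit 152) (nat_lit 4261315722) (nat_lit 175) (nat_lit 1) (nat_lit 172) (nat_lit 1) (nat_lit 174) (nat_lit 1) (nat_lit 278) (nat_lit 411) (nat_lit 331)) (XT.lf (nat_lit 76) (nat_lit 187844370) (nat_lit 0) (nat_lit 11800048778) (nat_lit 228) (nat_lit 187844370) (nat_lit 173) (nat_lit 1) (nat_lit 172) (nat_lit 1) (nat_lit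 175) (nat_lit 1) (nat_lit 279) (nat_lit 411) (nat_lit 330)))) (XT.nd (nat_lit 156) (nat_lit 380) (nat_lit 0) (XT.nd (nat_lit 78) (nat_lit 152) (nat_lit 0) (XT.lf (nat_lit 76) (nat_lit 4528532103) (nat_lit 0) (nat_lit 2988452679) (nat_lit 228) (nat_lit 4528532103) (nat_lit 170) (nat_lit 1) (nat_lit 169) (nat_lit 1) (nat_lit 172) (nat_lit 1) (nat_lit 280) (nat_lit 411) (nat_lit 329)) (XT.lf (nat_lit 228) (nat_lit 5638545647) (nat_lit 0) (nat_lit 3139739326) (nat_lit 152) (nat_lit 3139739326) (nat_lit 170) (nat_lit 1) (nat_lit 167) (nat_lit 1) (nat_lit 169) (nat_lit 1) (nat_lit 281) (nat_lit 411) (nat_lit 328))) (XT.nd (nat_lit 78) (nat_lit 380) (nat_lit 0) (XT.lf (nat_lit 76) (nat_lit 1131884202) (nat_lit 0) (nat_lit 9528850650) (nat_lit 228) (nat_lit 1131884202) (nat_lit 168) (nat_lit 1) (nat_lit 167) (nat_lit 1) (nat_lit 170) (nat_lit 1) (nat_lit 282) (nat_lit 411) (nat_lit 327)) (XT.nd (nat_lit 78)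 (nat_lit 152) (nat_lit 0) (XT.lf (nat_lit 76) (nat_lit 5291638320) (nat_lit 0) (nat_lit 1084549791) (nat_lit 228) (nat_lit 5291638320) (nat_lit 165) (nat_lit 1) (nat_lit 164) (nat_lit 1) (nat_lit 167) (nat_lit 1) (nat_lit 283) (nat_lit 411) (nat_lit 326)) (XT.lf (nat_lit 228) (nat_lit 7220964918) (nat_lit 0) (nat_lit 2162059958) (nat_lit 152) (nat_lit 2162059958) (nat_lit 165) (nat_lit 1) (nat_lit 162) (nat_lit 1) (nat_lit 164) (nat_lit 1) (nat_lit 284) (nat_lit 411) (nat_lit 325)))))) (XT.nd (nat_lit 390) (nat_lit 532) (nat_lit 0) (XT.nd (nat_lit 156) (nat_lit 380) (nat_lit 0) (XT.nd (nat_lit 78) (nat_lit 152) (nat_lit 0) (XT.lf (nat_lit 76) (nat_lit 1942544951) (nat_lit 0) (nat_lit 7538745963) (nat_lit 228) (nat_lit 1942544951) (nat_lit 163) (nat_lit 1) (nat_lit 162) (nat_lit 1) (nat_lit 165) (nat_lit 1) (nat_lit 285) (nat_lit 411) (nat_lit 324)) (XT.lf (nat_lit 228) (nat_lit 572467021) (nat_lit 0)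 (nat_lit 5365749351) (nat_lit 152) (nat_lit 5365749351) (nat_lit 163) (nat_lit 1) (nat_lit 160) (nat_lit 1) (nat_lit 162) (nat_lit 1) (nat_lit 286) (nat_lit 411) (nat_lit 323))) (XT.nd (nat_lit 78) (nat_lit 152) (nat_lit 0) (XT.lf (nat_lit 228) (nat_lit 8562520349) (nat_lit 0) (nat_lit 1311682884) (nat_lit 152) (nat_lit 1311682884) (nat_lit 160) (nat_lit 1) (nat_lit 157) (nat_lit 1) (nat_lit 159) (nat_lit 1) (nat_lit 287) (nat_lit 411) (nat_lit 322)) (XT.nd (nat_lit 78) (nat_lit 152) (nat_lit 0) (XT.lf (nat_lit 76) (nat_lit 2635518745) (nat_lit 0) (nat_lit 5797578708) (nat_lit 228) (nat_lit 2635518745) (nat_lit 158) (nat_lit 1) (nat_lit 157) (nat_lit 1) (nat_lit 160) (nat_lit 1) (nat_lit 288) (nat_lit 411) (nat_lit 321)) (XT.lf (nat_lit 228) (nat_lit 2018584060) (nat_lit 0) (nat_lit 4467261172) (nat_lit 152) (nat_lit 4467261172) (nat_lit 158) (nat_lit 1) (nat_lit 155) (nat_lit 1) (nat_lit 157) (nat_lit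 1) (nat_lit 289) (nat_lit 411) (nat_lit 320))))) (XT.nd (nat_lit 156) (nat_lit 304) (nat_lit 0) (XT.nd (nat_lit 78) (nat_lit 0) (nat_lit 0) (XT.lf (nat_lit 228) (nat_lit 9691947209) (nat_lit 0) (nat_lit 573879870) (nat_lit 152) (nat_lit 573879870) (nat_lit 155) (nat_lit 1) (nat_lit 152) (nat_lit 1) (nat_lit 154) (nat_lit 1) (nat_lit 290) (nat_lit 411) (nat_lit 319)) (XT.lf (nat_lit 76) (nat_lit 3224723994) (nat_lit 0) (nat_lit 4276802293) (nat_lit 228) (nat_lit 3224723994) (nat_lit 153) (nat_lit 1) (nat_lit 152) (nat_lit 1) (nat_lit 155) (nat_lit 1) (nat_lit 291) (nat_lit 411) (nat_lit 318))) (XT.nd (nat_lit 78) (nat_lit 152) (nat_lit 0) (XT.lf (nat_lit 228) (nat_lit 3259461060) (nat_lit 0) (nat_lit 3677707936) (nat_lit 152) (nat_lit 3677707936) (nat_lit 153) (nat_lit 1) (nat_lit 150) (nat_lit 1) (nat_lit 152) (nat_lit 1) (nat_lit 292) (nat_lit 411) (nat_lit 317)) (XT.nd (nat_lit 78) (nat_lit 152) (nat_lit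 0) (XT.lf (nat_lit 76) (nat_lit 65057240) (nat_lit 0) (nat_lit 10375693028) (nat_lit 228) (nat_lit 65057240) (nat_lit 151) (nat_lit 1) (nat_lit 150) (nat_lit 1) (nat_lit 153) (nat_lit 1) (nat_lit 293) (nat_lit 411) (nat_lit 316)) (XT.lf (nat_lit 76) (nat_lit 3722503875) (nat_lit 0) (nat_lit 2951076357) (nat_lit 152) (nat_lit 3722503875) (nat_lit 149) (nat_lit 1) (nat_lit 148) (nat_lit 1) (nat_lit 150) (nat_lit 1) (nat_lit 294) (nat_lit 411) (nat_lit 315))))))))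
noncomputable def ec367 : XT := (XT.nd (nat_lit 1482) (nat_lit 1444) (nat_lit 0) (XT.nd (nat_lit 702) (nat_lit 1140) (nat_lit 0) (XT.nd (nat_lit 312) (nat_lit 380) (nat_lit 0) (XT.nd (nat_lit 156) (nat_lit 304) (nat_lit 0) (XT.nd (nat_lit 78) (nat_lit 0) (nat_lit 0) (XT.lf (nat_lit 228) (nat_lit 4319265894) (nat_lit 0) (nat_lit 2984687366) (nat_lit 152) (nat_lit 2984687366) (nat_lit 149) (nat_lit 1) (nat_lit 146) (nat_lit 1) (nat_lit 148) (nat_lit 1) (nat_lit 295) (nat_lit 411) (nat_lit 314)) (XT.lf (nat_lit 76) (nat_lit 620900026) (nat_lit 0) (nat_lit 8941280932) (nat_lit 228) (nat_lit 620900026) (nat_lit 147) (nat_lit 1) (nat_lit 146) (nat_lit 1) (nat_lit 149) (nat_lit 1) (nat_lit 296) (nat_lit 411) (nat_lit 313))) (XT.nd (nat_lit 78) (nat_lit 152) (nat_lit 0) (XT.lf (nat_lit 76) (nat_lit 4139802667) (nat_lit 0) (nat_lit 1797908571) (nat_lit 152) (nat_lit 4139802667) (nat_lit 145) (nat_lit 1) (nat_lit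 144) (nat_lit 1) (nat_lit 146) (nat_lit 1) (nat_lit 297) (nat_lit 411) (nat_lit 312)) (XT.lf (nat_lit 228) (nat_lit 5219434094) (nat_lit 0) (nat_lit 2377187620) (nat_lit 152) (nat_lit 2377187620) (nat_lit 145) (nat_lit 1) (nat_lit 142) (nat_lit 1) (nat_lit 144) (nat_lit 1) (nat_lit 298) (nat_lit 411) (nat_lit 311)))) (XT.nd (nat_lit 156) (nat_lit 228) (nat_lit 0) (XT.nd (nat_lit 78) (nat_lit 152) (nat_lit 0) (XT.lf (nat_lit 76) (nat_lit 1098358244) (nat_lit 0) (nat_lit 7674903623) (nat_lit 228) (nat_lit 1098358244) (nat_lit 143) (nat_lit 1) (nat_lit 142) (nat_lit 1) (nat_lit 145) (nat_lit 1) (nat_lit 299) (nat_lit 411) (nat_lit 310)) (XT.lf (nat_lit 76) (nat_lit 4486322398) (nat_lit 0) (nat_lit 797336392) (nat_lit 152) (nat_lit 4486322398) (nat_lit 141) (nat_lit 1) (nat_lit 140) (nat_lit 1) (nat_lit 142) (nat_lit 1) (nat_lit 300) (nat_lit 411) (nat_lit 309))) (XT.nd (nat_lit 78) (nat_lit 76) (nat_lit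 0) (XT.lf (nat_lit 228) (nat_lit 5978974629) (nat_lit 0) (nat_lit 1845432016) (nat_lit 152) (nat_lit 1845432016) (nat_lit 141) (nat_lit 1) (nat_lit 138) (nat_lit 1) (nat_lit 140) (nat_lit 1) (nat_lit 301) (nat_lit 411) (nat_lit 308)) (XT.nd (nat_lit 78) (nat_lit 76) (nat_lit 0) (XT.lf (nat_lit 76) (nat_lit 1506650485) (nat_lit 0) (nat_lit 6557587729) (nat_lit 228) (nat_lit 1506650485) (nat_lit 139) (nat_lit 1) (nat_lit 138) (nat_lit 1) (nat_lit 141) (nat_lit 1) (nat_lit 302) (nat_lit 411) (nat_lit 307)) (XT.lf (nat_lit 152) (nat_lit 69716079) (nat_lit 0) (nat_lit 4701616084) (nat_lit 76) (nat_lit 4701616084) (nat_lit 139) (nat_lit 1) (nat_lit 137) (nat_lit 1) (nat_lit 138) (nat_lit 1) (nat_lit 303) (nat_lit 411) (nat_lit 306)))))) (XT.nd (nat_lit 390) (nat_lit 608) (nat_lit 0) (XT.nd (nat_lit 156) (nat_lit 304) (nat_lit 0) (XT.nd (nat_lit 78) (nat_lit 0) (nat_lit 0) (XT.lf (nat_lit 228) (nat_lit 6614741555)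 (nat_lit 0) (nat_lit 1380741089) (nat_lit 152) (nat_lit 1380741089) (nat_lit 137) (nat_lit 1) (nat_lit 134) (nat_lit 1) (nat_lit 136) (nat_lit 1) (nat_lit 304) (nat_lit 411) (nat_lit 305)) (XT.lf (nat_lit 76) (nat_lit 1853953432) (nat_lit 0) (nat_lit 5572482506) (nat_lit 228) (nat_lit 1853953432) (nat_lit 135) (nat_lit 1) (nat_lit 134) (nat_lit 1) (nat_lit 137) (nat_lit 1) (nat_lit 305) (nat_lit 411) (nat_lit 304))) (XT.nd (nat_lit 78) (nat_lit 228) (nat_lit 0) (XT.lf (nat_lit 152) (nat_lit 831105081) (nat_lit 0) (nat_lit 4177324995) (nat_lit 76) (nat_lit 4177324995) (nat_lit 135) (nat_lit 1) (nat_lit 133) (nat_lit 1) (nat_lit 134) (nat_lit 1) (nat_lit 306) (nat_lit 411) (nat_lit 303)) (XT.nd (nat_lit 78) (nat_lit 0) (nat_lit 0) (XT.lf (nat_lit 228) (nat_lit 7141675341) (nat_lit 0) (nat_lit 975410036) (nat_lit 152) (nat_lit 975410036) (nat_lit 133) (nat_lit 1) (nat_lit 130) (nat_lit 1) (nat_lit 132)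 (nat_lit 1) (nat_lit 307) (nat_lit 411) (nat_lit 302)) (XT.lf (nat_lit 76) (nat_lit 2147518457) (nat_lit 0) (nat_lit 4704622942) (nat_lit 228) (nat_lit 2147518457) (nat_lit 131) (nat_lit 1) (nat_lit 130) (nat_lit 1) (nat_lit 133) (nat_lit 1) (nat_lit 308) (nat_lit 411) (nat_lit 301))))) (XT.nd (nat_lit 156) (nat_lit 304) (nat_lit 0) (XT.nd (nat_lit 78) (nat_lit 228) (nat_lit 0) (XT.lf (nat_lit 152) (nat_lit 1485186534) (nat_lit 0) (nat_lit 3711499153) (nat_lit 76) (nat_lit 3711499153) (nat_lit 131) (nat_lit 1) (nat_lit 129) (nat_lit 1) (nat_lit 130) (nat_lit 1) (nat_lit 309) (nat_lit 411) (nat_lit 300)) (XT.lf (nat_lit 228) (nat_lit 7573017248) (nat_lit 0) (nat_lit 622599825) (nat_lit 152) (nat_lit 622599825) (nat_lit 129) (nat_lit 1) (nat_lit 126) (nat_lit 1) (nat_lit 128) (nat_lit 1) (nat_lit 310) (nat_lit 411) (nat_lit 299))) (XT.nd (nat_lit 78) (nat_lit 304) (nat_lit 0) (XT.lf (nat_lit 76) (nat_lit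 2393775194) (nat_lit 0) (nat_lit 3940719279) (nat_lit 228) (nat_lit 2393775194) (nat_lit 127) (nat_lit 1) (nat_lit 126) (nat_lit 1) (nat_lit 129) (nat_lit 1) (nat_lit 311) (nat_lit 411) (nat_lit 298)) (XT.nd (nat_lit 78) (nat_lit 228) (nat_lit 0) (XT.lf (nat_lit 152) (nat_lit 2044579130) (nat_lit 0) (nat_lit 3297618926) (nat_lit 76) (nat_lit 3297618926) (nat_lit 127) (nat_lit 1) (nat_lit 125) (nat_lit 1) (nat_lit 126) (nat_lit 1) (nat_lit 312) (nat_lit 411) (nat_lit 297)) (XT.lf (nat_lit 228) (nat_lit 7920499785) (nat_lit 0) (nat_lit 316240465) (nat_lit 152) (nat_lit 316240465) (nat_lit 125) (nat_lit 1) (nat_lit 122) (nat_lit 1) (nat_lit 124) (nat_lit 1) (nat_lit 313) (nat_lit 411) (nat_lit 296))))))) (XT.nd (nat_lit 702) (nat_lit 836) (nat_lit 0) (XT.nd (nat_lit 312) (nat_lit 304) (nat_lit 0) (XT.nd (nat_lit 156) (nat_lit 228) (nat_lit 0) (XT.nd (nat_lit 78) (nat_lit 76) (nat_lit 0) (XT.lf (nat_lit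 76) (nat_lit 2598423557) (nat_lit 0) (nat_lit 3268970009) (nat_lit 228) (nat_lit 2598423557) (nat_lit 123) (nat_lit 1) (nat_lit 122) (nat_lit 1) (nat_lit 125) (nat_lit 1) (nat_lit 314) (nat_lit 411) (nat_lit 295)) (XT.lf (nat_lit 152) (nat_lit 2520475406) (nat_lit 0) (nat_lit 2929891704) (nat_lit 76) (nat_lit 2929891704) (nat_lit 123) (nat_lit 1) (nat_lit 121) (nat_lit 1) (nat_lit 122) (nat_lit 1) (nat_lit 315) (nat_lit 411) (nat_lit 294))) (XT.nd (nat_lit 78) (nat_lit 0) (nat_lit 0) (XT.lf (nat_lit 228) (nat_lit 8194515886) (nat_lit 0) (nat_lit 50945057) (nat_lit 152) (nat_lit 50945057) (nat_lit 121) (nat_lit 1) (nat_lit 118) (nat_lit 1) (nat_lit 120) (nat_lit 1) (nat_lit 316) (nat_lit 411) (nat_lit 293)) (XT.lf (nat_lit 76) (nat_lit 2766515482) (nat_lit 0) (nat_lit 2678895736) (nat_lit 228) (nat_lit 2766515482) (nat_lit 119) (nat_lit 1) (nat_lit 118) (nat_lit 1) (nat_lit 121) (nat_lit 1) (nat_lit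 317) (nat_lit 411) (nat_lit 292)))) (XT.nd (nat_lit 156) (nat_lit 228) (nat_lit 0) (XT.nd (nat_lit 78) (nat_lit 0) (nat_lit 0) (XT.lf (nat_lit 152) (nat_lit 2922801336) (nat_lit 0) (nat_lit 2603170831) (nat_lit 76) (nat_lit 2603170831) (nat_lit 119) (nat_lit 1) (nat_lit 117) (nat_lit 1) (nat_lit 118) (nat_lit 1) (nat_lit 318) (nat_lit 411) (nat_lit 291)) (XT.lf (nat_lit 0) (nat_lit 179829593) (nat_lit 0) (nat_lit 7688268414) (nat_lit 152) (nat_lit 179829593) (nat_lit 117) (nat_lit 3) (nat_lit 117) (nat_lit 1) (nat_lit 119) (nat_lit 1) (nat_lit 319) (nat_lit 411) (nat_lit 290))) (XT.nd (nat_lit 78) (nat_lit 76) (nat_lit 0) (XT.lf (nat_lit 76) (nat_lit 2902527548) (nat_lit 0) (nat_lit 2161191565) (nat_lit 152) (nat_lit 2902527548) (nat_lit 116) (nat_lit 1) (nat_lit 115) (nat_lit 1) (nat_lit 117) (nat_lit 1) (nat_lit 320) (nat_lit 411) (nat_lit 289)) (XT.nd (nat_lit 78) (nat_lit 0) (nat_lit 0) (XT.lf (nat_lit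 152) (nat_lit 3260358105) (nat_lit 0) (nat_lit 2312883567) (nat_lit 76) (nat_lit 2312883567) (nat_lit 116) (nat_lit 1) (nat_lit 114) (nat_lit 1) (nat_lit 115) (nat_lit 1) (nat_lit 321) (nat_lit 411) (nat_lit 288)) (XT.lf (nat_lit 0) (nat_lit 378748863) (nat_lit 0) (nat_lit 7049899505) (nat_lit 152) (nat_lit 378748863) (nat_lit 114) (nat_lit 3) (nat_lit 114) (nat_lit 1) (nat_lit 116) (nat_lit 1) (nat_lit 322) (nat_lit 411) (nat_lit 287)))))) (XT.nd (nat_lit 390) (nat_lit 380) (nat_lit 0) (XT.nd (nat_lit 156) (nat_lit 228) (nat_lit 0) (XT.nd (nat_lit 78) (nat_lit 76) (nat_lit 0) (XT.lf (nat_lit 76) (nat_lit 3010425488) (nat_lit 0) (nat_lit 1707595958) (nat_lit 152) (nat_lit 3010425488) (nat_lit 113) (nat_lit 1) (nat_lit 112) (nat_lit 1) (nat_lit 114) (nat_lit 1) (nat_lit 323) (nat_lit 411) (nat_lit 286)) (XT.lf (nat_lit 152) (nat_lit 3540948058) (nat_lit 0) (nat_lit 2054967092) (nat_lit 76) (nat_lit 2054967092)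 (nat_lit 113) (nat_lit 1) (nat_lit 111) (nat_lit 1) (nat_lit 112) (nat_lit 1) (nat_lit 324) (nat_lit 411) (nat_lit 285))) (XT.nd (nat_lit 78) (nat_lit 228) (nat_lit 0) (XT.lf (nat_lit 0) (nat_lit 549108215) (nat_lit 0) (nat_lit 6476339156) (nat_lit 152) (nat_lit 549108215) (nat_lit 111) (nat_lit 3) (nat_lit 111) (nat_lit 1) (nat_lit 113) (nat_lit 1) (nat_lit 325) (nat_lit 411) (nat_lit 284)) (XT.nd (nat_lit 78) (nat_lit 76) (nat_lit 0) (XT.lf (nat_lit 76) (nat_lit 3093721486) (nat_lit 0) (nat_lit 1310774216) (nat_lit 152) (nat_lit 3093721486) (nat_lit 110) (nat_lit 1) (nat_lit 109) (nat_lit 1) (nat_lit 111) (nat_lit 1) (nat_lit 326) (nat_lit 411) (nat_lit 283)) (XT.lf (nat_lit 152) (nat_lit 3771486595) (nat_lit 0) (nat_lit 1825811646) (nat_lit 76) (nat_lit 1825811646) (nat_lit 110) (nat_lit 1) (nat_lit 108) (nat_lit 1) (nat_lit 109) (nat_lit 1) (nat_lit 327) (nat_lit 411) (nat_lit 282))))) (XT.nd (nat_lit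 156) (nat_lit 228) (nat_lit 0) (XT.nd (nat_lit 78) (nat_lit 152) (nat_lit 0) (XT.lf (nat_lit 0) (nat_lit 694278213) (nat_lit 0) (nat_lit 5960546133) (nat_lit 152) (nat_lit 694278213) (nat_lit 108) (nat_lit 3) (nat_lit 108) (nat_lit 1) (nat_lit 110) (nat_lit 1) (nat_lit 328) (nat_lit 411) (nat_lit 281)) (XT.lf (nat_lit 76) (nat_lit 3155525093) (nat_lit 0) (nat_lit 964214966) (nat_lit 152) (nat_lit 3155525093) (nat_lit 107) (nat_lit 1) (nat_lit 106) (nat_lit 1) (nat_lit 108) (nat_lit 1) (nat_lit 329) (nat_lit 411) (nat_lit 280))) (XT.nd (nat_lit 78) (nat_lit 152) (nat_lit 0) (XT.lf (nat_lit 152) (nat_lit 3958101561) (nat_lit 0) (nat_lit 1622209999) (nat_lit 76) (nat_lit 1622209999) (nat_lit 107) (nat_lit 1) (nat_lit 105) (nat_lit 1) (nat_lit 106) (nat_lit 1) (nat_lit 330) (nat_lit 411) (nat_lit 279)) (XT.nd (nat_lit 78) (nat_lit 152) (nat_lit 0) (XT.lf (nat_lit 0) (nat_lit 817248147) (nat_lit 0) (nat_lit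 5496258985) (nat_lit 152) (nat_lit 817248147) (nat_lit 105) (nat_lit 3) (nat_lit 105) (nat_lit 1) (nat_lit 107) (nat_lit 1) (nat_lit 331) (nat_lit 411) (nat_lit 278)) (XT.lf (nat_lit 76) (nat_lit 3198588440) (nat_lit 0) (nat_lit 662138191) (nat_lit 152) (nat_lit 3198588440) (nat_lit 104) (nat_lit 1) (nat_lit 103) (nat_lit 1) (nat_lit 105) (nat_lit 1) (nat_lit 332) (nat_lit 411) (nat_lit 277))))))))
noncomputable def ec368 : XT := (XT.nd (nat_lit 1404) (nat_lit 1520) (nat_lit 0) (XT.nd (nat_lit 702) (nat_lit 684) (nat_lit 0) (XT.nd (nat_lit 312) (nat_lit 304) (nat_lit 0) (XT.nd (nat_lit 156) (nat_lit 228) (nat_lit 0) (XT.nd (nat_lit 78) (nat_lit 0) (nat_lit 0) (XT.lf (nat_lit 152) (nat_lit 4106221554) (nat_lit 0) (nat_lit 1441312573) (nat_lit 76) (nat_lit 1441312573) (nat_lit 104) (nat_lit 1) (nat_lit 102) (nat_lit 1) (nat_lit 103) (nat_lit 1) (nat_lit 333) (nat_lit 411) (nat_lit 276)) (XT.lf (nat_lit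 0) (nat_lit 920668711) (nat_lit 0) (nat_lit 5077909238) (nat_lit 152) (nat_lit 920668711) (nat_lit 102) (nat_lit 3) (nat_lit 102) (nat_lit 1) (nat_lit 104) (nat_lit 1) (nat_lit 334) (nat_lit 411) (nat_lit 275))) (XT.nd (nat_lit 78) (nat_lit 76) (nat_lit 0) (XT.lf (nat_lit 76) (nat_lit 3225346405) (nat_lit 0) (nat_lit 399413519) (nat_lit 152) (nat_lit 3225346405) (nat_lit 101) (nat_lit 1) (nat_lit 100) (nat_lit 1) (nat_lit 102) (nat_lit 1) (nat_lit 335) (nat_lit 411) (nat_lit 274)) (XT.lf (nat_lit 152) (nat_lit 4220654359) (nat_lit 0) (nat_lit 1280587553) (nat_lit 76) (nat_lit 1280587553) (nat_lit 101) (nat_lit 1) (nat_lit 99) (nat_lit 1) (nat_lit 100) (nat_lit 1) (nat_lit 336) (nat_lit 411) (nat_lit 273)))) (XT.nd (nat_lit 156) (nat_lit 152) (nat_lit 0) (XT.nd (nat_lit 78) (nat_lit 152) (nat_lit 0) (XT.lf (nat_lit 0) (nat_lit 1006889913) (nat_lit 0) (nat_lit 4700544276) (nat_lit 152) (nat_lit 1006889913)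 (nat_lit 99) (nat_lit 3) (nat_lit 99) (nat_lit 1) (nat_lit 101) (nat_lit 1) (nat_lit 337) (nat_lit 411) (nat_lit 272)) (XT.lf (nat_lit 76) (nat_lit 3237952297) (nat_lit 0) (nat_lit 171487635) (nat_lit 152) (nat_lit 3237952297) (nat_lit 98) (nat_lit 1) (nat_lit 97) (nat_lit 1) (nat_lit 99) (nat_lit 1) (nat_lit 338) (nat_lit 411) (nat_lit 271))) (XT.nd (nat_lit 78) (nat_lit 76) (nat_lit 0) (XT.lf (nat_lit 152) (nat_lit 4305656627) (nat_lit 0) (nat_lit 1137785455) (nat_lit 76) (nat_lit 1137785455) (nat_lit 98) (nat_lit 1) (nat_lit 96) (nat_lit 1) (nat_lit 97) (nat_lit 1) (nat_lit 339) (nat_lit 411) (nat_lit 270)) (XT.nd (nat_lit 78) (nat_lit 76) (nat_lit 0) (XT.lf (nat_lit 0) (nat_lit 1077994750) (nat_lit 0) (nat_lit 4359758811) (nat_lit 152) (nat_lit 1077994750) (nat_lit 96) (nat_lit 3) (nat_lit 96) (nat_lit 1) (nat_lit 98) (nat_lit 1) (nat_lit 340) (nat_lit 411) (nat_lit 269)) (XT.lf (nat_lit 76) (nat_lit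 26191305) (nat_lit 0) (nat_lit 3212370005) (nat_lit 76) (nat_lit 3212370005) (nat_lit 96) (nat_lit 3) (nat_lit 95) (nat_lit 1) (nat_lit 96) (nat_lit 1) (nat_lit 341) (nat_lit 411) (nat_lit 268)))))) (XT.nd (nat_lit 312) (nat_lit 304) (nat_lit 0) (XT.nd (nat_lit 156) (nat_lit 228) (nat_lit 0) (XT.nd (nat_lit 78) (nat_lit 0) (nat_lit 0) (XT.lf (nat_lit 152) (nat_lit 4364995772) (nat_lit 0) (nat_lit 1010907640) (nat_lit 76) (nat_lit 1010907640) (nat_lit 95) (nat_lit 1) (nat_lit 93) (nat_lit 1) (nat_lit 94) (nat_lit 1) (nat_lit 342) (nat_lit 411) (nat_lit 267)) (XT.lf (nat_lit 0) (nat_lit 1135829134) (nat_lit 0) (nat_lit 4051633997) (nat_lit 152) (nat_lit 1135829134) (nat_lit 93) (nat_lit 3) (nat_lit 93) (nat_lit 1) (nat_lit 95) (nat_lit 1) (nat_lit 343) (nat_lit 411) (nat_lit 266))) (XT.nd (nat_lit 78) (nat_lit 152) (nat_lit 0) (XT.lf (nat_lit 76) (nat_lit 199569859) (nat_lit 0) (nat_lit 3030448367) (nat_lit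 76) (nat_lit 3030448367) (nat_lit 93) (nat_lit 3) (nat_lit 92) (nat_lit 1) (nat_lit 93) (nat_lit 1) (nat_lit 344) (nat_lit 411) (nat_lit 265)) (XT.lf (nat_lit 152) (nat_lit 4402004952) (nat_lit 0) (nat_lit 898178344) (nat_lit 76) (nat_lit 898178344) (nat_lit 92) (nat_lit 1) (nat_lit 90) (nat_lit 1) (nat_lit 91) (nat_lit 1) (nat_lit 345) (nat_lit 411) (nat_lit 264)))) (XT.nd (nat_lit 156) (nat_lit 228) (nat_lit 0) (XT.nd (nat_lit 78) (nat_lit 76) (nat_lit 0) (XT.lf (nat_lit 0) (nat_lit 1182028466) (nat_lit 0) (nat_lit 3772683320) (nat_lit 152) (nat_lit 1182028466) (nat_lit 90) (nat_lit 3) (nat_lit 90) (nat_lit 1) (nat_lit 92) (nat_lit 1) (nat_lit 346) (nat_lit 411) (nat_lit 263)) (XT.lf (nat_lit 76) (nat_lit 348479530) (nat_lit 0) (nat_lit 2863678419) (nat_lit 76) (nat_lit 2863678419) (nat_lit 90) (nat_lit 3) (nat_lit 89) (nat_lit 1) (nat_lit 90) (nat_lit 1) (nat_lit 347) (nat_lit 411) (nat_lit 262)))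 (XT.nd (nat_lit 78) (nat_lit 76) (nat_lit 0) (XT.lf (nat_lit 152) (nat_lit 4419631903) (nat_lit 0) (nat_lit 798019826) (nat_lit 76) (nat_lit 798019826) (nat_lit 89) (nat_lit 1) (nat_lit 87) (nat_lit 1) (nat_lit 88) (nat_lit 1) (nat_lit 348) (nat_lit 411) (nat_lit 261)) (XT.nd (nat_lit 78) (nat_lit 76) (nat_lit 0) (XT.lf (nat_lit 0) (nat_lit 1218041246) (nat_lit 0) (nat_lit 3519804530) (nat_lit 152) (nat_lit 1218041246) (nat_lit 87) (nat_lit 3) (nat_lit 87) (nat_lit 1) (nat_lit 89) (nat_lit 1) (nat_lit 349) (nat_lit 411) (nat_lit 260)) (XT.lf (nat_lit 76) (nat_lit 475798477) (nat_lit 0) (nat_lit 2710520112) (nat_lit 76) (nat_lit 2710520112) (nat_lit 87) (nat_lit 3) (nat_lit 86) (nat_lit 1) (nat_lit 87) (nat_lit 1) (nat_lit 350) (nat_lit 411) (nat_lit 259))))))) (XT.nd (nat_lit 702) (nat_lit 836) (nat_lit 0) (XT.nd (nat_lit 312) (nat_lit 304) (nat_lit 0) (XT.nd (nat_lit 156) (nat_lit 228) (nat_lit 0)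 (XT.nd (nat_lit 78) (nat_lit 0) (nat_lit 0) (XT.lf (nat_lit 152) (nat_lit 4420482322) (nat_lit 0) (nat_lit 709030279) (nat_lit 76) (nat_lit 709030279) (nat_lit 86) (nat_lit 1) (nat_lit 84) (nat_lit 1) (nat_lit 85) (nat_lit 1) (nat_lit 351) (nat_lit 411) (nat_lit 258)) (XT.lf (nat_lit 0) (nat_lit 1245150049) (nat_lit 0) (nat_lit 3290236914) (nat_lit 152) (nat_lit 1245150049) (nat_lit 84) (nat_lit 3) (nat_lit 84) (nat_lit 1) (nat_lit 86) (nat_lit 1) (nat_lit 352) (nat_lit 411) (nat_lit 257))) (XT.nd (nat_lit 78) (nat_lit 152) (nat_lit 0) (XT.lf (nat_lit 76) (nat_lit 584079549) (nat_lit 0) (nat_lit 2569600777) (nat_lit 76) (nat_lit 2569600777) (nat_lit 84) (nat_lit 3) (nat_lit 83) (nat_lit 1) (nat_lit 84) (nat_lit 1) (nat_lit 353) (nat_lit 411) (nat_lit 256)) (XT.lf (nat_lit 152) (nat_lit 4406858396) (nat_lit 0) (nat_lit 629964219) (nat_lit 76) (nat_lit 629964219) (nat_lit 83) (nat_lit 1) (nat_lit 81)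 (nat_lit 1) (nat_lit 82) (nat_lit 1) (nat_lit 354) (nat_lit 411) (nat_lit 255)))) (XT.nd (nat_lit 156) (nat_lit 228) (nat_lit 0) (XT.nd (nat_lit 78) (nat_lit 76) (nat_lit 0) (XT.lf (nat_lit 0) (nat_lit 1264490155) (nat_lit 0) (nat_lit 3081523347) (nat_lit 152) (nat_lit 1264490155) (nat_lit 81) (nat_lit 3) (nat_lit 81) (nat_lit 1) (nat_lit 83) (nat_lit 1) (nat_lit 355) (nat_lit 411) (nat_lit 254)) (XT.lf (nat_lit 76) (nat_lit 675586691) (nat_lit 0) (nat_lit 2439696586) (nat_lit 76) (nat_lit 2439696586) (nat_lit 81) (nat_lit 3) (nat_lit 80) (nat_lit 1) (nat_lit 81) (nat_lit 1) (nat_lit 356) (nat_lit 411) (nat_lit 253))) (XT.nd (nat_lit 78) (nat_lit 76) (nat_lit 0) (XT.lf (nat_lit 152) (nat_lit 4380793021) (nat_lit 0) (nat_lit 559715050) (nat_lit 76) (nat_lit 559715050) (nat_lit 80) (nat_lit 1) (nat_lit 78) (nat_lit 1) (nat_lit 79) (nat_lit 1) (nat_lit 357) (nat_lit 411) (nat_lit 252)) (XT.nd (nat_lit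 78) (nat_lit 76) (nat_lit 0) (XT.lf (nat_lit 0) (nat_lit 1277066100) (nat_lit 0) (nat_lit 2891476556) (nat_lit 152) (nat_lit 1277066100) (nat_lit 78) (nat_lit 3) (nat_lit 78) (nat_lit 1) (nat_lit 80) (nat_lit 1) (nat_lit 358) (nat_lit 411) (nat_lit 251)) (XT.lf (nat_lit 76) (nat_lit 752327285) (nat_lit 0) (nat_lit 2319716077) (nat_lit 76) (nat_lit 2319716077) (nat_lit 78) (nat_lit 3) (nat_lit 77) (nat_lit 1) (nat_lit 78) (nat_lit 1) (nat_lit 359) (nat_lit 411) (nat_lit 250)))))) (XT.nd (nat_lit 390) (nat_lit 456) (nat_lit 0) (XT.nd (nat_lit 156) (nat_lit 228) (nat_lit 0) (XT.nd (nat_lit 78) (nat_lit 0) (nat_lit 0) (XT.lf (nat_lit 152) (nat_lit 4344080202) (nat_lit 0) (nat_lit 497299572) (nat_lit 76) (nat_lit 497299572) (nat_lit 77) (nat_lit 1) (nat_lit 75) (nat_lit 1) (nat_lit 76) (nat_lit 1) (nat_lit 360) (nat_lit 411) (nat_lit 249)) (XT.lf (nat_lit 0) (nat_lit 1283766374) (nat_lit 0) (nat_lit 2718149154)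 (nat_lit 152) (nat_lit 1283766374) (nat_lit 75) (nat_lit 3) (nat_lit 75) (nat_lit 1) (nat_lit 77) (nat_lit 1) (nat_lit 361) (nat_lit 411) (nat_lit 248))) (XT.nd (nat_lit 78) (nat_lit 152) (nat_lit 0) (XT.lf (nat_lit 76) (nat_lit 816080873) (nat_lit 0) (nat_lit 2208685514) (nat_lit 76) (nat_lit 2208685514) (nat_lit 75) (nat_lit 3) (nat_lit 74) (nat_lit 1) (nat_lit 75) (nat_lit 1) (nat_lit 362) (nat_lit 411) (nat_lit 247)) (XT.nd (nat_lit 78) (nat_lit 0) (nat_lit 0) (XT.lf (nat_lit 152) (nat_lit 4298302047) (nat_lit 0) (nat_lit 441844229) (nat_lit 76) (nat_lit 441844229) (nat_lit 74) (nat_lit 1) (nat_lit 72) (nat_lit 1) (nat_lit 73) (nat_lit 1) (nat_lit 363) (nat_lit 411) (nat_lit 246)) (XT.lf (nat_lit 0) (nat_lit 1285376480) (nat_lit 0) (nat_lit 2559807002) (nat_lit 152) (nat_lit 1285376480) (nat_lit 72) (nat_lit 3) (nat_lit 72) (nat_lit 1) (nat_lit 74) (nat_lit 1) (nat_lit 364) (nat_lit 411) (nat_lit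 245))))) (XT.nd (nat_lit 156) (nat_lit 228) (nat_lit 0) (XT.nd (nat_lit 78) (nat_lit 152) (nat_lit 0) (XT.lf (nat_lit 76) (nat_lit 868424688) (nat_lit 0) (nat_lit 2105735875) (nat_lit 76) (nat_lit 2105735875) (nat_lit 72) (nat_lit 3) (nat_lit 71) (nat_lit 1) (nat_lit 72) (nat_lit 1) (nat_lit 365) (nat_lit 411) (nat_lit 244)) (XT.lf (nat_lit 152) (nat_lit 4244852738) (nat_lit 0) (nat_lit 392572874) (nat_lit 76) (nat_lit 392572874) (nat_lit 71) (nat_lit 1) (nat_lit 69) (nat_lit 1) (nat_lit 70) (nat_lit 1) (nat_lit 366) (nat_lit 411) (nat_lit 243))) (XT.nd (nat_lit 78) (nat_lit 228) (nat_lit 0) (XT.lf (nat_lit 0) (nat_lit 1282590532) (nat_lit 0) (nat_lit 2414905545) (nat_lit 152) (nat_lit 1282590532) (nat_lit 69) (nat_lit 3) (nat_lit 69) (nat_lit 1) (nat_lit 71) (nat_lit 1) (nat_lit 367) (nat_lit 411) (nat_lit 242)) (XT.nd (nat_lit 78) (nat_lit 152) (nat_lit 0) (XT.lf (nat_lit 76) (nat_lit 910756323) (nat_lit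 0) (nat_lit 2010091287) (nat_lit 76) (nat_lit 2010091287) (nat_lit 69) (nat_lit 3) (nat_lit 68) (nat_lit 1) (nat_lit 69) (nat_lit 1) (nat_lit 368) (nat_lit 411) (nat_lit 241)) (XT.lf (nat_lit 152) (nat_lit 4184959825) (nat_lit 0) (nat_lit 348795914) (nat_lit 76) (nat_lit 348795914) (nat_lit 68) (nat_lit 1) (nat_lit 66) (nat_lit 1) (nat_lit 67) (nat_lit 1) (nat_lit 369) (nat_lit 411) (nat_lit 240))))))))
noncomputable def ec369 : XT := (XT.nd (nat_lit 1482) (nat_lit 1444) (nat_lit 0) (XT.nd (nat_lit 702) (nat_lit 684) (nat_lit 0) (XT.nd (nat_lit 312) (nat_lit 456) (nat_lit 0) (XT.nd (nat_lit 156) (nat_lit 152) (nat_lit 0) (XT.nd (nat_lit 78) (nat_lit 76) (nat_lit 0) (XT.lf (nat_lit 0) (nat_lit 1276021560) (nat_lit 0) (nat_lit 2282068783) (nat_lit 152) (nat_lit 1276021560) (nat_lit 66) (nat_lit 3) (nat_lit 66) (nat_lit 1) (nat_lit 68) (nat_lit 1) (nat_lit 370) (nat_lit 411) (nat_lit 239)) (XT.lf (nat_lit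 76) (nat_lit 944313872) (nat_lit 0) (nat_lit 1921058749) (nat_lit 76) (nat_lit 1921058749) (nat_lit 66) (nat_lit 3) (nat_lit 65) (nat_lit 1) (nat_lit 66) (nat_lit 1) (nat_lit 371) (nat_lit 411) (nat_lit 238))) (XT.nd (nat_lit 78) (nat_lit 0) (nat_lit 0) (XT.lf (nat_lit 152) (nat_lit 4119703131) (nat_lit 0) (nat_lit 309900652) (nat_lit 76) (nat_lit 309900652) (nat_lit 65) (nat_lit 1) (nat_lit 63) (nat_lit 1) (nat_lit 64) (nat_lit 1) (nat_lit 372) (nat_lit 411) (nat_lit 237)) (XT.lf (nat_lit 0) (nat_lit 1266210652) (nat_lit 0) (nat_lit 2160070579) (nat_lit 152) (nat_lit 1266210652) (nat_lit 63) (nat_lit 3) (nat_lit 63) (nat_lit 1) (nat_lit 65) (nat_lit 1) (nat_lit 373) (nat_lit 411) (nat_lit 236)))) (XT.nd (nat_lit 156) (nat_lit 228) (nat_lit 0) (XT.nd (nat_lit 78) (nat_lit 152) (nat_lit 0) (XT.lf (nat_lit 76) (nat_lit 970193825) (nat_lit 0) (nat_lit 1838018997) (nat_lit 76) (nat_lit 1838018997) (nat_lit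 63) (nat_lit 3) (nat_lit 62) (nat_lit 1) (nat_lit 63) (nat_lit 1) (nat_lit 374) (nat_lit 411) (nat_lit 235)) (XT.lf (nat_lit 152) (nat_lit 4050031544) (nat_lit 0) (nat_lit 275342715) (nat_lit 76) (nat_lit 275342715) (nat_lit 62) (nat_lit 1) (nat_lit 60) (nat_lit 1) (nat_lit 61) (nat_lit 1) (nat_lit 375) (nat_lit 411) (nat_lit 234))) (XT.nd (nat_lit 78) (nat_lit 228) (nat_lit 0) (XT.lf (nat_lit 0) (nat_lit 1253635088) (nat_lit 0) (nat_lit 2047818056) (nat_lit 152) (nat_lit 1253635088) (nat_lit 60) (nat_lit 3) (nat_lit 60) (nat_lit 1) (nat_lit 62) (nat_lit 1) (nat_lit 376) (nat_lit 411) (nat_lit 233)) (XT.nd (nat_lit 78) (nat_lit 152) (nat_lit 0) (XT.lf (nat_lit 76) (nat_lit 989366958) (nat_lit 0) (nat_lit 1760418383) (nat_lit 76) (nat_lit 1760418383) (nat_lit 60) (nat_lit 3) (nat_lit 59) (nat_lit 1) (nat_lit 60) (nat_lit 1) (nat_lit 377) (nat_lit 411) (nat_lit 232)) (XT.lf (nat_lit 152) (nat_lit 3976777921)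 (nat_lit 0) (nat_lit 244638436) (nat_lit 76) (nat_lit 244638436) (nat_lit 59) (nat_lit 1) (nat_lit 57) (nat_lit 1) (nat_lit 58) (nat_lit 1) (nat_lit 378) (nat_lit 411) (nat_lit 231)))))) (XT.nd (nat_lit 390) (nat_lit 380) (nat_lit 0) (XT.nd (nat_lit 156) (nat_lit 228) (nat_lit 0) (XT.nd (nat_lit 78) (nat_lit 76) (nat_lit 0) (XT.lf (nat_lit 0) (nat_lit 1238715552) (nat_lit 0) (nat_lit 1944336832) (nat_lit 152) (nat_lit 1238715552) (nat_lit 57) (nat_lit 3) (nat_lit 57) (nat_lit 1) (nat_lit 59) (nat_lit 1) (nat_lit 379) (nat_lit 411) (nat_lit 230)) (XT.lf (nat_lit 76) (nat_lit 1002692457) (nat_lit 0) (nat_lit 1687761661) (nat_lit 76) (nat_lit 1687761661) (nat_lit 57) (nat_lit 3) (nat_lit 56) (nat_lit 1) (nat_lit 57) (nat_lit 1) (nat_lit 380) (nat_lit 411) (nat_lit 229))) (XT.nd (nat_lit 78) (nat_lit 76) (nat_lit 0) (XT.lf (nat_lit 152) (nat_lit 3900672326) (nat_lit 0) (nat_lit 217358082) (nat_lit 76) (nat_lit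 217358082) (nat_lit 56) (nat_lit 1) (nat_lit 54) (nat_lit 1) (nat_lit 55) (nat_lit 1) (nat_lit 381) (nat_lit 411) (nat_lit 228)) (XT.nd (nat_lit 78) (nat_lit 76) (nat_lit 0) (XT.lf (nat_lit 0) (nat_lit 1221822542) (nat_lit 0) (nat_lit 1848757911) (nat_lit 152) (nat_lit 1221822542) (nat_lit 54) (nat_lit 3) (nat_lit 54) (nat_lit 1) (nat_lit 56) (nat_lit 1) (nat_lit 382) (nat_lit 411) (nat_lit 227)) (XT.lf (nat_lit 76) (nat_lit 1010930454) (nat_lit 0) (nat_lit 1619605569) (nat_lit 76) (nat_lit 1619605569) (nat_lit 54) (nat_lit 3) (nat_lit 53) (nat_lit 1) (nat_lit 54) (nat_lit 1) (nat_lit 383) (nat_lit 411) (nat_lit 226))))) (XT.nd (nat_lit 156) (nat_lit 228) (nat_lit 0) (XT.nd (nat_lit 78) (nat_lit 0) (nat_lit 0) (XT.lf (nat_lit 152) (nat_lit 3822353782) (nat_lit 0) (nat_lit 193119841) (nat_lit 76) (nat_lit 193119841) (nat_lit 53) (nat_lit 1) (nat_lit 51) (nat_lit 1) (nat_lit 52) (nat_lit 1) (nat_lit 384)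 (nat_lit 411) (nat_lit 225)) (XT.lf (nat_lit 0) (nat_lit 1203282066) (nat_lit 0) (nat_lit 1760306020) (nat_lit 152) (nat_lit 1203282066) (nat_lit 51) (nat_lit 3) (nat_lit 51) (nat_lit 1) (nat_lit 53) (nat_lit 1) (nat_lit 385) (nat_lit 411) (nat_lit 224))) (XT.nd (nat_lit 78) (nat_lit 152) (nat_lit 0) (XT.lf (nat_lit 76) (nat_lit 1014753171) (nat_lit 0) (nat_lit 1555553127) (nat_lit 76) (nat_lit 1555553127) (nat_lit 51) (nat_lit 3) (nat_lit 50) (nat_lit 1) (nat_lit 51) (nat_lit 1) (nat_lit 386) (nat_lit 411) (nat_lit 223)) (XT.nd (nat_lit 78) (nat_lit 0) (nat_lit 0) (XT.lf (nat_lit 152) (nat_lit 3742380704) (nat_lit 0) (nat_lit 171584477) (nat_lit 76) (nat_lit 171584477) (nat_lit 50) (nat_lit 1) (nat_lit 48) (nat_lit 1) (nat_lit 49) (nat_lit 1) (nat_lit 387) (nat_lit 411) (nat_lit 222)) (XT.lf (nat_lit 0) (nat_lit 1183380687) (nat_lit 0) (nat_lit 1678289257) (nat_lit 152) (nat_lit 1183380687) (nat_lit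 48) (nat_lit 3) (nat_lit 48) (nat_lit 1) (nat_lit 50) (nat_lit 1) (nat_lit 388) (nat_lit 411) (nat_lit 221))))))) (XT.nd (nat_lit 702) (nat_lit 760) (nat_lit 0) (XT.nd (nat_lit 312) (nat_lit 380) (nat_lit 0) (XT.nd (nat_lit 156) (nat_lit 76) (nat_lit 0) (XT.nd (nat_lit 78) (nat_lit 152) (nat_lit 0) (XT.lf (nat_lit 76) (nat_lit 1014754812) (nat_lit 0) (nat_lit 1495248569) (nat_lit 76) (nat_lit 1495248569) (nat_lit 48) (nat_lit 3) (nat_lit 47) (nat_lit 1) (nat_lit 48) (nat_lit 1) (nat_lit 389) (nat_lit 411) (nat_lit 220)) (XT.lf (nat_lit 152) (nat_lit 3661240159) (nat_lit 0) (nat_lit 152450585) (nat_lit 76) (nat_lit 152450585) (nat_lit 47) (nat_lit 1) (nat_lit 45) (nat_lit 1) (nat_lit 46) (nat_lit 1) (nat_lit 390) (nat_lit 411) (nat_lit 219))) (XT.nd (nat_lit 78) (nat_lit 76) (nat_lit 0) (XT.lf (nat_lit 0) (nat_lit 1162370022) (nat_lit 0) (nat_lit 1602089876) (nat_lit 152) (nat_lit 1162370022) (nat_lit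 45) (nat_lit 3) (nat_lit 45) (nat_lit 1) (nat_lit 47) (nat_lit 1) (nat_lit 391) (nat_lit 411) (nat_lit 218)) (XT.lf (nat_lit 76) (nat_lit 1011460356) (nat_lit 0) (nat_lit 1438372835) (nat_lit 76) (nat_lit 1438372835) (nat_lit 45) (nat_lit 3) (nat_lit 44) (nat_lit 1) (nat_lit 45) (nat_lit 1) (nat_lit 392) (nat_lit 411) (nat_lit 217)))) (XT.nd (nat_lit 156) (nat_lit 228) (nat_lit 0) (XT.nd (nat_lit 78) (nat_lit 0) (nat_lit 0) (XT.lf (nat_lit 152) (nat_lit 3579356086) (nat_lit 0) (nat_lit 135450370) (nat_lit 76) (nat_lit 135450370) (nat_lit 44) (nat_lit 1) (nat_lit 42) (nat_lit 1) (nat_lit 43) (nat_lit 1) (nat_lit 393) (nat_lit 411) (nat_lit 216)) (XT.lf (nat_lit 0) (nat_lit 1140470718) (nat_lit 0) (nat_lit 1531156113) (nat_lit 152) (nat_lit 1140470718) (nat_lit 42) (nat_lit 3) (nat_lit 42) (nat_lit 1) (nat_lit 44) (nat_lit 1) (nat_lit 394) (nat_lit 411) (nat_lit 215))) (XT.nd (nat_lit 78) (nat_lit 152)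 (nat_lit 0) (XT.lf (nat_lit 76) (nat_lit 1005333355) (nat_lit 0) (nat_lit 1384639564) (nat_lit 76) (nat_lit 1384639564) (nat_lit 42) (nat_lit 3) (nat_lit 41) (nat_lit 1) (nat_lit 42) (nat_lit 1) (nat_lit 395) (nat_lit 411) (nat_lit 214)) (XT.nd (nat_lit 78) (nat_lit 0) (nat_lit 0) (XT.lf (nat_lit 152) (nat_lit 3497096597) (nat_lit 0) (nat_lit 120345900) (nat_lit 76) (nat_lit 120345900) (nat_lit 41) (nat_lit 1) (nat_lit 39) (nat_lit 1) (nat_lit 40) (nat_lit 1) (nat_lit 396) (nat_lit 411) (nat_lit 213)) (XT.lf (nat_lit 0) (nat_lit 1117875994) (nat_lit 0) (nat_lit 1464994907) (nat_lit 152) (nat_lit 1117875994) (nat_lit 39) (nat_lit 3) (nat_lit 39) (nat_lit 1) (nat_lit 41) (nat_lit 1) (nat_lit 397) (nat_lit 411) (nat_lit 212)))))) (XT.nd (nat_lit 390) (nat_lit 304) (nat_lit 0) (XT.nd (nat_lit 156) (nat_lit 228) (nat_lit 0) (XT.nd (nat_lit 78) (nat_lit 152) (nat_lit 0) (XT.lf (nat_lit 76) (nat_lit 996782879)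 (nat_lit 0) (nat_lit 1333791532) (nat_lit 76) (nat_lit 1333791532) (nat_lit 39) (nat_lit 3) (nat_lit 38) (nat_lit 1) (nat_lit 39) (nat_lit 1) (nat_lit 398) (nat_lit 411) (nat_lit 211)) (XT.lf (nat_lit 152) (nat_lit 3414780443) (nat_lit 0) (nat_lit 106925773) (nat_lit 76) (nat_lit 106925773) (nat_lit 38) (nat_lit 1) (nat_lit 36) (nat_lit 1) (nat_lit 37) (nat_lit 1) (nat_lit 399) (nat_lit 411) (nat_lit 210))) (XT.nd (nat_lit 78) (nat_lit 228) (nat_lit 0) (XT.lf (nat_lit 0) (nat_lit 1094754781) (nat_lit 0) (nat_lit 1403165440) (nat_lit 152) (nat_lit 1094754781) (nat_lit 36) (nat_lit 3) (nat_lit 36) (nat_lit 1) (nat_lit 38) (nat_lit 1) (nat_lit 400) (nat_lit 411) (nat_lit 209)) (XT.nd (nat_lit 78) (nat_lit 152) (nat_lit 0) (XT.lf (nat_lit 76) (nat_lit 986169662) (nat_lit 0) (nat_lit 1285597485) (nat_lit 76) (nat_lit 1285597485) (nat_lit 36) (nat_lit 3) (nat_lit 35) (nat_lit 1) (nat_lit 36) (nat_lit 1) (nat_lit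 401) (nat_lit 411) (nat_lit 208)) (XT.lf (nat_lit 152) (nat_lit 3332682769) (nat_lit 0) (nat_lit 95002164) (nat_lit 76) (nat_lit 95002164) (nat_lit 35) (nat_lit 1) (nat_lit 33) (nat_lit 1) (nat_lit 34) (nat_lit 1) (nat_lit 402) (nat_lit 411) (nat_lit 207))))) (XT.nd (nat_lit 156) (nat_lit 228) (nat_lit 0) (XT.nd (nat_lit 78) (nat_lit 76) (nat_lit 0) (XT.lf (nat_lit 0) (nat_lit 1071254511) (nat_lit 0) (nat_lit 1345273387) (nat_lit 152) (nat_lit 1071254511) (nat_lit 33) (nat_lit 3) (nat_lit 33) (nat_lit 1) (nat_lit 35) (nat_lit 1) (nat_lit 403) (nat_lit 411) (nat_lit 206)) (XT.lf (nat_lit 76) (nat_lit 973811577) (nat_lit 0) (nat_lit 1239849320) (nat_lit 76) (nat_lit 1239849320) (nat_lit 33) (nat_lit 3) (nat_lit 32) (nat_lit 1) (nat_lit 33) (nat_lit 1) (nat_lit 404) (nat_lit 411) (nat_lit 205))) (XT.nd (nat_lit 78) (nat_lit 76) (nat_lit 0) (XT.lf (nat_lit 152) (nat_lit 3251040208) (nat_lit 0) (nat_lit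 84408193) (nat_lit 76) (nat_lit 84408193) (nat_lit 32) (nat_lit 1) (nat_lit 30) (nat_lit 1) (nat_lit 31) (nat_lit 1) (nat_lit 405) (nat_lit 411) (nat_lit 204)) (XT.nd (nat_lit 78) (nat_lit 76) (nat_lit 0) (XT.lf (nat_lit 0) (nat_lit 1047503591) (nat_lit 0) (nat_lit 1290965812) (nat_lit 152) (nat_lit 1047503591) (nat_lit 30) (nat_lit 3) (nat_lit 30) (nat_lit 1) (nat_lit 32) (nat_lit 1) (nat_lit 406) (nat_lit 411) (nat_lit 203)) (XT.lf (nat_lit 76) (nat_lit 959988494) (nat_lit 0) (nat_lit 1196359583) (nat_lit 76) (nat_lit 1196359583) (nat_lit 30) (nat_lit 3) (nat_lit 29) (nat_lit 1) (nat_lit 30) (nat_lit 1) (nat_lit 407) (nat_lit 411) (nat_lit 202))))))))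
noncomputable def ec370 : XT := (XT.nd (nat_lit 36972) (nat_lit 0) (nat_lit 24548) (XT.nd (nat_lit 702) (nat_lit 380) (nat_lit 0) (XT.nd (nat_lit 312) (nat_lit 304) (nat_lit 0) (XT.nd (nat_lit 156) (nat_lit 228) (nat_lit 0) (XT.nd (nat_lit 78) (nat_lit 0) (nat_lit 0) (XT.lf (nat_lit 152) (nat_lit 3170055400) (nat_lit 0) (nat_lit 74995586) (nat_lit 76) (nat_lit 74995586) (nat_lit 29) (nat_lit 1) (nat_lit 27) (nat_lit 1) (nat_lit 28) (nat_lit 1) (nat_lit 408) (nat_lit 411) (nat_lit 201)) (XT.lf (nat_lit 0) (nat_lit 1023613599) (nat_lit 0) (nat_lit 1239926629) (nat_lit 152) (nat_lit 1023613599) (nat_lit 27) (nat_lit 3) (nat_lit 27) (nat_lit 1) (nat_lit 29) (nat_lit 1) (nat_lit 409) (nat_lit 411) (nat_lit 200))) (XT.nd (nat_lit 78) (nat_lit 152) (nat_lit 0) (XT.lf (nat_lit 76) (nat_lit 944946586) (nat_lit 0) (nat_lit 1154959237) (nat_lit 76) (nat_lit 1154959237) (nat_lit 27) (nat_lit 3) (nat_lit 26) (nat_lit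 1) (nat_lit 27) (nat_lit 1) (nat_lit 410) (nat_lit 411) (nat_lit 199)) (XT.lf (nat_lit 152) (nat_lit 3089901013) (nat_lit 0) (nat_lit 66632607) (nat_lit 76) (nat_lit 66632607) (nat_lit 26) (nat_lit 1) (nat_lit 24) (nat_lit 1) (nat_lit 25) (nat_lit 1) (nat_lit 411) (nat_lit 411) (nat_lit 198)))) (XT.nd (nat_lit 156) (nat_lit 228) (nat_lit 0) (XT.nd (nat_lit 78) (nat_lit 76) (nat_lit 0) (XT.lf (nat_lit 0) (nat_lit 999681236) (nat_lit 0) (nat_lit 1191872562) (nat_lit 152) (nat_lit 999681236) (nat_lit 24) (nat_lit 3) (nat_lit 24) (nat_lit 1) (nat_lit 26) (nat_lit 1) (nat_lit 412) (nat_lit 411) (nat_lit 197)) (XT.lf (nat_lit 76) (nat_lit 928902165) (nat_lit 0) (nat_lit 1115495685) (nat_lit 76) (nat_lit 1115495685) (nat_lit 24) (nat_lit 3) (nat_lit 23) (nat_lit 1) (nat_lit 24) (nat_lit 1) (nat_lit 413) (nat_lit 411) (nat_lit 196))) (XT.nd (nat_lit 78) (nat_lit 76) (nat_lit 0) (XT.lf (nat_lit 152) (nat_lit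 3010723290) (nat_lit 0) (nat_lit 59202208) (nat_lit 76) (nat_lit 59202208) (nat_lit 23) (nat_lit 1) (nat_lit 21) (nat_lit 1) (nat_lit 22) (nat_lit 1) (nat_lit 414) (nat_lit 411) (nat_lit 195)) (XT.nd (nat_lit 78) (nat_lit 76) (nat_lit 0) (XT.lf (nat_lit 0) (nat_lit 975790055) (nat_lit 0) (nat_lit 1146549558) (nat_lit 152) (nat_lit 975790055) (nat_lit 21) (nat_lit 3) (nat_lit 21) (nat_lit 1) (nat_lit 23) (nat_lit 1) (nat_lit 415) (nat_lit 411) (nat_lit 194)) (XT.lf (nat_lit 76) (nat_lit 912045078) (nat_lit 0) (nat_lit 1077831004) (nat_lit 76) (nat_lit 1077831004) (nat_lit 21) (nat_lit 3) (nat_lit 20) (nat_lit 1) (nat_lit 21) (nat_lit 1) (nat_lit 416) (nat_lit 411) (nat_lit 193)))))) (XT.nd (nat_lit 35880) (nat_lit 0) (nat_lit 27284) (XT.nd (nat_lit 156) (nat_lit 228) (nat_lit 0) (XT.nd (nat_lit 78) (nat_lit 0) (nat_lit 0) (XT.lf (nat_lit 152) (nat_lit 2932645211) (nat_lit 0) (nat_lit 52600395) (nat_lit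 76) (nat_lit 52600395) (nat_lit 20) (nat_lit 1) (nat_lit 18) (nat_lit 1) (nat_lit 19) (nat_lit 1) (nat_lit 417) (nat_lit 411) (nat_lit 192)) (XT.lf (nat_lit 0) (nat_lit 952011994) (nat_lit 0) (nat_lit 1103729602) (nat_lit 152) (nat_lit 952011994) (nat_lit 18) (nat_lit 3) (nat_lit 18) (nat_lit 1) (nat_lit 20) (nat_lit 1) (nat_lit 418) (nat_lit 411) (nat_lit 191))) (XT.nd (nat_lit 78) (nat_lit 152) (nat_lit 0) (XT.lf (nat_lit 76) (nat_lit 894541730) (nat_lit 0) (nat_lit 1041840378) (nat_lit 76) (nat_lit 1041840378) (nat_lit 18) (nat_lit 3) (nat_lit 17) (nat_lit 1) (nat_lit 18) (nat_lit 1) (nat_lit 419) (nat_lit 411) (nat_lit 190)) (XT.nd (nat_lit 78) (nat_lit 0) (nat_lit 0) (XT.lf (nat_lit 152) (nat_lit 2855769290) (nat_lit 0) (nat_lit 46734769) (nat_lit 76) (nat_lit 46734769) (nat_lit 17) (nat_lit 1) (nat_lit 15) (nat_lit 1) (nat_lit 16) (nat_lit 1) (nat_lit 420) (nat_lit 411) (nat_lit 189)) (XT.lf (nat_lit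 0) (nat_lit 928408744) (nat_lit 0) (nat_lit 1063207873) (nat_lit 152) (nat_lit 928408744) (nat_lit 15) (nat_lit 3) (nat_lit 15) (nat_lit 1) (nat_lit 17) (nat_lit 1) (nat_lit 421) (nat_lit 411) (nat_lit 188))))) (XT.nd (nat_lit 156) (nat_lit 0) (nat_lit 76) (XT.nd (nat_lit 78) (nat_lit 0) (nat_lit 0) (XT.lf (nat_lit 1292) (nat_lit 3132887905) (nat_lit 0) (nat_lit 10778591404) (nat_lit 1292) (nat_lit 3132887905) (nat_lit 391) (nat_lit 1) (nat_lit 374) (nat_lit 0) (nat_lit 391) (nat_lit 0) (nat_lit 196) (nat_lit 412) (nat_lit 412)) (XT.lf (nat_lit 1292) (nat_lit 12243380832) (nat_lit 76) (nat_lit 10672918939) (nat_lit 0) (nat_lit 10672918939) (nat_lit 391) (nat_lit 1) (nat_lit 375) (nat_lit 1) (nat_lit 374) (nat_lit 0) (nat_lit 197) (nat_lit 412) (nat_lit 411))) (XT.nd (nat_lit 78) (nat_lit 0) (nat_lit 0) (XT.lf (nat_lit 1292) (nat_lit 5921190887) (nat_lit 0) (nat_lit 21258339493) (nat_lit 1216) (nat_lit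 5921190887) (nat_lit 392) (nat_lit 1) (nat_lit 375) (nat_lit 1) (nat_lit 391) (nat_lit 1) (nat_lit 198) (nat_lit 412) (nat_lit 410)) (XT.nd (nat_lit 78) (nat_lit 0) (nat_lit 76) (XT.lf (nat_lit 1292) (nat_lit 11244647208) (nat_lit 76) (nat_lit 10687867177) (nat_lit 0) (nat_lit 10687867177) (nat_lit 392) (nat_lit 1) (nat_lit 376) (nat_lit 1) (nat_lit 375) (nat_lit 1) (nat_lit 199) (nat_lit 412) (nat_lit 409)) (XT.lf (nat_lit 1292) (nat_lit 5276494622) (nat_lit 0) (nat_lit 21597800376) (nat_lit 1216) (nat_lit 5276494622) (nat_lit 393) (nat_lit 1) (nat_lit 376) (nat_lit 1) (nat_lit 392) (nat_lit 1) (nat_lit 200) (nat_lit 412) (nat_lit 408))))))) (XT.nd (nat_lit 702) (nat_lit 1900) (nat_lit 0) (XT.nd (nat_lit 312) (nat_lit 988) (nat_lit 0) (XT.nd (nat_lit 156) (nat_lit 0) (nat_lit 76) (XT.nd (nat_lit 78) (nat_lit 0) (nat_lit 76) (XT.lf (nat_lit 1292) (nat_lit 9669733519) (nat_lit 76) (nat_lit 11009487160)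 (nat_lit 0) (nat_lit 11009487160) (nat_lit 393) (nat_lit 1) (nat_lit 377) (nat_lit 1) (nat_lit 376) (nat_lit 1) (nat_lit 201) (nat_lit 412) (nat_lit 407)) (XT.lf (nat_lit 1292) (nat_lit 4358231876) (nat_lit 0) (nat_lit 22520832457) (nat_lit 1216) (nat_lit 4358231876) (nat_lit 394) (nat_lit 1) (nat_lit 377) (nat_lit 1) (nat_lit 393) (nat_lit 1) (nat_lit 202) (nat_lit 412) (nat_lit 406))) (XT.nd (nat_lit 78) (nat_lit 0) (nat_lit 76) (XT.lf (nat_lit 1292) (nat_lit 7570166649) (nat_lit 76) (nat_lit 11611217496) (nat_lit 0) (nat_lit 11611217496) (nat_lit 394) (nat_lit 1) (nat_lit 378) (nat_lit 1) (nat_lit 377) (nat_lit 1) (nat_lit 203) (nat_lit 412) (nat_lit 405)) (XT.lf (nat_lit 1292) (nat_lit 3191152347) (nat_lit 0) (nat_lit 23976371574) (nat_lit 1216) (nat_lit 3191152347) (nat_lit 395) (nat_lit 1) (nat_lit 378) (nat_lit 1) (nat_lit 394) (nat_lit 1) (nat_lit 204) (nat_lit 412) (nat_lit 404)))) (XT.nd (nat_lit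 156) (nat_lit 1140) (nat_lit 0) (XT.nd (nat_lit 78) (nat_lit 0) (nat_lit 76) (XT.lf (nat_lit 1292) (nat_lit 4993978196) (nat_lit 76) (nat_lit 12468282413) (nat_lit 0) (nat_lit 12468282413) (nat_lit 395) (nat_lit 1) (nat_lit 379) (nat_lit 1) (nat_lit 378) (nat_lit 1) (nat_lit 205) (nat_lit 412) (nat_lit 403)) (XT.lf (nat_lit 1292) (nat_lit 1798321531) (nat_lit 0) (nat_lit 25916796457) (nat_lit 1216) (nat_lit 1798321531) (nat_lit 396) (nat_lit 1) (nat_lit 379) (nat_lit 1) (nat_lit 395) (nat_lit 1) (nat_lit 206) (nat_lit 412) (nat_lit 402))) (XT.nd (nat_lit 78) (nat_lit 1216) (nat_lit 0) (XT.lf (nat_lit 1292) (nat_lit 1985920770) (nat_lit 76) (nat_lit 13557581661) (nat_lit 0) (nat_lit 13557581661) (nat_lit 396) (nat_lit 1) (nat_lit 380) (nat_lit 1) (nat_lit 379) (nat_lit 1) (nat_lit 207) (nat_lit 412) (nat_lit 401)) (XT.nd (nat_lit 78) (nat_lit 1292) (nat_lit 0) (XT.lf (nat_lit 1292) (nat_lit 201225068)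 (nat_lit 0) (nat_lit 28297716184) (nat_lit 1216) (nat_lit 201225068) (nat_lit 397) (nat_lit 1) (nat_lit 380) (nat_lit 1) (nat_lit 396) (nat_lit 1) (nat_lit 208) (nat_lit 412) (nat_lit 400)) (XT.lf (nat_lit 1368) (nat_lit 13458834537) (nat_lit 0) (nat_lit 1384768963) (nat_lit 1292) (nat_lit 13458834537) (nat_lit 381) (nat_lit 1) (nat_lit 363) (nat_lit 1) (nat_lit 380) (nat_lit 1) (nat_lit 209) (nat_lit 412) (nat_lit 399)))))) (XT.nd (nat_lit 390) (nat_lit 1216) (nat_lit 0) (XT.nd (nat_lit 156) (nat_lit 684) (nat_lit 0) (XT.nd (nat_lit 78) (nat_lit 0) (nat_lit 76) (XT.lf (nat_lit 1368) (nat_lit 24786388943) (nat_lit 76) (nat_lit 1564641606) (nat_lit 0) (nat_lit 1564641606) (nat_lit 381) (nat_lit 1) (nat_lit 364) (nat_lit 1) (nat_lit 363) (nat_lit 1) (nat_lit 210) (nat_lit 412) (nat_lit 398)) (XT.lf (nat_lit 1368) (nat_lit 11235887570) (nat_lit 0) (nat_lit 5061248302) (nat_lit 1292) (nat_lit 11235887570)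 (nat_lit 382) (nat_lit 1) (nat_lit 364) (nat_lit 1) (nat_lit 381) (nat_lit 1) (nat_lit 211) (nat_lit 412) (nat_lit 397))) (XT.nd (nat_lit 78) (nat_lit 760) (nat_lit 0) (XT.lf (nat_lit 1368) (nat_lit 20174957194) (nat_lit 76) (nat_lit 3492558700) (nat_lit 0) (nat_lit 3492558700) (nat_lit 382) (nat_lit 1) (nat_lit 365) (nat_lit 1) (nat_lit 364) (nat_lit 1) (nat_lit 212) (nat_lit 412) (nat_lit 396)) (XT.nd (nat_lit 78) (nat_lit 836) (nat_lit 0) (XT.lf (nat_lit 76) (nat_lit 8872642402) (nat_lit 0) (nat_lit 9046885506) (nat_lit 1292) (nat_lit 8872642402) (nat_lit 366) (nat_lit 1) (nat_lit 365) (nat_lit 1) (nat_lit 382) (nat_lit 1) (nat_lit 213) (nat_lit 412) (nat_lit 395)) (XT.lf (nat_lit 912) (nat_lit 15297684618) (nat_lit 0) (nat_lit 5567356860) (nat_lit 836) (nat_lit 5567356860) (nat_lit 366) (nat_lit 1) (nat_lit 354) (nat_lit 1) (nat_lit 365) (nat_lit 1) (nat_lit 214) (nat_lit 412) (nat_lit 394)))))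 (XT.nd (nat_lit 156) (nat_lit 608) (nat_lit 0) (XT.nd (nat_lit 78) (nat_lit 608) (nat_lit 0) (XT.lf (nat_lit 76) (nat_lit 6384955766) (nat_lit 0) (nat_lit 13308782109) (nat_lit 912) (nat_lit 6384955766) (nat_lit 355) (nat_lit 1) (nat_lit 354) (nat_lit 1) (nat_lit 366) (nat_lit 1) (nat_lit 215) (nat_lit 412) (nat_lit 393)) (XT.lf (nat_lit 684) (nat_lit 10185284649) (nat_lit 0) (nat_lit 7773103017) (nat_lit 608) (nat_lit 7773103017) (nat_lit 355) (nat_lit 1) (nat_lit 346) (nat_lit 1) (nat_lit 354) (nat_lit 1) (nat_lit 216) (nat_lit 412) (nat_lit 392))) (XT.nd (nat_lit 78) (nat_lit 608) (nat_lit 0) (XT.lf (nat_lit 76) (nat_lit 3787546879) (nat_lit 0) (nat_lit 17816369460) (nat_lit 684) (nat_lit 3787546879) (nat_lit 347) (nat_lit 1) (nat_lit 346) (nat_lit 1) (nat_lit 355) (nat_lit 1) (nat_lit 217) (nat_lit 412) (nat_lit 391)) (XT.nd (nat_lit 78) (nat_lit 0) (nat_lit 0) (XT.lf (nat_lit 684) (nat_lit 4866257556)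 (nat_lit 0) (nat_lit 10094997213) (nat_lit 608) (nat_lit 10094997213) (nat_lit 347) (nat_lit 1) (nat_lit 338) (nat_lit 1) (nat_lit 346) (nat_lit 1) (nat_lit 218) (nat_lit 412) (nat_lit 390)) (XT.lf (nat_lit 76) (nat_lit 1094069364) (nat_lit 0) (nat_lit 22541262128) (nat_lit 684) (nat_lit 1094069364) (nat_lit 339) (nat_lit 1) (nat_lit 338) (nat_lit 1) (nat_lit 347) (nat_lit 1) (nat_lit 219) (nat_lit 412) (nat_lit 389))))))))
noncomputable def ec371 : XT := (XT.nd (nat_lit 1482) (nat_lit 4104) (nat_lit 0) (XT.nd (nat_lit 702) (nat_lit 2204) (nat_lit 0) (XT.nd (nat_lit 312) (nat_lit 1596) (nat_lit 0) (XT.nd (nat_lit 156) (nat_lit 532) (nat_lit 0) (XT.nd (nat_lit 78) (nat_lit 608) (nat_lit 0) (XT.lf (nat_lit 76) (nat_lit 11892416278) (nat_lit 0) (nat_lit 620617891) (nat_lit 608) (nat_lit 11892416278) (nat_lit 331) (nat_lit 1) (nat_lit 330) (nat_lit 1) (nat_lit 338) (nat_lit 1) (nat_lit 220) (nat_lit 412)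 (nat_lit 388)) (XT.lf (nat_lit 684) (nat_lit 20756880997) (nat_lit 0) (nat_lit 1666322911) (nat_lit 608) (nat_lit 1666322911) (nat_lit 331) (nat_lit 1) (nat_lit 322) (nat_lit 1) (nat_lit 330) (nat_lit 1) (nat_lit 221) (nat_lit 412) (nat_lit 387))) (XT.nd (nat_lit 78) (nat_lit 532) (nat_lit 0) (XT.lf (nat_lit 76) (nat_lit 8805804264) (nat_lit 0) (nat_lit 6165210487) (nat_lit 684) (nat_lit 8805804264) (nat_lit 323) (nat_lit 1) (nat_lit 322) (nat_lit 1) (nat_lit 331) (nat_lit 1) (nat_lit 222) (nat_lit 412) (nat_lit 386)) (XT.lf (nat_lit 608) (nat_lit 14497502696) (nat_lit 0) (nat_lit 4486978012) (nat_lit 532) (nat_lit 4486978012) (nat_lit 323) (nat_lit 1) (nat_lit 315) (nat_lit 1) (nat_lit 322) (nat_lit 1) (nat_lit 223) (nat_lit 412) (nat_lit 385)))) (XT.nd (nat_lit 156) (nat_lit 1064) (nat_lit 0) (XT.nd (nat_lit 78) (nat_lit 532) (nat_lit 0) (XT.lf (nat_lit 76) (nat_lit 5665279673) (nat_lit 0) (nat_lit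 11840252305) (nat_lit 608) (nat_lit 5665279673) (nat_lit 316) (nat_lit 1) (nat_lit 315) (nat_lit 1) (nat_lit 323) (nat_lit 1) (nat_lit 224) (nat_lit 412) (nat_lit 384)) (XT.lf (nat_lit 608) (nat_lit 8139776159) (nat_lit 0) (nat_lit 7367882068) (nat_lit 532) (nat_lit 7367882068) (nat_lit 316) (nat_lit 1) (nat_lit 308) (nat_lit 1) (nat_lit 315) (nat_lit 1) (nat_lit 225) (nat_lit 412) (nat_lit 383))) (XT.nd (nat_lit 78) (nat_lit 1064) (nat_lit 0) (XT.lf (nat_lit 76) (nat_lit 2480668280) (nat_lit 0) (nat_lit 17625185178) (nat_lit 608) (nat_lit 2480668280) (nat_lit 309) (nat_lit 1) (nat_lit 308) (nat_lit 1) (nat_lit 316) (nat_lit 1) (nat_lit 226) (nat_lit 412) (nat_lit 382)) (XT.nd (nat_lit 78) (nat_lit 608) (nat_lit 0) (XT.lf (nat_lit 532) (nat_lit 1702676941) (nat_lit 0) (nat_lit 10299105684) (nat_lit 456) (nat_lit 10299105684) (nat_lit 309) (nat_lit 1) (nat_lit 302) (nat_lit 1) (nat_lit 308) (nat_lit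 1) (nat_lit 227) (nat_lit 412) (nat_lit 381)) (XT.lf (nat_lit 608) (nat_lit 20558787620) (nat_lit 0) (nat_lit 731719477) (nat_lit 532) (nat_lit 731719477) (nat_lit 302) (nat_lit 1) (nat_lit 294) (nat_lit 1) (nat_lit 301) (nat_lit 1) (nat_lit 228) (nat_lit 412) (nat_lit 380)))))) (XT.nd (nat_lit 390) (nat_lit 1292) (nat_lit 0) (XT.nd (nat_lit 156) (nat_lit 456) (nat_lit 0) (XT.nd (nat_lit 78) (nat_lit 456) (nat_lit 0) (XT.lf (nat_lit 76) (nat_lit 8521285941) (nat_lit 0) (nat_lit 4702703896) (nat_lit 608) (nat_lit 8521285941) (nat_lit 295) (nat_lit 1) (nat_lit 294) (nat_lit 1) (nat_lit 302) (nat_lit 1) (nat_lit 229) (nat_lit 412) (nat_lit 379)) (XT.lf (nat_lit 532) (nat_lit 13582665255) (nat_lit 0) (nat_lit 3946191696) (nat_lit 456) (nat_lit 3946191696) (nat_lit 295) (nat_lit 1) (nat_lit 288) (nat_lit 1) (nat_lit 294) (nat_lit 1) (nat_lit 230) (nat_lit 412) (nat_lit 378))) (XT.nd (nat_lit 78) (nat_lit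 456) (nat_lit 0) (XT.lf (nat_lit 76) (nat_lit 5044525386) (nat_lit 0) (nat_lit 11119724491) (nat_lit 532) (nat_lit 5044525386) (nat_lit 289) (nat_lit 1) (nat_lit 288) (nat_lit 1) (nat_lit 295) (nat_lit 1) (nat_lit 231) (nat_lit 412) (nat_lit 377)) (XT.nd (nat_lit 78) (nat_lit 0) (nat_lit 0) (XT.lf (nat_lit 532) (nat_lit 6588175146) (nat_lit 0) (nat_lit 7179453510) (nat_lit 456) (nat_lit 7179453510) (nat_lit 289) (nat_lit 1) (nat_lit 282) (nat_lit 1) (nat_lit 288) (nat_lit 1) (nat_lit 232) (nat_lit 412) (nat_lit 376)) (XT.lf (nat_lit 76) (nat_lit 1562018656) (nat_lit 0) (nat_lit 17567073997) (nat_lit 532) (nat_lit 1562018656) (nat_lit 283) (nat_lit 1) (nat_lit 282) (nat_lit 1) (nat_lit 289) (nat_lit 1) (nat_lit 233) (nat_lit 412) (nat_lit 375))))) (XT.nd (nat_lit 156) (nat_lit 380) (nat_lit 0) (XT.nd (nat_lit 78) (nat_lit 456) (nat_lit 0) (XT.lf (nat_lit 76) (nat_lit 10017029963) (nat_lit 0) (nat_lit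 403401044) (nat_lit 456) (nat_lit 10017029963) (nat_lit 277) (nat_lit 1) (nat_lit 276) (nat_lit 1) (nat_lit 282) (nat_lit 1) (nat_lit 234) (nat_lit 412) (nat_lit 374)) (XT.lf (nat_lit 532) (nat_lit 16387122697) (nat_lit 0) (nat_lit 1901101227) (nat_lit 456) (nat_lit 1901101227) (nat_lit 277) (nat_lit 1) (nat_lit 270) (nat_lit 1) (nat_lit 276) (nat_lit 1) (nat_lit 235) (nat_lit 412) (nat_lit 373))) (XT.nd (nat_lit 78) (nat_lit 380) (nat_lit 0) (XT.lf (nat_lit 76) (nat_lit 6342079100) (nat_lit 0) (nat_lit 7259532698) (nat_lit 532) (nat_lit 6342079100) (nat_lit 271) (nat_lit 1) (nat_lit 270) (nat_lit 1) (nat_lit 277) (nat_lit 1) (nat_lit 236) (nat_lit 412) (nat_lit 372)) (XT.nd (nat_lit 78) (nat_lit 0) (nat_lit 0) (XT.lf (nat_lit 456) (nat_lit 9017875149) (nat_lit 0) (nat_lit 5342631462) (nat_lit 380) (nat_lit 5342631462) (nat_lit 271) (nat_lit 1) (nat_lit 265) (nat_lit 1) (nat_lit 270) (nat_lit 1) (nat_lit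 237) (nat_lit 412) (nat_lit 371)) (XT.lf (nat_lit 76) (nat_lit 2684545574) (nat_lit 0) (nat_lit 14097899932) (nat_lit 456) (nat_lit 2684545574) (nat_lit 266) (nat_lit 1) (nat_lit 265) (nat_lit 1) (nat_lit 271) (nat_lit 1) (nat_lit 238) (nat_lit 412) (nat_lit 370))))))) (XT.nd (nat_lit 702) (nat_lit 1824) (nat_lit 0) (XT.nd (nat_lit 312) (nat_lit 1064) (nat_lit 0) (XT.nd (nat_lit 156) (nat_lit 380) (nat_lit 0) (XT.nd (nat_lit 78) (nat_lit 456) (nat_lit 0) (XT.lf (nat_lit 456) (nat_lit 1688367705) (nat_lit 0) (nat_lit 8772664390) (nat_lit 380) (nat_lit 8772664390) (nat_lit 266) (nat_lit 1) (nat_lit 260) (nat_lit 1) (nat_lit 265) (nat_lit 1) (nat_lit 239) (nat_lit 412) (nat_lit 369)) (XT.lf (nat_lit 456) (nat_lit 17122386576) (nat_lit 0) (nat_lit 941610480) (nat_lit 380) (nat_lit 941610480) (nat_lit 260) (nat_lit 1) (nat_lit 254) (nat_lit 1) (nat_lit 259) (nat_lit 1) (nat_lit 240) (nat_lit 412) (nat_lit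 368))) (XT.nd (nat_lit 78) (nat_lit 380) (nat_lit 0) (XT.lf (nat_lit 76) (nat_lit 6647682217) (nat_lit 0) (nat_lit 5483387088) (nat_lit 456) (nat_lit 6647682217) (nat_lit 255) (nat_lit 1) (nat_lit 254) (nat_lit 1) (nat_lit 260) (nat_lit 1) (nat_lit 241) (nat_lit 412) (nat_lit 367)) (XT.lf (nat_lit 456) (nat_lit 9526050260) (nat_lit 0) (nat_lit 4515443458) (nat_lit 380) (nat_lit 4515443458) (nat_lit 255) (nat_lit 1) (nat_lit 249) (nat_lit 1) (nat_lit 254) (nat_lit 1) (nat_lit 242) (nat_lit 412) (nat_lit 366)))) (XT.nd (nat_lit 156) (nat_lit 760) (nat_lit 0) (XT.nd (nat_lit 78) (nat_lit 304) (nat_lit 0) (XT.lf (nat_lit 76) (nat_lit 2886102303) (nat_lit 0) (nat_lit 12566631731) (nat_lit 456) (nat_lit 2886102303) (nat_lit 250) (nat_lit 1) (nat_lit 249) (nat_lit 1) (nat_lit 255) (nat_lit 1) (nat_lit 243) (nat_lit 412) (nat_lit 365)) (XT.lf (nat_lit 380) (nat_lit 2004491991) (nat_lit 0) (nat_lit 8059503771)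 (nat_lit 304) (nat_lit 8059503771) (nat_lit 250) (nat_lit 1) (nat_lit 245) (nat_lit 1) (nat_lit 249) (nat_lit 1) (nat_lit 244) (nat_lit 412) (nat_lit 364))) (XT.nd (nat_lit 78) (nat_lit 304) (nat_lit 0) (XT.lf (nat_lit 456) (nat_lit 16255963946) (nat_lit 0) (nat_lit 828461351) (nat_lit 380) (nat_lit 828461351) (nat_lit 245) (nat_lit 1) (nat_lit 239) (nat_lit 1) (nat_lit 244) (nat_lit 1) (nat_lit 245) (nat_lit 412) (nat_lit 363)) (XT.nd (nat_lit 78) (nat_lit 304) (nat_lit 0) (XT.lf (nat_lit 76) (nat_lit 6186589053) (nat_lit 0) (nat_lit 5329980928) (nat_lit 456) (nat_lit 6186589053) (nat_lit 240) (nat_lit 1) (nat_lit 239) (nat_lit 1) (nat_lit 245) (nat_lit 1) (nat_lit 246) (nat_lit 412) (nat_lit 362)) (XT.lf (nat_lit 380) (nat_lit 8551228401) (nat_lit 0) (nat_lit 4473394804) (nat_lit 304) (nat_lit 4473394804) (nat_lit 240) (nat_lit 1) (nat_lit 235) (nat_lit 1) (nat_lit 239) (nat_lit 1) (nat_lit 247) (nat_lit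 412) (nat_lit 361)))))) (XT.nd (nat_lit 390) (nat_lit 836) (nat_lit 0) (XT.nd (nat_lit 156) (nat_lit 684) (nat_lit 0) (XT.nd (nat_lit 78) (nat_lit 304) (nat_lit 0) (XT.lf (nat_lit 76) (nat_lit 2377965996) (nat_lit 0) (nat_lit 12540453985) (nat_lit 380) (nat_lit 2377965996) (nat_lit 236) (nat_lit 1) (nat_lit 235) (nat_lit 1) (nat_lit 240) (nat_lit 1) (nat_lit 248) (nat_lit 412) (nat_lit 360)) (XT.lf (nat_lit 380) (nat_lit 948232569) (nat_lit 0) (nat_lit 8074406606) (nat_lit 304) (nat_lit 8074406606) (nat_lit 236) (nat_lit 1) (nat_lit 231) (nat_lit 1) (nat_lit 235) (nat_lit 1) (nat_lit 249) (nat_lit 412) (nat_lit 359))) (XT.nd (nat_lit 78) (nat_lit 304) (nat_lit 0) (XT.lf (nat_lit 380) (nat_lit 14170726775) (nat_lit 0) (nat_lit 1365456344) (nat_lit 304) (nat_lit 1365456344) (nat_lit 231) (nat_lit 1) (nat_lit 226) (nat_lit 1) (nat_lit 230) (nat_lit 1) (nat_lit 250) (nat_lit 412) (nat_lit 358)) (XT.nd (nat_lit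 78) (nat_lit 304) (nat_lit 0) (XT.lf (nat_lit 76) (nat_lit 5143210501) (nat_lit 0) (nat_lit 6421151572) (nat_lit 380) (nat_lit 5143210501) (nat_lit 227) (nat_lit 1) (nat_lit 226) (nat_lit 1) (nat_lit 231) (nat_lit 1) (nat_lit 251) (nat_lit 412) (nat_lit 357)) (XT.lf (nat_lit 380) (nat_lit 6452297883) (nat_lit 0) (nat_lit 5032513335) (nat_lit 304) (nat_lit 5032513335) (nat_lit 227) (nat_lit 1) (nat_lit 222) (nat_lit 1) (nat_lit 226) (nat_lit 1) (nat_lit 252) (nat_lit 412) (nat_lit 356))))) (XT.nd (nat_lit 156) (nat_lit 532) (nat_lit 0) (XT.nd (nat_lit 78) (nat_lit 304) (nat_lit 0) (XT.lf (nat_lit 76) (nat_lit 1332982058) (nat_lit 0) (nat_lit 13664792917) (nat_lit 380) (nat_lit 1332982058) (nat_lit 223) (nat_lit 1) (nat_lit 222) (nat_lit 1) (nat_lit 227) (nat_lit 1) (nat_lit 253) (nat_lit 412) (nat_lit 355)) (XT.lf (nat_lit 76) (nat_lit 7511829811) (nat_lit 0) (nat_lit 1121731977) (nat_lit 304) (nat_lit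 7511829811) (nat_lit 219) (nat_lit 1) (nat_lit 218) (nat_lit 1) (nat_lit 222) (nat_lit 1) (nat_lit 254) (nat_lit 412) (nat_lit 354))) (XT.nd (nat_lit 78) (nat_lit 228) (nat_lit 0) (XT.lf (nat_lit 380) (nat_lit 11179196232) (nat_lit 0) (nat_lit 2392204126) (nat_lit 304) (nat_lit 2392204126) (nat_lit 219) (nat_lit 1) (nat_lit 214) (nat_lit 1) (nat_lit 218) (nat_lit 1) (nat_lit 255) (nat_lit 412) (nat_lit 353)) (XT.nd (nat_lit 78) (nat_lit 228) (nat_lit 0) (XT.lf (nat_lit 76) (nat_lit 3668011196) (nat_lit 0) (nat_lit 8447865908) (nat_lit 380) (nat_lit 3668011196) (nat_lit 215) (nat_lit 1) (nat_lit 214) (nat_lit 1) (nat_lit 219) (nat_lit 1) (nat_lit 256) (nat_lit 412) (nat_lit 352)) (XT.lf (nat_lit 304) (nat_lit 3521963439) (nat_lit 0) (nat_lit 6042515415) (nat_lit 228) (nat_lit 6042515415) (nat_lit 215) (nat_lit 1) (nat_lit 211) (nat_lit 1) (nat_lit 214) (nat_lit 1) (nat_lit 257) (nat_lit 412) (nat_lit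 351))))))))
noncomputable def ec372 : XT := (XT.nd (nat_lit 1404) (nat_lit 2128) (nat_lit 0) (XT.nd (nat_lit 702) (nat_lit 1140) (nat_lit 0) (XT.nd (nat_lit 312) (nat_lit 1064) (nat_lit 0) (XT.nd (nat_lit 156) (nat_lit 228) (nat_lit 0) (XT.nd (nat_lit 78) (nat_lit 0) (nat_lit 0) (XT.lf (nat_lit 380) (nat_lit 15220350800) (nat_lit 0) (nat_lit 106880449) (nat_lit 304) (nat_lit 106880449) (nat_lit 211) (nat_lit 1) (nat_lit 206) (nat_lit 1) (nat_lit 210) (nat_lit 1) (nat_lit 258) (nat_lit 412) (nat_lit 350)) (XT.lf (nat_lit 76) (nat_lit 5670314325) (nat_lit 0) (nat_lit 3920260596) (nat_lit 380) (nat_lit 5670314325) (nat_lit 207) (nat_lit 1) (nat_lit 206) (nat_lit 1) (nat_lit 211) (nat_lit 1) (nat_lit 259) (nat_lit 412) (nat_lit 349))) (XT.nd (nat_lit 78) (nat_lit 0) (nat_lit 0) (XT.lf (nat_lit 304) (nat_lit 7535474189) (nat_lit 0) (nat_lit 3778059242) (nat_lit 228) (nat_lit 3778059242) (nat_lit 207) (nat_lit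 1) (nat_lit 203) (nat_lit 1) (nat_lit 206) (nat_lit 1) (nat_lit 260) (nat_lit 412) (nat_lit 348)) (XT.lf (nat_lit 76) (nat_lit 1883270407) (nat_lit 0) (nat_lit 11158513186) (nat_lit 304) (nat_lit 1883270407) (nat_lit 204) (nat_lit 1) (nat_lit 203) (nat_lit 1) (nat_lit 207) (nat_lit 1) (nat_lit 261) (nat_lit 412) (nat_lit 347)))) (XT.nd (nat_lit 156) (nat_lit 532) (nat_lit 0) (XT.nd (nat_lit 78) (nat_lit 228) (nat_lit 0) (XT.lf (nat_lit 76) (nat_lit 7379101695) (nat_lit 0) (nat_lit 1975670) (nat_lit 304) (nat_lit 7379101695) (nat_lit 200) (nat_lit 1) (nat_lit 199) (nat_lit 1) (nat_lit 203) (nat_lit 1) (nat_lit 262) (nat_lit 412) (nat_lit 346)) (XT.lf (nat_lit 304) (nat_lit 10973088974) (nat_lit 0) (nat_lit 1812448507) (nat_lit 228) (nat_lit 1812448507) (nat_lit 200) (nat_lit 1) (nat_lit 196) (nat_lit 1) (nat_lit 199) (nat_lit 1) (nat_lit 263) (nat_lit 412) (nat_lit 345))) (XT.nd (nat_lit 78) (nat_lit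 532) (nat_lit 0) (XT.lf (nat_lit 76) (nat_lit 3594788081) (nat_lit 0) (nat_lit 7247776420) (nat_lit 304) (nat_lit 3594788081) (nat_lit 197) (nat_lit 1) (nat_lit 196) (nat_lit 1) (nat_lit 200) (nat_lit 1) (nat_lit 264) (nat_lit 412) (nat_lit 344)) (XT.nd (nat_lit 78) (nat_lit 304) (nat_lit 0) (XT.lf (nat_lit 304) (nat_lit 3445206122) (nat_lit 0) (nat_lit 5417061044) (nat_lit 228) (nat_lit 5417061044) (nat_lit 197) (nat_lit 1) (nat_lit 193) (nat_lit 1) (nat_lit 196) (nat_lit 1) (nat_lit 265) (nat_lit 412) (nat_lit 343)) (XT.lf (nat_lit 304) (nat_lit 13902765640) (nat_lit 0) (nat_lit 111008678) (nat_lit 228) (nat_lit 111008678) (nat_lit 193) (nat_lit 1) (nat_lit 189) (nat_lit 1) (nat_lit 192) (nat_lit 1) (nat_lit 266) (nat_lit 412) (nat_lit 342)))))) (XT.nd (nat_lit 312) (nat_lit 684) (nat_lit 0) (XT.nd (nat_lit 156) (nat_lit 228) (nat_lit 0) (XT.nd (nat_lit 78) (nat_lit 228) (nat_lit 0) (XT.lf (nat_lit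 76) (nat_lit 5059482570) (nat_lit 0) (nat_lit 3850800116) (nat_lit 304) (nat_lit 5059482570) (nat_lit 190) (nat_lit 1) (nat_lit 189) (nat_lit 1) (nat_lit 193) (nat_lit 1) (nat_lit 267) (nat_lit 412) (nat_lit 341)) (XT.lf (nat_lit 304) (nat_lit 6407619479) (nat_lit 0) (nat_lit 3705271758) (nat_lit 228) (nat_lit 3705271758) (nat_lit 190) (nat_lit 1) (nat_lit 186) (nat_lit 1) (nat_lit 189) (nat_lit 1) (nat_lit 268) (nat_lit 412) (nat_lit 340))) (XT.nd (nat_lit 78) (nat_lit 228) (nat_lit 0) (XT.lf (nat_lit 76) (nat_lit 1370464744) (nat_lit 0) (nat_lit 10928199030) (nat_lit 304) (nat_lit 1370464744) (nat_lit 187) (nat_lit 1) (nat_lit 186) (nat_lit 1) (nat_lit 190) (nat_lit 1) (nat_lit 269) (nat_lit 412) (nat_lit 339)) (XT.lf (nat_lit 76) (nat_lit 6306507955) (nat_lit 0) (nat_lit 908031310) (nat_lit 228) (nat_lit 6306507955) (nat_lit 184) (nat_lit 1) (nat_lit 183) (nat_lit 1) (nat_lit 186) (nat_lit 1) (nat_lit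 270) (nat_lit 412) (nat_lit 338)))) (XT.nd (nat_lit 156) (nat_lit 456) (nat_lit 0) (XT.nd (nat_lit 78) (nat_lit 0) (nat_lit 0) (XT.lf (nat_lit 304) (nat_lit 8942211635) (nat_lit 0) (nat_lit 2216632746) (nat_lit 228) (nat_lit 2216632746) (nat_lit 184) (nat_lit 1) (nat_lit 180) (nat_lit 1) (nat_lit 183) (nat_lit 1) (nat_lit 271) (nat_lit 412) (nat_lit 337)) (XT.lf (nat_lit 76) (nat_lit 2644893620) (nat_lit 0) (nat_lit 7941780960) (nat_lit 304) (nat_lit 2644893620) (nat_lit 181) (nat_lit 1) (nat_lit 180) (nat_lit 1) (nat_lit 184) (nat_lit 1) (nat_lit 272) (nat_lit 412) (nat_lit 336))) (XT.nd (nat_lit 78) (nat_lit 304) (nat_lit 0) (XT.lf (nat_lit 228) (nat_lit 1665883541) (nat_lit 0) (nat_lit 5711849735) (nat_lit 152) (nat_lit 5711849735) (nat_lit 181) (nat_lit 1) (nat_lit 178) (nat_lit 1) (nat_lit 180) (nat_lit 1) (nat_lit 273) (nat_lit 412) (nat_lit 335)) (XT.nd (nat_lit 78) (nat_lit 0) (nat_lit 0) (XT.lf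 (nat_lit 304) (nat_lit 11099529237) (nat_lit 0) (nat_lit 925320145) (nat_lit 228) (nat_lit 925320145) (nat_lit 178) (nat_lit 1) (nat_lit 174) (nat_lit 1) (nat_lit 177) (nat_lit 1) (nat_lit 274) (nat_lit 412) (nat_lit 334)) (XT.lf (nat_lit 76) (nat_lit 3735636681) (nat_lit 0) (nat_lit 5339875992) (nat_lit 304) (nat_lit 3735636681) (nat_lit 175) (nat_lit 1) (nat_lit 174) (nat_lit 1) (nat_lit 178) (nat_lit 1) (nat_lit 275) (nat_lit 412) (nat_lit 333))))))) (XT.nd (nat_lit 702) (nat_lit 1064) (nat_lit 0) (XT.nd (nat_lit 312) (nat_lit 532) (nat_lit 0) (XT.nd (nat_lit 156) (nat_lit 380) (nat_lit 0) (XT.nd (nat_lit 78) (nat_lit 0) (nat_lit 0) (XT.lf (nat_lit 228) (nat_lit 3896343119) (nat_lit 0) (nat_lit 4389155193) (nat_lit 152) (nat_lit 4389155193) (nat_lit 175) (nat_lit 1) (nat_lit 172) (nat_lit 1) (nat_lit 174) (nat_lit 1) (nat_lit 276) (nat_lit 412) (nat_lit 332)) (XT.lf (nat_lit 76) (nat_lit 193479701)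 (nat_lit 0) (nat_lit 12154050241) (nat_lit 228) (nat_lit 193479701) (nat_lit 173) (nat_lit 1) (nat_lit 172) (nat_lit 1) (nat_lit 175) (nat_lit 1) (nat_lit 277) (nat_lit 412) (nat_lit 331))) (XT.nd (nat_lit 78) (nat_lit 152) (nat_lit 0) (XT.lf (nat_lit 76) (nat_lit 4664388066) (nat_lit 0) (nat_lit 3078106259) (nat_lit 228) (nat_lit 4664388066) (nat_lit 170) (nat_lit 1) (nat_lit 169) (nat_lit 1) (nat_lit 172) (nat_lit 1) (nat_lit 278) (nat_lit 412) (nat_lit 330)) (XT.lf (nat_lit 228) (nat_lit 5807702017) (nat_lit 0) (nat_lit 3233931506) (nat_lit 152) (nat_lit 3233931506) (nat_lit 170) (nat_lit 1) (nat_lit 167) (nat_lit 1) (nat_lit 169) (nat_lit 1) (nat_lit 279) (nat_lit 412) (nat_lit 329)))) (XT.nd (nat_lit 156) (nat_lit 304) (nat_lit 0) (XT.nd (nat_lit 78) (nat_lit 228) (nat_lit 0) (XT.lf (nat_lit 76) (nat_lit 1165840728) (nat_lit 0) (nat_lit 9814716170) (nat_lit 228) (nat_lit 1165840728) (nat_lit 168)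 (nat_lit 1) (nat_lit 167) (nat_lit 1) (nat_lit 170) (nat_lit 1) (nat_lit 280) (nat_lit 412) (nat_lit 328)) (XT.lf (nat_lit 76) (nat_lit 5450387470) (nat_lit 0) (nat_lit 1117086284) (nat_lit 228) (nat_lit 5450387470) (nat_lit 165) (nat_lit 1) (nat_lit 164) (nat_lit 1) (nat_lit 167) (nat_lit 1) (nat_lit 281) (nat_lit 412) (nat_lit 327))) (XT.nd (nat_lit 78) (nat_lit 152) (nat_lit 0) (XT.lf (nat_lit 228) (nat_lit 7437593866) (nat_lit 0) (nat_lit 2226921757) (nat_lit 152) (nat_lit 2226921757) (nat_lit 165) (nat_lit 1) (nat_lit 162) (nat_lit 1) (nat_lit 164) (nat_lit 1) (nat_lit 282) (nat_lit 412) (nat_lit 326)) (XT.nd (nat_lit 78) (nat_lit 152) (nat_lit 0) (XT.lf (nat_lit 76) (nat_lit 2000821300) (nat_lit 0) (nat_lit 7764908342) (nat_lit 228) (nat_lit 2000821300) (nat_lit 163) (nat_lit 1) (nat_lit 162) (nat_lit 1) (nat_lit 165) (nat_lit 1) (nat_lit 283) (nat_lit 412) (nat_lit 325)) (XT.lf (nat_lit 228)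 (nat_lit 589641032) (nat_lit 0) (nat_lit 5526721831) (nat_lit 152) (nat_lit 5526721831) (nat_lit 163) (nat_lit 1) (nat_lit 160) (nat_lit 1) (nat_lit 162) (nat_lit 1) (nat_lit 284) (nat_lit 412) (nat_lit 324)))))) (XT.nd (nat_lit 390) (nat_lit 456) (nat_lit 0) (XT.nd (nat_lit 156) (nat_lit 380) (nat_lit 0) (XT.nd (nat_lit 78) (nat_lit 0) (nat_lit 0) (XT.lf (nat_lit 228) (nat_lit 8819395959) (nat_lit 0) (nat_lit 1351033371) (nat_lit 152) (nat_lit 1351033371) (nat_lit 160) (nat_lit 1) (nat_lit 157) (nat_lit 1) (nat_lit 159) (nat_lit 1) (nat_lit 285) (nat_lit 412) (nat_lit 323)) (XT.lf (nat_lit 76) (nat_lit 2714584308) (nat_lit 0) (nat_lit 5971506070) (nat_lit 228) (nat_lit 2714584308) (nat_lit 158) (nat_lit 1) (nat_lit 157) (nat_lit 1) (nat_lit 160) (nat_lit 1) (nat_lit 286) (nat_lit 412) (nat_lit 322))) (XT.nd (nat_lit 78) (nat_lit 228) (nat_lit 0) (XT.lf (nat_lit 228) (nat_lit 2079141582) (nat_lit 0)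 (nat_lit 4601279008) (nat_lit 152) (nat_lit 4601279008) (nat_lit 158) (nat_lit 1) (nat_lit 155) (nat_lit 1) (nat_lit 157) (nat_lit 1) (nat_lit 287) (nat_lit 412) (nat_lit 321)) (XT.nd (nat_lit 78) (nat_lit 0) (nat_lit 0) (XT.lf (nat_lit 228) (nat_lit 9982705625) (nat_lit 0) (nat_lit 591096266) (nat_lit 152) (nat_lit 591096266) (nat_lit 155) (nat_lit 1) (nat_lit 152) (nat_lit 1) (nat_lit 154) (nat_lit 1) (nat_lit 288) (nat_lit 412) (nat_lit 320)) (XT.lf (nat_lit 76) (nat_lit 3321465714) (nat_lit 0) (nat_lit 4405106362) (nat_lit 228) (nat_lit 3321465714) (nat_lit 153) (nat_lit 1) (nat_lit 152) (nat_lit 1) (nat_lit 155) (nat_lit 1) (nat_lit 289) (nat_lit 412) (nat_lit 319))))) (XT.nd (nat_lit 156) (nat_lit 304) (nat_lit 0) (XT.nd (nat_lit 78) (nat_lit 0) (nat_lit 0) (XT.lf (nat_lit 228) (nat_lit 3357244892) (nat_lit 0) (nat_lit 3788039174) (nat_lit 152) (nat_lit 3788039174) (nat_lit 153) (nat_lit 1) (nat_lit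 150) (nat_lit 1) (nat_lit 152) (nat_lit 1) (nat_lit 290) (nat_lit 412) (nat_lit 318)) (XT.lf (nat_lit 76) (nat_lit 67008957) (nat_lit 0) (nat_lit 10686963819) (nat_lit 228) (nat_lit 67008957) (nat_lit 151) (nat_lit 1) (nat_lit 150) (nat_lit 1) (nat_lit 153) (nat_lit 1) (nat_lit 291) (nat_lit 412) (nat_lit 317))) (XT.nd (nat_lit 78) (nat_lit 152) (nat_lit 0) (XT.lf (nat_lit 76) (nat_lit 3834178992) (nat_lit 0) (nat_lit 3039608648) (nat_lit 152) (nat_lit 3834178992) (nat_lit 149) (nat_lit 1) (nat_lit 148) (nat_lit 1) (nat_lit 150) (nat_lit 1) (nat_lit 292) (nat_lit 412) (nat_lit 316)) (XT.nd (nat_lit 78) (nat_lit 0) (nat_lit 0) (XT.lf (nat_lit 228) (nat_lit 4448843871) (nat_lit 0) (nat_lit 3074227987) (nat_lit 152) (nat_lit 3074227987) (nat_lit 149) (nat_lit 1) (nat_lit 146) (nat_lit 1) (nat_lit 148) (nat_lit 1) (nat_lit 293) (nat_lit 412) (nat_lit 315)) (XT.lf (nat_lit 76) (nat_lit 639527027) (nat_lit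 0) (nat_lit 9209519360) (nat_lit 228) (nat_lit 639527027) (nat_lit 147) (nat_lit 1) (nat_lit 146) (nat_lit 1) (nat_lit 149) (nat_lit 1) (nat_lit 294) (nat_lit 412) (nat_lit 314))))))))
noncomputable def ec373 : XT := (XT.nd (nat_lit 1482) (nat_lit 1444) (nat_lit 0) (XT.nd (nat_lit 702) (nat_lit 988) (nat_lit 0) (XT.nd (nat_lit 312) (nat_lit 456) (nat_lit 0) (XT.nd (nat_lit 156) (nat_lit 152) (nat_lit 0) (XT.nd (nat_lit 78) (nat_lit 152) (nat_lit 0) (XT.lf (nat_lit 76) (nat_lit 4263996747) (nat_lit 0) (nat_lit 1851845828) (nat_lit 152) (nat_lit 4263996747) (nat_lit 145) (nat_lit 1) (nat_lit 144) (nat_lit 1) (nat_lit 146) (nat_lit 1) (nat_lit 295) (nat_lit 412) (nat_lit 313)) (XT.lf (nat_lit 228) (nat_lit 5376017116) (nat_lit 0) (nat_lit 2448503249) (nat_lit 152) (nat_lit 2448503249) (nat_lit 145) (nat_lit 1) (nat_lit 142) (nat_lit 1) (nat_lit 144) (nat_lit 1) (nat_lit 296) (nat_lit 412) (nat_lit 312)))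 (XT.nd (nat_lit 78) (nat_lit 152) (nat_lit 0) (XT.lf (nat_lit 76) (nat_lit 1131308992) (nat_lit 0) (nat_lit 7905150732) (nat_lit 228) (nat_lit 1131308992) (nat_lit 143) (nat_lit 1) (nat_lit 142) (nat_lit 1) (nat_lit 145) (nat_lit 1) (nat_lit 297) (nat_lit 412) (nat_lit 311)) (XT.lf (nat_lit 76) (nat_lit 4620912070) (nat_lit 0) (nat_lit 821256484) (nat_lit 152) (nat_lit 4620912070) (nat_lit 141) (nat_lit 1) (nat_lit 140) (nat_lit 1) (nat_lit 142) (nat_lit 1) (nat_lit 298) (nat_lit 412) (nat_lit 310)))) (XT.nd (nat_lit 156) (nat_lit 304) (nat_lit 0) (XT.nd (nat_lit 78) (nat_lit 0) (nat_lit 0) (XT.lf (nat_lit 228) (nat_lit 6158343868) (nat_lit 0) (nat_lit 1900794976) (nat_lit 152) (nat_lit 1900794976) (nat_lit 141) (nat_lit 1) (nat_lit 138) (nat_lit 1) (nat_lit 140) (nat_lit 1) (nat_lit 299) (nat_lit 412) (nat_lit 309)) (XT.lf (nat_lit 76) (nat_lit 1551849999) (nat_lit 0) (nat_lit 6754315361) (nat_lit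 228) (nat_lit 1551849999) (nat_lit 139) (nat_lit 1) (nat_lit 138) (nat_lit 1) (nat_lit 141) (nat_lit 1) (nat_lit 300) (nat_lit 412) (nat_lit 308))) (XT.nd (nat_lit 78) (nat_lit 228) (nat_lit 0) (XT.lf (nat_lit 152) (nat_lit 71807562) (nat_lit 0) (nat_lit 4842664567) (nat_lit 76) (nat_lit 4842664567) (nat_lit 139) (nat_lit 1) (nat_lit 137) (nat_lit 1) (nat_lit 138) (nat_lit 1) (nat_lit 301) (nat_lit 412) (nat_lit 307)) (XT.nd (nat_lit 78) (nat_lit 0) (nat_lit 0) (XT.lf (nat_lit 228) (nat_lit 6813183802) (nat_lit 0) (nat_lit 1422163322) (nat_lit 152) (nat_lit 1422163322) (nat_lit 137) (nat_lit 1) (nat_lit 134) (nat_lit 1) (nat_lit 136) (nat_lit 1) (nat_lit 302) (nat_lit 412) (nat_lit 306)) (XT.lf (nat_lit 76) (nat_lit 1909572035) (nat_lit 0) (nat_lit 5739656981) (nat_lit 228) (nat_lit 1909572035) (nat_lit 135) (nat_lit 1) (nat_lit 134) (nat_lit 1) (nat_lit 137) (nat_lit 1) (nat_lit 303) (nat_lit 412)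 (nat_lit 305)))))) (XT.nd (nat_lit 390) (nat_lit 380) (nat_lit 0) (XT.nd (nat_lit 156) (nat_lit 304) (nat_lit 0) (XT.nd (nat_lit 78) (nat_lit 228) (nat_lit 0) (XT.lf (nat_lit 152) (nat_lit 856038233) (nat_lit 0) (nat_lit 4302644745) (nat_lit 76) (nat_lit 4302644745) (nat_lit 135) (nat_lit 1) (nat_lit 133) (nat_lit 1) (nat_lit 134) (nat_lit 1) (nat_lit 304) (nat_lit 412) (nat_lit 304)) (XT.lf (nat_lit 228) (nat_lit 7355925601) (nat_lit 0) (nat_lit 1004672337) (nat_lit 152) (nat_lit 1004672337) (nat_lit 133) (nat_lit 1) (nat_lit 130) (nat_lit 1) (nat_lit 132) (nat_lit 1) (nat_lit 305) (nat_lit 412) (nat_lit 303))) (XT.nd (nat_lit 78) (nat_lit 304) (nat_lit 0) (XT.lf (nat_lit 76) (nat_lit 2211944011) (nat_lit 0) (nat_lit 4845761631) (nat_lit 228) (nat_lit 2211944011) (nat_lit 131) (nat_lit 1) (nat_lit 130) (nat_lit 1) (nat_lit 133) (nat_lit 1) (nat_lit 306) (nat_lit 412) (nat_lit 302)) (XT.nd (nat_lit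 78) (nat_lit 228) (nat_lit 0) (XT.lf (nat_lit 152) (nat_lit 1529742130) (nat_lit 0) (nat_lit 3822844128) (nat_lit 76) (nat_lit 3822844128) (nat_lit 131) (nat_lit 1) (nat_lit 129) (nat_lit 1) (nat_lit 130) (nat_lit 1) (nat_lit 307) (nat_lit 412) (nat_lit 301)) (XT.lf (nat_lit 228) (nat_lit 7800207766) (nat_lit 0) (nat_lit 641277820) (nat_lit 152) (nat_lit 641277820) (nat_lit 129) (nat_lit 1) (nat_lit 126) (nat_lit 1) (nat_lit 128) (nat_lit 1) (nat_lit 308) (nat_lit 412) (nat_lit 300))))) (XT.nd (nat_lit 156) (nat_lit 304) (nat_lit 0) (XT.nd (nat_lit 78) (nat_lit 76) (nat_lit 0) (XT.lf (nat_lit 76) (nat_lit 2465588450) (nat_lit 0) (nat_lit 4058940857) (nat_lit 228) (nat_lit 2465588450) (nat_lit 127) (nat_lit 1) (nat_lit 126) (nat_lit 1) (nat_lit 129) (nat_lit 1) (nat_lit 309) (nat_lit 412) (nat_lit 299)) (XT.lf (nat_lit 152) (nat_lit 2105916504) (nat_lit 0) (nat_lit 3396547494) (nat_lit 76) (nat_lit 3396547494)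 (nat_lit 127) (nat_lit 1) (nat_lit 125) (nat_lit 1) (nat_lit 126) (nat_lit 1) (nat_lit 310) (nat_lit 412) (nat_lit 298))) (XT.nd (nat_lit 78) (nat_lit 76) (nat_lit 0) (XT.lf (nat_lit 228) (nat_lit 8158114778) (nat_lit 0) (nat_lit 325727679) (nat_lit 152) (nat_lit 325727679) (nat_lit 125) (nat_lit 1) (nat_lit 122) (nat_lit 1) (nat_lit 124) (nat_lit 1) (nat_lit 311) (nat_lit 412) (nat_lit 297)) (XT.nd (nat_lit 78) (nat_lit 76) (nat_lit 0) (XT.lf (nat_lit 76) (nat_lit 2676376263) (nat_lit 0) (nat_lit 3367039109) (nat_lit 228) (nat_lit 2676376263) (nat_lit 123) (nat_lit 1) (nat_lit 122) (nat_lit 1) (nat_lit 125) (nat_lit 1) (nat_lit 312) (nat_lit 412) (nat_lit 296)) (XT.lf (nat_lit 152) (nat_lit 2596089668) (nat_lit 0) (nat_lit 3017788456) (nat_lit 76) (nat_lit 3017788456) (nat_lit 123) (nat_lit 1) (nat_lit 121) (nat_lit 1) (nat_lit 122) (nat_lit 1) (nat_lit 313) (nat_lit 412) (nat_lit 295))))))) (XT.nd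 (nat_lit 702) (nat_lit 684) (nat_lit 0) (XT.nd (nat_lit 312) (nat_lit 456) (nat_lit 0) (XT.nd (nat_lit 156) (nat_lit 76) (nat_lit 0) (XT.nd (nat_lit 78) (nat_lit 0) (nat_lit 0) (XT.lf (nat_lit 228) (nat_lit 8440351362) (nat_lit 0) (nat_lit 52473409) (nat_lit 152) (nat_lit 52473409) (nat_lit 121) (nat_lit 1) (nat_lit 118) (nat_lit 1) (nat_lit 120) (nat_lit 1) (nat_lit 314) (nat_lit 412) (nat_lit 294)) (XT.lf (nat_lit 76) (nat_lit 2849510946) (nat_lit 0) (nat_lit 2759262608) (nat_lit 228) (nat_lit 2849510946) (nat_lit 119) (nat_lit 1) (nat_lit 118) (nat_lit 1) (nat_lit 121) (nat_lit 1) (nat_lit 315) (nat_lit 412) (nat_lit 293))) (XT.nd (nat_lit 78) (nat_lit 0) (nat_lit 0) (XT.lf (nat_lit 152) (nat_lit 3010485376) (nat_lit 0) (nat_lit 2681265956) (nat_lit 76) (nat_lit 2681265956) (nat_lit 119) (nat_lit 1) (nat_lit 117) (nat_lit 1) (nat_lit 118) (nat_lit 1) (nat_lit 316) (nat_lit 412) (nat_lit 292)) (XT.lf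 (nat_lit 0) (nat_lit 185224481) (nat_lit 0) (nat_lit 7918916467) (nat_lit 152) (nat_lit 185224481) (nat_lit 117) (nat_lit 3) (nat_lit 117) (nat_lit 1) (nat_lit 119) (nat_lit 1) (nat_lit 317) (nat_lit 412) (nat_lit 291)))) (XT.nd (nat_lit 156) (nat_lit 228) (nat_lit 0) (XT.nd (nat_lit 78) (nat_lit 76) (nat_lit 0) (XT.lf (nat_lit 76) (nat_lit 2989603375) (nat_lit 0) (nat_lit 2226027312) (nat_lit 152) (nat_lit 2989603375) (nat_lit 116) (nat_lit 1) (nat_lit 115) (nat_lit 1) (nat_lit 117) (nat_lit 1) (nat_lit 318) (nat_lit 412) (nat_lit 290)) (XT.lf (nat_lit 152) (nat_lit 3358168848) (nat_lit 0) (nat_lit 2382270074) (nat_lit 76) (nat_lit 2382270074) (nat_lit 116) (nat_lit 1) (nat_lit 114) (nat_lit 1) (nat_lit 115) (nat_lit 1) (nat_lit 319) (nat_lit 412) (nat_lit 289))) (XT.nd (nat_lit 78) (nat_lit 228) (nat_lit 0) (XT.lf (nat_lit 0) (nat_lit 390111329) (nat_lit 0) (nat_lit 7261396491) (nat_lit 152) (nat_lit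 390111329) (nat_lit 114) (nat_lit 3) (nat_lit 114) (nat_lit 1) (nat_lit 116) (nat_lit 1) (nat_lit 320) (nat_lit 412) (nat_lit 288)) (XT.nd (nat_lit 78) (nat_lit 76) (nat_lit 0) (XT.lf (nat_lit 76) (nat_lit 3100738252) (nat_lit 0) (nat_lit 1758823837) (nat_lit 152) (nat_lit 3100738252) (nat_lit 113) (nat_lit 1) (nat_lit 112) (nat_lit 1) (nat_lit 114) (nat_lit 1) (nat_lit 321) (nat_lit 412) (nat_lit 287)) (XT.lf (nat_lit 152) (nat_lit 3647176500) (nat_lit 0) (nat_lit 2116616105) (nat_lit 76) (nat_lit 2116616105) (nat_lit 113) (nat_lit 1) (nat_lit 111) (nat_lit 1) (nat_lit 112) (nat_lit 1) (nat_lit 322) (nat_lit 412) (nat_lit 286)))))) (XT.nd (nat_lit 390) (nat_lit 304) (nat_lit 0) (XT.nd (nat_lit 156) (nat_lit 228) (nat_lit 0) (XT.nd (nat_lit 78) (nat_lit 152) (nat_lit 0) (XT.lf (nat_lit 0) (nat_lit 565581462) (nat_lit 0) (nat_lit 6670629330) (nat_lit 152) (nat_lit 565581462) (nat_lit 111) (nat_lit 3)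 (nat_lit 111) (nat_lit 1) (nat_lit 113) (nat_lit 1) (nat_lit 323) (nat_lit 412) (nat_lit 285)) (XT.lf (nat_lit 76) (nat_lit 3186533131) (nat_lit 0) (nat_lit 1350097442) (nat_lit 152) (nat_lit 3186533131) (nat_lit 110) (nat_lit 1) (nat_lit 109) (nat_lit 1) (nat_lit 111) (nat_lit 1) (nat_lit 324) (nat_lit 412) (nat_lit 284))) (XT.nd (nat_lit 78) (nat_lit 152) (nat_lit 0) (XT.lf (nat_lit 152) (nat_lit 3884631192) (nat_lit 0) (nat_lit 1880585995) (nat_lit 76) (nat_lit 1880585995) (nat_lit 110) (nat_lit 1) (nat_lit 108) (nat_lit 1) (nat_lit 109) (nat_lit 1) (nat_lit 325) (nat_lit 412) (nat_lit 283)) (XT.nd (nat_lit 78) (nat_lit 152) (nat_lit 0) (XT.lf (nat_lit 0) (nat_lit 715106559) (nat_lit 0) (nat_lit 6139362517) (nat_lit 152) (nat_lit 715106559) (nat_lit 108) (nat_lit 3) (nat_lit 108) (nat_lit 1) (nat_lit 110) (nat_lit 1) (nat_lit 326) (nat_lit 412) (nat_lit 282)) (XT.lf (nat_lit 76) (nat_lit 3250190846)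 (nat_lit 0) (nat_lit 993141415) (nat_lit 152) (nat_lit 3250190846) (nat_lit 107) (nat_lit 1) (nat_lit 106) (nat_lit 1) (nat_lit 108) (nat_lit 1) (nat_lit 327) (nat_lit 412) (nat_lit 281))))) (XT.nd (nat_lit 156) (nat_lit 228) (nat_lit 0) (XT.nd (nat_lit 78) (nat_lit 0) (nat_lit 0) (XT.lf (nat_lit 152) (nat_lit 4076844608) (nat_lit 0) (nat_lit 1670876299) (nat_lit 76) (nat_lit 1670876299) (nat_lit 107) (nat_lit 1) (nat_lit 105) (nat_lit 1) (nat_lit 106) (nat_lit 1) (nat_lit 328) (nat_lit 412) (nat_lit 280)) (XT.lf (nat_lit 0) (nat_lit 841765592) (nat_lit 0) (nat_lit 5661146755) (nat_lit 152) (nat_lit 841765592) (nat_lit 105) (nat_lit 3) (nat_lit 105) (nat_lit 1) (nat_lit 107) (nat_lit 1) (nat_lit 329) (nat_lit 412) (nat_lit 279))) (XT.nd (nat_lit 78) (nat_lit 76) (nat_lit 0) (XT.lf (nat_lit 76) (nat_lit 3294546093) (nat_lit 0) (nat_lit 682002337) (nat_lit 152) (nat_lit 3294546093) (nat_lit 104) (nat_lit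 1) (nat_lit 103) (nat_lit 1) (nat_lit 105) (nat_lit 1) (nat_lit 330) (nat_lit 412) (nat_lit 278)) (XT.nd (nat_lit 78) (nat_lit 0) (nat_lit 0) (XT.lf (nat_lit 152) (nat_lit 4229408201) (nat_lit 0) (nat_lit 1484551950) (nat_lit 76) (nat_lit 1484551950) (nat_lit 104) (nat_lit 1) (nat_lit 102) (nat_lit 1) (nat_lit 103) (nat_lit 1) (nat_lit 331) (nat_lit 412) (nat_lit 277)) (XT.lf (nat_lit 0) (nat_lit 948288773) (nat_lit 0) (nat_lit 5230246515) (nat_lit 152) (nat_lit 948288773) (nat_lit 102) (nat_lit 3) (nat_lit 102) (nat_lit 1) (nat_lit 104) (nat_lit 1) (nat_lit 332) (nat_lit 412) (nat_lit 276))))))))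
noncomputable def ec374 : XT := (XT.nd (nat_lit 1482) (nat_lit 1520) (nat_lit 0) (XT.nd (nat_lit 702) (nat_lit 760) (nat_lit 0) (XT.nd (nat_lit 312) (nat_lit 304) (nat_lit 0) (XT.nd (nat_lit 156) (nat_lit 152) (nat_lit 0) (XT.nd (nat_lit 78) (nat_lit 76) (nat_lit 0) (XT.lf (nat_lit 76) (nat_lit 3322106797) (nat_lit 0) (nat_lit 411395925) (nat_lit 152) (nat_lit 3322106797) (nat_lit 101) (nat_lit 1) (nat_lit 100) (nat_lit 1) (nat_lit 102) (nat_lit 1) (nat_lit 333) (nat_lit 412) (nat_lit 275)) (XT.lf (nat_lit 152) (nat_lit 4347273989) (nat_lit 0) (nat_lit 1319005180) (nat_lit 76) (nat_lit 1319005180) (nat_lit 101) (nat_lit 1) (nat_lit 99) (nat_lit 1) (nat_lit 100) (nat_lit 1) (nat_lit 334) (nat_lit 412) (nat_lit 274))) (XT.nd (nat_lit 78) (nat_lit 152) (nat_lit 0) (XT.lf (nat_lit 0) (nat_lit 1037096610) (nat_lit 0) (nat_lit 4841560604) (nat_lit 152) (nat_lit 1037096610) (nat_lit 99) (nat_lit 3) (nat_lit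 99) (nat_lit 1) (nat_lit 101) (nat_lit 1) (nat_lit 335) (nat_lit 412) (nat_lit 273)) (XT.lf (nat_lit 76) (nat_lit 3335090866) (nat_lit 0) (nat_lit 176632264) (nat_lit 152) (nat_lit 3335090866) (nat_lit 98) (nat_lit 1) (nat_lit 97) (nat_lit 1) (nat_lit 99) (nat_lit 1) (nat_lit 336) (nat_lit 412) (nat_lit 272)))) (XT.nd (nat_lit 156) (nat_lit 228) (nat_lit 0) (XT.nd (nat_lit 78) (nat_lit 0) (nat_lit 0) (XT.lf (nat_lit 152) (nat_lit 4434826325) (nat_lit 0) (nat_lit 1171919018) (nat_lit 76) (nat_lit 1171919018) (nat_lit 98) (nat_lit 1) (nat_lit 96) (nat_lit 1) (nat_lit 97) (nat_lit 1) (nat_lit 337) (nat_lit 412) (nat_lit 271)) (XT.lf (nat_lit 0) (nat_lit 1110334592) (nat_lit 0) (nat_lit 4490551575) (nat_lit 152) (nat_lit 1110334592) (nat_lit 96) (nat_lit 3) (nat_lit 96) (nat_lit 1) (nat_lit 98) (nat_lit 1) (nat_lit 338) (nat_lit 412) (nat_lit 270))) (XT.nd (nat_lit 78) (nat_lit 152) (nat_lit 0) (XT.lf (nat_lit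 76) (nat_lit 26977044) (nat_lit 0) (nat_lit 3308741105) (nat_lit 76) (nat_lit 3308741105) (nat_lit 96) (nat_lit 3) (nat_lit 95) (nat_lit 1) (nat_lit 96) (nat_lit 1) (nat_lit 339) (nat_lit 412) (nat_lit 269)) (XT.nd (nat_lit 78) (nat_lit 0) (nat_lit 0) (XT.lf (nat_lit 152) (nat_lit 4495945645) (nat_lit 0) (nat_lit 1041234869) (nat_lit 76) (nat_lit 1041234869) (nat_lit 95) (nat_lit 1) (nat_lit 93) (nat_lit 1) (nat_lit 94) (nat_lit 1) (nat_lit 340) (nat_lit 412) (nat_lit 268)) (XT.lf (nat_lit 0) (nat_lit 1169904008) (nat_lit 0) (nat_lit 4173183017) (nat_lit 152) (nat_lit 1169904008) (nat_lit 93) (nat_lit 3) (nat_lit 93) (nat_lit 1) (nat_lit 95) (nat_lit 1) (nat_lit 341) (nat_lit 412) (nat_lit 267)))))) (XT.nd (nat_lit 390) (nat_lit 304) (nat_lit 0) (XT.nd (nat_lit 156) (nat_lit 228) (nat_lit 0) (XT.nd (nat_lit 78) (nat_lit 152) (nat_lit 0) (XT.lf (nat_lit 76) (nat_lit 205556955) (nat_lit 0) (nat_lit 3121361818)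 (nat_lit 76) (nat_lit 3121361818) (nat_lit 93) (nat_lit 3) (nat_lit 92) (nat_lit 1) (nat_lit 93) (nat_lit 1) (nat_lit 342) (nat_lit 412) (nat_lit 266)) (XT.lf (nat_lit 152) (nat_lit 4534065100) (nat_lit 0) (nat_lit 925123695) (nat_lit 76) (nat_lit 925123695) (nat_lit 92) (nat_lit 1) (nat_lit 90) (nat_lit 1) (nat_lit 91) (nat_lit 1) (nat_lit 343) (nat_lit 412) (nat_lit 265))) (XT.nd (nat_lit 78) (nat_lit 228) (nat_lit 0) (XT.lf (nat_lit 0) (nat_lit 1217489320) (nat_lit 0) (nat_lit 3885863820) (nat_lit 152) (nat_lit 1217489320) (nat_lit 90) (nat_lit 3) (nat_lit 90) (nat_lit 1) (nat_lit 92) (nat_lit 1) (nat_lit 344) (nat_lit 412) (nat_lit 264)) (XT.nd (nat_lit 78) (nat_lit 152) (nat_lit 0) (XT.lf (nat_lit 76) (nat_lit 358933916) (nat_lit 0) (nat_lit 2949588771) (nat_lit 76) (nat_lit 2949588771) (nat_lit 90) (nat_lit 3) (nat_lit 89) (nat_lit 1) (nat_lit 90) (nat_lit 1) (nat_lit 345) (nat_lit 412) (nat_lit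 263)) (XT.lf (nat_lit 152) (nat_lit 4552220860) (nat_lit 0) (nat_lit 821960420) (nat_lit 76) (nat_lit 821960420) (nat_lit 89) (nat_lit 1) (nat_lit 87) (nat_lit 1) (nat_lit 88) (nat_lit 1) (nat_lit 346) (nat_lit 412) (nat_lit 262))))) (XT.nd (nat_lit 156) (nat_lit 228) (nat_lit 0) (XT.nd (nat_lit 78) (nat_lit 76) (nat_lit 0) (XT.lf (nat_lit 0) (nat_lit 1254582483) (nat_lit 0) (nat_lit 3625398666) (nat_lit 152) (nat_lit 1254582483) (nat_lit 87) (nat_lit 3) (nat_lit 87) (nat_lit 1) (nat_lit 89) (nat_lit 1) (nat_lit 347) (nat_lit 412) (nat_lit 261)) (XT.lf (nat_lit 76) (nat_lit 490072431) (nat_lit 0) (nat_lit 2791835715) (nat_lit 76) (nat_lit 2791835715) (nat_lit 87) (nat_lit 3) (nat_lit 86) (nat_lit 1) (nat_lit 87) (nat_lit 1) (nat_lit 348) (nat_lit 412) (nat_lit 260))) (XT.nd (nat_lit 78) (nat_lit 76) (nat_lit 0) (XT.lf (nat_lit 152) (nat_lit 4553096792) (nat_lit 0) (nat_lit 730301187) (nat_lit 76) (nat_lit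 730301187) (nat_lit 86) (nat_lit 1) (nat_lit 84) (nat_lit 1) (nat_lit 85) (nat_lit 1) (nat_lit 349) (nat_lit 412) (nat_lit 259)) (XT.nd (nat_lit 78) (nat_lit 76) (nat_lit 0) (XT.lf (nat_lit 0) (nat_lit 1282504550) (nat_lit 0) (nat_lit 3388944021) (nat_lit 152) (nat_lit 1282504550) (nat_lit 84) (nat_lit 3) (nat_lit 84) (nat_lit 1) (nat_lit 86) (nat_lit 1) (nat_lit 350) (nat_lit 412) (nat_lit 258)) (XT.lf (nat_lit 76) (nat_lit 601601935) (nat_lit 0) (nat_lit 2646688800) (nat_lit 76) (nat_lit 2646688800) (nat_lit 84) (nat_lit 3) (nat_lit 83) (nat_lit 1) (nat_lit 84) (nat_lit 1) (nat_lit 351) (nat_lit 412) (nat_lit 257))))))) (XT.nd (nat_lit 702) (nat_lit 836) (nat_lit 0) (XT.nd (nat_lit 312) (nat_lit 304) (nat_lit 0) (XT.nd (nat_lit 156) (nat_lit 228) (nat_lit 0) (XT.nd (nat_lit 78) (nat_lit 0) (nat_lit 0) (XT.lf (nat_lit 152) (nat_lit 4539064147) (nat_lit 0) (nat_lit 648863146) (nat_lit 76) (nat_lit 648863146)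 (nat_lit 83) (nat_lit 1) (nat_lit 81) (nat_lit 1) (nat_lit 82) (nat_lit 1) (nat_lit 352) (nat_lit 412) (nat_lit 256)) (XT.lf (nat_lit 0) (nat_lit 1302424860) (nat_lit 0) (nat_lit 3173969047) (nat_lit 152) (nat_lit 1302424860) (nat_lit 81) (nat_lit 3) (nat_lit 81) (nat_lit 1) (nat_lit 83) (nat_lit 1) (nat_lit 353) (nat_lit 412) (nat_lit 255))) (XT.nd (nat_lit 78) (nat_lit 152) (nat_lit 0) (XT.lf (nat_lit 76) (nat_lit 695854292) (nat_lit 0) (nat_lit 2512887484) (nat_lit 76) (nat_lit 2512887484) (nat_lit 81) (nat_lit 3) (nat_lit 80) (nat_lit 1) (nat_lit 81) (nat_lit 1) (nat_lit 354) (nat_lit 412) (nat_lit 254)) (XT.lf (nat_lit 152) (nat_lit 4512216811) (nat_lit 0) (nat_lit 576506501) (nat_lit 76) (nat_lit 576506501) (nat_lit 80) (nat_lit 1) (nat_lit 78) (nat_lit 1) (nat_lit 79) (nat_lit 1) (nat_lit 355) (nat_lit 412) (nat_lit 253)))) (XT.nd (nat_lit 156) (nat_lit 228) (nat_lit 0) (XT.nd (nat_lit 78) (nat_lit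 76) (nat_lit 0) (XT.lf (nat_lit 0) (nat_lit 1315378083) (nat_lit 0) (nat_lit 2978220853) (nat_lit 152) (nat_lit 1315378083) (nat_lit 78) (nat_lit 3) (nat_lit 78) (nat_lit 1) (nat_lit 80) (nat_lit 1) (nat_lit 356) (nat_lit 412) (nat_lit 252)) (XT.lf (nat_lit 76) (nat_lit 774897103) (nat_lit 0) (nat_lit 2389307559) (nat_lit 76) (nat_lit 2389307559) (nat_lit 78) (nat_lit 3) (nat_lit 77) (nat_lit 1) (nat_lit 78) (nat_lit 1) (nat_lit 357) (nat_lit 412) (nat_lit 251))) (XT.nd (nat_lit 78) (nat_lit 76) (nat_lit 0) (XT.lf (nat_lit 152) (nat_lit 4474402609) (nat_lit 0) (nat_lit 512218559) (nat_lit 76) (nat_lit 512218559) (nat_lit 77) (nat_lit 1) (nat_lit 75) (nat_lit 1) (nat_lit 76) (nat_lit 1) (nat_lit 358) (nat_lit 412) (nat_lit 250)) (XT.nd (nat_lit 78) (nat_lit 76) (nat_lit 0) (XT.lf (nat_lit 0) (nat_lit 1322279365) (nat_lit 0) (nat_lit 2799693629) (nat_lit 152) (nat_lit 1322279365) (nat_lit 75) (nat_lit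 3) (nat_lit 75) (nat_lit 1) (nat_lit 77) (nat_lit 1) (nat_lit 359) (nat_lit 412) (nat_lit 249)) (XT.lf (nat_lit 76) (nat_lit 840563299) (nat_lit 0) (nat_lit 2274946080) (nat_lit 76) (nat_lit 2274946080) (nat_lit 75) (nat_lit 3) (nat_lit 74) (nat_lit 1) (nat_lit 75) (nat_lit 1) (nat_lit 360) (nat_lit 412) (nat_lit 248)))))) (XT.nd (nat_lit 390) (nat_lit 456) (nat_lit 0) (XT.nd (nat_lit 156) (nat_lit 228) (nat_lit 0) (XT.nd (nat_lit 78) (nat_lit 0) (nat_lit 0) (XT.lf (nat_lit 152) (nat_lit 4427251109) (nat_lit 0) (nat_lit 455099555) (nat_lit 76) (nat_lit 455099555) (nat_lit 74) (nat_lit 1) (nat_lit 72) (nat_lit 1) (nat_lit 73) (nat_lit 1) (nat_lit 361) (nat_lit 412) (nat_lit 247)) (XT.lf (nat_lit 0) (nat_lit 1323937774) (nat_lit 0) (nat_lit 2636601212) (nat_lit 152) (nat_lit 1323937774) (nat_lit 72) (nat_lit 3) (nat_lit 72) (nat_lit 1) (nat_lit 74) (nat_lit 1) (nat_lit 362) (nat_lit 412) (nat_lit 246)))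 (XT.nd (nat_lit 78) (nat_lit 152) (nat_lit 0) (XT.lf (nat_lit 76) (nat_lit 894477429) (nat_lit 0) (nat_lit 2168907951) (nat_lit 76) (nat_lit 2168907951) (nat_lit 72) (nat_lit 3) (nat_lit 71) (nat_lit 1) (nat_lit 72) (nat_lit 1) (nat_lit 363) (nat_lit 412) (nat_lit 245)) (XT.nd (nat_lit 78) (nat_lit 0) (nat_lit 0) (XT.lf (nat_lit 152) (nat_lit 4372198320) (nat_lit 0) (nat_lit 404350060) (nat_lit 76) (nat_lit 404350060) (nat_lit 71) (nat_lit 1) (nat_lit 69) (nat_lit 1) (nat_lit 70) (nat_lit 1) (nat_lit 364) (nat_lit 412) (nat_lit 244)) (XT.lf (nat_lit 0) (nat_lit 1321068248) (nat_lit 0) (nat_lit 2487352711) (nat_lit 152) (nat_lit 1321068248) (nat_lit 69) (nat_lit 3) (nat_lit 69) (nat_lit 1) (nat_lit 71) (nat_lit 1) (nat_lit 365) (nat_lit 412) (nat_lit 243))))) (XT.nd (nat_lit 156) (nat_lit 228) (nat_lit 0) (XT.nd (nat_lit 78) (nat_lit 152) (nat_lit 0) (XT.lf (nat_lit 76) (nat_lit 938079013) (nat_lit 0)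 (nat_lit 2070394025) (nat_lit 76) (nat_lit 2070394025) (nat_lit 69) (nat_lit 3) (nat_lit 68) (nat_lit 1) (nat_lit 69) (nat_lit 1) (nat_lit 366) (nat_lit 412) (nat_lit 242)) (XT.lf (nat_lit 152) (nat_lit 4310508620) (nat_lit 0) (nat_lit 359259792) (nat_lit 76) (nat_lit 359259792) (nat_lit 68) (nat_lit 1) (nat_lit 66) (nat_lit 1) (nat_lit 67) (nat_lit 1) (nat_lit 367) (nat_lit 412) (nat_lit 241))) (XT.nd (nat_lit 78) (nat_lit 228) (nat_lit 0) (XT.lf (nat_lit 0) (nat_lit 1314302207) (nat_lit 0) (nat_lit 2350530846) (nat_lit 152) (nat_lit 1314302207) (nat_lit 66) (nat_lit 3) (nat_lit 66) (nat_lit 1) (nat_lit 68) (nat_lit 1) (nat_lit 368) (nat_lit 412) (nat_lit 240)) (XT.nd (nat_lit 78) (nat_lit 152) (nat_lit 0) (XT.lf (nat_lit 76) (nat_lit 972643289) (nat_lit 0) (nat_lit 1978690511) (nat_lit 76) (nat_lit 1978690511) (nat_lit 66) (nat_lit 3) (nat_lit 65) (nat_lit 1) (nat_lit 66) (nat_lit 1) (nat_lit 369)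 (nat_lit 412) (nat_lit 239)) (XT.lf (nat_lit 152) (nat_lit 4243294225) (nat_lit 0) (nat_lit 319197672) (nat_lit 76) (nat_lit 319197672) (nat_lit 65) (nat_lit 1) (nat_lit 63) (nat_lit 1) (nat_lit 64) (nat_lit 1) (nat_lit 370) (nat_lit 412) (nat_lit 238))))))))
noncomputable def ec375 : XT := (XT.nd (nat_lit 1482) (nat_lit 1444) (nat_lit 0) (XT.nd (nat_lit 702) (nat_lit 684) (nat_lit 0) (XT.nd (nat_lit 312) (nat_lit 456) (nat_lit 0) (XT.nd (nat_lit 156) (nat_lit 152) (nat_lit 0) (XT.nd (nat_lit 78) (nat_lit 76) (nat_lit 0) (XT.lf (nat_lit 0) (nat_lit 1304196972) (nat_lit 0) (nat_lit 2224872696) (nat_lit 152) (nat_lit 1304196972) (nat_lit 63) (nat_lit 3) (nat_lit 63) (nat_lit 1) (nat_lit 65) (nat_lit 1) (nat_lit 371) (nat_lit 412) (nat_lit 237)) (XT.lf (nat_lit 76) (nat_lit 999299640) (nat_lit 0) (nat_lit 1893159567) (nat_lit 76) (nat_lit 1893159567) (nat_lit 63) (nat_lit 3) (nat_lit 62) (nat_lit 1) (nat_lit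 63) (nat_lit 1) (nat_lit 372) (nat_lit 412) (nat_lit 236))) (XT.nd (nat_lit 78) (nat_lit 0) (nat_lit 0) (XT.lf (nat_lit 152) (nat_lit 4171532491) (nat_lit 0) (nat_lit 283602997) (nat_lit 76) (nat_lit 283602997) (nat_lit 62) (nat_lit 1) (nat_lit 60) (nat_lit 1) (nat_lit 61) (nat_lit 1) (nat_lit 373) (nat_lit 412) (nat_lit 235)) (XT.lf (nat_lit 0) (nat_lit 1291244141) (nat_lit 0) (nat_lit 2109252597) (nat_lit 152) (nat_lit 1291244141) (nat_lit 60) (nat_lit 3) (nat_lit 60) (nat_lit 1) (nat_lit 62) (nat_lit 1) (nat_lit 374) (nat_lit 412) (nat_lit 234)))) (XT.nd (nat_lit 156) (nat_lit 228) (nat_lit 0) (XT.nd (nat_lit 78) (nat_lit 152) (nat_lit 0) (XT.lf (nat_lit 76) (nat_lit 1019047967) (nat_lit 0) (nat_lit 1813230934) (nat_lit 76) (nat_lit 1813230934) (nat_lit 60) (nat_lit 3) (nat_lit 59) (nat_lit 1) (nat_lit 60) (nat_lit 1) (nat_lit 375) (nat_lit 412) (nat_lit 233)) (XT.lf (nat_lit 152) (nat_lit 4096081258)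 (nat_lit 0) (nat_lit 251977589) (nat_lit 76) (nat_lit 251977589) (nat_lit 59) (nat_lit 1) (nat_lit 57) (nat_lit 1) (nat_lit 58) (nat_lit 1) (nat_lit 376) (nat_lit 412) (nat_lit 232))) (XT.nd (nat_lit 78) (nat_lit 228) (nat_lit 0) (XT.lf (nat_lit 0) (nat_lit 1275877018) (nat_lit 0) (nat_lit 2002666937) (nat_lit 152) (nat_lit 1275877018) (nat_lit 57) (nat_lit 3) (nat_lit 57) (nat_lit 1) (nat_lit 59) (nat_lit 1) (nat_lit 377) (nat_lit 412) (nat_lit 231)) (XT.nd (nat_lit 78) (nat_lit 152) (nat_lit 0) (XT.lf (nat_lit 76) (nat_lit 1032773230) (nat_lit 0) (nat_lit 1738394511) (nat_lit 76) (nat_lit 1738394511) (nat_lit 57) (nat_lit 3) (nat_lit 56) (nat_lit 1) (nat_lit 57) (nat_lit 1) (nat_lit 378) (nat_lit 412) (nat_lit 230)) (XT.lf (nat_lit 152) (nat_lit 4017692496) (nat_lit 0) (nat_lit 223878824) (nat_lit 76) (nat_lit 223878824) (nat_lit 56) (nat_lit 1) (nat_lit 54) (nat_lit 1) (nat_lit 55) (nat_lit 1) (nat_lit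 379) (nat_lit 412) (nat_lit 229)))))) (XT.nd (nat_lit 390) (nat_lit 380) (nat_lit 0) (XT.nd (nat_lit 156) (nat_lit 228) (nat_lit 0) (XT.nd (nat_lit 78) (nat_lit 76) (nat_lit 0) (XT.lf (nat_lit 0) (nat_lit 1258477219) (nat_lit 0) (nat_lit 1904220648) (nat_lit 152) (nat_lit 1258477219) (nat_lit 54) (nat_lit 3) (nat_lit 54) (nat_lit 1) (nat_lit 56) (nat_lit 1) (nat_lit 380) (nat_lit 412) (nat_lit 228)) (XT.lf (nat_lit 76) (nat_lit 1041258367) (nat_lit 0) (nat_lit 1668193736) (nat_lit 76) (nat_lit 1668193736) (nat_lit 54) (nat_lit 3) (nat_lit 53) (nat_lit 1) (nat_lit 54) (nat_lit 1) (nat_lit 381) (nat_lit 412) (nat_lit 227))) (XT.nd (nat_lit 78) (nat_lit 76) (nat_lit 0) (XT.lf (nat_lit 152) (nat_lit 3937024395) (nat_lit 0) (nat_lit 198913436) (nat_lit 76) (nat_lit 198913436) (nat_lit 53) (nat_lit 1) (nat_lit 51) (nat_lit 1) (nat_lit 52) (nat_lit 1) (nat_lit 382) (nat_lit 412) (nat_lit 226)) (XT.nd (nat_lit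 78) (nat_lit 76) (nat_lit 0) (XT.lf (nat_lit 0) (nat_lit 1239380528) (nat_lit 0) (nat_lit 1813115201) (nat_lit 152) (nat_lit 1239380528) (nat_lit 51) (nat_lit 3) (nat_lit 51) (nat_lit 1) (nat_lit 53) (nat_lit 1) (nat_lit 383) (nat_lit 412) (nat_lit 225)) (XT.lf (nat_lit 76) (nat_lit 1045195766) (nat_lit 0) (nat_lit 1602219721) (nat_lit 76) (nat_lit 1602219721) (nat_lit 51) (nat_lit 3) (nat_lit 50) (nat_lit 1) (nat_lit 51) (nat_lit 1) (nat_lit 384) (nat_lit 412) (nat_lit 224))))) (XT.nd (nat_lit 156) (nat_lit 228) (nat_lit 0) (XT.nd (nat_lit 78) (nat_lit 0) (nat_lit 0) (XT.lf (nat_lit 152) (nat_lit 3854652125) (nat_lit 0) (nat_lit 176732011) (nat_lit 76) (nat_lit 176732011) (nat_lit 50) (nat_lit 1) (nat_lit 48) (nat_lit 1) (nat_lit 49) (nat_lit 1) (nat_lit 385) (nat_lit 412) (nat_lit 223)) (XT.lf (nat_lit 0) (nat_lit 1218882108) (nat_lit 0) (nat_lit 1728637934) (nat_lit 152) (nat_lit 1218882108) (nat_lit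 48) (nat_lit 3) (nat_lit 48) (nat_lit 1) (nat_lit 50) (nat_lit 1) (nat_lit 386) (nat_lit 412) (nat_lit 222))) (XT.nd (nat_lit 78) (nat_lit 152) (nat_lit 0) (XT.lf (nat_lit 76) (nat_lit 1045197457) (nat_lit 0) (nat_lit 1540106026) (nat_lit 76) (nat_lit 1540106026) (nat_lit 48) (nat_lit 3) (nat_lit 47) (nat_lit 1) (nat_lit 48) (nat_lit 1) (nat_lit 387) (nat_lit 412) (nat_lit 221)) (XT.nd (nat_lit 78) (nat_lit 0) (nat_lit 0) (XT.lf (nat_lit 152) (nat_lit 3771077363) (nat_lit 0) (nat_lit 157024103) (nat_lit 76) (nat_lit 157024103) (nat_lit 47) (nat_lit 1) (nat_lit 45) (nat_lit 1) (nat_lit 46) (nat_lit 1) (nat_lit 388) (nat_lit 412) (nat_lit 220)) (XT.lf (nat_lit 0) (nat_lit 1197241123) (nat_lit 0) (nat_lit 1650152572) (nat_lit 152) (nat_lit 1197241123) (nat_lit 45) (nat_lit 3) (nat_lit 45) (nat_lit 1) (nat_lit 47) (nat_lit 1) (nat_lit 389) (nat_lit 412) (nat_lit 219))))))) (XT.nd (nat_lit 702) (nat_lit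 760) (nat_lit 0) (XT.nd (nat_lit 312) (nat_lit 380) (nat_lit 0) (XT.nd (nat_lit 156) (nat_lit 76) (nat_lit 0) (XT.nd (nat_lit 78) (nat_lit 152) (nat_lit 0) (XT.lf (nat_lit 76) (nat_lit 1041804166) (nat_lit 0) (nat_lit 1481524020) (nat_lit 76) (nat_lit 1481524020) (nat_lit 45) (nat_lit 3) (nat_lit 44) (nat_lit 1) (nat_lit 45) (nat_lit 1) (nat_lit 390) (nat_lit 412) (nat_lit 218)) (XT.lf (nat_lit 152) (nat_lit 3686736769) (nat_lit 0) (nat_lit 139513882) (nat_lit 76) (nat_lit 139513882) (nat_lit 44) (nat_lit 1) (nat_lit 42) (nat_lit 1) (nat_lit 43) (nat_lit 1) (nat_lit 391) (nat_lit 412) (nat_lit 217))) (XT.nd (nat_lit 78) (nat_lit 76) (nat_lit 0) (XT.lf (nat_lit 0) (nat_lit 1174684840) (nat_lit 0) (nat_lit 1577090796) (nat_lit 152) (nat_lit 1174684840) (nat_lit 42) (nat_lit 3) (nat_lit 42) (nat_lit 1) (nat_lit 44) (nat_lit 1) (nat_lit 392) (nat_lit 412) (nat_lit 216)) (XT.lf (nat_lit 76) (nat_lit 1035493356)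 (nat_lit 0) (nat_lit 1426178751) (nat_lit 76) (nat_lit 1426178751) (nat_lit 42) (nat_lit 3) (nat_lit 41) (nat_lit 1) (nat_lit 42) (nat_lit 1) (nat_lit 393) (nat_lit 412) (nat_lit 215)))) (XT.nd (nat_lit 156) (nat_lit 228) (nat_lit 0) (XT.nd (nat_lit 78) (nat_lit 0) (nat_lit 0) (XT.lf (nat_lit 152) (nat_lit 3602009494) (nat_lit 0) (nat_lit 123956277) (nat_lit 76) (nat_lit 123956277) (nat_lit 41) (nat_lit 1) (nat_lit 39) (nat_lit 1) (nat_lit 40) (nat_lit 1) (nat_lit 394) (nat_lit 412) (nat_lit 214)) (XT.lf (nat_lit 0) (nat_lit 1151412274) (nat_lit 0) (nat_lit 1508944754) (nat_lit 152) (nat_lit 1151412274) (nat_lit 39) (nat_lit 3) (nat_lit 39) (nat_lit 1) (nat_lit 41) (nat_lit 1) (nat_lit 395) (nat_lit 412) (nat_lit 213))) (XT.nd (nat_lit 78) (nat_lit 152) (nat_lit 0) (XT.lf (nat_lit 76) (nat_lit 1026686365) (nat_lit 0) (nat_lit 1373805278) (nat_lit 76) (nat_lit 1373805278) (nat_lit 39) (nat_lit 3) (nat_lit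 38) (nat_lit 1) (nat_lit 39) (nat_lit 1) (nat_lit 396) (nat_lit 412) (nat_lit 212)) (XT.nd (nat_lit 78) (nat_lit 0) (nat_lit 0) (XT.lf (nat_lit 152) (nat_lit 3517223856) (nat_lit 0) (nat_lit 110133546) (nat_lit 76) (nat_lit 110133546) (nat_lit 38) (nat_lit 1) (nat_lit 36) (nat_lit 1) (nat_lit 37) (nat_lit 1) (nat_lit 397) (nat_lit 412) (nat_lit 211)) (XT.lf (nat_lit 0) (nat_lit 1127597425) (nat_lit 0) (nat_lit 1445260403) (nat_lit 152) (nat_lit 1127597425) (nat_lit 36) (nat_lit 3) (nat_lit 36) (nat_lit 1) (nat_lit 38) (nat_lit 1) (nat_lit 398) (nat_lit 412) (nat_lit 210)))))) (XT.nd (nat_lit 390) (nat_lit 304) (nat_lit 0) (XT.nd (nat_lit 156) (nat_lit 228) (nat_lit 0) (XT.nd (nat_lit 78) (nat_lit 152) (nat_lit 0) (XT.lf (nat_lit 76) (nat_lit 1015754751) (nat_lit 0) (nat_lit 1324165410) (nat_lit 76) (nat_lit 1324165410) (nat_lit 36) (nat_lit 3) (nat_lit 35) (nat_lit 1) (nat_lit 36) (nat_lit 1) (nat_lit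 399) (nat_lit 412) (nat_lit 209)) (XT.lf (nat_lit 152) (nat_lit 3432663252) (nat_lit 0) (nat_lit 97852229) (nat_lit 76) (nat_lit 97852229) (nat_lit 35) (nat_lit 1) (nat_lit 33) (nat_lit 1) (nat_lit 34) (nat_lit 1) (nat_lit 400) (nat_lit 412) (nat_lit 208))) (XT.nd (nat_lit 78) (nat_lit 228) (nat_lit 0) (XT.lf (nat_lit 0) (nat_lit 1103392147) (nat_lit 0) (nat_lit 1385631588) (nat_lit 152) (nat_lit 1103392147) (nat_lit 33) (nat_lit 3) (nat_lit 33) (nat_lit 1) (nat_lit 35) (nat_lit 1) (nat_lit 401) (nat_lit 412) (nat_lit 207)) (XT.nd (nat_lit 78) (nat_lit 152) (nat_lit 0) (XT.lf (nat_lit 76) (nat_lit 1003025925) (nat_lit 0) (nat_lit 1277044800) (nat_lit 76) (nat_lit 1277044800) (nat_lit 33) (nat_lit 3) (nat_lit 32) (nat_lit 1) (nat_lit 33) (nat_lit 1) (nat_lit 402) (nat_lit 412) (nat_lit 206)) (XT.lf (nat_lit 152) (nat_lit 3348571414) (nat_lit 0) (nat_lit 86940438) (nat_lit 76) (nat_lit 86940438) (nat_lit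 32) (nat_lit 1) (nat_lit 30) (nat_lit 1) (nat_lit 31) (nat_lit 1) (nat_lit 403) (nat_lit 412) (nat_lit 205))))) (XT.nd (nat_lit 156) (nat_lit 228) (nat_lit 0) (XT.nd (nat_lit 78) (nat_lit 76) (nat_lit 0) (XT.lf (nat_lit 0) (nat_lit 1078928699) (nat_lit 0) (nat_lit 1329694787) (nat_lit 152) (nat_lit 1078928699) (nat_lit 30) (nat_lit 3) (nat_lit 30) (nat_lit 1) (nat_lit 32) (nat_lit 1) (nat_lit 404) (nat_lit 412) (nat_lit 204)) (XT.lf (nat_lit 76) (nat_lit 988788149) (nat_lit 0) (nat_lit 1232250370) (nat_lit 76) (nat_lit 1232250370) (nat_lit 30) (nat_lit 3) (nat_lit 29) (nat_lit 1) (nat_lit 30) (nat_lit 1) (nat_lit 405) (nat_lit 412) (nat_lit 203))) (XT.nd (nat_lit 78) (nat_lit 76) (nat_lit 0) (XT.lf (nat_lit 152) (nat_lit 3265157063) (nat_lit 0) (nat_lit 77245453) (nat_lit 76) (nat_lit 77245453) (nat_lit 29) (nat_lit 1) (nat_lit 27) (nat_lit 1) (nat_lit 28) (nat_lit 1) (nat_lit 406) (nat_lit 412) (nat_lit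 202)) (XT.nd (nat_lit 78) (nat_lit 76) (nat_lit 0) (XT.lf (nat_lit 0) (nat_lit 1054322007) (nat_lit 0) (nat_lit 1277124428) (nat_lit 152) (nat_lit 1054322007) (nat_lit 27) (nat_lit 3) (nat_lit 27) (nat_lit 1) (nat_lit 29) (nat_lit 1) (nat_lit 407) (nat_lit 412) (nat_lit 201)) (XT.lf (nat_lit 76) (nat_lit 973294984) (nat_lit 0) (nat_lit 1189608014) (nat_lit 76) (nat_lit 1189608014) (nat_lit 27) (nat_lit 3) (nat_lit 26) (nat_lit 1) (nat_lit 27) (nat_lit 1) (nat_lit 408) (nat_lit 412) (nat_lit 200))))))))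
noncomputable def ec376 : XT := (XT.nd (nat_lit 36738) (nat_lit 0) (nat_lit 24776) (XT.nd (nat_lit 702) (nat_lit 380) (nat_lit 0) (XT.nd (nat_lit 312) (nat_lit 304) (nat_lit 0) (XT.nd (nat_lit 156) (nat_lit 228) (nat_lit 0) (XT.nd (nat_lit 78) (nat_lit 0) (nat_lit 0) (XT.lf (nat_lit 152) (nat_lit 3182598043) (nat_lit 0) (nat_lit 68631585) (nat_lit 76) (nat_lit 68631585) (nat_lit 26) (nat_lit 1) (nat_lit 24) (nat_lit 1) (nat_lit 25) (nat_lit 1) (nat_lit 409) (nat_lit 412) (nat_lit 199)) (XT.lf (nat_lit 0) (nat_lit 1029671673) (nat_lit 0) (nat_lit 1227628739) (nat_lit 152) (nat_lit 1029671673) (nat_lit 24) (nat_lit 3) (nat_lit 24) (nat_lit 1) (nat_lit 26) (nat_lit 1) (nat_lit 410) (nat_lit 412) (nat_lit 198))) (XT.nd (nat_lit 78) (nat_lit 152) (nat_lit 0) (XT.lf (nat_lit 76) (nat_lit 956769230) (nat_lit 0) (nat_lit 1148960556) (nat_lit 76) (nat_lit 1148960556) (nat_lit 24) (nat_lit 3) (nat_lit 23) (nat_lit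 1) (nat_lit 24) (nat_lit 1) (nat_lit 411) (nat_lit 412) (nat_lit 197)) (XT.lf (nat_lit 152) (nat_lit 3101044988) (nat_lit 0) (nat_lit 60978274) (nat_lit 76) (nat_lit 60978274) (nat_lit 23) (nat_lit 1) (nat_lit 21) (nat_lit 1) (nat_lit 22) (nat_lit 1) (nat_lit 412) (nat_lit 412) (nat_lit 196)))) (XT.nd (nat_lit 156) (nat_lit 228) (nat_lit 0) (XT.nd (nat_lit 78) (nat_lit 76) (nat_lit 0) (XT.lf (nat_lit 0) (nat_lit 1005063756) (nat_lit 0) (nat_lit 1180946045) (nat_lit 152) (nat_lit 1005063756) (nat_lit 21) (nat_lit 3) (nat_lit 21) (nat_lit 1) (nat_lit 23) (nat_lit 1) (nat_lit 413) (nat_lit 412) (nat_lit 195)) (XT.lf (nat_lit 76) (nat_lit 939406431) (nat_lit 0) (nat_lit 1110165934) (nat_lit 76) (nat_lit 1110165934) (nat_lit 21) (nat_lit 3) (nat_lit 20) (nat_lit 1) (nat_lit 21) (nat_lit 1) (nat_lit 414) (nat_lit 412) (nat_lit 194))) (XT.nd (nat_lit 78) (nat_lit 76) (nat_lit 0) (XT.lf (nat_lit 152) (nat_lit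 3020624568) (nat_lit 0) (nat_lit 54178407) (nat_lit 76) (nat_lit 54178407) (nat_lit 20) (nat_lit 1) (nat_lit 18) (nat_lit 1) (nat_lit 19) (nat_lit 1) (nat_lit 415) (nat_lit 412) (nat_lit 193)) (XT.nd (nat_lit 78) (nat_lit 76) (nat_lit 0) (XT.lf (nat_lit 0) (nat_lit 980572354) (nat_lit 0) (nat_lit 1136841490) (nat_lit 152) (nat_lit 980572354) (nat_lit 18) (nat_lit 3) (nat_lit 18) (nat_lit 1) (nat_lit 20) (nat_lit 1) (nat_lit 416) (nat_lit 412) (nat_lit 192)) (XT.lf (nat_lit 76) (nat_lit 921377982) (nat_lit 0) (nat_lit 1073095590) (nat_lit 76) (nat_lit 1073095590) (nat_lit 18) (nat_lit 3) (nat_lit 17) (nat_lit 1) (nat_lit 18) (nat_lit 1) (nat_lit 417) (nat_lit 412) (nat_lit 191)))))) (XT.nd (nat_lit 35646) (nat_lit 0) (nat_lit 27512) (XT.nd (nat_lit 156) (nat_lit 228) (nat_lit 0) (XT.nd (nat_lit 78) (nat_lit 0) (nat_lit 0) (XT.lf (nat_lit 152) (nat_lit 2941442369) (nat_lit 0) (nat_lit 48136813) (nat_lit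 76) (nat_lit 48136813) (nat_lit 17) (nat_lit 1) (nat_lit 15) (nat_lit 1) (nat_lit 16) (nat_lit 1) (nat_lit 418) (nat_lit 412) (nat_lit 190)) (XT.lf (nat_lit 0) (nat_lit 956261006) (nat_lit 0) (nat_lit 1095104109) (nat_lit 152) (nat_lit 956261006) (nat_lit 15) (nat_lit 3) (nat_lit 15) (nat_lit 1) (nat_lit 17) (nat_lit 1) (nat_lit 419) (nat_lit 412) (nat_lit 189))) (XT.nd (nat_lit 78) (nat_lit 152) (nat_lit 0) (XT.lf (nat_lit 76) (nat_lit 902833895) (nat_lit 0) (nat_lit 1037633024) (nat_lit 76) (nat_lit 1037633024) (nat_lit 15) (nat_lit 3) (nat_lit 14) (nat_lit 1) (nat_lit 15) (nat_lit 1) (nat_lit 420) (nat_lit 412) (nat_lit 188)) (XT.lf (nat_lit 152) (nat_lit 2863585450) (nat_lit 0) (nat_lit 42768934) (nat_lit 76) (nat_lit 42768934) (nat_lit 14) (nat_lit 1) (nat_lit 12) (nat_lit 1) (nat_lit 13) (nat_lit 1) (nat_lit 421) (nat_lit 412) (nat_lit 187)))) (XT.nd (nat_lit 156) (nat_lit 0) (nat_lit 76) (XT.nd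 (nat_lit 78) (nat_lit 0) (nat_lit 0) (XT.lf (nat_lit 1292) (nat_lit 3226874542) (nat_lit 0) (nat_lit 11101949146) (nat_lit 1292) (nat_lit 3226874542) (nat_lit 391) (nat_lit 1) (nat_lit 374) (nat_lit 0) (nat_lit 391) (nat_lit 0) (nat_lit 194) (nat_lit 413) (nat_lit 413)) (XT.lf (nat_lit 1292) (nat_lit 12610682257) (nat_lit 76) (nat_lit 10993106507) (nat_lit 0) (nat_lit 10993106507) (nat_lit 391) (nat_lit 1) (nat_lit 375) (nat_lit 1) (nat_lit 374) (nat_lit 0) (nat_lit 195) (nat_lit 413) (nat_lit 412))) (XT.nd (nat_lit 78) (nat_lit 0) (nat_lit 0) (XT.lf (nat_lit 1292) (nat_lit 6098826614) (nat_lit 0) (nat_lit 21896089678) (nat_lit 1216) (nat_lit 6098826614) (nat_lit 392) (nat_lit 1) (nat_lit 375) (nat_lit 1) (nat_lit 391) (nat_lit 1) (nat_lit 196) (nat_lit 413) (nat_lit 411)) (XT.nd (nat_lit 78) (nat_lit 0) (nat_lit 76) (XT.lf (nat_lit 1292) (nat_lit 11581986624) (nat_lit 76) (nat_lit 11008503192) (nat_lit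 0) (nat_lit 11008503192) (nat_lit 392) (nat_lit 1) (nat_lit 376) (nat_lit 1) (nat_lit 375) (nat_lit 1) (nat_lit 197) (nat_lit 413) (nat_lit 410)) (XT.lf (nat_lit 1292) (nat_lit 5434789461) (nat_lit 0) (nat_lit 22245734388) (nat_lit 1216) (nat_lit 5434789461) (nat_lit 393) (nat_lit 1) (nat_lit 376) (nat_lit 1) (nat_lit 392) (nat_lit 1) (nat_lit 198) (nat_lit 413) (nat_lit 409))))))) (XT.nd (nat_lit 702) (nat_lit 1900) (nat_lit 0) (XT.nd (nat_lit 312) (nat_lit 988) (nat_lit 0) (XT.nd (nat_lit 156) (nat_lit 0) (nat_lit 76) (XT.nd (nat_lit 78) (nat_lit 0) (nat_lit 76) (XT.lf (nat_lit 1292) (nat_lit 9959825525) (nat_lit 76) (nat_lit 11339771775) (nat_lit 0) (nat_lit 11339771775) (nat_lit 393) (nat_lit 1) (nat_lit 377) (nat_lit 1) (nat_lit 376) (nat_lit 1) (nat_lit 199) (nat_lit 413) (nat_lit 408)) (XT.lf (nat_lit 1292) (nat_lit 4488978832) (nat_lit 0) (nat_lit 23196457430) (nat_lit 1216) (nat_lit 4488978832)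 (nat_lit 394) (nat_lit 1) (nat_lit 377) (nat_lit 1) (nat_lit 393) (nat_lit 1) (nat_lit 200) (nat_lit 413) (nat_lit 407))) (XT.nd (nat_lit 78) (nat_lit 0) (nat_lit 76) (XT.lf (nat_lit 1292) (nat_lit 7797271648) (nat_lit 76) (nat_lit 11959554021) (nat_lit 0) (nat_lit 11959554021) (nat_lit 394) (nat_lit 1) (nat_lit 378) (nat_lit 1) (nat_lit 377) (nat_lit 1) (nat_lit 201) (nat_lit 413) (nat_lit 406)) (XT.lf (nat_lit 1292) (nat_lit 3286886918) (nat_lit 0) (nat_lit 24695662722) (nat_lit 1216) (nat_lit 3286886918) (nat_lit 395) (nat_lit 1) (nat_lit 378) (nat_lit 1) (nat_lit 394) (nat_lit 1) (nat_lit 202) (nat_lit 413) (nat_lit 405)))) (XT.nd (nat_lit 156) (nat_lit 1140) (nat_lit 0) (XT.nd (nat_lit 78) (nat_lit 0) (nat_lit 76) (XT.lf (nat_lit 1292) (nat_lit 5143797542) (nat_lit 76) (nat_lit 12842330885) (nat_lit 0) (nat_lit 12842330885) (nat_lit 395) (nat_lit 1) (nat_lit 379) (nat_lit 1) (nat_lit 378) (nat_lit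 1) (nat_lit 203) (nat_lit 413) (nat_lit 404)) (XT.lf (nat_lit 1292) (nat_lit 1852271177) (nat_lit 0) (nat_lit 26694300351) (nat_lit 1216) (nat_lit 1852271177) (nat_lit 396) (nat_lit 1) (nat_lit 379) (nat_lit 1) (nat_lit 395) (nat_lit 1) (nat_lit 204) (nat_lit 413) (nat_lit 403))) (XT.nd (nat_lit 78) (nat_lit 1216) (nat_lit 0) (XT.lf (nat_lit 1292) (nat_lit 2045498393) (nat_lit 76) (nat_lit 13964309111) (nat_lit 0) (nat_lit 13964309111) (nat_lit 396) (nat_lit 1) (nat_lit 380) (nat_lit 1) (nat_lit 379) (nat_lit 1) (nat_lit 205) (nat_lit 413) (nat_lit 402)) (XT.nd (nat_lit 78) (nat_lit 1292) (nat_lit 0) (XT.lf (nat_lit 1292) (nat_lit 207261820) (nat_lit 0) (nat_lit 29146647669) (nat_lit 1216) (nat_lit 207261820) (nat_lit 397) (nat_lit 1) (nat_lit 380) (nat_lit 1) (nat_lit 396) (nat_lit 1) (nat_lit 206) (nat_lit 413) (nat_lit 401)) (XT.lf (nat_lit 1368) (nat_lit 13862599573) (nat_lit 0) (nat_lit 1426312032)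 (nat_lit 1292) (nat_lit 13862599573) (nat_lit 381) (nat_lit 1) (nat_lit 363) (nat_lit 1) (nat_lit 380) (nat_lit 1) (nat_lit 207) (nat_lit 413) (nat_lit 400)))))) (XT.nd (nat_lit 390) (nat_lit 1216) (nat_lit 0) (XT.nd (nat_lit 156) (nat_lit 684) (nat_lit 0) (XT.nd (nat_lit 78) (nat_lit 0) (nat_lit 76) (XT.lf (nat_lit 1368) (nat_lit 25529980611) (nat_lit 76) (nat_lit 1611580855) (nat_lit 0) (nat_lit 1611580855) (nat_lit 381) (nat_lit 1) (nat_lit 364) (nat_lit 1) (nat_lit 363) (nat_lit 1) (nat_lit 208) (nat_lit 413) (nat_lit 399)) (XT.lf (nat_lit 1368) (nat_lit 11572964197) (nat_lit 0) (nat_lit 5213085751) (nat_lit 1292) (nat_lit 11572964197) (nat_lit 382) (nat_lit 1) (nat_lit 364) (nat_lit 1) (nat_lit 381) (nat_lit 1) (nat_lit 209) (nat_lit 413) (nat_lit 398))) (XT.nd (nat_lit 78) (nat_lit 760) (nat_lit 0) (XT.lf (nat_lit 1368) (nat_lit 20780205910) (nat_lit 76) (nat_lit 3597335461) (nat_lit 0) (nat_lit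 3597335461) (nat_lit 382) (nat_lit 1) (nat_lit 365) (nat_lit 1) (nat_lit 364) (nat_lit 1) (nat_lit 210) (nat_lit 413) (nat_lit 397)) (XT.nd (nat_lit 78) (nat_lit 836) (nat_lit 0) (XT.lf (nat_lit 76) (nat_lit 9138821674) (nat_lit 0) (nat_lit 9318292071) (nat_lit 1292) (nat_lit 9138821674) (nat_lit 366) (nat_lit 1) (nat_lit 365) (nat_lit 1) (nat_lit 382) (nat_lit 1) (nat_lit 211) (nat_lit 413) (nat_lit 396)) (XT.lf (nat_lit 912) (nat_lit 15756615156) (nat_lit 0) (nat_lit 5734377566) (nat_lit 836) (nat_lit 5734377566) (nat_lit 366) (nat_lit 1) (nat_lit 354) (nat_lit 1) (nat_lit 365) (nat_lit 1) (nat_lit 212) (nat_lit 413) (nat_lit 395))))) (XT.nd (nat_lit 156) (nat_lit 608) (nat_lit 0) (XT.nd (nat_lit 78) (nat_lit 608) (nat_lit 0) (XT.lf (nat_lit 76) (nat_lit 6576504439) (nat_lit 0) (nat_lit 13708045572) (nat_lit 912) (nat_lit 6576504439) (nat_lit 355) (nat_lit 1) (nat_lit 354) (nat_lit 1) (nat_lit 366)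 (nat_lit 1) (nat_lit 213) (nat_lit 413) (nat_lit 394)) (XT.lf (nat_lit 684) (nat_lit 10490843188) (nat_lit 0) (nat_lit 8006296108) (nat_lit 608) (nat_lit 8006296108) (nat_lit 355) (nat_lit 1) (nat_lit 346) (nat_lit 1) (nat_lit 354) (nat_lit 1) (nat_lit 214) (nat_lit 413) (nat_lit 393))) (XT.nd (nat_lit 78) (nat_lit 608) (nat_lit 0) (XT.lf (nat_lit 76) (nat_lit 3901173285) (nat_lit 0) (nat_lit 18350860544) (nat_lit 684) (nat_lit 3901173285) (nat_lit 347) (nat_lit 1) (nat_lit 346) (nat_lit 1) (nat_lit 355) (nat_lit 1) (nat_lit 215) (nat_lit 413) (nat_lit 392)) (XT.nd (nat_lit 78) (nat_lit 0) (nat_lit 0) (XT.lf (nat_lit 684) (nat_lit 5012245283) (nat_lit 0) (nat_lit 10397847129) (nat_lit 608) (nat_lit 10397847129) (nat_lit 347) (nat_lit 1) (nat_lit 338) (nat_lit 1) (nat_lit 346) (nat_lit 1) (nat_lit 216) (nat_lit 413) (nat_lit 391)) (XT.lf (nat_lit 76) (nat_lit 1126891445) (nat_lit 0) (nat_lit 23217499992)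 (nat_lit 684) (nat_lit 1126891445) (nat_lit 339) (nat_lit 1) (nat_lit 338) (nat_lit 1) (nat_lit 347) (nat_lit 1) (nat_lit 217) (nat_lit 413) (nat_lit 390))))))))
noncomputable def ec377 : XT := (XT.nd (nat_lit 1482) (nat_lit 4104) (nat_lit 0) (XT.nd (nat_lit 702) (nat_lit 2204) (nat_lit 0) (XT.nd (nat_lit 312) (nat_lit 1596) (nat_lit 0) (XT.nd (nat_lit 156) (nat_lit 532) (nat_lit 0) (XT.nd (nat_lit 78) (nat_lit 608) (nat_lit 0) (XT.lf (nat_lit 76) (nat_lit 12249188767) (nat_lit 0) (nat_lit 639236428) (nat_lit 608) (nat_lit 12249188767) (nat_lit 331) (nat_lit 1) (nat_lit 330) (nat_lit 1) (nat_lit 338) (nat_lit 1) (nat_lit 218) (nat_lit 413) (nat_lit 389)) (XT.lf (nat_lit 684) (nat_lit 21379587427) (nat_lit 0) (nat_lit 1716312598) (nat_lit 608) (nat_lit 1716312598) (nat_lit 331) (nat_lit 1) (nat_lit 322) (nat_lit 1) (nat_lit 330) (nat_lit 1) (nat_lit 219) (nat_lit 413) (nat_lit 388))) (XT.nd (nat_lit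 78) (nat_lit 532) (nat_lit 0) (XT.lf (nat_lit 76) (nat_lit 9069978392) (nat_lit 0) (nat_lit 6350166801) (nat_lit 684) (nat_lit 9069978392) (nat_lit 323) (nat_lit 1) (nat_lit 322) (nat_lit 1) (nat_lit 331) (nat_lit 1) (nat_lit 220) (nat_lit 413) (nat_lit 387)) (XT.lf (nat_lit 608) (nat_lit 14932427777) (nat_lit 0) (nat_lit 4621587352) (nat_lit 532) (nat_lit 4621587352) (nat_lit 323) (nat_lit 1) (nat_lit 315) (nat_lit 1) (nat_lit 322) (nat_lit 1) (nat_lit 221) (nat_lit 413) (nat_lit 386)))) (XT.nd (nat_lit 156) (nat_lit 1064) (nat_lit 0) (XT.nd (nat_lit 78) (nat_lit 532) (nat_lit 0) (XT.lf (nat_lit 76) (nat_lit 5835238063) (nat_lit 0) (nat_lit 12195459874) (nat_lit 608) (nat_lit 5835238063) (nat_lit 316) (nat_lit 1) (nat_lit 315) (nat_lit 1) (nat_lit 323) (nat_lit 1) (nat_lit 222) (nat_lit 413) (nat_lit 385)) (XT.lf (nat_lit 608) (nat_lit 8383969443) (nat_lit 0) (nat_lit 7588918530) (nat_lit 532) (nat_lit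 7588918530) (nat_lit 316) (nat_lit 1) (nat_lit 308) (nat_lit 1) (nat_lit 315) (nat_lit 1) (nat_lit 223) (nat_lit 413) (nat_lit 384))) (XT.nd (nat_lit 78) (nat_lit 1064) (nat_lit 0) (XT.lf (nat_lit 76) (nat_lit 2555088329) (nat_lit 0) (nat_lit 18153940733) (nat_lit 608) (nat_lit 2555088329) (nat_lit 309) (nat_lit 1) (nat_lit 308) (nat_lit 1) (nat_lit 316) (nat_lit 1) (nat_lit 224) (nat_lit 413) (nat_lit 383)) (XT.nd (nat_lit 78) (nat_lit 608) (nat_lit 0) (XT.lf (nat_lit 532) (nat_lit 1753757249) (nat_lit 0) (nat_lit 10608078854) (nat_lit 456) (nat_lit 10608078854) (nat_lit 309) (nat_lit 1) (nat_lit 302) (nat_lit 1) (nat_lit 308) (nat_lit 1) (nat_lit 225) (nat_lit 413) (nat_lit 382)) (XT.lf (nat_lit 608) (nat_lit 21175551248) (nat_lit 0) (nat_lit 753671062) (nat_lit 532) (nat_lit 753671062) (nat_lit 302) (nat_lit 1) (nat_lit 294) (nat_lit 1) (nat_lit 301) (nat_lit 1) (nat_lit 226) (nat_lit 413) (nat_lit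 381)))))) (XT.nd (nat_lit 390) (nat_lit 1292) (nat_lit 0) (XT.nd (nat_lit 156) (nat_lit 456) (nat_lit 0) (XT.nd (nat_lit 78) (nat_lit 456) (nat_lit 0) (XT.lf (nat_lit 76) (nat_lit 8776924519) (nat_lit 0) (nat_lit 4843785013) (nat_lit 608) (nat_lit 8776924519) (nat_lit 295) (nat_lit 1) (nat_lit 294) (nat_lit 1) (nat_lit 302) (nat_lit 1) (nat_lit 227) (nat_lit 413) (nat_lit 380)) (XT.lf (nat_lit 532) (nat_lit 13990145213) (nat_lit 0) (nat_lit 4064577447) (nat_lit 456) (nat_lit 4064577447) (nat_lit 295) (nat_lit 1) (nat_lit 288) (nat_lit 1) (nat_lit 294) (nat_lit 1) (nat_lit 228) (nat_lit 413) (nat_lit 379))) (XT.nd (nat_lit 78) (nat_lit 456) (nat_lit 0) (XT.lf (nat_lit 76) (nat_lit 5195861148) (nat_lit 0) (nat_lit 11453316226) (nat_lit 532) (nat_lit 5195861148) (nat_lit 289) (nat_lit 1) (nat_lit 288) (nat_lit 1) (nat_lit 295) (nat_lit 1) (nat_lit 229) (nat_lit 413) (nat_lit 378)) (XT.nd (nat_lit 78) (nat_lit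 0) (nat_lit 0) (XT.lf (nat_lit 532) (nat_lit 6785820401) (nat_lit 0) (nat_lit 7394837115) (nat_lit 456) (nat_lit 7394837115) (nat_lit 289) (nat_lit 1) (nat_lit 282) (nat_lit 1) (nat_lit 288) (nat_lit 1) (nat_lit 230) (nat_lit 413) (nat_lit 377)) (XT.lf (nat_lit 76) (nat_lit 1608879216) (nat_lit 0) (nat_lit 18094086217) (nat_lit 532) (nat_lit 1608879216) (nat_lit 283) (nat_lit 1) (nat_lit 282) (nat_lit 1) (nat_lit 289) (nat_lit 1) (nat_lit 231) (nat_lit 413) (nat_lit 376))))) (XT.nd (nat_lit 156) (nat_lit 380) (nat_lit 0) (XT.nd (nat_lit 78) (nat_lit 456) (nat_lit 0) (XT.lf (nat_lit 76) (nat_lit 10317540862) (nat_lit 0) (nat_lit 415503075) (nat_lit 456) (nat_lit 10317540862) (nat_lit 277) (nat_lit 1) (nat_lit 276) (nat_lit 1) (nat_lit 282) (nat_lit 1) (nat_lit 232) (nat_lit 413) (nat_lit 375)) (XT.lf (nat_lit 532) (nat_lit 16878736378) (nat_lit 0) (nat_lit 1958134264) (nat_lit 456) (nat_lit 1958134264)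 (nat_lit 277) (nat_lit 1) (nat_lit 270) (nat_lit 1) (nat_lit 276) (nat_lit 1) (nat_lit 233) (nat_lit 413) (nat_lit 374))) (XT.nd (nat_lit 78) (nat_lit 380) (nat_lit 0) (XT.lf (nat_lit 76) (nat_lit 6532341473) (nat_lit 0) (nat_lit 7477318679) (nat_lit 532) (nat_lit 6532341473) (nat_lit 271) (nat_lit 1) (nat_lit 270) (nat_lit 1) (nat_lit 277) (nat_lit 1) (nat_lit 234) (nat_lit 413) (nat_lit 373)) (XT.nd (nat_lit 78) (nat_lit 0) (nat_lit 0) (XT.lf (nat_lit 456) (nat_lit 9288411404) (nat_lit 0) (nat_lit 5502910406) (nat_lit 380) (nat_lit 5502910406) (nat_lit 271) (nat_lit 1) (nat_lit 265) (nat_lit 1) (nat_lit 270) (nat_lit 1) (nat_lit 235) (nat_lit 413) (nat_lit 372)) (XT.lf (nat_lit 76) (nat_lit 2765081941) (nat_lit 0) (nat_lit 14520836930) (nat_lit 456) (nat_lit 2765081941) (nat_lit 266) (nat_lit 1) (nat_lit 265) (nat_lit 1) (nat_lit 271) (nat_lit 1) (nat_lit 236) (nat_lit 413) (nat_lit 371))))))) (XT.nd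 (nat_lit 702) (nat_lit 1824) (nat_lit 0) (XT.nd (nat_lit 312) (nat_lit 1064) (nat_lit 0) (XT.nd (nat_lit 156) (nat_lit 380) (nat_lit 0) (XT.nd (nat_lit 78) (nat_lit 456) (nat_lit 0) (XT.lf (nat_lit 456) (nat_lit 1739018736) (nat_lit 0) (nat_lit 9035844322) (nat_lit 380) (nat_lit 9035844322) (nat_lit 266) (nat_lit 1) (nat_lit 260) (nat_lit 1) (nat_lit 265) (nat_lit 1) (nat_lit 237) (nat_lit 413) (nat_lit 370)) (XT.lf (nat_lit 456) (nat_lit 17636058173) (nat_lit 0) (nat_lit 969858794) (nat_lit 380) (nat_lit 969858794) (nat_lit 260) (nat_lit 1) (nat_lit 254) (nat_lit 1) (nat_lit 259) (nat_lit 1) (nat_lit 238) (nat_lit 413) (nat_lit 369))) (XT.nd (nat_lit 78) (nat_lit 380) (nat_lit 0) (XT.lf (nat_lit 76) (nat_lit 6847112683) (nat_lit 0) (nat_lit 5647888700) (nat_lit 456) (nat_lit 6847112683) (nat_lit 255) (nat_lit 1) (nat_lit 254) (nat_lit 1) (nat_lit 260) (nat_lit 1) (nat_lit 239) (nat_lit 413) (nat_lit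 368)) (XT.lf (nat_lit 456) (nat_lit 9811831768) (nat_lit 0) (nat_lit 4650906762) (nat_lit 380) (nat_lit 4650906762) (nat_lit 255) (nat_lit 1) (nat_lit 249) (nat_lit 1) (nat_lit 254) (nat_lit 1) (nat_lit 240) (nat_lit 413) (nat_lit 367)))) (XT.nd (nat_lit 156) (nat_lit 760) (nat_lit 0) (XT.nd (nat_lit 78) (nat_lit 304) (nat_lit 0) (XT.lf (nat_lit 76) (nat_lit 2972685372) (nat_lit 0) (nat_lit 12943630683) (nat_lit 456) (nat_lit 2972685372) (nat_lit 250) (nat_lit 1) (nat_lit 249) (nat_lit 1) (nat_lit 255) (nat_lit 1) (nat_lit 241) (nat_lit 413) (nat_lit 366)) (XT.lf (nat_lit 380) (nat_lit 2064626750) (nat_lit 0) (nat_lit 8301288884) (nat_lit 304) (nat_lit 8301288884) (nat_lit 250) (nat_lit 1) (nat_lit 245) (nat_lit 1) (nat_lit 249) (nat_lit 1) (nat_lit 242) (nat_lit 413) (nat_lit 365))) (XT.nd (nat_lit 78) (nat_lit 304) (nat_lit 0) (XT.lf (nat_lit 456) (nat_lit 16743642864) (nat_lit 0) (nat_lit 853315191)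 (nat_lit 380) (nat_lit 853315191) (nat_lit 245) (nat_lit 1) (nat_lit 239) (nat_lit 1) (nat_lit 244) (nat_lit 1) (nat_lit 243) (nat_lit 413) (nat_lit 364)) (XT.nd (nat_lit 78) (nat_lit 304) (nat_lit 0) (XT.lf (nat_lit 76) (nat_lit 6372186724) (nat_lit 0) (nat_lit 5489880355) (nat_lit 456) (nat_lit 6372186724) (nat_lit 240) (nat_lit 1) (nat_lit 239) (nat_lit 1) (nat_lit 245) (nat_lit 1) (nat_lit 244) (nat_lit 413) (nat_lit 363)) (XT.lf (nat_lit 380) (nat_lit 8807765253) (nat_lit 0) (nat_lit 4607596648) (nat_lit 304) (nat_lit 4607596648) (nat_lit 240) (nat_lit 1) (nat_lit 235) (nat_lit 1) (nat_lit 239) (nat_lit 1) (nat_lit 245) (nat_lit 413) (nat_lit 362)))))) (XT.nd (nat_lit 390) (nat_lit 836) (nat_lit 0) (XT.nd (nat_lit 156) (nat_lit 684) (nat_lit 0) (XT.nd (nat_lit 78) (nat_lit 304) (nat_lit 0) (XT.lf (nat_lit 76) (nat_lit 2449304975) (nat_lit 0) (nat_lit 12916667605) (nat_lit 380) (nat_lit 2449304975)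 (nat_lit 236) (nat_lit 1) (nat_lit 235) (nat_lit 1) (nat_lit 240) (nat_lit 1) (nat_lit 246) (nat_lit 413) (nat_lit 361)) (XT.lf (nat_lit 380) (nat_lit 976679546) (nat_lit 0) (nat_lit 8316638804) (nat_lit 304) (nat_lit 8316638804) (nat_lit 236) (nat_lit 1) (nat_lit 231) (nat_lit 1) (nat_lit 235) (nat_lit 1) (nat_lit 247) (nat_lit 413) (nat_lit 360))) (XT.nd (nat_lit 78) (nat_lit 304) (nat_lit 0) (XT.lf (nat_lit 380) (nat_lit 14595848578) (nat_lit 0) (nat_lit 1406420034) (nat_lit 304) (nat_lit 1406420034) (nat_lit 231) (nat_lit 1) (nat_lit 226) (nat_lit 1) (nat_lit 230) (nat_lit 1) (nat_lit 248) (nat_lit 413) (nat_lit 359)) (XT.nd (nat_lit 78) (nat_lit 304) (nat_lit 0) (XT.lf (nat_lit 76) (nat_lit 5297506816) (nat_lit 0) (nat_lit 6613786119) (nat_lit 380) (nat_lit 5297506816) (nat_lit 227) (nat_lit 1) (nat_lit 226) (nat_lit 1) (nat_lit 231) (nat_lit 1) (nat_lit 249) (nat_lit 413) (nat_lit 358)) (XT.lf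 (nat_lit 380) (nat_lit 6645866820) (nat_lit 0) (nat_lit 5183488735) (nat_lit 304) (nat_lit 5183488735) (nat_lit 227) (nat_lit 1) (nat_lit 222) (nat_lit 1) (nat_lit 226) (nat_lit 1) (nat_lit 250) (nat_lit 413) (nat_lit 357))))) (XT.nd (nat_lit 156) (nat_lit 532) (nat_lit 0) (XT.nd (nat_lit 78) (nat_lit 304) (nat_lit 0) (XT.lf (nat_lit 76) (nat_lit 1372971519) (nat_lit 0) (nat_lit 14074736705) (nat_lit 380) (nat_lit 1372971519) (nat_lit 223) (nat_lit 1) (nat_lit 222) (nat_lit 1) (nat_lit 227) (nat_lit 1) (nat_lit 251) (nat_lit 413) (nat_lit 356)) (XT.lf (nat_lit 76) (nat_lit 7737184706) (nat_lit 0) (nat_lit 1155383936) (nat_lit 304) (nat_lit 7737184706) (nat_lit 219) (nat_lit 1) (nat_lit 218) (nat_lit 1) (nat_lit 222) (nat_lit 1) (nat_lit 252) (nat_lit 413) (nat_lit 355))) (XT.nd (nat_lit 78) (nat_lit 228) (nat_lit 0) (XT.lf (nat_lit 380) (nat_lit 11514572119) (nat_lit 0) (nat_lit 2463970249) (nat_lit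 304) (nat_lit 2463970249) (nat_lit 219) (nat_lit 1) (nat_lit 214) (nat_lit 1) (nat_lit 218) (nat_lit 1) (nat_lit 253) (nat_lit 413) (nat_lit 354)) (XT.nd (nat_lit 78) (nat_lit 228) (nat_lit 0) (XT.lf (nat_lit 76) (nat_lit 3778051532) (nat_lit 0) (nat_lit 8701301885) (nat_lit 380) (nat_lit 3778051532) (nat_lit 215) (nat_lit 1) (nat_lit 214) (nat_lit 1) (nat_lit 219) (nat_lit 1) (nat_lit 254) (nat_lit 413) (nat_lit 353)) (XT.lf (nat_lit 304) (nat_lit 3627622342) (nat_lit 0) (nat_lit 6223790878) (nat_lit 228) (nat_lit 6223790878) (nat_lit 215) (nat_lit 1) (nat_lit 211) (nat_lit 1) (nat_lit 214) (nat_lit 1) (nat_lit 255) (nat_lit 413) (nat_lit 352))))))))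
noncomputable def ec378 : XT := (XT.nd (nat_lit 1482) (nat_lit 2128) (nat_lit 0) (XT.nd (nat_lit 702) (nat_lit 1292) (nat_lit 0) (XT.nd (nat_lit 312) (nat_lit 1064) (nat_lit 0) (XT.nd (nat_lit 156) (nat_lit 228) (nat_lit 0) (XT.nd (nat_lit 78) (nat_lit 0) (nat_lit 0) (XT.lf (nat_lit 380) (nat_lit 15676961324) (nat_lit 0) (nat_lit 110086862) (nat_lit 304) (nat_lit 110086862) (nat_lit 211) (nat_lit 1) (nat_lit 206) (nat_lit 1) (nat_lit 210) (nat_lit 1) (nat_lit 256) (nat_lit 413) (nat_lit 351)) (XT.lf (nat_lit 76) (nat_lit 5840423754) (nat_lit 0) (nat_lit 4037868414) (nat_lit 380) (nat_lit 5840423754) (nat_lit 207) (nat_lit 1) (nat_lit 206) (nat_lit 1) (nat_lit 211) (nat_lit 1) (nat_lit 257) (nat_lit 413) (nat_lit 350))) (XT.nd (nat_lit 78) (nat_lit 0) (nat_lit 0) (XT.lf (nat_lit 304) (nat_lit 7761538414) (nat_lit 0) (nat_lit 3891401019) (nat_lit 228) (nat_lit 3891401019) (nat_lit 207) (nat_lit 1) (nat_lit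 203) (nat_lit 1) (nat_lit 206) (nat_lit 1) (nat_lit 258) (nat_lit 413) (nat_lit 349)) (XT.lf (nat_lit 76) (nat_lit 1939768519) (nat_lit 0) (nat_lit 11493268582) (nat_lit 304) (nat_lit 1939768519) (nat_lit 204) (nat_lit 1) (nat_lit 203) (nat_lit 1) (nat_lit 207) (nat_lit 1) (nat_lit 259) (nat_lit 413) (nat_lit 348)))) (XT.nd (nat_lit 156) (nat_lit 532) (nat_lit 0) (XT.nd (nat_lit 78) (nat_lit 228) (nat_lit 0) (XT.lf (nat_lit 76) (nat_lit 7600474746) (nat_lit 0) (nat_lit 2034941) (nat_lit 304) (nat_lit 7600474746) (nat_lit 200) (nat_lit 1) (nat_lit 199) (nat_lit 1) (nat_lit 203) (nat_lit 1) (nat_lit 260) (nat_lit 413) (nat_lit 347)) (XT.lf (nat_lit 304) (nat_lit 11302281643) (nat_lit 0) (nat_lit 1866821962) (nat_lit 228) (nat_lit 1866821962) (nat_lit 200) (nat_lit 1) (nat_lit 196) (nat_lit 1) (nat_lit 199) (nat_lit 1) (nat_lit 261) (nat_lit 413) (nat_lit 346))) (XT.nd (nat_lit 78) (nat_lit 532) (nat_lit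 0) (XT.lf (nat_lit 76) (nat_lit 3702631724) (nat_lit 0) (nat_lit 7465209713) (nat_lit 304) (nat_lit 3702631724) (nat_lit 197) (nat_lit 1) (nat_lit 196) (nat_lit 1) (nat_lit 200) (nat_lit 1) (nat_lit 262) (nat_lit 413) (nat_lit 345)) (XT.nd (nat_lit 78) (nat_lit 304) (nat_lit 0) (XT.lf (nat_lit 304) (nat_lit 3548562306) (nat_lit 0) (nat_lit 5579572875) (nat_lit 228) (nat_lit 5579572875) (nat_lit 197) (nat_lit 1) (nat_lit 193) (nat_lit 1) (nat_lit 196) (nat_lit 1) (nat_lit 263) (nat_lit 413) (nat_lit 344)) (XT.lf (nat_lit 304) (nat_lit 14319848609) (nat_lit 0) (nat_lit 114338938) (nat_lit 228) (nat_lit 114338938) (nat_lit 193) (nat_lit 1) (nat_lit 189) (nat_lit 1) (nat_lit 192) (nat_lit 1) (nat_lit 264) (nat_lit 413) (nat_lit 343)))))) (XT.nd (nat_lit 390) (nat_lit 608) (nat_lit 0) (XT.nd (nat_lit 156) (nat_lit 456) (nat_lit 0) (XT.nd (nat_lit 78) (nat_lit 228) (nat_lit 0) (XT.lf (nat_lit 76) (nat_lit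 5211267047) (nat_lit 0) (nat_lit 3966324120) (nat_lit 304) (nat_lit 5211267047) (nat_lit 190) (nat_lit 1) (nat_lit 189) (nat_lit 1) (nat_lit 193) (nat_lit 1) (nat_lit 265) (nat_lit 413) (nat_lit 342)) (XT.lf (nat_lit 304) (nat_lit 6599848063) (nat_lit 0) (nat_lit 3816429911) (nat_lit 228) (nat_lit 3816429911) (nat_lit 190) (nat_lit 1) (nat_lit 186) (nat_lit 1) (nat_lit 189) (nat_lit 1) (nat_lit 266) (nat_lit 413) (nat_lit 341))) (XT.nd (nat_lit 78) (nat_lit 456) (nat_lit 0) (XT.lf (nat_lit 76) (nat_lit 1411578686) (nat_lit 0) (nat_lit 11256045000) (nat_lit 304) (nat_lit 1411578686) (nat_lit 187) (nat_lit 1) (nat_lit 186) (nat_lit 1) (nat_lit 190) (nat_lit 1) (nat_lit 267) (nat_lit 413) (nat_lit 340)) (XT.nd (nat_lit 78) (nat_lit 228) (nat_lit 0) (XT.lf (nat_lit 76) (nat_lit 6495703194) (nat_lit 0) (nat_lit 935272249) (nat_lit 228) (nat_lit 6495703194) (nat_lit 184) (nat_lit 1) (nat_lit 183) (nat_lit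 1) (nat_lit 186) (nat_lit 1) (nat_lit 268) (nat_lit 413) (nat_lit 339)) (XT.lf (nat_lit 304) (nat_lit 9210477984) (nat_lit 0) (nat_lit 2283131728) (nat_lit 228) (nat_lit 2283131728) (nat_lit 184) (nat_lit 1) (nat_lit 180) (nat_lit 1) (nat_lit 183) (nat_lit 1) (nat_lit 269) (nat_lit 413) (nat_lit 338))))) (XT.nd (nat_lit 156) (nat_lit 456) (nat_lit 0) (XT.nd (nat_lit 78) (nat_lit 152) (nat_lit 0) (XT.lf (nat_lit 76) (nat_lit 2724240429) (nat_lit 0) (nat_lit 8180034389) (nat_lit 304) (nat_lit 2724240429) (nat_lit 181) (nat_lit 1) (nat_lit 180) (nat_lit 1) (nat_lit 184) (nat_lit 1) (nat_lit 270) (nat_lit 413) (nat_lit 337)) (XT.lf (nat_lit 228) (nat_lit 1715860047) (nat_lit 0) (nat_lit 5883205227) (nat_lit 152) (nat_lit 5883205227) (nat_lit 181) (nat_lit 1) (nat_lit 178) (nat_lit 1) (nat_lit 180) (nat_lit 1) (nat_lit 271) (nat_lit 413) (nat_lit 336))) (XT.nd (nat_lit 78) (nat_lit 152) (nat_lit 0) (XT.lf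 (nat_lit 304) (nat_lit 11432515115) (nat_lit 0) (nat_lit 953079749) (nat_lit 228) (nat_lit 953079749) (nat_lit 178) (nat_lit 1) (nat_lit 174) (nat_lit 1) (nat_lit 177) (nat_lit 1) (nat_lit 272) (nat_lit 413) (nat_lit 335)) (XT.nd (nat_lit 78) (nat_lit 152) (nat_lit 0) (XT.lf (nat_lit 76) (nat_lit 3847705782) (nat_lit 0) (nat_lit 5500072271) (nat_lit 304) (nat_lit 3847705782) (nat_lit 175) (nat_lit 1) (nat_lit 174) (nat_lit 1) (nat_lit 178) (nat_lit 1) (nat_lit 273) (nat_lit 413) (nat_lit 334)) (XT.lf (nat_lit 228) (nat_lit 4013233413) (nat_lit 0) (nat_lit 4520829849) (nat_lit 152) (nat_lit 4520829849) (nat_lit 175) (nat_lit 1) (nat_lit 172) (nat_lit 1) (nat_lit 174) (nat_lit 1) (nat_lit 274) (nat_lit 413) (nat_lit 333))))))) (XT.nd (nat_lit 702) (nat_lit 988) (nat_lit 0) (XT.nd (nat_lit 312) (nat_lit 760) (nat_lit 0) (XT.nd (nat_lit 156) (nat_lit 152) (nat_lit 0) (XT.nd (nat_lit 78) (nat_lit 228) (nat_lit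 0) (XT.lf (nat_lit 76) (nat_lit 199284092) (nat_lit 0) (nat_lit 12518671748) (nat_lit 228) (nat_lit 199284092) (nat_lit 173) (nat_lit 1) (nat_lit 172) (nat_lit 1) (nat_lit 175) (nat_lit 1) (nat_lit 275) (nat_lit 413) (nat_lit 332)) (XT.lf (nat_lit 76) (nat_lit 4804319708) (nat_lit 0) (nat_lit 3170449447) (nat_lit 228) (nat_lit 4804319708) (nat_lit 170) (nat_lit 1) (nat_lit 169) (nat_lit 1) (nat_lit 172) (nat_lit 1) (nat_lit 276) (nat_lit 413) (nat_lit 331))) (XT.nd (nat_lit 78) (nat_lit 0) (nat_lit 0) (XT.lf (nat_lit 228) (nat_lit 5981933077) (nat_lit 0) (nat_lit 3330949451) (nat_lit 152) (nat_lit 3330949451) (nat_lit 170) (nat_lit 1) (nat_lit 167) (nat_lit 1) (nat_lit 169) (nat_lit 1) (nat_lit 277) (nat_lit 413) (nat_lit 330)) (XT.lf (nat_lit 76) (nat_lit 1200815950) (nat_lit 0) (nat_lit 10109157655) (nat_lit 228) (nat_lit 1200815950) (nat_lit 168) (nat_lit 1) (nat_lit 167) (nat_lit 1) (nat_lit 170)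 (nat_lit 1) (nat_lit 278) (nat_lit 413) (nat_lit 329)))) (XT.nd (nat_lit 156) (nat_lit 380) (nat_lit 0) (XT.nd (nat_lit 78) (nat_lit 152) (nat_lit 0) (XT.lf (nat_lit 76) (nat_lit 5613899094) (nat_lit 0) (nat_lit 1150598873) (nat_lit 228) (nat_lit 5613899094) (nat_lit 165) (nat_lit 1) (nat_lit 164) (nat_lit 1) (nat_lit 167) (nat_lit 1) (nat_lit 279) (nat_lit 413) (nat_lit 328)) (XT.lf (nat_lit 228) (nat_lit 7660721682) (nat_lit 0) (nat_lit 2293729410) (nat_lit 152) (nat_lit 2293729410) (nat_lit 165) (nat_lit 1) (nat_lit 162) (nat_lit 1) (nat_lit 164) (nat_lit 1) (nat_lit 280) (nat_lit 413) (nat_lit 327))) (XT.nd (nat_lit 78) (nat_lit 380) (nat_lit 0) (XT.lf (nat_lit 76) (nat_lit 2060845939) (nat_lit 0) (nat_lit 7997855593) (nat_lit 228) (nat_lit 2060845939) (nat_lit 163) (nat_lit 1) (nat_lit 162) (nat_lit 1) (nat_lit 165) (nat_lit 1) (nat_lit 281) (nat_lit 413) (nat_lit 326)) (XT.nd (nat_lit 78) (nat_lit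 228) (nat_lit 0) (XT.lf (nat_lit 228) (nat_lit 607330263) (nat_lit 0) (nat_lit 5692523486) (nat_lit 152) (nat_lit 5692523486) (nat_lit 163) (nat_lit 1) (nat_lit 160) (nat_lit 1) (nat_lit 162) (nat_lit 1) (nat_lit 282) (nat_lit 413) (nat_lit 325)) (XT.lf (nat_lit 228) (nat_lit 9083977838) (nat_lit 0) (nat_lit 1391564372) (nat_lit 152) (nat_lit 1391564372) (nat_lit 160) (nat_lit 1) (nat_lit 157) (nat_lit 1) (nat_lit 159) (nat_lit 1) (nat_lit 283) (nat_lit 413) (nat_lit 324)))))) (XT.nd (nat_lit 390) (nat_lit 456) (nat_lit 0) (XT.nd (nat_lit 156) (nat_lit 380) (nat_lit 0) (XT.nd (nat_lit 78) (nat_lit 152) (nat_lit 0) (XT.lf (nat_lit 76) (nat_lit 2796021837) (nat_lit 0) (nat_lit 6150651252) (nat_lit 228) (nat_lit 2796021837) (nat_lit 158) (nat_lit 1) (nat_lit 157) (nat_lit 1) (nat_lit 160) (nat_lit 1) (nat_lit 284) (nat_lit 413) (nat_lit 323)) (XT.lf (nat_lit 228) (nat_lit 2141515829) (nat_lit 0) (nat_lit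 4739317378) (nat_lit 152) (nat_lit 4739317378) (nat_lit 158) (nat_lit 1) (nat_lit 155) (nat_lit 1) (nat_lit 157) (nat_lit 1) (nat_lit 285) (nat_lit 413) (nat_lit 322))) (XT.nd (nat_lit 78) (nat_lit 152) (nat_lit 0) (XT.lf (nat_lit 228) (nat_lit 10282186794) (nat_lit 0) (nat_lit 608829154) (nat_lit 152) (nat_lit 608829154) (nat_lit 155) (nat_lit 1) (nat_lit 152) (nat_lit 1) (nat_lit 154) (nat_lit 1) (nat_lit 286) (nat_lit 413) (nat_lit 321)) (XT.nd (nat_lit 78) (nat_lit 152) (nat_lit 0) (XT.lf (nat_lit 76) (nat_lit 3421109686) (nat_lit 0) (nat_lit 4537259552) (nat_lit 228) (nat_lit 3421109686) (nat_lit 153) (nat_lit 1) (nat_lit 152) (nat_lit 1) (nat_lit 155) (nat_lit 1) (nat_lit 287) (nat_lit 413) (nat_lit 320)) (XT.lf (nat_lit 228) (nat_lit 3457962239) (nat_lit 0) (nat_lit 3901680349) (nat_lit 152) (nat_lit 3901680349) (nat_lit 153) (nat_lit 1) (nat_lit 150) (nat_lit 1) (nat_lit 152) (nat_lit 1) (nat_lit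 288) (nat_lit 413) (nat_lit 319))))) (XT.nd (nat_lit 156) (nat_lit 304) (nat_lit 0) (XT.nd (nat_lit 78) (nat_lit 152) (nat_lit 0) (XT.lf (nat_lit 76) (nat_lit 69019226) (nat_lit 0) (nat_lit 11007572734) (nat_lit 228) (nat_lit 69019226) (nat_lit 151) (nat_lit 1) (nat_lit 150) (nat_lit 1) (nat_lit 153) (nat_lit 1) (nat_lit 289) (nat_lit 413) (nat_lit 318)) (XT.lf (nat_lit 76) (nat_lit 3949204362) (nat_lit 0) (nat_lit 3130796908) (nat_lit 152) (nat_lit 3949204362) (nat_lit 149) (nat_lit 1) (nat_lit 148) (nat_lit 1) (nat_lit 150) (nat_lit 1) (nat_lit 290) (nat_lit 413) (nat_lit 317))) (XT.nd (nat_lit 78) (nat_lit 152) (nat_lit 0) (XT.lf (nat_lit 228) (nat_lit 4582309187) (nat_lit 0) (nat_lit 3166454827) (nat_lit 152) (nat_lit 3166454827) (nat_lit 149) (nat_lit 1) (nat_lit 146) (nat_lit 1) (nat_lit 148) (nat_lit 1) (nat_lit 291) (nat_lit 413) (nat_lit 316)) (XT.nd (nat_lit 78) (nat_lit 152) (nat_lit 0) (XT.lf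 (nat_lit 76) (nat_lit 658712838) (nat_lit 0) (nat_lit 9485804941) (nat_lit 228) (nat_lit 658712838) (nat_lit 147) (nat_lit 1) (nat_lit 146) (nat_lit 1) (nat_lit 149) (nat_lit 1) (nat_lit 292) (nat_lit 413) (nat_lit 315)) (XT.lf (nat_lit 76) (nat_lit 4391916649) (nat_lit 0) (nat_lit 1907401203) (nat_lit 152) (nat_lit 4391916649) (nat_lit 145) (nat_lit 1) (nat_lit 144) (nat_lit 1) (nat_lit 146) (nat_lit 1) (nat_lit 293) (nat_lit 413) (nat_lit 314))))))))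
noncomputable def ec379 : XT := (XT.nd (nat_lit 1482) (nat_lit 1368) (nat_lit 0) (XT.nd (nat_lit 702) (nat_lit 1140) (nat_lit 0) (XT.nd (nat_lit 312) (nat_lit 380) (nat_lit 0) (XT.nd (nat_lit 156) (nat_lit 304) (nat_lit 0) (XT.nd (nat_lit 78) (nat_lit 0) (nat_lit 0) (XT.lf (nat_lit 228) (nat_lit 5537297630) (nat_lit 0) (nat_lit 2521958346) (nat_lit 152) (nat_lit 2521958346) (nat_lit 145) (nat_lit 1) (nat_lit 142) (nat_lit 1) (nat_lit 144) (nat_lit 1) (nat_lit 294) (nat_lit 413) (nat_lit 313)) (XT.lf (nat_lit 76) (nat_lit 1165248261) (nat_lit 0) (nat_lit 8142305254) (nat_lit 228) (nat_lit 1165248261) (nat_lit 143) (nat_lit 1) (nat_lit 142) (nat_lit 1) (nat_lit 145) (nat_lit 1) (nat_lit 295) (nat_lit 413) (nat_lit 312))) (XT.nd (nat_lit 78) (nat_lit 152) (nat_lit 0) (XT.lf (nat_lit 76) (nat_lit 4759539432) (nat_lit 0) (nat_lit 845894178) (nat_lit 152) (nat_lit 4759539432) (nat_lit 141) (nat_lit 1) (nat_lit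 140) (nat_lit 1) (nat_lit 142) (nat_lit 1) (nat_lit 296) (nat_lit 413) (nat_lit 311)) (XT.lf (nat_lit 228) (nat_lit 6343094184) (nat_lit 0) (nat_lit 1957818825) (nat_lit 152) (nat_lit 1957818825) (nat_lit 141) (nat_lit 1) (nat_lit 138) (nat_lit 1) (nat_lit 140) (nat_lit 1) (nat_lit 297) (nat_lit 413) (nat_lit 310)))) (XT.nd (nat_lit 156) (nat_lit 304) (nat_lit 0) (XT.nd (nat_lit 78) (nat_lit 76) (nat_lit 0) (XT.lf (nat_lit 76) (nat_lit 1598405499) (nat_lit 0) (nat_lit 6956944822) (nat_lit 228) (nat_lit 1598405499) (nat_lit 139) (nat_lit 1) (nat_lit 138) (nat_lit 1) (nat_lit 141) (nat_lit 1) (nat_lit 298) (nat_lit 413) (nat_lit 309)) (XT.lf (nat_lit 152) (nat_lit 73961789) (nat_lit 0) (nat_lit 4987944504) (nat_lit 76) (nat_lit 4987944504) (nat_lit 139) (nat_lit 1) (nat_lit 137) (nat_lit 1) (nat_lit 138) (nat_lit 1) (nat_lit 299) (nat_lit 413) (nat_lit 308))) (XT.nd (nat_lit 78) (nat_lit 76) (nat_lit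 0) (XT.lf (nat_lit 228) (nat_lit 7017579316) (nat_lit 0) (nat_lit 1464828221) (nat_lit 152) (nat_lit 1464828221) (nat_lit 137) (nat_lit 1) (nat_lit 134) (nat_lit 1) (nat_lit 136) (nat_lit 1) (nat_lit 300) (nat_lit 413) (nat_lit 307)) (XT.nd (nat_lit 78) (nat_lit 76) (nat_lit 0) (XT.lf (nat_lit 76) (nat_lit 1966859196) (nat_lit 0) (nat_lit 5911846691) (nat_lit 228) (nat_lit 1966859196) (nat_lit 135) (nat_lit 1) (nat_lit 134) (nat_lit 1) (nat_lit 137) (nat_lit 1) (nat_lit 301) (nat_lit 413) (nat_lit 306)) (XT.lf (nat_lit 152) (nat_lit 881719380) (nat_lit 0) (nat_lit 4431724087) (nat_lit 76) (nat_lit 4431724087) (nat_lit 135) (nat_lit 1) (nat_lit 133) (nat_lit 1) (nat_lit 134) (nat_lit 1) (nat_lit 302) (nat_lit 413) (nat_lit 305)))))) (XT.nd (nat_lit 390) (nat_lit 608) (nat_lit 0) (XT.nd (nat_lit 156) (nat_lit 304) (nat_lit 0) (XT.nd (nat_lit 78) (nat_lit 0) (nat_lit 0) (XT.lf (nat_lit 228) (nat_lit 7576603369)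 (nat_lit 0) (nat_lit 1034812507) (nat_lit 152) (nat_lit 1034812507) (nat_lit 133) (nat_lit 1) (nat_lit 130) (nat_lit 1) (nat_lit 132) (nat_lit 1) (nat_lit 303) (nat_lit 413) (nat_lit 304)) (XT.lf (nat_lit 76) (nat_lit 2278302332) (nat_lit 0) (nat_lit 4991134480) (nat_lit 228) (nat_lit 2278302332) (nat_lit 131) (nat_lit 1) (nat_lit 130) (nat_lit 1) (nat_lit 133) (nat_lit 1) (nat_lit 304) (nat_lit 413) (nat_lit 303))) (XT.nd (nat_lit 78) (nat_lit 228) (nat_lit 0) (XT.lf (nat_lit 152) (nat_lit 1575634394) (nat_lit 0) (nat_lit 3937529451) (nat_lit 76) (nat_lit 3937529451) (nat_lit 131) (nat_lit 1) (nat_lit 129) (nat_lit 1) (nat_lit 130) (nat_lit 1) (nat_lit 305) (nat_lit 413) (nat_lit 302)) (XT.nd (nat_lit 78) (nat_lit 0) (nat_lit 0) (XT.lf (nat_lit 228) (nat_lit 8034213999) (nat_lit 0) (nat_lit 660516155) (nat_lit 152) (nat_lit 660516155) (nat_lit 129) (nat_lit 1) (nat_lit 126) (nat_lit 1) (nat_lit 128)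 (nat_lit 1) (nat_lit 306) (nat_lit 413) (nat_lit 301)) (XT.lf (nat_lit 76) (nat_lit 2539556104) (nat_lit 0) (nat_lit 4180709083) (nat_lit 228) (nat_lit 2539556104) (nat_lit 127) (nat_lit 1) (nat_lit 126) (nat_lit 1) (nat_lit 129) (nat_lit 1) (nat_lit 307) (nat_lit 413) (nat_lit 300))))) (XT.nd (nat_lit 156) (nat_lit 304) (nat_lit 0) (XT.nd (nat_lit 78) (nat_lit 228) (nat_lit 0) (XT.lf (nat_lit 152) (nat_lit 2169093999) (nat_lit 0) (nat_lit 3498443918) (nat_lit 76) (nat_lit 3498443918) (nat_lit 127) (nat_lit 1) (nat_lit 125) (nat_lit 1) (nat_lit 126) (nat_lit 1) (nat_lit 308) (nat_lit 413) (nat_lit 299)) (XT.lf (nat_lit 228) (nat_lit 8402858222) (nat_lit 0) (nat_lit 335499510) (nat_lit 152) (nat_lit 335499510) (nat_lit 125) (nat_lit 1) (nat_lit 122) (nat_lit 1) (nat_lit 124) (nat_lit 1) (nat_lit 309) (nat_lit 413) (nat_lit 298))) (XT.nd (nat_lit 78) (nat_lit 304) (nat_lit 0) (XT.lf (nat_lit 76) (nat_lit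 2756667551) (nat_lit 0) (nat_lit 3468050282) (nat_lit 228) (nat_lit 2756667551) (nat_lit 123) (nat_lit 1) (nat_lit 122) (nat_lit 1) (nat_lit 125) (nat_lit 1) (nat_lit 310) (nat_lit 413) (nat_lit 297)) (XT.nd (nat_lit 78) (nat_lit 228) (nat_lit 0) (XT.lf (nat_lit 152) (nat_lit 2673972359) (nat_lit 0) (nat_lit 3108322109) (nat_lit 76) (nat_lit 3108322109) (nat_lit 123) (nat_lit 1) (nat_lit 121) (nat_lit 1) (nat_lit 122) (nat_lit 1) (nat_lit 311) (nat_lit 413) (nat_lit 296)) (XT.lf (nat_lit 228) (nat_lit 8693561903) (nat_lit 0) (nat_lit 54047611) (nat_lit 152) (nat_lit 54047611) (nat_lit 121) (nat_lit 1) (nat_lit 118) (nat_lit 1) (nat_lit 120) (nat_lit 1) (nat_lit 312) (nat_lit 413) (nat_lit 295))))))) (XT.nd (nat_lit 702) (nat_lit 836) (nat_lit 0) (XT.nd (nat_lit 312) (nat_lit 304) (nat_lit 0) (XT.nd (nat_lit 156) (nat_lit 152) (nat_lit 0) (XT.nd (nat_lit 78) (nat_lit 76) (nat_lit 0) (XT.lf (nat_lit 76)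 (nat_lit 2934996274) (nat_lit 0) (nat_lit 2842040486) (nat_lit 228) (nat_lit 2934996274) (nat_lit 119) (nat_lit 1) (nat_lit 118) (nat_lit 1) (nat_lit 121) (nat_lit 1) (nat_lit 313) (nat_lit 413) (nat_lit 294)) (XT.lf (nat_lit 152) (nat_lit 3100799938) (nat_lit 0) (nat_lit 2761703935) (nat_lit 76) (nat_lit 2761703935) (nat_lit 119) (nat_lit 1) (nat_lit 117) (nat_lit 1) (nat_lit 118) (nat_lit 1) (nat_lit 314) (nat_lit 413) (nat_lit 293))) (XT.nd (nat_lit 78) (nat_lit 152) (nat_lit 0) (XT.lf (nat_lit 0) (nat_lit 190781216) (nat_lit 0) (nat_lit 8156483961) (nat_lit 152) (nat_lit 190781216) (nat_lit 117) (nat_lit 3) (nat_lit 117) (nat_lit 1) (nat_lit 119) (nat_lit 1) (nat_lit 315) (nat_lit 413) (nat_lit 292)) (XT.lf (nat_lit 76) (nat_lit 3079291476) (nat_lit 0) (nat_lit 2292808132) (nat_lit 152) (nat_lit 3079291476) (nat_lit 116) (nat_lit 1) (nat_lit 115) (nat_lit 1) (nat_lit 117) (nat_lit 1) (nat_lit 316)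 (nat_lit 413) (nat_lit 291)))) (XT.nd (nat_lit 156) (nat_lit 228) (nat_lit 0) (XT.nd (nat_lit 78) (nat_lit 0) (nat_lit 0) (XT.lf (nat_lit 152) (nat_lit 3458913913) (nat_lit 0) (nat_lit 2453738176) (nat_lit 76) (nat_lit 2453738176) (nat_lit 116) (nat_lit 1) (nat_lit 114) (nat_lit 1) (nat_lit 115) (nat_lit 1) (nat_lit 317) (nat_lit 413) (nat_lit 290)) (XT.lf (nat_lit 0) (nat_lit 401814669) (nat_lit 0) (nat_lit 7479238385) (nat_lit 152) (nat_lit 401814669) (nat_lit 114) (nat_lit 3) (nat_lit 114) (nat_lit 1) (nat_lit 116) (nat_lit 1) (nat_lit 318) (nat_lit 413) (nat_lit 289))) (XT.nd (nat_lit 78) (nat_lit 76) (nat_lit 0) (XT.lf (nat_lit 76) (nat_lit 3193760400) (nat_lit 0) (nat_lit 1811588552) (nat_lit 152) (nat_lit 3193760400) (nat_lit 113) (nat_lit 1) (nat_lit 112) (nat_lit 1) (nat_lit 114) (nat_lit 1) (nat_lit 319) (nat_lit 413) (nat_lit 288)) (XT.nd (nat_lit 78) (nat_lit 0) (nat_lit 0) (XT.lf (nat_lit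 152) (nat_lit 3756591795) (nat_lit 0) (nat_lit 2180114588) (nat_lit 76) (nat_lit 2180114588) (nat_lit 113) (nat_lit 1) (nat_lit 111) (nat_lit 1) (nat_lit 112) (nat_lit 1) (nat_lit 320) (nat_lit 413) (nat_lit 287)) (XT.lf (nat_lit 0) (nat_lit 582548906) (nat_lit 0) (nat_lit 6870748210) (nat_lit 152) (nat_lit 582548906) (nat_lit 111) (nat_lit 3) (nat_lit 111) (nat_lit 1) (nat_lit 113) (nat_lit 1) (nat_lit 321) (nat_lit 413) (nat_lit 286)))))) (XT.nd (nat_lit 390) (nat_lit 380) (nat_lit 0) (XT.nd (nat_lit 156) (nat_lit 228) (nat_lit 0) (XT.nd (nat_lit 78) (nat_lit 76) (nat_lit 0) (XT.lf (nat_lit 76) (nat_lit 3282129125) (nat_lit 0) (nat_lit 1390600366) (nat_lit 152) (nat_lit 3282129125) (nat_lit 110) (nat_lit 1) (nat_lit 109) (nat_lit 1) (nat_lit 111) (nat_lit 1) (nat_lit 322) (nat_lit 413) (nat_lit 285)) (XT.lf (nat_lit 152) (nat_lit 4001170128) (nat_lit 0) (nat_lit 1937003575) (nat_lit 76) (nat_lit 1937003575)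 (nat_lit 110) (nat_lit 1) (nat_lit 108) (nat_lit 1) (nat_lit 109) (nat_lit 1) (nat_lit 323) (nat_lit 413) (nat_lit 284))) (XT.nd (nat_lit 78) (nat_lit 228) (nat_lit 0) (XT.lf (nat_lit 0) (nat_lit 736559756) (nat_lit 0) (nat_lit 6323543393) (nat_lit 152) (nat_lit 736559756) (nat_lit 108) (nat_lit 3) (nat_lit 108) (nat_lit 1) (nat_lit 110) (nat_lit 1) (nat_lit 324) (nat_lit 413) (nat_lit 283)) (XT.nd (nat_lit 78) (nat_lit 76) (nat_lit 0) (XT.lf (nat_lit 76) (nat_lit 3347696572) (nat_lit 0) (nat_lit 1022935658) (nat_lit 152) (nat_lit 3347696572) (nat_lit 107) (nat_lit 1) (nat_lit 106) (nat_lit 1) (nat_lit 108) (nat_lit 1) (nat_lit 325) (nat_lit 413) (nat_lit 282)) (XT.lf (nat_lit 152) (nat_lit 4199149946) (nat_lit 0) (nat_lit 1721002588) (nat_lit 76) (nat_lit 1721002588) (nat_lit 107) (nat_lit 1) (nat_lit 105) (nat_lit 1) (nat_lit 106) (nat_lit 1) (nat_lit 326) (nat_lit 413) (nat_lit 281))))) (XT.nd (nat_lit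 156) (nat_lit 228) (nat_lit 0) (XT.nd (nat_lit 78) (nat_lit 152) (nat_lit 0) (XT.lf (nat_lit 0) (nat_lit 867018559) (nat_lit 0) (nat_lit 5830981157) (nat_lit 152) (nat_lit 867018559) (nat_lit 105) (nat_lit 3) (nat_lit 105) (nat_lit 1) (nat_lit 107) (nat_lit 1) (nat_lit 327) (nat_lit 413) (nat_lit 280)) (XT.lf (nat_lit 76) (nat_lit 3393382476) (nat_lit 0) (nat_lit 702462407) (nat_lit 152) (nat_lit 3393382476) (nat_lit 104) (nat_lit 1) (nat_lit 103) (nat_lit 1) (nat_lit 105) (nat_lit 1) (nat_lit 328) (nat_lit 413) (nat_lit 279))) (XT.nd (nat_lit 78) (nat_lit 152) (nat_lit 0) (XT.lf (nat_lit 152) (nat_lit 4356290447) (nat_lit 0) (nat_lit 1529088509) (nat_lit 76) (nat_lit 1529088509) (nat_lit 104) (nat_lit 1) (nat_lit 102) (nat_lit 1) (nat_lit 103) (nat_lit 1) (nat_lit 329) (nat_lit 413) (nat_lit 278)) (XT.nd (nat_lit 78) (nat_lit 152) (nat_lit 0) (XT.lf (nat_lit 0) (nat_lit 976737436) (nat_lit 0) (nat_lit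 5387153911) (nat_lit 152) (nat_lit 976737436) (nat_lit 102) (nat_lit 3) (nat_lit 102) (nat_lit 1) (nat_lit 104) (nat_lit 1) (nat_lit 330) (nat_lit 413) (nat_lit 277)) (XT.lf (nat_lit 76) (nat_lit 3421770001) (nat_lit 0) (nat_lit 423737803) (nat_lit 152) (nat_lit 3421770001) (nat_lit 101) (nat_lit 1) (nat_lit 100) (nat_lit 1) (nat_lit 102) (nat_lit 1) (nat_lit 331) (nat_lit 413) (nat_lit 276))))))))
noncomputable def ec380 : XT := (XT.nd (nat_lit 1482) (nat_lit 1368) (nat_lit 0) (XT.nd (nat_lit 702) (nat_lit 836) (nat_lit 0) (XT.nd (nat_lit 312) (nat_lit 304) (nat_lit 0) (XT.nd (nat_lit 156) (nat_lit 228) (nat_lit 0) (XT.nd (nat_lit 78) (nat_lit 0) (nat_lit 0) (XT.lf (nat_lit 152) (nat_lit 4477692209) (nat_lit 0) (nat_lit 1358575335) (nat_lit 76) (nat_lit 1358575335) (nat_lit 101) (nat_lit 1) (nat_lit 99) (nat_lit 1) (nat_lit 100) (nat_lit 1) (nat_lit 332) (nat_lit 413) (nat_lit 275)) (XT.lf (nat_lit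 0) (nat_lit 1068209508) (nat_lit 0) (nat_lit 4986807422) (nat_lit 152) (nat_lit 1068209508) (nat_lit 99) (nat_lit 3) (nat_lit 99) (nat_lit 1) (nat_lit 101) (nat_lit 1) (nat_lit 333) (nat_lit 413) (nat_lit 274))) (XT.nd (nat_lit 78) (nat_lit 76) (nat_lit 0) (XT.lf (nat_lit 76) (nat_lit 3435143592) (nat_lit 0) (nat_lit 181931232) (nat_lit 152) (nat_lit 3435143592) (nat_lit 98) (nat_lit 1) (nat_lit 97) (nat_lit 1) (nat_lit 99) (nat_lit 1) (nat_lit 334) (nat_lit 413) (nat_lit 273)) (XT.lf (nat_lit 152) (nat_lit 4567871115) (nat_lit 0) (nat_lit 1207076589) (nat_lit 76) (nat_lit 1207076589) (nat_lit 98) (nat_lit 1) (nat_lit 96) (nat_lit 1) (nat_lit 97) (nat_lit 1) (nat_lit 335) (nat_lit 413) (nat_lit 272)))) (XT.nd (nat_lit 156) (nat_lit 228) (nat_lit 0) (XT.nd (nat_lit 78) (nat_lit 76) (nat_lit 0) (XT.lf (nat_lit 0) (nat_lit 1143644630) (nat_lit 0) (nat_lit 4625268123) (nat_lit 152) (nat_lit 1143644630)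 (nat_lit 96) (nat_lit 3) (nat_lit 96) (nat_lit 1) (nat_lit 98) (nat_lit 1) (nat_lit 336) (nat_lit 413) (nat_lit 271)) (XT.lf (nat_lit 76) (nat_lit 27786355) (nat_lit 0) (nat_lit 3408003338) (nat_lit 76) (nat_lit 3408003338) (nat_lit 96) (nat_lit 3) (nat_lit 95) (nat_lit 1) (nat_lit 96) (nat_lit 1) (nat_lit 337) (nat_lit 413) (nat_lit 270))) (XT.nd (nat_lit 78) (nat_lit 76) (nat_lit 0) (XT.lf (nat_lit 152) (nat_lit 4630824014) (nat_lit 0) (nat_lit 1072471915) (nat_lit 76) (nat_lit 1072471915) (nat_lit 95) (nat_lit 1) (nat_lit 93) (nat_lit 1) (nat_lit 94) (nat_lit 1) (nat_lit 338) (nat_lit 413) (nat_lit 269)) (XT.nd (nat_lit 78) (nat_lit 76) (nat_lit 0) (XT.lf (nat_lit 0) (nat_lit 1205001129) (nat_lit 0) (nat_lit 4298378507) (nat_lit 152) (nat_lit 1205001129) (nat_lit 93) (nat_lit 3) (nat_lit 93) (nat_lit 1) (nat_lit 95) (nat_lit 1) (nat_lit 339) (nat_lit 413) (nat_lit 268)) (XT.lf (nat_lit 76) (nat_lit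 211723664) (nat_lit 0) (nat_lit 3215002672) (nat_lit 76) (nat_lit 3215002672) (nat_lit 93) (nat_lit 3) (nat_lit 92) (nat_lit 1) (nat_lit 93) (nat_lit 1) (nat_lit 340) (nat_lit 413) (nat_lit 267)))))) (XT.nd (nat_lit 390) (nat_lit 456) (nat_lit 0) (XT.nd (nat_lit 156) (nat_lit 228) (nat_lit 0) (XT.nd (nat_lit 78) (nat_lit 0) (nat_lit 0) (XT.lf (nat_lit 152) (nat_lit 4670087053) (nat_lit 0) (nat_lit 952877406) (nat_lit 76) (nat_lit 952877406) (nat_lit 92) (nat_lit 1) (nat_lit 90) (nat_lit 1) (nat_lit 91) (nat_lit 1) (nat_lit 341) (nat_lit 413) (nat_lit 266)) (XT.lf (nat_lit 0) (nat_lit 1254013999) (nat_lit 0) (nat_lit 4002439735) (nat_lit 152) (nat_lit 1254013999) (nat_lit 90) (nat_lit 3) (nat_lit 90) (nat_lit 1) (nat_lit 92) (nat_lit 1) (nat_lit 342) (nat_lit 413) (nat_lit 265))) (XT.nd (nat_lit 78) (nat_lit 152) (nat_lit 0) (XT.lf (nat_lit 76) (nat_lit 369701934) (nat_lit 0) (nat_lit 3038076434) (nat_lit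 76) (nat_lit 3038076434) (nat_lit 90) (nat_lit 3) (nat_lit 89) (nat_lit 1) (nat_lit 90) (nat_lit 1) (nat_lit 343) (nat_lit 413) (nat_lit 264)) (XT.nd (nat_lit 78) (nat_lit 0) (nat_lit 0) (XT.lf (nat_lit 152) (nat_lit 4688787486) (nat_lit 0) (nat_lit 846619233) (nat_lit 76) (nat_lit 846619233) (nat_lit 89) (nat_lit 1) (nat_lit 87) (nat_lit 1) (nat_lit 88) (nat_lit 1) (nat_lit 344) (nat_lit 413) (nat_lit 263)) (XT.lf (nat_lit 0) (nat_lit 1292219958) (nat_lit 0) (nat_lit 3734160626) (nat_lit 152) (nat_lit 1292219958) (nat_lit 87) (nat_lit 3) (nat_lit 87) (nat_lit 1) (nat_lit 89) (nat_lit 1) (nat_lit 345) (nat_lit 413) (nat_lit 262))))) (XT.nd (nat_lit 156) (nat_lit 228) (nat_lit 0) (XT.nd (nat_lit 78) (nat_lit 152) (nat_lit 0) (XT.lf (nat_lit 76) (nat_lit 504774604) (nat_lit 0) (nat_lit 2875590787) (nat_lit 76) (nat_lit 2875590787) (nat_lit 87) (nat_lit 3) (nat_lit 86) (nat_lit 1) (nat_lit 87) (nat_lit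 1) (nat_lit 346) (nat_lit 413) (nat_lit 261)) (XT.lf (nat_lit 152) (nat_lit 4689689696) (nat_lit 0) (nat_lit 752210223) (nat_lit 76) (nat_lit 752210223) (nat_lit 86) (nat_lit 1) (nat_lit 84) (nat_lit 1) (nat_lit 85) (nat_lit 1) (nat_lit 347) (nat_lit 413) (nat_lit 260))) (XT.nd (nat_lit 78) (nat_lit 228) (nat_lit 0) (XT.lf (nat_lit 0) (nat_lit 1320979687) (nat_lit 0) (nat_lit 3490612342) (nat_lit 152) (nat_lit 1320979687) (nat_lit 84) (nat_lit 3) (nat_lit 84) (nat_lit 1) (nat_lit 86) (nat_lit 1) (nat_lit 348) (nat_lit 413) (nat_lit 259)) (XT.nd (nat_lit 78) (nat_lit 152) (nat_lit 0) (XT.lf (nat_lit 76) (nat_lit 619649993) (nat_lit 0) (nat_lit 2726089464) (nat_lit 76) (nat_lit 2726089464) (nat_lit 84) (nat_lit 3) (nat_lit 83) (nat_lit 1) (nat_lit 84) (nat_lit 1) (nat_lit 349) (nat_lit 413) (nat_lit 258)) (XT.lf (nat_lit 152) (nat_lit 4675236072) (nat_lit 0) (nat_lit 668329040) (nat_lit 76) (nat_lit 668329040)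 (nat_lit 83) (nat_lit 1) (nat_lit 81) (nat_lit 1) (nat_lit 82) (nat_lit 1) (nat_lit 350) (nat_lit 413) (nat_lit 257))))))) (XT.nd (nat_lit 702) (nat_lit 684) (nat_lit 0) (XT.nd (nat_lit 312) (nat_lit 456) (nat_lit 0) (XT.nd (nat_lit 156) (nat_lit 152) (nat_lit 0) (XT.nd (nat_lit 78) (nat_lit 76) (nat_lit 0) (XT.lf (nat_lit 0) (nat_lit 1341497606) (nat_lit 0) (nat_lit 3269188119) (nat_lit 152) (nat_lit 1341497606) (nat_lit 81) (nat_lit 3) (nat_lit 81) (nat_lit 1) (nat_lit 83) (nat_lit 1) (nat_lit 351) (nat_lit 413) (nat_lit 256)) (XT.lf (nat_lit 76) (nat_lit 716729921) (nat_lit 0) (nat_lit 2588274108) (nat_lit 76) (nat_lit 2588274108) (nat_lit 81) (nat_lit 3) (nat_lit 80) (nat_lit 1) (nat_lit 81) (nat_lit 1) (nat_lit 352) (nat_lit 413) (nat_lit 255))) (XT.nd (nat_lit 78) (nat_lit 0) (nat_lit 0) (XT.lf (nat_lit 152) (nat_lit 4647583316) (nat_lit 0) (nat_lit 593801696) (nat_lit 76) (nat_lit 593801696)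 (nat_lit 80) (nat_lit 1) (nat_lit 78) (nat_lit 1) (nat_lit 79) (nat_lit 1) (nat_lit 353) (nat_lit 413) (nat_lit 254)) (XT.lf (nat_lit 0) (nat_lit 1354839426) (nat_lit 0) (nat_lit 3067567479) (nat_lit 152) (nat_lit 1354839426) (nat_lit 78) (nat_lit 3) (nat_lit 78) (nat_lit 1) (nat_lit 80) (nat_lit 1) (nat_lit 354) (nat_lit 413) (nat_lit 253)))) (XT.nd (nat_lit 156) (nat_lit 228) (nat_lit 0) (XT.nd (nat_lit 78) (nat_lit 152) (nat_lit 0) (XT.lf (nat_lit 76) (nat_lit 798144016) (nat_lit 0) (nat_lit 2460986786) (nat_lit 76) (nat_lit 2460986786) (nat_lit 78) (nat_lit 3) (nat_lit 77) (nat_lit 1) (nat_lit 78) (nat_lit 1) (nat_lit 355) (nat_lit 413) (nat_lit 252)) (XT.lf (nat_lit 152) (nat_lit 4608634687) (nat_lit 0) (nat_lit 527585116) (nat_lit 76) (nat_lit 527585116) (nat_lit 77) (nat_lit 1) (nat_lit 75) (nat_lit 1) (nat_lit 76) (nat_lit 1) (nat_lit 356) (nat_lit 413) (nat_lit 251))) (XT.nd (nat_lit 78) (nat_lit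 228) (nat_lit 0) (XT.lf (nat_lit 0) (nat_lit 1361947746) (nat_lit 0) (nat_lit 2883684438) (nat_lit 152) (nat_lit 1361947746) (nat_lit 75) (nat_lit 3) (nat_lit 75) (nat_lit 1) (nat_lit 77) (nat_lit 1) (nat_lit 357) (nat_lit 413) (nat_lit 250)) (XT.nd (nat_lit 78) (nat_lit 152) (nat_lit 0) (XT.lf (nat_lit 76) (nat_lit 865780198) (nat_lit 0) (nat_lit 2343194462) (nat_lit 76) (nat_lit 2343194462) (nat_lit 75) (nat_lit 3) (nat_lit 74) (nat_lit 1) (nat_lit 75) (nat_lit 1) (nat_lit 358) (nat_lit 413) (nat_lit 249)) (XT.lf (nat_lit 152) (nat_lit 4560068642) (nat_lit 0) (nat_lit 468752542) (nat_lit 76) (nat_lit 468752542) (nat_lit 74) (nat_lit 1) (nat_lit 72) (nat_lit 1) (nat_lit 73) (nat_lit 1) (nat_lit 359) (nat_lit 413) (nat_lit 248)))))) (XT.nd (nat_lit 390) (nat_lit 380) (nat_lit 0) (XT.nd (nat_lit 156) (nat_lit 228) (nat_lit 0) (XT.nd (nat_lit 78) (nat_lit 76) (nat_lit 0) (XT.lf (nat_lit 0) (nat_lit 1363655907)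 (nat_lit 0) (nat_lit 2715699248) (nat_lit 152) (nat_lit 1363655907) (nat_lit 72) (nat_lit 3) (nat_lit 72) (nat_lit 1) (nat_lit 74) (nat_lit 1) (nat_lit 360) (nat_lit 413) (nat_lit 247)) (XT.lf (nat_lit 76) (nat_lit 921311752) (nat_lit 0) (nat_lit 2233975190) (nat_lit 76) (nat_lit 2233975190) (nat_lit 72) (nat_lit 3) (nat_lit 71) (nat_lit 1) (nat_lit 72) (nat_lit 1) (nat_lit 361) (nat_lit 413) (nat_lit 246))) (XT.nd (nat_lit 78) (nat_lit 76) (nat_lit 0) (XT.lf (nat_lit 152) (nat_lit 4503364270) (nat_lit 0) (nat_lit 416480562) (nat_lit 76) (nat_lit 416480562) (nat_lit 71) (nat_lit 1) (nat_lit 69) (nat_lit 1) (nat_lit 70) (nat_lit 1) (nat_lit 362) (nat_lit 413) (nat_lit 245)) (XT.nd (nat_lit 78) (nat_lit 76) (nat_lit 0) (XT.lf (nat_lit 0) (nat_lit 1360700296) (nat_lit 0) (nat_lit 2561973292) (nat_lit 152) (nat_lit 1360700296) (nat_lit 69) (nat_lit 3) (nat_lit 69) (nat_lit 1) (nat_lit 71) (nat_lit 1) (nat_lit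 363) (nat_lit 413) (nat_lit 244)) (XT.lf (nat_lit 76) (nat_lit 966221383) (nat_lit 0) (nat_lit 2132505846) (nat_lit 76) (nat_lit 2132505846) (nat_lit 69) (nat_lit 3) (nat_lit 68) (nat_lit 1) (nat_lit 69) (nat_lit 1) (nat_lit 364) (nat_lit 413) (nat_lit 243))))) (XT.nd (nat_lit 156) (nat_lit 228) (nat_lit 0) (XT.nd (nat_lit 78) (nat_lit 0) (nat_lit 0) (XT.lf (nat_lit 152) (nat_lit 4439823878) (nat_lit 0) (nat_lit 370037585) (nat_lit 76) (nat_lit 370037585) (nat_lit 68) (nat_lit 1) (nat_lit 66) (nat_lit 1) (nat_lit 67) (nat_lit 1) (nat_lit 365) (nat_lit 413) (nat_lit 242)) (XT.lf (nat_lit 0) (nat_lit 1353731273) (nat_lit 0) (nat_lit 2421046771) (nat_lit 152) (nat_lit 1353731273) (nat_lit 66) (nat_lit 3) (nat_lit 66) (nat_lit 1) (nat_lit 68) (nat_lit 1) (nat_lit 366) (nat_lit 413) (nat_lit 241))) (XT.nd (nat_lit 78) (nat_lit 152) (nat_lit 0) (XT.lf (nat_lit 76) (nat_lit 1001822587) (nat_lit 0) (nat_lit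 2038051227) (nat_lit 76) (nat_lit 2038051227) (nat_lit 66) (nat_lit 3) (nat_lit 65) (nat_lit 1) (nat_lit 66) (nat_lit 1) (nat_lit 367) (nat_lit 413) (nat_lit 240)) (XT.nd (nat_lit 78) (nat_lit 0) (nat_lit 0) (XT.lf (nat_lit 152) (nat_lit 4370593052) (nat_lit 0) (nat_lit 328773602) (nat_lit 76) (nat_lit 328773602) (nat_lit 65) (nat_lit 1) (nat_lit 63) (nat_lit 1) (nat_lit 64) (nat_lit 1) (nat_lit 368) (nat_lit 413) (nat_lit 239)) (XT.lf (nat_lit 0) (nat_lit 1343322881) (nat_lit 0) (nat_lit 2291618877) (nat_lit 152) (nat_lit 1343322881) (nat_lit 63) (nat_lit 3) (nat_lit 63) (nat_lit 1) (nat_lit 65) (nat_lit 1) (nat_lit 369) (nat_lit 413) (nat_lit 238))))))))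
noncomputable def ec381 : XT := (XT.nd (nat_lit 1482) (nat_lit 1520) (nat_lit 0) (XT.nd (nat_lit 702) (nat_lit 760) (nat_lit 0) (XT.nd (nat_lit 312) (nat_lit 380) (nat_lit 0) (XT.nd (nat_lit 156) (nat_lit 76) (nat_lit 0) (XT.nd (nat_lit 78) (nat_lit 152) (nat_lit 0) (XT.lf (nat_lit 76) (nat_lit 1029278629) (nat_lit 0) (nat_lit 1949954354) (nat_lit 76) (nat_lit 1949954354) (nat_lit 63) (nat_lit 3) (nat_lit 62) (nat_lit 1) (nat_lit 63) (nat_lit 1) (nat_lit 370) (nat_lit 413) (nat_lit 237)) (XT.lf (nat_lit 152) (nat_lit 4296678465) (nat_lit 0) (nat_lit 292111087) (nat_lit 76) (nat_lit 292111087) (nat_lit 62) (nat_lit 1) (nat_lit 60) (nat_lit 1) (nat_lit 61) (nat_lit 1) (nat_lit 371) (nat_lit 413) (nat_lit 236))) (XT.nd (nat_lit 78) (nat_lit 76) (nat_lit 0) (XT.lf (nat_lit 0) (nat_lit 1329981465) (nat_lit 0) (nat_lit 2172530175) (nat_lit 152) (nat_lit 1329981465) (nat_lit 60) (nat_lit 3) (nat_lit 60) (nat_lit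 1) (nat_lit 62) (nat_lit 1) (nat_lit 372) (nat_lit 413) (nat_lit 235)) (XT.lf (nat_lit 76) (nat_lit 1049619406) (nat_lit 0) (nat_lit 1867627863) (nat_lit 76) (nat_lit 1867627863) (nat_lit 60) (nat_lit 3) (nat_lit 59) (nat_lit 1) (nat_lit 60) (nat_lit 1) (nat_lit 373) (nat_lit 413) (nat_lit 234)))) (XT.nd (nat_lit 156) (nat_lit 228) (nat_lit 0) (XT.nd (nat_lit 78) (nat_lit 0) (nat_lit 0) (XT.lf (nat_lit 152) (nat_lit 4218963696) (nat_lit 0) (nat_lit 259536917) (nat_lit 76) (nat_lit 259536917) (nat_lit 59) (nat_lit 1) (nat_lit 57) (nat_lit 1) (nat_lit 58) (nat_lit 1) (nat_lit 374) (nat_lit 413) (nat_lit 233)) (XT.lf (nat_lit 0) (nat_lit 1314153329) (nat_lit 0) (nat_lit 2062746945) (nat_lit 152) (nat_lit 1314153329) (nat_lit 57) (nat_lit 3) (nat_lit 57) (nat_lit 1) (nat_lit 59) (nat_lit 1) (nat_lit 375) (nat_lit 413) (nat_lit 232))) (XT.nd (nat_lit 78) (nat_lit 152) (nat_lit 0) (XT.lf (nat_lit 76) (nat_lit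 1063756427) (nat_lit 0) (nat_lit 1790546346) (nat_lit 76) (nat_lit 1790546346) (nat_lit 57) (nat_lit 3) (nat_lit 56) (nat_lit 1) (nat_lit 57) (nat_lit 1) (nat_lit 376) (nat_lit 413) (nat_lit 231)) (XT.nd (nat_lit 78) (nat_lit 0) (nat_lit 0) (XT.lf (nat_lit 152) (nat_lit 4138223270) (nat_lit 0) (nat_lit 230595189) (nat_lit 76) (nat_lit 230595189) (nat_lit 56) (nat_lit 1) (nat_lit 54) (nat_lit 1) (nat_lit 55) (nat_lit 1) (nat_lit 377) (nat_lit 413) (nat_lit 230)) (XT.lf (nat_lit 0) (nat_lit 1296231535) (nat_lit 0) (nat_lit 1961347268) (nat_lit 152) (nat_lit 1296231535) (nat_lit 54) (nat_lit 3) (nat_lit 54) (nat_lit 1) (nat_lit 56) (nat_lit 1) (nat_lit 378) (nat_lit 413) (nat_lit 229)))))) (XT.nd (nat_lit 390) (nat_lit 304) (nat_lit 0) (XT.nd (nat_lit 156) (nat_lit 228) (nat_lit 0) (XT.nd (nat_lit 78) (nat_lit 152) (nat_lit 0) (XT.lf (nat_lit 76) (nat_lit 1072496118) (nat_lit 0) (nat_lit 1718239548) (nat_lit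 76) (nat_lit 1718239548) (nat_lit 54) (nat_lit 3) (nat_lit 53) (nat_lit 1) (nat_lit 54) (nat_lit 1) (nat_lit 379) (nat_lit 413) (nat_lit 228)) (XT.lf (nat_lit 152) (nat_lit 4055135127) (nat_lit 0) (nat_lit 204880839) (nat_lit 76) (nat_lit 204880839) (nat_lit 53) (nat_lit 1) (nat_lit 51) (nat_lit 1) (nat_lit 52) (nat_lit 1) (nat_lit 380) (nat_lit 413) (nat_lit 227))) (XT.nd (nat_lit 78) (nat_lit 228) (nat_lit 0) (XT.lf (nat_lit 0) (nat_lit 1276561943) (nat_lit 0) (nat_lit 1867508657) (nat_lit 152) (nat_lit 1276561943) (nat_lit 51) (nat_lit 3) (nat_lit 51) (nat_lit 1) (nat_lit 53) (nat_lit 1) (nat_lit 381) (nat_lit 413) (nat_lit 226)) (XT.nd (nat_lit 78) (nat_lit 152) (nat_lit 0) (XT.lf (nat_lit 76) (nat_lit 1076551639) (nat_lit 0) (nat_lit 1650286312) (nat_lit 76) (nat_lit 1650286312) (nat_lit 51) (nat_lit 3) (nat_lit 50) (nat_lit 1) (nat_lit 51) (nat_lit 1) (nat_lit 382) (nat_lit 413) (nat_lit 225))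 (XT.lf (nat_lit 152) (nat_lit 3970291689) (nat_lit 0) (nat_lit 182033972) (nat_lit 76) (nat_lit 182033972) (nat_lit 50) (nat_lit 1) (nat_lit 48) (nat_lit 1) (nat_lit 49) (nat_lit 1) (nat_lit 383) (nat_lit 413) (nat_lit 224))))) (XT.nd (nat_lit 156) (nat_lit 228) (nat_lit 0) (XT.nd (nat_lit 78) (nat_lit 76) (nat_lit 0) (XT.lf (nat_lit 0) (nat_lit 1255448571) (nat_lit 0) (nat_lit 1780497072) (nat_lit 152) (nat_lit 1255448571) (nat_lit 48) (nat_lit 3) (nat_lit 48) (nat_lit 1) (nat_lit 50) (nat_lit 1) (nat_lit 384) (nat_lit 413) (nat_lit 223)) (XT.lf (nat_lit 76) (nat_lit 1076553381) (nat_lit 0) (nat_lit 1586309207) (nat_lit 76) (nat_lit 1586309207) (nat_lit 48) (nat_lit 3) (nat_lit 47) (nat_lit 1) (nat_lit 48) (nat_lit 1) (nat_lit 385) (nat_lit 413) (nat_lit 222))) (XT.nd (nat_lit 78) (nat_lit 76) (nat_lit 0) (XT.lf (nat_lit 152) (nat_lit 3884209684) (nat_lit 0) (nat_lit 161734826) (nat_lit 76) (nat_lit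 161734826) (nat_lit 47) (nat_lit 1) (nat_lit 45) (nat_lit 1) (nat_lit 46) (nat_lit 1) (nat_lit 386) (nat_lit 413) (nat_lit 221)) (XT.nd (nat_lit 78) (nat_lit 76) (nat_lit 0) (XT.lf (nat_lit 0) (nat_lit 1233158357) (nat_lit 0) (nat_lit 1699657149) (nat_lit 152) (nat_lit 1233158357) (nat_lit 45) (nat_lit 3) (nat_lit 45) (nat_lit 1) (nat_lit 47) (nat_lit 1) (nat_lit 387) (nat_lit 413) (nat_lit 220)) (XT.lf (nat_lit 76) (nat_lit 1073058291) (nat_lit 0) (nat_lit 1525969741) (nat_lit 76) (nat_lit 1525969741) (nat_lit 45) (nat_lit 3) (nat_lit 44) (nat_lit 1) (nat_lit 45) (nat_lit 1) (nat_lit 388) (nat_lit 413) (nat_lit 219))))))) (XT.nd (nat_lit 702) (nat_lit 836) (nat_lit 0) (XT.nd (nat_lit 312) (nat_lit 304) (nat_lit 0) (XT.nd (nat_lit 156) (nat_lit 228) (nat_lit 0) (XT.nd (nat_lit 78) (nat_lit 0) (nat_lit 0) (XT.lf (nat_lit 152) (nat_lit 3797338872) (nat_lit 0) (nat_lit 143699298) (nat_lit 76) (nat_lit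 143699298) (nat_lit 44) (nat_lit 1) (nat_lit 42) (nat_lit 1) (nat_lit 43) (nat_lit 1) (nat_lit 389) (nat_lit 413) (nat_lit 218)) (XT.lf (nat_lit 0) (nat_lit 1209925385) (nat_lit 0) (nat_lit 1624403520) (nat_lit 152) (nat_lit 1209925385) (nat_lit 42) (nat_lit 3) (nat_lit 42) (nat_lit 1) (nat_lit 44) (nat_lit 1) (nat_lit 390) (nat_lit 413) (nat_lit 217))) (XT.nd (nat_lit 78) (nat_lit 152) (nat_lit 0) (XT.lf (nat_lit 76) (nat_lit 1066558157) (nat_lit 0) (nat_lit 1468964113) (nat_lit 76) (nat_lit 1468964113) (nat_lit 42) (nat_lit 3) (nat_lit 41) (nat_lit 1) (nat_lit 42) (nat_lit 1) (nat_lit 391) (nat_lit 413) (nat_lit 216)) (XT.lf (nat_lit 152) (nat_lit 3710069779) (nat_lit 0) (nat_lit 127674965) (nat_lit 76) (nat_lit 127674965) (nat_lit 41) (nat_lit 1) (nat_lit 39) (nat_lit 1) (nat_lit 40) (nat_lit 1) (nat_lit 392) (nat_lit 413) (nat_lit 215)))) (XT.nd (nat_lit 156) (nat_lit 228) (nat_lit 0) (XT.nd (nat_lit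 78) (nat_lit 76) (nat_lit 0) (XT.lf (nat_lit 0) (nat_lit 1185954642) (nat_lit 0) (nat_lit 1554213097) (nat_lit 152) (nat_lit 1185954642) (nat_lit 39) (nat_lit 3) (nat_lit 39) (nat_lit 1) (nat_lit 41) (nat_lit 1) (nat_lit 393) (nat_lit 413) (nat_lit 214)) (XT.lf (nat_lit 76) (nat_lit 1057486956) (nat_lit 0) (nat_lit 1415019437) (nat_lit 76) (nat_lit 1415019437) (nat_lit 39) (nat_lit 3) (nat_lit 38) (nat_lit 1) (nat_lit 39) (nat_lit 1) (nat_lit 394) (nat_lit 413) (nat_lit 213))) (XT.nd (nat_lit 78) (nat_lit 76) (nat_lit 0) (XT.lf (nat_lit 152) (nat_lit 3622740572) (nat_lit 0) (nat_lit 113437553) (nat_lit 76) (nat_lit 113437553) (nat_lit 38) (nat_lit 1) (nat_lit 36) (nat_lit 1) (nat_lit 37) (nat_lit 1) (nat_lit 395) (nat_lit 413) (nat_lit 212)) (XT.nd (nat_lit 78) (nat_lit 76) (nat_lit 0) (XT.lf (nat_lit 0) (nat_lit 1161425348) (nat_lit 0) (nat_lit 1488618215) (nat_lit 152) (nat_lit 1161425348) (nat_lit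 36) (nat_lit 3) (nat_lit 36) (nat_lit 1) (nat_lit 38) (nat_lit 1) (nat_lit 396) (nat_lit 413) (nat_lit 211)) (XT.lf (nat_lit 76) (nat_lit 1046227394) (nat_lit 0) (nat_lit 1363890372) (nat_lit 76) (nat_lit 1363890372) (nat_lit 36) (nat_lit 3) (nat_lit 35) (nat_lit 1) (nat_lit 36) (nat_lit 1) (nat_lit 397) (nat_lit 413) (nat_lit 210)))))) (XT.nd (nat_lit 390) (nat_lit 456) (nat_lit 0) (XT.nd (nat_lit 156) (nat_lit 228) (nat_lit 0) (XT.nd (nat_lit 78) (nat_lit 0) (nat_lit 0) (XT.lf (nat_lit 152) (nat_lit 3535643150) (nat_lit 0) (nat_lit 100787796) (nat_lit 76) (nat_lit 100787796) (nat_lit 35) (nat_lit 1) (nat_lit 33) (nat_lit 1) (nat_lit 34) (nat_lit 1) (nat_lit 398) (nat_lit 413) (nat_lit 209)) (XT.lf (nat_lit 0) (nat_lit 1136493911) (nat_lit 0) (nat_lit 1427200536) (nat_lit 152) (nat_lit 1136493911) (nat_lit 33) (nat_lit 3) (nat_lit 33) (nat_lit 1) (nat_lit 35) (nat_lit 1) (nat_lit 399) (nat_lit 413)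 (nat_lit 208))) (XT.nd (nat_lit 78) (nat_lit 152) (nat_lit 0) (XT.lf (nat_lit 76) (nat_lit 1033116702) (nat_lit 0) (nat_lit 1315356144) (nat_lit 76) (nat_lit 1315356144) (nat_lit 33) (nat_lit 3) (nat_lit 32) (nat_lit 1) (nat_lit 33) (nat_lit 1) (nat_lit 400) (nat_lit 413) (nat_lit 207)) (XT.nd (nat_lit 78) (nat_lit 0) (nat_lit 0) (XT.lf (nat_lit 152) (nat_lit 3449028556) (nat_lit 0) (nat_lit 89548652) (nat_lit 76) (nat_lit 89548652) (nat_lit 32) (nat_lit 1) (nat_lit 30) (nat_lit 1) (nat_lit 31) (nat_lit 1) (nat_lit 401) (nat_lit 413) (nat_lit 206)) (XT.lf (nat_lit 0) (nat_lit 1111296560) (nat_lit 0) (nat_lit 1369585630) (nat_lit 152) (nat_lit 1111296560) (nat_lit 30) (nat_lit 3) (nat_lit 30) (nat_lit 1) (nat_lit 32) (nat_lit 1) (nat_lit 402) (nat_lit 413) (nat_lit 205))))) (XT.nd (nat_lit 156) (nat_lit 228) (nat_lit 0) (XT.nd (nat_lit 78) (nat_lit 152) (nat_lit 0) (XT.lf (nat_lit 76) (nat_lit 1018451793)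 (nat_lit 0) (nat_lit 1269217881) (nat_lit 76) (nat_lit 1269217881) (nat_lit 30) (nat_lit 3) (nat_lit 29) (nat_lit 1) (nat_lit 30) (nat_lit 1) (nat_lit 403) (nat_lit 413) (nat_lit 204)) (XT.lf (nat_lit 152) (nat_lit 3363111774) (nat_lit 0) (nat_lit 79562817) (nat_lit 76) (nat_lit 79562817) (nat_lit 29) (nat_lit 1) (nat_lit 27) (nat_lit 1) (nat_lit 28) (nat_lit 1) (nat_lit 404) (nat_lit 413) (nat_lit 203))) (XT.nd (nat_lit 78) (nat_lit 228) (nat_lit 0) (XT.lf (nat_lit 0) (nat_lit 1085951667) (nat_lit 0) (nat_lit 1315438161) (nat_lit 152) (nat_lit 1085951667) (nat_lit 27) (nat_lit 3) (nat_lit 27) (nat_lit 1) (nat_lit 29) (nat_lit 1) (nat_lit 405) (nat_lit 413) (nat_lit 202)) (XT.nd (nat_lit 78) (nat_lit 152) (nat_lit 0) (XT.lf (nat_lit 76) (nat_lit 1002493833) (nat_lit 0) (nat_lit 1225296255) (nat_lit 76) (nat_lit 1225296255) (nat_lit 27) (nat_lit 3) (nat_lit 26) (nat_lit 1) (nat_lit 27) (nat_lit 1) (nat_lit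 406) (nat_lit 413) (nat_lit 201)) (XT.lf (nat_lit 152) (nat_lit 3278075985) (nat_lit 0) (nat_lit 70690532) (nat_lit 76) (nat_lit 70690532) (nat_lit 26) (nat_lit 1) (nat_lit 24) (nat_lit 1) (nat_lit 25) (nat_lit 1) (nat_lit 407) (nat_lit 413) (nat_lit 200))))))))
noncomputable def ec382 : XT := (XT.nd (nat_lit 36738) (nat_lit 0) (nat_lit 24168) (XT.nd (nat_lit 702) (nat_lit 228) (nat_lit 0) (XT.nd (nat_lit 312) (nat_lit 456) (nat_lit 0) (XT.nd (nat_lit 156) (nat_lit 152) (nat_lit 0) (XT.nd (nat_lit 78) (nat_lit 76) (nat_lit 0) (XT.lf (nat_lit 0) (nat_lit 1060561823) (nat_lit 0) (nat_lit 1264457601) (nat_lit 152) (nat_lit 1060561823) (nat_lit 24) (nat_lit 3) (nat_lit 24) (nat_lit 1) (nat_lit 26) (nat_lit 1) (nat_lit 408) (nat_lit 413) (nat_lit 199)) (XT.lf (nat_lit 76) (nat_lit 985472307) (nat_lit 0) (nat_lit 1183429372) (nat_lit 76) (nat_lit 1183429372) (nat_lit 24) (nat_lit 3) (nat_lit 23) (nat_lit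 1) (nat_lit 24) (nat_lit 1) (nat_lit 409) (nat_lit 413) (nat_lit 198))) (XT.nd (nat_lit 78) (nat_lit 0) (nat_lit 0) (XT.lf (nat_lit 152) (nat_lit 3194076338) (nat_lit 0) (nat_lit 62807622) (nat_lit 76) (nat_lit 62807622) (nat_lit 23) (nat_lit 1) (nat_lit 21) (nat_lit 1) (nat_lit 22) (nat_lit 1) (nat_lit 410) (nat_lit 413) (nat_lit 197)) (XT.lf (nat_lit 0) (nat_lit 1035215669) (nat_lit 0) (nat_lit 1216374427) (nat_lit 152) (nat_lit 1035215669) (nat_lit 21) (nat_lit 3) (nat_lit 21) (nat_lit 1) (nat_lit 23) (nat_lit 1) (nat_lit 411) (nat_lit 413) (nat_lit 196)))) (XT.nd (nat_lit 156) (nat_lit 228) (nat_lit 0) (XT.nd (nat_lit 78) (nat_lit 152) (nat_lit 0) (XT.lf (nat_lit 76) (nat_lit 967588624) (nat_lit 0) (nat_lit 1143470912) (nat_lit 76) (nat_lit 1143470912) (nat_lit 21) (nat_lit 3) (nat_lit 20) (nat_lit 1) (nat_lit 21) (nat_lit 1) (nat_lit 412) (nat_lit 413) (nat_lit 195)) (XT.lf (nat_lit 152) (nat_lit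 3111243305) (nat_lit 0) (nat_lit 55803759) (nat_lit 76) (nat_lit 55803759) (nat_lit 20) (nat_lit 1) (nat_lit 18) (nat_lit 1) (nat_lit 19) (nat_lit 1) (nat_lit 413) (nat_lit 413) (nat_lit 194))) (XT.nd (nat_lit 78) (nat_lit 228) (nat_lit 0) (XT.lf (nat_lit 0) (nat_lit 1009989525) (nat_lit 0) (nat_lit 1170946735) (nat_lit 152) (nat_lit 1009989525) (nat_lit 18) (nat_lit 3) (nat_lit 18) (nat_lit 1) (nat_lit 20) (nat_lit 1) (nat_lit 414) (nat_lit 413) (nat_lit 193)) (XT.nd (nat_lit 78) (nat_lit 152) (nat_lit 0) (XT.lf (nat_lit 76) (nat_lit 949019322) (nat_lit 0) (nat_lit 1105288458) (nat_lit 76) (nat_lit 1105288458) (nat_lit 18) (nat_lit 3) (nat_lit 17) (nat_lit 1) (nat_lit 18) (nat_lit 1) (nat_lit 415) (nat_lit 413) (nat_lit 192)) (XT.lf (nat_lit 152) (nat_lit 3029685640) (nat_lit 0) (nat_lit 49580917) (nat_lit 76) (nat_lit 49580917) (nat_lit 17) (nat_lit 1) (nat_lit 15) (nat_lit 1) (nat_lit 16) (nat_lit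 1) (nat_lit 416) (nat_lit 413) (nat_lit 191)))))) (XT.nd (nat_lit 35646) (nat_lit 0) (nat_lit 27512) (XT.nd (nat_lit 156) (nat_lit 152) (nat_lit 0) (XT.nd (nat_lit 78) (nat_lit 76) (nat_lit 0) (XT.lf (nat_lit 0) (nat_lit 984948836) (nat_lit 0) (nat_lit 1127957232) (nat_lit 152) (nat_lit 984948836) (nat_lit 15) (nat_lit 3) (nat_lit 15) (nat_lit 1) (nat_lit 17) (nat_lit 1) (nat_lit 417) (nat_lit 413) (nat_lit 190)) (XT.lf (nat_lit 76) (nat_lit 929918912) (nat_lit 0) (nat_lit 1068762015) (nat_lit 76) (nat_lit 1068762015) (nat_lit 15) (nat_lit 3) (nat_lit 14) (nat_lit 1) (nat_lit 15) (nat_lit 1) (nat_lit 418) (nat_lit 413) (nat_lit 189))) (XT.nd (nat_lit 78) (nat_lit 0) (nat_lit 0) (XT.lf (nat_lit 152) (nat_lit 2949493014) (nat_lit 0) (nat_lit 44052002) (nat_lit 76) (nat_lit 44052002) (nat_lit 14) (nat_lit 1) (nat_lit 12) (nat_lit 1) (nat_lit 13) (nat_lit 1) (nat_lit 419) (nat_lit 413) (nat_lit 188)) (XT.nd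 (nat_lit 35334) (nat_lit 0) (nat_lit 27512) (XT.lf (nat_lit 0) (nat_lit 960149453) (nat_lit 0) (nat_lit 1087210561) (nat_lit 152) (nat_lit 960149453) (nat_lit 12) (nat_lit 3) (nat_lit 12) (nat_lit 1) (nat_lit 14) (nat_lit 1) (nat_lit 420) (nat_lit 413) (nat_lit 187)) (XT.lf (nat_lit 1292) (nat_lit 3323680778) (nat_lit 0) (nat_lit 11435007620) (nat_lit 1292) (nat_lit 3323680778) (nat_lit 391) (nat_lit 1) (nat_lit 374) (nat_lit 0) (nat_lit 391) (nat_lit 0) (nat_lit 192) (nat_lit 414) (nat_lit 414))))) (XT.nd (nat_lit 156) (nat_lit 0) (nat_lit 76) (XT.nd (nat_lit 78) (nat_lit 0) (nat_lit 76) (XT.lf (nat_lit 1292) (nat_lit 12989002725) (nat_lit 76) (nat_lit 11322899702) (nat_lit 0) (nat_lit 11322899702) (nat_lit 391) (nat_lit 1) (nat_lit 375) (nat_lit 1) (nat_lit 374) (nat_lit 0) (nat_lit 193) (nat_lit 414) (nat_lit 413)) (XT.lf (nat_lit 1292) (nat_lit 6281791412) (nat_lit 0) (nat_lit 22552972368) (nat_lit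 1216) (nat_lit 6281791412) (nat_lit 392) (nat_lit 1) (nat_lit 375) (nat_lit 1) (nat_lit 391) (nat_lit 1) (nat_lit 194) (nat_lit 414) (nat_lit 412))) (XT.nd (nat_lit 78) (nat_lit 0) (nat_lit 76) (XT.lf (nat_lit 1292) (nat_lit 11929446223) (nat_lit 76) (nat_lit 11338758288) (nat_lit 0) (nat_lit 11338758288) (nat_lit 392) (nat_lit 1) (nat_lit 376) (nat_lit 1) (nat_lit 375) (nat_lit 1) (nat_lit 195) (nat_lit 414) (nat_lit 411)) (XT.nd (nat_lit 78) (nat_lit 0) (nat_lit 0) (XT.lf (nat_lit 1292) (nat_lit 5597833145) (nat_lit 0) (nat_lit 22913106419) (nat_lit 1216) (nat_lit 5597833145) (nat_lit 393) (nat_lit 1) (nat_lit 376) (nat_lit 1) (nat_lit 392) (nat_lit 1) (nat_lit 196) (nat_lit 414) (nat_lit 410)) (XT.lf (nat_lit 1292) (nat_lit 10258620290) (nat_lit 76) (nat_lit 11679964928) (nat_lit 0) (nat_lit 11679964928) (nat_lit 393) (nat_lit 1) (nat_lit 377) (nat_lit 1) (nat_lit 376) (nat_lit 1) (nat_lit 197) (nat_lit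 414) (nat_lit 409))))))) (XT.nd (nat_lit 702) (nat_lit 2508) (nat_lit 0) (XT.nd (nat_lit 312) (nat_lit 1064) (nat_lit 0) (XT.nd (nat_lit 156) (nat_lit 0) (nat_lit 76) (XT.nd (nat_lit 78) (nat_lit 0) (nat_lit 0) (XT.lf (nat_lit 1292) (nat_lit 4623648197) (nat_lit 0) (nat_lit 23892351153) (nat_lit 1216) (nat_lit 4623648197) (nat_lit 394) (nat_lit 1) (nat_lit 377) (nat_lit 1) (nat_lit 393) (nat_lit 1) (nat_lit 198) (nat_lit 414) (nat_lit 408)) (XT.lf (nat_lit 1292) (nat_lit 8031189798) (nat_lit 76) (nat_lit 12318340641) (nat_lit 0) (nat_lit 12318340641) (nat_lit 394) (nat_lit 1) (nat_lit 378) (nat_lit 1) (nat_lit 377) (nat_lit 1) (nat_lit 199) (nat_lit 414) (nat_lit 407))) (XT.nd (nat_lit 78) (nat_lit 0) (nat_lit 0) (XT.lf (nat_lit 1292) (nat_lit 3385493525) (nat_lit 0) (nat_lit 25436532603) (nat_lit 1216) (nat_lit 3385493525) (nat_lit 395) (nat_lit 1) (nat_lit 378) (nat_lit 1) (nat_lit 394) (nat_lit 1)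 (nat_lit 200) (nat_lit 414) (nat_lit 406)) (XT.lf (nat_lit 1292) (nat_lit 5298111468) (nat_lit 76) (nat_lit 13227600812) (nat_lit 0) (nat_lit 13227600812) (nat_lit 395) (nat_lit 1) (nat_lit 379) (nat_lit 1) (nat_lit 378) (nat_lit 1) (nat_lit 201) (nat_lit 414) (nat_lit 405)))) (XT.nd (nat_lit 156) (nat_lit 1216) (nat_lit 0) (XT.nd (nat_lit 78) (nat_lit 0) (nat_lit 0) (XT.lf (nat_lit 1292) (nat_lit 1907839312) (nat_lit 0) (nat_lit 27495129362) (nat_lit 1216) (nat_lit 1907839312) (nat_lit 396) (nat_lit 1) (nat_lit 379) (nat_lit 1) (nat_lit 395) (nat_lit 1) (nat_lit 202) (nat_lit 414) (nat_lit 404)) (XT.lf (nat_lit 1292) (nat_lit 2106863344) (nat_lit 76) (nat_lit 14383238384) (nat_lit 0) (nat_lit 14383238384) (nat_lit 396) (nat_lit 1) (nat_lit 380) (nat_lit 1) (nat_lit 379) (nat_lit 1) (nat_lit 203) (nat_lit 414) (nat_lit 403))) (XT.nd (nat_lit 78) (nat_lit 1292) (nat_lit 0) (XT.lf (nat_lit 1292) (nat_lit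 213479675) (nat_lit 0) (nat_lit 30021047099) (nat_lit 1216) (nat_lit 213479675) (nat_lit 397) (nat_lit 1) (nat_lit 380) (nat_lit 1) (nat_lit 396) (nat_lit 1) (nat_lit 204) (nat_lit 414) (nat_lit 402)) (XT.nd (nat_lit 78) (nat_lit 0) (nat_lit 0) (XT.lf (nat_lit 1368) (nat_lit 14278477560) (nat_lit 0) (nat_lit 1469101393) (nat_lit 1292) (nat_lit 14278477560) (nat_lit 381) (nat_lit 1) (nat_lit 363) (nat_lit 1) (nat_lit 380) (nat_lit 1) (nat_lit 205) (nat_lit 414) (nat_lit 401)) (XT.lf (nat_lit 1368) (nat_lit 26295880030) (nat_lit 76) (nat_lit 1659928280) (nat_lit 0) (nat_lit 1659928280) (nat_lit 381) (nat_lit 1) (nat_lit 364) (nat_lit 1) (nat_lit 363) (nat_lit 1) (nat_lit 206) (nat_lit 414) (nat_lit 400)))))) (XT.nd (nat_lit 390) (nat_lit 1824) (nat_lit 0) (XT.nd (nat_lit 156) (nat_lit 760) (nat_lit 0) (XT.nd (nat_lit 78) (nat_lit 0) (nat_lit 0) (XT.lf (nat_lit 1368) (nat_lit 11920153123) (nat_lit 0) (nat_lit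 5369478324) (nat_lit 1292) (nat_lit 11920153123) (nat_lit 382) (nat_lit 1) (nat_lit 364) (nat_lit 1) (nat_lit 381) (nat_lit 1) (nat_lit 207) (nat_lit 414) (nat_lit 399)) (XT.lf (nat_lit 1368) (nat_lit 21403612087) (nat_lit 76) (nat_lit 3705255525) (nat_lit 0) (nat_lit 3705255525) (nat_lit 382) (nat_lit 1) (nat_lit 365) (nat_lit 1) (nat_lit 364) (nat_lit 1) (nat_lit 208) (nat_lit 414) (nat_lit 398))) (XT.nd (nat_lit 78) (nat_lit 836) (nat_lit 0) (XT.lf (nat_lit 76) (nat_lit 9412986325) (nat_lit 0) (nat_lit 9597840833) (nat_lit 1292) (nat_lit 9412986325) (nat_lit 366) (nat_lit 1) (nat_lit 365) (nat_lit 1) (nat_lit 382) (nat_lit 1) (nat_lit 209) (nat_lit 414) (nat_lit 397)) (XT.nd (nat_lit 78) (nat_lit 0) (nat_lit 0) (XT.lf (nat_lit 912) (nat_lit 16229313611) (nat_lit 0) (nat_lit 5906408893) (nat_lit 836) (nat_lit 5906408893) (nat_lit 366) (nat_lit 1) (nat_lit 354) (nat_lit 1) (nat_lit 365) (nat_lit 1)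 (nat_lit 210) (nat_lit 414) (nat_lit 396)) (XT.lf (nat_lit 76) (nat_lit 6773799572) (nat_lit 0) (nat_lit 14119286939) (nat_lit 912) (nat_lit 6773799572) (nat_lit 355) (nat_lit 1) (nat_lit 354) (nat_lit 1) (nat_lit 366) (nat_lit 1) (nat_lit 211) (nat_lit 414) (nat_lit 395))))) (XT.nd (nat_lit 156) (nat_lit 1216) (nat_lit 0) (XT.nd (nat_lit 78) (nat_lit 0) (nat_lit 0) (XT.lf (nat_lit 684) (nat_lit 10805568484) (nat_lit 0) (nat_lit 8246484991) (nat_lit 608) (nat_lit 8246484991) (nat_lit 355) (nat_lit 1) (nat_lit 346) (nat_lit 1) (nat_lit 354) (nat_lit 1) (nat_lit 212) (nat_lit 414) (nat_lit 394)) (XT.lf (nat_lit 76) (nat_lit 4018208484) (nat_lit 0) (nat_lit 18901386360) (nat_lit 684) (nat_lit 4018208484) (nat_lit 347) (nat_lit 1) (nat_lit 346) (nat_lit 1) (nat_lit 355) (nat_lit 1) (nat_lit 213) (nat_lit 414) (nat_lit 393))) (XT.nd (nat_lit 78) (nat_lit 608) (nat_lit 0) (XT.lf (nat_lit 684) (nat_lit 5162612641)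 (nat_lit 0) (nat_lit 10709782543) (nat_lit 608) (nat_lit 10709782543) (nat_lit 347) (nat_lit 1) (nat_lit 338) (nat_lit 1) (nat_lit 346) (nat_lit 1) (nat_lit 214) (nat_lit 414) (nat_lit 392)) (XT.nd (nat_lit 78) (nat_lit 608) (nat_lit 0) (XT.lf (nat_lit 76) (nat_lit 1160698188) (nat_lit 0) (nat_lit 23914024991) (nat_lit 684) (nat_lit 1160698188) (nat_lit 339) (nat_lit 1) (nat_lit 338) (nat_lit 1) (nat_lit 347) (nat_lit 1) (nat_lit 215) (nat_lit 414) (nat_lit 391)) (XT.lf (nat_lit 76) (nat_lit 12616664430) (nat_lit 0) (nat_lit 658413521) (nat_lit 608) (nat_lit 12616664430) (nat_lit 331) (nat_lit 1) (nat_lit 330) (nat_lit 1) (nat_lit 338) (nat_lit 1) (nat_lit 216) (nat_lit 414) (nat_lit 390))))))))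
noncomputable def ec383 : XT := (XT.nd (nat_lit 1482) (nat_lit 4104) (nat_lit 0) (XT.nd (nat_lit 702) (nat_lit 2584) (nat_lit 0) (XT.nd (nat_lit 312) (nat_lit 1596) (nat_lit 0) (XT.nd (nat_lit 156) (nat_lit 532) (nat_lit 0) (XT.nd (nat_lit 78) (nat_lit 0) (nat_lit 0) (XT.lf (nat_lit 684) (nat_lit 22020975050) (nat_lit 0) (nat_lit 1767801976) (nat_lit 608) (nat_lit 1767801976) (nat_lit 331) (nat_lit 1) (nat_lit 322) (nat_lit 1) (nat_lit 330) (nat_lit 1) (nat_lit 217) (nat_lit 414) (nat_lit 389)) (XT.lf (nat_lit 76) (nat_lit 9342077743) (nat_lit 0) (nat_lit 6540671805) (nat_lit 684) (nat_lit 9342077743) (nat_lit 323) (nat_lit 1) (nat_lit 322) (nat_lit 1) (nat_lit 331) (nat_lit 1) (nat_lit 218) (nat_lit 414) (nat_lit 388))) (XT.nd (nat_lit 78) (nat_lit 0) (nat_lit 0) (XT.lf (nat_lit 608) (nat_lit 15380400611) (nat_lit 0) (nat_lit 4760234973) (nat_lit 532) (nat_lit 4760234973) (nat_lit 323) (nat_lit 1)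 (nat_lit 315) (nat_lit 1) (nat_lit 322) (nat_lit 1) (nat_lit 219) (nat_lit 414) (nat_lit 387)) (XT.lf (nat_lit 76) (nat_lit 6010295205) (nat_lit 0) (nat_lit 12561323671) (nat_lit 608) (nat_lit 6010295205) (nat_lit 316) (nat_lit 1) (nat_lit 315) (nat_lit 1) (nat_lit 323) (nat_lit 1) (nat_lit 220) (nat_lit 414) (nat_lit 386)))) (XT.nd (nat_lit 156) (nat_lit 1064) (nat_lit 0) (XT.nd (nat_lit 78) (nat_lit 0) (nat_lit 0) (XT.lf (nat_lit 608) (nat_lit 8635488527) (nat_lit 0) (nat_lit 7816586085) (nat_lit 532) (nat_lit 7816586085) (nat_lit 316) (nat_lit 1) (nat_lit 308) (nat_lit 1) (nat_lit 315) (nat_lit 1) (nat_lit 221) (nat_lit 414) (nat_lit 385)) (XT.lf (nat_lit 76) (nat_lit 2631740979) (nat_lit 0) (nat_lit 18698558955) (nat_lit 608) (nat_lit 2631740979) (nat_lit 309) (nat_lit 1) (nat_lit 308) (nat_lit 1) (nat_lit 316) (nat_lit 1) (nat_lit 222) (nat_lit 414) (nat_lit 384))) (XT.nd (nat_lit 78) (nat_lit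 608) (nat_lit 0) (XT.lf (nat_lit 532) (nat_lit 1806369967) (nat_lit 0) (nat_lit 10926321220) (nat_lit 456) (nat_lit 10926321220) (nat_lit 309) (nat_lit 1) (nat_lit 302) (nat_lit 1) (nat_lit 308) (nat_lit 1) (nat_lit 223) (nat_lit 414) (nat_lit 383)) (XT.nd (nat_lit 78) (nat_lit 0) (nat_lit 0) (XT.lf (nat_lit 608) (nat_lit 21810817786) (nat_lit 0) (nat_lit 776281193) (nat_lit 532) (nat_lit 776281193) (nat_lit 302) (nat_lit 1) (nat_lit 294) (nat_lit 1) (nat_lit 301) (nat_lit 1) (nat_lit 224) (nat_lit 414) (nat_lit 382)) (XT.lf (nat_lit 76) (nat_lit 9040232255) (nat_lit 0) (nat_lit 4989098564) (nat_lit 608) (nat_lit 9040232255) (nat_lit 295) (nat_lit 1) (nat_lit 294) (nat_lit 1) (nat_lit 302) (nat_lit 1) (nat_lit 225) (nat_lit 414) (nat_lit 381)))))) (XT.nd (nat_lit 390) (nat_lit 1216) (nat_lit 0) (XT.nd (nat_lit 156) (nat_lit 912) (nat_lit 0) (XT.nd (nat_lit 78) (nat_lit 0) (nat_lit 0) (XT.lf (nat_lit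 532) (nat_lit 14409849569) (nat_lit 0) (nat_lit 4186514771) (nat_lit 456) (nat_lit 4186514771) (nat_lit 295) (nat_lit 1) (nat_lit 288) (nat_lit 1) (nat_lit 294) (nat_lit 1) (nat_lit 226) (nat_lit 414) (nat_lit 380)) (XT.lf (nat_lit 76) (nat_lit 5351736982) (nat_lit 0) (nat_lit 11796915713) (nat_lit 532) (nat_lit 5351736982) (nat_lit 289) (nat_lit 1) (nat_lit 288) (nat_lit 1) (nat_lit 295) (nat_lit 1) (nat_lit 227) (nat_lit 414) (nat_lit 379))) (XT.nd (nat_lit 78) (nat_lit 456) (nat_lit 0) (XT.lf (nat_lit 532) (nat_lit 6989395013) (nat_lit 0) (nat_lit 7616682229) (nat_lit 456) (nat_lit 7616682229) (nat_lit 289) (nat_lit 1) (nat_lit 282) (nat_lit 1) (nat_lit 288) (nat_lit 1) (nat_lit 228) (nat_lit 414) (nat_lit 378)) (XT.nd (nat_lit 78) (nat_lit 456) (nat_lit 0) (XT.lf (nat_lit 76) (nat_lit 1657145593) (nat_lit 0) (nat_lit 18636908803) (nat_lit 532) (nat_lit 1657145593) (nat_lit 283) (nat_lit 1) (nat_lit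 282) (nat_lit 1) (nat_lit 289) (nat_lit 1) (nat_lit 229) (nat_lit 414) (nat_lit 377)) (XT.lf (nat_lit 76) (nat_lit 10627067088) (nat_lit 0) (nat_lit 427968167) (nat_lit 456) (nat_lit 10627067088) (nat_lit 277) (nat_lit 1) (nat_lit 276) (nat_lit 1) (nat_lit 282) (nat_lit 1) (nat_lit 230) (nat_lit 414) (nat_lit 376))))) (XT.nd (nat_lit 156) (nat_lit 760) (nat_lit 0) (XT.nd (nat_lit 78) (nat_lit 0) (nat_lit 0) (XT.lf (nat_lit 532) (nat_lit 17385098470) (nat_lit 0) (nat_lit 2016878292) (nat_lit 456) (nat_lit 2016878292) (nat_lit 277) (nat_lit 1) (nat_lit 270) (nat_lit 1) (nat_lit 276) (nat_lit 1) (nat_lit 231) (nat_lit 414) (nat_lit 375)) (XT.lf (nat_lit 76) (nat_lit 6728311717) (nat_lit 0) (nat_lit 7701638240) (nat_lit 532) (nat_lit 6728311717) (nat_lit 271) (nat_lit 1) (nat_lit 270) (nat_lit 1) (nat_lit 277) (nat_lit 1) (nat_lit 232) (nat_lit 414) (nat_lit 374))) (XT.nd (nat_lit 78) (nat_lit 380) (nat_lit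 0) (XT.lf (nat_lit 456) (nat_lit 9567063746) (nat_lit 0) (nat_lit 5667997718) (nat_lit 380) (nat_lit 5667997718) (nat_lit 271) (nat_lit 1) (nat_lit 265) (nat_lit 1) (nat_lit 270) (nat_lit 1) (nat_lit 233) (nat_lit 414) (nat_lit 373)) (XT.nd (nat_lit 78) (nat_lit 380) (nat_lit 0) (XT.lf (nat_lit 76) (nat_lit 2848034400) (nat_lit 0) (nat_lit 14956462038) (nat_lit 456) (nat_lit 2848034400) (nat_lit 266) (nat_lit 1) (nat_lit 265) (nat_lit 1) (nat_lit 271) (nat_lit 1) (nat_lit 234) (nat_lit 414) (nat_lit 372)) (XT.lf (nat_lit 456) (nat_lit 1791189298) (nat_lit 0) (nat_lit 9306919651) (nat_lit 380) (nat_lit 9306919651) (nat_lit 266) (nat_lit 1) (nat_lit 260) (nat_lit 1) (nat_lit 265) (nat_lit 1) (nat_lit 235) (nat_lit 414) (nat_lit 371))))))) (XT.nd (nat_lit 702) (nat_lit 2204) (nat_lit 0) (XT.nd (nat_lit 312) (nat_lit 1064) (nat_lit 0) (XT.nd (nat_lit 156) (nat_lit 380) (nat_lit 0) (XT.nd (nat_lit 78) (nat_lit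 0) (nat_lit 0) (XT.lf (nat_lit 456) (nat_lit 18165139919) (nat_lit 0) (nat_lit 998954558) (nat_lit 380) (nat_lit 998954558) (nat_lit 260) (nat_lit 1) (nat_lit 254) (nat_lit 1) (nat_lit 259) (nat_lit 1) (nat_lit 236) (nat_lit 414) (nat_lit 370)) (XT.lf (nat_lit 76) (nat_lit 7052526064) (nat_lit 0) (nat_lit 5817325361) (nat_lit 456) (nat_lit 7052526064) (nat_lit 255) (nat_lit 1) (nat_lit 254) (nat_lit 1) (nat_lit 260) (nat_lit 1) (nat_lit 237) (nat_lit 414) (nat_lit 369))) (XT.nd (nat_lit 78) (nat_lit 0) (nat_lit 0) (XT.lf (nat_lit 456) (nat_lit 10106186721) (nat_lit 0) (nat_lit 4790433965) (nat_lit 380) (nat_lit 4790433965) (nat_lit 255) (nat_lit 1) (nat_lit 249) (nat_lit 1) (nat_lit 254) (nat_lit 1) (nat_lit 238) (nat_lit 414) (nat_lit 368)) (XT.lf (nat_lit 76) (nat_lit 3061865933) (nat_lit 0) (nat_lit 13331939604) (nat_lit 456) (nat_lit 3061865933) (nat_lit 250) (nat_lit 1) (nat_lit 249) (nat_lit 1)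 (nat_lit 255) (nat_lit 1) (nat_lit 239) (nat_lit 414) (nat_lit 367)))) (XT.nd (nat_lit 156) (nat_lit 304) (nat_lit 0) (XT.nd (nat_lit 78) (nat_lit 456) (nat_lit 0) (XT.lf (nat_lit 380) (nat_lit 2126565553) (nat_lit 0) (nat_lit 8550327551) (nat_lit 304) (nat_lit 8550327551) (nat_lit 250) (nat_lit 1) (nat_lit 245) (nat_lit 1) (nat_lit 249) (nat_lit 1) (nat_lit 240) (nat_lit 414) (nat_lit 366)) (XT.lf (nat_lit 456) (nat_lit 17245952150) (nat_lit 0) (nat_lit 878914647) (nat_lit 380) (nat_lit 878914647) (nat_lit 245) (nat_lit 1) (nat_lit 239) (nat_lit 1) (nat_lit 244) (nat_lit 1) (nat_lit 241) (nat_lit 414) (nat_lit 365))) (XT.nd (nat_lit 78) (nat_lit 304) (nat_lit 0) (XT.lf (nat_lit 76) (nat_lit 6563352326) (nat_lit 0) (nat_lit 5654576766) (nat_lit 456) (nat_lit 6563352326) (nat_lit 240) (nat_lit 1) (nat_lit 239) (nat_lit 1) (nat_lit 245) (nat_lit 1) (nat_lit 242) (nat_lit 414) (nat_lit 364)) (XT.nd (nat_lit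 78) (nat_lit 0) (nat_lit 0) (XT.lf (nat_lit 380) (nat_lit 9071998210) (nat_lit 0) (nat_lit 4745824547) (nat_lit 304) (nat_lit 4745824547) (nat_lit 240) (nat_lit 1) (nat_lit 235) (nat_lit 1) (nat_lit 239) (nat_lit 1) (nat_lit 243) (nat_lit 414) (nat_lit 363)) (XT.lf (nat_lit 76) (nat_lit 2522784125) (nat_lit 0) (nat_lit 13304167633) (nat_lit 380) (nat_lit 2522784125) (nat_lit 236) (nat_lit 1) (nat_lit 235) (nat_lit 1) (nat_lit 240) (nat_lit 1) (nat_lit 244) (nat_lit 414) (nat_lit 362)))))) (XT.nd (nat_lit 390) (nat_lit 1216) (nat_lit 0) (XT.nd (nat_lit 156) (nat_lit 304) (nat_lit 0) (XT.nd (nat_lit 78) (nat_lit 380) (nat_lit 0) (XT.lf (nat_lit 380) (nat_lit 1005979932) (nat_lit 0) (nat_lit 8566137968) (nat_lit 304) (nat_lit 8566137968) (nat_lit 236) (nat_lit 1) (nat_lit 231) (nat_lit 1) (nat_lit 235) (nat_lit 1) (nat_lit 245) (nat_lit 414) (nat_lit 361)) (XT.lf (nat_lit 380) (nat_lit 15033724035) (nat_lit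 0) (nat_lit 1448612635) (nat_lit 304) (nat_lit 1448612635) (nat_lit 231) (nat_lit 1) (nat_lit 226) (nat_lit 1) (nat_lit 230) (nat_lit 1) (nat_lit 246) (nat_lit 414) (nat_lit 360))) (XT.nd (nat_lit 78) (nat_lit 304) (nat_lit 0) (XT.lf (nat_lit 76) (nat_lit 5456432020) (nat_lit 0) (nat_lit 6812199703) (nat_lit 380) (nat_lit 5456432020) (nat_lit 227) (nat_lit 1) (nat_lit 226) (nat_lit 1) (nat_lit 231) (nat_lit 1) (nat_lit 247) (nat_lit 414) (nat_lit 359)) (XT.nd (nat_lit 78) (nat_lit 0) (nat_lit 0) (XT.lf (nat_lit 380) (nat_lit 6845242824) (nat_lit 0) (nat_lit 5338993397) (nat_lit 304) (nat_lit 5338993397) (nat_lit 227) (nat_lit 1) (nat_lit 222) (nat_lit 1) (nat_lit 226) (nat_lit 1) (nat_lit 248) (nat_lit 414) (nat_lit 358)) (XT.lf (nat_lit 76) (nat_lit 1414160665) (nat_lit 0) (nat_lit 14496978806) (nat_lit 380) (nat_lit 1414160665) (nat_lit 223) (nat_lit 1) (nat_lit 222) (nat_lit 1) (nat_lit 227) (nat_lit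 1) (nat_lit 249) (nat_lit 414) (nat_lit 357))))) (XT.nd (nat_lit 156) (nat_lit 608) (nat_lit 0) (XT.nd (nat_lit 78) (nat_lit 304) (nat_lit 0) (XT.lf (nat_lit 76) (nat_lit 7969300247) (nat_lit 0) (nat_lit 1190045454) (nat_lit 304) (nat_lit 7969300247) (nat_lit 219) (nat_lit 1) (nat_lit 218) (nat_lit 1) (nat_lit 222) (nat_lit 1) (nat_lit 250) (nat_lit 414) (nat_lit 356)) (XT.lf (nat_lit 380) (nat_lit 11860009283) (nat_lit 0) (nat_lit 2537889357) (nat_lit 304) (nat_lit 2537889357) (nat_lit 219) (nat_lit 1) (nat_lit 214) (nat_lit 1) (nat_lit 218) (nat_lit 1) (nat_lit 251) (nat_lit 414) (nat_lit 355))) (XT.nd (nat_lit 78) (nat_lit 608) (nat_lit 0) (XT.lf (nat_lit 76) (nat_lit 3891393078) (nat_lit 0) (nat_lit 8962340942) (nat_lit 380) (nat_lit 3891393078) (nat_lit 215) (nat_lit 1) (nat_lit 214) (nat_lit 1) (nat_lit 219) (nat_lit 1) (nat_lit 252) (nat_lit 414) (nat_lit 354)) (XT.nd (nat_lit 78) (nat_lit 380)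 (nat_lit 0) (XT.lf (nat_lit 304) (nat_lit 3736451012) (nat_lit 0) (nat_lit 6410504604) (nat_lit 228) (nat_lit 6410504604) (nat_lit 215) (nat_lit 1) (nat_lit 211) (nat_lit 1) (nat_lit 214) (nat_lit 1) (nat_lit 253) (nat_lit 414) (nat_lit 353)) (XT.lf (nat_lit 380) (nat_lit 16147270164) (nat_lit 0) (nat_lit 113389468) (nat_lit 304) (nat_lit 113389468) (nat_lit 211) (nat_lit 1) (nat_lit 206) (nat_lit 1) (nat_lit 210) (nat_lit 1) (nat_lit 254) (nat_lit 414) (nat_lit 352))))))))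
noncomputable def ec384 : XT := (XT.nd (nat_lit 1404) (nat_lit 2128) (nat_lit 0) (XT.nd (nat_lit 702) (nat_lit 1292) (nat_lit 0) (XT.nd (nat_lit 312) (nat_lit 760) (nat_lit 0) (XT.nd (nat_lit 156) (nat_lit 304) (nat_lit 0) (XT.nd (nat_lit 78) (nat_lit 228) (nat_lit 0) (XT.lf (nat_lit 76) (nat_lit 6015636467) (nat_lit 0) (nat_lit 4159004466) (nat_lit 380) (nat_lit 6015636467) (nat_lit 207) (nat_lit 1) (nat_lit 206) (nat_lit 1) (nat_lit 211) (nat_lit 1) (nat_lit 255) (nat_lit 414) (nat_lit 351)) (XT.lf (nat_lit 304) (nat_lit 7994384567) (nat_lit 0) (nat_lit 4008143050) (nat_lit 228) (nat_lit 4008143050) (nat_lit 207) (nat_lit 1) (nat_lit 203) (nat_lit 1) (nat_lit 206) (nat_lit 1) (nat_lit 256) (nat_lit 414) (nat_lit 350))) (XT.nd (nat_lit 78) (nat_lit 304) (nat_lit 0) (XT.lf (nat_lit 76) (nat_lit 1997961574) (nat_lit 0) (nat_lit 11838066639) (nat_lit 304) (nat_lit 1997961574) (nat_lit 204) (nat_lit 1)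 (nat_lit 203) (nat_lit 1) (nat_lit 207) (nat_lit 1) (nat_lit 257) (nat_lit 414) (nat_lit 349)) (XT.lf (nat_lit 76) (nat_lit 7828488988) (nat_lit 0) (nat_lit 2095989) (nat_lit 304) (nat_lit 7828488988) (nat_lit 200) (nat_lit 1) (nat_lit 199) (nat_lit 1) (nat_lit 203) (nat_lit 1) (nat_lit 258) (nat_lit 414) (nat_lit 348)))) (XT.nd (nat_lit 156) (nat_lit 532) (nat_lit 0) (XT.nd (nat_lit 78) (nat_lit 0) (nat_lit 0) (XT.lf (nat_lit 304) (nat_lit 11641350092) (nat_lit 0) (nat_lit 1922826621) (nat_lit 228) (nat_lit 1922826621) (nat_lit 200) (nat_lit 1) (nat_lit 196) (nat_lit 1) (nat_lit 199) (nat_lit 1) (nat_lit 259) (nat_lit 414) (nat_lit 347)) (XT.lf (nat_lit 76) (nat_lit 3813710675) (nat_lit 0) (nat_lit 7689166004) (nat_lit 304) (nat_lit 3813710675) (nat_lit 197) (nat_lit 1) (nat_lit 196) (nat_lit 1) (nat_lit 200) (nat_lit 1) (nat_lit 260) (nat_lit 414) (nat_lit 346))) (XT.nd (nat_lit 78) (nat_lit 304)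 (nat_lit 0) (XT.lf (nat_lit 304) (nat_lit 3655019175) (nat_lit 0) (nat_lit 5746960061) (nat_lit 228) (nat_lit 5746960061) (nat_lit 197) (nat_lit 1) (nat_lit 193) (nat_lit 1) (nat_lit 196) (nat_lit 1) (nat_lit 261) (nat_lit 414) (nat_lit 345)) (XT.nd (nat_lit 78) (nat_lit 0) (nat_lit 0) (XT.lf (nat_lit 304) (nat_lit 14749444067) (nat_lit 0) (nat_lit 117769106) (nat_lit 228) (nat_lit 117769106) (nat_lit 193) (nat_lit 1) (nat_lit 189) (nat_lit 1) (nat_lit 192) (nat_lit 1) (nat_lit 262) (nat_lit 414) (nat_lit 344)) (XT.lf (nat_lit 76) (nat_lit 5367605058) (nat_lit 0) (nat_lit 4085313843) (nat_lit 304) (nat_lit 5367605058) (nat_lit 190) (nat_lit 1) (nat_lit 189) (nat_lit 1) (nat_lit 193) (nat_lit 1) (nat_lit 263) (nat_lit 414) (nat_lit 343)))))) (XT.nd (nat_lit 312) (nat_lit 608) (nat_lit 0) (XT.nd (nat_lit 156) (nat_lit 456) (nat_lit 0) (XT.nd (nat_lit 78) (nat_lit 0) (nat_lit 0) (XT.lf (nat_lit 304) (nat_lit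 6797843505) (nat_lit 0) (nat_lit 3930922808) (nat_lit 228) (nat_lit 3930922808) (nat_lit 190) (nat_lit 1) (nat_lit 186) (nat_lit 1) (nat_lit 189) (nat_lit 1) (nat_lit 264) (nat_lit 414) (nat_lit 342)) (XT.lf (nat_lit 76) (nat_lit 1453926046) (nat_lit 0) (nat_lit 11593726350) (nat_lit 304) (nat_lit 1453926046) (nat_lit 187) (nat_lit 1) (nat_lit 186) (nat_lit 1) (nat_lit 190) (nat_lit 1) (nat_lit 265) (nat_lit 414) (nat_lit 341))) (XT.nd (nat_lit 78) (nat_lit 228) (nat_lit 0) (XT.lf (nat_lit 76) (nat_lit 6690574290) (nat_lit 0) (nat_lit 963330417) (nat_lit 228) (nat_lit 6690574290) (nat_lit 184) (nat_lit 1) (nat_lit 183) (nat_lit 1) (nat_lit 186) (nat_lit 1) (nat_lit 266) (nat_lit 414) (nat_lit 340)) (XT.lf (nat_lit 304) (nat_lit 9486792324) (nat_lit 0) (nat_lit 2351625680) (nat_lit 228) (nat_lit 2351625680) (nat_lit 184) (nat_lit 1) (nat_lit 180) (nat_lit 1) (nat_lit 183) (nat_lit 1) (nat_lit 267) (nat_lit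 414) (nat_lit 339)))) (XT.nd (nat_lit 156) (nat_lit 456) (nat_lit 0) (XT.nd (nat_lit 78) (nat_lit 152) (nat_lit 0) (XT.lf (nat_lit 76) (nat_lit 2805967641) (nat_lit 0) (nat_lit 8425435421) (nat_lit 304) (nat_lit 2805967641) (nat_lit 181) (nat_lit 1) (nat_lit 180) (nat_lit 1) (nat_lit 184) (nat_lit 1) (nat_lit 268) (nat_lit 414) (nat_lit 338)) (XT.lf (nat_lit 228) (nat_lit 1767335848) (nat_lit 0) (nat_lit 6059701384) (nat_lit 152) (nat_lit 6059701384) (nat_lit 181) (nat_lit 1) (nat_lit 178) (nat_lit 1) (nat_lit 180) (nat_lit 1) (nat_lit 269) (nat_lit 414) (nat_lit 337))) (XT.nd (nat_lit 78) (nat_lit 152) (nat_lit 0) (XT.lf (nat_lit 304) (nat_lit 11775490568) (nat_lit 0) (nat_lit 981672142) (nat_lit 228) (nat_lit 981672142) (nat_lit 178) (nat_lit 1) (nat_lit 174) (nat_lit 1) (nat_lit 177) (nat_lit 1) (nat_lit 270) (nat_lit 414) (nat_lit 336)) (XT.nd (nat_lit 78) (nat_lit 152) (nat_lit 0) (XT.lf (nat_lit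 76) (nat_lit 3963136955) (nat_lit 0) (nat_lit 5665074440) (nat_lit 304) (nat_lit 3963136955) (nat_lit 175) (nat_lit 1) (nat_lit 174) (nat_lit 1) (nat_lit 178) (nat_lit 1) (nat_lit 271) (nat_lit 414) (nat_lit 335)) (XT.lf (nat_lit 228) (nat_lit 4133630415) (nat_lit 0) (nat_lit 4656454744) (nat_lit 152) (nat_lit 4656454744) (nat_lit 175) (nat_lit 1) (nat_lit 172) (nat_lit 1) (nat_lit 174) (nat_lit 1) (nat_lit 272) (nat_lit 414) (nat_lit 334))))))) (XT.nd (nat_lit 702) (nat_lit 988) (nat_lit 0) (XT.nd (nat_lit 312) (nat_lit 760) (nat_lit 0) (XT.nd (nat_lit 156) (nat_lit 152) (nat_lit 0) (XT.nd (nat_lit 78) (nat_lit 228) (nat_lit 0) (XT.lf (nat_lit 76) (nat_lit 205262615) (nat_lit 0) (nat_lit 12894231901) (nat_lit 228) (nat_lit 205262615) (nat_lit 173) (nat_lit 1) (nat_lit 172) (nat_lit 1) (nat_lit 175) (nat_lit 1) (nat_lit 273) (nat_lit 414) (nat_lit 333)) (XT.lf (nat_lit 76) (nat_lit 4948449300) (nat_lit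 0) (nat_lit 3265562930) (nat_lit 228) (nat_lit 4948449300) (nat_lit 170) (nat_lit 1) (nat_lit 169) (nat_lit 1) (nat_lit 172) (nat_lit 1) (nat_lit 274) (nat_lit 414) (nat_lit 332))) (XT.nd (nat_lit 78) (nat_lit 0) (nat_lit 0) (XT.lf (nat_lit 228) (nat_lit 6161391070) (nat_lit 0) (nat_lit 3430877934) (nat_lit 152) (nat_lit 3430877934) (nat_lit 170) (nat_lit 1) (nat_lit 167) (nat_lit 1) (nat_lit 169) (nat_lit 1) (nat_lit 275) (nat_lit 414) (nat_lit 331)) (XT.lf (nat_lit 76) (nat_lit 1236840429) (nat_lit 0) (nat_lit 10412432385) (nat_lit 228) (nat_lit 1236840429) (nat_lit 168) (nat_lit 1) (nat_lit 167) (nat_lit 1) (nat_lit 170) (nat_lit 1) (nat_lit 276) (nat_lit 414) (nat_lit 330)))) (XT.nd (nat_lit 156) (nat_lit 380) (nat_lit 0) (XT.nd (nat_lit 78) (nat_lit 152) (nat_lit 0) (XT.lf (nat_lit 76) (nat_lit 5782316067) (nat_lit 0) (nat_lit 1185116839) (nat_lit 228) (nat_lit 5782316067) (nat_lit 165) (nat_lit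 1) (nat_lit 164) (nat_lit 1) (nat_lit 167) (nat_lit 1) (nat_lit 277) (nat_lit 414) (nat_lit 329)) (XT.lf (nat_lit 228) (nat_lit 7890543332) (nat_lit 0) (nat_lit 2362541292) (nat_lit 152) (nat_lit 2362541292) (nat_lit 165) (nat_lit 1) (nat_lit 162) (nat_lit 1) (nat_lit 164) (nat_lit 1) (nat_lit 278) (nat_lit 414) (nat_lit 328))) (XT.nd (nat_lit 78) (nat_lit 380) (nat_lit 0) (XT.lf (nat_lit 76) (nat_lit 2122671317) (nat_lit 0) (nat_lit 8237791260) (nat_lit 228) (nat_lit 2122671317) (nat_lit 163) (nat_lit 1) (nat_lit 162) (nat_lit 1) (nat_lit 165) (nat_lit 1) (nat_lit 279) (nat_lit 414) (nat_lit 327)) (XT.nd (nat_lit 78) (nat_lit 228) (nat_lit 0) (XT.lf (nat_lit 228) (nat_lit 625550171) (nat_lit 0) (nat_lit 5863299191) (nat_lit 152) (nat_lit 5863299191) (nat_lit 163) (nat_lit 1) (nat_lit 160) (nat_lit 1) (nat_lit 162) (nat_lit 1) (nat_lit 280) (nat_lit 414) (nat_lit 326)) (XT.lf (nat_lit 228) (nat_lit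 9356497173) (nat_lit 0) (nat_lit 1433311303) (nat_lit 152) (nat_lit 1433311303) (nat_lit 160) (nat_lit 1) (nat_lit 157) (nat_lit 1) (nat_lit 159) (nat_lit 1) (nat_lit 281) (nat_lit 414) (nat_lit 325)))))) (XT.nd (nat_lit 390) (nat_lit 456) (nat_lit 0) (XT.nd (nat_lit 156) (nat_lit 380) (nat_lit 0) (XT.nd (nat_lit 78) (nat_lit 152) (nat_lit 0) (XT.lf (nat_lit 76) (nat_lit 2879902492) (nat_lit 0) (nat_lit 6335170789) (nat_lit 228) (nat_lit 2879902492) (nat_lit 158) (nat_lit 1) (nat_lit 157) (nat_lit 1) (nat_lit 160) (nat_lit 1) (nat_lit 282) (nat_lit 414) (nat_lit 324)) (XT.lf (nat_lit 228) (nat_lit 2205761304) (nat_lit 0) (nat_lit 4881496899) (nat_lit 152) (nat_lit 4881496899) (nat_lit 158) (nat_lit 1) (nat_lit 155) (nat_lit 1) (nat_lit 157) (nat_lit 1) (nat_lit 283) (nat_lit 414) (nat_lit 323))) (XT.nd (nat_lit 78) (nat_lit 152) (nat_lit 0) (XT.lf (nat_lit 228) (nat_lit 10590652398) (nat_lit 0) (nat_lit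 627094029) (nat_lit 152) (nat_lit 627094029) (nat_lit 155) (nat_lit 1) (nat_lit 152) (nat_lit 1) (nat_lit 154) (nat_lit 1) (nat_lit 284) (nat_lit 414) (nat_lit 322)) (XT.nd (nat_lit 78) (nat_lit 152) (nat_lit 0) (XT.lf (nat_lit 76) (nat_lit 3523742976) (nat_lit 0) (nat_lit 4673377339) (nat_lit 228) (nat_lit 3523742976) (nat_lit 153) (nat_lit 1) (nat_lit 152) (nat_lit 1) (nat_lit 155) (nat_lit 1) (nat_lit 285) (nat_lit 414) (nat_lit 321)) (XT.lf (nat_lit 228) (nat_lit 3561701106) (nat_lit 0) (nat_lit 4018730760) (nat_lit 152) (nat_lit 4018730760) (nat_lit 153) (nat_lit 1) (nat_lit 150) (nat_lit 1) (nat_lit 152) (nat_lit 1) (nat_lit 286) (nat_lit 414) (nat_lit 320))))) (XT.nd (nat_lit 156) (nat_lit 304) (nat_lit 0) (XT.nd (nat_lit 78) (nat_lit 152) (nat_lit 0) (XT.lf (nat_lit 76) (nat_lit 71089802) (nat_lit 0) (nat_lit 11337799916) (nat_lit 228) (nat_lit 71089802) (nat_lit 151) (nat_lit 1) (nat_lit 150)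 (nat_lit 1) (nat_lit 153) (nat_lit 1) (nat_lit 287) (nat_lit 414) (nat_lit 319)) (XT.lf (nat_lit 76) (nat_lit 4067680492) (nat_lit 0) (nat_lit 3224720815) (nat_lit 152) (nat_lit 4067680492) (nat_lit 149) (nat_lit 1) (nat_lit 148) (nat_lit 1) (nat_lit 150) (nat_lit 1) (nat_lit 288) (nat_lit 414) (nat_lit 318))) (XT.nd (nat_lit 78) (nat_lit 152) (nat_lit 0) (XT.lf (nat_lit 228) (nat_lit 4719778463) (nat_lit 0) (nat_lit 3261448472) (nat_lit 152) (nat_lit 3261448472) (nat_lit 149) (nat_lit 1) (nat_lit 146) (nat_lit 1) (nat_lit 148) (nat_lit 1) (nat_lit 289) (nat_lit 414) (nat_lit 317)) (XT.nd (nat_lit 78) (nat_lit 152) (nat_lit 0) (XT.lf (nat_lit 76) (nat_lit 678474223) (nat_lit 0) (nat_lit 9770379089) (nat_lit 228) (nat_lit 678474223) (nat_lit 147) (nat_lit 1) (nat_lit 146) (nat_lit 1) (nat_lit 149) (nat_lit 1) (nat_lit 290) (nat_lit 414) (nat_lit 316)) (XT.lf (nat_lit 76) (nat_lit 4523674149) (nat_lit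 0) (nat_lit 1964623239) (nat_lit 152) (nat_lit 4523674149) (nat_lit 145) (nat_lit 1) (nat_lit 144) (nat_lit 1) (nat_lit 146) (nat_lit 1) (nat_lit 291) (nat_lit 414) (nat_lit 315))))))))
noncomputable def ec385 : XT := (XT.nd (nat_lit 1482) (nat_lit 1368) (nat_lit 0) (XT.nd (nat_lit 702) (nat_lit 1140) (nat_lit 0) (XT.nd (nat_lit 312) (nat_lit 380) (nat_lit 0) (XT.nd (nat_lit 156) (nat_lit 304) (nat_lit 0) (XT.nd (nat_lit 78) (nat_lit 0) (nat_lit 0) (XT.lf (nat_lit 228) (nat_lit 5703416559) (nat_lit 0) (nat_lit 2597617096) (nat_lit 152) (nat_lit 2597617096) (nat_lit 145) (nat_lit 1) (nat_lit 142) (nat_lit 1) (nat_lit 144) (nat_lit 1) (nat_lit 292) (nat_lit 414) (nat_lit 314)) (XT.lf (nat_lit 76) (nat_lit 1200205709) (nat_lit 0) (nat_lit 8386574412) (nat_lit 228) (nat_lit 1200205709) (nat_lit 143) (nat_lit 1) (nat_lit 142) (nat_lit 1) (nat_lit 145) (nat_lit 1) (nat_lit 293) (nat_lit 414) (nat_lit 313)))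 (XT.nd (nat_lit 78) (nat_lit 152) (nat_lit 0) (XT.lf (nat_lit 76) (nat_lit 4902325615) (nat_lit 0) (nat_lit 871271003) (nat_lit 152) (nat_lit 4902325615) (nat_lit 141) (nat_lit 1) (nat_lit 140) (nat_lit 1) (nat_lit 142) (nat_lit 1) (nat_lit 294) (nat_lit 414) (nat_lit 312)) (XT.lf (nat_lit 228) (nat_lit 6533387009) (nat_lit 0) (nat_lit 2016553390) (nat_lit 152) (nat_lit 2016553390) (nat_lit 141) (nat_lit 1) (nat_lit 138) (nat_lit 1) (nat_lit 140) (nat_lit 1) (nat_lit 295) (nat_lit 414) (nat_lit 311)))) (XT.nd (nat_lit 156) (nat_lit 304) (nat_lit 0) (XT.nd (nat_lit 78) (nat_lit 76) (nat_lit 0) (XT.lf (nat_lit 76) (nat_lit 1646357664) (nat_lit 0) (nat_lit 7165653166) (nat_lit 228) (nat_lit 1646357664) (nat_lit 139) (nat_lit 1) (nat_lit 138) (nat_lit 1) (nat_lit 141) (nat_lit 1) (nat_lit 296) (nat_lit 414) (nat_lit 310)) (XT.lf (nat_lit 152) (nat_lit 76180642) (nat_lit 0) (nat_lit 5137582839) (nat_lit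 76) (nat_lit 5137582839) (nat_lit 139) (nat_lit 1) (nat_lit 137) (nat_lit 1) (nat_lit 138) (nat_lit 1) (nat_lit 297) (nat_lit 414) (nat_lit 309))) (XT.nd (nat_lit 78) (nat_lit 76) (nat_lit 0) (XT.lf (nat_lit 228) (nat_lit 7228106696) (nat_lit 0) (nat_lit 1508773068) (nat_lit 152) (nat_lit 1508773068) (nat_lit 137) (nat_lit 1) (nat_lit 134) (nat_lit 1) (nat_lit 136) (nat_lit 1) (nat_lit 298) (nat_lit 414) (nat_lit 308)) (XT.nd (nat_lit 78) (nat_lit 76) (nat_lit 0) (XT.lf (nat_lit 76) (nat_lit 2025864972) (nat_lit 0) (nat_lit 6089202092) (nat_lit 228) (nat_lit 2025864972) (nat_lit 135) (nat_lit 1) (nat_lit 134) (nat_lit 1) (nat_lit 137) (nat_lit 1) (nat_lit 299) (nat_lit 414) (nat_lit 307)) (XT.lf (nat_lit 152) (nat_lit 908170962) (nat_lit 0) (nat_lit 4564675810) (nat_lit 76) (nat_lit 4564675810) (nat_lit 135) (nat_lit 1) (nat_lit 133) (nat_lit 1) (nat_lit 134) (nat_lit 1) (nat_lit 300) (nat_lit 414)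 (nat_lit 306)))))) (XT.nd (nat_lit 390) (nat_lit 608) (nat_lit 0) (XT.nd (nat_lit 156) (nat_lit 304) (nat_lit 0) (XT.nd (nat_lit 78) (nat_lit 0) (nat_lit 0) (XT.lf (nat_lit 228) (nat_lit 7803901470) (nat_lit 0) (nat_lit 1065856882) (nat_lit 152) (nat_lit 1065856882) (nat_lit 133) (nat_lit 1) (nat_lit 130) (nat_lit 1) (nat_lit 132) (nat_lit 1) (nat_lit 301) (nat_lit 414) (nat_lit 305)) (XT.lf (nat_lit 76) (nat_lit 2346651402) (nat_lit 0) (nat_lit 5140868514) (nat_lit 228) (nat_lit 2346651402) (nat_lit 131) (nat_lit 1) (nat_lit 130) (nat_lit 1) (nat_lit 133) (nat_lit 1) (nat_lit 302) (nat_lit 414) (nat_lit 304))) (XT.nd (nat_lit 78) (nat_lit 228) (nat_lit 0) (XT.lf (nat_lit 152) (nat_lit 1622903426) (nat_lit 0) (nat_lit 4055655335) (nat_lit 76) (nat_lit 4055655335) (nat_lit 131) (nat_lit 1) (nat_lit 129) (nat_lit 1) (nat_lit 130) (nat_lit 1) (nat_lit 303) (nat_lit 414) (nat_lit 303)) (XT.nd (nat_lit 78)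 (nat_lit 0) (nat_lit 0) (XT.lf (nat_lit 228) (nat_lit 8275240419) (nat_lit 0) (nat_lit 680331639) (nat_lit 152) (nat_lit 680331639) (nat_lit 129) (nat_lit 1) (nat_lit 126) (nat_lit 1) (nat_lit 128) (nat_lit 1) (nat_lit 304) (nat_lit 414) (nat_lit 302)) (XT.lf (nat_lit 76) (nat_lit 2615742787) (nat_lit 0) (nat_lit 4306130355) (nat_lit 228) (nat_lit 2615742787) (nat_lit 127) (nat_lit 1) (nat_lit 126) (nat_lit 1) (nat_lit 129) (nat_lit 1) (nat_lit 305) (nat_lit 414) (nat_lit 301))))) (XT.nd (nat_lit 156) (nat_lit 304) (nat_lit 0) (XT.nd (nat_lit 78) (nat_lit 228) (nat_lit 0) (XT.lf (nat_lit 152) (nat_lit 2234166819) (nat_lit 0) (nat_lit 3603397236) (nat_lit 76) (nat_lit 3603397236) (nat_lit 127) (nat_lit 1) (nat_lit 125) (nat_lit 1) (nat_lit 126) (nat_lit 1) (nat_lit 306) (nat_lit 414) (nat_lit 300)) (XT.lf (nat_lit 228) (nat_lit 8654943968) (nat_lit 0) (nat_lit 345564495) (nat_lit 152) (nat_lit 345564495)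 (nat_lit 125) (nat_lit 1) (nat_lit 122) (nat_lit 1) (nat_lit 124) (nat_lit 1) (nat_lit 307) (nat_lit 414) (nat_lit 299))) (XT.nd (nat_lit 78) (nat_lit 304) (nat_lit 0) (XT.lf (nat_lit 76) (nat_lit 2839367578) (nat_lit 0) (nat_lit 3572091791) (nat_lit 228) (nat_lit 2839367578) (nat_lit 123) (nat_lit 1) (nat_lit 122) (nat_lit 1) (nat_lit 125) (nat_lit 1) (nat_lit 308) (nat_lit 414) (nat_lit 298)) (XT.nd (nat_lit 78) (nat_lit 228) (nat_lit 0) (XT.lf (nat_lit 152) (nat_lit 2754191529) (nat_lit 0) (nat_lit 3201571773) (nat_lit 76) (nat_lit 3201571773) (nat_lit 123) (nat_lit 1) (nat_lit 121) (nat_lit 1) (nat_lit 122) (nat_lit 1) (nat_lit 309) (nat_lit 414) (nat_lit 297)) (XT.lf (nat_lit 228) (nat_lit 8954368760) (nat_lit 0) (nat_lit 55669040) (nat_lit 152) (nat_lit 55669040) (nat_lit 121) (nat_lit 1) (nat_lit 118) (nat_lit 1) (nat_lit 120) (nat_lit 1) (nat_lit 310) (nat_lit 414) (nat_lit 296))))))) (XT.nd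 (nat_lit 702) (nat_lit 836) (nat_lit 0) (XT.nd (nat_lit 312) (nat_lit 304) (nat_lit 0) (XT.nd (nat_lit 156) (nat_lit 152) (nat_lit 0) (XT.nd (nat_lit 78) (nat_lit 76) (nat_lit 0) (XT.lf (nat_lit 76) (nat_lit 3023046163) (nat_lit 0) (nat_lit 2927301701) (nat_lit 228) (nat_lit 3023046163) (nat_lit 119) (nat_lit 1) (nat_lit 118) (nat_lit 1) (nat_lit 121) (nat_lit 1) (nat_lit 311) (nat_lit 414) (nat_lit 295)) (XT.lf (nat_lit 152) (nat_lit 3193823936) (nat_lit 0) (nat_lit 2844555053) (nat_lit 76) (nat_lit 2844555053) (nat_lit 119) (nat_lit 1) (nat_lit 117) (nat_lit 1) (nat_lit 118) (nat_lit 1) (nat_lit 312) (nat_lit 414) (nat_lit 294))) (XT.nd (nat_lit 78) (nat_lit 152) (nat_lit 0) (XT.lf (nat_lit 0) (nat_lit 196504652) (nat_lit 0) (nat_lit 8401178479) (nat_lit 152) (nat_lit 196504652) (nat_lit 117) (nat_lit 3) (nat_lit 117) (nat_lit 1) (nat_lit 119) (nat_lit 1) (nat_lit 313) (nat_lit 414) (nat_lit 293))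 (XT.lf (nat_lit 76) (nat_lit 3171670220) (nat_lit 0) (nat_lit 2361592376) (nat_lit 152) (nat_lit 3171670220) (nat_lit 116) (nat_lit 1) (nat_lit 115) (nat_lit 1) (nat_lit 117) (nat_lit 1) (nat_lit 314) (nat_lit 414) (nat_lit 292)))) (XT.nd (nat_lit 156) (nat_lit 228) (nat_lit 0) (XT.nd (nat_lit 78) (nat_lit 0) (nat_lit 0) (XT.lf (nat_lit 152) (nat_lit 3562681331) (nat_lit 0) (nat_lit 2527350321) (nat_lit 76) (nat_lit 2527350321) (nat_lit 116) (nat_lit 1) (nat_lit 114) (nat_lit 1) (nat_lit 115) (nat_lit 1) (nat_lit 315) (nat_lit 414) (nat_lit 291)) (XT.lf (nat_lit 0) (nat_lit 413869109) (nat_lit 0) (nat_lit 7703615537) (nat_lit 152) (nat_lit 413869109) (nat_lit 114) (nat_lit 3) (nat_lit 114) (nat_lit 1) (nat_lit 116) (nat_lit 1) (nat_lit 316) (nat_lit 414) (nat_lit 290))) (XT.nd (nat_lit 78) (nat_lit 76) (nat_lit 0) (XT.lf (nat_lit 76) (nat_lit 3289573212) (nat_lit 0) (nat_lit 1865936208) (nat_lit 152)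 (nat_lit 3289573212) (nat_lit 113) (nat_lit 1) (nat_lit 112) (nat_lit 1) (nat_lit 114) (nat_lit 1) (nat_lit 317) (nat_lit 414) (nat_lit 289)) (XT.nd (nat_lit 78) (nat_lit 0) (nat_lit 0) (XT.lf (nat_lit 152) (nat_lit 3869289549) (nat_lit 0) (nat_lit 2245518026) (nat_lit 76) (nat_lit 2245518026) (nat_lit 113) (nat_lit 1) (nat_lit 111) (nat_lit 1) (nat_lit 112) (nat_lit 1) (nat_lit 318) (nat_lit 414) (nat_lit 288)) (XT.lf (nat_lit 0) (nat_lit 600025373) (nat_lit 0) (nat_lit 7076870657) (nat_lit 152) (nat_lit 600025373) (nat_lit 111) (nat_lit 3) (nat_lit 111) (nat_lit 1) (nat_lit 113) (nat_lit 1) (nat_lit 319) (nat_lit 414) (nat_lit 287)))))) (XT.nd (nat_lit 390) (nat_lit 380) (nat_lit 0) (XT.nd (nat_lit 156) (nat_lit 228) (nat_lit 0) (XT.nd (nat_lit 78) (nat_lit 76) (nat_lit 0) (XT.lf (nat_lit 76) (nat_lit 3380592998) (nat_lit 0) (nat_lit 1432318377) (nat_lit 152) (nat_lit 3380592998) (nat_lit 110) (nat_lit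 1) (nat_lit 109) (nat_lit 1) (nat_lit 111) (nat_lit 1) (nat_lit 320) (nat_lit 414) (nat_lit 286)) (XT.lf (nat_lit 152) (nat_lit 4121205232) (nat_lit 0) (nat_lit 1995113682) (nat_lit 76) (nat_lit 1995113682) (nat_lit 110) (nat_lit 1) (nat_lit 108) (nat_lit 1) (nat_lit 109) (nat_lit 1) (nat_lit 321) (nat_lit 414) (nat_lit 285))) (XT.nd (nat_lit 78) (nat_lit 228) (nat_lit 0) (XT.lf (nat_lit 0) (nat_lit 758656549) (nat_lit 0) (nat_lit 6513249695) (nat_lit 152) (nat_lit 758656549) (nat_lit 108) (nat_lit 3) (nat_lit 108) (nat_lit 1) (nat_lit 110) (nat_lit 1) (nat_lit 322) (nat_lit 414) (nat_lit 284)) (XT.nd (nat_lit 78) (nat_lit 76) (nat_lit 0) (XT.lf (nat_lit 76) (nat_lit 3448127469) (nat_lit 0) (nat_lit 1053623727) (nat_lit 152) (nat_lit 3448127469) (nat_lit 107) (nat_lit 1) (nat_lit 106) (nat_lit 1) (nat_lit 108) (nat_lit 1) (nat_lit 323) (nat_lit 414) (nat_lit 283)) (XT.lf (nat_lit 152) (nat_lit 4325124444)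 (nat_lit 0) (nat_lit 1772632666) (nat_lit 76) (nat_lit 1772632666) (nat_lit 107) (nat_lit 1) (nat_lit 105) (nat_lit 1) (nat_lit 106) (nat_lit 1) (nat_lit 324) (nat_lit 414) (nat_lit 282))))) (XT.nd (nat_lit 156) (nat_lit 228) (nat_lit 0) (XT.nd (nat_lit 78) (nat_lit 152) (nat_lit 0) (XT.lf (nat_lit 0) (nat_lit 893029116) (nat_lit 0) (nat_lit 6005910592) (nat_lit 152) (nat_lit 893029116) (nat_lit 105) (nat_lit 3) (nat_lit 105) (nat_lit 1) (nat_lit 107) (nat_lit 1) (nat_lit 325) (nat_lit 414) (nat_lit 281)) (XT.lf (nat_lit 76) (nat_lit 3495183950) (nat_lit 0) (nat_lit 723536279) (nat_lit 152) (nat_lit 3495183950) (nat_lit 104) (nat_lit 1) (nat_lit 103) (nat_lit 1) (nat_lit 105) (nat_lit 1) (nat_lit 326) (nat_lit 414) (nat_lit 280))) (XT.nd (nat_lit 78) (nat_lit 152) (nat_lit 0) (XT.lf (nat_lit 152) (nat_lit 4486979160) (nat_lit 0) (nat_lit 1574961164) (nat_lit 76) (nat_lit 1574961164) (nat_lit 104) (nat_lit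 1) (nat_lit 102) (nat_lit 1) (nat_lit 103) (nat_lit 1) (nat_lit 327) (nat_lit 414) (nat_lit 279)) (XT.nd (nat_lit 78) (nat_lit 152) (nat_lit 0) (XT.lf (nat_lit 0) (nat_lit 1006039559) (nat_lit 0) (nat_lit 5548768528) (nat_lit 152) (nat_lit 1006039559) (nat_lit 102) (nat_lit 3) (nat_lit 102) (nat_lit 1) (nat_lit 104) (nat_lit 1) (nat_lit 328) (nat_lit 414) (nat_lit 278)) (XT.lf (nat_lit 76) (nat_lit 3524423101) (nat_lit 0) (nat_lit 436449937) (nat_lit 152) (nat_lit 3524423101) (nat_lit 101) (nat_lit 1) (nat_lit 100) (nat_lit 1) (nat_lit 102) (nat_lit 1) (nat_lit 329) (nat_lit 414) (nat_lit 277))))))))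
noncomputable def ec386 : XT := (XT.nd (nat_lit 1482) (nat_lit 1368) (nat_lit 0) (XT.nd (nat_lit 702) (nat_lit 836) (nat_lit 0) (XT.nd (nat_lit 312) (nat_lit 304) (nat_lit 0) (XT.nd (nat_lit 156) (nat_lit 228) (nat_lit 0) (XT.nd (nat_lit 78) (nat_lit 0) (nat_lit 0) (XT.lf (nat_lit 152) (nat_lit 4612022975) (nat_lit 0) (nat_lit 1399332595) (nat_lit 76) (nat_lit 1399332595) (nat_lit 101) (nat_lit 1) (nat_lit 99) (nat_lit 1) (nat_lit 100) (nat_lit 1) (nat_lit 330) (nat_lit 414) (nat_lit 276)) (XT.lf (nat_lit 0) (nat_lit 1100255794) (nat_lit 0) (nat_lit 5136411645) (nat_lit 152) (nat_lit 1100255794) (nat_lit 99) (nat_lit 3) (nat_lit 99) (nat_lit 1) (nat_lit 101) (nat_lit 1) (nat_lit 331) (nat_lit 414) (nat_lit 275))) (XT.nd (nat_lit 78) (nat_lit 76) (nat_lit 0) (XT.lf (nat_lit 76) (nat_lit 3538197900) (nat_lit 0) (nat_lit 187389169) (nat_lit 152) (nat_lit 3538197900) (nat_lit 98) (nat_lit 1) (nat_lit 97)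 (nat_lit 1) (nat_lit 99) (nat_lit 1) (nat_lit 332) (nat_lit 414) (nat_lit 274)) (XT.lf (nat_lit 152) (nat_lit 4704907249) (nat_lit 0) (nat_lit 1243288886) (nat_lit 76) (nat_lit 1243288886) (nat_lit 98) (nat_lit 1) (nat_lit 96) (nat_lit 1) (nat_lit 97) (nat_lit 1) (nat_lit 333) (nat_lit 414) (nat_lit 273)))) (XT.nd (nat_lit 156) (nat_lit 228) (nat_lit 0) (XT.nd (nat_lit 78) (nat_lit 76) (nat_lit 0) (XT.lf (nat_lit 0) (nat_lit 1177953969) (nat_lit 0) (nat_lit 4764026166) (nat_lit 152) (nat_lit 1177953969) (nat_lit 96) (nat_lit 3) (nat_lit 96) (nat_lit 1) (nat_lit 98) (nat_lit 1) (nat_lit 334) (nat_lit 414) (nat_lit 272)) (XT.lf (nat_lit 76) (nat_lit 28619946) (nat_lit 0) (nat_lit 3510243438) (nat_lit 76) (nat_lit 3510243438) (nat_lit 96) (nat_lit 3) (nat_lit 95) (nat_lit 1) (nat_lit 96) (nat_lit 1) (nat_lit 335) (nat_lit 414) (nat_lit 271))) (XT.nd (nat_lit 78) (nat_lit 76) (nat_lit 0) (XT.lf (nat_lit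 152) (nat_lit 4769748735) (nat_lit 0) (nat_lit 1104646072) (nat_lit 76) (nat_lit 1104646072) (nat_lit 95) (nat_lit 1) (nat_lit 93) (nat_lit 1) (nat_lit 94) (nat_lit 1) (nat_lit 336) (nat_lit 414) (nat_lit 270)) (XT.nd (nat_lit 78) (nat_lit 76) (nat_lit 0) (XT.lf (nat_lit 0) (nat_lit 1241151162) (nat_lit 0) (nat_lit 4427329862) (nat_lit 152) (nat_lit 1241151162) (nat_lit 93) (nat_lit 3) (nat_lit 93) (nat_lit 1) (nat_lit 95) (nat_lit 1) (nat_lit 337) (nat_lit 414) (nat_lit 269)) (XT.lf (nat_lit 76) (nat_lit 218075374) (nat_lit 0) (nat_lit 3311452752) (nat_lit 76) (nat_lit 3311452752) (nat_lit 93) (nat_lit 3) (nat_lit 92) (nat_lit 1) (nat_lit 93) (nat_lit 1) (nat_lit 338) (nat_lit 414) (nat_lit 268)))))) (XT.nd (nat_lit 390) (nat_lit 456) (nat_lit 0) (XT.nd (nat_lit 156) (nat_lit 228) (nat_lit 0) (XT.nd (nat_lit 78) (nat_lit 0) (nat_lit 0) (XT.lf (nat_lit 152) (nat_lit 4810189665) (nat_lit 0) (nat_lit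 981463728) (nat_lit 76) (nat_lit 981463728) (nat_lit 92) (nat_lit 1) (nat_lit 90) (nat_lit 1) (nat_lit 91) (nat_lit 1) (nat_lit 339) (nat_lit 414) (nat_lit 267)) (XT.lf (nat_lit 0) (nat_lit 1291634419) (nat_lit 0) (nat_lit 4122512927) (nat_lit 152) (nat_lit 1291634419) (nat_lit 90) (nat_lit 3) (nat_lit 90) (nat_lit 1) (nat_lit 92) (nat_lit 1) (nat_lit 340) (nat_lit 414) (nat_lit 266))) (XT.nd (nat_lit 78) (nat_lit 152) (nat_lit 0) (XT.lf (nat_lit 76) (nat_lit 380792992) (nat_lit 0) (nat_lit 3129218727) (nat_lit 76) (nat_lit 3129218727) (nat_lit 90) (nat_lit 3) (nat_lit 89) (nat_lit 1) (nat_lit 90) (nat_lit 1) (nat_lit 341) (nat_lit 414) (nat_lit 265)) (XT.nd (nat_lit 78) (nat_lit 0) (nat_lit 0) (XT.lf (nat_lit 152) (nat_lit 4829451110) (nat_lit 0) (nat_lit 872017810) (nat_lit 76) (nat_lit 872017810) (nat_lit 89) (nat_lit 1) (nat_lit 87) (nat_lit 1) (nat_lit 88) (nat_lit 1) (nat_lit 342) (nat_lit 414)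 (nat_lit 264)) (XT.lf (nat_lit 0) (nat_lit 1330986556) (nat_lit 0) (nat_lit 3846185444) (nat_lit 152) (nat_lit 1330986556) (nat_lit 87) (nat_lit 3) (nat_lit 87) (nat_lit 1) (nat_lit 89) (nat_lit 1) (nat_lit 343) (nat_lit 414) (nat_lit 263))))) (XT.nd (nat_lit 156) (nat_lit 228) (nat_lit 0) (XT.nd (nat_lit 78) (nat_lit 152) (nat_lit 0) (XT.lf (nat_lit 76) (nat_lit 519917842) (nat_lit 0) (nat_lit 2961858510) (nat_lit 76) (nat_lit 2961858510) (nat_lit 87) (nat_lit 3) (nat_lit 86) (nat_lit 1) (nat_lit 87) (nat_lit 1) (nat_lit 344) (nat_lit 414) (nat_lit 262)) (XT.lf (nat_lit 152) (nat_lit 4830380387) (nat_lit 0) (nat_lit 774776530) (nat_lit 76) (nat_lit 774776530) (nat_lit 86) (nat_lit 1) (nat_lit 84) (nat_lit 1) (nat_lit 85) (nat_lit 1) (nat_lit 345) (nat_lit 414) (nat_lit 261))) (XT.nd (nat_lit 78) (nat_lit 228) (nat_lit 0) (XT.lf (nat_lit 0) (nat_lit 1360609077) (nat_lit 0) (nat_lit 3595330712) (nat_lit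 152) (nat_lit 1360609077) (nat_lit 84) (nat_lit 3) (nat_lit 84) (nat_lit 1) (nat_lit 86) (nat_lit 1) (nat_lit 346) (nat_lit 414) (nat_lit 260)) (XT.nd (nat_lit 78) (nat_lit 152) (nat_lit 0) (XT.lf (nat_lit 76) (nat_lit 638239493) (nat_lit 0) (nat_lit 2807872148) (nat_lit 76) (nat_lit 2807872148) (nat_lit 84) (nat_lit 3) (nat_lit 83) (nat_lit 1) (nat_lit 84) (nat_lit 1) (nat_lit 347) (nat_lit 414) (nat_lit 259)) (XT.lf (nat_lit 152) (nat_lit 4815493154) (nat_lit 0) (nat_lit 688378912) (nat_lit 76) (nat_lit 688378912) (nat_lit 83) (nat_lit 1) (nat_lit 81) (nat_lit 1) (nat_lit 82) (nat_lit 1) (nat_lit 348) (nat_lit 414) (nat_lit 258))))))) (XT.nd (nat_lit 702) (nat_lit 684) (nat_lit 0) (XT.nd (nat_lit 312) (nat_lit 456) (nat_lit 0) (XT.nd (nat_lit 156) (nat_lit 152) (nat_lit 0) (XT.nd (nat_lit 78) (nat_lit 76) (nat_lit 0) (XT.lf (nat_lit 0) (nat_lit 1381742534) (nat_lit 0) (nat_lit 3367263762) (nat_lit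 152) (nat_lit 1381742534) (nat_lit 81) (nat_lit 3) (nat_lit 81) (nat_lit 1) (nat_lit 83) (nat_lit 1) (nat_lit 349) (nat_lit 414) (nat_lit 257)) (XT.lf (nat_lit 76) (nat_lit 738231819) (nat_lit 0) (nat_lit 2665922331) (nat_lit 76) (nat_lit 2665922331) (nat_lit 81) (nat_lit 3) (nat_lit 80) (nat_lit 1) (nat_lit 81) (nat_lit 1) (nat_lit 350) (nat_lit 414) (nat_lit 256))) (XT.nd (nat_lit 78) (nat_lit 0) (nat_lit 0) (XT.lf (nat_lit 152) (nat_lit 4787010815) (nat_lit 0) (nat_lit 611615747) (nat_lit 76) (nat_lit 611615747) (nat_lit 80) (nat_lit 1) (nat_lit 78) (nat_lit 1) (nat_lit 79) (nat_lit 1) (nat_lit 351) (nat_lit 414) (nat_lit 255)) (XT.lf (nat_lit 0) (nat_lit 1395484608) (nat_lit 0) (nat_lit 3159594503) (nat_lit 152) (nat_lit 1395484608) (nat_lit 78) (nat_lit 3) (nat_lit 78) (nat_lit 1) (nat_lit 80) (nat_lit 1) (nat_lit 352) (nat_lit 414) (nat_lit 254)))) (XT.nd (nat_lit 156) (nat_lit 228) (nat_lit 0)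 (XT.nd (nat_lit 78) (nat_lit 152) (nat_lit 0) (XT.lf (nat_lit 76) (nat_lit 822088337) (nat_lit 0) (nat_lit 2534816390) (nat_lit 76) (nat_lit 2534816390) (nat_lit 78) (nat_lit 3) (nat_lit 77) (nat_lit 1) (nat_lit 78) (nat_lit 1) (nat_lit 353) (nat_lit 414) (nat_lit 253)) (XT.lf (nat_lit 152) (nat_lit 4746893727) (nat_lit 0) (nat_lit 543412669) (nat_lit 76) (nat_lit 543412669) (nat_lit 77) (nat_lit 1) (nat_lit 75) (nat_lit 1) (nat_lit 76) (nat_lit 1) (nat_lit 354) (nat_lit 414) (nat_lit 252))) (XT.nd (nat_lit 78) (nat_lit 228) (nat_lit 0) (XT.lf (nat_lit 0) (nat_lit 1402806178) (nat_lit 0) (nat_lit 2970194971) (nat_lit 152) (nat_lit 1402806178) (nat_lit 75) (nat_lit 3) (nat_lit 75) (nat_lit 1) (nat_lit 77) (nat_lit 1) (nat_lit 355) (nat_lit 414) (nat_lit 251)) (XT.nd (nat_lit 78) (nat_lit 152) (nat_lit 0) (XT.lf (nat_lit 76) (nat_lit 891753604) (nat_lit 0) (nat_lit 2413490296) (nat_lit 76) (nat_lit 2413490296)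 (nat_lit 75) (nat_lit 3) (nat_lit 74) (nat_lit 1) (nat_lit 75) (nat_lit 1) (nat_lit 356) (nat_lit 414) (nat_lit 250)) (XT.lf (nat_lit 152) (nat_lit 4696870701) (nat_lit 0) (nat_lit 482815118) (nat_lit 76) (nat_lit 482815118) (nat_lit 74) (nat_lit 1) (nat_lit 72) (nat_lit 1) (nat_lit 73) (nat_lit 1) (nat_lit 357) (nat_lit 414) (nat_lit 249)))))) (XT.nd (nat_lit 390) (nat_lit 380) (nat_lit 0) (XT.nd (nat_lit 156) (nat_lit 228) (nat_lit 0) (XT.nd (nat_lit 78) (nat_lit 76) (nat_lit 0) (XT.lf (nat_lit 0) (nat_lit 1404565584) (nat_lit 0) (nat_lit 2797170226) (nat_lit 152) (nat_lit 1404565584) (nat_lit 72) (nat_lit 3) (nat_lit 72) (nat_lit 1) (nat_lit 74) (nat_lit 1) (nat_lit 358) (nat_lit 414) (nat_lit 248)) (XT.lf (nat_lit 76) (nat_lit 948951104) (nat_lit 0) (nat_lit 2300994445) (nat_lit 76) (nat_lit 2300994445) (nat_lit 72) (nat_lit 3) (nat_lit 71) (nat_lit 1) (nat_lit 72) (nat_lit 1) (nat_lit 359) (nat_lit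 414) (nat_lit 247))) (XT.nd (nat_lit 78) (nat_lit 76) (nat_lit 0) (XT.lf (nat_lit 152) (nat_lit 4638465198) (nat_lit 0) (nat_lit 428974979) (nat_lit 76) (nat_lit 428974979) (nat_lit 71) (nat_lit 1) (nat_lit 69) (nat_lit 1) (nat_lit 70) (nat_lit 1) (nat_lit 360) (nat_lit 414) (nat_lit 246)) (XT.nd (nat_lit 78) (nat_lit 76) (nat_lit 0) (XT.lf (nat_lit 0) (nat_lit 1401521305) (nat_lit 0) (nat_lit 2638832491) (nat_lit 152) (nat_lit 1401521305) (nat_lit 69) (nat_lit 3) (nat_lit 69) (nat_lit 1) (nat_lit 71) (nat_lit 1) (nat_lit 361) (nat_lit 414) (nat_lit 245)) (XT.lf (nat_lit 76) (nat_lit 995208025) (nat_lit 0) (nat_lit 2196481022) (nat_lit 76) (nat_lit 2196481022) (nat_lit 69) (nat_lit 3) (nat_lit 68) (nat_lit 1) (nat_lit 69) (nat_lit 1) (nat_lit 362) (nat_lit 414) (nat_lit 244))))) (XT.nd (nat_lit 156) (nat_lit 228) (nat_lit 0) (XT.nd (nat_lit 78) (nat_lit 0) (nat_lit 0) (XT.lf (nat_lit 152) (nat_lit 4573018595)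 (nat_lit 0) (nat_lit 381138713) (nat_lit 76) (nat_lit 381138713) (nat_lit 68) (nat_lit 1) (nat_lit 66) (nat_lit 1) (nat_lit 67) (nat_lit 1) (nat_lit 363) (nat_lit 414) (nat_lit 243)) (XT.lf (nat_lit 0) (nat_lit 1394343211) (nat_lit 0) (nat_lit 2493678175) (nat_lit 152) (nat_lit 1394343211) (nat_lit 66) (nat_lit 3) (nat_lit 66) (nat_lit 1) (nat_lit 68) (nat_lit 1) (nat_lit 364) (nat_lit 414) (nat_lit 242))) (XT.nd (nat_lit 78) (nat_lit 152) (nat_lit 0) (XT.lf (nat_lit 76) (nat_lit 1031877265) (nat_lit 0) (nat_lit 2099192764) (nat_lit 76) (nat_lit 2099192764) (nat_lit 66) (nat_lit 3) (nat_lit 65) (nat_lit 1) (nat_lit 66) (nat_lit 1) (nat_lit 365) (nat_lit 414) (nat_lit 241)) (XT.nd (nat_lit 78) (nat_lit 0) (nat_lit 0) (XT.lf (nat_lit 152) (nat_lit 4501710844) (nat_lit 0) (nat_lit 338636810) (nat_lit 76) (nat_lit 338636810) (nat_lit 65) (nat_lit 1) (nat_lit 63) (nat_lit 1) (nat_lit 64) (nat_lit 1) (nat_lit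 366) (nat_lit 414) (nat_lit 240)) (XT.lf (nat_lit 0) (nat_lit 1383622567) (nat_lit 0) (nat_lit 2360367444) (nat_lit 152) (nat_lit 1383622567) (nat_lit 63) (nat_lit 3) (nat_lit 63) (nat_lit 1) (nat_lit 65) (nat_lit 1) (nat_lit 367) (nat_lit 414) (nat_lit 239))))))))
noncomputable def ec387 : XT := (XT.nd (nat_lit 1482) (nat_lit 1520) (nat_lit 0) (XT.nd (nat_lit 702) (nat_lit 760) (nat_lit 0) (XT.nd (nat_lit 312) (nat_lit 380) (nat_lit 0) (XT.nd (nat_lit 156) (nat_lit 76) (nat_lit 0) (XT.nd (nat_lit 78) (nat_lit 152) (nat_lit 0) (XT.lf (nat_lit 76) (nat_lit 1060156988) (nat_lit 0) (nat_lit 2008452984) (nat_lit 76) (nat_lit 2008452984) (nat_lit 63) (nat_lit 3) (nat_lit 62) (nat_lit 1) (nat_lit 63) (nat_lit 1) (nat_lit 368) (nat_lit 414) (nat_lit 238)) (XT.lf (nat_lit 152) (nat_lit 4425578819) (nat_lit 0) (nat_lit 300874419) (nat_lit 76) (nat_lit 300874419) (nat_lit 62) (nat_lit 1) (nat_lit 60) (nat_lit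 1) (nat_lit 61) (nat_lit 1) (nat_lit 369) (nat_lit 414) (nat_lit 237))) (XT.nd (nat_lit 78) (nat_lit 76) (nat_lit 0) (XT.lf (nat_lit 0) (nat_lit 1369880909) (nat_lit 0) (nat_lit 2237706081) (nat_lit 152) (nat_lit 1369880909) (nat_lit 60) (nat_lit 3) (nat_lit 60) (nat_lit 1) (nat_lit 62) (nat_lit 1) (nat_lit 370) (nat_lit 414) (nat_lit 236)) (XT.lf (nat_lit 76) (nat_lit 1081107988) (nat_lit 0) (nat_lit 1923656698) (nat_lit 76) (nat_lit 1923656698) (nat_lit 60) (nat_lit 3) (nat_lit 59) (nat_lit 1) (nat_lit 60) (nat_lit 1) (nat_lit 371) (nat_lit 414) (nat_lit 235)))) (XT.nd (nat_lit 156) (nat_lit 228) (nat_lit 0) (XT.nd (nat_lit 78) (nat_lit 0) (nat_lit 0) (XT.lf (nat_lit 152) (nat_lit 4345532607) (nat_lit 0) (nat_lit 267323025) (nat_lit 76) (nat_lit 267323025) (nat_lit 59) (nat_lit 1) (nat_lit 57) (nat_lit 1) (nat_lit 58) (nat_lit 1) (nat_lit 372) (nat_lit 414) (nat_lit 234)) (XT.lf (nat_lit 0) (nat_lit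 1353577929) (nat_lit 0) (nat_lit 2124629354) (nat_lit 152) (nat_lit 1353577929) (nat_lit 57) (nat_lit 3) (nat_lit 57) (nat_lit 1) (nat_lit 59) (nat_lit 1) (nat_lit 373) (nat_lit 414) (nat_lit 233))) (XT.nd (nat_lit 78) (nat_lit 152) (nat_lit 0) (XT.lf (nat_lit 76) (nat_lit 1095669120) (nat_lit 0) (nat_lit 1844262737) (nat_lit 76) (nat_lit 1844262737) (nat_lit 57) (nat_lit 3) (nat_lit 56) (nat_lit 1) (nat_lit 57) (nat_lit 1) (nat_lit 374) (nat_lit 414) (nat_lit 232)) (XT.nd (nat_lit 78) (nat_lit 0) (nat_lit 0) (XT.lf (nat_lit 152) (nat_lit 4262369969) (nat_lit 0) (nat_lit 237513045) (nat_lit 76) (nat_lit 237513045) (nat_lit 56) (nat_lit 1) (nat_lit 54) (nat_lit 1) (nat_lit 55) (nat_lit 1) (nat_lit 375) (nat_lit 414) (nat_lit 231)) (XT.lf (nat_lit 0) (nat_lit 1335118481) (nat_lit 0) (nat_lit 2020187686) (nat_lit 152) (nat_lit 1335118481) (nat_lit 54) (nat_lit 3) (nat_lit 54) (nat_lit 1) (nat_lit 56) (nat_lit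 1) (nat_lit 376) (nat_lit 414) (nat_lit 230)))))) (XT.nd (nat_lit 390) (nat_lit 304) (nat_lit 0) (XT.nd (nat_lit 156) (nat_lit 228) (nat_lit 0) (XT.nd (nat_lit 78) (nat_lit 152) (nat_lit 0) (XT.lf (nat_lit 76) (nat_lit 1104671002) (nat_lit 0) (nat_lit 1769786734) (nat_lit 76) (nat_lit 1769786734) (nat_lit 54) (nat_lit 3) (nat_lit 53) (nat_lit 1) (nat_lit 54) (nat_lit 1) (nat_lit 377) (nat_lit 414) (nat_lit 229)) (XT.lf (nat_lit 152) (nat_lit 4176789181) (nat_lit 0) (nat_lit 211027264) (nat_lit 76) (nat_lit 211027264) (nat_lit 53) (nat_lit 1) (nat_lit 51) (nat_lit 1) (nat_lit 52) (nat_lit 1) (nat_lit 378) (nat_lit 414) (nat_lit 228))) (XT.nd (nat_lit 78) (nat_lit 228) (nat_lit 0) (XT.lf (nat_lit 0) (nat_lit 1314858802) (nat_lit 0) (nat_lit 1923533917) (nat_lit 152) (nat_lit 1314858802) (nat_lit 51) (nat_lit 3) (nat_lit 51) (nat_lit 1) (nat_lit 53) (nat_lit 1) (nat_lit 379) (nat_lit 414) (nat_lit 227))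 (XT.nd (nat_lit 78) (nat_lit 152) (nat_lit 0) (XT.lf (nat_lit 76) (nat_lit 1108848188) (nat_lit 0) (nat_lit 1699794902) (nat_lit 76) (nat_lit 1699794902) (nat_lit 51) (nat_lit 3) (nat_lit 50) (nat_lit 1) (nat_lit 51) (nat_lit 1) (nat_lit 380) (nat_lit 414) (nat_lit 226)) (XT.lf (nat_lit 152) (nat_lit 4089400440) (nat_lit 0) (nat_lit 187494991) (nat_lit 76) (nat_lit 187494991) (nat_lit 50) (nat_lit 1) (nat_lit 48) (nat_lit 1) (nat_lit 49) (nat_lit 1) (nat_lit 381) (nat_lit 414) (nat_lit 225))))) (XT.nd (nat_lit 156) (nat_lit 228) (nat_lit 0) (XT.nd (nat_lit 78) (nat_lit 76) (nat_lit 0) (XT.lf (nat_lit 0) (nat_lit 1293112028) (nat_lit 0) (nat_lit 1833911984) (nat_lit 152) (nat_lit 1293112028) (nat_lit 48) (nat_lit 3) (nat_lit 48) (nat_lit 1) (nat_lit 50) (nat_lit 1) (nat_lit 382) (nat_lit 414) (nat_lit 224)) (XT.lf (nat_lit 76) (nat_lit 1108849982) (nat_lit 0) (nat_lit 1633898483) (nat_lit 76) (nat_lit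 1633898483) (nat_lit 48) (nat_lit 3) (nat_lit 47) (nat_lit 1) (nat_lit 48) (nat_lit 1) (nat_lit 383) (nat_lit 414) (nat_lit 223))) (XT.nd (nat_lit 78) (nat_lit 76) (nat_lit 0) (XT.lf (nat_lit 152) (nat_lit 4000735975) (nat_lit 0) (nat_lit 166586871) (nat_lit 76) (nat_lit 166586871) (nat_lit 47) (nat_lit 1) (nat_lit 45) (nat_lit 1) (nat_lit 46) (nat_lit 1) (nat_lit 384) (nat_lit 414) (nat_lit 222)) (XT.nd (nat_lit 78) (nat_lit 76) (nat_lit 0) (XT.lf (nat_lit 0) (nat_lit 1270153107) (nat_lit 0) (nat_lit 1750646864) (nat_lit 152) (nat_lit 1270153107) (nat_lit 45) (nat_lit 3) (nat_lit 45) (nat_lit 1) (nat_lit 47) (nat_lit 1) (nat_lit 385) (nat_lit 414) (nat_lit 221)) (XT.lf (nat_lit 76) (nat_lit 1105250040) (nat_lit 0) (nat_lit 1571748833) (nat_lit 76) (nat_lit 1571748833) (nat_lit 45) (nat_lit 3) (nat_lit 44) (nat_lit 1) (nat_lit 45) (nat_lit 1) (nat_lit 386) (nat_lit 414) (nat_lit 220))))))) (XT.nd (nat_lit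 702) (nat_lit 836) (nat_lit 0) (XT.nd (nat_lit 312) (nat_lit 304) (nat_lit 0) (XT.nd (nat_lit 156) (nat_lit 228) (nat_lit 0) (XT.nd (nat_lit 78) (nat_lit 0) (nat_lit 0) (XT.lf (nat_lit 152) (nat_lit 3911259038) (nat_lit 0) (nat_lit 148010277) (nat_lit 76) (nat_lit 148010277) (nat_lit 44) (nat_lit 1) (nat_lit 42) (nat_lit 1) (nat_lit 43) (nat_lit 1) (nat_lit 387) (nat_lit 414) (nat_lit 219)) (XT.lf (nat_lit 0) (nat_lit 1246223147) (nat_lit 0) (nat_lit 1673135626) (nat_lit 152) (nat_lit 1246223147) (nat_lit 42) (nat_lit 3) (nat_lit 42) (nat_lit 1) (nat_lit 44) (nat_lit 1) (nat_lit 388) (nat_lit 414) (nat_lit 218))) (XT.nd (nat_lit 78) (nat_lit 152) (nat_lit 0) (XT.lf (nat_lit 76) (nat_lit 1098554902) (nat_lit 0) (nat_lit 1513033037) (nat_lit 76) (nat_lit 1513033037) (nat_lit 42) (nat_lit 3) (nat_lit 41) (nat_lit 1) (nat_lit 42) (nat_lit 1) (nat_lit 389) (nat_lit 414) (nat_lit 217)) (XT.lf (nat_lit 152)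 (nat_lit 3821371873) (nat_lit 0) (nat_lit 131505214) (nat_lit 76) (nat_lit 131505214) (nat_lit 41) (nat_lit 1) (nat_lit 39) (nat_lit 1) (nat_lit 40) (nat_lit 1) (nat_lit 390) (nat_lit 414) (nat_lit 216)))) (XT.nd (nat_lit 156) (nat_lit 228) (nat_lit 0) (XT.nd (nat_lit 78) (nat_lit 76) (nat_lit 0) (XT.lf (nat_lit 0) (nat_lit 1221533282) (nat_lit 0) (nat_lit 1600839490) (nat_lit 152) (nat_lit 1221533282) (nat_lit 39) (nat_lit 3) (nat_lit 39) (nat_lit 1) (nat_lit 41) (nat_lit 1) (nat_lit 391) (nat_lit 414) (nat_lit 215)) (XT.lf (nat_lit 76) (nat_lit 1089211565) (nat_lit 0) (nat_lit 1457470020) (nat_lit 76) (nat_lit 1457470020) (nat_lit 39) (nat_lit 3) (nat_lit 38) (nat_lit 1) (nat_lit 39) (nat_lit 1) (nat_lit 392) (nat_lit 414) (nat_lit 214))) (XT.nd (nat_lit 78) (nat_lit 76) (nat_lit 0) (XT.lf (nat_lit 152) (nat_lit 3731422789) (nat_lit 0) (nat_lit 116840679) (nat_lit 76) (nat_lit 116840679) (nat_lit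 38) (nat_lit 1) (nat_lit 36) (nat_lit 1) (nat_lit 37) (nat_lit 1) (nat_lit 393) (nat_lit 414) (nat_lit 213)) (XT.nd (nat_lit 78) (nat_lit 76) (nat_lit 0) (XT.lf (nat_lit 0) (nat_lit 1196268108) (nat_lit 0) (nat_lit 1533276762) (nat_lit 152) (nat_lit 1196268108) (nat_lit 36) (nat_lit 3) (nat_lit 36) (nat_lit 1) (nat_lit 38) (nat_lit 1) (nat_lit 394) (nat_lit 414) (nat_lit 212)) (XT.lf (nat_lit 76) (nat_lit 1077614216) (nat_lit 0) (nat_lit 1404807083) (nat_lit 76) (nat_lit 1404807083) (nat_lit 36) (nat_lit 3) (nat_lit 35) (nat_lit 1) (nat_lit 36) (nat_lit 1) (nat_lit 395) (nat_lit 414) (nat_lit 211)))))) (XT.nd (nat_lit 390) (nat_lit 456) (nat_lit 0) (XT.nd (nat_lit 156) (nat_lit 228) (nat_lit 0) (XT.nd (nat_lit 78) (nat_lit 0) (nat_lit 0) (XT.lf (nat_lit 152) (nat_lit 3641712444) (nat_lit 0) (nat_lit 103811430) (nat_lit 76) (nat_lit 103811430) (nat_lit 35) (nat_lit 1) (nat_lit 33) (nat_lit 1) (nat_lit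 34) (nat_lit 1) (nat_lit 396) (nat_lit 414) (nat_lit 210)) (XT.lf (nat_lit 0) (nat_lit 1170588729) (nat_lit 0) (nat_lit 1470016552) (nat_lit 152) (nat_lit 1170588729) (nat_lit 33) (nat_lit 3) (nat_lit 33) (nat_lit 1) (nat_lit 35) (nat_lit 1) (nat_lit 397) (nat_lit 414) (nat_lit 209))) (XT.nd (nat_lit 78) (nat_lit 152) (nat_lit 0) (XT.lf (nat_lit 76) (nat_lit 1064110203) (nat_lit 0) (nat_lit 1354816828) (nat_lit 76) (nat_lit 1354816828) (nat_lit 33) (nat_lit 3) (nat_lit 32) (nat_lit 1) (nat_lit 33) (nat_lit 1) (nat_lit 398) (nat_lit 414) (nat_lit 208)) (XT.nd (nat_lit 78) (nat_lit 0) (nat_lit 0) (XT.lf (nat_lit 152) (nat_lit 3552499413) (nat_lit 0) (nat_lit 92235111) (nat_lit 76) (nat_lit 92235111) (nat_lit 32) (nat_lit 1) (nat_lit 30) (nat_lit 1) (nat_lit 31) (nat_lit 1) (nat_lit 399) (nat_lit 414) (nat_lit 207)) (XT.lf (nat_lit 0) (nat_lit 1144635456) (nat_lit 0) (nat_lit 1410673199) (nat_lit 152)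 (nat_lit 1144635456) (nat_lit 30) (nat_lit 3) (nat_lit 30) (nat_lit 1) (nat_lit 32) (nat_lit 1) (nat_lit 400) (nat_lit 414) (nat_lit 206))))) (XT.nd (nat_lit 156) (nat_lit 228) (nat_lit 0) (XT.nd (nat_lit 78) (nat_lit 152) (nat_lit 0) (XT.lf (nat_lit 76) (nat_lit 1049005347) (nat_lit 0) (nat_lit 1307294418) (nat_lit 76) (nat_lit 1307294418) (nat_lit 30) (nat_lit 3) (nat_lit 29) (nat_lit 1) (nat_lit 30) (nat_lit 1) (nat_lit 401) (nat_lit 414) (nat_lit 205)) (XT.lf (nat_lit 152) (nat_lit 3464005128) (nat_lit 0) (nat_lit 81949702) (nat_lit 76) (nat_lit 81949702) (nat_lit 29) (nat_lit 1) (nat_lit 27) (nat_lit 1) (nat_lit 28) (nat_lit 1) (nat_lit 402) (nat_lit 414) (nat_lit 204))) (XT.nd (nat_lit 78) (nat_lit 228) (nat_lit 0) (XT.lf (nat_lit 0) (nat_lit 1118530217) (nat_lit 0) (nat_lit 1354901306) (nat_lit 152) (nat_lit 1118530217) (nat_lit 27) (nat_lit 3) (nat_lit 27) (nat_lit 1) (nat_lit 29) (nat_lit 1)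 (nat_lit 403) (nat_lit 414) (nat_lit 203)) (XT.nd (nat_lit 78) (nat_lit 152) (nat_lit 0) (XT.lf (nat_lit 76) (nat_lit 1032568648) (nat_lit 0) (nat_lit 1262055142) (nat_lit 76) (nat_lit 1262055142) (nat_lit 27) (nat_lit 3) (nat_lit 26) (nat_lit 1) (nat_lit 27) (nat_lit 1) (nat_lit 404) (nat_lit 414) (nat_lit 202)) (XT.lf (nat_lit 152) (nat_lit 3376418264) (nat_lit 0) (nat_lit 72811248) (nat_lit 76) (nat_lit 72811248) (nat_lit 26) (nat_lit 1) (nat_lit 24) (nat_lit 1) (nat_lit 25) (nat_lit 1) (nat_lit 405) (nat_lit 414) (nat_lit 201))))))))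
noncomputable def ec388 : XT := (XT.nd (nat_lit 36504) (nat_lit 0) (nat_lit 25612) (XT.nd (nat_lit 702) (nat_lit 456) (nat_lit 0) (XT.nd (nat_lit 312) (nat_lit 456) (nat_lit 0) (XT.nd (nat_lit 156) (nat_lit 152) (nat_lit 0) (XT.nd (nat_lit 78) (nat_lit 76) (nat_lit 0) (XT.lf (nat_lit 0) (nat_lit 1092378678) (nat_lit 0) (nat_lit 1302391329) (nat_lit 152) (nat_lit 1092378678) (nat_lit 24) (nat_lit 3) (nat_lit 24) (nat_lit 1) (nat_lit 26) (nat_lit 1) (nat_lit 406) (nat_lit 414) (nat_lit 200)) (XT.lf (nat_lit 76) (nat_lit 1015036476) (nat_lit 0) (nat_lit 1218932254) (nat_lit 76) (nat_lit 1218932254) (nat_lit 24) (nat_lit 3) (nat_lit 23) (nat_lit 1) (nat_lit 24) (nat_lit 1) (nat_lit 407) (nat_lit 414) (nat_lit 199))) (XT.nd (nat_lit 78) (nat_lit 0) (nat_lit 0) (XT.lf (nat_lit 152) (nat_lit 3289898628) (nat_lit 0) (nat_lit 64691851) (nat_lit 76) (nat_lit 64691851) (nat_lit 23) (nat_lit 1) (nat_lit 21) (nat_lit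 1) (nat_lit 22) (nat_lit 1) (nat_lit 408) (nat_lit 414) (nat_lit 198)) (XT.lf (nat_lit 0) (nat_lit 1066272139) (nat_lit 0) (nat_lit 1252865659) (nat_lit 152) (nat_lit 1066272139) (nat_lit 21) (nat_lit 3) (nat_lit 21) (nat_lit 1) (nat_lit 23) (nat_lit 1) (nat_lit 409) (nat_lit 414) (nat_lit 197)))) (XT.nd (nat_lit 156) (nat_lit 228) (nat_lit 0) (XT.nd (nat_lit 78) (nat_lit 152) (nat_lit 0) (XT.lf (nat_lit 76) (nat_lit 996616282) (nat_lit 0) (nat_lit 1177775040) (nat_lit 76) (nat_lit 1177775040) (nat_lit 21) (nat_lit 3) (nat_lit 20) (nat_lit 1) (nat_lit 21) (nat_lit 1) (nat_lit 410) (nat_lit 414) (nat_lit 196)) (XT.lf (nat_lit 152) (nat_lit 3204580604) (nat_lit 0) (nat_lit 57477872) (nat_lit 76) (nat_lit 57477872) (nat_lit 20) (nat_lit 1) (nat_lit 18) (nat_lit 1) (nat_lit 19) (nat_lit 1) (nat_lit 411) (nat_lit 414) (nat_lit 195))) (XT.nd (nat_lit 78) (nat_lit 228) (nat_lit 0) (XT.lf (nat_lit 0) (nat_lit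 1040289211) (nat_lit 0) (nat_lit 1206075137) (nat_lit 152) (nat_lit 1040289211) (nat_lit 18) (nat_lit 3) (nat_lit 18) (nat_lit 1) (nat_lit 20) (nat_lit 1) (nat_lit 412) (nat_lit 414) (nat_lit 194)) (XT.nd (nat_lit 78) (nat_lit 152) (nat_lit 0) (XT.lf (nat_lit 76) (nat_lit 977489902) (nat_lit 0) (nat_lit 1138447111) (nat_lit 76) (nat_lit 1138447111) (nat_lit 18) (nat_lit 3) (nat_lit 17) (nat_lit 1) (nat_lit 18) (nat_lit 1) (nat_lit 413) (nat_lit 414) (nat_lit 193)) (XT.lf (nat_lit 152) (nat_lit 3120576209) (nat_lit 0) (nat_lit 51068344) (nat_lit 76) (nat_lit 51068344) (nat_lit 17) (nat_lit 1) (nat_lit 15) (nat_lit 1) (nat_lit 16) (nat_lit 1) (nat_lit 414) (nat_lit 414) (nat_lit 192)))))) (XT.nd (nat_lit 312) (nat_lit 228) (nat_lit 0) (XT.nd (nat_lit 156) (nat_lit 152) (nat_lit 0) (XT.nd (nat_lit 78) (nat_lit 76) (nat_lit 0) (XT.lf (nat_lit 0) (nat_lit 1014497301) (nat_lit 0) (nat_lit 1161795949) (nat_lit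 152) (nat_lit 1014497301) (nat_lit 15) (nat_lit 3) (nat_lit 15) (nat_lit 1) (nat_lit 17) (nat_lit 1) (nat_lit 415) (nat_lit 414) (nat_lit 191)) (XT.lf (nat_lit 76) (nat_lit 957816479) (nat_lit 0) (nat_lit 1100824875) (nat_lit 76) (nat_lit 1100824875) (nat_lit 15) (nat_lit 3) (nat_lit 14) (nat_lit 1) (nat_lit 15) (nat_lit 1) (nat_lit 416) (nat_lit 414) (nat_lit 190))) (XT.nd (nat_lit 78) (nat_lit 0) (nat_lit 0) (XT.lf (nat_lit 152) (nat_lit 3037977804) (nat_lit 0) (nat_lit 45373563) (nat_lit 76) (nat_lit 45373563) (nat_lit 14) (nat_lit 1) (nat_lit 12) (nat_lit 1) (nat_lit 13) (nat_lit 1) (nat_lit 417) (nat_lit 414) (nat_lit 189)) (XT.lf (nat_lit 0) (nat_lit 988953937) (nat_lit 0) (nat_lit 1119826878) (nat_lit 152) (nat_lit 988953937) (nat_lit 12) (nat_lit 3) (nat_lit 12) (nat_lit 1) (nat_lit 14) (nat_lit 1) (nat_lit 418) (nat_lit 414) (nat_lit 188)))) (XT.nd (nat_lit 35256) (nat_lit 0) (nat_lit 27740)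 (XT.nd (nat_lit 78) (nat_lit 152) (nat_lit 0) (XT.lf (nat_lit 76) (nat_lit 937735072) (nat_lit 0) (nat_lit 1064796180) (nat_lit 76) (nat_lit 1064796180) (nat_lit 12) (nat_lit 3) (nat_lit 11) (nat_lit 1) (nat_lit 12) (nat_lit 1) (nat_lit 419) (nat_lit 414) (nat_lit 187)) (XT.lf (nat_lit 152) (nat_lit 2956860495) (nat_lit 0) (nat_lit 40313823) (nat_lit 76) (nat_lit 40313823) (nat_lit 11) (nat_lit 1) (nat_lit 9) (nat_lit 1) (nat_lit 10) (nat_lit 1) (nat_lit 420) (nat_lit 414) (nat_lit 186))) (XT.nd (nat_lit 78) (nat_lit 0) (nat_lit 0) (XT.lf (nat_lit 1292) (nat_lit 3423391202) (nat_lit 0) (nat_lit 11778057849) (nat_lit 1292) (nat_lit 3423391202) (nat_lit 391) (nat_lit 1) (nat_lit 374) (nat_lit 0) (nat_lit 391) (nat_lit 0) (nat_lit 190) (nat_lit 415) (nat_lit 415)) (XT.nd (nat_lit 78) (nat_lit 0) (nat_lit 76) (XT.lf (nat_lit 1292) (nat_lit 13378672807) (nat_lit 76) (nat_lit 11662586693) (nat_lit 0) (nat_lit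 11662586693) (nat_lit 391) (nat_lit 1) (nat_lit 375) (nat_lit 1) (nat_lit 374) (nat_lit 0) (nat_lit 191) (nat_lit 415) (nat_lit 414)) (XT.lf (nat_lit 1292) (nat_lit 6470245154) (nat_lit 0) (nat_lit 23229561539) (nat_lit 1216) (nat_lit 6470245154) (nat_lit 392) (nat_lit 1) (nat_lit 375) (nat_lit 1) (nat_lit 391) (nat_lit 1) (nat_lit 192) (nat_lit 415) (nat_lit 413))))))) (XT.nd (nat_lit 702) (nat_lit 2204) (nat_lit 0) (XT.nd (nat_lit 312) (nat_lit 0) (nat_lit 152) (XT.nd (nat_lit 156) (nat_lit 0) (nat_lit 76) (XT.nd (nat_lit 78) (nat_lit 0) (nat_lit 76) (XT.lf (nat_lit 1292) (nat_lit 12287329610) (nat_lit 76) (nat_lit 11678921037) (nat_lit 0) (nat_lit 11678921037) (nat_lit 392) (nat_lit 1) (nat_lit 376) (nat_lit 1) (nat_lit 375) (nat_lit 1) (nat_lit 193) (nat_lit 415) (nat_lit 412)) (XT.lf (nat_lit 1292) (nat_lit 5765768139) (nat_lit 0) (nat_lit 23600499612) (nat_lit 1216) (nat_lit 5765768139) (nat_lit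 393) (nat_lit 1) (nat_lit 376) (nat_lit 1) (nat_lit 392) (nat_lit 1) (nat_lit 194) (nat_lit 415) (nat_lit 411))) (XT.nd (nat_lit 78) (nat_lit 0) (nat_lit 76) (XT.lf (nat_lit 1292) (nat_lit 10566378899) (nat_lit 76) (nat_lit 12030363876) (nat_lit 0) (nat_lit 12030363876) (nat_lit 393) (nat_lit 1) (nat_lit 377) (nat_lit 1) (nat_lit 376) (nat_lit 1) (nat_lit 195) (nat_lit 415) (nat_lit 410)) (XT.lf (nat_lit 1292) (nat_lit 4762357643) (nat_lit 0) (nat_lit 24609121688) (nat_lit 1216) (nat_lit 4762357643) (nat_lit 394) (nat_lit 1) (nat_lit 377) (nat_lit 1) (nat_lit 393) (nat_lit 1) (nat_lit 196) (nat_lit 415) (nat_lit 409)))) (XT.nd (nat_lit 156) (nat_lit 0) (nat_lit 76) (XT.nd (nat_lit 78) (nat_lit 0) (nat_lit 76) (XT.lf (nat_lit 1292) (nat_lit 8272125492) (nat_lit 76) (nat_lit 12687890860) (nat_lit 0) (nat_lit 12687890860) (nat_lit 394) (nat_lit 1) (nat_lit 378) (nat_lit 1) (nat_lit 377) (nat_lit 1) (nat_lit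 197) (nat_lit 415) (nat_lit 408)) (XT.lf (nat_lit 1292) (nat_lit 3487058331) (nat_lit 0) (nat_lit 26199628581) (nat_lit 1216) (nat_lit 3487058331) (nat_lit 395) (nat_lit 1) (nat_lit 378) (nat_lit 1) (nat_lit 394) (nat_lit 1) (nat_lit 198) (nat_lit 415) (nat_lit 407))) (XT.nd (nat_lit 78) (nat_lit 0) (nat_lit 76) (XT.lf (nat_lit 1292) (nat_lit 5457054812) (nat_lit 76) (nat_lit 13624428836) (nat_lit 0) (nat_lit 13624428836) (nat_lit 395) (nat_lit 1) (nat_lit 379) (nat_lit 1) (nat_lit 378) (nat_lit 1) (nat_lit 199) (nat_lit 415) (nat_lit 406)) (XT.nd (nat_lit 78) (nat_lit 0) (nat_lit 0) (XT.lf (nat_lit 1292) (nat_lit 1965074491) (nat_lit 0) (nat_lit 28319983242) (nat_lit 1216) (nat_lit 1965074491) (nat_lit 396) (nat_lit 1) (nat_lit 379) (nat_lit 1) (nat_lit 395) (nat_lit 1) (nat_lit 200) (nat_lit 415) (nat_lit 405)) (XT.lf (nat_lit 1292) (nat_lit 2170069245) (nat_lit 76) (nat_lit 14814735536) (nat_lit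 0) (nat_lit 14814735536) (nat_lit 396) (nat_lit 1) (nat_lit 380) (nat_lit 1) (nat_lit 379) (nat_lit 1) (nat_lit 201) (nat_lit 415) (nat_lit 404)))))) (XT.nd (nat_lit 390) (nat_lit 1292) (nat_lit 0) (XT.nd (nat_lit 156) (nat_lit 0) (nat_lit 0) (XT.nd (nat_lit 78) (nat_lit 1292) (nat_lit 0) (XT.lf (nat_lit 1292) (nat_lit 219884065) (nat_lit 0) (nat_lit 30921678512) (nat_lit 1216) (nat_lit 219884065) (nat_lit 397) (nat_lit 1) (nat_lit 380) (nat_lit 1) (nat_lit 396) (nat_lit 1) (nat_lit 202) (nat_lit 415) (nat_lit 403)) (XT.lf (nat_lit 1368) (nat_lit 14706831887) (nat_lit 0) (nat_lit 1513174435) (nat_lit 1292) (nat_lit 14706831887) (nat_lit 381) (nat_lit 1) (nat_lit 363) (nat_lit 1) (nat_lit 380) (nat_lit 1) (nat_lit 203) (nat_lit 415) (nat_lit 402))) (XT.nd (nat_lit 78) (nat_lit 0) (nat_lit 76) (XT.lf (nat_lit 1368) (nat_lit 27084756431) (nat_lit 76) (nat_lit 1709726129) (nat_lit 0) (nat_lit 1709726129)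 (nat_lit 381) (nat_lit 1) (nat_lit 364) (nat_lit 1) (nat_lit 363) (nat_lit 1) (nat_lit 204) (nat_lit 415) (nat_lit 401)) (XT.nd (nat_lit 78) (nat_lit 0) (nat_lit 0) (XT.lf (nat_lit 1368) (nat_lit 12277757717) (nat_lit 0) (nat_lit 5530562674) (nat_lit 1292) (nat_lit 12277757717) (nat_lit 382) (nat_lit 1) (nat_lit 364) (nat_lit 1) (nat_lit 381) (nat_lit 1) (nat_lit 205) (nat_lit 415) (nat_lit 400)) (XT.lf (nat_lit 1368) (nat_lit 22045720449) (nat_lit 76) (nat_lit 3816413190) (nat_lit 0) (nat_lit 3816413190) (nat_lit 382) (nat_lit 1) (nat_lit 365) (nat_lit 1) (nat_lit 364) (nat_lit 1) (nat_lit 206) (nat_lit 415) (nat_lit 399))))) (XT.nd (nat_lit 156) (nat_lit 608) (nat_lit 0) (XT.nd (nat_lit 78) (nat_lit 836) (nat_lit 0) (XT.lf (nat_lit 76) (nat_lit 9695375914) (nat_lit 0) (nat_lit 9885776058) (nat_lit 1292) (nat_lit 9695375914) (nat_lit 366) (nat_lit 1) (nat_lit 365) (nat_lit 1) (nat_lit 382) (nat_lit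 1) (nat_lit 207) (nat_lit 415) (nat_lit 398)) (XT.lf (nat_lit 912) (nat_lit 16716193019) (nat_lit 0) (nat_lit 6083601160) (nat_lit 836) (nat_lit 6083601160) (nat_lit 366) (nat_lit 1) (nat_lit 354) (nat_lit 1) (nat_lit 365) (nat_lit 1) (nat_lit 208) (nat_lit 415) (nat_lit 397))) (XT.nd (nat_lit 78) (nat_lit 608) (nat_lit 0) (XT.lf (nat_lit 76) (nat_lit 6977013559) (nat_lit 0) (nat_lit 14542865547) (nat_lit 912) (nat_lit 6977013559) (nat_lit 355) (nat_lit 1) (nat_lit 354) (nat_lit 1) (nat_lit 366) (nat_lit 1) (nat_lit 209) (nat_lit 415) (nat_lit 396)) (XT.nd (nat_lit 78) (nat_lit 0) (nat_lit 0) (XT.lf (nat_lit 684) (nat_lit 11129735539) (nat_lit 0) (nat_lit 8493879541) (nat_lit 608) (nat_lit 8493879541) (nat_lit 355) (nat_lit 1) (nat_lit 346) (nat_lit 1) (nat_lit 354) (nat_lit 1) (nat_lit 210) (nat_lit 415) (nat_lit 395)) (XT.lf (nat_lit 76) (nat_lit 4138754738) (nat_lit 0) (nat_lit 19468427951) (nat_lit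 684) (nat_lit 4138754738) (nat_lit 347) (nat_lit 1) (nat_lit 346) (nat_lit 1) (nat_lit 355) (nat_lit 1) (nat_lit 211) (nat_lit 415) (nat_lit 394))))))))
noncomputable def ec389 : XT := (XT.nd (nat_lit 1482) (nat_lit 4256) (nat_lit 0) (XT.nd (nat_lit 702) (nat_lit 2888) (nat_lit 0) (XT.nd (nat_lit 312) (nat_lit 1064) (nat_lit 0) (XT.nd (nat_lit 156) (nat_lit 1216) (nat_lit 0) (XT.nd (nat_lit 78) (nat_lit 0) (nat_lit 0) (XT.lf (nat_lit 684) (nat_lit 5317491021) (nat_lit 0) (nat_lit 11031076019) (nat_lit 608) (nat_lit 11031076019) (nat_lit 347) (nat_lit 1) (nat_lit 338) (nat_lit 1) (nat_lit 346) (nat_lit 1) (nat_lit 212) (nat_lit 415) (nat_lit 393)) (XT.lf (nat_lit 76) (nat_lit 1195519134) (nat_lit 0) (nat_lit 24631445741) (nat_lit 684) (nat_lit 1195519134) (nat_lit 339) (nat_lit 1) (nat_lit 338) (nat_lit 1) (nat_lit 347) (nat_lit 1) (nat_lit 213) (nat_lit 415) (nat_lit 392))) (XT.nd (nat_lit 78) (nat_lit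 608) (nat_lit 0) (XT.lf (nat_lit 76) (nat_lit 12995164363) (nat_lit 0) (nat_lit 678165927) (nat_lit 608) (nat_lit 12995164363) (nat_lit 331) (nat_lit 1) (nat_lit 330) (nat_lit 1) (nat_lit 338) (nat_lit 1) (nat_lit 214) (nat_lit 415) (nat_lit 391)) (XT.lf (nat_lit 684) (nat_lit 22681604301) (nat_lit 0) (nat_lit 1820836035) (nat_lit 608) (nat_lit 1820836035) (nat_lit 331) (nat_lit 1) (nat_lit 322) (nat_lit 1) (nat_lit 330) (nat_lit 1) (nat_lit 215) (nat_lit 415) (nat_lit 390)))) (XT.nd (nat_lit 156) (nat_lit 532) (nat_lit 0) (XT.nd (nat_lit 78) (nat_lit 532) (nat_lit 0) (XT.lf (nat_lit 76) (nat_lit 9622340076) (nat_lit 0) (nat_lit 6736891959) (nat_lit 684) (nat_lit 9622340076) (nat_lit 323) (nat_lit 1) (nat_lit 322) (nat_lit 1) (nat_lit 331) (nat_lit 1) (nat_lit 216) (nat_lit 415) (nat_lit 389)) (XT.lf (nat_lit 608) (nat_lit 15841812629) (nat_lit 0) (nat_lit 4903042022) (nat_lit 532) (nat_lit 4903042022)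 (nat_lit 323) (nat_lit 1) (nat_lit 315) (nat_lit 1) (nat_lit 322) (nat_lit 1) (nat_lit 217) (nat_lit 415) (nat_lit 388))) (XT.nd (nat_lit 78) (nat_lit 532) (nat_lit 0) (XT.lf (nat_lit 76) (nat_lit 6190604061) (nat_lit 0) (nat_lit 12938163381) (nat_lit 608) (nat_lit 6190604061) (nat_lit 316) (nat_lit 1) (nat_lit 315) (nat_lit 1) (nat_lit 323) (nat_lit 1) (nat_lit 218) (nat_lit 415) (nat_lit 387)) (XT.nd (nat_lit 78) (nat_lit 0) (nat_lit 0) (XT.lf (nat_lit 608) (nat_lit 8894553183) (nat_lit 0) (nat_lit 8051083668) (nat_lit 532) (nat_lit 8051083668) (nat_lit 316) (nat_lit 1) (nat_lit 308) (nat_lit 1) (nat_lit 315) (nat_lit 1) (nat_lit 219) (nat_lit 415) (nat_lit 386)) (XT.lf (nat_lit 76) (nat_lit 2710693208) (nat_lit 0) (nat_lit 19259515724) (nat_lit 608) (nat_lit 2710693208) (nat_lit 309) (nat_lit 1) (nat_lit 308) (nat_lit 1) (nat_lit 316) (nat_lit 1) (nat_lit 220) (nat_lit 415) (nat_lit 385)))))) (XT.nd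 (nat_lit 390) (nat_lit 1368) (nat_lit 0) (XT.nd (nat_lit 156) (nat_lit 456) (nat_lit 0) (XT.nd (nat_lit 78) (nat_lit 608) (nat_lit 0) (XT.lf (nat_lit 532) (nat_lit 1860561066) (nat_lit 0) (nat_lit 11254110856) (nat_lit 456) (nat_lit 11254110856) (nat_lit 309) (nat_lit 1) (nat_lit 302) (nat_lit 1) (nat_lit 308) (nat_lit 1) (nat_lit 221) (nat_lit 415) (nat_lit 384)) (XT.lf (nat_lit 608) (nat_lit 22465142319) (nat_lit 0) (nat_lit 799569629) (nat_lit 532) (nat_lit 799569629) (nat_lit 302) (nat_lit 1) (nat_lit 294) (nat_lit 1) (nat_lit 301) (nat_lit 1) (nat_lit 222) (nat_lit 415) (nat_lit 383))) (XT.nd (nat_lit 78) (nat_lit 456) (nat_lit 0) (XT.lf (nat_lit 76) (nat_lit 9311439222) (nat_lit 0) (nat_lit 5138771521) (nat_lit 608) (nat_lit 9311439222) (nat_lit 295) (nat_lit 1) (nat_lit 294) (nat_lit 1) (nat_lit 302) (nat_lit 1) (nat_lit 223) (nat_lit 415) (nat_lit 382)) (XT.nd (nat_lit 78) (nat_lit 0) (nat_lit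 0) (XT.lf (nat_lit 532) (nat_lit 14842145056) (nat_lit 0) (nat_lit 4312110214) (nat_lit 456) (nat_lit 4312110214) (nat_lit 295) (nat_lit 1) (nat_lit 288) (nat_lit 1) (nat_lit 294) (nat_lit 1) (nat_lit 224) (nat_lit 415) (nat_lit 381)) (XT.lf (nat_lit 76) (nat_lit 5512289092) (nat_lit 0) (nat_lit 12150823184) (nat_lit 532) (nat_lit 5512289092) (nat_lit 289) (nat_lit 1) (nat_lit 288) (nat_lit 1) (nat_lit 295) (nat_lit 1) (nat_lit 225) (nat_lit 415) (nat_lit 380))))) (XT.nd (nat_lit 156) (nat_lit 912) (nat_lit 0) (XT.nd (nat_lit 78) (nat_lit 0) (nat_lit 0) (XT.lf (nat_lit 532) (nat_lit 7199076863) (nat_lit 0) (nat_lit 7845182695) (nat_lit 456) (nat_lit 7845182695) (nat_lit 289) (nat_lit 1) (nat_lit 282) (nat_lit 1) (nat_lit 288) (nat_lit 1) (nat_lit 226) (nat_lit 415) (nat_lit 379)) (XT.lf (nat_lit 76) (nat_lit 1706859960) (nat_lit 0) (nat_lit 19196016067) (nat_lit 532) (nat_lit 1706859960) (nat_lit 283)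 (nat_lit 1) (nat_lit 282) (nat_lit 1) (nat_lit 289) (nat_lit 1) (nat_lit 227) (nat_lit 415) (nat_lit 378))) (XT.nd (nat_lit 78) (nat_lit 456) (nat_lit 0) (XT.lf (nat_lit 76) (nat_lit 10945879101) (nat_lit 0) (nat_lit 440807212) (nat_lit 456) (nat_lit 10945879101) (nat_lit 277) (nat_lit 1) (nat_lit 276) (nat_lit 1) (nat_lit 282) (nat_lit 1) (nat_lit 228) (nat_lit 415) (nat_lit 377)) (XT.nd (nat_lit 78) (nat_lit 0) (nat_lit 0) (XT.lf (nat_lit 532) (nat_lit 17906651424) (nat_lit 0) (nat_lit 2077384641) (nat_lit 456) (nat_lit 2077384641) (nat_lit 277) (nat_lit 1) (nat_lit 270) (nat_lit 1) (nat_lit 276) (nat_lit 1) (nat_lit 229) (nat_lit 415) (nat_lit 376)) (XT.lf (nat_lit 76) (nat_lit 6930161069) (nat_lit 0) (nat_lit 7932687387) (nat_lit 532) (nat_lit 6930161069) (nat_lit 271) (nat_lit 1) (nat_lit 270) (nat_lit 1) (nat_lit 277) (nat_lit 1) (nat_lit 230) (nat_lit 415) (nat_lit 375))))))) (XT.nd (nat_lit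 702) (nat_lit 1900) (nat_lit 0) (XT.nd (nat_lit 312) (nat_lit 1140) (nat_lit 0) (XT.nd (nat_lit 156) (nat_lit 836) (nat_lit 0) (XT.nd (nat_lit 78) (nat_lit 0) (nat_lit 0) (XT.lf (nat_lit 456) (nat_lit 9854075658) (nat_lit 0) (nat_lit 5838037649) (nat_lit 380) (nat_lit 5838037649) (nat_lit 271) (nat_lit 1) (nat_lit 265) (nat_lit 1) (nat_lit 270) (nat_lit 1) (nat_lit 231) (nat_lit 415) (nat_lit 374)) (XT.lf (nat_lit 76) (nat_lit 2933475432) (nat_lit 0) (nat_lit 15405155899) (nat_lit 456) (nat_lit 2933475432) (nat_lit 266) (nat_lit 1) (nat_lit 265) (nat_lit 1) (nat_lit 271) (nat_lit 1) (nat_lit 232) (nat_lit 415) (nat_lit 373))) (XT.nd (nat_lit 78) (nat_lit 456) (nat_lit 0) (XT.lf (nat_lit 456) (nat_lit 1844924977) (nat_lit 0) (nat_lit 9586127241) (nat_lit 380) (nat_lit 9586127241) (nat_lit 266) (nat_lit 1) (nat_lit 260) (nat_lit 1) (nat_lit 265) (nat_lit 1) (nat_lit 233) (nat_lit 415) (nat_lit 372)) (XT.lf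 (nat_lit 456) (nat_lit 18710094116) (nat_lit 0) (nat_lit 1028923195) (nat_lit 380) (nat_lit 1028923195) (nat_lit 260) (nat_lit 1) (nat_lit 254) (nat_lit 1) (nat_lit 259) (nat_lit 1) (nat_lit 234) (nat_lit 415) (nat_lit 371)))) (XT.nd (nat_lit 156) (nat_lit 760) (nat_lit 0) (XT.nd (nat_lit 78) (nat_lit 380) (nat_lit 0) (XT.lf (nat_lit 76) (nat_lit 7264101846) (nat_lit 0) (nat_lit 5991845122) (nat_lit 456) (nat_lit 7264101846) (nat_lit 255) (nat_lit 1) (nat_lit 254) (nat_lit 1) (nat_lit 260) (nat_lit 1) (nat_lit 235) (nat_lit 415) (nat_lit 370)) (XT.lf (nat_lit 456) (nat_lit 10409372322) (nat_lit 0) (nat_lit 4934146984) (nat_lit 380) (nat_lit 4934146984) (nat_lit 255) (nat_lit 1) (nat_lit 249) (nat_lit 1) (nat_lit 254) (nat_lit 1) (nat_lit 236) (nat_lit 415) (nat_lit 369))) (XT.nd (nat_lit 78) (nat_lit 760) (nat_lit 0) (XT.lf (nat_lit 76) (nat_lit 3153721911) (nat_lit 0) (nat_lit 13731897792) (nat_lit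 456) (nat_lit 3153721911) (nat_lit 250) (nat_lit 1) (nat_lit 249) (nat_lit 1) (nat_lit 255) (nat_lit 1) (nat_lit 237) (nat_lit 415) (nat_lit 368)) (XT.nd (nat_lit 78) (nat_lit 456) (nat_lit 0) (XT.lf (nat_lit 380) (nat_lit 2190362519) (nat_lit 0) (nat_lit 8806837377) (nat_lit 304) (nat_lit 8806837377) (nat_lit 250) (nat_lit 1) (nat_lit 245) (nat_lit 1) (nat_lit 249) (nat_lit 1) (nat_lit 238) (nat_lit 415) (nat_lit 367)) (XT.lf (nat_lit 456) (nat_lit 17763330714) (nat_lit 0) (nat_lit 905282086) (nat_lit 380) (nat_lit 905282086) (nat_lit 245) (nat_lit 1) (nat_lit 239) (nat_lit 1) (nat_lit 244) (nat_lit 1) (nat_lit 239) (nat_lit 415) (nat_lit 366)))))) (XT.nd (nat_lit 390) (nat_lit 912) (nat_lit 0) (XT.nd (nat_lit 156) (nat_lit 684) (nat_lit 0) (XT.nd (nat_lit 78) (nat_lit 304) (nat_lit 0) (XT.lf (nat_lit 76) (nat_lit 6760252896) (nat_lit 0) (nat_lit 5824214069) (nat_lit 456) (nat_lit 6760252896) (nat_lit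 240) (nat_lit 1) (nat_lit 239) (nat_lit 1) (nat_lit 245) (nat_lit 1) (nat_lit 240) (nat_lit 415) (nat_lit 365)) (XT.lf (nat_lit 380) (nat_lit 9344158157) (nat_lit 0) (nat_lit 4888199284) (nat_lit 304) (nat_lit 4888199284) (nat_lit 240) (nat_lit 1) (nat_lit 235) (nat_lit 1) (nat_lit 239) (nat_lit 1) (nat_lit 241) (nat_lit 415) (nat_lit 364))) (XT.nd (nat_lit 78) (nat_lit 684) (nat_lit 0) (XT.lf (nat_lit 76) (nat_lit 2598467648) (nat_lit 0) (nat_lit 13703292662) (nat_lit 380) (nat_lit 2598467648) (nat_lit 236) (nat_lit 1) (nat_lit 235) (nat_lit 1) (nat_lit 240) (nat_lit 1) (nat_lit 242) (nat_lit 415) (nat_lit 363)) (XT.nd (nat_lit 78) (nat_lit 380) (nat_lit 0) (XT.lf (nat_lit 380) (nat_lit 1036159330) (nat_lit 0) (nat_lit 8823122107) (nat_lit 304) (nat_lit 8823122107) (nat_lit 236) (nat_lit 1) (nat_lit 231) (nat_lit 1) (nat_lit 235) (nat_lit 1) (nat_lit 243) (nat_lit 415) (nat_lit 362)) (XT.lf (nat_lit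 380) (nat_lit 15484735756) (nat_lit 0) (nat_lit 1492071014) (nat_lit 304) (nat_lit 1492071014) (nat_lit 231) (nat_lit 1) (nat_lit 226) (nat_lit 1) (nat_lit 230) (nat_lit 1) (nat_lit 244) (nat_lit 415) (nat_lit 361))))) (XT.nd (nat_lit 156) (nat_lit 608) (nat_lit 0) (XT.nd (nat_lit 78) (nat_lit 304) (nat_lit 0) (XT.lf (nat_lit 76) (nat_lit 5620124981) (nat_lit 0) (nat_lit 7016565694) (nat_lit 380) (nat_lit 5620124981) (nat_lit 227) (nat_lit 1) (nat_lit 226) (nat_lit 1) (nat_lit 231) (nat_lit 1) (nat_lit 245) (nat_lit 415) (nat_lit 360)) (XT.lf (nat_lit 380) (nat_lit 7050600109) (nat_lit 0) (nat_lit 5499163199) (nat_lit 304) (nat_lit 5499163199) (nat_lit 227) (nat_lit 1) (nat_lit 222) (nat_lit 1) (nat_lit 226) (nat_lit 1) (nat_lit 246) (nat_lit 415) (nat_lit 359))) (XT.nd (nat_lit 78) (nat_lit 608) (nat_lit 0) (XT.lf (nat_lit 76) (nat_lit 1456585485) (nat_lit 0) (nat_lit 14931888170) (nat_lit 380) (nat_lit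 1456585485) (nat_lit 223) (nat_lit 1) (nat_lit 222) (nat_lit 1) (nat_lit 227) (nat_lit 1) (nat_lit 247) (nat_lit 415) (nat_lit 358)) (XT.nd (nat_lit 78) (nat_lit 304) (nat_lit 0) (XT.lf (nat_lit 76) (nat_lit 8208379254) (nat_lit 0) (nat_lit 1225746818) (nat_lit 304) (nat_lit 8208379254) (nat_lit 219) (nat_lit 1) (nat_lit 218) (nat_lit 1) (nat_lit 222) (nat_lit 1) (nat_lit 248) (nat_lit 415) (nat_lit 357)) (XT.lf (nat_lit 380) (nat_lit 12215809561) (nat_lit 0) (nat_lit 2614026038) (nat_lit 304) (nat_lit 2614026038) (nat_lit 219) (nat_lit 1) (nat_lit 214) (nat_lit 1) (nat_lit 218) (nat_lit 1) (nat_lit 249) (nat_lit 415) (nat_lit 356))))))))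
noncomputable def ec390 : XT := (XT.nd (nat_lit 1482) (nat_lit 2128) (nat_lit 0) (XT.nd (nat_lit 702) (nat_lit 1672) (nat_lit 0) (XT.nd (nat_lit 312) (nat_lit 760) (nat_lit 0) (XT.nd (nat_lit 156) (nat_lit 380) (nat_lit 0) (XT.nd (nat_lit 78) (nat_lit 228) (nat_lit 0) (XT.lf (nat_lit 76) (nat_lit 4008134870) (nat_lit 0) (nat_lit 9231211170) (nat_lit 380) (nat_lit 4008134870) (nat_lit 215) (nat_lit 1) (nat_lit 214) (nat_lit 1) (nat_lit 219) (nat_lit 1) (nat_lit 250) (nat_lit 415) (nat_lit 355)) (XT.lf (nat_lit 304) (nat_lit 3848544543) (nat_lit 0) (nat_lit 6602819742) (nat_lit 228) (nat_lit 6602819742) (nat_lit 215) (nat_lit 1) (nat_lit 211) (nat_lit 1) (nat_lit 214) (nat_lit 1) (nat_lit 251) (nat_lit 415) (nat_lit 354))) (XT.nd (nat_lit 78) (nat_lit 0) (nat_lit 0) (XT.lf (nat_lit 380) (nat_lit 16631688269) (nat_lit 0) (nat_lit 116791152) (nat_lit 304) (nat_lit 116791152) (nat_lit 211) (nat_lit 1) (nat_lit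 206) (nat_lit 1) (nat_lit 210) (nat_lit 1) (nat_lit 252) (nat_lit 415) (nat_lit 353)) (XT.lf (nat_lit 76) (nat_lit 6196105561) (nat_lit 0) (nat_lit 4283774600) (nat_lit 380) (nat_lit 6196105561) (nat_lit 207) (nat_lit 1) (nat_lit 206) (nat_lit 1) (nat_lit 211) (nat_lit 1) (nat_lit 253) (nat_lit 415) (nat_lit 352)))) (XT.nd (nat_lit 156) (nat_lit 532) (nat_lit 0) (XT.nd (nat_lit 78) (nat_lit 0) (nat_lit 0) (XT.lf (nat_lit 304) (nat_lit 8234216104) (nat_lit 0) (nat_lit 4128387341) (nat_lit 228) (nat_lit 4128387341) (nat_lit 207) (nat_lit 1) (nat_lit 203) (nat_lit 1) (nat_lit 206) (nat_lit 1) (nat_lit 254) (nat_lit 415) (nat_lit 351)) (XT.lf (nat_lit 76) (nat_lit 2057900422) (nat_lit 0) (nat_lit 12193208638) (nat_lit 304) (nat_lit 2057900422) (nat_lit 204) (nat_lit 1) (nat_lit 203) (nat_lit 1) (nat_lit 207) (nat_lit 1) (nat_lit 255) (nat_lit 415) (nat_lit 350))) (XT.nd (nat_lit 78) (nat_lit 228) (nat_lit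 0) (XT.lf (nat_lit 76) (nat_lit 8063343658) (nat_lit 0) (nat_lit 2158868) (nat_lit 304) (nat_lit 8063343658) (nat_lit 200) (nat_lit 1) (nat_lit 199) (nat_lit 1) (nat_lit 203) (nat_lit 1) (nat_lit 256) (nat_lit 415) (nat_lit 349)) (XT.nd (nat_lit 78) (nat_lit 0) (nat_lit 0) (XT.lf (nat_lit 304) (nat_lit 11990590595) (nat_lit 0) (nat_lit 1980511419) (nat_lit 228) (nat_lit 1980511419) (nat_lit 200) (nat_lit 1) (nat_lit 196) (nat_lit 1) (nat_lit 199) (nat_lit 1) (nat_lit 257) (nat_lit 415) (nat_lit 348)) (XT.lf (nat_lit 76) (nat_lit 3928121996) (nat_lit 0) (nat_lit 7919840984) (nat_lit 304) (nat_lit 3928121996) (nat_lit 197) (nat_lit 1) (nat_lit 196) (nat_lit 1) (nat_lit 200) (nat_lit 1) (nat_lit 258) (nat_lit 415) (nat_lit 347)))))) (XT.nd (nat_lit 390) (nat_lit 912) (nat_lit 0) (XT.nd (nat_lit 156) (nat_lit 228) (nat_lit 0) (XT.nd (nat_lit 78) (nat_lit 304) (nat_lit 0) (XT.lf (nat_lit 304) (nat_lit 3764669750)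 (nat_lit 0) (nat_lit 5919368863) (nat_lit 228) (nat_lit 5919368863) (nat_lit 197) (nat_lit 1) (nat_lit 193) (nat_lit 1) (nat_lit 196) (nat_lit 1) (nat_lit 259) (nat_lit 415) (nat_lit 346)) (XT.lf (nat_lit 304) (nat_lit 15191927390) (nat_lit 0) (nat_lit 121302179) (nat_lit 228) (nat_lit 121302179) (nat_lit 193) (nat_lit 1) (nat_lit 189) (nat_lit 1) (nat_lit 192) (nat_lit 1) (nat_lit 260) (nat_lit 415) (nat_lit 345))) (XT.nd (nat_lit 78) (nat_lit 228) (nat_lit 0) (XT.lf (nat_lit 76) (nat_lit 5528633210) (nat_lit 0) (nat_lit 4207873259) (nat_lit 304) (nat_lit 5528633210) (nat_lit 190) (nat_lit 1) (nat_lit 189) (nat_lit 1) (nat_lit 193) (nat_lit 1) (nat_lit 261) (nat_lit 415) (nat_lit 344)) (XT.nd (nat_lit 78) (nat_lit 0) (nat_lit 0) (XT.lf (nat_lit 304) (nat_lit 7001778810) (nat_lit 0) (nat_lit 4048850493) (nat_lit 228) (nat_lit 4048850493) (nat_lit 190) (nat_lit 1) (nat_lit 186) (nat_lit 1) (nat_lit 189)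 (nat_lit 1) (nat_lit 262) (nat_lit 415) (nat_lit 343)) (XT.lf (nat_lit 76) (nat_lit 1497543828) (nat_lit 0) (nat_lit 11941538141) (nat_lit 304) (nat_lit 1497543828) (nat_lit 187) (nat_lit 1) (nat_lit 186) (nat_lit 1) (nat_lit 190) (nat_lit 1) (nat_lit 263) (nat_lit 415) (nat_lit 342))))) (XT.nd (nat_lit 156) (nat_lit 456) (nat_lit 0) (XT.nd (nat_lit 78) (nat_lit 228) (nat_lit 0) (XT.lf (nat_lit 76) (nat_lit 6891291518) (nat_lit 0) (nat_lit 992230329) (nat_lit 228) (nat_lit 6891291518) (nat_lit 184) (nat_lit 1) (nat_lit 183) (nat_lit 1) (nat_lit 186) (nat_lit 1) (nat_lit 264) (nat_lit 415) (nat_lit 341)) (XT.lf (nat_lit 304) (nat_lit 9771396094) (nat_lit 0) (nat_lit 2422174451) (nat_lit 228) (nat_lit 2422174451) (nat_lit 184) (nat_lit 1) (nat_lit 180) (nat_lit 1) (nat_lit 183) (nat_lit 1) (nat_lit 265) (nat_lit 415) (nat_lit 340))) (XT.nd (nat_lit 78) (nat_lit 456) (nat_lit 0) (XT.lf (nat_lit 76) (nat_lit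 2890146671) (nat_lit 0) (nat_lit 8678198483) (nat_lit 304) (nat_lit 2890146671) (nat_lit 181) (nat_lit 1) (nat_lit 180) (nat_lit 1) (nat_lit 184) (nat_lit 1) (nat_lit 266) (nat_lit 415) (nat_lit 339)) (XT.nd (nat_lit 78) (nat_lit 304) (nat_lit 0) (XT.lf (nat_lit 228) (nat_lit 1820355924) (nat_lit 0) (nat_lit 6241492425) (nat_lit 152) (nat_lit 6241492425) (nat_lit 181) (nat_lit 1) (nat_lit 178) (nat_lit 1) (nat_lit 180) (nat_lit 1) (nat_lit 267) (nat_lit 415) (nat_lit 338)) (XT.lf (nat_lit 304) (nat_lit 12128755285) (nat_lit 0) (nat_lit 1011122306) (nat_lit 228) (nat_lit 1011122306) (nat_lit 178) (nat_lit 1) (nat_lit 174) (nat_lit 1) (nat_lit 177) (nat_lit 1) (nat_lit 268) (nat_lit 415) (nat_lit 337))))))) (XT.nd (nat_lit 702) (nat_lit 1216) (nat_lit 0) (XT.nd (nat_lit 312) (nat_lit 532) (nat_lit 0) (XT.nd (nat_lit 156) (nat_lit 228) (nat_lit 0) (XT.nd (nat_lit 78) (nat_lit 152) (nat_lit 0) (XT.lf (nat_lit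 76) (nat_lit 4082031064) (nat_lit 0) (nat_lit 5835026673) (nat_lit 304) (nat_lit 4082031064) (nat_lit 175) (nat_lit 1) (nat_lit 174) (nat_lit 1) (nat_lit 178) (nat_lit 1) (nat_lit 269) (nat_lit 415) (nat_lit 336)) (XT.lf (nat_lit 228) (nat_lit 4257639328) (nat_lit 0) (nat_lit 4796148387) (nat_lit 152) (nat_lit 4796148387) (nat_lit 175) (nat_lit 1) (nat_lit 172) (nat_lit 1) (nat_lit 174) (nat_lit 1) (nat_lit 270) (nat_lit 415) (nat_lit 335))) (XT.nd (nat_lit 78) (nat_lit 228) (nat_lit 0) (XT.lf (nat_lit 76) (nat_lit 211420493) (nat_lit 0) (nat_lit 13281058858) (nat_lit 228) (nat_lit 211420493) (nat_lit 173) (nat_lit 1) (nat_lit 172) (nat_lit 1) (nat_lit 175) (nat_lit 1) (nat_lit 271) (nat_lit 415) (nat_lit 334)) (XT.lf (nat_lit 76) (nat_lit 5096902779) (nat_lit 0) (nat_lit 3363529818) (nat_lit 228) (nat_lit 5096902779) (nat_lit 170) (nat_lit 1) (nat_lit 169) (nat_lit 1) (nat_lit 172) (nat_lit 1) (nat_lit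 272) (nat_lit 415) (nat_lit 333)))) (XT.nd (nat_lit 156) (nat_lit 380) (nat_lit 0) (XT.nd (nat_lit 78) (nat_lit 0) (nat_lit 0) (XT.lf (nat_lit 228) (nat_lit 6346232802) (nat_lit 0) (nat_lit 3533804272) (nat_lit 152) (nat_lit 3533804272) (nat_lit 170) (nat_lit 1) (nat_lit 167) (nat_lit 1) (nat_lit 169) (nat_lit 1) (nat_lit 273) (nat_lit 415) (nat_lit 332)) (XT.lf (nat_lit 76) (nat_lit 1273945642) (nat_lit 0) (nat_lit 10724805356) (nat_lit 228) (nat_lit 1273945642) (nat_lit 168) (nat_lit 1) (nat_lit 167) (nat_lit 1) (nat_lit 170) (nat_lit 1) (nat_lit 274) (nat_lit 415) (nat_lit 331))) (XT.nd (nat_lit 78) (nat_lit 152) (nat_lit 0) (XT.lf (nat_lit 76) (nat_lit 5955785549) (nat_lit 0) (nat_lit 1220670344) (nat_lit 228) (nat_lit 5955785549) (nat_lit 165) (nat_lit 1) (nat_lit 164) (nat_lit 1) (nat_lit 167) (nat_lit 1) (nat_lit 275) (nat_lit 415) (nat_lit 330)) (XT.nd (nat_lit 78) (nat_lit 0) (nat_lit 0) (XT.lf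 (nat_lit 228) (nat_lit 8127259632) (nat_lit 0) (nat_lit 2433417531) (nat_lit 152) (nat_lit 2433417531) (nat_lit 165) (nat_lit 1) (nat_lit 162) (nat_lit 1) (nat_lit 164) (nat_lit 1) (nat_lit 276) (nat_lit 415) (nat_lit 329)) (XT.lf (nat_lit 76) (nat_lit 2186351456) (nat_lit 0) (nat_lit 8484924998) (nat_lit 228) (nat_lit 2186351456) (nat_lit 163) (nat_lit 1) (nat_lit 162) (nat_lit 1) (nat_lit 165) (nat_lit 1) (nat_lit 277) (nat_lit 415) (nat_lit 328)))))) (XT.nd (nat_lit 390) (nat_lit 456) (nat_lit 0) (XT.nd (nat_lit 156) (nat_lit 380) (nat_lit 0) (XT.nd (nat_lit 78) (nat_lit 228) (nat_lit 0) (XT.lf (nat_lit 228) (nat_lit 644316676) (nat_lit 0) (nat_lit 6039198167) (nat_lit 152) (nat_lit 6039198167) (nat_lit 163) (nat_lit 1) (nat_lit 160) (nat_lit 1) (nat_lit 162) (nat_lit 1) (nat_lit 278) (nat_lit 415) (nat_lit 327)) (XT.lf (nat_lit 228) (nat_lit 9637192088) (nat_lit 0) (nat_lit 1476310642) (nat_lit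 152) (nat_lit 1476310642) (nat_lit 160) (nat_lit 1) (nat_lit 157) (nat_lit 1) (nat_lit 159) (nat_lit 1) (nat_lit 279) (nat_lit 415) (nat_lit 326))) (XT.nd (nat_lit 78) (nat_lit 380) (nat_lit 0) (XT.lf (nat_lit 76) (nat_lit 2966299567) (nat_lit 0) (nat_lit 6525225913) (nat_lit 228) (nat_lit 2966299567) (nat_lit 158) (nat_lit 1) (nat_lit 157) (nat_lit 1) (nat_lit 160) (nat_lit 1) (nat_lit 280) (nat_lit 415) (nat_lit 325)) (XT.nd (nat_lit 78) (nat_lit 228) (nat_lit 0) (XT.lf (nat_lit 228) (nat_lit 2271934143) (nat_lit 0) (nat_lit 5027941806) (nat_lit 152) (nat_lit 5027941806) (nat_lit 158) (nat_lit 1) (nat_lit 155) (nat_lit 1) (nat_lit 157) (nat_lit 1) (nat_lit 281) (nat_lit 415) (nat_lit 324)) (XT.lf (nat_lit 228) (nat_lit 10908371970) (nat_lit 0) (nat_lit 645906850) (nat_lit 152) (nat_lit 645906850) (nat_lit 155) (nat_lit 1) (nat_lit 152) (nat_lit 1) (nat_lit 154) (nat_lit 1) (nat_lit 282) (nat_lit 415)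 (nat_lit 323))))) (XT.nd (nat_lit 156) (nat_lit 304) (nat_lit 0) (XT.nd (nat_lit 78) (nat_lit 152) (nat_lit 0) (XT.lf (nat_lit 76) (nat_lit 3629455266) (nat_lit 0) (nat_lit 4813578659) (nat_lit 228) (nat_lit 3629455266) (nat_lit 153) (nat_lit 1) (nat_lit 152) (nat_lit 1) (nat_lit 155) (nat_lit 1) (nat_lit 283) (nat_lit 415) (nat_lit 322)) (XT.lf (nat_lit 228) (nat_lit 3668552139) (nat_lit 0) (nat_lit 4139292682) (nat_lit 152) (nat_lit 4139292682) (nat_lit 153) (nat_lit 1) (nat_lit 150) (nat_lit 1) (nat_lit 152) (nat_lit 1) (nat_lit 284) (nat_lit 415) (nat_lit 321))) (XT.nd (nat_lit 78) (nat_lit 304) (nat_lit 0) (XT.lf (nat_lit 76) (nat_lit 73222496) (nat_lit 0) (nat_lit 11677933913) (nat_lit 228) (nat_lit 73222496) (nat_lit 151) (nat_lit 1) (nat_lit 150) (nat_lit 1) (nat_lit 153) (nat_lit 1) (nat_lit 285) (nat_lit 415) (nat_lit 320)) (XT.nd (nat_lit 78) (nat_lit 152) (nat_lit 0) (XT.lf (nat_lit 76)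 (nat_lit 4189710907) (nat_lit 0) (nat_lit 3321462439) (nat_lit 152) (nat_lit 4189710907) (nat_lit 149) (nat_lit 1) (nat_lit 148) (nat_lit 1) (nat_lit 150) (nat_lit 1) (nat_lit 286) (nat_lit 415) (nat_lit 319)) (XT.lf (nat_lit 228) (nat_lit 4861371817) (nat_lit 0) (nat_lit 3359291926) (nat_lit 152) (nat_lit 3359291926) (nat_lit 149) (nat_lit 1) (nat_lit 146) (nat_lit 1) (nat_lit 148) (nat_lit 1) (nat_lit 287) (nat_lit 415) (nat_lit 318))))))))
noncomputable def ec391 : XT := (XT.nd (nat_lit 1482) (nat_lit 1520) (nat_lit 0) (XT.nd (nat_lit 702) (nat_lit 912) (nat_lit 0) (XT.nd (nat_lit 312) (nat_lit 608) (nat_lit 0) (XT.nd (nat_lit 156) (nat_lit 152) (nat_lit 0) (XT.nd (nat_lit 78) (nat_lit 152) (nat_lit 0) (XT.lf (nat_lit 76) (nat_lit 698828450) (nat_lit 0) (nat_lit 10063490462) (nat_lit 228) (nat_lit 698828450) (nat_lit 147) (nat_lit 1) (nat_lit 146) (nat_lit 1) (nat_lit 149) (nat_lit 1) (nat_lit 288)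 (nat_lit 415) (nat_lit 317)) (XT.lf (nat_lit 76) (nat_lit 4659384373) (nat_lit 0) (nat_lit 2023561937) (nat_lit 152) (nat_lit 4659384373) (nat_lit 145) (nat_lit 1) (nat_lit 144) (nat_lit 1) (nat_lit 146) (nat_lit 1) (nat_lit 289) (nat_lit 415) (nat_lit 316))) (XT.nd (nat_lit 78) (nat_lit 0) (nat_lit 0) (XT.lf (nat_lit 228) (nat_lit 5874519056) (nat_lit 0) (nat_lit 2675545609) (nat_lit 152) (nat_lit 2675545609) (nat_lit 145) (nat_lit 1) (nat_lit 142) (nat_lit 1) (nat_lit 144) (nat_lit 1) (nat_lit 290) (nat_lit 415) (nat_lit 315)) (XT.lf (nat_lit 76) (nat_lit 1236211880) (nat_lit 0) (nat_lit 8638171644) (nat_lit 228) (nat_lit 1236211880) (nat_lit 143) (nat_lit 1) (nat_lit 142) (nat_lit 1) (nat_lit 145) (nat_lit 1) (nat_lit 291) (nat_lit 415) (nat_lit 314)))) (XT.nd (nat_lit 156) (nat_lit 304) (nat_lit 0) (XT.nd (nat_lit 78) (nat_lit 152) (nat_lit 0) (XT.lf (nat_lit 76) (nat_lit 5049395383) (nat_lit 0)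 (nat_lit 897409134) (nat_lit 152) (nat_lit 5049395383) (nat_lit 141) (nat_lit 1) (nat_lit 140) (nat_lit 1) (nat_lit 142) (nat_lit 1) (nat_lit 292) (nat_lit 415) (nat_lit 313)) (XT.lf (nat_lit 228) (nat_lit 6729388620) (nat_lit 0) (nat_lit 2077049992) (nat_lit 152) (nat_lit 2077049992) (nat_lit 141) (nat_lit 1) (nat_lit 138) (nat_lit 1) (nat_lit 140) (nat_lit 1) (nat_lit 293) (nat_lit 415) (nat_lit 312))) (XT.nd (nat_lit 78) (nat_lit 304) (nat_lit 0) (XT.lf (nat_lit 76) (nat_lit 1695748394) (nat_lit 0) (nat_lit 7380622761) (nat_lit 228) (nat_lit 1695748394) (nat_lit 139) (nat_lit 1) (nat_lit 138) (nat_lit 1) (nat_lit 141) (nat_lit 1) (nat_lit 294) (nat_lit 415) (nat_lit 311)) (XT.nd (nat_lit 78) (nat_lit 228) (nat_lit 0) (XT.lf (nat_lit 152) (nat_lit 78466061) (nat_lit 0) (nat_lit 5291710324) (nat_lit 76) (nat_lit 5291710324) (nat_lit 139) (nat_lit 1) (nat_lit 137) (nat_lit 1) (nat_lit 138) (nat_lit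 1) (nat_lit 295) (nat_lit 415) (nat_lit 310)) (XT.lf (nat_lit 228) (nat_lit 7444949897) (nat_lit 0) (nat_lit 1554036260) (nat_lit 152) (nat_lit 1554036260) (nat_lit 137) (nat_lit 1) (nat_lit 134) (nat_lit 1) (nat_lit 136) (nat_lit 1) (nat_lit 296) (nat_lit 415) (nat_lit 309)))))) (XT.nd (nat_lit 390) (nat_lit 532) (nat_lit 0) (XT.nd (nat_lit 156) (nat_lit 304) (nat_lit 0) (XT.nd (nat_lit 78) (nat_lit 76) (nat_lit 0) (XT.lf (nat_lit 76) (nat_lit 2086640921) (nat_lit 0) (nat_lit 6271878154) (nat_lit 228) (nat_lit 2086640921) (nat_lit 135) (nat_lit 1) (nat_lit 134) (nat_lit 1) (nat_lit 137) (nat_lit 1) (nat_lit 297) (nat_lit 415) (nat_lit 308)) (XT.lf (nat_lit 152) (nat_lit 935416091) (nat_lit 0) (nat_lit 4701616084) (nat_lit 76) (nat_lit 4701616084) (nat_lit 135) (nat_lit 1) (nat_lit 133) (nat_lit 1) (nat_lit 134) (nat_lit 1) (nat_lit 298) (nat_lit 415) (nat_lit 307))) (XT.nd (nat_lit 78) (nat_lit 76)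 (nat_lit 0) (XT.lf (nat_lit 228) (nat_lit 8038018515) (nat_lit 0) (nat_lit 1097832588) (nat_lit 152) (nat_lit 1097832588) (nat_lit 133) (nat_lit 1) (nat_lit 130) (nat_lit 1) (nat_lit 132) (nat_lit 1) (nat_lit 299) (nat_lit 415) (nat_lit 306)) (XT.nd (nat_lit 78) (nat_lit 76) (nat_lit 0) (XT.lf (nat_lit 76) (nat_lit 2417050944) (nat_lit 0) (nat_lit 5295094569) (nat_lit 228) (nat_lit 2417050944) (nat_lit 131) (nat_lit 1) (nat_lit 130) (nat_lit 1) (nat_lit 133) (nat_lit 1) (nat_lit 300) (nat_lit 415) (nat_lit 305)) (XT.lf (nat_lit 152) (nat_lit 1671590529) (nat_lit 0) (nat_lit 4177324995) (nat_lit 76) (nat_lit 4177324995) (nat_lit 131) (nat_lit 1) (nat_lit 129) (nat_lit 1) (nat_lit 130) (nat_lit 1) (nat_lit 301) (nat_lit 415) (nat_lit 304))))) (XT.nd (nat_lit 156) (nat_lit 304) (nat_lit 0) (XT.nd (nat_lit 78) (nat_lit 0) (nat_lit 0) (XT.lf (nat_lit 228) (nat_lit 8523497631) (nat_lit 0) (nat_lit 700741589)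 (nat_lit 152) (nat_lit 700741589) (nat_lit 129) (nat_lit 1) (nat_lit 126) (nat_lit 1) (nat_lit 128) (nat_lit 1) (nat_lit 302) (nat_lit 415) (nat_lit 303)) (XT.lf (nat_lit 76) (nat_lit 2694215071) (nat_lit 0) (nat_lit 4435314266) (nat_lit 228) (nat_lit 2694215071) (nat_lit 127) (nat_lit 1) (nat_lit 126) (nat_lit 1) (nat_lit 129) (nat_lit 1) (nat_lit 303) (nat_lit 415) (nat_lit 302))) (XT.nd (nat_lit 78) (nat_lit 228) (nat_lit 0) (XT.lf (nat_lit 152) (nat_lit 2301191824) (nat_lit 0) (nat_lit 3711499153) (nat_lit 76) (nat_lit 3711499153) (nat_lit 127) (nat_lit 1) (nat_lit 125) (nat_lit 1) (nat_lit 126) (nat_lit 1) (nat_lit 304) (nat_lit 415) (nat_lit 301)) (XT.nd (nat_lit 78) (nat_lit 0) (nat_lit 0) (XT.lf (nat_lit 228) (nat_lit 8914592288) (nat_lit 0) (nat_lit 355931430) (nat_lit 152) (nat_lit 355931430) (nat_lit 125) (nat_lit 1) (nat_lit 122) (nat_lit 1) (nat_lit 124) (nat_lit 1) (nat_lit 305) (nat_lit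 415) (nat_lit 300)) (XT.lf (nat_lit 76) (nat_lit 2924548605) (nat_lit 0) (nat_lit 3679254544) (nat_lit 228) (nat_lit 2924548605) (nat_lit 123) (nat_lit 1) (nat_lit 122) (nat_lit 1) (nat_lit 125) (nat_lit 1) (nat_lit 306) (nat_lit 415) (nat_lit 299))))))) (XT.nd (nat_lit 702) (nat_lit 760) (nat_lit 0) (XT.nd (nat_lit 312) (nat_lit 380) (nat_lit 0) (XT.nd (nat_lit 156) (nat_lit 76) (nat_lit 0) (XT.nd (nat_lit 78) (nat_lit 228) (nat_lit 0) (XT.lf (nat_lit 152) (nat_lit 2836817275) (nat_lit 0) (nat_lit 3297618926) (nat_lit 76) (nat_lit 3297618926) (nat_lit 123) (nat_lit 1) (nat_lit 121) (nat_lit 1) (nat_lit 122) (nat_lit 1) (nat_lit 307) (nat_lit 415) (nat_lit 298)) (XT.lf (nat_lit 228) (nat_lit 9222999823) (nat_lit 0) (nat_lit 57339111) (nat_lit 152) (nat_lit 57339111) (nat_lit 121) (nat_lit 1) (nat_lit 118) (nat_lit 1) (nat_lit 120) (nat_lit 1) (nat_lit 308) (nat_lit 415) (nat_lit 297))) (XT.nd (nat_lit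 78) (nat_lit 76) (nat_lit 0) (XT.lf (nat_lit 76) (nat_lit 3113737548) (nat_lit 0) (nat_lit 3015120752) (nat_lit 228) (nat_lit 3113737548) (nat_lit 119) (nat_lit 1) (nat_lit 118) (nat_lit 1) (nat_lit 121) (nat_lit 1) (nat_lit 309) (nat_lit 415) (nat_lit 296)) (XT.lf (nat_lit 152) (nat_lit 3289638654) (nat_lit 0) (nat_lit 2929891704) (nat_lit 76) (nat_lit 2929891704) (nat_lit 119) (nat_lit 1) (nat_lit 117) (nat_lit 1) (nat_lit 118) (nat_lit 1) (nat_lit 310) (nat_lit 415) (nat_lit 295)))) (XT.nd (nat_lit 156) (nat_lit 228) (nat_lit 0) (XT.nd (nat_lit 78) (nat_lit 152) (nat_lit 0) (XT.lf (nat_lit 0) (nat_lit 202399792) (nat_lit 0) (nat_lit 8653213834) (nat_lit 152) (nat_lit 202399792) (nat_lit 117) (nat_lit 3) (nat_lit 117) (nat_lit 1) (nat_lit 119) (nat_lit 1) (nat_lit 311) (nat_lit 415) (nat_lit 294)) (XT.lf (nat_lit 76) (nat_lit 3266820327) (nat_lit 0) (nat_lit 2432440147) (nat_lit 152) (nat_lit 3266820327)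 (nat_lit 116) (nat_lit 1) (nat_lit 115) (nat_lit 1) (nat_lit 117) (nat_lit 1) (nat_lit 312) (nat_lit 415) (nat_lit 293))) (XT.nd (nat_lit 78) (nat_lit 152) (nat_lit 0) (XT.lf (nat_lit 152) (nat_lit 3669561771) (nat_lit 0) (nat_lit 2603170831) (nat_lit 76) (nat_lit 2603170831) (nat_lit 116) (nat_lit 1) (nat_lit 114) (nat_lit 1) (nat_lit 115) (nat_lit 1) (nat_lit 313) (nat_lit 415) (nat_lit 292)) (XT.nd (nat_lit 78) (nat_lit 152) (nat_lit 0) (XT.lf (nat_lit 0) (nat_lit 426285182) (nat_lit 0) (nat_lit 7934724003) (nat_lit 152) (nat_lit 426285182) (nat_lit 114) (nat_lit 3) (nat_lit 114) (nat_lit 1) (nat_lit 116) (nat_lit 1) (nat_lit 314) (nat_lit 415) (nat_lit 291)) (XT.lf (nat_lit 76) (nat_lit 3388260408) (nat_lit 0) (nat_lit 1921914295) (nat_lit 152) (nat_lit 3388260408) (nat_lit 113) (nat_lit 1) (nat_lit 112) (nat_lit 1) (nat_lit 114) (nat_lit 1) (nat_lit 315) (nat_lit 415) (nat_lit 290)))))) (XT.nd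 (nat_lit 390) (nat_lit 456) (nat_lit 0) (XT.nd (nat_lit 156) (nat_lit 228) (nat_lit 0) (XT.nd (nat_lit 78) (nat_lit 0) (nat_lit 0) (XT.lf (nat_lit 152) (nat_lit 3985368235) (nat_lit 0) (nat_lit 2312883567) (nat_lit 76) (nat_lit 2312883567) (nat_lit 113) (nat_lit 1) (nat_lit 111) (nat_lit 1) (nat_lit 112) (nat_lit 1) (nat_lit 316) (nat_lit 415) (nat_lit 289)) (XT.lf (nat_lit 0) (nat_lit 618026134) (nat_lit 0) (nat_lit 7289176776) (nat_lit 152) (nat_lit 618026134) (nat_lit 111) (nat_lit 3) (nat_lit 111) (nat_lit 1) (nat_lit 113) (nat_lit 1) (nat_lit 317) (nat_lit 415) (nat_lit 288))) (XT.nd (nat_lit 78) (nat_lit 76) (nat_lit 0) (XT.lf (nat_lit 76) (nat_lit 3482010788) (nat_lit 0) (nat_lit 1475287928) (nat_lit 152) (nat_lit 3482010788) (nat_lit 110) (nat_lit 1) (nat_lit 109) (nat_lit 1) (nat_lit 111) (nat_lit 1) (nat_lit 318) (nat_lit 415) (nat_lit 287)) (XT.nd (nat_lit 78) (nat_lit 0) (nat_lit 0) (XT.lf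 (nat_lit 152) (nat_lit 4244841389) (nat_lit 0) (nat_lit 2054967092) (nat_lit 76) (nat_lit 2054967092) (nat_lit 110) (nat_lit 1) (nat_lit 108) (nat_lit 1) (nat_lit 109) (nat_lit 1) (nat_lit 319) (nat_lit 415) (nat_lit 286)) (XT.lf (nat_lit 0) (nat_lit 781416245) (nat_lit 0) (nat_lit 6708647186) (nat_lit 152) (nat_lit 781416245) (nat_lit 108) (nat_lit 3) (nat_lit 108) (nat_lit 1) (nat_lit 110) (nat_lit 1) (nat_lit 320) (nat_lit 415) (nat_lit 285))))) (XT.nd (nat_lit 156) (nat_lit 228) (nat_lit 0) (XT.nd (nat_lit 78) (nat_lit 76) (nat_lit 0) (XT.lf (nat_lit 76) (nat_lit 3551571293) (nat_lit 0) (nat_lit 1085232439) (nat_lit 152) (nat_lit 3551571293) (nat_lit 107) (nat_lit 1) (nat_lit 106) (nat_lit 1) (nat_lit 108) (nat_lit 1) (nat_lit 321) (nat_lit 415) (nat_lit 284)) (XT.lf (nat_lit 152) (nat_lit 4454878178) (nat_lit 0) (nat_lit 1825811646) (nat_lit 76) (nat_lit 1825811646) (nat_lit 107) (nat_lit 1) (nat_lit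 105) (nat_lit 1) (nat_lit 106) (nat_lit 1) (nat_lit 322) (nat_lit 415) (nat_lit 283))) (XT.nd (nat_lit 78) (nat_lit 228) (nat_lit 0) (XT.lf (nat_lit 0) (nat_lit 919819990) (nat_lit 0) (nat_lit 6186087910) (nat_lit 152) (nat_lit 919819990) (nat_lit 105) (nat_lit 3) (nat_lit 105) (nat_lit 1) (nat_lit 107) (nat_lit 1) (nat_lit 323) (nat_lit 415) (nat_lit 282)) (XT.nd (nat_lit 78) (nat_lit 76) (nat_lit 0) (XT.lf (nat_lit 76) (nat_lit 3600039469) (nat_lit 0) (nat_lit 745242368) (nat_lit 152) (nat_lit 3600039469) (nat_lit 104) (nat_lit 1) (nat_lit 103) (nat_lit 1) (nat_lit 105) (nat_lit 1) (nat_lit 324) (nat_lit 415) (nat_lit 281)) (XT.lf (nat_lit 152) (nat_lit 4621588535) (nat_lit 0) (nat_lit 1622209999) (nat_lit 76) (nat_lit 1622209999) (nat_lit 104) (nat_lit 1) (nat_lit 102) (nat_lit 1) (nat_lit 103) (nat_lit 1) (nat_lit 325) (nat_lit 415) (nat_lit 280))))))))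
noncomputable def ec392 : XT := (XT.nd (nat_lit 1404) (nat_lit 1368) (nat_lit 0) (XT.nd (nat_lit 702) (nat_lit 684) (nat_lit 0) (XT.nd (nat_lit 312) (nat_lit 456) (nat_lit 0) (XT.nd (nat_lit 156) (nat_lit 76) (nat_lit 0) (XT.nd (nat_lit 78) (nat_lit 152) (nat_lit 0) (XT.lf (nat_lit 0) (nat_lit 1036220746) (nat_lit 0) (nat_lit 5715231584) (nat_lit 152) (nat_lit 1036220746) (nat_lit 102) (nat_lit 3) (nat_lit 102) (nat_lit 1) (nat_lit 104) (nat_lit 1) (nat_lit 326) (nat_lit 415) (nat_lit 279)) (XT.lf (nat_lit 76) (nat_lit 3630155794) (nat_lit 0) (nat_lit 449543435) (nat_lit 152) (nat_lit 3630155794) (nat_lit 101) (nat_lit 1) (nat_lit 100) (nat_lit 1) (nat_lit 102) (nat_lit 1) (nat_lit 327) (nat_lit 415) (nat_lit 278))) (XT.nd (nat_lit 78) (nat_lit 0) (nat_lit 0) (XT.lf (nat_lit 152) (nat_lit 4750383665) (nat_lit 0) (nat_lit 1441312573) (nat_lit 76) (nat_lit 1441312573) (nat_lit 101) (nat_lit 1) (nat_lit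 99) (nat_lit 1) (nat_lit 100) (nat_lit 1) (nat_lit 328) (nat_lit 415) (nat_lit 277)) (XT.lf (nat_lit 0) (nat_lit 1133263467) (nat_lit 0) (nat_lit 5290503994) (nat_lit 152) (nat_lit 1133263467) (nat_lit 99) (nat_lit 3) (nat_lit 99) (nat_lit 1) (nat_lit 101) (nat_lit 1) (nat_lit 329) (nat_lit 415) (nat_lit 276)))) (XT.nd (nat_lit 156) (nat_lit 228) (nat_lit 0) (XT.nd (nat_lit 78) (nat_lit 76) (nat_lit 0) (XT.lf (nat_lit 76) (nat_lit 3644343837) (nat_lit 0) (nat_lit 193010844) (nat_lit 152) (nat_lit 3644343837) (nat_lit 98) (nat_lit 1) (nat_lit 97) (nat_lit 1) (nat_lit 99) (nat_lit 1) (nat_lit 330) (nat_lit 415) (nat_lit 275)) (XT.lf (nat_lit 152) (nat_lit 4846054466) (nat_lit 0) (nat_lit 1280587553) (nat_lit 76) (nat_lit 1280587553) (nat_lit 98) (nat_lit 1) (nat_lit 96) (nat_lit 1) (nat_lit 97) (nat_lit 1) (nat_lit 331) (nat_lit 415) (nat_lit 274))) (XT.nd (nat_lit 78) (nat_lit 228) (nat_lit 0) (XT.lf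 (nat_lit 0) (nat_lit 1213292588) (nat_lit 0) (nat_lit 4906946951) (nat_lit 152) (nat_lit 1213292588) (nat_lit 96) (nat_lit 3) (nat_lit 96) (nat_lit 1) (nat_lit 98) (nat_lit 1) (nat_lit 332) (nat_lit 415) (nat_lit 273)) (XT.nd (nat_lit 78) (nat_lit 152) (nat_lit 0) (XT.lf (nat_lit 76) (nat_lit 29478544) (nat_lit 0) (nat_lit 3615550741) (nat_lit 76) (nat_lit 3615550741) (nat_lit 96) (nat_lit 3) (nat_lit 95) (nat_lit 1) (nat_lit 96) (nat_lit 1) (nat_lit 333) (nat_lit 415) (nat_lit 272)) (XT.lf (nat_lit 152) (nat_lit 4912841197) (nat_lit 0) (nat_lit 1137785455) (nat_lit 76) (nat_lit 1137785455) (nat_lit 95) (nat_lit 1) (nat_lit 93) (nat_lit 1) (nat_lit 94) (nat_lit 1) (nat_lit 334) (nat_lit 415) (nat_lit 271)))))) (XT.nd (nat_lit 312) (nat_lit 456) (nat_lit 0) (XT.nd (nat_lit 156) (nat_lit 152) (nat_lit 0) (XT.nd (nat_lit 78) (nat_lit 76) (nat_lit 0) (XT.lf (nat_lit 0) (nat_lit 1278385697) (nat_lit 0) (nat_lit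 4560149758) (nat_lit 152) (nat_lit 1278385697) (nat_lit 93) (nat_lit 3) (nat_lit 93) (nat_lit 1) (nat_lit 95) (nat_lit 1) (nat_lit 335) (nat_lit 415) (nat_lit 270)) (XT.lf (nat_lit 76) (nat_lit 224617635) (nat_lit 0) (nat_lit 3410796335) (nat_lit 76) (nat_lit 3410796335) (nat_lit 93) (nat_lit 3) (nat_lit 92) (nat_lit 1) (nat_lit 93) (nat_lit 1) (nat_lit 336) (nat_lit 415) (nat_lit 269))) (XT.nd (nat_lit 78) (nat_lit 0) (nat_lit 0) (XT.lf (nat_lit 152) (nat_lit 4954495355) (nat_lit 0) (nat_lit 1010907640) (nat_lit 76) (nat_lit 1010907640) (nat_lit 92) (nat_lit 1) (nat_lit 90) (nat_lit 1) (nat_lit 91) (nat_lit 1) (nat_lit 337) (nat_lit 415) (nat_lit 268)) (XT.lf (nat_lit 0) (nat_lit 1330383452) (nat_lit 0) (nat_lit 4246188315) (nat_lit 152) (nat_lit 1330383452) (nat_lit 90) (nat_lit 3) (nat_lit 90) (nat_lit 1) (nat_lit 92) (nat_lit 1) (nat_lit 338) (nat_lit 415) (nat_lit 267)))) (XT.nd (nat_lit 156) (nat_lit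 228) (nat_lit 0) (XT.nd (nat_lit 78) (nat_lit 152) (nat_lit 0) (XT.lf (nat_lit 76) (nat_lit 392216782) (nat_lit 0) (nat_lit 3223095289) (nat_lit 76) (nat_lit 3223095289) (nat_lit 90) (nat_lit 3) (nat_lit 89) (nat_lit 1) (nat_lit 90) (nat_lit 1) (nat_lit 339) (nat_lit 415) (nat_lit 266)) (XT.lf (nat_lit 152) (nat_lit 4974334644) (nat_lit 0) (nat_lit 898178344) (nat_lit 76) (nat_lit 898178344) (nat_lit 89) (nat_lit 1) (nat_lit 87) (nat_lit 1) (nat_lit 88) (nat_lit 1) (nat_lit 340) (nat_lit 415) (nat_lit 265))) (XT.nd (nat_lit 78) (nat_lit 228) (nat_lit 0) (XT.lf (nat_lit 0) (nat_lit 1370916153) (nat_lit 0) (nat_lit 3961571008) (nat_lit 152) (nat_lit 1370916153) (nat_lit 87) (nat_lit 3) (nat_lit 87) (nat_lit 1) (nat_lit 89) (nat_lit 1) (nat_lit 341) (nat_lit 415) (nat_lit 264)) (XT.nd (nat_lit 78) (nat_lit 152) (nat_lit 0) (XT.lf (nat_lit 76) (nat_lit 535515378) (nat_lit 0) (nat_lit 3050714266) (nat_lit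 76) (nat_lit 3050714266) (nat_lit 87) (nat_lit 3) (nat_lit 86) (nat_lit 1) (nat_lit 87) (nat_lit 1) (nat_lit 342) (nat_lit 415) (nat_lit 263)) (XT.lf (nat_lit 152) (nat_lit 4975291798) (nat_lit 0) (nat_lit 798019826) (nat_lit 76) (nat_lit 798019826) (nat_lit 86) (nat_lit 1) (nat_lit 84) (nat_lit 1) (nat_lit 85) (nat_lit 1) (nat_lit 343) (nat_lit 415) (nat_lit 262))))))) (XT.nd (nat_lit 702) (nat_lit 684) (nat_lit 0) (XT.nd (nat_lit 312) (nat_lit 456) (nat_lit 0) (XT.nd (nat_lit 156) (nat_lit 152) (nat_lit 0) (XT.nd (nat_lit 78) (nat_lit 76) (nat_lit 0) (XT.lf (nat_lit 0) (nat_lit 1401427350) (nat_lit 0) (nat_lit 3703190634) (nat_lit 152) (nat_lit 1401427350) (nat_lit 84) (nat_lit 3) (nat_lit 84) (nat_lit 1) (nat_lit 86) (nat_lit 1) (nat_lit 344) (nat_lit 415) (nat_lit 261)) (XT.lf (nat_lit 76) (nat_lit 657386678) (nat_lit 0) (nat_lit 2892108313) (nat_lit 76) (nat_lit 2892108313) (nat_lit 84) (nat_lit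 3) (nat_lit 83) (nat_lit 1) (nat_lit 84) (nat_lit 1) (nat_lit 345) (nat_lit 415) (nat_lit 260))) (XT.nd (nat_lit 78) (nat_lit 0) (nat_lit 0) (XT.lf (nat_lit 152) (nat_lit 4959957949) (nat_lit 0) (nat_lit 709030279) (nat_lit 76) (nat_lit 709030279) (nat_lit 83) (nat_lit 1) (nat_lit 81) (nat_lit 1) (nat_lit 82) (nat_lit 1) (nat_lit 346) (nat_lit 415) (nat_lit 259)) (XT.lf (nat_lit 0) (nat_lit 1423194810) (nat_lit 0) (nat_lit 3468281675) (nat_lit 152) (nat_lit 1423194810) (nat_lit 81) (nat_lit 3) (nat_lit 81) (nat_lit 1) (nat_lit 83) (nat_lit 1) (nat_lit 347) (nat_lit 415) (nat_lit 258)))) (XT.nd (nat_lit 156) (nat_lit 228) (nat_lit 0) (XT.nd (nat_lit 78) (nat_lit 152) (nat_lit 0) (XT.lf (nat_lit 76) (nat_lit 760378773) (nat_lit 0) (nat_lit 2745900001) (nat_lit 76) (nat_lit 2745900001) (nat_lit 81) (nat_lit 3) (nat_lit 80) (nat_lit 1) (nat_lit 81) (nat_lit 1) (nat_lit 348) (nat_lit 415) (nat_lit 257))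 (XT.lf (nat_lit 152) (nat_lit 4930621140) (nat_lit 0) (nat_lit 629964219) (nat_lit 76) (nat_lit 629964219) (nat_lit 80) (nat_lit 1) (nat_lit 78) (nat_lit 1) (nat_lit 79) (nat_lit 1) (nat_lit 349) (nat_lit 415) (nat_lit 256))) (XT.nd (nat_lit 78) (nat_lit 228) (nat_lit 0) (XT.lf (nat_lit 0) (nat_lit 1437349147) (nat_lit 0) (nat_lit 3254382338) (nat_lit 152) (nat_lit 1437349147) (nat_lit 78) (nat_lit 3) (nat_lit 78) (nat_lit 1) (nat_lit 80) (nat_lit 1) (nat_lit 350) (nat_lit 415) (nat_lit 255)) (XT.nd (nat_lit 78) (nat_lit 152) (nat_lit 0) (XT.lf (nat_lit 76) (nat_lit 846750987) (nat_lit 0) (nat_lit 2610860882) (nat_lit 76) (nat_lit 2610860882) (nat_lit 78) (nat_lit 3) (nat_lit 77) (nat_lit 1) (nat_lit 78) (nat_lit 1) (nat_lit 351) (nat_lit 415) (nat_lit 254)) (XT.lf (nat_lit 152) (nat_lit 4889300539) (nat_lit 0) (nat_lit 559715050) (nat_lit 76) (nat_lit 559715050) (nat_lit 77) (nat_lit 1) (nat_lit 75)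 (nat_lit 1) (nat_lit 76) (nat_lit 1) (nat_lit 352) (nat_lit 415) (nat_lit 253)))))) (XT.nd (nat_lit 390) (nat_lit 380) (nat_lit 0) (XT.nd (nat_lit 156) (nat_lit 228) (nat_lit 0) (XT.nd (nat_lit 78) (nat_lit 76) (nat_lit 0) (XT.lf (nat_lit 0) (nat_lit 1444890364) (nat_lit 0) (nat_lit 3059300820) (nat_lit 152) (nat_lit 1444890364) (nat_lit 75) (nat_lit 3) (nat_lit 75) (nat_lit 1) (nat_lit 77) (nat_lit 1) (nat_lit 353) (nat_lit 415) (nat_lit 252)) (XT.lf (nat_lit 76) (nat_lit 918506212) (nat_lit 0) (nat_lit 2485895005) (nat_lit 76) (nat_lit 2485895005) (nat_lit 75) (nat_lit 3) (nat_lit 74) (nat_lit 1) (nat_lit 75) (nat_lit 1) (nat_lit 354) (nat_lit 415) (nat_lit 251))) (XT.nd (nat_lit 78) (nat_lit 76) (nat_lit 0) (XT.lf (nat_lit 152) (nat_lit 4837776822) (nat_lit 0) (nat_lit 497299572) (nat_lit 76) (nat_lit 497299572) (nat_lit 74) (nat_lit 1) (nat_lit 72) (nat_lit 1) (nat_lit 73) (nat_lit 1) (nat_lit 355)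 (nat_lit 415) (nat_lit 250)) (XT.nd (nat_lit 78) (nat_lit 76) (nat_lit 0) (XT.lf (nat_lit 0) (nat_lit 1446702552) (nat_lit 0) (nat_lit 2881085332) (nat_lit 152) (nat_lit 1446702552) (nat_lit 72) (nat_lit 3) (nat_lit 72) (nat_lit 1) (nat_lit 74) (nat_lit 1) (nat_lit 356) (nat_lit 415) (nat_lit 249)) (XT.lf (nat_lit 76) (nat_lit 977419638) (nat_lit 0) (nat_lit 2370024279) (nat_lit 76) (nat_lit 2370024279) (nat_lit 72) (nat_lit 3) (nat_lit 71) (nat_lit 1) (nat_lit 72) (nat_lit 1) (nat_lit 357) (nat_lit 415) (nat_lit 248))))) (XT.nd (nat_lit 156) (nat_lit 228) (nat_lit 0) (XT.nd (nat_lit 78) (nat_lit 0) (nat_lit 0) (XT.lf (nat_lit 152) (nat_lit 4777619154) (nat_lit 0) (nat_lit 441844229) (nat_lit 76) (nat_lit 441844229) (nat_lit 71) (nat_lit 1) (nat_lit 69) (nat_lit 1) (nat_lit 70) (nat_lit 1) (nat_lit 358) (nat_lit 415) (nat_lit 247)) (XT.lf (nat_lit 0) (nat_lit 1443566944) (nat_lit 0) (nat_lit 2717997466)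 (nat_lit 152) (nat_lit 1443566944) (nat_lit 69) (nat_lit 3) (nat_lit 69) (nat_lit 1) (nat_lit 71) (nat_lit 1) (nat_lit 359) (nat_lit 415) (nat_lit 246))) (XT.nd (nat_lit 78) (nat_lit 152) (nat_lit 0) (XT.lf (nat_lit 76) (nat_lit 1025064266) (nat_lit 0) (nat_lit 2262375452) (nat_lit 76) (nat_lit 2262375452) (nat_lit 69) (nat_lit 3) (nat_lit 68) (nat_lit 1) (nat_lit 69) (nat_lit 1) (nat_lit 360) (nat_lit 415) (nat_lit 245)) (XT.nd (nat_lit 78) (nat_lit 0) (nat_lit 0) (XT.lf (nat_lit 152) (nat_lit 4710209153) (nat_lit 0) (nat_lit 392572874) (nat_lit 76) (nat_lit 392572874) (nat_lit 68) (nat_lit 1) (nat_lit 66) (nat_lit 1) (nat_lit 67) (nat_lit 1) (nat_lit 361) (nat_lit 415) (nat_lit 244)) (XT.lf (nat_lit 0) (nat_lit 1436173507) (nat_lit 0) (nat_lit 2568488520) (nat_lit 152) (nat_lit 1436173507) (nat_lit 66) (nat_lit 3) (nat_lit 66) (nat_lit 1) (nat_lit 68) (nat_lit 1) (nat_lit 362) (nat_lit 415) (nat_lit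 243))))))))
noncomputable def ec393 : XT := (XT.nd (nat_lit 1482) (nat_lit 1520) (nat_lit 0) (XT.nd (nat_lit 702) (nat_lit 760) (nat_lit 0) (XT.nd (nat_lit 312) (nat_lit 380) (nat_lit 0) (XT.nd (nat_lit 156) (nat_lit 76) (nat_lit 0) (XT.nd (nat_lit 78) (nat_lit 152) (nat_lit 0) (XT.lf (nat_lit 76) (nat_lit 1062833583) (nat_lit 0) (nat_lit 2162168546) (nat_lit 76) (nat_lit 2162168546) (nat_lit 66) (nat_lit 3) (nat_lit 65) (nat_lit 1) (nat_lit 66) (nat_lit 1) (nat_lit 363) (nat_lit 415) (nat_lit 242)) (XT.lf (nat_lit 152) (nat_lit 4636762169) (nat_lit 0) (nat_lit 348795914) (nat_lit 76) (nat_lit 348795914) (nat_lit 65) (nat_lit 1) (nat_lit 63) (nat_lit 1) (nat_lit 64) (nat_lit 1) (nat_lit 364) (nat_lit 415) (nat_lit 241))) (XT.nd (nat_lit 78) (nat_lit 76) (nat_lit 0) (XT.lf (nat_lit 0) (nat_lit 1425131244) (nat_lit 0) (nat_lit 2431178467) (nat_lit 152) (nat_lit 1425131244) (nat_lit 63) (nat_lit 3) (nat_lit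 63) (nat_lit 1) (nat_lit 65) (nat_lit 1) (nat_lit 365) (nat_lit 415) (nat_lit 240)) (XT.lf (nat_lit 76) (nat_lit 1091961697) (nat_lit 0) (nat_lit 2068706574) (nat_lit 76) (nat_lit 2068706574) (nat_lit 63) (nat_lit 3) (nat_lit 62) (nat_lit 1) (nat_lit 63) (nat_lit 1) (nat_lit 366) (nat_lit 415) (nat_lit 239)))) (XT.nd (nat_lit 156) (nat_lit 228) (nat_lit 0) (XT.nd (nat_lit 78) (nat_lit 0) (nat_lit 0) (XT.lf (nat_lit 152) (nat_lit 4558346184) (nat_lit 0) (nat_lit 309900652) (nat_lit 76) (nat_lit 309900652) (nat_lit 62) (nat_lit 1) (nat_lit 60) (nat_lit 1) (nat_lit 61) (nat_lit 1) (nat_lit 367) (nat_lit 415) (nat_lit 238)) (XT.lf (nat_lit 0) (nat_lit 1410977336) (nat_lit 0) (nat_lit 2304837263) (nat_lit 152) (nat_lit 1410977336) (nat_lit 60) (nat_lit 3) (nat_lit 60) (nat_lit 1) (nat_lit 62) (nat_lit 1) (nat_lit 368) (nat_lit 415) (nat_lit 237))) (XT.nd (nat_lit 78) (nat_lit 152) (nat_lit 0) (XT.lf (nat_lit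 76) (nat_lit 1113541228) (nat_lit 0) (nat_lit 1981366399) (nat_lit 76) (nat_lit 1981366399) (nat_lit 60) (nat_lit 3) (nat_lit 59) (nat_lit 1) (nat_lit 60) (nat_lit 1) (nat_lit 369) (nat_lit 415) (nat_lit 236)) (XT.nd (nat_lit 78) (nat_lit 0) (nat_lit 0) (XT.lf (nat_lit 152) (nat_lit 4475898585) (nat_lit 0) (nat_lit 275342715) (nat_lit 76) (nat_lit 275342715) (nat_lit 59) (nat_lit 1) (nat_lit 57) (nat_lit 1) (nat_lit 58) (nat_lit 1) (nat_lit 370) (nat_lit 415) (nat_lit 235)) (XT.lf (nat_lit 0) (nat_lit 1394185267) (nat_lit 0) (nat_lit 2188368234) (nat_lit 152) (nat_lit 1394185267) (nat_lit 57) (nat_lit 3) (nat_lit 57) (nat_lit 1) (nat_lit 59) (nat_lit 1) (nat_lit 371) (nat_lit 415) (nat_lit 234)))))) (XT.nd (nat_lit 390) (nat_lit 304) (nat_lit 0) (XT.nd (nat_lit 156) (nat_lit 228) (nat_lit 0) (XT.nd (nat_lit 78) (nat_lit 152) (nat_lit 0) (XT.lf (nat_lit 76) (nat_lit 1128539194) (nat_lit 0) (nat_lit 1899590619)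 (nat_lit 76) (nat_lit 1899590619) (nat_lit 57) (nat_lit 3) (nat_lit 56) (nat_lit 1) (nat_lit 57) (nat_lit 1) (nat_lit 372) (nat_lit 415) (nat_lit 233)) (XT.lf (nat_lit 152) (nat_lit 4390241068) (nat_lit 0) (nat_lit 244638436) (nat_lit 76) (nat_lit 244638436) (nat_lit 56) (nat_lit 1) (nat_lit 54) (nat_lit 1) (nat_lit 55) (nat_lit 1) (nat_lit 373) (nat_lit 415) (nat_lit 232))) (XT.nd (nat_lit 78) (nat_lit 228) (nat_lit 0) (XT.lf (nat_lit 0) (nat_lit 1375172036) (nat_lit 0) (nat_lit 2080793316) (nat_lit 152) (nat_lit 1375172036) (nat_lit 54) (nat_lit 3) (nat_lit 54) (nat_lit 1) (nat_lit 56) (nat_lit 1) (nat_lit 374) (nat_lit 415) (nat_lit 231)) (XT.nd (nat_lit 78) (nat_lit 152) (nat_lit 0) (XT.lf (nat_lit 76) (nat_lit 1137811132) (nat_lit 0) (nat_lit 1822880336) (nat_lit 76) (nat_lit 1822880336) (nat_lit 54) (nat_lit 3) (nat_lit 53) (nat_lit 1) (nat_lit 54) (nat_lit 1) (nat_lit 375) (nat_lit 415) (nat_lit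 230)) (XT.lf (nat_lit 152) (nat_lit 4302092857) (nat_lit 0) (nat_lit 217358082) (nat_lit 76) (nat_lit 217358082) (nat_lit 53) (nat_lit 1) (nat_lit 51) (nat_lit 1) (nat_lit 52) (nat_lit 1) (nat_lit 376) (nat_lit 415) (nat_lit 229))))) (XT.nd (nat_lit 156) (nat_lit 228) (nat_lit 0) (XT.nd (nat_lit 78) (nat_lit 76) (nat_lit 0) (XT.lf (nat_lit 0) (nat_lit 1354304566) (nat_lit 0) (nat_lit 1981239934) (nat_lit 152) (nat_lit 1354304566) (nat_lit 51) (nat_lit 3) (nat_lit 51) (nat_lit 1) (nat_lit 53) (nat_lit 1) (nat_lit 377) (nat_lit 415) (nat_lit 228)) (XT.lf (nat_lit 76) (nat_lit 1142113634) (nat_lit 0) (nat_lit 1750788749) (nat_lit 76) (nat_lit 1750788749) (nat_lit 51) (nat_lit 3) (nat_lit 50) (nat_lit 1) (nat_lit 51) (nat_lit 1) (nat_lit 378) (nat_lit 415) (nat_lit 227))) (XT.nd (nat_lit 78) (nat_lit 76) (nat_lit 0) (XT.lf (nat_lit 152) (nat_lit 4212082453) (nat_lit 0) (nat_lit 193119841) (nat_lit 76) (nat_lit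 193119841) (nat_lit 50) (nat_lit 1) (nat_lit 48) (nat_lit 1) (nat_lit 49) (nat_lit 1) (nat_lit 379) (nat_lit 415) (nat_lit 226)) (XT.nd (nat_lit 78) (nat_lit 76) (nat_lit 0) (XT.lf (nat_lit 0) (nat_lit 1331905389) (nat_lit 0) (nat_lit 1888929344) (nat_lit 152) (nat_lit 1331905389) (nat_lit 48) (nat_lit 3) (nat_lit 48) (nat_lit 1) (nat_lit 50) (nat_lit 1) (nat_lit 380) (nat_lit 415) (nat_lit 225)) (XT.lf (nat_lit 76) (nat_lit 1142115481) (nat_lit 0) (nat_lit 1682915438) (nat_lit 76) (nat_lit 1682915438) (nat_lit 48) (nat_lit 3) (nat_lit 47) (nat_lit 1) (nat_lit 48) (nat_lit 1) (nat_lit 381) (nat_lit 415) (nat_lit 224))))))) (XT.nd (nat_lit 702) (nat_lit 836) (nat_lit 0) (XT.nd (nat_lit 312) (nat_lit 304) (nat_lit 0) (XT.nd (nat_lit 156) (nat_lit 228) (nat_lit 0) (XT.nd (nat_lit 78) (nat_lit 0) (nat_lit 0) (XT.lf (nat_lit 152) (nat_lit 4120758054) (nat_lit 0) (nat_lit 171584477) (nat_lit 76) (nat_lit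 171584477) (nat_lit 47) (nat_lit 1) (nat_lit 45) (nat_lit 1) (nat_lit 46) (nat_lit 1) (nat_lit 382) (nat_lit 415) (nat_lit 223)) (XT.lf (nat_lit 0) (nat_lit 1308257701) (nat_lit 0) (nat_lit 1803166270) (nat_lit 152) (nat_lit 1308257701) (nat_lit 45) (nat_lit 3) (nat_lit 45) (nat_lit 1) (nat_lit 47) (nat_lit 1) (nat_lit 383) (nat_lit 415) (nat_lit 222))) (XT.nd (nat_lit 78) (nat_lit 152) (nat_lit 0) (XT.lf (nat_lit 76) (nat_lit 1138407541) (nat_lit 0) (nat_lit 1618901298) (nat_lit 76) (nat_lit 1618901298) (nat_lit 45) (nat_lit 3) (nat_lit 44) (nat_lit 1) (nat_lit 45) (nat_lit 1) (nat_lit 384) (nat_lit 415) (nat_lit 221)) (XT.lf (nat_lit 152) (nat_lit 4028596809) (nat_lit 0) (nat_lit 152450585) (nat_lit 76) (nat_lit 152450585) (nat_lit 44) (nat_lit 1) (nat_lit 42) (nat_lit 1) (nat_lit 43) (nat_lit 1) (nat_lit 385) (nat_lit 415) (nat_lit 220)))) (XT.nd (nat_lit 156) (nat_lit 228) (nat_lit 0) (XT.nd (nat_lit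 78) (nat_lit 76) (nat_lit 0) (XT.lf (nat_lit 0) (nat_lit 1283609841) (nat_lit 0) (nat_lit 1723329695) (nat_lit 152) (nat_lit 1283609841) (nat_lit 42) (nat_lit 3) (nat_lit 42) (nat_lit 1) (nat_lit 44) (nat_lit 1) (nat_lit 386) (nat_lit 415) (nat_lit 219)) (XT.lf (nat_lit 76) (nat_lit 1131511549) (nat_lit 0) (nat_lit 1558424028) (nat_lit 76) (nat_lit 1558424028) (nat_lit 42) (nat_lit 3) (nat_lit 41) (nat_lit 1) (nat_lit 42) (nat_lit 1) (nat_lit 387) (nat_lit 415) (nat_lit 218))) (XT.nd (nat_lit 78) (nat_lit 76) (nat_lit 0) (XT.lf (nat_lit 152) (nat_lit 3936013029) (nat_lit 0) (nat_lit 135450370) (nat_lit 76) (nat_lit 135450370) (nat_lit 41) (nat_lit 1) (nat_lit 39) (nat_lit 1) (nat_lit 40) (nat_lit 1) (nat_lit 388) (nat_lit 415) (nat_lit 217)) (XT.nd (nat_lit 78) (nat_lit 76) (nat_lit 0) (XT.lf (nat_lit 0) (nat_lit 1258179280) (nat_lit 0) (nat_lit 1648864675) (nat_lit 152) (nat_lit 1258179280) (nat_lit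 39) (nat_lit 3) (nat_lit 39) (nat_lit 1) (nat_lit 41) (nat_lit 1) (nat_lit 389) (nat_lit 415) (nat_lit 216)) (XT.lf (nat_lit 76) (nat_lit 1121887912) (nat_lit 0) (nat_lit 1501194120) (nat_lit 76) (nat_lit 1501194120) (nat_lit 39) (nat_lit 3) (nat_lit 38) (nat_lit 1) (nat_lit 39) (nat_lit 1) (nat_lit 390) (nat_lit 415) (nat_lit 215)))))) (XT.nd (nat_lit 390) (nat_lit 456) (nat_lit 0) (XT.nd (nat_lit 156) (nat_lit 228) (nat_lit 0) (XT.nd (nat_lit 78) (nat_lit 0) (nat_lit 0) (XT.lf (nat_lit 152) (nat_lit 3843365473) (nat_lit 0) (nat_lit 120345900) (nat_lit 76) (nat_lit 120345900) (nat_lit 38) (nat_lit 1) (nat_lit 36) (nat_lit 1) (nat_lit 37) (nat_lit 1) (nat_lit 391) (nat_lit 415) (nat_lit 214)) (XT.lf (nat_lit 0) (nat_lit 1232156151) (nat_lit 0) (nat_lit 1579275064) (nat_lit 152) (nat_lit 1232156151) (nat_lit 36) (nat_lit 3) (nat_lit 36) (nat_lit 1) (nat_lit 38) (nat_lit 1) (nat_lit 392) (nat_lit 415)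 (nat_lit 213))) (XT.nd (nat_lit 78) (nat_lit 152) (nat_lit 0) (XT.lf (nat_lit 76) (nat_lit 1109942642) (nat_lit 0) (nat_lit 1446951296) (nat_lit 76) (nat_lit 1446951296) (nat_lit 36) (nat_lit 3) (nat_lit 35) (nat_lit 1) (nat_lit 36) (nat_lit 1) (nat_lit 393) (nat_lit 415) (nat_lit 212)) (XT.nd (nat_lit 78) (nat_lit 0) (nat_lit 0) (XT.lf (nat_lit 152) (nat_lit 3750963818) (nat_lit 0) (nat_lit 106925773) (nat_lit 76) (nat_lit 106925773) (nat_lit 35) (nat_lit 1) (nat_lit 33) (nat_lit 1) (nat_lit 34) (nat_lit 1) (nat_lit 394) (nat_lit 415) (nat_lit 211)) (XT.lf (nat_lit 0) (nat_lit 1205706390) (nat_lit 0) (nat_lit 1514117049) (nat_lit 152) (nat_lit 1205706390) (nat_lit 33) (nat_lit 3) (nat_lit 33) (nat_lit 1) (nat_lit 35) (nat_lit 1) (nat_lit 395) (nat_lit 415) (nat_lit 210))))) (XT.nd (nat_lit 156) (nat_lit 228) (nat_lit 0) (XT.nd (nat_lit 78) (nat_lit 152) (nat_lit 0) (XT.lf (nat_lit 76) (nat_lit 1096033510)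 (nat_lit 0) (nat_lit 1395461333) (nat_lit 76) (nat_lit 1395461333) (nat_lit 33) (nat_lit 3) (nat_lit 32) (nat_lit 1) (nat_lit 33) (nat_lit 1) (nat_lit 396) (nat_lit 415) (nat_lit 209)) (XT.lf (nat_lit 152) (nat_lit 3659074395) (nat_lit 0) (nat_lit 95002164) (nat_lit 76) (nat_lit 95002164) (nat_lit 32) (nat_lit 1) (nat_lit 30) (nat_lit 1) (nat_lit 31) (nat_lit 1) (nat_lit 397) (nat_lit 415) (nat_lit 208))) (XT.nd (nat_lit 78) (nat_lit 228) (nat_lit 0) (XT.lf (nat_lit 0) (nat_lit 1178974520) (nat_lit 0) (nat_lit 1452993395) (nat_lit 152) (nat_lit 1178974520) (nat_lit 30) (nat_lit 3) (nat_lit 30) (nat_lit 1) (nat_lit 32) (nat_lit 1) (nat_lit 398) (nat_lit 415) (nat_lit 207)) (XT.nd (nat_lit 78) (nat_lit 152) (nat_lit 0) (XT.lf (nat_lit 76) (nat_lit 1080475507) (nat_lit 0) (nat_lit 1346513250) (nat_lit 76) (nat_lit 1346513250) (nat_lit 30) (nat_lit 3) (nat_lit 29) (nat_lit 1) (nat_lit 30) (nat_lit 1) (nat_lit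 399) (nat_lit 415) (nat_lit 206)) (XT.lf (nat_lit 152) (nat_lit 3567925281) (nat_lit 0) (nat_lit 84408193) (nat_lit 76) (nat_lit 84408193) (nat_lit 29) (nat_lit 1) (nat_lit 27) (nat_lit 1) (nat_lit 28) (nat_lit 1) (nat_lit 400) (nat_lit 415) (nat_lit 205))))))))
noncomputable def ec394 : XT := (XT.nd (nat_lit 36504) (nat_lit 0) (nat_lit 26220) (XT.nd (nat_lit 702) (nat_lit 684) (nat_lit 0) (XT.nd (nat_lit 312) (nat_lit 456) (nat_lit 0) (XT.nd (nat_lit 156) (nat_lit 152) (nat_lit 0) (XT.nd (nat_lit 78) (nat_lit 76) (nat_lit 0) (XT.lf (nat_lit 0) (nat_lit 1152086123) (nat_lit 0) (nat_lit 1395548345) (nat_lit 152) (nat_lit 1152086123) (nat_lit 27) (nat_lit 3) (nat_lit 27) (nat_lit 1) (nat_lit 29) (nat_lit 1) (nat_lit 401) (nat_lit 415) (nat_lit 204)) (XT.lf (nat_lit 76) (nat_lit 1063545708) (nat_lit 0) (nat_lit 1299916796) (nat_lit 76) (nat_lit 1299916796) (nat_lit 27) (nat_lit 3) (nat_lit 26) (nat_lit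 1) (nat_lit 27) (nat_lit 1) (nat_lit 402) (nat_lit 415) (nat_lit 203))) (XT.nd (nat_lit 78) (nat_lit 0) (nat_lit 0) (XT.lf (nat_lit 152) (nat_lit 3477710812) (nat_lit 0) (nat_lit 74995586) (nat_lit 76) (nat_lit 74995586) (nat_lit 26) (nat_lit 1) (nat_lit 24) (nat_lit 1) (nat_lit 25) (nat_lit 1) (nat_lit 403) (nat_lit 415) (nat_lit 202)) (XT.lf (nat_lit 0) (nat_lit 1125150038) (nat_lit 0) (nat_lit 1341463069) (nat_lit 152) (nat_lit 1125150038) (nat_lit 24) (nat_lit 3) (nat_lit 24) (nat_lit 1) (nat_lit 26) (nat_lit 1) (nat_lit 404) (nat_lit 415) (nat_lit 201)))) (XT.nd (nat_lit 156) (nat_lit 228) (nat_lit 0) (XT.nd (nat_lit 78) (nat_lit 152) (nat_lit 0) (XT.lf (nat_lit 76) (nat_lit 1045487570) (nat_lit 0) (nat_lit 1255500221) (nat_lit 76) (nat_lit 1255500221) (nat_lit 24) (nat_lit 3) (nat_lit 23) (nat_lit 1) (nat_lit 24) (nat_lit 1) (nat_lit 405) (nat_lit 415) (nat_lit 200)) (XT.lf (nat_lit 152) (nat_lit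 3388595587) (nat_lit 0) (nat_lit 66632607) (nat_lit 76) (nat_lit 66632607) (nat_lit 23) (nat_lit 1) (nat_lit 21) (nat_lit 1) (nat_lit 22) (nat_lit 1) (nat_lit 406) (nat_lit 415) (nat_lit 199))) (XT.nd (nat_lit 78) (nat_lit 228) (nat_lit 0) (XT.lf (nat_lit 0) (nat_lit 1098260303) (nat_lit 0) (nat_lit 1290451629) (nat_lit 152) (nat_lit 1098260303) (nat_lit 21) (nat_lit 3) (nat_lit 21) (nat_lit 1) (nat_lit 23) (nat_lit 1) (nat_lit 407) (nat_lit 415) (nat_lit 198)) (XT.nd (nat_lit 78) (nat_lit 152) (nat_lit 0) (XT.lf (nat_lit 76) (nat_lit 1026514771) (nat_lit 0) (nat_lit 1213108291) (nat_lit 76) (nat_lit 1213108291) (nat_lit 21) (nat_lit 3) (nat_lit 20) (nat_lit 1) (nat_lit 21) (nat_lit 1) (nat_lit 408) (nat_lit 415) (nat_lit 197)) (XT.lf (nat_lit 152) (nat_lit 3300718022) (nat_lit 0) (nat_lit 59202208) (nat_lit 76) (nat_lit 59202208) (nat_lit 20) (nat_lit 1) (nat_lit 18) (nat_lit 1) (nat_lit 19) (nat_lit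 1) (nat_lit 409) (nat_lit 415) (nat_lit 196)))))) (XT.nd (nat_lit 390) (nat_lit 380) (nat_lit 0) (XT.nd (nat_lit 156) (nat_lit 228) (nat_lit 0) (XT.nd (nat_lit 78) (nat_lit 76) (nat_lit 0) (XT.lf (nat_lit 0) (nat_lit 1071497887) (nat_lit 0) (nat_lit 1242257391) (nat_lit 152) (nat_lit 1071497887) (nat_lit 18) (nat_lit 3) (nat_lit 18) (nat_lit 1) (nat_lit 20) (nat_lit 1) (nat_lit 410) (nat_lit 415) (nat_lit 195)) (XT.lf (nat_lit 76) (nat_lit 1006814599) (nat_lit 0) (nat_lit 1172600525) (nat_lit 76) (nat_lit 1172600525) (nat_lit 18) (nat_lit 3) (nat_lit 17) (nat_lit 1) (nat_lit 18) (nat_lit 1) (nat_lit 411) (nat_lit 415) (nat_lit 194))) (XT.nd (nat_lit 78) (nat_lit 76) (nat_lit 0) (XT.lf (nat_lit 152) (nat_lit 3214193495) (nat_lit 0) (nat_lit 52600395) (nat_lit 76) (nat_lit 52600395) (nat_lit 17) (nat_lit 1) (nat_lit 15) (nat_lit 1) (nat_lit 16) (nat_lit 1) (nat_lit 412) (nat_lit 415) (nat_lit 193)) (XT.nd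 (nat_lit 78) (nat_lit 76) (nat_lit 0) (XT.lf (nat_lit 0) (nat_lit 1044932220) (nat_lit 0) (nat_lit 1196649828) (nat_lit 152) (nat_lit 1044932220) (nat_lit 15) (nat_lit 3) (nat_lit 15) (nat_lit 1) (nat_lit 17) (nat_lit 1) (nat_lit 413) (nat_lit 415) (nat_lit 192)) (XT.lf (nat_lit 76) (nat_lit 986550974) (nat_lit 0) (nat_lit 1133849622) (nat_lit 76) (nat_lit 1133849622) (nat_lit 15) (nat_lit 3) (nat_lit 14) (nat_lit 1) (nat_lit 15) (nat_lit 1) (nat_lit 414) (nat_lit 415) (nat_lit 191))))) (XT.nd (nat_lit 156) (nat_lit 228) (nat_lit 0) (XT.nd (nat_lit 78) (nat_lit 0) (nat_lit 0) (XT.lf (nat_lit 152) (nat_lit 3129117138) (nat_lit 0) (nat_lit 46734769) (nat_lit 76) (nat_lit 46734769) (nat_lit 14) (nat_lit 1) (nat_lit 12) (nat_lit 1) (nat_lit 13) (nat_lit 1) (nat_lit 415) (nat_lit 415) (nat_lit 190)) (XT.lf (nat_lit 0) (nat_lit 1018622555) (nat_lit 0) (nat_lit 1153421684) (nat_lit 152) (nat_lit 1018622555)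 (nat_lit 12) (nat_lit 3) (nat_lit 12) (nat_lit 1) (nat_lit 14) (nat_lit 1) (nat_lit 416) (nat_lit 415) (nat_lit 189))) (XT.nd (nat_lit 78) (nat_lit 152) (nat_lit 0) (XT.lf (nat_lit 76) (nat_lit 965867124) (nat_lit 0) (nat_lit 1096740065) (nat_lit 76) (nat_lit 1096740065) (nat_lit 12) (nat_lit 3) (nat_lit 11) (nat_lit 1) (nat_lit 12) (nat_lit 1) (nat_lit 417) (nat_lit 415) (nat_lit 188)) (XT.nd (nat_lit 78) (nat_lit 0) (nat_lit 0) (XT.lf (nat_lit 152) (nat_lit 3045566309) (nat_lit 0) (nat_lit 41523237) (nat_lit 76) (nat_lit 41523237) (nat_lit 11) (nat_lit 1) (nat_lit 9) (nat_lit 1) (nat_lit 10) (nat_lit 1) (nat_lit 418) (nat_lit 415) (nat_lit 187)) (XT.lf (nat_lit 0) (nat_lit 992619171) (nat_lit 0) (nat_lit 1112386452) (nat_lit 152) (nat_lit 992619171) (nat_lit 9) (nat_lit 3) (nat_lit 9) (nat_lit 1) (nat_lit 11) (nat_lit 1) (nat_lit 419) (nat_lit 415) (nat_lit 186))))))) (XT.nd (nat_lit 702) (nat_lit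 1520) (nat_lit 0) (XT.nd (nat_lit 312) (nat_lit 0) (nat_lit 152) (XT.nd (nat_lit 156) (nat_lit 0) (nat_lit 76) (XT.nd (nat_lit 78) (nat_lit 0) (nat_lit 0) (XT.lf (nat_lit 1292) (nat_lit 3526092938) (nat_lit 0) (nat_lit 12131399584) (nat_lit 1292) (nat_lit 3526092938) (nat_lit 391) (nat_lit 1) (nat_lit 374) (nat_lit 0) (nat_lit 391) (nat_lit 0) (nat_lit 188) (nat_lit 416) (nat_lit 416)) (XT.lf (nat_lit 1292) (nat_lit 13780032991) (nat_lit 76) (nat_lit 12012464294) (nat_lit 0) (nat_lit 12012464294) (nat_lit 391) (nat_lit 1) (nat_lit 375) (nat_lit 1) (nat_lit 374) (nat_lit 0) (nat_lit 189) (nat_lit 416) (nat_lit 415))) (XT.nd (nat_lit 78) (nat_lit 0) (nat_lit 0) (XT.lf (nat_lit 1292) (nat_lit 6664352509) (nat_lit 0) (nat_lit 23926448385) (nat_lit 1216) (nat_lit 6664352509) (nat_lit 392) (nat_lit 1) (nat_lit 375) (nat_lit 1) (nat_lit 391) (nat_lit 1) (nat_lit 190) (nat_lit 416) (nat_lit 414)) (XT.lf (nat_lit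 1292) (nat_lit 12655949498) (nat_lit 76) (nat_lit 12029288668) (nat_lit 0) (nat_lit 12029288668) (nat_lit 392) (nat_lit 1) (nat_lit 376) (nat_lit 1) (nat_lit 375) (nat_lit 1) (nat_lit 191) (nat_lit 416) (nat_lit 413)))) (XT.nd (nat_lit 156) (nat_lit 0) (nat_lit 76) (XT.nd (nat_lit 78) (nat_lit 0) (nat_lit 0) (XT.lf (nat_lit 1292) (nat_lit 5938741183) (nat_lit 0) (nat_lit 24308514600) (nat_lit 1216) (nat_lit 5938741183) (nat_lit 393) (nat_lit 1) (nat_lit 376) (nat_lit 1) (nat_lit 392) (nat_lit 1) (nat_lit 192) (nat_lit 416) (nat_lit 412)) (XT.lf (nat_lit 1292) (nat_lit 10883370266) (nat_lit 76) (nat_lit 12391274792) (nat_lit 0) (nat_lit 12391274792) (nat_lit 393) (nat_lit 1) (nat_lit 377) (nat_lit 1) (nat_lit 376) (nat_lit 1) (nat_lit 193) (nat_lit 416) (nat_lit 411))) (XT.nd (nat_lit 78) (nat_lit 0) (nat_lit 0) (XT.lf (nat_lit 1292) (nat_lit 4905228372) (nat_lit 0) (nat_lit 25347395339) (nat_lit 1216)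 (nat_lit 4905228372) (nat_lit 394) (nat_lit 1) (nat_lit 377) (nat_lit 1) (nat_lit 393) (nat_lit 1) (nat_lit 194) (nat_lit 416) (nat_lit 410)) (XT.nd (nat_lit 78) (nat_lit 0) (nat_lit 76) (XT.lf (nat_lit 1292) (nat_lit 8520289257) (nat_lit 76) (nat_lit 13068527586) (nat_lit 0) (nat_lit 13068527586) (nat_lit 394) (nat_lit 1) (nat_lit 378) (nat_lit 1) (nat_lit 377) (nat_lit 1) (nat_lit 195) (nat_lit 416) (nat_lit 409)) (XT.lf (nat_lit 1292) (nat_lit 3591670081) (nat_lit 0) (nat_lit 26985617439) (nat_lit 1216) (nat_lit 3591670081) (nat_lit 395) (nat_lit 1) (nat_lit 378) (nat_lit 1) (nat_lit 394) (nat_lit 1) (nat_lit 196) (nat_lit 416) (nat_lit 408)))))) (XT.nd (nat_lit 390) (nat_lit 684) (nat_lit 0) (XT.nd (nat_lit 156) (nat_lit 1140) (nat_lit 0) (XT.nd (nat_lit 78) (nat_lit 0) (nat_lit 76) (XT.lf (nat_lit 1292) (nat_lit 5620766456) (nat_lit 76) (nat_lit 14033161701) (nat_lit 0) (nat_lit 14033161701) (nat_lit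 395) (nat_lit 1) (nat_lit 379) (nat_lit 1) (nat_lit 378) (nat_lit 1) (nat_lit 197) (nat_lit 416) (nat_lit 407)) (XT.lf (nat_lit 1292) (nat_lit 2024026726) (nat_lit 0) (nat_lit 29169582740) (nat_lit 1216) (nat_lit 2024026726) (nat_lit 396) (nat_lit 1) (nat_lit 379) (nat_lit 1) (nat_lit 395) (nat_lit 1) (nat_lit 198) (nat_lit 416) (nat_lit 406))) (XT.nd (nat_lit 78) (nat_lit 1216) (nat_lit 0) (XT.lf (nat_lit 1292) (nat_lit 2235171322) (nat_lit 76) (nat_lit 15259177602) (nat_lit 0) (nat_lit 15259177602) (nat_lit 396) (nat_lit 1) (nat_lit 380) (nat_lit 1) (nat_lit 379) (nat_lit 1) (nat_lit 199) (nat_lit 416) (nat_lit 405)) (XT.nd (nat_lit 78) (nat_lit 1292) (nat_lit 0) (XT.lf (nat_lit 1292) (nat_lit 226480587) (nat_lit 0) (nat_lit 31849328868) (nat_lit 1216) (nat_lit 226480587) (nat_lit 397) (nat_lit 1) (nat_lit 380) (nat_lit 1) (nat_lit 396) (nat_lit 1) (nat_lit 200) (nat_lit 416) (nat_lit 404)) (XT.lf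 (nat_lit 1368) (nat_lit 15148036843) (nat_lit 0) (nat_lit 1558569668) (nat_lit 1292) (nat_lit 15148036843) (nat_lit 381) (nat_lit 1) (nat_lit 363) (nat_lit 1) (nat_lit 380) (nat_lit 1) (nat_lit 201) (nat_lit 416) (nat_lit 403))))) (XT.nd (nat_lit 156) (nat_lit 684) (nat_lit 0) (XT.nd (nat_lit 78) (nat_lit 0) (nat_lit 76) (XT.lf (nat_lit 1368) (nat_lit 27897299123) (nat_lit 76) (nat_lit 1761017913) (nat_lit 0) (nat_lit 1761017913) (nat_lit 381) (nat_lit 1) (nat_lit 364) (nat_lit 1) (nat_lit 363) (nat_lit 1) (nat_lit 202) (nat_lit 416) (nat_lit 402)) (XT.lf (nat_lit 1368) (nat_lit 12646090449) (nat_lit 0) (nat_lit 5696479554) (nat_lit 1292) (nat_lit 12646090449) (nat_lit 382) (nat_lit 1) (nat_lit 364) (nat_lit 1) (nat_lit 381) (nat_lit 1) (nat_lit 203) (nat_lit 416) (nat_lit 401))) (XT.nd (nat_lit 78) (nat_lit 760) (nat_lit 0) (XT.lf (nat_lit 1368) (nat_lit 22707092063) (nat_lit 76) (nat_lit 3930905586)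 (nat_lit 0) (nat_lit 3930905586) (nat_lit 382) (nat_lit 1) (nat_lit 365) (nat_lit 1) (nat_lit 364) (nat_lit 1) (nat_lit 204) (nat_lit 416) (nat_lit 400)) (XT.nd (nat_lit 78) (nat_lit 836) (nat_lit 0) (XT.lf (nat_lit 76) (nat_lit 9986237192) (nat_lit 0) (nat_lit 10182349340) (nat_lit 1292) (nat_lit 9986237192) (nat_lit 366) (nat_lit 1) (nat_lit 365) (nat_lit 1) (nat_lit 382) (nat_lit 1) (nat_lit 205) (nat_lit 416) (nat_lit 399)) (XT.lf (nat_lit 912) (nat_lit 17217678810) (nat_lit 0) (nat_lit 6266109195) (nat_lit 836) (nat_lit 6266109195) (nat_lit 366) (nat_lit 1) (nat_lit 354) (nat_lit 1) (nat_lit 365) (nat_lit 1) (nat_lit 206) (nat_lit 416) (nat_lit 398))))))))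
noncomputable def ec395 : XT := (XT.nd (nat_lit 1482) (nat_lit 4560) (nat_lit 0) (XT.nd (nat_lit 702) (nat_lit 2508) (nat_lit 0) (XT.nd (nat_lit 312) (nat_lit 1748) (nat_lit 0) (XT.nd (nat_lit 156) (nat_lit 608) (nat_lit 0) (XT.nd (nat_lit 78) (nat_lit 608) (nat_lit 0) (XT.lf (nat_lit 76) (nat_lit 7186323966) (nat_lit 0) (nat_lit 14979151514) (nat_lit 912) (nat_lit 7186323966) (nat_lit 355) (nat_lit 1) (nat_lit 354) (nat_lit 1) (nat_lit 366) (nat_lit 1) (nat_lit 207) (nat_lit 416) (nat_lit 397)) (XT.lf (nat_lit 684) (nat_lit 11463627605) (nat_lit 0) (nat_lit 8748695927) (nat_lit 608) (nat_lit 8748695927) (nat_lit 355) (nat_lit 1) (nat_lit 346) (nat_lit 1) (nat_lit 354) (nat_lit 1) (nat_lit 208) (nat_lit 416) (nat_lit 396))) (XT.nd (nat_lit 78) (nat_lit 608) (nat_lit 0) (XT.lf (nat_lit 76) (nat_lit 4262917381) (nat_lit 0) (nat_lit 20052480790) (nat_lit 684) (nat_lit 4262917381) (nat_lit 347) (nat_lit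 1) (nat_lit 346) (nat_lit 1) (nat_lit 355) (nat_lit 1) (nat_lit 209) (nat_lit 416) (nat_lit 395)) (XT.lf (nat_lit 684) (nat_lit 5477015751) (nat_lit 0) (nat_lit 11362008300) (nat_lit 608) (nat_lit 11362008300) (nat_lit 347) (nat_lit 1) (nat_lit 338) (nat_lit 1) (nat_lit 346) (nat_lit 1) (nat_lit 210) (nat_lit 416) (nat_lit 394)))) (XT.nd (nat_lit 156) (nat_lit 1140) (nat_lit 0) (XT.nd (nat_lit 78) (nat_lit 608) (nat_lit 0) (XT.lf (nat_lit 76) (nat_lit 1231384708) (nat_lit 0) (nat_lit 25370389114) (nat_lit 684) (nat_lit 1231384708) (nat_lit 339) (nat_lit 1) (nat_lit 338) (nat_lit 1) (nat_lit 347) (nat_lit 1) (nat_lit 211) (nat_lit 416) (nat_lit 393)) (XT.lf (nat_lit 76) (nat_lit 13385019293) (nat_lit 0) (nat_lit 698510904) (nat_lit 608) (nat_lit 13385019293) (nat_lit 331) (nat_lit 1) (nat_lit 330) (nat_lit 1) (nat_lit 338) (nat_lit 1) (nat_lit 212) (nat_lit 416) (nat_lit 392))) (XT.nd (nat_lit 78) (nat_lit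 532) (nat_lit 0) (XT.lf (nat_lit 684) (nat_lit 23362052431) (nat_lit 0) (nat_lit 1875461117) (nat_lit 608) (nat_lit 1875461117) (nat_lit 331) (nat_lit 1) (nat_lit 322) (nat_lit 1) (nat_lit 330) (nat_lit 1) (nat_lit 213) (nat_lit 416) (nat_lit 391)) (XT.nd (nat_lit 78) (nat_lit 532) (nat_lit 0) (XT.lf (nat_lit 76) (nat_lit 9911010278) (nat_lit 0) (nat_lit 6938998718) (nat_lit 684) (nat_lit 9911010278) (nat_lit 323) (nat_lit 1) (nat_lit 322) (nat_lit 1) (nat_lit 331) (nat_lit 1) (nat_lit 214) (nat_lit 416) (nat_lit 390)) (XT.lf (nat_lit 608) (nat_lit 16317067008) (nat_lit 0) (nat_lit 5050133283) (nat_lit 532) (nat_lit 5050133283) (nat_lit 323) (nat_lit 1) (nat_lit 315) (nat_lit 1) (nat_lit 322) (nat_lit 1) (nat_lit 215) (nat_lit 416) (nat_lit 389)))))) (XT.nd (nat_lit 390) (nat_lit 912) (nat_lit 0) (XT.nd (nat_lit 156) (nat_lit 1064) (nat_lit 0) (XT.nd (nat_lit 78) (nat_lit 532) (nat_lit 0) (XT.lf (nat_lit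 76) (nat_lit 6376322183) (nat_lit 0) (nat_lit 13326308282) (nat_lit 608) (nat_lit 6376322183) (nat_lit 316) (nat_lit 1) (nat_lit 315) (nat_lit 1) (nat_lit 323) (nat_lit 1) (nat_lit 216) (nat_lit 416) (nat_lit 388)) (XT.lf (nat_lit 608) (nat_lit 9161389778) (nat_lit 0) (nat_lit 8292616178) (nat_lit 532) (nat_lit 8292616178) (nat_lit 316) (nat_lit 1) (nat_lit 308) (nat_lit 1) (nat_lit 315) (nat_lit 1) (nat_lit 217) (nat_lit 416) (nat_lit 387))) (XT.nd (nat_lit 78) (nat_lit 1064) (nat_lit 0) (XT.lf (nat_lit 76) (nat_lit 2792014004) (nat_lit 0) (nat_lit 19837301196) (nat_lit 608) (nat_lit 2792014004) (nat_lit 309) (nat_lit 1) (nat_lit 308) (nat_lit 1) (nat_lit 316) (nat_lit 1) (nat_lit 218) (nat_lit 416) (nat_lit 386)) (XT.nd (nat_lit 78) (nat_lit 608) (nat_lit 0) (XT.lf (nat_lit 532) (nat_lit 1916377898) (nat_lit 0) (nat_lit 11591734182) (nat_lit 456) (nat_lit 11591734182) (nat_lit 309) (nat_lit 1) (nat_lit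 302) (nat_lit 1) (nat_lit 308) (nat_lit 1) (nat_lit 219) (nat_lit 416) (nat_lit 385)) (XT.lf (nat_lit 608) (nat_lit 23139096589) (nat_lit 0) (nat_lit 823556718) (nat_lit 532) (nat_lit 823556718) (nat_lit 302) (nat_lit 1) (nat_lit 294) (nat_lit 1) (nat_lit 301) (nat_lit 1) (nat_lit 220) (nat_lit 416) (nat_lit 384))))) (XT.nd (nat_lit 156) (nat_lit 456) (nat_lit 0) (XT.nd (nat_lit 78) (nat_lit 456) (nat_lit 0) (XT.lf (nat_lit 76) (nat_lit 9590782399) (nat_lit 0) (nat_lit 5292934666) (nat_lit 608) (nat_lit 9590782399) (nat_lit 295) (nat_lit 1) (nat_lit 294) (nat_lit 1) (nat_lit 302) (nat_lit 1) (nat_lit 221) (nat_lit 416) (nat_lit 383)) (XT.lf (nat_lit 532) (nat_lit 15287409408) (nat_lit 0) (nat_lit 4441473520) (nat_lit 456) (nat_lit 4441473520) (nat_lit 295) (nat_lit 1) (nat_lit 288) (nat_lit 1) (nat_lit 294) (nat_lit 1) (nat_lit 222) (nat_lit 416) (nat_lit 382))) (XT.nd (nat_lit 78) (nat_lit 456) (nat_lit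 0) (XT.lf (nat_lit 76) (nat_lit 5677657765) (nat_lit 0) (nat_lit 12515347880) (nat_lit 532) (nat_lit 5677657765) (nat_lit 289) (nat_lit 1) (nat_lit 288) (nat_lit 1) (nat_lit 295) (nat_lit 1) (nat_lit 223) (nat_lit 416) (nat_lit 381)) (XT.nd (nat_lit 78) (nat_lit 0) (nat_lit 0) (XT.lf (nat_lit 532) (nat_lit 7415049169) (nat_lit 0) (nat_lit 8080538176) (nat_lit 456) (nat_lit 8080538176) (nat_lit 289) (nat_lit 1) (nat_lit 282) (nat_lit 1) (nat_lit 288) (nat_lit 1) (nat_lit 224) (nat_lit 416) (nat_lit 380)) (XT.lf (nat_lit 76) (nat_lit 1758065759) (nat_lit 0) (nat_lit 19771896549) (nat_lit 532) (nat_lit 1758065759) (nat_lit 283) (nat_lit 1) (nat_lit 282) (nat_lit 1) (nat_lit 289) (nat_lit 1) (nat_lit 225) (nat_lit 416) (nat_lit 379))))))) (XT.nd (nat_lit 702) (nat_lit 2052) (nat_lit 0) (XT.nd (nat_lit 312) (nat_lit 1216) (nat_lit 0) (XT.nd (nat_lit 156) (nat_lit 380) (nat_lit 0) (XT.nd (nat_lit 78) (nat_lit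 456) (nat_lit 0) (XT.lf (nat_lit 76) (nat_lit 11274255474) (nat_lit 0) (nat_lit 454031429) (nat_lit 456) (nat_lit 11274255474) (nat_lit 277) (nat_lit 1) (nat_lit 276) (nat_lit 1) (nat_lit 282) (nat_lit 1) (nat_lit 226) (nat_lit 416) (nat_lit 378)) (XT.lf (nat_lit 532) (nat_lit 18443850966) (nat_lit 0) (nat_lit 2139706180) (nat_lit 456) (nat_lit 2139706180) (nat_lit 277) (nat_lit 1) (nat_lit 270) (nat_lit 1) (nat_lit 276) (nat_lit 1) (nat_lit 227) (nat_lit 416) (nat_lit 377))) (XT.nd (nat_lit 78) (nat_lit 380) (nat_lit 0) (XT.lf (nat_lit 76) (nat_lit 7138065901) (nat_lit 0) (nat_lit 8170668008) (nat_lit 532) (nat_lit 7138065901) (nat_lit 271) (nat_lit 1) (nat_lit 270) (nat_lit 1) (nat_lit 277) (nat_lit 1) (nat_lit 228) (nat_lit 416) (nat_lit 376)) (XT.lf (nat_lit 456) (nat_lit 10149697928) (nat_lit 0) (nat_lit 6013178779) (nat_lit 380) (nat_lit 6013178779) (nat_lit 271) (nat_lit 1) (nat_lit 265) (nat_lit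 1) (nat_lit 270) (nat_lit 1) (nat_lit 229) (nat_lit 416) (nat_lit 375)))) (XT.nd (nat_lit 156) (nat_lit 836) (nat_lit 0) (XT.nd (nat_lit 78) (nat_lit 380) (nat_lit 0) (XT.lf (nat_lit 76) (nat_lit 3021479694) (nat_lit 0) (nat_lit 15867310576) (nat_lit 456) (nat_lit 3021479694) (nat_lit 266) (nat_lit 1) (nat_lit 265) (nat_lit 1) (nat_lit 271) (nat_lit 1) (nat_lit 230) (nat_lit 416) (nat_lit 374)) (XT.lf (nat_lit 456) (nat_lit 1900272726) (nat_lit 0) (nat_lit 9873711058) (nat_lit 380) (nat_lit 9873711058) (nat_lit 266) (nat_lit 1) (nat_lit 260) (nat_lit 1) (nat_lit 265) (nat_lit 1) (nat_lit 231) (nat_lit 416) (nat_lit 373))) (XT.nd (nat_lit 78) (nat_lit 380) (nat_lit 0) (XT.lf (nat_lit 456) (nat_lit 19271396940) (nat_lit 0) (nat_lit 1059790891) (nat_lit 380) (nat_lit 1059790891) (nat_lit 260) (nat_lit 1) (nat_lit 254) (nat_lit 1) (nat_lit 259) (nat_lit 1) (nat_lit 232) (nat_lit 416) (nat_lit 372)) (XT.nd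 (nat_lit 78) (nat_lit 380) (nat_lit 0) (XT.lf (nat_lit 76) (nat_lit 7482024901) (nat_lit 0) (nat_lit 6171600476) (nat_lit 456) (nat_lit 7482024901) (nat_lit 255) (nat_lit 1) (nat_lit 254) (nat_lit 1) (nat_lit 260) (nat_lit 1) (nat_lit 233) (nat_lit 416) (nat_lit 371)) (XT.lf (nat_lit 456) (nat_lit 10721653492) (nat_lit 0) (nat_lit 5082171393) (nat_lit 380) (nat_lit 5082171393) (nat_lit 255) (nat_lit 1) (nat_lit 249) (nat_lit 1) (nat_lit 254) (nat_lit 1) (nat_lit 234) (nat_lit 416) (nat_lit 370)))))) (XT.nd (nat_lit 390) (nat_lit 988) (nat_lit 0) (XT.nd (nat_lit 156) (nat_lit 760) (nat_lit 0) (XT.nd (nat_lit 78) (nat_lit 304) (nat_lit 0) (XT.lf (nat_lit 76) (nat_lit 3248333568) (nat_lit 0) (nat_lit 14143854725) (nat_lit 456) (nat_lit 3248333568) (nat_lit 250) (nat_lit 1) (nat_lit 249) (nat_lit 1) (nat_lit 255) (nat_lit 1) (nat_lit 235) (nat_lit 416) (nat_lit 369)) (XT.lf (nat_lit 380) (nat_lit 2256073395)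 (nat_lit 0) (nat_lit 9071042499) (nat_lit 304) (nat_lit 9071042499) (nat_lit 250) (nat_lit 1) (nat_lit 245) (nat_lit 1) (nat_lit 249) (nat_lit 1) (nat_lit 236) (nat_lit 416) (nat_lit 368))) (XT.nd (nat_lit 78) (nat_lit 304) (nat_lit 0) (XT.lf (nat_lit 456) (nat_lit 18296230636) (nat_lit 0) (nat_lit 932440549) (nat_lit 380) (nat_lit 932440549) (nat_lit 245) (nat_lit 1) (nat_lit 239) (nat_lit 1) (nat_lit 244) (nat_lit 1) (nat_lit 237) (nat_lit 416) (nat_lit 367)) (XT.nd (nat_lit 78) (nat_lit 304) (nat_lit 0) (XT.lf (nat_lit 76) (nat_lit 6963060483) (nat_lit 0) (nat_lit 5998940491) (nat_lit 456) (nat_lit 6963060483) (nat_lit 240) (nat_lit 1) (nat_lit 239) (nat_lit 1) (nat_lit 245) (nat_lit 1) (nat_lit 238) (nat_lit 416) (nat_lit 366)) (XT.lf (nat_lit 380) (nat_lit 9624482902) (nat_lit 0) (nat_lit 5034845262) (nat_lit 304) (nat_lit 5034845262) (nat_lit 240) (nat_lit 1) (nat_lit 235) (nat_lit 1) (nat_lit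 239) (nat_lit 1) (nat_lit 239) (nat_lit 416) (nat_lit 365))))) (XT.nd (nat_lit 156) (nat_lit 684) (nat_lit 0) (XT.nd (nat_lit 78) (nat_lit 304) (nat_lit 0) (XT.lf (nat_lit 76) (nat_lit 2676421678) (nat_lit 0) (nat_lit 14114391442) (nat_lit 380) (nat_lit 2676421678) (nat_lit 236) (nat_lit 1) (nat_lit 235) (nat_lit 1) (nat_lit 240) (nat_lit 1) (nat_lit 240) (nat_lit 416) (nat_lit 364)) (XT.lf (nat_lit 380) (nat_lit 1067244110) (nat_lit 0) (nat_lit 9087815771) (nat_lit 304) (nat_lit 9087815771) (nat_lit 236) (nat_lit 1) (nat_lit 231) (nat_lit 1) (nat_lit 235) (nat_lit 1) (nat_lit 241) (nat_lit 416) (nat_lit 363))) (XT.nd (nat_lit 78) (nat_lit 304) (nat_lit 0) (XT.lf (nat_lit 380) (nat_lit 15949277829) (nat_lit 0) (nat_lit 1536833145) (nat_lit 304) (nat_lit 1536833145) (nat_lit 231) (nat_lit 1) (nat_lit 226) (nat_lit 1) (nat_lit 230) (nat_lit 1) (nat_lit 242) (nat_lit 416) (nat_lit 362)) (XT.nd (nat_lit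 78) (nat_lit 304) (nat_lit 0) (XT.lf (nat_lit 76) (nat_lit 5788728731) (nat_lit 0) (nat_lit 7227062665) (nat_lit 380) (nat_lit 5788728731) (nat_lit 227) (nat_lit 1) (nat_lit 226) (nat_lit 1) (nat_lit 231) (nat_lit 1) (nat_lit 243) (nat_lit 416) (nat_lit 361)) (XT.lf (nat_lit 380) (nat_lit 7262118113) (nat_lit 0) (nat_lit 5664138095) (nat_lit 304) (nat_lit 5664138095) (nat_lit 227) (nat_lit 1) (nat_lit 222) (nat_lit 1) (nat_lit 226) (nat_lit 1) (nat_lit 244) (nat_lit 416) (nat_lit 360))))))))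
noncomputable def ec396 : XT := (XT.nd (nat_lit 1404) (nat_lit 2356) (nat_lit 0) (XT.nd (nat_lit 702) (nat_lit 1520) (nat_lit 0) (XT.nd (nat_lit 312) (nat_lit 836) (nat_lit 0) (XT.nd (nat_lit 156) (nat_lit 304) (nat_lit 0) (XT.nd (nat_lit 78) (nat_lit 304) (nat_lit 0) (XT.lf (nat_lit 76) (nat_lit 1500283050) (nat_lit 0) (nat_lit 15379844815) (nat_lit 380) (nat_lit 1500283050) (nat_lit 223) (nat_lit 1) (nat_lit 222) (nat_lit 1) (nat_lit 227) (nat_lit 1) (nat_lit 245) (nat_lit 416) (nat_lit 359)) (XT.lf (nat_lit 76) (nat_lit 8454630632) (nat_lit 0) (nat_lit 1262519223) (nat_lit 304) (nat_lit 8454630632) (nat_lit 219) (nat_lit 1) (nat_lit 218) (nat_lit 1) (nat_lit 222) (nat_lit 1) (nat_lit 246) (nat_lit 416) (nat_lit 358))) (XT.nd (nat_lit 78) (nat_lit 0) (nat_lit 0) (XT.lf (nat_lit 380) (nat_lit 12582283848) (nat_lit 0) (nat_lit 2692446819) (nat_lit 304) (nat_lit 2692446819) (nat_lit 219) (nat_lit 1)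 (nat_lit 214) (nat_lit 1) (nat_lit 218) (nat_lit 1) (nat_lit 247) (nat_lit 416) (nat_lit 357)) (XT.lf (nat_lit 76) (nat_lit 4128378916) (nat_lit 0) (nat_lit 9508147505) (nat_lit 380) (nat_lit 4128378916) (nat_lit 215) (nat_lit 1) (nat_lit 214) (nat_lit 1) (nat_lit 219) (nat_lit 1) (nat_lit 248) (nat_lit 416) (nat_lit 356)))) (XT.nd (nat_lit 156) (nat_lit 228) (nat_lit 0) (XT.nd (nat_lit 78) (nat_lit 380) (nat_lit 0) (XT.lf (nat_lit 304) (nat_lit 3964000879) (nat_lit 0) (nat_lit 6800904335) (nat_lit 228) (nat_lit 6800904335) (nat_lit 215) (nat_lit 1) (nat_lit 211) (nat_lit 1) (nat_lit 214) (nat_lit 1) (nat_lit 249) (nat_lit 416) (nat_lit 355)) (XT.lf (nat_lit 380) (nat_lit 17130638917) (nat_lit 0) (nat_lit 120294887) (nat_lit 304) (nat_lit 120294887) (nat_lit 211) (nat_lit 1) (nat_lit 206) (nat_lit 1) (nat_lit 210) (nat_lit 1) (nat_lit 250) (nat_lit 416) (nat_lit 354))) (XT.nd (nat_lit 78) (nat_lit 228)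 (nat_lit 0) (XT.lf (nat_lit 76) (nat_lit 6381988728) (nat_lit 0) (nat_lit 4412287838) (nat_lit 380) (nat_lit 6381988728) (nat_lit 207) (nat_lit 1) (nat_lit 206) (nat_lit 1) (nat_lit 211) (nat_lit 1) (nat_lit 251) (nat_lit 416) (nat_lit 353)) (XT.nd (nat_lit 78) (nat_lit 0) (nat_lit 0) (XT.lf (nat_lit 304) (nat_lit 8481242587) (nat_lit 0) (nat_lit 4252238961) (nat_lit 228) (nat_lit 4252238961) (nat_lit 207) (nat_lit 1) (nat_lit 203) (nat_lit 1) (nat_lit 206) (nat_lit 1) (nat_lit 252) (nat_lit 416) (nat_lit 352)) (XT.lf (nat_lit 76) (nat_lit 2119637434) (nat_lit 0) (nat_lit 12559004898) (nat_lit 304) (nat_lit 2119637434) (nat_lit 204) (nat_lit 1) (nat_lit 203) (nat_lit 1) (nat_lit 207) (nat_lit 1) (nat_lit 253) (nat_lit 416) (nat_lit 351)))))) (XT.nd (nat_lit 312) (nat_lit 760) (nat_lit 0) (XT.nd (nat_lit 156) (nat_lit 228) (nat_lit 0) (XT.nd (nat_lit 78) (nat_lit 228) (nat_lit 0) (XT.lf (nat_lit 76)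 (nat_lit 8305243968) (nat_lit 0) (nat_lit 2223635) (nat_lit 304) (nat_lit 8305243968) (nat_lit 200) (nat_lit 1) (nat_lit 199) (nat_lit 1) (nat_lit 203) (nat_lit 1) (nat_lit 254) (nat_lit 416) (nat_lit 350)) (XT.lf (nat_lit 304) (nat_lit 12350308313) (nat_lit 0) (nat_lit 2039926762) (nat_lit 228) (nat_lit 2039926762) (nat_lit 200) (nat_lit 1) (nat_lit 196) (nat_lit 1) (nat_lit 199) (nat_lit 1) (nat_lit 255) (nat_lit 416) (nat_lit 349))) (XT.nd (nat_lit 78) (nat_lit 228) (nat_lit 0) (XT.lf (nat_lit 76) (nat_lit 4045965655) (nat_lit 0) (nat_lit 8157436214) (nat_lit 304) (nat_lit 4045965655) (nat_lit 197) (nat_lit 1) (nat_lit 196) (nat_lit 1) (nat_lit 200) (nat_lit 1) (nat_lit 256) (nat_lit 416) (nat_lit 348)) (XT.lf (nat_lit 304) (nat_lit 3877609843) (nat_lit 0) (nat_lit 6096949929) (nat_lit 228) (nat_lit 6096949929) (nat_lit 197) (nat_lit 1) (nat_lit 193) (nat_lit 1) (nat_lit 196) (nat_lit 1) (nat_lit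 257) (nat_lit 416) (nat_lit 347)))) (XT.nd (nat_lit 156) (nat_lit 456) (nat_lit 0) (XT.nd (nat_lit 78) (nat_lit 0) (nat_lit 0) (XT.lf (nat_lit 304) (nat_lit 15647685211) (nat_lit 0) (nat_lit 124941245) (nat_lit 228) (nat_lit 124941245) (nat_lit 193) (nat_lit 1) (nat_lit 189) (nat_lit 1) (nat_lit 192) (nat_lit 1) (nat_lit 258) (nat_lit 416) (nat_lit 346)) (XT.lf (nat_lit 76) (nat_lit 5694492206) (nat_lit 0) (nat_lit 4334109456) (nat_lit 304) (nat_lit 5694492206) (nat_lit 190) (nat_lit 1) (nat_lit 189) (nat_lit 1) (nat_lit 193) (nat_lit 1) (nat_lit 259) (nat_lit 416) (nat_lit 345))) (XT.nd (nat_lit 78) (nat_lit 228) (nat_lit 0) (XT.lf (nat_lit 304) (nat_lit 7211832175) (nat_lit 0) (nat_lit 4170316007) (nat_lit 228) (nat_lit 4170316007) (nat_lit 190) (nat_lit 1) (nat_lit 186) (nat_lit 1) (nat_lit 189) (nat_lit 1) (nat_lit 260) (nat_lit 416) (nat_lit 344)) (XT.nd (nat_lit 78) (nat_lit 228) (nat_lit 0) (XT.lf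 (nat_lit 76) (nat_lit 1542470143) (nat_lit 0) (nat_lit 12299784285) (nat_lit 304) (nat_lit 1542470143) (nat_lit 187) (nat_lit 1) (nat_lit 186) (nat_lit 1) (nat_lit 190) (nat_lit 1) (nat_lit 261) (nat_lit 416) (nat_lit 343)) (XT.lf (nat_lit 76) (nat_lit 7098030264) (nat_lit 0) (nat_lit 1021997239) (nat_lit 228) (nat_lit 7098030264) (nat_lit 184) (nat_lit 1) (nat_lit 183) (nat_lit 1) (nat_lit 186) (nat_lit 1) (nat_lit 262) (nat_lit 416) (nat_lit 342))))))) (XT.nd (nat_lit 702) (nat_lit 1140) (nat_lit 0) (XT.nd (nat_lit 312) (nat_lit 532) (nat_lit 0) (XT.nd (nat_lit 156) (nat_lit 456) (nat_lit 0) (XT.nd (nat_lit 78) (nat_lit 0) (nat_lit 0) (XT.lf (nat_lit 304) (nat_lit 10064537977) (nat_lit 0) (nat_lit 2494839684) (nat_lit 228) (nat_lit 2494839684) (nat_lit 184) (nat_lit 1) (nat_lit 180) (nat_lit 1) (nat_lit 183) (nat_lit 1) (nat_lit 263) (nat_lit 416) (nat_lit 341)) (XT.lf (nat_lit 76) (nat_lit 2976851071)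 (nat_lit 0) (nat_lit 8938544438) (nat_lit 304) (nat_lit 2976851071) (nat_lit 181) (nat_lit 1) (nat_lit 180) (nat_lit 1) (nat_lit 184) (nat_lit 1) (nat_lit 264) (nat_lit 416) (nat_lit 340))) (XT.nd (nat_lit 78) (nat_lit 304) (nat_lit 0) (XT.lf (nat_lit 228) (nat_lit 1874966601) (nat_lit 0) (nat_lit 6428737198) (nat_lit 152) (nat_lit 6428737198) (nat_lit 181) (nat_lit 1) (nat_lit 178) (nat_lit 1) (nat_lit 180) (nat_lit 1) (nat_lit 265) (nat_lit 416) (nat_lit 339)) (XT.lf (nat_lit 304) (nat_lit 12492617944) (nat_lit 0) (nat_lit 1041455975) (nat_lit 228) (nat_lit 1041455975) (nat_lit 178) (nat_lit 1) (nat_lit 174) (nat_lit 1) (nat_lit 177) (nat_lit 1) (nat_lit 266) (nat_lit 416) (nat_lit 338)))) (XT.nd (nat_lit 156) (nat_lit 380) (nat_lit 0) (XT.nd (nat_lit 78) (nat_lit 152) (nat_lit 0) (XT.lf (nat_lit 76) (nat_lit 4204491996) (nat_lit 0) (nat_lit 6010077473) (nat_lit 304) (nat_lit 4204491996) (nat_lit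 175) (nat_lit 1) (nat_lit 174) (nat_lit 1) (nat_lit 178) (nat_lit 1) (nat_lit 267) (nat_lit 416) (nat_lit 337)) (XT.lf (nat_lit 228) (nat_lit 4385368507) (nat_lit 0) (nat_lit 4940032838) (nat_lit 152) (nat_lit 4940032838) (nat_lit 175) (nat_lit 1) (nat_lit 172) (nat_lit 1) (nat_lit 174) (nat_lit 1) (nat_lit 268) (nat_lit 416) (nat_lit 336))) (XT.nd (nat_lit 78) (nat_lit 380) (nat_lit 0) (XT.lf (nat_lit 76) (nat_lit 217763108) (nat_lit 0) (nat_lit 13679490624) (nat_lit 228) (nat_lit 217763108) (nat_lit 173) (nat_lit 1) (nat_lit 172) (nat_lit 1) (nat_lit 175) (nat_lit 1) (nat_lit 269) (nat_lit 416) (nat_lit 335)) (XT.nd (nat_lit 78) (nat_lit 152) (nat_lit 0) (XT.lf (nat_lit 76) (nat_lit 5249809862) (nat_lit 0) (nat_lit 3464435713) (nat_lit 228) (nat_lit 5249809862) (nat_lit 170) (nat_lit 1) (nat_lit 169) (nat_lit 1) (nat_lit 172) (nat_lit 1) (nat_lit 270) (nat_lit 416) (nat_lit 334)) (XT.lf (nat_lit 228)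 (nat_lit 6536619786) (nat_lit 0) (nat_lit 3639818401) (nat_lit 152) (nat_lit 3639818401) (nat_lit 170) (nat_lit 1) (nat_lit 167) (nat_lit 1) (nat_lit 169) (nat_lit 1) (nat_lit 271) (nat_lit 416) (nat_lit 333)))))) (XT.nd (nat_lit 390) (nat_lit 608) (nat_lit 0) (XT.nd (nat_lit 156) (nat_lit 304) (nat_lit 0) (XT.nd (nat_lit 78) (nat_lit 228) (nat_lit 0) (XT.lf (nat_lit 76) (nat_lit 1312164011) (nat_lit 0) (nat_lit 11046549517) (nat_lit 228) (nat_lit 1312164011) (nat_lit 168) (nat_lit 1) (nat_lit 167) (nat_lit 1) (nat_lit 170) (nat_lit 1) (nat_lit 272) (nat_lit 416) (nat_lit 332)) (XT.lf (nat_lit 76) (nat_lit 6134459115) (nat_lit 0) (nat_lit 1257290455) (nat_lit 228) (nat_lit 6134459115) (nat_lit 165) (nat_lit 1) (nat_lit 164) (nat_lit 1) (nat_lit 167) (nat_lit 1) (nat_lit 273) (nat_lit 416) (nat_lit 331))) (XT.nd (nat_lit 78) (nat_lit 152) (nat_lit 0) (XT.lf (nat_lit 228) (nat_lit 8371077421) (nat_lit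 0) (nat_lit 2506420057) (nat_lit 152) (nat_lit 2506420057) (nat_lit 165) (nat_lit 1) (nat_lit 162) (nat_lit 1) (nat_lit 164) (nat_lit 1) (nat_lit 274) (nat_lit 416) (nat_lit 330)) (XT.nd (nat_lit 78) (nat_lit 152) (nat_lit 0) (XT.lf (nat_lit 76) (nat_lit 2251942000) (nat_lit 0) (nat_lit 8739472748) (nat_lit 228) (nat_lit 2251942000) (nat_lit 163) (nat_lit 1) (nat_lit 162) (nat_lit 1) (nat_lit 165) (nat_lit 1) (nat_lit 275) (nat_lit 416) (nat_lit 329)) (XT.lf (nat_lit 228) (nat_lit 663646176) (nat_lit 0) (nat_lit 6220374112) (nat_lit 152) (nat_lit 6220374112) (nat_lit 163) (nat_lit 1) (nat_lit 160) (nat_lit 1) (nat_lit 162) (nat_lit 1) (nat_lit 276) (nat_lit 416) (nat_lit 328))))) (XT.nd (nat_lit 156) (nat_lit 380) (nat_lit 0) (XT.nd (nat_lit 78) (nat_lit 0) (nat_lit 0) (XT.lf (nat_lit 228) (nat_lit 9926307851) (nat_lit 0) (nat_lit 1520599962) (nat_lit 152) (nat_lit 1520599962) (nat_lit 160) (nat_lit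 1) (nat_lit 157) (nat_lit 1) (nat_lit 159) (nat_lit 1) (nat_lit 277) (nat_lit 416) (nat_lit 327)) (XT.lf (nat_lit 76) (nat_lit 3055288554) (nat_lit 0) (nat_lit 6720982690) (nat_lit 228) (nat_lit 3055288554) (nat_lit 158) (nat_lit 1) (nat_lit 157) (nat_lit 1) (nat_lit 160) (nat_lit 1) (nat_lit 278) (nat_lit 416) (nat_lit 326))) (XT.nd (nat_lit 78) (nat_lit 228) (nat_lit 0) (XT.lf (nat_lit 228) (nat_lit 2340092167) (nat_lit 0) (nat_lit 5178780060) (nat_lit 152) (nat_lit 5178780060) (nat_lit 158) (nat_lit 1) (nat_lit 155) (nat_lit 1) (nat_lit 157) (nat_lit 1) (nat_lit 279) (nat_lit 416) (nat_lit 325)) (XT.nd (nat_lit 78) (nat_lit 0) (nat_lit 0) (XT.lf (nat_lit 228) (nat_lit 11235623129) (nat_lit 0) (nat_lit 665284055) (nat_lit 152) (nat_lit 665284055) (nat_lit 155) (nat_lit 1) (nat_lit 152) (nat_lit 1) (nat_lit 154) (nat_lit 1) (nat_lit 280) (nat_lit 416) (nat_lit 324)) (XT.lf (nat_lit 76) (nat_lit 3738338924)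 (nat_lit 0) (nat_lit 4957986019) (nat_lit 228) (nat_lit 3738338924) (nat_lit 153) (nat_lit 1) (nat_lit 152) (nat_lit 1) (nat_lit 155) (nat_lit 1) (nat_lit 281) (nat_lit 416) (nat_lit 323))))))))
noncomputable def ec397 : XT := (XT.nd (nat_lit 1482) (nat_lit 1520) (nat_lit 0) (XT.nd (nat_lit 702) (nat_lit 1064) (nat_lit 0) (XT.nd (nat_lit 312) (nat_lit 456) (nat_lit 0) (XT.nd (nat_lit 156) (nat_lit 304) (nat_lit 0) (XT.nd (nat_lit 78) (nat_lit 0) (nat_lit 0) (XT.lf (nat_lit 228) (nat_lit 3778608703) (nat_lit 0) (nat_lit 4263471463) (nat_lit 152) (nat_lit 4263471463) (nat_lit 153) (nat_lit 1) (nat_lit 150) (nat_lit 1) (nat_lit 152) (nat_lit 1) (nat_lit 282) (nat_lit 416) (nat_lit 322)) (XT.lf (nat_lit 76) (nat_lit 75419171) (nat_lit 0) (nat_lit 12028271931) (nat_lit 228) (nat_lit 75419171) (nat_lit 151) (nat_lit 1) (nat_lit 150) (nat_lit 1) (nat_lit 153) (nat_lit 1) (nat_lit 283) (nat_lit 416) (nat_lit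 321))) (XT.nd (nat_lit 78) (nat_lit 152) (nat_lit 0) (XT.lf (nat_lit 76) (nat_lit 4315402234) (nat_lit 0) (nat_lit 3421106312) (nat_lit 152) (nat_lit 4315402234) (nat_lit 149) (nat_lit 1) (nat_lit 148) (nat_lit 1) (nat_lit 150) (nat_lit 1) (nat_lit 284) (nat_lit 416) (nat_lit 320)) (XT.lf (nat_lit 228) (nat_lit 5007212971) (nat_lit 0) (nat_lit 3460070684) (nat_lit 152) (nat_lit 3460070684) (nat_lit 149) (nat_lit 1) (nat_lit 146) (nat_lit 1) (nat_lit 148) (nat_lit 1) (nat_lit 285) (nat_lit 416) (nat_lit 319)))) (XT.nd (nat_lit 156) (nat_lit 304) (nat_lit 0) (XT.nd (nat_lit 78) (nat_lit 152) (nat_lit 0) (XT.lf (nat_lit 76) (nat_lit 719793303) (nat_lit 0) (nat_lit 10365395176) (nat_lit 228) (nat_lit 719793303) (nat_lit 147) (nat_lit 1) (nat_lit 146) (nat_lit 1) (nat_lit 149) (nat_lit 1) (nat_lit 286) (nat_lit 416) (nat_lit 318)) (XT.lf (nat_lit 76) (nat_lit 4799165905) (nat_lit 0) (nat_lit 2084268795)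 (nat_lit 152) (nat_lit 4799165905) (nat_lit 145) (nat_lit 1) (nat_lit 144) (nat_lit 1) (nat_lit 146) (nat_lit 1) (nat_lit 287) (nat_lit 416) (nat_lit 317))) (XT.nd (nat_lit 78) (nat_lit 152) (nat_lit 0) (XT.lf (nat_lit 228) (nat_lit 6050754627) (nat_lit 0) (nat_lit 2755811978) (nat_lit 152) (nat_lit 2755811978) (nat_lit 145) (nat_lit 1) (nat_lit 142) (nat_lit 1) (nat_lit 144) (nat_lit 1) (nat_lit 288) (nat_lit 416) (nat_lit 316)) (XT.nd (nat_lit 78) (nat_lit 152) (nat_lit 0) (XT.lf (nat_lit 76) (nat_lit 1273298237) (nat_lit 0) (nat_lit 8897316793) (nat_lit 228) (nat_lit 1273298237) (nat_lit 143) (nat_lit 1) (nat_lit 142) (nat_lit 1) (nat_lit 145) (nat_lit 1) (nat_lit 289) (nat_lit 416) (nat_lit 315)) (XT.lf (nat_lit 76) (nat_lit 5200877245) (nat_lit 0) (nat_lit 924331408) (nat_lit 152) (nat_lit 5200877245) (nat_lit 141) (nat_lit 1) (nat_lit 140) (nat_lit 1) (nat_lit 142) (nat_lit 1) (nat_lit 290) (nat_lit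 416) (nat_lit 314)))))) (XT.nd (nat_lit 390) (nat_lit 608) (nat_lit 0) (XT.nd (nat_lit 156) (nat_lit 304) (nat_lit 0) (XT.nd (nat_lit 78) (nat_lit 0) (nat_lit 0) (XT.lf (nat_lit 228) (nat_lit 6931270278) (nat_lit 0) (nat_lit 2139361492) (nat_lit 152) (nat_lit 2139361492) (nat_lit 141) (nat_lit 1) (nat_lit 138) (nat_lit 1) (nat_lit 140) (nat_lit 1) (nat_lit 291) (nat_lit 416) (nat_lit 313)) (XT.lf (nat_lit 76) (nat_lit 1746620846) (nat_lit 0) (nat_lit 7602041444) (nat_lit 228) (nat_lit 1746620846) (nat_lit 139) (nat_lit 1) (nat_lit 138) (nat_lit 1) (nat_lit 141) (nat_lit 1) (nat_lit 292) (nat_lit 416) (nat_lit 312))) (XT.nd (nat_lit 78) (nat_lit 228) (nat_lit 0) (XT.lf (nat_lit 152) (nat_lit 80820043) (nat_lit 0) (nat_lit 5450461634) (nat_lit 76) (nat_lit 5450461634) (nat_lit 139) (nat_lit 1) (nat_lit 137) (nat_lit 1) (nat_lit 138) (nat_lit 1) (nat_lit 293) (nat_lit 416) (nat_lit 311)) (XT.nd (nat_lit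 78) (nat_lit 0) (nat_lit 0) (XT.lf (nat_lit 228) (nat_lit 7668298394) (nat_lit 0) (nat_lit 1600657348) (nat_lit 152) (nat_lit 1600657348) (nat_lit 137) (nat_lit 1) (nat_lit 134) (nat_lit 1) (nat_lit 136) (nat_lit 1) (nat_lit 294) (nat_lit 416) (nat_lit 310)) (XT.lf (nat_lit 76) (nat_lit 2149240149) (nat_lit 0) (nat_lit 6460034499) (nat_lit 228) (nat_lit 2149240149) (nat_lit 135) (nat_lit 1) (nat_lit 134) (nat_lit 1) (nat_lit 137) (nat_lit 1) (nat_lit 295) (nat_lit 416) (nat_lit 309))))) (XT.nd (nat_lit 156) (nat_lit 304) (nat_lit 0) (XT.nd (nat_lit 78) (nat_lit 228) (nat_lit 0) (XT.lf (nat_lit 152) (nat_lit 963478573) (nat_lit 0) (nat_lit 4842664567) (nat_lit 76) (nat_lit 4842664567) (nat_lit 135) (nat_lit 1) (nat_lit 133) (nat_lit 1) (nat_lit 134) (nat_lit 1) (nat_lit 296) (nat_lit 416) (nat_lit 308)) (XT.lf (nat_lit 228) (nat_lit 8279159070) (nat_lit 0) (nat_lit 1130767566) (nat_lit 152) (nat_lit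 1130767566) (nat_lit 133) (nat_lit 1) (nat_lit 130) (nat_lit 1) (nat_lit 132) (nat_lit 1) (nat_lit 297) (nat_lit 416) (nat_lit 307))) (XT.nd (nat_lit 78) (nat_lit 304) (nat_lit 0) (XT.lf (nat_lit 76) (nat_lit 2489562472) (nat_lit 0) (nat_lit 5453947407) (nat_lit 228) (nat_lit 2489562472) (nat_lit 131) (nat_lit 1) (nat_lit 130) (nat_lit 1) (nat_lit 133) (nat_lit 1) (nat_lit 298) (nat_lit 416) (nat_lit 306)) (XT.nd (nat_lit 78) (nat_lit 228) (nat_lit 0) (XT.lf (nat_lit 152) (nat_lit 1721738245) (nat_lit 0) (nat_lit 4302644745) (nat_lit 76) (nat_lit 4302644745) (nat_lit 131) (nat_lit 1) (nat_lit 129) (nat_lit 1) (nat_lit 130) (nat_lit 1) (nat_lit 299) (nat_lit 416) (nat_lit 305)) (XT.lf (nat_lit 228) (nat_lit 8779202560) (nat_lit 0) (nat_lit 721763836) (nat_lit 152) (nat_lit 721763836) (nat_lit 129) (nat_lit 1) (nat_lit 126) (nat_lit 1) (nat_lit 128) (nat_lit 1) (nat_lit 300) (nat_lit 416) (nat_lit 304)))))))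 (XT.nd (nat_lit 702) (nat_lit 836) (nat_lit 0) (XT.nd (nat_lit 312) (nat_lit 380) (nat_lit 0) (XT.nd (nat_lit 156) (nat_lit 228) (nat_lit 0) (XT.nd (nat_lit 78) (nat_lit 76) (nat_lit 0) (XT.lf (nat_lit 76) (nat_lit 2775041523) (nat_lit 0) (nat_lit 4568373694) (nat_lit 228) (nat_lit 2775041523) (nat_lit 127) (nat_lit 1) (nat_lit 126) (nat_lit 1) (nat_lit 129) (nat_lit 1) (nat_lit 301) (nat_lit 416) (nat_lit 303)) (XT.lf (nat_lit 152) (nat_lit 2370227579) (nat_lit 0) (nat_lit 3822844128) (nat_lit 76) (nat_lit 3822844128) (nat_lit 127) (nat_lit 1) (nat_lit 125) (nat_lit 1) (nat_lit 126) (nat_lit 1) (nat_lit 302) (nat_lit 416) (nat_lit 302))) (XT.nd (nat_lit 78) (nat_lit 0) (nat_lit 0) (XT.lf (nat_lit 228) (nat_lit 9182030056) (nat_lit 0) (nat_lit 366609373) (nat_lit 152) (nat_lit 366609373) (nat_lit 125) (nat_lit 1) (nat_lit 122) (nat_lit 1) (nat_lit 124) (nat_lit 1) (nat_lit 303) (nat_lit 416) (nat_lit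 301)) (XT.lf (nat_lit 76) (nat_lit 3012285063) (nat_lit 0) (nat_lit 3789632181) (nat_lit 228) (nat_lit 3012285063) (nat_lit 123) (nat_lit 1) (nat_lit 122) (nat_lit 1) (nat_lit 125) (nat_lit 1) (nat_lit 304) (nat_lit 416) (nat_lit 300)))) (XT.nd (nat_lit 156) (nat_lit 76) (nat_lit 0) (XT.nd (nat_lit 78) (nat_lit 228) (nat_lit 0) (XT.lf (nat_lit 152) (nat_lit 2921921793) (nat_lit 0) (nat_lit 3396547494) (nat_lit 76) (nat_lit 3396547494) (nat_lit 123) (nat_lit 1) (nat_lit 121) (nat_lit 1) (nat_lit 122) (nat_lit 1) (nat_lit 305) (nat_lit 416) (nat_lit 299)) (XT.lf (nat_lit 228) (nat_lit 9499689818) (nat_lit 0) (nat_lit 59059284) (nat_lit 152) (nat_lit 59059284) (nat_lit 121) (nat_lit 1) (nat_lit 118) (nat_lit 1) (nat_lit 120) (nat_lit 1) (nat_lit 306) (nat_lit 416) (nat_lit 298))) (XT.nd (nat_lit 78) (nat_lit 76) (nat_lit 0) (XT.lf (nat_lit 76) (nat_lit 3207149674) (nat_lit 0) (nat_lit 3105574375) (nat_lit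 228) (nat_lit 3207149674) (nat_lit 119) (nat_lit 1) (nat_lit 118) (nat_lit 1) (nat_lit 121) (nat_lit 1) (nat_lit 307) (nat_lit 416) (nat_lit 297)) (XT.nd (nat_lit 78) (nat_lit 0) (nat_lit 0) (XT.lf (nat_lit 152) (nat_lit 3388327813) (nat_lit 0) (nat_lit 3017788456) (nat_lit 76) (nat_lit 3017788456) (nat_lit 119) (nat_lit 1) (nat_lit 117) (nat_lit 1) (nat_lit 118) (nat_lit 1) (nat_lit 308) (nat_lit 416) (nat_lit 296)) (XT.lf (nat_lit 0) (nat_lit 208471786) (nat_lit 0) (nat_lit 8912810249) (nat_lit 152) (nat_lit 208471786) (nat_lit 117) (nat_lit 3) (nat_lit 117) (nat_lit 1) (nat_lit 119) (nat_lit 1) (nat_lit 309) (nat_lit 416) (nat_lit 295)))))) (XT.nd (nat_lit 390) (nat_lit 380) (nat_lit 0) (XT.nd (nat_lit 156) (nat_lit 228) (nat_lit 0) (XT.nd (nat_lit 78) (nat_lit 76) (nat_lit 0) (XT.lf (nat_lit 76) (nat_lit 3364824937) (nat_lit 0) (nat_lit 2505413351) (nat_lit 152) (nat_lit 3364824937) (nat_lit 116)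 (nat_lit 1) (nat_lit 115) (nat_lit 1) (nat_lit 117) (nat_lit 1) (nat_lit 310) (nat_lit 416) (nat_lit 294)) (XT.lf (nat_lit 152) (nat_lit 3779648624) (nat_lit 0) (nat_lit 2681265956) (nat_lit 76) (nat_lit 2681265956) (nat_lit 116) (nat_lit 1) (nat_lit 114) (nat_lit 1) (nat_lit 115) (nat_lit 1) (nat_lit 311) (nat_lit 416) (nat_lit 293))) (XT.nd (nat_lit 78) (nat_lit 228) (nat_lit 0) (XT.lf (nat_lit 0) (nat_lit 439073738) (nat_lit 0) (nat_lit 8172765723) (nat_lit 152) (nat_lit 439073738) (nat_lit 114) (nat_lit 3) (nat_lit 114) (nat_lit 1) (nat_lit 116) (nat_lit 1) (nat_lit 312) (nat_lit 416) (nat_lit 292)) (XT.nd (nat_lit 78) (nat_lit 76) (nat_lit 0) (XT.lf (nat_lit 76) (nat_lit 3489908221) (nat_lit 0) (nat_lit 1979571723) (nat_lit 152) (nat_lit 3489908221) (nat_lit 113) (nat_lit 1) (nat_lit 112) (nat_lit 1) (nat_lit 114) (nat_lit 1) (nat_lit 313) (nat_lit 416) (nat_lit 291)) (XT.lf (nat_lit 152) (nat_lit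 4104929283) (nat_lit 0) (nat_lit 2382270074) (nat_lit 76) (nat_lit 2382270074) (nat_lit 113) (nat_lit 1) (nat_lit 111) (nat_lit 1) (nat_lit 112) (nat_lit 1) (nat_lit 314) (nat_lit 416) (nat_lit 290))))) (XT.nd (nat_lit 156) (nat_lit 228) (nat_lit 0) (XT.nd (nat_lit 78) (nat_lit 152) (nat_lit 0) (XT.lf (nat_lit 0) (nat_lit 636566918) (nat_lit 0) (nat_lit 7507852080) (nat_lit 152) (nat_lit 636566918) (nat_lit 111) (nat_lit 3) (nat_lit 111) (nat_lit 1) (nat_lit 113) (nat_lit 1) (nat_lit 315) (nat_lit 416) (nat_lit 289)) (XT.lf (nat_lit 76) (nat_lit 3586471112) (nat_lit 0) (nat_lit 1519546566) (nat_lit 152) (nat_lit 3586471112) (nat_lit 110) (nat_lit 1) (nat_lit 109) (nat_lit 1) (nat_lit 111) (nat_lit 1) (nat_lit 316) (nat_lit 416) (nat_lit 288))) (XT.nd (nat_lit 78) (nat_lit 152) (nat_lit 0) (XT.lf (nat_lit 152) (nat_lit 4372186631) (nat_lit 0) (nat_lit 2116616105) (nat_lit 76) (nat_lit 2116616105) (nat_lit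 110) (nat_lit 1) (nat_lit 108) (nat_lit 1) (nat_lit 109) (nat_lit 1) (nat_lit 317) (nat_lit 416) (nat_lit 287)) (XT.nd (nat_lit 78) (nat_lit 152) (nat_lit 0) (XT.lf (nat_lit 0) (nat_lit 804858733) (nat_lit 0) (nat_lit 6909906601) (nat_lit 152) (nat_lit 804858733) (nat_lit 108) (nat_lit 3) (nat_lit 108) (nat_lit 1) (nat_lit 110) (nat_lit 1) (nat_lit 318) (nat_lit 416) (nat_lit 286)) (XT.lf (nat_lit 76) (nat_lit 3658118432) (nat_lit 0) (nat_lit 1117789412) (nat_lit 152) (nat_lit 3658118432) (nat_lit 107) (nat_lit 1) (nat_lit 106) (nat_lit 1) (nat_lit 108) (nat_lit 1) (nat_lit 319) (nat_lit 416) (nat_lit 285))))))))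
noncomputable def ec398 : XT := (XT.nd (nat_lit 1482) (nat_lit 1368) (nat_lit 0) (XT.nd (nat_lit 702) (nat_lit 760) (nat_lit 0) (XT.nd (nat_lit 312) (nat_lit 380) (nat_lit 0) (XT.nd (nat_lit 156) (nat_lit 228) (nat_lit 0) (XT.nd (nat_lit 78) (nat_lit 0) (nat_lit 0) (XT.lf (nat_lit 152) (nat_lit 4588524523) (nat_lit 0) (nat_lit 1880585995) (nat_lit 76) (nat_lit 1880585995) (nat_lit 107) (nat_lit 1) (nat_lit 105) (nat_lit 1) (nat_lit 106) (nat_lit 1) (nat_lit 320) (nat_lit 416) (nat_lit 284)) (XT.lf (nat_lit 0) (nat_lit 947414589) (nat_lit 0) (nat_lit 6371670547) (nat_lit 152) (nat_lit 947414589) (nat_lit 105) (nat_lit 3) (nat_lit 105) (nat_lit 1) (nat_lit 107) (nat_lit 1) (nat_lit 321) (nat_lit 416) (nat_lit 283))) (XT.nd (nat_lit 78) (nat_lit 76) (nat_lit 0) (XT.lf (nat_lit 76) (nat_lit 3708040653) (nat_lit 0) (nat_lit 767599639) (nat_lit 152) (nat_lit 3708040653) (nat_lit 104) (nat_lit 1) (nat_lit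 103) (nat_lit 1) (nat_lit 105) (nat_lit 1) (nat_lit 322) (nat_lit 416) (nat_lit 282)) (XT.lf (nat_lit 152) (nat_lit 4760236191) (nat_lit 0) (nat_lit 1670876299) (nat_lit 76) (nat_lit 1670876299) (nat_lit 104) (nat_lit 1) (nat_lit 102) (nat_lit 1) (nat_lit 103) (nat_lit 1) (nat_lit 323) (nat_lit 416) (nat_lit 281)))) (XT.nd (nat_lit 156) (nat_lit 228) (nat_lit 0) (XT.nd (nat_lit 78) (nat_lit 152) (nat_lit 0) (XT.lf (nat_lit 0) (nat_lit 1067307368) (nat_lit 0) (nat_lit 5886688531) (nat_lit 152) (nat_lit 1067307368) (nat_lit 102) (nat_lit 3) (nat_lit 102) (nat_lit 1) (nat_lit 104) (nat_lit 1) (nat_lit 324) (nat_lit 416) (nat_lit 280)) (XT.lf (nat_lit 76) (nat_lit 3739060468) (nat_lit 0) (nat_lit 463029738) (nat_lit 152) (nat_lit 3739060468) (nat_lit 101) (nat_lit 1) (nat_lit 100) (nat_lit 1) (nat_lit 102) (nat_lit 1) (nat_lit 325) (nat_lit 416) (nat_lit 279))) (XT.nd (nat_lit 78) (nat_lit 152) (nat_lit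 0) (XT.lf (nat_lit 152) (nat_lit 4892895175) (nat_lit 0) (nat_lit 1484551950) (nat_lit 76) (nat_lit 1484551950) (nat_lit 101) (nat_lit 1) (nat_lit 99) (nat_lit 1) (nat_lit 100) (nat_lit 1) (nat_lit 326) (nat_lit 416) (nat_lit 278)) (XT.nd (nat_lit 78) (nat_lit 152) (nat_lit 0) (XT.lf (nat_lit 0) (nat_lit 1167261371) (nat_lit 0) (nat_lit 5449219114) (nat_lit 152) (nat_lit 1167261371) (nat_lit 99) (nat_lit 3) (nat_lit 99) (nat_lit 1) (nat_lit 101) (nat_lit 1) (nat_lit 327) (nat_lit 416) (nat_lit 277)) (XT.lf (nat_lit 76) (nat_lit 3753674152) (nat_lit 0) (nat_lit 198801169) (nat_lit 152) (nat_lit 3753674152) (nat_lit 98) (nat_lit 1) (nat_lit 97) (nat_lit 1) (nat_lit 99) (nat_lit 1) (nat_lit 328) (nat_lit 416) (nat_lit 276)))))) (XT.nd (nat_lit 390) (nat_lit 456) (nat_lit 0) (XT.nd (nat_lit 156) (nat_lit 228) (nat_lit 0) (XT.nd (nat_lit 78) (nat_lit 0) (nat_lit 0) (XT.lf (nat_lit 152) (nat_lit 4991436100)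 (nat_lit 0) (nat_lit 1319005180) (nat_lit 76) (nat_lit 1319005180) (nat_lit 98) (nat_lit 1) (nat_lit 96) (nat_lit 1) (nat_lit 97) (nat_lit 1) (nat_lit 329) (nat_lit 416) (nat_lit 275)) (XT.lf (nat_lit 0) (nat_lit 1249691366) (nat_lit 0) (nat_lit 5054155360) (nat_lit 152) (nat_lit 1249691366) (nat_lit 96) (nat_lit 3) (nat_lit 96) (nat_lit 1) (nat_lit 98) (nat_lit 1) (nat_lit 330) (nat_lit 416) (nat_lit 274))) (XT.nd (nat_lit 78) (nat_lit 152) (nat_lit 0) (XT.lf (nat_lit 76) (nat_lit 30362901) (nat_lit 0) (nat_lit 3724017264) (nat_lit 76) (nat_lit 3724017264) (nat_lit 96) (nat_lit 3) (nat_lit 95) (nat_lit 1) (nat_lit 96) (nat_lit 1) (nat_lit 331) (nat_lit 416) (nat_lit 273)) (XT.nd (nat_lit 78) (nat_lit 0) (nat_lit 0) (XT.lf (nat_lit 152) (nat_lit 5060226433) (nat_lit 0) (nat_lit 1171919018) (nat_lit 76) (nat_lit 1171919018) (nat_lit 95) (nat_lit 1) (nat_lit 93) (nat_lit 1) (nat_lit 94) (nat_lit 1) (nat_lit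 332) (nat_lit 416) (nat_lit 272)) (XT.lf (nat_lit 0) (nat_lit 1316737268) (nat_lit 0) (nat_lit 4696954251) (nat_lit 152) (nat_lit 1316737268) (nat_lit 93) (nat_lit 3) (nat_lit 93) (nat_lit 1) (nat_lit 95) (nat_lit 1) (nat_lit 333) (nat_lit 416) (nat_lit 271))))) (XT.nd (nat_lit 156) (nat_lit 228) (nat_lit 0) (XT.nd (nat_lit 78) (nat_lit 152) (nat_lit 0) (XT.lf (nat_lit 76) (nat_lit 231356164) (nat_lit 0) (nat_lit 3513120225) (nat_lit 76) (nat_lit 3513120225) (nat_lit 93) (nat_lit 3) (nat_lit 92) (nat_lit 1) (nat_lit 93) (nat_lit 1) (nat_lit 334) (nat_lit 416) (nat_lit 270)) (XT.lf (nat_lit 152) (nat_lit 5103130215) (nat_lit 0) (nat_lit 1041234869) (nat_lit 76) (nat_lit 1041234869) (nat_lit 92) (nat_lit 1) (nat_lit 90) (nat_lit 1) (nat_lit 91) (nat_lit 1) (nat_lit 335) (nat_lit 416) (nat_lit 269))) (XT.nd (nat_lit 78) (nat_lit 228) (nat_lit 0) (XT.lf (nat_lit 0) (nat_lit 1370294956) (nat_lit 0) (nat_lit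 4373573964) (nat_lit 152) (nat_lit 1370294956) (nat_lit 90) (nat_lit 3) (nat_lit 90) (nat_lit 1) (nat_lit 92) (nat_lit 1) (nat_lit 336) (nat_lit 416) (nat_lit 268)) (XT.nd (nat_lit 78) (nat_lit 152) (nat_lit 0) (XT.lf (nat_lit 76) (nat_lit 403983285) (nat_lit 0) (nat_lit 3319788148) (nat_lit 76) (nat_lit 3319788148) (nat_lit 90) (nat_lit 3) (nat_lit 89) (nat_lit 1) (nat_lit 90) (nat_lit 1) (nat_lit 337) (nat_lit 416) (nat_lit 267)) (XT.lf (nat_lit 152) (nat_lit 5123564683) (nat_lit 0) (nat_lit 925123695) (nat_lit 76) (nat_lit 925123695) (nat_lit 89) (nat_lit 1) (nat_lit 87) (nat_lit 1) (nat_lit 88) (nat_lit 1) (nat_lit 338) (nat_lit 416) (nat_lit 266))))))) (XT.nd (nat_lit 702) (nat_lit 684) (nat_lit 0) (XT.nd (nat_lit 312) (nat_lit 456) (nat_lit 0) (XT.nd (nat_lit 156) (nat_lit 152) (nat_lit 0) (XT.nd (nat_lit 78) (nat_lit 76) (nat_lit 0) (XT.lf (nat_lit 0) (nat_lit 1412043638) (nat_lit 0) (nat_lit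 4080418138) (nat_lit 152) (nat_lit 1412043638) (nat_lit 87) (nat_lit 3) (nat_lit 87) (nat_lit 1) (nat_lit 89) (nat_lit 1) (nat_lit 339) (nat_lit 416) (nat_lit 265)) (XT.lf (nat_lit 76) (nat_lit 551580839) (nat_lit 0) (nat_lit 3142235694) (nat_lit 76) (nat_lit 3142235694) (nat_lit 87) (nat_lit 3) (nat_lit 86) (nat_lit 1) (nat_lit 87) (nat_lit 1) (nat_lit 340) (nat_lit 416) (nat_lit 264))) (XT.nd (nat_lit 78) (nat_lit 0) (nat_lit 0) (XT.lf (nat_lit 152) (nat_lit 5124550552) (nat_lit 0) (nat_lit 821960420) (nat_lit 76) (nat_lit 821960420) (nat_lit 86) (nat_lit 1) (nat_lit 84) (nat_lit 1) (nat_lit 85) (nat_lit 1) (nat_lit 341) (nat_lit 416) (nat_lit 263)) (XT.lf (nat_lit 0) (nat_lit 1443470170) (nat_lit 0) (nat_lit 3814286353) (nat_lit 152) (nat_lit 1443470170) (nat_lit 84) (nat_lit 3) (nat_lit 84) (nat_lit 1) (nat_lit 86) (nat_lit 1) (nat_lit 342) (nat_lit 416) (nat_lit 262)))) (XT.nd (nat_lit 156) (nat_lit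 228) (nat_lit 0) (XT.nd (nat_lit 78) (nat_lit 152) (nat_lit 0) (XT.lf (nat_lit 76) (nat_lit 677108278) (nat_lit 0) (nat_lit 2978871562) (nat_lit 76) (nat_lit 2978871562) (nat_lit 84) (nat_lit 3) (nat_lit 83) (nat_lit 1) (nat_lit 84) (nat_lit 1) (nat_lit 343) (nat_lit 416) (nat_lit 261)) (XT.lf (nat_lit 152) (nat_lit 5108756687) (nat_lit 0) (nat_lit 730301187) (nat_lit 76) (nat_lit 730301187) (nat_lit 83) (nat_lit 1) (nat_lit 81) (nat_lit 1) (nat_lit 82) (nat_lit 1) (nat_lit 344) (nat_lit 416) (nat_lit 260))) (XT.nd (nat_lit 78) (nat_lit 228) (nat_lit 0) (XT.lf (nat_lit 0) (nat_lit 1465890654) (nat_lit 0) (nat_lit 3572330125) (nat_lit 152) (nat_lit 1465890654) (nat_lit 81) (nat_lit 3) (nat_lit 81) (nat_lit 1) (nat_lit 83) (nat_lit 1) (nat_lit 345) (nat_lit 416) (nat_lit 259)) (XT.nd (nat_lit 78) (nat_lit 152) (nat_lit 0) (XT.lf (nat_lit 76) (nat_lit 783190136) (nat_lit 0) (nat_lit 2828277002) (nat_lit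 76) (nat_lit 2828277002) (nat_lit 81) (nat_lit 3) (nat_lit 80) (nat_lit 1) (nat_lit 81) (nat_lit 1) (nat_lit 346) (nat_lit 416) (nat_lit 258)) (XT.lf (nat_lit 152) (nat_lit 5078539774) (nat_lit 0) (nat_lit 648863146) (nat_lit 76) (nat_lit 648863146) (nat_lit 80) (nat_lit 1) (nat_lit 78) (nat_lit 1) (nat_lit 79) (nat_lit 1) (nat_lit 347) (nat_lit 416) (nat_lit 257)))))) (XT.nd (nat_lit 390) (nat_lit 380) (nat_lit 0) (XT.nd (nat_lit 156) (nat_lit 228) (nat_lit 0) (XT.nd (nat_lit 78) (nat_lit 76) (nat_lit 0) (XT.lf (nat_lit 0) (nat_lit 1480469621) (nat_lit 0) (nat_lit 3352013808) (nat_lit 152) (nat_lit 1480469621) (nat_lit 78) (nat_lit 3) (nat_lit 78) (nat_lit 1) (nat_lit 80) (nat_lit 1) (nat_lit 348) (nat_lit 416) (nat_lit 256)) (XT.lf (nat_lit 76) (nat_lit 872153516) (nat_lit 0) (nat_lit 2689186708) (nat_lit 76) (nat_lit 2689186708) (nat_lit 78) (nat_lit 3) (nat_lit 77) (nat_lit 1) (nat_lit 78) (nat_lit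 1) (nat_lit 349) (nat_lit 416) (nat_lit 255))) (XT.nd (nat_lit 78) (nat_lit 76) (nat_lit 0) (XT.lf (nat_lit 152) (nat_lit 5035979555) (nat_lit 0) (nat_lit 576506501) (nat_lit 76) (nat_lit 576506501) (nat_lit 77) (nat_lit 1) (nat_lit 75) (nat_lit 1) (nat_lit 76) (nat_lit 1) (nat_lit 350) (nat_lit 416) (nat_lit 254)) (XT.nd (nat_lit 78) (nat_lit 76) (nat_lit 0) (XT.lf (nat_lit 0) (nat_lit 1488237075) (nat_lit 0) (nat_lit 3151079845) (nat_lit 152) (nat_lit 1488237075) (nat_lit 75) (nat_lit 3) (nat_lit 75) (nat_lit 1) (nat_lit 77) (nat_lit 1) (nat_lit 351) (nat_lit 416) (nat_lit 253)) (XT.lf (nat_lit 76) (nat_lit 946061399) (nat_lit 0) (nat_lit 2560471855) (nat_lit 76) (nat_lit 2560471855) (nat_lit 75) (nat_lit 3) (nat_lit 74) (nat_lit 1) (nat_lit 75) (nat_lit 1) (nat_lit 352) (nat_lit 416) (nat_lit 252))))) (XT.nd (nat_lit 156) (nat_lit 228) (nat_lit 0) (XT.nd (nat_lit 78) (nat_lit 0) (nat_lit 0) (XT.lf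 (nat_lit 152) (nat_lit 4982910127) (nat_lit 0) (nat_lit 512218559) (nat_lit 76) (nat_lit 512218559) (nat_lit 74) (nat_lit 1) (nat_lit 72) (nat_lit 1) (nat_lit 73) (nat_lit 1) (nat_lit 353) (nat_lit 416) (nat_lit 251)) (XT.lf (nat_lit 0) (nat_lit 1490103628) (nat_lit 0) (nat_lit 2967517892) (nat_lit 152) (nat_lit 1490103628) (nat_lit 72) (nat_lit 3) (nat_lit 72) (nat_lit 1) (nat_lit 74) (nat_lit 1) (nat_lit 354) (nat_lit 416) (nat_lit 250))) (XT.nd (nat_lit 78) (nat_lit 152) (nat_lit 0) (XT.lf (nat_lit 76) (nat_lit 1006742227) (nat_lit 0) (nat_lit 2441125007) (nat_lit 76) (nat_lit 2441125007) (nat_lit 72) (nat_lit 3) (nat_lit 71) (nat_lit 1) (nat_lit 72) (nat_lit 1) (nat_lit 355) (nat_lit 416) (nat_lit 249)) (XT.nd (nat_lit 78) (nat_lit 0) (nat_lit 0) (XT.lf (nat_lit 152) (nat_lit 4920947729) (nat_lit 0) (nat_lit 455099555) (nat_lit 76) (nat_lit 455099555) (nat_lit 71) (nat_lit 1) (nat_lit 69) (nat_lit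 1) (nat_lit 70) (nat_lit 1) (nat_lit 356) (nat_lit 416) (nat_lit 248)) (XT.lf (nat_lit 0) (nat_lit 1486873952) (nat_lit 0) (nat_lit 2799537390) (nat_lit 152) (nat_lit 1486873952) (nat_lit 69) (nat_lit 3) (nat_lit 69) (nat_lit 1) (nat_lit 71) (nat_lit 1) (nat_lit 357) (nat_lit 416) (nat_lit 247))))))))
noncomputable def ec399 : XT := (XT.nd (nat_lit 1482) (nat_lit 1520) (nat_lit 0) (XT.nd (nat_lit 702) (nat_lit 760) (nat_lit 0) (XT.nd (nat_lit 312) (nat_lit 380) (nat_lit 0) (XT.nd (nat_lit 156) (nat_lit 76) (nat_lit 0) (XT.nd (nat_lit 78) (nat_lit 152) (nat_lit 0) (XT.lf (nat_lit 76) (nat_lit 1055816194) (nat_lit 0) (nat_lit 2330246716) (nat_lit 76) (nat_lit 2330246716) (nat_lit 69) (nat_lit 3) (nat_lit 68) (nat_lit 1) (nat_lit 69) (nat_lit 1) (nat_lit 358) (nat_lit 416) (nat_lit 246)) (XT.lf (nat_lit 152) (nat_lit 4851515427) (nat_lit 0) (nat_lit 404350060) (nat_lit 76) (nat_lit 404350060) (nat_lit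 68) (nat_lit 1) (nat_lit 66) (nat_lit 1) (nat_lit 67) (nat_lit 1) (nat_lit 359) (nat_lit 416) (nat_lit 245))) (XT.nd (nat_lit 78) (nat_lit 76) (nat_lit 0) (XT.lf (nat_lit 0) (nat_lit 1479258713) (nat_lit 0) (nat_lit 2645543175) (nat_lit 152) (nat_lit 1479258713) (nat_lit 66) (nat_lit 3) (nat_lit 66) (nat_lit 1) (nat_lit 68) (nat_lit 1) (nat_lit 360) (nat_lit 416) (nat_lit 244)) (XT.lf (nat_lit 76) (nat_lit 1094718590) (nat_lit 0) (nat_lit 2227033603) (nat_lit 76) (nat_lit 2227033603) (nat_lit 66) (nat_lit 3) (nat_lit 65) (nat_lit 1) (nat_lit 66) (nat_lit 1) (nat_lit 361) (nat_lit 416) (nat_lit 243)))) (XT.nd (nat_lit 156) (nat_lit 228) (nat_lit 0) (XT.nd (nat_lit 78) (nat_lit 0) (nat_lit 0) (XT.lf (nat_lit 152) (nat_lit 4775865034) (nat_lit 0) (nat_lit 359259792) (nat_lit 76) (nat_lit 359259792) (nat_lit 65) (nat_lit 1) (nat_lit 63) (nat_lit 1) (nat_lit 64) (nat_lit 1) (nat_lit 362) (nat_lit 416) (nat_lit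 242)) (XT.lf (nat_lit 0) (nat_lit 1467885182) (nat_lit 0) (nat_lit 2504113821) (nat_lit 152) (nat_lit 1467885182) (nat_lit 63) (nat_lit 3) (nat_lit 63) (nat_lit 1) (nat_lit 65) (nat_lit 1) (nat_lit 363) (nat_lit 416) (nat_lit 241))) (XT.nd (nat_lit 78) (nat_lit 152) (nat_lit 0) (XT.lf (nat_lit 76) (nat_lit 1124720548) (nat_lit 0) (nat_lit 2130767771) (nat_lit 76) (nat_lit 2130767771) (nat_lit 63) (nat_lit 3) (nat_lit 62) (nat_lit 1) (nat_lit 63) (nat_lit 1) (nat_lit 364) (nat_lit 416) (nat_lit 240)) (XT.nd (nat_lit 78) (nat_lit 0) (nat_lit 0) (XT.lf (nat_lit 152) (nat_lit 4695096569) (nat_lit 0) (nat_lit 319197672) (nat_lit 76) (nat_lit 319197672) (nat_lit 62) (nat_lit 1) (nat_lit 60) (nat_lit 1) (nat_lit 61) (nat_lit 1) (nat_lit 365) (nat_lit 416) (nat_lit 239)) (XT.lf (nat_lit 0) (nat_lit 1453306656) (nat_lit 0) (nat_lit 2373982381) (nat_lit 152) (nat_lit 1453306656) (nat_lit 60) (nat_lit 3) (nat_lit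 60) (nat_lit 1) (nat_lit 62) (nat_lit 1) (nat_lit 366) (nat_lit 416) (nat_lit 238)))))) (XT.nd (nat_lit 390) (nat_lit 304) (nat_lit 0) (XT.nd (nat_lit 156) (nat_lit 228) (nat_lit 0) (XT.nd (nat_lit 78) (nat_lit 152) (nat_lit 0) (XT.lf (nat_lit 76) (nat_lit 1146947464) (nat_lit 0) (nat_lit 2040807391) (nat_lit 76) (nat_lit 2040807391) (nat_lit 60) (nat_lit 3) (nat_lit 59) (nat_lit 1) (nat_lit 60) (nat_lit 1) (nat_lit 367) (nat_lit 416) (nat_lit 237)) (XT.lf (nat_lit 152) (nat_lit 4610175543) (nat_lit 0) (nat_lit 283602997) (nat_lit 76) (nat_lit 283602997) (nat_lit 59) (nat_lit 1) (nat_lit 57) (nat_lit 1) (nat_lit 58) (nat_lit 1) (nat_lit 368) (nat_lit 416) (nat_lit 236))) (XT.nd (nat_lit 78) (nat_lit 228) (nat_lit 0) (XT.lf (nat_lit 0) (nat_lit 1436010825) (nat_lit 0) (nat_lit 2254019281) (nat_lit 152) (nat_lit 1436010825) (nat_lit 57) (nat_lit 3) (nat_lit 57) (nat_lit 1) (nat_lit 59) (nat_lit 1) (nat_lit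 369) (nat_lit 416) (nat_lit 235)) (XT.nd (nat_lit 78) (nat_lit 152) (nat_lit 0) (XT.lf (nat_lit 76) (nat_lit 1162395369) (nat_lit 0) (nat_lit 1956578337) (nat_lit 76) (nat_lit 1956578337) (nat_lit 57) (nat_lit 3) (nat_lit 56) (nat_lit 1) (nat_lit 57) (nat_lit 1) (nat_lit 370) (nat_lit 416) (nat_lit 234)) (XT.lf (nat_lit 152) (nat_lit 4521948300) (nat_lit 0) (nat_lit 251977589) (nat_lit 76) (nat_lit 251977589) (nat_lit 56) (nat_lit 1) (nat_lit 54) (nat_lit 1) (nat_lit 55) (nat_lit 1) (nat_lit 371) (nat_lit 416) (nat_lit 233))))) (XT.nd (nat_lit 156) (nat_lit 228) (nat_lit 0) (XT.nd (nat_lit 78) (nat_lit 76) (nat_lit 0) (XT.lf (nat_lit 0) (nat_lit 1416427197) (nat_lit 0) (nat_lit 2143217116) (nat_lit 152) (nat_lit 1416427197) (nat_lit 54) (nat_lit 3) (nat_lit 54) (nat_lit 1) (nat_lit 56) (nat_lit 1) (nat_lit 372) (nat_lit 416) (nat_lit 232)) (XT.lf (nat_lit 76) (nat_lit 1171945466) (nat_lit 0) (nat_lit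 1877566746) (nat_lit 76) (nat_lit 1877566746) (nat_lit 54) (nat_lit 3) (nat_lit 53) (nat_lit 1) (nat_lit 54) (nat_lit 1) (nat_lit 373) (nat_lit 416) (nat_lit 231))) (XT.nd (nat_lit 78) (nat_lit 76) (nat_lit 0) (XT.lf (nat_lit 152) (nat_lit 4431155642) (nat_lit 0) (nat_lit 223878824) (nat_lit 76) (nat_lit 223878824) (nat_lit 53) (nat_lit 1) (nat_lit 51) (nat_lit 1) (nat_lit 52) (nat_lit 1) (nat_lit 374) (nat_lit 416) (nat_lit 230)) (XT.nd (nat_lit 78) (nat_lit 76) (nat_lit 0) (XT.lf (nat_lit 0) (nat_lit 1394933703) (nat_lit 0) (nat_lit 2040677132) (nat_lit 152) (nat_lit 1394933703) (nat_lit 51) (nat_lit 3) (nat_lit 51) (nat_lit 1) (nat_lit 53) (nat_lit 1) (nat_lit 375) (nat_lit 416) (nat_lit 229)) (XT.lf (nat_lit 76) (nat_lit 1176377043) (nat_lit 0) (nat_lit 1803312411) (nat_lit 76) (nat_lit 1803312411) (nat_lit 51) (nat_lit 3) (nat_lit 50) (nat_lit 1) (nat_lit 51) (nat_lit 1) (nat_lit 376) (nat_lit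 416) (nat_lit 228))))))) (XT.nd (nat_lit 702) (nat_lit 836) (nat_lit 0) (XT.nd (nat_lit 312) (nat_lit 304) (nat_lit 0) (XT.nd (nat_lit 156) (nat_lit 228) (nat_lit 0) (XT.nd (nat_lit 78) (nat_lit 0) (nat_lit 0) (XT.lf (nat_lit 152) (nat_lit 4338444926) (nat_lit 0) (nat_lit 198913436) (nat_lit 76) (nat_lit 198913436) (nat_lit 50) (nat_lit 1) (nat_lit 48) (nat_lit 1) (nat_lit 49) (nat_lit 1) (nat_lit 377) (nat_lit 416) (nat_lit 227)) (XT.lf (nat_lit 0) (nat_lit 1371862551) (nat_lit 0) (nat_lit 1945597224) (nat_lit 152) (nat_lit 1371862551) (nat_lit 48) (nat_lit 3) (nat_lit 48) (nat_lit 1) (nat_lit 50) (nat_lit 1) (nat_lit 378) (nat_lit 416) (nat_lit 226))) (XT.nd (nat_lit 78) (nat_lit 152) (nat_lit 0) (XT.lf (nat_lit 76) (nat_lit 1176378946) (nat_lit 0) (nat_lit 1733402901) (nat_lit 76) (nat_lit 1733402901) (nat_lit 48) (nat_lit 3) (nat_lit 47) (nat_lit 1) (nat_lit 48) (nat_lit 1) (nat_lit 379) (nat_lit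 416) (nat_lit 225)) (XT.lf (nat_lit 152) (nat_lit 4244380796) (nat_lit 0) (nat_lit 176732011) (nat_lit 76) (nat_lit 176732011) (nat_lit 47) (nat_lit 1) (nat_lit 45) (nat_lit 1) (nat_lit 46) (nat_lit 1) (nat_lit 380) (nat_lit 416) (nat_lit 224)))) (XT.nd (nat_lit 156) (nat_lit 228) (nat_lit 0) (XT.nd (nat_lit 78) (nat_lit 76) (nat_lit 0) (XT.lf (nat_lit 0) (nat_lit 1347505432) (nat_lit 0) (nat_lit 1857261258) (nat_lit 152) (nat_lit 1347505432) (nat_lit 45) (nat_lit 3) (nat_lit 45) (nat_lit 1) (nat_lit 47) (nat_lit 1) (nat_lit 381) (nat_lit 416) (nat_lit 223)) (XT.lf (nat_lit 76) (nat_lit 1172559768) (nat_lit 0) (nat_lit 1667468337) (nat_lit 76) (nat_lit 1667468337) (nat_lit 45) (nat_lit 3) (nat_lit 44) (nat_lit 1) (nat_lit 45) (nat_lit 1) (nat_lit 382) (nat_lit 416) (nat_lit 222))) (XT.nd (nat_lit 78) (nat_lit 76) (nat_lit 0) (XT.lf (nat_lit 152) (nat_lit 4149454714) (nat_lit 0) (nat_lit 157024103) (nat_lit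 76) (nat_lit 157024103) (nat_lit 44) (nat_lit 1) (nat_lit 42) (nat_lit 1) (nat_lit 43) (nat_lit 1) (nat_lit 383) (nat_lit 416) (nat_lit 221)) (XT.nd (nat_lit 78) (nat_lit 76) (nat_lit 0) (XT.lf (nat_lit 0) (nat_lit 1322118136) (nat_lit 0) (nat_lit 1775029585) (nat_lit 152) (nat_lit 1322118136) (nat_lit 42) (nat_lit 3) (nat_lit 42) (nat_lit 1) (nat_lit 44) (nat_lit 1) (nat_lit 384) (nat_lit 416) (nat_lit 220)) (XT.lf (nat_lit 76) (nat_lit 1165456895) (nat_lit 0) (nat_lit 1605176749) (nat_lit 76) (nat_lit 1605176749) (nat_lit 42) (nat_lit 3) (nat_lit 41) (nat_lit 1) (nat_lit 42) (nat_lit 1) (nat_lit 385) (nat_lit 416) (nat_lit 219)))))) (XT.nd (nat_lit 390) (nat_lit 456) (nat_lit 0) (XT.nd (nat_lit 156) (nat_lit 228) (nat_lit 0) (XT.nd (nat_lit 78) (nat_lit 0) (nat_lit 0) (XT.lf (nat_lit 152) (nat_lit 4054093420) (nat_lit 0) (nat_lit 139513882) (nat_lit 76) (nat_lit 139513882) (nat_lit 41) (nat_lit 1)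 (nat_lit 39) (nat_lit 1) (nat_lit 40) (nat_lit 1) (nat_lit 386) (nat_lit 416) (nat_lit 218)) (XT.lf (nat_lit 0) (nat_lit 1295924659) (nat_lit 0) (nat_lit 1698330615) (nat_lit 152) (nat_lit 1295924659) (nat_lit 39) (nat_lit 3) (nat_lit 39) (nat_lit 1) (nat_lit 41) (nat_lit 1) (nat_lit 387) (nat_lit 416) (nat_lit 217))) (XT.nd (nat_lit 78) (nat_lit 152) (nat_lit 0) (XT.lf (nat_lit 76) (nat_lit 1155544549) (nat_lit 0) (nat_lit 1546229944) (nat_lit 76) (nat_lit 1546229944) (nat_lit 39) (nat_lit 3) (nat_lit 38) (nat_lit 1) (nat_lit 39) (nat_lit 1) (nat_lit 388) (nat_lit 416) (nat_lit 216)) (XT.nd (nat_lit 78) (nat_lit 0) (nat_lit 0) (XT.lf (nat_lit 152) (nat_lit 3958666437) (nat_lit 0) (nat_lit 123956277) (nat_lit 76) (nat_lit 123956277) (nat_lit 38) (nat_lit 1) (nat_lit 36) (nat_lit 1) (nat_lit 37) (nat_lit 1) (nat_lit 389) (nat_lit 416) (nat_lit 215)) (XT.lf (nat_lit 0) (nat_lit 1269120836) (nat_lit 0)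 (nat_lit 1626653316) (nat_lit 152) (nat_lit 1269120836) (nat_lit 36) (nat_lit 3) (nat_lit 36) (nat_lit 1) (nat_lit 38) (nat_lit 1) (nat_lit 390) (nat_lit 416) (nat_lit 214))))) (XT.nd (nat_lit 156) (nat_lit 228) (nat_lit 0) (XT.nd (nat_lit 78) (nat_lit 152) (nat_lit 0) (XT.lf (nat_lit 76) (nat_lit 1143240922) (nat_lit 0) (nat_lit 1490359835) (nat_lit 76) (nat_lit 1490359835) (nat_lit 36) (nat_lit 3) (nat_lit 35) (nat_lit 1) (nat_lit 36) (nat_lit 1) (nat_lit 391) (nat_lit 416) (nat_lit 213)) (XT.lf (nat_lit 152) (nat_lit 3863492732) (nat_lit 0) (nat_lit 110133546) (nat_lit 76) (nat_lit 110133546) (nat_lit 35) (nat_lit 1) (nat_lit 33) (nat_lit 1) (nat_lit 34) (nat_lit 1) (nat_lit 392) (nat_lit 416) (nat_lit 212))) (XT.nd (nat_lit 78) (nat_lit 228) (nat_lit 0) (XT.lf (nat_lit 0) (nat_lit 1241877582) (nat_lit 0) (nat_lit 1559540560) (nat_lit 152) (nat_lit 1241877582) (nat_lit 33) (nat_lit 3) (nat_lit 33)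 (nat_lit 1) (nat_lit 35) (nat_lit 1) (nat_lit 393) (nat_lit 416) (nat_lit 211)) (XT.nd (nat_lit 78) (nat_lit 152) (nat_lit 0) (XT.lf (nat_lit 76) (nat_lit 1128914515) (nat_lit 0) (nat_lit 1437325173) (nat_lit 76) (nat_lit 1437325173) (nat_lit 33) (nat_lit 3) (nat_lit 32) (nat_lit 1) (nat_lit 33) (nat_lit 1) (nat_lit 394) (nat_lit 416) (nat_lit 210)) (XT.lf (nat_lit 152) (nat_lit 3768846627) (nat_lit 0) (nat_lit 97852229) (nat_lit 76) (nat_lit 97852229) (nat_lit 32) (nat_lit 1) (nat_lit 30) (nat_lit 1) (nat_lit 31) (nat_lit 1) (nat_lit 395) (nat_lit 416) (nat_lit 209))))))))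
noncomputable def ec400 : XT := (XT.nd (nat_lit 1404) (nat_lit 304) (nat_lit 0) (XT.nd (nat_lit 702) (nat_lit 684) (nat_lit 0) (XT.nd (nat_lit 312) (nat_lit 456) (nat_lit 0) (XT.nd (nat_lit 156) (nat_lit 152) (nat_lit 0) (XT.nd (nat_lit 78) (nat_lit 76) (nat_lit 0) (XT.lf (nat_lit 0) (nat_lit 1214343756) (nat_lit 0) (nat_lit 1496583197) (nat_lit 152) (nat_lit 1214343756) (nat_lit 30) (nat_lit 3) (nat_lit 30) (nat_lit 1) (nat_lit 32) (nat_lit 1) (nat_lit 396) (nat_lit 416) (nat_lit 208)) (XT.lf (nat_lit 76) (nat_lit 1112889773) (nat_lit 0) (nat_lit 1386908648) (nat_lit 76) (nat_lit 1386908648) (nat_lit 30) (nat_lit 3) (nat_lit 29) (nat_lit 1) (nat_lit 30) (nat_lit 1) (nat_lit 397) (nat_lit 416) (nat_lit 207))) (XT.nd (nat_lit 78) (nat_lit 0) (nat_lit 0) (XT.lf (nat_lit 152) (nat_lit 3674963040) (nat_lit 0) (nat_lit 86940438) (nat_lit 76) (nat_lit 86940438) (nat_lit 29) (nat_lit 1) (nat_lit 27) (nat_lit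 1) (nat_lit 28) (nat_lit 1) (nat_lit 398) (nat_lit 416) (nat_lit 206)) (XT.lf (nat_lit 0) (nat_lit 1186648707) (nat_lit 0) (nat_lit 1437414795) (nat_lit 152) (nat_lit 1186648707) (nat_lit 27) (nat_lit 3) (nat_lit 27) (nat_lit 1) (nat_lit 29) (nat_lit 1) (nat_lit 399) (nat_lit 416) (nat_lit 205)))) (XT.nd (nat_lit 156) (nat_lit 228) (nat_lit 0) (XT.nd (nat_lit 78) (nat_lit 152) (nat_lit 0) (XT.lf (nat_lit 76) (nat_lit 1095452079) (nat_lit 0) (nat_lit 1338914300) (nat_lit 76) (nat_lit 1338914300) (nat_lit 27) (nat_lit 3) (nat_lit 26) (nat_lit 1) (nat_lit 27) (nat_lit 1) (nat_lit 400) (nat_lit 416) (nat_lit 204)) (XT.lf (nat_lit 152) (nat_lit 3582042136) (nat_lit 0) (nat_lit 77245453) (nat_lit 76) (nat_lit 77245453) (nat_lit 26) (nat_lit 1) (nat_lit 24) (nat_lit 1) (nat_lit 25) (nat_lit 1) (nat_lit 401) (nat_lit 416) (nat_lit 203))) (XT.nd (nat_lit 78) (nat_lit 228) (nat_lit 0) (XT.lf (nat_lit 0) (nat_lit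 1158904539) (nat_lit 0) (nat_lit 1381706961) (nat_lit 152) (nat_lit 1158904539) (nat_lit 24) (nat_lit 3) (nat_lit 24) (nat_lit 1) (nat_lit 26) (nat_lit 1) (nat_lit 402) (nat_lit 416) (nat_lit 202)) (XT.nd (nat_lit 78) (nat_lit 152) (nat_lit 0) (XT.lf (nat_lit 76) (nat_lit 1076852197) (nat_lit 0) (nat_lit 1293165228) (nat_lit 76) (nat_lit 1293165228) (nat_lit 24) (nat_lit 3) (nat_lit 23) (nat_lit 1) (nat_lit 24) (nat_lit 1) (nat_lit 403) (nat_lit 416) (nat_lit 201)) (XT.lf (nat_lit 152) (nat_lit 3490253455) (nat_lit 0) (nat_lit 68631585) (nat_lit 76) (nat_lit 68631585) (nat_lit 23) (nat_lit 1) (nat_lit 21) (nat_lit 1) (nat_lit 22) (nat_lit 1) (nat_lit 404) (nat_lit 416) (nat_lit 200)))))) (XT.nd (nat_lit 312) (nat_lit 456) (nat_lit 0) (XT.nd (nat_lit 156) (nat_lit 152) (nat_lit 0) (XT.nd (nat_lit 78) (nat_lit 76) (nat_lit 0) (XT.lf (nat_lit 0) (nat_lit 1131208112) (nat_lit 0) (nat_lit 1329165178) (nat_lit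 152) (nat_lit 1131208112) (nat_lit 21) (nat_lit 3) (nat_lit 21) (nat_lit 1) (nat_lit 23) (nat_lit 1) (nat_lit 405) (nat_lit 416) (nat_lit 199)) (XT.lf (nat_lit 76) (nat_lit 1057310214) (nat_lit 0) (nat_lit 1249501540) (nat_lit 76) (nat_lit 1249501540) (nat_lit 21) (nat_lit 3) (nat_lit 20) (nat_lit 1) (nat_lit 21) (nat_lit 1) (nat_lit 406) (nat_lit 416) (nat_lit 198))) (XT.nd (nat_lit 78) (nat_lit 0) (nat_lit 0) (XT.lf (nat_lit 152) (nat_lit 3399739563) (nat_lit 0) (nat_lit 60978274) (nat_lit 76) (nat_lit 60978274) (nat_lit 20) (nat_lit 1) (nat_lit 18) (nat_lit 1) (nat_lit 19) (nat_lit 1) (nat_lit 407) (nat_lit 416) (nat_lit 197)) (XT.lf (nat_lit 0) (nat_lit 1103642824) (nat_lit 0) (nat_lit 1279525113) (nat_lit 152) (nat_lit 1103642824) (nat_lit 18) (nat_lit 3) (nat_lit 18) (nat_lit 1) (nat_lit 20) (nat_lit 1) (nat_lit 408) (nat_lit 416) (nat_lit 196)))) (XT.nd (nat_lit 156) (nat_lit 228) (nat_lit 0)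 (XT.nd (nat_lit 78) (nat_lit 152) (nat_lit 0) (XT.lf (nat_lit 76) (nat_lit 1037019037) (nat_lit 0) (nat_lit 1207778540) (nat_lit 76) (nat_lit 1207778540) (nat_lit 18) (nat_lit 3) (nat_lit 17) (nat_lit 1) (nat_lit 18) (nat_lit 1) (nat_lit 409) (nat_lit 416) (nat_lit 195)) (XT.lf (nat_lit 152) (nat_lit 3310619300) (nat_lit 0) (nat_lit 54178407) (nat_lit 76) (nat_lit 54178407) (nat_lit 17) (nat_lit 1) (nat_lit 15) (nat_lit 1) (nat_lit 16) (nat_lit 1) (nat_lit 410) (nat_lit 416) (nat_lit 194))) (XT.nd (nat_lit 78) (nat_lit 228) (nat_lit 0) (XT.lf (nat_lit 0) (nat_lit 1076280187) (nat_lit 0) (nat_lit 1232549322) (nat_lit 152) (nat_lit 1076280187) (nat_lit 15) (nat_lit 3) (nat_lit 15) (nat_lit 1) (nat_lit 17) (nat_lit 1) (nat_lit 411) (nat_lit 416) (nat_lit 193)) (XT.nd (nat_lit 78) (nat_lit 152) (nat_lit 0) (XT.lf (nat_lit 76) (nat_lit 1016147503) (nat_lit 0) (nat_lit 1167865110) (nat_lit 76) (nat_lit 1167865110)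 (nat_lit 15) (nat_lit 3) (nat_lit 14) (nat_lit 1) (nat_lit 15) (nat_lit 1) (nat_lit 412) (nat_lit 416) (nat_lit 192)) (XT.lf (nat_lit 152) (nat_lit 3222990653) (nat_lit 0) (nat_lit 48136813) (nat_lit 76) (nat_lit 48136813) (nat_lit 14) (nat_lit 1) (nat_lit 12) (nat_lit 1) (nat_lit 13) (nat_lit 1) (nat_lit 413) (nat_lit 416) (nat_lit 191))))))) (XT.nd (nat_lit 35646) (nat_lit 0) (nat_lit 26980) (XT.nd (nat_lit 312) (nat_lit 76) (nat_lit 0) (XT.nd (nat_lit 156) (nat_lit 152) (nat_lit 0) (XT.nd (nat_lit 78) (nat_lit 76) (nat_lit 0) (XT.lf (nat_lit 0) (nat_lit 1049181232) (nat_lit 0) (nat_lit 1188024335) (nat_lit 152) (nat_lit 1049181232) (nat_lit 12) (nat_lit 3) (nat_lit 12) (nat_lit 1) (nat_lit 14) (nat_lit 1) (nat_lit 414) (nat_lit 416) (nat_lit 190)) (XT.lf (nat_lit 76) (nat_lit 994843138) (nat_lit 0) (nat_lit 1129642267) (nat_lit 76) (nat_lit 1129642267) (nat_lit 12) (nat_lit 3) (nat_lit 11) (nat_lit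 1) (nat_lit 12) (nat_lit 1) (nat_lit 415) (nat_lit 416) (nat_lit 189))) (XT.nd (nat_lit 78) (nat_lit 0) (nat_lit 0) (XT.lf (nat_lit 152) (nat_lit 3136933299) (nat_lit 0) (nat_lit 42768934) (nat_lit 76) (nat_lit 42768934) (nat_lit 11) (nat_lit 1) (nat_lit 9) (nat_lit 1) (nat_lit 10) (nat_lit 1) (nat_lit 416) (nat_lit 416) (nat_lit 188)) (XT.lf (nat_lit 0) (nat_lit 1022397746) (nat_lit 0) (nat_lit 1145758045) (nat_lit 152) (nat_lit 1022397746) (nat_lit 9) (nat_lit 3) (nat_lit 9) (nat_lit 1) (nat_lit 11) (nat_lit 1) (nat_lit 417) (nat_lit 416) (nat_lit 187)))) (XT.nd (nat_lit 35100) (nat_lit 0) (nat_lit 27816) (XT.nd (nat_lit 35022) (nat_lit 0) (nat_lit 27816) (XT.lf (nat_lit 76) (nat_lit 973234605) (nat_lit 0) (nat_lit 1093001885) (nat_lit 76) (nat_lit 1093001885) (nat_lit 9) (nat_lit 3) (nat_lit 8) (nat_lit 1) (nat_lit 9) (nat_lit 1) (nat_lit 418) (nat_lit 416) (nat_lit 186)) (XT.lf (nat_lit 1292) (nat_lit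 3631875726) (nat_lit 0) (nat_lit 12495341572) (nat_lit 1292) (nat_lit 3631875726) (nat_lit 391) (nat_lit 1) (nat_lit 374) (nat_lit 0) (nat_lit 391) (nat_lit 0) (nat_lit 186) (nat_lit 417) (nat_lit 417))) (XT.nd (nat_lit 78) (nat_lit 0) (nat_lit 76) (XT.lf (nat_lit 1292) (nat_lit 14193433981) (nat_lit 76) (nat_lit 12372838223) (nat_lit 0) (nat_lit 12372838223) (nat_lit 391) (nat_lit 1) (nat_lit 375) (nat_lit 1) (nat_lit 374) (nat_lit 0) (nat_lit 187) (nat_lit 417) (nat_lit 416)) (XT.nd (nat_lit 78) (nat_lit 0) (nat_lit 0) (XT.lf (nat_lit 1292) (nat_lit 6864283084) (nat_lit 0) (nat_lit 24644241837) (nat_lit 1216) (nat_lit 6864283084) (nat_lit 392) (nat_lit 1) (nat_lit 375) (nat_lit 1) (nat_lit 391) (nat_lit 1) (nat_lit 188) (nat_lit 417) (nat_lit 415)) (XT.lf (nat_lit 1292) (nat_lit 13035627983) (nat_lit 76) (nat_lit 12390167328) (nat_lit 0) (nat_lit 12390167328) (nat_lit 392) (nat_lit 1) (nat_lit 376)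 (nat_lit 1) (nat_lit 375) (nat_lit 1) (nat_lit 189) (nat_lit 417) (nat_lit 414)))))) (XT.nd (nat_lit 390) (nat_lit 988) (nat_lit 0) (XT.nd (nat_lit 156) (nat_lit 0) (nat_lit 76) (XT.nd (nat_lit 78) (nat_lit 0) (nat_lit 0) (XT.lf (nat_lit 1292) (nat_lit 6116903419) (nat_lit 0) (nat_lit 25037770038) (nat_lit 1216) (nat_lit 6116903419) (nat_lit 393) (nat_lit 1) (nat_lit 376) (nat_lit 1) (nat_lit 392) (nat_lit 1) (nat_lit 190) (nat_lit 417) (nat_lit 413)) (XT.lf (nat_lit 1292) (nat_lit 11209871374) (nat_lit 76) (nat_lit 12763013036) (nat_lit 0) (nat_lit 12763013036) (nat_lit 393) (nat_lit 1) (nat_lit 377) (nat_lit 1) (nat_lit 376) (nat_lit 1) (nat_lit 191) (nat_lit 417) (nat_lit 412))) (XT.nd (nat_lit 78) (nat_lit 0) (nat_lit 0) (XT.lf (nat_lit 1292) (nat_lit 5052385224) (nat_lit 0) (nat_lit 26107817199) (nat_lit 1216) (nat_lit 5052385224) (nat_lit 394) (nat_lit 1) (nat_lit 377) (nat_lit 1) (nat_lit 393)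 (nat_lit 1) (nat_lit 192) (nat_lit 417) (nat_lit 411)) (XT.nd (nat_lit 78) (nat_lit 0) (nat_lit 76) (XT.lf (nat_lit 1292) (nat_lit 8775897934) (nat_lit 76) (nat_lit 13460583414) (nat_lit 0) (nat_lit 13460583414) (nat_lit 394) (nat_lit 1) (nat_lit 378) (nat_lit 1) (nat_lit 377) (nat_lit 1) (nat_lit 193) (nat_lit 417) (nat_lit 410)) (XT.lf (nat_lit 1292) (nat_lit 3699420183) (nat_lit 0) (nat_lit 27795185962) (nat_lit 1216) (nat_lit 3699420183) (nat_lit 395) (nat_lit 1) (nat_lit 378) (nat_lit 1) (nat_lit 394) (nat_lit 1) (nat_lit 194) (nat_lit 417) (nat_lit 409))))) (XT.nd (nat_lit 156) (nat_lit 1140) (nat_lit 0) (XT.nd (nat_lit 78) (nat_lit 0) (nat_lit 76) (XT.lf (nat_lit 1292) (nat_lit 5789389450) (nat_lit 76) (nat_lit 14454156552) (nat_lit 0) (nat_lit 14454156552) (nat_lit 395) (nat_lit 1) (nat_lit 379) (nat_lit 1) (nat_lit 378) (nat_lit 1) (nat_lit 195) (nat_lit 417) (nat_lit 408)) (XT.lf (nat_lit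 1292) (nat_lit 2084747528) (nat_lit 0) (nat_lit 30044670222) (nat_lit 1216) (nat_lit 2084747528) (nat_lit 396) (nat_lit 1) (nat_lit 379) (nat_lit 1) (nat_lit 395) (nat_lit 1) (nat_lit 196) (nat_lit 417) (nat_lit 407))) (XT.nd (nat_lit 78) (nat_lit 1216) (nat_lit 0) (XT.lf (nat_lit 1292) (nat_lit 2302226462) (nat_lit 76) (nat_lit 15716952930) (nat_lit 0) (nat_lit 15716952930) (nat_lit 396) (nat_lit 1) (nat_lit 380) (nat_lit 1) (nat_lit 379) (nat_lit 1) (nat_lit 197) (nat_lit 417) (nat_lit 406)) (XT.nd (nat_lit 78) (nat_lit 1292) (nat_lit 0) (XT.lf (nat_lit 1292) (nat_lit 233275005) (nat_lit 0) (nat_lit 32804808734) (nat_lit 1216) (nat_lit 233275005) (nat_lit 397) (nat_lit 1) (nat_lit 380) (nat_lit 1) (nat_lit 396) (nat_lit 1) (nat_lit 198) (nat_lit 417) (nat_lit 405)) (XT.lf (nat_lit 1368) (nat_lit 15602477949) (nat_lit 0) (nat_lit 1605326758) (nat_lit 1292) (nat_lit 15602477949) (nat_lit 381) (nat_lit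 1) (nat_lit 363) (nat_lit 1) (nat_lit 380) (nat_lit 1) (nat_lit 199) (nat_lit 417) (nat_lit 404))))))))
noncomputable def ec401 : XT := (XT.nd (nat_lit 1482) (nat_lit 4484) (nat_lit 0) (XT.nd (nat_lit 702) (nat_lit 3344) (nat_lit 0) (XT.nd (nat_lit 312) (nat_lit 1900) (nat_lit 0) (XT.nd (nat_lit 156) (nat_lit 0) (nat_lit 76) (XT.nd (nat_lit 78) (nat_lit 0) (nat_lit 76) (XT.lf (nat_lit 1368) (nat_lit 28734218097) (nat_lit 76) (nat_lit 1813848450) (nat_lit 0) (nat_lit 1813848450) (nat_lit 381) (nat_lit 1) (nat_lit 364) (nat_lit 1) (nat_lit 363) (nat_lit 1) (nat_lit 200) (nat_lit 417) (nat_lit 403)) (XT.lf (nat_lit 1368) (nat_lit 13025473162) (nat_lit 0) (nat_lit 5867373941) (nat_lit 1292) (nat_lit 13025473162) (nat_lit 382) (nat_lit 1) (nat_lit 364) (nat_lit 1) (nat_lit 381) (nat_lit 1) (nat_lit 201) (nat_lit 417) (nat_lit 402))) (XT.nd (nat_lit 78) (nat_lit 0) (nat_lit 76) (XT.lf (nat_lit 1368) (nat_lit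 23388304825) (nat_lit 76) (nat_lit 4048832754) (nat_lit 0) (nat_lit 4048832754) (nat_lit 382) (nat_lit 1) (nat_lit 365) (nat_lit 1) (nat_lit 364) (nat_lit 1) (nat_lit 202) (nat_lit 417) (nat_lit 401)) (XT.lf (nat_lit 76) (nat_lit 10285824308) (nat_lit 0) (nat_lit 10487819820) (nat_lit 1292) (nat_lit 10285824308) (nat_lit 366) (nat_lit 1) (nat_lit 365) (nat_lit 1) (nat_lit 382) (nat_lit 1) (nat_lit 203) (nat_lit 417) (nat_lit 400)))) (XT.nd (nat_lit 156) (nat_lit 1216) (nat_lit 0) (XT.nd (nat_lit 78) (nat_lit 0) (nat_lit 0) (XT.lf (nat_lit 912) (nat_lit 17734209174) (nat_lit 0) (nat_lit 6454092471) (nat_lit 836) (nat_lit 6454092471) (nat_lit 366) (nat_lit 1) (nat_lit 354) (nat_lit 1) (nat_lit 365) (nat_lit 1) (nat_lit 204) (nat_lit 417) (nat_lit 399)) (XT.lf (nat_lit 76) (nat_lit 7401913685) (nat_lit 0) (nat_lit 15428526059) (nat_lit 912) (nat_lit 7401913685) (nat_lit 355) (nat_lit 1) (nat_lit 354) (nat_lit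 1) (nat_lit 366) (nat_lit 1) (nat_lit 205) (nat_lit 417) (nat_lit 398))) (XT.nd (nat_lit 78) (nat_lit 608) (nat_lit 0) (XT.lf (nat_lit 684) (nat_lit 11807536433) (nat_lit 0) (nat_lit 9011156805) (nat_lit 608) (nat_lit 9011156805) (nat_lit 355) (nat_lit 1) (nat_lit 346) (nat_lit 1) (nat_lit 354) (nat_lit 1) (nat_lit 206) (nat_lit 417) (nat_lit 397)) (XT.nd (nat_lit 78) (nat_lit 608) (nat_lit 0) (XT.lf (nat_lit 76) (nat_lit 4390804902) (nat_lit 0) (nat_lit 20654055213) (nat_lit 684) (nat_lit 4390804902) (nat_lit 347) (nat_lit 1) (nat_lit 346) (nat_lit 1) (nat_lit 355) (nat_lit 1) (nat_lit 207) (nat_lit 417) (nat_lit 396)) (XT.lf (nat_lit 684) (nat_lit 5641326224) (nat_lit 0) (nat_lit 11702868549) (nat_lit 608) (nat_lit 11702868549) (nat_lit 347) (nat_lit 1) (nat_lit 338) (nat_lit 1) (nat_lit 346) (nat_lit 1) (nat_lit 208) (nat_lit 417) (nat_lit 395)))))) (XT.nd (nat_lit 390) (nat_lit 1596) (nat_lit 0)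 (XT.nd (nat_lit 156) (nat_lit 1140) (nat_lit 0) (XT.nd (nat_lit 78) (nat_lit 608) (nat_lit 0) (XT.lf (nat_lit 76) (nat_lit 1268326249) (nat_lit 0) (nat_lit 26131500787) (nat_lit 684) (nat_lit 1268326249) (nat_lit 339) (nat_lit 1) (nat_lit 338) (nat_lit 1) (nat_lit 347) (nat_lit 1) (nat_lit 209) (nat_lit 417) (nat_lit 394)) (XT.lf (nat_lit 76) (nat_lit 13786569872) (nat_lit 0) (nat_lit 719466232) (nat_lit 608) (nat_lit 13786569872) (nat_lit 331) (nat_lit 1) (nat_lit 330) (nat_lit 1) (nat_lit 338) (nat_lit 1) (nat_lit 210) (nat_lit 417) (nat_lit 393))) (XT.nd (nat_lit 78) (nat_lit 532) (nat_lit 0) (XT.lf (nat_lit 684) (nat_lit 24062914003) (nat_lit 0) (nat_lit 1931724950) (nat_lit 608) (nat_lit 1931724950) (nat_lit 331) (nat_lit 1) (nat_lit 322) (nat_lit 1) (nat_lit 330) (nat_lit 1) (nat_lit 211) (nat_lit 417) (nat_lit 392)) (XT.nd (nat_lit 78) (nat_lit 532) (nat_lit 0) (XT.lf (nat_lit 76) (nat_lit 10208340586)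 (nat_lit 0) (nat_lit 7147168680) (nat_lit 684) (nat_lit 10208340586) (nat_lit 323) (nat_lit 1) (nat_lit 322) (nat_lit 1) (nat_lit 331) (nat_lit 1) (nat_lit 212) (nat_lit 417) (nat_lit 391)) (XT.lf (nat_lit 608) (nat_lit 16806579018) (nat_lit 0) (nat_lit 5201637281) (nat_lit 532) (nat_lit 5201637281) (nat_lit 323) (nat_lit 1) (nat_lit 315) (nat_lit 1) (nat_lit 322) (nat_lit 1) (nat_lit 213) (nat_lit 417) (nat_lit 390))))) (XT.nd (nat_lit 156) (nat_lit 1064) (nat_lit 0) (XT.nd (nat_lit 78) (nat_lit 532) (nat_lit 0) (XT.lf (nat_lit 76) (nat_lit 6567611848) (nat_lit 0) (nat_lit 13726097531) (nat_lit 608) (nat_lit 6567611848) (nat_lit 316) (nat_lit 1) (nat_lit 315) (nat_lit 1) (nat_lit 323) (nat_lit 1) (nat_lit 214) (nat_lit 417) (nat_lit 389)) (XT.lf (nat_lit 608) (nat_lit 9436231471) (nat_lit 0) (nat_lit 8541394663) (nat_lit 532) (nat_lit 8541394663) (nat_lit 316) (nat_lit 1) (nat_lit 308) (nat_lit 1)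 (nat_lit 315) (nat_lit 1) (nat_lit 215) (nat_lit 417) (nat_lit 388))) (XT.nd (nat_lit 78) (nat_lit 1064) (nat_lit 0) (XT.lf (nat_lit 76) (nat_lit 2875774424) (nat_lit 0) (nat_lit 20432420232) (nat_lit 608) (nat_lit 2875774424) (nat_lit 309) (nat_lit 1) (nat_lit 308) (nat_lit 1) (nat_lit 316) (nat_lit 1) (nat_lit 216) (nat_lit 417) (nat_lit 387)) (XT.nd (nat_lit 78) (nat_lit 608) (nat_lit 0) (XT.lf (nat_lit 532) (nat_lit 1973869235) (nat_lit 0) (nat_lit 11939486208) (nat_lit 456) (nat_lit 11939486208) (nat_lit 309) (nat_lit 1) (nat_lit 302) (nat_lit 1) (nat_lit 308) (nat_lit 1) (nat_lit 217) (nat_lit 417) (nat_lit 386)) (XT.lf (nat_lit 608) (nat_lit 23833269486) (nat_lit 0) (nat_lit 848263420) (nat_lit 532) (nat_lit 848263420) (nat_lit 302) (nat_lit 1) (nat_lit 294) (nat_lit 1) (nat_lit 301) (nat_lit 1) (nat_lit 218) (nat_lit 417) (nat_lit 385))))))) (XT.nd (nat_lit 702) (nat_lit 2280) (nat_lit 0) (XT.nd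 (nat_lit 312) (nat_lit 1292) (nat_lit 0) (XT.nd (nat_lit 156) (nat_lit 456) (nat_lit 0) (XT.nd (nat_lit 78) (nat_lit 456) (nat_lit 0) (XT.lf (nat_lit 76) (nat_lit 9878505871) (nat_lit 0) (nat_lit 5451722706) (nat_lit 608) (nat_lit 9878505871) (nat_lit 295) (nat_lit 1) (nat_lit 294) (nat_lit 1) (nat_lit 302) (nat_lit 1) (nat_lit 219) (nat_lit 417) (nat_lit 384)) (XT.lf (nat_lit 532) (nat_lit 15746031690) (nat_lit 0) (nat_lit 4574717726) (nat_lit 456) (nat_lit 4574717726) (nat_lit 295) (nat_lit 1) (nat_lit 288) (nat_lit 1) (nat_lit 294) (nat_lit 1) (nat_lit 220) (nat_lit 417) (nat_lit 383))) (XT.nd (nat_lit 78) (nat_lit 456) (nat_lit 0) (XT.lf (nat_lit 76) (nat_lit 5847987498) (nat_lit 0) (nat_lit 12890808316) (nat_lit 532) (nat_lit 5847987498) (nat_lit 289) (nat_lit 1) (nat_lit 288) (nat_lit 1) (nat_lit 295) (nat_lit 1) (nat_lit 221) (nat_lit 417) (nat_lit 382)) (XT.lf (nat_lit 532) (nat_lit 7637500644)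 (nat_lit 0) (nat_lit 8322954322) (nat_lit 456) (nat_lit 8322954322) (nat_lit 289) (nat_lit 1) (nat_lit 282) (nat_lit 1) (nat_lit 288) (nat_lit 1) (nat_lit 222) (nat_lit 417) (nat_lit 381)))) (XT.nd (nat_lit 156) (nat_lit 836) (nat_lit 0) (XT.nd (nat_lit 78) (nat_lit 456) (nat_lit 0) (XT.lf (nat_lit 76) (nat_lit 1810807732) (nat_lit 0) (nat_lit 20365053446) (nat_lit 532) (nat_lit 1810807732) (nat_lit 283) (nat_lit 1) (nat_lit 282) (nat_lit 1) (nat_lit 289) (nat_lit 1) (nat_lit 223) (nat_lit 417) (nat_lit 380)) (XT.lf (nat_lit 76) (nat_lit 11612483138) (nat_lit 0) (nat_lit 467652372) (nat_lit 456) (nat_lit 11612483138) (nat_lit 277) (nat_lit 1) (nat_lit 276) (nat_lit 1) (nat_lit 282) (nat_lit 1) (nat_lit 224) (nat_lit 417) (nat_lit 379))) (XT.nd (nat_lit 78) (nat_lit 380) (nat_lit 0) (XT.lf (nat_lit 532) (nat_lit 18997166495) (nat_lit 0) (nat_lit 2203897365) (nat_lit 456) (nat_lit 2203897365) (nat_lit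 277) (nat_lit 1) (nat_lit 270) (nat_lit 1) (nat_lit 276) (nat_lit 1) (nat_lit 225) (nat_lit 417) (nat_lit 378)) (XT.nd (nat_lit 78) (nat_lit 380) (nat_lit 0) (XT.lf (nat_lit 76) (nat_lit 7352207878) (nat_lit 0) (nat_lit 8415788049) (nat_lit 532) (nat_lit 7352207878) (nat_lit 271) (nat_lit 1) (nat_lit 270) (nat_lit 1) (nat_lit 277) (nat_lit 1) (nat_lit 226) (nat_lit 417) (nat_lit 377)) (XT.lf (nat_lit 456) (nat_lit 10454188866) (nat_lit 0) (nat_lit 6193574142) (nat_lit 380) (nat_lit 6193574142) (nat_lit 271) (nat_lit 1) (nat_lit 265) (nat_lit 1) (nat_lit 270) (nat_lit 1) (nat_lit 227) (nat_lit 417) (nat_lit 376)))))) (XT.nd (nat_lit 390) (nat_lit 1064) (nat_lit 0) (XT.nd (nat_lit 156) (nat_lit 836) (nat_lit 0) (XT.nd (nat_lit 78) (nat_lit 380) (nat_lit 0) (XT.lf (nat_lit 76) (nat_lit 3112124085) (nat_lit 0) (nat_lit 16343329894) (nat_lit 456) (nat_lit 3112124085) (nat_lit 266) (nat_lit 1) (nat_lit 265)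 (nat_lit 1) (nat_lit 271) (nat_lit 1) (nat_lit 228) (nat_lit 417) (nat_lit 375)) (XT.lf (nat_lit 456) (nat_lit 1957280908) (nat_lit 0) (nat_lit 10169922390) (nat_lit 380) (nat_lit 10169922390) (nat_lit 266) (nat_lit 1) (nat_lit 260) (nat_lit 1) (nat_lit 265) (nat_lit 1) (nat_lit 229) (nat_lit 417) (nat_lit 374))) (XT.nd (nat_lit 78) (nat_lit 380) (nat_lit 0) (XT.lf (nat_lit 456) (nat_lit 19849538848) (nat_lit 0) (nat_lit 1091584618) (nat_lit 380) (nat_lit 1091584618) (nat_lit 260) (nat_lit 1) (nat_lit 254) (nat_lit 1) (nat_lit 259) (nat_lit 1) (nat_lit 230) (nat_lit 417) (nat_lit 373)) (XT.nd (nat_lit 78) (nat_lit 380) (nat_lit 0) (XT.lf (nat_lit 76) (nat_lit 7706485648) (nat_lit 0) (nat_lit 6356748490) (nat_lit 456) (nat_lit 7706485648) (nat_lit 255) (nat_lit 1) (nat_lit 254) (nat_lit 1) (nat_lit 260) (nat_lit 1) (nat_lit 231) (nat_lit 417) (nat_lit 372)) (XT.lf (nat_lit 456) (nat_lit 11043303097)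 (nat_lit 0) (nat_lit 5234636535) (nat_lit 380) (nat_lit 5234636535) (nat_lit 255) (nat_lit 1) (nat_lit 249) (nat_lit 1) (nat_lit 254) (nat_lit 1) (nat_lit 232) (nat_lit 417) (nat_lit 371))))) (XT.nd (nat_lit 156) (nat_lit 760) (nat_lit 0) (XT.nd (nat_lit 78) (nat_lit 304) (nat_lit 0) (XT.lf (nat_lit 76) (nat_lit 3345783575) (nat_lit 0) (nat_lit 14568170367) (nat_lit 456) (nat_lit 3345783575) (nat_lit 250) (nat_lit 1) (nat_lit 249) (nat_lit 1) (nat_lit 255) (nat_lit 1) (nat_lit 233) (nat_lit 417) (nat_lit 370)) (XT.lf (nat_lit 380) (nat_lit 2323755597) (nat_lit 0) (nat_lit 9343173774) (nat_lit 304) (nat_lit 9343173774) (nat_lit 250) (nat_lit 1) (nat_lit 245) (nat_lit 1) (nat_lit 249) (nat_lit 1) (nat_lit 234) (nat_lit 417) (nat_lit 369))) (XT.nd (nat_lit 78) (nat_lit 304) (nat_lit 0) (XT.lf (nat_lit 456) (nat_lit 18845117555) (nat_lit 0) (nat_lit 960413765) (nat_lit 380) (nat_lit 960413765) (nat_lit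 245) (nat_lit 1) (nat_lit 239) (nat_lit 1) (nat_lit 244) (nat_lit 1) (nat_lit 235) (nat_lit 417) (nat_lit 368)) (XT.nd (nat_lit 78) (nat_lit 304) (nat_lit 0) (XT.lf (nat_lit 76) (nat_lit 7171952297) (nat_lit 0) (nat_lit 6178908706) (nat_lit 456) (nat_lit 7171952297) (nat_lit 240) (nat_lit 1) (nat_lit 239) (nat_lit 1) (nat_lit 245) (nat_lit 1) (nat_lit 236) (nat_lit 417) (nat_lit 367)) (XT.lf (nat_lit 380) (nat_lit 9913217389) (nat_lit 0) (nat_lit 5185890620) (nat_lit 304) (nat_lit 5185890620) (nat_lit 240) (nat_lit 1) (nat_lit 235) (nat_lit 1) (nat_lit 239) (nat_lit 1) (nat_lit 237) (nat_lit 417) (nat_lit 366))))))))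
noncomputable def ec402 : XT := (XT.nd (nat_lit 1482) (nat_lit 2432) (nat_lit 0) (XT.nd (nat_lit 702) (nat_lit 1900) (nat_lit 0) (XT.nd (nat_lit 312) (nat_lit 912) (nat_lit 0) (XT.nd (nat_lit 156) (nat_lit 380) (nat_lit 0) (XT.nd (nat_lit 78) (nat_lit 304) (nat_lit 0) (XT.lf (nat_lit 76) (nat_lit 2756714328) (nat_lit 0) (nat_lit 14537823185) (nat_lit 380) (nat_lit 2756714328) (nat_lit 236) (nat_lit 1) (nat_lit 235) (nat_lit 1) (nat_lit 240) (nat_lit 1) (nat_lit 238) (nat_lit 417) (nat_lit 365)) (XT.lf (nat_lit 380) (nat_lit 1099261433) (nat_lit 0) (nat_lit 9360450244) (nat_lit 304) (nat_lit 9360450244) (nat_lit 236) (nat_lit 1) (nat_lit 231) (nat_lit 1) (nat_lit 235) (nat_lit 1) (nat_lit 239) (nat_lit 417) (nat_lit 364))) (XT.nd (nat_lit 78) (nat_lit 0) (nat_lit 0) (XT.lf (nat_lit 380) (nat_lit 16427756164) (nat_lit 0) (nat_lit 1582938139) (nat_lit 304) (nat_lit 1582938139) (nat_lit 231) (nat_lit 1)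 (nat_lit 226) (nat_lit 1) (nat_lit 230) (nat_lit 1) (nat_lit 240) (nat_lit 417) (nat_lit 363)) (XT.lf (nat_lit 76) (nat_lit 5962390593) (nat_lit 0) (nat_lit 7443874545) (nat_lit 380) (nat_lit 5962390593) (nat_lit 227) (nat_lit 1) (nat_lit 226) (nat_lit 1) (nat_lit 231) (nat_lit 1) (nat_lit 241) (nat_lit 417) (nat_lit 362)))) (XT.nd (nat_lit 156) (nat_lit 608) (nat_lit 0) (XT.nd (nat_lit 78) (nat_lit 0) (nat_lit 0) (XT.lf (nat_lit 380) (nat_lit 7479981656) (nat_lit 0) (nat_lit 5834062237) (nat_lit 304) (nat_lit 5834062237) (nat_lit 227) (nat_lit 1) (nat_lit 222) (nat_lit 1) (nat_lit 226) (nat_lit 1) (nat_lit 242) (nat_lit 417) (nat_lit 361)) (XT.lf (nat_lit 76) (nat_lit 1545291541) (nat_lit 0) (nat_lit 15841240160) (nat_lit 380) (nat_lit 1545291541) (nat_lit 223) (nat_lit 1) (nat_lit 222) (nat_lit 1) (nat_lit 227) (nat_lit 1) (nat_lit 243) (nat_lit 417) (nat_lit 360))) (XT.nd (nat_lit 78) (nat_lit 304)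 (nat_lit 0) (XT.lf (nat_lit 76) (nat_lit 8708269551) (nat_lit 0) (nat_lit 1300394799) (nat_lit 304) (nat_lit 8708269551) (nat_lit 219) (nat_lit 1) (nat_lit 218) (nat_lit 1) (nat_lit 222) (nat_lit 1) (nat_lit 244) (nat_lit 417) (nat_lit 359)) (XT.nd (nat_lit 78) (nat_lit 0) (nat_lit 0) (XT.lf (nat_lit 380) (nat_lit 12959752364) (nat_lit 0) (nat_lit 2773220223) (nat_lit 304) (nat_lit 2773220223) (nat_lit 219) (nat_lit 1) (nat_lit 214) (nat_lit 1) (nat_lit 218) (nat_lit 1) (nat_lit 245) (nat_lit 417) (nat_lit 358)) (XT.lf (nat_lit 76) (nat_lit 4252230283) (nat_lit 0) (nat_lit 9793391930) (nat_lit 380) (nat_lit 4252230283) (nat_lit 215) (nat_lit 1) (nat_lit 214) (nat_lit 1) (nat_lit 219) (nat_lit 1) (nat_lit 246) (nat_lit 417) (nat_lit 357)))))) (XT.nd (nat_lit 390) (nat_lit 1064) (nat_lit 0) (XT.nd (nat_lit 156) (nat_lit 228) (nat_lit 0) (XT.nd (nat_lit 78) (nat_lit 380) (nat_lit 0) (XT.lf (nat_lit 304)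 (nat_lit 4082920905) (nat_lit 0) (nat_lit 7004931465) (nat_lit 228) (nat_lit 7004931465) (nat_lit 215) (nat_lit 1) (nat_lit 211) (nat_lit 1) (nat_lit 214) (nat_lit 1) (nat_lit 247) (nat_lit 417) (nat_lit 356)) (XT.lf (nat_lit 380) (nat_lit 17644558084) (nat_lit 0) (nat_lit 123903734) (nat_lit 304) (nat_lit 123903734) (nat_lit 211) (nat_lit 1) (nat_lit 206) (nat_lit 1) (nat_lit 210) (nat_lit 1) (nat_lit 248) (nat_lit 417) (nat_lit 355))) (XT.nd (nat_lit 78) (nat_lit 228) (nat_lit 0) (XT.lf (nat_lit 76) (nat_lit 6573448390) (nat_lit 0) (nat_lit 4544656473) (nat_lit 380) (nat_lit 6573448390) (nat_lit 207) (nat_lit 1) (nat_lit 206) (nat_lit 1) (nat_lit 211) (nat_lit 1) (nat_lit 249) (nat_lit 417) (nat_lit 354)) (XT.nd (nat_lit 78) (nat_lit 0) (nat_lit 0) (XT.lf (nat_lit 304) (nat_lit 8735679865) (nat_lit 0) (nat_lit 4379806130) (nat_lit 228) (nat_lit 4379806130) (nat_lit 207) (nat_lit 1) (nat_lit 203) (nat_lit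 1) (nat_lit 206) (nat_lit 1) (nat_lit 250) (nat_lit 417) (nat_lit 353)) (XT.lf (nat_lit 76) (nat_lit 2183226557) (nat_lit 0) (nat_lit 12935775045) (nat_lit 304) (nat_lit 2183226557) (nat_lit 204) (nat_lit 1) (nat_lit 203) (nat_lit 1) (nat_lit 207) (nat_lit 1) (nat_lit 251) (nat_lit 417) (nat_lit 352))))) (XT.nd (nat_lit 156) (nat_lit 532) (nat_lit 0) (XT.nd (nat_lit 78) (nat_lit 228) (nat_lit 0) (XT.lf (nat_lit 76) (nat_lit 8554401287) (nat_lit 0) (nat_lit 2290344) (nat_lit 304) (nat_lit 8554401287) (nat_lit 200) (nat_lit 1) (nat_lit 199) (nat_lit 1) (nat_lit 203) (nat_lit 1) (nat_lit 252) (nat_lit 417) (nat_lit 351)) (XT.lf (nat_lit 304) (nat_lit 12720817562) (nat_lit 0) (nat_lit 2101124565) (nat_lit 228) (nat_lit 2101124565) (nat_lit 200) (nat_lit 1) (nat_lit 196) (nat_lit 1) (nat_lit 199) (nat_lit 1) (nat_lit 253) (nat_lit 417) (nat_lit 350))) (XT.nd (nat_lit 78) (nat_lit 532) (nat_lit 0) (XT.lf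 (nat_lit 76) (nat_lit 4167344625) (nat_lit 0) (nat_lit 8402159300) (nat_lit 304) (nat_lit 4167344625) (nat_lit 197) (nat_lit 1) (nat_lit 196) (nat_lit 1) (nat_lit 200) (nat_lit 1) (nat_lit 254) (nat_lit 417) (nat_lit 349)) (XT.nd (nat_lit 78) (nat_lit 304) (nat_lit 0) (XT.lf (nat_lit 304) (nat_lit 3993938138) (nat_lit 0) (nat_lit 6279858427) (nat_lit 228) (nat_lit 6279858427) (nat_lit 197) (nat_lit 1) (nat_lit 193) (nat_lit 1) (nat_lit 196) (nat_lit 1) (nat_lit 255) (nat_lit 417) (nat_lit 348)) (XT.lf (nat_lit 304) (nat_lit 16117115768) (nat_lit 0) (nat_lit 128689482) (nat_lit 228) (nat_lit 128689482) (nat_lit 193) (nat_lit 1) (nat_lit 189) (nat_lit 1) (nat_lit 192) (nat_lit 1) (nat_lit 256) (nat_lit 417) (nat_lit 347))))))) (XT.nd (nat_lit 702) (nat_lit 1292) (nat_lit 0) (XT.nd (nat_lit 312) (nat_lit 684) (nat_lit 0) (XT.nd (nat_lit 156) (nat_lit 228) (nat_lit 0) (XT.nd (nat_lit 78) (nat_lit 228) (nat_lit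 0) (XT.lf (nat_lit 76) (nat_lit 5865326972) (nat_lit 0) (nat_lit 4464132740) (nat_lit 304) (nat_lit 5865326972) (nat_lit 190) (nat_lit 1) (nat_lit 189) (nat_lit 1) (nat_lit 193) (nat_lit 1) (nat_lit 257) (nat_lit 417) (nat_lit 346)) (XT.lf (nat_lit 304) (nat_lit 7428187140) (nat_lit 0) (nat_lit 4295425488) (nat_lit 228) (nat_lit 4295425488) (nat_lit 190) (nat_lit 1) (nat_lit 186) (nat_lit 1) (nat_lit 189) (nat_lit 1) (nat_lit 258) (nat_lit 417) (nat_lit 345))) (XT.nd (nat_lit 78) (nat_lit 228) (nat_lit 0) (XT.lf (nat_lit 76) (nat_lit 1588744247) (nat_lit 0) (nat_lit 12668777814) (nat_lit 304) (nat_lit 1588744247) (nat_lit 187) (nat_lit 1) (nat_lit 186) (nat_lit 1) (nat_lit 190) (nat_lit 1) (nat_lit 259) (nat_lit 417) (nat_lit 344)) (XT.lf (nat_lit 76) (nat_lit 7310971172) (nat_lit 0) (nat_lit 1052657156) (nat_lit 228) (nat_lit 7310971172) (nat_lit 184) (nat_lit 1) (nat_lit 183) (nat_lit 1) (nat_lit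 186) (nat_lit 1) (nat_lit 260) (nat_lit 417) (nat_lit 343)))) (XT.nd (nat_lit 156) (nat_lit 456) (nat_lit 0) (XT.nd (nat_lit 78) (nat_lit 0) (nat_lit 0) (XT.lf (nat_lit 304) (nat_lit 10366474116) (nat_lit 0) (nat_lit 2569684875) (nat_lit 228) (nat_lit 2569684875) (nat_lit 184) (nat_lit 1) (nat_lit 180) (nat_lit 1) (nat_lit 183) (nat_lit 1) (nat_lit 261) (nat_lit 417) (nat_lit 342)) (XT.lf (nat_lit 76) (nat_lit 3066156603) (nat_lit 0) (nat_lit 9206700771) (nat_lit 304) (nat_lit 3066156603) (nat_lit 181) (nat_lit 1) (nat_lit 180) (nat_lit 1) (nat_lit 184) (nat_lit 1) (nat_lit 262) (nat_lit 417) (nat_lit 341))) (XT.nd (nat_lit 78) (nat_lit 304) (nat_lit 0) (XT.lf (nat_lit 228) (nat_lit 1931215600) (nat_lit 0) (nat_lit 6621599314) (nat_lit 152) (nat_lit 6621599314) (nat_lit 181) (nat_lit 1) (nat_lit 178) (nat_lit 1) (nat_lit 180) (nat_lit 1) (nat_lit 263) (nat_lit 417) (nat_lit 340)) (XT.nd (nat_lit 78)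 (nat_lit 0) (nat_lit 0) (XT.lf (nat_lit 304) (nat_lit 12867396482) (nat_lit 0) (nat_lit 1072699654) (nat_lit 228) (nat_lit 1072699654) (nat_lit 178) (nat_lit 1) (nat_lit 174) (nat_lit 1) (nat_lit 177) (nat_lit 1) (nat_lit 264) (nat_lit 417) (nat_lit 339)) (XT.lf (nat_lit 76) (nat_lit 4330626756) (nat_lit 0) (nat_lit 6190379797) (nat_lit 304) (nat_lit 4330626756) (nat_lit 175) (nat_lit 1) (nat_lit 174) (nat_lit 1) (nat_lit 178) (nat_lit 1) (nat_lit 265) (nat_lit 417) (nat_lit 338)))))) (XT.nd (nat_lit 390) (nat_lit 760) (nat_lit 0) (XT.nd (nat_lit 156) (nat_lit 380) (nat_lit 0) (XT.nd (nat_lit 78) (nat_lit 0) (nat_lit 0) (XT.lf (nat_lit 228) (nat_lit 4516929563) (nat_lit 0) (nat_lit 5088233824) (nat_lit 152) (nat_lit 5088233824) (nat_lit 175) (nat_lit 1) (nat_lit 172) (nat_lit 1) (nat_lit 174) (nat_lit 1) (nat_lit 266) (nat_lit 417) (nat_lit 337)) (XT.lf (nat_lit 76) (nat_lit 224296001) (nat_lit 0) (nat_lit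 14089875342) (nat_lit 228) (nat_lit 224296001) (nat_lit 173) (nat_lit 1) (nat_lit 172) (nat_lit 1) (nat_lit 175) (nat_lit 1) (nat_lit 267) (nat_lit 417) (nat_lit 336))) (XT.nd (nat_lit 78) (nat_lit 152) (nat_lit 0) (XT.lf (nat_lit 76) (nat_lit 5407304158) (nat_lit 0) (nat_lit 3568368784) (nat_lit 228) (nat_lit 5407304158) (nat_lit 170) (nat_lit 1) (nat_lit 169) (nat_lit 1) (nat_lit 172) (nat_lit 1) (nat_lit 268) (nat_lit 417) (nat_lit 335)) (XT.nd (nat_lit 78) (nat_lit 0) (nat_lit 0) (XT.lf (nat_lit 228) (nat_lit 6732718379) (nat_lit 0) (nat_lit 3749012953) (nat_lit 152) (nat_lit 3749012953) (nat_lit 170) (nat_lit 1) (nat_lit 167) (nat_lit 1) (nat_lit 169) (nat_lit 1) (nat_lit 269) (nat_lit 417) (nat_lit 334)) (XT.lf (nat_lit 76) (nat_lit 1351528931) (nat_lit 0) (nat_lit 11377946002) (nat_lit 228) (nat_lit 1351528931) (nat_lit 168) (nat_lit 1) (nat_lit 167) (nat_lit 1) (nat_lit 170) (nat_lit 1) (nat_lit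 270) (nat_lit 417) (nat_lit 333))))) (XT.nd (nat_lit 156) (nat_lit 380) (nat_lit 0) (XT.nd (nat_lit 78) (nat_lit 152) (nat_lit 0) (XT.lf (nat_lit 76) (nat_lit 6318492889) (nat_lit 0) (nat_lit 1295009168) (nat_lit 228) (nat_lit 6318492889) (nat_lit 165) (nat_lit 1) (nat_lit 164) (nat_lit 1) (nat_lit 167) (nat_lit 1) (nat_lit 271) (nat_lit 417) (nat_lit 332)) (XT.lf (nat_lit 228) (nat_lit 8622209744) (nat_lit 0) (nat_lit 2581612658) (nat_lit 152) (nat_lit 2581612658) (nat_lit 165) (nat_lit 1) (nat_lit 162) (nat_lit 1) (nat_lit 164) (nat_lit 1) (nat_lit 272) (nat_lit 417) (nat_lit 331))) (XT.nd (nat_lit 78) (nat_lit 380) (nat_lit 0) (XT.lf (nat_lit 76) (nat_lit 2319500260) (nat_lit 0) (nat_lit 9001656931) (nat_lit 228) (nat_lit 2319500260) (nat_lit 163) (nat_lit 1) (nat_lit 162) (nat_lit 1) (nat_lit 165) (nat_lit 1) (nat_lit 273) (nat_lit 417) (nat_lit 330)) (XT.nd (nat_lit 78) (nat_lit 228) (nat_lit 0)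 (XT.lf (nat_lit 228) (nat_lit 683555562) (nat_lit 0) (nat_lit 6406985335) (nat_lit 152) (nat_lit 6406985335) (nat_lit 163) (nat_lit 1) (nat_lit 160) (nat_lit 1) (nat_lit 162) (nat_lit 1) (nat_lit 274) (nat_lit 417) (nat_lit 329)) (XT.lf (nat_lit 228) (nat_lit 10224097087) (nat_lit 0) (nat_lit 1566217960) (nat_lit 152) (nat_lit 1566217960) (nat_lit 160) (nat_lit 1) (nat_lit 157) (nat_lit 1) (nat_lit 159) (nat_lit 1) (nat_lit 275) (nat_lit 417) (nat_lit 328))))))))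
noncomputable def ec403 : XT := (XT.nd (nat_lit 1482) (nat_lit 1672) (nat_lit 0) (XT.nd (nat_lit 702) (nat_lit 988) (nat_lit 0) (XT.nd (nat_lit 312) (nat_lit 456) (nat_lit 0) (XT.nd (nat_lit 156) (nat_lit 228) (nat_lit 0) (XT.nd (nat_lit 78) (nat_lit 152) (nat_lit 0) (XT.lf (nat_lit 76) (nat_lit 3146947211) (nat_lit 0) (nat_lit 6922612171) (nat_lit 228) (nat_lit 3146947211) (nat_lit 158) (nat_lit 1) (nat_lit 157) (nat_lit 1) (nat_lit 160) (nat_lit 1) (nat_lit 276) (nat_lit 417) (nat_lit 327)) (XT.lf (nat_lit 228) (nat_lit 2410294932) (nat_lit 0) (nat_lit 5334143462) (nat_lit 152) (nat_lit 5334143462) (nat_lit 158) (nat_lit 1) (nat_lit 155) (nat_lit 1) (nat_lit 157) (nat_lit 1) (nat_lit 277) (nat_lit 417) (nat_lit 326))) (XT.nd (nat_lit 78) (nat_lit 0) (nat_lit 0) (XT.lf (nat_lit 228) (nat_lit 11572691823) (nat_lit 0) (nat_lit 685242577) (nat_lit 152) (nat_lit 685242577) (nat_lit 155) (nat_lit 1) (nat_lit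 152) (nat_lit 1) (nat_lit 154) (nat_lit 1) (nat_lit 278) (nat_lit 417) (nat_lit 325)) (XT.lf (nat_lit 76) (nat_lit 3850489091) (nat_lit 0) (nat_lit 5106725600) (nat_lit 228) (nat_lit 3850489091) (nat_lit 153) (nat_lit 1) (nat_lit 152) (nat_lit 1) (nat_lit 155) (nat_lit 1) (nat_lit 279) (nat_lit 417) (nat_lit 324)))) (XT.nd (nat_lit 156) (nat_lit 304) (nat_lit 0) (XT.nd (nat_lit 78) (nat_lit 0) (nat_lit 0) (XT.lf (nat_lit 228) (nat_lit 3891966964) (nat_lit 0) (nat_lit 4391375607) (nat_lit 152) (nat_lit 4391375607) (nat_lit 153) (nat_lit 1) (nat_lit 150) (nat_lit 1) (nat_lit 152) (nat_lit 1) (nat_lit 280) (nat_lit 417) (nat_lit 323)) (XT.lf (nat_lit 76) (nat_lit 77681746) (nat_lit 0) (nat_lit 12389120088) (nat_lit 228) (nat_lit 77681746) (nat_lit 151) (nat_lit 1) (nat_lit 150) (nat_lit 1) (nat_lit 153) (nat_lit 1) (nat_lit 281) (nat_lit 417) (nat_lit 322))) (XT.nd (nat_lit 78) (nat_lit 152) (nat_lit 0)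 (XT.lf (nat_lit 76) (nat_lit 4444864301) (nat_lit 0) (nat_lit 3523739502) (nat_lit 152) (nat_lit 4444864301) (nat_lit 149) (nat_lit 1) (nat_lit 148) (nat_lit 1) (nat_lit 150) (nat_lit 1) (nat_lit 282) (nat_lit 417) (nat_lit 321)) (XT.nd (nat_lit 78) (nat_lit 0) (nat_lit 0) (XT.lf (nat_lit 228) (nat_lit 5157429360) (nat_lit 0) (nat_lit 3563872804) (nat_lit 152) (nat_lit 3563872804) (nat_lit 149) (nat_lit 1) (nat_lit 146) (nat_lit 1) (nat_lit 148) (nat_lit 1) (nat_lit 283) (nat_lit 417) (nat_lit 320)) (XT.lf (nat_lit 76) (nat_lit 741387102) (nat_lit 0) (nat_lit 10676357031) (nat_lit 228) (nat_lit 741387102) (nat_lit 147) (nat_lit 1) (nat_lit 146) (nat_lit 1) (nat_lit 149) (nat_lit 1) (nat_lit 284) (nat_lit 417) (nat_lit 319)))))) (XT.nd (nat_lit 390) (nat_lit 380) (nat_lit 0) (XT.nd (nat_lit 156) (nat_lit 304) (nat_lit 0) (XT.nd (nat_lit 78) (nat_lit 152) (nat_lit 0) (XT.lf (nat_lit 76) (nat_lit 4943140882)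 (nat_lit 0) (nat_lit 2146796859) (nat_lit 152) (nat_lit 4943140882) (nat_lit 145) (nat_lit 1) (nat_lit 144) (nat_lit 1) (nat_lit 146) (nat_lit 1) (nat_lit 285) (nat_lit 417) (nat_lit 318)) (XT.lf (nat_lit 228) (nat_lit 6232277266) (nat_lit 0) (nat_lit 2838486337) (nat_lit 152) (nat_lit 2838486337) (nat_lit 145) (nat_lit 1) (nat_lit 142) (nat_lit 1) (nat_lit 144) (nat_lit 1) (nat_lit 286) (nat_lit 417) (nat_lit 317))) (XT.nd (nat_lit 78) (nat_lit 304) (nat_lit 0) (XT.lf (nat_lit 76) (nat_lit 1311497184) (nat_lit 0) (nat_lit 9164236297) (nat_lit 228) (nat_lit 1311497184) (nat_lit 143) (nat_lit 1) (nat_lit 142) (nat_lit 1) (nat_lit 145) (nat_lit 1) (nat_lit 287) (nat_lit 417) (nat_lit 316)) (XT.nd (nat_lit 78) (nat_lit 152) (nat_lit 0) (XT.lf (nat_lit 76) (nat_lit 5356903562) (nat_lit 0) (nat_lit 952061350) (nat_lit 152) (nat_lit 5356903562) (nat_lit 141) (nat_lit 1) (nat_lit 140) (nat_lit 1) (nat_lit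 142) (nat_lit 1) (nat_lit 288) (nat_lit 417) (nat_lit 315)) (XT.lf (nat_lit 228) (nat_lit 7139208386) (nat_lit 0) (nat_lit 2203542336) (nat_lit 152) (nat_lit 2203542336) (nat_lit 141) (nat_lit 1) (nat_lit 138) (nat_lit 1) (nat_lit 140) (nat_lit 1) (nat_lit 289) (nat_lit 417) (nat_lit 314))))) (XT.nd (nat_lit 156) (nat_lit 304) (nat_lit 0) (XT.nd (nat_lit 78) (nat_lit 76) (nat_lit 0) (XT.lf (nat_lit 76) (nat_lit 1799019471) (nat_lit 0) (nat_lit 7830102688) (nat_lit 228) (nat_lit 1799019471) (nat_lit 139) (nat_lit 1) (nat_lit 138) (nat_lit 1) (nat_lit 141) (nat_lit 1) (nat_lit 290) (nat_lit 417) (nat_lit 313)) (XT.lf (nat_lit 152) (nat_lit 83244645) (nat_lit 0) (nat_lit 5613975483) (nat_lit 76) (nat_lit 5613975483) (nat_lit 139) (nat_lit 1) (nat_lit 137) (nat_lit 1) (nat_lit 138) (nat_lit 1) (nat_lit 291) (nat_lit 417) (nat_lit 312))) (XT.nd (nat_lit 78) (nat_lit 76) (nat_lit 0) (XT.lf (nat_lit 228) (nat_lit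 7898347345) (nat_lit 0) (nat_lit 1648677068) (nat_lit 152) (nat_lit 1648677068) (nat_lit 137) (nat_lit 1) (nat_lit 134) (nat_lit 1) (nat_lit 136) (nat_lit 1) (nat_lit 292) (nat_lit 417) (nat_lit 311)) (XT.nd (nat_lit 78) (nat_lit 76) (nat_lit 0) (XT.lf (nat_lit 76) (nat_lit 2213717353) (nat_lit 0) (nat_lit 6653835534) (nat_lit 228) (nat_lit 2213717353) (nat_lit 135) (nat_lit 1) (nat_lit 134) (nat_lit 1) (nat_lit 137) (nat_lit 1) (nat_lit 293) (nat_lit 417) (nat_lit 310)) (XT.lf (nat_lit 152) (nat_lit 992382931) (nat_lit 0) (nat_lit 4987944504) (nat_lit 76) (nat_lit 4987944504) (nat_lit 135) (nat_lit 1) (nat_lit 133) (nat_lit 1) (nat_lit 134) (nat_lit 1) (nat_lit 294) (nat_lit 417) (nat_lit 309))))))) (XT.nd (nat_lit 702) (nat_lit 760) (nat_lit 0) (XT.nd (nat_lit 312) (nat_lit 380) (nat_lit 0) (XT.nd (nat_lit 156) (nat_lit 304) (nat_lit 0) (XT.nd (nat_lit 78) (nat_lit 0) (nat_lit 0) (XT.lf (nat_lit 228)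 (nat_lit 8527533842) (nat_lit 0) (nat_lit 1164690593) (nat_lit 152) (nat_lit 1164690593) (nat_lit 133) (nat_lit 1) (nat_lit 130) (nat_lit 1) (nat_lit 132) (nat_lit 1) (nat_lit 295) (nat_lit 417) (nat_lit 308)) (XT.lf (nat_lit 76) (nat_lit 2564249346) (nat_lit 0) (nat_lit 5617565829) (nat_lit 228) (nat_lit 2564249346) (nat_lit 131) (nat_lit 1) (nat_lit 130) (nat_lit 1) (nat_lit 133) (nat_lit 1) (nat_lit 296) (nat_lit 417) (nat_lit 307))) (XT.nd (nat_lit 78) (nat_lit 228) (nat_lit 0) (XT.lf (nat_lit 152) (nat_lit 1773390392) (nat_lit 0) (nat_lit 4431724087) (nat_lit 76) (nat_lit 4431724087) (nat_lit 131) (nat_lit 1) (nat_lit 129) (nat_lit 1) (nat_lit 130) (nat_lit 1) (nat_lit 297) (nat_lit 417) (nat_lit 306)) (XT.lf (nat_lit 228) (nat_lit 9042578637) (nat_lit 0) (nat_lit 743416751) (nat_lit 152) (nat_lit 743416751) (nat_lit 129) (nat_lit 1) (nat_lit 126) (nat_lit 1) (nat_lit 128) (nat_lit 1) (nat_lit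 298) (nat_lit 417) (nat_lit 305)))) (XT.nd (nat_lit 156) (nat_lit 304) (nat_lit 0) (XT.nd (nat_lit 78) (nat_lit 76) (nat_lit 0) (XT.lf (nat_lit 76) (nat_lit 2858292768) (nat_lit 0) (nat_lit 4705424905) (nat_lit 228) (nat_lit 2858292768) (nat_lit 127) (nat_lit 1) (nat_lit 126) (nat_lit 1) (nat_lit 129) (nat_lit 1) (nat_lit 299) (nat_lit 417) (nat_lit 304)) (XT.lf (nat_lit 152) (nat_lit 2441334406) (nat_lit 0) (nat_lit 3937529451) (nat_lit 76) (nat_lit 3937529451) (nat_lit 127) (nat_lit 1) (nat_lit 125) (nat_lit 1) (nat_lit 126) (nat_lit 1) (nat_lit 300) (nat_lit 417) (nat_lit 303))) (XT.nd (nat_lit 78) (nat_lit 76) (nat_lit 0) (XT.lf (nat_lit 228) (nat_lit 9457490958) (nat_lit 0) (nat_lit 377607654) (nat_lit 152) (nat_lit 377607654) (nat_lit 125) (nat_lit 1) (nat_lit 122) (nat_lit 1) (nat_lit 124) (nat_lit 1) (nat_lit 301) (nat_lit 417) (nat_lit 302)) (XT.nd (nat_lit 78) (nat_lit 76) (nat_lit 0) (XT.lf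 (nat_lit 76) (nat_lit 3102653615) (nat_lit 0) (nat_lit 3903321146) (nat_lit 228) (nat_lit 3102653615) (nat_lit 123) (nat_lit 1) (nat_lit 122) (nat_lit 1) (nat_lit 125) (nat_lit 1) (nat_lit 302) (nat_lit 417) (nat_lit 301)) (XT.lf (nat_lit 152) (nat_lit 3009579447) (nat_lit 0) (nat_lit 3498443918) (nat_lit 76) (nat_lit 3498443918) (nat_lit 123) (nat_lit 1) (nat_lit 121) (nat_lit 1) (nat_lit 122) (nat_lit 1) (nat_lit 303) (nat_lit 417) (nat_lit 300)))))) (XT.nd (nat_lit 390) (nat_lit 304) (nat_lit 0) (XT.nd (nat_lit 156) (nat_lit 228) (nat_lit 0) (XT.nd (nat_lit 78) (nat_lit 0) (nat_lit 0) (XT.lf (nat_lit 228) (nat_lit 9784680512) (nat_lit 0) (nat_lit 60831063) (nat_lit 152) (nat_lit 60831063) (nat_lit 121) (nat_lit 1) (nat_lit 118) (nat_lit 1) (nat_lit 120) (nat_lit 1) (nat_lit 304) (nat_lit 417) (nat_lit 299)) (XT.lf (nat_lit 76) (nat_lit 3303364164) (nat_lit 0) (nat_lit 3198741606) (nat_lit 228) (nat_lit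 3303364164) (nat_lit 119) (nat_lit 1) (nat_lit 118) (nat_lit 1) (nat_lit 121) (nat_lit 1) (nat_lit 305) (nat_lit 417) (nat_lit 298))) (XT.nd (nat_lit 78) (nat_lit 152) (nat_lit 0) (XT.lf (nat_lit 152) (nat_lit 3489977648) (nat_lit 0) (nat_lit 3108322109) (nat_lit 76) (nat_lit 3108322109) (nat_lit 119) (nat_lit 1) (nat_lit 117) (nat_lit 1) (nat_lit 118) (nat_lit 1) (nat_lit 306) (nat_lit 417) (nat_lit 297)) (XT.nd (nat_lit 78) (nat_lit 152) (nat_lit 0) (XT.lf (nat_lit 0) (nat_lit 214725939) (nat_lit 0) (nat_lit 9180194556) (nat_lit 152) (nat_lit 214725939) (nat_lit 117) (nat_lit 3) (nat_lit 117) (nat_lit 1) (nat_lit 119) (nat_lit 1) (nat_lit 307) (nat_lit 417) (nat_lit 296)) (XT.lf (nat_lit 76) (nat_lit 3465769685) (nat_lit 0) (nat_lit 2580575752) (nat_lit 152) (nat_lit 3465769685) (nat_lit 116) (nat_lit 1) (nat_lit 115) (nat_lit 1) (nat_lit 117) (nat_lit 1) (nat_lit 308) (nat_lit 417) (nat_lit 295)))))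 (XT.nd (nat_lit 156) (nat_lit 228) (nat_lit 0) (XT.nd (nat_lit 78) (nat_lit 0) (nat_lit 0) (XT.lf (nat_lit 152) (nat_lit 3893038083) (nat_lit 0) (nat_lit 2761703935) (nat_lit 76) (nat_lit 2761703935) (nat_lit 116) (nat_lit 1) (nat_lit 114) (nat_lit 1) (nat_lit 115) (nat_lit 1) (nat_lit 309) (nat_lit 417) (nat_lit 294)) (XT.lf (nat_lit 0) (nat_lit 452245950) (nat_lit 0) (nat_lit 8417948695) (nat_lit 152) (nat_lit 452245950) (nat_lit 114) (nat_lit 3) (nat_lit 114) (nat_lit 1) (nat_lit 116) (nat_lit 1) (nat_lit 310) (nat_lit 417) (nat_lit 293))) (XT.nd (nat_lit 78) (nat_lit 76) (nat_lit 0) (XT.lf (nat_lit 76) (nat_lit 3594605467) (nat_lit 0) (nat_lit 2038958875) (nat_lit 152) (nat_lit 3594605467) (nat_lit 113) (nat_lit 1) (nat_lit 112) (nat_lit 1) (nat_lit 114) (nat_lit 1) (nat_lit 311) (nat_lit 417) (nat_lit 292)) (XT.nd (nat_lit 78) (nat_lit 0) (nat_lit 0) (XT.lf (nat_lit 152) (nat_lit 4228077161) (nat_lit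 0) (nat_lit 2453738176) (nat_lit 76) (nat_lit 2453738176) (nat_lit 113) (nat_lit 1) (nat_lit 111) (nat_lit 1) (nat_lit 112) (nat_lit 1) (nat_lit 312) (nat_lit 417) (nat_lit 291)) (XT.lf (nat_lit 0) (nat_lit 655663926) (nat_lit 0) (nat_lit 7733087642) (nat_lit 152) (nat_lit 655663926) (nat_lit 111) (nat_lit 3) (nat_lit 111) (nat_lit 1) (nat_lit 113) (nat_lit 1) (nat_lit 313) (nat_lit 417) (nat_lit 290))))))))
noncomputable def ec404 : XT := (XT.nd (nat_lit 1404) (nat_lit 1444) (nat_lit 0) (XT.nd (nat_lit 702) (nat_lit 684) (nat_lit 0) (XT.nd (nat_lit 312) (nat_lit 304) (nat_lit 0) (XT.nd (nat_lit 156) (nat_lit 152) (nat_lit 0) (XT.nd (nat_lit 78) (nat_lit 76) (nat_lit 0) (XT.lf (nat_lit 76) (nat_lit 3694065245) (nat_lit 0) (nat_lit 1565132963) (nat_lit 152) (nat_lit 3694065245) (nat_lit 110) (nat_lit 1) (nat_lit 109) (nat_lit 1) (nat_lit 111) (nat_lit 1) (nat_lit 314) (nat_lit 417) (nat_lit 289)) (XT.lf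 (nat_lit 152) (nat_lit 4503352230) (nat_lit 0) (nat_lit 2180114588) (nat_lit 76) (nat_lit 2180114588) (nat_lit 110) (nat_lit 1) (nat_lit 108) (nat_lit 1) (nat_lit 109) (nat_lit 1) (nat_lit 315) (nat_lit 417) (nat_lit 288))) (XT.nd (nat_lit 78) (nat_lit 152) (nat_lit 0) (XT.lf (nat_lit 0) (nat_lit 829004495) (nat_lit 0) (nat_lit 7117203799) (nat_lit 152) (nat_lit 829004495) (nat_lit 108) (nat_lit 3) (nat_lit 108) (nat_lit 1) (nat_lit 110) (nat_lit 1) (nat_lit 316) (nat_lit 417) (nat_lit 287)) (XT.lf (nat_lit 76) (nat_lit 3767861985) (nat_lit 0) (nat_lit 1151323095) (nat_lit 152) (nat_lit 3767861985) (nat_lit 107) (nat_lit 1) (nat_lit 106) (nat_lit 1) (nat_lit 108) (nat_lit 1) (nat_lit 317) (nat_lit 417) (nat_lit 286)))) (XT.nd (nat_lit 156) (nat_lit 228) (nat_lit 0) (XT.nd (nat_lit 78) (nat_lit 0) (nat_lit 0) (XT.lf (nat_lit 152) (nat_lit 4726180259) (nat_lit 0) (nat_lit 1937003575) (nat_lit 76) (nat_lit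 1937003575) (nat_lit 107) (nat_lit 1) (nat_lit 105) (nat_lit 1) (nat_lit 106) (nat_lit 1) (nat_lit 318) (nat_lit 417) (nat_lit 285)) (XT.lf (nat_lit 0) (nat_lit 975837027) (nat_lit 0) (nat_lit 6562820664) (nat_lit 152) (nat_lit 975837027) (nat_lit 105) (nat_lit 3) (nat_lit 105) (nat_lit 1) (nat_lit 107) (nat_lit 1) (nat_lit 319) (nat_lit 417) (nat_lit 284))) (XT.nd (nat_lit 78) (nat_lit 76) (nat_lit 0) (XT.lf (nat_lit 76) (nat_lit 3819281872) (nat_lit 0) (nat_lit 790627628) (nat_lit 152) (nat_lit 3819281872) (nat_lit 104) (nat_lit 1) (nat_lit 103) (nat_lit 1) (nat_lit 105) (nat_lit 1) (nat_lit 320) (nat_lit 417) (nat_lit 283)) (XT.nd (nat_lit 78) (nat_lit 0) (nat_lit 0) (XT.lf (nat_lit 152) (nat_lit 4903043277) (nat_lit 0) (nat_lit 1721002588) (nat_lit 76) (nat_lit 1721002588) (nat_lit 104) (nat_lit 1) (nat_lit 102) (nat_lit 1) (nat_lit 103) (nat_lit 1) (nat_lit 321) (nat_lit 417) (nat_lit 282)) (XT.lf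 (nat_lit 0) (nat_lit 1099326589) (nat_lit 0) (nat_lit 6063289187) (nat_lit 152) (nat_lit 1099326589) (nat_lit 102) (nat_lit 3) (nat_lit 102) (nat_lit 1) (nat_lit 104) (nat_lit 1) (nat_lit 322) (nat_lit 417) (nat_lit 281)))))) (XT.nd (nat_lit 312) (nat_lit 304) (nat_lit 0) (XT.nd (nat_lit 156) (nat_lit 152) (nat_lit 0) (XT.nd (nat_lit 78) (nat_lit 76) (nat_lit 0) (XT.lf (nat_lit 76) (nat_lit 3851232282) (nat_lit 0) (nat_lit 476920630) (nat_lit 152) (nat_lit 3851232282) (nat_lit 101) (nat_lit 1) (nat_lit 100) (nat_lit 1) (nat_lit 102) (nat_lit 1) (nat_lit 323) (nat_lit 417) (nat_lit 280)) (XT.lf (nat_lit 152) (nat_lit 5039682030) (nat_lit 0) (nat_lit 1529088509) (nat_lit 76) (nat_lit 1529088509) (nat_lit 101) (nat_lit 1) (nat_lit 99) (nat_lit 1) (nat_lit 100) (nat_lit 1) (nat_lit 324) (nat_lit 417) (nat_lit 279))) (XT.nd (nat_lit 78) (nat_lit 152) (nat_lit 0) (XT.lf (nat_lit 0) (nat_lit 1202279213) (nat_lit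 0) (nat_lit 5612695687) (nat_lit 152) (nat_lit 1202279213) (nat_lit 99) (nat_lit 3) (nat_lit 99) (nat_lit 1) (nat_lit 101) (nat_lit 1) (nat_lit 325) (nat_lit 417) (nat_lit 278)) (XT.lf (nat_lit 76) (nat_lit 3866284377) (nat_lit 0) (nat_lit 204765204) (nat_lit 152) (nat_lit 3866284377) (nat_lit 98) (nat_lit 1) (nat_lit 97) (nat_lit 1) (nat_lit 99) (nat_lit 1) (nat_lit 326) (nat_lit 417) (nat_lit 277)))) (XT.nd (nat_lit 156) (nat_lit 228) (nat_lit 0) (XT.nd (nat_lit 78) (nat_lit 0) (nat_lit 0) (XT.lf (nat_lit 152) (nat_lit 5141179183) (nat_lit 0) (nat_lit 1358575335) (nat_lit 76) (nat_lit 1358575335) (nat_lit 98) (nat_lit 1) (nat_lit 96) (nat_lit 1) (nat_lit 97) (nat_lit 1) (nat_lit 327) (nat_lit 417) (nat_lit 276)) (XT.lf (nat_lit 0) (nat_lit 1287182107) (nat_lit 0) (nat_lit 5205780021) (nat_lit 152) (nat_lit 1287182107) (nat_lit 96) (nat_lit 3) (nat_lit 96) (nat_lit 1) (nat_lit 98) (nat_lit 1) (nat_lit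 328) (nat_lit 417) (nat_lit 275))) (XT.nd (nat_lit 78) (nat_lit 152) (nat_lit 0) (XT.lf (nat_lit 76) (nat_lit 31273788) (nat_lit 0) (nat_lit 3835737782) (nat_lit 76) (nat_lit 3835737782) (nat_lit 96) (nat_lit 3) (nat_lit 95) (nat_lit 1) (nat_lit 96) (nat_lit 1) (nat_lit 329) (nat_lit 417) (nat_lit 274)) (XT.nd (nat_lit 78) (nat_lit 0) (nat_lit 0) (XT.lf (nat_lit 152) (nat_lit 5212033226) (nat_lit 0) (nat_lit 1207076589) (nat_lit 76) (nat_lit 1207076589) (nat_lit 95) (nat_lit 1) (nat_lit 93) (nat_lit 1) (nat_lit 94) (nat_lit 1) (nat_lit 330) (nat_lit 417) (nat_lit 273)) (XT.lf (nat_lit 0) (nat_lit 1356239386) (nat_lit 0) (nat_lit 4837862879) (nat_lit 152) (nat_lit 1356239386) (nat_lit 93) (nat_lit 3) (nat_lit 93) (nat_lit 1) (nat_lit 95) (nat_lit 1) (nat_lit 331) (nat_lit 417) (nat_lit 272))))))) (XT.nd (nat_lit 702) (nat_lit 760) (nat_lit 0) (XT.nd (nat_lit 312) (nat_lit 380) (nat_lit 0) (XT.nd (nat_lit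 156) (nat_lit 76) (nat_lit 0) (XT.nd (nat_lit 78) (nat_lit 152) (nat_lit 0) (XT.lf (nat_lit 76) (nat_lit 238296849) (nat_lit 0) (nat_lit 3618513832) (nat_lit 76) (nat_lit 3618513832) (nat_lit 93) (nat_lit 3) (nat_lit 92) (nat_lit 1) (nat_lit 93) (nat_lit 1) (nat_lit 332) (nat_lit 417) (nat_lit 271)) (XT.lf (nat_lit 152) (nat_lit 5256224122) (nat_lit 0) (nat_lit 1072471915) (nat_lit 76) (nat_lit 1072471915) (nat_lit 92) (nat_lit 1) (nat_lit 90) (nat_lit 1) (nat_lit 91) (nat_lit 1) (nat_lit 333) (nat_lit 417) (nat_lit 270))) (XT.nd (nat_lit 78) (nat_lit 76) (nat_lit 0) (XT.lf (nat_lit 0) (nat_lit 1411403804) (nat_lit 0) (nat_lit 4504781183) (nat_lit 152) (nat_lit 1411403804) (nat_lit 90) (nat_lit 3) (nat_lit 90) (nat_lit 1) (nat_lit 92) (nat_lit 1) (nat_lit 334) (nat_lit 417) (nat_lit 269)) (XT.lf (nat_lit 76) (nat_lit 416102784) (nat_lit 0) (nat_lit 3419381792) (nat_lit 76) (nat_lit 3419381792) (nat_lit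 90) (nat_lit 3) (nat_lit 89) (nat_lit 1) (nat_lit 90) (nat_lit 1) (nat_lit 335) (nat_lit 417) (nat_lit 268)))) (XT.nd (nat_lit 156) (nat_lit 228) (nat_lit 0) (XT.nd (nat_lit 78) (nat_lit 0) (nat_lit 0) (XT.lf (nat_lit 152) (nat_lit 5277271624) (nat_lit 0) (nat_lit 952877406) (nat_lit 76) (nat_lit 952877406) (nat_lit 89) (nat_lit 1) (nat_lit 87) (nat_lit 1) (nat_lit 88) (nat_lit 1) (nat_lit 336) (nat_lit 417) (nat_lit 267)) (XT.lf (nat_lit 0) (nat_lit 1454404947) (nat_lit 0) (nat_lit 4202830682) (nat_lit 152) (nat_lit 1454404947) (nat_lit 87) (nat_lit 3) (nat_lit 87) (nat_lit 1) (nat_lit 89) (nat_lit 1) (nat_lit 337) (nat_lit 417) (nat_lit 266))) (XT.nd (nat_lit 78) (nat_lit 152) (nat_lit 0) (XT.lf (nat_lit 76) (nat_lit 568128264) (nat_lit 0) (nat_lit 3236502764) (nat_lit 76) (nat_lit 3236502764) (nat_lit 87) (nat_lit 3) (nat_lit 86) (nat_lit 1) (nat_lit 87) (nat_lit 1) (nat_lit 338) (nat_lit 417) (nat_lit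 265)) (XT.nd (nat_lit 78) (nat_lit 0) (nat_lit 0) (XT.lf (nat_lit 152) (nat_lit 5278287069) (nat_lit 0) (nat_lit 846619233) (nat_lit 76) (nat_lit 846619233) (nat_lit 86) (nat_lit 1) (nat_lit 84) (nat_lit 1) (nat_lit 85) (nat_lit 1) (nat_lit 339) (nat_lit 417) (nat_lit 264)) (XT.lf (nat_lit 0) (nat_lit 1486774275) (nat_lit 0) (nat_lit 3928714943) (nat_lit 152) (nat_lit 1486774275) (nat_lit 84) (nat_lit 3) (nat_lit 84) (nat_lit 1) (nat_lit 86) (nat_lit 1) (nat_lit 340) (nat_lit 417) (nat_lit 263)))))) (XT.nd (nat_lit 390) (nat_lit 304) (nat_lit 0) (XT.nd (nat_lit 156) (nat_lit 228) (nat_lit 0) (XT.nd (nat_lit 78) (nat_lit 152) (nat_lit 0) (XT.lf (nat_lit 76) (nat_lit 697421527) (nat_lit 0) (nat_lit 3068237709) (nat_lit 76) (nat_lit 3068237709) (nat_lit 84) (nat_lit 3) (nat_lit 83) (nat_lit 1) (nat_lit 84) (nat_lit 1) (nat_lit 341) (nat_lit 417) (nat_lit 262)) (XT.lf (nat_lit 152) (nat_lit 5262019388)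 (nat_lit 0) (nat_lit 752210223) (nat_lit 76) (nat_lit 752210223) (nat_lit 83) (nat_lit 1) (nat_lit 81) (nat_lit 1) (nat_lit 82) (nat_lit 1) (nat_lit 342) (nat_lit 417) (nat_lit 261))) (XT.nd (nat_lit 78) (nat_lit 228) (nat_lit 0) (XT.lf (nat_lit 0) (nat_lit 1509867374) (nat_lit 0) (nat_lit 3679500029) (nat_lit 152) (nat_lit 1509867374) (nat_lit 81) (nat_lit 3) (nat_lit 81) (nat_lit 1) (nat_lit 83) (nat_lit 1) (nat_lit 343) (nat_lit 417) (nat_lit 260)) (XT.nd (nat_lit 78) (nat_lit 152) (nat_lit 0) (XT.lf (nat_lit 76) (nat_lit 806685840) (nat_lit 0) (nat_lit 2913125312) (nat_lit 76) (nat_lit 2913125312) (nat_lit 81) (nat_lit 3) (nat_lit 80) (nat_lit 1) (nat_lit 81) (nat_lit 1) (nat_lit 344) (nat_lit 417) (nat_lit 259)) (XT.lf (nat_lit 152) (nat_lit 5230895967) (nat_lit 0) (nat_lit 668329040) (nat_lit 76) (nat_lit 668329040) (nat_lit 80) (nat_lit 1) (nat_lit 78) (nat_lit 1) (nat_lit 79) (nat_lit 1) (nat_lit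 345) (nat_lit 417) (nat_lit 258))))) (XT.nd (nat_lit 156) (nat_lit 228) (nat_lit 0) (XT.nd (nat_lit 78) (nat_lit 76) (nat_lit 0) (XT.lf (nat_lit 0) (nat_lit 1524883710) (nat_lit 0) (nat_lit 3452574223) (nat_lit 152) (nat_lit 1524883710) (nat_lit 78) (nat_lit 3) (nat_lit 78) (nat_lit 1) (nat_lit 80) (nat_lit 1) (nat_lit 346) (nat_lit 417) (nat_lit 257)) (XT.lf (nat_lit 76) (nat_lit 898318122) (nat_lit 0) (nat_lit 2769862309) (nat_lit 76) (nat_lit 2769862309) (nat_lit 78) (nat_lit 3) (nat_lit 77) (nat_lit 1) (nat_lit 78) (nat_lit 1) (nat_lit 347) (nat_lit 417) (nat_lit 256))) (XT.nd (nat_lit 78) (nat_lit 76) (nat_lit 0) (XT.lf (nat_lit 152) (nat_lit 5187058942) (nat_lit 0) (nat_lit 593801696) (nat_lit 76) (nat_lit 593801696) (nat_lit 77) (nat_lit 1) (nat_lit 75) (nat_lit 1) (nat_lit 76) (nat_lit 1) (nat_lit 348) (nat_lit 417) (nat_lit 255)) (XT.nd (nat_lit 78) (nat_lit 76) (nat_lit 0) (XT.lf (nat_lit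 0) (nat_lit 1532884187) (nat_lit 0) (nat_lit 3245612240) (nat_lit 152) (nat_lit 1532884187) (nat_lit 75) (nat_lit 3) (nat_lit 75) (nat_lit 1) (nat_lit 77) (nat_lit 1) (nat_lit 349) (nat_lit 417) (nat_lit 254)) (XT.lf (nat_lit 76) (nat_lit 974443241) (nat_lit 0) (nat_lit 2637286011) (nat_lit 76) (nat_lit 2637286011) (nat_lit 75) (nat_lit 3) (nat_lit 74) (nat_lit 1) (nat_lit 75) (nat_lit 1) (nat_lit 350) (nat_lit 417) (nat_lit 253))))))))
noncomputable def ec405 : XT := (XT.nd (nat_lit 1482) (nat_lit 1368) (nat_lit 0) (XT.nd (nat_lit 702) (nat_lit 836) (nat_lit 0) (XT.nd (nat_lit 312) (nat_lit 304) (nat_lit 0) (XT.nd (nat_lit 156) (nat_lit 228) (nat_lit 0) (XT.nd (nat_lit 78) (nat_lit 0) (nat_lit 0) (XT.lf (nat_lit 152) (nat_lit 5132397431) (nat_lit 0) (nat_lit 527585116) (nat_lit 76) (nat_lit 527585116) (nat_lit 74) (nat_lit 1) (nat_lit 72) (nat_lit 1) (nat_lit 73) (nat_lit 1) (nat_lit 351) (nat_lit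 417) (nat_lit 252)) (XT.lf (nat_lit 0) (nat_lit 1534806737) (nat_lit 0) (nat_lit 3056543429) (nat_lit 152) (nat_lit 1534806737) (nat_lit 72) (nat_lit 3) (nat_lit 72) (nat_lit 1) (nat_lit 74) (nat_lit 1) (nat_lit 352) (nat_lit 417) (nat_lit 251))) (XT.nd (nat_lit 78) (nat_lit 152) (nat_lit 0) (XT.lf (nat_lit 76) (nat_lit 1036944494) (nat_lit 0) (nat_lit 2514358757) (nat_lit 76) (nat_lit 2514358757) (nat_lit 72) (nat_lit 3) (nat_lit 71) (nat_lit 1) (nat_lit 72) (nat_lit 1) (nat_lit 353) (nat_lit 417) (nat_lit 250)) (XT.lf (nat_lit 152) (nat_lit 5068576161) (nat_lit 0) (nat_lit 468752542) (nat_lit 76) (nat_lit 468752542) (nat_lit 71) (nat_lit 1) (nat_lit 69) (nat_lit 1) (nat_lit 70) (nat_lit 1) (nat_lit 354) (nat_lit 417) (nat_lit 249)))) (XT.nd (nat_lit 156) (nat_lit 228) (nat_lit 0) (XT.nd (nat_lit 78) (nat_lit 76) (nat_lit 0) (XT.lf (nat_lit 0) (nat_lit 1531480171) (nat_lit 0) (nat_lit 2883523512) (nat_lit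 152) (nat_lit 1531480171) (nat_lit 69) (nat_lit 3) (nat_lit 69) (nat_lit 1) (nat_lit 71) (nat_lit 1) (nat_lit 355) (nat_lit 417) (nat_lit 248)) (XT.lf (nat_lit 76) (nat_lit 1087490680) (nat_lit 0) (nat_lit 2400154117) (nat_lit 76) (nat_lit 2400154117) (nat_lit 69) (nat_lit 3) (nat_lit 68) (nat_lit 1) (nat_lit 69) (nat_lit 1) (nat_lit 356) (nat_lit 417) (nat_lit 247))) (XT.nd (nat_lit 78) (nat_lit 76) (nat_lit 0) (XT.lf (nat_lit 152) (nat_lit 4997060890) (nat_lit 0) (nat_lit 416480562) (nat_lit 76) (nat_lit 416480562) (nat_lit 68) (nat_lit 1) (nat_lit 66) (nat_lit 1) (nat_lit 67) (nat_lit 1) (nat_lit 357) (nat_lit 417) (nat_lit 246)) (XT.nd (nat_lit 78) (nat_lit 76) (nat_lit 0) (XT.lf (nat_lit 0) (nat_lit 1523636474) (nat_lit 0) (nat_lit 2724909471) (nat_lit 152) (nat_lit 1523636474) (nat_lit 66) (nat_lit 3) (nat_lit 66) (nat_lit 1) (nat_lit 68) (nat_lit 1) (nat_lit 358) (nat_lit 417) (nat_lit 245))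 (XT.lf (nat_lit 76) (nat_lit 1127560148) (nat_lit 0) (nat_lit 2293844611) (nat_lit 76) (nat_lit 2293844611) (nat_lit 66) (nat_lit 3) (nat_lit 65) (nat_lit 1) (nat_lit 66) (nat_lit 1) (nat_lit 359) (nat_lit 417) (nat_lit 244)))))) (XT.nd (nat_lit 390) (nat_lit 456) (nat_lit 0) (XT.nd (nat_lit 156) (nat_lit 228) (nat_lit 0) (XT.nd (nat_lit 78) (nat_lit 0) (nat_lit 0) (XT.lf (nat_lit 152) (nat_lit 4919140985) (nat_lit 0) (nat_lit 370037585) (nat_lit 76) (nat_lit 370037585) (nat_lit 65) (nat_lit 1) (nat_lit 63) (nat_lit 1) (nat_lit 64) (nat_lit 1) (nat_lit 360) (nat_lit 417) (nat_lit 243)) (XT.lf (nat_lit 0) (nat_lit 1511921737) (nat_lit 0) (nat_lit 2579237236) (nat_lit 152) (nat_lit 1511921737) (nat_lit 63) (nat_lit 3) (nat_lit 63) (nat_lit 1) (nat_lit 65) (nat_lit 1) (nat_lit 361) (nat_lit 417) (nat_lit 242))) (XT.nd (nat_lit 78) (nat_lit 152) (nat_lit 0) (XT.lf (nat_lit 76) (nat_lit 1158462165) (nat_lit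 0) (nat_lit 2194690804) (nat_lit 76) (nat_lit 2194690804) (nat_lit 63) (nat_lit 3) (nat_lit 62) (nat_lit 1) (nat_lit 63) (nat_lit 1) (nat_lit 362) (nat_lit 417) (nat_lit 241)) (XT.nd (nat_lit 78) (nat_lit 0) (nat_lit 0) (XT.lf (nat_lit 152) (nat_lit 4835949466) (nat_lit 0) (nat_lit 328773602) (nat_lit 76) (nat_lit 328773602) (nat_lit 62) (nat_lit 1) (nat_lit 60) (nat_lit 1) (nat_lit 61) (nat_lit 1) (nat_lit 363) (nat_lit 417) (nat_lit 240)) (XT.lf (nat_lit 0) (nat_lit 1496905856) (nat_lit 0) (nat_lit 2445201852) (nat_lit 152) (nat_lit 1496905856) (nat_lit 60) (nat_lit 3) (nat_lit 60) (nat_lit 1) (nat_lit 62) (nat_lit 1) (nat_lit 364) (nat_lit 417) (nat_lit 239))))) (XT.nd (nat_lit 156) (nat_lit 228) (nat_lit 0) (XT.nd (nat_lit 78) (nat_lit 152) (nat_lit 0) (XT.lf (nat_lit 76) (nat_lit 1181355888) (nat_lit 0) (nat_lit 2102031613) (nat_lit 76) (nat_lit 2102031613) (nat_lit 60) (nat_lit 3) (nat_lit 59)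 (nat_lit 1) (nat_lit 60) (nat_lit 1) (nat_lit 365) (nat_lit 417) (nat_lit 238)) (XT.lf (nat_lit 152) (nat_lit 4748480809) (nat_lit 0) (nat_lit 292111087) (nat_lit 76) (nat_lit 292111087) (nat_lit 59) (nat_lit 1) (nat_lit 57) (nat_lit 1) (nat_lit 58) (nat_lit 1) (nat_lit 366) (nat_lit 417) (nat_lit 237))) (XT.nd (nat_lit 78) (nat_lit 228) (nat_lit 0) (XT.lf (nat_lit 0) (nat_lit 1479091149) (nat_lit 0) (nat_lit 2321639860) (nat_lit 152) (nat_lit 1479091149) (nat_lit 57) (nat_lit 3) (nat_lit 57) (nat_lit 1) (nat_lit 59) (nat_lit 1) (nat_lit 367) (nat_lit 417) (nat_lit 236)) (XT.nd (nat_lit 78) (nat_lit 152) (nat_lit 0) (XT.lf (nat_lit 76) (nat_lit 1197267231) (nat_lit 0) (nat_lit 2015275687) (nat_lit 76) (nat_lit 2015275687) (nat_lit 57) (nat_lit 3) (nat_lit 56) (nat_lit 1) (nat_lit 57) (nat_lit 1) (nat_lit 368) (nat_lit 417) (nat_lit 235)) (XT.lf (nat_lit 152) (nat_lit 4657606749) (nat_lit 0) (nat_lit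 259536917) (nat_lit 76) (nat_lit 259536917) (nat_lit 56) (nat_lit 1) (nat_lit 54) (nat_lit 1) (nat_lit 55) (nat_lit 1) (nat_lit 369) (nat_lit 417) (nat_lit 234))))))) (XT.nd (nat_lit 702) (nat_lit 684) (nat_lit 0) (XT.nd (nat_lit 312) (nat_lit 456) (nat_lit 0) (XT.nd (nat_lit 156) (nat_lit 152) (nat_lit 0) (XT.nd (nat_lit 78) (nat_lit 76) (nat_lit 0) (XT.lf (nat_lit 0) (nat_lit 1458920013) (nat_lit 0) (nat_lit 2207513629) (nat_lit 152) (nat_lit 1458920013) (nat_lit 54) (nat_lit 3) (nat_lit 54) (nat_lit 1) (nat_lit 56) (nat_lit 1) (nat_lit 370) (nat_lit 417) (nat_lit 233)) (XT.lf (nat_lit 76) (nat_lit 1207103830) (nat_lit 0) (nat_lit 1933893749) (nat_lit 76) (nat_lit 1933893749) (nat_lit 54) (nat_lit 3) (nat_lit 53) (nat_lit 1) (nat_lit 54) (nat_lit 1) (nat_lit 371) (nat_lit 417) (nat_lit 232))) (XT.nd (nat_lit 78) (nat_lit 0) (nat_lit 0) (XT.lf (nat_lit 152) (nat_lit 4564090312) (nat_lit 0) (nat_lit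 230595189) (nat_lit 76) (nat_lit 230595189) (nat_lit 53) (nat_lit 1) (nat_lit 51) (nat_lit 1) (nat_lit 52) (nat_lit 1) (nat_lit 372) (nat_lit 417) (nat_lit 231)) (XT.lf (nat_lit 0) (nat_lit 1436781714) (nat_lit 0) (nat_lit 2101897446) (nat_lit 152) (nat_lit 1436781714) (nat_lit 51) (nat_lit 3) (nat_lit 51) (nat_lit 1) (nat_lit 53) (nat_lit 1) (nat_lit 373) (nat_lit 417) (nat_lit 230)))) (XT.nd (nat_lit 156) (nat_lit 228) (nat_lit 0) (XT.nd (nat_lit 78) (nat_lit 152) (nat_lit 0) (XT.lf (nat_lit 76) (nat_lit 1211668354) (nat_lit 0) (nat_lit 1857411784) (nat_lit 76) (nat_lit 1857411784) (nat_lit 51) (nat_lit 3) (nat_lit 50) (nat_lit 1) (nat_lit 51) (nat_lit 1) (nat_lit 374) (nat_lit 417) (nat_lit 229)) (XT.lf (nat_lit 152) (nat_lit 4468598274) (nat_lit 0) (nat_lit 204880839) (nat_lit 76) (nat_lit 204880839) (nat_lit 50) (nat_lit 1) (nat_lit 48) (nat_lit 1) (nat_lit 49) (nat_lit 1) (nat_lit 375) (nat_lit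 417) (nat_lit 228))) (XT.nd (nat_lit 78) (nat_lit 228) (nat_lit 0) (XT.lf (nat_lit 0) (nat_lit 1413018427) (nat_lit 0) (nat_lit 2003965141) (nat_lit 152) (nat_lit 1413018427) (nat_lit 48) (nat_lit 3) (nat_lit 48) (nat_lit 1) (nat_lit 50) (nat_lit 1) (nat_lit 376) (nat_lit 417) (nat_lit 227)) (XT.nd (nat_lit 78) (nat_lit 152) (nat_lit 0) (XT.lf (nat_lit 76) (nat_lit 1211670314) (nat_lit 0) (nat_lit 1785404988) (nat_lit 76) (nat_lit 1785404988) (nat_lit 48) (nat_lit 3) (nat_lit 47) (nat_lit 1) (nat_lit 48) (nat_lit 1) (nat_lit 377) (nat_lit 417) (nat_lit 226)) (XT.lf (nat_lit 152) (nat_lit 4371712220) (nat_lit 0) (nat_lit 182033972) (nat_lit 76) (nat_lit 182033972) (nat_lit 47) (nat_lit 1) (nat_lit 45) (nat_lit 1) (nat_lit 46) (nat_lit 1) (nat_lit 378) (nat_lit 417) (nat_lit 225)))))) (XT.nd (nat_lit 390) (nat_lit 380) (nat_lit 0) (XT.nd (nat_lit 156) (nat_lit 228) (nat_lit 0) (XT.nd (nat_lit 78) (nat_lit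 76) (nat_lit 0) (XT.lf (nat_lit 0) (nat_lit 1387930595) (nat_lit 0) (nat_lit 1912979096) (nat_lit 152) (nat_lit 1387930595) (nat_lit 45) (nat_lit 3) (nat_lit 45) (nat_lit 1) (nat_lit 47) (nat_lit 1) (nat_lit 379) (nat_lit 417) (nat_lit 224)) (XT.lf (nat_lit 76) (nat_lit 1207736561) (nat_lit 0) (nat_lit 1717492387) (nat_lit 76) (nat_lit 1717492387) (nat_lit 45) (nat_lit 3) (nat_lit 44) (nat_lit 1) (nat_lit 45) (nat_lit 1) (nat_lit 380) (nat_lit 417) (nat_lit 223))) (XT.nd (nat_lit 78) (nat_lit 76) (nat_lit 0) (XT.lf (nat_lit 152) (nat_lit 4273938355) (nat_lit 0) (nat_lit 161734826) (nat_lit 76) (nat_lit 161734826) (nat_lit 44) (nat_lit 1) (nat_lit 42) (nat_lit 1) (nat_lit 43) (nat_lit 1) (nat_lit 381) (nat_lit 417) (nat_lit 222)) (XT.nd (nat_lit 78) (nat_lit 76) (nat_lit 0) (XT.lf (nat_lit 0) (nat_lit 1361781680) (nat_lit 0) (nat_lit 1828280473) (nat_lit 152) (nat_lit 1361781680) (nat_lit 42) (nat_lit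 3) (nat_lit 42) (nat_lit 1) (nat_lit 44) (nat_lit 1) (nat_lit 382) (nat_lit 417) (nat_lit 221)) (XT.lf (nat_lit 76) (nat_lit 1200420602) (nat_lit 0) (nat_lit 1653332051) (nat_lit 76) (nat_lit 1653332051) (nat_lit 42) (nat_lit 3) (nat_lit 41) (nat_lit 1) (nat_lit 42) (nat_lit 1) (nat_lit 383) (nat_lit 417) (nat_lit 220))))) (XT.nd (nat_lit 156) (nat_lit 228) (nat_lit 0) (XT.nd (nat_lit 78) (nat_lit 0) (nat_lit 0) (XT.lf (nat_lit 152) (nat_lit 4175716222) (nat_lit 0) (nat_lit 143699298) (nat_lit 76) (nat_lit 143699298) (nat_lit 41) (nat_lit 1) (nat_lit 39) (nat_lit 1) (nat_lit 40) (nat_lit 1) (nat_lit 384) (nat_lit 417) (nat_lit 219)) (XT.lf (nat_lit 0) (nat_lit 1334802398) (nat_lit 0) (nat_lit 1749280534) (nat_lit 152) (nat_lit 1334802398) (nat_lit 39) (nat_lit 3) (nat_lit 39) (nat_lit 1) (nat_lit 41) (nat_lit 1) (nat_lit 385) (nat_lit 417) (nat_lit 218))) (XT.nd (nat_lit 78) (nat_lit 152) (nat_lit 0)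 (XT.lf (nat_lit 76) (nat_lit 1190210886) (nat_lit 0) (nat_lit 1592616842) (nat_lit 76) (nat_lit 1592616842) (nat_lit 39) (nat_lit 3) (nat_lit 38) (nat_lit 1) (nat_lit 39) (nat_lit 1) (nat_lit 386) (nat_lit 417) (nat_lit 217)) (XT.nd (nat_lit 78) (nat_lit 0) (nat_lit 0) (XT.lf (nat_lit 152) (nat_lit 4077426430) (nat_lit 0) (nat_lit 127674965) (nat_lit 76) (nat_lit 127674965) (nat_lit 38) (nat_lit 1) (nat_lit 36) (nat_lit 1) (nat_lit 37) (nat_lit 1) (nat_lit 387) (nat_lit 417) (nat_lit 216)) (XT.lf (nat_lit 0) (nat_lit 1307194461) (nat_lit 0) (nat_lit 1675452916) (nat_lit 152) (nat_lit 1307194461) (nat_lit 36) (nat_lit 3) (nat_lit 36) (nat_lit 1) (nat_lit 38) (nat_lit 1) (nat_lit 388) (nat_lit 417) (nat_lit 215))))))))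
noncomputable def ec406 : XT := (XT.nd (nat_lit 1482) (nat_lit 836) (nat_lit 0) (XT.nd (nat_lit 702) (nat_lit 760) (nat_lit 0) (XT.nd (nat_lit 312) (nat_lit 380) (nat_lit 0) (XT.nd (nat_lit 156) (nat_lit 76) (nat_lit 0) (XT.nd (nat_lit 78) (nat_lit 152) (nat_lit 0) (XT.lf (nat_lit 76) (nat_lit 1177538149) (nat_lit 0) (nat_lit 1535070630) (nat_lit 76) (nat_lit 1535070630) (nat_lit 36) (nat_lit 3) (nat_lit 35) (nat_lit 1) (nat_lit 36) (nat_lit 1) (nat_lit 389) (nat_lit 417) (nat_lit 214)) (XT.lf (nat_lit 152) (nat_lit 3979397514) (nat_lit 0) (nat_lit 113437553) (nat_lit 76) (nat_lit 113437553) (nat_lit 35) (nat_lit 1) (nat_lit 33) (nat_lit 1) (nat_lit 34) (nat_lit 1) (nat_lit 390) (nat_lit 417) (nat_lit 213))) (XT.nd (nat_lit 78) (nat_lit 76) (nat_lit 0) (XT.lf (nat_lit 0) (nat_lit 1279133910) (nat_lit 0) (nat_lit 1606326777) (nat_lit 152) (nat_lit 1279133910) (nat_lit 33) (nat_lit 3) (nat_lit 33) (nat_lit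 1) (nat_lit 35) (nat_lit 1) (nat_lit 391) (nat_lit 417) (nat_lit 212)) (XT.lf (nat_lit 76) (nat_lit 1162781950) (nat_lit 0) (nat_lit 1480444928) (nat_lit 76) (nat_lit 1480444928) (nat_lit 33) (nat_lit 3) (nat_lit 32) (nat_lit 1) (nat_lit 33) (nat_lit 1) (nat_lit 392) (nat_lit 417) (nat_lit 211)))) (XT.nd (nat_lit 156) (nat_lit 228) (nat_lit 0) (XT.nd (nat_lit 78) (nat_lit 0) (nat_lit 0) (XT.lf (nat_lit 152) (nat_lit 3881912026) (nat_lit 0) (nat_lit 100787796) (nat_lit 76) (nat_lit 100787796) (nat_lit 32) (nat_lit 1) (nat_lit 30) (nat_lit 1) (nat_lit 31) (nat_lit 1) (nat_lit 393) (nat_lit 417) (nat_lit 210)) (XT.lf (nat_lit 0) (nat_lit 1250774068) (nat_lit 0) (nat_lit 1541480693) (nat_lit 152) (nat_lit 1250774068) (nat_lit 30) (nat_lit 3) (nat_lit 30) (nat_lit 1) (nat_lit 32) (nat_lit 1) (nat_lit 394) (nat_lit 417) (nat_lit 209))) (XT.nd (nat_lit 78) (nat_lit 152) (nat_lit 0) (XT.lf (nat_lit 76) (nat_lit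 1146276466) (nat_lit 0) (nat_lit 1428515907) (nat_lit 76) (nat_lit 1428515907) (nat_lit 30) (nat_lit 3) (nat_lit 29) (nat_lit 1) (nat_lit 30) (nat_lit 1) (nat_lit 395) (nat_lit 417) (nat_lit 208)) (XT.nd (nat_lit 78) (nat_lit 0) (nat_lit 0) (XT.lf (nat_lit 152) (nat_lit 3785211931) (nat_lit 0) (nat_lit 89548652) (nat_lit 76) (nat_lit 89548652) (nat_lit 29) (nat_lit 1) (nat_lit 27) (nat_lit 1) (nat_lit 28) (nat_lit 1) (nat_lit 396) (nat_lit 417) (nat_lit 207)) (XT.lf (nat_lit 0) (nat_lit 1222248168) (nat_lit 0) (nat_lit 1480537239) (nat_lit 152) (nat_lit 1222248168) (nat_lit 27) (nat_lit 3) (nat_lit 27) (nat_lit 1) (nat_lit 29) (nat_lit 1) (nat_lit 397) (nat_lit 417) (nat_lit 206)))))) (XT.nd (nat_lit 390) (nat_lit 304) (nat_lit 0) (XT.nd (nat_lit 156) (nat_lit 228) (nat_lit 0) (XT.nd (nat_lit 78) (nat_lit 152) (nat_lit 0) (XT.lf (nat_lit 76) (nat_lit 1128315641) (nat_lit 0) (nat_lit 1379081729) (nat_lit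 76) (nat_lit 1379081729) (nat_lit 27) (nat_lit 3) (nat_lit 26) (nat_lit 1) (nat_lit 27) (nat_lit 1) (nat_lit 398) (nat_lit 417) (nat_lit 205)) (XT.lf (nat_lit 152) (nat_lit 3689503401) (nat_lit 0) (nat_lit 79562817) (nat_lit 76) (nat_lit 79562817) (nat_lit 26) (nat_lit 1) (nat_lit 24) (nat_lit 1) (nat_lit 25) (nat_lit 1) (nat_lit 399) (nat_lit 417) (nat_lit 204))) (XT.nd (nat_lit 78) (nat_lit 228) (nat_lit 0) (XT.lf (nat_lit 0) (nat_lit 1193671676) (nat_lit 0) (nat_lit 1423158170) (nat_lit 152) (nat_lit 1193671676) (nat_lit 24) (nat_lit 3) (nat_lit 24) (nat_lit 1) (nat_lit 26) (nat_lit 1) (nat_lit 400) (nat_lit 417) (nat_lit 203)) (XT.nd (nat_lit 78) (nat_lit 152) (nat_lit 0) (XT.lf (nat_lit 76) (nat_lit 1109157763) (nat_lit 0) (nat_lit 1331960185) (nat_lit 76) (nat_lit 1331960185) (nat_lit 24) (nat_lit 3) (nat_lit 23) (nat_lit 1) (nat_lit 24) (nat_lit 1) (nat_lit 401) (nat_lit 417) (nat_lit 202)) (XT.lf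 (nat_lit 152) (nat_lit 3594961058) (nat_lit 0) (nat_lit 70690532) (nat_lit 76) (nat_lit 70690532) (nat_lit 23) (nat_lit 1) (nat_lit 21) (nat_lit 1) (nat_lit 22) (nat_lit 1) (nat_lit 402) (nat_lit 417) (nat_lit 201))))) (XT.nd (nat_lit 156) (nat_lit 228) (nat_lit 0) (XT.nd (nat_lit 78) (nat_lit 76) (nat_lit 0) (XT.lf (nat_lit 0) (nat_lit 1165144356) (nat_lit 0) (nat_lit 1369040133) (nat_lit 152) (nat_lit 1165144356) (nat_lit 21) (nat_lit 3) (nat_lit 21) (nat_lit 1) (nat_lit 23) (nat_lit 1) (nat_lit 403) (nat_lit 417) (nat_lit 200)) (XT.lf (nat_lit 76) (nat_lit 1089029520) (nat_lit 0) (nat_lit 1286986586) (nat_lit 76) (nat_lit 1286986586) (nat_lit 21) (nat_lit 3) (nat_lit 20) (nat_lit 1) (nat_lit 21) (nat_lit 1) (nat_lit 404) (nat_lit 417) (nat_lit 199))) (XT.nd (nat_lit 78) (nat_lit 76) (nat_lit 0) (XT.lf (nat_lit 152) (nat_lit 3501731750) (nat_lit 0) (nat_lit 62807622) (nat_lit 76) (nat_lit 62807622)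 (nat_lit 20) (nat_lit 1) (nat_lit 18) (nat_lit 1) (nat_lit 19) (nat_lit 1) (nat_lit 405) (nat_lit 417) (nat_lit 198)) (XT.nd (nat_lit 78) (nat_lit 76) (nat_lit 0) (XT.lf (nat_lit 0) (nat_lit 1136752108) (nat_lit 0) (nat_lit 1317910866) (nat_lit 152) (nat_lit 1136752108) (nat_lit 18) (nat_lit 3) (nat_lit 18) (nat_lit 1) (nat_lit 20) (nat_lit 1) (nat_lit 406) (nat_lit 417) (nat_lit 197)) (XT.lf (nat_lit 76) (nat_lit 1068129608) (nat_lit 0) (nat_lit 1244011897) (nat_lit 76) (nat_lit 1244011897) (nat_lit 18) (nat_lit 3) (nat_lit 17) (nat_lit 1) (nat_lit 18) (nat_lit 1) (nat_lit 407) (nat_lit 417) (nat_lit 196))))))) (XT.nd (nat_lit 702) (nat_lit 152) (nat_lit 0) (XT.nd (nat_lit 312) (nat_lit 304) (nat_lit 0) (XT.nd (nat_lit 156) (nat_lit 228) (nat_lit 0) (XT.nd (nat_lit 78) (nat_lit 0) (nat_lit 0) (XT.lf (nat_lit 152) (nat_lit 3409937879) (nat_lit 0) (nat_lit 55803759) (nat_lit 76) (nat_lit 55803759) (nat_lit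 17) (nat_lit 1) (nat_lit 15) (nat_lit 1) (nat_lit 16) (nat_lit 1) (nat_lit 408) (nat_lit 417) (nat_lit 195)) (XT.lf (nat_lit 0) (nat_lit 1108568592) (nat_lit 0) (nat_lit 1269525802) (nat_lit 152) (nat_lit 1108568592) (nat_lit 15) (nat_lit 3) (nat_lit 15) (nat_lit 1) (nat_lit 17) (nat_lit 1) (nat_lit 409) (nat_lit 417) (nat_lit 194))) (XT.nd (nat_lit 78) (nat_lit 152) (nat_lit 0) (XT.lf (nat_lit 76) (nat_lit 1046631928) (nat_lit 0) (nat_lit 1202901064) (nat_lit 76) (nat_lit 1202901064) (nat_lit 15) (nat_lit 3) (nat_lit 14) (nat_lit 1) (nat_lit 15) (nat_lit 1) (nat_lit 410) (nat_lit 417) (nat_lit 193)) (XT.lf (nat_lit 152) (nat_lit 3319680372) (nat_lit 0) (nat_lit 49580917) (nat_lit 76) (nat_lit 49580917) (nat_lit 14) (nat_lit 1) (nat_lit 12) (nat_lit 1) (nat_lit 13) (nat_lit 1) (nat_lit 411) (nat_lit 417) (nat_lit 192)))) (XT.nd (nat_lit 156) (nat_lit 228) (nat_lit 0) (XT.nd (nat_lit 78) (nat_lit 76)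 (nat_lit 0) (XT.lf (nat_lit 0) (nat_lit 1080656669) (nat_lit 0) (nat_lit 1223665065) (nat_lit 152) (nat_lit 1080656669) (nat_lit 12) (nat_lit 3) (nat_lit 12) (nat_lit 1) (nat_lit 14) (nat_lit 1) (nat_lit 412) (nat_lit 417) (nat_lit 191)) (XT.lf (nat_lit 76) (nat_lit 1024688432) (nat_lit 0) (nat_lit 1163531535) (nat_lit 76) (nat_lit 1163531535) (nat_lit 12) (nat_lit 3) (nat_lit 11) (nat_lit 1) (nat_lit 12) (nat_lit 1) (nat_lit 413) (nat_lit 417) (nat_lit 190))) (XT.nd (nat_lit 78) (nat_lit 76) (nat_lit 0) (XT.lf (nat_lit 152) (nat_lit 3231041298) (nat_lit 0) (nat_lit 44052002) (nat_lit 76) (nat_lit 44052002) (nat_lit 11) (nat_lit 1) (nat_lit 9) (nat_lit 1) (nat_lit 10) (nat_lit 1) (nat_lit 414) (nat_lit 417) (nat_lit 189)) (XT.nd (nat_lit 78) (nat_lit 76) (nat_lit 0) (XT.lf (nat_lit 0) (nat_lit 1053069679) (nat_lit 0) (nat_lit 1180130787) (nat_lit 152) (nat_lit 1053069679) (nat_lit 9) (nat_lit 3) (nat_lit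 9) (nat_lit 1) (nat_lit 11) (nat_lit 1) (nat_lit 415) (nat_lit 417) (nat_lit 188)) (XT.lf (nat_lit 76) (nat_lit 1002431643) (nat_lit 0) (nat_lit 1125791942) (nat_lit 76) (nat_lit 1125791942) (nat_lit 9) (nat_lit 3) (nat_lit 8) (nat_lit 1) (nat_lit 9) (nat_lit 1) (nat_lit 416) (nat_lit 417) (nat_lit 187)))))) (XT.nd (nat_lit 35412) (nat_lit 0) (nat_lit 28196) (XT.nd (nat_lit 35178) (nat_lit 0) (nat_lit 28044) (XT.nd (nat_lit 35100) (nat_lit 0) (nat_lit 28044) (XT.lf (nat_lit 152) (nat_lit 3144086193) (nat_lit 0) (nat_lit 39139634) (nat_lit 76) (nat_lit 39139634) (nat_lit 8) (nat_lit 1) (nat_lit 6) (nat_lit 1) (nat_lit 7) (nat_lit 1) (nat_lit 417) (nat_lit 417) (nat_lit 186)) (XT.lf (nat_lit 1292) (nat_lit 7070211577) (nat_lit 0) (nat_lit 25383569092) (nat_lit 1216) (nat_lit 7070211577) (nat_lit 392) (nat_lit 1) (nat_lit 375) (nat_lit 1) (nat_lit 391) (nat_lit 1) (nat_lit 186) (nat_lit 418) (nat_lit 416)))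 (XT.nd (nat_lit 78) (nat_lit 0) (nat_lit 76) (XT.lf (nat_lit 1292) (nat_lit 13426696822) (nat_lit 76) (nat_lit 12761872348) (nat_lit 0) (nat_lit 12761872348) (nat_lit 392) (nat_lit 1) (nat_lit 376) (nat_lit 1) (nat_lit 375) (nat_lit 1) (nat_lit 187) (nat_lit 418) (nat_lit 415)) (XT.nd (nat_lit 78) (nat_lit 0) (nat_lit 0) (XT.lf (nat_lit 1292) (nat_lit 6300410522) (nat_lit 0) (nat_lit 25788903139) (nat_lit 1216) (nat_lit 6300410522) (nat_lit 393) (nat_lit 1) (nat_lit 376) (nat_lit 1) (nat_lit 392) (nat_lit 1) (nat_lit 188) (nat_lit 418) (nat_lit 414)) (XT.lf (nat_lit 1292) (nat_lit 11546167515) (nat_lit 76) (nat_lit 13145903427) (nat_lit 0) (nat_lit 13145903427) (nat_lit 393) (nat_lit 1) (nat_lit 377) (nat_lit 1) (nat_lit 376) (nat_lit 1) (nat_lit 189) (nat_lit 418) (nat_lit 413))))) (XT.nd (nat_lit 156) (nat_lit 0) (nat_lit 76) (XT.nd (nat_lit 78) (nat_lit 0) (nat_lit 0) (XT.lf (nat_lit 1292) (nat_lit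 5203956780) (nat_lit 0) (nat_lit 26891051715) (nat_lit 1216) (nat_lit 5203956780) (nat_lit 394) (nat_lit 1) (nat_lit 377) (nat_lit 1) (nat_lit 393) (nat_lit 1) (nat_lit 190) (nat_lit 418) (nat_lit 412)) (XT.lf (nat_lit 1292) (nat_lit 9039174872) (nat_lit 76) (nat_lit 13864400916) (nat_lit 0) (nat_lit 13864400916) (nat_lit 394) (nat_lit 1) (nat_lit 378) (nat_lit 1) (nat_lit 377) (nat_lit 1) (nat_lit 191) (nat_lit 418) (nat_lit 411))) (XT.nd (nat_lit 78) (nat_lit 0) (nat_lit 0) (XT.lf (nat_lit 1292) (nat_lit 3810402789) (nat_lit 0) (nat_lit 28629041541) (nat_lit 1216) (nat_lit 3810402789) (nat_lit 395) (nat_lit 1) (nat_lit 378) (nat_lit 1) (nat_lit 394) (nat_lit 1) (nat_lit 192) (nat_lit 418) (nat_lit 410)) (XT.nd (nat_lit 78) (nat_lit 0) (nat_lit 76) (XT.lf (nat_lit 1292) (nat_lit 5963071133) (nat_lit 76) (nat_lit 14887781249) (nat_lit 0) (nat_lit 14887781249) (nat_lit 395) (nat_lit 1) (nat_lit 379)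 (nat_lit 1) (nat_lit 378) (nat_lit 1) (nat_lit 193) (nat_lit 418) (nat_lit 409)) (XT.lf (nat_lit 1292) (nat_lit 2147289954) (nat_lit 0) (nat_lit 30946010329) (nat_lit 1216) (nat_lit 2147289954) (nat_lit 396) (nat_lit 1) (nat_lit 379) (nat_lit 1) (nat_lit 395) (nat_lit 1) (nat_lit 194) (nat_lit 418) (nat_lit 408))))))))
noncomputable def ec407 : XT := (XT.nd (nat_lit 1482) (nat_lit 4788) (nat_lit 0) (XT.nd (nat_lit 702) (nat_lit 3496) (nat_lit 0) (XT.nd (nat_lit 312) (nat_lit 684) (nat_lit 0) (XT.nd (nat_lit 156) (nat_lit 1216) (nat_lit 0) (XT.nd (nat_lit 78) (nat_lit 0) (nat_lit 76) (XT.lf (nat_lit 1292) (nat_lit 2371293256) (nat_lit 76) (nat_lit 16188461518) (nat_lit 0) (nat_lit 16188461518) (nat_lit 396) (nat_lit 1) (nat_lit 380) (nat_lit 1) (nat_lit 379) (nat_lit 1) (nat_lit 195) (nat_lit 418) (nat_lit 407)) (XT.lf (nat_lit 1292) (nat_lit 240273255) (nat_lit 0) (nat_lit 33788952996) (nat_lit 1216)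 (nat_lit 240273255) (nat_lit 397) (nat_lit 1) (nat_lit 380) (nat_lit 1) (nat_lit 396) (nat_lit 1) (nat_lit 196) (nat_lit 418) (nat_lit 406))) (XT.nd (nat_lit 78) (nat_lit 0) (nat_lit 0) (XT.lf (nat_lit 1368) (nat_lit 16070552287) (nat_lit 0) (nat_lit 1653486561) (nat_lit 1292) (nat_lit 16070552287) (nat_lit 381) (nat_lit 1) (nat_lit 363) (nat_lit 1) (nat_lit 380) (nat_lit 1) (nat_lit 197) (nat_lit 418) (nat_lit 405)) (XT.lf (nat_lit 1368) (nat_lit 29596244640) (nat_lit 76) (nat_lit 1868263903) (nat_lit 0) (nat_lit 1868263903) (nat_lit 381) (nat_lit 1) (nat_lit 364) (nat_lit 1) (nat_lit 363) (nat_lit 1) (nat_lit 198) (nat_lit 418) (nat_lit 404)))) (XT.nd (nat_lit 156) (nat_lit 760) (nat_lit 0) (XT.nd (nat_lit 78) (nat_lit 0) (nat_lit 0) (XT.lf (nat_lit 1368) (nat_lit 13416237357) (nat_lit 0) (nat_lit 6043395159) (nat_lit 1292) (nat_lit 13416237357) (nat_lit 382) (nat_lit 1) (nat_lit 364) (nat_lit 1)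 (nat_lit 381) (nat_lit 1) (nat_lit 199) (nat_lit 418) (nat_lit 403)) (XT.lf (nat_lit 1368) (nat_lit 24089953970) (nat_lit 76) (nat_lit 4170297736) (nat_lit 0) (nat_lit 4170297736) (nat_lit 382) (nat_lit 1) (nat_lit 365) (nat_lit 1) (nat_lit 364) (nat_lit 1) (nat_lit 200) (nat_lit 418) (nat_lit 402))) (XT.nd (nat_lit 78) (nat_lit 836) (nat_lit 0) (XT.lf (nat_lit 76) (nat_lit 10594399037) (nat_lit 0) (nat_lit 10802454415) (nat_lit 1292) (nat_lit 10594399037) (nat_lit 366) (nat_lit 1) (nat_lit 365) (nat_lit 1) (nat_lit 382) (nat_lit 1) (nat_lit 201) (nat_lit 418) (nat_lit 401)) (XT.nd (nat_lit 78) (nat_lit 0) (nat_lit 0) (XT.lf (nat_lit 912) (nat_lit 18266235449) (nat_lit 0) (nat_lit 6647715245) (nat_lit 836) (nat_lit 6647715245) (nat_lit 366) (nat_lit 1) (nat_lit 354) (nat_lit 1) (nat_lit 365) (nat_lit 1) (nat_lit 202) (nat_lit 418) (nat_lit 400)) (XT.lf (nat_lit 76) (nat_lit 7623971095) (nat_lit 0) (nat_lit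 15891381841) (nat_lit 912) (nat_lit 7623971095) (nat_lit 355) (nat_lit 1) (nat_lit 354) (nat_lit 1) (nat_lit 366) (nat_lit 1) (nat_lit 203) (nat_lit 418) (nat_lit 399)))))) (XT.nd (nat_lit 390) (nat_lit 1672) (nat_lit 0) (XT.nd (nat_lit 156) (nat_lit 1216) (nat_lit 0) (XT.nd (nat_lit 78) (nat_lit 0) (nat_lit 0) (XT.lf (nat_lit 684) (nat_lit 12161762526) (nat_lit 0) (nat_lit 9281491509) (nat_lit 608) (nat_lit 9281491509) (nat_lit 355) (nat_lit 1) (nat_lit 346) (nat_lit 1) (nat_lit 354) (nat_lit 1) (nat_lit 204) (nat_lit 418) (nat_lit 398)) (XT.lf (nat_lit 76) (nat_lit 4522529049) (nat_lit 0) (nat_lit 21273676870) (nat_lit 684) (nat_lit 4522529049) (nat_lit 347) (nat_lit 1) (nat_lit 346) (nat_lit 1) (nat_lit 355) (nat_lit 1) (nat_lit 205) (nat_lit 418) (nat_lit 397))) (XT.nd (nat_lit 78) (nat_lit 608) (nat_lit 0) (XT.lf (nat_lit 684) (nat_lit 5810566010) (nat_lit 0) (nat_lit 12053954605) (nat_lit 608)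 (nat_lit 12053954605) (nat_lit 347) (nat_lit 1) (nat_lit 338) (nat_lit 1) (nat_lit 346) (nat_lit 1) (nat_lit 206) (nat_lit 418) (nat_lit 396)) (XT.nd (nat_lit 78) (nat_lit 608) (nat_lit 0) (XT.lf (nat_lit 76) (nat_lit 1306376036) (nat_lit 0) (nat_lit 26915445811) (nat_lit 684) (nat_lit 1306376036) (nat_lit 339) (nat_lit 1) (nat_lit 338) (nat_lit 1) (nat_lit 347) (nat_lit 1) (nat_lit 207) (nat_lit 418) (nat_lit 395)) (XT.lf (nat_lit 76) (nat_lit 14200166968) (nat_lit 0) (nat_lit 741050218) (nat_lit 608) (nat_lit 14200166968) (nat_lit 331) (nat_lit 1) (nat_lit 330) (nat_lit 1) (nat_lit 338) (nat_lit 1) (nat_lit 208) (nat_lit 418) (nat_lit 394))))) (XT.nd (nat_lit 156) (nat_lit 1064) (nat_lit 0) (XT.nd (nat_lit 78) (nat_lit 0) (nat_lit 0) (XT.lf (nat_lit 684) (nat_lit 24784801424) (nat_lit 0) (nat_lit 1989676699) (nat_lit 608) (nat_lit 1989676699) (nat_lit 331) (nat_lit 1) (nat_lit 322) (nat_lit 1) (nat_lit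 330) (nat_lit 1) (nat_lit 209) (nat_lit 418) (nat_lit 393)) (XT.lf (nat_lit 76) (nat_lit 10514590804) (nat_lit 0) (nat_lit 7361583740) (nat_lit 684) (nat_lit 10514590804) (nat_lit 323) (nat_lit 1) (nat_lit 322) (nat_lit 1) (nat_lit 331) (nat_lit 1) (nat_lit 210) (nat_lit 418) (nat_lit 392))) (XT.nd (nat_lit 78) (nat_lit 532) (nat_lit 0) (XT.lf (nat_lit 608) (nat_lit 17310776389) (nat_lit 0) (nat_lit 5357686400) (nat_lit 532) (nat_lit 5357686400) (nat_lit 323) (nat_lit 1) (nat_lit 315) (nat_lit 1) (nat_lit 322) (nat_lit 1) (nat_lit 211) (nat_lit 418) (nat_lit 391)) (XT.nd (nat_lit 78) (nat_lit 532) (nat_lit 0) (XT.lf (nat_lit 76) (nat_lit 6764640204) (nat_lit 0) (nat_lit 14137880457) (nat_lit 608) (nat_lit 6764640204) (nat_lit 316) (nat_lit 1) (nat_lit 315) (nat_lit 1) (nat_lit 323) (nat_lit 1) (nat_lit 212) (nat_lit 418) (nat_lit 390)) (XT.lf (nat_lit 608) (nat_lit 9719318416) (nat_lit 0) (nat_lit 8797636503)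 (nat_lit 532) (nat_lit 8797636503) (nat_lit 316) (nat_lit 1) (nat_lit 308) (nat_lit 1) (nat_lit 315) (nat_lit 1) (nat_lit 213) (nat_lit 418) (nat_lit 389))))))) (XT.nd (nat_lit 702) (nat_lit 2356) (nat_lit 0) (XT.nd (nat_lit 312) (nat_lit 1368) (nat_lit 0) (XT.nd (nat_lit 156) (nat_lit 608) (nat_lit 0) (XT.nd (nat_lit 78) (nat_lit 456) (nat_lit 0) (XT.lf (nat_lit 76) (nat_lit 2962047657) (nat_lit 0) (nat_lit 21045392839) (nat_lit 608) (nat_lit 2962047657) (nat_lit 309) (nat_lit 1) (nat_lit 308) (nat_lit 1) (nat_lit 316) (nat_lit 1) (nat_lit 214) (nat_lit 418) (nat_lit 388)) (XT.lf (nat_lit 532) (nat_lit 2033085312) (nat_lit 0) (nat_lit 12297670794) (nat_lit 456) (nat_lit 12297670794) (nat_lit 309) (nat_lit 1) (nat_lit 302) (nat_lit 1) (nat_lit 308) (nat_lit 1) (nat_lit 215) (nat_lit 418) (nat_lit 387))) (XT.nd (nat_lit 78) (nat_lit 0) (nat_lit 0) (XT.lf (nat_lit 608) (nat_lit 24548267571) (nat_lit 0)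 (nat_lit 873711322) (nat_lit 532) (nat_lit 873711322) (nat_lit 302) (nat_lit 1) (nat_lit 294) (nat_lit 1) (nat_lit 301) (nat_lit 1) (nat_lit 216) (nat_lit 418) (nat_lit 386)) (XT.lf (nat_lit 76) (nat_lit 10174861047) (nat_lit 0) (nat_lit 5615274388) (nat_lit 608) (nat_lit 10174861047) (nat_lit 295) (nat_lit 1) (nat_lit 294) (nat_lit 1) (nat_lit 302) (nat_lit 1) (nat_lit 217) (nat_lit 418) (nat_lit 385)))) (XT.nd (nat_lit 156) (nat_lit 912) (nat_lit 0) (XT.nd (nat_lit 78) (nat_lit 0) (nat_lit 0) (XT.lf (nat_lit 532) (nat_lit 16218412641) (nat_lit 0) (nat_lit 4711959258) (nat_lit 456) (nat_lit 4711959258) (nat_lit 295) (nat_lit 1) (nat_lit 288) (nat_lit 1) (nat_lit 294) (nat_lit 1) (nat_lit 218) (nat_lit 418) (nat_lit 384)) (XT.lf (nat_lit 76) (nat_lit 6023427123) (nat_lit 0) (nat_lit 13277532566) (nat_lit 532) (nat_lit 6023427123) (nat_lit 289) (nat_lit 1) (nat_lit 288) (nat_lit 1) (nat_lit 295) (nat_lit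 1) (nat_lit 219) (nat_lit 418) (nat_lit 383))) (XT.nd (nat_lit 78) (nat_lit 456) (nat_lit 0) (XT.lf (nat_lit 532) (nat_lit 7866625663) (nat_lit 0) (nat_lit 8572642951) (nat_lit 456) (nat_lit 8572642951) (nat_lit 289) (nat_lit 1) (nat_lit 282) (nat_lit 1) (nat_lit 288) (nat_lit 1) (nat_lit 220) (nat_lit 418) (nat_lit 382)) (XT.nd (nat_lit 78) (nat_lit 456) (nat_lit 0) (XT.lf (nat_lit 76) (nat_lit 1865131964) (nat_lit 0) (nat_lit 20976005049) (nat_lit 532) (nat_lit 1865131964) (nat_lit 283) (nat_lit 1) (nat_lit 282) (nat_lit 1) (nat_lit 289) (nat_lit 1) (nat_lit 221) (nat_lit 418) (nat_lit 381)) (XT.lf (nat_lit 76) (nat_lit 11960857632) (nat_lit 0) (nat_lit 481681943) (nat_lit 456) (nat_lit 11960857632) (nat_lit 277) (nat_lit 1) (nat_lit 276) (nat_lit 1) (nat_lit 282) (nat_lit 1) (nat_lit 222) (nat_lit 418) (nat_lit 380)))))) (XT.nd (nat_lit 390) (nat_lit 1140) (nat_lit 0) (XT.nd (nat_lit 156) (nat_lit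 760) (nat_lit 0) (XT.nd (nat_lit 78) (nat_lit 0) (nat_lit 0) (XT.lf (nat_lit 532) (nat_lit 19567081490) (nat_lit 0) (nat_lit 2270014286) (nat_lit 456) (nat_lit 2270014286) (nat_lit 277) (nat_lit 1) (nat_lit 270) (nat_lit 1) (nat_lit 276) (nat_lit 1) (nat_lit 223) (nat_lit 418) (nat_lit 379)) (XT.lf (nat_lit 76) (nat_lit 7572774114) (nat_lit 0) (nat_lit 8668261690) (nat_lit 532) (nat_lit 7572774114) (nat_lit 271) (nat_lit 1) (nat_lit 270) (nat_lit 1) (nat_lit 277) (nat_lit 1) (nat_lit 224) (nat_lit 418) (nat_lit 378))) (XT.nd (nat_lit 78) (nat_lit 380) (nat_lit 0) (XT.lf (nat_lit 456) (nat_lit 10767814532) (nat_lit 0) (nat_lit 6379381367) (nat_lit 380) (nat_lit 6379381367) (nat_lit 271) (nat_lit 1) (nat_lit 265) (nat_lit 1) (nat_lit 270) (nat_lit 1) (nat_lit 225) (nat_lit 418) (nat_lit 377)) (XT.nd (nat_lit 78) (nat_lit 380) (nat_lit 0) (XT.lf (nat_lit 76) (nat_lit 3205487808) (nat_lit 0) (nat_lit 16833629791)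 (nat_lit 456) (nat_lit 3205487808) (nat_lit 266) (nat_lit 1) (nat_lit 265) (nat_lit 1) (nat_lit 271) (nat_lit 1) (nat_lit 226) (nat_lit 418) (nat_lit 376)) (XT.lf (nat_lit 456) (nat_lit 2015999336) (nat_lit 0) (nat_lit 10475020062) (nat_lit 380) (nat_lit 10475020062) (nat_lit 266) (nat_lit 1) (nat_lit 260) (nat_lit 1) (nat_lit 265) (nat_lit 1) (nat_lit 227) (nat_lit 418) (nat_lit 375))))) (XT.nd (nat_lit 156) (nat_lit 684) (nat_lit 0) (XT.nd (nat_lit 78) (nat_lit 0) (nat_lit 0) (XT.lf (nat_lit 456) (nat_lit 20445025013) (nat_lit 0) (nat_lit 1124332156) (nat_lit 380) (nat_lit 1124332156) (nat_lit 260) (nat_lit 1) (nat_lit 254) (nat_lit 1) (nat_lit 259) (nat_lit 1) (nat_lit 228) (nat_lit 418) (nat_lit 374)) (XT.lf (nat_lit 76) (nat_lit 7937680218) (nat_lit 0) (nat_lit 6547450945) (nat_lit 456) (nat_lit 7937680218) (nat_lit 255) (nat_lit 1) (nat_lit 254) (nat_lit 1) (nat_lit 260) (nat_lit 1) (nat_lit 229)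 (nat_lit 418) (nat_lit 373))) (XT.nd (nat_lit 78) (nat_lit 304) (nat_lit 0) (XT.lf (nat_lit 456) (nat_lit 11374602190) (nat_lit 0) (nat_lit 5391675631) (nat_lit 380) (nat_lit 5391675631) (nat_lit 255) (nat_lit 1) (nat_lit 249) (nat_lit 1) (nat_lit 254) (nat_lit 1) (nat_lit 230) (nat_lit 418) (nat_lit 372)) (XT.nd (nat_lit 78) (nat_lit 304) (nat_lit 0) (XT.lf (nat_lit 76) (nat_lit 3446157083) (nat_lit 0) (nat_lit 15005215478) (nat_lit 456) (nat_lit 3446157083) (nat_lit 250) (nat_lit 1) (nat_lit 249) (nat_lit 1) (nat_lit 255) (nat_lit 1) (nat_lit 231) (nat_lit 418) (nat_lit 371)) (XT.lf (nat_lit 380) (nat_lit 2393468265) (nat_lit 0) (nat_lit 9623468987) (nat_lit 304) (nat_lit 9623468987) (nat_lit 250) (nat_lit 1) (nat_lit 245) (nat_lit 1) (nat_lit 249) (nat_lit 1) (nat_lit 232) (nat_lit 418) (nat_lit 370))))))))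
noncomputable def ec408 : XT := (XT.nd (nat_lit 1404) (nat_lit 2660) (nat_lit 0) (XT.nd (nat_lit 702) (nat_lit 1748) (nat_lit 0) (XT.nd (nat_lit 312) (nat_lit 988) (nat_lit 0) (XT.nd (nat_lit 156) (nat_lit 304) (nat_lit 0) (XT.nd (nat_lit 78) (nat_lit 0) (nat_lit 0) (XT.lf (nat_lit 456) (nat_lit 19410471082) (nat_lit 0) (nat_lit 989226178) (nat_lit 380) (nat_lit 989226178) (nat_lit 245) (nat_lit 1) (nat_lit 239) (nat_lit 1) (nat_lit 244) (nat_lit 1) (nat_lit 233) (nat_lit 418) (nat_lit 369)) (XT.lf (nat_lit 76) (nat_lit 7387110866) (nat_lit 0) (nat_lit 6364275967) (nat_lit 456) (nat_lit 7387110866) (nat_lit 240) (nat_lit 1) (nat_lit 239) (nat_lit 1) (nat_lit 245) (nat_lit 1) (nat_lit 234) (nat_lit 418) (nat_lit 368))) (XT.nd (nat_lit 78) (nat_lit 0) (nat_lit 0) (XT.lf (nat_lit 380) (nat_lit 10210613910) (nat_lit 0) (nat_lit 5341467339) (nat_lit 304) (nat_lit 5341467339) (nat_lit 240) (nat_lit 1) (nat_lit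 235) (nat_lit 1) (nat_lit 239) (nat_lit 1) (nat_lit 235) (nat_lit 418) (nat_lit 367)) (XT.lf (nat_lit 76) (nat_lit 2839415758) (nat_lit 0) (nat_lit 14973957880) (nat_lit 380) (nat_lit 2839415758) (nat_lit 236) (nat_lit 1) (nat_lit 235) (nat_lit 1) (nat_lit 240) (nat_lit 1) (nat_lit 236) (nat_lit 418) (nat_lit 366)))) (XT.nd (nat_lit 156) (nat_lit 304) (nat_lit 0) (XT.nd (nat_lit 78) (nat_lit 380) (nat_lit 0) (XT.lf (nat_lit 380) (nat_lit 1132239276) (nat_lit 0) (nat_lit 9641263751) (nat_lit 304) (nat_lit 9641263751) (nat_lit 236) (nat_lit 1) (nat_lit 231) (nat_lit 1) (nat_lit 235) (nat_lit 1) (nat_lit 237) (nat_lit 418) (nat_lit 365)) (XT.lf (nat_lit 380) (nat_lit 16920588849) (nat_lit 0) (nat_lit 1630426283) (nat_lit 304) (nat_lit 1630426283) (nat_lit 231) (nat_lit 1) (nat_lit 226) (nat_lit 1) (nat_lit 230) (nat_lit 1) (nat_lit 238) (nat_lit 418) (nat_lit 364))) (XT.nd (nat_lit 78) (nat_lit 304) (nat_lit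 0) (XT.lf (nat_lit 76) (nat_lit 6141262310) (nat_lit 0) (nat_lit 7667190781) (nat_lit 380) (nat_lit 6141262310) (nat_lit 227) (nat_lit 1) (nat_lit 226) (nat_lit 1) (nat_lit 231) (nat_lit 1) (nat_lit 239) (nat_lit 418) (nat_lit 363)) (XT.nd (nat_lit 78) (nat_lit 0) (nat_lit 0) (XT.lf (nat_lit 380) (nat_lit 7704381106) (nat_lit 0) (nat_lit 6009084105) (nat_lit 304) (nat_lit 6009084105) (nat_lit 227) (nat_lit 1) (nat_lit 222) (nat_lit 1) (nat_lit 226) (nat_lit 1) (nat_lit 240) (nat_lit 418) (nat_lit 362)) (XT.lf (nat_lit 76) (nat_lit 1591650287) (nat_lit 0) (nat_lit 16316477365) (nat_lit 380) (nat_lit 1591650287) (nat_lit 223) (nat_lit 1) (nat_lit 222) (nat_lit 1) (nat_lit 227) (nat_lit 1) (nat_lit 241) (nat_lit 418) (nat_lit 361)))))) (XT.nd (nat_lit 312) (nat_lit 912) (nat_lit 0) (XT.nd (nat_lit 156) (nat_lit 228) (nat_lit 0) (XT.nd (nat_lit 78) (nat_lit 304) (nat_lit 0) (XT.lf (nat_lit 76) (nat_lit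 8969517638) (nat_lit 0) (nat_lit 1339406643) (nat_lit 304) (nat_lit 8969517638) (nat_lit 219) (nat_lit 1) (nat_lit 218) (nat_lit 1) (nat_lit 222) (nat_lit 1) (nat_lit 242) (nat_lit 418) (nat_lit 360)) (XT.lf (nat_lit 380) (nat_lit 13348544935) (nat_lit 0) (nat_lit 2856416830) (nat_lit 304) (nat_lit 2856416830) (nat_lit 219) (nat_lit 1) (nat_lit 214) (nat_lit 1) (nat_lit 218) (nat_lit 1) (nat_lit 243) (nat_lit 418) (nat_lit 359))) (XT.nd (nat_lit 78) (nat_lit 228) (nat_lit 0) (XT.lf (nat_lit 76) (nat_lit 4379797192) (nat_lit 0) (nat_lit 10087193688) (nat_lit 380) (nat_lit 4379797192) (nat_lit 215) (nat_lit 1) (nat_lit 214) (nat_lit 1) (nat_lit 219) (nat_lit 1) (nat_lit 244) (nat_lit 418) (nat_lit 358)) (XT.lf (nat_lit 304) (nat_lit 4205408532) (nat_lit 0) (nat_lit 7215079409) (nat_lit 228) (nat_lit 7215079409) (nat_lit 215) (nat_lit 1) (nat_lit 211) (nat_lit 1) (nat_lit 214) (nat_lit 1) (nat_lit 245)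 (nat_lit 418) (nat_lit 357)))) (XT.nd (nat_lit 156) (nat_lit 532) (nat_lit 0) (XT.nd (nat_lit 78) (nat_lit 0) (nat_lit 0) (XT.lf (nat_lit 380) (nat_lit 18173894827) (nat_lit 0) (nat_lit 127620846) (nat_lit 304) (nat_lit 127620846) (nat_lit 211) (nat_lit 1) (nat_lit 206) (nat_lit 1) (nat_lit 210) (nat_lit 1) (nat_lit 246) (nat_lit 418) (nat_lit 356)) (XT.lf (nat_lit 76) (nat_lit 6770651842) (nat_lit 0) (nat_lit 4680996167) (nat_lit 380) (nat_lit 6770651842) (nat_lit 207) (nat_lit 1) (nat_lit 206) (nat_lit 1) (nat_lit 211) (nat_lit 1) (nat_lit 247) (nat_lit 418) (nat_lit 355))) (XT.nd (nat_lit 78) (nat_lit 304) (nat_lit 0) (XT.lf (nat_lit 304) (nat_lit 8997750260) (nat_lit 0) (nat_lit 4511200314) (nat_lit 228) (nat_lit 4511200314) (nat_lit 207) (nat_lit 1) (nat_lit 203) (nat_lit 1) (nat_lit 206) (nat_lit 1) (nat_lit 248) (nat_lit 418) (nat_lit 354)) (XT.nd (nat_lit 78) (nat_lit 304) (nat_lit 0) (XT.lf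 (nat_lit 76) (nat_lit 2248723354) (nat_lit 0) (nat_lit 13323848296) (nat_lit 304) (nat_lit 2248723354) (nat_lit 204) (nat_lit 1) (nat_lit 203) (nat_lit 1) (nat_lit 207) (nat_lit 1) (nat_lit 249) (nat_lit 418) (nat_lit 353)) (XT.lf (nat_lit 76) (nat_lit 8811033325) (nat_lit 0) (nat_lit 2359054) (nat_lit 304) (nat_lit 8811033325) (nat_lit 200) (nat_lit 1) (nat_lit 199) (nat_lit 1) (nat_lit 203) (nat_lit 1) (nat_lit 250) (nat_lit 418) (nat_lit 352))))))) (XT.nd (nat_lit 702) (nat_lit 1216) (nat_lit 0) (XT.nd (nat_lit 312) (nat_lit 684) (nat_lit 0) (XT.nd (nat_lit 156) (nat_lit 532) (nat_lit 0) (XT.nd (nat_lit 78) (nat_lit 0) (nat_lit 0) (XT.lf (nat_lit 304) (nat_lit 13102442089) (nat_lit 0) (nat_lit 2164158302) (nat_lit 228) (nat_lit 2164158302) (nat_lit 200) (nat_lit 1) (nat_lit 196) (nat_lit 1) (nat_lit 199) (nat_lit 1) (nat_lit 251) (nat_lit 418) (nat_lit 351)) (XT.lf (nat_lit 76) (nat_lit 4292364964)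 (nat_lit 0) (nat_lit 8654224079) (nat_lit 304) (nat_lit 4292364964) (nat_lit 197) (nat_lit 1) (nat_lit 196) (nat_lit 1) (nat_lit 200) (nat_lit 1) (nat_lit 252) (nat_lit 418) (nat_lit 350))) (XT.nd (nat_lit 78) (nat_lit 304) (nat_lit 0) (XT.lf (nat_lit 304) (nat_lit 4113756282) (nat_lit 0) (nat_lit 6468254180) (nat_lit 228) (nat_lit 6468254180) (nat_lit 197) (nat_lit 1) (nat_lit 193) (nat_lit 1) (nat_lit 196) (nat_lit 1) (nat_lit 253) (nat_lit 418) (nat_lit 349)) (XT.lf (nat_lit 304) (nat_lit 16600629241) (nat_lit 0) (nat_lit 132550167) (nat_lit 228) (nat_lit 132550167) (nat_lit 193) (nat_lit 1) (nat_lit 189) (nat_lit 1) (nat_lit 192) (nat_lit 1) (nat_lit 254) (nat_lit 418) (nat_lit 348)))) (XT.nd (nat_lit 156) (nat_lit 456) (nat_lit 0) (XT.nd (nat_lit 78) (nat_lit 228) (nat_lit 0) (XT.lf (nat_lit 76) (nat_lit 6041286782) (nat_lit 0) (nat_lit 4598056722) (nat_lit 304) (nat_lit 6041286782) (nat_lit 190)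 (nat_lit 1) (nat_lit 189) (nat_lit 1) (nat_lit 193) (nat_lit 1) (nat_lit 255) (nat_lit 418) (nat_lit 347)) (XT.lf (nat_lit 304) (nat_lit 7651032754) (nat_lit 0) (nat_lit 4424288252) (nat_lit 228) (nat_lit 4424288252) (nat_lit 190) (nat_lit 1) (nat_lit 186) (nat_lit 1) (nat_lit 189) (nat_lit 1) (nat_lit 256) (nat_lit 418) (nat_lit 346))) (XT.nd (nat_lit 78) (nat_lit 456) (nat_lit 0) (XT.lf (nat_lit 76) (nat_lit 1636406574) (nat_lit 0) (nat_lit 13048841148) (nat_lit 304) (nat_lit 1636406574) (nat_lit 187) (nat_lit 1) (nat_lit 186) (nat_lit 1) (nat_lit 190) (nat_lit 1) (nat_lit 257) (nat_lit 418) (nat_lit 345)) (XT.nd (nat_lit 78) (nat_lit 228) (nat_lit 0) (XT.lf (nat_lit 76) (nat_lit 7530300307) (nat_lit 0) (nat_lit 1084236871) (nat_lit 228) (nat_lit 7530300307) (nat_lit 184) (nat_lit 1) (nat_lit 183) (nat_lit 1) (nat_lit 186) (nat_lit 1) (nat_lit 258) (nat_lit 418) (nat_lit 344)) (XT.lf (nat_lit 304)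 (nat_lit 10677468339) (nat_lit 0) (nat_lit 2646775421) (nat_lit 228) (nat_lit 2646775421) (nat_lit 184) (nat_lit 1) (nat_lit 180) (nat_lit 1) (nat_lit 183) (nat_lit 1) (nat_lit 259) (nat_lit 418) (nat_lit 343)))))) (XT.nd (nat_lit 390) (nat_lit 608) (nat_lit 0) (XT.nd (nat_lit 156) (nat_lit 456) (nat_lit 0) (XT.nd (nat_lit 78) (nat_lit 152) (nat_lit 0) (XT.lf (nat_lit 76) (nat_lit 3158141301) (nat_lit 0) (nat_lit 9482901794) (nat_lit 304) (nat_lit 3158141301) (nat_lit 181) (nat_lit 1) (nat_lit 180) (nat_lit 1) (nat_lit 184) (nat_lit 1) (nat_lit 260) (nat_lit 418) (nat_lit 342)) (XT.lf (nat_lit 228) (nat_lit 1989152068) (nat_lit 0) (nat_lit 6820247293) (nat_lit 152) (nat_lit 6820247293) (nat_lit 181) (nat_lit 1) (nat_lit 178) (nat_lit 1) (nat_lit 180) (nat_lit 1) (nat_lit 261) (nat_lit 418) (nat_lit 341))) (XT.nd (nat_lit 78) (nat_lit 152) (nat_lit 0) (XT.lf (nat_lit 304) (nat_lit 13253418376) (nat_lit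 0) (nat_lit 1104880644) (nat_lit 228) (nat_lit 1104880644) (nat_lit 178) (nat_lit 1) (nat_lit 174) (nat_lit 1) (nat_lit 177) (nat_lit 1) (nat_lit 262) (nat_lit 418) (nat_lit 340)) (XT.nd (nat_lit 78) (nat_lit 152) (nat_lit 0) (XT.lf (nat_lit 76) (nat_lit 4460545558) (nat_lit 0) (nat_lit 6376091191) (nat_lit 304) (nat_lit 4460545558) (nat_lit 175) (nat_lit 1) (nat_lit 174) (nat_lit 1) (nat_lit 178) (nat_lit 1) (nat_lit 263) (nat_lit 418) (nat_lit 339)) (XT.lf (nat_lit 228) (nat_lit 4652437450) (nat_lit 0) (nat_lit 5240880838) (nat_lit 152) (nat_lit 5240880838) (nat_lit 175) (nat_lit 1) (nat_lit 172) (nat_lit 1) (nat_lit 174) (nat_lit 1) (nat_lit 264) (nat_lit 418) (nat_lit 338))))) (XT.nd (nat_lit 156) (nat_lit 380) (nat_lit 0) (XT.nd (nat_lit 78) (nat_lit 228) (nat_lit 0) (XT.lf (nat_lit 76) (nat_lit 231024881) (nat_lit 0) (nat_lit 14512571603) (nat_lit 228) (nat_lit 231024881) (nat_lit 173) (nat_lit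 1) (nat_lit 172) (nat_lit 1) (nat_lit 175) (nat_lit 1) (nat_lit 265) (nat_lit 418) (nat_lit 337)) (XT.lf (nat_lit 76) (nat_lit 5569523283) (nat_lit 0) (nat_lit 3675419848) (nat_lit 228) (nat_lit 5569523283) (nat_lit 170) (nat_lit 1) (nat_lit 169) (nat_lit 1) (nat_lit 172) (nat_lit 1) (nat_lit 266) (nat_lit 418) (nat_lit 336))) (XT.nd (nat_lit 78) (nat_lit 228) (nat_lit 0) (XT.lf (nat_lit 228) (nat_lit 6934699931) (nat_lit 0) (nat_lit 3861483341) (nat_lit 152) (nat_lit 3861483341) (nat_lit 170) (nat_lit 1) (nat_lit 167) (nat_lit 1) (nat_lit 169) (nat_lit 1) (nat_lit 267) (nat_lit 418) (nat_lit 335)) (XT.nd (nat_lit 78) (nat_lit 228) (nat_lit 0) (XT.lf (nat_lit 76) (nat_lit 1392074799) (nat_lit 0) (nat_lit 11719284382) (nat_lit 228) (nat_lit 1392074799) (nat_lit 168) (nat_lit 1) (nat_lit 167) (nat_lit 1) (nat_lit 170) (nat_lit 1) (nat_lit 268) (nat_lit 418) (nat_lit 334)) (XT.lf (nat_lit 76) (nat_lit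 6508047676) (nat_lit 0) (nat_lit 1333859443) (nat_lit 228) (nat_lit 6508047676) (nat_lit 165) (nat_lit 1) (nat_lit 164) (nat_lit 1) (nat_lit 167) (nat_lit 1) (nat_lit 269) (nat_lit 418) (nat_lit 333))))))))
noncomputable def ec409 : XT := (XT.nd (nat_lit 1482) (nat_lit 1824) (nat_lit 0) (XT.nd (nat_lit 702) (nat_lit 912) (nat_lit 0) (XT.nd (nat_lit 312) (nat_lit 532) (nat_lit 0) (XT.nd (nat_lit 156) (nat_lit 380) (nat_lit 0) (XT.nd (nat_lit 78) (nat_lit 0) (nat_lit 0) (XT.lf (nat_lit 228) (nat_lit 8880876036) (nat_lit 0) (nat_lit 2659061038) (nat_lit 152) (nat_lit 2659061038) (nat_lit 165) (nat_lit 1) (nat_lit 162) (nat_lit 1) (nat_lit 164) (nat_lit 1) (nat_lit 270) (nat_lit 418) (nat_lit 332)) (XT.lf (nat_lit 76) (nat_lit 2389085268) (nat_lit 0) (nat_lit 9271706639) (nat_lit 228) (nat_lit 2389085268) (nat_lit 163) (nat_lit 1) (nat_lit 162) (nat_lit 1) (nat_lit 165) (nat_lit 1) (nat_lit 271) (nat_lit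 418) (nat_lit 331))) (XT.nd (nat_lit 78) (nat_lit 228) (nat_lit 0) (XT.lf (nat_lit 228) (nat_lit 704062229) (nat_lit 0) (nat_lit 6599194895) (nat_lit 152) (nat_lit 6599194895) (nat_lit 163) (nat_lit 1) (nat_lit 160) (nat_lit 1) (nat_lit 162) (nat_lit 1) (nat_lit 272) (nat_lit 418) (nat_lit 330)) (XT.lf (nat_lit 228) (nat_lit 10530819999) (nat_lit 0) (nat_lit 1613204499) (nat_lit 152) (nat_lit 1613204499) (nat_lit 160) (nat_lit 1) (nat_lit 157) (nat_lit 1) (nat_lit 159) (nat_lit 1) (nat_lit 273) (nat_lit 418) (nat_lit 329)))) (XT.nd (nat_lit 156) (nat_lit 380) (nat_lit 0) (XT.nd (nat_lit 78) (nat_lit 152) (nat_lit 0) (XT.lf (nat_lit 76) (nat_lit 3241355627) (nat_lit 0) (nat_lit 7130290536) (nat_lit 228) (nat_lit 3241355627) (nat_lit 158) (nat_lit 1) (nat_lit 157) (nat_lit 1) (nat_lit 160) (nat_lit 1) (nat_lit 274) (nat_lit 418) (nat_lit 328)) (XT.lf (nat_lit 228) (nat_lit 2482603780) (nat_lit 0) (nat_lit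 5494167766) (nat_lit 152) (nat_lit 5494167766) (nat_lit 158) (nat_lit 1) (nat_lit 155) (nat_lit 1) (nat_lit 157) (nat_lit 1) (nat_lit 275) (nat_lit 418) (nat_lit 327))) (XT.nd (nat_lit 78) (nat_lit 152) (nat_lit 0) (XT.lf (nat_lit 228) (nat_lit 11919872578) (nat_lit 0) (nat_lit 705799854) (nat_lit 152) (nat_lit 705799854) (nat_lit 155) (nat_lit 1) (nat_lit 152) (nat_lit 1) (nat_lit 154) (nat_lit 1) (nat_lit 276) (nat_lit 418) (nat_lit 326)) (XT.nd (nat_lit 78) (nat_lit 152) (nat_lit 0) (XT.lf (nat_lit 76) (nat_lit 3966003764) (nat_lit 0) (nat_lit 5259927368) (nat_lit 228) (nat_lit 3966003764) (nat_lit 153) (nat_lit 1) (nat_lit 152) (nat_lit 1) (nat_lit 155) (nat_lit 1) (nat_lit 277) (nat_lit 418) (nat_lit 325)) (XT.lf (nat_lit 228) (nat_lit 4008725973) (nat_lit 0) (nat_lit 4523116875) (nat_lit 152) (nat_lit 4523116875) (nat_lit 153) (nat_lit 1) (nat_lit 150) (nat_lit 1) (nat_lit 152) (nat_lit 1) (nat_lit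 278) (nat_lit 418) (nat_lit 324)))))) (XT.nd (nat_lit 390) (nat_lit 456) (nat_lit 0) (XT.nd (nat_lit 156) (nat_lit 304) (nat_lit 0) (XT.nd (nat_lit 78) (nat_lit 152) (nat_lit 0) (XT.lf (nat_lit 76) (nat_lit 80012199) (nat_lit 0) (nat_lit 12760793691) (nat_lit 228) (nat_lit 80012199) (nat_lit 151) (nat_lit 1) (nat_lit 150) (nat_lit 1) (nat_lit 153) (nat_lit 1) (nat_lit 279) (nat_lit 418) (nat_lit 323)) (XT.lf (nat_lit 76) (nat_lit 4578210230) (nat_lit 0) (nat_lit 3629451687) (nat_lit 152) (nat_lit 4578210230) (nat_lit 149) (nat_lit 1) (nat_lit 148) (nat_lit 1) (nat_lit 150) (nat_lit 1) (nat_lit 280) (nat_lit 418) (nat_lit 322))) (XT.nd (nat_lit 78) (nat_lit 152) (nat_lit 0) (XT.lf (nat_lit 228) (nat_lit 5312152241) (nat_lit 0) (nat_lit 3670788988) (nat_lit 152) (nat_lit 3670788988) (nat_lit 149) (nat_lit 1) (nat_lit 146) (nat_lit 1) (nat_lit 148) (nat_lit 1) (nat_lit 281) (nat_lit 418) (nat_lit 321))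 (XT.nd (nat_lit 78) (nat_lit 152) (nat_lit 0) (XT.lf (nat_lit 76) (nat_lit 763628715) (nat_lit 0) (nat_lit 10996647742) (nat_lit 228) (nat_lit 763628715) (nat_lit 147) (nat_lit 1) (nat_lit 146) (nat_lit 1) (nat_lit 149) (nat_lit 1) (nat_lit 282) (nat_lit 418) (nat_lit 320)) (XT.lf (nat_lit 76) (nat_lit 5091435108) (nat_lit 0) (nat_lit 2211200764) (nat_lit 152) (nat_lit 5091435108) (nat_lit 145) (nat_lit 1) (nat_lit 144) (nat_lit 1) (nat_lit 146) (nat_lit 1) (nat_lit 283) (nat_lit 418) (nat_lit 319))))) (XT.nd (nat_lit 156) (nat_lit 304) (nat_lit 0) (XT.nd (nat_lit 78) (nat_lit 0) (nat_lit 0) (XT.lf (nat_lit 228) (nat_lit 6419245584) (nat_lit 0) (nat_lit 2923640927) (nat_lit 152) (nat_lit 2923640927) (nat_lit 145) (nat_lit 1) (nat_lit 142) (nat_lit 1) (nat_lit 144) (nat_lit 1) (nat_lit 284) (nat_lit 418) (nat_lit 318)) (XT.lf (nat_lit 76) (nat_lit 1350842100) (nat_lit 0) (nat_lit 9439163386) (nat_lit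 228) (nat_lit 1350842100) (nat_lit 143) (nat_lit 1) (nat_lit 142) (nat_lit 1) (nat_lit 145) (nat_lit 1) (nat_lit 285) (nat_lit 418) (nat_lit 317))) (XT.nd (nat_lit 78) (nat_lit 152) (nat_lit 0) (XT.lf (nat_lit 76) (nat_lit 5517610669) (nat_lit 0) (nat_lit 980623190) (nat_lit 152) (nat_lit 5517610669) (nat_lit 141) (nat_lit 1) (nat_lit 140) (nat_lit 1) (nat_lit 142) (nat_lit 1) (nat_lit 286) (nat_lit 418) (nat_lit 316)) (XT.nd (nat_lit 78) (nat_lit 0) (nat_lit 0) (XT.lf (nat_lit 228) (nat_lit 7353384638) (nat_lit 0) (nat_lit 2269648606) (nat_lit 152) (nat_lit 2269648606) (nat_lit 141) (nat_lit 1) (nat_lit 138) (nat_lit 1) (nat_lit 140) (nat_lit 1) (nat_lit 287) (nat_lit 418) (nat_lit 315)) (XT.lf (nat_lit 76) (nat_lit 1852990055) (nat_lit 0) (nat_lit 8065005768) (nat_lit 228) (nat_lit 1852990055) (nat_lit 139) (nat_lit 1) (nat_lit 138) (nat_lit 1) (nat_lit 141) (nat_lit 1) (nat_lit 288) (nat_lit 418)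 (nat_lit 314))))))) (XT.nd (nat_lit 702) (nat_lit 912) (nat_lit 0) (XT.nd (nat_lit 312) (nat_lit 532) (nat_lit 0) (XT.nd (nat_lit 156) (nat_lit 76) (nat_lit 0) (XT.nd (nat_lit 78) (nat_lit 228) (nat_lit 0) (XT.lf (nat_lit 152) (nat_lit 85741984) (nat_lit 0) (nat_lit 5782394747) (nat_lit 76) (nat_lit 5782394747) (nat_lit 139) (nat_lit 1) (nat_lit 137) (nat_lit 1) (nat_lit 138) (nat_lit 1) (nat_lit 289) (nat_lit 418) (nat_lit 313)) (XT.lf (nat_lit 228) (nat_lit 8135297766) (nat_lit 0) (nat_lit 1698137380) (nat_lit 152) (nat_lit 1698137380) (nat_lit 137) (nat_lit 1) (nat_lit 134) (nat_lit 1) (nat_lit 136) (nat_lit 1) (nat_lit 290) (nat_lit 418) (nat_lit 312))) (XT.nd (nat_lit 78) (nat_lit 76) (nat_lit 0) (XT.lf (nat_lit 76) (nat_lit 2280128874) (nat_lit 0) (nat_lit 6853450600) (nat_lit 228) (nat_lit 2280128874) (nat_lit 135) (nat_lit 1) (nat_lit 134) (nat_lit 1) (nat_lit 137) (nat_lit 1) (nat_lit 291)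 (nat_lit 418) (nat_lit 311)) (XT.lf (nat_lit 152) (nat_lit 1022154419) (nat_lit 0) (nat_lit 5137582839) (nat_lit 76) (nat_lit 5137582839) (nat_lit 135) (nat_lit 1) (nat_lit 133) (nat_lit 1) (nat_lit 134) (nat_lit 1) (nat_lit 292) (nat_lit 418) (nat_lit 310)))) (XT.nd (nat_lit 156) (nat_lit 304) (nat_lit 0) (XT.nd (nat_lit 78) (nat_lit 0) (nat_lit 0) (XT.lf (nat_lit 228) (nat_lit 8783359857) (nat_lit 0) (nat_lit 1199631311) (nat_lit 152) (nat_lit 1199631311) (nat_lit 133) (nat_lit 1) (nat_lit 130) (nat_lit 1) (nat_lit 132) (nat_lit 1) (nat_lit 293) (nat_lit 418) (nat_lit 309)) (XT.lf (nat_lit 76) (nat_lit 2641176827) (nat_lit 0) (nat_lit 5786092804) (nat_lit 228) (nat_lit 2641176827) (nat_lit 131) (nat_lit 1) (nat_lit 130) (nat_lit 1) (nat_lit 133) (nat_lit 1) (nat_lit 294) (nat_lit 418) (nat_lit 308))) (XT.nd (nat_lit 78) (nat_lit 228) (nat_lit 0) (XT.lf (nat_lit 152) (nat_lit 1826592104) (nat_lit 0)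 (nat_lit 4564675810) (nat_lit 76) (nat_lit 4564675810) (nat_lit 131) (nat_lit 1) (nat_lit 129) (nat_lit 1) (nat_lit 130) (nat_lit 1) (nat_lit 295) (nat_lit 418) (nat_lit 307)) (XT.nd (nat_lit 78) (nat_lit 0) (nat_lit 0) (XT.lf (nat_lit 228) (nat_lit 9313855996) (nat_lit 0) (nat_lit 765719254) (nat_lit 152) (nat_lit 765719254) (nat_lit 129) (nat_lit 1) (nat_lit 126) (nat_lit 1) (nat_lit 128) (nat_lit 1) (nat_lit 296) (nat_lit 418) (nat_lit 306)) (XT.lf (nat_lit 76) (nat_lit 2944041551) (nat_lit 0) (nat_lit 4846587652) (nat_lit 228) (nat_lit 2944041551) (nat_lit 127) (nat_lit 1) (nat_lit 126) (nat_lit 1) (nat_lit 129) (nat_lit 1) (nat_lit 297) (nat_lit 418) (nat_lit 305)))))) (XT.nd (nat_lit 390) (nat_lit 304) (nat_lit 0) (XT.nd (nat_lit 156) (nat_lit 304) (nat_lit 0) (XT.nd (nat_lit 78) (nat_lit 228) (nat_lit 0) (XT.lf (nat_lit 152) (nat_lit 2514574438) (nat_lit 0) (nat_lit 4055655335) (nat_lit 76) (nat_lit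 4055655335) (nat_lit 127) (nat_lit 1) (nat_lit 125) (nat_lit 1) (nat_lit 126) (nat_lit 1) (nat_lit 298) (nat_lit 418) (nat_lit 304)) (XT.lf (nat_lit 228) (nat_lit 9741215687) (nat_lit 0) (nat_lit 388935884) (nat_lit 152) (nat_lit 388935884) (nat_lit 125) (nat_lit 1) (nat_lit 122) (nat_lit 1) (nat_lit 124) (nat_lit 1) (nat_lit 299) (nat_lit 418) (nat_lit 303))) (XT.nd (nat_lit 78) (nat_lit 304) (nat_lit 0) (XT.lf (nat_lit 76) (nat_lit 3195733224) (nat_lit 0) (nat_lit 4020420781) (nat_lit 228) (nat_lit 3195733224) (nat_lit 123) (nat_lit 1) (nat_lit 122) (nat_lit 1) (nat_lit 125) (nat_lit 1) (nat_lit 300) (nat_lit 418) (nat_lit 302)) (XT.nd (nat_lit 78) (nat_lit 228) (nat_lit 0) (XT.lf (nat_lit 152) (nat_lit 3099866831) (nat_lit 0) (nat_lit 3603397236) (nat_lit 76) (nat_lit 3603397236) (nat_lit 123) (nat_lit 1) (nat_lit 121) (nat_lit 1) (nat_lit 122) (nat_lit 1) (nat_lit 301) (nat_lit 418) (nat_lit 301))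 (XT.lf (nat_lit 228) (nat_lit 10078220928) (nat_lit 0) (nat_lit 62655995) (nat_lit 152) (nat_lit 62655995) (nat_lit 121) (nat_lit 1) (nat_lit 118) (nat_lit 1) (nat_lit 120) (nat_lit 1) (nat_lit 302) (nat_lit 418) (nat_lit 300))))) (XT.nd (nat_lit 156) (nat_lit 228) (nat_lit 0) (XT.nd (nat_lit 78) (nat_lit 76) (nat_lit 0) (XT.lf (nat_lit 76) (nat_lit 3402465089) (nat_lit 0) (nat_lit 3294703854) (nat_lit 228) (nat_lit 3402465089) (nat_lit 119) (nat_lit 1) (nat_lit 118) (nat_lit 1) (nat_lit 121) (nat_lit 1) (nat_lit 303) (nat_lit 418) (nat_lit 299)) (XT.lf (nat_lit 152) (nat_lit 3594676977) (nat_lit 0) (nat_lit 3201571773) (nat_lit 76) (nat_lit 3201571773) (nat_lit 119) (nat_lit 1) (nat_lit 117) (nat_lit 1) (nat_lit 118) (nat_lit 1) (nat_lit 304) (nat_lit 418) (nat_lit 298))) (XT.nd (nat_lit 78) (nat_lit 228) (nat_lit 0) (XT.lf (nat_lit 0) (nat_lit 221167717) (nat_lit 0) (nat_lit 9455600393) (nat_lit 152)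 (nat_lit 221167717) (nat_lit 117) (nat_lit 3) (nat_lit 117) (nat_lit 1) (nat_lit 119) (nat_lit 1) (nat_lit 305) (nat_lit 418) (nat_lit 297)) (XT.nd (nat_lit 78) (nat_lit 76) (nat_lit 0) (XT.lf (nat_lit 76) (nat_lit 3569742776) (nat_lit 0) (nat_lit 2657993025) (nat_lit 152) (nat_lit 3569742776) (nat_lit 116) (nat_lit 1) (nat_lit 115) (nat_lit 1) (nat_lit 117) (nat_lit 1) (nat_lit 306) (nat_lit 418) (nat_lit 296)) (XT.lf (nat_lit 152) (nat_lit 4009829225) (nat_lit 0) (nat_lit 2844555053) (nat_lit 76) (nat_lit 2844555053) (nat_lit 116) (nat_lit 1) (nat_lit 114) (nat_lit 1) (nat_lit 115) (nat_lit 1) (nat_lit 307) (nat_lit 418) (nat_lit 295))))))))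
noncomputable def ec410 : XT := (XT.nd (nat_lit 1482) (nat_lit 1444) (nat_lit 0) (XT.nd (nat_lit 702) (nat_lit 684) (nat_lit 0) (XT.nd (nat_lit 312) (nat_lit 456) (nat_lit 0) (XT.nd (nat_lit 156) (nat_lit 76) (nat_lit 0) (XT.nd (nat_lit 78) (nat_lit 152) (nat_lit 0) (XT.lf (nat_lit 0) (nat_lit 465813329) (nat_lit 0) (nat_lit 8670487156) (nat_lit 152) (nat_lit 465813329) (nat_lit 114) (nat_lit 3) (nat_lit 114) (nat_lit 1) (nat_lit 116) (nat_lit 1) (nat_lit 308) (nat_lit 418) (nat_lit 294)) (XT.lf (nat_lit 76) (nat_lit 3702443631) (nat_lit 0) (nat_lit 2100127641) (nat_lit 152) (nat_lit 3702443631) (nat_lit 113) (nat_lit 1) (nat_lit 112) (nat_lit 1) (nat_lit 114) (nat_lit 1) (nat_lit 309) (nat_lit 418) (nat_lit 293))) (XT.nd (nat_lit 78) (nat_lit 0) (nat_lit 0) (XT.lf (nat_lit 152) (nat_lit 4354919476) (nat_lit 0) (nat_lit 2527350321) (nat_lit 76) (nat_lit 2527350321) (nat_lit 113) (nat_lit 1) (nat_lit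 111) (nat_lit 1) (nat_lit 112) (nat_lit 1) (nat_lit 310) (nat_lit 418) (nat_lit 292)) (XT.lf (nat_lit 0) (nat_lit 675333843) (nat_lit 0) (nat_lit 7965080271) (nat_lit 152) (nat_lit 675333843) (nat_lit 111) (nat_lit 3) (nat_lit 111) (nat_lit 1) (nat_lit 113) (nat_lit 1) (nat_lit 311) (nat_lit 418) (nat_lit 291)))) (XT.nd (nat_lit 156) (nat_lit 228) (nat_lit 0) (XT.nd (nat_lit 78) (nat_lit 76) (nat_lit 0) (XT.lf (nat_lit 76) (nat_lit 3804887203) (nat_lit 0) (nat_lit 1612086952) (nat_lit 152) (nat_lit 3804887203) (nat_lit 110) (nat_lit 1) (nat_lit 109) (nat_lit 1) (nat_lit 111) (nat_lit 1) (nat_lit 312) (nat_lit 418) (nat_lit 290)) (XT.lf (nat_lit 152) (nat_lit 4638452797) (nat_lit 0) (nat_lit 2245518026) (nat_lit 76) (nat_lit 2245518026) (nat_lit 110) (nat_lit 1) (nat_lit 108) (nat_lit 1) (nat_lit 109) (nat_lit 1) (nat_lit 313) (nat_lit 418) (nat_lit 289))) (XT.nd (nat_lit 78) (nat_lit 228) (nat_lit 0)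 (XT.lf (nat_lit 0) (nat_lit 853874630) (nat_lit 0) (nat_lit 7330719913) (nat_lit 152) (nat_lit 853874630) (nat_lit 108) (nat_lit 3) (nat_lit 108) (nat_lit 1) (nat_lit 110) (nat_lit 1) (nat_lit 314) (nat_lit 418) (nat_lit 288)) (XT.nd (nat_lit 78) (nat_lit 76) (nat_lit 0) (XT.lf (nat_lit 76) (nat_lit 3880897844) (nat_lit 0) (nat_lit 1185862788) (nat_lit 152) (nat_lit 3880897844) (nat_lit 107) (nat_lit 1) (nat_lit 106) (nat_lit 1) (nat_lit 108) (nat_lit 1) (nat_lit 315) (nat_lit 418) (nat_lit 287)) (XT.lf (nat_lit 152) (nat_lit 4867965667) (nat_lit 0) (nat_lit 1995113682) (nat_lit 76) (nat_lit 1995113682) (nat_lit 107) (nat_lit 1) (nat_lit 105) (nat_lit 1) (nat_lit 106) (nat_lit 1) (nat_lit 316) (nat_lit 418) (nat_lit 286)))))) (XT.nd (nat_lit 390) (nat_lit 304) (nat_lit 0) (XT.nd (nat_lit 156) (nat_lit 228) (nat_lit 0) (XT.nd (nat_lit 78) (nat_lit 152) (nat_lit 0) (XT.lf (nat_lit 0) (nat_lit 1005112138)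 (nat_lit 0) (nat_lit 6759705284) (nat_lit 152) (nat_lit 1005112138) (nat_lit 105) (nat_lit 3) (nat_lit 105) (nat_lit 1) (nat_lit 107) (nat_lit 1) (nat_lit 317) (nat_lit 418) (nat_lit 285)) (XT.lf (nat_lit 76) (nat_lit 3933860328) (nat_lit 0) (nat_lit 814346457) (nat_lit 152) (nat_lit 3933860328) (nat_lit 104) (nat_lit 1) (nat_lit 103) (nat_lit 1) (nat_lit 105) (nat_lit 1) (nat_lit 318) (nat_lit 418) (nat_lit 284))) (XT.nd (nat_lit 78) (nat_lit 152) (nat_lit 0) (XT.lf (nat_lit 152) (nat_lit 5050134575) (nat_lit 0) (nat_lit 1772632666) (nat_lit 76) (nat_lit 1772632666) (nat_lit 104) (nat_lit 1) (nat_lit 102) (nat_lit 1) (nat_lit 103) (nat_lit 1) (nat_lit 319) (nat_lit 418) (nat_lit 283)) (XT.nd (nat_lit 78) (nat_lit 152) (nat_lit 0) (XT.lf (nat_lit 0) (nat_lit 1132306387) (nat_lit 0) (nat_lit 6245187863) (nat_lit 152) (nat_lit 1132306387) (nat_lit 102) (nat_lit 3) (nat_lit 102) (nat_lit 1) (nat_lit 104)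 (nat_lit 1) (nat_lit 320) (nat_lit 418) (nat_lit 282)) (XT.lf (nat_lit 76) (nat_lit 3966769251) (nat_lit 0) (nat_lit 491228249) (nat_lit 152) (nat_lit 3966769251) (nat_lit 101) (nat_lit 1) (nat_lit 100) (nat_lit 1) (nat_lit 102) (nat_lit 1) (nat_lit 321) (nat_lit 418) (nat_lit 281))))) (XT.nd (nat_lit 156) (nat_lit 228) (nat_lit 0) (XT.nd (nat_lit 78) (nat_lit 0) (nat_lit 0) (XT.lf (nat_lit 152) (nat_lit 5190872491) (nat_lit 0) (nat_lit 1574961164) (nat_lit 76) (nat_lit 1574961164) (nat_lit 101) (nat_lit 1) (nat_lit 99) (nat_lit 1) (nat_lit 100) (nat_lit 1) (nat_lit 322) (nat_lit 418) (nat_lit 280)) (XT.lf (nat_lit 0) (nat_lit 1238347589) (nat_lit 0) (nat_lit 5781076558) (nat_lit 152) (nat_lit 1238347589) (nat_lit 99) (nat_lit 3) (nat_lit 99) (nat_lit 1) (nat_lit 101) (nat_lit 1) (nat_lit 323) (nat_lit 418) (nat_lit 279))) (XT.nd (nat_lit 78) (nat_lit 76) (nat_lit 0) (XT.lf (nat_lit 76) (nat_lit 3982272908)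 (nat_lit 0) (nat_lit 210908160) (nat_lit 152) (nat_lit 3982272908) (nat_lit 98) (nat_lit 1) (nat_lit 97) (nat_lit 1) (nat_lit 99) (nat_lit 1) (nat_lit 324) (nat_lit 418) (nat_lit 278)) (XT.nd (nat_lit 78) (nat_lit 0) (nat_lit 0) (XT.lf (nat_lit 152) (nat_lit 5295414559) (nat_lit 0) (nat_lit 1399332595) (nat_lit 76) (nat_lit 1399332595) (nat_lit 98) (nat_lit 1) (nat_lit 96) (nat_lit 1) (nat_lit 97) (nat_lit 1) (nat_lit 325) (nat_lit 418) (nat_lit 277)) (XT.lf (nat_lit 0) (nat_lit 1325797570) (nat_lit 0) (nat_lit 5361953421) (nat_lit 152) (nat_lit 1325797570) (nat_lit 96) (nat_lit 3) (nat_lit 96) (nat_lit 1) (nat_lit 98) (nat_lit 1) (nat_lit 326) (nat_lit 418) (nat_lit 276))))))) (XT.nd (nat_lit 702) (nat_lit 760) (nat_lit 0) (XT.nd (nat_lit 312) (nat_lit 380) (nat_lit 0) (XT.nd (nat_lit 156) (nat_lit 76) (nat_lit 0) (XT.nd (nat_lit 78) (nat_lit 152) (nat_lit 0) (XT.lf (nat_lit 76) (nat_lit 32212001)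 (nat_lit 0) (nat_lit 3950809915) (nat_lit 76) (nat_lit 3950809915) (nat_lit 96) (nat_lit 3) (nat_lit 95) (nat_lit 1) (nat_lit 96) (nat_lit 1) (nat_lit 327) (nat_lit 418) (nat_lit 275)) (XT.lf (nat_lit 152) (nat_lit 5368394223) (nat_lit 0) (nat_lit 1243288886) (nat_lit 76) (nat_lit 1243288886) (nat_lit 95) (nat_lit 1) (nat_lit 93) (nat_lit 1) (nat_lit 94) (nat_lit 1) (nat_lit 328) (nat_lit 418) (nat_lit 274))) (XT.nd (nat_lit 78) (nat_lit 76) (nat_lit 0) (XT.lf (nat_lit 0) (nat_lit 1396926568) (nat_lit 0) (nat_lit 4982998765) (nat_lit 152) (nat_lit 1396926568) (nat_lit 93) (nat_lit 3) (nat_lit 93) (nat_lit 1) (nat_lit 95) (nat_lit 1) (nat_lit 329) (nat_lit 418) (nat_lit 273)) (XT.lf (nat_lit 76) (nat_lit 245445754) (nat_lit 0) (nat_lit 3727069247) (nat_lit 76) (nat_lit 3727069247) (nat_lit 93) (nat_lit 3) (nat_lit 92) (nat_lit 1) (nat_lit 93) (nat_lit 1) (nat_lit 330) (nat_lit 418) (nat_lit 272)))) (XT.nd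 (nat_lit 156) (nat_lit 228) (nat_lit 0) (XT.nd (nat_lit 78) (nat_lit 0) (nat_lit 0) (XT.lf (nat_lit 152) (nat_lit 5413910846) (nat_lit 0) (nat_lit 1104646072) (nat_lit 76) (nat_lit 1104646072) (nat_lit 92) (nat_lit 1) (nat_lit 90) (nat_lit 1) (nat_lit 91) (nat_lit 1) (nat_lit 331) (nat_lit 418) (nat_lit 271)) (XT.lf (nat_lit 0) (nat_lit 1453745918) (nat_lit 0) (nat_lit 4639924618) (nat_lit 152) (nat_lit 1453745918) (nat_lit 90) (nat_lit 3) (nat_lit 90) (nat_lit 1) (nat_lit 92) (nat_lit 1) (nat_lit 332) (nat_lit 418) (nat_lit 270))) (XT.nd (nat_lit 78) (nat_lit 152) (nat_lit 0) (XT.lf (nat_lit 76) (nat_lit 428585867) (nat_lit 0) (nat_lit 3521963246) (nat_lit 76) (nat_lit 3521963246) (nat_lit 90) (nat_lit 3) (nat_lit 89) (nat_lit 1) (nat_lit 90) (nat_lit 1) (nat_lit 333) (nat_lit 418) (nat_lit 269)) (XT.nd (nat_lit 78) (nat_lit 0) (nat_lit 0) (XT.lf (nat_lit 152) (nat_lit 5435589772) (nat_lit 0) (nat_lit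 981463728) (nat_lit 76) (nat_lit 981463728) (nat_lit 89) (nat_lit 1) (nat_lit 87) (nat_lit 1) (nat_lit 88) (nat_lit 1) (nat_lit 334) (nat_lit 418) (nat_lit 268)) (XT.lf (nat_lit 0) (nat_lit 1498037095) (nat_lit 0) (nat_lit 4328915603) (nat_lit 152) (nat_lit 1498037095) (nat_lit 87) (nat_lit 3) (nat_lit 87) (nat_lit 1) (nat_lit 89) (nat_lit 1) (nat_lit 335) (nat_lit 418) (nat_lit 267)))))) (XT.nd (nat_lit 390) (nat_lit 304) (nat_lit 0) (XT.nd (nat_lit 156) (nat_lit 228) (nat_lit 0) (XT.nd (nat_lit 78) (nat_lit 152) (nat_lit 0) (XT.lf (nat_lit 76) (nat_lit 585172112) (nat_lit 0) (nat_lit 3333597847) (nat_lit 76) (nat_lit 3333597847) (nat_lit 87) (nat_lit 3) (nat_lit 86) (nat_lit 1) (nat_lit 87) (nat_lit 1) (nat_lit 336) (nat_lit 418) (nat_lit 266)) (XT.lf (nat_lit 152) (nat_lit 5436635681) (nat_lit 0) (nat_lit 872017810) (nat_lit 76) (nat_lit 872017810) (nat_lit 86) (nat_lit 1) (nat_lit 84) (nat_lit 1)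 (nat_lit 85) (nat_lit 1) (nat_lit 337) (nat_lit 418) (nat_lit 265))) (XT.nd (nat_lit 78) (nat_lit 228) (nat_lit 0) (XT.lf (nat_lit 0) (nat_lit 1531377504) (nat_lit 0) (nat_lit 4046576392) (nat_lit 152) (nat_lit 1531377504) (nat_lit 84) (nat_lit 3) (nat_lit 84) (nat_lit 1) (nat_lit 86) (nat_lit 1) (nat_lit 338) (nat_lit 418) (nat_lit 264)) (XT.nd (nat_lit 78) (nat_lit 152) (nat_lit 0) (XT.lf (nat_lit 76) (nat_lit 718344172) (nat_lit 0) (nat_lit 3160284840) (nat_lit 76) (nat_lit 3160284840) (nat_lit 84) (nat_lit 3) (nat_lit 83) (nat_lit 1) (nat_lit 84) (nat_lit 1) (nat_lit 339) (nat_lit 418) (nat_lit 263)) (XT.lf (nat_lit 152) (nat_lit 5419879969) (nat_lit 0) (nat_lit 774776530) (nat_lit 76) (nat_lit 774776530) (nat_lit 83) (nat_lit 1) (nat_lit 81) (nat_lit 1) (nat_lit 82) (nat_lit 1) (nat_lit 340) (nat_lit 418) (nat_lit 262))))) (XT.nd (nat_lit 156) (nat_lit 228) (nat_lit 0) (XT.nd (nat_lit 78) (nat_lit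 76) (nat_lit 0) (XT.lf (nat_lit 0) (nat_lit 1555163395) (nat_lit 0) (nat_lit 3789885030) (nat_lit 152) (nat_lit 1555163395) (nat_lit 81) (nat_lit 3) (nat_lit 81) (nat_lit 1) (nat_lit 83) (nat_lit 1) (nat_lit 341) (nat_lit 418) (nat_lit 261)) (XT.lf (nat_lit 76) (nat_lit 830886416) (nat_lit 0) (nat_lit 3000519071) (nat_lit 76) (nat_lit 3000519071) (nat_lit 81) (nat_lit 3) (nat_lit 80) (nat_lit 1) (nat_lit 81) (nat_lit 1) (nat_lit 342) (nat_lit 418) (nat_lit 260))) (XT.nd (nat_lit 78) (nat_lit 76) (nat_lit 0) (XT.lf (nat_lit 152) (nat_lit 5387822846) (nat_lit 0) (nat_lit 688378912) (nat_lit 76) (nat_lit 688378912) (nat_lit 80) (nat_lit 1) (nat_lit 78) (nat_lit 1) (nat_lit 79) (nat_lit 1) (nat_lit 343) (nat_lit 418) (nat_lit 259)) (XT.nd (nat_lit 78) (nat_lit 76) (nat_lit 0) (XT.lf (nat_lit 0) (nat_lit 1570630221) (nat_lit 0) (nat_lit 3556151449) (nat_lit 152) (nat_lit 1570630221) (nat_lit 78) (nat_lit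 3) (nat_lit 78) (nat_lit 1) (nat_lit 80) (nat_lit 1) (nat_lit 344) (nat_lit 418) (nat_lit 258)) (XT.lf (nat_lit 76) (nat_lit 925267666) (nat_lit 0) (nat_lit 2852958179) (nat_lit 76) (nat_lit 2852958179) (nat_lit 78) (nat_lit 3) (nat_lit 77) (nat_lit 1) (nat_lit 78) (nat_lit 1) (nat_lit 345) (nat_lit 418) (nat_lit 257))))))))
noncomputable def ec411 : XT := (XT.nd (nat_lit 1482) (nat_lit 1368) (nat_lit 0) (XT.nd (nat_lit 702) (nat_lit 836) (nat_lit 0) (XT.nd (nat_lit 312) (nat_lit 304) (nat_lit 0) (XT.nd (nat_lit 156) (nat_lit 228) (nat_lit 0) (XT.nd (nat_lit 78) (nat_lit 0) (nat_lit 0) (XT.lf (nat_lit 152) (nat_lit 5342670710) (nat_lit 0) (nat_lit 611615747) (nat_lit 76) (nat_lit 611615747) (nat_lit 77) (nat_lit 1) (nat_lit 75) (nat_lit 1) (nat_lit 76) (nat_lit 1) (nat_lit 346) (nat_lit 418) (nat_lit 256)) (XT.lf (nat_lit 0) (nat_lit 1578870712) (nat_lit 0) (nat_lit 3342980607) (nat_lit 152) (nat_lit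 1578870712) (nat_lit 75) (nat_lit 3) (nat_lit 75) (nat_lit 1) (nat_lit 77) (nat_lit 1) (nat_lit 347) (nat_lit 418) (nat_lit 255))) (XT.nd (nat_lit 78) (nat_lit 152) (nat_lit 0) (XT.lf (nat_lit 76) (nat_lit 1003676538) (nat_lit 0) (nat_lit 2716404591) (nat_lit 76) (nat_lit 2716404591) (nat_lit 75) (nat_lit 3) (nat_lit 74) (nat_lit 1) (nat_lit 75) (nat_lit 1) (nat_lit 348) (nat_lit 418) (nat_lit 254)) (XT.lf (nat_lit 152) (nat_lit 5286369354) (nat_lit 0) (nat_lit 543412669) (nat_lit 76) (nat_lit 543412669) (nat_lit 74) (nat_lit 1) (nat_lit 72) (nat_lit 1) (nat_lit 73) (nat_lit 1) (nat_lit 349) (nat_lit 418) (nat_lit 253)))) (XT.nd (nat_lit 156) (nat_lit 228) (nat_lit 0) (XT.nd (nat_lit 78) (nat_lit 76) (nat_lit 0) (XT.lf (nat_lit 0) (nat_lit 1580850939) (nat_lit 0) (nat_lit 3148239732) (nat_lit 152) (nat_lit 1580850939) (nat_lit 72) (nat_lit 3) (nat_lit 72) (nat_lit 1) (nat_lit 74) (nat_lit 1) (nat_lit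 350) (nat_lit 418) (nat_lit 252)) (XT.lf (nat_lit 76) (nat_lit 1068052828) (nat_lit 0) (nat_lit 2589789520) (nat_lit 76) (nat_lit 2589789520) (nat_lit 72) (nat_lit 3) (nat_lit 71) (nat_lit 1) (nat_lit 72) (nat_lit 1) (nat_lit 351) (nat_lit 418) (nat_lit 251))) (XT.nd (nat_lit 78) (nat_lit 76) (nat_lit 0) (XT.lf (nat_lit 152) (nat_lit 5220633445) (nat_lit 0) (nat_lit 482815118) (nat_lit 76) (nat_lit 482815118) (nat_lit 71) (nat_lit 1) (nat_lit 69) (nat_lit 1) (nat_lit 70) (nat_lit 1) (nat_lit 352) (nat_lit 418) (nat_lit 250)) (XT.nd (nat_lit 78) (nat_lit 76) (nat_lit 0) (XT.lf (nat_lit 0) (nat_lit 1577424576) (nat_lit 0) (nat_lit 2970029217) (nat_lit 152) (nat_lit 1577424576) (nat_lit 69) (nat_lit 3) (nat_lit 69) (nat_lit 1) (nat_lit 71) (nat_lit 1) (nat_lit 353) (nat_lit 418) (nat_lit 249)) (XT.lf (nat_lit 76) (nat_lit 1120115400) (nat_lit 0) (nat_lit 2472158741) (nat_lit 76) (nat_lit 2472158741) (nat_lit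 69) (nat_lit 3) (nat_lit 68) (nat_lit 1) (nat_lit 69) (nat_lit 1) (nat_lit 354) (nat_lit 418) (nat_lit 248)))))) (XT.nd (nat_lit 390) (nat_lit 456) (nat_lit 0) (XT.nd (nat_lit 156) (nat_lit 228) (nat_lit 0) (XT.nd (nat_lit 78) (nat_lit 0) (nat_lit 0) (XT.lf (nat_lit 152) (nat_lit 5146972717) (nat_lit 0) (nat_lit 428974979) (nat_lit 76) (nat_lit 428974979) (nat_lit 68) (nat_lit 1) (nat_lit 66) (nat_lit 1) (nat_lit 67) (nat_lit 1) (nat_lit 355) (nat_lit 418) (nat_lit 247)) (XT.lf (nat_lit 0) (nat_lit 1569345568) (nat_lit 0) (nat_lit 2806656755) (nat_lit 152) (nat_lit 1569345568) (nat_lit 66) (nat_lit 3) (nat_lit 66) (nat_lit 1) (nat_lit 68) (nat_lit 1) (nat_lit 356) (nat_lit 418) (nat_lit 246))) (XT.nd (nat_lit 78) (nat_lit 152) (nat_lit 0) (XT.lf (nat_lit 76) (nat_lit 1161386953) (nat_lit 0) (nat_lit 2362659949) (nat_lit 76) (nat_lit 2362659949) (nat_lit 66) (nat_lit 3) (nat_lit 65) (nat_lit 1) (nat_lit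 66) (nat_lit 1) (nat_lit 357) (nat_lit 418) (nat_lit 245)) (XT.nd (nat_lit 78) (nat_lit 0) (nat_lit 0) (XT.lf (nat_lit 152) (nat_lit 5066715215) (nat_lit 0) (nat_lit 381138713) (nat_lit 76) (nat_lit 381138713) (nat_lit 65) (nat_lit 1) (nat_lit 63) (nat_lit 1) (nat_lit 64) (nat_lit 1) (nat_lit 358) (nat_lit 418) (nat_lit 244)) (XT.lf (nat_lit 0) (nat_lit 1557279389) (nat_lit 0) (nat_lit 2656614353) (nat_lit 152) (nat_lit 1557279389) (nat_lit 63) (nat_lit 3) (nat_lit 63) (nat_lit 1) (nat_lit 65) (nat_lit 1) (nat_lit 359) (nat_lit 418) (nat_lit 243))))) (XT.nd (nat_lit 156) (nat_lit 228) (nat_lit 0) (XT.nd (nat_lit 78) (nat_lit 152) (nat_lit 0) (XT.lf (nat_lit 76) (nat_lit 1193216030) (nat_lit 0) (nat_lit 2260531528) (nat_lit 76) (nat_lit 2260531528) (nat_lit 63) (nat_lit 3) (nat_lit 62) (nat_lit 1) (nat_lit 63) (nat_lit 1) (nat_lit 360) (nat_lit 418) (nat_lit 242)) (XT.lf (nat_lit 152) (nat_lit 4981027950)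 (nat_lit 0) (nat_lit 338636810) (nat_lit 76) (nat_lit 338636810) (nat_lit 62) (nat_lit 1) (nat_lit 60) (nat_lit 1) (nat_lit 61) (nat_lit 1) (nat_lit 361) (nat_lit 418) (nat_lit 241))) (XT.nd (nat_lit 78) (nat_lit 228) (nat_lit 0) (XT.lf (nat_lit 0) (nat_lit 1541813032) (nat_lit 0) (nat_lit 2518557908) (nat_lit 152) (nat_lit 1541813032) (nat_lit 60) (nat_lit 3) (nat_lit 60) (nat_lit 1) (nat_lit 62) (nat_lit 1) (nat_lit 362) (nat_lit 418) (nat_lit 240)) (XT.nd (nat_lit 78) (nat_lit 152) (nat_lit 0) (XT.lf (nat_lit 76) (nat_lit 1216796565) (nat_lit 0) (nat_lit 2165092562) (nat_lit 76) (nat_lit 2165092562) (nat_lit 60) (nat_lit 3) (nat_lit 59) (nat_lit 1) (nat_lit 60) (nat_lit 1) (nat_lit 363) (nat_lit 418) (nat_lit 239)) (XT.lf (nat_lit 152) (nat_lit 4890935234) (nat_lit 0) (nat_lit 300874419) (nat_lit 76) (nat_lit 300874419) (nat_lit 59) (nat_lit 1) (nat_lit 57) (nat_lit 1) (nat_lit 58) (nat_lit 1) (nat_lit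 364) (nat_lit 418) (nat_lit 238))))))) (XT.nd (nat_lit 702) (nat_lit 684) (nat_lit 0) (XT.nd (nat_lit 312) (nat_lit 456) (nat_lit 0) (XT.nd (nat_lit 156) (nat_lit 152) (nat_lit 0) (XT.nd (nat_lit 78) (nat_lit 76) (nat_lit 0) (XT.lf (nat_lit 0) (nat_lit 1523463884) (nat_lit 0) (nat_lit 2391289056) (nat_lit 152) (nat_lit 1523463884) (nat_lit 57) (nat_lit 3) (nat_lit 57) (nat_lit 1) (nat_lit 59) (nat_lit 1) (nat_lit 365) (nat_lit 418) (nat_lit 237)) (XT.lf (nat_lit 76) (nat_lit 1233185247) (nat_lit 0) (nat_lit 2075733958) (nat_lit 76) (nat_lit 2075733958) (nat_lit 57) (nat_lit 3) (nat_lit 56) (nat_lit 1) (nat_lit 57) (nat_lit 1) (nat_lit 366) (nat_lit 418) (nat_lit 236))) (XT.nd (nat_lit 78) (nat_lit 0) (nat_lit 0) (XT.lf (nat_lit 152) (nat_lit 4797334951) (nat_lit 0) (nat_lit 267323025) (nat_lit 76) (nat_lit 267323025) (nat_lit 56) (nat_lit 1) (nat_lit 54) (nat_lit 1) (nat_lit 55) (nat_lit 1) (nat_lit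 367) (nat_lit 418) (nat_lit 235)) (XT.lf (nat_lit 0) (nat_lit 1502687613) (nat_lit 0) (nat_lit 2273739038) (nat_lit 152) (nat_lit 1502687613) (nat_lit 54) (nat_lit 3) (nat_lit 54) (nat_lit 1) (nat_lit 56) (nat_lit 1) (nat_lit 368) (nat_lit 418) (nat_lit 234)))) (XT.nd (nat_lit 156) (nat_lit 228) (nat_lit 0) (XT.nd (nat_lit 78) (nat_lit 152) (nat_lit 0) (XT.lf (nat_lit 76) (nat_lit 1243316945) (nat_lit 0) (nat_lit 1991910561) (nat_lit 76) (nat_lit 1991910561) (nat_lit 54) (nat_lit 3) (nat_lit 53) (nat_lit 1) (nat_lit 54) (nat_lit 1) (nat_lit 369) (nat_lit 418) (nat_lit 233)) (XT.lf (nat_lit 152) (nat_lit 4701013021) (nat_lit 0) (nat_lit 237513045) (nat_lit 76) (nat_lit 237513045) (nat_lit 53) (nat_lit 1) (nat_lit 51) (nat_lit 1) (nat_lit 52) (nat_lit 1) (nat_lit 370) (nat_lit 418) (nat_lit 232))) (XT.nd (nat_lit 78) (nat_lit 228) (nat_lit 0) (XT.lf (nat_lit 0) (nat_lit 1479885165) (nat_lit 0) (nat_lit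 2164954370) (nat_lit 152) (nat_lit 1479885165) (nat_lit 51) (nat_lit 3) (nat_lit 51) (nat_lit 1) (nat_lit 53) (nat_lit 1) (nat_lit 371) (nat_lit 418) (nat_lit 231)) (XT.nd (nat_lit 78) (nat_lit 152) (nat_lit 0) (XT.lf (nat_lit 76) (nat_lit 1248018405) (nat_lit 0) (nat_lit 1913134137) (nat_lit 76) (nat_lit 1913134137) (nat_lit 51) (nat_lit 3) (nat_lit 50) (nat_lit 1) (nat_lit 51) (nat_lit 1) (nat_lit 372) (nat_lit 418) (nat_lit 230)) (XT.lf (nat_lit 152) (nat_lit 4602656222) (nat_lit 0) (nat_lit 211027264) (nat_lit 76) (nat_lit 211027264) (nat_lit 50) (nat_lit 1) (nat_lit 48) (nat_lit 1) (nat_lit 49) (nat_lit 1) (nat_lit 373) (nat_lit 418) (nat_lit 229)))))) (XT.nd (nat_lit 390) (nat_lit 380) (nat_lit 0) (XT.nd (nat_lit 156) (nat_lit 228) (nat_lit 0) (XT.nd (nat_lit 78) (nat_lit 76) (nat_lit 0) (XT.lf (nat_lit 0) (nat_lit 1455408980) (nat_lit 0) (nat_lit 2064084095) (nat_lit 152) (nat_lit 1455408980)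 (nat_lit 48) (nat_lit 3) (nat_lit 48) (nat_lit 1) (nat_lit 50) (nat_lit 1) (nat_lit 374) (nat_lit 418) (nat_lit 228)) (XT.lf (nat_lit 76) (nat_lit 1248020424) (nat_lit 0) (nat_lit 1838967137) (nat_lit 76) (nat_lit 1838967137) (nat_lit 48) (nat_lit 3) (nat_lit 47) (nat_lit 1) (nat_lit 48) (nat_lit 1) (nat_lit 375) (nat_lit 418) (nat_lit 227))) (XT.nd (nat_lit 78) (nat_lit 76) (nat_lit 0) (XT.lf (nat_lit 152) (nat_lit 4502863586) (nat_lit 0) (nat_lit 187494991) (nat_lit 76) (nat_lit 187494991) (nat_lit 47) (nat_lit 1) (nat_lit 45) (nat_lit 1) (nat_lit 46) (nat_lit 1) (nat_lit 376) (nat_lit 418) (nat_lit 226)) (XT.nd (nat_lit 78) (nat_lit 76) (nat_lit 0) (XT.lf (nat_lit 0) (nat_lit 1429568512) (nat_lit 0) (nat_lit 1970368469) (nat_lit 152) (nat_lit 1429568512) (nat_lit 45) (nat_lit 3) (nat_lit 45) (nat_lit 1) (nat_lit 47) (nat_lit 1) (nat_lit 377) (nat_lit 418) (nat_lit 225)) (XT.lf (nat_lit 76) (nat_lit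 1243968657) (nat_lit 0) (nat_lit 1769017158) (nat_lit 76) (nat_lit 1769017158) (nat_lit 45) (nat_lit 3) (nat_lit 44) (nat_lit 1) (nat_lit 45) (nat_lit 1) (nat_lit 378) (nat_lit 418) (nat_lit 224))))) (XT.nd (nat_lit 156) (nat_lit 228) (nat_lit 0) (XT.nd (nat_lit 78) (nat_lit 0) (nat_lit 0) (XT.lf (nat_lit 152) (nat_lit 4402156506) (nat_lit 0) (nat_lit 166586871) (nat_lit 76) (nat_lit 166586871) (nat_lit 44) (nat_lit 1) (nat_lit 42) (nat_lit 1) (nat_lit 43) (nat_lit 1) (nat_lit 379) (nat_lit 418) (nat_lit 223)) (XT.lf (nat_lit 0) (nat_lit 1402635131) (nat_lit 0) (nat_lit 1883128887) (nat_lit 152) (nat_lit 1402635131) (nat_lit 42) (nat_lit 3) (nat_lit 42) (nat_lit 1) (nat_lit 44) (nat_lit 1) (nat_lit 380) (nat_lit 418) (nat_lit 222))) (XT.nd (nat_lit 78) (nat_lit 152) (nat_lit 0) (XT.lf (nat_lit 76) (nat_lit 1236433220) (nat_lit 0) (nat_lit 1702932013) (nat_lit 76) (nat_lit 1702932013) (nat_lit 42) (nat_lit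 3) (nat_lit 41) (nat_lit 1) (nat_lit 42) (nat_lit 1) (nat_lit 381) (nat_lit 418) (nat_lit 221)) (XT.nd (nat_lit 78) (nat_lit 0) (nat_lit 0) (XT.lf (nat_lit 152) (nat_lit 4300987709) (nat_lit 0) (nat_lit 148010277) (nat_lit 76) (nat_lit 148010277) (nat_lit 41) (nat_lit 1) (nat_lit 39) (nat_lit 1) (nat_lit 40) (nat_lit 1) (nat_lit 382) (nat_lit 418) (nat_lit 220)) (XT.lf (nat_lit 0) (nat_lit 1374846470) (nat_lit 0) (nat_lit 1801758950) (nat_lit 152) (nat_lit 1374846470) (nat_lit 39) (nat_lit 3) (nat_lit 39) (nat_lit 1) (nat_lit 41) (nat_lit 1) (nat_lit 383) (nat_lit 418) (nat_lit 219))))))))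
noncomputable def ec412 : XT := (XT.nd (nat_lit 1482) (nat_lit 1064) (nat_lit 0) (XT.nd (nat_lit 702) (nat_lit 760) (nat_lit 0) (XT.nd (nat_lit 312) (nat_lit 380) (nat_lit 0) (XT.nd (nat_lit 156) (nat_lit 76) (nat_lit 0) (XT.nd (nat_lit 78) (nat_lit 152) (nat_lit 0) (XT.lf (nat_lit 76) (nat_lit 1225917212) (nat_lit 0) (nat_lit 1640395348) (nat_lit 76) (nat_lit 1640395348) (nat_lit 39) (nat_lit 3) (nat_lit 38) (nat_lit 1) (nat_lit 39) (nat_lit 1) (nat_lit 384) (nat_lit 418) (nat_lit 218)) (XT.lf (nat_lit 152) (nat_lit 4199749223) (nat_lit 0) (nat_lit 131505214) (nat_lit 76) (nat_lit 131505214) (nat_lit 38) (nat_lit 1) (nat_lit 36) (nat_lit 1) (nat_lit 37) (nat_lit 1) (nat_lit 385) (nat_lit 418) (nat_lit 217))) (XT.nd (nat_lit 78) (nat_lit 76) (nat_lit 0) (XT.lf (nat_lit 0) (nat_lit 1346410295) (nat_lit 0) (nat_lit 1725716503) (nat_lit 152) (nat_lit 1346410295) (nat_lit 36) (nat_lit 3) (nat_lit 36) (nat_lit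 1) (nat_lit 38) (nat_lit 1) (nat_lit 386) (nat_lit 418) (nat_lit 216)) (XT.lf (nat_lit 76) (nat_lit 1212864294) (nat_lit 0) (nat_lit 1581122749) (nat_lit 76) (nat_lit 1581122749) (nat_lit 36) (nat_lit 3) (nat_lit 35) (nat_lit 1) (nat_lit 36) (nat_lit 1) (nat_lit 387) (nat_lit 418) (nat_lit 215)))) (XT.nd (nat_lit 156) (nat_lit 228) (nat_lit 0) (XT.nd (nat_lit 78) (nat_lit 0) (nat_lit 0) (XT.lf (nat_lit 152) (nat_lit 4098779440) (nat_lit 0) (nat_lit 116840679) (nat_lit 76) (nat_lit 116840679) (nat_lit 35) (nat_lit 1) (nat_lit 33) (nat_lit 1) (nat_lit 34) (nat_lit 1) (nat_lit 388) (nat_lit 418) (nat_lit 214)) (XT.lf (nat_lit 0) (nat_lit 1317507927) (nat_lit 0) (nat_lit 1654516580) (nat_lit 152) (nat_lit 1317507927) (nat_lit 33) (nat_lit 3) (nat_lit 33) (nat_lit 1) (nat_lit 35) (nat_lit 1) (nat_lit 389) (nat_lit 418) (nat_lit 213))) (XT.nd (nat_lit 78) (nat_lit 152) (nat_lit 0) (XT.lf (nat_lit 76) (nat_lit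 1197665409) (nat_lit 0) (nat_lit 1524858276) (nat_lit 76) (nat_lit 1524858276) (nat_lit 33) (nat_lit 3) (nat_lit 32) (nat_lit 1) (nat_lit 33) (nat_lit 1) (nat_lit 390) (nat_lit 418) (nat_lit 212)) (XT.nd (nat_lit 78) (nat_lit 0) (nat_lit 0) (XT.lf (nat_lit 152) (nat_lit 3998369387) (nat_lit 0) (nat_lit 103811430) (nat_lit 76) (nat_lit 103811430) (nat_lit 32) (nat_lit 1) (nat_lit 30) (nat_lit 1) (nat_lit 31) (nat_lit 1) (nat_lit 391) (nat_lit 418) (nat_lit 211)) (XT.lf (nat_lit 0) (nat_lit 1288297290) (nat_lit 0) (nat_lit 1587725114) (nat_lit 152) (nat_lit 1288297290) (nat_lit 30) (nat_lit 3) (nat_lit 30) (nat_lit 1) (nat_lit 32) (nat_lit 1) (nat_lit 392) (nat_lit 418) (nat_lit 210)))))) (XT.nd (nat_lit 390) (nat_lit 304) (nat_lit 0) (XT.nd (nat_lit 156) (nat_lit 228) (nat_lit 0) (XT.nd (nat_lit 78) (nat_lit 152) (nat_lit 0) (XT.lf (nat_lit 76) (nat_lit 1180664760) (nat_lit 0) (nat_lit 1471371385) (nat_lit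 76) (nat_lit 1471371385) (nat_lit 30) (nat_lit 3) (nat_lit 29) (nat_lit 1) (nat_lit 30) (nat_lit 1) (nat_lit 393) (nat_lit 418) (nat_lit 209)) (XT.lf (nat_lit 152) (nat_lit 3898768289) (nat_lit 0) (nat_lit 92235111) (nat_lit 76) (nat_lit 92235111) (nat_lit 29) (nat_lit 1) (nat_lit 27) (nat_lit 1) (nat_lit 28) (nat_lit 1) (nat_lit 394) (nat_lit 418) (nat_lit 208))) (XT.nd (nat_lit 78) (nat_lit 228) (nat_lit 0) (XT.lf (nat_lit 0) (nat_lit 1258915613) (nat_lit 0) (nat_lit 1524953356) (nat_lit 152) (nat_lit 1258915613) (nat_lit 27) (nat_lit 3) (nat_lit 27) (nat_lit 1) (nat_lit 29) (nat_lit 1) (nat_lit 395) (nat_lit 418) (nat_lit 207)) (XT.nd (nat_lit 78) (nat_lit 152) (nat_lit 0) (XT.lf (nat_lit 76) (nat_lit 1162165110) (nat_lit 0) (nat_lit 1420454181) (nat_lit 76) (nat_lit 1420454181) (nat_lit 27) (nat_lit 3) (nat_lit 26) (nat_lit 1) (nat_lit 27) (nat_lit 1) (nat_lit 396) (nat_lit 418) (nat_lit 206)) (XT.lf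 (nat_lit 152) (nat_lit 3800188503) (nat_lit 0) (nat_lit 81949702) (nat_lit 76) (nat_lit 81949702) (nat_lit 26) (nat_lit 1) (nat_lit 24) (nat_lit 1) (nat_lit 25) (nat_lit 1) (nat_lit 397) (nat_lit 418) (nat_lit 205))))) (XT.nd (nat_lit 156) (nat_lit 228) (nat_lit 0) (XT.nd (nat_lit 78) (nat_lit 76) (nat_lit 0) (XT.lf (nat_lit 0) (nat_lit 1229481826) (nat_lit 0) (nat_lit 1465852915) (nat_lit 152) (nat_lit 1229481826) (nat_lit 24) (nat_lit 3) (nat_lit 24) (nat_lit 1) (nat_lit 26) (nat_lit 1) (nat_lit 398) (nat_lit 418) (nat_lit 204)) (XT.lf (nat_lit 76) (nat_lit 1142432496) (nat_lit 0) (nat_lit 1371918990) (nat_lit 76) (nat_lit 1371918990) (nat_lit 24) (nat_lit 3) (nat_lit 23) (nat_lit 1) (nat_lit 24) (nat_lit 1) (nat_lit 399) (nat_lit 418) (nat_lit 203))) (XT.nd (nat_lit 78) (nat_lit 76) (nat_lit 0) (XT.lf (nat_lit 152) (nat_lit 3702809890) (nat_lit 0) (nat_lit 72811248) (nat_lit 76) (nat_lit 72811248)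 (nat_lit 23) (nat_lit 1) (nat_lit 21) (nat_lit 1) (nat_lit 22) (nat_lit 1) (nat_lit 400) (nat_lit 418) (nat_lit 202)) (XT.nd (nat_lit 78) (nat_lit 76) (nat_lit 0) (XT.lf (nat_lit 0) (nat_lit 1200098686) (nat_lit 0) (nat_lit 1410111337) (nat_lit 152) (nat_lit 1200098686) (nat_lit 21) (nat_lit 3) (nat_lit 21) (nat_lit 1) (nat_lit 23) (nat_lit 1) (nat_lit 401) (nat_lit 418) (nat_lit 201)) (XT.lf (nat_lit 76) (nat_lit 1121700406) (nat_lit 0) (nat_lit 1325596184) (nat_lit 76) (nat_lit 1325596184) (nat_lit 21) (nat_lit 3) (nat_lit 20) (nat_lit 1) (nat_lit 21) (nat_lit 1) (nat_lit 402) (nat_lit 418) (nat_lit 200))))))) (XT.nd (nat_lit 702) (nat_lit 380) (nat_lit 0) (XT.nd (nat_lit 312) (nat_lit 304) (nat_lit 0) (XT.nd (nat_lit 156) (nat_lit 228) (nat_lit 0) (XT.nd (nat_lit 78) (nat_lit 0) (nat_lit 0) (XT.lf (nat_lit 152) (nat_lit 3606783702) (nat_lit 0) (nat_lit 64691851) (nat_lit 76) (nat_lit 64691851) (nat_lit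 20) (nat_lit 1) (nat_lit 18) (nat_lit 1) (nat_lit 19) (nat_lit 1) (nat_lit 403) (nat_lit 418) (nat_lit 199)) (XT.lf (nat_lit 0) (nat_lit 1170854672) (nat_lit 0) (nat_lit 1357448192) (nat_lit 152) (nat_lit 1170854672) (nat_lit 18) (nat_lit 3) (nat_lit 18) (nat_lit 1) (nat_lit 20) (nat_lit 1) (nat_lit 404) (nat_lit 418) (nat_lit 198))) (XT.nd (nat_lit 78) (nat_lit 152) (nat_lit 0) (XT.lf (nat_lit 76) (nat_lit 1100173496) (nat_lit 0) (nat_lit 1281332254) (nat_lit 76) (nat_lit 1281332254) (nat_lit 18) (nat_lit 3) (nat_lit 17) (nat_lit 1) (nat_lit 18) (nat_lit 1) (nat_lit 405) (nat_lit 418) (nat_lit 197)) (XT.lf (nat_lit 152) (nat_lit 3512236016) (nat_lit 0) (nat_lit 57477872) (nat_lit 76) (nat_lit 57477872) (nat_lit 17) (nat_lit 1) (nat_lit 15) (nat_lit 1) (nat_lit 16) (nat_lit 1) (nat_lit 406) (nat_lit 418) (nat_lit 196)))) (XT.nd (nat_lit 156) (nat_lit 228) (nat_lit 0) (XT.nd (nat_lit 78) (nat_lit 76)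 (nat_lit 0) (XT.lf (nat_lit 0) (nat_lit 1141825650) (nat_lit 0) (nat_lit 1307611576) (nat_lit 152) (nat_lit 1141825650) (nat_lit 15) (nat_lit 3) (nat_lit 15) (nat_lit 1) (nat_lit 17) (nat_lit 1) (nat_lit 407) (nat_lit 418) (nat_lit 195)) (XT.lf (nat_lit 76) (nat_lit 1078030886) (nat_lit 0) (nat_lit 1238988095) (nat_lit 76) (nat_lit 1238988095) (nat_lit 15) (nat_lit 3) (nat_lit 14) (nat_lit 1) (nat_lit 15) (nat_lit 1) (nat_lit 408) (nat_lit 418) (nat_lit 194))) (XT.nd (nat_lit 78) (nat_lit 76) (nat_lit 0) (XT.lf (nat_lit 152) (nat_lit 3419270783) (nat_lit 0) (nat_lit 51068344) (nat_lit 76) (nat_lit 51068344) (nat_lit 14) (nat_lit 1) (nat_lit 12) (nat_lit 1) (nat_lit 13) (nat_lit 1) (nat_lit 409) (nat_lit 418) (nat_lit 193)) (XT.nd (nat_lit 78) (nat_lit 76) (nat_lit 0) (XT.lf (nat_lit 0) (nat_lit 1113076369) (nat_lit 0) (nat_lit 1260375017) (nat_lit 152) (nat_lit 1113076369) (nat_lit 12) (nat_lit 3) (nat_lit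 12) (nat_lit 1) (nat_lit 14) (nat_lit 1) (nat_lit 410) (nat_lit 418) (nat_lit 192)) (XT.lf (nat_lit 76) (nat_lit 1055429085) (nat_lit 0) (nat_lit 1198437481) (nat_lit 76) (nat_lit 1198437481) (nat_lit 12) (nat_lit 3) (nat_lit 11) (nat_lit 1) (nat_lit 12) (nat_lit 1) (nat_lit 411) (nat_lit 418) (nat_lit 191)))))) (XT.nd (nat_lit 35490) (nat_lit 0) (nat_lit 28120) (XT.nd (nat_lit 156) (nat_lit 228) (nat_lit 0) (XT.nd (nat_lit 78) (nat_lit 0) (nat_lit 0) (XT.lf (nat_lit 152) (nat_lit 3327972537) (nat_lit 0) (nat_lit 45373563) (nat_lit 76) (nat_lit 45373563) (nat_lit 11) (nat_lit 1) (nat_lit 9) (nat_lit 1) (nat_lit 10) (nat_lit 1) (nat_lit 412) (nat_lit 418) (nat_lit 190)) (XT.lf (nat_lit 0) (nat_lit 1084661769) (nat_lit 0) (nat_lit 1215534710) (nat_lit 152) (nat_lit 1084661769) (nat_lit 9) (nat_lit 3) (nat_lit 9) (nat_lit 1) (nat_lit 11) (nat_lit 1) (nat_lit 413) (nat_lit 418) (nat_lit 189))) (XT.nd (nat_lit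 78) (nat_lit 152) (nat_lit 0) (XT.lf (nat_lit 76) (nat_lit 1032504592) (nat_lit 0) (nat_lit 1159565700) (nat_lit 76) (nat_lit 1159565700) (nat_lit 9) (nat_lit 3) (nat_lit 8) (nat_lit 1) (nat_lit 9) (nat_lit 1) (nat_lit 414) (nat_lit 418) (nat_lit 188)) (XT.nd (nat_lit 78) (nat_lit 0) (nat_lit 0) (XT.lf (nat_lit 152) (nat_lit 3238408778) (nat_lit 0) (nat_lit 40313823) (nat_lit 76) (nat_lit 40313823) (nat_lit 8) (nat_lit 1) (nat_lit 6) (nat_lit 1) (nat_lit 7) (nat_lit 1) (nat_lit 415) (nat_lit 418) (nat_lit 187)) (XT.lf (nat_lit 0) (nat_lit 1056628159) (nat_lit 0) (nat_lit 1172907072) (nat_lit 152) (nat_lit 1056628159) (nat_lit 6) (nat_lit 3) (nat_lit 6) (nat_lit 1) (nat_lit 8) (nat_lit 1) (nat_lit 416) (nat_lit 418) (nat_lit 186))))) (XT.nd (nat_lit 156) (nat_lit 0) (nat_lit 76) (XT.nd (nat_lit 78) (nat_lit 0) (nat_lit 0) (XT.lf (nat_lit 1292) (nat_lit 6489422837) (nat_lit 0) (nat_lit 26562570233) (nat_lit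 1216) (nat_lit 6489422837) (nat_lit 393) (nat_lit 1) (nat_lit 376) (nat_lit 1) (nat_lit 392) (nat_lit 1) (nat_lit 186) (nat_lit 419) (nat_lit 415)) (XT.lf (nat_lit 1292) (nat_lit 11892552541) (nat_lit 76) (nat_lit 13540280530) (nat_lit 0) (nat_lit 13540280530) (nat_lit 393) (nat_lit 1) (nat_lit 377) (nat_lit 1) (nat_lit 376) (nat_lit 1) (nat_lit 187) (nat_lit 419) (nat_lit 414))) (XT.nd (nat_lit 78) (nat_lit 0) (nat_lit 0) (XT.lf (nat_lit 1292) (nat_lit 5360075484) (nat_lit 0) (nat_lit 27697783266) (nat_lit 1216) (nat_lit 5360075484) (nat_lit 394) (nat_lit 1) (nat_lit 377) (nat_lit 1) (nat_lit 393) (nat_lit 1) (nat_lit 188) (nat_lit 419) (nat_lit 413)) (XT.nd (nat_lit 78) (nat_lit 0) (nat_lit 76) (XT.lf (nat_lit 1292) (nat_lit 9310350119) (nat_lit 76) (nat_lit 14280332944) (nat_lit 0) (nat_lit 14280332944) (nat_lit 394) (nat_lit 1) (nat_lit 378) (nat_lit 1) (nat_lit 377) (nat_lit 1) (nat_lit 189) (nat_lit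 419) (nat_lit 412)) (XT.lf (nat_lit 1292) (nat_lit 3924714873) (nat_lit 0) (nat_lit 29487912787) (nat_lit 1216) (nat_lit 3924714873) (nat_lit 395) (nat_lit 1) (nat_lit 378) (nat_lit 1) (nat_lit 394) (nat_lit 1) (nat_lit 190) (nat_lit 419) (nat_lit 411))))))))
noncomputable def ec413 : XT := (XT.nd (nat_lit 1482) (nat_lit 5016) (nat_lit 0) (XT.nd (nat_lit 702) (nat_lit 3648) (nat_lit 0) (XT.nd (nat_lit 312) (nat_lit 1140) (nat_lit 0) (XT.nd (nat_lit 156) (nat_lit 0) (nat_lit 76) (XT.nd (nat_lit 78) (nat_lit 0) (nat_lit 76) (XT.lf (nat_lit 1292) (nat_lit 6141963267) (nat_lit 76) (nat_lit 15334414686) (nat_lit 0) (nat_lit 15334414686) (nat_lit 395) (nat_lit 1) (nat_lit 379) (nat_lit 1) (nat_lit 378) (nat_lit 1) (nat_lit 191) (nat_lit 419) (nat_lit 410)) (XT.lf (nat_lit 1292) (nat_lit 2211708652) (nat_lit 0) (nat_lit 31874390638) (nat_lit 1216) (nat_lit 2211708652) (nat_lit 396) (nat_lit 1) (nat_lit 379)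 (nat_lit 1) (nat_lit 395) (nat_lit 1) (nat_lit 192) (nat_lit 419) (nat_lit 409))) (XT.nd (nat_lit 78) (nat_lit 0) (nat_lit 76) (XT.lf (nat_lit 1292) (nat_lit 2442432053) (nat_lit 76) (nat_lit 16674115363) (nat_lit 0) (nat_lit 16674115363) (nat_lit 396) (nat_lit 1) (nat_lit 380) (nat_lit 1) (nat_lit 379) (nat_lit 1) (nat_lit 193) (nat_lit 419) (nat_lit 408)) (XT.lf (nat_lit 1292) (nat_lit 247481453) (nat_lit 0) (nat_lit 34802621585) (nat_lit 1216) (nat_lit 247481453) (nat_lit 397) (nat_lit 1) (nat_lit 380) (nat_lit 1) (nat_lit 396) (nat_lit 1) (nat_lit 194) (nat_lit 419) (nat_lit 407)))) (XT.nd (nat_lit 156) (nat_lit 0) (nat_lit 76) (XT.nd (nat_lit 78) (nat_lit 0) (nat_lit 0) (XT.lf (nat_lit 1368) (nat_lit 16552668856) (nat_lit 0) (nat_lit 1703091157) (nat_lit 1292) (nat_lit 16552668856) (nat_lit 381) (nat_lit 1) (nat_lit 363) (nat_lit 1) (nat_lit 380) (nat_lit 1) (nat_lit 195) (nat_lit 419) (nat_lit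 406)) (XT.lf (nat_lit 1368) (nat_lit 30484131979) (nat_lit 76) (nat_lit 1924311821) (nat_lit 0) (nat_lit 1924311821) (nat_lit 381) (nat_lit 1) (nat_lit 364) (nat_lit 1) (nat_lit 363) (nat_lit 1) (nat_lit 196) (nat_lit 419) (nat_lit 405))) (XT.nd (nat_lit 78) (nat_lit 0) (nat_lit 0) (XT.lf (nat_lit 1368) (nat_lit 13818724478) (nat_lit 0) (nat_lit 6224697014) (nat_lit 1292) (nat_lit 13818724478) (nat_lit 382) (nat_lit 1) (nat_lit 364) (nat_lit 1) (nat_lit 381) (nat_lit 1) (nat_lit 197) (nat_lit 419) (nat_lit 404)) (XT.nd (nat_lit 78) (nat_lit 0) (nat_lit 76) (XT.lf (nat_lit 1368) (nat_lit 24812652589) (nat_lit 76) (nat_lit 4295406668) (nat_lit 0) (nat_lit 4295406668) (nat_lit 382) (nat_lit 1) (nat_lit 365) (nat_lit 1) (nat_lit 364) (nat_lit 1) (nat_lit 198) (nat_lit 419) (nat_lit 403)) (XT.lf (nat_lit 76) (nat_lit 10912231008) (nat_lit 0) (nat_lit 11126528047) (nat_lit 1292) (nat_lit 10912231008) (nat_lit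 366) (nat_lit 1) (nat_lit 365) (nat_lit 1) (nat_lit 382) (nat_lit 1) (nat_lit 199) (nat_lit 419) (nat_lit 402)))))) (XT.nd (nat_lit 390) (nat_lit 1748) (nat_lit 0) (XT.nd (nat_lit 156) (nat_lit 1216) (nat_lit 0) (XT.nd (nat_lit 78) (nat_lit 0) (nat_lit 0) (XT.lf (nat_lit 912) (nat_lit 18814222513) (nat_lit 0) (nat_lit 6847146702) (nat_lit 836) (nat_lit 6847146702) (nat_lit 366) (nat_lit 1) (nat_lit 354) (nat_lit 1) (nat_lit 365) (nat_lit 1) (nat_lit 200) (nat_lit 419) (nat_lit 401)) (XT.lf (nat_lit 76) (nat_lit 7852690228) (nat_lit 0) (nat_lit 16368123296) (nat_lit 912) (nat_lit 7852690228) (nat_lit 355) (nat_lit 1) (nat_lit 354) (nat_lit 1) (nat_lit 366) (nat_lit 1) (nat_lit 201) (nat_lit 419) (nat_lit 400))) (XT.nd (nat_lit 78) (nat_lit 608) (nat_lit 0) (XT.lf (nat_lit 684) (nat_lit 12526615402) (nat_lit 0) (nat_lit 9559936254) (nat_lit 608) (nat_lit 9559936254) (nat_lit 355) (nat_lit 1) (nat_lit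 346) (nat_lit 1) (nat_lit 354) (nat_lit 1) (nat_lit 202) (nat_lit 419) (nat_lit 399)) (XT.nd (nat_lit 78) (nat_lit 608) (nat_lit 0) (XT.lf (nat_lit 76) (nat_lit 4658204920) (nat_lit 0) (nat_lit 21911887176) (nat_lit 684) (nat_lit 4658204920) (nat_lit 347) (nat_lit 1) (nat_lit 346) (nat_lit 1) (nat_lit 355) (nat_lit 1) (nat_lit 203) (nat_lit 419) (nat_lit 398)) (XT.lf (nat_lit 684) (nat_lit 5984882991) (nat_lit 0) (nat_lit 12415573243) (nat_lit 608) (nat_lit 12415573243) (nat_lit 347) (nat_lit 1) (nat_lit 338) (nat_lit 1) (nat_lit 346) (nat_lit 1) (nat_lit 204) (nat_lit 419) (nat_lit 397))))) (XT.nd (nat_lit 156) (nat_lit 1140) (nat_lit 0) (XT.nd (nat_lit 78) (nat_lit 608) (nat_lit 0) (XT.lf (nat_lit 76) (nat_lit 1345567317) (nat_lit 0) (nat_lit 27722909185) (nat_lit 684) (nat_lit 1345567317) (nat_lit 339) (nat_lit 1) (nat_lit 338) (nat_lit 1) (nat_lit 347) (nat_lit 1) (nat_lit 205) (nat_lit 419) (nat_lit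 396)) (XT.lf (nat_lit 76) (nat_lit 14626171978) (nat_lit 0) (nat_lit 763281725) (nat_lit 608) (nat_lit 14626171978) (nat_lit 331) (nat_lit 1) (nat_lit 330) (nat_lit 1) (nat_lit 338) (nat_lit 1) (nat_lit 206) (nat_lit 419) (nat_lit 395))) (XT.nd (nat_lit 78) (nat_lit 532) (nat_lit 0) (XT.lf (nat_lit 684) (nat_lit 25528345466) (nat_lit 0) (nat_lit 2049367000) (nat_lit 608) (nat_lit 2049367000) (nat_lit 331) (nat_lit 1) (nat_lit 322) (nat_lit 1) (nat_lit 330) (nat_lit 1) (nat_lit 207) (nat_lit 419) (nat_lit 394)) (XT.nd (nat_lit 78) (nat_lit 532) (nat_lit 0) (XT.lf (nat_lit 76) (nat_lit 10830028528) (nat_lit 0) (nat_lit 7582431252) (nat_lit 684) (nat_lit 10830028528) (nat_lit 323) (nat_lit 1) (nat_lit 322) (nat_lit 1) (nat_lit 331) (nat_lit 1) (nat_lit 208) (nat_lit 419) (nat_lit 393)) (XT.lf (nat_lit 608) (nat_lit 17830099680) (nat_lit 0) (nat_lit 5518416992) (nat_lit 532) (nat_lit 5518416992) (nat_lit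 323) (nat_lit 1) (nat_lit 315) (nat_lit 1) (nat_lit 322) (nat_lit 1) (nat_lit 209) (nat_lit 419) (nat_lit 392))))))) (XT.nd (nat_lit 702) (nat_lit 2508) (nat_lit 0) (XT.nd (nat_lit 312) (nat_lit 1520) (nat_lit 0) (XT.nd (nat_lit 156) (nat_lit 456) (nat_lit 0) (XT.nd (nat_lit 78) (nat_lit 532) (nat_lit 0) (XT.lf (nat_lit 76) (nat_lit 6967579410) (nat_lit 0) (nat_lit 14562016870) (nat_lit 608) (nat_lit 6967579410) (nat_lit 316) (nat_lit 1) (nat_lit 315) (nat_lit 1) (nat_lit 323) (nat_lit 1) (nat_lit 210) (nat_lit 419) (nat_lit 391)) (XT.lf (nat_lit 608) (nat_lit 10010897968) (nat_lit 0) (nat_lit 9061565599) (nat_lit 532) (nat_lit 9061565599) (nat_lit 316) (nat_lit 1) (nat_lit 308) (nat_lit 1) (nat_lit 315) (nat_lit 1) (nat_lit 211) (nat_lit 419) (nat_lit 390))) (XT.nd (nat_lit 78) (nat_lit 456) (nat_lit 0) (XT.lf (nat_lit 76) (nat_lit 3050909087) (nat_lit 0) (nat_lit 21676754624) (nat_lit 608) (nat_lit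 3050909087) (nat_lit 309) (nat_lit 1) (nat_lit 308) (nat_lit 1) (nat_lit 316) (nat_lit 1) (nat_lit 212) (nat_lit 419) (nat_lit 389)) (XT.lf (nat_lit 532) (nat_lit 2094077871) (nat_lit 0) (nat_lit 12666600918) (nat_lit 456) (nat_lit 12666600918) (nat_lit 309) (nat_lit 1) (nat_lit 302) (nat_lit 1) (nat_lit 308) (nat_lit 1) (nat_lit 213) (nat_lit 419) (nat_lit 388)))) (XT.nd (nat_lit 156) (nat_lit 912) (nat_lit 0) (XT.nd (nat_lit 78) (nat_lit 0) (nat_lit 0) (XT.lf (nat_lit 608) (nat_lit 25284715598) (nat_lit 0) (nat_lit 899922662) (nat_lit 532) (nat_lit 899922662) (nat_lit 302) (nat_lit 1) (nat_lit 294) (nat_lit 1) (nat_lit 301) (nat_lit 1) (nat_lit 214) (nat_lit 419) (nat_lit 387)) (XT.lf (nat_lit 76) (nat_lit 10480106878) (nat_lit 0) (nat_lit 5783732619) (nat_lit 608) (nat_lit 10480106878) (nat_lit 295) (nat_lit 1) (nat_lit 294) (nat_lit 1) (nat_lit 302) (nat_lit 1) (nat_lit 215) (nat_lit 419) (nat_lit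 386))) (XT.nd (nat_lit 78) (nat_lit 456) (nat_lit 0) (XT.lf (nat_lit 532) (nat_lit 16704965020) (nat_lit 0) (nat_lit 4853318035) (nat_lit 456) (nat_lit 4853318035) (nat_lit 295) (nat_lit 1) (nat_lit 288) (nat_lit 1) (nat_lit 294) (nat_lit 1) (nat_lit 216) (nat_lit 419) (nat_lit 385)) (XT.nd (nat_lit 78) (nat_lit 456) (nat_lit 0) (XT.lf (nat_lit 76) (nat_lit 6204129936) (nat_lit 0) (nat_lit 13675858543) (nat_lit 532) (nat_lit 6204129936) (nat_lit 289) (nat_lit 1) (nat_lit 288) (nat_lit 1) (nat_lit 295) (nat_lit 1) (nat_lit 217) (nat_lit 419) (nat_lit 384)) (XT.lf (nat_lit 532) (nat_lit 8102624433) (nat_lit 0) (nat_lit 8829822240) (nat_lit 456) (nat_lit 8829822240) (nat_lit 289) (nat_lit 1) (nat_lit 282) (nat_lit 1) (nat_lit 288) (nat_lit 1) (nat_lit 218) (nat_lit 419) (nat_lit 383)))))) (XT.nd (nat_lit 390) (nat_lit 1216) (nat_lit 0) (XT.nd (nat_lit 156) (nat_lit 836) (nat_lit 0) (XT.nd (nat_lit 78)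 (nat_lit 456) (nat_lit 0) (XT.lf (nat_lit 76) (nat_lit 1921085923) (nat_lit 0) (nat_lit 21605285201) (nat_lit 532) (nat_lit 1921085923) (nat_lit 283) (nat_lit 1) (nat_lit 282) (nat_lit 1) (nat_lit 289) (nat_lit 1) (nat_lit 219) (nat_lit 419) (nat_lit 382)) (XT.lf (nat_lit 76) (nat_lit 12319683361) (nat_lit 0) (nat_lit 496132401) (nat_lit 456) (nat_lit 12319683361) (nat_lit 277) (nat_lit 1) (nat_lit 276) (nat_lit 1) (nat_lit 282) (nat_lit 1) (nat_lit 220) (nat_lit 419) (nat_lit 381))) (XT.nd (nat_lit 78) (nat_lit 380) (nat_lit 0) (XT.lf (nat_lit 532) (nat_lit 20154093935) (nat_lit 0) (nat_lit 2338114715) (nat_lit 456) (nat_lit 2338114715) (nat_lit 277) (nat_lit 1) (nat_lit 270) (nat_lit 1) (nat_lit 276) (nat_lit 1) (nat_lit 221) (nat_lit 419) (nat_lit 380)) (XT.nd (nat_lit 78) (nat_lit 380) (nat_lit 0) (XT.lf (nat_lit 76) (nat_lit 7799957338) (nat_lit 0) (nat_lit 8928309541) (nat_lit 532) (nat_lit 7799957338)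 (nat_lit 271) (nat_lit 1) (nat_lit 270) (nat_lit 1) (nat_lit 277) (nat_lit 1) (nat_lit 222) (nat_lit 419) (nat_lit 379)) (XT.lf (nat_lit 456) (nat_lit 11090848968) (nat_lit 0) (nat_lit 6570762808) (nat_lit 380) (nat_lit 6570762808) (nat_lit 271) (nat_lit 1) (nat_lit 265) (nat_lit 1) (nat_lit 270) (nat_lit 1) (nat_lit 223) (nat_lit 419) (nat_lit 378))))) (XT.nd (nat_lit 156) (nat_lit 836) (nat_lit 0) (XT.nd (nat_lit 78) (nat_lit 380) (nat_lit 0) (XT.lf (nat_lit 76) (nat_lit 3301652442) (nat_lit 0) (nat_lit 17338638684) (nat_lit 456) (nat_lit 3301652442) (nat_lit 266) (nat_lit 1) (nat_lit 265) (nat_lit 1) (nat_lit 271) (nat_lit 1) (nat_lit 224) (nat_lit 419) (nat_lit 377)) (XT.lf (nat_lit 456) (nat_lit 2076479316) (nat_lit 0) (nat_lit 10789270663) (nat_lit 380) (nat_lit 10789270663) (nat_lit 266) (nat_lit 1) (nat_lit 260) (nat_lit 1) (nat_lit 265) (nat_lit 1) (nat_lit 225) (nat_lit 419) (nat_lit 376)))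 (XT.nd (nat_lit 78) (nat_lit 380) (nat_lit 0) (XT.lf (nat_lit 456) (nat_lit 21058375764) (nat_lit 0) (nat_lit 1158062121) (nat_lit 380) (nat_lit 1158062121) (nat_lit 260) (nat_lit 1) (nat_lit 254) (nat_lit 1) (nat_lit 259) (nat_lit 1) (nat_lit 226) (nat_lit 419) (nat_lit 375)) (XT.nd (nat_lit 78) (nat_lit 380) (nat_lit 0) (XT.lf (nat_lit 76) (nat_lit 8175810624) (nat_lit 0) (nat_lit 6743874473) (nat_lit 456) (nat_lit 8175810624) (nat_lit 255) (nat_lit 1) (nat_lit 254) (nat_lit 1) (nat_lit 260) (nat_lit 1) (nat_lit 227) (nat_lit 419) (nat_lit 374)) (XT.lf (nat_lit 456) (nat_lit 11715840256) (nat_lit 0) (nat_lit 5553425900) (nat_lit 380) (nat_lit 5553425900) (nat_lit 255) (nat_lit 1) (nat_lit 249) (nat_lit 1) (nat_lit 254) (nat_lit 1) (nat_lit 228) (nat_lit 419) (nat_lit 373))))))))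
noncomputable def ec414 : XT := (XT.nd (nat_lit 1482) (nat_lit 2736) (nat_lit 0) (XT.nd (nat_lit 702) (nat_lit 1748) (nat_lit 0) (XT.nd (nat_lit 312) (nat_lit 988) (nat_lit 0) (XT.nd (nat_lit 156) (nat_lit 456) (nat_lit 0) (XT.nd (nat_lit 78) (nat_lit 304) (nat_lit 0) (XT.lf (nat_lit 76) (nat_lit 3549541795) (nat_lit 0) (nat_lit 15455371943) (nat_lit 456) (nat_lit 3549541795) (nat_lit 250) (nat_lit 1) (nat_lit 249) (nat_lit 1) (nat_lit 255) (nat_lit 1) (nat_lit 229) (nat_lit 419) (nat_lit 372)) (XT.lf (nat_lit 380) (nat_lit 2465272313) (nat_lit 0) (nat_lit 9912173057) (nat_lit 304) (nat_lit 9912173057) (nat_lit 250) (nat_lit 1) (nat_lit 245) (nat_lit 1) (nat_lit 249) (nat_lit 1) (nat_lit 230) (nat_lit 419) (nat_lit 371))) (XT.nd (nat_lit 78) (nat_lit 0) (nat_lit 0) (XT.lf (nat_lit 456) (nat_lit 19992785214) (nat_lit 0) (nat_lit 1018902964) (nat_lit 380) (nat_lit 1018902964) (nat_lit 245) (nat_lit 1)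 (nat_lit 239) (nat_lit 1) (nat_lit 244) (nat_lit 1) (nat_lit 231) (nat_lit 419) (nat_lit 370)) (XT.lf (nat_lit 76) (nat_lit 7608724192) (nat_lit 0) (nat_lit 6555204246) (nat_lit 456) (nat_lit 7608724192) (nat_lit 240) (nat_lit 1) (nat_lit 239) (nat_lit 1) (nat_lit 245) (nat_lit 1) (nat_lit 232) (nat_lit 419) (nat_lit 369)))) (XT.nd (nat_lit 156) (nat_lit 684) (nat_lit 0) (XT.nd (nat_lit 78) (nat_lit 0) (nat_lit 0) (XT.lf (nat_lit 380) (nat_lit 10516932328) (nat_lit 0) (nat_lit 5501711359) (nat_lit 304) (nat_lit 5501711359) (nat_lit 240) (nat_lit 1) (nat_lit 235) (nat_lit 1) (nat_lit 239) (nat_lit 1) (nat_lit 233) (nat_lit 419) (nat_lit 368)) (XT.lf (nat_lit 76) (nat_lit 2924598231) (nat_lit 0) (nat_lit 15423176617) (nat_lit 380) (nat_lit 2924598231) (nat_lit 236) (nat_lit 1) (nat_lit 235) (nat_lit 1) (nat_lit 240) (nat_lit 1) (nat_lit 234) (nat_lit 419) (nat_lit 367))) (XT.nd (nat_lit 78) (nat_lit 380)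 (nat_lit 0) (XT.lf (nat_lit 380) (nat_lit 1166206455) (nat_lit 0) (nat_lit 9930501664) (nat_lit 304) (nat_lit 9930501664) (nat_lit 236) (nat_lit 1) (nat_lit 231) (nat_lit 1) (nat_lit 235) (nat_lit 1) (nat_lit 235) (nat_lit 419) (nat_lit 366)) (XT.nd (nat_lit 78) (nat_lit 0) (nat_lit 0) (XT.lf (nat_lit 380) (nat_lit 17428206514) (nat_lit 0) (nat_lit 1679339072) (nat_lit 304) (nat_lit 1679339072) (nat_lit 231) (nat_lit 1) (nat_lit 226) (nat_lit 1) (nat_lit 230) (nat_lit 1) (nat_lit 236) (nat_lit 419) (nat_lit 365)) (XT.lf (nat_lit 76) (nat_lit 6325500180) (nat_lit 0) (nat_lit 7897206505) (nat_lit 380) (nat_lit 6325500180) (nat_lit 227) (nat_lit 1) (nat_lit 226) (nat_lit 1) (nat_lit 231) (nat_lit 1) (nat_lit 237) (nat_lit 419) (nat_lit 364)))))) (XT.nd (nat_lit 390) (nat_lit 836) (nat_lit 0) (XT.nd (nat_lit 156) (nat_lit 608) (nat_lit 0) (XT.nd (nat_lit 78) (nat_lit 0) (nat_lit 0) (XT.lf (nat_lit 380)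 (nat_lit 7935512539) (nat_lit 0) (nat_lit 6189356628) (nat_lit 304) (nat_lit 6189356628) (nat_lit 227) (nat_lit 1) (nat_lit 222) (nat_lit 1) (nat_lit 226) (nat_lit 1) (nat_lit 238) (nat_lit 419) (nat_lit 363)) (XT.lf (nat_lit 76) (nat_lit 1639399796) (nat_lit 0) (nat_lit 16805971685) (nat_lit 380) (nat_lit 1639399796) (nat_lit 223) (nat_lit 1) (nat_lit 222) (nat_lit 1) (nat_lit 227) (nat_lit 1) (nat_lit 239) (nat_lit 419) (nat_lit 362))) (XT.nd (nat_lit 78) (nat_lit 304) (nat_lit 0) (XT.lf (nat_lit 76) (nat_lit 9238603167) (nat_lit 0) (nat_lit 1379588843) (nat_lit 304) (nat_lit 9238603167) (nat_lit 219) (nat_lit 1) (nat_lit 218) (nat_lit 1) (nat_lit 222) (nat_lit 1) (nat_lit 240) (nat_lit 419) (nat_lit 361)) (XT.nd (nat_lit 78) (nat_lit 0) (nat_lit 0) (XT.lf (nat_lit 380) (nat_lit 13749001283) (nat_lit 0) (nat_lit 2942109335) (nat_lit 304) (nat_lit 2942109335) (nat_lit 219) (nat_lit 1) (nat_lit 214)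 (nat_lit 1) (nat_lit 218) (nat_lit 1) (nat_lit 241) (nat_lit 419) (nat_lit 360)) (XT.lf (nat_lit 76) (nat_lit 4511191108) (nat_lit 0) (nat_lit 10389809499) (nat_lit 380) (nat_lit 4511191108) (nat_lit 215) (nat_lit 1) (nat_lit 214) (nat_lit 1) (nat_lit 219) (nat_lit 1) (nat_lit 242) (nat_lit 419) (nat_lit 359))))) (XT.nd (nat_lit 156) (nat_lit 228) (nat_lit 0) (XT.nd (nat_lit 78) (nat_lit 380) (nat_lit 0) (XT.lf (nat_lit 304) (nat_lit 4331570788) (nat_lit 0) (nat_lit 7431531791) (nat_lit 228) (nat_lit 7431531791) (nat_lit 215) (nat_lit 1) (nat_lit 211) (nat_lit 1) (nat_lit 214) (nat_lit 1) (nat_lit 243) (nat_lit 419) (nat_lit 358)) (XT.lf (nat_lit 380) (nat_lit 18719111671) (nat_lit 0) (nat_lit 131449471) (nat_lit 304) (nat_lit 131449471) (nat_lit 211) (nat_lit 1) (nat_lit 206) (nat_lit 1) (nat_lit 210) (nat_lit 1) (nat_lit 244) (nat_lit 419) (nat_lit 357))) (XT.nd (nat_lit 78) (nat_lit 228) (nat_lit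 0) (XT.lf (nat_lit 76) (nat_lit 6973771397) (nat_lit 0) (nat_lit 4821426052) (nat_lit 380) (nat_lit 6973771397) (nat_lit 207) (nat_lit 1) (nat_lit 206) (nat_lit 1) (nat_lit 211) (nat_lit 1) (nat_lit 245) (nat_lit 419) (nat_lit 356)) (XT.nd (nat_lit 78) (nat_lit 0) (nat_lit 0) (XT.lf (nat_lit 304) (nat_lit 9267682768) (nat_lit 0) (nat_lit 4646536323) (nat_lit 228) (nat_lit 4646536323) (nat_lit 207) (nat_lit 1) (nat_lit 203) (nat_lit 1) (nat_lit 206) (nat_lit 1) (nat_lit 246) (nat_lit 419) (nat_lit 355)) (XT.lf (nat_lit 76) (nat_lit 2316185055) (nat_lit 0) (nat_lit 13723563745) (nat_lit 304) (nat_lit 2316185055) (nat_lit 204) (nat_lit 1) (nat_lit 203) (nat_lit 1) (nat_lit 207) (nat_lit 1) (nat_lit 247) (nat_lit 419) (nat_lit 354))))))) (XT.nd (nat_lit 702) (nat_lit 1216) (nat_lit 0) (XT.nd (nat_lit 312) (nat_lit 760) (nat_lit 0) (XT.nd (nat_lit 156) (nat_lit 228) (nat_lit 0) (XT.nd (nat_lit 78) (nat_lit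 228) (nat_lit 0) (XT.lf (nat_lit 76) (nat_lit 9075364325) (nat_lit 0) (nat_lit 2429826) (nat_lit 304) (nat_lit 9075364325) (nat_lit 200) (nat_lit 1) (nat_lit 199) (nat_lit 1) (nat_lit 203) (nat_lit 1) (nat_lit 248) (nat_lit 419) (nat_lit 353)) (XT.lf (nat_lit 304) (nat_lit 13495515352) (nat_lit 0) (nat_lit 2229083051) (nat_lit 228) (nat_lit 2229083051) (nat_lit 200) (nat_lit 1) (nat_lit 196) (nat_lit 1) (nat_lit 199) (nat_lit 1) (nat_lit 249) (nat_lit 419) (nat_lit 352))) (XT.nd (nat_lit 78) (nat_lit 228) (nat_lit 0) (XT.lf (nat_lit 76) (nat_lit 4421135913) (nat_lit 0) (nat_lit 8913850802) (nat_lit 304) (nat_lit 4421135913) (nat_lit 197) (nat_lit 1) (nat_lit 196) (nat_lit 1) (nat_lit 200) (nat_lit 1) (nat_lit 250) (nat_lit 419) (nat_lit 351)) (XT.lf (nat_lit 304) (nat_lit 4237168971) (nat_lit 0) (nat_lit 6662301805) (nat_lit 228) (nat_lit 6662301805) (nat_lit 197) (nat_lit 1) (nat_lit 193) (nat_lit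 1) (nat_lit 196) (nat_lit 1) (nat_lit 251) (nat_lit 419) (nat_lit 350)))) (XT.nd (nat_lit 156) (nat_lit 456) (nat_lit 0) (XT.nd (nat_lit 78) (nat_lit 0) (nat_lit 0) (XT.lf (nat_lit 304) (nat_lit 17098648118) (nat_lit 0) (nat_lit 136526672) (nat_lit 228) (nat_lit 136526672) (nat_lit 193) (nat_lit 1) (nat_lit 189) (nat_lit 1) (nat_lit 192) (nat_lit 1) (nat_lit 252) (nat_lit 419) (nat_lit 349)) (XT.lf (nat_lit 76) (nat_lit 6222525385) (nat_lit 0) (nat_lit 4735998424) (nat_lit 304) (nat_lit 6222525385) (nat_lit 190) (nat_lit 1) (nat_lit 189) (nat_lit 1) (nat_lit 193) (nat_lit 1) (nat_lit 253) (nat_lit 419) (nat_lit 348))) (XT.nd (nat_lit 78) (nat_lit 228) (nat_lit 0) (XT.lf (nat_lit 304) (nat_lit 7880563737) (nat_lit 0) (nat_lit 4557016900) (nat_lit 228) (nat_lit 4557016900) (nat_lit 190) (nat_lit 1) (nat_lit 186) (nat_lit 1) (nat_lit 189) (nat_lit 1) (nat_lit 254) (nat_lit 419) (nat_lit 347)) (XT.nd (nat_lit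 78) (nat_lit 228) (nat_lit 0) (XT.lf (nat_lit 76) (nat_lit 1685498772) (nat_lit 0) (nat_lit 13440306383) (nat_lit 304) (nat_lit 1685498772) (nat_lit 187) (nat_lit 1) (nat_lit 186) (nat_lit 1) (nat_lit 190) (nat_lit 1) (nat_lit 255) (nat_lit 419) (nat_lit 346)) (XT.lf (nat_lit 76) (nat_lit 7756209316) (nat_lit 0) (nat_lit 1116763977) (nat_lit 228) (nat_lit 7756209316) (nat_lit 184) (nat_lit 1) (nat_lit 183) (nat_lit 1) (nat_lit 186) (nat_lit 1) (nat_lit 256) (nat_lit 419) (nat_lit 345)))))) (XT.nd (nat_lit 390) (nat_lit 532) (nat_lit 0) (XT.nd (nat_lit 156) (nat_lit 456) (nat_lit 0) (XT.nd (nat_lit 78) (nat_lit 0) (nat_lit 0) (XT.lf (nat_lit 304) (nat_lit 10997792390) (nat_lit 0) (nat_lit 2726178684) (nat_lit 228) (nat_lit 2726178684) (nat_lit 184) (nat_lit 1) (nat_lit 180) (nat_lit 1) (nat_lit 183) (nat_lit 1) (nat_lit 257) (nat_lit 419) (nat_lit 344)) (XT.lf (nat_lit 76) (nat_lit 3252885540) (nat_lit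 0) (nat_lit 9767388848) (nat_lit 304) (nat_lit 3252885540) (nat_lit 181) (nat_lit 1) (nat_lit 180) (nat_lit 1) (nat_lit 184) (nat_lit 1) (nat_lit 258) (nat_lit 419) (nat_lit 343))) (XT.nd (nat_lit 78) (nat_lit 304) (nat_lit 0) (XT.lf (nat_lit 228) (nat_lit 2048826630) (nat_lit 0) (nat_lit 7024854712) (nat_lit 152) (nat_lit 7024854712) (nat_lit 181) (nat_lit 1) (nat_lit 178) (nat_lit 1) (nat_lit 180) (nat_lit 1) (nat_lit 259) (nat_lit 419) (nat_lit 342)) (XT.nd (nat_lit 78) (nat_lit 0) (nat_lit 0) (XT.lf (nat_lit 304) (nat_lit 13651020928) (nat_lit 0) (nat_lit 1138027063) (nat_lit 228) (nat_lit 1138027063) (nat_lit 178) (nat_lit 1) (nat_lit 174) (nat_lit 1) (nat_lit 177) (nat_lit 1) (nat_lit 260) (nat_lit 419) (nat_lit 341)) (XT.lf (nat_lit 76) (nat_lit 4594361925) (nat_lit 0) (nat_lit 6567373927) (nat_lit 304) (nat_lit 4594361925) (nat_lit 175) (nat_lit 1) (nat_lit 174) (nat_lit 1) (nat_lit 178) (nat_lit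 1) (nat_lit 261) (nat_lit 419) (nat_lit 340))))) (XT.nd (nat_lit 156) (nat_lit 380) (nat_lit 0) (XT.nd (nat_lit 78) (nat_lit 0) (nat_lit 0) (XT.lf (nat_lit 228) (nat_lit 4792010573) (nat_lit 0) (nat_lit 5398107264) (nat_lit 152) (nat_lit 5398107264) (nat_lit 175) (nat_lit 1) (nat_lit 172) (nat_lit 1) (nat_lit 174) (nat_lit 1) (nat_lit 262) (nat_lit 419) (nat_lit 339)) (XT.lf (nat_lit 76) (nat_lit 237955628) (nat_lit 0) (nat_lit 14947948751) (nat_lit 228) (nat_lit 237955628) (nat_lit 173) (nat_lit 1) (nat_lit 172) (nat_lit 1) (nat_lit 175) (nat_lit 1) (nat_lit 263) (nat_lit 419) (nat_lit 338))) (XT.nd (nat_lit 78) (nat_lit 152) (nat_lit 0) (XT.lf (nat_lit 76) (nat_lit 5736608981) (nat_lit 0) (nat_lit 3785682443) (nat_lit 228) (nat_lit 5736608981) (nat_lit 170) (nat_lit 1) (nat_lit 169) (nat_lit 1) (nat_lit 172) (nat_lit 1) (nat_lit 264) (nat_lit 419) (nat_lit 337)) (XT.nd (nat_lit 78) (nat_lit 0) (nat_lit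 0) (XT.lf (nat_lit 228) (nat_lit 7142740929) (nat_lit 0) (nat_lit 3977327841) (nat_lit 152) (nat_lit 3977327841) (nat_lit 170) (nat_lit 1) (nat_lit 167) (nat_lit 1) (nat_lit 169) (nat_lit 1) (nat_lit 265) (nat_lit 419) (nat_lit 336)) (XT.lf (nat_lit 76) (nat_lit 1433837043) (nat_lit 0) (nat_lit 12070862914) (nat_lit 228) (nat_lit 1433837043) (nat_lit 168) (nat_lit 1) (nat_lit 167) (nat_lit 1) (nat_lit 170) (nat_lit 1) (nat_lit 266) (nat_lit 419) (nat_lit 335))))))))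
noncomputable def ec415 : XT := (XT.nd (nat_lit 1482) (nat_lit 1748) (nat_lit 0) (XT.nd (nat_lit 702) (nat_lit 1064) (nat_lit 0) (XT.nd (nat_lit 312) (nat_lit 608) (nat_lit 0) (XT.nd (nat_lit 156) (nat_lit 152) (nat_lit 0) (XT.nd (nat_lit 78) (nat_lit 152) (nat_lit 0) (XT.lf (nat_lit 76) (nat_lit 6703289106) (nat_lit 0) (nat_lit 1373875227) (nat_lit 228) (nat_lit 6703289106) (nat_lit 165) (nat_lit 1) (nat_lit 164) (nat_lit 1) (nat_lit 167) (nat_lit 1) (nat_lit 267) (nat_lit 419) (nat_lit 334)) (XT.lf (nat_lit 228) (nat_lit 9147302317) (nat_lit 0) (nat_lit 2738832869) (nat_lit 152) (nat_lit 2738832869) (nat_lit 165) (nat_lit 1) (nat_lit 162) (nat_lit 1) (nat_lit 164) (nat_lit 1) (nat_lit 268) (nat_lit 419) (nat_lit 333))) (XT.nd (nat_lit 78) (nat_lit 152) (nat_lit 0) (XT.lf (nat_lit 76) (nat_lit 2460757826) (nat_lit 0) (nat_lit 9549857838) (nat_lit 228) (nat_lit 2460757826) (nat_lit 163) (nat_lit 1)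 (nat_lit 162) (nat_lit 1) (nat_lit 165) (nat_lit 1) (nat_lit 269) (nat_lit 419) (nat_lit 332)) (XT.lf (nat_lit 228) (nat_lit 725184096) (nat_lit 0) (nat_lit 6797170742) (nat_lit 152) (nat_lit 6797170742) (nat_lit 163) (nat_lit 1) (nat_lit 160) (nat_lit 1) (nat_lit 162) (nat_lit 1) (nat_lit 270) (nat_lit 419) (nat_lit 331)))) (XT.nd (nat_lit 156) (nat_lit 380) (nat_lit 0) (XT.nd (nat_lit 78) (nat_lit 0) (nat_lit 0) (XT.lf (nat_lit 228) (nat_lit 10846744599) (nat_lit 0) (nat_lit 1661600634) (nat_lit 152) (nat_lit 1661600634) (nat_lit 160) (nat_lit 1) (nat_lit 157) (nat_lit 1) (nat_lit 159) (nat_lit 1) (nat_lit 271) (nat_lit 419) (nat_lit 330)) (XT.lf (nat_lit 76) (nat_lit 3338596296) (nat_lit 0) (nat_lit 7344199252) (nat_lit 228) (nat_lit 3338596296) (nat_lit 158) (nat_lit 1) (nat_lit 157) (nat_lit 1) (nat_lit 160) (nat_lit 1) (nat_lit 272) (nat_lit 419) (nat_lit 329))) (XT.nd (nat_lit 78) (nat_lit 228)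 (nat_lit 0) (XT.lf (nat_lit 228) (nat_lit 2557081894) (nat_lit 0) (nat_lit 5658992799) (nat_lit 152) (nat_lit 5658992799) (nat_lit 158) (nat_lit 1) (nat_lit 155) (nat_lit 1) (nat_lit 157) (nat_lit 1) (nat_lit 273) (nat_lit 419) (nat_lit 328)) (XT.nd (nat_lit 78) (nat_lit 0) (nat_lit 0) (XT.lf (nat_lit 228) (nat_lit 12277468755) (nat_lit 0) (nat_lit 726973850) (nat_lit 152) (nat_lit 726973850) (nat_lit 155) (nat_lit 1) (nat_lit 152) (nat_lit 1) (nat_lit 154) (nat_lit 1) (nat_lit 274) (nat_lit 419) (nat_lit 327)) (XT.lf (nat_lit 76) (nat_lit 4084983877) (nat_lit 0) (nat_lit 5417725189) (nat_lit 228) (nat_lit 4084983877) (nat_lit 153) (nat_lit 1) (nat_lit 152) (nat_lit 1) (nat_lit 155) (nat_lit 1) (nat_lit 275) (nat_lit 419) (nat_lit 326)))))) (XT.nd (nat_lit 390) (nat_lit 608) (nat_lit 0) (XT.nd (nat_lit 156) (nat_lit 304) (nat_lit 0) (XT.nd (nat_lit 78) (nat_lit 0) (nat_lit 0) (XT.lf (nat_lit 228) (nat_lit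 4128987752) (nat_lit 0) (nat_lit 4658810381) (nat_lit 152) (nat_lit 4658810381) (nat_lit 153) (nat_lit 1) (nat_lit 150) (nat_lit 1) (nat_lit 152) (nat_lit 1) (nat_lit 276) (nat_lit 419) (nat_lit 325)) (XT.lf (nat_lit 76) (nat_lit 82412565) (nat_lit 0) (nat_lit 13143617502) (nat_lit 228) (nat_lit 82412565) (nat_lit 151) (nat_lit 1) (nat_lit 150) (nat_lit 1) (nat_lit 153) (nat_lit 1) (nat_lit 277) (nat_lit 419) (nat_lit 324))) (XT.nd (nat_lit 78) (nat_lit 152) (nat_lit 0) (XT.lf (nat_lit 76) (nat_lit 4715556537) (nat_lit 0) (nat_lit 3738335238) (nat_lit 152) (nat_lit 4715556537) (nat_lit 149) (nat_lit 1) (nat_lit 148) (nat_lit 1) (nat_lit 150) (nat_lit 1) (nat_lit 278) (nat_lit 419) (nat_lit 323)) (XT.nd (nat_lit 78) (nat_lit 0) (nat_lit 0) (XT.lf (nat_lit 228) (nat_lit 5471516808) (nat_lit 0) (nat_lit 3780912658) (nat_lit 152) (nat_lit 3780912658) (nat_lit 149) (nat_lit 1) (nat_lit 146) (nat_lit 1) (nat_lit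 148) (nat_lit 1) (nat_lit 279) (nat_lit 419) (nat_lit 322)) (XT.lf (nat_lit 76) (nat_lit 786537577) (nat_lit 0) (nat_lit 11326547174) (nat_lit 228) (nat_lit 786537577) (nat_lit 147) (nat_lit 1) (nat_lit 146) (nat_lit 1) (nat_lit 149) (nat_lit 1) (nat_lit 280) (nat_lit 419) (nat_lit 321))))) (XT.nd (nat_lit 156) (nat_lit 304) (nat_lit 0) (XT.nd (nat_lit 78) (nat_lit 152) (nat_lit 0) (XT.lf (nat_lit 76) (nat_lit 5244178161) (nat_lit 0) (nat_lit 2277536787) (nat_lit 152) (nat_lit 5244178161) (nat_lit 145) (nat_lit 1) (nat_lit 144) (nat_lit 1) (nat_lit 146) (nat_lit 1) (nat_lit 281) (nat_lit 419) (nat_lit 320)) (XT.lf (nat_lit 228) (nat_lit 6611822952) (nat_lit 0) (nat_lit 3011350155) (nat_lit 152) (nat_lit 3011350155) (nat_lit 145) (nat_lit 1) (nat_lit 142) (nat_lit 1) (nat_lit 144) (nat_lit 1) (nat_lit 282) (nat_lit 419) (nat_lit 319))) (XT.nd (nat_lit 78) (nat_lit 304) (nat_lit 0) (XT.lf (nat_lit 76)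 (nat_lit 1391367363) (nat_lit 0) (nat_lit 9722338288) (nat_lit 228) (nat_lit 1391367363) (nat_lit 143) (nat_lit 1) (nat_lit 142) (nat_lit 1) (nat_lit 145) (nat_lit 1) (nat_lit 283) (nat_lit 419) (nat_lit 318)) (XT.nd (nat_lit 78) (nat_lit 152) (nat_lit 0) (XT.lf (nat_lit 76) (nat_lit 5683138989) (nat_lit 0) (nat_lit 1010041886) (nat_lit 152) (nat_lit 5683138989) (nat_lit 141) (nat_lit 1) (nat_lit 140) (nat_lit 1) (nat_lit 142) (nat_lit 1) (nat_lit 284) (nat_lit 419) (nat_lit 317)) (XT.lf (nat_lit 228) (nat_lit 7573986177) (nat_lit 0) (nat_lit 2337738065) (nat_lit 152) (nat_lit 2337738065) (nat_lit 141) (nat_lit 1) (nat_lit 138) (nat_lit 1) (nat_lit 140) (nat_lit 1) (nat_lit 285) (nat_lit 419) (nat_lit 316))))))) (XT.nd (nat_lit 702) (nat_lit 836) (nat_lit 0) (XT.nd (nat_lit 312) (nat_lit 608) (nat_lit 0) (XT.nd (nat_lit 156) (nat_lit 228) (nat_lit 0) (XT.nd (nat_lit 78) (nat_lit 76) (nat_lit 0) (XT.lf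 (nat_lit 76) (nat_lit 1908579757) (nat_lit 0) (nat_lit 8306955941) (nat_lit 228) (nat_lit 1908579757) (nat_lit 139) (nat_lit 1) (nat_lit 138) (nat_lit 1) (nat_lit 141) (nat_lit 1) (nat_lit 286) (nat_lit 419) (nat_lit 315)) (XT.lf (nat_lit 152) (nat_lit 88314244) (nat_lit 0) (nat_lit 5955866590) (nat_lit 76) (nat_lit 5955866590) (nat_lit 139) (nat_lit 1) (nat_lit 137) (nat_lit 1) (nat_lit 138) (nat_lit 1) (nat_lit 287) (nat_lit 419) (nat_lit 314))) (XT.nd (nat_lit 78) (nat_lit 0) (nat_lit 0) (XT.lf (nat_lit 228) (nat_lit 8379356699) (nat_lit 0) (nat_lit 1749081502) (nat_lit 152) (nat_lit 1749081502) (nat_lit 137) (nat_lit 1) (nat_lit 134) (nat_lit 1) (nat_lit 136) (nat_lit 1) (nat_lit 288) (nat_lit 419) (nat_lit 313)) (XT.lf (nat_lit 76) (nat_lit 2348532740) (nat_lit 0) (nat_lit 7059054118) (nat_lit 228) (nat_lit 2348532740) (nat_lit 135) (nat_lit 1) (nat_lit 134) (nat_lit 1) (nat_lit 137) (nat_lit 1)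 (nat_lit 289) (nat_lit 419) (nat_lit 312)))) (XT.nd (nat_lit 156) (nat_lit 304) (nat_lit 0) (XT.nd (nat_lit 78) (nat_lit 228) (nat_lit 0) (XT.lf (nat_lit 152) (nat_lit 1052819051) (nat_lit 0) (nat_lit 5291710324) (nat_lit 76) (nat_lit 5291710324) (nat_lit 135) (nat_lit 1) (nat_lit 133) (nat_lit 1) (nat_lit 134) (nat_lit 1) (nat_lit 290) (nat_lit 419) (nat_lit 311)) (XT.lf (nat_lit 228) (nat_lit 9046860653) (nat_lit 0) (nat_lit 1235620250) (nat_lit 152) (nat_lit 1235620250) (nat_lit 133) (nat_lit 1) (nat_lit 130) (nat_lit 1) (nat_lit 132) (nat_lit 1) (nat_lit 291) (nat_lit 419) (nat_lit 310))) (XT.nd (nat_lit 78) (nat_lit 304) (nat_lit 0) (XT.lf (nat_lit 76) (nat_lit 2720412131) (nat_lit 0) (nat_lit 5959675588) (nat_lit 228) (nat_lit 2720412131) (nat_lit 131) (nat_lit 1) (nat_lit 130) (nat_lit 1) (nat_lit 133) (nat_lit 1) (nat_lit 292) (nat_lit 419) (nat_lit 309)) (XT.nd (nat_lit 78) (nat_lit 228) (nat_lit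 0) (XT.lf (nat_lit 152) (nat_lit 1881389867) (nat_lit 0) (nat_lit 4701616084) (nat_lit 76) (nat_lit 4701616084) (nat_lit 131) (nat_lit 1) (nat_lit 129) (nat_lit 1) (nat_lit 130) (nat_lit 1) (nat_lit 293) (nat_lit 419) (nat_lit 308)) (XT.lf (nat_lit 228) (nat_lit 9593271676) (nat_lit 0) (nat_lit 788690831) (nat_lit 152) (nat_lit 788690831) (nat_lit 129) (nat_lit 1) (nat_lit 126) (nat_lit 1) (nat_lit 128) (nat_lit 1) (nat_lit 294) (nat_lit 419) (nat_lit 307)))))) (XT.nd (nat_lit 390) (nat_lit 456) (nat_lit 0) (XT.nd (nat_lit 156) (nat_lit 304) (nat_lit 0) (XT.nd (nat_lit 78) (nat_lit 76) (nat_lit 0) (XT.lf (nat_lit 76) (nat_lit 3032362798) (nat_lit 0) (nat_lit 4991985282) (nat_lit 228) (nat_lit 3032362798) (nat_lit 127) (nat_lit 1) (nat_lit 126) (nat_lit 1) (nat_lit 129) (nat_lit 1) (nat_lit 295) (nat_lit 419) (nat_lit 306)) (XT.lf (nat_lit 152) (nat_lit 2590011671) (nat_lit 0) (nat_lit 4177324995) (nat_lit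 76) (nat_lit 4177324995) (nat_lit 127) (nat_lit 1) (nat_lit 125) (nat_lit 1) (nat_lit 126) (nat_lit 1) (nat_lit 296) (nat_lit 419) (nat_lit 305))) (XT.nd (nat_lit 78) (nat_lit 76) (nat_lit 0) (XT.lf (nat_lit 228) (nat_lit 10033452157) (nat_lit 0) (nat_lit 400603960) (nat_lit 152) (nat_lit 400603960) (nat_lit 125) (nat_lit 1) (nat_lit 122) (nat_lit 1) (nat_lit 124) (nat_lit 1) (nat_lit 297) (nat_lit 419) (nat_lit 304)) (XT.nd (nat_lit 78) (nat_lit 76) (nat_lit 0) (XT.lf (nat_lit 76) (nat_lit 3291605220) (nat_lit 0) (nat_lit 4141033404) (nat_lit 228) (nat_lit 3291605220) (nat_lit 123) (nat_lit 1) (nat_lit 122) (nat_lit 1) (nat_lit 125) (nat_lit 1) (nat_lit 298) (nat_lit 419) (nat_lit 303)) (XT.lf (nat_lit 152) (nat_lit 3192862836) (nat_lit 0) (nat_lit 3711499153) (nat_lit 76) (nat_lit 3711499153) (nat_lit 123) (nat_lit 1) (nat_lit 121) (nat_lit 1) (nat_lit 122) (nat_lit 1) (nat_lit 299) (nat_lit 419)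 (nat_lit 302))))) (XT.nd (nat_lit 156) (nat_lit 228) (nat_lit 0) (XT.nd (nat_lit 78) (nat_lit 0) (nat_lit 0) (XT.lf (nat_lit 228) (nat_lit 10380567555) (nat_lit 0) (nat_lit 64535675) (nat_lit 152) (nat_lit 64535675) (nat_lit 121) (nat_lit 1) (nat_lit 118) (nat_lit 1) (nat_lit 120) (nat_lit 1) (nat_lit 300) (nat_lit 419) (nat_lit 301)) (XT.lf (nat_lit 76) (nat_lit 3504539042) (nat_lit 0) (nat_lit 3393544970) (nat_lit 228) (nat_lit 3504539042) (nat_lit 119) (nat_lit 1) (nat_lit 118) (nat_lit 1) (nat_lit 121) (nat_lit 1) (nat_lit 301) (nat_lit 419) (nat_lit 300))) (XT.nd (nat_lit 78) (nat_lit 152) (nat_lit 0) (XT.lf (nat_lit 152) (nat_lit 3702517287) (nat_lit 0) (nat_lit 3297618926) (nat_lit 76) (nat_lit 3297618926) (nat_lit 119) (nat_lit 1) (nat_lit 117) (nat_lit 1) (nat_lit 118) (nat_lit 1) (nat_lit 302) (nat_lit 419) (nat_lit 299)) (XT.nd (nat_lit 78) (nat_lit 152) (nat_lit 0) (XT.lf (nat_lit 0) (nat_lit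 227802749) (nat_lit 0) (nat_lit 9739268405) (nat_lit 152) (nat_lit 227802749) (nat_lit 117) (nat_lit 3) (nat_lit 117) (nat_lit 1) (nat_lit 119) (nat_lit 1) (nat_lit 303) (nat_lit 419) (nat_lit 298)) (XT.lf (nat_lit 76) (nat_lit 3676835059) (nat_lit 0) (nat_lit 2737732815) (nat_lit 152) (nat_lit 3676835059) (nat_lit 116) (nat_lit 1) (nat_lit 115) (nat_lit 1) (nat_lit 117) (nat_lit 1) (nat_lit 304) (nat_lit 419) (nat_lit 297))))))))
noncomputable def ec416 : XT := (XT.nd (nat_lit 1404) (nat_lit 1444) (nat_lit 0) (XT.nd (nat_lit 702) (nat_lit 684) (nat_lit 0) (XT.nd (nat_lit 312) (nat_lit 380) (nat_lit 0) (XT.nd (nat_lit 156) (nat_lit 228) (nat_lit 0) (XT.nd (nat_lit 78) (nat_lit 0) (nat_lit 0) (XT.lf (nat_lit 152) (nat_lit 4130124102) (nat_lit 0) (nat_lit 2929891704) (nat_lit 76) (nat_lit 2929891704) (nat_lit 116) (nat_lit 1) (nat_lit 114) (nat_lit 1) (nat_lit 115) (nat_lit 1) (nat_lit 305) (nat_lit 419)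 (nat_lit 296)) (XT.lf (nat_lit 0) (nat_lit 479787728) (nat_lit 0) (nat_lit 8930601770) (nat_lit 152) (nat_lit 479787728) (nat_lit 114) (nat_lit 3) (nat_lit 114) (nat_lit 1) (nat_lit 116) (nat_lit 1) (nat_lit 306) (nat_lit 419) (nat_lit 295))) (XT.nd (nat_lit 78) (nat_lit 76) (nat_lit 0) (XT.lf (nat_lit 76) (nat_lit 3813516940) (nat_lit 0) (nat_lit 2163131471) (nat_lit 152) (nat_lit 3813516940) (nat_lit 113) (nat_lit 1) (nat_lit 112) (nat_lit 1) (nat_lit 114) (nat_lit 1) (nat_lit 307) (nat_lit 419) (nat_lit 294)) (XT.lf (nat_lit 152) (nat_lit 4485567060) (nat_lit 0) (nat_lit 2603170831) (nat_lit 76) (nat_lit 2603170831) (nat_lit 113) (nat_lit 1) (nat_lit 111) (nat_lit 1) (nat_lit 112) (nat_lit 1) (nat_lit 308) (nat_lit 419) (nat_lit 293)))) (XT.nd (nat_lit 156) (nat_lit 228) (nat_lit 0) (XT.nd (nat_lit 78) (nat_lit 152) (nat_lit 0) (XT.lf (nat_lit 0) (nat_lit 695593859) (nat_lit 0) (nat_lit 8204032679)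 (nat_lit 152) (nat_lit 695593859) (nat_lit 111) (nat_lit 3) (nat_lit 111) (nat_lit 1) (nat_lit 113) (nat_lit 1) (nat_lit 309) (nat_lit 419) (nat_lit 292)) (XT.lf (nat_lit 76) (nat_lit 3919033819) (nat_lit 0) (nat_lit 1660449560) (nat_lit 152) (nat_lit 3919033819) (nat_lit 110) (nat_lit 1) (nat_lit 109) (nat_lit 1) (nat_lit 111) (nat_lit 1) (nat_lit 310) (nat_lit 419) (nat_lit 291))) (XT.nd (nat_lit 78) (nat_lit 152) (nat_lit 0) (XT.lf (nat_lit 152) (nat_lit 4777606380) (nat_lit 0) (nat_lit 2312883567) (nat_lit 76) (nat_lit 2312883567) (nat_lit 110) (nat_lit 1) (nat_lit 108) (nat_lit 1) (nat_lit 109) (nat_lit 1) (nat_lit 311) (nat_lit 419) (nat_lit 290)) (XT.nd (nat_lit 78) (nat_lit 152) (nat_lit 0) (XT.lf (nat_lit 0) (nat_lit 879490868) (nat_lit 0) (nat_lit 7550641511) (nat_lit 152) (nat_lit 879490868) (nat_lit 108) (nat_lit 3) (nat_lit 108) (nat_lit 1) (nat_lit 110) (nat_lit 1) (nat_lit 312) (nat_lit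 419) (nat_lit 289)) (XT.lf (nat_lit 76) (nat_lit 3997324779) (nat_lit 0) (nat_lit 1221438671) (nat_lit 152) (nat_lit 3997324779) (nat_lit 107) (nat_lit 1) (nat_lit 106) (nat_lit 1) (nat_lit 108) (nat_lit 1) (nat_lit 313) (nat_lit 419) (nat_lit 288)))))) (XT.nd (nat_lit 312) (nat_lit 380) (nat_lit 0) (XT.nd (nat_lit 156) (nat_lit 228) (nat_lit 0) (XT.nd (nat_lit 78) (nat_lit 0) (nat_lit 0) (XT.lf (nat_lit 152) (nat_lit 5014004637) (nat_lit 0) (nat_lit 2054967092) (nat_lit 76) (nat_lit 2054967092) (nat_lit 107) (nat_lit 1) (nat_lit 105) (nat_lit 1) (nat_lit 106) (nat_lit 1) (nat_lit 314) (nat_lit 419) (nat_lit 287)) (XT.lf (nat_lit 0) (nat_lit 1035265502) (nat_lit 0) (nat_lit 6962496442) (nat_lit 152) (nat_lit 1035265502) (nat_lit 105) (nat_lit 3) (nat_lit 105) (nat_lit 1) (nat_lit 107) (nat_lit 1) (nat_lit 315) (nat_lit 419) (nat_lit 286))) (XT.nd (nat_lit 78) (nat_lit 76) (nat_lit 0) (XT.lf (nat_lit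 76) (nat_lit 4051876138) (nat_lit 0) (nat_lit 838776850) (nat_lit 152) (nat_lit 4051876138) (nat_lit 104) (nat_lit 1) (nat_lit 103) (nat_lit 1) (nat_lit 105) (nat_lit 1) (nat_lit 316) (nat_lit 419) (nat_lit 285)) (XT.lf (nat_lit 152) (nat_lit 5201638612) (nat_lit 0) (nat_lit 1825811646) (nat_lit 76) (nat_lit 1825811646) (nat_lit 104) (nat_lit 1) (nat_lit 102) (nat_lit 1) (nat_lit 103) (nat_lit 1) (nat_lit 317) (nat_lit 419) (nat_lit 284)))) (XT.nd (nat_lit 156) (nat_lit 228) (nat_lit 0) (XT.nd (nat_lit 78) (nat_lit 152) (nat_lit 0) (XT.lf (nat_lit 0) (nat_lit 1166275579) (nat_lit 0) (nat_lit 6432543499) (nat_lit 152) (nat_lit 1166275579) (nat_lit 102) (nat_lit 3) (nat_lit 102) (nat_lit 1) (nat_lit 104) (nat_lit 1) (nat_lit 318) (nat_lit 419) (nat_lit 283)) (XT.lf (nat_lit 76) (nat_lit 4085772328) (nat_lit 0) (nat_lit 505965097) (nat_lit 152) (nat_lit 4085772328) (nat_lit 101) (nat_lit 1) (nat_lit 100)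 (nat_lit 1) (nat_lit 102) (nat_lit 1) (nat_lit 319) (nat_lit 419) (nat_lit 282))) (XT.nd (nat_lit 78) (nat_lit 152) (nat_lit 0) (XT.lf (nat_lit 152) (nat_lit 5346598666) (nat_lit 0) (nat_lit 1622209999) (nat_lit 76) (nat_lit 1622209999) (nat_lit 101) (nat_lit 1) (nat_lit 99) (nat_lit 1) (nat_lit 100) (nat_lit 1) (nat_lit 320) (nat_lit 419) (nat_lit 281)) (XT.nd (nat_lit 78) (nat_lit 152) (nat_lit 0) (XT.lf (nat_lit 0) (nat_lit 1275498017) (nat_lit 0) (nat_lit 5954508855) (nat_lit 152) (nat_lit 1275498017) (nat_lit 99) (nat_lit 3) (nat_lit 99) (nat_lit 1) (nat_lit 101) (nat_lit 1) (nat_lit 321) (nat_lit 419) (nat_lit 280)) (XT.lf (nat_lit 76) (nat_lit 4101741095) (nat_lit 0) (nat_lit 217235405) (nat_lit 152) (nat_lit 4101741095) (nat_lit 98) (nat_lit 1) (nat_lit 97) (nat_lit 1) (nat_lit 99) (nat_lit 1) (nat_lit 322) (nat_lit 419) (nat_lit 279))))))) (XT.nd (nat_lit 702) (nat_lit 836) (nat_lit 0) (XT.nd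 (nat_lit 312) (nat_lit 304) (nat_lit 0) (XT.nd (nat_lit 156) (nat_lit 228) (nat_lit 0) (XT.nd (nat_lit 78) (nat_lit 0) (nat_lit 0) (XT.lf (nat_lit 152) (nat_lit 5454276995) (nat_lit 0) (nat_lit 1441312573) (nat_lit 76) (nat_lit 1441312573) (nat_lit 98) (nat_lit 1) (nat_lit 96) (nat_lit 1) (nat_lit 97) (nat_lit 1) (nat_lit 323) (nat_lit 419) (nat_lit 278)) (XT.lf (nat_lit 0) (nat_lit 1365571497) (nat_lit 0) (nat_lit 5522812024) (nat_lit 152) (nat_lit 1365571497) (nat_lit 96) (nat_lit 3) (nat_lit 96) (nat_lit 1) (nat_lit 98) (nat_lit 1) (nat_lit 324) (nat_lit 419) (nat_lit 277))) (XT.nd (nat_lit 78) (nat_lit 152) (nat_lit 0) (XT.lf (nat_lit 76) (nat_lit 33178361) (nat_lit 0) (nat_lit 4069334213) (nat_lit 76) (nat_lit 4069334213) (nat_lit 96) (nat_lit 3) (nat_lit 95) (nat_lit 1) (nat_lit 96) (nat_lit 1) (nat_lit 325) (nat_lit 419) (nat_lit 276)) (XT.lf (nat_lit 152) (nat_lit 5529446049) (nat_lit 0) (nat_lit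 1280587553) (nat_lit 76) (nat_lit 1280587553) (nat_lit 95) (nat_lit 1) (nat_lit 93) (nat_lit 1) (nat_lit 94) (nat_lit 1) (nat_lit 326) (nat_lit 419) (nat_lit 275)))) (XT.nd (nat_lit 156) (nat_lit 228) (nat_lit 0) (XT.nd (nat_lit 78) (nat_lit 76) (nat_lit 0) (XT.lf (nat_lit 0) (nat_lit 1438834365) (nat_lit 0) (nat_lit 5132488728) (nat_lit 152) (nat_lit 1438834365) (nat_lit 93) (nat_lit 3) (nat_lit 93) (nat_lit 1) (nat_lit 95) (nat_lit 1) (nat_lit 327) (nat_lit 419) (nat_lit 274)) (XT.lf (nat_lit 76) (nat_lit 252809127) (nat_lit 0) (nat_lit 3838881324) (nat_lit 76) (nat_lit 3838881324) (nat_lit 93) (nat_lit 3) (nat_lit 92) (nat_lit 1) (nat_lit 93) (nat_lit 1) (nat_lit 328) (nat_lit 419) (nat_lit 273))) (XT.nd (nat_lit 78) (nat_lit 76) (nat_lit 0) (XT.lf (nat_lit 152) (nat_lit 5576328171) (nat_lit 0) (nat_lit 1137785455) (nat_lit 76) (nat_lit 1137785455) (nat_lit 92) (nat_lit 1) (nat_lit 90) (nat_lit 1)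 (nat_lit 91) (nat_lit 1) (nat_lit 329) (nat_lit 419) (nat_lit 272)) (XT.nd (nat_lit 78) (nat_lit 76) (nat_lit 0) (XT.lf (nat_lit 0) (nat_lit 1497358296) (nat_lit 0) (nat_lit 4779122357) (nat_lit 152) (nat_lit 1497358296) (nat_lit 90) (nat_lit 3) (nat_lit 90) (nat_lit 1) (nat_lit 92) (nat_lit 1) (nat_lit 330) (nat_lit 419) (nat_lit 271)) (XT.lf (nat_lit 76) (nat_lit 441443443) (nat_lit 0) (nat_lit 3627622143) (nat_lit 76) (nat_lit 3627622143) (nat_lit 90) (nat_lit 3) (nat_lit 89) (nat_lit 1) (nat_lit 90) (nat_lit 1) (nat_lit 331) (nat_lit 419) (nat_lit 270)))))) (XT.nd (nat_lit 390) (nat_lit 456) (nat_lit 0) (XT.nd (nat_lit 156) (nat_lit 228) (nat_lit 0) (XT.nd (nat_lit 78) (nat_lit 0) (nat_lit 0) (XT.lf (nat_lit 152) (nat_lit 5598657465) (nat_lit 0) (nat_lit 1010907640) (nat_lit 76) (nat_lit 1010907640) (nat_lit 89) (nat_lit 1) (nat_lit 87) (nat_lit 1) (nat_lit 88) (nat_lit 1) (nat_lit 332) (nat_lit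 419) (nat_lit 269)) (XT.lf (nat_lit 0) (nat_lit 1542978208) (nat_lit 0) (nat_lit 4458783071) (nat_lit 152) (nat_lit 1542978208) (nat_lit 87) (nat_lit 3) (nat_lit 87) (nat_lit 1) (nat_lit 89) (nat_lit 1) (nat_lit 333) (nat_lit 419) (nat_lit 268))) (XT.nd (nat_lit 78) (nat_lit 152) (nat_lit 0) (XT.lf (nat_lit 76) (nat_lit 602727275) (nat_lit 0) (nat_lit 3433605783) (nat_lit 76) (nat_lit 3433605783) (nat_lit 87) (nat_lit 3) (nat_lit 86) (nat_lit 1) (nat_lit 87) (nat_lit 1) (nat_lit 334) (nat_lit 419) (nat_lit 267)) (XT.nd (nat_lit 78) (nat_lit 0) (nat_lit 0) (XT.lf (nat_lit 152) (nat_lit 5599734751) (nat_lit 0) (nat_lit 898178344) (nat_lit 76) (nat_lit 898178344) (nat_lit 86) (nat_lit 1) (nat_lit 84) (nat_lit 1) (nat_lit 85) (nat_lit 1) (nat_lit 335) (nat_lit 419) (nat_lit 266)) (XT.lf (nat_lit 0) (nat_lit 1577318829) (nat_lit 0) (nat_lit 4167973683) (nat_lit 152) (nat_lit 1577318829) (nat_lit 84) (nat_lit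 3) (nat_lit 84) (nat_lit 1) (nat_lit 86) (nat_lit 1) (nat_lit 336) (nat_lit 419) (nat_lit 265))))) (XT.nd (nat_lit 156) (nat_lit 228) (nat_lit 0) (XT.nd (nat_lit 78) (nat_lit 152) (nat_lit 0) (XT.lf (nat_lit 76) (nat_lit 739894498) (nat_lit 0) (nat_lit 3255093386) (nat_lit 76) (nat_lit 3255093386) (nat_lit 84) (nat_lit 3) (nat_lit 83) (nat_lit 1) (nat_lit 84) (nat_lit 1) (nat_lit 337) (nat_lit 419) (nat_lit 264)) (XT.lf (nat_lit 152) (nat_lit 5582476368) (nat_lit 0) (nat_lit 798019826) (nat_lit 76) (nat_lit 798019826) (nat_lit 83) (nat_lit 1) (nat_lit 81) (nat_lit 1) (nat_lit 82) (nat_lit 1) (nat_lit 338) (nat_lit 419) (nat_lit 263))) (XT.nd (nat_lit 78) (nat_lit 228) (nat_lit 0) (XT.lf (nat_lit 0) (nat_lit 1601818297) (nat_lit 0) (nat_lit 3903581581) (nat_lit 152) (nat_lit 1601818297) (nat_lit 81) (nat_lit 3) (nat_lit 81) (nat_lit 1) (nat_lit 83) (nat_lit 1) (nat_lit 339) (nat_lit 419) (nat_lit 262))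 (XT.nd (nat_lit 78) (nat_lit 152) (nat_lit 0) (XT.lf (nat_lit 76) (nat_lit 855813008) (nat_lit 0) (nat_lit 3090534643) (nat_lit 76) (nat_lit 3090534643) (nat_lit 81) (nat_lit 3) (nat_lit 80) (nat_lit 1) (nat_lit 81) (nat_lit 1) (nat_lit 340) (nat_lit 419) (nat_lit 261)) (XT.lf (nat_lit 152) (nat_lit 5549457531) (nat_lit 0) (nat_lit 709030279) (nat_lit 76) (nat_lit 709030279) (nat_lit 80) (nat_lit 1) (nat_lit 78) (nat_lit 1) (nat_lit 79) (nat_lit 1) (nat_lit 341) (nat_lit 419) (nat_lit 260))))))))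
noncomputable def ec417 : XT := (XT.nd (nat_lit 1482) (nat_lit 1444) (nat_lit 0) (XT.nd (nat_lit 702) (nat_lit 684) (nat_lit 0) (XT.nd (nat_lit 312) (nat_lit 456) (nat_lit 0) (XT.nd (nat_lit 156) (nat_lit 152) (nat_lit 0) (XT.nd (nat_lit 78) (nat_lit 76) (nat_lit 0) (XT.lf (nat_lit 0) (nat_lit 1617749128) (nat_lit 0) (nat_lit 3662835993) (nat_lit 152) (nat_lit 1617749128) (nat_lit 78) (nat_lit 3) (nat_lit 78) (nat_lit 1) (nat_lit 80) (nat_lit 1) (nat_lit 342) (nat_lit 419) (nat_lit 259)) (XT.lf (nat_lit 76) (nat_lit 953025696) (nat_lit 0) (nat_lit 2938546924) (nat_lit 76) (nat_lit 2938546924) (nat_lit 78) (nat_lit 3) (nat_lit 77) (nat_lit 1) (nat_lit 78) (nat_lit 1) (nat_lit 343) (nat_lit 419) (nat_lit 258))) (XT.nd (nat_lit 78) (nat_lit 0) (nat_lit 0) (XT.lf (nat_lit 152) (nat_lit 5502950832) (nat_lit 0) (nat_lit 629964219) (nat_lit 76) (nat_lit 629964219) (nat_lit 77) (nat_lit 1) (nat_lit 75) (nat_lit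 1) (nat_lit 76) (nat_lit 1) (nat_lit 344) (nat_lit 419) (nat_lit 257)) (XT.lf (nat_lit 0) (nat_lit 1626236834) (nat_lit 0) (nat_lit 3443270025) (nat_lit 152) (nat_lit 1626236834) (nat_lit 75) (nat_lit 3) (nat_lit 75) (nat_lit 1) (nat_lit 77) (nat_lit 1) (nat_lit 345) (nat_lit 419) (nat_lit 256)))) (XT.nd (nat_lit 156) (nat_lit 228) (nat_lit 0) (XT.nd (nat_lit 78) (nat_lit 152) (nat_lit 0) (XT.lf (nat_lit 76) (nat_lit 1033786834) (nat_lit 0) (nat_lit 2797896729) (nat_lit 76) (nat_lit 2797896729) (nat_lit 75) (nat_lit 3) (nat_lit 74) (nat_lit 1) (nat_lit 75) (nat_lit 1) (nat_lit 346) (nat_lit 419) (nat_lit 255)) (XT.lf (nat_lit 152) (nat_lit 5444960434) (nat_lit 0) (nat_lit 559715050) (nat_lit 76) (nat_lit 559715050) (nat_lit 74) (nat_lit 1) (nat_lit 72) (nat_lit 1) (nat_lit 73) (nat_lit 1) (nat_lit 347) (nat_lit 419) (nat_lit 254))) (XT.nd (nat_lit 78) (nat_lit 228) (nat_lit 0) (XT.lf (nat_lit 0) (nat_lit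 1628276468) (nat_lit 0) (nat_lit 3242686924) (nat_lit 152) (nat_lit 1628276468) (nat_lit 72) (nat_lit 3) (nat_lit 72) (nat_lit 1) (nat_lit 74) (nat_lit 1) (nat_lit 348) (nat_lit 419) (nat_lit 253)) (XT.nd (nat_lit 78) (nat_lit 152) (nat_lit 0) (XT.lf (nat_lit 76) (nat_lit 1100094413) (nat_lit 0) (nat_lit 2667483206) (nat_lit 76) (nat_lit 2667483206) (nat_lit 72) (nat_lit 3) (nat_lit 71) (nat_lit 1) (nat_lit 72) (nat_lit 1) (nat_lit 349) (nat_lit 419) (nat_lit 252)) (XT.lf (nat_lit 152) (nat_lit 5377252449) (nat_lit 0) (nat_lit 497299572) (nat_lit 76) (nat_lit 497299572) (nat_lit 71) (nat_lit 1) (nat_lit 69) (nat_lit 1) (nat_lit 70) (nat_lit 1) (nat_lit 350) (nat_lit 419) (nat_lit 251)))))) (XT.nd (nat_lit 390) (nat_lit 380) (nat_lit 0) (XT.nd (nat_lit 156) (nat_lit 228) (nat_lit 0) (XT.nd (nat_lit 78) (nat_lit 76) (nat_lit 0) (XT.lf (nat_lit 0) (nat_lit 1624747313) (nat_lit 0) (nat_lit 3059130094) (nat_lit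 152) (nat_lit 1624747313) (nat_lit 69) (nat_lit 3) (nat_lit 69) (nat_lit 1) (nat_lit 71) (nat_lit 1) (nat_lit 351) (nat_lit 419) (nat_lit 250)) (XT.lf (nat_lit 76) (nat_lit 1153718862) (nat_lit 0) (nat_lit 2546323503) (nat_lit 76) (nat_lit 2546323503) (nat_lit 69) (nat_lit 3) (nat_lit 68) (nat_lit 1) (nat_lit 69) (nat_lit 1) (nat_lit 352) (nat_lit 419) (nat_lit 249))) (XT.nd (nat_lit 78) (nat_lit 76) (nat_lit 0) (XT.lf (nat_lit 152) (nat_lit 5301381898) (nat_lit 0) (nat_lit 441844229) (nat_lit 76) (nat_lit 441844229) (nat_lit 68) (nat_lit 1) (nat_lit 66) (nat_lit 1) (nat_lit 67) (nat_lit 1) (nat_lit 353) (nat_lit 419) (nat_lit 248)) (XT.nd (nat_lit 78) (nat_lit 76) (nat_lit 0) (XT.lf (nat_lit 0) (nat_lit 1616425935) (nat_lit 0) (nat_lit 2890856457) (nat_lit 152) (nat_lit 1616425935) (nat_lit 66) (nat_lit 3) (nat_lit 66) (nat_lit 1) (nat_lit 68) (nat_lit 1) (nat_lit 354) (nat_lit 419) (nat_lit 247))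 (XT.lf (nat_lit 76) (nat_lit 1196228561) (nat_lit 0) (nat_lit 2433539748) (nat_lit 76) (nat_lit 2433539748) (nat_lit 66) (nat_lit 3) (nat_lit 65) (nat_lit 1) (nat_lit 66) (nat_lit 1) (nat_lit 355) (nat_lit 419) (nat_lit 246))))) (XT.nd (nat_lit 156) (nat_lit 228) (nat_lit 0) (XT.nd (nat_lit 78) (nat_lit 0) (nat_lit 0) (XT.lf (nat_lit 152) (nat_lit 5218716671) (nat_lit 0) (nat_lit 392572874) (nat_lit 76) (nat_lit 392572874) (nat_lit 65) (nat_lit 1) (nat_lit 63) (nat_lit 1) (nat_lit 64) (nat_lit 1) (nat_lit 356) (nat_lit 419) (nat_lit 245)) (XT.lf (nat_lit 0) (nat_lit 1603997771) (nat_lit 0) (nat_lit 2736312783) (nat_lit 152) (nat_lit 1603997771) (nat_lit 63) (nat_lit 3) (nat_lit 63) (nat_lit 1) (nat_lit 65) (nat_lit 1) (nat_lit 357) (nat_lit 419) (nat_lit 244))) (XT.nd (nat_lit 78) (nat_lit 152) (nat_lit 0) (XT.lf (nat_lit 76) (nat_lit 1229012511) (nat_lit 0) (nat_lit 2328347474) (nat_lit 76) (nat_lit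 2328347474) (nat_lit 63) (nat_lit 3) (nat_lit 62) (nat_lit 1) (nat_lit 63) (nat_lit 1) (nat_lit 358) (nat_lit 419) (nat_lit 243)) (XT.nd (nat_lit 78) (nat_lit 0) (nat_lit 0) (XT.lf (nat_lit 152) (nat_lit 5130458789) (nat_lit 0) (nat_lit 348795914) (nat_lit 76) (nat_lit 348795914) (nat_lit 62) (nat_lit 1) (nat_lit 60) (nat_lit 1) (nat_lit 61) (nat_lit 1) (nat_lit 359) (nat_lit 419) (nat_lit 242)) (XT.lf (nat_lit 0) (nat_lit 1588067422) (nat_lit 0) (nat_lit 2594114645) (nat_lit 152) (nat_lit 1588067422) (nat_lit 60) (nat_lit 3) (nat_lit 60) (nat_lit 1) (nat_lit 62) (nat_lit 1) (nat_lit 360) (nat_lit 419) (nat_lit 241))))))) (XT.nd (nat_lit 702) (nat_lit 760) (nat_lit 0) (XT.nd (nat_lit 312) (nat_lit 380) (nat_lit 0) (XT.nd (nat_lit 156) (nat_lit 76) (nat_lit 0) (XT.nd (nat_lit 78) (nat_lit 152) (nat_lit 0) (XT.lf (nat_lit 76) (nat_lit 1253300462) (nat_lit 0) (nat_lit 2230045338) (nat_lit 76) (nat_lit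 2230045338) (nat_lit 60) (nat_lit 3) (nat_lit 59) (nat_lit 1) (nat_lit 60) (nat_lit 1) (nat_lit 361) (nat_lit 419) (nat_lit 240)) (XT.lf (nat_lit 152) (nat_lit 5037663291) (nat_lit 0) (nat_lit 309900652) (nat_lit 76) (nat_lit 309900652) (nat_lit 59) (nat_lit 1) (nat_lit 57) (nat_lit 1) (nat_lit 58) (nat_lit 1) (nat_lit 362) (nat_lit 419) (nat_lit 239))) (XT.nd (nat_lit 78) (nat_lit 76) (nat_lit 0) (XT.lf (nat_lit 0) (nat_lit 1569167800) (nat_lit 0) (nat_lit 2463027727) (nat_lit 152) (nat_lit 1569167800) (nat_lit 57) (nat_lit 3) (nat_lit 57) (nat_lit 1) (nat_lit 59) (nat_lit 1) (nat_lit 363) (nat_lit 419) (nat_lit 238)) (XT.lf (nat_lit 76) (nat_lit 1270180805) (nat_lit 0) (nat_lit 2138005977) (nat_lit 76) (nat_lit 2138005977) (nat_lit 57) (nat_lit 3) (nat_lit 56) (nat_lit 1) (nat_lit 57) (nat_lit 1) (nat_lit 364) (nat_lit 419) (nat_lit 237)))) (XT.nd (nat_lit 156) (nat_lit 228) (nat_lit 0) (XT.nd (nat_lit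 78) (nat_lit 0) (nat_lit 0) (XT.lf (nat_lit 152) (nat_lit 4941255000) (nat_lit 0) (nat_lit 275342715) (nat_lit 76) (nat_lit 275342715) (nat_lit 56) (nat_lit 1) (nat_lit 54) (nat_lit 1) (nat_lit 55) (nat_lit 1) (nat_lit 365) (nat_lit 419) (nat_lit 236)) (XT.lf (nat_lit 0) (nat_lit 1547768242) (nat_lit 0) (nat_lit 2341951209) (nat_lit 152) (nat_lit 1547768242) (nat_lit 54) (nat_lit 3) (nat_lit 54) (nat_lit 1) (nat_lit 56) (nat_lit 1) (nat_lit 366) (nat_lit 419) (nat_lit 235))) (XT.nd (nat_lit 78) (nat_lit 152) (nat_lit 0) (XT.lf (nat_lit 76) (nat_lit 1280616453) (nat_lit 0) (nat_lit 2051667878) (nat_lit 76) (nat_lit 2051667878) (nat_lit 54) (nat_lit 3) (nat_lit 53) (nat_lit 1) (nat_lit 54) (nat_lit 1) (nat_lit 367) (nat_lit 419) (nat_lit 234)) (XT.nd (nat_lit 78) (nat_lit 0) (nat_lit 0) (XT.lf (nat_lit 152) (nat_lit 4842043412) (nat_lit 0) (nat_lit 244638436) (nat_lit 76) (nat_lit 244638436) (nat_lit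 53) (nat_lit 1) (nat_lit 51) (nat_lit 1) (nat_lit 52) (nat_lit 1) (nat_lit 368) (nat_lit 419) (nat_lit 233)) (XT.lf (nat_lit 0) (nat_lit 1524281720) (nat_lit 0) (nat_lit 2229903001) (nat_lit 152) (nat_lit 1524281720) (nat_lit 51) (nat_lit 3) (nat_lit 51) (nat_lit 1) (nat_lit 53) (nat_lit 1) (nat_lit 369) (nat_lit 419) (nat_lit 232)))))) (XT.nd (nat_lit 390) (nat_lit 304) (nat_lit 0) (XT.nd (nat_lit 156) (nat_lit 228) (nat_lit 0) (XT.nd (nat_lit 78) (nat_lit 152) (nat_lit 0) (XT.lf (nat_lit 76) (nat_lit 1285458957) (nat_lit 0) (nat_lit 1970528161) (nat_lit 76) (nat_lit 1970528161) (nat_lit 51) (nat_lit 3) (nat_lit 50) (nat_lit 1) (nat_lit 51) (nat_lit 1) (nat_lit 370) (nat_lit 419) (nat_lit 231)) (XT.lf (nat_lit 152) (nat_lit 4740735909) (nat_lit 0) (nat_lit 217358082) (nat_lit 76) (nat_lit 217358082) (nat_lit 50) (nat_lit 1) (nat_lit 48) (nat_lit 1) (nat_lit 49) (nat_lit 1) (nat_lit 371) (nat_lit 419)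 (nat_lit 230))) (XT.nd (nat_lit 78) (nat_lit 228) (nat_lit 0) (XT.lf (nat_lit 0) (nat_lit 1499071250) (nat_lit 0) (nat_lit 2126006618) (nat_lit 152) (nat_lit 1499071250) (nat_lit 48) (nat_lit 3) (nat_lit 48) (nat_lit 1) (nat_lit 50) (nat_lit 1) (nat_lit 372) (nat_lit 419) (nat_lit 229)) (XT.nd (nat_lit 78) (nat_lit 152) (nat_lit 0) (XT.lf (nat_lit 76) (nat_lit 1285461036) (nat_lit 0) (nat_lit 1894136152) (nat_lit 76) (nat_lit 1894136152) (nat_lit 48) (nat_lit 3) (nat_lit 47) (nat_lit 1) (nat_lit 48) (nat_lit 1) (nat_lit 373) (nat_lit 419) (nat_lit 228)) (XT.lf (nat_lit 152) (nat_lit 4637949494) (nat_lit 0) (nat_lit 193119841) (nat_lit 76) (nat_lit 193119841) (nat_lit 47) (nat_lit 1) (nat_lit 45) (nat_lit 1) (nat_lit 46) (nat_lit 1) (nat_lit 374) (nat_lit 419) (nat_lit 227))))) (XT.nd (nat_lit 156) (nat_lit 228) (nat_lit 0) (XT.nd (nat_lit 78) (nat_lit 76) (nat_lit 0) (XT.lf (nat_lit 0) (nat_lit 1472455568)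 (nat_lit 0) (nat_lit 2029479523) (nat_lit 152) (nat_lit 1472455568) (nat_lit 45) (nat_lit 3) (nat_lit 45) (nat_lit 1) (nat_lit 47) (nat_lit 1) (nat_lit 375) (nat_lit 419) (nat_lit 226)) (XT.lf (nat_lit 76) (nat_lit 1281287717) (nat_lit 0) (nat_lit 1822087673) (nat_lit 76) (nat_lit 1822087673) (nat_lit 45) (nat_lit 3) (nat_lit 44) (nat_lit 1) (nat_lit 45) (nat_lit 1) (nat_lit 376) (nat_lit 419) (nat_lit 225))) (XT.nd (nat_lit 78) (nat_lit 76) (nat_lit 0) (XT.lf (nat_lit 152) (nat_lit 4534221201) (nat_lit 0) (nat_lit 171584477) (nat_lit 76) (nat_lit 171584477) (nat_lit 44) (nat_lit 1) (nat_lit 42) (nat_lit 1) (nat_lit 43) (nat_lit 1) (nat_lit 377) (nat_lit 419) (nat_lit 224)) (XT.nd (nat_lit 78) (nat_lit 76) (nat_lit 0) (XT.lf (nat_lit 0) (nat_lit 1444714185) (nat_lit 0) (nat_lit 1939622754) (nat_lit 152) (nat_lit 1444714185) (nat_lit 42) (nat_lit 3) (nat_lit 42) (nat_lit 1) (nat_lit 44) (nat_lit 1) (nat_lit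 378) (nat_lit 419) (nat_lit 223)) (XT.lf (nat_lit 76) (nat_lit 1273526217) (nat_lit 0) (nat_lit 1754019973) (nat_lit 76) (nat_lit 1754019973) (nat_lit 42) (nat_lit 3) (nat_lit 41) (nat_lit 1) (nat_lit 42) (nat_lit 1) (nat_lit 379) (nat_lit 419) (nat_lit 222))))))))
noncomputable def ec418 : XT := (XT.nd (nat_lit 1482) (nat_lit 1216) (nat_lit 0) (XT.nd (nat_lit 702) (nat_lit 836) (nat_lit 0) (XT.nd (nat_lit 312) (nat_lit 304) (nat_lit 0) (XT.nd (nat_lit 156) (nat_lit 228) (nat_lit 0) (XT.nd (nat_lit 78) (nat_lit 0) (nat_lit 0) (XT.lf (nat_lit 152) (nat_lit 4430017340) (nat_lit 0) (nat_lit 152450585) (nat_lit 76) (nat_lit 152450585) (nat_lit 41) (nat_lit 1) (nat_lit 39) (nat_lit 1) (nat_lit 40) (nat_lit 1) (nat_lit 380) (nat_lit 419) (nat_lit 221)) (XT.lf (nat_lit 0) (nat_lit 1416091864) (nat_lit 0) (nat_lit 1855811718) (nat_lit 152) (nat_lit 1416091864) (nat_lit 39) (nat_lit 3) (nat_lit 39) (nat_lit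 1) (nat_lit 41) (nat_lit 1) (nat_lit 381) (nat_lit 419) (nat_lit 220))) (XT.nd (nat_lit 78) (nat_lit 152) (nat_lit 0) (XT.lf (nat_lit 76) (nat_lit 1262694729) (nat_lit 0) (nat_lit 1689607208) (nat_lit 76) (nat_lit 1689607208) (nat_lit 39) (nat_lit 3) (nat_lit 38) (nat_lit 1) (nat_lit 39) (nat_lit 1) (nat_lit 382) (nat_lit 419) (nat_lit 219)) (XT.lf (nat_lit 152) (nat_lit 4325741700) (nat_lit 0) (nat_lit 135450370) (nat_lit 76) (nat_lit 135450370) (nat_lit 38) (nat_lit 1) (nat_lit 36) (nat_lit 1) (nat_lit 37) (nat_lit 1) (nat_lit 383) (nat_lit 419) (nat_lit 218)))) (XT.nd (nat_lit 156) (nat_lit 228) (nat_lit 0) (XT.nd (nat_lit 78) (nat_lit 76) (nat_lit 0) (XT.lf (nat_lit 0) (nat_lit 1386802604) (nat_lit 0) (nat_lit 1777487998) (nat_lit 152) (nat_lit 1386802604) (nat_lit 36) (nat_lit 3) (nat_lit 36) (nat_lit 1) (nat_lit 38) (nat_lit 1) (nat_lit 384) (nat_lit 419) (nat_lit 217)) (XT.lf (nat_lit 76) (nat_lit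 1249250223) (nat_lit 0) (nat_lit 1628556431) (nat_lit 76) (nat_lit 1628556431) (nat_lit 36) (nat_lit 3) (nat_lit 35) (nat_lit 1) (nat_lit 36) (nat_lit 1) (nat_lit 385) (nat_lit 419) (nat_lit 216))) (XT.nd (nat_lit 78) (nat_lit 76) (nat_lit 0) (XT.lf (nat_lit 152) (nat_lit 4221742823) (nat_lit 0) (nat_lit 120345900) (nat_lit 76) (nat_lit 120345900) (nat_lit 35) (nat_lit 1) (nat_lit 33) (nat_lit 1) (nat_lit 34) (nat_lit 1) (nat_lit 386) (nat_lit 419) (nat_lit 215)) (XT.nd (nat_lit 78) (nat_lit 76) (nat_lit 0) (XT.lf (nat_lit 0) (nat_lit 1357033165) (nat_lit 0) (nat_lit 1704152078) (nat_lit 152) (nat_lit 1357033165) (nat_lit 33) (nat_lit 3) (nat_lit 33) (nat_lit 1) (nat_lit 35) (nat_lit 1) (nat_lit 387) (nat_lit 419) (nat_lit 214)) (XT.lf (nat_lit 76) (nat_lit 1233595371) (nat_lit 0) (nat_lit 1570604025) (nat_lit 76) (nat_lit 1570604025) (nat_lit 33) (nat_lit 3) (nat_lit 32) (nat_lit 1) (nat_lit 33) (nat_lit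 1) (nat_lit 388) (nat_lit 419) (nat_lit 213)))))) (XT.nd (nat_lit 390) (nat_lit 456) (nat_lit 0) (XT.nd (nat_lit 156) (nat_lit 228) (nat_lit 0) (XT.nd (nat_lit 78) (nat_lit 0) (nat_lit 0) (XT.lf (nat_lit 152) (nat_lit 4118320468) (nat_lit 0) (nat_lit 106925773) (nat_lit 76) (nat_lit 106925773) (nat_lit 32) (nat_lit 1) (nat_lit 30) (nat_lit 1) (nat_lit 31) (nat_lit 1) (nat_lit 389) (nat_lit 419) (nat_lit 212)) (XT.lf (nat_lit 0) (nat_lit 1326946209) (nat_lit 0) (nat_lit 1635356867) (nat_lit 152) (nat_lit 1326946209) (nat_lit 30) (nat_lit 3) (nat_lit 30) (nat_lit 1) (nat_lit 32) (nat_lit 1) (nat_lit 390) (nat_lit 419) (nat_lit 211))) (XT.nd (nat_lit 78) (nat_lit 152) (nat_lit 0) (XT.lf (nat_lit 76) (nat_lit 1216084703) (nat_lit 0) (nat_lit 1515512526) (nat_lit 76) (nat_lit 1515512526) (nat_lit 30) (nat_lit 3) (nat_lit 29) (nat_lit 1) (nat_lit 30) (nat_lit 1) (nat_lit 391) (nat_lit 419) (nat_lit 210))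 (XT.nd (nat_lit 78) (nat_lit 0) (nat_lit 0) (XT.lf (nat_lit 152) (nat_lit 4015731338) (nat_lit 0) (nat_lit 95002164) (nat_lit 76) (nat_lit 95002164) (nat_lit 29) (nat_lit 1) (nat_lit 27) (nat_lit 1) (nat_lit 28) (nat_lit 1) (nat_lit 392) (nat_lit 419) (nat_lit 209)) (XT.lf (nat_lit 0) (nat_lit 1296683082) (nat_lit 0) (nat_lit 1570701957) (nat_lit 152) (nat_lit 1296683082) (nat_lit 27) (nat_lit 3) (nat_lit 27) (nat_lit 1) (nat_lit 29) (nat_lit 1) (nat_lit 393) (nat_lit 419) (nat_lit 208))))) (XT.nd (nat_lit 156) (nat_lit 228) (nat_lit 0) (XT.nd (nat_lit 78) (nat_lit 152) (nat_lit 0) (XT.lf (nat_lit 76) (nat_lit 1197030064) (nat_lit 0) (nat_lit 1463067807) (nat_lit 76) (nat_lit 1463067807) (nat_lit 27) (nat_lit 3) (nat_lit 26) (nat_lit 1) (nat_lit 27) (nat_lit 1) (nat_lit 394) (nat_lit 419) (nat_lit 207)) (XT.lf (nat_lit 152) (nat_lit 3914194158) (nat_lit 0) (nat_lit 84408193) (nat_lit 76) (nat_lit 84408193)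 (nat_lit 26) (nat_lit 1) (nat_lit 24) (nat_lit 1) (nat_lit 25) (nat_lit 1) (nat_lit 395) (nat_lit 419) (nat_lit 206))) (XT.nd (nat_lit 78) (nat_lit 228) (nat_lit 0) (XT.lf (nat_lit 0) (nat_lit 1266366281) (nat_lit 0) (nat_lit 1509828502) (nat_lit 152) (nat_lit 1266366281) (nat_lit 24) (nat_lit 3) (nat_lit 24) (nat_lit 1) (nat_lit 26) (nat_lit 1) (nat_lit 396) (nat_lit 419) (nat_lit 205)) (XT.nd (nat_lit 78) (nat_lit 152) (nat_lit 0) (XT.lf (nat_lit 76) (nat_lit 1176705471) (nat_lit 0) (nat_lit 1413076560) (nat_lit 76) (nat_lit 1413076560) (nat_lit 24) (nat_lit 3) (nat_lit 23) (nat_lit 1) (nat_lit 24) (nat_lit 1) (nat_lit 397) (nat_lit 419) (nat_lit 204)) (XT.lf (nat_lit 152) (nat_lit 3813894187) (nat_lit 0) (nat_lit 74995586) (nat_lit 76) (nat_lit 74995586) (nat_lit 23) (nat_lit 1) (nat_lit 21) (nat_lit 1) (nat_lit 22) (nat_lit 1) (nat_lit 398) (nat_lit 419) (nat_lit 203))))))) (XT.nd (nat_lit 702)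 (nat_lit 532) (nat_lit 0) (XT.nd (nat_lit 312) (nat_lit 456) (nat_lit 0) (XT.nd (nat_lit 156) (nat_lit 152) (nat_lit 0) (XT.nd (nat_lit 78) (nat_lit 76) (nat_lit 0) (XT.lf (nat_lit 0) (nat_lit 1236101647) (nat_lit 0) (nat_lit 1452414678) (nat_lit 152) (nat_lit 1236101647) (nat_lit 21) (nat_lit 3) (nat_lit 21) (nat_lit 1) (nat_lit 23) (nat_lit 1) (nat_lit 399) (nat_lit 419) (nat_lit 202)) (XT.lf (nat_lit 76) (nat_lit 1155351418) (nat_lit 0) (nat_lit 1365364069) (nat_lit 76) (nat_lit 1365364069) (nat_lit 21) (nat_lit 3) (nat_lit 20) (nat_lit 1) (nat_lit 21) (nat_lit 1) (nat_lit 400) (nat_lit 419) (nat_lit 201))) (XT.nd (nat_lit 78) (nat_lit 0) (nat_lit 0) (XT.lf (nat_lit 152) (nat_lit 3714987213) (nat_lit 0) (nat_lit 66632607) (nat_lit 76) (nat_lit 66632607) (nat_lit 20) (nat_lit 1) (nat_lit 18) (nat_lit 1) (nat_lit 19) (nat_lit 1) (nat_lit 401) (nat_lit 419) (nat_lit 200)) (XT.lf (nat_lit 0) (nat_lit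 1205980312) (nat_lit 0) (nat_lit 1398171638) (nat_lit 152) (nat_lit 1205980312) (nat_lit 18) (nat_lit 3) (nat_lit 18) (nat_lit 1) (nat_lit 20) (nat_lit 1) (nat_lit 402) (nat_lit 419) (nat_lit 199)))) (XT.nd (nat_lit 156) (nat_lit 228) (nat_lit 0) (XT.nd (nat_lit 78) (nat_lit 152) (nat_lit 0) (XT.lf (nat_lit 76) (nat_lit 1133178701) (nat_lit 0) (nat_lit 1319772221) (nat_lit 76) (nat_lit 1319772221) (nat_lit 18) (nat_lit 3) (nat_lit 17) (nat_lit 1) (nat_lit 18) (nat_lit 1) (nat_lit 403) (nat_lit 419) (nat_lit 198)) (XT.lf (nat_lit 152) (nat_lit 3617603096) (nat_lit 0) (nat_lit 59202208) (nat_lit 76) (nat_lit 59202208) (nat_lit 17) (nat_lit 1) (nat_lit 15) (nat_lit 1) (nat_lit 16) (nat_lit 1) (nat_lit 404) (nat_lit 419) (nat_lit 197))) (XT.nd (nat_lit 78) (nat_lit 228) (nat_lit 0) (XT.lf (nat_lit 0) (nat_lit 1176080420) (nat_lit 0) (nat_lit 1346839924) (nat_lit 152) (nat_lit 1176080420) (nat_lit 15) (nat_lit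 3) (nat_lit 15) (nat_lit 1) (nat_lit 17) (nat_lit 1) (nat_lit 405) (nat_lit 419) (nat_lit 196)) (XT.nd (nat_lit 78) (nat_lit 152) (nat_lit 0) (XT.lf (nat_lit 76) (nat_lit 1110371812) (nat_lit 0) (nat_lit 1276157738) (nat_lit 76) (nat_lit 1276157738) (nat_lit 15) (nat_lit 3) (nat_lit 14) (nat_lit 1) (nat_lit 15) (nat_lit 1) (nat_lit 406) (nat_lit 419) (nat_lit 195)) (XT.lf (nat_lit 152) (nat_lit 3521848907) (nat_lit 0) (nat_lit 52600395) (nat_lit 76) (nat_lit 52600395) (nat_lit 14) (nat_lit 1) (nat_lit 12) (nat_lit 1) (nat_lit 13) (nat_lit 1) (nat_lit 407) (nat_lit 419) (nat_lit 194)))))) (XT.nd (nat_lit 390) (nat_lit 228) (nat_lit 0) (XT.nd (nat_lit 156) (nat_lit 228) (nat_lit 0) (XT.nd (nat_lit 78) (nat_lit 76) (nat_lit 0) (XT.lf (nat_lit 0) (nat_lit 1146468660) (nat_lit 0) (nat_lit 1298186267) (nat_lit 152) (nat_lit 1146468660) (nat_lit 12) (nat_lit 3) (nat_lit 12) (nat_lit 1) (nat_lit 14) (nat_lit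 1) (nat_lit 408) (nat_lit 419) (nat_lit 193)) (XT.lf (nat_lit 76) (nat_lit 1087091958) (nat_lit 0) (nat_lit 1234390606) (nat_lit 76) (nat_lit 1234390606) (nat_lit 12) (nat_lit 3) (nat_lit 11) (nat_lit 1) (nat_lit 12) (nat_lit 1) (nat_lit 409) (nat_lit 419) (nat_lit 192))) (XT.nd (nat_lit 78) (nat_lit 76) (nat_lit 0) (XT.lf (nat_lit 152) (nat_lit 3427811713) (nat_lit 0) (nat_lit 46734769) (nat_lit 76) (nat_lit 46734769) (nat_lit 11) (nat_lit 1) (nat_lit 9) (nat_lit 1) (nat_lit 10) (nat_lit 1) (nat_lit 410) (nat_lit 419) (nat_lit 191)) (XT.nd (nat_lit 78) (nat_lit 76) (nat_lit 0) (XT.lf (nat_lit 0) (nat_lit 1117201622) (nat_lit 0) (nat_lit 1252000751) (nat_lit 152) (nat_lit 1117201622) (nat_lit 9) (nat_lit 3) (nat_lit 9) (nat_lit 1) (nat_lit 11) (nat_lit 1) (nat_lit 411) (nat_lit 419) (nat_lit 190)) (XT.lf (nat_lit 76) (nat_lit 1063479730) (nat_lit 0) (nat_lit 1194352671) (nat_lit 76) (nat_lit 1194352671)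 (nat_lit 9) (nat_lit 3) (nat_lit 8) (nat_lit 1) (nat_lit 9) (nat_lit 1) (nat_lit 412) (nat_lit 419) (nat_lit 189))))) (XT.nd (nat_lit 156) (nat_lit 76) (nat_lit 0) (XT.nd (nat_lit 78) (nat_lit 0) (nat_lit 0) (XT.lf (nat_lit 152) (nat_lit 3335561042) (nat_lit 0) (nat_lit 41523237) (nat_lit 76) (nat_lit 41523237) (nat_lit 8) (nat_lit 1) (nat_lit 6) (nat_lit 1) (nat_lit 7) (nat_lit 1) (nat_lit 413) (nat_lit 419) (nat_lit 188)) (XT.lf (nat_lit 0) (nat_lit 1088327004) (nat_lit 0) (nat_lit 1208094284) (nat_lit 152) (nat_lit 1088327004) (nat_lit 6) (nat_lit 3) (nat_lit 6) (nat_lit 1) (nat_lit 8) (nat_lit 1) (nat_lit 414) (nat_lit 419) (nat_lit 187))) (XT.nd (nat_lit 35256) (nat_lit 0) (nat_lit 28272) (XT.lf (nat_lit 76) (nat_lit 1039657486) (nat_lit 0) (nat_lit 1155936399) (nat_lit 76) (nat_lit 1155936399) (nat_lit 6) (nat_lit 3) (nat_lit 5) (nat_lit 1) (nat_lit 6) (nat_lit 1) (nat_lit 415) (nat_lit 419) (nat_lit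 186)) (XT.nd (nat_lit 78) (nat_lit 0) (nat_lit 0) (XT.lf (nat_lit 1292) (nat_lit 5520877748) (nat_lit 0) (nat_lit 28528716764) (nat_lit 1216) (nat_lit 5520877748) (nat_lit 394) (nat_lit 1) (nat_lit 377) (nat_lit 1) (nat_lit 393) (nat_lit 1) (nat_lit 186) (nat_lit 420) (nat_lit 414)) (XT.lf (nat_lit 1292) (nat_lit 9589660622) (nat_lit 76) (nat_lit 14708742932) (nat_lit 0) (nat_lit 14708742932) (nat_lit 394) (nat_lit 1) (nat_lit 378) (nat_lit 1) (nat_lit 377) (nat_lit 1) (nat_lit 187) (nat_lit 420) (nat_lit 413))))))))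
noncomputable def ec419 : XT := (XT.nd (nat_lit 1482) (nat_lit 5168) (nat_lit 0) (XT.nd (nat_lit 702) (nat_lit 3116) (nat_lit 0) (XT.nd (nat_lit 312) (nat_lit 1140) (nat_lit 0) (XT.nd (nat_lit 156) (nat_lit 0) (nat_lit 76) (XT.nd (nat_lit 78) (nat_lit 0) (nat_lit 0) (XT.lf (nat_lit 1292) (nat_lit 4042456319) (nat_lit 0) (nat_lit 30372550171) (nat_lit 1216) (nat_lit 4042456319) (nat_lit 395) (nat_lit 1) (nat_lit 378) (nat_lit 1) (nat_lit 394) (nat_lit 1) (nat_lit 188) (nat_lit 420) (nat_lit 412)) (XT.lf (nat_lit 1292) (nat_lit 6326222165) (nat_lit 76) (nat_lit 15794447127) (nat_lit 0) (nat_lit 15794447127) (nat_lit 395) (nat_lit 1) (nat_lit 379) (nat_lit 1) (nat_lit 378) (nat_lit 1) (nat_lit 189) (nat_lit 420) (nat_lit 411))) (XT.nd (nat_lit 78) (nat_lit 0) (nat_lit 0) (XT.lf (nat_lit 1292) (nat_lit 2278059912) (nat_lit 0) (nat_lit 32830622358) (nat_lit 1216) (nat_lit 2278059912) (nat_lit 396) (nat_lit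 1) (nat_lit 379) (nat_lit 1) (nat_lit 395) (nat_lit 1) (nat_lit 190) (nat_lit 420) (nat_lit 410)) (XT.lf (nat_lit 1292) (nat_lit 2515705015) (nat_lit 76) (nat_lit 17174338824) (nat_lit 0) (nat_lit 17174338824) (nat_lit 396) (nat_lit 1) (nat_lit 380) (nat_lit 1) (nat_lit 379) (nat_lit 1) (nat_lit 191) (nat_lit 420) (nat_lit 409)))) (XT.nd (nat_lit 156) (nat_lit 0) (nat_lit 0) (XT.nd (nat_lit 78) (nat_lit 1292) (nat_lit 0) (XT.lf (nat_lit 1292) (nat_lit 254905896) (nat_lit 0) (nat_lit 35846700233) (nat_lit 1216) (nat_lit 254905896) (nat_lit 397) (nat_lit 1) (nat_lit 380) (nat_lit 1) (nat_lit 396) (nat_lit 1) (nat_lit 192) (nat_lit 420) (nat_lit 408)) (XT.lf (nat_lit 1368) (nat_lit 17049248921) (nat_lit 0) (nat_lit 1754183892) (nat_lit 1292) (nat_lit 17049248921) (nat_lit 381) (nat_lit 1) (nat_lit 363) (nat_lit 1) (nat_lit 380) (nat_lit 1) (nat_lit 193) (nat_lit 420) (nat_lit 407))) (XT.nd (nat_lit 78)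 (nat_lit 0) (nat_lit 76) (XT.lf (nat_lit 1368) (nat_lit 31398655939) (nat_lit 76) (nat_lit 1982041175) (nat_lit 0) (nat_lit 1982041175) (nat_lit 381) (nat_lit 1) (nat_lit 364) (nat_lit 1) (nat_lit 363) (nat_lit 1) (nat_lit 194) (nat_lit 420) (nat_lit 406)) (XT.nd (nat_lit 78) (nat_lit 0) (nat_lit 0) (XT.lf (nat_lit 1368) (nat_lit 14233286212) (nat_lit 0) (nat_lit 6411437924) (nat_lit 1292) (nat_lit 14233286212) (nat_lit 382) (nat_lit 1) (nat_lit 364) (nat_lit 1) (nat_lit 381) (nat_lit 1) (nat_lit 195) (nat_lit 420) (nat_lit 405)) (XT.lf (nat_lit 1368) (nat_lit 25557032166) (nat_lit 76) (nat_lit 4424268868) (nat_lit 0) (nat_lit 4424268868) (nat_lit 382) (nat_lit 1) (nat_lit 365) (nat_lit 1) (nat_lit 364) (nat_lit 1) (nat_lit 196) (nat_lit 420) (nat_lit 404)))))) (XT.nd (nat_lit 390) (nat_lit 1824) (nat_lit 0) (XT.nd (nat_lit 156) (nat_lit 608) (nat_lit 0) (XT.nd (nat_lit 78) (nat_lit 836) (nat_lit 0)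 (XT.lf (nat_lit 76) (nat_lit 11239597938) (nat_lit 0) (nat_lit 11460323889) (nat_lit 1292) (nat_lit 11239597938) (nat_lit 366) (nat_lit 1) (nat_lit 365) (nat_lit 1) (nat_lit 382) (nat_lit 1) (nat_lit 197) (nat_lit 420) (nat_lit 403)) (XT.lf (nat_lit 912) (nat_lit 19378649188) (nat_lit 0) (nat_lit 7052561103) (nat_lit 836) (nat_lit 7052561103) (nat_lit 366) (nat_lit 1) (nat_lit 354) (nat_lit 1) (nat_lit 365) (nat_lit 1) (nat_lit 198) (nat_lit 420) (nat_lit 402))) (XT.nd (nat_lit 78) (nat_lit 608) (nat_lit 0) (XT.lf (nat_lit 76) (nat_lit 8088270935) (nat_lit 0) (nat_lit 16859166995) (nat_lit 912) (nat_lit 8088270935) (nat_lit 355) (nat_lit 1) (nat_lit 354) (nat_lit 1) (nat_lit 366) (nat_lit 1) (nat_lit 199) (nat_lit 420) (nat_lit 401)) (XT.nd (nat_lit 78) (nat_lit 0) (nat_lit 0) (XT.lf (nat_lit 684) (nat_lit 12902413864) (nat_lit 0) (nat_lit 9846734342) (nat_lit 608) (nat_lit 9846734342) (nat_lit 355)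 (nat_lit 1) (nat_lit 346) (nat_lit 1) (nat_lit 354) (nat_lit 1) (nat_lit 200) (nat_lit 420) (nat_lit 400)) (XT.lf (nat_lit 76) (nat_lit 4797951068) (nat_lit 0) (nat_lit 22569243791) (nat_lit 684) (nat_lit 4797951068) (nat_lit 347) (nat_lit 1) (nat_lit 346) (nat_lit 1) (nat_lit 355) (nat_lit 1) (nat_lit 201) (nat_lit 420) (nat_lit 399))))) (XT.nd (nat_lit 156) (nat_lit 1216) (nat_lit 0) (XT.nd (nat_lit 78) (nat_lit 0) (nat_lit 0) (XT.lf (nat_lit 684) (nat_lit 6164429481) (nat_lit 0) (nat_lit 12788040441) (nat_lit 608) (nat_lit 12788040441) (nat_lit 347) (nat_lit 1) (nat_lit 338) (nat_lit 1) (nat_lit 346) (nat_lit 1) (nat_lit 202) (nat_lit 420) (nat_lit 398)) (XT.lf (nat_lit 76) (nat_lit 1385934337) (nat_lit 0) (nat_lit 28554596460) (nat_lit 684) (nat_lit 1385934337) (nat_lit 339) (nat_lit 1) (nat_lit 338) (nat_lit 1) (nat_lit 347) (nat_lit 1) (nat_lit 203) (nat_lit 420) (nat_lit 397))) (XT.nd (nat_lit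 78) (nat_lit 608) (nat_lit 0) (XT.lf (nat_lit 76) (nat_lit 15064957137) (nat_lit 0) (nat_lit 786180177) (nat_lit 608) (nat_lit 15064957137) (nat_lit 331) (nat_lit 1) (nat_lit 330) (nat_lit 1) (nat_lit 338) (nat_lit 1) (nat_lit 204) (nat_lit 420) (nat_lit 396)) (XT.nd (nat_lit 78) (nat_lit 0) (nat_lit 0) (XT.lf (nat_lit 684) (nat_lit 26294195830) (nat_lit 0) (nat_lit 2110848010) (nat_lit 608) (nat_lit 2110848010) (nat_lit 331) (nat_lit 1) (nat_lit 322) (nat_lit 1) (nat_lit 330) (nat_lit 1) (nat_lit 205) (nat_lit 420) (nat_lit 395)) (XT.lf (nat_lit 76) (nat_lit 11154929384) (nat_lit 0) (nat_lit 7809904190) (nat_lit 684) (nat_lit 11154929384) (nat_lit 323) (nat_lit 1) (nat_lit 322) (nat_lit 1) (nat_lit 331) (nat_lit 1) (nat_lit 206) (nat_lit 420) (nat_lit 394))))))) (XT.nd (nat_lit 702) (nat_lit 2584) (nat_lit 0) (XT.nd (nat_lit 312) (nat_lit 1520) (nat_lit 0) (XT.nd (nat_lit 156) (nat_lit 532) (nat_lit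 0) (XT.nd (nat_lit 78) (nat_lit 0) (nat_lit 0) (XT.lf (nat_lit 608) (nat_lit 18365002671) (nat_lit 0) (nat_lit 5683969502) (nat_lit 532) (nat_lit 5683969502) (nat_lit 323) (nat_lit 1) (nat_lit 315) (nat_lit 1) (nat_lit 322) (nat_lit 1) (nat_lit 207) (nat_lit 420) (nat_lit 393)) (XT.lf (nat_lit 76) (nat_lit 7176606792) (nat_lit 0) (nat_lit 14998877376) (nat_lit 608) (nat_lit 7176606792) (nat_lit 316) (nat_lit 1) (nat_lit 315) (nat_lit 1) (nat_lit 323) (nat_lit 1) (nat_lit 208) (nat_lit 420) (nat_lit 392))) (XT.nd (nat_lit 78) (nat_lit 0) (nat_lit 0) (XT.lf (nat_lit 608) (nat_lit 10311224907) (nat_lit 0) (nat_lit 9333412566) (nat_lit 532) (nat_lit 9333412566) (nat_lit 316) (nat_lit 1) (nat_lit 308) (nat_lit 1) (nat_lit 315) (nat_lit 1) (nat_lit 209) (nat_lit 420) (nat_lit 391)) (XT.lf (nat_lit 76) (nat_lit 3142436359) (nat_lit 0) (nat_lit 22327057262) (nat_lit 608) (nat_lit 3142436359) (nat_lit 309) (nat_lit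 1) (nat_lit 308) (nat_lit 1) (nat_lit 316) (nat_lit 1) (nat_lit 210) (nat_lit 420) (nat_lit 390)))) (XT.nd (nat_lit 156) (nat_lit 456) (nat_lit 0) (XT.nd (nat_lit 78) (nat_lit 608) (nat_lit 0) (XT.lf (nat_lit 532) (nat_lit 2156900207) (nat_lit 0) (nat_lit 13046598945) (nat_lit 456) (nat_lit 13046598945) (nat_lit 309) (nat_lit 1) (nat_lit 302) (nat_lit 1) (nat_lit 308) (nat_lit 1) (nat_lit 211) (nat_lit 420) (nat_lit 389)) (XT.lf (nat_lit 608) (nat_lit 26043257066) (nat_lit 0) (nat_lit 926920342) (nat_lit 532) (nat_lit 926920342) (nat_lit 302) (nat_lit 1) (nat_lit 294) (nat_lit 1) (nat_lit 301) (nat_lit 1) (nat_lit 212) (nat_lit 420) (nat_lit 388))) (XT.nd (nat_lit 78) (nat_lit 456) (nat_lit 0) (XT.lf (nat_lit 76) (nat_lit 10794510085) (nat_lit 0) (nat_lit 5957244598) (nat_lit 608) (nat_lit 10794510085) (nat_lit 295) (nat_lit 1) (nat_lit 294) (nat_lit 1) (nat_lit 302) (nat_lit 1) (nat_lit 213) (nat_lit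 420) (nat_lit 387)) (XT.nd (nat_lit 78) (nat_lit 0) (nat_lit 0) (XT.lf (nat_lit 532) (nat_lit 17206113971) (nat_lit 0) (nat_lit 4998917576) (nat_lit 456) (nat_lit 4998917576) (nat_lit 295) (nat_lit 1) (nat_lit 288) (nat_lit 1) (nat_lit 294) (nat_lit 1) (nat_lit 214) (nat_lit 420) (nat_lit 386)) (XT.lf (nat_lit 76) (nat_lit 6390253834) (nat_lit 0) (nat_lit 14086134299) (nat_lit 532) (nat_lit 6390253834) (nat_lit 289) (nat_lit 1) (nat_lit 288) (nat_lit 1) (nat_lit 295) (nat_lit 1) (nat_lit 215) (nat_lit 420) (nat_lit 385)))))) (XT.nd (nat_lit 390) (nat_lit 1216) (nat_lit 0) (XT.nd (nat_lit 156) (nat_lit 912) (nat_lit 0) (XT.nd (nat_lit 78) (nat_lit 0) (nat_lit 0) (XT.lf (nat_lit 532) (nat_lit 8345703166) (nat_lit 0) (nat_lit 9094716907) (nat_lit 456) (nat_lit 9094716907) (nat_lit 289) (nat_lit 1) (nat_lit 282) (nat_lit 1) (nat_lit 288) (nat_lit 1) (nat_lit 216) (nat_lit 420) (nat_lit 384)) (XT.lf (nat_lit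 76) (nat_lit 1978718501) (nat_lit 0) (nat_lit 22253443757) (nat_lit 532) (nat_lit 1978718501) (nat_lit 283) (nat_lit 1) (nat_lit 282) (nat_lit 1) (nat_lit 289) (nat_lit 1) (nat_lit 217) (nat_lit 420) (nat_lit 383))) (XT.nd (nat_lit 78) (nat_lit 456) (nat_lit 0) (XT.lf (nat_lit 76) (nat_lit 12689273862) (nat_lit 0) (nat_lit 511016373) (nat_lit 456) (nat_lit 12689273862) (nat_lit 277) (nat_lit 1) (nat_lit 276) (nat_lit 1) (nat_lit 282) (nat_lit 1) (nat_lit 218) (nat_lit 420) (nat_lit 382)) (XT.nd (nat_lit 78) (nat_lit 0) (nat_lit 0) (XT.lf (nat_lit 532) (nat_lit 20758716753) (nat_lit 0) (nat_lit 2408258156) (nat_lit 456) (nat_lit 2408258156) (nat_lit 277) (nat_lit 1) (nat_lit 270) (nat_lit 1) (nat_lit 276) (nat_lit 1) (nat_lit 219) (nat_lit 420) (nat_lit 381)) (XT.lf (nat_lit 76) (nat_lit 8033956058) (nat_lit 0) (nat_lit 9196158827) (nat_lit 532) (nat_lit 8033956058) (nat_lit 271) (nat_lit 1) (nat_lit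 270) (nat_lit 1) (nat_lit 277) (nat_lit 1) (nat_lit 220) (nat_lit 420) (nat_lit 380))))) (XT.nd (nat_lit 156) (nat_lit 836) (nat_lit 0) (XT.nd (nat_lit 78) (nat_lit 0) (nat_lit 0) (XT.lf (nat_lit 456) (nat_lit 11423574437) (nat_lit 0) (nat_lit 6767885692) (nat_lit 380) (nat_lit 6767885692) (nat_lit 271) (nat_lit 1) (nat_lit 265) (nat_lit 1) (nat_lit 270) (nat_lit 1) (nat_lit 221) (nat_lit 420) (nat_lit 379)) (XT.lf (nat_lit 76) (nat_lit 3400702015) (nat_lit 0) (nat_lit 17858797845) (nat_lit 456) (nat_lit 3400702015) (nat_lit 266) (nat_lit 1) (nat_lit 265) (nat_lit 1) (nat_lit 271) (nat_lit 1) (nat_lit 222) (nat_lit 420) (nat_lit 378))) (XT.nd (nat_lit 78) (nat_lit 456) (nat_lit 0) (XT.lf (nat_lit 456) (nat_lit 2138773695) (nat_lit 0) (nat_lit 11112948783) (nat_lit 380) (nat_lit 11112948783) (nat_lit 266) (nat_lit 1) (nat_lit 260) (nat_lit 1) (nat_lit 265) (nat_lit 1) (nat_lit 223) (nat_lit 420) (nat_lit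 377)) (XT.nd (nat_lit 78) (nat_lit 0) (nat_lit 0) (XT.lf (nat_lit 456) (nat_lit 21690127037) (nat_lit 0) (nat_lit 1192803984) (nat_lit 380) (nat_lit 1192803984) (nat_lit 260) (nat_lit 1) (nat_lit 254) (nat_lit 1) (nat_lit 259) (nat_lit 1) (nat_lit 224) (nat_lit 420) (nat_lit 376)) (XT.lf (nat_lit 76) (nat_lit 8421084943) (nat_lit 0) (nat_lit 6946190707) (nat_lit 456) (nat_lit 8421084943) (nat_lit 255) (nat_lit 1) (nat_lit 254) (nat_lit 1) (nat_lit 260) (nat_lit 1) (nat_lit 225) (nat_lit 420) (nat_lit 375))))))))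
noncomputable def ec420 : XT := (XT.nd (nat_lit 1404) (nat_lit 2812) (nat_lit 0) (XT.nd (nat_lit 702) (nat_lit 1520) (nat_lit 0) (XT.nd (nat_lit 312) (nat_lit 988) (nat_lit 0) (XT.nd (nat_lit 156) (nat_lit 760) (nat_lit 0) (XT.nd (nat_lit 78) (nat_lit 0) (nat_lit 0) (XT.lf (nat_lit 456) (nat_lit 12067315463) (nat_lit 0) (nat_lit 5720028677) (nat_lit 380) (nat_lit 5720028677) (nat_lit 255) (nat_lit 1) (nat_lit 249) (nat_lit 1) (nat_lit 254) (nat_lit 1) (nat_lit 226) (nat_lit 420) (nat_lit 374)) (XT.lf (nat_lit 76) (nat_lit 3656028049) (nat_lit 0) (nat_lit 15919033101) (nat_lit 456) (nat_lit 3656028049) (nat_lit 250) (nat_lit 1) (nat_lit 249) (nat_lit 1) (nat_lit 255) (nat_lit 1) (nat_lit 227) (nat_lit 420) (nat_lit 373))) (XT.nd (nat_lit 78) (nat_lit 456) (nat_lit 0) (XT.lf (nat_lit 380) (nat_lit 2539230482) (nat_lit 0) (nat_lit 10209538248) (nat_lit 304) (nat_lit 10209538248) (nat_lit 250) (nat_lit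 1) (nat_lit 245) (nat_lit 1) (nat_lit 249) (nat_lit 1) (nat_lit 228) (nat_lit 420) (nat_lit 372)) (XT.lf (nat_lit 456) (nat_lit 20592568771) (nat_lit 0) (nat_lit 1049470053) (nat_lit 380) (nat_lit 1049470053) (nat_lit 245) (nat_lit 1) (nat_lit 239) (nat_lit 1) (nat_lit 244) (nat_lit 1) (nat_lit 229) (nat_lit 420) (nat_lit 371)))) (XT.nd (nat_lit 156) (nat_lit 684) (nat_lit 0) (XT.nd (nat_lit 78) (nat_lit 304) (nat_lit 0) (XT.lf (nat_lit 76) (nat_lit 7836985918) (nat_lit 0) (nat_lit 6751860374) (nat_lit 456) (nat_lit 7836985918) (nat_lit 240) (nat_lit 1) (nat_lit 239) (nat_lit 1) (nat_lit 245) (nat_lit 1) (nat_lit 230) (nat_lit 420) (nat_lit 370)) (XT.lf (nat_lit 380) (nat_lit 10832440297) (nat_lit 0) (nat_lit 5666762700) (nat_lit 304) (nat_lit 5666762700) (nat_lit 240) (nat_lit 1) (nat_lit 235) (nat_lit 1) (nat_lit 239) (nat_lit 1) (nat_lit 231) (nat_lit 420) (nat_lit 369))) (XT.nd (nat_lit 78) (nat_lit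 684) (nat_lit 0) (XT.lf (nat_lit 76) (nat_lit 3012336178) (nat_lit 0) (nat_lit 15885871915) (nat_lit 380) (nat_lit 3012336178) (nat_lit 236) (nat_lit 1) (nat_lit 235) (nat_lit 1) (nat_lit 240) (nat_lit 1) (nat_lit 232) (nat_lit 420) (nat_lit 368)) (XT.nd (nat_lit 78) (nat_lit 380) (nat_lit 0) (XT.lf (nat_lit 380) (nat_lit 1201192648) (nat_lit 0) (nat_lit 10228416713) (nat_lit 304) (nat_lit 10228416713) (nat_lit 236) (nat_lit 1) (nat_lit 231) (nat_lit 1) (nat_lit 235) (nat_lit 1) (nat_lit 233) (nat_lit 420) (nat_lit 367)) (XT.lf (nat_lit 380) (nat_lit 17951052710) (nat_lit 0) (nat_lit 1729719244) (nat_lit 304) (nat_lit 1729719244) (nat_lit 231) (nat_lit 1) (nat_lit 226) (nat_lit 1) (nat_lit 230) (nat_lit 1) (nat_lit 234) (nat_lit 420) (nat_lit 366)))))) (XT.nd (nat_lit 312) (nat_lit 912) (nat_lit 0) (XT.nd (nat_lit 156) (nat_lit 304) (nat_lit 0) (XT.nd (nat_lit 78) (nat_lit 304) (nat_lit 0) (XT.lf (nat_lit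 76) (nat_lit 6515265185) (nat_lit 0) (nat_lit 8134122700) (nat_lit 380) (nat_lit 6515265185) (nat_lit 227) (nat_lit 1) (nat_lit 226) (nat_lit 1) (nat_lit 231) (nat_lit 1) (nat_lit 235) (nat_lit 420) (nat_lit 365)) (XT.lf (nat_lit 380) (nat_lit 8173577915) (nat_lit 0) (nat_lit 6375037327) (nat_lit 304) (nat_lit 6375037327) (nat_lit 227) (nat_lit 1) (nat_lit 222) (nat_lit 1) (nat_lit 226) (nat_lit 1) (nat_lit 236) (nat_lit 420) (nat_lit 364))) (XT.nd (nat_lit 78) (nat_lit 304) (nat_lit 0) (XT.lf (nat_lit 76) (nat_lit 1688581790) (nat_lit 0) (nat_lit 17310150836) (nat_lit 380) (nat_lit 1688581790) (nat_lit 223) (nat_lit 1) (nat_lit 222) (nat_lit 1) (nat_lit 227) (nat_lit 1) (nat_lit 237) (nat_lit 420) (nat_lit 363)) (XT.lf (nat_lit 76) (nat_lit 9515761262) (nat_lit 0) (nat_lit 1420976508) (nat_lit 304) (nat_lit 9515761262) (nat_lit 219) (nat_lit 1) (nat_lit 218) (nat_lit 1) (nat_lit 222) (nat_lit 1) (nat_lit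 238) (nat_lit 420) (nat_lit 362)))) (XT.nd (nat_lit 156) (nat_lit 608) (nat_lit 0) (XT.nd (nat_lit 78) (nat_lit 0) (nat_lit 0) (XT.lf (nat_lit 380) (nat_lit 14161471321) (nat_lit 0) (nat_lit 3030372615) (nat_lit 304) (nat_lit 3030372615) (nat_lit 219) (nat_lit 1) (nat_lit 214) (nat_lit 1) (nat_lit 218) (nat_lit 1) (nat_lit 239) (nat_lit 420) (nat_lit 361)) (XT.lf (nat_lit 76) (nat_lit 4646526841) (nat_lit 0) (nat_lit 10701503784) (nat_lit 380) (nat_lit 4646526841) (nat_lit 215) (nat_lit 1) (nat_lit 214) (nat_lit 1) (nat_lit 219) (nat_lit 1) (nat_lit 240) (nat_lit 420) (nat_lit 360))) (XT.nd (nat_lit 78) (nat_lit 380) (nat_lit 0) (XT.lf (nat_lit 304) (nat_lit 4461517912) (nat_lit 0) (nat_lit 7654477745) (nat_lit 228) (nat_lit 7654477745) (nat_lit 215) (nat_lit 1) (nat_lit 211) (nat_lit 1) (nat_lit 214) (nat_lit 1) (nat_lit 241) (nat_lit 420) (nat_lit 359)) (XT.nd (nat_lit 78) (nat_lit 0) (nat_lit 0)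 (XT.lf (nat_lit 380) (nat_lit 19280685022) (nat_lit 0) (nat_lit 135392955) (nat_lit 304) (nat_lit 135392955) (nat_lit 211) (nat_lit 1) (nat_lit 206) (nat_lit 1) (nat_lit 210) (nat_lit 1) (nat_lit 242) (nat_lit 420) (nat_lit 358)) (XT.lf (nat_lit 76) (nat_lit 7182984539) (nat_lit 0) (nat_lit 4966068834) (nat_lit 380) (nat_lit 7182984539) (nat_lit 207) (nat_lit 1) (nat_lit 206) (nat_lit 1) (nat_lit 211) (nat_lit 1) (nat_lit 243) (nat_lit 420) (nat_lit 357))))))) (XT.nd (nat_lit 702) (nat_lit 1292) (nat_lit 0) (XT.nd (nat_lit 312) (nat_lit 760) (nat_lit 0) (XT.nd (nat_lit 156) (nat_lit 532) (nat_lit 0) (XT.nd (nat_lit 78) (nat_lit 0) (nat_lit 0) (XT.lf (nat_lit 304) (nat_lit 9545713251) (nat_lit 0) (nat_lit 4785932413) (nat_lit 228) (nat_lit 4785932413) (nat_lit 207) (nat_lit 1) (nat_lit 203) (nat_lit 1) (nat_lit 206) (nat_lit 1) (nat_lit 244) (nat_lit 420) (nat_lit 356)) (XT.lf (nat_lit 76) (nat_lit 2385670606)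 (nat_lit 0) (nat_lit 14135270657) (nat_lit 304) (nat_lit 2385670606) (nat_lit 204) (nat_lit 1) (nat_lit 203) (nat_lit 1) (nat_lit 207) (nat_lit 1) (nat_lit 245) (nat_lit 420) (nat_lit 355))) (XT.nd (nat_lit 78) (nat_lit 228) (nat_lit 0) (XT.lf (nat_lit 76) (nat_lit 9347625255) (nat_lit 0) (nat_lit 2502720) (nat_lit 304) (nat_lit 9347625255) (nat_lit 200) (nat_lit 1) (nat_lit 199) (nat_lit 1) (nat_lit 203) (nat_lit 1) (nat_lit 246) (nat_lit 420) (nat_lit 354)) (XT.lf (nat_lit 304) (nat_lit 13900380813) (nat_lit 0) (nat_lit 2295955542) (nat_lit 228) (nat_lit 2295955542) (nat_lit 200) (nat_lit 1) (nat_lit 196) (nat_lit 1) (nat_lit 199) (nat_lit 1) (nat_lit 247) (nat_lit 420) (nat_lit 353)))) (XT.nd (nat_lit 156) (nat_lit 532) (nat_lit 0) (XT.nd (nat_lit 78) (nat_lit 228) (nat_lit 0) (XT.lf (nat_lit 76) (nat_lit 4553769990) (nat_lit 0) (nat_lit 9181266326) (nat_lit 304) (nat_lit 4553769990) (nat_lit 197)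 (nat_lit 1) (nat_lit 196) (nat_lit 1) (nat_lit 200) (nat_lit 1) (nat_lit 248) (nat_lit 420) (nat_lit 352)) (XT.lf (nat_lit 304) (nat_lit 4364284040) (nat_lit 0) (nat_lit 6862170859) (nat_lit 228) (nat_lit 6862170859) (nat_lit 197) (nat_lit 1) (nat_lit 193) (nat_lit 1) (nat_lit 196) (nat_lit 1) (nat_lit 249) (nat_lit 420) (nat_lit 351))) (XT.nd (nat_lit 78) (nat_lit 228) (nat_lit 0) (XT.lf (nat_lit 304) (nat_lit 17611607561) (nat_lit 0) (nat_lit 140622472) (nat_lit 228) (nat_lit 140622472) (nat_lit 193) (nat_lit 1) (nat_lit 189) (nat_lit 1) (nat_lit 192) (nat_lit 1) (nat_lit 250) (nat_lit 420) (nat_lit 350)) (XT.nd (nat_lit 78) (nat_lit 228) (nat_lit 0) (XT.lf (nat_lit 76) (nat_lit 6409201147) (nat_lit 0) (nat_lit 4878078377) (nat_lit 304) (nat_lit 6409201147) (nat_lit 190) (nat_lit 1) (nat_lit 189) (nat_lit 1) (nat_lit 193) (nat_lit 1) (nat_lit 251) (nat_lit 420) (nat_lit 349)) (XT.lf (nat_lit 304)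 (nat_lit 8116980649) (nat_lit 0) (nat_lit 4693727407) (nat_lit 228) (nat_lit 4693727407) (nat_lit 190) (nat_lit 1) (nat_lit 186) (nat_lit 1) (nat_lit 189) (nat_lit 1) (nat_lit 252) (nat_lit 420) (nat_lit 348)))))) (XT.nd (nat_lit 390) (nat_lit 684) (nat_lit 0) (XT.nd (nat_lit 156) (nat_lit 380) (nat_lit 0) (XT.nd (nat_lit 78) (nat_lit 228) (nat_lit 0) (XT.lf (nat_lit 76) (nat_lit 1736063735) (nat_lit 0) (nat_lit 13843515574) (nat_lit 304) (nat_lit 1736063735) (nat_lit 187) (nat_lit 1) (nat_lit 186) (nat_lit 1) (nat_lit 190) (nat_lit 1) (nat_lit 253) (nat_lit 420) (nat_lit 347)) (XT.lf (nat_lit 76) (nat_lit 7988895596) (nat_lit 0) (nat_lit 1150266896) (nat_lit 228) (nat_lit 7988895596) (nat_lit 184) (nat_lit 1) (nat_lit 183) (nat_lit 1) (nat_lit 186) (nat_lit 1) (nat_lit 254) (nat_lit 420) (nat_lit 346))) (XT.nd (nat_lit 78) (nat_lit 152) (nat_lit 0) (XT.lf (nat_lit 304) (nat_lit 11327726161) (nat_lit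 0) (nat_lit 2807964044) (nat_lit 228) (nat_lit 2807964044) (nat_lit 184) (nat_lit 1) (nat_lit 180) (nat_lit 1) (nat_lit 183) (nat_lit 1) (nat_lit 255) (nat_lit 420) (nat_lit 345)) (XT.nd (nat_lit 78) (nat_lit 152) (nat_lit 0) (XT.lf (nat_lit 76) (nat_lit 3350472106) (nat_lit 0) (nat_lit 10060410513) (nat_lit 304) (nat_lit 3350472106) (nat_lit 181) (nat_lit 1) (nat_lit 180) (nat_lit 1) (nat_lit 184) (nat_lit 1) (nat_lit 256) (nat_lit 420) (nat_lit 344)) (XT.lf (nat_lit 228) (nat_lit 2110291428) (nat_lit 0) (nat_lit 7235600354) (nat_lit 152) (nat_lit 7235600354) (nat_lit 181) (nat_lit 1) (nat_lit 178) (nat_lit 1) (nat_lit 180) (nat_lit 1) (nat_lit 257) (nat_lit 420) (nat_lit 343))))) (XT.nd (nat_lit 156) (nat_lit 380) (nat_lit 0) (XT.nd (nat_lit 78) (nat_lit 0) (nat_lit 0) (XT.lf (nat_lit 304) (nat_lit 14060551556) (nat_lit 0) (nat_lit 1172167875) (nat_lit 228) (nat_lit 1172167875) (nat_lit 178) (nat_lit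 1) (nat_lit 174) (nat_lit 1) (nat_lit 177) (nat_lit 1) (nat_lit 258) (nat_lit 420) (nat_lit 342)) (XT.lf (nat_lit 76) (nat_lit 4732192783) (nat_lit 0) (nat_lit 6764395145) (nat_lit 304) (nat_lit 4732192783) (nat_lit 175) (nat_lit 1) (nat_lit 174) (nat_lit 1) (nat_lit 178) (nat_lit 1) (nat_lit 259) (nat_lit 420) (nat_lit 341))) (XT.nd (nat_lit 78) (nat_lit 228) (nat_lit 0) (XT.lf (nat_lit 228) (nat_lit 4935770890) (nat_lit 0) (nat_lit 5560050481) (nat_lit 152) (nat_lit 5560050481) (nat_lit 175) (nat_lit 1) (nat_lit 172) (nat_lit 1) (nat_lit 174) (nat_lit 1) (nat_lit 260) (nat_lit 420) (nat_lit 340)) (XT.nd (nat_lit 78) (nat_lit 228) (nat_lit 0) (XT.lf (nat_lit 76) (nat_lit 245094297) (nat_lit 0) (nat_lit 15396387213) (nat_lit 228) (nat_lit 245094297) (nat_lit 173) (nat_lit 1) (nat_lit 172) (nat_lit 1) (nat_lit 175) (nat_lit 1) (nat_lit 261) (nat_lit 420) (nat_lit 339)) (XT.lf (nat_lit 76) (nat_lit 5908707250)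 (nat_lit 0) (nat_lit 3899252917) (nat_lit 228) (nat_lit 5908707250) (nat_lit 170) (nat_lit 1) (nat_lit 169) (nat_lit 1) (nat_lit 172) (nat_lit 1) (nat_lit 262) (nat_lit 420) (nat_lit 338))))))))
noncomputable def ec421 : XT := (XT.nd (nat_lit 1482) (nat_lit 1900) (nat_lit 0) (XT.nd (nat_lit 702) (nat_lit 988) (nat_lit 0) (XT.nd (nat_lit 312) (nat_lit 532) (nat_lit 0) (XT.nd (nat_lit 156) (nat_lit 380) (nat_lit 0) (XT.nd (nat_lit 78) (nat_lit 0) (nat_lit 0) (XT.lf (nat_lit 228) (nat_lit 7357023157) (nat_lit 0) (nat_lit 4096647677) (nat_lit 152) (nat_lit 4096647677) (nat_lit 170) (nat_lit 1) (nat_lit 167) (nat_lit 1) (nat_lit 169) (nat_lit 1) (nat_lit 263) (nat_lit 420) (nat_lit 337)) (XT.lf (nat_lit 76) (nat_lit 1476852154) (nat_lit 0) (nat_lit 12432988801) (nat_lit 228) (nat_lit 1476852154) (nat_lit 168) (nat_lit 1) (nat_lit 167) (nat_lit 1) (nat_lit 170) (nat_lit 1) (nat_lit 264) (nat_lit 420) (nat_lit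 336))) (XT.nd (nat_lit 78) (nat_lit 152) (nat_lit 0) (XT.lf (nat_lit 76) (nat_lit 6904387779) (nat_lit 0) (nat_lit 1415091483) (nat_lit 228) (nat_lit 6904387779) (nat_lit 165) (nat_lit 1) (nat_lit 164) (nat_lit 1) (nat_lit 167) (nat_lit 1) (nat_lit 265) (nat_lit 420) (nat_lit 335)) (XT.lf (nat_lit 228) (nat_lit 9421721387) (nat_lit 0) (nat_lit 2820997855) (nat_lit 152) (nat_lit 2820997855) (nat_lit 165) (nat_lit 1) (nat_lit 162) (nat_lit 1) (nat_lit 164) (nat_lit 1) (nat_lit 266) (nat_lit 420) (nat_lit 334)))) (XT.nd (nat_lit 156) (nat_lit 380) (nat_lit 0) (XT.nd (nat_lit 78) (nat_lit 152) (nat_lit 0) (XT.lf (nat_lit 76) (nat_lit 2534580561) (nat_lit 0) (nat_lit 9836353573) (nat_lit 228) (nat_lit 2534580561) (nat_lit 163) (nat_lit 1) (nat_lit 162) (nat_lit 1) (nat_lit 165) (nat_lit 1) (nat_lit 267) (nat_lit 420) (nat_lit 333)) (XT.lf (nat_lit 228) (nat_lit 746939618) (nat_lit 0) (nat_lit 7001085864)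 (nat_lit 152) (nat_lit 7001085864) (nat_lit 163) (nat_lit 1) (nat_lit 160) (nat_lit 1) (nat_lit 162) (nat_lit 1) (nat_lit 268) (nat_lit 420) (nat_lit 332))) (XT.nd (nat_lit 78) (nat_lit 152) (nat_lit 0) (XT.lf (nat_lit 228) (nat_lit 11172146937) (nat_lit 0) (nat_lit 1711448653) (nat_lit 152) (nat_lit 1711448653) (nat_lit 160) (nat_lit 1) (nat_lit 157) (nat_lit 1) (nat_lit 159) (nat_lit 1) (nat_lit 269) (nat_lit 420) (nat_lit 331)) (XT.nd (nat_lit 78) (nat_lit 152) (nat_lit 0) (XT.lf (nat_lit 76) (nat_lit 3438754185) (nat_lit 0) (nat_lit 7564525230) (nat_lit 228) (nat_lit 3438754185) (nat_lit 158) (nat_lit 1) (nat_lit 157) (nat_lit 1) (nat_lit 160) (nat_lit 1) (nat_lit 270) (nat_lit 420) (nat_lit 330)) (XT.lf (nat_lit 228) (nat_lit 2633794351) (nat_lit 0) (nat_lit 5828762583) (nat_lit 152) (nat_lit 5828762583) (nat_lit 158) (nat_lit 1) (nat_lit 155) (nat_lit 1) (nat_lit 157) (nat_lit 1) (nat_lit 271)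 (nat_lit 420) (nat_lit 329)))))) (XT.nd (nat_lit 390) (nat_lit 456) (nat_lit 0) (XT.nd (nat_lit 156) (nat_lit 304) (nat_lit 0) (XT.nd (nat_lit 78) (nat_lit 0) (nat_lit 0) (XT.lf (nat_lit 228) (nat_lit 12645792818) (nat_lit 0) (nat_lit 748783065) (nat_lit 152) (nat_lit 748783065) (nat_lit 155) (nat_lit 1) (nat_lit 152) (nat_lit 1) (nat_lit 154) (nat_lit 1) (nat_lit 272) (nat_lit 420) (nat_lit 328)) (XT.lf (nat_lit 76) (nat_lit 4207533393) (nat_lit 0) (nat_lit 5580256944) (nat_lit 228) (nat_lit 4207533393) (nat_lit 153) (nat_lit 1) (nat_lit 152) (nat_lit 1) (nat_lit 155) (nat_lit 1) (nat_lit 273) (nat_lit 420) (nat_lit 327))) (XT.nd (nat_lit 78) (nat_lit 152) (nat_lit 0) (XT.lf (nat_lit 228) (nat_lit 4252857385) (nat_lit 0) (nat_lit 4798574693) (nat_lit 152) (nat_lit 4798574693) (nat_lit 153) (nat_lit 1) (nat_lit 150) (nat_lit 1) (nat_lit 152) (nat_lit 1) (nat_lit 274) (nat_lit 420) (nat_lit 326)) (XT.nd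 (nat_lit 78) (nat_lit 152) (nat_lit 0) (XT.lf (nat_lit 76) (nat_lit 84884942) (nat_lit 0) (nat_lit 13537926027) (nat_lit 228) (nat_lit 84884942) (nat_lit 151) (nat_lit 1) (nat_lit 150) (nat_lit 1) (nat_lit 153) (nat_lit 1) (nat_lit 275) (nat_lit 420) (nat_lit 325)) (XT.lf (nat_lit 76) (nat_lit 4857023234) (nat_lit 0) (nat_lit 3850485295) (nat_lit 152) (nat_lit 4857023234) (nat_lit 149) (nat_lit 1) (nat_lit 148) (nat_lit 1) (nat_lit 150) (nat_lit 1) (nat_lit 276) (nat_lit 420) (nat_lit 324))))) (XT.nd (nat_lit 156) (nat_lit 304) (nat_lit 0) (XT.nd (nat_lit 78) (nat_lit 0) (nat_lit 0) (XT.lf (nat_lit 228) (nat_lit 5635662313) (nat_lit 0) (nat_lit 3894340038) (nat_lit 152) (nat_lit 3894340038) (nat_lit 149) (nat_lit 1) (nat_lit 146) (nat_lit 1) (nat_lit 148) (nat_lit 1) (nat_lit 277) (nat_lit 420) (nat_lit 323)) (XT.lf (nat_lit 76) (nat_lit 810133704) (nat_lit 0) (nat_lit 11666343589) (nat_lit 228) (nat_lit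 810133704) (nat_lit 147) (nat_lit 1) (nat_lit 146) (nat_lit 1) (nat_lit 149) (nat_lit 1) (nat_lit 278) (nat_lit 420) (nat_lit 322))) (XT.nd (nat_lit 78) (nat_lit 152) (nat_lit 0) (XT.lf (nat_lit 76) (nat_lit 5401503506) (nat_lit 0) (nat_lit 2345862891) (nat_lit 152) (nat_lit 5401503506) (nat_lit 145) (nat_lit 1) (nat_lit 144) (nat_lit 1) (nat_lit 146) (nat_lit 1) (nat_lit 279) (nat_lit 420) (nat_lit 321)) (XT.nd (nat_lit 78) (nat_lit 0) (nat_lit 0) (XT.lf (nat_lit 228) (nat_lit 6810177640) (nat_lit 0) (nat_lit 3101690660) (nat_lit 152) (nat_lit 3101690660) (nat_lit 145) (nat_lit 1) (nat_lit 142) (nat_lit 1) (nat_lit 144) (nat_lit 1) (nat_lit 280) (nat_lit 420) (nat_lit 320)) (XT.lf (nat_lit 76) (nat_lit 1433108383) (nat_lit 0) (nat_lit 10014008436) (nat_lit 228) (nat_lit 1433108383) (nat_lit 143) (nat_lit 1) (nat_lit 142) (nat_lit 1) (nat_lit 145) (nat_lit 1) (nat_lit 281) (nat_lit 420) (nat_lit 319)))))))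 (XT.nd (nat_lit 702) (nat_lit 988) (nat_lit 0) (XT.nd (nat_lit 312) (nat_lit 532) (nat_lit 0) (XT.nd (nat_lit 156) (nat_lit 76) (nat_lit 0) (XT.nd (nat_lit 78) (nat_lit 152) (nat_lit 0) (XT.lf (nat_lit 76) (nat_lit 5853633159) (nat_lit 0) (nat_lit 1040343143) (nat_lit 152) (nat_lit 5853633159) (nat_lit 141) (nat_lit 1) (nat_lit 140) (nat_lit 1) (nat_lit 142) (nat_lit 1) (nat_lit 282) (nat_lit 420) (nat_lit 318)) (XT.lf (nat_lit 228) (nat_lit 7801205763) (nat_lit 0) (nat_lit 2407870207) (nat_lit 152) (nat_lit 2407870207) (nat_lit 141) (nat_lit 1) (nat_lit 138) (nat_lit 1) (nat_lit 140) (nat_lit 1) (nat_lit 283) (nat_lit 420) (nat_lit 317))) (XT.nd (nat_lit 78) (nat_lit 76) (nat_lit 0) (XT.lf (nat_lit 76) (nat_lit 1965837150) (nat_lit 0) (nat_lit 8556164620) (nat_lit 228) (nat_lit 1965837150) (nat_lit 139) (nat_lit 1) (nat_lit 138) (nat_lit 1) (nat_lit 141) (nat_lit 1) (nat_lit 284) (nat_lit 420) (nat_lit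 316)) (XT.lf (nat_lit 152) (nat_lit 90963671) (nat_lit 0) (nat_lit 6134542588) (nat_lit 76) (nat_lit 6134542588) (nat_lit 139) (nat_lit 1) (nat_lit 137) (nat_lit 1) (nat_lit 138) (nat_lit 1) (nat_lit 285) (nat_lit 420) (nat_lit 315)))) (XT.nd (nat_lit 156) (nat_lit 304) (nat_lit 0) (XT.nd (nat_lit 78) (nat_lit 0) (nat_lit 0) (XT.lf (nat_lit 228) (nat_lit 8630737400) (nat_lit 0) (nat_lit 1801553947) (nat_lit 152) (nat_lit 1801553947) (nat_lit 137) (nat_lit 1) (nat_lit 134) (nat_lit 1) (nat_lit 136) (nat_lit 1) (nat_lit 286) (nat_lit 420) (nat_lit 314)) (XT.lf (nat_lit 76) (nat_lit 2418988723) (nat_lit 0) (nat_lit 7270825741) (nat_lit 228) (nat_lit 2418988723) (nat_lit 135) (nat_lit 1) (nat_lit 134) (nat_lit 1) (nat_lit 137) (nat_lit 1) (nat_lit 287) (nat_lit 420) (nat_lit 313))) (XT.nd (nat_lit 78) (nat_lit 228) (nat_lit 0) (XT.lf (nat_lit 152) (nat_lit 1084403623) (nat_lit 0) (nat_lit 5450461634) (nat_lit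 76) (nat_lit 5450461634) (nat_lit 135) (nat_lit 1) (nat_lit 133) (nat_lit 1) (nat_lit 134) (nat_lit 1) (nat_lit 288) (nat_lit 420) (nat_lit 312)) (XT.nd (nat_lit 78) (nat_lit 0) (nat_lit 0) (XT.lf (nat_lit 228) (nat_lit 9318266473) (nat_lit 0) (nat_lit 1272688858) (nat_lit 152) (nat_lit 1272688858) (nat_lit 133) (nat_lit 1) (nat_lit 130) (nat_lit 1) (nat_lit 132) (nat_lit 1) (nat_lit 289) (nat_lit 420) (nat_lit 311)) (XT.lf (nat_lit 76) (nat_lit 2802024495) (nat_lit 0) (nat_lit 6138465855) (nat_lit 228) (nat_lit 2802024495) (nat_lit 131) (nat_lit 1) (nat_lit 130) (nat_lit 1) (nat_lit 133) (nat_lit 1) (nat_lit 290) (nat_lit 420) (nat_lit 310)))))) (XT.nd (nat_lit 390) (nat_lit 380) (nat_lit 0) (XT.nd (nat_lit 156) (nat_lit 304) (nat_lit 0) (XT.nd (nat_lit 78) (nat_lit 228) (nat_lit 0) (XT.lf (nat_lit 152) (nat_lit 1937831563) (nat_lit 0) (nat_lit 4842664567) (nat_lit 76) (nat_lit 4842664567) (nat_lit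 131) (nat_lit 1) (nat_lit 129) (nat_lit 1) (nat_lit 130) (nat_lit 1) (nat_lit 291) (nat_lit 420) (nat_lit 309)) (XT.lf (nat_lit 228) (nat_lit 9881069826) (nat_lit 0) (nat_lit 812351556) (nat_lit 152) (nat_lit 812351556) (nat_lit 129) (nat_lit 1) (nat_lit 126) (nat_lit 1) (nat_lit 128) (nat_lit 1) (nat_lit 292) (nat_lit 420) (nat_lit 308))) (XT.nd (nat_lit 78) (nat_lit 304) (nat_lit 0) (XT.lf (nat_lit 76) (nat_lit 3123333682) (nat_lit 0) (nat_lit 5141744840) (nat_lit 228) (nat_lit 3123333682) (nat_lit 127) (nat_lit 1) (nat_lit 126) (nat_lit 1) (nat_lit 129) (nat_lit 1) (nat_lit 293) (nat_lit 420) (nat_lit 307)) (XT.nd (nat_lit 78) (nat_lit 228) (nat_lit 0) (XT.lf (nat_lit 152) (nat_lit 2667712021) (nat_lit 0) (nat_lit 4302644745) (nat_lit 76) (nat_lit 4302644745) (nat_lit 127) (nat_lit 1) (nat_lit 125) (nat_lit 1) (nat_lit 126) (nat_lit 1) (nat_lit 294) (nat_lit 420) (nat_lit 306)) (XT.lf (nat_lit 228)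 (nat_lit 10334455722) (nat_lit 0) (nat_lit 412622079) (nat_lit 152) (nat_lit 412622079) (nat_lit 125) (nat_lit 1) (nat_lit 122) (nat_lit 1) (nat_lit 124) (nat_lit 1) (nat_lit 295) (nat_lit 420) (nat_lit 305))))) (XT.nd (nat_lit 156) (nat_lit 304) (nat_lit 0) (XT.nd (nat_lit 78) (nat_lit 76) (nat_lit 0) (XT.lf (nat_lit 76) (nat_lit 3390353377) (nat_lit 0) (nat_lit 4265264406) (nat_lit 228) (nat_lit 3390353377) (nat_lit 123) (nat_lit 1) (nat_lit 122) (nat_lit 1) (nat_lit 125) (nat_lit 1) (nat_lit 296) (nat_lit 420) (nat_lit 304)) (XT.lf (nat_lit 152) (nat_lit 3288648721) (nat_lit 0) (nat_lit 3822844128) (nat_lit 76) (nat_lit 3822844128) (nat_lit 123) (nat_lit 1) (nat_lit 121) (nat_lit 1) (nat_lit 122) (nat_lit 1) (nat_lit 297) (nat_lit 420) (nat_lit 303))) (XT.nd (nat_lit 78) (nat_lit 76) (nat_lit 0) (XT.lf (nat_lit 228) (nat_lit 10691984582) (nat_lit 0) (nat_lit 66471745) (nat_lit 152) (nat_lit 66471745)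 (nat_lit 121) (nat_lit 1) (nat_lit 118) (nat_lit 1) (nat_lit 120) (nat_lit 1) (nat_lit 298) (nat_lit 420) (nat_lit 302)) (XT.nd (nat_lit 78) (nat_lit 76) (nat_lit 0) (XT.lf (nat_lit 76) (nat_lit 3609675213) (nat_lit 0) (nat_lit 3495351319) (nat_lit 228) (nat_lit 3609675213) (nat_lit 119) (nat_lit 1) (nat_lit 118) (nat_lit 1) (nat_lit 121) (nat_lit 1) (nat_lit 299) (nat_lit 420) (nat_lit 301)) (XT.lf (nat_lit 152) (nat_lit 3813592805) (nat_lit 0) (nat_lit 3396547494) (nat_lit 76) (nat_lit 3396547494) (nat_lit 119) (nat_lit 1) (nat_lit 117) (nat_lit 1) (nat_lit 118) (nat_lit 1) (nat_lit 300) (nat_lit 420) (nat_lit 300))))))))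
noncomputable def ec422 : XT := (XT.nd (nat_lit 1482) (nat_lit 1444) (nat_lit 0) (XT.nd (nat_lit 702) (nat_lit 684) (nat_lit 0) (XT.nd (nat_lit 312) (nat_lit 456) (nat_lit 0) (XT.nd (nat_lit 156) (nat_lit 76) (nat_lit 0) (XT.nd (nat_lit 78) (nat_lit 152) (nat_lit 0) (XT.lf (nat_lit 0) (nat_lit 234636831) (nat_lit 0) (nat_lit 10031446457) (nat_lit 152) (nat_lit 234636831) (nat_lit 117) (nat_lit 3) (nat_lit 117) (nat_lit 1) (nat_lit 119) (nat_lit 1) (nat_lit 301) (nat_lit 420) (nat_lit 299)) (XT.lf (nat_lit 76) (nat_lit 3787140111) (nat_lit 0) (nat_lit 2819864800) (nat_lit 152) (nat_lit 3787140111) (nat_lit 116) (nat_lit 1) (nat_lit 115) (nat_lit 1) (nat_lit 117) (nat_lit 1) (nat_lit 302) (nat_lit 420) (nat_lit 298))) (XT.nd (nat_lit 78) (nat_lit 0) (nat_lit 0) (XT.lf (nat_lit 152) (nat_lit 4254027825) (nat_lit 0) (nat_lit 3017788456) (nat_lit 76) (nat_lit 3017788456) (nat_lit 116) (nat_lit 1) (nat_lit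 114) (nat_lit 1) (nat_lit 115) (nat_lit 1) (nat_lit 303) (nat_lit 420) (nat_lit 297)) (XT.lf (nat_lit 0) (nat_lit 494181360) (nat_lit 0) (nat_lit 9198519824) (nat_lit 152) (nat_lit 494181360) (nat_lit 114) (nat_lit 3) (nat_lit 114) (nat_lit 1) (nat_lit 116) (nat_lit 1) (nat_lit 304) (nat_lit 420) (nat_lit 296)))) (XT.nd (nat_lit 156) (nat_lit 228) (nat_lit 0) (XT.nd (nat_lit 78) (nat_lit 76) (nat_lit 0) (XT.lf (nat_lit 76) (nat_lit 3927922448) (nat_lit 0) (nat_lit 2228025415) (nat_lit 152) (nat_lit 3927922448) (nat_lit 113) (nat_lit 1) (nat_lit 112) (nat_lit 1) (nat_lit 114) (nat_lit 1) (nat_lit 305) (nat_lit 420) (nat_lit 295)) (XT.lf (nat_lit 152) (nat_lit 4620134072) (nat_lit 0) (nat_lit 2681265956) (nat_lit 76) (nat_lit 2681265956) (nat_lit 113) (nat_lit 1) (nat_lit 111) (nat_lit 1) (nat_lit 112) (nat_lit 1) (nat_lit 306) (nat_lit 420) (nat_lit 294))) (XT.nd (nat_lit 78) (nat_lit 228) (nat_lit 0)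 (XT.lf (nat_lit 0) (nat_lit 716461675) (nat_lit 0) (nat_lit 8450153660) (nat_lit 152) (nat_lit 716461675) (nat_lit 111) (nat_lit 3) (nat_lit 111) (nat_lit 1) (nat_lit 113) (nat_lit 1) (nat_lit 307) (nat_lit 420) (nat_lit 293)) (XT.nd (nat_lit 78) (nat_lit 76) (nat_lit 0) (XT.lf (nat_lit 76) (nat_lit 4036604834) (nat_lit 0) (nat_lit 1710263047) (nat_lit 152) (nat_lit 4036604834) (nat_lit 110) (nat_lit 1) (nat_lit 109) (nat_lit 1) (nat_lit 111) (nat_lit 1) (nat_lit 308) (nat_lit 420) (nat_lit 292)) (XT.lf (nat_lit 152) (nat_lit 4920934572) (nat_lit 0) (nat_lit 2382270074) (nat_lit 76) (nat_lit 2382270074) (nat_lit 110) (nat_lit 1) (nat_lit 108) (nat_lit 1) (nat_lit 109) (nat_lit 1) (nat_lit 309) (nat_lit 420) (nat_lit 291)))))) (XT.nd (nat_lit 390) (nat_lit 304) (nat_lit 0) (XT.nd (nat_lit 156) (nat_lit 228) (nat_lit 0) (XT.nd (nat_lit 78) (nat_lit 152) (nat_lit 0) (XT.lf (nat_lit 0) (nat_lit 905875594)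 (nat_lit 0) (nat_lit 7777160756) (nat_lit 152) (nat_lit 905875594) (nat_lit 108) (nat_lit 3) (nat_lit 108) (nat_lit 1) (nat_lit 110) (nat_lit 1) (nat_lit 310) (nat_lit 420) (nat_lit 290)) (XT.lf (nat_lit 76) (nat_lit 4117244523) (nat_lit 0) (nat_lit 1258081831) (nat_lit 152) (nat_lit 4117244523) (nat_lit 107) (nat_lit 1) (nat_lit 106) (nat_lit 1) (nat_lit 108) (nat_lit 1) (nat_lit 311) (nat_lit 420) (nat_lit 289))) (XT.nd (nat_lit 78) (nat_lit 152) (nat_lit 0) (XT.lf (nat_lit 152) (nat_lit 5164424776) (nat_lit 0) (nat_lit 2116616105) (nat_lit 76) (nat_lit 2116616105) (nat_lit 107) (nat_lit 1) (nat_lit 105) (nat_lit 1) (nat_lit 106) (nat_lit 1) (nat_lit 312) (nat_lit 420) (nat_lit 288)) (XT.nd (nat_lit 78) (nat_lit 152) (nat_lit 0) (XT.lf (nat_lit 0) (nat_lit 1066323467) (nat_lit 0) (nat_lit 7171371335) (nat_lit 152) (nat_lit 1066323467) (nat_lit 105) (nat_lit 3) (nat_lit 105) (nat_lit 1) (nat_lit 107)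 (nat_lit 1) (nat_lit 313) (nat_lit 420) (nat_lit 287)) (XT.lf (nat_lit 76) (nat_lit 4173432423) (nat_lit 0) (nat_lit 863940156) (nat_lit 152) (nat_lit 4173432423) (nat_lit 104) (nat_lit 1) (nat_lit 103) (nat_lit 1) (nat_lit 105) (nat_lit 1) (nat_lit 314) (nat_lit 420) (nat_lit 286))))) (XT.nd (nat_lit 156) (nat_lit 228) (nat_lit 0) (XT.nd (nat_lit 78) (nat_lit 0) (nat_lit 0) (XT.lf (nat_lit 152) (nat_lit 5357687771) (nat_lit 0) (nat_lit 1880585995) (nat_lit 76) (nat_lit 1880585995) (nat_lit 104) (nat_lit 1) (nat_lit 102) (nat_lit 1) (nat_lit 103) (nat_lit 1) (nat_lit 315) (nat_lit 420) (nat_lit 285)) (XT.lf (nat_lit 0) (nat_lit 1201263846) (nat_lit 0) (nat_lit 6625519804) (nat_lit 152) (nat_lit 1201263846) (nat_lit 102) (nat_lit 3) (nat_lit 102) (nat_lit 1) (nat_lit 104) (nat_lit 1) (nat_lit 316) (nat_lit 420) (nat_lit 284))) (XT.nd (nat_lit 78) (nat_lit 76) (nat_lit 0) (XT.lf (nat_lit 76) (nat_lit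 4208345498) (nat_lit 0) (nat_lit 521144050) (nat_lit 152) (nat_lit 4208345498) (nat_lit 101) (nat_lit 1) (nat_lit 100) (nat_lit 1) (nat_lit 102) (nat_lit 1) (nat_lit 317) (nat_lit 420) (nat_lit 283)) (XT.nd (nat_lit 78) (nat_lit 0) (nat_lit 0) (XT.lf (nat_lit 152) (nat_lit 5506996626) (nat_lit 0) (nat_lit 1670876299) (nat_lit 76) (nat_lit 1670876299) (nat_lit 101) (nat_lit 1) (nat_lit 99) (nat_lit 1) (nat_lit 100) (nat_lit 1) (nat_lit 318) (nat_lit 420) (nat_lit 282)) (XT.lf (nat_lit 0) (nat_lit 1313762957) (nat_lit 0) (nat_lit 6133144120) (nat_lit 152) (nat_lit 1313762957) (nat_lit 99) (nat_lit 3) (nat_lit 99) (nat_lit 1) (nat_lit 101) (nat_lit 1) (nat_lit 319) (nat_lit 420) (nat_lit 281))))))) (XT.nd (nat_lit 702) (nat_lit 760) (nat_lit 0) (XT.nd (nat_lit 312) (nat_lit 380) (nat_lit 0) (XT.nd (nat_lit 156) (nat_lit 76) (nat_lit 0) (XT.nd (nat_lit 78) (nat_lit 76) (nat_lit 0) (XT.lf (nat_lit 76) (nat_lit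 4224793328) (nat_lit 0) (nat_lit 223752467) (nat_lit 152) (nat_lit 4224793328) (nat_lit 98) (nat_lit 1) (nat_lit 97) (nat_lit 1) (nat_lit 99) (nat_lit 1) (nat_lit 320) (nat_lit 420) (nat_lit 280)) (XT.lf (nat_lit 152) (nat_lit 5617905305) (nat_lit 0) (nat_lit 1484551950) (nat_lit 76) (nat_lit 1484551950) (nat_lit 98) (nat_lit 1) (nat_lit 96) (nat_lit 1) (nat_lit 97) (nat_lit 1) (nat_lit 321) (nat_lit 420) (nat_lit 279))) (XT.nd (nat_lit 78) (nat_lit 76) (nat_lit 0) (XT.lf (nat_lit 0) (nat_lit 1406538642) (nat_lit 0) (nat_lit 5688496385) (nat_lit 152) (nat_lit 1406538642) (nat_lit 96) (nat_lit 3) (nat_lit 96) (nat_lit 1) (nat_lit 98) (nat_lit 1) (nat_lit 322) (nat_lit 420) (nat_lit 278)) (XT.lf (nat_lit 76) (nat_lit 34173712) (nat_lit 0) (nat_lit 4191414239) (nat_lit 76) (nat_lit 4191414239) (nat_lit 96) (nat_lit 3) (nat_lit 95) (nat_lit 1) (nat_lit 96) (nat_lit 1) (nat_lit 323) (nat_lit 420) (nat_lit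 277)))) (XT.nd (nat_lit 156) (nat_lit 228) (nat_lit 0) (XT.nd (nat_lit 78) (nat_lit 0) (nat_lit 0) (XT.lf (nat_lit 152) (nat_lit 5695329431) (nat_lit 0) (nat_lit 1319005180) (nat_lit 76) (nat_lit 1319005180) (nat_lit 95) (nat_lit 1) (nat_lit 93) (nat_lit 1) (nat_lit 94) (nat_lit 1) (nat_lit 324) (nat_lit 420) (nat_lit 276)) (XT.lf (nat_lit 0) (nat_lit 1481999396) (nat_lit 0) (nat_lit 5286463390) (nat_lit 152) (nat_lit 1481999396) (nat_lit 93) (nat_lit 3) (nat_lit 93) (nat_lit 1) (nat_lit 95) (nat_lit 1) (nat_lit 325) (nat_lit 420) (nat_lit 275))) (XT.nd (nat_lit 78) (nat_lit 152) (nat_lit 0) (XT.lf (nat_lit 76) (nat_lit 260393401) (nat_lit 0) (nat_lit 3954047764) (nat_lit 76) (nat_lit 3954047764) (nat_lit 93) (nat_lit 3) (nat_lit 92) (nat_lit 1) (nat_lit 93) (nat_lit 1) (nat_lit 326) (nat_lit 420) (nat_lit 274)) (XT.nd (nat_lit 78) (nat_lit 0) (nat_lit 0) (XT.lf (nat_lit 152) (nat_lit 5743618016) (nat_lit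 0) (nat_lit 1171919018) (nat_lit 76) (nat_lit 1171919018) (nat_lit 92) (nat_lit 1) (nat_lit 90) (nat_lit 1) (nat_lit 91) (nat_lit 1) (nat_lit 327) (nat_lit 420) (nat_lit 273)) (XT.lf (nat_lit 0) (nat_lit 1542279045) (nat_lit 0) (nat_lit 4922496028) (nat_lit 152) (nat_lit 1542279045) (nat_lit 90) (nat_lit 3) (nat_lit 90) (nat_lit 1) (nat_lit 92) (nat_lit 1) (nat_lit 328) (nat_lit 420) (nat_lit 272)))))) (XT.nd (nat_lit 390) (nat_lit 304) (nat_lit 0) (XT.nd (nat_lit 156) (nat_lit 228) (nat_lit 0) (XT.nd (nat_lit 78) (nat_lit 152) (nat_lit 0) (XT.lf (nat_lit 76) (nat_lit 454686747) (nat_lit 0) (nat_lit 3736450808) (nat_lit 76) (nat_lit 3736450808) (nat_lit 90) (nat_lit 3) (nat_lit 89) (nat_lit 1) (nat_lit 90) (nat_lit 1) (nat_lit 329) (nat_lit 420) (nat_lit 271)) (XT.lf (nat_lit 152) (nat_lit 5766617189) (nat_lit 0) (nat_lit 1041234869) (nat_lit 76) (nat_lit 1041234869) (nat_lit 89) (nat_lit 1) (nat_lit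 87) (nat_lit 1) (nat_lit 88) (nat_lit 1) (nat_lit 330) (nat_lit 420) (nat_lit 270))) (XT.nd (nat_lit 78) (nat_lit 228) (nat_lit 0) (XT.lf (nat_lit 0) (nat_lit 1589267554) (nat_lit 0) (nat_lit 4592546563) (nat_lit 152) (nat_lit 1589267554) (nat_lit 87) (nat_lit 3) (nat_lit 87) (nat_lit 1) (nat_lit 89) (nat_lit 1) (nat_lit 331) (nat_lit 420) (nat_lit 269)) (XT.nd (nat_lit 78) (nat_lit 152) (nat_lit 0) (XT.lf (nat_lit 76) (nat_lit 620809094) (nat_lit 0) (nat_lit 3536613956) (nat_lit 76) (nat_lit 3536613956) (nat_lit 87) (nat_lit 3) (nat_lit 86) (nat_lit 1) (nat_lit 87) (nat_lit 1) (nat_lit 332) (nat_lit 420) (nat_lit 268)) (XT.lf (nat_lit 152) (nat_lit 5767726794) (nat_lit 0) (nat_lit 925123695) (nat_lit 76) (nat_lit 925123695) (nat_lit 86) (nat_lit 1) (nat_lit 84) (nat_lit 1) (nat_lit 85) (nat_lit 1) (nat_lit 333) (nat_lit 420) (nat_lit 267))))) (XT.nd (nat_lit 156) (nat_lit 228) (nat_lit 0) (XT.nd (nat_lit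 78) (nat_lit 76) (nat_lit 0) (XT.lf (nat_lit 0) (nat_lit 1624638394) (nat_lit 0) (nat_lit 4293012894) (nat_lit 152) (nat_lit 1624638394) (nat_lit 84) (nat_lit 3) (nat_lit 84) (nat_lit 1) (nat_lit 86) (nat_lit 1) (nat_lit 334) (nat_lit 420) (nat_lit 266)) (XT.lf (nat_lit 76) (nat_lit 762091333) (nat_lit 0) (nat_lit 3352746187) (nat_lit 76) (nat_lit 3352746187) (nat_lit 84) (nat_lit 3) (nat_lit 83) (nat_lit 1) (nat_lit 84) (nat_lit 1) (nat_lit 335) (nat_lit 420) (nat_lit 265))) (XT.nd (nat_lit 78) (nat_lit 76) (nat_lit 0) (XT.lf (nat_lit 152) (nat_lit 5749950660) (nat_lit 0) (nat_lit 821960420) (nat_lit 76) (nat_lit 821960420) (nat_lit 83) (nat_lit 1) (nat_lit 81) (nat_lit 1) (nat_lit 82) (nat_lit 1) (nat_lit 336) (nat_lit 420) (nat_lit 264)) (XT.nd (nat_lit 78) (nat_lit 76) (nat_lit 0) (XT.lf (nat_lit 0) (nat_lit 1649872846) (nat_lit 0) (nat_lit 4020689028) (nat_lit 152) (nat_lit 1649872846) (nat_lit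 81) (nat_lit 3) (nat_lit 81) (nat_lit 1) (nat_lit 83) (nat_lit 1) (nat_lit 337) (nat_lit 420) (nat_lit 263)) (XT.lf (nat_lit 76) (nat_lit 881487398) (nat_lit 0) (nat_lit 3183250682) (nat_lit 76) (nat_lit 3183250682) (nat_lit 81) (nat_lit 3) (nat_lit 80) (nat_lit 1) (nat_lit 81) (nat_lit 1) (nat_lit 338) (nat_lit 420) (nat_lit 262))))))))
noncomputable def ec423 : XT := (XT.nd (nat_lit 1482) (nat_lit 1368) (nat_lit 0) (XT.nd (nat_lit 702) (nat_lit 836) (nat_lit 0) (XT.nd (nat_lit 312) (nat_lit 304) (nat_lit 0) (XT.nd (nat_lit 156) (nat_lit 228) (nat_lit 0) (XT.nd (nat_lit 78) (nat_lit 0) (nat_lit 0) (XT.lf (nat_lit 152) (nat_lit 5715941257) (nat_lit 0) (nat_lit 730301187) (nat_lit 76) (nat_lit 730301187) (nat_lit 80) (nat_lit 1) (nat_lit 78) (nat_lit 1) (nat_lit 79) (nat_lit 1) (nat_lit 339) (nat_lit 420) (nat_lit 261)) (XT.lf (nat_lit 0) (nat_lit 1666281602) (nat_lit 0) (nat_lit 3772721073) (nat_lit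 152) (nat_lit 1666281602) (nat_lit 78) (nat_lit 3) (nat_lit 78) (nat_lit 1) (nat_lit 80) (nat_lit 1) (nat_lit 340) (nat_lit 420) (nat_lit 260))) (XT.nd (nat_lit 78) (nat_lit 152) (nat_lit 0) (XT.lf (nat_lit 76) (nat_lit 981616466) (nat_lit 0) (nat_lit 3026703332) (nat_lit 76) (nat_lit 3026703332) (nat_lit 78) (nat_lit 3) (nat_lit 77) (nat_lit 1) (nat_lit 78) (nat_lit 1) (nat_lit 341) (nat_lit 420) (nat_lit 259)) (XT.lf (nat_lit 152) (nat_lit 5668039357) (nat_lit 0) (nat_lit 648863146) (nat_lit 76) (nat_lit 648863146) (nat_lit 77) (nat_lit 1) (nat_lit 75) (nat_lit 1) (nat_lit 76) (nat_lit 1) (nat_lit 342) (nat_lit 420) (nat_lit 258)))) (XT.nd (nat_lit 156) (nat_lit 228) (nat_lit 0) (XT.nd (nat_lit 78) (nat_lit 76) (nat_lit 0) (XT.lf (nat_lit 0) (nat_lit 1675023939) (nat_lit 0) (nat_lit 3546568126) (nat_lit 152) (nat_lit 1675023939) (nat_lit 75) (nat_lit 3) (nat_lit 75) (nat_lit 1) (nat_lit 77) (nat_lit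 1) (nat_lit 343) (nat_lit 420) (nat_lit 257)) (XT.lf (nat_lit 76) (nat_lit 1064800439) (nat_lit 0) (nat_lit 2881833631) (nat_lit 76) (nat_lit 2881833631) (nat_lit 75) (nat_lit 3) (nat_lit 74) (nat_lit 1) (nat_lit 75) (nat_lit 1) (nat_lit 344) (nat_lit 420) (nat_lit 256))) (XT.nd (nat_lit 78) (nat_lit 76) (nat_lit 0) (XT.lf (nat_lit 152) (nat_lit 5608309248) (nat_lit 0) (nat_lit 576506501) (nat_lit 76) (nat_lit 576506501) (nat_lit 74) (nat_lit 1) (nat_lit 72) (nat_lit 1) (nat_lit 73) (nat_lit 1) (nat_lit 345) (nat_lit 420) (nat_lit 255)) (XT.nd (nat_lit 78) (nat_lit 76) (nat_lit 0) (XT.lf (nat_lit 0) (nat_lit 1677124762) (nat_lit 0) (nat_lit 3339967532) (nat_lit 152) (nat_lit 1677124762) (nat_lit 72) (nat_lit 3) (nat_lit 72) (nat_lit 1) (nat_lit 74) (nat_lit 1) (nat_lit 346) (nat_lit 420) (nat_lit 254)) (XT.lf (nat_lit 76) (nat_lit 1133097246) (nat_lit 0) (nat_lit 2747507702) (nat_lit 76) (nat_lit 2747507702)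 (nat_lit 72) (nat_lit 3) (nat_lit 71) (nat_lit 1) (nat_lit 72) (nat_lit 1) (nat_lit 347) (nat_lit 420) (nat_lit 253)))))) (XT.nd (nat_lit 390) (nat_lit 456) (nat_lit 0) (XT.nd (nat_lit 156) (nat_lit 228) (nat_lit 0) (XT.nd (nat_lit 78) (nat_lit 0) (nat_lit 0) (XT.lf (nat_lit 152) (nat_lit 5538570022) (nat_lit 0) (nat_lit 512218559) (nat_lit 76) (nat_lit 512218559) (nat_lit 71) (nat_lit 1) (nat_lit 69) (nat_lit 1) (nat_lit 70) (nat_lit 1) (nat_lit 348) (nat_lit 420) (nat_lit 252)) (XT.lf (nat_lit 0) (nat_lit 1673489733) (nat_lit 0) (nat_lit 3150903996) (nat_lit 152) (nat_lit 1673489733) (nat_lit 69) (nat_lit 3) (nat_lit 69) (nat_lit 1) (nat_lit 71) (nat_lit 1) (nat_lit 349) (nat_lit 420) (nat_lit 251))) (XT.nd (nat_lit 78) (nat_lit 152) (nat_lit 0) (XT.lf (nat_lit 76) (nat_lit 1188330428) (nat_lit 0) (nat_lit 2622713208) (nat_lit 76) (nat_lit 2622713208) (nat_lit 69) (nat_lit 3) (nat_lit 68) (nat_lit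 1) (nat_lit 69) (nat_lit 1) (nat_lit 350) (nat_lit 420) (nat_lit 250)) (XT.nd (nat_lit 78) (nat_lit 0) (nat_lit 0) (XT.lf (nat_lit 152) (nat_lit 5460423355) (nat_lit 0) (nat_lit 455099555) (nat_lit 76) (nat_lit 455099555) (nat_lit 68) (nat_lit 1) (nat_lit 66) (nat_lit 1) (nat_lit 67) (nat_lit 1) (nat_lit 351) (nat_lit 420) (nat_lit 249)) (XT.lf (nat_lit 0) (nat_lit 1664918713) (nat_lit 0) (nat_lit 2977582151) (nat_lit 152) (nat_lit 1664918713) (nat_lit 66) (nat_lit 3) (nat_lit 66) (nat_lit 1) (nat_lit 68) (nat_lit 1) (nat_lit 352) (nat_lit 420) (nat_lit 248))))) (XT.nd (nat_lit 156) (nat_lit 228) (nat_lit 0) (XT.nd (nat_lit 78) (nat_lit 152) (nat_lit 0) (XT.lf (nat_lit 76) (nat_lit 1232115418) (nat_lit 0) (nat_lit 2506545940) (nat_lit 76) (nat_lit 2506545940) (nat_lit 66) (nat_lit 3) (nat_lit 65) (nat_lit 1) (nat_lit 66) (nat_lit 1) (nat_lit 353) (nat_lit 420) (nat_lit 247)) (XT.lf (nat_lit 152) (nat_lit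 5375278171) (nat_lit 0) (nat_lit 404350060) (nat_lit 76) (nat_lit 404350060) (nat_lit 65) (nat_lit 1) (nat_lit 63) (nat_lit 1) (nat_lit 64) (nat_lit 1) (nat_lit 354) (nat_lit 420) (nat_lit 246))) (XT.nd (nat_lit 78) (nat_lit 228) (nat_lit 0) (XT.lf (nat_lit 0) (nat_lit 1652117704) (nat_lit 0) (nat_lit 2818402167) (nat_lit 152) (nat_lit 1652117704) (nat_lit 63) (nat_lit 3) (nat_lit 63) (nat_lit 1) (nat_lit 65) (nat_lit 1) (nat_lit 355) (nat_lit 420) (nat_lit 245)) (XT.nd (nat_lit 78) (nat_lit 152) (nat_lit 0) (XT.lf (nat_lit 76) (nat_lit 1265882886) (nat_lit 0) (nat_lit 2398197898) (nat_lit 76) (nat_lit 2398197898) (nat_lit 63) (nat_lit 3) (nat_lit 62) (nat_lit 1) (nat_lit 63) (nat_lit 1) (nat_lit 356) (nat_lit 420) (nat_lit 244)) (XT.lf (nat_lit 152) (nat_lit 5284372553) (nat_lit 0) (nat_lit 359259792) (nat_lit 76) (nat_lit 359259792) (nat_lit 62) (nat_lit 1) (nat_lit 60) (nat_lit 1) (nat_lit 61) (nat_lit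 1) (nat_lit 357) (nat_lit 420) (nat_lit 243))))))) (XT.nd (nat_lit 702) (nat_lit 684) (nat_lit 0) (XT.nd (nat_lit 312) (nat_lit 456) (nat_lit 0) (XT.nd (nat_lit 156) (nat_lit 152) (nat_lit 0) (XT.nd (nat_lit 78) (nat_lit 76) (nat_lit 0) (XT.lf (nat_lit 0) (nat_lit 1635709445) (nat_lit 0) (nat_lit 2671938085) (nat_lit 152) (nat_lit 1635709445) (nat_lit 60) (nat_lit 3) (nat_lit 60) (nat_lit 1) (nat_lit 62) (nat_lit 1) (nat_lit 358) (nat_lit 420) (nat_lit 242)) (XT.lf (nat_lit 76) (nat_lit 1290899476) (nat_lit 0) (nat_lit 2296946699) (nat_lit 76) (nat_lit 2296946699) (nat_lit 60) (nat_lit 3) (nat_lit 59) (nat_lit 1) (nat_lit 60) (nat_lit 1) (nat_lit 359) (nat_lit 420) (nat_lit 241))) (XT.nd (nat_lit 78) (nat_lit 0) (nat_lit 0) (XT.lf (nat_lit 152) (nat_lit 5188793189) (nat_lit 0) (nat_lit 319197672) (nat_lit 76) (nat_lit 319197672) (nat_lit 59) (nat_lit 1) (nat_lit 57) (nat_lit 1) (nat_lit 58) (nat_lit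 1) (nat_lit 360) (nat_lit 420) (nat_lit 240)) (XT.lf (nat_lit 0) (nat_lit 1616242834) (nat_lit 0) (nat_lit 2536918559) (nat_lit 152) (nat_lit 1616242834) (nat_lit 57) (nat_lit 3) (nat_lit 57) (nat_lit 1) (nat_lit 59) (nat_lit 1) (nat_lit 361) (nat_lit 420) (nat_lit 239)))) (XT.nd (nat_lit 156) (nat_lit 228) (nat_lit 0) (XT.nd (nat_lit 78) (nat_lit 152) (nat_lit 0) (XT.lf (nat_lit 76) (nat_lit 1308286229) (nat_lit 0) (nat_lit 2202146156) (nat_lit 76) (nat_lit 2202146156) (nat_lit 57) (nat_lit 3) (nat_lit 56) (nat_lit 1) (nat_lit 57) (nat_lit 1) (nat_lit 362) (nat_lit 420) (nat_lit 238)) (XT.lf (nat_lit 152) (nat_lit 5089492650) (nat_lit 0) (nat_lit 283602997) (nat_lit 76) (nat_lit 283602997) (nat_lit 56) (nat_lit 1) (nat_lit 54) (nat_lit 1) (nat_lit 55) (nat_lit 1) (nat_lit 363) (nat_lit 420) (nat_lit 237))) (XT.nd (nat_lit 78) (nat_lit 228) (nat_lit 0) (XT.lf (nat_lit 0) (nat_lit 1594201289) (nat_lit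 0) (nat_lit 2412209746) (nat_lit 152) (nat_lit 1594201289) (nat_lit 54) (nat_lit 3) (nat_lit 54) (nat_lit 1) (nat_lit 56) (nat_lit 1) (nat_lit 364) (nat_lit 420) (nat_lit 236)) (XT.nd (nat_lit 78) (nat_lit 152) (nat_lit 0) (XT.lf (nat_lit 76) (nat_lit 1319034947) (nat_lit 0) (nat_lit 2113217915) (nat_lit 76) (nat_lit 2113217915) (nat_lit 54) (nat_lit 3) (nat_lit 53) (nat_lit 1) (nat_lit 54) (nat_lit 1) (nat_lit 365) (nat_lit 420) (nat_lit 235)) (XT.lf (nat_lit 152) (nat_lit 4987304714) (nat_lit 0) (nat_lit 251977589) (nat_lit 76) (nat_lit 251977589) (nat_lit 53) (nat_lit 1) (nat_lit 51) (nat_lit 1) (nat_lit 52) (nat_lit 1) (nat_lit 366) (nat_lit 420) (nat_lit 234)))))) (XT.nd (nat_lit 390) (nat_lit 380) (nat_lit 0) (XT.nd (nat_lit 156) (nat_lit 228) (nat_lit 0) (XT.nd (nat_lit 78) (nat_lit 76) (nat_lit 0) (XT.lf (nat_lit 0) (nat_lit 1570010172) (nat_lit 0) (nat_lit 2296800091) (nat_lit 152) (nat_lit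 1570010172) (nat_lit 51) (nat_lit 3) (nat_lit 51) (nat_lit 1) (nat_lit 53) (nat_lit 1) (nat_lit 367) (nat_lit 420) (nat_lit 233)) (XT.lf (nat_lit 76) (nat_lit 1324022726) (nat_lit 0) (nat_lit 2029644006) (nat_lit 76) (nat_lit 2029644006) (nat_lit 51) (nat_lit 3) (nat_lit 50) (nat_lit 1) (nat_lit 51) (nat_lit 1) (nat_lit 368) (nat_lit 420) (nat_lit 232))) (XT.nd (nat_lit 78) (nat_lit 76) (nat_lit 0) (XT.lf (nat_lit 152) (nat_lit 4882957986) (nat_lit 0) (nat_lit 223878824) (nat_lit 76) (nat_lit 223878824) (nat_lit 50) (nat_lit 1) (nat_lit 48) (nat_lit 1) (nat_lit 49) (nat_lit 1) (nat_lit 369) (nat_lit 420) (nat_lit 231)) (XT.nd (nat_lit 78) (nat_lit 76) (nat_lit 0) (XT.lf (nat_lit 0) (nat_lit 1544043387) (nat_lit 0) (nat_lit 2189786817) (nat_lit 152) (nat_lit 1544043387) (nat_lit 48) (nat_lit 3) (nat_lit 48) (nat_lit 1) (nat_lit 50) (nat_lit 1) (nat_lit 370) (nat_lit 420) (nat_lit 230)) (XT.lf (nat_lit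 76) (nat_lit 1324024868) (nat_lit 0) (nat_lit 1950960236) (nat_lit 76) (nat_lit 1950960236) (nat_lit 48) (nat_lit 3) (nat_lit 47) (nat_lit 1) (nat_lit 48) (nat_lit 1) (nat_lit 371) (nat_lit 420) (nat_lit 229))))) (XT.nd (nat_lit 156) (nat_lit 228) (nat_lit 0) (XT.nd (nat_lit 78) (nat_lit 0) (nat_lit 0) (XT.lf (nat_lit 152) (nat_lit 4777087979) (nat_lit 0) (nat_lit 198913436) (nat_lit 76) (nat_lit 198913436) (nat_lit 47) (nat_lit 1) (nat_lit 45) (nat_lit 1) (nat_lit 46) (nat_lit 1) (nat_lit 372) (nat_lit 420) (nat_lit 228)) (XT.lf (nat_lit 0) (nat_lit 1516629235) (nat_lit 0) (nat_lit 2090363908) (nat_lit 152) (nat_lit 1516629235) (nat_lit 45) (nat_lit 3) (nat_lit 45) (nat_lit 1) (nat_lit 47) (nat_lit 1) (nat_lit 373) (nat_lit 420) (nat_lit 227))) (XT.nd (nat_lit 78) (nat_lit 152) (nat_lit 0) (XT.lf (nat_lit 76) (nat_lit 1319726349) (nat_lit 0) (nat_lit 1876750303) (nat_lit 76) (nat_lit 1876750303) (nat_lit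 45) (nat_lit 3) (nat_lit 44) (nat_lit 1) (nat_lit 45) (nat_lit 1) (nat_lit 374) (nat_lit 420) (nat_lit 226)) (XT.nd (nat_lit 78) (nat_lit 0) (nat_lit 0) (XT.lf (nat_lit 152) (nat_lit 4670247837) (nat_lit 0) (nat_lit 176732011) (nat_lit 76) (nat_lit 176732011) (nat_lit 44) (nat_lit 1) (nat_lit 42) (nat_lit 1) (nat_lit 43) (nat_lit 1) (nat_lit 375) (nat_lit 420) (nat_lit 225)) (XT.lf (nat_lit 0) (nat_lit 1488055610) (nat_lit 0) (nat_lit 1997811437) (nat_lit 152) (nat_lit 1488055610) (nat_lit 42) (nat_lit 3) (nat_lit 42) (nat_lit 1) (nat_lit 44) (nat_lit 1) (nat_lit 376) (nat_lit 420) (nat_lit 224))))))))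
noncomputable def ec424 : XT := (XT.nd (nat_lit 1404) (nat_lit 1444) (nat_lit 0) (XT.nd (nat_lit 702) (nat_lit 684) (nat_lit 0) (XT.nd (nat_lit 312) (nat_lit 380) (nat_lit 0) (XT.nd (nat_lit 156) (nat_lit 76) (nat_lit 0) (XT.nd (nat_lit 78) (nat_lit 152) (nat_lit 0) (XT.lf (nat_lit 76) (nat_lit 1311732003) (nat_lit 0) (nat_lit 1806640572) (nat_lit 76) (nat_lit 1806640572) (nat_lit 42) (nat_lit 3) (nat_lit 41) (nat_lit 1) (nat_lit 42) (nat_lit 1) (nat_lit 377) (nat_lit 420) (nat_lit 223)) (XT.lf (nat_lit 152) (nat_lit 4562917861) (nat_lit 0) (nat_lit 157024103) (nat_lit 76) (nat_lit 157024103) (nat_lit 41) (nat_lit 1) (nat_lit 39) (nat_lit 1) (nat_lit 40) (nat_lit 1) (nat_lit 378) (nat_lit 420) (nat_lit 222))) (XT.nd (nat_lit 78) (nat_lit 76) (nat_lit 0) (XT.lf (nat_lit 0) (nat_lit 1458574620) (nat_lit 0) (nat_lit 1911486070) (nat_lit 152) (nat_lit 1458574620) (nat_lit 39) (nat_lit 3) (nat_lit 39) (nat_lit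 1) (nat_lit 41) (nat_lit 1) (nat_lit 379) (nat_lit 420) (nat_lit 221)) (XT.lf (nat_lit 76) (nat_lit 1300575571) (nat_lit 0) (nat_lit 1740295424) (nat_lit 76) (nat_lit 1740295424) (nat_lit 39) (nat_lit 3) (nat_lit 38) (nat_lit 1) (nat_lit 39) (nat_lit 1) (nat_lit 380) (nat_lit 420) (nat_lit 220)))) (XT.nd (nat_lit 156) (nat_lit 228) (nat_lit 0) (XT.nd (nat_lit 78) (nat_lit 0) (nat_lit 0) (XT.lf (nat_lit 152) (nat_lit 4455513951) (nat_lit 0) (nat_lit 139513882) (nat_lit 76) (nat_lit 139513882) (nat_lit 38) (nat_lit 1) (nat_lit 36) (nat_lit 1) (nat_lit 37) (nat_lit 1) (nat_lit 381) (nat_lit 420) (nat_lit 219)) (XT.lf (nat_lit 0) (nat_lit 1428406682) (nat_lit 0) (nat_lit 1830812638) (nat_lit 152) (nat_lit 1428406682) (nat_lit 36) (nat_lit 3) (nat_lit 36) (nat_lit 1) (nat_lit 38) (nat_lit 1) (nat_lit 382) (nat_lit 420) (nat_lit 218))) (XT.nd (nat_lit 78) (nat_lit 152) (nat_lit 0) (XT.lf (nat_lit 76) (nat_lit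 1286727729) (nat_lit 0) (nat_lit 1677413124) (nat_lit 76) (nat_lit 1677413124) (nat_lit 36) (nat_lit 3) (nat_lit 35) (nat_lit 1) (nat_lit 36) (nat_lit 1) (nat_lit 383) (nat_lit 420) (nat_lit 217)) (XT.nd (nat_lit 78) (nat_lit 0) (nat_lit 0) (XT.lf (nat_lit 152) (nat_lit 4348395108) (nat_lit 0) (nat_lit 123956277) (nat_lit 76) (nat_lit 123956277) (nat_lit 35) (nat_lit 1) (nat_lit 33) (nat_lit 1) (nat_lit 34) (nat_lit 1) (nat_lit 384) (nat_lit 420) (nat_lit 216)) (XT.lf (nat_lit 0) (nat_lit 1397744160) (nat_lit 0) (nat_lit 1755276640) (nat_lit 152) (nat_lit 1397744160) (nat_lit 33) (nat_lit 3) (nat_lit 33) (nat_lit 1) (nat_lit 35) (nat_lit 1) (nat_lit 385) (nat_lit 420) (nat_lit 215)))))) (XT.nd (nat_lit 312) (nat_lit 380) (nat_lit 0) (XT.nd (nat_lit 156) (nat_lit 76) (nat_lit 0) (XT.nd (nat_lit 78) (nat_lit 152) (nat_lit 0) (XT.lf (nat_lit 76) (nat_lit 1270603232) (nat_lit 0) (nat_lit 1617722145) (nat_lit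 76) (nat_lit 1617722145) (nat_lit 33) (nat_lit 3) (nat_lit 32) (nat_lit 1) (nat_lit 33) (nat_lit 1) (nat_lit 386) (nat_lit 420) (nat_lit 214)) (XT.lf (nat_lit 152) (nat_lit 4241870083) (nat_lit 0) (nat_lit 110133546) (nat_lit 76) (nat_lit 110133546) (nat_lit 32) (nat_lit 1) (nat_lit 30) (nat_lit 1) (nat_lit 31) (nat_lit 1) (nat_lit 387) (nat_lit 420) (nat_lit 213))) (XT.nd (nat_lit 78) (nat_lit 76) (nat_lit 0) (XT.lf (nat_lit 0) (nat_lit 1366754595) (nat_lit 0) (nat_lit 1684417573) (nat_lit 152) (nat_lit 1366754595) (nat_lit 30) (nat_lit 3) (nat_lit 30) (nat_lit 1) (nat_lit 32) (nat_lit 1) (nat_lit 388) (nat_lit 420) (nat_lit 212)) (XT.lf (nat_lit 76) (nat_lit 1252567244) (nat_lit 0) (nat_lit 1560977902) (nat_lit 76) (nat_lit 1560977902) (nat_lit 30) (nat_lit 3) (nat_lit 29) (nat_lit 1) (nat_lit 30) (nat_lit 1) (nat_lit 389) (nat_lit 420) (nat_lit 211)))) (XT.nd (nat_lit 156) (nat_lit 228) (nat_lit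 0) (XT.nd (nat_lit 78) (nat_lit 0) (nat_lit 0) (XT.lf (nat_lit 152) (nat_lit 4136203278) (nat_lit 0) (nat_lit 97852229) (nat_lit 76) (nat_lit 97852229) (nat_lit 29) (nat_lit 1) (nat_lit 27) (nat_lit 1) (nat_lit 28) (nat_lit 1) (nat_lit 390) (nat_lit 420) (nat_lit 210)) (XT.lf (nat_lit 0) (nat_lit 1335583574) (nat_lit 0) (nat_lit 1617823016) (nat_lit 152) (nat_lit 1335583574) (nat_lit 27) (nat_lit 3) (nat_lit 27) (nat_lit 1) (nat_lit 29) (nat_lit 1) (nat_lit 391) (nat_lit 420) (nat_lit 209))) (XT.nd (nat_lit 78) (nat_lit 152) (nat_lit 0) (XT.lf (nat_lit 76) (nat_lit 1232940966) (nat_lit 0) (nat_lit 1506959841) (nat_lit 76) (nat_lit 1506959841) (nat_lit 27) (nat_lit 3) (nat_lit 26) (nat_lit 1) (nat_lit 27) (nat_lit 1) (nat_lit 392) (nat_lit 420) (nat_lit 208)) (XT.nd (nat_lit 78) (nat_lit 0) (nat_lit 0) (XT.lf (nat_lit 152) (nat_lit 4031619982) (nat_lit 0) (nat_lit 86940438) (nat_lit 76) (nat_lit 86940438)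 (nat_lit 26) (nat_lit 1) (nat_lit 24) (nat_lit 1) (nat_lit 25) (nat_lit 1) (nat_lit 393) (nat_lit 420) (nat_lit 207)) (XT.lf (nat_lit 0) (nat_lit 1304357269) (nat_lit 0) (nat_lit 1555123357) (nat_lit 152) (nat_lit 1304357269) (nat_lit 24) (nat_lit 3) (nat_lit 24) (nat_lit 1) (nat_lit 26) (nat_lit 1) (nat_lit 394) (nat_lit 420) (nat_lit 206))))))) (XT.nd (nat_lit 702) (nat_lit 760) (nat_lit 0) (XT.nd (nat_lit 312) (nat_lit 380) (nat_lit 0) (XT.nd (nat_lit 156) (nat_lit 76) (nat_lit 0) (XT.nd (nat_lit 78) (nat_lit 152) (nat_lit 0) (XT.lf (nat_lit 76) (nat_lit 1212006635) (nat_lit 0) (nat_lit 1455468857) (nat_lit 76) (nat_lit 1455468857) (nat_lit 24) (nat_lit 3) (nat_lit 23) (nat_lit 1) (nat_lit 24) (nat_lit 1) (nat_lit 395) (nat_lit 420) (nat_lit 205)) (XT.lf (nat_lit 152) (nat_lit 3928311013) (nat_lit 0) (nat_lit 77245453) (nat_lit 76) (nat_lit 77245453) (nat_lit 23) (nat_lit 1) (nat_lit 21) (nat_lit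 1) (nat_lit 22) (nat_lit 1) (nat_lit 396) (nat_lit 420) (nat_lit 204))) (XT.nd (nat_lit 78) (nat_lit 76) (nat_lit 0) (XT.lf (nat_lit 0) (nat_lit 1273184696) (nat_lit 0) (nat_lit 1495987118) (nat_lit 152) (nat_lit 1273184696) (nat_lit 21) (nat_lit 3) (nat_lit 21) (nat_lit 1) (nat_lit 23) (nat_lit 1) (nat_lit 397) (nat_lit 420) (nat_lit 203)) (XT.lf (nat_lit 76) (nat_lit 1190011961) (nat_lit 0) (nat_lit 1406324991) (nat_lit 76) (nat_lit 1406324991) (nat_lit 21) (nat_lit 3) (nat_lit 20) (nat_lit 1) (nat_lit 21) (nat_lit 1) (nat_lit 398) (nat_lit 420) (nat_lit 202)))) (XT.nd (nat_lit 156) (nat_lit 228) (nat_lit 0) (XT.nd (nat_lit 78) (nat_lit 0) (nat_lit 0) (XT.lf (nat_lit 152) (nat_lit 3826436830) (nat_lit 0) (nat_lit 68631585) (nat_lit 76) (nat_lit 68631585) (nat_lit 20) (nat_lit 1) (nat_lit 18) (nat_lit 1) (nat_lit 19) (nat_lit 1) (nat_lit 399) (nat_lit 420) (nat_lit 201)) (XT.lf (nat_lit 0) (nat_lit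 1242159721) (nat_lit 0) (nat_lit 1440116787) (nat_lit 152) (nat_lit 1242159721) (nat_lit 18) (nat_lit 3) (nat_lit 18) (nat_lit 1) (nat_lit 20) (nat_lit 1) (nat_lit 400) (nat_lit 420) (nat_lit 200))) (XT.nd (nat_lit 78) (nat_lit 152) (nat_lit 0) (XT.lf (nat_lit 76) (nat_lit 1167174062) (nat_lit 0) (nat_lit 1359365388) (nat_lit 76) (nat_lit 1359365388) (nat_lit 18) (nat_lit 3) (nat_lit 17) (nat_lit 1) (nat_lit 18) (nat_lit 1) (nat_lit 401) (nat_lit 420) (nat_lit 199)) (XT.nd (nat_lit 78) (nat_lit 0) (nat_lit 0) (XT.lf (nat_lit 152) (nat_lit 3726131189) (nat_lit 0) (nat_lit 60978274) (nat_lit 76) (nat_lit 60978274) (nat_lit 17) (nat_lit 1) (nat_lit 15) (nat_lit 1) (nat_lit 16) (nat_lit 1) (nat_lit 402) (nat_lit 420) (nat_lit 198)) (XT.lf (nat_lit 0) (nat_lit 1211362832) (nat_lit 0) (nat_lit 1387245121) (nat_lit 152) (nat_lit 1211362832) (nat_lit 15) (nat_lit 3) (nat_lit 15) (nat_lit 1) (nat_lit 17) (nat_lit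 1) (nat_lit 403) (nat_lit 420) (nat_lit 197)))))) (XT.nd (nat_lit 390) (nat_lit 304) (nat_lit 0) (XT.nd (nat_lit 156) (nat_lit 228) (nat_lit 0) (XT.nd (nat_lit 78) (nat_lit 152) (nat_lit 0) (XT.lf (nat_lit 76) (nat_lit 1143682967) (nat_lit 0) (nat_lit 1314442471) (nat_lit 76) (nat_lit 1314442471) (nat_lit 15) (nat_lit 3) (nat_lit 14) (nat_lit 1) (nat_lit 15) (nat_lit 1) (nat_lit 404) (nat_lit 420) (nat_lit 196)) (XT.lf (nat_lit 152) (nat_lit 3627504374) (nat_lit 0) (nat_lit 54178407) (nat_lit 76) (nat_lit 54178407) (nat_lit 14) (nat_lit 1) (nat_lit 12) (nat_lit 1) (nat_lit 13) (nat_lit 1) (nat_lit 405) (nat_lit 420) (nat_lit 195))) (XT.nd (nat_lit 78) (nat_lit 228) (nat_lit 0) (XT.lf (nat_lit 0) (nat_lit 1180862719) (nat_lit 0) (nat_lit 1337131855) (nat_lit 152) (nat_lit 1180862719) (nat_lit 12) (nat_lit 3) (nat_lit 12) (nat_lit 1) (nat_lit 14) (nat_lit 1) (nat_lit 406) (nat_lit 420) (nat_lit 194))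 (XT.nd (nat_lit 78) (nat_lit 152) (nat_lit 0) (XT.lf (nat_lit 76) (nat_lit 1119704716) (nat_lit 0) (nat_lit 1271422324) (nat_lit 76) (nat_lit 1271422324) (nat_lit 12) (nat_lit 3) (nat_lit 11) (nat_lit 1) (nat_lit 12) (nat_lit 1) (nat_lit 407) (nat_lit 420) (nat_lit 193)) (XT.lf (nat_lit 152) (nat_lit 3530646064) (nat_lit 0) (nat_lit 48136813) (nat_lit 76) (nat_lit 48136813) (nat_lit 11) (nat_lit 1) (nat_lit 9) (nat_lit 1) (nat_lit 10) (nat_lit 1) (nat_lit 408) (nat_lit 420) (nat_lit 192))))) (XT.nd (nat_lit 156) (nat_lit 228) (nat_lit 0) (XT.nd (nat_lit 78) (nat_lit 76) (nat_lit 0) (XT.lf (nat_lit 0) (nat_lit 1150717671) (nat_lit 0) (nat_lit 1289560774) (nat_lit 152) (nat_lit 1150717671) (nat_lit 9) (nat_lit 3) (nat_lit 9) (nat_lit 1) (nat_lit 11) (nat_lit 1) (nat_lit 409) (nat_lit 420) (nat_lit 191)) (XT.lf (nat_lit 76) (nat_lit 1095384122) (nat_lit 0) (nat_lit 1230183251) (nat_lit 76) (nat_lit 1230183251)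 (nat_lit 9) (nat_lit 3) (nat_lit 8) (nat_lit 1) (nat_lit 9) (nat_lit 1) (nat_lit 410) (nat_lit 420) (nat_lit 190))) (XT.nd (nat_lit 78) (nat_lit 76) (nat_lit 0) (XT.lf (nat_lit 152) (nat_lit 3435627873) (nat_lit 0) (nat_lit 42768934) (nat_lit 76) (nat_lit 42768934) (nat_lit 8) (nat_lit 1) (nat_lit 6) (nat_lit 1) (nat_lit 7) (nat_lit 1) (nat_lit 411) (nat_lit 420) (nat_lit 189)) (XT.nd (nat_lit 78) (nat_lit 76) (nat_lit 0) (XT.lf (nat_lit 0) (nat_lit 1120976814) (nat_lit 0) (nat_lit 1244337113) (nat_lit 152) (nat_lit 1120976814) (nat_lit 6) (nat_lit 3) (nat_lit 6) (nat_lit 1) (nat_lit 8) (nat_lit 1) (nat_lit 412) (nat_lit 420) (nat_lit 188)) (XT.lf (nat_lit 76) (nat_lit 1070847211) (nat_lit 0) (nat_lit 1190614491) (nat_lit 76) (nat_lit 1190614491) (nat_lit 6) (nat_lit 3) (nat_lit 5) (nat_lit 1) (nat_lit 6) (nat_lit 1) (nat_lit 413) (nat_lit 420) (nat_lit 187))))))))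
noncomputable def ec425 : XT := (XT.nd (nat_lit 36816) (nat_lit 0) (nat_lit 19076) (XT.nd (nat_lit 36036) (nat_lit 0) (nat_lit 24244) (XT.nd (nat_lit 35646) (nat_lit 0) (nat_lit 27360) (XT.nd (nat_lit 35490) (nat_lit 0) (nat_lit 28576) (XT.nd (nat_lit 35412) (nat_lit 0) (nat_lit 28500) (XT.lf (nat_lit 152) (nat_lit 3342505599) (nat_lit 0) (nat_lit 37999644) (nat_lit 76) (nat_lit 37999644) (nat_lit 5) (nat_lit 1) (nat_lit 3) (nat_lit 1) (nat_lit 4) (nat_lit 1) (nat_lit 414) (nat_lit 420) (nat_lit 186)) (XT.lf (nat_lit 1292) (nat_lit 6516008830) (nat_lit 76) (nat_lit 16268280541) (nat_lit 0) (nat_lit 16268280541) (nat_lit 395) (nat_lit 1) (nat_lit 379) (nat_lit 1) (nat_lit 378) (nat_lit 1) (nat_lit 187) (nat_lit 421) (nat_lit 412))) (XT.nd (nat_lit 78) (nat_lit 0) (nat_lit 0) (XT.lf (nat_lit 1292) (nat_lit 2346401709) (nat_lit 0) (nat_lit 33815541028) (nat_lit 1216) (nat_lit 2346401709) (nat_lit 396)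 (nat_lit 1) (nat_lit 379) (nat_lit 1) (nat_lit 395) (nat_lit 1) (nat_lit 188) (nat_lit 421) (nat_lit 411)) (XT.lf (nat_lit 1292) (nat_lit 2591176166) (nat_lit 76) (nat_lit 17689568989) (nat_lit 0) (nat_lit 17689568989) (nat_lit 396) (nat_lit 1) (nat_lit 380) (nat_lit 1) (nat_lit 379) (nat_lit 1) (nat_lit 189) (nat_lit 421) (nat_lit 410)))) (XT.nd (nat_lit 156) (nat_lit 0) (nat_lit 0) (XT.nd (nat_lit 78) (nat_lit 1292) (nat_lit 0) (XT.lf (nat_lit 1292) (nat_lit 262553073) (nat_lit 0) (nat_lit 36922101240) (nat_lit 1216) (nat_lit 262553073) (nat_lit 397) (nat_lit 1) (nat_lit 380) (nat_lit 1) (nat_lit 396) (nat_lit 1) (nat_lit 190) (nat_lit 421) (nat_lit 409)) (XT.lf (nat_lit 1368) (nat_lit 17560726389) (nat_lit 0) (nat_lit 1806809409) (nat_lit 1292) (nat_lit 17560726389) (nat_lit 381) (nat_lit 1) (nat_lit 363) (nat_lit 1) (nat_lit 380) (nat_lit 1) (nat_lit 191) (nat_lit 421) (nat_lit 408))) (XT.nd (nat_lit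 78) (nat_lit 0) (nat_lit 76) (XT.lf (nat_lit 1368) (nat_lit 32340615617) (nat_lit 76) (nat_lit 2041502410) (nat_lit 0) (nat_lit 2041502410) (nat_lit 381) (nat_lit 1) (nat_lit 364) (nat_lit 1) (nat_lit 363) (nat_lit 1) (nat_lit 192) (nat_lit 421) (nat_lit 407)) (XT.nd (nat_lit 78) (nat_lit 0) (nat_lit 0) (XT.lf (nat_lit 1368) (nat_lit 14660284798) (nat_lit 0) (nat_lit 6603781062) (nat_lit 1292) (nat_lit 14660284798) (nat_lit 382) (nat_lit 1) (nat_lit 364) (nat_lit 1) (nat_lit 381) (nat_lit 1) (nat_lit 193) (nat_lit 421) (nat_lit 406)) (XT.lf (nat_lit 1368) (nat_lit 26323743131) (nat_lit 76) (nat_lit 4556996935) (nat_lit 0) (nat_lit 4556996935) (nat_lit 382) (nat_lit 1) (nat_lit 365) (nat_lit 1) (nat_lit 364) (nat_lit 1) (nat_lit 194) (nat_lit 421) (nat_lit 405)))))) (XT.nd (nat_lit 390) (nat_lit 1824) (nat_lit 0) (XT.nd (nat_lit 156) (nat_lit 608) (nat_lit 0) (XT.nd (nat_lit 78) (nat_lit 836) (nat_lit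 0) (XT.lf (nat_lit 76) (nat_lit 11576785876) (nat_lit 0) (nat_lit 11804133605) (nat_lit 1292) (nat_lit 11576785876) (nat_lit 366) (nat_lit 1) (nat_lit 365) (nat_lit 1) (nat_lit 382) (nat_lit 1) (nat_lit 195) (nat_lit 421) (nat_lit 404)) (XT.lf (nat_lit 912) (nat_lit 19960008664) (nat_lit 0) (nat_lit 7264137936) (nat_lit 836) (nat_lit 7264137936) (nat_lit 366) (nat_lit 1) (nat_lit 354) (nat_lit 1) (nat_lit 365) (nat_lit 1) (nat_lit 196) (nat_lit 421) (nat_lit 403))) (XT.nd (nat_lit 78) (nat_lit 608) (nat_lit 0) (XT.lf (nat_lit 76) (nat_lit 8330919063) (nat_lit 0) (nat_lit 17364942005) (nat_lit 912) (nat_lit 8330919063) (nat_lit 355) (nat_lit 1) (nat_lit 354) (nat_lit 1) (nat_lit 366) (nat_lit 1) (nat_lit 197) (nat_lit 421) (nat_lit 402)) (XT.nd (nat_lit 78) (nat_lit 0) (nat_lit 0) (XT.lf (nat_lit 684) (nat_lit 13289486280) (nat_lit 0) (nat_lit 10142136372) (nat_lit 608) (nat_lit 10142136372) (nat_lit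 355) (nat_lit 1) (nat_lit 346) (nat_lit 1) (nat_lit 354) (nat_lit 1) (nat_lit 198) (nat_lit 421) (nat_lit 401)) (XT.lf (nat_lit 76) (nat_lit 4941889600) (nat_lit 0) (nat_lit 23246321105) (nat_lit 684) (nat_lit 4941889600) (nat_lit 347) (nat_lit 1) (nat_lit 346) (nat_lit 1) (nat_lit 355) (nat_lit 1) (nat_lit 199) (nat_lit 421) (nat_lit 400))))) (XT.nd (nat_lit 156) (nat_lit 1216) (nat_lit 0) (XT.nd (nat_lit 78) (nat_lit 0) (nat_lit 0) (XT.lf (nat_lit 684) (nat_lit 6349362365) (nat_lit 0) (nat_lit 13171681654) (nat_lit 608) (nat_lit 13171681654) (nat_lit 347) (nat_lit 1) (nat_lit 338) (nat_lit 1) (nat_lit 346) (nat_lit 1) (nat_lit 200) (nat_lit 421) (nat_lit 399)) (XT.lf (nat_lit 76) (nat_lit 1427512367) (nat_lit 0) (nat_lit 29411234354) (nat_lit 684) (nat_lit 1427512367) (nat_lit 339) (nat_lit 1) (nat_lit 338) (nat_lit 1) (nat_lit 347) (nat_lit 1) (nat_lit 201) (nat_lit 421) (nat_lit 398))) (XT.nd (nat_lit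 78) (nat_lit 608) (nat_lit 0) (XT.lf (nat_lit 76) (nat_lit 15516905851) (nat_lit 0) (nat_lit 809765582) (nat_lit 608) (nat_lit 15516905851) (nat_lit 331) (nat_lit 1) (nat_lit 330) (nat_lit 1) (nat_lit 338) (nat_lit 1) (nat_lit 202) (nat_lit 421) (nat_lit 397)) (XT.nd (nat_lit 78) (nat_lit 0) (nat_lit 0) (XT.lf (nat_lit 684) (nat_lit 27083021705) (nat_lit 0) (nat_lit 2174173450) (nat_lit 608) (nat_lit 2174173450) (nat_lit 331) (nat_lit 1) (nat_lit 322) (nat_lit 1) (nat_lit 330) (nat_lit 1) (nat_lit 203) (nat_lit 421) (nat_lit 396)) (XT.lf (nat_lit 76) (nat_lit 11489577266) (nat_lit 0) (nat_lit 8044201316) (nat_lit 684) (nat_lit 11489577266) (nat_lit 323) (nat_lit 1) (nat_lit 322) (nat_lit 1) (nat_lit 331) (nat_lit 1) (nat_lit 204) (nat_lit 421) (nat_lit 395))))))) (XT.nd (nat_lit 702) (nat_lit 2584) (nat_lit 0) (XT.nd (nat_lit 312) (nat_lit 1520) (nat_lit 0) (XT.nd (nat_lit 156) (nat_lit 532) (nat_lit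 0) (XT.nd (nat_lit 78) (nat_lit 0) (nat_lit 0) (XT.lf (nat_lit 608) (nat_lit 18915952751) (nat_lit 0) (nat_lit 5854488587) (nat_lit 532) (nat_lit 5854488587) (nat_lit 323) (nat_lit 1) (nat_lit 315) (nat_lit 1) (nat_lit 322) (nat_lit 1) (nat_lit 205) (nat_lit 421) (nat_lit 394)) (XT.lf (nat_lit 76) (nat_lit 7391904996) (nat_lit 0) (nat_lit 15448843698) (nat_lit 608) (nat_lit 7391904996) (nat_lit 316) (nat_lit 1) (nat_lit 315) (nat_lit 1) (nat_lit 323) (nat_lit 1) (nat_lit 206) (nat_lit 421) (nat_lit 393))) (XT.nd (nat_lit 78) (nat_lit 0) (nat_lit 0) (XT.lf (nat_lit 608) (nat_lit 10620561654) (nat_lit 0) (nat_lit 9613414944) (nat_lit 532) (nat_lit 9613414944) (nat_lit 316) (nat_lit 1) (nat_lit 308) (nat_lit 1) (nat_lit 315) (nat_lit 1) (nat_lit 207) (nat_lit 421) (nat_lit 392)) (XT.lf (nat_lit 76) (nat_lit 3236709450) (nat_lit 0) (nat_lit 22996868980) (nat_lit 608) (nat_lit 3236709450) (nat_lit 309) (nat_lit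 1) (nat_lit 308) (nat_lit 1) (nat_lit 316) (nat_lit 1) (nat_lit 208) (nat_lit 421) (nat_lit 391)))) (XT.nd (nat_lit 156) (nat_lit 456) (nat_lit 0) (XT.nd (nat_lit 78) (nat_lit 608) (nat_lit 0) (XT.lf (nat_lit 532) (nat_lit 2221607213) (nat_lit 0) (nat_lit 13437996914) (nat_lit 456) (nat_lit 13437996914) (nat_lit 309) (nat_lit 1) (nat_lit 302) (nat_lit 1) (nat_lit 308) (nat_lit 1) (nat_lit 209) (nat_lit 421) (nat_lit 390)) (XT.lf (nat_lit 608) (nat_lit 26824554778) (nat_lit 0) (nat_lit 954727952) (nat_lit 532) (nat_lit 954727952) (nat_lit 302) (nat_lit 1) (nat_lit 294) (nat_lit 1) (nat_lit 301) (nat_lit 1) (nat_lit 210) (nat_lit 421) (nat_lit 389))) (XT.nd (nat_lit 78) (nat_lit 456) (nat_lit 0) (XT.lf (nat_lit 76) (nat_lit 11118345387) (nat_lit 0) (nat_lit 6135961936) (nat_lit 608) (nat_lit 11118345387) (nat_lit 295) (nat_lit 1) (nat_lit 294) (nat_lit 1) (nat_lit 302) (nat_lit 1) (nat_lit 211) (nat_lit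 421) (nat_lit 388)) (XT.nd (nat_lit 78) (nat_lit 0) (nat_lit 0) (XT.lf (nat_lit 532) (nat_lit 17722297390) (nat_lit 0) (nat_lit 5148885104) (nat_lit 456) (nat_lit 5148885104) (nat_lit 295) (nat_lit 1) (nat_lit 288) (nat_lit 1) (nat_lit 294) (nat_lit 1) (nat_lit 212) (nat_lit 421) (nat_lit 387)) (XT.lf (nat_lit 76) (nat_lit 6581961449) (nat_lit 0) (nat_lit 14508718328) (nat_lit 532) (nat_lit 6581961449) (nat_lit 289) (nat_lit 1) (nat_lit 288) (nat_lit 1) (nat_lit 295) (nat_lit 1) (nat_lit 213) (nat_lit 421) (nat_lit 386)))))) (XT.nd (nat_lit 390) (nat_lit 1216) (nat_lit 0) (XT.nd (nat_lit 156) (nat_lit 912) (nat_lit 0) (XT.nd (nat_lit 78) (nat_lit 0) (nat_lit 0) (XT.lf (nat_lit 532) (nat_lit 8596074261) (nat_lit 0) (nat_lit 9367558414) (nat_lit 456) (nat_lit 9367558414) (nat_lit 289) (nat_lit 1) (nat_lit 282) (nat_lit 1) (nat_lit 288) (nat_lit 1) (nat_lit 214) (nat_lit 421) (nat_lit 385)) (XT.lf (nat_lit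 76) (nat_lit 2038080056) (nat_lit 0) (nat_lit 22921047069) (nat_lit 532) (nat_lit 2038080056) (nat_lit 283) (nat_lit 1) (nat_lit 282) (nat_lit 1) (nat_lit 289) (nat_lit 1) (nat_lit 215) (nat_lit 421) (nat_lit 384))) (XT.nd (nat_lit 78) (nat_lit 456) (nat_lit 0) (XT.lf (nat_lit 76) (nat_lit 13069952078) (nat_lit 0) (nat_lit 526346864) (nat_lit 456) (nat_lit 13069952078) (nat_lit 277) (nat_lit 1) (nat_lit 276) (nat_lit 1) (nat_lit 282) (nat_lit 1) (nat_lit 216) (nat_lit 421) (nat_lit 383)) (XT.nd (nat_lit 78) (nat_lit 0) (nat_lit 0) (XT.lf (nat_lit 532) (nat_lit 21381478256) (nat_lit 0) (nat_lit 2480505901) (nat_lit 456) (nat_lit 2480505901) (nat_lit 277) (nat_lit 1) (nat_lit 270) (nat_lit 1) (nat_lit 276) (nat_lit 1) (nat_lit 217) (nat_lit 421) (nat_lit 382)) (XT.lf (nat_lit 76) (nat_lit 8274974739) (nat_lit 0) (nat_lit 9472043592) (nat_lit 532) (nat_lit 8274974739) (nat_lit 271) (nat_lit 1) (nat_lit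 270) (nat_lit 1) (nat_lit 277) (nat_lit 1) (nat_lit 218) (nat_lit 421) (nat_lit 381))))) (XT.nd (nat_lit 156) (nat_lit 836) (nat_lit 0) (XT.nd (nat_lit 78) (nat_lit 0) (nat_lit 0) (XT.lf (nat_lit 456) (nat_lit 11766281670) (nat_lit 0) (nat_lit 6970922263) (nat_lit 380) (nat_lit 6970922263) (nat_lit 271) (nat_lit 1) (nat_lit 265) (nat_lit 1) (nat_lit 270) (nat_lit 1) (nat_lit 219) (nat_lit 421) (nat_lit 380)) (XT.lf (nat_lit 76) (nat_lit 3502723076) (nat_lit 0) (nat_lit 18394561780) (nat_lit 456) (nat_lit 3502723076) (nat_lit 266) (nat_lit 1) (nat_lit 265) (nat_lit 1) (nat_lit 271) (nat_lit 1) (nat_lit 220) (nat_lit 421) (nat_lit 379))) (XT.nd (nat_lit 78) (nat_lit 456) (nat_lit 0) (XT.lf (nat_lit 456) (nat_lit 2202936906) (nat_lit 0) (nat_lit 11446337247) (nat_lit 380) (nat_lit 11446337247) (nat_lit 266) (nat_lit 1) (nat_lit 260) (nat_lit 1) (nat_lit 265) (nat_lit 1) (nat_lit 221) (nat_lit 421) (nat_lit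 378)) (XT.nd (nat_lit 78) (nat_lit 0) (nat_lit 0) (XT.lf (nat_lit 456) (nat_lit 22340830848) (nat_lit 0) (nat_lit 1228588104) (nat_lit 380) (nat_lit 1228588104) (nat_lit 260) (nat_lit 1) (nat_lit 254) (nat_lit 1) (nat_lit 259) (nat_lit 1) (nat_lit 222) (nat_lit 421) (nat_lit 377)) (XT.lf (nat_lit 76) (nat_lit 8673717491) (nat_lit 0) (nat_lit 7154576429) (nat_lit 456) (nat_lit 8673717491) (nat_lit 255) (nat_lit 1) (nat_lit 254) (nat_lit 1) (nat_lit 260) (nat_lit 1) (nat_lit 223) (nat_lit 421) (nat_lit 376))))))))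
noncomputable def ec426 : XT := (XT.nd (nat_lit 1482) (nat_lit 2736) (nat_lit 0) (XT.nd (nat_lit 702) (nat_lit 1748) (nat_lit 0) (XT.nd (nat_lit 312) (nat_lit 988) (nat_lit 0) (XT.nd (nat_lit 156) (nat_lit 760) (nat_lit 0) (XT.nd (nat_lit 78) (nat_lit 0) (nat_lit 0) (XT.lf (nat_lit 456) (nat_lit 12429334927) (nat_lit 0) (nat_lit 5891629538) (nat_lit 380) (nat_lit 5891629538) (nat_lit 255) (nat_lit 1) (nat_lit 249) (nat_lit 1) (nat_lit 254) (nat_lit 1) (nat_lit 224) (nat_lit 421) (nat_lit 375)) (XT.lf (nat_lit 76) (nat_lit 3765708891) (nat_lit 0) (nat_lit 16396604094) (nat_lit 456) (nat_lit 3765708891) (nat_lit 250) (nat_lit 1) (nat_lit 249) (nat_lit 1) (nat_lit 255) (nat_lit 1) (nat_lit 225) (nat_lit 421) (nat_lit 374))) (XT.nd (nat_lit 78) (nat_lit 456) (nat_lit 0) (XT.lf (nat_lit 380) (nat_lit 2615407397) (nat_lit 0) (nat_lit 10515824396) (nat_lit 304) (nat_lit 10515824396) (nat_lit 250) (nat_lit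 1) (nat_lit 245) (nat_lit 1) (nat_lit 249) (nat_lit 1) (nat_lit 226) (nat_lit 421) (nat_lit 373)) (XT.lf (nat_lit 456) (nat_lit 21210345834) (nat_lit 0) (nat_lit 1080954154) (nat_lit 380) (nat_lit 1080954154) (nat_lit 245) (nat_lit 1) (nat_lit 239) (nat_lit 1) (nat_lit 244) (nat_lit 1) (nat_lit 227) (nat_lit 421) (nat_lit 372)))) (XT.nd (nat_lit 156) (nat_lit 684) (nat_lit 0) (XT.nd (nat_lit 78) (nat_lit 304) (nat_lit 0) (XT.lf (nat_lit 76) (nat_lit 8072095495) (nat_lit 0) (nat_lit 6954416185) (nat_lit 456) (nat_lit 8072095495) (nat_lit 240) (nat_lit 1) (nat_lit 239) (nat_lit 1) (nat_lit 245) (nat_lit 1) (nat_lit 228) (nat_lit 421) (nat_lit 371)) (XT.lf (nat_lit 380) (nat_lit 11157413506) (nat_lit 0) (nat_lit 5836765581) (nat_lit 304) (nat_lit 5836765581) (nat_lit 240) (nat_lit 1) (nat_lit 235) (nat_lit 1) (nat_lit 239) (nat_lit 1) (nat_lit 229) (nat_lit 421) (nat_lit 370))) (XT.nd (nat_lit 78) (nat_lit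 684) (nat_lit 0) (XT.lf (nat_lit 76) (nat_lit 3102706263) (nat_lit 0) (nat_lit 16362448073) (nat_lit 380) (nat_lit 3102706263) (nat_lit 236) (nat_lit 1) (nat_lit 235) (nat_lit 1) (nat_lit 240) (nat_lit 1) (nat_lit 230) (nat_lit 421) (nat_lit 369)) (XT.nd (nat_lit 78) (nat_lit 380) (nat_lit 0) (XT.lf (nat_lit 380) (nat_lit 1237228428) (nat_lit 0) (nat_lit 10535269215) (nat_lit 304) (nat_lit 10535269215) (nat_lit 236) (nat_lit 1) (nat_lit 231) (nat_lit 1) (nat_lit 235) (nat_lit 1) (nat_lit 231) (nat_lit 421) (nat_lit 368)) (XT.lf (nat_lit 380) (nat_lit 18489584291) (nat_lit 0) (nat_lit 1781610821) (nat_lit 304) (nat_lit 1781610821) (nat_lit 231) (nat_lit 1) (nat_lit 226) (nat_lit 1) (nat_lit 230) (nat_lit 1) (nat_lit 232) (nat_lit 421) (nat_lit 367)))))) (XT.nd (nat_lit 390) (nat_lit 836) (nat_lit 0) (XT.nd (nat_lit 156) (nat_lit 608) (nat_lit 0) (XT.nd (nat_lit 78) (nat_lit 304) (nat_lit 0) (XT.lf (nat_lit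 76) (nat_lit 6710723141) (nat_lit 0) (nat_lit 8378146381) (nat_lit 380) (nat_lit 6710723141) (nat_lit 227) (nat_lit 1) (nat_lit 226) (nat_lit 1) (nat_lit 231) (nat_lit 1) (nat_lit 233) (nat_lit 421) (nat_lit 366)) (XT.lf (nat_lit 380) (nat_lit 8418785252) (nat_lit 0) (nat_lit 6566288446) (nat_lit 304) (nat_lit 6566288446) (nat_lit 227) (nat_lit 1) (nat_lit 222) (nat_lit 1) (nat_lit 226) (nat_lit 1) (nat_lit 234) (nat_lit 421) (nat_lit 365))) (XT.nd (nat_lit 78) (nat_lit 608) (nat_lit 0) (XT.lf (nat_lit 76) (nat_lit 1739239243) (nat_lit 0) (nat_lit 17829455361) (nat_lit 380) (nat_lit 1739239243) (nat_lit 223) (nat_lit 1) (nat_lit 222) (nat_lit 1) (nat_lit 227) (nat_lit 1) (nat_lit 235) (nat_lit 421) (nat_lit 364)) (XT.nd (nat_lit 78) (nat_lit 304) (nat_lit 0) (XT.lf (nat_lit 76) (nat_lit 9801234100) (nat_lit 0) (nat_lit 1463605803) (nat_lit 304) (nat_lit 9801234100) (nat_lit 219) (nat_lit 1) (nat_lit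 218) (nat_lit 1) (nat_lit 222) (nat_lit 1) (nat_lit 236) (nat_lit 421) (nat_lit 363)) (XT.lf (nat_lit 380) (nat_lit 14586315461) (nat_lit 0) (nat_lit 3121283793) (nat_lit 304) (nat_lit 3121283793) (nat_lit 219) (nat_lit 1) (nat_lit 214) (nat_lit 1) (nat_lit 218) (nat_lit 1) (nat_lit 237) (nat_lit 421) (nat_lit 362))))) (XT.nd (nat_lit 156) (nat_lit 608) (nat_lit 0) (XT.nd (nat_lit 78) (nat_lit 228) (nat_lit 0) (XT.lf (nat_lit 76) (nat_lit 4785922646) (nat_lit 0) (nat_lit 11022548897) (nat_lit 380) (nat_lit 4785922646) (nat_lit 215) (nat_lit 1) (nat_lit 214) (nat_lit 1) (nat_lit 219) (nat_lit 1) (nat_lit 238) (nat_lit 421) (nat_lit 361)) (XT.lf (nat_lit 304) (nat_lit 4595363449) (nat_lit 0) (nat_lit 7884112077) (nat_lit 228) (nat_lit 7884112077) (nat_lit 215) (nat_lit 1) (nat_lit 211) (nat_lit 1) (nat_lit 214) (nat_lit 1) (nat_lit 239) (nat_lit 421) (nat_lit 360))) (XT.nd (nat_lit 78) (nat_lit 228) (nat_lit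 0) (XT.lf (nat_lit 380) (nat_lit 19859105572) (nat_lit 0) (nat_lit 139454744) (nat_lit 304) (nat_lit 139454744) (nat_lit 211) (nat_lit 1) (nat_lit 206) (nat_lit 1) (nat_lit 210) (nat_lit 1) (nat_lit 240) (nat_lit 421) (nat_lit 359)) (XT.nd (nat_lit 78) (nat_lit 228) (nat_lit 0) (XT.lf (nat_lit 76) (nat_lit 7398474075) (nat_lit 0) (nat_lit 5115050899) (nat_lit 380) (nat_lit 7398474075) (nat_lit 207) (nat_lit 1) (nat_lit 206) (nat_lit 1) (nat_lit 211) (nat_lit 1) (nat_lit 241) (nat_lit 421) (nat_lit 358)) (XT.lf (nat_lit 304) (nat_lit 9832084649) (nat_lit 0) (nat_lit 4929510386) (nat_lit 228) (nat_lit 4929510386) (nat_lit 207) (nat_lit 1) (nat_lit 203) (nat_lit 1) (nat_lit 206) (nat_lit 1) (nat_lit 242) (nat_lit 421) (nat_lit 357))))))) (XT.nd (nat_lit 702) (nat_lit 1444) (nat_lit 0) (XT.nd (nat_lit 312) (nat_lit 760) (nat_lit 0) (XT.nd (nat_lit 156) (nat_lit 228) (nat_lit 0) (XT.nd (nat_lit 78) (nat_lit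 304) (nat_lit 0) (XT.lf (nat_lit 76) (nat_lit 2457240724) (nat_lit 0) (nat_lit 14559328777) (nat_lit 304) (nat_lit 2457240724) (nat_lit 204) (nat_lit 1) (nat_lit 203) (nat_lit 1) (nat_lit 207) (nat_lit 1) (nat_lit 243) (nat_lit 421) (nat_lit 356)) (XT.lf (nat_lit 76) (nat_lit 9628054013) (nat_lit 0) (nat_lit 2577802) (nat_lit 304) (nat_lit 9628054013) (nat_lit 200) (nat_lit 1) (nat_lit 199) (nat_lit 1) (nat_lit 203) (nat_lit 1) (nat_lit 244) (nat_lit 421) (nat_lit 355))) (XT.nd (nat_lit 78) (nat_lit 0) (nat_lit 0) (XT.lf (nat_lit 304) (nat_lit 14317392237) (nat_lit 0) (nat_lit 2364834209) (nat_lit 228) (nat_lit 2364834209) (nat_lit 200) (nat_lit 1) (nat_lit 196) (nat_lit 1) (nat_lit 199) (nat_lit 1) (nat_lit 245) (nat_lit 421) (nat_lit 354)) (XT.lf (nat_lit 76) (nat_lit 4690383090) (nat_lit 0) (nat_lit 9456704315) (nat_lit 304) (nat_lit 4690383090) (nat_lit 197) (nat_lit 1) (nat_lit 196) (nat_lit 1)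 (nat_lit 200) (nat_lit 1) (nat_lit 246) (nat_lit 421) (nat_lit 353)))) (XT.nd (nat_lit 156) (nat_lit 228) (nat_lit 0) (XT.nd (nat_lit 78) (nat_lit 304) (nat_lit 0) (XT.lf (nat_lit 304) (nat_lit 4495212561) (nat_lit 0) (nat_lit 7068035985) (nat_lit 228) (nat_lit 7068035985) (nat_lit 197) (nat_lit 1) (nat_lit 193) (nat_lit 1) (nat_lit 196) (nat_lit 1) (nat_lit 247) (nat_lit 421) (nat_lit 352)) (XT.lf (nat_lit 304) (nat_lit 18139955788) (nat_lit 0) (nat_lit 144841146) (nat_lit 228) (nat_lit 144841146) (nat_lit 193) (nat_lit 1) (nat_lit 189) (nat_lit 1) (nat_lit 192) (nat_lit 1) (nat_lit 248) (nat_lit 421) (nat_lit 351))) (XT.nd (nat_lit 78) (nat_lit 228) (nat_lit 0) (XT.lf (nat_lit 76) (nat_lit 6601477181) (nat_lit 0) (nat_lit 5024420728) (nat_lit 304) (nat_lit 6601477181) (nat_lit 190) (nat_lit 1) (nat_lit 189) (nat_lit 1) (nat_lit 193) (nat_lit 1) (nat_lit 249) (nat_lit 421) (nat_lit 350)) (XT.nd (nat_lit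 78) (nat_lit 0) (nat_lit 0) (XT.lf (nat_lit 304) (nat_lit 8360490068) (nat_lit 0) (nat_lit 4834539229) (nat_lit 228) (nat_lit 4834539229) (nat_lit 190) (nat_lit 1) (nat_lit 186) (nat_lit 1) (nat_lit 189) (nat_lit 1) (nat_lit 250) (nat_lit 421) (nat_lit 349)) (XT.lf (nat_lit 76) (nat_lit 1788145647) (nat_lit 0) (nat_lit 14258821041) (nat_lit 304) (nat_lit 1788145647) (nat_lit 187) (nat_lit 1) (nat_lit 186) (nat_lit 1) (nat_lit 190) (nat_lit 1) (nat_lit 251) (nat_lit 421) (nat_lit 348)))))) (XT.nd (nat_lit 390) (nat_lit 532) (nat_lit 0) (XT.nd (nat_lit 156) (nat_lit 456) (nat_lit 0) (XT.nd (nat_lit 78) (nat_lit 228) (nat_lit 0) (XT.lf (nat_lit 76) (nat_lit 8228562464) (nat_lit 0) (nat_lit 1184774903) (nat_lit 228) (nat_lit 8228562464) (nat_lit 184) (nat_lit 1) (nat_lit 183) (nat_lit 1) (nat_lit 186) (nat_lit 1) (nat_lit 252) (nat_lit 421) (nat_lit 347)) (XT.lf (nat_lit 304) (nat_lit 11667557946) (nat_lit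 0) (nat_lit 2892202966) (nat_lit 228) (nat_lit 2892202966) (nat_lit 184) (nat_lit 1) (nat_lit 180) (nat_lit 1) (nat_lit 183) (nat_lit 1) (nat_lit 253) (nat_lit 421) (nat_lit 346))) (XT.nd (nat_lit 78) (nat_lit 456) (nat_lit 0) (XT.lf (nat_lit 76) (nat_lit 3450986269) (nat_lit 0) (nat_lit 10362222829) (nat_lit 304) (nat_lit 3450986269) (nat_lit 181) (nat_lit 1) (nat_lit 180) (nat_lit 1) (nat_lit 184) (nat_lit 1) (nat_lit 254) (nat_lit 421) (nat_lit 345)) (XT.nd (nat_lit 78) (nat_lit 304) (nat_lit 0) (XT.lf (nat_lit 228) (nat_lit 2173600171) (nat_lit 0) (nat_lit 7452668364) (nat_lit 152) (nat_lit 7452668364) (nat_lit 181) (nat_lit 1) (nat_lit 178) (nat_lit 1) (nat_lit 180) (nat_lit 1) (nat_lit 255) (nat_lit 421) (nat_lit 344)) (XT.lf (nat_lit 304) (nat_lit 14482368102) (nat_lit 0) (nat_lit 1207332912) (nat_lit 228) (nat_lit 1207332912) (nat_lit 178) (nat_lit 1) (nat_lit 174) (nat_lit 1) (nat_lit 177)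 (nat_lit 1) (nat_lit 256) (nat_lit 421) (nat_lit 343))))) (XT.nd (nat_lit 156) (nat_lit 380) (nat_lit 0) (XT.nd (nat_lit 78) (nat_lit 152) (nat_lit 0) (XT.lf (nat_lit 76) (nat_lit 4874158567) (nat_lit 0) (nat_lit 6967326999) (nat_lit 304) (nat_lit 4874158567) (nat_lit 175) (nat_lit 1) (nat_lit 174) (nat_lit 1) (nat_lit 178) (nat_lit 1) (nat_lit 257) (nat_lit 421) (nat_lit 342)) (XT.lf (nat_lit 228) (nat_lit 5083844017) (nat_lit 0) (nat_lit 5726851996) (nat_lit 152) (nat_lit 5726851996) (nat_lit 175) (nat_lit 1) (nat_lit 172) (nat_lit 1) (nat_lit 174) (nat_lit 1) (nat_lit 258) (nat_lit 421) (nat_lit 341))) (XT.nd (nat_lit 78) (nat_lit 380) (nat_lit 0) (XT.lf (nat_lit 76) (nat_lit 252447125) (nat_lit 0) (nat_lit 15858278830) (nat_lit 228) (nat_lit 252447125) (nat_lit 173) (nat_lit 1) (nat_lit 172) (nat_lit 1) (nat_lit 175) (nat_lit 1) (nat_lit 259) (nat_lit 421) (nat_lit 340)) (XT.nd (nat_lit 78) (nat_lit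 152) (nat_lit 0) (XT.lf (nat_lit 76) (nat_lit 6085968468) (nat_lit 0) (nat_lit 4016230504) (nat_lit 228) (nat_lit 6085968468) (nat_lit 170) (nat_lit 1) (nat_lit 169) (nat_lit 1) (nat_lit 172) (nat_lit 1) (nat_lit 260) (nat_lit 421) (nat_lit 339)) (XT.lf (nat_lit 228) (nat_lit 7577733851) (nat_lit 0) (nat_lit 4219547107) (nat_lit 152) (nat_lit 4219547107) (nat_lit 170) (nat_lit 1) (nat_lit 167) (nat_lit 1) (nat_lit 169) (nat_lit 1) (nat_lit 261) (nat_lit 421) (nat_lit 338))))))))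
noncomputable def ec427 : XT := (XT.nd (nat_lit 1482) (nat_lit 1748) (nat_lit 0) (XT.nd (nat_lit 702) (nat_lit 912) (nat_lit 0) (XT.nd (nat_lit 312) (nat_lit 760) (nat_lit 0) (XT.nd (nat_lit 156) (nat_lit 152) (nat_lit 0) (XT.nd (nat_lit 78) (nat_lit 228) (nat_lit 0) (XT.lf (nat_lit 76) (nat_lit 1521157719) (nat_lit 0) (nat_lit 12805978465) (nat_lit 228) (nat_lit 1521157719) (nat_lit 168) (nat_lit 1) (nat_lit 167) (nat_lit 1) (nat_lit 170) (nat_lit 1) (nat_lit 262) (nat_lit 421) (nat_lit 337)) (XT.lf (nat_lit 76) (nat_lit 7111519412) (nat_lit 0) (nat_lit 1457544228) (nat_lit 228) (nat_lit 7111519412) (nat_lit 165) (nat_lit 1) (nat_lit 164) (nat_lit 1) (nat_lit 167) (nat_lit 1) (nat_lit 263) (nat_lit 421) (nat_lit 336))) (XT.nd (nat_lit 78) (nat_lit 0) (nat_lit 0) (XT.lf (nat_lit 228) (nat_lit 9704373029) (nat_lit 0) (nat_lit 2905627791) (nat_lit 152) (nat_lit 2905627791) (nat_lit 165) (nat_lit 1) (nat_lit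 162) (nat_lit 1) (nat_lit 164) (nat_lit 1) (nat_lit 264) (nat_lit 421) (nat_lit 335)) (XT.lf (nat_lit 76) (nat_lit 2610617978) (nat_lit 0) (nat_lit 10131444180) (nat_lit 228) (nat_lit 2610617978) (nat_lit 163) (nat_lit 1) (nat_lit 162) (nat_lit 1) (nat_lit 165) (nat_lit 1) (nat_lit 265) (nat_lit 421) (nat_lit 334)))) (XT.nd (nat_lit 156) (nat_lit 380) (nat_lit 0) (XT.nd (nat_lit 78) (nat_lit 228) (nat_lit 0) (XT.lf (nat_lit 228) (nat_lit 769347807) (nat_lit 0) (nat_lit 7211118440) (nat_lit 152) (nat_lit 7211118440) (nat_lit 163) (nat_lit 1) (nat_lit 160) (nat_lit 1) (nat_lit 162) (nat_lit 1) (nat_lit 266) (nat_lit 421) (nat_lit 333)) (XT.lf (nat_lit 228) (nat_lit 11507311345) (nat_lit 0) (nat_lit 1762792113) (nat_lit 152) (nat_lit 1762792113) (nat_lit 160) (nat_lit 1) (nat_lit 157) (nat_lit 1) (nat_lit 159) (nat_lit 1) (nat_lit 267) (nat_lit 421) (nat_lit 332))) (XT.nd (nat_lit 78) (nat_lit 380) (nat_lit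 0) (XT.lf (nat_lit 76) (nat_lit 3541916810) (nat_lit 0) (nat_lit 7791460987) (nat_lit 228) (nat_lit 3541916810) (nat_lit 158) (nat_lit 1) (nat_lit 157) (nat_lit 1) (nat_lit 160) (nat_lit 1) (nat_lit 268) (nat_lit 421) (nat_lit 331)) (XT.nd (nat_lit 78) (nat_lit 228) (nat_lit 0) (XT.lf (nat_lit 228) (nat_lit 2712808181) (nat_lit 0) (nat_lit 6003625461) (nat_lit 152) (nat_lit 6003625461) (nat_lit 158) (nat_lit 1) (nat_lit 155) (nat_lit 1) (nat_lit 157) (nat_lit 1) (nat_lit 269) (nat_lit 421) (nat_lit 330)) (XT.lf (nat_lit 228) (nat_lit 13025166602) (nat_lit 0) (nat_lit 771246557) (nat_lit 152) (nat_lit 771246557) (nat_lit 155) (nat_lit 1) (nat_lit 152) (nat_lit 1) (nat_lit 154) (nat_lit 1) (nat_lit 270) (nat_lit 421) (nat_lit 329)))))) (XT.nd (nat_lit 390) (nat_lit 456) (nat_lit 0) (XT.nd (nat_lit 156) (nat_lit 304) (nat_lit 0) (XT.nd (nat_lit 78) (nat_lit 152) (nat_lit 0) (XT.lf (nat_lit 76) (nat_lit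 4333759395) (nat_lit 0) (nat_lit 5747664653) (nat_lit 228) (nat_lit 4333759395) (nat_lit 153) (nat_lit 1) (nat_lit 152) (nat_lit 1) (nat_lit 155) (nat_lit 1) (nat_lit 271) (nat_lit 421) (nat_lit 328)) (XT.lf (nat_lit 228) (nat_lit 4380443107) (nat_lit 0) (nat_lit 4942531933) (nat_lit 152) (nat_lit 4942531933) (nat_lit 153) (nat_lit 1) (nat_lit 150) (nat_lit 1) (nat_lit 152) (nat_lit 1) (nat_lit 272) (nat_lit 421) (nat_lit 327))) (XT.nd (nat_lit 78) (nat_lit 304) (nat_lit 0) (XT.lf (nat_lit 76) (nat_lit 87431490) (nat_lit 0) (nat_lit 13944063808) (nat_lit 228) (nat_lit 87431490) (nat_lit 151) (nat_lit 1) (nat_lit 150) (nat_lit 1) (nat_lit 153) (nat_lit 1) (nat_lit 273) (nat_lit 421) (nat_lit 326)) (XT.nd (nat_lit 78) (nat_lit 152) (nat_lit 0) (XT.lf (nat_lit 76) (nat_lit 5002733931) (nat_lit 0) (nat_lit 3965999854) (nat_lit 152) (nat_lit 5002733931) (nat_lit 149) (nat_lit 1) (nat_lit 148) (nat_lit 1)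 (nat_lit 150) (nat_lit 1) (nat_lit 274) (nat_lit 421) (nat_lit 325)) (XT.lf (nat_lit 228) (nat_lit 5804732182) (nat_lit 0) (nat_lit 4011170239) (nat_lit 152) (nat_lit 4011170239) (nat_lit 149) (nat_lit 1) (nat_lit 146) (nat_lit 1) (nat_lit 148) (nat_lit 1) (nat_lit 275) (nat_lit 421) (nat_lit 324))))) (XT.nd (nat_lit 156) (nat_lit 304) (nat_lit 0) (XT.nd (nat_lit 78) (nat_lit 152) (nat_lit 0) (XT.lf (nat_lit 76) (nat_lit 834437715) (nat_lit 0) (nat_lit 12016333897) (nat_lit 228) (nat_lit 834437715) (nat_lit 147) (nat_lit 1) (nat_lit 146) (nat_lit 1) (nat_lit 149) (nat_lit 1) (nat_lit 276) (nat_lit 421) (nat_lit 323)) (XT.lf (nat_lit 76) (nat_lit 5563548611) (nat_lit 0) (nat_lit 2416238778) (nat_lit 152) (nat_lit 5563548611) (nat_lit 145) (nat_lit 1) (nat_lit 144) (nat_lit 1) (nat_lit 146) (nat_lit 1) (nat_lit 277) (nat_lit 421) (nat_lit 322))) (XT.nd (nat_lit 78) (nat_lit 152) (nat_lit 0) (XT.lf (nat_lit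 228) (nat_lit 7014482970) (nat_lit 0) (nat_lit 3194741379) (nat_lit 152) (nat_lit 3194741379) (nat_lit 145) (nat_lit 1) (nat_lit 142) (nat_lit 1) (nat_lit 144) (nat_lit 1) (nat_lit 278) (nat_lit 421) (nat_lit 321)) (XT.nd (nat_lit 78) (nat_lit 152) (nat_lit 0) (XT.lf (nat_lit 76) (nat_lit 1476101635) (nat_lit 0) (nat_lit 10314428690) (nat_lit 228) (nat_lit 1476101635) (nat_lit 143) (nat_lit 1) (nat_lit 142) (nat_lit 1) (nat_lit 145) (nat_lit 1) (nat_lit 279) (nat_lit 421) (nat_lit 320)) (XT.lf (nat_lit 76) (nat_lit 6029242154) (nat_lit 0) (nat_lit 1071553437) (nat_lit 152) (nat_lit 6029242154) (nat_lit 141) (nat_lit 1) (nat_lit 140) (nat_lit 1) (nat_lit 142) (nat_lit 1) (nat_lit 280) (nat_lit 421) (nat_lit 319))))))) (XT.nd (nat_lit 702) (nat_lit 912) (nat_lit 0) (XT.nd (nat_lit 312) (nat_lit 380) (nat_lit 0) (XT.nd (nat_lit 156) (nat_lit 304) (nat_lit 0) (XT.nd (nat_lit 78) (nat_lit 0) (nat_lit 0)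 (XT.lf (nat_lit 228) (nat_lit 8035241935) (nat_lit 0) (nat_lit 2480106313) (nat_lit 152) (nat_lit 2480106313) (nat_lit 141) (nat_lit 1) (nat_lit 138) (nat_lit 1) (nat_lit 140) (nat_lit 1) (nat_lit 281) (nat_lit 421) (nat_lit 318)) (XT.lf (nat_lit 76) (nat_lit 2024812264) (nat_lit 0) (nat_lit 8812849558) (nat_lit 228) (nat_lit 2024812264) (nat_lit 139) (nat_lit 1) (nat_lit 138) (nat_lit 1) (nat_lit 141) (nat_lit 1) (nat_lit 282) (nat_lit 421) (nat_lit 317))) (XT.nd (nat_lit 78) (nat_lit 228) (nat_lit 0) (XT.lf (nat_lit 152) (nat_lit 93692581) (nat_lit 0) (nat_lit 6318578865) (nat_lit 76) (nat_lit 6318578865) (nat_lit 139) (nat_lit 1) (nat_lit 137) (nat_lit 1) (nat_lit 138) (nat_lit 1) (nat_lit 283) (nat_lit 421) (nat_lit 316)) (XT.lf (nat_lit 228) (nat_lit 8889659522) (nat_lit 0) (nat_lit 1855600565) (nat_lit 152) (nat_lit 1855600565) (nat_lit 137) (nat_lit 1) (nat_lit 134) (nat_lit 1) (nat_lit 136)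 (nat_lit 1) (nat_lit 284) (nat_lit 421) (nat_lit 315)))) (XT.nd (nat_lit 156) (nat_lit 304) (nat_lit 0) (XT.nd (nat_lit 78) (nat_lit 76) (nat_lit 0) (XT.lf (nat_lit 76) (nat_lit 2491558384) (nat_lit 0) (nat_lit 7488950514) (nat_lit 228) (nat_lit 2491558384) (nat_lit 135) (nat_lit 1) (nat_lit 134) (nat_lit 1) (nat_lit 137) (nat_lit 1) (nat_lit 285) (nat_lit 421) (nat_lit 314)) (XT.lf (nat_lit 152) (nat_lit 1116935731) (nat_lit 0) (nat_lit 5613975483) (nat_lit 76) (nat_lit 5613975483) (nat_lit 135) (nat_lit 1) (nat_lit 133) (nat_lit 1) (nat_lit 134) (nat_lit 1) (nat_lit 286) (nat_lit 421) (nat_lit 313))) (XT.nd (nat_lit 78) (nat_lit 76) (nat_lit 0) (XT.lf (nat_lit 228) (nat_lit 9597814467) (nat_lit 0) (nat_lit 1310869524) (nat_lit 152) (nat_lit 1310869524) (nat_lit 133) (nat_lit 1) (nat_lit 130) (nat_lit 1) (nat_lit 132) (nat_lit 1) (nat_lit 287) (nat_lit 421) (nat_lit 312)) (XT.nd (nat_lit 78) (nat_lit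 76) (nat_lit 0) (XT.lf (nat_lit 76) (nat_lit 2886085230) (nat_lit 0) (nat_lit 6322619831) (nat_lit 228) (nat_lit 2886085230) (nat_lit 131) (nat_lit 1) (nat_lit 130) (nat_lit 1) (nat_lit 133) (nat_lit 1) (nat_lit 288) (nat_lit 421) (nat_lit 311)) (XT.lf (nat_lit 152) (nat_lit 1995966510) (nat_lit 0) (nat_lit 4987944504) (nat_lit 76) (nat_lit 4987944504) (nat_lit 131) (nat_lit 1) (nat_lit 129) (nat_lit 1) (nat_lit 130) (nat_lit 1) (nat_lit 289) (nat_lit 421) (nat_lit 310)))))) (XT.nd (nat_lit 390) (nat_lit 380) (nat_lit 0) (XT.nd (nat_lit 156) (nat_lit 304) (nat_lit 0) (XT.nd (nat_lit 78) (nat_lit 0) (nat_lit 0) (XT.lf (nat_lit 228) (nat_lit 10177501921) (nat_lit 0) (nat_lit 836722103) (nat_lit 152) (nat_lit 836722103) (nat_lit 129) (nat_lit 1) (nat_lit 126) (nat_lit 1) (nat_lit 128) (nat_lit 1) (nat_lit 290) (nat_lit 421) (nat_lit 309)) (XT.lf (nat_lit 76) (nat_lit 3217033692) (nat_lit 0) (nat_lit 5295997185)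 (nat_lit 228) (nat_lit 3217033692) (nat_lit 127) (nat_lit 1) (nat_lit 126) (nat_lit 1) (nat_lit 129) (nat_lit 1) (nat_lit 291) (nat_lit 421) (nat_lit 308))) (XT.nd (nat_lit 78) (nat_lit 228) (nat_lit 0) (XT.lf (nat_lit 152) (nat_lit 2747743382) (nat_lit 0) (nat_lit 4431724087) (nat_lit 76) (nat_lit 4431724087) (nat_lit 127) (nat_lit 1) (nat_lit 125) (nat_lit 1) (nat_lit 126) (nat_lit 1) (nat_lit 292) (nat_lit 421) (nat_lit 307)) (XT.nd (nat_lit 78) (nat_lit 0) (nat_lit 0) (XT.lf (nat_lit 228) (nat_lit 10644489394) (nat_lit 0) (nat_lit 425000742) (nat_lit 152) (nat_lit 425000742) (nat_lit 125) (nat_lit 1) (nat_lit 122) (nat_lit 1) (nat_lit 124) (nat_lit 1) (nat_lit 293) (nat_lit 421) (nat_lit 306)) (XT.lf (nat_lit 76) (nat_lit 3492063978) (nat_lit 0) (nat_lit 4393222338) (nat_lit 228) (nat_lit 3492063978) (nat_lit 123) (nat_lit 1) (nat_lit 122) (nat_lit 1) (nat_lit 125) (nat_lit 1) (nat_lit 294) (nat_lit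 421) (nat_lit 305))))) (XT.nd (nat_lit 156) (nat_lit 76) (nat_lit 0) (XT.nd (nat_lit 78) (nat_lit 228) (nat_lit 0) (XT.lf (nat_lit 152) (nat_lit 3387308182) (nat_lit 0) (nat_lit 3937529451) (nat_lit 76) (nat_lit 3937529451) (nat_lit 123) (nat_lit 1) (nat_lit 121) (nat_lit 1) (nat_lit 122) (nat_lit 1) (nat_lit 295) (nat_lit 421) (nat_lit 304)) (XT.lf (nat_lit 228) (nat_lit 11012744120) (nat_lit 0) (nat_lit 68465897) (nat_lit 152) (nat_lit 68465897) (nat_lit 121) (nat_lit 1) (nat_lit 118) (nat_lit 1) (nat_lit 120) (nat_lit 1) (nat_lit 296) (nat_lit 421) (nat_lit 303))) (XT.nd (nat_lit 78) (nat_lit 76) (nat_lit 0) (XT.lf (nat_lit 76) (nat_lit 3717965470) (nat_lit 0) (nat_lit 3600211858) (nat_lit 228) (nat_lit 3717965470) (nat_lit 119) (nat_lit 1) (nat_lit 118) (nat_lit 1) (nat_lit 121) (nat_lit 1) (nat_lit 297) (nat_lit 421) (nat_lit 302)) (XT.nd (nat_lit 78) (nat_lit 0) (nat_lit 0) (XT.lf (nat_lit 152)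 (nat_lit 3928000589) (nat_lit 0) (nat_lit 3498443918) (nat_lit 76) (nat_lit 3498443918) (nat_lit 119) (nat_lit 1) (nat_lit 117) (nat_lit 1) (nat_lit 118) (nat_lit 1) (nat_lit 298) (nat_lit 421) (nat_lit 301)) (XT.lf (nat_lit 0) (nat_lit 241675936) (nat_lit 0) (nat_lit 10332389851) (nat_lit 152) (nat_lit 241675936) (nat_lit 117) (nat_lit 3) (nat_lit 117) (nat_lit 1) (nat_lit 119) (nat_lit 1) (nat_lit 299) (nat_lit 421) (nat_lit 300))))))))
noncomputable def ec428 : XT := (XT.nd (nat_lit 1404) (nat_lit 1444) (nat_lit 0) (XT.nd (nat_lit 702) (nat_lit 684) (nat_lit 0) (XT.nd (nat_lit 312) (nat_lit 304) (nat_lit 0) (XT.nd (nat_lit 156) (nat_lit 152) (nat_lit 0) (XT.nd (nat_lit 78) (nat_lit 76) (nat_lit 0) (XT.lf (nat_lit 76) (nat_lit 3900754314) (nat_lit 0) (nat_lit 2904460744) (nat_lit 152) (nat_lit 3900754314) (nat_lit 116) (nat_lit 1) (nat_lit 115) (nat_lit 1) (nat_lit 117) (nat_lit 1) (nat_lit 300) (nat_lit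 421) (nat_lit 299)) (XT.lf (nat_lit 152) (nat_lit 4381648660) (nat_lit 0) (nat_lit 3108322109) (nat_lit 76) (nat_lit 3108322109) (nat_lit 116) (nat_lit 1) (nat_lit 114) (nat_lit 1) (nat_lit 115) (nat_lit 1) (nat_lit 301) (nat_lit 421) (nat_lit 298))) (XT.nd (nat_lit 78) (nat_lit 152) (nat_lit 0) (XT.lf (nat_lit 0) (nat_lit 509006801) (nat_lit 0) (nat_lit 9474475418) (nat_lit 152) (nat_lit 509006801) (nat_lit 114) (nat_lit 3) (nat_lit 114) (nat_lit 1) (nat_lit 116) (nat_lit 1) (nat_lit 302) (nat_lit 421) (nat_lit 297)) (XT.lf (nat_lit 76) (nat_lit 4045760122) (nat_lit 0) (nat_lit 2294866177) (nat_lit 152) (nat_lit 4045760122) (nat_lit 113) (nat_lit 1) (nat_lit 112) (nat_lit 1) (nat_lit 114) (nat_lit 1) (nat_lit 303) (nat_lit 421) (nat_lit 296)))) (XT.nd (nat_lit 156) (nat_lit 228) (nat_lit 0) (XT.nd (nat_lit 78) (nat_lit 0) (nat_lit 0) (XT.lf (nat_lit 152) (nat_lit 4758738094) (nat_lit 0) (nat_lit 2761703935)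 (nat_lit 76) (nat_lit 2761703935) (nat_lit 113) (nat_lit 1) (nat_lit 111) (nat_lit 1) (nat_lit 112) (nat_lit 1) (nat_lit 304) (nat_lit 421) (nat_lit 295)) (XT.lf (nat_lit 0) (nat_lit 737955525) (nat_lit 0) (nat_lit 8703658270) (nat_lit 152) (nat_lit 737955525) (nat_lit 111) (nat_lit 3) (nat_lit 111) (nat_lit 1) (nat_lit 113) (nat_lit 1) (nat_lit 305) (nat_lit 421) (nat_lit 294))) (XT.nd (nat_lit 78) (nat_lit 76) (nat_lit 0) (XT.lf (nat_lit 76) (nat_lit 4157702979) (nat_lit 0) (nat_lit 1761570939) (nat_lit 152) (nat_lit 4157702979) (nat_lit 110) (nat_lit 1) (nat_lit 109) (nat_lit 1) (nat_lit 111) (nat_lit 1) (nat_lit 306) (nat_lit 421) (nat_lit 293)) (XT.nd (nat_lit 78) (nat_lit 0) (nat_lit 0) (XT.lf (nat_lit 152) (nat_lit 5068562609) (nat_lit 0) (nat_lit 2453738176) (nat_lit 76) (nat_lit 2453738176) (nat_lit 110) (nat_lit 1) (nat_lit 108) (nat_lit 1) (nat_lit 109) (nat_lit 1) (nat_lit 307) (nat_lit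 421) (nat_lit 292)) (XT.lf (nat_lit 0) (nat_lit 933051862) (nat_lit 0) (nat_lit 8010475579) (nat_lit 152) (nat_lit 933051862) (nat_lit 108) (nat_lit 3) (nat_lit 108) (nat_lit 1) (nat_lit 110) (nat_lit 1) (nat_lit 308) (nat_lit 421) (nat_lit 291)))))) (XT.nd (nat_lit 312) (nat_lit 304) (nat_lit 0) (XT.nd (nat_lit 156) (nat_lit 152) (nat_lit 0) (XT.nd (nat_lit 78) (nat_lit 76) (nat_lit 0) (XT.lf (nat_lit 76) (nat_lit 4240761858) (nat_lit 0) (nat_lit 1295824286) (nat_lit 152) (nat_lit 4240761858) (nat_lit 107) (nat_lit 1) (nat_lit 106) (nat_lit 1) (nat_lit 108) (nat_lit 1) (nat_lit 309) (nat_lit 421) (nat_lit 290)) (XT.lf (nat_lit 152) (nat_lit 5319357519) (nat_lit 0) (nat_lit 2180114588) (nat_lit 76) (nat_lit 2180114588) (nat_lit 107) (nat_lit 1) (nat_lit 105) (nat_lit 1) (nat_lit 106) (nat_lit 1) (nat_lit 310) (nat_lit 421) (nat_lit 289))) (XT.nd (nat_lit 78) (nat_lit 152) (nat_lit 0) (XT.lf (nat_lit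 0) (nat_lit 1098313171) (nat_lit 0) (nat_lit 7386512476) (nat_lit 152) (nat_lit 1098313171) (nat_lit 105) (nat_lit 3) (nat_lit 105) (nat_lit 1) (nat_lit 107) (nat_lit 1) (nat_lit 311) (nat_lit 421) (nat_lit 288)) (XT.lf (nat_lit 76) (nat_lit 4298635395) (nat_lit 0) (nat_lit 889858360) (nat_lit 152) (nat_lit 4298635395) (nat_lit 104) (nat_lit 1) (nat_lit 103) (nat_lit 1) (nat_lit 105) (nat_lit 1) (nat_lit 312) (nat_lit 421) (nat_lit 287)))) (XT.nd (nat_lit 156) (nat_lit 228) (nat_lit 0) (XT.nd (nat_lit 78) (nat_lit 0) (nat_lit 0) (XT.lf (nat_lit 152) (nat_lit 5518418404) (nat_lit 0) (nat_lit 1937003575) (nat_lit 76) (nat_lit 1937003575) (nat_lit 104) (nat_lit 1) (nat_lit 102) (nat_lit 1) (nat_lit 103) (nat_lit 1) (nat_lit 313) (nat_lit 421) (nat_lit 286)) (XT.lf (nat_lit 0) (nat_lit 1237301761) (nat_lit 0) (nat_lit 6824285398) (nat_lit 152) (nat_lit 1237301761) (nat_lit 102) (nat_lit 3) (nat_lit 102)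 (nat_lit 1) (nat_lit 104) (nat_lit 1) (nat_lit 314) (nat_lit 421) (nat_lit 285))) (XT.nd (nat_lit 78) (nat_lit 76) (nat_lit 0) (XT.lf (nat_lit 76) (nat_lit 4334595863) (nat_lit 0) (nat_lit 536778371) (nat_lit 152) (nat_lit 4334595863) (nat_lit 101) (nat_lit 1) (nat_lit 100) (nat_lit 1) (nat_lit 102) (nat_lit 1) (nat_lit 315) (nat_lit 421) (nat_lit 284)) (XT.nd (nat_lit 78) (nat_lit 0) (nat_lit 0) (XT.lf (nat_lit 152) (nat_lit 5672206524) (nat_lit 0) (nat_lit 1721002588) (nat_lit 76) (nat_lit 1721002588) (nat_lit 101) (nat_lit 1) (nat_lit 99) (nat_lit 1) (nat_lit 100) (nat_lit 1) (nat_lit 316) (nat_lit 421) (nat_lit 283)) (XT.lf (nat_lit 0) (nat_lit 1353175846) (nat_lit 0) (nat_lit 6317138444) (nat_lit 152) (nat_lit 1353175846) (nat_lit 99) (nat_lit 3) (nat_lit 99) (nat_lit 1) (nat_lit 101) (nat_lit 1) (nat_lit 317) (nat_lit 421) (nat_lit 282))))))) (XT.nd (nat_lit 702) (nat_lit 760) (nat_lit 0) (XT.nd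 (nat_lit 312) (nat_lit 380) (nat_lit 0) (XT.nd (nat_lit 156) (nat_lit 76) (nat_lit 0) (XT.nd (nat_lit 78) (nat_lit 76) (nat_lit 0) (XT.lf (nat_lit 76) (nat_lit 4351537128) (nat_lit 0) (nat_lit 230465041) (nat_lit 152) (nat_lit 4351537128) (nat_lit 98) (nat_lit 1) (nat_lit 97) (nat_lit 1) (nat_lit 99) (nat_lit 1) (nat_lit 318) (nat_lit 421) (nat_lit 281)) (XT.lf (nat_lit 152) (nat_lit 5786442464) (nat_lit 0) (nat_lit 1529088509) (nat_lit 76) (nat_lit 1529088509) (nat_lit 98) (nat_lit 1) (nat_lit 96) (nat_lit 1) (nat_lit 97) (nat_lit 1) (nat_lit 319) (nat_lit 421) (nat_lit 280))) (XT.nd (nat_lit 78) (nat_lit 76) (nat_lit 0) (XT.lf (nat_lit 0) (nat_lit 1448734801) (nat_lit 0) (nat_lit 5859151276) (nat_lit 152) (nat_lit 1448734801) (nat_lit 96) (nat_lit 3) (nat_lit 96) (nat_lit 1) (nat_lit 98) (nat_lit 1) (nat_lit 320) (nat_lit 421) (nat_lit 279)) (XT.lf (nat_lit 76) (nat_lit 35198924) (nat_lit 0) (nat_lit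 4317156666) (nat_lit 76) (nat_lit 4317156666) (nat_lit 96) (nat_lit 3) (nat_lit 95) (nat_lit 1) (nat_lit 96) (nat_lit 1) (nat_lit 321) (nat_lit 421) (nat_lit 278)))) (XT.nd (nat_lit 156) (nat_lit 228) (nat_lit 0) (XT.nd (nat_lit 78) (nat_lit 0) (nat_lit 0) (XT.lf (nat_lit 152) (nat_lit 5866189314) (nat_lit 0) (nat_lit 1358575335) (nat_lit 76) (nat_lit 1358575335) (nat_lit 95) (nat_lit 1) (nat_lit 93) (nat_lit 1) (nat_lit 94) (nat_lit 1) (nat_lit 322) (nat_lit 421) (nat_lit 277)) (XT.lf (nat_lit 0) (nat_lit 1526459378) (nat_lit 0) (nat_lit 5445057292) (nat_lit 152) (nat_lit 1526459378) (nat_lit 93) (nat_lit 3) (nat_lit 93) (nat_lit 1) (nat_lit 95) (nat_lit 1) (nat_lit 323) (nat_lit 421) (nat_lit 276))) (XT.nd (nat_lit 78) (nat_lit 152) (nat_lit 0) (XT.lf (nat_lit 76) (nat_lit 268205203) (nat_lit 0) (nat_lit 4072669197) (nat_lit 76) (nat_lit 4072669197) (nat_lit 93) (nat_lit 3) (nat_lit 92) (nat_lit 1)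 (nat_lit 93) (nat_lit 1) (nat_lit 324) (nat_lit 421) (nat_lit 275)) (XT.nd (nat_lit 78) (nat_lit 0) (nat_lit 0) (XT.lf (nat_lit 152) (nat_lit 5915926557) (nat_lit 0) (nat_lit 1207076589) (nat_lit 76) (nat_lit 1207076589) (nat_lit 92) (nat_lit 1) (nat_lit 90) (nat_lit 1) (nat_lit 91) (nat_lit 1) (nat_lit 325) (nat_lit 421) (nat_lit 274)) (XT.lf (nat_lit 0) (nat_lit 1588547416) (nat_lit 0) (nat_lit 5070170909) (nat_lit 152) (nat_lit 1588547416) (nat_lit 90) (nat_lit 3) (nat_lit 90) (nat_lit 1) (nat_lit 92) (nat_lit 1) (nat_lit 326) (nat_lit 421) (nat_lit 273)))))) (XT.nd (nat_lit 390) (nat_lit 304) (nat_lit 0) (XT.nd (nat_lit 156) (nat_lit 228) (nat_lit 0) (XT.nd (nat_lit 78) (nat_lit 152) (nat_lit 0) (XT.lf (nat_lit 76) (nat_lit 468327349) (nat_lit 0) (nat_lit 3848544332) (nat_lit 76) (nat_lit 3848544332) (nat_lit 90) (nat_lit 3) (nat_lit 89) (nat_lit 1) (nat_lit 90) (nat_lit 1) (nat_lit 327) (nat_lit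 421) (nat_lit 272)) (XT.lf (nat_lit 152) (nat_lit 5939615705) (nat_lit 0) (nat_lit 1072471915) (nat_lit 76) (nat_lit 1072471915) (nat_lit 89) (nat_lit 1) (nat_lit 87) (nat_lit 1) (nat_lit 88) (nat_lit 1) (nat_lit 328) (nat_lit 421) (nat_lit 271))) (XT.nd (nat_lit 78) (nat_lit 228) (nat_lit 0) (XT.lf (nat_lit 0) (nat_lit 1636945581) (nat_lit 0) (nat_lit 4730322960) (nat_lit 152) (nat_lit 1636945581) (nat_lit 87) (nat_lit 3) (nat_lit 87) (nat_lit 1) (nat_lit 89) (nat_lit 1) (nat_lit 329) (nat_lit 421) (nat_lit 270)) (XT.nd (nat_lit 78) (nat_lit 152) (nat_lit 0) (XT.lf (nat_lit 76) (nat_lit 639433367) (nat_lit 0) (nat_lit 3642712375) (nat_lit 76) (nat_lit 3642712375) (nat_lit 87) (nat_lit 3) (nat_lit 86) (nat_lit 1) (nat_lit 87) (nat_lit 1) (nat_lit 330) (nat_lit 421) (nat_lit 269)) (XT.lf (nat_lit 152) (nat_lit 5940758598) (nat_lit 0) (nat_lit 952877406) (nat_lit 76) (nat_lit 952877406) (nat_lit 86) (nat_lit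 1) (nat_lit 84) (nat_lit 1) (nat_lit 85) (nat_lit 1) (nat_lit 331) (nat_lit 421) (nat_lit 268))))) (XT.nd (nat_lit 156) (nat_lit 228) (nat_lit 0) (XT.nd (nat_lit 78) (nat_lit 76) (nat_lit 0) (XT.lf (nat_lit 0) (nat_lit 1673377545) (nat_lit 0) (nat_lit 4421803281) (nat_lit 152) (nat_lit 1673377545) (nat_lit 84) (nat_lit 3) (nat_lit 84) (nat_lit 1) (nat_lit 86) (nat_lit 1) (nat_lit 332) (nat_lit 421) (nat_lit 267)) (XT.lf (nat_lit 76) (nat_lit 784954073) (nat_lit 0) (nat_lit 3453328573) (nat_lit 76) (nat_lit 3453328573) (nat_lit 84) (nat_lit 3) (nat_lit 83) (nat_lit 1) (nat_lit 84) (nat_lit 1) (nat_lit 333) (nat_lit 421) (nat_lit 266))) (XT.nd (nat_lit 78) (nat_lit 76) (nat_lit 0) (XT.lf (nat_lit 152) (nat_lit 5922449179) (nat_lit 0) (nat_lit 846619233) (nat_lit 76) (nat_lit 846619233) (nat_lit 83) (nat_lit 1) (nat_lit 81) (nat_lit 1) (nat_lit 82) (nat_lit 1) (nat_lit 334) (nat_lit 421) (nat_lit 265))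 (XT.nd (nat_lit 78) (nat_lit 76) (nat_lit 0) (XT.lf (nat_lit 0) (nat_lit 1699369031) (nat_lit 0) (nat_lit 4141309699) (nat_lit 152) (nat_lit 1699369031) (nat_lit 81) (nat_lit 3) (nat_lit 81) (nat_lit 1) (nat_lit 83) (nat_lit 1) (nat_lit 335) (nat_lit 421) (nat_lit 264)) (XT.lf (nat_lit 76) (nat_lit 907932020) (nat_lit 0) (nat_lit 3278748203) (nat_lit 76) (nat_lit 3278748203) (nat_lit 81) (nat_lit 3) (nat_lit 80) (nat_lit 1) (nat_lit 81) (nat_lit 1) (nat_lit 336) (nat_lit 421) (nat_lit 263))))))))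
noncomputable def ec429 : XT := (XT.nd (nat_lit 1482) (nat_lit 1368) (nat_lit 0) (XT.nd (nat_lit 702) (nat_lit 836) (nat_lit 0) (XT.nd (nat_lit 312) (nat_lit 304) (nat_lit 0) (XT.nd (nat_lit 156) (nat_lit 228) (nat_lit 0) (XT.nd (nat_lit 78) (nat_lit 0) (nat_lit 0) (XT.lf (nat_lit 152) (nat_lit 5887419495) (nat_lit 0) (nat_lit 752210223) (nat_lit 76) (nat_lit 752210223) (nat_lit 80) (nat_lit 1) (nat_lit 78) (nat_lit 1) (nat_lit 79) (nat_lit 1) (nat_lit 337) (nat_lit 421) (nat_lit 262)) (XT.lf (nat_lit 0) (nat_lit 1716270050) (nat_lit 0) (nat_lit 3885902705) (nat_lit 152) (nat_lit 1716270050) (nat_lit 78) (nat_lit 3) (nat_lit 78) (nat_lit 1) (nat_lit 80) (nat_lit 1) (nat_lit 338) (nat_lit 421) (nat_lit 261))) (XT.nd (nat_lit 78) (nat_lit 152) (nat_lit 0) (XT.lf (nat_lit 76) (nat_lit 1011064960) (nat_lit 0) (nat_lit 3117504432) (nat_lit 76) (nat_lit 3117504432) (nat_lit 78) (nat_lit 3) (nat_lit 77) (nat_lit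 1) (nat_lit 78) (nat_lit 1) (nat_lit 339) (nat_lit 421) (nat_lit 260)) (XT.lf (nat_lit 152) (nat_lit 5838080537) (nat_lit 0) (nat_lit 668329040) (nat_lit 76) (nat_lit 668329040) (nat_lit 77) (nat_lit 1) (nat_lit 75) (nat_lit 1) (nat_lit 76) (nat_lit 1) (nat_lit 340) (nat_lit 421) (nat_lit 259)))) (XT.nd (nat_lit 156) (nat_lit 228) (nat_lit 0) (XT.nd (nat_lit 78) (nat_lit 76) (nat_lit 0) (XT.lf (nat_lit 0) (nat_lit 1725274657) (nat_lit 0) (nat_lit 3652965170) (nat_lit 152) (nat_lit 1725274657) (nat_lit 75) (nat_lit 3) (nat_lit 75) (nat_lit 1) (nat_lit 77) (nat_lit 1) (nat_lit 341) (nat_lit 421) (nat_lit 258)) (XT.lf (nat_lit 76) (nat_lit 1096744452) (nat_lit 0) (nat_lit 2968288639) (nat_lit 76) (nat_lit 2968288639) (nat_lit 75) (nat_lit 3) (nat_lit 74) (nat_lit 1) (nat_lit 75) (nat_lit 1) (nat_lit 342) (nat_lit 421) (nat_lit 257))) (XT.nd (nat_lit 78) (nat_lit 76) (nat_lit 0) (XT.lf (nat_lit 152) (nat_lit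 5776558525) (nat_lit 0) (nat_lit 593801696) (nat_lit 76) (nat_lit 593801696) (nat_lit 74) (nat_lit 1) (nat_lit 72) (nat_lit 1) (nat_lit 73) (nat_lit 1) (nat_lit 343) (nat_lit 421) (nat_lit 256)) (XT.nd (nat_lit 78) (nat_lit 76) (nat_lit 0) (XT.lf (nat_lit 0) (nat_lit 1727438505) (nat_lit 0) (nat_lit 3440166558) (nat_lit 152) (nat_lit 1727438505) (nat_lit 72) (nat_lit 3) (nat_lit 72) (nat_lit 1) (nat_lit 74) (nat_lit 1) (nat_lit 344) (nat_lit 421) (nat_lit 255)) (XT.lf (nat_lit 76) (nat_lit 1167090163) (nat_lit 0) (nat_lit 2829932933) (nat_lit 76) (nat_lit 2829932933) (nat_lit 72) (nat_lit 3) (nat_lit 71) (nat_lit 1) (nat_lit 72) (nat_lit 1) (nat_lit 345) (nat_lit 421) (nat_lit 254)))))) (XT.nd (nat_lit 390) (nat_lit 456) (nat_lit 0) (XT.nd (nat_lit 156) (nat_lit 228) (nat_lit 0) (XT.nd (nat_lit 78) (nat_lit 0) (nat_lit 0) (XT.lf (nat_lit 152) (nat_lit 5704727123) (nat_lit 0) (nat_lit 527585116) (nat_lit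 76) (nat_lit 527585116) (nat_lit 71) (nat_lit 1) (nat_lit 69) (nat_lit 1) (nat_lit 70) (nat_lit 1) (nat_lit 346) (nat_lit 421) (nat_lit 253)) (XT.lf (nat_lit 0) (nat_lit 1723694425) (nat_lit 0) (nat_lit 3245431116) (nat_lit 152) (nat_lit 1723694425) (nat_lit 69) (nat_lit 3) (nat_lit 69) (nat_lit 1) (nat_lit 71) (nat_lit 1) (nat_lit 347) (nat_lit 421) (nat_lit 252))) (XT.nd (nat_lit 78) (nat_lit 152) (nat_lit 0) (XT.lf (nat_lit 76) (nat_lit 1223980341) (nat_lit 0) (nat_lit 2701394605) (nat_lit 76) (nat_lit 2701394605) (nat_lit 69) (nat_lit 3) (nat_lit 68) (nat_lit 1) (nat_lit 69) (nat_lit 1) (nat_lit 348) (nat_lit 421) (nat_lit 251)) (XT.nd (nat_lit 78) (nat_lit 0) (nat_lit 0) (XT.lf (nat_lit 152) (nat_lit 5624236056) (nat_lit 0) (nat_lit 468752542) (nat_lit 76) (nat_lit 468752542) (nat_lit 68) (nat_lit 1) (nat_lit 66) (nat_lit 1) (nat_lit 67) (nat_lit 1) (nat_lit 349) (nat_lit 421) (nat_lit 250)) (XT.lf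 (nat_lit 0) (nat_lit 1714866275) (nat_lit 0) (nat_lit 3066909616) (nat_lit 152) (nat_lit 1714866275) (nat_lit 66) (nat_lit 3) (nat_lit 66) (nat_lit 1) (nat_lit 68) (nat_lit 1) (nat_lit 350) (nat_lit 421) (nat_lit 249))))) (XT.nd (nat_lit 156) (nat_lit 228) (nat_lit 0) (XT.nd (nat_lit 78) (nat_lit 152) (nat_lit 0) (XT.lf (nat_lit 76) (nat_lit 1269078881) (nat_lit 0) (nat_lit 2581742318) (nat_lit 76) (nat_lit 2581742318) (nat_lit 66) (nat_lit 3) (nat_lit 65) (nat_lit 1) (nat_lit 66) (nat_lit 1) (nat_lit 351) (nat_lit 421) (nat_lit 248)) (XT.lf (nat_lit 152) (nat_lit 5536536516) (nat_lit 0) (nat_lit 416480562) (nat_lit 76) (nat_lit 416480562) (nat_lit 65) (nat_lit 1) (nat_lit 63) (nat_lit 1) (nat_lit 64) (nat_lit 1) (nat_lit 352) (nat_lit 421) (nat_lit 247))) (XT.nd (nat_lit 78) (nat_lit 228) (nat_lit 0) (XT.lf (nat_lit 0) (nat_lit 1701681235) (nat_lit 0) (nat_lit 2902954232) (nat_lit 152) (nat_lit 1701681235)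 (nat_lit 63) (nat_lit 3) (nat_lit 63) (nat_lit 1) (nat_lit 65) (nat_lit 1) (nat_lit 353) (nat_lit 421) (nat_lit 246)) (XT.nd (nat_lit 78) (nat_lit 152) (nat_lit 0) (XT.lf (nat_lit 76) (nat_lit 1303859372) (nat_lit 0) (nat_lit 2470143835) (nat_lit 76) (nat_lit 2470143835) (nat_lit 63) (nat_lit 3) (nat_lit 62) (nat_lit 1) (nat_lit 63) (nat_lit 1) (nat_lit 354) (nat_lit 421) (nat_lit 245)) (XT.lf (nat_lit 152) (nat_lit 5442903729) (nat_lit 0) (nat_lit 370037585) (nat_lit 76) (nat_lit 370037585) (nat_lit 62) (nat_lit 1) (nat_lit 60) (nat_lit 1) (nat_lit 61) (nat_lit 1) (nat_lit 355) (nat_lit 421) (nat_lit 244))))))) (XT.nd (nat_lit 702) (nat_lit 684) (nat_lit 0) (XT.nd (nat_lit 312) (nat_lit 456) (nat_lit 0) (XT.nd (nat_lit 156) (nat_lit 152) (nat_lit 0) (XT.nd (nat_lit 78) (nat_lit 76) (nat_lit 0) (XT.lf (nat_lit 0) (nat_lit 1684780729) (nat_lit 0) (nat_lit 2752096227) (nat_lit 152) (nat_lit 1684780729)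 (nat_lit 60) (nat_lit 3) (nat_lit 60) (nat_lit 1) (nat_lit 62) (nat_lit 1) (nat_lit 356) (nat_lit 421) (nat_lit 243)) (XT.lf (nat_lit 76) (nat_lit 1329626460) (nat_lit 0) (nat_lit 2365855100) (nat_lit 76) (nat_lit 2365855100) (nat_lit 60) (nat_lit 3) (nat_lit 59) (nat_lit 1) (nat_lit 60) (nat_lit 1) (nat_lit 357) (nat_lit 421) (nat_lit 242))) (XT.nd (nat_lit 78) (nat_lit 0) (nat_lit 0) (XT.lf (nat_lit 152) (nat_lit 5344456985) (nat_lit 0) (nat_lit 328773602) (nat_lit 76) (nat_lit 328773602) (nat_lit 59) (nat_lit 1) (nat_lit 57) (nat_lit 1) (nat_lit 58) (nat_lit 1) (nat_lit 358) (nat_lit 421) (nat_lit 241)) (XT.lf (nat_lit 0) (nat_lit 1664730119) (nat_lit 0) (nat_lit 2613026116) (nat_lit 152) (nat_lit 1664730119) (nat_lit 57) (nat_lit 3) (nat_lit 57) (nat_lit 1) (nat_lit 59) (nat_lit 1) (nat_lit 359) (nat_lit 421) (nat_lit 240)))) (XT.nd (nat_lit 156) (nat_lit 228) (nat_lit 0) (XT.nd (nat_lit 78) (nat_lit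 152) (nat_lit 0) (XT.lf (nat_lit 76) (nat_lit 1347534816) (nat_lit 0) (nat_lit 2268210541) (nat_lit 76) (nat_lit 2268210541) (nat_lit 57) (nat_lit 3) (nat_lit 56) (nat_lit 1) (nat_lit 57) (nat_lit 1) (nat_lit 360) (nat_lit 421) (nat_lit 239)) (XT.lf (nat_lit 152) (nat_lit 5242177429) (nat_lit 0) (nat_lit 292111087) (nat_lit 76) (nat_lit 292111087) (nat_lit 56) (nat_lit 1) (nat_lit 54) (nat_lit 1) (nat_lit 55) (nat_lit 1) (nat_lit 361) (nat_lit 421) (nat_lit 238))) (XT.nd (nat_lit 78) (nat_lit 228) (nat_lit 0) (XT.lf (nat_lit 0) (nat_lit 1642027327) (nat_lit 0) (nat_lit 2484576038) (nat_lit 152) (nat_lit 1642027327) (nat_lit 54) (nat_lit 3) (nat_lit 54) (nat_lit 1) (nat_lit 56) (nat_lit 1) (nat_lit 362) (nat_lit 421) (nat_lit 237)) (XT.nd (nat_lit 78) (nat_lit 152) (nat_lit 0) (XT.lf (nat_lit 76) (nat_lit 1358605995) (nat_lit 0) (nat_lit 2176614452) (nat_lit 76) (nat_lit 2176614452) (nat_lit 54) (nat_lit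 3) (nat_lit 53) (nat_lit 1) (nat_lit 54) (nat_lit 1) (nat_lit 363) (nat_lit 421) (nat_lit 236)) (XT.lf (nat_lit 152) (nat_lit 5136923855) (nat_lit 0) (nat_lit 259536917) (nat_lit 76) (nat_lit 259536917) (nat_lit 53) (nat_lit 1) (nat_lit 51) (nat_lit 1) (nat_lit 52) (nat_lit 1) (nat_lit 364) (nat_lit 421) (nat_lit 235)))))) (XT.nd (nat_lit 390) (nat_lit 380) (nat_lit 0) (XT.nd (nat_lit 156) (nat_lit 228) (nat_lit 0) (XT.nd (nat_lit 78) (nat_lit 76) (nat_lit 0) (XT.lf (nat_lit 0) (nat_lit 1617110477) (nat_lit 0) (nat_lit 2365704094) (nat_lit 152) (nat_lit 1617110477) (nat_lit 51) (nat_lit 3) (nat_lit 51) (nat_lit 1) (nat_lit 53) (nat_lit 1) (nat_lit 365) (nat_lit 421) (nat_lit 234)) (XT.lf (nat_lit 76) (nat_lit 1363743407) (nat_lit 0) (nat_lit 2090533326) (nat_lit 76) (nat_lit 2090533326) (nat_lit 51) (nat_lit 3) (nat_lit 50) (nat_lit 1) (nat_lit 51) (nat_lit 1) (nat_lit 366) (nat_lit 421) (nat_lit 233)))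 (XT.nd (nat_lit 78) (nat_lit 76) (nat_lit 0) (XT.lf (nat_lit 152) (nat_lit 5029446726) (nat_lit 0) (nat_lit 230595189) (nat_lit 76) (nat_lit 230595189) (nat_lit 50) (nat_lit 1) (nat_lit 48) (nat_lit 1) (nat_lit 49) (nat_lit 1) (nat_lit 367) (nat_lit 421) (nat_lit 232)) (XT.nd (nat_lit 78) (nat_lit 76) (nat_lit 0) (XT.lf (nat_lit 0) (nat_lit 1590364689) (nat_lit 0) (nat_lit 2255480421) (nat_lit 152) (nat_lit 1590364689) (nat_lit 48) (nat_lit 3) (nat_lit 48) (nat_lit 1) (nat_lit 50) (nat_lit 1) (nat_lit 368) (nat_lit 421) (nat_lit 231)) (XT.lf (nat_lit 76) (nat_lit 1363745614) (nat_lit 0) (nat_lit 2009489043) (nat_lit 76) (nat_lit 2009489043) (nat_lit 48) (nat_lit 3) (nat_lit 47) (nat_lit 1) (nat_lit 48) (nat_lit 1) (nat_lit 369) (nat_lit 421) (nat_lit 230))))) (XT.nd (nat_lit 156) (nat_lit 228) (nat_lit 0) (XT.nd (nat_lit 78) (nat_lit 0) (nat_lit 0) (XT.lf (nat_lit 152) (nat_lit 4920400618) (nat_lit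 0) (nat_lit 204880839) (nat_lit 76) (nat_lit 204880839) (nat_lit 47) (nat_lit 1) (nat_lit 45) (nat_lit 1) (nat_lit 46) (nat_lit 1) (nat_lit 370) (nat_lit 421) (nat_lit 229)) (XT.lf (nat_lit 0) (nat_lit 1562128112) (nat_lit 0) (nat_lit 2153074826) (nat_lit 152) (nat_lit 1562128112) (nat_lit 45) (nat_lit 3) (nat_lit 45) (nat_lit 1) (nat_lit 47) (nat_lit 1) (nat_lit 371) (nat_lit 421) (nat_lit 228))) (XT.nd (nat_lit 78) (nat_lit 152) (nat_lit 0) (XT.lf (nat_lit 76) (nat_lit 1359318139) (nat_lit 0) (nat_lit 1933052813) (nat_lit 76) (nat_lit 1933052813) (nat_lit 45) (nat_lit 3) (nat_lit 44) (nat_lit 1) (nat_lit 45) (nat_lit 1) (nat_lit 372) (nat_lit 421) (nat_lit 227)) (XT.nd (nat_lit 78) (nat_lit 0) (nat_lit 0) (XT.lf (nat_lit 152) (nat_lit 4810355272) (nat_lit 0) (nat_lit 182033972) (nat_lit 76) (nat_lit 182033972) (nat_lit 44) (nat_lit 1) (nat_lit 42) (nat_lit 1) (nat_lit 43) (nat_lit 1) (nat_lit 373)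 (nat_lit 421) (nat_lit 226)) (XT.lf (nat_lit 0) (nat_lit 1532697279) (nat_lit 0) (nat_lit 2057745780) (nat_lit 152) (nat_lit 1532697279) (nat_lit 42) (nat_lit 3) (nat_lit 42) (nat_lit 1) (nat_lit 44) (nat_lit 1) (nat_lit 374) (nat_lit 421) (nat_lit 225))))))))
noncomputable def ec430 : XT := (XT.nd (nat_lit 1482) (nat_lit 1520) (nat_lit 0) (XT.nd (nat_lit 702) (nat_lit 760) (nat_lit 0) (XT.nd (nat_lit 312) (nat_lit 380) (nat_lit 0) (XT.nd (nat_lit 156) (nat_lit 76) (nat_lit 0) (XT.nd (nat_lit 78) (nat_lit 152) (nat_lit 0) (XT.lf (nat_lit 76) (nat_lit 1351083963) (nat_lit 0) (nat_lit 1860839790) (nat_lit 76) (nat_lit 1860839790) (nat_lit 42) (nat_lit 3) (nat_lit 41) (nat_lit 1) (nat_lit 42) (nat_lit 1) (nat_lit 375) (nat_lit 421) (nat_lit 224)) (XT.lf (nat_lit 152) (nat_lit 4699805396) (nat_lit 0) (nat_lit 161734826) (nat_lit 76) (nat_lit 161734826) (nat_lit 41) (nat_lit 1) (nat_lit 39) (nat_lit 1) (nat_lit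 40) (nat_lit 1) (nat_lit 376) (nat_lit 421) (nat_lit 223))) (XT.nd (nat_lit 78) (nat_lit 76) (nat_lit 0) (XT.lf (nat_lit 0) (nat_lit 1502331859) (nat_lit 0) (nat_lit 1968830652) (nat_lit 152) (nat_lit 1502331859) (nat_lit 39) (nat_lit 3) (nat_lit 39) (nat_lit 1) (nat_lit 41) (nat_lit 1) (nat_lit 377) (nat_lit 421) (nat_lit 222)) (XT.lf (nat_lit 76) (nat_lit 1339592838) (nat_lit 0) (nat_lit 1792504287) (nat_lit 76) (nat_lit 1792504287) (nat_lit 39) (nat_lit 3) (nat_lit 38) (nat_lit 1) (nat_lit 39) (nat_lit 1) (nat_lit 378) (nat_lit 421) (nat_lit 221)))) (XT.nd (nat_lit 156) (nat_lit 228) (nat_lit 0) (XT.nd (nat_lit 78) (nat_lit 0) (nat_lit 0) (XT.lf (nat_lit 152) (nat_lit 4589179369) (nat_lit 0) (nat_lit 143699298) (nat_lit 76) (nat_lit 143699298) (nat_lit 38) (nat_lit 1) (nat_lit 36) (nat_lit 1) (nat_lit 37) (nat_lit 1) (nat_lit 379) (nat_lit 421) (nat_lit 220)) (XT.lf (nat_lit 0) (nat_lit 1471258882)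 (nat_lit 0) (nat_lit 1885737018) (nat_lit 152) (nat_lit 1471258882) (nat_lit 36) (nat_lit 3) (nat_lit 36) (nat_lit 1) (nat_lit 38) (nat_lit 1) (nat_lit 380) (nat_lit 421) (nat_lit 219))) (XT.nd (nat_lit 78) (nat_lit 152) (nat_lit 0) (XT.lf (nat_lit 76) (nat_lit 1325329561) (nat_lit 0) (nat_lit 1727735518) (nat_lit 76) (nat_lit 1727735518) (nat_lit 36) (nat_lit 3) (nat_lit 35) (nat_lit 1) (nat_lit 36) (nat_lit 1) (nat_lit 381) (nat_lit 421) (nat_lit 218)) (XT.nd (nat_lit 78) (nat_lit 0) (nat_lit 0) (XT.lf (nat_lit 152) (nat_lit 4478846961) (nat_lit 0) (nat_lit 127674965) (nat_lit 76) (nat_lit 127674965) (nat_lit 35) (nat_lit 1) (nat_lit 33) (nat_lit 1) (nat_lit 34) (nat_lit 1) (nat_lit 382) (nat_lit 421) (nat_lit 217)) (XT.lf (nat_lit 0) (nat_lit 1439676484) (nat_lit 0) (nat_lit 1807934939) (nat_lit 152) (nat_lit 1439676484) (nat_lit 33) (nat_lit 3) (nat_lit 33) (nat_lit 1) (nat_lit 35) (nat_lit 1) (nat_lit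 383) (nat_lit 421) (nat_lit 216)))))) (XT.nd (nat_lit 390) (nat_lit 304) (nat_lit 0) (XT.nd (nat_lit 156) (nat_lit 228) (nat_lit 0) (XT.nd (nat_lit 78) (nat_lit 152) (nat_lit 0) (XT.lf (nat_lit 76) (nat_lit 1308721329) (nat_lit 0) (nat_lit 1666253810) (nat_lit 76) (nat_lit 1666253810) (nat_lit 33) (nat_lit 3) (nat_lit 32) (nat_lit 1) (nat_lit 33) (nat_lit 1) (nat_lit 384) (nat_lit 421) (nat_lit 215)) (XT.lf (nat_lit 152) (nat_lit 4369126185) (nat_lit 0) (nat_lit 113437553) (nat_lit 76) (nat_lit 113437553) (nat_lit 32) (nat_lit 1) (nat_lit 30) (nat_lit 1) (nat_lit 31) (nat_lit 1) (nat_lit 385) (nat_lit 421) (nat_lit 214))) (XT.nd (nat_lit 78) (nat_lit 228) (nat_lit 0) (XT.lf (nat_lit 0) (nat_lit 1407757233) (nat_lit 0) (nat_lit 1734950101) (nat_lit 152) (nat_lit 1407757233) (nat_lit 30) (nat_lit 3) (nat_lit 30) (nat_lit 1) (nat_lit 32) (nat_lit 1) (nat_lit 386) (nat_lit 421) (nat_lit 213)) (XT.nd (nat_lit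 78) (nat_lit 152) (nat_lit 0) (XT.lf (nat_lit 76) (nat_lit 1290144261) (nat_lit 0) (nat_lit 1607807239) (nat_lit 76) (nat_lit 1607807239) (nat_lit 30) (nat_lit 3) (nat_lit 29) (nat_lit 1) (nat_lit 30) (nat_lit 1) (nat_lit 387) (nat_lit 421) (nat_lit 212)) (XT.lf (nat_lit 152) (nat_lit 4260289376) (nat_lit 0) (nat_lit 100787796) (nat_lit 76) (nat_lit 100787796) (nat_lit 29) (nat_lit 1) (nat_lit 27) (nat_lit 1) (nat_lit 28) (nat_lit 1) (nat_lit 388) (nat_lit 421) (nat_lit 211))))) (XT.nd (nat_lit 156) (nat_lit 228) (nat_lit 0) (XT.nd (nat_lit 78) (nat_lit 76) (nat_lit 0) (XT.lf (nat_lit 0) (nat_lit 1375651082) (nat_lit 0) (nat_lit 1666357706) (nat_lit 152) (nat_lit 1375651082) (nat_lit 27) (nat_lit 3) (nat_lit 27) (nat_lit 1) (nat_lit 29) (nat_lit 1) (nat_lit 389) (nat_lit 421) (nat_lit 210)) (XT.lf (nat_lit 76) (nat_lit 1269929195) (nat_lit 0) (nat_lit 1552168636) (nat_lit 76) (nat_lit 1552168636) (nat_lit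 27) (nat_lit 3) (nat_lit 26) (nat_lit 1) (nat_lit 27) (nat_lit 1) (nat_lit 390) (nat_lit 421) (nat_lit 209))) (XT.nd (nat_lit 78) (nat_lit 76) (nat_lit 0) (XT.lf (nat_lit 152) (nat_lit 4152568582) (nat_lit 0) (nat_lit 89548652) (nat_lit 76) (nat_lit 89548652) (nat_lit 26) (nat_lit 1) (nat_lit 24) (nat_lit 1) (nat_lit 25) (nat_lit 1) (nat_lit 391) (nat_lit 421) (nat_lit 208)) (XT.nd (nat_lit 78) (nat_lit 76) (nat_lit 0) (XT.lf (nat_lit 0) (nat_lit 1343487987) (nat_lit 0) (nat_lit 1601777058) (nat_lit 152) (nat_lit 1343487987) (nat_lit 24) (nat_lit 3) (nat_lit 24) (nat_lit 1) (nat_lit 26) (nat_lit 1) (nat_lit 392) (nat_lit 421) (nat_lit 207)) (XT.lf (nat_lit 76) (nat_lit 1248366834) (nat_lit 0) (nat_lit 1499132922) (nat_lit 76) (nat_lit 1499132922) (nat_lit 24) (nat_lit 3) (nat_lit 23) (nat_lit 1) (nat_lit 24) (nat_lit 1) (nat_lit 393) (nat_lit 421) (nat_lit 206))))))) (XT.nd (nat_lit 702) (nat_lit 836)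 (nat_lit 0) (XT.nd (nat_lit 312) (nat_lit 304) (nat_lit 0) (XT.nd (nat_lit 156) (nat_lit 228) (nat_lit 0) (XT.nd (nat_lit 78) (nat_lit 0) (nat_lit 0) (XT.lf (nat_lit 152) (nat_lit 4046160343) (nat_lit 0) (nat_lit 79562817) (nat_lit 76) (nat_lit 79562817) (nat_lit 23) (nat_lit 1) (nat_lit 21) (nat_lit 1) (nat_lit 22) (nat_lit 1) (nat_lit 394) (nat_lit 421) (nat_lit 205)) (XT.lf (nat_lit 0) (nat_lit 1311380237) (nat_lit 0) (nat_lit 1540866731) (nat_lit 152) (nat_lit 1311380237) (nat_lit 21) (nat_lit 3) (nat_lit 21) (nat_lit 1) (nat_lit 23) (nat_lit 1) (nat_lit 395) (nat_lit 421) (nat_lit 204))) (XT.nd (nat_lit 78) (nat_lit 152) (nat_lit 0) (XT.lf (nat_lit 76) (nat_lit 1225712320) (nat_lit 0) (nat_lit 1448514741) (nat_lit 76) (nat_lit 1448514741) (nat_lit 21) (nat_lit 3) (nat_lit 20) (nat_lit 1) (nat_lit 21) (nat_lit 1) (nat_lit 396) (nat_lit 421) (nat_lit 203)) (XT.lf (nat_lit 152) (nat_lit 3941229935)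 (nat_lit 0) (nat_lit 70690532) (nat_lit 76) (nat_lit 70690532) (nat_lit 20) (nat_lit 1) (nat_lit 18) (nat_lit 1) (nat_lit 19) (nat_lit 1) (nat_lit 397) (nat_lit 421) (nat_lit 202)))) (XT.nd (nat_lit 156) (nat_lit 228) (nat_lit 0) (XT.nd (nat_lit 78) (nat_lit 76) (nat_lit 0) (XT.lf (nat_lit 0) (nat_lit 1279424513) (nat_lit 0) (nat_lit 1483320291) (nat_lit 152) (nat_lit 1279424513) (nat_lit 18) (nat_lit 3) (nat_lit 18) (nat_lit 1) (nat_lit 20) (nat_lit 1) (nat_lit 398) (nat_lit 421) (nat_lit 201)) (XT.lf (nat_lit 76) (nat_lit 1202189284) (nat_lit 0) (nat_lit 1400146349) (nat_lit 76) (nat_lit 1400146349) (nat_lit 18) (nat_lit 3) (nat_lit 17) (nat_lit 1) (nat_lit 18) (nat_lit 1) (nat_lit 399) (nat_lit 421) (nat_lit 200))) (XT.nd (nat_lit 78) (nat_lit 76) (nat_lit 0) (XT.lf (nat_lit 152) (nat_lit 3837915125) (nat_lit 0) (nat_lit 62807622) (nat_lit 76) (nat_lit 62807622) (nat_lit 17) (nat_lit 1) (nat_lit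 15) (nat_lit 1) (nat_lit 16) (nat_lit 1) (nat_lit 400) (nat_lit 421) (nat_lit 199)) (XT.nd (nat_lit 78) (nat_lit 76) (nat_lit 0) (XT.lf (nat_lit 0) (nat_lit 1247703717) (nat_lit 0) (nat_lit 1428862475) (nat_lit 152) (nat_lit 1247703717) (nat_lit 15) (nat_lit 3) (nat_lit 15) (nat_lit 1) (nat_lit 17) (nat_lit 1) (nat_lit 401) (nat_lit 421) (nat_lit 198)) (XT.lf (nat_lit 76) (nat_lit 1177993456) (nat_lit 0) (nat_lit 1353875745) (nat_lit 76) (nat_lit 1353875745) (nat_lit 15) (nat_lit 3) (nat_lit 14) (nat_lit 1) (nat_lit 15) (nat_lit 1) (nat_lit 402) (nat_lit 421) (nat_lit 197)))))) (XT.nd (nat_lit 390) (nat_lit 456) (nat_lit 0) (XT.nd (nat_lit 156) (nat_lit 228) (nat_lit 0) (XT.nd (nat_lit 78) (nat_lit 0) (nat_lit 0) (XT.lf (nat_lit 152) (nat_lit 3736329505) (nat_lit 0) (nat_lit 55803759) (nat_lit 76) (nat_lit 55803759) (nat_lit 14) (nat_lit 1) (nat_lit 12) (nat_lit 1) (nat_lit 13) (nat_lit 1) (nat_lit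 403) (nat_lit 421) (nat_lit 196)) (XT.lf (nat_lit 0) (nat_lit 1216288601) (nat_lit 0) (nat_lit 1377245811) (nat_lit 152) (nat_lit 1216288601) (nat_lit 12) (nat_lit 3) (nat_lit 12) (nat_lit 1) (nat_lit 14) (nat_lit 1) (nat_lit 404) (nat_lit 421) (nat_lit 195))) (XT.nd (nat_lit 78) (nat_lit 152) (nat_lit 0) (XT.lf (nat_lit 76) (nat_lit 1153295858) (nat_lit 0) (nat_lit 1309564994) (nat_lit 76) (nat_lit 1309564994) (nat_lit 12) (nat_lit 3) (nat_lit 11) (nat_lit 1) (nat_lit 12) (nat_lit 1) (nat_lit 405) (nat_lit 421) (nat_lit 194)) (XT.nd (nat_lit 78) (nat_lit 0) (nat_lit 0) (XT.lf (nat_lit 152) (nat_lit 3636565446) (nat_lit 0) (nat_lit 49580917) (nat_lit 76) (nat_lit 49580917) (nat_lit 11) (nat_lit 1) (nat_lit 9) (nat_lit 1) (nat_lit 10) (nat_lit 1) (nat_lit 406) (nat_lit 421) (nat_lit 193)) (XT.lf (nat_lit 0) (nat_lit 1185239201) (nat_lit 0) (nat_lit 1328247597) (nat_lit 152) (nat_lit 1185239201) (nat_lit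 9) (nat_lit 3) (nat_lit 9) (nat_lit 1) (nat_lit 11) (nat_lit 1) (nat_lit 407) (nat_lit 421) (nat_lit 192))))) (XT.nd (nat_lit 156) (nat_lit 228) (nat_lit 0) (XT.nd (nat_lit 78) (nat_lit 152) (nat_lit 0) (XT.lf (nat_lit 76) (nat_lit 1128245646) (nat_lit 0) (nat_lit 1267088749) (nat_lit 76) (nat_lit 1267088749) (nat_lit 9) (nat_lit 3) (nat_lit 8) (nat_lit 1) (nat_lit 9) (nat_lit 1) (nat_lit 408) (nat_lit 421) (nat_lit 191)) (XT.lf (nat_lit 152) (nat_lit 3538696709) (nat_lit 0) (nat_lit 44052002) (nat_lit 76) (nat_lit 44052002) (nat_lit 8) (nat_lit 1) (nat_lit 6) (nat_lit 1) (nat_lit 7) (nat_lit 1) (nat_lit 409) (nat_lit 421) (nat_lit 190))) (XT.nd (nat_lit 78) (nat_lit 228) (nat_lit 0) (XT.lf (nat_lit 0) (nat_lit 1154606118) (nat_lit 0) (nat_lit 1281667226) (nat_lit 152) (nat_lit 1154606118) (nat_lit 6) (nat_lit 3) (nat_lit 6) (nat_lit 1) (nat_lit 8) (nat_lit 1) (nat_lit 410) (nat_lit 421) (nat_lit 189))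 (XT.nd (nat_lit 78) (nat_lit 152) (nat_lit 0) (XT.lf (nat_lit 76) (nat_lit 1102972627) (nat_lit 0) (nat_lit 1226332926) (nat_lit 76) (nat_lit 1226332926) (nat_lit 6) (nat_lit 3) (nat_lit 5) (nat_lit 1) (nat_lit 6) (nat_lit 1) (nat_lit 411) (nat_lit 421) (nat_lit 188)) (XT.lf (nat_lit 152) (nat_lit 3442780767) (nat_lit 0) (nat_lit 39139634) (nat_lit 76) (nat_lit 39139634) (nat_lit 5) (nat_lit 1) (nat_lit 3) (nat_lit 1) (nat_lit 4) (nat_lit 1) (nat_lit 412) (nat_lit 421) (nat_lit 187))))))))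
noncomputable def ec431 : XT := (XT.nd (nat_lit 1482) (nat_lit 5244) (nat_lit 0) (XT.nd (nat_lit 702) (nat_lit 2888) (nat_lit 0) (XT.nd (nat_lit 312) (nat_lit 1292) (nat_lit 0) (XT.nd (nat_lit 156) (nat_lit 0) (nat_lit 0) (XT.nd (nat_lit 78) (nat_lit 1292) (nat_lit 0) (XT.lf (nat_lit 1292) (nat_lit 270429665) (nat_lit 0) (nat_lit 38029764277) (nat_lit 1216) (nat_lit 270429665) (nat_lit 397) (nat_lit 1) (nat_lit 380) (nat_lit 1) (nat_lit 396) (nat_lit 1) (nat_lit 188) (nat_lit 422) (nat_lit 410)) (XT.lf (nat_lit 1368) (nat_lit 18087548181) (nat_lit 0) (nat_lit 1861013691) (nat_lit 1292) (nat_lit 18087548181) (nat_lit 381) (nat_lit 1) (nat_lit 363) (nat_lit 1) (nat_lit 380) (nat_lit 1) (nat_lit 189) (nat_lit 422) (nat_lit 409))) (XT.nd (nat_lit 78) (nat_lit 0) (nat_lit 76) (XT.lf (nat_lit 1368) (nat_lit 33310834085) (nat_lit 76) (nat_lit 2102747483) (nat_lit 0) (nat_lit 2102747483) (nat_lit 381) (nat_lit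 1) (nat_lit 364) (nat_lit 1) (nat_lit 363) (nat_lit 1) (nat_lit 190) (nat_lit 422) (nat_lit 408)) (XT.lf (nat_lit 1368) (nat_lit 15100093342) (nat_lit 0) (nat_lit 6801894494) (nat_lit 1292) (nat_lit 15100093342) (nat_lit 382) (nat_lit 1) (nat_lit 364) (nat_lit 1) (nat_lit 381) (nat_lit 1) (nat_lit 191) (nat_lit 422) (nat_lit 407)))) (XT.nd (nat_lit 156) (nat_lit 1368) (nat_lit 0) (XT.nd (nat_lit 78) (nat_lit 0) (nat_lit 76) (XT.lf (nat_lit 1368) (nat_lit 27113455425) (nat_lit 76) (nat_lit 4693706843) (nat_lit 0) (nat_lit 4693706843) (nat_lit 382) (nat_lit 1) (nat_lit 365) (nat_lit 1) (nat_lit 364) (nat_lit 1) (nat_lit 192) (nat_lit 422) (nat_lit 406)) (XT.lf (nat_lit 76) (nat_lit 11924089453) (nat_lit 0) (nat_lit 12158257614) (nat_lit 1292) (nat_lit 11924089453) (nat_lit 366) (nat_lit 1) (nat_lit 365) (nat_lit 1) (nat_lit 382) (nat_lit 1) (nat_lit 193) (nat_lit 422) (nat_lit 405))) (XT.nd (nat_lit 78)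 (nat_lit 608) (nat_lit 0) (XT.lf (nat_lit 912) (nat_lit 20558808924) (nat_lit 0) (nat_lit 7482062074) (nat_lit 836) (nat_lit 7482062074) (nat_lit 366) (nat_lit 1) (nat_lit 354) (nat_lit 1) (nat_lit 365) (nat_lit 1) (nat_lit 194) (nat_lit 422) (nat_lit 404)) (XT.nd (nat_lit 78) (nat_lit 608) (nat_lit 0) (XT.lf (nat_lit 76) (nat_lit 8580846635) (nat_lit 0) (nat_lit 17885890265) (nat_lit 912) (nat_lit 8580846635) (nat_lit 355) (nat_lit 1) (nat_lit 354) (nat_lit 1) (nat_lit 366) (nat_lit 1) (nat_lit 195) (nat_lit 422) (nat_lit 403)) (XT.lf (nat_lit 684) (nat_lit 13688170868) (nat_lit 0) (nat_lit 10446400463) (nat_lit 608) (nat_lit 10446400463) (nat_lit 355) (nat_lit 1) (nat_lit 346) (nat_lit 1) (nat_lit 354) (nat_lit 1) (nat_lit 196) (nat_lit 422) (nat_lit 402)))))) (XT.nd (nat_lit 390) (nat_lit 1064) (nat_lit 0) (XT.nd (nat_lit 156) (nat_lit 1216) (nat_lit 0) (XT.nd (nat_lit 78) (nat_lit 608) (nat_lit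 0) (XT.lf (nat_lit 76) (nat_lit 5090146288) (nat_lit 0) (nat_lit 23943710738) (nat_lit 684) (nat_lit 5090146288) (nat_lit 347) (nat_lit 1) (nat_lit 346) (nat_lit 1) (nat_lit 355) (nat_lit 1) (nat_lit 197) (nat_lit 422) (nat_lit 401)) (XT.lf (nat_lit 684) (nat_lit 6539843236) (nat_lit 0) (nat_lit 13566832104) (nat_lit 608) (nat_lit 13566832104) (nat_lit 347) (nat_lit 1) (nat_lit 338) (nat_lit 1) (nat_lit 346) (nat_lit 1) (nat_lit 198) (nat_lit 422) (nat_lit 400))) (XT.nd (nat_lit 78) (nat_lit 1216) (nat_lit 0) (XT.lf (nat_lit 76) (nat_lit 1470337738) (nat_lit 0) (nat_lit 30293571385) (nat_lit 684) (nat_lit 1470337738) (nat_lit 339) (nat_lit 1) (nat_lit 338) (nat_lit 1) (nat_lit 347) (nat_lit 1) (nat_lit 199) (nat_lit 422) (nat_lit 399)) (XT.nd (nat_lit 78) (nat_lit 608) (nat_lit 0) (XT.lf (nat_lit 76) (nat_lit 15982413027) (nat_lit 0) (nat_lit 834058550) (nat_lit 608) (nat_lit 15982413027) (nat_lit 331)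 (nat_lit 1) (nat_lit 330) (nat_lit 1) (nat_lit 338) (nat_lit 1) (nat_lit 200) (nat_lit 422) (nat_lit 398)) (XT.lf (nat_lit 684) (nat_lit 27895512356) (nat_lit 0) (nat_lit 2239398653) (nat_lit 608) (nat_lit 2239398653) (nat_lit 331) (nat_lit 1) (nat_lit 322) (nat_lit 1) (nat_lit 330) (nat_lit 1) (nat_lit 201) (nat_lit 422) (nat_lit 397))))) (XT.nd (nat_lit 156) (nat_lit 532) (nat_lit 0) (XT.nd (nat_lit 78) (nat_lit 532) (nat_lit 0) (XT.lf (nat_lit 76) (nat_lit 11834264583) (nat_lit 0) (nat_lit 8285527355) (nat_lit 684) (nat_lit 11834264583) (nat_lit 323) (nat_lit 1) (nat_lit 322) (nat_lit 1) (nat_lit 331) (nat_lit 1) (nat_lit 202) (nat_lit 422) (nat_lit 396)) (XT.lf (nat_lit 608) (nat_lit 19483431333) (nat_lit 0) (nat_lit 6030123244) (nat_lit 532) (nat_lit 6030123244) (nat_lit 323) (nat_lit 1) (nat_lit 315) (nat_lit 1) (nat_lit 322) (nat_lit 1) (nat_lit 203) (nat_lit 422) (nat_lit 395))) (XT.nd (nat_lit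 78) (nat_lit 532) (nat_lit 0) (XT.lf (nat_lit 76) (nat_lit 7613662146) (nat_lit 0) (nat_lit 15912309009) (nat_lit 608) (nat_lit 7613662146) (nat_lit 316) (nat_lit 1) (nat_lit 315) (nat_lit 1) (nat_lit 323) (nat_lit 1) (nat_lit 204) (nat_lit 422) (nat_lit 394)) (XT.nd (nat_lit 78) (nat_lit 0) (nat_lit 0) (XT.lf (nat_lit 608) (nat_lit 10939178504) (nat_lit 0) (nat_lit 9901817392) (nat_lit 532) (nat_lit 9901817392) (nat_lit 316) (nat_lit 1) (nat_lit 308) (nat_lit 1) (nat_lit 315) (nat_lit 1) (nat_lit 205) (nat_lit 422) (nat_lit 393)) (XT.lf (nat_lit 76) (nat_lit 3333810734) (nat_lit 0) (nat_lit 23686775050) (nat_lit 608) (nat_lit 3333810734) (nat_lit 309) (nat_lit 1) (nat_lit 308) (nat_lit 1) (nat_lit 316) (nat_lit 1) (nat_lit 206) (nat_lit 422) (nat_lit 392))))))) (XT.nd (nat_lit 702) (nat_lit 2356) (nat_lit 0) (XT.nd (nat_lit 312) (nat_lit 1368) (nat_lit 0) (XT.nd (nat_lit 156) (nat_lit 456) (nat_lit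 0) (XT.nd (nat_lit 78) (nat_lit 608) (nat_lit 0) (XT.lf (nat_lit 532) (nat_lit 2288255430) (nat_lit 0) (nat_lit 13841136821) (nat_lit 456) (nat_lit 13841136821) (nat_lit 309) (nat_lit 1) (nat_lit 302) (nat_lit 1) (nat_lit 308) (nat_lit 1) (nat_lit 207) (nat_lit 422) (nat_lit 391)) (XT.lf (nat_lit 608) (nat_lit 27629291422) (nat_lit 0) (nat_lit 983369791) (nat_lit 532) (nat_lit 983369791) (nat_lit 302) (nat_lit 1) (nat_lit 294) (nat_lit 1) (nat_lit 301) (nat_lit 1) (nat_lit 208) (nat_lit 422) (nat_lit 390))) (XT.nd (nat_lit 78) (nat_lit 456) (nat_lit 0) (XT.lf (nat_lit 76) (nat_lit 11451895749) (nat_lit 0) (nat_lit 6320040794) (nat_lit 608) (nat_lit 11451895749) (nat_lit 295) (nat_lit 1) (nat_lit 294) (nat_lit 1) (nat_lit 302) (nat_lit 1) (nat_lit 209) (nat_lit 422) (nat_lit 389)) (XT.lf (nat_lit 532) (nat_lit 18253966311) (nat_lit 0) (nat_lit 5303351657) (nat_lit 456) (nat_lit 5303351657) (nat_lit 295)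 (nat_lit 1) (nat_lit 288) (nat_lit 1) (nat_lit 294) (nat_lit 1) (nat_lit 210) (nat_lit 422) (nat_lit 388)))) (XT.nd (nat_lit 156) (nat_lit 912) (nat_lit 0) (XT.nd (nat_lit 78) (nat_lit 456) (nat_lit 0) (XT.lf (nat_lit 76) (nat_lit 6779420293) (nat_lit 0) (nat_lit 14943979878) (nat_lit 532) (nat_lit 6779420293) (nat_lit 289) (nat_lit 1) (nat_lit 288) (nat_lit 1) (nat_lit 295) (nat_lit 1) (nat_lit 211) (nat_lit 422) (nat_lit 387)) (XT.lf (nat_lit 532) (nat_lit 8853956489) (nat_lit 0) (nat_lit 9648585167) (nat_lit 456) (nat_lit 9648585167) (nat_lit 289) (nat_lit 1) (nat_lit 282) (nat_lit 1) (nat_lit 288) (nat_lit 1) (nat_lit 212) (nat_lit 422) (nat_lit 386))) (XT.nd (nat_lit 78) (nat_lit 912) (nat_lit 0) (XT.lf (nat_lit 76) (nat_lit 2099222457) (nat_lit 0) (nat_lit 23608678481) (nat_lit 532) (nat_lit 2099222457) (nat_lit 283) (nat_lit 1) (nat_lit 282) (nat_lit 1) (nat_lit 289) (nat_lit 1) (nat_lit 213)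 (nat_lit 422) (nat_lit 385)) (XT.nd (nat_lit 78) (nat_lit 456) (nat_lit 0) (XT.lf (nat_lit 76) (nat_lit 13462050640) (nat_lit 0) (nat_lit 542137270) (nat_lit 456) (nat_lit 13462050640) (nat_lit 277) (nat_lit 1) (nat_lit 276) (nat_lit 1) (nat_lit 282) (nat_lit 1) (nat_lit 214) (nat_lit 422) (nat_lit 384)) (XT.lf (nat_lit 532) (nat_lit 22022922603) (nat_lit 0) (nat_lit 2554921078) (nat_lit 456) (nat_lit 2554921078) (nat_lit 277) (nat_lit 1) (nat_lit 270) (nat_lit 1) (nat_lit 276) (nat_lit 1) (nat_lit 215) (nat_lit 422) (nat_lit 383)))))) (XT.nd (nat_lit 390) (nat_lit 1140) (nat_lit 0) (XT.nd (nat_lit 156) (nat_lit 836) (nat_lit 0) (XT.nd (nat_lit 78) (nat_lit 380) (nat_lit 0) (XT.lf (nat_lit 76) (nat_lit 8523223982) (nat_lit 0) (nat_lit 9756204900) (nat_lit 532) (nat_lit 8523223982) (nat_lit 271) (nat_lit 1) (nat_lit 270) (nat_lit 1) (nat_lit 277) (nat_lit 1) (nat_lit 216) (nat_lit 422) (nat_lit 382))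 (XT.lf (nat_lit 456) (nat_lit 12119270120) (nat_lit 0) (nat_lit 7180049931) (nat_lit 380) (nat_lit 7180049931) (nat_lit 271) (nat_lit 1) (nat_lit 265) (nat_lit 1) (nat_lit 270) (nat_lit 1) (nat_lit 217) (nat_lit 422) (nat_lit 381))) (XT.nd (nat_lit 78) (nat_lit 836) (nat_lit 0) (XT.lf (nat_lit 76) (nat_lit 3607804768) (nat_lit 0) (nat_lit 18946398634) (nat_lit 456) (nat_lit 3607804768) (nat_lit 266) (nat_lit 1) (nat_lit 265) (nat_lit 1) (nat_lit 271) (nat_lit 1) (nat_lit 218) (nat_lit 422) (nat_lit 380)) (XT.nd (nat_lit 78) (nat_lit 456) (nat_lit 0) (XT.lf (nat_lit 456) (nat_lit 2269025013) (nat_lit 0) (nat_lit 11789727364) (nat_lit 380) (nat_lit 11789727364) (nat_lit 266) (nat_lit 1) (nat_lit 260) (nat_lit 1) (nat_lit 265) (nat_lit 1) (nat_lit 219) (nat_lit 422) (nat_lit 379)) (XT.lf (nat_lit 456) (nat_lit 23011055773) (nat_lit 0) (nat_lit 1265445747) (nat_lit 380) (nat_lit 1265445747) (nat_lit 260)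 (nat_lit 1) (nat_lit 254) (nat_lit 1) (nat_lit 259) (nat_lit 1) (nat_lit 220) (nat_lit 422) (nat_lit 378))))) (XT.nd (nat_lit 156) (nat_lit 760) (nat_lit 0) (XT.nd (nat_lit 78) (nat_lit 380) (nat_lit 0) (XT.lf (nat_lit 76) (nat_lit 8933929016) (nat_lit 0) (nat_lit 7369213721) (nat_lit 456) (nat_lit 8933929016) (nat_lit 255) (nat_lit 1) (nat_lit 254) (nat_lit 1) (nat_lit 260) (nat_lit 1) (nat_lit 221) (nat_lit 422) (nat_lit 377)) (XT.lf (nat_lit 456) (nat_lit 12802214975) (nat_lit 0) (nat_lit 6068378424) (nat_lit 380) (nat_lit 6068378424) (nat_lit 255) (nat_lit 1) (nat_lit 249) (nat_lit 1) (nat_lit 254) (nat_lit 1) (nat_lit 222) (nat_lit 422) (nat_lit 376))) (XT.nd (nat_lit 78) (nat_lit 760) (nat_lit 0) (XT.lf (nat_lit 76) (nat_lit 3878680157) (nat_lit 0) (nat_lit 16888502217) (nat_lit 456) (nat_lit 3878680157) (nat_lit 250) (nat_lit 1) (nat_lit 249) (nat_lit 1) (nat_lit 255) (nat_lit 1) (nat_lit 223)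 (nat_lit 422) (nat_lit 375)) (XT.nd (nat_lit 78) (nat_lit 456) (nat_lit 0) (XT.lf (nat_lit 380) (nat_lit 2693869618) (nat_lit 0) (nat_lit 10831299128) (nat_lit 304) (nat_lit 10831299128) (nat_lit 250) (nat_lit 1) (nat_lit 245) (nat_lit 1) (nat_lit 249) (nat_lit 1) (nat_lit 224) (nat_lit 422) (nat_lit 374)) (XT.lf (nat_lit 456) (nat_lit 21846656209) (nat_lit 0) (nat_lit 1113382779) (nat_lit 380) (nat_lit 1113382779) (nat_lit 245) (nat_lit 1) (nat_lit 239) (nat_lit 1) (nat_lit 244) (nat_lit 1) (nat_lit 225) (nat_lit 422) (nat_lit 373))))))))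
noncomputable def ec432 : XT := (XT.nd (nat_lit 1404) (nat_lit 2584) (nat_lit 0) (XT.nd (nat_lit 702) (nat_lit 1672) (nat_lit 0) (XT.nd (nat_lit 312) (nat_lit 988) (nat_lit 0) (XT.nd (nat_lit 156) (nat_lit 304) (nat_lit 0) (XT.nd (nat_lit 78) (nat_lit 304) (nat_lit 0) (XT.lf (nat_lit 76) (nat_lit 8314258360) (nat_lit 0) (nat_lit 7163048670) (nat_lit 456) (nat_lit 8314258360) (nat_lit 240) (nat_lit 1) (nat_lit 239) (nat_lit 1) (nat_lit 245) (nat_lit 1) (nat_lit 226) (nat_lit 422) (nat_lit 372)) (XT.lf (nat_lit 380) (nat_lit 11492135912) (nat_lit 0) (nat_lit 6011868548) (nat_lit 304) (nat_lit 6011868548) (nat_lit 240) (nat_lit 1) (nat_lit 235) (nat_lit 1) (nat_lit 239) (nat_lit 1) (nat_lit 227) (nat_lit 422) (nat_lit 371))) (XT.nd (nat_lit 78) (nat_lit 304) (nat_lit 0) (XT.lf (nat_lit 76) (nat_lit 3195787451) (nat_lit 0) (nat_lit 16853321515) (nat_lit 380) (nat_lit 3195787451) (nat_lit 236) (nat_lit 1)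 (nat_lit 235) (nat_lit 1) (nat_lit 240) (nat_lit 1) (nat_lit 228) (nat_lit 422) (nat_lit 370)) (XT.lf (nat_lit 380) (nat_lit 1274345281) (nat_lit 0) (nat_lit 10851327291) (nat_lit 304) (nat_lit 10851327291) (nat_lit 236) (nat_lit 1) (nat_lit 231) (nat_lit 1) (nat_lit 235) (nat_lit 1) (nat_lit 229) (nat_lit 422) (nat_lit 369)))) (XT.nd (nat_lit 156) (nat_lit 608) (nat_lit 0) (XT.nd (nat_lit 78) (nat_lit 0) (nat_lit 0) (XT.lf (nat_lit 380) (nat_lit 19044271820) (nat_lit 0) (nat_lit 1835059146) (nat_lit 304) (nat_lit 1835059146) (nat_lit 231) (nat_lit 1) (nat_lit 226) (nat_lit 1) (nat_lit 230) (nat_lit 1) (nat_lit 230) (nat_lit 422) (nat_lit 368)) (XT.lf (nat_lit 76) (nat_lit 6912044835) (nat_lit 0) (nat_lit 8629490772) (nat_lit 380) (nat_lit 6912044835) (nat_lit 227) (nat_lit 1) (nat_lit 226) (nat_lit 1) (nat_lit 231) (nat_lit 1) (nat_lit 231) (nat_lit 422) (nat_lit 367))) (XT.nd (nat_lit 78) (nat_lit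 304) (nat_lit 0) (XT.lf (nat_lit 380) (nat_lit 8671348810) (nat_lit 0) (nat_lit 6763277100) (nat_lit 304) (nat_lit 6763277100) (nat_lit 227) (nat_lit 1) (nat_lit 222) (nat_lit 1) (nat_lit 226) (nat_lit 1) (nat_lit 232) (nat_lit 422) (nat_lit 366)) (XT.nd (nat_lit 78) (nat_lit 304) (nat_lit 0) (XT.lf (nat_lit 76) (nat_lit 1791416421) (nat_lit 0) (nat_lit 18364339022) (nat_lit 380) (nat_lit 1791416421) (nat_lit 223) (nat_lit 1) (nat_lit 222) (nat_lit 1) (nat_lit 227) (nat_lit 1) (nat_lit 233) (nat_lit 422) (nat_lit 365)) (XT.lf (nat_lit 76) (nat_lit 10095271123) (nat_lit 0) (nat_lit 1507513977) (nat_lit 304) (nat_lit 10095271123) (nat_lit 219) (nat_lit 1) (nat_lit 218) (nat_lit 1) (nat_lit 222) (nat_lit 1) (nat_lit 234) (nat_lit 422) (nat_lit 364)))))) (XT.nd (nat_lit 312) (nat_lit 760) (nat_lit 0) (XT.nd (nat_lit 156) (nat_lit 608) (nat_lit 0) (XT.nd (nat_lit 78) (nat_lit 0) (nat_lit 0) (XT.lf (nat_lit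 380) (nat_lit 15023904925) (nat_lit 0) (nat_lit 3214922307) (nat_lit 304) (nat_lit 3214922307) (nat_lit 219) (nat_lit 1) (nat_lit 214) (nat_lit 1) (nat_lit 218) (nat_lit 1) (nat_lit 235) (nat_lit 422) (nat_lit 363)) (XT.lf (nat_lit 76) (nat_lit 4929500326) (nat_lit 0) (nat_lit 11353225364) (nat_lit 380) (nat_lit 4929500326) (nat_lit 215) (nat_lit 1) (nat_lit 214) (nat_lit 1) (nat_lit 219) (nat_lit 1) (nat_lit 236) (nat_lit 422) (nat_lit 362))) (XT.nd (nat_lit 78) (nat_lit 380) (nat_lit 0) (XT.lf (nat_lit 304) (nat_lit 4733224353) (nat_lit 0) (nat_lit 8120635439) (nat_lit 228) (nat_lit 8120635439) (nat_lit 215) (nat_lit 1) (nat_lit 211) (nat_lit 1) (nat_lit 214) (nat_lit 1) (nat_lit 237) (nat_lit 422) (nat_lit 361)) (XT.lf (nat_lit 380) (nat_lit 20454878740) (nat_lit 0) (nat_lit 143638386) (nat_lit 304) (nat_lit 143638386) (nat_lit 211) (nat_lit 1) (nat_lit 206) (nat_lit 1) (nat_lit 210) (nat_lit 1)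 (nat_lit 238) (nat_lit 422) (nat_lit 360)))) (XT.nd (nat_lit 156) (nat_lit 532) (nat_lit 0) (XT.nd (nat_lit 78) (nat_lit 228) (nat_lit 0) (XT.lf (nat_lit 76) (nat_lit 7620428297) (nat_lit 0) (nat_lit 5268502426) (nat_lit 380) (nat_lit 7620428297) (nat_lit 207) (nat_lit 1) (nat_lit 206) (nat_lit 1) (nat_lit 211) (nat_lit 1) (nat_lit 239) (nat_lit 422) (nat_lit 359)) (XT.lf (nat_lit 304) (nat_lit 10127047188) (nat_lit 0) (nat_lit 5077395697) (nat_lit 228) (nat_lit 5077395697) (nat_lit 207) (nat_lit 1) (nat_lit 203) (nat_lit 1) (nat_lit 206) (nat_lit 1) (nat_lit 240) (nat_lit 422) (nat_lit 358))) (XT.nd (nat_lit 78) (nat_lit 532) (nat_lit 0) (XT.lf (nat_lit 76) (nat_lit 2530957946) (nat_lit 0) (nat_lit 14996108640) (nat_lit 304) (nat_lit 2530957946) (nat_lit 204) (nat_lit 1) (nat_lit 203) (nat_lit 1) (nat_lit 207) (nat_lit 1) (nat_lit 241) (nat_lit 422) (nat_lit 357)) (XT.nd (nat_lit 78) (nat_lit 228)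 (nat_lit 0) (XT.lf (nat_lit 76) (nat_lit 9916895633) (nat_lit 0) (nat_lit 2655136) (nat_lit 304) (nat_lit 9916895633) (nat_lit 200) (nat_lit 1) (nat_lit 199) (nat_lit 1) (nat_lit 203) (nat_lit 1) (nat_lit 242) (nat_lit 422) (nat_lit 356)) (XT.lf (nat_lit 304) (nat_lit 14746914004) (nat_lit 0) (nat_lit 2435779235) (nat_lit 228) (nat_lit 2435779235) (nat_lit 200) (nat_lit 1) (nat_lit 196) (nat_lit 1) (nat_lit 199) (nat_lit 1) (nat_lit 243) (nat_lit 422) (nat_lit 355))))))) (XT.nd (nat_lit 702) (nat_lit 1368) (nat_lit 0) (XT.nd (nat_lit 312) (nat_lit 684) (nat_lit 0) (XT.nd (nat_lit 156) (nat_lit 304) (nat_lit 0) (XT.nd (nat_lit 78) (nat_lit 228) (nat_lit 0) (XT.lf (nat_lit 76) (nat_lit 4831094583) (nat_lit 0) (nat_lit 9740405445) (nat_lit 304) (nat_lit 4831094583) (nat_lit 197) (nat_lit 1) (nat_lit 196) (nat_lit 1) (nat_lit 200) (nat_lit 1) (nat_lit 244) (nat_lit 422) (nat_lit 354)) (XT.lf (nat_lit 304)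 (nat_lit 4630068938) (nat_lit 0) (nat_lit 7280077065) (nat_lit 228) (nat_lit 7280077065) (nat_lit 197) (nat_lit 1) (nat_lit 193) (nat_lit 1) (nat_lit 196) (nat_lit 1) (nat_lit 245) (nat_lit 422) (nat_lit 353))) (XT.nd (nat_lit 78) (nat_lit 0) (nat_lit 0) (XT.lf (nat_lit 304) (nat_lit 18684154462) (nat_lit 0) (nat_lit 149186380) (nat_lit 228) (nat_lit 149186380) (nat_lit 193) (nat_lit 1) (nat_lit 189) (nat_lit 1) (nat_lit 192) (nat_lit 1) (nat_lit 246) (nat_lit 422) (nat_lit 352)) (XT.lf (nat_lit 76) (nat_lit 6799521497) (nat_lit 0) (nat_lit 5175153350) (nat_lit 304) (nat_lit 6799521497) (nat_lit 190) (nat_lit 1) (nat_lit 189) (nat_lit 1) (nat_lit 193) (nat_lit 1) (nat_lit 247) (nat_lit 422) (nat_lit 351)))) (XT.nd (nat_lit 156) (nat_lit 456) (nat_lit 0) (XT.nd (nat_lit 78) (nat_lit 0) (nat_lit 0) (XT.lf (nat_lit 304) (nat_lit 8611304771) (nat_lit 0) (nat_lit 4979575406) (nat_lit 228) (nat_lit 4979575406)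 (nat_lit 190) (nat_lit 1) (nat_lit 186) (nat_lit 1) (nat_lit 189) (nat_lit 1) (nat_lit 248) (nat_lit 422) (nat_lit 350)) (XT.lf (nat_lit 76) (nat_lit 1841790016) (nat_lit 0) (nat_lit 14686585673) (nat_lit 304) (nat_lit 1841790016) (nat_lit 187) (nat_lit 1) (nat_lit 186) (nat_lit 1) (nat_lit 190) (nat_lit 1) (nat_lit 249) (nat_lit 422) (nat_lit 349))) (XT.nd (nat_lit 78) (nat_lit 228) (nat_lit 0) (XT.lf (nat_lit 76) (nat_lit 8475419338) (nat_lit 0) (nat_lit 1220318150) (nat_lit 228) (nat_lit 8475419338) (nat_lit 184) (nat_lit 1) (nat_lit 183) (nat_lit 1) (nat_lit 186) (nat_lit 1) (nat_lit 250) (nat_lit 422) (nat_lit 348)) (XT.nd (nat_lit 78) (nat_lit 0) (nat_lit 0) (XT.lf (nat_lit 304) (nat_lit 12017584684) (nat_lit 0) (nat_lit 2978969055) (nat_lit 228) (nat_lit 2978969055) (nat_lit 184) (nat_lit 1) (nat_lit 180) (nat_lit 1) (nat_lit 183) (nat_lit 1) (nat_lit 251) (nat_lit 422) (nat_lit 347)) (XT.lf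 (nat_lit 76) (nat_lit 3554515858) (nat_lit 0) (nat_lit 10673089514) (nat_lit 304) (nat_lit 3554515858) (nat_lit 181) (nat_lit 1) (nat_lit 180) (nat_lit 1) (nat_lit 184) (nat_lit 1) (nat_lit 252) (nat_lit 422) (nat_lit 346)))))) (XT.nd (nat_lit 390) (nat_lit 760) (nat_lit 0) (XT.nd (nat_lit 156) (nat_lit 152) (nat_lit 0) (XT.nd (nat_lit 78) (nat_lit 304) (nat_lit 0) (XT.lf (nat_lit 228) (nat_lit 2238808177) (nat_lit 0) (nat_lit 7676248415) (nat_lit 152) (nat_lit 7676248415) (nat_lit 181) (nat_lit 1) (nat_lit 178) (nat_lit 1) (nat_lit 180) (nat_lit 1) (nat_lit 253) (nat_lit 422) (nat_lit 345)) (XT.lf (nat_lit 304) (nat_lit 14916839145) (nat_lit 0) (nat_lit 1243552899) (nat_lit 228) (nat_lit 1243552899) (nat_lit 178) (nat_lit 1) (nat_lit 174) (nat_lit 1) (nat_lit 177) (nat_lit 1) (nat_lit 254) (nat_lit 422) (nat_lit 344))) (XT.nd (nat_lit 78) (nat_lit 152) (nat_lit 0) (XT.lf (nat_lit 76) (nat_lit 5020383324)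 (nat_lit 0) (nat_lit 7176346809) (nat_lit 304) (nat_lit 5020383324) (nat_lit 175) (nat_lit 1) (nat_lit 174) (nat_lit 1) (nat_lit 178) (nat_lit 1) (nat_lit 255) (nat_lit 422) (nat_lit 343)) (XT.nd (nat_lit 78) (nat_lit 0) (nat_lit 0) (XT.lf (nat_lit 228) (nat_lit 5236359337) (nat_lit 0) (nat_lit 5898657556) (nat_lit 152) (nat_lit 5898657556) (nat_lit 175) (nat_lit 1) (nat_lit 172) (nat_lit 1) (nat_lit 174) (nat_lit 1) (nat_lit 256) (nat_lit 422) (nat_lit 342)) (XT.lf (nat_lit 76) (nat_lit 260020539) (nat_lit 0) (nat_lit 16334027195) (nat_lit 228) (nat_lit 260020539) (nat_lit 173) (nat_lit 1) (nat_lit 172) (nat_lit 1) (nat_lit 175) (nat_lit 1) (nat_lit 257) (nat_lit 422) (nat_lit 341))))) (XT.nd (nat_lit 156) (nat_lit 380) (nat_lit 0) (XT.nd (nat_lit 78) (nat_lit 152) (nat_lit 0) (XT.lf (nat_lit 76) (nat_lit 6268547522) (nat_lit 0) (nat_lit 4136717419) (nat_lit 228) (nat_lit 6268547522) (nat_lit 170)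 (nat_lit 1) (nat_lit 169) (nat_lit 1) (nat_lit 172) (nat_lit 1) (nat_lit 258) (nat_lit 422) (nat_lit 340)) (XT.lf (nat_lit 228) (nat_lit 7805065867) (nat_lit 0) (nat_lit 4346133520) (nat_lit 152) (nat_lit 4346133520) (nat_lit 170) (nat_lit 1) (nat_lit 167) (nat_lit 1) (nat_lit 169) (nat_lit 1) (nat_lit 259) (nat_lit 422) (nat_lit 339))) (XT.nd (nat_lit 78) (nat_lit 380) (nat_lit 0) (XT.lf (nat_lit 76) (nat_lit 1566792451) (nat_lit 0) (nat_lit 13190157819) (nat_lit 228) (nat_lit 1566792451) (nat_lit 168) (nat_lit 1) (nat_lit 167) (nat_lit 1) (nat_lit 170) (nat_lit 1) (nat_lit 260) (nat_lit 422) (nat_lit 338)) (XT.nd (nat_lit 78) (nat_lit 152) (nat_lit 0) (XT.lf (nat_lit 76) (nat_lit 7324864995) (nat_lit 0) (nat_lit 1501270555) (nat_lit 228) (nat_lit 7324864995) (nat_lit 165) (nat_lit 1) (nat_lit 164) (nat_lit 1) (nat_lit 167) (nat_lit 1) (nat_lit 261) (nat_lit 422) (nat_lit 337)) (XT.lf (nat_lit 228)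 (nat_lit 9995504220) (nat_lit 0) (nat_lit 2992796625) (nat_lit 152) (nat_lit 2992796625) (nat_lit 165) (nat_lit 1) (nat_lit 162) (nat_lit 1) (nat_lit 164) (nat_lit 1) (nat_lit 262) (nat_lit 422) (nat_lit 336))))))))
noncomputable def ec433 : XT := (XT.nd (nat_lit 1482) (nat_lit 1748) (nat_lit 0) (XT.nd (nat_lit 702) (nat_lit 988) (nat_lit 0) (XT.nd (nat_lit 312) (nat_lit 532) (nat_lit 0) (XT.nd (nat_lit 156) (nat_lit 228) (nat_lit 0) (XT.nd (nat_lit 78) (nat_lit 152) (nat_lit 0) (XT.lf (nat_lit 76) (nat_lit 2688936517) (nat_lit 0) (nat_lit 10435387506) (nat_lit 228) (nat_lit 2688936517) (nat_lit 163) (nat_lit 1) (nat_lit 162) (nat_lit 1) (nat_lit 165) (nat_lit 1) (nat_lit 263) (nat_lit 422) (nat_lit 335)) (XT.lf (nat_lit 228) (nat_lit 792428241) (nat_lit 0) (nat_lit 7427451993) (nat_lit 152) (nat_lit 7427451993) (nat_lit 163) (nat_lit 1) (nat_lit 160) (nat_lit 1) (nat_lit 162) (nat_lit 1) (nat_lit 264)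 (nat_lit 422) (nat_lit 334))) (XT.nd (nat_lit 78) (nat_lit 0) (nat_lit 0) (XT.lf (nat_lit 228) (nat_lit 11852530686) (nat_lit 0) (nat_lit 1815675876) (nat_lit 152) (nat_lit 1815675876) (nat_lit 160) (nat_lit 1) (nat_lit 157) (nat_lit 1) (nat_lit 159) (nat_lit 1) (nat_lit 265) (nat_lit 422) (nat_lit 333)) (XT.lf (nat_lit 76) (nat_lit 3648174315) (nat_lit 0) (nat_lit 8025204816) (nat_lit 228) (nat_lit 3648174315) (nat_lit 158) (nat_lit 1) (nat_lit 157) (nat_lit 1) (nat_lit 160) (nat_lit 1) (nat_lit 266) (nat_lit 422) (nat_lit 332)))) (XT.nd (nat_lit 156) (nat_lit 152) (nat_lit 0) (XT.nd (nat_lit 78) (nat_lit 228) (nat_lit 0) (XT.lf (nat_lit 228) (nat_lit 2794192427) (nat_lit 0) (nat_lit 6183734224) (nat_lit 152) (nat_lit 6183734224) (nat_lit 158) (nat_lit 1) (nat_lit 155) (nat_lit 1) (nat_lit 157) (nat_lit 1) (nat_lit 267) (nat_lit 422) (nat_lit 331)) (XT.lf (nat_lit 228) (nat_lit 13415921600) (nat_lit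 0) (nat_lit 794383954) (nat_lit 152) (nat_lit 794383954) (nat_lit 155) (nat_lit 1) (nat_lit 152) (nat_lit 1) (nat_lit 154) (nat_lit 1) (nat_lit 268) (nat_lit 422) (nat_lit 330))) (XT.nd (nat_lit 78) (nat_lit 152) (nat_lit 0) (XT.lf (nat_lit 76) (nat_lit 4463772177) (nat_lit 0) (nat_lit 5920094592) (nat_lit 228) (nat_lit 4463772177) (nat_lit 153) (nat_lit 1) (nat_lit 152) (nat_lit 1) (nat_lit 155) (nat_lit 1) (nat_lit 269) (nat_lit 422) (nat_lit 329)) (XT.nd (nat_lit 78) (nat_lit 0) (nat_lit 0) (XT.lf (nat_lit 228) (nat_lit 4511856400) (nat_lit 0) (nat_lit 5090807891) (nat_lit 152) (nat_lit 5090807891) (nat_lit 153) (nat_lit 1) (nat_lit 150) (nat_lit 1) (nat_lit 152) (nat_lit 1) (nat_lit 270) (nat_lit 422) (nat_lit 328)) (XT.lf (nat_lit 76) (nat_lit 90054435) (nat_lit 0) (nat_lit 14362385722) (nat_lit 228) (nat_lit 90054435) (nat_lit 151) (nat_lit 1) (nat_lit 150) (nat_lit 1) (nat_lit 153) (nat_lit 1)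 (nat_lit 271) (nat_lit 422) (nat_lit 327)))))) (XT.nd (nat_lit 390) (nat_lit 380) (nat_lit 0) (XT.nd (nat_lit 156) (nat_lit 304) (nat_lit 0) (XT.nd (nat_lit 78) (nat_lit 152) (nat_lit 0) (XT.lf (nat_lit 76) (nat_lit 5152815949) (nat_lit 0) (nat_lit 4084979849) (nat_lit 152) (nat_lit 5152815949) (nat_lit 149) (nat_lit 1) (nat_lit 148) (nat_lit 1) (nat_lit 150) (nat_lit 1) (nat_lit 272) (nat_lit 422) (nat_lit 326)) (XT.lf (nat_lit 228) (nat_lit 5978874147) (nat_lit 0) (nat_lit 4131505346) (nat_lit 152) (nat_lit 4131505346) (nat_lit 149) (nat_lit 1) (nat_lit 146) (nat_lit 1) (nat_lit 148) (nat_lit 1) (nat_lit 273) (nat_lit 422) (nat_lit 325))) (XT.nd (nat_lit 78) (nat_lit 304) (nat_lit 0) (XT.lf (nat_lit 76) (nat_lit 859470847) (nat_lit 0) (nat_lit 12376823914) (nat_lit 228) (nat_lit 859470847) (nat_lit 147) (nat_lit 1) (nat_lit 146) (nat_lit 1) (nat_lit 149) (nat_lit 1) (nat_lit 274) (nat_lit 422) (nat_lit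 324)) (XT.nd (nat_lit 78) (nat_lit 152) (nat_lit 0) (XT.lf (nat_lit 76) (nat_lit 5730455070) (nat_lit 0) (nat_lit 2488725941) (nat_lit 152) (nat_lit 5730455070) (nat_lit 145) (nat_lit 1) (nat_lit 144) (nat_lit 1) (nat_lit 146) (nat_lit 1) (nat_lit 275) (nat_lit 422) (nat_lit 323)) (XT.lf (nat_lit 228) (nat_lit 7224917459) (nat_lit 0) (nat_lit 3290583621) (nat_lit 152) (nat_lit 3290583621) (nat_lit 145) (nat_lit 1) (nat_lit 142) (nat_lit 1) (nat_lit 144) (nat_lit 1) (nat_lit 276) (nat_lit 422) (nat_lit 322))))) (XT.nd (nat_lit 156) (nat_lit 228) (nat_lit 0) (XT.nd (nat_lit 78) (nat_lit 152) (nat_lit 0) (XT.lf (nat_lit 76) (nat_lit 1520384684) (nat_lit 0) (nat_lit 10623861550) (nat_lit 228) (nat_lit 1520384684) (nat_lit 143) (nat_lit 1) (nat_lit 142) (nat_lit 1) (nat_lit 145) (nat_lit 1) (nat_lit 277) (nat_lit 422) (nat_lit 321)) (XT.lf (nat_lit 76) (nat_lit 6210119418) (nat_lit 0) (nat_lit 1103700040)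 (nat_lit 152) (nat_lit 6210119418) (nat_lit 141) (nat_lit 1) (nat_lit 140) (nat_lit 1) (nat_lit 142) (nat_lit 1) (nat_lit 278) (nat_lit 422) (nat_lit 320))) (XT.nd (nat_lit 78) (nat_lit 76) (nat_lit 0) (XT.lf (nat_lit 228) (nat_lit 8276299194) (nat_lit 0) (nat_lit 2554509502) (nat_lit 152) (nat_lit 2554509502) (nat_lit 141) (nat_lit 1) (nat_lit 138) (nat_lit 1) (nat_lit 140) (nat_lit 1) (nat_lit 279) (nat_lit 422) (nat_lit 319)) (XT.nd (nat_lit 78) (nat_lit 76) (nat_lit 0) (XT.lf (nat_lit 76) (nat_lit 2085556632) (nat_lit 0) (nat_lit 9077235045) (nat_lit 228) (nat_lit 2085556632) (nat_lit 139) (nat_lit 1) (nat_lit 138) (nat_lit 1) (nat_lit 141) (nat_lit 1) (nat_lit 280) (nat_lit 422) (nat_lit 318)) (XT.lf (nat_lit 152) (nat_lit 96503358) (nat_lit 0) (nat_lit 6508136231) (nat_lit 76) (nat_lit 6508136231) (nat_lit 139) (nat_lit 1) (nat_lit 137) (nat_lit 1) (nat_lit 138) (nat_lit 1) (nat_lit 281) (nat_lit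 422) (nat_lit 317))))))) (XT.nd (nat_lit 702) (nat_lit 836) (nat_lit 0) (XT.nd (nat_lit 312) (nat_lit 380) (nat_lit 0) (XT.nd (nat_lit 156) (nat_lit 304) (nat_lit 0) (XT.nd (nat_lit 78) (nat_lit 0) (nat_lit 0) (XT.lf (nat_lit 228) (nat_lit 9156349307) (nat_lit 0) (nat_lit 1911268582) (nat_lit 152) (nat_lit 1911268582) (nat_lit 137) (nat_lit 1) (nat_lit 134) (nat_lit 1) (nat_lit 136) (nat_lit 1) (nat_lit 282) (nat_lit 422) (nat_lit 316)) (XT.lf (nat_lit 76) (nat_lit 2566305136) (nat_lit 0) (nat_lit 7713619029) (nat_lit 228) (nat_lit 2566305136) (nat_lit 135) (nat_lit 1) (nat_lit 134) (nat_lit 1) (nat_lit 137) (nat_lit 1) (nat_lit 283) (nat_lit 422) (nat_lit 315))) (XT.nd (nat_lit 78) (nat_lit 228) (nat_lit 0) (XT.lf (nat_lit 152) (nat_lit 1150443803) (nat_lit 0) (nat_lit 5782394747) (nat_lit 76) (nat_lit 5782394747) (nat_lit 135) (nat_lit 1) (nat_lit 133) (nat_lit 1) (nat_lit 134) (nat_lit 1) (nat_lit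 284) (nat_lit 422) (nat_lit 314)) (XT.lf (nat_lit 228) (nat_lit 9885748901) (nat_lit 0) (nat_lit 1350195609) (nat_lit 152) (nat_lit 1350195609) (nat_lit 133) (nat_lit 1) (nat_lit 130) (nat_lit 1) (nat_lit 132) (nat_lit 1) (nat_lit 285) (nat_lit 422) (nat_lit 313)))) (XT.nd (nat_lit 156) (nat_lit 304) (nat_lit 0) (XT.nd (nat_lit 78) (nat_lit 76) (nat_lit 0) (XT.lf (nat_lit 76) (nat_lit 2972667787) (nat_lit 0) (nat_lit 6512298426) (nat_lit 228) (nat_lit 2972667787) (nat_lit 131) (nat_lit 1) (nat_lit 130) (nat_lit 1) (nat_lit 133) (nat_lit 1) (nat_lit 286) (nat_lit 422) (nat_lit 312)) (XT.lf (nat_lit 152) (nat_lit 2055845505) (nat_lit 0) (nat_lit 5137582839) (nat_lit 76) (nat_lit 5137582839) (nat_lit 131) (nat_lit 1) (nat_lit 129) (nat_lit 1) (nat_lit 130) (nat_lit 1) (nat_lit 287) (nat_lit 422) (nat_lit 311))) (XT.nd (nat_lit 78) (nat_lit 76) (nat_lit 0) (XT.lf (nat_lit 228) (nat_lit 10482826979) (nat_lit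 0) (nat_lit 861823766) (nat_lit 152) (nat_lit 861823766) (nat_lit 129) (nat_lit 1) (nat_lit 126) (nat_lit 1) (nat_lit 128) (nat_lit 1) (nat_lit 288) (nat_lit 422) (nat_lit 310)) (XT.nd (nat_lit 78) (nat_lit 76) (nat_lit 0) (XT.lf (nat_lit 76) (nat_lit 3313544703) (nat_lit 0) (nat_lit 5454877101) (nat_lit 228) (nat_lit 3313544703) (nat_lit 127) (nat_lit 1) (nat_lit 126) (nat_lit 1) (nat_lit 129) (nat_lit 1) (nat_lit 289) (nat_lit 422) (nat_lit 309)) (XT.lf (nat_lit 152) (nat_lit 2830175684) (nat_lit 0) (nat_lit 4564675810) (nat_lit 76) (nat_lit 4564675810) (nat_lit 127) (nat_lit 1) (nat_lit 125) (nat_lit 1) (nat_lit 126) (nat_lit 1) (nat_lit 290) (nat_lit 422) (nat_lit 308)))))) (XT.nd (nat_lit 390) (nat_lit 304) (nat_lit 0) (XT.nd (nat_lit 156) (nat_lit 304) (nat_lit 0) (XT.nd (nat_lit 78) (nat_lit 0) (nat_lit 0) (XT.lf (nat_lit 228) (nat_lit 10963824075) (nat_lit 0) (nat_lit 437750764) (nat_lit 152)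 (nat_lit 437750764) (nat_lit 125) (nat_lit 1) (nat_lit 122) (nat_lit 1) (nat_lit 124) (nat_lit 1) (nat_lit 291) (nat_lit 422) (nat_lit 307)) (XT.lf (nat_lit 76) (nat_lit 3596825898) (nat_lit 0) (nat_lit 4525019009) (nat_lit 228) (nat_lit 3596825898) (nat_lit 123) (nat_lit 1) (nat_lit 122) (nat_lit 1) (nat_lit 125) (nat_lit 1) (nat_lit 292) (nat_lit 422) (nat_lit 306))) (XT.nd (nat_lit 78) (nat_lit 228) (nat_lit 0) (XT.lf (nat_lit 152) (nat_lit 3488927428) (nat_lit 0) (nat_lit 4055655335) (nat_lit 76) (nat_lit 4055655335) (nat_lit 123) (nat_lit 1) (nat_lit 121) (nat_lit 1) (nat_lit 122) (nat_lit 1) (nat_lit 293) (nat_lit 422) (nat_lit 305)) (XT.nd (nat_lit 78) (nat_lit 0) (nat_lit 0) (XT.lf (nat_lit 228) (nat_lit 11343126443) (nat_lit 0) (nat_lit 70519874) (nat_lit 152) (nat_lit 70519874) (nat_lit 121) (nat_lit 1) (nat_lit 118) (nat_lit 1) (nat_lit 120) (nat_lit 1) (nat_lit 294) (nat_lit 422) (nat_lit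 304)) (XT.lf (nat_lit 76) (nat_lit 3829504434) (nat_lit 0) (nat_lit 3708218214) (nat_lit 228) (nat_lit 3829504434) (nat_lit 119) (nat_lit 1) (nat_lit 118) (nat_lit 1) (nat_lit 121) (nat_lit 1) (nat_lit 295) (nat_lit 422) (nat_lit 303))))) (XT.nd (nat_lit 156) (nat_lit 228) (nat_lit 0) (XT.nd (nat_lit 78) (nat_lit 0) (nat_lit 0) (XT.lf (nat_lit 152) (nat_lit 4045840607) (nat_lit 0) (nat_lit 3603397236) (nat_lit 76) (nat_lit 3603397236) (nat_lit 119) (nat_lit 1) (nat_lit 117) (nat_lit 1) (nat_lit 118) (nat_lit 1) (nat_lit 296) (nat_lit 422) (nat_lit 302)) (XT.lf (nat_lit 0) (nat_lit 248926214) (nat_lit 0) (nat_lit 10642361546) (nat_lit 152) (nat_lit 248926214) (nat_lit 117) (nat_lit 3) (nat_lit 117) (nat_lit 1) (nat_lit 119) (nat_lit 1) (nat_lit 297) (nat_lit 422) (nat_lit 301))) (XT.nd (nat_lit 78) (nat_lit 76) (nat_lit 0) (XT.lf (nat_lit 76) (nat_lit 4017776943) (nat_lit 0) (nat_lit 2991594566) (nat_lit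 152) (nat_lit 4017776943) (nat_lit 116) (nat_lit 1) (nat_lit 115) (nat_lit 1) (nat_lit 117) (nat_lit 1) (nat_lit 298) (nat_lit 422) (nat_lit 300)) (XT.nd (nat_lit 78) (nat_lit 0) (nat_lit 0) (XT.lf (nat_lit 152) (nat_lit 4513098120) (nat_lit 0) (nat_lit 3201571773) (nat_lit 76) (nat_lit 3201571773) (nat_lit 116) (nat_lit 1) (nat_lit 114) (nat_lit 1) (nat_lit 115) (nat_lit 1) (nat_lit 299) (nat_lit 422) (nat_lit 299)) (XT.lf (nat_lit 0) (nat_lit 524277005) (nat_lit 0) (nat_lit 9758709681) (nat_lit 152) (nat_lit 524277005) (nat_lit 114) (nat_lit 3) (nat_lit 114) (nat_lit 1) (nat_lit 116) (nat_lit 1) (nat_lit 300) (nat_lit 422) (nat_lit 298))))))))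
noncomputable def ec434 : XT := (XT.nd (nat_lit 1482) (nat_lit 1520) (nat_lit 0) (XT.nd (nat_lit 702) (nat_lit 760) (nat_lit 0) (XT.nd (nat_lit 312) (nat_lit 304) (nat_lit 0) (XT.nd (nat_lit 156) (nat_lit 152) (nat_lit 0) (XT.nd (nat_lit 78) (nat_lit 76) (nat_lit 0) (XT.lf (nat_lit 76) (nat_lit 4167132925) (nat_lit 0) (nat_lit 2363712163) (nat_lit 152) (nat_lit 4167132925) (nat_lit 113) (nat_lit 1) (nat_lit 112) (nat_lit 1) (nat_lit 114) (nat_lit 1) (nat_lit 301) (nat_lit 422) (nat_lit 297)) (XT.lf (nat_lit 152) (nat_lit 4901500237) (nat_lit 0) (nat_lit 2844555053) (nat_lit 76) (nat_lit 2844555053) (nat_lit 113) (nat_lit 1) (nat_lit 111) (nat_lit 1) (nat_lit 112) (nat_lit 1) (nat_lit 302) (nat_lit 422) (nat_lit 296))) (XT.nd (nat_lit 78) (nat_lit 152) (nat_lit 0) (XT.lf (nat_lit 0) (nat_lit 760094191) (nat_lit 0) (nat_lit 8964768018) (nat_lit 152) (nat_lit 760094191) (nat_lit 111) (nat_lit 3) (nat_lit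 111) (nat_lit 1) (nat_lit 113) (nat_lit 1) (nat_lit 303) (nat_lit 422) (nat_lit 295)) (XT.lf (nat_lit 76) (nat_lit 4282434068) (nat_lit 0) (nat_lit 1814418067) (nat_lit 152) (nat_lit 4282434068) (nat_lit 110) (nat_lit 1) (nat_lit 109) (nat_lit 1) (nat_lit 111) (nat_lit 1) (nat_lit 304) (nat_lit 422) (nat_lit 294)))) (XT.nd (nat_lit 156) (nat_lit 228) (nat_lit 0) (XT.nd (nat_lit 78) (nat_lit 0) (nat_lit 0) (XT.lf (nat_lit 152) (nat_lit 5220619487) (nat_lit 0) (nat_lit 2527350321) (nat_lit 76) (nat_lit 2527350321) (nat_lit 110) (nat_lit 1) (nat_lit 108) (nat_lit 1) (nat_lit 109) (nat_lit 1) (nat_lit 305) (nat_lit 422) (nat_lit 293)) (XT.lf (nat_lit 0) (nat_lit 961043418) (nat_lit 0) (nat_lit 8250789846) (nat_lit 152) (nat_lit 961043418) (nat_lit 108) (nat_lit 3) (nat_lit 108) (nat_lit 1) (nat_lit 110) (nat_lit 1) (nat_lit 306) (nat_lit 422) (nat_lit 292))) (XT.nd (nat_lit 78) (nat_lit 76) (nat_lit 0)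 (XT.lf (nat_lit 76) (nat_lit 4367984714) (nat_lit 0) (nat_lit 1334699015) (nat_lit 152) (nat_lit 4367984714) (nat_lit 107) (nat_lit 1) (nat_lit 106) (nat_lit 1) (nat_lit 108) (nat_lit 1) (nat_lit 307) (nat_lit 422) (nat_lit 291)) (XT.nd (nat_lit 78) (nat_lit 0) (nat_lit 0) (XT.lf (nat_lit 152) (nat_lit 5478938245) (nat_lit 0) (nat_lit 2245518026) (nat_lit 76) (nat_lit 2245518026) (nat_lit 107) (nat_lit 1) (nat_lit 105) (nat_lit 1) (nat_lit 106) (nat_lit 1) (nat_lit 308) (nat_lit 422) (nat_lit 290)) (XT.lf (nat_lit 0) (nat_lit 1131262566) (nat_lit 0) (nat_lit 7608107850) (nat_lit 152) (nat_lit 1131262566) (nat_lit 105) (nat_lit 3) (nat_lit 105) (nat_lit 1) (nat_lit 107) (nat_lit 1) (nat_lit 309) (nat_lit 422) (nat_lit 289)))))) (XT.nd (nat_lit 390) (nat_lit 304) (nat_lit 0) (XT.nd (nat_lit 156) (nat_lit 228) (nat_lit 0) (XT.nd (nat_lit 78) (nat_lit 76) (nat_lit 0) (XT.lf (nat_lit 76) (nat_lit 4427594457)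 (nat_lit 0) (nat_lit 916554111) (nat_lit 152) (nat_lit 4427594457) (nat_lit 104) (nat_lit 1) (nat_lit 103) (nat_lit 1) (nat_lit 105) (nat_lit 1) (nat_lit 310) (nat_lit 422) (nat_lit 288)) (XT.lf (nat_lit 152) (nat_lit 5683970956) (nat_lit 0) (nat_lit 1995113682) (nat_lit 76) (nat_lit 1995113682) (nat_lit 104) (nat_lit 1) (nat_lit 102) (nat_lit 1) (nat_lit 103) (nat_lit 1) (nat_lit 311) (nat_lit 422) (nat_lit 287))) (XT.nd (nat_lit 78) (nat_lit 228) (nat_lit 0) (XT.lf (nat_lit 0) (nat_lit 1274420814) (nat_lit 0) (nat_lit 7029013960) (nat_lit 152) (nat_lit 1274420814) (nat_lit 102) (nat_lit 3) (nat_lit 102) (nat_lit 1) (nat_lit 104) (nat_lit 1) (nat_lit 312) (nat_lit 422) (nat_lit 286)) (XT.nd (nat_lit 78) (nat_lit 76) (nat_lit 0) (XT.lf (nat_lit 76) (nat_lit 4464633739) (nat_lit 0) (nat_lit 552881722) (nat_lit 152) (nat_lit 4464633739) (nat_lit 101) (nat_lit 1) (nat_lit 100) (nat_lit 1) (nat_lit 102)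 (nat_lit 1) (nat_lit 313) (nat_lit 422) (nat_lit 285)) (XT.lf (nat_lit 152) (nat_lit 5842372720) (nat_lit 0) (nat_lit 1772632666) (nat_lit 76) (nat_lit 1772632666) (nat_lit 101) (nat_lit 1) (nat_lit 99) (nat_lit 1) (nat_lit 100) (nat_lit 1) (nat_lit 314) (nat_lit 422) (nat_lit 284))))) (XT.nd (nat_lit 156) (nat_lit 152) (nat_lit 0) (XT.nd (nat_lit 78) (nat_lit 152) (nat_lit 0) (XT.lf (nat_lit 0) (nat_lit 1393771121) (nat_lit 0) (nat_lit 6506652597) (nat_lit 152) (nat_lit 1393771121) (nat_lit 99) (nat_lit 3) (nat_lit 99) (nat_lit 1) (nat_lit 101) (nat_lit 1) (nat_lit 315) (nat_lit 422) (nat_lit 283)) (XT.lf (nat_lit 76) (nat_lit 4482083242) (nat_lit 0) (nat_lit 237378993) (nat_lit 152) (nat_lit 4482083242) (nat_lit 98) (nat_lit 1) (nat_lit 97) (nat_lit 1) (nat_lit 99) (nat_lit 1) (nat_lit 316) (nat_lit 422) (nat_lit 282))) (XT.nd (nat_lit 78) (nat_lit 76) (nat_lit 0) (XT.lf (nat_lit 152) (nat_lit 5960035738)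 (nat_lit 0) (nat_lit 1574961164) (nat_lit 76) (nat_lit 1574961164) (nat_lit 98) (nat_lit 1) (nat_lit 96) (nat_lit 1) (nat_lit 97) (nat_lit 1) (nat_lit 317) (nat_lit 422) (nat_lit 281)) (XT.nd (nat_lit 78) (nat_lit 76) (nat_lit 0) (XT.lf (nat_lit 0) (nat_lit 1492196846) (nat_lit 0) (nat_lit 6034925815) (nat_lit 152) (nat_lit 1492196846) (nat_lit 96) (nat_lit 3) (nat_lit 96) (nat_lit 1) (nat_lit 98) (nat_lit 1) (nat_lit 318) (nat_lit 422) (nat_lit 280)) (XT.lf (nat_lit 76) (nat_lit 36254891) (nat_lit 0) (nat_lit 4446671366) (nat_lit 76) (nat_lit 4446671366) (nat_lit 96) (nat_lit 3) (nat_lit 95) (nat_lit 1) (nat_lit 96) (nat_lit 1) (nat_lit 319) (nat_lit 422) (nat_lit 279))))))) (XT.nd (nat_lit 702) (nat_lit 836) (nat_lit 0) (XT.nd (nat_lit 312) (nat_lit 304) (nat_lit 0) (XT.nd (nat_lit 156) (nat_lit 228) (nat_lit 0) (XT.nd (nat_lit 78) (nat_lit 0) (nat_lit 0) (XT.lf (nat_lit 152) (nat_lit 6042174993)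 (nat_lit 0) (nat_lit 1399332595) (nat_lit 76) (nat_lit 1399332595) (nat_lit 95) (nat_lit 1) (nat_lit 93) (nat_lit 1) (nat_lit 94) (nat_lit 1) (nat_lit 320) (nat_lit 422) (nat_lit 278)) (XT.lf (nat_lit 0) (nat_lit 1572253159) (nat_lit 0) (nat_lit 5608409010) (nat_lit 152) (nat_lit 1572253159) (nat_lit 93) (nat_lit 3) (nat_lit 93) (nat_lit 1) (nat_lit 95) (nat_lit 1) (nat_lit 321) (nat_lit 422) (nat_lit 277))) (XT.nd (nat_lit 78) (nat_lit 152) (nat_lit 0) (XT.lf (nat_lit 76) (nat_lit 276251359) (nat_lit 0) (nat_lit 4194849273) (nat_lit 76) (nat_lit 4194849273) (nat_lit 93) (nat_lit 3) (nat_lit 92) (nat_lit 1) (nat_lit 93) (nat_lit 1) (nat_lit 322) (nat_lit 422) (nat_lit 276)) (XT.lf (nat_lit 152) (nat_lit 6093404353) (nat_lit 0) (nat_lit 1243288886) (nat_lit 76) (nat_lit 1243288886) (nat_lit 92) (nat_lit 1) (nat_lit 90) (nat_lit 1) (nat_lit 91) (nat_lit 1) (nat_lit 323) (nat_lit 422) (nat_lit 275))))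 (XT.nd (nat_lit 156) (nat_lit 228) (nat_lit 0) (XT.nd (nat_lit 78) (nat_lit 76) (nat_lit 0) (XT.lf (nat_lit 0) (nat_lit 1636203839) (nat_lit 0) (nat_lit 5222276036) (nat_lit 152) (nat_lit 1636203839) (nat_lit 90) (nat_lit 3) (nat_lit 90) (nat_lit 1) (nat_lit 92) (nat_lit 1) (nat_lit 324) (nat_lit 422) (nat_lit 274)) (XT.lf (nat_lit 76) (nat_lit 482377170) (nat_lit 0) (nat_lit 3964000662) (nat_lit 76) (nat_lit 3964000662) (nat_lit 90) (nat_lit 3) (nat_lit 89) (nat_lit 1) (nat_lit 90) (nat_lit 1) (nat_lit 325) (nat_lit 422) (nat_lit 273))) (XT.nd (nat_lit 78) (nat_lit 76) (nat_lit 0) (XT.lf (nat_lit 152) (nat_lit 6117804176) (nat_lit 0) (nat_lit 1104646072) (nat_lit 76) (nat_lit 1104646072) (nat_lit 89) (nat_lit 1) (nat_lit 87) (nat_lit 1) (nat_lit 88) (nat_lit 1) (nat_lit 326) (nat_lit 422) (nat_lit 272)) (XT.nd (nat_lit 78) (nat_lit 76) (nat_lit 0) (XT.lf (nat_lit 0) (nat_lit 1686053948) (nat_lit 0)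 (nat_lit 4872232648) (nat_lit 152) (nat_lit 1686053948) (nat_lit 87) (nat_lit 3) (nat_lit 87) (nat_lit 1) (nat_lit 89) (nat_lit 1) (nat_lit 327) (nat_lit 422) (nat_lit 271)) (XT.lf (nat_lit 76) (nat_lit 658616368) (nat_lit 0) (nat_lit 3751993746) (nat_lit 76) (nat_lit 3751993746) (nat_lit 87) (nat_lit 3) (nat_lit 86) (nat_lit 1) (nat_lit 87) (nat_lit 1) (nat_lit 328) (nat_lit 422) (nat_lit 270)))))) (XT.nd (nat_lit 390) (nat_lit 456) (nat_lit 0) (XT.nd (nat_lit 156) (nat_lit 228) (nat_lit 0) (XT.nd (nat_lit 78) (nat_lit 0) (nat_lit 0) (XT.lf (nat_lit 152) (nat_lit 6118981355) (nat_lit 0) (nat_lit 981463728) (nat_lit 76) (nat_lit 981463728) (nat_lit 86) (nat_lit 1) (nat_lit 84) (nat_lit 1) (nat_lit 85) (nat_lit 1) (nat_lit 329) (nat_lit 422) (nat_lit 269)) (XT.lf (nat_lit 0) (nat_lit 1723578872) (nat_lit 0) (nat_lit 4554457379) (nat_lit 152) (nat_lit 1723578872) (nat_lit 84) (nat_lit 3) (nat_lit 84)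 (nat_lit 1) (nat_lit 86) (nat_lit 1) (nat_lit 330) (nat_lit 422) (nat_lit 268))) (XT.nd (nat_lit 78) (nat_lit 152) (nat_lit 0) (XT.lf (nat_lit 76) (nat_lit 808502695) (nat_lit 0) (nat_lit 3556928430) (nat_lit 76) (nat_lit 3556928430) (nat_lit 84) (nat_lit 3) (nat_lit 83) (nat_lit 1) (nat_lit 84) (nat_lit 1) (nat_lit 331) (nat_lit 422) (nat_lit 267)) (XT.nd (nat_lit 78) (nat_lit 0) (nat_lit 0) (XT.lf (nat_lit 152) (nat_lit 6100122655) (nat_lit 0) (nat_lit 872017810) (nat_lit 76) (nat_lit 872017810) (nat_lit 83) (nat_lit 1) (nat_lit 81) (nat_lit 1) (nat_lit 82) (nat_lit 1) (nat_lit 332) (nat_lit 422) (nat_lit 266)) (XT.lf (nat_lit 0) (nat_lit 1750350102) (nat_lit 0) (nat_lit 4265548990) (nat_lit 152) (nat_lit 1750350102) (nat_lit 81) (nat_lit 3) (nat_lit 81) (nat_lit 1) (nat_lit 83) (nat_lit 1) (nat_lit 333) (nat_lit 422) (nat_lit 265))))) (XT.nd (nat_lit 156) (nat_lit 228) (nat_lit 0) (XT.nd (nat_lit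 78) (nat_lit 152) (nat_lit 0) (XT.lf (nat_lit 76) (nat_lit 935169981) (nat_lit 0) (nat_lit 3377110649) (nat_lit 76) (nat_lit 3377110649) (nat_lit 81) (nat_lit 3) (nat_lit 80) (nat_lit 1) (nat_lit 81) (nat_lit 1) (nat_lit 334) (nat_lit 422) (nat_lit 264)) (XT.lf (nat_lit 152) (nat_lit 6064042080) (nat_lit 0) (nat_lit 774776530) (nat_lit 76) (nat_lit 774776530) (nat_lit 80) (nat_lit 1) (nat_lit 78) (nat_lit 1) (nat_lit 79) (nat_lit 1) (nat_lit 335) (nat_lit 422) (nat_lit 263))) (XT.nd (nat_lit 78) (nat_lit 228) (nat_lit 0) (XT.lf (nat_lit 0) (nat_lit 1767758151) (nat_lit 0) (nat_lit 4002479786) (nat_lit 152) (nat_lit 1767758151) (nat_lit 78) (nat_lit 3) (nat_lit 78) (nat_lit 1) (nat_lit 80) (nat_lit 1) (nat_lit 336) (nat_lit 422) (nat_lit 262)) (XT.nd (nat_lit 78) (nat_lit 152) (nat_lit 0) (XT.lf (nat_lit 76) (nat_lit 1041396909) (nat_lit 0) (nat_lit 3211029565) (nat_lit 76) (nat_lit 3211029565) (nat_lit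 78) (nat_lit 3) (nat_lit 77) (nat_lit 1) (nat_lit 78) (nat_lit 1) (nat_lit 337) (nat_lit 422) (nat_lit 261)) (XT.lf (nat_lit 152) (nat_lit 6013222954) (nat_lit 0) (nat_lit 688378912) (nat_lit 76) (nat_lit 688378912) (nat_lit 77) (nat_lit 1) (nat_lit 75) (nat_lit 1) (nat_lit 76) (nat_lit 1) (nat_lit 338) (nat_lit 422) (nat_lit 260))))))))
noncomputable def ec435 : XT := (XT.nd (nat_lit 1482) (nat_lit 1444) (nat_lit 0) (XT.nd (nat_lit 702) (nat_lit 684) (nat_lit 0) (XT.nd (nat_lit 312) (nat_lit 456) (nat_lit 0) (XT.nd (nat_lit 156) (nat_lit 152) (nat_lit 0) (XT.nd (nat_lit 78) (nat_lit 76) (nat_lit 0) (XT.lf (nat_lit 0) (nat_lit 1777032897) (nat_lit 0) (nat_lit 3762554125) (nat_lit 152) (nat_lit 1777032897) (nat_lit 75) (nat_lit 3) (nat_lit 75) (nat_lit 1) (nat_lit 77) (nat_lit 1) (nat_lit 339) (nat_lit 422) (nat_lit 259)) (XT.lf (nat_lit 76) (nat_lit 1129646786) (nat_lit 0) (nat_lit 3057337299) (nat_lit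 76) (nat_lit 3057337299) (nat_lit 75) (nat_lit 3) (nat_lit 74) (nat_lit 1) (nat_lit 75) (nat_lit 1) (nat_lit 340) (nat_lit 422) (nat_lit 258))) (XT.nd (nat_lit 78) (nat_lit 0) (nat_lit 0) (XT.lf (nat_lit 152) (nat_lit 5949855281) (nat_lit 0) (nat_lit 611615747) (nat_lit 76) (nat_lit 611615747) (nat_lit 74) (nat_lit 1) (nat_lit 72) (nat_lit 1) (nat_lit 73) (nat_lit 1) (nat_lit 341) (nat_lit 422) (nat_lit 257)) (XT.lf (nat_lit 0) (nat_lit 1779261660) (nat_lit 0) (nat_lit 3543371555) (nat_lit 152) (nat_lit 1779261660) (nat_lit 72) (nat_lit 3) (nat_lit 72) (nat_lit 1) (nat_lit 74) (nat_lit 1) (nat_lit 342) (nat_lit 422) (nat_lit 256)))) (XT.nd (nat_lit 156) (nat_lit 228) (nat_lit 0) (XT.nd (nat_lit 78) (nat_lit 152) (nat_lit 0) (XT.lf (nat_lit 76) (nat_lit 1202102868) (nat_lit 0) (nat_lit 2914830921) (nat_lit 76) (nat_lit 2914830921) (nat_lit 72) (nat_lit 3) (nat_lit 71) (nat_lit 1) (nat_lit 72) (nat_lit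 1) (nat_lit 343) (nat_lit 422) (nat_lit 255)) (XT.lf (nat_lit 152) (nat_lit 5875868937) (nat_lit 0) (nat_lit 543412669) (nat_lit 76) (nat_lit 543412669) (nat_lit 71) (nat_lit 1) (nat_lit 69) (nat_lit 1) (nat_lit 70) (nat_lit 1) (nat_lit 344) (nat_lit 422) (nat_lit 254))) (XT.nd (nat_lit 78) (nat_lit 228) (nat_lit 0) (XT.lf (nat_lit 0) (nat_lit 1775405257) (nat_lit 0) (nat_lit 3342794050) (nat_lit 152) (nat_lit 1775405257) (nat_lit 69) (nat_lit 3) (nat_lit 69) (nat_lit 1) (nat_lit 71) (nat_lit 1) (nat_lit 345) (nat_lit 422) (nat_lit 253)) (XT.nd (nat_lit 78) (nat_lit 152) (nat_lit 0) (XT.lf (nat_lit 76) (nat_lit 1260699751) (nat_lit 0) (nat_lit 2782436443) (nat_lit 76) (nat_lit 2782436443) (nat_lit 69) (nat_lit 3) (nat_lit 68) (nat_lit 1) (nat_lit 69) (nat_lit 1) (nat_lit 346) (nat_lit 422) (nat_lit 252)) (XT.lf (nat_lit 152) (nat_lit 5792963138) (nat_lit 0) (nat_lit 482815118) (nat_lit 76) (nat_lit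 482815118) (nat_lit 68) (nat_lit 1) (nat_lit 66) (nat_lit 1) (nat_lit 67) (nat_lit 1) (nat_lit 347) (nat_lit 422) (nat_lit 251)))))) (XT.nd (nat_lit 390) (nat_lit 380) (nat_lit 0) (XT.nd (nat_lit 156) (nat_lit 228) (nat_lit 0) (XT.nd (nat_lit 78) (nat_lit 76) (nat_lit 0) (XT.lf (nat_lit 0) (nat_lit 1766312263) (nat_lit 0) (nat_lit 3158916904) (nat_lit 152) (nat_lit 1766312263) (nat_lit 66) (nat_lit 3) (nat_lit 66) (nat_lit 1) (nat_lit 68) (nat_lit 1) (nat_lit 348) (nat_lit 422) (nat_lit 250)) (XT.lf (nat_lit 76) (nat_lit 1307151247) (nat_lit 0) (nat_lit 2659194588) (nat_lit 76) (nat_lit 2659194588) (nat_lit 66) (nat_lit 3) (nat_lit 65) (nat_lit 1) (nat_lit 66) (nat_lit 1) (nat_lit 349) (nat_lit 422) (nat_lit 249))) (XT.nd (nat_lit 78) (nat_lit 76) (nat_lit 0) (XT.lf (nat_lit 152) (nat_lit 5702632612) (nat_lit 0) (nat_lit 428974979) (nat_lit 76) (nat_lit 428974979) (nat_lit 65) (nat_lit 1) (nat_lit 63)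 (nat_lit 1) (nat_lit 64) (nat_lit 1) (nat_lit 350) (nat_lit 422) (nat_lit 248)) (XT.nd (nat_lit 78) (nat_lit 76) (nat_lit 0) (XT.lf (nat_lit 0) (nat_lit 1752731672) (nat_lit 0) (nat_lit 2990042859) (nat_lit 152) (nat_lit 1752731672) (nat_lit 63) (nat_lit 3) (nat_lit 63) (nat_lit 1) (nat_lit 65) (nat_lit 1) (nat_lit 351) (nat_lit 422) (nat_lit 247)) (XT.lf (nat_lit 76) (nat_lit 1342975154) (nat_lit 0) (nat_lit 2544248150) (nat_lit 76) (nat_lit 2544248150) (nat_lit 63) (nat_lit 3) (nat_lit 62) (nat_lit 1) (nat_lit 63) (nat_lit 1) (nat_lit 352) (nat_lit 422) (nat_lit 246))))) (XT.nd (nat_lit 156) (nat_lit 228) (nat_lit 0) (XT.nd (nat_lit 78) (nat_lit 0) (nat_lit 0) (XT.lf (nat_lit 152) (nat_lit 5606190841) (nat_lit 0) (nat_lit 381138713) (nat_lit 76) (nat_lit 381138713) (nat_lit 62) (nat_lit 1) (nat_lit 60) (nat_lit 1) (nat_lit 61) (nat_lit 1) (nat_lit 353) (nat_lit 422) (nat_lit 245)) (XT.lf (nat_lit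 0) (nat_lit 1735324150) (nat_lit 0) (nat_lit 2834659114) (nat_lit 152) (nat_lit 1735324150) (nat_lit 60) (nat_lit 3) (nat_lit 60) (nat_lit 1) (nat_lit 62) (nat_lit 1) (nat_lit 354) (nat_lit 422) (nat_lit 244))) (XT.nd (nat_lit 78) (nat_lit 152) (nat_lit 0) (XT.lf (nat_lit 76) (nat_lit 1369515254) (nat_lit 0) (nat_lit 2436830753) (nat_lit 76) (nat_lit 2436830753) (nat_lit 60) (nat_lit 3) (nat_lit 59) (nat_lit 1) (nat_lit 60) (nat_lit 1) (nat_lit 355) (nat_lit 422) (nat_lit 243)) (XT.nd (nat_lit 78) (nat_lit 0) (nat_lit 0) (XT.lf (nat_lit 152) (nat_lit 5504790695) (nat_lit 0) (nat_lit 338636810) (nat_lit 76) (nat_lit 338636810) (nat_lit 59) (nat_lit 1) (nat_lit 57) (nat_lit 1) (nat_lit 58) (nat_lit 1) (nat_lit 356) (nat_lit 422) (nat_lit 242)) (XT.lf (nat_lit 0) (nat_lit 1714672023) (nat_lit 0) (nat_lit 2691416899) (nat_lit 152) (nat_lit 1714672023) (nat_lit 57) (nat_lit 3) (nat_lit 57) (nat_lit 1) (nat_lit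 59) (nat_lit 1) (nat_lit 357) (nat_lit 422) (nat_lit 241))))))) (XT.nd (nat_lit 702) (nat_lit 760) (nat_lit 0) (XT.nd (nat_lit 312) (nat_lit 380) (nat_lit 0) (XT.nd (nat_lit 156) (nat_lit 76) (nat_lit 0) (XT.nd (nat_lit 78) (nat_lit 152) (nat_lit 0) (XT.lf (nat_lit 76) (nat_lit 1387960860) (nat_lit 0) (nat_lit 2336256857) (nat_lit 76) (nat_lit 2336256857) (nat_lit 57) (nat_lit 3) (nat_lit 56) (nat_lit 1) (nat_lit 57) (nat_lit 1) (nat_lit 358) (nat_lit 422) (nat_lit 240)) (XT.lf (nat_lit 152) (nat_lit 5399442752) (nat_lit 0) (nat_lit 300874419) (nat_lit 76) (nat_lit 300874419) (nat_lit 56) (nat_lit 1) (nat_lit 54) (nat_lit 1) (nat_lit 55) (nat_lit 1) (nat_lit 359) (nat_lit 422) (nat_lit 239))) (XT.nd (nat_lit 78) (nat_lit 76) (nat_lit 0) (XT.lf (nat_lit 0) (nat_lit 1691288147) (nat_lit 0) (nat_lit 2559113319) (nat_lit 152) (nat_lit 1691288147) (nat_lit 54) (nat_lit 3) (nat_lit 54) (nat_lit 1) (nat_lit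 56) (nat_lit 1) (nat_lit 360) (nat_lit 422) (nat_lit 238)) (XT.lf (nat_lit 76) (nat_lit 1399364175) (nat_lit 0) (nat_lit 2241912886) (nat_lit 76) (nat_lit 2241912886) (nat_lit 54) (nat_lit 3) (nat_lit 53) (nat_lit 1) (nat_lit 54) (nat_lit 1) (nat_lit 361) (nat_lit 422) (nat_lit 237)))) (XT.nd (nat_lit 156) (nat_lit 228) (nat_lit 0) (XT.nd (nat_lit 78) (nat_lit 0) (nat_lit 0) (XT.lf (nat_lit 152) (nat_lit 5291031571) (nat_lit 0) (nat_lit 267323025) (nat_lit 76) (nat_lit 267323025) (nat_lit 53) (nat_lit 1) (nat_lit 51) (nat_lit 1) (nat_lit 52) (nat_lit 1) (nat_lit 362) (nat_lit 422) (nat_lit 236)) (XT.lf (nat_lit 0) (nat_lit 1665623791) (nat_lit 0) (nat_lit 2436675216) (nat_lit 152) (nat_lit 1665623791) (nat_lit 51) (nat_lit 3) (nat_lit 51) (nat_lit 1) (nat_lit 53) (nat_lit 1) (nat_lit 363) (nat_lit 422) (nat_lit 235))) (XT.nd (nat_lit 78) (nat_lit 152) (nat_lit 0) (XT.lf (nat_lit 76) (nat_lit 1404655710)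 (nat_lit 0) (nat_lit 2153249326) (nat_lit 76) (nat_lit 2153249326) (nat_lit 51) (nat_lit 3) (nat_lit 50) (nat_lit 1) (nat_lit 51) (nat_lit 1) (nat_lit 364) (nat_lit 422) (nat_lit 234)) (XT.nd (nat_lit 78) (nat_lit 0) (nat_lit 0) (XT.lf (nat_lit 152) (nat_lit 5180330128) (nat_lit 0) (nat_lit 237513045) (nat_lit 76) (nat_lit 237513045) (nat_lit 50) (nat_lit 1) (nat_lit 48) (nat_lit 1) (nat_lit 49) (nat_lit 1) (nat_lit 365) (nat_lit 422) (nat_lit 233)) (XT.lf (nat_lit 0) (nat_lit 1638075630) (nat_lit 0) (nat_lit 2323144834) (nat_lit 152) (nat_lit 1638075630) (nat_lit 48) (nat_lit 3) (nat_lit 48) (nat_lit 1) (nat_lit 50) (nat_lit 1) (nat_lit 366) (nat_lit 422) (nat_lit 232)))))) (XT.nd (nat_lit 390) (nat_lit 304) (nat_lit 0) (XT.nd (nat_lit 156) (nat_lit 228) (nat_lit 0) (XT.nd (nat_lit 78) (nat_lit 152) (nat_lit 0) (XT.lf (nat_lit 76) (nat_lit 1404657982) (nat_lit 0) (nat_lit 2069773714) (nat_lit 76) (nat_lit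 2069773714) (nat_lit 48) (nat_lit 3) (nat_lit 47) (nat_lit 1) (nat_lit 48) (nat_lit 1) (nat_lit 367) (nat_lit 422) (nat_lit 231)) (XT.lf (nat_lit 152) (nat_lit 5068012637) (nat_lit 0) (nat_lit 211027264) (nat_lit 76) (nat_lit 211027264) (nat_lit 47) (nat_lit 1) (nat_lit 45) (nat_lit 1) (nat_lit 46) (nat_lit 1) (nat_lit 368) (nat_lit 422) (nat_lit 230))) (XT.nd (nat_lit 78) (nat_lit 228) (nat_lit 0) (XT.lf (nat_lit 0) (nat_lit 1608991955) (nat_lit 0) (nat_lit 2217667070) (nat_lit 152) (nat_lit 1608991955) (nat_lit 45) (nat_lit 3) (nat_lit 45) (nat_lit 1) (nat_lit 47) (nat_lit 1) (nat_lit 369) (nat_lit 422) (nat_lit 229)) (XT.nd (nat_lit 78) (nat_lit 152) (nat_lit 0) (XT.lf (nat_lit 76) (nat_lit 1400097683) (nat_lit 0) (nat_lit 1991044397) (nat_lit 76) (nat_lit 1991044397) (nat_lit 45) (nat_lit 3) (nat_lit 44) (nat_lit 1) (nat_lit 45) (nat_lit 1) (nat_lit 370) (nat_lit 422) (nat_lit 228)) (XT.lf (nat_lit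 152) (nat_lit 4954665930) (nat_lit 0) (nat_lit 187494991) (nat_lit 76) (nat_lit 187494991) (nat_lit 44) (nat_lit 1) (nat_lit 42) (nat_lit 1) (nat_lit 43) (nat_lit 1) (nat_lit 371) (nat_lit 422) (nat_lit 227))))) (XT.nd (nat_lit 156) (nat_lit 228) (nat_lit 0) (XT.nd (nat_lit 78) (nat_lit 76) (nat_lit 0) (XT.lf (nat_lit 0) (nat_lit 1578678197) (nat_lit 0) (nat_lit 2119478153) (nat_lit 152) (nat_lit 1578678197) (nat_lit 42) (nat_lit 3) (nat_lit 42) (nat_lit 1) (nat_lit 44) (nat_lit 1) (nat_lit 372) (nat_lit 422) (nat_lit 226)) (XT.lf (nat_lit 76) (nat_lit 1391616482) (nat_lit 0) (nat_lit 1916664983) (nat_lit 76) (nat_lit 1916664983) (nat_lit 42) (nat_lit 3) (nat_lit 41) (nat_lit 1) (nat_lit 42) (nat_lit 1) (nat_lit 373) (nat_lit 422) (nat_lit 225))) (XT.nd (nat_lit 78) (nat_lit 76) (nat_lit 0) (XT.lf (nat_lit 152) (nat_lit 4840799558) (nat_lit 0) (nat_lit 166586871) (nat_lit 76) (nat_lit 166586871) (nat_lit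 41) (nat_lit 1) (nat_lit 39) (nat_lit 1) (nat_lit 40) (nat_lit 1) (nat_lit 374) (nat_lit 422) (nat_lit 224)) (XT.nd (nat_lit 78) (nat_lit 76) (nat_lit 0) (XT.lf (nat_lit 0) (nat_lit 1547401815) (nat_lit 0) (nat_lit 2027895571) (nat_lit 152) (nat_lit 1547401815) (nat_lit 39) (nat_lit 3) (nat_lit 39) (nat_lit 1) (nat_lit 41) (nat_lit 1) (nat_lit 375) (nat_lit 422) (nat_lit 223)) (XT.lf (nat_lit 76) (nat_lit 1379780623) (nat_lit 0) (nat_lit 1846279416) (nat_lit 76) (nat_lit 1846279416) (nat_lit 39) (nat_lit 3) (nat_lit 38) (nat_lit 1) (nat_lit 39) (nat_lit 1) (nat_lit 376) (nat_lit 422) (nat_lit 222))))))))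
noncomputable def ec436 : XT := (XT.nd (nat_lit 1404) (nat_lit 1292) (nat_lit 0) (XT.nd (nat_lit 702) (nat_lit 684) (nat_lit 0) (XT.nd (nat_lit 312) (nat_lit 304) (nat_lit 0) (XT.nd (nat_lit 156) (nat_lit 228) (nat_lit 0) (XT.nd (nat_lit 78) (nat_lit 0) (nat_lit 0) (XT.lf (nat_lit 152) (nat_lit 4726854750) (nat_lit 0) (nat_lit 148010277) (nat_lit 76) (nat_lit 148010277) (nat_lit 38) (nat_lit 1) (nat_lit 36) (nat_lit 1) (nat_lit 37) (nat_lit 1) (nat_lit 377) (nat_lit 422) (nat_lit 221)) (XT.lf (nat_lit 0) (nat_lit 1515396649) (nat_lit 0) (nat_lit 1942309128) (nat_lit 152) (nat_lit 1515396649) (nat_lit 36) (nat_lit 3) (nat_lit 36) (nat_lit 1) (nat_lit 38) (nat_lit 1) (nat_lit 378) (nat_lit 422) (nat_lit 220))) (XT.nd (nat_lit 78) (nat_lit 152) (nat_lit 0) (XT.lf (nat_lit 76) (nat_lit 1365089448) (nat_lit 0) (nat_lit 1779567583) (nat_lit 76) (nat_lit 1779567583) (nat_lit 36) (nat_lit 3) (nat_lit 35) (nat_lit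 1) (nat_lit 36) (nat_lit 1) (nat_lit 379) (nat_lit 422) (nat_lit 219)) (XT.lf (nat_lit 152) (nat_lit 4613212370) (nat_lit 0) (nat_lit 131505214) (nat_lit 76) (nat_lit 131505214) (nat_lit 35) (nat_lit 1) (nat_lit 33) (nat_lit 1) (nat_lit 34) (nat_lit 1) (nat_lit 380) (nat_lit 422) (nat_lit 218)))) (XT.nd (nat_lit 156) (nat_lit 228) (nat_lit 0) (XT.nd (nat_lit 78) (nat_lit 76) (nat_lit 0) (XT.lf (nat_lit 0) (nat_lit 1482866779) (nat_lit 0) (nat_lit 1862172987) (nat_lit 152) (nat_lit 1482866779) (nat_lit 33) (nat_lit 3) (nat_lit 33) (nat_lit 1) (nat_lit 35) (nat_lit 1) (nat_lit 381) (nat_lit 422) (nat_lit 217)) (XT.lf (nat_lit 76) (nat_lit 1347982969) (nat_lit 0) (nat_lit 1716241424) (nat_lit 76) (nat_lit 1716241424) (nat_lit 33) (nat_lit 3) (nat_lit 32) (nat_lit 1) (nat_lit 33) (nat_lit 1) (nat_lit 382) (nat_lit 422) (nat_lit 216))) (XT.nd (nat_lit 78) (nat_lit 76) (nat_lit 0) (XT.lf (nat_lit 152) (nat_lit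 4500199971) (nat_lit 0) (nat_lit 116840679) (nat_lit 76) (nat_lit 116840679) (nat_lit 32) (nat_lit 1) (nat_lit 30) (nat_lit 1) (nat_lit 31) (nat_lit 1) (nat_lit 383) (nat_lit 422) (nat_lit 215)) (XT.nd (nat_lit 78) (nat_lit 76) (nat_lit 0) (XT.lf (nat_lit 0) (nat_lit 1449989950) (nat_lit 0) (nat_lit 1786998604) (nat_lit 152) (nat_lit 1449989950) (nat_lit 30) (nat_lit 3) (nat_lit 30) (nat_lit 1) (nat_lit 32) (nat_lit 1) (nat_lit 384) (nat_lit 422) (nat_lit 214)) (XT.lf (nat_lit 76) (nat_lit 1328848589) (nat_lit 0) (nat_lit 1656041456) (nat_lit 76) (nat_lit 1656041456) (nat_lit 30) (nat_lit 3) (nat_lit 29) (nat_lit 1) (nat_lit 30) (nat_lit 1) (nat_lit 385) (nat_lit 422) (nat_lit 213)))))) (XT.nd (nat_lit 312) (nat_lit 304) (nat_lit 0) (XT.nd (nat_lit 156) (nat_lit 228) (nat_lit 0) (XT.nd (nat_lit 78) (nat_lit 0) (nat_lit 0) (XT.lf (nat_lit 152) (nat_lit 4388098058) (nat_lit 0) (nat_lit 103811430) (nat_lit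 76) (nat_lit 103811430) (nat_lit 29) (nat_lit 1) (nat_lit 27) (nat_lit 1) (nat_lit 28) (nat_lit 1) (nat_lit 386) (nat_lit 422) (nat_lit 212)) (XT.lf (nat_lit 0) (nat_lit 1416920614) (nat_lit 0) (nat_lit 1716348438) (nat_lit 152) (nat_lit 1416920614) (nat_lit 27) (nat_lit 3) (nat_lit 27) (nat_lit 1) (nat_lit 29) (nat_lit 1) (nat_lit 387) (nat_lit 422) (nat_lit 211))) (XT.nd (nat_lit 78) (nat_lit 152) (nat_lit 0) (XT.lf (nat_lit 76) (nat_lit 1308027070) (nat_lit 0) (nat_lit 1598733695) (nat_lit 76) (nat_lit 1598733695) (nat_lit 27) (nat_lit 3) (nat_lit 26) (nat_lit 1) (nat_lit 27) (nat_lit 1) (nat_lit 388) (nat_lit 422) (nat_lit 210)) (XT.lf (nat_lit 152) (nat_lit 4277145639) (nat_lit 0) (nat_lit 92235111) (nat_lit 76) (nat_lit 92235111) (nat_lit 26) (nat_lit 1) (nat_lit 24) (nat_lit 1) (nat_lit 25) (nat_lit 1) (nat_lit 389) (nat_lit 422) (nat_lit 209)))) (XT.nd (nat_lit 156) (nat_lit 228) (nat_lit 0)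 (XT.nd (nat_lit 78) (nat_lit 76) (nat_lit 0) (XT.lf (nat_lit 0) (nat_lit 1383792627) (nat_lit 0) (nat_lit 1649830370) (nat_lit 152) (nat_lit 1383792627) (nat_lit 24) (nat_lit 3) (nat_lit 24) (nat_lit 1) (nat_lit 26) (nat_lit 1) (nat_lit 390) (nat_lit 422) (nat_lit 208)) (XT.lf (nat_lit 76) (nat_lit 1285817839) (nat_lit 0) (nat_lit 1544106910) (nat_lit 76) (nat_lit 1544106910) (nat_lit 24) (nat_lit 3) (nat_lit 23) (nat_lit 1) (nat_lit 24) (nat_lit 1) (nat_lit 391) (nat_lit 422) (nat_lit 207))) (XT.nd (nat_lit 78) (nat_lit 76) (nat_lit 0) (XT.lf (nat_lit 152) (nat_lit 4167545153) (nat_lit 0) (nat_lit 81949702) (nat_lit 76) (nat_lit 81949702) (nat_lit 23) (nat_lit 1) (nat_lit 21) (nat_lit 1) (nat_lit 22) (nat_lit 1) (nat_lit 392) (nat_lit 422) (nat_lit 206)) (XT.nd (nat_lit 78) (nat_lit 76) (nat_lit 0) (XT.lf (nat_lit 0) (nat_lit 1350721645) (nat_lit 0) (nat_lit 1587092733) (nat_lit 152) (nat_lit 1350721645)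 (nat_lit 21) (nat_lit 3) (nat_lit 21) (nat_lit 1) (nat_lit 23) (nat_lit 1) (nat_lit 393) (nat_lit 422) (nat_lit 205)) (XT.lf (nat_lit 76) (nat_lit 1262483689) (nat_lit 0) (nat_lit 1491970183) (nat_lit 76) (nat_lit 1491970183) (nat_lit 21) (nat_lit 3) (nat_lit 20) (nat_lit 1) (nat_lit 21) (nat_lit 1) (nat_lit 394) (nat_lit 422) (nat_lit 204))))))) (XT.nd (nat_lit 702) (nat_lit 608) (nat_lit 0) (XT.nd (nat_lit 312) (nat_lit 304) (nat_lit 0) (XT.nd (nat_lit 156) (nat_lit 228) (nat_lit 0) (XT.nd (nat_lit 78) (nat_lit 0) (nat_lit 0) (XT.lf (nat_lit 152) (nat_lit 4059466833) (nat_lit 0) (nat_lit 72811248) (nat_lit 76) (nat_lit 72811248) (nat_lit 20) (nat_lit 1) (nat_lit 18) (nat_lit 1) (nat_lit 19) (nat_lit 1) (nat_lit 395) (nat_lit 422) (nat_lit 203)) (XT.lf (nat_lit 0) (nat_lit 1317807248) (nat_lit 0) (nat_lit 1527819899) (nat_lit 152) (nat_lit 1317807248) (nat_lit 18) (nat_lit 3) (nat_lit 18) (nat_lit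 1) (nat_lit 20) (nat_lit 1) (nat_lit 396) (nat_lit 422) (nat_lit 202))) (XT.nd (nat_lit 78) (nat_lit 152) (nat_lit 0) (XT.lf (nat_lit 76) (nat_lit 1238254962) (nat_lit 0) (nat_lit 1442150740) (nat_lit 76) (nat_lit 1442150740) (nat_lit 18) (nat_lit 3) (nat_lit 17) (nat_lit 1) (nat_lit 18) (nat_lit 1) (nat_lit 397) (nat_lit 422) (nat_lit 201)) (XT.lf (nat_lit 152) (nat_lit 3953052578) (nat_lit 0) (nat_lit 64691851) (nat_lit 76) (nat_lit 64691851) (nat_lit 17) (nat_lit 1) (nat_lit 15) (nat_lit 1) (nat_lit 16) (nat_lit 1) (nat_lit 398) (nat_lit 422) (nat_lit 200)))) (XT.nd (nat_lit 156) (nat_lit 228) (nat_lit 0) (XT.nd (nat_lit 78) (nat_lit 76) (nat_lit 0) (XT.lf (nat_lit 0) (nat_lit 1285134829) (nat_lit 0) (nat_lit 1471728349) (nat_lit 152) (nat_lit 1285134829) (nat_lit 15) (nat_lit 3) (nat_lit 15) (nat_lit 1) (nat_lit 17) (nat_lit 1) (nat_lit 399) (nat_lit 422) (nat_lit 199)) (XT.lf (nat_lit 76) (nat_lit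 1213333259) (nat_lit 0) (nat_lit 1394492017) (nat_lit 76) (nat_lit 1394492017) (nat_lit 15) (nat_lit 3) (nat_lit 14) (nat_lit 1) (nat_lit 15) (nat_lit 1) (nat_lit 400) (nat_lit 422) (nat_lit 198))) (XT.nd (nat_lit 78) (nat_lit 76) (nat_lit 0) (XT.lf (nat_lit 152) (nat_lit 3848419390) (nat_lit 0) (nat_lit 57477872) (nat_lit 76) (nat_lit 57477872) (nat_lit 14) (nat_lit 1) (nat_lit 12) (nat_lit 1) (nat_lit 13) (nat_lit 1) (nat_lit 401) (nat_lit 422) (nat_lit 197)) (XT.nd (nat_lit 78) (nat_lit 76) (nat_lit 0) (XT.lf (nat_lit 0) (nat_lit 1252777259) (nat_lit 0) (nat_lit 1418563185) (nat_lit 152) (nat_lit 1252777259) (nat_lit 12) (nat_lit 3) (nat_lit 12) (nat_lit 1) (nat_lit 14) (nat_lit 1) (nat_lit 402) (nat_lit 422) (nat_lit 196)) (XT.lf (nat_lit 76) (nat_lit 1187894734) (nat_lit 0) (nat_lit 1348851944) (nat_lit 76) (nat_lit 1348851944) (nat_lit 12) (nat_lit 3) (nat_lit 11) (nat_lit 1) (nat_lit 12) (nat_lit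 1) (nat_lit 403) (nat_lit 422) (nat_lit 195)))))) (XT.nd (nat_lit 390) (nat_lit 228) (nat_lit 0) (XT.nd (nat_lit 156) (nat_lit 228) (nat_lit 0) (XT.nd (nat_lit 78) (nat_lit 0) (nat_lit 0) (XT.lf (nat_lit 152) (nat_lit 3745662409) (nat_lit 0) (nat_lit 51068344) (nat_lit 76) (nat_lit 51068344) (nat_lit 11) (nat_lit 1) (nat_lit 9) (nat_lit 1) (nat_lit 10) (nat_lit 1) (nat_lit 404) (nat_lit 422) (nat_lit 194)) (XT.lf (nat_lit 0) (nat_lit 1220796377) (nat_lit 0) (nat_lit 1368095025) (nat_lit 152) (nat_lit 1220796377) (nat_lit 9) (nat_lit 3) (nat_lit 9) (nat_lit 1) (nat_lit 11) (nat_lit 1) (nat_lit 405) (nat_lit 422) (nat_lit 193))) (XT.nd (nat_lit 78) (nat_lit 152) (nat_lit 0) (XT.lf (nat_lit 76) (nat_lit 1162093015) (nat_lit 0) (nat_lit 1305101411) (nat_lit 76) (nat_lit 1305101411) (nat_lit 9) (nat_lit 3) (nat_lit 8) (nat_lit 1) (nat_lit 9) (nat_lit 1) (nat_lit 406) (nat_lit 422) (nat_lit 192)) (XT.nd (nat_lit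 78) (nat_lit 0) (nat_lit 0) (XT.lf (nat_lit 152) (nat_lit 3644857611) (nat_lit 0) (nat_lit 45373563) (nat_lit 76) (nat_lit 45373563) (nat_lit 8) (nat_lit 1) (nat_lit 6) (nat_lit 1) (nat_lit 7) (nat_lit 1) (nat_lit 407) (nat_lit 422) (nat_lit 191)) (XT.lf (nat_lit 0) (nat_lit 1189244302) (nat_lit 0) (nat_lit 1320117243) (nat_lit 152) (nat_lit 1189244302) (nat_lit 6) (nat_lit 3) (nat_lit 6) (nat_lit 1) (nat_lit 8) (nat_lit 1) (nat_lit 408) (nat_lit 422) (nat_lit 190))))) (XT.nd (nat_lit 35880) (nat_lit 0) (nat_lit 27360) (XT.nd (nat_lit 78) (nat_lit 152) (nat_lit 0) (XT.lf (nat_lit 76) (nat_lit 1136061806) (nat_lit 0) (nat_lit 1263122914) (nat_lit 76) (nat_lit 1263122914) (nat_lit 6) (nat_lit 3) (nat_lit 5) (nat_lit 1) (nat_lit 6) (nat_lit 1) (nat_lit 409) (nat_lit 422) (nat_lit 189)) (XT.lf (nat_lit 152) (nat_lit 3546064190) (nat_lit 0) (nat_lit 40313823) (nat_lit 76) (nat_lit 40313823) (nat_lit 5) (nat_lit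 1) (nat_lit 3) (nat_lit 1) (nat_lit 4) (nat_lit 1) (nat_lit 410) (nat_lit 422) (nat_lit 188))) (XT.nd (nat_lit 78) (nat_lit 0) (nat_lit 76) (XT.lf (nat_lit 1368) (nat_lit 34310159108) (nat_lit 76) (nat_lit 2165829907) (nat_lit 0) (nat_lit 2165829907) (nat_lit 381) (nat_lit 1) (nat_lit 364) (nat_lit 1) (nat_lit 363) (nat_lit 1) (nat_lit 188) (nat_lit 423) (nat_lit 409)) (XT.nd (nat_lit 78) (nat_lit 0) (nat_lit 0) (XT.lf (nat_lit 1368) (nat_lit 15553096143) (nat_lit 0) (nat_lit 7005951329) (nat_lit 1292) (nat_lit 15553096143) (nat_lit 382) (nat_lit 1) (nat_lit 364) (nat_lit 1) (nat_lit 381) (nat_lit 1) (nat_lit 189) (nat_lit 423) (nat_lit 408)) (XT.lf (nat_lit 1368) (nat_lit 27926859088) (nat_lit 76) (nat_lit 4834518048) (nat_lit 0) (nat_lit 4834518048) (nat_lit 382) (nat_lit 1) (nat_lit 365) (nat_lit 1) (nat_lit 364) (nat_lit 1) (nat_lit 190) (nat_lit 423) (nat_lit 407))))))))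
noncomputable def ec437 : XT := (XT.nd (nat_lit 1482) (nat_lit 4712) (nat_lit 0) (XT.nd (nat_lit 702) (nat_lit 2584) (nat_lit 0) (XT.nd (nat_lit 312) (nat_lit 1824) (nat_lit 0) (XT.nd (nat_lit 156) (nat_lit 608) (nat_lit 0) (XT.nd (nat_lit 78) (nat_lit 836) (nat_lit 0) (XT.lf (nat_lit 76) (nat_lit 12281812136) (nat_lit 0) (nat_lit 12523005342) (nat_lit 1292) (nat_lit 12281812136) (nat_lit 366) (nat_lit 1) (nat_lit 365) (nat_lit 1) (nat_lit 382) (nat_lit 1) (nat_lit 191) (nat_lit 423) (nat_lit 406)) (XT.lf (nat_lit 912) (nat_lit 21175573191) (nat_lit 0) (nat_lit 7706523937) (nat_lit 836) (nat_lit 7706523937) (nat_lit 366) (nat_lit 1) (nat_lit 354) (nat_lit 1) (nat_lit 365) (nat_lit 1) (nat_lit 192) (nat_lit 423) (nat_lit 405))) (XT.nd (nat_lit 78) (nat_lit 608) (nat_lit 0) (XT.lf (nat_lit 76) (nat_lit 8838272034) (nat_lit 0) (nat_lit 18422466973) (nat_lit 912) (nat_lit 8838272034) (nat_lit 355) (nat_lit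 1) (nat_lit 354) (nat_lit 1) (nat_lit 366) (nat_lit 1) (nat_lit 193) (nat_lit 423) (nat_lit 404)) (XT.lf (nat_lit 684) (nat_lit 14098815994) (nat_lit 0) (nat_lit 10759792477) (nat_lit 608) (nat_lit 10759792477) (nat_lit 355) (nat_lit 1) (nat_lit 346) (nat_lit 1) (nat_lit 354) (nat_lit 1) (nat_lit 194) (nat_lit 423) (nat_lit 403)))) (XT.nd (nat_lit 156) (nat_lit 1216) (nat_lit 0) (XT.nd (nat_lit 78) (nat_lit 608) (nat_lit 0) (XT.lf (nat_lit 76) (nat_lit 5242850677) (nat_lit 0) (nat_lit 24662022060) (nat_lit 684) (nat_lit 5242850677) (nat_lit 347) (nat_lit 1) (nat_lit 346) (nat_lit 1) (nat_lit 355) (nat_lit 1) (nat_lit 195) (nat_lit 423) (nat_lit 402)) (XT.lf (nat_lit 684) (nat_lit 6736038533) (nat_lit 0) (nat_lit 13973837067) (nat_lit 608) (nat_lit 13973837067) (nat_lit 347) (nat_lit 1) (nat_lit 338) (nat_lit 1) (nat_lit 346) (nat_lit 1) (nat_lit 196) (nat_lit 423) (nat_lit 401))) (XT.nd (nat_lit 78)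 (nat_lit 1216) (nat_lit 0) (XT.lf (nat_lit 76) (nat_lit 1514447870) (nat_lit 0) (nat_lit 31202378526) (nat_lit 684) (nat_lit 1514447870) (nat_lit 339) (nat_lit 1) (nat_lit 338) (nat_lit 1) (nat_lit 347) (nat_lit 1) (nat_lit 197) (nat_lit 423) (nat_lit 400)) (XT.nd (nat_lit 78) (nat_lit 608) (nat_lit 0) (XT.lf (nat_lit 76) (nat_lit 16461885417) (nat_lit 0) (nat_lit 859080306) (nat_lit 608) (nat_lit 16461885417) (nat_lit 331) (nat_lit 1) (nat_lit 330) (nat_lit 1) (nat_lit 338) (nat_lit 1) (nat_lit 198) (nat_lit 423) (nat_lit 399)) (XT.lf (nat_lit 684) (nat_lit 28732377727) (nat_lit 0) (nat_lit 2306580613) (nat_lit 608) (nat_lit 2306580613) (nat_lit 331) (nat_lit 1) (nat_lit 322) (nat_lit 1) (nat_lit 330) (nat_lit 1) (nat_lit 199) (nat_lit 423) (nat_lit 398)))))) (XT.nd (nat_lit 390) (nat_lit 1520) (nat_lit 0) (XT.nd (nat_lit 156) (nat_lit 532) (nat_lit 0) (XT.nd (nat_lit 78) (nat_lit 532) (nat_lit 0)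 (XT.lf (nat_lit 76) (nat_lit 12189292521) (nat_lit 0) (nat_lit 8534093176) (nat_lit 684) (nat_lit 12189292521) (nat_lit 323) (nat_lit 1) (nat_lit 322) (nat_lit 1) (nat_lit 331) (nat_lit 1) (nat_lit 200) (nat_lit 423) (nat_lit 397)) (XT.lf (nat_lit 608) (nat_lit 20067934273) (nat_lit 0) (nat_lit 6211026942) (nat_lit 532) (nat_lit 6211026942) (nat_lit 323) (nat_lit 1) (nat_lit 315) (nat_lit 1) (nat_lit 322) (nat_lit 1) (nat_lit 201) (nat_lit 423) (nat_lit 396))) (XT.nd (nat_lit 78) (nat_lit 532) (nat_lit 0) (XT.lf (nat_lit 76) (nat_lit 7842072010) (nat_lit 0) (nat_lit 16389678279) (nat_lit 608) (nat_lit 7842072010) (nat_lit 316) (nat_lit 1) (nat_lit 315) (nat_lit 1) (nat_lit 323) (nat_lit 1) (nat_lit 202) (nat_lit 423) (nat_lit 395)) (XT.nd (nat_lit 78) (nat_lit 0) (nat_lit 0) (XT.lf (nat_lit 608) (nat_lit 11267353859) (nat_lit 0) (nat_lit 10198871914) (nat_lit 532) (nat_lit 10198871914) (nat_lit 316)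 (nat_lit 1) (nat_lit 308) (nat_lit 1) (nat_lit 315) (nat_lit 1) (nat_lit 203) (nat_lit 423) (nat_lit 394)) (XT.lf (nat_lit 76) (nat_lit 3433825056) (nat_lit 0) (nat_lit 24397378301) (nat_lit 608) (nat_lit 3433825056) (nat_lit 309) (nat_lit 1) (nat_lit 308) (nat_lit 1) (nat_lit 316) (nat_lit 1) (nat_lit 204) (nat_lit 423) (nat_lit 393))))) (XT.nd (nat_lit 156) (nat_lit 456) (nat_lit 0) (XT.nd (nat_lit 78) (nat_lit 608) (nat_lit 0) (XT.lf (nat_lit 532) (nat_lit 2356903093) (nat_lit 0) (nat_lit 14256370926) (nat_lit 456) (nat_lit 14256370926) (nat_lit 309) (nat_lit 1) (nat_lit 302) (nat_lit 1) (nat_lit 308) (nat_lit 1) (nat_lit 205) (nat_lit 423) (nat_lit 392)) (XT.lf (nat_lit 608) (nat_lit 28458170164) (nat_lit 0) (nat_lit 1012870884) (nat_lit 532) (nat_lit 1012870884) (nat_lit 302) (nat_lit 1) (nat_lit 294) (nat_lit 1) (nat_lit 301) (nat_lit 1) (nat_lit 206) (nat_lit 423) (nat_lit 391))) (XT.nd (nat_lit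 78) (nat_lit 456) (nat_lit 0) (XT.lf (nat_lit 76) (nat_lit 11795452622) (nat_lit 0) (nat_lit 6509642018) (nat_lit 608) (nat_lit 11795452622) (nat_lit 295) (nat_lit 1) (nat_lit 294) (nat_lit 1) (nat_lit 302) (nat_lit 1) (nat_lit 207) (nat_lit 423) (nat_lit 390)) (XT.nd (nat_lit 78) (nat_lit 0) (nat_lit 0) (XT.lf (nat_lit 532) (nat_lit 18801585301) (nat_lit 0) (nat_lit 5462452207) (nat_lit 456) (nat_lit 5462452207) (nat_lit 295) (nat_lit 1) (nat_lit 288) (nat_lit 1) (nat_lit 294) (nat_lit 1) (nat_lit 208) (nat_lit 423) (nat_lit 389)) (XT.lf (nat_lit 76) (nat_lit 6982802902) (nat_lit 0) (nat_lit 15392299274) (nat_lit 532) (nat_lit 6982802902) (nat_lit 289) (nat_lit 1) (nat_lit 288) (nat_lit 1) (nat_lit 295) (nat_lit 1) (nat_lit 209) (nat_lit 423) (nat_lit 388))))))) (XT.nd (nat_lit 702) (nat_lit 2128) (nat_lit 0) (XT.nd (nat_lit 312) (nat_lit 1216) (nat_lit 0) (XT.nd (nat_lit 156) (nat_lit 912) (nat_lit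 0) (XT.nd (nat_lit 78) (nat_lit 0) (nat_lit 0) (XT.lf (nat_lit 532) (nat_lit 9119575184) (nat_lit 0) (nat_lit 9938042722) (nat_lit 456) (nat_lit 9938042722) (nat_lit 289) (nat_lit 1) (nat_lit 282) (nat_lit 1) (nat_lit 288) (nat_lit 1) (nat_lit 210) (nat_lit 423) (nat_lit 387)) (XT.lf (nat_lit 76) (nat_lit 2162199131) (nat_lit 0) (nat_lit 24316938836) (nat_lit 532) (nat_lit 2162199131) (nat_lit 283) (nat_lit 1) (nat_lit 282) (nat_lit 1) (nat_lit 289) (nat_lit 1) (nat_lit 211) (nat_lit 423) (nat_lit 386))) (XT.nd (nat_lit 78) (nat_lit 456) (nat_lit 0) (XT.lf (nat_lit 76) (nat_lit 13865912160) (nat_lit 0) (nat_lit 558401388) (nat_lit 456) (nat_lit 13865912160) (nat_lit 277) (nat_lit 1) (nat_lit 276) (nat_lit 1) (nat_lit 282) (nat_lit 1) (nat_lit 212) (nat_lit 423) (nat_lit 385)) (XT.lf (nat_lit 532) (nat_lit 22683610281) (nat_lit 0) (nat_lit 2631568711) (nat_lit 456) (nat_lit 2631568711) (nat_lit 277)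 (nat_lit 1) (nat_lit 270) (nat_lit 1) (nat_lit 276) (nat_lit 1) (nat_lit 213) (nat_lit 423) (nat_lit 384)))) (XT.nd (nat_lit 156) (nat_lit 836) (nat_lit 0) (XT.nd (nat_lit 78) (nat_lit 380) (nat_lit 0) (XT.lf (nat_lit 76) (nat_lit 8778920701) (nat_lit 0) (nat_lit 10048891047) (nat_lit 532) (nat_lit 8778920701) (nat_lit 271) (nat_lit 1) (nat_lit 270) (nat_lit 1) (nat_lit 277) (nat_lit 1) (nat_lit 214) (nat_lit 423) (nat_lit 383)) (XT.lf (nat_lit 456) (nat_lit 12482848224) (nat_lit 0) (nat_lit 7395451428) (nat_lit 380) (nat_lit 7395451428) (nat_lit 271) (nat_lit 1) (nat_lit 265) (nat_lit 1) (nat_lit 270) (nat_lit 1) (nat_lit 215) (nat_lit 423) (nat_lit 382))) (XT.nd (nat_lit 78) (nat_lit 836) (nat_lit 0) (XT.lf (nat_lit 76) (nat_lit 3716038911) (nat_lit 0) (nat_lit 19514790593) (nat_lit 456) (nat_lit 3716038911) (nat_lit 266) (nat_lit 1) (nat_lit 265) (nat_lit 1) (nat_lit 271) (nat_lit 1) (nat_lit 216)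 (nat_lit 423) (nat_lit 381)) (XT.nd (nat_lit 78) (nat_lit 456) (nat_lit 0) (XT.lf (nat_lit 456) (nat_lit 2337095764) (nat_lit 0) (nat_lit 12143419185) (nat_lit 380) (nat_lit 12143419185) (nat_lit 266) (nat_lit 1) (nat_lit 260) (nat_lit 1) (nat_lit 265) (nat_lit 1) (nat_lit 217) (nat_lit 423) (nat_lit 380)) (XT.lf (nat_lit 456) (nat_lit 23701387446) (nat_lit 0) (nat_lit 1303409120) (nat_lit 380) (nat_lit 1303409120) (nat_lit 260) (nat_lit 1) (nat_lit 254) (nat_lit 1) (nat_lit 259) (nat_lit 1) (nat_lit 218) (nat_lit 423) (nat_lit 379)))))) (XT.nd (nat_lit 390) (nat_lit 988) (nat_lit 0) (XT.nd (nat_lit 156) (nat_lit 760) (nat_lit 0) (XT.nd (nat_lit 78) (nat_lit 380) (nat_lit 0) (XT.lf (nat_lit 76) (nat_lit 9201946887) (nat_lit 0) (nat_lit 7590290133) (nat_lit 456) (nat_lit 9201946887) (nat_lit 255) (nat_lit 1) (nat_lit 254) (nat_lit 1) (nat_lit 260) (nat_lit 1) (nat_lit 219) (nat_lit 423) (nat_lit 378))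 (XT.lf (nat_lit 456) (nat_lit 13186281424) (nat_lit 0) (nat_lit 6250429776) (nat_lit 380) (nat_lit 6250429776) (nat_lit 255) (nat_lit 1) (nat_lit 249) (nat_lit 1) (nat_lit 254) (nat_lit 1) (nat_lit 220) (nat_lit 423) (nat_lit 377))) (XT.nd (nat_lit 78) (nat_lit 760) (nat_lit 0) (XT.lf (nat_lit 76) (nat_lit 3995040562) (nat_lit 0) (nat_lit 17395157283) (nat_lit 456) (nat_lit 3995040562) (nat_lit 250) (nat_lit 1) (nat_lit 249) (nat_lit 1) (nat_lit 255) (nat_lit 1) (nat_lit 221) (nat_lit 423) (nat_lit 376)) (XT.nd (nat_lit 78) (nat_lit 456) (nat_lit 0) (XT.lf (nat_lit 380) (nat_lit 2774685707) (nat_lit 0) (nat_lit 11156238102) (nat_lit 304) (nat_lit 11156238102) (nat_lit 250) (nat_lit 1) (nat_lit 245) (nat_lit 1) (nat_lit 249) (nat_lit 1) (nat_lit 222) (nat_lit 423) (nat_lit 375)) (XT.lf (nat_lit 456) (nat_lit 22502055895) (nat_lit 0) (nat_lit 1146784262) (nat_lit 380) (nat_lit 1146784262) (nat_lit 245)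 (nat_lit 1) (nat_lit 239) (nat_lit 1) (nat_lit 244) (nat_lit 1) (nat_lit 223) (nat_lit 423) (nat_lit 374))))) (XT.nd (nat_lit 156) (nat_lit 684) (nat_lit 0) (XT.nd (nat_lit 78) (nat_lit 304) (nat_lit 0) (XT.lf (nat_lit 76) (nat_lit 8563686111) (nat_lit 0) (nat_lit 7377940131) (nat_lit 456) (nat_lit 8563686111) (nat_lit 240) (nat_lit 1) (nat_lit 239) (nat_lit 1) (nat_lit 245) (nat_lit 1) (nat_lit 224) (nat_lit 423) (nat_lit 373)) (XT.lf (nat_lit 380) (nat_lit 11836899989) (nat_lit 0) (nat_lit 6192224605) (nat_lit 304) (nat_lit 6192224605) (nat_lit 240) (nat_lit 1) (nat_lit 235) (nat_lit 1) (nat_lit 239) (nat_lit 1) (nat_lit 225) (nat_lit 423) (nat_lit 372))) (XT.nd (nat_lit 78) (nat_lit 684) (nat_lit 0) (XT.lf (nat_lit 76) (nat_lit 3291661075) (nat_lit 0) (nat_lit 17358921160) (nat_lit 380) (nat_lit 3291661075) (nat_lit 236) (nat_lit 1) (nat_lit 235) (nat_lit 1) (nat_lit 240) (nat_lit 1) (nat_lit 226)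 (nat_lit 423) (nat_lit 371)) (XT.nd (nat_lit 78) (nat_lit 380) (nat_lit 0) (XT.lf (nat_lit 380) (nat_lit 1312575639) (nat_lit 0) (nat_lit 11176867110) (nat_lit 304) (nat_lit 11176867110) (nat_lit 236) (nat_lit 1) (nat_lit 231) (nat_lit 1) (nat_lit 235) (nat_lit 1) (nat_lit 227) (nat_lit 423) (nat_lit 370)) (XT.lf (nat_lit 380) (nat_lit 19615599974) (nat_lit 0) (nat_lit 1890110920) (nat_lit 304) (nat_lit 1890110920) (nat_lit 231) (nat_lit 1) (nat_lit 226) (nat_lit 1) (nat_lit 230) (nat_lit 1) (nat_lit 228) (nat_lit 423) (nat_lit 369))))))))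
noncomputable def ec438 : XT := (XT.nd (nat_lit 1482) (nat_lit 2584) (nat_lit 0) (XT.nd (nat_lit 702) (nat_lit 1520) (nat_lit 0) (XT.nd (nat_lit 312) (nat_lit 912) (nat_lit 0) (XT.nd (nat_lit 156) (nat_lit 304) (nat_lit 0) (XT.nd (nat_lit 78) (nat_lit 304) (nat_lit 0) (XT.lf (nat_lit 76) (nat_lit 7119406180) (nat_lit 0) (nat_lit 8888375495) (nat_lit 380) (nat_lit 7119406180) (nat_lit 227) (nat_lit 1) (nat_lit 226) (nat_lit 1) (nat_lit 231) (nat_lit 1) (nat_lit 229) (nat_lit 423) (nat_lit 368)) (XT.lf (nat_lit 380) (nat_lit 8931489274) (nat_lit 0) (nat_lit 6966175413) (nat_lit 304) (nat_lit 6966175413) (nat_lit 227) (nat_lit 1) (nat_lit 222) (nat_lit 1) (nat_lit 226) (nat_lit 1) (nat_lit 230) (nat_lit 423) (nat_lit 367))) (XT.nd (nat_lit 78) (nat_lit 304) (nat_lit 0) (XT.lf (nat_lit 76) (nat_lit 1845158913) (nat_lit 0) (nat_lit 18915269193) (nat_lit 380) (nat_lit 1845158913) (nat_lit 223) (nat_lit 1)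 (nat_lit 222) (nat_lit 1) (nat_lit 227) (nat_lit 1) (nat_lit 231) (nat_lit 423) (nat_lit 366)) (XT.lf (nat_lit 76) (nat_lit 10398129256) (nat_lit 0) (nat_lit 1552739397) (nat_lit 304) (nat_lit 10398129256) (nat_lit 219) (nat_lit 1) (nat_lit 218) (nat_lit 1) (nat_lit 222) (nat_lit 1) (nat_lit 232) (nat_lit 423) (nat_lit 365)))) (XT.nd (nat_lit 156) (nat_lit 608) (nat_lit 0) (XT.nd (nat_lit 78) (nat_lit 0) (nat_lit 0) (XT.lf (nat_lit 380) (nat_lit 15474622072) (nat_lit 0) (nat_lit 3311369977) (nat_lit 304) (nat_lit 3311369977) (nat_lit 219) (nat_lit 1) (nat_lit 214) (nat_lit 1) (nat_lit 218) (nat_lit 1) (nat_lit 233) (nat_lit 423) (nat_lit 364)) (XT.lf (nat_lit 76) (nat_lit 5077385335) (nat_lit 0) (nat_lit 11693822125) (nat_lit 380) (nat_lit 5077385335) (nat_lit 215) (nat_lit 1) (nat_lit 214) (nat_lit 1) (nat_lit 219) (nat_lit 1) (nat_lit 234) (nat_lit 423) (nat_lit 363))) (XT.nd (nat_lit 78) (nat_lit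 380) (nat_lit 0) (XT.lf (nat_lit 304) (nat_lit 4875221084) (nat_lit 0) (nat_lit 8364254503) (nat_lit 228) (nat_lit 8364254503) (nat_lit 215) (nat_lit 1) (nat_lit 211) (nat_lit 1) (nat_lit 214) (nat_lit 1) (nat_lit 235) (nat_lit 423) (nat_lit 362)) (XT.nd (nat_lit 78) (nat_lit 0) (nat_lit 0) (XT.lf (nat_lit 380) (nat_lit 21068525102) (nat_lit 0) (nat_lit 147947538) (nat_lit 304) (nat_lit 147947538) (nat_lit 211) (nat_lit 1) (nat_lit 206) (nat_lit 1) (nat_lit 210) (nat_lit 1) (nat_lit 236) (nat_lit 423) (nat_lit 361)) (XT.lf (nat_lit 76) (nat_lit 7849041146) (nat_lit 0) (nat_lit 5426557499) (nat_lit 380) (nat_lit 7849041146) (nat_lit 207) (nat_lit 1) (nat_lit 206) (nat_lit 1) (nat_lit 211) (nat_lit 1) (nat_lit 237) (nat_lit 423) (nat_lit 360)))))) (XT.nd (nat_lit 390) (nat_lit 760) (nat_lit 0) (XT.nd (nat_lit 156) (nat_lit 532) (nat_lit 0) (XT.nd (nat_lit 78) (nat_lit 0) (nat_lit 0) (XT.lf (nat_lit 304)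 (nat_lit 10430858604) (nat_lit 0) (nat_lit 5229717568) (nat_lit 228) (nat_lit 5229717568) (nat_lit 207) (nat_lit 1) (nat_lit 203) (nat_lit 1) (nat_lit 206) (nat_lit 1) (nat_lit 238) (nat_lit 423) (nat_lit 359)) (XT.lf (nat_lit 76) (nat_lit 2606886685) (nat_lit 0) (nat_lit 15445991899) (nat_lit 304) (nat_lit 2606886685) (nat_lit 204) (nat_lit 1) (nat_lit 203) (nat_lit 1) (nat_lit 207) (nat_lit 1) (nat_lit 239) (nat_lit 423) (nat_lit 358))) (XT.nd (nat_lit 78) (nat_lit 228) (nat_lit 0) (XT.lf (nat_lit 76) (nat_lit 10214402502) (nat_lit 0) (nat_lit 2734790) (nat_lit 304) (nat_lit 10214402502) (nat_lit 200) (nat_lit 1) (nat_lit 199) (nat_lit 1) (nat_lit 203) (nat_lit 1) (nat_lit 240) (nat_lit 423) (nat_lit 357)) (XT.nd (nat_lit 78) (nat_lit 0) (nat_lit 0) (XT.lf (nat_lit 304) (nat_lit 15189321424) (nat_lit 0) (nat_lit 2508852612) (nat_lit 228) (nat_lit 2508852612) (nat_lit 200) (nat_lit 1) (nat_lit 196)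 (nat_lit 1) (nat_lit 199) (nat_lit 1) (nat_lit 241) (nat_lit 423) (nat_lit 356)) (XT.lf (nat_lit 76) (nat_lit 4976027420) (nat_lit 0) (nat_lit 10032617608) (nat_lit 304) (nat_lit 4976027420) (nat_lit 197) (nat_lit 1) (nat_lit 196) (nat_lit 1) (nat_lit 200) (nat_lit 1) (nat_lit 242) (nat_lit 423) (nat_lit 355))))) (XT.nd (nat_lit 156) (nat_lit 228) (nat_lit 0) (XT.nd (nat_lit 78) (nat_lit 304) (nat_lit 0) (XT.lf (nat_lit 304) (nat_lit 4768971006) (nat_lit 0) (nat_lit 7498479377) (nat_lit 228) (nat_lit 7498479377) (nat_lit 197) (nat_lit 1) (nat_lit 193) (nat_lit 1) (nat_lit 196) (nat_lit 1) (nat_lit 243) (nat_lit 423) (nat_lit 354)) (XT.lf (nat_lit 304) (nat_lit 19244679096) (nat_lit 0) (nat_lit 153661972) (nat_lit 228) (nat_lit 153661972) (nat_lit 193) (nat_lit 1) (nat_lit 189) (nat_lit 1) (nat_lit 192) (nat_lit 1) (nat_lit 244) (nat_lit 423) (nat_lit 353))) (XT.nd (nat_lit 78) (nat_lit 228) (nat_lit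 0) (XT.lf (nat_lit 76) (nat_lit 7003507141) (nat_lit 0) (nat_lit 5330407950) (nat_lit 304) (nat_lit 7003507141) (nat_lit 190) (nat_lit 1) (nat_lit 189) (nat_lit 1) (nat_lit 193) (nat_lit 1) (nat_lit 245) (nat_lit 423) (nat_lit 352)) (XT.nd (nat_lit 78) (nat_lit 0) (nat_lit 0) (XT.lf (nat_lit 304) (nat_lit 8869643914) (nat_lit 0) (nat_lit 5128962668) (nat_lit 228) (nat_lit 5128962668) (nat_lit 190) (nat_lit 1) (nat_lit 186) (nat_lit 1) (nat_lit 189) (nat_lit 1) (nat_lit 246) (nat_lit 423) (nat_lit 351)) (XT.lf (nat_lit 76) (nat_lit 1897043717) (nat_lit 0) (nat_lit 15127183243) (nat_lit 304) (nat_lit 1897043717) (nat_lit 187) (nat_lit 1) (nat_lit 186) (nat_lit 1) (nat_lit 190) (nat_lit 1) (nat_lit 247) (nat_lit 423) (nat_lit 350))))))) (XT.nd (nat_lit 702) (nat_lit 1292) (nat_lit 0) (XT.nd (nat_lit 312) (nat_lit 684) (nat_lit 0) (XT.nd (nat_lit 156) (nat_lit 152) (nat_lit 0) (XT.nd (nat_lit 78) (nat_lit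 228) (nat_lit 0) (XT.lf (nat_lit 76) (nat_lit 8729681918) (nat_lit 0) (nat_lit 1256927695) (nat_lit 228) (nat_lit 8729681918) (nat_lit 184) (nat_lit 1) (nat_lit 183) (nat_lit 1) (nat_lit 186) (nat_lit 1) (nat_lit 248) (nat_lit 423) (nat_lit 349)) (XT.lf (nat_lit 304) (nat_lit 12378112225) (nat_lit 0) (nat_lit 3068338126) (nat_lit 228) (nat_lit 3068338126) (nat_lit 184) (nat_lit 1) (nat_lit 180) (nat_lit 1) (nat_lit 183) (nat_lit 1) (nat_lit 249) (nat_lit 423) (nat_lit 348))) (XT.nd (nat_lit 78) (nat_lit 152) (nat_lit 0) (XT.lf (nat_lit 76) (nat_lit 3661151333) (nat_lit 0) (nat_lit 10993282199) (nat_lit 304) (nat_lit 3661151333) (nat_lit 181) (nat_lit 1) (nat_lit 180) (nat_lit 1) (nat_lit 184) (nat_lit 1) (nat_lit 250) (nat_lit 423) (nat_lit 347)) (XT.lf (nat_lit 228) (nat_lit 2305972422) (nat_lit 0) (nat_lit 7906535868) (nat_lit 152) (nat_lit 7906535868) (nat_lit 181) (nat_lit 1) (nat_lit 178) (nat_lit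 1) (nat_lit 180) (nat_lit 1) (nat_lit 251) (nat_lit 423) (nat_lit 346)))) (XT.nd (nat_lit 156) (nat_lit 380) (nat_lit 0) (XT.nd (nat_lit 78) (nat_lit 0) (nat_lit 0) (XT.lf (nat_lit 304) (nat_lit 15364344320) (nat_lit 0) (nat_lit 1280859486) (nat_lit 228) (nat_lit 1280859486) (nat_lit 178) (nat_lit 1) (nat_lit 174) (nat_lit 1) (nat_lit 177) (nat_lit 1) (nat_lit 252) (nat_lit 423) (nat_lit 345)) (XT.lf (nat_lit 76) (nat_lit 5170994823) (nat_lit 0) (nat_lit 7391637213) (nat_lit 304) (nat_lit 5170994823) (nat_lit 175) (nat_lit 1) (nat_lit 174) (nat_lit 1) (nat_lit 178) (nat_lit 1) (nat_lit 253) (nat_lit 423) (nat_lit 344))) (XT.nd (nat_lit 78) (nat_lit 228) (nat_lit 0) (XT.lf (nat_lit 228) (nat_lit 5393450118) (nat_lit 0) (nat_lit 6075617282) (nat_lit 152) (nat_lit 6075617282) (nat_lit 175) (nat_lit 1) (nat_lit 172) (nat_lit 1) (nat_lit 174) (nat_lit 1) (nat_lit 254) (nat_lit 423) (nat_lit 343)) (XT.nd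 (nat_lit 78) (nat_lit 228) (nat_lit 0) (XT.lf (nat_lit 76) (nat_lit 267821155) (nat_lit 0) (nat_lit 16824048010) (nat_lit 228) (nat_lit 267821155) (nat_lit 173) (nat_lit 1) (nat_lit 172) (nat_lit 1) (nat_lit 175) (nat_lit 1) (nat_lit 255) (nat_lit 423) (nat_lit 342)) (XT.lf (nat_lit 76) (nat_lit 6456603948) (nat_lit 0) (nat_lit 4260818942) (nat_lit 228) (nat_lit 6456603948) (nat_lit 170) (nat_lit 1) (nat_lit 169) (nat_lit 1) (nat_lit 172) (nat_lit 1) (nat_lit 256) (nat_lit 423) (nat_lit 341)))))) (XT.nd (nat_lit 390) (nat_lit 760) (nat_lit 0) (XT.nd (nat_lit 156) (nat_lit 380) (nat_lit 0) (XT.nd (nat_lit 78) (nat_lit 0) (nat_lit 0) (XT.lf (nat_lit 228) (nat_lit 8039217843) (nat_lit 0) (nat_lit 4476517526) (nat_lit 152) (nat_lit 4476517526) (nat_lit 170) (nat_lit 1) (nat_lit 167) (nat_lit 1) (nat_lit 169) (nat_lit 1) (nat_lit 257) (nat_lit 423) (nat_lit 340)) (XT.lf (nat_lit 76) (nat_lit 1613796224)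 (nat_lit 0) (nat_lit 13585862554) (nat_lit 228) (nat_lit 1613796224) (nat_lit 168) (nat_lit 1) (nat_lit 167) (nat_lit 1) (nat_lit 170) (nat_lit 1) (nat_lit 258) (nat_lit 423) (nat_lit 339))) (XT.nd (nat_lit 78) (nat_lit 152) (nat_lit 0) (XT.lf (nat_lit 76) (nat_lit 7544610945) (nat_lit 0) (nat_lit 1546308672) (nat_lit 228) (nat_lit 7544610945) (nat_lit 165) (nat_lit 1) (nat_lit 164) (nat_lit 1) (nat_lit 167) (nat_lit 1) (nat_lit 259) (nat_lit 423) (nat_lit 338)) (XT.nd (nat_lit 78) (nat_lit 0) (nat_lit 0) (XT.lf (nat_lit 228) (nat_lit 10295369346) (nat_lit 0) (nat_lit 3082580523) (nat_lit 152) (nat_lit 3082580523) (nat_lit 165) (nat_lit 1) (nat_lit 162) (nat_lit 1) (nat_lit 164) (nat_lit 1) (nat_lit 260) (nat_lit 423) (nat_lit 337)) (XT.lf (nat_lit 76) (nat_lit 2769604613) (nat_lit 0) (nat_lit 10748449131) (nat_lit 228) (nat_lit 2769604613) (nat_lit 163) (nat_lit 1) (nat_lit 162) (nat_lit 1) (nat_lit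 165) (nat_lit 1) (nat_lit 261) (nat_lit 423) (nat_lit 336))))) (XT.nd (nat_lit 156) (nat_lit 380) (nat_lit 0) (XT.nd (nat_lit 78) (nat_lit 228) (nat_lit 0) (XT.lf (nat_lit 228) (nat_lit 816201088) (nat_lit 0) (nat_lit 7650275553) (nat_lit 152) (nat_lit 7650275553) (nat_lit 163) (nat_lit 1) (nat_lit 160) (nat_lit 1) (nat_lit 162) (nat_lit 1) (nat_lit 262) (nat_lit 423) (nat_lit 335)) (XT.lf (nat_lit 228) (nat_lit 12208106606) (nat_lit 0) (nat_lit 1870146153) (nat_lit 152) (nat_lit 1870146153) (nat_lit 160) (nat_lit 1) (nat_lit 157) (nat_lit 1) (nat_lit 159) (nat_lit 1) (nat_lit 263) (nat_lit 423) (nat_lit 334))) (XT.nd (nat_lit 78) (nat_lit 380) (nat_lit 0) (XT.lf (nat_lit 76) (nat_lit 3757619544) (nat_lit 0) (nat_lit 8265960961) (nat_lit 228) (nat_lit 3757619544) (nat_lit 158) (nat_lit 1) (nat_lit 157) (nat_lit 1) (nat_lit 160) (nat_lit 1) (nat_lit 264) (nat_lit 423) (nat_lit 333)) (XT.nd (nat_lit 78)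 (nat_lit 228) (nat_lit 0) (XT.lf (nat_lit 228) (nat_lit 2878018199) (nat_lit 0) (nat_lit 6369246251) (nat_lit 152) (nat_lit 6369246251) (nat_lit 158) (nat_lit 1) (nat_lit 155) (nat_lit 1) (nat_lit 157) (nat_lit 1) (nat_lit 265) (nat_lit 423) (nat_lit 332)) (XT.lf (nat_lit 228) (nat_lit 13818399248) (nat_lit 0) (nat_lit 818215473) (nat_lit 152) (nat_lit 818215473) (nat_lit 155) (nat_lit 1) (nat_lit 152) (nat_lit 1) (nat_lit 154) (nat_lit 1) (nat_lit 266) (nat_lit 423) (nat_lit 331))))))))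
noncomputable def ec439 : XT := (XT.nd (nat_lit 1482) (nat_lit 1596) (nat_lit 0) (XT.nd (nat_lit 702) (nat_lit 988) (nat_lit 0) (XT.nd (nat_lit 312) (nat_lit 456) (nat_lit 0) (XT.nd (nat_lit 156) (nat_lit 152) (nat_lit 0) (XT.nd (nat_lit 78) (nat_lit 152) (nat_lit 0) (XT.lf (nat_lit 76) (nat_lit 4597685342) (nat_lit 0) (nat_lit 6097697430) (nat_lit 228) (nat_lit 4597685342) (nat_lit 153) (nat_lit 1) (nat_lit 152) (nat_lit 1) (nat_lit 155) (nat_lit 1) (nat_lit 267) (nat_lit 423) (nat_lit 330)) (XT.lf (nat_lit 228) (nat_lit 4647212092) (nat_lit 0) (nat_lit 5243532128) (nat_lit 152) (nat_lit 5243532128) (nat_lit 153) (nat_lit 1) (nat_lit 150) (nat_lit 1) (nat_lit 152) (nat_lit 1) (nat_lit 268) (nat_lit 423) (nat_lit 329))) (XT.nd (nat_lit 78) (nat_lit 152) (nat_lit 0) (XT.lf (nat_lit 76) (nat_lit 92756068) (nat_lit 0) (nat_lit 14793257294) (nat_lit 228) (nat_lit 92756068) (nat_lit 151) (nat_lit 1) (nat_lit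 150) (nat_lit 1) (nat_lit 153) (nat_lit 1) (nat_lit 269) (nat_lit 423) (nat_lit 328)) (XT.lf (nat_lit 76) (nat_lit 5307400427) (nat_lit 0) (nat_lit 4207529245) (nat_lit 152) (nat_lit 5307400427) (nat_lit 149) (nat_lit 1) (nat_lit 148) (nat_lit 1) (nat_lit 150) (nat_lit 1) (nat_lit 270) (nat_lit 423) (nat_lit 327)))) (XT.nd (nat_lit 156) (nat_lit 304) (nat_lit 0) (XT.nd (nat_lit 78) (nat_lit 0) (nat_lit 0) (XT.lf (nat_lit 228) (nat_lit 6158240372) (nat_lit 0) (nat_lit 4255450507) (nat_lit 152) (nat_lit 4255450507) (nat_lit 149) (nat_lit 1) (nat_lit 146) (nat_lit 1) (nat_lit 148) (nat_lit 1) (nat_lit 271) (nat_lit 423) (nat_lit 326)) (XT.lf (nat_lit 76) (nat_lit 885254972) (nat_lit 0) (nat_lit 12748128631) (nat_lit 228) (nat_lit 885254972) (nat_lit 147) (nat_lit 1) (nat_lit 146) (nat_lit 1) (nat_lit 149) (nat_lit 1) (nat_lit 272) (nat_lit 423) (nat_lit 325))) (XT.nd (nat_lit 78) (nat_lit 152) (nat_lit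 0) (XT.lf (nat_lit 76) (nat_lit 5902368722) (nat_lit 0) (nat_lit 2563387719) (nat_lit 152) (nat_lit 5902368722) (nat_lit 145) (nat_lit 1) (nat_lit 144) (nat_lit 1) (nat_lit 146) (nat_lit 1) (nat_lit 273) (nat_lit 423) (nat_lit 324)) (XT.nd (nat_lit 78) (nat_lit 0) (nat_lit 0) (XT.lf (nat_lit 228) (nat_lit 7441664982) (nat_lit 0) (nat_lit 3389301129) (nat_lit 152) (nat_lit 3389301129) (nat_lit 145) (nat_lit 1) (nat_lit 142) (nat_lit 1) (nat_lit 144) (nat_lit 1) (nat_lit 274) (nat_lit 423) (nat_lit 323)) (XT.lf (nat_lit 76) (nat_lit 1565996225) (nat_lit 0) (nat_lit 10942577397) (nat_lit 228) (nat_lit 1565996225) (nat_lit 143) (nat_lit 1) (nat_lit 142) (nat_lit 1) (nat_lit 145) (nat_lit 1) (nat_lit 275) (nat_lit 423) (nat_lit 322)))))) (XT.nd (nat_lit 390) (nat_lit 380) (nat_lit 0) (XT.nd (nat_lit 156) (nat_lit 304) (nat_lit 0) (XT.nd (nat_lit 78) (nat_lit 152) (nat_lit 0) (XT.lf (nat_lit 76) (nat_lit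 6396423001) (nat_lit 0) (nat_lit 1136811041) (nat_lit 152) (nat_lit 6396423001) (nat_lit 141) (nat_lit 1) (nat_lit 140) (nat_lit 1) (nat_lit 142) (nat_lit 1) (nat_lit 276) (nat_lit 423) (nat_lit 321)) (XT.lf (nat_lit 228) (nat_lit 8524588169) (nat_lit 0) (nat_lit 2631144787) (nat_lit 152) (nat_lit 2631144787) (nat_lit 141) (nat_lit 1) (nat_lit 138) (nat_lit 1) (nat_lit 140) (nat_lit 1) (nat_lit 277) (nat_lit 423) (nat_lit 320))) (XT.nd (nat_lit 78) (nat_lit 304) (nat_lit 0) (XT.lf (nat_lit 76) (nat_lit 2148123331) (nat_lit 0) (nat_lit 9349552096) (nat_lit 228) (nat_lit 2148123331) (nat_lit 139) (nat_lit 1) (nat_lit 138) (nat_lit 1) (nat_lit 141) (nat_lit 1) (nat_lit 278) (nat_lit 423) (nat_lit 319)) (XT.nd (nat_lit 78) (nat_lit 228) (nat_lit 0) (XT.lf (nat_lit 152) (nat_lit 99398459) (nat_lit 0) (nat_lit 6703380318) (nat_lit 76) (nat_lit 6703380318) (nat_lit 139) (nat_lit 1) (nat_lit 137) (nat_lit 1)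 (nat_lit 138) (nat_lit 1) (nat_lit 279) (nat_lit 423) (nat_lit 318)) (XT.lf (nat_lit 228) (nat_lit 9431039787) (nat_lit 0) (nat_lit 1968606640) (nat_lit 152) (nat_lit 1968606640) (nat_lit 137) (nat_lit 1) (nat_lit 134) (nat_lit 1) (nat_lit 136) (nat_lit 1) (nat_lit 280) (nat_lit 423) (nat_lit 317))))) (XT.nd (nat_lit 156) (nat_lit 304) (nat_lit 0) (XT.nd (nat_lit 78) (nat_lit 76) (nat_lit 0) (XT.lf (nat_lit 76) (nat_lit 2643294290) (nat_lit 0) (nat_lit 7945027600) (nat_lit 228) (nat_lit 2643294290) (nat_lit 135) (nat_lit 1) (nat_lit 134) (nat_lit 1) (nat_lit 137) (nat_lit 1) (nat_lit 281) (nat_lit 423) (nat_lit 316)) (XT.lf (nat_lit 152) (nat_lit 1184957118) (nat_lit 0) (nat_lit 5955866590) (nat_lit 76) (nat_lit 5955866590) (nat_lit 135) (nat_lit 1) (nat_lit 133) (nat_lit 1) (nat_lit 134) (nat_lit 1) (nat_lit 282) (nat_lit 423) (nat_lit 315))) (XT.nd (nat_lit 78) (nat_lit 76) (nat_lit 0) (XT.lf (nat_lit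 228) (nat_lit 10182321368) (nat_lit 0) (nat_lit 1390701478) (nat_lit 152) (nat_lit 1390701478) (nat_lit 133) (nat_lit 1) (nat_lit 130) (nat_lit 1) (nat_lit 132) (nat_lit 1) (nat_lit 283) (nat_lit 423) (nat_lit 314)) (XT.nd (nat_lit 78) (nat_lit 76) (nat_lit 0) (XT.lf (nat_lit 76) (nat_lit 3061847821) (nat_lit 0) (nat_lit 6707667379) (nat_lit 228) (nat_lit 3061847821) (nat_lit 131) (nat_lit 1) (nat_lit 130) (nat_lit 1) (nat_lit 133) (nat_lit 1) (nat_lit 284) (nat_lit 423) (nat_lit 313)) (XT.lf (nat_lit 152) (nat_lit 2117520871) (nat_lit 0) (nat_lit 5291710324) (nat_lit 76) (nat_lit 5291710324) (nat_lit 131) (nat_lit 1) (nat_lit 129) (nat_lit 1) (nat_lit 130) (nat_lit 1) (nat_lit 285) (nat_lit 423) (nat_lit 312))))))) (XT.nd (nat_lit 702) (nat_lit 684) (nat_lit 0) (XT.nd (nat_lit 312) (nat_lit 380) (nat_lit 0) (XT.nd (nat_lit 156) (nat_lit 304) (nat_lit 0) (XT.nd (nat_lit 78) (nat_lit 0) (nat_lit 0) (XT.lf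 (nat_lit 228) (nat_lit 10797311788) (nat_lit 0) (nat_lit 887678479) (nat_lit 152) (nat_lit 887678479) (nat_lit 129) (nat_lit 1) (nat_lit 126) (nat_lit 1) (nat_lit 128) (nat_lit 1) (nat_lit 286) (nat_lit 423) (nat_lit 311)) (XT.lf (nat_lit 76) (nat_lit 3412951044) (nat_lit 0) (nat_lit 5618523414) (nat_lit 228) (nat_lit 3412951044) (nat_lit 127) (nat_lit 1) (nat_lit 126) (nat_lit 1) (nat_lit 129) (nat_lit 1) (nat_lit 287) (nat_lit 423) (nat_lit 310))) (XT.nd (nat_lit 78) (nat_lit 228) (nat_lit 0) (XT.lf (nat_lit 152) (nat_lit 2915080954) (nat_lit 0) (nat_lit 4701616084) (nat_lit 76) (nat_lit 4701616084) (nat_lit 127) (nat_lit 1) (nat_lit 125) (nat_lit 1) (nat_lit 126) (nat_lit 1) (nat_lit 288) (nat_lit 423) (nat_lit 309)) (XT.lf (nat_lit 228) (nat_lit 11292738798) (nat_lit 0) (nat_lit 450883287) (nat_lit 152) (nat_lit 450883287) (nat_lit 125) (nat_lit 1) (nat_lit 122) (nat_lit 1) (nat_lit 124) (nat_lit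 1) (nat_lit 289) (nat_lit 423) (nat_lit 308)))) (XT.nd (nat_lit 156) (nat_lit 304) (nat_lit 0) (XT.nd (nat_lit 78) (nat_lit 76) (nat_lit 0) (XT.lf (nat_lit 76) (nat_lit 3704730675) (nat_lit 0) (nat_lit 4660769579) (nat_lit 228) (nat_lit 3704730675) (nat_lit 123) (nat_lit 1) (nat_lit 122) (nat_lit 1) (nat_lit 125) (nat_lit 1) (nat_lit 290) (nat_lit 423) (nat_lit 307)) (XT.lf (nat_lit 152) (nat_lit 3593595251) (nat_lit 0) (nat_lit 4177324995) (nat_lit 76) (nat_lit 4177324995) (nat_lit 123) (nat_lit 1) (nat_lit 121) (nat_lit 1) (nat_lit 122) (nat_lit 1) (nat_lit 291) (nat_lit 423) (nat_lit 306))) (XT.nd (nat_lit 78) (nat_lit 76) (nat_lit 0) (XT.lf (nat_lit 228) (nat_lit 11683420236) (nat_lit 0) (nat_lit 72635470) (nat_lit 152) (nat_lit 72635470) (nat_lit 121) (nat_lit 1) (nat_lit 118) (nat_lit 1) (nat_lit 120) (nat_lit 1) (nat_lit 292) (nat_lit 423) (nat_lit 305)) (XT.nd (nat_lit 78) (nat_lit 76) (nat_lit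 0) (XT.lf (nat_lit 76) (nat_lit 3944389567) (nat_lit 0) (nat_lit 3819464761) (nat_lit 228) (nat_lit 3944389567) (nat_lit 119) (nat_lit 1) (nat_lit 118) (nat_lit 1) (nat_lit 121) (nat_lit 1) (nat_lit 293) (nat_lit 423) (nat_lit 304)) (XT.lf (nat_lit 152) (nat_lit 4167215825) (nat_lit 0) (nat_lit 3711499153) (nat_lit 76) (nat_lit 3711499153) (nat_lit 119) (nat_lit 1) (nat_lit 117) (nat_lit 1) (nat_lit 118) (nat_lit 1) (nat_lit 294) (nat_lit 423) (nat_lit 303)))))) (XT.nd (nat_lit 390) (nat_lit 304) (nat_lit 0) (XT.nd (nat_lit 156) (nat_lit 228) (nat_lit 0) (XT.nd (nat_lit 78) (nat_lit 152) (nat_lit 0) (XT.lf (nat_lit 0) (nat_lit 256394001) (nat_lit 0) (nat_lit 10961632393) (nat_lit 152) (nat_lit 256394001) (nat_lit 117) (nat_lit 3) (nat_lit 117) (nat_lit 1) (nat_lit 119) (nat_lit 1) (nat_lit 295) (nat_lit 423) (nat_lit 302)) (XT.lf (nat_lit 76) (nat_lit 4138310252) (nat_lit 0) (nat_lit 3081342403) (nat_lit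 152) (nat_lit 4138310252) (nat_lit 116) (nat_lit 1) (nat_lit 115) (nat_lit 1) (nat_lit 117) (nat_lit 1) (nat_lit 296) (nat_lit 423) (nat_lit 301))) (XT.nd (nat_lit 78) (nat_lit 152) (nat_lit 0) (XT.lf (nat_lit 152) (nat_lit 4648491063) (nat_lit 0) (nat_lit 3297618926) (nat_lit 76) (nat_lit 3297618926) (nat_lit 116) (nat_lit 1) (nat_lit 114) (nat_lit 1) (nat_lit 115) (nat_lit 1) (nat_lit 297) (nat_lit 423) (nat_lit 300)) (XT.nd (nat_lit 78) (nat_lit 152) (nat_lit 0) (XT.lf (nat_lit 0) (nat_lit 540005315) (nat_lit 0) (nat_lit 10051470971) (nat_lit 152) (nat_lit 540005315) (nat_lit 114) (nat_lit 3) (nat_lit 114) (nat_lit 1) (nat_lit 116) (nat_lit 1) (nat_lit 298) (nat_lit 423) (nat_lit 299)) (XT.lf (nat_lit 76) (nat_lit 4292146913) (nat_lit 0) (nat_lit 2434623528) (nat_lit 152) (nat_lit 4292146913) (nat_lit 113) (nat_lit 1) (nat_lit 112) (nat_lit 1) (nat_lit 114) (nat_lit 1) (nat_lit 299) (nat_lit 423)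 (nat_lit 298))))) (XT.nd (nat_lit 156) (nat_lit 228) (nat_lit 0) (XT.nd (nat_lit 78) (nat_lit 0) (nat_lit 0) (XT.lf (nat_lit 152) (nat_lit 5048545244) (nat_lit 0) (nat_lit 2929891704) (nat_lit 76) (nat_lit 2929891704) (nat_lit 113) (nat_lit 1) (nat_lit 111) (nat_lit 1) (nat_lit 112) (nat_lit 1) (nat_lit 300) (nat_lit 423) (nat_lit 297)) (XT.lf (nat_lit 0) (nat_lit 782897016) (nat_lit 0) (nat_lit 9233711058) (nat_lit 152) (nat_lit 782897016) (nat_lit 111) (nat_lit 3) (nat_lit 111) (nat_lit 1) (nat_lit 113) (nat_lit 1) (nat_lit 301) (nat_lit 423) (nat_lit 296))) (XT.nd (nat_lit 78) (nat_lit 76) (nat_lit 0) (XT.lf (nat_lit 76) (nat_lit 4410907090) (nat_lit 0) (nat_lit 1868850609) (nat_lit 152) (nat_lit 4410907090) (nat_lit 110) (nat_lit 1) (nat_lit 109) (nat_lit 1) (nat_lit 111) (nat_lit 1) (nat_lit 302) (nat_lit 423) (nat_lit 295)) (XT.nd (nat_lit 78) (nat_lit 0) (nat_lit 0) (XT.lf (nat_lit 152) (nat_lit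 5377238072) (nat_lit 0) (nat_lit 2603170831) (nat_lit 76) (nat_lit 2603170831) (nat_lit 110) (nat_lit 1) (nat_lit 108) (nat_lit 1) (nat_lit 109) (nat_lit 1) (nat_lit 303) (nat_lit 423) (nat_lit 294)) (XT.lf (nat_lit 0) (nat_lit 989874721) (nat_lit 0) (nat_lit 8498313541) (nat_lit 152) (nat_lit 989874721) (nat_lit 108) (nat_lit 3) (nat_lit 108) (nat_lit 1) (nat_lit 110) (nat_lit 1) (nat_lit 304) (nat_lit 423) (nat_lit 293))))))))
noncomputable def ec440 : XT := (XT.nd (nat_lit 1404) (nat_lit 1444) (nat_lit 0) (XT.nd (nat_lit 702) (nat_lit 684) (nat_lit 0) (XT.nd (nat_lit 312) (nat_lit 304) (nat_lit 0) (XT.nd (nat_lit 156) (nat_lit 152) (nat_lit 0) (XT.nd (nat_lit 78) (nat_lit 76) (nat_lit 0) (XT.lf (nat_lit 76) (nat_lit 4499024256) (nat_lit 0) (nat_lit 1374739986) (nat_lit 152) (nat_lit 4499024256) (nat_lit 107) (nat_lit 1) (nat_lit 106) (nat_lit 1) (nat_lit 108) (nat_lit 1) (nat_lit 305) (nat_lit 423)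 (nat_lit 292)) (XT.lf (nat_lit 152) (nat_lit 5643306392) (nat_lit 0) (nat_lit 2312883567) (nat_lit 76) (nat_lit 2312883567) (nat_lit 107) (nat_lit 1) (nat_lit 105) (nat_lit 1) (nat_lit 106) (nat_lit 1) (nat_lit 306) (nat_lit 423) (nat_lit 291))) (XT.nd (nat_lit 78) (nat_lit 152) (nat_lit 0) (XT.lf (nat_lit 0) (nat_lit 1165200443) (nat_lit 0) (nat_lit 7836351085) (nat_lit 152) (nat_lit 1165200443) (nat_lit 105) (nat_lit 3) (nat_lit 105) (nat_lit 1) (nat_lit 107) (nat_lit 1) (nat_lit 307) (nat_lit 423) (nat_lit 290)) (XT.lf (nat_lit 76) (nat_lit 4560422291) (nat_lit 0) (nat_lit 944050735) (nat_lit 152) (nat_lit 4560422291) (nat_lit 104) (nat_lit 1) (nat_lit 103) (nat_lit 1) (nat_lit 105) (nat_lit 1) (nat_lit 308) (nat_lit 423) (nat_lit 289)))) (XT.nd (nat_lit 156) (nat_lit 228) (nat_lit 0) (XT.nd (nat_lit 78) (nat_lit 0) (nat_lit 0) (XT.lf (nat_lit 152) (nat_lit 5854490085) (nat_lit 0) (nat_lit 2054967092)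 (nat_lit 76) (nat_lit 2054967092) (nat_lit 104) (nat_lit 1) (nat_lit 102) (nat_lit 1) (nat_lit 103) (nat_lit 1) (nat_lit 309) (nat_lit 423) (nat_lit 288)) (XT.lf (nat_lit 0) (nat_lit 1312653439) (nat_lit 0) (nat_lit 7239884379) (nat_lit 152) (nat_lit 1312653439) (nat_lit 102) (nat_lit 3) (nat_lit 102) (nat_lit 1) (nat_lit 104) (nat_lit 1) (nat_lit 310) (nat_lit 423) (nat_lit 287))) (XT.nd (nat_lit 78) (nat_lit 76) (nat_lit 0) (XT.lf (nat_lit 76) (nat_lit 4598572751) (nat_lit 0) (nat_lit 569468174) (nat_lit 152) (nat_lit 4598572751) (nat_lit 101) (nat_lit 1) (nat_lit 100) (nat_lit 1) (nat_lit 102) (nat_lit 1) (nat_lit 311) (nat_lit 423) (nat_lit 286)) (XT.nd (nat_lit 78) (nat_lit 0) (nat_lit 0) (XT.lf (nat_lit 152) (nat_lit 6017643902) (nat_lit 0) (nat_lit 1825811646) (nat_lit 76) (nat_lit 1825811646) (nat_lit 101) (nat_lit 1) (nat_lit 99) (nat_lit 1) (nat_lit 100) (nat_lit 1) (nat_lit 312) (nat_lit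 423) (nat_lit 285)) (XT.lf (nat_lit 0) (nat_lit 1435584255) (nat_lit 0) (nat_lit 6701852175) (nat_lit 152) (nat_lit 1435584255) (nat_lit 99) (nat_lit 3) (nat_lit 99) (nat_lit 1) (nat_lit 101) (nat_lit 1) (nat_lit 313) (nat_lit 423) (nat_lit 284)))))) (XT.nd (nat_lit 312) (nat_lit 380) (nat_lit 0) (XT.nd (nat_lit 156) (nat_lit 76) (nat_lit 0) (XT.nd (nat_lit 78) (nat_lit 76) (nat_lit 0) (XT.lf (nat_lit 76) (nat_lit 4616545739) (nat_lit 0) (nat_lit 244500362) (nat_lit 152) (nat_lit 4616545739) (nat_lit 98) (nat_lit 1) (nat_lit 97) (nat_lit 1) (nat_lit 99) (nat_lit 1) (nat_lit 314) (nat_lit 423) (nat_lit 283)) (XT.lf (nat_lit 152) (nat_lit 6138836811) (nat_lit 0) (nat_lit 1622209999) (nat_lit 76) (nat_lit 1622209999) (nat_lit 98) (nat_lit 1) (nat_lit 96) (nat_lit 1) (nat_lit 97) (nat_lit 1) (nat_lit 315) (nat_lit 423) (nat_lit 282))) (XT.nd (nat_lit 78) (nat_lit 76) (nat_lit 0) (XT.lf (nat_lit 0) (nat_lit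 1536962751) (nat_lit 0) (nat_lit 6215973589) (nat_lit 152) (nat_lit 1536962751) (nat_lit 96) (nat_lit 3) (nat_lit 96) (nat_lit 1) (nat_lit 98) (nat_lit 1) (nat_lit 316) (nat_lit 423) (nat_lit 281)) (XT.lf (nat_lit 76) (nat_lit 37342538) (nat_lit 0) (nat_lit 4580071507) (nat_lit 76) (nat_lit 4580071507) (nat_lit 96) (nat_lit 3) (nat_lit 95) (nat_lit 1) (nat_lit 96) (nat_lit 1) (nat_lit 317) (nat_lit 423) (nat_lit 280)))) (XT.nd (nat_lit 156) (nat_lit 228) (nat_lit 0) (XT.nd (nat_lit 78) (nat_lit 0) (nat_lit 0) (XT.lf (nat_lit 152) (nat_lit 6223440243) (nat_lit 0) (nat_lit 1441312573) (nat_lit 76) (nat_lit 1441312573) (nat_lit 95) (nat_lit 1) (nat_lit 93) (nat_lit 1) (nat_lit 94) (nat_lit 1) (nat_lit 318) (nat_lit 423) (nat_lit 279)) (XT.lf (nat_lit 0) (nat_lit 1619420754) (nat_lit 0) (nat_lit 5776661281) (nat_lit 152) (nat_lit 1619420754) (nat_lit 93) (nat_lit 3) (nat_lit 93) (nat_lit 1) (nat_lit 95)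 (nat_lit 1) (nat_lit 319) (nat_lit 423) (nat_lit 278))) (XT.nd (nat_lit 78) (nat_lit 152) (nat_lit 0) (XT.lf (nat_lit 76) (nat_lit 284538900) (nat_lit 0) (nat_lit 4320694751) (nat_lit 76) (nat_lit 4320694751) (nat_lit 93) (nat_lit 3) (nat_lit 92) (nat_lit 1) (nat_lit 93) (nat_lit 1) (nat_lit 320) (nat_lit 423) (nat_lit 277)) (XT.nd (nat_lit 78) (nat_lit 0) (nat_lit 0) (XT.lf (nat_lit 152) (nat_lit 6276206484) (nat_lit 0) (nat_lit 1280587553) (nat_lit 76) (nat_lit 1280587553) (nat_lit 92) (nat_lit 1) (nat_lit 90) (nat_lit 1) (nat_lit 91) (nat_lit 1) (nat_lit 321) (nat_lit 423) (nat_lit 276)) (XT.lf (nat_lit 0) (nat_lit 1685289954) (nat_lit 0) (nat_lit 5378944317) (nat_lit 152) (nat_lit 1685289954) (nat_lit 90) (nat_lit 3) (nat_lit 90) (nat_lit 1) (nat_lit 92) (nat_lit 1) (nat_lit 322) (nat_lit 423) (nat_lit 275))))))) (XT.nd (nat_lit 702) (nat_lit 760) (nat_lit 0) (XT.nd (nat_lit 312) (nat_lit 380) (nat_lit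 0) (XT.nd (nat_lit 156) (nat_lit 76) (nat_lit 0) (XT.nd (nat_lit 78) (nat_lit 152) (nat_lit 0) (XT.lf (nat_lit 76) (nat_lit 496848485) (nat_lit 0) (nat_lit 4082920682) (nat_lit 76) (nat_lit 4082920682) (nat_lit 90) (nat_lit 3) (nat_lit 89) (nat_lit 1) (nat_lit 90) (nat_lit 1) (nat_lit 323) (nat_lit 423) (nat_lit 274)) (XT.lf (nat_lit 152) (nat_lit 6301338302) (nat_lit 0) (nat_lit 1137785455) (nat_lit 76) (nat_lit 1137785455) (nat_lit 89) (nat_lit 1) (nat_lit 87) (nat_lit 1) (nat_lit 88) (nat_lit 1) (nat_lit 324) (nat_lit 423) (nat_lit 273))) (XT.nd (nat_lit 78) (nat_lit 76) (nat_lit 0) (XT.lf (nat_lit 0) (nat_lit 1736635567) (nat_lit 0) (nat_lit 5018399628) (nat_lit 152) (nat_lit 1736635567) (nat_lit 87) (nat_lit 3) (nat_lit 87) (nat_lit 1) (nat_lit 89) (nat_lit 1) (nat_lit 325) (nat_lit 423) (nat_lit 272)) (XT.lf (nat_lit 76) (nat_lit 678374859) (nat_lit 0) (nat_lit 3864553559) (nat_lit 76) (nat_lit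 3864553559) (nat_lit 87) (nat_lit 3) (nat_lit 86) (nat_lit 1) (nat_lit 87) (nat_lit 1) (nat_lit 326) (nat_lit 423) (nat_lit 271)))) (XT.nd (nat_lit 156) (nat_lit 228) (nat_lit 0) (XT.nd (nat_lit 78) (nat_lit 0) (nat_lit 0) (XT.lf (nat_lit 152) (nat_lit 6302550796) (nat_lit 0) (nat_lit 1010907640) (nat_lit 76) (nat_lit 1010907640) (nat_lit 86) (nat_lit 1) (nat_lit 84) (nat_lit 1) (nat_lit 85) (nat_lit 1) (nat_lit 327) (nat_lit 423) (nat_lit 270)) (XT.lf (nat_lit 0) (nat_lit 1775286238) (nat_lit 0) (nat_lit 4691091101) (nat_lit 152) (nat_lit 1775286238) (nat_lit 84) (nat_lit 3) (nat_lit 84) (nat_lit 1) (nat_lit 86) (nat_lit 1) (nat_lit 328) (nat_lit 423) (nat_lit 269))) (XT.nd (nat_lit 78) (nat_lit 152) (nat_lit 0) (XT.lf (nat_lit 76) (nat_lit 832757776) (nat_lit 0) (nat_lit 3663636283) (nat_lit 76) (nat_lit 3663636283) (nat_lit 84) (nat_lit 3) (nat_lit 83) (nat_lit 1) (nat_lit 84) (nat_lit 1) (nat_lit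 329) (nat_lit 423) (nat_lit 268)) (XT.nd (nat_lit 78) (nat_lit 0) (nat_lit 0) (XT.lf (nat_lit 152) (nat_lit 6283126334) (nat_lit 0) (nat_lit 898178344) (nat_lit 76) (nat_lit 898178344) (nat_lit 83) (nat_lit 1) (nat_lit 81) (nat_lit 1) (nat_lit 82) (nat_lit 1) (nat_lit 330) (nat_lit 423) (nat_lit 267)) (XT.lf (nat_lit 0) (nat_lit 1802860605) (nat_lit 0) (nat_lit 4393515460) (nat_lit 152) (nat_lit 1802860605) (nat_lit 81) (nat_lit 3) (nat_lit 81) (nat_lit 1) (nat_lit 83) (nat_lit 1) (nat_lit 331) (nat_lit 423) (nat_lit 266)))))) (XT.nd (nat_lit 390) (nat_lit 304) (nat_lit 0) (XT.nd (nat_lit 156) (nat_lit 228) (nat_lit 0) (XT.nd (nat_lit 78) (nat_lit 152) (nat_lit 0) (XT.lf (nat_lit 76) (nat_lit 963225080) (nat_lit 0) (nat_lit 3478423968) (nat_lit 76) (nat_lit 3478423968) (nat_lit 81) (nat_lit 3) (nat_lit 80) (nat_lit 1) (nat_lit 81) (nat_lit 1) (nat_lit 332) (nat_lit 423) (nat_lit 265)) (XT.lf (nat_lit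 152) (nat_lit 6245963342) (nat_lit 0) (nat_lit 798019826) (nat_lit 76) (nat_lit 798019826) (nat_lit 80) (nat_lit 1) (nat_lit 78) (nat_lit 1) (nat_lit 79) (nat_lit 1) (nat_lit 333) (nat_lit 423) (nat_lit 264))) (XT.nd (nat_lit 78) (nat_lit 228) (nat_lit 0) (XT.lf (nat_lit 0) (nat_lit 1820790896) (nat_lit 0) (nat_lit 4122554180) (nat_lit 152) (nat_lit 1820790896) (nat_lit 78) (nat_lit 3) (nat_lit 78) (nat_lit 1) (nat_lit 80) (nat_lit 1) (nat_lit 334) (nat_lit 423) (nat_lit 263)) (XT.nd (nat_lit 78) (nat_lit 152) (nat_lit 0) (XT.lf (nat_lit 76) (nat_lit 1072638817) (nat_lit 0) (nat_lit 3307360452) (nat_lit 76) (nat_lit 3307360452) (nat_lit 78) (nat_lit 3) (nat_lit 77) (nat_lit 1) (nat_lit 78) (nat_lit 1) (nat_lit 335) (nat_lit 423) (nat_lit 262)) (XT.lf (nat_lit 152) (nat_lit 6193619642) (nat_lit 0) (nat_lit 709030279) (nat_lit 76) (nat_lit 709030279) (nat_lit 77) (nat_lit 1) (nat_lit 75) (nat_lit 1) (nat_lit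 76) (nat_lit 1) (nat_lit 336) (nat_lit 423) (nat_lit 261))))) (XT.nd (nat_lit 156) (nat_lit 228) (nat_lit 0) (XT.nd (nat_lit 78) (nat_lit 76) (nat_lit 0) (XT.lf (nat_lit 0) (nat_lit 1830343884) (nat_lit 0) (nat_lit 3875430749) (nat_lit 152) (nat_lit 1830343884) (nat_lit 75) (nat_lit 3) (nat_lit 75) (nat_lit 1) (nat_lit 77) (nat_lit 1) (nat_lit 337) (nat_lit 423) (nat_lit 260)) (XT.lf (nat_lit 76) (nat_lit 1163536189) (nat_lit 0) (nat_lit 3149057418) (nat_lit 76) (nat_lit 3149057418) (nat_lit 75) (nat_lit 3) (nat_lit 74) (nat_lit 1) (nat_lit 75) (nat_lit 1) (nat_lit 338) (nat_lit 423) (nat_lit 259))) (XT.nd (nat_lit 78) (nat_lit 76) (nat_lit 0) (XT.lf (nat_lit 152) (nat_lit 6128350939) (nat_lit 0) (nat_lit 629964219) (nat_lit 76) (nat_lit 629964219) (nat_lit 74) (nat_lit 1) (nat_lit 72) (nat_lit 1) (nat_lit 73) (nat_lit 1) (nat_lit 339) (nat_lit 423) (nat_lit 258)) (XT.nd (nat_lit 78) (nat_lit 76) (nat_lit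 0) (XT.lf (nat_lit 0) (nat_lit 1832639510) (nat_lit 0) (nat_lit 3649672701) (nat_lit 152) (nat_lit 1832639510) (nat_lit 72) (nat_lit 3) (nat_lit 72) (nat_lit 1) (nat_lit 74) (nat_lit 1) (nat_lit 340) (nat_lit 423) (nat_lit 257)) (XT.lf (nat_lit 76) (nat_lit 1238165954) (nat_lit 0) (nat_lit 3002275849) (nat_lit 76) (nat_lit 3002275849) (nat_lit 72) (nat_lit 3) (nat_lit 71) (nat_lit 1) (nat_lit 72) (nat_lit 1) (nat_lit 341) (nat_lit 423) (nat_lit 256))))))))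
noncomputable def ec441 : XT := (XT.nd (nat_lit 1482) (nat_lit 1368) (nat_lit 0) (XT.nd (nat_lit 702) (nat_lit 836) (nat_lit 0) (XT.nd (nat_lit 312) (nat_lit 304) (nat_lit 0) (XT.nd (nat_lit 156) (nat_lit 228) (nat_lit 0) (XT.nd (nat_lit 78) (nat_lit 0) (nat_lit 0) (XT.lf (nat_lit 152) (nat_lit 6052145005) (nat_lit 0) (nat_lit 559715050) (nat_lit 76) (nat_lit 559715050) (nat_lit 71) (nat_lit 1) (nat_lit 69) (nat_lit 1) (nat_lit 70) (nat_lit 1) (nat_lit 342) (nat_lit 423) (nat_lit 255)) (XT.lf (nat_lit 0) (nat_lit 1828667415) (nat_lit 0) (nat_lit 3443077871) (nat_lit 152) (nat_lit 1828667415) (nat_lit 69) (nat_lit 3) (nat_lit 69) (nat_lit 1) (nat_lit 71) (nat_lit 1) (nat_lit 343) (nat_lit 423) (nat_lit 254))) (XT.nd (nat_lit 78) (nat_lit 152) (nat_lit 0) (XT.lf (nat_lit 76) (nat_lit 1298520743) (nat_lit 0) (nat_lit 2865909536) (nat_lit 76) (nat_lit 2865909536) (nat_lit 69) (nat_lit 3) (nat_lit 68) (nat_lit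 1) (nat_lit 69) (nat_lit 1) (nat_lit 344) (nat_lit 423) (nat_lit 253)) (XT.lf (nat_lit 152) (nat_lit 5966752032) (nat_lit 0) (nat_lit 497299572) (nat_lit 76) (nat_lit 497299572) (nat_lit 68) (nat_lit 1) (nat_lit 66) (nat_lit 1) (nat_lit 67) (nat_lit 1) (nat_lit 345) (nat_lit 423) (nat_lit 252)))) (XT.nd (nat_lit 156) (nat_lit 228) (nat_lit 0) (XT.nd (nat_lit 78) (nat_lit 76) (nat_lit 0) (XT.lf (nat_lit 0) (nat_lit 1819301631) (nat_lit 0) (nat_lit 3253684411) (nat_lit 152) (nat_lit 1819301631) (nat_lit 66) (nat_lit 3) (nat_lit 66) (nat_lit 1) (nat_lit 68) (nat_lit 1) (nat_lit 346) (nat_lit 423) (nat_lit 251)) (XT.lf (nat_lit 76) (nat_lit 1346365784) (nat_lit 0) (nat_lit 2738970426) (nat_lit 76) (nat_lit 2738970426) (nat_lit 66) (nat_lit 3) (nat_lit 65) (nat_lit 1) (nat_lit 66) (nat_lit 1) (nat_lit 347) (nat_lit 423) (nat_lit 250))) (XT.nd (nat_lit 78) (nat_lit 76) (nat_lit 0) (XT.lf (nat_lit 152) (nat_lit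 5873711590) (nat_lit 0) (nat_lit 441844229) (nat_lit 76) (nat_lit 441844229) (nat_lit 65) (nat_lit 1) (nat_lit 63) (nat_lit 1) (nat_lit 64) (nat_lit 1) (nat_lit 348) (nat_lit 423) (nat_lit 249)) (XT.nd (nat_lit 78) (nat_lit 76) (nat_lit 0) (XT.lf (nat_lit 0) (nat_lit 1805313622) (nat_lit 0) (nat_lit 3079744145) (nat_lit 152) (nat_lit 1805313622) (nat_lit 63) (nat_lit 3) (nat_lit 63) (nat_lit 1) (nat_lit 65) (nat_lit 1) (nat_lit 349) (nat_lit 423) (nat_lit 248)) (XT.lf (nat_lit 76) (nat_lit 1383264408) (nat_lit 0) (nat_lit 2620575595) (nat_lit 76) (nat_lit 2620575595) (nat_lit 63) (nat_lit 3) (nat_lit 62) (nat_lit 1) (nat_lit 63) (nat_lit 1) (nat_lit 350) (nat_lit 423) (nat_lit 247)))))) (XT.nd (nat_lit 390) (nat_lit 456) (nat_lit 0) (XT.nd (nat_lit 156) (nat_lit 228) (nat_lit 0) (XT.nd (nat_lit 78) (nat_lit 0) (nat_lit 0) (XT.lf (nat_lit 152) (nat_lit 5774376566) (nat_lit 0) (nat_lit 392572874) (nat_lit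 76) (nat_lit 392572874) (nat_lit 62) (nat_lit 1) (nat_lit 60) (nat_lit 1) (nat_lit 61) (nat_lit 1) (nat_lit 351) (nat_lit 423) (nat_lit 246)) (XT.lf (nat_lit 0) (nat_lit 1787383875) (nat_lit 0) (nat_lit 2919698887) (nat_lit 152) (nat_lit 1787383875) (nat_lit 60) (nat_lit 3) (nat_lit 60) (nat_lit 1) (nat_lit 62) (nat_lit 1) (nat_lit 352) (nat_lit 423) (nat_lit 245))) (XT.nd (nat_lit 78) (nat_lit 152) (nat_lit 0) (XT.lf (nat_lit 76) (nat_lit 1410600712) (nat_lit 0) (nat_lit 2509935675) (nat_lit 76) (nat_lit 2509935675) (nat_lit 60) (nat_lit 3) (nat_lit 59) (nat_lit 1) (nat_lit 60) (nat_lit 1) (nat_lit 353) (nat_lit 423) (nat_lit 244)) (XT.nd (nat_lit 78) (nat_lit 0) (nat_lit 0) (XT.lf (nat_lit 152) (nat_lit 5669934415) (nat_lit 0) (nat_lit 348795914) (nat_lit 76) (nat_lit 348795914) (nat_lit 59) (nat_lit 1) (nat_lit 57) (nat_lit 1) (nat_lit 58) (nat_lit 1) (nat_lit 354) (nat_lit 423) (nat_lit 243)) (XT.lf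 (nat_lit 0) (nat_lit 1766112184) (nat_lit 0) (nat_lit 2772159406) (nat_lit 152) (nat_lit 1766112184) (nat_lit 57) (nat_lit 3) (nat_lit 57) (nat_lit 1) (nat_lit 59) (nat_lit 1) (nat_lit 355) (nat_lit 423) (nat_lit 242))))) (XT.nd (nat_lit 156) (nat_lit 228) (nat_lit 0) (XT.nd (nat_lit 78) (nat_lit 152) (nat_lit 0) (XT.lf (nat_lit 76) (nat_lit 1429599686) (nat_lit 0) (nat_lit 2406344563) (nat_lit 76) (nat_lit 2406344563) (nat_lit 57) (nat_lit 3) (nat_lit 56) (nat_lit 1) (nat_lit 57) (nat_lit 1) (nat_lit 356) (nat_lit 423) (nat_lit 241)) (XT.lf (nat_lit 152) (nat_lit 5561426035) (nat_lit 0) (nat_lit 309900652) (nat_lit 76) (nat_lit 309900652) (nat_lit 56) (nat_lit 1) (nat_lit 54) (nat_lit 1) (nat_lit 55) (nat_lit 1) (nat_lit 357) (nat_lit 423) (nat_lit 240))) (XT.nd (nat_lit 78) (nat_lit 228) (nat_lit 0) (XT.lf (nat_lit 0) (nat_lit 1742026792) (nat_lit 0) (nat_lit 2635886719) (nat_lit 152) (nat_lit 1742026792)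 (nat_lit 54) (nat_lit 3) (nat_lit 54) (nat_lit 1) (nat_lit 56) (nat_lit 1) (nat_lit 358) (nat_lit 423) (nat_lit 239)) (XT.nd (nat_lit 78) (nat_lit 152) (nat_lit 0) (XT.lf (nat_lit 76) (nat_lit 1441345100) (nat_lit 0) (nat_lit 2309170272) (nat_lit 76) (nat_lit 2309170272) (nat_lit 54) (nat_lit 3) (nat_lit 53) (nat_lit 1) (nat_lit 54) (nat_lit 1) (nat_lit 359) (nat_lit 423) (nat_lit 238)) (XT.lf (nat_lit 152) (nat_lit 5449762518) (nat_lit 0) (nat_lit 275342715) (nat_lit 76) (nat_lit 275342715) (nat_lit 53) (nat_lit 1) (nat_lit 51) (nat_lit 1) (nat_lit 52) (nat_lit 1) (nat_lit 360) (nat_lit 423) (nat_lit 237))))))) (XT.nd (nat_lit 702) (nat_lit 684) (nat_lit 0) (XT.nd (nat_lit 312) (nat_lit 456) (nat_lit 0) (XT.nd (nat_lit 156) (nat_lit 152) (nat_lit 0) (XT.nd (nat_lit 78) (nat_lit 76) (nat_lit 0) (XT.lf (nat_lit 0) (nat_lit 1715592505) (nat_lit 0) (nat_lit 2509775473) (nat_lit 152) (nat_lit 1715592505)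 (nat_lit 51) (nat_lit 3) (nat_lit 51) (nat_lit 1) (nat_lit 53) (nat_lit 1) (nat_lit 361) (nat_lit 423) (nat_lit 236)) (XT.lf (nat_lit 76) (nat_lit 1446795381) (nat_lit 0) (nat_lit 2217846806) (nat_lit 76) (nat_lit 2217846806) (nat_lit 51) (nat_lit 3) (nat_lit 50) (nat_lit 1) (nat_lit 51) (nat_lit 1) (nat_lit 362) (nat_lit 423) (nat_lit 235))) (XT.nd (nat_lit 78) (nat_lit 0) (nat_lit 0) (XT.lf (nat_lit 152) (nat_lit 5335740032) (nat_lit 0) (nat_lit 244638436) (nat_lit 76) (nat_lit 244638436) (nat_lit 50) (nat_lit 1) (nat_lit 48) (nat_lit 1) (nat_lit 49) (nat_lit 1) (nat_lit 363) (nat_lit 423) (nat_lit 234)) (XT.lf (nat_lit 0) (nat_lit 1687217898) (nat_lit 0) (nat_lit 2392839179) (nat_lit 152) (nat_lit 1687217898) (nat_lit 48) (nat_lit 3) (nat_lit 48) (nat_lit 1) (nat_lit 50) (nat_lit 1) (nat_lit 364) (nat_lit 423) (nat_lit 233)))) (XT.nd (nat_lit 156) (nat_lit 228) (nat_lit 0) (XT.nd (nat_lit 78) (nat_lit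 152) (nat_lit 0) (XT.lf (nat_lit 76) (nat_lit 1446797722) (nat_lit 0) (nat_lit 2131866926) (nat_lit 76) (nat_lit 2131866926) (nat_lit 48) (nat_lit 3) (nat_lit 47) (nat_lit 1) (nat_lit 48) (nat_lit 1) (nat_lit 365) (nat_lit 423) (nat_lit 232)) (XT.lf (nat_lit 152) (nat_lit 5220053016) (nat_lit 0) (nat_lit 217358082) (nat_lit 76) (nat_lit 217358082) (nat_lit 47) (nat_lit 1) (nat_lit 45) (nat_lit 1) (nat_lit 46) (nat_lit 1) (nat_lit 366) (nat_lit 423) (nat_lit 231))) (XT.nd (nat_lit 78) (nat_lit 228) (nat_lit 0) (XT.lf (nat_lit 0) (nat_lit 1657261714) (nat_lit 0) (nat_lit 2284197082) (nat_lit 152) (nat_lit 1657261714) (nat_lit 45) (nat_lit 3) (nat_lit 45) (nat_lit 1) (nat_lit 47) (nat_lit 1) (nat_lit 367) (nat_lit 423) (nat_lit 230)) (XT.nd (nat_lit 78) (nat_lit 152) (nat_lit 0) (XT.lf (nat_lit 76) (nat_lit 1442100614) (nat_lit 0) (nat_lit 2050775729) (nat_lit 76) (nat_lit 2050775729) (nat_lit 45) (nat_lit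 3) (nat_lit 44) (nat_lit 1) (nat_lit 45) (nat_lit 1) (nat_lit 368) (nat_lit 423) (nat_lit 229)) (XT.lf (nat_lit 152) (nat_lit 5103305908) (nat_lit 0) (nat_lit 193119841) (nat_lit 76) (nat_lit 193119841) (nat_lit 44) (nat_lit 1) (nat_lit 42) (nat_lit 1) (nat_lit 43) (nat_lit 1) (nat_lit 369) (nat_lit 423) (nat_lit 228)))))) (XT.nd (nat_lit 390) (nat_lit 380) (nat_lit 0) (XT.nd (nat_lit 156) (nat_lit 228) (nat_lit 0) (XT.nd (nat_lit 78) (nat_lit 76) (nat_lit 0) (XT.lf (nat_lit 0) (nat_lit 1626038543) (nat_lit 0) (nat_lit 2183062498) (nat_lit 152) (nat_lit 1626038543) (nat_lit 42) (nat_lit 3) (nat_lit 42) (nat_lit 1) (nat_lit 44) (nat_lit 1) (nat_lit 370) (nat_lit 423) (nat_lit 227)) (XT.lf (nat_lit 76) (nat_lit 1433364977) (nat_lit 0) (nat_lit 1974164933) (nat_lit 76) (nat_lit 1974164933) (nat_lit 42) (nat_lit 3) (nat_lit 41) (nat_lit 1) (nat_lit 42) (nat_lit 1) (nat_lit 371) (nat_lit 423) (nat_lit 226)))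 (XT.nd (nat_lit 78) (nat_lit 76) (nat_lit 0) (XT.lf (nat_lit 152) (nat_lit 4986023545) (nat_lit 0) (nat_lit 171584477) (nat_lit 76) (nat_lit 171584477) (nat_lit 41) (nat_lit 1) (nat_lit 39) (nat_lit 1) (nat_lit 40) (nat_lit 1) (nat_lit 372) (nat_lit 423) (nat_lit 225)) (XT.nd (nat_lit 78) (nat_lit 76) (nat_lit 0) (XT.lf (nat_lit 0) (nat_lit 1593823869) (nat_lit 0) (nat_lit 2088732438) (nat_lit 152) (nat_lit 1593823869) (nat_lit 39) (nat_lit 3) (nat_lit 39) (nat_lit 1) (nat_lit 41) (nat_lit 1) (nat_lit 373) (nat_lit 423) (nat_lit 224)) (XT.lf (nat_lit 76) (nat_lit 1421174042) (nat_lit 0) (nat_lit 1901667798) (nat_lit 76) (nat_lit 1901667798) (nat_lit 39) (nat_lit 3) (nat_lit 38) (nat_lit 1) (nat_lit 39) (nat_lit 1) (nat_lit 374) (nat_lit 423) (nat_lit 223))))) (XT.nd (nat_lit 156) (nat_lit 228) (nat_lit 0) (XT.nd (nat_lit 78) (nat_lit 0) (nat_lit 0) (XT.lf (nat_lit 152) (nat_lit 4868660393) (nat_lit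 0) (nat_lit 152450585) (nat_lit 76) (nat_lit 152450585) (nat_lit 38) (nat_lit 1) (nat_lit 36) (nat_lit 1) (nat_lit 37) (nat_lit 1) (nat_lit 375) (nat_lit 423) (nat_lit 222)) (XT.lf (nat_lit 0) (nat_lit 1560858548) (nat_lit 0) (nat_lit 2000578402) (nat_lit 152) (nat_lit 1560858548) (nat_lit 36) (nat_lit 3) (nat_lit 36) (nat_lit 1) (nat_lit 38) (nat_lit 1) (nat_lit 376) (nat_lit 423) (nat_lit 221))) (XT.nd (nat_lit 78) (nat_lit 152) (nat_lit 0) (XT.lf (nat_lit 76) (nat_lit 1406042131) (nat_lit 0) (nat_lit 1832954611) (nat_lit 76) (nat_lit 1832954611) (nat_lit 36) (nat_lit 3) (nat_lit 35) (nat_lit 1) (nat_lit 36) (nat_lit 1) (nat_lit 377) (nat_lit 423) (nat_lit 220)) (XT.nd (nat_lit 78) (nat_lit 0) (nat_lit 0) (XT.lf (nat_lit 152) (nat_lit 4751608741) (nat_lit 0) (nat_lit 135450370) (nat_lit 76) (nat_lit 135450370) (nat_lit 35) (nat_lit 1) (nat_lit 33) (nat_lit 1) (nat_lit 34) (nat_lit 1) (nat_lit 378)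 (nat_lit 423) (nat_lit 219)) (XT.lf (nat_lit 0) (nat_lit 1527352782) (nat_lit 0) (nat_lit 1918038177) (nat_lit 152) (nat_lit 1527352782) (nat_lit 33) (nat_lit 3) (nat_lit 33) (nat_lit 1) (nat_lit 35) (nat_lit 1) (nat_lit 379) (nat_lit 423) (nat_lit 218))))))))
noncomputable def ec442 : XT := (XT.nd (nat_lit 1482) (nat_lit 836) (nat_lit 0) (XT.nd (nat_lit 702) (nat_lit 760) (nat_lit 0) (XT.nd (nat_lit 312) (nat_lit 380) (nat_lit 0) (XT.nd (nat_lit 156) (nat_lit 76) (nat_lit 0) (XT.nd (nat_lit 78) (nat_lit 152) (nat_lit 0) (XT.lf (nat_lit 76) (nat_lit 1388422458) (nat_lit 0) (nat_lit 1767728667) (nat_lit 76) (nat_lit 1767728667) (nat_lit 33) (nat_lit 3) (nat_lit 32) (nat_lit 1) (nat_lit 33) (nat_lit 1) (nat_lit 380) (nat_lit 423) (nat_lit 217)) (XT.lf (nat_lit 152) (nat_lit 4635205970) (nat_lit 0) (nat_lit 120345900) (nat_lit 76) (nat_lit 120345900) (nat_lit 32) (nat_lit 1) (nat_lit 30) (nat_lit 1) (nat_lit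 31) (nat_lit 1) (nat_lit 381) (nat_lit 423) (nat_lit 216))) (XT.nd (nat_lit 78) (nat_lit 76) (nat_lit 0) (XT.lf (nat_lit 0) (nat_lit 1493489649) (nat_lit 0) (nat_lit 1840608562) (nat_lit 152) (nat_lit 1493489649) (nat_lit 30) (nat_lit 3) (nat_lit 30) (nat_lit 1) (nat_lit 32) (nat_lit 1) (nat_lit 382) (nat_lit 423) (nat_lit 215)) (XT.lf (nat_lit 76) (nat_lit 1368714047) (nat_lit 0) (nat_lit 1705722700) (nat_lit 76) (nat_lit 1705722700) (nat_lit 30) (nat_lit 3) (nat_lit 29) (nat_lit 1) (nat_lit 30) (nat_lit 1) (nat_lit 383) (nat_lit 423) (nat_lit 214)))) (XT.nd (nat_lit 156) (nat_lit 228) (nat_lit 0) (XT.nd (nat_lit 78) (nat_lit 0) (nat_lit 0) (XT.lf (nat_lit 152) (nat_lit 4519740999) (nat_lit 0) (nat_lit 106925773) (nat_lit 76) (nat_lit 106925773) (nat_lit 29) (nat_lit 1) (nat_lit 27) (nat_lit 1) (nat_lit 28) (nat_lit 1) (nat_lit 384) (nat_lit 423) (nat_lit 213)) (XT.lf (nat_lit 0) (nat_lit 1459428232)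 (nat_lit 0) (nat_lit 1767838891) (nat_lit 152) (nat_lit 1459428232) (nat_lit 27) (nat_lit 3) (nat_lit 27) (nat_lit 1) (nat_lit 29) (nat_lit 1) (nat_lit 385) (nat_lit 423) (nat_lit 212))) (XT.nd (nat_lit 78) (nat_lit 152) (nat_lit 0) (XT.lf (nat_lit 76) (nat_lit 1347267883) (nat_lit 0) (nat_lit 1646695706) (nat_lit 76) (nat_lit 1646695706) (nat_lit 27) (nat_lit 3) (nat_lit 26) (nat_lit 1) (nat_lit 27) (nat_lit 1) (nat_lit 386) (nat_lit 423) (nat_lit 211)) (XT.nd (nat_lit 78) (nat_lit 0) (nat_lit 0) (XT.lf (nat_lit 152) (nat_lit 4405460009) (nat_lit 0) (nat_lit 95002164) (nat_lit 76) (nat_lit 95002164) (nat_lit 26) (nat_lit 1) (nat_lit 24) (nat_lit 1) (nat_lit 25) (nat_lit 1) (nat_lit 387) (nat_lit 423) (nat_lit 210)) (XT.lf (nat_lit 0) (nat_lit 1425306406) (nat_lit 0) (nat_lit 1699325281) (nat_lit 152) (nat_lit 1425306406) (nat_lit 24) (nat_lit 3) (nat_lit 24) (nat_lit 1) (nat_lit 26) (nat_lit 1) (nat_lit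 388) (nat_lit 423) (nat_lit 209)))))) (XT.nd (nat_lit 390) (nat_lit 304) (nat_lit 0) (XT.nd (nat_lit 156) (nat_lit 228) (nat_lit 0) (XT.nd (nat_lit 78) (nat_lit 152) (nat_lit 0) (XT.lf (nat_lit 76) (nat_lit 1324392374) (nat_lit 0) (nat_lit 1590430117) (nat_lit 76) (nat_lit 1590430117) (nat_lit 24) (nat_lit 3) (nat_lit 23) (nat_lit 1) (nat_lit 24) (nat_lit 1) (nat_lit 389) (nat_lit 423) (nat_lit 208)) (XT.lf (nat_lit 152) (nat_lit 4292571508) (nat_lit 0) (nat_lit 84408193) (nat_lit 76) (nat_lit 84408193) (nat_lit 23) (nat_lit 1) (nat_lit 21) (nat_lit 1) (nat_lit 22) (nat_lit 1) (nat_lit 390) (nat_lit 423) (nat_lit 207))) (XT.nd (nat_lit 78) (nat_lit 228) (nat_lit 0) (XT.lf (nat_lit 0) (nat_lit 1391243294) (nat_lit 0) (nat_lit 1634705515) (nat_lit 152) (nat_lit 1391243294) (nat_lit 21) (nat_lit 3) (nat_lit 21) (nat_lit 1) (nat_lit 23) (nat_lit 1) (nat_lit 391) (nat_lit 423) (nat_lit 206)) (XT.nd (nat_lit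 78) (nat_lit 152) (nat_lit 0) (XT.lf (nat_lit 76) (nat_lit 1300358200) (nat_lit 0) (nat_lit 1536729289) (nat_lit 76) (nat_lit 1536729289) (nat_lit 21) (nat_lit 3) (nat_lit 20) (nat_lit 1) (nat_lit 21) (nat_lit 1) (nat_lit 392) (nat_lit 423) (nat_lit 205)) (XT.lf (nat_lit 152) (nat_lit 4181250838) (nat_lit 0) (nat_lit 74995586) (nat_lit 76) (nat_lit 74995586) (nat_lit 20) (nat_lit 1) (nat_lit 18) (nat_lit 1) (nat_lit 19) (nat_lit 1) (nat_lit 393) (nat_lit 423) (nat_lit 204))))) (XT.nd (nat_lit 156) (nat_lit 228) (nat_lit 0) (XT.nd (nat_lit 78) (nat_lit 76) (nat_lit 0) (XT.lf (nat_lit 0) (nat_lit 1357341466) (nat_lit 0) (nat_lit 1573654496) (nat_lit 152) (nat_lit 1357341466) (nat_lit 18) (nat_lit 3) (nat_lit 18) (nat_lit 1) (nat_lit 20) (nat_lit 1) (nat_lit 394) (nat_lit 423) (nat_lit 203)) (XT.lf (nat_lit 76) (nat_lit 1275402611) (nat_lit 0) (nat_lit 1485415262) (nat_lit 76) (nat_lit 1485415262) (nat_lit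 18) (nat_lit 3) (nat_lit 17) (nat_lit 1) (nat_lit 18) (nat_lit 1) (nat_lit 395) (nat_lit 423) (nat_lit 202))) (XT.nd (nat_lit 78) (nat_lit 76) (nat_lit 0) (XT.lf (nat_lit 152) (nat_lit 4071644156) (nat_lit 0) (nat_lit 66632607) (nat_lit 76) (nat_lit 66632607) (nat_lit 17) (nat_lit 1) (nat_lit 15) (nat_lit 1) (nat_lit 16) (nat_lit 1) (nat_lit 396) (nat_lit 423) (nat_lit 201)) (XT.nd (nat_lit 78) (nat_lit 76) (nat_lit 0) (XT.lf (nat_lit 0) (nat_lit 1323688874) (nat_lit 0) (nat_lit 1515880200) (nat_lit 152) (nat_lit 1323688874) (nat_lit 15) (nat_lit 3) (nat_lit 15) (nat_lit 1) (nat_lit 17) (nat_lit 1) (nat_lit 397) (nat_lit 423) (nat_lit 200)) (XT.lf (nat_lit 76) (nat_lit 1249733257) (nat_lit 0) (nat_lit 1436326778) (nat_lit 76) (nat_lit 1436326778) (nat_lit 15) (nat_lit 3) (nat_lit 14) (nat_lit 1) (nat_lit 15) (nat_lit 1) (nat_lit 398) (nat_lit 423) (nat_lit 199))))))) (XT.nd (nat_lit 702) (nat_lit 152)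 (nat_lit 0) (XT.nd (nat_lit 312) (nat_lit 304) (nat_lit 0) (XT.nd (nat_lit 156) (nat_lit 228) (nat_lit 0) (XT.nd (nat_lit 78) (nat_lit 0) (nat_lit 0) (XT.lf (nat_lit 152) (nat_lit 3963871972) (nat_lit 0) (nat_lit 59202208) (nat_lit 76) (nat_lit 59202208) (nat_lit 14) (nat_lit 1) (nat_lit 12) (nat_lit 1) (nat_lit 13) (nat_lit 1) (nat_lit 399) (nat_lit 423) (nat_lit 198)) (XT.lf (nat_lit 0) (nat_lit 1290360577) (nat_lit 0) (nat_lit 1461120081) (nat_lit 152) (nat_lit 1290360577) (nat_lit 12) (nat_lit 3) (nat_lit 12) (nat_lit 1) (nat_lit 14) (nat_lit 1) (nat_lit 400) (nat_lit 423) (nat_lit 197))) (XT.nd (nat_lit 78) (nat_lit 152) (nat_lit 0) (XT.lf (nat_lit 76) (nat_lit 1223531576) (nat_lit 0) (nat_lit 1389317502) (nat_lit 76) (nat_lit 1389317502) (nat_lit 12) (nat_lit 3) (nat_lit 11) (nat_lit 1) (nat_lit 12) (nat_lit 1) (nat_lit 401) (nat_lit 423) (nat_lit 196)) (XT.lf (nat_lit 152) (nat_lit 3858032282)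 (nat_lit 0) (nat_lit 52600395) (nat_lit 76) (nat_lit 52600395) (nat_lit 11) (nat_lit 1) (nat_lit 9) (nat_lit 1) (nat_lit 10) (nat_lit 1) (nat_lit 402) (nat_lit 423) (nat_lit 195)))) (XT.nd (nat_lit 156) (nat_lit 228) (nat_lit 0) (XT.nd (nat_lit 78) (nat_lit 76) (nat_lit 0) (XT.lf (nat_lit 0) (nat_lit 1257420269) (nat_lit 0) (nat_lit 1409137876) (nat_lit 152) (nat_lit 1257420269) (nat_lit 9) (nat_lit 3) (nat_lit 9) (nat_lit 1) (nat_lit 11) (nat_lit 1) (nat_lit 403) (nat_lit 423) (nat_lit 194)) (XT.lf (nat_lit 76) (nat_lit 1196955806) (nat_lit 0) (nat_lit 1344254454) (nat_lit 76) (nat_lit 1344254454) (nat_lit 9) (nat_lit 3) (nat_lit 8) (nat_lit 1) (nat_lit 9) (nat_lit 1) (nat_lit 404) (nat_lit 423) (nat_lit 193))) (XT.nd (nat_lit 78) (nat_lit 76) (nat_lit 0) (XT.lf (nat_lit 152) (nat_lit 3754203339) (nat_lit 0) (nat_lit 46734769) (nat_lit 76) (nat_lit 46734769) (nat_lit 8) (nat_lit 1) (nat_lit 6) (nat_lit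 1) (nat_lit 7) (nat_lit 1) (nat_lit 405) (nat_lit 423) (nat_lit 192)) (XT.nd (nat_lit 78) (nat_lit 76) (nat_lit 0) (XT.lf (nat_lit 0) (nat_lit 1224921631) (nat_lit 0) (nat_lit 1359720760) (nat_lit 152) (nat_lit 1224921631) (nat_lit 6) (nat_lit 3) (nat_lit 6) (nat_lit 1) (nat_lit 8) (nat_lit 1) (nat_lit 406) (nat_lit 423) (nat_lit 191)) (XT.lf (nat_lit 76) (nat_lit 1170143660) (nat_lit 0) (nat_lit 1301016601) (nat_lit 76) (nat_lit 1301016601) (nat_lit 6) (nat_lit 3) (nat_lit 5) (nat_lit 1) (nat_lit 6) (nat_lit 1) (nat_lit 407) (nat_lit 423) (nat_lit 190)))))) (XT.nd (nat_lit 36270) (nat_lit 0) (nat_lit 24852) (XT.nd (nat_lit 36036) (nat_lit 0) (nat_lit 26676) (XT.nd (nat_lit 78) (nat_lit 0) (nat_lit 0) (XT.lf (nat_lit 152) (nat_lit 3652446116) (nat_lit 0) (nat_lit 41523237) (nat_lit 76) (nat_lit 41523237) (nat_lit 5) (nat_lit 1) (nat_lit 3) (nat_lit 1) (nat_lit 4) (nat_lit 1) (nat_lit 408) (nat_lit 423)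 (nat_lit 189)) (XT.lf (nat_lit 0) (nat_lit 1192909536) (nat_lit 0) (nat_lit 1312676817) (nat_lit 152) (nat_lit 1192909536) (nat_lit 3) (nat_lit 3) (nat_lit 3) (nat_lit 1) (nat_lit 5) (nat_lit 1) (nat_lit 409) (nat_lit 423) (nat_lit 188))) (XT.nd (nat_lit 78) (nat_lit 836) (nat_lit 0) (XT.lf (nat_lit 76) (nat_lit 12650266500) (nat_lit 0) (nat_lit 12898695502) (nat_lit 1292) (nat_lit 12650266500) (nat_lit 366) (nat_lit 1) (nat_lit 365) (nat_lit 1) (nat_lit 382) (nat_lit 1) (nat_lit 189) (nat_lit 424) (nat_lit 407)) (XT.nd (nat_lit 78) (nat_lit 0) (nat_lit 0) (XT.lf (nat_lit 912) (nat_lit 21810840387) (nat_lit 0) (nat_lit 7937719655) (nat_lit 836) (nat_lit 7937719655) (nat_lit 366) (nat_lit 1) (nat_lit 354) (nat_lit 1) (nat_lit 365) (nat_lit 1) (nat_lit 190) (nat_lit 424) (nat_lit 406)) (XT.lf (nat_lit 76) (nat_lit 9103420195) (nat_lit 0) (nat_lit 18975140983) (nat_lit 912) (nat_lit 9103420195) (nat_lit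 355) (nat_lit 1) (nat_lit 354) (nat_lit 1) (nat_lit 366) (nat_lit 1) (nat_lit 191) (nat_lit 424) (nat_lit 405))))) (XT.nd (nat_lit 156) (nat_lit 1216) (nat_lit 0) (XT.nd (nat_lit 78) (nat_lit 0) (nat_lit 0) (XT.lf (nat_lit 684) (nat_lit 14521780474) (nat_lit 0) (nat_lit 11082586251) (nat_lit 608) (nat_lit 11082586251) (nat_lit 355) (nat_lit 1) (nat_lit 346) (nat_lit 1) (nat_lit 354) (nat_lit 1) (nat_lit 192) (nat_lit 424) (nat_lit 404)) (XT.lf (nat_lit 76) (nat_lit 5400136197) (nat_lit 0) (nat_lit 25401882722) (nat_lit 684) (nat_lit 5400136197) (nat_lit 347) (nat_lit 1) (nat_lit 346) (nat_lit 1) (nat_lit 355) (nat_lit 1) (nat_lit 193) (nat_lit 424) (nat_lit 403))) (XT.nd (nat_lit 78) (nat_lit 608) (nat_lit 0) (XT.lf (nat_lit 684) (nat_lit 6938119689) (nat_lit 0) (nat_lit 14393052179) (nat_lit 608) (nat_lit 14393052179) (nat_lit 347) (nat_lit 1) (nat_lit 338) (nat_lit 1) (nat_lit 346) (nat_lit 1) (nat_lit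 194) (nat_lit 424) (nat_lit 402)) (XT.nd (nat_lit 78) (nat_lit 608) (nat_lit 0) (XT.lf (nat_lit 76) (nat_lit 1559881306) (nat_lit 0) (nat_lit 32138449882) (nat_lit 684) (nat_lit 1559881306) (nat_lit 339) (nat_lit 1) (nat_lit 338) (nat_lit 1) (nat_lit 347) (nat_lit 1) (nat_lit 195) (nat_lit 424) (nat_lit 401)) (XT.lf (nat_lit 76) (nat_lit 16955741980) (nat_lit 0) (nat_lit 884852715) (nat_lit 608) (nat_lit 16955741980) (nat_lit 331) (nat_lit 1) (nat_lit 330) (nat_lit 1) (nat_lit 338) (nat_lit 1) (nat_lit 196) (nat_lit 424) (nat_lit 400))))))))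
noncomputable def ec443 : XT := (XT.nd (nat_lit 1482) (nat_lit 4104) (nat_lit 0) (XT.nd (nat_lit 702) (nat_lit 2584) (nat_lit 0) (XT.nd (nat_lit 312) (nat_lit 1596) (nat_lit 0) (XT.nd (nat_lit 156) (nat_lit 532) (nat_lit 0) (XT.nd (nat_lit 78) (nat_lit 0) (nat_lit 0) (XT.lf (nat_lit 684) (nat_lit 29594349059) (nat_lit 0) (nat_lit 2375778031) (nat_lit 608) (nat_lit 2375778031) (nat_lit 331) (nat_lit 1) (nat_lit 322) (nat_lit 1) (nat_lit 330) (nat_lit 1) (nat_lit 197) (nat_lit 424) (nat_lit 399)) (XT.lf (nat_lit 76) (nat_lit 12554971297) (nat_lit 0) (nat_lit 8790115971) (nat_lit 684) (nat_lit 12554971297) (nat_lit 323) (nat_lit 1) (nat_lit 322) (nat_lit 1) (nat_lit 331) (nat_lit 1) (nat_lit 198) (nat_lit 424) (nat_lit 398))) (XT.nd (nat_lit 78) (nat_lit 0) (nat_lit 0) (XT.lf (nat_lit 608) (nat_lit 20669972302) (nat_lit 0) (nat_lit 6397357750) (nat_lit 532) (nat_lit 6397357750) (nat_lit 323) (nat_lit 1)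 (nat_lit 315) (nat_lit 1) (nat_lit 322) (nat_lit 1) (nat_lit 199) (nat_lit 424) (nat_lit 397)) (XT.lf (nat_lit 76) (nat_lit 8077334171) (nat_lit 0) (nat_lit 16881368627) (nat_lit 608) (nat_lit 8077334171) (nat_lit 316) (nat_lit 1) (nat_lit 315) (nat_lit 1) (nat_lit 323) (nat_lit 1) (nat_lit 200) (nat_lit 424) (nat_lit 396)))) (XT.nd (nat_lit 156) (nat_lit 1064) (nat_lit 0) (XT.nd (nat_lit 78) (nat_lit 0) (nat_lit 0) (XT.lf (nat_lit 608) (nat_lit 11605374475) (nat_lit 0) (nat_lit 10504838071) (nat_lit 532) (nat_lit 10504838071) (nat_lit 316) (nat_lit 1) (nat_lit 308) (nat_lit 1) (nat_lit 315) (nat_lit 1) (nat_lit 201) (nat_lit 424) (nat_lit 395)) (XT.lf (nat_lit 76) (nat_lit 3536839807) (nat_lit 0) (nat_lit 25129299650) (nat_lit 608) (nat_lit 3536839807) (nat_lit 309) (nat_lit 1) (nat_lit 308) (nat_lit 1) (nat_lit 316) (nat_lit 1) (nat_lit 202) (nat_lit 424) (nat_lit 394))) (XT.nd (nat_lit 78) (nat_lit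 608) (nat_lit 0) (XT.lf (nat_lit 532) (nat_lit 2427610186) (nat_lit 0) (nat_lit 14684062053) (nat_lit 456) (nat_lit 14684062053) (nat_lit 309) (nat_lit 1) (nat_lit 302) (nat_lit 1) (nat_lit 308) (nat_lit 1) (nat_lit 203) (nat_lit 424) (nat_lit 393)) (XT.nd (nat_lit 78) (nat_lit 0) (nat_lit 0) (XT.lf (nat_lit 608) (nat_lit 29311915269) (nat_lit 0) (nat_lit 1043257011) (nat_lit 532) (nat_lit 1043257011) (nat_lit 302) (nat_lit 1) (nat_lit 294) (nat_lit 1) (nat_lit 301) (nat_lit 1) (nat_lit 204) (nat_lit 424) (nat_lit 392)) (XT.lf (nat_lit 76) (nat_lit 12149316200) (nat_lit 0) (nat_lit 6704931278) (nat_lit 608) (nat_lit 12149316200) (nat_lit 295) (nat_lit 1) (nat_lit 294) (nat_lit 1) (nat_lit 302) (nat_lit 1) (nat_lit 205) (nat_lit 424) (nat_lit 391)))))) (XT.nd (nat_lit 390) (nat_lit 1216) (nat_lit 0) (XT.nd (nat_lit 156) (nat_lit 912) (nat_lit 0) (XT.nd (nat_lit 78) (nat_lit 0) (nat_lit 0) (XT.lf (nat_lit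 532) (nat_lit 19365632860) (nat_lit 0) (nat_lit 5626325773) (nat_lit 456) (nat_lit 5626325773) (nat_lit 295) (nat_lit 1) (nat_lit 288) (nat_lit 1) (nat_lit 294) (nat_lit 1) (nat_lit 206) (nat_lit 424) (nat_lit 390)) (XT.lf (nat_lit 76) (nat_lit 7192286989) (nat_lit 0) (nat_lit 15854068252) (nat_lit 532) (nat_lit 7192286989) (nat_lit 289) (nat_lit 1) (nat_lit 288) (nat_lit 1) (nat_lit 295) (nat_lit 1) (nat_lit 207) (nat_lit 424) (nat_lit 389))) (XT.nd (nat_lit 78) (nat_lit 456) (nat_lit 0) (XT.lf (nat_lit 532) (nat_lit 9393162439) (nat_lit 0) (nat_lit 10236184003) (nat_lit 456) (nat_lit 10236184003) (nat_lit 289) (nat_lit 1) (nat_lit 282) (nat_lit 1) (nat_lit 288) (nat_lit 1) (nat_lit 208) (nat_lit 424) (nat_lit 388)) (XT.nd (nat_lit 78) (nat_lit 456) (nat_lit 0) (XT.lf (nat_lit 76) (nat_lit 2227065105) (nat_lit 0) (nat_lit 25046447001) (nat_lit 532) (nat_lit 2227065105) (nat_lit 283) (nat_lit 1) (nat_lit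 282) (nat_lit 1) (nat_lit 289) (nat_lit 1) (nat_lit 209) (nat_lit 424) (nat_lit 387)) (XT.lf (nat_lit 76) (nat_lit 14281889524) (nat_lit 0) (nat_lit 575153430) (nat_lit 456) (nat_lit 14281889524) (nat_lit 277) (nat_lit 1) (nat_lit 276) (nat_lit 1) (nat_lit 282) (nat_lit 1) (nat_lit 210) (nat_lit 424) (nat_lit 386))))) (XT.nd (nat_lit 156) (nat_lit 760) (nat_lit 0) (XT.nd (nat_lit 78) (nat_lit 0) (nat_lit 0) (XT.lf (nat_lit 532) (nat_lit 23364118590) (nat_lit 0) (nat_lit 2710515772) (nat_lit 456) (nat_lit 2710515772) (nat_lit 277) (nat_lit 1) (nat_lit 270) (nat_lit 1) (nat_lit 276) (nat_lit 1) (nat_lit 211) (nat_lit 424) (nat_lit 385)) (XT.lf (nat_lit 76) (nat_lit 9042288322) (nat_lit 0) (nat_lit 10350357778) (nat_lit 532) (nat_lit 9042288322) (nat_lit 271) (nat_lit 1) (nat_lit 270) (nat_lit 1) (nat_lit 277) (nat_lit 1) (nat_lit 212) (nat_lit 424) (nat_lit 384))) (XT.nd (nat_lit 78) (nat_lit 380) (nat_lit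 0) (XT.lf (nat_lit 456) (nat_lit 12857333670) (nat_lit 0) (nat_lit 7617314971) (nat_lit 380) (nat_lit 7617314971) (nat_lit 271) (nat_lit 1) (nat_lit 265) (nat_lit 1) (nat_lit 270) (nat_lit 1) (nat_lit 213) (nat_lit 424) (nat_lit 383)) (XT.nd (nat_lit 78) (nat_lit 380) (nat_lit 0) (XT.lf (nat_lit 76) (nat_lit 3827520079) (nat_lit 0) (nat_lit 20100234310) (nat_lit 456) (nat_lit 3827520079) (nat_lit 266) (nat_lit 1) (nat_lit 265) (nat_lit 1) (nat_lit 271) (nat_lit 1) (nat_lit 214) (nat_lit 424) (nat_lit 382)) (XT.lf (nat_lit 456) (nat_lit 2407208637) (nat_lit 0) (nat_lit 12507721761) (nat_lit 380) (nat_lit 12507721761) (nat_lit 266) (nat_lit 1) (nat_lit 260) (nat_lit 1) (nat_lit 265) (nat_lit 1) (nat_lit 215) (nat_lit 424) (nat_lit 381))))))) (XT.nd (nat_lit 702) (nat_lit 2204) (nat_lit 0) (XT.nd (nat_lit 312) (nat_lit 1064) (nat_lit 0) (XT.nd (nat_lit 156) (nat_lit 380) (nat_lit 0) (XT.nd (nat_lit 78)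 (nat_lit 0) (nat_lit 0) (XT.lf (nat_lit 456) (nat_lit 24412429070) (nat_lit 0) (nat_lit 1342511393) (nat_lit 380) (nat_lit 1342511393) (nat_lit 260) (nat_lit 1) (nat_lit 254) (nat_lit 1) (nat_lit 259) (nat_lit 1) (nat_lit 216) (nat_lit 424) (nat_lit 380)) (XT.lf (nat_lit 76) (nat_lit 9478005293) (nat_lit 0) (nat_lit 7817998837) (nat_lit 456) (nat_lit 9478005293) (nat_lit 255) (nat_lit 1) (nat_lit 254) (nat_lit 1) (nat_lit 260) (nat_lit 1) (nat_lit 217) (nat_lit 424) (nat_lit 379))) (XT.nd (nat_lit 78) (nat_lit 0) (nat_lit 0) (XT.lf (nat_lit 456) (nat_lit 13581869867) (nat_lit 0) (nat_lit 6437942670) (nat_lit 380) (nat_lit 6437942670) (nat_lit 255) (nat_lit 1) (nat_lit 249) (nat_lit 1) (nat_lit 254) (nat_lit 1) (nat_lit 218) (nat_lit 424) (nat_lit 378)) (XT.lf (nat_lit 76) (nat_lit 4114891779) (nat_lit 0) (nat_lit 17917012002) (nat_lit 456) (nat_lit 4114891779) (nat_lit 250) (nat_lit 1) (nat_lit 249)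 (nat_lit 1) (nat_lit 255) (nat_lit 1) (nat_lit 219) (nat_lit 424) (nat_lit 377)))) (XT.nd (nat_lit 156) (nat_lit 304) (nat_lit 0) (XT.nd (nat_lit 78) (nat_lit 456) (nat_lit 0) (XT.lf (nat_lit 380) (nat_lit 2857926278) (nat_lit 0) (nat_lit 11490925245) (nat_lit 304) (nat_lit 11490925245) (nat_lit 250) (nat_lit 1) (nat_lit 245) (nat_lit 1) (nat_lit 249) (nat_lit 1) (nat_lit 220) (nat_lit 424) (nat_lit 376)) (XT.lf (nat_lit 456) (nat_lit 23177117572) (nat_lit 0) (nat_lit 1181187790) (nat_lit 380) (nat_lit 1181187790) (nat_lit 245) (nat_lit 1) (nat_lit 239) (nat_lit 1) (nat_lit 244) (nat_lit 1) (nat_lit 221) (nat_lit 424) (nat_lit 375))) (XT.nd (nat_lit 78) (nat_lit 304) (nat_lit 0) (XT.lf (nat_lit 76) (nat_lit 8820596695) (nat_lit 0) (nat_lit 7599278334) (nat_lit 456) (nat_lit 8820596695) (nat_lit 240) (nat_lit 1) (nat_lit 239) (nat_lit 1) (nat_lit 245) (nat_lit 1) (nat_lit 222) (nat_lit 424) (nat_lit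 374)) (XT.nd (nat_lit 78) (nat_lit 0) (nat_lit 0) (XT.lf (nat_lit 380) (nat_lit 12192006989) (nat_lit 0) (nat_lit 6377991343) (nat_lit 304) (nat_lit 6377991343) (nat_lit 240) (nat_lit 1) (nat_lit 235) (nat_lit 1) (nat_lit 239) (nat_lit 1) (nat_lit 223) (nat_lit 424) (nat_lit 373)) (XT.lf (nat_lit 76) (nat_lit 3390410907) (nat_lit 0) (nat_lit 17879688795) (nat_lit 380) (nat_lit 3390410907) (nat_lit 236) (nat_lit 1) (nat_lit 235) (nat_lit 1) (nat_lit 240) (nat_lit 1) (nat_lit 224) (nat_lit 424) (nat_lit 372)))))) (XT.nd (nat_lit 390) (nat_lit 1216) (nat_lit 0) (XT.nd (nat_lit 156) (nat_lit 304) (nat_lit 0) (XT.nd (nat_lit 78) (nat_lit 380) (nat_lit 0) (XT.lf (nat_lit 380) (nat_lit 1351952908) (nat_lit 0) (nat_lit 11512173123) (nat_lit 304) (nat_lit 11512173123) (nat_lit 236) (nat_lit 1) (nat_lit 231) (nat_lit 1) (nat_lit 235) (nat_lit 1) (nat_lit 225) (nat_lit 424) (nat_lit 371)) (XT.lf (nat_lit 380)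 (nat_lit 20204067974) (nat_lit 0) (nat_lit 1946814248) (nat_lit 304) (nat_lit 1946814248) (nat_lit 231) (nat_lit 1) (nat_lit 226) (nat_lit 1) (nat_lit 230) (nat_lit 1) (nat_lit 226) (nat_lit 424) (nat_lit 370))) (XT.nd (nat_lit 78) (nat_lit 304) (nat_lit 0) (XT.lf (nat_lit 76) (nat_lit 7332988365) (nat_lit 0) (nat_lit 9155026760) (nat_lit 380) (nat_lit 7332988365) (nat_lit 227) (nat_lit 1) (nat_lit 226) (nat_lit 1) (nat_lit 231) (nat_lit 1) (nat_lit 227) (nat_lit 424) (nat_lit 369)) (XT.nd (nat_lit 78) (nat_lit 0) (nat_lit 0) (XT.lf (nat_lit 380) (nat_lit 9199433953) (nat_lit 0) (nat_lit 7175160675) (nat_lit 304) (nat_lit 7175160675) (nat_lit 227) (nat_lit 1) (nat_lit 222) (nat_lit 1) (nat_lit 226) (nat_lit 1) (nat_lit 228) (nat_lit 424) (nat_lit 368)) (XT.lf (nat_lit 76) (nat_lit 1900513681) (nat_lit 0) (nat_lit 19482727268) (nat_lit 380) (nat_lit 1900513681) (nat_lit 223) (nat_lit 1) (nat_lit 222)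 (nat_lit 1) (nat_lit 227) (nat_lit 1) (nat_lit 229) (nat_lit 424) (nat_lit 367))))) (XT.nd (nat_lit 156) (nat_lit 608) (nat_lit 0) (XT.nd (nat_lit 78) (nat_lit 304) (nat_lit 0) (XT.lf (nat_lit 76) (nat_lit 10710073134) (nat_lit 0) (nat_lit 1599321579) (nat_lit 304) (nat_lit 10710073134) (nat_lit 219) (nat_lit 1) (nat_lit 218) (nat_lit 1) (nat_lit 222) (nat_lit 1) (nat_lit 230) (nat_lit 424) (nat_lit 366)) (XT.lf (nat_lit 380) (nat_lit 15938860735) (nat_lit 0) (nat_lit 3410711076) (nat_lit 304) (nat_lit 3410711076) (nat_lit 219) (nat_lit 1) (nat_lit 214) (nat_lit 1) (nat_lit 218) (nat_lit 1) (nat_lit 231) (nat_lit 424) (nat_lit 365))) (XT.nd (nat_lit 78) (nat_lit 608) (nat_lit 0) (XT.lf (nat_lit 76) (nat_lit 5229706896) (nat_lit 0) (nat_lit 12044636789) (nat_lit 380) (nat_lit 5229706896) (nat_lit 215) (nat_lit 1) (nat_lit 214) (nat_lit 1) (nat_lit 219) (nat_lit 1) (nat_lit 232) (nat_lit 424) (nat_lit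 364)) (XT.nd (nat_lit 78) (nat_lit 380) (nat_lit 0) (XT.lf (nat_lit 304) (nat_lit 5021477716) (nat_lit 0) (nat_lit 8615182138) (nat_lit 228) (nat_lit 8615182138) (nat_lit 215) (nat_lit 1) (nat_lit 211) (nat_lit 1) (nat_lit 214) (nat_lit 1) (nat_lit 233) (nat_lit 424) (nat_lit 363)) (XT.lf (nat_lit 380) (nat_lit 21700580855) (nat_lit 0) (nat_lit 152385964) (nat_lit 304) (nat_lit 152385964) (nat_lit 211) (nat_lit 1) (nat_lit 206) (nat_lit 1) (nat_lit 210) (nat_lit 1) (nat_lit 234) (nat_lit 424) (nat_lit 362))))))))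
noncomputable def ec444 : XT := (XT.nd (nat_lit 1482) (nat_lit 2280) (nat_lit 0) (XT.nd (nat_lit 702) (nat_lit 1292) (nat_lit 0) (XT.nd (nat_lit 312) (nat_lit 760) (nat_lit 0) (XT.nd (nat_lit 156) (nat_lit 304) (nat_lit 0) (XT.nd (nat_lit 78) (nat_lit 228) (nat_lit 0) (XT.lf (nat_lit 76) (nat_lit 8084512381) (nat_lit 0) (nat_lit 5589354224) (nat_lit 380) (nat_lit 8084512381) (nat_lit 207) (nat_lit 1) (nat_lit 206) (nat_lit 1) (nat_lit 211) (nat_lit 1) (nat_lit 235) (nat_lit 424) (nat_lit 361)) (XT.lf (nat_lit 304) (nat_lit 10743784362) (nat_lit 0) (nat_lit 5386609095) (nat_lit 228) (nat_lit 5386609095) (nat_lit 207) (nat_lit 1) (nat_lit 203) (nat_lit 1) (nat_lit 206) (nat_lit 1) (nat_lit 236) (nat_lit 424) (nat_lit 360))) (XT.nd (nat_lit 78) (nat_lit 304) (nat_lit 0) (XT.lf (nat_lit 76) (nat_lit 2685093285) (nat_lit 0) (nat_lit 15909371656) (nat_lit 304) (nat_lit 2685093285) (nat_lit 204) (nat_lit 1)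 (nat_lit 203) (nat_lit 1) (nat_lit 207) (nat_lit 1) (nat_lit 237) (nat_lit 424) (nat_lit 359)) (XT.lf (nat_lit 76) (nat_lit 10520834577) (nat_lit 0) (nat_lit 2816834) (nat_lit 304) (nat_lit 10520834577) (nat_lit 200) (nat_lit 1) (nat_lit 199) (nat_lit 1) (nat_lit 203) (nat_lit 1) (nat_lit 238) (nat_lit 424) (nat_lit 358)))) (XT.nd (nat_lit 156) (nat_lit 532) (nat_lit 0) (XT.nd (nat_lit 78) (nat_lit 0) (nat_lit 0) (XT.lf (nat_lit 304) (nat_lit 15645001067) (nat_lit 0) (nat_lit 2584118190) (nat_lit 228) (nat_lit 2584118190) (nat_lit 200) (nat_lit 1) (nat_lit 196) (nat_lit 1) (nat_lit 199) (nat_lit 1) (nat_lit 239) (nat_lit 424) (nat_lit 357)) (XT.lf (nat_lit 76) (nat_lit 5125308243) (nat_lit 0) (nat_lit 10333596136) (nat_lit 304) (nat_lit 5125308243) (nat_lit 197) (nat_lit 1) (nat_lit 196) (nat_lit 1) (nat_lit 200) (nat_lit 1) (nat_lit 240) (nat_lit 424) (nat_lit 356))) (XT.nd (nat_lit 78) (nat_lit 304)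 (nat_lit 0) (XT.lf (nat_lit 304) (nat_lit 4912040136) (nat_lit 0) (nat_lit 7723433758) (nat_lit 228) (nat_lit 7723433758) (nat_lit 197) (nat_lit 1) (nat_lit 193) (nat_lit 1) (nat_lit 196) (nat_lit 1) (nat_lit 241) (nat_lit 424) (nat_lit 355)) (XT.nd (nat_lit 78) (nat_lit 0) (nat_lit 0) (XT.lf (nat_lit 304) (nat_lit 19822019469) (nat_lit 0) (nat_lit 158271831) (nat_lit 228) (nat_lit 158271831) (nat_lit 193) (nat_lit 1) (nat_lit 189) (nat_lit 1) (nat_lit 192) (nat_lit 1) (nat_lit 242) (nat_lit 424) (nat_lit 354)) (XT.lf (nat_lit 76) (nat_lit 7213612356) (nat_lit 0) (nat_lit 5490320189) (nat_lit 304) (nat_lit 7213612356) (nat_lit 190) (nat_lit 1) (nat_lit 189) (nat_lit 1) (nat_lit 193) (nat_lit 1) (nat_lit 243) (nat_lit 424) (nat_lit 353)))))) (XT.nd (nat_lit 390) (nat_lit 608) (nat_lit 0) (XT.nd (nat_lit 156) (nat_lit 456) (nat_lit 0) (XT.nd (nat_lit 78) (nat_lit 0) (nat_lit 0) (XT.lf (nat_lit 304) (nat_lit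 9135733231) (nat_lit 0) (nat_lit 5282831548) (nat_lit 228) (nat_lit 5282831548) (nat_lit 190) (nat_lit 1) (nat_lit 186) (nat_lit 1) (nat_lit 189) (nat_lit 1) (nat_lit 244) (nat_lit 424) (nat_lit 352)) (XT.lf (nat_lit 76) (nat_lit 1953955028) (nat_lit 0) (nat_lit 15580998740) (nat_lit 304) (nat_lit 1953955028) (nat_lit 187) (nat_lit 1) (nat_lit 186) (nat_lit 1) (nat_lit 190) (nat_lit 1) (nat_lit 245) (nat_lit 424) (nat_lit 351))) (XT.nd (nat_lit 78) (nat_lit 228) (nat_lit 0) (XT.lf (nat_lit 76) (nat_lit 8991572375) (nat_lit 0) (nat_lit 1294635526) (nat_lit 228) (nat_lit 8991572375) (nat_lit 184) (nat_lit 1) (nat_lit 183) (nat_lit 1) (nat_lit 186) (nat_lit 1) (nat_lit 246) (nat_lit 424) (nat_lit 350)) (XT.nd (nat_lit 78) (nat_lit 0) (nat_lit 0) (XT.lf (nat_lit 304) (nat_lit 12749455592) (nat_lit 0) (nat_lit 3160388270) (nat_lit 228) (nat_lit 3160388270) (nat_lit 184) (nat_lit 1) (nat_lit 180) (nat_lit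 1) (nat_lit 183) (nat_lit 1) (nat_lit 247) (nat_lit 424) (nat_lit 349)) (XT.lf (nat_lit 76) (nat_lit 3770985873) (nat_lit 0) (nat_lit 11323080665) (nat_lit 304) (nat_lit 3770985873) (nat_lit 181) (nat_lit 1) (nat_lit 180) (nat_lit 1) (nat_lit 184) (nat_lit 1) (nat_lit 248) (nat_lit 424) (nat_lit 348))))) (XT.nd (nat_lit 156) (nat_lit 152) (nat_lit 0) (XT.nd (nat_lit 78) (nat_lit 304) (nat_lit 0) (XT.lf (nat_lit 228) (nat_lit 2375151594) (nat_lit 0) (nat_lit 8143731944) (nat_lit 152) (nat_lit 8143731944) (nat_lit 181) (nat_lit 1) (nat_lit 178) (nat_lit 1) (nat_lit 180) (nat_lit 1) (nat_lit 249) (nat_lit 424) (nat_lit 347)) (XT.lf (nat_lit 304) (nat_lit 15825274649) (nat_lit 0) (nat_lit 1319285270) (nat_lit 228) (nat_lit 1319285270) (nat_lit 178) (nat_lit 1) (nat_lit 174) (nat_lit 1) (nat_lit 177) (nat_lit 1) (nat_lit 250) (nat_lit 424) (nat_lit 346))) (XT.nd (nat_lit 78) (nat_lit 152) (nat_lit 0) (XT.lf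 (nat_lit 76) (nat_lit 5326124668) (nat_lit 0) (nat_lit 7613386330) (nat_lit 304) (nat_lit 5326124668) (nat_lit 175) (nat_lit 1) (nat_lit 174) (nat_lit 1) (nat_lit 178) (nat_lit 1) (nat_lit 251) (nat_lit 424) (nat_lit 345)) (XT.nd (nat_lit 78) (nat_lit 0) (nat_lit 0) (XT.lf (nat_lit 228) (nat_lit 5555253621) (nat_lit 0) (nat_lit 6257885801) (nat_lit 152) (nat_lit 6257885801) (nat_lit 175) (nat_lit 1) (nat_lit 172) (nat_lit 1) (nat_lit 174) (nat_lit 1) (nat_lit 252) (nat_lit 424) (nat_lit 344)) (XT.lf (nat_lit 76) (nat_lit 275855790) (nat_lit 0) (nat_lit 17328769451) (nat_lit 228) (nat_lit 275855790) (nat_lit 173) (nat_lit 1) (nat_lit 172) (nat_lit 1) (nat_lit 175) (nat_lit 1) (nat_lit 253) (nat_lit 424) (nat_lit 343))))))) (XT.nd (nat_lit 702) (nat_lit 1140) (nat_lit 0) (XT.nd (nat_lit 312) (nat_lit 532) (nat_lit 0) (XT.nd (nat_lit 156) (nat_lit 228) (nat_lit 0) (XT.nd (nat_lit 78) (nat_lit 152) (nat_lit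 0) (XT.lf (nat_lit 76) (nat_lit 6650302066) (nat_lit 0) (nat_lit 4388643510) (nat_lit 228) (nat_lit 6650302066) (nat_lit 170) (nat_lit 1) (nat_lit 169) (nat_lit 1) (nat_lit 172) (nat_lit 1) (nat_lit 254) (nat_lit 424) (nat_lit 342)) (XT.lf (nat_lit 228) (nat_lit 8280394378) (nat_lit 0) (nat_lit 4610813052) (nat_lit 152) (nat_lit 4610813052) (nat_lit 170) (nat_lit 1) (nat_lit 167) (nat_lit 1) (nat_lit 169) (nat_lit 1) (nat_lit 255) (nat_lit 424) (nat_lit 341))) (XT.nd (nat_lit 78) (nat_lit 228) (nat_lit 0) (XT.lf (nat_lit 76) (nat_lit 1662210111) (nat_lit 0) (nat_lit 13993438431) (nat_lit 228) (nat_lit 1662210111) (nat_lit 168) (nat_lit 1) (nat_lit 167) (nat_lit 1) (nat_lit 170) (nat_lit 1) (nat_lit 256) (nat_lit 424) (nat_lit 340)) (XT.lf (nat_lit 76) (nat_lit 7770949273) (nat_lit 0) (nat_lit 1592697932) (nat_lit 228) (nat_lit 7770949273) (nat_lit 165) (nat_lit 1) (nat_lit 164) (nat_lit 1) (nat_lit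 167) (nat_lit 1) (nat_lit 257) (nat_lit 424) (nat_lit 339)))) (XT.nd (nat_lit 156) (nat_lit 380) (nat_lit 0) (XT.nd (nat_lit 78) (nat_lit 0) (nat_lit 0) (XT.lf (nat_lit 228) (nat_lit 10604230427) (nat_lit 0) (nat_lit 3175057939) (nat_lit 152) (nat_lit 3175057939) (nat_lit 165) (nat_lit 1) (nat_lit 162) (nat_lit 1) (nat_lit 164) (nat_lit 1) (nat_lit 258) (nat_lit 424) (nat_lit 338)) (XT.lf (nat_lit 76) (nat_lit 2852692751) (nat_lit 0) (nat_lit 11070902605) (nat_lit 228) (nat_lit 2852692751) (nat_lit 163) (nat_lit 1) (nat_lit 162) (nat_lit 1) (nat_lit 165) (nat_lit 1) (nat_lit 259) (nat_lit 424) (nat_lit 337))) (XT.nd (nat_lit 78) (nat_lit 228) (nat_lit 0) (XT.lf (nat_lit 228) (nat_lit 840687121) (nat_lit 0) (nat_lit 7879783820) (nat_lit 152) (nat_lit 7879783820) (nat_lit 163) (nat_lit 1) (nat_lit 160) (nat_lit 1) (nat_lit 162) (nat_lit 1) (nat_lit 260) (nat_lit 424) (nat_lit 336)) (XT.nd (nat_lit 78)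 (nat_lit 0) (nat_lit 0) (XT.lf (nat_lit 228) (nat_lit 12574349804) (nat_lit 0) (nat_lit 1926250537) (nat_lit 152) (nat_lit 1926250537) (nat_lit 160) (nat_lit 1) (nat_lit 157) (nat_lit 1) (nat_lit 159) (nat_lit 1) (nat_lit 261) (nat_lit 424) (nat_lit 335)) (XT.lf (nat_lit 76) (nat_lit 3870348130) (nat_lit 0) (nat_lit 8513939790) (nat_lit 228) (nat_lit 3870348130) (nat_lit 158) (nat_lit 1) (nat_lit 157) (nat_lit 1) (nat_lit 160) (nat_lit 1) (nat_lit 262) (nat_lit 424) (nat_lit 334)))))) (XT.nd (nat_lit 390) (nat_lit 608) (nat_lit 0) (XT.nd (nat_lit 156) (nat_lit 152) (nat_lit 0) (XT.nd (nat_lit 78) (nat_lit 228) (nat_lit 0) (XT.lf (nat_lit 228) (nat_lit 2964358745) (nat_lit 0) (nat_lit 6560323639) (nat_lit 152) (nat_lit 6560323639) (nat_lit 158) (nat_lit 1) (nat_lit 155) (nat_lit 1) (nat_lit 157) (nat_lit 1) (nat_lit 263) (nat_lit 424) (nat_lit 333)) (XT.lf (nat_lit 228) (nat_lit 14232951226) (nat_lit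 0) (nat_lit 842761937) (nat_lit 152) (nat_lit 842761937) (nat_lit 155) (nat_lit 1) (nat_lit 152) (nat_lit 1) (nat_lit 154) (nat_lit 1) (nat_lit 264) (nat_lit 424) (nat_lit 332))) (XT.nd (nat_lit 78) (nat_lit 152) (nat_lit 0) (XT.lf (nat_lit 76) (nat_lit 4735615903) (nat_lit 0) (nat_lit 6280628353) (nat_lit 228) (nat_lit 4735615903) (nat_lit 153) (nat_lit 1) (nat_lit 152) (nat_lit 1) (nat_lit 155) (nat_lit 1) (nat_lit 265) (nat_lit 424) (nat_lit 331)) (XT.nd (nat_lit 78) (nat_lit 0) (nat_lit 0) (XT.lf (nat_lit 228) (nat_lit 4786628455) (nat_lit 0) (nat_lit 5400838092) (nat_lit 152) (nat_lit 5400838092) (nat_lit 153) (nat_lit 1) (nat_lit 150) (nat_lit 1) (nat_lit 152) (nat_lit 1) (nat_lit 266) (nat_lit 424) (nat_lit 330)) (XT.lf (nat_lit 76) (nat_lit 95538750) (nat_lit 0) (nat_lit 15237055013) (nat_lit 228) (nat_lit 95538750) (nat_lit 151) (nat_lit 1) (nat_lit 150) (nat_lit 1) (nat_lit 153) (nat_lit 1)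 (nat_lit 267) (nat_lit 424) (nat_lit 329))))) (XT.nd (nat_lit 156) (nat_lit 304) (nat_lit 0) (XT.nd (nat_lit 78) (nat_lit 152) (nat_lit 0) (XT.lf (nat_lit 76) (nat_lit 5466622440) (nat_lit 0) (nat_lit 4333755122) (nat_lit 152) (nat_lit 5466622440) (nat_lit 149) (nat_lit 1) (nat_lit 148) (nat_lit 1) (nat_lit 150) (nat_lit 1) (nat_lit 268) (nat_lit 424) (nat_lit 328)) (XT.lf (nat_lit 228) (nat_lit 6342987583) (nat_lit 0) (nat_lit 4383114022) (nat_lit 152) (nat_lit 4383114022) (nat_lit 149) (nat_lit 1) (nat_lit 146) (nat_lit 1) (nat_lit 148) (nat_lit 1) (nat_lit 269) (nat_lit 424) (nat_lit 327))) (XT.nd (nat_lit 78) (nat_lit 304) (nat_lit 0) (XT.lf (nat_lit 76) (nat_lit 911812621) (nat_lit 0) (nat_lit 13130572490) (nat_lit 228) (nat_lit 911812621) (nat_lit 147) (nat_lit 1) (nat_lit 146) (nat_lit 1) (nat_lit 149) (nat_lit 1) (nat_lit 270) (nat_lit 424) (nat_lit 326)) (XT.nd (nat_lit 78) (nat_lit 152) (nat_lit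 0) (XT.lf (nat_lit 76) (nat_lit 6079439784) (nat_lit 0) (nat_lit 2640289351) (nat_lit 152) (nat_lit 6079439784) (nat_lit 145) (nat_lit 1) (nat_lit 144) (nat_lit 1) (nat_lit 146) (nat_lit 1) (nat_lit 271) (nat_lit 424) (nat_lit 325)) (XT.lf (nat_lit 228) (nat_lit 7664914932) (nat_lit 0) (nat_lit 3490980163) (nat_lit 152) (nat_lit 3490980163) (nat_lit 145) (nat_lit 1) (nat_lit 142) (nat_lit 1) (nat_lit 144) (nat_lit 1) (nat_lit 272) (nat_lit 424) (nat_lit 324))))))))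
noncomputable def ec445 : XT := (XT.nd (nat_lit 1482) (nat_lit 1444) (nat_lit 0) (XT.nd (nat_lit 702) (nat_lit 912) (nat_lit 0) (XT.nd (nat_lit 312) (nat_lit 608) (nat_lit 0) (XT.nd (nat_lit 156) (nat_lit 152) (nat_lit 0) (XT.nd (nat_lit 78) (nat_lit 152) (nat_lit 0) (XT.lf (nat_lit 76) (nat_lit 1612976111) (nat_lit 0) (nat_lit 11270854719) (nat_lit 228) (nat_lit 1612976111) (nat_lit 143) (nat_lit 1) (nat_lit 142) (nat_lit 1) (nat_lit 145) (nat_lit 1) (nat_lit 273) (nat_lit 424) (nat_lit 323)) (XT.lf (nat_lit 76) (nat_lit 6588315691) (nat_lit 0) (nat_lit 1170915373) (nat_lit 152) (nat_lit 6588315691) (nat_lit 141) (nat_lit 1) (nat_lit 140) (nat_lit 1) (nat_lit 142) (nat_lit 1) (nat_lit 274) (nat_lit 424) (nat_lit 322))) (XT.nd (nat_lit 78) (nat_lit 0) (nat_lit 0) (XT.lf (nat_lit 228) (nat_lit 8780325814) (nat_lit 0) (nat_lit 2710079131) (nat_lit 152) (nat_lit 2710079131) (nat_lit 141) (nat_lit 1) (nat_lit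 138) (nat_lit 1) (nat_lit 140) (nat_lit 1) (nat_lit 275) (nat_lit 424) (nat_lit 321)) (XT.lf (nat_lit 76) (nat_lit 2212567031) (nat_lit 0) (nat_lit 9630038659) (nat_lit 228) (nat_lit 2212567031) (nat_lit 139) (nat_lit 1) (nat_lit 138) (nat_lit 1) (nat_lit 141) (nat_lit 1) (nat_lit 276) (nat_lit 424) (nat_lit 320)))) (XT.nd (nat_lit 156) (nat_lit 304) (nat_lit 0) (XT.nd (nat_lit 78) (nat_lit 228) (nat_lit 0) (XT.lf (nat_lit 152) (nat_lit 102380413) (nat_lit 0) (nat_lit 6904481728) (nat_lit 76) (nat_lit 6904481728) (nat_lit 139) (nat_lit 1) (nat_lit 137) (nat_lit 1) (nat_lit 138) (nat_lit 1) (nat_lit 277) (nat_lit 424) (nat_lit 319)) (XT.lf (nat_lit 228) (nat_lit 9713970980) (nat_lit 0) (nat_lit 2027664839) (nat_lit 152) (nat_lit 2027664839) (nat_lit 137) (nat_lit 1) (nat_lit 134) (nat_lit 1) (nat_lit 136) (nat_lit 1) (nat_lit 278) (nat_lit 424) (nat_lit 318))) (XT.nd (nat_lit 78) (nat_lit 304) (nat_lit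 0) (XT.lf (nat_lit 76) (nat_lit 2722593119) (nat_lit 0) (nat_lit 8183378428) (nat_lit 228) (nat_lit 2722593119) (nat_lit 135) (nat_lit 1) (nat_lit 134) (nat_lit 1) (nat_lit 137) (nat_lit 1) (nat_lit 279) (nat_lit 424) (nat_lit 317)) (XT.nd (nat_lit 78) (nat_lit 228) (nat_lit 0) (XT.lf (nat_lit 152) (nat_lit 1220505831) (nat_lit 0) (nat_lit 6134542588) (nat_lit 76) (nat_lit 6134542588) (nat_lit 135) (nat_lit 1) (nat_lit 133) (nat_lit 1) (nat_lit 134) (nat_lit 1) (nat_lit 280) (nat_lit 424) (nat_lit 316)) (XT.lf (nat_lit 228) (nat_lit 10487791009) (nat_lit 0) (nat_lit 1432422522) (nat_lit 152) (nat_lit 1432422522) (nat_lit 133) (nat_lit 1) (nat_lit 130) (nat_lit 1) (nat_lit 132) (nat_lit 1) (nat_lit 281) (nat_lit 424) (nat_lit 315)))))) (XT.nd (nat_lit 390) (nat_lit 532) (nat_lit 0) (XT.nd (nat_lit 156) (nat_lit 304) (nat_lit 0) (XT.nd (nat_lit 78) (nat_lit 76) (nat_lit 0) (XT.lf (nat_lit 76) (nat_lit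 3153703255) (nat_lit 0) (nat_lit 6908897400) (nat_lit 228) (nat_lit 3153703255) (nat_lit 131) (nat_lit 1) (nat_lit 130) (nat_lit 1) (nat_lit 133) (nat_lit 1) (nat_lit 282) (nat_lit 424) (nat_lit 314)) (XT.lf (nat_lit 152) (nat_lit 2181046497) (nat_lit 0) (nat_lit 5450461634) (nat_lit 76) (nat_lit 5450461634) (nat_lit 131) (nat_lit 1) (nat_lit 129) (nat_lit 1) (nat_lit 130) (nat_lit 1) (nat_lit 283) (nat_lit 424) (nat_lit 313))) (XT.nd (nat_lit 78) (nat_lit 76) (nat_lit 0) (XT.lf (nat_lit 228) (nat_lit 11121231142) (nat_lit 0) (nat_lit 914308834) (nat_lit 152) (nat_lit 914308834) (nat_lit 129) (nat_lit 1) (nat_lit 126) (nat_lit 1) (nat_lit 128) (nat_lit 1) (nat_lit 284) (nat_lit 424) (nat_lit 312)) (XT.nd (nat_lit 78) (nat_lit 76) (nat_lit 0) (XT.lf (nat_lit 76) (nat_lit 3515339576) (nat_lit 0) (nat_lit 5787079116) (nat_lit 228) (nat_lit 3515339576) (nat_lit 127) (nat_lit 1) (nat_lit 126) (nat_lit 1)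 (nat_lit 129) (nat_lit 1) (nat_lit 285) (nat_lit 424) (nat_lit 311)) (XT.lf (nat_lit 152) (nat_lit 3002533383) (nat_lit 0) (nat_lit 4842664567) (nat_lit 76) (nat_lit 4842664567) (nat_lit 127) (nat_lit 1) (nat_lit 125) (nat_lit 1) (nat_lit 126) (nat_lit 1) (nat_lit 286) (nat_lit 424) (nat_lit 310))))) (XT.nd (nat_lit 156) (nat_lit 304) (nat_lit 0) (XT.nd (nat_lit 78) (nat_lit 0) (nat_lit 0) (XT.lf (nat_lit 228) (nat_lit 11631520962) (nat_lit 0) (nat_lit 464409785) (nat_lit 152) (nat_lit 464409785) (nat_lit 125) (nat_lit 1) (nat_lit 122) (nat_lit 1) (nat_lit 124) (nat_lit 1) (nat_lit 287) (nat_lit 424) (nat_lit 309)) (XT.lf (nat_lit 76) (nat_lit 3815872595) (nat_lit 0) (nat_lit 4800592666) (nat_lit 228) (nat_lit 3815872595) (nat_lit 123) (nat_lit 1) (nat_lit 122) (nat_lit 1) (nat_lit 125) (nat_lit 1) (nat_lit 288) (nat_lit 424) (nat_lit 308))) (XT.nd (nat_lit 78) (nat_lit 228) (nat_lit 0) (XT.lf (nat_lit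 152) (nat_lit 3701403108) (nat_lit 0) (nat_lit 4302644745) (nat_lit 76) (nat_lit 4302644745) (nat_lit 123) (nat_lit 1) (nat_lit 121) (nat_lit 1) (nat_lit 122) (nat_lit 1) (nat_lit 289) (nat_lit 424) (nat_lit 307)) (XT.nd (nat_lit 78) (nat_lit 0) (nat_lit 0) (XT.lf (nat_lit 228) (nat_lit 12033922844) (nat_lit 0) (nat_lit 74814534) (nat_lit 152) (nat_lit 74814534) (nat_lit 121) (nat_lit 1) (nat_lit 118) (nat_lit 1) (nat_lit 120) (nat_lit 1) (nat_lit 290) (nat_lit 424) (nat_lit 306)) (XT.lf (nat_lit 76) (nat_lit 4062721254) (nat_lit 0) (nat_lit 3934048703) (nat_lit 228) (nat_lit 4062721254) (nat_lit 119) (nat_lit 1) (nat_lit 118) (nat_lit 1) (nat_lit 121) (nat_lit 1) (nat_lit 291) (nat_lit 424) (nat_lit 305))))))) (XT.nd (nat_lit 702) (nat_lit 760) (nat_lit 0) (XT.nd (nat_lit 312) (nat_lit 380) (nat_lit 0) (XT.nd (nat_lit 156) (nat_lit 228) (nat_lit 0) (XT.nd (nat_lit 78) (nat_lit 0) (nat_lit 0) (XT.lf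 (nat_lit 152) (nat_lit 4292232300) (nat_lit 0) (nat_lit 3822844128) (nat_lit 76) (nat_lit 3822844128) (nat_lit 119) (nat_lit 1) (nat_lit 117) (nat_lit 1) (nat_lit 118) (nat_lit 1) (nat_lit 292) (nat_lit 424) (nat_lit 304)) (XT.lf (nat_lit 0) (nat_lit 264085821) (nat_lit 0) (nat_lit 11290481364) (nat_lit 152) (nat_lit 264085821) (nat_lit 117) (nat_lit 3) (nat_lit 117) (nat_lit 1) (nat_lit 119) (nat_lit 1) (nat_lit 293) (nat_lit 424) (nat_lit 303))) (XT.nd (nat_lit 78) (nat_lit 76) (nat_lit 0) (XT.lf (nat_lit 76) (nat_lit 4262459559) (nat_lit 0) (nat_lit 3173782675) (nat_lit 152) (nat_lit 4262459559) (nat_lit 116) (nat_lit 1) (nat_lit 115) (nat_lit 1) (nat_lit 117) (nat_lit 1) (nat_lit 294) (nat_lit 424) (nat_lit 302)) (XT.lf (nat_lit 152) (nat_lit 4787945795) (nat_lit 0) (nat_lit 3396547494) (nat_lit 76) (nat_lit 3396547494) (nat_lit 116) (nat_lit 1) (nat_lit 114) (nat_lit 1) (nat_lit 115) (nat_lit 1)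 (nat_lit 295) (nat_lit 424) (nat_lit 301)))) (XT.nd (nat_lit 156) (nat_lit 228) (nat_lit 0) (XT.nd (nat_lit 78) (nat_lit 152) (nat_lit 0) (XT.lf (nat_lit 0) (nat_lit 556205475) (nat_lit 0) (nat_lit 10353015100) (nat_lit 152) (nat_lit 556205475) (nat_lit 114) (nat_lit 3) (nat_lit 114) (nat_lit 1) (nat_lit 116) (nat_lit 1) (nat_lit 296) (nat_lit 424) (nat_lit 300)) (XT.lf (nat_lit 76) (nat_lit 4420911321) (nat_lit 0) (nat_lit 2507662233) (nat_lit 152) (nat_lit 4420911321) (nat_lit 113) (nat_lit 1) (nat_lit 112) (nat_lit 1) (nat_lit 114) (nat_lit 1) (nat_lit 297) (nat_lit 424) (nat_lit 299))) (XT.nd (nat_lit 78) (nat_lit 152) (nat_lit 0) (XT.lf (nat_lit 152) (nat_lit 5200001601) (nat_lit 0) (nat_lit 3017788456) (nat_lit 76) (nat_lit 3017788456) (nat_lit 113) (nat_lit 1) (nat_lit 111) (nat_lit 1) (nat_lit 112) (nat_lit 1) (nat_lit 298) (nat_lit 424) (nat_lit 298)) (XT.nd (nat_lit 78) (nat_lit 152) (nat_lit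 0) (XT.lf (nat_lit 0) (nat_lit 806383927) (nat_lit 0) (nat_lit 9510722390) (nat_lit 152) (nat_lit 806383927) (nat_lit 111) (nat_lit 3) (nat_lit 111) (nat_lit 1) (nat_lit 113) (nat_lit 1) (nat_lit 299) (nat_lit 424) (nat_lit 297)) (XT.lf (nat_lit 76) (nat_lit 4543234303) (nat_lit 0) (nat_lit 1924916127) (nat_lit 152) (nat_lit 4543234303) (nat_lit 110) (nat_lit 1) (nat_lit 109) (nat_lit 1) (nat_lit 111) (nat_lit 1) (nat_lit 300) (nat_lit 424) (nat_lit 296)))))) (XT.nd (nat_lit 390) (nat_lit 456) (nat_lit 0) (XT.nd (nat_lit 156) (nat_lit 228) (nat_lit 0) (XT.nd (nat_lit 78) (nat_lit 0) (nat_lit 0) (XT.lf (nat_lit 152) (nat_lit 5538555214) (nat_lit 0) (nat_lit 2681265956) (nat_lit 76) (nat_lit 2681265956) (nat_lit 110) (nat_lit 1) (nat_lit 108) (nat_lit 1) (nat_lit 109) (nat_lit 1) (nat_lit 301) (nat_lit 424) (nat_lit 295)) (XT.lf (nat_lit 0) (nat_lit 1019570962) (nat_lit 0) (nat_lit 8753262948) (nat_lit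 152) (nat_lit 1019570962) (nat_lit 108) (nat_lit 3) (nat_lit 108) (nat_lit 1) (nat_lit 110) (nat_lit 1) (nat_lit 302) (nat_lit 424) (nat_lit 294))) (XT.nd (nat_lit 78) (nat_lit 76) (nat_lit 0) (XT.lf (nat_lit 76) (nat_lit 4633994983) (nat_lit 0) (nat_lit 1415982185) (nat_lit 152) (nat_lit 4633994983) (nat_lit 107) (nat_lit 1) (nat_lit 106) (nat_lit 1) (nat_lit 108) (nat_lit 1) (nat_lit 303) (nat_lit 424) (nat_lit 293)) (XT.nd (nat_lit 78) (nat_lit 0) (nat_lit 0) (XT.lf (nat_lit 152) (nat_lit 5812605584) (nat_lit 0) (nat_lit 2382270074) (nat_lit 76) (nat_lit 2382270074) (nat_lit 107) (nat_lit 1) (nat_lit 105) (nat_lit 1) (nat_lit 106) (nat_lit 1) (nat_lit 304) (nat_lit 424) (nat_lit 292)) (XT.lf (nat_lit 0) (nat_lit 1200156456) (nat_lit 0) (nat_lit 8071441618) (nat_lit 152) (nat_lit 1200156456) (nat_lit 105) (nat_lit 3) (nat_lit 105) (nat_lit 1) (nat_lit 107) (nat_lit 1) (nat_lit 305) (nat_lit 424) (nat_lit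 291))))) (XT.nd (nat_lit 156) (nat_lit 228) (nat_lit 0) (XT.nd (nat_lit 78) (nat_lit 76) (nat_lit 0) (XT.lf (nat_lit 76) (nat_lit 4697234960) (nat_lit 0) (nat_lit 972372257) (nat_lit 152) (nat_lit 4697234960) (nat_lit 104) (nat_lit 1) (nat_lit 103) (nat_lit 1) (nat_lit 105) (nat_lit 1) (nat_lit 306) (nat_lit 424) (nat_lit 290)) (XT.lf (nat_lit 152) (nat_lit 6030124787) (nat_lit 0) (nat_lit 2116616105) (nat_lit 76) (nat_lit 2116616105) (nat_lit 104) (nat_lit 1) (nat_lit 102) (nat_lit 1) (nat_lit 103) (nat_lit 1) (nat_lit 307) (nat_lit 424) (nat_lit 289))) (XT.nd (nat_lit 78) (nat_lit 228) (nat_lit 0) (XT.lf (nat_lit 0) (nat_lit 1352033042) (nat_lit 0) (nat_lit 7457080910) (nat_lit 152) (nat_lit 1352033042) (nat_lit 102) (nat_lit 3) (nat_lit 102) (nat_lit 1) (nat_lit 104) (nat_lit 1) (nat_lit 308) (nat_lit 424) (nat_lit 288)) (XT.nd (nat_lit 78) (nat_lit 76) (nat_lit 0) (XT.lf (nat_lit 76) (nat_lit 4736529934)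 (nat_lit 0) (nat_lit 586552219) (nat_lit 152) (nat_lit 4736529934) (nat_lit 101) (nat_lit 1) (nat_lit 100) (nat_lit 1) (nat_lit 102) (nat_lit 1) (nat_lit 309) (nat_lit 424) (nat_lit 287)) (XT.lf (nat_lit 152) (nat_lit 6198173219) (nat_lit 0) (nat_lit 1880585995) (nat_lit 76) (nat_lit 1880585995) (nat_lit 101) (nat_lit 1) (nat_lit 99) (nat_lit 1) (nat_lit 100) (nat_lit 1) (nat_lit 310) (nat_lit 424) (nat_lit 286))))))))
noncomputable def ec446 : XT := (XT.nd (nat_lit 1482) (nat_lit 1444) (nat_lit 0) (XT.nd (nat_lit 702) (nat_lit 684) (nat_lit 0) (XT.nd (nat_lit 312) (nat_lit 456) (nat_lit 0) (XT.nd (nat_lit 156) (nat_lit 76) (nat_lit 0) (XT.nd (nat_lit 78) (nat_lit 152) (nat_lit 0) (XT.lf (nat_lit 0) (nat_lit 1478651783) (nat_lit 0) (nat_lit 6902907741) (nat_lit 152) (nat_lit 1478651783) (nat_lit 99) (nat_lit 3) (nat_lit 99) (nat_lit 1) (nat_lit 101) (nat_lit 1) (nat_lit 311) (nat_lit 424) (nat_lit 285))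 (XT.lf (nat_lit 76) (nat_lit 4755042111) (nat_lit 0) (nat_lit 251835373) (nat_lit 152) (nat_lit 4755042111) (nat_lit 98) (nat_lit 1) (nat_lit 97) (nat_lit 1) (nat_lit 99) (nat_lit 1) (nat_lit 312) (nat_lit 424) (nat_lit 284))) (XT.nd (nat_lit 78) (nat_lit 0) (nat_lit 0) (XT.lf (nat_lit 152) (nat_lit 6323001915) (nat_lit 0) (nat_lit 1670876299) (nat_lit 76) (nat_lit 1670876299) (nat_lit 98) (nat_lit 1) (nat_lit 96) (nat_lit 1) (nat_lit 97) (nat_lit 1) (nat_lit 313) (nat_lit 424) (nat_lit 283)) (XT.lf (nat_lit 0) (nat_lit 1583071633) (nat_lit 0) (nat_lit 6402452797) (nat_lit 152) (nat_lit 1583071633) (nat_lit 96) (nat_lit 3) (nat_lit 96) (nat_lit 1) (nat_lit 98) (nat_lit 1) (nat_lit 314) (nat_lit 424) (nat_lit 282)))) (XT.nd (nat_lit 156) (nat_lit 228) (nat_lit 0) (XT.nd (nat_lit 78) (nat_lit 152) (nat_lit 0) (XT.lf (nat_lit 76) (nat_lit 38462814) (nat_lit 0) (nat_lit 4717473652) (nat_lit 76) (nat_lit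 4717473652) (nat_lit 96) (nat_lit 3) (nat_lit 95) (nat_lit 1) (nat_lit 96) (nat_lit 1) (nat_lit 315) (nat_lit 424) (nat_lit 281)) (XT.lf (nat_lit 152) (nat_lit 6410143450) (nat_lit 0) (nat_lit 1484551950) (nat_lit 76) (nat_lit 1484551950) (nat_lit 95) (nat_lit 1) (nat_lit 93) (nat_lit 1) (nat_lit 94) (nat_lit 1) (nat_lit 316) (nat_lit 424) (nat_lit 280))) (XT.nd (nat_lit 78) (nat_lit 228) (nat_lit 0) (XT.lf (nat_lit 0) (nat_lit 1668003377) (nat_lit 0) (nat_lit 5949961119) (nat_lit 152) (nat_lit 1668003377) (nat_lit 93) (nat_lit 3) (nat_lit 93) (nat_lit 1) (nat_lit 95) (nat_lit 1) (nat_lit 317) (nat_lit 424) (nat_lit 279)) (XT.nd (nat_lit 78) (nat_lit 152) (nat_lit 0) (XT.lf (nat_lit 76) (nat_lit 293075067) (nat_lit 0) (nat_lit 4450315593) (nat_lit 76) (nat_lit 4450315593) (nat_lit 93) (nat_lit 3) (nat_lit 92) (nat_lit 1) (nat_lit 93) (nat_lit 1) (nat_lit 318) (nat_lit 424) (nat_lit 278)) (XT.lf (nat_lit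 152) (nat_lit 6464492678) (nat_lit 0) (nat_lit 1319005180) (nat_lit 76) (nat_lit 1319005180) (nat_lit 92) (nat_lit 1) (nat_lit 90) (nat_lit 1) (nat_lit 91) (nat_lit 1) (nat_lit 319) (nat_lit 424) (nat_lit 277)))))) (XT.nd (nat_lit 390) (nat_lit 380) (nat_lit 0) (XT.nd (nat_lit 156) (nat_lit 228) (nat_lit 0) (XT.nd (nat_lit 78) (nat_lit 76) (nat_lit 0) (XT.lf (nat_lit 0) (nat_lit 1735848653) (nat_lit 0) (nat_lit 5540312647) (nat_lit 152) (nat_lit 1735848653) (nat_lit 90) (nat_lit 3) (nat_lit 90) (nat_lit 1) (nat_lit 92) (nat_lit 1) (nat_lit 320) (nat_lit 424) (nat_lit 276)) (XT.lf (nat_lit 76) (nat_lit 511753939) (nat_lit 0) (nat_lit 4205408302) (nat_lit 76) (nat_lit 4205408302) (nat_lit 90) (nat_lit 3) (nat_lit 89) (nat_lit 1) (nat_lit 90) (nat_lit 1) (nat_lit 321) (nat_lit 424) (nat_lit 275))) (XT.nd (nat_lit 78) (nat_lit 76) (nat_lit 0) (XT.lf (nat_lit 152) (nat_lit 6490378451) (nat_lit 0) (nat_lit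 1171919018) (nat_lit 76) (nat_lit 1171919018) (nat_lit 89) (nat_lit 1) (nat_lit 87) (nat_lit 1) (nat_lit 88) (nat_lit 1) (nat_lit 322) (nat_lit 424) (nat_lit 274)) (XT.nd (nat_lit 78) (nat_lit 76) (nat_lit 0) (XT.lf (nat_lit 0) (nat_lit 1788734634) (nat_lit 0) (nat_lit 5168951617) (nat_lit 152) (nat_lit 1788734634) (nat_lit 87) (nat_lit 3) (nat_lit 87) (nat_lit 1) (nat_lit 89) (nat_lit 1) (nat_lit 323) (nat_lit 424) (nat_lit 273)) (XT.lf (nat_lit 76) (nat_lit 698726104) (nat_lit 0) (nat_lit 3980490165) (nat_lit 76) (nat_lit 3980490165) (nat_lit 87) (nat_lit 3) (nat_lit 86) (nat_lit 1) (nat_lit 87) (nat_lit 1) (nat_lit 324) (nat_lit 424) (nat_lit 272))))) (XT.nd (nat_lit 156) (nat_lit 228) (nat_lit 0) (XT.nd (nat_lit 78) (nat_lit 0) (nat_lit 0) (XT.lf (nat_lit 152) (nat_lit 6491627320) (nat_lit 0) (nat_lit 1041234869) (nat_lit 76) (nat_lit 1041234869) (nat_lit 86) (nat_lit 1) (nat_lit 84) (nat_lit 1)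 (nat_lit 85) (nat_lit 1) (nat_lit 325) (nat_lit 424) (nat_lit 271)) (XT.lf (nat_lit 0) (nat_lit 1828544825) (nat_lit 0) (nat_lit 4831823834) (nat_lit 152) (nat_lit 1828544825) (nat_lit 84) (nat_lit 3) (nat_lit 84) (nat_lit 1) (nat_lit 86) (nat_lit 1) (nat_lit 326) (nat_lit 424) (nat_lit 270))) (XT.nd (nat_lit 78) (nat_lit 152) (nat_lit 0) (XT.lf (nat_lit 76) (nat_lit 857740509) (nat_lit 0) (nat_lit 3773545372) (nat_lit 76) (nat_lit 3773545372) (nat_lit 84) (nat_lit 3) (nat_lit 83) (nat_lit 1) (nat_lit 84) (nat_lit 1) (nat_lit 327) (nat_lit 424) (nat_lit 269)) (XT.nd (nat_lit 78) (nat_lit 0) (nat_lit 0) (XT.lf (nat_lit 152) (nat_lit 6471620124) (nat_lit 0) (nat_lit 925123695) (nat_lit 76) (nat_lit 925123695) (nat_lit 83) (nat_lit 1) (nat_lit 81) (nat_lit 1) (nat_lit 82) (nat_lit 1) (nat_lit 328) (nat_lit 424) (nat_lit 268)) (XT.lf (nat_lit 0) (nat_lit 1856946424) (nat_lit 0) (nat_lit 4525320924) (nat_lit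 152) (nat_lit 1856946424) (nat_lit 81) (nat_lit 3) (nat_lit 81) (nat_lit 1) (nat_lit 83) (nat_lit 1) (nat_lit 329) (nat_lit 424) (nat_lit 267))))))) (XT.nd (nat_lit 702) (nat_lit 760) (nat_lit 0) (XT.nd (nat_lit 312) (nat_lit 380) (nat_lit 0) (XT.nd (nat_lit 156) (nat_lit 76) (nat_lit 0) (XT.nd (nat_lit 78) (nat_lit 152) (nat_lit 0) (XT.lf (nat_lit 76) (nat_lit 992121833) (nat_lit 0) (nat_lit 3582776688) (nat_lit 76) (nat_lit 3582776688) (nat_lit 81) (nat_lit 3) (nat_lit 80) (nat_lit 1) (nat_lit 81) (nat_lit 1) (nat_lit 330) (nat_lit 424) (nat_lit 266)) (XT.lf (nat_lit 152) (nat_lit 6433342243) (nat_lit 0) (nat_lit 821960420) (nat_lit 76) (nat_lit 821960420) (nat_lit 80) (nat_lit 1) (nat_lit 78) (nat_lit 1) (nat_lit 79) (nat_lit 1) (nat_lit 331) (nat_lit 424) (nat_lit 265))) (XT.nd (nat_lit 78) (nat_lit 76) (nat_lit 0) (XT.lf (nat_lit 0) (nat_lit 1875414623) (nat_lit 0) (nat_lit 4246230805) (nat_lit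 152) (nat_lit 1875414623) (nat_lit 78) (nat_lit 3) (nat_lit 78) (nat_lit 1) (nat_lit 80) (nat_lit 1) (nat_lit 332) (nat_lit 424) (nat_lit 264)) (XT.lf (nat_lit 76) (nat_lit 1104817981) (nat_lit 0) (nat_lit 3406581265) (nat_lit 76) (nat_lit 3406581265) (nat_lit 78) (nat_lit 3) (nat_lit 77) (nat_lit 1) (nat_lit 78) (nat_lit 1) (nat_lit 333) (nat_lit 424) (nat_lit 263)))) (XT.nd (nat_lit 156) (nat_lit 228) (nat_lit 0) (XT.nd (nat_lit 78) (nat_lit 0) (nat_lit 0) (XT.lf (nat_lit 152) (nat_lit 6379428231) (nat_lit 0) (nat_lit 730301187) (nat_lit 76) (nat_lit 730301187) (nat_lit 77) (nat_lit 1) (nat_lit 75) (nat_lit 1) (nat_lit 76) (nat_lit 1) (nat_lit 334) (nat_lit 424) (nat_lit 262)) (XT.lf (nat_lit 0) (nat_lit 1885254200) (nat_lit 0) (nat_lit 3991693671) (nat_lit 152) (nat_lit 1885254200) (nat_lit 75) (nat_lit 3) (nat_lit 75) (nat_lit 1) (nat_lit 77) (nat_lit 1) (nat_lit 335) (nat_lit 424) (nat_lit 261)))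 (XT.nd (nat_lit 78) (nat_lit 152) (nat_lit 0) (XT.lf (nat_lit 76) (nat_lit 1198442275) (nat_lit 0) (nat_lit 3243529140) (nat_lit 76) (nat_lit 3243529140) (nat_lit 75) (nat_lit 3) (nat_lit 74) (nat_lit 1) (nat_lit 75) (nat_lit 1) (nat_lit 336) (nat_lit 424) (nat_lit 260)) (XT.nd (nat_lit 78) (nat_lit 0) (nat_lit 0) (XT.lf (nat_lit 152) (nat_lit 6312201467) (nat_lit 0) (nat_lit 648863146) (nat_lit 76) (nat_lit 648863146) (nat_lit 74) (nat_lit 1) (nat_lit 72) (nat_lit 1) (nat_lit 73) (nat_lit 1) (nat_lit 337) (nat_lit 424) (nat_lit 259)) (XT.lf (nat_lit 0) (nat_lit 1887618695) (nat_lit 0) (nat_lit 3759162882) (nat_lit 152) (nat_lit 1887618695) (nat_lit 72) (nat_lit 3) (nat_lit 72) (nat_lit 1) (nat_lit 74) (nat_lit 1) (nat_lit 338) (nat_lit 424) (nat_lit 258)))))) (XT.nd (nat_lit 390) (nat_lit 304) (nat_lit 0) (XT.nd (nat_lit 156) (nat_lit 228) (nat_lit 0) (XT.nd (nat_lit 78) (nat_lit 152) (nat_lit 0) (XT.lf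 (nat_lit 76) (nat_lit 1275310933) (nat_lit 0) (nat_lit 3092344124) (nat_lit 76) (nat_lit 3092344124) (nat_lit 72) (nat_lit 3) (nat_lit 71) (nat_lit 1) (nat_lit 72) (nat_lit 1) (nat_lit 339) (nat_lit 424) (nat_lit 257)) (XT.lf (nat_lit 152) (nat_lit 6233709355) (nat_lit 0) (nat_lit 576506501) (nat_lit 76) (nat_lit 576506501) (nat_lit 71) (nat_lit 1) (nat_lit 69) (nat_lit 1) (nat_lit 70) (nat_lit 1) (nat_lit 340) (nat_lit 424) (nat_lit 256))) (XT.nd (nat_lit 78) (nat_lit 228) (nat_lit 0) (XT.lf (nat_lit 0) (nat_lit 1883527437) (nat_lit 0) (nat_lit 3546370208) (nat_lit 152) (nat_lit 1883527437) (nat_lit 69) (nat_lit 3) (nat_lit 69) (nat_lit 1) (nat_lit 71) (nat_lit 1) (nat_lit 341) (nat_lit 424) (nat_lit 255)) (XT.nd (nat_lit 78) (nat_lit 152) (nat_lit 0) (XT.lf (nat_lit 76) (nat_lit 1337476366) (nat_lit 0) (nat_lit 2951886822) (nat_lit 76) (nat_lit 2951886822) (nat_lit 69) (nat_lit 3) (nat_lit 68) (nat_lit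 1) (nat_lit 69) (nat_lit 1) (nat_lit 342) (nat_lit 424) (nat_lit 254)) (XT.lf (nat_lit 152) (nat_lit 6145754593) (nat_lit 0) (nat_lit 512218559) (nat_lit 76) (nat_lit 512218559) (nat_lit 68) (nat_lit 1) (nat_lit 66) (nat_lit 1) (nat_lit 67) (nat_lit 1) (nat_lit 343) (nat_lit 424) (nat_lit 253))))) (XT.nd (nat_lit 156) (nat_lit 228) (nat_lit 0) (XT.nd (nat_lit 78) (nat_lit 76) (nat_lit 0) (XT.lf (nat_lit 0) (nat_lit 1873880680) (nat_lit 0) (nat_lit 3351294944) (nat_lit 152) (nat_lit 1873880680) (nat_lit 66) (nat_lit 3) (nat_lit 66) (nat_lit 1) (nat_lit 68) (nat_lit 1) (nat_lit 344) (nat_lit 424) (nat_lit 252)) (XT.lf (nat_lit 76) (nat_lit 1386756758) (nat_lit 0) (nat_lit 2821139538) (nat_lit 76) (nat_lit 2821139538) (nat_lit 66) (nat_lit 3) (nat_lit 65) (nat_lit 1) (nat_lit 66) (nat_lit 1) (nat_lit 345) (nat_lit 424) (nat_lit 251))) (XT.nd (nat_lit 78) (nat_lit 76) (nat_lit 0) (XT.lf (nat_lit 152) (nat_lit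 6049922938) (nat_lit 0) (nat_lit 455099555) (nat_lit 76) (nat_lit 455099555) (nat_lit 65) (nat_lit 1) (nat_lit 63) (nat_lit 1) (nat_lit 64) (nat_lit 1) (nat_lit 346) (nat_lit 424) (nat_lit 250)) (XT.nd (nat_lit 78) (nat_lit 76) (nat_lit 0) (XT.lf (nat_lit 0) (nat_lit 1859473031) (nat_lit 0) (nat_lit 3172136469) (nat_lit 152) (nat_lit 1859473031) (nat_lit 63) (nat_lit 3) (nat_lit 63) (nat_lit 1) (nat_lit 65) (nat_lit 1) (nat_lit 347) (nat_lit 424) (nat_lit 249)) (XT.lf (nat_lit 76) (nat_lit 1424762341) (nat_lit 0) (nat_lit 2699192863) (nat_lit 76) (nat_lit 2699192863) (nat_lit 63) (nat_lit 3) (nat_lit 62) (nat_lit 1) (nat_lit 63) (nat_lit 1) (nat_lit 348) (nat_lit 424) (nat_lit 248))))))))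
noncomputable def ec447 : XT := (XT.nd (nat_lit 1482) (nat_lit 1368) (nat_lit 0) (XT.nd (nat_lit 702) (nat_lit 836) (nat_lit 0) (XT.nd (nat_lit 312) (nat_lit 304) (nat_lit 0) (XT.nd (nat_lit 156) (nat_lit 228) (nat_lit 0) (XT.nd (nat_lit 78) (nat_lit 0) (nat_lit 0) (XT.lf (nat_lit 152) (nat_lit 5947607863) (nat_lit 0) (nat_lit 404350060) (nat_lit 76) (nat_lit 404350060) (nat_lit 62) (nat_lit 1) (nat_lit 60) (nat_lit 1) (nat_lit 61) (nat_lit 1) (nat_lit 349) (nat_lit 424) (nat_lit 247)) (XT.lf (nat_lit 0) (nat_lit 1841005391) (nat_lit 0) (nat_lit 3007289854) (nat_lit 152) (nat_lit 1841005391) (nat_lit 60) (nat_lit 3) (nat_lit 60) (nat_lit 1) (nat_lit 62) (nat_lit 1) (nat_lit 350) (nat_lit 424) (nat_lit 246))) (XT.nd (nat_lit 78) (nat_lit 152) (nat_lit 0) (XT.lf (nat_lit 76) (nat_lit 1452918733) (nat_lit 0) (nat_lit 2585233745) (nat_lit 76) (nat_lit 2585233745) (nat_lit 60) (nat_lit 3) (nat_lit 59) (nat_lit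 1) (nat_lit 60) (nat_lit 1) (nat_lit 351) (nat_lit 424) (nat_lit 245)) (XT.lf (nat_lit 152) (nat_lit 5840032448) (nat_lit 0) (nat_lit 359259792) (nat_lit 76) (nat_lit 359259792) (nat_lit 59) (nat_lit 1) (nat_lit 57) (nat_lit 1) (nat_lit 58) (nat_lit 1) (nat_lit 352) (nat_lit 424) (nat_lit 244)))) (XT.nd (nat_lit 156) (nat_lit 228) (nat_lit 0) (XT.nd (nat_lit 78) (nat_lit 76) (nat_lit 0) (XT.lf (nat_lit 0) (nat_lit 1819095549) (nat_lit 0) (nat_lit 2855324189) (nat_lit 152) (nat_lit 1819095549) (nat_lit 57) (nat_lit 3) (nat_lit 57) (nat_lit 1) (nat_lit 59) (nat_lit 1) (nat_lit 353) (nat_lit 424) (nat_lit 243)) (XT.lf (nat_lit 76) (nat_lit 1472487677) (nat_lit 0) (nat_lit 2478534900) (nat_lit 76) (nat_lit 2478534900) (nat_lit 57) (nat_lit 3) (nat_lit 56) (nat_lit 1) (nat_lit 57) (nat_lit 1) (nat_lit 354) (nat_lit 424) (nat_lit 242))) (XT.nd (nat_lit 78) (nat_lit 76) (nat_lit 0) (XT.lf (nat_lit 152) (nat_lit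 5728268816) (nat_lit 0) (nat_lit 319197672) (nat_lit 76) (nat_lit 319197672) (nat_lit 56) (nat_lit 1) (nat_lit 54) (nat_lit 1) (nat_lit 55) (nat_lit 1) (nat_lit 355) (nat_lit 424) (nat_lit 241)) (XT.nd (nat_lit 78) (nat_lit 76) (nat_lit 0) (XT.lf (nat_lit 0) (nat_lit 1794287596) (nat_lit 0) (nat_lit 2714963320) (nat_lit 152) (nat_lit 1794287596) (nat_lit 54) (nat_lit 3) (nat_lit 54) (nat_lit 1) (nat_lit 56) (nat_lit 1) (nat_lit 356) (nat_lit 424) (nat_lit 240)) (XT.lf (nat_lit 76) (nat_lit 1484585453) (nat_lit 0) (nat_lit 2378445380) (nat_lit 76) (nat_lit 2378445380) (nat_lit 54) (nat_lit 3) (nat_lit 53) (nat_lit 1) (nat_lit 54) (nat_lit 1) (nat_lit 357) (nat_lit 424) (nat_lit 239)))))) (XT.nd (nat_lit 390) (nat_lit 456) (nat_lit 0) (XT.nd (nat_lit 156) (nat_lit 228) (nat_lit 0) (XT.nd (nat_lit 78) (nat_lit 0) (nat_lit 0) (XT.lf (nat_lit 152) (nat_lit 5613255394) (nat_lit 0) (nat_lit 283602997) (nat_lit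 76) (nat_lit 283602997) (nat_lit 53) (nat_lit 1) (nat_lit 51) (nat_lit 1) (nat_lit 52) (nat_lit 1) (nat_lit 358) (nat_lit 424) (nat_lit 238)) (XT.lf (nat_lit 0) (nat_lit 1767060280) (nat_lit 0) (nat_lit 2585068737) (nat_lit 152) (nat_lit 1767060280) (nat_lit 51) (nat_lit 3) (nat_lit 51) (nat_lit 1) (nat_lit 53) (nat_lit 1) (nat_lit 359) (nat_lit 424) (nat_lit 237))) (XT.nd (nat_lit 78) (nat_lit 152) (nat_lit 0) (XT.lf (nat_lit 76) (nat_lit 1490199242) (nat_lit 0) (nat_lit 2284382210) (nat_lit 76) (nat_lit 2284382210) (nat_lit 51) (nat_lit 3) (nat_lit 50) (nat_lit 1) (nat_lit 51) (nat_lit 1) (nat_lit 360) (nat_lit 424) (nat_lit 236)) (XT.nd (nat_lit 78) (nat_lit 0) (nat_lit 0) (XT.lf (nat_lit 152) (nat_lit 5495812233) (nat_lit 0) (nat_lit 251977589) (nat_lit 76) (nat_lit 251977589) (nat_lit 50) (nat_lit 1) (nat_lit 48) (nat_lit 1) (nat_lit 49) (nat_lit 1) (nat_lit 361) (nat_lit 424) (nat_lit 235)) (XT.lf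 (nat_lit 0) (nat_lit 1737834435) (nat_lit 0) (nat_lit 2464624354) (nat_lit 152) (nat_lit 1737834435) (nat_lit 48) (nat_lit 3) (nat_lit 48) (nat_lit 1) (nat_lit 50) (nat_lit 1) (nat_lit 362) (nat_lit 424) (nat_lit 234))))) (XT.nd (nat_lit 156) (nat_lit 228) (nat_lit 0) (XT.nd (nat_lit 78) (nat_lit 152) (nat_lit 0) (XT.lf (nat_lit 76) (nat_lit 1490201653) (nat_lit 0) (nat_lit 2195822934) (nat_lit 76) (nat_lit 2195822934) (nat_lit 48) (nat_lit 3) (nat_lit 47) (nat_lit 1) (nat_lit 48) (nat_lit 1) (nat_lit 363) (nat_lit 424) (nat_lit 233)) (XT.lf (nat_lit 152) (nat_lit 5376654606) (nat_lit 0) (nat_lit 223878824) (nat_lit 76) (nat_lit 223878824) (nat_lit 47) (nat_lit 1) (nat_lit 45) (nat_lit 1) (nat_lit 46) (nat_lit 1) (nat_lit 364) (nat_lit 424) (nat_lit 232))) (XT.nd (nat_lit 78) (nat_lit 228) (nat_lit 0) (XT.lf (nat_lit 0) (nat_lit 1706979565) (nat_lit 0) (nat_lit 2352722995) (nat_lit 152) (nat_lit 1706979565)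 (nat_lit 45) (nat_lit 3) (nat_lit 45) (nat_lit 1) (nat_lit 47) (nat_lit 1) (nat_lit 365) (nat_lit 424) (nat_lit 231)) (XT.nd (nat_lit 78) (nat_lit 152) (nat_lit 0) (XT.lf (nat_lit 76) (nat_lit 1485363632) (nat_lit 0) (nat_lit 2112299001) (nat_lit 76) (nat_lit 2112299001) (nat_lit 45) (nat_lit 3) (nat_lit 44) (nat_lit 1) (nat_lit 45) (nat_lit 1) (nat_lit 366) (nat_lit 424) (nat_lit 230)) (XT.lf (nat_lit 152) (nat_lit 5256405086) (nat_lit 0) (nat_lit 198913436) (nat_lit 76) (nat_lit 198913436) (nat_lit 44) (nat_lit 1) (nat_lit 42) (nat_lit 1) (nat_lit 43) (nat_lit 1) (nat_lit 367) (nat_lit 424) (nat_lit 229))))))) (XT.nd (nat_lit 702) (nat_lit 684) (nat_lit 0) (XT.nd (nat_lit 312) (nat_lit 456) (nat_lit 0) (XT.nd (nat_lit 156) (nat_lit 152) (nat_lit 0) (XT.nd (nat_lit 78) (nat_lit 76) (nat_lit 0) (XT.lf (nat_lit 0) (nat_lit 1674819699) (nat_lit 0) (nat_lit 2248554373) (nat_lit 152) (nat_lit 1674819699)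 (nat_lit 42) (nat_lit 3) (nat_lit 42) (nat_lit 1) (nat_lit 44) (nat_lit 1) (nat_lit 368) (nat_lit 424) (nat_lit 228)) (XT.lf (nat_lit 76) (nat_lit 1476365926) (nat_lit 0) (nat_lit 2033389881) (nat_lit 76) (nat_lit 2033389881) (nat_lit 42) (nat_lit 3) (nat_lit 41) (nat_lit 1) (nat_lit 42) (nat_lit 1) (nat_lit 369) (nat_lit 424) (nat_lit 227))) (XT.nd (nat_lit 78) (nat_lit 0) (nat_lit 0) (XT.lf (nat_lit 152) (nat_lit 5135604251) (nat_lit 0) (nat_lit 176732011) (nat_lit 76) (nat_lit 176732011) (nat_lit 41) (nat_lit 1) (nat_lit 39) (nat_lit 1) (nat_lit 40) (nat_lit 1) (nat_lit 370) (nat_lit 424) (nat_lit 226)) (XT.lf (nat_lit 0) (nat_lit 1641638585) (nat_lit 0) (nat_lit 2151394412) (nat_lit 152) (nat_lit 1641638585) (nat_lit 39) (nat_lit 3) (nat_lit 39) (nat_lit 1) (nat_lit 41) (nat_lit 1) (nat_lit 371) (nat_lit 424) (nat_lit 225)))) (XT.nd (nat_lit 156) (nat_lit 228) (nat_lit 0) (XT.nd (nat_lit 78) (nat_lit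 152) (nat_lit 0) (XT.lf (nat_lit 76) (nat_lit 1463809263) (nat_lit 0) (nat_lit 1958717832) (nat_lit 76) (nat_lit 1958717832) (nat_lit 39) (nat_lit 3) (nat_lit 38) (nat_lit 1) (nat_lit 39) (nat_lit 1) (nat_lit 372) (nat_lit 424) (nat_lit 224)) (XT.lf (nat_lit 152) (nat_lit 5014720205) (nat_lit 0) (nat_lit 157024103) (nat_lit 76) (nat_lit 157024103) (nat_lit 38) (nat_lit 1) (nat_lit 36) (nat_lit 1) (nat_lit 37) (nat_lit 1) (nat_lit 373) (nat_lit 424) (nat_lit 223))) (XT.nd (nat_lit 78) (nat_lit 228) (nat_lit 0) (XT.lf (nat_lit 0) (nat_lit 1607684305) (nat_lit 0) (nat_lit 2060595754) (nat_lit 152) (nat_lit 1607684305) (nat_lit 36) (nat_lit 3) (nat_lit 36) (nat_lit 1) (nat_lit 38) (nat_lit 1) (nat_lit 374) (nat_lit 424) (nat_lit 222)) (XT.nd (nat_lit 78) (nat_lit 152) (nat_lit 0) (XT.lf (nat_lit 76) (nat_lit 1448223395) (nat_lit 0) (nat_lit 1887943249) (nat_lit 76) (nat_lit 1887943249) (nat_lit 36) (nat_lit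 3) (nat_lit 35) (nat_lit 1) (nat_lit 36) (nat_lit 1) (nat_lit 375) (nat_lit 424) (nat_lit 221)) (XT.lf (nat_lit 152) (nat_lit 4894157003) (nat_lit 0) (nat_lit 139513882) (nat_lit 76) (nat_lit 139513882) (nat_lit 35) (nat_lit 1) (nat_lit 33) (nat_lit 1) (nat_lit 34) (nat_lit 1) (nat_lit 376) (nat_lit 424) (nat_lit 220)))))) (XT.nd (nat_lit 390) (nat_lit 380) (nat_lit 0) (XT.nd (nat_lit 156) (nat_lit 228) (nat_lit 0) (XT.nd (nat_lit 78) (nat_lit 76) (nat_lit 0) (XT.lf (nat_lit 0) (nat_lit 1573173366) (nat_lit 0) (nat_lit 1975579322) (nat_lit 152) (nat_lit 1573173366) (nat_lit 33) (nat_lit 3) (nat_lit 33) (nat_lit 1) (nat_lit 35) (nat_lit 1) (nat_lit 377) (nat_lit 424) (nat_lit 219)) (XT.lf (nat_lit 76) (nat_lit 1430075132) (nat_lit 0) (nat_lit 1820760527) (nat_lit 76) (nat_lit 1820760527) (nat_lit 33) (nat_lit 3) (nat_lit 32) (nat_lit 1) (nat_lit 33) (nat_lit 1) (nat_lit 378) (nat_lit 424) (nat_lit 218)))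 (XT.nd (nat_lit 78) (nat_lit 76) (nat_lit 0) (XT.lf (nat_lit 152) (nat_lit 4774262149) (nat_lit 0) (nat_lit 123956277) (nat_lit 76) (nat_lit 123956277) (nat_lit 32) (nat_lit 1) (nat_lit 30) (nat_lit 1) (nat_lit 31) (nat_lit 1) (nat_lit 379) (nat_lit 424) (nat_lit 217)) (XT.nd (nat_lit 78) (nat_lit 76) (nat_lit 0) (XT.lf (nat_lit 0) (nat_lit 1538294338) (nat_lit 0) (nat_lit 1895826819) (nat_lit 152) (nat_lit 1538294338) (nat_lit 30) (nat_lit 3) (nat_lit 30) (nat_lit 1) (nat_lit 32) (nat_lit 1) (nat_lit 380) (nat_lit 424) (nat_lit 216)) (XT.lf (nat_lit 76) (nat_lit 1409775468) (nat_lit 0) (nat_lit 1756894381) (nat_lit 76) (nat_lit 1756894381) (nat_lit 30) (nat_lit 3) (nat_lit 29) (nat_lit 1) (nat_lit 30) (nat_lit 1) (nat_lit 381) (nat_lit 424) (nat_lit 215))))) (XT.nd (nat_lit 156) (nat_lit 228) (nat_lit 0) (XT.nd (nat_lit 78) (nat_lit 0) (nat_lit 0) (XT.lf (nat_lit 152) (nat_lit 4655333229) (nat_lit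 0) (nat_lit 110133546) (nat_lit 76) (nat_lit 110133546) (nat_lit 29) (nat_lit 1) (nat_lit 27) (nat_lit 1) (nat_lit 28) (nat_lit 1) (nat_lit 382) (nat_lit 424) (nat_lit 214)) (XT.lf (nat_lit 0) (nat_lit 1503211079) (nat_lit 0) (nat_lit 1820874057) (nat_lit 152) (nat_lit 1503211079) (nat_lit 27) (nat_lit 3) (nat_lit 27) (nat_lit 1) (nat_lit 29) (nat_lit 1) (nat_lit 383) (nat_lit 424) (nat_lit 213))) (XT.nd (nat_lit 78) (nat_lit 152) (nat_lit 0) (XT.lf (nat_lit 76) (nat_lit 1387685919) (nat_lit 0) (nat_lit 1696096577) (nat_lit 76) (nat_lit 1696096577) (nat_lit 27) (nat_lit 3) (nat_lit 26) (nat_lit 1) (nat_lit 27) (nat_lit 1) (nat_lit 384) (nat_lit 424) (nat_lit 212)) (XT.nd (nat_lit 78) (nat_lit 0) (nat_lit 0) (XT.lf (nat_lit 152) (nat_lit 4537623809) (nat_lit 0) (nat_lit 97852229) (nat_lit 76) (nat_lit 97852229) (nat_lit 26) (nat_lit 1) (nat_lit 24) (nat_lit 1) (nat_lit 25) (nat_lit 1) (nat_lit 385) (nat_lit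 424) (nat_lit 211)) (XT.lf (nat_lit 0) (nat_lit 1468065598) (nat_lit 0) (nat_lit 1750305039) (nat_lit 152) (nat_lit 1468065598) (nat_lit 24) (nat_lit 3) (nat_lit 24) (nat_lit 1) (nat_lit 26) (nat_lit 1) (nat_lit 386) (nat_lit 424) (nat_lit 210))))))))
noncomputable def ec448 : XT := (XT.nd (nat_lit 1404) (nat_lit 228) (nat_lit 0) (XT.nd (nat_lit 702) (nat_lit 684) (nat_lit 0) (XT.nd (nat_lit 312) (nat_lit 380) (nat_lit 0) (XT.nd (nat_lit 156) (nat_lit 76) (nat_lit 0) (XT.nd (nat_lit 78) (nat_lit 152) (nat_lit 0) (XT.lf (nat_lit 76) (nat_lit 1364124146) (nat_lit 0) (nat_lit 1638143021) (nat_lit 76) (nat_lit 1638143021) (nat_lit 24) (nat_lit 3) (nat_lit 23) (nat_lit 1) (nat_lit 24) (nat_lit 1) (nat_lit 387) (nat_lit 424) (nat_lit 209)) (XT.lf (nat_lit 152) (nat_lit 4421348653) (nat_lit 0) (nat_lit 86940438) (nat_lit 76) (nat_lit 86940438) (nat_lit 23) (nat_lit 1) (nat_lit 21) (nat_lit 1) (nat_lit 22)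 (nat_lit 1) (nat_lit 388) (nat_lit 424) (nat_lit 208))) (XT.nd (nat_lit 78) (nat_lit 76) (nat_lit 0) (XT.lf (nat_lit 0) (nat_lit 1432980593) (nat_lit 0) (nat_lit 1683746681) (nat_lit 152) (nat_lit 1432980593) (nat_lit 21) (nat_lit 3) (nat_lit 21) (nat_lit 1) (nat_lit 23) (nat_lit 1) (nat_lit 389) (nat_lit 424) (nat_lit 207)) (XT.lf (nat_lit 76) (nat_lit 1339368946) (nat_lit 0) (nat_lit 1582831167) (nat_lit 76) (nat_lit 1582831167) (nat_lit 21) (nat_lit 3) (nat_lit 20) (nat_lit 1) (nat_lit 21) (nat_lit 1) (nat_lit 390) (nat_lit 424) (nat_lit 206)))) (XT.nd (nat_lit 156) (nat_lit 228) (nat_lit 0) (XT.nd (nat_lit 78) (nat_lit 0) (nat_lit 0) (XT.lf (nat_lit 152) (nat_lit 4306688363) (nat_lit 0) (nat_lit 77245453) (nat_lit 76) (nat_lit 77245453) (nat_lit 20) (nat_lit 1) (nat_lit 18) (nat_lit 1) (nat_lit 19) (nat_lit 1) (nat_lit 391) (nat_lit 424) (nat_lit 205)) (XT.lf (nat_lit 0) (nat_lit 1398061710) (nat_lit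 0) (nat_lit 1620864131) (nat_lit 152) (nat_lit 1398061710) (nat_lit 18) (nat_lit 3) (nat_lit 18) (nat_lit 1) (nat_lit 20) (nat_lit 1) (nat_lit 392) (nat_lit 424) (nat_lit 204))) (XT.nd (nat_lit 78) (nat_lit 152) (nat_lit 0) (XT.lf (nat_lit 76) (nat_lit 1313664690) (nat_lit 0) (nat_lit 1529977720) (nat_lit 76) (nat_lit 1529977720) (nat_lit 18) (nat_lit 3) (nat_lit 17) (nat_lit 1) (nat_lit 18) (nat_lit 1) (nat_lit 393) (nat_lit 424) (nat_lit 203)) (XT.nd (nat_lit 78) (nat_lit 0) (nat_lit 0) (XT.lf (nat_lit 152) (nat_lit 4193793480) (nat_lit 0) (nat_lit 68631585) (nat_lit 76) (nat_lit 68631585) (nat_lit 17) (nat_lit 1) (nat_lit 15) (nat_lit 1) (nat_lit 16) (nat_lit 1) (nat_lit 394) (nat_lit 424) (nat_lit 202)) (XT.lf (nat_lit 0) (nat_lit 1363399540) (nat_lit 0) (nat_lit 1561356606) (nat_lit 152) (nat_lit 1363399540) (nat_lit 15) (nat_lit 3) (nat_lit 15) (nat_lit 1) (nat_lit 17) (nat_lit 1) (nat_lit 395)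 (nat_lit 424) (nat_lit 201)))))) (XT.nd (nat_lit 312) (nat_lit 380) (nat_lit 0) (XT.nd (nat_lit 156) (nat_lit 76) (nat_lit 0) (XT.nd (nat_lit 78) (nat_lit 152) (nat_lit 0) (XT.lf (nat_lit 76) (nat_lit 1287225255) (nat_lit 0) (nat_lit 1479416581) (nat_lit 76) (nat_lit 1479416581) (nat_lit 15) (nat_lit 3) (nat_lit 14) (nat_lit 1) (nat_lit 15) (nat_lit 1) (nat_lit 396) (nat_lit 424) (nat_lit 200)) (XT.lf (nat_lit 152) (nat_lit 4082788131) (nat_lit 0) (nat_lit 60978274) (nat_lit 76) (nat_lit 60978274) (nat_lit 14) (nat_lit 1) (nat_lit 12) (nat_lit 1) (nat_lit 13) (nat_lit 1) (nat_lit 397) (nat_lit 424) (nat_lit 199))) (XT.nd (nat_lit 78) (nat_lit 76) (nat_lit 0) (XT.lf (nat_lit 0) (nat_lit 1329071394) (nat_lit 0) (nat_lit 1504953683) (nat_lit 152) (nat_lit 1329071394) (nat_lit 12) (nat_lit 3) (nat_lit 12) (nat_lit 1) (nat_lit 14) (nat_lit 1) (nat_lit 398) (nat_lit 424) (nat_lit 198)) (XT.lf (nat_lit 76)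 (nat_lit 1260237523) (nat_lit 0) (nat_lit 1430997027) (nat_lit 76) (nat_lit 1430997027) (nat_lit 12) (nat_lit 3) (nat_lit 11) (nat_lit 1) (nat_lit 12) (nat_lit 1) (nat_lit 399) (nat_lit 424) (nat_lit 197)))) (XT.nd (nat_lit 156) (nat_lit 228) (nat_lit 0) (XT.nd (nat_lit 78) (nat_lit 0) (nat_lit 0) (XT.lf (nat_lit 152) (nat_lit 3973773250) (nat_lit 0) (nat_lit 54178407) (nat_lit 76) (nat_lit 54178407) (nat_lit 11) (nat_lit 1) (nat_lit 9) (nat_lit 1) (nat_lit 10) (nat_lit 1) (nat_lit 400) (nat_lit 424) (nat_lit 196)) (XT.lf (nat_lit 0) (nat_lit 1295142877) (nat_lit 0) (nat_lit 1451412012) (nat_lit 152) (nat_lit 1295142877) (nat_lit 9) (nat_lit 3) (nat_lit 9) (nat_lit 1) (nat_lit 11) (nat_lit 1) (nat_lit 401) (nat_lit 424) (nat_lit 195))) (XT.nd (nat_lit 78) (nat_lit 152) (nat_lit 0) (XT.lf (nat_lit 76) (nat_lit 1232864480) (nat_lit 0) (nat_lit 1384582087) (nat_lit 76) (nat_lit 1384582087) (nat_lit 9)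 (nat_lit 3) (nat_lit 8) (nat_lit 1) (nat_lit 9) (nat_lit 1) (nat_lit 402) (nat_lit 424) (nat_lit 194)) (XT.nd (nat_lit 78) (nat_lit 0) (nat_lit 0) (XT.lf (nat_lit 152) (nat_lit 3866829439) (nat_lit 0) (nat_lit 48136813) (nat_lit 76) (nat_lit 48136813) (nat_lit 8) (nat_lit 1) (nat_lit 6) (nat_lit 1) (nat_lit 7) (nat_lit 1) (nat_lit 403) (nat_lit 424) (nat_lit 193)) (XT.lf (nat_lit 0) (nat_lit 1261669280) (nat_lit 0) (nat_lit 1400512383) (nat_lit 152) (nat_lit 1261669280) (nat_lit 6) (nat_lit 3) (nat_lit 6) (nat_lit 1) (nat_lit 8) (nat_lit 1) (nat_lit 404) (nat_lit 424) (nat_lit 192))))))) (XT.nd (nat_lit 36894) (nat_lit 0) (nat_lit 21204) (XT.nd (nat_lit 36504) (nat_lit 0) (nat_lit 24244) (XT.nd (nat_lit 156) (nat_lit 0) (nat_lit 0) (XT.nd (nat_lit 78) (nat_lit 152) (nat_lit 0) (XT.lf (nat_lit 76) (nat_lit 1205247970) (nat_lit 0) (nat_lit 1340047099) (nat_lit 76) (nat_lit 1340047099) (nat_lit 6) (nat_lit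 3) (nat_lit 5) (nat_lit 1) (nat_lit 6) (nat_lit 1) (nat_lit 405) (nat_lit 424) (nat_lit 191)) (XT.lf (nat_lit 152) (nat_lit 3762019499) (nat_lit 0) (nat_lit 42768934) (nat_lit 76) (nat_lit 42768934) (nat_lit 5) (nat_lit 1) (nat_lit 3) (nat_lit 1) (nat_lit 4) (nat_lit 1) (nat_lit 406) (nat_lit 424) (nat_lit 190))) (XT.nd (nat_lit 36270) (nat_lit 0) (nat_lit 26068) (XT.lf (nat_lit 0) (nat_lit 1228696823) (nat_lit 0) (nat_lit 1352057121) (nat_lit 152) (nat_lit 1228696823) (nat_lit 3) (nat_lit 3) (nat_lit 3) (nat_lit 1) (nat_lit 5) (nat_lit 1) (nat_lit 407) (nat_lit 424) (nat_lit 189)) (XT.lf (nat_lit 76) (nat_lit 5562140283) (nat_lit 0) (nat_lit 26163939204) (nat_lit 684) (nat_lit 5562140283) (nat_lit 347) (nat_lit 1) (nat_lit 346) (nat_lit 1) (nat_lit 355) (nat_lit 1) (nat_lit 191) (nat_lit 425) (nat_lit 404)))) (XT.nd (nat_lit 156) (nat_lit 1216) (nat_lit 0) (XT.nd (nat_lit 78) (nat_lit 0) (nat_lit 0)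 (XT.lf (nat_lit 684) (nat_lit 7146263280) (nat_lit 0) (nat_lit 14824843744) (nat_lit 608) (nat_lit 14824843744) (nat_lit 347) (nat_lit 1) (nat_lit 338) (nat_lit 1) (nat_lit 346) (nat_lit 1) (nat_lit 192) (nat_lit 425) (nat_lit 403)) (XT.lf (nat_lit 76) (nat_lit 1606677746) (nat_lit 0) (nat_lit 33102603379) (nat_lit 684) (nat_lit 1606677746) (nat_lit 339) (nat_lit 1) (nat_lit 338) (nat_lit 1) (nat_lit 347) (nat_lit 1) (nat_lit 193) (nat_lit 425) (nat_lit 402))) (XT.nd (nat_lit 78) (nat_lit 608) (nat_lit 0) (XT.lf (nat_lit 76) (nat_lit 17464414239) (nat_lit 0) (nat_lit 911398297) (nat_lit 608) (nat_lit 17464414239) (nat_lit 331) (nat_lit 1) (nat_lit 330) (nat_lit 1) (nat_lit 338) (nat_lit 1) (nat_lit 194) (nat_lit 425) (nat_lit 401)) (XT.nd (nat_lit 78) (nat_lit 0) (nat_lit 0) (XT.lf (nat_lit 684) (nat_lit 30482179531) (nat_lit 0) (nat_lit 2447051372) (nat_lit 608) (nat_lit 2447051372) (nat_lit 331) (nat_lit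 1) (nat_lit 322) (nat_lit 1) (nat_lit 330) (nat_lit 1) (nat_lit 195) (nat_lit 425) (nat_lit 400)) (XT.lf (nat_lit 76) (nat_lit 12931620436) (nat_lit 0) (nat_lit 9053819450) (nat_lit 684) (nat_lit 12931620436) (nat_lit 323) (nat_lit 1) (nat_lit 322) (nat_lit 1) (nat_lit 331) (nat_lit 1) (nat_lit 196) (nat_lit 425) (nat_lit 399)))))) (XT.nd (nat_lit 390) (nat_lit 1520) (nat_lit 0) (XT.nd (nat_lit 156) (nat_lit 988) (nat_lit 0) (XT.nd (nat_lit 78) (nat_lit 0) (nat_lit 0) (XT.lf (nat_lit 608) (nat_lit 21290071471) (nat_lit 0) (nat_lit 6589278483) (nat_lit 532) (nat_lit 6589278483) (nat_lit 323) (nat_lit 1) (nat_lit 315) (nat_lit 1) (nat_lit 322) (nat_lit 1) (nat_lit 197) (nat_lit 425) (nat_lit 398)) (XT.lf (nat_lit 76) (nat_lit 8319654196) (nat_lit 0) (nat_lit 17387809686) (nat_lit 608) (nat_lit 8319654196) (nat_lit 316) (nat_lit 1) (nat_lit 315) (nat_lit 1) (nat_lit 323) (nat_lit 1) (nat_lit 198) (nat_lit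 425) (nat_lit 397))) (XT.nd (nat_lit 78) (nat_lit 456) (nat_lit 0) (XT.lf (nat_lit 608) (nat_lit 11953535709) (nat_lit 0) (nat_lit 10819983213) (nat_lit 532) (nat_lit 10819983213) (nat_lit 316) (nat_lit 1) (nat_lit 308) (nat_lit 1) (nat_lit 315) (nat_lit 1) (nat_lit 199) (nat_lit 425) (nat_lit 396)) (XT.nd (nat_lit 78) (nat_lit 456) (nat_lit 0) (XT.lf (nat_lit 76) (nat_lit 3642945002) (nat_lit 0) (nat_lit 25883178640) (nat_lit 608) (nat_lit 3642945002) (nat_lit 309) (nat_lit 1) (nat_lit 308) (nat_lit 1) (nat_lit 316) (nat_lit 1) (nat_lit 200) (nat_lit 425) (nat_lit 395)) (XT.lf (nat_lit 532) (nat_lit 2500438491) (nat_lit 0) (nat_lit 15124583915) (nat_lit 456) (nat_lit 15124583915) (nat_lit 309) (nat_lit 1) (nat_lit 302) (nat_lit 1) (nat_lit 308) (nat_lit 1) (nat_lit 201) (nat_lit 425) (nat_lit 394))))) (XT.nd (nat_lit 156) (nat_lit 912) (nat_lit 0) (XT.nd (nat_lit 78) (nat_lit 0) (nat_lit 0) (XT.lf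 (nat_lit 608) (nat_lit 30191272727) (nat_lit 0) (nat_lit 1074554721) (nat_lit 532) (nat_lit 1074554721) (nat_lit 302) (nat_lit 1) (nat_lit 294) (nat_lit 1) (nat_lit 301) (nat_lit 1) (nat_lit 202) (nat_lit 425) (nat_lit 393)) (XT.lf (nat_lit 76) (nat_lit 12513795686) (nat_lit 0) (nat_lit 6906079217) (nat_lit 608) (nat_lit 12513795686) (nat_lit 295) (nat_lit 1) (nat_lit 294) (nat_lit 1) (nat_lit 302) (nat_lit 1) (nat_lit 203) (nat_lit 425) (nat_lit 392))) (XT.nd (nat_lit 78) (nat_lit 456) (nat_lit 0) (XT.lf (nat_lit 532) (nat_lit 19946601846) (nat_lit 0) (nat_lit 5795115546) (nat_lit 456) (nat_lit 5795115546) (nat_lit 295) (nat_lit 1) (nat_lit 288) (nat_lit 1) (nat_lit 294) (nat_lit 1) (nat_lit 204) (nat_lit 425) (nat_lit 391)) (XT.nd (nat_lit 78) (nat_lit 456) (nat_lit 0) (XT.lf (nat_lit 76) (nat_lit 7408055598) (nat_lit 0) (nat_lit 16329690300) (nat_lit 532) (nat_lit 7408055598) (nat_lit 289) (nat_lit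 1) (nat_lit 288) (nat_lit 1) (nat_lit 295) (nat_lit 1) (nat_lit 205) (nat_lit 425) (nat_lit 390)) (XT.lf (nat_lit 532) (nat_lit 9674957312) (nat_lit 0) (nat_lit 10543269524) (nat_lit 456) (nat_lit 10543269524) (nat_lit 289) (nat_lit 1) (nat_lit 282) (nat_lit 1) (nat_lit 288) (nat_lit 1) (nat_lit 206) (nat_lit 425) (nat_lit 389))))))))
noncomputable def ec449 : XT := (XT.nd (nat_lit 1482) (nat_lit 3268) (nat_lit 0) (XT.nd (nat_lit 702) (nat_lit 2128) (nat_lit 0) (XT.nd (nat_lit 312) (nat_lit 1216) (nat_lit 0) (XT.nd (nat_lit 156) (nat_lit 456) (nat_lit 0) (XT.nd (nat_lit 78) (nat_lit 456) (nat_lit 0) (XT.lf (nat_lit 76) (nat_lit 2293877058) (nat_lit 0) (nat_lit 25797840411) (nat_lit 532) (nat_lit 2293877058) (nat_lit 283) (nat_lit 1) (nat_lit 282) (nat_lit 1) (nat_lit 289) (nat_lit 1) (nat_lit 207) (nat_lit 425) (nat_lit 388)) (XT.lf (nat_lit 76) (nat_lit 14710346210) (nat_lit 0) (nat_lit 592408033)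 (nat_lit 456) (nat_lit 14710346210) (nat_lit 277) (nat_lit 1) (nat_lit 276) (nat_lit 1) (nat_lit 282) (nat_lit 1) (nat_lit 208) (nat_lit 425) (nat_lit 387))) (XT.nd (nat_lit 78) (nat_lit 0) (nat_lit 0) (XT.lf (nat_lit 532) (nat_lit 24065042148) (nat_lit 0) (nat_lit 2791831245) (nat_lit 456) (nat_lit 2791831245) (nat_lit 277) (nat_lit 1) (nat_lit 270) (nat_lit 1) (nat_lit 276) (nat_lit 1) (nat_lit 209) (nat_lit 425) (nat_lit 386)) (XT.lf (nat_lit 76) (nat_lit 9313556972) (nat_lit 0) (nat_lit 10660868512) (nat_lit 532) (nat_lit 9313556972) (nat_lit 271) (nat_lit 1) (nat_lit 270) (nat_lit 1) (nat_lit 277) (nat_lit 1) (nat_lit 210) (nat_lit 425) (nat_lit 385)))) (XT.nd (nat_lit 156) (nat_lit 836) (nat_lit 0) (XT.nd (nat_lit 78) (nat_lit 0) (nat_lit 0) (XT.lf (nat_lit 456) (nat_lit 13243053680) (nat_lit 0) (nat_lit 7845834420) (nat_lit 380) (nat_lit 7845834420) (nat_lit 271) (nat_lit 1) (nat_lit 265) (nat_lit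 1) (nat_lit 270) (nat_lit 1) (nat_lit 211) (nat_lit 425) (nat_lit 384)) (XT.lf (nat_lit 76) (nat_lit 3942345681) (nat_lit 0) (nat_lit 20703241340) (nat_lit 456) (nat_lit 3942345681) (nat_lit 266) (nat_lit 1) (nat_lit 265) (nat_lit 1) (nat_lit 271) (nat_lit 1) (nat_lit 212) (nat_lit 425) (nat_lit 383))) (XT.nd (nat_lit 78) (nat_lit 456) (nat_lit 0) (XT.lf (nat_lit 456) (nat_lit 2479424896) (nat_lit 0) (nat_lit 12882953414) (nat_lit 380) (nat_lit 12882953414) (nat_lit 266) (nat_lit 1) (nat_lit 260) (nat_lit 1) (nat_lit 265) (nat_lit 1) (nat_lit 213) (nat_lit 425) (nat_lit 382)) (XT.nd (nat_lit 78) (nat_lit 0) (nat_lit 0) (XT.lf (nat_lit 456) (nat_lit 25144801942) (nat_lit 0) (nat_lit 1382786735) (nat_lit 380) (nat_lit 1382786735) (nat_lit 260) (nat_lit 1) (nat_lit 254) (nat_lit 1) (nat_lit 259) (nat_lit 1) (nat_lit 214) (nat_lit 425) (nat_lit 381)) (XT.lf (nat_lit 76) (nat_lit 9762345452) (nat_lit 0)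 (nat_lit 8052538802) (nat_lit 456) (nat_lit 9762345452) (nat_lit 255) (nat_lit 1) (nat_lit 254) (nat_lit 1) (nat_lit 260) (nat_lit 1) (nat_lit 215) (nat_lit 425) (nat_lit 380)))))) (XT.nd (nat_lit 390) (nat_lit 988) (nat_lit 0) (XT.nd (nat_lit 156) (nat_lit 760) (nat_lit 0) (XT.nd (nat_lit 78) (nat_lit 0) (nat_lit 0) (XT.lf (nat_lit 456) (nat_lit 13989325963) (nat_lit 0) (nat_lit 6631080950) (nat_lit 380) (nat_lit 6631080950) (nat_lit 255) (nat_lit 1) (nat_lit 249) (nat_lit 1) (nat_lit 254) (nat_lit 1) (nat_lit 216) (nat_lit 425) (nat_lit 379)) (XT.lf (nat_lit 76) (nat_lit 4238338532) (nat_lit 0) (nat_lit 18454522362) (nat_lit 456) (nat_lit 4238338532) (nat_lit 250) (nat_lit 1) (nat_lit 249) (nat_lit 1) (nat_lit 255) (nat_lit 1) (nat_lit 217) (nat_lit 425) (nat_lit 378))) (XT.nd (nat_lit 78) (nat_lit 456) (nat_lit 0) (XT.lf (nat_lit 380) (nat_lit 2943664067) (nat_lit 0) (nat_lit 11835653002) (nat_lit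 304) (nat_lit 11835653002) (nat_lit 250) (nat_lit 1) (nat_lit 245) (nat_lit 1) (nat_lit 249) (nat_lit 1) (nat_lit 218) (nat_lit 425) (nat_lit 377)) (XT.nd (nat_lit 78) (nat_lit 0) (nat_lit 0) (XT.lf (nat_lit 456) (nat_lit 23872431099) (nat_lit 0) (nat_lit 1216623424) (nat_lit 380) (nat_lit 1216623424) (nat_lit 245) (nat_lit 1) (nat_lit 239) (nat_lit 1) (nat_lit 244) (nat_lit 1) (nat_lit 219) (nat_lit 425) (nat_lit 376)) (XT.lf (nat_lit 76) (nat_lit 9085214595) (nat_lit 0) (nat_lit 7827256684) (nat_lit 456) (nat_lit 9085214595) (nat_lit 240) (nat_lit 1) (nat_lit 239) (nat_lit 1) (nat_lit 245) (nat_lit 1) (nat_lit 220) (nat_lit 425) (nat_lit 375))))) (XT.nd (nat_lit 156) (nat_lit 684) (nat_lit 0) (XT.nd (nat_lit 78) (nat_lit 0) (nat_lit 0) (XT.lf (nat_lit 380) (nat_lit 12557767198) (nat_lit 0) (nat_lit 6569331083) (nat_lit 304) (nat_lit 6569331083) (nat_lit 240) (nat_lit 1) (nat_lit 235) (nat_lit 1) (nat_lit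 239) (nat_lit 1) (nat_lit 221) (nat_lit 425) (nat_lit 374)) (XT.lf (nat_lit 76) (nat_lit 3492123234) (nat_lit 0) (nat_lit 18416079459) (nat_lit 380) (nat_lit 3492123234) (nat_lit 236) (nat_lit 1) (nat_lit 235) (nat_lit 1) (nat_lit 240) (nat_lit 1) (nat_lit 222) (nat_lit 425) (nat_lit 373))) (XT.nd (nat_lit 78) (nat_lit 380) (nat_lit 0) (XT.lf (nat_lit 380) (nat_lit 1392511496) (nat_lit 0) (nat_lit 11857538317) (nat_lit 304) (nat_lit 11857538317) (nat_lit 236) (nat_lit 1) (nat_lit 231) (nat_lit 1) (nat_lit 235) (nat_lit 1) (nat_lit 223) (nat_lit 425) (nat_lit 372)) (XT.nd (nat_lit 78) (nat_lit 0) (nat_lit 0) (XT.lf (nat_lit 380) (nat_lit 20810190013) (nat_lit 0) (nat_lit 2005218675) (nat_lit 304) (nat_lit 2005218675) (nat_lit 231) (nat_lit 1) (nat_lit 226) (nat_lit 1) (nat_lit 230) (nat_lit 1) (nat_lit 224) (nat_lit 425) (nat_lit 371)) (XT.lf (nat_lit 76) (nat_lit 7552978016) (nat_lit 0) (nat_lit 9429677563)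 (nat_lit 380) (nat_lit 7552978016) (nat_lit 227) (nat_lit 1) (nat_lit 226) (nat_lit 1) (nat_lit 231) (nat_lit 1) (nat_lit 225) (nat_lit 425) (nat_lit 370))))))) (XT.nd (nat_lit 702) (nat_lit 1520) (nat_lit 0) (XT.nd (nat_lit 312) (nat_lit 836) (nat_lit 0) (XT.nd (nat_lit 156) (nat_lit 608) (nat_lit 0) (XT.nd (nat_lit 78) (nat_lit 0) (nat_lit 0) (XT.lf (nat_lit 380) (nat_lit 9475416971) (nat_lit 0) (nat_lit 7390415495) (nat_lit 304) (nat_lit 7390415495) (nat_lit 227) (nat_lit 1) (nat_lit 222) (nat_lit 1) (nat_lit 226) (nat_lit 1) (nat_lit 226) (nat_lit 425) (nat_lit 369)) (XT.lf (nat_lit 76) (nat_lit 1957529091) (nat_lit 0) (nat_lit 20067209087) (nat_lit 380) (nat_lit 1957529091) (nat_lit 223) (nat_lit 1) (nat_lit 222) (nat_lit 1) (nat_lit 227) (nat_lit 1) (nat_lit 227) (nat_lit 425) (nat_lit 368))) (XT.nd (nat_lit 78) (nat_lit 304) (nat_lit 0) (XT.lf (nat_lit 76) (nat_lit 11031375328) (nat_lit 0) (nat_lit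 1647301226) (nat_lit 304) (nat_lit 11031375328) (nat_lit 219) (nat_lit 1) (nat_lit 218) (nat_lit 1) (nat_lit 222) (nat_lit 1) (nat_lit 228) (nat_lit 425) (nat_lit 367)) (XT.lf (nat_lit 380) (nat_lit 16417026557) (nat_lit 0) (nat_lit 3513032408) (nat_lit 304) (nat_lit 3513032408) (nat_lit 219) (nat_lit 1) (nat_lit 214) (nat_lit 1) (nat_lit 218) (nat_lit 1) (nat_lit 229) (nat_lit 425) (nat_lit 366)))) (XT.nd (nat_lit 156) (nat_lit 608) (nat_lit 0) (XT.nd (nat_lit 78) (nat_lit 228) (nat_lit 0) (XT.lf (nat_lit 76) (nat_lit 5386598102) (nat_lit 0) (nat_lit 12405975893) (nat_lit 380) (nat_lit 5386598102) (nat_lit 215) (nat_lit 1) (nat_lit 214) (nat_lit 1) (nat_lit 219) (nat_lit 1) (nat_lit 230) (nat_lit 425) (nat_lit 365)) (XT.lf (nat_lit 304) (nat_lit 5172122048) (nat_lit 0) (nat_lit 8873637602) (nat_lit 228) (nat_lit 8873637602) (nat_lit 215) (nat_lit 1) (nat_lit 211) (nat_lit 1) (nat_lit 214) (nat_lit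 1) (nat_lit 231) (nat_lit 425) (nat_lit 364))) (XT.nd (nat_lit 78) (nat_lit 228) (nat_lit 0) (XT.lf (nat_lit 380) (nat_lit 22351598280) (nat_lit 0) (nat_lit 156957543) (nat_lit 304) (nat_lit 156957543) (nat_lit 211) (nat_lit 1) (nat_lit 206) (nat_lit 1) (nat_lit 210) (nat_lit 1) (nat_lit 232) (nat_lit 425) (nat_lit 363)) (XT.nd (nat_lit 78) (nat_lit 228) (nat_lit 0) (XT.lf (nat_lit 76) (nat_lit 8327047752) (nat_lit 0) (nat_lit 5757034850) (nat_lit 380) (nat_lit 8327047752) (nat_lit 207) (nat_lit 1) (nat_lit 206) (nat_lit 1) (nat_lit 211) (nat_lit 1) (nat_lit 233) (nat_lit 425) (nat_lit 362)) (XT.lf (nat_lit 304) (nat_lit 11066097893) (nat_lit 0) (nat_lit 5548207368) (nat_lit 228) (nat_lit 5548207368) (nat_lit 207) (nat_lit 1) (nat_lit 203) (nat_lit 1) (nat_lit 206) (nat_lit 1) (nat_lit 234) (nat_lit 425) (nat_lit 361)))))) (XT.nd (nat_lit 390) (nat_lit 760) (nat_lit 0) (XT.nd (nat_lit 156) (nat_lit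 456) (nat_lit 0) (XT.nd (nat_lit 78) (nat_lit 304) (nat_lit 0) (XT.lf (nat_lit 76) (nat_lit 2765646084) (nat_lit 0) (nat_lit 16386652806) (nat_lit 304) (nat_lit 2765646084) (nat_lit 204) (nat_lit 1) (nat_lit 203) (nat_lit 1) (nat_lit 207) (nat_lit 1) (nat_lit 235) (nat_lit 425) (nat_lit 360)) (XT.lf (nat_lit 76) (nat_lit 10836459614) (nat_lit 0) (nat_lit 2901339) (nat_lit 304) (nat_lit 10836459614) (nat_lit 200) (nat_lit 1) (nat_lit 199) (nat_lit 1) (nat_lit 203) (nat_lit 1) (nat_lit 236) (nat_lit 425) (nat_lit 359))) (XT.nd (nat_lit 78) (nat_lit 228) (nat_lit 0) (XT.lf (nat_lit 304) (nat_lit 16114351099) (nat_lit 0) (nat_lit 2661641736) (nat_lit 228) (nat_lit 2661641736) (nat_lit 200) (nat_lit 1) (nat_lit 196) (nat_lit 1) (nat_lit 199) (nat_lit 1) (nat_lit 237) (nat_lit 425) (nat_lit 358)) (XT.nd (nat_lit 78) (nat_lit 228) (nat_lit 0) (XT.lf (nat_lit 76) (nat_lit 5279067490) (nat_lit 0) (nat_lit 10643604021)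 (nat_lit 304) (nat_lit 5279067490) (nat_lit 197) (nat_lit 1) (nat_lit 196) (nat_lit 1) (nat_lit 200) (nat_lit 1) (nat_lit 238) (nat_lit 425) (nat_lit 357)) (XT.lf (nat_lit 304) (nat_lit 5059401341) (nat_lit 0) (nat_lit 7955136771) (nat_lit 228) (nat_lit 7955136771) (nat_lit 197) (nat_lit 1) (nat_lit 193) (nat_lit 1) (nat_lit 196) (nat_lit 1) (nat_lit 239) (nat_lit 425) (nat_lit 356))))) (XT.nd (nat_lit 156) (nat_lit 456) (nat_lit 0) (XT.nd (nat_lit 78) (nat_lit 0) (nat_lit 0) (XT.lf (nat_lit 304) (nat_lit 20416680053) (nat_lit 0) (nat_lit 163019986) (nat_lit 228) (nat_lit 163019986) (nat_lit 193) (nat_lit 1) (nat_lit 189) (nat_lit 1) (nat_lit 192) (nat_lit 1) (nat_lit 240) (nat_lit 425) (nat_lit 355)) (XT.lf (nat_lit 76) (nat_lit 7430020726) (nat_lit 0) (nat_lit 5655029795) (nat_lit 304) (nat_lit 7430020726) (nat_lit 190) (nat_lit 1) (nat_lit 189) (nat_lit 1) (nat_lit 193) (nat_lit 1) (nat_lit 241)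 (nat_lit 425) (nat_lit 354))) (XT.nd (nat_lit 78) (nat_lit 228) (nat_lit 0) (XT.lf (nat_lit 304) (nat_lit 9409805228) (nat_lit 0) (nat_lit 5441316495) (nat_lit 228) (nat_lit 5441316495) (nat_lit 190) (nat_lit 1) (nat_lit 186) (nat_lit 1) (nat_lit 189) (nat_lit 1) (nat_lit 242) (nat_lit 425) (nat_lit 353)) (XT.nd (nat_lit 78) (nat_lit 228) (nat_lit 0) (XT.lf (nat_lit 76) (nat_lit 2012573679) (nat_lit 0) (nat_lit 16048428702) (nat_lit 304) (nat_lit 2012573679) (nat_lit 187) (nat_lit 1) (nat_lit 186) (nat_lit 1) (nat_lit 190) (nat_lit 1) (nat_lit 243) (nat_lit 425) (nat_lit 352)) (XT.lf (nat_lit 76) (nat_lit 9261319547) (nat_lit 0) (nat_lit 1333474591) (nat_lit 228) (nat_lit 9261319547) (nat_lit 184) (nat_lit 1) (nat_lit 183) (nat_lit 1) (nat_lit 186) (nat_lit 1) (nat_lit 244) (nat_lit 425) (nat_lit 351))))))))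
noncomputable def ec450 : XT := (XT.nd (nat_lit 1482) (nat_lit 1976) (nat_lit 0) (XT.nd (nat_lit 702) (nat_lit 1140) (nat_lit 0) (XT.nd (nat_lit 312) (nat_lit 532) (nat_lit 0) (XT.nd (nat_lit 156) (nat_lit 456) (nat_lit 0) (XT.nd (nat_lit 78) (nat_lit 0) (nat_lit 0) (XT.lf (nat_lit 304) (nat_lit 13131939260) (nat_lit 0) (nat_lit 3255199918) (nat_lit 228) (nat_lit 3255199918) (nat_lit 184) (nat_lit 1) (nat_lit 180) (nat_lit 1) (nat_lit 183) (nat_lit 1) (nat_lit 245) (nat_lit 425) (nat_lit 350)) (XT.lf (nat_lit 76) (nat_lit 3884115450) (nat_lit 0) (nat_lit 11662773085) (nat_lit 304) (nat_lit 3884115450) (nat_lit 181) (nat_lit 1) (nat_lit 180) (nat_lit 1) (nat_lit 184) (nat_lit 1) (nat_lit 246) (nat_lit 425) (nat_lit 349))) (XT.nd (nat_lit 78) (nat_lit 304) (nat_lit 0) (XT.lf (nat_lit 228) (nat_lit 2446406142) (nat_lit 0) (nat_lit 8388043902) (nat_lit 152) (nat_lit 8388043902) (nat_lit 181) (nat_lit 1)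 (nat_lit 178) (nat_lit 1) (nat_lit 180) (nat_lit 1) (nat_lit 247) (nat_lit 425) (nat_lit 348)) (XT.lf (nat_lit 304) (nat_lit 16300032889) (nat_lit 0) (nat_lit 1358863829) (nat_lit 228) (nat_lit 1358863829) (nat_lit 178) (nat_lit 1) (nat_lit 174) (nat_lit 1) (nat_lit 177) (nat_lit 1) (nat_lit 248) (nat_lit 425) (nat_lit 347)))) (XT.nd (nat_lit 156) (nat_lit 380) (nat_lit 0) (XT.nd (nat_lit 78) (nat_lit 152) (nat_lit 0) (XT.lf (nat_lit 76) (nat_lit 5485908408) (nat_lit 0) (nat_lit 7841787920) (nat_lit 304) (nat_lit 5485908408) (nat_lit 175) (nat_lit 1) (nat_lit 174) (nat_lit 1) (nat_lit 178) (nat_lit 1) (nat_lit 249) (nat_lit 425) (nat_lit 346)) (XT.lf (nat_lit 228) (nat_lit 5721911230) (nat_lit 0) (nat_lit 6445622375) (nat_lit 152) (nat_lit 6445622375) (nat_lit 175) (nat_lit 1) (nat_lit 172) (nat_lit 1) (nat_lit 174) (nat_lit 1) (nat_lit 250) (nat_lit 425) (nat_lit 345))) (XT.nd (nat_lit 78) (nat_lit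 380) (nat_lit 0) (XT.lf (nat_lit 76) (nat_lit 284131464) (nat_lit 0) (nat_lit 17848632534) (nat_lit 228) (nat_lit 284131464) (nat_lit 173) (nat_lit 1) (nat_lit 172) (nat_lit 1) (nat_lit 175) (nat_lit 1) (nat_lit 251) (nat_lit 425) (nat_lit 344)) (XT.nd (nat_lit 78) (nat_lit 152) (nat_lit 0) (XT.lf (nat_lit 76) (nat_lit 6849811128) (nat_lit 0) (nat_lit 4520302816) (nat_lit 228) (nat_lit 6849811128) (nat_lit 170) (nat_lit 1) (nat_lit 169) (nat_lit 1) (nat_lit 172) (nat_lit 1) (nat_lit 252) (nat_lit 425) (nat_lit 343)) (XT.lf (nat_lit 228) (nat_lit 8528806210) (nat_lit 0) (nat_lit 4749137443) (nat_lit 152) (nat_lit 4749137443) (nat_lit 170) (nat_lit 1) (nat_lit 167) (nat_lit 1) (nat_lit 169) (nat_lit 1) (nat_lit 253) (nat_lit 425) (nat_lit 342)))))) (XT.nd (nat_lit 390) (nat_lit 608) (nat_lit 0) (XT.nd (nat_lit 156) (nat_lit 304) (nat_lit 0) (XT.nd (nat_lit 78) (nat_lit 228) (nat_lit 0) (XT.lf (nat_lit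 76) (nat_lit 1712076414) (nat_lit 0) (nat_lit 14413241584) (nat_lit 228) (nat_lit 1712076414) (nat_lit 168) (nat_lit 1) (nat_lit 167) (nat_lit 1) (nat_lit 170) (nat_lit 1) (nat_lit 254) (nat_lit 425) (nat_lit 341)) (XT.lf (nat_lit 76) (nat_lit 8004077751) (nat_lit 0) (nat_lit 1640478870) (nat_lit 228) (nat_lit 8004077751) (nat_lit 165) (nat_lit 1) (nat_lit 164) (nat_lit 1) (nat_lit 167) (nat_lit 1) (nat_lit 255) (nat_lit 425) (nat_lit 340))) (XT.nd (nat_lit 78) (nat_lit 152) (nat_lit 0) (XT.lf (nat_lit 228) (nat_lit 10922357339) (nat_lit 0) (nat_lit 3270309677) (nat_lit 152) (nat_lit 3270309677) (nat_lit 165) (nat_lit 1) (nat_lit 162) (nat_lit 1) (nat_lit 164) (nat_lit 1) (nat_lit 256) (nat_lit 425) (nat_lit 339)) (XT.nd (nat_lit 78) (nat_lit 152) (nat_lit 0) (XT.lf (nat_lit 76) (nat_lit 2938273534) (nat_lit 0) (nat_lit 11403029683) (nat_lit 228) (nat_lit 2938273534) (nat_lit 163) (nat_lit 1) (nat_lit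 162) (nat_lit 1) (nat_lit 165) (nat_lit 1) (nat_lit 257) (nat_lit 425) (nat_lit 338)) (XT.lf (nat_lit 228) (nat_lit 865907735) (nat_lit 0) (nat_lit 8116177334) (nat_lit 152) (nat_lit 8116177334) (nat_lit 163) (nat_lit 1) (nat_lit 160) (nat_lit 1) (nat_lit 162) (nat_lit 1) (nat_lit 258) (nat_lit 425) (nat_lit 337))))) (XT.nd (nat_lit 156) (nat_lit 380) (nat_lit 0) (XT.nd (nat_lit 78) (nat_lit 0) (nat_lit 0) (XT.lf (nat_lit 228) (nat_lit 12951580299) (nat_lit 0) (nat_lit 1984038053) (nat_lit 152) (nat_lit 1984038053) (nat_lit 160) (nat_lit 1) (nat_lit 157) (nat_lit 1) (nat_lit 159) (nat_lit 1) (nat_lit 259) (nat_lit 425) (nat_lit 336)) (XT.lf (nat_lit 76) (nat_lit 3986458574) (nat_lit 0) (nat_lit 8769357983) (nat_lit 228) (nat_lit 3986458574) (nat_lit 158) (nat_lit 1) (nat_lit 157) (nat_lit 1) (nat_lit 160) (nat_lit 1) (nat_lit 260) (nat_lit 425) (nat_lit 335))) (XT.nd (nat_lit 78) (nat_lit 228) (nat_lit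 0) (XT.lf (nat_lit 228) (nat_lit 3053289508) (nat_lit 0) (nat_lit 6757133348) (nat_lit 152) (nat_lit 6757133348) (nat_lit 158) (nat_lit 1) (nat_lit 155) (nat_lit 1) (nat_lit 157) (nat_lit 1) (nat_lit 261) (nat_lit 425) (nat_lit 334)) (XT.nd (nat_lit 78) (nat_lit 0) (nat_lit 0) (XT.lf (nat_lit 228) (nat_lit 14659939763) (nat_lit 0) (nat_lit 868044795) (nat_lit 152) (nat_lit 868044795) (nat_lit 155) (nat_lit 1) (nat_lit 152) (nat_lit 1) (nat_lit 154) (nat_lit 1) (nat_lit 262) (nat_lit 425) (nat_lit 333)) (XT.lf (nat_lit 76) (nat_lit 4877684380) (nat_lit 0) (nat_lit 6469047204) (nat_lit 228) (nat_lit 4877684380) (nat_lit 153) (nat_lit 1) (nat_lit 152) (nat_lit 1) (nat_lit 155) (nat_lit 1) (nat_lit 263) (nat_lit 425) (nat_lit 332))))))) (XT.nd (nat_lit 702) (nat_lit 1064) (nat_lit 0) (XT.nd (nat_lit 312) (nat_lit 456) (nat_lit 0) (XT.nd (nat_lit 156) (nat_lit 304) (nat_lit 0) (XT.nd (nat_lit 78) (nat_lit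 0) (nat_lit 0) (XT.lf (nat_lit 228) (nat_lit 4930227308) (nat_lit 0) (nat_lit 5562863235) (nat_lit 152) (nat_lit 5562863235) (nat_lit 153) (nat_lit 1) (nat_lit 150) (nat_lit 1) (nat_lit 152) (nat_lit 1) (nat_lit 264) (nat_lit 425) (nat_lit 331)) (XT.lf (nat_lit 76) (nat_lit 98404912) (nat_lit 0) (nat_lit 15694166663) (nat_lit 228) (nat_lit 98404912) (nat_lit 151) (nat_lit 1) (nat_lit 150) (nat_lit 1) (nat_lit 153) (nat_lit 1) (nat_lit 265) (nat_lit 425) (nat_lit 330))) (XT.nd (nat_lit 78) (nat_lit 152) (nat_lit 0) (XT.lf (nat_lit 76) (nat_lit 5630621113) (nat_lit 0) (nat_lit 4463767776) (nat_lit 152) (nat_lit 5630621113) (nat_lit 149) (nat_lit 1) (nat_lit 148) (nat_lit 1) (nat_lit 150) (nat_lit 1) (nat_lit 266) (nat_lit 425) (nat_lit 329)) (XT.lf (nat_lit 228) (nat_lit 6533277210) (nat_lit 0) (nat_lit 4514607443) (nat_lit 152) (nat_lit 4514607443) (nat_lit 149) (nat_lit 1) (nat_lit 146) (nat_lit 1)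 (nat_lit 148) (nat_lit 1) (nat_lit 267) (nat_lit 425) (nat_lit 328)))) (XT.nd (nat_lit 156) (nat_lit 304) (nat_lit 0) (XT.nd (nat_lit 78) (nat_lit 152) (nat_lit 0) (XT.lf (nat_lit 76) (nat_lit 939167000) (nat_lit 0) (nat_lit 13524489665) (nat_lit 228) (nat_lit 939167000) (nat_lit 147) (nat_lit 1) (nat_lit 146) (nat_lit 1) (nat_lit 149) (nat_lit 1) (nat_lit 268) (nat_lit 425) (nat_lit 327)) (XT.lf (nat_lit 76) (nat_lit 6261822977) (nat_lit 0) (nat_lit 2719498031) (nat_lit 152) (nat_lit 6261822977) (nat_lit 145) (nat_lit 1) (nat_lit 144) (nat_lit 1) (nat_lit 146) (nat_lit 1) (nat_lit 269) (nat_lit 425) (nat_lit 326))) (XT.nd (nat_lit 78) (nat_lit 152) (nat_lit 0) (XT.lf (nat_lit 228) (nat_lit 7894862380) (nat_lit 0) (nat_lit 3595709568) (nat_lit 152) (nat_lit 3595709568) (nat_lit 145) (nat_lit 1) (nat_lit 142) (nat_lit 1) (nat_lit 144) (nat_lit 1) (nat_lit 270) (nat_lit 425) (nat_lit 325)) (XT.nd (nat_lit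 78) (nat_lit 152) (nat_lit 0) (XT.lf (nat_lit 76) (nat_lit 1661365395) (nat_lit 0) (nat_lit 11608980360) (nat_lit 228) (nat_lit 1661365395) (nat_lit 143) (nat_lit 1) (nat_lit 142) (nat_lit 1) (nat_lit 145) (nat_lit 1) (nat_lit 271) (nat_lit 425) (nat_lit 324)) (XT.lf (nat_lit 76) (nat_lit 6785965161) (nat_lit 0) (nat_lit 1206042834) (nat_lit 152) (nat_lit 6785965161) (nat_lit 141) (nat_lit 1) (nat_lit 140) (nat_lit 1) (nat_lit 142) (nat_lit 1) (nat_lit 272) (nat_lit 425) (nat_lit 323)))))) (XT.nd (nat_lit 390) (nat_lit 608) (nat_lit 0) (XT.nd (nat_lit 156) (nat_lit 304) (nat_lit 0) (XT.nd (nat_lit 78) (nat_lit 0) (nat_lit 0) (XT.lf (nat_lit 228) (nat_lit 9043735589) (nat_lit 0) (nat_lit 2791381505) (nat_lit 152) (nat_lit 2791381505) (nat_lit 141) (nat_lit 1) (nat_lit 138) (nat_lit 1) (nat_lit 140) (nat_lit 1) (nat_lit 273) (nat_lit 425) (nat_lit 322)) (XT.lf (nat_lit 76) (nat_lit 2278944042) (nat_lit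 0) (nat_lit 9918939819) (nat_lit 228) (nat_lit 2278944042) (nat_lit 139) (nat_lit 1) (nat_lit 138) (nat_lit 1) (nat_lit 141) (nat_lit 1) (nat_lit 274) (nat_lit 425) (nat_lit 321))) (XT.nd (nat_lit 78) (nat_lit 228) (nat_lit 0) (XT.lf (nat_lit 152) (nat_lit 105451825) (nat_lit 0) (nat_lit 7111616180) (nat_lit 76) (nat_lit 7111616180) (nat_lit 139) (nat_lit 1) (nat_lit 137) (nat_lit 1) (nat_lit 138) (nat_lit 1) (nat_lit 275) (nat_lit 425) (nat_lit 320)) (XT.nd (nat_lit 78) (nat_lit 0) (nat_lit 0) (XT.lf (nat_lit 228) (nat_lit 10005390110) (nat_lit 0) (nat_lit 2088494784) (nat_lit 152) (nat_lit 2088494784) (nat_lit 137) (nat_lit 1) (nat_lit 134) (nat_lit 1) (nat_lit 136) (nat_lit 1) (nat_lit 276) (nat_lit 425) (nat_lit 319)) (XT.lf (nat_lit 76) (nat_lit 2804270912) (nat_lit 0) (nat_lit 8428879781) (nat_lit 228) (nat_lit 2804270912) (nat_lit 135) (nat_lit 1) (nat_lit 134) (nat_lit 1) (nat_lit 137) (nat_lit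 1) (nat_lit 277) (nat_lit 425) (nat_lit 318))))) (XT.nd (nat_lit 156) (nat_lit 304) (nat_lit 0) (XT.nd (nat_lit 78) (nat_lit 228) (nat_lit 0) (XT.lf (nat_lit 152) (nat_lit 1257121006) (nat_lit 0) (nat_lit 6318578865) (nat_lit 76) (nat_lit 6318578865) (nat_lit 135) (nat_lit 1) (nat_lit 133) (nat_lit 1) (nat_lit 134) (nat_lit 1) (nat_lit 278) (nat_lit 425) (nat_lit 317)) (XT.lf (nat_lit 228) (nat_lit 10802424739) (nat_lit 0) (nat_lit 1475395198) (nat_lit 152) (nat_lit 1475395198) (nat_lit 133) (nat_lit 1) (nat_lit 130) (nat_lit 1) (nat_lit 132) (nat_lit 1) (nat_lit 279) (nat_lit 425) (nat_lit 316))) (XT.nd (nat_lit 78) (nat_lit 304) (nat_lit 0) (XT.lf (nat_lit 76) (nat_lit 3248314353) (nat_lit 0) (nat_lit 7116164322) (nat_lit 228) (nat_lit 3248314353) (nat_lit 131) (nat_lit 1) (nat_lit 130) (nat_lit 1) (nat_lit 133) (nat_lit 1) (nat_lit 280) (nat_lit 425) (nat_lit 315)) (XT.nd (nat_lit 78) (nat_lit 228)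 (nat_lit 0) (XT.lf (nat_lit 152) (nat_lit 2246477892) (nat_lit 0) (nat_lit 5613975483) (nat_lit 76) (nat_lit 5613975483) (nat_lit 131) (nat_lit 1) (nat_lit 129) (nat_lit 1) (nat_lit 130) (nat_lit 1) (nat_lit 281) (nat_lit 425) (nat_lit 314)) (XT.lf (nat_lit 228) (nat_lit 11454868076) (nat_lit 0) (nat_lit 941738099) (nat_lit 152) (nat_lit 941738099) (nat_lit 129) (nat_lit 1) (nat_lit 126) (nat_lit 1) (nat_lit 128) (nat_lit 1) (nat_lit 282) (nat_lit 425) (nat_lit 313))))))))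
noncomputable def ec451 : XT := (XT.nd (nat_lit 1482) (nat_lit 1444) (nat_lit 0) (XT.nd (nat_lit 702) (nat_lit 836) (nat_lit 0) (XT.nd (nat_lit 312) (nat_lit 380) (nat_lit 0) (XT.nd (nat_lit 156) (nat_lit 228) (nat_lit 0) (XT.nd (nat_lit 78) (nat_lit 76) (nat_lit 0) (XT.lf (nat_lit 76) (nat_lit 3620799763) (nat_lit 0) (nat_lit 5960691490) (nat_lit 228) (nat_lit 3620799763) (nat_lit 127) (nat_lit 1) (nat_lit 126) (nat_lit 1) (nat_lit 129) (nat_lit 1) (nat_lit 283) (nat_lit 425) (nat_lit 312)) (XT.lf (nat_lit 152) (nat_lit 3092609384) (nat_lit 0) (nat_lit 4987944504) (nat_lit 76) (nat_lit 4987944504) (nat_lit 127) (nat_lit 1) (nat_lit 125) (nat_lit 1) (nat_lit 126) (nat_lit 1) (nat_lit 284) (nat_lit 425) (nat_lit 311))) (XT.nd (nat_lit 78) (nat_lit 0) (nat_lit 0) (XT.lf (nat_lit 228) (nat_lit 11980466591) (nat_lit 0) (nat_lit 478342079) (nat_lit 152) (nat_lit 478342079) (nat_lit 125) (nat_lit 1) (nat_lit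 122) (nat_lit 1) (nat_lit 124) (nat_lit 1) (nat_lit 285) (nat_lit 425) (nat_lit 310)) (XT.lf (nat_lit 76) (nat_lit 3930348773) (nat_lit 0) (nat_lit 4944610446) (nat_lit 228) (nat_lit 3930348773) (nat_lit 123) (nat_lit 1) (nat_lit 122) (nat_lit 1) (nat_lit 125) (nat_lit 1) (nat_lit 286) (nat_lit 425) (nat_lit 309)))) (XT.nd (nat_lit 156) (nat_lit 76) (nat_lit 0) (XT.nd (nat_lit 78) (nat_lit 228) (nat_lit 0) (XT.lf (nat_lit 152) (nat_lit 3812445201) (nat_lit 0) (nat_lit 4431724087) (nat_lit 76) (nat_lit 4431724087) (nat_lit 123) (nat_lit 1) (nat_lit 121) (nat_lit 1) (nat_lit 122) (nat_lit 1) (nat_lit 287) (nat_lit 425) (nat_lit 308)) (XT.lf (nat_lit 228) (nat_lit 12394940529) (nat_lit 0) (nat_lit 77058970) (nat_lit 152) (nat_lit 77058970) (nat_lit 121) (nat_lit 1) (nat_lit 118) (nat_lit 1) (nat_lit 120) (nat_lit 1) (nat_lit 288) (nat_lit 425) (nat_lit 307))) (XT.nd (nat_lit 78) (nat_lit 76) (nat_lit 0)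 (XT.lf (nat_lit 76) (nat_lit 4184602891) (nat_lit 0) (nat_lit 4052070165) (nat_lit 228) (nat_lit 4184602891) (nat_lit 119) (nat_lit 1) (nat_lit 118) (nat_lit 1) (nat_lit 121) (nat_lit 1) (nat_lit 289) (nat_lit 425) (nat_lit 306)) (XT.nd (nat_lit 78) (nat_lit 0) (nat_lit 0) (XT.lf (nat_lit 152) (nat_lit 4420999269) (nat_lit 0) (nat_lit 3937529451) (nat_lit 76) (nat_lit 3937529451) (nat_lit 119) (nat_lit 1) (nat_lit 117) (nat_lit 1) (nat_lit 118) (nat_lit 1) (nat_lit 290) (nat_lit 425) (nat_lit 305)) (XT.lf (nat_lit 0) (nat_lit 272008396) (nat_lit 0) (nat_lit 11629195805) (nat_lit 152) (nat_lit 272008396) (nat_lit 117) (nat_lit 3) (nat_lit 117) (nat_lit 1) (nat_lit 119) (nat_lit 1) (nat_lit 291) (nat_lit 425) (nat_lit 304)))))) (XT.nd (nat_lit 390) (nat_lit 380) (nat_lit 0) (XT.nd (nat_lit 156) (nat_lit 228) (nat_lit 0) (XT.nd (nat_lit 78) (nat_lit 76) (nat_lit 0) (XT.lf (nat_lit 76) (nat_lit 4390333346)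 (nat_lit 0) (nat_lit 3268996156) (nat_lit 152) (nat_lit 4390333346) (nat_lit 116) (nat_lit 1) (nat_lit 115) (nat_lit 1) (nat_lit 117) (nat_lit 1) (nat_lit 292) (nat_lit 425) (nat_lit 303)) (XT.lf (nat_lit 152) (nat_lit 4931584169) (nat_lit 0) (nat_lit 3498443918) (nat_lit 76) (nat_lit 3498443918) (nat_lit 116) (nat_lit 1) (nat_lit 114) (nat_lit 1) (nat_lit 115) (nat_lit 1) (nat_lit 293) (nat_lit 425) (nat_lit 302))) (XT.nd (nat_lit 78) (nat_lit 228) (nat_lit 0) (XT.lf (nat_lit 0) (nat_lit 572891639) (nat_lit 0) (nat_lit 10663605553) (nat_lit 152) (nat_lit 572891639) (nat_lit 114) (nat_lit 3) (nat_lit 114) (nat_lit 1) (nat_lit 116) (nat_lit 1) (nat_lit 294) (nat_lit 425) (nat_lit 301)) (XT.nd (nat_lit 78) (nat_lit 76) (nat_lit 0) (XT.lf (nat_lit 76) (nat_lit 4553538660) (nat_lit 0) (nat_lit 2582892100) (nat_lit 152) (nat_lit 4553538660) (nat_lit 113) (nat_lit 1) (nat_lit 112) (nat_lit 1) (nat_lit 114)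 (nat_lit 1) (nat_lit 295) (nat_lit 425) (nat_lit 300)) (XT.lf (nat_lit 152) (nat_lit 5356001650) (nat_lit 0) (nat_lit 3108322109) (nat_lit 76) (nat_lit 3108322109) (nat_lit 113) (nat_lit 1) (nat_lit 111) (nat_lit 1) (nat_lit 112) (nat_lit 1) (nat_lit 296) (nat_lit 425) (nat_lit 299))))) (XT.nd (nat_lit 156) (nat_lit 228) (nat_lit 0) (XT.nd (nat_lit 78) (nat_lit 152) (nat_lit 0) (XT.lf (nat_lit 0) (nat_lit 830575445) (nat_lit 0) (nat_lit 9796044062) (nat_lit 152) (nat_lit 830575445) (nat_lit 111) (nat_lit 3) (nat_lit 111) (nat_lit 1) (nat_lit 113) (nat_lit 1) (nat_lit 297) (nat_lit 425) (nat_lit 298)) (XT.lf (nat_lit 76) (nat_lit 4679531332) (nat_lit 0) (nat_lit 1982663611) (nat_lit 152) (nat_lit 4679531332) (nat_lit 110) (nat_lit 1) (nat_lit 109) (nat_lit 1) (nat_lit 111) (nat_lit 1) (nat_lit 298) (nat_lit 425) (nat_lit 297))) (XT.nd (nat_lit 78) (nat_lit 152) (nat_lit 0) (XT.lf (nat_lit 152) (nat_lit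 5704711871) (nat_lit 0) (nat_lit 2761703935) (nat_lit 76) (nat_lit 2761703935) (nat_lit 110) (nat_lit 1) (nat_lit 108) (nat_lit 1) (nat_lit 109) (nat_lit 1) (nat_lit 299) (nat_lit 425) (nat_lit 296)) (XT.nd (nat_lit 78) (nat_lit 152) (nat_lit 0) (XT.lf (nat_lit 0) (nat_lit 1050158091) (nat_lit 0) (nat_lit 9015860836) (nat_lit 152) (nat_lit 1050158091) (nat_lit 108) (nat_lit 3) (nat_lit 108) (nat_lit 1) (nat_lit 110) (nat_lit 1) (nat_lit 300) (nat_lit 425) (nat_lit 295)) (XT.lf (nat_lit 76) (nat_lit 4773014833) (nat_lit 0) (nat_lit 1458461651) (nat_lit 152) (nat_lit 4773014833) (nat_lit 107) (nat_lit 1) (nat_lit 106) (nat_lit 1) (nat_lit 108) (nat_lit 1) (nat_lit 301) (nat_lit 425) (nat_lit 294))))))) (XT.nd (nat_lit 702) (nat_lit 760) (nat_lit 0) (XT.nd (nat_lit 312) (nat_lit 380) (nat_lit 0) (XT.nd (nat_lit 156) (nat_lit 228) (nat_lit 0) (XT.nd (nat_lit 78) (nat_lit 0) (nat_lit 0) (XT.lf (nat_lit 152)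 (nat_lit 5986983751) (nat_lit 0) (nat_lit 2453738176) (nat_lit 76) (nat_lit 2453738176) (nat_lit 107) (nat_lit 1) (nat_lit 105) (nat_lit 1) (nat_lit 106) (nat_lit 1) (nat_lit 302) (nat_lit 425) (nat_lit 293)) (XT.lf (nat_lit 0) (nat_lit 1236161150) (nat_lit 0) (nat_lit 8313584866) (nat_lit 152) (nat_lit 1236161150) (nat_lit 105) (nat_lit 3) (nat_lit 105) (nat_lit 1) (nat_lit 107) (nat_lit 1) (nat_lit 303) (nat_lit 425) (nat_lit 292))) (XT.nd (nat_lit 78) (nat_lit 76) (nat_lit 0) (XT.lf (nat_lit 76) (nat_lit 4838152008) (nat_lit 0) (nat_lit 1001543424) (nat_lit 152) (nat_lit 4838152008) (nat_lit 104) (nat_lit 1) (nat_lit 103) (nat_lit 1) (nat_lit 105) (nat_lit 1) (nat_lit 304) (nat_lit 425) (nat_lit 291)) (XT.lf (nat_lit 152) (nat_lit 6211028531) (nat_lit 0) (nat_lit 2180114588) (nat_lit 76) (nat_lit 2180114588) (nat_lit 104) (nat_lit 1) (nat_lit 102) (nat_lit 1) (nat_lit 103) (nat_lit 1) (nat_lit 305)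 (nat_lit 425) (nat_lit 290)))) (XT.nd (nat_lit 156) (nat_lit 228) (nat_lit 0) (XT.nd (nat_lit 78) (nat_lit 152) (nat_lit 0) (XT.lf (nat_lit 0) (nat_lit 1392594033) (nat_lit 0) (nat_lit 7680793338) (nat_lit 152) (nat_lit 1392594033) (nat_lit 102) (nat_lit 3) (nat_lit 102) (nat_lit 1) (nat_lit 104) (nat_lit 1) (nat_lit 306) (nat_lit 425) (nat_lit 289)) (XT.lf (nat_lit 76) (nat_lit 4878625832) (nat_lit 0) (nat_lit 604148786) (nat_lit 152) (nat_lit 4878625832) (nat_lit 101) (nat_lit 1) (nat_lit 100) (nat_lit 1) (nat_lit 102) (nat_lit 1) (nat_lit 307) (nat_lit 425) (nat_lit 288))) (XT.nd (nat_lit 78) (nat_lit 152) (nat_lit 0) (XT.lf (nat_lit 152) (nat_lit 6384118415) (nat_lit 0) (nat_lit 1937003575) (nat_lit 76) (nat_lit 1937003575) (nat_lit 101) (nat_lit 1) (nat_lit 99) (nat_lit 1) (nat_lit 100) (nat_lit 1) (nat_lit 308) (nat_lit 425) (nat_lit 287)) (XT.nd (nat_lit 78) (nat_lit 152) (nat_lit 0) (XT.lf (nat_lit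 0) (nat_lit 1523011336) (nat_lit 0) (nat_lit 7109994973) (nat_lit 152) (nat_lit 1523011336) (nat_lit 99) (nat_lit 3) (nat_lit 99) (nat_lit 1) (nat_lit 101) (nat_lit 1) (nat_lit 309) (nat_lit 425) (nat_lit 286)) (XT.lf (nat_lit 76) (nat_lit 4897693375) (nat_lit 0) (nat_lit 259390434) (nat_lit 152) (nat_lit 4897693375) (nat_lit 98) (nat_lit 1) (nat_lit 97) (nat_lit 1) (nat_lit 99) (nat_lit 1) (nat_lit 310) (nat_lit 425) (nat_lit 285)))))) (XT.nd (nat_lit 390) (nat_lit 456) (nat_lit 0) (XT.nd (nat_lit 156) (nat_lit 228) (nat_lit 0) (XT.nd (nat_lit 78) (nat_lit 0) (nat_lit 0) (XT.lf (nat_lit 152) (nat_lit 6512691972) (nat_lit 0) (nat_lit 1721002588) (nat_lit 76) (nat_lit 1721002588) (nat_lit 98) (nat_lit 1) (nat_lit 96) (nat_lit 1) (nat_lit 97) (nat_lit 1) (nat_lit 311) (nat_lit 425) (nat_lit 284)) (XT.lf (nat_lit 0) (nat_lit 1630563782) (nat_lit 0) (nat_lit 6594526381) (nat_lit 152) (nat_lit 1630563782)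 (nat_lit 96) (nat_lit 3) (nat_lit 96) (nat_lit 1) (nat_lit 98) (nat_lit 1) (nat_lit 312) (nat_lit 425) (nat_lit 283))) (XT.nd (nat_lit 78) (nat_lit 152) (nat_lit 0) (XT.lf (nat_lit 76) (nat_lit 39616699) (nat_lit 0) (nat_lit 4858997862) (nat_lit 76) (nat_lit 4858997862) (nat_lit 96) (nat_lit 3) (nat_lit 95) (nat_lit 1) (nat_lit 96) (nat_lit 1) (nat_lit 313) (nat_lit 425) (nat_lit 282)) (XT.nd (nat_lit 78) (nat_lit 0) (nat_lit 0) (XT.lf (nat_lit 152) (nat_lit 6602447754) (nat_lit 0) (nat_lit 1529088509) (nat_lit 76) (nat_lit 1529088509) (nat_lit 95) (nat_lit 1) (nat_lit 93) (nat_lit 1) (nat_lit 94) (nat_lit 1) (nat_lit 314) (nat_lit 425) (nat_lit 281)) (XT.lf (nat_lit 0) (nat_lit 1718043478) (nat_lit 0) (nat_lit 6128459953) (nat_lit 152) (nat_lit 1718043478) (nat_lit 93) (nat_lit 3) (nat_lit 93) (nat_lit 1) (nat_lit 95) (nat_lit 1) (nat_lit 315) (nat_lit 425) (nat_lit 280))))) (XT.nd (nat_lit 156) (nat_lit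 228) (nat_lit 0) (XT.nd (nat_lit 78) (nat_lit 152) (nat_lit 0) (XT.lf (nat_lit 76) (nat_lit 301867319) (nat_lit 0) (nat_lit 4583825061) (nat_lit 76) (nat_lit 4583825061) (nat_lit 93) (nat_lit 3) (nat_lit 92) (nat_lit 1) (nat_lit 93) (nat_lit 1) (nat_lit 316) (nat_lit 425) (nat_lit 279)) (XT.lf (nat_lit 152) (nat_lit 6658427459) (nat_lit 0) (nat_lit 1358575335) (nat_lit 76) (nat_lit 1358575335) (nat_lit 92) (nat_lit 1) (nat_lit 90) (nat_lit 1) (nat_lit 91) (nat_lit 1) (nat_lit 317) (nat_lit 425) (nat_lit 278))) (XT.nd (nat_lit 78) (nat_lit 228) (nat_lit 0) (XT.lf (nat_lit 0) (nat_lit 1787924112) (nat_lit 0) (nat_lit 5706522026) (nat_lit 152) (nat_lit 1787924112) (nat_lit 90) (nat_lit 3) (nat_lit 90) (nat_lit 1) (nat_lit 92) (nat_lit 1) (nat_lit 318) (nat_lit 425) (nat_lit 277)) (XT.nd (nat_lit 78) (nat_lit 152) (nat_lit 0) (XT.lf (nat_lit 76) (nat_lit 527106557) (nat_lit 0) (nat_lit 4331570551) (nat_lit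 76) (nat_lit 4331570551) (nat_lit 90) (nat_lit 3) (nat_lit 89) (nat_lit 1) (nat_lit 90) (nat_lit 1) (nat_lit 319) (nat_lit 425) (nat_lit 276)) (XT.lf (nat_lit 152) (nat_lit 6685089804) (nat_lit 0) (nat_lit 1207076589) (nat_lit 76) (nat_lit 1207076589) (nat_lit 89) (nat_lit 1) (nat_lit 87) (nat_lit 1) (nat_lit 88) (nat_lit 1) (nat_lit 320) (nat_lit 425) (nat_lit 275))))))))
noncomputable def ec452 : XT := (XT.nd (nat_lit 1404) (nat_lit 1368) (nat_lit 0) (XT.nd (nat_lit 702) (nat_lit 684) (nat_lit 0) (XT.nd (nat_lit 312) (nat_lit 456) (nat_lit 0) (XT.nd (nat_lit 156) (nat_lit 152) (nat_lit 0) (XT.nd (nat_lit 78) (nat_lit 76) (nat_lit 0) (XT.lf (nat_lit 0) (nat_lit 1842396673) (nat_lit 0) (nat_lit 5324020165) (nat_lit 152) (nat_lit 1842396673) (nat_lit 87) (nat_lit 3) (nat_lit 87) (nat_lit 1) (nat_lit 89) (nat_lit 1) (nat_lit 321) (nat_lit 425) (nat_lit 274)) (XT.lf (nat_lit 76) (nat_lit 719687887) (nat_lit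 0) (nat_lit 4099904870) (nat_lit 76) (nat_lit 4099904870) (nat_lit 87) (nat_lit 3) (nat_lit 86) (nat_lit 1) (nat_lit 87) (nat_lit 1) (nat_lit 322) (nat_lit 425) (nat_lit 273))) (XT.nd (nat_lit 78) (nat_lit 0) (nat_lit 0) (XT.lf (nat_lit 152) (nat_lit 6686376140) (nat_lit 0) (nat_lit 1072471915) (nat_lit 76) (nat_lit 1072471915) (nat_lit 86) (nat_lit 1) (nat_lit 84) (nat_lit 1) (nat_lit 85) (nat_lit 1) (nat_lit 323) (nat_lit 425) (nat_lit 272)) (XT.lf (nat_lit 0) (nat_lit 1883401170) (nat_lit 0) (nat_lit 4976778549) (nat_lit 152) (nat_lit 1883401170) (nat_lit 84) (nat_lit 3) (nat_lit 84) (nat_lit 1) (nat_lit 86) (nat_lit 1) (nat_lit 324) (nat_lit 425) (nat_lit 271)))) (XT.nd (nat_lit 156) (nat_lit 228) (nat_lit 0) (XT.nd (nat_lit 78) (nat_lit 152) (nat_lit 0) (XT.lf (nat_lit 76) (nat_lit 883472724) (nat_lit 0) (nat_lit 3886751733) (nat_lit 76) (nat_lit 3886751733) (nat_lit 84) (nat_lit 3) (nat_lit 83)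 (nat_lit 1) (nat_lit 84) (nat_lit 1) (nat_lit 325) (nat_lit 425) (nat_lit 270)) (XT.lf (nat_lit 152) (nat_lit 6665768728) (nat_lit 0) (nat_lit 952877406) (nat_lit 76) (nat_lit 952877406) (nat_lit 83) (nat_lit 1) (nat_lit 81) (nat_lit 1) (nat_lit 82) (nat_lit 1) (nat_lit 326) (nat_lit 425) (nat_lit 269))) (XT.nd (nat_lit 78) (nat_lit 228) (nat_lit 0) (XT.lf (nat_lit 0) (nat_lit 1912654816) (nat_lit 0) (nat_lit 4661080552) (nat_lit 152) (nat_lit 1912654816) (nat_lit 81) (nat_lit 3) (nat_lit 81) (nat_lit 1) (nat_lit 83) (nat_lit 1) (nat_lit 327) (nat_lit 425) (nat_lit 268)) (XT.nd (nat_lit 78) (nat_lit 152) (nat_lit 0) (XT.lf (nat_lit 76) (nat_lit 1021885488) (nat_lit 0) (nat_lit 3690259988) (nat_lit 76) (nat_lit 3690259988) (nat_lit 81) (nat_lit 3) (nat_lit 80) (nat_lit 1) (nat_lit 81) (nat_lit 1) (nat_lit 328) (nat_lit 425) (nat_lit 267)) (XT.lf (nat_lit 152) (nat_lit 6626342510) (nat_lit 0) (nat_lit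 846619233) (nat_lit 76) (nat_lit 846619233) (nat_lit 80) (nat_lit 1) (nat_lit 78) (nat_lit 1) (nat_lit 79) (nat_lit 1) (nat_lit 329) (nat_lit 425) (nat_lit 266)))))) (XT.nd (nat_lit 312) (nat_lit 456) (nat_lit 0) (XT.nd (nat_lit 156) (nat_lit 152) (nat_lit 0) (XT.nd (nat_lit 78) (nat_lit 76) (nat_lit 0) (XT.lf (nat_lit 0) (nat_lit 1931677061) (nat_lit 0) (nat_lit 4373617729) (nat_lit 152) (nat_lit 1931677061) (nat_lit 78) (nat_lit 3) (nat_lit 78) (nat_lit 1) (nat_lit 80) (nat_lit 1) (nat_lit 330) (nat_lit 425) (nat_lit 265)) (XT.lf (nat_lit 76) (nat_lit 1137962521) (nat_lit 0) (nat_lit 3508778703) (nat_lit 76) (nat_lit 3508778703) (nat_lit 78) (nat_lit 3) (nat_lit 77) (nat_lit 1) (nat_lit 78) (nat_lit 1) (nat_lit 331) (nat_lit 425) (nat_lit 264))) (XT.nd (nat_lit 78) (nat_lit 0) (nat_lit 0) (XT.lf (nat_lit 152) (nat_lit 6570811078) (nat_lit 0) (nat_lit 752210223) (nat_lit 76) (nat_lit 752210223) (nat_lit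 77) (nat_lit 1) (nat_lit 75) (nat_lit 1) (nat_lit 76) (nat_lit 1) (nat_lit 332) (nat_lit 425) (nat_lit 263)) (XT.lf (nat_lit 0) (nat_lit 1941811826) (nat_lit 0) (nat_lit 4111444482) (nat_lit 152) (nat_lit 1941811826) (nat_lit 75) (nat_lit 3) (nat_lit 75) (nat_lit 1) (nat_lit 77) (nat_lit 1) (nat_lit 333) (nat_lit 425) (nat_lit 262)))) (XT.nd (nat_lit 156) (nat_lit 228) (nat_lit 0) (XT.nd (nat_lit 78) (nat_lit 152) (nat_lit 0) (XT.lf (nat_lit 76) (nat_lit 1234395543) (nat_lit 0) (nat_lit 3340835014) (nat_lit 76) (nat_lit 3340835014) (nat_lit 75) (nat_lit 3) (nat_lit 74) (nat_lit 1) (nat_lit 75) (nat_lit 1) (nat_lit 334) (nat_lit 425) (nat_lit 261)) (XT.lf (nat_lit 152) (nat_lit 6501567511) (nat_lit 0) (nat_lit 668329040) (nat_lit 76) (nat_lit 668329040) (nat_lit 74) (nat_lit 1) (nat_lit 72) (nat_lit 1) (nat_lit 73) (nat_lit 1) (nat_lit 335) (nat_lit 425) (nat_lit 260))) (XT.nd (nat_lit 78) (nat_lit 228)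 (nat_lit 0) (XT.lf (nat_lit 0) (nat_lit 1944247256) (nat_lit 0) (nat_lit 3871937769) (nat_lit 152) (nat_lit 1944247256) (nat_lit 72) (nat_lit 3) (nat_lit 72) (nat_lit 1) (nat_lit 74) (nat_lit 1) (nat_lit 336) (nat_lit 425) (nat_lit 259)) (XT.nd (nat_lit 78) (nat_lit 152) (nat_lit 0) (XT.lf (nat_lit 76) (nat_lit 1313570261) (nat_lit 0) (nat_lit 3185114448) (nat_lit 76) (nat_lit 3185114448) (nat_lit 72) (nat_lit 3) (nat_lit 71) (nat_lit 1) (nat_lit 72) (nat_lit 1) (nat_lit 337) (nat_lit 425) (nat_lit 258)) (XT.lf (nat_lit 152) (nat_lit 6420720636) (nat_lit 0) (nat_lit 593801696) (nat_lit 76) (nat_lit 593801696) (nat_lit 71) (nat_lit 1) (nat_lit 69) (nat_lit 1) (nat_lit 70) (nat_lit 1) (nat_lit 338) (nat_lit 425) (nat_lit 257))))))) (XT.nd (nat_lit 702) (nat_lit 684) (nat_lit 0) (XT.nd (nat_lit 312) (nat_lit 456) (nat_lit 0) (XT.nd (nat_lit 156) (nat_lit 152) (nat_lit 0) (XT.nd (nat_lit 78) (nat_lit 76)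 (nat_lit 0) (XT.lf (nat_lit 0) (nat_lit 1940033261) (nat_lit 0) (nat_lit 3652761314) (nat_lit 152) (nat_lit 1940033261) (nat_lit 69) (nat_lit 3) (nat_lit 69) (nat_lit 1) (nat_lit 71) (nat_lit 1) (nat_lit 339) (nat_lit 425) (nat_lit 256)) (XT.lf (nat_lit 76) (nat_lit 1377600657) (nat_lit 0) (nat_lit 3040443427) (nat_lit 76) (nat_lit 3040443427) (nat_lit 69) (nat_lit 3) (nat_lit 68) (nat_lit 1) (nat_lit 69) (nat_lit 1) (nat_lit 340) (nat_lit 425) (nat_lit 255))) (XT.nd (nat_lit 78) (nat_lit 0) (nat_lit 0) (XT.lf (nat_lit 152) (nat_lit 6330127230) (nat_lit 0) (nat_lit 527585116) (nat_lit 76) (nat_lit 527585116) (nat_lit 68) (nat_lit 1) (nat_lit 66) (nat_lit 1) (nat_lit 67) (nat_lit 1) (nat_lit 341) (nat_lit 425) (nat_lit 254)) (XT.lf (nat_lit 0) (nat_lit 1930097100) (nat_lit 0) (nat_lit 3451833792) (nat_lit 152) (nat_lit 1930097100) (nat_lit 66) (nat_lit 3) (nat_lit 66) (nat_lit 1) (nat_lit 68) (nat_lit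 1) (nat_lit 342) (nat_lit 425) (nat_lit 253)))) (XT.nd (nat_lit 156) (nat_lit 228) (nat_lit 0) (XT.nd (nat_lit 78) (nat_lit 152) (nat_lit 0) (XT.lf (nat_lit 76) (nat_lit 1428359461) (nat_lit 0) (nat_lit 2905773725) (nat_lit 76) (nat_lit 2905773725) (nat_lit 66) (nat_lit 3) (nat_lit 65) (nat_lit 1) (nat_lit 66) (nat_lit 1) (nat_lit 343) (nat_lit 425) (nat_lit 252)) (XT.lf (nat_lit 152) (nat_lit 6231420626) (nat_lit 0) (nat_lit 468752542) (nat_lit 76) (nat_lit 468752542) (nat_lit 65) (nat_lit 1) (nat_lit 63) (nat_lit 1) (nat_lit 64) (nat_lit 1) (nat_lit 344) (nat_lit 425) (nat_lit 251))) (XT.nd (nat_lit 78) (nat_lit 228) (nat_lit 0) (XT.lf (nat_lit 0) (nat_lit 1915257222) (nat_lit 0) (nat_lit 3267300563) (nat_lit 152) (nat_lit 1915257222) (nat_lit 63) (nat_lit 3) (nat_lit 63) (nat_lit 1) (nat_lit 65) (nat_lit 1) (nat_lit 345) (nat_lit 425) (nat_lit 250)) (XT.nd (nat_lit 78) (nat_lit 152) (nat_lit 0) (XT.lf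 (nat_lit 76) (nat_lit 1467505211) (nat_lit 0) (nat_lit 2780168649) (nat_lit 76) (nat_lit 2780168649) (nat_lit 63) (nat_lit 3) (nat_lit 62) (nat_lit 1) (nat_lit 63) (nat_lit 1) (nat_lit 346) (nat_lit 425) (nat_lit 249)) (XT.lf (nat_lit 152) (nat_lit 6126036099) (nat_lit 0) (nat_lit 416480562) (nat_lit 76) (nat_lit 416480562) (nat_lit 62) (nat_lit 1) (nat_lit 60) (nat_lit 1) (nat_lit 61) (nat_lit 1) (nat_lit 347) (nat_lit 425) (nat_lit 248)))))) (XT.nd (nat_lit 390) (nat_lit 380) (nat_lit 0) (XT.nd (nat_lit 156) (nat_lit 228) (nat_lit 0) (XT.nd (nat_lit 78) (nat_lit 76) (nat_lit 0) (XT.lf (nat_lit 0) (nat_lit 1896235553) (nat_lit 0) (nat_lit 3097508550) (nat_lit 152) (nat_lit 1896235553) (nat_lit 60) (nat_lit 3) (nat_lit 60) (nat_lit 1) (nat_lit 62) (nat_lit 1) (nat_lit 348) (nat_lit 425) (nat_lit 247)) (XT.lf (nat_lit 76) (nat_lit 1496506295) (nat_lit 0) (nat_lit 2662790758) (nat_lit 76) (nat_lit 2662790758)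 (nat_lit 60) (nat_lit 3) (nat_lit 59) (nat_lit 1) (nat_lit 60) (nat_lit 1) (nat_lit 349) (nat_lit 425) (nat_lit 246))) (XT.nd (nat_lit 78) (nat_lit 76) (nat_lit 0) (XT.lf (nat_lit 152) (nat_lit 6015233421) (nat_lit 0) (nat_lit 370037585) (nat_lit 76) (nat_lit 370037585) (nat_lit 59) (nat_lit 1) (nat_lit 57) (nat_lit 1) (nat_lit 58) (nat_lit 1) (nat_lit 350) (nat_lit 425) (nat_lit 245)) (XT.nd (nat_lit 78) (nat_lit 76) (nat_lit 0) (XT.lf (nat_lit 0) (nat_lit 1873668416) (nat_lit 0) (nat_lit 2940983914) (nat_lit 152) (nat_lit 1873668416) (nat_lit 57) (nat_lit 3) (nat_lit 57) (nat_lit 1) (nat_lit 59) (nat_lit 1) (nat_lit 351) (nat_lit 425) (nat_lit 244)) (XT.lf (nat_lit 76) (nat_lit 1516662307) (nat_lit 0) (nat_lit 2552890947) (nat_lit 76) (nat_lit 2552890947) (nat_lit 57) (nat_lit 3) (nat_lit 56) (nat_lit 1) (nat_lit 57) (nat_lit 1) (nat_lit 352) (nat_lit 425) (nat_lit 243))))) (XT.nd (nat_lit 156) (nat_lit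 228) (nat_lit 0) (XT.nd (nat_lit 78) (nat_lit 0) (nat_lit 0) (XT.lf (nat_lit 152) (nat_lit 5900116880) (nat_lit 0) (nat_lit 328773602) (nat_lit 76) (nat_lit 328773602) (nat_lit 56) (nat_lit 1) (nat_lit 54) (nat_lit 1) (nat_lit 55) (nat_lit 1) (nat_lit 353) (nat_lit 425) (nat_lit 242)) (XT.lf (nat_lit 0) (nat_lit 1848116223) (nat_lit 0) (nat_lit 2796412220) (nat_lit 152) (nat_lit 1848116223) (nat_lit 54) (nat_lit 3) (nat_lit 54) (nat_lit 1) (nat_lit 56) (nat_lit 1) (nat_lit 354) (nat_lit 425) (nat_lit 241))) (XT.nd (nat_lit 78) (nat_lit 152) (nat_lit 0) (XT.lf (nat_lit 76) (nat_lit 1529123017) (nat_lit 0) (nat_lit 2449798742) (nat_lit 76) (nat_lit 2449798742) (nat_lit 54) (nat_lit 3) (nat_lit 53) (nat_lit 1) (nat_lit 54) (nat_lit 1) (nat_lit 355) (nat_lit 425) (nat_lit 240)) (XT.nd (nat_lit 78) (nat_lit 0) (nat_lit 0) (XT.lf (nat_lit 152) (nat_lit 5781653056) (nat_lit 0) (nat_lit 292111087) (nat_lit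 76) (nat_lit 292111087) (nat_lit 53) (nat_lit 1) (nat_lit 51) (nat_lit 1) (nat_lit 52) (nat_lit 1) (nat_lit 356) (nat_lit 425) (nat_lit 239)) (XT.lf (nat_lit 0) (nat_lit 1820072089) (nat_lit 0) (nat_lit 2662620799) (nat_lit 152) (nat_lit 1820072089) (nat_lit 51) (nat_lit 3) (nat_lit 51) (nat_lit 1) (nat_lit 53) (nat_lit 1) (nat_lit 357) (nat_lit 425) (nat_lit 238))))))))
noncomputable def ec453 : XT := (XT.nd (nat_lit 1482) (nat_lit 1520) (nat_lit 0) (XT.nd (nat_lit 702) (nat_lit 760) (nat_lit 0) (XT.nd (nat_lit 312) (nat_lit 380) (nat_lit 0) (XT.nd (nat_lit 156) (nat_lit 76) (nat_lit 0) (XT.nd (nat_lit 78) (nat_lit 152) (nat_lit 0) (XT.lf (nat_lit 76) (nat_lit 1534905220) (nat_lit 0) (nat_lit 2352913676) (nat_lit 76) (nat_lit 2352913676) (nat_lit 51) (nat_lit 3) (nat_lit 50) (nat_lit 1) (nat_lit 51) (nat_lit 1) (nat_lit 358) (nat_lit 425) (nat_lit 237)) (XT.lf (nat_lit 152) (nat_lit 5660686600) (nat_lit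 0) (nat_lit 259536917) (nat_lit 76) (nat_lit 259536917) (nat_lit 50) (nat_lit 1) (nat_lit 48) (nat_lit 1) (nat_lit 49) (nat_lit 1) (nat_lit 359) (nat_lit 425) (nat_lit 236))) (XT.nd (nat_lit 78) (nat_lit 76) (nat_lit 0) (XT.lf (nat_lit 0) (nat_lit 1789969468) (nat_lit 0) (nat_lit 2538563085) (nat_lit 152) (nat_lit 1789969468) (nat_lit 48) (nat_lit 3) (nat_lit 48) (nat_lit 1) (nat_lit 50) (nat_lit 1) (nat_lit 360) (nat_lit 425) (nat_lit 235)) (XT.lf (nat_lit 76) (nat_lit 1534907703) (nat_lit 0) (nat_lit 2261697622) (nat_lit 76) (nat_lit 2261697622) (nat_lit 48) (nat_lit 3) (nat_lit 47) (nat_lit 1) (nat_lit 48) (nat_lit 1) (nat_lit 361) (nat_lit 425) (nat_lit 234)))) (XT.nd (nat_lit 156) (nat_lit 228) (nat_lit 0) (XT.nd (nat_lit 78) (nat_lit 0) (nat_lit 0) (XT.lf (nat_lit 152) (nat_lit 5537954245) (nat_lit 0) (nat_lit 230595189) (nat_lit 76) (nat_lit 230595189) (nat_lit 47) (nat_lit 1) (nat_lit 45) (nat_lit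 1) (nat_lit 46) (nat_lit 1) (nat_lit 362) (nat_lit 425) (nat_lit 233)) (XT.lf (nat_lit 0) (nat_lit 1758188952) (nat_lit 0) (nat_lit 2423304685) (nat_lit 152) (nat_lit 1758188952) (nat_lit 45) (nat_lit 3) (nat_lit 45) (nat_lit 1) (nat_lit 47) (nat_lit 1) (nat_lit 363) (nat_lit 425) (nat_lit 232))) (XT.nd (nat_lit 78) (nat_lit 152) (nat_lit 0) (XT.lf (nat_lit 76) (nat_lit 1529924541) (nat_lit 0) (nat_lit 2175667971) (nat_lit 76) (nat_lit 2175667971) (nat_lit 45) (nat_lit 3) (nat_lit 44) (nat_lit 1) (nat_lit 45) (nat_lit 1) (nat_lit 364) (nat_lit 425) (nat_lit 231)) (XT.nd (nat_lit 78) (nat_lit 0) (nat_lit 0) (XT.lf (nat_lit 152) (nat_lit 5414097238) (nat_lit 0) (nat_lit 204880839) (nat_lit 76) (nat_lit 204880839) (nat_lit 44) (nat_lit 1) (nat_lit 42) (nat_lit 1) (nat_lit 43) (nat_lit 1) (nat_lit 365) (nat_lit 425) (nat_lit 230)) (XT.lf (nat_lit 0) (nat_lit 1725064290) (nat_lit 0) (nat_lit 2316011004)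 (nat_lit 152) (nat_lit 1725064290) (nat_lit 42) (nat_lit 3) (nat_lit 42) (nat_lit 1) (nat_lit 44) (nat_lit 1) (nat_lit 366) (nat_lit 425) (nat_lit 229)))))) (XT.nd (nat_lit 390) (nat_lit 304) (nat_lit 0) (XT.nd (nat_lit 156) (nat_lit 228) (nat_lit 0) (XT.nd (nat_lit 78) (nat_lit 152) (nat_lit 0) (XT.lf (nat_lit 76) (nat_lit 1520656904) (nat_lit 0) (nat_lit 2094391577) (nat_lit 76) (nat_lit 2094391577) (nat_lit 42) (nat_lit 3) (nat_lit 41) (nat_lit 1) (nat_lit 42) (nat_lit 1) (nat_lit 367) (nat_lit 425) (nat_lit 228)) (XT.lf (nat_lit 152) (nat_lit 5289672379) (nat_lit 0) (nat_lit 182033972) (nat_lit 76) (nat_lit 182033972) (nat_lit 41) (nat_lit 1) (nat_lit 39) (nat_lit 1) (nat_lit 40) (nat_lit 1) (nat_lit 368) (nat_lit 425) (nat_lit 227))) (XT.nd (nat_lit 78) (nat_lit 228) (nat_lit 0) (XT.lf (nat_lit 0) (nat_lit 1690887743) (nat_lit 0) (nat_lit 2215936244) (nat_lit 152) (nat_lit 1690887743) (nat_lit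 39) (nat_lit 3) (nat_lit 39) (nat_lit 1) (nat_lit 41) (nat_lit 1) (nat_lit 369) (nat_lit 425) (nat_lit 226)) (XT.nd (nat_lit 78) (nat_lit 152) (nat_lit 0) (XT.lf (nat_lit 76) (nat_lit 1507723541) (nat_lit 0) (nat_lit 2017479367) (nat_lit 76) (nat_lit 2017479367) (nat_lit 39) (nat_lit 3) (nat_lit 38) (nat_lit 1) (nat_lit 39) (nat_lit 1) (nat_lit 370) (nat_lit 425) (nat_lit 225)) (XT.lf (nat_lit 152) (nat_lit 5165161811) (nat_lit 0) (nat_lit 161734826) (nat_lit 76) (nat_lit 161734826) (nat_lit 38) (nat_lit 1) (nat_lit 36) (nat_lit 1) (nat_lit 37) (nat_lit 1) (nat_lit 371) (nat_lit 425) (nat_lit 224))))) (XT.nd (nat_lit 156) (nat_lit 228) (nat_lit 0) (XT.nd (nat_lit 78) (nat_lit 76) (nat_lit 0) (XT.lf (nat_lit 0) (nat_lit 1655914834) (nat_lit 0) (nat_lit 2122413627) (nat_lit 152) (nat_lit 1655914834) (nat_lit 36) (nat_lit 3) (nat_lit 36) (nat_lit 1) (nat_lit 38) (nat_lit 1) (nat_lit 372) (nat_lit 425)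 (nat_lit 223)) (XT.lf (nat_lit 76) (nat_lit 1491670097) (nat_lit 0) (nat_lit 1944581547) (nat_lit 76) (nat_lit 1944581547) (nat_lit 36) (nat_lit 3) (nat_lit 35) (nat_lit 1) (nat_lit 36) (nat_lit 1) (nat_lit 373) (nat_lit 425) (nat_lit 222))) (XT.nd (nat_lit 78) (nat_lit 76) (nat_lit 0) (XT.lf (nat_lit 152) (nat_lit 5040981713) (nat_lit 0) (nat_lit 143699298) (nat_lit 76) (nat_lit 143699298) (nat_lit 35) (nat_lit 1) (nat_lit 33) (nat_lit 1) (nat_lit 34) (nat_lit 1) (nat_lit 374) (nat_lit 425) (nat_lit 221)) (XT.nd (nat_lit 78) (nat_lit 76) (nat_lit 0) (XT.lf (nat_lit 0) (nat_lit 1620368567) (nat_lit 0) (nat_lit 2034846702) (nat_lit 152) (nat_lit 1620368567) (nat_lit 33) (nat_lit 3) (nat_lit 33) (nat_lit 1) (nat_lit 35) (nat_lit 1) (nat_lit 375) (nat_lit 425) (nat_lit 220)) (XT.lf (nat_lit 76) (nat_lit 1472977386) (nat_lit 0) (nat_lit 1875383342) (nat_lit 76) (nat_lit 1875383342) (nat_lit 33) (nat_lit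 3) (nat_lit 32) (nat_lit 1) (nat_lit 33) (nat_lit 1) (nat_lit 376) (nat_lit 425) (nat_lit 219))))))) (XT.nd (nat_lit 702) (nat_lit 836) (nat_lit 0) (XT.nd (nat_lit 312) (nat_lit 304) (nat_lit 0) (XT.nd (nat_lit 156) (nat_lit 228) (nat_lit 0) (XT.nd (nat_lit 78) (nat_lit 0) (nat_lit 0) (XT.lf (nat_lit 152) (nat_lit 4917490013) (nat_lit 0) (nat_lit 127674965) (nat_lit 76) (nat_lit 127674965) (nat_lit 32) (nat_lit 1) (nat_lit 30) (nat_lit 1) (nat_lit 31) (nat_lit 1) (nat_lit 377) (nat_lit 425) (nat_lit 218)) (XT.lf (nat_lit 0) (nat_lit 1584443168) (nat_lit 0) (nat_lit 1952701623) (nat_lit 152) (nat_lit 1584443168) (nat_lit 30) (nat_lit 3) (nat_lit 30) (nat_lit 1) (nat_lit 32) (nat_lit 1) (nat_lit 378) (nat_lit 425) (nat_lit 217))) (XT.nd (nat_lit 78) (nat_lit 152) (nat_lit 0) (XT.lf (nat_lit 76) (nat_lit 1452068732) (nat_lit 0) (nat_lit 1809601212) (nat_lit 76) (nat_lit 1809601212) (nat_lit 30) (nat_lit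 3) (nat_lit 29) (nat_lit 1) (nat_lit 30) (nat_lit 1) (nat_lit 379) (nat_lit 425) (nat_lit 216)) (XT.lf (nat_lit 152) (nat_lit 4794993226) (nat_lit 0) (nat_lit 113437553) (nat_lit 76) (nat_lit 113437553) (nat_lit 29) (nat_lit 1) (nat_lit 27) (nat_lit 1) (nat_lit 28) (nat_lit 1) (nat_lit 380) (nat_lit 425) (nat_lit 215)))) (XT.nd (nat_lit 156) (nat_lit 228) (nat_lit 0) (XT.nd (nat_lit 78) (nat_lit 76) (nat_lit 0) (XT.lf (nat_lit 0) (nat_lit 1548307412) (nat_lit 0) (nat_lit 1875500279) (nat_lit 152) (nat_lit 1548307412) (nat_lit 27) (nat_lit 3) (nat_lit 27) (nat_lit 1) (nat_lit 29) (nat_lit 1) (nat_lit 381) (nat_lit 425) (nat_lit 214)) (XT.lf (nat_lit 76) (nat_lit 1429316497) (nat_lit 0) (nat_lit 1746979475) (nat_lit 76) (nat_lit 1746979475) (nat_lit 27) (nat_lit 3) (nat_lit 26) (nat_lit 1) (nat_lit 27) (nat_lit 1) (nat_lit 382) (nat_lit 425) (nat_lit 213))) (XT.nd (nat_lit 78) (nat_lit 76) (nat_lit 0)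 (XT.lf (nat_lit 152) (nat_lit 4673752523) (nat_lit 0) (nat_lit 100787796) (nat_lit 76) (nat_lit 100787796) (nat_lit 26) (nat_lit 1) (nat_lit 24) (nat_lit 1) (nat_lit 25) (nat_lit 1) (nat_lit 383) (nat_lit 425) (nat_lit 212)) (XT.nd (nat_lit 78) (nat_lit 76) (nat_lit 0) (XT.lf (nat_lit 0) (nat_lit 1512107566) (nat_lit 0) (nat_lit 1802814190) (nat_lit 152) (nat_lit 1512107566) (nat_lit 24) (nat_lit 3) (nat_lit 24) (nat_lit 1) (nat_lit 26) (nat_lit 1) (nat_lit 384) (nat_lit 425) (nat_lit 211)) (XT.lf (nat_lit 76) (nat_lit 1405047870) (nat_lit 0) (nat_lit 1687287312) (nat_lit 76) (nat_lit 1687287312) (nat_lit 24) (nat_lit 3) (nat_lit 23) (nat_lit 1) (nat_lit 24) (nat_lit 1) (nat_lit 385) (nat_lit 425) (nat_lit 210)))))) (XT.nd (nat_lit 390) (nat_lit 456) (nat_lit 0) (XT.nd (nat_lit 156) (nat_lit 228) (nat_lit 0) (XT.nd (nat_lit 78) (nat_lit 0) (nat_lit 0) (XT.lf (nat_lit 152) (nat_lit 4553989113) (nat_lit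 0) (nat_lit 89548652) (nat_lit 76) (nat_lit 89548652) (nat_lit 23) (nat_lit 1) (nat_lit 21) (nat_lit 1) (nat_lit 22) (nat_lit 1) (nat_lit 386) (nat_lit 425) (nat_lit 209)) (XT.lf (nat_lit 0) (nat_lit 1475970010) (nat_lit 0) (nat_lit 1734259081) (nat_lit 152) (nat_lit 1475970010) (nat_lit 21) (nat_lit 3) (nat_lit 21) (nat_lit 1) (nat_lit 23) (nat_lit 1) (nat_lit 387) (nat_lit 425) (nat_lit 208))) (XT.nd (nat_lit 78) (nat_lit 152) (nat_lit 0) (XT.lf (nat_lit 76) (nat_lit 1379550014) (nat_lit 0) (nat_lit 1630316102) (nat_lit 76) (nat_lit 1630316102) (nat_lit 21) (nat_lit 3) (nat_lit 20) (nat_lit 1) (nat_lit 21) (nat_lit 1) (nat_lit 388) (nat_lit 425) (nat_lit 207)) (XT.nd (nat_lit 78) (nat_lit 0) (nat_lit 0) (XT.lf (nat_lit 152) (nat_lit 4435889014) (nat_lit 0) (nat_lit 79562817) (nat_lit 76) (nat_lit 79562817) (nat_lit 20) (nat_lit 1) (nat_lit 18) (nat_lit 1) (nat_lit 19) (nat_lit 1) (nat_lit 389) (nat_lit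 425) (nat_lit 206)) (XT.lf (nat_lit 0) (nat_lit 1440003561) (nat_lit 0) (nat_lit 1669490055) (nat_lit 152) (nat_lit 1440003561) (nat_lit 18) (nat_lit 3) (nat_lit 18) (nat_lit 1) (nat_lit 20) (nat_lit 1) (nat_lit 390) (nat_lit 425) (nat_lit 205))))) (XT.nd (nat_lit 156) (nat_lit 228) (nat_lit 0) (XT.nd (nat_lit 78) (nat_lit 152) (nat_lit 0) (XT.lf (nat_lit 76) (nat_lit 1353074630) (nat_lit 0) (nat_lit 1575877052) (nat_lit 76) (nat_lit 1575877052) (nat_lit 18) (nat_lit 3) (nat_lit 17) (nat_lit 1) (nat_lit 18) (nat_lit 1) (nat_lit 391) (nat_lit 425) (nat_lit 204)) (XT.lf (nat_lit 152) (nat_lit 4319607285) (nat_lit 0) (nat_lit 70690532) (nat_lit 76) (nat_lit 70690532) (nat_lit 17) (nat_lit 1) (nat_lit 15) (nat_lit 1) (nat_lit 16) (nat_lit 1) (nat_lit 392) (nat_lit 425) (nat_lit 203))) (XT.nd (nat_lit 78) (nat_lit 228) (nat_lit 0) (XT.lf (nat_lit 0) (nat_lit 1404301526) (nat_lit 0) (nat_lit 1608197304) (nat_lit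 152) (nat_lit 1404301526) (nat_lit 15) (nat_lit 3) (nat_lit 15) (nat_lit 1) (nat_lit 17) (nat_lit 1) (nat_lit 393) (nat_lit 425) (nat_lit 202)) (XT.nd (nat_lit 78) (nat_lit 152) (nat_lit 0) (XT.lf (nat_lit 76) (nat_lit 1325842013) (nat_lit 0) (nat_lit 1523799078) (nat_lit 76) (nat_lit 1523799078) (nat_lit 15) (nat_lit 3) (nat_lit 14) (nat_lit 1) (nat_lit 15) (nat_lit 1) (nat_lit 394) (nat_lit 425) (nat_lit 201)) (XT.lf (nat_lit 152) (nat_lit 4205271775) (nat_lit 0) (nat_lit 62807622) (nat_lit 76) (nat_lit 62807622) (nat_lit 14) (nat_lit 1) (nat_lit 12) (nat_lit 1) (nat_lit 13) (nat_lit 1) (nat_lit 395) (nat_lit 425) (nat_lit 200))))))))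
noncomputable def ec454 : XT := (XT.nd (nat_lit 37986) (nat_lit 0) (nat_lit 17632) (XT.nd (nat_lit 37206) (nat_lit 0) (nat_lit 22116) (XT.nd (nat_lit 312) (nat_lit 456) (nat_lit 0) (XT.nd (nat_lit 156) (nat_lit 152) (nat_lit 0) (XT.nd (nat_lit 78) (nat_lit 76) (nat_lit 0) (XT.lf (nat_lit 0) (nat_lit 1368943536) (nat_lit 0) (nat_lit 1550102294) (nat_lit 152) (nat_lit 1368943536) (nat_lit 12) (nat_lit 3) (nat_lit 12) (nat_lit 1) (nat_lit 14) (nat_lit 1) (nat_lit 396) (nat_lit 425) (nat_lit 199)) (XT.lf (nat_lit 76) (nat_lit 1298044649) (nat_lit 0) (nat_lit 1473926938) (nat_lit 76) (nat_lit 1473926938) (nat_lit 12) (nat_lit 3) (nat_lit 11) (nat_lit 1) (nat_lit 12) (nat_lit 1) (nat_lit 397) (nat_lit 425) (nat_lit 198))) (XT.nd (nat_lit 78) (nat_lit 0) (nat_lit 0) (XT.lf (nat_lit 152) (nat_lit 4092986448) (nat_lit 0) (nat_lit 55803759) (nat_lit 76) (nat_lit 55803759) (nat_lit 11) (nat_lit 1) (nat_lit 9)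 (nat_lit 1) (nat_lit 10) (nat_lit 1) (nat_lit 398) (nat_lit 425) (nat_lit 197)) (XT.lf (nat_lit 0) (nat_lit 1333997163) (nat_lit 0) (nat_lit 1494954373) (nat_lit 152) (nat_lit 1333997163) (nat_lit 9) (nat_lit 3) (nat_lit 9) (nat_lit 1) (nat_lit 11) (nat_lit 1) (nat_lit 399) (nat_lit 425) (nat_lit 196)))) (XT.nd (nat_lit 156) (nat_lit 228) (nat_lit 0) (XT.nd (nat_lit 78) (nat_lit 152) (nat_lit 0) (XT.lf (nat_lit 76) (nat_lit 1269850414) (nat_lit 0) (nat_lit 1426119550) (nat_lit 76) (nat_lit 1426119550) (nat_lit 9) (nat_lit 3) (nat_lit 8) (nat_lit 1) (nat_lit 9) (nat_lit 1) (nat_lit 400) (nat_lit 425) (nat_lit 195)) (XT.lf (nat_lit 152) (nat_lit 3982834322) (nat_lit 0) (nat_lit 49580917) (nat_lit 76) (nat_lit 49580917) (nat_lit 8) (nat_lit 1) (nat_lit 6) (nat_lit 1) (nat_lit 7) (nat_lit 1) (nat_lit 401) (nat_lit 425) (nat_lit 194))) (XT.nd (nat_lit 78) (nat_lit 228) (nat_lit 0) (XT.lf (nat_lit 0) (nat_lit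 1299519358) (nat_lit 0) (nat_lit 1442527754) (nat_lit 152) (nat_lit 1299519358) (nat_lit 6) (nat_lit 3) (nat_lit 6) (nat_lit 1) (nat_lit 8) (nat_lit 1) (nat_lit 402) (nat_lit 425) (nat_lit 193)) (XT.nd (nat_lit 78) (nat_lit 152) (nat_lit 0) (XT.lf (nat_lit 76) (nat_lit 1241405409) (nat_lit 0) (nat_lit 1380248512) (nat_lit 76) (nat_lit 1380248512) (nat_lit 6) (nat_lit 3) (nat_lit 5) (nat_lit 1) (nat_lit 6) (nat_lit 1) (nat_lit 403) (nat_lit 425) (nat_lit 192)) (XT.lf (nat_lit 152) (nat_lit 3874880084) (nat_lit 0) (nat_lit 44052002) (nat_lit 76) (nat_lit 44052002) (nat_lit 5) (nat_lit 1) (nat_lit 3) (nat_lit 1) (nat_lit 4) (nat_lit 1) (nat_lit 404) (nat_lit 425) (nat_lit 191)))))) (XT.nd (nat_lit 390) (nat_lit 1596) (nat_lit 0) (XT.nd (nat_lit 156) (nat_lit 532) (nat_lit 0) (XT.nd (nat_lit 78) (nat_lit 608) (nat_lit 0) (XT.lf (nat_lit 76) (nat_lit 17988346666) (nat_lit 0) (nat_lit 938740246) (nat_lit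 608) (nat_lit 17988346666) (nat_lit 331) (nat_lit 1) (nat_lit 330) (nat_lit 1) (nat_lit 338) (nat_lit 1) (nat_lit 192) (nat_lit 426) (nat_lit 402)) (XT.lf (nat_lit 684) (nat_lit 31396644917) (nat_lit 0) (nat_lit 2520462914) (nat_lit 608) (nat_lit 2520462914) (nat_lit 331) (nat_lit 1) (nat_lit 322) (nat_lit 1) (nat_lit 330) (nat_lit 1) (nat_lit 193) (nat_lit 426) (nat_lit 401))) (XT.nd (nat_lit 78) (nat_lit 532) (nat_lit 0) (XT.lf (nat_lit 76) (nat_lit 13319569049) (nat_lit 0) (nat_lit 9325434034) (nat_lit 684) (nat_lit 13319569049) (nat_lit 323) (nat_lit 1) (nat_lit 322) (nat_lit 1) (nat_lit 331) (nat_lit 1) (nat_lit 194) (nat_lit 426) (nat_lit 400)) (XT.nd (nat_lit 78) (nat_lit 0) (nat_lit 0) (XT.lf (nat_lit 608) (nat_lit 21928773615) (nat_lit 0) (nat_lit 6786956837) (nat_lit 532) (nat_lit 6786956837) (nat_lit 323) (nat_lit 1) (nat_lit 315) (nat_lit 1) (nat_lit 322) (nat_lit 1) (nat_lit 195) (nat_lit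 426) (nat_lit 399)) (XT.lf (nat_lit 76) (nat_lit 8569243822) (nat_lit 0) (nat_lit 17909443977) (nat_lit 608) (nat_lit 8569243822) (nat_lit 316) (nat_lit 1) (nat_lit 315) (nat_lit 1) (nat_lit 323) (nat_lit 1) (nat_lit 196) (nat_lit 426) (nat_lit 398))))) (XT.nd (nat_lit 156) (nat_lit 1064) (nat_lit 0) (XT.nd (nat_lit 78) (nat_lit 0) (nat_lit 0) (XT.lf (nat_lit 608) (nat_lit 12312141781) (nat_lit 0) (nat_lit 11144582710) (nat_lit 532) (nat_lit 11144582710) (nat_lit 316) (nat_lit 1) (nat_lit 308) (nat_lit 1) (nat_lit 315) (nat_lit 1) (nat_lit 197) (nat_lit 426) (nat_lit 397)) (XT.lf (nat_lit 76) (nat_lit 3752233352) (nat_lit 0) (nat_lit 26659673999) (nat_lit 608) (nat_lit 3752233352) (nat_lit 309) (nat_lit 1) (nat_lit 308) (nat_lit 1) (nat_lit 316) (nat_lit 1) (nat_lit 198) (nat_lit 426) (nat_lit 396))) (XT.nd (nat_lit 78) (nat_lit 608) (nat_lit 0) (XT.lf (nat_lit 532) (nat_lit 2575451646) (nat_lit 0)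 (nat_lit 15578321433) (nat_lit 456) (nat_lit 15578321433) (nat_lit 309) (nat_lit 1) (nat_lit 302) (nat_lit 1) (nat_lit 308) (nat_lit 1) (nat_lit 199) (nat_lit 426) (nat_lit 395)) (XT.nd (nat_lit 78) (nat_lit 0) (nat_lit 0) (XT.lf (nat_lit 608) (nat_lit 31097010909) (nat_lit 0) (nat_lit 1106791363) (nat_lit 532) (nat_lit 1106791363) (nat_lit 302) (nat_lit 1) (nat_lit 294) (nat_lit 1) (nat_lit 301) (nat_lit 1) (nat_lit 200) (nat_lit 426) (nat_lit 394)) (XT.lf (nat_lit 76) (nat_lit 12889209557) (nat_lit 0) (nat_lit 7113261593) (nat_lit 608) (nat_lit 12889209557) (nat_lit 295) (nat_lit 1) (nat_lit 294) (nat_lit 1) (nat_lit 302) (nat_lit 1) (nat_lit 201) (nat_lit 426) (nat_lit 393))))))) (XT.nd (nat_lit 702) (nat_lit 2280) (nat_lit 0) (XT.nd (nat_lit 312) (nat_lit 1292) (nat_lit 0) (XT.nd (nat_lit 156) (nat_lit 456) (nat_lit 0) (XT.nd (nat_lit 78) (nat_lit 0) (nat_lit 0) (XT.lf (nat_lit 532) (nat_lit 20544999901)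 (nat_lit 0) (nat_lit 5968969012) (nat_lit 456) (nat_lit 5968969012) (nat_lit 295) (nat_lit 1) (nat_lit 288) (nat_lit 1) (nat_lit 294) (nat_lit 1) (nat_lit 202) (nat_lit 426) (nat_lit 392)) (XT.lf (nat_lit 76) (nat_lit 7630297266) (nat_lit 0) (nat_lit 16819581009) (nat_lit 532) (nat_lit 7630297266) (nat_lit 289) (nat_lit 1) (nat_lit 288) (nat_lit 1) (nat_lit 295) (nat_lit 1) (nat_lit 203) (nat_lit 426) (nat_lit 391))) (XT.nd (nat_lit 78) (nat_lit 0) (nat_lit 0) (XT.lf (nat_lit 532) (nat_lit 9965206032) (nat_lit 0) (nat_lit 10859567609) (nat_lit 456) (nat_lit 10859567609) (nat_lit 289) (nat_lit 1) (nat_lit 282) (nat_lit 1) (nat_lit 288) (nat_lit 1) (nat_lit 204) (nat_lit 426) (nat_lit 390)) (XT.lf (nat_lit 76) (nat_lit 2362693370) (nat_lit 0) (nat_lit 26571775623) (nat_lit 532) (nat_lit 2362693370) (nat_lit 283) (nat_lit 1) (nat_lit 282) (nat_lit 1) (nat_lit 289) (nat_lit 1) (nat_lit 205) (nat_lit 426)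 (nat_lit 389)))) (XT.nd (nat_lit 156) (nat_lit 380) (nat_lit 0) (XT.nd (nat_lit 78) (nat_lit 456) (nat_lit 0) (XT.lf (nat_lit 76) (nat_lit 15151656596) (nat_lit 0) (nat_lit 610180274) (nat_lit 456) (nat_lit 15151656596) (nat_lit 277) (nat_lit 1) (nat_lit 276) (nat_lit 1) (nat_lit 282) (nat_lit 1) (nat_lit 206) (nat_lit 426) (nat_lit 388)) (XT.lf (nat_lit 532) (nat_lit 24786993412) (nat_lit 0) (nat_lit 2875586182) (nat_lit 456) (nat_lit 2875586182) (nat_lit 277) (nat_lit 1) (nat_lit 270) (nat_lit 1) (nat_lit 276) (nat_lit 1) (nat_lit 207) (nat_lit 426) (nat_lit 387))) (XT.nd (nat_lit 78) (nat_lit 380) (nat_lit 0) (XT.lf (nat_lit 76) (nat_lit 9592963681) (nat_lit 0) (nat_lit 10980694567) (nat_lit 532) (nat_lit 9592963681) (nat_lit 271) (nat_lit 1) (nat_lit 270) (nat_lit 1) (nat_lit 277) (nat_lit 1) (nat_lit 208) (nat_lit 426) (nat_lit 386)) (XT.nd (nat_lit 78) (nat_lit 0) (nat_lit 0) (XT.lf (nat_lit 456)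 (nat_lit 13640345291) (nat_lit 0) (nat_lit 8081209453) (nat_lit 380) (nat_lit 8081209453) (nat_lit 271) (nat_lit 1) (nat_lit 265) (nat_lit 1) (nat_lit 270) (nat_lit 1) (nat_lit 209) (nat_lit 426) (nat_lit 385)) (XT.lf (nat_lit 76) (nat_lit 4060616051) (nat_lit 0) (nat_lit 21324338580) (nat_lit 456) (nat_lit 4060616051) (nat_lit 266) (nat_lit 1) (nat_lit 265) (nat_lit 1) (nat_lit 271) (nat_lit 1) (nat_lit 210) (nat_lit 426) (nat_lit 384)))))) (XT.nd (nat_lit 390) (nat_lit 1064) (nat_lit 0) (XT.nd (nat_lit 156) (nat_lit 380) (nat_lit 0) (XT.nd (nat_lit 78) (nat_lit 456) (nat_lit 0) (XT.lf (nat_lit 456) (nat_lit 2553807643) (nat_lit 0) (nat_lit 13269442016) (nat_lit 380) (nat_lit 13269442016) (nat_lit 266) (nat_lit 1) (nat_lit 260) (nat_lit 1) (nat_lit 265) (nat_lit 1) (nat_lit 211) (nat_lit 426) (nat_lit 383)) (XT.lf (nat_lit 456) (nat_lit 25899146000) (nat_lit 0) (nat_lit 1424270337) (nat_lit 380) (nat_lit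 1424270337) (nat_lit 260) (nat_lit 1) (nat_lit 254) (nat_lit 1) (nat_lit 259) (nat_lit 1) (nat_lit 212) (nat_lit 426) (nat_lit 382))) (XT.nd (nat_lit 78) (nat_lit 380) (nat_lit 0) (XT.lf (nat_lit 76) (nat_lit 10055215816) (nat_lit 0) (nat_lit 8294114966) (nat_lit 456) (nat_lit 10055215816) (nat_lit 255) (nat_lit 1) (nat_lit 254) (nat_lit 1) (nat_lit 260) (nat_lit 1) (nat_lit 213) (nat_lit 426) (nat_lit 381)) (XT.nd (nat_lit 78) (nat_lit 0) (nat_lit 0) (XT.lf (nat_lit 456) (nat_lit 14409005742) (nat_lit 0) (nat_lit 6830013378) (nat_lit 380) (nat_lit 6830013378) (nat_lit 255) (nat_lit 1) (nat_lit 249) (nat_lit 1) (nat_lit 254) (nat_lit 1) (nat_lit 214) (nat_lit 426) (nat_lit 380)) (XT.lf (nat_lit 76) (nat_lit 4365488688) (nat_lit 0) (nat_lit 19008158033) (nat_lit 456) (nat_lit 4365488688) (nat_lit 250) (nat_lit 1) (nat_lit 249) (nat_lit 1) (nat_lit 255) (nat_lit 1) (nat_lit 215) (nat_lit 426) (nat_lit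 379))))) (XT.nd (nat_lit 156) (nat_lit 304) (nat_lit 0) (XT.nd (nat_lit 78) (nat_lit 456) (nat_lit 0) (XT.lf (nat_lit 380) (nat_lit 3031973989) (nat_lit 0) (nat_lit 12190722592) (nat_lit 304) (nat_lit 12190722592) (nat_lit 250) (nat_lit 1) (nat_lit 245) (nat_lit 1) (nat_lit 249) (nat_lit 1) (nat_lit 216) (nat_lit 426) (nat_lit 378)) (XT.lf (nat_lit 456) (nat_lit 24588604032) (nat_lit 0) (nat_lit 1253122127) (nat_lit 380) (nat_lit 1253122127) (nat_lit 245) (nat_lit 1) (nat_lit 239) (nat_lit 1) (nat_lit 244) (nat_lit 1) (nat_lit 217) (nat_lit 426) (nat_lit 377))) (XT.nd (nat_lit 78) (nat_lit 304) (nat_lit 0) (XT.lf (nat_lit 76) (nat_lit 9357771033) (nat_lit 0) (nat_lit 8062074385) (nat_lit 456) (nat_lit 9357771033) (nat_lit 240) (nat_lit 1) (nat_lit 239) (nat_lit 1) (nat_lit 245) (nat_lit 1) (nat_lit 218) (nat_lit 426) (nat_lit 376)) (XT.nd (nat_lit 78) (nat_lit 0) (nat_lit 0) (XT.lf (nat_lit 380) (nat_lit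 12934500214) (nat_lit 0) (nat_lit 6766411016) (nat_lit 304) (nat_lit 6766411016) (nat_lit 240) (nat_lit 1) (nat_lit 235) (nat_lit 1) (nat_lit 239) (nat_lit 1) (nat_lit 219) (nat_lit 426) (nat_lit 375)) (XT.lf (nat_lit 76) (nat_lit 3596886931) (nat_lit 0) (nat_lit 18968561843) (nat_lit 380) (nat_lit 3596886931) (nat_lit 236) (nat_lit 1) (nat_lit 235) (nat_lit 1) (nat_lit 240) (nat_lit 1) (nat_lit 220) (nat_lit 426) (nat_lit 374))))))))
noncomputable def ec455 : XT := (XT.nd (nat_lit 1482) (nat_lit 2432) (nat_lit 0) (XT.nd (nat_lit 702) (nat_lit 1672) (nat_lit 0) (XT.nd (nat_lit 312) (nat_lit 836) (nat_lit 0) (XT.nd (nat_lit 156) (nat_lit 304) (nat_lit 0) (XT.nd (nat_lit 78) (nat_lit 380) (nat_lit 0) (XT.lf (nat_lit 380) (nat_lit 1434286840) (nat_lit 0) (nat_lit 12213264467) (nat_lit 304) (nat_lit 12213264467) (nat_lit 236) (nat_lit 1) (nat_lit 231) (nat_lit 1) (nat_lit 235) (nat_lit 1) (nat_lit 221)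 (nat_lit 426) (nat_lit 373)) (XT.lf (nat_lit 380) (nat_lit 21434495713) (nat_lit 0) (nat_lit 2065375236) (nat_lit 304) (nat_lit 2065375236) (nat_lit 231) (nat_lit 1) (nat_lit 226) (nat_lit 1) (nat_lit 230) (nat_lit 1) (nat_lit 222) (nat_lit 426) (nat_lit 372))) (XT.nd (nat_lit 78) (nat_lit 304) (nat_lit 0) (XT.lf (nat_lit 76) (nat_lit 7779567357) (nat_lit 0) (nat_lit 9712567890) (nat_lit 380) (nat_lit 7779567357) (nat_lit 227) (nat_lit 1) (nat_lit 226) (nat_lit 1) (nat_lit 231) (nat_lit 1) (nat_lit 223) (nat_lit 426) (nat_lit 371)) (XT.lf (nat_lit 380) (nat_lit 9759679480) (nat_lit 0) (nat_lit 7612127960) (nat_lit 304) (nat_lit 7612127960) (nat_lit 227) (nat_lit 1) (nat_lit 222) (nat_lit 1) (nat_lit 226) (nat_lit 1) (nat_lit 224) (nat_lit 426) (nat_lit 370)))) (XT.nd (nat_lit 156) (nat_lit 532) (nat_lit 0) (XT.nd (nat_lit 78) (nat_lit 304) (nat_lit 0) (XT.lf (nat_lit 76) (nat_lit 2016254964) (nat_lit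 0) (nat_lit 20669225359) (nat_lit 380) (nat_lit 2016254964) (nat_lit 223) (nat_lit 1) (nat_lit 222) (nat_lit 1) (nat_lit 227) (nat_lit 1) (nat_lit 225) (nat_lit 426) (nat_lit 369)) (XT.lf (nat_lit 76) (nat_lit 11362316588) (nat_lit 0) (nat_lit 1696720263) (nat_lit 304) (nat_lit 11362316588) (nat_lit 219) (nat_lit 1) (nat_lit 218) (nat_lit 1) (nat_lit 222) (nat_lit 1) (nat_lit 226) (nat_lit 426) (nat_lit 368))) (XT.nd (nat_lit 78) (nat_lit 228) (nat_lit 0) (XT.lf (nat_lit 380) (nat_lit 16909537353) (nat_lit 0) (nat_lit 3618423380) (nat_lit 304) (nat_lit 3618423380) (nat_lit 219) (nat_lit 1) (nat_lit 214) (nat_lit 1) (nat_lit 218) (nat_lit 1) (nat_lit 227) (nat_lit 426) (nat_lit 367)) (XT.nd (nat_lit 78) (nat_lit 228) (nat_lit 0) (XT.lf (nat_lit 76) (nat_lit 5548196045) (nat_lit 0) (nat_lit 12778155170) (nat_lit 380) (nat_lit 5548196045) (nat_lit 215) (nat_lit 1) (nat_lit 214) (nat_lit 1) (nat_lit 219)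 (nat_lit 1) (nat_lit 228) (nat_lit 426) (nat_lit 366)) (XT.lf (nat_lit 304) (nat_lit 5327285709) (nat_lit 0) (nat_lit 9139846730) (nat_lit 228) (nat_lit 9139846730) (nat_lit 215) (nat_lit 1) (nat_lit 211) (nat_lit 1) (nat_lit 214) (nat_lit 1) (nat_lit 229) (nat_lit 426) (nat_lit 365)))))) (XT.nd (nat_lit 390) (nat_lit 760) (nat_lit 0) (XT.nd (nat_lit 156) (nat_lit 532) (nat_lit 0) (XT.nd (nat_lit 78) (nat_lit 0) (nat_lit 0) (XT.lf (nat_lit 380) (nat_lit 23022146229) (nat_lit 0) (nat_lit 161666269) (nat_lit 304) (nat_lit 161666269) (nat_lit 211) (nat_lit 1) (nat_lit 206) (nat_lit 1) (nat_lit 210) (nat_lit 1) (nat_lit 230) (nat_lit 426) (nat_lit 364)) (XT.lf (nat_lit 76) (nat_lit 8576859185) (nat_lit 0) (nat_lit 5929745896) (nat_lit 380) (nat_lit 8576859185) (nat_lit 207) (nat_lit 1) (nat_lit 206) (nat_lit 1) (nat_lit 211) (nat_lit 1) (nat_lit 231) (nat_lit 426) (nat_lit 363))) (XT.nd (nat_lit 78) (nat_lit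 304) (nat_lit 0) (XT.lf (nat_lit 304) (nat_lit 11398080830) (nat_lit 0) (nat_lit 5714653589) (nat_lit 228) (nat_lit 5714653589) (nat_lit 207) (nat_lit 1) (nat_lit 203) (nat_lit 1) (nat_lit 206) (nat_lit 1) (nat_lit 232) (nat_lit 426) (nat_lit 362)) (XT.nd (nat_lit 78) (nat_lit 304) (nat_lit 0) (XT.lf (nat_lit 76) (nat_lit 2848615466) (nat_lit 0) (nat_lit 16878252390) (nat_lit 304) (nat_lit 2848615466) (nat_lit 204) (nat_lit 1) (nat_lit 203) (nat_lit 1) (nat_lit 207) (nat_lit 1) (nat_lit 233) (nat_lit 426) (nat_lit 361)) (XT.lf (nat_lit 76) (nat_lit 11161553403) (nat_lit 0) (nat_lit 2988379) (nat_lit 304) (nat_lit 11161553403) (nat_lit 200) (nat_lit 1) (nat_lit 199) (nat_lit 1) (nat_lit 203) (nat_lit 1) (nat_lit 234) (nat_lit 426) (nat_lit 360))))) (XT.nd (nat_lit 156) (nat_lit 532) (nat_lit 0) (XT.nd (nat_lit 78) (nat_lit 0) (nat_lit 0) (XT.lf (nat_lit 304) (nat_lit 16597781632) (nat_lit 0) (nat_lit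 2741490988) (nat_lit 228) (nat_lit 2741490988) (nat_lit 200) (nat_lit 1) (nat_lit 196) (nat_lit 1) (nat_lit 199) (nat_lit 1) (nat_lit 235) (nat_lit 426) (nat_lit 359)) (XT.lf (nat_lit 76) (nat_lit 5437439515) (nat_lit 0) (nat_lit 10962912141) (nat_lit 304) (nat_lit 5437439515) (nat_lit 197) (nat_lit 1) (nat_lit 196) (nat_lit 1) (nat_lit 200) (nat_lit 1) (nat_lit 236) (nat_lit 426) (nat_lit 358))) (XT.nd (nat_lit 78) (nat_lit 304) (nat_lit 0) (XT.lf (nat_lit 304) (nat_lit 5211183381) (nat_lit 0) (nat_lit 8193790874) (nat_lit 228) (nat_lit 8193790874) (nat_lit 197) (nat_lit 1) (nat_lit 193) (nat_lit 1) (nat_lit 196) (nat_lit 1) (nat_lit 237) (nat_lit 426) (nat_lit 357)) (XT.nd (nat_lit 78) (nat_lit 0) (nat_lit 0) (XT.lf (nat_lit 304) (nat_lit 21029180454) (nat_lit 0) (nat_lit 167910585) (nat_lit 228) (nat_lit 167910585) (nat_lit 193) (nat_lit 1) (nat_lit 189) (nat_lit 1) (nat_lit 192) (nat_lit 1) (nat_lit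 238) (nat_lit 426) (nat_lit 356)) (XT.lf (nat_lit 76) (nat_lit 7652921348) (nat_lit 0) (nat_lit 5824680689) (nat_lit 304) (nat_lit 7652921348) (nat_lit 190) (nat_lit 1) (nat_lit 189) (nat_lit 1) (nat_lit 193) (nat_lit 1) (nat_lit 239) (nat_lit 426) (nat_lit 355))))))) (XT.nd (nat_lit 702) (nat_lit 1140) (nat_lit 0) (XT.nd (nat_lit 312) (nat_lit 608) (nat_lit 0) (XT.nd (nat_lit 156) (nat_lit 456) (nat_lit 0) (XT.nd (nat_lit 78) (nat_lit 0) (nat_lit 0) (XT.lf (nat_lit 304) (nat_lit 9692099385) (nat_lit 0) (nat_lit 5604555990) (nat_lit 228) (nat_lit 5604555990) (nat_lit 190) (nat_lit 1) (nat_lit 186) (nat_lit 1) (nat_lit 189) (nat_lit 1) (nat_lit 240) (nat_lit 426) (nat_lit 354)) (XT.lf (nat_lit 76) (nat_lit 2072950890) (nat_lit 0) (nat_lit 16529881564) (nat_lit 304) (nat_lit 2072950890) (nat_lit 187) (nat_lit 1) (nat_lit 186) (nat_lit 1) (nat_lit 190) (nat_lit 1) (nat_lit 241) (nat_lit 426) (nat_lit 353)))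 (XT.nd (nat_lit 78) (nat_lit 228) (nat_lit 0) (XT.lf (nat_lit 76) (nat_lit 9539159133) (nat_lit 0) (nat_lit 1373478829) (nat_lit 228) (nat_lit 9539159133) (nat_lit 184) (nat_lit 1) (nat_lit 183) (nat_lit 1) (nat_lit 186) (nat_lit 1) (nat_lit 242) (nat_lit 426) (nat_lit 352)) (XT.lf (nat_lit 304) (nat_lit 13525897437) (nat_lit 0) (nat_lit 3352855916) (nat_lit 228) (nat_lit 3352855916) (nat_lit 184) (nat_lit 1) (nat_lit 180) (nat_lit 1) (nat_lit 183) (nat_lit 1) (nat_lit 243) (nat_lit 426) (nat_lit 351)))) (XT.nd (nat_lit 156) (nat_lit 456) (nat_lit 0) (XT.nd (nat_lit 78) (nat_lit 152) (nat_lit 0) (XT.lf (nat_lit 76) (nat_lit 4000638913) (nat_lit 0) (nat_lit 12012656278) (nat_lit 304) (nat_lit 4000638913) (nat_lit 181) (nat_lit 1) (nat_lit 180) (nat_lit 1) (nat_lit 184) (nat_lit 1) (nat_lit 244) (nat_lit 426) (nat_lit 350)) (XT.lf (nat_lit 228) (nat_lit 2519798327) (nat_lit 0) (nat_lit 8639685219) (nat_lit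 152) (nat_lit 8639685219) (nat_lit 181) (nat_lit 1) (nat_lit 178) (nat_lit 1) (nat_lit 180) (nat_lit 1) (nat_lit 245) (nat_lit 426) (nat_lit 349))) (XT.nd (nat_lit 78) (nat_lit 152) (nat_lit 0) (XT.lf (nat_lit 304) (nat_lit 16789033876) (nat_lit 0) (nat_lit 1399629743) (nat_lit 228) (nat_lit 1399629743) (nat_lit 178) (nat_lit 1) (nat_lit 174) (nat_lit 1) (nat_lit 177) (nat_lit 1) (nat_lit 246) (nat_lit 426) (nat_lit 348)) (XT.nd (nat_lit 78) (nat_lit 152) (nat_lit 0) (XT.lf (nat_lit 76) (nat_lit 5650485660) (nat_lit 0) (nat_lit 8077041557) (nat_lit 304) (nat_lit 5650485660) (nat_lit 175) (nat_lit 1) (nat_lit 174) (nat_lit 1) (nat_lit 178) (nat_lit 1) (nat_lit 247) (nat_lit 426) (nat_lit 347)) (XT.lf (nat_lit 228) (nat_lit 5893568567) (nat_lit 0) (nat_lit 6638991046) (nat_lit 152) (nat_lit 6638991046) (nat_lit 175) (nat_lit 1) (nat_lit 172) (nat_lit 1) (nat_lit 174) (nat_lit 1) (nat_lit 248) (nat_lit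 426) (nat_lit 346)))))) (XT.nd (nat_lit 390) (nat_lit 532) (nat_lit 0) (XT.nd (nat_lit 156) (nat_lit 380) (nat_lit 0) (XT.nd (nat_lit 78) (nat_lit 228) (nat_lit 0) (XT.lf (nat_lit 76) (nat_lit 292655408) (nat_lit 0) (nat_lit 18384091510) (nat_lit 228) (nat_lit 292655408) (nat_lit 173) (nat_lit 1) (nat_lit 172) (nat_lit 1) (nat_lit 175) (nat_lit 1) (nat_lit 249) (nat_lit 426) (nat_lit 345)) (XT.lf (nat_lit 76) (nat_lit 7055305462) (nat_lit 0) (nat_lit 4655911900) (nat_lit 228) (nat_lit 7055305462) (nat_lit 170) (nat_lit 1) (nat_lit 169) (nat_lit 1) (nat_lit 172) (nat_lit 1) (nat_lit 250) (nat_lit 426) (nat_lit 344))) (XT.nd (nat_lit 78) (nat_lit 228) (nat_lit 0) (XT.lf (nat_lit 228) (nat_lit 8784670396) (nat_lit 0) (nat_lit 4891611567) (nat_lit 152) (nat_lit 4891611567) (nat_lit 170) (nat_lit 1) (nat_lit 167) (nat_lit 1) (nat_lit 169) (nat_lit 1) (nat_lit 251) (nat_lit 426) (nat_lit 343)) (XT.nd (nat_lit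 78) (nat_lit 228) (nat_lit 0) (XT.lf (nat_lit 76) (nat_lit 1763438707) (nat_lit 0) (nat_lit 14845638831) (nat_lit 228) (nat_lit 1763438707) (nat_lit 168) (nat_lit 1) (nat_lit 167) (nat_lit 1) (nat_lit 170) (nat_lit 1) (nat_lit 252) (nat_lit 426) (nat_lit 342)) (XT.lf (nat_lit 76) (nat_lit 8244200084) (nat_lit 0) (nat_lit 1689693236) (nat_lit 228) (nat_lit 8244200084) (nat_lit 165) (nat_lit 1) (nat_lit 164) (nat_lit 1) (nat_lit 167) (nat_lit 1) (nat_lit 253) (nat_lit 426) (nat_lit 341))))) (XT.nd (nat_lit 156) (nat_lit 380) (nat_lit 0) (XT.nd (nat_lit 78) (nat_lit 0) (nat_lit 0) (XT.lf (nat_lit 228) (nat_lit 11250028060) (nat_lit 0) (nat_lit 3368418968) (nat_lit 152) (nat_lit 3368418968) (nat_lit 165) (nat_lit 1) (nat_lit 162) (nat_lit 1) (nat_lit 164) (nat_lit 1) (nat_lit 254) (nat_lit 426) (nat_lit 340)) (XT.lf (nat_lit 76) (nat_lit 3026421740) (nat_lit 0) (nat_lit 11745120573) (nat_lit 228) (nat_lit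 3026421740) (nat_lit 163) (nat_lit 1) (nat_lit 162) (nat_lit 1) (nat_lit 165) (nat_lit 1) (nat_lit 255) (nat_lit 426) (nat_lit 339))) (XT.nd (nat_lit 78) (nat_lit 228) (nat_lit 0) (XT.lf (nat_lit 228) (nat_lit 891884967) (nat_lit 0) (nat_lit 8359662655) (nat_lit 152) (nat_lit 8359662655) (nat_lit 163) (nat_lit 1) (nat_lit 160) (nat_lit 1) (nat_lit 162) (nat_lit 1) (nat_lit 256) (nat_lit 426) (nat_lit 338)) (XT.nd (nat_lit 78) (nat_lit 0) (nat_lit 0) (XT.lf (nat_lit 228) (nat_lit 13340127708) (nat_lit 0) (nat_lit 2043559195) (nat_lit 152) (nat_lit 2043559195) (nat_lit 160) (nat_lit 1) (nat_lit 157) (nat_lit 1) (nat_lit 159) (nat_lit 1) (nat_lit 257) (nat_lit 426) (nat_lit 337)) (XT.lf (nat_lit 76) (nat_lit 4106052331) (nat_lit 0) (nat_lit 9032438723) (nat_lit 228) (nat_lit 4106052331) (nat_lit 158) (nat_lit 1) (nat_lit 157) (nat_lit 1) (nat_lit 160) (nat_lit 1) (nat_lit 258) (nat_lit 426) (nat_lit 336))))))))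
noncomputable def ec456 : XT := (XT.nd (nat_lit 1404) (nat_lit 1672) (nat_lit 0) (XT.nd (nat_lit 702) (nat_lit 836) (nat_lit 0) (XT.nd (nat_lit 312) (nat_lit 456) (nat_lit 0) (XT.nd (nat_lit 156) (nat_lit 152) (nat_lit 0) (XT.nd (nat_lit 78) (nat_lit 228) (nat_lit 0) (XT.lf (nat_lit 228) (nat_lit 3144888193) (nat_lit 0) (nat_lit 6959847348) (nat_lit 152) (nat_lit 6959847348) (nat_lit 158) (nat_lit 1) (nat_lit 155) (nat_lit 1) (nat_lit 157) (nat_lit 1) (nat_lit 259) (nat_lit 426) (nat_lit 335)) (XT.lf (nat_lit 228) (nat_lit 15099737956) (nat_lit 0) (nat_lit 894086139) (nat_lit 152) (nat_lit 894086139) (nat_lit 155) (nat_lit 1) (nat_lit 152) (nat_lit 1) (nat_lit 154) (nat_lit 1) (nat_lit 260) (nat_lit 426) (nat_lit 334))) (XT.nd (nat_lit 78) (nat_lit 152) (nat_lit 0) (XT.lf (nat_lit 76) (nat_lit 5024014911) (nat_lit 0) (nat_lit 6663118620) (nat_lit 228) (nat_lit 5024014911) (nat_lit 153) (nat_lit 1) (nat_lit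 152) (nat_lit 1) (nat_lit 155) (nat_lit 1) (nat_lit 261) (nat_lit 426) (nat_lit 333)) (XT.lf (nat_lit 228) (nat_lit 5078134127) (nat_lit 0) (nat_lit 5729749132) (nat_lit 152) (nat_lit 5729749132) (nat_lit 153) (nat_lit 1) (nat_lit 150) (nat_lit 1) (nat_lit 152) (nat_lit 1) (nat_lit 262) (nat_lit 426) (nat_lit 332)))) (XT.nd (nat_lit 156) (nat_lit 304) (nat_lit 0) (XT.nd (nat_lit 78) (nat_lit 152) (nat_lit 0) (XT.lf (nat_lit 76) (nat_lit 101357060) (nat_lit 0) (nat_lit 16164991663) (nat_lit 228) (nat_lit 101357060) (nat_lit 151) (nat_lit 1) (nat_lit 150) (nat_lit 1) (nat_lit 153) (nat_lit 1) (nat_lit 263) (nat_lit 426) (nat_lit 331)) (XT.lf (nat_lit 76) (nat_lit 5799539746) (nat_lit 0) (nat_lit 4597680809) (nat_lit 152) (nat_lit 5799539746) (nat_lit 149) (nat_lit 1) (nat_lit 148) (nat_lit 1) (nat_lit 150) (nat_lit 1) (nat_lit 264) (nat_lit 426) (nat_lit 330))) (XT.nd (nat_lit 78) (nat_lit 152) (nat_lit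 0) (XT.lf (nat_lit 228) (nat_lit 6729275527) (nat_lit 0) (nat_lit 4650045666) (nat_lit 152) (nat_lit 4650045666) (nat_lit 149) (nat_lit 1) (nat_lit 146) (nat_lit 1) (nat_lit 148) (nat_lit 1) (nat_lit 265) (nat_lit 426) (nat_lit 329)) (XT.nd (nat_lit 78) (nat_lit 152) (nat_lit 0) (XT.lf (nat_lit 76) (nat_lit 967342010) (nat_lit 0) (nat_lit 13930224355) (nat_lit 228) (nat_lit 967342010) (nat_lit 147) (nat_lit 1) (nat_lit 146) (nat_lit 1) (nat_lit 149) (nat_lit 1) (nat_lit 266) (nat_lit 426) (nat_lit 328)) (XT.lf (nat_lit 76) (nat_lit 6449677666) (nat_lit 0) (nat_lit 2801082972) (nat_lit 152) (nat_lit 6449677666) (nat_lit 145) (nat_lit 1) (nat_lit 144) (nat_lit 1) (nat_lit 146) (nat_lit 1) (nat_lit 267) (nat_lit 426) (nat_lit 327)))))) (XT.nd (nat_lit 312) (nat_lit 380) (nat_lit 0) (XT.nd (nat_lit 156) (nat_lit 304) (nat_lit 0) (XT.nd (nat_lit 78) (nat_lit 0) (nat_lit 0) (XT.lf (nat_lit 228) (nat_lit 8131708251)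 (nat_lit 0) (nat_lit 3703580855) (nat_lit 152) (nat_lit 3703580855) (nat_lit 145) (nat_lit 1) (nat_lit 142) (nat_lit 1) (nat_lit 144) (nat_lit 1) (nat_lit 268) (nat_lit 426) (nat_lit 326)) (XT.lf (nat_lit 76) (nat_lit 1711206357) (nat_lit 0) (nat_lit 11957249771) (nat_lit 228) (nat_lit 1711206357) (nat_lit 143) (nat_lit 1) (nat_lit 142) (nat_lit 1) (nat_lit 145) (nat_lit 1) (nat_lit 269) (nat_lit 426) (nat_lit 325))) (XT.nd (nat_lit 78) (nat_lit 152) (nat_lit 0) (XT.lf (nat_lit 76) (nat_lit 6989544116) (nat_lit 0) (nat_lit 1242224119) (nat_lit 152) (nat_lit 6989544116) (nat_lit 141) (nat_lit 1) (nat_lit 140) (nat_lit 1) (nat_lit 142) (nat_lit 1) (nat_lit 270) (nat_lit 426) (nat_lit 324)) (XT.lf (nat_lit 228) (nat_lit 9315047657) (nat_lit 0) (nat_lit 2875122950) (nat_lit 152) (nat_lit 2875122950) (nat_lit 141) (nat_lit 1) (nat_lit 138) (nat_lit 1) (nat_lit 140) (nat_lit 1) (nat_lit 271) (nat_lit 426)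 (nat_lit 323)))) (XT.nd (nat_lit 156) (nat_lit 304) (nat_lit 0) (XT.nd (nat_lit 78) (nat_lit 76) (nat_lit 0) (XT.lf (nat_lit 76) (nat_lit 2347312363) (nat_lit 0) (nat_lit 10216508014) (nat_lit 228) (nat_lit 2347312363) (nat_lit 139) (nat_lit 1) (nat_lit 138) (nat_lit 1) (nat_lit 141) (nat_lit 1) (nat_lit 272) (nat_lit 426) (nat_lit 322)) (XT.lf (nat_lit 152) (nat_lit 108615380) (nat_lit 0) (nat_lit 7324964665) (nat_lit 76) (nat_lit 7324964665) (nat_lit 139) (nat_lit 1) (nat_lit 137) (nat_lit 1) (nat_lit 138) (nat_lit 1) (nat_lit 273) (nat_lit 426) (nat_lit 321))) (XT.nd (nat_lit 78) (nat_lit 76) (nat_lit 0) (XT.lf (nat_lit 228) (nat_lit 10305551813) (nat_lit 0) (nat_lit 2151149628) (nat_lit 152) (nat_lit 2151149628) (nat_lit 137) (nat_lit 1) (nat_lit 134) (nat_lit 1) (nat_lit 136) (nat_lit 1) (nat_lit 274) (nat_lit 426) (nat_lit 320)) (XT.nd (nat_lit 78) (nat_lit 76) (nat_lit 0) (XT.lf (nat_lit 76)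 (nat_lit 2888399040) (nat_lit 0) (nat_lit 8681746174) (nat_lit 228) (nat_lit 2888399040) (nat_lit 135) (nat_lit 1) (nat_lit 134) (nat_lit 1) (nat_lit 137) (nat_lit 1) (nat_lit 275) (nat_lit 426) (nat_lit 319)) (XT.lf (nat_lit 152) (nat_lit 1294834636) (nat_lit 0) (nat_lit 6508136231) (nat_lit 76) (nat_lit 6508136231) (nat_lit 135) (nat_lit 1) (nat_lit 133) (nat_lit 1) (nat_lit 134) (nat_lit 1) (nat_lit 276) (nat_lit 426) (nat_lit 318))))))) (XT.nd (nat_lit 702) (nat_lit 760) (nat_lit 0) (XT.nd (nat_lit 312) (nat_lit 380) (nat_lit 0) (XT.nd (nat_lit 156) (nat_lit 304) (nat_lit 0) (XT.nd (nat_lit 78) (nat_lit 0) (nat_lit 0) (XT.lf (nat_lit 228) (nat_lit 11126497482) (nat_lit 0) (nat_lit 1519657054) (nat_lit 152) (nat_lit 1519657054) (nat_lit 133) (nat_lit 1) (nat_lit 130) (nat_lit 1) (nat_lit 132) (nat_lit 1) (nat_lit 277) (nat_lit 426) (nat_lit 317)) (XT.lf (nat_lit 76) (nat_lit 3345763784) (nat_lit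 0) (nat_lit 7329649252) (nat_lit 228) (nat_lit 3345763784) (nat_lit 131) (nat_lit 1) (nat_lit 130) (nat_lit 1) (nat_lit 133) (nat_lit 1) (nat_lit 278) (nat_lit 426) (nat_lit 316))) (XT.nd (nat_lit 78) (nat_lit 228) (nat_lit 0) (XT.lf (nat_lit 152) (nat_lit 2313872228) (nat_lit 0) (nat_lit 5782394747) (nat_lit 76) (nat_lit 5782394747) (nat_lit 131) (nat_lit 1) (nat_lit 129) (nat_lit 1) (nat_lit 130) (nat_lit 1) (nat_lit 279) (nat_lit 426) (nat_lit 315)) (XT.lf (nat_lit 228) (nat_lit 11798514119) (nat_lit 0) (nat_lit 969990242) (nat_lit 152) (nat_lit 969990242) (nat_lit 129) (nat_lit 1) (nat_lit 126) (nat_lit 1) (nat_lit 128) (nat_lit 1) (nat_lit 280) (nat_lit 426) (nat_lit 314)))) (XT.nd (nat_lit 156) (nat_lit 304) (nat_lit 0) (XT.nd (nat_lit 78) (nat_lit 76) (nat_lit 0) (XT.lf (nat_lit 76) (nat_lit 3729423756) (nat_lit 0) (nat_lit 6139512235) (nat_lit 228) (nat_lit 3729423756) (nat_lit 127) (nat_lit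 1) (nat_lit 126) (nat_lit 1) (nat_lit 129) (nat_lit 1) (nat_lit 281) (nat_lit 426) (nat_lit 313)) (XT.lf (nat_lit 152) (nat_lit 3185387666) (nat_lit 0) (nat_lit 5137582839) (nat_lit 76) (nat_lit 5137582839) (nat_lit 127) (nat_lit 1) (nat_lit 125) (nat_lit 1) (nat_lit 126) (nat_lit 1) (nat_lit 282) (nat_lit 426) (nat_lit 312))) (XT.nd (nat_lit 78) (nat_lit 76) (nat_lit 0) (XT.lf (nat_lit 228) (nat_lit 12339880588) (nat_lit 0) (nat_lit 492692341) (nat_lit 152) (nat_lit 492692341) (nat_lit 125) (nat_lit 1) (nat_lit 122) (nat_lit 1) (nat_lit 124) (nat_lit 1) (nat_lit 283) (nat_lit 426) (nat_lit 311)) (XT.nd (nat_lit 78) (nat_lit 76) (nat_lit 0) (XT.lf (nat_lit 76) (nat_lit 4048259236) (nat_lit 0) (nat_lit 5092948760) (nat_lit 228) (nat_lit 4048259236) (nat_lit 123) (nat_lit 1) (nat_lit 122) (nat_lit 1) (nat_lit 125) (nat_lit 1) (nat_lit 284) (nat_lit 426) (nat_lit 310)) (XT.lf (nat_lit 152) (nat_lit 3926818558)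 (nat_lit 0) (nat_lit 4564675810) (nat_lit 76) (nat_lit 4564675810) (nat_lit 123) (nat_lit 1) (nat_lit 121) (nat_lit 1) (nat_lit 122) (nat_lit 1) (nat_lit 285) (nat_lit 426) (nat_lit 309)))))) (XT.nd (nat_lit 390) (nat_lit 304) (nat_lit 0) (XT.nd (nat_lit 156) (nat_lit 228) (nat_lit 0) (XT.nd (nat_lit 78) (nat_lit 0) (nat_lit 0) (XT.lf (nat_lit 228) (nat_lit 12766788745) (nat_lit 0) (nat_lit 79370740) (nat_lit 152) (nat_lit 79370740) (nat_lit 121) (nat_lit 1) (nat_lit 118) (nat_lit 1) (nat_lit 120) (nat_lit 1) (nat_lit 286) (nat_lit 426) (nat_lit 308)) (XT.lf (nat_lit 76) (nat_lit 4310140978) (nat_lit 0) (nat_lit 4173632269) (nat_lit 228) (nat_lit 4310140978) (nat_lit 119) (nat_lit 1) (nat_lit 118) (nat_lit 1) (nat_lit 121) (nat_lit 1) (nat_lit 287) (nat_lit 426) (nat_lit 307))) (XT.nd (nat_lit 78) (nat_lit 152) (nat_lit 0) (XT.lf (nat_lit 152) (nat_lit 4553629247) (nat_lit 0) (nat_lit 4055655335) (nat_lit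 76) (nat_lit 4055655335) (nat_lit 119) (nat_lit 1) (nat_lit 117) (nat_lit 1) (nat_lit 118) (nat_lit 1) (nat_lit 288) (nat_lit 426) (nat_lit 306)) (XT.nd (nat_lit 78) (nat_lit 152) (nat_lit 0) (XT.lf (nat_lit 0) (nat_lit 280168647) (nat_lit 0) (nat_lit 11978071680) (nat_lit 152) (nat_lit 280168647) (nat_lit 117) (nat_lit 3) (nat_lit 117) (nat_lit 1) (nat_lit 119) (nat_lit 1) (nat_lit 289) (nat_lit 426) (nat_lit 305)) (XT.lf (nat_lit 76) (nat_lit 4522043347) (nat_lit 0) (nat_lit 3367066040) (nat_lit 152) (nat_lit 4522043347) (nat_lit 116) (nat_lit 1) (nat_lit 115) (nat_lit 1) (nat_lit 117) (nat_lit 1) (nat_lit 290) (nat_lit 426) (nat_lit 304))))) (XT.nd (nat_lit 156) (nat_lit 228) (nat_lit 0) (XT.nd (nat_lit 78) (nat_lit 0) (nat_lit 0) (XT.lf (nat_lit 152) (nat_lit 5079531694) (nat_lit 0) (nat_lit 3603397236) (nat_lit 76) (nat_lit 3603397236) (nat_lit 116) (nat_lit 1) (nat_lit 114) (nat_lit 1) (nat_lit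 115) (nat_lit 1) (nat_lit 291) (nat_lit 426) (nat_lit 303)) (XT.lf (nat_lit 0) (nat_lit 590078388) (nat_lit 0) (nat_lit 10983513720) (nat_lit 152) (nat_lit 590078388) (nat_lit 114) (nat_lit 3) (nat_lit 114) (nat_lit 1) (nat_lit 116) (nat_lit 1) (nat_lit 292) (nat_lit 426) (nat_lit 302))) (XT.nd (nat_lit 78) (nat_lit 76) (nat_lit 0) (XT.lf (nat_lit 76) (nat_lit 4690144820) (nat_lit 0) (nat_lit 2660378863) (nat_lit 152) (nat_lit 4690144820) (nat_lit 113) (nat_lit 1) (nat_lit 112) (nat_lit 1) (nat_lit 114) (nat_lit 1) (nat_lit 293) (nat_lit 426) (nat_lit 301)) (XT.nd (nat_lit 78) (nat_lit 0) (nat_lit 0) (XT.lf (nat_lit 152) (nat_lit 5516681699) (nat_lit 0) (nat_lit 3201571773) (nat_lit 76) (nat_lit 3201571773) (nat_lit 113) (nat_lit 1) (nat_lit 111) (nat_lit 1) (nat_lit 112) (nat_lit 1) (nat_lit 294) (nat_lit 426) (nat_lit 300)) (XT.lf (nat_lit 0) (nat_lit 855492708) (nat_lit 0) (nat_lit 10089925384) (nat_lit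 152) (nat_lit 855492708) (nat_lit 111) (nat_lit 3) (nat_lit 111) (nat_lit 1) (nat_lit 113) (nat_lit 1) (nat_lit 295) (nat_lit 426) (nat_lit 299))))))))
noncomputable def ec457 : XT := (XT.nd (nat_lit 1482) (nat_lit 1520) (nat_lit 0) (XT.nd (nat_lit 702) (nat_lit 760) (nat_lit 0) (XT.nd (nat_lit 312) (nat_lit 304) (nat_lit 0) (XT.nd (nat_lit 156) (nat_lit 152) (nat_lit 0) (XT.nd (nat_lit 78) (nat_lit 76) (nat_lit 0) (XT.lf (nat_lit 76) (nat_lit 4819917272) (nat_lit 0) (nat_lit 2042143519) (nat_lit 152) (nat_lit 4819917272) (nat_lit 110) (nat_lit 1) (nat_lit 109) (nat_lit 1) (nat_lit 111) (nat_lit 1) (nat_lit 296) (nat_lit 426) (nat_lit 298)) (XT.lf (nat_lit 152) (nat_lit 5875853227) (nat_lit 0) (nat_lit 2844555053) (nat_lit 76) (nat_lit 2844555053) (nat_lit 110) (nat_lit 1) (nat_lit 108) (nat_lit 1) (nat_lit 109) (nat_lit 1) (nat_lit 297) (nat_lit 426) (nat_lit 297))) (XT.nd (nat_lit 78) (nat_lit 152)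 (nat_lit 0) (XT.lf (nat_lit 0) (nat_lit 1081662834) (nat_lit 0) (nat_lit 9286336661) (nat_lit 152) (nat_lit 1081662834) (nat_lit 108) (nat_lit 3) (nat_lit 108) (nat_lit 1) (nat_lit 110) (nat_lit 1) (nat_lit 298) (nat_lit 426) (nat_lit 296)) (XT.lf (nat_lit 76) (nat_lit 4916205278) (nat_lit 0) (nat_lit 1502215500) (nat_lit 152) (nat_lit 4916205278) (nat_lit 107) (nat_lit 1) (nat_lit 106) (nat_lit 1) (nat_lit 108) (nat_lit 1) (nat_lit 299) (nat_lit 426) (nat_lit 295)))) (XT.nd (nat_lit 156) (nat_lit 228) (nat_lit 0) (XT.nd (nat_lit 78) (nat_lit 0) (nat_lit 0) (XT.lf (nat_lit 152) (nat_lit 6166593264) (nat_lit 0) (nat_lit 2527350321) (nat_lit 76) (nat_lit 2527350321) (nat_lit 107) (nat_lit 1) (nat_lit 105) (nat_lit 1) (nat_lit 106) (nat_lit 1) (nat_lit 300) (nat_lit 426) (nat_lit 294)) (XT.lf (nat_lit 0) (nat_lit 1273245985) (nat_lit 0) (nat_lit 8562992413) (nat_lit 152) (nat_lit 1273245985) (nat_lit 105)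 (nat_lit 3) (nat_lit 105) (nat_lit 1) (nat_lit 107) (nat_lit 1) (nat_lit 301) (nat_lit 426) (nat_lit 293))) (XT.nd (nat_lit 78) (nat_lit 76) (nat_lit 0) (XT.lf (nat_lit 76) (nat_lit 4983296569) (nat_lit 0) (nat_lit 1031589727) (nat_lit 152) (nat_lit 4983296569) (nat_lit 104) (nat_lit 1) (nat_lit 103) (nat_lit 1) (nat_lit 105) (nat_lit 1) (nat_lit 302) (nat_lit 426) (nat_lit 292)) (XT.nd (nat_lit 78) (nat_lit 0) (nat_lit 0) (XT.lf (nat_lit 152) (nat_lit 6397359387) (nat_lit 0) (nat_lit 2245518026) (nat_lit 76) (nat_lit 2245518026) (nat_lit 104) (nat_lit 1) (nat_lit 102) (nat_lit 1) (nat_lit 103) (nat_lit 1) (nat_lit 303) (nat_lit 426) (nat_lit 291)) (XT.lf (nat_lit 0) (nat_lit 1434371854) (nat_lit 0) (nat_lit 7911217138) (nat_lit 152) (nat_lit 1434371854) (nat_lit 102) (nat_lit 3) (nat_lit 102) (nat_lit 1) (nat_lit 104) (nat_lit 1) (nat_lit 304) (nat_lit 426) (nat_lit 290)))))) (XT.nd (nat_lit 390) (nat_lit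 304) (nat_lit 0) (XT.nd (nat_lit 156) (nat_lit 228) (nat_lit 0) (XT.nd (nat_lit 78) (nat_lit 76) (nat_lit 0) (XT.lf (nat_lit 76) (nat_lit 5024984607) (nat_lit 0) (nat_lit 622273249) (nat_lit 152) (nat_lit 5024984607) (nat_lit 101) (nat_lit 1) (nat_lit 100) (nat_lit 1) (nat_lit 102) (nat_lit 1) (nat_lit 305) (nat_lit 426) (nat_lit 289)) (XT.lf (nat_lit 152) (nat_lit 6575641968) (nat_lit 0) (nat_lit 1995113682) (nat_lit 76) (nat_lit 1995113682) (nat_lit 101) (nat_lit 1) (nat_lit 99) (nat_lit 1) (nat_lit 100) (nat_lit 1) (nat_lit 306) (nat_lit 426) (nat_lit 288))) (XT.nd (nat_lit 78) (nat_lit 228) (nat_lit 0) (XT.lf (nat_lit 0) (nat_lit 1568701676) (nat_lit 0) (nat_lit 7323294822) (nat_lit 152) (nat_lit 1568701676) (nat_lit 99) (nat_lit 3) (nat_lit 99) (nat_lit 1) (nat_lit 101) (nat_lit 1) (nat_lit 307) (nat_lit 426) (nat_lit 287)) (XT.nd (nat_lit 78) (nat_lit 76) (nat_lit 0) (XT.lf (nat_lit 76) (nat_lit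 5044624176) (nat_lit 0) (nat_lit 267172147) (nat_lit 152) (nat_lit 5044624176) (nat_lit 98) (nat_lit 1) (nat_lit 97) (nat_lit 1) (nat_lit 99) (nat_lit 1) (nat_lit 308) (nat_lit 426) (nat_lit 286)) (XT.lf (nat_lit 152) (nat_lit 6708072732) (nat_lit 0) (nat_lit 1772632666) (nat_lit 76) (nat_lit 1772632666) (nat_lit 98) (nat_lit 1) (nat_lit 96) (nat_lit 1) (nat_lit 97) (nat_lit 1) (nat_lit 309) (nat_lit 426) (nat_lit 285))))) (XT.nd (nat_lit 156) (nat_lit 228) (nat_lit 0) (XT.nd (nat_lit 78) (nat_lit 76) (nat_lit 0) (XT.lf (nat_lit 0) (nat_lit 1679480696) (nat_lit 0) (nat_lit 6792362172) (nat_lit 152) (nat_lit 1679480696) (nat_lit 96) (nat_lit 3) (nat_lit 96) (nat_lit 1) (nat_lit 98) (nat_lit 1) (nat_lit 310) (nat_lit 426) (nat_lit 284)) (XT.lf (nat_lit 76) (nat_lit 40805200) (nat_lit 0) (nat_lit 5004767798) (nat_lit 76) (nat_lit 5004767798) (nat_lit 96) (nat_lit 3) (nat_lit 95) (nat_lit 1) (nat_lit 96)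 (nat_lit 1) (nat_lit 311) (nat_lit 426) (nat_lit 283))) (XT.nd (nat_lit 78) (nat_lit 76) (nat_lit 0) (XT.lf (nat_lit 152) (nat_lit 6800521186) (nat_lit 0) (nat_lit 1574961164) (nat_lit 76) (nat_lit 1574961164) (nat_lit 95) (nat_lit 1) (nat_lit 93) (nat_lit 1) (nat_lit 94) (nat_lit 1) (nat_lit 312) (nat_lit 426) (nat_lit 282)) (XT.nd (nat_lit 78) (nat_lit 76) (nat_lit 0) (XT.lf (nat_lit 0) (nat_lit 1769584782) (nat_lit 0) (nat_lit 6312313751) (nat_lit 152) (nat_lit 1769584782) (nat_lit 93) (nat_lit 3) (nat_lit 93) (nat_lit 1) (nat_lit 95) (nat_lit 1) (nat_lit 313) (nat_lit 426) (nat_lit 281)) (XT.lf (nat_lit 76) (nat_lit 310923338) (nat_lit 0) (nat_lit 4721339813) (nat_lit 76) (nat_lit 4721339813) (nat_lit 93) (nat_lit 3) (nat_lit 92) (nat_lit 1) (nat_lit 93) (nat_lit 1) (nat_lit 314) (nat_lit 426) (nat_lit 280))))))) (XT.nd (nat_lit 702) (nat_lit 836) (nat_lit 0) (XT.nd (nat_lit 312) (nat_lit 304) (nat_lit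 0) (XT.nd (nat_lit 156) (nat_lit 228) (nat_lit 0) (XT.nd (nat_lit 78) (nat_lit 0) (nat_lit 0) (XT.lf (nat_lit 152) (nat_lit 6858180283) (nat_lit 0) (nat_lit 1399332595) (nat_lit 76) (nat_lit 1399332595) (nat_lit 92) (nat_lit 1) (nat_lit 90) (nat_lit 1) (nat_lit 91) (nat_lit 1) (nat_lit 315) (nat_lit 426) (nat_lit 279)) (XT.lf (nat_lit 0) (nat_lit 1841561835) (nat_lit 0) (nat_lit 5877717687) (nat_lit 152) (nat_lit 1841561835) (nat_lit 90) (nat_lit 3) (nat_lit 90) (nat_lit 1) (nat_lit 92) (nat_lit 1) (nat_lit 316) (nat_lit 426) (nat_lit 278))) (XT.nd (nat_lit 78) (nat_lit 152) (nat_lit 0) (XT.lf (nat_lit 76) (nat_lit 542919754) (nat_lit 0) (nat_lit 4461517668) (nat_lit 76) (nat_lit 4461517668) (nat_lit 90) (nat_lit 3) (nat_lit 89) (nat_lit 1) (nat_lit 90) (nat_lit 1) (nat_lit 317) (nat_lit 426) (nat_lit 277)) (XT.lf (nat_lit 152) (nat_lit 6885642498) (nat_lit 0) (nat_lit 1243288886) (nat_lit 76) (nat_lit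 1243288886) (nat_lit 89) (nat_lit 1) (nat_lit 87) (nat_lit 1) (nat_lit 88) (nat_lit 1) (nat_lit 318) (nat_lit 426) (nat_lit 276)))) (XT.nd (nat_lit 156) (nat_lit 228) (nat_lit 0) (XT.nd (nat_lit 78) (nat_lit 76) (nat_lit 0) (XT.lf (nat_lit 0) (nat_lit 1897668573) (nat_lit 0) (nat_lit 5483740770) (nat_lit 152) (nat_lit 1897668573) (nat_lit 87) (nat_lit 3) (nat_lit 87) (nat_lit 1) (nat_lit 89) (nat_lit 1) (nat_lit 319) (nat_lit 426) (nat_lit 275)) (XT.lf (nat_lit 76) (nat_lit 741278524) (nat_lit 0) (nat_lit 4222902017) (nat_lit 76) (nat_lit 4222902017) (nat_lit 87) (nat_lit 3) (nat_lit 86) (nat_lit 1) (nat_lit 87) (nat_lit 1) (nat_lit 320) (nat_lit 426) (nat_lit 274))) (XT.nd (nat_lit 78) (nat_lit 76) (nat_lit 0) (XT.lf (nat_lit 152) (nat_lit 6886967424) (nat_lit 0) (nat_lit 1104646072) (nat_lit 76) (nat_lit 1104646072) (nat_lit 86) (nat_lit 1) (nat_lit 84) (nat_lit 1) (nat_lit 85) (nat_lit 1) (nat_lit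 321) (nat_lit 426) (nat_lit 273)) (XT.nd (nat_lit 78) (nat_lit 76) (nat_lit 0) (XT.lf (nat_lit 0) (nat_lit 1939903205) (nat_lit 0) (nat_lit 5126081905) (nat_lit 152) (nat_lit 1939903205) (nat_lit 84) (nat_lit 3) (nat_lit 84) (nat_lit 1) (nat_lit 86) (nat_lit 1) (nat_lit 322) (nat_lit 426) (nat_lit 272)) (XT.lf (nat_lit 76) (nat_lit 909976906) (nat_lit 0) (nat_lit 4003354285) (nat_lit 76) (nat_lit 4003354285) (nat_lit 84) (nat_lit 3) (nat_lit 83) (nat_lit 1) (nat_lit 84) (nat_lit 1) (nat_lit 323) (nat_lit 426) (nat_lit 271)))))) (XT.nd (nat_lit 390) (nat_lit 456) (nat_lit 0) (XT.nd (nat_lit 156) (nat_lit 228) (nat_lit 0) (XT.nd (nat_lit 78) (nat_lit 0) (nat_lit 0) (XT.lf (nat_lit 152) (nat_lit 6865741790) (nat_lit 0) (nat_lit 981463728) (nat_lit 76) (nat_lit 981463728) (nat_lit 83) (nat_lit 1) (nat_lit 81) (nat_lit 1) (nat_lit 82) (nat_lit 1) (nat_lit 324) (nat_lit 426) (nat_lit 270)) (XT.lf (nat_lit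 0) (nat_lit 1970034461) (nat_lit 0) (nat_lit 4800912968) (nat_lit 152) (nat_lit 1970034461) (nat_lit 81) (nat_lit 3) (nat_lit 81) (nat_lit 1) (nat_lit 83) (nat_lit 1) (nat_lit 325) (nat_lit 426) (nat_lit 269))) (XT.nd (nat_lit 78) (nat_lit 152) (nat_lit 0) (XT.lf (nat_lit 76) (nat_lit 1052542053) (nat_lit 0) (nat_lit 3800967788) (nat_lit 76) (nat_lit 3800967788) (nat_lit 81) (nat_lit 3) (nat_lit 80) (nat_lit 1) (nat_lit 81) (nat_lit 1) (nat_lit 326) (nat_lit 426) (nat_lit 268)) (XT.nd (nat_lit 78) (nat_lit 0) (nat_lit 0) (XT.lf (nat_lit 152) (nat_lit 6825132785) (nat_lit 0) (nat_lit 872017810) (nat_lit 76) (nat_lit 872017810) (nat_lit 80) (nat_lit 1) (nat_lit 78) (nat_lit 1) (nat_lit 79) (nat_lit 1) (nat_lit 327) (nat_lit 426) (nat_lit 267)) (XT.lf (nat_lit 0) (nat_lit 1989627373) (nat_lit 0) (nat_lit 4504826261) (nat_lit 152) (nat_lit 1989627373) (nat_lit 78) (nat_lit 3) (nat_lit 78) (nat_lit 1) (nat_lit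 80) (nat_lit 1) (nat_lit 328) (nat_lit 426) (nat_lit 266))))) (XT.nd (nat_lit 156) (nat_lit 228) (nat_lit 0) (XT.nd (nat_lit 78) (nat_lit 152) (nat_lit 0) (XT.lf (nat_lit 76) (nat_lit 1172101396) (nat_lit 0) (nat_lit 3614042064) (nat_lit 76) (nat_lit 3614042064) (nat_lit 78) (nat_lit 3) (nat_lit 77) (nat_lit 1) (nat_lit 78) (nat_lit 1) (nat_lit 329) (nat_lit 426) (nat_lit 265)) (XT.lf (nat_lit 152) (nat_lit 6767935411) (nat_lit 0) (nat_lit 774776530) (nat_lit 76) (nat_lit 774776530) (nat_lit 77) (nat_lit 1) (nat_lit 75) (nat_lit 1) (nat_lit 76) (nat_lit 1) (nat_lit 330) (nat_lit 426) (nat_lit 264))) (XT.nd (nat_lit 78) (nat_lit 228) (nat_lit 0) (XT.lf (nat_lit 0) (nat_lit 2000066181) (nat_lit 0) (nat_lit 4234787816) (nat_lit 152) (nat_lit 2000066181) (nat_lit 75) (nat_lit 3) (nat_lit 75) (nat_lit 1) (nat_lit 77) (nat_lit 1) (nat_lit 331) (nat_lit 426) (nat_lit 263)) (XT.nd (nat_lit 78) (nat_lit 152)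 (nat_lit 0) (XT.lf (nat_lit 76) (nat_lit 1271427410) (nat_lit 0) (nat_lit 3441060065) (nat_lit 76) (nat_lit 3441060065) (nat_lit 75) (nat_lit 3) (nat_lit 74) (nat_lit 1) (nat_lit 75) (nat_lit 1) (nat_lit 332) (nat_lit 426) (nat_lit 262)) (XT.lf (nat_lit 152) (nat_lit 6696614537) (nat_lit 0) (nat_lit 688378912) (nat_lit 76) (nat_lit 688378912) (nat_lit 74) (nat_lit 1) (nat_lit 72) (nat_lit 1) (nat_lit 73) (nat_lit 1) (nat_lit 333) (nat_lit 426) (nat_lit 261))))))))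
noncomputable def ec458 : XT := (XT.nd (nat_lit 1482) (nat_lit 1444) (nat_lit 0) (XT.nd (nat_lit 702) (nat_lit 684) (nat_lit 0) (XT.nd (nat_lit 312) (nat_lit 456) (nat_lit 0) (XT.nd (nat_lit 156) (nat_lit 152) (nat_lit 0) (XT.nd (nat_lit 78) (nat_lit 76) (nat_lit 0) (XT.lf (nat_lit 0) (nat_lit 2002574673) (nat_lit 0) (nat_lit 3988095902) (nat_lit 152) (nat_lit 2002574673) (nat_lit 72) (nat_lit 3) (nat_lit 72) (nat_lit 1) (nat_lit 74) (nat_lit 1) (nat_lit 334) (nat_lit 426) (nat_lit 260)) (XT.lf (nat_lit 76) (nat_lit 1352977368) (nat_lit 0) (nat_lit 3280667881) (nat_lit 76) (nat_lit 3280667881) (nat_lit 72) (nat_lit 3) (nat_lit 71) (nat_lit 1) (nat_lit 72) (nat_lit 1) (nat_lit 335) (nat_lit 426) (nat_lit 259))) (XT.nd (nat_lit 78) (nat_lit 0) (nat_lit 0) (XT.lf (nat_lit 152) (nat_lit 6613342255) (nat_lit 0) (nat_lit 611615747) (nat_lit 76) (nat_lit 611615747) (nat_lit 71) (nat_lit 1) (nat_lit 69) (nat_lit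 1) (nat_lit 70) (nat_lit 1) (nat_lit 336) (nat_lit 426) (nat_lit 258)) (XT.lf (nat_lit 0) (nat_lit 1998234258) (nat_lit 0) (nat_lit 3762344153) (nat_lit 152) (nat_lit 1998234258) (nat_lit 69) (nat_lit 3) (nat_lit 69) (nat_lit 1) (nat_lit 71) (nat_lit 1) (nat_lit 337) (nat_lit 426) (nat_lit 257)))) (XT.nd (nat_lit 156) (nat_lit 228) (nat_lit 0) (XT.nd (nat_lit 78) (nat_lit 152) (nat_lit 0) (XT.lf (nat_lit 76) (nat_lit 1418928676) (nat_lit 0) (nat_lit 3131656730) (nat_lit 76) (nat_lit 3131656730) (nat_lit 69) (nat_lit 3) (nat_lit 68) (nat_lit 1) (nat_lit 69) (nat_lit 1) (nat_lit 338) (nat_lit 426) (nat_lit 256)) (XT.lf (nat_lit 152) (nat_lit 6520031047) (nat_lit 0) (nat_lit 543412669) (nat_lit 76) (nat_lit 543412669) (nat_lit 68) (nat_lit 1) (nat_lit 66) (nat_lit 1) (nat_lit 67) (nat_lit 1) (nat_lit 339) (nat_lit 426) (nat_lit 255))) (XT.nd (nat_lit 78) (nat_lit 228) (nat_lit 0) (XT.lf (nat_lit 0) (nat_lit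 1988000013) (nat_lit 0) (nat_lit 3555388806) (nat_lit 152) (nat_lit 1988000013) (nat_lit 66) (nat_lit 3) (nat_lit 66) (nat_lit 1) (nat_lit 68) (nat_lit 1) (nat_lit 340) (nat_lit 426) (nat_lit 254)) (XT.nd (nat_lit 78) (nat_lit 152) (nat_lit 0) (XT.lf (nat_lit 76) (nat_lit 1471210245) (nat_lit 0) (nat_lit 2992946936) (nat_lit 76) (nat_lit 2992946936) (nat_lit 66) (nat_lit 3) (nat_lit 65) (nat_lit 1) (nat_lit 66) (nat_lit 1) (nat_lit 341) (nat_lit 426) (nat_lit 253)) (XT.lf (nat_lit 152) (nat_lit 6418363245) (nat_lit 0) (nat_lit 482815118) (nat_lit 76) (nat_lit 482815118) (nat_lit 65) (nat_lit 1) (nat_lit 63) (nat_lit 1) (nat_lit 64) (nat_lit 1) (nat_lit 342) (nat_lit 426) (nat_lit 252)))))) (XT.nd (nat_lit 390) (nat_lit 380) (nat_lit 0) (XT.nd (nat_lit 156) (nat_lit 228) (nat_lit 0) (XT.nd (nat_lit 78) (nat_lit 76) (nat_lit 0) (XT.lf (nat_lit 0) (nat_lit 1972714939) (nat_lit 0) (nat_lit 3365319580) (nat_lit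 152) (nat_lit 1972714939) (nat_lit 63) (nat_lit 3) (nat_lit 63) (nat_lit 1) (nat_lit 65) (nat_lit 1) (nat_lit 343) (nat_lit 426) (nat_lit 251)) (XT.lf (nat_lit 76) (nat_lit 1511530367) (nat_lit 0) (nat_lit 2863573708) (nat_lit 76) (nat_lit 2863573708) (nat_lit 63) (nat_lit 3) (nat_lit 62) (nat_lit 1) (nat_lit 63) (nat_lit 1) (nat_lit 344) (nat_lit 426) (nat_lit 250))) (XT.nd (nat_lit 78) (nat_lit 76) (nat_lit 0) (XT.lf (nat_lit 152) (nat_lit 6309817182) (nat_lit 0) (nat_lit 428974979) (nat_lit 76) (nat_lit 428974979) (nat_lit 62) (nat_lit 1) (nat_lit 60) (nat_lit 1) (nat_lit 61) (nat_lit 1) (nat_lit 345) (nat_lit 426) (nat_lit 249)) (XT.nd (nat_lit 78) (nat_lit 76) (nat_lit 0) (XT.lf (nat_lit 0) (nat_lit 1953122620) (nat_lit 0) (nat_lit 3190433806) (nat_lit 152) (nat_lit 1953122620) (nat_lit 60) (nat_lit 3) (nat_lit 60) (nat_lit 1) (nat_lit 62) (nat_lit 1) (nat_lit 346) (nat_lit 426) (nat_lit 248))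 (XT.lf (nat_lit 76) (nat_lit 1541401484) (nat_lit 0) (nat_lit 2742674481) (nat_lit 76) (nat_lit 2742674481) (nat_lit 60) (nat_lit 3) (nat_lit 59) (nat_lit 1) (nat_lit 60) (nat_lit 1) (nat_lit 347) (nat_lit 426) (nat_lit 247))))) (XT.nd (nat_lit 156) (nat_lit 228) (nat_lit 0) (XT.nd (nat_lit 78) (nat_lit 0) (nat_lit 0) (XT.lf (nat_lit 152) (nat_lit 6195690424) (nat_lit 0) (nat_lit 381138713) (nat_lit 76) (nat_lit 381138713) (nat_lit 59) (nat_lit 1) (nat_lit 57) (nat_lit 1) (nat_lit 58) (nat_lit 1) (nat_lit 348) (nat_lit 426) (nat_lit 246)) (XT.lf (nat_lit 0) (nat_lit 1929878468) (nat_lit 0) (nat_lit 3029213432) (nat_lit 152) (nat_lit 1929878468) (nat_lit 57) (nat_lit 3) (nat_lit 57) (nat_lit 1) (nat_lit 59) (nat_lit 1) (nat_lit 349) (nat_lit 426) (nat_lit 245))) (XT.nd (nat_lit 78) (nat_lit 152) (nat_lit 0) (XT.lf (nat_lit 76) (nat_lit 1562162176) (nat_lit 0) (nat_lit 2629477675) (nat_lit 76) (nat_lit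 2629477675) (nat_lit 57) (nat_lit 3) (nat_lit 56) (nat_lit 1) (nat_lit 57) (nat_lit 1) (nat_lit 350) (nat_lit 426) (nat_lit 244)) (XT.nd (nat_lit 78) (nat_lit 0) (nat_lit 0) (XT.lf (nat_lit 152) (nat_lit 6077120387) (nat_lit 0) (nat_lit 338636810) (nat_lit 76) (nat_lit 338636810) (nat_lit 56) (nat_lit 1) (nat_lit 54) (nat_lit 1) (nat_lit 55) (nat_lit 1) (nat_lit 351) (nat_lit 426) (nat_lit 243)) (XT.lf (nat_lit 0) (nat_lit 1903559710) (nat_lit 0) (nat_lit 2880304587) (nat_lit 152) (nat_lit 1903559710) (nat_lit 54) (nat_lit 3) (nat_lit 54) (nat_lit 1) (nat_lit 56) (nat_lit 1) (nat_lit 352) (nat_lit 426) (nat_lit 242))))))) (XT.nd (nat_lit 702) (nat_lit 760) (nat_lit 0) (XT.nd (nat_lit 312) (nat_lit 380) (nat_lit 0) (XT.nd (nat_lit 156) (nat_lit 76) (nat_lit 0) (XT.nd (nat_lit 78) (nat_lit 152) (nat_lit 0) (XT.lf (nat_lit 76) (nat_lit 1574996708) (nat_lit 0) (nat_lit 2523292704) (nat_lit 76) (nat_lit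 2523292704) (nat_lit 54) (nat_lit 3) (nat_lit 53) (nat_lit 1) (nat_lit 54) (nat_lit 1) (nat_lit 353) (nat_lit 426) (nat_lit 241)) (XT.lf (nat_lit 152) (nat_lit 5955102647) (nat_lit 0) (nat_lit 300874419) (nat_lit 76) (nat_lit 300874419) (nat_lit 53) (nat_lit 1) (nat_lit 51) (nat_lit 1) (nat_lit 52) (nat_lit 1) (nat_lit 354) (nat_lit 426) (nat_lit 240))) (XT.nd (nat_lit 78) (nat_lit 76) (nat_lit 0) (XT.lf (nat_lit 0) (nat_lit 1874674251) (nat_lit 0) (nat_lit 2742499423) (nat_lit 152) (nat_lit 1874674251) (nat_lit 51) (nat_lit 3) (nat_lit 51) (nat_lit 1) (nat_lit 53) (nat_lit 1) (nat_lit 355) (nat_lit 426) (nat_lit 239)) (XT.lf (nat_lit 76) (nat_lit 1580952376) (nat_lit 0) (nat_lit 2423501087) (nat_lit 76) (nat_lit 2423501087) (nat_lit 51) (nat_lit 3) (nat_lit 50) (nat_lit 1) (nat_lit 51) (nat_lit 1) (nat_lit 356) (nat_lit 426) (nat_lit 238)))) (XT.nd (nat_lit 156) (nat_lit 228) (nat_lit 0) (XT.nd (nat_lit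 78) (nat_lit 0) (nat_lit 0) (XT.lf (nat_lit 152) (nat_lit 5830507198) (nat_lit 0) (nat_lit 267323025) (nat_lit 76) (nat_lit 267323025) (nat_lit 50) (nat_lit 1) (nat_lit 48) (nat_lit 1) (nat_lit 49) (nat_lit 1) (nat_lit 357) (nat_lit 426) (nat_lit 237)) (XT.lf (nat_lit 0) (nat_lit 1843668553) (nat_lit 0) (nat_lit 2614719978) (nat_lit 152) (nat_lit 1843668553) (nat_lit 48) (nat_lit 3) (nat_lit 48) (nat_lit 1) (nat_lit 50) (nat_lit 1) (nat_lit 358) (nat_lit 426) (nat_lit 236))) (XT.nd (nat_lit 78) (nat_lit 152) (nat_lit 0) (XT.lf (nat_lit 76) (nat_lit 1580954934) (nat_lit 0) (nat_lit 2329548550) (nat_lit 76) (nat_lit 2329548550) (nat_lit 48) (nat_lit 3) (nat_lit 47) (nat_lit 1) (nat_lit 48) (nat_lit 1) (nat_lit 359) (nat_lit 426) (nat_lit 235)) (XT.nd (nat_lit 78) (nat_lit 0) (nat_lit 0) (XT.lf (nat_lit 152) (nat_lit 5704092872) (nat_lit 0) (nat_lit 237513045) (nat_lit 76) (nat_lit 237513045) (nat_lit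 47) (nat_lit 1) (nat_lit 45) (nat_lit 1) (nat_lit 46) (nat_lit 1) (nat_lit 360) (nat_lit 426) (nat_lit 234)) (XT.lf (nat_lit 0) (nat_lit 1810934621) (nat_lit 0) (nat_lit 2496003825) (nat_lit 152) (nat_lit 1810934621) (nat_lit 45) (nat_lit 3) (nat_lit 45) (nat_lit 1) (nat_lit 47) (nat_lit 1) (nat_lit 361) (nat_lit 426) (nat_lit 233)))))) (XT.nd (nat_lit 390) (nat_lit 304) (nat_lit 0) (XT.nd (nat_lit 156) (nat_lit 228) (nat_lit 0) (XT.nd (nat_lit 78) (nat_lit 152) (nat_lit 0) (XT.lf (nat_lit 76) (nat_lit 1575822278) (nat_lit 0) (nat_lit 2240938010) (nat_lit 76) (nat_lit 2240938010) (nat_lit 45) (nat_lit 3) (nat_lit 44) (nat_lit 1) (nat_lit 45) (nat_lit 1) (nat_lit 362) (nat_lit 426) (nat_lit 232)) (XT.lf (nat_lit 152) (nat_lit 5576520155) (nat_lit 0) (nat_lit 211027264) (nat_lit 76) (nat_lit 211027264) (nat_lit 44) (nat_lit 1) (nat_lit 42) (nat_lit 1) (nat_lit 43) (nat_lit 1) (nat_lit 363) (nat_lit 426)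 (nat_lit 231))) (XT.nd (nat_lit 78) (nat_lit 228) (nat_lit 0) (XT.lf (nat_lit 0) (nat_lit 1776816219) (nat_lit 0) (nat_lit 2385491334) (nat_lit 152) (nat_lit 1776816219) (nat_lit 42) (nat_lit 3) (nat_lit 42) (nat_lit 1) (nat_lit 44) (nat_lit 1) (nat_lit 364) (nat_lit 426) (nat_lit 230)) (XT.nd (nat_lit 78) (nat_lit 152) (nat_lit 0) (XT.lf (nat_lit 76) (nat_lit 1566276611) (nat_lit 0) (nat_lit 2157223325) (nat_lit 76) (nat_lit 2157223325) (nat_lit 42) (nat_lit 3) (nat_lit 41) (nat_lit 1) (nat_lit 42) (nat_lit 1) (nat_lit 365) (nat_lit 426) (nat_lit 229)) (XT.lf (nat_lit 152) (nat_lit 5448362550) (nat_lit 0) (nat_lit 187494991) (nat_lit 76) (nat_lit 187494991) (nat_lit 41) (nat_lit 1) (nat_lit 39) (nat_lit 1) (nat_lit 40) (nat_lit 1) (nat_lit 366) (nat_lit 426) (nat_lit 228))))) (XT.nd (nat_lit 156) (nat_lit 228) (nat_lit 0) (XT.nd (nat_lit 78) (nat_lit 76) (nat_lit 0) (XT.lf (nat_lit 0) (nat_lit 1741614375)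 (nat_lit 0) (nat_lit 2282414331) (nat_lit 152) (nat_lit 1741614375) (nat_lit 39) (nat_lit 3) (nat_lit 39) (nat_lit 1) (nat_lit 41) (nat_lit 1) (nat_lit 367) (nat_lit 426) (nat_lit 227)) (XT.lf (nat_lit 76) (nat_lit 1552955247) (nat_lit 0) (nat_lit 2078003748) (nat_lit 76) (nat_lit 2078003748) (nat_lit 39) (nat_lit 3) (nat_lit 38) (nat_lit 1) (nat_lit 39) (nat_lit 1) (nat_lit 368) (nat_lit 426) (nat_lit 226))) (XT.nd (nat_lit 78) (nat_lit 76) (nat_lit 0) (XT.lf (nat_lit 152) (nat_lit 5320116665) (nat_lit 0) (nat_lit 166586871) (nat_lit 76) (nat_lit 166586871) (nat_lit 38) (nat_lit 1) (nat_lit 36) (nat_lit 1) (nat_lit 37) (nat_lit 1) (nat_lit 369) (nat_lit 426) (nat_lit 225)) (XT.nd (nat_lit 78) (nat_lit 76) (nat_lit 0) (XT.lf (nat_lit 0) (nat_lit 1705592279) (nat_lit 0) (nat_lit 2186086036) (nat_lit 152) (nat_lit 1705592279) (nat_lit 36) (nat_lit 3) (nat_lit 36) (nat_lit 1) (nat_lit 38) (nat_lit 1) (nat_lit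 370) (nat_lit 426) (nat_lit 224)) (XT.lf (nat_lit 76) (nat_lit 1536420200) (nat_lit 0) (nat_lit 2002918993) (nat_lit 76) (nat_lit 2002918993) (nat_lit 36) (nat_lit 3) (nat_lit 35) (nat_lit 1) (nat_lit 36) (nat_lit 1) (nat_lit 371) (nat_lit 426) (nat_lit 223))))))))
noncomputable def ec459 : XT := (XT.nd (nat_lit 1482) (nat_lit 912) (nat_lit 0) (XT.nd (nat_lit 702) (nat_lit 836) (nat_lit 0) (XT.nd (nat_lit 312) (nat_lit 304) (nat_lit 0) (XT.nd (nat_lit 156) (nat_lit 228) (nat_lit 0) (XT.nd (nat_lit 78) (nat_lit 0) (nat_lit 0) (XT.lf (nat_lit 152) (nat_lit 5192211165) (nat_lit 0) (nat_lit 148010277) (nat_lit 76) (nat_lit 148010277) (nat_lit 35) (nat_lit 1) (nat_lit 33) (nat_lit 1) (nat_lit 34) (nat_lit 1) (nat_lit 372) (nat_lit 426) (nat_lit 222)) (XT.lf (nat_lit 0) (nat_lit 1668979624) (nat_lit 0) (nat_lit 2095892103) (nat_lit 152) (nat_lit 1668979624) (nat_lit 33) (nat_lit 3) (nat_lit 33) (nat_lit 1)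 (nat_lit 35) (nat_lit 1) (nat_lit 373) (nat_lit 426) (nat_lit 221))) (XT.nd (nat_lit 78) (nat_lit 152) (nat_lit 0) (XT.lf (nat_lit 76) (nat_lit 1517166708) (nat_lit 0) (nat_lit 1931644843) (nat_lit 76) (nat_lit 1931644843) (nat_lit 33) (nat_lit 3) (nat_lit 32) (nat_lit 1) (nat_lit 33) (nat_lit 1) (nat_lit 374) (nat_lit 426) (nat_lit 220)) (XT.lf (nat_lit 152) (nat_lit 5065014714) (nat_lit 0) (nat_lit 131505214) (nat_lit 76) (nat_lit 131505214) (nat_lit 32) (nat_lit 1) (nat_lit 30) (nat_lit 1) (nat_lit 31) (nat_lit 1) (nat_lit 375) (nat_lit 426) (nat_lit 219)))) (XT.nd (nat_lit 156) (nat_lit 228) (nat_lit 0) (XT.nd (nat_lit 78) (nat_lit 76) (nat_lit 0) (XT.lf (nat_lit 0) (nat_lit 1631976464) (nat_lit 0) (nat_lit 2011282672) (nat_lit 152) (nat_lit 1631976464) (nat_lit 30) (nat_lit 3) (nat_lit 30) (nat_lit 1) (nat_lit 32) (nat_lit 1) (nat_lit 376) (nat_lit 426) (nat_lit 218)) (XT.lf (nat_lit 76) (nat_lit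 1495630794) (nat_lit 0) (nat_lit 1863889249) (nat_lit 76) (nat_lit 1863889249) (nat_lit 30) (nat_lit 3) (nat_lit 29) (nat_lit 1) (nat_lit 30) (nat_lit 1) (nat_lit 377) (nat_lit 426) (nat_lit 217))) (XT.nd (nat_lit 78) (nat_lit 76) (nat_lit 0) (XT.lf (nat_lit 152) (nat_lit 4938843023) (nat_lit 0) (nat_lit 116840679) (nat_lit 76) (nat_lit 116840679) (nat_lit 29) (nat_lit 1) (nat_lit 27) (nat_lit 1) (nat_lit 28) (nat_lit 1) (nat_lit 378) (nat_lit 426) (nat_lit 216)) (XT.nd (nat_lit 78) (nat_lit 76) (nat_lit 0) (XT.lf (nat_lit 0) (nat_lit 1594756634) (nat_lit 0) (nat_lit 1931765288) (nat_lit 152) (nat_lit 1594756634) (nat_lit 27) (nat_lit 3) (nat_lit 27) (nat_lit 1) (nat_lit 29) (nat_lit 1) (nat_lit 379) (nat_lit 426) (nat_lit 215)) (XT.lf (nat_lit 76) (nat_lit 1472195992) (nat_lit 0) (nat_lit 1799388859) (nat_lit 76) (nat_lit 1799388859) (nat_lit 27) (nat_lit 3) (nat_lit 26) (nat_lit 1) (nat_lit 27) (nat_lit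 1) (nat_lit 380) (nat_lit 426) (nat_lit 214)))))) (XT.nd (nat_lit 390) (nat_lit 456) (nat_lit 0) (XT.nd (nat_lit 156) (nat_lit 228) (nat_lit 0) (XT.nd (nat_lit 78) (nat_lit 0) (nat_lit 0) (XT.lf (nat_lit 152) (nat_lit 4813965099) (nat_lit 0) (nat_lit 103811430) (nat_lit 76) (nat_lit 103811430) (nat_lit 26) (nat_lit 1) (nat_lit 24) (nat_lit 1) (nat_lit 25) (nat_lit 1) (nat_lit 381) (nat_lit 426) (nat_lit 213)) (XT.lf (nat_lit 0) (nat_lit 1557470793) (nat_lit 0) (nat_lit 1856898616) (nat_lit 152) (nat_lit 1557470793) (nat_lit 24) (nat_lit 3) (nat_lit 24) (nat_lit 1) (nat_lit 26) (nat_lit 1) (nat_lit 382) (nat_lit 426) (nat_lit 212))) (XT.nd (nat_lit 78) (nat_lit 152) (nat_lit 0) (XT.lf (nat_lit 76) (nat_lit 1447199306) (nat_lit 0) (nat_lit 1737905931) (nat_lit 76) (nat_lit 1737905931) (nat_lit 24) (nat_lit 3) (nat_lit 23) (nat_lit 1) (nat_lit 24) (nat_lit 1) (nat_lit 383) (nat_lit 426) (nat_lit 211))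 (XT.nd (nat_lit 78) (nat_lit 0) (nat_lit 0) (XT.lf (nat_lit 152) (nat_lit 4690608786) (nat_lit 0) (nat_lit 92235111) (nat_lit 76) (nat_lit 92235111) (nat_lit 23) (nat_lit 1) (nat_lit 21) (nat_lit 1) (nat_lit 22) (nat_lit 1) (nat_lit 384) (nat_lit 426) (nat_lit 210)) (XT.lf (nat_lit 0) (nat_lit 1520249111) (nat_lit 0) (nat_lit 1786286854) (nat_lit 152) (nat_lit 1520249111) (nat_lit 21) (nat_lit 3) (nat_lit 21) (nat_lit 1) (nat_lit 23) (nat_lit 1) (nat_lit 385) (nat_lit 426) (nat_lit 209))))) (XT.nd (nat_lit 156) (nat_lit 228) (nat_lit 0) (XT.nd (nat_lit 78) (nat_lit 152) (nat_lit 0) (XT.lf (nat_lit 76) (nat_lit 1420936515) (nat_lit 0) (nat_lit 1679225586) (nat_lit 76) (nat_lit 1679225586) (nat_lit 21) (nat_lit 3) (nat_lit 20) (nat_lit 1) (nat_lit 21) (nat_lit 1) (nat_lit 386) (nat_lit 426) (nat_lit 208)) (XT.lf (nat_lit 152) (nat_lit 4568965684) (nat_lit 0) (nat_lit 81949702) (nat_lit 76) (nat_lit 81949702)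 (nat_lit 20) (nat_lit 1) (nat_lit 18) (nat_lit 1) (nat_lit 19) (nat_lit 1) (nat_lit 387) (nat_lit 426) (nat_lit 207))) (XT.nd (nat_lit 78) (nat_lit 228) (nat_lit 0) (XT.lf (nat_lit 0) (nat_lit 1483203668) (nat_lit 0) (nat_lit 1719574757) (nat_lit 152) (nat_lit 1483203668) (nat_lit 18) (nat_lit 3) (nat_lit 18) (nat_lit 1) (nat_lit 20) (nat_lit 1) (nat_lit 388) (nat_lit 426) (nat_lit 206)) (XT.nd (nat_lit 78) (nat_lit 152) (nat_lit 0) (XT.lf (nat_lit 76) (nat_lit 1393666869) (nat_lit 0) (nat_lit 1623153363) (nat_lit 76) (nat_lit 1623153363) (nat_lit 18) (nat_lit 3) (nat_lit 17) (nat_lit 1) (nat_lit 18) (nat_lit 1) (nat_lit 389) (nat_lit 426) (nat_lit 205)) (XT.lf (nat_lit 152) (nat_lit 4449195503) (nat_lit 0) (nat_lit 72811248) (nat_lit 76) (nat_lit 72811248) (nat_lit 17) (nat_lit 1) (nat_lit 15) (nat_lit 1) (nat_lit 16) (nat_lit 1) (nat_lit 390) (nat_lit 426) (nat_lit 204))))))) (XT.nd (nat_lit 702)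 (nat_lit 228) (nat_lit 0) (XT.nd (nat_lit 312) (nat_lit 456) (nat_lit 0) (XT.nd (nat_lit 156) (nat_lit 152) (nat_lit 0) (XT.nd (nat_lit 78) (nat_lit 76) (nat_lit 0) (XT.lf (nat_lit 0) (nat_lit 1446430572) (nat_lit 0) (nat_lit 1656443223) (nat_lit 152) (nat_lit 1446430572) (nat_lit 15) (nat_lit 3) (nat_lit 15) (nat_lit 1) (nat_lit 17) (nat_lit 1) (nat_lit 391) (nat_lit 426) (nat_lit 203)) (XT.lf (nat_lit 76) (nat_lit 1365617273) (nat_lit 0) (nat_lit 1569513051) (nat_lit 76) (nat_lit 1569513051) (nat_lit 15) (nat_lit 3) (nat_lit 14) (nat_lit 1) (nat_lit 15) (nat_lit 1) (nat_lit 392) (nat_lit 426) (nat_lit 202))) (XT.nd (nat_lit 78) (nat_lit 0) (nat_lit 0) (XT.lf (nat_lit 152) (nat_lit 4331429929) (nat_lit 0) (nat_lit 64691851) (nat_lit 76) (nat_lit 64691851) (nat_lit 14) (nat_lit 1) (nat_lit 12) (nat_lit 1) (nat_lit 13) (nat_lit 1) (nat_lit 393) (nat_lit 426) (nat_lit 201)) (XT.lf (nat_lit 0) (nat_lit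 1410011842) (nat_lit 0) (nat_lit 1596605362) (nat_lit 152) (nat_lit 1410011842) (nat_lit 12) (nat_lit 3) (nat_lit 12) (nat_lit 1) (nat_lit 14) (nat_lit 1) (nat_lit 394) (nat_lit 426) (nat_lit 200)))) (XT.nd (nat_lit 156) (nat_lit 228) (nat_lit 0) (XT.nd (nat_lit 78) (nat_lit 152) (nat_lit 0) (XT.lf (nat_lit 76) (nat_lit 1336985988) (nat_lit 0) (nat_lit 1518144746) (nat_lit 76) (nat_lit 1518144746) (nat_lit 12) (nat_lit 3) (nat_lit 11) (nat_lit 1) (nat_lit 12) (nat_lit 1) (nat_lit 395) (nat_lit 426) (nat_lit 199)) (XT.lf (nat_lit 152) (nat_lit 4215776041) (nat_lit 0) (nat_lit 57477872) (nat_lit 76) (nat_lit 57477872) (nat_lit 11) (nat_lit 1) (nat_lit 9) (nat_lit 1) (nat_lit 10) (nat_lit 1) (nat_lit 396) (nat_lit 426) (nat_lit 198))) (XT.nd (nat_lit 78) (nat_lit 228) (nat_lit 0) (XT.lf (nat_lit 0) (nat_lit 1374017078) (nat_lit 0) (nat_lit 1539803004) (nat_lit 152) (nat_lit 1374017078) (nat_lit 9) (nat_lit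 3) (nat_lit 9) (nat_lit 1) (nat_lit 11) (nat_lit 1) (nat_lit 397) (nat_lit 426) (nat_lit 197)) (XT.nd (nat_lit 78) (nat_lit 152) (nat_lit 0) (XT.lf (nat_lit 76) (nat_lit 1307945927) (nat_lit 0) (nat_lit 1468903137) (nat_lit 76) (nat_lit 1468903137) (nat_lit 9) (nat_lit 3) (nat_lit 8) (nat_lit 1) (nat_lit 9) (nat_lit 1) (nat_lit 398) (nat_lit 426) (nat_lit 196)) (XT.lf (nat_lit 152) (nat_lit 4102319352) (nat_lit 0) (nat_lit 51068344) (nat_lit 76) (nat_lit 51068344) (nat_lit 8) (nat_lit 1) (nat_lit 6) (nat_lit 1) (nat_lit 7) (nat_lit 1) (nat_lit 399) (nat_lit 426) (nat_lit 195)))))) (XT.nd (nat_lit 37206) (nat_lit 0) (nat_lit 21660) (XT.nd (nat_lit 156) (nat_lit 152) (nat_lit 0) (XT.nd (nat_lit 78) (nat_lit 76) (nat_lit 0) (XT.lf (nat_lit 0) (nat_lit 1338504939) (nat_lit 0) (nat_lit 1485803587) (nat_lit 152) (nat_lit 1338504939) (nat_lit 6) (nat_lit 3) (nat_lit 6) (nat_lit 1) (nat_lit 8) (nat_lit 1) (nat_lit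 400) (nat_lit 426) (nat_lit 194)) (XT.lf (nat_lit 76) (nat_lit 1278647572) (nat_lit 0) (nat_lit 1421655968) (nat_lit 76) (nat_lit 1421655968) (nat_lit 6) (nat_lit 3) (nat_lit 5) (nat_lit 1) (nat_lit 6) (nat_lit 1) (nat_lit 401) (nat_lit 426) (nat_lit 193))) (XT.nd (nat_lit 36894) (nat_lit 0) (nat_lit 23180) (XT.lf (nat_lit 152) (nat_lit 3991126487) (nat_lit 0) (nat_lit 45373563) (nat_lit 76) (nat_lit 45373563) (nat_lit 5) (nat_lit 1) (nat_lit 3) (nat_lit 1) (nat_lit 4) (nat_lit 1) (nat_lit 402) (nat_lit 426) (nat_lit 192)) (XT.nd (nat_lit 78) (nat_lit 532) (nat_lit 0) (XT.lf (nat_lit 76) (nat_lit 8826321136) (nat_lit 0) (nat_lit 18446727296) (nat_lit 608) (nat_lit 8826321136) (nat_lit 316) (nat_lit 1) (nat_lit 315) (nat_lit 1) (nat_lit 323) (nat_lit 1) (nat_lit 194) (nat_lit 427) (nat_lit 399)) (XT.lf (nat_lit 608) (nat_lit 12681506034) (nat_lit 0) (nat_lit 11478920191) (nat_lit 532) (nat_lit 11478920191)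 (nat_lit 316) (nat_lit 1) (nat_lit 308) (nat_lit 1) (nat_lit 315) (nat_lit 1) (nat_lit 195) (nat_lit 427) (nat_lit 398))))) (XT.nd (nat_lit 156) (nat_lit 1064) (nat_lit 0) (XT.nd (nat_lit 78) (nat_lit 456) (nat_lit 0) (XT.lf (nat_lit 76) (nat_lit 3864800352) (nat_lit 0) (nat_lit 27459464219) (nat_lit 608) (nat_lit 3864800352) (nat_lit 309) (nat_lit 1) (nat_lit 308) (nat_lit 1) (nat_lit 316) (nat_lit 1) (nat_lit 196) (nat_lit 427) (nat_lit 397)) (XT.lf (nat_lit 532) (nat_lit 2652715195) (nat_lit 0) (nat_lit 16045671076) (nat_lit 456) (nat_lit 16045671076) (nat_lit 309) (nat_lit 1) (nat_lit 302) (nat_lit 1) (nat_lit 308) (nat_lit 1) (nat_lit 197) (nat_lit 427) (nat_lit 396))) (XT.nd (nat_lit 78) (nat_lit 456) (nat_lit 0) (XT.lf (nat_lit 608) (nat_lit 32029921236) (nat_lit 0) (nat_lit 1139995104) (nat_lit 532) (nat_lit 1139995104) (nat_lit 302) (nat_lit 1) (nat_lit 294) (nat_lit 1) (nat_lit 301) (nat_lit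 1) (nat_lit 198) (nat_lit 427) (nat_lit 395)) (XT.nd (nat_lit 78) (nat_lit 456) (nat_lit 0) (XT.lf (nat_lit 76) (nat_lit 13275885844) (nat_lit 0) (nat_lit 7326659441) (nat_lit 608) (nat_lit 13275885844) (nat_lit 295) (nat_lit 1) (nat_lit 294) (nat_lit 1) (nat_lit 302) (nat_lit 1) (nat_lit 199) (nat_lit 427) (nat_lit 394)) (XT.lf (nat_lit 532) (nat_lit 21161349898) (nat_lit 0) (nat_lit 6148038083) (nat_lit 456) (nat_lit 6148038083) (nat_lit 295) (nat_lit 1) (nat_lit 288) (nat_lit 1) (nat_lit 294) (nat_lit 1) (nat_lit 200) (nat_lit 427) (nat_lit 393))))))))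
noncomputable def ec460 : XT := (XT.nd (nat_lit 1404) (nat_lit 3496) (nat_lit 0) (XT.nd (nat_lit 702) (nat_lit 1900) (nat_lit 0) (XT.nd (nat_lit 312) (nat_lit 1216) (nat_lit 0) (XT.nd (nat_lit 156) (nat_lit 456) (nat_lit 0) (XT.nd (nat_lit 78) (nat_lit 456) (nat_lit 0) (XT.lf (nat_lit 76) (nat_lit 7859206184) (nat_lit 0) (nat_lit 17324168439) (nat_lit 532) (nat_lit 7859206184) (nat_lit 289) (nat_lit 1) (nat_lit 288) (nat_lit 1) (nat_lit 295) (nat_lit 1) (nat_lit 201) (nat_lit 427) (nat_lit 392)) (XT.lf (nat_lit 532) (nat_lit 10264162213) (nat_lit 0) (nat_lit 11185354638) (nat_lit 456) (nat_lit 11185354638) (nat_lit 289) (nat_lit 1) (nat_lit 282) (nat_lit 1) (nat_lit 288) (nat_lit 1) (nat_lit 202) (nat_lit 427) (nat_lit 391))) (XT.nd (nat_lit 78) (nat_lit 456) (nat_lit 0) (XT.lf (nat_lit 76) (nat_lit 2433574171) (nat_lit 0) (nat_lit 27368928892) (nat_lit 532) (nat_lit 2433574171) (nat_lit 283) (nat_lit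 1) (nat_lit 282) (nat_lit 1) (nat_lit 289) (nat_lit 1) (nat_lit 203) (nat_lit 427) (nat_lit 390)) (XT.lf (nat_lit 76) (nat_lit 15606206294) (nat_lit 0) (nat_lit 628485682) (nat_lit 456) (nat_lit 15606206294) (nat_lit 277) (nat_lit 1) (nat_lit 276) (nat_lit 1) (nat_lit 282) (nat_lit 1) (nat_lit 204) (nat_lit 427) (nat_lit 389)))) (XT.nd (nat_lit 156) (nat_lit 760) (nat_lit 0) (XT.nd (nat_lit 78) (nat_lit 0) (nat_lit 0) (XT.lf (nat_lit 532) (nat_lit 25530603214) (nat_lit 0) (nat_lit 2961853768) (nat_lit 456) (nat_lit 2961853768) (nat_lit 277) (nat_lit 1) (nat_lit 270) (nat_lit 1) (nat_lit 276) (nat_lit 1) (nat_lit 205) (nat_lit 427) (nat_lit 388)) (XT.lf (nat_lit 76) (nat_lit 9880752591) (nat_lit 0) (nat_lit 11310115404) (nat_lit 532) (nat_lit 9880752591) (nat_lit 271) (nat_lit 1) (nat_lit 270) (nat_lit 1) (nat_lit 277) (nat_lit 1) (nat_lit 206) (nat_lit 427) (nat_lit 387))) (XT.nd (nat_lit 78) (nat_lit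 380) (nat_lit 0) (XT.lf (nat_lit 456) (nat_lit 14049555650) (nat_lit 0) (nat_lit 8323645737) (nat_lit 380) (nat_lit 8323645737) (nat_lit 271) (nat_lit 1) (nat_lit 265) (nat_lit 1) (nat_lit 270) (nat_lit 1) (nat_lit 207) (nat_lit 427) (nat_lit 386)) (XT.nd (nat_lit 78) (nat_lit 380) (nat_lit 0) (XT.lf (nat_lit 76) (nat_lit 4182434533) (nat_lit 0) (nat_lit 21964068737) (nat_lit 456) (nat_lit 4182434533) (nat_lit 266) (nat_lit 1) (nat_lit 265) (nat_lit 1) (nat_lit 271) (nat_lit 1) (nat_lit 208) (nat_lit 427) (nat_lit 385)) (XT.lf (nat_lit 456) (nat_lit 2630421872) (nat_lit 0) (nat_lit 13667525277) (nat_lit 380) (nat_lit 13667525277) (nat_lit 266) (nat_lit 1) (nat_lit 260) (nat_lit 1) (nat_lit 265) (nat_lit 1) (nat_lit 209) (nat_lit 427) (nat_lit 384)))))) (XT.nd (nat_lit 312) (nat_lit 1064) (nat_lit 0) (XT.nd (nat_lit 156) (nat_lit 380) (nat_lit 0) (XT.nd (nat_lit 78) (nat_lit 0) (nat_lit 0) (XT.lf (nat_lit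 456) (nat_lit 26676120380) (nat_lit 0) (nat_lit 1466998447) (nat_lit 380) (nat_lit 1466998447) (nat_lit 260) (nat_lit 1) (nat_lit 254) (nat_lit 1) (nat_lit 259) (nat_lit 1) (nat_lit 210) (nat_lit 427) (nat_lit 383)) (XT.lf (nat_lit 76) (nat_lit 10356872290) (nat_lit 0) (nat_lit 8542938415) (nat_lit 456) (nat_lit 10356872290) (nat_lit 255) (nat_lit 1) (nat_lit 254) (nat_lit 1) (nat_lit 260) (nat_lit 1) (nat_lit 211) (nat_lit 427) (nat_lit 382))) (XT.nd (nat_lit 78) (nat_lit 0) (nat_lit 0) (XT.lf (nat_lit 456) (nat_lit 14841275914) (nat_lit 0) (nat_lit 7034913780) (nat_lit 380) (nat_lit 7034913780) (nat_lit 255) (nat_lit 1) (nat_lit 249) (nat_lit 1) (nat_lit 254) (nat_lit 1) (nat_lit 212) (nat_lit 427) (nat_lit 381)) (XT.lf (nat_lit 76) (nat_lit 4496453349) (nat_lit 0) (nat_lit 19578402774) (nat_lit 456) (nat_lit 4496453349) (nat_lit 250) (nat_lit 1) (nat_lit 249) (nat_lit 1) (nat_lit 255) (nat_lit 1)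 (nat_lit 213) (nat_lit 427) (nat_lit 380)))) (XT.nd (nat_lit 156) (nat_lit 304) (nat_lit 0) (XT.nd (nat_lit 78) (nat_lit 456) (nat_lit 0) (XT.lf (nat_lit 380) (nat_lit 3122933208) (nat_lit 0) (nat_lit 12556444270) (nat_lit 304) (nat_lit 12556444270) (nat_lit 250) (nat_lit 1) (nat_lit 245) (nat_lit 1) (nat_lit 249) (nat_lit 1) (nat_lit 214) (nat_lit 427) (nat_lit 379)) (XT.lf (nat_lit 456) (nat_lit 25326262153) (nat_lit 0) (nat_lit 1290715790) (nat_lit 380) (nat_lit 1290715790) (nat_lit 245) (nat_lit 1) (nat_lit 239) (nat_lit 1) (nat_lit 244) (nat_lit 1) (nat_lit 215) (nat_lit 427) (nat_lit 378))) (XT.nd (nat_lit 78) (nat_lit 304) (nat_lit 0) (XT.lf (nat_lit 76) (nat_lit 9638504164) (nat_lit 0) (nat_lit 8303936617) (nat_lit 456) (nat_lit 9638504164) (nat_lit 240) (nat_lit 1) (nat_lit 239) (nat_lit 1) (nat_lit 245) (nat_lit 1) (nat_lit 216) (nat_lit 427) (nat_lit 377)) (XT.nd (nat_lit 78) (nat_lit 0)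 (nat_lit 0) (XT.lf (nat_lit 380) (nat_lit 13322535221) (nat_lit 0) (nat_lit 6969403346) (nat_lit 304) (nat_lit 6969403346) (nat_lit 240) (nat_lit 1) (nat_lit 235) (nat_lit 1) (nat_lit 239) (nat_lit 1) (nat_lit 217) (nat_lit 427) (nat_lit 376)) (XT.lf (nat_lit 76) (nat_lit 3704793539) (nat_lit 0) (nat_lit 19537618698) (nat_lit 380) (nat_lit 3704793539) (nat_lit 236) (nat_lit 1) (nat_lit 235) (nat_lit 1) (nat_lit 240) (nat_lit 1) (nat_lit 218) (nat_lit 427) (nat_lit 375))))))) (XT.nd (nat_lit 702) (nat_lit 1672) (nat_lit 0) (XT.nd (nat_lit 312) (nat_lit 836) (nat_lit 0) (XT.nd (nat_lit 156) (nat_lit 304) (nat_lit 0) (XT.nd (nat_lit 78) (nat_lit 380) (nat_lit 0) (XT.lf (nat_lit 380) (nat_lit 1477315446) (nat_lit 0) (nat_lit 12579662401) (nat_lit 304) (nat_lit 12579662401) (nat_lit 236) (nat_lit 1) (nat_lit 231) (nat_lit 1) (nat_lit 235) (nat_lit 1) (nat_lit 219) (nat_lit 427) (nat_lit 374)) (XT.lf (nat_lit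 380) (nat_lit 22077530585) (nat_lit 0) (nat_lit 2127336493) (nat_lit 304) (nat_lit 2127336493) (nat_lit 231) (nat_lit 1) (nat_lit 226) (nat_lit 1) (nat_lit 230) (nat_lit 1) (nat_lit 220) (nat_lit 427) (nat_lit 373))) (XT.nd (nat_lit 78) (nat_lit 304) (nat_lit 0) (XT.lf (nat_lit 76) (nat_lit 8012954377) (nat_lit 0) (nat_lit 10003944927) (nat_lit 380) (nat_lit 8012954377) (nat_lit 227) (nat_lit 1) (nat_lit 226) (nat_lit 1) (nat_lit 231) (nat_lit 1) (nat_lit 221) (nat_lit 427) (nat_lit 372)) (XT.lf (nat_lit 380) (nat_lit 10052469865) (nat_lit 0) (nat_lit 7840491799) (nat_lit 304) (nat_lit 7840491799) (nat_lit 227) (nat_lit 1) (nat_lit 222) (nat_lit 1) (nat_lit 226) (nat_lit 1) (nat_lit 222) (nat_lit 427) (nat_lit 371)))) (XT.nd (nat_lit 156) (nat_lit 532) (nat_lit 0) (XT.nd (nat_lit 78) (nat_lit 304) (nat_lit 0) (XT.lf (nat_lit 76) (nat_lit 2076742613) (nat_lit 0) (nat_lit 21289302120) (nat_lit 380) (nat_lit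 2076742613) (nat_lit 223) (nat_lit 1) (nat_lit 222) (nat_lit 1) (nat_lit 227) (nat_lit 1) (nat_lit 223) (nat_lit 427) (nat_lit 370)) (XT.lf (nat_lit 76) (nat_lit 11703186086) (nat_lit 0) (nat_lit 1747621871) (nat_lit 304) (nat_lit 11703186086) (nat_lit 219) (nat_lit 1) (nat_lit 218) (nat_lit 1) (nat_lit 222) (nat_lit 1) (nat_lit 224) (nat_lit 427) (nat_lit 369))) (XT.nd (nat_lit 78) (nat_lit 228) (nat_lit 0) (XT.lf (nat_lit 380) (nat_lit 17416823474) (nat_lit 0) (nat_lit 3726976082) (nat_lit 304) (nat_lit 3726976082) (nat_lit 219) (nat_lit 1) (nat_lit 214) (nat_lit 1) (nat_lit 218) (nat_lit 1) (nat_lit 225) (nat_lit 427) (nat_lit 368)) (XT.nd (nat_lit 78) (nat_lit 228) (nat_lit 0) (XT.lf (nat_lit 76) (nat_lit 5714641927) (nat_lit 0) (nat_lit 13161499825) (nat_lit 380) (nat_lit 5714641927) (nat_lit 215) (nat_lit 1) (nat_lit 214) (nat_lit 1) (nat_lit 219) (nat_lit 1) (nat_lit 226) (nat_lit 427) (nat_lit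 367)) (XT.lf (nat_lit 304) (nat_lit 5487104280) (nat_lit 0) (nat_lit 9414042132) (nat_lit 228) (nat_lit 9414042132) (nat_lit 215) (nat_lit 1) (nat_lit 211) (nat_lit 1) (nat_lit 214) (nat_lit 1) (nat_lit 227) (nat_lit 427) (nat_lit 366)))))) (XT.nd (nat_lit 390) (nat_lit 760) (nat_lit 0) (XT.nd (nat_lit 156) (nat_lit 532) (nat_lit 0) (XT.nd (nat_lit 78) (nat_lit 0) (nat_lit 0) (XT.lf (nat_lit 380) (nat_lit 23712810616) (nat_lit 0) (nat_lit 166516257) (nat_lit 304) (nat_lit 166516257) (nat_lit 211) (nat_lit 1) (nat_lit 206) (nat_lit 1) (nat_lit 210) (nat_lit 1) (nat_lit 228) (nat_lit 427) (nat_lit 365)) (XT.lf (nat_lit 76) (nat_lit 8834164960) (nat_lit 0) (nat_lit 6107638273) (nat_lit 380) (nat_lit 8834164960) (nat_lit 207) (nat_lit 1) (nat_lit 206) (nat_lit 1) (nat_lit 211) (nat_lit 1) (nat_lit 229) (nat_lit 427) (nat_lit 364))) (XT.nd (nat_lit 78) (nat_lit 304) (nat_lit 0) (XT.lf (nat_lit 304) (nat_lit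 11740023255) (nat_lit 0) (nat_lit 5886093197) (nat_lit 228) (nat_lit 5886093197) (nat_lit 207) (nat_lit 1) (nat_lit 203) (nat_lit 1) (nat_lit 206) (nat_lit 1) (nat_lit 230) (nat_lit 427) (nat_lit 363)) (XT.nd (nat_lit 78) (nat_lit 304) (nat_lit 0) (XT.lf (nat_lit 76) (nat_lit 2934073930) (nat_lit 0) (nat_lit 17384599962) (nat_lit 304) (nat_lit 2934073930) (nat_lit 204) (nat_lit 1) (nat_lit 203) (nat_lit 1) (nat_lit 207) (nat_lit 1) (nat_lit 231) (nat_lit 427) (nat_lit 362)) (XT.lf (nat_lit 76) (nat_lit 11496400005) (nat_lit 0) (nat_lit 3078030) (nat_lit 304) (nat_lit 11496400005) (nat_lit 200) (nat_lit 1) (nat_lit 199) (nat_lit 1) (nat_lit 203) (nat_lit 1) (nat_lit 232) (nat_lit 427) (nat_lit 361))))) (XT.nd (nat_lit 156) (nat_lit 532) (nat_lit 0) (XT.nd (nat_lit 78) (nat_lit 0) (nat_lit 0) (XT.lf (nat_lit 304) (nat_lit 17095715081) (nat_lit 0) (nat_lit 2823735718) (nat_lit 228) (nat_lit 2823735718)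 (nat_lit 200) (nat_lit 1) (nat_lit 196) (nat_lit 1) (nat_lit 199) (nat_lit 1) (nat_lit 233) (nat_lit 427) (nat_lit 360)) (XT.lf (nat_lit 76) (nat_lit 5600562700) (nat_lit 0) (nat_lit 11291799505) (nat_lit 304) (nat_lit 5600562700) (nat_lit 197) (nat_lit 1) (nat_lit 196) (nat_lit 1) (nat_lit 200) (nat_lit 1) (nat_lit 234) (nat_lit 427) (nat_lit 359))) (XT.nd (nat_lit 78) (nat_lit 304) (nat_lit 0) (XT.lf (nat_lit 304) (nat_lit 5367518882) (nat_lit 0) (nat_lit 8439604600) (nat_lit 228) (nat_lit 8439604600) (nat_lit 197) (nat_lit 1) (nat_lit 193) (nat_lit 1) (nat_lit 196) (nat_lit 1) (nat_lit 235) (nat_lit 427) (nat_lit 358)) (XT.nd (nat_lit 78) (nat_lit 0) (nat_lit 0) (XT.lf (nat_lit 304) (nat_lit 21660055868) (nat_lit 0) (nat_lit 172947903) (nat_lit 228) (nat_lit 172947903) (nat_lit 193) (nat_lit 1) (nat_lit 189) (nat_lit 1) (nat_lit 192) (nat_lit 1) (nat_lit 236) (nat_lit 427) (nat_lit 357)) (XT.lf (nat_lit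 76) (nat_lit 7882508989) (nat_lit 0) (nat_lit 5999421109) (nat_lit 304) (nat_lit 7882508989) (nat_lit 190) (nat_lit 1) (nat_lit 189) (nat_lit 1) (nat_lit 193) (nat_lit 1) (nat_lit 237) (nat_lit 427) (nat_lit 356))))))))
noncomputable def ec461 : XT := (XT.nd (nat_lit 1482) (nat_lit 2052) (nat_lit 0) (XT.nd (nat_lit 702) (nat_lit 1140) (nat_lit 0) (XT.nd (nat_lit 312) (nat_lit 608) (nat_lit 0) (XT.nd (nat_lit 156) (nat_lit 456) (nat_lit 0) (XT.nd (nat_lit 78) (nat_lit 0) (nat_lit 0) (XT.lf (nat_lit 304) (nat_lit 9982862366) (nat_lit 0) (nat_lit 5772692669) (nat_lit 228) (nat_lit 5772692669) (nat_lit 190) (nat_lit 1) (nat_lit 186) (nat_lit 1) (nat_lit 189) (nat_lit 1) (nat_lit 238) (nat_lit 427) (nat_lit 355)) (XT.lf (nat_lit 76) (nat_lit 2135139416) (nat_lit 0) (nat_lit 17025778010) (nat_lit 304) (nat_lit 2135139416) (nat_lit 187) (nat_lit 1) (nat_lit 186) (nat_lit 1) (nat_lit 190) (nat_lit 1) (nat_lit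 239) (nat_lit 427) (nat_lit 354))) (XT.nd (nat_lit 78) (nat_lit 228) (nat_lit 0) (XT.lf (nat_lit 76) (nat_lit 9825333907) (nat_lit 0) (nat_lit 1414683194) (nat_lit 228) (nat_lit 9825333907) (nat_lit 184) (nat_lit 1) (nat_lit 183) (nat_lit 1) (nat_lit 186) (nat_lit 1) (nat_lit 240) (nat_lit 427) (nat_lit 353)) (XT.lf (nat_lit 304) (nat_lit 13931674361) (nat_lit 0) (nat_lit 3453441593) (nat_lit 228) (nat_lit 3453441593) (nat_lit 184) (nat_lit 1) (nat_lit 180) (nat_lit 1) (nat_lit 183) (nat_lit 1) (nat_lit 241) (nat_lit 427) (nat_lit 352)))) (XT.nd (nat_lit 156) (nat_lit 456) (nat_lit 0) (XT.nd (nat_lit 78) (nat_lit 152) (nat_lit 0) (XT.lf (nat_lit 76) (nat_lit 4120658080) (nat_lit 0) (nat_lit 12373035966) (nat_lit 304) (nat_lit 4120658080) (nat_lit 181) (nat_lit 1) (nat_lit 180) (nat_lit 1) (nat_lit 184) (nat_lit 1) (nat_lit 242) (nat_lit 427) (nat_lit 351)) (XT.lf (nat_lit 228) (nat_lit 2595392276) (nat_lit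 0) (nat_lit 8898875776) (nat_lit 152) (nat_lit 8898875776) (nat_lit 181) (nat_lit 1) (nat_lit 178) (nat_lit 1) (nat_lit 180) (nat_lit 1) (nat_lit 243) (nat_lit 427) (nat_lit 350))) (XT.nd (nat_lit 78) (nat_lit 152) (nat_lit 0) (XT.lf (nat_lit 304) (nat_lit 17292704892) (nat_lit 0) (nat_lit 1441618636) (nat_lit 228) (nat_lit 1441618636) (nat_lit 178) (nat_lit 1) (nat_lit 174) (nat_lit 1) (nat_lit 177) (nat_lit 1) (nat_lit 244) (nat_lit 427) (nat_lit 349)) (XT.nd (nat_lit 78) (nat_lit 152) (nat_lit 0) (XT.lf (nat_lit 76) (nat_lit 5820000230) (nat_lit 0) (nat_lit 8319352804) (nat_lit 304) (nat_lit 5820000230) (nat_lit 175) (nat_lit 1) (nat_lit 174) (nat_lit 1) (nat_lit 178) (nat_lit 1) (nat_lit 245) (nat_lit 427) (nat_lit 348)) (XT.lf (nat_lit 228) (nat_lit 6070375624) (nat_lit 0) (nat_lit 6838160778) (nat_lit 152) (nat_lit 6838160778) (nat_lit 175) (nat_lit 1) (nat_lit 172) (nat_lit 1) (nat_lit 174) (nat_lit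 1) (nat_lit 246) (nat_lit 427) (nat_lit 347)))))) (XT.nd (nat_lit 390) (nat_lit 532) (nat_lit 0) (XT.nd (nat_lit 156) (nat_lit 380) (nat_lit 0) (XT.nd (nat_lit 78) (nat_lit 228) (nat_lit 0) (XT.lf (nat_lit 76) (nat_lit 301435070) (nat_lit 0) (nat_lit 18935614256) (nat_lit 228) (nat_lit 301435070) (nat_lit 173) (nat_lit 1) (nat_lit 172) (nat_lit 1) (nat_lit 175) (nat_lit 1) (nat_lit 247) (nat_lit 427) (nat_lit 346)) (XT.lf (nat_lit 76) (nat_lit 7266964626) (nat_lit 0) (nat_lit 4795589257) (nat_lit 228) (nat_lit 7266964626) (nat_lit 170) (nat_lit 1) (nat_lit 169) (nat_lit 1) (nat_lit 172) (nat_lit 1) (nat_lit 248) (nat_lit 427) (nat_lit 345))) (XT.nd (nat_lit 78) (nat_lit 228) (nat_lit 0) (XT.lf (nat_lit 228) (nat_lit 9048210508) (nat_lit 0) (nat_lit 5038359914) (nat_lit 152) (nat_lit 5038359914) (nat_lit 170) (nat_lit 1) (nat_lit 167) (nat_lit 1) (nat_lit 169) (nat_lit 1) (nat_lit 249) (nat_lit 427)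 (nat_lit 344)) (XT.nd (nat_lit 78) (nat_lit 228) (nat_lit 0) (XT.lf (nat_lit 76) (nat_lit 1816341868) (nat_lit 0) (nat_lit 15291007996) (nat_lit 228) (nat_lit 1816341868) (nat_lit 168) (nat_lit 1) (nat_lit 167) (nat_lit 1) (nat_lit 170) (nat_lit 1) (nat_lit 250) (nat_lit 427) (nat_lit 343)) (XT.lf (nat_lit 76) (nat_lit 8491526086) (nat_lit 0) (nat_lit 1740384033) (nat_lit 228) (nat_lit 8491526086) (nat_lit 165) (nat_lit 1) (nat_lit 164) (nat_lit 1) (nat_lit 167) (nat_lit 1) (nat_lit 251) (nat_lit 427) (nat_lit 342))))) (XT.nd (nat_lit 156) (nat_lit 380) (nat_lit 0) (XT.nd (nat_lit 78) (nat_lit 0) (nat_lit 0) (XT.lf (nat_lit 228) (nat_lit 11587528901) (nat_lit 0) (nat_lit 3469471537) (nat_lit 152) (nat_lit 3469471537) (nat_lit 165) (nat_lit 1) (nat_lit 162) (nat_lit 1) (nat_lit 164) (nat_lit 1) (nat_lit 252) (nat_lit 427) (nat_lit 341)) (XT.lf (nat_lit 76) (nat_lit 3117214392) (nat_lit 0) (nat_lit 12097474191)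 (nat_lit 228) (nat_lit 3117214392) (nat_lit 163) (nat_lit 1) (nat_lit 162) (nat_lit 1) (nat_lit 165) (nat_lit 1) (nat_lit 253) (nat_lit 427) (nat_lit 340))) (XT.nd (nat_lit 78) (nat_lit 228) (nat_lit 0) (XT.lf (nat_lit 228) (nat_lit 918641516) (nat_lit 0) (nat_lit 8610452534) (nat_lit 152) (nat_lit 8610452534) (nat_lit 163) (nat_lit 1) (nat_lit 160) (nat_lit 1) (nat_lit 162) (nat_lit 1) (nat_lit 254) (nat_lit 427) (nat_lit 339)) (XT.nd (nat_lit 78) (nat_lit 0) (nat_lit 0) (XT.lf (nat_lit 228) (nat_lit 13740331539) (nat_lit 0) (nat_lit 2104865971) (nat_lit 152) (nat_lit 2104865971) (nat_lit 160) (nat_lit 1) (nat_lit 157) (nat_lit 1) (nat_lit 159) (nat_lit 1) (nat_lit 255) (nat_lit 427) (nat_lit 338)) (XT.lf (nat_lit 76) (nat_lit 4229233901) (nat_lit 0) (nat_lit 9303411885) (nat_lit 228) (nat_lit 4229233901) (nat_lit 158) (nat_lit 1) (nat_lit 157) (nat_lit 1) (nat_lit 160) (nat_lit 1) (nat_lit 256) (nat_lit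 427) (nat_lit 337))))))) (XT.nd (nat_lit 702) (nat_lit 1064) (nat_lit 0) (XT.nd (nat_lit 312) (nat_lit 456) (nat_lit 0) (XT.nd (nat_lit 156) (nat_lit 152) (nat_lit 0) (XT.nd (nat_lit 78) (nat_lit 228) (nat_lit 0) (XT.lf (nat_lit 228) (nat_lit 3239234839) (nat_lit 0) (nat_lit 7168642769) (nat_lit 152) (nat_lit 7168642769) (nat_lit 158) (nat_lit 1) (nat_lit 155) (nat_lit 1) (nat_lit 157) (nat_lit 1) (nat_lit 257) (nat_lit 427) (nat_lit 336)) (XT.lf (nat_lit 228) (nat_lit 15552730094) (nat_lit 0) (nat_lit 920908723) (nat_lit 152) (nat_lit 920908723) (nat_lit 155) (nat_lit 1) (nat_lit 152) (nat_lit 1) (nat_lit 154) (nat_lit 1) (nat_lit 258) (nat_lit 427) (nat_lit 335))) (XT.nd (nat_lit 78) (nat_lit 152) (nat_lit 0) (XT.lf (nat_lit 76) (nat_lit 5174735358) (nat_lit 0) (nat_lit 6863012178) (nat_lit 228) (nat_lit 5174735358) (nat_lit 153) (nat_lit 1) (nat_lit 152) (nat_lit 1) (nat_lit 155) (nat_lit 1) (nat_lit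 259) (nat_lit 427) (nat_lit 334)) (XT.lf (nat_lit 228) (nat_lit 5230478151) (nat_lit 0) (nat_lit 5901641606) (nat_lit 152) (nat_lit 5901641606) (nat_lit 153) (nat_lit 1) (nat_lit 150) (nat_lit 1) (nat_lit 152) (nat_lit 1) (nat_lit 260) (nat_lit 427) (nat_lit 333)))) (XT.nd (nat_lit 156) (nat_lit 304) (nat_lit 0) (XT.nd (nat_lit 78) (nat_lit 152) (nat_lit 0) (XT.lf (nat_lit 76) (nat_lit 104397772) (nat_lit 0) (nat_lit 16649941413) (nat_lit 228) (nat_lit 104397772) (nat_lit 151) (nat_lit 1) (nat_lit 150) (nat_lit 1) (nat_lit 153) (nat_lit 1) (nat_lit 261) (nat_lit 427) (nat_lit 332)) (XT.lf (nat_lit 76) (nat_lit 5973525939) (nat_lit 0) (nat_lit 4735611233) (nat_lit 152) (nat_lit 5973525939) (nat_lit 149) (nat_lit 1) (nat_lit 148) (nat_lit 1) (nat_lit 150) (nat_lit 1) (nat_lit 262) (nat_lit 427) (nat_lit 331))) (XT.nd (nat_lit 78) (nat_lit 152) (nat_lit 0) (XT.lf (nat_lit 228) (nat_lit 6931153793) (nat_lit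 0) (nat_lit 4789547036) (nat_lit 152) (nat_lit 4789547036) (nat_lit 149) (nat_lit 1) (nat_lit 146) (nat_lit 1) (nat_lit 148) (nat_lit 1) (nat_lit 263) (nat_lit 427) (nat_lit 330)) (XT.nd (nat_lit 78) (nat_lit 152) (nat_lit 0) (XT.lf (nat_lit 76) (nat_lit 996362270) (nat_lit 0) (nat_lit 14348131086) (nat_lit 228) (nat_lit 996362270) (nat_lit 147) (nat_lit 1) (nat_lit 146) (nat_lit 1) (nat_lit 149) (nat_lit 1) (nat_lit 264) (nat_lit 427) (nat_lit 329)) (XT.lf (nat_lit 76) (nat_lit 6643167996) (nat_lit 0) (nat_lit 2885115461) (nat_lit 152) (nat_lit 6643167996) (nat_lit 145) (nat_lit 1) (nat_lit 144) (nat_lit 1) (nat_lit 146) (nat_lit 1) (nat_lit 265) (nat_lit 427) (nat_lit 328)))))) (XT.nd (nat_lit 390) (nat_lit 608) (nat_lit 0) (XT.nd (nat_lit 156) (nat_lit 304) (nat_lit 0) (XT.nd (nat_lit 78) (nat_lit 0) (nat_lit 0) (XT.lf (nat_lit 228) (nat_lit 8375659499) (nat_lit 0) (nat_lit 3814688281) (nat_lit 152)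 (nat_lit 3814688281) (nat_lit 145) (nat_lit 1) (nat_lit 142) (nat_lit 1) (nat_lit 144) (nat_lit 1) (nat_lit 266) (nat_lit 427) (nat_lit 327)) (XT.lf (nat_lit 76) (nat_lit 1762542547) (nat_lit 0) (nat_lit 12315967264) (nat_lit 228) (nat_lit 1762542547) (nat_lit 143) (nat_lit 1) (nat_lit 142) (nat_lit 1) (nat_lit 145) (nat_lit 1) (nat_lit 267) (nat_lit 427) (nat_lit 326))) (XT.nd (nat_lit 78) (nat_lit 152) (nat_lit 0) (XT.lf (nat_lit 76) (nat_lit 7199230440) (nat_lit 0) (nat_lit 1279490842) (nat_lit 152) (nat_lit 7199230440) (nat_lit 141) (nat_lit 1) (nat_lit 140) (nat_lit 1) (nat_lit 142) (nat_lit 1) (nat_lit 268) (nat_lit 427) (nat_lit 325)) (XT.nd (nat_lit 78) (nat_lit 0) (nat_lit 0) (XT.lf (nat_lit 228) (nat_lit 9594499086) (nat_lit 0) (nat_lit 2961376639) (nat_lit 152) (nat_lit 2961376639) (nat_lit 141) (nat_lit 1) (nat_lit 138) (nat_lit 1) (nat_lit 140) (nat_lit 1) (nat_lit 269) (nat_lit 427) (nat_lit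 324)) (XT.lf (nat_lit 76) (nat_lit 2417731734) (nat_lit 0) (nat_lit 10523003254) (nat_lit 228) (nat_lit 2417731734) (nat_lit 139) (nat_lit 1) (nat_lit 138) (nat_lit 1) (nat_lit 141) (nat_lit 1) (nat_lit 270) (nat_lit 427) (nat_lit 323))))) (XT.nd (nat_lit 156) (nat_lit 304) (nat_lit 0) (XT.nd (nat_lit 78) (nat_lit 228) (nat_lit 0) (XT.lf (nat_lit 152) (nat_lit 111873842) (nat_lit 0) (nat_lit 7544713605) (nat_lit 76) (nat_lit 7544713605) (nat_lit 139) (nat_lit 1) (nat_lit 137) (nat_lit 1) (nat_lit 138) (nat_lit 1) (nat_lit 271) (nat_lit 427) (nat_lit 322)) (XT.lf (nat_lit 228) (nat_lit 10614718367) (nat_lit 0) (nat_lit 2215684116) (nat_lit 152) (nat_lit 2215684116) (nat_lit 137) (nat_lit 1) (nat_lit 134) (nat_lit 1) (nat_lit 136) (nat_lit 1) (nat_lit 272) (nat_lit 427) (nat_lit 321))) (XT.nd (nat_lit 78) (nat_lit 304) (nat_lit 0) (XT.lf (nat_lit 76) (nat_lit 2975051011) (nat_lit 0) (nat_lit 8942198560)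 (nat_lit 228) (nat_lit 2975051011) (nat_lit 135) (nat_lit 1) (nat_lit 134) (nat_lit 1) (nat_lit 137) (nat_lit 1) (nat_lit 273) (nat_lit 427) (nat_lit 320)) (XT.nd (nat_lit 78) (nat_lit 228) (nat_lit 0) (XT.lf (nat_lit 152) (nat_lit 1333679675) (nat_lit 0) (nat_lit 6703380318) (nat_lit 76) (nat_lit 6703380318) (nat_lit 135) (nat_lit 1) (nat_lit 133) (nat_lit 1) (nat_lit 134) (nat_lit 1) (nat_lit 274) (nat_lit 427) (nat_lit 319)) (XT.lf (nat_lit 228) (nat_lit 11460292406) (nat_lit 0) (nat_lit 1565246765) (nat_lit 152) (nat_lit 1565246765) (nat_lit 133) (nat_lit 1) (nat_lit 130) (nat_lit 1) (nat_lit 132) (nat_lit 1) (nat_lit 275) (nat_lit 427) (nat_lit 318))))))))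
noncomputable def ec462 : XT := (XT.nd (nat_lit 1482) (nat_lit 1444) (nat_lit 0) (XT.nd (nat_lit 702) (nat_lit 684) (nat_lit 0) (XT.nd (nat_lit 312) (nat_lit 608) (nat_lit 0) (XT.nd (nat_lit 156) (nat_lit 228) (nat_lit 0) (XT.nd (nat_lit 78) (nat_lit 76) (nat_lit 0) (XT.lf (nat_lit 76) (nat_lit 3446136697) (nat_lit 0) (nat_lit 7549538730) (nat_lit 228) (nat_lit 3446136697) (nat_lit 131) (nat_lit 1) (nat_lit 130) (nat_lit 1) (nat_lit 133) (nat_lit 1) (nat_lit 276) (nat_lit 427) (nat_lit 317)) (XT.lf (nat_lit 152) (nat_lit 2383288395) (nat_lit 0) (nat_lit 5955866590) (nat_lit 76) (nat_lit 5955866590) (nat_lit 131) (nat_lit 1) (nat_lit 129) (nat_lit 1) (nat_lit 130) (nat_lit 1) (nat_lit 277) (nat_lit 427) (nat_lit 316))) (XT.nd (nat_lit 78) (nat_lit 0) (nat_lit 0) (XT.lf (nat_lit 228) (nat_lit 12152469542) (nat_lit 0) (nat_lit 999089949) (nat_lit 152) (nat_lit 999089949) (nat_lit 129) (nat_lit 1) (nat_lit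 126) (nat_lit 1) (nat_lit 128) (nat_lit 1) (nat_lit 278) (nat_lit 427) (nat_lit 315)) (XT.lf (nat_lit 76) (nat_lit 3841306468) (nat_lit 0) (nat_lit 6323697602) (nat_lit 228) (nat_lit 3841306468) (nat_lit 127) (nat_lit 1) (nat_lit 126) (nat_lit 1) (nat_lit 129) (nat_lit 1) (nat_lit 279) (nat_lit 427) (nat_lit 314)))) (XT.nd (nat_lit 156) (nat_lit 304) (nat_lit 0) (XT.nd (nat_lit 78) (nat_lit 228) (nat_lit 0) (XT.lf (nat_lit 152) (nat_lit 3280949296) (nat_lit 0) (nat_lit 5291710324) (nat_lit 76) (nat_lit 5291710324) (nat_lit 127) (nat_lit 1) (nat_lit 125) (nat_lit 1) (nat_lit 126) (nat_lit 1) (nat_lit 280) (nat_lit 427) (nat_lit 313)) (XT.lf (nat_lit 228) (nat_lit 12710077006) (nat_lit 0) (nat_lit 507473112) (nat_lit 152) (nat_lit 507473112) (nat_lit 125) (nat_lit 1) (nat_lit 122) (nat_lit 1) (nat_lit 124) (nat_lit 1) (nat_lit 281) (nat_lit 427) (nat_lit 312))) (XT.nd (nat_lit 78) (nat_lit 304) (nat_lit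 0) (XT.lf (nat_lit 76) (nat_lit 4169707013) (nat_lit 0) (nat_lit 5245737222) (nat_lit 228) (nat_lit 4169707013) (nat_lit 123) (nat_lit 1) (nat_lit 122) (nat_lit 1) (nat_lit 125) (nat_lit 1) (nat_lit 282) (nat_lit 427) (nat_lit 311)) (XT.nd (nat_lit 78) (nat_lit 228) (nat_lit 0) (XT.lf (nat_lit 152) (nat_lit 4044623114) (nat_lit 0) (nat_lit 4701616084) (nat_lit 76) (nat_lit 4701616084) (nat_lit 123) (nat_lit 1) (nat_lit 121) (nat_lit 1) (nat_lit 122) (nat_lit 1) (nat_lit 283) (nat_lit 427) (nat_lit 310)) (XT.lf (nat_lit 228) (nat_lit 13149792407) (nat_lit 0) (nat_lit 81751862) (nat_lit 152) (nat_lit 81751862) (nat_lit 121) (nat_lit 1) (nat_lit 118) (nat_lit 1) (nat_lit 120) (nat_lit 1) (nat_lit 284) (nat_lit 427) (nat_lit 309)))))) (XT.nd (nat_lit 390) (nat_lit 380) (nat_lit 0) (XT.nd (nat_lit 156) (nat_lit 228) (nat_lit 0) (XT.nd (nat_lit 78) (nat_lit 76) (nat_lit 0) (XT.lf (nat_lit 76) (nat_lit 4439445207)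 (nat_lit 0) (nat_lit 4298841238) (nat_lit 228) (nat_lit 4439445207) (nat_lit 119) (nat_lit 1) (nat_lit 118) (nat_lit 1) (nat_lit 121) (nat_lit 1) (nat_lit 285) (nat_lit 427) (nat_lit 308)) (XT.lf (nat_lit 152) (nat_lit 4690238125) (nat_lit 0) (nat_lit 4177324995) (nat_lit 76) (nat_lit 4177324995) (nat_lit 119) (nat_lit 1) (nat_lit 117) (nat_lit 1) (nat_lit 118) (nat_lit 1) (nat_lit 286) (nat_lit 427) (nat_lit 307))) (XT.nd (nat_lit 78) (nat_lit 228) (nat_lit 0) (XT.lf (nat_lit 0) (nat_lit 288573707) (nat_lit 0) (nat_lit 12337413830) (nat_lit 152) (nat_lit 288573707) (nat_lit 117) (nat_lit 3) (nat_lit 117) (nat_lit 1) (nat_lit 119) (nat_lit 1) (nat_lit 287) (nat_lit 427) (nat_lit 306)) (XT.nd (nat_lit 78) (nat_lit 76) (nat_lit 0) (XT.lf (nat_lit 76) (nat_lit 4657704647) (nat_lit 0) (nat_lit 3468078021) (nat_lit 152) (nat_lit 4657704647) (nat_lit 116) (nat_lit 1) (nat_lit 115) (nat_lit 1) (nat_lit 117)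 (nat_lit 1) (nat_lit 288) (nat_lit 427) (nat_lit 305)) (XT.lf (nat_lit 152) (nat_lit 5231917645) (nat_lit 0) (nat_lit 3711499153) (nat_lit 76) (nat_lit 3711499153) (nat_lit 116) (nat_lit 1) (nat_lit 114) (nat_lit 1) (nat_lit 115) (nat_lit 1) (nat_lit 289) (nat_lit 427) (nat_lit 304))))) (XT.nd (nat_lit 156) (nat_lit 228) (nat_lit 0) (XT.nd (nat_lit 78) (nat_lit 152) (nat_lit 0) (XT.lf (nat_lit 0) (nat_lit 607780740) (nat_lit 0) (nat_lit 11313019132) (nat_lit 152) (nat_lit 607780740) (nat_lit 114) (nat_lit 3) (nat_lit 114) (nat_lit 1) (nat_lit 116) (nat_lit 1) (nat_lit 290) (nat_lit 427) (nat_lit 303)) (XT.lf (nat_lit 76) (nat_lit 4830849165) (nat_lit 0) (nat_lit 2740190229) (nat_lit 152) (nat_lit 4830849165) (nat_lit 113) (nat_lit 1) (nat_lit 112) (nat_lit 1) (nat_lit 114) (nat_lit 1) (nat_lit 291) (nat_lit 427) (nat_lit 302))) (XT.nd (nat_lit 78) (nat_lit 152) (nat_lit 0) (XT.lf (nat_lit 152) (nat_lit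 5682182150) (nat_lit 0) (nat_lit 3297618926) (nat_lit 76) (nat_lit 3297618926) (nat_lit 113) (nat_lit 1) (nat_lit 111) (nat_lit 1) (nat_lit 112) (nat_lit 1) (nat_lit 292) (nat_lit 427) (nat_lit 301)) (XT.nd (nat_lit 78) (nat_lit 152) (nat_lit 0) (XT.lf (nat_lit 0) (nat_lit 881157489) (nat_lit 0) (nat_lit 10392623145) (nat_lit 152) (nat_lit 881157489) (nat_lit 111) (nat_lit 3) (nat_lit 111) (nat_lit 1) (nat_lit 113) (nat_lit 1) (nat_lit 293) (nat_lit 427) (nat_lit 300)) (XT.lf (nat_lit 76) (nat_lit 4964514790) (nat_lit 0) (nat_lit 2103407825) (nat_lit 152) (nat_lit 4964514790) (nat_lit 110) (nat_lit 1) (nat_lit 109) (nat_lit 1) (nat_lit 111) (nat_lit 1) (nat_lit 294) (nat_lit 427) (nat_lit 299))))))) (XT.nd (nat_lit 702) (nat_lit 760) (nat_lit 0) (XT.nd (nat_lit 312) (nat_lit 380) (nat_lit 0) (XT.nd (nat_lit 156) (nat_lit 228) (nat_lit 0) (XT.nd (nat_lit 78) (nat_lit 0) (nat_lit 0) (XT.lf (nat_lit 152)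 (nat_lit 6052128824) (nat_lit 0) (nat_lit 2929891704) (nat_lit 76) (nat_lit 2929891704) (nat_lit 110) (nat_lit 1) (nat_lit 108) (nat_lit 1) (nat_lit 109) (nat_lit 1) (nat_lit 295) (nat_lit 427) (nat_lit 298)) (XT.lf (nat_lit 0) (nat_lit 1114112719) (nat_lit 0) (nat_lit 9564926761) (nat_lit 152) (nat_lit 1114112719) (nat_lit 108) (nat_lit 3) (nat_lit 108) (nat_lit 1) (nat_lit 110) (nat_lit 1) (nat_lit 296) (nat_lit 427) (nat_lit 297))) (XT.nd (nat_lit 78) (nat_lit 76) (nat_lit 0) (XT.lf (nat_lit 76) (nat_lit 5063691436) (nat_lit 0) (nat_lit 1547281965) (nat_lit 152) (nat_lit 5063691436) (nat_lit 107) (nat_lit 1) (nat_lit 106) (nat_lit 1) (nat_lit 108) (nat_lit 1) (nat_lit 297) (nat_lit 427) (nat_lit 296)) (XT.lf (nat_lit 152) (nat_lit 6351591062) (nat_lit 0) (nat_lit 2603170831) (nat_lit 76) (nat_lit 2603170831) (nat_lit 107) (nat_lit 1) (nat_lit 105) (nat_lit 1) (nat_lit 106) (nat_lit 1) (nat_lit 298)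 (nat_lit 427) (nat_lit 295)))) (XT.nd (nat_lit 156) (nat_lit 228) (nat_lit 0) (XT.nd (nat_lit 78) (nat_lit 152) (nat_lit 0) (XT.lf (nat_lit 0) (nat_lit 1311443364) (nat_lit 0) (nat_lit 8819882185) (nat_lit 152) (nat_lit 1311443364) (nat_lit 105) (nat_lit 3) (nat_lit 105) (nat_lit 1) (nat_lit 107) (nat_lit 1) (nat_lit 299) (nat_lit 427) (nat_lit 294)) (XT.lf (nat_lit 76) (nat_lit 5132795466) (nat_lit 0) (nat_lit 1062537419) (nat_lit 152) (nat_lit 5132795466) (nat_lit 104) (nat_lit 1) (nat_lit 103) (nat_lit 1) (nat_lit 105) (nat_lit 1) (nat_lit 300) (nat_lit 427) (nat_lit 293))) (XT.nd (nat_lit 78) (nat_lit 152) (nat_lit 0) (XT.lf (nat_lit 152) (nat_lit 6589280168) (nat_lit 0) (nat_lit 2312883567) (nat_lit 76) (nat_lit 2312883567) (nat_lit 104) (nat_lit 1) (nat_lit 102) (nat_lit 1) (nat_lit 103) (nat_lit 1) (nat_lit 301) (nat_lit 427) (nat_lit 292)) (XT.nd (nat_lit 78) (nat_lit 152) (nat_lit 0) (XT.lf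 (nat_lit 0) (nat_lit 1477403010) (nat_lit 0) (nat_lit 8148553652) (nat_lit 152) (nat_lit 1477403010) (nat_lit 102) (nat_lit 3) (nat_lit 102) (nat_lit 1) (nat_lit 104) (nat_lit 1) (nat_lit 302) (nat_lit 427) (nat_lit 291)) (XT.lf (nat_lit 76) (nat_lit 5175734145) (nat_lit 0) (nat_lit 640941447) (nat_lit 152) (nat_lit 5175734145) (nat_lit 101) (nat_lit 1) (nat_lit 100) (nat_lit 1) (nat_lit 102) (nat_lit 1) (nat_lit 303) (nat_lit 427) (nat_lit 290)))))) (XT.nd (nat_lit 390) (nat_lit 456) (nat_lit 0) (XT.nd (nat_lit 156) (nat_lit 228) (nat_lit 0) (XT.nd (nat_lit 78) (nat_lit 0) (nat_lit 0) (XT.lf (nat_lit 152) (nat_lit 6772911227) (nat_lit 0) (nat_lit 2054967092) (nat_lit 76) (nat_lit 2054967092) (nat_lit 101) (nat_lit 1) (nat_lit 99) (nat_lit 1) (nat_lit 100) (nat_lit 1) (nat_lit 304) (nat_lit 427) (nat_lit 289)) (XT.lf (nat_lit 0) (nat_lit 1615762726) (nat_lit 0) (nat_lit 7542993667) (nat_lit 152) (nat_lit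 1615762726) (nat_lit 99) (nat_lit 3) (nat_lit 99) (nat_lit 1) (nat_lit 101) (nat_lit 1) (nat_lit 305) (nat_lit 427) (nat_lit 288))) (XT.nd (nat_lit 78) (nat_lit 76) (nat_lit 0) (XT.lf (nat_lit 76) (nat_lit 5195962901) (nat_lit 0) (nat_lit 275187312) (nat_lit 152) (nat_lit 5195962901) (nat_lit 98) (nat_lit 1) (nat_lit 97) (nat_lit 1) (nat_lit 99) (nat_lit 1) (nat_lit 306) (nat_lit 427) (nat_lit 287)) (XT.nd (nat_lit 78) (nat_lit 0) (nat_lit 0) (XT.lf (nat_lit 152) (nat_lit 6909314914) (nat_lit 0) (nat_lit 1825811646) (nat_lit 76) (nat_lit 1825811646) (nat_lit 98) (nat_lit 1) (nat_lit 96) (nat_lit 1) (nat_lit 97) (nat_lit 1) (nat_lit 307) (nat_lit 427) (nat_lit 286)) (XT.lf (nat_lit 0) (nat_lit 1729865117) (nat_lit 0) (nat_lit 6996133037) (nat_lit 152) (nat_lit 1729865117) (nat_lit 96) (nat_lit 3) (nat_lit 96) (nat_lit 1) (nat_lit 98) (nat_lit 1) (nat_lit 308) (nat_lit 427) (nat_lit 285))))) (XT.nd (nat_lit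 156) (nat_lit 228) (nat_lit 0) (XT.nd (nat_lit 78) (nat_lit 152) (nat_lit 0) (XT.lf (nat_lit 76) (nat_lit 42029356) (nat_lit 0) (nat_lit 5154910832) (nat_lit 76) (nat_lit 5154910832) (nat_lit 96) (nat_lit 3) (nat_lit 95) (nat_lit 1) (nat_lit 96) (nat_lit 1) (nat_lit 309) (nat_lit 427) (nat_lit 284)) (XT.lf (nat_lit 152) (nat_lit 7004536822) (nat_lit 0) (nat_lit 1622209999) (nat_lit 76) (nat_lit 1622209999) (nat_lit 95) (nat_lit 1) (nat_lit 93) (nat_lit 1) (nat_lit 94) (nat_lit 1) (nat_lit 310) (nat_lit 427) (nat_lit 283))) (XT.nd (nat_lit 78) (nat_lit 228) (nat_lit 0) (XT.lf (nat_lit 0) (nat_lit 1822672326) (nat_lit 0) (nat_lit 6501683164) (nat_lit 152) (nat_lit 1822672326) (nat_lit 93) (nat_lit 3) (nat_lit 93) (nat_lit 1) (nat_lit 95) (nat_lit 1) (nat_lit 311) (nat_lit 427) (nat_lit 282)) (XT.nd (nat_lit 78) (nat_lit 152) (nat_lit 0) (XT.lf (nat_lit 76) (nat_lit 320251038) (nat_lit 0) (nat_lit 4862980008)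 (nat_lit 76) (nat_lit 4862980008) (nat_lit 93) (nat_lit 3) (nat_lit 92) (nat_lit 1) (nat_lit 93) (nat_lit 1) (nat_lit 312) (nat_lit 427) (nat_lit 281)) (XT.lf (nat_lit 152) (nat_lit 7063925691) (nat_lit 0) (nat_lit 1441312573) (nat_lit 76) (nat_lit 1441312573) (nat_lit 92) (nat_lit 1) (nat_lit 90) (nat_lit 1) (nat_lit 91) (nat_lit 1) (nat_lit 313) (nat_lit 427) (nat_lit 280))))))))
noncomputable def ec463 : XT := (XT.nd (nat_lit 1482) (nat_lit 1444) (nat_lit 0) (XT.nd (nat_lit 702) (nat_lit 684) (nat_lit 0) (XT.nd (nat_lit 312) (nat_lit 456) (nat_lit 0) (XT.nd (nat_lit 156) (nat_lit 152) (nat_lit 0) (XT.nd (nat_lit 78) (nat_lit 76) (nat_lit 0) (XT.lf (nat_lit 0) (nat_lit 1896808691) (nat_lit 0) (nat_lit 6054049217) (nat_lit 152) (nat_lit 1896808691) (nat_lit 90) (nat_lit 3) (nat_lit 90) (nat_lit 1) (nat_lit 92) (nat_lit 1) (nat_lit 314) (nat_lit 427) (nat_lit 279)) (XT.lf (nat_lit 76) (nat_lit 559207347)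 (nat_lit 0) (nat_lit 4595363198) (nat_lit 76) (nat_lit 4595363198) (nat_lit 90) (nat_lit 3) (nat_lit 89) (nat_lit 1) (nat_lit 90) (nat_lit 1) (nat_lit 315) (nat_lit 427) (nat_lit 278))) (XT.nd (nat_lit 78) (nat_lit 0) (nat_lit 0) (XT.lf (nat_lit 152) (nat_lit 7092211773) (nat_lit 0) (nat_lit 1280587553) (nat_lit 76) (nat_lit 1280587553) (nat_lit 89) (nat_lit 1) (nat_lit 87) (nat_lit 1) (nat_lit 88) (nat_lit 1) (nat_lit 316) (nat_lit 427) (nat_lit 277)) (XT.lf (nat_lit 0) (nat_lit 1954598630) (nat_lit 0) (nat_lit 5648252993) (nat_lit 152) (nat_lit 1954598630) (nat_lit 87) (nat_lit 3) (nat_lit 87) (nat_lit 1) (nat_lit 89) (nat_lit 1) (nat_lit 317) (nat_lit 427) (nat_lit 276)))) (XT.nd (nat_lit 156) (nat_lit 228) (nat_lit 0) (XT.nd (nat_lit 78) (nat_lit 152) (nat_lit 0) (XT.lf (nat_lit 76) (nat_lit 763516880) (nat_lit 0) (nat_lit 4349589077) (nat_lit 76) (nat_lit 4349589077) (nat_lit 87) (nat_lit 3) (nat_lit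 86) (nat_lit 1) (nat_lit 87) (nat_lit 1) (nat_lit 318) (nat_lit 427) (nat_lit 275)) (XT.lf (nat_lit 152) (nat_lit 7093576447) (nat_lit 0) (nat_lit 1137785455) (nat_lit 76) (nat_lit 1137785455) (nat_lit 86) (nat_lit 1) (nat_lit 84) (nat_lit 1) (nat_lit 85) (nat_lit 1) (nat_lit 319) (nat_lit 427) (nat_lit 274))) (XT.nd (nat_lit 78) (nat_lit 228) (nat_lit 0) (XT.lf (nat_lit 0) (nat_lit 1998100301) (nat_lit 0) (nat_lit 5279864362) (nat_lit 152) (nat_lit 1998100301) (nat_lit 84) (nat_lit 3) (nat_lit 84) (nat_lit 1) (nat_lit 86) (nat_lit 1) (nat_lit 320) (nat_lit 427) (nat_lit 273)) (XT.nd (nat_lit 78) (nat_lit 152) (nat_lit 0) (XT.lf (nat_lit 76) (nat_lit 937276213) (nat_lit 0) (nat_lit 4123454913) (nat_lit 76) (nat_lit 4123454913) (nat_lit 84) (nat_lit 3) (nat_lit 83) (nat_lit 1) (nat_lit 84) (nat_lit 1) (nat_lit 321) (nat_lit 427) (nat_lit 272)) (XT.lf (nat_lit 152) (nat_lit 7071714044) (nat_lit 0) (nat_lit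 1010907640) (nat_lit 76) (nat_lit 1010907640) (nat_lit 83) (nat_lit 1) (nat_lit 81) (nat_lit 1) (nat_lit 82) (nat_lit 1) (nat_lit 322) (nat_lit 427) (nat_lit 271)))))) (XT.nd (nat_lit 390) (nat_lit 380) (nat_lit 0) (XT.nd (nat_lit 156) (nat_lit 228) (nat_lit 0) (XT.nd (nat_lit 78) (nat_lit 76) (nat_lit 0) (XT.lf (nat_lit 0) (nat_lit 2029135495) (nat_lit 0) (nat_lit 4944940357) (nat_lit 152) (nat_lit 2029135495) (nat_lit 81) (nat_lit 3) (nat_lit 81) (nat_lit 1) (nat_lit 83) (nat_lit 1) (nat_lit 323) (nat_lit 427) (nat_lit 270)) (XT.lf (nat_lit 76) (nat_lit 1084118314) (nat_lit 0) (nat_lit 3914996821) (nat_lit 76) (nat_lit 3914996821) (nat_lit 81) (nat_lit 3) (nat_lit 80) (nat_lit 1) (nat_lit 81) (nat_lit 1) (nat_lit 324) (nat_lit 427) (nat_lit 269))) (XT.nd (nat_lit 78) (nat_lit 76) (nat_lit 0) (XT.lf (nat_lit 152) (nat_lit 7029886769) (nat_lit 0) (nat_lit 898178344) (nat_lit 76) (nat_lit 898178344)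 (nat_lit 80) (nat_lit 1) (nat_lit 78) (nat_lit 1) (nat_lit 79) (nat_lit 1) (nat_lit 325) (nat_lit 427) (nat_lit 268)) (XT.nd (nat_lit 78) (nat_lit 76) (nat_lit 0) (XT.lf (nat_lit 0) (nat_lit 2049316194) (nat_lit 0) (nat_lit 4639971049) (nat_lit 152) (nat_lit 2049316194) (nat_lit 78) (nat_lit 3) (nat_lit 78) (nat_lit 1) (nat_lit 80) (nat_lit 1) (nat_lit 326) (nat_lit 427) (nat_lit 267)) (XT.lf (nat_lit 76) (nat_lit 1207264438) (nat_lit 0) (nat_lit 3722463326) (nat_lit 76) (nat_lit 3722463326) (nat_lit 78) (nat_lit 3) (nat_lit 77) (nat_lit 1) (nat_lit 78) (nat_lit 1) (nat_lit 327) (nat_lit 427) (nat_lit 266))))) (XT.nd (nat_lit 156) (nat_lit 228) (nat_lit 0) (XT.nd (nat_lit 78) (nat_lit 0) (nat_lit 0) (XT.lf (nat_lit 152) (nat_lit 6970973473) (nat_lit 0) (nat_lit 798019826) (nat_lit 76) (nat_lit 798019826) (nat_lit 77) (nat_lit 1) (nat_lit 75) (nat_lit 1) (nat_lit 76) (nat_lit 1) (nat_lit 328) (nat_lit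 427) (nat_lit 265)) (XT.lf (nat_lit 0) (nat_lit 2060068166) (nat_lit 0) (nat_lit 4361831450) (nat_lit 152) (nat_lit 2060068166) (nat_lit 75) (nat_lit 3) (nat_lit 75) (nat_lit 1) (nat_lit 77) (nat_lit 1) (nat_lit 329) (nat_lit 427) (nat_lit 264))) (XT.nd (nat_lit 78) (nat_lit 152) (nat_lit 0) (XT.lf (nat_lit 76) (nat_lit 1309570232) (nat_lit 0) (nat_lit 3544291867) (nat_lit 76) (nat_lit 3544291867) (nat_lit 75) (nat_lit 3) (nat_lit 74) (nat_lit 1) (nat_lit 75) (nat_lit 1) (nat_lit 330) (nat_lit 427) (nat_lit 263)) (XT.nd (nat_lit 78) (nat_lit 0) (nat_lit 0) (XT.lf (nat_lit 152) (nat_lit 6897512973) (nat_lit 0) (nat_lit 709030279) (nat_lit 76) (nat_lit 709030279) (nat_lit 74) (nat_lit 1) (nat_lit 72) (nat_lit 1) (nat_lit 73) (nat_lit 1) (nat_lit 331) (nat_lit 427) (nat_lit 262)) (XT.lf (nat_lit 0) (nat_lit 2062651914) (nat_lit 0) (nat_lit 4107738779) (nat_lit 152) (nat_lit 2062651914) (nat_lit 72) (nat_lit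 3) (nat_lit 72) (nat_lit 1) (nat_lit 74) (nat_lit 1) (nat_lit 332) (nat_lit 427) (nat_lit 261))))))) (XT.nd (nat_lit 702) (nat_lit 760) (nat_lit 0) (XT.nd (nat_lit 312) (nat_lit 380) (nat_lit 0) (XT.nd (nat_lit 156) (nat_lit 76) (nat_lit 0) (XT.nd (nat_lit 78) (nat_lit 152) (nat_lit 0) (XT.lf (nat_lit 76) (nat_lit 1393566690) (nat_lit 0) (nat_lit 3379087918) (nat_lit 76) (nat_lit 3379087918) (nat_lit 72) (nat_lit 3) (nat_lit 71) (nat_lit 1) (nat_lit 72) (nat_lit 1) (nat_lit 333) (nat_lit 427) (nat_lit 260)) (XT.lf (nat_lit 152) (nat_lit 6811742522) (nat_lit 0) (nat_lit 629964219) (nat_lit 76) (nat_lit 629964219) (nat_lit 71) (nat_lit 1) (nat_lit 69) (nat_lit 1) (nat_lit 70) (nat_lit 1) (nat_lit 334) (nat_lit 427) (nat_lit 259))) (XT.nd (nat_lit 78) (nat_lit 76) (nat_lit 0) (XT.lf (nat_lit 0) (nat_lit 2058181286) (nat_lit 0) (nat_lit 3875214478) (nat_lit 152) (nat_lit 2058181286) (nat_lit 69) (nat_lit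 3) (nat_lit 69) (nat_lit 1) (nat_lit 71) (nat_lit 1) (nat_lit 335) (nat_lit 427) (nat_lit 258)) (XT.lf (nat_lit 76) (nat_lit 1461496537) (nat_lit 0) (nat_lit 3225606432) (nat_lit 76) (nat_lit 3225606432) (nat_lit 69) (nat_lit 3) (nat_lit 68) (nat_lit 1) (nat_lit 69) (nat_lit 1) (nat_lit 336) (nat_lit 427) (nat_lit 257)))) (XT.nd (nat_lit 156) (nat_lit 228) (nat_lit 0) (XT.nd (nat_lit 78) (nat_lit 0) (nat_lit 0) (XT.lf (nat_lit 152) (nat_lit 6715631979) (nat_lit 0) (nat_lit 559715050) (nat_lit 76) (nat_lit 559715050) (nat_lit 68) (nat_lit 1) (nat_lit 66) (nat_lit 1) (nat_lit 67) (nat_lit 1) (nat_lit 337) (nat_lit 427) (nat_lit 256)) (XT.lf (nat_lit 0) (nat_lit 2047640014) (nat_lit 0) (nat_lit 3662050470) (nat_lit 152) (nat_lit 2047640014) (nat_lit 66) (nat_lit 3) (nat_lit 66) (nat_lit 1) (nat_lit 68) (nat_lit 1) (nat_lit 338) (nat_lit 427) (nat_lit 255))) (XT.nd (nat_lit 78) (nat_lit 152) (nat_lit 0)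 (XT.lf (nat_lit 76) (nat_lit 1515346552) (nat_lit 0) (nat_lit 3082735345) (nat_lit 76) (nat_lit 3082735345) (nat_lit 66) (nat_lit 3) (nat_lit 65) (nat_lit 1) (nat_lit 66) (nat_lit 1) (nat_lit 339) (nat_lit 427) (nat_lit 254)) (XT.nd (nat_lit 78) (nat_lit 0) (nat_lit 0) (XT.lf (nat_lit 152) (nat_lit 6610914142) (nat_lit 0) (nat_lit 497299572) (nat_lit 76) (nat_lit 497299572) (nat_lit 65) (nat_lit 1) (nat_lit 63) (nat_lit 1) (nat_lit 64) (nat_lit 1) (nat_lit 340) (nat_lit 427) (nat_lit 253)) (XT.lf (nat_lit 0) (nat_lit 2031896387) (nat_lit 0) (nat_lit 3466279167) (nat_lit 152) (nat_lit 2031896387) (nat_lit 63) (nat_lit 3) (nat_lit 63) (nat_lit 1) (nat_lit 65) (nat_lit 1) (nat_lit 341) (nat_lit 427) (nat_lit 252)))))) (XT.nd (nat_lit 390) (nat_lit 304) (nat_lit 0) (XT.nd (nat_lit 156) (nat_lit 228) (nat_lit 0) (XT.nd (nat_lit 78) (nat_lit 152) (nat_lit 0) (XT.lf (nat_lit 76) (nat_lit 1556876278) (nat_lit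 0) (nat_lit 2949480919) (nat_lit 76) (nat_lit 2949480919) (nat_lit 63) (nat_lit 3) (nat_lit 62) (nat_lit 1) (nat_lit 63) (nat_lit 1) (nat_lit 342) (nat_lit 427) (nat_lit 251)) (XT.lf (nat_lit 152) (nat_lit 6499111698) (nat_lit 0) (nat_lit 441844229) (nat_lit 76) (nat_lit 441844229) (nat_lit 62) (nat_lit 1) (nat_lit 60) (nat_lit 1) (nat_lit 61) (nat_lit 1) (nat_lit 343) (nat_lit 427) (nat_lit 250))) (XT.nd (nat_lit 78) (nat_lit 228) (nat_lit 0) (XT.lf (nat_lit 0) (nat_lit 2011716298) (nat_lit 0) (nat_lit 3286146820) (nat_lit 152) (nat_lit 2011716298) (nat_lit 60) (nat_lit 3) (nat_lit 60) (nat_lit 1) (nat_lit 62) (nat_lit 1) (nat_lit 344) (nat_lit 427) (nat_lit 249)) (XT.nd (nat_lit 78) (nat_lit 152) (nat_lit 0) (XT.lf (nat_lit 76) (nat_lit 1587643528) (nat_lit 0) (nat_lit 2824954715) (nat_lit 76) (nat_lit 2824954715) (nat_lit 60) (nat_lit 3) (nat_lit 59) (nat_lit 1) (nat_lit 60) (nat_lit 1) (nat_lit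 345) (nat_lit 427) (nat_lit 248)) (XT.lf (nat_lit 152) (nat_lit 6381561137) (nat_lit 0) (nat_lit 392572874) (nat_lit 76) (nat_lit 392572874) (nat_lit 59) (nat_lit 1) (nat_lit 57) (nat_lit 1) (nat_lit 58) (nat_lit 1) (nat_lit 346) (nat_lit 427) (nat_lit 247))))) (XT.nd (nat_lit 156) (nat_lit 228) (nat_lit 0) (XT.nd (nat_lit 78) (nat_lit 76) (nat_lit 0) (XT.lf (nat_lit 0) (nat_lit 1987774822) (nat_lit 0) (nat_lit 3120089835) (nat_lit 152) (nat_lit 1987774822) (nat_lit 57) (nat_lit 3) (nat_lit 57) (nat_lit 1) (nat_lit 59) (nat_lit 1) (nat_lit 347) (nat_lit 427) (nat_lit 246)) (XT.lf (nat_lit 76) (nat_lit 1609027042) (nat_lit 0) (nat_lit 2708362005) (nat_lit 76) (nat_lit 2708362005) (nat_lit 57) (nat_lit 3) (nat_lit 56) (nat_lit 1) (nat_lit 57) (nat_lit 1) (nat_lit 348) (nat_lit 427) (nat_lit 245))) (XT.nd (nat_lit 78) (nat_lit 76) (nat_lit 0) (XT.lf (nat_lit 152) (nat_lit 6259433998) (nat_lit 0) (nat_lit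 348795914) (nat_lit 76) (nat_lit 348795914) (nat_lit 56) (nat_lit 1) (nat_lit 54) (nat_lit 1) (nat_lit 55) (nat_lit 1) (nat_lit 349) (nat_lit 427) (nat_lit 244)) (XT.nd (nat_lit 78) (nat_lit 76) (nat_lit 0) (XT.lf (nat_lit 0) (nat_lit 1960666501) (nat_lit 0) (nat_lit 2966713724) (nat_lit 152) (nat_lit 1960666501) (nat_lit 54) (nat_lit 3) (nat_lit 54) (nat_lit 1) (nat_lit 56) (nat_lit 1) (nat_lit 350) (nat_lit 427) (nat_lit 243)) (XT.lf (nat_lit 76) (nat_lit 1622246609) (nat_lit 0) (nat_lit 2598991485) (nat_lit 76) (nat_lit 2598991485) (nat_lit 54) (nat_lit 3) (nat_lit 53) (nat_lit 1) (nat_lit 54) (nat_lit 1) (nat_lit 351) (nat_lit 427) (nat_lit 242))))))))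
noncomputable def ec464 : XT := (XT.nd (nat_lit 1404) (nat_lit 1520) (nat_lit 0) (XT.nd (nat_lit 702) (nat_lit 684) (nat_lit 0) (XT.nd (nat_lit 312) (nat_lit 304) (nat_lit 0) (XT.nd (nat_lit 156) (nat_lit 228) (nat_lit 0) (XT.nd (nat_lit 78) (nat_lit 0) (nat_lit 0) (XT.lf (nat_lit 152) (nat_lit 6133755727) (nat_lit 0) (nat_lit 309900652) (nat_lit 76) (nat_lit 309900652) (nat_lit 53) (nat_lit 1) (nat_lit 51) (nat_lit 1) (nat_lit 52) (nat_lit 1) (nat_lit 352) (nat_lit 427) (nat_lit 241)) (XT.lf (nat_lit 0) (nat_lit 1930914479) (nat_lit 0) (nat_lit 2824774406) (nat_lit 152) (nat_lit 1930914479) (nat_lit 51) (nat_lit 3) (nat_lit 51) (nat_lit 1) (nat_lit 53) (nat_lit 1) (nat_lit 353) (nat_lit 427) (nat_lit 240))) (XT.nd (nat_lit 78) (nat_lit 152) (nat_lit 0) (XT.lf (nat_lit 76) (nat_lit 1628380947) (nat_lit 0) (nat_lit 2496206119) (nat_lit 76) (nat_lit 2496206119) (nat_lit 51) (nat_lit 3) (nat_lit 50) (nat_lit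 1) (nat_lit 51) (nat_lit 1) (nat_lit 354) (nat_lit 427) (nat_lit 239)) (XT.lf (nat_lit 152) (nat_lit 6005422414) (nat_lit 0) (nat_lit 275342715) (nat_lit 76) (nat_lit 275342715) (nat_lit 50) (nat_lit 1) (nat_lit 48) (nat_lit 1) (nat_lit 49) (nat_lit 1) (nat_lit 355) (nat_lit 427) (nat_lit 238)))) (XT.nd (nat_lit 156) (nat_lit 228) (nat_lit 0) (XT.nd (nat_lit 78) (nat_lit 76) (nat_lit 0) (XT.lf (nat_lit 0) (nat_lit 1898978609) (nat_lit 0) (nat_lit 2693161577) (nat_lit 152) (nat_lit 1898978609) (nat_lit 48) (nat_lit 3) (nat_lit 48) (nat_lit 1) (nat_lit 50) (nat_lit 1) (nat_lit 356) (nat_lit 427) (nat_lit 237)) (XT.lf (nat_lit 76) (nat_lit 1628383582) (nat_lit 0) (nat_lit 2399435007) (nat_lit 76) (nat_lit 2399435007) (nat_lit 48) (nat_lit 3) (nat_lit 47) (nat_lit 1) (nat_lit 48) (nat_lit 1) (nat_lit 357) (nat_lit 427) (nat_lit 236))) (XT.nd (nat_lit 78) (nat_lit 76) (nat_lit 0) (XT.lf (nat_lit 152) (nat_lit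 5875215658) (nat_lit 0) (nat_lit 244638436) (nat_lit 76) (nat_lit 244638436) (nat_lit 47) (nat_lit 1) (nat_lit 45) (nat_lit 1) (nat_lit 46) (nat_lit 1) (nat_lit 358) (nat_lit 427) (nat_lit 235)) (XT.nd (nat_lit 78) (nat_lit 76) (nat_lit 0) (XT.lf (nat_lit 0) (nat_lit 1865262660) (nat_lit 0) (nat_lit 2570883940) (nat_lit 152) (nat_lit 1865262660) (nat_lit 45) (nat_lit 3) (nat_lit 45) (nat_lit 1) (nat_lit 47) (nat_lit 1) (nat_lit 359) (nat_lit 427) (nat_lit 234)) (XT.lf (nat_lit 76) (nat_lit 1623096946) (nat_lit 0) (nat_lit 2308166150) (nat_lit 76) (nat_lit 2308166150) (nat_lit 45) (nat_lit 3) (nat_lit 44) (nat_lit 1) (nat_lit 45) (nat_lit 1) (nat_lit 360) (nat_lit 427) (nat_lit 233)))))) (XT.nd (nat_lit 312) (nat_lit 304) (nat_lit 0) (XT.nd (nat_lit 156) (nat_lit 228) (nat_lit 0) (XT.nd (nat_lit 78) (nat_lit 0) (nat_lit 0) (XT.lf (nat_lit 152) (nat_lit 5743815760) (nat_lit 0) (nat_lit 217358082) (nat_lit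 76) (nat_lit 217358082) (nat_lit 44) (nat_lit 1) (nat_lit 42) (nat_lit 1) (nat_lit 43) (nat_lit 1) (nat_lit 361) (nat_lit 427) (nat_lit 232)) (XT.lf (nat_lit 0) (nat_lit 1830120705) (nat_lit 0) (nat_lit 2457056074) (nat_lit 152) (nat_lit 1830120705) (nat_lit 42) (nat_lit 3) (nat_lit 42) (nat_lit 1) (nat_lit 44) (nat_lit 1) (nat_lit 362) (nat_lit 427) (nat_lit 231))) (XT.nd (nat_lit 78) (nat_lit 152) (nat_lit 0) (XT.lf (nat_lit 76) (nat_lit 1613264909) (nat_lit 0) (nat_lit 2221940024) (nat_lit 76) (nat_lit 2221940024) (nat_lit 42) (nat_lit 3) (nat_lit 41) (nat_lit 1) (nat_lit 42) (nat_lit 1) (nat_lit 363) (nat_lit 427) (nat_lit 230)) (XT.lf (nat_lit 152) (nat_lit 5611813427) (nat_lit 0) (nat_lit 193119841) (nat_lit 76) (nat_lit 193119841) (nat_lit 41) (nat_lit 1) (nat_lit 39) (nat_lit 1) (nat_lit 40) (nat_lit 1) (nat_lit 364) (nat_lit 427) (nat_lit 229)))) (XT.nd (nat_lit 156) (nat_lit 228) (nat_lit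 0) (XT.nd (nat_lit 78) (nat_lit 76) (nat_lit 0) (XT.lf (nat_lit 0) (nat_lit 1793862806) (nat_lit 0) (nat_lit 2350886761) (nat_lit 152) (nat_lit 1793862806) (nat_lit 39) (nat_lit 3) (nat_lit 39) (nat_lit 1) (nat_lit 41) (nat_lit 1) (nat_lit 365) (nat_lit 427) (nat_lit 228)) (XT.lf (nat_lit 76) (nat_lit 1599543904) (nat_lit 0) (nat_lit 2140343860) (nat_lit 76) (nat_lit 2140343860) (nat_lit 39) (nat_lit 3) (nat_lit 38) (nat_lit 1) (nat_lit 39) (nat_lit 1) (nat_lit 366) (nat_lit 427) (nat_lit 227))) (XT.nd (nat_lit 78) (nat_lit 76) (nat_lit 0) (XT.lf (nat_lit 152) (nat_lit 5479720165) (nat_lit 0) (nat_lit 171584477) (nat_lit 76) (nat_lit 171584477) (nat_lit 38) (nat_lit 1) (nat_lit 36) (nat_lit 1) (nat_lit 37) (nat_lit 1) (nat_lit 367) (nat_lit 427) (nat_lit 226)) (XT.nd (nat_lit 78) (nat_lit 76) (nat_lit 0) (XT.lf (nat_lit 0) (nat_lit 1756760047) (nat_lit 0) (nat_lit 2251668617) (nat_lit 152) (nat_lit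 1756760047) (nat_lit 36) (nat_lit 3) (nat_lit 36) (nat_lit 1) (nat_lit 38) (nat_lit 1) (nat_lit 368) (nat_lit 427) (nat_lit 225)) (XT.lf (nat_lit 76) (nat_lit 1582512806) (nat_lit 0) (nat_lit 2063006563) (nat_lit 76) (nat_lit 2063006563) (nat_lit 36) (nat_lit 3) (nat_lit 35) (nat_lit 1) (nat_lit 36) (nat_lit 1) (nat_lit 369) (nat_lit 427) (nat_lit 224))))))) (XT.nd (nat_lit 702) (nat_lit 836) (nat_lit 0) (XT.nd (nat_lit 312) (nat_lit 304) (nat_lit 0) (XT.nd (nat_lit 156) (nat_lit 228) (nat_lit 0) (XT.nd (nat_lit 78) (nat_lit 0) (nat_lit 0) (XT.lf (nat_lit 152) (nat_lit 5347977500) (nat_lit 0) (nat_lit 152450585) (nat_lit 76) (nat_lit 152450585) (nat_lit 35) (nat_lit 1) (nat_lit 33) (nat_lit 1) (nat_lit 34) (nat_lit 1) (nat_lit 370) (nat_lit 427) (nat_lit 223)) (XT.lf (nat_lit 0) (nat_lit 1719049013) (nat_lit 0) (nat_lit 2158768866) (nat_lit 152) (nat_lit 1719049013) (nat_lit 33) (nat_lit 3) (nat_lit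 33) (nat_lit 1) (nat_lit 35) (nat_lit 1) (nat_lit 371) (nat_lit 427) (nat_lit 222))) (XT.nd (nat_lit 78) (nat_lit 152) (nat_lit 0) (XT.lf (nat_lit 76) (nat_lit 1562681709) (nat_lit 0) (nat_lit 1989594188) (nat_lit 76) (nat_lit 1989594188) (nat_lit 33) (nat_lit 3) (nat_lit 32) (nat_lit 1) (nat_lit 33) (nat_lit 1) (nat_lit 372) (nat_lit 427) (nat_lit 221)) (XT.lf (nat_lit 152) (nat_lit 5216965155) (nat_lit 0) (nat_lit 135450370) (nat_lit 76) (nat_lit 135450370) (nat_lit 32) (nat_lit 1) (nat_lit 30) (nat_lit 1) (nat_lit 31) (nat_lit 1) (nat_lit 373) (nat_lit 427) (nat_lit 220)))) (XT.nd (nat_lit 156) (nat_lit 228) (nat_lit 0) (XT.nd (nat_lit 78) (nat_lit 76) (nat_lit 0) (XT.lf (nat_lit 0) (nat_lit 1680935757) (nat_lit 0) (nat_lit 2071621152) (nat_lit 152) (nat_lit 1680935757) (nat_lit 30) (nat_lit 3) (nat_lit 30) (nat_lit 1) (nat_lit 32) (nat_lit 1) (nat_lit 374) (nat_lit 427) (nat_lit 219)) (XT.lf (nat_lit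 76) (nat_lit 1540499718) (nat_lit 0) (nat_lit 1919805926) (nat_lit 76) (nat_lit 1919805926) (nat_lit 30) (nat_lit 3) (nat_lit 29) (nat_lit 1) (nat_lit 30) (nat_lit 1) (nat_lit 375) (nat_lit 427) (nat_lit 218))) (XT.nd (nat_lit 78) (nat_lit 76) (nat_lit 0) (XT.lf (nat_lit 152) (nat_lit 5087008314) (nat_lit 0) (nat_lit 120345900) (nat_lit 76) (nat_lit 120345900) (nat_lit 29) (nat_lit 1) (nat_lit 27) (nat_lit 1) (nat_lit 28) (nat_lit 1) (nat_lit 376) (nat_lit 427) (nat_lit 217)) (XT.nd (nat_lit 78) (nat_lit 76) (nat_lit 0) (XT.lf (nat_lit 0) (nat_lit 1642599333) (nat_lit 0) (nat_lit 1989718246) (nat_lit 152) (nat_lit 1642599333) (nat_lit 27) (nat_lit 3) (nat_lit 27) (nat_lit 1) (nat_lit 29) (nat_lit 1) (nat_lit 377) (nat_lit 427) (nat_lit 216)) (XT.lf (nat_lit 76) (nat_lit 1516361871) (nat_lit 0) (nat_lit 1853370525) (nat_lit 76) (nat_lit 1853370525) (nat_lit 27) (nat_lit 3) (nat_lit 26) (nat_lit 1) (nat_lit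 27) (nat_lit 1) (nat_lit 378) (nat_lit 427) (nat_lit 215)))))) (XT.nd (nat_lit 390) (nat_lit 456) (nat_lit 0) (XT.nd (nat_lit 156) (nat_lit 228) (nat_lit 0) (XT.nd (nat_lit 78) (nat_lit 0) (nat_lit 0) (XT.lf (nat_lit 152) (nat_lit 4958384052) (nat_lit 0) (nat_lit 106925773) (nat_lit 76) (nat_lit 106925773) (nat_lit 26) (nat_lit 1) (nat_lit 24) (nat_lit 1) (nat_lit 25) (nat_lit 1) (nat_lit 379) (nat_lit 427) (nat_lit 214)) (XT.lf (nat_lit 0) (nat_lit 1604194916) (nat_lit 0) (nat_lit 1912605575) (nat_lit 152) (nat_lit 1604194916) (nat_lit 24) (nat_lit 3) (nat_lit 24) (nat_lit 1) (nat_lit 26) (nat_lit 1) (nat_lit 380) (nat_lit 427) (nat_lit 213))) (XT.nd (nat_lit 78) (nat_lit 152) (nat_lit 0) (XT.lf (nat_lit 76) (nat_lit 1490615285) (nat_lit 0) (nat_lit 1790043109) (nat_lit 76) (nat_lit 1790043109) (nat_lit 24) (nat_lit 3) (nat_lit 23) (nat_lit 1) (nat_lit 24) (nat_lit 1) (nat_lit 381) (nat_lit 427) (nat_lit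 212)) (XT.nd (nat_lit 78) (nat_lit 0) (nat_lit 0) (XT.lf (nat_lit 152) (nat_lit 4831327050) (nat_lit 0) (nat_lit 95002164) (nat_lit 76) (nat_lit 95002164) (nat_lit 23) (nat_lit 1) (nat_lit 21) (nat_lit 1) (nat_lit 22) (nat_lit 1) (nat_lit 382) (nat_lit 427) (nat_lit 211)) (XT.lf (nat_lit 0) (nat_lit 1565856584) (nat_lit 0) (nat_lit 1839875459) (nat_lit 152) (nat_lit 1565856584) (nat_lit 21) (nat_lit 3) (nat_lit 21) (nat_lit 1) (nat_lit 23) (nat_lit 1) (nat_lit 383) (nat_lit 427) (nat_lit 210))))) (XT.nd (nat_lit 156) (nat_lit 228) (nat_lit 0) (XT.nd (nat_lit 78) (nat_lit 152) (nat_lit 0) (XT.lf (nat_lit 76) (nat_lit 1463564610) (nat_lit 0) (nat_lit 1729602353) (nat_lit 76) (nat_lit 1729602353) (nat_lit 21) (nat_lit 3) (nat_lit 20) (nat_lit 1) (nat_lit 21) (nat_lit 1) (nat_lit 384) (nat_lit 427) (nat_lit 209)) (XT.lf (nat_lit 152) (nat_lit 4706034655) (nat_lit 0) (nat_lit 84408193) (nat_lit 76) (nat_lit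 84408193) (nat_lit 20) (nat_lit 1) (nat_lit 18) (nat_lit 1) (nat_lit 19) (nat_lit 1) (nat_lit 385) (nat_lit 427) (nat_lit 208))) (XT.nd (nat_lit 78) (nat_lit 228) (nat_lit 0) (XT.lf (nat_lit 0) (nat_lit 1527699778) (nat_lit 0) (nat_lit 1771162000) (nat_lit 152) (nat_lit 1527699778) (nat_lit 18) (nat_lit 3) (nat_lit 18) (nat_lit 1) (nat_lit 20) (nat_lit 1) (nat_lit 386) (nat_lit 427) (nat_lit 207)) (XT.nd (nat_lit 78) (nat_lit 152) (nat_lit 0) (XT.lf (nat_lit 76) (nat_lit 1435476875) (nat_lit 0) (nat_lit 1671847964) (nat_lit 76) (nat_lit 1671847964) (nat_lit 18) (nat_lit 3) (nat_lit 17) (nat_lit 1) (nat_lit 18) (nat_lit 1) (nat_lit 387) (nat_lit 427) (nat_lit 206)) (XT.lf (nat_lit 152) (nat_lit 4582671369) (nat_lit 0) (nat_lit 74995586) (nat_lit 76) (nat_lit 74995586) (nat_lit 17) (nat_lit 1) (nat_lit 15) (nat_lit 1) (nat_lit 16) (nat_lit 1) (nat_lit 388) (nat_lit 427) (nat_lit 205))))))))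
noncomputable def ec465 : XT := (XT.nd (nat_lit 38688) (nat_lit 0) (nat_lit 16188) (XT.nd (nat_lit 702) (nat_lit 76) (nat_lit 0) (XT.nd (nat_lit 312) (nat_lit 456) (nat_lit 0) (XT.nd (nat_lit 156) (nat_lit 152) (nat_lit 0) (XT.nd (nat_lit 78) (nat_lit 76) (nat_lit 0) (XT.lf (nat_lit 0) (nat_lit 1489823489) (nat_lit 0) (nat_lit 1706136520) (nat_lit 152) (nat_lit 1489823489) (nat_lit 15) (nat_lit 3) (nat_lit 15) (nat_lit 1) (nat_lit 17) (nat_lit 1) (nat_lit 389) (nat_lit 427) (nat_lit 204)) (XT.lf (nat_lit 76) (nat_lit 1406585791) (nat_lit 0) (nat_lit 1616598442) (nat_lit 76) (nat_lit 1616598442) (nat_lit 15) (nat_lit 3) (nat_lit 14) (nat_lit 1) (nat_lit 15) (nat_lit 1) (nat_lit 390) (nat_lit 427) (nat_lit 203))) (XT.nd (nat_lit 78) (nat_lit 0) (nat_lit 0) (XT.lf (nat_lit 152) (nat_lit 4461372827) (nat_lit 0) (nat_lit 66632607) (nat_lit 76) (nat_lit 66632607) (nat_lit 14) (nat_lit 1) (nat_lit 12) (nat_lit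 1) (nat_lit 13) (nat_lit 1) (nat_lit 391) (nat_lit 427) (nat_lit 202)) (XT.lf (nat_lit 0) (nat_lit 1452312197) (nat_lit 0) (nat_lit 1644503523) (nat_lit 152) (nat_lit 1452312197) (nat_lit 12) (nat_lit 3) (nat_lit 12) (nat_lit 1) (nat_lit 14) (nat_lit 1) (nat_lit 392) (nat_lit 427) (nat_lit 201)))) (XT.nd (nat_lit 156) (nat_lit 228) (nat_lit 0) (XT.nd (nat_lit 78) (nat_lit 152) (nat_lit 0) (XT.lf (nat_lit 76) (nat_lit 1377095568) (nat_lit 0) (nat_lit 1563689088) (nat_lit 76) (nat_lit 1563689088) (nat_lit 12) (nat_lit 3) (nat_lit 11) (nat_lit 1) (nat_lit 12) (nat_lit 1) (nat_lit 393) (nat_lit 427) (nat_lit 200)) (XT.lf (nat_lit 152) (nat_lit 4342249322) (nat_lit 0) (nat_lit 59202208) (nat_lit 76) (nat_lit 59202208) (nat_lit 11) (nat_lit 1) (nat_lit 9) (nat_lit 1) (nat_lit 10) (nat_lit 1) (nat_lit 394) (nat_lit 427) (nat_lit 199))) (XT.nd (nat_lit 78) (nat_lit 228) (nat_lit 0) (XT.lf (nat_lit 0) (nat_lit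 1415237590) (nat_lit 0) (nat_lit 1585997094) (nat_lit 152) (nat_lit 1415237590) (nat_lit 9) (nat_lit 3) (nat_lit 9) (nat_lit 1) (nat_lit 11) (nat_lit 1) (nat_lit 395) (nat_lit 427) (nat_lit 198)) (XT.nd (nat_lit 78) (nat_lit 152) (nat_lit 0) (XT.lf (nat_lit 76) (nat_lit 1347184305) (nat_lit 0) (nat_lit 1512970231) (nat_lit 76) (nat_lit 1512970231) (nat_lit 9) (nat_lit 3) (nat_lit 8) (nat_lit 1) (nat_lit 9) (nat_lit 1) (nat_lit 396) (nat_lit 427) (nat_lit 197)) (XT.lf (nat_lit 152) (nat_lit 4225388933) (nat_lit 0) (nat_lit 52600395) (nat_lit 76) (nat_lit 52600395) (nat_lit 8) (nat_lit 1) (nat_lit 6) (nat_lit 1) (nat_lit 7) (nat_lit 1) (nat_lit 397) (nat_lit 427) (nat_lit 196)))))) (XT.nd (nat_lit 37596) (nat_lit 0) (nat_lit 20140) (XT.nd (nat_lit 37362) (nat_lit 0) (nat_lit 21508) (XT.nd (nat_lit 78) (nat_lit 76) (nat_lit 0) (XT.lf (nat_lit 0) (nat_lit 1378660087) (nat_lit 0) (nat_lit 1530377695) (nat_lit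 152) (nat_lit 1378660087) (nat_lit 6) (nat_lit 3) (nat_lit 6) (nat_lit 1) (nat_lit 8) (nat_lit 1) (nat_lit 398) (nat_lit 427) (nat_lit 195)) (XT.lf (nat_lit 76) (nat_lit 1317006999) (nat_lit 0) (nat_lit 1464305647) (nat_lit 76) (nat_lit 1464305647) (nat_lit 6) (nat_lit 3) (nat_lit 5) (nat_lit 1) (nat_lit 6) (nat_lit 1) (nat_lit 399) (nat_lit 427) (nat_lit 194))) (XT.nd (nat_lit 78) (nat_lit 456) (nat_lit 0) (XT.lf (nat_lit 608) (nat_lit 32990818873) (nat_lit 0) (nat_lit 1174194957) (nat_lit 532) (nat_lit 1174194957) (nat_lit 302) (nat_lit 1) (nat_lit 294) (nat_lit 1) (nat_lit 301) (nat_lit 1) (nat_lit 196) (nat_lit 428) (nat_lit 396)) (XT.nd (nat_lit 78) (nat_lit 456) (nat_lit 0) (XT.lf (nat_lit 76) (nat_lit 13674162419) (nat_lit 0) (nat_lit 7546459224) (nat_lit 608) (nat_lit 13674162419) (nat_lit 295) (nat_lit 1) (nat_lit 294) (nat_lit 1) (nat_lit 302) (nat_lit 1) (nat_lit 197) (nat_lit 428) (nat_lit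 395)) (XT.lf (nat_lit 532) (nat_lit 21796190395) (nat_lit 0) (nat_lit 6332479225) (nat_lit 456) (nat_lit 6332479225) (nat_lit 295) (nat_lit 1) (nat_lit 288) (nat_lit 1) (nat_lit 294) (nat_lit 1) (nat_lit 198) (nat_lit 428) (nat_lit 394))))) (XT.nd (nat_lit 156) (nat_lit 912) (nat_lit 0) (XT.nd (nat_lit 78) (nat_lit 456) (nat_lit 0) (XT.lf (nat_lit 76) (nat_lit 8094982370) (nat_lit 0) (nat_lit 17843893492) (nat_lit 532) (nat_lit 8094982370) (nat_lit 289) (nat_lit 1) (nat_lit 288) (nat_lit 1) (nat_lit 295) (nat_lit 1) (nat_lit 199) (nat_lit 428) (nat_lit 393)) (XT.lf (nat_lit 532) (nat_lit 10572087079) (nat_lit 0) (nat_lit 11520915277) (nat_lit 456) (nat_lit 11520915277) (nat_lit 289) (nat_lit 1) (nat_lit 282) (nat_lit 1) (nat_lit 288) (nat_lit 1) (nat_lit 200) (nat_lit 428) (nat_lit 392))) (XT.nd (nat_lit 78) (nat_lit 912) (nat_lit 0) (XT.lf (nat_lit 76) (nat_lit 2506581396) (nat_lit 0) (nat_lit 28189996759)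 (nat_lit 532) (nat_lit 2506581396) (nat_lit 283) (nat_lit 1) (nat_lit 282) (nat_lit 1) (nat_lit 289) (nat_lit 1) (nat_lit 201) (nat_lit 428) (nat_lit 391)) (XT.nd (nat_lit 78) (nat_lit 456) (nat_lit 0) (XT.lf (nat_lit 76) (nat_lit 16074392483) (nat_lit 0) (nat_lit 647340253) (nat_lit 456) (nat_lit 16074392483) (nat_lit 277) (nat_lit 1) (nat_lit 276) (nat_lit 1) (nat_lit 282) (nat_lit 1) (nat_lit 202) (nat_lit 428) (nat_lit 390)) (XT.lf (nat_lit 532) (nat_lit 26296521311) (nat_lit 0) (nat_lit 3050709381) (nat_lit 456) (nat_lit 3050709381) (nat_lit 277) (nat_lit 1) (nat_lit 270) (nat_lit 1) (nat_lit 276) (nat_lit 1) (nat_lit 203) (nat_lit 428) (nat_lit 389))))))) (XT.nd (nat_lit 702) (nat_lit 2052) (nat_lit 0) (XT.nd (nat_lit 312) (nat_lit 1140) (nat_lit 0) (XT.nd (nat_lit 156) (nat_lit 380) (nat_lit 0) (XT.nd (nat_lit 78) (nat_lit 380) (nat_lit 0) (XT.lf (nat_lit 76) (nat_lit 10177175169) (nat_lit 0)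 (nat_lit 11649418866) (nat_lit 532) (nat_lit 10177175169) (nat_lit 271) (nat_lit 1) (nat_lit 270) (nat_lit 1) (nat_lit 277) (nat_lit 1) (nat_lit 204) (nat_lit 428) (nat_lit 388)) (XT.lf (nat_lit 456) (nat_lit 14471042319) (nat_lit 0) (nat_lit 8573355109) (nat_lit 380) (nat_lit 8573355109) (nat_lit 271) (nat_lit 1) (nat_lit 265) (nat_lit 1) (nat_lit 270) (nat_lit 1) (nat_lit 205) (nat_lit 428) (nat_lit 387))) (XT.nd (nat_lit 78) (nat_lit 380) (nat_lit 0) (XT.lf (nat_lit 76) (nat_lit 4307907569) (nat_lit 0) (nat_lit 22622990800) (nat_lit 456) (nat_lit 4307907569) (nat_lit 266) (nat_lit 1) (nat_lit 265) (nat_lit 1) (nat_lit 271) (nat_lit 1) (nat_lit 206) (nat_lit 428) (nat_lit 386)) (XT.lf (nat_lit 456) (nat_lit 2709334528) (nat_lit 0) (nat_lit 14077551035) (nat_lit 380) (nat_lit 14077551035) (nat_lit 266) (nat_lit 1) (nat_lit 260) (nat_lit 1) (nat_lit 265) (nat_lit 1) (nat_lit 207) (nat_lit 428) (nat_lit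 385)))) (XT.nd (nat_lit 156) (nat_lit 684) (nat_lit 0) (XT.nd (nat_lit 78) (nat_lit 0) (nat_lit 0) (XT.lf (nat_lit 456) (nat_lit 27476403992) (nat_lit 0) (nat_lit 1511008401) (nat_lit 380) (nat_lit 1511008401) (nat_lit 260) (nat_lit 1) (nat_lit 254) (nat_lit 1) (nat_lit 259) (nat_lit 1) (nat_lit 208) (nat_lit 428) (nat_lit 384)) (XT.lf (nat_lit 76) (nat_lit 10667578459) (nat_lit 0) (nat_lit 8799226568) (nat_lit 456) (nat_lit 10667578459) (nat_lit 255) (nat_lit 1) (nat_lit 254) (nat_lit 1) (nat_lit 260) (nat_lit 1) (nat_lit 209) (nat_lit 428) (nat_lit 383))) (XT.nd (nat_lit 78) (nat_lit 304) (nat_lit 0) (XT.lf (nat_lit 456) (nat_lit 15286514192) (nat_lit 0) (nat_lit 7245961193) (nat_lit 380) (nat_lit 7245961193) (nat_lit 255) (nat_lit 1) (nat_lit 249) (nat_lit 1) (nat_lit 254) (nat_lit 1) (nat_lit 210) (nat_lit 428) (nat_lit 382)) (XT.nd (nat_lit 78) (nat_lit 304) (nat_lit 0) (XT.lf (nat_lit 76) (nat_lit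 4631346949) (nat_lit 0) (nat_lit 20165754857) (nat_lit 456) (nat_lit 4631346949) (nat_lit 250) (nat_lit 1) (nat_lit 249) (nat_lit 1) (nat_lit 255) (nat_lit 1) (nat_lit 211) (nat_lit 428) (nat_lit 381)) (XT.lf (nat_lit 380) (nat_lit 3216621205) (nat_lit 0) (nat_lit 12933137598) (nat_lit 304) (nat_lit 12933137598) (nat_lit 250) (nat_lit 1) (nat_lit 245) (nat_lit 1) (nat_lit 249) (nat_lit 1) (nat_lit 212) (nat_lit 428) (nat_lit 380)))))) (XT.nd (nat_lit 390) (nat_lit 988) (nat_lit 0) (XT.nd (nat_lit 156) (nat_lit 608) (nat_lit 0) (XT.nd (nat_lit 78) (nat_lit 0) (nat_lit 0) (XT.lf (nat_lit 456) (nat_lit 26086050018) (nat_lit 0) (nat_lit 1329437264) (nat_lit 380) (nat_lit 1329437264) (nat_lit 245) (nat_lit 1) (nat_lit 239) (nat_lit 1) (nat_lit 244) (nat_lit 1) (nat_lit 213) (nat_lit 428) (nat_lit 379)) (XT.lf (nat_lit 76) (nat_lit 9927659289) (nat_lit 0) (nat_lit 8553054715) (nat_lit 456) (nat_lit 9927659289)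 (nat_lit 240) (nat_lit 1) (nat_lit 239) (nat_lit 1) (nat_lit 245) (nat_lit 1) (nat_lit 214) (nat_lit 428) (nat_lit 378))) (XT.nd (nat_lit 78) (nat_lit 304) (nat_lit 0) (XT.lf (nat_lit 380) (nat_lit 13722211277) (nat_lit 0) (nat_lit 7178485447) (nat_lit 304) (nat_lit 7178485447) (nat_lit 240) (nat_lit 1) (nat_lit 235) (nat_lit 1) (nat_lit 239) (nat_lit 1) (nat_lit 215) (nat_lit 428) (nat_lit 377)) (XT.nd (nat_lit 78) (nat_lit 304) (nat_lit 0) (XT.lf (nat_lit 76) (nat_lit 3815937345) (nat_lit 0) (nat_lit 20123747259) (nat_lit 380) (nat_lit 3815937345) (nat_lit 236) (nat_lit 1) (nat_lit 235) (nat_lit 1) (nat_lit 240) (nat_lit 1) (nat_lit 216) (nat_lit 428) (nat_lit 376)) (XT.lf (nat_lit 380) (nat_lit 1521634909) (nat_lit 0) (nat_lit 12957052273) (nat_lit 304) (nat_lit 12957052273) (nat_lit 236) (nat_lit 1) (nat_lit 231) (nat_lit 1) (nat_lit 235) (nat_lit 1) (nat_lit 217) (nat_lit 428) (nat_lit 375)))))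 (XT.nd (nat_lit 156) (nat_lit 608) (nat_lit 0) (XT.nd (nat_lit 78) (nat_lit 0) (nat_lit 0) (XT.lf (nat_lit 380) (nat_lit 22739856502) (nat_lit 0) (nat_lit 2191156588) (nat_lit 304) (nat_lit 2191156588) (nat_lit 231) (nat_lit 1) (nat_lit 226) (nat_lit 1) (nat_lit 230) (nat_lit 1) (nat_lit 218) (nat_lit 428) (nat_lit 374)) (XT.lf (nat_lit 76) (nat_lit 8253343009) (nat_lit 0) (nat_lit 10304063275) (nat_lit 380) (nat_lit 8253343009) (nat_lit 227) (nat_lit 1) (nat_lit 226) (nat_lit 1) (nat_lit 231) (nat_lit 1) (nat_lit 219) (nat_lit 428) (nat_lit 373))) (XT.nd (nat_lit 78) (nat_lit 304) (nat_lit 0) (XT.lf (nat_lit 380) (nat_lit 10354043961) (nat_lit 0) (nat_lit 8075706553) (nat_lit 304) (nat_lit 8075706553) (nat_lit 227) (nat_lit 1) (nat_lit 222) (nat_lit 1) (nat_lit 226) (nat_lit 1) (nat_lit 220) (nat_lit 428) (nat_lit 372)) (XT.nd (nat_lit 78) (nat_lit 304) (nat_lit 0) (XT.lf (nat_lit 76) (nat_lit 2139044891)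 (nat_lit 0) (nat_lit 21927981184) (nat_lit 380) (nat_lit 2139044891) (nat_lit 223) (nat_lit 1) (nat_lit 222) (nat_lit 1) (nat_lit 227) (nat_lit 1) (nat_lit 221) (nat_lit 428) (nat_lit 371)) (XT.lf (nat_lit 76) (nat_lit 12054281668) (nat_lit 0) (nat_lit 1800050527) (nat_lit 304) (nat_lit 12054281668) (nat_lit 219) (nat_lit 1) (nat_lit 218) (nat_lit 1) (nat_lit 222) (nat_lit 1) (nat_lit 222) (nat_lit 428) (nat_lit 370))))))))
noncomputable def ec466 : XT := (XT.nd (nat_lit 1482) (nat_lit 2280) (nat_lit 0) (XT.nd (nat_lit 702) (nat_lit 1368) (nat_lit 0) (XT.nd (nat_lit 312) (nat_lit 760) (nat_lit 0) (XT.nd (nat_lit 156) (nat_lit 608) (nat_lit 0) (XT.nd (nat_lit 78) (nat_lit 0) (nat_lit 0) (XT.lf (nat_lit 380) (nat_lit 17939328178) (nat_lit 0) (nat_lit 3838785364) (nat_lit 304) (nat_lit 3838785364) (nat_lit 219) (nat_lit 1) (nat_lit 214) (nat_lit 1) (nat_lit 218) (nat_lit 1) (nat_lit 223) (nat_lit 428)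 (nat_lit 369)) (XT.lf (nat_lit 76) (nat_lit 5886081185) (nat_lit 0) (nat_lit 13556344819) (nat_lit 380) (nat_lit 5886081185) (nat_lit 215) (nat_lit 1) (nat_lit 214) (nat_lit 1) (nat_lit 219) (nat_lit 1) (nat_lit 224) (nat_lit 428) (nat_lit 368))) (XT.nd (nat_lit 78) (nat_lit 380) (nat_lit 0) (XT.lf (nat_lit 304) (nat_lit 5651717409) (nat_lit 0) (nat_lit 9696463396) (nat_lit 228) (nat_lit 9696463396) (nat_lit 215) (nat_lit 1) (nat_lit 211) (nat_lit 1) (nat_lit 214) (nat_lit 1) (nat_lit 225) (nat_lit 428) (nat_lit 367)) (XT.lf (nat_lit 380) (nat_lit 24424194934) (nat_lit 0) (nat_lit 171511745) (nat_lit 304) (nat_lit 171511745) (nat_lit 211) (nat_lit 1) (nat_lit 206) (nat_lit 1) (nat_lit 210) (nat_lit 1) (nat_lit 226) (nat_lit 428) (nat_lit 366)))) (XT.nd (nat_lit 156) (nat_lit 532) (nat_lit 0) (XT.nd (nat_lit 78) (nat_lit 228) (nat_lit 0) (XT.lf (nat_lit 76) (nat_lit 9099189909) (nat_lit 0) (nat_lit 6290867421)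 (nat_lit 380) (nat_lit 9099189909) (nat_lit 207) (nat_lit 1) (nat_lit 206) (nat_lit 1) (nat_lit 211) (nat_lit 1) (nat_lit 227) (nat_lit 428) (nat_lit 365)) (XT.lf (nat_lit 304) (nat_lit 12092223952) (nat_lit 0) (nat_lit 6062675993) (nat_lit 228) (nat_lit 6062675993) (nat_lit 207) (nat_lit 1) (nat_lit 203) (nat_lit 1) (nat_lit 206) (nat_lit 1) (nat_lit 228) (nat_lit 428) (nat_lit 364))) (XT.nd (nat_lit 78) (nat_lit 532) (nat_lit 0) (XT.lf (nat_lit 76) (nat_lit 3022096148) (nat_lit 0) (nat_lit 17906137961) (nat_lit 304) (nat_lit 3022096148) (nat_lit 204) (nat_lit 1) (nat_lit 203) (nat_lit 1) (nat_lit 207) (nat_lit 1) (nat_lit 229) (nat_lit 428) (nat_lit 363)) (XT.nd (nat_lit 78) (nat_lit 228) (nat_lit 0) (XT.lf (nat_lit 76) (nat_lit 11841292005) (nat_lit 0) (nat_lit 3170371) (nat_lit 304) (nat_lit 11841292005) (nat_lit 200) (nat_lit 1) (nat_lit 199) (nat_lit 1) (nat_lit 203) (nat_lit 1) (nat_lit 230)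 (nat_lit 428) (nat_lit 362)) (XT.lf (nat_lit 304) (nat_lit 17608586533) (nat_lit 0) (nat_lit 2908447789) (nat_lit 228) (nat_lit 2908447789) (nat_lit 200) (nat_lit 1) (nat_lit 196) (nat_lit 1) (nat_lit 199) (nat_lit 1) (nat_lit 231) (nat_lit 428) (nat_lit 361)))))) (XT.nd (nat_lit 390) (nat_lit 608) (nat_lit 0) (XT.nd (nat_lit 156) (nat_lit 532) (nat_lit 0) (XT.nd (nat_lit 78) (nat_lit 228) (nat_lit 0) (XT.lf (nat_lit 76) (nat_lit 5768579581) (nat_lit 0) (nat_lit 11630553491) (nat_lit 304) (nat_lit 5768579581) (nat_lit 197) (nat_lit 1) (nat_lit 196) (nat_lit 1) (nat_lit 200) (nat_lit 1) (nat_lit 232) (nat_lit 428) (nat_lit 360)) (XT.lf (nat_lit 304) (nat_lit 5528544449) (nat_lit 0) (nat_lit 8692792738) (nat_lit 228) (nat_lit 8692792738) (nat_lit 197) (nat_lit 1) (nat_lit 193) (nat_lit 1) (nat_lit 196) (nat_lit 1) (nat_lit 233) (nat_lit 428) (nat_lit 359))) (XT.nd (nat_lit 78) (nat_lit 228) (nat_lit 0)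 (XT.lf (nat_lit 304) (nat_lit 22309857544) (nat_lit 0) (nat_lit 178136340) (nat_lit 228) (nat_lit 178136340) (nat_lit 193) (nat_lit 1) (nat_lit 189) (nat_lit 1) (nat_lit 192) (nat_lit 1) (nat_lit 234) (nat_lit 428) (nat_lit 358)) (XT.nd (nat_lit 78) (nat_lit 228) (nat_lit 0) (XT.lf (nat_lit 76) (nat_lit 8118984258) (nat_lit 0) (nat_lit 6179403742) (nat_lit 304) (nat_lit 8118984258) (nat_lit 190) (nat_lit 1) (nat_lit 189) (nat_lit 1) (nat_lit 193) (nat_lit 1) (nat_lit 235) (nat_lit 428) (nat_lit 357)) (XT.lf (nat_lit 304) (nat_lit 10282348238) (nat_lit 0) (nat_lit 5945873449) (nat_lit 228) (nat_lit 5945873449) (nat_lit 190) (nat_lit 1) (nat_lit 186) (nat_lit 1) (nat_lit 189) (nat_lit 1) (nat_lit 236) (nat_lit 428) (nat_lit 356))))) (XT.nd (nat_lit 156) (nat_lit 380) (nat_lit 0) (XT.nd (nat_lit 78) (nat_lit 228) (nat_lit 0) (XT.lf (nat_lit 76) (nat_lit 2199193599) (nat_lit 0) (nat_lit 17536551351) (nat_lit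 304) (nat_lit 2199193599) (nat_lit 187) (nat_lit 1) (nat_lit 186) (nat_lit 1) (nat_lit 190) (nat_lit 1) (nat_lit 237) (nat_lit 428) (nat_lit 355)) (XT.lf (nat_lit 76) (nat_lit 10120093924) (nat_lit 0) (nat_lit 1457123690) (nat_lit 228) (nat_lit 10120093924) (nat_lit 184) (nat_lit 1) (nat_lit 183) (nat_lit 1) (nat_lit 186) (nat_lit 1) (nat_lit 238) (nat_lit 428) (nat_lit 354))) (XT.nd (nat_lit 78) (nat_lit 152) (nat_lit 0) (XT.lf (nat_lit 304) (nat_lit 14349624591) (nat_lit 0) (nat_lit 3557044841) (nat_lit 228) (nat_lit 3557044841) (nat_lit 184) (nat_lit 1) (nat_lit 180) (nat_lit 1) (nat_lit 183) (nat_lit 1) (nat_lit 239) (nat_lit 428) (nat_lit 353)) (XT.nd (nat_lit 78) (nat_lit 152) (nat_lit 0) (XT.lf (nat_lit 76) (nat_lit 4244277823) (nat_lit 0) (nat_lit 12744227045) (nat_lit 304) (nat_lit 4244277823) (nat_lit 181) (nat_lit 1) (nat_lit 180) (nat_lit 1) (nat_lit 184) (nat_lit 1) (nat_lit 240) (nat_lit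 428) (nat_lit 352)) (XT.lf (nat_lit 228) (nat_lit 2673254045) (nat_lit 0) (nat_lit 9165842049) (nat_lit 152) (nat_lit 9165842049) (nat_lit 181) (nat_lit 1) (nat_lit 178) (nat_lit 1) (nat_lit 180) (nat_lit 1) (nat_lit 241) (nat_lit 428) (nat_lit 351))))))) (XT.nd (nat_lit 702) (nat_lit 1064) (nat_lit 0) (XT.nd (nat_lit 312) (nat_lit 760) (nat_lit 0) (XT.nd (nat_lit 156) (nat_lit 152) (nat_lit 0) (XT.nd (nat_lit 78) (nat_lit 0) (nat_lit 0) (XT.lf (nat_lit 304) (nat_lit 17811486039) (nat_lit 0) (nat_lit 1484867195) (nat_lit 228) (nat_lit 1484867195) (nat_lit 178) (nat_lit 1) (nat_lit 174) (nat_lit 1) (nat_lit 177) (nat_lit 1) (nat_lit 242) (nat_lit 428) (nat_lit 350)) (XT.lf (nat_lit 76) (nat_lit 5994600237) (nat_lit 0) (nat_lit 8568933388) (nat_lit 304) (nat_lit 5994600237) (nat_lit 175) (nat_lit 1) (nat_lit 174) (nat_lit 1) (nat_lit 178) (nat_lit 1) (nat_lit 243) (nat_lit 428) (nat_lit 349))) (XT.nd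 (nat_lit 78) (nat_lit 0) (nat_lit 0) (XT.lf (nat_lit 228) (nat_lit 6252486892) (nat_lit 0) (nat_lit 7043305601) (nat_lit 152) (nat_lit 7043305601) (nat_lit 175) (nat_lit 1) (nat_lit 172) (nat_lit 1) (nat_lit 174) (nat_lit 1) (nat_lit 244) (nat_lit 428) (nat_lit 348)) (XT.lf (nat_lit 76) (nat_lit 310478122) (nat_lit 0) (nat_lit 19503682683) (nat_lit 228) (nat_lit 310478122) (nat_lit 173) (nat_lit 1) (nat_lit 172) (nat_lit 1) (nat_lit 175) (nat_lit 1) (nat_lit 245) (nat_lit 428) (nat_lit 347)))) (XT.nd (nat_lit 156) (nat_lit 380) (nat_lit 0) (XT.nd (nat_lit 78) (nat_lit 152) (nat_lit 0) (XT.lf (nat_lit 76) (nat_lit 7484973565) (nat_lit 0) (nat_lit 4939456935) (nat_lit 228) (nat_lit 7484973565) (nat_lit 170) (nat_lit 1) (nat_lit 169) (nat_lit 1) (nat_lit 172) (nat_lit 1) (nat_lit 246) (nat_lit 428) (nat_lit 346)) (XT.lf (nat_lit 228) (nat_lit 9319656823) (nat_lit 0) (nat_lit 5189510711) (nat_lit 152) (nat_lit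 5189510711) (nat_lit 170) (nat_lit 1) (nat_lit 167) (nat_lit 1) (nat_lit 169) (nat_lit 1) (nat_lit 247) (nat_lit 428) (nat_lit 345))) (XT.nd (nat_lit 78) (nat_lit 380) (nat_lit 0) (XT.lf (nat_lit 76) (nat_lit 1870832124) (nat_lit 0) (nat_lit 15749738236) (nat_lit 228) (nat_lit 1870832124) (nat_lit 168) (nat_lit 1) (nat_lit 167) (nat_lit 1) (nat_lit 170) (nat_lit 1) (nat_lit 248) (nat_lit 428) (nat_lit 344)) (XT.nd (nat_lit 78) (nat_lit 152) (nat_lit 0) (XT.lf (nat_lit 76) (nat_lit 8746271869) (nat_lit 0) (nat_lit 1792595554) (nat_lit 228) (nat_lit 8746271869) (nat_lit 165) (nat_lit 1) (nat_lit 164) (nat_lit 1) (nat_lit 167) (nat_lit 1) (nat_lit 249) (nat_lit 428) (nat_lit 343)) (XT.lf (nat_lit 228) (nat_lit 11935154768) (nat_lit 0) (nat_lit 3573555683) (nat_lit 152) (nat_lit 3573555683) (nat_lit 165) (nat_lit 1) (nat_lit 162) (nat_lit 1) (nat_lit 164) (nat_lit 1) (nat_lit 250) (nat_lit 428) (nat_lit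 342)))))) (XT.nd (nat_lit 390) (nat_lit 532) (nat_lit 0) (XT.nd (nat_lit 156) (nat_lit 380) (nat_lit 0) (XT.nd (nat_lit 78) (nat_lit 152) (nat_lit 0) (XT.lf (nat_lit 76) (nat_lit 3210730824) (nat_lit 0) (nat_lit 12460398416) (nat_lit 228) (nat_lit 3210730824) (nat_lit 163) (nat_lit 1) (nat_lit 162) (nat_lit 1) (nat_lit 165) (nat_lit 1) (nat_lit 251) (nat_lit 428) (nat_lit 341)) (XT.lf (nat_lit 228) (nat_lit 946200761) (nat_lit 0) (nat_lit 8868766110) (nat_lit 152) (nat_lit 8868766110) (nat_lit 163) (nat_lit 1) (nat_lit 160) (nat_lit 1) (nat_lit 162) (nat_lit 1) (nat_lit 252) (nat_lit 428) (nat_lit 340))) (XT.nd (nat_lit 78) (nat_lit 152) (nat_lit 0) (XT.lf (nat_lit 228) (nat_lit 14152541485) (nat_lit 0) (nat_lit 2168011950) (nat_lit 152) (nat_lit 2168011950) (nat_lit 160) (nat_lit 1) (nat_lit 157) (nat_lit 1) (nat_lit 159) (nat_lit 1) (nat_lit 253) (nat_lit 428) (nat_lit 339)) (XT.nd (nat_lit 78) (nat_lit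 152) (nat_lit 0) (XT.lf (nat_lit 76) (nat_lit 4356110919) (nat_lit 0) (nat_lit 9582514241) (nat_lit 228) (nat_lit 4356110919) (nat_lit 158) (nat_lit 1) (nat_lit 157) (nat_lit 1) (nat_lit 160) (nat_lit 1) (nat_lit 254) (nat_lit 428) (nat_lit 338)) (XT.lf (nat_lit 228) (nat_lit 3336411884) (nat_lit 0) (nat_lit 7383702052) (nat_lit 152) (nat_lit 7383702052) (nat_lit 158) (nat_lit 1) (nat_lit 155) (nat_lit 1) (nat_lit 157) (nat_lit 1) (nat_lit 255) (nat_lit 428) (nat_lit 337))))) (XT.nd (nat_lit 156) (nat_lit 304) (nat_lit 0) (XT.nd (nat_lit 78) (nat_lit 0) (nat_lit 0) (XT.lf (nat_lit 228) (nat_lit 16019311997) (nat_lit 0) (nat_lit 948535985) (nat_lit 152) (nat_lit 948535985) (nat_lit 155) (nat_lit 1) (nat_lit 152) (nat_lit 1) (nat_lit 154) (nat_lit 1) (nat_lit 256) (nat_lit 428) (nat_lit 336)) (XT.lf (nat_lit 76) (nat_lit 5329977419) (nat_lit 0) (nat_lit 7068902544) (nat_lit 228) (nat_lit 5329977419) (nat_lit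 153) (nat_lit 1) (nat_lit 152) (nat_lit 1) (nat_lit 155) (nat_lit 1) (nat_lit 257) (nat_lit 428) (nat_lit 335))) (XT.nd (nat_lit 78) (nat_lit 152) (nat_lit 0) (XT.lf (nat_lit 228) (nat_lit 5387392496) (nat_lit 0) (nat_lit 6078690854) (nat_lit 152) (nat_lit 6078690854) (nat_lit 153) (nat_lit 1) (nat_lit 150) (nat_lit 1) (nat_lit 152) (nat_lit 1) (nat_lit 258) (nat_lit 428) (nat_lit 334)) (XT.nd (nat_lit 78) (nat_lit 152) (nat_lit 0) (XT.lf (nat_lit 76) (nat_lit 107529705) (nat_lit 0) (nat_lit 17149439655) (nat_lit 228) (nat_lit 107529705) (nat_lit 151) (nat_lit 1) (nat_lit 150) (nat_lit 1) (nat_lit 153) (nat_lit 1) (nat_lit 259) (nat_lit 428) (nat_lit 333)) (XT.lf (nat_lit 76) (nat_lit 6152731717) (nat_lit 0) (nat_lit 4877679570) (nat_lit 152) (nat_lit 6152731717) (nat_lit 149) (nat_lit 1) (nat_lit 148) (nat_lit 1) (nat_lit 150) (nat_lit 1) (nat_lit 260) (nat_lit 428) (nat_lit 332))))))))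
noncomputable def ec467 : XT := (XT.nd (nat_lit 1482) (nat_lit 1444) (nat_lit 0) (XT.nd (nat_lit 702) (nat_lit 1140) (nat_lit 0) (XT.nd (nat_lit 312) (nat_lit 380) (nat_lit 0) (XT.nd (nat_lit 156) (nat_lit 304) (nat_lit 0) (XT.nd (nat_lit 78) (nat_lit 0) (nat_lit 0) (XT.lf (nat_lit 228) (nat_lit 7139088406) (nat_lit 0) (nat_lit 4933233447) (nat_lit 152) (nat_lit 4933233447) (nat_lit 149) (nat_lit 1) (nat_lit 146) (nat_lit 1) (nat_lit 148) (nat_lit 1) (nat_lit 261) (nat_lit 428) (nat_lit 331)) (XT.lf (nat_lit 76) (nat_lit 1026253138) (nat_lit 0) (nat_lit 14778575018) (nat_lit 228) (nat_lit 1026253138) (nat_lit 147) (nat_lit 1) (nat_lit 146) (nat_lit 1) (nat_lit 149) (nat_lit 1) (nat_lit 262) (nat_lit 428) (nat_lit 330))) (XT.nd (nat_lit 78) (nat_lit 152) (nat_lit 0) (XT.lf (nat_lit 76) (nat_lit 6842463036) (nat_lit 0) (nat_lit 2971668925) (nat_lit 152) (nat_lit 6842463036) (nat_lit 145) (nat_lit 1) (nat_lit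 144) (nat_lit 1) (nat_lit 146) (nat_lit 1) (nat_lit 263) (nat_lit 428) (nat_lit 329)) (XT.lf (nat_lit 228) (nat_lit 8626929284) (nat_lit 0) (nat_lit 3929128929) (nat_lit 152) (nat_lit 3929128929) (nat_lit 145) (nat_lit 1) (nat_lit 142) (nat_lit 1) (nat_lit 144) (nat_lit 1) (nat_lit 264) (nat_lit 428) (nat_lit 328)))) (XT.nd (nat_lit 156) (nat_lit 228) (nat_lit 0) (XT.nd (nat_lit 78) (nat_lit 152) (nat_lit 0) (XT.lf (nat_lit 76) (nat_lit 1815418824) (nat_lit 0) (nat_lit 12685446282) (nat_lit 228) (nat_lit 1815418824) (nat_lit 143) (nat_lit 1) (nat_lit 142) (nat_lit 1) (nat_lit 145) (nat_lit 1) (nat_lit 265) (nat_lit 428) (nat_lit 327)) (XT.lf (nat_lit 76) (nat_lit 7415207353) (nat_lit 0) (nat_lit 1317875568) (nat_lit 152) (nat_lit 7415207353) (nat_lit 141) (nat_lit 1) (nat_lit 140) (nat_lit 1) (nat_lit 142) (nat_lit 1) (nat_lit 266) (nat_lit 428) (nat_lit 326))) (XT.nd (nat_lit 78) (nat_lit 76) (nat_lit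 0) (XT.lf (nat_lit 228) (nat_lit 9882334059) (nat_lit 0) (nat_lit 3050217938) (nat_lit 152) (nat_lit 3050217938) (nat_lit 141) (nat_lit 1) (nat_lit 138) (nat_lit 1) (nat_lit 140) (nat_lit 1) (nat_lit 267) (nat_lit 428) (nat_lit 325)) (XT.nd (nat_lit 78) (nat_lit 76) (nat_lit 0) (XT.lf (nat_lit 76) (nat_lit 2490263686) (nat_lit 0) (nat_lit 10838693352) (nat_lit 228) (nat_lit 2490263686) (nat_lit 139) (nat_lit 1) (nat_lit 138) (nat_lit 1) (nat_lit 141) (nat_lit 1) (nat_lit 268) (nat_lit 428) (nat_lit 324)) (XT.lf (nat_lit 152) (nat_lit 115230057) (nat_lit 0) (nat_lit 7771055013) (nat_lit 76) (nat_lit 7771055013) (nat_lit 139) (nat_lit 1) (nat_lit 137) (nat_lit 1) (nat_lit 138) (nat_lit 1) (nat_lit 269) (nat_lit 428) (nat_lit 323)))))) (XT.nd (nat_lit 390) (nat_lit 608) (nat_lit 0) (XT.nd (nat_lit 156) (nat_lit 304) (nat_lit 0) (XT.nd (nat_lit 78) (nat_lit 0) (nat_lit 0) (XT.lf (nat_lit 228) (nat_lit 10933159918)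 (nat_lit 0) (nat_lit 2282154640) (nat_lit 152) (nat_lit 2282154640) (nat_lit 137) (nat_lit 1) (nat_lit 134) (nat_lit 1) (nat_lit 136) (nat_lit 1) (nat_lit 270) (nat_lit 428) (nat_lit 322)) (XT.lf (nat_lit 76) (nat_lit 3064302541) (nat_lit 0) (nat_lit 9210464516) (nat_lit 228) (nat_lit 3064302541) (nat_lit 135) (nat_lit 1) (nat_lit 134) (nat_lit 1) (nat_lit 137) (nat_lit 1) (nat_lit 271) (nat_lit 428) (nat_lit 321))) (XT.nd (nat_lit 78) (nat_lit 228) (nat_lit 0) (XT.lf (nat_lit 152) (nat_lit 1373690066) (nat_lit 0) (nat_lit 6904481728) (nat_lit 76) (nat_lit 6904481728) (nat_lit 135) (nat_lit 1) (nat_lit 133) (nat_lit 1) (nat_lit 134) (nat_lit 1) (nat_lit 272) (nat_lit 428) (nat_lit 320)) (XT.nd (nat_lit 78) (nat_lit 0) (nat_lit 0) (XT.lf (nat_lit 228) (nat_lit 11804101178) (nat_lit 0) (nat_lit 1612204168) (nat_lit 152) (nat_lit 1612204168) (nat_lit 133) (nat_lit 1) (nat_lit 130) (nat_lit 1) (nat_lit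 132) (nat_lit 1) (nat_lit 273) (nat_lit 428) (nat_lit 319)) (XT.lf (nat_lit 76) (nat_lit 3549520798) (nat_lit 0) (nat_lit 7776024891) (nat_lit 228) (nat_lit 3549520798) (nat_lit 131) (nat_lit 1) (nat_lit 130) (nat_lit 1) (nat_lit 133) (nat_lit 1) (nat_lit 274) (nat_lit 428) (nat_lit 318))))) (XT.nd (nat_lit 156) (nat_lit 304) (nat_lit 0) (XT.nd (nat_lit 78) (nat_lit 228) (nat_lit 0) (XT.lf (nat_lit 152) (nat_lit 2454787047) (nat_lit 0) (nat_lit 6134542588) (nat_lit 76) (nat_lit 6134542588) (nat_lit 131) (nat_lit 1) (nat_lit 129) (nat_lit 1) (nat_lit 130) (nat_lit 1) (nat_lit 275) (nat_lit 428) (nat_lit 317)) (XT.lf (nat_lit 228) (nat_lit 12517043628) (nat_lit 0) (nat_lit 1029062647) (nat_lit 152) (nat_lit 1029062647) (nat_lit 129) (nat_lit 1) (nat_lit 126) (nat_lit 1) (nat_lit 128) (nat_lit 1) (nat_lit 276) (nat_lit 428) (nat_lit 316))) (XT.nd (nat_lit 78) (nat_lit 304) (nat_lit 0) (XT.lf (nat_lit 76)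 (nat_lit 3956545663) (nat_lit 0) (nat_lit 6513408530) (nat_lit 228) (nat_lit 3956545663) (nat_lit 127) (nat_lit 1) (nat_lit 126) (nat_lit 1) (nat_lit 129) (nat_lit 1) (nat_lit 277) (nat_lit 428) (nat_lit 315)) (XT.nd (nat_lit 78) (nat_lit 228) (nat_lit 0) (XT.lf (nat_lit 152) (nat_lit 3379377775) (nat_lit 0) (nat_lit 5450461634) (nat_lit 76) (nat_lit 5450461634) (nat_lit 127) (nat_lit 1) (nat_lit 125) (nat_lit 1) (nat_lit 126) (nat_lit 1) (nat_lit 278) (nat_lit 428) (nat_lit 314)) (XT.lf (nat_lit 228) (nat_lit 13091379316) (nat_lit 0) (nat_lit 522697305) (nat_lit 152) (nat_lit 522697305) (nat_lit 125) (nat_lit 1) (nat_lit 122) (nat_lit 1) (nat_lit 124) (nat_lit 1) (nat_lit 279) (nat_lit 428) (nat_lit 313))))))) (XT.nd (nat_lit 702) (nat_lit 836) (nat_lit 0) (XT.nd (nat_lit 312) (nat_lit 304) (nat_lit 0) (XT.nd (nat_lit 156) (nat_lit 228) (nat_lit 0) (XT.nd (nat_lit 78) (nat_lit 76) (nat_lit 0) (XT.lf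 (nat_lit 76) (nat_lit 4294798223) (nat_lit 0) (nat_lit 5403109339) (nat_lit 228) (nat_lit 4294798223) (nat_lit 123) (nat_lit 1) (nat_lit 122) (nat_lit 1) (nat_lit 125) (nat_lit 1) (nat_lit 280) (nat_lit 428) (nat_lit 312)) (XT.lf (nat_lit 152) (nat_lit 4165961808) (nat_lit 0) (nat_lit 4842664567) (nat_lit 76) (nat_lit 4842664567) (nat_lit 123) (nat_lit 1) (nat_lit 121) (nat_lit 1) (nat_lit 122) (nat_lit 1) (nat_lit 281) (nat_lit 428) (nat_lit 311))) (XT.nd (nat_lit 78) (nat_lit 0) (nat_lit 0) (XT.lf (nat_lit 228) (nat_lit 13544286179) (nat_lit 0) (nat_lit 84204418) (nat_lit 152) (nat_lit 84204418) (nat_lit 121) (nat_lit 1) (nat_lit 118) (nat_lit 1) (nat_lit 120) (nat_lit 1) (nat_lit 282) (nat_lit 428) (nat_lit 310)) (XT.lf (nat_lit 76) (nat_lit 4572628564) (nat_lit 0) (nat_lit 4427806475) (nat_lit 228) (nat_lit 4572628564) (nat_lit 119) (nat_lit 1) (nat_lit 118) (nat_lit 1) (nat_lit 121) (nat_lit 1)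 (nat_lit 283) (nat_lit 428) (nat_lit 309)))) (XT.nd (nat_lit 156) (nat_lit 228) (nat_lit 0) (XT.nd (nat_lit 78) (nat_lit 0) (nat_lit 0) (XT.lf (nat_lit 152) (nat_lit 4830945268) (nat_lit 0) (nat_lit 4302644745) (nat_lit 76) (nat_lit 4302644745) (nat_lit 119) (nat_lit 1) (nat_lit 117) (nat_lit 1) (nat_lit 118) (nat_lit 1) (nat_lit 284) (nat_lit 428) (nat_lit 308)) (XT.lf (nat_lit 0) (nat_lit 297230918) (nat_lit 0) (nat_lit 12707536245) (nat_lit 152) (nat_lit 297230918) (nat_lit 117) (nat_lit 3) (nat_lit 117) (nat_lit 1) (nat_lit 119) (nat_lit 1) (nat_lit 285) (nat_lit 428) (nat_lit 307))) (XT.nd (nat_lit 78) (nat_lit 76) (nat_lit 0) (XT.lf (nat_lit 76) (nat_lit 4797435786) (nat_lit 0) (nat_lit 3572120362) (nat_lit 152) (nat_lit 4797435786) (nat_lit 116) (nat_lit 1) (nat_lit 115) (nat_lit 1) (nat_lit 117) (nat_lit 1) (nat_lit 286) (nat_lit 428) (nat_lit 306)) (XT.nd (nat_lit 78) (nat_lit 0) (nat_lit 0)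 (XT.lf (nat_lit 152) (nat_lit 5388875174) (nat_lit 0) (nat_lit 3822844128) (nat_lit 76) (nat_lit 3822844128) (nat_lit 116) (nat_lit 1) (nat_lit 114) (nat_lit 1) (nat_lit 115) (nat_lit 1) (nat_lit 287) (nat_lit 428) (nat_lit 305)) (XT.lf (nat_lit 0) (nat_lit 626014162) (nat_lit 0) (nat_lit 11652409706) (nat_lit 152) (nat_lit 626014162) (nat_lit 114) (nat_lit 3) (nat_lit 114) (nat_lit 1) (nat_lit 116) (nat_lit 1) (nat_lit 288) (nat_lit 428) (nat_lit 304)))))) (XT.nd (nat_lit 390) (nat_lit 380) (nat_lit 0) (XT.nd (nat_lit 156) (nat_lit 228) (nat_lit 0) (XT.nd (nat_lit 78) (nat_lit 76) (nat_lit 0) (XT.lf (nat_lit 76) (nat_lit 4975774640) (nat_lit 0) (nat_lit 2822395936) (nat_lit 152) (nat_lit 4975774640) (nat_lit 113) (nat_lit 1) (nat_lit 112) (nat_lit 1) (nat_lit 114) (nat_lit 1) (nat_lit 289) (nat_lit 428) (nat_lit 303)) (XT.lf (nat_lit 152) (nat_lit 5852647615) (nat_lit 0) (nat_lit 3396547494) (nat_lit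 76) (nat_lit 3396547494) (nat_lit 113) (nat_lit 1) (nat_lit 111) (nat_lit 1) (nat_lit 112) (nat_lit 1) (nat_lit 290) (nat_lit 428) (nat_lit 302))) (XT.nd (nat_lit 78) (nat_lit 228) (nat_lit 0) (XT.lf (nat_lit 0) (nat_lit 907592214) (nat_lit 0) (nat_lit 10704401840) (nat_lit 152) (nat_lit 907592214) (nat_lit 111) (nat_lit 3) (nat_lit 111) (nat_lit 1) (nat_lit 113) (nat_lit 1) (nat_lit 291) (nat_lit 428) (nat_lit 301)) (XT.nd (nat_lit 78) (nat_lit 76) (nat_lit 0) (XT.lf (nat_lit 76) (nat_lit 5113450234) (nat_lit 0) (nat_lit 2166510059) (nat_lit 152) (nat_lit 5113450234) (nat_lit 110) (nat_lit 1) (nat_lit 109) (nat_lit 1) (nat_lit 111) (nat_lit 1) (nat_lit 292) (nat_lit 428) (nat_lit 300)) (XT.lf (nat_lit 152) (nat_lit 6233692688) (nat_lit 0) (nat_lit 3017788456) (nat_lit 76) (nat_lit 3017788456) (nat_lit 110) (nat_lit 1) (nat_lit 108) (nat_lit 1) (nat_lit 109) (nat_lit 1) (nat_lit 293) (nat_lit 428) (nat_lit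 299))))) (XT.nd (nat_lit 156) (nat_lit 228) (nat_lit 0) (XT.nd (nat_lit 78) (nat_lit 152) (nat_lit 0) (XT.lf (nat_lit 0) (nat_lit 1147536101) (nat_lit 0) (nat_lit 9851874564) (nat_lit 152) (nat_lit 1147536101) (nat_lit 108) (nat_lit 3) (nat_lit 108) (nat_lit 1) (nat_lit 110) (nat_lit 1) (nat_lit 294) (nat_lit 428) (nat_lit 298)) (XT.lf (nat_lit 76) (nat_lit 5215602179) (nat_lit 0) (nat_lit 1593700424) (nat_lit 152) (nat_lit 5215602179) (nat_lit 107) (nat_lit 1) (nat_lit 106) (nat_lit 1) (nat_lit 108) (nat_lit 1) (nat_lit 295) (nat_lit 428) (nat_lit 297))) (XT.nd (nat_lit 78) (nat_lit 152) (nat_lit 0) (XT.lf (nat_lit 152) (nat_lit 6542138794) (nat_lit 0) (nat_lit 2681265956) (nat_lit 76) (nat_lit 2681265956) (nat_lit 107) (nat_lit 1) (nat_lit 105) (nat_lit 1) (nat_lit 106) (nat_lit 1) (nat_lit 296) (nat_lit 428) (nat_lit 296)) (XT.nd (nat_lit 78) (nat_lit 152) (nat_lit 0) (XT.lf (nat_lit 0) (nat_lit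 1350786665) (nat_lit 0) (nat_lit 9084478650) (nat_lit 152) (nat_lit 1350786665) (nat_lit 105) (nat_lit 3) (nat_lit 105) (nat_lit 1) (nat_lit 107) (nat_lit 1) (nat_lit 297) (nat_lit 428) (nat_lit 295)) (XT.lf (nat_lit 76) (nat_lit 5286779330) (nat_lit 0) (nat_lit 1094413542) (nat_lit 152) (nat_lit 5286779330) (nat_lit 104) (nat_lit 1) (nat_lit 103) (nat_lit 1) (nat_lit 105) (nat_lit 1) (nat_lit 298) (nat_lit 428) (nat_lit 294))))))))
noncomputable def ec468 : XT := (XT.nd (nat_lit 1404) (nat_lit 1520) (nat_lit 0) (XT.nd (nat_lit 702) (nat_lit 684) (nat_lit 0) (XT.nd (nat_lit 312) (nat_lit 304) (nat_lit 0) (XT.nd (nat_lit 156) (nat_lit 228) (nat_lit 0) (XT.nd (nat_lit 78) (nat_lit 0) (nat_lit 0) (XT.lf (nat_lit 152) (nat_lit 6786958574) (nat_lit 0) (nat_lit 2382270074) (nat_lit 76) (nat_lit 2382270074) (nat_lit 104) (nat_lit 1) (nat_lit 102) (nat_lit 1) (nat_lit 103) (nat_lit 1) (nat_lit 299) (nat_lit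 428) (nat_lit 293)) (XT.lf (nat_lit 0) (nat_lit 1521725100) (nat_lit 0) (nat_lit 8393010261) (nat_lit 152) (nat_lit 1521725100) (nat_lit 102) (nat_lit 3) (nat_lit 102) (nat_lit 1) (nat_lit 104) (nat_lit 1) (nat_lit 300) (nat_lit 428) (nat_lit 292))) (XT.nd (nat_lit 78) (nat_lit 76) (nat_lit 0) (XT.lf (nat_lit 76) (nat_lit 5331006170) (nat_lit 0) (nat_lit 660169690) (nat_lit 152) (nat_lit 5331006170) (nat_lit 101) (nat_lit 1) (nat_lit 100) (nat_lit 1) (nat_lit 102) (nat_lit 1) (nat_lit 301) (nat_lit 428) (nat_lit 291)) (XT.lf (nat_lit 152) (nat_lit 6976098564) (nat_lit 0) (nat_lit 2116616105) (nat_lit 76) (nat_lit 2116616105) (nat_lit 101) (nat_lit 1) (nat_lit 99) (nat_lit 1) (nat_lit 100) (nat_lit 1) (nat_lit 302) (nat_lit 428) (nat_lit 290)))) (XT.nd (nat_lit 156) (nat_lit 152) (nat_lit 0) (XT.nd (nat_lit 78) (nat_lit 152) (nat_lit 0) (XT.lf (nat_lit 0) (nat_lit 1664235608) (nat_lit 0) (nat_lit 7769283477)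 (nat_lit 152) (nat_lit 1664235608) (nat_lit 99) (nat_lit 3) (nat_lit 99) (nat_lit 1) (nat_lit 101) (nat_lit 1) (nat_lit 303) (nat_lit 428) (nat_lit 289)) (XT.lf (nat_lit 76) (nat_lit 5351841788) (nat_lit 0) (nat_lit 283442931) (nat_lit 152) (nat_lit 5351841788) (nat_lit 98) (nat_lit 1) (nat_lit 97) (nat_lit 1) (nat_lit 99) (nat_lit 1) (nat_lit 304) (nat_lit 428) (nat_lit 288))) (XT.nd (nat_lit 78) (nat_lit 76) (nat_lit 0) (XT.lf (nat_lit 152) (nat_lit 7116594361) (nat_lit 0) (nat_lit 1880585995) (nat_lit 76) (nat_lit 1880585995) (nat_lit 98) (nat_lit 1) (nat_lit 96) (nat_lit 1) (nat_lit 97) (nat_lit 1) (nat_lit 305) (nat_lit 428) (nat_lit 287)) (XT.nd (nat_lit 78) (nat_lit 76) (nat_lit 0) (XT.lf (nat_lit 0) (nat_lit 1781761070) (nat_lit 0) (nat_lit 7206017028) (nat_lit 152) (nat_lit 1781761070) (nat_lit 96) (nat_lit 3) (nat_lit 96) (nat_lit 1) (nat_lit 98) (nat_lit 1) (nat_lit 306) (nat_lit 428) (nat_lit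 286)) (XT.lf (nat_lit 76) (nat_lit 43290236) (nat_lit 0) (nat_lit 5309558157) (nat_lit 76) (nat_lit 5309558157) (nat_lit 96) (nat_lit 3) (nat_lit 95) (nat_lit 1) (nat_lit 96) (nat_lit 1) (nat_lit 307) (nat_lit 428) (nat_lit 285)))))) (XT.nd (nat_lit 312) (nat_lit 304) (nat_lit 0) (XT.nd (nat_lit 156) (nat_lit 228) (nat_lit 0) (XT.nd (nat_lit 78) (nat_lit 0) (nat_lit 0) (XT.lf (nat_lit 152) (nat_lit 7214672927) (nat_lit 0) (nat_lit 1670876299) (nat_lit 76) (nat_lit 1670876299) (nat_lit 95) (nat_lit 1) (nat_lit 93) (nat_lit 1) (nat_lit 94) (nat_lit 1) (nat_lit 308) (nat_lit 428) (nat_lit 284)) (XT.lf (nat_lit 0) (nat_lit 1877352495) (nat_lit 0) (nat_lit 6696733659) (nat_lit 152) (nat_lit 1877352495) (nat_lit 93) (nat_lit 3) (nat_lit 93) (nat_lit 1) (nat_lit 95) (nat_lit 1) (nat_lit 309) (nat_lit 428) (nat_lit 283))) (XT.nd (nat_lit 78) (nat_lit 152) (nat_lit 0) (XT.lf (nat_lit 76) (nat_lit 329858570)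 (nat_lit 0) (nat_lit 5008869408) (nat_lit 76) (nat_lit 5008869408) (nat_lit 93) (nat_lit 3) (nat_lit 92) (nat_lit 1) (nat_lit 93) (nat_lit 1) (nat_lit 310) (nat_lit 428) (nat_lit 282)) (XT.lf (nat_lit 152) (nat_lit 7275843462) (nat_lit 0) (nat_lit 1484551950) (nat_lit 76) (nat_lit 1484551950) (nat_lit 92) (nat_lit 1) (nat_lit 90) (nat_lit 1) (nat_lit 91) (nat_lit 1) (nat_lit 311) (nat_lit 428) (nat_lit 281)))) (XT.nd (nat_lit 156) (nat_lit 228) (nat_lit 0) (XT.nd (nat_lit 78) (nat_lit 76) (nat_lit 0) (XT.lf (nat_lit 0) (nat_lit 1953712951) (nat_lit 0) (nat_lit 6235670694) (nat_lit 152) (nat_lit 1953712951) (nat_lit 90) (nat_lit 3) (nat_lit 90) (nat_lit 1) (nat_lit 92) (nat_lit 1) (nat_lit 312) (nat_lit 428) (nat_lit 280)) (XT.lf (nat_lit 76) (nat_lit 575983567) (nat_lit 0) (nat_lit 4733224094) (nat_lit 76) (nat_lit 4733224094) (nat_lit 90) (nat_lit 3) (nat_lit 89) (nat_lit 1) (nat_lit 90) (nat_lit 1)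 (nat_lit 313) (nat_lit 428) (nat_lit 279))) (XT.nd (nat_lit 78) (nat_lit 76) (nat_lit 0) (XT.lf (nat_lit 152) (nat_lit 7304978127) (nat_lit 0) (nat_lit 1319005180) (nat_lit 76) (nat_lit 1319005180) (nat_lit 89) (nat_lit 1) (nat_lit 87) (nat_lit 1) (nat_lit 88) (nat_lit 1) (nat_lit 314) (nat_lit 428) (nat_lit 278)) (XT.nd (nat_lit 78) (nat_lit 76) (nat_lit 0) (XT.lf (nat_lit 0) (nat_lit 2013236589) (nat_lit 0) (nat_lit 5817700583) (nat_lit 152) (nat_lit 2013236589) (nat_lit 87) (nat_lit 3) (nat_lit 87) (nat_lit 1) (nat_lit 89) (nat_lit 1) (nat_lit 315) (nat_lit 428) (nat_lit 277)) (XT.lf (nat_lit 76) (nat_lit 786422386) (nat_lit 0) (nat_lit 4480076749) (nat_lit 76) (nat_lit 4480076749) (nat_lit 87) (nat_lit 3) (nat_lit 86) (nat_lit 1) (nat_lit 87) (nat_lit 1) (nat_lit 316) (nat_lit 428) (nat_lit 276))))))) (XT.nd (nat_lit 702) (nat_lit 836) (nat_lit 0) (XT.nd (nat_lit 312) (nat_lit 304) (nat_lit 0) (XT.nd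 (nat_lit 156) (nat_lit 228) (nat_lit 0) (XT.nd (nat_lit 78) (nat_lit 0) (nat_lit 0) (XT.lf (nat_lit 152) (nat_lit 7306383740) (nat_lit 0) (nat_lit 1171919018) (nat_lit 76) (nat_lit 1171919018) (nat_lit 86) (nat_lit 1) (nat_lit 84) (nat_lit 1) (nat_lit 85) (nat_lit 1) (nat_lit 317) (nat_lit 428) (nat_lit 275)) (XT.lf (nat_lit 0) (nat_lit 2058043310) (nat_lit 0) (nat_lit 5438260293) (nat_lit 152) (nat_lit 2058043310) (nat_lit 84) (nat_lit 3) (nat_lit 84) (nat_lit 1) (nat_lit 86) (nat_lit 1) (nat_lit 318) (nat_lit 428) (nat_lit 274))) (XT.nd (nat_lit 78) (nat_lit 152) (nat_lit 0) (XT.lf (nat_lit 76) (nat_lit 965394500) (nat_lit 0) (nat_lit 4247158561) (nat_lit 76) (nat_lit 4247158561) (nat_lit 84) (nat_lit 3) (nat_lit 83) (nat_lit 1) (nat_lit 84) (nat_lit 1) (nat_lit 319) (nat_lit 428) (nat_lit 273)) (XT.lf (nat_lit 152) (nat_lit 7283865465) (nat_lit 0) (nat_lit 1041234869) (nat_lit 76) (nat_lit 1041234869)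 (nat_lit 83) (nat_lit 1) (nat_lit 81) (nat_lit 1) (nat_lit 82) (nat_lit 1) (nat_lit 320) (nat_lit 428) (nat_lit 272)))) (XT.nd (nat_lit 156) (nat_lit 228) (nat_lit 0) (XT.nd (nat_lit 78) (nat_lit 76) (nat_lit 0) (XT.lf (nat_lit 0) (nat_lit 2090009559) (nat_lit 0) (nat_lit 5093288568) (nat_lit 152) (nat_lit 2090009559) (nat_lit 81) (nat_lit 3) (nat_lit 81) (nat_lit 1) (nat_lit 83) (nat_lit 1) (nat_lit 321) (nat_lit 428) (nat_lit 271)) (XT.lf (nat_lit 76) (nat_lit 1116641864) (nat_lit 0) (nat_lit 4032446726) (nat_lit 76) (nat_lit 4032446726) (nat_lit 81) (nat_lit 3) (nat_lit 80) (nat_lit 1) (nat_lit 81) (nat_lit 1) (nat_lit 322) (nat_lit 428) (nat_lit 270))) (XT.nd (nat_lit 78) (nat_lit 76) (nat_lit 0) (XT.lf (nat_lit 152) (nat_lit 7240783372) (nat_lit 0) (nat_lit 925123695) (nat_lit 76) (nat_lit 925123695) (nat_lit 80) (nat_lit 1) (nat_lit 78) (nat_lit 1) (nat_lit 79) (nat_lit 1) (nat_lit 323) (nat_lit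 428) (nat_lit 269)) (XT.nd (nat_lit 78) (nat_lit 76) (nat_lit 0) (XT.lf (nat_lit 0) (nat_lit 2110795680) (nat_lit 0) (nat_lit 4779170180) (nat_lit 152) (nat_lit 2110795680) (nat_lit 78) (nat_lit 3) (nat_lit 78) (nat_lit 1) (nat_lit 80) (nat_lit 1) (nat_lit 324) (nat_lit 428) (nat_lit 268)) (XT.lf (nat_lit 76) (nat_lit 1243482371) (nat_lit 0) (nat_lit 3834137226) (nat_lit 76) (nat_lit 3834137226) (nat_lit 78) (nat_lit 3) (nat_lit 77) (nat_lit 1) (nat_lit 78) (nat_lit 1) (nat_lit 325) (nat_lit 428) (nat_lit 267)))))) (XT.nd (nat_lit 390) (nat_lit 456) (nat_lit 0) (XT.nd (nat_lit 156) (nat_lit 228) (nat_lit 0) (XT.nd (nat_lit 78) (nat_lit 0) (nat_lit 0) (XT.lf (nat_lit 152) (nat_lit 7180102677) (nat_lit 0) (nat_lit 821960420) (nat_lit 76) (nat_lit 821960420) (nat_lit 77) (nat_lit 1) (nat_lit 75) (nat_lit 1) (nat_lit 76) (nat_lit 1) (nat_lit 326) (nat_lit 428) (nat_lit 266)) (XT.lf (nat_lit 0) (nat_lit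 2121870212) (nat_lit 0) (nat_lit 4492686394) (nat_lit 152) (nat_lit 2121870212) (nat_lit 75) (nat_lit 3) (nat_lit 75) (nat_lit 1) (nat_lit 77) (nat_lit 1) (nat_lit 327) (nat_lit 428) (nat_lit 265))) (XT.nd (nat_lit 78) (nat_lit 152) (nat_lit 0) (XT.lf (nat_lit 76) (nat_lit 1348857339) (nat_lit 0) (nat_lit 3650620623) (nat_lit 76) (nat_lit 3650620623) (nat_lit 75) (nat_lit 3) (nat_lit 74) (nat_lit 1) (nat_lit 75) (nat_lit 1) (nat_lit 328) (nat_lit 428) (nat_lit 264)) (XT.nd (nat_lit 78) (nat_lit 0) (nat_lit 0) (XT.lf (nat_lit 152) (nat_lit 7104438362) (nat_lit 0) (nat_lit 730301187) (nat_lit 76) (nat_lit 730301187) (nat_lit 74) (nat_lit 1) (nat_lit 72) (nat_lit 1) (nat_lit 73) (nat_lit 1) (nat_lit 329) (nat_lit 428) (nat_lit 263)) (XT.lf (nat_lit 0) (nat_lit 2124531471) (nat_lit 0) (nat_lit 4230970942) (nat_lit 152) (nat_lit 2124531471) (nat_lit 72) (nat_lit 3) (nat_lit 72) (nat_lit 1) (nat_lit 74) (nat_lit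 1) (nat_lit 330) (nat_lit 428) (nat_lit 262))))) (XT.nd (nat_lit 156) (nat_lit 228) (nat_lit 0) (XT.nd (nat_lit 78) (nat_lit 152) (nat_lit 0) (XT.lf (nat_lit 76) (nat_lit 1435373690) (nat_lit 0) (nat_lit 3480460555) (nat_lit 76) (nat_lit 3480460555) (nat_lit 72) (nat_lit 3) (nat_lit 71) (nat_lit 1) (nat_lit 72) (nat_lit 1) (nat_lit 331) (nat_lit 428) (nat_lit 261)) (XT.lf (nat_lit 152) (nat_lit 7016094798) (nat_lit 0) (nat_lit 648863146) (nat_lit 76) (nat_lit 648863146) (nat_lit 71) (nat_lit 1) (nat_lit 69) (nat_lit 1) (nat_lit 70) (nat_lit 1) (nat_lit 332) (nat_lit 428) (nat_lit 260))) (XT.nd (nat_lit 78) (nat_lit 228) (nat_lit 0) (XT.lf (nat_lit 0) (nat_lit 2119926725) (nat_lit 0) (nat_lit 3991470912) (nat_lit 152) (nat_lit 2119926725) (nat_lit 69) (nat_lit 3) (nat_lit 69) (nat_lit 1) (nat_lit 71) (nat_lit 1) (nat_lit 333) (nat_lit 428) (nat_lit 259)) (XT.nd (nat_lit 78) (nat_lit 152) (nat_lit 0)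 (XT.lf (nat_lit 76) (nat_lit 1505341433) (nat_lit 0) (nat_lit 3322374624) (nat_lit 76) (nat_lit 3322374624) (nat_lit 69) (nat_lit 3) (nat_lit 68) (nat_lit 1) (nat_lit 69) (nat_lit 1) (nat_lit 334) (nat_lit 428) (nat_lit 258)) (XT.lf (nat_lit 152) (nat_lit 6917100938) (nat_lit 0) (nat_lit 576506501) (nat_lit 76) (nat_lit 576506501) (nat_lit 68) (nat_lit 1) (nat_lit 66) (nat_lit 1) (nat_lit 67) (nat_lit 1) (nat_lit 335) (nat_lit 428) (nat_lit 257))))))))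
noncomputable def ec469 : XT := (XT.nd (nat_lit 1482) (nat_lit 1444) (nat_lit 0) (XT.nd (nat_lit 702) (nat_lit 684) (nat_lit 0) (XT.nd (nat_lit 312) (nat_lit 456) (nat_lit 0) (XT.nd (nat_lit 156) (nat_lit 152) (nat_lit 0) (XT.nd (nat_lit 78) (nat_lit 76) (nat_lit 0) (XT.lf (nat_lit 0) (nat_lit 2109069214) (nat_lit 0) (nat_lit 3771911984) (nat_lit 152) (nat_lit 2109069214) (nat_lit 66) (nat_lit 3) (nat_lit 66) (nat_lit 1) (nat_lit 68) (nat_lit 1) (nat_lit 336) (nat_lit 428) (nat_lit 256)) (XT.lf (nat_lit 76) (nat_lit 1560806948) (nat_lit 0) (nat_lit 3175217405) (nat_lit 76) (nat_lit 3175217405) (nat_lit 66) (nat_lit 3) (nat_lit 65) (nat_lit 1) (nat_lit 66) (nat_lit 1) (nat_lit 337) (nat_lit 428) (nat_lit 255))) (XT.nd (nat_lit 78) (nat_lit 0) (nat_lit 0) (XT.lf (nat_lit 152) (nat_lit 6809241567) (nat_lit 0) (nat_lit 512218559) (nat_lit 76) (nat_lit 512218559) (nat_lit 65) (nat_lit 1) (nat_lit 63) (nat_lit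 1) (nat_lit 64) (nat_lit 1) (nat_lit 338) (nat_lit 428) (nat_lit 254)) (XT.lf (nat_lit 0) (nat_lit 2092853279) (nat_lit 0) (nat_lit 3570267542) (nat_lit 152) (nat_lit 2092853279) (nat_lit 63) (nat_lit 3) (nat_lit 63) (nat_lit 1) (nat_lit 65) (nat_lit 1) (nat_lit 339) (nat_lit 428) (nat_lit 253)))) (XT.nd (nat_lit 156) (nat_lit 228) (nat_lit 0) (XT.nd (nat_lit 78) (nat_lit 152) (nat_lit 0) (XT.lf (nat_lit 76) (nat_lit 1603582566) (nat_lit 0) (nat_lit 3037965347) (nat_lit 76) (nat_lit 3037965347) (nat_lit 63) (nat_lit 3) (nat_lit 62) (nat_lit 1) (nat_lit 63) (nat_lit 1) (nat_lit 340) (nat_lit 428) (nat_lit 252)) (XT.lf (nat_lit 152) (nat_lit 6694085049) (nat_lit 0) (nat_lit 455099555) (nat_lit 76) (nat_lit 455099555) (nat_lit 62) (nat_lit 1) (nat_lit 60) (nat_lit 1) (nat_lit 61) (nat_lit 1) (nat_lit 341) (nat_lit 428) (nat_lit 251))) (XT.nd (nat_lit 78) (nat_lit 228) (nat_lit 0) (XT.lf (nat_lit 0) (nat_lit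 2072067787) (nat_lit 0) (nat_lit 3384731225) (nat_lit 152) (nat_lit 2072067787) (nat_lit 60) (nat_lit 3) (nat_lit 60) (nat_lit 1) (nat_lit 62) (nat_lit 1) (nat_lit 342) (nat_lit 428) (nat_lit 250)) (XT.nd (nat_lit 78) (nat_lit 152) (nat_lit 0) (XT.lf (nat_lit 76) (nat_lit 1635272834) (nat_lit 0) (nat_lit 2909703356) (nat_lit 76) (nat_lit 2909703356) (nat_lit 60) (nat_lit 3) (nat_lit 59) (nat_lit 1) (nat_lit 60) (nat_lit 1) (nat_lit 343) (nat_lit 428) (nat_lit 249)) (XT.lf (nat_lit 152) (nat_lit 6573007971) (nat_lit 0) (nat_lit 404350060) (nat_lit 76) (nat_lit 404350060) (nat_lit 59) (nat_lit 1) (nat_lit 57) (nat_lit 1) (nat_lit 58) (nat_lit 1) (nat_lit 344) (nat_lit 428) (nat_lit 248)))))) (XT.nd (nat_lit 390) (nat_lit 380) (nat_lit 0) (XT.nd (nat_lit 156) (nat_lit 228) (nat_lit 0) (XT.nd (nat_lit 78) (nat_lit 76) (nat_lit 0) (XT.lf (nat_lit 0) (nat_lit 2047408067) (nat_lit 0) (nat_lit 3213692530) (nat_lit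 152) (nat_lit 2047408067) (nat_lit 57) (nat_lit 3) (nat_lit 57) (nat_lit 1) (nat_lit 59) (nat_lit 1) (nat_lit 345) (nat_lit 428) (nat_lit 247)) (XT.lf (nat_lit 76) (nat_lit 1657297853) (nat_lit 0) (nat_lit 2789612865) (nat_lit 76) (nat_lit 2789612865) (nat_lit 57) (nat_lit 3) (nat_lit 56) (nat_lit 1) (nat_lit 57) (nat_lit 1) (nat_lit 346) (nat_lit 428) (nat_lit 246))) (XT.nd (nat_lit 78) (nat_lit 76) (nat_lit 0) (XT.lf (nat_lit 152) (nat_lit 6447217018) (nat_lit 0) (nat_lit 359259792) (nat_lit 76) (nat_lit 359259792) (nat_lit 56) (nat_lit 1) (nat_lit 54) (nat_lit 1) (nat_lit 55) (nat_lit 1) (nat_lit 347) (nat_lit 428) (nat_lit 245)) (XT.nd (nat_lit 78) (nat_lit 76) (nat_lit 0) (XT.lf (nat_lit 0) (nat_lit 2019486497) (nat_lit 0) (nat_lit 3055715136) (nat_lit 152) (nat_lit 2019486497) (nat_lit 54) (nat_lit 3) (nat_lit 54) (nat_lit 1) (nat_lit 56) (nat_lit 1) (nat_lit 348) (nat_lit 428) (nat_lit 244))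 (XT.lf (nat_lit 76) (nat_lit 1670914007) (nat_lit 0) (nat_lit 2676961230) (nat_lit 76) (nat_lit 2676961230) (nat_lit 54) (nat_lit 3) (nat_lit 53) (nat_lit 1) (nat_lit 54) (nat_lit 1) (nat_lit 349) (nat_lit 428) (nat_lit 243))))) (XT.nd (nat_lit 156) (nat_lit 228) (nat_lit 0) (XT.nd (nat_lit 78) (nat_lit 0) (nat_lit 0) (XT.lf (nat_lit 152) (nat_lit 6317768399) (nat_lit 0) (nat_lit 319197672) (nat_lit 76) (nat_lit 319197672) (nat_lit 53) (nat_lit 1) (nat_lit 51) (nat_lit 1) (nat_lit 52) (nat_lit 1) (nat_lit 350) (nat_lit 428) (nat_lit 242)) (XT.lf (nat_lit 0) (nat_lit 1988841913) (nat_lit 0) (nat_lit 2909517638) (nat_lit 152) (nat_lit 1988841913) (nat_lit 51) (nat_lit 3) (nat_lit 51) (nat_lit 1) (nat_lit 53) (nat_lit 1) (nat_lit 351) (nat_lit 428) (nat_lit 241))) (XT.nd (nat_lit 78) (nat_lit 152) (nat_lit 0) (XT.lf (nat_lit 76) (nat_lit 1677232376) (nat_lit 0) (nat_lit 2571092303) (nat_lit 76) (nat_lit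 2571092303) (nat_lit 51) (nat_lit 3) (nat_lit 50) (nat_lit 1) (nat_lit 51) (nat_lit 1) (nat_lit 352) (nat_lit 428) (nat_lit 240)) (XT.nd (nat_lit 78) (nat_lit 0) (nat_lit 0) (XT.lf (nat_lit 152) (nat_lit 6185585086) (nat_lit 0) (nat_lit 283602997) (nat_lit 76) (nat_lit 283602997) (nat_lit 50) (nat_lit 1) (nat_lit 48) (nat_lit 1) (nat_lit 49) (nat_lit 1) (nat_lit 353) (nat_lit 428) (nat_lit 239)) (XT.lf (nat_lit 0) (nat_lit 1955947967) (nat_lit 0) (nat_lit 2773956424) (nat_lit 152) (nat_lit 1955947967) (nat_lit 48) (nat_lit 3) (nat_lit 48) (nat_lit 1) (nat_lit 50) (nat_lit 1) (nat_lit 354) (nat_lit 428) (nat_lit 238))))))) (XT.nd (nat_lit 702) (nat_lit 760) (nat_lit 0) (XT.nd (nat_lit 312) (nat_lit 380) (nat_lit 0) (XT.nd (nat_lit 156) (nat_lit 76) (nat_lit 0) (XT.nd (nat_lit 78) (nat_lit 152) (nat_lit 0) (XT.lf (nat_lit 76) (nat_lit 1677235089) (nat_lit 0) (nat_lit 2471418057) (nat_lit 76) (nat_lit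 2471418057) (nat_lit 48) (nat_lit 3) (nat_lit 47) (nat_lit 1) (nat_lit 48) (nat_lit 1) (nat_lit 355) (nat_lit 428) (nat_lit 237)) (XT.lf (nat_lit 152) (nat_lit 6051472128) (nat_lit 0) (nat_lit 251977589) (nat_lit 76) (nat_lit 251977589) (nat_lit 47) (nat_lit 1) (nat_lit 45) (nat_lit 1) (nat_lit 46) (nat_lit 1) (nat_lit 356) (nat_lit 428) (nat_lit 236))) (XT.nd (nat_lit 78) (nat_lit 76) (nat_lit 0) (XT.lf (nat_lit 0) (nat_lit 1921220539) (nat_lit 0) (nat_lit 2648010458) (nat_lit 152) (nat_lit 1921220539) (nat_lit 45) (nat_lit 3) (nat_lit 45) (nat_lit 1) (nat_lit 47) (nat_lit 1) (nat_lit 357) (nat_lit 428) (nat_lit 235)) (XT.lf (nat_lit 76) (nat_lit 1671789854) (nat_lit 0) (nat_lit 2377411135) (nat_lit 76) (nat_lit 2377411135) (nat_lit 45) (nat_lit 3) (nat_lit 44) (nat_lit 1) (nat_lit 45) (nat_lit 1) (nat_lit 358) (nat_lit 428) (nat_lit 234)))) (XT.nd (nat_lit 156) (nat_lit 228) (nat_lit 0) (XT.nd (nat_lit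 78) (nat_lit 0) (nat_lit 0) (XT.lf (nat_lit 152) (nat_lit 5916130233) (nat_lit 0) (nat_lit 223878824) (nat_lit 76) (nat_lit 223878824) (nat_lit 44) (nat_lit 1) (nat_lit 42) (nat_lit 1) (nat_lit 43) (nat_lit 1) (nat_lit 359) (nat_lit 428) (nat_lit 233)) (XT.lf (nat_lit 0) (nat_lit 1885024327) (nat_lit 0) (nat_lit 2530767756) (nat_lit 152) (nat_lit 1885024327) (nat_lit 42) (nat_lit 3) (nat_lit 42) (nat_lit 1) (nat_lit 44) (nat_lit 1) (nat_lit 360) (nat_lit 428) (nat_lit 232))) (XT.nd (nat_lit 78) (nat_lit 152) (nat_lit 0) (XT.lf (nat_lit 76) (nat_lit 1661662857) (nat_lit 0) (nat_lit 2288598225) (nat_lit 76) (nat_lit 2288598225) (nat_lit 42) (nat_lit 3) (nat_lit 41) (nat_lit 1) (nat_lit 42) (nat_lit 1) (nat_lit 361) (nat_lit 428) (nat_lit 231)) (XT.nd (nat_lit 78) (nat_lit 0) (nat_lit 0) (XT.lf (nat_lit 152) (nat_lit 5780167830) (nat_lit 0) (nat_lit 198913436) (nat_lit 76) (nat_lit 198913436) (nat_lit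 41) (nat_lit 1) (nat_lit 39) (nat_lit 1) (nat_lit 40) (nat_lit 1) (nat_lit 362) (nat_lit 428) (nat_lit 230)) (XT.lf (nat_lit 0) (nat_lit 1847678691) (nat_lit 0) (nat_lit 2421413364) (nat_lit 152) (nat_lit 1847678691) (nat_lit 39) (nat_lit 3) (nat_lit 39) (nat_lit 1) (nat_lit 41) (nat_lit 1) (nat_lit 363) (nat_lit 428) (nat_lit 229)))))) (XT.nd (nat_lit 390) (nat_lit 304) (nat_lit 0) (XT.nd (nat_lit 156) (nat_lit 228) (nat_lit 0) (XT.nd (nat_lit 78) (nat_lit 152) (nat_lit 0) (XT.lf (nat_lit 76) (nat_lit 1647530221) (nat_lit 0) (nat_lit 2204554176) (nat_lit 76) (nat_lit 2204554176) (nat_lit 39) (nat_lit 3) (nat_lit 38) (nat_lit 1) (nat_lit 39) (nat_lit 1) (nat_lit 364) (nat_lit 428) (nat_lit 228)) (XT.lf (nat_lit 152) (nat_lit 5644111770) (nat_lit 0) (nat_lit 176732011) (nat_lit 76) (nat_lit 176732011) (nat_lit 38) (nat_lit 1) (nat_lit 36) (nat_lit 1) (nat_lit 37) (nat_lit 1) (nat_lit 365) (nat_lit 428)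 (nat_lit 227))) (XT.nd (nat_lit 78) (nat_lit 228) (nat_lit 0) (XT.lf (nat_lit 0) (nat_lit 1809462849) (nat_lit 0) (nat_lit 2319218675) (nat_lit 152) (nat_lit 1809462849) (nat_lit 36) (nat_lit 3) (nat_lit 36) (nat_lit 1) (nat_lit 38) (nat_lit 1) (nat_lit 366) (nat_lit 428) (nat_lit 226)) (XT.nd (nat_lit 78) (nat_lit 152) (nat_lit 0) (XT.lf (nat_lit 76) (nat_lit 1629988190) (nat_lit 0) (nat_lit 2124896760) (nat_lit 76) (nat_lit 2124896760) (nat_lit 36) (nat_lit 3) (nat_lit 35) (nat_lit 1) (nat_lit 36) (nat_lit 1) (nat_lit 367) (nat_lit 428) (nat_lit 225)) (XT.lf (nat_lit 152) (nat_lit 5508416825) (nat_lit 0) (nat_lit 157024103) (nat_lit 76) (nat_lit 157024103) (nat_lit 35) (nat_lit 1) (nat_lit 33) (nat_lit 1) (nat_lit 34) (nat_lit 1) (nat_lit 368) (nat_lit 428) (nat_lit 224))))) (XT.nd (nat_lit 156) (nat_lit 228) (nat_lit 0) (XT.nd (nat_lit 78) (nat_lit 76) (nat_lit 0) (XT.lf (nat_lit 0) (nat_lit 1770620483)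 (nat_lit 0) (nat_lit 2223531932) (nat_lit 152) (nat_lit 1770620483) (nat_lit 33) (nat_lit 3) (nat_lit 33) (nat_lit 1) (nat_lit 35) (nat_lit 1) (nat_lit 369) (nat_lit 428) (nat_lit 223)) (XT.lf (nat_lit 76) (nat_lit 1609562160) (nat_lit 0) (nat_lit 2049282014) (nat_lit 76) (nat_lit 2049282014) (nat_lit 33) (nat_lit 3) (nat_lit 32) (nat_lit 1) (nat_lit 33) (nat_lit 1) (nat_lit 370) (nat_lit 428) (nat_lit 222))) (XT.nd (nat_lit 78) (nat_lit 76) (nat_lit 0) (XT.lf (nat_lit 152) (nat_lit 5373474110) (nat_lit 0) (nat_lit 139513882) (nat_lit 76) (nat_lit 139513882) (nat_lit 32) (nat_lit 1) (nat_lit 30) (nat_lit 1) (nat_lit 31) (nat_lit 1) (nat_lit 371) (nat_lit 428) (nat_lit 221)) (XT.nd (nat_lit 78) (nat_lit 76) (nat_lit 0) (XT.lf (nat_lit 0) (nat_lit 1731363830) (nat_lit 0) (nat_lit 2133769787) (nat_lit 152) (nat_lit 1731363830) (nat_lit 30) (nat_lit 3) (nat_lit 30) (nat_lit 1) (nat_lit 32) (nat_lit 1) (nat_lit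 372) (nat_lit 428) (nat_lit 220)) (XT.lf (nat_lit 76) (nat_lit 1586714709) (nat_lit 0) (nat_lit 1977400104) (nat_lit 76) (nat_lit 1977400104) (nat_lit 30) (nat_lit 3) (nat_lit 29) (nat_lit 1) (nat_lit 30) (nat_lit 1) (nat_lit 373) (nat_lit 428) (nat_lit 219))))))))
noncomputable def ec470 : XT := (XT.nd (nat_lit 1482) (nat_lit 228) (nat_lit 0) (XT.nd (nat_lit 702) (nat_lit 836) (nat_lit 0) (XT.nd (nat_lit 312) (nat_lit 304) (nat_lit 0) (XT.nd (nat_lit 156) (nat_lit 228) (nat_lit 0) (XT.nd (nat_lit 78) (nat_lit 0) (nat_lit 0) (XT.lf (nat_lit 152) (nat_lit 5239618563) (nat_lit 0) (nat_lit 123956277) (nat_lit 76) (nat_lit 123956277) (nat_lit 29) (nat_lit 1) (nat_lit 27) (nat_lit 1) (nat_lit 28) (nat_lit 1) (nat_lit 374) (nat_lit 428) (nat_lit 218)) (XT.lf (nat_lit 0) (nat_lit 1691877313) (nat_lit 0) (nat_lit 2049409794) (nat_lit 152) (nat_lit 1691877313) (nat_lit 27) (nat_lit 3) (nat_lit 27) (nat_lit 1)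 (nat_lit 29) (nat_lit 1) (nat_lit 375) (nat_lit 428) (nat_lit 217))) (XT.nd (nat_lit 78) (nat_lit 152) (nat_lit 0) (XT.lf (nat_lit 76) (nat_lit 1561852728) (nat_lit 0) (nat_lit 1908971641) (nat_lit 76) (nat_lit 1908971641) (nat_lit 27) (nat_lit 3) (nat_lit 26) (nat_lit 1) (nat_lit 27) (nat_lit 1) (nat_lit 376) (nat_lit 428) (nat_lit 216)) (XT.lf (nat_lit 152) (nat_lit 5107135573) (nat_lit 0) (nat_lit 110133546) (nat_lit 76) (nat_lit 110133546) (nat_lit 26) (nat_lit 1) (nat_lit 24) (nat_lit 1) (nat_lit 25) (nat_lit 1) (nat_lit 377) (nat_lit 428) (nat_lit 215)))) (XT.nd (nat_lit 156) (nat_lit 228) (nat_lit 0) (XT.nd (nat_lit 78) (nat_lit 76) (nat_lit 0) (XT.lf (nat_lit 0) (nat_lit 1652320764) (nat_lit 0) (nat_lit 1969983742) (nat_lit 152) (nat_lit 1652320764) (nat_lit 24) (nat_lit 3) (nat_lit 24) (nat_lit 1) (nat_lit 26) (nat_lit 1) (nat_lit 378) (nat_lit 428) (nat_lit 214)) (XT.lf (nat_lit 76) (nat_lit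 1535333744) (nat_lit 0) (nat_lit 1843744402) (nat_lit 76) (nat_lit 1843744402) (nat_lit 24) (nat_lit 3) (nat_lit 23) (nat_lit 1) (nat_lit 24) (nat_lit 1) (nat_lit 379) (nat_lit 428) (nat_lit 213))) (XT.nd (nat_lit 78) (nat_lit 76) (nat_lit 0) (XT.lf (nat_lit 152) (nat_lit 4976266861) (nat_lit 0) (nat_lit 97852229) (nat_lit 76) (nat_lit 97852229) (nat_lit 23) (nat_lit 1) (nat_lit 21) (nat_lit 1) (nat_lit 22) (nat_lit 1) (nat_lit 380) (nat_lit 428) (nat_lit 212)) (XT.nd (nat_lit 78) (nat_lit 76) (nat_lit 0) (XT.lf (nat_lit 0) (nat_lit 1612832282) (nat_lit 0) (nat_lit 1895071723) (nat_lit 152) (nat_lit 1612832282) (nat_lit 21) (nat_lit 3) (nat_lit 21) (nat_lit 1) (nat_lit 23) (nat_lit 1) (nat_lit 381) (nat_lit 428) (nat_lit 211)) (XT.lf (nat_lit 76) (nat_lit 1507471548) (nat_lit 0) (nat_lit 1781490424) (nat_lit 76) (nat_lit 1781490424) (nat_lit 21) (nat_lit 3) (nat_lit 20) (nat_lit 1) (nat_lit 21) (nat_lit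 1) (nat_lit 382) (nat_lit 428) (nat_lit 210)))))) (XT.nd (nat_lit 390) (nat_lit 456) (nat_lit 0) (XT.nd (nat_lit 156) (nat_lit 228) (nat_lit 0) (XT.nd (nat_lit 78) (nat_lit 0) (nat_lit 0) (XT.lf (nat_lit 152) (nat_lit 4847215694) (nat_lit 0) (nat_lit 86940438) (nat_lit 76) (nat_lit 86940438) (nat_lit 20) (nat_lit 1) (nat_lit 18) (nat_lit 1) (nat_lit 19) (nat_lit 1) (nat_lit 383) (nat_lit 428) (nat_lit 209)) (XT.lf (nat_lit 0) (nat_lit 1573530771) (nat_lit 0) (nat_lit 1824296860) (nat_lit 152) (nat_lit 1573530771) (nat_lit 18) (nat_lit 3) (nat_lit 18) (nat_lit 1) (nat_lit 20) (nat_lit 1) (nat_lit 384) (nat_lit 428) (nat_lit 208))) (XT.nd (nat_lit 78) (nat_lit 152) (nat_lit 0) (XT.lf (nat_lit 76) (nat_lit 1478541182) (nat_lit 0) (nat_lit 1722003403) (nat_lit 76) (nat_lit 1722003403) (nat_lit 18) (nat_lit 3) (nat_lit 17) (nat_lit 1) (nat_lit 18) (nat_lit 1) (nat_lit 385) (nat_lit 428) (nat_lit 207)) (XT.nd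 (nat_lit 78) (nat_lit 0) (nat_lit 0) (XT.lf (nat_lit 152) (nat_lit 4720151510) (nat_lit 0) (nat_lit 77245453) (nat_lit 76) (nat_lit 77245453) (nat_lit 17) (nat_lit 1) (nat_lit 15) (nat_lit 1) (nat_lit 16) (nat_lit 1) (nat_lit 386) (nat_lit 428) (nat_lit 206)) (XT.lf (nat_lit 0) (nat_lit 1534518194) (nat_lit 0) (nat_lit 1757320615) (nat_lit 152) (nat_lit 1534518194) (nat_lit 15) (nat_lit 3) (nat_lit 15) (nat_lit 1) (nat_lit 17) (nat_lit 1) (nat_lit 387) (nat_lit 428) (nat_lit 205))))) (XT.nd (nat_lit 156) (nat_lit 228) (nat_lit 0) (XT.nd (nat_lit 78) (nat_lit 152) (nat_lit 0) (XT.lf (nat_lit 76) (nat_lit 1448783365) (nat_lit 0) (nat_lit 1665096396) (nat_lit 76) (nat_lit 1665096396) (nat_lit 15) (nat_lit 3) (nat_lit 14) (nat_lit 1) (nat_lit 15) (nat_lit 1) (nat_lit 388) (nat_lit 428) (nat_lit 204)) (XT.lf (nat_lit 152) (nat_lit 4595214011) (nat_lit 0) (nat_lit 68631585) (nat_lit 76) (nat_lit 68631585)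 (nat_lit 14) (nat_lit 1) (nat_lit 12) (nat_lit 1) (nat_lit 13) (nat_lit 1) (nat_lit 389) (nat_lit 428) (nat_lit 203))) (XT.nd (nat_lit 78) (nat_lit 228) (nat_lit 0) (XT.lf (nat_lit 0) (nat_lit 1495881563) (nat_lit 0) (nat_lit 1693838629) (nat_lit 152) (nat_lit 1495881563) (nat_lit 12) (nat_lit 3) (nat_lit 12) (nat_lit 1) (nat_lit 14) (nat_lit 1) (nat_lit 390) (nat_lit 428) (nat_lit 202)) (XT.nd (nat_lit 78) (nat_lit 152) (nat_lit 0) (XT.lf (nat_lit 76) (nat_lit 1418408435) (nat_lit 0) (nat_lit 1610599761) (nat_lit 76) (nat_lit 1610599761) (nat_lit 12) (nat_lit 3) (nat_lit 11) (nat_lit 1) (nat_lit 12) (nat_lit 1) (nat_lit 391) (nat_lit 428) (nat_lit 201)) (XT.lf (nat_lit 152) (nat_lit 4472516802) (nat_lit 0) (nat_lit 60978274) (nat_lit 76) (nat_lit 60978274) (nat_lit 11) (nat_lit 1) (nat_lit 9) (nat_lit 1) (nat_lit 10) (nat_lit 1) (nat_lit 392) (nat_lit 428) (nat_lit 200))))))) (XT.nd (nat_lit 38376)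 (nat_lit 0) (nat_lit 17404) (XT.nd (nat_lit 37986) (nat_lit 0) (nat_lit 19684) (XT.nd (nat_lit 156) (nat_lit 152) (nat_lit 0) (XT.nd (nat_lit 78) (nat_lit 76) (nat_lit 0) (XT.lf (nat_lit 0) (nat_lit 1457694718) (nat_lit 0) (nat_lit 1633577007) (nat_lit 152) (nat_lit 1457694718) (nat_lit 9) (nat_lit 3) (nat_lit 9) (nat_lit 1) (nat_lit 11) (nat_lit 1) (nat_lit 393) (nat_lit 428) (nat_lit 199)) (XT.lf (nat_lit 76) (nat_lit 1387599834) (nat_lit 0) (nat_lit 1558359338) (nat_lit 76) (nat_lit 1558359338) (nat_lit 9) (nat_lit 3) (nat_lit 8) (nat_lit 1) (nat_lit 9) (nat_lit 1) (nat_lit 394) (nat_lit 428) (nat_lit 198))) (XT.nd (nat_lit 78) (nat_lit 0) (nat_lit 0) (XT.lf (nat_lit 152) (nat_lit 4352150600) (nat_lit 0) (nat_lit 54178407) (nat_lit 76) (nat_lit 54178407) (nat_lit 8) (nat_lit 1) (nat_lit 6) (nat_lit 1) (nat_lit 7) (nat_lit 1) (nat_lit 395) (nat_lit 428) (nat_lit 197)) (XT.lf (nat_lit 0) (nat_lit 1420019890)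 (nat_lit 0) (nat_lit 1576289026) (nat_lit 152) (nat_lit 1420019890) (nat_lit 6) (nat_lit 3) (nat_lit 6) (nat_lit 1) (nat_lit 8) (nat_lit 1) (nat_lit 396) (nat_lit 428) (nat_lit 196)))) (XT.nd (nat_lit 156) (nat_lit 836) (nat_lit 0) (XT.nd (nat_lit 78) (nat_lit 456) (nat_lit 0) (XT.lf (nat_lit 76) (nat_lit 2581778838) (nat_lit 0) (nat_lit 29035696662) (nat_lit 532) (nat_lit 2581778838) (nat_lit 283) (nat_lit 1) (nat_lit 282) (nat_lit 1) (nat_lit 289) (nat_lit 1) (nat_lit 199) (nat_lit 429) (nat_lit 392)) (XT.lf (nat_lit 76) (nat_lit 16556624258) (nat_lit 0) (nat_lit 666760460) (nat_lit 456) (nat_lit 16556624258) (nat_lit 277) (nat_lit 1) (nat_lit 276) (nat_lit 1) (nat_lit 282) (nat_lit 1) (nat_lit 200) (nat_lit 429) (nat_lit 391))) (XT.nd (nat_lit 78) (nat_lit 380) (nat_lit 0) (XT.lf (nat_lit 532) (nat_lit 27085416950) (nat_lit 0) (nat_lit 3142230662) (nat_lit 456) (nat_lit 3142230662) (nat_lit 277)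 (nat_lit 1) (nat_lit 270) (nat_lit 1) (nat_lit 276) (nat_lit 1) (nat_lit 201) (nat_lit 429) (nat_lit 390)) (XT.nd (nat_lit 78) (nat_lit 380) (nat_lit 0) (XT.lf (nat_lit 76) (nat_lit 10482490424) (nat_lit 0) (nat_lit 11998901432) (nat_lit 532) (nat_lit 10482490424) (nat_lit 271) (nat_lit 1) (nat_lit 270) (nat_lit 1) (nat_lit 277) (nat_lit 1) (nat_lit 202) (nat_lit 429) (nat_lit 389)) (XT.lf (nat_lit 456) (nat_lit 14905173589) (nat_lit 0) (nat_lit 8830555762) (nat_lit 380) (nat_lit 8830555762) (nat_lit 271) (nat_lit 1) (nat_lit 265) (nat_lit 1) (nat_lit 270) (nat_lit 1) (nat_lit 203) (nat_lit 429) (nat_lit 388)))))) (XT.nd (nat_lit 390) (nat_lit 1064) (nat_lit 0) (XT.nd (nat_lit 156) (nat_lit 836) (nat_lit 0) (XT.nd (nat_lit 78) (nat_lit 380) (nat_lit 0) (XT.lf (nat_lit 76) (nat_lit 4437144796) (nat_lit 0) (nat_lit 23301680524) (nat_lit 456) (nat_lit 4437144796) (nat_lit 266) (nat_lit 1) (nat_lit 265)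 (nat_lit 1) (nat_lit 271) (nat_lit 1) (nat_lit 204) (nat_lit 429) (nat_lit 387)) (XT.lf (nat_lit 456) (nat_lit 2790614564) (nat_lit 0) (nat_lit 14499877566) (nat_lit 380) (nat_lit 14499877566) (nat_lit 266) (nat_lit 1) (nat_lit 260) (nat_lit 1) (nat_lit 265) (nat_lit 1) (nat_lit 205) (nat_lit 429) (nat_lit 386))) (XT.nd (nat_lit 78) (nat_lit 380) (nat_lit 0) (XT.lf (nat_lit 456) (nat_lit 28300696111) (nat_lit 0) (nat_lit 1556338653) (nat_lit 380) (nat_lit 1556338653) (nat_lit 260) (nat_lit 1) (nat_lit 254) (nat_lit 1) (nat_lit 259) (nat_lit 1) (nat_lit 206) (nat_lit 429) (nat_lit 385)) (XT.nd (nat_lit 78) (nat_lit 380) (nat_lit 0) (XT.lf (nat_lit 76) (nat_lit 10987605813) (nat_lit 0) (nat_lit 9063203365) (nat_lit 456) (nat_lit 10987605813) (nat_lit 255) (nat_lit 1) (nat_lit 254) (nat_lit 1) (nat_lit 260) (nat_lit 1) (nat_lit 207) (nat_lit 429) (nat_lit 384)) (XT.lf (nat_lit 456) (nat_lit 15745109617)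 (nat_lit 0) (nat_lit 7463340029) (nat_lit 380) (nat_lit 7463340029) (nat_lit 255) (nat_lit 1) (nat_lit 249) (nat_lit 1) (nat_lit 254) (nat_lit 1) (nat_lit 208) (nat_lit 429) (nat_lit 383))))) (XT.nd (nat_lit 156) (nat_lit 760) (nat_lit 0) (XT.nd (nat_lit 78) (nat_lit 304) (nat_lit 0) (XT.lf (nat_lit 76) (nat_lit 4770287358) (nat_lit 0) (nat_lit 20770727503) (nat_lit 456) (nat_lit 4770287358) (nat_lit 250) (nat_lit 1) (nat_lit 249) (nat_lit 1) (nat_lit 255) (nat_lit 1) (nat_lit 209) (nat_lit 429) (nat_lit 382)) (XT.lf (nat_lit 380) (nat_lit 3313119841) (nat_lit 0) (nat_lit 13321131726) (nat_lit 304) (nat_lit 13321131726) (nat_lit 250) (nat_lit 1) (nat_lit 245) (nat_lit 1) (nat_lit 249) (nat_lit 1) (nat_lit 210) (nat_lit 429) (nat_lit 381))) (XT.nd (nat_lit 78) (nat_lit 304) (nat_lit 0) (XT.lf (nat_lit 456) (nat_lit 26868631518) (nat_lit 0) (nat_lit 1369320382) (nat_lit 380) (nat_lit 1369320382) (nat_lit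 245) (nat_lit 1) (nat_lit 239) (nat_lit 1) (nat_lit 244) (nat_lit 1) (nat_lit 211) (nat_lit 429) (nat_lit 380)) (XT.nd (nat_lit 78) (nat_lit 304) (nat_lit 0) (XT.lf (nat_lit 76) (nat_lit 10225489068) (nat_lit 0) (nat_lit 8809646357) (nat_lit 456) (nat_lit 10225489068) (nat_lit 240) (nat_lit 1) (nat_lit 239) (nat_lit 1) (nat_lit 245) (nat_lit 1) (nat_lit 212) (nat_lit 429) (nat_lit 379)) (XT.lf (nat_lit 380) (nat_lit 14133877616) (nat_lit 0) (nat_lit 7393840010) (nat_lit 304) (nat_lit 7393840010) (nat_lit 240) (nat_lit 1) (nat_lit 235) (nat_lit 1) (nat_lit 239) (nat_lit 1) (nat_lit 213) (nat_lit 429) (nat_lit 378))))))))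
noncomputable def ec471 : XT := (XT.nd (nat_lit 1482) (nat_lit 2432) (nat_lit 0) (XT.nd (nat_lit 702) (nat_lit 1900) (nat_lit 0) (XT.nd (nat_lit 312) (nat_lit 912) (nat_lit 0) (XT.nd (nat_lit 156) (nat_lit 380) (nat_lit 0) (XT.nd (nat_lit 78) (nat_lit 304) (nat_lit 0) (XT.lf (nat_lit 76) (nat_lit 3930415466) (nat_lit 0) (nat_lit 20727459677) (nat_lit 380) (nat_lit 3930415466) (nat_lit 236) (nat_lit 1) (nat_lit 235) (nat_lit 1) (nat_lit 240) (nat_lit 1) (nat_lit 214) (nat_lit 429) (nat_lit 377)) (XT.lf (nat_lit 380) (nat_lit 1567283956) (nat_lit 0) (nat_lit 13345763841) (nat_lit 304) (nat_lit 13345763841) (nat_lit 236) (nat_lit 1) (nat_lit 231) (nat_lit 1) (nat_lit 235) (nat_lit 1) (nat_lit 215) (nat_lit 429) (nat_lit 376))) (XT.nd (nat_lit 78) (nat_lit 0) (nat_lit 0) (XT.lf (nat_lit 380) (nat_lit 23422052197) (nat_lit 0) (nat_lit 2256891285) (nat_lit 304) (nat_lit 2256891285) (nat_lit 231) (nat_lit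 1) (nat_lit 226) (nat_lit 1) (nat_lit 230) (nat_lit 1) (nat_lit 216) (nat_lit 429) (nat_lit 375)) (XT.lf (nat_lit 76) (nat_lit 8500943299) (nat_lit 0) (nat_lit 10613185173) (nat_lit 380) (nat_lit 8500943299) (nat_lit 227) (nat_lit 1) (nat_lit 226) (nat_lit 1) (nat_lit 231) (nat_lit 1) (nat_lit 217) (nat_lit 429) (nat_lit 374)))) (XT.nd (nat_lit 156) (nat_lit 608) (nat_lit 0) (XT.nd (nat_lit 78) (nat_lit 0) (nat_lit 0) (XT.lf (nat_lit 380) (nat_lit 10664665280) (nat_lit 0) (nat_lit 8317977750) (nat_lit 304) (nat_lit 8317977750) (nat_lit 227) (nat_lit 1) (nat_lit 222) (nat_lit 1) (nat_lit 226) (nat_lit 1) (nat_lit 218) (nat_lit 429) (nat_lit 373)) (XT.lf (nat_lit 76) (nat_lit 2203216238) (nat_lit 0) (nat_lit 22585820619) (nat_lit 380) (nat_lit 2203216238) (nat_lit 223) (nat_lit 1) (nat_lit 222) (nat_lit 1) (nat_lit 227) (nat_lit 1) (nat_lit 219) (nat_lit 429) (nat_lit 372))) (XT.nd (nat_lit 78) (nat_lit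 304) (nat_lit 0) (XT.lf (nat_lit 76) (nat_lit 12415910118) (nat_lit 0) (nat_lit 1854052043) (nat_lit 304) (nat_lit 12415910118) (nat_lit 219) (nat_lit 1) (nat_lit 218) (nat_lit 1) (nat_lit 222) (nat_lit 1) (nat_lit 220) (nat_lit 429) (nat_lit 371)) (XT.nd (nat_lit 78) (nat_lit 0) (nat_lit 0) (XT.lf (nat_lit 380) (nat_lit 18477508024) (nat_lit 0) (nat_lit 3953948925) (nat_lit 304) (nat_lit 3953948925) (nat_lit 219) (nat_lit 1) (nat_lit 214) (nat_lit 1) (nat_lit 218) (nat_lit 1) (nat_lit 221) (nat_lit 429) (nat_lit 370)) (XT.lf (nat_lit 76) (nat_lit 6062663620) (nat_lit 0) (nat_lit 13963035164) (nat_lit 380) (nat_lit 6062663620) (nat_lit 215) (nat_lit 1) (nat_lit 214) (nat_lit 1) (nat_lit 219) (nat_lit 1) (nat_lit 222) (nat_lit 429) (nat_lit 369)))))) (XT.nd (nat_lit 390) (nat_lit 1064) (nat_lit 0) (XT.nd (nat_lit 156) (nat_lit 228) (nat_lit 0) (XT.nd (nat_lit 78) (nat_lit 380) (nat_lit 0) (XT.lf (nat_lit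 304) (nat_lit 5821268931) (nat_lit 0) (nat_lit 9987357298) (nat_lit 228) (nat_lit 9987357298) (nat_lit 215) (nat_lit 1) (nat_lit 211) (nat_lit 1) (nat_lit 214) (nat_lit 1) (nat_lit 223) (nat_lit 429) (nat_lit 368)) (XT.lf (nat_lit 380) (nat_lit 25156920782) (nat_lit 0) (nat_lit 176657097) (nat_lit 304) (nat_lit 176657097) (nat_lit 211) (nat_lit 1) (nat_lit 206) (nat_lit 1) (nat_lit 210) (nat_lit 1) (nat_lit 224) (nat_lit 429) (nat_lit 367))) (XT.nd (nat_lit 78) (nat_lit 228) (nat_lit 0) (XT.lf (nat_lit 76) (nat_lit 9372165606) (nat_lit 0) (nat_lit 6479593444) (nat_lit 380) (nat_lit 9372165606) (nat_lit 207) (nat_lit 1) (nat_lit 206) (nat_lit 1) (nat_lit 211) (nat_lit 1) (nat_lit 225) (nat_lit 429) (nat_lit 366)) (XT.nd (nat_lit 78) (nat_lit 0) (nat_lit 0) (XT.lf (nat_lit 304) (nat_lit 12454990671) (nat_lit 0) (nat_lit 6244556272) (nat_lit 228) (nat_lit 6244556272) (nat_lit 207) (nat_lit 1) (nat_lit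 203) (nat_lit 1) (nat_lit 206) (nat_lit 1) (nat_lit 226) (nat_lit 429) (nat_lit 365)) (XT.lf (nat_lit 76) (nat_lit 3112759033) (nat_lit 0) (nat_lit 18443322100) (nat_lit 304) (nat_lit 3112759033) (nat_lit 204) (nat_lit 1) (nat_lit 203) (nat_lit 1) (nat_lit 207) (nat_lit 1) (nat_lit 227) (nat_lit 429) (nat_lit 364))))) (XT.nd (nat_lit 156) (nat_lit 532) (nat_lit 0) (XT.nd (nat_lit 78) (nat_lit 228) (nat_lit 0) (XT.lf (nat_lit 76) (nat_lit 12196530765) (nat_lit 0) (nat_lit 3265482) (nat_lit 304) (nat_lit 12196530765) (nat_lit 200) (nat_lit 1) (nat_lit 199) (nat_lit 1) (nat_lit 203) (nat_lit 1) (nat_lit 228) (nat_lit 429) (nat_lit 363)) (XT.lf (nat_lit 304) (nat_lit 18136844130) (nat_lit 0) (nat_lit 2995701223) (nat_lit 228) (nat_lit 2995701223) (nat_lit 200) (nat_lit 1) (nat_lit 196) (nat_lit 1) (nat_lit 199) (nat_lit 1) (nat_lit 229) (nat_lit 429) (nat_lit 362))) (XT.nd (nat_lit 78) (nat_lit 532) (nat_lit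 0) (XT.lf (nat_lit 76) (nat_lit 5941636969) (nat_lit 0) (nat_lit 11979470095) (nat_lit 304) (nat_lit 5941636969) (nat_lit 197) (nat_lit 1) (nat_lit 196) (nat_lit 1) (nat_lit 200) (nat_lit 1) (nat_lit 230) (nat_lit 429) (nat_lit 361)) (XT.nd (nat_lit 78) (nat_lit 304) (nat_lit 0) (XT.lf (nat_lit 304) (nat_lit 5694400782) (nat_lit 0) (nat_lit 8953576520) (nat_lit 228) (nat_lit 8953576520) (nat_lit 197) (nat_lit 1) (nat_lit 193) (nat_lit 1) (nat_lit 196) (nat_lit 1) (nat_lit 231) (nat_lit 429) (nat_lit 360)) (XT.lf (nat_lit 304) (nat_lit 22979153270) (nat_lit 0) (nat_lit 183480430) (nat_lit 228) (nat_lit 183480430) (nat_lit 193) (nat_lit 1) (nat_lit 189) (nat_lit 1) (nat_lit 192) (nat_lit 1) (nat_lit 232) (nat_lit 429) (nat_lit 359))))))) (XT.nd (nat_lit 702) (nat_lit 1292) (nat_lit 0) (XT.nd (nat_lit 312) (nat_lit 684) (nat_lit 0) (XT.nd (nat_lit 156) (nat_lit 228) (nat_lit 0) (XT.nd (nat_lit 78) (nat_lit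 228) (nat_lit 0) (XT.lf (nat_lit 76) (nat_lit 8362553786) (nat_lit 0) (nat_lit 6364785855) (nat_lit 304) (nat_lit 8362553786) (nat_lit 190) (nat_lit 1) (nat_lit 189) (nat_lit 1) (nat_lit 193) (nat_lit 1) (nat_lit 233) (nat_lit 429) (nat_lit 358)) (XT.lf (nat_lit 304) (nat_lit 10590818685) (nat_lit 0) (nat_lit 6124249653) (nat_lit 228) (nat_lit 6124249653) (nat_lit 190) (nat_lit 1) (nat_lit 186) (nat_lit 1) (nat_lit 189) (nat_lit 1) (nat_lit 234) (nat_lit 429) (nat_lit 357))) (XT.nd (nat_lit 78) (nat_lit 228) (nat_lit 0) (XT.lf (nat_lit 76) (nat_lit 2265169407) (nat_lit 0) (nat_lit 18062647891) (nat_lit 304) (nat_lit 2265169407) (nat_lit 187) (nat_lit 1) (nat_lit 186) (nat_lit 1) (nat_lit 190) (nat_lit 1) (nat_lit 235) (nat_lit 429) (nat_lit 356)) (XT.lf (nat_lit 76) (nat_lit 10423696742) (nat_lit 0) (nat_lit 1500837401) (nat_lit 228) (nat_lit 10423696742) (nat_lit 184) (nat_lit 1) (nat_lit 183) (nat_lit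 1) (nat_lit 186) (nat_lit 1) (nat_lit 236) (nat_lit 429) (nat_lit 355)))) (XT.nd (nat_lit 156) (nat_lit 456) (nat_lit 0) (XT.nd (nat_lit 78) (nat_lit 0) (nat_lit 0) (XT.lf (nat_lit 304) (nat_lit 14780113329) (nat_lit 0) (nat_lit 3663756186) (nat_lit 228) (nat_lit 3663756186) (nat_lit 184) (nat_lit 1) (nat_lit 180) (nat_lit 1) (nat_lit 183) (nat_lit 1) (nat_lit 237) (nat_lit 429) (nat_lit 354)) (XT.lf (nat_lit 76) (nat_lit 4371606158) (nat_lit 0) (nat_lit 13126553856) (nat_lit 304) (nat_lit 4371606158) (nat_lit 181) (nat_lit 1) (nat_lit 180) (nat_lit 1) (nat_lit 184) (nat_lit 1) (nat_lit 238) (nat_lit 429) (nat_lit 353))) (XT.nd (nat_lit 78) (nat_lit 304) (nat_lit 0) (XT.lf (nat_lit 228) (nat_lit 2753451666) (nat_lit 0) (nat_lit 9440817310) (nat_lit 152) (nat_lit 9440817310) (nat_lit 181) (nat_lit 1) (nat_lit 178) (nat_lit 1) (nat_lit 180) (nat_lit 1) (nat_lit 239) (nat_lit 429) (nat_lit 352)) (XT.nd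 (nat_lit 78) (nat_lit 0) (nat_lit 0) (XT.lf (nat_lit 304) (nat_lit 18345830620) (nat_lit 0) (nat_lit 1529413211) (nat_lit 228) (nat_lit 1529413211) (nat_lit 178) (nat_lit 1) (nat_lit 174) (nat_lit 1) (nat_lit 177) (nat_lit 1) (nat_lit 240) (nat_lit 429) (nat_lit 351)) (XT.lf (nat_lit 76) (nat_lit 6174438244) (nat_lit 0) (nat_lit 8826001390) (nat_lit 304) (nat_lit 6174438244) (nat_lit 175) (nat_lit 1) (nat_lit 174) (nat_lit 1) (nat_lit 178) (nat_lit 1) (nat_lit 241) (nat_lit 429) (nat_lit 350)))))) (XT.nd (nat_lit 390) (nat_lit 760) (nat_lit 0) (XT.nd (nat_lit 156) (nat_lit 380) (nat_lit 0) (XT.nd (nat_lit 78) (nat_lit 0) (nat_lit 0) (XT.lf (nat_lit 228) (nat_lit 6440061499) (nat_lit 0) (nat_lit 7254604769) (nat_lit 152) (nat_lit 7254604769) (nat_lit 175) (nat_lit 1) (nat_lit 172) (nat_lit 1) (nat_lit 174) (nat_lit 1) (nat_lit 242) (nat_lit 429) (nat_lit 349)) (XT.lf (nat_lit 76) (nat_lit 319792466)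 (nat_lit 0) (nat_lit 20088793164) (nat_lit 228) (nat_lit 319792466) (nat_lit 173) (nat_lit 1) (nat_lit 172) (nat_lit 1) (nat_lit 175) (nat_lit 1) (nat_lit 243) (nat_lit 429) (nat_lit 348))) (XT.nd (nat_lit 78) (nat_lit 152) (nat_lit 0) (XT.lf (nat_lit 76) (nat_lit 7709522772) (nat_lit 0) (nat_lit 5087640643) (nat_lit 228) (nat_lit 7709522772) (nat_lit 170) (nat_lit 1) (nat_lit 169) (nat_lit 1) (nat_lit 172) (nat_lit 1) (nat_lit 244) (nat_lit 429) (nat_lit 347)) (XT.nd (nat_lit 78) (nat_lit 0) (nat_lit 0) (XT.lf (nat_lit 228) (nat_lit 9599246528) (nat_lit 0) (nat_lit 5345196032) (nat_lit 152) (nat_lit 5345196032) (nat_lit 170) (nat_lit 1) (nat_lit 167) (nat_lit 1) (nat_lit 169) (nat_lit 1) (nat_lit 245) (nat_lit 429) (nat_lit 346)) (XT.lf (nat_lit 76) (nat_lit 1926957088) (nat_lit 0) (nat_lit 16222230383) (nat_lit 228) (nat_lit 1926957088) (nat_lit 168) (nat_lit 1) (nat_lit 167) (nat_lit 1) (nat_lit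 170) (nat_lit 1) (nat_lit 246) (nat_lit 429) (nat_lit 345))))) (XT.nd (nat_lit 156) (nat_lit 380) (nat_lit 0) (XT.nd (nat_lit 78) (nat_lit 152) (nat_lit 0) (XT.lf (nat_lit 76) (nat_lit 9008660025) (nat_lit 0) (nat_lit 1846373420) (nat_lit 228) (nat_lit 9008660025) (nat_lit 165) (nat_lit 1) (nat_lit 164) (nat_lit 1) (nat_lit 167) (nat_lit 1) (nat_lit 247) (nat_lit 429) (nat_lit 344)) (XT.lf (nat_lit 228) (nat_lit 12293209411) (nat_lit 0) (nat_lit 3680762353) (nat_lit 152) (nat_lit 3680762353) (nat_lit 165) (nat_lit 1) (nat_lit 162) (nat_lit 1) (nat_lit 164) (nat_lit 1) (nat_lit 248) (nat_lit 429) (nat_lit 343))) (XT.nd (nat_lit 78) (nat_lit 380) (nat_lit 0) (XT.lf (nat_lit 76) (nat_lit 3307052748) (nat_lit 0) (nat_lit 12834210369) (nat_lit 228) (nat_lit 3307052748) (nat_lit 163) (nat_lit 1) (nat_lit 162) (nat_lit 1) (nat_lit 165) (nat_lit 1) (nat_lit 249) (nat_lit 429) (nat_lit 342)) (XT.nd (nat_lit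 78) (nat_lit 228) (nat_lit 0) (XT.lf (nat_lit 228) (nat_lit 974586784) (nat_lit 0) (nat_lit 9134829094) (nat_lit 152) (nat_lit 9134829094) (nat_lit 163) (nat_lit 1) (nat_lit 160) (nat_lit 1) (nat_lit 162) (nat_lit 1) (nat_lit 250) (nat_lit 429) (nat_lit 341)) (XT.lf (nat_lit 228) (nat_lit 14577117730) (nat_lit 0) (nat_lit 2233052308) (nat_lit 152) (nat_lit 2233052308) (nat_lit 160) (nat_lit 1) (nat_lit 157) (nat_lit 1) (nat_lit 159) (nat_lit 1) (nat_lit 251) (nat_lit 429) (nat_lit 340))))))))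
noncomputable def ec472 : XT := (XT.nd (nat_lit 1404) (nat_lit 1748) (nat_lit 0) (XT.nd (nat_lit 702) (nat_lit 912) (nat_lit 0) (XT.nd (nat_lit 312) (nat_lit 456) (nat_lit 0) (XT.nd (nat_lit 156) (nat_lit 228) (nat_lit 0) (XT.nd (nat_lit 78) (nat_lit 152) (nat_lit 0) (XT.lf (nat_lit 76) (nat_lit 4486794246) (nat_lit 0) (nat_lit 9869989668) (nat_lit 228) (nat_lit 4486794246) (nat_lit 158) (nat_lit 1) (nat_lit 157) (nat_lit 1) (nat_lit 160) (nat_lit 1) (nat_lit 252) (nat_lit 429) (nat_lit 339)) (XT.lf (nat_lit 228) (nat_lit 3436504241) (nat_lit 0) (nat_lit 7605213113) (nat_lit 152) (nat_lit 7605213113) (nat_lit 158) (nat_lit 1) (nat_lit 155) (nat_lit 1) (nat_lit 157) (nat_lit 1) (nat_lit 253) (nat_lit 429) (nat_lit 338))) (XT.nd (nat_lit 78) (nat_lit 0) (nat_lit 0) (XT.lf (nat_lit 228) (nat_lit 16499891357) (nat_lit 0) (nat_lit 976992064) (nat_lit 152) (nat_lit 976992064) (nat_lit 155) (nat_lit 1) (nat_lit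 152) (nat_lit 1) (nat_lit 154) (nat_lit 1) (nat_lit 254) (nat_lit 429) (nat_lit 337)) (XT.lf (nat_lit 76) (nat_lit 5489876742) (nat_lit 0) (nat_lit 7280969620) (nat_lit 228) (nat_lit 5489876742) (nat_lit 153) (nat_lit 1) (nat_lit 152) (nat_lit 1) (nat_lit 155) (nat_lit 1) (nat_lit 255) (nat_lit 429) (nat_lit 336)))) (XT.nd (nat_lit 156) (nat_lit 304) (nat_lit 0) (XT.nd (nat_lit 78) (nat_lit 0) (nat_lit 0) (XT.lf (nat_lit 228) (nat_lit 5549014271) (nat_lit 0) (nat_lit 6261051580) (nat_lit 152) (nat_lit 6261051580) (nat_lit 153) (nat_lit 1) (nat_lit 150) (nat_lit 1) (nat_lit 152) (nat_lit 1) (nat_lit 256) (nat_lit 429) (nat_lit 335)) (XT.lf (nat_lit 76) (nat_lit 110755596) (nat_lit 0) (nat_lit 17663922845) (nat_lit 228) (nat_lit 110755596) (nat_lit 151) (nat_lit 1) (nat_lit 150) (nat_lit 1) (nat_lit 153) (nat_lit 1) (nat_lit 257) (nat_lit 429) (nat_lit 334))) (XT.nd (nat_lit 78) (nat_lit 152) (nat_lit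 0) (XT.lf (nat_lit 76) (nat_lit 6337313669) (nat_lit 0) (nat_lit 5024009957) (nat_lit 152) (nat_lit 6337313669) (nat_lit 149) (nat_lit 1) (nat_lit 148) (nat_lit 1) (nat_lit 150) (nat_lit 1) (nat_lit 258) (nat_lit 429) (nat_lit 333)) (XT.nd (nat_lit 78) (nat_lit 0) (nat_lit 0) (XT.lf (nat_lit 228) (nat_lit 7353261059) (nat_lit 0) (nat_lit 5081230450) (nat_lit 152) (nat_lit 5081230450) (nat_lit 149) (nat_lit 1) (nat_lit 146) (nat_lit 1) (nat_lit 148) (nat_lit 1) (nat_lit 259) (nat_lit 429) (nat_lit 332)) (XT.lf (nat_lit 76) (nat_lit 1057040733) (nat_lit 0) (nat_lit 15221932269) (nat_lit 228) (nat_lit 1057040733) (nat_lit 147) (nat_lit 1) (nat_lit 146) (nat_lit 1) (nat_lit 149) (nat_lit 1) (nat_lit 260) (nat_lit 429) (nat_lit 331)))))) (XT.nd (nat_lit 312) (nat_lit 456) (nat_lit 0) (XT.nd (nat_lit 156) (nat_lit 152) (nat_lit 0) (XT.nd (nat_lit 78) (nat_lit 152) (nat_lit 0) (XT.lf (nat_lit 76) (nat_lit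 7047736927) (nat_lit 0) (nat_lit 3060818993) (nat_lit 152) (nat_lit 7047736927) (nat_lit 145) (nat_lit 1) (nat_lit 144) (nat_lit 1) (nat_lit 146) (nat_lit 1) (nat_lit 261) (nat_lit 429) (nat_lit 330)) (XT.lf (nat_lit 228) (nat_lit 8885737162) (nat_lit 0) (nat_lit 4047002797) (nat_lit 152) (nat_lit 4047002797) (nat_lit 145) (nat_lit 1) (nat_lit 142) (nat_lit 1) (nat_lit 144) (nat_lit 1) (nat_lit 262) (nat_lit 429) (nat_lit 329))) (XT.nd (nat_lit 78) (nat_lit 152) (nat_lit 0) (XT.lf (nat_lit 76) (nat_lit 1869881388) (nat_lit 0) (nat_lit 13066009671) (nat_lit 228) (nat_lit 1869881388) (nat_lit 143) (nat_lit 1) (nat_lit 142) (nat_lit 1) (nat_lit 145) (nat_lit 1) (nat_lit 263) (nat_lit 429) (nat_lit 328)) (XT.lf (nat_lit 76) (nat_lit 7637663574) (nat_lit 0) (nat_lit 1357411835) (nat_lit 152) (nat_lit 7637663574) (nat_lit 141) (nat_lit 1) (nat_lit 140) (nat_lit 1) (nat_lit 142) (nat_lit 1) (nat_lit 264) (nat_lit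 429) (nat_lit 327)))) (XT.nd (nat_lit 156) (nat_lit 304) (nat_lit 0) (XT.nd (nat_lit 78) (nat_lit 0) (nat_lit 0) (XT.lf (nat_lit 228) (nat_lit 10178804081) (nat_lit 0) (nat_lit 3141724476) (nat_lit 152) (nat_lit 3141724476) (nat_lit 141) (nat_lit 1) (nat_lit 138) (nat_lit 1) (nat_lit 140) (nat_lit 1) (nat_lit 265) (nat_lit 429) (nat_lit 326)) (XT.lf (nat_lit 76) (nat_lit 2564971597) (nat_lit 0) (nat_lit 11163854152) (nat_lit 228) (nat_lit 2564971597) (nat_lit 139) (nat_lit 1) (nat_lit 138) (nat_lit 1) (nat_lit 141) (nat_lit 1) (nat_lit 266) (nat_lit 429) (nat_lit 325))) (XT.nd (nat_lit 78) (nat_lit 228) (nat_lit 0) (XT.lf (nat_lit 152) (nat_lit 118686959) (nat_lit 0) (nat_lit 8004186663) (nat_lit 76) (nat_lit 8004186663) (nat_lit 139) (nat_lit 1) (nat_lit 137) (nat_lit 1) (nat_lit 138) (nat_lit 1) (nat_lit 267) (nat_lit 429) (nat_lit 324)) (XT.nd (nat_lit 78) (nat_lit 0) (nat_lit 0) (XT.lf (nat_lit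 228) (nat_lit 11261154716) (nat_lit 0) (nat_lit 2350619279) (nat_lit 152) (nat_lit 2350619279) (nat_lit 137) (nat_lit 1) (nat_lit 134) (nat_lit 1) (nat_lit 136) (nat_lit 1) (nat_lit 268) (nat_lit 429) (nat_lit 323)) (XT.lf (nat_lit 76) (nat_lit 3156231617) (nat_lit 0) (nat_lit 9486778452) (nat_lit 228) (nat_lit 3156231617) (nat_lit 135) (nat_lit 1) (nat_lit 134) (nat_lit 1) (nat_lit 137) (nat_lit 1) (nat_lit 269) (nat_lit 429) (nat_lit 322))))))) (XT.nd (nat_lit 702) (nat_lit 836) (nat_lit 0) (XT.nd (nat_lit 312) (nat_lit 532) (nat_lit 0) (XT.nd (nat_lit 156) (nat_lit 76) (nat_lit 0) (XT.nd (nat_lit 78) (nat_lit 228) (nat_lit 0) (XT.lf (nat_lit 152) (nat_lit 1414900768) (nat_lit 0) (nat_lit 7111616180) (nat_lit 76) (nat_lit 7111616180) (nat_lit 135) (nat_lit 1) (nat_lit 133) (nat_lit 1) (nat_lit 134) (nat_lit 1) (nat_lit 270) (nat_lit 429) (nat_lit 321)) (XT.lf (nat_lit 228) (nat_lit 12158224214) (nat_lit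 0) (nat_lit 1660570293) (nat_lit 152) (nat_lit 1660570293) (nat_lit 133) (nat_lit 1) (nat_lit 130) (nat_lit 1) (nat_lit 132) (nat_lit 1) (nat_lit 271) (nat_lit 429) (nat_lit 320))) (XT.nd (nat_lit 78) (nat_lit 76) (nat_lit 0) (XT.lf (nat_lit 76) (nat_lit 3656006422) (nat_lit 0) (nat_lit 8009305638) (nat_lit 228) (nat_lit 3656006422) (nat_lit 131) (nat_lit 1) (nat_lit 130) (nat_lit 1) (nat_lit 133) (nat_lit 1) (nat_lit 272) (nat_lit 429) (nat_lit 319)) (XT.lf (nat_lit 152) (nat_lit 2528430659) (nat_lit 0) (nat_lit 6318578865) (nat_lit 76) (nat_lit 6318578865) (nat_lit 131) (nat_lit 1) (nat_lit 129) (nat_lit 1) (nat_lit 130) (nat_lit 1) (nat_lit 273) (nat_lit 429) (nat_lit 318)))) (XT.nd (nat_lit 156) (nat_lit 304) (nat_lit 0) (XT.nd (nat_lit 78) (nat_lit 0) (nat_lit 0) (XT.lf (nat_lit 228) (nat_lit 12892554937) (nat_lit 0) (nat_lit 1059934527) (nat_lit 152) (nat_lit 1059934527) (nat_lit 129) (nat_lit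 1) (nat_lit 126) (nat_lit 1) (nat_lit 128) (nat_lit 1) (nat_lit 274) (nat_lit 429) (nat_lit 317)) (XT.lf (nat_lit 76) (nat_lit 4075242032) (nat_lit 0) (nat_lit 6708810786) (nat_lit 228) (nat_lit 4075242032) (nat_lit 127) (nat_lit 1) (nat_lit 126) (nat_lit 1) (nat_lit 129) (nat_lit 1) (nat_lit 275) (nat_lit 429) (nat_lit 316))) (XT.nd (nat_lit 78) (nat_lit 228) (nat_lit 0) (XT.lf (nat_lit 152) (nat_lit 3480759108) (nat_lit 0) (nat_lit 5613975483) (nat_lit 76) (nat_lit 5613975483) (nat_lit 127) (nat_lit 1) (nat_lit 125) (nat_lit 1) (nat_lit 126) (nat_lit 1) (nat_lit 276) (nat_lit 429) (nat_lit 315)) (XT.nd (nat_lit 78) (nat_lit 0) (nat_lit 0) (XT.lf (nat_lit 228) (nat_lit 13484120696) (nat_lit 0) (nat_lit 538378224) (nat_lit 152) (nat_lit 538378224) (nat_lit 125) (nat_lit 1) (nat_lit 122) (nat_lit 1) (nat_lit 124) (nat_lit 1) (nat_lit 277) (nat_lit 429) (nat_lit 314)) (XT.lf (nat_lit 76) (nat_lit 4423642170)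 (nat_lit 0) (nat_lit 5565202619) (nat_lit 228) (nat_lit 4423642170) (nat_lit 123) (nat_lit 1) (nat_lit 122) (nat_lit 1) (nat_lit 125) (nat_lit 1) (nat_lit 278) (nat_lit 429) (nat_lit 313)))))) (XT.nd (nat_lit 390) (nat_lit 456) (nat_lit 0) (XT.nd (nat_lit 156) (nat_lit 76) (nat_lit 0) (XT.nd (nat_lit 78) (nat_lit 228) (nat_lit 0) (XT.lf (nat_lit 152) (nat_lit 4290940662) (nat_lit 0) (nat_lit 4987944504) (nat_lit 76) (nat_lit 4987944504) (nat_lit 123) (nat_lit 1) (nat_lit 121) (nat_lit 1) (nat_lit 122) (nat_lit 1) (nat_lit 279) (nat_lit 429) (nat_lit 312)) (XT.lf (nat_lit 228) (nat_lit 13950614765) (nat_lit 0) (nat_lit 86730550) (nat_lit 152) (nat_lit 86730550) (nat_lit 121) (nat_lit 1) (nat_lit 118) (nat_lit 1) (nat_lit 120) (nat_lit 1) (nat_lit 280) (nat_lit 429) (nat_lit 311))) (XT.nd (nat_lit 78) (nat_lit 76) (nat_lit 0) (XT.lf (nat_lit 76) (nat_lit 4709807421) (nat_lit 0) (nat_lit 4560640669) (nat_lit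 228) (nat_lit 4709807421) (nat_lit 119) (nat_lit 1) (nat_lit 118) (nat_lit 1) (nat_lit 121) (nat_lit 1) (nat_lit 281) (nat_lit 429) (nat_lit 310)) (XT.nd (nat_lit 78) (nat_lit 0) (nat_lit 0) (XT.lf (nat_lit 152) (nat_lit 4975873627) (nat_lit 0) (nat_lit 4431724087) (nat_lit 76) (nat_lit 4431724087) (nat_lit 119) (nat_lit 1) (nat_lit 117) (nat_lit 1) (nat_lit 118) (nat_lit 1) (nat_lit 282) (nat_lit 429) (nat_lit 309)) (XT.lf (nat_lit 0) (nat_lit 306147846) (nat_lit 0) (nat_lit 13088762332) (nat_lit 152) (nat_lit 306147846) (nat_lit 117) (nat_lit 3) (nat_lit 117) (nat_lit 1) (nat_lit 119) (nat_lit 1) (nat_lit 283) (nat_lit 429) (nat_lit 308))))) (XT.nd (nat_lit 156) (nat_lit 228) (nat_lit 0) (XT.nd (nat_lit 78) (nat_lit 76) (nat_lit 0) (XT.lf (nat_lit 76) (nat_lit 4941358860) (nat_lit 0) (nat_lit 3679283973) (nat_lit 152) (nat_lit 4941358860) (nat_lit 116) (nat_lit 1) (nat_lit 115) (nat_lit 1) (nat_lit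 117) (nat_lit 1) (nat_lit 284) (nat_lit 429) (nat_lit 307)) (XT.lf (nat_lit 152) (nat_lit 5550541429) (nat_lit 0) (nat_lit 3937529451) (nat_lit 76) (nat_lit 3937529451) (nat_lit 116) (nat_lit 1) (nat_lit 114) (nat_lit 1) (nat_lit 115) (nat_lit 1) (nat_lit 285) (nat_lit 429) (nat_lit 306))) (XT.nd (nat_lit 78) (nat_lit 228) (nat_lit 0) (XT.lf (nat_lit 0) (nat_lit 644794587) (nat_lit 0) (nat_lit 12001981997) (nat_lit 152) (nat_lit 644794587) (nat_lit 114) (nat_lit 3) (nat_lit 114) (nat_lit 1) (nat_lit 116) (nat_lit 1) (nat_lit 286) (nat_lit 429) (nat_lit 305)) (XT.nd (nat_lit 78) (nat_lit 76) (nat_lit 0) (XT.lf (nat_lit 76) (nat_lit 5125047879) (nat_lit 0) (nat_lit 2907067814) (nat_lit 152) (nat_lit 5125047879) (nat_lit 113) (nat_lit 1) (nat_lit 112) (nat_lit 1) (nat_lit 114) (nat_lit 1) (nat_lit 287) (nat_lit 429) (nat_lit 304)) (XT.lf (nat_lit 152) (nat_lit 6028227043) (nat_lit 0) (nat_lit 3498443918)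 (nat_lit 76) (nat_lit 3498443918) (nat_lit 113) (nat_lit 1) (nat_lit 111) (nat_lit 1) (nat_lit 112) (nat_lit 1) (nat_lit 288) (nat_lit 429) (nat_lit 303))))))))
noncomputable def ec473 : XT := (XT.nd (nat_lit 1482) (nat_lit 1444) (nat_lit 0) (XT.nd (nat_lit 702) (nat_lit 684) (nat_lit 0) (XT.nd (nat_lit 312) (nat_lit 456) (nat_lit 0) (XT.nd (nat_lit 156) (nat_lit 76) (nat_lit 0) (XT.nd (nat_lit 78) (nat_lit 152) (nat_lit 0) (XT.lf (nat_lit 0) (nat_lit 934819980) (nat_lit 0) (nat_lit 11025533895) (nat_lit 152) (nat_lit 934819980) (nat_lit 111) (nat_lit 3) (nat_lit 111) (nat_lit 1) (nat_lit 113) (nat_lit 1) (nat_lit 289) (nat_lit 429) (nat_lit 302)) (XT.lf (nat_lit 76) (nat_lit 5266853741) (nat_lit 0) (nat_lit 2231505361) (nat_lit 152) (nat_lit 5266853741) (nat_lit 110) (nat_lit 1) (nat_lit 109) (nat_lit 1) (nat_lit 111) (nat_lit 1) (nat_lit 290) (nat_lit 429) (nat_lit 301))) (XT.nd (nat_lit 78) (nat_lit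 0) (nat_lit 0) (XT.lf (nat_lit 152) (nat_lit 6420703469) (nat_lit 0) (nat_lit 3108322109) (nat_lit 76) (nat_lit 3108322109) (nat_lit 110) (nat_lit 1) (nat_lit 108) (nat_lit 1) (nat_lit 109) (nat_lit 1) (nat_lit 291) (nat_lit 429) (nat_lit 300)) (XT.lf (nat_lit 0) (nat_lit 1181962184) (nat_lit 0) (nat_lit 10147430801) (nat_lit 152) (nat_lit 1181962184) (nat_lit 108) (nat_lit 3) (nat_lit 108) (nat_lit 1) (nat_lit 110) (nat_lit 1) (nat_lit 292) (nat_lit 429) (nat_lit 299)))) (XT.nd (nat_lit 156) (nat_lit 228) (nat_lit 0) (XT.nd (nat_lit 78) (nat_lit 76) (nat_lit 0) (XT.lf (nat_lit 76) (nat_lit 5372070245) (nat_lit 0) (nat_lit 1641511437) (nat_lit 152) (nat_lit 5372070245) (nat_lit 107) (nat_lit 1) (nat_lit 106) (nat_lit 1) (nat_lit 108) (nat_lit 1) (nat_lit 293) (nat_lit 429) (nat_lit 298)) (XT.lf (nat_lit 152) (nat_lit 6738402957) (nat_lit 0) (nat_lit 2761703935) (nat_lit 76) (nat_lit 2761703935) (nat_lit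 107) (nat_lit 1) (nat_lit 105) (nat_lit 1) (nat_lit 106) (nat_lit 1) (nat_lit 294) (nat_lit 429) (nat_lit 297))) (XT.nd (nat_lit 78) (nat_lit 228) (nat_lit 0) (XT.lf (nat_lit 0) (nat_lit 1391310265) (nat_lit 0) (nat_lit 9357013010) (nat_lit 152) (nat_lit 1391310265) (nat_lit 105) (nat_lit 3) (nat_lit 105) (nat_lit 1) (nat_lit 107) (nat_lit 1) (nat_lit 295) (nat_lit 429) (nat_lit 296)) (XT.nd (nat_lit 78) (nat_lit 76) (nat_lit 0) (XT.lf (nat_lit 76) (nat_lit 5445382710) (nat_lit 0) (nat_lit 1127245948) (nat_lit 152) (nat_lit 5445382710) (nat_lit 104) (nat_lit 1) (nat_lit 103) (nat_lit 1) (nat_lit 105) (nat_lit 1) (nat_lit 296) (nat_lit 429) (nat_lit 295)) (XT.lf (nat_lit 152) (nat_lit 6990567331) (nat_lit 0) (nat_lit 2453738176) (nat_lit 76) (nat_lit 2453738176) (nat_lit 104) (nat_lit 1) (nat_lit 102) (nat_lit 1) (nat_lit 103) (nat_lit 1) (nat_lit 297) (nat_lit 429) (nat_lit 294)))))) (XT.nd (nat_lit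 390) (nat_lit 304) (nat_lit 0) (XT.nd (nat_lit 156) (nat_lit 228) (nat_lit 0) (XT.nd (nat_lit 78) (nat_lit 152) (nat_lit 0) (XT.lf (nat_lit 0) (nat_lit 1567376853) (nat_lit 0) (nat_lit 8644800569) (nat_lit 152) (nat_lit 1567376853) (nat_lit 102) (nat_lit 3) (nat_lit 102) (nat_lit 1) (nat_lit 104) (nat_lit 1) (nat_lit 298) (nat_lit 429) (nat_lit 293)) (XT.lf (nat_lit 76) (nat_lit 5490936355) (nat_lit 0) (nat_lit 679974781) (nat_lit 152) (nat_lit 5490936355) (nat_lit 101) (nat_lit 1) (nat_lit 100) (nat_lit 1) (nat_lit 102) (nat_lit 1) (nat_lit 299) (nat_lit 429) (nat_lit 292))) (XT.nd (nat_lit 78) (nat_lit 152) (nat_lit 0) (XT.lf (nat_lit 152) (nat_lit 7185381521) (nat_lit 0) (nat_lit 2180114588) (nat_lit 76) (nat_lit 2180114588) (nat_lit 101) (nat_lit 1) (nat_lit 99) (nat_lit 1) (nat_lit 100) (nat_lit 1) (nat_lit 300) (nat_lit 429) (nat_lit 291)) (XT.nd (nat_lit 78) (nat_lit 152) (nat_lit 0) (XT.lf (nat_lit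 0) (nat_lit 1714162677) (nat_lit 0) (nat_lit 8002361981) (nat_lit 152) (nat_lit 1714162677) (nat_lit 99) (nat_lit 3) (nat_lit 99) (nat_lit 1) (nat_lit 101) (nat_lit 1) (nat_lit 301) (nat_lit 429) (nat_lit 290)) (XT.lf (nat_lit 76) (nat_lit 5512397042) (nat_lit 0) (nat_lit 291946219) (nat_lit 152) (nat_lit 5512397042) (nat_lit 98) (nat_lit 1) (nat_lit 97) (nat_lit 1) (nat_lit 99) (nat_lit 1) (nat_lit 302) (nat_lit 429) (nat_lit 289))))) (XT.nd (nat_lit 156) (nat_lit 228) (nat_lit 0) (XT.nd (nat_lit 78) (nat_lit 0) (nat_lit 0) (XT.lf (nat_lit 152) (nat_lit 7330092192) (nat_lit 0) (nat_lit 1937003575) (nat_lit 76) (nat_lit 1937003575) (nat_lit 98) (nat_lit 1) (nat_lit 96) (nat_lit 1) (nat_lit 97) (nat_lit 1) (nat_lit 303) (nat_lit 429) (nat_lit 288)) (XT.lf (nat_lit 0) (nat_lit 1835213903) (nat_lit 0) (nat_lit 7422197539) (nat_lit 152) (nat_lit 1835213903) (nat_lit 96) (nat_lit 3) (nat_lit 96) (nat_lit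 1) (nat_lit 98) (nat_lit 1) (nat_lit 304) (nat_lit 429) (nat_lit 287))) (XT.nd (nat_lit 78) (nat_lit 152) (nat_lit 0) (XT.lf (nat_lit 76) (nat_lit 44588943) (nat_lit 0) (nat_lit 5468844901) (nat_lit 76) (nat_lit 5468844901) (nat_lit 96) (nat_lit 3) (nat_lit 95) (nat_lit 1) (nat_lit 96) (nat_lit 1) (nat_lit 305) (nat_lit 429) (nat_lit 286)) (XT.nd (nat_lit 78) (nat_lit 0) (nat_lit 0) (XT.lf (nat_lit 152) (nat_lit 7431113115) (nat_lit 0) (nat_lit 1721002588) (nat_lit 76) (nat_lit 1721002588) (nat_lit 95) (nat_lit 1) (nat_lit 93) (nat_lit 1) (nat_lit 94) (nat_lit 1) (nat_lit 306) (nat_lit 429) (nat_lit 285)) (XT.lf (nat_lit 0) (nat_lit 1933673070) (nat_lit 0) (nat_lit 6897635669) (nat_lit 152) (nat_lit 1933673070) (nat_lit 93) (nat_lit 3) (nat_lit 93) (nat_lit 1) (nat_lit 95) (nat_lit 1) (nat_lit 307) (nat_lit 429) (nat_lit 284))))))) (XT.nd (nat_lit 702) (nat_lit 760) (nat_lit 0) (XT.nd (nat_lit 312)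 (nat_lit 380) (nat_lit 0) (XT.nd (nat_lit 156) (nat_lit 76) (nat_lit 0) (XT.nd (nat_lit 78) (nat_lit 152) (nat_lit 0) (XT.lf (nat_lit 76) (nat_lit 339754327) (nat_lit 0) (nat_lit 5159135490) (nat_lit 76) (nat_lit 5159135490) (nat_lit 93) (nat_lit 3) (nat_lit 92) (nat_lit 1) (nat_lit 93) (nat_lit 1) (nat_lit 308) (nat_lit 429) (nat_lit 283)) (XT.lf (nat_lit 152) (nat_lit 7494118766) (nat_lit 0) (nat_lit 1529088509) (nat_lit 76) (nat_lit 1529088509) (nat_lit 92) (nat_lit 1) (nat_lit 90) (nat_lit 1) (nat_lit 91) (nat_lit 1) (nat_lit 309) (nat_lit 429) (nat_lit 282))) (XT.nd (nat_lit 78) (nat_lit 76) (nat_lit 0) (XT.lf (nat_lit 0) (nat_lit 2012324340) (nat_lit 0) (nat_lit 6422740815) (nat_lit 152) (nat_lit 2012324340) (nat_lit 90) (nat_lit 3) (nat_lit 90) (nat_lit 1) (nat_lit 92) (nat_lit 1) (nat_lit 310) (nat_lit 429) (nat_lit 281)) (XT.lf (nat_lit 76) (nat_lit 593263074) (nat_lit 0) (nat_lit 4875220817)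 (nat_lit 76) (nat_lit 4875220817) (nat_lit 90) (nat_lit 3) (nat_lit 89) (nat_lit 1) (nat_lit 90) (nat_lit 1) (nat_lit 311) (nat_lit 429) (nat_lit 280)))) (XT.nd (nat_lit 156) (nat_lit 228) (nat_lit 0) (XT.nd (nat_lit 78) (nat_lit 0) (nat_lit 0) (XT.lf (nat_lit 152) (nat_lit 7524127470) (nat_lit 0) (nat_lit 1358575335) (nat_lit 76) (nat_lit 1358575335) (nat_lit 89) (nat_lit 1) (nat_lit 87) (nat_lit 1) (nat_lit 88) (nat_lit 1) (nat_lit 312) (nat_lit 429) (nat_lit 279)) (XT.lf (nat_lit 0) (nat_lit 2073633687) (nat_lit 0) (nat_lit 5992231601) (nat_lit 152) (nat_lit 2073633687) (nat_lit 87) (nat_lit 3) (nat_lit 87) (nat_lit 1) (nat_lit 89) (nat_lit 1) (nat_lit 313) (nat_lit 429) (nat_lit 278))) (XT.nd (nat_lit 78) (nat_lit 152) (nat_lit 0) (XT.lf (nat_lit 76) (nat_lit 810015058) (nat_lit 0) (nat_lit 4614479052) (nat_lit 76) (nat_lit 4614479052) (nat_lit 87) (nat_lit 3) (nat_lit 86) (nat_lit 1) (nat_lit 87)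 (nat_lit 1) (nat_lit 314) (nat_lit 429) (nat_lit 277)) (XT.nd (nat_lit 78) (nat_lit 0) (nat_lit 0) (XT.lf (nat_lit 152) (nat_lit 7525575252) (nat_lit 0) (nat_lit 1207076589) (nat_lit 76) (nat_lit 1207076589) (nat_lit 86) (nat_lit 1) (nat_lit 84) (nat_lit 1) (nat_lit 85) (nat_lit 1) (nat_lit 315) (nat_lit 429) (nat_lit 276)) (XT.lf (nat_lit 0) (nat_lit 2119784609) (nat_lit 0) (nat_lit 5601408102) (nat_lit 152) (nat_lit 2119784609) (nat_lit 84) (nat_lit 3) (nat_lit 84) (nat_lit 1) (nat_lit 86) (nat_lit 1) (nat_lit 316) (nat_lit 429) (nat_lit 275)))))) (XT.nd (nat_lit 390) (nat_lit 304) (nat_lit 0) (XT.nd (nat_lit 156) (nat_lit 228) (nat_lit 0) (XT.nd (nat_lit 78) (nat_lit 152) (nat_lit 0) (XT.lf (nat_lit 76) (nat_lit 994356335) (nat_lit 0) (nat_lit 4374573318) (nat_lit 76) (nat_lit 4374573318) (nat_lit 84) (nat_lit 3) (nat_lit 83) (nat_lit 1) (nat_lit 84) (nat_lit 1) (nat_lit 317) (nat_lit 429) (nat_lit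 274)) (XT.lf (nat_lit 152) (nat_lit 7502381429) (nat_lit 0) (nat_lit 1072471915) (nat_lit 76) (nat_lit 1072471915) (nat_lit 83) (nat_lit 1) (nat_lit 81) (nat_lit 1) (nat_lit 82) (nat_lit 1) (nat_lit 318) (nat_lit 429) (nat_lit 273))) (XT.nd (nat_lit 78) (nat_lit 228) (nat_lit 0) (XT.lf (nat_lit 0) (nat_lit 2152709846) (nat_lit 0) (nat_lit 5246087225) (nat_lit 152) (nat_lit 2152709846) (nat_lit 81) (nat_lit 3) (nat_lit 81) (nat_lit 1) (nat_lit 83) (nat_lit 1) (nat_lit 319) (nat_lit 429) (nat_lit 272)) (XT.nd (nat_lit 78) (nat_lit 152) (nat_lit 0) (XT.lf (nat_lit 76) (nat_lit 1150141119) (nat_lit 0) (nat_lit 4153420128) (nat_lit 76) (nat_lit 4153420128) (nat_lit 81) (nat_lit 3) (nat_lit 80) (nat_lit 1) (nat_lit 81) (nat_lit 1) (nat_lit 320) (nat_lit 429) (nat_lit 271)) (XT.lf (nat_lit 152) (nat_lit 7458006873) (nat_lit 0) (nat_lit 952877406) (nat_lit 76) (nat_lit 952877406) (nat_lit 80) (nat_lit 1) (nat_lit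 78) (nat_lit 1) (nat_lit 79) (nat_lit 1) (nat_lit 321) (nat_lit 429) (nat_lit 270))))) (XT.nd (nat_lit 156) (nat_lit 228) (nat_lit 0) (XT.nd (nat_lit 78) (nat_lit 76) (nat_lit 0) (XT.lf (nat_lit 0) (nat_lit 2174119551) (nat_lit 0) (nat_lit 4922545286) (nat_lit 152) (nat_lit 2174119551) (nat_lit 78) (nat_lit 3) (nat_lit 78) (nat_lit 1) (nat_lit 80) (nat_lit 1) (nat_lit 322) (nat_lit 429) (nat_lit 269)) (XT.lf (nat_lit 76) (nat_lit 1280786842) (nat_lit 0) (nat_lit 3949161343) (nat_lit 76) (nat_lit 3949161343) (nat_lit 78) (nat_lit 3) (nat_lit 77) (nat_lit 1) (nat_lit 78) (nat_lit 1) (nat_lit 323) (nat_lit 429) (nat_lit 268))) (XT.nd (nat_lit 78) (nat_lit 76) (nat_lit 0) (XT.lf (nat_lit 152) (nat_lit 7395505758) (nat_lit 0) (nat_lit 846619233) (nat_lit 76) (nat_lit 846619233) (nat_lit 77) (nat_lit 1) (nat_lit 75) (nat_lit 1) (nat_lit 76) (nat_lit 1) (nat_lit 324) (nat_lit 429) (nat_lit 267)) (XT.nd (nat_lit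 78) (nat_lit 76) (nat_lit 0) (XT.lf (nat_lit 0) (nat_lit 2185526318) (nat_lit 0) (nat_lit 4627466986) (nat_lit 152) (nat_lit 2185526318) (nat_lit 75) (nat_lit 3) (nat_lit 75) (nat_lit 1) (nat_lit 77) (nat_lit 1) (nat_lit 325) (nat_lit 429) (nat_lit 266)) (XT.lf (nat_lit 76) (nat_lit 1389323059) (nat_lit 0) (nat_lit 3760139242) (nat_lit 76) (nat_lit 3760139242) (nat_lit 75) (nat_lit 3) (nat_lit 74) (nat_lit 1) (nat_lit 75) (nat_lit 1) (nat_lit 326) (nat_lit 429) (nat_lit 265))))))))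
noncomputable def ec474 : XT := (XT.nd (nat_lit 1482) (nat_lit 1368) (nat_lit 0) (XT.nd (nat_lit 702) (nat_lit 836) (nat_lit 0) (XT.nd (nat_lit 312) (nat_lit 304) (nat_lit 0) (XT.nd (nat_lit 156) (nat_lit 228) (nat_lit 0) (XT.nd (nat_lit 78) (nat_lit 0) (nat_lit 0) (XT.lf (nat_lit 152) (nat_lit 7317571513) (nat_lit 0) (nat_lit 752210223) (nat_lit 76) (nat_lit 752210223) (nat_lit 74) (nat_lit 1) (nat_lit 72) (nat_lit 1) (nat_lit 73) (nat_lit 1) (nat_lit 327) (nat_lit 429) (nat_lit 264)) (XT.lf (nat_lit 0) (nat_lit 2188267415) (nat_lit 0) (nat_lit 4357900070) (nat_lit 152) (nat_lit 2188267415) (nat_lit 72) (nat_lit 3) (nat_lit 72) (nat_lit 1) (nat_lit 74) (nat_lit 1) (nat_lit 328) (nat_lit 429) (nat_lit 263))) (XT.nd (nat_lit 78) (nat_lit 152) (nat_lit 0) (XT.lf (nat_lit 76) (nat_lit 1478434901) (nat_lit 0) (nat_lit 3584874372) (nat_lit 76) (nat_lit 3584874372) (nat_lit 72) (nat_lit 3) (nat_lit 71) (nat_lit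 1) (nat_lit 72) (nat_lit 1) (nat_lit 329) (nat_lit 429) (nat_lit 262)) (XT.lf (nat_lit 152) (nat_lit 7226577642) (nat_lit 0) (nat_lit 668329040) (nat_lit 76) (nat_lit 668329040) (nat_lit 71) (nat_lit 1) (nat_lit 69) (nat_lit 1) (nat_lit 70) (nat_lit 1) (nat_lit 330) (nat_lit 429) (nat_lit 261)))) (XT.nd (nat_lit 156) (nat_lit 228) (nat_lit 0) (XT.nd (nat_lit 78) (nat_lit 76) (nat_lit 0) (XT.lf (nat_lit 0) (nat_lit 2183524527) (nat_lit 0) (nat_lit 4111215040) (nat_lit 152) (nat_lit 2183524527) (nat_lit 69) (nat_lit 3) (nat_lit 69) (nat_lit 1) (nat_lit 71) (nat_lit 1) (nat_lit 331) (nat_lit 429) (nat_lit 260)) (XT.lf (nat_lit 76) (nat_lit 1550501676) (nat_lit 0) (nat_lit 3422045863) (nat_lit 76) (nat_lit 3422045863) (nat_lit 69) (nat_lit 3) (nat_lit 68) (nat_lit 1) (nat_lit 69) (nat_lit 1) (nat_lit 332) (nat_lit 429) (nat_lit 259))) (XT.nd (nat_lit 78) (nat_lit 76) (nat_lit 0) (XT.lf (nat_lit 152) (nat_lit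 7124613966) (nat_lit 0) (nat_lit 593801696) (nat_lit 76) (nat_lit 593801696) (nat_lit 68) (nat_lit 1) (nat_lit 66) (nat_lit 1) (nat_lit 67) (nat_lit 1) (nat_lit 333) (nat_lit 429) (nat_lit 258)) (XT.nd (nat_lit 78) (nat_lit 76) (nat_lit 0) (XT.lf (nat_lit 0) (nat_lit 2172341291) (nat_lit 0) (nat_lit 3885069344) (nat_lit 152) (nat_lit 2172341291) (nat_lit 66) (nat_lit 3) (nat_lit 66) (nat_lit 1) (nat_lit 68) (nat_lit 1) (nat_lit 334) (nat_lit 429) (nat_lit 257)) (XT.lf (nat_lit 76) (nat_lit 1607631157) (nat_lit 0) (nat_lit 3270473927) (nat_lit 76) (nat_lit 3270473927) (nat_lit 66) (nat_lit 3) (nat_lit 65) (nat_lit 1) (nat_lit 66) (nat_lit 1) (nat_lit 335) (nat_lit 429) (nat_lit 256)))))) (XT.nd (nat_lit 390) (nat_lit 456) (nat_lit 0) (XT.nd (nat_lit 156) (nat_lit 228) (nat_lit 0) (XT.nd (nat_lit 78) (nat_lit 0) (nat_lit 0) (XT.lf (nat_lit 152) (nat_lit 7013518814) (nat_lit 0) (nat_lit 527585116) (nat_lit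 76) (nat_lit 527585116) (nat_lit 65) (nat_lit 1) (nat_lit 63) (nat_lit 1) (nat_lit 64) (nat_lit 1) (nat_lit 336) (nat_lit 429) (nat_lit 255)) (XT.lf (nat_lit 0) (nat_lit 2155638877) (nat_lit 0) (nat_lit 3677375569) (nat_lit 152) (nat_lit 2155638877) (nat_lit 63) (nat_lit 3) (nat_lit 63) (nat_lit 1) (nat_lit 65) (nat_lit 1) (nat_lit 337) (nat_lit 429) (nat_lit 254))) (XT.nd (nat_lit 78) (nat_lit 152) (nat_lit 0) (XT.lf (nat_lit 76) (nat_lit 1651690043) (nat_lit 0) (nat_lit 3129104307) (nat_lit 76) (nat_lit 3129104307) (nat_lit 63) (nat_lit 3) (nat_lit 62) (nat_lit 1) (nat_lit 63) (nat_lit 1) (nat_lit 338) (nat_lit 429) (nat_lit 253)) (XT.nd (nat_lit 78) (nat_lit 0) (nat_lit 0) (XT.lf (nat_lit 152) (nat_lit 6894907600) (nat_lit 0) (nat_lit 468752542) (nat_lit 76) (nat_lit 468752542) (nat_lit 62) (nat_lit 1) (nat_lit 60) (nat_lit 1) (nat_lit 61) (nat_lit 1) (nat_lit 339) (nat_lit 429) (nat_lit 252)) (XT.lf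 (nat_lit 0) (nat_lit 2134229821) (nat_lit 0) (nat_lit 3486273162) (nat_lit 152) (nat_lit 2134229821) (nat_lit 60) (nat_lit 3) (nat_lit 60) (nat_lit 1) (nat_lit 62) (nat_lit 1) (nat_lit 340) (nat_lit 429) (nat_lit 251))))) (XT.nd (nat_lit 156) (nat_lit 228) (nat_lit 0) (XT.nd (nat_lit 78) (nat_lit 152) (nat_lit 0) (XT.lf (nat_lit 76) (nat_lit 1684331019) (nat_lit 0) (nat_lit 2996994457) (nat_lit 76) (nat_lit 2996994457) (nat_lit 60) (nat_lit 3) (nat_lit 59) (nat_lit 1) (nat_lit 60) (nat_lit 1) (nat_lit 341) (nat_lit 429) (nat_lit 250)) (XT.lf (nat_lit 152) (nat_lit 6770198210) (nat_lit 0) (nat_lit 416480562) (nat_lit 76) (nat_lit 416480562) (nat_lit 59) (nat_lit 1) (nat_lit 57) (nat_lit 1) (nat_lit 58) (nat_lit 1) (nat_lit 342) (nat_lit 429) (nat_lit 249))) (XT.nd (nat_lit 78) (nat_lit 228) (nat_lit 0) (XT.lf (nat_lit 0) (nat_lit 2108830309) (nat_lit 0) (nat_lit 3310103306) (nat_lit 152) (nat_lit 2108830309)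 (nat_lit 57) (nat_lit 3) (nat_lit 57) (nat_lit 1) (nat_lit 59) (nat_lit 1) (nat_lit 343) (nat_lit 429) (nat_lit 248)) (XT.nd (nat_lit 78) (nat_lit 152) (nat_lit 0) (XT.lf (nat_lit 76) (nat_lit 1707016789) (nat_lit 0) (nat_lit 2873301251) (nat_lit 76) (nat_lit 2873301251) (nat_lit 57) (nat_lit 3) (nat_lit 56) (nat_lit 1) (nat_lit 57) (nat_lit 1) (nat_lit 344) (nat_lit 429) (nat_lit 247)) (XT.lf (nat_lit 152) (nat_lit 6640633529) (nat_lit 0) (nat_lit 370037585) (nat_lit 76) (nat_lit 370037585) (nat_lit 56) (nat_lit 1) (nat_lit 54) (nat_lit 1) (nat_lit 55) (nat_lit 1) (nat_lit 345) (nat_lit 429) (nat_lit 246))))))) (XT.nd (nat_lit 702) (nat_lit 684) (nat_lit 0) (XT.nd (nat_lit 312) (nat_lit 456) (nat_lit 0) (XT.nd (nat_lit 156) (nat_lit 152) (nat_lit 0) (XT.nd (nat_lit 78) (nat_lit 76) (nat_lit 0) (XT.lf (nat_lit 0) (nat_lit 2080071091) (nat_lit 0) (nat_lit 3147386590) (nat_lit 152) (nat_lit 2080071091)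 (nat_lit 54) (nat_lit 3) (nat_lit 54) (nat_lit 1) (nat_lit 56) (nat_lit 1) (nat_lit 346) (nat_lit 429) (nat_lit 245)) (XT.lf (nat_lit 76) (nat_lit 1721041427) (nat_lit 0) (nat_lit 2757270067) (nat_lit 76) (nat_lit 2757270067) (nat_lit 54) (nat_lit 3) (nat_lit 53) (nat_lit 1) (nat_lit 54) (nat_lit 1) (nat_lit 347) (nat_lit 429) (nat_lit 244))) (XT.nd (nat_lit 78) (nat_lit 0) (nat_lit 0) (XT.lf (nat_lit 152) (nat_lit 6507301451) (nat_lit 0) (nat_lit 328773602) (nat_lit 76) (nat_lit 328773602) (nat_lit 53) (nat_lit 1) (nat_lit 51) (nat_lit 1) (nat_lit 52) (nat_lit 1) (nat_lit 348) (nat_lit 429) (nat_lit 243)) (XT.lf (nat_lit 0) (nat_lit 2048507171) (nat_lit 0) (nat_lit 2996803167) (nat_lit 152) (nat_lit 2048507171) (nat_lit 51) (nat_lit 3) (nat_lit 51) (nat_lit 1) (nat_lit 53) (nat_lit 1) (nat_lit 349) (nat_lit 429) (nat_lit 242)))) (XT.nd (nat_lit 156) (nat_lit 228) (nat_lit 0) (XT.nd (nat_lit 78) (nat_lit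 152) (nat_lit 0) (XT.lf (nat_lit 76) (nat_lit 1727549347) (nat_lit 0) (nat_lit 2648225072) (nat_lit 76) (nat_lit 2648225072) (nat_lit 51) (nat_lit 3) (nat_lit 50) (nat_lit 1) (nat_lit 51) (nat_lit 1) (nat_lit 350) (nat_lit 429) (nat_lit 241)) (XT.lf (nat_lit 152) (nat_lit 6371152639) (nat_lit 0) (nat_lit 292111087) (nat_lit 76) (nat_lit 292111087) (nat_lit 50) (nat_lit 1) (nat_lit 48) (nat_lit 1) (nat_lit 49) (nat_lit 1) (nat_lit 351) (nat_lit 429) (nat_lit 240))) (XT.nd (nat_lit 78) (nat_lit 228) (nat_lit 0) (XT.lf (nat_lit 0) (nat_lit 2014626406) (nat_lit 0) (nat_lit 2857175117) (nat_lit 152) (nat_lit 2014626406) (nat_lit 48) (nat_lit 3) (nat_lit 48) (nat_lit 1) (nat_lit 50) (nat_lit 1) (nat_lit 352) (nat_lit 429) (nat_lit 239)) (XT.nd (nat_lit 78) (nat_lit 152) (nat_lit 0) (XT.lf (nat_lit 76) (nat_lit 1727552142) (nat_lit 0) (nat_lit 2545560599) (nat_lit 76) (nat_lit 2545560599) (nat_lit 48) (nat_lit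 3) (nat_lit 47) (nat_lit 1) (nat_lit 48) (nat_lit 1) (nat_lit 353) (nat_lit 429) (nat_lit 238)) (XT.lf (nat_lit 152) (nat_lit 6233016292) (nat_lit 0) (nat_lit 259536917) (nat_lit 76) (nat_lit 259536917) (nat_lit 47) (nat_lit 1) (nat_lit 45) (nat_lit 1) (nat_lit 46) (nat_lit 1) (nat_lit 354) (nat_lit 429) (nat_lit 237)))))) (XT.nd (nat_lit 390) (nat_lit 380) (nat_lit 0) (XT.nd (nat_lit 156) (nat_lit 228) (nat_lit 0) (XT.nd (nat_lit 78) (nat_lit 76) (nat_lit 0) (XT.lf (nat_lit 0) (nat_lit 1978857156) (nat_lit 0) (nat_lit 2727450772) (nat_lit 152) (nat_lit 1978857156) (nat_lit 45) (nat_lit 3) (nat_lit 45) (nat_lit 1) (nat_lit 47) (nat_lit 1) (nat_lit 355) (nat_lit 429) (nat_lit 236)) (XT.lf (nat_lit 76) (nat_lit 1721943550) (nat_lit 0) (nat_lit 2448733469) (nat_lit 76) (nat_lit 2448733469) (nat_lit 45) (nat_lit 3) (nat_lit 44) (nat_lit 1) (nat_lit 45) (nat_lit 1) (nat_lit 356) (nat_lit 429) (nat_lit 235)))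 (XT.nd (nat_lit 78) (nat_lit 76) (nat_lit 0) (XT.lf (nat_lit 152) (nat_lit 6093614140) (nat_lit 0) (nat_lit 230595189) (nat_lit 76) (nat_lit 230595189) (nat_lit 44) (nat_lit 1) (nat_lit 42) (nat_lit 1) (nat_lit 43) (nat_lit 1) (nat_lit 357) (nat_lit 429) (nat_lit 234)) (XT.nd (nat_lit 78) (nat_lit 76) (nat_lit 0) (XT.lf (nat_lit 0) (nat_lit 1941575056) (nat_lit 0) (nat_lit 2606690789) (nat_lit 152) (nat_lit 1941575056) (nat_lit 42) (nat_lit 3) (nat_lit 42) (nat_lit 1) (nat_lit 44) (nat_lit 1) (nat_lit 358) (nat_lit 429) (nat_lit 233)) (XT.lf (nat_lit 76) (nat_lit 1711512742) (nat_lit 0) (nat_lit 2357256172) (nat_lit 76) (nat_lit 2357256172) (nat_lit 42) (nat_lit 3) (nat_lit 41) (nat_lit 1) (nat_lit 42) (nat_lit 1) (nat_lit 359) (nat_lit 429) (nat_lit 232))))) (XT.nd (nat_lit 156) (nat_lit 228) (nat_lit 0) (XT.nd (nat_lit 78) (nat_lit 0) (nat_lit 0) (XT.lf (nat_lit 152) (nat_lit 5953572865) (nat_lit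 0) (nat_lit 204880839) (nat_lit 76) (nat_lit 204880839) (nat_lit 41) (nat_lit 1) (nat_lit 39) (nat_lit 1) (nat_lit 40) (nat_lit 1) (nat_lit 360) (nat_lit 429) (nat_lit 231)) (XT.lf (nat_lit 0) (nat_lit 1903109051) (nat_lit 0) (nat_lit 2494055765) (nat_lit 152) (nat_lit 1903109051) (nat_lit 39) (nat_lit 3) (nat_lit 39) (nat_lit 1) (nat_lit 41) (nat_lit 1) (nat_lit 361) (nat_lit 429) (nat_lit 230))) (XT.nd (nat_lit 78) (nat_lit 152) (nat_lit 0) (XT.lf (nat_lit 76) (nat_lit 1696956128) (nat_lit 0) (nat_lit 2270690802) (nat_lit 76) (nat_lit 2270690802) (nat_lit 39) (nat_lit 3) (nat_lit 38) (nat_lit 1) (nat_lit 39) (nat_lit 1) (nat_lit 362) (nat_lit 429) (nat_lit 229)) (XT.nd (nat_lit 78) (nat_lit 0) (nat_lit 0) (XT.lf (nat_lit 152) (nat_lit 5813435123) (nat_lit 0) (nat_lit 182033972) (nat_lit 76) (nat_lit 182033972) (nat_lit 38) (nat_lit 1) (nat_lit 36) (nat_lit 1) (nat_lit 37) (nat_lit 1) (nat_lit 363)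 (nat_lit 429) (nat_lit 228)) (XT.lf (nat_lit 0) (nat_lit 1863746734) (nat_lit 0) (nat_lit 2388795235) (nat_lit 152) (nat_lit 1863746734) (nat_lit 36) (nat_lit 3) (nat_lit 36) (nat_lit 1) (nat_lit 38) (nat_lit 1) (nat_lit 364) (nat_lit 429) (nat_lit 227))))))))
noncomputable def ec475 : XT := (XT.nd (nat_lit 1482) (nat_lit 684) (nat_lit 0) (XT.nd (nat_lit 702) (nat_lit 760) (nat_lit 0) (XT.nd (nat_lit 312) (nat_lit 380) (nat_lit 0) (XT.nd (nat_lit 156) (nat_lit 76) (nat_lit 0) (XT.nd (nat_lit 78) (nat_lit 152) (nat_lit 0) (XT.lf (nat_lit 76) (nat_lit 1678887836) (nat_lit 0) (nat_lit 2188643662) (nat_lit 76) (nat_lit 2188643662) (nat_lit 36) (nat_lit 3) (nat_lit 35) (nat_lit 1) (nat_lit 36) (nat_lit 1) (nat_lit 365) (nat_lit 429) (nat_lit 226)) (XT.lf (nat_lit 152) (nat_lit 5673669329) (nat_lit 0) (nat_lit 161734826) (nat_lit 76) (nat_lit 161734826) (nat_lit 35) (nat_lit 1) (nat_lit 33) (nat_lit 1) (nat_lit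 34) (nat_lit 1) (nat_lit 366) (nat_lit 429) (nat_lit 225))) (XT.nd (nat_lit 78) (nat_lit 76) (nat_lit 0) (XT.lf (nat_lit 0) (nat_lit 1823739098) (nat_lit 0) (nat_lit 2290237890) (nat_lit 152) (nat_lit 1823739098) (nat_lit 33) (nat_lit 3) (nat_lit 33) (nat_lit 1) (nat_lit 35) (nat_lit 1) (nat_lit 367) (nat_lit 429) (nat_lit 224)) (XT.lf (nat_lit 76) (nat_lit 1657849025) (nat_lit 0) (nat_lit 2110760474) (nat_lit 76) (nat_lit 2110760474) (nat_lit 33) (nat_lit 3) (nat_lit 32) (nat_lit 1) (nat_lit 33) (nat_lit 1) (nat_lit 368) (nat_lit 429) (nat_lit 223)))) (XT.nd (nat_lit 156) (nat_lit 228) (nat_lit 0) (XT.nd (nat_lit 78) (nat_lit 0) (nat_lit 0) (XT.lf (nat_lit 152) (nat_lit 5534678333) (nat_lit 0) (nat_lit 143699298) (nat_lit 76) (nat_lit 143699298) (nat_lit 32) (nat_lit 1) (nat_lit 30) (nat_lit 1) (nat_lit 31) (nat_lit 1) (nat_lit 369) (nat_lit 429) (nat_lit 222)) (XT.lf (nat_lit 0) (nat_lit 1783304745)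 (nat_lit 0) (nat_lit 2197782880) (nat_lit 152) (nat_lit 1783304745) (nat_lit 30) (nat_lit 3) (nat_lit 30) (nat_lit 1) (nat_lit 32) (nat_lit 1) (nat_lit 370) (nat_lit 429) (nat_lit 221))) (XT.nd (nat_lit 78) (nat_lit 152) (nat_lit 0) (XT.lf (nat_lit 76) (nat_lit 1634316151) (nat_lit 0) (nat_lit 2036722107) (nat_lit 76) (nat_lit 2036722107) (nat_lit 30) (nat_lit 3) (nat_lit 29) (nat_lit 1) (nat_lit 30) (nat_lit 1) (nat_lit 371) (nat_lit 429) (nat_lit 220)) (XT.nd (nat_lit 78) (nat_lit 0) (nat_lit 0) (XT.lf (nat_lit 152) (nat_lit 5396807120) (nat_lit 0) (nat_lit 127674965) (nat_lit 76) (nat_lit 127674965) (nat_lit 29) (nat_lit 1) (nat_lit 27) (nat_lit 1) (nat_lit 28) (nat_lit 1) (nat_lit 372) (nat_lit 429) (nat_lit 219)) (XT.lf (nat_lit 0) (nat_lit 1742633633) (nat_lit 0) (nat_lit 2110892087) (nat_lit 152) (nat_lit 1742633633) (nat_lit 27) (nat_lit 3) (nat_lit 27) (nat_lit 1) (nat_lit 29) (nat_lit 1) (nat_lit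 373) (nat_lit 429) (nat_lit 218)))))) (XT.nd (nat_lit 390) (nat_lit 304) (nat_lit 0) (XT.nd (nat_lit 156) (nat_lit 228) (nat_lit 0) (XT.nd (nat_lit 78) (nat_lit 152) (nat_lit 0) (XT.lf (nat_lit 76) (nat_lit 1608708309) (nat_lit 0) (nat_lit 1966240790) (nat_lit 76) (nat_lit 1966240790) (nat_lit 27) (nat_lit 3) (nat_lit 26) (nat_lit 1) (nat_lit 27) (nat_lit 1) (nat_lit 374) (nat_lit 429) (nat_lit 217)) (XT.lf (nat_lit 152) (nat_lit 5260349641) (nat_lit 0) (nat_lit 113437553) (nat_lit 76) (nat_lit 113437553) (nat_lit 26) (nat_lit 1) (nat_lit 24) (nat_lit 1) (nat_lit 25) (nat_lit 1) (nat_lit 375) (nat_lit 429) (nat_lit 216))) (XT.nd (nat_lit 78) (nat_lit 228) (nat_lit 0) (XT.lf (nat_lit 0) (nat_lit 1701890387) (nat_lit 0) (nat_lit 2029083254) (nat_lit 152) (nat_lit 1701890387) (nat_lit 24) (nat_lit 3) (nat_lit 24) (nat_lit 1) (nat_lit 26) (nat_lit 1) (nat_lit 376) (nat_lit 429) (nat_lit 215)) (XT.nd (nat_lit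 78) (nat_lit 152) (nat_lit 0) (XT.lf (nat_lit 76) (nat_lit 1581393756) (nat_lit 0) (nat_lit 1899056734) (nat_lit 76) (nat_lit 1899056734) (nat_lit 24) (nat_lit 3) (nat_lit 23) (nat_lit 1) (nat_lit 24) (nat_lit 1) (nat_lit 377) (nat_lit 429) (nat_lit 214)) (XT.lf (nat_lit 152) (nat_lit 5125554867) (nat_lit 0) (nat_lit 100787796) (nat_lit 76) (nat_lit 100787796) (nat_lit 23) (nat_lit 1) (nat_lit 21) (nat_lit 1) (nat_lit 22) (nat_lit 1) (nat_lit 378) (nat_lit 429) (nat_lit 213))))) (XT.nd (nat_lit 156) (nat_lit 228) (nat_lit 0) (XT.nd (nat_lit 78) (nat_lit 76) (nat_lit 0) (XT.lf (nat_lit 0) (nat_lit 1661217250) (nat_lit 0) (nat_lit 1951923875) (nat_lit 152) (nat_lit 1661217250) (nat_lit 21) (nat_lit 3) (nat_lit 21) (nat_lit 1) (nat_lit 23) (nat_lit 1) (nat_lit 379) (nat_lit 429) (nat_lit 212)) (XT.lf (nat_lit 76) (nat_lit 1552695695) (nat_lit 0) (nat_lit 1834935136) (nat_lit 76) (nat_lit 1834935136) (nat_lit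 21) (nat_lit 3) (nat_lit 20) (nat_lit 1) (nat_lit 21) (nat_lit 1) (nat_lit 380) (nat_lit 429) (nat_lit 211))) (XT.nd (nat_lit 78) (nat_lit 76) (nat_lit 0) (XT.lf (nat_lit 152) (nat_lit 4992632165) (nat_lit 0) (nat_lit 89548652) (nat_lit 76) (nat_lit 89548652) (nat_lit 20) (nat_lit 1) (nat_lit 18) (nat_lit 1) (nat_lit 19) (nat_lit 1) (nat_lit 381) (nat_lit 429) (nat_lit 210)) (XT.nd (nat_lit 78) (nat_lit 76) (nat_lit 0) (XT.lf (nat_lit 0) (nat_lit 1620736694) (nat_lit 0) (nat_lit 1879025765) (nat_lit 152) (nat_lit 1620736694) (nat_lit 18) (nat_lit 3) (nat_lit 18) (nat_lit 1) (nat_lit 20) (nat_lit 1) (nat_lit 382) (nat_lit 429) (nat_lit 209)) (XT.lf (nat_lit 76) (nat_lit 1522897417) (nat_lit 0) (nat_lit 1773663505) (nat_lit 76) (nat_lit 1773663505) (nat_lit 18) (nat_lit 3) (nat_lit 17) (nat_lit 1) (nat_lit 18) (nat_lit 1) (nat_lit 383) (nat_lit 429) (nat_lit 208))))))) (XT.nd (nat_lit 38844) (nat_lit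 0) (nat_lit 17556) (XT.nd (nat_lit 312) (nat_lit 304) (nat_lit 0) (XT.nd (nat_lit 156) (nat_lit 228) (nat_lit 0) (XT.nd (nat_lit 78) (nat_lit 0) (nat_lit 0) (XT.lf (nat_lit 152) (nat_lit 4861756055) (nat_lit 0) (nat_lit 79562817) (nat_lit 76) (nat_lit 79562817) (nat_lit 17) (nat_lit 1) (nat_lit 15) (nat_lit 1) (nat_lit 16) (nat_lit 1) (nat_lit 384) (nat_lit 429) (nat_lit 207)) (XT.lf (nat_lit 0) (nat_lit 1580553740) (nat_lit 0) (nat_lit 1810040234) (nat_lit 152) (nat_lit 1580553740) (nat_lit 15) (nat_lit 3) (nat_lit 15) (nat_lit 1) (nat_lit 17) (nat_lit 1) (nat_lit 385) (nat_lit 429) (nat_lit 206))) (XT.nd (nat_lit 78) (nat_lit 152) (nat_lit 0) (XT.lf (nat_lit 76) (nat_lit 1492246866) (nat_lit 0) (nat_lit 1715049287) (nat_lit 76) (nat_lit 1715049287) (nat_lit 15) (nat_lit 3) (nat_lit 14) (nat_lit 1) (nat_lit 15) (nat_lit 1) (nat_lit 386) (nat_lit 429) (nat_lit 205)) (XT.lf (nat_lit 152) (nat_lit 4733070432)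 (nat_lit 0) (nat_lit 70690532) (nat_lit 76) (nat_lit 70690532) (nat_lit 14) (nat_lit 1) (nat_lit 12) (nat_lit 1) (nat_lit 13) (nat_lit 1) (nat_lit 387) (nat_lit 429) (nat_lit 204)))) (XT.nd (nat_lit 156) (nat_lit 228) (nat_lit 0) (XT.nd (nat_lit 78) (nat_lit 76) (nat_lit 0) (XT.lf (nat_lit 0) (nat_lit 1540758010) (nat_lit 0) (nat_lit 1744653788) (nat_lit 152) (nat_lit 1540758010) (nat_lit 12) (nat_lit 3) (nat_lit 12) (nat_lit 1) (nat_lit 14) (nat_lit 1) (nat_lit 388) (nat_lit 429) (nat_lit 203)) (XT.lf (nat_lit 76) (nat_lit 1460960688) (nat_lit 0) (nat_lit 1658917754) (nat_lit 76) (nat_lit 1658917754) (nat_lit 12) (nat_lit 3) (nat_lit 11) (nat_lit 1) (nat_lit 12) (nat_lit 1) (nat_lit 389) (nat_lit 429) (nat_lit 202))) (XT.nd (nat_lit 78) (nat_lit 76) (nat_lit 0) (XT.lf (nat_lit 152) (nat_lit 4606692306) (nat_lit 0) (nat_lit 62807622) (nat_lit 76) (nat_lit 62807622) (nat_lit 11) (nat_lit 1) (nat_lit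 9) (nat_lit 1) (nat_lit 10) (nat_lit 1) (nat_lit 390) (nat_lit 429) (nat_lit 201)) (XT.nd (nat_lit 78) (nat_lit 76) (nat_lit 0) (XT.lf (nat_lit 0) (nat_lit 1501425559) (nat_lit 0) (nat_lit 1682584317) (nat_lit 152) (nat_lit 1501425559) (nat_lit 9) (nat_lit 3) (nat_lit 9) (nat_lit 1) (nat_lit 11) (nat_lit 1) (nat_lit 391) (nat_lit 429) (nat_lit 200)) (XT.lf (nat_lit 76) (nat_lit 1429227829) (nat_lit 0) (nat_lit 1605110118) (nat_lit 76) (nat_lit 1605110118) (nat_lit 9) (nat_lit 3) (nat_lit 8) (nat_lit 1) (nat_lit 9) (nat_lit 1) (nat_lit 392) (nat_lit 429) (nat_lit 199)))))) (XT.nd (nat_lit 390) (nat_lit 1140) (nat_lit 0) (XT.nd (nat_lit 156) (nat_lit 836) (nat_lit 0) (XT.nd (nat_lit 78) (nat_lit 0) (nat_lit 0) (XT.lf (nat_lit 456) (nat_lit 15352328796) (nat_lit 0) (nat_lit 9095472435) (nat_lit 380) (nat_lit 9095472435) (nat_lit 271) (nat_lit 1) (nat_lit 265) (nat_lit 1) (nat_lit 270) (nat_lit 1) (nat_lit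 201) (nat_lit 430) (nat_lit 389)) (XT.lf (nat_lit 76) (nat_lit 4570259140) (nat_lit 0) (nat_lit 24000730939) (nat_lit 456) (nat_lit 4570259140) (nat_lit 266) (nat_lit 1) (nat_lit 265) (nat_lit 1) (nat_lit 271) (nat_lit 1) (nat_lit 202) (nat_lit 430) (nat_lit 388))) (XT.nd (nat_lit 78) (nat_lit 456) (nat_lit 0) (XT.lf (nat_lit 456) (nat_lit 2874333001) (nat_lit 0) (nat_lit 14934873893) (nat_lit 380) (nat_lit 14934873893) (nat_lit 266) (nat_lit 1) (nat_lit 260) (nat_lit 1) (nat_lit 265) (nat_lit 1) (nat_lit 203) (nat_lit 430) (nat_lit 387)) (XT.nd (nat_lit 78) (nat_lit 0) (nat_lit 0) (XT.lf (nat_lit 456) (nat_lit 29149716995) (nat_lit 0) (nat_lit 1603028812) (nat_lit 380) (nat_lit 1603028812) (nat_lit 260) (nat_lit 1) (nat_lit 254) (nat_lit 1) (nat_lit 259) (nat_lit 1) (nat_lit 204) (nat_lit 430) (nat_lit 386)) (XT.lf (nat_lit 76) (nat_lit 11317233987) (nat_lit 0) (nat_lit 9335099466) (nat_lit 456) (nat_lit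 11317233987) (nat_lit 255) (nat_lit 1) (nat_lit 254) (nat_lit 1) (nat_lit 260) (nat_lit 1) (nat_lit 205) (nat_lit 430) (nat_lit 385))))) (XT.nd (nat_lit 156) (nat_lit 760) (nat_lit 0) (XT.nd (nat_lit 78) (nat_lit 0) (nat_lit 0) (XT.lf (nat_lit 456) (nat_lit 16217462906) (nat_lit 0) (nat_lit 7687240230) (nat_lit 380) (nat_lit 7687240230) (nat_lit 255) (nat_lit 1) (nat_lit 249) (nat_lit 1) (nat_lit 254) (nat_lit 1) (nat_lit 206) (nat_lit 430) (nat_lit 384)) (XT.lf (nat_lit 76) (nat_lit 4913395979) (nat_lit 0) (nat_lit 21393849328) (nat_lit 456) (nat_lit 4913395979) (nat_lit 250) (nat_lit 1) (nat_lit 249) (nat_lit 1) (nat_lit 255) (nat_lit 1) (nat_lit 207) (nat_lit 430) (nat_lit 383))) (XT.nd (nat_lit 78) (nat_lit 456) (nat_lit 0) (XT.lf (nat_lit 380) (nat_lit 3412513436) (nat_lit 0) (nat_lit 13720765678) (nat_lit 304) (nat_lit 13720765678) (nat_lit 250) (nat_lit 1) (nat_lit 245) (nat_lit 1) (nat_lit 249)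 (nat_lit 1) (nat_lit 208) (nat_lit 430) (nat_lit 382)) (XT.nd (nat_lit 78) (nat_lit 0) (nat_lit 0) (XT.lf (nat_lit 456) (nat_lit 27674690464) (nat_lit 0) (nat_lit 1410399994) (nat_lit 380) (nat_lit 1410399994) (nat_lit 245) (nat_lit 1) (nat_lit 239) (nat_lit 1) (nat_lit 244) (nat_lit 1) (nat_lit 209) (nat_lit 430) (nat_lit 381)) (XT.lf (nat_lit 76) (nat_lit 10532253740) (nat_lit 0) (nat_lit 9073935747) (nat_lit 456) (nat_lit 10532253740) (nat_lit 240) (nat_lit 1) (nat_lit 239) (nat_lit 1) (nat_lit 245) (nat_lit 1) (nat_lit 210) (nat_lit 430) (nat_lit 380))))))))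
noncomputable def ec476 : XT := (XT.nd (nat_lit 1482) (nat_lit 2508) (nat_lit 0) (XT.nd (nat_lit 702) (nat_lit 1596) (nat_lit 0) (XT.nd (nat_lit 312) (nat_lit 912) (nat_lit 0) (XT.nd (nat_lit 156) (nat_lit 684) (nat_lit 0) (XT.nd (nat_lit 78) (nat_lit 0) (nat_lit 0) (XT.lf (nat_lit 380) (nat_lit 14557893944) (nat_lit 0) (nat_lit 7615655210) (nat_lit 304) (nat_lit 7615655210) (nat_lit 240) (nat_lit 1) (nat_lit 235) (nat_lit 1) (nat_lit 239) (nat_lit 1) (nat_lit 211) (nat_lit 430) (nat_lit 379)) (XT.lf (nat_lit 76) (nat_lit 4048327930) (nat_lit 0) (nat_lit 21349283467) (nat_lit 380) (nat_lit 4048327930) (nat_lit 236) (nat_lit 1) (nat_lit 235) (nat_lit 1) (nat_lit 240) (nat_lit 1) (nat_lit 212) (nat_lit 430) (nat_lit 378))) (XT.nd (nat_lit 78) (nat_lit 380) (nat_lit 0) (XT.lf (nat_lit 380) (nat_lit 1614302475) (nat_lit 0) (nat_lit 13746136756) (nat_lit 304) (nat_lit 13746136756) (nat_lit 236) (nat_lit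 1) (nat_lit 231) (nat_lit 1) (nat_lit 235) (nat_lit 1) (nat_lit 213) (nat_lit 430) (nat_lit 377)) (XT.lf (nat_lit 380) (nat_lit 24124713763) (nat_lit 0) (nat_lit 2324598024) (nat_lit 304) (nat_lit 2324598024) (nat_lit 231) (nat_lit 1) (nat_lit 226) (nat_lit 1) (nat_lit 230) (nat_lit 1) (nat_lit 214) (nat_lit 430) (nat_lit 376)))) (XT.nd (nat_lit 156) (nat_lit 608) (nat_lit 0) (XT.nd (nat_lit 78) (nat_lit 304) (nat_lit 0) (XT.lf (nat_lit 76) (nat_lit 8755971598) (nat_lit 0) (nat_lit 10931580728) (nat_lit 380) (nat_lit 8755971598) (nat_lit 227) (nat_lit 1) (nat_lit 226) (nat_lit 1) (nat_lit 231) (nat_lit 1) (nat_lit 215) (nat_lit 430) (nat_lit 375)) (XT.lf (nat_lit 380) (nat_lit 10984605238) (nat_lit 0) (nat_lit 8567517082) (nat_lit 304) (nat_lit 8567517082) (nat_lit 227) (nat_lit 1) (nat_lit 222) (nat_lit 1) (nat_lit 226) (nat_lit 1) (nat_lit 216) (nat_lit 430) (nat_lit 374))) (XT.nd (nat_lit 78) (nat_lit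 608) (nat_lit 0) (XT.lf (nat_lit 76) (nat_lit 2269312725) (nat_lit 0) (nat_lit 23263395238) (nat_lit 380) (nat_lit 2269312725) (nat_lit 223) (nat_lit 1) (nat_lit 222) (nat_lit 1) (nat_lit 227) (nat_lit 1) (nat_lit 217) (nat_lit 430) (nat_lit 373)) (XT.nd (nat_lit 78) (nat_lit 304) (nat_lit 0) (XT.lf (nat_lit 76) (nat_lit 12788387422) (nat_lit 0) (nat_lit 1909673604) (nat_lit 304) (nat_lit 12788387422) (nat_lit 219) (nat_lit 1) (nat_lit 218) (nat_lit 1) (nat_lit 222) (nat_lit 1) (nat_lit 218) (nat_lit 430) (nat_lit 372)) (XT.lf (nat_lit 380) (nat_lit 19031833264) (nat_lit 0) (nat_lit 4072567393) (nat_lit 304) (nat_lit 4072567393) (nat_lit 219) (nat_lit 1) (nat_lit 214) (nat_lit 1) (nat_lit 218) (nat_lit 1) (nat_lit 219) (nat_lit 430) (nat_lit 371)))))) (XT.nd (nat_lit 390) (nat_lit 760) (nat_lit 0) (XT.nd (nat_lit 156) (nat_lit 608) (nat_lit 0) (XT.nd (nat_lit 78) (nat_lit 228) (nat_lit 0) (XT.lf (nat_lit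 76) (nat_lit 6244543529) (nat_lit 0) (nat_lit 14381926219) (nat_lit 380) (nat_lit 6244543529) (nat_lit 215) (nat_lit 1) (nat_lit 214) (nat_lit 1) (nat_lit 219) (nat_lit 1) (nat_lit 220) (nat_lit 430) (nat_lit 370)) (XT.lf (nat_lit 304) (nat_lit 5995906999) (nat_lit 0) (nat_lit 10286978017) (nat_lit 228) (nat_lit 10286978017) (nat_lit 215) (nat_lit 1) (nat_lit 211) (nat_lit 1) (nat_lit 214) (nat_lit 1) (nat_lit 221) (nat_lit 430) (nat_lit 369))) (XT.nd (nat_lit 78) (nat_lit 228) (nat_lit 0) (XT.lf (nat_lit 380) (nat_lit 25911628406) (nat_lit 0) (nat_lit 181956810) (nat_lit 304) (nat_lit 181956810) (nat_lit 211) (nat_lit 1) (nat_lit 206) (nat_lit 1) (nat_lit 210) (nat_lit 1) (nat_lit 222) (nat_lit 430) (nat_lit 368)) (XT.nd (nat_lit 78) (nat_lit 228) (nat_lit 0) (XT.lf (nat_lit 76) (nat_lit 9653330574) (nat_lit 0) (nat_lit 6673981247) (nat_lit 380) (nat_lit 9653330574) (nat_lit 207) (nat_lit 1) (nat_lit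 206) (nat_lit 1) (nat_lit 211) (nat_lit 1) (nat_lit 223) (nat_lit 430) (nat_lit 367)) (XT.lf (nat_lit 304) (nat_lit 12828640391) (nat_lit 0) (nat_lit 6431892961) (nat_lit 228) (nat_lit 6431892961) (nat_lit 207) (nat_lit 1) (nat_lit 203) (nat_lit 1) (nat_lit 206) (nat_lit 1) (nat_lit 224) (nat_lit 430) (nat_lit 366))))) (XT.nd (nat_lit 156) (nat_lit 456) (nat_lit 0) (XT.nd (nat_lit 78) (nat_lit 304) (nat_lit 0) (XT.lf (nat_lit 76) (nat_lit 3206141804) (nat_lit 0) (nat_lit 18996621763) (nat_lit 304) (nat_lit 3206141804) (nat_lit 204) (nat_lit 1) (nat_lit 203) (nat_lit 1) (nat_lit 207) (nat_lit 1) (nat_lit 225) (nat_lit 430) (nat_lit 365)) (XT.lf (nat_lit 76) (nat_lit 12562426688) (nat_lit 0) (nat_lit 3363447) (nat_lit 304) (nat_lit 12562426688) (nat_lit 200) (nat_lit 1) (nat_lit 199) (nat_lit 1) (nat_lit 203) (nat_lit 1) (nat_lit 226) (nat_lit 430) (nat_lit 364))) (XT.nd (nat_lit 78) (nat_lit 228) (nat_lit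 0) (XT.lf (nat_lit 304) (nat_lit 18680949453) (nat_lit 0) (nat_lit 3085572260) (nat_lit 228) (nat_lit 3085572260) (nat_lit 200) (nat_lit 1) (nat_lit 196) (nat_lit 1) (nat_lit 199) (nat_lit 1) (nat_lit 227) (nat_lit 430) (nat_lit 363)) (XT.nd (nat_lit 78) (nat_lit 228) (nat_lit 0) (XT.lf (nat_lit 76) (nat_lit 6119886078) (nat_lit 0) (nat_lit 12338854198) (nat_lit 304) (nat_lit 6119886078) (nat_lit 197) (nat_lit 1) (nat_lit 196) (nat_lit 1) (nat_lit 200) (nat_lit 1) (nat_lit 228) (nat_lit 430) (nat_lit 362)) (XT.lf (nat_lit 304) (nat_lit 5865232806) (nat_lit 0) (nat_lit 9222183816) (nat_lit 228) (nat_lit 9222183816) (nat_lit 197) (nat_lit 1) (nat_lit 193) (nat_lit 1) (nat_lit 196) (nat_lit 1) (nat_lit 229) (nat_lit 430) (nat_lit 361))))))) (XT.nd (nat_lit 702) (nat_lit 1064) (nat_lit 0) (XT.nd (nat_lit 312) (nat_lit 912) (nat_lit 0) (XT.nd (nat_lit 156) (nat_lit 228) (nat_lit 0) (XT.nd (nat_lit 78) (nat_lit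 0) (nat_lit 0) (XT.lf (nat_lit 304) (nat_lit 23668527868) (nat_lit 0) (nat_lit 188984843) (nat_lit 228) (nat_lit 188984843) (nat_lit 193) (nat_lit 1) (nat_lit 189) (nat_lit 1) (nat_lit 192) (nat_lit 1) (nat_lit 230) (nat_lit 430) (nat_lit 360)) (XT.lf (nat_lit 76) (nat_lit 8613430400) (nat_lit 0) (nat_lit 6555729430) (nat_lit 304) (nat_lit 8613430400) (nat_lit 190) (nat_lit 1) (nat_lit 189) (nat_lit 1) (nat_lit 193) (nat_lit 1) (nat_lit 231) (nat_lit 430) (nat_lit 359))) (XT.nd (nat_lit 78) (nat_lit 0) (nat_lit 0) (XT.lf (nat_lit 304) (nat_lit 10908543245) (nat_lit 0) (nat_lit 6307977143) (nat_lit 228) (nat_lit 6307977143) (nat_lit 190) (nat_lit 1) (nat_lit 186) (nat_lit 1) (nat_lit 189) (nat_lit 1) (nat_lit 232) (nat_lit 430) (nat_lit 358)) (XT.lf (nat_lit 76) (nat_lit 2333124489) (nat_lit 0) (nat_lit 18604527328) (nat_lit 304) (nat_lit 2333124489) (nat_lit 187) (nat_lit 1) (nat_lit 186) (nat_lit 1)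 (nat_lit 190) (nat_lit 1) (nat_lit 233) (nat_lit 430) (nat_lit 357)))) (XT.nd (nat_lit 156) (nat_lit 456) (nat_lit 0) (XT.nd (nat_lit 78) (nat_lit 228) (nat_lit 0) (XT.lf (nat_lit 76) (nat_lit 10736407644) (nat_lit 0) (nat_lit 1545862523) (nat_lit 228) (nat_lit 10736407644) (nat_lit 184) (nat_lit 1) (nat_lit 183) (nat_lit 1) (nat_lit 186) (nat_lit 1) (nat_lit 234) (nat_lit 430) (nat_lit 356)) (XT.lf (nat_lit 304) (nat_lit 15223516729) (nat_lit 0) (nat_lit 3773668872) (nat_lit 228) (nat_lit 3773668872) (nat_lit 184) (nat_lit 1) (nat_lit 180) (nat_lit 1) (nat_lit 183) (nat_lit 1) (nat_lit 235) (nat_lit 430) (nat_lit 355))) (XT.nd (nat_lit 78) (nat_lit 456) (nat_lit 0) (XT.lf (nat_lit 76) (nat_lit 4502754342) (nat_lit 0) (nat_lit 13520350472) (nat_lit 304) (nat_lit 4502754342) (nat_lit 181) (nat_lit 1) (nat_lit 180) (nat_lit 1) (nat_lit 184) (nat_lit 1) (nat_lit 236) (nat_lit 430) (nat_lit 354)) (XT.nd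 (nat_lit 78) (nat_lit 304) (nat_lit 0) (XT.lf (nat_lit 228) (nat_lit 2836055216) (nat_lit 0) (nat_lit 9724041830) (nat_lit 152) (nat_lit 9724041830) (nat_lit 181) (nat_lit 1) (nat_lit 178) (nat_lit 1) (nat_lit 180) (nat_lit 1) (nat_lit 237) (nat_lit 430) (nat_lit 353)) (XT.lf (nat_lit 304) (nat_lit 18896205538) (nat_lit 0) (nat_lit 1575295607) (nat_lit 228) (nat_lit 1575295607) (nat_lit 178) (nat_lit 1) (nat_lit 174) (nat_lit 1) (nat_lit 177) (nat_lit 1) (nat_lit 238) (nat_lit 430) (nat_lit 352)))))) (XT.nd (nat_lit 390) (nat_lit 532) (nat_lit 0) (XT.nd (nat_lit 156) (nat_lit 380) (nat_lit 0) (XT.nd (nat_lit 78) (nat_lit 152) (nat_lit 0) (XT.lf (nat_lit 76) (nat_lit 6359671391) (nat_lit 0) (nat_lit 9090781432) (nat_lit 304) (nat_lit 6359671391) (nat_lit 175) (nat_lit 1) (nat_lit 174) (nat_lit 1) (nat_lit 178) (nat_lit 1) (nat_lit 239) (nat_lit 430) (nat_lit 351)) (XT.lf (nat_lit 228) (nat_lit 6633263344)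 (nat_lit 0) (nat_lit 7472242912) (nat_lit 152) (nat_lit 7472242912) (nat_lit 175) (nat_lit 1) (nat_lit 172) (nat_lit 1) (nat_lit 174) (nat_lit 1) (nat_lit 240) (nat_lit 430) (nat_lit 350))) (XT.nd (nat_lit 78) (nat_lit 380) (nat_lit 0) (XT.lf (nat_lit 76) (nat_lit 329386240) (nat_lit 0) (nat_lit 20691456959) (nat_lit 228) (nat_lit 329386240) (nat_lit 173) (nat_lit 1) (nat_lit 172) (nat_lit 1) (nat_lit 175) (nat_lit 1) (nat_lit 241) (nat_lit 430) (nat_lit 349)) (XT.nd (nat_lit 78) (nat_lit 152) (nat_lit 0) (XT.lf (nat_lit 76) (nat_lit 7940808455) (nat_lit 0) (nat_lit 5240269862) (nat_lit 228) (nat_lit 7940808455) (nat_lit 170) (nat_lit 1) (nat_lit 169) (nat_lit 1) (nat_lit 172) (nat_lit 1) (nat_lit 242) (nat_lit 430) (nat_lit 348)) (XT.lf (nat_lit 228) (nat_lit 9887223924) (nat_lit 0) (nat_lit 5505551913) (nat_lit 152) (nat_lit 5505551913) (nat_lit 170) (nat_lit 1) (nat_lit 167) (nat_lit 1) (nat_lit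 169) (nat_lit 1) (nat_lit 243) (nat_lit 430) (nat_lit 347))))) (XT.nd (nat_lit 156) (nat_lit 304) (nat_lit 0) (XT.nd (nat_lit 78) (nat_lit 228) (nat_lit 0) (XT.lf (nat_lit 76) (nat_lit 1984765800) (nat_lit 0) (nat_lit 16708897295) (nat_lit 228) (nat_lit 1984765800) (nat_lit 168) (nat_lit 1) (nat_lit 167) (nat_lit 1) (nat_lit 170) (nat_lit 1) (nat_lit 244) (nat_lit 430) (nat_lit 346)) (XT.lf (nat_lit 76) (nat_lit 9278919826) (nat_lit 0) (nat_lit 1901764623) (nat_lit 228) (nat_lit 9278919826) (nat_lit 165) (nat_lit 1) (nat_lit 164) (nat_lit 1) (nat_lit 167) (nat_lit 1) (nat_lit 245) (nat_lit 430) (nat_lit 345))) (XT.nd (nat_lit 78) (nat_lit 152) (nat_lit 0) (XT.lf (nat_lit 228) (nat_lit 12662005694) (nat_lit 0) (nat_lit 3791185224) (nat_lit 152) (nat_lit 3791185224) (nat_lit 165) (nat_lit 1) (nat_lit 162) (nat_lit 1) (nat_lit 164) (nat_lit 1) (nat_lit 246) (nat_lit 430) (nat_lit 344)) (XT.nd (nat_lit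 78) (nat_lit 152) (nat_lit 0) (XT.lf (nat_lit 76) (nat_lit 3406264331) (nat_lit 0) (nat_lit 13219236680) (nat_lit 228) (nat_lit 3406264331) (nat_lit 163) (nat_lit 1) (nat_lit 162) (nat_lit 1) (nat_lit 165) (nat_lit 1) (nat_lit 247) (nat_lit 430) (nat_lit 343)) (XT.lf (nat_lit 228) (nat_lit 1003824388) (nat_lit 0) (nat_lit 9408873966) (nat_lit 152) (nat_lit 9408873966) (nat_lit 163) (nat_lit 1) (nat_lit 160) (nat_lit 1) (nat_lit 162) (nat_lit 1) (nat_lit 248) (nat_lit 430) (nat_lit 342))))))))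
noncomputable def ec477 : XT := (XT.nd (nat_lit 1482) (nat_lit 1748) (nat_lit 0) (XT.nd (nat_lit 702) (nat_lit 912) (nat_lit 0) (XT.nd (nat_lit 312) (nat_lit 456) (nat_lit 0) (XT.nd (nat_lit 156) (nat_lit 380) (nat_lit 0) (XT.nd (nat_lit 78) (nat_lit 0) (nat_lit 0) (XT.lf (nat_lit 228) (nat_lit 15014431261) (nat_lit 0) (nat_lit 2300043878) (nat_lit 152) (nat_lit 2300043878) (nat_lit 160) (nat_lit 1) (nat_lit 157) (nat_lit 1) (nat_lit 159) (nat_lit 1) (nat_lit 249) (nat_lit 430) (nat_lit 341)) (XT.lf (nat_lit 76) (nat_lit 4621398073) (nat_lit 0) (nat_lit 10166089358) (nat_lit 228) (nat_lit 4621398073) (nat_lit 158) (nat_lit 1) (nat_lit 157) (nat_lit 1) (nat_lit 160) (nat_lit 1) (nat_lit 250) (nat_lit 430) (nat_lit 340))) (XT.nd (nat_lit 78) (nat_lit 228) (nat_lit 0) (XT.lf (nat_lit 228) (nat_lit 3539599368) (nat_lit 0) (nat_lit 7833369507) (nat_lit 152) (nat_lit 7833369507) (nat_lit 158) (nat_lit 1)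 (nat_lit 155) (nat_lit 1) (nat_lit 157) (nat_lit 1) (nat_lit 251) (nat_lit 430) (nat_lit 339)) (XT.lf (nat_lit 228) (nat_lit 16994888098) (nat_lit 0) (nat_lit 1006301826) (nat_lit 152) (nat_lit 1006301826) (nat_lit 155) (nat_lit 1) (nat_lit 152) (nat_lit 1) (nat_lit 154) (nat_lit 1) (nat_lit 252) (nat_lit 430) (nat_lit 338)))) (XT.nd (nat_lit 156) (nat_lit 304) (nat_lit 0) (XT.nd (nat_lit 78) (nat_lit 152) (nat_lit 0) (XT.lf (nat_lit 76) (nat_lit 5654573044) (nat_lit 0) (nat_lit 7499398709) (nat_lit 228) (nat_lit 5654573044) (nat_lit 153) (nat_lit 1) (nat_lit 152) (nat_lit 1) (nat_lit 155) (nat_lit 1) (nat_lit 253) (nat_lit 430) (nat_lit 337)) (XT.lf (nat_lit 228) (nat_lit 5715484699) (nat_lit 0) (nat_lit 6448883127) (nat_lit 152) (nat_lit 6448883127) (nat_lit 153) (nat_lit 1) (nat_lit 150) (nat_lit 1) (nat_lit 152) (nat_lit 1) (nat_lit 254) (nat_lit 430) (nat_lit 336))) (XT.nd (nat_lit 78) (nat_lit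 304) (nat_lit 0) (XT.lf (nat_lit 76) (nat_lit 114078264) (nat_lit 0) (nat_lit 18193840530) (nat_lit 228) (nat_lit 114078264) (nat_lit 151) (nat_lit 1) (nat_lit 150) (nat_lit 1) (nat_lit 153) (nat_lit 1) (nat_lit 255) (nat_lit 430) (nat_lit 335)) (XT.nd (nat_lit 78) (nat_lit 152) (nat_lit 0) (XT.lf (nat_lit 76) (nat_lit 6527433079) (nat_lit 0) (nat_lit 5174730256) (nat_lit 152) (nat_lit 6527433079) (nat_lit 149) (nat_lit 1) (nat_lit 148) (nat_lit 1) (nat_lit 150) (nat_lit 1) (nat_lit 256) (nat_lit 430) (nat_lit 334)) (XT.lf (nat_lit 228) (nat_lit 7573858890) (nat_lit 0) (nat_lit 5233667364) (nat_lit 152) (nat_lit 5233667364) (nat_lit 149) (nat_lit 1) (nat_lit 146) (nat_lit 1) (nat_lit 148) (nat_lit 1) (nat_lit 257) (nat_lit 430) (nat_lit 333)))))) (XT.nd (nat_lit 390) (nat_lit 456) (nat_lit 0) (XT.nd (nat_lit 156) (nat_lit 304) (nat_lit 0) (XT.nd (nat_lit 78) (nat_lit 152) (nat_lit 0) (XT.lf (nat_lit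 76) (nat_lit 1088751955) (nat_lit 0) (nat_lit 15678590237) (nat_lit 228) (nat_lit 1088751955) (nat_lit 147) (nat_lit 1) (nat_lit 146) (nat_lit 1) (nat_lit 149) (nat_lit 1) (nat_lit 258) (nat_lit 430) (nat_lit 332)) (XT.lf (nat_lit 76) (nat_lit 7259169035) (nat_lit 0) (nat_lit 3152643563) (nat_lit 152) (nat_lit 7259169035) (nat_lit 145) (nat_lit 1) (nat_lit 144) (nat_lit 1) (nat_lit 146) (nat_lit 1) (nat_lit 259) (nat_lit 430) (nat_lit 331))) (XT.nd (nat_lit 78) (nat_lit 152) (nat_lit 0) (XT.lf (nat_lit 228) (nat_lit 9152309277) (nat_lit 0) (nat_lit 4168412881) (nat_lit 152) (nat_lit 4168412881) (nat_lit 145) (nat_lit 1) (nat_lit 142) (nat_lit 1) (nat_lit 144) (nat_lit 1) (nat_lit 260) (nat_lit 430) (nat_lit 330)) (XT.nd (nat_lit 78) (nat_lit 152) (nat_lit 0) (XT.lf (nat_lit 76) (nat_lit 1925977830) (nat_lit 0) (nat_lit 13457989961) (nat_lit 228) (nat_lit 1925977830) (nat_lit 143) (nat_lit 1) (nat_lit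 142) (nat_lit 1) (nat_lit 145) (nat_lit 1) (nat_lit 261) (nat_lit 430) (nat_lit 329)) (XT.lf (nat_lit 76) (nat_lit 7866793481) (nat_lit 0) (nat_lit 1398134190) (nat_lit 152) (nat_lit 7866793481) (nat_lit 141) (nat_lit 1) (nat_lit 140) (nat_lit 1) (nat_lit 142) (nat_lit 1) (nat_lit 262) (nat_lit 430) (nat_lit 328))))) (XT.nd (nat_lit 156) (nat_lit 304) (nat_lit 0) (XT.nd (nat_lit 78) (nat_lit 0) (nat_lit 0) (XT.lf (nat_lit 228) (nat_lit 10484168203) (nat_lit 0) (nat_lit 3235976210) (nat_lit 152) (nat_lit 3235976210) (nat_lit 141) (nat_lit 1) (nat_lit 138) (nat_lit 1) (nat_lit 140) (nat_lit 1) (nat_lit 263) (nat_lit 430) (nat_lit 327)) (XT.lf (nat_lit 76) (nat_lit 2641920745) (nat_lit 0) (nat_lit 11498769777) (nat_lit 228) (nat_lit 2641920745) (nat_lit 139) (nat_lit 1) (nat_lit 138) (nat_lit 1) (nat_lit 141) (nat_lit 1) (nat_lit 264) (nat_lit 430) (nat_lit 326))) (XT.nd (nat_lit 78) (nat_lit 228) (nat_lit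 0) (XT.lf (nat_lit 152) (nat_lit 122247567) (nat_lit 0) (nat_lit 8244312263) (nat_lit 76) (nat_lit 8244312263) (nat_lit 139) (nat_lit 1) (nat_lit 137) (nat_lit 1) (nat_lit 138) (nat_lit 1) (nat_lit 265) (nat_lit 430) (nat_lit 325)) (XT.nd (nat_lit 78) (nat_lit 0) (nat_lit 0) (XT.lf (nat_lit 228) (nat_lit 11598989357) (nat_lit 0) (nat_lit 2421137858) (nat_lit 152) (nat_lit 2421137858) (nat_lit 137) (nat_lit 1) (nat_lit 134) (nat_lit 1) (nat_lit 136) (nat_lit 1) (nat_lit 266) (nat_lit 430) (nat_lit 324)) (XT.lf (nat_lit 76) (nat_lit 3250918566) (nat_lit 0) (nat_lit 9771381806) (nat_lit 228) (nat_lit 3250918566) (nat_lit 135) (nat_lit 1) (nat_lit 134) (nat_lit 1) (nat_lit 137) (nat_lit 1) (nat_lit 267) (nat_lit 430) (nat_lit 323))))))) (XT.nd (nat_lit 702) (nat_lit 836) (nat_lit 0) (XT.nd (nat_lit 312) (nat_lit 532) (nat_lit 0) (XT.nd (nat_lit 156) (nat_lit 76) (nat_lit 0) (XT.nd (nat_lit 78) (nat_lit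 228) (nat_lit 0) (XT.lf (nat_lit 152) (nat_lit 1457347791) (nat_lit 0) (nat_lit 7324964665) (nat_lit 76) (nat_lit 7324964665) (nat_lit 135) (nat_lit 1) (nat_lit 133) (nat_lit 1) (nat_lit 134) (nat_lit 1) (nat_lit 268) (nat_lit 430) (nat_lit 322)) (XT.lf (nat_lit 228) (nat_lit 12522970940) (nat_lit 0) (nat_lit 1710387402) (nat_lit 152) (nat_lit 1710387402) (nat_lit 133) (nat_lit 1) (nat_lit 130) (nat_lit 1) (nat_lit 132) (nat_lit 1) (nat_lit 269) (nat_lit 430) (nat_lit 321))) (XT.nd (nat_lit 78) (nat_lit 76) (nat_lit 0) (XT.lf (nat_lit 76) (nat_lit 3765686615) (nat_lit 0) (nat_lit 8249584807) (nat_lit 228) (nat_lit 3765686615) (nat_lit 131) (nat_lit 1) (nat_lit 130) (nat_lit 1) (nat_lit 133) (nat_lit 1) (nat_lit 270) (nat_lit 430) (nat_lit 320)) (XT.lf (nat_lit 152) (nat_lit 2604283578) (nat_lit 0) (nat_lit 6508136231) (nat_lit 76) (nat_lit 6508136231) (nat_lit 131) (nat_lit 1) (nat_lit 129) (nat_lit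 1) (nat_lit 130) (nat_lit 1) (nat_lit 271) (nat_lit 430) (nat_lit 319)))) (XT.nd (nat_lit 156) (nat_lit 304) (nat_lit 0) (XT.nd (nat_lit 78) (nat_lit 0) (nat_lit 0) (XT.lf (nat_lit 228) (nat_lit 13279331585) (nat_lit 0) (nat_lit 1091732563) (nat_lit 152) (nat_lit 1091732563) (nat_lit 129) (nat_lit 1) (nat_lit 126) (nat_lit 1) (nat_lit 128) (nat_lit 1) (nat_lit 272) (nat_lit 430) (nat_lit 318)) (XT.lf (nat_lit 76) (nat_lit 4197499293) (nat_lit 0) (nat_lit 6910075109) (nat_lit 228) (nat_lit 4197499293) (nat_lit 127) (nat_lit 1) (nat_lit 126) (nat_lit 1) (nat_lit 129) (nat_lit 1) (nat_lit 273) (nat_lit 430) (nat_lit 317))) (XT.nd (nat_lit 78) (nat_lit 228) (nat_lit 0) (XT.lf (nat_lit 152) (nat_lit 3585181881) (nat_lit 0) (nat_lit 5782394747) (nat_lit 76) (nat_lit 5782394747) (nat_lit 127) (nat_lit 1) (nat_lit 125) (nat_lit 1) (nat_lit 126) (nat_lit 1) (nat_lit 274) (nat_lit 430) (nat_lit 316)) (XT.nd (nat_lit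 78) (nat_lit 0) (nat_lit 0) (XT.lf (nat_lit 228) (nat_lit 13888644317) (nat_lit 0) (nat_lit 554529571) (nat_lit 152) (nat_lit 554529571) (nat_lit 125) (nat_lit 1) (nat_lit 122) (nat_lit 1) (nat_lit 124) (nat_lit 1) (nat_lit 275) (nat_lit 430) (nat_lit 315)) (XT.lf (nat_lit 76) (nat_lit 4556351435) (nat_lit 0) (nat_lit 5732158698) (nat_lit 228) (nat_lit 4556351435) (nat_lit 123) (nat_lit 1) (nat_lit 122) (nat_lit 1) (nat_lit 125) (nat_lit 1) (nat_lit 276) (nat_lit 430) (nat_lit 314)))))) (XT.nd (nat_lit 390) (nat_lit 456) (nat_lit 0) (XT.nd (nat_lit 156) (nat_lit 76) (nat_lit 0) (XT.nd (nat_lit 78) (nat_lit 228) (nat_lit 0) (XT.lf (nat_lit 152) (nat_lit 4419668882) (nat_lit 0) (nat_lit 5137582839) (nat_lit 76) (nat_lit 5137582839) (nat_lit 123) (nat_lit 1) (nat_lit 121) (nat_lit 1) (nat_lit 122) (nat_lit 1) (nat_lit 277) (nat_lit 430) (nat_lit 313)) (XT.lf (nat_lit 228) (nat_lit 14369133208) (nat_lit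 0) (nat_lit 89332467) (nat_lit 152) (nat_lit 89332467) (nat_lit 121) (nat_lit 1) (nat_lit 118) (nat_lit 1) (nat_lit 120) (nat_lit 1) (nat_lit 278) (nat_lit 430) (nat_lit 312))) (XT.nd (nat_lit 78) (nat_lit 76) (nat_lit 0) (XT.lf (nat_lit 76) (nat_lit 4851101643) (nat_lit 0) (nat_lit 4697459889) (nat_lit 228) (nat_lit 4851101643) (nat_lit 119) (nat_lit 1) (nat_lit 118) (nat_lit 1) (nat_lit 121) (nat_lit 1) (nat_lit 279) (nat_lit 430) (nat_lit 311)) (XT.nd (nat_lit 78) (nat_lit 0) (nat_lit 0) (XT.lf (nat_lit 152) (nat_lit 5125149835) (nat_lit 0) (nat_lit 4564675810) (nat_lit 76) (nat_lit 4564675810) (nat_lit 119) (nat_lit 1) (nat_lit 117) (nat_lit 1) (nat_lit 118) (nat_lit 1) (nat_lit 280) (nat_lit 430) (nat_lit 310)) (XT.lf (nat_lit 0) (nat_lit 315332281) (nat_lit 0) (nat_lit 13481425202) (nat_lit 152) (nat_lit 315332281) (nat_lit 117) (nat_lit 3) (nat_lit 117) (nat_lit 1) (nat_lit 119) (nat_lit 1) (nat_lit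 281) (nat_lit 430) (nat_lit 309))))) (XT.nd (nat_lit 156) (nat_lit 228) (nat_lit 0) (XT.nd (nat_lit 78) (nat_lit 76) (nat_lit 0) (XT.lf (nat_lit 76) (nat_lit 5089599626) (nat_lit 0) (nat_lit 3789662492) (nat_lit 152) (nat_lit 5089599626) (nat_lit 116) (nat_lit 1) (nat_lit 115) (nat_lit 1) (nat_lit 117) (nat_lit 1) (nat_lit 282) (nat_lit 430) (nat_lit 308)) (XT.lf (nat_lit 152) (nat_lit 5717057672) (nat_lit 0) (nat_lit 4055655335) (nat_lit 76) (nat_lit 4055655335) (nat_lit 116) (nat_lit 1) (nat_lit 114) (nat_lit 1) (nat_lit 115) (nat_lit 1) (nat_lit 283) (nat_lit 430) (nat_lit 307))) (XT.nd (nat_lit 78) (nat_lit 228) (nat_lit 0) (XT.lf (nat_lit 0) (nat_lit 664138425) (nat_lit 0) (nat_lit 12362041457) (nat_lit 152) (nat_lit 664138425) (nat_lit 114) (nat_lit 3) (nat_lit 114) (nat_lit 1) (nat_lit 116) (nat_lit 1) (nat_lit 284) (nat_lit 430) (nat_lit 306)) (XT.nd (nat_lit 78) (nat_lit 76) (nat_lit 0) (XT.lf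 (nat_lit 76) (nat_lit 5278799315) (nat_lit 0) (nat_lit 2994279849) (nat_lit 152) (nat_lit 5278799315) (nat_lit 113) (nat_lit 1) (nat_lit 112) (nat_lit 1) (nat_lit 114) (nat_lit 1) (nat_lit 285) (nat_lit 430) (nat_lit 305)) (XT.lf (nat_lit 152) (nat_lit 6209073854) (nat_lit 0) (nat_lit 3603397236) (nat_lit 76) (nat_lit 3603397236) (nat_lit 113) (nat_lit 1) (nat_lit 111) (nat_lit 1) (nat_lit 112) (nat_lit 1) (nat_lit 286) (nat_lit 430) (nat_lit 304))))))))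
noncomputable def ec478 : XT := (XT.nd (nat_lit 1482) (nat_lit 1444) (nat_lit 0) (XT.nd (nat_lit 702) (nat_lit 684) (nat_lit 0) (XT.nd (nat_lit 312) (nat_lit 456) (nat_lit 0) (XT.nd (nat_lit 156) (nat_lit 76) (nat_lit 0) (XT.nd (nat_lit 78) (nat_lit 152) (nat_lit 0) (XT.lf (nat_lit 0) (nat_lit 962864580) (nat_lit 0) (nat_lit 11356299912) (nat_lit 152) (nat_lit 962864580) (nat_lit 111) (nat_lit 3) (nat_lit 111) (nat_lit 1) (nat_lit 113) (nat_lit 1) (nat_lit 287) (nat_lit 430) (nat_lit 303)) (XT.lf (nat_lit 76) (nat_lit 5424859353) (nat_lit 0) (nat_lit 2298450522) (nat_lit 152) (nat_lit 5424859353) (nat_lit 110) (nat_lit 1) (nat_lit 109) (nat_lit 1) (nat_lit 111) (nat_lit 1) (nat_lit 288) (nat_lit 430) (nat_lit 302))) (XT.nd (nat_lit 78) (nat_lit 0) (nat_lit 0) (XT.lf (nat_lit 152) (nat_lit 6613324573) (nat_lit 0) (nat_lit 3201571773) (nat_lit 76) (nat_lit 3201571773) (nat_lit 110) (nat_lit 1) (nat_lit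 108) (nat_lit 1) (nat_lit 109) (nat_lit 1) (nat_lit 289) (nat_lit 430) (nat_lit 301)) (XT.lf (nat_lit 0) (nat_lit 1217421049) (nat_lit 0) (nat_lit 10451853725) (nat_lit 152) (nat_lit 1217421049) (nat_lit 108) (nat_lit 3) (nat_lit 108) (nat_lit 1) (nat_lit 110) (nat_lit 1) (nat_lit 290) (nat_lit 430) (nat_lit 300)))) (XT.nd (nat_lit 156) (nat_lit 228) (nat_lit 0) (XT.nd (nat_lit 78) (nat_lit 76) (nat_lit 0) (XT.lf (nat_lit 76) (nat_lit 5533232352) (nat_lit 0) (nat_lit 1690756780) (nat_lit 152) (nat_lit 5533232352) (nat_lit 107) (nat_lit 1) (nat_lit 106) (nat_lit 1) (nat_lit 108) (nat_lit 1) (nat_lit 291) (nat_lit 430) (nat_lit 299)) (XT.lf (nat_lit 152) (nat_lit 6940555046) (nat_lit 0) (nat_lit 2844555053) (nat_lit 76) (nat_lit 2844555053) (nat_lit 107) (nat_lit 1) (nat_lit 105) (nat_lit 1) (nat_lit 106) (nat_lit 1) (nat_lit 292) (nat_lit 430) (nat_lit 298))) (XT.nd (nat_lit 78) (nat_lit 228) (nat_lit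 0) (XT.lf (nat_lit 0) (nat_lit 1433049573) (nat_lit 0) (nat_lit 9637723400) (nat_lit 152) (nat_lit 1433049573) (nat_lit 105) (nat_lit 3) (nat_lit 105) (nat_lit 1) (nat_lit 107) (nat_lit 1) (nat_lit 293) (nat_lit 430) (nat_lit 297)) (XT.nd (nat_lit 78) (nat_lit 76) (nat_lit 0) (XT.lf (nat_lit 76) (nat_lit 5608744191) (nat_lit 0) (nat_lit 1161063326) (nat_lit 152) (nat_lit 5608744191) (nat_lit 104) (nat_lit 1) (nat_lit 103) (nat_lit 1) (nat_lit 105) (nat_lit 1) (nat_lit 294) (nat_lit 430) (nat_lit 296)) (XT.lf (nat_lit 152) (nat_lit 7200284351) (nat_lit 0) (nat_lit 2527350321) (nat_lit 76) (nat_lit 2527350321) (nat_lit 104) (nat_lit 1) (nat_lit 102) (nat_lit 1) (nat_lit 103) (nat_lit 1) (nat_lit 295) (nat_lit 430) (nat_lit 295)))))) (XT.nd (nat_lit 390) (nat_lit 304) (nat_lit 0) (XT.nd (nat_lit 156) (nat_lit 228) (nat_lit 0) (XT.nd (nat_lit 78) (nat_lit 152) (nat_lit 0) (XT.lf (nat_lit 0) (nat_lit 1614398159)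 (nat_lit 0) (nat_lit 8904144586) (nat_lit 152) (nat_lit 1614398159) (nat_lit 102) (nat_lit 3) (nat_lit 102) (nat_lit 1) (nat_lit 104) (nat_lit 1) (nat_lit 296) (nat_lit 430) (nat_lit 294)) (XT.lf (nat_lit 76) (nat_lit 5655664445) (nat_lit 0) (nat_lit 700374024) (nat_lit 152) (nat_lit 5655664445) (nat_lit 101) (nat_lit 1) (nat_lit 100) (nat_lit 1) (nat_lit 102) (nat_lit 1) (nat_lit 297) (nat_lit 430) (nat_lit 293))) (XT.nd (nat_lit 78) (nat_lit 152) (nat_lit 0) (XT.lf (nat_lit 152) (nat_lit 7400942966) (nat_lit 0) (nat_lit 2245518026) (nat_lit 76) (nat_lit 2245518026) (nat_lit 101) (nat_lit 1) (nat_lit 99) (nat_lit 1) (nat_lit 100) (nat_lit 1) (nat_lit 298) (nat_lit 430) (nat_lit 292)) (XT.nd (nat_lit 78) (nat_lit 152) (nat_lit 0) (XT.lf (nat_lit 0) (nat_lit 1765587557) (nat_lit 0) (nat_lit 8242432841) (nat_lit 152) (nat_lit 1765587557) (nat_lit 99) (nat_lit 3) (nat_lit 99) (nat_lit 1) (nat_lit 101)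 (nat_lit 1) (nat_lit 299) (nat_lit 430) (nat_lit 291)) (XT.lf (nat_lit 76) (nat_lit 5677768953) (nat_lit 0) (nat_lit 300704606) (nat_lit 152) (nat_lit 5677768953) (nat_lit 98) (nat_lit 1) (nat_lit 97) (nat_lit 1) (nat_lit 99) (nat_lit 1) (nat_lit 300) (nat_lit 430) (nat_lit 290))))) (XT.nd (nat_lit 156) (nat_lit 228) (nat_lit 0) (XT.nd (nat_lit 78) (nat_lit 0) (nat_lit 0) (XT.lf (nat_lit 152) (nat_lit 7549994958) (nat_lit 0) (nat_lit 1995113682) (nat_lit 76) (nat_lit 1995113682) (nat_lit 98) (nat_lit 1) (nat_lit 96) (nat_lit 1) (nat_lit 97) (nat_lit 1) (nat_lit 301) (nat_lit 430) (nat_lit 289)) (XT.lf (nat_lit 0) (nat_lit 1890270320) (nat_lit 0) (nat_lit 7644863466) (nat_lit 152) (nat_lit 1890270320) (nat_lit 96) (nat_lit 3) (nat_lit 96) (nat_lit 1) (nat_lit 98) (nat_lit 1) (nat_lit 302) (nat_lit 430) (nat_lit 288))) (XT.nd (nat_lit 78) (nat_lit 152) (nat_lit 0) (XT.lf (nat_lit 76) (nat_lit 45926612)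 (nat_lit 0) (nat_lit 5632910248) (nat_lit 76) (nat_lit 5632910248) (nat_lit 96) (nat_lit 3) (nat_lit 95) (nat_lit 1) (nat_lit 96) (nat_lit 1) (nat_lit 303) (nat_lit 430) (nat_lit 287)) (XT.nd (nat_lit 78) (nat_lit 0) (nat_lit 0) (XT.lf (nat_lit 152) (nat_lit 7654046508) (nat_lit 0) (nat_lit 1772632666) (nat_lit 76) (nat_lit 1772632666) (nat_lit 95) (nat_lit 1) (nat_lit 93) (nat_lit 1) (nat_lit 94) (nat_lit 1) (nat_lit 304) (nat_lit 430) (nat_lit 286)) (XT.lf (nat_lit 0) (nat_lit 1991683262) (nat_lit 0) (nat_lit 7104564739) (nat_lit 152) (nat_lit 1991683262) (nat_lit 93) (nat_lit 3) (nat_lit 93) (nat_lit 1) (nat_lit 95) (nat_lit 1) (nat_lit 305) (nat_lit 430) (nat_lit 285))))))) (XT.nd (nat_lit 702) (nat_lit 760) (nat_lit 0) (XT.nd (nat_lit 312) (nat_lit 380) (nat_lit 0) (XT.nd (nat_lit 156) (nat_lit 76) (nat_lit 0) (XT.nd (nat_lit 78) (nat_lit 152) (nat_lit 0) (XT.lf (nat_lit 76) (nat_lit 349946957)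 (nat_lit 0) (nat_lit 5313909555) (nat_lit 76) (nat_lit 5313909555) (nat_lit 93) (nat_lit 3) (nat_lit 92) (nat_lit 1) (nat_lit 93) (nat_lit 1) (nat_lit 306) (nat_lit 430) (nat_lit 284)) (XT.lf (nat_lit 152) (nat_lit 7718942329) (nat_lit 0) (nat_lit 1574961164) (nat_lit 76) (nat_lit 1574961164) (nat_lit 92) (nat_lit 1) (nat_lit 90) (nat_lit 1) (nat_lit 91) (nat_lit 1) (nat_lit 307) (nat_lit 430) (nat_lit 283))) (XT.nd (nat_lit 78) (nat_lit 76) (nat_lit 0) (XT.lf (nat_lit 0) (nat_lit 2072694070) (nat_lit 0) (nat_lit 6615423039) (nat_lit 152) (nat_lit 2072694070) (nat_lit 90) (nat_lit 3) (nat_lit 90) (nat_lit 1) (nat_lit 92) (nat_lit 1) (nat_lit 308) (nat_lit 430) (nat_lit 282)) (XT.lf (nat_lit 76) (nat_lit 611060966) (nat_lit 0) (nat_lit 5021477441) (nat_lit 76) (nat_lit 5021477441) (nat_lit 90) (nat_lit 3) (nat_lit 89) (nat_lit 1) (nat_lit 90) (nat_lit 1) (nat_lit 309) (nat_lit 430) (nat_lit 281)))) (XT.nd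 (nat_lit 156) (nat_lit 228) (nat_lit 0) (XT.nd (nat_lit 78) (nat_lit 0) (nat_lit 0) (XT.lf (nat_lit 152) (nat_lit 7749851294) (nat_lit 0) (nat_lit 1399332595) (nat_lit 76) (nat_lit 1399332595) (nat_lit 89) (nat_lit 1) (nat_lit 87) (nat_lit 1) (nat_lit 88) (nat_lit 1) (nat_lit 310) (nat_lit 430) (nat_lit 280)) (XT.lf (nat_lit 0) (nat_lit 2135842697) (nat_lit 0) (nat_lit 6171998549) (nat_lit 152) (nat_lit 2135842697) (nat_lit 87) (nat_lit 3) (nat_lit 87) (nat_lit 1) (nat_lit 89) (nat_lit 1) (nat_lit 311) (nat_lit 430) (nat_lit 279))) (XT.nd (nat_lit 78) (nat_lit 152) (nat_lit 0) (XT.lf (nat_lit 76) (nat_lit 834315510) (nat_lit 0) (nat_lit 4752913423) (nat_lit 76) (nat_lit 4752913423) (nat_lit 87) (nat_lit 3) (nat_lit 86) (nat_lit 1) (nat_lit 87) (nat_lit 1) (nat_lit 312) (nat_lit 430) (nat_lit 278)) (XT.nd (nat_lit 78) (nat_lit 0) (nat_lit 0) (XT.lf (nat_lit 152) (nat_lit 7751342510) (nat_lit 0) (nat_lit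 1243288886) (nat_lit 76) (nat_lit 1243288886) (nat_lit 86) (nat_lit 1) (nat_lit 84) (nat_lit 1) (nat_lit 85) (nat_lit 1) (nat_lit 313) (nat_lit 430) (nat_lit 277)) (XT.lf (nat_lit 0) (nat_lit 2183378148) (nat_lit 0) (nat_lit 5769450345) (nat_lit 152) (nat_lit 2183378148) (nat_lit 84) (nat_lit 3) (nat_lit 84) (nat_lit 1) (nat_lit 86) (nat_lit 1) (nat_lit 314) (nat_lit 430) (nat_lit 276)))))) (XT.nd (nat_lit 390) (nat_lit 304) (nat_lit 0) (XT.nd (nat_lit 156) (nat_lit 228) (nat_lit 0) (XT.nd (nat_lit 78) (nat_lit 152) (nat_lit 0) (XT.lf (nat_lit 76) (nat_lit 1024187025) (nat_lit 0) (nat_lit 4505810517) (nat_lit 76) (nat_lit 4505810517) (nat_lit 84) (nat_lit 3) (nat_lit 83) (nat_lit 1) (nat_lit 84) (nat_lit 1) (nat_lit 315) (nat_lit 430) (nat_lit 275)) (XT.lf (nat_lit 152) (nat_lit 7727452872) (nat_lit 0) (nat_lit 1104646072) (nat_lit 76) (nat_lit 1104646072) (nat_lit 83) (nat_lit 1) (nat_lit 81) (nat_lit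 1) (nat_lit 82) (nat_lit 1) (nat_lit 316) (nat_lit 430) (nat_lit 274))) (XT.nd (nat_lit 78) (nat_lit 228) (nat_lit 0) (XT.lf (nat_lit 0) (nat_lit 2217291142) (nat_lit 0) (nat_lit 5403469842) (nat_lit 152) (nat_lit 2217291142) (nat_lit 81) (nat_lit 3) (nat_lit 81) (nat_lit 1) (nat_lit 83) (nat_lit 1) (nat_lit 317) (nat_lit 430) (nat_lit 273)) (XT.nd (nat_lit 78) (nat_lit 152) (nat_lit 0) (XT.lf (nat_lit 76) (nat_lit 1184645353) (nat_lit 0) (nat_lit 4278022732) (nat_lit 76) (nat_lit 4278022732) (nat_lit 81) (nat_lit 3) (nat_lit 80) (nat_lit 1) (nat_lit 81) (nat_lit 1) (nat_lit 318) (nat_lit 430) (nat_lit 272)) (XT.lf (nat_lit 152) (nat_lit 7681747079) (nat_lit 0) (nat_lit 981463728) (nat_lit 76) (nat_lit 981463728) (nat_lit 80) (nat_lit 1) (nat_lit 78) (nat_lit 1) (nat_lit 79) (nat_lit 1) (nat_lit 319) (nat_lit 430) (nat_lit 271))))) (XT.nd (nat_lit 156) (nat_lit 228) (nat_lit 0) (XT.nd (nat_lit 78) (nat_lit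 76) (nat_lit 0) (XT.lf (nat_lit 0) (nat_lit 2239343137) (nat_lit 0) (nat_lit 5070221644) (nat_lit 152) (nat_lit 2239343137) (nat_lit 78) (nat_lit 3) (nat_lit 78) (nat_lit 1) (nat_lit 80) (nat_lit 1) (nat_lit 320) (nat_lit 430) (nat_lit 270)) (XT.lf (nat_lit 76) (nat_lit 1319210448) (nat_lit 0) (nat_lit 4067636183) (nat_lit 76) (nat_lit 4067636183) (nat_lit 78) (nat_lit 3) (nat_lit 77) (nat_lit 1) (nat_lit 78) (nat_lit 1) (nat_lit 321) (nat_lit 430) (nat_lit 269))) (XT.nd (nat_lit 78) (nat_lit 76) (nat_lit 0) (XT.lf (nat_lit 152) (nat_lit 7617370930) (nat_lit 0) (nat_lit 872017810) (nat_lit 76) (nat_lit 872017810) (nat_lit 77) (nat_lit 1) (nat_lit 75) (nat_lit 1) (nat_lit 76) (nat_lit 1) (nat_lit 322) (nat_lit 430) (nat_lit 268)) (XT.nd (nat_lit 78) (nat_lit 76) (nat_lit 0) (XT.lf (nat_lit 0) (nat_lit 2251092107) (nat_lit 0) (nat_lit 4766290995) (nat_lit 152) (nat_lit 2251092107) (nat_lit 75) (nat_lit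 3) (nat_lit 75) (nat_lit 1) (nat_lit 77) (nat_lit 1) (nat_lit 323) (nat_lit 430) (nat_lit 267)) (XT.lf (nat_lit 76) (nat_lit 1431002751) (nat_lit 0) (nat_lit 3872943419) (nat_lit 76) (nat_lit 3872943419) (nat_lit 75) (nat_lit 3) (nat_lit 74) (nat_lit 1) (nat_lit 75) (nat_lit 1) (nat_lit 324) (nat_lit 430) (nat_lit 266))))))))
noncomputable def ec479 : XT := (XT.nd (nat_lit 1482) (nat_lit 1368) (nat_lit 0) (XT.nd (nat_lit 702) (nat_lit 836) (nat_lit 0) (XT.nd (nat_lit 312) (nat_lit 304) (nat_lit 0) (XT.nd (nat_lit 156) (nat_lit 228) (nat_lit 0) (XT.nd (nat_lit 78) (nat_lit 0) (nat_lit 0) (XT.lf (nat_lit 152) (nat_lit 7537098658) (nat_lit 0) (nat_lit 774776530) (nat_lit 76) (nat_lit 774776530) (nat_lit 74) (nat_lit 1) (nat_lit 72) (nat_lit 1) (nat_lit 73) (nat_lit 1) (nat_lit 325) (nat_lit 430) (nat_lit 265)) (XT.lf (nat_lit 0) (nat_lit 2253915438) (nat_lit 0) (nat_lit 4488637073) (nat_lit 152) (nat_lit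 2253915438) (nat_lit 72) (nat_lit 3) (nat_lit 72) (nat_lit 1) (nat_lit 74) (nat_lit 1) (nat_lit 326) (nat_lit 430) (nat_lit 264))) (XT.nd (nat_lit 78) (nat_lit 152) (nat_lit 0) (XT.lf (nat_lit 76) (nat_lit 1522787948) (nat_lit 0) (nat_lit 3692420603) (nat_lit 76) (nat_lit 3692420603) (nat_lit 72) (nat_lit 3) (nat_lit 71) (nat_lit 1) (nat_lit 72) (nat_lit 1) (nat_lit 327) (nat_lit 430) (nat_lit 263)) (XT.lf (nat_lit 152) (nat_lit 7443374971) (nat_lit 0) (nat_lit 688378912) (nat_lit 76) (nat_lit 688378912) (nat_lit 71) (nat_lit 1) (nat_lit 69) (nat_lit 1) (nat_lit 70) (nat_lit 1) (nat_lit 328) (nat_lit 430) (nat_lit 262)))) (XT.nd (nat_lit 156) (nat_lit 228) (nat_lit 0) (XT.nd (nat_lit 78) (nat_lit 76) (nat_lit 0) (XT.lf (nat_lit 0) (nat_lit 2249030262) (nat_lit 0) (nat_lit 4234551491) (nat_lit 152) (nat_lit 2249030262) (nat_lit 69) (nat_lit 3) (nat_lit 69) (nat_lit 1) (nat_lit 71) (nat_lit 1) (nat_lit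 329) (nat_lit 430) (nat_lit 261)) (XT.lf (nat_lit 76) (nat_lit 1597016726) (nat_lit 0) (nat_lit 3524707239) (nat_lit 76) (nat_lit 3524707239) (nat_lit 69) (nat_lit 3) (nat_lit 68) (nat_lit 1) (nat_lit 69) (nat_lit 1) (nat_lit 330) (nat_lit 430) (nat_lit 260))) (XT.nd (nat_lit 78) (nat_lit 76) (nat_lit 0) (XT.lf (nat_lit 152) (nat_lit 7338352385) (nat_lit 0) (nat_lit 611615747) (nat_lit 76) (nat_lit 611615747) (nat_lit 68) (nat_lit 1) (nat_lit 66) (nat_lit 1) (nat_lit 67) (nat_lit 1) (nat_lit 331) (nat_lit 430) (nat_lit 259)) (XT.nd (nat_lit 78) (nat_lit 76) (nat_lit 0) (XT.lf (nat_lit 0) (nat_lit 2237511529) (nat_lit 0) (nat_lit 4001621424) (nat_lit 152) (nat_lit 2237511529) (nat_lit 66) (nat_lit 3) (nat_lit 66) (nat_lit 1) (nat_lit 68) (nat_lit 1) (nat_lit 332) (nat_lit 430) (nat_lit 258)) (XT.lf (nat_lit 76) (nat_lit 1655860092) (nat_lit 0) (nat_lit 3368588145) (nat_lit 76) (nat_lit 3368588145) (nat_lit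 66) (nat_lit 3) (nat_lit 65) (nat_lit 1) (nat_lit 66) (nat_lit 1) (nat_lit 333) (nat_lit 430) (nat_lit 257)))))) (XT.nd (nat_lit 390) (nat_lit 456) (nat_lit 0) (XT.nd (nat_lit 156) (nat_lit 228) (nat_lit 0) (XT.nd (nat_lit 78) (nat_lit 0) (nat_lit 0) (XT.lf (nat_lit 152) (nat_lit 7223924378) (nat_lit 0) (nat_lit 543412669) (nat_lit 76) (nat_lit 543412669) (nat_lit 65) (nat_lit 1) (nat_lit 63) (nat_lit 1) (nat_lit 64) (nat_lit 1) (nat_lit 334) (nat_lit 430) (nat_lit 256)) (XT.lf (nat_lit 0) (nat_lit 2220308043) (nat_lit 0) (nat_lit 3787696836) (nat_lit 152) (nat_lit 2220308043) (nat_lit 63) (nat_lit 3) (nat_lit 63) (nat_lit 1) (nat_lit 65) (nat_lit 1) (nat_lit 335) (nat_lit 430) (nat_lit 255))) (XT.nd (nat_lit 78) (nat_lit 152) (nat_lit 0) (XT.lf (nat_lit 76) (nat_lit 1701240745) (nat_lit 0) (nat_lit 3222977437) (nat_lit 76) (nat_lit 3222977437) (nat_lit 63) (nat_lit 3) (nat_lit 62) (nat_lit 1) (nat_lit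 63) (nat_lit 1) (nat_lit 336) (nat_lit 430) (nat_lit 254)) (XT.nd (nat_lit 78) (nat_lit 0) (nat_lit 0) (XT.lf (nat_lit 152) (nat_lit 7101754828) (nat_lit 0) (nat_lit 482815118) (nat_lit 76) (nat_lit 482815118) (nat_lit 62) (nat_lit 1) (nat_lit 60) (nat_lit 1) (nat_lit 61) (nat_lit 1) (nat_lit 337) (nat_lit 430) (nat_lit 253)) (XT.lf (nat_lit 0) (nat_lit 2198256715) (nat_lit 0) (nat_lit 3590861357) (nat_lit 152) (nat_lit 2198256715) (nat_lit 60) (nat_lit 3) (nat_lit 60) (nat_lit 1) (nat_lit 62) (nat_lit 1) (nat_lit 338) (nat_lit 430) (nat_lit 252))))) (XT.nd (nat_lit 156) (nat_lit 228) (nat_lit 0) (XT.nd (nat_lit 78) (nat_lit 152) (nat_lit 0) (XT.lf (nat_lit 76) (nat_lit 1734860950) (nat_lit 0) (nat_lit 3086904291) (nat_lit 76) (nat_lit 3086904291) (nat_lit 60) (nat_lit 3) (nat_lit 59) (nat_lit 1) (nat_lit 60) (nat_lit 1) (nat_lit 339) (nat_lit 430) (nat_lit 251)) (XT.lf (nat_lit 152) (nat_lit 6973304156)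 (nat_lit 0) (nat_lit 428974979) (nat_lit 76) (nat_lit 428974979) (nat_lit 59) (nat_lit 1) (nat_lit 57) (nat_lit 1) (nat_lit 58) (nat_lit 1) (nat_lit 340) (nat_lit 430) (nat_lit 250))) (XT.nd (nat_lit 78) (nat_lit 228) (nat_lit 0) (XT.lf (nat_lit 0) (nat_lit 2172095218) (nat_lit 0) (nat_lit 3409406405) (nat_lit 152) (nat_lit 2172095218) (nat_lit 57) (nat_lit 3) (nat_lit 57) (nat_lit 1) (nat_lit 59) (nat_lit 1) (nat_lit 341) (nat_lit 430) (nat_lit 249)) (XT.nd (nat_lit 78) (nat_lit 152) (nat_lit 0) (XT.lf (nat_lit 76) (nat_lit 1758227292) (nat_lit 0) (nat_lit 2959500289) (nat_lit 76) (nat_lit 2959500289) (nat_lit 57) (nat_lit 3) (nat_lit 56) (nat_lit 1) (nat_lit 57) (nat_lit 1) (nat_lit 342) (nat_lit 430) (nat_lit 248)) (XT.lf (nat_lit 152) (nat_lit 6839852535) (nat_lit 0) (nat_lit 381138713) (nat_lit 76) (nat_lit 381138713) (nat_lit 56) (nat_lit 1) (nat_lit 54) (nat_lit 1) (nat_lit 55) (nat_lit 1) (nat_lit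 343) (nat_lit 430) (nat_lit 247))))))) (XT.nd (nat_lit 702) (nat_lit 684) (nat_lit 0) (XT.nd (nat_lit 312) (nat_lit 456) (nat_lit 0) (XT.nd (nat_lit 156) (nat_lit 152) (nat_lit 0) (XT.nd (nat_lit 78) (nat_lit 76) (nat_lit 0) (XT.lf (nat_lit 0) (nat_lit 2142473224) (nat_lit 0) (nat_lit 3241808188) (nat_lit 152) (nat_lit 2142473224) (nat_lit 54) (nat_lit 3) (nat_lit 54) (nat_lit 1) (nat_lit 56) (nat_lit 1) (nat_lit 344) (nat_lit 430) (nat_lit 246)) (XT.lf (nat_lit 76) (nat_lit 1772672670) (nat_lit 0) (nat_lit 2839988169) (nat_lit 76) (nat_lit 2839988169) (nat_lit 54) (nat_lit 3) (nat_lit 53) (nat_lit 1) (nat_lit 54) (nat_lit 1) (nat_lit 345) (nat_lit 430) (nat_lit 245))) (XT.nd (nat_lit 78) (nat_lit 0) (nat_lit 0) (XT.lf (nat_lit 152) (nat_lit 6702520494) (nat_lit 0) (nat_lit 338636810) (nat_lit 76) (nat_lit 338636810) (nat_lit 53) (nat_lit 1) (nat_lit 51) (nat_lit 1) (nat_lit 52) (nat_lit 1) (nat_lit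 346) (nat_lit 430) (nat_lit 244)) (XT.lf (nat_lit 0) (nat_lit 2109962386) (nat_lit 0) (nat_lit 3086707262) (nat_lit 152) (nat_lit 2109962386) (nat_lit 51) (nat_lit 3) (nat_lit 51) (nat_lit 1) (nat_lit 53) (nat_lit 1) (nat_lit 347) (nat_lit 430) (nat_lit 243)))) (XT.nd (nat_lit 156) (nat_lit 228) (nat_lit 0) (XT.nd (nat_lit 78) (nat_lit 152) (nat_lit 0) (XT.lf (nat_lit 76) (nat_lit 1779375828) (nat_lit 0) (nat_lit 2727671824) (nat_lit 76) (nat_lit 2727671824) (nat_lit 51) (nat_lit 3) (nat_lit 50) (nat_lit 1) (nat_lit 51) (nat_lit 1) (nat_lit 348) (nat_lit 430) (nat_lit 242)) (XT.lf (nat_lit 152) (nat_lit 6562287218) (nat_lit 0) (nat_lit 300874419) (nat_lit 76) (nat_lit 300874419) (nat_lit 50) (nat_lit 1) (nat_lit 48) (nat_lit 1) (nat_lit 49) (nat_lit 1) (nat_lit 349) (nat_lit 430) (nat_lit 241))) (XT.nd (nat_lit 78) (nat_lit 228) (nat_lit 0) (XT.lf (nat_lit 0) (nat_lit 2075065199) (nat_lit 0) (nat_lit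 2942890371) (nat_lit 152) (nat_lit 2075065199) (nat_lit 48) (nat_lit 3) (nat_lit 48) (nat_lit 1) (nat_lit 50) (nat_lit 1) (nat_lit 350) (nat_lit 430) (nat_lit 240)) (XT.nd (nat_lit 78) (nat_lit 152) (nat_lit 0) (XT.lf (nat_lit 76) (nat_lit 1779378706) (nat_lit 0) (nat_lit 2621927417) (nat_lit 76) (nat_lit 2621927417) (nat_lit 48) (nat_lit 3) (nat_lit 47) (nat_lit 1) (nat_lit 48) (nat_lit 1) (nat_lit 351) (nat_lit 430) (nat_lit 239)) (XT.lf (nat_lit 152) (nat_lit 6420006780) (nat_lit 0) (nat_lit 267323025) (nat_lit 76) (nat_lit 267323025) (nat_lit 47) (nat_lit 1) (nat_lit 45) (nat_lit 1) (nat_lit 46) (nat_lit 1) (nat_lit 352) (nat_lit 430) (nat_lit 238)))))) (XT.nd (nat_lit 390) (nat_lit 380) (nat_lit 0) (XT.nd (nat_lit 156) (nat_lit 228) (nat_lit 0) (XT.nd (nat_lit 78) (nat_lit 76) (nat_lit 0) (XT.lf (nat_lit 0) (nat_lit 2038222870) (nat_lit 0) (nat_lit 2809274295) (nat_lit 152) (nat_lit 2038222870)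 (nat_lit 45) (nat_lit 3) (nat_lit 45) (nat_lit 1) (nat_lit 47) (nat_lit 1) (nat_lit 353) (nat_lit 430) (nat_lit 237)) (XT.lf (nat_lit 76) (nat_lit 1773601856) (nat_lit 0) (nat_lit 2522195473) (nat_lit 76) (nat_lit 2522195473) (nat_lit 45) (nat_lit 3) (nat_lit 44) (nat_lit 1) (nat_lit 45) (nat_lit 1) (nat_lit 354) (nat_lit 430) (nat_lit 236))) (XT.nd (nat_lit 78) (nat_lit 76) (nat_lit 0) (XT.lf (nat_lit 152) (nat_lit 6276422564) (nat_lit 0) (nat_lit 237513045) (nat_lit 76) (nat_lit 237513045) (nat_lit 44) (nat_lit 1) (nat_lit 42) (nat_lit 1) (nat_lit 43) (nat_lit 1) (nat_lit 355) (nat_lit 430) (nat_lit 235)) (XT.nd (nat_lit 78) (nat_lit 76) (nat_lit 0) (XT.lf (nat_lit 0) (nat_lit 1999822308) (nat_lit 0) (nat_lit 2684891513) (nat_lit 152) (nat_lit 1999822308) (nat_lit 42) (nat_lit 3) (nat_lit 42) (nat_lit 1) (nat_lit 44) (nat_lit 1) (nat_lit 356) (nat_lit 430) (nat_lit 234)) (XT.lf (nat_lit 76) (nat_lit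 1762858125) (nat_lit 0) (nat_lit 2427973857) (nat_lit 76) (nat_lit 2427973857) (nat_lit 42) (nat_lit 3) (nat_lit 41) (nat_lit 1) (nat_lit 42) (nat_lit 1) (nat_lit 357) (nat_lit 430) (nat_lit 233))))) (XT.nd (nat_lit 156) (nat_lit 228) (nat_lit 0) (XT.nd (nat_lit 78) (nat_lit 0) (nat_lit 0) (XT.lf (nat_lit 152) (nat_lit 6132180051) (nat_lit 0) (nat_lit 211027264) (nat_lit 76) (nat_lit 211027264) (nat_lit 41) (nat_lit 1) (nat_lit 39) (nat_lit 1) (nat_lit 40) (nat_lit 1) (nat_lit 358) (nat_lit 430) (nat_lit 232)) (XT.lf (nat_lit 0) (nat_lit 1960202323) (nat_lit 0) (nat_lit 2568877438) (nat_lit 152) (nat_lit 1960202323) (nat_lit 39) (nat_lit 3) (nat_lit 39) (nat_lit 1) (nat_lit 41) (nat_lit 1) (nat_lit 359) (nat_lit 430) (nat_lit 231))) (XT.nd (nat_lit 78) (nat_lit 152) (nat_lit 0) (XT.lf (nat_lit 76) (nat_lit 1747864812) (nat_lit 0) (nat_lit 2338811526) (nat_lit 76) (nat_lit 2338811526) (nat_lit 39) (nat_lit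 3) (nat_lit 38) (nat_lit 1) (nat_lit 39) (nat_lit 1) (nat_lit 360) (nat_lit 430) (nat_lit 230)) (XT.nd (nat_lit 78) (nat_lit 0) (nat_lit 0) (XT.lf (nat_lit 152) (nat_lit 5987838177) (nat_lit 0) (nat_lit 187494991) (nat_lit 76) (nat_lit 187494991) (nat_lit 38) (nat_lit 1) (nat_lit 36) (nat_lit 1) (nat_lit 37) (nat_lit 1) (nat_lit 361) (nat_lit 430) (nat_lit 229)) (XT.lf (nat_lit 0) (nat_lit 1919659136) (nat_lit 0) (nat_lit 2460459092) (nat_lit 152) (nat_lit 1919659136) (nat_lit 36) (nat_lit 3) (nat_lit 36) (nat_lit 1) (nat_lit 38) (nat_lit 1) (nat_lit 362) (nat_lit 430) (nat_lit 228))))))))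
noncomputable def ec480 : XT := (XT.nd (nat_lit 1404) (nat_lit 684) (nat_lit 0) (XT.nd (nat_lit 702) (nat_lit 684) (nat_lit 0) (XT.nd (nat_lit 312) (nat_lit 380) (nat_lit 0) (XT.nd (nat_lit 156) (nat_lit 76) (nat_lit 0) (XT.nd (nat_lit 78) (nat_lit 152) (nat_lit 0) (XT.lf (nat_lit 76) (nat_lit 1729254471) (nat_lit 0) (nat_lit 2254302972) (nat_lit 76) (nat_lit 2254302972) (nat_lit 36) (nat_lit 3) (nat_lit 35) (nat_lit 1) (nat_lit 36) (nat_lit 1) (nat_lit 363) (nat_lit 430) (nat_lit 227)) (XT.lf (nat_lit 152) (nat_lit 5843879409) (nat_lit 0) (nat_lit 166586871) (nat_lit 76) (nat_lit 166586871) (nat_lit 35) (nat_lit 1) (nat_lit 33) (nat_lit 1) (nat_lit 34) (nat_lit 1) (nat_lit 364) (nat_lit 430) (nat_lit 226))) (XT.nd (nat_lit 78) (nat_lit 76) (nat_lit 0) (XT.lf (nat_lit 0) (nat_lit 1878451270) (nat_lit 0) (nat_lit 2358945027) (nat_lit 152) (nat_lit 1878451270) (nat_lit 33) (nat_lit 3) (nat_lit 33) (nat_lit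 1) (nat_lit 35) (nat_lit 1) (nat_lit 365) (nat_lit 430) (nat_lit 225)) (XT.lf (nat_lit 76) (nat_lit 1707584496) (nat_lit 0) (nat_lit 2174083288) (nat_lit 76) (nat_lit 2174083288) (nat_lit 33) (nat_lit 3) (nat_lit 32) (nat_lit 1) (nat_lit 33) (nat_lit 1) (nat_lit 366) (nat_lit 430) (nat_lit 224)))) (XT.nd (nat_lit 156) (nat_lit 228) (nat_lit 0) (XT.nd (nat_lit 78) (nat_lit 0) (nat_lit 0) (XT.lf (nat_lit 152) (nat_lit 5700718683) (nat_lit 0) (nat_lit 148010277) (nat_lit 76) (nat_lit 148010277) (nat_lit 32) (nat_lit 1) (nat_lit 30) (nat_lit 1) (nat_lit 31) (nat_lit 1) (nat_lit 367) (nat_lit 430) (nat_lit 223)) (XT.lf (nat_lit 0) (nat_lit 1836803887) (nat_lit 0) (nat_lit 2263716367) (nat_lit 152) (nat_lit 1836803887) (nat_lit 30) (nat_lit 3) (nat_lit 30) (nat_lit 1) (nat_lit 32) (nat_lit 1) (nat_lit 368) (nat_lit 430) (nat_lit 222))) (XT.nd (nat_lit 78) (nat_lit 152) (nat_lit 0) (XT.lf (nat_lit 76) (nat_lit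 1683345635) (nat_lit 0) (nat_lit 2097823770) (nat_lit 76) (nat_lit 2097823770) (nat_lit 30) (nat_lit 3) (nat_lit 29) (nat_lit 1) (nat_lit 30) (nat_lit 1) (nat_lit 369) (nat_lit 430) (nat_lit 221)) (XT.nd (nat_lit 78) (nat_lit 0) (nat_lit 0) (XT.lf (nat_lit 152) (nat_lit 5558711334) (nat_lit 0) (nat_lit 131505214) (nat_lit 76) (nat_lit 131505214) (nat_lit 29) (nat_lit 1) (nat_lit 27) (nat_lit 1) (nat_lit 28) (nat_lit 1) (nat_lit 370) (nat_lit 430) (nat_lit 220)) (XT.lf (nat_lit 0) (nat_lit 1794912642) (nat_lit 0) (nat_lit 2174218850) (nat_lit 152) (nat_lit 1794912642) (nat_lit 27) (nat_lit 3) (nat_lit 27) (nat_lit 1) (nat_lit 29) (nat_lit 1) (nat_lit 371) (nat_lit 430) (nat_lit 219)))))) (XT.nd (nat_lit 312) (nat_lit 380) (nat_lit 0) (XT.nd (nat_lit 156) (nat_lit 76) (nat_lit 0) (XT.nd (nat_lit 78) (nat_lit 152) (nat_lit 0) (XT.lf (nat_lit 76) (nat_lit 1656969559) (nat_lit 0) (nat_lit 2025228013) (nat_lit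 76) (nat_lit 2025228013) (nat_lit 27) (nat_lit 3) (nat_lit 26) (nat_lit 1) (nat_lit 27) (nat_lit 1) (nat_lit 372) (nat_lit 430) (nat_lit 218)) (XT.lf (nat_lit 152) (nat_lit 5418160130) (nat_lit 0) (nat_lit 116840679) (nat_lit 76) (nat_lit 116840679) (nat_lit 26) (nat_lit 1) (nat_lit 24) (nat_lit 1) (nat_lit 25) (nat_lit 1) (nat_lit 373) (nat_lit 430) (nat_lit 217))) (XT.nd (nat_lit 78) (nat_lit 76) (nat_lit 0) (XT.lf (nat_lit 0) (nat_lit 1752947099) (nat_lit 0) (nat_lit 2089955752) (nat_lit 152) (nat_lit 1752947099) (nat_lit 24) (nat_lit 3) (nat_lit 24) (nat_lit 1) (nat_lit 26) (nat_lit 1) (nat_lit 374) (nat_lit 430) (nat_lit 216)) (XT.lf (nat_lit 76) (nat_lit 1628835569) (nat_lit 0) (nat_lit 1956028436) (nat_lit 76) (nat_lit 1956028436) (nat_lit 24) (nat_lit 3) (nat_lit 23) (nat_lit 1) (nat_lit 24) (nat_lit 1) (nat_lit 375) (nat_lit 430) (nat_lit 215)))) (XT.nd (nat_lit 156) (nat_lit 228) (nat_lit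 0) (XT.nd (nat_lit 78) (nat_lit 0) (nat_lit 0) (XT.lf (nat_lit 152) (nat_lit 5279321513) (nat_lit 0) (nat_lit 103811430) (nat_lit 76) (nat_lit 103811430) (nat_lit 23) (nat_lit 1) (nat_lit 21) (nat_lit 1) (nat_lit 22) (nat_lit 1) (nat_lit 376) (nat_lit 430) (nat_lit 214)) (XT.lf (nat_lit 0) (nat_lit 1711053768) (nat_lit 0) (nat_lit 2010481591) (nat_lit 152) (nat_lit 1711053768) (nat_lit 21) (nat_lit 3) (nat_lit 21) (nat_lit 1) (nat_lit 23) (nat_lit 1) (nat_lit 377) (nat_lit 430) (nat_lit 213))) (XT.nd (nat_lit 78) (nat_lit 152) (nat_lit 0) (XT.lf (nat_lit 76) (nat_lit 1599276566) (nat_lit 0) (nat_lit 1889983191) (nat_lit 76) (nat_lit 1889983191) (nat_lit 21) (nat_lit 3) (nat_lit 20) (nat_lit 1) (nat_lit 21) (nat_lit 1) (nat_lit 378) (nat_lit 430) (nat_lit 212)) (XT.nd (nat_lit 78) (nat_lit 0) (nat_lit 0) (XT.lf (nat_lit 152) (nat_lit 5142411130) (nat_lit 0) (nat_lit 92235111) (nat_lit 76) (nat_lit 92235111)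 (nat_lit 20) (nat_lit 1) (nat_lit 18) (nat_lit 1) (nat_lit 19) (nat_lit 1) (nat_lit 379) (nat_lit 430) (nat_lit 211)) (XT.lf (nat_lit 0) (nat_lit 1669358795) (nat_lit 0) (nat_lit 1935396538) (nat_lit 152) (nat_lit 1669358795) (nat_lit 18) (nat_lit 3) (nat_lit 18) (nat_lit 1) (nat_lit 20) (nat_lit 1) (nat_lit 380) (nat_lit 430) (nat_lit 210))))))) (XT.nd (nat_lit 39390) (nat_lit 0) (nat_lit 16188) (XT.nd (nat_lit 312) (nat_lit 380) (nat_lit 0) (XT.nd (nat_lit 156) (nat_lit 76) (nat_lit 0) (XT.nd (nat_lit 78) (nat_lit 152) (nat_lit 0) (XT.lf (nat_lit 76) (nat_lit 1568584340) (nat_lit 0) (nat_lit 1826873410) (nat_lit 76) (nat_lit 1826873410) (nat_lit 18) (nat_lit 3) (nat_lit 17) (nat_lit 1) (nat_lit 18) (nat_lit 1) (nat_lit 381) (nat_lit 430) (nat_lit 209)) (XT.lf (nat_lit 152) (nat_lit 5007608737) (nat_lit 0) (nat_lit 81949702) (nat_lit 76) (nat_lit 81949702) (nat_lit 17) (nat_lit 1) (nat_lit 15) (nat_lit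 1) (nat_lit 16) (nat_lit 1) (nat_lit 382) (nat_lit 430) (nat_lit 208))) (XT.nd (nat_lit 78) (nat_lit 76) (nat_lit 0) (XT.lf (nat_lit 0) (nat_lit 1627970352) (nat_lit 0) (nat_lit 1864341441) (nat_lit 152) (nat_lit 1627970352) (nat_lit 15) (nat_lit 3) (nat_lit 15) (nat_lit 1) (nat_lit 17) (nat_lit 1) (nat_lit 383) (nat_lit 430) (nat_lit 207)) (XT.lf (nat_lit 76) (nat_lit 1537014272) (nat_lit 0) (nat_lit 1766500766) (nat_lit 76) (nat_lit 1766500766) (nat_lit 15) (nat_lit 3) (nat_lit 14) (nat_lit 1) (nat_lit 15) (nat_lit 1) (nat_lit 384) (nat_lit 430) (nat_lit 206)))) (XT.nd (nat_lit 156) (nat_lit 228) (nat_lit 0) (XT.nd (nat_lit 78) (nat_lit 0) (nat_lit 0) (XT.lf (nat_lit 152) (nat_lit 4875062545) (nat_lit 0) (nat_lit 72811248) (nat_lit 76) (nat_lit 72811248) (nat_lit 14) (nat_lit 1) (nat_lit 12) (nat_lit 1) (nat_lit 13) (nat_lit 1) (nat_lit 385) (nat_lit 430) (nat_lit 205)) (XT.lf (nat_lit 0) (nat_lit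 1586980751) (nat_lit 0) (nat_lit 1796993402) (nat_lit 152) (nat_lit 1586980751) (nat_lit 12) (nat_lit 3) (nat_lit 12) (nat_lit 1) (nat_lit 14) (nat_lit 1) (nat_lit 386) (nat_lit 430) (nat_lit 204))) (XT.nd (nat_lit 78) (nat_lit 152) (nat_lit 0) (XT.lf (nat_lit 76) (nat_lit 1504789509) (nat_lit 0) (nat_lit 1708685286) (nat_lit 76) (nat_lit 1708685286) (nat_lit 12) (nat_lit 3) (nat_lit 11) (nat_lit 1) (nat_lit 12) (nat_lit 1) (nat_lit 387) (nat_lit 430) (nat_lit 203)) (XT.nd (nat_lit 78) (nat_lit 0) (nat_lit 0) (XT.lf (nat_lit 152) (nat_lit 4744893075) (nat_lit 0) (nat_lit 64691851) (nat_lit 76) (nat_lit 64691851) (nat_lit 11) (nat_lit 1) (nat_lit 9) (nat_lit 1) (nat_lit 10) (nat_lit 1) (nat_lit 388) (nat_lit 430) (nat_lit 202)) (XT.lf (nat_lit 0) (nat_lit 1546468326) (nat_lit 0) (nat_lit 1733061847) (nat_lit 152) (nat_lit 1546468326) (nat_lit 9) (nat_lit 3) (nat_lit 9) (nat_lit 1) (nat_lit 11) (nat_lit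 1) (nat_lit 389) (nat_lit 430) (nat_lit 201)))))) (XT.nd (nat_lit 390) (nat_lit 988) (nat_lit 0) (XT.nd (nat_lit 156) (nat_lit 760) (nat_lit 0) (XT.nd (nat_lit 78) (nat_lit 304) (nat_lit 0) (XT.lf (nat_lit 76) (nat_lit 5060797858) (nat_lit 0) (nat_lit 22035664808) (nat_lit 456) (nat_lit 5060797858) (nat_lit 250) (nat_lit 1) (nat_lit 249) (nat_lit 1) (nat_lit 255) (nat_lit 1) (nat_lit 205) (nat_lit 431) (nat_lit 384)) (XT.lf (nat_lit 380) (nat_lit 3514888839) (nat_lit 0) (nat_lit 14132388648) (nat_lit 304) (nat_lit 14132388648) (nat_lit 250) (nat_lit 1) (nat_lit 245) (nat_lit 1) (nat_lit 249) (nat_lit 1) (nat_lit 206) (nat_lit 431) (nat_lit 383))) (XT.nd (nat_lit 78) (nat_lit 304) (nat_lit 0) (XT.lf (nat_lit 456) (nat_lit 28504931178) (nat_lit 0) (nat_lit 1452711993) (nat_lit 380) (nat_lit 1452711993) (nat_lit 245) (nat_lit 1) (nat_lit 239) (nat_lit 1) (nat_lit 244) (nat_lit 1) (nat_lit 207) (nat_lit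 431) (nat_lit 382)) (XT.nd (nat_lit 78) (nat_lit 304) (nat_lit 0) (XT.lf (nat_lit 76) (nat_lit 10848221352) (nat_lit 0) (nat_lit 9346153820) (nat_lit 456) (nat_lit 10848221352) (nat_lit 240) (nat_lit 1) (nat_lit 239) (nat_lit 1) (nat_lit 245) (nat_lit 1) (nat_lit 208) (nat_lit 431) (nat_lit 381)) (XT.lf (nat_lit 380) (nat_lit 14994630762) (nat_lit 0) (nat_lit 7844124867) (nat_lit 304) (nat_lit 7844124867) (nat_lit 240) (nat_lit 1) (nat_lit 235) (nat_lit 1) (nat_lit 239) (nat_lit 1) (nat_lit 209) (nat_lit 431) (nat_lit 380))))) (XT.nd (nat_lit 156) (nat_lit 684) (nat_lit 0) (XT.nd (nat_lit 78) (nat_lit 304) (nat_lit 0) (XT.lf (nat_lit 76) (nat_lit 4169777768) (nat_lit 0) (nat_lit 21989761971) (nat_lit 380) (nat_lit 4169777768) (nat_lit 236) (nat_lit 1) (nat_lit 235) (nat_lit 1) (nat_lit 240) (nat_lit 1) (nat_lit 210) (nat_lit 431) (nat_lit 379)) (XT.lf (nat_lit 380) (nat_lit 1662731549) (nat_lit 0) (nat_lit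 14158520859) (nat_lit 304) (nat_lit 14158520859) (nat_lit 236) (nat_lit 1) (nat_lit 231) (nat_lit 1) (nat_lit 235) (nat_lit 1) (nat_lit 211) (nat_lit 431) (nat_lit 378))) (XT.nd (nat_lit 78) (nat_lit 304) (nat_lit 0) (XT.lf (nat_lit 380) (nat_lit 24848455176) (nat_lit 0) (nat_lit 2394335964) (nat_lit 304) (nat_lit 2394335964) (nat_lit 231) (nat_lit 1) (nat_lit 226) (nat_lit 1) (nat_lit 230) (nat_lit 1) (nat_lit 212) (nat_lit 431) (nat_lit 377)) (XT.nd (nat_lit 78) (nat_lit 304) (nat_lit 0) (XT.lf (nat_lit 76) (nat_lit 9018650746) (nat_lit 0) (nat_lit 11259528150) (nat_lit 380) (nat_lit 9018650746) (nat_lit 227) (nat_lit 1) (nat_lit 226) (nat_lit 1) (nat_lit 231) (nat_lit 1) (nat_lit 213) (nat_lit 431) (nat_lit 376)) (XT.lf (nat_lit 380) (nat_lit 11314143395) (nat_lit 0) (nat_lit 8824542595) (nat_lit 304) (nat_lit 8824542595) (nat_lit 227) (nat_lit 1) (nat_lit 222) (nat_lit 1) (nat_lit 226) (nat_lit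 1) (nat_lit 214) (nat_lit 431) (nat_lit 375))))))))
noncomputable def ec481 : XT := (XT.nd (nat_lit 1482) (nat_lit 2280) (nat_lit 0) (XT.nd (nat_lit 702) (nat_lit 1748) (nat_lit 0) (XT.nd (nat_lit 312) (nat_lit 836) (nat_lit 0) (XT.nd (nat_lit 156) (nat_lit 304) (nat_lit 0) (XT.nd (nat_lit 78) (nat_lit 304) (nat_lit 0) (XT.lf (nat_lit 76) (nat_lit 2337392107) (nat_lit 0) (nat_lit 23961297095) (nat_lit 380) (nat_lit 2337392107) (nat_lit 223) (nat_lit 1) (nat_lit 222) (nat_lit 1) (nat_lit 227) (nat_lit 1) (nat_lit 215) (nat_lit 431) (nat_lit 374)) (XT.lf (nat_lit 76) (nat_lit 13172039044) (nat_lit 0) (nat_lit 1966963812) (nat_lit 304) (nat_lit 13172039044) (nat_lit 219) (nat_lit 1) (nat_lit 218) (nat_lit 1) (nat_lit 222) (nat_lit 1) (nat_lit 216) (nat_lit 431) (nat_lit 373))) (XT.nd (nat_lit 78) (nat_lit 0) (nat_lit 0) (XT.lf (nat_lit 380) (nat_lit 19602788262) (nat_lit 0) (nat_lit 4194744415) (nat_lit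 304) (nat_lit 4194744415) (nat_lit 219) (nat_lit 1) (nat_lit 214) (nat_lit 1) (nat_lit 218) (nat_lit 1) (nat_lit 217) (nat_lit 431) (nat_lit 372)) (XT.lf (nat_lit 76) (nat_lit 6431879835) (nat_lit 0) (nat_lit 14813384006) (nat_lit 380) (nat_lit 6431879835) (nat_lit 215) (nat_lit 1) (nat_lit 214) (nat_lit 1) (nat_lit 219) (nat_lit 1) (nat_lit 218) (nat_lit 431) (nat_lit 371)))) (XT.nd (nat_lit 156) (nat_lit 228) (nat_lit 0) (XT.nd (nat_lit 78) (nat_lit 380) (nat_lit 0) (XT.lf (nat_lit 304) (nat_lit 6175784209) (nat_lit 0) (nat_lit 10595587357) (nat_lit 228) (nat_lit 10595587357) (nat_lit 215) (nat_lit 1) (nat_lit 211) (nat_lit 1) (nat_lit 214) (nat_lit 1) (nat_lit 219) (nat_lit 431) (nat_lit 370)) (XT.lf (nat_lit 380) (nat_lit 26688977258) (nat_lit 0) (nat_lit 187415514) (nat_lit 304) (nat_lit 187415514) (nat_lit 211) (nat_lit 1) (nat_lit 206) (nat_lit 1) (nat_lit 210) (nat_lit 1) (nat_lit 220) (nat_lit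 431) (nat_lit 369))) (XT.nd (nat_lit 78) (nat_lit 228) (nat_lit 0) (XT.lf (nat_lit 76) (nat_lit 9942930492) (nat_lit 0) (nat_lit 6874200685) (nat_lit 380) (nat_lit 9942930492) (nat_lit 207) (nat_lit 1) (nat_lit 206) (nat_lit 1) (nat_lit 211) (nat_lit 1) (nat_lit 221) (nat_lit 431) (nat_lit 368)) (XT.nd (nat_lit 78) (nat_lit 0) (nat_lit 0) (XT.lf (nat_lit 304) (nat_lit 13213499603) (nat_lit 0) (nat_lit 6624849750) (nat_lit 228) (nat_lit 6624849750) (nat_lit 207) (nat_lit 1) (nat_lit 203) (nat_lit 1) (nat_lit 206) (nat_lit 1) (nat_lit 222) (nat_lit 431) (nat_lit 367)) (XT.lf (nat_lit 76) (nat_lit 3302326058) (nat_lit 0) (nat_lit 19566520416) (nat_lit 304) (nat_lit 3302326058) (nat_lit 204) (nat_lit 1) (nat_lit 203) (nat_lit 1) (nat_lit 207) (nat_lit 1) (nat_lit 223) (nat_lit 431) (nat_lit 366)))))) (XT.nd (nat_lit 390) (nat_lit 684) (nat_lit 0) (XT.nd (nat_lit 156) (nat_lit 532) (nat_lit 0) (XT.nd (nat_lit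 78) (nat_lit 228) (nat_lit 0) (XT.lf (nat_lit 76) (nat_lit 12939299489) (nat_lit 0) (nat_lit 3464350) (nat_lit 304) (nat_lit 12939299489) (nat_lit 200) (nat_lit 1) (nat_lit 199) (nat_lit 1) (nat_lit 203) (nat_lit 1) (nat_lit 224) (nat_lit 431) (nat_lit 365)) (XT.lf (nat_lit 304) (nat_lit 19241377937) (nat_lit 0) (nat_lit 3178139428) (nat_lit 228) (nat_lit 3178139428) (nat_lit 200) (nat_lit 1) (nat_lit 196) (nat_lit 1) (nat_lit 199) (nat_lit 1) (nat_lit 225) (nat_lit 431) (nat_lit 364))) (XT.nd (nat_lit 78) (nat_lit 532) (nat_lit 0) (XT.lf (nat_lit 76) (nat_lit 6303482660) (nat_lit 0) (nat_lit 12709019824) (nat_lit 304) (nat_lit 6303482660) (nat_lit 197) (nat_lit 1) (nat_lit 196) (nat_lit 1) (nat_lit 200) (nat_lit 1) (nat_lit 226) (nat_lit 431) (nat_lit 363)) (XT.nd (nat_lit 78) (nat_lit 304) (nat_lit 0) (XT.lf (nat_lit 304) (nat_lit 6041189790) (nat_lit 0) (nat_lit 9498849330) (nat_lit 228) (nat_lit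 9498849330) (nat_lit 197) (nat_lit 1) (nat_lit 193) (nat_lit 1) (nat_lit 196) (nat_lit 1) (nat_lit 227) (nat_lit 431) (nat_lit 362)) (XT.lf (nat_lit 304) (nat_lit 24378583705) (nat_lit 0) (nat_lit 194654388) (nat_lit 228) (nat_lit 194654388) (nat_lit 193) (nat_lit 1) (nat_lit 189) (nat_lit 1) (nat_lit 192) (nat_lit 1) (nat_lit 228) (nat_lit 431) (nat_lit 361))))) (XT.nd (nat_lit 156) (nat_lit 456) (nat_lit 0) (XT.nd (nat_lit 78) (nat_lit 228) (nat_lit 0) (XT.lf (nat_lit 76) (nat_lit 8871833312) (nat_lit 0) (nat_lit 6752401313) (nat_lit 304) (nat_lit 8871833312) (nat_lit 190) (nat_lit 1) (nat_lit 189) (nat_lit 1) (nat_lit 193) (nat_lit 1) (nat_lit 229) (nat_lit 431) (nat_lit 360)) (XT.lf (nat_lit 304) (nat_lit 11235799543) (nat_lit 0) (nat_lit 6497216457) (nat_lit 228) (nat_lit 6497216457) (nat_lit 190) (nat_lit 1) (nat_lit 186) (nat_lit 1) (nat_lit 189) (nat_lit 1) (nat_lit 230) (nat_lit 431) (nat_lit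 359))) (XT.nd (nat_lit 78) (nat_lit 456) (nat_lit 0) (XT.lf (nat_lit 76) (nat_lit 2403118224) (nat_lit 0) (nat_lit 19162663148) (nat_lit 304) (nat_lit 2403118224) (nat_lit 187) (nat_lit 1) (nat_lit 186) (nat_lit 1) (nat_lit 190) (nat_lit 1) (nat_lit 231) (nat_lit 431) (nat_lit 358)) (XT.nd (nat_lit 78) (nat_lit 228) (nat_lit 0) (XT.lf (nat_lit 76) (nat_lit 11058499874) (nat_lit 0) (nat_lit 1592238398) (nat_lit 228) (nat_lit 11058499874) (nat_lit 184) (nat_lit 1) (nat_lit 183) (nat_lit 1) (nat_lit 186) (nat_lit 1) (nat_lit 232) (nat_lit 431) (nat_lit 357)) (XT.lf (nat_lit 304) (nat_lit 15680222231) (nat_lit 0) (nat_lit 3886878938) (nat_lit 228) (nat_lit 3886878938) (nat_lit 184) (nat_lit 1) (nat_lit 180) (nat_lit 1) (nat_lit 183) (nat_lit 1) (nat_lit 233) (nat_lit 431) (nat_lit 356))))))) (XT.nd (nat_lit 702) (nat_lit 1292) (nat_lit 0) (XT.nd (nat_lit 312) (nat_lit 532) (nat_lit 0) (XT.nd (nat_lit 156)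 (nat_lit 304) (nat_lit 0) (XT.nd (nat_lit 78) (nat_lit 152) (nat_lit 0) (XT.lf (nat_lit 76) (nat_lit 4637836973) (nat_lit 0) (nat_lit 13925960986) (nat_lit 304) (nat_lit 4637836973) (nat_lit 181) (nat_lit 1) (nat_lit 180) (nat_lit 1) (nat_lit 184) (nat_lit 1) (nat_lit 234) (nat_lit 431) (nat_lit 355)) (XT.lf (nat_lit 228) (nat_lit 2921136873) (nat_lit 0) (nat_lit 10015763085) (nat_lit 152) (nat_lit 10015763085) (nat_lit 181) (nat_lit 1) (nat_lit 178) (nat_lit 1) (nat_lit 180) (nat_lit 1) (nat_lit 235) (nat_lit 431) (nat_lit 354))) (XT.nd (nat_lit 78) (nat_lit 0) (nat_lit 0) (XT.lf (nat_lit 304) (nat_lit 19463091705) (nat_lit 0) (nat_lit 1622554475) (nat_lit 228) (nat_lit 1622554475) (nat_lit 178) (nat_lit 1) (nat_lit 174) (nat_lit 1) (nat_lit 177) (nat_lit 1) (nat_lit 236) (nat_lit 431) (nat_lit 353)) (XT.lf (nat_lit 76) (nat_lit 6550461533) (nat_lit 0) (nat_lit 9363504875) (nat_lit 304) (nat_lit 6550461533)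 (nat_lit 175) (nat_lit 1) (nat_lit 174) (nat_lit 1) (nat_lit 178) (nat_lit 1) (nat_lit 237) (nat_lit 431) (nat_lit 352)))) (XT.nd (nat_lit 156) (nat_lit 380) (nat_lit 0) (XT.nd (nat_lit 78) (nat_lit 0) (nat_lit 0) (XT.lf (nat_lit 228) (nat_lit 6832261245) (nat_lit 0) (nat_lit 7696410200) (nat_lit 152) (nat_lit 7696410200) (nat_lit 175) (nat_lit 1) (nat_lit 172) (nat_lit 1) (nat_lit 174) (nat_lit 1) (nat_lit 238) (nat_lit 431) (nat_lit 351)) (XT.lf (nat_lit 76) (nat_lit 339267827) (nat_lit 0) (nat_lit 21312200668) (nat_lit 228) (nat_lit 339267827) (nat_lit 173) (nat_lit 1) (nat_lit 172) (nat_lit 1) (nat_lit 175) (nat_lit 1) (nat_lit 239) (nat_lit 431) (nat_lit 350))) (XT.nd (nat_lit 78) (nat_lit 152) (nat_lit 0) (XT.lf (nat_lit 76) (nat_lit 8179032709) (nat_lit 0) (nat_lit 5397477958) (nat_lit 228) (nat_lit 8179032709) (nat_lit 170) (nat_lit 1) (nat_lit 169) (nat_lit 1) (nat_lit 172) (nat_lit 1) (nat_lit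 240) (nat_lit 431) (nat_lit 349)) (XT.nd (nat_lit 78) (nat_lit 0) (nat_lit 0) (XT.lf (nat_lit 228) (nat_lit 10183840641) (nat_lit 0) (nat_lit 5670718471) (nat_lit 152) (nat_lit 5670718471) (nat_lit 170) (nat_lit 1) (nat_lit 167) (nat_lit 1) (nat_lit 169) (nat_lit 1) (nat_lit 241) (nat_lit 431) (nat_lit 348)) (XT.lf (nat_lit 76) (nat_lit 2044308774) (nat_lit 0) (nat_lit 17210164213) (nat_lit 228) (nat_lit 2044308774) (nat_lit 168) (nat_lit 1) (nat_lit 167) (nat_lit 1) (nat_lit 170) (nat_lit 1) (nat_lit 242) (nat_lit 431) (nat_lit 347)))))) (XT.nd (nat_lit 390) (nat_lit 532) (nat_lit 0) (XT.nd (nat_lit 156) (nat_lit 380) (nat_lit 0) (XT.nd (nat_lit 78) (nat_lit 152) (nat_lit 0) (XT.lf (nat_lit 76) (nat_lit 9557287421) (nat_lit 0) (nat_lit 1958817562) (nat_lit 228) (nat_lit 9557287421) (nat_lit 165) (nat_lit 1) (nat_lit 164) (nat_lit 1) (nat_lit 167) (nat_lit 1) (nat_lit 243) (nat_lit 431) (nat_lit 346))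 (XT.lf (nat_lit 228) (nat_lit 13041865865) (nat_lit 0) (nat_lit 3904920781) (nat_lit 152) (nat_lit 3904920781) (nat_lit 165) (nat_lit 1) (nat_lit 162) (nat_lit 1) (nat_lit 164) (nat_lit 1) (nat_lit 244) (nat_lit 431) (nat_lit 345))) (XT.nd (nat_lit 78) (nat_lit 380) (nat_lit 0) (XT.lf (nat_lit 76) (nat_lit 3508452261) (nat_lit 0) (nat_lit 13615813780) (nat_lit 228) (nat_lit 3508452261) (nat_lit 163) (nat_lit 1) (nat_lit 162) (nat_lit 1) (nat_lit 165) (nat_lit 1) (nat_lit 245) (nat_lit 431) (nat_lit 344)) (XT.nd (nat_lit 78) (nat_lit 228) (nat_lit 0) (XT.lf (nat_lit 228) (nat_lit 1033939119) (nat_lit 0) (nat_lit 9691140185) (nat_lit 152) (nat_lit 9691140185) (nat_lit 163) (nat_lit 1) (nat_lit 160) (nat_lit 1) (nat_lit 162) (nat_lit 1) (nat_lit 246) (nat_lit 431) (nat_lit 343)) (XT.lf (nat_lit 228) (nat_lit 15464864199) (nat_lit 0) (nat_lit 2369045194) (nat_lit 152) (nat_lit 2369045194) (nat_lit 160)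 (nat_lit 1) (nat_lit 157) (nat_lit 1) (nat_lit 159) (nat_lit 1) (nat_lit 247) (nat_lit 431) (nat_lit 342))))) (XT.nd (nat_lit 156) (nat_lit 380) (nat_lit 0) (XT.nd (nat_lit 78) (nat_lit 152) (nat_lit 0) (XT.lf (nat_lit 76) (nat_lit 4760040016) (nat_lit 0) (nat_lit 10471072039) (nat_lit 228) (nat_lit 4760040016) (nat_lit 158) (nat_lit 1) (nat_lit 157) (nat_lit 1) (nat_lit 160) (nat_lit 1) (nat_lit 248) (nat_lit 431) (nat_lit 341)) (XT.lf (nat_lit 228) (nat_lit 3645787349) (nat_lit 0) (nat_lit 8068370592) (nat_lit 152) (nat_lit 8068370592) (nat_lit 158) (nat_lit 1) (nat_lit 155) (nat_lit 1) (nat_lit 157) (nat_lit 1) (nat_lit 249) (nat_lit 431) (nat_lit 340))) (XT.nd (nat_lit 78) (nat_lit 152) (nat_lit 0) (XT.lf (nat_lit 228) (nat_lit 17504734741) (nat_lit 0) (nat_lit 1036490881) (nat_lit 152) (nat_lit 1036490881) (nat_lit 155) (nat_lit 1) (nat_lit 152) (nat_lit 1) (nat_lit 154) (nat_lit 1) (nat_lit 250)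 (nat_lit 431) (nat_lit 339)) (XT.nd (nat_lit 78) (nat_lit 152) (nat_lit 0) (XT.lf (nat_lit 76) (nat_lit 5824210235) (nat_lit 0) (nat_lit 7724380670) (nat_lit 228) (nat_lit 5824210235) (nat_lit 153) (nat_lit 1) (nat_lit 152) (nat_lit 1) (nat_lit 155) (nat_lit 1) (nat_lit 251) (nat_lit 431) (nat_lit 338)) (XT.lf (nat_lit 228) (nat_lit 5886949240) (nat_lit 0) (nat_lit 6642349621) (nat_lit 152) (nat_lit 6642349621) (nat_lit 153) (nat_lit 1) (nat_lit 150) (nat_lit 1) (nat_lit 152) (nat_lit 1) (nat_lit 252) (nat_lit 431) (nat_lit 337))))))))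
noncomputable def ec482 : XT := (XT.nd (nat_lit 1482) (nat_lit 1596) (nat_lit 0) (XT.nd (nat_lit 702) (nat_lit 912) (nat_lit 0) (XT.nd (nat_lit 312) (nat_lit 608) (nat_lit 0) (XT.nd (nat_lit 156) (nat_lit 152) (nat_lit 0) (XT.nd (nat_lit 78) (nat_lit 152) (nat_lit 0) (XT.lf (nat_lit 76) (nat_lit 117500612) (nat_lit 0) (nat_lit 18739655746) (nat_lit 228) (nat_lit 117500612) (nat_lit 151) (nat_lit 1) (nat_lit 150) (nat_lit 1) (nat_lit 153) (nat_lit 1) (nat_lit 253) (nat_lit 431) (nat_lit 336)) (XT.lf (nat_lit 76) (nat_lit 6723256071) (nat_lit 0) (nat_lit 5329972164) (nat_lit 152) (nat_lit 6723256071) (nat_lit 149) (nat_lit 1) (nat_lit 148) (nat_lit 1) (nat_lit 150) (nat_lit 1) (nat_lit 254) (nat_lit 431) (nat_lit 335))) (XT.nd (nat_lit 78) (nat_lit 0) (nat_lit 0) (XT.lf (nat_lit 228) (nat_lit 7801074657) (nat_lit 0) (nat_lit 5390677385) (nat_lit 152) (nat_lit 5390677385) (nat_lit 149) (nat_lit 1) (nat_lit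 146) (nat_lit 1) (nat_lit 148) (nat_lit 1) (nat_lit 255) (nat_lit 431) (nat_lit 334)) (XT.lf (nat_lit 76) (nat_lit 1121414513) (nat_lit 0) (nat_lit 16148947944) (nat_lit 228) (nat_lit 1121414513) (nat_lit 147) (nat_lit 1) (nat_lit 146) (nat_lit 1) (nat_lit 149) (nat_lit 1) (nat_lit 256) (nat_lit 431) (nat_lit 333)))) (XT.nd (nat_lit 156) (nat_lit 304) (nat_lit 0) (XT.nd (nat_lit 78) (nat_lit 152) (nat_lit 0) (XT.lf (nat_lit 76) (nat_lit 7476944106) (nat_lit 0) (nat_lit 3247222870) (nat_lit 152) (nat_lit 7476944106) (nat_lit 145) (nat_lit 1) (nat_lit 144) (nat_lit 1) (nat_lit 146) (nat_lit 1) (nat_lit 257) (nat_lit 431) (nat_lit 332)) (XT.lf (nat_lit 228) (nat_lit 9426878556) (nat_lit 0) (nat_lit 4293465268) (nat_lit 152) (nat_lit 4293465268) (nat_lit 145) (nat_lit 1) (nat_lit 142) (nat_lit 1) (nat_lit 144) (nat_lit 1) (nat_lit 258) (nat_lit 431) (nat_lit 331))) (XT.nd (nat_lit 78) (nat_lit 304) (nat_lit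 0) (XT.lf (nat_lit 76) (nat_lit 1983757165) (nat_lit 0) (nat_lit 13861729660) (nat_lit 228) (nat_lit 1983757165) (nat_lit 143) (nat_lit 1) (nat_lit 142) (nat_lit 1) (nat_lit 145) (nat_lit 1) (nat_lit 259) (nat_lit 431) (nat_lit 330)) (XT.nd (nat_lit 78) (nat_lit 152) (nat_lit 0) (XT.lf (nat_lit 76) (nat_lit 8102797285) (nat_lit 0) (nat_lit 1440078215) (nat_lit 152) (nat_lit 8102797285) (nat_lit 141) (nat_lit 1) (nat_lit 140) (nat_lit 1) (nat_lit 142) (nat_lit 1) (nat_lit 260) (nat_lit 431) (nat_lit 329)) (XT.lf (nat_lit 228) (nat_lit 10798693249) (nat_lit 0) (nat_lit 3333055496) (nat_lit 152) (nat_lit 3333055496) (nat_lit 141) (nat_lit 1) (nat_lit 138) (nat_lit 1) (nat_lit 140) (nat_lit 1) (nat_lit 261) (nat_lit 431) (nat_lit 328)))))) (XT.nd (nat_lit 390) (nat_lit 532) (nat_lit 0) (XT.nd (nat_lit 156) (nat_lit 304) (nat_lit 0) (XT.nd (nat_lit 78) (nat_lit 76) (nat_lit 0) (XT.lf (nat_lit 76) (nat_lit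 2721178367) (nat_lit 0) (nat_lit 11843732870) (nat_lit 228) (nat_lit 2721178367) (nat_lit 139) (nat_lit 1) (nat_lit 138) (nat_lit 1) (nat_lit 141) (nat_lit 1) (nat_lit 262) (nat_lit 431) (nat_lit 327)) (XT.lf (nat_lit 152) (nat_lit 125914994) (nat_lit 0) (nat_lit 8491641631) (nat_lit 76) (nat_lit 8491641631) (nat_lit 139) (nat_lit 1) (nat_lit 137) (nat_lit 1) (nat_lit 138) (nat_lit 1) (nat_lit 263) (nat_lit 431) (nat_lit 326))) (XT.nd (nat_lit 78) (nat_lit 76) (nat_lit 0) (XT.lf (nat_lit 228) (nat_lit 11946959038) (nat_lit 0) (nat_lit 2493771993) (nat_lit 152) (nat_lit 2493771993) (nat_lit 137) (nat_lit 1) (nat_lit 134) (nat_lit 1) (nat_lit 136) (nat_lit 1) (nat_lit 264) (nat_lit 431) (nat_lit 325)) (XT.nd (nat_lit 78) (nat_lit 76) (nat_lit 0) (XT.lf (nat_lit 76) (nat_lit 3348446123) (nat_lit 0) (nat_lit 10064523260) (nat_lit 228) (nat_lit 3348446123) (nat_lit 135) (nat_lit 1) (nat_lit 134) (nat_lit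 1) (nat_lit 137) (nat_lit 1) (nat_lit 265) (nat_lit 431) (nat_lit 324)) (XT.lf (nat_lit 152) (nat_lit 1501068224) (nat_lit 0) (nat_lit 7544713605) (nat_lit 76) (nat_lit 7544713605) (nat_lit 135) (nat_lit 1) (nat_lit 133) (nat_lit 1) (nat_lit 134) (nat_lit 1) (nat_lit 266) (nat_lit 431) (nat_lit 323))))) (XT.nd (nat_lit 156) (nat_lit 304) (nat_lit 0) (XT.nd (nat_lit 78) (nat_lit 0) (nat_lit 0) (XT.lf (nat_lit 228) (nat_lit 12898660068) (nat_lit 0) (nat_lit 1761699024) (nat_lit 152) (nat_lit 1761699024) (nat_lit 133) (nat_lit 1) (nat_lit 130) (nat_lit 1) (nat_lit 132) (nat_lit 1) (nat_lit 267) (nat_lit 431) (nat_lit 322)) (XT.lf (nat_lit 76) (nat_lit 3878657213) (nat_lit 0) (nat_lit 8497072352) (nat_lit 228) (nat_lit 3878657213) (nat_lit 131) (nat_lit 1) (nat_lit 130) (nat_lit 1) (nat_lit 133) (nat_lit 1) (nat_lit 268) (nat_lit 431) (nat_lit 321))) (XT.nd (nat_lit 78) (nat_lit 228) (nat_lit 0) (XT.lf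 (nat_lit 152) (nat_lit 2682412086) (nat_lit 0) (nat_lit 6703380318) (nat_lit 76) (nat_lit 6703380318) (nat_lit 131) (nat_lit 1) (nat_lit 129) (nat_lit 1) (nat_lit 130) (nat_lit 1) (nat_lit 269) (nat_lit 431) (nat_lit 320)) (XT.nd (nat_lit 78) (nat_lit 0) (nat_lit 0) (XT.lf (nat_lit 228) (nat_lit 13677711533) (nat_lit 0) (nat_lit 1124484540) (nat_lit 152) (nat_lit 1124484540) (nat_lit 129) (nat_lit 1) (nat_lit 126) (nat_lit 1) (nat_lit 128) (nat_lit 1) (nat_lit 270) (nat_lit 431) (nat_lit 319)) (XT.lf (nat_lit 76) (nat_lit 4323424272) (nat_lit 0) (nat_lit 7117377362) (nat_lit 228) (nat_lit 4323424272) (nat_lit 127) (nat_lit 1) (nat_lit 126) (nat_lit 1) (nat_lit 129) (nat_lit 1) (nat_lit 271) (nat_lit 431) (nat_lit 318))))))) (XT.nd (nat_lit 702) (nat_lit 760) (nat_lit 0) (XT.nd (nat_lit 312) (nat_lit 456) (nat_lit 0) (XT.nd (nat_lit 156) (nat_lit 76) (nat_lit 0) (XT.nd (nat_lit 78) (nat_lit 228) (nat_lit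 0) (XT.lf (nat_lit 152) (nat_lit 3692737338) (nat_lit 0) (nat_lit 5955866590) (nat_lit 76) (nat_lit 5955866590) (nat_lit 127) (nat_lit 1) (nat_lit 125) (nat_lit 1) (nat_lit 126) (nat_lit 1) (nat_lit 272) (nat_lit 431) (nat_lit 317)) (XT.lf (nat_lit 228) (nat_lit 14305303646) (nat_lit 0) (nat_lit 571165458) (nat_lit 152) (nat_lit 571165458) (nat_lit 125) (nat_lit 1) (nat_lit 122) (nat_lit 1) (nat_lit 124) (nat_lit 1) (nat_lit 273) (nat_lit 431) (nat_lit 316))) (XT.nd (nat_lit 78) (nat_lit 76) (nat_lit 0) (XT.lf (nat_lit 76) (nat_lit 4693041978) (nat_lit 0) (nat_lit 5904123459) (nat_lit 228) (nat_lit 4693041978) (nat_lit 123) (nat_lit 1) (nat_lit 122) (nat_lit 1) (nat_lit 125) (nat_lit 1) (nat_lit 274) (nat_lit 431) (nat_lit 315)) (XT.lf (nat_lit 152) (nat_lit 4552258948) (nat_lit 0) (nat_lit 5291710324) (nat_lit 76) (nat_lit 5291710324) (nat_lit 123) (nat_lit 1) (nat_lit 121) (nat_lit 1) (nat_lit 122)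 (nat_lit 1) (nat_lit 275) (nat_lit 431) (nat_lit 314)))) (XT.nd (nat_lit 156) (nat_lit 228) (nat_lit 0) (XT.nd (nat_lit 78) (nat_lit 0) (nat_lit 0) (XT.lf (nat_lit 228) (nat_lit 14800207204) (nat_lit 0) (nat_lit 92012441) (nat_lit 152) (nat_lit 92012441) (nat_lit 121) (nat_lit 1) (nat_lit 118) (nat_lit 1) (nat_lit 120) (nat_lit 1) (nat_lit 276) (nat_lit 431) (nat_lit 313)) (XT.lf (nat_lit 76) (nat_lit 4996634692) (nat_lit 0) (nat_lit 4838383686) (nat_lit 228) (nat_lit 4996634692) (nat_lit 119) (nat_lit 1) (nat_lit 118) (nat_lit 1) (nat_lit 121) (nat_lit 1) (nat_lit 277) (nat_lit 431) (nat_lit 312))) (XT.nd (nat_lit 78) (nat_lit 152) (nat_lit 0) (XT.lf (nat_lit 152) (nat_lit 5278904330) (nat_lit 0) (nat_lit 4701616084) (nat_lit 76) (nat_lit 4701616084) (nat_lit 119) (nat_lit 1) (nat_lit 117) (nat_lit 1) (nat_lit 118) (nat_lit 1) (nat_lit 278) (nat_lit 431) (nat_lit 311)) (XT.nd (nat_lit 78) (nat_lit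 152) (nat_lit 0) (XT.lf (nat_lit 0) (nat_lit 324792249) (nat_lit 0) (nat_lit 13885867958) (nat_lit 152) (nat_lit 324792249) (nat_lit 117) (nat_lit 3) (nat_lit 117) (nat_lit 1) (nat_lit 119) (nat_lit 1) (nat_lit 279) (nat_lit 431) (nat_lit 310)) (XT.lf (nat_lit 76) (nat_lit 5242287615) (nat_lit 0) (nat_lit 3903352367) (nat_lit 152) (nat_lit 5242287615) (nat_lit 116) (nat_lit 1) (nat_lit 115) (nat_lit 1) (nat_lit 117) (nat_lit 1) (nat_lit 280) (nat_lit 431) (nat_lit 309)))))) (XT.nd (nat_lit 390) (nat_lit 456) (nat_lit 0) (XT.nd (nat_lit 156) (nat_lit 228) (nat_lit 0) (XT.nd (nat_lit 78) (nat_lit 0) (nat_lit 0) (XT.lf (nat_lit 152) (nat_lit 5888569403) (nat_lit 0) (nat_lit 4177324995) (nat_lit 76) (nat_lit 4177324995) (nat_lit 116) (nat_lit 1) (nat_lit 114) (nat_lit 1) (nat_lit 115) (nat_lit 1) (nat_lit 281) (nat_lit 431) (nat_lit 308)) (XT.lf (nat_lit 0) (nat_lit 684062577) (nat_lit 0) (nat_lit 12732902700)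 (nat_lit 152) (nat_lit 684062577) (nat_lit 114) (nat_lit 3) (nat_lit 114) (nat_lit 1) (nat_lit 116) (nat_lit 1) (nat_lit 282) (nat_lit 431) (nat_lit 307))) (XT.nd (nat_lit 78) (nat_lit 76) (nat_lit 0) (XT.lf (nat_lit 76) (nat_lit 5437163295) (nat_lit 0) (nat_lit 3084108244) (nat_lit 152) (nat_lit 5437163295) (nat_lit 113) (nat_lit 1) (nat_lit 112) (nat_lit 1) (nat_lit 114) (nat_lit 1) (nat_lit 283) (nat_lit 431) (nat_lit 306)) (XT.nd (nat_lit 78) (nat_lit 0) (nat_lit 0) (XT.lf (nat_lit 152) (nat_lit 6395346070) (nat_lit 0) (nat_lit 3711499153) (nat_lit 76) (nat_lit 3711499153) (nat_lit 113) (nat_lit 1) (nat_lit 111) (nat_lit 1) (nat_lit 112) (nat_lit 1) (nat_lit 284) (nat_lit 431) (nat_lit 305)) (XT.lf (nat_lit 0) (nat_lit 991750517) (nat_lit 0) (nat_lit 11696988909) (nat_lit 152) (nat_lit 991750517) (nat_lit 111) (nat_lit 3) (nat_lit 111) (nat_lit 1) (nat_lit 113) (nat_lit 1) (nat_lit 285) (nat_lit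 431) (nat_lit 304))))) (XT.nd (nat_lit 156) (nat_lit 228) (nat_lit 0) (XT.nd (nat_lit 78) (nat_lit 76) (nat_lit 0) (XT.lf (nat_lit 76) (nat_lit 5587605134) (nat_lit 0) (nat_lit 2367404038) (nat_lit 152) (nat_lit 5587605134) (nat_lit 110) (nat_lit 1) (nat_lit 109) (nat_lit 1) (nat_lit 111) (nat_lit 1) (nat_lit 286) (nat_lit 431) (nat_lit 303)) (XT.lf (nat_lit 152) (nat_lit 6811724310) (nat_lit 0) (nat_lit 3297618926) (nat_lit 76) (nat_lit 3297618926) (nat_lit 110) (nat_lit 1) (nat_lit 108) (nat_lit 1) (nat_lit 109) (nat_lit 1) (nat_lit 287) (nat_lit 431) (nat_lit 302))) (XT.nd (nat_lit 78) (nat_lit 228) (nat_lit 0) (XT.lf (nat_lit 0) (nat_lit 1253943681) (nat_lit 0) (nat_lit 10765409337) (nat_lit 152) (nat_lit 1253943681) (nat_lit 108) (nat_lit 3) (nat_lit 108) (nat_lit 1) (nat_lit 110) (nat_lit 1) (nat_lit 288) (nat_lit 431) (nat_lit 301)) (XT.nd (nat_lit 78) (nat_lit 76) (nat_lit 0) (XT.lf (nat_lit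 76) (nat_lit 5699229323) (nat_lit 0) (nat_lit 1741479483) (nat_lit 152) (nat_lit 5699229323) (nat_lit 107) (nat_lit 1) (nat_lit 106) (nat_lit 1) (nat_lit 108) (nat_lit 1) (nat_lit 289) (nat_lit 431) (nat_lit 300)) (XT.lf (nat_lit 152) (nat_lit 7148771698) (nat_lit 0) (nat_lit 2929891704) (nat_lit 76) (nat_lit 2929891704) (nat_lit 107) (nat_lit 1) (nat_lit 105) (nat_lit 1) (nat_lit 106) (nat_lit 1) (nat_lit 290) (nat_lit 431) (nat_lit 299))))))))
noncomputable def ec483 : XT := (XT.nd (nat_lit 1482) (nat_lit 1444) (nat_lit 0) (XT.nd (nat_lit 702) (nat_lit 684) (nat_lit 0) (XT.nd (nat_lit 312) (nat_lit 456) (nat_lit 0) (XT.nd (nat_lit 156) (nat_lit 76) (nat_lit 0) (XT.nd (nat_lit 78) (nat_lit 152) (nat_lit 0) (XT.lf (nat_lit 0) (nat_lit 1476041060) (nat_lit 0) (nat_lit 9926855102) (nat_lit 152) (nat_lit 1476041060) (nat_lit 105) (nat_lit 3) (nat_lit 105) (nat_lit 1) (nat_lit 107) (nat_lit 1) (nat_lit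 291) (nat_lit 431) (nat_lit 298)) (XT.lf (nat_lit 76) (nat_lit 5777006517) (nat_lit 0) (nat_lit 1195895226) (nat_lit 152) (nat_lit 5777006517) (nat_lit 104) (nat_lit 1) (nat_lit 103) (nat_lit 1) (nat_lit 105) (nat_lit 1) (nat_lit 292) (nat_lit 431) (nat_lit 297))) (XT.nd (nat_lit 78) (nat_lit 0) (nat_lit 0) (XT.lf (nat_lit 152) (nat_lit 7416292881) (nat_lit 0) (nat_lit 2603170831) (nat_lit 76) (nat_lit 2603170831) (nat_lit 104) (nat_lit 1) (nat_lit 102) (nat_lit 1) (nat_lit 103) (nat_lit 1) (nat_lit 293) (nat_lit 431) (nat_lit 296)) (XT.lf (nat_lit 0) (nat_lit 1662830103) (nat_lit 0) (nat_lit 9171268924) (nat_lit 152) (nat_lit 1662830103) (nat_lit 102) (nat_lit 3) (nat_lit 102) (nat_lit 1) (nat_lit 104) (nat_lit 1) (nat_lit 294) (nat_lit 431) (nat_lit 295)))) (XT.nd (nat_lit 156) (nat_lit 228) (nat_lit 0) (XT.nd (nat_lit 78) (nat_lit 76) (nat_lit 0) (XT.lf (nat_lit 76) (nat_lit 5825334379) (nat_lit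 0) (nat_lit 721385245) (nat_lit 152) (nat_lit 5825334379) (nat_lit 101) (nat_lit 1) (nat_lit 100) (nat_lit 1) (nat_lit 102) (nat_lit 1) (nat_lit 295) (nat_lit 431) (nat_lit 294)) (XT.lf (nat_lit 152) (nat_lit 7622971255) (nat_lit 0) (nat_lit 2312883567) (nat_lit 76) (nat_lit 2312883567) (nat_lit 101) (nat_lit 1) (nat_lit 99) (nat_lit 1) (nat_lit 100) (nat_lit 1) (nat_lit 296) (nat_lit 431) (nat_lit 293))) (XT.nd (nat_lit 78) (nat_lit 228) (nat_lit 0) (XT.lf (nat_lit 0) (nat_lit 1818555184) (nat_lit 0) (nat_lit 8489705826) (nat_lit 152) (nat_lit 1818555184) (nat_lit 99) (nat_lit 3) (nat_lit 99) (nat_lit 1) (nat_lit 101) (nat_lit 1) (nat_lit 297) (nat_lit 431) (nat_lit 292)) (XT.nd (nat_lit 78) (nat_lit 76) (nat_lit 0) (XT.lf (nat_lit 76) (nat_lit 5848102022) (nat_lit 0) (nat_lit 309725744) (nat_lit 152) (nat_lit 5848102022) (nat_lit 98) (nat_lit 1) (nat_lit 97) (nat_lit 1) (nat_lit 99) (nat_lit 1) (nat_lit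 298) (nat_lit 431) (nat_lit 291)) (XT.lf (nat_lit 152) (nat_lit 7776494806) (nat_lit 0) (nat_lit 2054967092) (nat_lit 76) (nat_lit 2054967092) (nat_lit 98) (nat_lit 1) (nat_lit 96) (nat_lit 1) (nat_lit 97) (nat_lit 1) (nat_lit 299) (nat_lit 431) (nat_lit 290)))))) (XT.nd (nat_lit 390) (nat_lit 380) (nat_lit 0) (XT.nd (nat_lit 156) (nat_lit 228) (nat_lit 0) (XT.nd (nat_lit 78) (nat_lit 76) (nat_lit 0) (XT.lf (nat_lit 0) (nat_lit 1946978429) (nat_lit 0) (nat_lit 7874209370) (nat_lit 152) (nat_lit 1946978429) (nat_lit 96) (nat_lit 3) (nat_lit 96) (nat_lit 1) (nat_lit 98) (nat_lit 1) (nat_lit 300) (nat_lit 431) (nat_lit 289)) (XT.lf (nat_lit 76) (nat_lit 47304410) (nat_lit 0) (nat_lit 5801897556) (nat_lit 76) (nat_lit 5801897556) (nat_lit 96) (nat_lit 3) (nat_lit 95) (nat_lit 1) (nat_lit 96) (nat_lit 1) (nat_lit 301) (nat_lit 431) (nat_lit 288))) (XT.nd (nat_lit 78) (nat_lit 76) (nat_lit 0) (XT.lf (nat_lit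 152) (nat_lit 7883667903) (nat_lit 0) (nat_lit 1825811646) (nat_lit 76) (nat_lit 1825811646) (nat_lit 95) (nat_lit 1) (nat_lit 93) (nat_lit 1) (nat_lit 94) (nat_lit 1) (nat_lit 302) (nat_lit 431) (nat_lit 287)) (XT.nd (nat_lit 78) (nat_lit 76) (nat_lit 0) (XT.lf (nat_lit 0) (nat_lit 2051433760) (nat_lit 0) (nat_lit 7317701681) (nat_lit 152) (nat_lit 2051433760) (nat_lit 93) (nat_lit 3) (nat_lit 93) (nat_lit 1) (nat_lit 95) (nat_lit 1) (nat_lit 303) (nat_lit 431) (nat_lit 286)) (XT.lf (nat_lit 76) (nat_lit 360445365) (nat_lit 0) (nat_lit 5473326841) (nat_lit 76) (nat_lit 5473326841) (nat_lit 93) (nat_lit 3) (nat_lit 92) (nat_lit 1) (nat_lit 93) (nat_lit 1) (nat_lit 304) (nat_lit 431) (nat_lit 285))))) (XT.nd (nat_lit 156) (nat_lit 228) (nat_lit 0) (XT.nd (nat_lit 78) (nat_lit 0) (nat_lit 0) (XT.lf (nat_lit 152) (nat_lit 7950510599) (nat_lit 0) (nat_lit 1622209999) (nat_lit 76) (nat_lit 1622209999) (nat_lit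 92) (nat_lit 1) (nat_lit 90) (nat_lit 1) (nat_lit 91) (nat_lit 1) (nat_lit 305) (nat_lit 431) (nat_lit 284)) (XT.lf (nat_lit 0) (nat_lit 2134874892) (nat_lit 0) (nat_lit 6813885730) (nat_lit 152) (nat_lit 2134874892) (nat_lit 90) (nat_lit 3) (nat_lit 90) (nat_lit 1) (nat_lit 92) (nat_lit 1) (nat_lit 306) (nat_lit 431) (nat_lit 283))) (XT.nd (nat_lit 78) (nat_lit 152) (nat_lit 0) (XT.lf (nat_lit 76) (nat_lit 629392795) (nat_lit 0) (nat_lit 5172121765) (nat_lit 76) (nat_lit 5172121765) (nat_lit 90) (nat_lit 3) (nat_lit 89) (nat_lit 1) (nat_lit 90) (nat_lit 1) (nat_lit 307) (nat_lit 431) (nat_lit 282)) (XT.nd (nat_lit 78) (nat_lit 0) (nat_lit 0) (XT.lf (nat_lit 152) (nat_lit 7982346833) (nat_lit 0) (nat_lit 1441312573) (nat_lit 76) (nat_lit 1441312573) (nat_lit 89) (nat_lit 1) (nat_lit 87) (nat_lit 1) (nat_lit 88) (nat_lit 1) (nat_lit 308) (nat_lit 431) (nat_lit 281)) (XT.lf (nat_lit 0) (nat_lit 2199917978)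 (nat_lit 0) (nat_lit 6357158505) (nat_lit 152) (nat_lit 2199917978) (nat_lit 87) (nat_lit 3) (nat_lit 87) (nat_lit 1) (nat_lit 89) (nat_lit 1) (nat_lit 309) (nat_lit 431) (nat_lit 280))))))) (XT.nd (nat_lit 702) (nat_lit 760) (nat_lit 0) (XT.nd (nat_lit 312) (nat_lit 380) (nat_lit 0) (XT.nd (nat_lit 156) (nat_lit 76) (nat_lit 0) (XT.nd (nat_lit 78) (nat_lit 152) (nat_lit 0) (XT.lf (nat_lit 76) (nat_lit 859344975) (nat_lit 0) (nat_lit 4895500826) (nat_lit 76) (nat_lit 4895500826) (nat_lit 87) (nat_lit 3) (nat_lit 86) (nat_lit 1) (nat_lit 87) (nat_lit 1) (nat_lit 310) (nat_lit 431) (nat_lit 279)) (XT.lf (nat_lit 152) (nat_lit 7983882785) (nat_lit 0) (nat_lit 1280587553) (nat_lit 76) (nat_lit 1280587553) (nat_lit 86) (nat_lit 1) (nat_lit 84) (nat_lit 1) (nat_lit 85) (nat_lit 1) (nat_lit 311) (nat_lit 431) (nat_lit 278))) (XT.nd (nat_lit 78) (nat_lit 76) (nat_lit 0) (XT.lf (nat_lit 0) (nat_lit 2248879492)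 (nat_lit 0) (nat_lit 5942533855) (nat_lit 152) (nat_lit 2248879492) (nat_lit 84) (nat_lit 3) (nat_lit 84) (nat_lit 1) (nat_lit 86) (nat_lit 1) (nat_lit 312) (nat_lit 431) (nat_lit 277)) (XT.lf (nat_lit 76) (nat_lit 1054912635) (nat_lit 0) (nat_lit 4640984833) (nat_lit 76) (nat_lit 4640984833) (nat_lit 84) (nat_lit 3) (nat_lit 83) (nat_lit 1) (nat_lit 84) (nat_lit 1) (nat_lit 313) (nat_lit 431) (nat_lit 276)))) (XT.nd (nat_lit 156) (nat_lit 228) (nat_lit 0) (XT.nd (nat_lit 78) (nat_lit 0) (nat_lit 0) (XT.lf (nat_lit 152) (nat_lit 7959276458) (nat_lit 0) (nat_lit 1137785455) (nat_lit 76) (nat_lit 1137785455) (nat_lit 83) (nat_lit 1) (nat_lit 81) (nat_lit 1) (nat_lit 82) (nat_lit 1) (nat_lit 314) (nat_lit 431) (nat_lit 275)) (XT.lf (nat_lit 0) (nat_lit 2283809876) (nat_lit 0) (nat_lit 5565573937) (nat_lit 152) (nat_lit 2283809876) (nat_lit 81) (nat_lit 3) (nat_lit 81) (nat_lit 1) (nat_lit 83) (nat_lit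 1) (nat_lit 315) (nat_lit 431) (nat_lit 274))) (XT.nd (nat_lit 78) (nat_lit 152) (nat_lit 0) (XT.lf (nat_lit 76) (nat_lit 1220184714) (nat_lit 0) (nat_lit 4406363414) (nat_lit 76) (nat_lit 4406363414) (nat_lit 81) (nat_lit 3) (nat_lit 80) (nat_lit 1) (nat_lit 81) (nat_lit 1) (nat_lit 316) (nat_lit 431) (nat_lit 273)) (XT.nd (nat_lit 78) (nat_lit 0) (nat_lit 0) (XT.lf (nat_lit 152) (nat_lit 7912199492) (nat_lit 0) (nat_lit 1010907640) (nat_lit 76) (nat_lit 1010907640) (nat_lit 80) (nat_lit 1) (nat_lit 78) (nat_lit 1) (nat_lit 79) (nat_lit 1) (nat_lit 317) (nat_lit 431) (nat_lit 272)) (XT.lf (nat_lit 0) (nat_lit 2306523431) (nat_lit 0) (nat_lit 5222328294) (nat_lit 152) (nat_lit 2306523431) (nat_lit 78) (nat_lit 3) (nat_lit 78) (nat_lit 1) (nat_lit 80) (nat_lit 1) (nat_lit 318) (nat_lit 431) (nat_lit 271)))))) (XT.nd (nat_lit 390) (nat_lit 304) (nat_lit 0) (XT.nd (nat_lit 156) (nat_lit 228) (nat_lit 0)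 (XT.nd (nat_lit 78) (nat_lit 152) (nat_lit 0) (XT.lf (nat_lit 76) (nat_lit 1358786761) (nat_lit 0) (nat_lit 4189665269) (nat_lit 76) (nat_lit 4189665269) (nat_lit 78) (nat_lit 3) (nat_lit 77) (nat_lit 1) (nat_lit 78) (nat_lit 1) (nat_lit 319) (nat_lit 431) (nat_lit 270)) (XT.lf (nat_lit 152) (nat_lit 7845892058) (nat_lit 0) (nat_lit 898178344) (nat_lit 76) (nat_lit 898178344) (nat_lit 77) (nat_lit 1) (nat_lit 75) (nat_lit 1) (nat_lit 76) (nat_lit 1) (nat_lit 320) (nat_lit 431) (nat_lit 269))) (XT.nd (nat_lit 78) (nat_lit 228) (nat_lit 0) (XT.lf (nat_lit 0) (nat_lit 2318624871) (nat_lit 0) (nat_lit 4909279725) (nat_lit 152) (nat_lit 2318624871) (nat_lit 75) (nat_lit 3) (nat_lit 75) (nat_lit 1) (nat_lit 77) (nat_lit 1) (nat_lit 321) (nat_lit 431) (nat_lit 268)) (XT.nd (nat_lit 78) (nat_lit 152) (nat_lit 0) (XT.lf (nat_lit 76) (nat_lit 1473932833) (nat_lit 0) (nat_lit 3989131721) (nat_lit 76) (nat_lit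 3989131721) (nat_lit 75) (nat_lit 3) (nat_lit 74) (nat_lit 1) (nat_lit 75) (nat_lit 1) (nat_lit 322) (nat_lit 431) (nat_lit 267)) (XT.lf (nat_lit 152) (nat_lit 7763211618) (nat_lit 0) (nat_lit 798019826) (nat_lit 76) (nat_lit 798019826) (nat_lit 74) (nat_lit 1) (nat_lit 72) (nat_lit 1) (nat_lit 73) (nat_lit 1) (nat_lit 323) (nat_lit 431) (nat_lit 266))))) (XT.nd (nat_lit 156) (nat_lit 228) (nat_lit 0) (XT.nd (nat_lit 78) (nat_lit 76) (nat_lit 0) (XT.lf (nat_lit 0) (nat_lit 2321532901) (nat_lit 0) (nat_lit 4623296185) (nat_lit 152) (nat_lit 2321532901) (nat_lit 72) (nat_lit 3) (nat_lit 72) (nat_lit 1) (nat_lit 74) (nat_lit 1) (nat_lit 324) (nat_lit 431) (nat_lit 265)) (XT.lf (nat_lit 76) (nat_lit 1568471586) (nat_lit 0) (nat_lit 3803193221) (nat_lit 76) (nat_lit 3803193221) (nat_lit 72) (nat_lit 3) (nat_lit 71) (nat_lit 1) (nat_lit 72) (nat_lit 1) (nat_lit 325) (nat_lit 431) (nat_lit 264))) (XT.nd (nat_lit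 78) (nat_lit 76) (nat_lit 0) (XT.lf (nat_lit 152) (nat_lit 7666676220) (nat_lit 0) (nat_lit 709030279) (nat_lit 76) (nat_lit 709030279) (nat_lit 71) (nat_lit 1) (nat_lit 69) (nat_lit 1) (nat_lit 70) (nat_lit 1) (nat_lit 326) (nat_lit 431) (nat_lit 263)) (XT.nd (nat_lit 78) (nat_lit 76) (nat_lit 0) (XT.lf (nat_lit 0) (nat_lit 2316501170) (nat_lit 0) (nat_lit 4361588035) (nat_lit 152) (nat_lit 2316501170) (nat_lit 69) (nat_lit 3) (nat_lit 69) (nat_lit 1) (nat_lit 71) (nat_lit 1) (nat_lit 327) (nat_lit 431) (nat_lit 262)) (XT.lf (nat_lit 76) (nat_lit 1644927228) (nat_lit 0) (nat_lit 3630448456) (nat_lit 76) (nat_lit 3630448456) (nat_lit 69) (nat_lit 3) (nat_lit 68) (nat_lit 1) (nat_lit 69) (nat_lit 1) (nat_lit 328) (nat_lit 431) (nat_lit 261))))))))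
noncomputable def ec484 : XT := (XT.nd (nat_lit 1404) (nat_lit 1520) (nat_lit 0) (XT.nd (nat_lit 702) (nat_lit 684) (nat_lit 0) (XT.nd (nat_lit 312) (nat_lit 304) (nat_lit 0) (XT.nd (nat_lit 156) (nat_lit 228) (nat_lit 0) (XT.nd (nat_lit 78) (nat_lit 0) (nat_lit 0) (XT.lf (nat_lit 152) (nat_lit 7558502957) (nat_lit 0) (nat_lit 629964219) (nat_lit 76) (nat_lit 629964219) (nat_lit 68) (nat_lit 1) (nat_lit 66) (nat_lit 1) (nat_lit 67) (nat_lit 1) (nat_lit 329) (nat_lit 431) (nat_lit 260)) (XT.lf (nat_lit 0) (nat_lit 2304636875) (nat_lit 0) (nat_lit 4121670067) (nat_lit 152) (nat_lit 2304636875) (nat_lit 66) (nat_lit 3) (nat_lit 66) (nat_lit 1) (nat_lit 68) (nat_lit 1) (nat_lit 330) (nat_lit 431) (nat_lit 259))) (XT.nd (nat_lit 78) (nat_lit 152) (nat_lit 0) (XT.lf (nat_lit 76) (nat_lit 1705535894) (nat_lit 0) (nat_lit 3469645789) (nat_lit 76) (nat_lit 3469645789) (nat_lit 66) (nat_lit 3) (nat_lit 65) (nat_lit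 1) (nat_lit 66) (nat_lit 1) (nat_lit 331) (nat_lit 431) (nat_lit 258)) (XT.lf (nat_lit 152) (nat_lit 7440642109) (nat_lit 0) (nat_lit 559715050) (nat_lit 76) (nat_lit 559715050) (nat_lit 65) (nat_lit 1) (nat_lit 63) (nat_lit 1) (nat_lit 64) (nat_lit 1) (nat_lit 332) (nat_lit 431) (nat_lit 257)))) (XT.nd (nat_lit 156) (nat_lit 228) (nat_lit 0) (XT.nd (nat_lit 78) (nat_lit 76) (nat_lit 0) (XT.lf (nat_lit 0) (nat_lit 2286917285) (nat_lit 0) (nat_lit 3901327741) (nat_lit 152) (nat_lit 2286917285) (nat_lit 63) (nat_lit 3) (nat_lit 63) (nat_lit 1) (nat_lit 65) (nat_lit 1) (nat_lit 333) (nat_lit 431) (nat_lit 256)) (XT.lf (nat_lit 76) (nat_lit 1752277967) (nat_lit 0) (nat_lit 3319666760) (nat_lit 76) (nat_lit 3319666760) (nat_lit 63) (nat_lit 3) (nat_lit 62) (nat_lit 1) (nat_lit 63) (nat_lit 1) (nat_lit 334) (nat_lit 431) (nat_lit 255))) (XT.nd (nat_lit 78) (nat_lit 76) (nat_lit 0) (XT.lf (nat_lit 152) (nat_lit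 7314807473) (nat_lit 0) (nat_lit 497299572) (nat_lit 76) (nat_lit 497299572) (nat_lit 62) (nat_lit 1) (nat_lit 60) (nat_lit 1) (nat_lit 61) (nat_lit 1) (nat_lit 335) (nat_lit 431) (nat_lit 254)) (XT.nd (nat_lit 78) (nat_lit 76) (nat_lit 0) (XT.lf (nat_lit 0) (nat_lit 2264204417) (nat_lit 0) (nat_lit 3698587197) (nat_lit 152) (nat_lit 2264204417) (nat_lit 60) (nat_lit 3) (nat_lit 60) (nat_lit 1) (nat_lit 62) (nat_lit 1) (nat_lit 336) (nat_lit 431) (nat_lit 253)) (XT.lf (nat_lit 76) (nat_lit 1786906778) (nat_lit 0) (nat_lit 3179511420) (nat_lit 76) (nat_lit 3179511420) (nat_lit 60) (nat_lit 3) (nat_lit 59) (nat_lit 1) (nat_lit 60) (nat_lit 1) (nat_lit 337) (nat_lit 431) (nat_lit 252)))))) (XT.nd (nat_lit 312) (nat_lit 304) (nat_lit 0) (XT.nd (nat_lit 156) (nat_lit 228) (nat_lit 0) (XT.nd (nat_lit 78) (nat_lit 0) (nat_lit 0) (XT.lf (nat_lit 152) (nat_lit 7182503281) (nat_lit 0) (nat_lit 441844229) (nat_lit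 76) (nat_lit 441844229) (nat_lit 59) (nat_lit 1) (nat_lit 57) (nat_lit 1) (nat_lit 58) (nat_lit 1) (nat_lit 338) (nat_lit 431) (nat_lit 251)) (XT.lf (nat_lit 0) (nat_lit 2237258075) (nat_lit 0) (nat_lit 3511688597) (nat_lit 152) (nat_lit 2237258075) (nat_lit 57) (nat_lit 3) (nat_lit 57) (nat_lit 1) (nat_lit 59) (nat_lit 1) (nat_lit 339) (nat_lit 431) (nat_lit 250))) (XT.nd (nat_lit 78) (nat_lit 152) (nat_lit 0) (XT.lf (nat_lit 76) (nat_lit 1810974111) (nat_lit 0) (nat_lit 3048285298) (nat_lit 76) (nat_lit 3048285298) (nat_lit 57) (nat_lit 3) (nat_lit 56) (nat_lit 1) (nat_lit 57) (nat_lit 1) (nat_lit 340) (nat_lit 431) (nat_lit 249)) (XT.lf (nat_lit 152) (nat_lit 7045048111) (nat_lit 0) (nat_lit 392572874) (nat_lit 76) (nat_lit 392572874) (nat_lit 56) (nat_lit 1) (nat_lit 54) (nat_lit 1) (nat_lit 55) (nat_lit 1) (nat_lit 341) (nat_lit 431) (nat_lit 248)))) (XT.nd (nat_lit 156) (nat_lit 228) (nat_lit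 0) (XT.nd (nat_lit 78) (nat_lit 76) (nat_lit 0) (XT.lf (nat_lit 0) (nat_lit 2206747421) (nat_lit 0) (nat_lit 3339062433) (nat_lit 152) (nat_lit 2206747421) (nat_lit 54) (nat_lit 3) (nat_lit 54) (nat_lit 1) (nat_lit 56) (nat_lit 1) (nat_lit 342) (nat_lit 431) (nat_lit 247)) (XT.lf (nat_lit 76) (nat_lit 1825852850) (nat_lit 0) (nat_lit 2925187814) (nat_lit 76) (nat_lit 2925187814) (nat_lit 54) (nat_lit 3) (nat_lit 53) (nat_lit 1) (nat_lit 54) (nat_lit 1) (nat_lit 343) (nat_lit 431) (nat_lit 246))) (XT.nd (nat_lit 78) (nat_lit 76) (nat_lit 0) (XT.lf (nat_lit 152) (nat_lit 6903596109) (nat_lit 0) (nat_lit 348795914) (nat_lit 76) (nat_lit 348795914) (nat_lit 53) (nat_lit 1) (nat_lit 51) (nat_lit 1) (nat_lit 52) (nat_lit 1) (nat_lit 344) (nat_lit 431) (nat_lit 245)) (XT.nd (nat_lit 78) (nat_lit 76) (nat_lit 0) (XT.lf (nat_lit 0) (nat_lit 2173261257) (nat_lit 0) (nat_lit 3179308480) (nat_lit 152) (nat_lit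 2173261257) (nat_lit 51) (nat_lit 3) (nat_lit 51) (nat_lit 1) (nat_lit 53) (nat_lit 1) (nat_lit 345) (nat_lit 431) (nat_lit 244)) (XT.lf (nat_lit 76) (nat_lit 1832757102) (nat_lit 0) (nat_lit 2809501979) (nat_lit 76) (nat_lit 2809501979) (nat_lit 51) (nat_lit 3) (nat_lit 50) (nat_lit 1) (nat_lit 51) (nat_lit 1) (nat_lit 346) (nat_lit 431) (nat_lit 243))))))) (XT.nd (nat_lit 702) (nat_lit 836) (nat_lit 0) (XT.nd (nat_lit 312) (nat_lit 304) (nat_lit 0) (XT.nd (nat_lit 156) (nat_lit 228) (nat_lit 0) (XT.nd (nat_lit 78) (nat_lit 0) (nat_lit 0) (XT.lf (nat_lit 152) (nat_lit 6759155834) (nat_lit 0) (nat_lit 309900652) (nat_lit 76) (nat_lit 309900652) (nat_lit 50) (nat_lit 1) (nat_lit 48) (nat_lit 1) (nat_lit 49) (nat_lit 1) (nat_lit 347) (nat_lit 431) (nat_lit 242)) (XT.lf (nat_lit 0) (nat_lit 2137317155) (nat_lit 0) (nat_lit 3031177082) (nat_lit 152) (nat_lit 2137317155) (nat_lit 48) (nat_lit 3) (nat_lit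 48) (nat_lit 1) (nat_lit 50) (nat_lit 1) (nat_lit 348) (nat_lit 431) (nat_lit 241))) (XT.nd (nat_lit 78) (nat_lit 152) (nat_lit 0) (XT.lf (nat_lit 76) (nat_lit 1832760068) (nat_lit 0) (nat_lit 2700585239) (nat_lit 76) (nat_lit 2700585239) (nat_lit 48) (nat_lit 3) (nat_lit 47) (nat_lit 1) (nat_lit 48) (nat_lit 1) (nat_lit 349) (nat_lit 431) (nat_lit 240)) (XT.lf (nat_lit 152) (nat_lit 6612606984) (nat_lit 0) (nat_lit 275342715) (nat_lit 76) (nat_lit 275342715) (nat_lit 47) (nat_lit 1) (nat_lit 45) (nat_lit 1) (nat_lit 46) (nat_lit 1) (nat_lit 350) (nat_lit 431) (nat_lit 239)))) (XT.nd (nat_lit 156) (nat_lit 228) (nat_lit 0) (XT.nd (nat_lit 78) (nat_lit 76) (nat_lit 0) (XT.lf (nat_lit 0) (nat_lit 2099369556) (nat_lit 0) (nat_lit 2893552524) (nat_lit 152) (nat_lit 2099369556) (nat_lit 45) (nat_lit 3) (nat_lit 45) (nat_lit 1) (nat_lit 47) (nat_lit 1) (nat_lit 351) (nat_lit 431) (nat_lit 238)) (XT.lf (nat_lit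 76) (nat_lit 1826809912) (nat_lit 0) (nat_lit 2597861337) (nat_lit 76) (nat_lit 2597861337) (nat_lit 45) (nat_lit 3) (nat_lit 44) (nat_lit 1) (nat_lit 45) (nat_lit 1) (nat_lit 352) (nat_lit 431) (nat_lit 237))) (XT.nd (nat_lit 78) (nat_lit 76) (nat_lit 0) (XT.lf (nat_lit 152) (nat_lit 6464715241) (nat_lit 0) (nat_lit 244638436) (nat_lit 76) (nat_lit 244638436) (nat_lit 44) (nat_lit 1) (nat_lit 42) (nat_lit 1) (nat_lit 43) (nat_lit 1) (nat_lit 353) (nat_lit 431) (nat_lit 236)) (XT.nd (nat_lit 78) (nat_lit 76) (nat_lit 0) (XT.lf (nat_lit 0) (nat_lit 2059816977) (nat_lit 0) (nat_lit 2765438258) (nat_lit 152) (nat_lit 2059816977) (nat_lit 42) (nat_lit 3) (nat_lit 42) (nat_lit 1) (nat_lit 44) (nat_lit 1) (nat_lit 354) (nat_lit 431) (nat_lit 235)) (XT.lf (nat_lit 76) (nat_lit 1815743868) (nat_lit 0) (nat_lit 2500813073) (nat_lit 76) (nat_lit 2500813073) (nat_lit 42) (nat_lit 3) (nat_lit 41) (nat_lit 1) (nat_lit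 42) (nat_lit 1) (nat_lit 355) (nat_lit 431) (nat_lit 234)))))) (XT.nd (nat_lit 390) (nat_lit 456) (nat_lit 0) (XT.nd (nat_lit 156) (nat_lit 228) (nat_lit 0) (XT.nd (nat_lit 78) (nat_lit 0) (nat_lit 0) (XT.lf (nat_lit 152) (nat_lit 6316145452) (nat_lit 0) (nat_lit 217358082) (nat_lit 76) (nat_lit 217358082) (nat_lit 41) (nat_lit 1) (nat_lit 39) (nat_lit 1) (nat_lit 40) (nat_lit 1) (nat_lit 356) (nat_lit 431) (nat_lit 233)) (XT.lf (nat_lit 0) (nat_lit 2019008393) (nat_lit 0) (nat_lit 2645943761) (nat_lit 152) (nat_lit 2019008393) (nat_lit 39) (nat_lit 3) (nat_lit 39) (nat_lit 1) (nat_lit 41) (nat_lit 1) (nat_lit 357) (nat_lit 431) (nat_lit 232))) (XT.nd (nat_lit 78) (nat_lit 152) (nat_lit 0) (XT.lf (nat_lit 76) (nat_lit 1800300756) (nat_lit 0) (nat_lit 2408975871) (nat_lit 76) (nat_lit 2408975871) (nat_lit 39) (nat_lit 3) (nat_lit 38) (nat_lit 1) (nat_lit 39) (nat_lit 1) (nat_lit 358) (nat_lit 431) (nat_lit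 231)) (XT.nd (nat_lit 78) (nat_lit 0) (nat_lit 0) (XT.lf (nat_lit 152) (nat_lit 6167473322) (nat_lit 0) (nat_lit 193119841) (nat_lit 76) (nat_lit 193119841) (nat_lit 38) (nat_lit 1) (nat_lit 36) (nat_lit 1) (nat_lit 37) (nat_lit 1) (nat_lit 359) (nat_lit 431) (nat_lit 230)) (XT.lf (nat_lit 0) (nat_lit 1977248910) (nat_lit 0) (nat_lit 2534272865) (nat_lit 152) (nat_lit 1977248910) (nat_lit 36) (nat_lit 3) (nat_lit 36) (nat_lit 1) (nat_lit 38) (nat_lit 1) (nat_lit 360) (nat_lit 431) (nat_lit 229))))) (XT.nd (nat_lit 156) (nat_lit 228) (nat_lit 0) (XT.nd (nat_lit 78) (nat_lit 152) (nat_lit 0) (XT.lf (nat_lit 76) (nat_lit 1781132105) (nat_lit 0) (nat_lit 2321932062) (nat_lit 76) (nat_lit 2321932062) (nat_lit 36) (nat_lit 3) (nat_lit 35) (nat_lit 1) (nat_lit 36) (nat_lit 1) (nat_lit 361) (nat_lit 431) (nat_lit 228)) (XT.lf (nat_lit 152) (nat_lit 6019195791) (nat_lit 0) (nat_lit 171584477) (nat_lit 76) (nat_lit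 171584477) (nat_lit 35) (nat_lit 1) (nat_lit 33) (nat_lit 1) (nat_lit 34) (nat_lit 1) (nat_lit 362) (nat_lit 431) (nat_lit 227))) (XT.nd (nat_lit 78) (nat_lit 228) (nat_lit 0) (XT.lf (nat_lit 0) (nat_lit 1934804809) (nat_lit 0) (nat_lit 2429713378) (nat_lit 152) (nat_lit 1934804809) (nat_lit 33) (nat_lit 3) (nat_lit 33) (nat_lit 1) (nat_lit 35) (nat_lit 1) (nat_lit 363) (nat_lit 431) (nat_lit 226)) (XT.nd (nat_lit 78) (nat_lit 152) (nat_lit 0) (XT.lf (nat_lit 76) (nat_lit 1758812031) (nat_lit 0) (nat_lit 2239305787) (nat_lit 76) (nat_lit 2239305787) (nat_lit 33) (nat_lit 3) (nat_lit 32) (nat_lit 1) (nat_lit 33) (nat_lit 1) (nat_lit 364) (nat_lit 431) (nat_lit 225)) (XT.lf (nat_lit 152) (nat_lit 5871740244) (nat_lit 0) (nat_lit 152450585) (nat_lit 76) (nat_lit 152450585) (nat_lit 32) (nat_lit 1) (nat_lit 30) (nat_lit 1) (nat_lit 31) (nat_lit 1) (nat_lit 365) (nat_lit 431) (nat_lit 224))))))))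
noncomputable def ec485 : XT := (XT.nd (nat_lit 40794) (nat_lit 0) (nat_lit 13452) (XT.nd (nat_lit 702) (nat_lit 684) (nat_lit 0) (XT.nd (nat_lit 312) (nat_lit 456) (nat_lit 0) (XT.nd (nat_lit 156) (nat_lit 152) (nat_lit 0) (XT.nd (nat_lit 78) (nat_lit 76) (nat_lit 0) (XT.lf (nat_lit 0) (nat_lit 1891908004) (nat_lit 0) (nat_lit 2331627858) (nat_lit 152) (nat_lit 1891908004) (nat_lit 30) (nat_lit 3) (nat_lit 30) (nat_lit 1) (nat_lit 32) (nat_lit 1) (nat_lit 366) (nat_lit 431) (nat_lit 223)) (XT.lf (nat_lit 76) (nat_lit 1733846004) (nat_lit 0) (nat_lit 2160758484) (nat_lit 76) (nat_lit 2160758484) (nat_lit 30) (nat_lit 3) (nat_lit 29) (nat_lit 1) (nat_lit 30) (nat_lit 1) (nat_lit 367) (nat_lit 431) (nat_lit 222))) (XT.nd (nat_lit 78) (nat_lit 0) (nat_lit 0) (XT.lf (nat_lit 152) (nat_lit 5725472674) (nat_lit 0) (nat_lit 135450370) (nat_lit 76) (nat_lit 135450370) (nat_lit 29) (nat_lit 1) (nat_lit 27) (nat_lit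 1) (nat_lit 28) (nat_lit 1) (nat_lit 368) (nat_lit 431) (nat_lit 221)) (XT.lf (nat_lit 0) (nat_lit 1848760021) (nat_lit 0) (nat_lit 2239445416) (nat_lit 152) (nat_lit 1848760021) (nat_lit 27) (nat_lit 3) (nat_lit 27) (nat_lit 1) (nat_lit 29) (nat_lit 1) (nat_lit 369) (nat_lit 431) (nat_lit 220)))) (XT.nd (nat_lit 156) (nat_lit 228) (nat_lit 0) (XT.nd (nat_lit 78) (nat_lit 152) (nat_lit 0) (XT.lf (nat_lit 76) (nat_lit 1706678645) (nat_lit 0) (nat_lit 2085984854) (nat_lit 76) (nat_lit 2085984854) (nat_lit 27) (nat_lit 3) (nat_lit 26) (nat_lit 1) (nat_lit 27) (nat_lit 1) (nat_lit 370) (nat_lit 431) (nat_lit 219)) (XT.lf (nat_lit 152) (nat_lit 5580704934) (nat_lit 0) (nat_lit 120345900) (nat_lit 76) (nat_lit 120345900) (nat_lit 26) (nat_lit 1) (nat_lit 24) (nat_lit 1) (nat_lit 25) (nat_lit 1) (nat_lit 371) (nat_lit 431) (nat_lit 218))) (XT.nd (nat_lit 78) (nat_lit 228) (nat_lit 0) (XT.lf (nat_lit 0) (nat_lit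 1805535511) (nat_lit 0) (nat_lit 2152654424) (nat_lit 152) (nat_lit 1805535511) (nat_lit 24) (nat_lit 3) (nat_lit 24) (nat_lit 1) (nat_lit 26) (nat_lit 1) (nat_lit 372) (nat_lit 431) (nat_lit 217)) (XT.nd (nat_lit 78) (nat_lit 152) (nat_lit 0) (XT.lf (nat_lit 76) (nat_lit 1677700636) (nat_lit 0) (nat_lit 2014709289) (nat_lit 76) (nat_lit 2014709289) (nat_lit 24) (nat_lit 3) (nat_lit 23) (nat_lit 1) (nat_lit 24) (nat_lit 1) (nat_lit 373) (nat_lit 431) (nat_lit 216)) (XT.lf (nat_lit 152) (nat_lit 5437701159) (nat_lit 0) (nat_lit 106925773) (nat_lit 76) (nat_lit 106925773) (nat_lit 23) (nat_lit 1) (nat_lit 21) (nat_lit 1) (nat_lit 22) (nat_lit 1) (nat_lit 374) (nat_lit 431) (nat_lit 215)))))) (XT.nd (nat_lit 390) (nat_lit 380) (nat_lit 0) (XT.nd (nat_lit 156) (nat_lit 228) (nat_lit 0) (XT.nd (nat_lit 78) (nat_lit 76) (nat_lit 0) (XT.lf (nat_lit 0) (nat_lit 1762385381) (nat_lit 0) (nat_lit 2070796039) (nat_lit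 152) (nat_lit 1762385381) (nat_lit 21) (nat_lit 3) (nat_lit 21) (nat_lit 1) (nat_lit 23) (nat_lit 1) (nat_lit 375) (nat_lit 431) (nat_lit 214)) (XT.lf (nat_lit 76) (nat_lit 1647254863) (nat_lit 0) (nat_lit 1946682686) (nat_lit 76) (nat_lit 1946682686) (nat_lit 21) (nat_lit 3) (nat_lit 20) (nat_lit 1) (nat_lit 21) (nat_lit 1) (nat_lit 376) (nat_lit 431) (nat_lit 213))) (XT.nd (nat_lit 78) (nat_lit 76) (nat_lit 0) (XT.lf (nat_lit 152) (nat_lit 5296683464) (nat_lit 0) (nat_lit 95002164) (nat_lit 76) (nat_lit 95002164) (nat_lit 20) (nat_lit 1) (nat_lit 18) (nat_lit 1) (nat_lit 19) (nat_lit 1) (nat_lit 377) (nat_lit 431) (nat_lit 212)) (XT.nd (nat_lit 78) (nat_lit 76) (nat_lit 0) (XT.lf (nat_lit 0) (nat_lit 1719439559) (nat_lit 0) (nat_lit 1993458435) (nat_lit 152) (nat_lit 1719439559) (nat_lit 18) (nat_lit 3) (nat_lit 18) (nat_lit 1) (nat_lit 20) (nat_lit 1) (nat_lit 378) (nat_lit 431) (nat_lit 211)) (XT.lf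 (nat_lit 76) (nat_lit 1615641870) (nat_lit 0) (nat_lit 1881679613) (nat_lit 76) (nat_lit 1881679613) (nat_lit 18) (nat_lit 3) (nat_lit 17) (nat_lit 1) (nat_lit 18) (nat_lit 1) (nat_lit 379) (nat_lit 431) (nat_lit 210))))) (XT.nd (nat_lit 156) (nat_lit 228) (nat_lit 0) (XT.nd (nat_lit 78) (nat_lit 0) (nat_lit 0) (XT.lf (nat_lit 152) (nat_lit 5157836999) (nat_lit 0) (nat_lit 84408193) (nat_lit 76) (nat_lit 84408193) (nat_lit 17) (nat_lit 1) (nat_lit 15) (nat_lit 1) (nat_lit 16) (nat_lit 1) (nat_lit 380) (nat_lit 431) (nat_lit 209)) (XT.lf (nat_lit 0) (nat_lit 1676809462) (nat_lit 0) (nat_lit 1920271684) (nat_lit 152) (nat_lit 1676809462) (nat_lit 15) (nat_lit 3) (nat_lit 15) (nat_lit 1) (nat_lit 17) (nat_lit 1) (nat_lit 381) (nat_lit 431) (nat_lit 208))) (XT.nd (nat_lit 78) (nat_lit 152) (nat_lit 0) (XT.lf (nat_lit 76) (nat_lit 1583124700) (nat_lit 0) (nat_lit 1819495789) (nat_lit 76) (nat_lit 1819495789)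 (nat_lit 15) (nat_lit 3) (nat_lit 14) (nat_lit 1) (nat_lit 15) (nat_lit 1) (nat_lit 382) (nat_lit 431) (nat_lit 207)) (XT.nd (nat_lit 78) (nat_lit 0) (nat_lit 0) (XT.lf (nat_lit 152) (nat_lit 5021314421) (nat_lit 0) (nat_lit 74995586) (nat_lit 76) (nat_lit 74995586) (nat_lit 14) (nat_lit 1) (nat_lit 12) (nat_lit 1) (nat_lit 13) (nat_lit 1) (nat_lit 383) (nat_lit 431) (nat_lit 206)) (XT.lf (nat_lit 0) (nat_lit 1634590173) (nat_lit 0) (nat_lit 1850903204) (nat_lit 152) (nat_lit 1634590173) (nat_lit 12) (nat_lit 3) (nat_lit 12) (nat_lit 1) (nat_lit 14) (nat_lit 1) (nat_lit 384) (nat_lit 431) (nat_lit 205))))))) (XT.nd (nat_lit 702) (nat_lit 1900) (nat_lit 0) (XT.nd (nat_lit 312) (nat_lit 912) (nat_lit 0) (XT.nd (nat_lit 156) (nat_lit 380) (nat_lit 0) (XT.nd (nat_lit 78) (nat_lit 304) (nat_lit 0) (XT.lf (nat_lit 76) (nat_lit 4294871101) (nat_lit 0) (nat_lit 22649454831) (nat_lit 380) (nat_lit 4294871101)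 (nat_lit 236) (nat_lit 1) (nat_lit 235) (nat_lit 1) (nat_lit 240) (nat_lit 1) (nat_lit 208) (nat_lit 432) (nat_lit 380)) (XT.lf (nat_lit 380) (nat_lit 1712613496) (nat_lit 0) (nat_lit 14583276485) (nat_lit 304) (nat_lit 14583276485) (nat_lit 236) (nat_lit 1) (nat_lit 231) (nat_lit 1) (nat_lit 235) (nat_lit 1) (nat_lit 209) (nat_lit 432) (nat_lit 379))) (XT.nd (nat_lit 78) (nat_lit 0) (nat_lit 0) (XT.lf (nat_lit 380) (nat_lit 25593908831) (nat_lit 0) (nat_lit 2466166043) (nat_lit 304) (nat_lit 2466166043) (nat_lit 231) (nat_lit 1) (nat_lit 226) (nat_lit 1) (nat_lit 230) (nat_lit 1) (nat_lit 210) (nat_lit 432) (nat_lit 378)) (XT.lf (nat_lit 76) (nat_lit 9289210268) (nat_lit 0) (nat_lit 11597313994) (nat_lit 380) (nat_lit 9289210268) (nat_lit 227) (nat_lit 1) (nat_lit 226) (nat_lit 1) (nat_lit 231) (nat_lit 1) (nat_lit 211) (nat_lit 432) (nat_lit 377)))) (XT.nd (nat_lit 156) (nat_lit 608) (nat_lit 0) (XT.nd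 (nat_lit 78) (nat_lit 0) (nat_lit 0) (XT.lf (nat_lit 380) (nat_lit 11653567697) (nat_lit 0) (nat_lit 9089278873) (nat_lit 304) (nat_lit 9089278873) (nat_lit 227) (nat_lit 1) (nat_lit 222) (nat_lit 1) (nat_lit 226) (nat_lit 1) (nat_lit 212) (nat_lit 432) (nat_lit 376)) (XT.lf (nat_lit 76) (nat_lit 2407513870) (nat_lit 0) (nat_lit 24680136008) (nat_lit 380) (nat_lit 2407513870) (nat_lit 223) (nat_lit 1) (nat_lit 222) (nat_lit 1) (nat_lit 227) (nat_lit 1) (nat_lit 213) (nat_lit 432) (nat_lit 375))) (XT.nd (nat_lit 78) (nat_lit 304) (nat_lit 0) (XT.lf (nat_lit 76) (nat_lit 13567200216) (nat_lit 0) (nat_lit 2025972726) (nat_lit 304) (nat_lit 13567200216) (nat_lit 219) (nat_lit 1) (nat_lit 218) (nat_lit 1) (nat_lit 222) (nat_lit 1) (nat_lit 214) (nat_lit 432) (nat_lit 374)) (XT.nd (nat_lit 78) (nat_lit 0) (nat_lit 0) (XT.lf (nat_lit 380) (nat_lit 20190871910) (nat_lit 0) (nat_lit 4320586747) (nat_lit 304)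 (nat_lit 4320586747) (nat_lit 219) (nat_lit 1) (nat_lit 214) (nat_lit 1) (nat_lit 218) (nat_lit 1) (nat_lit 215) (nat_lit 432) (nat_lit 373)) (XT.lf (nat_lit 76) (nat_lit 6624836230) (nat_lit 0) (nat_lit 15257785526) (nat_lit 380) (nat_lit 6624836230) (nat_lit 215) (nat_lit 1) (nat_lit 214) (nat_lit 1) (nat_lit 219) (nat_lit 1) (nat_lit 216) (nat_lit 432) (nat_lit 372)))))) (XT.nd (nat_lit 390) (nat_lit 1064) (nat_lit 0) (XT.nd (nat_lit 156) (nat_lit 228) (nat_lit 0) (XT.nd (nat_lit 78) (nat_lit 380) (nat_lit 0) (XT.lf (nat_lit 304) (nat_lit 6361057735) (nat_lit 0) (nat_lit 10913454978) (nat_lit 228) (nat_lit 10913454978) (nat_lit 215) (nat_lit 1) (nat_lit 211) (nat_lit 1) (nat_lit 214) (nat_lit 1) (nat_lit 217) (nat_lit 432) (nat_lit 371)) (XT.lf (nat_lit 380) (nat_lit 27489646576) (nat_lit 0) (nat_lit 193037980) (nat_lit 304) (nat_lit 193037980) (nat_lit 211) (nat_lit 1) (nat_lit 206) (nat_lit 1)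 (nat_lit 210) (nat_lit 1) (nat_lit 218) (nat_lit 432) (nat_lit 370))) (XT.nd (nat_lit 78) (nat_lit 228) (nat_lit 0) (XT.lf (nat_lit 76) (nat_lit 10241218406) (nat_lit 0) (nat_lit 7080426705) (nat_lit 380) (nat_lit 10241218406) (nat_lit 207) (nat_lit 1) (nat_lit 206) (nat_lit 1) (nat_lit 211) (nat_lit 1) (nat_lit 219) (nat_lit 432) (nat_lit 369)) (XT.nd (nat_lit 78) (nat_lit 0) (nat_lit 0) (XT.lf (nat_lit 304) (nat_lit 13609904591) (nat_lit 0) (nat_lit 6823595242) (nat_lit 228) (nat_lit 6823595242) (nat_lit 207) (nat_lit 1) (nat_lit 203) (nat_lit 1) (nat_lit 206) (nat_lit 1) (nat_lit 220) (nat_lit 432) (nat_lit 368)) (XT.lf (nat_lit 76) (nat_lit 3401395840) (nat_lit 0) (nat_lit 20153516028) (nat_lit 304) (nat_lit 3401395840) (nat_lit 204) (nat_lit 1) (nat_lit 203) (nat_lit 1) (nat_lit 207) (nat_lit 1) (nat_lit 221) (nat_lit 432) (nat_lit 367))))) (XT.nd (nat_lit 156) (nat_lit 532) (nat_lit 0) (XT.nd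 (nat_lit 78) (nat_lit 228) (nat_lit 0) (XT.lf (nat_lit 76) (nat_lit 13327478474) (nat_lit 0) (nat_lit 3568281) (nat_lit 304) (nat_lit 13327478474) (nat_lit 200) (nat_lit 1) (nat_lit 199) (nat_lit 1) (nat_lit 203) (nat_lit 1) (nat_lit 222) (nat_lit 432) (nat_lit 366)) (XT.lf (nat_lit 304) (nat_lit 19818619275) (nat_lit 0) (nat_lit 3273483610) (nat_lit 228) (nat_lit 3273483610) (nat_lit 200) (nat_lit 1) (nat_lit 196) (nat_lit 1) (nat_lit 199) (nat_lit 1) (nat_lit 223) (nat_lit 432) (nat_lit 365))) (XT.nd (nat_lit 78) (nat_lit 532) (nat_lit 0) (XT.lf (nat_lit 76) (nat_lit 6492587140) (nat_lit 0) (nat_lit 13090290419) (nat_lit 304) (nat_lit 6492587140) (nat_lit 197) (nat_lit 1) (nat_lit 196) (nat_lit 1) (nat_lit 200) (nat_lit 1) (nat_lit 224) (nat_lit 432) (nat_lit 364)) (XT.nd (nat_lit 78) (nat_lit 304) (nat_lit 0) (XT.lf (nat_lit 304) (nat_lit 6222425484) (nat_lit 0) (nat_lit 9783814810) (nat_lit 228)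 (nat_lit 9783814810) (nat_lit 197) (nat_lit 1) (nat_lit 193) (nat_lit 1) (nat_lit 196) (nat_lit 1) (nat_lit 225) (nat_lit 432) (nat_lit 363)) (XT.lf (nat_lit 304) (nat_lit 25109941216) (nat_lit 0) (nat_lit 200494020) (nat_lit 228) (nat_lit 200494020) (nat_lit 193) (nat_lit 1) (nat_lit 189) (nat_lit 1) (nat_lit 192) (nat_lit 1) (nat_lit 226) (nat_lit 432) (nat_lit 362))))))))
noncomputable def ec486 : XT := (XT.nd (nat_lit 1482) (nat_lit 1824) (nat_lit 0) (XT.nd (nat_lit 702) (nat_lit 1292) (nat_lit 0) (XT.nd (nat_lit 312) (nat_lit 684) (nat_lit 0) (XT.nd (nat_lit 156) (nat_lit 228) (nat_lit 0) (XT.nd (nat_lit 78) (nat_lit 228) (nat_lit 0) (XT.lf (nat_lit 76) (nat_lit 9137988311) (nat_lit 0) (nat_lit 6954973353) (nat_lit 304) (nat_lit 9137988311) (nat_lit 190) (nat_lit 1) (nat_lit 189) (nat_lit 1) (nat_lit 193) (nat_lit 1) (nat_lit 227) (nat_lit 432) (nat_lit 361)) (XT.lf (nat_lit 304) (nat_lit 11572873529)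 (nat_lit 0) (nat_lit 6692132951) (nat_lit 228) (nat_lit 6692132951) (nat_lit 190) (nat_lit 1) (nat_lit 186) (nat_lit 1) (nat_lit 189) (nat_lit 1) (nat_lit 228) (nat_lit 432) (nat_lit 360))) (XT.nd (nat_lit 78) (nat_lit 228) (nat_lit 0) (XT.lf (nat_lit 76) (nat_lit 2475211770) (nat_lit 0) (nat_lit 19737543042) (nat_lit 304) (nat_lit 2475211770) (nat_lit 187) (nat_lit 1) (nat_lit 186) (nat_lit 1) (nat_lit 190) (nat_lit 1) (nat_lit 229) (nat_lit 432) (nat_lit 359)) (XT.lf (nat_lit 76) (nat_lit 11390254870) (nat_lit 0) (nat_lit 1640005550) (nat_lit 228) (nat_lit 11390254870) (nat_lit 184) (nat_lit 1) (nat_lit 183) (nat_lit 1) (nat_lit 186) (nat_lit 1) (nat_lit 230) (nat_lit 432) (nat_lit 358)))) (XT.nd (nat_lit 156) (nat_lit 456) (nat_lit 0) (XT.nd (nat_lit 78) (nat_lit 0) (nat_lit 0) (XT.lf (nat_lit 304) (nat_lit 16150628898) (nat_lit 0) (nat_lit 4003485306) (nat_lit 228) (nat_lit 4003485306) (nat_lit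 184) (nat_lit 1) (nat_lit 180) (nat_lit 1) (nat_lit 183) (nat_lit 1) (nat_lit 231) (nat_lit 432) (nat_lit 357)) (XT.lf (nat_lit 76) (nat_lit 4776972082) (nat_lit 0) (nat_lit 14343739816) (nat_lit 304) (nat_lit 4776972082) (nat_lit 181) (nat_lit 1) (nat_lit 180) (nat_lit 1) (nat_lit 184) (nat_lit 1) (nat_lit 232) (nat_lit 432) (nat_lit 356))) (XT.nd (nat_lit 78) (nat_lit 304) (nat_lit 0) (XT.lf (nat_lit 228) (nat_lit 3008770979) (nat_lit 0) (nat_lit 10316235977) (nat_lit 152) (nat_lit 10316235977) (nat_lit 181) (nat_lit 1) (nat_lit 178) (nat_lit 1) (nat_lit 180) (nat_lit 1) (nat_lit 233) (nat_lit 432) (nat_lit 355)) (XT.nd (nat_lit 78) (nat_lit 0) (nat_lit 0) (XT.lf (nat_lit 304) (nat_lit 20046984456) (nat_lit 0) (nat_lit 1671231110) (nat_lit 228) (nat_lit 1671231110) (nat_lit 178) (nat_lit 1) (nat_lit 174) (nat_lit 1) (nat_lit 177) (nat_lit 1) (nat_lit 234) (nat_lit 432) (nat_lit 354)) (XT.lf (nat_lit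 76) (nat_lit 6746975379) (nat_lit 0) (nat_lit 9644410021) (nat_lit 304) (nat_lit 6746975379) (nat_lit 175) (nat_lit 1) (nat_lit 174) (nat_lit 1) (nat_lit 178) (nat_lit 1) (nat_lit 235) (nat_lit 432) (nat_lit 353)))))) (XT.nd (nat_lit 390) (nat_lit 760) (nat_lit 0) (XT.nd (nat_lit 156) (nat_lit 380) (nat_lit 0) (XT.nd (nat_lit 78) (nat_lit 0) (nat_lit 0) (XT.lf (nat_lit 228) (nat_lit 7037229082) (nat_lit 0) (nat_lit 7927302506) (nat_lit 152) (nat_lit 7927302506) (nat_lit 175) (nat_lit 1) (nat_lit 172) (nat_lit 1) (nat_lit 174) (nat_lit 1) (nat_lit 236) (nat_lit 432) (nat_lit 352)) (XT.lf (nat_lit 76) (nat_lit 349445862) (nat_lit 0) (nat_lit 21951566688) (nat_lit 228) (nat_lit 349445862) (nat_lit 173) (nat_lit 1) (nat_lit 172) (nat_lit 1) (nat_lit 175) (nat_lit 1) (nat_lit 237) (nat_lit 432) (nat_lit 351))) (XT.nd (nat_lit 78) (nat_lit 152) (nat_lit 0) (XT.lf (nat_lit 76) (nat_lit 8424403690) (nat_lit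 0) (nat_lit 5559402297) (nat_lit 228) (nat_lit 8424403690) (nat_lit 170) (nat_lit 1) (nat_lit 169) (nat_lit 1) (nat_lit 172) (nat_lit 1) (nat_lit 238) (nat_lit 432) (nat_lit 350)) (XT.nd (nat_lit 78) (nat_lit 0) (nat_lit 0) (XT.lf (nat_lit 228) (nat_lit 10489355861) (nat_lit 0) (nat_lit 5840840025) (nat_lit 152) (nat_lit 5840840025) (nat_lit 170) (nat_lit 1) (nat_lit 167) (nat_lit 1) (nat_lit 169) (nat_lit 1) (nat_lit 239) (nat_lit 432) (nat_lit 349)) (XT.lf (nat_lit 76) (nat_lit 2105638038) (nat_lit 0) (nat_lit 17726469140) (nat_lit 228) (nat_lit 2105638038) (nat_lit 168) (nat_lit 1) (nat_lit 167) (nat_lit 1) (nat_lit 170) (nat_lit 1) (nat_lit 240) (nat_lit 432) (nat_lit 348))))) (XT.nd (nat_lit 156) (nat_lit 380) (nat_lit 0) (XT.nd (nat_lit 78) (nat_lit 152) (nat_lit 0) (XT.lf (nat_lit 76) (nat_lit 9844006043) (nat_lit 0) (nat_lit 2017582089) (nat_lit 228) (nat_lit 9844006043) (nat_lit 165) (nat_lit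 1) (nat_lit 164) (nat_lit 1) (nat_lit 167) (nat_lit 1) (nat_lit 241) (nat_lit 432) (nat_lit 347)) (XT.lf (nat_lit 228) (nat_lit 13433121841) (nat_lit 0) (nat_lit 4022068404) (nat_lit 152) (nat_lit 4022068404) (nat_lit 165) (nat_lit 1) (nat_lit 162) (nat_lit 1) (nat_lit 164) (nat_lit 1) (nat_lit 242) (nat_lit 432) (nat_lit 346))) (XT.nd (nat_lit 78) (nat_lit 380) (nat_lit 0) (XT.lf (nat_lit 76) (nat_lit 3613705828) (nat_lit 0) (nat_lit 14024288194) (nat_lit 228) (nat_lit 3613705828) (nat_lit 163) (nat_lit 1) (nat_lit 162) (nat_lit 1) (nat_lit 165) (nat_lit 1) (nat_lit 243) (nat_lit 432) (nat_lit 345)) (XT.nd (nat_lit 78) (nat_lit 228) (nat_lit 0) (XT.lf (nat_lit 228) (nat_lit 1064957293) (nat_lit 0) (nat_lit 9981874391) (nat_lit 152) (nat_lit 9981874391) (nat_lit 163) (nat_lit 1) (nat_lit 160) (nat_lit 1) (nat_lit 162) (nat_lit 1) (nat_lit 244) (nat_lit 432) (nat_lit 344)) (XT.lf (nat_lit 228) (nat_lit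 15928810125) (nat_lit 0) (nat_lit 2440116550) (nat_lit 152) (nat_lit 2440116550) (nat_lit 160) (nat_lit 1) (nat_lit 157) (nat_lit 1) (nat_lit 159) (nat_lit 1) (nat_lit 245) (nat_lit 432) (nat_lit 343))))))) (XT.nd (nat_lit 702) (nat_lit 988) (nat_lit 0) (XT.nd (nat_lit 312) (nat_lit 456) (nat_lit 0) (XT.nd (nat_lit 156) (nat_lit 228) (nat_lit 0) (XT.nd (nat_lit 78) (nat_lit 152) (nat_lit 0) (XT.lf (nat_lit 76) (nat_lit 4902841216) (nat_lit 0) (nat_lit 10785204200) (nat_lit 228) (nat_lit 4902841216) (nat_lit 158) (nat_lit 1) (nat_lit 157) (nat_lit 1) (nat_lit 160) (nat_lit 1) (nat_lit 246) (nat_lit 432) (nat_lit 342)) (XT.lf (nat_lit 228) (nat_lit 3755160969) (nat_lit 0) (nat_lit 8310421710) (nat_lit 152) (nat_lit 8310421710) (nat_lit 158) (nat_lit 1) (nat_lit 155) (nat_lit 1) (nat_lit 157) (nat_lit 1) (nat_lit 247) (nat_lit 432) (nat_lit 341))) (XT.nd (nat_lit 78) (nat_lit 0) (nat_lit 0) (XT.lf (nat_lit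 228) (nat_lit 18029876783) (nat_lit 0) (nat_lit 1067585607) (nat_lit 152) (nat_lit 1067585607) (nat_lit 155) (nat_lit 1) (nat_lit 152) (nat_lit 1) (nat_lit 154) (nat_lit 1) (nat_lit 248) (nat_lit 432) (nat_lit 340)) (XT.lf (nat_lit 76) (nat_lit 5998936542) (nat_lit 0) (nat_lit 7956112090) (nat_lit 228) (nat_lit 5998936542) (nat_lit 153) (nat_lit 1) (nat_lit 152) (nat_lit 1) (nat_lit 155) (nat_lit 1) (nat_lit 249) (nat_lit 432) (nat_lit 339)))) (XT.nd (nat_lit 156) (nat_lit 304) (nat_lit 0) (XT.nd (nat_lit 78) (nat_lit 0) (nat_lit 0) (XT.lf (nat_lit 228) (nat_lit 6063557717) (nat_lit 0) (nat_lit 6841620110) (nat_lit 152) (nat_lit 6841620110) (nat_lit 153) (nat_lit 1) (nat_lit 150) (nat_lit 1) (nat_lit 152) (nat_lit 1) (nat_lit 250) (nat_lit 432) (nat_lit 338)) (XT.lf (nat_lit 76) (nat_lit 121025630) (nat_lit 0) (nat_lit 19301845418) (nat_lit 228) (nat_lit 121025630) (nat_lit 151) (nat_lit 1) (nat_lit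 150) (nat_lit 1) (nat_lit 153) (nat_lit 1) (nat_lit 251) (nat_lit 432) (nat_lit 337))) (XT.nd (nat_lit 78) (nat_lit 152) (nat_lit 0) (XT.lf (nat_lit 76) (nat_lit 6924953753) (nat_lit 0) (nat_lit 5489871329) (nat_lit 152) (nat_lit 6924953753) (nat_lit 149) (nat_lit 1) (nat_lit 148) (nat_lit 1) (nat_lit 150) (nat_lit 1) (nat_lit 252) (nat_lit 432) (nat_lit 336)) (XT.nd (nat_lit 78) (nat_lit 0) (nat_lit 0) (XT.lf (nat_lit 228) (nat_lit 8035106897) (nat_lit 0) (nat_lit 5552397706) (nat_lit 152) (nat_lit 5552397706) (nat_lit 149) (nat_lit 1) (nat_lit 146) (nat_lit 1) (nat_lit 148) (nat_lit 1) (nat_lit 253) (nat_lit 432) (nat_lit 335)) (XT.lf (nat_lit 76) (nat_lit 1155056949) (nat_lit 0) (nat_lit 16633416382) (nat_lit 228) (nat_lit 1155056949) (nat_lit 147) (nat_lit 1) (nat_lit 146) (nat_lit 1) (nat_lit 149) (nat_lit 1) (nat_lit 254) (nat_lit 432) (nat_lit 334)))))) (XT.nd (nat_lit 390) (nat_lit 380) (nat_lit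 0) (XT.nd (nat_lit 156) (nat_lit 304) (nat_lit 0) (XT.nd (nat_lit 78) (nat_lit 152) (nat_lit 0) (XT.lf (nat_lit 76) (nat_lit 7701252430) (nat_lit 0) (nat_lit 3344639556) (nat_lit 152) (nat_lit 7701252430) (nat_lit 145) (nat_lit 1) (nat_lit 144) (nat_lit 1) (nat_lit 146) (nat_lit 1) (nat_lit 255) (nat_lit 432) (nat_lit 333)) (XT.lf (nat_lit 228) (nat_lit 9709684912) (nat_lit 0) (nat_lit 4422269226) (nat_lit 152) (nat_lit 4422269226) (nat_lit 145) (nat_lit 1) (nat_lit 142) (nat_lit 1) (nat_lit 144) (nat_lit 1) (nat_lit 256) (nat_lit 432) (nat_lit 332))) (XT.nd (nat_lit 78) (nat_lit 304) (nat_lit 0) (XT.lf (nat_lit 76) (nat_lit 2043269880) (nat_lit 0) (nat_lit 14277581549) (nat_lit 228) (nat_lit 2043269880) (nat_lit 143) (nat_lit 1) (nat_lit 142) (nat_lit 1) (nat_lit 145) (nat_lit 1) (nat_lit 257) (nat_lit 432) (nat_lit 331)) (XT.nd (nat_lit 78) (nat_lit 152) (nat_lit 0) (XT.lf (nat_lit 76) (nat_lit 8345881204)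 (nat_lit 0) (nat_lit 1483280562) (nat_lit 152) (nat_lit 8345881204) (nat_lit 141) (nat_lit 1) (nat_lit 140) (nat_lit 1) (nat_lit 142) (nat_lit 1) (nat_lit 258) (nat_lit 432) (nat_lit 330)) (XT.lf (nat_lit 228) (nat_lit 11122654047) (nat_lit 0) (nat_lit 3433047161) (nat_lit 152) (nat_lit 3433047161) (nat_lit 141) (nat_lit 1) (nat_lit 138) (nat_lit 1) (nat_lit 140) (nat_lit 1) (nat_lit 259) (nat_lit 432) (nat_lit 329))))) (XT.nd (nat_lit 156) (nat_lit 304) (nat_lit 0) (XT.nd (nat_lit 78) (nat_lit 76) (nat_lit 0) (XT.lf (nat_lit 76) (nat_lit 2802813718) (nat_lit 0) (nat_lit 12199044856) (nat_lit 228) (nat_lit 2802813718) (nat_lit 139) (nat_lit 1) (nat_lit 138) (nat_lit 1) (nat_lit 141) (nat_lit 1) (nat_lit 260) (nat_lit 432) (nat_lit 328)) (XT.lf (nat_lit 152) (nat_lit 129692444) (nat_lit 0) (nat_lit 8746390880) (nat_lit 76) (nat_lit 8746390880) (nat_lit 139) (nat_lit 1) (nat_lit 137) (nat_lit 1) (nat_lit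 138) (nat_lit 1) (nat_lit 261) (nat_lit 432) (nat_lit 327))) (XT.nd (nat_lit 78) (nat_lit 76) (nat_lit 0) (XT.lf (nat_lit 228) (nat_lit 12305367809) (nat_lit 0) (nat_lit 2568585153) (nat_lit 152) (nat_lit 2568585153) (nat_lit 137) (nat_lit 1) (nat_lit 134) (nat_lit 1) (nat_lit 136) (nat_lit 1) (nat_lit 262) (nat_lit 432) (nat_lit 326)) (XT.nd (nat_lit 78) (nat_lit 76) (nat_lit 0) (XT.lf (nat_lit 76) (nat_lit 3448899507) (nat_lit 0) (nat_lit 10366458958) (nat_lit 228) (nat_lit 3448899507) (nat_lit 135) (nat_lit 1) (nat_lit 134) (nat_lit 1) (nat_lit 137) (nat_lit 1) (nat_lit 263) (nat_lit 432) (nat_lit 325)) (XT.lf (nat_lit 152) (nat_lit 1546100271) (nat_lit 0) (nat_lit 7771055013) (nat_lit 76) (nat_lit 7771055013) (nat_lit 135) (nat_lit 1) (nat_lit 133) (nat_lit 1) (nat_lit 134) (nat_lit 1) (nat_lit 264) (nat_lit 432) (nat_lit 324))))))))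
noncomputable def ec487 : XT := (XT.nd (nat_lit 1482) (nat_lit 1444) (nat_lit 0) (XT.nd (nat_lit 702) (nat_lit 760) (nat_lit 0) (XT.nd (nat_lit 312) (nat_lit 380) (nat_lit 0) (XT.nd (nat_lit 156) (nat_lit 304) (nat_lit 0) (XT.nd (nat_lit 78) (nat_lit 0) (nat_lit 0) (XT.lf (nat_lit 228) (nat_lit 13285619870) (nat_lit 0) (nat_lit 1814549995) (nat_lit 152) (nat_lit 1814549995) (nat_lit 133) (nat_lit 1) (nat_lit 130) (nat_lit 1) (nat_lit 132) (nat_lit 1) (nat_lit 265) (nat_lit 432) (nat_lit 323)) (XT.lf (nat_lit 76) (nat_lit 3995016930) (nat_lit 0) (nat_lit 8751984522) (nat_lit 228) (nat_lit 3995016930) (nat_lit 131) (nat_lit 1) (nat_lit 130) (nat_lit 1) (nat_lit 133) (nat_lit 1) (nat_lit 266) (nat_lit 432) (nat_lit 322))) (XT.nd (nat_lit 78) (nat_lit 228) (nat_lit 0) (XT.lf (nat_lit 152) (nat_lit 2762884448) (nat_lit 0) (nat_lit 6904481728) (nat_lit 76) (nat_lit 6904481728) (nat_lit 131) (nat_lit 1) (nat_lit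 129) (nat_lit 1) (nat_lit 130) (nat_lit 1) (nat_lit 267) (nat_lit 432) (nat_lit 321)) (XT.lf (nat_lit 228) (nat_lit 14088042879) (nat_lit 0) (nat_lit 1158219076) (nat_lit 152) (nat_lit 1158219076) (nat_lit 129) (nat_lit 1) (nat_lit 126) (nat_lit 1) (nat_lit 128) (nat_lit 1) (nat_lit 268) (nat_lit 432) (nat_lit 320)))) (XT.nd (nat_lit 156) (nat_lit 304) (nat_lit 0) (XT.nd (nat_lit 78) (nat_lit 76) (nat_lit 0) (XT.lf (nat_lit 76) (nat_lit 4453127000) (nat_lit 0) (nat_lit 7330898683) (nat_lit 228) (nat_lit 4453127000) (nat_lit 127) (nat_lit 1) (nat_lit 126) (nat_lit 1) (nat_lit 129) (nat_lit 1) (nat_lit 269) (nat_lit 432) (nat_lit 319)) (XT.lf (nat_lit 152) (nat_lit 3803519458) (nat_lit 0) (nat_lit 6134542588) (nat_lit 76) (nat_lit 6134542588) (nat_lit 127) (nat_lit 1) (nat_lit 125) (nat_lit 1) (nat_lit 126) (nat_lit 1) (nat_lit 270) (nat_lit 432) (nat_lit 318))) (XT.nd (nat_lit 78) (nat_lit 76) (nat_lit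 0) (XT.lf (nat_lit 228) (nat_lit 14734462755) (nat_lit 0) (nat_lit 588300422) (nat_lit 152) (nat_lit 588300422) (nat_lit 125) (nat_lit 1) (nat_lit 122) (nat_lit 1) (nat_lit 124) (nat_lit 1) (nat_lit 271) (nat_lit 432) (nat_lit 317)) (XT.nd (nat_lit 78) (nat_lit 76) (nat_lit 0) (XT.lf (nat_lit 76) (nat_lit 4833833238) (nat_lit 0) (nat_lit 6081247163) (nat_lit 228) (nat_lit 4833833238) (nat_lit 123) (nat_lit 1) (nat_lit 122) (nat_lit 1) (nat_lit 125) (nat_lit 1) (nat_lit 272) (nat_lit 432) (nat_lit 316)) (XT.lf (nat_lit 152) (nat_lit 4688826717) (nat_lit 0) (nat_lit 5450461634) (nat_lit 76) (nat_lit 5450461634) (nat_lit 123) (nat_lit 1) (nat_lit 121) (nat_lit 1) (nat_lit 122) (nat_lit 1) (nat_lit 273) (nat_lit 432) (nat_lit 315)))))) (XT.nd (nat_lit 390) (nat_lit 304) (nat_lit 0) (XT.nd (nat_lit 156) (nat_lit 228) (nat_lit 0) (XT.nd (nat_lit 78) (nat_lit 0) (nat_lit 0) (XT.lf (nat_lit 228) (nat_lit 15244213420)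 (nat_lit 0) (nat_lit 94772814) (nat_lit 152) (nat_lit 94772814) (nat_lit 121) (nat_lit 1) (nat_lit 118) (nat_lit 1) (nat_lit 120) (nat_lit 1) (nat_lit 274) (nat_lit 432) (nat_lit 314)) (XT.lf (nat_lit 76) (nat_lit 5146533733) (nat_lit 0) (nat_lit 4983535196) (nat_lit 228) (nat_lit 5146533733) (nat_lit 119) (nat_lit 1) (nat_lit 118) (nat_lit 1) (nat_lit 121) (nat_lit 1) (nat_lit 275) (nat_lit 432) (nat_lit 313))) (XT.nd (nat_lit 78) (nat_lit 152) (nat_lit 0) (XT.lf (nat_lit 152) (nat_lit 5437271460) (nat_lit 0) (nat_lit 4842664567) (nat_lit 76) (nat_lit 4842664567) (nat_lit 119) (nat_lit 1) (nat_lit 117) (nat_lit 1) (nat_lit 118) (nat_lit 1) (nat_lit 276) (nat_lit 432) (nat_lit 312)) (XT.nd (nat_lit 78) (nat_lit 152) (nat_lit 0) (XT.lf (nat_lit 0) (nat_lit 334536017) (nat_lit 0) (nat_lit 14302443997) (nat_lit 152) (nat_lit 334536017) (nat_lit 117) (nat_lit 3) (nat_lit 117) (nat_lit 1) (nat_lit 119) (nat_lit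 1) (nat_lit 277) (nat_lit 432) (nat_lit 311)) (XT.lf (nat_lit 76) (nat_lit 5399556243) (nat_lit 0) (nat_lit 4020452938) (nat_lit 152) (nat_lit 5399556243) (nat_lit 116) (nat_lit 1) (nat_lit 115) (nat_lit 1) (nat_lit 117) (nat_lit 1) (nat_lit 278) (nat_lit 432) (nat_lit 310))))) (XT.nd (nat_lit 156) (nat_lit 228) (nat_lit 0) (XT.nd (nat_lit 78) (nat_lit 0) (nat_lit 0) (XT.lf (nat_lit 152) (nat_lit 6065226485) (nat_lit 0) (nat_lit 4302644745) (nat_lit 76) (nat_lit 4302644745) (nat_lit 116) (nat_lit 1) (nat_lit 114) (nat_lit 1) (nat_lit 115) (nat_lit 1) (nat_lit 279) (nat_lit 432) (nat_lit 309)) (XT.lf (nat_lit 0) (nat_lit 704584455) (nat_lit 0) (nat_lit 13114889782) (nat_lit 152) (nat_lit 704584455) (nat_lit 114) (nat_lit 3) (nat_lit 114) (nat_lit 1) (nat_lit 116) (nat_lit 1) (nat_lit 280) (nat_lit 432) (nat_lit 308))) (XT.nd (nat_lit 78) (nat_lit 76) (nat_lit 0) (XT.lf (nat_lit 76) (nat_lit 5600278194)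 (nat_lit 0) (nat_lit 3176631492) (nat_lit 152) (nat_lit 5600278194) (nat_lit 113) (nat_lit 1) (nat_lit 112) (nat_lit 1) (nat_lit 114) (nat_lit 1) (nat_lit 281) (nat_lit 432) (nat_lit 307)) (XT.nd (nat_lit 78) (nat_lit 0) (nat_lit 0) (XT.lf (nat_lit 152) (nat_lit 6587206452) (nat_lit 0) (nat_lit 3822844128) (nat_lit 76) (nat_lit 3822844128) (nat_lit 113) (nat_lit 1) (nat_lit 111) (nat_lit 1) (nat_lit 112) (nat_lit 1) (nat_lit 282) (nat_lit 432) (nat_lit 306)) (XT.lf (nat_lit 0) (nat_lit 1021503033) (nat_lit 0) (nat_lit 12047898576) (nat_lit 152) (nat_lit 1021503033) (nat_lit 111) (nat_lit 3) (nat_lit 111) (nat_lit 1) (nat_lit 113) (nat_lit 1) (nat_lit 283) (nat_lit 432) (nat_lit 305))))))) (XT.nd (nat_lit 702) (nat_lit 760) (nat_lit 0) (XT.nd (nat_lit 312) (nat_lit 304) (nat_lit 0) (XT.nd (nat_lit 156) (nat_lit 152) (nat_lit 0) (XT.nd (nat_lit 78) (nat_lit 76) (nat_lit 0) (XT.lf (nat_lit 76) (nat_lit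 5755233288) (nat_lit 0) (nat_lit 2438426159) (nat_lit 152) (nat_lit 5755233288) (nat_lit 110) (nat_lit 1) (nat_lit 109) (nat_lit 1) (nat_lit 111) (nat_lit 1) (nat_lit 284) (nat_lit 432) (nat_lit 304)) (XT.lf (nat_lit 152) (nat_lit 7016076040) (nat_lit 0) (nat_lit 3396547494) (nat_lit 76) (nat_lit 3396547494) (nat_lit 110) (nat_lit 1) (nat_lit 108) (nat_lit 1) (nat_lit 109) (nat_lit 1) (nat_lit 285) (nat_lit 432) (nat_lit 303))) (XT.nd (nat_lit 78) (nat_lit 152) (nat_lit 0) (XT.lf (nat_lit 0) (nat_lit 1291561991) (nat_lit 0) (nat_lit 11088371617) (nat_lit 152) (nat_lit 1291561991) (nat_lit 108) (nat_lit 3) (nat_lit 108) (nat_lit 1) (nat_lit 110) (nat_lit 1) (nat_lit 286) (nat_lit 432) (nat_lit 302)) (XT.lf (nat_lit 76) (nat_lit 5870206202) (nat_lit 0) (nat_lit 1793723868) (nat_lit 152) (nat_lit 5870206202) (nat_lit 107) (nat_lit 1) (nat_lit 106) (nat_lit 1) (nat_lit 108) (nat_lit 1) (nat_lit 287) (nat_lit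 432) (nat_lit 301)))) (XT.nd (nat_lit 156) (nat_lit 228) (nat_lit 0) (XT.nd (nat_lit 78) (nat_lit 0) (nat_lit 0) (XT.lf (nat_lit 152) (nat_lit 7363234849) (nat_lit 0) (nat_lit 3017788456) (nat_lit 76) (nat_lit 3017788456) (nat_lit 107) (nat_lit 1) (nat_lit 105) (nat_lit 1) (nat_lit 106) (nat_lit 1) (nat_lit 288) (nat_lit 432) (nat_lit 300)) (XT.lf (nat_lit 0) (nat_lit 1520322292) (nat_lit 0) (nat_lit 10224660755) (nat_lit 152) (nat_lit 1520322292) (nat_lit 105) (nat_lit 3) (nat_lit 105) (nat_lit 1) (nat_lit 107) (nat_lit 1) (nat_lit 289) (nat_lit 432) (nat_lit 299))) (XT.nd (nat_lit 78) (nat_lit 76) (nat_lit 0) (XT.lf (nat_lit 76) (nat_lit 5950316712) (nat_lit 0) (nat_lit 1231772083) (nat_lit 152) (nat_lit 5950316712) (nat_lit 104) (nat_lit 1) (nat_lit 103) (nat_lit 1) (nat_lit 105) (nat_lit 1) (nat_lit 290) (nat_lit 432) (nat_lit 298)) (XT.nd (nat_lit 78) (nat_lit 0) (nat_lit 0) (XT.lf (nat_lit 152)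 (nat_lit 7638781668) (nat_lit 0) (nat_lit 2681265956) (nat_lit 76) (nat_lit 2681265956) (nat_lit 104) (nat_lit 1) (nat_lit 102) (nat_lit 1) (nat_lit 103) (nat_lit 1) (nat_lit 291) (nat_lit 432) (nat_lit 297)) (XT.lf (nat_lit 0) (nat_lit 1712715006) (nat_lit 0) (nat_lit 9446406992) (nat_lit 152) (nat_lit 1712715006) (nat_lit 102) (nat_lit 3) (nat_lit 102) (nat_lit 1) (nat_lit 104) (nat_lit 1) (nat_lit 292) (nat_lit 432) (nat_lit 296)))))) (XT.nd (nat_lit 390) (nat_lit 304) (nat_lit 0) (XT.nd (nat_lit 156) (nat_lit 228) (nat_lit 0) (XT.nd (nat_lit 78) (nat_lit 76) (nat_lit 0) (XT.lf (nat_lit 76) (nat_lit 6000094410) (nat_lit 0) (nat_lit 743026803) (nat_lit 152) (nat_lit 6000094410) (nat_lit 101) (nat_lit 1) (nat_lit 100) (nat_lit 1) (nat_lit 102) (nat_lit 1) (nat_lit 293) (nat_lit 432) (nat_lit 295)) (XT.lf (nat_lit 152) (nat_lit 7851660393) (nat_lit 0) (nat_lit 2382270074) (nat_lit 76) (nat_lit 2382270074)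 (nat_lit 101) (nat_lit 1) (nat_lit 99) (nat_lit 1) (nat_lit 100) (nat_lit 1) (nat_lit 294) (nat_lit 432) (nat_lit 294))) (XT.nd (nat_lit 78) (nat_lit 228) (nat_lit 0) (XT.lf (nat_lit 0) (nat_lit 1873111839) (nat_lit 0) (nat_lit 8744397001) (nat_lit 152) (nat_lit 1873111839) (nat_lit 99) (nat_lit 3) (nat_lit 99) (nat_lit 1) (nat_lit 101) (nat_lit 1) (nat_lit 295) (nat_lit 432) (nat_lit 293)) (XT.nd (nat_lit 78) (nat_lit 76) (nat_lit 0) (XT.lf (nat_lit 76) (nat_lit 6023545082) (nat_lit 0) (nat_lit 319017516) (nat_lit 152) (nat_lit 6023545082) (nat_lit 98) (nat_lit 1) (nat_lit 97) (nat_lit 1) (nat_lit 99) (nat_lit 1) (nat_lit 296) (nat_lit 432) (nat_lit 292)) (XT.lf (nat_lit 152) (nat_lit 8009789651) (nat_lit 0) (nat_lit 2116616105) (nat_lit 76) (nat_lit 2116616105) (nat_lit 98) (nat_lit 1) (nat_lit 96) (nat_lit 1) (nat_lit 97) (nat_lit 1) (nat_lit 297) (nat_lit 432) (nat_lit 291))))) (XT.nd (nat_lit 156)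 (nat_lit 228) (nat_lit 0) (XT.nd (nat_lit 78) (nat_lit 76) (nat_lit 0) (XT.lf (nat_lit 0) (nat_lit 2005387782) (nat_lit 0) (nat_lit 8110435651) (nat_lit 152) (nat_lit 2005387782) (nat_lit 96) (nat_lit 3) (nat_lit 96) (nat_lit 1) (nat_lit 98) (nat_lit 1) (nat_lit 298) (nat_lit 432) (nat_lit 290)) (XT.lf (nat_lit 76) (nat_lit 48723542) (nat_lit 0) (nat_lit 5975954483) (nat_lit 76) (nat_lit 5975954483) (nat_lit 96) (nat_lit 3) (nat_lit 95) (nat_lit 1) (nat_lit 96) (nat_lit 1) (nat_lit 299) (nat_lit 432) (nat_lit 289))) (XT.nd (nat_lit 78) (nat_lit 76) (nat_lit 0) (XT.lf (nat_lit 152) (nat_lit 8120177940) (nat_lit 0) (nat_lit 1880585995) (nat_lit 76) (nat_lit 1880585995) (nat_lit 95) (nat_lit 1) (nat_lit 93) (nat_lit 1) (nat_lit 94) (nat_lit 1) (nat_lit 300) (nat_lit 432) (nat_lit 288)) (XT.nd (nat_lit 78) (nat_lit 76) (nat_lit 0) (XT.lf (nat_lit 0) (nat_lit 2112976773) (nat_lit 0) (nat_lit 7537232731)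 (nat_lit 152) (nat_lit 2112976773) (nat_lit 93) (nat_lit 3) (nat_lit 93) (nat_lit 1) (nat_lit 95) (nat_lit 1) (nat_lit 301) (nat_lit 432) (nat_lit 287)) (XT.lf (nat_lit 76) (nat_lit 371258726) (nat_lit 0) (nat_lit 5637526647) (nat_lit 76) (nat_lit 5637526647) (nat_lit 93) (nat_lit 3) (nat_lit 92) (nat_lit 1) (nat_lit 93) (nat_lit 1) (nat_lit 302) (nat_lit 432) (nat_lit 286))))))))
noncomputable def ec488 : XT := (XT.nd (nat_lit 1404) (nat_lit 1520) (nat_lit 0) (XT.nd (nat_lit 702) (nat_lit 684) (nat_lit 0) (XT.nd (nat_lit 312) (nat_lit 304) (nat_lit 0) (XT.nd (nat_lit 156) (nat_lit 228) (nat_lit 0) (XT.nd (nat_lit 78) (nat_lit 0) (nat_lit 0) (XT.lf (nat_lit 152) (nat_lit 8189025917) (nat_lit 0) (nat_lit 1670876299) (nat_lit 76) (nat_lit 1670876299) (nat_lit 92) (nat_lit 1) (nat_lit 90) (nat_lit 1) (nat_lit 91) (nat_lit 1) (nat_lit 303) (nat_lit 432) (nat_lit 285)) (XT.lf (nat_lit 0) (nat_lit 2198921139)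 (nat_lit 0) (nat_lit 7018302302) (nat_lit 152) (nat_lit 2198921139) (nat_lit 90) (nat_lit 3) (nat_lit 90) (nat_lit 1) (nat_lit 92) (nat_lit 1) (nat_lit 304) (nat_lit 432) (nat_lit 284))) (XT.nd (nat_lit 78) (nat_lit 152) (nat_lit 0) (XT.lf (nat_lit 76) (nat_lit 648274579) (nat_lit 0) (nat_lit 5327285418) (nat_lit 76) (nat_lit 5327285418) (nat_lit 90) (nat_lit 3) (nat_lit 89) (nat_lit 1) (nat_lit 90) (nat_lit 1) (nat_lit 305) (nat_lit 432) (nat_lit 283)) (XT.lf (nat_lit 152) (nat_lit 8221817238) (nat_lit 0) (nat_lit 1484551950) (nat_lit 76) (nat_lit 1484551950) (nat_lit 89) (nat_lit 1) (nat_lit 87) (nat_lit 1) (nat_lit 88) (nat_lit 1) (nat_lit 306) (nat_lit 432) (nat_lit 282)))) (XT.nd (nat_lit 156) (nat_lit 228) (nat_lit 0) (XT.nd (nat_lit 78) (nat_lit 76) (nat_lit 0) (XT.lf (nat_lit 0) (nat_lit 2265915518) (nat_lit 0) (nat_lit 6547873260) (nat_lit 152) (nat_lit 2265915518) (nat_lit 87) (nat_lit 3)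 (nat_lit 87) (nat_lit 1) (nat_lit 89) (nat_lit 1) (nat_lit 307) (nat_lit 432) (nat_lit 281)) (XT.lf (nat_lit 76) (nat_lit 885125324) (nat_lit 0) (nat_lit 5042365851) (nat_lit 76) (nat_lit 5042365851) (nat_lit 87) (nat_lit 3) (nat_lit 86) (nat_lit 1) (nat_lit 87) (nat_lit 1) (nat_lit 308) (nat_lit 432) (nat_lit 280))) (XT.nd (nat_lit 78) (nat_lit 76) (nat_lit 0) (XT.lf (nat_lit 152) (nat_lit 8223399269) (nat_lit 0) (nat_lit 1319005180) (nat_lit 76) (nat_lit 1319005180) (nat_lit 86) (nat_lit 1) (nat_lit 84) (nat_lit 1) (nat_lit 85) (nat_lit 1) (nat_lit 309) (nat_lit 432) (nat_lit 279)) (XT.nd (nat_lit 78) (nat_lit 76) (nat_lit 0) (XT.lf (nat_lit 0) (nat_lit 2316345877) (nat_lit 0) (nat_lit 6120809871) (nat_lit 152) (nat_lit 2316345877) (nat_lit 84) (nat_lit 3) (nat_lit 84) (nat_lit 1) (nat_lit 86) (nat_lit 1) (nat_lit 310) (nat_lit 432) (nat_lit 278)) (XT.lf (nat_lit 76) (nat_lit 1086560014) (nat_lit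 0) (nat_lit 4780214378) (nat_lit 76) (nat_lit 4780214378) (nat_lit 84) (nat_lit 3) (nat_lit 83) (nat_lit 1) (nat_lit 84) (nat_lit 1) (nat_lit 311) (nat_lit 432) (nat_lit 277)))))) (XT.nd (nat_lit 312) (nat_lit 304) (nat_lit 0) (XT.nd (nat_lit 156) (nat_lit 228) (nat_lit 0) (XT.nd (nat_lit 78) (nat_lit 0) (nat_lit 0) (XT.lf (nat_lit 152) (nat_lit 8198054752) (nat_lit 0) (nat_lit 1171919018) (nat_lit 76) (nat_lit 1171919018) (nat_lit 83) (nat_lit 1) (nat_lit 81) (nat_lit 1) (nat_lit 82) (nat_lit 1) (nat_lit 312) (nat_lit 432) (nat_lit 276)) (XT.lf (nat_lit 0) (nat_lit 2352324172) (nat_lit 0) (nat_lit 5732541155) (nat_lit 152) (nat_lit 2352324172) (nat_lit 81) (nat_lit 3) (nat_lit 81) (nat_lit 1) (nat_lit 83) (nat_lit 1) (nat_lit 313) (nat_lit 432) (nat_lit 275))) (XT.nd (nat_lit 78) (nat_lit 152) (nat_lit 0) (XT.lf (nat_lit 76) (nat_lit 1256790255) (nat_lit 0) (nat_lit 4538554316) (nat_lit 76) (nat_lit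 4538554316) (nat_lit 81) (nat_lit 3) (nat_lit 80) (nat_lit 1) (nat_lit 81) (nat_lit 1) (nat_lit 314) (nat_lit 432) (nat_lit 274)) (XT.lf (nat_lit 152) (nat_lit 8149565477) (nat_lit 0) (nat_lit 1041234869) (nat_lit 76) (nat_lit 1041234869) (nat_lit 80) (nat_lit 1) (nat_lit 78) (nat_lit 1) (nat_lit 79) (nat_lit 1) (nat_lit 315) (nat_lit 432) (nat_lit 273)))) (XT.nd (nat_lit 156) (nat_lit 228) (nat_lit 0) (XT.nd (nat_lit 78) (nat_lit 76) (nat_lit 0) (XT.lf (nat_lit 0) (nat_lit 2375719134) (nat_lit 0) (nat_lit 5378998143) (nat_lit 152) (nat_lit 2375719134) (nat_lit 78) (nat_lit 3) (nat_lit 78) (nat_lit 1) (nat_lit 80) (nat_lit 1) (nat_lit 316) (nat_lit 432) (nat_lit 272)) (XT.lf (nat_lit 76) (nat_lit 1399550364) (nat_lit 0) (nat_lit 4315355227) (nat_lit 76) (nat_lit 4315355227) (nat_lit 78) (nat_lit 3) (nat_lit 77) (nat_lit 1) (nat_lit 78) (nat_lit 1) (nat_lit 317) (nat_lit 432) (nat_lit 271))) (XT.nd (nat_lit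 78) (nat_lit 76) (nat_lit 0) (XT.lf (nat_lit 152) (nat_lit 8081268820) (nat_lit 0) (nat_lit 925123695) (nat_lit 76) (nat_lit 925123695) (nat_lit 77) (nat_lit 1) (nat_lit 75) (nat_lit 1) (nat_lit 76) (nat_lit 1) (nat_lit 318) (nat_lit 432) (nat_lit 270)) (XT.nd (nat_lit 78) (nat_lit 76) (nat_lit 0) (XT.lf (nat_lit 0) (nat_lit 2388183617) (nat_lit 0) (nat_lit 5056558117) (nat_lit 152) (nat_lit 2388183617) (nat_lit 75) (nat_lit 3) (nat_lit 75) (nat_lit 1) (nat_lit 77) (nat_lit 1) (nat_lit 319) (nat_lit 432) (nat_lit 269)) (XT.lf (nat_lit 76) (nat_lit 1518150818) (nat_lit 0) (nat_lit 4108805673) (nat_lit 76) (nat_lit 4108805673) (nat_lit 75) (nat_lit 3) (nat_lit 74) (nat_lit 1) (nat_lit 75) (nat_lit 1) (nat_lit 320) (nat_lit 432) (nat_lit 268))))))) (XT.nd (nat_lit 702) (nat_lit 836) (nat_lit 0) (XT.nd (nat_lit 312) (nat_lit 304) (nat_lit 0) (XT.nd (nat_lit 156) (nat_lit 228) (nat_lit 0) (XT.nd (nat_lit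 78) (nat_lit 0) (nat_lit 0) (XT.lf (nat_lit 152) (nat_lit 7996107967) (nat_lit 0) (nat_lit 821960420) (nat_lit 76) (nat_lit 821960420) (nat_lit 74) (nat_lit 1) (nat_lit 72) (nat_lit 1) (nat_lit 73) (nat_lit 1) (nat_lit 321) (nat_lit 432) (nat_lit 267)) (XT.lf (nat_lit 0) (nat_lit 2391178888) (nat_lit 0) (nat_lit 4761995070) (nat_lit 152) (nat_lit 2391178888) (nat_lit 72) (nat_lit 3) (nat_lit 72) (nat_lit 1) (nat_lit 74) (nat_lit 1) (nat_lit 322) (nat_lit 432) (nat_lit 266))) (XT.nd (nat_lit 78) (nat_lit 152) (nat_lit 0) (XT.lf (nat_lit 76) (nat_lit 1615525734) (nat_lit 0) (nat_lit 3917289018) (nat_lit 76) (nat_lit 3917289018) (nat_lit 72) (nat_lit 3) (nat_lit 71) (nat_lit 1) (nat_lit 72) (nat_lit 1) (nat_lit 323) (nat_lit 432) (nat_lit 265)) (XT.lf (nat_lit 152) (nat_lit 7896676507) (nat_lit 0) (nat_lit 730301187) (nat_lit 76) (nat_lit 730301187) (nat_lit 71) (nat_lit 1) (nat_lit 69) (nat_lit 1) (nat_lit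 70) (nat_lit 1) (nat_lit 324) (nat_lit 432) (nat_lit 264)))) (XT.nd (nat_lit 156) (nat_lit 228) (nat_lit 0) (XT.nd (nat_lit 78) (nat_lit 76) (nat_lit 0) (XT.lf (nat_lit 0) (nat_lit 2385996205) (nat_lit 0) (nat_lit 4492435677) (nat_lit 152) (nat_lit 2385996205) (nat_lit 69) (nat_lit 3) (nat_lit 69) (nat_lit 1) (nat_lit 71) (nat_lit 1) (nat_lit 325) (nat_lit 432) (nat_lit 263)) (XT.lf (nat_lit 76) (nat_lit 1694275045) (nat_lit 0) (nat_lit 3739361910) (nat_lit 76) (nat_lit 3739361910) (nat_lit 69) (nat_lit 3) (nat_lit 68) (nat_lit 1) (nat_lit 69) (nat_lit 1) (nat_lit 326) (nat_lit 432) (nat_lit 262))) (XT.nd (nat_lit 78) (nat_lit 76) (nat_lit 0) (XT.lf (nat_lit 152) (nat_lit 7785258046) (nat_lit 0) (nat_lit 648863146) (nat_lit 76) (nat_lit 648863146) (nat_lit 68) (nat_lit 1) (nat_lit 66) (nat_lit 1) (nat_lit 67) (nat_lit 1) (nat_lit 327) (nat_lit 432) (nat_lit 261)) (XT.nd (nat_lit 78) (nat_lit 76) (nat_lit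 0) (XT.lf (nat_lit 0) (nat_lit 2373775981) (nat_lit 0) (nat_lit 4245320169) (nat_lit 152) (nat_lit 2373775981) (nat_lit 66) (nat_lit 3) (nat_lit 66) (nat_lit 1) (nat_lit 68) (nat_lit 1) (nat_lit 328) (nat_lit 432) (nat_lit 260)) (XT.lf (nat_lit 76) (nat_lit 1756701971) (nat_lit 0) (nat_lit 3573735163) (nat_lit 76) (nat_lit 3573735163) (nat_lit 66) (nat_lit 3) (nat_lit 65) (nat_lit 1) (nat_lit 66) (nat_lit 1) (nat_lit 329) (nat_lit 432) (nat_lit 259)))))) (XT.nd (nat_lit 390) (nat_lit 456) (nat_lit 0) (XT.nd (nat_lit 156) (nat_lit 228) (nat_lit 0) (XT.nd (nat_lit 78) (nat_lit 0) (nat_lit 0) (XT.lf (nat_lit 152) (nat_lit 7663861373) (nat_lit 0) (nat_lit 576506501) (nat_lit 76) (nat_lit 576506501) (nat_lit 65) (nat_lit 1) (nat_lit 63) (nat_lit 1) (nat_lit 64) (nat_lit 1) (nat_lit 330) (nat_lit 432) (nat_lit 258)) (XT.lf (nat_lit 0) (nat_lit 2355524803) (nat_lit 0) (nat_lit 4018367573) (nat_lit 152) (nat_lit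 2355524803) (nat_lit 63) (nat_lit 3) (nat_lit 63) (nat_lit 1) (nat_lit 65) (nat_lit 1) (nat_lit 331) (nat_lit 432) (nat_lit 257))) (XT.nd (nat_lit 78) (nat_lit 152) (nat_lit 0) (XT.lf (nat_lit 76) (nat_lit 1804846306) (nat_lit 0) (nat_lit 3419256763) (nat_lit 76) (nat_lit 3419256763) (nat_lit 63) (nat_lit 3) (nat_lit 62) (nat_lit 1) (nat_lit 63) (nat_lit 1) (nat_lit 332) (nat_lit 432) (nat_lit 256)) (XT.nd (nat_lit 78) (nat_lit 0) (nat_lit 0) (XT.lf (nat_lit 152) (nat_lit 7534251697) (nat_lit 0) (nat_lit 512218559) (nat_lit 76) (nat_lit 512218559) (nat_lit 62) (nat_lit 1) (nat_lit 60) (nat_lit 1) (nat_lit 61) (nat_lit 1) (nat_lit 333) (nat_lit 432) (nat_lit 255)) (XT.lf (nat_lit 0) (nat_lit 2332130549) (nat_lit 0) (nat_lit 3809544813) (nat_lit 152) (nat_lit 2332130549) (nat_lit 60) (nat_lit 3) (nat_lit 60) (nat_lit 1) (nat_lit 62) (nat_lit 1) (nat_lit 334) (nat_lit 432) (nat_lit 254))))) (XT.nd (nat_lit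 156) (nat_lit 228) (nat_lit 0) (XT.nd (nat_lit 78) (nat_lit 152) (nat_lit 0) (XT.lf (nat_lit 76) (nat_lit 1840513982) (nat_lit 0) (nat_lit 3274896762) (nat_lit 76) (nat_lit 3274896762) (nat_lit 60) (nat_lit 3) (nat_lit 59) (nat_lit 1) (nat_lit 60) (nat_lit 1) (nat_lit 335) (nat_lit 432) (nat_lit 253)) (XT.lf (nat_lit 152) (nat_lit 7397978379) (nat_lit 0) (nat_lit 455099555) (nat_lit 76) (nat_lit 455099555) (nat_lit 59) (nat_lit 1) (nat_lit 57) (nat_lit 1) (nat_lit 58) (nat_lit 1) (nat_lit 336) (nat_lit 432) (nat_lit 252))) (XT.nd (nat_lit 78) (nat_lit 228) (nat_lit 0) (XT.lf (nat_lit 0) (nat_lit 2304375817) (nat_lit 0) (nat_lit 3617039255) (nat_lit 152) (nat_lit 2304375817) (nat_lit 57) (nat_lit 3) (nat_lit 57) (nat_lit 1) (nat_lit 59) (nat_lit 1) (nat_lit 337) (nat_lit 432) (nat_lit 251)) (XT.nd (nat_lit 78) (nat_lit 152) (nat_lit 0) (XT.lf (nat_lit 76) (nat_lit 1865303334) (nat_lit 0) (nat_lit 3139733857)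 (nat_lit 76) (nat_lit 3139733857) (nat_lit 57) (nat_lit 3) (nat_lit 56) (nat_lit 1) (nat_lit 57) (nat_lit 1) (nat_lit 338) (nat_lit 432) (nat_lit 250)) (XT.lf (nat_lit 152) (nat_lit 7256399554) (nat_lit 0) (nat_lit 404350060) (nat_lit 76) (nat_lit 404350060) (nat_lit 56) (nat_lit 1) (nat_lit 54) (nat_lit 1) (nat_lit 55) (nat_lit 1) (nat_lit 339) (nat_lit 432) (nat_lit 249))))))))
noncomputable def ec489 : XT := (XT.nd (nat_lit 1482) (nat_lit 1444) (nat_lit 0) (XT.nd (nat_lit 702) (nat_lit 684) (nat_lit 0) (XT.nd (nat_lit 312) (nat_lit 456) (nat_lit 0) (XT.nd (nat_lit 156) (nat_lit 152) (nat_lit 0) (XT.nd (nat_lit 78) (nat_lit 76) (nat_lit 0) (XT.lf (nat_lit 0) (nat_lit 2272949844) (nat_lit 0) (nat_lit 3439234306) (nat_lit 152) (nat_lit 2272949844) (nat_lit 54) (nat_lit 3) (nat_lit 54) (nat_lit 1) (nat_lit 56) (nat_lit 1) (nat_lit 340) (nat_lit 432) (nat_lit 248)) (XT.lf (nat_lit 76) (nat_lit 1880628436)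 (nat_lit 0) (nat_lit 3012943448) (nat_lit 76) (nat_lit 3012943448) (nat_lit 54) (nat_lit 3) (nat_lit 53) (nat_lit 1) (nat_lit 54) (nat_lit 1) (nat_lit 341) (nat_lit 432) (nat_lit 247))) (XT.nd (nat_lit 78) (nat_lit 0) (nat_lit 0) (XT.lf (nat_lit 152) (nat_lit 7110703992) (nat_lit 0) (nat_lit 359259792) (nat_lit 76) (nat_lit 359259792) (nat_lit 53) (nat_lit 1) (nat_lit 51) (nat_lit 1) (nat_lit 52) (nat_lit 1) (nat_lit 342) (nat_lit 432) (nat_lit 246)) (XT.lf (nat_lit 0) (nat_lit 2238459095) (nat_lit 0) (nat_lit 3274687735) (nat_lit 152) (nat_lit 2238459095) (nat_lit 51) (nat_lit 3) (nat_lit 51) (nat_lit 1) (nat_lit 53) (nat_lit 1) (nat_lit 343) (nat_lit 432) (nat_lit 245)))) (XT.nd (nat_lit 156) (nat_lit 228) (nat_lit 0) (XT.nd (nat_lit 78) (nat_lit 152) (nat_lit 0) (XT.lf (nat_lit 76) (nat_lit 1887739816) (nat_lit 0) (nat_lit 2893787038) (nat_lit 76) (nat_lit 2893787038) (nat_lit 51) (nat_lit 3) (nat_lit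 50) (nat_lit 1) (nat_lit 51) (nat_lit 1) (nat_lit 344) (nat_lit 432) (nat_lit 244)) (XT.lf (nat_lit 152) (nat_lit 6961930509) (nat_lit 0) (nat_lit 319197672) (nat_lit 76) (nat_lit 319197672) (nat_lit 50) (nat_lit 1) (nat_lit 48) (nat_lit 1) (nat_lit 49) (nat_lit 1) (nat_lit 345) (nat_lit 432) (nat_lit 243))) (XT.nd (nat_lit 78) (nat_lit 228) (nat_lit 0) (XT.lf (nat_lit 0) (nat_lit 2201436669) (nat_lit 0) (nat_lit 3122112394) (nat_lit 152) (nat_lit 2201436669) (nat_lit 48) (nat_lit 3) (nat_lit 48) (nat_lit 1) (nat_lit 50) (nat_lit 1) (nat_lit 346) (nat_lit 432) (nat_lit 242)) (XT.nd (nat_lit 78) (nat_lit 152) (nat_lit 0) (XT.lf (nat_lit 76) (nat_lit 1887742870) (nat_lit 0) (nat_lit 2781602797) (nat_lit 76) (nat_lit 2781602797) (nat_lit 48) (nat_lit 3) (nat_lit 47) (nat_lit 1) (nat_lit 48) (nat_lit 1) (nat_lit 347) (nat_lit 432) (nat_lit 241)) (XT.lf (nat_lit 152) (nat_lit 6810985193) (nat_lit 0) (nat_lit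 283602997) (nat_lit 76) (nat_lit 283602997) (nat_lit 47) (nat_lit 1) (nat_lit 45) (nat_lit 1) (nat_lit 46) (nat_lit 1) (nat_lit 348) (nat_lit 432) (nat_lit 240)))))) (XT.nd (nat_lit 390) (nat_lit 380) (nat_lit 0) (XT.nd (nat_lit 156) (nat_lit 228) (nat_lit 0) (XT.nd (nat_lit 78) (nat_lit 76) (nat_lit 0) (XT.lf (nat_lit 0) (nat_lit 2162350643) (nat_lit 0) (nat_lit 2980359100) (nat_lit 152) (nat_lit 2162350643) (nat_lit 45) (nat_lit 3) (nat_lit 45) (nat_lit 1) (nat_lit 47) (nat_lit 1) (nat_lit 349) (nat_lit 432) (nat_lit 239)) (XT.lf (nat_lit 76) (nat_lit 1881614209) (nat_lit 0) (nat_lit 2675797177) (nat_lit 76) (nat_lit 2675797177) (nat_lit 45) (nat_lit 3) (nat_lit 44) (nat_lit 1) (nat_lit 45) (nat_lit 1) (nat_lit 350) (nat_lit 432) (nat_lit 238))) (XT.nd (nat_lit 78) (nat_lit 76) (nat_lit 0) (XT.lf (nat_lit 152) (nat_lit 6658656698) (nat_lit 0) (nat_lit 251977589) (nat_lit 76) (nat_lit 251977589) (nat_lit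 44) (nat_lit 1) (nat_lit 42) (nat_lit 1) (nat_lit 43) (nat_lit 1) (nat_lit 351) (nat_lit 432) (nat_lit 237)) (XT.nd (nat_lit 78) (nat_lit 76) (nat_lit 0) (XT.lf (nat_lit 0) (nat_lit 2121611487) (nat_lit 0) (nat_lit 2848401406) (nat_lit 152) (nat_lit 2121611487) (nat_lit 42) (nat_lit 3) (nat_lit 42) (nat_lit 1) (nat_lit 44) (nat_lit 1) (nat_lit 352) (nat_lit 432) (nat_lit 236)) (XT.lf (nat_lit 76) (nat_lit 1870216184) (nat_lit 0) (nat_lit 2575837465) (nat_lit 76) (nat_lit 2575837465) (nat_lit 42) (nat_lit 3) (nat_lit 41) (nat_lit 1) (nat_lit 42) (nat_lit 1) (nat_lit 353) (nat_lit 432) (nat_lit 235))))) (XT.nd (nat_lit 156) (nat_lit 228) (nat_lit 0) (XT.nd (nat_lit 78) (nat_lit 0) (nat_lit 0) (XT.lf (nat_lit 152) (nat_lit 6505629816) (nat_lit 0) (nat_lit 223878824) (nat_lit 76) (nat_lit 223878824) (nat_lit 41) (nat_lit 1) (nat_lit 39) (nat_lit 1) (nat_lit 40) (nat_lit 1) (nat_lit 354) (nat_lit 432) (nat_lit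 234)) (XT.lf (nat_lit 0) (nat_lit 2079578644) (nat_lit 0) (nat_lit 2725322074) (nat_lit 152) (nat_lit 2079578644) (nat_lit 39) (nat_lit 3) (nat_lit 39) (nat_lit 1) (nat_lit 41) (nat_lit 1) (nat_lit 355) (nat_lit 432) (nat_lit 233))) (XT.nd (nat_lit 78) (nat_lit 152) (nat_lit 0) (XT.lf (nat_lit 76) (nat_lit 1854309779) (nat_lit 0) (nat_lit 2481245148) (nat_lit 76) (nat_lit 2481245148) (nat_lit 39) (nat_lit 3) (nat_lit 38) (nat_lit 1) (nat_lit 39) (nat_lit 1) (nat_lit 356) (nat_lit 432) (nat_lit 232)) (XT.nd (nat_lit 78) (nat_lit 0) (nat_lit 0) (XT.lf (nat_lit 152) (nat_lit 6352497522) (nat_lit 0) (nat_lit 198913436) (nat_lit 76) (nat_lit 198913436) (nat_lit 38) (nat_lit 1) (nat_lit 36) (nat_lit 1) (nat_lit 37) (nat_lit 1) (nat_lit 357) (nat_lit 432) (nat_lit 231)) (XT.lf (nat_lit 0) (nat_lit 2036566378) (nat_lit 0) (nat_lit 2610301051) (nat_lit 152) (nat_lit 2036566378) (nat_lit 36) (nat_lit 3) (nat_lit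 36) (nat_lit 1) (nat_lit 38) (nat_lit 1) (nat_lit 358) (nat_lit 432) (nat_lit 230))))))) (XT.nd (nat_lit 702) (nat_lit 760) (nat_lit 0) (XT.nd (nat_lit 312) (nat_lit 380) (nat_lit 0) (XT.nd (nat_lit 156) (nat_lit 76) (nat_lit 0) (XT.nd (nat_lit 78) (nat_lit 152) (nat_lit 0) (XT.lf (nat_lit 76) (nat_lit 1834566069) (nat_lit 0) (nat_lit 2391590023) (nat_lit 76) (nat_lit 2391590023) (nat_lit 36) (nat_lit 3) (nat_lit 35) (nat_lit 1) (nat_lit 36) (nat_lit 1) (nat_lit 359) (nat_lit 432) (nat_lit 229)) (XT.lf (nat_lit 152) (nat_lit 6199771665) (nat_lit 0) (nat_lit 176732011) (nat_lit 76) (nat_lit 176732011) (nat_lit 35) (nat_lit 1) (nat_lit 33) (nat_lit 1) (nat_lit 34) (nat_lit 1) (nat_lit 360) (nat_lit 432) (nat_lit 228))) (XT.nd (nat_lit 78) (nat_lit 76) (nat_lit 0) (XT.lf (nat_lit 0) (nat_lit 1992848953) (nat_lit 0) (nat_lit 2502604779) (nat_lit 152) (nat_lit 1992848953) (nat_lit 33) (nat_lit 3) (nat_lit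 33) (nat_lit 1) (nat_lit 35) (nat_lit 1) (nat_lit 361) (nat_lit 432) (nat_lit 227)) (XT.lf (nat_lit 76) (nat_lit 1811576391) (nat_lit 0) (nat_lit 2306484961) (nat_lit 76) (nat_lit 2306484961) (nat_lit 33) (nat_lit 3) (nat_lit 32) (nat_lit 1) (nat_lit 33) (nat_lit 1) (nat_lit 362) (nat_lit 432) (nat_lit 226)))) (XT.nd (nat_lit 156) (nat_lit 228) (nat_lit 0) (XT.nd (nat_lit 78) (nat_lit 0) (nat_lit 0) (XT.lf (nat_lit 152) (nat_lit 6047892451) (nat_lit 0) (nat_lit 157024103) (nat_lit 76) (nat_lit 157024103) (nat_lit 32) (nat_lit 1) (nat_lit 30) (nat_lit 1) (nat_lit 31) (nat_lit 1) (nat_lit 363) (nat_lit 432) (nat_lit 225)) (XT.lf (nat_lit 0) (nat_lit 1948665244) (nat_lit 0) (nat_lit 2401576693) (nat_lit 152) (nat_lit 1948665244) (nat_lit 30) (nat_lit 3) (nat_lit 30) (nat_lit 1) (nat_lit 32) (nat_lit 1) (nat_lit 364) (nat_lit 432) (nat_lit 224))) (XT.nd (nat_lit 78) (nat_lit 152) (nat_lit 0) (XT.lf (nat_lit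 76) (nat_lit 1785861384) (nat_lit 0) (nat_lit 2225581238) (nat_lit 76) (nat_lit 2225581238) (nat_lit 30) (nat_lit 3) (nat_lit 29) (nat_lit 1) (nat_lit 30) (nat_lit 1) (nat_lit 365) (nat_lit 432) (nat_lit 223)) (XT.nd (nat_lit 78) (nat_lit 0) (nat_lit 0) (XT.lf (nat_lit 152) (nat_lit 5897236854) (nat_lit 0) (nat_lit 139513882) (nat_lit 76) (nat_lit 139513882) (nat_lit 29) (nat_lit 1) (nat_lit 27) (nat_lit 1) (nat_lit 28) (nat_lit 1) (nat_lit 366) (nat_lit 432) (nat_lit 222)) (XT.lf (nat_lit 0) (nat_lit 1904222822) (nat_lit 0) (nat_lit 2306628778) (nat_lit 152) (nat_lit 1904222822) (nat_lit 27) (nat_lit 3) (nat_lit 27) (nat_lit 1) (nat_lit 29) (nat_lit 1) (nat_lit 367) (nat_lit 432) (nat_lit 221)))))) (XT.nd (nat_lit 390) (nat_lit 304) (nat_lit 0) (XT.nd (nat_lit 156) (nat_lit 228) (nat_lit 0) (XT.nd (nat_lit 78) (nat_lit 152) (nat_lit 0) (XT.lf (nat_lit 76) (nat_lit 1757879005) (nat_lit 0) (nat_lit 2148564400)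 (nat_lit 76) (nat_lit 2148564400) (nat_lit 27) (nat_lit 3) (nat_lit 26) (nat_lit 1) (nat_lit 27) (nat_lit 1) (nat_lit 368) (nat_lit 432) (nat_lit 220)) (XT.lf (nat_lit 152) (nat_lit 5748126082) (nat_lit 0) (nat_lit 123956277) (nat_lit 76) (nat_lit 123956277) (nat_lit 26) (nat_lit 1) (nat_lit 24) (nat_lit 1) (nat_lit 25) (nat_lit 1) (nat_lit 369) (nat_lit 432) (nat_lit 219))) (XT.nd (nat_lit 78) (nat_lit 228) (nat_lit 0) (XT.lf (nat_lit 0) (nat_lit 1859701577) (nat_lit 0) (nat_lit 2217234057) (nat_lit 152) (nat_lit 1859701577) (nat_lit 24) (nat_lit 3) (nat_lit 24) (nat_lit 1) (nat_lit 26) (nat_lit 1) (nat_lit 370) (nat_lit 432) (nat_lit 218)) (XT.nd (nat_lit 78) (nat_lit 152) (nat_lit 0) (XT.lf (nat_lit 76) (nat_lit 1728031655) (nat_lit 0) (nat_lit 2075150568) (nat_lit 76) (nat_lit 2075150568) (nat_lit 24) (nat_lit 3) (nat_lit 23) (nat_lit 1) (nat_lit 24) (nat_lit 1) (nat_lit 371) (nat_lit 432) (nat_lit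 217)) (XT.lf (nat_lit 152) (nat_lit 5600832193) (nat_lit 0) (nat_lit 110133546) (nat_lit 76) (nat_lit 110133546) (nat_lit 23) (nat_lit 1) (nat_lit 21) (nat_lit 1) (nat_lit 22) (nat_lit 1) (nat_lit 372) (nat_lit 432) (nat_lit 216))))) (XT.nd (nat_lit 156) (nat_lit 228) (nat_lit 0) (XT.nd (nat_lit 78) (nat_lit 76) (nat_lit 0) (XT.lf (nat_lit 0) (nat_lit 1815256942) (nat_lit 0) (nat_lit 2132919920) (nat_lit 152) (nat_lit 1815256942) (nat_lit 21) (nat_lit 3) (nat_lit 21) (nat_lit 1) (nat_lit 23) (nat_lit 1) (nat_lit 373) (nat_lit 432) (nat_lit 215)) (XT.lf (nat_lit 76) (nat_lit 1696672509) (nat_lit 0) (nat_lit 2005083167) (nat_lit 76) (nat_lit 2005083167) (nat_lit 21) (nat_lit 3) (nat_lit 20) (nat_lit 1) (nat_lit 21) (nat_lit 1) (nat_lit 374) (nat_lit 432) (nat_lit 214))) (XT.nd (nat_lit 78) (nat_lit 76) (nat_lit 0) (XT.lf (nat_lit 152) (nat_lit 5455583968) (nat_lit 0) (nat_lit 97852229) (nat_lit 76) (nat_lit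 97852229) (nat_lit 20) (nat_lit 1) (nat_lit 18) (nat_lit 1) (nat_lit 19) (nat_lit 1) (nat_lit 375) (nat_lit 432) (nat_lit 213)) (XT.nd (nat_lit 78) (nat_lit 76) (nat_lit 0) (XT.lf (nat_lit 0) (nat_lit 1771022746) (nat_lit 0) (nat_lit 2053262188) (nat_lit 152) (nat_lit 1771022746) (nat_lit 18) (nat_lit 3) (nat_lit 18) (nat_lit 1) (nat_lit 20) (nat_lit 1) (nat_lit 376) (nat_lit 432) (nat_lit 212)) (XT.lf (nat_lit 76) (nat_lit 1664111126) (nat_lit 0) (nat_lit 1938130001) (nat_lit 76) (nat_lit 1938130001) (nat_lit 18) (nat_lit 3) (nat_lit 17) (nat_lit 1) (nat_lit 18) (nat_lit 1) (nat_lit 377) (nat_lit 432) (nat_lit 211))))))))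
noncomputable def ec490 : XT := (XT.nd (nat_lit 41418) (nat_lit 0) (nat_lit 10488) (XT.nd (nat_lit 40638) (nat_lit 0) (nat_lit 13072) (XT.nd (nat_lit 40248) (nat_lit 0) (nat_lit 14592) (XT.nd (nat_lit 156) (nat_lit 76) (nat_lit 0) (XT.nd (nat_lit 78) (nat_lit 0) (nat_lit 0) (XT.lf (nat_lit 152) (nat_lit 5312572109) (nat_lit 0) (nat_lit 86940438) (nat_lit 76) (nat_lit 86940438) (nat_lit 17) (nat_lit 1) (nat_lit 15) (nat_lit 1) (nat_lit 16) (nat_lit 1) (nat_lit 378) (nat_lit 432) (nat_lit 210)) (XT.lf (nat_lit 0) (nat_lit 1727113746) (nat_lit 0) (nat_lit 1977879835) (nat_lit 152) (nat_lit 1727113746) (nat_lit 15) (nat_lit 3) (nat_lit 15) (nat_lit 1) (nat_lit 17) (nat_lit 1) (nat_lit 379) (nat_lit 432) (nat_lit 209))) (XT.nd (nat_lit 40014) (nat_lit 0) (nat_lit 15504) (XT.lf (nat_lit 76) (nat_lit 1630618441) (nat_lit 0) (nat_lit 1874080663) (nat_lit 76) (nat_lit 1874080663) (nat_lit 15) (nat_lit 3) (nat_lit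 14) (nat_lit 1) (nat_lit 15) (nat_lit 1) (nat_lit 380) (nat_lit 432) (nat_lit 208)) (XT.lf (nat_lit 76) (nat_lit 13974216222) (nat_lit 0) (nat_lit 2086751908) (nat_lit 304) (nat_lit 13974216222) (nat_lit 219) (nat_lit 1) (nat_lit 218) (nat_lit 1) (nat_lit 222) (nat_lit 1) (nat_lit 212) (nat_lit 433) (nat_lit 375)))) (XT.nd (nat_lit 156) (nat_lit 608) (nat_lit 0) (XT.nd (nat_lit 78) (nat_lit 0) (nat_lit 0) (XT.lf (nat_lit 380) (nat_lit 20796598067) (nat_lit 0) (nat_lit 4450204350) (nat_lit 304) (nat_lit 4450204350) (nat_lit 219) (nat_lit 1) (nat_lit 214) (nat_lit 1) (nat_lit 218) (nat_lit 1) (nat_lit 213) (nat_lit 433) (nat_lit 374)) (XT.lf (nat_lit 76) (nat_lit 6823581317) (nat_lit 0) (nat_lit 15715519092) (nat_lit 380) (nat_lit 6823581317) (nat_lit 215) (nat_lit 1) (nat_lit 214) (nat_lit 1) (nat_lit 219) (nat_lit 1) (nat_lit 214) (nat_lit 433) (nat_lit 373))) (XT.nd (nat_lit 78) (nat_lit 380) (nat_lit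 0) (XT.lf (nat_lit 304) (nat_lit 6551889467) (nat_lit 0) (nat_lit 11240858627) (nat_lit 228) (nat_lit 11240858627) (nat_lit 215) (nat_lit 1) (nat_lit 211) (nat_lit 1) (nat_lit 214) (nat_lit 1) (nat_lit 215) (nat_lit 433) (nat_lit 372)) (XT.nd (nat_lit 78) (nat_lit 0) (nat_lit 0) (XT.lf (nat_lit 380) (nat_lit 28314335973) (nat_lit 0) (nat_lit 198829119) (nat_lit 304) (nat_lit 198829119) (nat_lit 211) (nat_lit 1) (nat_lit 206) (nat_lit 1) (nat_lit 210) (nat_lit 1) (nat_lit 216) (nat_lit 433) (nat_lit 371)) (XT.lf (nat_lit 76) (nat_lit 10548454959) (nat_lit 0) (nat_lit 7292839506) (nat_lit 380) (nat_lit 10548454959) (nat_lit 207) (nat_lit 1) (nat_lit 206) (nat_lit 1) (nat_lit 211) (nat_lit 1) (nat_lit 217) (nat_lit 433) (nat_lit 370)))))) (XT.nd (nat_lit 390) (nat_lit 760) (nat_lit 0) (XT.nd (nat_lit 156) (nat_lit 532) (nat_lit 0) (XT.nd (nat_lit 78) (nat_lit 0) (nat_lit 0) (XT.lf (nat_lit 304) (nat_lit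 14018201729) (nat_lit 0) (nat_lit 7028303099) (nat_lit 228) (nat_lit 7028303099) (nat_lit 207) (nat_lit 1) (nat_lit 203) (nat_lit 1) (nat_lit 206) (nat_lit 1) (nat_lit 218) (nat_lit 433) (nat_lit 369)) (XT.lf (nat_lit 76) (nat_lit 3503437715) (nat_lit 0) (nat_lit 20758121509) (nat_lit 304) (nat_lit 3503437715) (nat_lit 204) (nat_lit 1) (nat_lit 203) (nat_lit 1) (nat_lit 207) (nat_lit 1) (nat_lit 219) (nat_lit 433) (nat_lit 368))) (XT.nd (nat_lit 78) (nat_lit 228) (nat_lit 0) (XT.lf (nat_lit 76) (nat_lit 13727302828) (nat_lit 0) (nat_lit 3675329) (nat_lit 304) (nat_lit 13727302828) (nat_lit 200) (nat_lit 1) (nat_lit 199) (nat_lit 1) (nat_lit 203) (nat_lit 1) (nat_lit 220) (nat_lit 433) (nat_lit 367)) (XT.nd (nat_lit 78) (nat_lit 0) (nat_lit 0) (XT.lf (nat_lit 304) (nat_lit 20413177853) (nat_lit 0) (nat_lit 3371688119) (nat_lit 228) (nat_lit 3371688119) (nat_lit 200) (nat_lit 1) (nat_lit 196) (nat_lit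 1) (nat_lit 199) (nat_lit 1) (nat_lit 221) (nat_lit 433) (nat_lit 366)) (XT.lf (nat_lit 76) (nat_lit 6687364754) (nat_lit 0) (nat_lit 13482999132) (nat_lit 304) (nat_lit 6687364754) (nat_lit 197) (nat_lit 1) (nat_lit 196) (nat_lit 1) (nat_lit 200) (nat_lit 1) (nat_lit 222) (nat_lit 433) (nat_lit 365))))) (XT.nd (nat_lit 156) (nat_lit 228) (nat_lit 0) (XT.nd (nat_lit 78) (nat_lit 304) (nat_lit 0) (XT.lf (nat_lit 304) (nat_lit 6409098248) (nat_lit 0) (nat_lit 10077329255) (nat_lit 228) (nat_lit 10077329255) (nat_lit 197) (nat_lit 1) (nat_lit 193) (nat_lit 1) (nat_lit 196) (nat_lit 1) (nat_lit 223) (nat_lit 433) (nat_lit 364)) (XT.lf (nat_lit 304) (nat_lit 25863239452) (nat_lit 0) (nat_lit 206508841) (nat_lit 228) (nat_lit 206508841) (nat_lit 193) (nat_lit 1) (nat_lit 189) (nat_lit 1) (nat_lit 192) (nat_lit 1) (nat_lit 224) (nat_lit 433) (nat_lit 363))) (XT.nd (nat_lit 78) (nat_lit 228) (nat_lit 0) (XT.lf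 (nat_lit 76) (nat_lit 9412127960) (nat_lit 0) (nat_lit 7163622553) (nat_lit 304) (nat_lit 9412127960) (nat_lit 190) (nat_lit 1) (nat_lit 189) (nat_lit 1) (nat_lit 193) (nat_lit 1) (nat_lit 225) (nat_lit 433) (nat_lit 362)) (XT.nd (nat_lit 78) (nat_lit 0) (nat_lit 0) (XT.lf (nat_lit 304) (nat_lit 11920059735) (nat_lit 0) (nat_lit 6892896939) (nat_lit 228) (nat_lit 6892896939) (nat_lit 190) (nat_lit 1) (nat_lit 186) (nat_lit 1) (nat_lit 189) (nat_lit 1) (nat_lit 226) (nat_lit 433) (nat_lit 361)) (XT.lf (nat_lit 76) (nat_lit 2549468123) (nat_lit 0) (nat_lit 20329669334) (nat_lit 304) (nat_lit 2549468123) (nat_lit 187) (nat_lit 1) (nat_lit 186) (nat_lit 1) (nat_lit 190) (nat_lit 1) (nat_lit 227) (nat_lit 433) (nat_lit 360))))))) (XT.nd (nat_lit 702) (nat_lit 1292) (nat_lit 0) (XT.nd (nat_lit 312) (nat_lit 684) (nat_lit 0) (XT.nd (nat_lit 156) (nat_lit 152) (nat_lit 0) (XT.nd (nat_lit 78) (nat_lit 228) (nat_lit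 0) (XT.lf (nat_lit 76) (nat_lit 11731962516) (nat_lit 0) (nat_lit 1689205717) (nat_lit 228) (nat_lit 11731962516) (nat_lit 184) (nat_lit 1) (nat_lit 183) (nat_lit 1) (nat_lit 186) (nat_lit 1) (nat_lit 228) (nat_lit 433) (nat_lit 359)) (XT.lf (nat_lit 304) (nat_lit 16635147765) (nat_lit 0) (nat_lit 4123589865) (nat_lit 228) (nat_lit 4123589865) (nat_lit 184) (nat_lit 1) (nat_lit 180) (nat_lit 1) (nat_lit 183) (nat_lit 1) (nat_lit 229) (nat_lit 433) (nat_lit 358))) (XT.nd (nat_lit 78) (nat_lit 152) (nat_lit 0) (XT.lf (nat_lit 76) (nat_lit 4920281244) (nat_lit 0) (nat_lit 14774052010) (nat_lit 304) (nat_lit 4920281244) (nat_lit 181) (nat_lit 1) (nat_lit 180) (nat_lit 1) (nat_lit 184) (nat_lit 1) (nat_lit 230) (nat_lit 433) (nat_lit 357)) (XT.lf (nat_lit 228) (nat_lit 3099034108) (nat_lit 0) (nat_lit 10625723057) (nat_lit 152) (nat_lit 10625723057) (nat_lit 181) (nat_lit 1) (nat_lit 178) (nat_lit 1) (nat_lit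 180) (nat_lit 1) (nat_lit 231) (nat_lit 433) (nat_lit 356)))) (XT.nd (nat_lit 156) (nat_lit 380) (nat_lit 0) (XT.nd (nat_lit 78) (nat_lit 0) (nat_lit 0) (XT.lf (nat_lit 304) (nat_lit 20648393989) (nat_lit 0) (nat_lit 1721368043) (nat_lit 228) (nat_lit 1721368043) (nat_lit 178) (nat_lit 1) (nat_lit 174) (nat_lit 1) (nat_lit 177) (nat_lit 1) (nat_lit 232) (nat_lit 433) (nat_lit 355)) (XT.lf (nat_lit 76) (nat_lit 6949384641) (nat_lit 0) (nat_lit 9933742321) (nat_lit 304) (nat_lit 6949384641) (nat_lit 175) (nat_lit 1) (nat_lit 174) (nat_lit 1) (nat_lit 178) (nat_lit 1) (nat_lit 233) (nat_lit 433) (nat_lit 354))) (XT.nd (nat_lit 78) (nat_lit 228) (nat_lit 0) (XT.lf (nat_lit 228) (nat_lit 7248345954) (nat_lit 0) (nat_lit 8165121581) (nat_lit 152) (nat_lit 8165121581) (nat_lit 175) (nat_lit 1) (nat_lit 172) (nat_lit 1) (nat_lit 174) (nat_lit 1) (nat_lit 234) (nat_lit 433) (nat_lit 353)) (XT.nd (nat_lit 78)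 (nat_lit 228) (nat_lit 0) (XT.lf (nat_lit 76) (nat_lit 359929238) (nat_lit 0) (nat_lit 22610113688) (nat_lit 228) (nat_lit 359929238) (nat_lit 173) (nat_lit 1) (nat_lit 172) (nat_lit 1) (nat_lit 175) (nat_lit 1) (nat_lit 235) (nat_lit 433) (nat_lit 352)) (XT.lf (nat_lit 76) (nat_lit 8677135800) (nat_lit 0) (nat_lit 5726184366) (nat_lit 228) (nat_lit 8677135800) (nat_lit 170) (nat_lit 1) (nat_lit 169) (nat_lit 1) (nat_lit 172) (nat_lit 1) (nat_lit 236) (nat_lit 433) (nat_lit 351)))))) (XT.nd (nat_lit 390) (nat_lit 760) (nat_lit 0) (XT.nd (nat_lit 156) (nat_lit 380) (nat_lit 0) (XT.nd (nat_lit 78) (nat_lit 0) (nat_lit 0) (XT.lf (nat_lit 228) (nat_lit 10804036536) (nat_lit 0) (nat_lit 6016065226) (nat_lit 152) (nat_lit 6016065226) (nat_lit 170) (nat_lit 1) (nat_lit 167) (nat_lit 1) (nat_lit 169) (nat_lit 1) (nat_lit 237) (nat_lit 433) (nat_lit 350)) (XT.lf (nat_lit 76) (nat_lit 2168807179) (nat_lit 0)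 (nat_lit 18258263214) (nat_lit 228) (nat_lit 2168807179) (nat_lit 168) (nat_lit 1) (nat_lit 167) (nat_lit 1) (nat_lit 170) (nat_lit 1) (nat_lit 238) (nat_lit 433) (nat_lit 349))) (XT.nd (nat_lit 78) (nat_lit 152) (nat_lit 0) (XT.lf (nat_lit 76) (nat_lit 10139326224) (nat_lit 0) (nat_lit 2078109551) (nat_lit 228) (nat_lit 10139326224) (nat_lit 165) (nat_lit 1) (nat_lit 164) (nat_lit 1) (nat_lit 167) (nat_lit 1) (nat_lit 239) (nat_lit 433) (nat_lit 348)) (XT.nd (nat_lit 78) (nat_lit 0) (nat_lit 0) (XT.lf (nat_lit 228) (nat_lit 13836115496) (nat_lit 0) (nat_lit 4142730456) (nat_lit 152) (nat_lit 4142730456) (nat_lit 165) (nat_lit 1) (nat_lit 162) (nat_lit 1) (nat_lit 164) (nat_lit 1) (nat_lit 240) (nat_lit 433) (nat_lit 347)) (XT.lf (nat_lit 76) (nat_lit 3722117003) (nat_lit 0) (nat_lit 14445016839) (nat_lit 228) (nat_lit 3722117003) (nat_lit 163) (nat_lit 1) (nat_lit 162) (nat_lit 1) (nat_lit 165) (nat_lit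 1) (nat_lit 241) (nat_lit 433) (nat_lit 346))))) (XT.nd (nat_lit 156) (nat_lit 380) (nat_lit 0) (XT.nd (nat_lit 78) (nat_lit 228) (nat_lit 0) (XT.lf (nat_lit 228) (nat_lit 1096906012) (nat_lit 0) (nat_lit 10281330623) (nat_lit 152) (nat_lit 10281330623) (nat_lit 163) (nat_lit 1) (nat_lit 160) (nat_lit 1) (nat_lit 162) (nat_lit 1) (nat_lit 242) (nat_lit 433) (nat_lit 345)) (XT.lf (nat_lit 228) (nat_lit 16406674429) (nat_lit 0) (nat_lit 2513320046) (nat_lit 152) (nat_lit 2513320046) (nat_lit 160) (nat_lit 1) (nat_lit 157) (nat_lit 1) (nat_lit 159) (nat_lit 1) (nat_lit 243) (nat_lit 433) (nat_lit 344))) (XT.nd (nat_lit 78) (nat_lit 380) (nat_lit 0) (XT.lf (nat_lit 76) (nat_lit 5049926453) (nat_lit 0) (nat_lit 11108760326) (nat_lit 228) (nat_lit 5049926453) (nat_lit 158) (nat_lit 1) (nat_lit 157) (nat_lit 1) (nat_lit 160) (nat_lit 1) (nat_lit 244) (nat_lit 433) (nat_lit 343)) (XT.nd (nat_lit 78) (nat_lit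 228) (nat_lit 0) (XT.lf (nat_lit 228) (nat_lit 3867815798) (nat_lit 0) (nat_lit 8559734361) (nat_lit 152) (nat_lit 8559734361) (nat_lit 158) (nat_lit 1) (nat_lit 155) (nat_lit 1) (nat_lit 157) (nat_lit 1) (nat_lit 245) (nat_lit 433) (nat_lit 342)) (XT.lf (nat_lit 228) (nat_lit 18570773086) (nat_lit 0) (nat_lit 1099613176) (nat_lit 152) (nat_lit 1099613176) (nat_lit 155) (nat_lit 1) (nat_lit 152) (nat_lit 1) (nat_lit 154) (nat_lit 1) (nat_lit 246) (nat_lit 433) (nat_lit 341))))))))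
noncomputable def ec491 : XT := (XT.nd (nat_lit 1482) (nat_lit 1596) (nat_lit 0) (XT.nd (nat_lit 702) (nat_lit 988) (nat_lit 0) (XT.nd (nat_lit 312) (nat_lit 456) (nat_lit 0) (XT.nd (nat_lit 156) (nat_lit 152) (nat_lit 0) (XT.nd (nat_lit 78) (nat_lit 152) (nat_lit 0) (XT.lf (nat_lit 76) (nat_lit 6178904639) (nat_lit 0) (nat_lit 8194795453) (nat_lit 228) (nat_lit 6178904639) (nat_lit 153) (nat_lit 1) (nat_lit 152) (nat_lit 1) (nat_lit 155) (nat_lit 1) (nat_lit 247) (nat_lit 433) (nat_lit 340)) (XT.lf (nat_lit 228) (nat_lit 6245464449) (nat_lit 0) (nat_lit 7046868713) (nat_lit 152) (nat_lit 7046868713) (nat_lit 153) (nat_lit 1) (nat_lit 150) (nat_lit 1) (nat_lit 152) (nat_lit 1) (nat_lit 248) (nat_lit 433) (nat_lit 339))) (XT.nd (nat_lit 78) (nat_lit 152) (nat_lit 0) (XT.lf (nat_lit 76) (nat_lit 124656399) (nat_lit 0) (nat_lit 19880900781) (nat_lit 228) (nat_lit 124656399) (nat_lit 151) (nat_lit 1) (nat_lit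 150) (nat_lit 1) (nat_lit 153) (nat_lit 1) (nat_lit 249) (nat_lit 433) (nat_lit 338)) (XT.lf (nat_lit 76) (nat_lit 7132702366) (nat_lit 0) (nat_lit 5654567469) (nat_lit 152) (nat_lit 7132702366) (nat_lit 149) (nat_lit 1) (nat_lit 148) (nat_lit 1) (nat_lit 150) (nat_lit 1) (nat_lit 250) (nat_lit 433) (nat_lit 337)))) (XT.nd (nat_lit 156) (nat_lit 304) (nat_lit 0) (XT.nd (nat_lit 78) (nat_lit 0) (nat_lit 0) (XT.lf (nat_lit 228) (nat_lit 8276160104) (nat_lit 0) (nat_lit 5718969638) (nat_lit 152) (nat_lit 5718969638) (nat_lit 149) (nat_lit 1) (nat_lit 146) (nat_lit 1) (nat_lit 148) (nat_lit 1) (nat_lit 251) (nat_lit 433) (nat_lit 336)) (XT.lf (nat_lit 76) (nat_lit 1189708657) (nat_lit 0) (nat_lit 17132418874) (nat_lit 228) (nat_lit 1189708657) (nat_lit 147) (nat_lit 1) (nat_lit 146) (nat_lit 1) (nat_lit 149) (nat_lit 1) (nat_lit 252) (nat_lit 433) (nat_lit 335))) (XT.nd (nat_lit 78) (nat_lit 152) (nat_lit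 0) (XT.lf (nat_lit 76) (nat_lit 7932290002) (nat_lit 0) (nat_lit 3444978743) (nat_lit 152) (nat_lit 7932290002) (nat_lit 145) (nat_lit 1) (nat_lit 144) (nat_lit 1) (nat_lit 146) (nat_lit 1) (nat_lit 253) (nat_lit 433) (nat_lit 334)) (XT.nd (nat_lit 78) (nat_lit 0) (nat_lit 0) (XT.lf (nat_lit 228) (nat_lit 10000975460) (nat_lit 0) (nat_lit 4554937303) (nat_lit 152) (nat_lit 4554937303) (nat_lit 145) (nat_lit 1) (nat_lit 142) (nat_lit 1) (nat_lit 144) (nat_lit 1) (nat_lit 254) (nat_lit 433) (nat_lit 333)) (XT.lf (nat_lit 76) (nat_lit 2104567976) (nat_lit 0) (nat_lit 14705908996) (nat_lit 228) (nat_lit 2104567976) (nat_lit 143) (nat_lit 1) (nat_lit 142) (nat_lit 1) (nat_lit 145) (nat_lit 1) (nat_lit 255) (nat_lit 433) (nat_lit 332)))))) (XT.nd (nat_lit 390) (nat_lit 380) (nat_lit 0) (XT.nd (nat_lit 156) (nat_lit 304) (nat_lit 0) (XT.nd (nat_lit 78) (nat_lit 152) (nat_lit 0) (XT.lf (nat_lit 76) (nat_lit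 8596257640) (nat_lit 0) (nat_lit 1527778979) (nat_lit 152) (nat_lit 8596257640) (nat_lit 141) (nat_lit 1) (nat_lit 140) (nat_lit 1) (nat_lit 142) (nat_lit 1) (nat_lit 256) (nat_lit 433) (nat_lit 331)) (XT.lf (nat_lit 228) (nat_lit 11456333668) (nat_lit 0) (nat_lit 3536038576) (nat_lit 152) (nat_lit 3536038576) (nat_lit 141) (nat_lit 1) (nat_lit 138) (nat_lit 1) (nat_lit 140) (nat_lit 1) (nat_lit 257) (nat_lit 433) (nat_lit 330))) (XT.nd (nat_lit 78) (nat_lit 304) (nat_lit 0) (XT.lf (nat_lit 76) (nat_lit 2886898130) (nat_lit 0) (nat_lit 12565016202) (nat_lit 228) (nat_lit 2886898130) (nat_lit 139) (nat_lit 1) (nat_lit 138) (nat_lit 1) (nat_lit 141) (nat_lit 1) (nat_lit 258) (nat_lit 433) (nat_lit 329)) (XT.nd (nat_lit 78) (nat_lit 228) (nat_lit 0) (XT.lf (nat_lit 152) (nat_lit 133583218) (nat_lit 0) (nat_lit 9008782607) (nat_lit 76) (nat_lit 9008782607) (nat_lit 139) (nat_lit 1) (nat_lit 137) (nat_lit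 1) (nat_lit 138) (nat_lit 1) (nat_lit 259) (nat_lit 433) (nat_lit 328)) (XT.lf (nat_lit 228) (nat_lit 12674528844) (nat_lit 0) (nat_lit 2645642708) (nat_lit 152) (nat_lit 2645642708) (nat_lit 137) (nat_lit 1) (nat_lit 134) (nat_lit 1) (nat_lit 136) (nat_lit 1) (nat_lit 260) (nat_lit 433) (nat_lit 327))))) (XT.nd (nat_lit 156) (nat_lit 304) (nat_lit 0) (XT.nd (nat_lit 78) (nat_lit 76) (nat_lit 0) (XT.lf (nat_lit 76) (nat_lit 3552366492) (nat_lit 0) (nat_lit 10677452726) (nat_lit 228) (nat_lit 3552366492) (nat_lit 135) (nat_lit 1) (nat_lit 134) (nat_lit 1) (nat_lit 137) (nat_lit 1) (nat_lit 261) (nat_lit 433) (nat_lit 326)) (XT.lf (nat_lit 152) (nat_lit 1592483279) (nat_lit 0) (nat_lit 8004186663) (nat_lit 76) (nat_lit 8004186663) (nat_lit 135) (nat_lit 1) (nat_lit 133) (nat_lit 1) (nat_lit 134) (nat_lit 1) (nat_lit 262) (nat_lit 433) (nat_lit 325))) (XT.nd (nat_lit 78) (nat_lit 76) (nat_lit 0) (XT.lf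 (nat_lit 228) (nat_lit 13684188466) (nat_lit 0) (nat_lit 1868986495) (nat_lit 152) (nat_lit 1868986495) (nat_lit 133) (nat_lit 1) (nat_lit 130) (nat_lit 1) (nat_lit 132) (nat_lit 1) (nat_lit 263) (nat_lit 433) (nat_lit 324)) (XT.nd (nat_lit 78) (nat_lit 76) (nat_lit 0) (XT.lf (nat_lit 76) (nat_lit 4114867437) (nat_lit 0) (nat_lit 9014544058) (nat_lit 228) (nat_lit 4114867437) (nat_lit 131) (nat_lit 1) (nat_lit 130) (nat_lit 1) (nat_lit 133) (nat_lit 1) (nat_lit 264) (nat_lit 433) (nat_lit 323)) (XT.lf (nat_lit 152) (nat_lit 2845770982) (nat_lit 0) (nat_lit 7111616180) (nat_lit 76) (nat_lit 7111616180) (nat_lit 131) (nat_lit 1) (nat_lit 129) (nat_lit 1) (nat_lit 130) (nat_lit 1) (nat_lit 265) (nat_lit 433) (nat_lit 322))))))) (XT.nd (nat_lit 702) (nat_lit 684) (nat_lit 0) (XT.nd (nat_lit 312) (nat_lit 380) (nat_lit 0) (XT.nd (nat_lit 156) (nat_lit 304) (nat_lit 0) (XT.nd (nat_lit 78) (nat_lit 0) (nat_lit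 0) (XT.lf (nat_lit 228) (nat_lit 14510684165) (nat_lit 0) (nat_lit 1192965648) (nat_lit 152) (nat_lit 1192965648) (nat_lit 129) (nat_lit 1) (nat_lit 126) (nat_lit 1) (nat_lit 128) (nat_lit 1) (nat_lit 266) (nat_lit 433) (nat_lit 321)) (XT.lf (nat_lit 76) (nat_lit 4586720810) (nat_lit 0) (nat_lit 7550825644) (nat_lit 228) (nat_lit 4586720810) (nat_lit 127) (nat_lit 1) (nat_lit 126) (nat_lit 1) (nat_lit 129) (nat_lit 1) (nat_lit 267) (nat_lit 433) (nat_lit 320))) (XT.nd (nat_lit 78) (nat_lit 228) (nat_lit 0) (XT.lf (nat_lit 152) (nat_lit 3917625041) (nat_lit 0) (nat_lit 6318578865) (nat_lit 76) (nat_lit 6318578865) (nat_lit 127) (nat_lit 1) (nat_lit 125) (nat_lit 1) (nat_lit 126) (nat_lit 1) (nat_lit 268) (nat_lit 433) (nat_lit 319)) (XT.lf (nat_lit 228) (nat_lit 15176496638) (nat_lit 0) (nat_lit 605949434) (nat_lit 152) (nat_lit 605949434) (nat_lit 125) (nat_lit 1) (nat_lit 122) (nat_lit 1) (nat_lit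 124) (nat_lit 1) (nat_lit 269) (nat_lit 433) (nat_lit 318)))) (XT.nd (nat_lit 156) (nat_lit 304) (nat_lit 0) (XT.nd (nat_lit 78) (nat_lit 76) (nat_lit 0) (XT.lf (nat_lit 76) (nat_lit 4978848235) (nat_lit 0) (nat_lit 6263684578) (nat_lit 228) (nat_lit 4978848235) (nat_lit 123) (nat_lit 1) (nat_lit 122) (nat_lit 1) (nat_lit 125) (nat_lit 1) (nat_lit 270) (nat_lit 433) (nat_lit 317)) (XT.lf (nat_lit 152) (nat_lit 4829491518) (nat_lit 0) (nat_lit 5613975483) (nat_lit 76) (nat_lit 5613975483) (nat_lit 123) (nat_lit 1) (nat_lit 121) (nat_lit 1) (nat_lit 122) (nat_lit 1) (nat_lit 271) (nat_lit 433) (nat_lit 316))) (XT.nd (nat_lit 78) (nat_lit 76) (nat_lit 0) (XT.lf (nat_lit 228) (nat_lit 15701539823) (nat_lit 0) (nat_lit 97615998) (nat_lit 152) (nat_lit 97615998) (nat_lit 121) (nat_lit 1) (nat_lit 118) (nat_lit 1) (nat_lit 120) (nat_lit 1) (nat_lit 272) (nat_lit 433) (nat_lit 315)) (XT.nd (nat_lit 78) (nat_lit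 76) (nat_lit 0) (XT.lf (nat_lit 76) (nat_lit 5300929745) (nat_lit 0) (nat_lit 5133041252) (nat_lit 228) (nat_lit 5300929745) (nat_lit 119) (nat_lit 1) (nat_lit 118) (nat_lit 1) (nat_lit 121) (nat_lit 1) (nat_lit 273) (nat_lit 433) (nat_lit 314)) (XT.lf (nat_lit 152) (nat_lit 5600389604) (nat_lit 0) (nat_lit 4987944504) (nat_lit 76) (nat_lit 4987944504) (nat_lit 119) (nat_lit 1) (nat_lit 117) (nat_lit 1) (nat_lit 118) (nat_lit 1) (nat_lit 274) (nat_lit 433) (nat_lit 313)))))) (XT.nd (nat_lit 390) (nat_lit 304) (nat_lit 0) (XT.nd (nat_lit 156) (nat_lit 228) (nat_lit 0) (XT.nd (nat_lit 78) (nat_lit 152) (nat_lit 0) (XT.lf (nat_lit 0) (nat_lit 344572097) (nat_lit 0) (nat_lit 14731517317) (nat_lit 152) (nat_lit 344572097) (nat_lit 117) (nat_lit 3) (nat_lit 117) (nat_lit 1) (nat_lit 119) (nat_lit 1) (nat_lit 275) (nat_lit 433) (nat_lit 312)) (XT.lf (nat_lit 76) (nat_lit 5561542930) (nat_lit 0) (nat_lit 4141066526)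 (nat_lit 152) (nat_lit 5561542930) (nat_lit 116) (nat_lit 1) (nat_lit 115) (nat_lit 1) (nat_lit 117) (nat_lit 1) (nat_lit 276) (nat_lit 433) (nat_lit 311))) (XT.nd (nat_lit 78) (nat_lit 152) (nat_lit 0) (XT.lf (nat_lit 152) (nat_lit 6247183279) (nat_lit 0) (nat_lit 4431724087) (nat_lit 76) (nat_lit 4431724087) (nat_lit 116) (nat_lit 1) (nat_lit 114) (nat_lit 1) (nat_lit 115) (nat_lit 1) (nat_lit 277) (nat_lit 433) (nat_lit 310)) (XT.nd (nat_lit 78) (nat_lit 152) (nat_lit 0) (XT.lf (nat_lit 0) (nat_lit 725721988) (nat_lit 0) (nat_lit 13508336475) (nat_lit 152) (nat_lit 725721988) (nat_lit 114) (nat_lit 3) (nat_lit 114) (nat_lit 1) (nat_lit 116) (nat_lit 1) (nat_lit 278) (nat_lit 433) (nat_lit 309)) (XT.lf (nat_lit 76) (nat_lit 5768286539) (nat_lit 0) (nat_lit 3271930436) (nat_lit 152) (nat_lit 5768286539) (nat_lit 113) (nat_lit 1) (nat_lit 112) (nat_lit 1) (nat_lit 114) (nat_lit 1) (nat_lit 279) (nat_lit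 433) (nat_lit 308))))) (XT.nd (nat_lit 156) (nat_lit 228) (nat_lit 0) (XT.nd (nat_lit 78) (nat_lit 0) (nat_lit 0) (XT.lf (nat_lit 152) (nat_lit 6784822646) (nat_lit 0) (nat_lit 3937529451) (nat_lit 76) (nat_lit 3937529451) (nat_lit 113) (nat_lit 1) (nat_lit 111) (nat_lit 1) (nat_lit 112) (nat_lit 1) (nat_lit 280) (nat_lit 433) (nat_lit 307)) (XT.lf (nat_lit 0) (nat_lit 1052148124) (nat_lit 0) (nat_lit 12409335534) (nat_lit 152) (nat_lit 1052148124) (nat_lit 111) (nat_lit 3) (nat_lit 111) (nat_lit 1) (nat_lit 113) (nat_lit 1) (nat_lit 281) (nat_lit 433) (nat_lit 306))) (XT.nd (nat_lit 78) (nat_lit 76) (nat_lit 0) (XT.lf (nat_lit 76) (nat_lit 5927890286) (nat_lit 0) (nat_lit 2511578944) (nat_lit 152) (nat_lit 5927890286) (nat_lit 110) (nat_lit 1) (nat_lit 109) (nat_lit 1) (nat_lit 111) (nat_lit 1) (nat_lit 282) (nat_lit 433) (nat_lit 305)) (XT.nd (nat_lit 78) (nat_lit 0) (nat_lit 0) (XT.lf (nat_lit 152)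 (nat_lit 7226558321) (nat_lit 0) (nat_lit 3498443918) (nat_lit 76) (nat_lit 3498443918) (nat_lit 110) (nat_lit 1) (nat_lit 108) (nat_lit 1) (nat_lit 109) (nat_lit 1) (nat_lit 283) (nat_lit 433) (nat_lit 304)) (XT.lf (nat_lit 0) (nat_lit 1330308851) (nat_lit 0) (nat_lit 11421022765) (nat_lit 152) (nat_lit 1330308851) (nat_lit 108) (nat_lit 3) (nat_lit 108) (nat_lit 1) (nat_lit 110) (nat_lit 1) (nat_lit 284) (nat_lit 433) (nat_lit 303))))))))
noncomputable def ec492 : XT := (XT.nd (nat_lit 1404) (nat_lit 1444) (nat_lit 0) (XT.nd (nat_lit 702) (nat_lit 684) (nat_lit 0) (XT.nd (nat_lit 312) (nat_lit 304) (nat_lit 0) (XT.nd (nat_lit 156) (nat_lit 152) (nat_lit 0) (XT.nd (nat_lit 78) (nat_lit 76) (nat_lit 0) (XT.lf (nat_lit 76) (nat_lit 6046312388) (nat_lit 0) (nat_lit 1847535584) (nat_lit 152) (nat_lit 6046312388) (nat_lit 107) (nat_lit 1) (nat_lit 106) (nat_lit 1) (nat_lit 108) (nat_lit 1) (nat_lit 285)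 (nat_lit 433) (nat_lit 302)) (XT.lf (nat_lit 152) (nat_lit 7584131894) (nat_lit 0) (nat_lit 3108322109) (nat_lit 76) (nat_lit 3108322109) (nat_lit 107) (nat_lit 1) (nat_lit 105) (nat_lit 1) (nat_lit 106) (nat_lit 1) (nat_lit 286) (nat_lit 433) (nat_lit 301))) (XT.nd (nat_lit 78) (nat_lit 152) (nat_lit 0) (XT.lf (nat_lit 0) (nat_lit 1565931961) (nat_lit 0) (nat_lit 10531400578) (nat_lit 152) (nat_lit 1565931961) (nat_lit 105) (nat_lit 3) (nat_lit 105) (nat_lit 1) (nat_lit 107) (nat_lit 1) (nat_lit 287) (nat_lit 433) (nat_lit 300)) (XT.lf (nat_lit 76) (nat_lit 6128826214) (nat_lit 0) (nat_lit 1268725245) (nat_lit 152) (nat_lit 6128826214) (nat_lit 104) (nat_lit 1) (nat_lit 103) (nat_lit 1) (nat_lit 105) (nat_lit 1) (nat_lit 288) (nat_lit 433) (nat_lit 299)))) (XT.nd (nat_lit 156) (nat_lit 228) (nat_lit 0) (XT.nd (nat_lit 78) (nat_lit 0) (nat_lit 0) (XT.lf (nat_lit 152) (nat_lit 7867945118) (nat_lit 0)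 (nat_lit 2761703935) (nat_lit 76) (nat_lit 2761703935) (nat_lit 104) (nat_lit 1) (nat_lit 102) (nat_lit 1) (nat_lit 103) (nat_lit 1) (nat_lit 289) (nat_lit 433) (nat_lit 298)) (XT.lf (nat_lit 0) (nat_lit 1764096457) (nat_lit 0) (nat_lit 9729799201) (nat_lit 152) (nat_lit 1764096457) (nat_lit 102) (nat_lit 3) (nat_lit 102) (nat_lit 1) (nat_lit 104) (nat_lit 1) (nat_lit 290) (nat_lit 433) (nat_lit 297))) (XT.nd (nat_lit 78) (nat_lit 76) (nat_lit 0) (XT.lf (nat_lit 76) (nat_lit 6180097242) (nat_lit 0) (nat_lit 765317607) (nat_lit 152) (nat_lit 6180097242) (nat_lit 101) (nat_lit 1) (nat_lit 100) (nat_lit 1) (nat_lit 102) (nat_lit 1) (nat_lit 291) (nat_lit 433) (nat_lit 296)) (XT.nd (nat_lit 78) (nat_lit 0) (nat_lit 0) (XT.lf (nat_lit 152) (nat_lit 8087210205) (nat_lit 0) (nat_lit 2453738176) (nat_lit 76) (nat_lit 2453738176) (nat_lit 101) (nat_lit 1) (nat_lit 99) (nat_lit 1) (nat_lit 100) (nat_lit 1) (nat_lit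 292) (nat_lit 433) (nat_lit 295)) (XT.lf (nat_lit 0) (nat_lit 1929305194) (nat_lit 0) (nat_lit 9006728911) (nat_lit 152) (nat_lit 1929305194) (nat_lit 99) (nat_lit 3) (nat_lit 99) (nat_lit 1) (nat_lit 101) (nat_lit 1) (nat_lit 293) (nat_lit 433) (nat_lit 294)))))) (XT.nd (nat_lit 312) (nat_lit 380) (nat_lit 0) (XT.nd (nat_lit 156) (nat_lit 76) (nat_lit 0) (XT.nd (nat_lit 78) (nat_lit 76) (nat_lit 0) (XT.lf (nat_lit 76) (nat_lit 6204251435) (nat_lit 0) (nat_lit 328588042) (nat_lit 152) (nat_lit 6204251435) (nat_lit 98) (nat_lit 1) (nat_lit 97) (nat_lit 1) (nat_lit 99) (nat_lit 1) (nat_lit 294) (nat_lit 433) (nat_lit 293)) (XT.lf (nat_lit 152) (nat_lit 8250083340) (nat_lit 0) (nat_lit 2180114588) (nat_lit 76) (nat_lit 2180114588) (nat_lit 98) (nat_lit 1) (nat_lit 96) (nat_lit 1) (nat_lit 97) (nat_lit 1) (nat_lit 295) (nat_lit 433) (nat_lit 292))) (XT.nd (nat_lit 78) (nat_lit 76) (nat_lit 0) (XT.lf (nat_lit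 0) (nat_lit 2065549416) (nat_lit 0) (nat_lit 8353748720) (nat_lit 152) (nat_lit 2065549416) (nat_lit 96) (nat_lit 3) (nat_lit 96) (nat_lit 1) (nat_lit 98) (nat_lit 1) (nat_lit 296) (nat_lit 433) (nat_lit 291)) (XT.lf (nat_lit 76) (nat_lit 50185249) (nat_lit 0) (nat_lit 6155233117) (nat_lit 76) (nat_lit 6155233117) (nat_lit 96) (nat_lit 3) (nat_lit 95) (nat_lit 1) (nat_lit 96) (nat_lit 1) (nat_lit 297) (nat_lit 433) (nat_lit 290)))) (XT.nd (nat_lit 156) (nat_lit 228) (nat_lit 0) (XT.nd (nat_lit 78) (nat_lit 0) (nat_lit 0) (XT.lf (nat_lit 152) (nat_lit 8363783279) (nat_lit 0) (nat_lit 1937003575) (nat_lit 76) (nat_lit 1937003575) (nat_lit 95) (nat_lit 1) (nat_lit 93) (nat_lit 1) (nat_lit 94) (nat_lit 1) (nat_lit 298) (nat_lit 433) (nat_lit 289)) (XT.lf (nat_lit 0) (nat_lit 2176366076) (nat_lit 0) (nat_lit 7763349713) (nat_lit 152) (nat_lit 2176366076) (nat_lit 93) (nat_lit 3) (nat_lit 93) (nat_lit 1)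 (nat_lit 95) (nat_lit 1) (nat_lit 299) (nat_lit 433) (nat_lit 288))) (XT.nd (nat_lit 78) (nat_lit 152) (nat_lit 0) (XT.lf (nat_lit 76) (nat_lit 382396488) (nat_lit 0) (nat_lit 5806652446) (nat_lit 76) (nat_lit 5806652446) (nat_lit 93) (nat_lit 3) (nat_lit 92) (nat_lit 1) (nat_lit 93) (nat_lit 1) (nat_lit 300) (nat_lit 433) (nat_lit 287)) (XT.nd (nat_lit 78) (nat_lit 0) (nat_lit 0) (XT.lf (nat_lit 152) (nat_lit 8434696694) (nat_lit 0) (nat_lit 1721002588) (nat_lit 76) (nat_lit 1721002588) (nat_lit 92) (nat_lit 1) (nat_lit 90) (nat_lit 1) (nat_lit 91) (nat_lit 1) (nat_lit 301) (nat_lit 433) (nat_lit 286)) (XT.lf (nat_lit 0) (nat_lit 2264888773) (nat_lit 0) (nat_lit 7228851371) (nat_lit 152) (nat_lit 2264888773) (nat_lit 90) (nat_lit 3) (nat_lit 90) (nat_lit 1) (nat_lit 92) (nat_lit 1) (nat_lit 302) (nat_lit 433) (nat_lit 285))))))) (XT.nd (nat_lit 702) (nat_lit 760) (nat_lit 0) (XT.nd (nat_lit 312) (nat_lit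 380) (nat_lit 0) (XT.nd (nat_lit 156) (nat_lit 76) (nat_lit 0) (XT.nd (nat_lit 78) (nat_lit 152) (nat_lit 0) (XT.lf (nat_lit 76) (nat_lit 667722817) (nat_lit 0) (nat_lit 5487103980) (nat_lit 76) (nat_lit 5487103980) (nat_lit 90) (nat_lit 3) (nat_lit 89) (nat_lit 1) (nat_lit 90) (nat_lit 1) (nat_lit 303) (nat_lit 433) (nat_lit 284)) (XT.lf (nat_lit 152) (nat_lit 8468471755) (nat_lit 0) (nat_lit 1529088509) (nat_lit 76) (nat_lit 1529088509) (nat_lit 89) (nat_lit 1) (nat_lit 87) (nat_lit 1) (nat_lit 88) (nat_lit 1) (nat_lit 304) (nat_lit 433) (nat_lit 283))) (XT.nd (nat_lit 78) (nat_lit 76) (nat_lit 0) (XT.lf (nat_lit 0) (nat_lit 2333892983) (nat_lit 0) (nat_lit 6744309458) (nat_lit 152) (nat_lit 2333892983) (nat_lit 87) (nat_lit 3) (nat_lit 87) (nat_lit 1) (nat_lit 89) (nat_lit 1) (nat_lit 305) (nat_lit 433) (nat_lit 282)) (XT.lf (nat_lit 76) (nat_lit 911679084) (nat_lit 0) (nat_lit 5193636827) (nat_lit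 76) (nat_lit 5193636827) (nat_lit 87) (nat_lit 3) (nat_lit 86) (nat_lit 1) (nat_lit 87) (nat_lit 1) (nat_lit 306) (nat_lit 433) (nat_lit 281)))) (XT.nd (nat_lit 156) (nat_lit 228) (nat_lit 0) (XT.nd (nat_lit 78) (nat_lit 0) (nat_lit 0) (XT.lf (nat_lit 152) (nat_lit 8470101247) (nat_lit 0) (nat_lit 1358575335) (nat_lit 76) (nat_lit 1358575335) (nat_lit 86) (nat_lit 1) (nat_lit 84) (nat_lit 1) (nat_lit 85) (nat_lit 1) (nat_lit 307) (nat_lit 433) (nat_lit 280)) (XT.lf (nat_lit 0) (nat_lit 2385836253) (nat_lit 0) (nat_lit 6304434167) (nat_lit 152) (nat_lit 2385836253) (nat_lit 84) (nat_lit 3) (nat_lit 84) (nat_lit 1) (nat_lit 86) (nat_lit 1) (nat_lit 308) (nat_lit 433) (nat_lit 279))) (XT.nd (nat_lit 78) (nat_lit 152) (nat_lit 0) (XT.lf (nat_lit 76) (nat_lit 1119156815) (nat_lit 0) (nat_lit 4923620809) (nat_lit 76) (nat_lit 4923620809) (nat_lit 84) (nat_lit 3) (nat_lit 83) (nat_lit 1) (nat_lit 84) (nat_lit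 1) (nat_lit 309) (nat_lit 433) (nat_lit 278)) (XT.nd (nat_lit 78) (nat_lit 0) (nat_lit 0) (XT.lf (nat_lit 152) (nat_lit 8443996394) (nat_lit 0) (nat_lit 1207076589) (nat_lit 76) (nat_lit 1207076589) (nat_lit 83) (nat_lit 1) (nat_lit 81) (nat_lit 1) (nat_lit 82) (nat_lit 1) (nat_lit 310) (nat_lit 433) (nat_lit 277)) (XT.lf (nat_lit 0) (nat_lit 2422893897) (nat_lit 0) (nat_lit 5904517390) (nat_lit 152) (nat_lit 2422893897) (nat_lit 81) (nat_lit 3) (nat_lit 81) (nat_lit 1) (nat_lit 83) (nat_lit 1) (nat_lit 311) (nat_lit 433) (nat_lit 276)))))) (XT.nd (nat_lit 390) (nat_lit 304) (nat_lit 0) (XT.nd (nat_lit 156) (nat_lit 228) (nat_lit 0) (XT.nd (nat_lit 78) (nat_lit 152) (nat_lit 0) (XT.lf (nat_lit 76) (nat_lit 1294493963) (nat_lit 0) (nat_lit 4674710946) (nat_lit 76) (nat_lit 4674710946) (nat_lit 81) (nat_lit 3) (nat_lit 80) (nat_lit 1) (nat_lit 81) (nat_lit 1) (nat_lit 312) (nat_lit 433) (nat_lit 275))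 (XT.lf (nat_lit 152) (nat_lit 8394052441) (nat_lit 0) (nat_lit 1072471915) (nat_lit 76) (nat_lit 1072471915) (nat_lit 80) (nat_lit 1) (nat_lit 78) (nat_lit 1) (nat_lit 79) (nat_lit 1) (nat_lit 313) (nat_lit 433) (nat_lit 274))) (XT.nd (nat_lit 78) (nat_lit 228) (nat_lit 0) (XT.lf (nat_lit 0) (nat_lit 2446990708) (nat_lit 0) (nat_lit 5540368087) (nat_lit 152) (nat_lit 2446990708) (nat_lit 78) (nat_lit 3) (nat_lit 78) (nat_lit 1) (nat_lit 80) (nat_lit 1) (nat_lit 314) (nat_lit 433) (nat_lit 273)) (XT.nd (nat_lit 78) (nat_lit 152) (nat_lit 0) (XT.lf (nat_lit 76) (nat_lit 1441536875) (nat_lit 0) (nat_lit 4444815883) (nat_lit 76) (nat_lit 4444815883) (nat_lit 78) (nat_lit 3) (nat_lit 77) (nat_lit 1) (nat_lit 78) (nat_lit 1) (nat_lit 315) (nat_lit 433) (nat_lit 272)) (XT.lf (nat_lit 152) (nat_lit 8323706885) (nat_lit 0) (nat_lit 952877406) (nat_lit 76) (nat_lit 952877406) (nat_lit 77) (nat_lit 1) (nat_lit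 75) (nat_lit 1) (nat_lit 76) (nat_lit 1) (nat_lit 316) (nat_lit 433) (nat_lit 271))))) (XT.nd (nat_lit 156) (nat_lit 228) (nat_lit 0) (XT.nd (nat_lit 78) (nat_lit 76) (nat_lit 0) (XT.lf (nat_lit 0) (nat_lit 2459829125) (nat_lit 0) (nat_lit 5208254861) (nat_lit 152) (nat_lit 2459829125) (nat_lit 75) (nat_lit 3) (nat_lit 75) (nat_lit 1) (nat_lit 77) (nat_lit 1) (nat_lit 317) (nat_lit 433) (nat_lit 270)) (XT.lf (nat_lit 76) (nat_lit 1563695343) (nat_lit 0) (nat_lit 4232069843) (nat_lit 76) (nat_lit 4232069843) (nat_lit 75) (nat_lit 3) (nat_lit 74) (nat_lit 1) (nat_lit 75) (nat_lit 1) (nat_lit 318) (nat_lit 433) (nat_lit 269))) (XT.nd (nat_lit 78) (nat_lit 76) (nat_lit 0) (XT.lf (nat_lit 152) (nat_lit 8235991206) (nat_lit 0) (nat_lit 846619233) (nat_lit 76) (nat_lit 846619233) (nat_lit 74) (nat_lit 1) (nat_lit 72) (nat_lit 1) (nat_lit 73) (nat_lit 1) (nat_lit 319) (nat_lit 433) (nat_lit 268)) (XT.nd (nat_lit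 78) (nat_lit 76) (nat_lit 0) (XT.lf (nat_lit 0) (nat_lit 2462914255) (nat_lit 0) (nat_lit 4904854923) (nat_lit 152) (nat_lit 2462914255) (nat_lit 72) (nat_lit 3) (nat_lit 72) (nat_lit 1) (nat_lit 74) (nat_lit 1) (nat_lit 320) (nat_lit 433) (nat_lit 267)) (XT.lf (nat_lit 76) (nat_lit 1663991506) (nat_lit 0) (nat_lit 4034807689) (nat_lit 76) (nat_lit 4034807689) (nat_lit 72) (nat_lit 3) (nat_lit 71) (nat_lit 1) (nat_lit 72) (nat_lit 1) (nat_lit 321) (nat_lit 433) (nat_lit 266))))))))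
noncomputable def ec493 : XT := (XT.nd (nat_lit 1482) (nat_lit 1368) (nat_lit 0) (XT.nd (nat_lit 702) (nat_lit 836) (nat_lit 0) (XT.nd (nat_lit 312) (nat_lit 304) (nat_lit 0) (XT.nd (nat_lit 156) (nat_lit 228) (nat_lit 0) (XT.nd (nat_lit 78) (nat_lit 0) (nat_lit 0) (XT.lf (nat_lit 152) (nat_lit 8133576802) (nat_lit 0) (nat_lit 752210223) (nat_lit 76) (nat_lit 752210223) (nat_lit 71) (nat_lit 1) (nat_lit 69) (nat_lit 1) (nat_lit 70) (nat_lit 1) (nat_lit 322) (nat_lit 433) (nat_lit 265)) (XT.lf (nat_lit 0) (nat_lit 2457576092) (nat_lit 0) (nat_lit 4627208747) (nat_lit 152) (nat_lit 2457576092) (nat_lit 69) (nat_lit 3) (nat_lit 69) (nat_lit 1) (nat_lit 71) (nat_lit 1) (nat_lit 323) (nat_lit 433) (nat_lit 264))) (XT.nd (nat_lit 78) (nat_lit 152) (nat_lit 0) (XT.lf (nat_lit 76) (nat_lit 1745103296) (nat_lit 0) (nat_lit 3851542767) (nat_lit 76) (nat_lit 3851542767) (nat_lit 69) (nat_lit 3) (nat_lit 68) (nat_lit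 1) (nat_lit 69) (nat_lit 1) (nat_lit 324) (nat_lit 433) (nat_lit 263)) (XT.lf (nat_lit 152) (nat_lit 8018815787) (nat_lit 0) (nat_lit 668329040) (nat_lit 76) (nat_lit 668329040) (nat_lit 68) (nat_lit 1) (nat_lit 66) (nat_lit 1) (nat_lit 67) (nat_lit 1) (nat_lit 325) (nat_lit 433) (nat_lit 262)))) (XT.nd (nat_lit 156) (nat_lit 228) (nat_lit 0) (XT.nd (nat_lit 78) (nat_lit 76) (nat_lit 0) (XT.lf (nat_lit 0) (nat_lit 2444989261) (nat_lit 0) (nat_lit 4372679774) (nat_lit 152) (nat_lit 2444989261) (nat_lit 66) (nat_lit 3) (nat_lit 66) (nat_lit 1) (nat_lit 68) (nat_lit 1) (nat_lit 326) (nat_lit 433) (nat_lit 261)) (XT.lf (nat_lit 76) (nat_lit 1809403030) (nat_lit 0) (nat_lit 3680947218) (nat_lit 76) (nat_lit 3680947218) (nat_lit 66) (nat_lit 3) (nat_lit 65) (nat_lit 1) (nat_lit 66) (nat_lit 1) (nat_lit 327) (nat_lit 433) (nat_lit 260))) (XT.nd (nat_lit 78) (nat_lit 76) (nat_lit 0) (XT.lf (nat_lit 152) (nat_lit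 7893777214) (nat_lit 0) (nat_lit 593801696) (nat_lit 76) (nat_lit 593801696) (nat_lit 65) (nat_lit 1) (nat_lit 63) (nat_lit 1) (nat_lit 64) (nat_lit 1) (nat_lit 328) (nat_lit 433) (nat_lit 259)) (XT.nd (nat_lit 78) (nat_lit 76) (nat_lit 0) (XT.lf (nat_lit 0) (nat_lit 2426190547) (nat_lit 0) (nat_lit 4138918600) (nat_lit 152) (nat_lit 2426190547) (nat_lit 63) (nat_lit 3) (nat_lit 63) (nat_lit 1) (nat_lit 65) (nat_lit 1) (nat_lit 329) (nat_lit 433) (nat_lit 258)) (XT.lf (nat_lit 76) (nat_lit 1858991695) (nat_lit 0) (nat_lit 3521834465) (nat_lit 76) (nat_lit 3521834465) (nat_lit 63) (nat_lit 3) (nat_lit 62) (nat_lit 1) (nat_lit 63) (nat_lit 1) (nat_lit 330) (nat_lit 433) (nat_lit 257)))))) (XT.nd (nat_lit 390) (nat_lit 456) (nat_lit 0) (XT.nd (nat_lit 156) (nat_lit 228) (nat_lit 0) (XT.nd (nat_lit 78) (nat_lit 0) (nat_lit 0) (XT.lf (nat_lit 152) (nat_lit 7760279248) (nat_lit 0) (nat_lit 527585116) (nat_lit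 76) (nat_lit 527585116) (nat_lit 62) (nat_lit 1) (nat_lit 60) (nat_lit 1) (nat_lit 61) (nat_lit 1) (nat_lit 331) (nat_lit 433) (nat_lit 256)) (XT.lf (nat_lit 0) (nat_lit 2402094466) (nat_lit 0) (nat_lit 3923831158) (nat_lit 152) (nat_lit 2402094466) (nat_lit 60) (nat_lit 3) (nat_lit 60) (nat_lit 1) (nat_lit 62) (nat_lit 1) (nat_lit 332) (nat_lit 433) (nat_lit 255))) (XT.nd (nat_lit 78) (nat_lit 152) (nat_lit 0) (XT.lf (nat_lit 76) (nat_lit 1895729401) (nat_lit 0) (nat_lit 3373143665) (nat_lit 76) (nat_lit 3373143665) (nat_lit 60) (nat_lit 3) (nat_lit 59) (nat_lit 1) (nat_lit 60) (nat_lit 1) (nat_lit 333) (nat_lit 433) (nat_lit 254)) (XT.nd (nat_lit 78) (nat_lit 0) (nat_lit 0) (XT.lf (nat_lit 152) (nat_lit 7619917731) (nat_lit 0) (nat_lit 468752542) (nat_lit 76) (nat_lit 468752542) (nat_lit 59) (nat_lit 1) (nat_lit 57) (nat_lit 1) (nat_lit 58) (nat_lit 1) (nat_lit 334) (nat_lit 433) (nat_lit 253)) (XT.lf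 (nat_lit 0) (nat_lit 2373507092) (nat_lit 0) (nat_lit 3725550433) (nat_lit 152) (nat_lit 2373507092) (nat_lit 57) (nat_lit 3) (nat_lit 57) (nat_lit 1) (nat_lit 59) (nat_lit 1) (nat_lit 335) (nat_lit 433) (nat_lit 252))))) (XT.nd (nat_lit 156) (nat_lit 228) (nat_lit 0) (XT.nd (nat_lit 78) (nat_lit 152) (nat_lit 0) (XT.lf (nat_lit 76) (nat_lit 1921262434) (nat_lit 0) (nat_lit 3233925872) (nat_lit 76) (nat_lit 3233925872) (nat_lit 57) (nat_lit 3) (nat_lit 56) (nat_lit 1) (nat_lit 57) (nat_lit 1) (nat_lit 336) (nat_lit 433) (nat_lit 251)) (XT.lf (nat_lit 152) (nat_lit 7474091541) (nat_lit 0) (nat_lit 416480562) (nat_lit 76) (nat_lit 416480562) (nat_lit 56) (nat_lit 1) (nat_lit 54) (nat_lit 1) (nat_lit 55) (nat_lit 1) (nat_lit 337) (nat_lit 433) (nat_lit 250))) (XT.nd (nat_lit 78) (nat_lit 228) (nat_lit 0) (XT.lf (nat_lit 0) (nat_lit 2341138339) (nat_lit 0) (nat_lit 3542411336) (nat_lit 152) (nat_lit 2341138339)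 (nat_lit 54) (nat_lit 3) (nat_lit 54) (nat_lit 1) (nat_lit 56) (nat_lit 1) (nat_lit 338) (nat_lit 433) (nat_lit 249)) (XT.nd (nat_lit 78) (nat_lit 152) (nat_lit 0) (XT.lf (nat_lit 76) (nat_lit 1937047289) (nat_lit 0) (nat_lit 3103331752) (nat_lit 76) (nat_lit 3103331752) (nat_lit 54) (nat_lit 3) (nat_lit 53) (nat_lit 1) (nat_lit 54) (nat_lit 1) (nat_lit 339) (nat_lit 433) (nat_lit 248)) (XT.lf (nat_lit 152) (nat_lit 7324025112) (nat_lit 0) (nat_lit 370037585) (nat_lit 76) (nat_lit 370037585) (nat_lit 53) (nat_lit 1) (nat_lit 51) (nat_lit 1) (nat_lit 52) (nat_lit 1) (nat_lit 340) (nat_lit 433) (nat_lit 247))))))) (XT.nd (nat_lit 702) (nat_lit 684) (nat_lit 0) (XT.nd (nat_lit 312) (nat_lit 456) (nat_lit 0) (XT.nd (nat_lit 156) (nat_lit 152) (nat_lit 0) (XT.nd (nat_lit 78) (nat_lit 76) (nat_lit 0) (XT.lf (nat_lit 0) (nat_lit 2305612868) (nat_lit 0) (nat_lit 3372928367) (nat_lit 152) (nat_lit 2305612868)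 (nat_lit 51) (nat_lit 3) (nat_lit 51) (nat_lit 1) (nat_lit 53) (nat_lit 1) (nat_lit 341) (nat_lit 433) (nat_lit 246)) (XT.lf (nat_lit 76) (nat_lit 1944372010) (nat_lit 0) (nat_lit 2980600649) (nat_lit 76) (nat_lit 2980600649) (nat_lit 51) (nat_lit 3) (nat_lit 50) (nat_lit 1) (nat_lit 51) (nat_lit 1) (nat_lit 342) (nat_lit 433) (nat_lit 245))) (XT.nd (nat_lit 78) (nat_lit 0) (nat_lit 0) (XT.lf (nat_lit 152) (nat_lit 7170788425) (nat_lit 0) (nat_lit 328773602) (nat_lit 76) (nat_lit 328773602) (nat_lit 50) (nat_lit 1) (nat_lit 48) (nat_lit 1) (nat_lit 49) (nat_lit 1) (nat_lit 343) (nat_lit 433) (nat_lit 244)) (XT.lf (nat_lit 0) (nat_lit 2267479769) (nat_lit 0) (nat_lit 3215775766) (nat_lit 152) (nat_lit 2267479769) (nat_lit 48) (nat_lit 3) (nat_lit 48) (nat_lit 1) (nat_lit 50) (nat_lit 1) (nat_lit 344) (nat_lit 433) (nat_lit 243)))) (XT.nd (nat_lit 156) (nat_lit 228) (nat_lit 0) (XT.nd (nat_lit 78) (nat_lit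 152) (nat_lit 0) (XT.lf (nat_lit 76) (nat_lit 1944375156) (nat_lit 0) (nat_lit 2865050881) (nat_lit 76) (nat_lit 2865050881) (nat_lit 48) (nat_lit 3) (nat_lit 47) (nat_lit 1) (nat_lit 48) (nat_lit 1) (nat_lit 345) (nat_lit 433) (nat_lit 242)) (XT.lf (nat_lit 152) (nat_lit 7015314749) (nat_lit 0) (nat_lit 292111087) (nat_lit 76) (nat_lit 292111087) (nat_lit 47) (nat_lit 1) (nat_lit 45) (nat_lit 1) (nat_lit 46) (nat_lit 1) (nat_lit 346) (nat_lit 433) (nat_lit 241))) (XT.nd (nat_lit 78) (nat_lit 228) (nat_lit 0) (XT.lf (nat_lit 0) (nat_lit 2227221162) (nat_lit 0) (nat_lit 3069769873) (nat_lit 152) (nat_lit 2227221162) (nat_lit 45) (nat_lit 3) (nat_lit 45) (nat_lit 1) (nat_lit 47) (nat_lit 1) (nat_lit 347) (nat_lit 433) (nat_lit 240)) (XT.nd (nat_lit 78) (nat_lit 152) (nat_lit 0) (XT.lf (nat_lit 76) (nat_lit 1938062636) (nat_lit 0) (nat_lit 2756071093) (nat_lit 76) (nat_lit 2756071093) (nat_lit 45) (nat_lit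 3) (nat_lit 44) (nat_lit 1) (nat_lit 45) (nat_lit 1) (nat_lit 348) (nat_lit 433) (nat_lit 239)) (XT.lf (nat_lit 152) (nat_lit 6858416399) (nat_lit 0) (nat_lit 259536917) (nat_lit 76) (nat_lit 259536917) (nat_lit 44) (nat_lit 1) (nat_lit 42) (nat_lit 1) (nat_lit 43) (nat_lit 1) (nat_lit 349) (nat_lit 433) (nat_lit 238)))))) (XT.nd (nat_lit 390) (nat_lit 380) (nat_lit 0) (XT.nd (nat_lit 156) (nat_lit 228) (nat_lit 0) (XT.nd (nat_lit 78) (nat_lit 76) (nat_lit 0) (XT.lf (nat_lit 0) (nat_lit 2185259831) (nat_lit 0) (nat_lit 2933853448) (nat_lit 152) (nat_lit 2185259831) (nat_lit 42) (nat_lit 3) (nat_lit 42) (nat_lit 1) (nat_lit 44) (nat_lit 1) (nat_lit 350) (nat_lit 433) (nat_lit 237)) (XT.lf (nat_lit 76) (nat_lit 1926322670) (nat_lit 0) (nat_lit 2653112589) (nat_lit 76) (nat_lit 2653112589) (nat_lit 42) (nat_lit 3) (nat_lit 41) (nat_lit 1) (nat_lit 42) (nat_lit 1) (nat_lit 351) (nat_lit 433) (nat_lit 236)))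 (XT.nd (nat_lit 78) (nat_lit 76) (nat_lit 0) (XT.lf (nat_lit 152) (nat_lit 6700798710) (nat_lit 0) (nat_lit 230595189) (nat_lit 76) (nat_lit 230595189) (nat_lit 41) (nat_lit 1) (nat_lit 39) (nat_lit 1) (nat_lit 40) (nat_lit 1) (nat_lit 352) (nat_lit 433) (nat_lit 235)) (XT.nd (nat_lit 78) (nat_lit 76) (nat_lit 0) (XT.lf (nat_lit 0) (nat_lit 2141966004) (nat_lit 0) (nat_lit 2807081736) (nat_lit 152) (nat_lit 2141966004) (nat_lit 39) (nat_lit 3) (nat_lit 39) (nat_lit 1) (nat_lit 41) (nat_lit 1) (nat_lit 353) (nat_lit 433) (nat_lit 234)) (XT.lf (nat_lit 76) (nat_lit 1909939072) (nat_lit 0) (nat_lit 2555682502) (nat_lit 76) (nat_lit 2555682502) (nat_lit 39) (nat_lit 3) (nat_lit 38) (nat_lit 1) (nat_lit 39) (nat_lit 1) (nat_lit 354) (nat_lit 433) (nat_lit 233))))) (XT.nd (nat_lit 156) (nat_lit 228) (nat_lit 0) (XT.nd (nat_lit 78) (nat_lit 0) (nat_lit 0) (XT.lf (nat_lit 152) (nat_lit 6543072447) (nat_lit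 0) (nat_lit 204880839) (nat_lit 76) (nat_lit 204880839) (nat_lit 38) (nat_lit 1) (nat_lit 36) (nat_lit 1) (nat_lit 37) (nat_lit 1) (nat_lit 355) (nat_lit 433) (nat_lit 232)) (XT.lf (nat_lit 0) (nat_lit 2097663369) (nat_lit 0) (nat_lit 2688610083) (nat_lit 152) (nat_lit 2097663369) (nat_lit 36) (nat_lit 3) (nat_lit 36) (nat_lit 1) (nat_lit 38) (nat_lit 1) (nat_lit 356) (nat_lit 433) (nat_lit 231))) (XT.nd (nat_lit 78) (nat_lit 152) (nat_lit 0) (XT.lf (nat_lit 76) (nat_lit 1889603051) (nat_lit 0) (nat_lit 2463337724) (nat_lit 76) (nat_lit 2463337724) (nat_lit 36) (nat_lit 3) (nat_lit 35) (nat_lit 1) (nat_lit 36) (nat_lit 1) (nat_lit 357) (nat_lit 433) (nat_lit 230)) (XT.nd (nat_lit 78) (nat_lit 0) (nat_lit 0) (XT.lf (nat_lit 152) (nat_lit 6385764815) (nat_lit 0) (nat_lit 182033972) (nat_lit 76) (nat_lit 182033972) (nat_lit 35) (nat_lit 1) (nat_lit 33) (nat_lit 1) (nat_lit 34) (nat_lit 1) (nat_lit 358)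 (nat_lit 433) (nat_lit 229)) (XT.lf (nat_lit 0) (nat_lit 2052634421) (nat_lit 0) (nat_lit 2577682923) (nat_lit 152) (nat_lit 2052634421) (nat_lit 33) (nat_lit 3) (nat_lit 33) (nat_lit 1) (nat_lit 35) (nat_lit 1) (nat_lit 359) (nat_lit 433) (nat_lit 228))))))))
noncomputable def ec494 : XT := (XT.nd (nat_lit 42198) (nat_lit 0) (nat_lit 11020) (XT.nd (nat_lit 702) (nat_lit 532) (nat_lit 0) (XT.nd (nat_lit 312) (nat_lit 380) (nat_lit 0) (XT.nd (nat_lit 156) (nat_lit 76) (nat_lit 0) (XT.nd (nat_lit 78) (nat_lit 152) (nat_lit 0) (XT.lf (nat_lit 76) (nat_lit 1865923683) (nat_lit 0) (nat_lit 2375679510) (nat_lit 76) (nat_lit 2375679510) (nat_lit 33) (nat_lit 3) (nat_lit 32) (nat_lit 1) (nat_lit 33) (nat_lit 1) (nat_lit 360) (nat_lit 433) (nat_lit 227)) (XT.lf (nat_lit 152) (nat_lit 6229329225) (nat_lit 0) (nat_lit 161734826) (nat_lit 76) (nat_lit 161734826) (nat_lit 32) (nat_lit 1) (nat_lit 30) (nat_lit 1)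 (nat_lit 31) (nat_lit 1) (nat_lit 361) (nat_lit 433) (nat_lit 226))) (XT.nd (nat_lit 78) (nat_lit 76) (nat_lit 0) (XT.lf (nat_lit 0) (nat_lit 2007125202) (nat_lit 0) (nat_lit 2473623994) (nat_lit 152) (nat_lit 2007125202) (nat_lit 30) (nat_lit 3) (nat_lit 30) (nat_lit 1) (nat_lit 32) (nat_lit 1) (nat_lit 362) (nat_lit 433) (nat_lit 225)) (XT.lf (nat_lit 76) (nat_lit 1839437226) (nat_lit 0) (nat_lit 2292348675) (nat_lit 76) (nat_lit 2292348675) (nat_lit 30) (nat_lit 3) (nat_lit 29) (nat_lit 1) (nat_lit 30) (nat_lit 1) (nat_lit 363) (nat_lit 433) (nat_lit 224)))) (XT.nd (nat_lit 156) (nat_lit 228) (nat_lit 0) (XT.nd (nat_lit 78) (nat_lit 0) (nat_lit 0) (XT.lf (nat_lit 152) (nat_lit 6074153960) (nat_lit 0) (nat_lit 143699298) (nat_lit 76) (nat_lit 143699298) (nat_lit 29) (nat_lit 1) (nat_lit 27) (nat_lit 1) (nat_lit 28) (nat_lit 1) (nat_lit 364) (nat_lit 433) (nat_lit 223)) (XT.lf (nat_lit 0) (nat_lit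 1961349506) (nat_lit 0) (nat_lit 2375827642) (nat_lit 152) (nat_lit 1961349506) (nat_lit 27) (nat_lit 3) (nat_lit 27) (nat_lit 1) (nat_lit 29) (nat_lit 1) (nat_lit 365) (nat_lit 433) (nat_lit 222))) (XT.nd (nat_lit 78) (nat_lit 152) (nat_lit 0) (XT.lf (nat_lit 76) (nat_lit 1810615375) (nat_lit 0) (nat_lit 2213021332) (nat_lit 76) (nat_lit 2213021332) (nat_lit 27) (nat_lit 3) (nat_lit 26) (nat_lit 1) (nat_lit 27) (nat_lit 1) (nat_lit 366) (nat_lit 433) (nat_lit 221)) (XT.nd (nat_lit 78) (nat_lit 0) (nat_lit 0) (XT.lf (nat_lit 152) (nat_lit 5920569864) (nat_lit 0) (nat_lit 127674965) (nat_lit 76) (nat_lit 127674965) (nat_lit 26) (nat_lit 1) (nat_lit 24) (nat_lit 1) (nat_lit 25) (nat_lit 1) (nat_lit 367) (nat_lit 433) (nat_lit 220)) (XT.lf (nat_lit 0) (nat_lit 1915492624) (nat_lit 0) (nat_lit 2283751079) (nat_lit 152) (nat_lit 1915492624) (nat_lit 24) (nat_lit 3) (nat_lit 24) (nat_lit 1) (nat_lit 26) (nat_lit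 1) (nat_lit 368) (nat_lit 433) (nat_lit 219)))))) (XT.nd (nat_lit 390) (nat_lit 76) (nat_lit 0) (XT.nd (nat_lit 156) (nat_lit 228) (nat_lit 0) (XT.nd (nat_lit 78) (nat_lit 152) (nat_lit 0) (XT.lf (nat_lit 76) (nat_lit 1779872605) (nat_lit 0) (nat_lit 2137405085) (nat_lit 76) (nat_lit 2137405085) (nat_lit 24) (nat_lit 3) (nat_lit 23) (nat_lit 1) (nat_lit 24) (nat_lit 1) (nat_lit 369) (nat_lit 433) (nat_lit 218)) (XT.lf (nat_lit 152) (nat_lit 5768857159) (nat_lit 0) (nat_lit 113437553) (nat_lit 76) (nat_lit 113437553) (nat_lit 23) (nat_lit 1) (nat_lit 21) (nat_lit 1) (nat_lit 22) (nat_lit 1) (nat_lit 370) (nat_lit 433) (nat_lit 217))) (XT.nd (nat_lit 78) (nat_lit 228) (nat_lit 0) (XT.lf (nat_lit 0) (nat_lit 1869714650) (nat_lit 0) (nat_lit 2196907518) (nat_lit 152) (nat_lit 1869714650) (nat_lit 21) (nat_lit 3) (nat_lit 21) (nat_lit 1) (nat_lit 23) (nat_lit 1) (nat_lit 371) (nat_lit 433) (nat_lit 216))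 (XT.nd (nat_lit 78) (nat_lit 152) (nat_lit 0) (XT.lf (nat_lit 76) (nat_lit 1747572684) (nat_lit 0) (nat_lit 2065235662) (nat_lit 76) (nat_lit 2065235662) (nat_lit 21) (nat_lit 3) (nat_lit 20) (nat_lit 1) (nat_lit 21) (nat_lit 1) (nat_lit 372) (nat_lit 433) (nat_lit 215)) (XT.lf (nat_lit 152) (nat_lit 5619251487) (nat_lit 0) (nat_lit 100787796) (nat_lit 76) (nat_lit 100787796) (nat_lit 20) (nat_lit 1) (nat_lit 18) (nat_lit 1) (nat_lit 19) (nat_lit 1) (nat_lit 373) (nat_lit 433) (nat_lit 214))))) (XT.nd (nat_lit 40872) (nat_lit 0) (nat_lit 13604) (XT.nd (nat_lit 78) (nat_lit 76) (nat_lit 0) (XT.lf (nat_lit 0) (nat_lit 1824153428) (nat_lit 0) (nat_lit 2114860053) (nat_lit 152) (nat_lit 1824153428) (nat_lit 18) (nat_lit 3) (nat_lit 18) (nat_lit 1) (nat_lit 20) (nat_lit 1) (nat_lit 374) (nat_lit 433) (nat_lit 213)) (XT.lf (nat_lit 76) (nat_lit 1714034460) (nat_lit 0) (nat_lit 1996273901) (nat_lit 76) (nat_lit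 1996273901) (nat_lit 18) (nat_lit 3) (nat_lit 17) (nat_lit 1) (nat_lit 18) (nat_lit 1) (nat_lit 375) (nat_lit 433) (nat_lit 212))) (XT.nd (nat_lit 78) (nat_lit 532) (nat_lit 0) (XT.lf (nat_lit 76) (nat_lit 3608540846) (nat_lit 0) (nat_lit 21380865154) (nat_lit 304) (nat_lit 3608540846) (nat_lit 204) (nat_lit 1) (nat_lit 203) (nat_lit 1) (nat_lit 207) (nat_lit 1) (nat_lit 217) (nat_lit 434) (nat_lit 369)) (XT.nd (nat_lit 78) (nat_lit 228) (nat_lit 0) (XT.lf (nat_lit 76) (nat_lit 14139121913) (nat_lit 0) (nat_lit 3785589) (nat_lit 304) (nat_lit 14139121913) (nat_lit 200) (nat_lit 1) (nat_lit 199) (nat_lit 1) (nat_lit 203) (nat_lit 1) (nat_lit 218) (nat_lit 434) (nat_lit 368)) (XT.lf (nat_lit 304) (nat_lit 21025573189) (nat_lit 0) (nat_lit 3472838762) (nat_lit 228) (nat_lit 3472838762) (nat_lit 200) (nat_lit 1) (nat_lit 196) (nat_lit 1) (nat_lit 199) (nat_lit 1) (nat_lit 219) (nat_lit 434) (nat_lit 367)))))))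 (XT.nd (nat_lit 702) (nat_lit 1368) (nat_lit 0) (XT.nd (nat_lit 312) (nat_lit 684) (nat_lit 0) (XT.nd (nat_lit 156) (nat_lit 304) (nat_lit 0) (XT.nd (nat_lit 78) (nat_lit 228) (nat_lit 0) (XT.lf (nat_lit 76) (nat_lit 6887985697) (nat_lit 0) (nat_lit 13887489106) (nat_lit 304) (nat_lit 6887985697) (nat_lit 197) (nat_lit 1) (nat_lit 196) (nat_lit 1) (nat_lit 200) (nat_lit 1) (nat_lit 220) (nat_lit 434) (nat_lit 366)) (XT.lf (nat_lit 304) (nat_lit 6601371196) (nat_lit 0) (nat_lit 10379649132) (nat_lit 228) (nat_lit 10379649132) (nat_lit 197) (nat_lit 1) (nat_lit 193) (nat_lit 1) (nat_lit 196) (nat_lit 1) (nat_lit 221) (nat_lit 434) (nat_lit 365))) (XT.nd (nat_lit 78) (nat_lit 0) (nat_lit 0) (XT.lf (nat_lit 304) (nat_lit 26639136636) (nat_lit 0) (nat_lit 212704106) (nat_lit 228) (nat_lit 212704106) (nat_lit 193) (nat_lit 1) (nat_lit 189) (nat_lit 1) (nat_lit 192) (nat_lit 1) (nat_lit 222) (nat_lit 434)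 (nat_lit 364)) (XT.lf (nat_lit 76) (nat_lit 9694491799) (nat_lit 0) (nat_lit 7378531230) (nat_lit 304) (nat_lit 9694491799) (nat_lit 190) (nat_lit 1) (nat_lit 189) (nat_lit 1) (nat_lit 193) (nat_lit 1) (nat_lit 223) (nat_lit 434) (nat_lit 363)))) (XT.nd (nat_lit 156) (nat_lit 456) (nat_lit 0) (XT.nd (nat_lit 78) (nat_lit 0) (nat_lit 0) (XT.lf (nat_lit 304) (nat_lit 12277661527) (nat_lit 0) (nat_lit 7099683847) (nat_lit 228) (nat_lit 7099683847) (nat_lit 190) (nat_lit 1) (nat_lit 186) (nat_lit 1) (nat_lit 189) (nat_lit 1) (nat_lit 224) (nat_lit 434) (nat_lit 362)) (XT.lf (nat_lit 76) (nat_lit 2625952167) (nat_lit 0) (nat_lit 20939559414) (nat_lit 304) (nat_lit 2625952167) (nat_lit 187) (nat_lit 1) (nat_lit 186) (nat_lit 1) (nat_lit 190) (nat_lit 1) (nat_lit 225) (nat_lit 434) (nat_lit 361))) (XT.nd (nat_lit 78) (nat_lit 228) (nat_lit 0) (XT.lf (nat_lit 76) (nat_lit 12083921391) (nat_lit 0) (nat_lit 1739881888)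 (nat_lit 228) (nat_lit 12083921391) (nat_lit 184) (nat_lit 1) (nat_lit 183) (nat_lit 1) (nat_lit 186) (nat_lit 1) (nat_lit 226) (nat_lit 434) (nat_lit 360)) (XT.nd (nat_lit 78) (nat_lit 0) (nat_lit 0) (XT.lf (nat_lit 304) (nat_lit 17134202198) (nat_lit 0) (nat_lit 4247297561) (nat_lit 228) (nat_lit 4247297561) (nat_lit 184) (nat_lit 1) (nat_lit 180) (nat_lit 1) (nat_lit 183) (nat_lit 1) (nat_lit 227) (nat_lit 434) (nat_lit 359)) (XT.lf (nat_lit 76) (nat_lit 5067889682) (nat_lit 0) (nat_lit 15217273571) (nat_lit 304) (nat_lit 5067889682) (nat_lit 181) (nat_lit 1) (nat_lit 180) (nat_lit 1) (nat_lit 184) (nat_lit 1) (nat_lit 228) (nat_lit 434) (nat_lit 358)))))) (XT.nd (nat_lit 390) (nat_lit 760) (nat_lit 0) (XT.nd (nat_lit 156) (nat_lit 152) (nat_lit 0) (XT.nd (nat_lit 78) (nat_lit 304) (nat_lit 0) (XT.lf (nat_lit 228) (nat_lit 3192005131) (nat_lit 0) (nat_lit 10944494748) (nat_lit 152) (nat_lit 10944494748)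 (nat_lit 181) (nat_lit 1) (nat_lit 178) (nat_lit 1) (nat_lit 180) (nat_lit 1) (nat_lit 229) (nat_lit 434) (nat_lit 357)) (XT.lf (nat_lit 304) (nat_lit 21267845809) (nat_lit 0) (nat_lit 1773009084) (nat_lit 228) (nat_lit 1773009084) (nat_lit 178) (nat_lit 1) (nat_lit 174) (nat_lit 1) (nat_lit 177) (nat_lit 1) (nat_lit 230) (nat_lit 434) (nat_lit 356))) (XT.nd (nat_lit 78) (nat_lit 152) (nat_lit 0) (XT.lf (nat_lit 76) (nat_lit 7157866180) (nat_lit 0) (nat_lit 10231754591) (nat_lit 304) (nat_lit 7157866180) (nat_lit 175) (nat_lit 1) (nat_lit 174) (nat_lit 1) (nat_lit 178) (nat_lit 1) (nat_lit 231) (nat_lit 434) (nat_lit 355)) (XT.nd (nat_lit 78) (nat_lit 0) (nat_lit 0) (XT.lf (nat_lit 228) (nat_lit 7465796333) (nat_lit 0) (nat_lit 8410075228) (nat_lit 152) (nat_lit 8410075228) (nat_lit 175) (nat_lit 1) (nat_lit 172) (nat_lit 1) (nat_lit 174) (nat_lit 1) (nat_lit 232) (nat_lit 434) (nat_lit 354)) (XT.lf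 (nat_lit 76) (nat_lit 370727115) (nat_lit 0) (nat_lit 23288417099) (nat_lit 228) (nat_lit 370727115) (nat_lit 173) (nat_lit 1) (nat_lit 172) (nat_lit 1) (nat_lit 175) (nat_lit 1) (nat_lit 233) (nat_lit 434) (nat_lit 353))))) (XT.nd (nat_lit 156) (nat_lit 380) (nat_lit 0) (XT.nd (nat_lit 78) (nat_lit 152) (nat_lit 0) (XT.lf (nat_lit 76) (nat_lit 8937449875) (nat_lit 0) (nat_lit 5897969897) (nat_lit 228) (nat_lit 8937449875) (nat_lit 170) (nat_lit 1) (nat_lit 169) (nat_lit 1) (nat_lit 172) (nat_lit 1) (nat_lit 234) (nat_lit 434) (nat_lit 352)) (XT.lf (nat_lit 228) (nat_lit 11128157632) (nat_lit 0) (nat_lit 6196547182) (nat_lit 152) (nat_lit 6196547182) (nat_lit 170) (nat_lit 1) (nat_lit 167) (nat_lit 1) (nat_lit 169) (nat_lit 1) (nat_lit 235) (nat_lit 434) (nat_lit 351))) (XT.nd (nat_lit 78) (nat_lit 380) (nat_lit 0) (XT.lf (nat_lit 76) (nat_lit 2233871394) (nat_lit 0) (nat_lit 18806011110) (nat_lit 228)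 (nat_lit 2233871394) (nat_lit 168) (nat_lit 1) (nat_lit 167) (nat_lit 1) (nat_lit 170) (nat_lit 1) (nat_lit 236) (nat_lit 434) (nat_lit 350)) (XT.nd (nat_lit 78) (nat_lit 152) (nat_lit 0) (XT.lf (nat_lit 76) (nat_lit 10443506011) (nat_lit 0) (nat_lit 2140452838) (nat_lit 228) (nat_lit 10443506011) (nat_lit 165) (nat_lit 1) (nat_lit 164) (nat_lit 1) (nat_lit 167) (nat_lit 1) (nat_lit 237) (nat_lit 434) (nat_lit 349)) (XT.lf (nat_lit 228) (nat_lit 14251198961) (nat_lit 0) (nat_lit 4267012370) (nat_lit 152) (nat_lit 4267012370) (nat_lit 165) (nat_lit 1) (nat_lit 162) (nat_lit 1) (nat_lit 164) (nat_lit 1) (nat_lit 238) (nat_lit 434) (nat_lit 348))))))))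
noncomputable def ec495 : XT := (XT.nd (nat_lit 1482) (nat_lit 1748) (nat_lit 0) (XT.nd (nat_lit 702) (nat_lit 988) (nat_lit 0) (XT.nd (nat_lit 312) (nat_lit 532) (nat_lit 0) (XT.nd (nat_lit 156) (nat_lit 228) (nat_lit 0) (XT.nd (nat_lit 78) (nat_lit 152) (nat_lit 0) (XT.lf (nat_lit 76) (nat_lit 3833780513) (nat_lit 0) (nat_lit 14878367345) (nat_lit 228) (nat_lit 3833780513) (nat_lit 163) (nat_lit 1) (nat_lit 162) (nat_lit 1) (nat_lit 165) (nat_lit 1) (nat_lit 239) (nat_lit 434) (nat_lit 347)) (XT.lf (nat_lit 228) (nat_lit 1129813192) (nat_lit 0) (nat_lit 10589770541) (nat_lit 152) (nat_lit 10589770541) (nat_lit 163) (nat_lit 1) (nat_lit 160) (nat_lit 1) (nat_lit 162) (nat_lit 1) (nat_lit 240) (nat_lit 434) (nat_lit 346))) (XT.nd (nat_lit 78) (nat_lit 0) (nat_lit 0) (XT.lf (nat_lit 228) (nat_lit 16898874662) (nat_lit 0) (nat_lit 2588719648) (nat_lit 152) (nat_lit 2588719648) (nat_lit 160) (nat_lit 1)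 (nat_lit 157) (nat_lit 1) (nat_lit 159) (nat_lit 1) (nat_lit 241) (nat_lit 434) (nat_lit 345)) (XT.lf (nat_lit 76) (nat_lit 5201424246) (nat_lit 0) (nat_lit 11442023136) (nat_lit 228) (nat_lit 5201424246) (nat_lit 158) (nat_lit 1) (nat_lit 157) (nat_lit 1) (nat_lit 160) (nat_lit 1) (nat_lit 242) (nat_lit 434) (nat_lit 344)))) (XT.nd (nat_lit 156) (nat_lit 152) (nat_lit 0) (XT.nd (nat_lit 78) (nat_lit 228) (nat_lit 0) (XT.lf (nat_lit 228) (nat_lit 3983850272) (nat_lit 0) (nat_lit 8816526392) (nat_lit 152) (nat_lit 8816526392) (nat_lit 158) (nat_lit 1) (nat_lit 155) (nat_lit 1) (nat_lit 157) (nat_lit 1) (nat_lit 243) (nat_lit 434) (nat_lit 343)) (XT.lf (nat_lit 228) (nat_lit 19127896279) (nat_lit 0) (nat_lit 1132601571) (nat_lit 152) (nat_lit 1132601571) (nat_lit 155) (nat_lit 1) (nat_lit 152) (nat_lit 1) (nat_lit 154) (nat_lit 1) (nat_lit 244) (nat_lit 434) (nat_lit 342))) (XT.nd (nat_lit 78) (nat_lit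 152) (nat_lit 0) (XT.lf (nat_lit 76) (nat_lit 6364271778) (nat_lit 0) (nat_lit 8440639316) (nat_lit 228) (nat_lit 6364271778) (nat_lit 153) (nat_lit 1) (nat_lit 152) (nat_lit 1) (nat_lit 155) (nat_lit 1) (nat_lit 245) (nat_lit 434) (nat_lit 341)) (XT.nd (nat_lit 78) (nat_lit 0) (nat_lit 0) (XT.lf (nat_lit 228) (nat_lit 6432828382) (nat_lit 0) (nat_lit 7258274774) (nat_lit 152) (nat_lit 7258274774) (nat_lit 153) (nat_lit 1) (nat_lit 150) (nat_lit 1) (nat_lit 152) (nat_lit 1) (nat_lit 246) (nat_lit 434) (nat_lit 340)) (XT.lf (nat_lit 76) (nat_lit 128396091) (nat_lit 0) (nat_lit 20477327804) (nat_lit 228) (nat_lit 128396091) (nat_lit 151) (nat_lit 1) (nat_lit 150) (nat_lit 1) (nat_lit 153) (nat_lit 1) (nat_lit 247) (nat_lit 434) (nat_lit 339)))))) (XT.nd (nat_lit 390) (nat_lit 380) (nat_lit 0) (XT.nd (nat_lit 156) (nat_lit 304) (nat_lit 0) (XT.nd (nat_lit 78) (nat_lit 152) (nat_lit 0) (XT.lf (nat_lit 76)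 (nat_lit 7346683437) (nat_lit 0) (nat_lit 5824204493) (nat_lit 152) (nat_lit 7346683437) (nat_lit 149) (nat_lit 1) (nat_lit 148) (nat_lit 1) (nat_lit 150) (nat_lit 1) (nat_lit 248) (nat_lit 434) (nat_lit 338)) (XT.lf (nat_lit 228) (nat_lit 8524444907) (nat_lit 0) (nat_lit 5890538727) (nat_lit 152) (nat_lit 5890538727) (nat_lit 149) (nat_lit 1) (nat_lit 146) (nat_lit 1) (nat_lit 148) (nat_lit 1) (nat_lit 249) (nat_lit 434) (nat_lit 337))) (XT.nd (nat_lit 78) (nat_lit 304) (nat_lit 0) (XT.lf (nat_lit 76) (nat_lit 1225399917) (nat_lit 0) (nat_lit 17646391440) (nat_lit 228) (nat_lit 1225399917) (nat_lit 147) (nat_lit 1) (nat_lit 146) (nat_lit 1) (nat_lit 149) (nat_lit 1) (nat_lit 250) (nat_lit 434) (nat_lit 336)) (XT.nd (nat_lit 78) (nat_lit 152) (nat_lit 0) (XT.lf (nat_lit 76) (nat_lit 8170258703) (nat_lit 0) (nat_lit 3548328105) (nat_lit 152) (nat_lit 8170258703) (nat_lit 145) (nat_lit 1) (nat_lit 144)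 (nat_lit 1) (nat_lit 146) (nat_lit 1) (nat_lit 251) (nat_lit 434) (nat_lit 335)) (XT.lf (nat_lit 228) (nat_lit 10301004723) (nat_lit 0) (nat_lit 4691585422) (nat_lit 152) (nat_lit 4691585422) (nat_lit 145) (nat_lit 1) (nat_lit 142) (nat_lit 1) (nat_lit 144) (nat_lit 1) (nat_lit 252) (nat_lit 434) (nat_lit 334))))) (XT.nd (nat_lit 156) (nat_lit 228) (nat_lit 0) (XT.nd (nat_lit 78) (nat_lit 152) (nat_lit 0) (XT.lf (nat_lit 76) (nat_lit 2167705016) (nat_lit 0) (nat_lit 15147086266) (nat_lit 228) (nat_lit 2167705016) (nat_lit 143) (nat_lit 1) (nat_lit 142) (nat_lit 1) (nat_lit 145) (nat_lit 1) (nat_lit 253) (nat_lit 434) (nat_lit 333)) (XT.lf (nat_lit 76) (nat_lit 8854145369) (nat_lit 0) (nat_lit 1573612348) (nat_lit 152) (nat_lit 8854145369) (nat_lit 141) (nat_lit 1) (nat_lit 140) (nat_lit 1) (nat_lit 142) (nat_lit 1) (nat_lit 254) (nat_lit 434) (nat_lit 332))) (XT.nd (nat_lit 78) (nat_lit 76) (nat_lit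 0) (XT.lf (nat_lit 228) (nat_lit 11800023678) (nat_lit 0) (nat_lit 3642119734) (nat_lit 152) (nat_lit 3642119734) (nat_lit 141) (nat_lit 1) (nat_lit 138) (nat_lit 1) (nat_lit 140) (nat_lit 1) (nat_lit 255) (nat_lit 434) (nat_lit 331)) (XT.nd (nat_lit 78) (nat_lit 76) (nat_lit 0) (XT.lf (nat_lit 76) (nat_lit 2973505074) (nat_lit 0) (nat_lit 12941966688) (nat_lit 228) (nat_lit 2973505074) (nat_lit 139) (nat_lit 1) (nat_lit 138) (nat_lit 1) (nat_lit 141) (nat_lit 1) (nat_lit 256) (nat_lit 434) (nat_lit 330)) (XT.lf (nat_lit 152) (nat_lit 137590714) (nat_lit 0) (nat_lit 9279046085) (nat_lit 76) (nat_lit 9279046085) (nat_lit 139) (nat_lit 1) (nat_lit 137) (nat_lit 1) (nat_lit 138) (nat_lit 1) (nat_lit 257) (nat_lit 434) (nat_lit 329))))))) (XT.nd (nat_lit 702) (nat_lit 836) (nat_lit 0) (XT.nd (nat_lit 312) (nat_lit 380) (nat_lit 0) (XT.nd (nat_lit 156) (nat_lit 304) (nat_lit 0) (XT.nd (nat_lit 78) (nat_lit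 0) (nat_lit 0) (XT.lf (nat_lit 228) (nat_lit 13054764709) (nat_lit 0) (nat_lit 2725011989) (nat_lit 152) (nat_lit 2725011989) (nat_lit 137) (nat_lit 1) (nat_lit 134) (nat_lit 1) (nat_lit 136) (nat_lit 1) (nat_lit 258) (nat_lit 434) (nat_lit 328)) (XT.lf (nat_lit 76) (nat_lit 3658937487) (nat_lit 0) (nat_lit 10997776308) (nat_lit 228) (nat_lit 3658937487) (nat_lit 135) (nat_lit 1) (nat_lit 134) (nat_lit 1) (nat_lit 137) (nat_lit 1) (nat_lit 259) (nat_lit 434) (nat_lit 327))) (XT.nd (nat_lit 78) (nat_lit 228) (nat_lit 0) (XT.lf (nat_lit 152) (nat_lit 1640257778) (nat_lit 0) (nat_lit 8244312263) (nat_lit 76) (nat_lit 8244312263) (nat_lit 135) (nat_lit 1) (nat_lit 133) (nat_lit 1) (nat_lit 134) (nat_lit 1) (nat_lit 260) (nat_lit 434) (nat_lit 326)) (XT.lf (nat_lit 228) (nat_lit 14094714120) (nat_lit 0) (nat_lit 1925056090) (nat_lit 152) (nat_lit 1925056090) (nat_lit 133) (nat_lit 1) (nat_lit 130) (nat_lit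 1) (nat_lit 132) (nat_lit 1) (nat_lit 261) (nat_lit 434) (nat_lit 325)))) (XT.nd (nat_lit 156) (nat_lit 304) (nat_lit 0) (XT.nd (nat_lit 78) (nat_lit 76) (nat_lit 0) (XT.lf (nat_lit 76) (nat_lit 4238313461) (nat_lit 0) (nat_lit 9284980380) (nat_lit 228) (nat_lit 4238313461) (nat_lit 131) (nat_lit 1) (nat_lit 130) (nat_lit 1) (nat_lit 133) (nat_lit 1) (nat_lit 262) (nat_lit 434) (nat_lit 324)) (XT.lf (nat_lit 152) (nat_lit 2931144111) (nat_lit 0) (nat_lit 7324964665) (nat_lit 76) (nat_lit 7324964665) (nat_lit 131) (nat_lit 1) (nat_lit 129) (nat_lit 1) (nat_lit 130) (nat_lit 1) (nat_lit 263) (nat_lit 434) (nat_lit 323))) (XT.nd (nat_lit 78) (nat_lit 76) (nat_lit 0) (XT.lf (nat_lit 228) (nat_lit 14946004690) (nat_lit 0) (nat_lit 1228754617) (nat_lit 152) (nat_lit 1228754617) (nat_lit 129) (nat_lit 1) (nat_lit 126) (nat_lit 1) (nat_lit 128) (nat_lit 1) (nat_lit 264) (nat_lit 434) (nat_lit 322)) (XT.nd (nat_lit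 78) (nat_lit 76) (nat_lit 0) (XT.lf (nat_lit 76) (nat_lit 4724322435) (nat_lit 0) (nat_lit 7777350413) (nat_lit 228) (nat_lit 4724322435) (nat_lit 127) (nat_lit 1) (nat_lit 126) (nat_lit 1) (nat_lit 129) (nat_lit 1) (nat_lit 265) (nat_lit 434) (nat_lit 321)) (XT.lf (nat_lit 152) (nat_lit 4035153793) (nat_lit 0) (nat_lit 6508136231) (nat_lit 76) (nat_lit 6508136231) (nat_lit 127) (nat_lit 1) (nat_lit 125) (nat_lit 1) (nat_lit 126) (nat_lit 1) (nat_lit 266) (nat_lit 434) (nat_lit 320)))))) (XT.nd (nat_lit 390) (nat_lit 304) (nat_lit 0) (XT.nd (nat_lit 156) (nat_lit 304) (nat_lit 0) (XT.nd (nat_lit 78) (nat_lit 0) (nat_lit 0) (XT.lf (nat_lit 228) (nat_lit 15631791537) (nat_lit 0) (nat_lit 624127917) (nat_lit 152) (nat_lit 624127917) (nat_lit 125) (nat_lit 1) (nat_lit 122) (nat_lit 1) (nat_lit 124) (nat_lit 1) (nat_lit 267) (nat_lit 434) (nat_lit 319)) (XT.lf (nat_lit 76) (nat_lit 5128213682) (nat_lit 0)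 (nat_lit 6451595115) (nat_lit 228) (nat_lit 5128213682) (nat_lit 123) (nat_lit 1) (nat_lit 122) (nat_lit 1) (nat_lit 125) (nat_lit 1) (nat_lit 268) (nat_lit 434) (nat_lit 318))) (XT.nd (nat_lit 78) (nat_lit 228) (nat_lit 0) (XT.lf (nat_lit 152) (nat_lit 4974376264) (nat_lit 0) (nat_lit 5782394747) (nat_lit 76) (nat_lit 5782394747) (nat_lit 123) (nat_lit 1) (nat_lit 121) (nat_lit 1) (nat_lit 122) (nat_lit 1) (nat_lit 269) (nat_lit 434) (nat_lit 317)) (XT.nd (nat_lit 78) (nat_lit 0) (nat_lit 0) (XT.lf (nat_lit 228) (nat_lit 16172586017) (nat_lit 0) (nat_lit 100544478) (nat_lit 152) (nat_lit 100544478) (nat_lit 121) (nat_lit 1) (nat_lit 118) (nat_lit 1) (nat_lit 120) (nat_lit 1) (nat_lit 270) (nat_lit 434) (nat_lit 316)) (XT.lf (nat_lit 76) (nat_lit 5459957638) (nat_lit 0) (nat_lit 5287032490) (nat_lit 228) (nat_lit 5459957638) (nat_lit 119) (nat_lit 1) (nat_lit 118) (nat_lit 1) (nat_lit 121) (nat_lit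 1) (nat_lit 271) (nat_lit 434) (nat_lit 315))))) (XT.nd (nat_lit 156) (nat_lit 228) (nat_lit 0) (XT.nd (nat_lit 78) (nat_lit 0) (nat_lit 0) (XT.lf (nat_lit 152) (nat_lit 5768401292) (nat_lit 0) (nat_lit 5137582839) (nat_lit 76) (nat_lit 5137582839) (nat_lit 119) (nat_lit 1) (nat_lit 117) (nat_lit 1) (nat_lit 118) (nat_lit 1) (nat_lit 272) (nat_lit 434) (nat_lit 314)) (XT.lf (nat_lit 0) (nat_lit 354909260) (nat_lit 0) (nat_lit 15173462836) (nat_lit 152) (nat_lit 354909260) (nat_lit 117) (nat_lit 3) (nat_lit 117) (nat_lit 1) (nat_lit 119) (nat_lit 1) (nat_lit 273) (nat_lit 434) (nat_lit 313))) (XT.nd (nat_lit 78) (nat_lit 76) (nat_lit 0) (XT.lf (nat_lit 76) (nat_lit 5728389218) (nat_lit 0) (nat_lit 4265298522) (nat_lit 152) (nat_lit 5728389218) (nat_lit 116) (nat_lit 1) (nat_lit 115) (nat_lit 1) (nat_lit 117) (nat_lit 1) (nat_lit 274) (nat_lit 434) (nat_lit 312)) (XT.nd (nat_lit 78) (nat_lit 0) (nat_lit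 0) (XT.lf (nat_lit 152) (nat_lit 6434598778) (nat_lit 0) (nat_lit 4564675810) (nat_lit 76) (nat_lit 4564675810) (nat_lit 116) (nat_lit 1) (nat_lit 114) (nat_lit 1) (nat_lit 115) (nat_lit 1) (nat_lit 275) (nat_lit 434) (nat_lit 311)) (XT.lf (nat_lit 0) (nat_lit 747493648) (nat_lit 0) (nat_lit 13913586569) (nat_lit 152) (nat_lit 747493648) (nat_lit 114) (nat_lit 3) (nat_lit 114) (nat_lit 1) (nat_lit 116) (nat_lit 1) (nat_lit 276) (nat_lit 434) (nat_lit 310))))))))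
noncomputable def ec496 : XT := (XT.nd (nat_lit 1404) (nat_lit 1444) (nat_lit 0) (XT.nd (nat_lit 702) (nat_lit 684) (nat_lit 0) (XT.nd (nat_lit 312) (nat_lit 304) (nat_lit 0) (XT.nd (nat_lit 156) (nat_lit 152) (nat_lit 0) (XT.nd (nat_lit 78) (nat_lit 76) (nat_lit 0) (XT.lf (nat_lit 76) (nat_lit 5941335136) (nat_lit 0) (nat_lit 3370088349) (nat_lit 152) (nat_lit 5941335136) (nat_lit 113) (nat_lit 1) (nat_lit 112) (nat_lit 1) (nat_lit 114) (nat_lit 1) (nat_lit 277) (nat_lit 434) (nat_lit 309)) (XT.lf (nat_lit 152) (nat_lit 6988367325) (nat_lit 0) (nat_lit 4055655335) (nat_lit 76) (nat_lit 4055655335) (nat_lit 113) (nat_lit 1) (nat_lit 111) (nat_lit 1) (nat_lit 112) (nat_lit 1) (nat_lit 278) (nat_lit 434) (nat_lit 308))) (XT.nd (nat_lit 78) (nat_lit 152) (nat_lit 0) (XT.lf (nat_lit 0) (nat_lit 1083712567) (nat_lit 0) (nat_lit 12781615600) (nat_lit 152) (nat_lit 1083712567) (nat_lit 111) (nat_lit 3) (nat_lit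 111) (nat_lit 1) (nat_lit 113) (nat_lit 1) (nat_lit 279) (nat_lit 434) (nat_lit 307)) (XT.lf (nat_lit 76) (nat_lit 6105726995) (nat_lit 0) (nat_lit 2586926312) (nat_lit 152) (nat_lit 6105726995) (nat_lit 110) (nat_lit 1) (nat_lit 109) (nat_lit 1) (nat_lit 111) (nat_lit 1) (nat_lit 280) (nat_lit 434) (nat_lit 306)))) (XT.nd (nat_lit 156) (nat_lit 228) (nat_lit 0) (XT.nd (nat_lit 78) (nat_lit 0) (nat_lit 0) (XT.lf (nat_lit 152) (nat_lit 7443355070) (nat_lit 0) (nat_lit 3603397236) (nat_lit 76) (nat_lit 3603397236) (nat_lit 110) (nat_lit 1) (nat_lit 108) (nat_lit 1) (nat_lit 109) (nat_lit 1) (nat_lit 281) (nat_lit 434) (nat_lit 305)) (XT.lf (nat_lit 0) (nat_lit 1370218116) (nat_lit 0) (nat_lit 11763653448) (nat_lit 152) (nat_lit 1370218116) (nat_lit 108) (nat_lit 3) (nat_lit 108) (nat_lit 1) (nat_lit 110) (nat_lit 1) (nat_lit 282) (nat_lit 434) (nat_lit 304))) (XT.nd (nat_lit 78) (nat_lit 76) (nat_lit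 0) (XT.lf (nat_lit 76) (nat_lit 6227701760) (nat_lit 0) (nat_lit 1902961652) (nat_lit 152) (nat_lit 6227701760) (nat_lit 107) (nat_lit 1) (nat_lit 106) (nat_lit 1) (nat_lit 108) (nat_lit 1) (nat_lit 283) (nat_lit 434) (nat_lit 303)) (XT.nd (nat_lit 78) (nat_lit 0) (nat_lit 0) (XT.lf (nat_lit 152) (nat_lit 7811655851) (nat_lit 0) (nat_lit 3201571773) (nat_lit 76) (nat_lit 3201571773) (nat_lit 107) (nat_lit 1) (nat_lit 105) (nat_lit 1) (nat_lit 106) (nat_lit 1) (nat_lit 284) (nat_lit 434) (nat_lit 302)) (XT.lf (nat_lit 0) (nat_lit 1612909920) (nat_lit 0) (nat_lit 10847342595) (nat_lit 152) (nat_lit 1612909920) (nat_lit 105) (nat_lit 3) (nat_lit 105) (nat_lit 1) (nat_lit 107) (nat_lit 1) (nat_lit 285) (nat_lit 434) (nat_lit 301)))))) (XT.nd (nat_lit 312) (nat_lit 304) (nat_lit 0) (XT.nd (nat_lit 156) (nat_lit 152) (nat_lit 0) (XT.nd (nat_lit 78) (nat_lit 76) (nat_lit 0) (XT.lf (nat_lit 76) (nat_lit 6312691000)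 (nat_lit 0) (nat_lit 1306787003) (nat_lit 152) (nat_lit 6312691000) (nat_lit 104) (nat_lit 1) (nat_lit 103) (nat_lit 1) (nat_lit 105) (nat_lit 1) (nat_lit 286) (nat_lit 434) (nat_lit 300)) (XT.lf (nat_lit 152) (nat_lit 8103983471) (nat_lit 0) (nat_lit 2844555053) (nat_lit 76) (nat_lit 2844555053) (nat_lit 104) (nat_lit 1) (nat_lit 102) (nat_lit 1) (nat_lit 103) (nat_lit 1) (nat_lit 287) (nat_lit 434) (nat_lit 299))) (XT.nd (nat_lit 78) (nat_lit 152) (nat_lit 0) (XT.lf (nat_lit 0) (nat_lit 1817019350) (nat_lit 0) (nat_lit 10021693178) (nat_lit 152) (nat_lit 1817019350) (nat_lit 102) (nat_lit 3) (nat_lit 102) (nat_lit 1) (nat_lit 104) (nat_lit 1) (nat_lit 288) (nat_lit 434) (nat_lit 298)) (XT.lf (nat_lit 76) (nat_lit 6365500160) (nat_lit 0) (nat_lit 788277135) (nat_lit 152) (nat_lit 6365500160) (nat_lit 101) (nat_lit 1) (nat_lit 100) (nat_lit 1) (nat_lit 102) (nat_lit 1) (nat_lit 289) (nat_lit 434) (nat_lit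 297)))) (XT.nd (nat_lit 156) (nat_lit 228) (nat_lit 0) (XT.nd (nat_lit 78) (nat_lit 0) (nat_lit 0) (XT.lf (nat_lit 152) (nat_lit 8329826511) (nat_lit 0) (nat_lit 2527350321) (nat_lit 76) (nat_lit 2527350321) (nat_lit 101) (nat_lit 1) (nat_lit 99) (nat_lit 1) (nat_lit 100) (nat_lit 1) (nat_lit 290) (nat_lit 434) (nat_lit 296)) (XT.lf (nat_lit 0) (nat_lit 1987184350) (nat_lit 0) (nat_lit 9276930778) (nat_lit 152) (nat_lit 1987184350) (nat_lit 99) (nat_lit 3) (nat_lit 99) (nat_lit 1) (nat_lit 101) (nat_lit 1) (nat_lit 291) (nat_lit 434) (nat_lit 295))) (XT.nd (nat_lit 78) (nat_lit 76) (nat_lit 0) (XT.lf (nat_lit 76) (nat_lit 6390378978) (nat_lit 0) (nat_lit 338445683) (nat_lit 152) (nat_lit 6390378978) (nat_lit 98) (nat_lit 1) (nat_lit 97) (nat_lit 1) (nat_lit 99) (nat_lit 1) (nat_lit 292) (nat_lit 434) (nat_lit 294)) (XT.nd (nat_lit 78) (nat_lit 0) (nat_lit 0) (XT.lf (nat_lit 152) (nat_lit 8497585840)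 (nat_lit 0) (nat_lit 2245518026) (nat_lit 76) (nat_lit 2245518026) (nat_lit 98) (nat_lit 1) (nat_lit 96) (nat_lit 1) (nat_lit 97) (nat_lit 1) (nat_lit 293) (nat_lit 434) (nat_lit 293)) (XT.lf (nat_lit 0) (nat_lit 2127515898) (nat_lit 0) (nat_lit 8604361182) (nat_lit 152) (nat_lit 2127515898) (nat_lit 96) (nat_lit 3) (nat_lit 96) (nat_lit 1) (nat_lit 98) (nat_lit 1) (nat_lit 294) (nat_lit 434) (nat_lit 292))))))) (XT.nd (nat_lit 702) (nat_lit 760) (nat_lit 0) (XT.nd (nat_lit 312) (nat_lit 380) (nat_lit 0) (XT.nd (nat_lit 156) (nat_lit 76) (nat_lit 0) (XT.nd (nat_lit 78) (nat_lit 152) (nat_lit 0) (XT.lf (nat_lit 76) (nat_lit 51690806) (nat_lit 0) (nat_lit 6339890111) (nat_lit 76) (nat_lit 6339890111) (nat_lit 96) (nat_lit 3) (nat_lit 95) (nat_lit 1) (nat_lit 96) (nat_lit 1) (nat_lit 295) (nat_lit 434) (nat_lit 291)) (XT.lf (nat_lit 152) (nat_lit 8614696777) (nat_lit 0) (nat_lit 1995113682) (nat_lit 76)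 (nat_lit 1995113682) (nat_lit 95) (nat_lit 1) (nat_lit 93) (nat_lit 1) (nat_lit 94) (nat_lit 1) (nat_lit 296) (nat_lit 434) (nat_lit 290))) (XT.nd (nat_lit 78) (nat_lit 76) (nat_lit 0) (XT.lf (nat_lit 0) (nat_lit 2241657059) (nat_lit 0) (nat_lit 7996250205) (nat_lit 152) (nat_lit 2241657059) (nat_lit 93) (nat_lit 3) (nat_lit 93) (nat_lit 1) (nat_lit 95) (nat_lit 1) (nat_lit 297) (nat_lit 434) (nat_lit 289)) (XT.lf (nat_lit 76) (nat_lit 393868383) (nat_lit 0) (nat_lit 5980852020) (nat_lit 76) (nat_lit 5980852020) (nat_lit 93) (nat_lit 3) (nat_lit 92) (nat_lit 1) (nat_lit 93) (nat_lit 1) (nat_lit 298) (nat_lit 434) (nat_lit 288)))) (XT.nd (nat_lit 156) (nat_lit 228) (nat_lit 0) (XT.nd (nat_lit 78) (nat_lit 0) (nat_lit 0) (XT.lf (nat_lit 152) (nat_lit 8687737595) (nat_lit 0) (nat_lit 1772632666) (nat_lit 76) (nat_lit 1772632666) (nat_lit 92) (nat_lit 1) (nat_lit 90) (nat_lit 1) (nat_lit 91) (nat_lit 1)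 (nat_lit 299) (nat_lit 434) (nat_lit 287)) (XT.lf (nat_lit 0) (nat_lit 2332835436) (nat_lit 0) (nat_lit 7445716913) (nat_lit 152) (nat_lit 2332835436) (nat_lit 90) (nat_lit 3) (nat_lit 90) (nat_lit 1) (nat_lit 92) (nat_lit 1) (nat_lit 300) (nat_lit 434) (nat_lit 286))) (XT.nd (nat_lit 78) (nat_lit 152) (nat_lit 0) (XT.lf (nat_lit 76) (nat_lit 687754501) (nat_lit 0) (nat_lit 5651717099) (nat_lit 76) (nat_lit 5651717099) (nat_lit 90) (nat_lit 3) (nat_lit 89) (nat_lit 1) (nat_lit 90) (nat_lit 1) (nat_lit 301) (nat_lit 434) (nat_lit 285)) (XT.nd (nat_lit 78) (nat_lit 0) (nat_lit 0) (XT.lf (nat_lit 152) (nat_lit 8722525908) (nat_lit 0) (nat_lit 1574961164) (nat_lit 76) (nat_lit 1574961164) (nat_lit 89) (nat_lit 1) (nat_lit 87) (nat_lit 1) (nat_lit 88) (nat_lit 1) (nat_lit 302) (nat_lit 434) (nat_lit 284)) (XT.lf (nat_lit 0) (nat_lit 2403909773) (nat_lit 0) (nat_lit 6946638742) (nat_lit 152) (nat_lit 2403909773)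 (nat_lit 87) (nat_lit 3) (nat_lit 87) (nat_lit 1) (nat_lit 89) (nat_lit 1) (nat_lit 303) (nat_lit 434) (nat_lit 283)))))) (XT.nd (nat_lit 390) (nat_lit 304) (nat_lit 0) (XT.nd (nat_lit 156) (nat_lit 228) (nat_lit 0) (XT.nd (nat_lit 78) (nat_lit 152) (nat_lit 0) (XT.lf (nat_lit 76) (nat_lit 939029456) (nat_lit 0) (nat_lit 5349445931) (nat_lit 76) (nat_lit 5349445931) (nat_lit 87) (nat_lit 3) (nat_lit 86) (nat_lit 1) (nat_lit 87) (nat_lit 1) (nat_lit 304) (nat_lit 434) (nat_lit 282)) (XT.lf (nat_lit 152) (nat_lit 8724204284) (nat_lit 0) (nat_lit 1399332595) (nat_lit 76) (nat_lit 1399332595) (nat_lit 86) (nat_lit 1) (nat_lit 84) (nat_lit 1) (nat_lit 85) (nat_lit 1) (nat_lit 305) (nat_lit 434) (nat_lit 281))) (XT.nd (nat_lit 78) (nat_lit 228) (nat_lit 0) (XT.lf (nat_lit 0) (nat_lit 2457411341) (nat_lit 0) (nat_lit 6493567192) (nat_lit 152) (nat_lit 2457411341) (nat_lit 84) (nat_lit 3) (nat_lit 84) (nat_lit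 1) (nat_lit 86) (nat_lit 1) (nat_lit 306) (nat_lit 434) (nat_lit 280)) (XT.nd (nat_lit 78) (nat_lit 152) (nat_lit 0) (XT.lf (nat_lit 76) (nat_lit 1152731519) (nat_lit 0) (nat_lit 5071329433) (nat_lit 76) (nat_lit 5071329433) (nat_lit 84) (nat_lit 3) (nat_lit 83) (nat_lit 1) (nat_lit 84) (nat_lit 1) (nat_lit 307) (nat_lit 434) (nat_lit 279)) (XT.lf (nat_lit 152) (nat_lit 8697316286) (nat_lit 0) (nat_lit 1243288886) (nat_lit 76) (nat_lit 1243288886) (nat_lit 83) (nat_lit 1) (nat_lit 81) (nat_lit 1) (nat_lit 82) (nat_lit 1) (nat_lit 308) (nat_lit 434) (nat_lit 278))))) (XT.nd (nat_lit 156) (nat_lit 228) (nat_lit 0) (XT.nd (nat_lit 78) (nat_lit 76) (nat_lit 0) (XT.lf (nat_lit 0) (nat_lit 2495580714) (nat_lit 0) (nat_lit 6081652911) (nat_lit 152) (nat_lit 2495580714) (nat_lit 81) (nat_lit 3) (nat_lit 81) (nat_lit 1) (nat_lit 83) (nat_lit 1) (nat_lit 309) (nat_lit 434) (nat_lit 277)) (XT.lf (nat_lit 76) (nat_lit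 1333328782) (nat_lit 0) (nat_lit 4814952274) (nat_lit 76) (nat_lit 4814952274) (nat_lit 81) (nat_lit 3) (nat_lit 80) (nat_lit 1) (nat_lit 81) (nat_lit 1) (nat_lit 310) (nat_lit 434) (nat_lit 276))) (XT.nd (nat_lit 78) (nat_lit 76) (nat_lit 0) (XT.lf (nat_lit 152) (nat_lit 8645874014) (nat_lit 0) (nat_lit 1104646072) (nat_lit 76) (nat_lit 1104646072) (nat_lit 80) (nat_lit 1) (nat_lit 78) (nat_lit 1) (nat_lit 79) (nat_lit 1) (nat_lit 311) (nat_lit 434) (nat_lit 275)) (XT.nd (nat_lit 78) (nat_lit 76) (nat_lit 0) (XT.lf (nat_lit 0) (nat_lit 2520400429) (nat_lit 0) (nat_lit 5706579130) (nat_lit 152) (nat_lit 2520400429) (nat_lit 78) (nat_lit 3) (nat_lit 78) (nat_lit 1) (nat_lit 80) (nat_lit 1) (nat_lit 312) (nat_lit 434) (nat_lit 274)) (XT.lf (nat_lit 76) (nat_lit 1484782981) (nat_lit 0) (nat_lit 4578160360) (nat_lit 76) (nat_lit 4578160360) (nat_lit 78) (nat_lit 3) (nat_lit 77) (nat_lit 1) (nat_lit 78)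 (nat_lit 1) (nat_lit 313) (nat_lit 434) (nat_lit 273))))))))
noncomputable def ec497 : XT := (XT.nd (nat_lit 1482) (nat_lit 1368) (nat_lit 0) (XT.nd (nat_lit 702) (nat_lit 836) (nat_lit 0) (XT.nd (nat_lit 312) (nat_lit 304) (nat_lit 0) (XT.nd (nat_lit 156) (nat_lit 228) (nat_lit 0) (XT.nd (nat_lit 78) (nat_lit 0) (nat_lit 0) (XT.lf (nat_lit 152) (nat_lit 8573418091) (nat_lit 0) (nat_lit 981463728) (nat_lit 76) (nat_lit 981463728) (nat_lit 77) (nat_lit 1) (nat_lit 75) (nat_lit 1) (nat_lit 76) (nat_lit 1) (nat_lit 314) (nat_lit 434) (nat_lit 272)) (XT.lf (nat_lit 0) (nat_lit 2533623999) (nat_lit 0) (nat_lit 5364502506) (nat_lit 152) (nat_lit 2533623999) (nat_lit 75) (nat_lit 3) (nat_lit 75) (nat_lit 1) (nat_lit 77) (nat_lit 1) (nat_lit 315) (nat_lit 434) (nat_lit 271))) (XT.nd (nat_lit 78) (nat_lit 152) (nat_lit 0) (XT.lf (nat_lit 76) (nat_lit 1610606203) (nat_lit 0) (nat_lit 4359031939) (nat_lit 76)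 (nat_lit 4359031939) (nat_lit 75) (nat_lit 3) (nat_lit 74) (nat_lit 1) (nat_lit 75) (nat_lit 1) (nat_lit 316) (nat_lit 434) (nat_lit 270)) (XT.lf (nat_lit 152) (nat_lit 8483070942) (nat_lit 0) (nat_lit 872017810) (nat_lit 76) (nat_lit 872017810) (nat_lit 74) (nat_lit 1) (nat_lit 72) (nat_lit 1) (nat_lit 73) (nat_lit 1) (nat_lit 317) (nat_lit 434) (nat_lit 269)))) (XT.nd (nat_lit 156) (nat_lit 228) (nat_lit 0) (XT.nd (nat_lit 78) (nat_lit 76) (nat_lit 0) (XT.lf (nat_lit 0) (nat_lit 2536801682) (nat_lit 0) (nat_lit 5052000570) (nat_lit 152) (nat_lit 2536801682) (nat_lit 72) (nat_lit 3) (nat_lit 72) (nat_lit 1) (nat_lit 74) (nat_lit 1) (nat_lit 318) (nat_lit 434) (nat_lit 268)) (XT.lf (nat_lit 76) (nat_lit 1713911251) (nat_lit 0) (nat_lit 4155851919) (nat_lit 76) (nat_lit 4155851919) (nat_lit 72) (nat_lit 3) (nat_lit 71) (nat_lit 1) (nat_lit 72) (nat_lit 1) (nat_lit 319) (nat_lit 434) (nat_lit 267))) (XT.nd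 (nat_lit 78) (nat_lit 76) (nat_lit 0) (XT.lf (nat_lit 152) (nat_lit 8377584106) (nat_lit 0) (nat_lit 774776530) (nat_lit 76) (nat_lit 774776530) (nat_lit 71) (nat_lit 1) (nat_lit 69) (nat_lit 1) (nat_lit 70) (nat_lit 1) (nat_lit 320) (nat_lit 434) (nat_lit 266)) (XT.nd (nat_lit 78) (nat_lit 76) (nat_lit 0) (XT.lf (nat_lit 0) (nat_lit 2531303374) (nat_lit 0) (nat_lit 4766025009) (nat_lit 152) (nat_lit 2531303374) (nat_lit 69) (nat_lit 3) (nat_lit 69) (nat_lit 1) (nat_lit 71) (nat_lit 1) (nat_lit 321) (nat_lit 434) (nat_lit 265)) (XT.lf (nat_lit 76) (nat_lit 1797456395) (nat_lit 0) (nat_lit 3967089050) (nat_lit 76) (nat_lit 3967089050) (nat_lit 69) (nat_lit 3) (nat_lit 68) (nat_lit 1) (nat_lit 69) (nat_lit 1) (nat_lit 322) (nat_lit 434) (nat_lit 264)))))) (XT.nd (nat_lit 390) (nat_lit 456) (nat_lit 0) (XT.nd (nat_lit 156) (nat_lit 228) (nat_lit 0) (XT.nd (nat_lit 78) (nat_lit 0) (nat_lit 0) (XT.lf (nat_lit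 152) (nat_lit 8259380261) (nat_lit 0) (nat_lit 688378912) (nat_lit 76) (nat_lit 688378912) (nat_lit 68) (nat_lit 1) (nat_lit 66) (nat_lit 1) (nat_lit 67) (nat_lit 1) (nat_lit 323) (nat_lit 434) (nat_lit 263)) (XT.lf (nat_lit 0) (nat_lit 2518338939) (nat_lit 0) (nat_lit 4503860167) (nat_lit 152) (nat_lit 2518338939) (nat_lit 66) (nat_lit 3) (nat_lit 66) (nat_lit 1) (nat_lit 68) (nat_lit 1) (nat_lit 324) (nat_lit 434) (nat_lit 262))) (XT.nd (nat_lit 78) (nat_lit 152) (nat_lit 0) (XT.lf (nat_lit 76) (nat_lit 1863685121) (nat_lit 0) (nat_lit 3791375634) (nat_lit 76) (nat_lit 3791375634) (nat_lit 66) (nat_lit 3) (nat_lit 65) (nat_lit 1) (nat_lit 66) (nat_lit 1) (nat_lit 325) (nat_lit 434) (nat_lit 261)) (XT.nd (nat_lit 78) (nat_lit 0) (nat_lit 0) (XT.lf (nat_lit 152) (nat_lit 8130590530) (nat_lit 0) (nat_lit 611615747) (nat_lit 76) (nat_lit 611615747) (nat_lit 65) (nat_lit 1) (nat_lit 63) (nat_lit 1) (nat_lit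 64) (nat_lit 1) (nat_lit 326) (nat_lit 434) (nat_lit 260)) (XT.lf (nat_lit 0) (nat_lit 2498976264) (nat_lit 0) (nat_lit 4263086158) (nat_lit 152) (nat_lit 2498976264) (nat_lit 63) (nat_lit 3) (nat_lit 63) (nat_lit 1) (nat_lit 65) (nat_lit 1) (nat_lit 327) (nat_lit 434) (nat_lit 259))))) (XT.nd (nat_lit 156) (nat_lit 228) (nat_lit 0) (XT.nd (nat_lit 78) (nat_lit 152) (nat_lit 0) (XT.lf (nat_lit 76) (nat_lit 1914761446) (nat_lit 0) (nat_lit 3627489499) (nat_lit 76) (nat_lit 3627489499) (nat_lit 63) (nat_lit 3) (nat_lit 62) (nat_lit 1) (nat_lit 63) (nat_lit 1) (nat_lit 328) (nat_lit 434) (nat_lit 258)) (XT.lf (nat_lit 152) (nat_lit 7993087626) (nat_lit 0) (nat_lit 543412669) (nat_lit 76) (nat_lit 543412669) (nat_lit 62) (nat_lit 1) (nat_lit 60) (nat_lit 1) (nat_lit 61) (nat_lit 1) (nat_lit 329) (nat_lit 434) (nat_lit 257))) (XT.nd (nat_lit 78) (nat_lit 228) (nat_lit 0) (XT.lf (nat_lit 0) (nat_lit 2474157300)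 (nat_lit 0) (nat_lit 4041546092) (nat_lit 152) (nat_lit 2474157300) (nat_lit 60) (nat_lit 3) (nat_lit 60) (nat_lit 1) (nat_lit 62) (nat_lit 1) (nat_lit 330) (nat_lit 434) (nat_lit 256)) (XT.nd (nat_lit 78) (nat_lit 152) (nat_lit 0) (XT.lf (nat_lit 76) (nat_lit 1952601283) (nat_lit 0) (nat_lit 3474337975) (nat_lit 76) (nat_lit 3474337975) (nat_lit 60) (nat_lit 3) (nat_lit 59) (nat_lit 1) (nat_lit 60) (nat_lit 1) (nat_lit 331) (nat_lit 434) (nat_lit 255)) (XT.lf (nat_lit 152) (nat_lit 7848515263) (nat_lit 0) (nat_lit 482815118) (nat_lit 76) (nat_lit 482815118) (nat_lit 59) (nat_lit 1) (nat_lit 57) (nat_lit 1) (nat_lit 58) (nat_lit 1) (nat_lit 332) (nat_lit 434) (nat_lit 254))))))) (XT.nd (nat_lit 702) (nat_lit 684) (nat_lit 0) (XT.nd (nat_lit 312) (nat_lit 456) (nat_lit 0) (XT.nd (nat_lit 156) (nat_lit 152) (nat_lit 0) (XT.nd (nat_lit 78) (nat_lit 76) (nat_lit 0) (XT.lf (nat_lit 0) (nat_lit 2444712304)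 (nat_lit 0) (nat_lit 3837316946) (nat_lit 152) (nat_lit 2444712304) (nat_lit 57) (nat_lit 3) (nat_lit 57) (nat_lit 1) (nat_lit 59) (nat_lit 1) (nat_lit 333) (nat_lit 434) (nat_lit 253)) (XT.lf (nat_lit 76) (nat_lit 1978900308) (nat_lit 0) (nat_lit 3330943649) (nat_lit 76) (nat_lit 3330943649) (nat_lit 57) (nat_lit 3) (nat_lit 56) (nat_lit 1) (nat_lit 57) (nat_lit 1) (nat_lit 334) (nat_lit 434) (nat_lit 252))) (XT.nd (nat_lit 78) (nat_lit 0) (nat_lit 0) (XT.lf (nat_lit 152) (nat_lit 7698314287) (nat_lit 0) (nat_lit 428974979) (nat_lit 76) (nat_lit 428974979) (nat_lit 56) (nat_lit 1) (nat_lit 54) (nat_lit 1) (nat_lit 55) (nat_lit 1) (nat_lit 335) (nat_lit 434) (nat_lit 251)) (XT.lf (nat_lit 0) (nat_lit 2411372489) (nat_lit 0) (nat_lit 3648683676) (nat_lit 152) (nat_lit 2411372489) (nat_lit 54) (nat_lit 3) (nat_lit 54) (nat_lit 1) (nat_lit 56) (nat_lit 1) (nat_lit 336) (nat_lit 434) (nat_lit 250)))) (XT.nd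 (nat_lit 156) (nat_lit 228) (nat_lit 0) (XT.nd (nat_lit 78) (nat_lit 152) (nat_lit 0) (XT.lf (nat_lit 76) (nat_lit 1995158708) (nat_lit 0) (nat_lit 3196431704) (nat_lit 76) (nat_lit 3196431704) (nat_lit 54) (nat_lit 3) (nat_lit 53) (nat_lit 1) (nat_lit 54) (nat_lit 1) (nat_lit 337) (nat_lit 434) (nat_lit 249)) (XT.lf (nat_lit 152) (nat_lit 7543745865) (nat_lit 0) (nat_lit 381138713) (nat_lit 76) (nat_lit 381138713) (nat_lit 53) (nat_lit 1) (nat_lit 51) (nat_lit 1) (nat_lit 52) (nat_lit 1) (nat_lit 338) (nat_lit 434) (nat_lit 248))) (XT.nd (nat_lit 78) (nat_lit 228) (nat_lit 0) (XT.lf (nat_lit 0) (nat_lit 2374781254) (nat_lit 0) (nat_lit 3474116218) (nat_lit 152) (nat_lit 2374781254) (nat_lit 51) (nat_lit 3) (nat_lit 51) (nat_lit 1) (nat_lit 53) (nat_lit 1) (nat_lit 339) (nat_lit 434) (nat_lit 247)) (XT.nd (nat_lit 78) (nat_lit 152) (nat_lit 0) (XT.lf (nat_lit 76) (nat_lit 2002703170) (nat_lit 0) (nat_lit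 3070018669) (nat_lit 76) (nat_lit 3070018669) (nat_lit 51) (nat_lit 3) (nat_lit 50) (nat_lit 1) (nat_lit 51) (nat_lit 1) (nat_lit 340) (nat_lit 434) (nat_lit 246)) (XT.lf (nat_lit 152) (nat_lit 7385912077) (nat_lit 0) (nat_lit 338636810) (nat_lit 76) (nat_lit 338636810) (nat_lit 50) (nat_lit 1) (nat_lit 48) (nat_lit 1) (nat_lit 49) (nat_lit 1) (nat_lit 341) (nat_lit 434) (nat_lit 245)))))) (XT.nd (nat_lit 390) (nat_lit 380) (nat_lit 0) (XT.nd (nat_lit 156) (nat_lit 228) (nat_lit 0) (XT.nd (nat_lit 78) (nat_lit 76) (nat_lit 0) (XT.lf (nat_lit 0) (nat_lit 2335504162) (nat_lit 0) (nat_lit 3312249039) (nat_lit 152) (nat_lit 2335504162) (nat_lit 48) (nat_lit 3) (nat_lit 48) (nat_lit 1) (nat_lit 50) (nat_lit 1) (nat_lit 342) (nat_lit 434) (nat_lit 244)) (XT.lf (nat_lit 76) (nat_lit 2002706410) (nat_lit 0) (nat_lit 2951002407) (nat_lit 76) (nat_lit 2951002407) (nat_lit 48) (nat_lit 3) (nat_lit 47) (nat_lit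 1) (nat_lit 48) (nat_lit 1) (nat_lit 343) (nat_lit 434) (nat_lit 243))) (XT.nd (nat_lit 78) (nat_lit 76) (nat_lit 0) (XT.lf (nat_lit 152) (nat_lit 7225774192) (nat_lit 0) (nat_lit 300874419) (nat_lit 76) (nat_lit 300874419) (nat_lit 47) (nat_lit 1) (nat_lit 45) (nat_lit 1) (nat_lit 46) (nat_lit 1) (nat_lit 344) (nat_lit 434) (nat_lit 242)) (XT.nd (nat_lit 78) (nat_lit 76) (nat_lit 0) (XT.lf (nat_lit 0) (nat_lit 2294037797) (nat_lit 0) (nat_lit 3161862969) (nat_lit 152) (nat_lit 2294037797) (nat_lit 45) (nat_lit 3) (nat_lit 45) (nat_lit 1) (nat_lit 47) (nat_lit 1) (nat_lit 345) (nat_lit 434) (nat_lit 241)) (XT.lf (nat_lit 76) (nat_lit 1996204515) (nat_lit 0) (nat_lit 2838753225) (nat_lit 76) (nat_lit 2838753225) (nat_lit 45) (nat_lit 3) (nat_lit 44) (nat_lit 1) (nat_lit 45) (nat_lit 1) (nat_lit 346) (nat_lit 434) (nat_lit 240))))) (XT.nd (nat_lit 156) (nat_lit 228) (nat_lit 0) (XT.nd (nat_lit 78) (nat_lit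 0) (nat_lit 0) (XT.lf (nat_lit 152) (nat_lit 7064168891) (nat_lit 0) (nat_lit 267323025) (nat_lit 76) (nat_lit 267323025) (nat_lit 44) (nat_lit 1) (nat_lit 42) (nat_lit 1) (nat_lit 43) (nat_lit 1) (nat_lit 347) (nat_lit 434) (nat_lit 239)) (XT.lf (nat_lit 0) (nat_lit 2250817626) (nat_lit 0) (nat_lit 3021869051) (nat_lit 152) (nat_lit 2250817626) (nat_lit 42) (nat_lit 3) (nat_lit 42) (nat_lit 1) (nat_lit 44) (nat_lit 1) (nat_lit 348) (nat_lit 434) (nat_lit 238))) (XT.nd (nat_lit 78) (nat_lit 152) (nat_lit 0) (XT.lf (nat_lit 76) (nat_lit 1984112350) (nat_lit 0) (nat_lit 2732705967) (nat_lit 76) (nat_lit 2732705967) (nat_lit 42) (nat_lit 3) (nat_lit 41) (nat_lit 1) (nat_lit 42) (nat_lit 1) (nat_lit 349) (nat_lit 434) (nat_lit 237)) (XT.nd (nat_lit 78) (nat_lit 0) (nat_lit 0) (XT.lf (nat_lit 152) (nat_lit 6901822671) (nat_lit 0) (nat_lit 237513045) (nat_lit 76) (nat_lit 237513045) (nat_lit 41) (nat_lit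 1) (nat_lit 39) (nat_lit 1) (nat_lit 40) (nat_lit 1) (nat_lit 350) (nat_lit 434) (nat_lit 236)) (XT.lf (nat_lit 0) (nat_lit 2206224984) (nat_lit 0) (nat_lit 2891294188) (nat_lit 152) (nat_lit 2206224984) (nat_lit 39) (nat_lit 3) (nat_lit 39) (nat_lit 1) (nat_lit 41) (nat_lit 1) (nat_lit 351) (nat_lit 434) (nat_lit 235))))))))
noncomputable def ec498 : XT := (XT.nd (nat_lit 43134) (nat_lit 0) (nat_lit 9956) (XT.nd (nat_lit 702) (nat_lit 684) (nat_lit 0) (XT.nd (nat_lit 312) (nat_lit 380) (nat_lit 0) (XT.nd (nat_lit 156) (nat_lit 76) (nat_lit 0) (XT.nd (nat_lit 78) (nat_lit 152) (nat_lit 0) (XT.lf (nat_lit 76) (nat_lit 1967237245) (nat_lit 0) (nat_lit 2632352977) (nat_lit 76) (nat_lit 2632352977) (nat_lit 39) (nat_lit 3) (nat_lit 38) (nat_lit 1) (nat_lit 39) (nat_lit 1) (nat_lit 352) (nat_lit 434) (nat_lit 234)) (XT.lf (nat_lit 152) (nat_lit 6739364621) (nat_lit 0) (nat_lit 211027264) (nat_lit 76) (nat_lit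 211027264) (nat_lit 38) (nat_lit 1) (nat_lit 36) (nat_lit 1) (nat_lit 37) (nat_lit 1) (nat_lit 353) (nat_lit 434) (nat_lit 233))) (XT.nd (nat_lit 78) (nat_lit 76) (nat_lit 0) (XT.lf (nat_lit 0) (nat_lit 2160593270) (nat_lit 0) (nat_lit 2769268385) (nat_lit 152) (nat_lit 2160593270) (nat_lit 36) (nat_lit 3) (nat_lit 36) (nat_lit 1) (nat_lit 38) (nat_lit 1) (nat_lit 354) (nat_lit 434) (nat_lit 232)) (XT.lf (nat_lit 76) (nat_lit 1946291142) (nat_lit 0) (nat_lit 2537237856) (nat_lit 76) (nat_lit 2537237856) (nat_lit 36) (nat_lit 3) (nat_lit 35) (nat_lit 1) (nat_lit 36) (nat_lit 1) (nat_lit 355) (nat_lit 434) (nat_lit 231)))) (XT.nd (nat_lit 156) (nat_lit 228) (nat_lit 0) (XT.nd (nat_lit 78) (nat_lit 0) (nat_lit 0) (XT.lf (nat_lit 152) (nat_lit 6577337760) (nat_lit 0) (nat_lit 187494991) (nat_lit 76) (nat_lit 187494991) (nat_lit 35) (nat_lit 1) (nat_lit 33) (nat_lit 1) (nat_lit 34) (nat_lit 1) (nat_lit 356)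 (nat_lit 434) (nat_lit 230)) (XT.lf (nat_lit 0) (nat_lit 2114213454) (nat_lit 0) (nat_lit 2655013410) (nat_lit 152) (nat_lit 2114213454) (nat_lit 33) (nat_lit 3) (nat_lit 33) (nat_lit 1) (nat_lit 35) (nat_lit 1) (nat_lit 357) (nat_lit 434) (nat_lit 229))) (XT.nd (nat_lit 78) (nat_lit 152) (nat_lit 0) (XT.lf (nat_lit 76) (nat_lit 1921901394) (nat_lit 0) (nat_lit 2446949895) (nat_lit 76) (nat_lit 2446949895) (nat_lit 33) (nat_lit 3) (nat_lit 32) (nat_lit 1) (nat_lit 33) (nat_lit 1) (nat_lit 358) (nat_lit 434) (nat_lit 228)) (XT.nd (nat_lit 78) (nat_lit 0) (nat_lit 0) (XT.lf (nat_lit 152) (nat_lit 6416209101) (nat_lit 0) (nat_lit 166586871) (nat_lit 76) (nat_lit 166586871) (nat_lit 32) (nat_lit 1) (nat_lit 30) (nat_lit 1) (nat_lit 31) (nat_lit 1) (nat_lit 359) (nat_lit 434) (nat_lit 227)) (XT.lf (nat_lit 0) (nat_lit 2067338958) (nat_lit 0) (nat_lit 2547832714) (nat_lit 152) (nat_lit 2067338958) (nat_lit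 30) (nat_lit 3) (nat_lit 30) (nat_lit 1) (nat_lit 32) (nat_lit 1) (nat_lit 360) (nat_lit 434) (nat_lit 226)))))) (XT.nd (nat_lit 390) (nat_lit 228) (nat_lit 0) (XT.nd (nat_lit 156) (nat_lit 228) (nat_lit 0) (XT.nd (nat_lit 78) (nat_lit 152) (nat_lit 0) (XT.lf (nat_lit 76) (nat_lit 1894620343) (nat_lit 0) (nat_lit 2361119136) (nat_lit 76) (nat_lit 2361119136) (nat_lit 30) (nat_lit 3) (nat_lit 29) (nat_lit 1) (nat_lit 30) (nat_lit 1) (nat_lit 361) (nat_lit 434) (nat_lit 225)) (XT.lf (nat_lit 152) (nat_lit 6256378578) (nat_lit 0) (nat_lit 148010277) (nat_lit 76) (nat_lit 148010277) (nat_lit 29) (nat_lit 1) (nat_lit 27) (nat_lit 1) (nat_lit 28) (nat_lit 1) (nat_lit 362) (nat_lit 434) (nat_lit 224))) (XT.nd (nat_lit 78) (nat_lit 228) (nat_lit 0) (XT.lf (nat_lit 0) (nat_lit 2020189991) (nat_lit 0) (nat_lit 2447102471) (nat_lit 152) (nat_lit 2020189991) (nat_lit 27) (nat_lit 3) (nat_lit 27) (nat_lit 1) (nat_lit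 29) (nat_lit 1) (nat_lit 363) (nat_lit 434) (nat_lit 223)) (XT.nd (nat_lit 78) (nat_lit 152) (nat_lit 0) (XT.lf (nat_lit 76) (nat_lit 1864933836) (nat_lit 0) (nat_lit 2279411971) (nat_lit 76) (nat_lit 2279411971) (nat_lit 27) (nat_lit 3) (nat_lit 26) (nat_lit 1) (nat_lit 27) (nat_lit 1) (nat_lit 364) (nat_lit 434) (nat_lit 222)) (XT.lf (nat_lit 152) (nat_lit 6098186960) (nat_lit 0) (nat_lit 131505214) (nat_lit 76) (nat_lit 131505214) (nat_lit 26) (nat_lit 1) (nat_lit 24) (nat_lit 1) (nat_lit 25) (nat_lit 1) (nat_lit 365) (nat_lit 434) (nat_lit 221))))) (XT.nd (nat_lit 156) (nat_lit 152) (nat_lit 0) (XT.nd (nat_lit 78) (nat_lit 76) (nat_lit 0) (XT.lf (nat_lit 0) (nat_lit 1972957403) (nat_lit 0) (nat_lit 2352263611) (nat_lit 152) (nat_lit 1972957403) (nat_lit 24) (nat_lit 3) (nat_lit 24) (nat_lit 1) (nat_lit 26) (nat_lit 1) (nat_lit 366) (nat_lit 434) (nat_lit 220)) (XT.lf (nat_lit 76) (nat_lit 1833268783)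 (nat_lit 0) (nat_lit 2201527238) (nat_lit 76) (nat_lit 2201527238) (nat_lit 24) (nat_lit 3) (nat_lit 23) (nat_lit 1) (nat_lit 24) (nat_lit 1) (nat_lit 367) (nat_lit 434) (nat_lit 219))) (XT.nd (nat_lit 78) (nat_lit 0) (nat_lit 0) (XT.lf (nat_lit 152) (nat_lit 5941922874) (nat_lit 0) (nat_lit 116840679) (nat_lit 76) (nat_lit 116840679) (nat_lit 23) (nat_lit 1) (nat_lit 21) (nat_lit 1) (nat_lit 22) (nat_lit 1) (nat_lit 368) (nat_lit 434) (nat_lit 218)) (XT.nd (nat_lit 41730) (nat_lit 0) (nat_lit 12540) (XT.lf (nat_lit 0) (nat_lit 1925806090) (nat_lit 0) (nat_lit 2262814743) (nat_lit 152) (nat_lit 1925806090) (nat_lit 21) (nat_lit 3) (nat_lit 21) (nat_lit 1) (nat_lit 23) (nat_lit 1) (nat_lit 369) (nat_lit 434) (nat_lit 217)) (XT.lf (nat_lit 76) (nat_lit 2704730732) (nat_lit 0) (nat_lit 21567746196) (nat_lit 304) (nat_lit 2704730732) (nat_lit 187) (nat_lit 1) (nat_lit 186) (nat_lit 1) (nat_lit 190) (nat_lit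 1) (nat_lit 223) (nat_lit 435) (nat_lit 362))))))) (XT.nd (nat_lit 702) (nat_lit 1292) (nat_lit 0) (XT.nd (nat_lit 312) (nat_lit 684) (nat_lit 0) (XT.nd (nat_lit 156) (nat_lit 152) (nat_lit 0) (XT.nd (nat_lit 78) (nat_lit 228) (nat_lit 0) (XT.lf (nat_lit 76) (nat_lit 12446439033) (nat_lit 0) (nat_lit 1792078345) (nat_lit 228) (nat_lit 12446439033) (nat_lit 184) (nat_lit 1) (nat_lit 183) (nat_lit 1) (nat_lit 186) (nat_lit 1) (nat_lit 224) (nat_lit 435) (nat_lit 361)) (XT.lf (nat_lit 304) (nat_lit 17648228264) (nat_lit 0) (nat_lit 4374716488) (nat_lit 228) (nat_lit 4374716488) (nat_lit 184) (nat_lit 1) (nat_lit 180) (nat_lit 1) (nat_lit 183) (nat_lit 1) (nat_lit 225) (nat_lit 435) (nat_lit 360))) (XT.nd (nat_lit 78) (nat_lit 152) (nat_lit 0) (XT.lf (nat_lit 76) (nat_lit 5219926372) (nat_lit 0) (nat_lit 15673791778) (nat_lit 304) (nat_lit 5219926372) (nat_lit 181) (nat_lit 1) (nat_lit 180) (nat_lit 1)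 (nat_lit 184) (nat_lit 1) (nat_lit 226) (nat_lit 435) (nat_lit 359)) (XT.lf (nat_lit 228) (nat_lit 3287765285) (nat_lit 0) (nat_lit 11272829591) (nat_lit 152) (nat_lit 11272829591) (nat_lit 181) (nat_lit 1) (nat_lit 178) (nat_lit 1) (nat_lit 180) (nat_lit 1) (nat_lit 227) (nat_lit 435) (nat_lit 358)))) (XT.nd (nat_lit 156) (nat_lit 380) (nat_lit 0) (XT.nd (nat_lit 78) (nat_lit 0) (nat_lit 0) (XT.lf (nat_lit 304) (nat_lit 21905881183) (nat_lit 0) (nat_lit 1826199357) (nat_lit 228) (nat_lit 1826199357) (nat_lit 178) (nat_lit 1) (nat_lit 174) (nat_lit 1) (nat_lit 177) (nat_lit 1) (nat_lit 228) (nat_lit 435) (nat_lit 357)) (XT.lf (nat_lit 76) (nat_lit 7372602165) (nat_lit 0) (nat_lit 10538707229) (nat_lit 304) (nat_lit 7372602165) (nat_lit 175) (nat_lit 1) (nat_lit 174) (nat_lit 1) (nat_lit 178) (nat_lit 1) (nat_lit 229) (nat_lit 435) (nat_lit 356))) (XT.nd (nat_lit 78) (nat_lit 228) (nat_lit 0) (XT.lf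 (nat_lit 228) (nat_lit 7689770223) (nat_lit 0) (nat_lit 8662377485) (nat_lit 152) (nat_lit 8662377485) (nat_lit 175) (nat_lit 1) (nat_lit 172) (nat_lit 1) (nat_lit 174) (nat_lit 1) (nat_lit 230) (nat_lit 435) (nat_lit 355)) (XT.nd (nat_lit 78) (nat_lit 228) (nat_lit 0) (XT.lf (nat_lit 76) (nat_lit 381848928) (nat_lit 0) (nat_lit 23987069612) (nat_lit 228) (nat_lit 381848928) (nat_lit 173) (nat_lit 1) (nat_lit 172) (nat_lit 1) (nat_lit 175) (nat_lit 1) (nat_lit 231) (nat_lit 435) (nat_lit 354)) (XT.lf (nat_lit 76) (nat_lit 9205573371) (nat_lit 0) (nat_lit 6074908994) (nat_lit 228) (nat_lit 9205573371) (nat_lit 170) (nat_lit 1) (nat_lit 169) (nat_lit 1) (nat_lit 172) (nat_lit 1) (nat_lit 232) (nat_lit 435) (nat_lit 353)))))) (XT.nd (nat_lit 390) (nat_lit 760) (nat_lit 0) (XT.nd (nat_lit 156) (nat_lit 380) (nat_lit 0) (XT.nd (nat_lit 78) (nat_lit 0) (nat_lit 0) (XT.lf (nat_lit 228) (nat_lit 11462002361)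 (nat_lit 0) (nat_lit 6382443598) (nat_lit 152) (nat_lit 6382443598) (nat_lit 170) (nat_lit 1) (nat_lit 167) (nat_lit 1) (nat_lit 169) (nat_lit 1) (nat_lit 233) (nat_lit 435) (nat_lit 352)) (XT.lf (nat_lit 76) (nat_lit 2300887536) (nat_lit 0) (nat_lit 19370191444) (nat_lit 228) (nat_lit 2300887536) (nat_lit 168) (nat_lit 1) (nat_lit 167) (nat_lit 1) (nat_lit 170) (nat_lit 1) (nat_lit 234) (nat_lit 435) (nat_lit 351))) (XT.nd (nat_lit 78) (nat_lit 152) (nat_lit 0) (XT.lf (nat_lit 76) (nat_lit 10756811192) (nat_lit 0) (nat_lit 2204666423) (nat_lit 228) (nat_lit 10756811192) (nat_lit 165) (nat_lit 1) (nat_lit 164) (nat_lit 1) (nat_lit 167) (nat_lit 1) (nat_lit 235) (nat_lit 435) (nat_lit 350)) (XT.nd (nat_lit 78) (nat_lit 0) (nat_lit 0) (XT.lf (nat_lit 228) (nat_lit 14678734930) (nat_lit 0) (nat_lit 4395022741) (nat_lit 152) (nat_lit 4395022741) (nat_lit 165) (nat_lit 1) (nat_lit 162) (nat_lit 1) (nat_lit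 164) (nat_lit 1) (nat_lit 236) (nat_lit 435) (nat_lit 349)) (XT.lf (nat_lit 76) (nat_lit 3948793929) (nat_lit 0) (nat_lit 15324718365) (nat_lit 228) (nat_lit 3948793929) (nat_lit 163) (nat_lit 1) (nat_lit 162) (nat_lit 1) (nat_lit 165) (nat_lit 1) (nat_lit 237) (nat_lit 435) (nat_lit 348))))) (XT.nd (nat_lit 156) (nat_lit 380) (nat_lit 0) (XT.nd (nat_lit 78) (nat_lit 228) (nat_lit 0) (XT.lf (nat_lit 228) (nat_lit 1163707588) (nat_lit 0) (nat_lit 10907463658) (nat_lit 152) (nat_lit 10907463658) (nat_lit 163) (nat_lit 1) (nat_lit 160) (nat_lit 1) (nat_lit 162) (nat_lit 1) (nat_lit 238) (nat_lit 435) (nat_lit 347)) (XT.lf (nat_lit 228) (nat_lit 17405840902) (nat_lit 0) (nat_lit 2666381237) (nat_lit 152) (nat_lit 2666381237) (nat_lit 160) (nat_lit 1) (nat_lit 157) (nat_lit 1) (nat_lit 159) (nat_lit 1) (nat_lit 239) (nat_lit 435) (nat_lit 346))) (XT.nd (nat_lit 78) (nat_lit 380) (nat_lit 0) (XT.lf (nat_lit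 76) (nat_lit 5357466974) (nat_lit 0) (nat_lit 11785283830) (nat_lit 228) (nat_lit 5357466974) (nat_lit 158) (nat_lit 1) (nat_lit 157) (nat_lit 1) (nat_lit 160) (nat_lit 1) (nat_lit 240) (nat_lit 435) (nat_lit 345)) (XT.nd (nat_lit 78) (nat_lit 228) (nat_lit 0) (XT.lf (nat_lit 228) (nat_lit 4103365781) (nat_lit 0) (nat_lit 9081022184) (nat_lit 152) (nat_lit 9081022184) (nat_lit 158) (nat_lit 1) (nat_lit 155) (nat_lit 1) (nat_lit 157) (nat_lit 1) (nat_lit 241) (nat_lit 435) (nat_lit 344)) (XT.lf (nat_lit 228) (nat_lit 19701733167) (nat_lit 0) (nat_lit 1166579618) (nat_lit 152) (nat_lit 1166579618) (nat_lit 155) (nat_lit 1) (nat_lit 152) (nat_lit 1) (nat_lit 154) (nat_lit 1) (nat_lit 242) (nat_lit 435) (nat_lit 343))))))))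
noncomputable def ec499 : XT := (XT.nd (nat_lit 1482) (nat_lit 1596) (nat_lit 0) (XT.nd (nat_lit 702) (nat_lit 988) (nat_lit 0) (XT.nd (nat_lit 312) (nat_lit 456) (nat_lit 0) (XT.nd (nat_lit 156) (nat_lit 152) (nat_lit 0) (XT.nd (nat_lit 78) (nat_lit 152) (nat_lit 0) (XT.lf (nat_lit 76) (nat_lit 6555199931) (nat_lit 0) (nat_lit 8693858496) (nat_lit 228) (nat_lit 6555199931) (nat_lit 153) (nat_lit 1) (nat_lit 152) (nat_lit 1) (nat_lit 155) (nat_lit 1) (nat_lit 243) (nat_lit 435) (nat_lit 342)) (XT.lf (nat_lit 228) (nat_lit 6625813234) (nat_lit 0) (nat_lit 7476023018) (nat_lit 152) (nat_lit 7476023018) (nat_lit 153) (nat_lit 1) (nat_lit 150) (nat_lit 1) (nat_lit 152) (nat_lit 1) (nat_lit 244) (nat_lit 435) (nat_lit 341))) (XT.nd (nat_lit 78) (nat_lit 152) (nat_lit 0) (XT.lf (nat_lit 76) (nat_lit 132247974) (nat_lit 0) (nat_lit 21091647639) (nat_lit 228) (nat_lit 132247974) (nat_lit 151) (nat_lit 1) (nat_lit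 150) (nat_lit 1) (nat_lit 153) (nat_lit 1) (nat_lit 245) (nat_lit 435) (nat_lit 340)) (XT.lf (nat_lit 76) (nat_lit 7567083940) (nat_lit 0) (nat_lit 5998930628) (nat_lit 152) (nat_lit 7567083940) (nat_lit 149) (nat_lit 1) (nat_lit 148) (nat_lit 1) (nat_lit 150) (nat_lit 1) (nat_lit 246) (nat_lit 435) (nat_lit 339)))) (XT.nd (nat_lit 156) (nat_lit 304) (nat_lit 0) (XT.nd (nat_lit 78) (nat_lit 0) (nat_lit 0) (XT.lf (nat_lit 228) (nat_lit 8780178254) (nat_lit 0) (nat_lit 6067254889) (nat_lit 152) (nat_lit 6067254889) (nat_lit 149) (nat_lit 1) (nat_lit 146) (nat_lit 1) (nat_lit 148) (nat_lit 1) (nat_lit 247) (nat_lit 435) (nat_lit 338)) (XT.lf (nat_lit 76) (nat_lit 1262161914) (nat_lit 0) (nat_lit 18175783183) (nat_lit 228) (nat_lit 1262161914) (nat_lit 147) (nat_lit 1) (nat_lit 146) (nat_lit 1) (nat_lit 149) (nat_lit 1) (nat_lit 248) (nat_lit 435) (nat_lit 337))) (XT.nd (nat_lit 78) (nat_lit 152) (nat_lit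 0) (XT.lf (nat_lit 76) (nat_lit 8415366464) (nat_lit 0) (nat_lit 3654777948) (nat_lit 152) (nat_lit 8415366464) (nat_lit 145) (nat_lit 1) (nat_lit 144) (nat_lit 1) (nat_lit 146) (nat_lit 1) (nat_lit 249) (nat_lit 435) (nat_lit 336)) (XT.nd (nat_lit 78) (nat_lit 0) (nat_lit 0) (XT.lf (nat_lit 228) (nat_lit 10610034865) (nat_lit 0) (nat_lit 4832332984) (nat_lit 152) (nat_lit 4832332984) (nat_lit 145) (nat_lit 1) (nat_lit 142) (nat_lit 1) (nat_lit 144) (nat_lit 1) (nat_lit 250) (nat_lit 435) (nat_lit 335)) (XT.lf (nat_lit 76) (nat_lit 2232736166) (nat_lit 0) (nat_lit 15601498854) (nat_lit 228) (nat_lit 2232736166) (nat_lit 143) (nat_lit 1) (nat_lit 142) (nat_lit 1) (nat_lit 145) (nat_lit 1) (nat_lit 251) (nat_lit 435) (nat_lit 334)))))) (XT.nd (nat_lit 390) (nat_lit 380) (nat_lit 0) (XT.nd (nat_lit 156) (nat_lit 304) (nat_lit 0) (XT.nd (nat_lit 78) (nat_lit 152) (nat_lit 0) (XT.lf (nat_lit 76) (nat_lit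 9119769730) (nat_lit 0) (nat_lit 1620820719) (nat_lit 152) (nat_lit 9119769730) (nat_lit 141) (nat_lit 1) (nat_lit 140) (nat_lit 1) (nat_lit 142) (nat_lit 1) (nat_lit 252) (nat_lit 435) (nat_lit 333)) (XT.lf (nat_lit 228) (nat_lit 12154024389) (nat_lit 0) (nat_lit 3751383326) (nat_lit 152) (nat_lit 3751383326) (nat_lit 141) (nat_lit 1) (nat_lit 138) (nat_lit 1) (nat_lit 140) (nat_lit 1) (nat_lit 253) (nat_lit 435) (nat_lit 332))) (XT.nd (nat_lit 78) (nat_lit 304) (nat_lit 0) (XT.lf (nat_lit 76) (nat_lit 3062710226) (nat_lit 0) (nat_lit 13330225689) (nat_lit 228) (nat_lit 3062710226) (nat_lit 139) (nat_lit 1) (nat_lit 138) (nat_lit 1) (nat_lit 141) (nat_lit 1) (nat_lit 254) (nat_lit 435) (nat_lit 331)) (XT.nd (nat_lit 78) (nat_lit 228) (nat_lit 0) (XT.lf (nat_lit 152) (nat_lit 141718436) (nat_lit 0) (nat_lit 9557417467) (nat_lit 76) (nat_lit 9557417467) (nat_lit 139) (nat_lit 1) (nat_lit 137) (nat_lit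 1) (nat_lit 138) (nat_lit 1) (nat_lit 255) (nat_lit 435) (nat_lit 330)) (XT.lf (nat_lit 228) (nat_lit 13446407650) (nat_lit 0) (nat_lit 2806762349) (nat_lit 152) (nat_lit 2806762349) (nat_lit 137) (nat_lit 1) (nat_lit 134) (nat_lit 1) (nat_lit 136) (nat_lit 1) (nat_lit 256) (nat_lit 435) (nat_lit 329))))) (XT.nd (nat_lit 156) (nat_lit 304) (nat_lit 0) (XT.nd (nat_lit 78) (nat_lit 76) (nat_lit 0) (XT.lf (nat_lit 76) (nat_lit 3768705611) (nat_lit 0) (nat_lit 11327709597) (nat_lit 228) (nat_lit 3768705611) (nat_lit 135) (nat_lit 1) (nat_lit 134) (nat_lit 1) (nat_lit 137) (nat_lit 1) (nat_lit 257) (nat_lit 435) (nat_lit 328)) (XT.lf (nat_lit 152) (nat_lit 1689465511) (nat_lit 0) (nat_lit 8491641631) (nat_lit 76) (nat_lit 8491641631) (nat_lit 135) (nat_lit 1) (nat_lit 133) (nat_lit 1) (nat_lit 134) (nat_lit 1) (nat_lit 258) (nat_lit 435) (nat_lit 327))) (XT.nd (nat_lit 78) (nat_lit 76) (nat_lit 0) (XT.lf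 (nat_lit 228) (nat_lit 14517555544) (nat_lit 0) (nat_lit 1982807772) (nat_lit 152) (nat_lit 1982807772) (nat_lit 133) (nat_lit 1) (nat_lit 130) (nat_lit 1) (nat_lit 132) (nat_lit 1) (nat_lit 259) (nat_lit 435) (nat_lit 326)) (XT.nd (nat_lit 78) (nat_lit 76) (nat_lit 0) (XT.lf (nat_lit 76) (nat_lit 4365462864) (nat_lit 0) (nat_lit 9563529791) (nat_lit 228) (nat_lit 4365462864) (nat_lit 131) (nat_lit 1) (nat_lit 130) (nat_lit 1) (nat_lit 133) (nat_lit 1) (nat_lit 260) (nat_lit 435) (nat_lit 325)) (XT.lf (nat_lit 152) (nat_lit 3019078435) (nat_lit 0) (nat_lit 7544713605) (nat_lit 76) (nat_lit 7544713605) (nat_lit 131) (nat_lit 1) (nat_lit 129) (nat_lit 1) (nat_lit 130) (nat_lit 1) (nat_lit 261) (nat_lit 435) (nat_lit 324))))))) (XT.nd (nat_lit 702) (nat_lit 684) (nat_lit 0) (XT.nd (nat_lit 312) (nat_lit 380) (nat_lit 0) (XT.nd (nat_lit 156) (nat_lit 304) (nat_lit 0) (XT.nd (nat_lit 78) (nat_lit 0) (nat_lit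 0) (XT.lf (nat_lit 228) (nat_lit 15394384831) (nat_lit 0) (nat_lit 1265617256) (nat_lit 152) (nat_lit 1265617256) (nat_lit 129) (nat_lit 1) (nat_lit 126) (nat_lit 1) (nat_lit 128) (nat_lit 1) (nat_lit 262) (nat_lit 435) (nat_lit 323)) (XT.lf (nat_lit 76) (nat_lit 4866052108) (nat_lit 0) (nat_lit 8010670926) (nat_lit 228) (nat_lit 4866052108) (nat_lit 127) (nat_lit 1) (nat_lit 126) (nat_lit 1) (nat_lit 129) (nat_lit 1) (nat_lit 263) (nat_lit 435) (nat_lit 322))) (XT.nd (nat_lit 78) (nat_lit 228) (nat_lit 0) (XT.lf (nat_lit 152) (nat_lit 4156208406) (nat_lit 0) (nat_lit 6703380318) (nat_lit 76) (nat_lit 6703380318) (nat_lit 127) (nat_lit 1) (nat_lit 125) (nat_lit 1) (nat_lit 126) (nat_lit 1) (nat_lit 264) (nat_lit 435) (nat_lit 321)) (XT.lf (nat_lit 228) (nat_lit 16100745283) (nat_lit 0) (nat_lit 642851755) (nat_lit 152) (nat_lit 642851755) (nat_lit 125) (nat_lit 1) (nat_lit 122) (nat_lit 1) (nat_lit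 124) (nat_lit 1) (nat_lit 265) (nat_lit 435) (nat_lit 320)))) (XT.nd (nat_lit 156) (nat_lit 304) (nat_lit 0) (XT.nd (nat_lit 78) (nat_lit 76) (nat_lit 0) (XT.lf (nat_lit 76) (nat_lit 5282060092) (nat_lit 0) (nat_lit 6645142968) (nat_lit 228) (nat_lit 5282060092) (nat_lit 123) (nat_lit 1) (nat_lit 122) (nat_lit 1) (nat_lit 125) (nat_lit 1) (nat_lit 266) (nat_lit 435) (nat_lit 319)) (XT.lf (nat_lit 152) (nat_lit 5123607552) (nat_lit 0) (nat_lit 5955866590) (nat_lit 76) (nat_lit 5955866590) (nat_lit 123) (nat_lit 1) (nat_lit 121) (nat_lit 1) (nat_lit 122) (nat_lit 1) (nat_lit 267) (nat_lit 435) (nat_lit 318))) (XT.nd (nat_lit 78) (nat_lit 76) (nat_lit 0) (XT.lf (nat_lit 228) (nat_lit 16657763598) (nat_lit 0) (nat_lit 103560813) (nat_lit 152) (nat_lit 103560813) (nat_lit 121) (nat_lit 1) (nat_lit 118) (nat_lit 1) (nat_lit 120) (nat_lit 1) (nat_lit 268) (nat_lit 435) (nat_lit 317)) (XT.nd (nat_lit 78) (nat_lit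 76) (nat_lit 0) (XT.lf (nat_lit 76) (nat_lit 5623756367) (nat_lit 0) (nat_lit 5445643465) (nat_lit 228) (nat_lit 5623756367) (nat_lit 119) (nat_lit 1) (nat_lit 118) (nat_lit 1) (nat_lit 121) (nat_lit 1) (nat_lit 269) (nat_lit 435) (nat_lit 316)) (XT.lf (nat_lit 152) (nat_lit 5941453331) (nat_lit 0) (nat_lit 5291710324) (nat_lit 76) (nat_lit 5291710324) (nat_lit 119) (nat_lit 1) (nat_lit 117) (nat_lit 1) (nat_lit 118) (nat_lit 1) (nat_lit 270) (nat_lit 435) (nat_lit 315)))))) (XT.nd (nat_lit 390) (nat_lit 304) (nat_lit 0) (XT.nd (nat_lit 156) (nat_lit 228) (nat_lit 0) (XT.nd (nat_lit 78) (nat_lit 152) (nat_lit 0) (XT.lf (nat_lit 0) (nat_lit 365556538) (nat_lit 0) (nat_lit 15628666722) (nat_lit 152) (nat_lit 365556538) (nat_lit 117) (nat_lit 3) (nat_lit 117) (nat_lit 1) (nat_lit 119) (nat_lit 1) (nat_lit 271) (nat_lit 435) (nat_lit 314)) (XT.lf (nat_lit 76) (nat_lit 5900240895) (nat_lit 0) (nat_lit 4393257478)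 (nat_lit 152) (nat_lit 5900240895) (nat_lit 116) (nat_lit 1) (nat_lit 115) (nat_lit 1) (nat_lit 117) (nat_lit 1) (nat_lit 272) (nat_lit 435) (nat_lit 313))) (XT.nd (nat_lit 78) (nat_lit 152) (nat_lit 0) (XT.lf (nat_lit 152) (nat_lit 6627636741) (nat_lit 0) (nat_lit 4701616084) (nat_lit 76) (nat_lit 4701616084) (nat_lit 116) (nat_lit 1) (nat_lit 114) (nat_lit 1) (nat_lit 115) (nat_lit 1) (nat_lit 273) (nat_lit 435) (nat_lit 312)) (XT.nd (nat_lit 78) (nat_lit 152) (nat_lit 0) (XT.lf (nat_lit 0) (nat_lit 769918458) (nat_lit 0) (nat_lit 14330994166) (nat_lit 152) (nat_lit 769918458) (nat_lit 114) (nat_lit 3) (nat_lit 114) (nat_lit 1) (nat_lit 116) (nat_lit 1) (nat_lit 274) (nat_lit 435) (nat_lit 311)) (XT.lf (nat_lit 76) (nat_lit 6119575190) (nat_lit 0) (nat_lit 3471191000) (nat_lit 152) (nat_lit 6119575190) (nat_lit 113) (nat_lit 1) (nat_lit 112) (nat_lit 1) (nat_lit 114) (nat_lit 1) (nat_lit 275) (nat_lit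 435) (nat_lit 310))))) (XT.nd (nat_lit 156) (nat_lit 228) (nat_lit 0) (XT.nd (nat_lit 78) (nat_lit 0) (nat_lit 0) (XT.lf (nat_lit 152) (nat_lit 7198018345) (nat_lit 0) (nat_lit 4177324995) (nat_lit 76) (nat_lit 4177324995) (nat_lit 113) (nat_lit 1) (nat_lit 111) (nat_lit 1) (nat_lit 112) (nat_lit 1) (nat_lit 276) (nat_lit 435) (nat_lit 309)) (XT.lf (nat_lit 0) (nat_lit 1116223944) (nat_lit 0) (nat_lit 13165064068) (nat_lit 152) (nat_lit 1116223944) (nat_lit 111) (nat_lit 3) (nat_lit 111) (nat_lit 1) (nat_lit 113) (nat_lit 1) (nat_lit 277) (nat_lit 435) (nat_lit 308))) (XT.nd (nat_lit 78) (nat_lit 76) (nat_lit 0) (XT.lf (nat_lit 76) (nat_lit 6288898805) (nat_lit 0) (nat_lit 2664534101) (nat_lit 152) (nat_lit 6288898805) (nat_lit 110) (nat_lit 1) (nat_lit 109) (nat_lit 1) (nat_lit 111) (nat_lit 1) (nat_lit 278) (nat_lit 435) (nat_lit 307)) (XT.nd (nat_lit 78) (nat_lit 0) (nat_lit 0) (XT.lf (nat_lit 152)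 (nat_lit 7666655723) (nat_lit 0) (nat_lit 3711499153) (nat_lit 76) (nat_lit 3711499153) (nat_lit 110) (nat_lit 1) (nat_lit 108) (nat_lit 1) (nat_lit 109) (nat_lit 1) (nat_lit 279) (nat_lit 435) (nat_lit 306)) (XT.lf (nat_lit 0) (nat_lit 1411324660) (nat_lit 0) (nat_lit 12116563052) (nat_lit 152) (nat_lit 1411324660) (nat_lit 108) (nat_lit 3) (nat_lit 108) (nat_lit 1) (nat_lit 110) (nat_lit 1) (nat_lit 280) (nat_lit 435) (nat_lit 305))))))))
noncomputable def ec500 : XT := (XT.nd (nat_lit 1404) (nat_lit 1444) (nat_lit 0) (XT.nd (nat_lit 702) (nat_lit 684) (nat_lit 0) (XT.nd (nat_lit 312) (nat_lit 304) (nat_lit 0) (XT.nd (nat_lit 156) (nat_lit 152) (nat_lit 0) (XT.nd (nat_lit 78) (nat_lit 76) (nat_lit 0) (XT.lf (nat_lit 76) (nat_lit 6414532813) (nat_lit 0) (nat_lit 1960050501) (nat_lit 152) (nat_lit 6414532813) (nat_lit 107) (nat_lit 1) (nat_lit 106) (nat_lit 1) (nat_lit 108) (nat_lit 1) (nat_lit 281)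 (nat_lit 435) (nat_lit 304)) (XT.lf (nat_lit 152) (nat_lit 8046005526) (nat_lit 0) (nat_lit 3297618926) (nat_lit 76) (nat_lit 3297618926) (nat_lit 107) (nat_lit 1) (nat_lit 105) (nat_lit 1) (nat_lit 106) (nat_lit 1) (nat_lit 282) (nat_lit 435) (nat_lit 303))) (XT.nd (nat_lit 78) (nat_lit 152) (nat_lit 0) (XT.lf (nat_lit 0) (nat_lit 1661297217) (nat_lit 0) (nat_lit 11172762873) (nat_lit 152) (nat_lit 1661297217) (nat_lit 105) (nat_lit 3) (nat_lit 105) (nat_lit 1) (nat_lit 107) (nat_lit 1) (nat_lit 283) (nat_lit 435) (nat_lit 302)) (XT.lf (nat_lit 76) (nat_lit 6502071730) (nat_lit 0) (nat_lit 1345990613) (nat_lit 152) (nat_lit 6502071730) (nat_lit 104) (nat_lit 1) (nat_lit 103) (nat_lit 1) (nat_lit 105) (nat_lit 1) (nat_lit 284) (nat_lit 435) (nat_lit 301)))) (XT.nd (nat_lit 156) (nat_lit 228) (nat_lit 0) (XT.nd (nat_lit 78) (nat_lit 0) (nat_lit 0) (XT.lf (nat_lit 152) (nat_lit 8347102975) (nat_lit 0)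 (nat_lit 2929891704) (nat_lit 76) (nat_lit 2929891704) (nat_lit 104) (nat_lit 1) (nat_lit 102) (nat_lit 1) (nat_lit 103) (nat_lit 1) (nat_lit 285) (nat_lit 435) (nat_lit 300)) (XT.lf (nat_lit 0) (nat_lit 1871529931) (nat_lit 0) (nat_lit 10322343973) (nat_lit 152) (nat_lit 1871529931) (nat_lit 102) (nat_lit 3) (nat_lit 102) (nat_lit 1) (nat_lit 104) (nat_lit 1) (nat_lit 286) (nat_lit 435) (nat_lit 299))) (XT.nd (nat_lit 78) (nat_lit 76) (nat_lit 0) (XT.lf (nat_lit 76) (nat_lit 6556465164) (nat_lit 0) (nat_lit 811925449) (nat_lit 152) (nat_lit 6556465164) (nat_lit 101) (nat_lit 1) (nat_lit 100) (nat_lit 1) (nat_lit 102) (nat_lit 1) (nat_lit 287) (nat_lit 435) (nat_lit 298)) (XT.nd (nat_lit 78) (nat_lit 0) (nat_lit 0) (XT.lf (nat_lit 152) (nat_lit 8579721306) (nat_lit 0) (nat_lit 2603170831) (nat_lit 76) (nat_lit 2603170831) (nat_lit 101) (nat_lit 1) (nat_lit 99) (nat_lit 1) (nat_lit 100) (nat_lit 1) (nat_lit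 288) (nat_lit 435) (nat_lit 297)) (XT.lf (nat_lit 0) (nat_lit 2046799881) (nat_lit 0) (nat_lit 9555238701) (nat_lit 152) (nat_lit 2046799881) (nat_lit 99) (nat_lit 3) (nat_lit 99) (nat_lit 1) (nat_lit 101) (nat_lit 1) (nat_lit 289) (nat_lit 435) (nat_lit 296)))))) (XT.nd (nat_lit 312) (nat_lit 380) (nat_lit 0) (XT.nd (nat_lit 156) (nat_lit 76) (nat_lit 0) (XT.nd (nat_lit 78) (nat_lit 76) (nat_lit 0) (XT.lf (nat_lit 76) (nat_lit 6582090347) (nat_lit 0) (nat_lit 348599054) (nat_lit 152) (nat_lit 6582090347) (nat_lit 98) (nat_lit 1) (nat_lit 97) (nat_lit 1) (nat_lit 99) (nat_lit 1) (nat_lit 290) (nat_lit 435) (nat_lit 295)) (XT.lf (nat_lit 152) (nat_lit 8752513416) (nat_lit 0) (nat_lit 2312883567) (nat_lit 76) (nat_lit 2312883567) (nat_lit 98) (nat_lit 1) (nat_lit 96) (nat_lit 1) (nat_lit 97) (nat_lit 1) (nat_lit 291) (nat_lit 435) (nat_lit 294))) (XT.nd (nat_lit 78) (nat_lit 76) (nat_lit 0) (XT.lf (nat_lit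 0) (nat_lit 2191341375) (nat_lit 0) (nat_lit 8862492017) (nat_lit 152) (nat_lit 2191341375) (nat_lit 96) (nat_lit 3) (nat_lit 96) (nat_lit 1) (nat_lit 98) (nat_lit 1) (nat_lit 292) (nat_lit 435) (nat_lit 293)) (XT.lf (nat_lit 76) (nat_lit 53241530) (nat_lit 0) (nat_lit 6530086814) (nat_lit 76) (nat_lit 6530086814) (nat_lit 96) (nat_lit 3) (nat_lit 95) (nat_lit 1) (nat_lit 96) (nat_lit 1) (nat_lit 293) (nat_lit 435) (nat_lit 292)))) (XT.nd (nat_lit 156) (nat_lit 228) (nat_lit 0) (XT.nd (nat_lit 78) (nat_lit 0) (nat_lit 0) (XT.lf (nat_lit 152) (nat_lit 8873137680) (nat_lit 0) (nat_lit 2054967092) (nat_lit 76) (nat_lit 2054967092) (nat_lit 95) (nat_lit 1) (nat_lit 93) (nat_lit 1) (nat_lit 94) (nat_lit 1) (nat_lit 294) (nat_lit 435) (nat_lit 291)) (XT.lf (nat_lit 0) (nat_lit 2308906770) (nat_lit 0) (nat_lit 8236137711) (nat_lit 152) (nat_lit 2308906770) (nat_lit 93) (nat_lit 3) (nat_lit 93) (nat_lit 1)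 (nat_lit 95) (nat_lit 1) (nat_lit 295) (nat_lit 435) (nat_lit 290))) (XT.nd (nat_lit 78) (nat_lit 152) (nat_lit 0) (XT.lf (nat_lit 76) (nat_lit 405684434) (nat_lit 0) (nat_lit 6160277580) (nat_lit 76) (nat_lit 6160277580) (nat_lit 93) (nat_lit 3) (nat_lit 92) (nat_lit 1) (nat_lit 93) (nat_lit 1) (nat_lit 296) (nat_lit 435) (nat_lit 289)) (XT.nd (nat_lit 78) (nat_lit 0) (nat_lit 0) (XT.lf (nat_lit 152) (nat_lit 8948369723) (nat_lit 0) (nat_lit 1825811646) (nat_lit 76) (nat_lit 1825811646) (nat_lit 92) (nat_lit 1) (nat_lit 90) (nat_lit 1) (nat_lit 91) (nat_lit 1) (nat_lit 297) (nat_lit 435) (nat_lit 288)) (XT.lf (nat_lit 0) (nat_lit 2402820499) (nat_lit 0) (nat_lit 7669088420) (nat_lit 152) (nat_lit 2402820499) (nat_lit 90) (nat_lit 3) (nat_lit 90) (nat_lit 1) (nat_lit 92) (nat_lit 1) (nat_lit 298) (nat_lit 435) (nat_lit 287))))))) (XT.nd (nat_lit 702) (nat_lit 760) (nat_lit 0) (XT.nd (nat_lit 312) (nat_lit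 380) (nat_lit 0) (XT.nd (nat_lit 156) (nat_lit 76) (nat_lit 0) (XT.nd (nat_lit 78) (nat_lit 152) (nat_lit 0) (XT.lf (nat_lit 76) (nat_lit 708387136) (nat_lit 0) (nat_lit 5821268612) (nat_lit 76) (nat_lit 5821268612) (nat_lit 90) (nat_lit 3) (nat_lit 89) (nat_lit 1) (nat_lit 90) (nat_lit 1) (nat_lit 299) (nat_lit 435) (nat_lit 286)) (XT.lf (nat_lit 152) (nat_lit 8984201685) (nat_lit 0) (nat_lit 1622209999) (nat_lit 76) (nat_lit 1622209999) (nat_lit 89) (nat_lit 1) (nat_lit 87) (nat_lit 1) (nat_lit 88) (nat_lit 1) (nat_lit 300) (nat_lit 435) (nat_lit 285))) (XT.nd (nat_lit 78) (nat_lit 76) (nat_lit 0) (XT.lf (nat_lit 0) (nat_lit 2476027066) (nat_lit 0) (nat_lit 7155037904) (nat_lit 152) (nat_lit 2476027066) (nat_lit 87) (nat_lit 3) (nat_lit 87) (nat_lit 1) (nat_lit 89) (nat_lit 1) (nat_lit 301) (nat_lit 435) (nat_lit 284)) (XT.lf (nat_lit 76) (nat_lit 967200340) (nat_lit 0) (nat_lit 5509929309) (nat_lit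 76) (nat_lit 5509929309) (nat_lit 87) (nat_lit 3) (nat_lit 86) (nat_lit 1) (nat_lit 87) (nat_lit 1) (nat_lit 302) (nat_lit 435) (nat_lit 283)))) (XT.nd (nat_lit 156) (nat_lit 228) (nat_lit 0) (XT.nd (nat_lit 78) (nat_lit 0) (nat_lit 0) (XT.lf (nat_lit 152) (nat_lit 8985930413) (nat_lit 0) (nat_lit 1441312573) (nat_lit 76) (nat_lit 1441312573) (nat_lit 86) (nat_lit 1) (nat_lit 84) (nat_lit 1) (nat_lit 85) (nat_lit 1) (nat_lit 303) (nat_lit 435) (nat_lit 282)) (XT.lf (nat_lit 0) (nat_lit 2531133681) (nat_lit 0) (nat_lit 6688374208) (nat_lit 152) (nat_lit 2531133681) (nat_lit 84) (nat_lit 3) (nat_lit 84) (nat_lit 1) (nat_lit 86) (nat_lit 1) (nat_lit 304) (nat_lit 435) (nat_lit 281))) (XT.nd (nat_lit 78) (nat_lit 152) (nat_lit 0) (XT.lf (nat_lit 76) (nat_lit 1187313465) (nat_lit 0) (nat_lit 5223469316) (nat_lit 76) (nat_lit 5223469316) (nat_lit 84) (nat_lit 3) (nat_lit 83) (nat_lit 1) (nat_lit 84) (nat_lit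 1) (nat_lit 305) (nat_lit 435) (nat_lit 280)) (XT.nd (nat_lit 78) (nat_lit 0) (nat_lit 0) (XT.lf (nat_lit 152) (nat_lit 8958235775) (nat_lit 0) (nat_lit 1280587553) (nat_lit 76) (nat_lit 1280587553) (nat_lit 83) (nat_lit 1) (nat_lit 81) (nat_lit 1) (nat_lit 82) (nat_lit 1) (nat_lit 306) (nat_lit 435) (nat_lit 279)) (XT.lf (nat_lit 0) (nat_lit 2570448136) (nat_lit 0) (nat_lit 6264102499) (nat_lit 152) (nat_lit 2570448136) (nat_lit 81) (nat_lit 3) (nat_lit 81) (nat_lit 1) (nat_lit 83) (nat_lit 1) (nat_lit 307) (nat_lit 435) (nat_lit 278)))))) (XT.nd (nat_lit 390) (nat_lit 304) (nat_lit 0) (XT.nd (nat_lit 156) (nat_lit 228) (nat_lit 0) (XT.nd (nat_lit 78) (nat_lit 152) (nat_lit 0) (XT.lf (nat_lit 76) (nat_lit 1373328645) (nat_lit 0) (nat_lit 4959400842) (nat_lit 76) (nat_lit 4959400842) (nat_lit 81) (nat_lit 3) (nat_lit 80) (nat_lit 1) (nat_lit 81) (nat_lit 1) (nat_lit 308) (nat_lit 435) (nat_lit 277))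 (XT.lf (nat_lit 152) (nat_lit 8905250235) (nat_lit 0) (nat_lit 1137785455) (nat_lit 76) (nat_lit 1137785455) (nat_lit 80) (nat_lit 1) (nat_lit 78) (nat_lit 1) (nat_lit 79) (nat_lit 1) (nat_lit 309) (nat_lit 435) (nat_lit 276))) (XT.nd (nat_lit 78) (nat_lit 228) (nat_lit 0) (XT.lf (nat_lit 0) (nat_lit 2596012442) (nat_lit 0) (nat_lit 5877776503) (nat_lit 152) (nat_lit 2596012442) (nat_lit 78) (nat_lit 3) (nat_lit 78) (nat_lit 1) (nat_lit 80) (nat_lit 1) (nat_lit 310) (nat_lit 435) (nat_lit 275)) (XT.nd (nat_lit 78) (nat_lit 152) (nat_lit 0) (XT.lf (nat_lit 76) (nat_lit 1529326471) (nat_lit 0) (nat_lit 4715505171) (nat_lit 76) (nat_lit 4715505171) (nat_lit 78) (nat_lit 3) (nat_lit 77) (nat_lit 1) (nat_lit 78) (nat_lit 1) (nat_lit 311) (nat_lit 435) (nat_lit 274)) (XT.lf (nat_lit 152) (nat_lit 8830620634) (nat_lit 0) (nat_lit 1010907640) (nat_lit 76) (nat_lit 1010907640) (nat_lit 77) (nat_lit 1) (nat_lit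 75) (nat_lit 1) (nat_lit 76) (nat_lit 1) (nat_lit 312) (nat_lit 435) (nat_lit 273))))) (XT.nd (nat_lit 156) (nat_lit 228) (nat_lit 0) (XT.nd (nat_lit 78) (nat_lit 76) (nat_lit 0) (XT.lf (nat_lit 0) (nat_lit 2609632719) (nat_lit 0) (nat_lit 5525437582) (nat_lit 152) (nat_lit 2609632719) (nat_lit 75) (nat_lit 3) (nat_lit 75) (nat_lit 1) (nat_lit 77) (nat_lit 1) (nat_lit 313) (nat_lit 435) (nat_lit 272)) (XT.lf (nat_lit 76) (nat_lit 1658924389) (nat_lit 0) (nat_lit 4489802897) (nat_lit 76) (nat_lit 4489802897) (nat_lit 75) (nat_lit 3) (nat_lit 74) (nat_lit 1) (nat_lit 75) (nat_lit 1) (nat_lit 314) (nat_lit 435) (nat_lit 271))) (XT.nd (nat_lit 78) (nat_lit 76) (nat_lit 0) (XT.lf (nat_lit 152) (nat_lit 8737563070) (nat_lit 0) (nat_lit 898178344) (nat_lit 76) (nat_lit 898178344) (nat_lit 74) (nat_lit 1) (nat_lit 72) (nat_lit 1) (nat_lit 73) (nat_lit 1) (nat_lit 315) (nat_lit 435) (nat_lit 270)) (XT.nd (nat_lit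 78) (nat_lit 76) (nat_lit 0) (XT.lf (nat_lit 0) (nat_lit 2612905733) (nat_lit 0) (nat_lit 5203560587) (nat_lit 152) (nat_lit 2612905733) (nat_lit 72) (nat_lit 3) (nat_lit 72) (nat_lit 1) (nat_lit 74) (nat_lit 1) (nat_lit 316) (nat_lit 435) (nat_lit 269)) (XT.lf (nat_lit 76) (nat_lit 1765328589) (nat_lit 0) (nat_lit 4280527477) (nat_lit 76) (nat_lit 4280527477) (nat_lit 72) (nat_lit 3) (nat_lit 71) (nat_lit 1) (nat_lit 72) (nat_lit 1) (nat_lit 317) (nat_lit 435) (nat_lit 268))))))))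
noncomputable def ec501 : XT := (XT.nd (nat_lit 1482) (nat_lit 1368) (nat_lit 0) (XT.nd (nat_lit 702) (nat_lit 836) (nat_lit 0) (XT.nd (nat_lit 312) (nat_lit 304) (nat_lit 0) (XT.nd (nat_lit 156) (nat_lit 228) (nat_lit 0) (XT.nd (nat_lit 78) (nat_lit 0) (nat_lit 0) (XT.lf (nat_lit 152) (nat_lit 8628911630) (nat_lit 0) (nat_lit 798019826) (nat_lit 76) (nat_lit 798019826) (nat_lit 71) (nat_lit 1) (nat_lit 69) (nat_lit 1) (nat_lit 70) (nat_lit 1) (nat_lit 318) (nat_lit 435) (nat_lit 267)) (XT.lf (nat_lit 0) (nat_lit 2607242476) (nat_lit 0) (nat_lit 4909005760) (nat_lit 152) (nat_lit 2607242476) (nat_lit 69) (nat_lit 3) (nat_lit 69) (nat_lit 1) (nat_lit 71) (nat_lit 1) (nat_lit 319) (nat_lit 435) (nat_lit 266))) (XT.nd (nat_lit 78) (nat_lit 152) (nat_lit 0) (XT.lf (nat_lit 76) (nat_lit 1851380087) (nat_lit 0) (nat_lit 4086101722) (nat_lit 76) (nat_lit 4086101722) (nat_lit 69) (nat_lit 3) (nat_lit 68) (nat_lit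 1) (nat_lit 69) (nat_lit 1) (nat_lit 320) (nat_lit 435) (nat_lit 265)) (XT.lf (nat_lit 152) (nat_lit 8507161669) (nat_lit 0) (nat_lit 709030279) (nat_lit 76) (nat_lit 709030279) (nat_lit 68) (nat_lit 1) (nat_lit 66) (nat_lit 1) (nat_lit 67) (nat_lit 1) (nat_lit 321) (nat_lit 435) (nat_lit 264)))) (XT.nd (nat_lit 156) (nat_lit 228) (nat_lit 0) (XT.nd (nat_lit 78) (nat_lit 76) (nat_lit 0) (XT.lf (nat_lit 0) (nat_lit 2593889107) (nat_lit 0) (nat_lit 4638975972) (nat_lit 152) (nat_lit 2593889107) (nat_lit 66) (nat_lit 3) (nat_lit 66) (nat_lit 1) (nat_lit 68) (nat_lit 1) (nat_lit 322) (nat_lit 435) (nat_lit 263)) (XT.lf (nat_lit 76) (nat_lit 1919595675) (nat_lit 0) (nat_lit 3905116903) (nat_lit 76) (nat_lit 3905116903) (nat_lit 66) (nat_lit 3) (nat_lit 65) (nat_lit 1) (nat_lit 66) (nat_lit 1) (nat_lit 323) (nat_lit 435) (nat_lit 262))) (XT.nd (nat_lit 78) (nat_lit 76) (nat_lit 0) (XT.lf (nat_lit 152) (nat_lit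 8374508246) (nat_lit 0) (nat_lit 629964219) (nat_lit 76) (nat_lit 629964219) (nat_lit 65) (nat_lit 1) (nat_lit 63) (nat_lit 1) (nat_lit 64) (nat_lit 1) (nat_lit 324) (nat_lit 435) (nat_lit 261)) (XT.nd (nat_lit 78) (nat_lit 76) (nat_lit 0) (XT.lf (nat_lit 0) (nat_lit 2573945552) (nat_lit 0) (nat_lit 4390978743) (nat_lit 152) (nat_lit 2573945552) (nat_lit 63) (nat_lit 3) (nat_lit 63) (nat_lit 1) (nat_lit 65) (nat_lit 1) (nat_lit 325) (nat_lit 435) (nat_lit 260)) (XT.lf (nat_lit 76) (nat_lit 1972204290) (nat_lit 0) (nat_lit 3736314184) (nat_lit 76) (nat_lit 3736314184) (nat_lit 63) (nat_lit 3) (nat_lit 62) (nat_lit 1) (nat_lit 63) (nat_lit 1) (nat_lit 326) (nat_lit 435) (nat_lit 259)))))) (XT.nd (nat_lit 390) (nat_lit 456) (nat_lit 0) (XT.nd (nat_lit 156) (nat_lit 228) (nat_lit 0) (XT.nd (nat_lit 78) (nat_lit 0) (nat_lit 0) (XT.lf (nat_lit 152) (nat_lit 8232880255) (nat_lit 0) (nat_lit 559715050) (nat_lit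 76) (nat_lit 559715050) (nat_lit 62) (nat_lit 1) (nat_lit 60) (nat_lit 1) (nat_lit 61) (nat_lit 1) (nat_lit 327) (nat_lit 435) (nat_lit 258)) (XT.lf (nat_lit 0) (nat_lit 2548382019) (nat_lit 0) (nat_lit 4162792475) (nat_lit 152) (nat_lit 2548382019) (nat_lit 60) (nat_lit 3) (nat_lit 60) (nat_lit 1) (nat_lit 62) (nat_lit 1) (nat_lit 328) (nat_lit 435) (nat_lit 257))) (XT.nd (nat_lit 78) (nat_lit 152) (nat_lit 0) (XT.lf (nat_lit 76) (nat_lit 2011179322) (nat_lit 0) (nat_lit 3578568114) (nat_lit 76) (nat_lit 3578568114) (nat_lit 60) (nat_lit 3) (nat_lit 59) (nat_lit 1) (nat_lit 60) (nat_lit 1) (nat_lit 329) (nat_lit 435) (nat_lit 256)) (XT.nd (nat_lit 78) (nat_lit 0) (nat_lit 0) (XT.lf (nat_lit 152) (nat_lit 8083970721) (nat_lit 0) (nat_lit 497299572) (nat_lit 76) (nat_lit 497299572) (nat_lit 59) (nat_lit 1) (nat_lit 57) (nat_lit 1) (nat_lit 58) (nat_lit 1) (nat_lit 330) (nat_lit 435) (nat_lit 255)) (XT.lf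 (nat_lit 0) (nat_lit 2518053673) (nat_lit 0) (nat_lit 3952436454) (nat_lit 152) (nat_lit 2518053673) (nat_lit 57) (nat_lit 3) (nat_lit 57) (nat_lit 1) (nat_lit 59) (nat_lit 1) (nat_lit 331) (nat_lit 435) (nat_lit 254))))) (XT.nd (nat_lit 156) (nat_lit 228) (nat_lit 0) (XT.nd (nat_lit 78) (nat_lit 152) (nat_lit 0) (XT.lf (nat_lit 76) (nat_lit 2038267317) (nat_lit 0) (nat_lit 3430871958) (nat_lit 76) (nat_lit 3430871958) (nat_lit 57) (nat_lit 3) (nat_lit 56) (nat_lit 1) (nat_lit 57) (nat_lit 1) (nat_lit 332) (nat_lit 435) (nat_lit 253)) (XT.lf (nat_lit 152) (nat_lit 7929263716) (nat_lit 0) (nat_lit 441844229) (nat_lit 76) (nat_lit 441844229) (nat_lit 56) (nat_lit 1) (nat_lit 54) (nat_lit 1) (nat_lit 55) (nat_lit 1) (nat_lit 333) (nat_lit 435) (nat_lit 252))) (XT.nd (nat_lit 78) (nat_lit 228) (nat_lit 0) (XT.lf (nat_lit 0) (nat_lit 2483713664) (nat_lit 0) (nat_lit 3758144186) (nat_lit 152) (nat_lit 2483713664)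 (nat_lit 54) (nat_lit 3) (nat_lit 54) (nat_lit 1) (nat_lit 56) (nat_lit 1) (nat_lit 334) (nat_lit 435) (nat_lit 251)) (XT.nd (nat_lit 78) (nat_lit 152) (nat_lit 0) (XT.lf (nat_lit 76) (nat_lit 2055013469) (nat_lit 0) (nat_lit 3292324655) (nat_lit 76) (nat_lit 3292324655) (nat_lit 54) (nat_lit 3) (nat_lit 53) (nat_lit 1) (nat_lit 54) (nat_lit 1) (nat_lit 335) (nat_lit 435) (nat_lit 250)) (XT.lf (nat_lit 152) (nat_lit 7770058241) (nat_lit 0) (nat_lit 392572874) (nat_lit 76) (nat_lit 392572874) (nat_lit 53) (nat_lit 1) (nat_lit 51) (nat_lit 1) (nat_lit 52) (nat_lit 1) (nat_lit 336) (nat_lit 435) (nat_lit 249))))))) (XT.nd (nat_lit 702) (nat_lit 684) (nat_lit 0) (XT.nd (nat_lit 312) (nat_lit 456) (nat_lit 0) (XT.nd (nat_lit 156) (nat_lit 152) (nat_lit 0) (XT.nd (nat_lit 78) (nat_lit 76) (nat_lit 0) (XT.lf (nat_lit 0) (nat_lit 2446024692) (nat_lit 0) (nat_lit 3578339704) (nat_lit 152) (nat_lit 2446024692)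 (nat_lit 51) (nat_lit 3) (nat_lit 51) (nat_lit 1) (nat_lit 53) (nat_lit 1) (nat_lit 337) (nat_lit 435) (nat_lit 248)) (XT.lf (nat_lit 76) (nat_lit 2062784266) (nat_lit 0) (nat_lit 3162119229) (nat_lit 76) (nat_lit 3162119229) (nat_lit 51) (nat_lit 3) (nat_lit 50) (nat_lit 1) (nat_lit 51) (nat_lit 1) (nat_lit 338) (nat_lit 435) (nat_lit 247))) (XT.nd (nat_lit 78) (nat_lit 0) (nat_lit 0) (XT.lf (nat_lit 152) (nat_lit 7607489440) (nat_lit 0) (nat_lit 348795914) (nat_lit 76) (nat_lit 348795914) (nat_lit 50) (nat_lit 1) (nat_lit 48) (nat_lit 1) (nat_lit 49) (nat_lit 1) (nat_lit 339) (nat_lit 435) (nat_lit 246)) (XT.lf (nat_lit 0) (nat_lit 2405569287) (nat_lit 0) (nat_lit 3411616510) (nat_lit 152) (nat_lit 2405569287) (nat_lit 48) (nat_lit 3) (nat_lit 48) (nat_lit 1) (nat_lit 50) (nat_lit 1) (nat_lit 340) (nat_lit 435) (nat_lit 245)))) (XT.nd (nat_lit 156) (nat_lit 228) (nat_lit 0) (XT.nd (nat_lit 78) (nat_lit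 152) (nat_lit 0) (XT.lf (nat_lit 76) (nat_lit 2062787603) (nat_lit 0) (nat_lit 3039532479) (nat_lit 76) (nat_lit 3039532479) (nat_lit 48) (nat_lit 3) (nat_lit 47) (nat_lit 1) (nat_lit 48) (nat_lit 1) (nat_lit 341) (nat_lit 435) (nat_lit 244)) (XT.lf (nat_lit 152) (nat_lit 7442547417) (nat_lit 0) (nat_lit 309900652) (nat_lit 76) (nat_lit 309900652) (nat_lit 47) (nat_lit 1) (nat_lit 45) (nat_lit 1) (nat_lit 46) (nat_lit 1) (nat_lit 342) (nat_lit 435) (nat_lit 243))) (XT.nd (nat_lit 78) (nat_lit 228) (nat_lit 0) (XT.lf (nat_lit 0) (nat_lit 2362858931) (nat_lit 0) (nat_lit 3256718858) (nat_lit 152) (nat_lit 2362858931) (nat_lit 45) (nat_lit 3) (nat_lit 45) (nat_lit 1) (nat_lit 47) (nat_lit 1) (nat_lit 343) (nat_lit 435) (nat_lit 242)) (XT.nd (nat_lit 78) (nat_lit 152) (nat_lit 0) (XT.lf (nat_lit 76) (nat_lit 2056090650) (nat_lit 0) (nat_lit 2923915822) (nat_lit 76) (nat_lit 2923915822) (nat_lit 45) (nat_lit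 3) (nat_lit 44) (nat_lit 1) (nat_lit 45) (nat_lit 1) (nat_lit 344) (nat_lit 435) (nat_lit 241)) (XT.lf (nat_lit 152) (nat_lit 7276093958) (nat_lit 0) (nat_lit 275342715) (nat_lit 76) (nat_lit 275342715) (nat_lit 44) (nat_lit 1) (nat_lit 42) (nat_lit 1) (nat_lit 43) (nat_lit 1) (nat_lit 345) (nat_lit 435) (nat_lit 240)))))) (XT.nd (nat_lit 390) (nat_lit 380) (nat_lit 0) (XT.nd (nat_lit 156) (nat_lit 228) (nat_lit 0) (XT.nd (nat_lit 78) (nat_lit 76) (nat_lit 0) (XT.lf (nat_lit 0) (nat_lit 2318342155) (nat_lit 0) (nat_lit 3112525123) (nat_lit 152) (nat_lit 2318342155) (nat_lit 42) (nat_lit 3) (nat_lit 42) (nat_lit 1) (nat_lit 44) (nat_lit 1) (nat_lit 346) (nat_lit 435) (nat_lit 239)) (XT.lf (nat_lit 76) (nat_lit 2043635721) (nat_lit 0) (nat_lit 2814687146) (nat_lit 76) (nat_lit 2814687146) (nat_lit 42) (nat_lit 3) (nat_lit 41) (nat_lit 1) (nat_lit 42) (nat_lit 1) (nat_lit 347) (nat_lit 435) (nat_lit 238)))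 (XT.nd (nat_lit 78) (nat_lit 76) (nat_lit 0) (XT.lf (nat_lit 152) (nat_lit 7108877352) (nat_lit 0) (nat_lit 244638436) (nat_lit 76) (nat_lit 244638436) (nat_lit 41) (nat_lit 1) (nat_lit 39) (nat_lit 1) (nat_lit 40) (nat_lit 1) (nat_lit 348) (nat_lit 435) (nat_lit 237)) (XT.nd (nat_lit 78) (nat_lit 76) (nat_lit 0) (XT.lf (nat_lit 0) (nat_lit 2272411733) (nat_lit 0) (nat_lit 2978033014) (nat_lit 152) (nat_lit 2272411733) (nat_lit 39) (nat_lit 3) (nat_lit 39) (nat_lit 1) (nat_lit 41) (nat_lit 1) (nat_lit 349) (nat_lit 435) (nat_lit 236)) (XT.lf (nat_lit 76) (nat_lit 2026254362) (nat_lit 0) (nat_lit 2711323566) (nat_lit 76) (nat_lit 2711323566) (nat_lit 39) (nat_lit 3) (nat_lit 38) (nat_lit 1) (nat_lit 39) (nat_lit 1) (nat_lit 350) (nat_lit 435) (nat_lit 235))))) (XT.nd (nat_lit 156) (nat_lit 228) (nat_lit 0) (XT.nd (nat_lit 78) (nat_lit 0) (nat_lit 0) (XT.lf (nat_lit 152) (nat_lit 6941545560) (nat_lit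 0) (nat_lit 217358082) (nat_lit 76) (nat_lit 217358082) (nat_lit 38) (nat_lit 1) (nat_lit 36) (nat_lit 1) (nat_lit 37) (nat_lit 1) (nat_lit 351) (nat_lit 435) (nat_lit 234)) (XT.lf (nat_lit 0) (nat_lit 2225411068) (nat_lit 0) (nat_lit 2852346437) (nat_lit 152) (nat_lit 2225411068) (nat_lit 36) (nat_lit 3) (nat_lit 36) (nat_lit 1) (nat_lit 38) (nat_lit 1) (nat_lit 352) (nat_lit 435) (nat_lit 233))) (XT.nd (nat_lit 78) (nat_lit 152) (nat_lit 0) (XT.lf (nat_lit 76) (nat_lit 2004679876) (nat_lit 0) (nat_lit 2613354992) (nat_lit 76) (nat_lit 2613354992) (nat_lit 36) (nat_lit 3) (nat_lit 35) (nat_lit 1) (nat_lit 36) (nat_lit 1) (nat_lit 353) (nat_lit 435) (nat_lit 232)) (XT.nd (nat_lit 78) (nat_lit 0) (nat_lit 0) (XT.lf (nat_lit 152) (nat_lit 6774657892) (nat_lit 0) (nat_lit 193119841) (nat_lit 76) (nat_lit 193119841) (nat_lit 35) (nat_lit 1) (nat_lit 33) (nat_lit 1) (nat_lit 34) (nat_lit 1) (nat_lit 354)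 (nat_lit 435) (nat_lit 231)) (XT.lf (nat_lit 0) (nat_lit 2177639858) (nat_lit 0) (nat_lit 2734663813) (nat_lit 152) (nat_lit 2177639858) (nat_lit 33) (nat_lit 3) (nat_lit 33) (nat_lit 1) (nat_lit 35) (nat_lit 1) (nat_lit 355) (nat_lit 435) (nat_lit 230))))))))
noncomputable def ec502 : XT := (XT.nd (nat_lit 44226) (nat_lit 0) (nat_lit 7600) (XT.nd (nat_lit 43446) (nat_lit 0) (nat_lit 9576) (XT.nd (nat_lit 312) (nat_lit 228) (nat_lit 0) (XT.nd (nat_lit 156) (nat_lit 76) (nat_lit 0) (XT.nd (nat_lit 78) (nat_lit 152) (nat_lit 0) (XT.lf (nat_lit 76) (nat_lit 1979558436) (nat_lit 0) (nat_lit 2520358392) (nat_lit 76) (nat_lit 2520358392) (nat_lit 33) (nat_lit 3) (nat_lit 32) (nat_lit 1) (nat_lit 33) (nat_lit 1) (nat_lit 356) (nat_lit 435) (nat_lit 229)) (XT.lf (nat_lit 152) (nat_lit 6608695374) (nat_lit 0) (nat_lit 171584477) (nat_lit 76) (nat_lit 171584477) (nat_lit 32) (nat_lit 1) (nat_lit 30) (nat_lit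 1) (nat_lit 31) (nat_lit 1) (nat_lit 357) (nat_lit 435) (nat_lit 228))) (XT.nd (nat_lit 78) (nat_lit 76) (nat_lit 0) (XT.lf (nat_lit 0) (nat_lit 2129359126) (nat_lit 0) (nat_lit 2624267696) (nat_lit 152) (nat_lit 2129359126) (nat_lit 30) (nat_lit 3) (nat_lit 30) (nat_lit 1) (nat_lit 32) (nat_lit 1) (nat_lit 358) (nat_lit 435) (nat_lit 227)) (XT.lf (nat_lit 76) (nat_lit 1951458953) (nat_lit 0) (nat_lit 2431952710) (nat_lit 76) (nat_lit 2431952710) (nat_lit 30) (nat_lit 3) (nat_lit 29) (nat_lit 1) (nat_lit 30) (nat_lit 1) (nat_lit 359) (nat_lit 435) (nat_lit 226)))) (XT.nd (nat_lit 156) (nat_lit 76) (nat_lit 0) (XT.nd (nat_lit 78) (nat_lit 0) (nat_lit 0) (XT.lf (nat_lit 152) (nat_lit 6444069936) (nat_lit 0) (nat_lit 152450585) (nat_lit 76) (nat_lit 152450585) (nat_lit 29) (nat_lit 1) (nat_lit 27) (nat_lit 1) (nat_lit 28) (nat_lit 1) (nat_lit 360) (nat_lit 435) (nat_lit 225)) (XT.lf (nat_lit 0) (nat_lit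 2080795691) (nat_lit 0) (nat_lit 2520515545) (nat_lit 152) (nat_lit 2080795691) (nat_lit 27) (nat_lit 3) (nat_lit 27) (nat_lit 1) (nat_lit 29) (nat_lit 1) (nat_lit 361) (nat_lit 435) (nat_lit 224))) (XT.nd (nat_lit 42822) (nat_lit 0) (nat_lit 10716) (XT.lf (nat_lit 76) (nat_lit 1920881851) (nat_lit 0) (nat_lit 2347794331) (nat_lit 76) (nat_lit 2347794331) (nat_lit 27) (nat_lit 3) (nat_lit 26) (nat_lit 1) (nat_lit 27) (nat_lit 1) (nat_lit 362) (nat_lit 435) (nat_lit 223)) (XT.nd (nat_lit 78) (nat_lit 152) (nat_lit 0) (XT.lf (nat_lit 76) (nat_lit 9481740572) (nat_lit 0) (nat_lit 6257156263) (nat_lit 228) (nat_lit 9481740572) (nat_lit 170) (nat_lit 1) (nat_lit 169) (nat_lit 1) (nat_lit 172) (nat_lit 1) (nat_lit 230) (nat_lit 436) (nat_lit 354)) (XT.lf (nat_lit 228) (nat_lit 11805862432) (nat_lit 0) (nat_lit 6573916906) (nat_lit 152) (nat_lit 6573916906) (nat_lit 170) (nat_lit 1) (nat_lit 167) (nat_lit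 1) (nat_lit 169) (nat_lit 1) (nat_lit 231) (nat_lit 436) (nat_lit 353)))))) (XT.nd (nat_lit 390) (nat_lit 608) (nat_lit 0) (XT.nd (nat_lit 156) (nat_lit 304) (nat_lit 0) (XT.nd (nat_lit 78) (nat_lit 228) (nat_lit 0) (XT.lf (nat_lit 76) (nat_lit 2369914162) (nat_lit 0) (nat_lit 19951297187) (nat_lit 228) (nat_lit 2369914162) (nat_lit 168) (nat_lit 1) (nat_lit 167) (nat_lit 1) (nat_lit 170) (nat_lit 1) (nat_lit 232) (nat_lit 436) (nat_lit 352)) (XT.lf (nat_lit 76) (nat_lit 11079515527) (nat_lit 0) (nat_lit 2270806416) (nat_lit 228) (nat_lit 11079515527) (nat_lit 165) (nat_lit 1) (nat_lit 164) (nat_lit 1) (nat_lit 167) (nat_lit 1) (nat_lit 233) (nat_lit 436) (nat_lit 351))) (XT.nd (nat_lit 78) (nat_lit 152) (nat_lit 0) (XT.lf (nat_lit 228) (nat_lit 15119096977) (nat_lit 0) (nat_lit 4526873423) (nat_lit 152) (nat_lit 4526873423) (nat_lit 165) (nat_lit 1) (nat_lit 162) (nat_lit 1) (nat_lit 164) (nat_lit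 1) (nat_lit 234) (nat_lit 436) (nat_lit 350)) (XT.nd (nat_lit 78) (nat_lit 152) (nat_lit 0) (XT.lf (nat_lit 76) (nat_lit 4067257747) (nat_lit 0) (nat_lit 15784459916) (nat_lit 228) (nat_lit 4067257747) (nat_lit 163) (nat_lit 1) (nat_lit 162) (nat_lit 1) (nat_lit 165) (nat_lit 1) (nat_lit 235) (nat_lit 436) (nat_lit 349)) (XT.lf (nat_lit 228) (nat_lit 1198618816) (nat_lit 0) (nat_lit 11234687567) (nat_lit 152) (nat_lit 11234687567) (nat_lit 163) (nat_lit 1) (nat_lit 160) (nat_lit 1) (nat_lit 162) (nat_lit 1) (nat_lit 236) (nat_lit 436) (nat_lit 348))))) (XT.nd (nat_lit 156) (nat_lit 380) (nat_lit 0) (XT.nd (nat_lit 78) (nat_lit 0) (nat_lit 0) (XT.lf (nat_lit 228) (nat_lit 17928016129) (nat_lit 0) (nat_lit 2746372674) (nat_lit 152) (nat_lit 2746372674) (nat_lit 160) (nat_lit 1) (nat_lit 157) (nat_lit 1) (nat_lit 159) (nat_lit 1) (nat_lit 237) (nat_lit 436) (nat_lit 347)) (XT.lf (nat_lit 76) (nat_lit 5518190983)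 (nat_lit 0) (nat_lit 12138842345) (nat_lit 228) (nat_lit 5518190983) (nat_lit 158) (nat_lit 1) (nat_lit 157) (nat_lit 1) (nat_lit 160) (nat_lit 1) (nat_lit 238) (nat_lit 436) (nat_lit 346))) (XT.nd (nat_lit 78) (nat_lit 228) (nat_lit 0) (XT.lf (nat_lit 228) (nat_lit 4226466754) (nat_lit 0) (nat_lit 9353452849) (nat_lit 152) (nat_lit 9353452849) (nat_lit 158) (nat_lit 1) (nat_lit 155) (nat_lit 1) (nat_lit 157) (nat_lit 1) (nat_lit 239) (nat_lit 436) (nat_lit 345)) (XT.nd (nat_lit 78) (nat_lit 0) (nat_lit 0) (XT.lf (nat_lit 228) (nat_lit 20292785162) (nat_lit 0) (nat_lit 1201577007) (nat_lit 152) (nat_lit 1201577007) (nat_lit 155) (nat_lit 1) (nat_lit 152) (nat_lit 1) (nat_lit 154) (nat_lit 1) (nat_lit 240) (nat_lit 436) (nat_lit 344)) (XT.lf (nat_lit 76) (nat_lit 6751855929) (nat_lit 0) (nat_lit 8954674251) (nat_lit 228) (nat_lit 6751855929) (nat_lit 153) (nat_lit 1) (nat_lit 152) (nat_lit 1) (nat_lit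 155) (nat_lit 1) (nat_lit 241) (nat_lit 436) (nat_lit 343))))))) (XT.nd (nat_lit 702) (nat_lit 1064) (nat_lit 0) (XT.nd (nat_lit 312) (nat_lit 456) (nat_lit 0) (XT.nd (nat_lit 156) (nat_lit 304) (nat_lit 0) (XT.nd (nat_lit 78) (nat_lit 0) (nat_lit 0) (XT.lf (nat_lit 228) (nat_lit 6824587631) (nat_lit 0) (nat_lit 7700303708) (nat_lit 152) (nat_lit 7700303708) (nat_lit 153) (nat_lit 1) (nat_lit 150) (nat_lit 1) (nat_lit 152) (nat_lit 1) (nat_lit 242) (nat_lit 436) (nat_lit 342)) (XT.lf (nat_lit 76) (nat_lit 136215413) (nat_lit 0) (nat_lit 21724397068) (nat_lit 228) (nat_lit 136215413) (nat_lit 151) (nat_lit 1) (nat_lit 150) (nat_lit 1) (nat_lit 153) (nat_lit 1) (nat_lit 243) (nat_lit 436) (nat_lit 341))) (XT.nd (nat_lit 78) (nat_lit 152) (nat_lit 0) (XT.lf (nat_lit 76) (nat_lit 7794096458) (nat_lit 0) (nat_lit 6178898546) (nat_lit 152) (nat_lit 7794096458) (nat_lit 149) (nat_lit 1) (nat_lit 148) (nat_lit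 1) (nat_lit 150) (nat_lit 1) (nat_lit 244) (nat_lit 436) (nat_lit 340)) (XT.lf (nat_lit 228) (nat_lit 9043583602) (nat_lit 0) (nat_lit 6249272535) (nat_lit 152) (nat_lit 6249272535) (nat_lit 149) (nat_lit 1) (nat_lit 146) (nat_lit 1) (nat_lit 148) (nat_lit 1) (nat_lit 245) (nat_lit 436) (nat_lit 339)))) (XT.nd (nat_lit 156) (nat_lit 304) (nat_lit 0) (XT.nd (nat_lit 78) (nat_lit 152) (nat_lit 0) (XT.lf (nat_lit 76) (nat_lit 1300026772) (nat_lit 0) (nat_lit 18721056679) (nat_lit 228) (nat_lit 1300026772) (nat_lit 147) (nat_lit 1) (nat_lit 146) (nat_lit 1) (nat_lit 149) (nat_lit 1) (nat_lit 246) (nat_lit 436) (nat_lit 338)) (XT.lf (nat_lit 76) (nat_lit 8667827458) (nat_lit 0) (nat_lit 3764421287) (nat_lit 152) (nat_lit 8667827458) (nat_lit 145) (nat_lit 1) (nat_lit 144) (nat_lit 1) (nat_lit 146) (nat_lit 1) (nat_lit 247) (nat_lit 436) (nat_lit 337))) (XT.nd (nat_lit 78) (nat_lit 152) (nat_lit 0) (XT.lf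 (nat_lit 228) (nat_lit 10928335911) (nat_lit 0) (nat_lit 4977302974) (nat_lit 152) (nat_lit 4977302974) (nat_lit 145) (nat_lit 1) (nat_lit 142) (nat_lit 1) (nat_lit 144) (nat_lit 1) (nat_lit 248) (nat_lit 436) (nat_lit 336)) (XT.nd (nat_lit 78) (nat_lit 152) (nat_lit 0) (XT.lf (nat_lit 76) (nat_lit 2299718251) (nat_lit 0) (nat_lit 16069543819) (nat_lit 228) (nat_lit 2299718251) (nat_lit 143) (nat_lit 1) (nat_lit 142) (nat_lit 1) (nat_lit 145) (nat_lit 1) (nat_lit 249) (nat_lit 436) (nat_lit 335)) (XT.lf (nat_lit 76) (nat_lit 9393362822) (nat_lit 0) (nat_lit 1669445340) (nat_lit 152) (nat_lit 9393362822) (nat_lit 141) (nat_lit 1) (nat_lit 140) (nat_lit 1) (nat_lit 142) (nat_lit 1) (nat_lit 250) (nat_lit 436) (nat_lit 334)))))) (XT.nd (nat_lit 390) (nat_lit 608) (nat_lit 0) (XT.nd (nat_lit 156) (nat_lit 304) (nat_lit 0) (XT.nd (nat_lit 78) (nat_lit 0) (nat_lit 0) (XT.lf (nat_lit 228) (nat_lit 12518645120)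 (nat_lit 0) (nat_lit 3863924825) (nat_lit 152) (nat_lit 3863924825) (nat_lit 141) (nat_lit 1) (nat_lit 138) (nat_lit 1) (nat_lit 140) (nat_lit 1) (nat_lit 251) (nat_lit 436) (nat_lit 333)) (XT.lf (nat_lit 76) (nat_lit 3154591533) (nat_lit 0) (nat_lit 13730132459) (nat_lit 228) (nat_lit 3154591533) (nat_lit 139) (nat_lit 1) (nat_lit 138) (nat_lit 1) (nat_lit 141) (nat_lit 1) (nat_lit 252) (nat_lit 436) (nat_lit 332))) (XT.nd (nat_lit 78) (nat_lit 228) (nat_lit 0) (XT.lf (nat_lit 152) (nat_lit 145969989) (nat_lit 0) (nat_lit 9844139992) (nat_lit 76) (nat_lit 9844139992) (nat_lit 139) (nat_lit 1) (nat_lit 137) (nat_lit 1) (nat_lit 138) (nat_lit 1) (nat_lit 253) (nat_lit 436) (nat_lit 331)) (XT.nd (nat_lit 78) (nat_lit 0) (nat_lit 0) (XT.lf (nat_lit 228) (nat_lit 13849799880) (nat_lit 0) (nat_lit 2890965219) (nat_lit 152) (nat_lit 2890965219) (nat_lit 137) (nat_lit 1) (nat_lit 134) (nat_lit 1) (nat_lit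 136) (nat_lit 1) (nat_lit 254) (nat_lit 436) (nat_lit 330)) (XT.lf (nat_lit 76) (nat_lit 3881766780) (nat_lit 0) (nat_lit 11667540885) (nat_lit 228) (nat_lit 3881766780) (nat_lit 135) (nat_lit 1) (nat_lit 134) (nat_lit 1) (nat_lit 137) (nat_lit 1) (nat_lit 255) (nat_lit 436) (nat_lit 329))))) (XT.nd (nat_lit 156) (nat_lit 304) (nat_lit 0) (XT.nd (nat_lit 78) (nat_lit 228) (nat_lit 0) (XT.lf (nat_lit 152) (nat_lit 1740149476) (nat_lit 0) (nat_lit 8746390880) (nat_lit 76) (nat_lit 8746390880) (nat_lit 135) (nat_lit 1) (nat_lit 133) (nat_lit 1) (nat_lit 134) (nat_lit 1) (nat_lit 256) (nat_lit 436) (nat_lit 328)) (XT.lf (nat_lit 228) (nat_lit 14953082210) (nat_lit 0) (nat_lit 2042292005) (nat_lit 152) (nat_lit 2042292005) (nat_lit 133) (nat_lit 1) (nat_lit 130) (nat_lit 1) (nat_lit 132) (nat_lit 1) (nat_lit 257) (nat_lit 436) (nat_lit 327))) (XT.nd (nat_lit 78) (nat_lit 304) (nat_lit 0) (XT.lf (nat_lit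 76) (nat_lit 4496426750) (nat_lit 0) (nat_lit 9850435685) (nat_lit 228) (nat_lit 4496426750) (nat_lit 131) (nat_lit 1) (nat_lit 130) (nat_lit 1) (nat_lit 133) (nat_lit 1) (nat_lit 258) (nat_lit 436) (nat_lit 326)) (XT.nd (nat_lit 78) (nat_lit 228) (nat_lit 0) (XT.lf (nat_lit 152) (nat_lit 3109650788) (nat_lit 0) (nat_lit 7771055013) (nat_lit 76) (nat_lit 7771055013) (nat_lit 131) (nat_lit 1) (nat_lit 129) (nat_lit 1) (nat_lit 130) (nat_lit 1) (nat_lit 259) (nat_lit 436) (nat_lit 325)) (XT.lf (nat_lit 228) (nat_lit 15856216376) (nat_lit 0) (nat_lit 1303585774) (nat_lit 152) (nat_lit 1303585774) (nat_lit 129) (nat_lit 1) (nat_lit 126) (nat_lit 1) (nat_lit 128) (nat_lit 1) (nat_lit 260) (nat_lit 436) (nat_lit 324))))))))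
noncomputable def ec503 : XT := (XT.nd (nat_lit 1482) (nat_lit 1444) (nat_lit 0) (XT.nd (nat_lit 702) (nat_lit 836) (nat_lit 0) (XT.nd (nat_lit 312) (nat_lit 380) (nat_lit 0) (XT.nd (nat_lit 156) (nat_lit 228) (nat_lit 0) (XT.nd (nat_lit 78) (nat_lit 76) (nat_lit 0) (XT.lf (nat_lit 76) (nat_lit 5012033671) (nat_lit 0) (nat_lit 8250991053) (nat_lit 228) (nat_lit 5012033671) (nat_lit 127) (nat_lit 1) (nat_lit 126) (nat_lit 1) (nat_lit 129) (nat_lit 1) (nat_lit 261) (nat_lit 436) (nat_lit 323)) (XT.lf (nat_lit 152) (nat_lit 4280894659) (nat_lit 0) (nat_lit 6904481728) (nat_lit 76) (nat_lit 6904481728) (nat_lit 127) (nat_lit 1) (nat_lit 125) (nat_lit 1) (nat_lit 126) (nat_lit 1) (nat_lit 262) (nat_lit 436) (nat_lit 322))) (XT.nd (nat_lit 78) (nat_lit 0) (nat_lit 0) (XT.lf (nat_lit 228) (nat_lit 16583767642) (nat_lit 0) (nat_lit 662137308) (nat_lit 152) (nat_lit 662137308) (nat_lit 125) (nat_lit 1) (nat_lit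 122) (nat_lit 1) (nat_lit 124) (nat_lit 1) (nat_lit 263) (nat_lit 436) (nat_lit 321)) (XT.lf (nat_lit 76) (nat_lit 5440521895) (nat_lit 0) (nat_lit 6844497257) (nat_lit 228) (nat_lit 5440521895) (nat_lit 123) (nat_lit 1) (nat_lit 122) (nat_lit 1) (nat_lit 125) (nat_lit 1) (nat_lit 264) (nat_lit 436) (nat_lit 320)))) (XT.nd (nat_lit 156) (nat_lit 76) (nat_lit 0) (XT.nd (nat_lit 78) (nat_lit 228) (nat_lit 0) (XT.lf (nat_lit 152) (nat_lit 5277315778) (nat_lit 0) (nat_lit 6134542588) (nat_lit 76) (nat_lit 6134542588) (nat_lit 123) (nat_lit 1) (nat_lit 121) (nat_lit 1) (nat_lit 122) (nat_lit 1) (nat_lit 265) (nat_lit 436) (nat_lit 319)) (XT.lf (nat_lit 228) (nat_lit 17157496506) (nat_lit 0) (nat_lit 106667637) (nat_lit 152) (nat_lit 106667637) (nat_lit 121) (nat_lit 1) (nat_lit 118) (nat_lit 1) (nat_lit 120) (nat_lit 1) (nat_lit 266) (nat_lit 436) (nat_lit 318))) (XT.nd (nat_lit 78) (nat_lit 76) (nat_lit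 0) (XT.lf (nat_lit 76) (nat_lit 5792469058) (nat_lit 0) (nat_lit 5609012768) (nat_lit 228) (nat_lit 5792469058) (nat_lit 119) (nat_lit 1) (nat_lit 118) (nat_lit 1) (nat_lit 121) (nat_lit 1) (nat_lit 267) (nat_lit 436) (nat_lit 317)) (XT.nd (nat_lit 78) (nat_lit 0) (nat_lit 0) (XT.lf (nat_lit 152) (nat_lit 6119696931) (nat_lit 0) (nat_lit 5450461634) (nat_lit 76) (nat_lit 5450461634) (nat_lit 119) (nat_lit 1) (nat_lit 117) (nat_lit 1) (nat_lit 118) (nat_lit 1) (nat_lit 268) (nat_lit 436) (nat_lit 316)) (XT.lf (nat_lit 0) (nat_lit 376523234) (nat_lit 0) (nat_lit 16097526723) (nat_lit 152) (nat_lit 376523234) (nat_lit 117) (nat_lit 3) (nat_lit 117) (nat_lit 1) (nat_lit 119) (nat_lit 1) (nat_lit 269) (nat_lit 436) (nat_lit 315)))))) (XT.nd (nat_lit 390) (nat_lit 380) (nat_lit 0) (XT.nd (nat_lit 156) (nat_lit 228) (nat_lit 0) (XT.nd (nat_lit 78) (nat_lit 76) (nat_lit 0) (XT.lf (nat_lit 76) (nat_lit 6077248122)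 (nat_lit 0) (nat_lit 4525055202) (nat_lit 152) (nat_lit 6077248122) (nat_lit 116) (nat_lit 1) (nat_lit 115) (nat_lit 1) (nat_lit 117) (nat_lit 1) (nat_lit 270) (nat_lit 436) (nat_lit 314)) (XT.lf (nat_lit 152) (nat_lit 6826465843) (nat_lit 0) (nat_lit 4842664567) (nat_lit 76) (nat_lit 4842664567) (nat_lit 116) (nat_lit 1) (nat_lit 114) (nat_lit 1) (nat_lit 115) (nat_lit 1) (nat_lit 271) (nat_lit 436) (nat_lit 313))) (XT.nd (nat_lit 78) (nat_lit 228) (nat_lit 0) (XT.lf (nat_lit 0) (nat_lit 793016011) (nat_lit 0) (nat_lit 14760923991) (nat_lit 152) (nat_lit 793016011) (nat_lit 114) (nat_lit 3) (nat_lit 114) (nat_lit 1) (nat_lit 116) (nat_lit 1) (nat_lit 272) (nat_lit 436) (nat_lit 312)) (XT.nd (nat_lit 78) (nat_lit 76) (nat_lit 0) (XT.lf (nat_lit 76) (nat_lit 6303162445) (nat_lit 0) (nat_lit 3575326730) (nat_lit 152) (nat_lit 6303162445) (nat_lit 113) (nat_lit 1) (nat_lit 112) (nat_lit 1) (nat_lit 114)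 (nat_lit 1) (nat_lit 273) (nat_lit 436) (nat_lit 311)) (XT.lf (nat_lit 152) (nat_lit 7413958895) (nat_lit 0) (nat_lit 4302644745) (nat_lit 76) (nat_lit 4302644745) (nat_lit 113) (nat_lit 1) (nat_lit 111) (nat_lit 1) (nat_lit 112) (nat_lit 1) (nat_lit 274) (nat_lit 436) (nat_lit 310))))) (XT.nd (nat_lit 156) (nat_lit 228) (nat_lit 0) (XT.nd (nat_lit 78) (nat_lit 152) (nat_lit 0) (XT.lf (nat_lit 0) (nat_lit 1149710663) (nat_lit 0) (nat_lit 13560015990) (nat_lit 152) (nat_lit 1149710663) (nat_lit 111) (nat_lit 3) (nat_lit 111) (nat_lit 1) (nat_lit 113) (nat_lit 1) (nat_lit 275) (nat_lit 436) (nat_lit 309)) (XT.lf (nat_lit 76) (nat_lit 6477565769) (nat_lit 0) (nat_lit 2744470125) (nat_lit 152) (nat_lit 6477565769) (nat_lit 110) (nat_lit 1) (nat_lit 109) (nat_lit 1) (nat_lit 111) (nat_lit 1) (nat_lit 276) (nat_lit 436) (nat_lit 308))) (XT.nd (nat_lit 78) (nat_lit 152) (nat_lit 0) (XT.lf (nat_lit 152) (nat_lit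 7896655394) (nat_lit 0) (nat_lit 3822844128) (nat_lit 76) (nat_lit 3822844128) (nat_lit 110) (nat_lit 1) (nat_lit 108) (nat_lit 1) (nat_lit 109) (nat_lit 1) (nat_lit 277) (nat_lit 436) (nat_lit 307)) (XT.nd (nat_lit 78) (nat_lit 152) (nat_lit 0) (XT.lf (nat_lit 0) (nat_lit 1453664400) (nat_lit 0) (nat_lit 12480059943) (nat_lit 152) (nat_lit 1453664400) (nat_lit 108) (nat_lit 3) (nat_lit 108) (nat_lit 1) (nat_lit 110) (nat_lit 1) (nat_lit 278) (nat_lit 436) (nat_lit 306)) (XT.lf (nat_lit 76) (nat_lit 6606968797) (nat_lit 0) (nat_lit 2018852016) (nat_lit 152) (nat_lit 6606968797) (nat_lit 107) (nat_lit 1) (nat_lit 106) (nat_lit 1) (nat_lit 108) (nat_lit 1) (nat_lit 279) (nat_lit 436) (nat_lit 305))))))) (XT.nd (nat_lit 702) (nat_lit 760) (nat_lit 0) (XT.nd (nat_lit 312) (nat_lit 380) (nat_lit 0) (XT.nd (nat_lit 156) (nat_lit 228) (nat_lit 0) (XT.nd (nat_lit 78) (nat_lit 0) (nat_lit 0) (XT.lf (nat_lit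 152) (nat_lit 8287385692) (nat_lit 0) (nat_lit 3396547494) (nat_lit 76) (nat_lit 3396547494) (nat_lit 107) (nat_lit 1) (nat_lit 105) (nat_lit 1) (nat_lit 106) (nat_lit 1) (nat_lit 280) (nat_lit 436) (nat_lit 304)) (XT.lf (nat_lit 0) (nat_lit 1711136134) (nat_lit 0) (nat_lit 11507945760) (nat_lit 152) (nat_lit 1711136134) (nat_lit 105) (nat_lit 3) (nat_lit 105) (nat_lit 1) (nat_lit 107) (nat_lit 1) (nat_lit 281) (nat_lit 436) (nat_lit 303))) (XT.nd (nat_lit 78) (nat_lit 76) (nat_lit 0) (XT.lf (nat_lit 76) (nat_lit 6697133882) (nat_lit 0) (nat_lit 1386370331) (nat_lit 152) (nat_lit 6697133882) (nat_lit 104) (nat_lit 1) (nat_lit 103) (nat_lit 1) (nat_lit 105) (nat_lit 1) (nat_lit 282) (nat_lit 436) (nat_lit 302)) (XT.lf (nat_lit 152) (nat_lit 8597516065) (nat_lit 0) (nat_lit 3017788456) (nat_lit 76) (nat_lit 3017788456) (nat_lit 104) (nat_lit 1) (nat_lit 102) (nat_lit 1) (nat_lit 103) (nat_lit 1) (nat_lit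 283) (nat_lit 436) (nat_lit 301)))) (XT.nd (nat_lit 156) (nat_lit 228) (nat_lit 0) (XT.nd (nat_lit 78) (nat_lit 152) (nat_lit 0) (XT.lf (nat_lit 0) (nat_lit 1927675829) (nat_lit 0) (nat_lit 10632014292) (nat_lit 152) (nat_lit 1927675829) (nat_lit 102) (nat_lit 3) (nat_lit 102) (nat_lit 1) (nat_lit 104) (nat_lit 1) (nat_lit 284) (nat_lit 436) (nat_lit 300)) (XT.lf (nat_lit 76) (nat_lit 6753159119) (nat_lit 0) (nat_lit 836283212) (nat_lit 152) (nat_lit 6753159119) (nat_lit 101) (nat_lit 1) (nat_lit 100) (nat_lit 1) (nat_lit 102) (nat_lit 1) (nat_lit 285) (nat_lit 436) (nat_lit 299))) (XT.nd (nat_lit 78) (nat_lit 152) (nat_lit 0) (XT.lf (nat_lit 152) (nat_lit 8837112945) (nat_lit 0) (nat_lit 2681265956) (nat_lit 76) (nat_lit 2681265956) (nat_lit 101) (nat_lit 1) (nat_lit 99) (nat_lit 1) (nat_lit 100) (nat_lit 1) (nat_lit 286) (nat_lit 436) (nat_lit 298)) (XT.nd (nat_lit 78) (nat_lit 152) (nat_lit 0) (XT.lf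 (nat_lit 0) (nat_lit 2108203877) (nat_lit 0) (nat_lit 9841895862) (nat_lit 152) (nat_lit 2108203877) (nat_lit 99) (nat_lit 3) (nat_lit 99) (nat_lit 1) (nat_lit 101) (nat_lit 1) (nat_lit 287) (nat_lit 436) (nat_lit 297)) (XT.lf (nat_lit 76) (nat_lit 6779553058) (nat_lit 0) (nat_lit 359057025) (nat_lit 152) (nat_lit 6779553058) (nat_lit 98) (nat_lit 1) (nat_lit 97) (nat_lit 1) (nat_lit 99) (nat_lit 1) (nat_lit 288) (nat_lit 436) (nat_lit 296)))))) (XT.nd (nat_lit 390) (nat_lit 456) (nat_lit 0) (XT.nd (nat_lit 156) (nat_lit 228) (nat_lit 0) (XT.nd (nat_lit 78) (nat_lit 0) (nat_lit 0) (XT.lf (nat_lit 152) (nat_lit 9015088818) (nat_lit 0) (nat_lit 2382270074) (nat_lit 76) (nat_lit 2382270074) (nat_lit 98) (nat_lit 1) (nat_lit 96) (nat_lit 1) (nat_lit 97) (nat_lit 1) (nat_lit 289) (nat_lit 436) (nat_lit 295)) (XT.lf (nat_lit 0) (nat_lit 2257081616) (nat_lit 0) (nat_lit 9128366778) (nat_lit 152) (nat_lit 2257081616)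 (nat_lit 96) (nat_lit 3) (nat_lit 96) (nat_lit 1) (nat_lit 98) (nat_lit 1) (nat_lit 290) (nat_lit 436) (nat_lit 294))) (XT.nd (nat_lit 78) (nat_lit 152) (nat_lit 0) (XT.lf (nat_lit 76) (nat_lit 54838776) (nat_lit 0) (nat_lit 6725989418) (nat_lit 76) (nat_lit 6725989418) (nat_lit 96) (nat_lit 3) (nat_lit 95) (nat_lit 1) (nat_lit 96) (nat_lit 1) (nat_lit 291) (nat_lit 436) (nat_lit 293)) (XT.nd (nat_lit 78) (nat_lit 0) (nat_lit 0) (XT.lf (nat_lit 152) (nat_lit 9139331811) (nat_lit 0) (nat_lit 2116616105) (nat_lit 76) (nat_lit 2116616105) (nat_lit 95) (nat_lit 1) (nat_lit 93) (nat_lit 1) (nat_lit 94) (nat_lit 1) (nat_lit 292) (nat_lit 436) (nat_lit 292)) (XT.lf (nat_lit 0) (nat_lit 2378173974) (nat_lit 0) (nat_lit 8483221842) (nat_lit 152) (nat_lit 2378173974) (nat_lit 93) (nat_lit 3) (nat_lit 93) (nat_lit 1) (nat_lit 95) (nat_lit 1) (nat_lit 293) (nat_lit 436) (nat_lit 291))))) (XT.nd (nat_lit 156) (nat_lit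 228) (nat_lit 0) (XT.nd (nat_lit 78) (nat_lit 152) (nat_lit 0) (XT.lf (nat_lit 76) (nat_lit 417854967) (nat_lit 0) (nat_lit 6345085908) (nat_lit 76) (nat_lit 6345085908) (nat_lit 93) (nat_lit 3) (nat_lit 92) (nat_lit 1) (nat_lit 93) (nat_lit 1) (nat_lit 294) (nat_lit 436) (nat_lit 290)) (XT.lf (nat_lit 152) (nat_lit 9216820814) (nat_lit 0) (nat_lit 1880585995) (nat_lit 76) (nat_lit 1880585995) (nat_lit 92) (nat_lit 1) (nat_lit 90) (nat_lit 1) (nat_lit 91) (nat_lit 1) (nat_lit 295) (nat_lit 436) (nat_lit 289))) (XT.nd (nat_lit 78) (nat_lit 228) (nat_lit 0) (XT.lf (nat_lit 0) (nat_lit 2474905114) (nat_lit 0) (nat_lit 7899161073) (nat_lit 152) (nat_lit 2474905114) (nat_lit 90) (nat_lit 3) (nat_lit 90) (nat_lit 1) (nat_lit 92) (nat_lit 1) (nat_lit 296) (nat_lit 436) (nat_lit 288)) (XT.nd (nat_lit 78) (nat_lit 152) (nat_lit 0) (XT.lf (nat_lit 76) (nat_lit 729638750) (nat_lit 0) (nat_lit 5995906671) (nat_lit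 76) (nat_lit 5995906671) (nat_lit 90) (nat_lit 3) (nat_lit 89) (nat_lit 1) (nat_lit 90) (nat_lit 1) (nat_lit 297) (nat_lit 436) (nat_lit 287)) (XT.lf (nat_lit 152) (nat_lit 9253727736) (nat_lit 0) (nat_lit 1670876299) (nat_lit 76) (nat_lit 1670876299) (nat_lit 89) (nat_lit 1) (nat_lit 87) (nat_lit 1) (nat_lit 88) (nat_lit 1) (nat_lit 298) (nat_lit 436) (nat_lit 286))))))))
noncomputable def ec504 : XT := (XT.nd (nat_lit 1404) (nat_lit 1368) (nat_lit 0) (XT.nd (nat_lit 702) (nat_lit 684) (nat_lit 0) (XT.nd (nat_lit 312) (nat_lit 456) (nat_lit 0) (XT.nd (nat_lit 156) (nat_lit 152) (nat_lit 0) (XT.nd (nat_lit 78) (nat_lit 76) (nat_lit 0) (XT.lf (nat_lit 0) (nat_lit 2550307878) (nat_lit 0) (nat_lit 7369689041) (nat_lit 152) (nat_lit 2550307878) (nat_lit 87) (nat_lit 3) (nat_lit 87) (nat_lit 1) (nat_lit 89) (nat_lit 1) (nat_lit 299) (nat_lit 436) (nat_lit 285)) (XT.lf (nat_lit 76) (nat_lit 996216350) (nat_lit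 0) (nat_lit 5675227189) (nat_lit 76) (nat_lit 5675227189) (nat_lit 87) (nat_lit 3) (nat_lit 86) (nat_lit 1) (nat_lit 87) (nat_lit 1) (nat_lit 300) (nat_lit 436) (nat_lit 284))) (XT.nd (nat_lit 78) (nat_lit 0) (nat_lit 0) (XT.lf (nat_lit 152) (nat_lit 9255508325) (nat_lit 0) (nat_lit 1484551950) (nat_lit 76) (nat_lit 1484551950) (nat_lit 86) (nat_lit 1) (nat_lit 84) (nat_lit 1) (nat_lit 85) (nat_lit 1) (nat_lit 301) (nat_lit 436) (nat_lit 283)) (XT.lf (nat_lit 0) (nat_lit 2607067692) (nat_lit 0) (nat_lit 6889025434) (nat_lit 152) (nat_lit 2607067692) (nat_lit 84) (nat_lit 3) (nat_lit 84) (nat_lit 1) (nat_lit 86) (nat_lit 1) (nat_lit 302) (nat_lit 436) (nat_lit 282)))) (XT.nd (nat_lit 156) (nat_lit 228) (nat_lit 0) (XT.nd (nat_lit 78) (nat_lit 152) (nat_lit 0) (XT.lf (nat_lit 76) (nat_lit 1222932869) (nat_lit 0) (nat_lit 5380173396) (nat_lit 76) (nat_lit 5380173396) (nat_lit 84) (nat_lit 3) (nat_lit 83)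 (nat_lit 1) (nat_lit 84) (nat_lit 1) (nat_lit 303) (nat_lit 436) (nat_lit 281)) (XT.lf (nat_lit 152) (nat_lit 9226982848) (nat_lit 0) (nat_lit 1319005180) (nat_lit 76) (nat_lit 1319005180) (nat_lit 83) (nat_lit 1) (nat_lit 81) (nat_lit 1) (nat_lit 82) (nat_lit 1) (nat_lit 304) (nat_lit 436) (nat_lit 280))) (XT.nd (nat_lit 78) (nat_lit 228) (nat_lit 0) (XT.lf (nat_lit 0) (nat_lit 2647561580) (nat_lit 0) (nat_lit 6452025574) (nat_lit 152) (nat_lit 2647561580) (nat_lit 81) (nat_lit 3) (nat_lit 81) (nat_lit 1) (nat_lit 83) (nat_lit 1) (nat_lit 305) (nat_lit 436) (nat_lit 279)) (XT.nd (nat_lit 78) (nat_lit 152) (nat_lit 0) (XT.lf (nat_lit 76) (nat_lit 1414528504) (nat_lit 0) (nat_lit 5108182868) (nat_lit 76) (nat_lit 5108182868) (nat_lit 81) (nat_lit 3) (nat_lit 80) (nat_lit 1) (nat_lit 81) (nat_lit 1) (nat_lit 306) (nat_lit 436) (nat_lit 278)) (XT.lf (nat_lit 152) (nat_lit 9172407742) (nat_lit 0) (nat_lit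 1171919018) (nat_lit 76) (nat_lit 1171919018) (nat_lit 80) (nat_lit 1) (nat_lit 78) (nat_lit 1) (nat_lit 79) (nat_lit 1) (nat_lit 307) (nat_lit 436) (nat_lit 277)))))) (XT.nd (nat_lit 312) (nat_lit 456) (nat_lit 0) (XT.nd (nat_lit 156) (nat_lit 152) (nat_lit 0) (XT.nd (nat_lit 78) (nat_lit 76) (nat_lit 0) (XT.lf (nat_lit 0) (nat_lit 2673892816) (nat_lit 0) (nat_lit 6054109799) (nat_lit 152) (nat_lit 2673892816) (nat_lit 78) (nat_lit 3) (nat_lit 78) (nat_lit 1) (nat_lit 80) (nat_lit 1) (nat_lit 308) (nat_lit 436) (nat_lit 276)) (XT.lf (nat_lit 76) (nat_lit 1575206265) (nat_lit 0) (nat_lit 4856970326) (nat_lit 76) (nat_lit 4856970326) (nat_lit 78) (nat_lit 3) (nat_lit 77) (nat_lit 1) (nat_lit 78) (nat_lit 1) (nat_lit 309) (nat_lit 436) (nat_lit 275))) (XT.nd (nat_lit 78) (nat_lit 0) (nat_lit 0) (XT.lf (nat_lit 152) (nat_lit 9095539253) (nat_lit 0) (nat_lit 1041234869) (nat_lit 76) (nat_lit 1041234869)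 (nat_lit 77) (nat_lit 1) (nat_lit 75) (nat_lit 1) (nat_lit 76) (nat_lit 1) (nat_lit 310) (nat_lit 436) (nat_lit 274)) (XT.lf (nat_lit 0) (nat_lit 2687921701) (nat_lit 0) (nat_lit 5691200709) (nat_lit 152) (nat_lit 2687921701) (nat_lit 75) (nat_lit 3) (nat_lit 75) (nat_lit 1) (nat_lit 77) (nat_lit 1) (nat_lit 311) (nat_lit 436) (nat_lit 273)))) (XT.nd (nat_lit 156) (nat_lit 228) (nat_lit 0) (XT.nd (nat_lit 78) (nat_lit 152) (nat_lit 0) (XT.lf (nat_lit 76) (nat_lit 1708692121) (nat_lit 0) (nat_lit 4624496984) (nat_lit 76) (nat_lit 4624496984) (nat_lit 75) (nat_lit 3) (nat_lit 74) (nat_lit 1) (nat_lit 75) (nat_lit 1) (nat_lit 312) (nat_lit 436) (nat_lit 272)) (XT.lf (nat_lit 152) (nat_lit 8999689962) (nat_lit 0) (nat_lit 925123695) (nat_lit 76) (nat_lit 925123695) (nat_lit 74) (nat_lit 1) (nat_lit 72) (nat_lit 1) (nat_lit 73) (nat_lit 1) (nat_lit 313) (nat_lit 436) (nat_lit 271))) (XT.nd (nat_lit 78) (nat_lit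 228) (nat_lit 0) (XT.lf (nat_lit 0) (nat_lit 2691292905) (nat_lit 0) (nat_lit 5359667405) (nat_lit 152) (nat_lit 2691292905) (nat_lit 72) (nat_lit 3) (nat_lit 72) (nat_lit 1) (nat_lit 74) (nat_lit 1) (nat_lit 314) (nat_lit 436) (nat_lit 270)) (XT.nd (nat_lit 78) (nat_lit 152) (nat_lit 0) (XT.lf (nat_lit 76) (nat_lit 1818288447) (nat_lit 0) (nat_lit 4408943301) (nat_lit 76) (nat_lit 4408943301) (nat_lit 72) (nat_lit 3) (nat_lit 71) (nat_lit 1) (nat_lit 72) (nat_lit 1) (nat_lit 315) (nat_lit 436) (nat_lit 269)) (XT.lf (nat_lit 152) (nat_lit 8887778979) (nat_lit 0) (nat_lit 821960420) (nat_lit 76) (nat_lit 821960420) (nat_lit 71) (nat_lit 1) (nat_lit 69) (nat_lit 1) (nat_lit 70) (nat_lit 1) (nat_lit 316) (nat_lit 436) (nat_lit 268))))))) (XT.nd (nat_lit 702) (nat_lit 684) (nat_lit 0) (XT.nd (nat_lit 312) (nat_lit 456) (nat_lit 0) (XT.nd (nat_lit 156) (nat_lit 152) (nat_lit 0) (XT.nd (nat_lit 78) (nat_lit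 76) (nat_lit 0) (XT.lf (nat_lit 0) (nat_lit 2685459750) (nat_lit 0) (nat_lit 5056275932) (nat_lit 152) (nat_lit 2685459750) (nat_lit 69) (nat_lit 3) (nat_lit 69) (nat_lit 1) (nat_lit 71) (nat_lit 1) (nat_lit 317) (nat_lit 436) (nat_lit 267)) (XT.lf (nat_lit 76) (nat_lit 1906921490) (nat_lit 0) (nat_lit 4208684774) (nat_lit 76) (nat_lit 4208684774) (nat_lit 69) (nat_lit 3) (nat_lit 68) (nat_lit 1) (nat_lit 69) (nat_lit 1) (nat_lit 318) (nat_lit 436) (nat_lit 266))) (XT.nd (nat_lit 78) (nat_lit 0) (nat_lit 0) (XT.lf (nat_lit 152) (nat_lit 8762376519) (nat_lit 0) (nat_lit 730301187) (nat_lit 76) (nat_lit 730301187) (nat_lit 68) (nat_lit 1) (nat_lit 66) (nat_lit 1) (nat_lit 67) (nat_lit 1) (nat_lit 319) (nat_lit 436) (nat_lit 265)) (XT.lf (nat_lit 0) (nat_lit 2671705780) (nat_lit 0) (nat_lit 4778145251) (nat_lit 152) (nat_lit 2671705780) (nat_lit 66) (nat_lit 3) (nat_lit 66) (nat_lit 1) (nat_lit 68) (nat_lit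 1) (nat_lit 320) (nat_lit 436) (nat_lit 264)))) (XT.nd (nat_lit 156) (nat_lit 228) (nat_lit 0) (XT.nd (nat_lit 78) (nat_lit 152) (nat_lit 0) (XT.lf (nat_lit 76) (nat_lit 1977183545) (nat_lit 0) (nat_lit 4022270411) (nat_lit 76) (nat_lit 4022270411) (nat_lit 66) (nat_lit 3) (nat_lit 65) (nat_lit 1) (nat_lit 66) (nat_lit 1) (nat_lit 321) (nat_lit 436) (nat_lit 263)) (XT.lf (nat_lit 152) (nat_lit 8625743494) (nat_lit 0) (nat_lit 648863146) (nat_lit 76) (nat_lit 648863146) (nat_lit 65) (nat_lit 1) (nat_lit 63) (nat_lit 1) (nat_lit 64) (nat_lit 1) (nat_lit 322) (nat_lit 436) (nat_lit 262))) (XT.nd (nat_lit 78) (nat_lit 228) (nat_lit 0) (XT.lf (nat_lit 0) (nat_lit 2651163918) (nat_lit 0) (nat_lit 4522708105) (nat_lit 152) (nat_lit 2651163918) (nat_lit 63) (nat_lit 3) (nat_lit 63) (nat_lit 1) (nat_lit 65) (nat_lit 1) (nat_lit 323) (nat_lit 436) (nat_lit 261)) (XT.nd (nat_lit 78) (nat_lit 152) (nat_lit 0) (XT.lf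 (nat_lit 76) (nat_lit 2031370418) (nat_lit 0) (nat_lit 3848403610) (nat_lit 76) (nat_lit 3848403610) (nat_lit 63) (nat_lit 3) (nat_lit 62) (nat_lit 1) (nat_lit 63) (nat_lit 1) (nat_lit 324) (nat_lit 436) (nat_lit 260)) (XT.lf (nat_lit 152) (nat_lit 8479866662) (nat_lit 0) (nat_lit 576506501) (nat_lit 76) (nat_lit 576506501) (nat_lit 62) (nat_lit 1) (nat_lit 60) (nat_lit 1) (nat_lit 61) (nat_lit 1) (nat_lit 325) (nat_lit 436) (nat_lit 259)))))) (XT.nd (nat_lit 390) (nat_lit 380) (nat_lit 0) (XT.nd (nat_lit 156) (nat_lit 228) (nat_lit 0) (XT.nd (nat_lit 78) (nat_lit 76) (nat_lit 0) (XT.lf (nat_lit 0) (nat_lit 2624833479) (nat_lit 0) (nat_lit 4287676249) (nat_lit 152) (nat_lit 2624833479) (nat_lit 60) (nat_lit 3) (nat_lit 60) (nat_lit 1) (nat_lit 62) (nat_lit 1) (nat_lit 326) (nat_lit 436) (nat_lit 258)) (XT.lf (nat_lit 76) (nat_lit 2071514701) (nat_lit 0) (nat_lit 3685925158) (nat_lit 76) (nat_lit 3685925158)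 (nat_lit 60) (nat_lit 3) (nat_lit 59) (nat_lit 1) (nat_lit 60) (nat_lit 1) (nat_lit 327) (nat_lit 436) (nat_lit 257))) (XT.nd (nat_lit 78) (nat_lit 76) (nat_lit 0) (XT.lf (nat_lit 152) (nat_lit 8326489842) (nat_lit 0) (nat_lit 512218559) (nat_lit 76) (nat_lit 512218559) (nat_lit 59) (nat_lit 1) (nat_lit 57) (nat_lit 1) (nat_lit 58) (nat_lit 1) (nat_lit 328) (nat_lit 436) (nat_lit 256)) (XT.nd (nat_lit 78) (nat_lit 76) (nat_lit 0) (XT.lf (nat_lit 0) (nat_lit 2593595284) (nat_lit 0) (nat_lit 4071009548) (nat_lit 152) (nat_lit 2593595284) (nat_lit 57) (nat_lit 3) (nat_lit 57) (nat_lit 1) (nat_lit 59) (nat_lit 1) (nat_lit 329) (nat_lit 436) (nat_lit 255)) (XT.lf (nat_lit 76) (nat_lit 2099415336) (nat_lit 0) (nat_lit 3533798117) (nat_lit 76) (nat_lit 3533798117) (nat_lit 57) (nat_lit 3) (nat_lit 56) (nat_lit 1) (nat_lit 57) (nat_lit 1) (nat_lit 330) (nat_lit 436) (nat_lit 254))))) (XT.nd (nat_lit 156) (nat_lit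 228) (nat_lit 0) (XT.nd (nat_lit 78) (nat_lit 0) (nat_lit 0) (XT.lf (nat_lit 152) (nat_lit 8167141627) (nat_lit 0) (nat_lit 455099555) (nat_lit 76) (nat_lit 455099555) (nat_lit 56) (nat_lit 1) (nat_lit 54) (nat_lit 1) (nat_lit 55) (nat_lit 1) (nat_lit 331) (nat_lit 436) (nat_lit 253)) (XT.lf (nat_lit 0) (nat_lit 2558225074) (nat_lit 0) (nat_lit 3870888512) (nat_lit 152) (nat_lit 2558225074) (nat_lit 54) (nat_lit 3) (nat_lit 54) (nat_lit 1) (nat_lit 56) (nat_lit 1) (nat_lit 332) (nat_lit 436) (nat_lit 252))) (XT.nd (nat_lit 78) (nat_lit 152) (nat_lit 0) (XT.lf (nat_lit 76) (nat_lit 2116663873) (nat_lit 0) (nat_lit 3391094395) (nat_lit 76) (nat_lit 3391094395) (nat_lit 54) (nat_lit 3) (nat_lit 53) (nat_lit 1) (nat_lit 54) (nat_lit 1) (nat_lit 333) (nat_lit 436) (nat_lit 251)) (XT.nd (nat_lit 78) (nat_lit 0) (nat_lit 0) (XT.lf (nat_lit 152) (nat_lit 8003159989) (nat_lit 0) (nat_lit 404350060) (nat_lit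 76) (nat_lit 404350060) (nat_lit 53) (nat_lit 1) (nat_lit 51) (nat_lit 1) (nat_lit 52) (nat_lit 1) (nat_lit 334) (nat_lit 436) (nat_lit 250)) (XT.lf (nat_lit 0) (nat_lit 2519405433) (nat_lit 0) (nat_lit 3685689895) (nat_lit 152) (nat_lit 2519405433) (nat_lit 51) (nat_lit 3) (nat_lit 51) (nat_lit 1) (nat_lit 53) (nat_lit 1) (nat_lit 335) (nat_lit 436) (nat_lit 249))))))))
noncomputable def ec505 : XT := (XT.nd (nat_lit 45474) (nat_lit 0) (nat_lit 7448) (XT.nd (nat_lit 702) (nat_lit 760) (nat_lit 0) (XT.nd (nat_lit 312) (nat_lit 380) (nat_lit 0) (XT.nd (nat_lit 156) (nat_lit 76) (nat_lit 0) (XT.nd (nat_lit 78) (nat_lit 152) (nat_lit 0) (XT.lf (nat_lit 76) (nat_lit 2124667793) (nat_lit 0) (nat_lit 3256982806) (nat_lit 76) (nat_lit 3256982806) (nat_lit 51) (nat_lit 3) (nat_lit 50) (nat_lit 1) (nat_lit 51) (nat_lit 1) (nat_lit 336) (nat_lit 436) (nat_lit 248)) (XT.lf (nat_lit 152) (nat_lit 7835714123) (nat_lit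 0) (nat_lit 359259792) (nat_lit 76) (nat_lit 359259792) (nat_lit 50) (nat_lit 1) (nat_lit 48) (nat_lit 1) (nat_lit 49) (nat_lit 1) (nat_lit 337) (nat_lit 436) (nat_lit 247))) (XT.nd (nat_lit 78) (nat_lit 76) (nat_lit 0) (XT.lf (nat_lit 0) (nat_lit 2477736366) (nat_lit 0) (nat_lit 3513965005) (nat_lit 152) (nat_lit 2477736366) (nat_lit 48) (nat_lit 3) (nat_lit 48) (nat_lit 1) (nat_lit 50) (nat_lit 1) (nat_lit 338) (nat_lit 436) (nat_lit 246)) (XT.lf (nat_lit 76) (nat_lit 2124671231) (nat_lit 0) (nat_lit 3130718454) (nat_lit 76) (nat_lit 3130718454) (nat_lit 48) (nat_lit 3) (nat_lit 47) (nat_lit 1) (nat_lit 48) (nat_lit 1) (nat_lit 339) (nat_lit 436) (nat_lit 245)))) (XT.nd (nat_lit 156) (nat_lit 228) (nat_lit 0) (XT.nd (nat_lit 78) (nat_lit 0) (nat_lit 0) (XT.lf (nat_lit 152) (nat_lit 7665823840) (nat_lit 0) (nat_lit 319197672) (nat_lit 76) (nat_lit 319197672) (nat_lit 47) (nat_lit 1) (nat_lit 45) (nat_lit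 1) (nat_lit 46) (nat_lit 1) (nat_lit 340) (nat_lit 436) (nat_lit 244)) (XT.lf (nat_lit 0) (nat_lit 2433744699) (nat_lit 0) (nat_lit 3354420424) (nat_lit 152) (nat_lit 2433744699) (nat_lit 45) (nat_lit 3) (nat_lit 45) (nat_lit 1) (nat_lit 47) (nat_lit 1) (nat_lit 341) (nat_lit 436) (nat_lit 243))) (XT.nd (nat_lit 78) (nat_lit 152) (nat_lit 0) (XT.lf (nat_lit 76) (nat_lit 2117773370) (nat_lit 0) (nat_lit 3011633297) (nat_lit 76) (nat_lit 3011633297) (nat_lit 45) (nat_lit 3) (nat_lit 44) (nat_lit 1) (nat_lit 45) (nat_lit 1) (nat_lit 342) (nat_lit 436) (nat_lit 242)) (XT.nd (nat_lit 78) (nat_lit 0) (nat_lit 0) (XT.lf (nat_lit 152) (nat_lit 7494376777) (nat_lit 0) (nat_lit 283602997) (nat_lit 76) (nat_lit 283602997) (nat_lit 44) (nat_lit 1) (nat_lit 42) (nat_lit 1) (nat_lit 43) (nat_lit 1) (nat_lit 343) (nat_lit 436) (nat_lit 241)) (XT.lf (nat_lit 0) (nat_lit 2387892420) (nat_lit 0) (nat_lit 3205900877)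 (nat_lit 152) (nat_lit 2387892420) (nat_lit 42) (nat_lit 3) (nat_lit 42) (nat_lit 1) (nat_lit 44) (nat_lit 1) (nat_lit 344) (nat_lit 436) (nat_lit 240)))))) (XT.nd (nat_lit 390) (nat_lit 304) (nat_lit 0) (XT.nd (nat_lit 156) (nat_lit 228) (nat_lit 0) (XT.nd (nat_lit 78) (nat_lit 152) (nat_lit 0) (XT.lf (nat_lit 76) (nat_lit 2104944792) (nat_lit 0) (nat_lit 2899127760) (nat_lit 76) (nat_lit 2899127760) (nat_lit 42) (nat_lit 3) (nat_lit 41) (nat_lit 1) (nat_lit 42) (nat_lit 1) (nat_lit 345) (nat_lit 436) (nat_lit 239)) (XT.lf (nat_lit 152) (nat_lit 7322143672) (nat_lit 0) (nat_lit 251977589) (nat_lit 76) (nat_lit 251977589) (nat_lit 41) (nat_lit 1) (nat_lit 39) (nat_lit 1) (nat_lit 40) (nat_lit 1) (nat_lit 346) (nat_lit 436) (nat_lit 238))) (XT.nd (nat_lit 78) (nat_lit 228) (nat_lit 0) (XT.lf (nat_lit 0) (nat_lit 2340584085) (nat_lit 0) (nat_lit 3067374004) (nat_lit 152) (nat_lit 2340584085) (nat_lit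 39) (nat_lit 3) (nat_lit 39) (nat_lit 1) (nat_lit 41) (nat_lit 1) (nat_lit 347) (nat_lit 436) (nat_lit 237)) (XT.nd (nat_lit 78) (nat_lit 152) (nat_lit 0) (XT.lf (nat_lit 76) (nat_lit 2087041993) (nat_lit 0) (nat_lit 2792663273) (nat_lit 76) (nat_lit 2792663273) (nat_lit 39) (nat_lit 3) (nat_lit 38) (nat_lit 1) (nat_lit 39) (nat_lit 1) (nat_lit 348) (nat_lit 436) (nat_lit 236)) (XT.lf (nat_lit 152) (nat_lit 7149791926) (nat_lit 0) (nat_lit 223878824) (nat_lit 76) (nat_lit 223878824) (nat_lit 38) (nat_lit 1) (nat_lit 36) (nat_lit 1) (nat_lit 37) (nat_lit 1) (nat_lit 349) (nat_lit 436) (nat_lit 235))))) (XT.nd (nat_lit 156) (nat_lit 228) (nat_lit 0) (XT.nd (nat_lit 78) (nat_lit 76) (nat_lit 0) (XT.lf (nat_lit 0) (nat_lit 2292173400) (nat_lit 0) (nat_lit 2937916830) (nat_lit 152) (nat_lit 2292173400) (nat_lit 36) (nat_lit 3) (nat_lit 36) (nat_lit 1) (nat_lit 38) (nat_lit 1) (nat_lit 350) (nat_lit 436)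 (nat_lit 234)) (XT.lf (nat_lit 76) (nat_lit 2064820273) (nat_lit 0) (nat_lit 2691755641) (nat_lit 76) (nat_lit 2691755641) (nat_lit 36) (nat_lit 3) (nat_lit 35) (nat_lit 1) (nat_lit 36) (nat_lit 1) (nat_lit 351) (nat_lit 436) (nat_lit 233))) (XT.nd (nat_lit 78) (nat_lit 76) (nat_lit 0) (XT.lf (nat_lit 152) (nat_lit 6977897629) (nat_lit 0) (nat_lit 198913436) (nat_lit 76) (nat_lit 198913436) (nat_lit 35) (nat_lit 1) (nat_lit 33) (nat_lit 1) (nat_lit 34) (nat_lit 1) (nat_lit 352) (nat_lit 436) (nat_lit 232)) (XT.nd (nat_lit 78) (nat_lit 76) (nat_lit 0) (XT.lf (nat_lit 0) (nat_lit 2242969054) (nat_lit 0) (nat_lit 2816703727) (nat_lit 152) (nat_lit 2242969054) (nat_lit 33) (nat_lit 3) (nat_lit 33) (nat_lit 1) (nat_lit 35) (nat_lit 1) (nat_lit 353) (nat_lit 436) (nat_lit 231)) (XT.lf (nat_lit 76) (nat_lit 2038945189) (nat_lit 0) (nat_lit 2595969143) (nat_lit 76) (nat_lit 2595969143) (nat_lit 33) (nat_lit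 3) (nat_lit 32) (nat_lit 1) (nat_lit 33) (nat_lit 1) (nat_lit 354) (nat_lit 436) (nat_lit 230))))))) (XT.nd (nat_lit 702) (nat_lit 912) (nat_lit 0) (XT.nd (nat_lit 312) (nat_lit 608) (nat_lit 0) (XT.nd (nat_lit 156) (nat_lit 152) (nat_lit 0) (XT.nd (nat_lit 78) (nat_lit 0) (nat_lit 0) (XT.lf (nat_lit 228) (nat_lit 20901568717) (nat_lit 0) (nat_lit 1237624317) (nat_lit 152) (nat_lit 1237624317) (nat_lit 155) (nat_lit 1) (nat_lit 152) (nat_lit 1) (nat_lit 154) (nat_lit 1) (nat_lit 238) (nat_lit 437) (nat_lit 345)) (XT.lf (nat_lit 76) (nat_lit 6954411607) (nat_lit 0) (nat_lit 9223314478) (nat_lit 228) (nat_lit 6954411607) (nat_lit 153) (nat_lit 1) (nat_lit 152) (nat_lit 1) (nat_lit 155) (nat_lit 1) (nat_lit 239) (nat_lit 437) (nat_lit 344))) (XT.nd (nat_lit 78) (nat_lit 0) (nat_lit 0) (XT.lf (nat_lit 228) (nat_lit 7029325260) (nat_lit 0) (nat_lit 7931312819) (nat_lit 152) (nat_lit 7931312819) (nat_lit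 153) (nat_lit 1) (nat_lit 150) (nat_lit 1) (nat_lit 152) (nat_lit 1) (nat_lit 240) (nat_lit 437) (nat_lit 343)) (XT.lf (nat_lit 76) (nat_lit 140301875) (nat_lit 0) (nat_lit 22376128980) (nat_lit 228) (nat_lit 140301875) (nat_lit 151) (nat_lit 1) (nat_lit 150) (nat_lit 1) (nat_lit 153) (nat_lit 1) (nat_lit 241) (nat_lit 437) (nat_lit 342)))) (XT.nd (nat_lit 156) (nat_lit 304) (nat_lit 0) (XT.nd (nat_lit 78) (nat_lit 152) (nat_lit 0) (XT.lf (nat_lit 76) (nat_lit 8027919352) (nat_lit 0) (nat_lit 6364265503) (nat_lit 152) (nat_lit 8027919352) (nat_lit 149) (nat_lit 1) (nat_lit 148) (nat_lit 1) (nat_lit 150) (nat_lit 1) (nat_lit 242) (nat_lit 437) (nat_lit 341)) (XT.lf (nat_lit 228) (nat_lit 9314891110) (nat_lit 0) (nat_lit 6436750711) (nat_lit 152) (nat_lit 6436750711) (nat_lit 149) (nat_lit 1) (nat_lit 146) (nat_lit 1) (nat_lit 148) (nat_lit 1) (nat_lit 243) (nat_lit 437) (nat_lit 340))) (XT.nd (nat_lit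 78) (nat_lit 304) (nat_lit 0) (XT.lf (nat_lit 76) (nat_lit 1339027575) (nat_lit 0) (nat_lit 19282688379) (nat_lit 228) (nat_lit 1339027575) (nat_lit 147) (nat_lit 1) (nat_lit 146) (nat_lit 1) (nat_lit 149) (nat_lit 1) (nat_lit 244) (nat_lit 437) (nat_lit 339)) (XT.nd (nat_lit 78) (nat_lit 152) (nat_lit 0) (XT.lf (nat_lit 76) (nat_lit 8927862281) (nat_lit 0) (nat_lit 3877353925) (nat_lit 152) (nat_lit 8927862281) (nat_lit 145) (nat_lit 1) (nat_lit 144) (nat_lit 1) (nat_lit 146) (nat_lit 1) (nat_lit 245) (nat_lit 437) (nat_lit 338)) (XT.lf (nat_lit 228) (nat_lit 11256185988) (nat_lit 0) (nat_lit 5126622063) (nat_lit 152) (nat_lit 5126622063) (nat_lit 145) (nat_lit 1) (nat_lit 142) (nat_lit 1) (nat_lit 144) (nat_lit 1) (nat_lit 246) (nat_lit 437) (nat_lit 337)))))) (XT.nd (nat_lit 390) (nat_lit 532) (nat_lit 0) (XT.nd (nat_lit 156) (nat_lit 228) (nat_lit 0) (XT.nd (nat_lit 78) (nat_lit 152) (nat_lit 0)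 (XT.lf (nat_lit 76) (nat_lit 2368709799) (nat_lit 0) (nat_lit 16551630134) (nat_lit 228) (nat_lit 2368709799) (nat_lit 143) (nat_lit 1) (nat_lit 142) (nat_lit 1) (nat_lit 145) (nat_lit 1) (nat_lit 247) (nat_lit 437) (nat_lit 336)) (XT.lf (nat_lit 76) (nat_lit 9675163707) (nat_lit 0) (nat_lit 1719528700) (nat_lit 152) (nat_lit 9675163707) (nat_lit 141) (nat_lit 1) (nat_lit 140) (nat_lit 1) (nat_lit 142) (nat_lit 1) (nat_lit 248) (nat_lit 437) (nat_lit 335))) (XT.nd (nat_lit 78) (nat_lit 76) (nat_lit 0) (XT.lf (nat_lit 228) (nat_lit 12894204474) (nat_lit 0) (nat_lit 3979842570) (nat_lit 152) (nat_lit 3979842570) (nat_lit 141) (nat_lit 1) (nat_lit 138) (nat_lit 1) (nat_lit 140) (nat_lit 1) (nat_lit 249) (nat_lit 437) (nat_lit 334)) (XT.nd (nat_lit 78) (nat_lit 76) (nat_lit 0) (XT.lf (nat_lit 76) (nat_lit 3249229279) (nat_lit 0) (nat_lit 14142036433) (nat_lit 228) (nat_lit 3249229279) (nat_lit 139) (nat_lit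 1) (nat_lit 138) (nat_lit 1) (nat_lit 141) (nat_lit 1) (nat_lit 250) (nat_lit 437) (nat_lit 333)) (XT.lf (nat_lit 152) (nat_lit 150349088) (nat_lit 0) (nat_lit 10139464191) (nat_lit 76) (nat_lit 10139464191) (nat_lit 139) (nat_lit 1) (nat_lit 137) (nat_lit 1) (nat_lit 138) (nat_lit 1) (nat_lit 251) (nat_lit 437) (nat_lit 332))))) (XT.nd (nat_lit 156) (nat_lit 304) (nat_lit 0) (XT.nd (nat_lit 78) (nat_lit 0) (nat_lit 0) (XT.lf (nat_lit 228) (nat_lit 14265293876) (nat_lit 0) (nat_lit 2977694176) (nat_lit 152) (nat_lit 2977694176) (nat_lit 137) (nat_lit 1) (nat_lit 134) (nat_lit 1) (nat_lit 136) (nat_lit 1) (nat_lit 252) (nat_lit 437) (nat_lit 331)) (XT.lf (nat_lit 76) (nat_lit 3998219783) (nat_lit 0) (nat_lit 12017567112) (nat_lit 228) (nat_lit 3998219783) (nat_lit 135) (nat_lit 1) (nat_lit 134) (nat_lit 1) (nat_lit 137) (nat_lit 1) (nat_lit 253) (nat_lit 437) (nat_lit 330))) (XT.nd (nat_lit 78) (nat_lit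 228) (nat_lit 0) (XT.lf (nat_lit 152) (nat_lit 1792353961) (nat_lit 0) (nat_lit 9008782607) (nat_lit 76) (nat_lit 9008782607) (nat_lit 135) (nat_lit 1) (nat_lit 133) (nat_lit 1) (nat_lit 134) (nat_lit 1) (nat_lit 254) (nat_lit 437) (nat_lit 329)) (XT.nd (nat_lit 78) (nat_lit 0) (nat_lit 0) (XT.lf (nat_lit 228) (nat_lit 15401674677) (nat_lit 0) (nat_lit 2103560766) (nat_lit 152) (nat_lit 2103560766) (nat_lit 133) (nat_lit 1) (nat_lit 130) (nat_lit 1) (nat_lit 132) (nat_lit 1) (nat_lit 255) (nat_lit 437) (nat_lit 328)) (XT.lf (nat_lit 76) (nat_lit 4631319553) (nat_lit 0) (nat_lit 10145948755) (nat_lit 228) (nat_lit 4631319553) (nat_lit 131) (nat_lit 1) (nat_lit 130) (nat_lit 1) (nat_lit 133) (nat_lit 1) (nat_lit 256) (nat_lit 437) (nat_lit 327))))))))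
noncomputable def ec506 : XT := (XT.nd (nat_lit 1482) (nat_lit 1368) (nat_lit 0) (XT.nd (nat_lit 702) (nat_lit 760) (nat_lit 0) (XT.nd (nat_lit 312) (nat_lit 532) (nat_lit 0) (XT.nd (nat_lit 156) (nat_lit 76) (nat_lit 0) (XT.nd (nat_lit 78) (nat_lit 228) (nat_lit 0) (XT.lf (nat_lit 152) (nat_lit 3202940311) (nat_lit 0) (nat_lit 8004186663) (nat_lit 76) (nat_lit 8004186663) (nat_lit 131) (nat_lit 1) (nat_lit 129) (nat_lit 1) (nat_lit 130) (nat_lit 1) (nat_lit 257) (nat_lit 437) (nat_lit 326)) (XT.lf (nat_lit 228) (nat_lit 16331902867) (nat_lit 0) (nat_lit 1342693347) (nat_lit 152) (nat_lit 1342693347) (nat_lit 129) (nat_lit 1) (nat_lit 126) (nat_lit 1) (nat_lit 128) (nat_lit 1) (nat_lit 258) (nat_lit 437) (nat_lit 325))) (XT.nd (nat_lit 78) (nat_lit 76) (nat_lit 0) (XT.lf (nat_lit 76) (nat_lit 5162394681) (nat_lit 0) (nat_lit 8498520785) (nat_lit 228) (nat_lit 5162394681) (nat_lit 127) (nat_lit 1) (nat_lit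 126) (nat_lit 1) (nat_lit 129) (nat_lit 1) (nat_lit 259) (nat_lit 437) (nat_lit 324)) (XT.lf (nat_lit 152) (nat_lit 4409321498) (nat_lit 0) (nat_lit 7111616180) (nat_lit 76) (nat_lit 7111616180) (nat_lit 127) (nat_lit 1) (nat_lit 125) (nat_lit 1) (nat_lit 126) (nat_lit 1) (nat_lit 260) (nat_lit 437) (nat_lit 323)))) (XT.nd (nat_lit 156) (nat_lit 304) (nat_lit 0) (XT.nd (nat_lit 78) (nat_lit 0) (nat_lit 0) (XT.lf (nat_lit 228) (nat_lit 17081280671) (nat_lit 0) (nat_lit 682001427) (nat_lit 152) (nat_lit 682001427) (nat_lit 125) (nat_lit 1) (nat_lit 122) (nat_lit 1) (nat_lit 124) (nat_lit 1) (nat_lit 261) (nat_lit 437) (nat_lit 322)) (XT.lf (nat_lit 76) (nat_lit 5603737552) (nat_lit 0) (nat_lit 7049832175) (nat_lit 228) (nat_lit 5603737552) (nat_lit 123) (nat_lit 1) (nat_lit 122) (nat_lit 1) (nat_lit 125) (nat_lit 1) (nat_lit 262) (nat_lit 437) (nat_lit 321))) (XT.nd (nat_lit 78) (nat_lit 228) (nat_lit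 0) (XT.lf (nat_lit 152) (nat_lit 5435635252) (nat_lit 0) (nat_lit 6318578865) (nat_lit 76) (nat_lit 6318578865) (nat_lit 123) (nat_lit 1) (nat_lit 121) (nat_lit 1) (nat_lit 122) (nat_lit 1) (nat_lit 263) (nat_lit 437) (nat_lit 320)) (XT.nd (nat_lit 78) (nat_lit 0) (nat_lit 0) (XT.lf (nat_lit 228) (nat_lit 17672221401) (nat_lit 0) (nat_lit 109867666) (nat_lit 152) (nat_lit 109867666) (nat_lit 121) (nat_lit 1) (nat_lit 118) (nat_lit 1) (nat_lit 120) (nat_lit 1) (nat_lit 264) (nat_lit 437) (nat_lit 319)) (XT.lf (nat_lit 76) (nat_lit 5966243130) (nat_lit 0) (nat_lit 5777283152) (nat_lit 228) (nat_lit 5966243130) (nat_lit 119) (nat_lit 1) (nat_lit 118) (nat_lit 1) (nat_lit 121) (nat_lit 1) (nat_lit 265) (nat_lit 437) (nat_lit 318)))))) (XT.nd (nat_lit 390) (nat_lit 456) (nat_lit 0) (XT.nd (nat_lit 156) (nat_lit 228) (nat_lit 0) (XT.nd (nat_lit 78) (nat_lit 0) (nat_lit 0) (XT.lf (nat_lit 152) (nat_lit 6303287839)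 (nat_lit 0) (nat_lit 5613975483) (nat_lit 76) (nat_lit 5613975483) (nat_lit 119) (nat_lit 1) (nat_lit 117) (nat_lit 1) (nat_lit 118) (nat_lit 1) (nat_lit 266) (nat_lit 437) (nat_lit 317)) (XT.lf (nat_lit 0) (nat_lit 387818931) (nat_lit 0) (nat_lit 16580452525) (nat_lit 152) (nat_lit 387818931) (nat_lit 117) (nat_lit 3) (nat_lit 117) (nat_lit 1) (nat_lit 119) (nat_lit 1) (nat_lit 267) (nat_lit 437) (nat_lit 316))) (XT.nd (nat_lit 78) (nat_lit 76) (nat_lit 0) (XT.lf (nat_lit 76) (nat_lit 6259565565) (nat_lit 0) (nat_lit 4660806858) (nat_lit 152) (nat_lit 6259565565) (nat_lit 116) (nat_lit 1) (nat_lit 115) (nat_lit 1) (nat_lit 117) (nat_lit 1) (nat_lit 268) (nat_lit 437) (nat_lit 315)) (XT.nd (nat_lit 78) (nat_lit 0) (nat_lit 0) (XT.lf (nat_lit 152) (nat_lit 7031259818) (nat_lit 0) (nat_lit 4987944504) (nat_lit 76) (nat_lit 4987944504) (nat_lit 116) (nat_lit 1) (nat_lit 114) (nat_lit 1) (nat_lit 115) (nat_lit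 1) (nat_lit 269) (nat_lit 437) (nat_lit 314)) (XT.lf (nat_lit 0) (nat_lit 816806492) (nat_lit 0) (nat_lit 15203751711) (nat_lit 152) (nat_lit 816806492) (nat_lit 114) (nat_lit 3) (nat_lit 114) (nat_lit 1) (nat_lit 116) (nat_lit 1) (nat_lit 270) (nat_lit 437) (nat_lit 313))))) (XT.nd (nat_lit 156) (nat_lit 228) (nat_lit 0) (XT.nd (nat_lit 78) (nat_lit 76) (nat_lit 0) (XT.lf (nat_lit 76) (nat_lit 6492257319) (nat_lit 0) (nat_lit 3682586532) (nat_lit 152) (nat_lit 6492257319) (nat_lit 113) (nat_lit 1) (nat_lit 112) (nat_lit 1) (nat_lit 114) (nat_lit 1) (nat_lit 271) (nat_lit 437) (nat_lit 312)) (XT.lf (nat_lit 152) (nat_lit 7636377662) (nat_lit 0) (nat_lit 4431724087) (nat_lit 76) (nat_lit 4431724087) (nat_lit 113) (nat_lit 1) (nat_lit 111) (nat_lit 1) (nat_lit 112) (nat_lit 1) (nat_lit 272) (nat_lit 437) (nat_lit 311))) (XT.nd (nat_lit 78) (nat_lit 228) (nat_lit 0) (XT.lf (nat_lit 0) (nat_lit 1184201983)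 (nat_lit 0) (nat_lit 13966816469) (nat_lit 152) (nat_lit 1184201983) (nat_lit 111) (nat_lit 3) (nat_lit 111) (nat_lit 1) (nat_lit 113) (nat_lit 1) (nat_lit 273) (nat_lit 437) (nat_lit 310)) (XT.nd (nat_lit 78) (nat_lit 76) (nat_lit 0) (XT.lf (nat_lit 76) (nat_lit 6671892742) (nat_lit 0) (nat_lit 2826804228) (nat_lit 152) (nat_lit 6671892742) (nat_lit 110) (nat_lit 1) (nat_lit 109) (nat_lit 1) (nat_lit 111) (nat_lit 1) (nat_lit 274) (nat_lit 437) (nat_lit 309)) (XT.lf (nat_lit 152) (nat_lit 8133555056) (nat_lit 0) (nat_lit 3937529451) (nat_lit 76) (nat_lit 3937529451) (nat_lit 110) (nat_lit 1) (nat_lit 108) (nat_lit 1) (nat_lit 109) (nat_lit 1) (nat_lit 275) (nat_lit 437) (nat_lit 308))))))) (XT.nd (nat_lit 702) (nat_lit 684) (nat_lit 0) (XT.nd (nat_lit 312) (nat_lit 456) (nat_lit 0) (XT.nd (nat_lit 156) (nat_lit 76) (nat_lit 0) (XT.nd (nat_lit 78) (nat_lit 152) (nat_lit 0) (XT.lf (nat_lit 0) (nat_lit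 1497274332) (nat_lit 0) (nat_lit 12854461742) (nat_lit 152) (nat_lit 1497274332) (nat_lit 108) (nat_lit 3) (nat_lit 108) (nat_lit 1) (nat_lit 110) (nat_lit 1) (nat_lit 276) (nat_lit 437) (nat_lit 307)) (XT.lf (nat_lit 76) (nat_lit 6805177861) (nat_lit 0) (nat_lit 2079417577) (nat_lit 152) (nat_lit 6805177861) (nat_lit 107) (nat_lit 1) (nat_lit 106) (nat_lit 1) (nat_lit 108) (nat_lit 1) (nat_lit 277) (nat_lit 437) (nat_lit 306))) (XT.nd (nat_lit 78) (nat_lit 0) (nat_lit 0) (XT.lf (nat_lit 152) (nat_lit 8536007263) (nat_lit 0) (nat_lit 3498443918) (nat_lit 76) (nat_lit 3498443918) (nat_lit 107) (nat_lit 1) (nat_lit 105) (nat_lit 1) (nat_lit 106) (nat_lit 1) (nat_lit 278) (nat_lit 437) (nat_lit 305)) (XT.lf (nat_lit 0) (nat_lit 1762470218) (nat_lit 0) (nat_lit 11853184132) (nat_lit 152) (nat_lit 1762470218) (nat_lit 105) (nat_lit 3) (nat_lit 105) (nat_lit 1) (nat_lit 107) (nat_lit 1) (nat_lit 279) (nat_lit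 437) (nat_lit 304)))) (XT.nd (nat_lit 156) (nat_lit 228) (nat_lit 0) (XT.nd (nat_lit 78) (nat_lit 76) (nat_lit 0) (XT.lf (nat_lit 76) (nat_lit 6898047898) (nat_lit 0) (nat_lit 1427961441) (nat_lit 152) (nat_lit 6898047898) (nat_lit 104) (nat_lit 1) (nat_lit 103) (nat_lit 1) (nat_lit 105) (nat_lit 1) (nat_lit 280) (nat_lit 437) (nat_lit 303)) (XT.lf (nat_lit 152) (nat_lit 8855441547) (nat_lit 0) (nat_lit 3108322109) (nat_lit 76) (nat_lit 3108322109) (nat_lit 104) (nat_lit 1) (nat_lit 102) (nat_lit 1) (nat_lit 103) (nat_lit 1) (nat_lit 281) (nat_lit 437) (nat_lit 302))) (XT.nd (nat_lit 78) (nat_lit 228) (nat_lit 0) (XT.lf (nat_lit 0) (nat_lit 1985506104) (nat_lit 0) (nat_lit 10950974721) (nat_lit 152) (nat_lit 1985506104) (nat_lit 102) (nat_lit 3) (nat_lit 102) (nat_lit 1) (nat_lit 104) (nat_lit 1) (nat_lit 282) (nat_lit 437) (nat_lit 301)) (XT.nd (nat_lit 78) (nat_lit 76) (nat_lit 0) (XT.lf (nat_lit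 76) (nat_lit 6955753893) (nat_lit 0) (nat_lit 861371709) (nat_lit 152) (nat_lit 6955753893) (nat_lit 101) (nat_lit 1) (nat_lit 100) (nat_lit 1) (nat_lit 102) (nat_lit 1) (nat_lit 283) (nat_lit 437) (nat_lit 300)) (XT.lf (nat_lit 152) (nat_lit 9102226334) (nat_lit 0) (nat_lit 2761703935) (nat_lit 76) (nat_lit 2761703935) (nat_lit 101) (nat_lit 1) (nat_lit 99) (nat_lit 1) (nat_lit 100) (nat_lit 1) (nat_lit 284) (nat_lit 437) (nat_lit 299)))))) (XT.nd (nat_lit 390) (nat_lit 380) (nat_lit 0) (XT.nd (nat_lit 156) (nat_lit 152) (nat_lit 0) (XT.nd (nat_lit 78) (nat_lit 152) (nat_lit 0) (XT.lf (nat_lit 0) (nat_lit 2171449993) (nat_lit 0) (nat_lit 10137152738) (nat_lit 152) (nat_lit 2171449993) (nat_lit 99) (nat_lit 3) (nat_lit 99) (nat_lit 1) (nat_lit 101) (nat_lit 1) (nat_lit 285) (nat_lit 437) (nat_lit 298)) (XT.lf (nat_lit 76) (nat_lit 6982939650) (nat_lit 0) (nat_lit 369828736) (nat_lit 152) (nat_lit 6982939650)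 (nat_lit 98) (nat_lit 1) (nat_lit 97) (nat_lit 1) (nat_lit 99) (nat_lit 1) (nat_lit 286) (nat_lit 437) (nat_lit 297))) (XT.nd (nat_lit 78) (nat_lit 76) (nat_lit 0) (XT.lf (nat_lit 152) (nat_lit 9285541483) (nat_lit 0) (nat_lit 2453738176) (nat_lit 76) (nat_lit 2453738176) (nat_lit 98) (nat_lit 1) (nat_lit 96) (nat_lit 1) (nat_lit 97) (nat_lit 1) (nat_lit 287) (nat_lit 437) (nat_lit 296)) (XT.nd (nat_lit 78) (nat_lit 76) (nat_lit 0) (XT.lf (nat_lit 0) (nat_lit 2324794065) (nat_lit 0) (nat_lit 9402217781) (nat_lit 152) (nat_lit 2324794065) (nat_lit 96) (nat_lit 3) (nat_lit 96) (nat_lit 1) (nat_lit 98) (nat_lit 1) (nat_lit 288) (nat_lit 437) (nat_lit 295)) (XT.lf (nat_lit 76) (nat_lit 56483939) (nat_lit 0) (nat_lit 6927769101) (nat_lit 76) (nat_lit 6927769101) (nat_lit 96) (nat_lit 3) (nat_lit 95) (nat_lit 1) (nat_lit 96) (nat_lit 1) (nat_lit 289) (nat_lit 437) (nat_lit 294))))) (XT.nd (nat_lit 156) (nat_lit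 228) (nat_lit 0) (XT.nd (nat_lit 78) (nat_lit 0) (nat_lit 0) (XT.lf (nat_lit 152) (nat_lit 9413511765) (nat_lit 0) (nat_lit 2180114588) (nat_lit 76) (nat_lit 2180114588) (nat_lit 95) (nat_lit 1) (nat_lit 93) (nat_lit 1) (nat_lit 94) (nat_lit 1) (nat_lit 290) (nat_lit 437) (nat_lit 293)) (XT.lf (nat_lit 0) (nat_lit 2449519193) (nat_lit 0) (nat_lit 8737718497) (nat_lit 152) (nat_lit 2449519193) (nat_lit 93) (nat_lit 3) (nat_lit 93) (nat_lit 1) (nat_lit 95) (nat_lit 1) (nat_lit 291) (nat_lit 437) (nat_lit 292))) (XT.nd (nat_lit 78) (nat_lit 152) (nat_lit 0) (XT.lf (nat_lit 76) (nat_lit 430390616) (nat_lit 0) (nat_lit 6535438485) (nat_lit 76) (nat_lit 6535438485) (nat_lit 93) (nat_lit 3) (nat_lit 92) (nat_lit 1) (nat_lit 93) (nat_lit 1) (nat_lit 292) (nat_lit 437) (nat_lit 291)) (XT.nd (nat_lit 78) (nat_lit 0) (nat_lit 0) (XT.lf (nat_lit 152) (nat_lit 9493325439) (nat_lit 0) (nat_lit 1937003575) (nat_lit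 76) (nat_lit 1937003575) (nat_lit 92) (nat_lit 1) (nat_lit 90) (nat_lit 1) (nat_lit 91) (nat_lit 1) (nat_lit 293) (nat_lit 437) (nat_lit 290)) (XT.lf (nat_lit 0) (nat_lit 2549152268) (nat_lit 0) (nat_lit 8136135905) (nat_lit 152) (nat_lit 2549152268) (nat_lit 90) (nat_lit 3) (nat_lit 90) (nat_lit 1) (nat_lit 92) (nat_lit 1) (nat_lit 294) (nat_lit 437) (nat_lit 289))))))))
noncomputable def ec507 : XT := (XT.nd (nat_lit 1482) (nat_lit 1520) (nat_lit 0) (XT.nd (nat_lit 702) (nat_lit 760) (nat_lit 0) (XT.nd (nat_lit 312) (nat_lit 380) (nat_lit 0) (XT.nd (nat_lit 156) (nat_lit 76) (nat_lit 0) (XT.nd (nat_lit 78) (nat_lit 152) (nat_lit 0) (XT.lf (nat_lit 76) (nat_lit 751527913) (nat_lit 0) (nat_lit 6175783871) (nat_lit 76) (nat_lit 6175783871) (nat_lit 90) (nat_lit 3) (nat_lit 89) (nat_lit 1) (nat_lit 90) (nat_lit 1) (nat_lit 295) (nat_lit 437) (nat_lit 288)) (XT.lf (nat_lit 152) (nat_lit 9531339568) (nat_lit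 0) (nat_lit 1721002588) (nat_lit 76) (nat_lit 1721002588) (nat_lit 89) (nat_lit 1) (nat_lit 87) (nat_lit 1) (nat_lit 88) (nat_lit 1) (nat_lit 296) (nat_lit 437) (nat_lit 287))) (XT.nd (nat_lit 78) (nat_lit 76) (nat_lit 0) (XT.lf (nat_lit 0) (nat_lit 2626817114) (nat_lit 0) (nat_lit 7590779713) (nat_lit 152) (nat_lit 2626817114) (nat_lit 87) (nat_lit 3) (nat_lit 87) (nat_lit 1) (nat_lit 89) (nat_lit 1) (nat_lit 297) (nat_lit 437) (nat_lit 286)) (XT.lf (nat_lit 76) (nat_lit 1026102841) (nat_lit 0) (nat_lit 5845484004) (nat_lit 76) (nat_lit 5845484004) (nat_lit 87) (nat_lit 3) (nat_lit 86) (nat_lit 1) (nat_lit 87) (nat_lit 1) (nat_lit 298) (nat_lit 437) (nat_lit 285)))) (XT.nd (nat_lit 156) (nat_lit 228) (nat_lit 0) (XT.nd (nat_lit 78) (nat_lit 0) (nat_lit 0) (XT.lf (nat_lit 152) (nat_lit 9533173575) (nat_lit 0) (nat_lit 1529088509) (nat_lit 76) (nat_lit 1529088509) (nat_lit 86) (nat_lit 1) (nat_lit 84)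 (nat_lit 1) (nat_lit 85) (nat_lit 1) (nat_lit 299) (nat_lit 437) (nat_lit 284)) (XT.lf (nat_lit 0) (nat_lit 2685279722) (nat_lit 0) (nat_lit 7095696197) (nat_lit 152) (nat_lit 2685279722) (nat_lit 84) (nat_lit 3) (nat_lit 84) (nat_lit 1) (nat_lit 86) (nat_lit 1) (nat_lit 300) (nat_lit 437) (nat_lit 283))) (XT.nd (nat_lit 78) (nat_lit 152) (nat_lit 0) (XT.lf (nat_lit 76) (nat_lit 1259620855) (nat_lit 0) (nat_lit 5541578598) (nat_lit 76) (nat_lit 5541578598) (nat_lit 84) (nat_lit 3) (nat_lit 83) (nat_lit 1) (nat_lit 84) (nat_lit 1) (nat_lit 301) (nat_lit 437) (nat_lit 282)) (XT.nd (nat_lit 78) (nat_lit 0) (nat_lit 0) (XT.lf (nat_lit 152) (nat_lit 9503792334) (nat_lit 0) (nat_lit 1358575335) (nat_lit 76) (nat_lit 1358575335) (nat_lit 83) (nat_lit 1) (nat_lit 81) (nat_lit 1) (nat_lit 82) (nat_lit 1) (nat_lit 302) (nat_lit 437) (nat_lit 281)) (XT.lf (nat_lit 0) (nat_lit 2726988427) (nat_lit 0) (nat_lit 6645586341)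 (nat_lit 152) (nat_lit 2726988427) (nat_lit 81) (nat_lit 3) (nat_lit 81) (nat_lit 1) (nat_lit 83) (nat_lit 1) (nat_lit 303) (nat_lit 437) (nat_lit 280)))))) (XT.nd (nat_lit 390) (nat_lit 304) (nat_lit 0) (XT.nd (nat_lit 156) (nat_lit 228) (nat_lit 0) (XT.nd (nat_lit 78) (nat_lit 152) (nat_lit 0) (XT.lf (nat_lit 76) (nat_lit 1456964360) (nat_lit 0) (nat_lit 5261428354) (nat_lit 76) (nat_lit 5261428354) (nat_lit 81) (nat_lit 3) (nat_lit 80) (nat_lit 1) (nat_lit 81) (nat_lit 1) (nat_lit 304) (nat_lit 437) (nat_lit 279)) (XT.lf (nat_lit 152) (nat_lit 9447579974) (nat_lit 0) (nat_lit 1207076589) (nat_lit 76) (nat_lit 1207076589) (nat_lit 80) (nat_lit 1) (nat_lit 78) (nat_lit 1) (nat_lit 79) (nat_lit 1) (nat_lit 305) (nat_lit 437) (nat_lit 278))) (XT.nd (nat_lit 78) (nat_lit 228) (nat_lit 0) (XT.lf (nat_lit 0) (nat_lit 2754109600) (nat_lit 0) (nat_lit 6235733093) (nat_lit 152) (nat_lit 2754109600) (nat_lit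 78) (nat_lit 3) (nat_lit 78) (nat_lit 1) (nat_lit 80) (nat_lit 1) (nat_lit 306) (nat_lit 437) (nat_lit 277)) (XT.nd (nat_lit 78) (nat_lit 152) (nat_lit 0) (XT.lf (nat_lit 76) (nat_lit 1622462453) (nat_lit 0) (nat_lit 5002679436) (nat_lit 76) (nat_lit 5002679436) (nat_lit 78) (nat_lit 3) (nat_lit 77) (nat_lit 1) (nat_lit 78) (nat_lit 1) (nat_lit 307) (nat_lit 437) (nat_lit 276)) (XT.lf (nat_lit 152) (nat_lit 9368405431) (nat_lit 0) (nat_lit 1072471915) (nat_lit 76) (nat_lit 1072471915) (nat_lit 77) (nat_lit 1) (nat_lit 75) (nat_lit 1) (nat_lit 76) (nat_lit 1) (nat_lit 308) (nat_lit 437) (nat_lit 275))))) (XT.nd (nat_lit 156) (nat_lit 228) (nat_lit 0) (XT.nd (nat_lit 78) (nat_lit 76) (nat_lit 0) (XT.lf (nat_lit 0) (nat_lit 2768559352) (nat_lit 0) (nat_lit 5861936730) (nat_lit 152) (nat_lit 2768559352) (nat_lit 75) (nat_lit 3) (nat_lit 75) (nat_lit 1) (nat_lit 77) (nat_lit 1) (nat_lit 309) (nat_lit 437)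 (nat_lit 274)) (XT.lf (nat_lit 76) (nat_lit 1759952885) (nat_lit 0) (nat_lit 4763231893) (nat_lit 76) (nat_lit 4763231893) (nat_lit 75) (nat_lit 3) (nat_lit 74) (nat_lit 1) (nat_lit 75) (nat_lit 1) (nat_lit 310) (nat_lit 437) (nat_lit 273))) (XT.nd (nat_lit 78) (nat_lit 76) (nat_lit 0) (XT.lf (nat_lit 152) (nat_lit 9269680661) (nat_lit 0) (nat_lit 952877406) (nat_lit 76) (nat_lit 952877406) (nat_lit 74) (nat_lit 1) (nat_lit 72) (nat_lit 1) (nat_lit 73) (nat_lit 1) (nat_lit 311) (nat_lit 437) (nat_lit 272)) (XT.nd (nat_lit 78) (nat_lit 76) (nat_lit 0) (XT.lf (nat_lit 0) (nat_lit 2772031692) (nat_lit 0) (nat_lit 5520457427) (nat_lit 152) (nat_lit 2772031692) (nat_lit 72) (nat_lit 3) (nat_lit 72) (nat_lit 1) (nat_lit 74) (nat_lit 1) (nat_lit 312) (nat_lit 437) (nat_lit 271)) (XT.lf (nat_lit 76) (nat_lit 1872837100) (nat_lit 0) (nat_lit 4541211600) (nat_lit 76) (nat_lit 4541211600) (nat_lit 72) (nat_lit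 3) (nat_lit 71) (nat_lit 1) (nat_lit 72) (nat_lit 1) (nat_lit 313) (nat_lit 437) (nat_lit 270))))))) (XT.nd (nat_lit 702) (nat_lit 836) (nat_lit 0) (XT.nd (nat_lit 312) (nat_lit 304) (nat_lit 0) (XT.nd (nat_lit 156) (nat_lit 228) (nat_lit 0) (XT.nd (nat_lit 78) (nat_lit 0) (nat_lit 0) (XT.lf (nat_lit 152) (nat_lit 9154412348) (nat_lit 0) (nat_lit 846619233) (nat_lit 76) (nat_lit 846619233) (nat_lit 71) (nat_lit 1) (nat_lit 69) (nat_lit 1) (nat_lit 70) (nat_lit 1) (nat_lit 314) (nat_lit 437) (nat_lit 269)) (XT.lf (nat_lit 0) (nat_lit 2766023542) (nat_lit 0) (nat_lit 5207964210) (nat_lit 152) (nat_lit 2766023542) (nat_lit 69) (nat_lit 3) (nat_lit 69) (nat_lit 1) (nat_lit 71) (nat_lit 1) (nat_lit 315) (nat_lit 437) (nat_lit 268))) (XT.nd (nat_lit 78) (nat_lit 152) (nat_lit 0) (XT.lf (nat_lit 76) (nat_lit 1964129134) (nat_lit 0) (nat_lit 4334945317) (nat_lit 76) (nat_lit 4334945317) (nat_lit 69) (nat_lit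 3) (nat_lit 68) (nat_lit 1) (nat_lit 69) (nat_lit 1) (nat_lit 316) (nat_lit 437) (nat_lit 267)) (XT.lf (nat_lit 152) (nat_lit 9025247814) (nat_lit 0) (nat_lit 752210223) (nat_lit 76) (nat_lit 752210223) (nat_lit 68) (nat_lit 1) (nat_lit 66) (nat_lit 1) (nat_lit 67) (nat_lit 1) (nat_lit 317) (nat_lit 437) (nat_lit 266)))) (XT.nd (nat_lit 156) (nat_lit 228) (nat_lit 0) (XT.nd (nat_lit 78) (nat_lit 76) (nat_lit 0) (XT.lf (nat_lit 0) (nat_lit 2751856954) (nat_lit 0) (nat_lit 4921489609) (nat_lit 152) (nat_lit 2751856954) (nat_lit 66) (nat_lit 3) (nat_lit 66) (nat_lit 1) (nat_lit 68) (nat_lit 1) (nat_lit 318) (nat_lit 437) (nat_lit 265)) (XT.lf (nat_lit 76) (nat_lit 2036499052) (nat_lit 0) (nat_lit 4142938523) (nat_lit 76) (nat_lit 4142938523) (nat_lit 66) (nat_lit 3) (nat_lit 65) (nat_lit 1) (nat_lit 66) (nat_lit 1) (nat_lit 319) (nat_lit 437) (nat_lit 264))) (XT.nd (nat_lit 78) (nat_lit 76) (nat_lit 0)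 (XT.lf (nat_lit 152) (nat_lit 8884515799) (nat_lit 0) (nat_lit 668329040) (nat_lit 76) (nat_lit 668329040) (nat_lit 65) (nat_lit 1) (nat_lit 63) (nat_lit 1) (nat_lit 64) (nat_lit 1) (nat_lit 320) (nat_lit 437) (nat_lit 263)) (XT.nd (nat_lit 78) (nat_lit 76) (nat_lit 0) (XT.lf (nat_lit 0) (nat_lit 2730698836) (nat_lit 0) (nat_lit 4658389349) (nat_lit 152) (nat_lit 2730698836) (nat_lit 63) (nat_lit 3) (nat_lit 63) (nat_lit 1) (nat_lit 65) (nat_lit 1) (nat_lit 321) (nat_lit 437) (nat_lit 262)) (XT.lf (nat_lit 76) (nat_lit 2092311531) (nat_lit 0) (nat_lit 3963855718) (nat_lit 76) (nat_lit 3963855718) (nat_lit 63) (nat_lit 3) (nat_lit 62) (nat_lit 1) (nat_lit 63) (nat_lit 1) (nat_lit 322) (nat_lit 437) (nat_lit 261)))))) (XT.nd (nat_lit 390) (nat_lit 456) (nat_lit 0) (XT.nd (nat_lit 156) (nat_lit 228) (nat_lit 0) (XT.nd (nat_lit 78) (nat_lit 0) (nat_lit 0) (XT.lf (nat_lit 152) (nat_lit 8734262662) (nat_lit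 0) (nat_lit 593801696) (nat_lit 76) (nat_lit 593801696) (nat_lit 62) (nat_lit 1) (nat_lit 60) (nat_lit 1) (nat_lit 61) (nat_lit 1) (nat_lit 323) (nat_lit 437) (nat_lit 260)) (XT.lf (nat_lit 0) (nat_lit 2703578484) (nat_lit 0) (nat_lit 4416306537) (nat_lit 152) (nat_lit 2703578484) (nat_lit 60) (nat_lit 3) (nat_lit 60) (nat_lit 1) (nat_lit 62) (nat_lit 1) (nat_lit 324) (nat_lit 437) (nat_lit 259))) (XT.nd (nat_lit 78) (nat_lit 152) (nat_lit 0) (XT.lf (nat_lit 76) (nat_lit 2133660142) (nat_lit 0) (nat_lit 3796502913) (nat_lit 76) (nat_lit 3796502913) (nat_lit 60) (nat_lit 3) (nat_lit 59) (nat_lit 1) (nat_lit 60) (nat_lit 1) (nat_lit 325) (nat_lit 437) (nat_lit 258)) (XT.nd (nat_lit 78) (nat_lit 0) (nat_lit 0) (XT.lf (nat_lit 152) (nat_lit 8576284538) (nat_lit 0) (nat_lit 527585116) (nat_lit 76) (nat_lit 527585116) (nat_lit 59) (nat_lit 1) (nat_lit 57) (nat_lit 1) (nat_lit 58) (nat_lit 1) (nat_lit 326)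 (nat_lit 437) (nat_lit 257)) (XT.lf (nat_lit 0) (nat_lit 2671403142) (nat_lit 0) (nat_lit 4193139834) (nat_lit 152) (nat_lit 2671403142) (nat_lit 57) (nat_lit 3) (nat_lit 57) (nat_lit 1) (nat_lit 59) (nat_lit 1) (nat_lit 327) (nat_lit 437) (nat_lit 256))))) (XT.nd (nat_lit 156) (nat_lit 228) (nat_lit 0) (XT.nd (nat_lit 78) (nat_lit 152) (nat_lit 0) (XT.lf (nat_lit 76) (nat_lit 2162397796) (nat_lit 0) (nat_lit 3639812060) (nat_lit 76) (nat_lit 3639812060) (nat_lit 57) (nat_lit 3) (nat_lit 56) (nat_lit 1) (nat_lit 57) (nat_lit 1) (nat_lit 328) (nat_lit 437) (nat_lit 255)) (XT.lf (nat_lit 152) (nat_lit 8412155876) (nat_lit 0) (nat_lit 468752542) (nat_lit 76) (nat_lit 468752542) (nat_lit 56) (nat_lit 1) (nat_lit 54) (nat_lit 1) (nat_lit 55) (nat_lit 1) (nat_lit 329) (nat_lit 437) (nat_lit 254))) (XT.nd (nat_lit 78) (nat_lit 228) (nat_lit 0) (XT.lf (nat_lit 0) (nat_lit 2634971826) (nat_lit 0) (nat_lit 3987015167)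 (nat_lit 152) (nat_lit 2634971826) (nat_lit 54) (nat_lit 3) (nat_lit 54) (nat_lit 1) (nat_lit 56) (nat_lit 1) (nat_lit 330) (nat_lit 437) (nat_lit 253)) (XT.nd (nat_lit 78) (nat_lit 152) (nat_lit 0) (XT.lf (nat_lit 76) (nat_lit 2180163789) (nat_lit 0) (nat_lit 3492827227) (nat_lit 76) (nat_lit 3492827227) (nat_lit 54) (nat_lit 3) (nat_lit 53) (nat_lit 1) (nat_lit 54) (nat_lit 1) (nat_lit 331) (nat_lit 437) (nat_lit 252)) (XT.lf (nat_lit 152) (nat_lit 8243254788) (nat_lit 0) (nat_lit 416480562) (nat_lit 76) (nat_lit 416480562) (nat_lit 53) (nat_lit 1) (nat_lit 51) (nat_lit 1) (nat_lit 52) (nat_lit 1) (nat_lit 332) (nat_lit 437) (nat_lit 251))))))))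
noncomputable def ec508 : XT := (XT.nd (nat_lit 47034) (nat_lit 0) (nat_lit 5244) (XT.nd (nat_lit 702) (nat_lit 228) (nat_lit 0) (XT.nd (nat_lit 312) (nat_lit 456) (nat_lit 0) (XT.nd (nat_lit 156) (nat_lit 152) (nat_lit 0) (XT.nd (nat_lit 78) (nat_lit 76) (nat_lit 0) (XT.lf (nat_lit 0) (nat_lit 2594987596) (nat_lit 0) (nat_lit 3796260592) (nat_lit 152) (nat_lit 2594987596) (nat_lit 51) (nat_lit 3) (nat_lit 51) (nat_lit 1) (nat_lit 53) (nat_lit 1) (nat_lit 333) (nat_lit 437) (nat_lit 250)) (XT.lf (nat_lit 76) (nat_lit 2188407827) (nat_lit 0) (nat_lit 3354692290) (nat_lit 76) (nat_lit 3354692290) (nat_lit 51) (nat_lit 3) (nat_lit 50) (nat_lit 1) (nat_lit 51) (nat_lit 1) (nat_lit 334) (nat_lit 437) (nat_lit 249))) (XT.nd (nat_lit 78) (nat_lit 0) (nat_lit 0) (XT.lf (nat_lit 152) (nat_lit 8070785547) (nat_lit 0) (nat_lit 370037585) (nat_lit 76) (nat_lit 370037585) (nat_lit 50) (nat_lit 1) (nat_lit 48) (nat_lit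 1) (nat_lit 49) (nat_lit 1) (nat_lit 335) (nat_lit 437) (nat_lit 248)) (XT.lf (nat_lit 0) (nat_lit 2552068457) (nat_lit 0) (nat_lit 3619383956) (nat_lit 152) (nat_lit 2552068457) (nat_lit 48) (nat_lit 3) (nat_lit 48) (nat_lit 1) (nat_lit 50) (nat_lit 1) (nat_lit 336) (nat_lit 437) (nat_lit 247)))) (XT.nd (nat_lit 156) (nat_lit 228) (nat_lit 0) (XT.nd (nat_lit 78) (nat_lit 152) (nat_lit 0) (XT.lf (nat_lit 76) (nat_lit 2188411368) (nat_lit 0) (nat_lit 3224640007) (nat_lit 76) (nat_lit 3224640007) (nat_lit 48) (nat_lit 3) (nat_lit 47) (nat_lit 1) (nat_lit 48) (nat_lit 1) (nat_lit 337) (nat_lit 437) (nat_lit 246)) (XT.lf (nat_lit 152) (nat_lit 7895798555) (nat_lit 0) (nat_lit 328773602) (nat_lit 76) (nat_lit 328773602) (nat_lit 47) (nat_lit 1) (nat_lit 45) (nat_lit 1) (nat_lit 46) (nat_lit 1) (nat_lit 338) (nat_lit 437) (nat_lit 245))) (XT.nd (nat_lit 78) (nat_lit 228) (nat_lit 0) (XT.lf (nat_lit 0) (nat_lit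 2506757040) (nat_lit 0) (nat_lit 3455053037) (nat_lit 152) (nat_lit 2506757040) (nat_lit 45) (nat_lit 3) (nat_lit 45) (nat_lit 1) (nat_lit 47) (nat_lit 1) (nat_lit 339) (nat_lit 437) (nat_lit 244)) (XT.nd (nat_lit 78) (nat_lit 152) (nat_lit 0) (XT.lf (nat_lit 76) (nat_lit 2181306571) (nat_lit 0) (nat_lit 3101982296) (nat_lit 76) (nat_lit 3101982296) (nat_lit 45) (nat_lit 3) (nat_lit 44) (nat_lit 1) (nat_lit 45) (nat_lit 1) (nat_lit 340) (nat_lit 437) (nat_lit 243)) (XT.lf (nat_lit 152) (nat_lit 7719208080) (nat_lit 0) (nat_lit 292111087) (nat_lit 76) (nat_lit 292111087) (nat_lit 44) (nat_lit 1) (nat_lit 42) (nat_lit 1) (nat_lit 43) (nat_lit 1) (nat_lit 341) (nat_lit 437) (nat_lit 242)))))) (XT.nd (nat_lit 45942) (nat_lit 0) (nat_lit 6916) (XT.nd (nat_lit 156) (nat_lit 152) (nat_lit 0) (XT.nd (nat_lit 78) (nat_lit 76) (nat_lit 0) (XT.lf (nat_lit 0) (nat_lit 2459529192) (nat_lit 0) (nat_lit 3302077903)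 (nat_lit 152) (nat_lit 2459529192) (nat_lit 42) (nat_lit 3) (nat_lit 42) (nat_lit 1) (nat_lit 44) (nat_lit 1) (nat_lit 342) (nat_lit 437) (nat_lit 241)) (XT.lf (nat_lit 76) (nat_lit 2168093136) (nat_lit 0) (nat_lit 2986101593) (nat_lit 76) (nat_lit 2986101593) (nat_lit 42) (nat_lit 3) (nat_lit 41) (nat_lit 1) (nat_lit 42) (nat_lit 1) (nat_lit 343) (nat_lit 437) (nat_lit 240))) (XT.nd (nat_lit 78) (nat_lit 0) (nat_lit 0) (XT.lf (nat_lit 152) (nat_lit 7541807982) (nat_lit 0) (nat_lit 259536917) (nat_lit 76) (nat_lit 259536917) (nat_lit 41) (nat_lit 1) (nat_lit 39) (nat_lit 1) (nat_lit 40) (nat_lit 1) (nat_lit 344) (nat_lit 437) (nat_lit 239)) (XT.nd (nat_lit 45630) (nat_lit 0) (nat_lit 7448) (XT.lf (nat_lit 0) (nat_lit 2410801608) (nat_lit 0) (nat_lit 3159395225) (nat_lit 152) (nat_lit 2410801608) (nat_lit 39) (nat_lit 3) (nat_lit 39) (nat_lit 1) (nat_lit 41) (nat_lit 1) (nat_lit 345) (nat_lit 437) (nat_lit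 238)) (XT.lf (nat_lit 152) (nat_lit 154859561) (nat_lit 0) (nat_lit 10443648117) (nat_lit 76) (nat_lit 10443648117) (nat_lit 139) (nat_lit 1) (nat_lit 137) (nat_lit 1) (nat_lit 138) (nat_lit 1) (nat_lit 249) (nat_lit 438) (nat_lit 333))))) (XT.nd (nat_lit 156) (nat_lit 304) (nat_lit 0) (XT.nd (nat_lit 78) (nat_lit 0) (nat_lit 0) (XT.lf (nat_lit 228) (nat_lit 14693252692) (nat_lit 0) (nat_lit 3067025001) (nat_lit 152) (nat_lit 3067025001) (nat_lit 137) (nat_lit 1) (nat_lit 134) (nat_lit 1) (nat_lit 136) (nat_lit 1) (nat_lit 250) (nat_lit 438) (nat_lit 332)) (XT.lf (nat_lit 76) (nat_lit 4118166376) (nat_lit 0) (nat_lit 12378094125) (nat_lit 228) (nat_lit 4118166376) (nat_lit 135) (nat_lit 1) (nat_lit 134) (nat_lit 1) (nat_lit 137) (nat_lit 1) (nat_lit 251) (nat_lit 438) (nat_lit 331))) (XT.nd (nat_lit 78) (nat_lit 228) (nat_lit 0) (XT.lf (nat_lit 152) (nat_lit 1846124579) (nat_lit 0) (nat_lit 9279046085)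 (nat_lit 76) (nat_lit 9279046085) (nat_lit 135) (nat_lit 1) (nat_lit 133) (nat_lit 1) (nat_lit 134) (nat_lit 1) (nat_lit 252) (nat_lit 438) (nat_lit 330)) (XT.nd (nat_lit 78) (nat_lit 0) (nat_lit 0) (XT.lf (nat_lit 228) (nat_lit 15863724917) (nat_lit 0) (nat_lit 2166667589) (nat_lit 152) (nat_lit 2166667589) (nat_lit 133) (nat_lit 1) (nat_lit 130) (nat_lit 1) (nat_lit 132) (nat_lit 1) (nat_lit 253) (nat_lit 438) (nat_lit 329)) (XT.lf (nat_lit 76) (nat_lit 4770259140) (nat_lit 0) (nat_lit 10450327218) (nat_lit 228) (nat_lit 4770259140) (nat_lit 131) (nat_lit 1) (nat_lit 130) (nat_lit 1) (nat_lit 133) (nat_lit 1) (nat_lit 254) (nat_lit 438) (nat_lit 328))))))) (XT.nd (nat_lit 702) (nat_lit 760) (nat_lit 0) (XT.nd (nat_lit 312) (nat_lit 532) (nat_lit 0) (XT.nd (nat_lit 156) (nat_lit 76) (nat_lit 0) (XT.nd (nat_lit 78) (nat_lit 228) (nat_lit 0) (XT.lf (nat_lit 152) (nat_lit 3299028521) (nat_lit 0) (nat_lit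 8244312263) (nat_lit 76) (nat_lit 8244312263) (nat_lit 131) (nat_lit 1) (nat_lit 129) (nat_lit 1) (nat_lit 130) (nat_lit 1) (nat_lit 255) (nat_lit 438) (nat_lit 327)) (XT.lf (nat_lit 228) (nat_lit 16821859953) (nat_lit 0) (nat_lit 1382974147) (nat_lit 152) (nat_lit 1382974147) (nat_lit 129) (nat_lit 1) (nat_lit 126) (nat_lit 1) (nat_lit 128) (nat_lit 1) (nat_lit 256) (nat_lit 438) (nat_lit 326))) (XT.nd (nat_lit 78) (nat_lit 76) (nat_lit 0) (XT.lf (nat_lit 76) (nat_lit 5317266522) (nat_lit 0) (nat_lit 8753476409) (nat_lit 228) (nat_lit 5317266522) (nat_lit 127) (nat_lit 1) (nat_lit 126) (nat_lit 1) (nat_lit 129) (nat_lit 1) (nat_lit 257) (nat_lit 438) (nat_lit 325)) (XT.lf (nat_lit 152) (nat_lit 4541601143) (nat_lit 0) (nat_lit 7324964665) (nat_lit 76) (nat_lit 7324964665) (nat_lit 127) (nat_lit 1) (nat_lit 125) (nat_lit 1) (nat_lit 126) (nat_lit 1) (nat_lit 258) (nat_lit 438) (nat_lit 324)))) (XT.nd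 (nat_lit 156) (nat_lit 304) (nat_lit 0) (XT.nd (nat_lit 78) (nat_lit 0) (nat_lit 0) (XT.lf (nat_lit 228) (nat_lit 17593719091) (nat_lit 0) (nat_lit 702461470) (nat_lit 152) (nat_lit 702461470) (nat_lit 125) (nat_lit 1) (nat_lit 122) (nat_lit 1) (nat_lit 124) (nat_lit 1) (nat_lit 259) (nat_lit 438) (nat_lit 323)) (XT.lf (nat_lit 76) (nat_lit 5771849679) (nat_lit 0) (nat_lit 7261327140) (nat_lit 228) (nat_lit 5771849679) (nat_lit 123) (nat_lit 1) (nat_lit 122) (nat_lit 1) (nat_lit 125) (nat_lit 1) (nat_lit 260) (nat_lit 438) (nat_lit 322))) (XT.nd (nat_lit 78) (nat_lit 228) (nat_lit 0) (XT.lf (nat_lit 152) (nat_lit 5598704309) (nat_lit 0) (nat_lit 6508136231) (nat_lit 76) (nat_lit 6508136231) (nat_lit 123) (nat_lit 1) (nat_lit 121) (nat_lit 1) (nat_lit 122) (nat_lit 1) (nat_lit 261) (nat_lit 438) (nat_lit 321)) (XT.nd (nat_lit 78) (nat_lit 0) (nat_lit 0) (XT.lf (nat_lit 228) (nat_lit 18202388043) (nat_lit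 0) (nat_lit 113163696) (nat_lit 152) (nat_lit 113163696) (nat_lit 121) (nat_lit 1) (nat_lit 118) (nat_lit 1) (nat_lit 120) (nat_lit 1) (nat_lit 262) (nat_lit 438) (nat_lit 320)) (XT.lf (nat_lit 76) (nat_lit 6145230423) (nat_lit 0) (nat_lit 5950601646) (nat_lit 228) (nat_lit 6145230423) (nat_lit 119) (nat_lit 1) (nat_lit 118) (nat_lit 1) (nat_lit 121) (nat_lit 1) (nat_lit 263) (nat_lit 438) (nat_lit 319)))))) (XT.nd (nat_lit 390) (nat_lit 456) (nat_lit 0) (XT.nd (nat_lit 156) (nat_lit 228) (nat_lit 0) (XT.nd (nat_lit 78) (nat_lit 0) (nat_lit 0) (XT.lf (nat_lit 152) (nat_lit 6492386474) (nat_lit 0) (nat_lit 5782394747) (nat_lit 76) (nat_lit 5782394747) (nat_lit 119) (nat_lit 1) (nat_lit 117) (nat_lit 1) (nat_lit 118) (nat_lit 1) (nat_lit 264) (nat_lit 438) (nat_lit 318)) (XT.lf (nat_lit 0) (nat_lit 399453499) (nat_lit 0) (nat_lit 17077866101) (nat_lit 152) (nat_lit 399453499) (nat_lit 117) (nat_lit 3)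 (nat_lit 117) (nat_lit 1) (nat_lit 119) (nat_lit 1) (nat_lit 265) (nat_lit 438) (nat_lit 317))) (XT.nd (nat_lit 78) (nat_lit 76) (nat_lit 0) (XT.lf (nat_lit 76) (nat_lit 6447352532) (nat_lit 0) (nat_lit 4800631064) (nat_lit 152) (nat_lit 6447352532) (nat_lit 116) (nat_lit 1) (nat_lit 115) (nat_lit 1) (nat_lit 117) (nat_lit 1) (nat_lit 266) (nat_lit 438) (nat_lit 316)) (XT.nd (nat_lit 78) (nat_lit 0) (nat_lit 0) (XT.lf (nat_lit 152) (nat_lit 7242197613) (nat_lit 0) (nat_lit 5137582839) (nat_lit 76) (nat_lit 5137582839) (nat_lit 116) (nat_lit 1) (nat_lit 114) (nat_lit 1) (nat_lit 115) (nat_lit 1) (nat_lit 267) (nat_lit 438) (nat_lit 315)) (XT.lf (nat_lit 0) (nat_lit 841310686) (nat_lit 0) (nat_lit 15659864262) (nat_lit 152) (nat_lit 841310686) (nat_lit 114) (nat_lit 3) (nat_lit 114) (nat_lit 1) (nat_lit 116) (nat_lit 1) (nat_lit 268) (nat_lit 438) (nat_lit 314))))) (XT.nd (nat_lit 156) (nat_lit 228) (nat_lit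 0) (XT.nd (nat_lit 78) (nat_lit 76) (nat_lit 0) (XT.lf (nat_lit 76) (nat_lit 6687025038) (nat_lit 0) (nat_lit 3793064128) (nat_lit 152) (nat_lit 6687025038) (nat_lit 113) (nat_lit 1) (nat_lit 112) (nat_lit 1) (nat_lit 114) (nat_lit 1) (nat_lit 269) (nat_lit 438) (nat_lit 313)) (XT.lf (nat_lit 152) (nat_lit 7865468992) (nat_lit 0) (nat_lit 4564675810) (nat_lit 76) (nat_lit 4564675810) (nat_lit 113) (nat_lit 1) (nat_lit 111) (nat_lit 1) (nat_lit 112) (nat_lit 1) (nat_lit 270) (nat_lit 438) (nat_lit 312))) (XT.nd (nat_lit 78) (nat_lit 228) (nat_lit 0) (XT.lf (nat_lit 0) (nat_lit 1219728042) (nat_lit 0) (nat_lit 14385820963) (nat_lit 152) (nat_lit 1219728042) (nat_lit 111) (nat_lit 3) (nat_lit 111) (nat_lit 1) (nat_lit 113) (nat_lit 1) (nat_lit 271) (nat_lit 438) (nat_lit 311)) (XT.nd (nat_lit 78) (nat_lit 76) (nat_lit 0) (XT.lf (nat_lit 76) (nat_lit 6872049524) (nat_lit 0) (nat_lit 2911608355) (nat_lit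 152) (nat_lit 6872049524) (nat_lit 110) (nat_lit 1) (nat_lit 109) (nat_lit 1) (nat_lit 111) (nat_lit 1) (nat_lit 272) (nat_lit 438) (nat_lit 310)) (XT.lf (nat_lit 152) (nat_lit 8377561708) (nat_lit 0) (nat_lit 4055655335) (nat_lit 76) (nat_lit 4055655335) (nat_lit 110) (nat_lit 1) (nat_lit 108) (nat_lit 1) (nat_lit 109) (nat_lit 1) (nat_lit 273) (nat_lit 438) (nat_lit 309))))))))
noncomputable def ec509 : XT := (XT.nd (nat_lit 1482) (nat_lit 1444) (nat_lit 0) (XT.nd (nat_lit 702) (nat_lit 684) (nat_lit 0) (XT.nd (nat_lit 312) (nat_lit 456) (nat_lit 0) (XT.nd (nat_lit 156) (nat_lit 76) (nat_lit 0) (XT.nd (nat_lit 78) (nat_lit 152) (nat_lit 0) (XT.lf (nat_lit 0) (nat_lit 1542192562) (nat_lit 0) (nat_lit 13240095594) (nat_lit 152) (nat_lit 1542192562) (nat_lit 108) (nat_lit 3) (nat_lit 108) (nat_lit 1) (nat_lit 110) (nat_lit 1) (nat_lit 274) (nat_lit 438) (nat_lit 308)) (XT.lf (nat_lit 76) (nat_lit 7009333197)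 (nat_lit 0) (nat_lit 2141800104) (nat_lit 152) (nat_lit 7009333197) (nat_lit 107) (nat_lit 1) (nat_lit 106) (nat_lit 1) (nat_lit 108) (nat_lit 1) (nat_lit 275) (nat_lit 438) (nat_lit 307))) (XT.nd (nat_lit 78) (nat_lit 0) (nat_lit 0) (XT.lf (nat_lit 152) (nat_lit 8792087481) (nat_lit 0) (nat_lit 3603397236) (nat_lit 76) (nat_lit 3603397236) (nat_lit 107) (nat_lit 1) (nat_lit 105) (nat_lit 1) (nat_lit 106) (nat_lit 1) (nat_lit 276) (nat_lit 438) (nat_lit 306)) (XT.lf (nat_lit 0) (nat_lit 1815344325) (nat_lit 0) (nat_lit 12208779656) (nat_lit 152) (nat_lit 1815344325) (nat_lit 105) (nat_lit 3) (nat_lit 105) (nat_lit 1) (nat_lit 107) (nat_lit 1) (nat_lit 277) (nat_lit 438) (nat_lit 305)))) (XT.nd (nat_lit 156) (nat_lit 228) (nat_lit 0) (XT.nd (nat_lit 78) (nat_lit 76) (nat_lit 0) (XT.lf (nat_lit 76) (nat_lit 7104989335) (nat_lit 0) (nat_lit 1470800285) (nat_lit 152) (nat_lit 7104989335) (nat_lit 104) (nat_lit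 1) (nat_lit 103) (nat_lit 1) (nat_lit 105) (nat_lit 1) (nat_lit 278) (nat_lit 438) (nat_lit 304)) (XT.lf (nat_lit 152) (nat_lit 9121104793) (nat_lit 0) (nat_lit 3201571773) (nat_lit 76) (nat_lit 3201571773) (nat_lit 104) (nat_lit 1) (nat_lit 102) (nat_lit 1) (nat_lit 103) (nat_lit 1) (nat_lit 279) (nat_lit 438) (nat_lit 303))) (XT.nd (nat_lit 78) (nat_lit 228) (nat_lit 0) (XT.lf (nat_lit 0) (nat_lit 2045071287) (nat_lit 0) (nat_lit 11279503963) (nat_lit 152) (nat_lit 2045071287) (nat_lit 102) (nat_lit 3) (nat_lit 102) (nat_lit 1) (nat_lit 104) (nat_lit 1) (nat_lit 280) (nat_lit 438) (nat_lit 302)) (XT.nd (nat_lit 78) (nat_lit 76) (nat_lit 0) (XT.lf (nat_lit 76) (nat_lit 7164426510) (nat_lit 0) (nat_lit 887212860) (nat_lit 152) (nat_lit 7164426510) (nat_lit 101) (nat_lit 1) (nat_lit 100) (nat_lit 1) (nat_lit 102) (nat_lit 1) (nat_lit 281) (nat_lit 438) (nat_lit 301)) (XT.lf (nat_lit 152) (nat_lit 9375293124)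 (nat_lit 0) (nat_lit 2844555053) (nat_lit 76) (nat_lit 2844555053) (nat_lit 101) (nat_lit 1) (nat_lit 99) (nat_lit 1) (nat_lit 100) (nat_lit 1) (nat_lit 282) (nat_lit 438) (nat_lit 300)))))) (XT.nd (nat_lit 390) (nat_lit 380) (nat_lit 0) (XT.nd (nat_lit 156) (nat_lit 152) (nat_lit 0) (XT.nd (nat_lit 78) (nat_lit 152) (nat_lit 0) (XT.lf (nat_lit 0) (nat_lit 2236593493) (nat_lit 0) (nat_lit 10441267320) (nat_lit 152) (nat_lit 2236593493) (nat_lit 99) (nat_lit 3) (nat_lit 99) (nat_lit 1) (nat_lit 101) (nat_lit 1) (nat_lit 283) (nat_lit 438) (nat_lit 299)) (XT.lf (nat_lit 76) (nat_lit 7192427839) (nat_lit 0) (nat_lit 380923598) (nat_lit 152) (nat_lit 7192427839) (nat_lit 98) (nat_lit 1) (nat_lit 97) (nat_lit 1) (nat_lit 99) (nat_lit 1) (nat_lit 284) (nat_lit 438) (nat_lit 298))) (XT.nd (nat_lit 78) (nat_lit 76) (nat_lit 0) (XT.lf (nat_lit 152) (nat_lit 9564107727) (nat_lit 0) (nat_lit 2527350321) (nat_lit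 76) (nat_lit 2527350321) (nat_lit 98) (nat_lit 1) (nat_lit 96) (nat_lit 1) (nat_lit 97) (nat_lit 1) (nat_lit 285) (nat_lit 438) (nat_lit 297)) (XT.nd (nat_lit 78) (nat_lit 76) (nat_lit 0) (XT.lf (nat_lit 0) (nat_lit 2394537887) (nat_lit 0) (nat_lit 9684284315) (nat_lit 152) (nat_lit 2394537887) (nat_lit 96) (nat_lit 3) (nat_lit 96) (nat_lit 1) (nat_lit 98) (nat_lit 1) (nat_lit 286) (nat_lit 438) (nat_lit 296)) (XT.lf (nat_lit 76) (nat_lit 58178458) (nat_lit 0) (nat_lit 7135602174) (nat_lit 76) (nat_lit 7135602174) (nat_lit 96) (nat_lit 3) (nat_lit 95) (nat_lit 1) (nat_lit 96) (nat_lit 1) (nat_lit 287) (nat_lit 438) (nat_lit 295))))) (XT.nd (nat_lit 156) (nat_lit 228) (nat_lit 0) (XT.nd (nat_lit 78) (nat_lit 0) (nat_lit 0) (XT.lf (nat_lit 152) (nat_lit 9695917118) (nat_lit 0) (nat_lit 2245518026) (nat_lit 76) (nat_lit 2245518026) (nat_lit 95) (nat_lit 1) (nat_lit 93) (nat_lit 1) (nat_lit 94) (nat_lit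 1) (nat_lit 288) (nat_lit 438) (nat_lit 294)) (XT.lf (nat_lit 0) (nat_lit 2523004769) (nat_lit 0) (nat_lit 8999850052) (nat_lit 152) (nat_lit 2523004769) (nat_lit 93) (nat_lit 3) (nat_lit 93) (nat_lit 1) (nat_lit 95) (nat_lit 1) (nat_lit 289) (nat_lit 438) (nat_lit 293))) (XT.nd (nat_lit 78) (nat_lit 152) (nat_lit 0) (XT.lf (nat_lit 76) (nat_lit 443302335) (nat_lit 0) (nat_lit 6731501639) (nat_lit 76) (nat_lit 6731501639) (nat_lit 93) (nat_lit 3) (nat_lit 92) (nat_lit 1) (nat_lit 93) (nat_lit 1) (nat_lit 290) (nat_lit 438) (nat_lit 292)) (XT.nd (nat_lit 78) (nat_lit 0) (nat_lit 0) (XT.lf (nat_lit 152) (nat_lit 9778125202) (nat_lit 0) (nat_lit 1995113682) (nat_lit 76) (nat_lit 1995113682) (nat_lit 92) (nat_lit 1) (nat_lit 90) (nat_lit 1) (nat_lit 91) (nat_lit 1) (nat_lit 291) (nat_lit 438) (nat_lit 291)) (XT.lf (nat_lit 0) (nat_lit 2625626836) (nat_lit 0) (nat_lit 8380219982) (nat_lit 152) (nat_lit 2625626836)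 (nat_lit 90) (nat_lit 3) (nat_lit 90) (nat_lit 1) (nat_lit 92) (nat_lit 1) (nat_lit 292) (nat_lit 438) (nat_lit 290))))))) (XT.nd (nat_lit 702) (nat_lit 760) (nat_lit 0) (XT.nd (nat_lit 312) (nat_lit 380) (nat_lit 0) (XT.nd (nat_lit 156) (nat_lit 76) (nat_lit 0) (XT.nd (nat_lit 78) (nat_lit 152) (nat_lit 0) (XT.lf (nat_lit 76) (nat_lit 774073750) (nat_lit 0) (nat_lit 6361057387) (nat_lit 76) (nat_lit 6361057387) (nat_lit 90) (nat_lit 3) (nat_lit 89) (nat_lit 1) (nat_lit 90) (nat_lit 1) (nat_lit 293) (nat_lit 438) (nat_lit 289)) (XT.lf (nat_lit 152) (nat_lit 9817279755) (nat_lit 0) (nat_lit 1772632666) (nat_lit 76) (nat_lit 1772632666) (nat_lit 89) (nat_lit 1) (nat_lit 87) (nat_lit 1) (nat_lit 88) (nat_lit 1) (nat_lit 294) (nat_lit 438) (nat_lit 288))) (XT.nd (nat_lit 78) (nat_lit 76) (nat_lit 0) (XT.lf (nat_lit 0) (nat_lit 2705621628) (nat_lit 0) (nat_lit 7818503104) (nat_lit 152) (nat_lit 2705621628)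 (nat_lit 87) (nat_lit 3) (nat_lit 87) (nat_lit 1) (nat_lit 89) (nat_lit 1) (nat_lit 295) (nat_lit 438) (nat_lit 287)) (XT.lf (nat_lit 76) (nat_lit 1056885926) (nat_lit 0) (nat_lit 6020848524) (nat_lit 76) (nat_lit 6020848524) (nat_lit 87) (nat_lit 3) (nat_lit 86) (nat_lit 1) (nat_lit 87) (nat_lit 1) (nat_lit 296) (nat_lit 438) (nat_lit 286)))) (XT.nd (nat_lit 156) (nat_lit 228) (nat_lit 0) (XT.nd (nat_lit 78) (nat_lit 0) (nat_lit 0) (XT.lf (nat_lit 152) (nat_lit 9819168782) (nat_lit 0) (nat_lit 1574961164) (nat_lit 76) (nat_lit 1574961164) (nat_lit 86) (nat_lit 1) (nat_lit 84) (nat_lit 1) (nat_lit 85) (nat_lit 1) (nat_lit 297) (nat_lit 438) (nat_lit 285)) (XT.lf (nat_lit 0) (nat_lit 2765838114) (nat_lit 0) (nat_lit 7308567083) (nat_lit 152) (nat_lit 2765838114) (nat_lit 84) (nat_lit 3) (nat_lit 84) (nat_lit 1) (nat_lit 86) (nat_lit 1) (nat_lit 298) (nat_lit 438) (nat_lit 284))) (XT.nd (nat_lit 78) (nat_lit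 152) (nat_lit 0) (XT.lf (nat_lit 76) (nat_lit 1297409481) (nat_lit 0) (nat_lit 5707825956) (nat_lit 76) (nat_lit 5707825956) (nat_lit 84) (nat_lit 3) (nat_lit 83) (nat_lit 1) (nat_lit 84) (nat_lit 1) (nat_lit 299) (nat_lit 438) (nat_lit 283)) (XT.nd (nat_lit 78) (nat_lit 0) (nat_lit 0) (XT.lf (nat_lit 152) (nat_lit 9788906104) (nat_lit 0) (nat_lit 1399332595) (nat_lit 76) (nat_lit 1399332595) (nat_lit 83) (nat_lit 1) (nat_lit 81) (nat_lit 1) (nat_lit 82) (nat_lit 1) (nat_lit 300) (nat_lit 438) (nat_lit 282)) (XT.lf (nat_lit 0) (nat_lit 2808798080) (nat_lit 0) (nat_lit 6844953931) (nat_lit 152) (nat_lit 2808798080) (nat_lit 81) (nat_lit 3) (nat_lit 81) (nat_lit 1) (nat_lit 83) (nat_lit 1) (nat_lit 301) (nat_lit 438) (nat_lit 281)))))) (XT.nd (nat_lit 390) (nat_lit 304) (nat_lit 0) (XT.nd (nat_lit 156) (nat_lit 228) (nat_lit 0) (XT.nd (nat_lit 78) (nat_lit 152) (nat_lit 0) (XT.lf (nat_lit 76) (nat_lit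 1500673290) (nat_lit 0) (nat_lit 5419271204) (nat_lit 76) (nat_lit 5419271204) (nat_lit 81) (nat_lit 3) (nat_lit 80) (nat_lit 1) (nat_lit 81) (nat_lit 1) (nat_lit 302) (nat_lit 438) (nat_lit 280)) (XT.lf (nat_lit 152) (nat_lit 9731007373) (nat_lit 0) (nat_lit 1243288886) (nat_lit 76) (nat_lit 1243288886) (nat_lit 80) (nat_lit 1) (nat_lit 78) (nat_lit 1) (nat_lit 79) (nat_lit 1) (nat_lit 303) (nat_lit 438) (nat_lit 279))) (XT.nd (nat_lit 78) (nat_lit 228) (nat_lit 0) (XT.lf (nat_lit 0) (nat_lit 2836732888) (nat_lit 0) (nat_lit 6422805085) (nat_lit 152) (nat_lit 2836732888) (nat_lit 78) (nat_lit 3) (nat_lit 78) (nat_lit 1) (nat_lit 80) (nat_lit 1) (nat_lit 304) (nat_lit 438) (nat_lit 278)) (XT.nd (nat_lit 78) (nat_lit 152) (nat_lit 0) (XT.lf (nat_lit 76) (nat_lit 1671136326) (nat_lit 0) (nat_lit 5152759819) (nat_lit 76) (nat_lit 5152759819) (nat_lit 78) (nat_lit 3) (nat_lit 77) (nat_lit 1) (nat_lit 78)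 (nat_lit 1) (nat_lit 305) (nat_lit 438) (nat_lit 277)) (XT.lf (nat_lit 152) (nat_lit 9649457594) (nat_lit 0) (nat_lit 1104646072) (nat_lit 76) (nat_lit 1104646072) (nat_lit 77) (nat_lit 1) (nat_lit 75) (nat_lit 1) (nat_lit 76) (nat_lit 1) (nat_lit 306) (nat_lit 438) (nat_lit 276))))) (XT.nd (nat_lit 156) (nat_lit 228) (nat_lit 0) (XT.nd (nat_lit 78) (nat_lit 76) (nat_lit 0) (XT.lf (nat_lit 0) (nat_lit 2851616132) (nat_lit 0) (nat_lit 6037794832) (nat_lit 152) (nat_lit 2851616132) (nat_lit 75) (nat_lit 3) (nat_lit 75) (nat_lit 1) (nat_lit 77) (nat_lit 1) (nat_lit 307) (nat_lit 438) (nat_lit 275)) (XT.lf (nat_lit 76) (nat_lit 1812751471) (nat_lit 0) (nat_lit 4906128850) (nat_lit 76) (nat_lit 4906128850) (nat_lit 75) (nat_lit 3) (nat_lit 74) (nat_lit 1) (nat_lit 75) (nat_lit 1) (nat_lit 308) (nat_lit 438) (nat_lit 274))) (XT.nd (nat_lit 78) (nat_lit 76) (nat_lit 0) (XT.lf (nat_lit 152) (nat_lit 9547771081)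 (nat_lit 0) (nat_lit 981463728) (nat_lit 76) (nat_lit 981463728) (nat_lit 74) (nat_lit 1) (nat_lit 72) (nat_lit 1) (nat_lit 73) (nat_lit 1) (nat_lit 309) (nat_lit 438) (nat_lit 273)) (XT.nd (nat_lit 78) (nat_lit 76) (nat_lit 0) (XT.lf (nat_lit 0) (nat_lit 2855192643) (nat_lit 0) (nat_lit 5686071150) (nat_lit 152) (nat_lit 2855192643) (nat_lit 72) (nat_lit 3) (nat_lit 72) (nat_lit 1) (nat_lit 74) (nat_lit 1) (nat_lit 310) (nat_lit 438) (nat_lit 272)) (XT.lf (nat_lit 76) (nat_lit 1929022213) (nat_lit 0) (nat_lit 4677447948) (nat_lit 76) (nat_lit 4677447948) (nat_lit 72) (nat_lit 3) (nat_lit 71) (nat_lit 1) (nat_lit 72) (nat_lit 1) (nat_lit 311) (nat_lit 438) (nat_lit 271))))))))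
noncomputable def ec510 : XT := (XT.nd (nat_lit 1482) (nat_lit 228) (nat_lit 0) (XT.nd (nat_lit 702) (nat_lit 836) (nat_lit 0) (XT.nd (nat_lit 312) (nat_lit 304) (nat_lit 0) (XT.nd (nat_lit 156) (nat_lit 228) (nat_lit 0) (XT.nd (nat_lit 78) (nat_lit 0) (nat_lit 0) (XT.lf (nat_lit 152) (nat_lit 9429044718) (nat_lit 0) (nat_lit 872017810) (nat_lit 76) (nat_lit 872017810) (nat_lit 71) (nat_lit 1) (nat_lit 69) (nat_lit 1) (nat_lit 70) (nat_lit 1) (nat_lit 312) (nat_lit 438) (nat_lit 270)) (XT.lf (nat_lit 0) (nat_lit 2849004249) (nat_lit 0) (nat_lit 5364203137) (nat_lit 152) (nat_lit 2849004249) (nat_lit 69) (nat_lit 3) (nat_lit 69) (nat_lit 1) (nat_lit 71) (nat_lit 1) (nat_lit 313) (nat_lit 438) (nat_lit 269))) (XT.nd (nat_lit 78) (nat_lit 152) (nat_lit 0) (XT.lf (nat_lit 76) (nat_lit 2023053008) (nat_lit 0) (nat_lit 4464993676) (nat_lit 76) (nat_lit 4464993676) (nat_lit 69) (nat_lit 3) (nat_lit 68) (nat_lit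 1) (nat_lit 69) (nat_lit 1) (nat_lit 314) (nat_lit 438) (nat_lit 268)) (XT.lf (nat_lit 152) (nat_lit 9296005249) (nat_lit 0) (nat_lit 774776530) (nat_lit 76) (nat_lit 774776530) (nat_lit 68) (nat_lit 1) (nat_lit 66) (nat_lit 1) (nat_lit 67) (nat_lit 1) (nat_lit 315) (nat_lit 438) (nat_lit 267)))) (XT.nd (nat_lit 156) (nat_lit 228) (nat_lit 0) (XT.nd (nat_lit 78) (nat_lit 76) (nat_lit 0) (XT.lf (nat_lit 0) (nat_lit 2834412662) (nat_lit 0) (nat_lit 5069134297) (nat_lit 152) (nat_lit 2834412662) (nat_lit 66) (nat_lit 3) (nat_lit 66) (nat_lit 1) (nat_lit 68) (nat_lit 1) (nat_lit 316) (nat_lit 438) (nat_lit 266)) (XT.lf (nat_lit 76) (nat_lit 2097594023) (nat_lit 0) (nat_lit 4267226679) (nat_lit 76) (nat_lit 4267226679) (nat_lit 66) (nat_lit 3) (nat_lit 65) (nat_lit 1) (nat_lit 66) (nat_lit 1) (nat_lit 317) (nat_lit 438) (nat_lit 265))) (XT.nd (nat_lit 78) (nat_lit 76) (nat_lit 0) (XT.lf (nat_lit 152) (nat_lit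 9151051273) (nat_lit 0) (nat_lit 688378912) (nat_lit 76) (nat_lit 688378912) (nat_lit 65) (nat_lit 1) (nat_lit 63) (nat_lit 1) (nat_lit 64) (nat_lit 1) (nat_lit 318) (nat_lit 438) (nat_lit 264)) (XT.nd (nat_lit 78) (nat_lit 76) (nat_lit 0) (XT.lf (nat_lit 0) (nat_lit 2812619801) (nat_lit 0) (nat_lit 4798141029) (nat_lit 152) (nat_lit 2812619801) (nat_lit 63) (nat_lit 3) (nat_lit 63) (nat_lit 1) (nat_lit 65) (nat_lit 1) (nat_lit 319) (nat_lit 438) (nat_lit 263)) (XT.lf (nat_lit 76) (nat_lit 2155080877) (nat_lit 0) (nat_lit 4082771390) (nat_lit 76) (nat_lit 4082771390) (nat_lit 63) (nat_lit 3) (nat_lit 62) (nat_lit 1) (nat_lit 63) (nat_lit 1) (nat_lit 320) (nat_lit 438) (nat_lit 262)))))) (XT.nd (nat_lit 390) (nat_lit 456) (nat_lit 0) (XT.nd (nat_lit 156) (nat_lit 228) (nat_lit 0) (XT.nd (nat_lit 78) (nat_lit 0) (nat_lit 0) (XT.lf (nat_lit 152) (nat_lit 8996290542) (nat_lit 0) (nat_lit 611615747) (nat_lit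 76) (nat_lit 611615747) (nat_lit 62) (nat_lit 1) (nat_lit 60) (nat_lit 1) (nat_lit 61) (nat_lit 1) (nat_lit 321) (nat_lit 438) (nat_lit 261)) (XT.lf (nat_lit 0) (nat_lit 2784685838) (nat_lit 0) (nat_lit 4548795733) (nat_lit 152) (nat_lit 2784685838) (nat_lit 60) (nat_lit 3) (nat_lit 60) (nat_lit 1) (nat_lit 62) (nat_lit 1) (nat_lit 322) (nat_lit 438) (nat_lit 260))) (XT.nd (nat_lit 78) (nat_lit 152) (nat_lit 0) (XT.lf (nat_lit 76) (nat_lit 2197669947) (nat_lit 0) (nat_lit 3910398000) (nat_lit 76) (nat_lit 3910398000) (nat_lit 60) (nat_lit 3) (nat_lit 59) (nat_lit 1) (nat_lit 60) (nat_lit 1) (nat_lit 323) (nat_lit 438) (nat_lit 259)) (XT.nd (nat_lit 78) (nat_lit 0) (nat_lit 0) (XT.lf (nat_lit 152) (nat_lit 8833573074) (nat_lit 0) (nat_lit 543412669) (nat_lit 76) (nat_lit 543412669) (nat_lit 59) (nat_lit 1) (nat_lit 57) (nat_lit 1) (nat_lit 58) (nat_lit 1) (nat_lit 324) (nat_lit 438) (nat_lit 258)) (XT.lf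 (nat_lit 0) (nat_lit 2751545236) (nat_lit 0) (nat_lit 4318934029) (nat_lit 152) (nat_lit 2751545236) (nat_lit 57) (nat_lit 3) (nat_lit 57) (nat_lit 1) (nat_lit 59) (nat_lit 1) (nat_lit 325) (nat_lit 438) (nat_lit 257))))) (XT.nd (nat_lit 156) (nat_lit 228) (nat_lit 0) (XT.nd (nat_lit 78) (nat_lit 152) (nat_lit 0) (XT.lf (nat_lit 76) (nat_lit 2227269730) (nat_lit 0) (nat_lit 3749006422) (nat_lit 76) (nat_lit 3749006422) (nat_lit 57) (nat_lit 3) (nat_lit 56) (nat_lit 1) (nat_lit 57) (nat_lit 1) (nat_lit 326) (nat_lit 438) (nat_lit 256)) (XT.lf (nat_lit 152) (nat_lit 8664520552) (nat_lit 0) (nat_lit 482815118) (nat_lit 76) (nat_lit 482815118) (nat_lit 56) (nat_lit 1) (nat_lit 54) (nat_lit 1) (nat_lit 55) (nat_lit 1) (nat_lit 327) (nat_lit 438) (nat_lit 255))) (XT.nd (nat_lit 78) (nat_lit 228) (nat_lit 0) (XT.lf (nat_lit 0) (nat_lit 2714020981) (nat_lit 0) (nat_lit 4106625622) (nat_lit 152) (nat_lit 2714020981)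 (nat_lit 54) (nat_lit 3) (nat_lit 54) (nat_lit 1) (nat_lit 56) (nat_lit 1) (nat_lit 328) (nat_lit 438) (nat_lit 254)) (XT.nd (nat_lit 78) (nat_lit 152) (nat_lit 0) (XT.lf (nat_lit 76) (nat_lit 2245568703) (nat_lit 0) (nat_lit 3597612044) (nat_lit 76) (nat_lit 3597612044) (nat_lit 54) (nat_lit 3) (nat_lit 53) (nat_lit 1) (nat_lit 54) (nat_lit 1) (nat_lit 329) (nat_lit 438) (nat_lit 253)) (XT.lf (nat_lit 152) (nat_lit 8490552432) (nat_lit 0) (nat_lit 428974979) (nat_lit 76) (nat_lit 428974979) (nat_lit 53) (nat_lit 1) (nat_lit 51) (nat_lit 1) (nat_lit 52) (nat_lit 1) (nat_lit 330) (nat_lit 438) (nat_lit 252))))))) (XT.nd (nat_lit 48360) (nat_lit 0) (nat_lit 3952) (XT.nd (nat_lit 47970) (nat_lit 0) (nat_lit 4788) (XT.nd (nat_lit 156) (nat_lit 152) (nat_lit 0) (XT.nd (nat_lit 78) (nat_lit 76) (nat_lit 0) (XT.lf (nat_lit 0) (nat_lit 2672837223) (nat_lit 0) (nat_lit 3910148410) (nat_lit 152) (nat_lit 2672837223)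 (nat_lit 51) (nat_lit 3) (nat_lit 51) (nat_lit 1) (nat_lit 53) (nat_lit 1) (nat_lit 331) (nat_lit 438) (nat_lit 251)) (XT.lf (nat_lit 76) (nat_lit 2254060062) (nat_lit 0) (nat_lit 3455333059) (nat_lit 76) (nat_lit 3455333059) (nat_lit 51) (nat_lit 3) (nat_lit 50) (nat_lit 1) (nat_lit 51) (nat_lit 1) (nat_lit 332) (nat_lit 438) (nat_lit 250))) (XT.nd (nat_lit 47736) (nat_lit 0) (nat_lit 5092) (XT.lf (nat_lit 152) (nat_lit 8312909113) (nat_lit 0) (nat_lit 381138713) (nat_lit 76) (nat_lit 381138713) (nat_lit 50) (nat_lit 1) (nat_lit 48) (nat_lit 1) (nat_lit 49) (nat_lit 1) (nat_lit 333) (nat_lit 438) (nat_lit 249)) (XT.lf (nat_lit 76) (nat_lit 6640773108) (nat_lit 0) (nat_lit 4944649996) (nat_lit 152) (nat_lit 6640773108) (nat_lit 116) (nat_lit 1) (nat_lit 115) (nat_lit 1) (nat_lit 117) (nat_lit 1) (nat_lit 264) (nat_lit 439) (nat_lit 317)))) (XT.nd (nat_lit 156) (nat_lit 228) (nat_lit 0) (XT.nd (nat_lit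 78) (nat_lit 0) (nat_lit 0) (XT.lf (nat_lit 152) (nat_lit 7459463541) (nat_lit 0) (nat_lit 5291710324) (nat_lit 76) (nat_lit 5291710324) (nat_lit 116) (nat_lit 1) (nat_lit 114) (nat_lit 1) (nat_lit 115) (nat_lit 1) (nat_lit 265) (nat_lit 439) (nat_lit 316)) (XT.lf (nat_lit 0) (nat_lit 866550007) (nat_lit 0) (nat_lit 16129660190) (nat_lit 152) (nat_lit 866550007) (nat_lit 114) (nat_lit 3) (nat_lit 114) (nat_lit 1) (nat_lit 116) (nat_lit 1) (nat_lit 266) (nat_lit 439) (nat_lit 315))) (XT.nd (nat_lit 78) (nat_lit 76) (nat_lit 0) (XT.lf (nat_lit 76) (nat_lit 6887635790) (nat_lit 0) (nat_lit 3906856052) (nat_lit 152) (nat_lit 6887635790) (nat_lit 113) (nat_lit 1) (nat_lit 112) (nat_lit 1) (nat_lit 114) (nat_lit 1) (nat_lit 267) (nat_lit 439) (nat_lit 314)) (XT.nd (nat_lit 78) (nat_lit 0) (nat_lit 0) (XT.lf (nat_lit 152) (nat_lit 8101433062) (nat_lit 0) (nat_lit 4701616084) (nat_lit 76) (nat_lit 4701616084)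 (nat_lit 113) (nat_lit 1) (nat_lit 111) (nat_lit 1) (nat_lit 112) (nat_lit 1) (nat_lit 268) (nat_lit 439) (nat_lit 313)) (XT.lf (nat_lit 0) (nat_lit 1256319884) (nat_lit 0) (nat_lit 14817395592) (nat_lit 152) (nat_lit 1256319884) (nat_lit 111) (nat_lit 3) (nat_lit 111) (nat_lit 1) (nat_lit 113) (nat_lit 1) (nat_lit 269) (nat_lit 439) (nat_lit 312)))))) (XT.nd (nat_lit 390) (nat_lit 380) (nat_lit 0) (XT.nd (nat_lit 156) (nat_lit 228) (nat_lit 0) (XT.nd (nat_lit 78) (nat_lit 76) (nat_lit 0) (XT.lf (nat_lit 76) (nat_lit 7078211010) (nat_lit 0) (nat_lit 2998956606) (nat_lit 152) (nat_lit 7078211010) (nat_lit 110) (nat_lit 1) (nat_lit 109) (nat_lit 1) (nat_lit 111) (nat_lit 1) (nat_lit 270) (nat_lit 439) (nat_lit 311)) (XT.lf (nat_lit 152) (nat_lit 8628888559) (nat_lit 0) (nat_lit 4177324995) (nat_lit 76) (nat_lit 4177324995) (nat_lit 110) (nat_lit 1) (nat_lit 108) (nat_lit 1) (nat_lit 109) (nat_lit 1) (nat_lit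 271) (nat_lit 439) (nat_lit 310))) (XT.nd (nat_lit 78) (nat_lit 228) (nat_lit 0) (XT.lf (nat_lit 0) (nat_lit 1588458339) (nat_lit 0) (nat_lit 13637298462) (nat_lit 152) (nat_lit 1588458339) (nat_lit 108) (nat_lit 3) (nat_lit 108) (nat_lit 1) (nat_lit 110) (nat_lit 1) (nat_lit 272) (nat_lit 439) (nat_lit 309)) (XT.nd (nat_lit 78) (nat_lit 76) (nat_lit 0) (XT.lf (nat_lit 76) (nat_lit 7219613193) (nat_lit 0) (nat_lit 2206054107) (nat_lit 152) (nat_lit 7219613193) (nat_lit 107) (nat_lit 1) (nat_lit 106) (nat_lit 1) (nat_lit 108) (nat_lit 1) (nat_lit 273) (nat_lit 439) (nat_lit 308)) (XT.lf (nat_lit 152) (nat_lit 9055850105) (nat_lit 0) (nat_lit 3711499153) (nat_lit 76) (nat_lit 3711499153) (nat_lit 107) (nat_lit 1) (nat_lit 105) (nat_lit 1) (nat_lit 106) (nat_lit 1) (nat_lit 274) (nat_lit 439) (nat_lit 307))))) (XT.nd (nat_lit 156) (nat_lit 228) (nat_lit 0) (XT.nd (nat_lit 78) (nat_lit 152) (nat_lit 0)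 (XT.lf (nat_lit 0) (nat_lit 1869804654) (nat_lit 0) (nat_lit 12575043046) (nat_lit 152) (nat_lit 1869804654) (nat_lit 105) (nat_lit 3) (nat_lit 105) (nat_lit 1) (nat_lit 107) (nat_lit 1) (nat_lit 275) (nat_lit 439) (nat_lit 306)) (XT.lf (nat_lit 76) (nat_lit 7318139015) (nat_lit 0) (nat_lit 1514924293) (nat_lit 152) (nat_lit 7318139015) (nat_lit 104) (nat_lit 1) (nat_lit 103) (nat_lit 1) (nat_lit 105) (nat_lit 1) (nat_lit 276) (nat_lit 439) (nat_lit 305))) (XT.nd (nat_lit 78) (nat_lit 152) (nat_lit 0) (XT.lf (nat_lit 152) (nat_lit 9394737937) (nat_lit 0) (nat_lit 3297618926) (nat_lit 76) (nat_lit 3297618926) (nat_lit 104) (nat_lit 1) (nat_lit 102) (nat_lit 1) (nat_lit 103) (nat_lit 1) (nat_lit 277) (nat_lit 439) (nat_lit 304)) (XT.nd (nat_lit 78) (nat_lit 152) (nat_lit 0) (XT.lf (nat_lit 0) (nat_lit 2106423425) (nat_lit 0) (nat_lit 11617889081) (nat_lit 152) (nat_lit 2106423425) (nat_lit 102) (nat_lit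 3) (nat_lit 102) (nat_lit 1) (nat_lit 104) (nat_lit 1) (nat_lit 278) (nat_lit 439) (nat_lit 303)) (XT.lf (nat_lit 76) (nat_lit 7379359305) (nat_lit 0) (nat_lit 913829246) (nat_lit 152) (nat_lit 7379359305) (nat_lit 101) (nat_lit 1) (nat_lit 100) (nat_lit 1) (nat_lit 102) (nat_lit 1) (nat_lit 279) (nat_lit 439) (nat_lit 302))))))))
noncomputable def ec511 : XT := (XT.nd (nat_lit 1482) (nat_lit 1368) (nat_lit 0) (XT.nd (nat_lit 702) (nat_lit 836) (nat_lit 0) (XT.nd (nat_lit 312) (nat_lit 304) (nat_lit 0) (XT.nd (nat_lit 156) (nat_lit 228) (nat_lit 0) (XT.nd (nat_lit 78) (nat_lit 0) (nat_lit 0) (XT.lf (nat_lit 152) (nat_lit 9656551918) (nat_lit 0) (nat_lit 2929891704) (nat_lit 76) (nat_lit 2929891704) (nat_lit 101) (nat_lit 1) (nat_lit 99) (nat_lit 1) (nat_lit 100) (nat_lit 1) (nat_lit 280) (nat_lit 439) (nat_lit 301)) (XT.lf (nat_lit 0) (nat_lit 2303691298) (nat_lit 0) (nat_lit 10754505340) (nat_lit 152)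 (nat_lit 2303691298) (nat_lit 99) (nat_lit 3) (nat_lit 99) (nat_lit 1) (nat_lit 101) (nat_lit 1) (nat_lit 281) (nat_lit 439) (nat_lit 300))) (XT.nd (nat_lit 78) (nat_lit 76) (nat_lit 0) (XT.lf (nat_lit 76) (nat_lit 7408200674) (nat_lit 0) (nat_lit 392351306) (nat_lit 152) (nat_lit 7408200674) (nat_lit 98) (nat_lit 1) (nat_lit 97) (nat_lit 1) (nat_lit 99) (nat_lit 1) (nat_lit 282) (nat_lit 439) (nat_lit 299)) (XT.lf (nat_lit 152) (nat_lit 9851030959) (nat_lit 0) (nat_lit 2603170831) (nat_lit 76) (nat_lit 2603170831) (nat_lit 98) (nat_lit 1) (nat_lit 96) (nat_lit 1) (nat_lit 97) (nat_lit 1) (nat_lit 283) (nat_lit 439) (nat_lit 298)))) (XT.nd (nat_lit 156) (nat_lit 228) (nat_lit 0) (XT.nd (nat_lit 78) (nat_lit 76) (nat_lit 0) (XT.lf (nat_lit 0) (nat_lit 2466374023) (nat_lit 0) (nat_lit 9974812844) (nat_lit 152) (nat_lit 2466374023) (nat_lit 96) (nat_lit 3) (nat_lit 96) (nat_lit 1) (nat_lit 98) (nat_lit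 1) (nat_lit 284) (nat_lit 439) (nat_lit 297)) (XT.lf (nat_lit 76) (nat_lit 59923811) (nat_lit 0) (nat_lit 7349670239) (nat_lit 76) (nat_lit 7349670239) (nat_lit 96) (nat_lit 3) (nat_lit 95) (nat_lit 1) (nat_lit 96) (nat_lit 1) (nat_lit 285) (nat_lit 439) (nat_lit 296))) (XT.nd (nat_lit 78) (nat_lit 76) (nat_lit 0) (XT.lf (nat_lit 152) (nat_lit 9986794632) (nat_lit 0) (nat_lit 2312883567) (nat_lit 76) (nat_lit 2312883567) (nat_lit 95) (nat_lit 1) (nat_lit 93) (nat_lit 1) (nat_lit 94) (nat_lit 1) (nat_lit 286) (nat_lit 439) (nat_lit 295)) (XT.nd (nat_lit 78) (nat_lit 76) (nat_lit 0) (XT.lf (nat_lit 0) (nat_lit 2598694912) (nat_lit 0) (nat_lit 9269845554) (nat_lit 152) (nat_lit 2598694912) (nat_lit 93) (nat_lit 3) (nat_lit 93) (nat_lit 1) (nat_lit 95) (nat_lit 1) (nat_lit 287) (nat_lit 439) (nat_lit 294)) (XT.lf (nat_lit 76) (nat_lit 456601405) (nat_lit 0) (nat_lit 6933446689) (nat_lit 76) (nat_lit 6933446689)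 (nat_lit 93) (nat_lit 3) (nat_lit 92) (nat_lit 1) (nat_lit 93) (nat_lit 1) (nat_lit 288) (nat_lit 439) (nat_lit 293)))))) (XT.nd (nat_lit 390) (nat_lit 456) (nat_lit 0) (XT.nd (nat_lit 156) (nat_lit 228) (nat_lit 0) (XT.nd (nat_lit 78) (nat_lit 0) (nat_lit 0) (XT.lf (nat_lit 152) (nat_lit 10071468958) (nat_lit 0) (nat_lit 2054967092) (nat_lit 76) (nat_lit 2054967092) (nat_lit 92) (nat_lit 1) (nat_lit 90) (nat_lit 1) (nat_lit 91) (nat_lit 1) (nat_lit 289) (nat_lit 439) (nat_lit 292)) (XT.lf (nat_lit 0) (nat_lit 2704395641) (nat_lit 0) (nat_lit 8631626581) (nat_lit 152) (nat_lit 2704395641) (nat_lit 90) (nat_lit 3) (nat_lit 90) (nat_lit 1) (nat_lit 92) (nat_lit 1) (nat_lit 290) (nat_lit 439) (nat_lit 291))) (XT.nd (nat_lit 78) (nat_lit 152) (nat_lit 0) (XT.lf (nat_lit 76) (nat_lit 797295963) (nat_lit 0) (nat_lit 6551889109) (nat_lit 76) (nat_lit 6551889109) (nat_lit 90) (nat_lit 3) (nat_lit 89) (nat_lit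 1) (nat_lit 90) (nat_lit 1) (nat_lit 291) (nat_lit 439) (nat_lit 290)) (XT.nd (nat_lit 78) (nat_lit 0) (nat_lit 0) (XT.lf (nat_lit 152) (nat_lit 10111798148) (nat_lit 0) (nat_lit 1825811646) (nat_lit 76) (nat_lit 1825811646) (nat_lit 89) (nat_lit 1) (nat_lit 87) (nat_lit 1) (nat_lit 88) (nat_lit 1) (nat_lit 292) (nat_lit 439) (nat_lit 289)) (XT.lf (nat_lit 0) (nat_lit 2786790277) (nat_lit 0) (nat_lit 8053058197) (nat_lit 152) (nat_lit 2786790277) (nat_lit 87) (nat_lit 3) (nat_lit 87) (nat_lit 1) (nat_lit 89) (nat_lit 1) (nat_lit 293) (nat_lit 439) (nat_lit 288))))) (XT.nd (nat_lit 156) (nat_lit 228) (nat_lit 0) (XT.nd (nat_lit 78) (nat_lit 152) (nat_lit 0) (XT.lf (nat_lit 76) (nat_lit 1088592504) (nat_lit 0) (nat_lit 6201473980) (nat_lit 76) (nat_lit 6201473980) (nat_lit 87) (nat_lit 3) (nat_lit 86) (nat_lit 1) (nat_lit 87) (nat_lit 1) (nat_lit 294) (nat_lit 439) (nat_lit 287)) (XT.lf (nat_lit 152)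 (nat_lit 10113743846) (nat_lit 0) (nat_lit 1622209999) (nat_lit 76) (nat_lit 1622209999) (nat_lit 86) (nat_lit 1) (nat_lit 84) (nat_lit 1) (nat_lit 85) (nat_lit 1) (nat_lit 295) (nat_lit 439) (nat_lit 286))) (XT.nd (nat_lit 78) (nat_lit 228) (nat_lit 0) (XT.lf (nat_lit 0) (nat_lit 2848813258) (nat_lit 0) (nat_lit 7527824096) (nat_lit 152) (nat_lit 2848813258) (nat_lit 84) (nat_lit 3) (nat_lit 84) (nat_lit 1) (nat_lit 86) (nat_lit 1) (nat_lit 296) (nat_lit 439) (nat_lit 285)) (XT.nd (nat_lit 78) (nat_lit 152) (nat_lit 0) (XT.lf (nat_lit 76) (nat_lit 1336331765) (nat_lit 0) (nat_lit 5879060734) (nat_lit 76) (nat_lit 5879060734) (nat_lit 84) (nat_lit 3) (nat_lit 83) (nat_lit 1) (nat_lit 84) (nat_lit 1) (nat_lit 297) (nat_lit 439) (nat_lit 284)) (XT.lf (nat_lit 152) (nat_lit 10082573287) (nat_lit 0) (nat_lit 1441312573) (nat_lit 76) (nat_lit 1441312573) (nat_lit 83) (nat_lit 1) (nat_lit 81) (nat_lit 1)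 (nat_lit 82) (nat_lit 1) (nat_lit 298) (nat_lit 439) (nat_lit 283))))))) (XT.nd (nat_lit 702) (nat_lit 684) (nat_lit 0) (XT.nd (nat_lit 312) (nat_lit 456) (nat_lit 0) (XT.nd (nat_lit 156) (nat_lit 152) (nat_lit 0) (XT.nd (nat_lit 78) (nat_lit 76) (nat_lit 0) (XT.lf (nat_lit 0) (nat_lit 2893062022) (nat_lit 0) (nat_lit 7050302549) (nat_lit 152) (nat_lit 2893062022) (nat_lit 81) (nat_lit 3) (nat_lit 81) (nat_lit 1) (nat_lit 83) (nat_lit 1) (nat_lit 299) (nat_lit 439) (nat_lit 282)) (XT.lf (nat_lit 76) (nat_lit 1545693489) (nat_lit 0) (nat_lit 5581849340) (nat_lit 76) (nat_lit 5581849340) (nat_lit 81) (nat_lit 3) (nat_lit 80) (nat_lit 1) (nat_lit 81) (nat_lit 1) (nat_lit 300) (nat_lit 439) (nat_lit 281))) (XT.nd (nat_lit 78) (nat_lit 0) (nat_lit 0) (XT.lf (nat_lit 152) (nat_lit 10022937594) (nat_lit 0) (nat_lit 1280587553) (nat_lit 76) (nat_lit 1280587553) (nat_lit 80) (nat_lit 1) (nat_lit 78) (nat_lit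 1) (nat_lit 79) (nat_lit 1) (nat_lit 301) (nat_lit 439) (nat_lit 280)) (XT.lf (nat_lit 0) (nat_lit 2921834875) (nat_lit 0) (nat_lit 6615489238) (nat_lit 152) (nat_lit 2921834875) (nat_lit 78) (nat_lit 3) (nat_lit 78) (nat_lit 1) (nat_lit 80) (nat_lit 1) (nat_lit 302) (nat_lit 439) (nat_lit 279)))) (XT.nd (nat_lit 156) (nat_lit 228) (nat_lit 0) (XT.nd (nat_lit 78) (nat_lit 152) (nat_lit 0) (XT.lf (nat_lit 76) (nat_lit 1721270416) (nat_lit 0) (nat_lit 5307342613) (nat_lit 76) (nat_lit 5307342613) (nat_lit 78) (nat_lit 3) (nat_lit 77) (nat_lit 1) (nat_lit 78) (nat_lit 1) (nat_lit 303) (nat_lit 439) (nat_lit 278)) (XT.lf (nat_lit 152) (nat_lit 9938941321) (nat_lit 0) (nat_lit 1137785455) (nat_lit 76) (nat_lit 1137785455) (nat_lit 77) (nat_lit 1) (nat_lit 75) (nat_lit 1) (nat_lit 76) (nat_lit 1) (nat_lit 304) (nat_lit 439) (nat_lit 277))) (XT.nd (nat_lit 78) (nat_lit 228) (nat_lit 0) (XT.lf (nat_lit 0) (nat_lit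 2937164616) (nat_lit 0) (nat_lit 6218928677) (nat_lit 152) (nat_lit 2937164616) (nat_lit 75) (nat_lit 3) (nat_lit 75) (nat_lit 1) (nat_lit 77) (nat_lit 1) (nat_lit 305) (nat_lit 439) (nat_lit 276)) (XT.nd (nat_lit 78) (nat_lit 152) (nat_lit 0) (XT.lf (nat_lit 76) (nat_lit 1867134015) (nat_lit 0) (nat_lit 5053312715) (nat_lit 76) (nat_lit 5053312715) (nat_lit 75) (nat_lit 3) (nat_lit 74) (nat_lit 1) (nat_lit 75) (nat_lit 1) (nat_lit 306) (nat_lit 439) (nat_lit 275)) (XT.lf (nat_lit 152) (nat_lit 9834204213) (nat_lit 0) (nat_lit 1010907640) (nat_lit 76) (nat_lit 1010907640) (nat_lit 74) (nat_lit 1) (nat_lit 72) (nat_lit 1) (nat_lit 73) (nat_lit 1) (nat_lit 307) (nat_lit 439) (nat_lit 274)))))) (XT.nd (nat_lit 390) (nat_lit 380) (nat_lit 0) (XT.nd (nat_lit 156) (nat_lit 228) (nat_lit 0) (XT.nd (nat_lit 78) (nat_lit 76) (nat_lit 0) (XT.lf (nat_lit 0) (nat_lit 2940848422) (nat_lit 0) (nat_lit 5856653284)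 (nat_lit 152) (nat_lit 2940848422) (nat_lit 72) (nat_lit 3) (nat_lit 72) (nat_lit 1) (nat_lit 74) (nat_lit 1) (nat_lit 308) (nat_lit 439) (nat_lit 273)) (XT.lf (nat_lit 76) (nat_lit 1986892879) (nat_lit 0) (nat_lit 4817771387) (nat_lit 76) (nat_lit 4817771387) (nat_lit 72) (nat_lit 3) (nat_lit 71) (nat_lit 1) (nat_lit 72) (nat_lit 1) (nat_lit 309) (nat_lit 439) (nat_lit 272))) (XT.nd (nat_lit 78) (nat_lit 76) (nat_lit 0) (XT.lf (nat_lit 152) (nat_lit 9711916060) (nat_lit 0) (nat_lit 898178344) (nat_lit 76) (nat_lit 898178344) (nat_lit 71) (nat_lit 1) (nat_lit 69) (nat_lit 1) (nat_lit 70) (nat_lit 1) (nat_lit 310) (nat_lit 439) (nat_lit 271)) (XT.nd (nat_lit 78) (nat_lit 76) (nat_lit 0) (XT.lf (nat_lit 0) (nat_lit 2934474376) (nat_lit 0) (nat_lit 5525129231) (nat_lit 152) (nat_lit 2934474376) (nat_lit 69) (nat_lit 3) (nat_lit 69) (nat_lit 1) (nat_lit 71) (nat_lit 1) (nat_lit 311) (nat_lit 439) (nat_lit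 270)) (XT.lf (nat_lit 76) (nat_lit 2083744599) (nat_lit 0) (nat_lit 4598943487) (nat_lit 76) (nat_lit 4598943487) (nat_lit 69) (nat_lit 3) (nat_lit 68) (nat_lit 1) (nat_lit 69) (nat_lit 1) (nat_lit 312) (nat_lit 439) (nat_lit 269))))) (XT.nd (nat_lit 156) (nat_lit 228) (nat_lit 0) (XT.nd (nat_lit 78) (nat_lit 0) (nat_lit 0) (XT.lf (nat_lit 152) (nat_lit 9574885406) (nat_lit 0) (nat_lit 798019826) (nat_lit 76) (nat_lit 798019826) (nat_lit 68) (nat_lit 1) (nat_lit 66) (nat_lit 1) (nat_lit 67) (nat_lit 1) (nat_lit 313) (nat_lit 439) (nat_lit 268)) (XT.lf (nat_lit 0) (nat_lit 2919445042) (nat_lit 0) (nat_lit 5221208326) (nat_lit 152) (nat_lit 2919445042) (nat_lit 66) (nat_lit 3) (nat_lit 66) (nat_lit 1) (nat_lit 68) (nat_lit 1) (nat_lit 314) (nat_lit 439) (nat_lit 267))) (XT.nd (nat_lit 78) (nat_lit 152) (nat_lit 0) (XT.lf (nat_lit 76) (nat_lit 2160521844) (nat_lit 0) (nat_lit 4395243479) (nat_lit 76) (nat_lit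 4395243479) (nat_lit 66) (nat_lit 3) (nat_lit 65) (nat_lit 1) (nat_lit 66) (nat_lit 1) (nat_lit 315) (nat_lit 439) (nat_lit 266)) (XT.nd (nat_lit 78) (nat_lit 0) (nat_lit 0) (XT.lf (nat_lit 152) (nat_lit 9425582811) (nat_lit 0) (nat_lit 709030279) (nat_lit 76) (nat_lit 709030279) (nat_lit 65) (nat_lit 1) (nat_lit 63) (nat_lit 1) (nat_lit 64) (nat_lit 1) (nat_lit 316) (nat_lit 439) (nat_lit 265)) (XT.lf (nat_lit 0) (nat_lit 2896998395) (nat_lit 0) (nat_lit 4942085260) (nat_lit 152) (nat_lit 2896998395) (nat_lit 63) (nat_lit 3) (nat_lit 63) (nat_lit 1) (nat_lit 65) (nat_lit 1) (nat_lit 317) (nat_lit 439) (nat_lit 264))))))))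

set_option maxRecDepth 10000000 in
noncomputable def Tp : PT := (PT.nd (nat_lit 9467718) (PT.nd (nat_lit 8299824) (PT.nd (nat_lit 6761040) (PT.nd (nat_lit 4690764) (PT.nd (nat_lit 2833038) (PT.nd (nat_lit 1877694) pc0 pc1) (PT.nd (nat_lit 902382) pc2 pc3)) (PT.nd (nat_lit 1273896) (PT.nd (nat_lit 689988) pc4 pc5) (PT.nd (nat_lit 477594) pc6 pc7))) (PT.nd (nat_lit 955266) (PT.nd (nat_lit 531024) (PT.nd (nat_lit 318162) pc8 pc9) (PT.nd (nat_lit 212316) pc10 pc11)) (PT.nd (nat_lit 318396) (PT.nd (nat_lit 159354) pc12 pc13) (PT.nd (nat_lit 106938) pc14 pc15)))) (PT.nd (nat_lit 691158) (PT.nd (nat_lit 372840) (PT.nd (nat_lit 212550) (PT.nd (nat_lit 106392) pc16 pc17) (PT.nd (nat_lit 105768) pc18 pc19)) (PT.nd (nat_lit 210366) (PT.nd (nat_lit 105300) pc20 pc21) (PT.nd (nat_lit 54054) pc22 pc23))) (PT.nd (nat_lit 264576) (PT.nd (nat_lit 157716) (PT.nd (nat_lit 104052) pc24 pc25) (PT.nd (nat_lit 53508) pc26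 pc27)) (PT.nd (nat_lit 106314) (PT.nd (nat_lit 53196) pc28 pc29) (PT.nd (nat_lit 52962) pc30 pc31))))) (PT.nd (nat_lit 741078) (PT.nd (nat_lit 320658) (PT.nd (nat_lit 160992) (PT.nd (nat_lit 105222) (PT.nd (nat_lit 52650) pc32 pc33) (PT.nd (nat_lit 52338) pc34 pc35)) (PT.nd (nat_lit 104286) (PT.nd (nat_lit 52182) pc36 pc37) (PT.nd (nat_lit 51948) pc38 pc39))) (PT.nd (nat_lit 159120) (PT.nd (nat_lit 103350) (PT.nd (nat_lit 51714) pc40 pc41) (PT.nd (nat_lit 51402) pc42 pc43)) (PT.nd (nat_lit 106392) (PT.nd (nat_lit 52962) pc44 pc45) (PT.nd (nat_lit 53820) pc46 pc47)))) (PT.nd (nat_lit 1015482) (PT.nd (nat_lit 376896) (PT.nd (nat_lit 163878) (PT.nd (nat_lit 58032) pc48 pc49) (PT.nd (nat_lit 101010) pc50 pc51)) (PT.nd (nat_lit 311064) (PT.nd (nat_lit 152334) pc52 pc53) (PT.nd (nat_lit 159042) pc54 pc55))) (PT.nd (nat_lit 943722) (PT.nd (nat_lit 467220) (PT.nd (nat_lit 213018) pc56 pc57) (PT.nd (nat_lit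 224406) pc58 pc59)) (PT.nd (nat_lit 439530) (PT.nd (nat_lit 212082) pc60 pc61) (PT.nd (nat_lit 265746) pc62 pc63))))))

set_option maxRecDepth 10000000 in
noncomputable def Tx : XT := (XT.nd (nat_lit 14008644) (nat_lit 0) (nat_lit 2052) XT.nil (XT.nd (nat_lit 10142574) (nat_lit 0) (nat_lit 0) (XT.nd (nat_lit 4717284) (nat_lit 0) (nat_lit 5396) (XT.nd (nat_lit 3237156) (nat_lit 0) (nat_lit 3116) (XT.nd (nat_lit 2279004) (nat_lit 0) (nat_lit 1748) (XT.nd (nat_lit 1590264) (nat_lit 0) (nat_lit 912) (XT.nd (nat_lit 1112670) (nat_lit 0) (nat_lit 608) (XT.nd (nat_lit 743028) (nat_lit 0) (nat_lit 228) (XT.nd (nat_lit 529776) (nat_lit 0) (nat_lit 152) (XT.nd (nat_lit 318786) (nat_lit 0) (nat_lit 152) xc0 xc1) (XT.nd (nat_lit 106938) (nat_lit 0) (nat_lit 76) xc2 xc3)) (XT.nd (nat_lit 210756) (nat_lit 0) (nat_lit 152) (XT.nd (nat_lit 105690) (nat_lit 0) (nat_lit 152) xc4 xc5) (XT.nd (nat_lit 54678) (nat_lit 0)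 (nat_lit 76) xc6 xc7))) (XT.nd (nat_lit 264732) (nat_lit 0) (nat_lit 228) (XT.nd (nat_lit 108264) (nat_lit 0) (nat_lit 0) (XT.nd (nat_lit 54210) (nat_lit 0) (nat_lit 0) xc8 xc9) (XT.nd (nat_lit 53898) (nat_lit 0) (nat_lit 76) xc10 xc11)) (XT.nd (nat_lit 106704) (nat_lit 0) (nat_lit 76) (XT.nd (nat_lit 53430) (nat_lit 0) (nat_lit 0) xc12 xc13) (XT.nd (nat_lit 53118) (nat_lit 0) (nat_lit 0) xc14 xc15)))) (XT.nd (nat_lit 371202) (nat_lit 0) (nat_lit 456) (XT.nd (nat_lit 162708) (nat_lit 0) (nat_lit 228) (XT.nd (nat_lit 105456) (nat_lit 0) (nat_lit 152) (XT.nd (nat_lit 52806) (nat_lit 0) (nat_lit 152) xc16 xc17) (XT.nd (nat_lit 52494) (nat_lit 0) (nat_lit 228) xc18 xc19)) (XT.nd (nat_lit 104520) (nat_lit 0) (nat_lit 152) (XT.nd (nat_lit 52338) (nat_lit 0) (nat_lit 0) xc20 xc21) (XT.nd (nat_lit 52026) (nat_lit 0) (nat_lit 76) xc22 xc23))) (XT.nd (nat_lit 159432) (nat_lit 0) (nat_lit 228) (XT.nd (nat_lit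 56472) (nat_lit 0) (nat_lit 152) (XT.nd (nat_lit 51714) (nat_lit 0) (nat_lit 836) xc24 xc25) (XT.nd (nat_lit 51558) (nat_lit 0) (nat_lit 0) xc26 xc27)) (XT.nd (nat_lit 56004) (nat_lit 0) (nat_lit 0) (XT.nd (nat_lit 51246) (nat_lit 0) (nat_lit 1140) xc28 xc29) (XT.nd (nat_lit 51090) (nat_lit 0) (nat_lit 152) xc30 xc31))))) (XT.nd (nat_lit 529932) (nat_lit 0) (nat_lit 760) (XT.nd (nat_lit 266760) (nat_lit 0) (nat_lit 456) (XT.nd (nat_lit 110916) (nat_lit 0) (nat_lit 152) (XT.nd (nat_lit 55536) (nat_lit 0) (nat_lit 76) (XT.nd (nat_lit 4758) (nat_lit 532) (nat_lit 0) xc32 xc33) (XT.nd (nat_lit 50622) (nat_lit 0) (nat_lit 684) xc34 xc35)) (XT.nd (nat_lit 100776) (nat_lit 0) (nat_lit 152) (XT.nd (nat_lit 50466) (nat_lit 0) (nat_lit 76) xc36 xc37) (XT.nd (nat_lit 4758) (nat_lit 1292) (nat_lit 0) xc38 xc39))) (XT.nd (nat_lit 109512) (nat_lit 0) (nat_lit 76) (XT.nd (nat_lit 54834) (nat_lit 0) (nat_lit 76) (XT.nd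 (nat_lit 50076) (nat_lit 0) (nat_lit 2356) xc40 xc41) (XT.nd (nat_lit 49920) (nat_lit 0) (nat_lit 760) xc42 xc43)) (XT.nd (nat_lit 99372) (nat_lit 0) (nat_lit 152) (XT.nd (nat_lit 49764) (nat_lit 0) (nat_lit 152) xc44 xc45) (XT.nd (nat_lit 4758) (nat_lit 2964) (nat_lit 0) xc46 xc47)))) (XT.nd (nat_lit 215358) (nat_lit 0) (nat_lit 304) (XT.nd (nat_lit 107952) (nat_lit 0) (nat_lit 152) (XT.nd (nat_lit 54054) (nat_lit 0) (nat_lit 76) (XT.nd (nat_lit 4758) (nat_lit 1672) (nat_lit 0) xc48 xc49) (XT.nd (nat_lit 4758) (nat_lit 760) (nat_lit 0) xc50 xc51)) (XT.nd (nat_lit 53742) (nat_lit 0) (nat_lit 76) (XT.nd (nat_lit 48984) (nat_lit 0) (nat_lit 4256) xc52 xc53) (XT.nd (nat_lit 48828) (nat_lit 0) (nat_lit 3648) xc54 xc55))) (XT.nd (nat_lit 106704) (nat_lit 0) (nat_lit 152) (XT.nd (nat_lit 53430) (nat_lit 0) (nat_lit 76) (XT.nd (nat_lit 48672) (nat_lit 0) (nat_lit 3344) xc56 xc57) (XT.nd (nat_lit 48516) (nat_lit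 0) (nat_lit 3116) xc58 xc59)) (XT.nd (nat_lit 53118) (nat_lit 0) (nat_lit 0) (XT.nd (nat_lit 48360) (nat_lit 0) (nat_lit 3192) xc60 xc61) (XT.nd (nat_lit 48204) (nat_lit 0) (nat_lit 3268) xc62 xc63)))))) (XT.nd (nat_lit 745368) (nat_lit 0) (nat_lit 1140) (XT.nd (nat_lit 418704) (nat_lit 0) (nat_lit 684) (XT.nd (nat_lit 210522) (nat_lit 0) (nat_lit 304) (XT.nd (nat_lit 105456) (nat_lit 0) (nat_lit 228) (XT.nd (nat_lit 52806) (nat_lit 0) (nat_lit 76) (XT.nd (nat_lit 48048) (nat_lit 0) (nat_lit 3496) xc64 xc65) (XT.nd (nat_lit 47892) (nat_lit 0) (nat_lit 4028) xc66 xc67)) (XT.nd (nat_lit 52572) (nat_lit 0) (nat_lit 76) (XT.nd (nat_lit 47814) (nat_lit 0) (nat_lit 4788) xc68 xc69) (XT.nd (nat_lit 47658) (nat_lit 0) (nat_lit 5624) xc70 xc71))) (XT.nd (nat_lit 104364) (nat_lit 0) (nat_lit 228) (XT.nd (nat_lit 52260) (nat_lit 0) (nat_lit 152) (XT.nd (nat_lit 4758) (nat_lit 228) (nat_lit 0) xc72 xc73) (XT.nd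 (nat_lit 4758) (nat_lit 988) (nat_lit 0) xc74 xc75)) (XT.nd (nat_lit 51948) (nat_lit 0) (nat_lit 0) (XT.nd (nat_lit 4758) (nat_lit 2052) (nat_lit 0) xc76 xc77) (XT.nd (nat_lit 4758) (nat_lit 3268) (nat_lit 0) xc78 xc79)))) (XT.nd (nat_lit 164034) (nat_lit 0) (nat_lit 152) (XT.nd (nat_lit 61152) (nat_lit 0) (nat_lit 0) (XT.nd (nat_lit 51636) (nat_lit 0) (nat_lit 1216) (XT.nd (nat_lit 4758) (nat_lit 4940) (nat_lit 0) xc80 xc81) (XT.nd (nat_lit 4758) (nat_lit 6156) (nat_lit 0) xc82 xc83)) (XT.nd (nat_lit 51480) (nat_lit 0) (nat_lit 76) (XT.nd (nat_lit 46722) (nat_lit 0) (nat_lit 2888) xc84 xc85) (XT.nd (nat_lit 46566) (nat_lit 0) (nat_lit 5168) xc86 xc87))) (XT.nd (nat_lit 102180) (nat_lit 0) (nat_lit 152) (XT.nd (nat_lit 51168) (nat_lit 0) (nat_lit 76) (XT.nd (nat_lit 46410) (nat_lit 0) (nat_lit 8664) xc88 xc89) (XT.nd (nat_lit 4758) (nat_lit 1748) (nat_lit 0) xc90 xc91)) (XT.nd (nat_lit 50856) (nat_lit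 0) (nat_lit 1368) (XT.nd (nat_lit 4758) (nat_lit 4256) (nat_lit 0) xc92 xc93) (XT.nd (nat_lit 4758) (nat_lit 6612) (nat_lit 0) xc94 xc95))))) (XT.nd (nat_lit 365352) (nat_lit 0) (nat_lit 532) (XT.nd (nat_lit 202956) (nat_lit 0) (nat_lit 304) (XT.nd (nat_lit 101400) (nat_lit 0) (nat_lit 152) (XT.nd (nat_lit 50778) (nat_lit 0) (nat_lit 76) (XT.nd (nat_lit 46020) (nat_lit 0) (nat_lit 3876) xc96 xc97) (XT.nd (nat_lit 45864) (nat_lit 0) (nat_lit 7980) xc98 xc99)) (XT.nd (nat_lit 50700) (nat_lit 0) (nat_lit 76) (XT.nd (nat_lit 4758) (nat_lit 1292) (nat_lit 0) xc100 xc101) (XT.nd (nat_lit 4758) (nat_lit 4104) (nat_lit 0) xc102 xc103))) (XT.nd (nat_lit 60372) (nat_lit 0) (nat_lit 76) (XT.nd (nat_lit 9516) (nat_lit 1216) (nat_lit 0) (XT.nd (nat_lit 4758) (nat_lit 6612) (nat_lit 0) xc104 xc105) (XT.nd (nat_lit 46098) (nat_lit 0) (nat_lit 3876) xc106 xc107)) (XT.nd (nat_lit 50934) (nat_lit 0) (nat_lit 76) (XT.nd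 (nat_lit 46176) (nat_lit 0) (nat_lit 7296) xc108 xc109) (XT.nd (nat_lit 4758) (nat_lit 912) (nat_lit 0) xc110 xc111)))) (XT.nd (nat_lit 163176) (nat_lit 0) (nat_lit 228) (XT.nd (nat_lit 60606) (nat_lit 0) (nat_lit 76) (XT.nd (nat_lit 51090) (nat_lit 0) (nat_lit 304) (XT.nd (nat_lit 4758) (nat_lit 3040) (nat_lit 0) xc112 xc113) (XT.nd (nat_lit 4758) (nat_lit 5776) (nat_lit 0) xc114 xc115)) (XT.nd (nat_lit 51168) (nat_lit 0) (nat_lit 152) (XT.nd (nat_lit 46410) (nat_lit 0) (nat_lit 2280) xc116 xc117) (XT.nd (nat_lit 46566) (nat_lit 0) (nat_lit 4332) xc118 xc119))) (XT.nd (nat_lit 102960) (nat_lit 0) (nat_lit 228) (XT.nd (nat_lit 51402) (nat_lit 0) (nat_lit 152) (XT.nd (nat_lit 46644) (nat_lit 0) (nat_lit 7372) xc120 xc121) (XT.nd (nat_lit 4758) (nat_lit 760) (nat_lit 0) xc122 xc123)) (XT.nd (nat_lit 51558) (nat_lit 0) (nat_lit 0) (XT.nd (nat_lit 4758) (nat_lit 2508) (nat_lit 0) xc124 xc125) (XT.nd (nat_lit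 4758) (nat_lit 4636) (nat_lit 0) xc126 xc127))))))) (XT.nd (nat_lit 1655628) (nat_lit 0) (nat_lit 3040) (XT.nd (nat_lit 751608) (nat_lit 0) (nat_lit 1216) (XT.nd (nat_lit 373620) (nat_lit 0) (nat_lit 532) (XT.nd (nat_lit 164970) (nat_lit 0) (nat_lit 304) (XT.nd (nat_lit 61230) (nat_lit 0) (nat_lit 76) (XT.nd (nat_lit 9516) (nat_lit 532) (nat_lit 0) (XT.nd (nat_lit 4758) (nat_lit 6384) (nat_lit 0) xc128 xc129) (XT.nd (nat_lit 46956) (nat_lit 0) (nat_lit 2052) xc130 xc131)) (XT.nd (nat_lit 51792) (nat_lit 0) (nat_lit 0) (XT.nd (nat_lit 47034) (nat_lit 0) (nat_lit 3724) xc132 xc133) (XT.nd (nat_lit 47112) (nat_lit 0) (nat_lit 5700) xc134 xc135))) (XT.nd (nat_lit 104130) (nat_lit 0) (nat_lit 76) (XT.nd (nat_lit 52026) (nat_lit 0) (nat_lit 0) (XT.nd (nat_lit 47268) (nat_lit 0) (nat_lit 7676) xc136 xc137) (XT.nd (nat_lit 4758) (nat_lit 684) (nat_lit 0) xc138 xc139)) (XT.nd (nat_lit 52182) (nat_lit 0) (nat_lit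 152) (XT.nd (nat_lit 4758) (nat_lit 1900) (nat_lit 0) xc140 xc141) (XT.nd (nat_lit 4758) (nat_lit 2964) (nat_lit 0) xc142 xc143)))) (XT.nd (nat_lit 166842) (nat_lit 0) (nat_lit 304) (XT.nd (nat_lit 104754) (nat_lit 0) (nat_lit 228) (XT.nd (nat_lit 52338) (nat_lit 0) (nat_lit 76) (XT.nd (nat_lit 4758) (nat_lit 4180) (nat_lit 0) xc144 xc145) (XT.nd (nat_lit 4758) (nat_lit 5472) (nat_lit 0) xc146 xc147)) (XT.nd (nat_lit 9516) (nat_lit 76) (nat_lit 0) (XT.nd (nat_lit 4758) (nat_lit 6916) (nat_lit 0) xc148 xc149) (XT.nd (nat_lit 47736) (nat_lit 0) (nat_lit 684) xc150 xc151))) (XT.nd (nat_lit 105378) (nat_lit 0) (nat_lit 152) (XT.nd (nat_lit 52650) (nat_lit 0) (nat_lit 152) (XT.nd (nat_lit 47892) (nat_lit 0) (nat_lit 1292) xc152 xc153) (XT.nd (nat_lit 47970) (nat_lit 0) (nat_lit 1748) xc154 xc155)) (XT.nd (nat_lit 52806) (nat_lit 0) (nat_lit 76) (XT.nd (nat_lit 48048) (nat_lit 0) (nat_lit 2204) xc156 xc157)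 (XT.nd (nat_lit 48126) (nat_lit 0) (nat_lit 2432) xc158 xc159))))) (XT.nd (nat_lit 426504) (nat_lit 0) (nat_lit 836) (XT.nd (nat_lit 212550) (nat_lit 0) (nat_lit 304) (XT.nd (nat_lit 106002) (nat_lit 0) (nat_lit 228) (XT.nd (nat_lit 52962) (nat_lit 0) (nat_lit 0) (XT.nd (nat_lit 48204) (nat_lit 0) (nat_lit 2584) xc160 xc161) (XT.nd (nat_lit 48282) (nat_lit 0) (nat_lit 2736) xc162 xc163)) (XT.nd (nat_lit 53196) (nat_lit 0) (nat_lit 0) (XT.nd (nat_lit 48438) (nat_lit 0) (nat_lit 2508) xc164 xc165) (XT.nd (nat_lit 48516) (nat_lit 0) (nat_lit 2356) xc166 xc167))) (XT.nd (nat_lit 106782) (nat_lit 0) (nat_lit 228) (XT.nd (nat_lit 53352) (nat_lit 0) (nat_lit 228) (XT.nd (nat_lit 48594) (nat_lit 0) (nat_lit 2128) xc168 xc169) (XT.nd (nat_lit 48672) (nat_lit 0) (nat_lit 1596) xc170 xc171)) (XT.nd (nat_lit 53508) (nat_lit 0) (nat_lit 76) (XT.nd (nat_lit 48750) (nat_lit 0) (nat_lit 1216) xc172 xc173) (XT.nd (nat_lit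 48828) (nat_lit 0) (nat_lit 532) xc174 xc175)))) (XT.nd (nat_lit 260052) (nat_lit 0) (nat_lit 608) (XT.nd (nat_lit 151944) (nat_lit 0) (nat_lit 304) (XT.nd (nat_lit 98046) (nat_lit 0) (nat_lit 76) (XT.nd (nat_lit 48984) (nat_lit 0) (nat_lit 76) xc176 xc177) (XT.nd (nat_lit 4758) (nat_lit 5852) (nat_lit 0) xc178 xc179)) (XT.nd (nat_lit 53976) (nat_lit 0) (nat_lit 76) (XT.nd (nat_lit 4758) (nat_lit 4104) (nat_lit 0) xc180 xc181) (XT.nd (nat_lit 4758) (nat_lit 2812) (nat_lit 0) xc182 xc183))) (XT.nd (nat_lit 108576) (nat_lit 0) (nat_lit 76) (XT.nd (nat_lit 54210) (nat_lit 0) (nat_lit 76) (XT.nd (nat_lit 4758) (nat_lit 1140) (nat_lit 0) xc184 xc185) (XT.nd (nat_lit 49530) (nat_lit 0) (nat_lit 5472) xc186 xc187)) (XT.nd (nat_lit 54366) (nat_lit 0) (nat_lit 228) (XT.nd (nat_lit 49608) (nat_lit 0) (nat_lit 3040) xc188 xc189) (XT.nd (nat_lit 49686) (nat_lit 0) (nat_lit 988) xc190 xc191)))))) (XT.nd (nat_lit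 1166178) (nat_lit 0) (nat_lit 3192) (XT.nd (nat_lit 531102) (nat_lit 0) (nat_lit 1292) (XT.nd (nat_lit 264342) (nat_lit 0) (nat_lit 608) (XT.nd (nat_lit 154518) (nat_lit 0) (nat_lit 304) (XT.nd (nat_lit 99762) (nat_lit 0) (nat_lit 304) (XT.nd (nat_lit 49842) (nat_lit 0) (nat_lit 152) xc192 xc193) (XT.nd (nat_lit 4758) (nat_lit 3572) (nat_lit 0) xc194 xc195)) (XT.nd (nat_lit 54834) (nat_lit 0) (nat_lit 152) (XT.nd (nat_lit 4758) (nat_lit 988) (nat_lit 0) xc196 xc197) (XT.nd (nat_lit 50154) (nat_lit 0) (nat_lit 2964) xc198 xc199))) (XT.nd (nat_lit 155922) (nat_lit 0) (nat_lit 304) (XT.nd (nat_lit 100698) (nat_lit 0) (nat_lit 304) (XT.nd (nat_lit 50310) (nat_lit 0) (nat_lit 152) xc200 xc201) (XT.nd (nat_lit 4758) (nat_lit 4636) (nat_lit 0) xc202 xc203)) (XT.nd (nat_lit 55302) (nat_lit 0) (nat_lit 152) (XT.nd (nat_lit 4758) (nat_lit 760) (nat_lit 0) xc204 xc205) (XT.nd (nat_lit 50700) (nat_lit 0) (nat_lit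 1140) xc206 xc207)))) (XT.nd (nat_lit 315666) (nat_lit 0) (nat_lit 912) (XT.nd (nat_lit 157326) (nat_lit 0) (nat_lit 532) (XT.nd (nat_lit 101634) (nat_lit 0) (nat_lit 152) (XT.nd (nat_lit 50778) (nat_lit 0) (nat_lit 152) xc208 xc209) (XT.nd (nat_lit 4758) (nat_lit 760) (nat_lit 0) xc210 xc211)) (XT.nd (nat_lit 102258) (nat_lit 0) (nat_lit 152) (XT.nd (nat_lit 51090) (nat_lit 0) (nat_lit 0) xc212 xc213) (XT.nd (nat_lit 4758) (nat_lit 3192) (nat_lit 0) xc214 xc215))) (XT.nd (nat_lit 159120) (nat_lit 0) (nat_lit 380) (XT.nd (nat_lit 56082) (nat_lit 0) (nat_lit 152) (XT.nd (nat_lit 51324) (nat_lit 0) (nat_lit 988) xc216 xc217) (XT.nd (nat_lit 51480) (nat_lit 0) (nat_lit 228) xc218 xc219)) (XT.nd (nat_lit 56394) (nat_lit 0) (nat_lit 152) (XT.nd (nat_lit 51636) (nat_lit 0) (nat_lit 836) xc220 xc221) (XT.nd (nat_lit 51870) (nat_lit 0) (nat_lit 304) xc222 xc223))))) (XT.nd (nat_lit 797940) (nat_lit 0) (nat_lit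 4180) (XT.nd (nat_lit 371670) (nat_lit 0) (nat_lit 1216) (XT.nd (nat_lit 161226) (nat_lit 0) (nat_lit 456) (XT.nd (nat_lit 104130) (nat_lit 0) (nat_lit 456) (XT.nd (nat_lit 52026) (nat_lit 0) (nat_lit 0) xc224 xc225) (XT.nd (nat_lit 52338) (nat_lit 0) (nat_lit 1520) xc226 xc227)) (XT.nd (nat_lit 104910) (nat_lit 0) (nat_lit 532) (XT.nd (nat_lit 52416) (nat_lit 0) (nat_lit 228) xc228 xc229) (XT.nd (nat_lit 52650) (nat_lit 0) (nat_lit 228) xc230 xc231))) (XT.nd (nat_lit 212160) (nat_lit 0) (nat_lit 760) (XT.nd (nat_lit 105846) (nat_lit 0) (nat_lit 532) (XT.nd (nat_lit 52884) (nat_lit 0) (nat_lit 304) xc232 xc233) (XT.nd (nat_lit 53118) (nat_lit 0) (nat_lit 228) xc234 xc235)) (XT.nd (nat_lit 106782) (nat_lit 0) (nat_lit 1520) (XT.nd (nat_lit 53274) (nat_lit 0) (nat_lit 1216) xc236 xc237) (XT.nd (nat_lit 53586) (nat_lit 0) (nat_lit 0) xc238 xc239)))) (XT.nd (nat_lit 583362) (nat_lit 0) (nat_lit 3572) (XT.nd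 (nat_lit 265278) (nat_lit 0) (nat_lit 1064) (XT.nd (nat_lit 156936) (nat_lit 0) (nat_lit 760) (XT.nd (nat_lit 53820) (nat_lit 0) (nat_lit 0) xc240 xc241) (XT.nd (nat_lit 54132) (nat_lit 0) (nat_lit 304) xc242 xc243)) (XT.nd (nat_lit 158496) (nat_lit 0) (nat_lit 1216) (XT.nd (nat_lit 103974) (nat_lit 0) (nat_lit 836) xc244 xc245) (XT.nd (nat_lit 54678) (nat_lit 0) (nat_lit 380) xc246 xc247))) (XT.nd (nat_lit 372918) (nat_lit 0) (nat_lit 2508) (XT.nd (nat_lit 160524) (nat_lit 0) (nat_lit 912) (XT.nd (nat_lit 105300) (nat_lit 0) (nat_lit 456) xc248 xc249) (XT.nd (nat_lit 105924) (nat_lit 0) (nat_lit 1064) xc250 xc251)) (XT.nd (nat_lit 317226) (nat_lit 0) (nat_lit 2964) (XT.nd (nat_lit 158106) (nat_lit 0) (nat_lit 1748) xc252 xc253) (XT.nd (nat_lit 160212) (nat_lit 0) (nat_lit 684) xc254 xc255)))))))) XT.nil))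

set_option maxRecDepth 10000000 in
noncomputable def Te : XT := (XT.nd (nat_lit 15650466) (nat_lit 0) (nat_lit 228) XT.nil (XT.nd (nat_lit 7693140) (nat_lit 0) (nat_lit 0) (XT.nd (nat_lit 5142150) (nat_lit 3420) (nat_lit 0) (XT.nd (nat_lit 3602742) (nat_lit 3952) (nat_lit 0) (XT.nd (nat_lit 2496702) (nat_lit 3496) (nat_lit 0) (XT.nd (nat_lit 1750866) (nat_lit 4028) (nat_lit 0) (XT.nd (nat_lit 1219998) (nat_lit 3800) (nat_lit 0) (XT.nd (nat_lit 848640) (nat_lit 3420) (nat_lit 0) (XT.nd (nat_lit 583752) (nat_lit 3344) (nat_lit 0) (XT.nd (nat_lit 423930) (nat_lit 1900) (nat_lit 0) (XT.nd (nat_lit 265356) (nat_lit 836) (nat_lit 0) ec0 ec1) (XT.nd (nat_lit 105768) (nat_lit 608) (nat_lit 0) ec2 ec3)) (XT.nd (nat_lit 158184) (nat_lit 1064) (nat_lit 0) (XT.nd (nat_lit 53820) (nat_lit 1064) (nat_lit 0) ec4 ec5) (XT.nd (nat_lit 53430) (nat_lit 608) (nat_lit 0) ec6 ec7))) (XT.nd (nat_lit 211458) (nat_lit 1216)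 (nat_lit 0) (XT.nd (nat_lit 106002) (nat_lit 1292) (nat_lit 0) (XT.nd (nat_lit 53040) (nat_lit 456) (nat_lit 0) ec8 ec9) (XT.nd (nat_lit 52806) (nat_lit 380) (nat_lit 0) ec10 ec11)) (XT.nd (nat_lit 55380) (nat_lit 836) (nat_lit 0) (XT.nd (nat_lit 52416) (nat_lit 0) (nat_lit 380) ec12 ec13) (XT.nd (nat_lit 52338) (nat_lit 380) (nat_lit 0) ec14 ec15)))) (XT.nd (nat_lit 267306) (nat_lit 1748) (nat_lit 0) (XT.nd (nat_lit 158496) (nat_lit 684) (nat_lit 0) (XT.nd (nat_lit 54912) (nat_lit 608) (nat_lit 0) (XT.nd (nat_lit 51948) (nat_lit 0) (nat_lit 0) ec16 ec17) (XT.nd (nat_lit 51870) (nat_lit 304) (nat_lit 0) ec18 ec19)) (XT.nd (nat_lit 54444) (nat_lit 304) (nat_lit 0) (XT.nd (nat_lit 51480) (nat_lit 0) (nat_lit 3800) ec20 ec21) (XT.nd (nat_lit 51402) (nat_lit 0) (nat_lit 0) ec22 ec23))) (XT.nd (nat_lit 156156) (nat_lit 532) (nat_lit 0) (XT.nd (nat_lit 102258) (nat_lit 380) (nat_lit 0) (XT.nd (nat_lit 51168)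 (nat_lit 228) (nat_lit 0) ec24 ec25) (XT.nd (nat_lit 2964) (nat_lit 3268) (nat_lit 0) ec26 ec27)) (XT.nd (nat_lit 53742) (nat_lit 304) (nat_lit 0) (XT.nd (nat_lit 2964) (nat_lit 836) (nat_lit 0) ec28 ec29) (XT.nd (nat_lit 50700) (nat_lit 0) (nat_lit 5396) ec30 ec31))))) (XT.nd (nat_lit 423384) (nat_lit 1748) (nat_lit 0) (XT.nd (nat_lit 212940) (nat_lit 1064) (nat_lit 0) (XT.nd (nat_lit 106782) (nat_lit 456) (nat_lit 0) (XT.nd (nat_lit 53430) (nat_lit 532) (nat_lit 0) (XT.nd (nat_lit 50466) (nat_lit 0) (nat_lit 4028) ec32 ec33) (XT.nd (nat_lit 50388) (nat_lit 0) (nat_lit 3496) ec34 ec35)) (XT.nd (nat_lit 53118) (nat_lit 228) (nat_lit 0) (XT.nd (nat_lit 50154) (nat_lit 0) (nat_lit 3420) ec36 ec37) (XT.nd (nat_lit 50076) (nat_lit 0) (nat_lit 3268) ec38 ec39))) (XT.nd (nat_lit 105534) (nat_lit 380) (nat_lit 0) (XT.nd (nat_lit 52806) (nat_lit 456) (nat_lit 0) (XT.nd (nat_lit 49842) (nat_lit 0) (nat_lit 4180)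 ec40 ec41) (XT.nd (nat_lit 49764) (nat_lit 0) (nat_lit 4940) ec42 ec43)) (XT.nd (nat_lit 52494) (nat_lit 228) (nat_lit 0) (XT.nd (nat_lit 49530) (nat_lit 0) (nat_lit 6688) ec44 ec45) (XT.nd (nat_lit 2964) (nat_lit 228) (nat_lit 0) ec46 ec47)))) (XT.nd (nat_lit 162084) (nat_lit 1064) (nat_lit 0) (XT.nd (nat_lit 104286) (nat_lit 152) (nat_lit 0) (XT.nd (nat_lit 52182) (nat_lit 380) (nat_lit 0) (XT.nd (nat_lit 2886) (nat_lit 1444) (nat_lit 0) ec48 ec49) (XT.nd (nat_lit 2964) (nat_lit 3116) (nat_lit 0) ec50 ec51)) (XT.nd (nat_lit 51870) (nat_lit 0) (nat_lit 1368) (XT.nd (nat_lit 2886) (nat_lit 5700) (nat_lit 0) ec52 ec53) (XT.nd (nat_lit 2964) (nat_lit 6992) (nat_lit 0) ec54 ec55))) (XT.nd (nat_lit 103194) (nat_lit 304) (nat_lit 0) (XT.nd (nat_lit 51714) (nat_lit 532) (nat_lit 0) (XT.nd (nat_lit 48750) (nat_lit 0) (nat_lit 4104) ec56 ec57) (XT.nd (nat_lit 48516) (nat_lit 0) (nat_lit 8740) ec58 ec59)) (XT.nd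 (nat_lit 51246) (nat_lit 0) (nat_lit 152) (XT.nd (nat_lit 2964) (nat_lit 1976) (nat_lit 0) ec60 ec61) (XT.nd (nat_lit 2964) (nat_lit 5320) (nat_lit 0) ec62 ec63)))))) (XT.nd (nat_lit 582972) (nat_lit 1368) (nat_lit 0) (XT.nd (nat_lit 315822) (nat_lit 1140) (nat_lit 0) (XT.nd (nat_lit 158574) (nat_lit 380) (nat_lit 0) (XT.nd (nat_lit 101946) (nat_lit 304) (nat_lit 0) (XT.nd (nat_lit 51012) (nat_lit 152) (nat_lit 0) (XT.nd (nat_lit 48048) (nat_lit 0) (nat_lit 3420) ec64 ec65) (XT.nd (nat_lit 47970) (nat_lit 0) (nat_lit 8512) ec66 ec67)) (XT.nd (nat_lit 50700) (nat_lit 0) (nat_lit 1064) (XT.nd (nat_lit 2886) (nat_lit 2356) (nat_lit 0) ec68 ec69) (XT.nd (nat_lit 2964) (nat_lit 5624) (nat_lit 0) ec70 ec71))) (XT.nd (nat_lit 101010) (nat_lit 76) (nat_lit 0) (XT.nd (nat_lit 50544) (nat_lit 228) (nat_lit 0) (XT.nd (nat_lit 47580) (nat_lit 0) (nat_lit 5624) ec72 ec73) (XT.nd (nat_lit 2964) (nat_lit 760) (nat_lit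 0) ec74 ec75)) (XT.nd (nat_lit 5850) (nat_lit 380) (nat_lit 0) (XT.nd (nat_lit 2886) (nat_lit 4636) (nat_lit 0) ec76 ec77) (XT.nd (nat_lit 47424) (nat_lit 0) (nat_lit 4256) ec78 ec79)))) (XT.nd (nat_lit 156000) (nat_lit 532) (nat_lit 0) (XT.nd (nat_lit 56082) (nat_lit 304) (nat_lit 0) (XT.nd (nat_lit 50154) (nat_lit 76) (nat_lit 0) (XT.nd (nat_lit 2886) (nat_lit 228) (nat_lit 0) ec80 ec81) (XT.nd (nat_lit 2964) (nat_lit 4332) (nat_lit 0) ec82 ec83)) (XT.nd (nat_lit 49998) (nat_lit 76) (nat_lit 0) (XT.nd (nat_lit 47034) (nat_lit 0) (nat_lit 4560) ec84 ec85) (XT.nd (nat_lit 2964) (nat_lit 304) (nat_lit 0) ec86 ec87))) (XT.nd (nat_lit 55614) (nat_lit 304) (nat_lit 0) (XT.nd (nat_lit 5850) (nat_lit 608) (nat_lit 0) (XT.nd (nat_lit 2886) (nat_lit 4484) (nat_lit 0) ec88 ec89) (XT.nd (nat_lit 46800) (nat_lit 0) (nat_lit 5624) ec90 ec91)) (XT.nd (nat_lit 49608) (nat_lit 0) (nat_lit 1824) (XT.nd (nat_lit 2964)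 (nat_lit 1216) (nat_lit 0) ec92 ec93) (XT.nd (nat_lit 2964) (nat_lit 4864) (nat_lit 0) ec94 ec95))))) (XT.nd (nat_lit 263328) (nat_lit 836) (nat_lit 0) (XT.nd (nat_lit 153660) (nat_lit 228) (nat_lit 0) (XT.nd (nat_lit 98670) (nat_lit 76) (nat_lit 0) (XT.nd (nat_lit 49374) (nat_lit 152) (nat_lit 0) (XT.nd (nat_lit 46410) (nat_lit 0) (nat_lit 8284) ec96 ec97) (XT.nd (nat_lit 2964) (nat_lit 2812) (nat_lit 0) ec98 ec99)) (XT.nd (nat_lit 5850) (nat_lit 4028) (nat_lit 0) (XT.nd (nat_lit 2886) (nat_lit 6612) (nat_lit 0) ec100 ec101) (XT.nd (nat_lit 2964) (nat_lit 228) (nat_lit 0) ec102 ec103))) (XT.nd (nat_lit 54912) (nat_lit 76) (nat_lit 0) (XT.nd (nat_lit 5850) (nat_lit 1368) (nat_lit 0) (XT.nd (nat_lit 2886) (nat_lit 4484) (nat_lit 0) ec104 ec105) (XT.nd (nat_lit 46098) (nat_lit 0) (nat_lit 7752) ec106 ec107)) (XT.nd (nat_lit 48828) (nat_lit 0) (nat_lit 4408) (XT.nd (nat_lit 2886) (nat_lit 2812) (nat_lit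 0) ec108 ec109) (XT.nd (nat_lit 2964) (nat_lit 6460) (nat_lit 0) ec110 ec111)))) (XT.nd (nat_lit 109044) (nat_lit 456) (nat_lit 0) (XT.nd (nat_lit 54600) (nat_lit 152) (nat_lit 0) (XT.nd (nat_lit 48672) (nat_lit 0) (nat_lit 2280) (XT.nd (nat_lit 2886) (nat_lit 760) (nat_lit 0) ec112 ec113) (XT.nd (nat_lit 2964) (nat_lit 4940) (nat_lit 0) ec114 ec115)) (XT.nd (nat_lit 48516) (nat_lit 0) (nat_lit 684) (XT.nd (nat_lit 45552) (nat_lit 0) (nat_lit 10868) ec116 ec117) (XT.nd (nat_lit 2964) (nat_lit 3952) (nat_lit 0) ec118 ec119))) (XT.nd (nat_lit 96642) (nat_lit 152) (nat_lit 0) (XT.nd (nat_lit 48360) (nat_lit 228) (nat_lit 0) (XT.nd (nat_lit 45396) (nat_lit 0) (nat_lit 7676) ec120 ec121) (XT.nd (nat_lit 2964) (nat_lit 3040) (nat_lit 0) ec122 ec123)) (XT.nd (nat_lit 5928) (nat_lit 5624) (nat_lit 0) (XT.nd (nat_lit 2964) (nat_lit 6916) (nat_lit 0) ec124 ec125) (XT.nd (nat_lit 2964) (nat_lit 1596) (nat_lit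 0) ec126 ec127))))))) (XT.nd (nat_lit 804570) (nat_lit 1976) (nat_lit 0) (XT.nd (nat_lit 426816) (nat_lit 912) (nat_lit 0) (XT.nd (nat_lit 214578) (nat_lit 532) (nat_lit 0) (XT.nd (nat_lit 107562) (nat_lit 304) (nat_lit 0) (XT.nd (nat_lit 53820) (nat_lit 152) (nat_lit 0) (XT.nd (nat_lit 5850) (nat_lit 4028) (nat_lit 0) (XT.nd (nat_lit 2886) (nat_lit 5624) (nat_lit 0) ec128 ec129) (XT.nd (nat_lit 2964) (nat_lit 684) (nat_lit 0) ec130 ec131)) (XT.nd (nat_lit 5850) (nat_lit 3116) (nat_lit 0) (XT.nd (nat_lit 2886) (nat_lit 4940) (nat_lit 0) ec132 ec133) (XT.nd (nat_lit 44928) (nat_lit 0) (nat_lit 13604) ec134 ec135))) (XT.nd (nat_lit 53586) (nat_lit 228) (nat_lit 0) (XT.nd (nat_lit 5850) (nat_lit 2280) (nat_lit 0) (XT.nd (nat_lit 2886) (nat_lit 4104) (nat_lit 0) ec136 ec137) (XT.nd (nat_lit 44772) (nat_lit 0) (nat_lit 11628) ec138 ec139)) (XT.nd (nat_lit 5850) (nat_lit 1824) (nat_lit 0) (XT.nd (nat_lit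 2886) (nat_lit 3800) (nat_lit 0) ec140 ec141) (XT.nd (nat_lit 44616) (nat_lit 0) (nat_lit 10792) ec142 ec143)))) (XT.nd (nat_lit 106392) (nat_lit 304) (nat_lit 0) (XT.nd (nat_lit 53274) (nat_lit 152) (nat_lit 0) (XT.nd (nat_lit 5850) (nat_lit 1444) (nat_lit 0) (XT.nd (nat_lit 2886) (nat_lit 3496) (nat_lit 0) ec144 ec145) (XT.nd (nat_lit 44460) (nat_lit 0) (nat_lit 9880) ec146 ec147)) (XT.nd (nat_lit 5850) (nat_lit 1216) (nat_lit 0) (XT.nd (nat_lit 2886) (nat_lit 3496) (nat_lit 0) ec148 ec149) (XT.nd (nat_lit 44304) (nat_lit 0) (nat_lit 9728) ec150 ec151))) (XT.nd (nat_lit 52962) (nat_lit 76) (nat_lit 0) (XT.nd (nat_lit 5850) (nat_lit 1368) (nat_lit 0) (XT.nd (nat_lit 2886) (nat_lit 3420) (nat_lit 0) ec152 ec153) (XT.nd (nat_lit 44148) (nat_lit 0) (nat_lit 9956) ec154 ec155)) (XT.nd (nat_lit 5928) (nat_lit 1292) (nat_lit 0) (XT.nd (nat_lit 2964) (nat_lit 3420) (nat_lit 0) ec156 ec157) (XT.nd (nat_lit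 43992) (nat_lit 0) (nat_lit 10336) ec158 ec159))))) (XT.nd (nat_lit 209976) (nat_lit 304) (nat_lit 0) (XT.nd (nat_lit 105300) (nat_lit 380) (nat_lit 0) (XT.nd (nat_lit 52728) (nat_lit 76) (nat_lit 0) (XT.nd (nat_lit 5850) (nat_lit 1596) (nat_lit 0) (XT.nd (nat_lit 2886) (nat_lit 3420) (nat_lit 0) ec160 ec161) (XT.nd (nat_lit 43914) (nat_lit 0) (nat_lit 10792) ec162 ec163)) (XT.nd (nat_lit 5850) (nat_lit 1900) (nat_lit 0) (XT.nd (nat_lit 2886) (nat_lit 3572) (nat_lit 0) ec164 ec165) (XT.nd (nat_lit 43758) (nat_lit 0) (nat_lit 11856) ec166 ec167))) (XT.nd (nat_lit 52416) (nat_lit 228) (nat_lit 0) (XT.nd (nat_lit 5850) (nat_lit 2508) (nat_lit 0) (XT.nd (nat_lit 2886) (nat_lit 3648) (nat_lit 0) ec168 ec169) (XT.nd (nat_lit 43602) (nat_lit 0) (nat_lit 13984) ec170 ec171)) (XT.nd (nat_lit 5850) (nat_lit 3268) (nat_lit 0) (XT.nd (nat_lit 2886) (nat_lit 4028) (nat_lit 0) ec172 ec173) (XT.nd (nat_lit 2964) (nat_lit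 380) (nat_lit 0) ec174 ec175)))) (XT.nd (nat_lit 104052) (nat_lit 76) (nat_lit 0) (XT.nd (nat_lit 52104) (nat_lit 152) (nat_lit 0) (XT.nd (nat_lit 5850) (nat_lit 4256) (nat_lit 0) (XT.nd (nat_lit 2886) (nat_lit 4256) (nat_lit 0) ec176 ec177) (XT.nd (nat_lit 2964) (nat_lit 1140) (nat_lit 0) ec178 ec179)) (XT.nd (nat_lit 5850) (nat_lit 5396) (nat_lit 0) (XT.nd (nat_lit 2886) (nat_lit 5168) (nat_lit 0) ec180 ec181) (XT.nd (nat_lit 2964) (nat_lit 2052) (nat_lit 0) ec182 ec183))) (XT.nd (nat_lit 11778) (nat_lit 304) (nat_lit 0) (XT.nd (nat_lit 5850) (nat_lit 6764) (nat_lit 0) (XT.nd (nat_lit 2886) (nat_lit 6232) (nat_lit 0) ec184 ec185) (XT.nd (nat_lit 2964) (nat_lit 2812) (nat_lit 0) ec186 ec187)) (XT.nd (nat_lit 46020) (nat_lit 0) (nat_lit 1216) (XT.nd (nat_lit 43056) (nat_lit 0) (nat_lit 8740) ec188 ec189) (XT.nd (nat_lit 2964) (nat_lit 3040) (nat_lit 0) ec190 ec191)))))) (XT.nd (nat_lit 370812) (nat_lit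 912) (nat_lit 0) (XT.nd (nat_lit 205920) (nat_lit 456) (nat_lit 0) (XT.nd (nat_lit 103272) (nat_lit 228) (nat_lit 0) (XT.nd (nat_lit 51714) (nat_lit 228) (nat_lit 0) (XT.nd (nat_lit 45786) (nat_lit 0) (nat_lit 2584) (XT.nd (nat_lit 42822) (nat_lit 0) (nat_lit 11704) ec192 ec193) (XT.nd (nat_lit 2964) (nat_lit 3496) (nat_lit 0) ec194 ec195)) (XT.nd (nat_lit 45630) (nat_lit 0) (nat_lit 4332) (XT.nd (nat_lit 42666) (nat_lit 0) (nat_lit 16188) ec196 ec197) (XT.nd (nat_lit 2964) (nat_lit 4104) (nat_lit 0) ec198 ec199))) (XT.nd (nat_lit 51402) (nat_lit 152) (nat_lit 0) (XT.nd (nat_lit 45474) (nat_lit 0) (nat_lit 6384) (XT.nd (nat_lit 2886) (nat_lit 1444) (nat_lit 0) ec200 ec201) (XT.nd (nat_lit 2964) (nat_lit 5624) (nat_lit 0) ec202 ec203)) (XT.nd (nat_lit 5850) (nat_lit 228) (nat_lit 0) (XT.nd (nat_lit 2886) (nat_lit 2964) (nat_lit 0) ec204 ec205) (XT.nd (nat_lit 42432) (nat_lit 0) (nat_lit 9348) ec206 ec207))))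 (XT.nd (nat_lit 102180) (nat_lit 228) (nat_lit 0) (XT.nd (nat_lit 51168) (nat_lit 152) (nat_lit 0) (XT.nd (nat_lit 5850) (nat_lit 2052) (nat_lit 0) (XT.nd (nat_lit 2886) (nat_lit 3116) (nat_lit 0) ec208 ec209) (XT.nd (nat_lit 42354) (nat_lit 0) (nat_lit 13680) ec210 ec211)) (XT.nd (nat_lit 5850) (nat_lit 3876) (nat_lit 0) (XT.nd (nat_lit 2886) (nat_lit 3800) (nat_lit 0) ec212 ec213) (XT.nd (nat_lit 2964) (nat_lit 1064) (nat_lit 0) ec214 ec215))) (XT.nd (nat_lit 11778) (nat_lit 228) (nat_lit 0) (XT.nd (nat_lit 5850) (nat_lit 6308) (nat_lit 0) (XT.nd (nat_lit 2886) (nat_lit 5168) (nat_lit 0) ec216 ec217) (XT.nd (nat_lit 2964) (nat_lit 2964) (nat_lit 0) ec218 ec219)) (XT.nd (nat_lit 45006) (nat_lit 0) (nat_lit 2280) (XT.nd (nat_lit 42042) (nat_lit 0) (nat_lit 9576) ec220 ec221) (XT.nd (nat_lit 2964) (nat_lit 3040) (nat_lit 0) ec222 ec223))))) (XT.nd (nat_lit 202098) (nat_lit 456) (nat_lit 0) (XT.nd (nat_lit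 101322) (nat_lit 228) (nat_lit 0) (XT.nd (nat_lit 50700) (nat_lit 152) (nat_lit 0) (XT.nd (nat_lit 44772) (nat_lit 0) (nat_lit 4484) (XT.nd (nat_lit 41808) (nat_lit 0) (nat_lit 15276) ec224 ec225) (XT.nd (nat_lit 2964) (nat_lit 4104) (nat_lit 0) ec226 ec227)) (XT.nd (nat_lit 44694) (nat_lit 0) (nat_lit 7600) (XT.nd (nat_lit 2886) (nat_lit 1824) (nat_lit 0) ec228 ec229) (XT.nd (nat_lit 2964) (nat_lit 5928) (nat_lit 0) ec230 ec231))) (XT.nd (nat_lit 50466) (nat_lit 152) (nat_lit 0) (XT.nd (nat_lit 5850) (nat_lit 1368) (nat_lit 0) (XT.nd (nat_lit 2886) (nat_lit 2812) (nat_lit 0) ec232 ec233) (XT.nd (nat_lit 41652) (nat_lit 0) (nat_lit 12616) ec234 ec235)) (XT.nd (nat_lit 5850) (nat_lit 3876) (nat_lit 0) (XT.nd (nat_lit 2886) (nat_lit 3420) (nat_lit 0) ec236 ec237) (XT.nd (nat_lit 2964) (nat_lit 1064) (nat_lit 0) ec238 ec239)))) (XT.nd (nat_lit 61932) (nat_lit 228) (nat_lit 0) (XT.nd (nat_lit 11778) (nat_lit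 912) (nat_lit 0) (XT.nd (nat_lit 5850) (nat_lit 6308) (nat_lit 0) (XT.nd (nat_lit 2886) (nat_lit 5168) (nat_lit 0) ec240 ec241) (XT.nd (nat_lit 2964) (nat_lit 2964) (nat_lit 0) ec242 ec243)) (XT.nd (nat_lit 44226) (nat_lit 0) (nat_lit 3648) (XT.nd (nat_lit 41262) (nat_lit 0) (nat_lit 11780) ec244 ec245) (XT.nd (nat_lit 2964) (nat_lit 3268) (nat_lit 0) ec246 ec247))) (XT.nd (nat_lit 49998) (nat_lit 152) (nat_lit 0) (XT.nd (nat_lit 44070) (nat_lit 0) (nat_lit 6992) (XT.nd (nat_lit 2886) (nat_lit 988) (nat_lit 0) ec248 ec249) (XT.nd (nat_lit 2964) (nat_lit 4864) (nat_lit 0) ec250 ec251)) (XT.nd (nat_lit 5928) (nat_lit 1064) (nat_lit 0) (XT.nd (nat_lit 2964) (nat_lit 2812) (nat_lit 0) ec252 ec253) (XT.nd (nat_lit 41106) (nat_lit 0) (nat_lit 12008) ec254 ec255)))))))) (XT.nd (nat_lit 1218126) (nat_lit 684) (nat_lit 0) (XT.nd (nat_lit 635622) (nat_lit 1140) (nat_lit 0) (XT.nd (nat_lit 320190) (nat_lit 836)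 (nat_lit 0) (XT.nd (nat_lit 160680) (nat_lit 456) (nat_lit 0) (XT.nd (nat_lit 61542) (nat_lit 228) (nat_lit 0) (XT.nd (nat_lit 49764) (nat_lit 0) (nat_lit 1444) (XT.nd (nat_lit 5850) (nat_lit 4028) (nat_lit 0) (XT.nd (nat_lit 2886) (nat_lit 3344) (nat_lit 0) ec256 ec257) (XT.nd (nat_lit 2964) (nat_lit 1216) (nat_lit 0) ec258 ec259)) (XT.nd (nat_lit 5850) (nat_lit 6232) (nat_lit 0) (XT.nd (nat_lit 2886) (nat_lit 5320) (nat_lit 0) ec260 ec261) (XT.nd (nat_lit 2964) (nat_lit 2812) (nat_lit 0) ec262 ec263))) (XT.nd (nat_lit 49608) (nat_lit 76) (nat_lit 0) (XT.nd (nat_lit 43680) (nat_lit 0) (nat_lit 4788) (XT.nd (nat_lit 40716) (nat_lit 0) (nat_lit 14136) ec264 ec265) (XT.nd (nat_lit 2964) (nat_lit 3572) (nat_lit 0) ec266 ec267)) (XT.nd (nat_lit 43602) (nat_lit 0) (nat_lit 9120) (XT.nd (nat_lit 2886) (nat_lit 2128) (nat_lit 0) ec268 ec269) (XT.nd (nat_lit 2964) (nat_lit 6460) (nat_lit 0) ec270 ec271))))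 (XT.nd (nat_lit 61152) (nat_lit 304) (nat_lit 0) (XT.nd (nat_lit 49374) (nat_lit 0) (nat_lit 456) (XT.nd (nat_lit 5850) (nat_lit 2736) (nat_lit 0) (XT.nd (nat_lit 2886) (nat_lit 2812) (nat_lit 0) ec272 ec273) (XT.nd (nat_lit 40560) (nat_lit 0) (nat_lit 17328) ec274 ec275)) (XT.nd (nat_lit 5850) (nat_lit 5852) (nat_lit 0) (XT.nd (nat_lit 2886) (nat_lit 4180) (nat_lit 0) ec276 ec277) (XT.nd (nat_lit 2964) (nat_lit 2888) (nat_lit 0) ec278 ec279))) (XT.nd (nat_lit 49218) (nat_lit 76) (nat_lit 0) (XT.nd (nat_lit 43290) (nat_lit 0) (nat_lit 4332) (XT.nd (nat_lit 40326) (nat_lit 0) (nat_lit 12160) ec280 ec281) (XT.nd (nat_lit 2964) (nat_lit 3192) (nat_lit 0) ec282 ec283)) (XT.nd (nat_lit 43212) (nat_lit 0) (nat_lit 8664) (XT.nd (nat_lit 2964) (nat_lit 1444) (nat_lit 0) ec284 ec285) (XT.nd (nat_lit 2964) (nat_lit 5624) (nat_lit 0) ec286 ec287))))) (XT.nd (nat_lit 158262) (nat_lit 456) (nat_lit 0) (XT.nd (nat_lit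 60762) (nat_lit 228) (nat_lit 0) (XT.nd (nat_lit 48984) (nat_lit 0) (nat_lit 684) (XT.nd (nat_lit 5850) (nat_lit 2508) (nat_lit 0) (XT.nd (nat_lit 2886) (nat_lit 2964) (nat_lit 0) ec288 ec289) (XT.nd (nat_lit 40170) (nat_lit 0) (nat_lit 17404) ec290 ec291)) (XT.nd (nat_lit 5850) (nat_lit 5776) (nat_lit 0) (XT.nd (nat_lit 2886) (nat_lit 4028) (nat_lit 0) ec292 ec293) (XT.nd (nat_lit 2964) (nat_lit 2888) (nat_lit 0) ec294 ec295))) (XT.nd (nat_lit 48828) (nat_lit 152) (nat_lit 0) (XT.nd (nat_lit 42900) (nat_lit 0) (nat_lit 4712) (XT.nd (nat_lit 39936) (nat_lit 0) (nat_lit 12768) ec296 ec297) (XT.nd (nat_lit 2964) (nat_lit 3268) (nat_lit 0) ec298 ec299)) (XT.nd (nat_lit 42744) (nat_lit 0) (nat_lit 9956) (XT.nd (nat_lit 2886) (nat_lit 2052) (nat_lit 0) ec300 ec301) (XT.nd (nat_lit 2964) (nat_lit 6460) (nat_lit 0) ec302 ec303)))) (XT.nd (nat_lit 60372) (nat_lit 380) (nat_lit 0) (XT.nd (nat_lit 48594) (nat_lit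 0) (nat_lit 1900) (XT.nd (nat_lit 5850) (nat_lit 3496) (nat_lit 0) (XT.nd (nat_lit 2886) (nat_lit 2812) (nat_lit 0) ec304 ec305) (XT.nd (nat_lit 2964) (nat_lit 532) (nat_lit 0) ec306 ec307)) (XT.nd (nat_lit 5850) (nat_lit 6156) (nat_lit 0) (XT.nd (nat_lit 2886) (nat_lit 4636) (nat_lit 0) ec308 ec309) (XT.nd (nat_lit 2964) (nat_lit 2964) (nat_lit 0) ec310 ec311))) (XT.nd (nat_lit 48438) (nat_lit 228) (nat_lit 0) (XT.nd (nat_lit 42510) (nat_lit 0) (nat_lit 6460) (XT.nd (nat_lit 39546) (nat_lit 0) (nat_lit 16644) ec312 ec313) (XT.nd (nat_lit 2964) (nat_lit 3952) (nat_lit 0) ec314 ec315)) (XT.nd (nat_lit 5928) (nat_lit 912) (nat_lit 0) (XT.nd (nat_lit 2964) (nat_lit 2964) (nat_lit 0) ec316 ec317) (XT.nd (nat_lit 39468) (nat_lit 0) (nat_lit 13604) ec318 ec319)))))) (XT.nd (nat_lit 275106) (nat_lit 608) (nat_lit 0) (XT.nd (nat_lit 156000) (nat_lit 304) (nat_lit 0) (XT.nd (nat_lit 59982) (nat_lit 228) (nat_lit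 0) (XT.nd (nat_lit 48204) (nat_lit 0) (nat_lit 4332) (XT.nd (nat_lit 5850) (nat_lit 5472) (nat_lit 0) (XT.nd (nat_lit 2886) (nat_lit 3268) (nat_lit 0) ec320 ec321) (XT.nd (nat_lit 2964) (nat_lit 2660) (nat_lit 0) ec322 ec323)) (XT.nd (nat_lit 5850) (nat_lit 7144) (nat_lit 0) (XT.nd (nat_lit 2886) (nat_lit 6992) (nat_lit 0) ec324 ec325) (XT.nd (nat_lit 2964) (nat_lit 2888) (nat_lit 0) ec326 ec327))) (XT.nd (nat_lit 48048) (nat_lit 0) (nat_lit 0) (XT.nd (nat_lit 42120) (nat_lit 0) (nat_lit 10108) (XT.nd (nat_lit 2886) (nat_lit 1824) (nat_lit 0) ec328 ec329) (XT.nd (nat_lit 2964) (nat_lit 5928) (nat_lit 0) ec330 ec331)) (XT.nd (nat_lit 5850) (nat_lit 3648) (nat_lit 0) (XT.nd (nat_lit 2886) (nat_lit 2964) (nat_lit 0) ec332 ec333) (XT.nd (nat_lit 2964) (nat_lit 836) (nat_lit 0) ec334 ec335)))) (XT.nd (nat_lit 59592) (nat_lit 76) (nat_lit 0) (XT.nd (nat_lit 11778) (nat_lit 2964) (nat_lit 0) (XT.nd (nat_lit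 5850) (nat_lit 6232) (nat_lit 0) (XT.nd (nat_lit 2886) (nat_lit 4864) (nat_lit 0) ec336 ec337) (XT.nd (nat_lit 2964) (nat_lit 2964) (nat_lit 0) ec338 ec339)) (XT.nd (nat_lit 41886) (nat_lit 0) (nat_lit 8208) (XT.nd (nat_lit 2886) (nat_lit 228) (nat_lit 0) ec340 ec341) (XT.nd (nat_lit 2964) (nat_lit 4332) (nat_lit 0) ec342 ec343))) (XT.nd (nat_lit 47658) (nat_lit 0) (nat_lit 1672) (XT.nd (nat_lit 5850) (nat_lit 2356) (nat_lit 0) (XT.nd (nat_lit 2886) (nat_lit 2964) (nat_lit 0) ec344 ec345) (XT.nd (nat_lit 38844) (nat_lit 0) (nat_lit 18240) ec346 ec347)) (XT.nd (nat_lit 5928) (nat_lit 5776) (nat_lit 0) (XT.nd (nat_lit 2964) (nat_lit 4104) (nat_lit 0) ec348 ec349) (XT.nd (nat_lit 2964) (nat_lit 2964) (nat_lit 0) ec350 ec351))))) (XT.nd (nat_lit 154128) (nat_lit 228) (nat_lit 0) (XT.nd (nat_lit 95004) (nat_lit 152) (nat_lit 0) (XT.nd (nat_lit 47580) (nat_lit 76) (nat_lit 0) (XT.nd (nat_lit 41652) (nat_lit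 0) (nat_lit 7068) (XT.nd (nat_lit 38688) (nat_lit 0) (nat_lit 16796) ec352 ec353) (XT.nd (nat_lit 2964) (nat_lit 3724) (nat_lit 0) ec354 ec355)) (XT.nd (nat_lit 5850) (nat_lit 1444) (nat_lit 0) (XT.nd (nat_lit 2886) (nat_lit 2964) (nat_lit 0) ec356 ec357) (XT.nd (nat_lit 38610) (nat_lit 0) (nat_lit 15884) ec358 ec359))) (XT.nd (nat_lit 11778) (nat_lit 1292) (nat_lit 0) (XT.nd (nat_lit 5850) (nat_lit 5776) (nat_lit 0) (XT.nd (nat_lit 2886) (nat_lit 3344) (nat_lit 0) ec360 ec361) (XT.nd (nat_lit 2964) (nat_lit 2812) (nat_lit 0) ec362 ec363)) (XT.nd (nat_lit 41418) (nat_lit 0) (nat_lit 6688) (XT.nd (nat_lit 38454) (nat_lit 0) (nat_lit 15428) ec364 ec365) (XT.nd (nat_lit 2964) (nat_lit 3420) (nat_lit 0) ec366 ec367)))) (XT.nd (nat_lit 59046) (nat_lit 228) (nat_lit 0) (XT.nd (nat_lit 47268) (nat_lit 0) (nat_lit 836) (XT.nd (nat_lit 5850) (nat_lit 1064) (nat_lit 0) (XT.nd (nat_lit 2886) (nat_lit 2812) (nat_lit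 0) ec368 ec369) (XT.nd (nat_lit 38454) (nat_lit 0) (nat_lit 14896) ec370 ec371)) (XT.nd (nat_lit 5850) (nat_lit 5776) (nat_lit 0) (XT.nd (nat_lit 2886) (nat_lit 3344) (nat_lit 0) ec372 ec373) (XT.nd (nat_lit 2964) (nat_lit 2812) (nat_lit 0) ec374 ec375))) (XT.nd (nat_lit 47112) (nat_lit 0) (nat_lit 0) (XT.nd (nat_lit 41184) (nat_lit 0) (nat_lit 6688) (XT.nd (nat_lit 38220) (nat_lit 0) (nat_lit 15124) ec376 ec377) (XT.nd (nat_lit 2964) (nat_lit 3344) (nat_lit 0) ec378 ec379)) (XT.nd (nat_lit 5928) (nat_lit 912) (nat_lit 0) (XT.nd (nat_lit 2964) (nat_lit 2964) (nat_lit 0) ec380 ec381) (XT.nd (nat_lit 38220) (nat_lit 0) (nat_lit 14744) ec382 ec383))))))) (XT.nd (nat_lit 541476) (nat_lit 0) (nat_lit 0) (XT.nd (nat_lit 269490) (nat_lit 228) (nat_lit 0) (XT.nd (nat_lit 117234) (nat_lit 228) (nat_lit 0) (XT.nd (nat_lit 58656) (nat_lit 0) (nat_lit 0) (XT.nd (nat_lit 11778) (nat_lit 1140) (nat_lit 0) (XT.nd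 (nat_lit 5850) (nat_lit 5776) (nat_lit 0) (XT.nd (nat_lit 2886) (nat_lit 3344) (nat_lit 0) ec384 ec385) (XT.nd (nat_lit 2964) (nat_lit 2964) (nat_lit 0) ec386 ec387)) (XT.nd (nat_lit 40950) (nat_lit 0) (nat_lit 7068) (XT.nd (nat_lit 37986) (nat_lit 0) (nat_lit 15580) ec388 ec389) (XT.nd (nat_lit 2964) (nat_lit 3344) (nat_lit 0) ec390 ec391))) (XT.nd (nat_lit 46800) (nat_lit 0) (nat_lit 1596) (XT.nd (nat_lit 5850) (nat_lit 1368) (nat_lit 0) (XT.nd (nat_lit 2886) (nat_lit 2964) (nat_lit 0) ec392 ec393) (XT.nd (nat_lit 37986) (nat_lit 0) (nat_lit 16188) ec394 ec395)) (XT.nd (nat_lit 5850) (nat_lit 5776) (nat_lit 0) (XT.nd (nat_lit 2886) (nat_lit 3496) (nat_lit 0) ec396 ec397) (XT.nd (nat_lit 2964) (nat_lit 2964) (nat_lit 0) ec398 ec399)))) (XT.nd (nat_lit 93522) (nat_lit 0) (nat_lit 0) (XT.nd (nat_lit 46722) (nat_lit 152) (nat_lit 0) (XT.nd (nat_lit 40794) (nat_lit 0) (nat_lit 7828) (XT.nd (nat_lit 37830)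 (nat_lit 0) (nat_lit 17252) ec400 ec401) (XT.nd (nat_lit 2964) (nat_lit 3496) (nat_lit 0) ec402 ec403)) (XT.nd (nat_lit 5850) (nat_lit 2280) (nat_lit 0) (XT.nd (nat_lit 2886) (nat_lit 2888) (nat_lit 0) ec404 ec405) (XT.nd (nat_lit 37986) (nat_lit 0) (nat_lit 18164) ec406 ec407))) (XT.nd (nat_lit 11778) (nat_lit 2508) (nat_lit 0) (XT.nd (nat_lit 5850) (nat_lit 5700) (nat_lit 0) (XT.nd (nat_lit 2886) (nat_lit 3800) (nat_lit 0) ec408 ec409) (XT.nd (nat_lit 2964) (nat_lit 2888) (nat_lit 0) ec410 ec411)) (XT.nd (nat_lit 41028) (nat_lit 0) (nat_lit 8284) (XT.nd (nat_lit 38064) (nat_lit 0) (nat_lit 18468) ec412 ec413) (XT.nd (nat_lit 2964) (nat_lit 3952) (nat_lit 0) ec414 ec415))))) (XT.nd (nat_lit 153192) (nat_lit 0) (nat_lit 0) (XT.nd (nat_lit 58734) (nat_lit 152) (nat_lit 0) (XT.nd (nat_lit 46956) (nat_lit 0) (nat_lit 2812) (XT.nd (nat_lit 5850) (nat_lit 2736) (nat_lit 0) (XT.nd (nat_lit 2886) (nat_lit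 2812) (nat_lit 0) ec416 ec417) (XT.nd (nat_lit 38142) (nat_lit 0) (nat_lit 18924) ec418 ec419)) (XT.nd (nat_lit 5850) (nat_lit 5700) (nat_lit 0) (XT.nd (nat_lit 2886) (nat_lit 3952) (nat_lit 0) ec420 ec421) (XT.nd (nat_lit 2964) (nat_lit 2888) (nat_lit 0) ec422 ec423))) (XT.nd (nat_lit 47112) (nat_lit 0) (nat_lit 0) (XT.nd (nat_lit 41184) (nat_lit 0) (nat_lit 8664) (XT.nd (nat_lit 2886) (nat_lit 152) (nat_lit 0) ec424 ec425) (XT.nd (nat_lit 2964) (nat_lit 3800) (nat_lit 0) ec426 ec427)) (XT.nd (nat_lit 5850) (nat_lit 2964) (nat_lit 0) (XT.nd (nat_lit 2886) (nat_lit 2888) (nat_lit 0) ec428 ec429) (XT.nd (nat_lit 38532) (nat_lit 0) (nat_lit 17936) ec430 ec431)))) (XT.nd (nat_lit 59280) (nat_lit 0) (nat_lit 0) (XT.nd (nat_lit 11778) (nat_lit 2660) (nat_lit 0) (XT.nd (nat_lit 5850) (nat_lit 5776) (nat_lit 0) (XT.nd (nat_lit 2886) (nat_lit 3648) (nat_lit 0) ec432 ec433) (XT.nd (nat_lit 2964) (nat_lit 2812)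 (nat_lit 0) ec434 ec435)) (XT.nd (nat_lit 41574) (nat_lit 0) (nat_lit 7980) (XT.nd (nat_lit 38610) (nat_lit 0) (nat_lit 16948) ec436 ec437) (XT.nd (nat_lit 2964) (nat_lit 3344) (nat_lit 0) ec438 ec439))) (XT.nd (nat_lit 47658) (nat_lit 0) (nat_lit 1596) (XT.nd (nat_lit 5850) (nat_lit 2280) (nat_lit 0) (XT.nd (nat_lit 2886) (nat_lit 2888) (nat_lit 0) ec440 ec441) (XT.nd (nat_lit 38844) (nat_lit 0) (nat_lit 15428) ec442 ec443)) (XT.nd (nat_lit 5928) (nat_lit 5700) (nat_lit 0) (XT.nd (nat_lit 2964) (nat_lit 3268) (nat_lit 0) ec444 ec445) (XT.nd (nat_lit 2964) (nat_lit 2888) (nat_lit 0) ec446 ec447)))))) (XT.nd (nat_lit 316836) (nat_lit 0) (nat_lit 456) (XT.nd (nat_lit 156624) (nat_lit 0) (nat_lit 152) (XT.nd (nat_lit 96252) (nat_lit 0) (nat_lit 0) (XT.nd (nat_lit 47970) (nat_lit 0) (nat_lit 0) (XT.nd (nat_lit 42042) (nat_lit 0) (nat_lit 6384) (XT.nd (nat_lit 39078) (nat_lit 0) (nat_lit 13680) ec448 ec449)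 (XT.nd (nat_lit 2964) (nat_lit 2964) (nat_lit 0) ec450 ec451)) (XT.nd (nat_lit 5850) (nat_lit 684) (nat_lit 0) (XT.nd (nat_lit 2886) (nat_lit 2964) (nat_lit 0) ec452 ec453) (XT.nd (nat_lit 39468) (nat_lit 0) (nat_lit 11704) ec454 ec455))) (XT.nd (nat_lit 48594) (nat_lit 0) (nat_lit 3800) (XT.nd (nat_lit 5850) (nat_lit 5244) (nat_lit 0) (XT.nd (nat_lit 2886) (nat_lit 2964) (nat_lit 0) ec456 ec457) (XT.nd (nat_lit 2964) (nat_lit 2432) (nat_lit 0) ec458 ec459)) (XT.nd (nat_lit 5850) (nat_lit 5852) (nat_lit 0) (XT.nd (nat_lit 2886) (nat_lit 4484) (nat_lit 0) ec460 ec461) (XT.nd (nat_lit 2964) (nat_lit 2812) (nat_lit 0) ec462 ec463)))) (XT.nd (nat_lit 98436) (nat_lit 0) (nat_lit 228) (XT.nd (nat_lit 48984) (nat_lit 0) (nat_lit 76) (XT.nd (nat_lit 43056) (nat_lit 0) (nat_lit 7448) (XT.nd (nat_lit 2886) (nat_lit 760) (nat_lit 0) ec464 ec465) (XT.nd (nat_lit 2964) (nat_lit 3420) (nat_lit 0) ec466 ec467)) (XT.nd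 (nat_lit 5850) (nat_lit 1748) (nat_lit 0) (XT.nd (nat_lit 2886) (nat_lit 2812) (nat_lit 0) ec468 ec469) (XT.nd (nat_lit 40638) (nat_lit 0) (nat_lit 11476) ec470 ec471))) (XT.nd (nat_lit 49920) (nat_lit 0) (nat_lit 2128) (XT.nd (nat_lit 5850) (nat_lit 5016) (nat_lit 0) (XT.nd (nat_lit 2886) (nat_lit 2812) (nat_lit 0) ec472 ec473) (XT.nd (nat_lit 2964) (nat_lit 2128) (nat_lit 0) ec474 ec475)) (XT.nd (nat_lit 5928) (nat_lit 5700) (nat_lit 0) (XT.nd (nat_lit 2964) (nat_lit 3724) (nat_lit 0) ec476 ec477) (XT.nd (nat_lit 2964) (nat_lit 2888) (nat_lit 0) ec478 ec479))))) (XT.nd (nat_lit 205764) (nat_lit 0) (nat_lit 912) (XT.nd (nat_lit 101556) (nat_lit 0) (nat_lit 380) (XT.nd (nat_lit 50466) (nat_lit 0) (nat_lit 228) (XT.nd (nat_lit 44538) (nat_lit 0) (nat_lit 4484) (XT.nd (nat_lit 41574) (nat_lit 0) (nat_lit 10716) ec480 ec481) (XT.nd (nat_lit 2964) (nat_lit 2812) (nat_lit 0) ec482 ec483)) (XT.nd (nat_lit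 45162) (nat_lit 0) (nat_lit 6080) (XT.nd (nat_lit 2886) (nat_lit 1368) (nat_lit 0) ec484 ec485) (XT.nd (nat_lit 2964) (nat_lit 3116) (nat_lit 0) ec486 ec487))) (XT.nd (nat_lit 51714) (nat_lit 0) (nat_lit 228) (XT.nd (nat_lit 5850) (nat_lit 228) (nat_lit 0) (XT.nd (nat_lit 2886) (nat_lit 2812) (nat_lit 0) ec488 ec489) (XT.nd (nat_lit 42900) (nat_lit 0) (nat_lit 7144) ec490 ec491)) (XT.nd (nat_lit 5850) (nat_lit 1216) (nat_lit 0) (XT.nd (nat_lit 2886) (nat_lit 2888) (nat_lit 0) ec492 ec493) (XT.nd (nat_lit 43680) (nat_lit 0) (nat_lit 7372) ec494 ec495)))) (XT.nd (nat_lit 107952) (nat_lit 0) (nat_lit 836) (XT.nd (nat_lit 53430) (nat_lit 0) (nat_lit 380) (XT.nd (nat_lit 5850) (nat_lit 1368) (nat_lit 0) (XT.nd (nat_lit 2886) (nat_lit 2888) (nat_lit 0) ec496 ec497) (XT.nd (nat_lit 44616) (nat_lit 0) (nat_lit 6612) ec498 ec499)) (XT.nd (nat_lit 5850) (nat_lit 532) (nat_lit 0) (XT.nd (nat_lit 2886) (nat_lit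 2888) (nat_lit 0) ec500 ec501) (XT.nd (nat_lit 45708) (nat_lit 0) (nat_lit 4636) ec502 ec503))) (XT.nd (nat_lit 55770) (nat_lit 0) (nat_lit 532) (XT.nd (nat_lit 49842) (nat_lit 0) (nat_lit 1444) (XT.nd (nat_lit 2886) (nat_lit 1444) (nat_lit 0) ec504 ec505) (XT.nd (nat_lit 2964) (nat_lit 2964) (nat_lit 0) ec506 ec507)) (XT.nd (nat_lit 51480) (nat_lit 0) (nat_lit 684) (XT.nd (nat_lit 48516) (nat_lit 0) (nat_lit 2432) ec508 ec509) (XT.nd (nat_lit 50622) (nat_lit 0) (nat_lit 1140) ec510 ec511))))))))) XT.nil))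

set_option maxRecDepth 10000000 in
noncomputable def Tz : ZL := (ZL.cons (nat_lit 152) (nat_lit 3) (nat_lit 381318050821691642821) (ZL.cons (nat_lit 228) (nat_lit 6) (nat_lit 751545155009145644982) (ZL.cons (nat_lit 380) (nat_lit 3) (nat_lit 370227259741291119607) (ZL.cons (nat_lit 456) (nat_lit 6) (nat_lit 729687543723817823644) (ZL.cons (nat_lit 608) (nat_lit 3) (nat_lit 359460449009592501934) (ZL.cons (nat_lit 684) (nat_lit 6) (nat_lit 708468513946904357142) (ZL.cons (nat_lit 836) (nat_lit 3) (nat_lit 349008240014525960198) (ZL.cons (nat_lit 912) (nat_lit 6) (nat_lit 687869585097053383988) (ZL.cons (nat_lit 1064) (nat_lit 3) (nat_lit 338861530821943867773) (ZL.cons (nat_lit 1140) (nat_lit 6) (nat_lit 667872822102068354002) (ZL.cons (nat_lit 1292) (nat_lit 3) (nat_lit 329011488331071391651) (ZL.cons (nat_lit 1368) (nat_lit 6) (nat_lit 648460819951195403100) (ZL.cons (nat_lit 1520) (nat_lit 3) (nat_lit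 319449540671473583411) (ZL.cons (nat_lit 1596) (nat_lit 6) (nat_lit 629616688724195131632) (ZL.cons (nat_lit 1748) (nat_lit 3) (nat_lit 310167369835298309115) (ZL.cons (nat_lit 1824) (nat_lit 6) (nat_lit 611324039084947089404) (ZL.cons (nat_lit 1900) (nat_lit 6) (nat_lit 602576713539550346534) (ZL.cons (nat_lit 1976) (nat_lit 3) (nat_lit 301156904538784465921) (ZL.cons (nat_lit 2052) (nat_lit 6) (nat_lit 593566968227791701376) (ZL.cons (nat_lit 2128) (nat_lit 6) (nat_lit 585075873664969961590) (ZL.cons (nat_lit 2204) (nat_lit 3) (nat_lit 292410313307251284344) (ZL.cons (nat_lit 2280) (nat_lit 6) (nat_lit 576330046265263569610) (ZL.cons (nat_lit 2356) (nat_lit 6) (nat_lit 568087808226371485604) (ZL.cons (nat_lit 2432) (nat_lit 3) (nat_lit 283919997778007396732) (ZL.cons (nat_lit 2508) (nat_lit 6) (nat_lit 559598303046312639078) (ZL.cons (nat_lit 2584) (nat_lit 6) (nat_lit 551597767257265133692) (ZL.cons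 (nat_lit 2660) (nat_lit 3) (nat_lit 275678586215838056099) (ZL.cons (nat_lit 2736) (nat_lit 6) (nat_lit 543357215394546203144) (ZL.cons (nat_lit 2812) (nat_lit 6) (nat_lit 535591441681201147920) (ZL.cons (nat_lit 2888) (nat_lit 3) (nat_lit 267678927235945709157) (ZL.cons (nat_lit 2964) (nat_lit 6) (nat_lit 527592694756455741040) (ZL.cons (nat_lit 3040) (nat_lit 6) (nat_lit 520054951157225683836) (ZL.cons (nat_lit 3116) (nat_lit 3) (nat_lit 259914083729433361527) (ZL.cons (nat_lit 3192) (nat_lit 6) (nat_lit 512291075250018724914) (ZL.cons (nat_lit 3268) (nat_lit 6) (nat_lit 504974832321185568766) (ZL.cons (nat_lit 3344) (nat_lit 3) (nat_lit 252377326986632123808) (ZL.cons (nat_lit 3420) (nat_lit 6) (nat_lit 497439102104487417928) (ZL.cons (nat_lit 3496) (nat_lit 6) (nat_lit 490338027413899984254) (ZL.cons (nat_lit 3572) (nat_lit 3) (nat_lit 245062131013784302250) (ZL.cons (nat_lit 3648) (nat_lit 6) (nat_lit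 483023920482594927570) (ZL.cons (nat_lit 3724) (nat_lit 6) (nat_lit 476131873287633885872) (ZL.cons (nat_lit 3800) (nat_lit 3) (nat_lit 237962167038801710045) (ZL.cons (nat_lit 3876) (nat_lit 6) (nat_lit 469033064676824012920) (ZL.cons (nat_lit 3952) (nat_lit 6) (nat_lit 462344090782722044448) (ZL.cons (nat_lit 4028) (nat_lit 3) (nat_lit 231071298202025844660) (ZL.cons (nat_lit 4104) (nat_lit 6) (nat_lit 455454447671797016920) (ZL.cons (nat_lit 4180) (nat_lit 6) (nat_lit 448962774466604627564) (ZL.cons (nat_lit 4256) (nat_lit 3) (nat_lit 224383574428122529738) (ZL.cons (nat_lit 4332) (nat_lit 6) (nat_lit 442276351065256466526) (ZL.cons (nat_lit 4408) (nat_lit 6) (nat_lit 435976382727945908224) (ZL.cons (nat_lit 4484) (nat_lit 3) (nat_lit 217893227475448891936) (ZL.cons (nat_lit 4560) (nat_lit 6) (nat_lit 429487415340516033178) (ZL.cons (nat_lit 4636) (nat_lit 6) (nat_lit 423373728218917676992) (ZL.cons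 (nat_lit 4712) (nat_lit 3) (nat_lit 211594666159435477158) (ZL.cons (nat_lit 4788) (nat_lit 6) (nat_lit 417076630483671370120) (ZL.cons (nat_lit 4864) (nat_lit 6) (nat_lit 411143968639138950856) (ZL.cons (nat_lit 4940) (nat_lit 3) (nat_lit 205482471746731260537) (ZL.cons (nat_lit 5016) (nat_lit 6) (nat_lit 405033326939270559012) (ZL.cons (nat_lit 5092) (nat_lit 6) (nat_lit 399276597855174345328) (ZL.cons (nat_lit 5168) (nat_lit 3) (nat_lit 199551393517064633935) (ZL.cons (nat_lit 5244) (nat_lit 6) (nat_lit 393347166898555245234) (ZL.cons (nat_lit 5320) (nat_lit 6) (nat_lit 387761437349905756516) (ZL.cons (nat_lit 5396) (nat_lit 3) (nat_lit 193796344489979539687) (ZL.cons (nat_lit 5472) (nat_lit 6) (nat_lit 382008135914796783140) (ZL.cons (nat_lit 5548) (nat_lit 6) (nat_lit 376588627996506564234) (ZL.cons (nat_lit 5624) (nat_lit 3) (nat_lit 188212397313813147581) (ZL.cons (nat_lit 5700) (nat_lit 6) (nat_lit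 371006534840667638758) (ZL.cons (nat_lit 5776) (nat_lit 6) (nat_lit 365748622152165218988) (ZL.cons (nat_lit 5852) (nat_lit 3) (nat_lit 182794780314490245868) (ZL.cons (nat_lit 5928) (nat_lit 6) (nat_lit 360332972083007726624) (ZL.cons (nat_lit 6004) (nat_lit 6) (nat_lit 355232176067126648778) (ZL.cons (nat_lit 6080) (nat_lit 3) (nat_lit 177538873701920252906) (ZL.cons (nat_lit 6156) (nat_lit 6) (nat_lit 349978356170769138598) (ZL.cons (nat_lit 6232) (nat_lit 6) (nat_lit 345030342605046281062) (ZL.cons (nat_lit 6308) (nat_lit 3) (nat_lit 172440205931995886665) (ZL.cons (nat_lit 6384) (nat_lit 6) (nat_lit 339933888632351737800) (ZL.cons (nat_lit 6460) (nat_lit 6) (nat_lit 335134464271083521300) (ZL.cons (nat_lit 6536) (nat_lit 3) (nat_lit 167494450222408504469) (ZL.cons (nat_lit 6612) (nat_lit 6) (nat_lit 330191057178977258306) (ZL.cons (nat_lit 6688) (nat_lit 6) (nat_lit 325536166544600198740) (ZL.cons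 (nat_lit 6764) (nat_lit 3) (nat_lit 162697421220714413757) (ZL.cons (nat_lit 6840) (nat_lit 6) (nat_lit 320741629191191827388) (ZL.cons (nat_lit 6916) (nat_lit 6) (nat_lit 316227351513775759572) (ZL.cons (nat_lit 6992) (nat_lit 3) (nat_lit 158045071823309544241) (ZL.cons (nat_lit 7068) (nat_lit 6) (nat_lit 311577645506037209726) (ZL.cons (nat_lit 7144) (nat_lit 6) (nat_lit 307200191809905876858) (ZL.cons (nat_lit 7220) (nat_lit 3) (nat_lit 153533490144197272849) (ZL.cons (nat_lit 7296) (nat_lit 6) (nat_lit 302691414502890604000) (ZL.cons (nat_lit 7372) (nat_lit 6) (nat_lit 298447124839615720994) (ZL.cons (nat_lit 7448) (nat_lit 3) (nat_lit 149158896632666437606) (ZL.cons (nat_lit 7524) (nat_lit 6) (nat_lit 294075506486442591498) (ZL.cons (nat_lit 7600) (nat_lit 6) (nat_lit 289960847313694508926) (ZL.cons (nat_lit 7676) (nat_lit 3) (nat_lit 144917641339234222528) (ZL.cons (nat_lit 7752) (nat_lit 6) (nat_lit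 285722748365763983874) (ZL.cons (nat_lit 7828) (nat_lit 6) (nat_lit 281734310071745291430) (ZL.cons (nat_lit 7904) (nat_lit 3) (nat_lit 140806201329452226363) (ZL.cons (nat_lit 7980) (nat_lit 6) (nat_lit 277626218628906038216) (ZL.cons (nat_lit 8056) (nat_lit 6) (nat_lit 273760713202344469890) (ZL.cons (nat_lit 8132) (nat_lit 3) (nat_lit 136821178245424254989) (ZL.cons (nat_lit 8208) (nat_lit 6) (nat_lit 269779242612986054510) (ZL.cons (nat_lit 8284) (nat_lit 6) (nat_lit 266033501458920539568) (ZL.cons (nat_lit 8360) (nat_lit 3) (nat_lit 132959296015141842644) (ZL.cons (nat_lit 8436) (nat_lit 6) (nat_lit 262175388070233059178) (ZL.cons (nat_lit 8512) (nat_lit 6) (nat_lit 258546359972092384374) (ZL.cons (nat_lit 8588) (nat_lit 3) (nat_lit 129217398710008884283) (ZL.cons (nat_lit 8664) (nat_lit 6) (nat_lit 254808461031007489326) (ZL.cons (nat_lit 8740) (nat_lit 6) (nat_lit 251293210259755513442) (ZL.cons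 (nat_lit 8816) (nat_lit 3) (nat_lit 125592448551200758757) (ZL.cons (nat_lit 8892) (nat_lit 6) (nat_lit 247672501965365978284) (ZL.cons (nat_lit 8968) (nat_lit 6) (nat_lit 244268206536771423106) (ZL.cons (nat_lit 9044) (nat_lit 3) (nat_lit 122081524065786684403) (ZL.cons (nat_lit 9120) (nat_lit 6) (nat_lit 240969036189544322756) (ZL.cons (nat_lit 9196) (nat_lit 6) (nat_lit 240761782245319031272) (ZL.cons (nat_lit 9272) (nat_lit 6) (nat_lit 237465732326702355096) (ZL.cons (nat_lit 9348) (nat_lit 3) (nat_lit 118681818393837558956) (ZL.cons (nat_lit 9424) (nat_lit 6) (nat_lit 234272018332105131530) (ZL.cons (nat_lit 9500) (nat_lit 6) (nat_lit 234070800910527178634) (ZL.cons (nat_lit 9576) (nat_lit 6) (nat_lit 230880397378642754076) (ZL.cons (nat_lit 9652) (nat_lit 3) (nat_lit 115390637748046019182) (ZL.cons (nat_lit 9728) (nat_lit 6) (nat_lit 227789638460780391830) (ZL.cons (nat_lit 9804) (nat_lit 6) (nat_lit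 227594281740801796782) (ZL.cons (nat_lit 9880) (nat_lit 6) (nat_lit 224507034892831443002) (ZL.cons (nat_lit 9956) (nat_lit 3) (nat_lit 112205400027701781833) (ZL.cons (nat_lit 10032) (nat_lit 6) (nat_lit 221516837357847799038) (ZL.cons (nat_lit 10108) (nat_lit 6) (nat_lit 221327170639421978604) (ZL.cons (nat_lit 10184) (nat_lit 6) (nat_lit 218340699059386766422) (ZL.cons (nat_lit 10260) (nat_lit 3) (nat_lit 109123633589194412662) (ZL.cons (nat_lit 10336) (nat_lit 6) (nat_lit 215448775777024109946) (ZL.cons (nat_lit 10412) (nat_lit 6) (nat_lit 215264633331950497876) (ZL.cons (nat_lit 10488) (nat_lit 6) (nat_lit 212376662915192632678) (ZL.cons (nat_lit 10564) (nat_lit 3) (nat_lit 106142976175558480853) (ZL.cons (nat_lit 10640) (nat_lit 6) (nat_lit 209580832458819033532) (ZL.cons (nat_lit 10716) (nat_lit 6) (nat_lit 209402053385932031522) (ZL.cons (nat_lit 10792) (nat_lit 6) (nat_lit 206610416524678555442)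 (ZL.cons (nat_lit 10868) (nat_lit 3) (nat_lit 103261174007933612202) (ZL.cons (nat_lit 10944) (nat_lit 6) (nat_lit 203908602473011748880) (ZL.cons (nat_lit 11020) (nat_lit 6) (nat_lit 203735030557587475082) (ZL.cons (nat_lit 11096) (nat_lit 6) (nat_lit 201037665490983607078) (ZL.cons (nat_lit 11172) (nat_lit 3) (nat_lit 100476081042185332159) (ZL.cons (nat_lit 11248) (nat_lit 6) (nat_lit 198427895895123636428) (ZL.cons (nat_lit 11324) (nat_lit 6) (nat_lit 198259379472381623032) (ZL.cons (nat_lit 11400) (nat_lit 6) (nat_lit 195654329804774923902) (ZL.cons (nat_lit 11476) (nat_lit 3) (nat_lit 97785658394322926633) (ZL.cons (nat_lit 11552) (nat_lit 6) (nat_lit 193134736824559454276) (ZL.cons (nat_lit 11628) (nat_lit 6) (nat_lit 192971128647140023798) (ZL.cons (nat_lit 11704) (nat_lit 6) (nat_lit 190698398945635996758) (ZL.cons (nat_lit 11780) (nat_lit 6) (nat_lit 190456543038808449926) (ZL.cons (nat_lit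 11856) (nat_lit 3) (nat_lit 95187973938759045042) (ZL.cons (nat_lit 11932) (nat_lit 6) (nat_lit 188025362752925405034) (ZL.cons (nat_lit 12008) (nat_lit 6) (nat_lit 187866519862226928838) (ZL.cons (nat_lit 12084) (nat_lit 6) (nat_lit 185675463457202253448) (ZL.cons (nat_lit 12160) (nat_lit 6) (nat_lit 185440651897175508952) (ZL.cons (nat_lit 12236) (nat_lit 3) (nat_lit 92681202083883696299) (ZL.cons (nat_lit 12312) (nat_lit 6) (nat_lit 183096224291908931122) (ZL.cons (nat_lit 12388) (nat_lit 6) (nat_lit 182942007893172546468) (ZL.cons (nat_lit 12464) (nat_lit 6) (nat_lit 180831188517451719702) (ZL.cons (nat_lit 12540) (nat_lit 6) (nat_lit 180603216129076239606) (ZL.cons (nat_lit 12616) (nat_lit 3) (nat_lit 90263623729873985653) (ZL.cons (nat_lit 12692) (nat_lit 6) (nat_lit 178343985271024407282) (ZL.cons (nat_lit 12768) (nat_lit 6) (nat_lit 178194260612057043540) (ZL.cons (nat_lit 12844) (nat_lit 6)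 (nat_lit 176162341233801276052) (ZL.cons (nat_lit 12920) (nat_lit 6) (nat_lit 175941008817902751688) (ZL.cons (nat_lit 12996) (nat_lit 3) (nat_lit 87933626414131828123) (ZL.cons (nat_lit 13072) (nat_lit 6) (nat_lit 173765523216494087140) (ZL.cons (nat_lit 13148) (nat_lit 6) (nat_lit 173620159469923831076) (ZL.cons (nat_lit 13224) (nat_lit 6) (nat_lit 171665902898082246210) (ZL.cons (nat_lit 13300) (nat_lit 6) (nat_lit 171451017057404067214) (ZL.cons (nat_lit 13376) (nat_lit 3) (nat_lit 85689704650236453296) (ZL.cons (nat_lit 13452) (nat_lit 6) (nat_lit 169640313242971529230) (ZL.cons (nat_lit 13528) (nat_lit 6) (nat_lit 169357930223547793990) (ZL.cons (nat_lit 13604) (nat_lit 6) (nat_lit 169216800372508710436) (ZL.cons (nat_lit 13680) (nat_lit 6) (nat_lit 167339070057529311744) (ZL.cons (nat_lit 13756) (nat_lit 6) (nat_lit 167130443027744671946) (ZL.cons (nat_lit 13832) (nat_lit 3) (nat_lit 83530460466818374507)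 (ZL.cons (nat_lit 13908) (nat_lit 6) (nat_lit 165392672506776371324) (ZL.cons (nat_lit 13984) (nat_lit 6) (nat_lit 165118514235491191480) (ZL.cons (nat_lit 14060) (nat_lit 6) (nat_lit 164981494962637712304) (ZL.cons (nat_lit 14136) (nat_lit 6) (nat_lit 163179255999716202892) (ZL.cons (nat_lit 14212) (nat_lit 6) (nat_lit 162976705485362183670) (ZL.cons (nat_lit 14288) (nat_lit 3) (nat_lit 81454604153308313713) (ZL.cons (nat_lit 14364) (nat_lit 6) (nat_lit 161310973822932135802) (ZL.cons (nat_lit 14440) (nat_lit 6) (nat_lit 161044800744014485468) (ZL.cons (nat_lit 14516) (nat_lit 6) (nat_lit 160911772323768389178) (ZL.cons (nat_lit 14592) (nat_lit 6) (nat_lit 159512035225567042968) (ZL.cons (nat_lit 14668) (nat_lit 6) (nat_lit 159184092666490527478) (ZL.cons (nat_lit 14744) (nat_lit 6) (nat_lit 158987441681680800076) (ZL.cons (nat_lit 14820) (nat_lit 3) (nat_lit 79460955220090130015) (ZL.cons (nat_lit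 14896) (nat_lit 6) (nat_lit 157392955391363347014) (ZL.cons (nat_lit 14972) (nat_lit 6) (nat_lit 157134534926394754456) (ZL.cons (nat_lit 15048) (nat_lit 6) (nat_lit 157005381120330583298) (ZL.cons (nat_lit 15124) (nat_lit 6) (nat_lit 155669823847227493142) (ZL.cons (nat_lit 15200) (nat_lit 6) (nat_lit 155351433013172623734) (ZL.cons (nat_lit 15276) (nat_lit 6) (nat_lit 155160509726949587420) (ZL.cons (nat_lit 15352) (nat_lit 3) (nat_lit 77548443581192978154) (ZL.cons (nat_lit 15428) (nat_lit 6) (nat_lit 153636577891798971098) (ZL.cons (nat_lit 15504) (nat_lit 6) (nat_lit 153385684236489657934) (ZL.cons (nat_lit 15580) (nat_lit 6) (nat_lit 153260292191767161666) (ZL.cons (nat_lit 15656) (nat_lit 6) (nat_lit 151988471145177450636) (ZL.cons (nat_lit 15732) (nat_lit 6) (nat_lit 151679353830561072568) (ZL.cons (nat_lit 15808) (nat_lit 6) (nat_lit 151493991416752299450) (ZL.cons (nat_lit 15884) (nat_lit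 3) (nat_lit 75716110968296717147) (ZL.cons (nat_lit 15960) (nat_lit 6) (nat_lit 150405672680034315392) (ZL.cons (nat_lit 16036) (nat_lit 6) (nat_lit 150040027540847971398) (ZL.cons (nat_lit 16112) (nat_lit 6) (nat_lit 149796441467732133376) (ZL.cons (nat_lit 16188) (nat_lit 6) (nat_lit 149674701618486991370) (ZL.cons (nat_lit 16264) (nat_lit 6) (nat_lit 148466272946320508022) (ZL.cons (nat_lit 16340) (nat_lit 6) (nat_lit 148166159048634704074) (ZL.cons (nat_lit 16416) (nat_lit 6) (nat_lit 147986195540082497164) (ZL.cons (nat_lit 16492) (nat_lit 3) (nat_lit 73963112585498110157) (ZL.cons (nat_lit 16568) (nat_lit 6) (nat_lit 146956714921604823492) (ZL.cons (nat_lit 16644) (nat_lit 6) (nat_lit 146601719640841382722) (ZL.cons (nat_lit 16720) (nat_lit 6) (nat_lit 146365228307719209886) (ZL.cons (nat_lit 16796) (nat_lit 6) (nat_lit 146247034279325868132) (ZL.cons (nat_lit 16872) (nat_lit 6) (nat_lit 145101756258461864478)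 (ZL.cons (nat_lit 16948) (nat_lit 6) (nat_lit 144810383542262054820) (ZL.cons (nat_lit 17024) (nat_lit 6) (nat_lit 144635661689298747140) (ZL.cons (nat_lit 17100) (nat_lit 3) (nat_lit 72288719014995841118) (ZL.cons (nat_lit 17176) (nat_lit 6) (nat_lit 143664958253880477918) (ZL.cons (nat_lit 17252) (nat_lit 6) (nat_lit 143320302641488787850) (ZL.cons (nat_lit 17328) (nat_lit 6) (nat_lit 143090699405447843348) (ZL.cons (nat_lit 17404) (nat_lit 6) (nat_lit 142975947921570812518) (ZL.cons (nat_lit 17480) (nat_lit 6) (nat_lit 142290070172530113090) (ZL.cons (nat_lit 17556) (nat_lit 6) (nat_lit 141893683592961840102) (ZL.cons (nat_lit 17632) (nat_lit 6) (nat_lit 141610797460729015190) (ZL.cons (nat_lit 17708) (nat_lit 6) (nat_lit 141441164593774347538) (ZL.cons (nat_lit 17784) (nat_lit 3) (nat_lit 70692318384602190806) (ZL.cons (nat_lit 17860) (nat_lit 6) (nat_lit 140529279836347547252) (ZL.cons (nat_lit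 17936) (nat_lit 6) (nat_lit 140194662736938139420) (ZL.cons (nat_lit 18012) (nat_lit 6) (nat_lit 139971746973791591358) (ZL.cons (nat_lit 18088) (nat_lit 6) (nat_lit 139860337766143988610) (ZL.cons (nat_lit 18164) (nat_lit 6) (nat_lit 139225899174188673508) (ZL.cons (nat_lit 18240) (nat_lit 6) (nat_lit 138841057834802000704) (ZL.cons (nat_lit 18316) (nat_lit 6) (nat_lit 138566411104478869722) (ZL.cons (nat_lit 18392) (nat_lit 6) (nat_lit 138401719000639386564) (ZL.cons (nat_lit 18468) (nat_lit 3) (nat_lit 69173418808780874871) (ZL.cons (nat_lit 18544) (nat_lit 6) (nat_lit 137982402730178478108) (ZL.cons (nat_lit 18620) (nat_lit 6) (nat_lit 137548799992755625720) (ZL.cons (nat_lit 18696) (nat_lit 6) (nat_lit 137223929022455229766) (ZL.cons (nat_lit 18772) (nat_lit 6) (nat_lit 137007505951439163688) (ZL.cons (nat_lit 18848) (nat_lit 6) (nat_lit 136899341672169646456) (ZL.cons (nat_lit 18924) (nat_lit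 6) (nat_lit 136316760053461304044) (ZL.cons (nat_lit 19000) (nat_lit 6) (nat_lit 135943127685124728506) (ZL.cons (nat_lit 19076) (nat_lit 6) (nat_lit 135676480374131397456) (ZL.cons (nat_lit 19152) (nat_lit 6) (nat_lit 135516585127685297304) (ZL.cons (nat_lit 19228) (nat_lit 3) (nat_lit 67731651115746708447) (ZL.cons (nat_lit 19304) (nat_lit 6) (nat_lit 135143861477166254230) (ZL.cons (nat_lit 19380) (nat_lit 6) (nat_lit 134722887945687756764) (ZL.cons (nat_lit 19456) (nat_lit 6) (nat_lit 134407479236658246130) (ZL.cons (nat_lit 19532) (nat_lit 6) (nat_lit 134197359750234881006) (ZL.cons (nat_lit 19608) (nat_lit 6) (nat_lit 134092345886866417676) (ZL.cons (nat_lit 19684) (nat_lit 6) (nat_lit 134029079401036820410) (ZL.cons (nat_lit 19760) (nat_lit 6) (nat_lit 133562143575245777382) (ZL.cons (nat_lit 19836) (nat_lit 6) (nat_lit 133199393703074344820) (ZL.cons (nat_lit 19912) (nat_lit 6) (nat_lit 132940512818614800112)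 (ZL.cons (nat_lit 19988) (nat_lit 6) (nat_lit 132785274715269071810) (ZL.cons (nat_lit 20064) (nat_lit 3) (nat_lit 66366771874046244445) (ZL.cons (nat_lit 20140) (nat_lit 6) (nat_lit 132459880331145006108) (ZL.cons (nat_lit 20216) (nat_lit 6) (nat_lit 132051168164661027984) (ZL.cons (nat_lit 20292) (nat_lit 6) (nat_lit 131744946117059561348) (ZL.cons (nat_lit 20368) (nat_lit 6) (nat_lit 131540946615677653462) (ZL.cons (nat_lit 20444) (nat_lit 6) (nat_lit 131438991408523805570) (ZL.cons (nat_lit 20520) (nat_lit 6) (nat_lit 131415135070744966534) (ZL.cons (nat_lit 20596) (nat_lit 6) (nat_lit 130961799317549779132) (ZL.cons (nat_lit 20672) (nat_lit 6) (nat_lit 130609614975635766934) (ZL.cons (nat_lit 20748) (nat_lit 6) (nat_lit 130358274311111937120) (ZL.cons (nat_lit 20824) (nat_lit 6) (nat_lit 130207557705921909644) (ZL.cons (nat_lit 20900) (nat_lit 3) (nat_lit 65078666732972322336) (ZL.cons (nat_lit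 20976) (nat_lit 6) (nat_lit 130426994909837542126) (ZL.cons (nat_lit 21052) (nat_lit 6) (nat_lit 129930335286048947652) (ZL.cons (nat_lit 21128) (nat_lit 6) (nat_lit 129533527357423726176) (ZL.cons (nat_lit 21204) (nat_lit 6) (nat_lit 129236224398587350800) (ZL.cons (nat_lit 21280) (nat_lit 6) (nat_lit 129038166630255401396) (ZL.cons (nat_lit 21356) (nat_lit 6) (nat_lit 128939180992241956840) (ZL.cons (nat_lit 21432) (nat_lit 6) (nat_lit 128955874790907707582) (ZL.cons (nat_lit 21508) (nat_lit 6) (nat_lit 128515742991689079034) (ZL.cons (nat_lit 21584) (nat_lit 6) (nat_lit 128173816446141494380) (ZL.cons (nat_lit 21660) (nat_lit 6) (nat_lit 127929796383496999414) (ZL.cons (nat_lit 21736) (nat_lit 6) (nat_lit 127783469582341632930) (ZL.cons (nat_lit 21812) (nat_lit 3) (nat_lit 63867354092152726673) (ZL.cons (nat_lit 21888) (nat_lit 6) (nat_lit 128037566361790498612) (ZL.cons (nat_lit 21964) (nat_lit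 6) (nat_lit 127555372552287008832) (ZL.cons (nat_lit 22040) (nat_lit 6) (nat_lit 127170122136146017106) (ZL.cons (nat_lit 22116) (nat_lit 6) (nat_lit 126881478486790312862) (ZL.cons (nat_lit 22192) (nat_lit 6) (nat_lit 126689189391322400816) (ZL.cons (nat_lit 22268) (nat_lit 6) (nat_lit 126593086830144299304) (ZL.cons (nat_lit 22344) (nat_lit 6) (nat_lit 127174607593273820266) (ZL.cons (nat_lit 22420) (nat_lit 6) (nat_lit 126651576880581144824) (ZL.cons (nat_lit 22496) (nat_lit 6) (nat_lit 126224264454155291866) (ZL.cons (nat_lit 22572) (nat_lit 6) (nat_lit 125892296934206180550) (ZL.cons (nat_lit 22648) (nat_lit 6) (nat_lit 125655384252027059226) (ZL.cons (nat_lit 22724) (nat_lit 6) (nat_lit 125513319396536412152) (ZL.cons (nat_lit 22800) (nat_lit 3) (nat_lit 62732989116697245112) (ZL.cons (nat_lit 22876) (nat_lit 6) (nat_lit 126366244443715279336) (ZL.cons (nat_lit 22952) (nat_lit 6) (nat_lit 125803566252198151792)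 (ZL.cons (nat_lit 23028) (nat_lit 6) (nat_lit 125335416922583113172) (ZL.cons (nat_lit 23104) (nat_lit 6) (nat_lit 124961387392349140624) (ZL.cons (nat_lit 23180) (nat_lit 6) (nat_lit 124681150839576612228) (ZL.cons (nat_lit 23256) (nat_lit 6) (nat_lit 124494462397374755876) (ZL.cons (nat_lit 23332) (nat_lit 6) (nat_lit 124401158939920288386) (ZL.cons (nat_lit 23408) (nat_lit 6) (nat_lit 125010599686977306732) (ZL.cons (nat_lit 23484) (nat_lit 6) (nat_lit 124502802878537816010) (ZL.cons (nat_lit 23560) (nat_lit 6) (nat_lit 124087936445114657800) (ZL.cons (nat_lit 23636) (nat_lit 6) (nat_lit 123765637882057268172) (ZL.cons (nat_lit 23712) (nat_lit 6) (nat_lit 123535625569262004748) (ZL.cons (nat_lit 23788) (nat_lit 6) (nat_lit 123397698525096327980) (ZL.cons (nat_lit 23864) (nat_lit 3) (nat_lit 61675868115391891209) (ZL.cons (nat_lit 23940) (nat_lit 6) (nat_lit 124271984301512105990) (ZL.cons (nat_lit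 24016) (nat_lit 6) (nat_lit 123725694795184797698) (ZL.cons (nat_lit 24092) (nat_lit 6) (nat_lit 123271180882937187386) (ZL.cons (nat_lit 24168) (nat_lit 6) (nat_lit 122908045416690612096) (ZL.cons (nat_lit 24244) (nat_lit 6) (nat_lit 122635971093610487440) (ZL.cons (nat_lit 24320) (nat_lit 6) (nat_lit 122454720178851403600) (ZL.cons (nat_lit 24396) (nat_lit 6) (nat_lit 122364134297827648760) (ZL.cons (nat_lit 24472) (nat_lit 6) (nat_lit 123587074703718162502) (ZL.cons (nat_lit 24548) (nat_lit 6) (nat_lit 123003413646043458508) (ZL.cons (nat_lit 24624) (nat_lit 6) (nat_lit 122510407035908030626) (ZL.cons (nat_lit 24700) (nat_lit 6) (nat_lit 122107624090837003234) (ZL.cons (nat_lit 24776) (nat_lit 6) (nat_lit 121794712864567692916) (ZL.cons (nat_lit 24852) (nat_lit 6) (nat_lit 121571399939523747844) (ZL.cons (nat_lit 24928) (nat_lit 6) (nat_lit 121437490187906585932) (ZL.cons (nat_lit 25004) (nat_lit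 3) (nat_lit 60696433300597688327) (ZL.cons (nat_lit 25080) (nat_lit 6) (nat_lit 122955272428898374760) (ZL.cons (nat_lit 25156) (nat_lit 6) (nat_lit 122335328311663092414) (ZL.cons (nat_lit 25232) (nat_lit 6) (nat_lit 121804950150180268830) (ZL.cons (nat_lit 25308) (nat_lit 6) (nat_lit 121363674507221423868) (ZL.cons (nat_lit 25384) (nat_lit 6) (nat_lit 121011115802127661448) (ZL.cons (nat_lit 25460) (nat_lit 6) (nat_lit 120746965973894530714) (ZL.cons (nat_lit 25536) (nat_lit 6) (nat_lit 120570994211992507570) (ZL.cons (nat_lit 25612) (nat_lit 6) (nat_lit 120483046754687891220) (ZL.cons (nat_lit 25688) (nat_lit 6) (nat_lit 121720855028159289394) (ZL.cons (nat_lit 25764) (nat_lit 6) (nat_lit 121154193807115887458) (ZL.cons (nat_lit 25840) (nat_lit 6) (nat_lit 120675546612809646794) (ZL.cons (nat_lit 25916) (nat_lit 6) (nat_lit 120284495209828066804) (ZL.cons (nat_lit 25992) (nat_lit 6) (nat_lit 119980697902770483968)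 (ZL.cons (nat_lit 26068) (nat_lit 6) (nat_lit 119763889237679275162) (ZL.cons (nat_lit 26144) (nat_lit 6) (nat_lit 119633879770089797580) (ZL.cons (nat_lit 26220) (nat_lit 3) (nat_lit 59795277949748195254) (ZL.cons (nat_lit 26296) (nat_lit 6) (nat_lit 121159456877128987866) (ZL.cons (nat_lit 26372) (nat_lit 6) (nat_lit 120557569384667548696) (ZL.cons (nat_lit 26448) (nat_lit 6) (nat_lit 120042639130800729680) (ZL.cons (nat_lit 26524) (nat_lit 6) (nat_lit 119614216176471753988) (ZL.cons (nat_lit 26600) (nat_lit 6) (nat_lit 119271926171526353582) (ZL.cons (nat_lit 26676) (nat_lit 6) (nat_lit 119015470027610692674) (ZL.cons (nat_lit 26752) (nat_lit 6) (nat_lit 118844623656832029430) (ZL.cons (nat_lit 26828) (nat_lit 6) (nat_lit 118759237775953761126) (ZL.cons (nat_lit 26904) (nat_lit 6) (nat_lit 120650643316498472036) (ZL.cons (nat_lit 26980) (nat_lit 6) (nat_lit 120014555560524375358) (ZL.cons (nat_lit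 27056) (nat_lit 6) (nat_lit 119464399035239519108) (ZL.cons (nat_lit 27132) (nat_lit 6) (nat_lit 118999693021349965064) (ZL.cons (nat_lit 27208) (nat_lit 6) (nat_lit 118620031465057168956) (ZL.cons (nat_lit 27284) (nat_lit 6) (nat_lit 118325082623253690478) (ZL.cons (nat_lit 27360) (nat_lit 6) (nat_lit 118114588773650575132) (ZL.cons (nat_lit 27436) (nat_lit 6) (nat_lit 117988365989583121166) (ZL.cons (nat_lit 27512) (nat_lit 3) (nat_lit 58973151989649129967) (ZL.cons (nat_lit 27588) (nat_lit 6) (nat_lit 119435491680699625190) (ZL.cons (nat_lit 27664) (nat_lit 6) (nat_lit 119789037148163160494) (ZL.cons (nat_lit 27740) (nat_lit 6) (nat_lit 120193969751894375432) (ZL.cons (nat_lit 27816) (nat_lit 6) (nat_lit 119524677856587601560) (ZL.cons (nat_lit 27892) (nat_lit 6) (nat_lit 118940321067790087802) (ZL.cons (nat_lit 27968) (nat_lit 6) (nat_lit 118440388782482496524) (ZL.cons (nat_lit 28044) (nat_lit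 6) (nat_lit 118024444166629122064) (ZL.cons (nat_lit 28120) (nat_lit 6) (nat_lit 117692123773478247884) (ZL.cons (nat_lit 28196) (nat_lit 6) (nat_lit 117443137225987314968) (ZL.cons (nat_lit 28272) (nat_lit 6) (nat_lit 117277266963095408900) (ZL.cons (nat_lit 28348) (nat_lit 6) (nat_lit 117194368049621362006) (ZL.cons (nat_lit 28424) (nat_lit 3) (nat_lit 58725669225113491530) (ZL.cons (nat_lit 28500) (nat_lit 6) (nat_lit 117476786658194616008) (ZL.cons (nat_lit 28576) (nat_lit 6) (nat_lit 117553153518395739002) (ZL.cons (nat_lit 28652) (nat_lit 6) (nat_lit 117680505759154799622) (ZL.cons (nat_lit 28728) (nat_lit 6) (nat_lit 117858954659128771804) (ZL.cons (nat_lit 28804) (nat_lit 6) (nat_lit 118088656144540933782) (ZL.cons (nat_lit 28880) (nat_lit 6) (nat_lit 118369810925427082586) (ZL.cons (nat_lit 28956) (nat_lit 6) (nat_lit 118702664671013235236) (ZL.cons (nat_lit 29032) (nat_lit 6) (nat_lit 119087508224378059252)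 (ZL.cons (nat_lit 29108) (nat_lit 6) (nat_lit 118469947296247868300) (ZL.cons (nat_lit 29184) (nat_lit 6) (nat_lit 117935814747427619514) (ZL.cons (nat_lit 29260) (nat_lit 6) (nat_lit 117484643860156207820) (ZL.cons (nat_lit 29336) (nat_lit 6) (nat_lit 117116040407444755288) (ZL.cons (nat_lit 29412) (nat_lit 6) (nat_lit 116829682308606426670) (ZL.cons (nat_lit 29488) (nat_lit 6) (nat_lit 116625319347826703032) (ZL.cons (nat_lit 29564) (nat_lit 6) (nat_lit 116502772955528204036) (ZL.cons (nat_lit 29640) (nat_lit 3) (nat_lit 58230968026169509187) (ZL.cons (nat_lit 29716) (nat_lit 6) (nat_lit 116600694684562950272) (ZL.cons (nat_lit 29792) (nat_lit 6) (nat_lit 116652354546737245160) (ZL.cons (nat_lit 29868) (nat_lit 6) (nat_lit 116755719410771229948) (ZL.cons (nat_lit 29944) (nat_lit 6) (nat_lit 116910879595478138218) (ZL.cons (nat_lit 30020) (nat_lit 6) (nat_lit 117117970677718393482) (ZL.cons (nat_lit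 30096) (nat_lit 6) (nat_lit 117377173610864827030) (ZL.cons (nat_lit 30172) (nat_lit 6) (nat_lit 117688714882917275552) (ZL.cons (nat_lit 30248) (nat_lit 6) (nat_lit 118052866714404716914) (ZL.cons (nat_lit 30324) (nat_lit 6) (nat_lit 117485530026251790934) (ZL.cons (nat_lit 30400) (nat_lit 6) (nat_lit 117000158875467721732) (ZL.cons (nat_lit 30476) (nat_lit 6) (nat_lit 116596329151338231966) (ZL.cons (nat_lit 30552) (nat_lit 6) (nat_lit 116273687992939324996) (ZL.cons (nat_lit 30628) (nat_lit 6) (nat_lit 116031953480812205656) (ZL.cons (nat_lit 30704) (nat_lit 6) (nat_lit 115870914390625889090) (ZL.cons (nat_lit 30780) (nat_lit 6) (nat_lit 115790430008612251326) (ZL.cons (nat_lit 30856) (nat_lit 3) (nat_lit 57900137579438091228) (ZL.cons (nat_lit 30932) (nat_lit 6) (nat_lit 115826486813082844396) (ZL.cons (nat_lit 31008) (nat_lit 6) (nat_lit 115905144679090001078) (ZL.cons (nat_lit 31084) (nat_lit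 6) (nat_lit 116036317487071833516) (ZL.cons (nat_lit 31160) (nat_lit 6) (nat_lit 116220119854045024868) (ZL.cons (nat_lit 31236) (nat_lit 6) (nat_lit 116456712384019551702) (ZL.cons (nat_lit 31312) (nat_lit 6) (nat_lit 116746301808332284968) (ZL.cons (nat_lit 31388) (nat_lit 6) (nat_lit 117089141166286022202) (ZL.cons (nat_lit 31464) (nat_lit 6) (nat_lit 116570565876169275806) (ZL.cons (nat_lit 31540) (nat_lit 6) (nat_lit 116132535888527128532) (ZL.cons (nat_lit 31616) (nat_lit 6) (nat_lit 115774668458710184328) (ZL.cons (nat_lit 31692) (nat_lit 6) (nat_lit 115496650887022486636) (ZL.cons (nat_lit 31768) (nat_lit 6) (nat_lit 115298240245488774368) (ZL.cons (nat_lit 31844) (nat_lit 6) (nat_lit 115179263165587319034) (ZL.cons (nat_lit 31920) (nat_lit 3) (nat_lit 57569807843381433466) (ZL.cons (nat_lit 31996) (nat_lit 6) (nat_lit 115074828685432256164) (ZL.cons (nat_lit 32072) (nat_lit 6) (nat_lit 115128038343471779898)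 (ZL.cons (nat_lit 32148) (nat_lit 6) (nat_lit 115234504153426784230) (ZL.cons (nat_lit 32224) (nat_lit 6) (nat_lit 115394319143674899750) (ZL.cons (nat_lit 32300) (nat_lit 6) (nat_lit 115607622958382362672) (ZL.cons (nat_lit 32376) (nat_lit 6) (nat_lit 115874601979523189224) (ZL.cons (nat_lit 32452) (nat_lit 6) (nat_lit 116195489489737211202) (ZL.cons (nat_lit 32528) (nat_lit 6) (nat_lit 115724255362762386734) (ZL.cons (nat_lit 32604) (nat_lit 6) (nat_lit 115332187669432785022) (ZL.cons (nat_lit 32680) (nat_lit 6) (nat_lit 115018943826327050096) (ZL.cons (nat_lit 32756) (nat_lit 6) (nat_lit 114784250125232759476) (ZL.cons (nat_lit 32832) (nat_lit 6) (nat_lit 114627901493983908440) (ZL.cons (nat_lit 32908) (nat_lit 6) (nat_lit 114549761317271638768) (ZL.cons (nat_lit 32984) (nat_lit 3) (nat_lit 57198361687565125900) (ZL.cons (nat_lit 33060) (nat_lit 6) (nat_lit 114423721378963113594) (ZL.cons (nat_lit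 33136) (nat_lit 6) (nat_lit 114504738980950484978) (ZL.cons (nat_lit 33212) (nat_lit 6) (nat_lit 114639846973171772392) (ZL.cons (nat_lit 33288) (nat_lit 6) (nat_lit 114829163411154159482) (ZL.cons (nat_lit 33364) (nat_lit 6) (nat_lit 115072853717027922122) (ZL.cons (nat_lit 33440) (nat_lit 6) (nat_lit 115371130824070037386) (ZL.cons (nat_lit 33516) (nat_lit 6) (nat_lit 114945858991407758480) (ZL.cons (nat_lit 33592) (nat_lit 6) (nat_lit 114598414884789366046) (ZL.cons (nat_lit 33668) (nat_lit 6) (nat_lit 114328494912277038192) (ZL.cons (nat_lit 33744) (nat_lit 6) (nat_lit 114135863221467608804) (ZL.cons (nat_lit 33820) (nat_lit 6) (nat_lit 114020351493407943430) (ZL.cons (nat_lit 33896) (nat_lit 3) (nat_lit 56990929397760062930) (ZL.cons (nat_lit 33972) (nat_lit 6) (nat_lit 113791578362973654792) (ZL.cons (nat_lit 34048) (nat_lit 6) (nat_lit 113846384310754364236) (ZL.cons (nat_lit 34124) (nat_lit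 6) (nat_lit 113956044095008018702) (ZL.cons (nat_lit 34200) (nat_lit 6) (nat_lit 114120653534963577686) (ZL.cons (nat_lit 34276) (nat_lit 6) (nat_lit 114340356464112264494) (ZL.cons (nat_lit 34352) (nat_lit 6) (nat_lit 114615344855887315846) (ZL.cons (nat_lit 34428) (nat_lit 6) (nat_lit 114234696609936246218) (ZL.cons (nat_lit 34504) (nat_lit 6) (nat_lit 113930576373911260856) (ZL.cons (nat_lit 34580) (nat_lit 6) (nat_lit 113702718411683794234) (ZL.cons (nat_lit 34656) (nat_lit 6) (nat_lit 113550923624063550508) (ZL.cons (nat_lit 34732) (nat_lit 6) (nat_lit 113475059374828337236) (ZL.cons (nat_lit 34808) (nat_lit 3) (nat_lit 56615528468764133531) (ZL.cons (nat_lit 34884) (nat_lit 6) (nat_lit 113258864881476114712) (ZL.cons (nat_lit 34960) (nat_lit 6) (nat_lit 113342313011523107238) (ZL.cons (nat_lit 35036) (nat_lit 6) (nat_lit 113481474243511033274) (ZL.cons (nat_lit 35112) (nat_lit 6) (nat_lit 113676470174632891976)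 (ZL.cons (nat_lit 35188) (nat_lit 6) (nat_lit 113927471189682867496) (ZL.cons (nat_lit 35264) (nat_lit 6) (nat_lit 113590146814325204940) (ZL.cons (nat_lit 35340) (nat_lit 6) (nat_lit 113328088588585080810) (ZL.cons (nat_lit 35416) (nat_lit 6) (nat_lit 113141067529546799850) (ZL.cons (nat_lit 35492) (nat_lit 6) (nat_lit 113028920220751008226) (ZL.cons (nat_lit 35568) (nat_lit 3) (nat_lit 56495774334701806262) (ZL.cons (nat_lit 35644) (nat_lit 6) (nat_lit 112741667326624134054) (ZL.cons (nat_lit 35720) (nat_lit 6) (nat_lit 112798117452838264786) (ZL.cons (nat_lit 35796) (nat_lit 6) (nat_lit 112911067030619528882) (ZL.cons (nat_lit 35872) (nat_lit 6) (nat_lit 113080614753773754636) (ZL.cons (nat_lit 35948) (nat_lit 6) (nat_lit 113306908770796902050) (ZL.cons (nat_lit 36024) (nat_lit 6) (nat_lit 113011646405724100726) (ZL.cons (nat_lit 36100) (nat_lit 6) (nat_lit 112790425083173162258) (ZL.cons (nat_lit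 36176) (nat_lit 6) (nat_lit 112643051502959333400) (ZL.cons (nat_lit 36252) (nat_lit 6) (nat_lit 112569396892051359346) (ZL.cons (nat_lit 36328) (nat_lit 3) (nat_lit 56147169863002431139) (ZL.cons (nat_lit 36404) (nat_lit 6) (nat_lit 112322981908271145360) (ZL.cons (nat_lit 36480) (nat_lit 6) (nat_lit 112408933482219547662) (ZL.cons (nat_lit 36556) (nat_lit 6) (nat_lit 112552269551167111476) (ZL.cons (nat_lit 36632) (nat_lit 6) (nat_lit 112753115360222625942) (ZL.cons (nat_lit 36708) (nat_lit 6) (nat_lit 112498689898339010280) (ZL.cons (nat_lit 36784) (nat_lit 6) (nat_lit 112317116054612523914) (ZL.cons (nat_lit 36860) (nat_lit 6) (nat_lit 112208235172286512626) (ZL.cons (nat_lit 36936) (nat_lit 3) (nat_lit 56085976056362967137) (ZL.cons (nat_lit 37012) (nat_lit 6) (nat_lit 111916491210841059246) (ZL.cons (nat_lit 37088) (nat_lit 6) (nat_lit 111974634840841613898) (ZL.cons (nat_lit 37164) (nat_lit 6)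 (nat_lit 112090972905956315918) (ZL.cons (nat_lit 37240) (nat_lit 6) (nat_lit 112265607060805168444) (ZL.cons (nat_lit 37316) (nat_lit 6) (nat_lit 112050829077746004884) (ZL.cons (nat_lit 37392) (nat_lit 6) (nat_lit 111907747931907336088) (ZL.cons (nat_lit 37468) (nat_lit 6) (nat_lit 111836238600928720502) (ZL.cons (nat_lit 37544) (nat_lit 3) (nat_lit 55789145087250854158) (ZL.cons (nat_lit 37620) (nat_lit 6) (nat_lit 111607791622235979886) (ZL.cons (nat_lit 37696) (nat_lit 6) (nat_lit 111696321743402834256) (ZL.cons (nat_lit 37772) (nat_lit 6) (nat_lit 111843957894418824988) (ZL.cons (nat_lit 37848) (nat_lit 6) (nat_lit 111667672609247478998) (ZL.cons (nat_lit 37924) (nat_lit 6) (nat_lit 111561963014756205904) (ZL.cons (nat_lit 38000) (nat_lit 3) (nat_lit 55763368371669084335) (ZL.cons (nat_lit 38076) (nat_lit 6) (nat_lit 111308083283784446526) (ZL.cons (nat_lit 38152) (nat_lit 6) (nat_lit 111367971222685017814)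 (ZL.cons (nat_lit 38228) (nat_lit 6) (nat_lit 111487799429753160896) (ZL.cons (nat_lit 38304) (nat_lit 6) (nat_lit 111348885695929210608) (ZL.cons (nat_lit 38380) (nat_lit 6) (nat_lit 111279459160998515866) (ZL.cons (nat_lit 38456) (nat_lit 3) (nat_lit 55537623972207290219) (ZL.cons (nat_lit 38532) (nat_lit 6) (nat_lit 111105634435580880156) (ZL.cons (nat_lit 38608) (nat_lit 6) (nat_lit 111196820460382740156) (ZL.cons (nat_lit 38684) (nat_lit 6) (nat_lit 111094189786119368220) (ZL.cons (nat_lit 38760) (nat_lit 3) (nat_lit 55529994761303355356) (ZL.cons (nat_lit 38836) (nat_lit 6) (nat_lit 110909082155771592420) (ZL.cons (nat_lit 38912) (nat_lit 6) (nat_lit 110970766732839180850) (ZL.cons (nat_lit 38988) (nat_lit 6) (nat_lit 110903362329993846148) (ZL.cons (nat_lit 39064) (nat_lit 3) (nat_lit 55389071319273320818) (ZL.cons (nat_lit 39140) (nat_lit 6) (nat_lit 110809440724447930348) (ZL.cons (nat_lit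 39216) (nat_lit 3) (nat_lit 55388118292557626577) (ZL.cons (nat_lit 39292) (nat_lit 6) (nat_lit 110712701470735637072) (ZL.cons (nat_lit 39368) (nat_lit 1) (nat_lit 18446744073709551617) ZL.nil))))))))))))))))))))))))))))))))))))))))))))))))))))))))))))))))))))))))))))))))))))))))))))))))))))))))))))))))))))))))))))))))))))))))))))))))))))))))))))))))))))))))))))))))))))))))))))))))))))))))))))))))))))))))))))))))))))))))))))))))))))))))))))))))))))))))))))))))))))))))))))))))))))))))))))))))))))))))))))))))))))))))))))))))))))))))))))))))))))))))))))))))))))))))))))))))))))))))))))))))))))))))))))))))))))))))))))))))))))))))))))))))))))))))))))))))))))))))))))))))))))))))))))))))))))))))))))))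

noncomputable def vl : XL := ⟨(nat_lit 0), (nat_lit 0), (nat_lit 536870912), (nat_lit 0), (nat_lit 0), (nat_lit 0), (nat_lit 0), (nat_lit 0), (nat_lit 0), (nat_lit 1), (nat_lit 0), (nat_lit 1), (nat_lit 0), (nat_lit 0), (nat_lit 0), (nat_lit 0)⟩

noncomputable def cp0 : Nat := (nat_lit 57162188072024458443175317324575133613142514210314305819641670493715866606758428909771571910669892291037113415433919505772255218238865917543436244349125151281671695096543652338647673303197556829456562187726262752245567352787319551814067517353986127493642581219588379456961176615024587004165764140170309514280096144693926407242012485029616017457630350436085100048438793982574734055984713581712565657560748987873285846242350711911526491558107201226431678829113252803416155334751073660705257589768159571993466180878728953775432396913569771349450827589841216322225089458733982620478360735668631585672047649849977009586459830500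336881693706117328246758093847814576551085176196465545852356069833053720572542393957181203925604798154613457889164369025180754791246990352191666174548036549143985777675543807016651570623422876419009546865878006066928917029315928724831177864912357631882396683931793031500083772166848888856308362444753221451983036486757740143342446343104440125782813167245049082593905950579729092729654828751584041756422982283477692113207650691905242106881350443760972600654453049335356840856643891640673184358468812958082545387939322664650258009076378760809816380530670413150704935844605570638535016774598594750747134556906451674971663111415378311342898292459136210735803414722466400198917360270079833058717559739630000736394441346499949492246639588803567771210327906073588757577793107670264233858096721812570092236854580080729935125836432862564848284143894234185216723704206565442098731770117600538525432413208368054925679795678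534611299412353970597273427777136490562855687210149291588009191918503195081870409981306784457225085858337693416946791652038042156437945127128051277344641711392836209496311485837685281886109097137879105206771351193084777770018207643155739079400573571353736273168413536208933951777056898577482384278077400557835358128222091494468380077733386643456775664753763177520795500999471853530084488211514092186018845762789770960198850247283760339170067227483405279976690981817105706765922961545348097828591553769390692387516423827024592560923170697801766773536301488691677596948809696349969838834171455807997716886743342940673794713738543540219172777416165084604550050497755200208366583895296085438521065953695853958914487184630170180620647853965262736631706666056918169490918398896242789550281617636774391626702659197528329073997713685461264756327751568513181705006006656840080861747958182461458243391075164262228559710913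935454212521970699109874634911150878360519167463028061567596351791419200986259005703822722071459690368553914736003490898507028110059173141187646827223094511987008207157374309461556123763479464730436073309940263843101159696510449362044374432065812148804778966659550107583548904129729843343760116188096456807737759117930717082053867149083712450156719632233770903763786137792180059093209524313709580734177064638121326623430972302052987485267883871475718167948767725597094490314335659022654644172605803691071586806704690874069399902079568653584462655718019824438611100952423241125026506583369986233557185928513314687400544828250703434176689199148337132547749012427592231879376538939399807975092094201641429853567802684455189204210190743427608148579797049810141905818845723359996965060534137701744747488899049039067092481883013597660650787398510444856506007089638545108821574244764947110918729132960069541222840119357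919651880676054865848769989286676340407633566579537485344692755127434253593816086683799300962141226225970412878252039213794651452411858336133767622470669966523224895324227391372640637971923582569127568330831125093992749434684066154502687894246247479751018990154274891309591837970969330421497222956081854139330192582637895931126957950379172523551411370973234731079190703808650385414288791062912019345115978843427833136896850277310890112591032692349389130952357114156821526321872143703867067611241990572301315005135802139527524303415993192991105457846495078412380562397903805819104043931955329823765977241272893690992394175945097454472859565630385551783996105918279830138179910939876991210394793323750075114803699085371337230465269821299811692633815098030433179873125989790919033458493752202688474588832795791286553451180613863384559483093624999323560070846825115106081611202024496549156765791778159146372171328542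035158601924773021075232978067794204543538920728723666274408742010523928615144408905702162699870312983803706427755791497621673606096434677410673876115125243695280500961346969581115275854523834160071354120840670404548685536308142449073157314765181253487096109722594164892717607921340504347112824207289141376156307218039506139036553682106806528521054055309722763659556103944652438806996354036132553987207960441713656536300213459817822156144532740033850602077122384765288549993361894621565027254830636506541355508441892701664309889945963059730681070557276998618918378667596793801045228102841353746666904752035688894106740582188527097641197075183109027854294441781018433088032413769174946016597366460349687716864744753485965972515711442436369504874420344790780727465527779997528400566758931167618052360518222426852780232714621530817408463378146459407720779866134769486650734144211790490117756875893772537384722217598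182489957083356151636331617970026274478703679607423720124146117241203618151173094655078527208794633217105211751828936033799413145563258738537695285745761630983323752066449373958534680640892643340031308801993512224660819637435658957819078334018203418283820121063822196373554786946029255839976995367468379730052723911121921139611994728360626491589998671603877558680302610865836687694219917693381923278538566295123679469902770383712045404987023163040063809343537327028314636384862844921027031416274053494877471032814366410062606583110783069634856071091967046367205058200918978453218819544131924693178574112191653976104041766798501055824169854508562512560031636915837378209786151141466814998730972062068322852046234634354839385098752195940060975496736241202392918546659328173495431036321427678790871912615169778926536980643740847931166829174081708299266140646253538289795680246221266107588610279145976328566463551486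022401825807144618377071661265979935778097961616881872615758443967860502172278754008812671436036702974003032451679531292731982685682050920756393504119893488557986087776633310174718570105852756348004062593932239392890809774955175773306059894123680825061083879897133262696897494801904792200911033185584455655006175509949053870460920528014395543693182610242418441661513425916758162424013447838222210433053169316581473510260244776553385074873392978036329526497090231427614384342037639141582653210482988670562352009264623872603179705152287751187261610858902612705321461957642536567924215142325713014703165828901498841645452014394300826173096089773188534256147389104348049137617584364840180854208899081953749555197321469923060142800592171570783215509420890227188064300877996017790283828199374119054422378025506135043490734091692922502648909085966863745966980365031510723356210392887707079469841845196621763002669823198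037977518585032898602097664893876092927707509979462396881838429557431290414009513515778358237456835164551814880669259913846424386005339707449724593450011288041249273359034691021893093699919195953922414265426491912940594959809119258739243432070426151573913515370979084165086965822250775877804181402982066303180611303704218688229409104675876401175087056650177868936293665872755656180128556432026554326351803492409436550751801877993284603248253173878383302887512563043197676062890770650995062443979877665724930019141021946192389342814966268425040369227801705191602379479618249784588999480985152413347615862475136457304315033134799529507869264271871132960318644058407689646766175215343955619609125358545488357996761269091848426348123554784543346598601116657566605810996594820849329575233314708440809324941645438774674418146358039582029031420509895220674113391342996212530916320703543075652126338922004874914233789086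352791197675611984331239293827308911966694304453662270552076229848113111014254594300805617103721625070848713875064594586015525040552647407676024119950789886095096413620534564277779209156841214657084182959606062690851769059341169121424794711879755287160658493369954435206349886277059753596567535314582918318973737137612221839281135575049804106256852106320564894241714122029537863815482137273001283929541717937170607969907924852415586657777018908642433224026119737447101529229522312213281298912863918821816779604707636062619129902717256747500707466276896533308896665128189407468980129942732462217534306801969946428588319319382152305483464170681846833720436612568182181102755181268027431831929882303997202501315649793624405251579743091671607186640280953701997043078136104407129805478399932930564746652851790070804263422643593791864963916703966096985178080583398611109742878233865802729660455697464617324891596717675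414247956970844844656516280629941144017644859709890681764301397209879924923447116618198548451259779405777963762568505843273425777581765953025819933021113024045400935200509414676467841466151355244075354462144509745538063682743517886902920809813317839755470675058539272448236364265356667847505713059552695742903997960032210321296210379115412091875210301001283292430460449579133015951197566247315148694291494646922625862784690076637272694456402829477980149624957617426970744749479634677718610698815413395246775827934467247057972601305049894533412800261080185352842288441509260984713630947079704261766931283964269204038484221280351290744554481707879703798404216260190988034022626868761959792141918967643131845594878217453200234641899060289024047812312874457375602898678940579750150580061698400458431310191558982482499942292599193758981723234798556171306324057837919398075397659785463954400133925267542852814458645534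279395787200321680166623802754913139097226343613238555555600167041193022864472230959518770088199726640884654710073543261268257044176250696891681716168768301258035856697212167222562444797959355216109933267219451236775776456346646042130938903566227701226309323590780488317630484327099958301583479520028529677650306140868885699091690624407605563123664443743826893908291853543433951460555751386455640247308186808023811507376456308663138888511705962433328827069570762313820808300025657016031450073473839240359177400538096882682019850590247955253690470955959396354595378520633536194452753489205304668825766735069610001656306561582251976277678915701182202422164386043097444854840452417989476072446703945898055772461608496136755648780861585671023981363510784239170491566243175087969043136039248230895797081558166993618624819705719559215484729159551970626723460577406156850088364026797045118040151397860440804263479042244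035822816022198644937900550138019615361842494543624319920282908367808490713462710519508603155564933902280855128767608429205003697080736061341278593413946696528551901666064323431140519240630577080681802523270977418448054955497115200600514445082189198695488348031408769366476196872881250606954211823786125969882187713908140449952632878421454965364194875221464894953375314979705138938184403225439193479240412937142695681120284497842327026270555550045619866680830417407910144044976927655507545802127488122101988153260856066294530487662042369459758013696953942042323136733595556314170826040587079072262446243958162093870977897734712985935369411808780526283160020611849476602734413715751316267676576422036982658997818485665769208041666567345024503171338318214618013498617864711487833266099878247321814711989171196063773276625053658072118080450857769660531627358954533723378292658758555252655712580227807099306799932689215644922628398712392147826219534833917600434096349733117875977388221036328341875547630765922823017912172519940834830443081797303874294709744682058524293627548910217177874108423525682639709409728669281695368626359275767821213520983007712165685027975611234772605403639521714084090002850512429704795914240)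

noncomputable def cp1 : Nat := (nat_lit 659484737505393257736746082768950093156072890116296688104443512378917879196780379699795619086072114518378628776539490063554158489163275830743208490541628045422646584687270442100947080680749887417385281465210015913449955273809197597277970502401754866159204536109586616225329833443638397209552424237681013705088027424358452068345436319994006048457805528323657999522569314751293768492415405353223472489680373504457786953187425735609336544838442354151410533571984470807841319071327213131317080220879463507960232927521134950471424551589956557666041836544042674453172901135121934822536179639554331351635686213584708178932105144263531556803321951373734768278863402718317857390254803641911273656433565544812699423575548455183437710141439617054122224090308992517270667816677028948194905683388207125490803602180943960751493597747001812767873973115098475005827178175292232953184199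496406077141376373435872308422919398297703332235921691796292581927622638157613111366897075460628145267987107527084286298983391892178080838257772763558361016942177538008498143202256706312908931326489882858182164853173473823840166151060065913758288241590437800560455895313379143265736906772553691263651204558409209251619352592061730474189455351307696924885234203398580426616840155437014499256450919596555575160839528021928172281460853639815764081044250322996272414775162948941662752005940498592260100374312859688472572280675474642084276093006114327527365773785645405523260639977051317992923197675864125421316108038649805288479256482750459270093648563355811148197292965512915948897974156110800354563566298177127606014483484435423798112388460846992878687083606547437103849245410630950299456400403192833791854832095063904126424103913231676741521931116250778167834533032557588480191935812363546285150749920326538034446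748423519176753528553986193496501996867402009634888537228295526504787207729867599120434041052565267061525177819260854030562273417242643915489183948501639296767030066479105118106609745965790835440819550198304687570892992806508941301656357610542760938450065121602767096087606912289050550936518581325215785530185272328339330008313905237702474050325227082469962927174698853399269050871562670230608346235195260299650069970313616029561491193384404208830266547164310699514442375004445192411893461012294731494814451990843689727876087559235606624600065194497137487707401777086694351160956293168424856944865145420603718813613523464514703458078717356405130437629568034651411384874104146779012520283625143726443055469115044225844577854747951729635594892404720642737316535870311528391103723780120306325512617659620099075915564851032083799521057795107717200912313448825457636350157269646971674120400712479276857818078897210069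761398750152239407642169386073174452370053086550613143724383814319578190029894629174244482169267423698253701795847609156299524125704159529577246360056217379760397759755462834612083829677982094952159951512341694567070667013925807976801203576994065672842507160485209966225781140782819695035528622552281718658284966211390688413110230315914868743780973109320552111093700612071781447370411079980232985321215553068508914597460250036938975882916812935704041550044832245187049417161288573074277262151450487556896650873848765951611140777583302666745226787797331766195280970420401673206355429448888805285596069249684469616993852557845867677848535321343149593563269908617316657242463593649962620800859814822919148958585921439731130891991434634126283491657133913427484746591634116924931693393512530349247281670480588636957287335556062858262386177176812974575565177575141920100464791361627586564821740060641830618213815057812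695188572294746691412805201317626332098313632172028106927401612167762754446643194424071785454058789020986238996070577593615602218682692474685476827256136352834756241105585222153433054129206441438605659091700298101061800272164793411250788505455934118280919100535237950341575129121047299811946033483012829379604348186201777867589835085754143600983855382292605374384637672476665658322368250689045162416572447632724363677548584188432322201327838595835299416055562773459597039966633932862426234500848046685697795278272530507253041124318496571193852612770919764870164609892641362412210996911469989845961321191865604708145134444530488215867556207593547543221925965280217619829954731549275118077644558565749929870939306107409618124034574729581780833780143273326089579198382969280850082637998313866438258368014612696259368961390197475026808688108883841815528528571127761888410915384230529169360951183722551601705762359486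031511886084005879742621291860086041417940523348915054034519798360754272168406869426592791659762356102535962727717258486086118135049368418447513601457814932303713012547123440078197113125996841193749068255539770998794074933132429416597073507745656525804812658465586100065924421179202426455391845653625733453929175090783746630294104025233677859956281805807818346359616793614405097378940564230541634467608634505245021085443221827817555132091356520026081724012355529824862880318797545774807473320099214252363764373020627635954358509355919974154797059672073313977576754623347838262750415776903867234308718845359840279514817071361989772377917020269098897450891281989890827440357736206163385316616745626671844036839281514307890315743549275970293564878097903705261250053067702038040960715708165252794013189850627049665995007578600498195232221131233037646049523581268649888845920289637309237260566449064943571848747416373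292939729678107296930064274394514009562167600085296683555219683191358422930730275425591096617931082052797719272329634977680247769369677242084830360164216994591353253070489827603383952528915667561992380399217091904322424008048178658546418421063472834484573905089272365440369698942313624133249403220267721325247380006690582598307951496370937956516277987290164584183757538414671271417532321266088614110203805160834670177598919423297013353656746932752871211522775438441223963856628418924834532099638564640147459366817976958810568995391735719701453268257407072550943110376572153751603632065918052874299302526364583528195782508024078192768935262395181199986077370659686010952885005643447246687285849509765435178817236572954295864565990899088502026547876380233941317047168748559773033976549198672326431402470245415388617967727190673888860387285102062741735577514367296224388888166171113950690331375634703461836837834904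395390287293317007872571256172849782089359298787768050332030774727912577027567635525356978231314480749274608896201557157288118739275371606153951062544432090609931774664661877636829809189591032286965441456721988669549662417038010114346310700736527452738507708440950830478986444108542347878221421337791799569219712030647780734400576580194509122403417283778642746473303612095129328158074030135341059936397056366582693669143591036729859402205402577289543089096232049439348960002902371729801155432697147800014794594771866591287311820240410821930812803719371867304964667213110651951665951668633615740817235886764266147397021471872485375276214920351017211977361846297659694499766353883326055764032820138009960608119793995394680547918198478742665314003000504579110646678640137828639157050122172182015933685812944766581350517307385824688924807952355519596982439095569387959552159001470336769872743990512984630935023830718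586517285762113967272889945051438616564276490572147988403351715792664324273045552626572570095218382890844072378001025463222507025916599153471993880149066822077493952219708382934933372745289819927611279853815197951585107582863572535841785927119427435306259530294005615119960819679355373615169419531457680123321572579088923699314025641151141865384985981025956501135135291973309718797294883745371565148603785349770638832493299563553273055880377543975543079289608294825557943091156518913416992569906174180113309927648595363340914129497722769174673409192807568122401686154358735218735986303734471970860278565160087351368028495300333910457102646668892407273459741263291504264925806075511426718396429704566878474362220304595190731097976539732153045695381925733443856492771263878121331271015103909960711168212552840854890317969219148724054609648505632068491293728726231961306466104931359217074508324187040411755711986379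079120785971201657679797320968410249374064334397753898823975438963305700110758784240001893635378209897050330133335532230913399414206482384930987620539902872197978361126150309814634635471836349801987213167425056866194550258210033090357128619725666383675707322680020313544436265434642384543882929474671554888357439892850998773827983447388831165718101163703797719257325387854812307096442852635325475226451614639533493748722496792760603661172623561042969191586575189561504162118320169116840561376553239475996049275551368139003926193733162396566103552169129433499266454461695368946314279945688195714512075031953566277131192286603378516970748520511888126774603330305530506502123933181989668629054500874864467865292426605553329306261043785950947498149690493337277068333501779553938682053972119918649755295737908490951407402674253785259470549305432870478722744067858208262683852798558615701770150011205983177350863501001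534193843235189907456154825897820073889245622368109715970117654317181348846333323730495806312829883962606056469524895387807656526159704699878014997477637412577605259320231709889689068046195984142591136338222757181101355354306549185996067878524836138172909329616741235023629186541337731541497287430753074814358353703194479974479691829873435739308324824434409614229822356434450990202347505969721054127689617839120958644398451445976841303431562733824207206922818801637807240334095205850645475412345219568095436634859392266415224912845675036379405886750884885825847868370964310502081430442197983512250249354714689702387660207022936102944184799227190090009913785393792732498916841955969427591828413430195377092897132811255250900274263616997694277713536693032068423091716063843457604038971422754799846657392624832870615214885580769590793742116938615774768848425130847055442012773541360324379502909873835593785007263795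211988319107294655083497867096597834916416147917803502764851191596813034274651258595783341233388015315173619216813756144730566147854648094792581013979608784744802741693685277955811269689001531692624320196453172991421787854722934301191084571490692170857529136591968429332061547264959907745239038986563093481607979588859482684153848655464322453085824933306449090684661806219873318911372270735104258368408471847053197572786322097902260567290567179491626020295228320727807763971161024728153399947816969959524411925544192794866605772793996190610836743639271076333522788822405450311385640884489439462733139033844949544752128801576976128257313380511158320492965150470943713632130774929746012892168185690890827651612704329882885732195436231580762733351044236984051149388182397743479949902802087729693219592793014921387704809845380831121273888413761635054545837710416441303111033936943165064421614600413910206979031644491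53531682014841079650797157796416727485258441841397033511006605499983405664495664162686537289969335197782287456466285032231070678676891788113156781282096189712982035850820026046920277499143380048120978200068471600707280343306128139608794789201724764710116994352111453208399278806001484399206017771319691556240958385212669191516361608117038458471034697754587484143925572893408184922101729879405286108143089931507461858157603351834592104366979804401291136536191343286966497605967266942685033783315147816136155855561098891154326121709920151360259729247542503544277939567078396963613506193954726710106882029282719178596786471099785230553148138905604247517215665197340915096825171729108360352748736192059948842540553112160710688970325143593988078114733101474145015418894086376551798392224574583876549820567242169004663595002097727141962989230920073251069437651038529143959156160400687156133819002496988126795796481396452089313355837863588356344083495143096776052908601901056)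

noncomputable def rc0 : Nat := (nat_lit 562501453679863114827379981489064572931019669832427516371864984258522160669246304342060693154559631789228654495560614592447871602285905740359820527288489337048360665679206393743750885206676420351945150330472615003447864196172020206055471465882358070859579141235713750026104088426666058311281401851261348474082609630581027761105902103410488144514052149094100365931449165727157812806370563323051530645940541096188593583169810589882007268330979328073775842382948195368912895444481374029797155206114365343289007103349116716043475666410075657185869436945557303976876720584475300727832626339280621489934264331323813786724596800269336740174391125213622192866091585784427370405880566994492984742987500980587121194090034225619187168214202333277954603850426807071598299944261482386420980523643424175669537489821583231781799345204086843370155420839918498314316134800752519983063705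851916174673147438508552591020470971039302612009556707157253614255017202050454756077766949451082537097287370709035641094575000055913996914467671907603649165814434989744207479004020470040293305189795849949466840614701373829996620300138636315890925996898294543339093140806093758106285915521772935257906122400113905442156940077772892746710524600997128934389606979085685708031976529070960835884509198200918843663812156460261800725061739400517929527676037288601260980346318490684942968244478845900137849511843178998469804000781246473052352212887735161469600537621589320491095366355695040643599054189226233836463509650147501006658047645414784648548178160656605590497956310353637870174330728630145463576144641336197564736898654360570921506275009651703997809669226261964720398699749891044166312130178326399108636179765078446961891119723952169278606952778797966877307205941816673964389247013873402671738098414854972924193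457679121206291363995239552367009624414053744639903288761237978783282316072910528495623048395759139307643050298821791659541552327086778823938729325579539701010377317467882856125278686405613066823621249470426722837188013220300407413306659543167160034544804815455462943938423394416943991514278611251341097769303996239548744733391678697000435750123976157305457985103792914571424457010704195493676094418548994968141463712130996349540861490334326299547365231900837958424891664179687248441046887774646719751337407100816088571951624077160499850012410645753490976591067343791764972490389014005236768021129756687906344378762118827163289987276962665591756757713519491094185816269175229144576880804362432596273022578311252302402770773670215324180509666683923110147009494649598205996820336023053607688945369410558326048126199498716381474129887328159754645007368094715611023938503533202755428489270355342330268682151034532034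000309281770240448727250233289489898267742563026944410696409837769267091679906416422511391962081488406156699618446738222354286255446777587098245151269290192344595059100849270207226536491529784718335710338996920509163387249687343168002304663479924718285002481584350671928727854271445877711642343187558298268977319863048446189972070029710413305224341233792991761067901002286924823733533546339974330322223817490880591800279876746948883237581001310518667251318704095449456556447609949479930855291022466209263118558220105156471141809911604083530608366086475944069786338984660284312102956163649415726744785283861674350689158253118784206161471675438228387032961736312801318338488249421210480134335492094884058327878689220428855770750790392093109430176535558316199919317771536538192840430228940554428649173885670783001297048498664061101428424098646101102778682437150735508401955605591178380338305561573894659526627206161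455356644241096258339508394888853822417455080285155945737825937070396480903376464625129108909358442326059730137382982444200121566322546832210771196658371117724352468173290627590646712005213679287300633783029252185463529861577115543332624092656542288755562525774081058162747330214230776354609957749552509967207015456497269267964845493007357067539375047245228270418570532367434774599322771802156534683878137247508902828733622112026448929465487409667456649407235699613949464697856282103130095362060973378141399519031254745726438765428718792117116464525399672613172448253845230527332632376252381055298677895545441565856636312922242927541271961798351635134871435660353521882227178491920725092477558849315541238629238302524041858376561558207806146963034701265298614967169415239606404732427006260196987431998338597519495212428459432378247755786978858207914688321674165535309797498620206204359000360905689889880755113977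878363697134040304713803253405452593932148368390137647458485015930441845289418738038821238713246274456869439340343245860439758102179281043159955333332245675144456819950253570117693720337493723749239045227444985229207143887853753728733424507779710794985596177022631769299337826648119805172829093811754889146204001762411296401638460904382094223158734747215586294619684144560305122015510478777095710036413151309668788352963416130021129721708300651611791436276492465577077914271581270761579961629876345734454404246681531783331104930062497861522968016381975099179321686861635184083707769364960101680440122336393128863215986379113238885571691784855671317765769093278915354987338686200021958082410867305676924023271770004046862739697264148625845771549123768831774320405687112993522319463745924043445009680058401069556259882573729722710606375184676250064764118891280789223092624040266463391172745021719344331296983398823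841576280431038723109742536715940842500834028893944105651881001836366152671148016781020237417453172189564128711359537272513691745038691281529056351923569786739989352678404804317505343935162271934599342482960595121682823251369912252722120248106342611197491763296152430635905045556521891048205540416111715853620717700671852033233717059837516266069377449947873651207454104636403844428782266604115793017919061583097296549992785160207222174339107720800578712444839930194089641467099125062003241659941529647597466722812145514343983161542486922174196091099041751698301537483537812749565262861092285874647411336406916177247538596319850460741181931592002016860238282531721748728657556216146841987076181482773701427950353136630911152241264347969927661198115777484407125442756159163943671337175837114736134301043045250110974414068581567822324768975389615849115755979209354404563569787904382718029122350254490455232039247743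670838711435313064932473352609667296221298012082437664039136357524228708583475306912397117125206077811583104361716003113071063829667787578396638421024694919591911188877954802117006368722743729095974248318369190566173069665866691355847777954859659553495131445852273493187353191456779540870543194824177725203832635678842958596317928280135436144610401138672578307939688398664594576535645688654887852623055008499105351382338339373339393537134382942134316184001795855127515930578677116131637040107886162033352961912994578865505717359587673481312744305910981600176737113282685147371088682030950719159252616548279742227274305051278439509440840319302625422439109236542129075239744750629939534192902641458099968920756725270734494430355906424950421463660636142618331207512156954925352471290835315887955456347458072789679306626931156228139408300532847383058772537004657389050590239774834854119471568855789693361307439457245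380231976140585977332160421596541373053575626565536092633014851571871277769509480513425288584111863081254225632290734865573624087256860960781210745915294599879435803723630778319694290757041768276218084082426671398169372544379876313986794654324968691055212091034787880616875793441042542705427650297306698293485615515384608582919607901653410931940951962465440979991848888077818797576968587068743055963605841997939688615988869507610560928007231746179752854032423552836401589121139490265597266735007456529845068343615164928393919732327758316681485389065877626946488778653729602604713597243278277607582867343200401393392851750771540011919802975672863568221495193134558177515005085378500182752674404797190461598910575412724855477320150660556978302636812087658987463967841692967314862663408816254163369025368564339121263996742750206846296970266524887888224433057347750443136444166412461765303945923866350891352531249232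216701347358784672826736445530891884905937690580820351290317088449876097271358074931898305358512174854245411448090810264748613149351432658628478628192270177182600430256240921933668534736785898599154229390983391620682757112745671535792385759316377729196273406891403040176318873150413218580444895599451874623835177145435956662541393795509339140560797169280402341164868056332767344477608331238315398959372049497143712166070814604053860037998660484748116367338155427600235556496430496171656147659057625994627271370345158852242782056956122719210606220475503464688350554713330665675552794373999151342443004393772590487318078735742976576893483303954224250960192986028296824889938201670080151111663136344282415109027602978865346516780273233906414390247272311376809281994359327745312346274512281601621474264802133726282062937108173670320187527103744452786714193309967332139254840867934158723501696884380927725135277659829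564633511001802855570743219404389175872482714222434984818098540355367257076816717238632876973369451805903916145294630268411453221937119329050267978896493139858340765520402447584489535183036963854396774308381761735944734608069200968340833733701983488178317931219383022090824578954057897350468790354987384545118066606499025914051061397465153274449983241413764206807806036301158867534557933710118496072828247217535740588217539838969967897016001231364660207400514607031865382500444866599957638557647622334667719436460621083791616094843636276038338407077115813240671761562486200145385160735651163439351304636837613660657227377528951036618028549647984520060798102291744365914332416611523065714763992269279350450607294686280433679994340657936715786233890644086238387304053480992894146793804175259767689188652585593147363986395769416356218422774198980683375063071951788112511129554398341136985270829102845977744958797708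583622973731156112679366188070068897544593641753079003574468053111078791206093215665510884605750456574723687791444646724648084994376108135583209509901579536988843873047160189123308009673933626578511812710137354266070188281894129366774959430048507955716825805025667076730855661848664225839754969817917387527041825482396405799405256384113722231464906161454408054588920865626966883556633868365009832536368090632899312550645342478405728898426369805709586708635171883692315188196358513611904995598198694343886792860508594674526931999939700937344653373849746115991056863553855540466898790563575245445257413798411786809291429957041116348219499078964619286409046619089116347906597066242828715962332015505382208225807732451953826514477005976147205142169348436841199768670956721373763727670663273706352581788804043369394764958565692613304769476139134080685995505723708216944153410613299008939874393638059685518923025151046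22131210456052042213190991774234806485675907483733436789419446002700506902977101172629621485829572181523250891980979174012636407243842288627729247267381032010142556101870406425945345242200935400570647522366100291456359383474453135502398112069628793407893614504791577305387388841232099564145878473260828938499486312001271359789034047237224922978644850662500551484255519409003060775493902321631137387741128068639607660019742296405270990254646172699036060426755599129761531771177403471279894129950373623329858045889711563457686440356855154108048501001350164142636278751970308902563181166473836529324735424024193089317836956818973469952403582198703623915728912528478716311087506698337640743500867107511313130270581791817413703501195790505003739631069273340569842948084432294222316379495299479384580651568214108161975939873965386443042456966655399444796020618361939565846140401472876699686395789223766064479650008740245824627546703488391672077749314487956734209938287493120)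

noncomputable def rc1 : Nat := (nat_lit 568281790203500878972455182475499834489042561096985906263910759748794354301140975457446186281764039364267090381688955211987076981754048788262163943041881086957227195290705516541758116684040143305960456699839970659580639994093633407266176474962435852282368100122606883046684763531436557162808239018869075116770324202873798235449835683283200006714730687469126534197048326333672366712770440543226912049684079714876513045159580628938321437697727418251134743728671067372813943176921623702865288976690421663795269242037070443383470081023051778340939215090887627475625721135096278134324534319447232757085014333012570450433155428751194965254123762594767704292085500591878326395690368134784489389061952318118505571327438616979083528714729872857534166024863859230345492280994589026085369807390349744283299065781579905079922238937330450031046337904291253642799314277207275128463825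971005898664827295438006759889214720206217096197000197689371817867998821350494609978837351503597034305527451789329976431278902832441517837556401869618372513636544582055373206942279753508477843245509299712506141172252147009324760682275095545490674260668336424576362857772321040303184161696224844309029611743667875958251772728339491385145245349331322668247633754705196989542481779799514243158489548922224705641871977133106794069225527540298433693993207078784537073788328673401786527495136443945553730948864553253073992377447782711460796970952356328945117261897870456451681319853079175350176524147207013420888867244719927870651766146053172096341842197460618427966567972360014566357929665722524044499692185990964498526895130742063683867348172215551460724110943276285340655645087536161403828785870740195302837246742561337154046753628345900884332859825807055916964003913916971884262713385233975313201014098841539234654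352641029725384561747636426680136258851626989769645182866708532818816556290384665413342672075250148442685676788153687354407559643054703342715071069276617902184179434284505471339112601314384402436788308129356389598115514894786999869109774484338154094022812824672683508142298309611728670382857466873214612373550338633893172500916480653469644731177992962717970222612878900996586658324100762160788282754438616403298562038052895997947012670628764763190577962615078975010059736541039183964053764266807210222779768640750558899004496575673809747292291029380929628407145447728755073952684090519019931207936730897951678545584644487679190196538877010353502379227039863827126972291723528567277763908921113979499609566310243708163087228247566075417666087087619609614418676361465913665125227690857255233811594669829432253664596334867940215705701381678198111946001093415083169213062373605419015891725745192528255298713456985550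248826796642187826036067992259264683275482130027143305244751972107211960703134017111678010133723678665579919911868905830615557816918224580780789673757436685961362345246433370837266906090520282336001983458339522318198368167994449997447665876017587552279553715602687767022847679316374523425740492128548568542915588884920299914366887377482040261314570829789817818289261502773715174963240692610193075118088776488738243837251329823034177762597326022847329003685101264242869165376587281111371393970634053710769994439448962779304160685677828159839561740630514578348289806738703302170854164364390909874710456723581828788871725022228212824116984879554618740612884196112552931916850284476261653997056330514082311191603415411909299342706377432620295773975170243020237758543998093732878769637109827589381892380119199274877822905773585524515653430648672573032357248852641257802159915575341201839965763016923333543477355891507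360108154200483532685755671669384999313705200242201181556682486616304388998290640310896548601084876034259133770813491093141754148114744186648684569123645207032996240444305925752389478878651037605806168948473134143010496923060421085369930403474724865854657548805928508719039834671075894849965707366696779763666423178307667312467869077345975097889105744443241141426223838048846262229135354905862781604445601436495009462181639912277051304009797548359786676191157211721813441412971872999928207476443612857736648433518356775653334678885065424793166764859278909677886156277814384468978745610457689340054129778615958785042324186883270007254094283777316641050435459200701463098684215848627726522365693570994468330727820947284939438903448450079502638796419980486189701764577160329343524118459490430719179218975601477123764226922836371905402497485651307120351780067407833813988610085930832924832140935338862336485723386276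827289610349688264515751328509473097624097140468360198437878441168239297373825764457451089900629011559621246449583693860985575597909113621387158482722587971098865526498735201121053945773003929210941393571708185430276767436166686898333090353630713175308357749965988739978511173533901466596887651872469426513755428780839053175098679860474392944299238702155421659747027812128886996972288826875239481062914212229572016632246119569491442725967859002266503076683708772622464414094774044618994217935739473677493361784524047070616700566629553356063043472898064622729701576272775610875384427602353715811512631643682881546364613128671417421639399199050983736514395354505936164459334179325255960968427490624499801336198334339433295627242486015217681578670954754742550195850704988356479579606864641469004786684040691434906515380574272883438211068185226250318395614231767527778594771301745211560696859270979952787043861852040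538684916611118218402200002789691582534616543196383658605747572307404158468590614073035261380129003592744717072947029255888927832971347846283981997289998782206034540085470630103760012980250874023896403682556266093043128567362438817816644622638192725588871482692778798037379246360735716677720956428830198984905936596434591816182319219630925846086440637525228749963681495630766890450317057976087588551968103525514550399503046492644727491387470799365523015457634231298293815630308484095628232054051935953965903792606915238665187056572853455509951428617661754984883846886953706209079086595301018578681747042205329738983115375478141868254790202980024359407454191310046696250804219097667434422287796403997276848795934773999163154645863067930358586417056206764469714613646580256669118931915825303084721231722246980966616206855929346457442833025483264794368973678791361743043379921322495960670764059719716504786953862894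140451900089766084513709080171258165867331144045016046240436027519102463358483314803566326146851417127186905953258465465827310418919065427917009233828022260177679015813688059019104470850639544593294190840863306187001122316040246948445298808095746215326639535287904689957154794301018531432898806755421940690001542225805766030776081528566409817058099193201806861048294158274326870277734580327304855046661942733428443600978603188789879051146040603055437907017489166684397591887239367326775442388762728244037478491771887097424421150421196190026789834226493535045292607589814744858526456531169536962326331760827963581256467533813293712773410147690475709585410919443832630426283432737134634059069236789754649989556436282073429424155001136516575091499174274456342265081339179370772534367568555469140628297005889711774341410471230319318882029130972559410374826224917238063177317807105968852652831028808116261032712116787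713194233425431893387352938001683095777048060520529125174702019231671943890424214325366283893185820915612060341334021380273802413364392298097918602365339128829030155850060037916808958334052133492305941630166725558673922893082070442642856326259891385196174430494845076991733789169305955916535853120130710854390037274858261282660275523523692346801158461130825160723148173169129142300767540929065380233091492305158358280739201195578124846348453272121594494715720786115598413393149073597595447874181929967160426941489441350227588266933313087112689359556271773714067849170622190431893322452046045260898865820999839245198223347713122059097163693220995482082968815744968035118509704126007068045279651505310245412655523917146648950858658642385492094149218269170473793346127888813112044436259301807805143966890500137732261837268181001106962119616037320068217757741546428215463181706787936462327680967256341743186406225977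357670587611357408519694693430524913298699791680336171475368618293366032064932769929016927038182891208786009861579599453604341044333990825203987420777422228390444492898335855809910475728909570906870606286656533461983896771095810367847457842932491314324012578541099562464464799662340497040695374918552621764029978855373365538913632774044582868132299382940718421384199075158799108398555177179466387910467790929465745204595696794275471876914043710170750299623529249457276688004685098071969757158102482908217104837447419965291782706839419801353768094778687035731273847927408509684455105818726153076140852110108674879297072424155656231960584982366666123338426587345448716981272168324957740296893259181473758117371879409819681087878397912510941196016738507764884871688644102132526353927867203153038591904607438941242247495598664995723540404285983059151882513316364133924576903226610089227370644017808264181277717528426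098586870735887135704479670757549212103999506827809702017053422367577773215467411969720519326774943888148820253689650646713306953517289315904290029600487844485965889384674522671843058691559636704267375749305591485776494130525875146784540155595823024366126332900011056038162407878037919537082981102065256996613140626076881383650673451695021379356283759082751777547783528530207341110107331568034908588941850596008516995083220484338200515287276064279858112397580155060694205507922937991322845967886465033545533244668712374737617969633180107299526476935815718674021900693923479078719254585356735085727611314827174434057210880665896093907325656132312153239531230572835419262177888066099061868505992830303851140954772636278615378589600130568143882298398640729918317834154524973689693777941650185663388782887536626613891034320461320382761218339711462300062305933049741685317380236714669347567463022225861682866010114571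360477179585050337720660126819548132709843873531674622424698026558945943176016883918828935687552812906618765256773318192625087139276965284601401260073953153416083879253523392327769130641493428520764200017170529152451188094944336992532908833854765228584323407098357314759901870037726611284516381574000889873849081646015681190797209427746551092178930798521839800038399376873918412220576574698216558916603719275270833093493433755199527365820491179267417261843976743544146531040723265381133473297709135734372936252839541222993673763886022162359515927952717232877221872712904736147409641796621001743735948170058265521574755283663855451606017496687608851288529739882602635953023294708216168115124678949745536577935675216323676641303282594255030462707829934172189039369332766127536678161337522582883509262864068344427929153274043467376067203202473875676651697991835159507786502727310037601417063769135697855864152196047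81239588799376426720111377401677687436180385832626031628980277346776877931583287768439303193992874341484268517055952880593954273020761395387882370774012456376034376166366829331414652189586332248529750180345789547053290820347738213723117347815685187669366063438267828035846684545208112858486074017312029863499288649881231841202897663638084392666334915974717556189050681166812554810255758390095863587612305376018110559863989588252941082605458738369246054480115496911311103236616931010367916432934069242529857293768263814545568292972805988250528785651008147521586267408307537641211191776059070148903966697945872651813705229997420883503583561028584394096808429116152853981270427700311038000423502883276380898217569174737172839940994718848934720125446491938158674373630595511092451858014091278193017520114538570721930221645180031822020306985697065977737215561487531864173292436552216725140199979740804145282319948929149557039407758156280629046563157922813446734818242985984)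

noncomputable def rc2 : Nat := (nat_lit 574289394482160138743891999230746012707639003491368916857887810161798630078702705831601276280209301194367361405529385177363883208722304010115091967639767100979539917587206770165384594534823295549967627985754753964424773093130256654012150153635732396298682901766565165325322923503779547981066061659615852350480152594630370242778152403907302793438742703384479155896274050506423627419011685798315686921810094887510992992786538878223992567439636329634412847998580119280057891007563645505583233524205383809376286637060355389818323097316904789679475280172583119867830131471689757259518835931620430030114896805389611949395878208767392538141421411565394041483172759170658149308626882242948781891301925378410670808453794837982211462214239956032056480718574992840000316576054143731660655122628320145601381201898660144330883321458057401343646861279987398184552516654476184650173835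271549919991914940678004565619743136630407937775959474607870221245925969462641609463056074068919400896696959684547068711260484888154550729947587606684994154949374780110010766334433163540598120712924842164791674222050217240122175631710528007178960897710936797442515447612139662319836042304702474046818681670966931074743334585080267516082310192289909479115950289492047665383627192234748036530050516506040256262463420657228636790915818551136450971342781671653701674671753160444080253302705872848525230492165231018193965236766783000928055612324590245690343373548639160427450398115108246408037190958577763338682333559073981201771227747757109727782881496418413766183630779850237357046281343978034015333824380362776927550487337565979992605211998381626461789861415408581541323439155205772759780201200762685650301144604100310729586226975968791926934870139324332231963077199628711229910121502660959572313764057765314092968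722283713052664619755331767979536161968931487259487432711931529934019566916788806462836127736395797611704156085153170170427332405416179648728019352220865755820206125548143719852739156780853851866783069877334619187074164827853299996699815419053480468000887660764365965388649031113745952576807544836039383902666323049714706000214276482130405208388663367138672139170195494202864935431446556533399521745264853143473821066856307752639411226935627257314975939508705283305918087866121057393656253610046024029084836659662676884800236921738602069865785864054665065697463328433584253821119159566198563907160538029906157092118962245908949723259633221474440737952166234469735372466340777838007063701715059141796603946873643474944229073560674533282324591770386351865294034701920995492514529271555734154511330025982457704507804668672526640838373047489736810666286102114017869910638127960816618613378470410303514565664819495404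570318709480429272609993601391492934841123032280119653950674564609368658469164945060523235487266722854010378786509206445613791589245644237838813562122685756332527379357613185479441186004215816219521320046954591963455866011980381197554235017577714535838581056197677478288148689850012609795489220324276350926143806350028563120507471579665613705477920186524999313606599811681200077312390832884884223944634238808919808653142120398406743181277188986462588369092392105452511091812020839344192161690345130645386862021179500120927271549458084861052530324657607790711318915781007578736530802911703566501601494563491197948462857745730250740757780921035358852291209752019922696160137668242525815142358566741928250581438758827205596040036396064024804152797481737924537878394389239608509747885393549463321649523197815785358075866393644057205238672855409315105438662957244498060791608747537151407214923908255922887391891593556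574680763667759159162002346053190745082809151673471690188400038099821926763600228345653449153270907571706810540713238152587221183860014406556968919469969176176115433070696743215525538231785859840389408567574740539702449399473276265031715807316234194392042944956460285345654846276046488044392954076577725695601719532907930433252766121727793068894130258983454964497162891593458470352806087856851074021487776946525842356816802996174224071282486483418213503985701918944585126226818390640125393071633591534708788296309070596984966543757448867664488133076150543781550388492984390731184703032419332165844118762605788153854580140522565177082120429691347144358685505937256730528264905469212353456912764861931758901059228278452692348943058772560183588623774346727576420118024477371622681149256419978165441395582984193909536699767482383004881371218098286556956353190131045932006079851425575270278203758603700098518836883903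643996558170765792952920870148087956755662581633164898846087865101052746745480563369605313155329776959872833652784871111964167650616399931216436994510079678944569426523249689270360278774688783566592467036616224591334481894104072518054997555048664228038846837642316396211694236933433897801617153426379841527190666455228271851105488600413714007685810084886257881500154063985550314531681832820683622670888847506811198342814139381878102766718977667417736829201967292017774794650421722000618931258951150145168544307358350214360557770361658304504973903646706786621118907484058287666390974970363201386119851924498522990936339895761260763579208215043219756485280907418747649884937535105712692595502193262514840754549389201479875100453857050752985046907460957042428042979774033854634017390848470489108903373113739819871966100064196999011912547248094051173565810199721617409505456403796176996807870305491936057470734065917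793777325731913717767409962611339185293861234100821646843139126083427766372221775913174363308313357759662717075863022197870596007054362208349194775370126056081286010848231695685413441316471353891132931023857848831515042430297536907959660099161761333437221829073939509810139202466289367595255167872188603248018301730689365720289611545083500520223324068373694712481534817157320013230881207292657699859288285839611979258165428210670069979882698274452023442122012577261811606827315415556215373937730953188578412148021415649899189389400116982291558258940671428676899782426453155436122630132754191559010709874449636732416304660672732405398347209110803184914141717447465610415792535480701756401905773388285823341748202517297766269990014407656467029365686850779611453771365276174853148149778114038014609969893564449308543345575373813010372113848677204644347332693161422053836246502666074503149484029690478223607889820038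976332862982964200821190921648565857947458612228976104386446000797393541227041105413376311462024675918848690731747720086530957034973900997158060700565379496591159426775910916766042796086987721805448369696783055007785186485094342955488504520729008331491497514292727483833778985051667573194310949025255292229849552699211378100193556643787152541058296550634557284306245228966289325257605489448202680560643524531531656982164890470114895847053335541253736176005466279450853723869287188045077342374906569728477282487368707495660525033556738380333248234614356427714606214184745494854285852902887594796992026475765138632122218489027309379591144968169174648045481518054857630084941026143482864970306893468035656640415711238312899011178810935274828776270323600175307302132898785087883637896641046847946406822947033721465979181149450207065779965741983849271122901329201901542222725436126312919169789302895111239055543825704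788371045537311063383307874496498929469125189232041017123121957952461210161686765731759074048163333219281497073850372906255550813780651113582061241586518625861564362497088852786799115897312103727373317896687224967873128016188261326677138674083144832677743972591949149640220626805971188366465689584387371953577874302001220594601786757748835732770811887100518941033234036608401856126601337436507577768037580588636402870410764219610062450738209471542227638371955132869174306280594680887140338333763622093017678463756860217402949098561880233507516986187231355720085476820548828525847637682859470868019701845550137896344518831573374317823818488517791138899085653672093897214940938780966982049839208803263185187035950720072383999026707151115714308966203141218118685015988950606378687484582772243062220433354619261583961759212442075890962777024921934378081824407234619373995480000357733258946583967960282305254940215679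662126035588701478873607700632318181846602110435208526108900233788901481692001623702086648807628264055165683421696427585011552603774466362417125540193189576081971812039021315614458268730199680753710176256137039278861908634814811297101934047221883529728643872673494750496799760829110722299117023832403550125743589116204340580872161374017786500061521437663788331939108611365077076808483690944277949265437430580654083884188424410663910714598750774634099458258403288397642109287237203376641170408166991368270586598674638108695945713005286165434509590598005975858870540205693832067184913490309325107890683995452418121114969435686959592604069411379524043435616455835345198034915221590932831506394176068944812146601688171812307126236100874720611689165663057266586692282771453953067706062864068191925945084920035295644139365638219615339371288785935413394646137409314203978061971556263197471544328998416333443815245529296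019896008682198800367667894421577097538608580235023024748743894399088507619508971764020503144465608628392096567063599765822876739607836567513141588624460036976546006251782781636601345015835125934952832515327696787843544153190799940166059637589187817067603083428019092257222293337585408595892879998377427634691446752895841246153775777807807203531349042884557695601360992552620449082094878022578182030778300243182446972488708070343269867457367577370143530308427345839431113548786626536235052905191087493720231188511721440750653075821059977401188319645133239307800351268515809252864630699164182553270003662951577287268708572257371138584344437989766074851401322766176698412792495877814449898555201866849773597526366562883451642533293476533873503695636520518932079207724717931776846681296133069886539606974366679570304528475175745334743637815806589206357541538240440588995824993416705532131026332551162343949708174090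701240145853436531279048395463265144723641254640573301532108908748819801817600944474381579045828940518560360572945000547047559837172783659304555322764217388834590752027149598899667335866159678715521175077170092707136148568554908748902038757109462530946305869241241753462943547633962071705450427589270218640718102188867852295924641130745799785163235997549909464204605646421176071521462504830659042809337477387740076105649588654771060939357067364208036387548969947843670404655336788620110004410805376724410957480020213086530568752714406076171667653410622652073447499706957277399687466594684748166985142772314688878222959203778246997705737926857682307278008407190746414331271343214490577065587445444839016108830984952294704129211394422757815874909769897126243534908197648360514010608868456341286219928015214913065076208587537330136794436492944288787877408967112634881028488324831617621020028349159707115986925594460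50493695929558122761727688326721230604940239414050468207078897264308389172706171262150548851076892502906448521204361830305232589602233426572078219739225250842460847145788010713449882146581229516871265799494116131598250159920803629078556865287512667587734629761374307135068278719965043382578396147605288836669108711029243500755137074274628104126105090720917690488305318558401818511435340637318351299400041331528819262337978322478533263378842589511421027337965265200043724240823853896892193672869816698473460348487168129099651799189319742456611074910373185205022662925817085920762013683684356809910132851433813930630366794319368185444484315858003873975184780353112934448910893916358992548130119677209645660635770358093310043804870054409812556281503820433214880751197750410811560687678050614350522910522134737118817567716538087774873123377047460191208999520437256671551643778675021647578640512814575370321915822177726369675684173392807927884014806229297432532250112557056)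

noncomputable def rc3 : Nat := (nat_lit 580523477034760544796100927435578085612628494530694349725516028097110188707917845583974496557729210382711423681419398473348968529222074149596996209879978355283989582265116482351631767846707088486150648302304156333211204696920435472590830213087475537421138958812897734010093702429241185295414119713226344865431019929052065362881148442149728318987452687278108152841537426807818423010081233817845674818808931337929873756831565226014392403515711261734557627362070816169907987318146009608621653593393566379690384706588431285191816149184246285409735811706813362040059836485749734647273069219169709962865744440686605013805512189816235619890027213886539650062763197602682641325397801548344392149590003766312724992166916103006353254350931969666487772838002838245801004885839053323721487935832623354323261396448840149190333073327695151695073781912456215905634053784484200871179631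766531745632370467561569162893352892382784306717063414404133318148375968649992899813542896263912577641117714304071434079445852630448056235494947512396832422320079102834433316959623606550981905324130878881128368581074287201318709533096028705392729056437702350651710752889003898095222474311417030583590869739655516115681265117990618979815061398121907472594752359540300770173464717118165978377156101911194100040346185311713816841641545785915782524005050388740181017967866193673311199977529033236372141455216485554851084857120612765674072171515018270350740436485518645347139110242233459767938677895088184123940196259569868846770791215718725039749992169618005941375776904301413589957373429658148276416321079605507238689706881895418311585806189679605711096638323862077094968118208084777851058171784624897785840817096323079598095090386414581169514971484309371270328888297030444903193326219843075984507887209796277683297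691981963568806025385707699596602029262023503134617700523556517851850580318501104059881049778963912222682925800901966294092207880143491890820303815731240013579390791091267897880907066647081610679589221715947955305386129489939825941887006678150641207095303076765506326097961819440856339662155615865310845009778686583260520852446687551324080338783485405682785682948293003616762918678882910578745604211619736356010594846640845689257836916002190550222653747679293179622688931545435234060536713993474104879033473667365171693677208746452623810361782269761907233549361296750385775665439824410108080404387828972156366628716580252459345114612752536490497430058750312030936992790487381267775066651409496155889046382048088298887011825156453722008883412704173060698321997676590013455275918255234611509332602872982828177891554550325359678083203484566321288776757834727044585851129554261407697641418480264630915007398202507435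474174929037211140658809003579179240894920943708892149300628334366470922410339552086548462020025137496464157606606856506979812533070419805615977180167213249626919392871694213274019676019808105689876512601735082412111190753149328632218859421971029073305255083163575812512318453126953911700221808788081411700284485246628643745203141852651986074302795650168802194605819124465574972575728370051431996488573457760355065149551249738550270901076451790259245406809797998872340999654164473476911327437030147890208206339795251180326649899464055314236631365366618656598440410099206075734766306811387507225443705643548871428425903313372492069333019482748117842258824814185208534028765984787339219338898556041803904663630223801882425029792461733910894117350116709741578014831994781216144674792627074976506984758283415431183243842816368942666427789486272119734609549352976105026811653446329345675859817605772520933591087729989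564007412372661702581466384833627337111505389608909351844388685120639712475415280198601191076611659410067716559205967893610763081857114805452707706395524984926013568856867477142801162229261003183854611412626407489120253977413483998092846234913724451317681705218259030408717306209792894008403360381228382050732326692010900871133345202852671121577529965808552924483568955281439776880489604568846066229329825496233554041878709278126748068306849121724574790434051285188890311952266815281452237385364868872250971262344115293866310400160637361379415845374540333314476480301045057310586058430688346160456599078886493498762205214453899292901528842098815850319146235706075834230839645917498498582861618485814446360182310525436006960995681644993936274411643345556528127864653228937738896023886555920744249694041612968382842228021409520642041204395760068655211218809726606655250120895504849014594523791401640456499434624554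999912809164221407336860066752496903128296747258341040995391435221293704867244588862533223952624169092160705500675863629083243322265270517224822949506191678804640666839359561747131732418616514656166543045584038917127785240929451338220978663858900708042486848770402462276968812050546332650167473225236980868845014078869563950944265026711710958340972540900561142482481555734068251997233624801469594894951412665634539642259966417552288324308730212808302829240967846947746690628520533437061718640633734431110057457384249555116292336367654143108361085727185527999346060644943897266936791872385568066934184382241582432348535747716943830459889468696068733850708550326683592852889481510780946612649041845455291864457381214222260309347415379698394248460035742058196142064453567497633378186938578366448084162662814397247211423857662318454595597479992065423966074185711344088280750957966121862502438989359076896892435925038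725677922428273645390565546169399966145492686404973461372086294247591190129211736109396138470019905765961245726554659490421829464600411492576486558429642978248388029505092914674690037161771542905579330883301167940135461251223119954847707851374749598775148358003555888983068631378784261315599753637803059090009915585242988536637071147864378026433694813724631766653854869999729147936550876301461223801815645675514163894966772300521490879048283124624577483151106969248040911076903565024953236923713656074449942025882848670387945118982510159616202032589736549518354646806830242690145086722438503360397893980288342313673683162797364601194195990720564875949389718996029112164032607257610883951461144497293877013307577635918674754810352897079191542544590593272829468287227137854982172745763358390607334400329830828687217382144172035509405957880204623918579252748360322505157352032495701034761896276248588638613172050917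555118116776209397826787345194853750396961012485255597040599894170676583693249026474211356866552315033704859559236538953747614728234220514281651551084168417976489435815602813571728389111809732631164943879449742110456527262022723206660405791148705651282105546384824580809704813078769864206064116558527720730533583222055668810049007910807833252408396146546369103713772041747362654414393353460148948507366418218464498744792388273525269336593984669935909507107101148163572878265024208714971985487887226974277839477192209790029485649213740198806906295163462720580294030953136418259337753677830492111766462884416740316994146873197756331426835158932813408587733580928605186248079613893314653130513285775601136795322595327711475997991892196242924657770654183637031784308046321797085794370655337070310614481147950238195490926147094651721287340188018738539358572568203367772786425186046526044741237693151823020301731118501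076742831535487230486055737878527041269003388123564031069438856837693443907030475071701289680581026226197754323987586115626062694676902615905468965567157026967550118328699999377157660285475280206748041369320637751978235113896870520121912774629236342535161928392568612837090776971335138881962882434044748137710359148432767369435368256261415745513344859458997400134679138549460999841906790067526726745051621621107402327637253416273068508187902307165811951276293122284150021294771577936889801581311579418005394274553674026119649755629350558293540880023999820631316652455334451776417952639700851813475395377285593297102637260739607626602424924450367542347462036120742952274131471738788832395634635307011470642183354351337118145433849828517097530989673463666283212968145884110263463402283740531469635109216990102656083283769751237743129526720082305596528145845503501557686145888039784841464847016524534369835266399742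888378244355532845548299891539691245955039371103546189992221782312918326989575526614274061936783755176544803151449627151639384802338310932593623292520337855509421422449393257247271026347820279062307342202755727087829643506722474038029734187838632403339519684224683103935043145487992284105724686054361844317350120345752528687534170448283844956127364796814237319752829607081315685321150005889097337344424935676254314444031419755370985367505598397262019011635116460672168474649919702141117774648116707451929045210581848372458790802988506512519929853404039744668674801910070608910739999206598740408059018965275930038289391820383622316891269740364023934002761624461128527509128488499928767812395323062154253431645034132480946116825422151594903097580326999213336509376093152105552954830313490294127470294310843238536091085123190110603002891834735338763721968146365270222005011684516651697321963442252789988920824570873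556652456706754064235677300026044852133163936599435706847290838223269101768339725639226981055290505200043285589468878648143154047427587741504272723669860256499447844189443351173361354207014655302801208398243825319205629866205509940127216306668065882932461659767897867669186117335985287911639573704965479404418497560578846164204761925184890600908243286557188812639756552878360657947899321289165931592812012980087432230840240915949471255619698305532198630488503567424026663468047223704541549904478891774623751082355047047540985793809796572797248121213281019172520707670837295987052743264058908710664146674664983141106990437319078394621484532632954302118881248366935365301293451726939814478696662982450867559305560629879948656344067116639320624119928007663847878805520570186539029137228162703956027898879420540247700128038517497188919628799818012590428981016663459023016934618904593184551144368491114481667511985214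497829253780282694769793884812159263359951721185440359202714933557362616444047273900570822078432204157859520476447904399265465180900129956098945275041624362000511245821543048281409089126557569597584566755098749139364530200297826004595165787452368810473466603767107351493874732688723718444781955021892399289403927786697588061624424284183232948671085451096075649532859563307219955492698905306601001545042503567619487013039377982247921144814682501223223402673661643013428584766953517008870639355952133302000468360527855537507807064797234784714820528760455992407059386789376388430308173733040854715072105856564595984360722813222555758377366239331423505260707195979229173806293438690134524293384034629432823918132457673442436126306160091710925807828342300841006615171959331529420750946042254542804556988229587478824622538449776328555454548852166738451876793456073636891170251656657072383690629368246179185633644143852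75990335409722727385516034690270257543357848851051688678628789163851300911497488151905563813887374085690457934615597991982973575596779816404739835011802931082989408728648586576763689423559648183204575418694483801998257543431111834292949472076838362127299989929010993875127764672537229518884319271587908046529423636130866272039170850740224775032927396453177439695581924987593983257901362547842140225614756335046126122739698290670186077605921347271486705119120768905500416800962125150166673289196017537489617871980045191512539445731104145167522574082577083855166860969310931134290102825589787242191942412127013264239328856947571798570091440144411402053475889835564743870337734233934890770965253846377728743743217961927963391291065721806811804732370628268788337960262866803056515366572403924164682313253036259445857637745926933496259853940809131208312129526217532900119543795204678607184804117949523012086076799782661467972418853739001609639208593478525126703276709904384)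

noncomputable def rc4 : Nat := (nat_lit 586959067369700984605562359753956371986158026401777012265680139405222105836071650465885169661453659074302864621458429209005489496832952606627087463125763040886439031142916748233458838999548504476065230390715412309254379607816095377110647206809522028624858673002084044686459162285586290987793671151802824625170550898452709723824179234382983540102392187932457129045915499920396358526077731859071989008528083859224772227172022058251799160677538968639957203277264235435173624151258916502076008480833168600126933006233222669295931902862059492923398597471301056175270526586582645866672747508295098045197745623710014091718596354119395895073819078759526694615167609821703715932703748068792165794146403014775971288759596726345848285592273398699123185940720101005043977966916564170388474956254377003349306796030263367462359387934653233377101779941412832131859174084135192134687754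767186488609126422229613282144839022390687222054269826732317070615231533008480277750895949521435148931774285005932087887936157381005167239184941249575671202275786281727706843852983198496451539144257273905212100165667893596180521829499042451525339075561300671983292403100963537677299387033865377010100236563107525068848252136185714163972437996373954197366151978377267356509307389522007117476465691020778655903777412587446438001511672655400167162610273277497177560137009041817373400178562883564185134689193121736987319584147563577215667054683478143417848187245091286112102883211470187710203580047163937361425043373846691387889530118002651730105330252842124772073334832918181879833454571585286523731381903653964751654775206951000498776816448915337466106761682693336218511125064730460864965325375654798140761260382748192155622202113511341118176847616883454317965452289663727999697021995441432254439006387632878132006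439424749880849914421746789886189333815179556078192830917404356463350134158795173026046260607975958751887942745661923078654584613653681602154019035458298835594915735013429592596864087590069845567643272673707390662775839158371429355844210578547070964862430899989980013455601051819585569809013762078558458367196937529974935133277346673081535935974914889139980625775906774580802488234058875056142952519978467951706732398329988558604787673083189219844102033155945861168692601713239092984969287404385259899801888393203507491115302532901524662541383230112405566286026251579220513175652783238771777197042973632469976232811966582112423092063022071631028167880362521203202684969144845518201724133367877094883233526387540773878285637837913718873860595880950655396819443991375941976412876320108306270482822555004229671371632624602943307608162821158500930762346861984156381074374591180747907546549352203842650582124875154524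874972475630337967200088778851885785493759450234386844798941179600076790689433373950439780604474939099063423234458425624814362614924421599577304273451547425836837696400658869108278293249976690318723329684568229333000983363208640821492072375451319019312391537519954358465273758749884942149283084212899970393752573607624305820541282282670933603488128975639850198854257981948234918620009791332350199749410131285079713159961952622594623284424278268449894866007186485845027470723217330382121095383400136599198630592638115162651591208920075780821920729728399560189731053478493387162385549652118135873371792102272267439064300930823167918269230624651661153594771505617126658509880094341230180225227687723924898824482350824715680396974495524897072424651697717597895164536234870527462870542443235668669580748400067717283740035970927923769534294736940668342916635463799991349926517089219378686328958906625839626690148539340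577288992805792816088285812145123477150285702164158077407115728176809765733746325334594358500435297932535319560059897418948457361825695978558466957010186217880611732954793229251302793789778126626011250115863723157345856415281679468346233042726656433509650112605241852512862481376078115748730594947503148443441115961106625947321031976855074965816177734085957036429494667650997672267794719816597111638501845975380225437962849215362753171713554447243413617924245912664022003620171049773556666352787499144863339721240088580883168335067733880578704657252149200815276210318364545283866944761868434571609792860754117741961857102036156695487891948215267458682378516725921554114423036767758445243318968293428215997019511255439872304797647668954544529972029464626038093046953411299157394774013793962853982590169919326069166650980089694338429959360543787185074750413915120894529242640969277342204312071332105753749109762238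822554775667223922100909182786345831159973108770764356991183428784266944707447253027630855215403742099859539229258161884123272464159465567792898537651471463874788845399823519484652916502090683578419984118080319688570796010193236156057716701754768781390393043067350328408821153836783497421755144441830202833242723933694790268474269693754720894660033533756960803697932705533177546862639556524388247534615151127811395143833672254269822763066134712730319110633845567464424031397534959055693151750744235859237895888906306088184647758671476461271946506027472087697179902298542804897516977197034843902965825845938140770036067723903192598092344220390616993019554516371426756164591920392395905841412990771180454934652893656237962887551714689207806653889607681985681324765942982773755261655841152499873549091806953456043277443005430829203074414334212124728974065980950617039659785021975035013835744913640376740427928040495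989016603194842889422842304329212272649250940480501923514921465880699166706776764971085409854049361901061474786880948504738493319635065685574999715782800869823406439698257985505295536414787918654924952219923997239586229003650716070102707806651950656810203693682230038873676972058229235600973304506321325965591067006667534827193867320670696701925292834983786431329407586435296172185956202516324080820580024144326778583404111686822294081522709185313452441527026128113695340203117364615507462267273785907874838726390759512497527260154236863886762653061272354576075875306459447491576851489592620874880751695863153657593864504551033923747144317366052696539371733584566315128472666116098526121266313374998894112048416075433988884947216064542977871763763396773608649807751491670416571686952025236533140388923468463190418898448482821705945045859360269235362711402947682198683398260699663050178644765357915770892860222473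238756318774194859882032954552568070868447787862038624797226555708828519971844992947021858187539225081141695742723510394886128567405586063704917328926439379150543047836771404628767182109842454113394319914557833479380459454013959916493223198520801927333035228021487219258543242919312734308804697430167999038502073926965544520264678558663645630529077934883117851272928037522508734436850337935266626794916415882342464172826440276776742723507690692779580806809023339845394525465689004187995825856630327189350566268092263430292874015441744221880781491852181215987363877277995143112837743661028958689443902789240407870365045283638177917959968934999943000223645694268824990855906552011613818582681530141229069476986579645354878069062757626005314975744651499435580320843659848724724811193066649237074314014616798973459448287439347076982296876119419042072126220973044194739193803712935109572280262607341405936663218033928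102516623408005099247817548990171868084232707536859851094476045107552793548588775341138540800243581304474658631106599575558627634958958011991391921682112919419846218202080378359959433592692671349530353100078345579196381624904380761472280353001226276368636785424382532390771702898554527990925547189348213880382490728920324601910434446535039977919698805241814840887164840128441658023212036053781181527040187499193779202794335092133876378276272213243414969790350278672456319388671116797402350080948940705726148232030419375718150137232410704287358029608579284269998186076072647603894907786212866151111685202453019466385871463736017499282203747710750830754636572468502107627093993209734130395666133766962214083201606401236907713460279166157613194317524694152988644331522740779086615809598030259575039799959414724009632832845209824406480604641228296457987559790219126268131594852284369845353232972450723108680788655699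805370121969302240089368387226796503195847509919366916387505780422783104821528596546217250124557067773374289251300800757014593477416568259079130887162274064590455998765917698156281455381580769205601532910033840493511930982005383720211115031286217429372177060157828309793841686794302005612081837054701950310734549606909413646647730355675932798708789418207473158097997220528576100906916027951522873963209697451270445377753957435830728735737981895096961484599068974321331666709776425901864432088183412687305010465354636996507729175222394951052884292763676489534413115954320709698808399735280433906564044170950548220744503837493052628007177276101459682125842940577317432917684789974991288996813763030516579072509233539059272573210627660550734458897183700538348067919574384374443605545821824026399723847726112400726785917821749232874410752211582398313077886371758630971947514462342704042259730099284109959449343056603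755224266512171878357306013521198615354035205590893002126524297938082145887808317831647653527785426461306459591977078478228196239988740696749216102646316402787347047118090704830338217989821892420362534993400996241619455352050338451301518600990757620598264359107386742570205135792600831490119230638264161856713382848567238632502054750176175116645201825864938804600571884194815628738411191585587680461827946054294908328483773103493480773531070981883096178633762380154797751872297042715987506246823677439186246962764541167482454591103722709106622835443271263973597375037563357371424675676811261165188561925087744502644553821925738284226031271759096927549763871363923890364082397496147243195130004028305788018500719491315051535464828488910354968767941077625934436352400621206809910864172791845556914541356695886008322079906291220199968191335701881154841782598652435003889362217955438153103559383171182102386990521459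581233532805767068957374455950048094645466225060653773873021443584132136529268751697738676821495601523228023013323617258121335673585398063616786851810887335290852666430668015851518558293413473417536744482242287486480907899627666944639643263564032054101662517228854198708840233607641599776601282366293005902199201738902864830843745123941827968108861060648581863139569004004744111800886536934922810197594541338569225249341927289550393729013548435526690912350828471417677045142349559318233980323156146085282085104110039339465385530243625362111725096861968972804822652558412292783031346930749938544685094671687882087909721699599333723381289380805371981547961244339747962376445508654961935994941742247556360695790195194879773806042084378770812092298531757513237022332971799644392151914291314286673504833753727674027142886078025810032006183555341736263167480560582859074241593951613512223437308900601108947014505167197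91303153819401343075455499123558952823294075575563319034644441112564959830218946383704229589760162530239221353800125536967956503393917593951417067484798002250928364397724081128791288201157074797623004983755102059719614211275745566765879417801890543126792501811249279540762951795091959141330067206845791601599267300265242348520723645668145605102777413855614671079309218297623267292980284600218569167183362199150654037302287192700034783271489550695411886697612936359854762601699059968231882950692782108260987596495787241220145747207788423522150569048203590589629953449029576573097831252876739461778354519901168983627395702545988728287222198733001429965650042915662137742809715097843547912522864509578228712521370401763315466066364645378612646153206072918067741304231154813012564277204742500069513838403276832525090893942261725015751640917522937519831643488826423807903226380882180927241001046708039674922074488243342491505545581541289892517818884355681431610101461942272)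

noncomputable def rc5 : Nat := (nat_lit 593558038944343174148436987772971117788755943924541664526846941389722809984349710608908129488489528631039059339465215468433202970564354281761704624073872357207895762888831259654321370470761046710595880060306920570015440443737899958111464506130470224769410403642990820427209375797297962532602361736581481823620319861815356589109829541591884230803154121465406026633328651439595097763953691809656829910041275966589793675931064117503922679532512066917750584270003359722025746081428549328105893450657098323735154595277088548401030192255037669051409342099744769071857530071950782213674414995736811279554638207549918071585525766000586421113043220294917063055422539824853433567023467565271555985455488597139190240342871249598827819631118685942012574418376244778015042017126943324986486056415853081164814689125172545538931179146480639303006887605409455250018614953205803286211887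239220649418423386672349272971709060817555335799445734040416718650894982987061770513324725379372469382770251583062163792569669823336765387438202627471740228520029392935798515144188201850439494122549053412605422933582424447190392803204893198477138211810551341435365228102350027609510250689549061685444832365204705117722459390574894437723211635471527575101399081291174951181161593378437766757611010549954703553761398415917672012308693735124489511636280042232839672013330657801089617514424269970459545748967379495598309804674088719111013689341621540819806344648164830102877653822503259094029665022221866738928548648592924364197492355179654092250023001438266709535919333672536248462821178441905327316174654859950670175630244670377407519026707886544552653456025866034329674716750900645049674852298483919306204657897455515526191081968905718752115489991406184094560789044975506187765317616861400767461543036095661325488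661717019998391536019996044553750841844442706742753473399918981471337315395254670221557165822226284626247555551051038863662279763833656332942070842090399526664048059787878293824338606787926695606032159408503052312330271586760353872688627884595006719177159716143988058416385648616287220938987293466802985057749471565217842827179493199983251666662656242506818633498298822173798673860668551457158316197546007548974384992870578192590443208553815318558580138751463582198137853835384200691795389878159293705520324321684954734178105379799674880151748414145386157431049087991392716578222533031914868328602066969829045202538367353534557033591489869417059595570520753264957792509082572334588204071985755041395654497080372374103723620620165074130514561215565847653468278896859347892110402055059259632584581950002121614755620423164569057841632688643476997390018163359604612171174086616623880763468570933933990415794895932699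184055173948596264955667063504051657406748054148539140524916958484003387391018424194614147332490443344277840773818383912243026518379198796902254745417769672581072172472669457967998142835560155962915044072133715362258454965679730029364773652622872252998766120016690975038062725892176004550461227839106034225257784769447724199834679051039434630421060029804346398816188560896106081066118478505719144844401882061873754411138920985198247914100237381730647349385064447857962947066483150744366529939280880262921899219013337761672901650527816999362061255906277963621945515355346884691635542133738609195972444381950563033957850688137795642019188690935258042786102580061571426980068981506098929026351164835953277776531330227297448292794936751972630889403059344242573466048136481158533171016970012492556234673590218547155255476107056256941361215414340288289661707391054824157366037670639092429231940037019045620605667624909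647341175415230139747841065124332942606244376333772833670179591759708589684474980772053075263467204473004989039278956278322221014506769342507007967149251829567438112185138808928016522013587280307114014388067719165818801836747216975508965815270546282962168013161394108619803319031901693260733607322391454351363775171425336079287359701222631364473242257454077233127352768525404560710229504047222262071035854901942870631252589698150237400886674339209939558045667227753432271408499968756828853137230890505688985731703192410530198888430618502081998466006452230661997033719578960052784010676244993963871940196638651816692468495502982249907039789447828652281914410600299706380277187411804602381346149573560974437915156554237934941497586179270411568653214079744007257106888212956667018594102087399458726762528973950158704096679277468324217288576965890218278554519641431268594838468111452839896992576953818900990296881701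874390301504321426808426737522044942749293986665786130623278529037251742381536508701672003361017600453499949530116384842190220072896954145476594314171321035917342500989151588917403408219255934909412821629058606515130357651438921753154830029969229779266927384304675636683563798587082627756131035925871614065527156910754693533287919114764246591770729834565254370368316530640521955897910663780426260055834964633962473353156282829452238802099013412250623848115031076595386665003641314873914711758061497875713894362773576426699188737933292822881534252748556720176826036652519567154439412223233570457212349477014416728641970552887927466838133688756358882871423209114022696467741845837555024246064119412177743074909339145342512805185466693082613802184580147949805604341403154925102056991177804323129932097598950512253480661277995112526682205809871560255899561041739160105623515962594110181219788455088360969910597065419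821842541673694997101238717608046793515839891885904101984674413977024399463769185800989165968448271012040338439948861739550247750658342279681393806810755416657410962379638241290255018694684416513576797915910862433001317746429034848975566639597834386086944474202847690973827851945036903710109322704303572885956072418673111262325428013250129456840534380061803281617655066547089377137047415491167090577994513959249995907484309829378356271229168285813571692033298247805506446154346953009299235276230491053066099234947887201764488592787117006032360520233097586568851979994588854905847240128533848810641053444374685558788708638974240574640986779640474660257725154748269356866128577161965445516218630613070579203189021344836867929136185438214057423513769669713003855415759438624704421041899438761754494358768851059811859607907941347153021186540136899643841329972647509756817597959235410313172635845683523241774854953275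655594088735874887068150262462402483536916181256210206758415205081409615195556607176263170230569786497294087138580557304889205348513611485140297461137387577396024832153971316608339533290934442962539360388961218310843658829416051557363710019547837731140154903969012241333292294991410096967890309480463574190510085252335847680853645721855494705036315552580847922132745392666507099351048197560954184943166146732262758325887095674021742976370499110139536931314220874463940826937361790272788207380739482194530560815601545503194838648677056350719635552719130450432222980503535376632809572704688121446653054821480932063536665925000236968024154266869559526500190422485908195915263043840250216594441766064810719237238811819171200854540460563064004946585661483991144748133208639596961245853137527051602886102663523666958425817016708034165998708404478323750177349318401749363262687375919664949691378240256083147863217785408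838206861560614146017706391881161225535933469713398612953667082462191595310020685320088311140140490337281865169845234694072537912870967777743799602636077440590228957474770897102502544907286048655081206771920359013844501633928360416687741740357288952914659817836836177231780980878585487188019317502245166538595753248615642716633496440141255465365145698489881043333300626813306520168642929570311716875611059285926275321061140534976042967582954341996881983600916943946727984836637389295933031713254344205629421359720385389542991598276679804153782181107652770289407435351042023472808224359934999646492940993832035845969563851240439171639309592068495515396415541913812982744470951869201061496929409328818946823537957068899634634648063935188614966030433449194711325095499359642816901785436870827588941877910823138018210192321582784541911322669068860518061105329394681684718987048694287399230655279915465969367423704894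117156186825350536566982958377368584441918705436997108641223360416141267913810814526171258937720429412972223269752745672061553303173739524311961824899054449812407420867881664398193189826601063336222286851770537020805316564087689495302398926017342442688243371074332364348775279371660307398077761107127025324634651299997800214089188728702468617575249296067255707666741762655081576556699905202241808581915263507128201618864760442133474228737093017184252873317308453137726036934057728071786412098949773037697624359441466897811600025905493080178717346808213312806259326872381575157448319247653685892663428333330326299779831993765479200994772523423853360674503856923685837289317927994544365794910403053478345758050929049287089976357047474574606942345375826563029316051625044964602483502261202505140111364356824611579876320322501092168726264411765453665933718146284081899066237151815904937600955048920729364793213289750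425371974600331989893023605336295968991486011926236190930150556927439768426240767656908163198793208928686447752042282180783281178845282352978126666069933378403700544025810849208690648747626437069776851701554898578180766462872314569354827407439220679158999159177736798598235950998782027133536304419750858568716300867974415088018143174414704756260996639589143573274819520332092056572748137560735344895276560897405863998540415350651394320120692957215136405692513609173608839275674462918908500692301292792858165545911013186610149235774567120695942805922734651325415469449121207178562783312704228687867294911474166363403115381236188901200831779241590550769235813810866041169005021270401793023170499120915168745498126102950819720956000436175340674215389288871819096660869036961813666167256646731652922449090061257336703043942861546383093977340119906416792756601960149383899392793364269762784603411833158601433158604835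142623771694247182039117331736929019248798977242690237011334043058952743303713166403199204726505918032805958344283875973180487424461892375207645392568659112285064545730225984226222184086034005277803576193531277869357070984834492515228600540302643109601583162120946766491955531400297242637630032848871288496191077818431592293400306343338235837036845862991459878302650090031360238510243842435845773596768449914068936890820052884024757969114462204348279721072913012013471021456110526257328995740896520148876146178507717505276967900431144160258430002508479378341954623472237946922587298501853279337864736308777367135292065565005791978534280041610115316738466788071360728635108503517877006169732920956715778206522877986296604228614375100073166157953551373825884345973968300591344668888376329585879912554534076103344714693133086422837894252902592968474249701918751655298464474418516953551575248868335095293236267597610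03233613305952187003107253084054184719088679486712957016837892662621098412020825392960358342730353551447349387603052608399245417219633896458584733876881331311748336193028080054675140537948396835681009039327755798636622415522544113745693067111009659233055855885444748877369354720369202949813925999079708469205884157143991705731372252148898909839853444959189202724526308249868258506889767277053180488262248965573911984430693080330860713599939055517010247328243157158404248002380009634652486799407977092220094807365601784640108415435571488739722269302497631816885437161406334123386346128600674733479540453870329413704450312290763669192564248887743707087421729019897008023670598625778174208954453365530510051630809769084358800977283016011814235710158089085306395646144404870172747228255249296804346644501629678511613277910377327122885953967594834948251742022533112605614995413448475302732484638080366540325349610386099166513895533975495021756784058685324081259618265726976)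

noncomputable def rc6 : Nat := (nat_lit 600287168093708975121205037381774171479543531213956033178177417670091945294234919285213260240830816693155441829198738810074996000310831425438577428732243328069875105531425546923488459458836269694688949645511330110063009685231841450697973077928875958939679393668373157713188254464874181438530053626175487639492832940762460901648660010609289618581385873512646995565717950334949020138139246051421511282962750378479994123038929110695380930804732182372134116763984021113921042027501454655789788991297939799473430375563343321008540775517560020615423491315758251873741439207544855656487719624705806115366417035002664337159836817417325814209230955867219119317073273961831881314616967924406556496156852171653633589175659954006928670761320316660156083660023256702926033218261279787929931058459776791245974310880104308870526210925955709623931845727314567925204198774280561652530354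395786697284285980288645663692852299526917827596820398877360977513245017175732153553911917655405136528119612104382411911403830188329473185497917029427485797625912931838980330168830800292681733410562827362427584431934921747307520044308080464561797023217520398316854590430221487206265868382756731896382344288433518178250806607183415381351989793978716337232014739850707262063542611228871830796795182637593481213452981959722255292149099088167544597385140256828849209865322424417218151032320336260484553028569478629606259273029851379993397009336628516125718948490819846141306462331966937083454958313071031440901647558667864729260949034354809400174924474045161228656736781603104715387849116130859763293093233783524124583292490780622997159918608982718011045716034145432345217178292111270405705644876310351718942811364990926655263811849511120834358190991836621018539412347681974643470817507236020059070159854224691453857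342152351233131993128820092219212393026390055305301688571686912745840858429317177233219571152974806382235025607799429540685512897151260229871561061029407051103410577161759010083641584477942702647488808455786983436777186807312188859195618672468441210133198786830489807148840498683807584519665146015024584422874909498279968538900935022898640702578774410962725534469707005894568161926799532611486492038370890716198816690043485290033853365345144938235165507311901547486410966982602591272733032969740736319730954448269645265404931124861547834504166024554485056958475989088831024138151739674478300284710795971253018627129834896957271223128387694095377758743783057992529243141549800924145338620161568474973121218522712945086361739815611155050326320037777549482439912803715167729595844054952242360861391829106569569145176440034311757213522769713667253975175514548996808017480664381278750552325085000941635203356430609213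418556755741598377239657024627590007608181694254640523992516317031073919712019209985177905963276085314315039465123500912135502872189852965300423178386614874483243334877691269688250916952583040686982636001175027270188706512973776588831189956376606642334735242301863304886184705102211600710212539916290284528608281498609891141765238130015274954855246151831168466875046075183403325814605924782310848687473222223173451594994228582964249736538949759692464354503323515424614292979491010269928637616221515021175861890024797247759849918993139906654529110687975549059587556259191818594940562511989617260132904469095805196974800684950488017755622450479019537204952919424187608139917648366393301613916750403874970533882805999992533821116244529537754294113365214548901650077890452980388884614091273475417522012367079303399850339632813647009491537893720970987878625564790276997654982456589572452941152698285367780676551835195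356294788527906243332284833707992897263222541661320339850896029963427433376658530537744067402946794625007382069713900556969617762834540433967640182446390058355070916513780555064807277492812750255573890044340997820190379528503730665606163878037841553231217641284497588146580142599297286091741297528603993203955353955191863375104261101940830287405460627846098177056767727704477935813060107732829108118450875318519953444048798709394428128447550729990726086832293456881303280679899387218376204570706303793284268351950426400270792177597220285245087554975840623812091897793179025513953186026258998576152886314095097388891133783566443336600516684419924727044834260339865006087419014244299667962921699958513743941028014963470532122789596838512451050367734380408967223735321765340310535481756139475504641657197478757562086893411685626752964168690720137458330975151911403478740156727985569608002056524685386602216233999436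684316718438205089648345326333126815368068580355139341149544329638737967296302932322318856263313411061858271920789250068150340714985546053272399864878423204727300466466794906351754166622915863051021616675020694867641604137615357405595689817205381856856034467563225276855356543214185185180703368080944518569456806074705402610829150477460690812578530505260753083958758534180028003113423479510976968505999827513196650171485055019826747712419127167698880679444833954678384016202947146565100603726823915004836431214566926743015235635343949935980013874959426574213983035857939707326655157387016190615951011478321068822544136761959603578513667735994956296877422189719367223338203524332962281732652288264547258013322986884805976438270413348912454736844195222288999392176824795409779421370393342130985562001615631563252707288755921611855587710259230289434145688946702967469602025696882438328803994222750877180877278533137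729080770642720668191860631385426190817095174795087755731384136949430132399053150827743144566096294633425729341319367366911171551562015434562539058325558616776829161864288828129397090474503854380646352516594748095866919548688790603215662413049866542577272301315940576992083348081589353509676990159508350194146279253365095160389158903054123814689162710063455351749351792761564076997361027260782003807326648886028389179561488881368916429249625223634197618114451236589864255851211304236649333096020463461743519296771062516587453090901144510094757230452838074555113815394730780989781439109733873957101847762278284461118646314429586475069264229882272072230874271827541254072155829988628812873559158607395360982124660195953747688166041292332847929113988304391753295344001878819372701613349244337947730385007764941196758514974253520964614079841815667141327411949717899714602855605912996499899887548277319105184435342333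226208928980532565136232153221730132919570603422341629127057105908706896440961060050308683194328827512243663266454409994535757742710620286809876108158752837531672574614478301684552799879990403957397406771850669029542648574023630212777274339374719923214628713954111962682375908516566382001264816377528654460711308019587510982486672379260261398980499954028132692368720173832667152072467021353729796706001769339176804128252506852035020660768079621211857889743901568012800156892141616465181628243744274064795775911380307120803308478767713295156695936388584917939192025590202390771678144885497260208416043515210740334936091452351627231020383411770835538503673791012456518955748937417604517035245205861178768464086143466914238390563443370250419668625356537223121998383789758738516193646827375883308013760032196816350880346529842921775023660615904801212810572539755237606878422659174266739174720030042719599401977643547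451849484217551107904878545066241571840453643294089424701078481531333825528695381445886864965475471620312203442586277299159249208366816045357769773807009497437459353010093567137895638749639946147994911587092234799169816478233347490975053114043818314961454182597403842121564658327276255988549617337747837450324740319282819302835912059609936960747858392218332368391235129059136066539589711731569413563197424706586595264685960219597133883618311062911660252159779847379931069869910573464720287462205082934705655921271279190645069059839803605536768623431510440169242172579525916751074482694433875658346494861784849750765005272849657248149629561133199207347356844877614325106822176166475232312232799980649156102319072358775147008800278911476178588243473384510872873162883913215317898400891836114605438823385619036800621774539502475523611590261103884588379166162584592525721365002858173310596039534372134508094198033428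569691745089423038059436489961503057623912105696339391653772301031455497653356788618130162423977869261997978007108291247855544310339524455902582359179934547670405195898285469734468888215714010531976236144508269449524117988438358849974162981880334216466924893625839709117086130955080813314089825455918395467002337221795082183109849440023928225315599049612339739860734172290315176333569178484493015771702562122126480014414786806770511287413507878302316621384754167089039364455229887725150656066443221078959753566779738907601724310346491412357612288887717712415565119256878576183266407434736766710774911613349799547789006984086312984937687272010413925897012707495419297647299883540630896721128647353481893518874466766268134446200545912613440463696917638252567062402732399774164188039788156964139883351506060615613360841007652647324036107768553936059605116349041108400949712679266041711188974685285043200692203634220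722679666564062436799211513726655970149840685473524582679797247815152749628560477090696545092101169123224056917818769249095802432561445300512327784987871909604650958020327116574238090329618849666876900332171741759536476892817215763301380768168118106232223346211244899827050462241189159555255698918432551319430993319827723636505053782450630491939324432912725231481689405965726958531483653641467812495181994947515396825109661026981363665053014616057611521519811645844430865657198962848929696454949617862853976150438421141587942487336038084787552948166121605086242522488133946722448344083974858023017648224400232998911848618433888638792120267381239065040353808462553917536312007209498088076896610691826722126209846173542388326685339362893978664420552131207463907402322907981741841942468298423610732998264663052281944350875133993121194344656278280656780731708486256435573794739164742065011825203284759298117847786944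010885763363354876310119090894206023380064194743048309297778422345458313699468338065400740229275808416452659226486035399696178347803381373008469663678529360156081315752107325181850256179196755323807085800773400663651198270782807491118223793211500166655080118101397670327545879407112354127049143368778033052142174066194482400393383612683937530374076016017537006346323258414288691725697599429389233282775090745069520078551882746774114733821532211382802788226994265763719908797661389486435460412579733470292682609126153261456145690461540145193068902103764964211267576017029271119873900316807051453447896238191268798879139623209970520473378410699295259079102032282224341576383191284989046862595465220328870408552408591475757174123644451192749793874317037585610928432421464015267093085972319123505709860205117914471121916196142839208984497539552776389627279670754681335515465833624258377091040676033725827357635719445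67050093207699356073129568981587517932529665399317582282975593482011094201869557448904723855343504792120328883958518248567003306663949702312086610115888546492271916071094320626910066234284030755359157396199395190093491578965836035762254471068616552951989942782353935614078762725063980203244293069697891993903263702951494460448851294499354072843103632421065158196739120536473619265365382933042655119396795648290337698673253688498490537298432388634910453388772781762360624253194936180850012968850213435682403983270988151339072954736026411604898525743685206404390413114263859877738293963874044088948497284820481856210784813134465036719641172047951356995309213164352445213662172679199554658803862300616426827453772268934110751507604407233028231065291971370858177753004079164558453933403375731906481757339263770202757577498198456755971521080538913307071829147302125456735260201678769342632948789149397088944670648870109505847176570623983211062964946512966996505223820738560)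

noncomputable def rc7 : Nat := (nat_lit 607118298376615112728460679842137534784047525405032604402969579793081472708821268599097184649579559788232282416356074364240492884678166261218480689267249158802190065963719287884072777715139871383252724997734940299586808623020161316996620833999242173515983019706151514002199322743372032723404221619079420873417683645018480285953184069995305519886912533226418618192787486992501648623755874152212414782349579328858329276413334400526771173073131397506498423175222894404373078772033806508184259360672397818784654660568244678595653300457040724021945491060382473199227409203443218008835843227974184887088847437894231888762064158233551833832007406167928070785347614352275724416114677095615793669453896266307274635282749459835107448998224466369835556440805687362093565217428144509608069567482537813369151823000386622129034185317239479023577273511732928222295786057626806918681223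753854912243434704565209358006835111967861869052157767691140495109030575845722143662206257666756979087441405687144436657501947487347273245483046076598366194019970099751147378514164869042786036920518447983942326534935365568256211474468695018530120709200983251850447740235282919989356891817894399357724909093017853049853200454480924178159853528156088205970378374616764174813234226641407409944391871393059327088254119453346954676294700110694353826585121328986936190287439731296817546180561290153224641263030032488216301266965985629891508764265499702090411501278882075953716334255193308155003148799994886575227905631197721602825161743939150828446705104601938509804508307482006727481182370243929299107046682192429121281908994229571926224968510065380960292780698503904434828826145461379562122527894698667280293956811495264881855187625111909691210784438458719443397431906989105500225278195602008443025263864515331569893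760602286704098230366346680997519629554325220186776953013862755174922924346388062680165488414934838560165352348402372558576033535649241276371271686315061166393314513269734471728052953732600897146697456907959433835149944398757144056997522857801571503047817059026030867277993609859261348619184834355119296456850231037460442500517636331925114580852337529886624650104450009718714951702102518262114983395086508761877693337760930716556218352191505075618083979980376816716276233444770517360133582429375263745486886141976169706169657374841018303322884267169663119355954618203324452546536445287231060928495948648624680598303137821516151060514449961178698709602387977326979788829537869505022418149427120504533120006205313956372337487250507627944848823673291363960378179122178768170290755117847132769535043384680263493802289476469332248940709797608385473463317187730255164702533225895445806360390842291844871391772563699815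290691323545047764718490126880790197129839577997918255690309098536349560593855392413788698117736774725376420052348072557986529141021759966219274855875852196809531174514852587331250105095291328113124895053660784949186415300027118846355201118365600234001209980918091229757595646867477903468830919657068122084004638360077785602991569897570696621740131604332203085114809256219556940223566247414794008489525353714726385861457100149732335101705941198666937224723513065840287437598499974392514148257370875498529361032635817088537629224831341050891535154095296291334579458406394490556848146656516446449101639013805431213662479915529664134559758338407414147035903256132395759276539943508337402861375976424890824380506298760352692146448810336144606758712403103083734986389070534829764201422805178116291241179172523260345880062665565828855942722114954225960645306587450526818089336432635440390712097258094394495984330648695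411463630145611073785386349370679702041479848620233147047183251610742733869541843137513643070690810022127238232885591584765509712191983176885978385778949134766411819166174989093863315343795709496964341058724240400545853182294953259887596941025964230822542239385277250415512187758531897366296698190010850082208813472734009440087405118654260169889326192868611476606037167643787074805228254708035067191168363242630728557288012076567383131487960523590810344620285840196107200458496885834665440017240220997209653047536077217689496028023486802807025649459818386559281083260939427528761671334770511617599898304321916793297181663925222527692773368382296448957247418315726746905070424364800259053873285733312529193509867933046012071201894423327858738694266262506476144490805326299510485463488344747705738708416719096603446799853064660183462533106109811584093528272435402818810572525773674496688756988674864826115953487446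752353134334147079324991085602290753877139273568572312221157116125884063569451235972329777620360636520123040671827391785751683169108018523535807025028219345389889031889729335834525528167401910877201741840675310050564870421338687970773811805290482492384625507428463572847231188985170536092837936092991511786565469051379681306068160854229752656461292156544687397436680324073530412338601023175779475976748885800294813096883651662118619372643987120317979330540893160374601329991939826058402600342361701126352745709949807074401731371405262078000181504339603477957697735550038666506498083179759011045064741370326056775037126246850559818016976528784332559847959942573442839783003904237286280215971545505837325722980624129063482626819678080435544614163315141383290170836809950595284927062935964903672555300166486221608718222846844524097942367586673940635199202579354422209000330216180517159210297503173433005214328598683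136310429757308825037458042668491367938146216394596528508964153904843664195404239193703191740226428028292986452208735421299867836725013906403230187505194811480781099147277637614162595934692409011083791737364067035491768672413140662101006414797779615691267986224137388083578098661391407202864657440352917130932392888070933328448446968958090383806587490019480343493056356349352516365624548492419089664926376663808431996709757671514040559508063482739931221343134768054788330287584088342492396917526349858131200550624021763706329273367381406934112365701678598583219711036469418604144563707181374430753370121922863709648801433786526604558171378781858944156183342463431162107966700357667097227630488369566445873435204133352870537605568087151622345169559041464405080343788334769281741126934211039424388144486618772535951441713923854470496198001522676938799619491145766404166862152760810427443626036864836205537342792768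423059126239275713308949812710963397938915379991952879126806358760473274730388040812933606865936534200394445987679187348055890276669343357088488489056152394048302913441837520443976202174173152773221129482407924921697311981473095435215180543194895148516710218871865642808331740341537975718736897124359937153329379783507500271054274439271251411629790420253268830306460280941349827835045848048163252352748212197323271427965199032171475028484187226287113881017412314341222070639197300799622050111635671096554720531998048675759240610313381051646731816553057144594477313516306145180114156710800553699522167720918143592691413974949347412709551304507787362296478209248558080139645777235861788219431965754368330928886626032427775574219134760120220846179332103173720930132901143903096750997264010887760374518703063563132082407826457844597108999582860825421495163447480192271994129708656078691831902539153877096275198857717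830000152287406719098178564027518794567733347926390922556062344502253105147609547838570390342459271185545319099469294541039236382508184588579797129824446911432333324899781448084908692369603060368574123315915908685765615601352223173187732131722034898525932607410156136812192821771481530845222208004360741301897494757320518126857701863929361106074679117576346144325525431337320329525657743408289959324852852137308255771262643619869003368528703620265743313943640507759907615152803411496218116205157281298535698070699782052459017127695614703434738573962113084441150052411514991550688877493230560305093034793814562256476073619528284488635120921755568993168718395196873761234487417628347653971397565203276420479767708421177070947403058673570951073933344267024797180040006857826648446292072023388756920387929573450948357321682580741168069692569568619733606181001794214402290607043285879789848925655559327804024444810902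706594137458456420189569807881381108747709033124785977145649945167341128526257796754568770573916681354019577656177621514735298122360579990742896262637080676634268294259089598614629889493864494778068133437882500288545750834992769605059547151070106517140370490577549689157525820514722617773350298364670347738663667117231412190198219942282589881438724878641755783851299997880348635446451931829201703362524752838594034155476139059579750020849491210886208057621240835402009986903865359623533276356291586833486777643979753801522356805955478210919955531345680165547421129758042206107701278340418384078096705510330696432455765471430886318929574818892066686039891886083213873933127245752081297109298961407040969673655341848775394647754757906224054411081976207513100839994712049682152050737477392709041404498049034726254559328001975717027456004117799806460301999980402646982685893364530145129063063376800948270557057328588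210358182188025618790912824391021630180609107175288714709918570233103872974203038719349420423487188040481450476653640445796882138419743741000114934533347670086685937167017166567525083831922988595732365956297327579505430694536536671626616662058774177675533975818426694853195120589961698219971545160122074801289111327493651634952174790125251786600845451606520368704145314126756359531092611492084282681859042978962424870143987490616502771744149954099399595514780359048431483867699602095541764952115925478583793102672216064810408516259116186061351733602614929686194818062992026482508323588154326640561596806121664625171696597456175781431049626972479171009748392066745917988381657696485113797746025420320454532822181102882321825356683120543993625236796873060227902049467482452465566207232291282792053428174676248363682730734602890120588015612616638914489692663255313421124932142017541854510991426607368440528336036981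301376592247821221690772399571516554761748830214952281217931656288476246506217711171381969154792378802041637314513947597048134823247711606021018576153910218201213158890145205340217116219455478820396802596131360519372995072438686601559440731203819269203981131513814662513382943639036842621132890287544537231525753918512999652923145400526111015448551980885437089787677057488999912829195012217892220311647213210012051008673528190598461988584601569517125962278694695901049765718678102502598818432228221716108003847873190669430728372412307354674586650172788894361813003004561756984430720647874407796127019735488436152893127996222326154502505492096254673131608855518220716379095869308117953608702403811667786397522111593538197258186025765016259175595556891551504385431707526837748861892979919711988565651596296352106505302350685410658340929263855450630435433890006979888644022496317503214635899400982159012352712346716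69872368087266836712337213340570938317591843915792966871673777181938533943376721616287748775653395145245074593291162916397362850592644952238551532132688769817056535319668219024904250521211801021332740363846118807515467240180468109848222405920703276423508363293332079071759233135402246306638085024470511651882081863758595328706229194920503716606223313096151297290171935298542390484638338637152841151063203473930401287413768364156792281491583649002782667543394155628415404756240351780623827928297420056009022718594384125925941007595906936068141712534399595286561647576966011029014671352928470314920207275978843850283520740442846194416987689230335188825872335577648663951252192622569174695642602580287532168346537965303559981364566481557803408339864668578404141376093022514464308170797998530129143397712784718470348342053173129556340645520709013794617660246435088164919901460575276826337225834117309342381883293493711607516708228096598229087108788062036436293840541843456)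

noncomputable def rc8 : Nat := (nat_lit 614026880873344131422306914655372206424502683954605197683229005189596064158562144467071156786180831285072325366678495877015590454155055734095444344889449196365878423626808778139323863817905133230676609045601838411595051621474499531182652033131167287957460393927750683075170057104826828812072433122982279474704840947985678965747955678875970164817586165095808765480658382124536451617541198457749813977004660461758675370553121307601574834523129953541917741977885207336833323279168828082854214774239946093798331249565407931194785775848847938467660186123943204417342991831341617260590438188325936685978621237316380817536707600893121011660589835249779648292666753914450173621619475323137834139907262700837559350442943198396660217005006304198556678696228696466203021457395407704813789614232611425147652177811808371367221227773647680847290659552177130176834269933668443696408549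300460784437945900907752695283730288179541830253718389629662343286980680548081431896956869221372485938238440983199934210500573168029373431695032295087327771376351794813539058902718092742865104139942264226442849390374907698212149363414018542494530225705100888935846550808691928141621380292236203858356042916269244889304099681237874694832385427914921368467867351817843459087172095124471377604115073300701835560420253210679943349313805636103660225851040236903541132488572892739925245029393353616524961082750530694752250794442861620269673681608616484326816197314958335405505237293890949810432225473671720600294101568775021224128229322195978778351301138170659067892345752447305945629004397944697789385366595949880786721741592552611736528587418811802519192501412538555446514617003960944265109769356566654037603278307708249222004204880706130571162156980353207611691420083184419045995443673195822351141005842050153351828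175454275041072438863713548456001222802611631537066544349341518373541326999562151007239485087710856519625614786672588152576142813798271886645836601207649735005892456510618050027424154798246667920546656757648973778240447526780180627115888694012973691443320616315771547940739436498576515699921262792439820068602442948833843566899302397589485471464352556292149767271812931646246992828079927578926066131072160175104146309892869968585024871391424807276448952375906718061897300402689776378597643851571461908471878978187318062544651890336902040146861941329106847149076218145540089604897743435347544983970045362893641216932378291510321480777123646584357524342244843264018659524056855599785633380103662729994151267967816064615690819179640100860677966017523840327869666191070210773624986542236564095782496544941100610369134681988270439700838573548335001842418311311507154721132203493862715118625619549082148281867398929160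927707305474160601288579471624567518436804545521085761861306759230734805827638403060352734498253582155898435120403677299094484937627806928610490940334218027659451573446830645655170840702142735125316260888123182790449040504069000986608690733297360611143586558790986508068299631691701012414042920125599159449802513738917634946775506995661878043291696119195478035478420323314092210751817689132626920700764007083669787402676849128523880921007407308688729848838993196028757591272225514098092326538108068266070707537366927084824493718170783783948969467500484202324225823785653057595372686771554512159172848954655006944861471060507972755954720040948021824542322578934354964894231829738499671486751089046892532542683180856877636736905133824079477475320700215174663767657549496629534269475819582916874576053493682965861613640061881376938260004379768624530186027514205372577017803549854367830685714256582961233534665680961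602922138317814887097651877621814028964182528783220299509485556735979774500033841059679777952040170611874631074047417438456688211920917270014310397685935930263472529643629509012280746793665049621434571169657559988099684756566623916937622103173562928710559577133967165832103971632805794125683946002760758387368034165808949078563957628471794736404337316458921205495707706131542371166266349903446387835150268279171677315691541079017122574584339760709815285801539781616188357163926939380576760407159140911471488801908195906217600251030090605735735735290517013920740033006006806751858409355460968440817975787881414005060664530250826616367468677861173974936459208892825893838190252645174205024692543362154283669669627761617673830685231722111643138960984849069339301876032138559372184861577442572791831450783149807725008873744573095202264066773207630880906550758755035427429193341060764146489649780312824114858210706002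964369661467378674727372490855555430460249284559038343421810553235344950987315421291621663939214771239257549316775318540962548837818321339266615375247130674103324215787064530691246485549160507463035827094222034119754043027336687005444381346862174394809034866894085114470097293404848000971535822739097812801761383212961258082984704883393301922031442502185214276397741415730991214268406568979222724294293448132144571326480872138967635578355285225824849418913798833438729228888104617179252227717171391437049988627399712571039111052501970818991020123706590351777796438511836510957321854223063470730183311201602510583295162209700419330929975281163289290680738786275750181821319174906354166761790911617105690889164738844884207990812529381775368441528693324833943090255510688171212259433635168042287837760044648090627244930719446096984631457067454792292264339764348289209336640083870011264077367843986706971691285446593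142369574267107723476101582205889955211625727533248205633670317124182034199632113014991144206003201212984345994348088263473620750955732057656591903273808485074574296646030512384457092988186417783577673832543753069079098178402530501943543527210898438852518682191961780673267849368348763348790373917590623869356298829526736008611900043285740536887890662283771357059448240651847509652013837501381548339567759815828153566468409237895333801347044593419841732031149923216833823158611301696640558230176867018200016081802413107781789688652521348103577940401316628174041982109432688326145539696663602204227009540313408799124195289910999443879341231849832504796074618998688177801521522517811306186936283957601865050777684439917931028736793585521090057108000644146467081461812896828441509827832969857765412418044679156156468745177197521381553421866077288604079793690074870377235705716047177077932775841297336761359705933712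582218063721206523233978741780279271198154949936272466494605715809599758127085467550661363808200993015517578823746871628704831937321930200321860516716447562137665307663541302416401640142313195043202471532989135416321112967428952049143181634871784861716299836933287092004436555928185431940428347517380282765435865200620525373862147367927976827512768601075842496715898733143050884140018830789794578302542983145885847957224431716106847529619658740164419626188408681779246389210475382175480493504878141408174367801195646358804790116254735190387892181161394214658206431737014616694584297261048623152353440959990339997258377064262888129008852292405528111515387681524805496386125132382910074567351284963843228740629128675881251041714049943245187117212083675942745566375842277566861893420451931871403748902992268160326383567871161556317383866354201826896647248967393826615534130492786897119024488831551078477977623246674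256598770875276706929886100511390877837830478347378947300182138384937488924262230068590446535086370676668949313114274514692840690330243879741197054853320530292680894248323192477162438879281149678040561882856748291179971882957570091033208153461896034153884167090821344068268245609687790355154573291457126163680160261840428865166434263804124646885831871298020448362371573302131984615673656146120557182269385948970753244871566837410079138906646811687582390488317629447639025848987579744895497399910763580004752169891011043412602930060738907713364433474061867391624268427263377893039124744454003814348701932323052789080512430592384069617736652982181799570760619133677655818542775668160932468966454012348503397555423029407588959071406948334586234181166795834455028192249552774768318719177953097150513886171814590568769176130343358009024155523492611579572119349722362157780848195257060617961350435228191660001695784009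985565273773407400277679276374126150541255673581075058664926221567416122653654675260488043115772435835793623972463037091405414221250555817211819572936857715347760201675939052193985452716136645778259050867024393422199074431422665624558702010780011213201331976734135744540337578003940423022677867846384434853943167545716856574209809181985128204559566298577851893503097945296438473911914473253861732237305342741677834024745839595807316725401998899266776538951990135302962717108265232672902959964321457331984958372283584689020538591571632748234426865254691327326870258355385287014765358647429950536777769315702349746150158405417479110198107221091357982661397498858289402072210162968680989147133912884225046665589814723344311263156453331346133704476607066057989922533571758126979607620438721512257557786659479289053823495638857325794627314198449508809297445664508179951573023609629507105206644220555008819803312757919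357259395543524245850923165003076641190444760931247167565463312410444446060694910245568330319672485403504096181978617768956308701955151338083646168056924092354290563271172531278430515761566209545169923755449377279863182423459648756568423461714451828484799220058659345760441535306763017776784208687952314055008371992548618944304142569161294955247836892907555169931276628571439407362131367960485077213573424712303328723416853059652179743458514382899081569255529106497726846832152452915463688827348000584746797183265633903537399749507121458925310374504688128002935116136965469903567397247340638769118093447433625810894190206998791904283888998348623892174089470903247305384710545365000927206977783646719357482695750843053751615076181173353366303248016928981544469784399448639563767083255319813023248205142299221101708708823144402332211417170021917642626617865697782192720696209866871262832918753810187167808225209107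213063311271797121566841589588922585492626692052690938588062279089773863762882977736607991883048645859118804304854682208130330090890523582905478985061097351251240733475956612254992054411637629855959936623447916109155431362133476980674248141761729812487865072734243152199359520307883144132644824887925374926661619613681014500367282073073725767134814112275081524153436520052213934863780685591318791554169203314977091082324336585655194346346084477733354782858984804580552947338366602332515185637199977193327476735059820688816995460340945877405010936366994469453134708900138390837098477609769847947549150459425790038613370827690230255980539001526018756127139625874348156451073641450621860311408999600885327478642062299241387686563702241085010147792539477795388919035256693707749337680016256173297702118564426913296150422982925372942165634111159147961037508377594118063787305412456732649291835513065821039146267199283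64408222070011379809473991692944212923069953876557803431679795397921051904995374258233929058686082937646957334289351771100018703277854999096384631450836862184569834523536120849050190145881909762778184594806627488050592460710317434516601441029711564438877611762126700050081024712784427498629638311987094597237961299537619780176651830289904091127329789645408650425722449178534195889376410009646769270850673820065981932149009571023497715324213343655652822207556732938695233804456598203150144217963344506786112418189583886612483644892961927382072340288637584728375820679058696868164977603460794019657756384557638994458493285225347803407601927754895217330768006226923734139670447490732835270364376085907292905559047784030214682159352049755429378762891742172675601140053673605598389947430235809619151135078553302803736003986679652305322794426428668832224061864481973719441657632579516219825833742791080055975602926294906759130289131353550347235609998462416010401669015666688)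

noncomputable def rc9 : Nat := (nat_lit 620991026916603244402824243749640175750701577019287067694453878449184727147434734020705124318652195099428604942036812069498496203173919798898046642474734986132789772464807913769213242648504984796511897837888954066382954254556470945723912556542747012689806262732288743820442813658891333739503278869513327839855124720374573107691944153384088672068700340401271706843287708676570248037107558140073284759345295175478882125854111092137293351155669836382140328932722593960349644064214086597744187086874264141208163770382528378366110346893741653472150362182850788286428508384847454947122158282195423210727491984341171556191053085983515228331173161712198863079425015664628421265087904187649694041481865466398970655574864061361300895700179061418787710662551826417685457018842699830878834747009186416009343109147008080700207943010104758271570556010828788224548113874938653652062737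767981716216928746666488161758035953716675926277509705341333725213924884004265288439751456527895803585304398176261187276961163736665249943098790238953131877499055095414340969287947793724332419897731706189402440230818949524895687819843103755367805224632375860622196988341259559001814770264425133946281433495216992175327712926366003242768501765426343624196302491354328175153450058338225261373848444894038778730552173251981495679005337855001106927879741440112708044895659525266353265374554411504274476513617290680728919514829014814420622027684401421940693211964322604620091483439607223292178187595615746942539127205953611397733838532518460644584138245296827560540862410564596528772353451615735294101330024510287791553840623292883159830054292369351095031176542577773541509634269637305100394379174391584354701576148666897207655859212550093144654241901474773215311780629122548059300386848793457547556787346913120922359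612402610787537177718895019194391730785201053026291467279974587619405873689427808121224187541055150309852723875996066458119843441933309821853208301914028493707203604483319829394589973955748368519493160675899965167540565149001294833452862778217954963302814830585136619976604456196213605242640050222859213100955154000455789353094349118965351121976098656971757877759041709361198863092222390833445937802621263956750456253040360277057130676940273838469212220877418984143458085866791956039417655185443921931941126194849254030835362071667920727574020163582518813729354635752218935809961134348184720257009866013597442943068043474440181346569214088169711518566508667953642890435086230064221422717512726524281389364748772434324832404957497315378648364289998249097074893176454127567902635204783348705167903078554879141713139889120753494530998529751691426068254343273113371375921052702958611301074522988375759695856360275182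813572807686338919717460634233356402076044493084739416524130007539407949244389973457030356973532005409867530965638831205276415498933673113932448531258749636310881814015009732018796922151755045509230491288911206139390536957554162240442646423908517564470820899092851488453702874218668132707197736501488328437497675445952586465472492592572434810308386070312708821540886997040020429704655652159917285667564057647100167390404548251458562427298260695992256876013024944870262638167791250012052986723263968545176355797709625198872964597541524920135748666669234487609431689907328934280759200935976892352678044771510740599837808091434107478611704441661236691445633255149167326085018362586422356866637504725711541095868547257592995415365148130098276518299832433882232931239069767539741431376750041441193545278037867301740260511798179477049885668888362630261188709398084245355891117907771445450394417443966610135769994030241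239319448511772089206698340189497150249261714986177360016236428653352205431998717532837932536931467199048731133821527928862462151746985082514533016668327739227502317968054219812055600779315288763877813783953156410454631534003191247999303172683197773640324503970993426573314203317334615024608314551171899895289348737450314850531139115043789672602968284684420605104541345933101159149731340547496137378725013678171453760691599316418370445657601222162349755971548378123884737212095832171509342099044869723918113752281067689778341642513123857767930280331423316641640038569252016371220608833000023151226957700549355550865697333969798346466205286266619459273667575209902961692173580912512238047998415511854848320152925521880273468137354955127499519423275051214007016550550758178267184100810278668723192015718400995504778530867953861765557288066033716276215780290517380348672146946479312133938357525736911757235159679575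159717010627391302026518331242988480354241745684589133308935161906021207480624972247221262128799691144258224364413002696110185488303992152908911226277688551591324844372177329583434016967123987286887418521397961170665767796014168302409517320769450087658340408137699050001438091575879925878320636770684056487284073384097466555173542280891099251416315179184843060887543337475584077711058130506356135936446451368695588382619214929036574586790544068137333025788544308193467432874248744650376664346744067918811488965278675718029882539685594857024747141178176675230845267496987752194478071207745485965199000083325213529295137682805438635948860785118752298682423187065670836017331313316352866539041333438736311953009921028112989438946220040017688768295318766791051483790467880917457946754823293813682148093858100813032207926409534886941730234795554655755641844925080352501960607622243707015359546489792508693276661125599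851378848679262173922842124564921734472086837307799321877891293347357923046284084237766172043654273593539543206946143459870436455961128013757155953472483073467275167663252518192559826442682314171836901752729183504062354678656658154195525980189707830315537127102578227291145455542943907997493769319878798833267129395965010784501240320293403104664863970799987814794897146997420382205488292396021194218091882060989973937027494607386498202722662907424027435679678991048828785860400020238544705635774470151849651871595453971286842539158777030833597087234403823742181443866661477419481574177432726068061486541263032280526112367927430296444148589232842379617461845970047631990754889097782215766073435706254041951088545323417653434841817417446023277203901428260247122180710779695614037755039933280318647060250351430719091294005071651128483335231904263421188617375535733614465934298649964730836477591167103785695490622303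534418718860336807008040474283493918208649207046938930538360902832002749208928211543809576684876826076694210177375020676006211533796456636995342325275948595192410710292029509326787634470826383676043456021658871033526998281532083657306386285904777324018676595561250012067324350997077826989942337019989947914063434362820464232916368302629169631108117301802279750395981213860432893625550281096446140695424145535773220539064341412872358749545493039261594699864514678505844863260591538964877123297372855328273609880741866023481207388776292501604043985896263407049306725554339573095342835016882961810793811897740843975037134067414172886044913328274876154944018442063106985931134975137590655710731517492242048163790576485238269398789697466799844090926973334937802308483372280140934963968262657291317693724789145490022473039148765690554840486424221732089260849467219634717284255899912819683233456423998522741817994291176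024435654214221763984918038353456289298333558361600286690596047649539815805086397278622761278117172957592629292897295195204525512998648998625641251310402305138615404876982772909556230948823887037099086758479939554859113378505135877454427823405945291175825385505017756719751626294267515512108394779535004738372001132818999099038759129187117700565491785260127085196409268768546078700187207541145601249234487564502731300175017249130200140682499336217584874150919401381814412798193605216424193376548186328498765579953397386571816858414786552254165392617758810738364029370469751813356048052175085468010110889774653085285282203580608527853930089357696676469422381335481965637065151974373914327098566932026202992253684637070821414479928347945299751016049777707988430542397715604730119405267788164273219140047436719583753102874398220357804759560206218168343087816630639571606450557458130185402659539785101510407831242622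505461429185171690609709912322989313171929990143078512333211124552606371010490496087295554355052200407929123065747179352789505692795727709425653562073762488103038166335804104096348889143265521022018093804697417627527756401087819806694545807997110551814617456232964788508453274072016870995605824663547702583315808147367574881967901145284900526844500809065245453236616049648579664355517660395282173104217424682726478752830178086941987409652789841555287788817422237458929613266101774500896200755044087544615050233354407479242033327208799637425891974804411324483571529680286949459902004812572068887809095607177185838201842966432739384198147904907639670262827068798544102329890244306995457390418156994972144059691139937953503052061916349723602040460809350968131395378223943226393844190051122873397104663802119623614872563744065261617110203087144798085174603491782847251044097226985909432007151104257140613999261662823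359476635160961682796798285820645856071783677634945494779202571911511163122112799363367837021256276594455611387612825997504847580357793236578895235612468082310735637366910991023723707496200559144914844657769772137515347696244985593659357099680193670539237622063574601587199426187628085947855346300295435361284863423954315476706188493827512272724161081778085595955393463952282309560495552727173992183817816999848247718765989313205417278240887784485675779239978130018781637217065889028048095363093887229965327874423303386915461588880949976407327031912655802046842842874459458126835810549972971176079348318549559678001548122734172850014135342683296764165117037155609455072147669923901778069888697321709376966777820223191880236895998126140288629860640408810064076037859600993129032547922120905850038974080103706750906784289056141083991260052106165119276065657429948876488985981914564167708755924247504221860449913459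053280503036247387046524464109074766772476081618674193235146349010328869764316072608148159337705648394572125364900854004637738713195604632644335531865811271743926294135509446524084756823518663941047468435564466159306371871833787038149271696985541992323893415579326842016414559086979251761592545035948245573893613447524784535137168326919390778514946730927772777722912843551626553905687324316684214315877061259815119511119521705728028682425956444622779853446687538598455859140988056595237247958314311149075542112187667156855078514147675678683009286662392408689162359897806084146053503796840357351733373833584868022520801735117661356599664732441068168606053290652055260349488948086521277598970959807261026267981180289772022749864336094598101910230950314702953239348035920101849479278678362104824945346844502966242644890583894806506319528211362840301737604404775683809428016840461698367931005774803097951221979778825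63254942877558408606048238536301622977789493610430807035863207536263755029325296115570780018717037775746715873118669259530765335031837626594663132376496144824760690868930073118180472545076948186564364332566428869981403541751806347036213080991860430819521356362136021297137734480332936482263126732853845387537459340081315928463618986578424350200083466283203174607890593350037631461571559174393811169659076948534980109059373100515503740835153415295118621915691216965917210631668408985516907709066416742368861218408197200761113039476484523919703578509336436369385923382189183768326311707187444607807424548703598930852147925706654006932921570862855421853467982301068747297110515639902666159780188241721589297368346077614559437562604635211595206011123810525516113012629003082498053972124445653029860342793208531432086379812086298150510233482939400207854680425548592736799514752637313248189224894032099616969245492586713644628229111505325883593113121205907874570955166580736)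

noncomputable def rc10 : Nat := (nat_lit 62799091485607693161985006053754501318678870178777200351725678994572946660341999847919989927306362693510964767833283140818631647823380547634186031787405711131216293878010192849019386065225339830230971617223493696446890818041119940247139030261297984820370616841654129952763574361259181211227402802791123208576202605295962705959459180923591081059363547443325711425533178447813901003735973844573874529221234197594126995672704088474194279033981380383520792035538074276326528774859062907828702331643196118127816293671735398875064497848654645406287669430360815154008086335680049298793292044270356465130439663462642725678549463081995947377365153929478831483029617644871677959408304904684885251567595128471623278580221878457980966384909727874868516431353958172382076109633478597036341271315186269711620831641744533073005232836524239150572221148928504319372227378305740254241913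346604846987562491542082246921373091882204060008418770173707398597413819984867994214021200415768719729866156085506295916669052672717664030419700110962936681829850917362781985231474092683415264957128224235388685622920933007548419853528044517881843354288024948945573423665895602896920421922014670699783225201343003387402205480199298757594188353520916634444064137768024071047988554527698409744708473474100422372814382077061429912290163571437950729521263101791418255710582201417509622827310472955128117128965661367511090986047803414411966635029922041690278276947123936599199028286511626491946090389709536701654129100573476284681220580475556962786197840987978037797420864667480893904781517811180729053255507835047076632738418169945801590383674366784898247302255813403193118211097514007240514987042286649190833029591322078258394536796691236609738661981688015973645947306750158232938076310357372450305483170326553968875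094292620243936773674543584662097849580226561887669763312208388845276125347180006273487714940172115188642184129415922745067474552321825687447938264058712121574038556769381177007300667667770976586100269006651564250873015449392580100514886301456189168269955443407606491796378552792154053075419912471505024591037318536826210689460598454197664947041263321069242363499502114983855997505994591526549506020401118957153183823346369117673776445772469112931502027658281427267580912391689402266090783078568273212048107540977358235034240323651124093269188846629917611330641087595640177971091087840934787797013174108905464978962535642441920123673780745312109677498684267118095369832406624779930929076821850940647663983438609635614798931600664893880646214873362455073094013838180041833358229194489943056186721754024282842039784686623434765332718757764795651148096047087570673183455881064399108691168279951674878309303798745249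244063848958756526020808353037248086539888841778012507594478880180428271312343366269430456382549100654091539197911113322037341229381370470490055597042703266942765967790108596087447807855748559869761439954775068051558922568156109074725860442290538855667839264011572125473892323736849097606480092689113448259206211761397625431704992350113212041096890105342963937667431652844123380946031362537442365624136724886437534664142373838118113497131452995283083531767705751340363234246039706713010661455264799080629076875460939343914712573215890585844384280408114708897137902854207940413281369510098877373788407779333968027024156215371370132741263063474056316202447408190175218951723404204922735619324901527153466563148989998630496259100418705234044258801148012874717340495379908959772242899593387809714276604684975765274021076628334151376772029807042797420341724958227739162800911100028693998808069795723188135821813357137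285685512566993806594560056802427083953402086694731810060912544602980119906177206447066109587491561054371589221105859272819385836788785481620726308644198339004356079682373437039146384018106067061588940401069186687736521817364271272719311474722237212135591249180353109019429003037102568571658231529518010592834657560570778233117503481282220424246042719796273293427221699823637205044118865620215140856007072999809730273200455493393537345855894306141289435864295727960210434691943270251677425136207077589670510670109764234506034461120338375141440042385174511376484124978533429967045170073932772491441893539941158987332593798426317637395066899056286431303772019014437113771335220802452266846118745470100772940332394652290611076666834228676746570920406289340163061048329923845663986916645941994115244959340223605851760678694920041663973426322684428888192248149682559551895260720710090252357519025754341333962076522155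530284914890951324767804185377483896691161836533218268269013678265351818091621122276898206935314938661343157879502331785611765803178566747544076179680585832531060218327519229794054661671428464701996954272295579498339881261887804589253571335719098840854771962830144558421834918564815854296586462285954021156073752634248717135517075696742210285507634500280289593766858846298238541029462989235434337025351703080626303563768257028503258720259446342931291426130751700067114892469784732413468856463423170014219283609675337390225252172478127194109158937458108956286722477770602496383870584830721737835005243488053349077561407156308644741997337463341682874378197095601181663337968191727820221707684687208539491971888419966874772224683063160256603510082288957667693056651210452785936921589440089484423922546005607546688966974247104288490039489192226136884186095551195606141207494702292753107749499084607792262828099992104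008669883570720484254002291423145270316051644883458986921953654224829998058436777196569833864077190299011439187010163221647390189462332795104570067938767257433870612461485789927305852207715159464208948965016626057436718713102825728746308835332394366679645000008399300119483711281352100356434083960500553672470587141317181179570869906269456378927705474632126477502449879995168266581013053512838021605779464500210506583450339383631558982580212054326902786922406266305955679726436868773712960654815413795963279250565856975238530792801126679035029694176624490076393446839029334981563106917565319241446543996481932640833588083473904737823261370152128342651402220426746774126235828099954526151025492694316700584684957426904249569994236838953342197415726685729114082979025272038638385896401738724414818592174069621694297183616367168684261262873679180974096388468195110584591821517912236218050211116572523526841004636601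797821229441553532496218153722228039846518002992674801582673128305350512892935128185922313051169726476066520289949170629090827692181191925657826604225537932424824913119700519197699830851770203945562456164470294855181517930353704874632096893907933183422095875699325458849680957813392000025170538683365343751153461954532279946554809316490504581220187645647117305073875913361810790296577012281416293767823576646471777541800180186683407731614978968419806952257791278370505631107835357466050254160503089407194742851119982353045583957062696791282268172724624530453089162070692426620560460362799158937237300099029691745185830057731217615132289943163218265532427084676807220442814856762830338276059039121414519987872300150945883717364633277788280497195836283610567804110050821838284494746257926300639095895579877193395568726780478259765421698302403910226581535101727407298324045405683930882947957701393023028469850954954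910887722742429587133006114058482274430973981777260827090850407400191383793873448426769050126845299194776390502027920841945023897052800846589097842761089276227640343302173984675428255011308666502384575680602690828108677713115219248701966007570525697966123826866262555059750486904854426909082202257175728005696464951023371684875166602583497682665676601029414857761979959157143689905639795658504981734790133771678165442286030954057483635879824393354012720451641238466103415537953921560144248211639601599045522907370270162716556388866723554295822091717142323993913695904009997866820371929937388136919742778858061498074452307245115021570614550472426299286450546143303088046666328817466605807604075585187664395802912343280755746107327278589253500153839723493846709148205329054184601277744271325533167791072830521428153468832487580000963223520127725823734918504934649786353788907456411867307048284482309387161537593317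156316505857945126064416156446998401866436956788313014018056380811348409059227625694144474707228528111520339485260720119397252491472267376128118948925157068854425105877410298123079436719337728847518772652201191772828311901328028971635512663496178924251226774760702167482774359777412861636297870233208389251408720784161985858115717772246759994778001783621298079359136617161667497022427923282135782620566173291146881421235167236451939403644257068626148465523206770232752454110502461718952455892925671056323990932843488452965757773442781028833432839233139207548683898753582996122659581418669979510706254534280287510051860935963129432500568070651562602962332236355001964379497334421457726599338428316705460726833999973218444425946667960070599122242030727109810919803894588996418984298332734666044492755295437065262852658582393189878711791981330886402275641501302605453423820113669135637910208477617487687632683375041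986235472363143087595328259623815389459257497417572784937892646148797528542311430346715243976952050212126749756475540355927768999974380168220635559398962977297002177609019962953990783280988467047449114489255925365216700889974979130483210668199772030919439160530108747457707080847990678901428472946377490237552147577038884342775302784609382024948220302197054962205798254143334667874072823165705393233145702257478020788580299369988450640507336509869797896900147778718330224192844242079637165039040882977711342345554787918860987871921954089976109451510197209843008681760612184772607812184562171107562780246512323486987726498241218462894280433483453498655583937140671402190680955029220862164410125447238217865410698432785084662364159007241121787686316933205716282333309865390974822425594147103793463735525129935071702832334083237441851699271344831063052980771797172824064687489123608854574566148294233053487214605875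065547097727177337860637681739198032983039075052509511391102165254570005692660313525822305189657798607914700304007060568433252192035449784544168964473393670188374688210646654540761110843999020679952729797357490480789125020500107677835271971525504895958315803167961392760826405393383588643743295807148667690332159645777964911605734467383270045298253255430338753427316675401782366838412334296741090785939698467518375105684827925793360936776438641729040633365569695115316630028912724864639459743541624500051055506455819526085992791348812472909697604175448916589966850360847620122673666461429899846475100437979102253552043412500380970619506006017641364493398228379531976885271050064367037271487018265849622330834357063532333293050513068585031836743896820086272337943906117649800399826931568184725213575833388666460405217491861992989742478239562594233047205673961530859745606682304836731002521263488102005729587935240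297968185278832484635832379118590264756156606652470048490416254218438700527555458433162338589752441150112577251839901431202998067564180372883224167077773634768369666084849694549548513893138112481854701151625674357526027422103933436714096332631393574282019984051286820894802405371537071068889324461492813665620735207416043692035769859600340923889030919860061882711305127435528405438536874474227871394896340980948822957378541254479849423438589831439893862799482600530092779838078190294641839994724565399640948767027657618342196304937899896953123420007808464010059507728847049579520420500985102449254929465137540684481533405203635201024506745605861197476392089092978226805939327148707198455854186048170297754172590159309520004846940759257818807632497164622998040529707256102042729029591745597567148858617809466778524696635171992785051914608317193698604953757446004413125562220967337500404560386126481171960757460966780377023327657311784954012726087446799006638270534647808)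

noncomputable def rc11 : Nat := (nat_lit 63500857881306113169824488764861161082348018446431641530556143849392069440426951013560778491698310984603481057419907638153591208580547274628590431136867407190484235969473606044980854896516688585656956813969009843428147440463442764203106392351785370201035139135749251990890034727725242943939188542662707686501298112793063566539532294958361762815651764684315998784091934360685364834778822630045193232855042336241113795143990918304588502304310963725511348968489501626317585777296899307951301567849818687843524912730254285279090544094155796912290107825085979647499210066349730623002948443366908767533782760191475861067317716750495401339038877332347387419318203447286981723755644441216545277551395508348858336839657262503414063608156512761370409303056490765797192210755201669620319402459036981168361419166516879175714456984458148953693161770919020455112538031521830403252454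531662331525913723538051101147170876880604402586743265729823381632440598404979998058562095463060897796617342764349188576661904754563593415887395943794989128840050207053120860204794500845591558978704866110944177128563866908380311115599652058588048304107963123787251777782654413769000523535923980605647423820464812642647132601029337102499955676811884171971719780833468188325898478439391732952020012474928883279303588293575916907769713393465758533120347639695241214144692242550599343156926655908487843805273155863008222377363866156029787967762076725477294614755553658757483005458036947859181693704366724043134522396317344295935962215251485653603509662351119147086516393047112465726435620000921377484047341224103005839335853657059197828047731613087251779068989263694802410534534702609780221845748873215374783724527392101623035467610854702875075104482894505653236768992220199240033322697878184401649529050428037938750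099960362508518005746407743718181377476043855331983159214132388108292888729250907310547847236945909098823773327803175739705338467971953590759567387023022946079988808211300734306479677311960716021282239072848447145494203367030855130115359514876399279156804225795202019178362367010664227244960343905982553766870257972823458071024048786457859139870391141508844729206767420038463820711186804051628813853316879145507605486661266388443215832108137286392613828031803493611564104124991127966993340407072902746577673470622264356396024226080627690027521662683972124932738901905115966642111411983395088885053667479210469795442706084235995404893638259541860918709727502332197173749244523317290570876833237767711678927374719636724655013109019863590012158263686845776421463624414941471478702866169539243462014056316356058641737332893002050409050232924863484153522586888907879248982922798527829316402106657045973615136220416890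069542512332660010058958442047747672684676819406366407645088784224096864688536074846692056615161383224754854689495192176487752292899215583094653125733084345631230590168084777183396461978285238785869467939012761491908286772568979531958521094913162221116048108112692311828076496828879476350826530823889266618149851689565334467686927406292428631102642728600706561272934154276482356615100136125567490476216096013898075671045491502835266628654456101202488514458049249818995110489679630491854740960049633439556022882599475348450066810384900153194356094819903555127364644925105420090670370843686278335468292556959879008136538955568806727784582707934496487015362034191471963349086482345612858093393477813444640846552914286854007970550371657924252255823478774829158469992154253945624371901609592398023357625172576967747402893486484888484747932270018357778101672240476382344363913892149587986063288489684324208031979497789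356403849317431196225032569937197184526556943464313071870772073853736723762726667062442328941599742130040409375789319151059557850589742410213500332883275923062139077721036152412585214604921584605404717630601737386728314714635974292955201001412665602931465327960945577216614263063422905397893958109506219180776706940624327310956004808284385274884720389876110529855319418231468038948507311808785948198001466349262197497431239100849572339888837266910848268909531084178843512777336317378812564731599664523776103330219689751188398493941719699037376041127222096189383937489022691858508887928528746605157606603247231882501234286198194948624421238418433693456680598951046731275230148030096677747241183376422031174762007277869891762050611427652535139261149727903203419326244499394503067943244942661419110070550148541842909110308467760075162444064701392163500804379533655556560623310377633166250959299392373351585250560293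764412144297323483105334143859129553870018816947146353724313112110483790422201409531987203412020887759508744598983182856518721090842343951769463392983888800721839273860914598297714539204540290557557400188748019239665427866850456258152368028829991180670986656693350615339981935940572130454899602177569603334365800359239818831237395206798176118410112342822592340197644651482014414362435263247863143433461813889537938289823703845598783953606493875530146042264283551456333111641130336628972468548759740088164784627097117769357307069050425202376405204492032764552732749198369716858052903180502762376967219992612287672800144264471427612875410313446620670345168204465162416863204384640320990684603251372689624991570779696085784594926667298657841668240430776886542776326008241145344140375549564950954638119194259300131490524026122989127467997135638075991742335879871086004232416451404494906437090441014733221999225674792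125872410834565107146945312269459300691648869245181016333016517577353695211757781259805691358566062610723485197084937599814367931007163803390201814763745967001229929181288511099624737066691121065519192346979829615427180300893038227567043922281355519451417212846757071010790946343864415424045883244328670500420010660993610884240954077443209702548852066225782433837629824397778653539341722740386285973514966072390412558929432792157925737188965827178088600382688962777719273294332879283911214751698873310637909108243944286703715364005229320067218989285998096082309961498388623802182446451515041884148319822872157004400583084553371298061641798736466345438927933511090085257821576923343660288868129401108665642276391522575884111632758098720323235081377092480075428650217671536045319449121468692574150734808660120510048776214371527173552403396131472436168898270799183820124988445006830734564760984818403388602849926371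454385274502610304252718526695346582531995889086963061804448707489441157358165932094257036704259291541793567346385597982633483634295367671275723891680256573712637120535201128627255686384113854107863827571887204802089441342608542007163846765398546078968759049236055719197589883964512206525880093913737564809056638563737276567638313356368551013137550443243034881815431816339251370303460499247911136279081409344888168665799193447637361511231600740632205917799429354044088904378433963783683028596240771316927198470058788221920327756041022774413466938018543907626856030571135200034314079700816318105996954540343981949170073278991516306117051524128084578851570252211327819247322070391388532602091221964193677249906832085920196572538907393254537538039039892788505878974690505594818715755265488015753831215108796366299942243431886538335512176083413780049298251782784132917610453645430040796083502554068799162100600217830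178722379989038717828962334552640142437094516691926947391611981693664501912495209003339782829599889158741220269485853639310976105730449646396337430537909131422497303233653533358429774824323233461299238446608427528302300558382434781735866597336242835950084350126490535308249123922656498927856667229980707468461422112025854470868635704765825435382553368935575538498483046671602566742612488395075518830782953595807086309121982745784716440369455929309793509022163273441283392663662880785435697167026117779509751491309834425948434983537674911785259272807242314264421085058285587757627482124427476352975078648125458727502295882342513620643901172787219057061483325466162615668601734005549597894825125484895067224482531955899025624791104970505520409165267478515768666423234201093096665230791249022706459737905726151125318604070937392521925252019264816946437236475385235794205221638178852268863744000192043124459341702651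911929173783931322697151465723102325529142209826090050580676158774563314348337099511502291125807713840195621121333858262887423113757821427139184008231420118961767909355304321532687920528413269855409110761101599247530385242643377260899313579448055298852554216770006084942837745334633014854570665343322115325951226063706333201499125862883757054763045892575482272647938908520614480258834074954076619681010247191778384138162355860935039456573662566770354224223070922777973082271796839418635756421914142920504334613124119287617770640367386356525086058832446863264969246512019973055839999758640273488853921144113856321504081974427371687177019095692205267634380600932734559379751248072059605732032687661254643465069936794268152465562644246780586489934977126938883064102113582135969006467276553216742257051623933873461237983729789989973907913926902628360252891185182319654756638199237105776769374314479855211475137058421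519622932191798940944988232599447344010076358676251324381091250561112647010547064277367636826788832792266035462275695550812462238607256692224669614138085265528087304825145543311278965113243003251094196784167107460756839107213443566608042486463369423455785603627427691293259492069574897708711582516459975335914590497975376818220813890352911539642532743082368621965631336205925885281516998646496761881155148269799144673513902969664624031899056523433271556564660728781460832273527045734107822103723530001450987074048314210478132882507569584495392733060940147630901389216522622525166330310474311165273572528258187822924099062587656789361256448492194752773434162715903897141872878921883789901221847788398448479863754246220552142889507691676724260479403335047922193111382268289157881484197443597526627191262424884706176152403110858878178615014946253417098869325908829635633009696352069959351512061074263866319891612914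835605245709786714119569737922318873467505575183011693231359835234919814735176225899517032224205423972406950180396511276693236369035609267538200005093142433142895553821581535113684396713025580917039322081230705786132678240390254240360849168491872686052610068203850824484556964897533715236274089187732373075738792297912643649840537088533247882391005443876136372619448895346071348687835155747351049474713294128691415023407681616520907859588567737818171804682059078127999142833153598835801426998778240750178472512393456618952916641463542308377314512148944905038471187444678697820501799625500536304129272747535496301326519176591955355362475137360070259040137633683380782503087312171342316391178389045074598494404046702926091630559407220843928451512705543690006905781347637880931097849290165298950432289798619136466453142285300322155887973473084688525359284721578288816541034572328689828974952440528785865315866785398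129076273711318517960155833437085346251082661179556841499262798740101912277830199889411024379193722652884061321319263657616994122045988129556925569028191892536151693920754994743640970565966200260931074966798319184626317395534890525031236138212438837562673734096560174183769619089065922995855120862961454462640155021619434288319786804567361574872866471859665237490802881230677271950431164607795822926213887832003099747123017680163402679772014008297157783454044820522277663768865340909982232311414089693969587838595024314003076900405125294680848937806657760104507366064740152075545368350809328250472643592416024483380052529559785502558713081577299152692165822631143682952628340622658213565262836688527406152857654563416946577961850849164096798496867262715943430606132203144740344686820541144660943536817091635325355875364446355609516087135799449481634178540441654379770699240941611580095715726533368968968506932728178982486269775639606232691940128005873370479100581380096)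

noncomputable def rc12 : Nat := (nat_lit 64202756356766496314927024493722561245849895949791640370210274980158566751989414559420948710532452964577367175861811895796892975494663231166827078553824252243953103641054685042187215392297092488668034847891014530744553863136922284172730725093557458187973999712668731551731010878804367908458357067662150908653640830870827914441720510981326885153271146221158586196047560430148353704258971015772654464176452779613779132448441362363225898856582271757753229145749103188170079580536955423644862342303992714782994963888639379170134733436786223415288052604150388630019381899518159773216430180140686856954239636786508077795738996789131968371554771858306013894885355239872399058739272576544787824580626546376986454764816662833183443637999398623575525762552492180481822103782827275816940129976494655648235418839551560948700050562439039023860790662615062568502729962154640547131579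812208226264024584962668093947082826892878109954855976985155422519427205810539130487346416904852155807599482792433590184119651389814516546670398856668563052842832476419512452045367249635139598264561804723218846061451592991182397070636856222994907184827903973556096131594704163017389882852966463587200297069466006818000022006948287917289939831285941514899925926018371355594708006345079819884213023763598391536429278431849906676612842729664649427717933330275391928079816757608667817711450104088274486051515122451607260735347183204171637357269742210714964715506302173004860522984551175426095976136067242106157232332856508619275044621337741059855874949317525692734043097289719986244528550462229548522233558859103485543906953253653003920243067631670143233813178523163655028551467157738133246936428700143249657471891036200810856905588661493728559776356887683101179416187111541549234550844936329106233511428667565962416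934750350481225073042073775747265912287984049890085868217862099096284392239856937110606472917660768870362544782782634895869365721513388845650168564248648297048509379409116242313893069954233312874999497529092975721269537346236513123342001263854831451926368117218535184258814339179598131501281269734480225642411945091564024698363507571149801951186443393274959168769847331912403595441990450481733081056221372880209450174392761934564005073896623085731941003703702546847293653356129203287717496304022092439395489315173894625915750817545867039744638093695589742380956378777966456299772711496968950448488619879039221141406531605384614400885770240502362321818682910355283897549211449790249083247006458453794313835209838260326546399587070030914212948598990250360715230550519979463732576256357013044792093068300627338226814214800822727942913065044480917726495938666173399347823550819470714264751123160791757941014277639757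322154934652027542606298729442960526320440703988938809441402868442171683306729118416535150222461485362210724782315198113915307129062607268594775148909329534476562421518571535784649003243900533569755480875437356046265145707847936387198123135371911977998770355770440144532883474922816899714368679124113321514546646449213355261278864668610814394608960335011044558301733272678970574250491746501735892778318343552779121625037360876520489658937996534214362898060186076745967947678470971051798672640531233023680514170549219461843169752185352284479362642220167504061633225047723458919290129920179069150825038663063368832733542957851437716785527529902001330248146748755044310227441187416715083156845266795521761397840857369140450537085938511925409284699032410873855423106641100724797301705451865124994023196815718828061110738425876896805714362195597721198795570686185823869617278305556649170901673840925817780544566536376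049584852617886919262507681372813746803055256221319400633458182164797085743458554331895306285969847834503077033318291030565093639476905641926849482229306200333052645870005503472413083692821104457435112412120261506671898331236593334423236377882079903097567457675679296494159595259024131969469606929916174801715281219586631023999745506561424618665353124559786391388741076123270724666417242349508246322251162457149131706206839149944010550452912779004716946779275118496950974277496262789235444043064243934953999059689591527351996931485546408313352948865669096351790765823920481108879216925734161240919017634501693027172405158614562767728412993944375200750222800634983884674195247646979931547037456166162866701613746773182442027944609730205251515952346771562326850487308907465210952007142657334117368246039167133832396235728030033905544816996442072074911740552578632537615164144244557648357519846245394726374516315756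362213146250940173988731495160695078985323323077978265562309028999636178244931801474457964692874848456103911980956284176241048481733916612807714079931619840034606921057046038486193131141607721154166436662628892879708478449507475571524608278239331647989454428296276280233838232957296687731324098449035197814180860508017476328799514088461436208907559032643046214682287962009506442962135177954536627613517852535114685599185333750708249576611537703130059341121169768203472066821007259771017666822807995572604743849882974481985404163099214242027856848862975560332699409238350512230657775388700102485543567255083740819260611297846630481022476859827056856860480733328097380689333680045024371747090355928642932565474128332881982146735061489867396466205489708966016248402967486789327066791975960889676178014622523922320177924290926334262009208869559026768992310875196237752808482276183934359530033567314829925932110838651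260030324315801079740762820001854050226029951297112864478944505497081674962502100329630332343609812321343122437356387263165051788654406818585483085512126531097849761039776233160353350568406600239677782245294314522417014403164071100518158166469623320416187418500860865791871963874136233456319651067556753475042174030161757904154306198294581763982647804079334581299688088896549786927205647950722246160309367236413806031506948709526116519850304121889812765159038955699037930389019374528118275237499479474848966624693595520174348483475102204027990404547652000844222838263110888706106134313591835753091109295501846458241588316597359133921173382128441138625257761612820258159381846597833975953260729244961757055461770424940979607219669879233109987040652313483432059106515706232149061118660411065603317227809735200656817054334225507289171349649354890807228915396644285394085120860158612365304710767780407439594691566065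295915691780184608342813618677823954595147379915788541648100659566904340546842471089382849919542899462446128258070809082777053515427287571306877559903684075371987506227204179267454270303846042696615174104341841733857625960316159890252131381188675907319771717818774117941568999925579578011949468929543013422008340032502240141787301343479715017359810415016828260304899477808343602267677991529861540143702270837078745633707676719774686531972605353866499166480719674756777399341288982115013749169758691462423866119810346004652333531855553002194545321932385452819342731754608686020510666053296943583148037003347173803713056966296432128009441856642710795837193097421709432935123161783757260224557359609783287954318463572796152758818748917987022296501277337171294310578585814447433796905240655574075733865703802875797194885120346561248963665858607143706465235951767409049326243549807784421689822293028425863386205517267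138974861756392578773665257171122860031135797358890136493202778195985775128454666272559972040534819700627738213725006525793270165947850315861785980838813968618961721466467258466166124713013503672559104788691985477499885621049254655916617429695124454172090417213770000262323154197120506423429395528997992253070225219558759266045413796480731668568167497797190109424009203776172425358182286158839567774111482095115159516537340912698146067769962195040533918563107831906071458960211160887088524615802449162087361961316362215334329378379228514042585140619724845590349910613655189961980821987644938594588995519365530228949810871728732294796954564145170215162823097744198811171099835090634598127723152691854425050442083594029507108090059226392533019573882602182306977565280202424888688584992402128691657076602693258006407815827189976323620163702532017692213411761976820615752272990684128778114007167059497009352957712048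898041308803330334711291751865549205408168773040780209215970775533596752103896595040134791534621699148818766970913615500209297564676943725910161604365790243030790276064796604361339082308826659108769575781663020564947937070681430567796228977563803156100942927636203414885857055044825276875508945923230803548845304598784266880676787357329532801290974424982159788938166968993982336739270803803329219955191885504968612089410574950792581323182601721596122726713915683877342241253059394286826835591063956485372393951819042836159909206736477781058150130809098838933503095406038177480352393481172684347152442483875041893631038644852950653329751242228080734886204524864555689345293275437430917578930105777178962755061245259540021000697386558186810149216343522876387630332515760416656061515332043829288166743684154405935757770815537417192282173545086883254868307983961786412816008327297350218166435104018967460568836896970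348607617698431723085954163916650978683276410689547527260694177121416634205851495221106478793409513348399375282024013741123565694464654167270868291958032895141098818335207339301931283891285853886454022511432964036506947857029056162695277784486673642890360528084038903366965230087321393832015234877339317411842486840501240191698838842648549684962676963814944523834682073368644189597760951030407659439012654554596139596811555351135071438857357074980840985314079930681187113234292627600788631036937756983940838940844333886538569950009476238282907072504228023169734599253469920355683629059413977125327021246231018743255650286418249071572479601444802397887169752717032302914108284524722281934260823641833133168209856380668040011792674443342727577105803501061122710699160479339598730089133893678575088855565155329004653929121106271444756165835286555043207469805374617044530854305026242510998562314835362118915831315717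969106775600112854107578431813946785598097255248928758388767012033523454427927869705693968565822128748655664689511628217678969100664495036633915606623024388585822215625736758236103323044459716222631459148351409676731898953044370167078910703394482591333326225124202978425818456240157909420205923916596084358099819585836366096987506768919094497363688418367721309418241654761320086371410190132765769032005929748816211438088759675692904682883939803942655437702522142438353830121522074786341574064491447823262680395450586209546240527218585561485820920877072826275186855605653103895925231969959653933052489888211737442539471460046110739118960187343445934400163847254681489706912834868397947619005272205361858700250673008802565512781193382446240641140948886860903734704452371747741426091375238748430489485500511408814094644610641990664402106359095788232145018285963491499062899646285502378388130531616689973174640532386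727179369677078979854108150964641927350291572122503800396024157541951916400865880396738064543576075709084819118680763583402834616670507663358933408967104416776394275030084262384222134629907417321442196988872974310890982417826081166029136481181324920387059235837745631301732792504620887931140284560628856184518434769177084213202928507661369394467968280253307775053052301304793092680458010900370667935590833189997179156289832424176619331554813525943096126388926268756812869673205407925529968266422852789336907121829294596164686226946611643771454813680390323289319222652430892763130896762324862365575186249658741792890970461619562711671744205774607578024098150676187096016415303461661384258251835532240646942311235783609687201656072687407980311301014400703135746948143630765343616004771976791231772194137494540955253616333877435329690500664642445505323755709091942081874390253479472707399931306316054722511483316552505602109101164931020010448267972369283785488956376743936)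

noncomputable def rc13 : Nat := (nat_lit 64903270373482769428001683651691720932525977392310099983660243788391432755263000186792471850397885733472156625432895576083236463014468650783787790521910083404189284399452929498070405462094288858260503839785743329975715709292424672458903402412762351918494186640667815806654139109696834381128836286661653293511980727458941903821943556003056164671688717073111755642362009555244897853610600356991560124131448124325077536216422092756800757661531761946949409112478440030253312089584385958957351345495343238713819482420227140321700532950159159551848051400997820699022352901208084703063390581967367261146749430600485075173877399057912661731688524192112306893995115955823393405681487617496236111724588927626933867620424328649185364771435688625240731376198083355145013341365389185678561766440524192953909611468608995093315715330267836739286308787892146426889127693708994275326049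661103050332735166982815057923595747856675668148414712231529433172864296009681890277697362634080380553479138839021601467878785861660653321652537348640468262389265171105881195305305088908895816191362999765720066875233018437121146790277692227601563961650878645059619583270488215807913810021915856472453812225539249412507553896384211119400952277470827699333893859291065063536005836022635875874135856601802862007288314601638060968866096197785936625510564554167598826939542790227316096748178792905910070541441135357082244471948135591608317492633581503255159005126654086519637704908406540528760545086292562839318292668713818597028980775692955652973503044299796015434567662915488692181707613384392332401031582749301236894169982552338479443790447387316027064288845256023835466144536356379879109048358323051462542705465737300726398302729493359398792378179918768365456252757676581093375177270618624957733286074428856712926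621790177650447404970875394118773394157365091810504115152300715514805109561793871199075505264137878822970608682253371184836637773858684308455950247988230051030318725887954539044991953635853822269427597326654639851490948993806098601861620266962794534018111447741324876023367623032087522303464538161258278647813332933712594520009862718527084326745957002857530399147280005717934311101564850164774842481755688060905657984420527417315198030207797097207432775828904204375203488902433874670597765764021486938092835899245527758047020180939468698960515336819290281891545463886894142689614709953127049559276964789364980019784859184363843549783969517190936211820994583339798347989512167915492557178105890576266836576394459100110749312612300320674265721740140216372836229115230448401118053904846075089708627526523638310327147815227839653032384387214383660084450749446471695904856823864959308408283099026697185812817445235759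627108089766637465675702204008817622580286679956803966258377243110407682478214642630916440281798076516212952641872650737360858488468876751482068693895003543325230415532583404482991058216614956400661120054525609319308993484731434618809902435922484223788249876302666094811022600490336103222319508798891990265417420387095325817944557581039446554959920473885152853608371223423207143926825932803795928800158448401544282182399074780732675346580865550481438342944740989495009189123432175579336145433362665876255998634607728043621146228660298399885244598277831813159667666899966489162391690798696778544142165930100296734892993122617768079344101998601396419147807241963884309830480618172642065500883602943258883432628741794276675619791117054090276662506520175466763050867169954606996852232605604940827351113420222469001422804985882303882311804818091804054702464583092607816359273116823168113352982564912559775864097872472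330399795490590468042670665276382574844929732591218947405296506636285405709529413989035221882893645835722547554295646350383969218409477846042222896461752906932600183271072492491099136745006272606994579235951081730344460592046751708420028686313644073060388868479406542358803235344469565250089167551661074237005157250461837905769656431616424994718714476086640753767500841165490667251918294597354541600585526476826678642254577527988006543746482532706242788099305997017643420376843818389189812404431324220970827386550121625503813122695680719324998077381254769553072812291545636302201414167521967434565227153814802723060582102712363024640344719032553926489086864107566401900425939307656653970638354301832359156851299885634476118119920392033364557541650118881992181624576060755732037526285042902874116931092979238338095071978432797657887756139021702516546375481232795990259279511736421794444846541027120049017668546293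773767858541884885920932874470734708553154096766975348846353389843752861633887206016451303207316487379108320906933582500603478830935811613157846381620031908296205993463588252456433271430294785443153340869237193008719970859204533555915568265388537997605473827259570253352550519539873417985952640291444250985857418346776422063068634607709034097951052285582592581188661635852174918593107860912636291406657617565671557886652074456302824444868837405203287667935494237039641539169011343666182150891286689961553642208287478762956783338987675934250599527644164673220555438452916364534621092461551458938040657173932535195832714779283559820441928194357239026321511197795184001265904112002192080352417881261933163322144668824046980983817981595600005571248069367949793638743919344884834099674880191736233587618521639182112146444253135035025717748875903485258566144602996502274268586271624655786139946302725499493575148435277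158623968655641421243267474911768766051097235270463025630783183360561161649495504872748849915086356833204237259380627397674026040231445780564133466554671119527412957117694381347416580665478785412940200575952152902231295814561739528738578050309100893679603542361371361506392212344527900755902085917882575488117584424136992187139256036652946024806751090223874766878434364974440184933269079244792376377566276842286486118620412225744562944097510993376420299841922929563962442504776161308569499133347643776514281941921830298347772786458615903307970224578906781446437017629875364986790601678438517081276392420873622189569823761629479205405673525508993487055508094028951959985779864357453748663173304241015670694685949799491143881652809484690630088717943773395697955518627767289437324142418821687125325647170232048373111515940839421166430659644760037784957499859284497238309743270780704580204548732665663399799249830426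730934122809480036801089085891644751732606957626178031200336149404796002869788402938475699483199045930944247154426866249187736388094209539788851781885577054683921247505981444403086804521361863815280955377009194734417745746440092126773291356138538184559799378067663872813367342349544746945489560357252171738271057666977592662070411805107251766395757553926247196337923877837330418249773640258607473663533397241823442169696668775474627286582999040619983113271007807590674192916075212251867189513609463611073011271401704959627177952863519775300430163216560742820068692376919478507799458665612609929315104010360727360862163216723525740846367366289435236087243534267135659323559536495126298173349153736735879110762292052935430970011901822304718755135868462892519626241407973494184539264155385653597692131840296218769996265937363131975244632677382250477162988037726851402036552299071222835994459738479496417933564200707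910098106785174842893956209871891996057922597661930598921360779120056338851711527892148377875951294562172981439355948650254256999140465989943877494686497579878985053544871698132767933456871266559775315165453460371194447405480069352946767521684317196148350736111256165730916471879460394284462867919785333419362931114597307385424181571646421147720730703226838228516667651541370557498818292713103139321097887999203719627319832474030095826306397441762441099628208812626910680519491990316003762987222307074822055387930920026907694068125961463535154722012346565905460524304816971425492841667666118262873418911964501909443920434647088390632890758637643928478312024286633368377465446925421912339550611233118402369565455698862947389580571257003176760252207300222457915780285263651703705975739926418694429471095223237011037467541263365736407717485313910624252968546085380912484660061418279667153479183339802362318387459356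088063173693258568252431599717720598724922541661352336542676987128985166663572592911436537353138380753569114495882052644595510939841360304618334269646139193024241584575382077422205990324408780235216017709688138906187676694454063081330518931816803064534243618540013143013454064078350822446468648584660246545283208749690349477135884552645151867220000938961065964894413656046395033951492127595919713941599327930838424445147264350881077485391701535217460025910423845992836179458758429755852177026596710287788078856816451222323473899561883726499897670780928060025460554950367354557122039597111199260139480091416896199758682038983760050901892926496708839655878346777325300877120404824904801273239788824005730954918057647867256333220440008130617660560737629891858916408740145573631419224335096973049080394013844285263811538815136909609296730506089662862882527221690962833118220473627984115647239039423801092472094998115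124862768813521698502817241269826861047399744876517007955456919874533609058099013600803530711276066605647097700427114322978960120098721992442597466642257394298132950930684411510014354215927788163214046143184349881491746872456064059103409083008383733247771471094588620474929423542790477205887882777583334322131162091520953590962182242056473036008536626177023918907948820458068980519245795039721394767620922560836863130205318594873855193135310870228488377849190261741491050974713812963192129469173179698785294932417555189869952369493161346293447819842609910321941853814772388362663058831071317805444816889734984540008415161670545160422442230091564653770787500758206518561269917917124946295160965040155823630800118289888916331150207038834205527819348201073697610918349468445279874784358189469304230425105465835792200272685017603770223326098435067251963400079659619716771021102273582883295052031615386013277433669449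571802315757001087917436901646096408701030272403606767565854083237373854738320020008128806174706818449034176543817188610571549990164273604014113046017492883425990038180810575363364200241199820057297724853592433395210520854440969284794341015967664991114399783485962550851408899972683672848263810354236455824998206704038204881518216674561627864649630446760442347113581330794275431230820178802302156694961166105963073006532120077220182846115358431567471994622296719343966696163016628462238003020552061470636101253809998926379262904135244651517579241804387268172991155524186236316897592000054707863661669004917801032834279048329551430009681948018729522501059883936904913781705933432152576133538493438857317193297998522397215400046435425081321971553289628086478589900203747023429650616768468722089493359529595627643848755871147537680041242430190476474253355367113758833924213583990555847509073874614838700989741754409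035517142508380371399516512950171306569770934305746485995249041352700969494455388460547875743047048760228540170714925274954970485412870160879095589624165675624575747633204398816164185465490864301302152332885633353648377212325315123899581942386723629540250387995091616522150641791309630086969449974983352422134358132191824430441605297751564326755967589095851027937579003432313873105714435410025194193914374928377648961856674626030585357955063521718483433635708717245745976016363105439884195434508771556221147086305043576180908175592576093341092447122049652939952879571922659706695631434781303832654507158597709625316329552022359045208246473538423084216380463157751119544862646292456201879703916626684764433275959539703888269337579627811398635986575505832832049341649367924888006695642900437783753421156377149685735106186738644192000402557629560309764463988944629222713654598027833488757801690413483460479126286325347538393699716591342733212469882557417664406723053486080)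

noncomputable def rc14 : Nat := (nat_lit 65601026075123868047308848097660804186995271184838888640498205304946592584656996573244051600494256844749340898552871379119928832263071986871440760289038785519716734658280265164363905968627328670300714744662432885224449157244470442967614688555308464152224156862279142823001390710993701474692196510915524963474783631684449228811120864715331914283092922312478659987658027461737730062282084871868970627684492162469450394657400306179621825650267992020762126222646452021093546149003349269037687051147772873115200217512163281965746886764710088764764656199786473971214933331828199894839237354381115980205171115193243739437717091368752000960576269320929447414325328666488839874109598590408999874389399251746715083375600534616559816761042834154385366011756490829286033263849300486706555250850964836627120757366533072240984858383962336352103235436825921453129530694765343397035024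179854557375466088571291031588202587328385741349632259331051417590531845909867839917450449622631904500356519342940197947132108886033484807690664205899947481145164711895089411830993484976970821768863062328811929019865541097281780193646443464014361555821894138382324300314957253266151700209176519866379159530851640181297010795957019050590299398162298916349814948742282116636386882144345173729294537533411183673952260718437031015553283884077905659100160114239909003342999990870021995085985670109228884366656704581428979350983851951887064219111305219426900938803064151810493927430776021767990688729185497391594100725112904303173305078412140946097404439972400909706001165057199629216062428796321828643008909512095463442029185133606341642019077023962351768207864857029286924020515019847168055317277714164977969099523006385895631592280953947063019474824237138193297344212089300500280369859780472786420560096816036237533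524307000717221179476659475477190372728563658850658140656168536046726883100945292098580232442002526010578804595904051097085969998869985999156935100915121181595640793461036456223580389943365439037689953713456225243260202168313814591178326116205347210608517711704540515884817970214236441846457564666859304922717290956381405211390569441281477544636824855169046316984797301129730428873960080057766757155156831727813061086210174605903906956503247795290010883092957971229523331058326566893218570783928697464779327038550083561840035775249758266938817154170268059595225250975110989222179001522744195711002186363529911737430045118707176056462691473832604858757340896079530595409408043308624001272965525844747325614326471066434485141818289585583376666555601087457015570763143130803788161662688843410117749236454004683958888088355838689837958420856631865225002006359934774534771314213520054224029740314760172030401397809157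462403867772827279099460427037100835964859153027911092616388067098616895928878988585600423464360824936856527492838368320826646583430254021910684630480801336956861615907642637375832092004999386119433468938724319528143162986529268449042157830914873603961254626826965746670712405214270769339174996040447312995364765889572366362569807762051577350448358104576004260825083494838437967017654696357854492351643560008879273194922454887800900354421383969763451530797864567194379508866946916232566276993565034020268296707690412958182884928418582478532108963276782602831229655207638172640068171700869636764332398307914378414956882310483771774194802077030367260689115322787481186380457586469305788671399319286949521006698908725570047388935107266156509547263113644228489449882379279922594561583423607084446884133764447498234641708780835204427789300194128219051566198941896577620695536932106932983961152387461831834296972367869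818741964986316039757047171743132574954626399002155610862083691204344218759485575538245557629408663163534712028176467136664429888006599963793126753459644090027488158496974016074467806143348009094364463705804630342441522075762989184705823182950007126018337371820616374962113325577320384622844794756759618904644438267761343874379559487116230235539820785788919603960281781580031667734547054681633553612480524735700432040455308435075802718657255277888414697569070463223791291146671756440379520302321544993046275101365871681442405067351273053421318943237336275264927635947353143697942665429169587539295553258256062178913214308469261527321478129554099799554623398750442790718335779787298671593703551029060973394686736759490445779880577354091737048466948546672767124879520779145514663474379396671629621765753015690655231303415795560498136532989825148785036686223108435340898185255250291133315619684700664427785056151414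284898460678531890415255887836210329890003565763040558401286314447096159708490943124731268023780767722594637537446509289356353809913483537195079450856949659953260804608169477401334688436025653827044458107242366668374796824931119427773282003652830808852590199243092374073771766132752340897146074943825926865697535807740585803534518151214941002046033542983564420260020319989834897600444590376455013289829891585418799846814328402769900710315380057951985487440792855646136000882055449571791972079227258033735297213484487092267569516610630876633950267702058025600301271017791871444245506274944113958712690704144369703706625240237956845766387202998989854835281750768337289503657445305330642862031318645711556809344894985985730646567317435084748112411111702981394173281517044217000029232710872412849737322314354682430563707841574677787138652215560433031507749848532218810980827846060485442837331357661863544011224356873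034921330565296504351279112731585300225025956213130901611688992224158814254982901243279307967113505752874708676850177650532564467849165436281657984604940584476491242716823718874365162755874921574811167233674607120145447595889185442258683442805503178893777794690323460787024015324781795017441911006389815239206073058210470018981967099657534416515412662625939677979963298714653191573658336487017775302890138944370829156946324262851443961772781757780221671413893431537528226814549052716288556627344413778143630190547455614033498924631809484668211408611519916059665033726373488783531713230371206127438931019215771112999314339850184772896444050208460463395925059249722788384296238557209998160918297143104205774775224333412286410068342925971747779555902546836068109575024839439577470068496281000912235348874049317111318246279247180094758755684447882275792390665856132461557049424192158368385226976158244310388767460131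262609503191264272013565922931536671939529847850980681073214150786556633181029075268105750334356951361116283165491719660549314056141576770160457524814164384840078368239853189617662766489295827297011079467649546215433143072929775620786580336642700824030253075631865246858591098707977565469671953488819767913732687011696587288621401522163549060490518115682256475808343867855705965389731480300013538647239013443491836572373779277857110191764564540137205868502897893888633679033184743543951054890865794381648743447642272613602803507724725033728873549525802890417093940979109647280524018997782407538413459763386934930250548115608452976526544006425758392593053272113730803578905998996077178746962817855036384951080882822909315271450119643179449653971792914090785825250304817985447946237491353261753993540350929998034451402281503968242204019586620943158670020325312244943652309044920152667433464063128234298719069626522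128160475408856778626820664520280086246953944359534375016997411402012602922553509396113010226676270954200970562601050048183437490575420924802227566248668143635286572438354856544413606735925733347357740179813323020642690487569913160609848476748004399305368014047233979326721514455182478314279968754676494163274543086881053519826162038791819115133025170520070145322183876107701227519530211285716497414549753618268234339204216639937095265347414398041103133168456159477205743478198972843652972885346986540580350140762275956124711410622884478232636886594195706305456141696085348402421295603825620504785238719814385993904098869377683228133780611333994904974285177601319742575437424455182659071914295447510393162722432080770926267017299401889921255517598849250358143183690372644874911208057516053634822967719872910397373113370486835601829488902401616245412569290166661148238839560640008298560327810463822122361083440977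728416234265514567482262912097688518449629298115607674071538982855345708336409436004908061095258518817852777332181568829829449450051135205592073629072726627941301227773217152834594260188450970077704898800155201294199346378882625761352722032651944350004635127840774436942931041382166133422672197115769612189915464155986075257499001707268253514573900536087360659984526609819902652185808071599947709080322638894503444049762806437100430357939261417263409250328802090669678220049264284617332863649649507955884278164015957657829194436833296835657413069667441873769514424110349969437577876141799985059834412872829893456921788304864880323268154093443082798276701080649135047032867836787093400972996780944294440269506311870473702865251174353776912505144176385462984592431948223398628627932341817146092853822936705851400327077037540771827731635854654284765903061673019445446033959883447674333677908915253364037085689995249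040206013104699870531628012977719017055764096183652868443181950961887087111154890643079130337496383415716511680708277268314157662024029626479173640169039293150404893603858815229125094660524309376792623831986393824295357632278433015779026469946001050759131438575724377289721200546231953013616781413073391523686741137559535081775304850741356169435908892525496637736257998086208264800664834575093064032090035527116930688917532221539954014386997623837168342935261272847071906224237872688021364457418213273331368009906749689280052479398473909718146759181532807834532666041016280213824787660231822686715237893682140270619547586452185820034531019406524543011042332875373584833010294158983146596900705858314779632368449265320739121880540228070619619423041401218960087801047606998674959514673775215671499063708853651700207838139103419591007762805534418306899653805486726917348735867454518320469162307774000701586247490210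949730797900083403891739817549473920323804244796129015756267145450061902261509272977932023661800588768629982452947239717868947384403528445694787923764565592704270339618481679363079997421566828279104140800336726706745403120536530489916817425873063233342915891809850166068138174687073181776351139350080204048310669853802162924808236591584383681671260307818248966742140455612372227656409250352101989896085522156093652588121604495984364540304253748613786313273010315083115118383756715601558788816327440462138058787356952520056126891539489550666799285380925616140184732768050514123066163501657717487263515960240170796760741291084162105874483966072247636159791981950078984639491107423393563106874219786128487984700517440477331386950398442812455713267957972837163501790679221321026851960246106007434838553850916212746467771975008187711963801199167121195800921680477542946549193180784066219613276600885987520835781012296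349586674877789529627141363401603966659416840913534201555148099971737309779518769972467063525226831286804240668829504353529217659100862429117279345135681179822690070206183959520324253602998828421815701656909876757314055633215946639667051362067701609249490408826416135372293522590471389684051577782042021426035551652936304448089407907144898447452798688706949370793356492243445138308181674839984349865872868772238078007453422570812507189919809831369041682922295387630258470079575284020469538195293377574865666195710733737145765557696217150043267475715354305879788674843987924628175011033520928200181074026173876958284466936409512757435523017706501958629599771683016981724713960538573666694283439052924124570048941433023962186665680287018728833930151971471003901737856284174097042074139845949853591660052911491524450856899341300493314061143546429920456160674018092953124188792328559556025215395798105460102490165110946153915074725542272436518242040637577715575962984251392)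

noncomputable def rc15 : Nat := (nat_lit 65948473750539325773674608276895009315607289011629668810444351237891787919678037969979561908607211451837862877653949006355415848916327583074320849054162804542264658468727044210094708068074988741738528146521001591344995527380919759727797050240175486615920453610958661622532983344363839720955242423768101370508802742435845206834543631999400604845780552832365799952256931475129376849241540535322347248968037350445778695318742573560933654483844235415141053357198447080784131907132721313131708022087946350796023292752113495047142455158995655766604183654404267445317290113512193482253617963955433135163568621358470817893210514426353155680332195137373476827886340271831785739025480364191127365643356554481269942357554845518343771014143961705412222409030899251727066781667702894819490568338820712549080360218094396075149359774700181276787397311509847500582717817529223295318419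949640607714137637343587230842291939829770333223592169179629258192762263815761311136689707546062814526798710752708428629898339189217808083825777276355836101694217753800849814320225670631290893132648988285818216485317347382384016615106006591375828824159043780056045589531337914326573690677255369126365120455840920925161935259206173047418945535130769692488523420339858042661684015543701449925645091959655557516083952802192817228146085363981576408104425032299627241477516294894166275200594049859226010037431285968847257228067547464208427609300611432752736577378564540552326063997705131799292319767586412542131610803864980528847925648275045927009364856335581114819729296551291594889797415611080035456356629817712760601448348443542379811238846084699287868708360654743710384924541063095029945640040319283379185483209506390412642410391323167674152193111625077816783453303255758848019193581236354628515074992032653803444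674842351917675352855398619349650199686740200963488853722829552650478720772986759912043404105256526706152517781926085403056227341724264391548918394850163929676703006647910511810660974596579083544081955019830468757089299280650894130165635761054276093845006512160276709608760691228905055093651858132521578553018527232833933000831390523770247405032522708246996292717469885339926905087156267023060834623519526029965006997031361602956149119338440420883026654716431069951444237500444519241189346101229473149481445199084368972787608755923560662460006519449713748770740177708669435116095629316842485694486514542060371881361352346451470345807871735640513043762956803465141138487410414677901252028362514372644305546911504422584457785474795172963559489240472064273731653587031152839110372378012030632551261765962009907591556485103208379952105779510771720091231344882545763635015726964697167412040071247927685781807889721006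976139875015223940764216938607317445237005308655061314372438381431957819002989462917424448216926742369825370179584760915629952412570415952957724636005621737976039775975546283461208382967798209495215995151234169456707066701392580797680120357699406567284250716048520996622578114078281969503552862255228171865828496621139068841311023031591486874378097310932055211109370061207178144737041107998023298532121555306850891459746025003693897588291681293570404155004483224518704941716128857307427726215145048755689665087384876595161114077758330266674522678779733176619528097042040167320635542944888880528559606924968446961699385255784586767784853532134314959356326990861731665724246359364996262080085981482291914895858592143973113089199143463412628349165713391342748474659163411692493169339351253034924728167048058863695728733555606285826238617717681297457556517757514192010046479136162758656482174006064183061821381505781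269518857229474669141280520131762633209831363217202810692740161216776275444664319442407178545405878902098623899607057759361560221868269247468547682725613635283475624110558522215343305412920644143860565909170029810106180027216479341125078850545593411828091910053523795034157512912104729981194603348301282937960434818620177786758983508575414360098385538229260537438463767247666565832236825068904516241657244763272436367754858418843232220132783859583529941605556277345959703996663393286242623450084804668569779527827253050725304112431849657119385261277091976487016460989264136241221099691146998984596132119186560470814513444453048821586755620759354754322192596528021761982995473154927511807764455856574992987093930610740961812403457472958178083378014327332608957919838296928085008263799831386643825836801461269625936896139019747502680868810888384181552852857112776188841091538423052916936095118372255160170576235948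603151188608400587974262129186008604141794052334891505403451979836075427216840686942659279165976235610253596272771725848608611813504936841844751360145781493230371301254712344007819711312599684119374906825553977099879407493313242941659707350774565652580481265846558610006592442117920242645539184565362573345392917509078374663029410402523367785995628180580781834635961679361440509737894056423054163446760863450524502108544322182781755513209135652002608172401235552982486288031879754577480747332009921425236376437302062763595435850935591997415479705967207331397757675462334783826275041577690386723430871884535984027951481707136198977237791702026909889745089128198989082744035773620616338531661674562667184403683928151430789031574354927597029356487809790370526125005306770203804096071570816525279401318985062704966599500757860049819523222113123303764604952358126864988884592028963730923726056644906494357184874741637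329293972967810729693006427439451400956216760008529668355521968319135842293073027542559109661793108205279771927232963497768024776936967724208483036016421699459135325307048982760338395252891566756199238039921709190432242400804817865854641842106347283448457390508927236544036969894231362413324940322026772132524738000669058259830795149637093795651627798729016458418375753841467127141753232126608861411020380516083467017759891942329701335365674693275287121152277543844122396385662841892483453209963856464014745936681797695881056899539173571970145326825740707255094311037657215375160363206591805287429930252636458352819578250802407819276893526239518119998607737065968601095288500564344724668728584950976543517881723657295429586456599089908850202654787638023394131704716874855977303397654919867232643140247024541538861796772719067388886038728510206274173557751436729622438888816617111395069033137563470346183683783490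439539028729331700787257125617284978208935929878776805033203077472791257702756763552535697823131448074927460889620155715728811873927537160615395106254443209060993177466466187763682980918959103228696544145672198866954966241703801011434631070073652745273850770844095083047898644410854234787822142133779179956921971203064778073440057658019450912240341728377864274647330361209512932815807403013534105993639705636658269366914359103672985940220540257728954308909623204943934896000290237172980115543269714780001479459477186659128731182024041082193081280371937186730496466721311065195166595166863361574081723588676426614739702147187248537527621492035101721197736184629765969449976635388332605576403282013800996060811979399539468054791819847874266531400300050457911064667864013782863915705012217218201593368581294476658135051730738582468892480795235551959698243909556938795955215900147033676987274399051298463093502383071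858651728576211396727288994505143861656427649057214798840335171579266432427304555262657257009521838289084407237800102546322250702591659915347199388014906682207749395221970838293493337274528981992761127985381519795158510758286357253584178592711942743530625953029400561511996081967935537361516941953145768012332157257908892369931402564115114186538498598102595650113513529197330971879729488374537156514860378534977063883249329956355327305588037754397554307928960829482555794309115651891341699256990617418011330992764859536334091412949772276917467340919280756812240168615435873521873598630373447197086027856516008735136802849530033391045710264666889240727345974126329150426492580607551142671839642970456687847436222030459519073109797653973215304569538192573344385649277126387812133127101510390996071116821255284085489031796921914872405460964850563206849129372872623196130646610493135921707450832418704041175571198637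907912078597120165767979732096841024937406433439775389882397543896330570011075878424000189363537820989705033013333553223091339941420648238493098762053990287219797836112615030981463463547183634980198721316742505686619455025821003309035712861972566638367570732268002031354443626543464238454388292947467155488835743989285099877382798344738883116571810116370379771925732538785481230709644285263532547522645161463953349374872249679276060366117262356104296919158657518956150416211832016911684056137655323947599604927555136813900392619373316239656610355216912943349926645446169536894631427994568819571451207503195356627713119228660337851697074852051188812677460333030553050650212393318198966862905450087486446786529242660555332930626104378595094749814969049333727706833350177955393868205397211991864975529573790849095140740267425378525947054930543287047872274406785820826268385279855861570177015001120598317735086350100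153419384323518990745615482589782007388924562236810971597011765431718134884633332373049580631282988396260605646952489538780765652615970469987801499747763741257760525932023170988968906804619598414259113633822275718110135535430654918599606787852483613817290932961674123502362918654133773154149728743075307481435835370319447997447969182987343573930832482443440961422982235643445099020234750596972105412768961783912095864439845144597684130343156273382420720692281880163780724033409520585064547541234521956809543663485939226641522491284567503637940588675088488582584786837096431050208143044219798351225024935471468970238766020702293610294418479922719009000991378539379273249891684195596942759182841343019537709289713281125525090027426361699769427771353669303206842309171606384345760403897142275479984665739262483287061521488558076959079374211693861577476884842513084705544201277354136032437950290987383559378500726379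521198831910729465508349786709659783491641614791780350276485119159681303427465125859578334123338801531517361921681375614473056614785464809479258101397960878474480274169368527795581126968900153169262432019645317299142178785472293430119108457149069217085752913659196842933206154726495990774523903898656309348160797958885948268415384865546432245308582493330644909068466180621987331891137227073510425836840847184705319757278632209790226056729056717949162602029522832072780776397116102472815339994781696995952441192554419279486660577279399619061083674363927107633352278882240545031138564088448943946273313903384494954475212880157697612825731338051115832049296515047094371363213077492974601289216818569089082765161270432988288573219543623158076273335104423698405114938818239774347994990280208772969321959279301492138770480984538083112127388841376163505454583771041644130311103393694316506442161460041391020697903164449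153531682014841079650797157796416727485258441841397033511006605499983405664495664162686537289969335197782287456466285032231070678676891788113156781282096189712982035850820026046920277499143380048120978200068471600707280343306128139608794789201724764710116994352111453208399278806001484399206017771319691556240958385212669191516361608117038458471034697754587484143925572893408184922101729879405286108143089931507461858157603351834592104366979804401291136536191343286966497605967266942685033783315147816136155855561098891154326121709920151360259729247542503544277939567078396963613506193954726710106882029282719178596786471099785230553148138905604247517215665197340915096825171729108360352748736192059948842540553112160710688970325143593988078114733101474145015418894086376551798392224574583876549820567242169004663595002097727141962989230920073251069437651038529143959156160400687156133819002496988126795796481396452089313355837863588356344083495143096776052908601901056)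

end Vale.Agent.Lib.P154.PChain.BA.S6
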